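import Vale.Agent.Lib.P154.PChain.BI.R3_0

set_option linter.all false

namespace Vale.Agent.Lib.P154.PChain.BI.S4

open Vale.Agent.Lib.P154.Chain

noncomputable def pc0 : PT := (PT.nd (nat_lit 5216718) (PT.nd (nat_lit 4982406) (PT.nd (nat_lit 4841928) (PT.nd (nat_lit 4795050) (PT.nd (nat_lit 4748250) (PT.nd (nat_lit 4701450) PT.nil (PT.lf (nat_lit 76) (nat_lit 3) (nat_lit 1) (nat_lit 1) (nat_lit 175) (nat_lit 100) (nat_lit 175))) (PT.nd (nat_lit 78) (PT.lf (nat_lit 152) (nat_lit 6) (nat_lit 2) (nat_lit 3) (nat_lit 174) (nat_lit 101) (nat_lit 175)) (PT.lf (nat_lit 152) (nat_lit 6) (nat_lit 2) (nat_lit 1) (nat_lit 175) (nat_lit 101) (nat_lit 174)))) (PT.nd (nat_lit 78) (PT.lf (nat_lit 228) (nat_lit 6) (nat_lit 3) (nat_lit 3) (nat_lit 173) (nat_lit 102) (nat_lit 175)) (PT.nd (nat_lit 78) (PT.lf (nat_lit 304) (nat_lit 3) (nat_lit 4) (nat_lit 1) (nat_lit 174) (nat_lit 102) (nat_lit 174)) (PT.lf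 (nat_lit 228) (nat_lit 6) (nat_lit 3) (nat_lit 1) (nat_lit 175) (nat_lit 102) (nat_lit 173))))) (PT.nd (nat_lit 46878) (PT.nd (nat_lit 78) (PT.lf (nat_lit 380) (nat_lit 6) (nat_lit 5) (nat_lit 3) (nat_lit 173) (nat_lit 103) (nat_lit 174)) (PT.nd (nat_lit 46722) (PT.lf (nat_lit 380) (nat_lit 6) (nat_lit 5) (nat_lit 1) (nat_lit 174) (nat_lit 103) (nat_lit 173)) (PT.lf (nat_lit 456) (nat_lit 6) (nat_lit 6) (nat_lit 3) (nat_lit 172) (nat_lit 104) (nat_lit 174)))) (PT.nd (nat_lit 46800) (PT.nd (nat_lit 78) (PT.lf (nat_lit 532) (nat_lit 3) (nat_lit 7) (nat_lit 1) (nat_lit 173) (nat_lit 104) (nat_lit 173)) (PT.lf (nat_lit 456) (nat_lit 6) (nat_lit 6) (nat_lit 1) (nat_lit 174) (nat_lit 104) (nat_lit 172))) (PT.nd (nat_lit 78) (PT.lf (nat_lit 608) (nat_lit 6) (nat_lit 8) (nat_lit 3) (nat_lit 172) (nat_lit 105) (nat_lit 173)) (PT.lf (nat_lit 608) (nat_lit 6) (nat_lit 8) (nat_lit 1) (nat_lit 173)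 (nat_lit 105) (nat_lit 172)))))) (PT.nd (nat_lit 93834) (PT.nd (nat_lit 46878) (PT.nd (nat_lit 78) (PT.lf (nat_lit 684) (nat_lit 6) (nat_lit 9) (nat_lit 3) (nat_lit 171) (nat_lit 106) (nat_lit 173)) (PT.nd (nat_lit 78) (PT.lf (nat_lit 760) (nat_lit 3) (nat_lit 10) (nat_lit 1) (nat_lit 172) (nat_lit 106) (nat_lit 172)) (PT.lf (nat_lit 684) (nat_lit 6) (nat_lit 9) (nat_lit 1) (nat_lit 173) (nat_lit 106) (nat_lit 171)))) (PT.nd (nat_lit 46800) (PT.nd (nat_lit 78) (PT.lf (nat_lit 836) (nat_lit 6) (nat_lit 11) (nat_lit 3) (nat_lit 171) (nat_lit 107) (nat_lit 172)) (PT.lf (nat_lit 836) (nat_lit 6) (nat_lit 11) (nat_lit 1) (nat_lit 172) (nat_lit 107) (nat_lit 171))) (PT.nd (nat_lit 78) (PT.lf (nat_lit 912) (nat_lit 6) (nat_lit 12) (nat_lit 3) (nat_lit 170) (nat_lit 108) (nat_lit 172)) (PT.lf (nat_lit 988) (nat_lit 3) (nat_lit 13) (nat_lit 1) (nat_lit 171) (nat_lit 108) (nat_lit 171))))) (PT.nd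 (nat_lit 93522) (PT.nd (nat_lit 46722) (PT.lf (nat_lit 912) (nat_lit 6) (nat_lit 12) (nat_lit 1) (nat_lit 172) (nat_lit 108) (nat_lit 170)) (PT.nd (nat_lit 78) (PT.lf (nat_lit 1064) (nat_lit 6) (nat_lit 14) (nat_lit 3) (nat_lit 170) (nat_lit 109) (nat_lit 171)) (PT.lf (nat_lit 1064) (nat_lit 6) (nat_lit 14) (nat_lit 1) (nat_lit 171) (nat_lit 109) (nat_lit 170)))) (PT.nd (nat_lit 156) (PT.nd (nat_lit 78) (PT.lf (nat_lit 1140) (nat_lit 6) (nat_lit 15) (nat_lit 3) (nat_lit 169) (nat_lit 110) (nat_lit 171)) (PT.lf (nat_lit 1216) (nat_lit 3) (nat_lit 16) (nat_lit 1) (nat_lit 170) (nat_lit 110) (nat_lit 170))) (PT.nd (nat_lit 46722) (PT.lf (nat_lit 1140) (nat_lit 6) (nat_lit 15) (nat_lit 1) (nat_lit 171) (nat_lit 110) (nat_lit 169)) (PT.lf (nat_lit 1292) (nat_lit 6) (nat_lit 17) (nat_lit 3) (nat_lit 169) (nat_lit 111) (nat_lit 170))))))) (PT.nd (nat_lit 234234) (PT.nd (nat_lit 140400) (PT.nd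 (nat_lit 46878) (PT.nd (nat_lit 46722) (PT.lf (nat_lit 1292) (nat_lit 6) (nat_lit 17) (nat_lit 1) (nat_lit 170) (nat_lit 111) (nat_lit 169)) (PT.nd (nat_lit 78) (PT.lf (nat_lit 1368) (nat_lit 6) (nat_lit 18) (nat_lit 3) (nat_lit 168) (nat_lit 112) (nat_lit 170)) (PT.lf (nat_lit 1444) (nat_lit 3) (nat_lit 19) (nat_lit 1) (nat_lit 169) (nat_lit 112) (nat_lit 169)))) (PT.nd (nat_lit 46722) (PT.lf (nat_lit 1368) (nat_lit 6) (nat_lit 18) (nat_lit 1) (nat_lit 170) (nat_lit 112) (nat_lit 168)) (PT.nd (nat_lit 78) (PT.lf (nat_lit 1520) (nat_lit 6) (nat_lit 20) (nat_lit 3) (nat_lit 168) (nat_lit 113) (nat_lit 169)) (PT.lf (nat_lit 1520) (nat_lit 6) (nat_lit 20) (nat_lit 1) (nat_lit 169) (nat_lit 113) (nat_lit 168))))) (PT.nd (nat_lit 46878) (PT.nd (nat_lit 78) (PT.lf (nat_lit 1596) (nat_lit 6) (nat_lit 21) (nat_lit 3) (nat_lit 167) (nat_lit 114) (nat_lit 169)) (PT.nd (nat_lit 78) (PT.lf (nat_lit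 1672) (nat_lit 3) (nat_lit 22) (nat_lit 1) (nat_lit 168) (nat_lit 114) (nat_lit 168)) (PT.lf (nat_lit 1596) (nat_lit 6) (nat_lit 21) (nat_lit 1) (nat_lit 169) (nat_lit 114) (nat_lit 167)))) (PT.nd (nat_lit 46800) (PT.nd (nat_lit 78) (PT.lf (nat_lit 1748) (nat_lit 6) (nat_lit 23) (nat_lit 3) (nat_lit 167) (nat_lit 115) (nat_lit 168)) (PT.lf (nat_lit 1748) (nat_lit 6) (nat_lit 23) (nat_lit 1) (nat_lit 168) (nat_lit 115) (nat_lit 167))) (PT.nd (nat_lit 78) (PT.lf (nat_lit 1824) (nat_lit 6) (nat_lit 24) (nat_lit 3) (nat_lit 166) (nat_lit 116) (nat_lit 168)) (PT.lf (nat_lit 1900) (nat_lit 3) (nat_lit 25) (nat_lit 1) (nat_lit 167) (nat_lit 116) (nat_lit 167)))))) (PT.nd (nat_lit 93678) (PT.nd (nat_lit 46800) (PT.nd (nat_lit 46644) (PT.lf (nat_lit 1824) (nat_lit 6) (nat_lit 24) (nat_lit 1) (nat_lit 168) (nat_lit 116) (nat_lit 166)) (PT.nd (nat_lit 78) (PT.lf (nat_lit 1976) (nat_lit 6) (nat_lit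 26) (nat_lit 3) (nat_lit 165) (nat_lit 117) (nat_lit 168)) (PT.lf (nat_lit 2052) (nat_lit 6) (nat_lit 27) (nat_lit 3) (nat_lit 166) (nat_lit 117) (nat_lit 167)))) (PT.nd (nat_lit 46722) (PT.nd (nat_lit 78) (PT.lf (nat_lit 2052) (nat_lit 6) (nat_lit 27) (nat_lit 1) (nat_lit 167) (nat_lit 117) (nat_lit 166)) (PT.lf (nat_lit 1976) (nat_lit 6) (nat_lit 26) (nat_lit 1) (nat_lit 168) (nat_lit 117) (nat_lit 165))) (PT.nd (nat_lit 78) (PT.lf (nat_lit 2128) (nat_lit 6) (nat_lit 28) (nat_lit 3) (nat_lit 165) (nat_lit 118) (nat_lit 167)) (PT.lf (nat_lit 2204) (nat_lit 3) (nat_lit 29) (nat_lit 1) (nat_lit 166) (nat_lit 118) (nat_lit 166))))) (PT.nd (nat_lit 46800) (PT.nd (nat_lit 46644) (PT.lf (nat_lit 2128) (nat_lit 6) (nat_lit 28) (nat_lit 1) (nat_lit 167) (nat_lit 118) (nat_lit 165)) (PT.nd (nat_lit 78) (PT.lf (nat_lit 2280) (nat_lit 6) (nat_lit 30) (nat_lit 3) (nat_lit 164) (nat_lit 119) (nat_lit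 167)) (PT.lf (nat_lit 2356) (nat_lit 6) (nat_lit 31) (nat_lit 3) (nat_lit 165) (nat_lit 119) (nat_lit 166)))) (PT.nd (nat_lit 46722) (PT.nd (nat_lit 78) (PT.lf (nat_lit 2356) (nat_lit 6) (nat_lit 31) (nat_lit 1) (nat_lit 166) (nat_lit 119) (nat_lit 165)) (PT.lf (nat_lit 2280) (nat_lit 6) (nat_lit 30) (nat_lit 1) (nat_lit 167) (nat_lit 119) (nat_lit 164))) (PT.nd (nat_lit 78) (PT.lf (nat_lit 2432) (nat_lit 6) (nat_lit 32) (nat_lit 3) (nat_lit 164) (nat_lit 120) (nat_lit 166)) (PT.lf (nat_lit 2508) (nat_lit 3) (nat_lit 33) (nat_lit 1) (nat_lit 165) (nat_lit 120) (nat_lit 165))))))))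
noncomputable def pc1 : PT := (PT.nd (nat_lit 327678) (PT.nd (nat_lit 187200) (PT.nd (nat_lit 93600) (PT.nd (nat_lit 46800) (PT.nd (nat_lit 46644) (PT.lf (nat_lit 2432) (nat_lit 6) (nat_lit 32) (nat_lit 1) (nat_lit 166) (nat_lit 120) (nat_lit 164)) (PT.nd (nat_lit 78) (PT.lf (nat_lit 2584) (nat_lit 6) (nat_lit 34) (nat_lit 3) (nat_lit 163) (nat_lit 121) (nat_lit 166)) (PT.lf (nat_lit 2660) (nat_lit 6) (nat_lit 35) (nat_lit 3) (nat_lit 164) (nat_lit 121) (nat_lit 165)))) (PT.nd (nat_lit 78) (PT.lf (nat_lit 2660) (nat_lit 6) (nat_lit 35) (nat_lit 1) (nat_lit 165) (nat_lit 121) (nat_lit 164)) (PT.nd (nat_lit 46644) (PT.lf (nat_lit 2584) (nat_lit 6) (nat_lit 34) (nat_lit 1) (nat_lit 166) (nat_lit 121) (nat_lit 163)) (PT.lf (nat_lit 2736) (nat_lit 6) (nat_lit 36) (nat_lit 3) (nat_lit 163) (nat_lit 122) (nat_lit 165))))) (PT.nd (nat_lit 46800) (PT.nd (nat_lit 78) (PT.lf (nat_lit 2812) (nat_lit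 3) (nat_lit 37) (nat_lit 1) (nat_lit 164) (nat_lit 122) (nat_lit 164)) (PT.nd (nat_lit 46644) (PT.lf (nat_lit 2736) (nat_lit 6) (nat_lit 36) (nat_lit 1) (nat_lit 165) (nat_lit 122) (nat_lit 163)) (PT.lf (nat_lit 2888) (nat_lit 6) (nat_lit 38) (nat_lit 3) (nat_lit 162) (nat_lit 123) (nat_lit 165)))) (PT.nd (nat_lit 156) (PT.nd (nat_lit 78) (PT.lf (nat_lit 2964) (nat_lit 6) (nat_lit 39) (nat_lit 3) (nat_lit 163) (nat_lit 123) (nat_lit 164)) (PT.lf (nat_lit 2964) (nat_lit 6) (nat_lit 39) (nat_lit 1) (nat_lit 164) (nat_lit 123) (nat_lit 163))) (PT.nd (nat_lit 46566) (PT.lf (nat_lit 2888) (nat_lit 6) (nat_lit 38) (nat_lit 1) (nat_lit 165) (nat_lit 123) (nat_lit 162)) (PT.lf (nat_lit 3040) (nat_lit 6) (nat_lit 40) (nat_lit 3) (nat_lit 161) (nat_lit 124) (nat_lit 165)))))) (PT.nd (nat_lit 47034) (PT.nd (nat_lit 234) (PT.nd (nat_lit 78) (PT.lf (nat_lit 3116) (nat_lit 6) (nat_lit 41) (nat_lit 3)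 (nat_lit 162) (nat_lit 124) (nat_lit 164)) (PT.nd (nat_lit 78) (PT.lf (nat_lit 3192) (nat_lit 3) (nat_lit 42) (nat_lit 1) (nat_lit 163) (nat_lit 124) (nat_lit 163)) (PT.lf (nat_lit 3116) (nat_lit 6) (nat_lit 41) (nat_lit 1) (nat_lit 164) (nat_lit 124) (nat_lit 162)))) (PT.nd (nat_lit 46644) (PT.nd (nat_lit 46566) (PT.lf (nat_lit 3040) (nat_lit 6) (nat_lit 40) (nat_lit 1) (nat_lit 165) (nat_lit 124) (nat_lit 161)) (PT.lf (nat_lit 3268) (nat_lit 6) (nat_lit 43) (nat_lit 3) (nat_lit 161) (nat_lit 125) (nat_lit 164))) (PT.nd (nat_lit 78) (PT.lf (nat_lit 3344) (nat_lit 6) (nat_lit 44) (nat_lit 3) (nat_lit 162) (nat_lit 125) (nat_lit 163)) (PT.lf (nat_lit 3344) (nat_lit 6) (nat_lit 44) (nat_lit 1) (nat_lit 163) (nat_lit 125) (nat_lit 162))))) (PT.nd (nat_lit 46722) (PT.nd (nat_lit 46566) (PT.lf (nat_lit 3268) (nat_lit 6) (nat_lit 43) (nat_lit 1) (nat_lit 164) (nat_lit 125) (nat_lit 161)) (PT.nd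 (nat_lit 78) (PT.lf (nat_lit 3420) (nat_lit 6) (nat_lit 45) (nat_lit 3) (nat_lit 160) (nat_lit 126) (nat_lit 164)) (PT.lf (nat_lit 3496) (nat_lit 6) (nat_lit 46) (nat_lit 3) (nat_lit 161) (nat_lit 126) (nat_lit 163)))) (PT.nd (nat_lit 156) (PT.nd (nat_lit 78) (PT.lf (nat_lit 3572) (nat_lit 3) (nat_lit 47) (nat_lit 1) (nat_lit 162) (nat_lit 126) (nat_lit 162)) (PT.lf (nat_lit 3496) (nat_lit 6) (nat_lit 46) (nat_lit 1) (nat_lit 163) (nat_lit 126) (nat_lit 161))) (PT.nd (nat_lit 46488) (PT.lf (nat_lit 3420) (nat_lit 6) (nat_lit 45) (nat_lit 1) (nat_lit 164) (nat_lit 126) (nat_lit 160)) (PT.lf (nat_lit 3648) (nat_lit 6) (nat_lit 48) (nat_lit 3) (nat_lit 159) (nat_lit 127) (nat_lit 164))))))) (PT.nd (nat_lit 93834) (PT.nd (nat_lit 46878) (PT.nd (nat_lit 234) (PT.nd (nat_lit 78) (PT.lf (nat_lit 3724) (nat_lit 6) (nat_lit 49) (nat_lit 3) (nat_lit 160) (nat_lit 127) (nat_lit 163)) (PT.nd (nat_lit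 78) (PT.lf (nat_lit 3800) (nat_lit 6) (nat_lit 50) (nat_lit 3) (nat_lit 161) (nat_lit 127) (nat_lit 162)) (PT.lf (nat_lit 3800) (nat_lit 6) (nat_lit 50) (nat_lit 1) (nat_lit 162) (nat_lit 127) (nat_lit 161)))) (PT.nd (nat_lit 78) (PT.lf (nat_lit 3724) (nat_lit 6) (nat_lit 49) (nat_lit 1) (nat_lit 163) (nat_lit 127) (nat_lit 160)) (PT.nd (nat_lit 46488) (PT.lf (nat_lit 3648) (nat_lit 6) (nat_lit 48) (nat_lit 1) (nat_lit 164) (nat_lit 127) (nat_lit 159)) (PT.lf (nat_lit 3876) (nat_lit 6) (nat_lit 51) (nat_lit 3) (nat_lit 159) (nat_lit 128) (nat_lit 163))))) (PT.nd (nat_lit 234) (PT.nd (nat_lit 78) (PT.lf (nat_lit 3952) (nat_lit 6) (nat_lit 52) (nat_lit 3) (nat_lit 160) (nat_lit 128) (nat_lit 162)) (PT.nd (nat_lit 78) (PT.lf (nat_lit 4028) (nat_lit 3) (nat_lit 53) (nat_lit 1) (nat_lit 161) (nat_lit 128) (nat_lit 161)) (PT.lf (nat_lit 3952) (nat_lit 6) (nat_lit 52) (nat_lit 1) (nat_lit 162)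 (nat_lit 128) (nat_lit 160)))) (PT.nd (nat_lit 46566) (PT.nd (nat_lit 46488) (PT.lf (nat_lit 3876) (nat_lit 6) (nat_lit 51) (nat_lit 1) (nat_lit 163) (nat_lit 128) (nat_lit 159)) (PT.lf (nat_lit 4104) (nat_lit 6) (nat_lit 54) (nat_lit 3) (nat_lit 158) (nat_lit 129) (nat_lit 163))) (PT.nd (nat_lit 78) (PT.lf (nat_lit 4180) (nat_lit 6) (nat_lit 55) (nat_lit 3) (nat_lit 159) (nat_lit 129) (nat_lit 162)) (PT.lf (nat_lit 4256) (nat_lit 6) (nat_lit 56) (nat_lit 3) (nat_lit 160) (nat_lit 129) (nat_lit 161)))))) (PT.nd (nat_lit 46878) (PT.nd (nat_lit 46566) (PT.nd (nat_lit 78) (PT.lf (nat_lit 4256) (nat_lit 6) (nat_lit 56) (nat_lit 1) (nat_lit 161) (nat_lit 129) (nat_lit 160)) (PT.nd (nat_lit 78) (PT.lf (nat_lit 4180) (nat_lit 6) (nat_lit 55) (nat_lit 1) (nat_lit 162) (nat_lit 129) (nat_lit 159)) (PT.lf (nat_lit 4104) (nat_lit 6) (nat_lit 54) (nat_lit 1) (nat_lit 163) (nat_lit 129) (nat_lit 158))))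 (PT.nd (nat_lit 156) (PT.nd (nat_lit 78) (PT.lf (nat_lit 4332) (nat_lit 6) (nat_lit 57) (nat_lit 3) (nat_lit 157) (nat_lit 130) (nat_lit 163)) (PT.lf (nat_lit 4408) (nat_lit 6) (nat_lit 58) (nat_lit 3) (nat_lit 158) (nat_lit 130) (nat_lit 162))) (PT.nd (nat_lit 78) (PT.lf (nat_lit 4484) (nat_lit 6) (nat_lit 59) (nat_lit 3) (nat_lit 159) (nat_lit 130) (nat_lit 161)) (PT.lf (nat_lit 4560) (nat_lit 3) (nat_lit 60) (nat_lit 1) (nat_lit 160) (nat_lit 130) (nat_lit 160))))) (PT.nd (nat_lit 46566) (PT.nd (nat_lit 78) (PT.lf (nat_lit 4484) (nat_lit 6) (nat_lit 59) (nat_lit 1) (nat_lit 161) (nat_lit 130) (nat_lit 159)) (PT.nd (nat_lit 78) (PT.lf (nat_lit 4408) (nat_lit 6) (nat_lit 58) (nat_lit 1) (nat_lit 162) (nat_lit 130) (nat_lit 158)) (PT.lf (nat_lit 4332) (nat_lit 6) (nat_lit 57) (nat_lit 1) (nat_lit 163) (nat_lit 130) (nat_lit 157)))) (PT.nd (nat_lit 156) (PT.nd (nat_lit 78) (PT.lf (nat_lit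 4636) (nat_lit 6) (nat_lit 61) (nat_lit 3) (nat_lit 157) (nat_lit 131) (nat_lit 162)) (PT.lf (nat_lit 4712) (nat_lit 6) (nat_lit 62) (nat_lit 3) (nat_lit 158) (nat_lit 131) (nat_lit 161))) (PT.nd (nat_lit 78) (PT.lf (nat_lit 4788) (nat_lit 6) (nat_lit 63) (nat_lit 3) (nat_lit 159) (nat_lit 131) (nat_lit 160)) (PT.lf (nat_lit 4788) (nat_lit 6) (nat_lit 63) (nat_lit 1) (nat_lit 160) (nat_lit 131) (nat_lit 159))))))))
noncomputable def pc2 : PT := (PT.nd (nat_lit 187200) (PT.nd (nat_lit 93600) (PT.nd (nat_lit 46800) (PT.nd (nat_lit 46566) (PT.nd (nat_lit 78) (PT.lf (nat_lit 4712) (nat_lit 6) (nat_lit 62) (nat_lit 1) (nat_lit 161) (nat_lit 131) (nat_lit 158)) (PT.nd (nat_lit 46410) (PT.lf (nat_lit 4636) (nat_lit 6) (nat_lit 61) (nat_lit 1) (nat_lit 162) (nat_lit 131) (nat_lit 157)) (PT.lf (nat_lit 4864) (nat_lit 6) (nat_lit 64) (nat_lit 3) (nat_lit 156) (nat_lit 132) (nat_lit 162)))) (PT.nd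 (nat_lit 78) (PT.lf (nat_lit 4940) (nat_lit 6) (nat_lit 65) (nat_lit 3) (nat_lit 157) (nat_lit 132) (nat_lit 161)) (PT.nd (nat_lit 78) (PT.lf (nat_lit 5016) (nat_lit 6) (nat_lit 66) (nat_lit 3) (nat_lit 158) (nat_lit 132) (nat_lit 160)) (PT.lf (nat_lit 5092) (nat_lit 3) (nat_lit 67) (nat_lit 1) (nat_lit 159) (nat_lit 132) (nat_lit 159))))) (PT.nd (nat_lit 46488) (PT.nd (nat_lit 78) (PT.lf (nat_lit 5016) (nat_lit 6) (nat_lit 66) (nat_lit 1) (nat_lit 160) (nat_lit 132) (nat_lit 158)) (PT.nd (nat_lit 78) (PT.lf (nat_lit 4940) (nat_lit 6) (nat_lit 65) (nat_lit 1) (nat_lit 161) (nat_lit 132) (nat_lit 157)) (PT.lf (nat_lit 4864) (nat_lit 6) (nat_lit 64) (nat_lit 1) (nat_lit 162) (nat_lit 132) (nat_lit 156)))) (PT.nd (nat_lit 156) (PT.nd (nat_lit 78) (PT.lf (nat_lit 5168) (nat_lit 6) (nat_lit 68) (nat_lit 3) (nat_lit 155) (nat_lit 133) (nat_lit 162)) (PT.lf (nat_lit 5244) (nat_lit 6) (nat_lit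 69) (nat_lit 3) (nat_lit 156) (nat_lit 133) (nat_lit 161))) (PT.nd (nat_lit 78) (PT.lf (nat_lit 5320) (nat_lit 6) (nat_lit 70) (nat_lit 3) (nat_lit 157) (nat_lit 133) (nat_lit 160)) (PT.lf (nat_lit 5396) (nat_lit 6) (nat_lit 71) (nat_lit 3) (nat_lit 158) (nat_lit 133) (nat_lit 159)))))) (PT.nd (nat_lit 46800) (PT.nd (nat_lit 234) (PT.nd (nat_lit 78) (PT.lf (nat_lit 5396) (nat_lit 6) (nat_lit 71) (nat_lit 1) (nat_lit 159) (nat_lit 133) (nat_lit 158)) (PT.nd (nat_lit 78) (PT.lf (nat_lit 5320) (nat_lit 6) (nat_lit 70) (nat_lit 1) (nat_lit 160) (nat_lit 133) (nat_lit 157)) (PT.lf (nat_lit 5244) (nat_lit 6) (nat_lit 69) (nat_lit 1) (nat_lit 161) (nat_lit 133) (nat_lit 156)))) (PT.nd (nat_lit 46410) (PT.nd (nat_lit 46332) (PT.lf (nat_lit 5168) (nat_lit 6) (nat_lit 68) (nat_lit 1) (nat_lit 162) (nat_lit 133) (nat_lit 155)) (PT.lf (nat_lit 5472) (nat_lit 6) (nat_lit 72) (nat_lit 3) (nat_lit 155)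 (nat_lit 134) (nat_lit 161))) (PT.nd (nat_lit 78) (PT.lf (nat_lit 5548) (nat_lit 6) (nat_lit 73) (nat_lit 3) (nat_lit 156) (nat_lit 134) (nat_lit 160)) (PT.lf (nat_lit 5624) (nat_lit 6) (nat_lit 74) (nat_lit 3) (nat_lit 157) (nat_lit 134) (nat_lit 159))))) (PT.nd (nat_lit 234) (PT.nd (nat_lit 78) (PT.lf (nat_lit 5700) (nat_lit 3) (nat_lit 75) (nat_lit 1) (nat_lit 158) (nat_lit 134) (nat_lit 158)) (PT.nd (nat_lit 78) (PT.lf (nat_lit 5624) (nat_lit 6) (nat_lit 74) (nat_lit 1) (nat_lit 159) (nat_lit 134) (nat_lit 157)) (PT.lf (nat_lit 5548) (nat_lit 6) (nat_lit 73) (nat_lit 1) (nat_lit 160) (nat_lit 134) (nat_lit 156)))) (PT.nd (nat_lit 46410) (PT.nd (nat_lit 46332) (PT.lf (nat_lit 5472) (nat_lit 6) (nat_lit 72) (nat_lit 1) (nat_lit 161) (nat_lit 134) (nat_lit 155)) (PT.lf (nat_lit 5776) (nat_lit 6) (nat_lit 76) (nat_lit 3) (nat_lit 154) (nat_lit 135) (nat_lit 161))) (PT.nd (nat_lit 78) (PT.lf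 (nat_lit 5852) (nat_lit 6) (nat_lit 77) (nat_lit 3) (nat_lit 155) (nat_lit 135) (nat_lit 160)) (PT.lf (nat_lit 5928) (nat_lit 6) (nat_lit 78) (nat_lit 3) (nat_lit 156) (nat_lit 135) (nat_lit 159))))))) (PT.nd (nat_lit 47190) (PT.nd (nat_lit 46644) (PT.nd (nat_lit 234) (PT.nd (nat_lit 78) (PT.lf (nat_lit 6004) (nat_lit 6) (nat_lit 79) (nat_lit 3) (nat_lit 157) (nat_lit 135) (nat_lit 158)) (PT.nd (nat_lit 78) (PT.lf (nat_lit 6004) (nat_lit 6) (nat_lit 79) (nat_lit 1) (nat_lit 158) (nat_lit 135) (nat_lit 157)) (PT.lf (nat_lit 5928) (nat_lit 6) (nat_lit 78) (nat_lit 1) (nat_lit 159) (nat_lit 135) (nat_lit 156)))) (PT.nd (nat_lit 78) (PT.lf (nat_lit 5852) (nat_lit 6) (nat_lit 77) (nat_lit 1) (nat_lit 160) (nat_lit 135) (nat_lit 155)) (PT.nd (nat_lit 46254) (PT.lf (nat_lit 5776) (nat_lit 6) (nat_lit 76) (nat_lit 1) (nat_lit 161) (nat_lit 135) (nat_lit 154)) (PT.lf (nat_lit 6080) (nat_lit 6) (nat_lit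 80) (nat_lit 3) (nat_lit 153) (nat_lit 136) (nat_lit 161))))) (PT.nd (nat_lit 234) (PT.nd (nat_lit 78) (PT.lf (nat_lit 6156) (nat_lit 6) (nat_lit 81) (nat_lit 3) (nat_lit 154) (nat_lit 136) (nat_lit 160)) (PT.nd (nat_lit 78) (PT.lf (nat_lit 6232) (nat_lit 6) (nat_lit 82) (nat_lit 3) (nat_lit 155) (nat_lit 136) (nat_lit 159)) (PT.lf (nat_lit 6308) (nat_lit 6) (nat_lit 83) (nat_lit 3) (nat_lit 156) (nat_lit 136) (nat_lit 158)))) (PT.nd (nat_lit 156) (PT.nd (nat_lit 78) (PT.lf (nat_lit 6384) (nat_lit 3) (nat_lit 84) (nat_lit 1) (nat_lit 157) (nat_lit 136) (nat_lit 157)) (PT.lf (nat_lit 6308) (nat_lit 6) (nat_lit 83) (nat_lit 1) (nat_lit 158) (nat_lit 136) (nat_lit 156))) (PT.nd (nat_lit 78) (PT.lf (nat_lit 6232) (nat_lit 6) (nat_lit 82) (nat_lit 1) (nat_lit 159) (nat_lit 136) (nat_lit 155)) (PT.lf (nat_lit 6156) (nat_lit 6) (nat_lit 81) (nat_lit 1) (nat_lit 160) (nat_lit 136) (nat_lit 154))))))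 (PT.nd (nat_lit 46644) (PT.nd (nat_lit 46332) (PT.nd (nat_lit 46176) (PT.lf (nat_lit 6080) (nat_lit 6) (nat_lit 80) (nat_lit 1) (nat_lit 161) (nat_lit 136) (nat_lit 153)) (PT.nd (nat_lit 78) (PT.lf (nat_lit 6460) (nat_lit 6) (nat_lit 85) (nat_lit 3) (nat_lit 152) (nat_lit 137) (nat_lit 161)) (PT.lf (nat_lit 6536) (nat_lit 6) (nat_lit 86) (nat_lit 3) (nat_lit 153) (nat_lit 137) (nat_lit 160)))) (PT.nd (nat_lit 156) (PT.nd (nat_lit 78) (PT.lf (nat_lit 6612) (nat_lit 6) (nat_lit 87) (nat_lit 3) (nat_lit 154) (nat_lit 137) (nat_lit 159)) (PT.lf (nat_lit 6688) (nat_lit 6) (nat_lit 88) (nat_lit 3) (nat_lit 155) (nat_lit 137) (nat_lit 158))) (PT.nd (nat_lit 78) (PT.lf (nat_lit 6764) (nat_lit 6) (nat_lit 89) (nat_lit 3) (nat_lit 156) (nat_lit 137) (nat_lit 157)) (PT.lf (nat_lit 6764) (nat_lit 6) (nat_lit 89) (nat_lit 1) (nat_lit 157) (nat_lit 137) (nat_lit 156))))) (PT.nd (nat_lit 234) (PT.nd (nat_lit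 78) (PT.lf (nat_lit 6688) (nat_lit 6) (nat_lit 88) (nat_lit 1) (nat_lit 158) (nat_lit 137) (nat_lit 155)) (PT.nd (nat_lit 78) (PT.lf (nat_lit 6612) (nat_lit 6) (nat_lit 87) (nat_lit 1) (nat_lit 159) (nat_lit 137) (nat_lit 154)) (PT.lf (nat_lit 6536) (nat_lit 6) (nat_lit 86) (nat_lit 1) (nat_lit 160) (nat_lit 137) (nat_lit 153)))) (PT.nd (nat_lit 46254) (PT.nd (nat_lit 46176) (PT.lf (nat_lit 6460) (nat_lit 6) (nat_lit 85) (nat_lit 1) (nat_lit 161) (nat_lit 137) (nat_lit 152)) (PT.lf (nat_lit 6840) (nat_lit 6) (nat_lit 90) (nat_lit 3) (nat_lit 152) (nat_lit 138) (nat_lit 160))) (PT.nd (nat_lit 78) (PT.lf (nat_lit 6916) (nat_lit 6) (nat_lit 91) (nat_lit 3) (nat_lit 153) (nat_lit 138) (nat_lit 159)) (PT.lf (nat_lit 6992) (nat_lit 6) (nat_lit 92) (nat_lit 3) (nat_lit 154) (nat_lit 138) (nat_lit 158))))))))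
noncomputable def pc3 : PT := (PT.nd (nat_lit 140166) (PT.nd (nat_lit 47112) (PT.nd (nat_lit 46566) (PT.nd (nat_lit 234) (PT.nd (nat_lit 78) (PT.lf (nat_lit 7068) (nat_lit 6) (nat_lit 93) (nat_lit 3) (nat_lit 155) (nat_lit 138) (nat_lit 157)) (PT.nd (nat_lit 78) (PT.lf (nat_lit 7144) (nat_lit 3) (nat_lit 94) (nat_lit 1) (nat_lit 156) (nat_lit 138) (nat_lit 156)) (PT.lf (nat_lit 7068) (nat_lit 6) (nat_lit 93) (nat_lit 1) (nat_lit 157) (nat_lit 138) (nat_lit 155)))) (PT.nd (nat_lit 78) (PT.lf (nat_lit 6992) (nat_lit 6) (nat_lit 92) (nat_lit 1) (nat_lit 158) (nat_lit 138) (nat_lit 154)) (PT.nd (nat_lit 78) (PT.lf (nat_lit 6916) (nat_lit 6) (nat_lit 91) (nat_lit 1) (nat_lit 159) (nat_lit 138) (nat_lit 153)) (PT.lf (nat_lit 6840) (nat_lit 6) (nat_lit 90) (nat_lit 1) (nat_lit 160) (nat_lit 138) (nat_lit 152))))) (PT.nd (nat_lit 234) (PT.nd (nat_lit 78) (PT.lf (nat_lit 7220) (nat_lit 6) (nat_lit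 95) (nat_lit 3) (nat_lit 151) (nat_lit 139) (nat_lit 160)) (PT.nd (nat_lit 78) (PT.lf (nat_lit 7296) (nat_lit 6) (nat_lit 96) (nat_lit 3) (nat_lit 152) (nat_lit 139) (nat_lit 159)) (PT.lf (nat_lit 7372) (nat_lit 6) (nat_lit 97) (nat_lit 3) (nat_lit 153) (nat_lit 139) (nat_lit 158)))) (PT.nd (nat_lit 156) (PT.nd (nat_lit 78) (PT.lf (nat_lit 7448) (nat_lit 6) (nat_lit 98) (nat_lit 3) (nat_lit 154) (nat_lit 139) (nat_lit 157)) (PT.lf (nat_lit 7524) (nat_lit 6) (nat_lit 99) (nat_lit 3) (nat_lit 155) (nat_lit 139) (nat_lit 156))) (PT.nd (nat_lit 78) (PT.lf (nat_lit 7524) (nat_lit 6) (nat_lit 99) (nat_lit 1) (nat_lit 156) (nat_lit 139) (nat_lit 155)) (PT.lf (nat_lit 7448) (nat_lit 6) (nat_lit 98) (nat_lit 1) (nat_lit 157) (nat_lit 139) (nat_lit 154)))))) (PT.nd (nat_lit 46566) (PT.nd (nat_lit 46254) (PT.nd (nat_lit 78) (PT.lf (nat_lit 7372) (nat_lit 6) (nat_lit 97) (nat_lit 1) (nat_lit 158) (nat_lit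 139) (nat_lit 153)) (PT.nd (nat_lit 78) (PT.lf (nat_lit 7296) (nat_lit 6) (nat_lit 96) (nat_lit 1) (nat_lit 159) (nat_lit 139) (nat_lit 152)) (PT.lf (nat_lit 7220) (nat_lit 6) (nat_lit 95) (nat_lit 1) (nat_lit 160) (nat_lit 139) (nat_lit 151)))) (PT.nd (nat_lit 156) (PT.nd (nat_lit 78) (PT.lf (nat_lit 7980) (nat_lit 6) (nat_lit 105) (nat_lit 3) (nat_lit 150) (nat_lit 140) (nat_lit 160)) (PT.lf (nat_lit 8056) (nat_lit 6) (nat_lit 106) (nat_lit 3) (nat_lit 151) (nat_lit 140) (nat_lit 159))) (PT.nd (nat_lit 78) (PT.lf (nat_lit 8132) (nat_lit 6) (nat_lit 107) (nat_lit 3) (nat_lit 152) (nat_lit 140) (nat_lit 158)) (PT.lf (nat_lit 8208) (nat_lit 6) (nat_lit 108) (nat_lit 3) (nat_lit 153) (nat_lit 140) (nat_lit 157))))) (PT.nd (nat_lit 234) (PT.nd (nat_lit 78) (PT.lf (nat_lit 8284) (nat_lit 6) (nat_lit 109) (nat_lit 3) (nat_lit 154) (nat_lit 140) (nat_lit 156)) (PT.nd (nat_lit 78) (PT.lf (nat_lit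 8360) (nat_lit 3) (nat_lit 110) (nat_lit 1) (nat_lit 155) (nat_lit 140) (nat_lit 155)) (PT.lf (nat_lit 8284) (nat_lit 6) (nat_lit 109) (nat_lit 1) (nat_lit 156) (nat_lit 140) (nat_lit 154)))) (PT.nd (nat_lit 156) (PT.nd (nat_lit 78) (PT.lf (nat_lit 8208) (nat_lit 6) (nat_lit 108) (nat_lit 1) (nat_lit 157) (nat_lit 140) (nat_lit 153)) (PT.lf (nat_lit 8132) (nat_lit 6) (nat_lit 107) (nat_lit 1) (nat_lit 158) (nat_lit 140) (nat_lit 152))) (PT.nd (nat_lit 78) (PT.lf (nat_lit 8056) (nat_lit 6) (nat_lit 106) (nat_lit 1) (nat_lit 159) (nat_lit 140) (nat_lit 151)) (PT.lf (nat_lit 7980) (nat_lit 6) (nat_lit 105) (nat_lit 1) (nat_lit 160) (nat_lit 140) (nat_lit 150))))))) (PT.nd (nat_lit 46878) (PT.nd (nat_lit 468) (PT.nd (nat_lit 234) (PT.nd (nat_lit 78) (PT.lf (nat_lit 7904) (nat_lit 6) (nat_lit 104) (nat_lit 3) (nat_lit 149) (nat_lit 141) (nat_lit 160)) (PT.nd (nat_lit 78) (PT.lf (nat_lit 8740)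 (nat_lit 6) (nat_lit 115) (nat_lit 3) (nat_lit 150) (nat_lit 141) (nat_lit 159)) (PT.lf (nat_lit 8816) (nat_lit 6) (nat_lit 116) (nat_lit 3) (nat_lit 151) (nat_lit 141) (nat_lit 158)))) (PT.nd (nat_lit 78) (PT.lf (nat_lit 8892) (nat_lit 6) (nat_lit 117) (nat_lit 3) (nat_lit 152) (nat_lit 141) (nat_lit 157)) (PT.nd (nat_lit 78) (PT.lf (nat_lit 8968) (nat_lit 6) (nat_lit 118) (nat_lit 3) (nat_lit 153) (nat_lit 141) (nat_lit 156)) (PT.lf (nat_lit 9044) (nat_lit 6) (nat_lit 119) (nat_lit 3) (nat_lit 154) (nat_lit 141) (nat_lit 155))))) (PT.nd (nat_lit 234) (PT.nd (nat_lit 78) (PT.lf (nat_lit 9044) (nat_lit 6) (nat_lit 119) (nat_lit 1) (nat_lit 155) (nat_lit 141) (nat_lit 154)) (PT.nd (nat_lit 78) (PT.lf (nat_lit 8968) (nat_lit 6) (nat_lit 118) (nat_lit 1) (nat_lit 156) (nat_lit 141) (nat_lit 153)) (PT.lf (nat_lit 8892) (nat_lit 6) (nat_lit 117) (nat_lit 1) (nat_lit 157) (nat_lit 141) (nat_lit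 152)))) (PT.nd (nat_lit 156) (PT.nd (nat_lit 78) (PT.lf (nat_lit 8816) (nat_lit 6) (nat_lit 116) (nat_lit 1) (nat_lit 158) (nat_lit 141) (nat_lit 151)) (PT.lf (nat_lit 8740) (nat_lit 6) (nat_lit 115) (nat_lit 1) (nat_lit 159) (nat_lit 141) (nat_lit 150))) (PT.nd (nat_lit 45942) (PT.lf (nat_lit 7904) (nat_lit 6) (nat_lit 104) (nat_lit 1) (nat_lit 160) (nat_lit 141) (nat_lit 149)) (PT.lf (nat_lit 7828) (nat_lit 6) (nat_lit 103) (nat_lit 3) (nat_lit 148) (nat_lit 142) (nat_lit 160)))))) (PT.nd (nat_lit 546) (PT.nd (nat_lit 234) (PT.nd (nat_lit 78) (PT.lf (nat_lit 8664) (nat_lit 6) (nat_lit 114) (nat_lit 3) (nat_lit 149) (nat_lit 142) (nat_lit 159)) (PT.nd (nat_lit 78) (PT.lf (nat_lit 9424) (nat_lit 6) (nat_lit 124) (nat_lit 3) (nat_lit 150) (nat_lit 142) (nat_lit 158)) (PT.lf (nat_lit 9500) (nat_lit 6) (nat_lit 125) (nat_lit 3) (nat_lit 151) (nat_lit 142) (nat_lit 157)))) (PT.nd (nat_lit 156)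 (PT.nd (nat_lit 78) (PT.lf (nat_lit 9576) (nat_lit 6) (nat_lit 126) (nat_lit 3) (nat_lit 152) (nat_lit 142) (nat_lit 156)) (PT.lf (nat_lit 9652) (nat_lit 6) (nat_lit 127) (nat_lit 3) (nat_lit 153) (nat_lit 142) (nat_lit 155))) (PT.nd (nat_lit 78) (PT.lf (nat_lit 9728) (nat_lit 3) (nat_lit 128) (nat_lit 1) (nat_lit 154) (nat_lit 142) (nat_lit 154)) (PT.lf (nat_lit 9652) (nat_lit 6) (nat_lit 127) (nat_lit 1) (nat_lit 155) (nat_lit 142) (nat_lit 153))))) (PT.nd (nat_lit 234) (PT.nd (nat_lit 78) (PT.lf (nat_lit 9576) (nat_lit 6) (nat_lit 126) (nat_lit 1) (nat_lit 156) (nat_lit 142) (nat_lit 152)) (PT.nd (nat_lit 78) (PT.lf (nat_lit 9500) (nat_lit 6) (nat_lit 125) (nat_lit 1) (nat_lit 157) (nat_lit 142) (nat_lit 151)) (PT.lf (nat_lit 9424) (nat_lit 6) (nat_lit 124) (nat_lit 1) (nat_lit 158) (nat_lit 142) (nat_lit 150)))) (PT.nd (nat_lit 45942) (PT.nd (nat_lit 78) (PT.lf (nat_lit 8664) (nat_lit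 6) (nat_lit 114) (nat_lit 1) (nat_lit 159) (nat_lit 142) (nat_lit 149)) (PT.lf (nat_lit 7828) (nat_lit 6) (nat_lit 103) (nat_lit 1) (nat_lit 160) (nat_lit 142) (nat_lit 148))) (PT.nd (nat_lit 78) (PT.lf (nat_lit 7752) (nat_lit 6) (nat_lit 102) (nat_lit 3) (nat_lit 147) (nat_lit 143) (nat_lit 160)) (PT.lf (nat_lit 8588) (nat_lit 6) (nat_lit 113) (nat_lit 3) (nat_lit 148) (nat_lit 143) (nat_lit 159))))))))
noncomputable def pc4 : PT := (PT.nd (nat_lit 93444) (PT.nd (nat_lit 46722) (PT.nd (nat_lit 468) (PT.nd (nat_lit 234) (PT.nd (nat_lit 78) (PT.lf (nat_lit 9348) (nat_lit 6) (nat_lit 123) (nat_lit 3) (nat_lit 149) (nat_lit 143) (nat_lit 158)) (PT.nd (nat_lit 78) (PT.lf (nat_lit 10032) (nat_lit 6) (nat_lit 132) (nat_lit 3) (nat_lit 150) (nat_lit 143) (nat_lit 157)) (PT.lf (nat_lit 10108) (nat_lit 6) (nat_lit 133) (nat_lit 3) (nat_lit 151) (nat_lit 143) (nat_lit 156)))) (PT.nd (nat_lit 78)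 (PT.lf (nat_lit 10184) (nat_lit 6) (nat_lit 134) (nat_lit 3) (nat_lit 152) (nat_lit 143) (nat_lit 155)) (PT.nd (nat_lit 78) (PT.lf (nat_lit 10260) (nat_lit 6) (nat_lit 135) (nat_lit 3) (nat_lit 153) (nat_lit 143) (nat_lit 154)) (PT.lf (nat_lit 10260) (nat_lit 6) (nat_lit 135) (nat_lit 1) (nat_lit 154) (nat_lit 143) (nat_lit 153))))) (PT.nd (nat_lit 234) (PT.nd (nat_lit 78) (PT.lf (nat_lit 10184) (nat_lit 6) (nat_lit 134) (nat_lit 1) (nat_lit 155) (nat_lit 143) (nat_lit 152)) (PT.nd (nat_lit 78) (PT.lf (nat_lit 10108) (nat_lit 6) (nat_lit 133) (nat_lit 1) (nat_lit 156) (nat_lit 143) (nat_lit 151)) (PT.lf (nat_lit 10032) (nat_lit 6) (nat_lit 132) (nat_lit 1) (nat_lit 157) (nat_lit 143) (nat_lit 150)))) (PT.nd (nat_lit 156) (PT.nd (nat_lit 78) (PT.lf (nat_lit 9348) (nat_lit 6) (nat_lit 123) (nat_lit 1) (nat_lit 158) (nat_lit 143) (nat_lit 149)) (PT.lf (nat_lit 8588) (nat_lit 6) (nat_lit 113)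 (nat_lit 1) (nat_lit 159) (nat_lit 143) (nat_lit 148))) (PT.nd (nat_lit 45786) (PT.lf (nat_lit 7752) (nat_lit 6) (nat_lit 102) (nat_lit 1) (nat_lit 160) (nat_lit 143) (nat_lit 147)) (PT.lf (nat_lit 7676) (nat_lit 6) (nat_lit 101) (nat_lit 3) (nat_lit 146) (nat_lit 144) (nat_lit 160)))))) (PT.nd (nat_lit 546) (PT.nd (nat_lit 234) (PT.nd (nat_lit 78) (PT.lf (nat_lit 8512) (nat_lit 6) (nat_lit 112) (nat_lit 3) (nat_lit 147) (nat_lit 144) (nat_lit 159)) (PT.nd (nat_lit 78) (PT.lf (nat_lit 9272) (nat_lit 6) (nat_lit 122) (nat_lit 3) (nat_lit 148) (nat_lit 144) (nat_lit 158)) (PT.lf (nat_lit 9956) (nat_lit 6) (nat_lit 131) (nat_lit 3) (nat_lit 149) (nat_lit 144) (nat_lit 157)))) (PT.nd (nat_lit 156) (PT.nd (nat_lit 78) (PT.lf (nat_lit 10564) (nat_lit 6) (nat_lit 139) (nat_lit 3) (nat_lit 150) (nat_lit 144) (nat_lit 156)) (PT.lf (nat_lit 10640) (nat_lit 6) (nat_lit 140) (nat_lit 3) (nat_lit 151)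 (nat_lit 144) (nat_lit 155))) (PT.nd (nat_lit 78) (PT.lf (nat_lit 10716) (nat_lit 6) (nat_lit 141) (nat_lit 3) (nat_lit 152) (nat_lit 144) (nat_lit 154)) (PT.lf (nat_lit 10792) (nat_lit 3) (nat_lit 142) (nat_lit 1) (nat_lit 153) (nat_lit 144) (nat_lit 153))))) (PT.nd (nat_lit 234) (PT.nd (nat_lit 78) (PT.lf (nat_lit 10716) (nat_lit 6) (nat_lit 141) (nat_lit 1) (nat_lit 154) (nat_lit 144) (nat_lit 152)) (PT.nd (nat_lit 78) (PT.lf (nat_lit 10640) (nat_lit 6) (nat_lit 140) (nat_lit 1) (nat_lit 155) (nat_lit 144) (nat_lit 151)) (PT.lf (nat_lit 10564) (nat_lit 6) (nat_lit 139) (nat_lit 1) (nat_lit 156) (nat_lit 144) (nat_lit 150)))) (PT.nd (nat_lit 156) (PT.nd (nat_lit 78) (PT.lf (nat_lit 9956) (nat_lit 6) (nat_lit 131) (nat_lit 1) (nat_lit 157) (nat_lit 144) (nat_lit 149)) (PT.lf (nat_lit 9272) (nat_lit 6) (nat_lit 122) (nat_lit 1) (nat_lit 158) (nat_lit 144) (nat_lit 148))) (PT.nd (nat_lit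 78) (PT.lf (nat_lit 8512) (nat_lit 6) (nat_lit 112) (nat_lit 1) (nat_lit 159) (nat_lit 144) (nat_lit 147)) (PT.lf (nat_lit 7676) (nat_lit 6) (nat_lit 101) (nat_lit 1) (nat_lit 160) (nat_lit 144) (nat_lit 146))))))) (PT.nd (nat_lit 1014) (PT.nd (nat_lit 468) (PT.nd (nat_lit 234) (PT.nd (nat_lit 78) (PT.lf (nat_lit 7600) (nat_lit 3) (nat_lit 100) (nat_lit 3) (nat_lit 145) (nat_lit 145) (nat_lit 160)) (PT.nd (nat_lit 78) (PT.lf (nat_lit 8436) (nat_lit 6) (nat_lit 111) (nat_lit 3) (nat_lit 146) (nat_lit 145) (nat_lit 159)) (PT.lf (nat_lit 9196) (nat_lit 6) (nat_lit 121) (nat_lit 3) (nat_lit 147) (nat_lit 145) (nat_lit 158)))) (PT.nd (nat_lit 78) (PT.lf (nat_lit 9880) (nat_lit 6) (nat_lit 130) (nat_lit 3) (nat_lit 148) (nat_lit 145) (nat_lit 157)) (PT.nd (nat_lit 78) (PT.lf (nat_lit 10488) (nat_lit 6) (nat_lit 138) (nat_lit 3) (nat_lit 149) (nat_lit 145) (nat_lit 156)) (PT.lf (nat_lit 11020)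 (nat_lit 6) (nat_lit 145) (nat_lit 3) (nat_lit 150) (nat_lit 145) (nat_lit 155))))) (PT.nd (nat_lit 234) (PT.nd (nat_lit 78) (PT.lf (nat_lit 11096) (nat_lit 6) (nat_lit 146) (nat_lit 3) (nat_lit 151) (nat_lit 145) (nat_lit 154)) (PT.nd (nat_lit 78) (PT.lf (nat_lit 11172) (nat_lit 6) (nat_lit 147) (nat_lit 3) (nat_lit 152) (nat_lit 145) (nat_lit 153)) (PT.lf (nat_lit 11172) (nat_lit 6) (nat_lit 147) (nat_lit 1) (nat_lit 153) (nat_lit 145) (nat_lit 152)))) (PT.nd (nat_lit 156) (PT.nd (nat_lit 78) (PT.lf (nat_lit 11096) (nat_lit 6) (nat_lit 146) (nat_lit 1) (nat_lit 154) (nat_lit 145) (nat_lit 151)) (PT.lf (nat_lit 11020) (nat_lit 6) (nat_lit 145) (nat_lit 1) (nat_lit 155) (nat_lit 145) (nat_lit 150))) (PT.nd (nat_lit 78) (PT.lf (nat_lit 10488) (nat_lit 6) (nat_lit 138) (nat_lit 1) (nat_lit 156) (nat_lit 145) (nat_lit 149)) (PT.lf (nat_lit 9880) (nat_lit 6) (nat_lit 130) (nat_lit 1) (nat_lit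 157) (nat_lit 145) (nat_lit 148)))))) (PT.nd (nat_lit 46098) (PT.nd (nat_lit 45786) (PT.nd (nat_lit 78) (PT.lf (nat_lit 9196) (nat_lit 6) (nat_lit 121) (nat_lit 1) (nat_lit 158) (nat_lit 145) (nat_lit 147)) (PT.nd (nat_lit 78) (PT.lf (nat_lit 8436) (nat_lit 6) (nat_lit 111) (nat_lit 1) (nat_lit 159) (nat_lit 145) (nat_lit 146)) (PT.lf (nat_lit 7600) (nat_lit 3) (nat_lit 100) (nat_lit 0) (nat_lit 160) (nat_lit 145) (nat_lit 145)))) (PT.nd (nat_lit 156) (PT.nd (nat_lit 78) (PT.lf (nat_lit 7676) (nat_lit 6) (nat_lit 101) (nat_lit 5) (nat_lit 144) (nat_lit 146) (nat_lit 160)) (PT.lf (nat_lit 8436) (nat_lit 6) (nat_lit 111) (nat_lit 5) (nat_lit 145) (nat_lit 146) (nat_lit 159))) (PT.nd (nat_lit 78) (PT.lf (nat_lit 9120) (nat_lit 3) (nat_lit 120) (nat_lit 3) (nat_lit 146) (nat_lit 146) (nat_lit 158)) (PT.lf (nat_lit 9804) (nat_lit 6) (nat_lit 129) (nat_lit 3) (nat_lit 147) (nat_lit 146) (nat_lit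 157))))) (PT.nd (nat_lit 234) (PT.nd (nat_lit 78) (PT.lf (nat_lit 10412) (nat_lit 6) (nat_lit 137) (nat_lit 3) (nat_lit 148) (nat_lit 146) (nat_lit 156)) (PT.nd (nat_lit 78) (PT.lf (nat_lit 10944) (nat_lit 6) (nat_lit 144) (nat_lit 3) (nat_lit 149) (nat_lit 146) (nat_lit 155)) (PT.lf (nat_lit 11400) (nat_lit 6) (nat_lit 150) (nat_lit 3) (nat_lit 150) (nat_lit 146) (nat_lit 154)))) (PT.nd (nat_lit 156) (PT.nd (nat_lit 78) (PT.lf (nat_lit 11476) (nat_lit 6) (nat_lit 151) (nat_lit 3) (nat_lit 151) (nat_lit 146) (nat_lit 153)) (PT.lf (nat_lit 11552) (nat_lit 3) (nat_lit 152) (nat_lit 1) (nat_lit 152) (nat_lit 146) (nat_lit 152))) (PT.nd (nat_lit 78) (PT.lf (nat_lit 11476) (nat_lit 6) (nat_lit 151) (nat_lit 1) (nat_lit 153) (nat_lit 146) (nat_lit 151)) (PT.lf (nat_lit 11400) (nat_lit 6) (nat_lit 150) (nat_lit 1) (nat_lit 154) (nat_lit 146) (nat_lit 150))))))))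
noncomputable def pc5 : PT := (PT.nd (nat_lit 92976) (PT.nd (nat_lit 46488) (PT.nd (nat_lit 45942) (PT.nd (nat_lit 234) (PT.nd (nat_lit 78) (PT.lf (nat_lit 10944) (nat_lit 6) (nat_lit 144) (nat_lit 1) (nat_lit 155) (nat_lit 146) (nat_lit 149)) (PT.nd (nat_lit 78) (PT.lf (nat_lit 10412) (nat_lit 6) (nat_lit 137) (nat_lit 1) (nat_lit 156) (nat_lit 146) (nat_lit 148)) (PT.lf (nat_lit 9804) (nat_lit 6) (nat_lit 129) (nat_lit 1) (nat_lit 157) (nat_lit 146) (nat_lit 147)))) (PT.nd (nat_lit 78) (PT.lf (nat_lit 9120) (nat_lit 3) (nat_lit 120) (nat_lit 0) (nat_lit 158) (nat_lit 146) (nat_lit 146)) (PT.nd (nat_lit 78) (PT.lf (nat_lit 8436) (nat_lit 6) (nat_lit 111) (nat_lit 0) (nat_lit 159) (nat_lit 146) (nat_lit 145)) (PT.lf (nat_lit 7676) (nat_lit 6) (nat_lit 101) (nat_lit 0) (nat_lit 160) (nat_lit 146) (nat_lit 144))))) (PT.nd (nat_lit 234) (PT.nd (nat_lit 78) (PT.lf (nat_lit 7752) (nat_lit 6)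 (nat_lit 102) (nat_lit 5) (nat_lit 143) (nat_lit 147) (nat_lit 160)) (PT.nd (nat_lit 78) (PT.lf (nat_lit 8512) (nat_lit 6) (nat_lit 112) (nat_lit 5) (nat_lit 144) (nat_lit 147) (nat_lit 159)) (PT.lf (nat_lit 9196) (nat_lit 6) (nat_lit 121) (nat_lit 5) (nat_lit 145) (nat_lit 147) (nat_lit 158)))) (PT.nd (nat_lit 156) (PT.nd (nat_lit 78) (PT.lf (nat_lit 9804) (nat_lit 6) (nat_lit 129) (nat_lit 5) (nat_lit 146) (nat_lit 147) (nat_lit 157)) (PT.lf (nat_lit 10336) (nat_lit 3) (nat_lit 136) (nat_lit 3) (nat_lit 147) (nat_lit 147) (nat_lit 156))) (PT.nd (nat_lit 78) (PT.lf (nat_lit 10868) (nat_lit 6) (nat_lit 143) (nat_lit 3) (nat_lit 148) (nat_lit 147) (nat_lit 155)) (PT.lf (nat_lit 11324) (nat_lit 6) (nat_lit 149) (nat_lit 3) (nat_lit 149) (nat_lit 147) (nat_lit 154)))))) (PT.nd (nat_lit 546) (PT.nd (nat_lit 234) (PT.nd (nat_lit 78) (PT.lf (nat_lit 11704) (nat_lit 6) (nat_lit 154) (nat_lit 3)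 (nat_lit 150) (nat_lit 147) (nat_lit 153)) (PT.nd (nat_lit 78) (PT.lf (nat_lit 11780) (nat_lit 6) (nat_lit 155) (nat_lit 3) (nat_lit 151) (nat_lit 147) (nat_lit 152)) (PT.lf (nat_lit 11780) (nat_lit 6) (nat_lit 155) (nat_lit 1) (nat_lit 152) (nat_lit 147) (nat_lit 151)))) (PT.nd (nat_lit 156) (PT.nd (nat_lit 78) (PT.lf (nat_lit 11704) (nat_lit 6) (nat_lit 154) (nat_lit 1) (nat_lit 153) (nat_lit 147) (nat_lit 150)) (PT.lf (nat_lit 11324) (nat_lit 6) (nat_lit 149) (nat_lit 1) (nat_lit 154) (nat_lit 147) (nat_lit 149))) (PT.nd (nat_lit 78) (PT.lf (nat_lit 10868) (nat_lit 6) (nat_lit 143) (nat_lit 1) (nat_lit 155) (nat_lit 147) (nat_lit 148)) (PT.lf (nat_lit 10336) (nat_lit 3) (nat_lit 136) (nat_lit 0) (nat_lit 156) (nat_lit 147) (nat_lit 147))))) (PT.nd (nat_lit 234) (PT.nd (nat_lit 78) (PT.lf (nat_lit 9804) (nat_lit 6) (nat_lit 129) (nat_lit 0) (nat_lit 157) (nat_lit 147) (nat_lit 146)) (PT.nd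 (nat_lit 78) (PT.lf (nat_lit 9196) (nat_lit 6) (nat_lit 121) (nat_lit 0) (nat_lit 158) (nat_lit 147) (nat_lit 145)) (PT.lf (nat_lit 8512) (nat_lit 6) (nat_lit 112) (nat_lit 0) (nat_lit 159) (nat_lit 147) (nat_lit 144)))) (PT.nd (nat_lit 45552) (PT.nd (nat_lit 45474) (PT.lf (nat_lit 7752) (nat_lit 6) (nat_lit 102) (nat_lit 0) (nat_lit 160) (nat_lit 147) (nat_lit 143)) (PT.lf (nat_lit 7828) (nat_lit 6) (nat_lit 103) (nat_lit 5) (nat_lit 142) (nat_lit 148) (nat_lit 160))) (PT.nd (nat_lit 78) (PT.lf (nat_lit 8588) (nat_lit 6) (nat_lit 113) (nat_lit 5) (nat_lit 143) (nat_lit 148) (nat_lit 159)) (PT.lf (nat_lit 9272) (nat_lit 6) (nat_lit 122) (nat_lit 5) (nat_lit 144) (nat_lit 148) (nat_lit 158))))))) (PT.nd (nat_lit 1014) (PT.nd (nat_lit 468) (PT.nd (nat_lit 234) (PT.nd (nat_lit 78) (PT.lf (nat_lit 9880) (nat_lit 6) (nat_lit 130) (nat_lit 5) (nat_lit 145) (nat_lit 148) (nat_lit 157)) (PT.nd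 (nat_lit 78) (PT.lf (nat_lit 10412) (nat_lit 6) (nat_lit 137) (nat_lit 5) (nat_lit 146) (nat_lit 148) (nat_lit 156)) (PT.lf (nat_lit 10868) (nat_lit 6) (nat_lit 143) (nat_lit 5) (nat_lit 147) (nat_lit 148) (nat_lit 155)))) (PT.nd (nat_lit 78) (PT.lf (nat_lit 11248) (nat_lit 3) (nat_lit 148) (nat_lit 3) (nat_lit 148) (nat_lit 148) (nat_lit 154)) (PT.nd (nat_lit 78) (PT.lf (nat_lit 11628) (nat_lit 6) (nat_lit 153) (nat_lit 3) (nat_lit 149) (nat_lit 148) (nat_lit 153)) (PT.lf (nat_lit 11932) (nat_lit 6) (nat_lit 157) (nat_lit 3) (nat_lit 150) (nat_lit 148) (nat_lit 152))))) (PT.nd (nat_lit 234) (PT.nd (nat_lit 78) (PT.lf (nat_lit 12008) (nat_lit 3) (nat_lit 158) (nat_lit 1) (nat_lit 151) (nat_lit 148) (nat_lit 151)) (PT.nd (nat_lit 78) (PT.lf (nat_lit 11932) (nat_lit 6) (nat_lit 157) (nat_lit 1) (nat_lit 152) (nat_lit 148) (nat_lit 150)) (PT.lf (nat_lit 11628) (nat_lit 6) (nat_lit 153) (nat_lit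 1) (nat_lit 153) (nat_lit 148) (nat_lit 149)))) (PT.nd (nat_lit 156) (PT.nd (nat_lit 78) (PT.lf (nat_lit 11248) (nat_lit 3) (nat_lit 148) (nat_lit 0) (nat_lit 154) (nat_lit 148) (nat_lit 148)) (PT.lf (nat_lit 10868) (nat_lit 6) (nat_lit 143) (nat_lit 0) (nat_lit 155) (nat_lit 148) (nat_lit 147))) (PT.nd (nat_lit 78) (PT.lf (nat_lit 10412) (nat_lit 6) (nat_lit 137) (nat_lit 0) (nat_lit 156) (nat_lit 148) (nat_lit 146)) (PT.lf (nat_lit 9880) (nat_lit 6) (nat_lit 130) (nat_lit 0) (nat_lit 157) (nat_lit 148) (nat_lit 145)))))) (PT.nd (nat_lit 45864) (PT.nd (nat_lit 45552) (PT.nd (nat_lit 78) (PT.lf (nat_lit 9272) (nat_lit 6) (nat_lit 122) (nat_lit 0) (nat_lit 158) (nat_lit 148) (nat_lit 144)) (PT.nd (nat_lit 78) (PT.lf (nat_lit 8588) (nat_lit 6) (nat_lit 113) (nat_lit 0) (nat_lit 159) (nat_lit 148) (nat_lit 143)) (PT.lf (nat_lit 7828) (nat_lit 6) (nat_lit 103) (nat_lit 0) (nat_lit 160) (nat_lit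 148) (nat_lit 142)))) (PT.nd (nat_lit 156) (PT.nd (nat_lit 78) (PT.lf (nat_lit 7904) (nat_lit 6) (nat_lit 104) (nat_lit 5) (nat_lit 141) (nat_lit 149) (nat_lit 160)) (PT.lf (nat_lit 8664) (nat_lit 6) (nat_lit 114) (nat_lit 5) (nat_lit 142) (nat_lit 149) (nat_lit 159))) (PT.nd (nat_lit 78) (PT.lf (nat_lit 9348) (nat_lit 6) (nat_lit 123) (nat_lit 5) (nat_lit 143) (nat_lit 149) (nat_lit 158)) (PT.lf (nat_lit 9956) (nat_lit 6) (nat_lit 131) (nat_lit 5) (nat_lit 144) (nat_lit 149) (nat_lit 157))))) (PT.nd (nat_lit 234) (PT.nd (nat_lit 78) (PT.lf (nat_lit 10488) (nat_lit 6) (nat_lit 138) (nat_lit 5) (nat_lit 145) (nat_lit 149) (nat_lit 156)) (PT.nd (nat_lit 78) (PT.lf (nat_lit 10944) (nat_lit 6) (nat_lit 144) (nat_lit 5) (nat_lit 146) (nat_lit 149) (nat_lit 155)) (PT.lf (nat_lit 11324) (nat_lit 6) (nat_lit 149) (nat_lit 5) (nat_lit 147) (nat_lit 149) (nat_lit 154)))) (PT.nd (nat_lit 156) (PT.nd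 (nat_lit 78) (PT.lf (nat_lit 11628) (nat_lit 6) (nat_lit 153) (nat_lit 5) (nat_lit 148) (nat_lit 149) (nat_lit 153)) (PT.lf (nat_lit 11856) (nat_lit 3) (nat_lit 156) (nat_lit 3) (nat_lit 149) (nat_lit 149) (nat_lit 152))) (PT.nd (nat_lit 78) (PT.lf (nat_lit 12084) (nat_lit 6) (nat_lit 159) (nat_lit 3) (nat_lit 150) (nat_lit 149) (nat_lit 151)) (PT.lf (nat_lit 12084) (nat_lit 6) (nat_lit 159) (nat_lit 1) (nat_lit 151) (nat_lit 149) (nat_lit 150))))))))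
noncomputable def pc6 : PT := (PT.nd (nat_lit 47346) (PT.nd (nat_lit 46254) (PT.nd (nat_lit 468) (PT.nd (nat_lit 234) (PT.nd (nat_lit 78) (PT.lf (nat_lit 11856) (nat_lit 3) (nat_lit 156) (nat_lit 0) (nat_lit 152) (nat_lit 149) (nat_lit 149)) (PT.nd (nat_lit 78) (PT.lf (nat_lit 11628) (nat_lit 6) (nat_lit 153) (nat_lit 0) (nat_lit 153) (nat_lit 149) (nat_lit 148)) (PT.lf (nat_lit 11324) (nat_lit 6) (nat_lit 149) (nat_lit 0) (nat_lit 154) (nat_lit 149) (nat_lit 147)))) (PT.nd (nat_lit 78) (PT.lf (nat_lit 10944) (nat_lit 6) (nat_lit 144) (nat_lit 0) (nat_lit 155) (nat_lit 149) (nat_lit 146)) (PT.nd (nat_lit 78) (PT.lf (nat_lit 10488) (nat_lit 6) (nat_lit 138) (nat_lit 0) (nat_lit 156) (nat_lit 149) (nat_lit 145)) (PT.lf (nat_lit 9956) (nat_lit 6) (nat_lit 131) (nat_lit 0) (nat_lit 157) (nat_lit 149) (nat_lit 144))))) (PT.nd (nat_lit 45474) (PT.nd (nat_lit 78) (PT.lf (nat_lit 9348) (nat_lit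 6) (nat_lit 123) (nat_lit 0) (nat_lit 158) (nat_lit 149) (nat_lit 143)) (PT.nd (nat_lit 78) (PT.lf (nat_lit 8664) (nat_lit 6) (nat_lit 114) (nat_lit 0) (nat_lit 159) (nat_lit 149) (nat_lit 142)) (PT.lf (nat_lit 7904) (nat_lit 6) (nat_lit 104) (nat_lit 0) (nat_lit 160) (nat_lit 149) (nat_lit 141)))) (PT.nd (nat_lit 156) (PT.nd (nat_lit 78) (PT.lf (nat_lit 7980) (nat_lit 6) (nat_lit 105) (nat_lit 5) (nat_lit 140) (nat_lit 150) (nat_lit 160)) (PT.lf (nat_lit 8740) (nat_lit 6) (nat_lit 115) (nat_lit 5) (nat_lit 141) (nat_lit 150) (nat_lit 159))) (PT.nd (nat_lit 78) (PT.lf (nat_lit 9424) (nat_lit 6) (nat_lit 124) (nat_lit 5) (nat_lit 142) (nat_lit 150) (nat_lit 158)) (PT.lf (nat_lit 10032) (nat_lit 6) (nat_lit 132) (nat_lit 5) (nat_lit 143) (nat_lit 150) (nat_lit 157)))))) (PT.nd (nat_lit 546) (PT.nd (nat_lit 234) (PT.nd (nat_lit 78) (PT.lf (nat_lit 10564) (nat_lit 6) (nat_lit 139) (nat_lit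 5) (nat_lit 144) (nat_lit 150) (nat_lit 156)) (PT.nd (nat_lit 78) (PT.lf (nat_lit 11020) (nat_lit 6) (nat_lit 145) (nat_lit 5) (nat_lit 145) (nat_lit 150) (nat_lit 155)) (PT.lf (nat_lit 11400) (nat_lit 6) (nat_lit 150) (nat_lit 5) (nat_lit 146) (nat_lit 150) (nat_lit 154)))) (PT.nd (nat_lit 156) (PT.nd (nat_lit 78) (PT.lf (nat_lit 11704) (nat_lit 6) (nat_lit 154) (nat_lit 5) (nat_lit 147) (nat_lit 150) (nat_lit 153)) (PT.lf (nat_lit 11932) (nat_lit 6) (nat_lit 157) (nat_lit 5) (nat_lit 148) (nat_lit 150) (nat_lit 152))) (PT.nd (nat_lit 78) (PT.lf (nat_lit 12084) (nat_lit 6) (nat_lit 159) (nat_lit 5) (nat_lit 149) (nat_lit 150) (nat_lit 151)) (PT.lf (nat_lit 12160) (nat_lit 1) (nat_lit 160) (nat_lit 0) (nat_lit 150) (nat_lit 150) (nat_lit 150))))) (PT.nd (nat_lit 234) (PT.nd (nat_lit 78) (PT.lf (nat_lit 12084) (nat_lit 6) (nat_lit 159) (nat_lit 0) (nat_lit 151) (nat_lit 150) (nat_lit 149))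 (PT.nd (nat_lit 78) (PT.lf (nat_lit 11932) (nat_lit 6) (nat_lit 157) (nat_lit 0) (nat_lit 152) (nat_lit 150) (nat_lit 148)) (PT.lf (nat_lit 11704) (nat_lit 6) (nat_lit 154) (nat_lit 0) (nat_lit 153) (nat_lit 150) (nat_lit 147)))) (PT.nd (nat_lit 156) (PT.nd (nat_lit 78) (PT.lf (nat_lit 11400) (nat_lit 6) (nat_lit 150) (nat_lit 0) (nat_lit 154) (nat_lit 150) (nat_lit 146)) (PT.lf (nat_lit 11020) (nat_lit 6) (nat_lit 145) (nat_lit 0) (nat_lit 155) (nat_lit 150) (nat_lit 145))) (PT.nd (nat_lit 78) (PT.lf (nat_lit 10564) (nat_lit 6) (nat_lit 139) (nat_lit 0) (nat_lit 156) (nat_lit 150) (nat_lit 144)) (PT.lf (nat_lit 10032) (nat_lit 6) (nat_lit 132) (nat_lit 0) (nat_lit 157) (nat_lit 150) (nat_lit 143))))))) (PT.nd (nat_lit 46176) (PT.nd (nat_lit 45630) (PT.nd (nat_lit 45396) (PT.nd (nat_lit 78) (PT.lf (nat_lit 9424) (nat_lit 6) (nat_lit 124) (nat_lit 0) (nat_lit 158) (nat_lit 150) (nat_lit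 142)) (PT.nd (nat_lit 78) (PT.lf (nat_lit 8740) (nat_lit 6) (nat_lit 115) (nat_lit 0) (nat_lit 159) (nat_lit 150) (nat_lit 141)) (PT.lf (nat_lit 7980) (nat_lit 6) (nat_lit 105) (nat_lit 0) (nat_lit 160) (nat_lit 150) (nat_lit 140)))) (PT.nd (nat_lit 78) (PT.lf (nat_lit 7220) (nat_lit 6) (nat_lit 95) (nat_lit 5) (nat_lit 139) (nat_lit 151) (nat_lit 160)) (PT.nd (nat_lit 78) (PT.lf (nat_lit 8056) (nat_lit 6) (nat_lit 106) (nat_lit 5) (nat_lit 140) (nat_lit 151) (nat_lit 159)) (PT.lf (nat_lit 8816) (nat_lit 6) (nat_lit 116) (nat_lit 5) (nat_lit 141) (nat_lit 151) (nat_lit 158))))) (PT.nd (nat_lit 234) (PT.nd (nat_lit 78) (PT.lf (nat_lit 9500) (nat_lit 6) (nat_lit 125) (nat_lit 5) (nat_lit 142) (nat_lit 151) (nat_lit 157)) (PT.nd (nat_lit 78) (PT.lf (nat_lit 10108) (nat_lit 6) (nat_lit 133) (nat_lit 5) (nat_lit 143) (nat_lit 151) (nat_lit 156)) (PT.lf (nat_lit 10640) (nat_lit 6) (nat_lit 140)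 (nat_lit 5) (nat_lit 144) (nat_lit 151) (nat_lit 155)))) (PT.nd (nat_lit 156) (PT.nd (nat_lit 78) (PT.lf (nat_lit 11096) (nat_lit 6) (nat_lit 146) (nat_lit 5) (nat_lit 145) (nat_lit 151) (nat_lit 154)) (PT.lf (nat_lit 11476) (nat_lit 6) (nat_lit 151) (nat_lit 5) (nat_lit 146) (nat_lit 151) (nat_lit 153))) (PT.nd (nat_lit 78) (PT.lf (nat_lit 11780) (nat_lit 6) (nat_lit 155) (nat_lit 5) (nat_lit 147) (nat_lit 151) (nat_lit 152)) (PT.lf (nat_lit 12008) (nat_lit 3) (nat_lit 158) (nat_lit 4) (nat_lit 148) (nat_lit 151) (nat_lit 151)))))) (PT.nd (nat_lit 546) (PT.nd (nat_lit 234) (PT.nd (nat_lit 78) (PT.lf (nat_lit 12084) (nat_lit 6) (nat_lit 159) (nat_lit 4) (nat_lit 149) (nat_lit 151) (nat_lit 150)) (PT.nd (nat_lit 78) (PT.lf (nat_lit 12084) (nat_lit 6) (nat_lit 159) (nat_lit 2) (nat_lit 150) (nat_lit 151) (nat_lit 149)) (PT.lf (nat_lit 12008) (nat_lit 3) (nat_lit 158) (nat_lit 0) (nat_lit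 151) (nat_lit 151) (nat_lit 148)))) (PT.nd (nat_lit 156) (PT.nd (nat_lit 78) (PT.lf (nat_lit 11780) (nat_lit 6) (nat_lit 155) (nat_lit 0) (nat_lit 152) (nat_lit 151) (nat_lit 147)) (PT.lf (nat_lit 11476) (nat_lit 6) (nat_lit 151) (nat_lit 0) (nat_lit 153) (nat_lit 151) (nat_lit 146))) (PT.nd (nat_lit 78) (PT.lf (nat_lit 11096) (nat_lit 6) (nat_lit 146) (nat_lit 0) (nat_lit 154) (nat_lit 151) (nat_lit 145)) (PT.lf (nat_lit 10640) (nat_lit 6) (nat_lit 140) (nat_lit 0) (nat_lit 155) (nat_lit 151) (nat_lit 144))))) (PT.nd (nat_lit 234) (PT.nd (nat_lit 78) (PT.lf (nat_lit 10108) (nat_lit 6) (nat_lit 133) (nat_lit 0) (nat_lit 156) (nat_lit 151) (nat_lit 143)) (PT.nd (nat_lit 78) (PT.lf (nat_lit 9500) (nat_lit 6) (nat_lit 125) (nat_lit 0) (nat_lit 157) (nat_lit 151) (nat_lit 142)) (PT.lf (nat_lit 8816) (nat_lit 6) (nat_lit 116) (nat_lit 0) (nat_lit 158) (nat_lit 151) (nat_lit 141)))) (PT.nd (nat_lit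 45162) (PT.nd (nat_lit 78) (PT.lf (nat_lit 8056) (nat_lit 6) (nat_lit 106) (nat_lit 0) (nat_lit 159) (nat_lit 151) (nat_lit 140)) (PT.lf (nat_lit 7220) (nat_lit 6) (nat_lit 95) (nat_lit 0) (nat_lit 160) (nat_lit 151) (nat_lit 139))) (PT.nd (nat_lit 78) (PT.lf (nat_lit 6460) (nat_lit 6) (nat_lit 85) (nat_lit 5) (nat_lit 137) (nat_lit 152) (nat_lit 161)) (PT.lf (nat_lit 6840) (nat_lit 6) (nat_lit 90) (nat_lit 5) (nat_lit 138) (nat_lit 152) (nat_lit 160))))))))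
noncomputable def pc7 : PT := (PT.nd (nat_lit 46956) (PT.nd (nat_lit 1014) (PT.nd (nat_lit 468) (PT.nd (nat_lit 234) (PT.nd (nat_lit 78) (PT.lf (nat_lit 7296) (nat_lit 6) (nat_lit 96) (nat_lit 5) (nat_lit 139) (nat_lit 152) (nat_lit 159)) (PT.nd (nat_lit 78) (PT.lf (nat_lit 8132) (nat_lit 6) (nat_lit 107) (nat_lit 5) (nat_lit 140) (nat_lit 152) (nat_lit 158)) (PT.lf (nat_lit 8892) (nat_lit 6) (nat_lit 117) (nat_lit 5) (nat_lit 141) (nat_lit 152) (nat_lit 157)))) (PT.nd (nat_lit 78) (PT.lf (nat_lit 9576) (nat_lit 6) (nat_lit 126) (nat_lit 5) (nat_lit 142) (nat_lit 152) (nat_lit 156)) (PT.nd (nat_lit 78) (PT.lf (nat_lit 10184) (nat_lit 6) (nat_lit 134) (nat_lit 5) (nat_lit 143) (nat_lit 152) (nat_lit 155)) (PT.lf (nat_lit 10716) (nat_lit 6) (nat_lit 141) (nat_lit 5) (nat_lit 144) (nat_lit 152) (nat_lit 154))))) (PT.nd (nat_lit 234) (PT.nd (nat_lit 78) (PT.lf (nat_lit 11172) (nat_lit 6) (nat_lit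 147) (nat_lit 5) (nat_lit 145) (nat_lit 152) (nat_lit 153)) (PT.nd (nat_lit 78) (PT.lf (nat_lit 11552) (nat_lit 3) (nat_lit 152) (nat_lit 4) (nat_lit 146) (nat_lit 152) (nat_lit 152)) (PT.lf (nat_lit 11780) (nat_lit 6) (nat_lit 155) (nat_lit 4) (nat_lit 147) (nat_lit 152) (nat_lit 151)))) (PT.nd (nat_lit 156) (PT.nd (nat_lit 78) (PT.lf (nat_lit 11932) (nat_lit 6) (nat_lit 157) (nat_lit 4) (nat_lit 148) (nat_lit 152) (nat_lit 150)) (PT.lf (nat_lit 11856) (nat_lit 3) (nat_lit 156) (nat_lit 2) (nat_lit 149) (nat_lit 152) (nat_lit 149))) (PT.nd (nat_lit 78) (PT.lf (nat_lit 11932) (nat_lit 6) (nat_lit 157) (nat_lit 2) (nat_lit 150) (nat_lit 152) (nat_lit 148)) (PT.lf (nat_lit 11780) (nat_lit 6) (nat_lit 155) (nat_lit 2) (nat_lit 151) (nat_lit 152) (nat_lit 147)))))) (PT.nd (nat_lit 546) (PT.nd (nat_lit 234) (PT.nd (nat_lit 78) (PT.lf (nat_lit 11552) (nat_lit 3) (nat_lit 152) (nat_lit 0) (nat_lit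 152) (nat_lit 152) (nat_lit 146)) (PT.nd (nat_lit 78) (PT.lf (nat_lit 11172) (nat_lit 6) (nat_lit 147) (nat_lit 0) (nat_lit 153) (nat_lit 152) (nat_lit 145)) (PT.lf (nat_lit 10716) (nat_lit 6) (nat_lit 141) (nat_lit 0) (nat_lit 154) (nat_lit 152) (nat_lit 144)))) (PT.nd (nat_lit 156) (PT.nd (nat_lit 78) (PT.lf (nat_lit 10184) (nat_lit 6) (nat_lit 134) (nat_lit 0) (nat_lit 155) (nat_lit 152) (nat_lit 143)) (PT.lf (nat_lit 9576) (nat_lit 6) (nat_lit 126) (nat_lit 0) (nat_lit 156) (nat_lit 152) (nat_lit 142))) (PT.nd (nat_lit 78) (PT.lf (nat_lit 8892) (nat_lit 6) (nat_lit 117) (nat_lit 0) (nat_lit 157) (nat_lit 152) (nat_lit 141)) (PT.lf (nat_lit 8132) (nat_lit 6) (nat_lit 107) (nat_lit 0) (nat_lit 158) (nat_lit 152) (nat_lit 140))))) (PT.nd (nat_lit 45084) (PT.nd (nat_lit 78) (PT.lf (nat_lit 7296) (nat_lit 6) (nat_lit 96) (nat_lit 0) (nat_lit 159) (nat_lit 152) (nat_lit 139)) (PT.nd (nat_lit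 78) (PT.lf (nat_lit 6840) (nat_lit 6) (nat_lit 90) (nat_lit 0) (nat_lit 160) (nat_lit 152) (nat_lit 138)) (PT.lf (nat_lit 6460) (nat_lit 6) (nat_lit 85) (nat_lit 0) (nat_lit 161) (nat_lit 152) (nat_lit 137)))) (PT.nd (nat_lit 156) (PT.nd (nat_lit 78) (PT.lf (nat_lit 6080) (nat_lit 6) (nat_lit 80) (nat_lit 5) (nat_lit 136) (nat_lit 153) (nat_lit 161)) (PT.lf (nat_lit 6536) (nat_lit 6) (nat_lit 86) (nat_lit 5) (nat_lit 137) (nat_lit 153) (nat_lit 160))) (PT.nd (nat_lit 78) (PT.lf (nat_lit 6916) (nat_lit 6) (nat_lit 91) (nat_lit 5) (nat_lit 138) (nat_lit 153) (nat_lit 159)) (PT.lf (nat_lit 7372) (nat_lit 6) (nat_lit 97) (nat_lit 5) (nat_lit 139) (nat_lit 153) (nat_lit 158))))))) (PT.nd (nat_lit 1014) (PT.nd (nat_lit 468) (PT.nd (nat_lit 234) (PT.nd (nat_lit 78) (PT.lf (nat_lit 8208) (nat_lit 6) (nat_lit 108) (nat_lit 5) (nat_lit 140) (nat_lit 153) (nat_lit 157)) (PT.nd (nat_lit 78) (PT.lf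 (nat_lit 8968) (nat_lit 6) (nat_lit 118) (nat_lit 5) (nat_lit 141) (nat_lit 153) (nat_lit 156)) (PT.lf (nat_lit 9652) (nat_lit 6) (nat_lit 127) (nat_lit 5) (nat_lit 142) (nat_lit 153) (nat_lit 155)))) (PT.nd (nat_lit 78) (PT.lf (nat_lit 10260) (nat_lit 6) (nat_lit 135) (nat_lit 5) (nat_lit 143) (nat_lit 153) (nat_lit 154)) (PT.nd (nat_lit 78) (PT.lf (nat_lit 10792) (nat_lit 3) (nat_lit 142) (nat_lit 4) (nat_lit 144) (nat_lit 153) (nat_lit 153)) (PT.lf (nat_lit 11172) (nat_lit 6) (nat_lit 147) (nat_lit 4) (nat_lit 145) (nat_lit 153) (nat_lit 152))))) (PT.nd (nat_lit 234) (PT.nd (nat_lit 78) (PT.lf (nat_lit 11476) (nat_lit 6) (nat_lit 151) (nat_lit 4) (nat_lit 146) (nat_lit 153) (nat_lit 151)) (PT.nd (nat_lit 78) (PT.lf (nat_lit 11704) (nat_lit 6) (nat_lit 154) (nat_lit 4) (nat_lit 147) (nat_lit 153) (nat_lit 150)) (PT.lf (nat_lit 11628) (nat_lit 6) (nat_lit 153) (nat_lit 4) (nat_lit 148)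 (nat_lit 153) (nat_lit 149)))) (PT.nd (nat_lit 156) (PT.nd (nat_lit 78) (PT.lf (nat_lit 11628) (nat_lit 6) (nat_lit 153) (nat_lit 2) (nat_lit 149) (nat_lit 153) (nat_lit 148)) (PT.lf (nat_lit 11704) (nat_lit 6) (nat_lit 154) (nat_lit 2) (nat_lit 150) (nat_lit 153) (nat_lit 147))) (PT.nd (nat_lit 78) (PT.lf (nat_lit 11476) (nat_lit 6) (nat_lit 151) (nat_lit 2) (nat_lit 151) (nat_lit 153) (nat_lit 146)) (PT.lf (nat_lit 11172) (nat_lit 6) (nat_lit 147) (nat_lit 2) (nat_lit 152) (nat_lit 153) (nat_lit 145)))))) (PT.nd (nat_lit 546) (PT.nd (nat_lit 234) (PT.nd (nat_lit 78) (PT.lf (nat_lit 10792) (nat_lit 3) (nat_lit 142) (nat_lit 0) (nat_lit 153) (nat_lit 153) (nat_lit 144)) (PT.nd (nat_lit 78) (PT.lf (nat_lit 10260) (nat_lit 6) (nat_lit 135) (nat_lit 0) (nat_lit 154) (nat_lit 153) (nat_lit 143)) (PT.lf (nat_lit 9652) (nat_lit 6) (nat_lit 127) (nat_lit 0) (nat_lit 155) (nat_lit 153) (nat_lit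 142)))) (PT.nd (nat_lit 156) (PT.nd (nat_lit 78) (PT.lf (nat_lit 8968) (nat_lit 6) (nat_lit 118) (nat_lit 0) (nat_lit 156) (nat_lit 153) (nat_lit 141)) (PT.lf (nat_lit 8208) (nat_lit 6) (nat_lit 108) (nat_lit 0) (nat_lit 157) (nat_lit 153) (nat_lit 140))) (PT.nd (nat_lit 78) (PT.lf (nat_lit 7372) (nat_lit 6) (nat_lit 97) (nat_lit 0) (nat_lit 158) (nat_lit 153) (nat_lit 139)) (PT.lf (nat_lit 6916) (nat_lit 6) (nat_lit 91) (nat_lit 0) (nat_lit 159) (nat_lit 153) (nat_lit 138))))) (PT.nd (nat_lit 45006) (PT.nd (nat_lit 78) (PT.lf (nat_lit 6536) (nat_lit 6) (nat_lit 86) (nat_lit 0) (nat_lit 160) (nat_lit 153) (nat_lit 137)) (PT.nd (nat_lit 44850) (PT.lf (nat_lit 6080) (nat_lit 6) (nat_lit 80) (nat_lit 0) (nat_lit 161) (nat_lit 153) (nat_lit 136)) (PT.lf (nat_lit 5776) (nat_lit 6) (nat_lit 76) (nat_lit 5) (nat_lit 135) (nat_lit 154) (nat_lit 161)))) (PT.nd (nat_lit 156) (PT.nd (nat_lit 78) (PT.lf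 (nat_lit 6156) (nat_lit 6) (nat_lit 81) (nat_lit 5) (nat_lit 136) (nat_lit 154) (nat_lit 160)) (PT.lf (nat_lit 6612) (nat_lit 6) (nat_lit 87) (nat_lit 5) (nat_lit 137) (nat_lit 154) (nat_lit 159))) (PT.nd (nat_lit 78) (PT.lf (nat_lit 6992) (nat_lit 6) (nat_lit 92) (nat_lit 5) (nat_lit 138) (nat_lit 154) (nat_lit 158)) (PT.lf (nat_lit 7448) (nat_lit 6) (nat_lit 98) (nat_lit 5) (nat_lit 139) (nat_lit 154) (nat_lit 157))))))))
noncomputable def pc8 : PT := (PT.nd (nat_lit 46722) (PT.nd (nat_lit 1014) (PT.nd (nat_lit 468) (PT.nd (nat_lit 234) (PT.nd (nat_lit 78) (PT.lf (nat_lit 8284) (nat_lit 6) (nat_lit 109) (nat_lit 5) (nat_lit 140) (nat_lit 154) (nat_lit 156)) (PT.nd (nat_lit 78) (PT.lf (nat_lit 9044) (nat_lit 6) (nat_lit 119) (nat_lit 5) (nat_lit 141) (nat_lit 154) (nat_lit 155)) (PT.lf (nat_lit 9728) (nat_lit 3) (nat_lit 128) (nat_lit 4) (nat_lit 142) (nat_lit 154) (nat_lit 154)))) (PT.nd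 (nat_lit 78) (PT.lf (nat_lit 10260) (nat_lit 6) (nat_lit 135) (nat_lit 4) (nat_lit 143) (nat_lit 154) (nat_lit 153)) (PT.nd (nat_lit 78) (PT.lf (nat_lit 10716) (nat_lit 6) (nat_lit 141) (nat_lit 4) (nat_lit 144) (nat_lit 154) (nat_lit 152)) (PT.lf (nat_lit 11096) (nat_lit 6) (nat_lit 146) (nat_lit 4) (nat_lit 145) (nat_lit 154) (nat_lit 151))))) (PT.nd (nat_lit 234) (PT.nd (nat_lit 78) (PT.lf (nat_lit 11400) (nat_lit 6) (nat_lit 150) (nat_lit 4) (nat_lit 146) (nat_lit 154) (nat_lit 150)) (PT.nd (nat_lit 78) (PT.lf (nat_lit 11324) (nat_lit 6) (nat_lit 149) (nat_lit 4) (nat_lit 147) (nat_lit 154) (nat_lit 149)) (PT.lf (nat_lit 11248) (nat_lit 3) (nat_lit 148) (nat_lit 2) (nat_lit 148) (nat_lit 154) (nat_lit 148)))) (PT.nd (nat_lit 156) (PT.nd (nat_lit 78) (PT.lf (nat_lit 11324) (nat_lit 6) (nat_lit 149) (nat_lit 2) (nat_lit 149) (nat_lit 154) (nat_lit 147)) (PT.lf (nat_lit 11400) (nat_lit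 6) (nat_lit 150) (nat_lit 2) (nat_lit 150) (nat_lit 154) (nat_lit 146))) (PT.nd (nat_lit 78) (PT.lf (nat_lit 11096) (nat_lit 6) (nat_lit 146) (nat_lit 2) (nat_lit 151) (nat_lit 154) (nat_lit 145)) (PT.lf (nat_lit 10716) (nat_lit 6) (nat_lit 141) (nat_lit 2) (nat_lit 152) (nat_lit 154) (nat_lit 144)))))) (PT.nd (nat_lit 546) (PT.nd (nat_lit 234) (PT.nd (nat_lit 78) (PT.lf (nat_lit 10260) (nat_lit 6) (nat_lit 135) (nat_lit 2) (nat_lit 153) (nat_lit 154) (nat_lit 143)) (PT.nd (nat_lit 78) (PT.lf (nat_lit 9728) (nat_lit 3) (nat_lit 128) (nat_lit 0) (nat_lit 154) (nat_lit 154) (nat_lit 142)) (PT.lf (nat_lit 9044) (nat_lit 6) (nat_lit 119) (nat_lit 0) (nat_lit 155) (nat_lit 154) (nat_lit 141)))) (PT.nd (nat_lit 156) (PT.nd (nat_lit 78) (PT.lf (nat_lit 8284) (nat_lit 6) (nat_lit 109) (nat_lit 0) (nat_lit 156) (nat_lit 154) (nat_lit 140)) (PT.lf (nat_lit 7448) (nat_lit 6) (nat_lit 98) (nat_lit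 0) (nat_lit 157) (nat_lit 154) (nat_lit 139))) (PT.nd (nat_lit 78) (PT.lf (nat_lit 6992) (nat_lit 6) (nat_lit 92) (nat_lit 0) (nat_lit 158) (nat_lit 154) (nat_lit 138)) (PT.lf (nat_lit 6612) (nat_lit 6) (nat_lit 87) (nat_lit 0) (nat_lit 159) (nat_lit 154) (nat_lit 137))))) (PT.nd (nat_lit 44850) (PT.nd (nat_lit 78) (PT.lf (nat_lit 6156) (nat_lit 6) (nat_lit 81) (nat_lit 0) (nat_lit 160) (nat_lit 154) (nat_lit 136)) (PT.nd (nat_lit 44694) (PT.lf (nat_lit 5776) (nat_lit 6) (nat_lit 76) (nat_lit 0) (nat_lit 161) (nat_lit 154) (nat_lit 135)) (PT.lf (nat_lit 5168) (nat_lit 6) (nat_lit 68) (nat_lit 5) (nat_lit 133) (nat_lit 155) (nat_lit 162)))) (PT.nd (nat_lit 156) (PT.nd (nat_lit 78) (PT.lf (nat_lit 5472) (nat_lit 6) (nat_lit 72) (nat_lit 5) (nat_lit 134) (nat_lit 155) (nat_lit 161)) (PT.lf (nat_lit 5852) (nat_lit 6) (nat_lit 77) (nat_lit 5) (nat_lit 135) (nat_lit 155) (nat_lit 160))) (PT.nd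 (nat_lit 78) (PT.lf (nat_lit 6232) (nat_lit 6) (nat_lit 82) (nat_lit 5) (nat_lit 136) (nat_lit 155) (nat_lit 159)) (PT.lf (nat_lit 6688) (nat_lit 6) (nat_lit 88) (nat_lit 5) (nat_lit 137) (nat_lit 155) (nat_lit 158))))))) (PT.nd (nat_lit 1014) (PT.nd (nat_lit 468) (PT.nd (nat_lit 234) (PT.nd (nat_lit 78) (PT.lf (nat_lit 7068) (nat_lit 6) (nat_lit 93) (nat_lit 5) (nat_lit 138) (nat_lit 155) (nat_lit 157)) (PT.nd (nat_lit 78) (PT.lf (nat_lit 7524) (nat_lit 6) (nat_lit 99) (nat_lit 5) (nat_lit 139) (nat_lit 155) (nat_lit 156)) (PT.lf (nat_lit 8360) (nat_lit 3) (nat_lit 110) (nat_lit 4) (nat_lit 140) (nat_lit 155) (nat_lit 155)))) (PT.nd (nat_lit 78) (PT.lf (nat_lit 9044) (nat_lit 6) (nat_lit 119) (nat_lit 4) (nat_lit 141) (nat_lit 155) (nat_lit 154)) (PT.nd (nat_lit 78) (PT.lf (nat_lit 9652) (nat_lit 6) (nat_lit 127) (nat_lit 4) (nat_lit 142) (nat_lit 155) (nat_lit 153)) (PT.lf (nat_lit 10184)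 (nat_lit 6) (nat_lit 134) (nat_lit 4) (nat_lit 143) (nat_lit 155) (nat_lit 152))))) (PT.nd (nat_lit 234) (PT.nd (nat_lit 78) (PT.lf (nat_lit 10640) (nat_lit 6) (nat_lit 140) (nat_lit 4) (nat_lit 144) (nat_lit 155) (nat_lit 151)) (PT.nd (nat_lit 78) (PT.lf (nat_lit 11020) (nat_lit 6) (nat_lit 145) (nat_lit 4) (nat_lit 145) (nat_lit 155) (nat_lit 150)) (PT.lf (nat_lit 10944) (nat_lit 6) (nat_lit 144) (nat_lit 4) (nat_lit 146) (nat_lit 155) (nat_lit 149)))) (PT.nd (nat_lit 156) (PT.nd (nat_lit 78) (PT.lf (nat_lit 10868) (nat_lit 6) (nat_lit 143) (nat_lit 4) (nat_lit 147) (nat_lit 155) (nat_lit 148)) (PT.lf (nat_lit 10868) (nat_lit 6) (nat_lit 143) (nat_lit 2) (nat_lit 148) (nat_lit 155) (nat_lit 147))) (PT.nd (nat_lit 78) (PT.lf (nat_lit 10944) (nat_lit 6) (nat_lit 144) (nat_lit 2) (nat_lit 149) (nat_lit 155) (nat_lit 146)) (PT.lf (nat_lit 11020) (nat_lit 6) (nat_lit 145) (nat_lit 2) (nat_lit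 150) (nat_lit 155) (nat_lit 145)))))) (PT.nd (nat_lit 546) (PT.nd (nat_lit 234) (PT.nd (nat_lit 78) (PT.lf (nat_lit 10640) (nat_lit 6) (nat_lit 140) (nat_lit 2) (nat_lit 151) (nat_lit 155) (nat_lit 144)) (PT.nd (nat_lit 78) (PT.lf (nat_lit 10184) (nat_lit 6) (nat_lit 134) (nat_lit 2) (nat_lit 152) (nat_lit 155) (nat_lit 143)) (PT.lf (nat_lit 9652) (nat_lit 6) (nat_lit 127) (nat_lit 2) (nat_lit 153) (nat_lit 155) (nat_lit 142)))) (PT.nd (nat_lit 156) (PT.nd (nat_lit 78) (PT.lf (nat_lit 9044) (nat_lit 6) (nat_lit 119) (nat_lit 2) (nat_lit 154) (nat_lit 155) (nat_lit 141)) (PT.lf (nat_lit 8360) (nat_lit 3) (nat_lit 110) (nat_lit 0) (nat_lit 155) (nat_lit 155) (nat_lit 140))) (PT.nd (nat_lit 78) (PT.lf (nat_lit 7524) (nat_lit 6) (nat_lit 99) (nat_lit 0) (nat_lit 156) (nat_lit 155) (nat_lit 139)) (PT.lf (nat_lit 7068) (nat_lit 6) (nat_lit 93) (nat_lit 0) (nat_lit 157) (nat_lit 155) (nat_lit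 138))))) (PT.nd (nat_lit 234) (PT.nd (nat_lit 78) (PT.lf (nat_lit 6688) (nat_lit 6) (nat_lit 88) (nat_lit 0) (nat_lit 158) (nat_lit 155) (nat_lit 137)) (PT.nd (nat_lit 78) (PT.lf (nat_lit 6232) (nat_lit 6) (nat_lit 82) (nat_lit 0) (nat_lit 159) (nat_lit 155) (nat_lit 136)) (PT.lf (nat_lit 5852) (nat_lit 6) (nat_lit 77) (nat_lit 0) (nat_lit 160) (nat_lit 155) (nat_lit 135)))) (PT.nd (nat_lit 44616) (PT.nd (nat_lit 78) (PT.lf (nat_lit 5472) (nat_lit 6) (nat_lit 72) (nat_lit 0) (nat_lit 161) (nat_lit 155) (nat_lit 134)) (PT.lf (nat_lit 5168) (nat_lit 6) (nat_lit 68) (nat_lit 0) (nat_lit 162) (nat_lit 155) (nat_lit 133))) (PT.nd (nat_lit 78) (PT.lf (nat_lit 4864) (nat_lit 6) (nat_lit 64) (nat_lit 5) (nat_lit 132) (nat_lit 156) (nat_lit 162)) (PT.lf (nat_lit 5244) (nat_lit 6) (nat_lit 69) (nat_lit 5) (nat_lit 133) (nat_lit 156) (nat_lit 161))))))))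
noncomputable def pc9 : PT := (PT.nd (nat_lit 2106) (PT.nd (nat_lit 1014) (PT.nd (nat_lit 468) (PT.nd (nat_lit 234) (PT.nd (nat_lit 78) (PT.lf (nat_lit 5548) (nat_lit 6) (nat_lit 73) (nat_lit 5) (nat_lit 134) (nat_lit 156) (nat_lit 160)) (PT.nd (nat_lit 78) (PT.lf (nat_lit 5928) (nat_lit 6) (nat_lit 78) (nat_lit 5) (nat_lit 135) (nat_lit 156) (nat_lit 159)) (PT.lf (nat_lit 6308) (nat_lit 6) (nat_lit 83) (nat_lit 5) (nat_lit 136) (nat_lit 156) (nat_lit 158)))) (PT.nd (nat_lit 78) (PT.lf (nat_lit 6764) (nat_lit 6) (nat_lit 89) (nat_lit 5) (nat_lit 137) (nat_lit 156) (nat_lit 157)) (PT.nd (nat_lit 78) (PT.lf (nat_lit 7144) (nat_lit 3) (nat_lit 94) (nat_lit 4) (nat_lit 138) (nat_lit 156) (nat_lit 156)) (PT.lf (nat_lit 7524) (nat_lit 6) (nat_lit 99) (nat_lit 4) (nat_lit 139) (nat_lit 156) (nat_lit 155))))) (PT.nd (nat_lit 234) (PT.nd (nat_lit 78) (PT.lf (nat_lit 8284) (nat_lit 6) (nat_lit 109)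 (nat_lit 4) (nat_lit 140) (nat_lit 156) (nat_lit 154)) (PT.nd (nat_lit 78) (PT.lf (nat_lit 8968) (nat_lit 6) (nat_lit 118) (nat_lit 4) (nat_lit 141) (nat_lit 156) (nat_lit 153)) (PT.lf (nat_lit 9576) (nat_lit 6) (nat_lit 126) (nat_lit 4) (nat_lit 142) (nat_lit 156) (nat_lit 152)))) (PT.nd (nat_lit 156) (PT.nd (nat_lit 78) (PT.lf (nat_lit 10108) (nat_lit 6) (nat_lit 133) (nat_lit 4) (nat_lit 143) (nat_lit 156) (nat_lit 151)) (PT.lf (nat_lit 10564) (nat_lit 6) (nat_lit 139) (nat_lit 4) (nat_lit 144) (nat_lit 156) (nat_lit 150))) (PT.nd (nat_lit 78) (PT.lf (nat_lit 10488) (nat_lit 6) (nat_lit 138) (nat_lit 4) (nat_lit 145) (nat_lit 156) (nat_lit 149)) (PT.lf (nat_lit 10412) (nat_lit 6) (nat_lit 137) (nat_lit 4) (nat_lit 146) (nat_lit 156) (nat_lit 148)))))) (PT.nd (nat_lit 546) (PT.nd (nat_lit 234) (PT.nd (nat_lit 78) (PT.lf (nat_lit 10336) (nat_lit 3) (nat_lit 136) (nat_lit 2) (nat_lit 147)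 (nat_lit 156) (nat_lit 147)) (PT.nd (nat_lit 78) (PT.lf (nat_lit 10412) (nat_lit 6) (nat_lit 137) (nat_lit 2) (nat_lit 148) (nat_lit 156) (nat_lit 146)) (PT.lf (nat_lit 10488) (nat_lit 6) (nat_lit 138) (nat_lit 2) (nat_lit 149) (nat_lit 156) (nat_lit 145)))) (PT.nd (nat_lit 156) (PT.nd (nat_lit 78) (PT.lf (nat_lit 10564) (nat_lit 6) (nat_lit 139) (nat_lit 2) (nat_lit 150) (nat_lit 156) (nat_lit 144)) (PT.lf (nat_lit 10108) (nat_lit 6) (nat_lit 133) (nat_lit 2) (nat_lit 151) (nat_lit 156) (nat_lit 143))) (PT.nd (nat_lit 78) (PT.lf (nat_lit 9576) (nat_lit 6) (nat_lit 126) (nat_lit 2) (nat_lit 152) (nat_lit 156) (nat_lit 142)) (PT.lf (nat_lit 8968) (nat_lit 6) (nat_lit 118) (nat_lit 2) (nat_lit 153) (nat_lit 156) (nat_lit 141))))) (PT.nd (nat_lit 234) (PT.nd (nat_lit 78) (PT.lf (nat_lit 8284) (nat_lit 6) (nat_lit 109) (nat_lit 2) (nat_lit 154) (nat_lit 156) (nat_lit 140)) (PT.nd (nat_lit 78)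 (PT.lf (nat_lit 7524) (nat_lit 6) (nat_lit 99) (nat_lit 2) (nat_lit 155) (nat_lit 156) (nat_lit 139)) (PT.lf (nat_lit 7144) (nat_lit 3) (nat_lit 94) (nat_lit 0) (nat_lit 156) (nat_lit 156) (nat_lit 138)))) (PT.nd (nat_lit 156) (PT.nd (nat_lit 78) (PT.lf (nat_lit 6764) (nat_lit 6) (nat_lit 89) (nat_lit 0) (nat_lit 157) (nat_lit 156) (nat_lit 137)) (PT.lf (nat_lit 6308) (nat_lit 6) (nat_lit 83) (nat_lit 0) (nat_lit 158) (nat_lit 156) (nat_lit 136))) (PT.nd (nat_lit 78) (PT.lf (nat_lit 5928) (nat_lit 6) (nat_lit 78) (nat_lit 0) (nat_lit 159) (nat_lit 156) (nat_lit 135)) (PT.lf (nat_lit 5548) (nat_lit 6) (nat_lit 73) (nat_lit 0) (nat_lit 160) (nat_lit 156) (nat_lit 134))))))) (PT.nd (nat_lit 45318) (PT.nd (nat_lit 44772) (PT.nd (nat_lit 44538) (PT.nd (nat_lit 78) (PT.lf (nat_lit 5244) (nat_lit 6) (nat_lit 69) (nat_lit 0) (nat_lit 161) (nat_lit 156) (nat_lit 133)) (PT.nd (nat_lit 44382) (PT.lf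 (nat_lit 4864) (nat_lit 6) (nat_lit 64) (nat_lit 0) (nat_lit 162) (nat_lit 156) (nat_lit 132)) (PT.lf (nat_lit 4332) (nat_lit 6) (nat_lit 57) (nat_lit 5) (nat_lit 130) (nat_lit 157) (nat_lit 163)))) (PT.nd (nat_lit 78) (PT.lf (nat_lit 4636) (nat_lit 6) (nat_lit 61) (nat_lit 5) (nat_lit 131) (nat_lit 157) (nat_lit 162)) (PT.nd (nat_lit 78) (PT.lf (nat_lit 4940) (nat_lit 6) (nat_lit 65) (nat_lit 5) (nat_lit 132) (nat_lit 157) (nat_lit 161)) (PT.lf (nat_lit 5320) (nat_lit 6) (nat_lit 70) (nat_lit 5) (nat_lit 133) (nat_lit 157) (nat_lit 160))))) (PT.nd (nat_lit 234) (PT.nd (nat_lit 78) (PT.lf (nat_lit 5624) (nat_lit 6) (nat_lit 74) (nat_lit 5) (nat_lit 134) (nat_lit 157) (nat_lit 159)) (PT.nd (nat_lit 78) (PT.lf (nat_lit 6004) (nat_lit 6) (nat_lit 79) (nat_lit 5) (nat_lit 135) (nat_lit 157) (nat_lit 158)) (PT.lf (nat_lit 6384) (nat_lit 3) (nat_lit 84) (nat_lit 4) (nat_lit 136) (nat_lit 157)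 (nat_lit 157)))) (PT.nd (nat_lit 156) (PT.nd (nat_lit 78) (PT.lf (nat_lit 6764) (nat_lit 6) (nat_lit 89) (nat_lit 4) (nat_lit 137) (nat_lit 157) (nat_lit 156)) (PT.lf (nat_lit 7068) (nat_lit 6) (nat_lit 93) (nat_lit 4) (nat_lit 138) (nat_lit 157) (nat_lit 155))) (PT.nd (nat_lit 78) (PT.lf (nat_lit 7448) (nat_lit 6) (nat_lit 98) (nat_lit 4) (nat_lit 139) (nat_lit 157) (nat_lit 154)) (PT.lf (nat_lit 8208) (nat_lit 6) (nat_lit 108) (nat_lit 4) (nat_lit 140) (nat_lit 157) (nat_lit 153)))))) (PT.nd (nat_lit 546) (PT.nd (nat_lit 234) (PT.nd (nat_lit 78) (PT.lf (nat_lit 8892) (nat_lit 6) (nat_lit 117) (nat_lit 4) (nat_lit 141) (nat_lit 157) (nat_lit 152)) (PT.nd (nat_lit 78) (PT.lf (nat_lit 9500) (nat_lit 6) (nat_lit 125) (nat_lit 4) (nat_lit 142) (nat_lit 157) (nat_lit 151)) (PT.lf (nat_lit 10032) (nat_lit 6) (nat_lit 132) (nat_lit 4) (nat_lit 143) (nat_lit 157) (nat_lit 150)))) (PT.nd (nat_lit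 156) (PT.nd (nat_lit 78) (PT.lf (nat_lit 9956) (nat_lit 6) (nat_lit 131) (nat_lit 4) (nat_lit 144) (nat_lit 157) (nat_lit 149)) (PT.lf (nat_lit 9880) (nat_lit 6) (nat_lit 130) (nat_lit 4) (nat_lit 145) (nat_lit 157) (nat_lit 148))) (PT.nd (nat_lit 78) (PT.lf (nat_lit 9804) (nat_lit 6) (nat_lit 129) (nat_lit 4) (nat_lit 146) (nat_lit 157) (nat_lit 147)) (PT.lf (nat_lit 9804) (nat_lit 6) (nat_lit 129) (nat_lit 2) (nat_lit 147) (nat_lit 157) (nat_lit 146))))) (PT.nd (nat_lit 234) (PT.nd (nat_lit 78) (PT.lf (nat_lit 9880) (nat_lit 6) (nat_lit 130) (nat_lit 2) (nat_lit 148) (nat_lit 157) (nat_lit 145)) (PT.nd (nat_lit 78) (PT.lf (nat_lit 9956) (nat_lit 6) (nat_lit 131) (nat_lit 2) (nat_lit 149) (nat_lit 157) (nat_lit 144)) (PT.lf (nat_lit 10032) (nat_lit 6) (nat_lit 132) (nat_lit 2) (nat_lit 150) (nat_lit 157) (nat_lit 143)))) (PT.nd (nat_lit 156) (PT.nd (nat_lit 78) (PT.lf (nat_lit 9500) (nat_lit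 6) (nat_lit 125) (nat_lit 2) (nat_lit 151) (nat_lit 157) (nat_lit 142)) (PT.lf (nat_lit 8892) (nat_lit 6) (nat_lit 117) (nat_lit 2) (nat_lit 152) (nat_lit 157) (nat_lit 141))) (PT.nd (nat_lit 78) (PT.lf (nat_lit 8208) (nat_lit 6) (nat_lit 108) (nat_lit 2) (nat_lit 153) (nat_lit 157) (nat_lit 140)) (PT.lf (nat_lit 7448) (nat_lit 6) (nat_lit 98) (nat_lit 2) (nat_lit 154) (nat_lit 157) (nat_lit 139))))))))
noncomputable def pc10 : PT := (PT.nd (nat_lit 46254) (PT.nd (nat_lit 45162) (PT.nd (nat_lit 468) (PT.nd (nat_lit 234) (PT.nd (nat_lit 78) (PT.lf (nat_lit 7068) (nat_lit 6) (nat_lit 93) (nat_lit 2) (nat_lit 155) (nat_lit 157) (nat_lit 138)) (PT.nd (nat_lit 78) (PT.lf (nat_lit 6764) (nat_lit 6) (nat_lit 89) (nat_lit 2) (nat_lit 156) (nat_lit 157) (nat_lit 137)) (PT.lf (nat_lit 6384) (nat_lit 3) (nat_lit 84) (nat_lit 0) (nat_lit 157) (nat_lit 157) (nat_lit 136)))) (PT.nd (nat_lit 78) (PT.lf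 (nat_lit 6004) (nat_lit 6) (nat_lit 79) (nat_lit 0) (nat_lit 158) (nat_lit 157) (nat_lit 135)) (PT.nd (nat_lit 78) (PT.lf (nat_lit 5624) (nat_lit 6) (nat_lit 74) (nat_lit 0) (nat_lit 159) (nat_lit 157) (nat_lit 134)) (PT.lf (nat_lit 5320) (nat_lit 6) (nat_lit 70) (nat_lit 0) (nat_lit 160) (nat_lit 157) (nat_lit 133))))) (PT.nd (nat_lit 44382) (PT.nd (nat_lit 78) (PT.lf (nat_lit 4940) (nat_lit 6) (nat_lit 65) (nat_lit 0) (nat_lit 161) (nat_lit 157) (nat_lit 132)) (PT.nd (nat_lit 78) (PT.lf (nat_lit 4636) (nat_lit 6) (nat_lit 61) (nat_lit 0) (nat_lit 162) (nat_lit 157) (nat_lit 131)) (PT.lf (nat_lit 4332) (nat_lit 6) (nat_lit 57) (nat_lit 0) (nat_lit 163) (nat_lit 157) (nat_lit 130)))) (PT.nd (nat_lit 156) (PT.nd (nat_lit 78) (PT.lf (nat_lit 4104) (nat_lit 6) (nat_lit 54) (nat_lit 5) (nat_lit 129) (nat_lit 158) (nat_lit 163)) (PT.lf (nat_lit 4408) (nat_lit 6) (nat_lit 58) (nat_lit 5) (nat_lit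 130) (nat_lit 158) (nat_lit 162))) (PT.nd (nat_lit 78) (PT.lf (nat_lit 4712) (nat_lit 6) (nat_lit 62) (nat_lit 5) (nat_lit 131) (nat_lit 158) (nat_lit 161)) (PT.lf (nat_lit 5016) (nat_lit 6) (nat_lit 66) (nat_lit 5) (nat_lit 132) (nat_lit 158) (nat_lit 160)))))) (PT.nd (nat_lit 546) (PT.nd (nat_lit 234) (PT.nd (nat_lit 78) (PT.lf (nat_lit 5396) (nat_lit 6) (nat_lit 71) (nat_lit 5) (nat_lit 133) (nat_lit 158) (nat_lit 159)) (PT.nd (nat_lit 78) (PT.lf (nat_lit 5700) (nat_lit 3) (nat_lit 75) (nat_lit 4) (nat_lit 134) (nat_lit 158) (nat_lit 158)) (PT.lf (nat_lit 6004) (nat_lit 6) (nat_lit 79) (nat_lit 4) (nat_lit 135) (nat_lit 158) (nat_lit 157)))) (PT.nd (nat_lit 156) (PT.nd (nat_lit 78) (PT.lf (nat_lit 6308) (nat_lit 6) (nat_lit 83) (nat_lit 4) (nat_lit 136) (nat_lit 158) (nat_lit 156)) (PT.lf (nat_lit 6688) (nat_lit 6) (nat_lit 88) (nat_lit 4) (nat_lit 137) (nat_lit 158) (nat_lit 155)))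 (PT.nd (nat_lit 78) (PT.lf (nat_lit 6992) (nat_lit 6) (nat_lit 92) (nat_lit 4) (nat_lit 138) (nat_lit 158) (nat_lit 154)) (PT.lf (nat_lit 7372) (nat_lit 6) (nat_lit 97) (nat_lit 4) (nat_lit 139) (nat_lit 158) (nat_lit 153))))) (PT.nd (nat_lit 234) (PT.nd (nat_lit 78) (PT.lf (nat_lit 8132) (nat_lit 6) (nat_lit 107) (nat_lit 4) (nat_lit 140) (nat_lit 158) (nat_lit 152)) (PT.nd (nat_lit 78) (PT.lf (nat_lit 8816) (nat_lit 6) (nat_lit 116) (nat_lit 4) (nat_lit 141) (nat_lit 158) (nat_lit 151)) (PT.lf (nat_lit 9424) (nat_lit 6) (nat_lit 124) (nat_lit 4) (nat_lit 142) (nat_lit 158) (nat_lit 150)))) (PT.nd (nat_lit 156) (PT.nd (nat_lit 78) (PT.lf (nat_lit 9348) (nat_lit 6) (nat_lit 123) (nat_lit 4) (nat_lit 143) (nat_lit 158) (nat_lit 149)) (PT.lf (nat_lit 9272) (nat_lit 6) (nat_lit 122) (nat_lit 4) (nat_lit 144) (nat_lit 158) (nat_lit 148))) (PT.nd (nat_lit 78) (PT.lf (nat_lit 9196) (nat_lit 6)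 (nat_lit 121) (nat_lit 4) (nat_lit 145) (nat_lit 158) (nat_lit 147)) (PT.lf (nat_lit 9120) (nat_lit 3) (nat_lit 120) (nat_lit 2) (nat_lit 146) (nat_lit 158) (nat_lit 146))))))) (PT.nd (nat_lit 1014) (PT.nd (nat_lit 468) (PT.nd (nat_lit 234) (PT.nd (nat_lit 78) (PT.lf (nat_lit 9196) (nat_lit 6) (nat_lit 121) (nat_lit 2) (nat_lit 147) (nat_lit 158) (nat_lit 145)) (PT.nd (nat_lit 78) (PT.lf (nat_lit 9272) (nat_lit 6) (nat_lit 122) (nat_lit 2) (nat_lit 148) (nat_lit 158) (nat_lit 144)) (PT.lf (nat_lit 9348) (nat_lit 6) (nat_lit 123) (nat_lit 2) (nat_lit 149) (nat_lit 158) (nat_lit 143)))) (PT.nd (nat_lit 78) (PT.lf (nat_lit 9424) (nat_lit 6) (nat_lit 124) (nat_lit 2) (nat_lit 150) (nat_lit 158) (nat_lit 142)) (PT.nd (nat_lit 78) (PT.lf (nat_lit 8816) (nat_lit 6) (nat_lit 116) (nat_lit 2) (nat_lit 151) (nat_lit 158) (nat_lit 141)) (PT.lf (nat_lit 8132) (nat_lit 6) (nat_lit 107) (nat_lit 2) (nat_lit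 152) (nat_lit 158) (nat_lit 140))))) (PT.nd (nat_lit 234) (PT.nd (nat_lit 78) (PT.lf (nat_lit 7372) (nat_lit 6) (nat_lit 97) (nat_lit 2) (nat_lit 153) (nat_lit 158) (nat_lit 139)) (PT.nd (nat_lit 78) (PT.lf (nat_lit 6992) (nat_lit 6) (nat_lit 92) (nat_lit 2) (nat_lit 154) (nat_lit 158) (nat_lit 138)) (PT.lf (nat_lit 6688) (nat_lit 6) (nat_lit 88) (nat_lit 2) (nat_lit 155) (nat_lit 158) (nat_lit 137)))) (PT.nd (nat_lit 156) (PT.nd (nat_lit 78) (PT.lf (nat_lit 6308) (nat_lit 6) (nat_lit 83) (nat_lit 2) (nat_lit 156) (nat_lit 158) (nat_lit 136)) (PT.lf (nat_lit 6004) (nat_lit 6) (nat_lit 79) (nat_lit 2) (nat_lit 157) (nat_lit 158) (nat_lit 135))) (PT.nd (nat_lit 78) (PT.lf (nat_lit 5700) (nat_lit 3) (nat_lit 75) (nat_lit 0) (nat_lit 158) (nat_lit 158) (nat_lit 134)) (PT.lf (nat_lit 5396) (nat_lit 6) (nat_lit 71) (nat_lit 0) (nat_lit 159) (nat_lit 158) (nat_lit 133)))))) (PT.nd (nat_lit 44538)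 (PT.nd (nat_lit 234) (PT.nd (nat_lit 78) (PT.lf (nat_lit 5016) (nat_lit 6) (nat_lit 66) (nat_lit 0) (nat_lit 160) (nat_lit 158) (nat_lit 132)) (PT.nd (nat_lit 78) (PT.lf (nat_lit 4712) (nat_lit 6) (nat_lit 62) (nat_lit 0) (nat_lit 161) (nat_lit 158) (nat_lit 131)) (PT.lf (nat_lit 4408) (nat_lit 6) (nat_lit 58) (nat_lit 0) (nat_lit 162) (nat_lit 158) (nat_lit 130)))) (PT.nd (nat_lit 44148) (PT.nd (nat_lit 44070) (PT.lf (nat_lit 4104) (nat_lit 6) (nat_lit 54) (nat_lit 0) (nat_lit 163) (nat_lit 158) (nat_lit 129)) (PT.lf (nat_lit 3648) (nat_lit 6) (nat_lit 48) (nat_lit 5) (nat_lit 127) (nat_lit 159) (nat_lit 164))) (PT.nd (nat_lit 78) (PT.lf (nat_lit 3876) (nat_lit 6) (nat_lit 51) (nat_lit 5) (nat_lit 128) (nat_lit 159) (nat_lit 163)) (PT.lf (nat_lit 4180) (nat_lit 6) (nat_lit 55) (nat_lit 5) (nat_lit 129) (nat_lit 159) (nat_lit 162))))) (PT.nd (nat_lit 234) (PT.nd (nat_lit 78) (PT.lf (nat_lit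 4484) (nat_lit 6) (nat_lit 59) (nat_lit 5) (nat_lit 130) (nat_lit 159) (nat_lit 161)) (PT.nd (nat_lit 78) (PT.lf (nat_lit 4788) (nat_lit 6) (nat_lit 63) (nat_lit 5) (nat_lit 131) (nat_lit 159) (nat_lit 160)) (PT.lf (nat_lit 5092) (nat_lit 3) (nat_lit 67) (nat_lit 4) (nat_lit 132) (nat_lit 159) (nat_lit 159)))) (PT.nd (nat_lit 156) (PT.nd (nat_lit 78) (PT.lf (nat_lit 5396) (nat_lit 6) (nat_lit 71) (nat_lit 4) (nat_lit 133) (nat_lit 159) (nat_lit 158)) (PT.lf (nat_lit 5624) (nat_lit 6) (nat_lit 74) (nat_lit 4) (nat_lit 134) (nat_lit 159) (nat_lit 157))) (PT.nd (nat_lit 78) (PT.lf (nat_lit 5928) (nat_lit 6) (nat_lit 78) (nat_lit 4) (nat_lit 135) (nat_lit 159) (nat_lit 156)) (PT.lf (nat_lit 6232) (nat_lit 6) (nat_lit 82) (nat_lit 4) (nat_lit 136) (nat_lit 159) (nat_lit 155))))))))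
noncomputable def pc11 : PT := (PT.nd (nat_lit 2106) (PT.nd (nat_lit 1014) (PT.nd (nat_lit 468) (PT.nd (nat_lit 234) (PT.nd (nat_lit 78) (PT.lf (nat_lit 6612) (nat_lit 6) (nat_lit 87) (nat_lit 4) (nat_lit 137) (nat_lit 159) (nat_lit 154)) (PT.nd (nat_lit 78) (PT.lf (nat_lit 6916) (nat_lit 6) (nat_lit 91) (nat_lit 4) (nat_lit 138) (nat_lit 159) (nat_lit 153)) (PT.lf (nat_lit 7296) (nat_lit 6) (nat_lit 96) (nat_lit 4) (nat_lit 139) (nat_lit 159) (nat_lit 152)))) (PT.nd (nat_lit 78) (PT.lf (nat_lit 8056) (nat_lit 6) (nat_lit 106) (nat_lit 4) (nat_lit 140) (nat_lit 159) (nat_lit 151)) (PT.nd (nat_lit 78) (PT.lf (nat_lit 8740) (nat_lit 6) (nat_lit 115) (nat_lit 4) (nat_lit 141) (nat_lit 159) (nat_lit 150)) (PT.lf (nat_lit 8664) (nat_lit 6) (nat_lit 114) (nat_lit 4) (nat_lit 142) (nat_lit 159) (nat_lit 149))))) (PT.nd (nat_lit 234) (PT.nd (nat_lit 78) (PT.lf (nat_lit 8588) (nat_lit 6) (nat_lit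 113) (nat_lit 4) (nat_lit 143) (nat_lit 159) (nat_lit 148)) (PT.nd (nat_lit 78) (PT.lf (nat_lit 8512) (nat_lit 6) (nat_lit 112) (nat_lit 4) (nat_lit 144) (nat_lit 159) (nat_lit 147)) (PT.lf (nat_lit 8436) (nat_lit 6) (nat_lit 111) (nat_lit 4) (nat_lit 145) (nat_lit 159) (nat_lit 146)))) (PT.nd (nat_lit 156) (PT.nd (nat_lit 78) (PT.lf (nat_lit 8436) (nat_lit 6) (nat_lit 111) (nat_lit 2) (nat_lit 146) (nat_lit 159) (nat_lit 145)) (PT.lf (nat_lit 8512) (nat_lit 6) (nat_lit 112) (nat_lit 2) (nat_lit 147) (nat_lit 159) (nat_lit 144))) (PT.nd (nat_lit 78) (PT.lf (nat_lit 8588) (nat_lit 6) (nat_lit 113) (nat_lit 2) (nat_lit 148) (nat_lit 159) (nat_lit 143)) (PT.lf (nat_lit 8664) (nat_lit 6) (nat_lit 114) (nat_lit 2) (nat_lit 149) (nat_lit 159) (nat_lit 142)))))) (PT.nd (nat_lit 546) (PT.nd (nat_lit 234) (PT.nd (nat_lit 78) (PT.lf (nat_lit 8740) (nat_lit 6) (nat_lit 115) (nat_lit 2) (nat_lit 150)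 (nat_lit 159) (nat_lit 141)) (PT.nd (nat_lit 78) (PT.lf (nat_lit 8056) (nat_lit 6) (nat_lit 106) (nat_lit 2) (nat_lit 151) (nat_lit 159) (nat_lit 140)) (PT.lf (nat_lit 7296) (nat_lit 6) (nat_lit 96) (nat_lit 2) (nat_lit 152) (nat_lit 159) (nat_lit 139)))) (PT.nd (nat_lit 156) (PT.nd (nat_lit 78) (PT.lf (nat_lit 6916) (nat_lit 6) (nat_lit 91) (nat_lit 2) (nat_lit 153) (nat_lit 159) (nat_lit 138)) (PT.lf (nat_lit 6612) (nat_lit 6) (nat_lit 87) (nat_lit 2) (nat_lit 154) (nat_lit 159) (nat_lit 137))) (PT.nd (nat_lit 78) (PT.lf (nat_lit 6232) (nat_lit 6) (nat_lit 82) (nat_lit 2) (nat_lit 155) (nat_lit 159) (nat_lit 136)) (PT.lf (nat_lit 5928) (nat_lit 6) (nat_lit 78) (nat_lit 2) (nat_lit 156) (nat_lit 159) (nat_lit 135))))) (PT.nd (nat_lit 234) (PT.nd (nat_lit 78) (PT.lf (nat_lit 5624) (nat_lit 6) (nat_lit 74) (nat_lit 2) (nat_lit 157) (nat_lit 159) (nat_lit 134)) (PT.nd (nat_lit 78) (PT.lf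 (nat_lit 5396) (nat_lit 6) (nat_lit 71) (nat_lit 2) (nat_lit 158) (nat_lit 159) (nat_lit 133)) (PT.lf (nat_lit 5092) (nat_lit 3) (nat_lit 67) (nat_lit 0) (nat_lit 159) (nat_lit 159) (nat_lit 132)))) (PT.nd (nat_lit 156) (PT.nd (nat_lit 78) (PT.lf (nat_lit 4788) (nat_lit 6) (nat_lit 63) (nat_lit 0) (nat_lit 160) (nat_lit 159) (nat_lit 131)) (PT.lf (nat_lit 4484) (nat_lit 6) (nat_lit 59) (nat_lit 0) (nat_lit 161) (nat_lit 159) (nat_lit 130))) (PT.nd (nat_lit 78) (PT.lf (nat_lit 4180) (nat_lit 6) (nat_lit 55) (nat_lit 0) (nat_lit 162) (nat_lit 159) (nat_lit 129)) (PT.lf (nat_lit 3876) (nat_lit 6) (nat_lit 51) (nat_lit 0) (nat_lit 163) (nat_lit 159) (nat_lit 128))))))) (PT.nd (nat_lit 44850) (PT.nd (nat_lit 44304) (PT.nd (nat_lit 44070) (PT.nd (nat_lit 43914) (PT.lf (nat_lit 3648) (nat_lit 6) (nat_lit 48) (nat_lit 0) (nat_lit 164) (nat_lit 159) (nat_lit 127)) (PT.nd (nat_lit 78) (PT.lf (nat_lit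 3420) (nat_lit 6) (nat_lit 45) (nat_lit 5) (nat_lit 126) (nat_lit 160) (nat_lit 164)) (PT.lf (nat_lit 3724) (nat_lit 6) (nat_lit 49) (nat_lit 5) (nat_lit 127) (nat_lit 160) (nat_lit 163)))) (PT.nd (nat_lit 78) (PT.lf (nat_lit 3952) (nat_lit 6) (nat_lit 52) (nat_lit 5) (nat_lit 128) (nat_lit 160) (nat_lit 162)) (PT.nd (nat_lit 78) (PT.lf (nat_lit 4256) (nat_lit 6) (nat_lit 56) (nat_lit 5) (nat_lit 129) (nat_lit 160) (nat_lit 161)) (PT.lf (nat_lit 4560) (nat_lit 3) (nat_lit 60) (nat_lit 4) (nat_lit 130) (nat_lit 160) (nat_lit 160))))) (PT.nd (nat_lit 234) (PT.nd (nat_lit 78) (PT.lf (nat_lit 4788) (nat_lit 6) (nat_lit 63) (nat_lit 4) (nat_lit 131) (nat_lit 160) (nat_lit 159)) (PT.nd (nat_lit 78) (PT.lf (nat_lit 5016) (nat_lit 6) (nat_lit 66) (nat_lit 4) (nat_lit 132) (nat_lit 160) (nat_lit 158)) (PT.lf (nat_lit 5320) (nat_lit 6) (nat_lit 70) (nat_lit 4) (nat_lit 133) (nat_lit 160) (nat_lit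 157)))) (PT.nd (nat_lit 156) (PT.nd (nat_lit 78) (PT.lf (nat_lit 5548) (nat_lit 6) (nat_lit 73) (nat_lit 4) (nat_lit 134) (nat_lit 160) (nat_lit 156)) (PT.lf (nat_lit 5852) (nat_lit 6) (nat_lit 77) (nat_lit 4) (nat_lit 135) (nat_lit 160) (nat_lit 155))) (PT.nd (nat_lit 78) (PT.lf (nat_lit 6156) (nat_lit 6) (nat_lit 81) (nat_lit 4) (nat_lit 136) (nat_lit 160) (nat_lit 154)) (PT.lf (nat_lit 6536) (nat_lit 6) (nat_lit 86) (nat_lit 4) (nat_lit 137) (nat_lit 160) (nat_lit 153)))))) (PT.nd (nat_lit 546) (PT.nd (nat_lit 234) (PT.nd (nat_lit 78) (PT.lf (nat_lit 6840) (nat_lit 6) (nat_lit 90) (nat_lit 4) (nat_lit 138) (nat_lit 160) (nat_lit 152)) (PT.nd (nat_lit 78) (PT.lf (nat_lit 7220) (nat_lit 6) (nat_lit 95) (nat_lit 4) (nat_lit 139) (nat_lit 160) (nat_lit 151)) (PT.lf (nat_lit 7980) (nat_lit 6) (nat_lit 105) (nat_lit 4) (nat_lit 140) (nat_lit 160) (nat_lit 150)))) (PT.nd (nat_lit 156) (PT.nd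 (nat_lit 78) (PT.lf (nat_lit 7904) (nat_lit 6) (nat_lit 104) (nat_lit 4) (nat_lit 141) (nat_lit 160) (nat_lit 149)) (PT.lf (nat_lit 7828) (nat_lit 6) (nat_lit 103) (nat_lit 4) (nat_lit 142) (nat_lit 160) (nat_lit 148))) (PT.nd (nat_lit 78) (PT.lf (nat_lit 7752) (nat_lit 6) (nat_lit 102) (nat_lit 4) (nat_lit 143) (nat_lit 160) (nat_lit 147)) (PT.lf (nat_lit 7676) (nat_lit 6) (nat_lit 101) (nat_lit 4) (nat_lit 144) (nat_lit 160) (nat_lit 146))))) (PT.nd (nat_lit 234) (PT.nd (nat_lit 78) (PT.lf (nat_lit 7600) (nat_lit 3) (nat_lit 100) (nat_lit 2) (nat_lit 145) (nat_lit 160) (nat_lit 145)) (PT.nd (nat_lit 78) (PT.lf (nat_lit 7676) (nat_lit 6) (nat_lit 101) (nat_lit 2) (nat_lit 146) (nat_lit 160) (nat_lit 144)) (PT.lf (nat_lit 7752) (nat_lit 6) (nat_lit 102) (nat_lit 2) (nat_lit 147) (nat_lit 160) (nat_lit 143)))) (PT.nd (nat_lit 156) (PT.nd (nat_lit 78) (PT.lf (nat_lit 7828) (nat_lit 6) (nat_lit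 103) (nat_lit 2) (nat_lit 148) (nat_lit 160) (nat_lit 142)) (PT.lf (nat_lit 7904) (nat_lit 6) (nat_lit 104) (nat_lit 2) (nat_lit 149) (nat_lit 160) (nat_lit 141))) (PT.nd (nat_lit 78) (PT.lf (nat_lit 7980) (nat_lit 6) (nat_lit 105) (nat_lit 2) (nat_lit 150) (nat_lit 160) (nat_lit 140)) (PT.lf (nat_lit 7220) (nat_lit 6) (nat_lit 95) (nat_lit 2) (nat_lit 151) (nat_lit 160) (nat_lit 139))))))))
noncomputable def pc12 : PT := (PT.nd (nat_lit 46878) (PT.nd (nat_lit 44694) (PT.nd (nat_lit 468) (PT.nd (nat_lit 234) (PT.nd (nat_lit 78) (PT.lf (nat_lit 6840) (nat_lit 6) (nat_lit 90) (nat_lit 2) (nat_lit 152) (nat_lit 160) (nat_lit 138)) (PT.nd (nat_lit 78) (PT.lf (nat_lit 6536) (nat_lit 6) (nat_lit 86) (nat_lit 2) (nat_lit 153) (nat_lit 160) (nat_lit 137)) (PT.lf (nat_lit 6156) (nat_lit 6) (nat_lit 81) (nat_lit 2) (nat_lit 154) (nat_lit 160) (nat_lit 136)))) (PT.nd (nat_lit 78) (PT.lf (nat_lit 5852)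 (nat_lit 6) (nat_lit 77) (nat_lit 2) (nat_lit 155) (nat_lit 160) (nat_lit 135)) (PT.nd (nat_lit 78) (PT.lf (nat_lit 5548) (nat_lit 6) (nat_lit 73) (nat_lit 2) (nat_lit 156) (nat_lit 160) (nat_lit 134)) (PT.lf (nat_lit 5320) (nat_lit 6) (nat_lit 70) (nat_lit 2) (nat_lit 157) (nat_lit 160) (nat_lit 133))))) (PT.nd (nat_lit 234) (PT.nd (nat_lit 78) (PT.lf (nat_lit 5016) (nat_lit 6) (nat_lit 66) (nat_lit 2) (nat_lit 158) (nat_lit 160) (nat_lit 132)) (PT.nd (nat_lit 78) (PT.lf (nat_lit 4788) (nat_lit 6) (nat_lit 63) (nat_lit 2) (nat_lit 159) (nat_lit 160) (nat_lit 131)) (PT.lf (nat_lit 4560) (nat_lit 3) (nat_lit 60) (nat_lit 0) (nat_lit 160) (nat_lit 160) (nat_lit 130)))) (PT.nd (nat_lit 156) (PT.nd (nat_lit 78) (PT.lf (nat_lit 4256) (nat_lit 6) (nat_lit 56) (nat_lit 0) (nat_lit 161) (nat_lit 160) (nat_lit 129)) (PT.lf (nat_lit 3952) (nat_lit 6) (nat_lit 52) (nat_lit 0) (nat_lit 162) (nat_lit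 160) (nat_lit 128))) (PT.nd (nat_lit 78) (PT.lf (nat_lit 3724) (nat_lit 6) (nat_lit 49) (nat_lit 0) (nat_lit 163) (nat_lit 160) (nat_lit 127)) (PT.lf (nat_lit 3420) (nat_lit 6) (nat_lit 45) (nat_lit 0) (nat_lit 164) (nat_lit 160) (nat_lit 126)))))) (PT.nd (nat_lit 546) (PT.nd (nat_lit 234) (PT.nd (nat_lit 78) (PT.lf (nat_lit 3040) (nat_lit 6) (nat_lit 40) (nat_lit 5) (nat_lit 124) (nat_lit 161) (nat_lit 165)) (PT.nd (nat_lit 78) (PT.lf (nat_lit 3268) (nat_lit 6) (nat_lit 43) (nat_lit 5) (nat_lit 125) (nat_lit 161) (nat_lit 164)) (PT.lf (nat_lit 3496) (nat_lit 6) (nat_lit 46) (nat_lit 5) (nat_lit 126) (nat_lit 161) (nat_lit 163)))) (PT.nd (nat_lit 156) (PT.nd (nat_lit 78) (PT.lf (nat_lit 3800) (nat_lit 6) (nat_lit 50) (nat_lit 5) (nat_lit 127) (nat_lit 161) (nat_lit 162)) (PT.lf (nat_lit 4028) (nat_lit 3) (nat_lit 53) (nat_lit 4) (nat_lit 128) (nat_lit 161) (nat_lit 161))) (PT.nd (nat_lit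 78) (PT.lf (nat_lit 4256) (nat_lit 6) (nat_lit 56) (nat_lit 4) (nat_lit 129) (nat_lit 161) (nat_lit 160)) (PT.lf (nat_lit 4484) (nat_lit 6) (nat_lit 59) (nat_lit 4) (nat_lit 130) (nat_lit 161) (nat_lit 159))))) (PT.nd (nat_lit 234) (PT.nd (nat_lit 78) (PT.lf (nat_lit 4712) (nat_lit 6) (nat_lit 62) (nat_lit 4) (nat_lit 131) (nat_lit 161) (nat_lit 158)) (PT.nd (nat_lit 78) (PT.lf (nat_lit 4940) (nat_lit 6) (nat_lit 65) (nat_lit 4) (nat_lit 132) (nat_lit 161) (nat_lit 157)) (PT.lf (nat_lit 5244) (nat_lit 6) (nat_lit 69) (nat_lit 4) (nat_lit 133) (nat_lit 161) (nat_lit 156)))) (PT.nd (nat_lit 156) (PT.nd (nat_lit 78) (PT.lf (nat_lit 5472) (nat_lit 6) (nat_lit 72) (nat_lit 4) (nat_lit 134) (nat_lit 161) (nat_lit 155)) (PT.lf (nat_lit 5776) (nat_lit 6) (nat_lit 76) (nat_lit 4) (nat_lit 135) (nat_lit 161) (nat_lit 154))) (PT.nd (nat_lit 78) (PT.lf (nat_lit 6080) (nat_lit 6) (nat_lit 80) (nat_lit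 4) (nat_lit 136) (nat_lit 161) (nat_lit 153)) (PT.lf (nat_lit 6460) (nat_lit 6) (nat_lit 85) (nat_lit 4) (nat_lit 137) (nat_lit 161) (nat_lit 152))))))) (PT.nd (nat_lit 1014) (PT.nd (nat_lit 468) (PT.nd (nat_lit 234) (PT.nd (nat_lit 78) (PT.lf (nat_lit 6460) (nat_lit 6) (nat_lit 85) (nat_lit 2) (nat_lit 152) (nat_lit 161) (nat_lit 137)) (PT.nd (nat_lit 78) (PT.lf (nat_lit 6080) (nat_lit 6) (nat_lit 80) (nat_lit 2) (nat_lit 153) (nat_lit 161) (nat_lit 136)) (PT.lf (nat_lit 5776) (nat_lit 6) (nat_lit 76) (nat_lit 2) (nat_lit 154) (nat_lit 161) (nat_lit 135)))) (PT.nd (nat_lit 78) (PT.lf (nat_lit 5472) (nat_lit 6) (nat_lit 72) (nat_lit 2) (nat_lit 155) (nat_lit 161) (nat_lit 134)) (PT.nd (nat_lit 78) (PT.lf (nat_lit 5244) (nat_lit 6) (nat_lit 69) (nat_lit 2) (nat_lit 156) (nat_lit 161) (nat_lit 133)) (PT.lf (nat_lit 4940) (nat_lit 6) (nat_lit 65) (nat_lit 2) (nat_lit 157) (nat_lit 161) (nat_lit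 132))))) (PT.nd (nat_lit 234) (PT.nd (nat_lit 78) (PT.lf (nat_lit 4712) (nat_lit 6) (nat_lit 62) (nat_lit 2) (nat_lit 158) (nat_lit 161) (nat_lit 131)) (PT.nd (nat_lit 78) (PT.lf (nat_lit 4484) (nat_lit 6) (nat_lit 59) (nat_lit 2) (nat_lit 159) (nat_lit 161) (nat_lit 130)) (PT.lf (nat_lit 4256) (nat_lit 6) (nat_lit 56) (nat_lit 2) (nat_lit 160) (nat_lit 161) (nat_lit 129)))) (PT.nd (nat_lit 156) (PT.nd (nat_lit 78) (PT.lf (nat_lit 4028) (nat_lit 3) (nat_lit 53) (nat_lit 0) (nat_lit 161) (nat_lit 161) (nat_lit 128)) (PT.lf (nat_lit 3800) (nat_lit 6) (nat_lit 50) (nat_lit 0) (nat_lit 162) (nat_lit 161) (nat_lit 127))) (PT.nd (nat_lit 78) (PT.lf (nat_lit 3496) (nat_lit 6) (nat_lit 46) (nat_lit 0) (nat_lit 163) (nat_lit 161) (nat_lit 126)) (PT.lf (nat_lit 3268) (nat_lit 6) (nat_lit 43) (nat_lit 0) (nat_lit 164) (nat_lit 161) (nat_lit 125)))))) (PT.nd (nat_lit 44070) (PT.nd (nat_lit 43758) (PT.nd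 (nat_lit 43602) (PT.lf (nat_lit 3040) (nat_lit 6) (nat_lit 40) (nat_lit 0) (nat_lit 165) (nat_lit 161) (nat_lit 124)) (PT.nd (nat_lit 78) (PT.lf (nat_lit 2888) (nat_lit 6) (nat_lit 38) (nat_lit 5) (nat_lit 123) (nat_lit 162) (nat_lit 165)) (PT.lf (nat_lit 3116) (nat_lit 6) (nat_lit 41) (nat_lit 5) (nat_lit 124) (nat_lit 162) (nat_lit 164)))) (PT.nd (nat_lit 156) (PT.nd (nat_lit 78) (PT.lf (nat_lit 3344) (nat_lit 6) (nat_lit 44) (nat_lit 5) (nat_lit 125) (nat_lit 162) (nat_lit 163)) (PT.lf (nat_lit 3572) (nat_lit 3) (nat_lit 47) (nat_lit 4) (nat_lit 126) (nat_lit 162) (nat_lit 162))) (PT.nd (nat_lit 78) (PT.lf (nat_lit 3800) (nat_lit 6) (nat_lit 50) (nat_lit 4) (nat_lit 127) (nat_lit 162) (nat_lit 161)) (PT.lf (nat_lit 3952) (nat_lit 6) (nat_lit 52) (nat_lit 4) (nat_lit 128) (nat_lit 162) (nat_lit 160))))) (PT.nd (nat_lit 234) (PT.nd (nat_lit 78) (PT.lf (nat_lit 4180) (nat_lit 6) (nat_lit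 55) (nat_lit 4) (nat_lit 129) (nat_lit 162) (nat_lit 159)) (PT.nd (nat_lit 78) (PT.lf (nat_lit 4408) (nat_lit 6) (nat_lit 58) (nat_lit 4) (nat_lit 130) (nat_lit 162) (nat_lit 158)) (PT.lf (nat_lit 4636) (nat_lit 6) (nat_lit 61) (nat_lit 4) (nat_lit 131) (nat_lit 162) (nat_lit 157)))) (PT.nd (nat_lit 1794) (PT.nd (nat_lit 78) (PT.lf (nat_lit 4864) (nat_lit 6) (nat_lit 64) (nat_lit 4) (nat_lit 132) (nat_lit 162) (nat_lit 156)) (PT.lf (nat_lit 5168) (nat_lit 6) (nat_lit 68) (nat_lit 4) (nat_lit 133) (nat_lit 162) (nat_lit 155))) (PT.nd (nat_lit 78) (PT.lf (nat_lit 5168) (nat_lit 6) (nat_lit 68) (nat_lit 2) (nat_lit 155) (nat_lit 162) (nat_lit 133)) (PT.lf (nat_lit 4864) (nat_lit 6) (nat_lit 64) (nat_lit 2) (nat_lit 156) (nat_lit 162) (nat_lit 132))))))))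
noncomputable def pc13 : PT := (PT.nd (nat_lit 47502) (PT.nd (nat_lit 44382) (PT.nd (nat_lit 468) (PT.nd (nat_lit 234) (PT.nd (nat_lit 78) (PT.lf (nat_lit 4636) (nat_lit 6) (nat_lit 61) (nat_lit 2) (nat_lit 157) (nat_lit 162) (nat_lit 131)) (PT.nd (nat_lit 78) (PT.lf (nat_lit 4408) (nat_lit 6) (nat_lit 58) (nat_lit 2) (nat_lit 158) (nat_lit 162) (nat_lit 130)) (PT.lf (nat_lit 4180) (nat_lit 6) (nat_lit 55) (nat_lit 2) (nat_lit 159) (nat_lit 162) (nat_lit 129)))) (PT.nd (nat_lit 78) (PT.lf (nat_lit 3952) (nat_lit 6) (nat_lit 52) (nat_lit 2) (nat_lit 160) (nat_lit 162) (nat_lit 128)) (PT.nd (nat_lit 78) (PT.lf (nat_lit 3800) (nat_lit 6) (nat_lit 50) (nat_lit 2) (nat_lit 161) (nat_lit 162) (nat_lit 127)) (PT.lf (nat_lit 3572) (nat_lit 3) (nat_lit 47) (nat_lit 0) (nat_lit 162) (nat_lit 162) (nat_lit 126))))) (PT.nd (nat_lit 43602) (PT.nd (nat_lit 78) (PT.lf (nat_lit 3344) (nat_lit 6) (nat_lit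 44) (nat_lit 0) (nat_lit 163) (nat_lit 162) (nat_lit 125)) (PT.nd (nat_lit 78) (PT.lf (nat_lit 3116) (nat_lit 6) (nat_lit 41) (nat_lit 0) (nat_lit 164) (nat_lit 162) (nat_lit 124)) (PT.lf (nat_lit 2888) (nat_lit 6) (nat_lit 38) (nat_lit 0) (nat_lit 165) (nat_lit 162) (nat_lit 123)))) (PT.nd (nat_lit 156) (PT.nd (nat_lit 78) (PT.lf (nat_lit 2584) (nat_lit 6) (nat_lit 34) (nat_lit 5) (nat_lit 121) (nat_lit 163) (nat_lit 166)) (PT.lf (nat_lit 2736) (nat_lit 6) (nat_lit 36) (nat_lit 5) (nat_lit 122) (nat_lit 163) (nat_lit 165))) (PT.nd (nat_lit 78) (PT.lf (nat_lit 2964) (nat_lit 6) (nat_lit 39) (nat_lit 5) (nat_lit 123) (nat_lit 163) (nat_lit 164)) (PT.lf (nat_lit 3192) (nat_lit 3) (nat_lit 42) (nat_lit 4) (nat_lit 124) (nat_lit 163) (nat_lit 163)))))) (PT.nd (nat_lit 2574) (PT.nd (nat_lit 234) (PT.nd (nat_lit 78) (PT.lf (nat_lit 3344) (nat_lit 6) (nat_lit 44) (nat_lit 4) (nat_lit 125) (nat_lit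 163) (nat_lit 162)) (PT.nd (nat_lit 78) (PT.lf (nat_lit 3496) (nat_lit 6) (nat_lit 46) (nat_lit 4) (nat_lit 126) (nat_lit 163) (nat_lit 161)) (PT.lf (nat_lit 3724) (nat_lit 6) (nat_lit 49) (nat_lit 4) (nat_lit 127) (nat_lit 163) (nat_lit 160)))) (PT.nd (nat_lit 156) (PT.nd (nat_lit 78) (PT.lf (nat_lit 3876) (nat_lit 6) (nat_lit 51) (nat_lit 4) (nat_lit 128) (nat_lit 163) (nat_lit 159)) (PT.lf (nat_lit 4104) (nat_lit 6) (nat_lit 54) (nat_lit 4) (nat_lit 129) (nat_lit 163) (nat_lit 158))) (PT.nd (nat_lit 2106) (PT.lf (nat_lit 4332) (nat_lit 6) (nat_lit 57) (nat_lit 4) (nat_lit 130) (nat_lit 163) (nat_lit 157)) (PT.lf (nat_lit 4332) (nat_lit 6) (nat_lit 57) (nat_lit 2) (nat_lit 157) (nat_lit 163) (nat_lit 130))))) (PT.nd (nat_lit 234) (PT.nd (nat_lit 78) (PT.lf (nat_lit 4104) (nat_lit 6) (nat_lit 54) (nat_lit 2) (nat_lit 158) (nat_lit 163) (nat_lit 129)) (PT.nd (nat_lit 78) (PT.lf (nat_lit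 3876) (nat_lit 6) (nat_lit 51) (nat_lit 2) (nat_lit 159) (nat_lit 163) (nat_lit 128)) (PT.lf (nat_lit 3724) (nat_lit 6) (nat_lit 49) (nat_lit 2) (nat_lit 160) (nat_lit 163) (nat_lit 127)))) (PT.nd (nat_lit 156) (PT.nd (nat_lit 78) (PT.lf (nat_lit 3496) (nat_lit 6) (nat_lit 46) (nat_lit 2) (nat_lit 161) (nat_lit 163) (nat_lit 126)) (PT.lf (nat_lit 3344) (nat_lit 6) (nat_lit 44) (nat_lit 2) (nat_lit 162) (nat_lit 163) (nat_lit 125))) (PT.nd (nat_lit 78) (PT.lf (nat_lit 3192) (nat_lit 3) (nat_lit 42) (nat_lit 0) (nat_lit 163) (nat_lit 163) (nat_lit 124)) (PT.lf (nat_lit 2964) (nat_lit 6) (nat_lit 39) (nat_lit 0) (nat_lit 164) (nat_lit 163) (nat_lit 123))))))) (PT.nd (nat_lit 46566) (PT.nd (nat_lit 43602) (PT.nd (nat_lit 43368) (PT.nd (nat_lit 78) (PT.lf (nat_lit 2736) (nat_lit 6) (nat_lit 36) (nat_lit 0) (nat_lit 165) (nat_lit 163) (nat_lit 122)) (PT.nd (nat_lit 43212) (PT.lf (nat_lit 2584)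 (nat_lit 6) (nat_lit 34) (nat_lit 0) (nat_lit 166) (nat_lit 163) (nat_lit 121)) (PT.lf (nat_lit 2280) (nat_lit 6) (nat_lit 30) (nat_lit 5) (nat_lit 119) (nat_lit 164) (nat_lit 167)))) (PT.nd (nat_lit 78) (PT.lf (nat_lit 2432) (nat_lit 6) (nat_lit 32) (nat_lit 5) (nat_lit 120) (nat_lit 164) (nat_lit 166)) (PT.nd (nat_lit 78) (PT.lf (nat_lit 2660) (nat_lit 6) (nat_lit 35) (nat_lit 5) (nat_lit 121) (nat_lit 164) (nat_lit 165)) (PT.lf (nat_lit 2812) (nat_lit 3) (nat_lit 37) (nat_lit 4) (nat_lit 122) (nat_lit 164) (nat_lit 164))))) (PT.nd (nat_lit 234) (PT.nd (nat_lit 78) (PT.lf (nat_lit 2964) (nat_lit 6) (nat_lit 39) (nat_lit 4) (nat_lit 123) (nat_lit 164) (nat_lit 163)) (PT.nd (nat_lit 78) (PT.lf (nat_lit 3116) (nat_lit 6) (nat_lit 41) (nat_lit 4) (nat_lit 124) (nat_lit 164) (nat_lit 162)) (PT.lf (nat_lit 3268) (nat_lit 6) (nat_lit 43) (nat_lit 4) (nat_lit 125) (nat_lit 164) (nat_lit 161))))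 (PT.nd (nat_lit 2574) (PT.nd (nat_lit 78) (PT.lf (nat_lit 3420) (nat_lit 6) (nat_lit 45) (nat_lit 4) (nat_lit 126) (nat_lit 164) (nat_lit 160)) (PT.lf (nat_lit 3648) (nat_lit 6) (nat_lit 48) (nat_lit 4) (nat_lit 127) (nat_lit 164) (nat_lit 159))) (PT.nd (nat_lit 78) (PT.lf (nat_lit 3648) (nat_lit 6) (nat_lit 48) (nat_lit 2) (nat_lit 159) (nat_lit 164) (nat_lit 127)) (PT.lf (nat_lit 3420) (nat_lit 6) (nat_lit 45) (nat_lit 2) (nat_lit 160) (nat_lit 164) (nat_lit 126)))))) (PT.nd (nat_lit 43446) (PT.nd (nat_lit 234) (PT.nd (nat_lit 78) (PT.lf (nat_lit 3268) (nat_lit 6) (nat_lit 43) (nat_lit 2) (nat_lit 161) (nat_lit 164) (nat_lit 125)) (PT.nd (nat_lit 78) (PT.lf (nat_lit 3116) (nat_lit 6) (nat_lit 41) (nat_lit 2) (nat_lit 162) (nat_lit 164) (nat_lit 124)) (PT.lf (nat_lit 2964) (nat_lit 6) (nat_lit 39) (nat_lit 2) (nat_lit 163) (nat_lit 164) (nat_lit 123)))) (PT.nd (nat_lit 156) (PT.nd (nat_lit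 78) (PT.lf (nat_lit 2812) (nat_lit 3) (nat_lit 37) (nat_lit 0) (nat_lit 164) (nat_lit 164) (nat_lit 122)) (PT.lf (nat_lit 2660) (nat_lit 6) (nat_lit 35) (nat_lit 0) (nat_lit 165) (nat_lit 164) (nat_lit 121))) (PT.nd (nat_lit 78) (PT.lf (nat_lit 2432) (nat_lit 6) (nat_lit 32) (nat_lit 0) (nat_lit 166) (nat_lit 164) (nat_lit 120)) (PT.lf (nat_lit 2280) (nat_lit 6) (nat_lit 30) (nat_lit 0) (nat_lit 167) (nat_lit 164) (nat_lit 119))))) (PT.nd (nat_lit 234) (PT.nd (nat_lit 78) (PT.lf (nat_lit 1976) (nat_lit 6) (nat_lit 26) (nat_lit 5) (nat_lit 117) (nat_lit 165) (nat_lit 168)) (PT.nd (nat_lit 78) (PT.lf (nat_lit 2128) (nat_lit 6) (nat_lit 28) (nat_lit 5) (nat_lit 118) (nat_lit 165) (nat_lit 167)) (PT.lf (nat_lit 2356) (nat_lit 6) (nat_lit 31) (nat_lit 5) (nat_lit 119) (nat_lit 165) (nat_lit 166)))) (PT.nd (nat_lit 156) (PT.nd (nat_lit 78) (PT.lf (nat_lit 2508) (nat_lit 3) (nat_lit 33) (nat_lit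 4) (nat_lit 120) (nat_lit 165) (nat_lit 165)) (PT.lf (nat_lit 2660) (nat_lit 6) (nat_lit 35) (nat_lit 4) (nat_lit 121) (nat_lit 165) (nat_lit 164))) (PT.nd (nat_lit 78) (PT.lf (nat_lit 2736) (nat_lit 6) (nat_lit 36) (nat_lit 4) (nat_lit 122) (nat_lit 165) (nat_lit 163)) (PT.lf (nat_lit 2888) (nat_lit 6) (nat_lit 38) (nat_lit 4) (nat_lit 123) (nat_lit 165) (nat_lit 162))))))))
noncomputable def pc14 : PT := (PT.nd (nat_lit 96876) (PT.nd (nat_lit 46566) (PT.nd (nat_lit 3276) (PT.nd (nat_lit 3042) (PT.nd (nat_lit 2886) (PT.lf (nat_lit 3040) (nat_lit 6) (nat_lit 40) (nat_lit 4) (nat_lit 124) (nat_lit 165) (nat_lit 161)) (PT.nd (nat_lit 78) (PT.lf (nat_lit 3040) (nat_lit 6) (nat_lit 40) (nat_lit 2) (nat_lit 161) (nat_lit 165) (nat_lit 124)) (PT.lf (nat_lit 2888) (nat_lit 6) (nat_lit 38) (nat_lit 2) (nat_lit 162) (nat_lit 165) (nat_lit 123)))) (PT.nd (nat_lit 78) (PT.lf (nat_lit 2736) (nat_lit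 6) (nat_lit 36) (nat_lit 2) (nat_lit 163) (nat_lit 165) (nat_lit 122)) (PT.nd (nat_lit 78) (PT.lf (nat_lit 2660) (nat_lit 6) (nat_lit 35) (nat_lit 2) (nat_lit 164) (nat_lit 165) (nat_lit 121)) (PT.lf (nat_lit 2508) (nat_lit 3) (nat_lit 33) (nat_lit 0) (nat_lit 165) (nat_lit 165) (nat_lit 120))))) (PT.nd (nat_lit 42978) (PT.nd (nat_lit 78) (PT.lf (nat_lit 2356) (nat_lit 6) (nat_lit 31) (nat_lit 0) (nat_lit 166) (nat_lit 165) (nat_lit 119)) (PT.nd (nat_lit 78) (PT.lf (nat_lit 2128) (nat_lit 6) (nat_lit 28) (nat_lit 0) (nat_lit 167) (nat_lit 165) (nat_lit 118)) (PT.lf (nat_lit 1976) (nat_lit 6) (nat_lit 26) (nat_lit 0) (nat_lit 168) (nat_lit 165) (nat_lit 117)))) (PT.nd (nat_lit 156) (PT.nd (nat_lit 78) (PT.lf (nat_lit 1824) (nat_lit 6) (nat_lit 24) (nat_lit 5) (nat_lit 116) (nat_lit 166) (nat_lit 168)) (PT.lf (nat_lit 2052) (nat_lit 6) (nat_lit 27) (nat_lit 5) (nat_lit 117) (nat_lit 166)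 (nat_lit 167))) (PT.nd (nat_lit 78) (PT.lf (nat_lit 2204) (nat_lit 3) (nat_lit 29) (nat_lit 4) (nat_lit 118) (nat_lit 166) (nat_lit 166)) (PT.lf (nat_lit 2356) (nat_lit 6) (nat_lit 31) (nat_lit 4) (nat_lit 119) (nat_lit 166) (nat_lit 165)))))) (PT.nd (nat_lit 3744) (PT.nd (nat_lit 3432) (PT.nd (nat_lit 78) (PT.lf (nat_lit 2432) (nat_lit 6) (nat_lit 32) (nat_lit 4) (nat_lit 120) (nat_lit 166) (nat_lit 164)) (PT.nd (nat_lit 3276) (PT.lf (nat_lit 2584) (nat_lit 6) (nat_lit 34) (nat_lit 4) (nat_lit 121) (nat_lit 166) (nat_lit 163)) (PT.lf (nat_lit 2584) (nat_lit 6) (nat_lit 34) (nat_lit 2) (nat_lit 163) (nat_lit 166) (nat_lit 121)))) (PT.nd (nat_lit 156) (PT.nd (nat_lit 78) (PT.lf (nat_lit 2432) (nat_lit 6) (nat_lit 32) (nat_lit 2) (nat_lit 164) (nat_lit 166) (nat_lit 120)) (PT.lf (nat_lit 2356) (nat_lit 6) (nat_lit 31) (nat_lit 2) (nat_lit 165) (nat_lit 166) (nat_lit 119))) (PT.nd (nat_lit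 78) (PT.lf (nat_lit 2204) (nat_lit 3) (nat_lit 29) (nat_lit 0) (nat_lit 166) (nat_lit 166) (nat_lit 118)) (PT.lf (nat_lit 2052) (nat_lit 6) (nat_lit 27) (nat_lit 0) (nat_lit 167) (nat_lit 166) (nat_lit 117))))) (PT.nd (nat_lit 42822) (PT.nd (nat_lit 42666) (PT.lf (nat_lit 1824) (nat_lit 6) (nat_lit 24) (nat_lit 0) (nat_lit 168) (nat_lit 166) (nat_lit 116)) (PT.nd (nat_lit 78) (PT.lf (nat_lit 1596) (nat_lit 6) (nat_lit 21) (nat_lit 5) (nat_lit 114) (nat_lit 167) (nat_lit 169)) (PT.lf (nat_lit 1748) (nat_lit 6) (nat_lit 23) (nat_lit 5) (nat_lit 115) (nat_lit 167) (nat_lit 168)))) (PT.nd (nat_lit 156) (PT.nd (nat_lit 78) (PT.lf (nat_lit 1900) (nat_lit 3) (nat_lit 25) (nat_lit 4) (nat_lit 116) (nat_lit 167) (nat_lit 167)) (PT.lf (nat_lit 2052) (nat_lit 6) (nat_lit 27) (nat_lit 4) (nat_lit 117) (nat_lit 167) (nat_lit 166))) (PT.nd (nat_lit 78) (PT.lf (nat_lit 2128) (nat_lit 6) (nat_lit 28) (nat_lit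 4) (nat_lit 118) (nat_lit 167) (nat_lit 165)) (PT.lf (nat_lit 2280) (nat_lit 6) (nat_lit 30) (nat_lit 4) (nat_lit 119) (nat_lit 167) (nat_lit 164))))))) (PT.nd (nat_lit 47034) (PT.nd (nat_lit 42822) (PT.nd (nat_lit 234) (PT.nd (nat_lit 78) (PT.lf (nat_lit 2280) (nat_lit 6) (nat_lit 30) (nat_lit 2) (nat_lit 164) (nat_lit 167) (nat_lit 119)) (PT.nd (nat_lit 78) (PT.lf (nat_lit 2128) (nat_lit 6) (nat_lit 28) (nat_lit 2) (nat_lit 165) (nat_lit 167) (nat_lit 118)) (PT.lf (nat_lit 2052) (nat_lit 6) (nat_lit 27) (nat_lit 2) (nat_lit 166) (nat_lit 167) (nat_lit 117)))) (PT.nd (nat_lit 78) (PT.lf (nat_lit 1900) (nat_lit 3) (nat_lit 25) (nat_lit 0) (nat_lit 167) (nat_lit 167) (nat_lit 116)) (PT.nd (nat_lit 78) (PT.lf (nat_lit 1748) (nat_lit 6) (nat_lit 23) (nat_lit 0) (nat_lit 168) (nat_lit 167) (nat_lit 115)) (PT.lf (nat_lit 1596) (nat_lit 6) (nat_lit 21) (nat_lit 0) (nat_lit 169) (nat_lit 167)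 (nat_lit 114))))) (PT.nd (nat_lit 234) (PT.nd (nat_lit 78) (PT.lf (nat_lit 1368) (nat_lit 6) (nat_lit 18) (nat_lit 5) (nat_lit 112) (nat_lit 168) (nat_lit 170)) (PT.nd (nat_lit 78) (PT.lf (nat_lit 1520) (nat_lit 6) (nat_lit 20) (nat_lit 5) (nat_lit 113) (nat_lit 168) (nat_lit 169)) (PT.lf (nat_lit 1672) (nat_lit 3) (nat_lit 22) (nat_lit 4) (nat_lit 114) (nat_lit 168) (nat_lit 168)))) (PT.nd (nat_lit 156) (PT.nd (nat_lit 78) (PT.lf (nat_lit 1748) (nat_lit 6) (nat_lit 23) (nat_lit 4) (nat_lit 115) (nat_lit 168) (nat_lit 167)) (PT.lf (nat_lit 1824) (nat_lit 6) (nat_lit 24) (nat_lit 4) (nat_lit 116) (nat_lit 168) (nat_lit 166))) (PT.nd (nat_lit 3744) (PT.lf (nat_lit 1976) (nat_lit 6) (nat_lit 26) (nat_lit 4) (nat_lit 117) (nat_lit 168) (nat_lit 165)) (PT.lf (nat_lit 1976) (nat_lit 6) (nat_lit 26) (nat_lit 2) (nat_lit 165) (nat_lit 168) (nat_lit 117)))))) (PT.nd (nat_lit 42666) (PT.nd (nat_lit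 234) (PT.nd (nat_lit 78) (PT.lf (nat_lit 1824) (nat_lit 6) (nat_lit 24) (nat_lit 2) (nat_lit 166) (nat_lit 168) (nat_lit 116)) (PT.nd (nat_lit 78) (PT.lf (nat_lit 1748) (nat_lit 6) (nat_lit 23) (nat_lit 2) (nat_lit 167) (nat_lit 168) (nat_lit 115)) (PT.lf (nat_lit 1672) (nat_lit 3) (nat_lit 22) (nat_lit 0) (nat_lit 168) (nat_lit 168) (nat_lit 114)))) (PT.nd (nat_lit 42276) (PT.nd (nat_lit 78) (PT.lf (nat_lit 1520) (nat_lit 6) (nat_lit 20) (nat_lit 0) (nat_lit 169) (nat_lit 168) (nat_lit 113)) (PT.lf (nat_lit 1368) (nat_lit 6) (nat_lit 18) (nat_lit 0) (nat_lit 170) (nat_lit 168) (nat_lit 112))) (PT.nd (nat_lit 78) (PT.lf (nat_lit 1140) (nat_lit 6) (nat_lit 15) (nat_lit 5) (nat_lit 110) (nat_lit 169) (nat_lit 171)) (PT.lf (nat_lit 1292) (nat_lit 6) (nat_lit 17) (nat_lit 5) (nat_lit 111) (nat_lit 169) (nat_lit 170))))) (PT.nd (nat_lit 4290) (PT.nd (nat_lit 78) (PT.lf (nat_lit 1444) (nat_lit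 3) (nat_lit 19) (nat_lit 4) (nat_lit 112) (nat_lit 169) (nat_lit 169)) (PT.nd (nat_lit 78) (PT.lf (nat_lit 1520) (nat_lit 6) (nat_lit 20) (nat_lit 4) (nat_lit 113) (nat_lit 169) (nat_lit 168)) (PT.lf (nat_lit 1596) (nat_lit 6) (nat_lit 21) (nat_lit 4) (nat_lit 114) (nat_lit 169) (nat_lit 167)))) (PT.nd (nat_lit 156) (PT.nd (nat_lit 78) (PT.lf (nat_lit 1596) (nat_lit 6) (nat_lit 21) (nat_lit 2) (nat_lit 167) (nat_lit 169) (nat_lit 114)) (PT.lf (nat_lit 1520) (nat_lit 6) (nat_lit 20) (nat_lit 2) (nat_lit 168) (nat_lit 169) (nat_lit 113))) (PT.nd (nat_lit 78) (PT.lf (nat_lit 1444) (nat_lit 3) (nat_lit 19) (nat_lit 0) (nat_lit 169) (nat_lit 169) (nat_lit 112)) (PT.lf (nat_lit 1292) (nat_lit 6) (nat_lit 17) (nat_lit 0) (nat_lit 170) (nat_lit 169) (nat_lit 111))))))))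
noncomputable def pc15 : PT := (PT.nd (nat_lit 140634) (PT.nd (nat_lit 88842) (PT.nd (nat_lit 46644) (PT.nd (nat_lit 42120) (PT.nd (nat_lit 41964) (PT.lf (nat_lit 1140) (nat_lit 6) (nat_lit 15) (nat_lit 0) (nat_lit 171) (nat_lit 169) (nat_lit 110)) (PT.nd (nat_lit 78) (PT.lf (nat_lit 912) (nat_lit 6) (nat_lit 12) (nat_lit 5) (nat_lit 108) (nat_lit 170) (nat_lit 172)) (PT.lf (nat_lit 1064) (nat_lit 6) (nat_lit 14) (nat_lit 5) (nat_lit 109) (nat_lit 170) (nat_lit 171)))) (PT.nd (nat_lit 78) (PT.lf (nat_lit 1216) (nat_lit 3) (nat_lit 16) (nat_lit 4) (nat_lit 110) (nat_lit 170) (nat_lit 170)) (PT.nd (nat_lit 78) (PT.lf (nat_lit 1292) (nat_lit 6) (nat_lit 17) (nat_lit 4) (nat_lit 111) (nat_lit 170) (nat_lit 169)) (PT.lf (nat_lit 1368) (nat_lit 6) (nat_lit 18) (nat_lit 4) (nat_lit 112) (nat_lit 170) (nat_lit 168))))) (PT.nd (nat_lit 234) (PT.nd (nat_lit 78) (PT.lf (nat_lit 1368) (nat_lit 6) (nat_lit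 18) (nat_lit 2) (nat_lit 168) (nat_lit 170) (nat_lit 112)) (PT.nd (nat_lit 78) (PT.lf (nat_lit 1292) (nat_lit 6) (nat_lit 17) (nat_lit 2) (nat_lit 169) (nat_lit 170) (nat_lit 111)) (PT.lf (nat_lit 1216) (nat_lit 3) (nat_lit 16) (nat_lit 0) (nat_lit 170) (nat_lit 170) (nat_lit 110)))) (PT.nd (nat_lit 41808) (PT.nd (nat_lit 78) (PT.lf (nat_lit 1064) (nat_lit 6) (nat_lit 14) (nat_lit 0) (nat_lit 171) (nat_lit 170) (nat_lit 109)) (PT.lf (nat_lit 912) (nat_lit 6) (nat_lit 12) (nat_lit 0) (nat_lit 172) (nat_lit 170) (nat_lit 108))) (PT.nd (nat_lit 78) (PT.lf (nat_lit 684) (nat_lit 6) (nat_lit 9) (nat_lit 5) (nat_lit 106) (nat_lit 171) (nat_lit 173)) (PT.lf (nat_lit 836) (nat_lit 6) (nat_lit 11) (nat_lit 5) (nat_lit 107) (nat_lit 171) (nat_lit 172)))))) (PT.nd (nat_lit 5070) (PT.nd (nat_lit 4758) (PT.nd (nat_lit 78) (PT.lf (nat_lit 988) (nat_lit 3) (nat_lit 13) (nat_lit 4) (nat_lit 108) (nat_lit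 171) (nat_lit 171)) (PT.nd (nat_lit 78) (PT.lf (nat_lit 1064) (nat_lit 6) (nat_lit 14) (nat_lit 4) (nat_lit 109) (nat_lit 171) (nat_lit 170)) (PT.lf (nat_lit 1140) (nat_lit 6) (nat_lit 15) (nat_lit 4) (nat_lit 110) (nat_lit 171) (nat_lit 169)))) (PT.nd (nat_lit 156) (PT.nd (nat_lit 78) (PT.lf (nat_lit 1140) (nat_lit 6) (nat_lit 15) (nat_lit 2) (nat_lit 169) (nat_lit 171) (nat_lit 110)) (PT.lf (nat_lit 1064) (nat_lit 6) (nat_lit 14) (nat_lit 2) (nat_lit 170) (nat_lit 171) (nat_lit 109))) (PT.nd (nat_lit 78) (PT.lf (nat_lit 988) (nat_lit 3) (nat_lit 13) (nat_lit 0) (nat_lit 171) (nat_lit 171) (nat_lit 108)) (PT.lf (nat_lit 836) (nat_lit 6) (nat_lit 11) (nat_lit 0) (nat_lit 172) (nat_lit 171) (nat_lit 107))))) (PT.nd (nat_lit 41652) (PT.nd (nat_lit 41496) (PT.lf (nat_lit 684) (nat_lit 6) (nat_lit 9) (nat_lit 0) (nat_lit 173) (nat_lit 171) (nat_lit 106)) (PT.nd (nat_lit 78) (PT.lf (nat_lit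 456) (nat_lit 6) (nat_lit 6) (nat_lit 5) (nat_lit 104) (nat_lit 172) (nat_lit 174)) (PT.lf (nat_lit 608) (nat_lit 6) (nat_lit 8) (nat_lit 5) (nat_lit 105) (nat_lit 172) (nat_lit 173)))) (PT.nd (nat_lit 156) (PT.nd (nat_lit 78) (PT.lf (nat_lit 760) (nat_lit 3) (nat_lit 10) (nat_lit 4) (nat_lit 106) (nat_lit 172) (nat_lit 172)) (PT.lf (nat_lit 836) (nat_lit 6) (nat_lit 11) (nat_lit 4) (nat_lit 107) (nat_lit 172) (nat_lit 171))) (PT.nd (nat_lit 4836) (PT.lf (nat_lit 912) (nat_lit 6) (nat_lit 12) (nat_lit 4) (nat_lit 108) (nat_lit 172) (nat_lit 170)) (PT.lf (nat_lit 912) (nat_lit 6) (nat_lit 12) (nat_lit 2) (nat_lit 170) (nat_lit 172) (nat_lit 108))))))) (PT.nd (nat_lit 88296) (PT.nd (nat_lit 41730) (PT.nd (nat_lit 234) (PT.nd (nat_lit 78) (PT.lf (nat_lit 836) (nat_lit 6) (nat_lit 11) (nat_lit 2) (nat_lit 171) (nat_lit 172) (nat_lit 107)) (PT.nd (nat_lit 78) (PT.lf (nat_lit 760) (nat_lit 3)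 (nat_lit 10) (nat_lit 0) (nat_lit 172) (nat_lit 172) (nat_lit 106)) (PT.lf (nat_lit 608) (nat_lit 6) (nat_lit 8) (nat_lit 0) (nat_lit 173) (nat_lit 172) (nat_lit 105)))) (PT.nd (nat_lit 41340) (PT.nd (nat_lit 41262) (PT.lf (nat_lit 456) (nat_lit 6) (nat_lit 6) (nat_lit 0) (nat_lit 174) (nat_lit 172) (nat_lit 104)) (PT.lf (nat_lit 228) (nat_lit 6) (nat_lit 3) (nat_lit 5) (nat_lit 102) (nat_lit 173) (nat_lit 175))) (PT.nd (nat_lit 78) (PT.lf (nat_lit 380) (nat_lit 6) (nat_lit 5) (nat_lit 5) (nat_lit 103) (nat_lit 173) (nat_lit 174)) (PT.lf (nat_lit 532) (nat_lit 3) (nat_lit 7) (nat_lit 4) (nat_lit 104) (nat_lit 173) (nat_lit 173))))) (PT.nd (nat_lit 5226) (PT.nd (nat_lit 78) (PT.lf (nat_lit 608) (nat_lit 6) (nat_lit 8) (nat_lit 4) (nat_lit 105) (nat_lit 173) (nat_lit 172)) (PT.nd (nat_lit 5070) (PT.lf (nat_lit 684) (nat_lit 6) (nat_lit 9) (nat_lit 4) (nat_lit 106) (nat_lit 173) (nat_lit 171))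 (PT.lf (nat_lit 684) (nat_lit 6) (nat_lit 9) (nat_lit 2) (nat_lit 171) (nat_lit 173) (nat_lit 106)))) (PT.nd (nat_lit 156) (PT.nd (nat_lit 78) (PT.lf (nat_lit 608) (nat_lit 6) (nat_lit 8) (nat_lit 2) (nat_lit 172) (nat_lit 173) (nat_lit 105)) (PT.lf (nat_lit 532) (nat_lit 3) (nat_lit 7) (nat_lit 0) (nat_lit 173) (nat_lit 173) (nat_lit 104))) (PT.nd (nat_lit 78) (PT.lf (nat_lit 380) (nat_lit 6) (nat_lit 5) (nat_lit 0) (nat_lit 174) (nat_lit 173) (nat_lit 103)) (PT.lf (nat_lit 228) (nat_lit 6) (nat_lit 3) (nat_lit 0) (nat_lit 175) (nat_lit 173) (nat_lit 102)))))) (PT.nd (nat_lit 5772) (PT.nd (nat_lit 234) (PT.nd (nat_lit 78) (PT.lf (nat_lit 152) (nat_lit 6) (nat_lit 2) (nat_lit 5) (nat_lit 101) (nat_lit 174) (nat_lit 175)) (PT.nd (nat_lit 78) (PT.lf (nat_lit 304) (nat_lit 3) (nat_lit 4) (nat_lit 4) (nat_lit 102) (nat_lit 174) (nat_lit 174)) (PT.lf (nat_lit 380) (nat_lit 6) (nat_lit 5) (nat_lit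 4) (nat_lit 103) (nat_lit 174) (nat_lit 173)))) (PT.nd (nat_lit 5382) (PT.nd (nat_lit 5304) (PT.lf (nat_lit 456) (nat_lit 6) (nat_lit 6) (nat_lit 4) (nat_lit 104) (nat_lit 174) (nat_lit 172)) (PT.lf (nat_lit 456) (nat_lit 6) (nat_lit 6) (nat_lit 2) (nat_lit 172) (nat_lit 174) (nat_lit 104))) (PT.nd (nat_lit 78) (PT.lf (nat_lit 380) (nat_lit 6) (nat_lit 5) (nat_lit 2) (nat_lit 173) (nat_lit 174) (nat_lit 103)) (PT.lf (nat_lit 304) (nat_lit 3) (nat_lit 4) (nat_lit 0) (nat_lit 174) (nat_lit 174) (nat_lit 102))))) (PT.nd (nat_lit 41184) (PT.nd (nat_lit 41028) (PT.lf (nat_lit 152) (nat_lit 6) (nat_lit 2) (nat_lit 0) (nat_lit 175) (nat_lit 174) (nat_lit 101)) (PT.nd (nat_lit 78) (PT.lf (nat_lit 76) (nat_lit 3) (nat_lit 1) (nat_lit 4) (nat_lit 100) (nat_lit 175) (nat_lit 175)) (PT.lf (nat_lit 152) (nat_lit 6) (nat_lit 2) (nat_lit 4) (nat_lit 101) (nat_lit 175) (nat_lit 174)))) (PT.nd (nat_lit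 5616) (PT.nd (nat_lit 5538) (PT.lf (nat_lit 228) (nat_lit 6) (nat_lit 3) (nat_lit 4) (nat_lit 102) (nat_lit 175) (nat_lit 173)) (PT.lf (nat_lit 228) (nat_lit 6) (nat_lit 3) (nat_lit 2) (nat_lit 173) (nat_lit 175) (nat_lit 102))) (PT.nd (nat_lit 78) (PT.lf (nat_lit 152) (nat_lit 6) (nat_lit 2) (nat_lit 2) (nat_lit 174) (nat_lit 175) (nat_lit 101)) (PT.lf (nat_lit 76) (nat_lit 3) (nat_lit 1) (nat_lit 0) (nat_lit 175) (nat_lit 175) (nat_lit 100))))))))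
noncomputable def xc0 : XT := (XT.nd (nat_lit 187434) (nat_lit 0) (nat_lit 0) (XT.nd (nat_lit 140322) (nat_lit 0) (nat_lit 0) (XT.nd (nat_lit 93522) (nat_lit 0) (nat_lit 0) (XT.nd (nat_lit 46800) (nat_lit 0) (nat_lit 0) (XT.nd (nat_lit 46722) (nat_lit 0) (nat_lit 0) (XT.lf (nat_lit 0) (nat_lit 119509474146) (nat_lit 76) (nat_lit 140627324256) (nat_lit 76) (nat_lit 140627324256) (nat_lit 1) (nat_lit 4) (nat_lit 2) (nat_lit 5) (nat_lit 2) (nat_lit 4) (nat_lit 438) (nat_lit 231) (nat_lit 231)) (XT.lf (nat_lit 0) (nat_lit 106054160555) (nat_lit 76) (nat_lit 128755165178) (nat_lit 76) (nat_lit 128755165178) (nat_lit 1) (nat_lit 4) (nat_lit 2) (nat_lit 5) (nat_lit 2) (nat_lit 4) (nat_lit 436) (nat_lit 232) (nat_lit 232))) (XT.nd (nat_lit 78) (nat_lit 0) (nat_lit 0) (XT.lf (nat_lit 0) (nat_lit 225255454094) (nat_lit 76) (nat_lit 269099216077) (nat_lit 76) (nat_lit 269066126780) (nat_lit 1) (nat_lit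 4) (nat_lit 2) (nat_lit 5) (nat_lit 2) (nat_lit 4) (nat_lit 437) (nat_lit 232) (nat_lit 231)) (XT.nd (nat_lit 46566) (nat_lit 0) (nat_lit 0) (XT.lf (nat_lit 0) (nat_lit 238979905022) (nat_lit 76) (nat_lit 281306968026) (nat_lit 76) (nat_lit 281242365113) (nat_lit 1) (nat_lit 4) (nat_lit 2) (nat_lit 5) (nat_lit 2) (nat_lit 4) (nat_lit 438) (nat_lit 232) (nat_lit 230)) (XT.lf (nat_lit 0) (nat_lit 93732571713) (nat_lit 76) (nat_lit 118046868751) (nat_lit 76) (nat_lit 118046868751) (nat_lit 1) (nat_lit 4) (nat_lit 2) (nat_lit 5) (nat_lit 2) (nat_lit 4) (nat_lit 434) (nat_lit 233) (nat_lit 233))))) (XT.nd (nat_lit 234) (nat_lit 0) (nat_lit 0) (XT.nd (nat_lit 78) (nat_lit 0) (nat_lit 0) (XT.lf (nat_lit 0) (nat_lit 199507203372) (nat_lit 76) (nat_lit 246547462041) (nat_lit 76) (nat_lit 246512718278) (nat_lit 1) (nat_lit 4) (nat_lit 2) (nat_lit 5) (nat_lit 2) (nat_lit 4) (nat_lit 435) (nat_lit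 233) (nat_lit 232)) (XT.nd (nat_lit 78) (nat_lit 0) (nat_lit 0) (XT.lf (nat_lit 0) (nat_lit 212067325675) (nat_lit 76) (nat_lit 257565265845) (nat_lit 76) (nat_lit 257497432786) (nat_lit 1) (nat_lit 4) (nat_lit 2) (nat_lit 5) (nat_lit 2) (nat_lit 4) (nat_lit 436) (nat_lit 233) (nat_lit 231)) (XT.lf (nat_lit 0) (nat_lit 225175415389) (nat_lit 76) (nat_lit 269173381781) (nat_lit 76) (nat_lit 269074035106) (nat_lit 1) (nat_lit 4) (nat_lit 2) (nat_lit 5) (nat_lit 2) (nat_lit 4) (nat_lit 437) (nat_lit 233) (nat_lit 230)))) (XT.nd (nat_lit 46410) (nat_lit 0) (nat_lit 0) (XT.lf (nat_lit 0) (nat_lit 238862682249) (nat_lit 76) (nat_lit 281399448221) (nat_lit 76) (nat_lit 281270088577) (nat_lit 1) (nat_lit 4) (nat_lit 2) (nat_lit 5) (nat_lit 2) (nat_lit 4) (nat_lit 438) (nat_lit 233) (nat_lit 229)) (XT.nd (nat_lit 78) (nat_lit 0) (nat_lit 0) (XT.lf (nat_lit 0) (nat_lit 82433443500) (nat_lit 76) (nat_lit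 108397235149) (nat_lit 76) (nat_lit 108397235149) (nat_lit 1) (nat_lit 4) (nat_lit 2) (nat_lit 5) (nat_lit 2) (nat_lit 4) (nat_lit 432) (nat_lit 234) (nat_lit 234)) (XT.lf (nat_lit 0) (nat_lit 175912474265) (nat_lit 76) (nat_lit 226215683360) (nat_lit 76) (nat_lit 226179202410) (nat_lit 1) (nat_lit 4) (nat_lit 2) (nat_lit 5) (nat_lit 2) (nat_lit 4) (nat_lit 433) (nat_lit 234) (nat_lit 233)))))) (XT.nd (nat_lit 46644) (nat_lit 0) (nat_lit 0) (XT.nd (nat_lit 234) (nat_lit 0) (nat_lit 0) (XT.nd (nat_lit 78) (nat_lit 0) (nat_lit 0) (XT.lf (nat_lit 0) (nat_lit 187422098220) (nat_lit 76) (nat_lit 236151419765) (nat_lit 76) (nat_lit 236080195053) (nat_lit 1) (nat_lit 4) (nat_lit 2) (nat_lit 5) (nat_lit 2) (nat_lit 4) (nat_lit 434) (nat_lit 234) (nat_lit 232)) (XT.nd (nat_lit 78) (nat_lit 0) (nat_lit 0) (XT.lf (nat_lit 0) (nat_lit 199423162732) (nat_lit 76) (nat_lit 246625336030) (nat_lit 76) (nat_lit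 246521022020) (nat_lit 1) (nat_lit 4) (nat_lit 2) (nat_lit 5) (nat_lit 2) (nat_lit 4) (nat_lit 435) (nat_lit 234) (nat_lit 231)) (XT.lf (nat_lit 0) (nat_lit 211944241764) (nat_lit 76) (nat_lit 257662370050) (nat_lit 76) (nat_lit 257526542424) (nat_lit 1) (nat_lit 4) (nat_lit 2) (nat_lit 5) (nat_lit 2) (nat_lit 4) (nat_lit 436) (nat_lit 234) (nat_lit 230)))) (XT.nd (nat_lit 78) (nat_lit 0) (nat_lit 0) (XT.lf (nat_lit 0) (nat_lit 225015147410) (nat_lit 76) (nat_lit 269288800477) (nat_lit 76) (nat_lit 269122959883) (nat_lit 1) (nat_lit 4) (nat_lit 2) (nat_lit 5) (nat_lit 2) (nat_lit 4) (nat_lit 437) (nat_lit 234) (nat_lit 229)) (XT.nd (nat_lit 46254) (nat_lit 0) (nat_lit 0) (XT.lf (nat_lit 0) (nat_lit 238667000873) (nat_lit 76) (nat_lit 281532309290) (nat_lit 76) (nat_lit 281337884916) (nat_lit 1) (nat_lit 4) (nat_lit 2) (nat_lit 5) (nat_lit 2) (nat_lit 4) (nat_lit 438) (nat_lit 234) (nat_lit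 228)) (XT.lf (nat_lit 0) (nat_lit 72055563024) (nat_lit 76) (nat_lit 99710995283) (nat_lit 76) (nat_lit 99710995283) (nat_lit 1) (nat_lit 4) (nat_lit 2) (nat_lit 5) (nat_lit 2) (nat_lit 4) (nat_lit 430) (nat_lit 235) (nat_lit 235))))) (XT.nd (nat_lit 234) (nat_lit 0) (nat_lit 0) (XT.nd (nat_lit 78) (nat_lit 0) (nat_lit 0) (XT.lf (nat_lit 0) (nat_lit 154259037411) (nat_lit 76) (nat_lit 207903654119) (nat_lit 76) (nat_lit 207865349121) (nat_lit 1) (nat_lit 4) (nat_lit 2) (nat_lit 5) (nat_lit 2) (nat_lit 4) (nat_lit 431) (nat_lit 235) (nat_lit 234)) (XT.nd (nat_lit 78) (nat_lit 0) (nat_lit 0) (XT.lf (nat_lit 0) (nat_lit 164821689535) (nat_lit 76) (nat_lit 216855036675) (nat_lit 76) (nat_lit 216780250726) (nat_lit 1) (nat_lit 4) (nat_lit 2) (nat_lit 5) (nat_lit 2) (nat_lit 4) (nat_lit 432) (nat_lit 235) (nat_lit 233)) (XT.lf (nat_lit 0) (nat_lit 175824231592) (nat_lit 76) (nat_lit 226297451049)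 (nat_lit 76) (nat_lit 226187921338) (nat_lit 1) (nat_lit 4) (nat_lit 2) (nat_lit 5) (nat_lit 2) (nat_lit 4) (nat_lit 433) (nat_lit 235) (nat_lit 232)))) (XT.nd (nat_lit 78) (nat_lit 0) (nat_lit 0) (XT.lf (nat_lit 0) (nat_lit 187292860113) (nat_lit 76) (nat_lit 236253379180) (nat_lit 76) (nat_lit 236110760173) (nat_lit 1) (nat_lit 4) (nat_lit 2) (nat_lit 5) (nat_lit 2) (nat_lit 4) (nat_lit 434) (nat_lit 235) (nat_lit 231)) (XT.nd (nat_lit 78) (nat_lit 0) (nat_lit 0) (XT.lf (nat_lit 0) (nat_lit 199254881354) (nat_lit 76) (nat_lit 246746525661) (nat_lit 76) (nat_lit 246572393037) (nat_lit 1) (nat_lit 4) (nat_lit 2) (nat_lit 5) (nat_lit 2) (nat_lit 4) (nat_lit 435) (nat_lit 235) (nat_lit 230)) (XT.lf (nat_lit 0) (nat_lit 211738776319) (nat_lit 76) (nat_lit 257801874172) (nat_lit 76) (nat_lit 257597728580) (nat_lit 1) (nat_lit 4) (nat_lit 2) (nat_lit 5) (nat_lit 2) (nat_lit 4) (nat_lit 436)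 (nat_lit 235) (nat_lit 229))))))) (XT.nd (nat_lit 46956) (nat_lit 0) (nat_lit 0) (XT.nd (nat_lit 46488) (nat_lit 0) (nat_lit 0) (XT.nd (nat_lit 46254) (nat_lit 0) (nat_lit 0) (XT.nd (nat_lit 78) (nat_lit 0) (nat_lit 0) (XT.lf (nat_lit 0) (nat_lit 224774268567) (nat_lit 76) (nat_lit 269445746972) (nat_lit 76) (nat_lit 269213017600) (nat_lit 1) (nat_lit 4) (nat_lit 2) (nat_lit 5) (nat_lit 2) (nat_lit 4) (nat_lit 437) (nat_lit 235) (nat_lit 228)) (XT.nd (nat_lit 46098) (nat_lit 0) (nat_lit 0) (XT.lf (nat_lit 0) (nat_lit 238392394985) (nat_lit 76) (nat_lit 281705867567) (nat_lit 76) (nat_lit 281445915549) (nat_lit 1) (nat_lit 4) (nat_lit 2) (nat_lit 5) (nat_lit 2) (nat_lit 4) (nat_lit 438) (nat_lit 235) (nat_lit 227)) (XT.lf (nat_lit 0) (nat_lit 62506819496) (nat_lit 76) (nat_lit 91901895049) (nat_lit 76) (nat_lit 91901895049) (nat_lit 1) (nat_lit 4) (nat_lit 2) (nat_lit 5) (nat_lit 2) (nat_lit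 4) (nat_lit 428) (nat_lit 236) (nat_lit 236)))) (XT.nd (nat_lit 78) (nat_lit 0) (nat_lit 0) (XT.lf (nat_lit 0) (nat_lit 134353793755) (nat_lit 76) (nat_lit 191430071829) (nat_lit 76) (nat_lit 191389851581) (nat_lit 1) (nat_lit 4) (nat_lit 2) (nat_lit 5) (nat_lit 2) (nat_lit 4) (nat_lit 429) (nat_lit 236) (nat_lit 235)) (XT.nd (nat_lit 78) (nat_lit 0) (nat_lit 0) (XT.lf (nat_lit 0) (nat_lit 144063668709) (nat_lit 76) (nat_lit 199485585262) (nat_lit 76) (nat_lit 199407060017) (nat_lit 1) (nat_lit 4) (nat_lit 2) (nat_lit 5) (nat_lit 2) (nat_lit 4) (nat_lit 430) (nat_lit 236) (nat_lit 234)) (XT.lf (nat_lit 0) (nat_lit 154166382605) (nat_lit 76) (nat_lit 207989510192) (nat_lit 76) (nat_lit 207874503997) (nat_lit 1) (nat_lit 4) (nat_lit 2) (nat_lit 5) (nat_lit 2) (nat_lit 4) (nat_lit 431) (nat_lit 236) (nat_lit 233))))) (XT.nd (nat_lit 234) (nat_lit 0) (nat_lit 0) (XT.nd (nat_lit 78) (nat_lit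 0) (nat_lit 0) (XT.lf (nat_lit 0) (nat_lit 164685989523) (nat_lit 76) (nat_lit 216962094060) (nat_lit 76) (nat_lit 216812344103) (nat_lit 1) (nat_lit 4) (nat_lit 2) (nat_lit 5) (nat_lit 2) (nat_lit 4) (nat_lit 432) (nat_lit 236) (nat_lit 232)) (XT.nd (nat_lit 78) (nat_lit 0) (nat_lit 0) (XT.lf (nat_lit 0) (nat_lit 175647536146) (nat_lit 76) (nat_lit 226424700161) (nat_lit 76) (nat_lit 226241860906) (nat_lit 1) (nat_lit 4) (nat_lit 2) (nat_lit 5) (nat_lit 2) (nat_lit 4) (nat_lit 433) (nat_lit 236) (nat_lit 231)) (XT.lf (nat_lit 0) (nat_lit 187077121396) (nat_lit 76) (nat_lit 236399858508) (nat_lit 76) (nat_lit 236185505637) (nat_lit 1) (nat_lit 4) (nat_lit 2) (nat_lit 5) (nat_lit 2) (nat_lit 4) (nat_lit 434) (nat_lit 236) (nat_lit 230)))) (XT.nd (nat_lit 78) (nat_lit 0) (nat_lit 0) (XT.lf (nat_lit 0) (nat_lit 199001958569) (nat_lit 76) (nat_lit 246911319480) (nat_lit 76) (nat_lit 246666953640)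 (nat_lit 1) (nat_lit 4) (nat_lit 2) (nat_lit 5) (nat_lit 2) (nat_lit 4) (nat_lit 435) (nat_lit 236) (nat_lit 229)) (XT.nd (nat_lit 78) (nat_lit 0) (nat_lit 0) (XT.lf (nat_lit 0) (nat_lit 211450440137) (nat_lit 76) (nat_lit 257984110363) (nat_lit 76) (nat_lit 257711160744) (nat_lit 1) (nat_lit 4) (nat_lit 2) (nat_lit 5) (nat_lit 2) (nat_lit 4) (nat_lit 436) (nat_lit 236) (nat_lit 228)) (XT.lf (nat_lit 0) (nat_lit 224452205340) (nat_lit 76) (nat_lit 269644594946) (nat_lit 76) (nat_lit 269344422681) (nat_lit 1) (nat_lit 4) (nat_lit 2) (nat_lit 5) (nat_lit 2) (nat_lit 4) (nat_lit 437) (nat_lit 236) (nat_lit 227)))))) (XT.nd (nat_lit 46332) (nat_lit 0) (nat_lit 0) (XT.nd (nat_lit 46098) (nat_lit 0) (nat_lit 0) (XT.nd (nat_lit 45942) (nat_lit 0) (nat_lit 0) (XT.lf (nat_lit 0) (nat_lit 238038210763) (nat_lit 76) (nat_lit 281920536288) (nat_lit 76) (nat_lit 281594437692) (nat_lit 1) (nat_lit 4)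 (nat_lit 2) (nat_lit 5) (nat_lit 2) (nat_lit 4) (nat_lit 438) (nat_lit 236) (nat_lit 226)) (XT.nd (nat_lit 78) (nat_lit 0) (nat_lit 0) (XT.lf (nat_lit 0) (nat_lit 53703342621) (nat_lit 76) (nat_lit 84891865087) (nat_lit 76) (nat_lit 84891865087) (nat_lit 1) (nat_lit 4) (nat_lit 2) (nat_lit 5) (nat_lit 2) (nat_lit 4) (nat_lit 426) (nat_lit 237) (nat_lit 237)) (XT.lf (nat_lit 0) (nat_lit 116020965959) (nat_lit 76) (nat_lit 176630813519) (nat_lit 76) (nat_lit 176588582259) (nat_lit 1) (nat_lit 4) (nat_lit 2) (nat_lit 5) (nat_lit 2) (nat_lit 4) (nat_lit 427) (nat_lit 237) (nat_lit 236)))) (XT.nd (nat_lit 78) (nat_lit 0) (nat_lit 0) (XT.lf (nat_lit 0) (nat_lit 124963808786) (nat_lit 76) (nat_lit 183870564529) (nat_lit 76) (nat_lit 183788113021) (nat_lit 1) (nat_lit 4) (nat_lit 2) (nat_lit 5) (nat_lit 2) (nat_lit 4) (nat_lit 428) (nat_lit 237) (nat_lit 235)) (XT.nd (nat_lit 78) (nat_lit 0) (nat_lit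 0) (XT.lf (nat_lit 0) (nat_lit 134256506209) (nat_lit 76) (nat_lit 191520220706) (nat_lit 76) (nat_lit 191399464200) (nat_lit 1) (nat_lit 4) (nat_lit 2) (nat_lit 5) (nat_lit 2) (nat_lit 4) (nat_lit 429) (nat_lit 237) (nat_lit 234)) (XT.lf (nat_lit 0) (nat_lit 143921183696) (nat_lit 76) (nat_lit 199597995517) (nat_lit 76) (nat_lit 199440758062) (nat_lit 1) (nat_lit 4) (nat_lit 2) (nat_lit 5) (nat_lit 2) (nat_lit 4) (nat_lit 430) (nat_lit 237) (nat_lit 233))))) (XT.nd (nat_lit 234) (nat_lit 0) (nat_lit 0) (XT.nd (nat_lit 78) (nat_lit 0) (nat_lit 0) (XT.lf (nat_lit 0) (nat_lit 153980852386) (nat_lit 76) (nat_lit 208123121760) (nat_lit 76) (nat_lit 207931140542) (nat_lit 1) (nat_lit 4) (nat_lit 2) (nat_lit 5) (nat_lit 2) (nat_lit 4) (nat_lit 431) (nat_lit 237) (nat_lit 232)) (XT.nd (nat_lit 78) (nat_lit 0) (nat_lit 0) (XT.lf (nat_lit 0) (nat_lit 164459463869) (nat_lit 76) (nat_lit 217115897355)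 (nat_lit 76) (nat_lit 216890826840) (nat_lit 1) (nat_lit 4) (nat_lit 2) (nat_lit 5) (nat_lit 2) (nat_lit 4) (nat_lit 432) (nat_lit 237) (nat_lit 231)) (XT.lf (nat_lit 0) (nat_lit 175381967222) (nat_lit 76) (nat_lit 226597733671) (nat_lit 76) (nat_lit 226341149539) (nat_lit 1) (nat_lit 4) (nat_lit 2) (nat_lit 5) (nat_lit 2) (nat_lit 4) (nat_lit 433) (nat_lit 237) (nat_lit 230)))) (XT.nd (nat_lit 78) (nat_lit 0) (nat_lit 0) (XT.lf (nat_lit 0) (nat_lit 186774368404) (nat_lit 76) (nat_lit 236591206509) (nat_lit 76) (nat_lit 236304609409) (nat_lit 1) (nat_lit 4) (nat_lit 2) (nat_lit 5) (nat_lit 2) (nat_lit 4) (nat_lit 434) (nat_lit 237) (nat_lit 229)) (XT.nd (nat_lit 78) (nat_lit 0) (nat_lit 0) (XT.lf (nat_lit 0) (nat_lit 198663792181) (nat_lit 76) (nat_lit 247120109853) (nat_lit 76) (nat_lit 246804928974) (nat_lit 1) (nat_lit 4) (nat_lit 2) (nat_lit 5) (nat_lit 2) (nat_lit 4) (nat_lit 435)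 (nat_lit 237) (nat_lit 228)) (XT.lf (nat_lit 0) (nat_lit 211078546703) (nat_lit 76) (nat_lit 258209512519) (nat_lit 76) (nat_lit 257867108994) (nat_lit 1) (nat_lit 4) (nat_lit 2) (nat_lit 5) (nat_lit 2) (nat_lit 4) (nat_lit 436) (nat_lit 237) (nat_lit 227))))))))
noncomputable def xc1 : XT := (XT.nd (nat_lit 93054) (nat_lit 0) (nat_lit 0) (XT.nd (nat_lit 46566) (nat_lit 0) (nat_lit 0) (XT.nd (nat_lit 46098) (nat_lit 0) (nat_lit 0) (XT.nd (nat_lit 45864) (nat_lit 0) (nat_lit 0) (XT.nd (nat_lit 78) (nat_lit 0) (nat_lit 0) (XT.lf (nat_lit 0) (nat_lit 224048190910) (nat_lit 76) (nat_lit 269885817849) (nat_lit 76) (nat_lit 269517487993) (nat_lit 1) (nat_lit 4) (nat_lit 2) (nat_lit 5) (nat_lit 2) (nat_lit 4) (nat_lit 437) (nat_lit 237) (nat_lit 226)) (XT.lf (nat_lit 0) (nat_lit 237603604909) (nat_lit 76) (nat_lit 282176826567) (nat_lit 76) (nat_lit 281783804968) (nat_lit 1) (nat_lit 4) (nat_lit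 2) (nat_lit 5) (nat_lit 2) (nat_lit 4) (nat_lit 438) (nat_lit 237) (nat_lit 225))) (XT.nd (nat_lit 78) (nat_lit 0) (nat_lit 0) (XT.lf (nat_lit 0) (nat_lit 45568720320) (nat_lit 76) (nat_lit 78610268123) (nat_lit 76) (nat_lit 78610268123) (nat_lit 1) (nat_lit 4) (nat_lit 2) (nat_lit 5) (nat_lit 2) (nat_lit 4) (nat_lit 424) (nat_lit 238) (nat_lit 238)) (XT.nd (nat_lit 78) (nat_lit 0) (nat_lit 0) (XT.lf (nat_lit 0) (nat_lit 99100456448) (nat_lit 76) (nat_lit 163357354738) (nat_lit 76) (nat_lit 163313011915) (nat_lit 1) (nat_lit 4) (nat_lit 2) (nat_lit 5) (nat_lit 2) (nat_lit 4) (nat_lit 425) (nat_lit 238) (nat_lit 237)) (XT.lf (nat_lit 0) (nat_lit 107354363526) (nat_lit 76) (nat_lit 169853843325) (nat_lit 76) (nat_lit 169767269242) (nat_lit 1) (nat_lit 4) (nat_lit 2) (nat_lit 5) (nat_lit 2) (nat_lit 4) (nat_lit 426) (nat_lit 238) (nat_lit 236))))) (XT.nd (nat_lit 234) (nat_lit 0) (nat_lit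 0) (XT.nd (nat_lit 78) (nat_lit 0) (nat_lit 0) (XT.lf (nat_lit 0) (nat_lit 115918814035) (nat_lit 76) (nat_lit 176725469840) (nat_lit 76) (nat_lit 176598675509) (nat_lit 1) (nat_lit 4) (nat_lit 2) (nat_lit 5) (nat_lit 2) (nat_lit 4) (nat_lit 427) (nat_lit 238) (nat_lit 235)) (XT.nd (nat_lit 78) (nat_lit 0) (nat_lit 0) (XT.lf (nat_lit 0) (nat_lit 124814199523) (nat_lit 76) (nat_lit 183988595297) (nat_lit 76) (nat_lit 183823495968) (nat_lit 1) (nat_lit 4) (nat_lit 2) (nat_lit 5) (nat_lit 2) (nat_lit 4) (nat_lit 428) (nat_lit 238) (nat_lit 234)) (XT.lf (nat_lit 0) (nat_lit 134061699479) (nat_lit 76) (nat_lit 191660512852) (nat_lit 76) (nat_lit 191458932573) (nat_lit 1) (nat_lit 4) (nat_lit 2) (nat_lit 5) (nat_lit 2) (nat_lit 4) (nat_lit 429) (nat_lit 238) (nat_lit 233)))) (XT.nd (nat_lit 78) (nat_lit 0) (nat_lit 0) (XT.lf (nat_lit 0) (nat_lit 143683331761) (nat_lit 76) (nat_lit 199759488976)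 (nat_lit 76) (nat_lit 199523164935) (nat_lit 1) (nat_lit 4) (nat_lit 2) (nat_lit 5) (nat_lit 2) (nat_lit 4) (nat_lit 430) (nat_lit 238) (nat_lit 232)) (XT.nd (nat_lit 78) (nat_lit 0) (nat_lit 0) (XT.lf (nat_lit 0) (nat_lit 153702005016) (nat_lit 76) (nat_lit 208304806946) (nat_lit 76) (nat_lit 208035393607) (nat_lit 1) (nat_lit 4) (nat_lit 2) (nat_lit 5) (nat_lit 2) (nat_lit 4) (nat_lit 431) (nat_lit 238) (nat_lit 231)) (XT.lf (nat_lit 0) (nat_lit 164141573229) (nat_lit 76) (nat_lit 217316812756) (nat_lit 76) (nat_lit 217015885801) (nat_lit 1) (nat_lit 4) (nat_lit 2) (nat_lit 5) (nat_lit 2) (nat_lit 4) (nat_lit 432) (nat_lit 238) (nat_lit 230)))))) (XT.nd (nat_lit 46020) (nat_lit 0) (nat_lit 0) (XT.nd (nat_lit 234) (nat_lit 0) (nat_lit 0) (XT.nd (nat_lit 78) (nat_lit 0) (nat_lit 0) (XT.lf (nat_lit 0) (nat_lit 175026892514) (nat_lit 76) (nat_lit 226816963563) (nat_lit 76) (nat_lit 226486023640)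 (nat_lit 1) (nat_lit 4) (nat_lit 2) (nat_lit 5) (nat_lit 2) (nat_lit 4) (nat_lit 433) (nat_lit 238) (nat_lit 229)) (XT.nd (nat_lit 78) (nat_lit 0) (nat_lit 0) (XT.lf (nat_lit 0) (nat_lit 186383880299) (nat_lit 76) (nat_lit 236827878773) (nat_lit 76) (nat_lit 236468355072) (nat_lit 1) (nat_lit 4) (nat_lit 2) (nat_lit 5) (nat_lit 2) (nat_lit 4) (nat_lit 434) (nat_lit 238) (nat_lit 228)) (XT.lf (nat_lit 0) (nat_lit 198239577030) (nat_lit 76) (nat_lit 247373393900) (nat_lit 76) (nat_lit 246986647552) (nat_lit 1) (nat_lit 4) (nat_lit 2) (nat_lit 5) (nat_lit 2) (nat_lit 4) (nat_lit 435) (nat_lit 238) (nat_lit 227)))) (XT.nd (nat_lit 78) (nat_lit 0) (nat_lit 0) (XT.lf (nat_lit 0) (nat_lit 210622210556) (nat_lit 76) (nat_lit 258478617313) (nat_lit 76) (nat_lit 258065944634) (nat_lit 1) (nat_lit 4) (nat_lit 2) (nat_lit 5) (nat_lit 2) (nat_lit 4) (nat_lit 436) (nat_lit 238) (nat_lit 226)) (XT.nd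 (nat_lit 78) (nat_lit 0) (nat_lit 0) (XT.lf (nat_lit 0) (nat_lit 223561263340) (nat_lit 76) (nat_lit 270169990019) (nat_lit 76) (nat_lit 269732625597) (nat_lit 1) (nat_lit 4) (nat_lit 2) (nat_lit 5) (nat_lit 2) (nat_lit 4) (nat_lit 437) (nat_lit 238) (nat_lit 225)) (XT.lf (nat_lit 0) (nat_lit 237087542648) (nat_lit 76) (nat_lit 282475348621) (nat_lit 76) (nat_lit 282014468253) (nat_lit 1) (nat_lit 4) (nat_lit 2) (nat_lit 5) (nat_lit 2) (nat_lit 4) (nat_lit 438) (nat_lit 238) (nat_lit 224))))) (XT.nd (nat_lit 234) (nat_lit 0) (nat_lit 0) (XT.nd (nat_lit 78) (nat_lit 0) (nat_lit 0) (XT.lf (nat_lit 0) (nat_lit 38033288370) (nat_lit 76) (nat_lit 72993216706) (nat_lit 76) (nat_lit 72993216706) (nat_lit 1) (nat_lit 4) (nat_lit 2) (nat_lit 5) (nat_lit 2) (nat_lit 4) (nat_lit 422) (nat_lit 239) (nat_lit 239)) (XT.nd (nat_lit 78) (nat_lit 0) (nat_lit 0) (XT.lf (nat_lit 0) (nat_lit 83446356542) (nat_lit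 76) (nat_lit 151475336346) (nat_lit 76) (nat_lit 151428776381) (nat_lit 1) (nat_lit 4) (nat_lit 2) (nat_lit 5) (nat_lit 2) (nat_lit 4) (nat_lit 423) (nat_lit 239) (nat_lit 238)) (XT.lf (nat_lit 0) (nat_lit 91082502837) (nat_lit 76) (nat_lit 157294155056) (nat_lit 76) (nat_lit 157203252269) (nat_lit 1) (nat_lit 4) (nat_lit 2) (nat_lit 5) (nat_lit 2) (nat_lit 4) (nat_lit 424) (nat_lit 239) (nat_lit 237)))) (XT.nd (nat_lit 78) (nat_lit 0) (nat_lit 0) (XT.lf (nat_lit 0) (nat_lit 98993196928) (nat_lit 76) (nat_lit 163456743874) (nat_lit 76) (nat_lit 163323609827) (nat_lit 1) (nat_lit 4) (nat_lit 2) (nat_lit 5) (nat_lit 2) (nat_lit 4) (nat_lit 425) (nat_lit 239) (nat_lit 236)) (XT.nd (nat_lit 78) (nat_lit 0) (nat_lit 0) (XT.lf (nat_lit 0) (nat_lit 107197273800) (nat_lit 76) (nat_lit 169977775631) (nat_lit 76) (nat_lit 169804421337) (nat_lit 1) (nat_lit 4) (nat_lit 2) (nat_lit 5) (nat_lit 2) (nat_lit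 4) (nat_lit 426) (nat_lit 239) (nat_lit 235)) (XT.lf (nat_lit 0) (nat_lit 115714266969) (nat_lit 76) (nat_lit 176872776593) (nat_lit 76) (nat_lit 176661117300) (nat_lit 1) (nat_lit 4) (nat_lit 2) (nat_lit 5) (nat_lit 2) (nat_lit 4) (nat_lit 427) (nat_lit 239) (nat_lit 234))))))) (XT.nd (nat_lit 46332) (nat_lit 0) (nat_lit 0) (XT.nd (nat_lit 468) (nat_lit 0) (nat_lit 0) (XT.nd (nat_lit 234) (nat_lit 0) (nat_lit 0) (XT.nd (nat_lit 78) (nat_lit 0) (nat_lit 0) (XT.lf (nat_lit 0) (nat_lit 124564454990) (nat_lit 76) (nat_lit 184158163428) (nat_lit 76) (nat_lit 183910023186) (nat_lit 1) (nat_lit 4) (nat_lit 2) (nat_lit 5) (nat_lit 2) (nat_lit 4) (nat_lit 428) (nat_lit 239) (nat_lit 233)) (XT.nd (nat_lit 78) (nat_lit 0) (nat_lit 0) (XT.lf (nat_lit 0) (nat_lit 133768909740) (nat_lit 76) (nat_lit 191851282297) (nat_lit 76) (nat_lit 191568398291) (nat_lit 1) (nat_lit 4) (nat_lit 2) (nat_lit 5) (nat_lit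 2) (nat_lit 4) (nat_lit 429) (nat_lit 239) (nat_lit 232)) (XT.lf (nat_lit 0) (nat_lit 143349546588) (nat_lit 76) (nat_lit 199970450147) (nat_lit 76) (nat_lit 199654476845) (nat_lit 1) (nat_lit 4) (nat_lit 2) (nat_lit 5) (nat_lit 2) (nat_lit 4) (nat_lit 430) (nat_lit 239) (nat_lit 231)))) (XT.nd (nat_lit 78) (nat_lit 0) (nat_lit 0) (XT.lf (nat_lit 0) (nat_lit 153329176572) (nat_lit 76) (nat_lit 208534998332) (nat_lit 76) (nat_lit 208187511413) (nat_lit 1) (nat_lit 4) (nat_lit 2) (nat_lit 5) (nat_lit 2) (nat_lit 4) (nat_lit 431) (nat_lit 239) (nat_lit 230)) (XT.nd (nat_lit 78) (nat_lit 0) (nat_lit 0) (XT.lf (nat_lit 0) (nat_lit 163731560718) (nat_lit 76) (nat_lit 217565318633) (nat_lit 76) (nat_lit 217187818746) (nat_lit 1) (nat_lit 4) (nat_lit 2) (nat_lit 5) (nat_lit 2) (nat_lit 4) (nat_lit 432) (nat_lit 239) (nat_lit 229)) (XT.lf (nat_lit 0) (nat_lit 174581466605) (nat_lit 76) (nat_lit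 227082911813) (nat_lit 76) (nat_lit 226676828147) (nat_lit 1) (nat_lit 4) (nat_lit 2) (nat_lit 5) (nat_lit 2) (nat_lit 4) (nat_lit 433) (nat_lit 239) (nat_lit 228))))) (XT.nd (nat_lit 234) (nat_lit 0) (nat_lit 0) (XT.nd (nat_lit 78) (nat_lit 0) (nat_lit 0) (XT.lf (nat_lit 0) (nat_lit 185904727345) (nat_lit 76) (nat_lit 237110438807) (nat_lit 76) (nat_lit 236677132494) (nat_lit 1) (nat_lit 4) (nat_lit 2) (nat_lit 5) (nat_lit 2) (nat_lit 4) (nat_lit 434) (nat_lit 239) (nat_lit 227)) (XT.nd (nat_lit 78) (nat_lit 0) (nat_lit 0) (XT.lf (nat_lit 0) (nat_lit 197728303080) (nat_lit 76) (nat_lit 247671774680) (nat_lit 76) (nat_lit 247212542037) (nat_lit 1) (nat_lit 4) (nat_lit 2) (nat_lit 5) (nat_lit 2) (nat_lit 4) (nat_lit 435) (nat_lit 239) (nat_lit 226)) (XT.lf (nat_lit 0) (nat_lit 210080345183) (nat_lit 76) (nat_lit 258792065469) (nat_lit 76) (nat_lit 258308141083) (nat_lit 1) (nat_lit 4) (nat_lit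 2) (nat_lit 5) (nat_lit 2) (nat_lit 4) (nat_lit 436) (nat_lit 239) (nat_lit 225)))) (XT.nd (nat_lit 78) (nat_lit 0) (nat_lit 0) (XT.lf (nat_lit 0) (nat_lit 222990263276) (nat_lit 76) (nat_lit 270497788059) (nat_lit 76) (nat_lit 269990347727) (nat_lit 1) (nat_lit 4) (nat_lit 2) (nat_lit 5) (nat_lit 2) (nat_lit 4) (nat_lit 437) (nat_lit 239) (nat_lit 224)) (XT.nd (nat_lit 45474) (nat_lit 0) (nat_lit 0) (XT.lf (nat_lit 0) (nat_lit 236488795261) (nat_lit 76) (nat_lit 282816813215) (nat_lit 76) (nat_lit 282286976745) (nat_lit 1) (nat_lit 4) (nat_lit 2) (nat_lit 5) (nat_lit 2) (nat_lit 4) (nat_lit 438) (nat_lit 239) (nat_lit 223)) (XT.lf (nat_lit 0) (nat_lit 31033485245) (nat_lit 76) (nat_lit 67982954799) (nat_lit 76) (nat_lit 67982954799) (nat_lit 1) (nat_lit 4) (nat_lit 2) (nat_lit 5) (nat_lit 2) (nat_lit 4) (nat_lit 420) (nat_lit 240) (nat_lit 240)))))) (XT.nd (nat_lit 468) (nat_lit 0) (nat_lit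 0) (XT.nd (nat_lit 234) (nat_lit 0) (nat_lit 0) (XT.nd (nat_lit 78) (nat_lit 0) (nat_lit 0) (XT.lf (nat_lit 0) (nat_lit 68925592528) (nat_lit 76) (nat_lit 140863265404) (nat_lit 76) (nat_lit 140814377442) (nat_lit 1) (nat_lit 4) (nat_lit 2) (nat_lit 5) (nat_lit 2) (nat_lit 4) (nat_lit 421) (nat_lit 240) (nat_lit 239)) (XT.nd (nat_lit 78) (nat_lit 0) (nat_lit 0) (XT.lf (nat_lit 0) (nat_lit 76008892047) (nat_lit 76) (nat_lit 146063733162) (nat_lit 76) (nat_lit 145968285236) (nat_lit 1) (nat_lit 4) (nat_lit 2) (nat_lit 5) (nat_lit 2) (nat_lit 4) (nat_lit 422) (nat_lit 240) (nat_lit 238)) (XT.lf (nat_lit 0) (nat_lit 83333734046) (nat_lit 76) (nat_lit 151579694939) (nat_lit 76) (nat_lit 151439904190) (nat_lit 1) (nat_lit 4) (nat_lit 2) (nat_lit 5) (nat_lit 2) (nat_lit 4) (nat_lit 423) (nat_lit 240) (nat_lit 237)))) (XT.nd (nat_lit 78) (nat_lit 0) (nat_lit 0) (XT.lf (nat_lit 0) (nat_lit 90917558625)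 (nat_lit 76) (nat_lit 157424283978) (nat_lit 76) (nat_lit 157242261968) (nat_lit 1) (nat_lit 4) (nat_lit 2) (nat_lit 5) (nat_lit 2) (nat_lit 4) (nat_lit 424) (nat_lit 240) (nat_lit 236)) (XT.nd (nat_lit 78) (nat_lit 0) (nat_lit 0) (XT.lf (nat_lit 0) (nat_lit 98778422509) (nat_lit 76) (nat_lit 163611415966) (nat_lit 76) (nat_lit 163389173708) (nat_lit 1) (nat_lit 4) (nat_lit 2) (nat_lit 5) (nat_lit 2) (nat_lit 4) (nat_lit 425) (nat_lit 240) (nat_lit 235)) (XT.lf (nat_lit 0) (nat_lit 106935042041) (nat_lit 76) (nat_lit 170155822170) (nat_lit 76) (nat_lit 169895274915) (nat_lit 1) (nat_lit 4) (nat_lit 2) (nat_lit 5) (nat_lit 2) (nat_lit 4) (nat_lit 426) (nat_lit 240) (nat_lit 234))))) (XT.nd (nat_lit 234) (nat_lit 0) (nat_lit 0) (XT.nd (nat_lit 78) (nat_lit 0) (nat_lit 0) (XT.lf (nat_lit 0) (nat_lit 115406837744) (nat_lit 76) (nat_lit 177073084510) (nat_lit 76) (nat_lit 176776056305) (nat_lit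 1) (nat_lit 4) (nat_lit 2) (nat_lit 5) (nat_lit 2) (nat_lit 4) (nat_lit 427) (nat_lit 240) (nat_lit 233)) (XT.nd (nat_lit 78) (nat_lit 0) (nat_lit 0) (XT.lf (nat_lit 0) (nat_lit 124213980559) (nat_lit 76) (nat_lit 184379672658) (nat_lit 76) (nat_lit 184047900690) (nat_lit 1) (nat_lit 4) (nat_lit 2) (nat_lit 5) (nat_lit 2) (nat_lit 4) (nat_lit 428) (nat_lit 240) (nat_lit 232)) (XT.lf (nat_lit 0) (nat_lit 133377439875) (nat_lit 76) (nat_lit 192092983252) (nat_lit 76) (nat_lit 191728121988) (nat_lit 1) (nat_lit 4) (nat_lit 2) (nat_lit 5) (nat_lit 2) (nat_lit 4) (nat_lit 429) (nat_lit 240) (nat_lit 231)))) (XT.nd (nat_lit 78) (nat_lit 0) (nat_lit 0) (XT.lf (nat_lit 0) (nat_lit 142919033451) (nat_lit 76) (nat_lit 200231381319) (nat_lit 76) (nat_lit 199835006437) (nat_lit 1) (nat_lit 4) (nat_lit 2) (nat_lit 5) (nat_lit 2) (nat_lit 4) (nat_lit 430) (nat_lit 240) (nat_lit 230)) (XT.nd (nat_lit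 78) (nat_lit 0) (nat_lit 0) (XT.lf (nat_lit 0) (nat_lit 152861479368) (nat_lit 76) (nat_lit 208814243995) (nat_lit 76) (nat_lit 208387856145) (nat_lit 1) (nat_lit 4) (nat_lit 2) (nat_lit 5) (nat_lit 2) (nat_lit 4) (nat_lit 431) (nat_lit 240) (nat_lit 229)) (XT.lf (nat_lit 0) (nat_lit 163228450116) (nat_lit 76) (nat_lit 217862006668) (nat_lit 76) (nat_lit 217407035040) (nat_lit 1) (nat_lit 4) (nat_lit 2) (nat_lit 5) (nat_lit 2) (nat_lit 4) (nat_lit 432) (nat_lit 240) (nat_lit 228))))))))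
noncomputable def xc2 : XT := (XT.nd (nat_lit 47034) (nat_lit 0) (nat_lit 0) (XT.nd (nat_lit 46098) (nat_lit 0) (nat_lit 0) (XT.nd (nat_lit 390) (nat_lit 0) (nat_lit 0) (XT.nd (nat_lit 156) (nat_lit 0) (nat_lit 0) (XT.nd (nat_lit 78) (nat_lit 0) (nat_lit 0) (XT.lf (nat_lit 0) (nat_lit 174044628958) (nat_lit 76) (nat_lit 227396211631) (nat_lit 76) (nat_lit 226914017356) (nat_lit 1) (nat_lit 4) (nat_lit 2) (nat_lit 5) (nat_lit 2) (nat_lit 4) (nat_lit 433) (nat_lit 240) (nat_lit 227)) (XT.lf (nat_lit 0) (nat_lit 185335768702) (nat_lit 76) (nat_lit 237439559371) (nat_lit 76) (nat_lit 236931438765) (nat_lit 1) (nat_lit 4) (nat_lit 2) (nat_lit 5) (nat_lit 2) (nat_lit 4) (nat_lit 434) (nat_lit 240) (nat_lit 226))) (XT.nd (nat_lit 78) (nat_lit 0) (nat_lit 0) (XT.lf (nat_lit 0) (nat_lit 197128753013) (nat_lit 76) (nat_lit 248015962621) (nat_lit 76) (nat_lit 247483150272) (nat_lit 1) (nat_lit 4)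 (nat_lit 2) (nat_lit 5) (nat_lit 2) (nat_lit 4) (nat_lit 435) (nat_lit 240) (nat_lit 225)) (XT.nd (nat_lit 78) (nat_lit 0) (nat_lit 0) (XT.lf (nat_lit 0) (nat_lit 209451660426) (nat_lit 76) (nat_lit 259150603294) (nat_lit 76) (nat_lit 258594274999) (nat_lit 1) (nat_lit 4) (nat_lit 2) (nat_lit 5) (nat_lit 2) (nat_lit 4) (nat_lit 436) (nat_lit 240) (nat_lit 224)) (XT.lf (nat_lit 0) (nat_lit 222333831196) (nat_lit 76) (nat_lit 270869992438) (nat_lit 76) (nat_lit 270291268005) (nat_lit 1) (nat_lit 4) (nat_lit 2) (nat_lit 5) (nat_lit 2) (nat_lit 4) (nat_lit 437) (nat_lit 240) (nat_lit 223))))) (XT.nd (nat_lit 45474) (nat_lit 0) (nat_lit 0) (XT.nd (nat_lit 45318) (nat_lit 0) (nat_lit 0) (XT.lf (nat_lit 0) (nat_lit 235805937158) (nat_lit 76) (nat_lit 283202033362) (nat_lit 76) (nat_lit 282601979272) (nat_lit 1) (nat_lit 4) (nat_lit 2) (nat_lit 5) (nat_lit 2) (nat_lit 4) (nat_lit 438) (nat_lit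 240) (nat_lit 222)) (XT.nd (nat_lit 78) (nat_lit 0) (nat_lit 0) (XT.lf (nat_lit 0) (nat_lit 24511266045) (nat_lit 76) (nat_lit 63527297331) (nat_lit 76) (nat_lit 63527297331) (nat_lit 1) (nat_lit 4) (nat_lit 2) (nat_lit 5) (nat_lit 2) (nat_lit 4) (nat_lit 418) (nat_lit 241) (nat_lit 241)) (XT.lf (nat_lit 0) (nat_lit 55416695883) (nat_lit 76) (nat_lit 131411337737) (nat_lit 76) (nat_lit 131360005376) (nat_lit 1) (nat_lit 4) (nat_lit 2) (nat_lit 5) (nat_lit 2) (nat_lit 4) (nat_lit 419) (nat_lit 241) (nat_lit 240)))) (XT.nd (nat_lit 78) (nat_lit 0) (nat_lit 0) (XT.lf (nat_lit 0) (nat_lit 62006401564) (nat_lit 76) (nat_lit 136047074336) (nat_lit 76) (nat_lit 135946854013) (nat_lit 1) (nat_lit 4) (nat_lit 2) (nat_lit 5) (nat_lit 2) (nat_lit 4) (nat_lit 420) (nat_lit 241) (nat_lit 239)) (XT.nd (nat_lit 78) (nat_lit 0) (nat_lit 0) (XT.lf (nat_lit 0) (nat_lit 68807338908) (nat_lit 76) (nat_lit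 140972841928) (nat_lit 76) (nat_lit 140826061640) (nat_lit 1) (nat_lit 4) (nat_lit 2) (nat_lit 5) (nat_lit 2) (nat_lit 4) (nat_lit 421) (nat_lit 241) (nat_lit 238)) (XT.lf (nat_lit 0) (nat_lit 75835700624) (nat_lit 76) (nat_lit 146200368530) (nat_lit 76) (nat_lit 146009245420) (nat_lit 1) (nat_lit 4) (nat_lit 2) (nat_lit 5) (nat_lit 2) (nat_lit 4) (nat_lit 422) (nat_lit 241) (nat_lit 237)))))) (XT.nd (nat_lit 468) (nat_lit 0) (nat_lit 0) (XT.nd (nat_lit 234) (nat_lit 0) (nat_lit 0) (XT.nd (nat_lit 78) (nat_lit 0) (nat_lit 0) (XT.lf (nat_lit 0) (nat_lit 83108220905) (nat_lit 76) (nat_lit 151742100635) (nat_lit 76) (nat_lit 151508746265) (nat_lit 1) (nat_lit 4) (nat_lit 2) (nat_lit 5) (nat_lit 2) (nat_lit 4) (nat_lit 423) (nat_lit 241) (nat_lit 236)) (XT.nd (nat_lit 78) (nat_lit 0) (nat_lit 0) (XT.lf (nat_lit 0) (nat_lit 90642215278) (nat_lit 76) (nat_lit 157611232843) (nat_lit 76) (nat_lit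 157337658225) (nat_lit 1) (nat_lit 4) (nat_lit 2) (nat_lit 5) (nat_lit 2) (nat_lit 4) (nat_lit 424) (nat_lit 241) (nat_lit 235)) (XT.lf (nat_lit 0) (nat_lit 98455621822) (nat_lit 76) (nat_lit 163821739278) (nat_lit 76) (nat_lit 163509859663) (nat_lit 1) (nat_lit 4) (nat_lit 2) (nat_lit 5) (nat_lit 2) (nat_lit 4) (nat_lit 425) (nat_lit 241) (nat_lit 234)))) (XT.nd (nat_lit 78) (nat_lit 0) (nat_lit 0) (XT.lf (nat_lit 0) (nat_lit 106567043888) (nat_lit 76) (nat_lit 170388406861) (nat_lit 76) (nat_lit 170040046295) (nat_lit 1) (nat_lit 4) (nat_lit 2) (nat_lit 5) (nat_lit 2) (nat_lit 4) (nat_lit 426) (nat_lit 241) (nat_lit 233)) (XT.nd (nat_lit 78) (nat_lit 0) (nat_lit 0) (XT.lf (nat_lit 0) (nat_lit 114995794384) (nat_lit 76) (nat_lit 177326870514) (nat_lit 76) (nat_lit 176943766186) (nat_lit 1) (nat_lit 4) (nat_lit 2) (nat_lit 5) (nat_lit 2) (nat_lit 4) (nat_lit 427) (nat_lit 241) (nat_lit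 232)) (XT.lf (nat_lit 0) (nat_lit 123761941765) (nat_lit 76) (nat_lit 184653650388) (nat_lit 76) (nat_lit 184237456763) (nat_lit 1) (nat_lit 4) (nat_lit 2) (nat_lit 5) (nat_lit 2) (nat_lit 4) (nat_lit 428) (nat_lit 241) (nat_lit 231))))) (XT.nd (nat_lit 234) (nat_lit 0) (nat_lit 0) (XT.nd (nat_lit 78) (nat_lit 0) (nat_lit 0) (XT.lf (nat_lit 0) (nat_lit 132886357810) (nat_lit 76) (nat_lit 192386191198) (nat_lit 76) (nat_lit 191938483956) (nat_lit 1) (nat_lit 4) (nat_lit 2) (nat_lit 5) (nat_lit 2) (nat_lit 4) (nat_lit 429) (nat_lit 241) (nat_lit 230)) (XT.nd (nat_lit 78) (nat_lit 0) (nat_lit 0) (XT.lf (nat_lit 0) (nat_lit 142390767319) (nat_lit 76) (nat_lit 200542903755) (nat_lit 76) (nat_lit 200065183545) (nat_lit 1) (nat_lit 4) (nat_lit 2) (nat_lit 5) (nat_lit 2) (nat_lit 4) (nat_lit 430) (nat_lit 241) (nat_lit 229)) (XT.lf (nat_lit 0) (nat_lit 152297799839) (nat_lit 76) (nat_lit 209143208804)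 (nat_lit 76) (nat_lit 208636904815) (nat_lit 1) (nat_lit 4) (nat_lit 2) (nat_lit 5) (nat_lit 2) (nat_lit 4) (nat_lit 431) (nat_lit 241) (nat_lit 228)))) (XT.nd (nat_lit 78) (nat_lit 0) (nat_lit 0) (XT.lf (nat_lit 0) (nat_lit 162631043541) (nat_lit 76) (nat_lit 218207583260) (nat_lit 76) (nat_lit 217674056625) (nat_lit 1) (nat_lit 4) (nat_lit 2) (nat_lit 5) (nat_lit 2) (nat_lit 4) (nat_lit 432) (nat_lit 241) (nat_lit 227)) (XT.nd (nat_lit 78) (nat_lit 0) (nat_lit 0) (XT.lf (nat_lit 0) (nat_lit 173415101388) (nat_lit 76) (nat_lit 227757608969) (nat_lit 76) (nat_lit 227198156003) (nat_lit 1) (nat_lit 4) (nat_lit 2) (nat_lit 5) (nat_lit 2) (nat_lit 4) (nat_lit 433) (nat_lit 241) (nat_lit 226)) (XT.lf (nat_lit 0) (nat_lit 184675649708) (nat_lit 76) (nat_lit 237816024086) (nat_lit 76) (nat_lit 237231879377) (nat_lit 1) (nat_lit 4) (nat_lit 2) (nat_lit 5) (nat_lit 2) (nat_lit 4) (nat_lit 434)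 (nat_lit 241) (nat_lit 225))))))) (XT.nd (nat_lit 46020) (nat_lit 0) (nat_lit 0) (XT.nd (nat_lit 45552) (nat_lit 0) (nat_lit 0) (XT.nd (nat_lit 234) (nat_lit 0) (nat_lit 0) (XT.nd (nat_lit 78) (nat_lit 0) (nat_lit 0) (XT.lf (nat_lit 0) (nat_lit 196439499329) (nat_lit 76) (nat_lit 248406777219) (nat_lit 76) (nat_lit 247799116564) (nat_lit 1) (nat_lit 4) (nat_lit 2) (nat_lit 5) (nat_lit 2) (nat_lit 4) (nat_lit 435) (nat_lit 241) (nat_lit 224)) (XT.nd (nat_lit 78) (nat_lit 0) (nat_lit 0) (XT.lf (nat_lit 0) (nat_lit 208734659418) (nat_lit 76) (nat_lit 259555084447) (nat_lit 76) (nat_lit 258925027653) (nat_lit 1) (nat_lit 4) (nat_lit 2) (nat_lit 5) (nat_lit 2) (nat_lit 4) (nat_lit 436) (nat_lit 241) (nat_lit 223)) (XT.lf (nat_lit 0) (nat_lit 221590404166) (nat_lit 76) (nat_lit 271287489358) (nat_lit 76) (nat_lit 270636102909) (nat_lit 1) (nat_lit 4) (nat_lit 2) (nat_lit 5) (nat_lit 2) (nat_lit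 4) (nat_lit 437) (nat_lit 241) (nat_lit 222)))) (XT.nd (nat_lit 45162) (nat_lit 0) (nat_lit 0) (XT.lf (nat_lit 0) (nat_lit 235037342487) (nat_lit 76) (nat_lit 283631926250) (nat_lit 76) (nat_lit 282960225842) (nat_lit 1) (nat_lit 4) (nat_lit 2) (nat_lit 5) (nat_lit 2) (nat_lit 4) (nat_lit 438) (nat_lit 241) (nat_lit 221)) (XT.nd (nat_lit 78) (nat_lit 0) (nat_lit 0) (XT.lf (nat_lit 0) (nat_lit 18413569970) (nat_lit 76) (nat_lit 59579122326) (nat_lit 76) (nat_lit 59579122326) (nat_lit 1) (nat_lit 4) (nat_lit 2) (nat_lit 5) (nat_lit 2) (nat_lit 4) (nat_lit 416) (nat_lit 242) (nat_lit 242)) (XT.lf (nat_lit 0) (nat_lit 42808685985) (nat_lit 76) (nat_lit 123020370894) (nat_lit 76) (nat_lit 122966471915) (nat_lit 1) (nat_lit 4) (nat_lit 2) (nat_lit 5) (nat_lit 2) (nat_lit 4) (nat_lit 417) (nat_lit 242) (nat_lit 241))))) (XT.nd (nat_lit 234) (nat_lit 0) (nat_lit 0) (XT.nd (nat_lit 78) (nat_lit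 0) (nat_lit 0) (XT.lf (nat_lit 0) (nat_lit 48958934716) (nat_lit 76) (nat_lit 127139817636) (nat_lit 76) (nat_lit 127034586297) (nat_lit 1) (nat_lit 4) (nat_lit 2) (nat_lit 5) (nat_lit 2) (nat_lit 4) (nat_lit 418) (nat_lit 242) (nat_lit 240)) (XT.nd (nat_lit 78) (nat_lit 0) (nat_lit 0) (XT.lf (nat_lit 0) (nat_lit 55292529581) (nat_lit 76) (nat_lit 131526393086) (nat_lit 76) (nat_lit 131372273785) (nat_lit 1) (nat_lit 4) (nat_lit 2) (nat_lit 5) (nat_lit 2) (nat_lit 4) (nat_lit 419) (nat_lit 242) (nat_lit 239)) (XT.lf (nat_lit 0) (nat_lit 61824550569) (nat_lit 76) (nat_lit 136190541472) (nat_lit 76) (nat_lit 135989862206) (nat_lit 1) (nat_lit 4) (nat_lit 2) (nat_lit 5) (nat_lit 2) (nat_lit 4) (nat_lit 420) (nat_lit 242) (nat_lit 238)))) (XT.nd (nat_lit 78) (nat_lit 0) (nat_lit 0) (XT.lf (nat_lit 0) (nat_lit 68570550110) (nat_lit 76) (nat_lit 141143367908) (nat_lit 76) (nat_lit 140898345819)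 (nat_lit 1) (nat_lit 4) (nat_lit 2) (nat_lit 5) (nat_lit 2) (nat_lit 4) (nat_lit 421) (nat_lit 242) (nat_lit 237)) (XT.nd (nat_lit 78) (nat_lit 0) (nat_lit 0) (XT.lf (nat_lit 0) (nat_lit 75546590109) (nat_lit 76) (nat_lit 146396664839) (nat_lit 76) (nat_lit 146109411490) (nat_lit 1) (nat_lit 4) (nat_lit 2) (nat_lit 5) (nat_lit 2) (nat_lit 4) (nat_lit 422) (nat_lit 242) (nat_lit 236)) (XT.lf (nat_lit 0) (nat_lit 82769280184) (nat_lit 76) (nat_lit 151962940113) (nat_lit 76) (nat_lit 151635466517) (nat_lit 1) (nat_lit 4) (nat_lit 2) (nat_lit 5) (nat_lit 2) (nat_lit 4) (nat_lit 423) (nat_lit 242) (nat_lit 235)))))) (XT.nd (nat_lit 468) (nat_lit 0) (nat_lit 0) (XT.nd (nat_lit 234) (nat_lit 0) (nat_lit 0) (XT.nd (nat_lit 78) (nat_lit 0) (nat_lit 0) (XT.lf (nat_lit 0) (nat_lit 90255817217) (nat_lit 76) (nat_lit 157855446769) (nat_lit 76) (nat_lit 157489668174) (nat_lit 1) (nat_lit 4) (nat_lit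 2) (nat_lit 5) (nat_lit 2) (nat_lit 4) (nat_lit 424) (nat_lit 242) (nat_lit 234)) (XT.nd (nat_lit 78) (nat_lit 0) (nat_lit 0) (XT.lf (nat_lit 0) (nat_lit 98024026295) (nat_lit 76) (nat_lit 164088214582) (nat_lit 76) (nat_lit 163685955038) (nat_lit 1) (nat_lit 4) (nat_lit 2) (nat_lit 5) (nat_lit 2) (nat_lit 4) (nat_lit 425) (nat_lit 242) (nat_lit 233)) (XT.lf (nat_lit 0) (nat_lit 106092403155) (nat_lit 76) (nat_lit 170676083477) (nat_lit 76) (nat_lit 170239080171) (nat_lit 1) (nat_lit 4) (nat_lit 2) (nat_lit 5) (nat_lit 2) (nat_lit 4) (nat_lit 426) (nat_lit 242) (nat_lit 232)))) (XT.nd (nat_lit 78) (nat_lit 0) (nat_lit 0) (XT.lf (nat_lit 0) (nat_lit 114480158217) (nat_lit 76) (nat_lit 177634738857) (nat_lit 76) (nat_lit 177164646253) (nat_lit 1) (nat_lit 4) (nat_lit 2) (nat_lit 5) (nat_lit 2) (nat_lit 4) (nat_lit 427) (nat_lit 242) (nat_lit 231)) (XT.nd (nat_lit 78) (nat_lit 0) (nat_lit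 0) (XT.lf (nat_lit 0) (nat_lit 123207262327) (nat_lit 76) (nat_lit 184980748947) (nat_lit 76) (nat_lit 184479142726) (nat_lit 1) (nat_lit 4) (nat_lit 2) (nat_lit 5) (nat_lit 2) (nat_lit 4) (nat_lit 428) (nat_lit 242) (nat_lit 230)) (XT.lf (nat_lit 0) (nat_lit 132294494305) (nat_lit 76) (nat_lit 192731604248) (nat_lit 76) (nat_lit 192199985059) (nat_lit 1) (nat_lit 4) (nat_lit 2) (nat_lit 5) (nat_lit 2) (nat_lit 4) (nat_lit 429) (nat_lit 242) (nat_lit 229))))) (XT.nd (nat_lit 234) (nat_lit 0) (nat_lit 0) (XT.nd (nat_lit 78) (nat_lit 0) (nat_lit 0) (XT.lf (nat_lit 0) (nat_lit 141763490416) (nat_lit 76) (nat_lit 200905759177) (nat_lit 76) (nat_lit 200345556210) (nat_lit 1) (nat_lit 4) (nat_lit 2) (nat_lit 5) (nat_lit 2) (nat_lit 4) (nat_lit 430) (nat_lit 242) (nat_lit 228)) (XT.nd (nat_lit 78) (nat_lit 0) (nat_lit 0) (XT.lf (nat_lit 0) (nat_lit 151636795890) (nat_lit 76) (nat_lit 209522676009)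 (nat_lit 76) (nat_lit 208935250395) (nat_lit 1) (nat_lit 4) (nat_lit 2) (nat_lit 5) (nat_lit 2) (nat_lit 4) (nat_lit 431) (nat_lit 242) (nat_lit 227)) (XT.lf (nat_lit 0) (nat_lit 161937918597) (nat_lit 76) (nat_lit 218602871212) (nat_lit 76) (nat_lit 217989519267) (nat_lit 1) (nat_lit 4) (nat_lit 2) (nat_lit 5) (nat_lit 2) (nat_lit 4) (nat_lit 432) (nat_lit 242) (nat_lit 226)))) (XT.nd (nat_lit 78) (nat_lit 0) (nat_lit 0) (XT.lf (nat_lit 0) (nat_lit 172691385020) (nat_lit 76) (nat_lit 228167964297) (nat_lit 76) (nat_lit 227529920610) (nat_lit 1) (nat_lit 4) (nat_lit 2) (nat_lit 5) (nat_lit 2) (nat_lit 4) (nat_lit 433) (nat_lit 242) (nat_lit 225)) (XT.nd (nat_lit 78) (nat_lit 0) (nat_lit 0) (XT.lf (nat_lit 0) (nat_lit 183922798650) (nat_lit 76) (nat_lit 238240729297) (nat_lit 76) (nat_lit 237579169664) (nat_lit 1) (nat_lit 4) (nat_lit 2) (nat_lit 5) (nat_lit 2) (nat_lit 4) (nat_lit 434)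 (nat_lit 242) (nat_lit 224)) (XT.lf (nat_lit 0) (nat_lit 195658900948) (nat_lit 76) (nat_lit 248845148986) (nat_lit 76) (nat_lit 248161193213) (nat_lit 1) (nat_lit 4) (nat_lit 2) (nat_lit 5) (nat_lit 2) (nat_lit 4) (nat_lit 435) (nat_lit 242) (nat_lit 223))))))))
noncomputable def xc3 : XT := (XT.nd (nat_lit 46722) (nat_lit 0) (nat_lit 0) (XT.nd (nat_lit 45786) (nat_lit 0) (nat_lit 0) (XT.nd (nat_lit 45318) (nat_lit 0) (nat_lit 0) (XT.nd (nat_lit 156) (nat_lit 0) (nat_lit 0) (XT.nd (nat_lit 78) (nat_lit 0) (nat_lit 0) (XT.lf (nat_lit 0) (nat_lit 207927635014) (nat_lit 76) (nat_lit 260006471980) (nat_lit 76) (nat_lit 259301186552) (nat_lit 1) (nat_lit 4) (nat_lit 2) (nat_lit 5) (nat_lit 2) (nat_lit 4) (nat_lit 436) (nat_lit 242) (nat_lit 222)) (XT.lf (nat_lit 0) (nat_lit 220758212121) (nat_lit 76) (nat_lit 271751272860) (nat_lit 76) (nat_lit 271025673473) (nat_lit 1) (nat_lit 4) (nat_lit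 2) (nat_lit 5) (nat_lit 2) (nat_lit 4) (nat_lit 437) (nat_lit 242) (nat_lit 221))) (XT.nd (nat_lit 45006) (nat_lit 0) (nat_lit 0) (XT.lf (nat_lit 0) (nat_lit 234181181261) (nat_lit 76) (nat_lit 284107515436) (nat_lit 76) (nat_lit 283362569423) (nat_lit 1) (nat_lit 4) (nat_lit 2) (nat_lit 5) (nat_lit 2) (nat_lit 4) (nat_lit 438) (nat_lit 242) (nat_lit 220)) (XT.nd (nat_lit 78) (nat_lit 0) (nat_lit 0) (XT.lf (nat_lit 0) (nat_lit 12691836335) (nat_lit 76) (nat_lit 56095910759) (nat_lit 76) (nat_lit 56095910759) (nat_lit 1) (nat_lit 4) (nat_lit 2) (nat_lit 5) (nat_lit 2) (nat_lit 4) (nat_lit 414) (nat_lit 243) (nat_lit 243)) (XT.lf (nat_lit 0) (nat_lit 31000054805) (nat_lit 76) (nat_lit 115600837302) (nat_lit 76) (nat_lit 115544243375) (nat_lit 1) (nat_lit 4) (nat_lit 2) (nat_lit 5) (nat_lit 2) (nat_lit 4) (nat_lit 415) (nat_lit 243) (nat_lit 242))))) (XT.nd (nat_lit 234) (nat_lit 0) (nat_lit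 0) (XT.nd (nat_lit 78) (nat_lit 0) (nat_lit 0) (XT.lf (nat_lit 0) (nat_lit 36760362698) (nat_lit 76) (nat_lit 119247728775) (nat_lit 76) (nat_lit 119137235869) (nat_lit 1) (nat_lit 4) (nat_lit 2) (nat_lit 5) (nat_lit 2) (nat_lit 4) (nat_lit 416) (nat_lit 243) (nat_lit 241)) (XT.nd (nat_lit 78) (nat_lit 0) (nat_lit 0) (XT.lf (nat_lit 0) (nat_lit 42678311369) (nat_lit 76) (nat_lit 123141179011) (nat_lit 76) (nat_lit 122979353744) (nat_lit 1) (nat_lit 4) (nat_lit 2) (nat_lit 5) (nat_lit 2) (nat_lit 4) (nat_lit 417) (nat_lit 243) (nat_lit 240)) (XT.lf (nat_lit 0) (nat_lit 48767991171) (nat_lit 76) (nat_lit 127290458129) (nat_lit 76) (nat_lit 127079744900) (nat_lit 1) (nat_lit 4) (nat_lit 2) (nat_lit 5) (nat_lit 2) (nat_lit 4) (nat_lit 418) (nat_lit 243) (nat_lit 239)))) (XT.nd (nat_lit 78) (nat_lit 0) (nat_lit 0) (XT.lf (nat_lit 0) (nat_lit 55043901344) (nat_lit 76) (nat_lit 131705445366) (nat_lit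 76) (nat_lit 131448172173) (nat_lit 1) (nat_lit 4) (nat_lit 2) (nat_lit 5) (nat_lit 2) (nat_lit 4) (nat_lit 419) (nat_lit 243) (nat_lit 238)) (XT.nd (nat_lit 78) (nat_lit 0) (nat_lit 0) (XT.lf (nat_lit 0) (nat_lit 61520984529) (nat_lit 76) (nat_lit 136396652596) (nat_lit 76) (nat_lit 136095036580) (nat_lit 1) (nat_lit 4) (nat_lit 2) (nat_lit 5) (nat_lit 2) (nat_lit 4) (nat_lit 420) (nat_lit 243) (nat_lit 237)) (XT.lf (nat_lit 0) (nat_lit 68214662353) (nat_lit 76) (nat_lit 141375249360) (nat_lit 76) (nat_lit 141031402084) (nat_lit 1) (nat_lit 4) (nat_lit 2) (nat_lit 5) (nat_lit 2) (nat_lit 4) (nat_lit 421) (nat_lit 243) (nat_lit 236)))))) (XT.nd (nat_lit 468) (nat_lit 0) (nat_lit 0) (XT.nd (nat_lit 234) (nat_lit 0) (nat_lit 0) (XT.nd (nat_lit 78) (nat_lit 0) (nat_lit 0) (XT.lf (nat_lit 0) (nat_lit 75140872145) (nat_lit 76) (nat_lit 146653089461) (nat_lit 76) (nat_lit 146269021937) (nat_lit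 1) (nat_lit 4) (nat_lit 2) (nat_lit 5) (nat_lit 2) (nat_lit 4) (nat_lit 422) (nat_lit 243) (nat_lit 235)) (XT.nd (nat_lit 78) (nat_lit 0) (nat_lit 0) (XT.lf (nat_lit 0) (nat_lit 82316104881) (nat_lit 76) (nat_lit 152242739182) (nat_lit 76) (nat_lit 151820366661) (nat_lit 1) (nat_lit 4) (nat_lit 2) (nat_lit 5) (nat_lit 2) (nat_lit 4) (nat_lit 423) (nat_lit 243) (nat_lit 234)) (XT.lf (nat_lit 0) (nat_lit 89757444447) (nat_lit 76) (nat_lit 158157507216) (nat_lit 76) (nat_lit 157698653744) (nat_lit 1) (nat_lit 4) (nat_lit 2) (nat_lit 5) (nat_lit 2) (nat_lit 4) (nat_lit 424) (nat_lit 243) (nat_lit 233)))) (XT.nd (nat_lit 78) (nat_lit 0) (nat_lit 0) (XT.lf (nat_lit 0) (nat_lit 97482608319) (nat_lit 76) (nat_lit 164411476342) (nat_lit 76) (nat_lit 163917879108) (nat_lit 1) (nat_lit 4) (nat_lit 2) (nat_lit 5) (nat_lit 2) (nat_lit 4) (nat_lit 425) (nat_lit 243) (nat_lit 232)) (XT.nd (nat_lit 78)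 (nat_lit 0) (nat_lit 0) (XT.lf (nat_lit 0) (nat_lit 105509989744) (nat_lit 76) (nat_lit 171019536964) (nat_lit 76) (nat_lit 170492850433) (nat_lit 1) (nat_lit 4) (nat_lit 2) (nat_lit 5) (nat_lit 2) (nat_lit 4) (nat_lit 426) (nat_lit 243) (nat_lit 231)) (XT.lf (nat_lit 0) (nat_lit 113858701536) (nat_lit 76) (nat_lit 177997422559) (nat_lit 76) (nat_lit 177439222411) (nat_lit 1) (nat_lit 4) (nat_lit 2) (nat_lit 5) (nat_lit 2) (nat_lit 4) (nat_lit 427) (nat_lit 243) (nat_lit 230))))) (XT.nd (nat_lit 234) (nat_lit 0) (nat_lit 0) (XT.nd (nat_lit 78) (nat_lit 0) (nat_lit 0) (XT.lf (nat_lit 0) (nat_lit 122548621579) (nat_lit 76) (nat_lit 185361747140) (nat_lit 76) (nat_lit 184773534024) (nat_lit 1) (nat_lit 4) (nat_lit 2) (nat_lit 5) (nat_lit 2) (nat_lit 4) (nat_lit 428) (nat_lit 243) (nat_lit 229)) (XT.nd (nat_lit 78) (nat_lit 0) (nat_lit 0) (XT.lf (nat_lit 0) (nat_lit 131600440159) (nat_lit 76)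 (nat_lit 193130044813) (nat_lit 76) (nat_lit 192513247918) (nat_lit 1) (nat_lit 4) (nat_lit 2) (nat_lit 5) (nat_lit 2) (nat_lit 4) (nat_lit 429) (nat_lit 243) (nat_lit 228)) (XT.lf (nat_lit 0) (nat_lit 141035709225) (nat_lit 76) (nat_lit 201320811526) (nat_lit 76) (nat_lit 200676791984) (nat_lit 1) (nat_lit 4) (nat_lit 2) (nat_lit 5) (nat_lit 2) (nat_lit 4) (nat_lit 430) (nat_lit 243) (nat_lit 227)))) (XT.nd (nat_lit 78) (nat_lit 0) (nat_lit 0) (XT.lf (nat_lit 0) (nat_lit 150876893704) (nat_lit 76) (nat_lit 209953549104) (nat_lit 76) (nat_lit 209283603232) (nat_lit 1) (nat_lit 4) (nat_lit 2) (nat_lit 5) (nat_lit 2) (nat_lit 4) (nat_lit 431) (nat_lit 243) (nat_lit 226)) (XT.nd (nat_lit 78) (nat_lit 0) (nat_lit 0) (XT.lf (nat_lit 0) (nat_lit 161147424986) (nat_lit 76) (nat_lit 219048811683) (nat_lit 76) (nat_lit 218354174068) (nat_lit 1) (nat_lit 4) (nat_lit 2) (nat_lit 5) (nat_lit 2) (nat_lit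 4) (nat_lit 432) (nat_lit 243) (nat_lit 225)) (XT.lf (nat_lit 0) (nat_lit 171871756719) (nat_lit 76) (nat_lit 228628254652) (nat_lit 76) (nat_lit 227910101091) (nat_lit 1) (nat_lit 4) (nat_lit 2) (nat_lit 5) (nat_lit 2) (nat_lit 4) (nat_lit 433) (nat_lit 243) (nat_lit 224))))))) (XT.nd (nat_lit 45708) (nat_lit 0) (nat_lit 0) (XT.nd (nat_lit 45240) (nat_lit 0) (nat_lit 0) (XT.nd (nat_lit 234) (nat_lit 0) (nat_lit 0) (XT.nd (nat_lit 78) (nat_lit 0) (nat_lit 0) (XT.lf (nat_lit 0) (nat_lit 183075423025) (nat_lit 76) (nat_lit 238714686207) (nat_lit 76) (nat_lit 237974136508) (nat_lit 1) (nat_lit 4) (nat_lit 2) (nat_lit 5) (nat_lit 2) (nat_lit 4) (nat_lit 434) (nat_lit 243) (nat_lit 223)) (XT.nd (nat_lit 78) (nat_lit 0) (nat_lit 0) (XT.lf (nat_lit 0) (nat_lit 194785099301) (nat_lit 76) (nat_lit 249332121662) (nat_lit 76) (nat_lit 248570242307) (nat_lit 1) (nat_lit 4) (nat_lit 2) (nat_lit 5) (nat_lit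 2) (nat_lit 4) (nat_lit 435) (nat_lit 243) (nat_lit 222)) (XT.lf (nat_lit 0) (nat_lit 207028665727) (nat_lit 76) (nat_lit 260505840625) (nat_lit 76) (nat_lit 259723647312) (nat_lit 1) (nat_lit 4) (nat_lit 2) (nat_lit 5) (nat_lit 2) (nat_lit 4) (nat_lit 436) (nat_lit 243) (nat_lit 221)))) (XT.nd (nat_lit 78) (nat_lit 0) (nat_lit 0) (XT.lf (nat_lit 0) (nat_lit 219835273652) (nat_lit 76) (nat_lit 272262447189) (nat_lit 76) (nat_lit 271460907249) (nat_lit 1) (nat_lit 4) (nat_lit 2) (nat_lit 5) (nat_lit 2) (nat_lit 4) (nat_lit 437) (nat_lit 243) (nat_lit 220)) (XT.nd (nat_lit 44850) (nat_lit 0) (nat_lit 0) (XT.lf (nat_lit 0) (nat_lit 233235415001) (nat_lit 76) (nat_lit 284629933274) (nat_lit 76) (nat_lit 283809967975) (nat_lit 1) (nat_lit 4) (nat_lit 2) (nat_lit 5) (nat_lit 2) (nat_lit 4) (nat_lit 438) (nat_lit 243) (nat_lit 219)) (XT.lf (nat_lit 0) (nat_lit 7301564539) (nat_lit 76) (nat_lit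 53039329712) (nat_lit 76) (nat_lit 53039329712) (nat_lit 1) (nat_lit 4) (nat_lit 2) (nat_lit 5) (nat_lit 2) (nat_lit 4) (nat_lit 412) (nat_lit 244) (nat_lit 244))))) (XT.nd (nat_lit 234) (nat_lit 0) (nat_lit 0) (XT.nd (nat_lit 78) (nat_lit 0) (nat_lit 0) (XT.lf (nat_lit 0) (nat_lit 19897843958) (nat_lit 76) (nat_lit 109071988341) (nat_lit 76) (nat_lit 109012564717) (nat_lit 1) (nat_lit 4) (nat_lit 2) (nat_lit 5) (nat_lit 2) (nat_lit 4) (nat_lit 413) (nat_lit 244) (nat_lit 243)) (XT.nd (nat_lit 78) (nat_lit 0) (nat_lit 0) (XT.lf (nat_lit 0) (nat_lit 25313556566) (nat_lit 76) (nat_lit 112285779846) (nat_lit 76) (nat_lit 112169762294) (nat_lit 1) (nat_lit 4) (nat_lit 2) (nat_lit 5) (nat_lit 2) (nat_lit 4) (nat_lit 414) (nat_lit 244) (nat_lit 242)) (XT.lf (nat_lit 0) (nat_lit 30863161457) (nat_lit 76) (nat_lit 115727685825) (nat_lit 76) (nat_lit 115557769295) (nat_lit 1) (nat_lit 4) (nat_lit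 2) (nat_lit 5) (nat_lit 2) (nat_lit 4) (nat_lit 415) (nat_lit 244) (nat_lit 241)))) (XT.nd (nat_lit 78) (nat_lit 0) (nat_lit 0) (XT.lf (nat_lit 0) (nat_lit 36559871976) (nat_lit 76) (nat_lit 119405901292) (nat_lit 76) (nat_lit 119184652402) (nat_lit 1) (nat_lit 4) (nat_lit 2) (nat_lit 5) (nat_lit 2) (nat_lit 4) (nat_lit 416) (nat_lit 244) (nat_lit 240)) (XT.nd (nat_lit 78) (nat_lit 0) (nat_lit 0) (XT.lf (nat_lit 0) (nat_lit 42417251719) (nat_lit 76) (nat_lit 123329183904) (nat_lit 76) (nat_lit 123059047051) (nat_lit 1) (nat_lit 4) (nat_lit 2) (nat_lit 5) (nat_lit 2) (nat_lit 4) (nat_lit 417) (nat_lit 244) (nat_lit 239)) (XT.lf (nat_lit 0) (nat_lit 48449246829) (nat_lit 76) (nat_lit 127506874809) (nat_lit 76) (nat_lit 127190177992) (nat_lit 1) (nat_lit 4) (nat_lit 2) (nat_lit 5) (nat_lit 2) (nat_lit 4) (nat_lit 418) (nat_lit 244) (nat_lit 238)))))) (XT.nd (nat_lit 468) (nat_lit 0) (nat_lit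 0) (XT.nd (nat_lit 234) (nat_lit 0) (nat_lit 0) (XT.nd (nat_lit 78) (nat_lit 0) (nat_lit 0) (XT.lf (nat_lit 0) (nat_lit 54670219199) (nat_lit 76) (nat_lit 131948920891) (nat_lit 76) (nat_lit 131587881251) (nat_lit 1) (nat_lit 4) (nat_lit 2) (nat_lit 5) (nat_lit 2) (nat_lit 4) (nat_lit 419) (nat_lit 244) (nat_lit 237)) (XT.nd (nat_lit 78) (nat_lit 0) (nat_lit 0) (XT.lf (nat_lit 0) (nat_lit 61094980667) (nat_lit 76) (nat_lit 136665898449) (nat_lit 76) (nat_lit 136262627549) (nat_lit 1) (nat_lit 4) (nat_lit 2) (nat_lit 5) (nat_lit 2) (nat_lit 4) (nat_lit 420) (nat_lit 244) (nat_lit 236)) (XT.lf (nat_lit 0) (nat_lit 67738828285) (nat_lit 76) (nat_lit 141669038383) (nat_lit 76) (nat_lit 141225547235) (nat_lit 1) (nat_lit 4) (nat_lit 2) (nat_lit 5) (nat_lit 2) (nat_lit 4) (nat_lit 421) (nat_lit 244) (nat_lit 235)))) (XT.nd (nat_lit 78) (nat_lit 0) (nat_lit 0) (XT.lf (nat_lit 0) (nat_lit 74617580737)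 (nat_lit 76) (nat_lit 146970252930) (nat_lit 76) (nat_lit 146488456785) (nat_lit 1) (nat_lit 4) (nat_lit 2) (nat_lit 5) (nat_lit 2) (nat_lit 4) (nat_lit 422) (nat_lit 244) (nat_lit 234)) (XT.nd (nat_lit 78) (nat_lit 0) (nat_lit 0) (XT.lf (nat_lit 0) (nat_lit 81747616006) (nat_lit 76) (nat_lit 152582164030) (nat_lit 76) (nat_lit 152063886935) (nat_lit 1) (nat_lit 4) (nat_lit 2) (nat_lit 5) (nat_lit 2) (nat_lit 4) (nat_lit 423) (nat_lit 244) (nat_lit 233)) (XT.lf (nat_lit 0) (nat_lit 89145910366) (nat_lit 76) (nat_lit 158518133377) (nat_lit 76) (nat_lit 157965112519) (nat_lit 1) (nat_lit 4) (nat_lit 2) (nat_lit 5) (nat_lit 2) (nat_lit 4) (nat_lit 424) (nat_lit 244) (nat_lit 232))))) (XT.nd (nat_lit 234) (nat_lit 0) (nat_lit 0) (XT.nd (nat_lit 78) (nat_lit 0) (nat_lit 0) (XT.lf (nat_lit 0) (nat_lit 96830078804) (nat_lit 76) (nat_lit 164792294229) (nat_lit 76) (nat_lit 164206184074) (nat_lit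 1) (nat_lit 4) (nat_lit 2) (nat_lit 5) (nat_lit 2) (nat_lit 4) (nat_lit 425) (nat_lit 244) (nat_lit 231)) (XT.nd (nat_lit 78) (nat_lit 0) (nat_lit 0) (XT.lf (nat_lit 0) (nat_lit 104818416959) (nat_lit 76) (nat_lit 171419585067) (nat_lit 76) (nat_lit 170801961295) (nat_lit 1) (nat_lit 4) (nat_lit 2) (nat_lit 5) (nat_lit 2) (nat_lit 4) (nat_lit 426) (nat_lit 244) (nat_lit 230)) (XT.lf (nat_lit 0) (nat_lit 113129944683) (nat_lit 76) (nat_lit 178415785152) (nat_lit 76) (nat_lit 177768148413) (nat_lit 1) (nat_lit 4) (nat_lit 2) (nat_lit 5) (nat_lit 2) (nat_lit 4) (nat_lit 427) (nat_lit 244) (nat_lit 229)))) (XT.nd (nat_lit 78) (nat_lit 0) (nat_lit 0) (XT.lf (nat_lit 0) (nat_lit 121784451328) (nat_lit 76) (nat_lit 185797552106) (nat_lit 76) (nat_lit 185121331587) (nat_lit 1) (nat_lit 4) (nat_lit 2) (nat_lit 5) (nat_lit 2) (nat_lit 4) (nat_lit 428) (nat_lit 244) (nat_lit 228)) (XT.nd (nat_lit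 78) (nat_lit 0) (nat_lit 0) (XT.lf (nat_lit 0) (nat_lit 130802542863) (nat_lit 76) (nat_lit 193582461562) (nat_lit 76) (nat_lit 192879018397) (nat_lit 1) (nat_lit 4) (nat_lit 2) (nat_lit 5) (nat_lit 2) (nat_lit 4) (nat_lit 429) (nat_lit 244) (nat_lit 227)) (XT.lf (nat_lit 0) (nat_lit 140205690933) (nat_lit 76) (nat_lit 201789049021) (nat_lit 76) (nat_lit 201059679525) (nat_lit 1) (nat_lit 4) (nat_lit 2) (nat_lit 5) (nat_lit 2) (nat_lit 4) (nat_lit 430) (nat_lit 244) (nat_lit 226))))))))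
noncomputable def xc4 : XT := (XT.nd (nat_lit 46410) (nat_lit 0) (nat_lit 0) (XT.nd (nat_lit 45474) (nat_lit 0) (nat_lit 0) (XT.nd (nat_lit 390) (nat_lit 0) (nat_lit 0) (XT.nd (nat_lit 156) (nat_lit 0) (nat_lit 0) (XT.nd (nat_lit 78) (nat_lit 0) (nat_lit 0) (XT.lf (nat_lit 0) (nat_lit 150016283988) (nat_lit 76) (nat_lit 210436853976) (nat_lit 76) (nat_lit 209682792737) (nat_lit 1) (nat_lit 4) (nat_lit 2) (nat_lit 5) (nat_lit 2) (nat_lit 4) (nat_lit 431) (nat_lit 244) (nat_lit 225)) (XT.lf (nat_lit 0) (nat_lit 160257680581) (nat_lit 76) (nat_lit 219546466439) (nat_lit 76) (nat_lit 218768889254) (nat_lit 1) (nat_lit 4) (nat_lit 2) (nat_lit 5) (nat_lit 2) (nat_lit 4) (nat_lit 432) (nat_lit 244) (nat_lit 224))) (XT.nd (nat_lit 78) (nat_lit 0) (nat_lit 0) (XT.lf (nat_lit 0) (nat_lit 170954264990) (nat_lit 76) (nat_lit 229139575963) (nat_lit 76) (nat_lit 228339602639) (nat_lit 1) (nat_lit 4)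 (nat_lit 2) (nat_lit 5) (nat_lit 2) (nat_lit 4) (nat_lit 433) (nat_lit 244) (nat_lit 223)) (XT.nd (nat_lit 78) (nat_lit 0) (nat_lit 0) (XT.lf (nat_lit 0) (nat_lit 182131505274) (nat_lit 76) (nat_lit 239239023285) (nat_lit 76) (nat_lit 238417720305) (nat_lit 1) (nat_lit 4) (nat_lit 2) (nat_lit 5) (nat_lit 2) (nat_lit 4) (nat_lit 434) (nat_lit 244) (nat_lit 222)) (XT.lf (nat_lit 0) (nat_lit 193816013908) (nat_lit 76) (nat_lit 249868854708) (nat_lit 76) (nat_lit 249027237770) (nat_lit 1) (nat_lit 4) (nat_lit 2) (nat_lit 5) (nat_lit 2) (nat_lit 4) (nat_lit 435) (nat_lit 244) (nat_lit 221))))) (XT.nd (nat_lit 44850) (nat_lit 0) (nat_lit 0) (XT.nd (nat_lit 78) (nat_lit 0) (nat_lit 0) (XT.lf (nat_lit 0) (nat_lit 206035611153) (nat_lit 76) (nat_lit 261054379356) (nat_lit 76) (nat_lit 260193415791) (nat_lit 1) (nat_lit 4) (nat_lit 2) (nat_lit 5) (nat_lit 2) (nat_lit 4) (nat_lit 436) (nat_lit 244)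 (nat_lit 220)) (XT.nd (nat_lit 78) (nat_lit 0) (nat_lit 0) (XT.lf (nat_lit 0) (nat_lit 218819391287) (nat_lit 76) (nat_lit 272822229428) (nat_lit 76) (nat_lit 271942840505) (nat_lit 1) (nat_lit 4) (nat_lit 2) (nat_lit 5) (nat_lit 2) (nat_lit 4) (nat_lit 437) (nat_lit 244) (nat_lit 219)) (XT.lf (nat_lit 0) (nat_lit 232197791881) (nat_lit 76) (nat_lit 285200423617) (nat_lit 76) (nat_lit 284303486733) (nat_lit 1) (nat_lit 4) (nat_lit 2) (nat_lit 5) (nat_lit 2) (nat_lit 4) (nat_lit 438) (nat_lit 244) (nat_lit 218)))) (XT.nd (nat_lit 78) (nat_lit 0) (nat_lit 0) (XT.lf (nat_lit 0) (nat_lit 2201913865) (nat_lit 76) (nat_lit 50374854852) (nat_lit 76) (nat_lit 50374854852) (nat_lit 1) (nat_lit 4) (nat_lit 2) (nat_lit 5) (nat_lit 2) (nat_lit 4) (nat_lit 410) (nat_lit 245) (nat_lit 245)) (XT.nd (nat_lit 78) (nat_lit 0) (nat_lit 0) (XT.lf (nat_lit 0) (nat_lit 9416805465) (nat_lit 76) (nat_lit 103361060931)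 (nat_lit 76) (nat_lit 103298666126) (nat_lit 1) (nat_lit 4) (nat_lit 2) (nat_lit 5) (nat_lit 2) (nat_lit 4) (nat_lit 411) (nat_lit 245) (nat_lit 244)) (XT.lf (nat_lit 0) (nat_lit 14529507169) (nat_lit 76) (nat_lit 106177315670) (nat_lit 76) (nat_lit 106055497241) (nat_lit 1) (nat_lit 4) (nat_lit 2) (nat_lit 5) (nat_lit 2) (nat_lit 4) (nat_lit 412) (nat_lit 245) (nat_lit 243)))))) (XT.nd (nat_lit 468) (nat_lit 0) (nat_lit 0) (XT.nd (nat_lit 234) (nat_lit 0) (nat_lit 0) (XT.nd (nat_lit 78) (nat_lit 0) (nat_lit 0) (XT.lf (nat_lit 0) (nat_lit 19754105943) (nat_lit 76) (nat_lit 109205179290) (nat_lit 76) (nat_lit 109026766933) (nat_lit 1) (nat_lit 4) (nat_lit 2) (nat_lit 5) (nat_lit 2) (nat_lit 4) (nat_lit 413) (nat_lit 245) (nat_lit 242)) (XT.nd (nat_lit 78) (nat_lit 0) (nat_lit 0) (XT.lf (nat_lit 0) (nat_lit 25103041308) (nat_lit 76) (nat_lit 112451860989) (nat_lit 76) (nat_lit 112219549654)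 (nat_lit 1) (nat_lit 4) (nat_lit 2) (nat_lit 5) (nat_lit 2) (nat_lit 4) (nat_lit 414) (nat_lit 245) (nat_lit 241)) (XT.lf (nat_lit 0) (nat_lit 30589048826) (nat_lit 76) (nat_lit 115925090963) (nat_lit 76) (nat_lit 115641447268) (nat_lit 1) (nat_lit 4) (nat_lit 2) (nat_lit 5) (nat_lit 2) (nat_lit 4) (nat_lit 415) (nat_lit 245) (nat_lit 240)))) (XT.nd (nat_lit 78) (nat_lit 0) (nat_lit 0) (XT.lf (nat_lit 0) (nat_lit 36225190417) (nat_lit 76) (nat_lit 119633138807) (nat_lit 76) (nat_lit 119300607149) (nat_lit 1) (nat_lit 4) (nat_lit 2) (nat_lit 5) (nat_lit 2) (nat_lit 4) (nat_lit 416) (nat_lit 245) (nat_lit 239)) (XT.nd (nat_lit 78) (nat_lit 0) (nat_lit 0) (XT.lf (nat_lit 0) (nat_lit 42024885467) (nat_lit 76) (nat_lit 123584833205) (nat_lit 76) (nat_lit 123205741583) (nat_lit 1) (nat_lit 4) (nat_lit 2) (nat_lit 5) (nat_lit 2) (nat_lit 4) (nat_lit 417) (nat_lit 245) (nat_lit 238)) (XT.lf (nat_lit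 0) (nat_lit 48001942774) (nat_lit 76) (nat_lit 127789582955) (nat_lit 76) (nat_lit 127366148510) (nat_lit 1) (nat_lit 4) (nat_lit 2) (nat_lit 5) (nat_lit 2) (nat_lit 4) (nat_lit 418) (nat_lit 245) (nat_lit 237))))) (XT.nd (nat_lit 234) (nat_lit 0) (nat_lit 0) (XT.nd (nat_lit 78) (nat_lit 0) (nat_lit 0) (XT.lf (nat_lit 0) (nat_lit 54170593427) (nat_lit 76) (nat_lit 132257399365) (nat_lit 76) (nat_lit 131791733659) (nat_lit 1) (nat_lit 4) (nat_lit 2) (nat_lit 5) (nat_lit 2) (nat_lit 4) (nat_lit 419) (nat_lit 245) (nat_lit 236)) (XT.nd (nat_lit 78) (nat_lit 0) (nat_lit 0) (XT.lf (nat_lit 0) (nat_lit 60545524688) (nat_lit 76) (nat_lit 136998920092) (nat_lit 76) (nat_lit 136493034140) (nat_lit 1) (nat_lit 4) (nat_lit 2) (nat_lit 5) (nat_lit 2) (nat_lit 4) (nat_lit 420) (nat_lit 245) (nat_lit 235)) (XT.lf (nat_lit 0) (nat_lit 67141914966) (nat_lit 76) (nat_lit 142025434473) (nat_lit 76) (nat_lit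 141481243523) (nat_lit 1) (nat_lit 4) (nat_lit 2) (nat_lit 5) (nat_lit 2) (nat_lit 4) (nat_lit 421) (nat_lit 245) (nat_lit 234)))) (XT.nd (nat_lit 78) (nat_lit 0) (nat_lit 0) (XT.lf (nat_lit 0) (nat_lit 73975469952) (nat_lit 76) (nat_lit 147348910399) (nat_lit 76) (nat_lit 146768238498) (nat_lit 1) (nat_lit 4) (nat_lit 2) (nat_lit 5) (nat_lit 2) (nat_lit 4) (nat_lit 422) (nat_lit 245) (nat_lit 233)) (XT.nd (nat_lit 78) (nat_lit 0) (nat_lit 0) (XT.lf (nat_lit 0) (nat_lit 81062460015) (nat_lit 76) (nat_lit 152982022812) (nat_lit 76) (nat_lit 152366607149) (nat_lit 1) (nat_lit 4) (nat_lit 2) (nat_lit 5) (nat_lit 2) (nat_lit 4) (nat_lit 423) (nat_lit 245) (nat_lit 232)) (XT.lf (nat_lit 0) (nat_lit 88419758941) (nat_lit 76) (nat_lit 158938183885) (nat_lit 76) (nat_lit 158289678924) (nat_lit 1) (nat_lit 4) (nat_lit 2) (nat_lit 5) (nat_lit 2) (nat_lit 4) (nat_lit 424) (nat_lit 245) (nat_lit 231)))))))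 (XT.nd (nat_lit 936) (nat_lit 0) (nat_lit 0) (XT.nd (nat_lit 468) (nat_lit 0) (nat_lit 0) (XT.nd (nat_lit 234) (nat_lit 0) (nat_lit 0) (XT.nd (nat_lit 78) (nat_lit 0) (nat_lit 0) (XT.lf (nat_lit 0) (nat_lit 96064884108) (nat_lit 76) (nat_lit 165231574953) (nat_lit 76) (nat_lit 164551556376) (nat_lit 1) (nat_lit 4) (nat_lit 2) (nat_lit 5) (nat_lit 2) (nat_lit 4) (nat_lit 425) (nat_lit 245) (nat_lit 230)) (XT.nd (nat_lit 78) (nat_lit 0) (nat_lit 0) (XT.lf (nat_lit 0) (nat_lit 104016038195) (nat_lit 76) (nat_lit 171877180281) (nat_lit 76) (nat_lit 171167148736) (nat_lit 1) (nat_lit 4) (nat_lit 2) (nat_lit 5) (nat_lit 2) (nat_lit 4) (nat_lit 426) (nat_lit 245) (nat_lit 229)) (XT.lf (nat_lit 0) (nat_lit 112292152522) (nat_lit 76) (nat_lit 178890822739) (nat_lit 76) (nat_lit 178152207415) (nat_lit 1) (nat_lit 4) (nat_lit 2) (nat_lit 5) (nat_lit 2) (nat_lit 4) (nat_lit 427) (nat_lit 245) (nat_lit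 228)))) (XT.nd (nat_lit 78) (nat_lit 0) (nat_lit 0) (XT.lf (nat_lit 0) (nat_lit 120912932122) (nat_lit 76) (nat_lit 186289201476) (nat_lit 76) (nat_lit 185523363505) (nat_lit 1) (nat_lit 4) (nat_lit 2) (nat_lit 5) (nat_lit 2) (nat_lit 4) (nat_lit 428) (nat_lit 245) (nat_lit 227)) (XT.nd (nat_lit 78) (nat_lit 0) (nat_lit 0) (XT.lf (nat_lit 0) (nat_lit 129898902661) (nat_lit 76) (nat_lit 194089931679) (nat_lit 76) (nat_lit 193298167378) (nat_lit 1) (nat_lit 4) (nat_lit 2) (nat_lit 5) (nat_lit 2) (nat_lit 4) (nat_lit 429) (nat_lit 245) (nat_lit 226)) (XT.lf (nat_lit 0) (nat_lit 139271459307) (nat_lit 76) (nat_lit 202311586514) (nat_lit 76) (nat_lit 201495130470) (nat_lit 1) (nat_lit 4) (nat_lit 2) (nat_lit 5) (nat_lit 2) (nat_lit 4) (nat_lit 430) (nat_lit 245) (nat_lit 225))))) (XT.nd (nat_lit 234) (nat_lit 0) (nat_lit 0) (XT.nd (nat_lit 78) (nat_lit 0) (nat_lit 0) (XT.lf (nat_lit 0) (nat_lit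 149052917672) (nat_lit 76) (nat_lit 210973741352) (nat_lit 76) (nat_lit 210133769362) (nat_lit 1) (nat_lit 4) (nat_lit 2) (nat_lit 5) (nat_lit 2) (nat_lit 4) (nat_lit 431) (nat_lit 245) (nat_lit 224)) (XT.nd (nat_lit 78) (nat_lit 0) (nat_lit 0) (XT.lf (nat_lit 0) (nat_lit 159266566941) (nat_lit 76) (nat_lit 220097020370) (nat_lit 76) (nat_lit 219234652241) (nat_lit 1) (nat_lit 4) (nat_lit 2) (nat_lit 5) (nat_lit 2) (nat_lit 4) (nat_lit 432) (nat_lit 245) (nat_lit 223)) (XT.lf (nat_lit 0) (nat_lit 169936725328) (nat_lit 76) (nat_lit 229703145661) (nat_lit 76) (nat_lit 228819447876) (nat_lit 1) (nat_lit 4) (nat_lit 2) (nat_lit 5) (nat_lit 2) (nat_lit 4) (nat_lit 433) (nat_lit 245) (nat_lit 222)))) (XT.nd (nat_lit 78) (nat_lit 0) (nat_lit 0) (XT.lf (nat_lit 0) (nat_lit 181088797971) (nat_lit 76) (nat_lit 239814988951) (nat_lit 76) (nat_lit 238910977208) (nat_lit 1) (nat_lit 4) (nat_lit 2)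 (nat_lit 5) (nat_lit 2) (nat_lit 4) (nat_lit 434) (nat_lit 245) (nat_lit 221)) (XT.nd (nat_lit 78) (nat_lit 0) (nat_lit 0) (XT.lf (nat_lit 0) (nat_lit 192749337425) (nat_lit 76) (nat_lit 250456626059) (nat_lit 76) (nat_lit 249533267689) (nat_lit 1) (nat_lit 4) (nat_lit 2) (nat_lit 5) (nat_lit 2) (nat_lit 4) (nat_lit 435) (nat_lit 245) (nat_lit 220)) (XT.lf (nat_lit 0) (nat_lit 204946106877) (nat_lit 76) (nat_lit 261653394215) (nat_lit 76) (nat_lit 260711610487) (nat_lit 1) (nat_lit 4) (nat_lit 2) (nat_lit 5) (nat_lit 2) (nat_lit 4) (nat_lit 436) (nat_lit 245) (nat_lit 219)))))) (XT.nd (nat_lit 44928) (nat_lit 0) (nat_lit 0) (XT.nd (nat_lit 44694) (nat_lit 0) (nat_lit 0) (XT.nd (nat_lit 78) (nat_lit 0) (nat_lit 0) (XT.lf (nat_lit 0) (nat_lit 217708146257) (nat_lit 76) (nat_lit 273431952391) (nat_lit 76) (nat_lit 272472620702) (nat_lit 1) (nat_lit 4) (nat_lit 2) (nat_lit 5) (nat_lit 2) (nat_lit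 4) (nat_lit 437) (nat_lit 245) (nat_lit 218)) (XT.nd (nat_lit 44538) (nat_lit 0) (nat_lit 76) (XT.lf (nat_lit 0) (nat_lit 231065841371) (nat_lit 76) (nat_lit 285820344774) (nat_lit 76) (nat_lit 284844300741) (nat_lit 1) (nat_lit 4) (nat_lit 2) (nat_lit 5) (nat_lit 2) (nat_lit 4) (nat_lit 438) (nat_lit 245) (nat_lit 217)) (XT.lf (nat_lit 0) (nat_lit 45468058492) (nat_lit 152) (nat_lit 2560014988) (nat_lit 0) (nat_lit 45468058492) (nat_lit 2) (nat_lit 5) (nat_lit 4) (nat_lit 4) (nat_lit 2) (nat_lit 4) (nat_lit 408) (nat_lit 246) (nat_lit 246)))) (XT.nd (nat_lit 78) (nat_lit 76) (nat_lit 0) (XT.lf (nat_lit 0) (nat_lit 97889337258) (nat_lit 152) (nat_lit 504674861) (nat_lit 0) (nat_lit 97823822713) (nat_lit 2) (nat_lit 5) (nat_lit 4) (nat_lit 4) (nat_lit 2) (nat_lit 4) (nat_lit 409) (nat_lit 246) (nat_lit 245)) (XT.nd (nat_lit 78) (nat_lit 0) (nat_lit 0) (XT.lf (nat_lit 0) (nat_lit 4326524726)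 (nat_lit 76) (nat_lit 100853298761) (nat_lit 76) (nat_lit 100725389411) (nat_lit 1) (nat_lit 4) (nat_lit 2) (nat_lit 5) (nat_lit 2) (nat_lit 4) (nat_lit 410) (nat_lit 246) (nat_lit 244)) (XT.lf (nat_lit 0) (nat_lit 9265880549) (nat_lit 76) (nat_lit 103500911427) (nat_lit 76) (nat_lit 103313578453) (nat_lit 1) (nat_lit 4) (nat_lit 2) (nat_lit 5) (nat_lit 2) (nat_lit 4) (nat_lit 411) (nat_lit 246) (nat_lit 243))))) (XT.nd (nat_lit 234) (nat_lit 0) (nat_lit 0) (XT.nd (nat_lit 78) (nat_lit 0) (nat_lit 0) (XT.lf (nat_lit 0) (nat_lit 14308466148) (nat_lit 76) (nat_lit 106351700871) (nat_lit 76) (nat_lit 106107773969) (nat_lit 1) (nat_lit 4) (nat_lit 2) (nat_lit 5) (nat_lit 2) (nat_lit 4) (nat_lit 412) (nat_lit 246) (nat_lit 242)) (XT.nd (nat_lit 78) (nat_lit 0) (nat_lit 0) (XT.lf (nat_lit 0) (nat_lit 19466287680) (nat_lit 76) (nat_lit 109412454685) (nat_lit 76) (nat_lit 109114628805) (nat_lit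 1) (nat_lit 4) (nat_lit 2) (nat_lit 5) (nat_lit 2) (nat_lit 4) (nat_lit 413) (nat_lit 246) (nat_lit 241)) (XT.lf (nat_lit 0) (nat_lit 24751625671) (nat_lit 76) (nat_lit 112690460379) (nat_lit 76) (nat_lit 112341302139) (nat_lit 1) (nat_lit 4) (nat_lit 2) (nat_lit 5) (nat_lit 2) (nat_lit 4) (nat_lit 414) (nat_lit 246) (nat_lit 240)))) (XT.nd (nat_lit 78) (nat_lit 0) (nat_lit 0) (XT.lf (nat_lit 0) (nat_lit 30177064261) (nat_lit 76) (nat_lit 116193522729) (nat_lit 76) (nat_lit 115795476526) (nat_lit 1) (nat_lit 4) (nat_lit 2) (nat_lit 5) (nat_lit 2) (nat_lit 4) (nat_lit 415) (nat_lit 246) (nat_lit 239)) (XT.nd (nat_lit 78) (nat_lit 0) (nat_lit 0) (XT.lf (nat_lit 0) (nat_lit 35755521159) (nat_lit 76) (nat_lit 119929982360) (nat_lit 76) (nat_lit 119485376192) (nat_lit 1) (nat_lit 4) (nat_lit 2) (nat_lit 5) (nat_lit 2) (nat_lit 4) (nat_lit 416) (nat_lit 246) (nat_lit 238)) (XT.lf (nat_lit 0)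 (nat_lit 41500278406) (nat_lit 76) (nat_lit 123908735603) (nat_lit 76) (nat_lit 123419786612) (nat_lit 1) (nat_lit 4) (nat_lit 2) (nat_lit 5) (nat_lit 2) (nat_lit 4) (nat_lit 417) (nat_lit 246) (nat_lit 237))))))))
noncomputable def xc5 : XT := (XT.nd (nat_lit 46098) (nat_lit 0) (nat_lit 0) (XT.nd (nat_lit 858) (nat_lit 0) (nat_lit 0) (XT.nd (nat_lit 390) (nat_lit 0) (nat_lit 0) (XT.nd (nat_lit 156) (nat_lit 0) (nat_lit 0) (XT.nd (nat_lit 78) (nat_lit 0) (nat_lit 0) (XT.lf (nat_lit 0) (nat_lit 47425013996) (nat_lit 76) (nat_lit 128139255680) (nat_lit 76) (nat_lit 127608075430) (nat_lit 1) (nat_lit 4) (nat_lit 2) (nat_lit 5) (nat_lit 2) (nat_lit 4) (nat_lit 418) (nat_lit 246) (nat_lit 236)) (XT.lf (nat_lit 0) (nat_lit 53543834442) (nat_lit 76) (nat_lit 132631615260) (nat_lit 76) (nat_lit 132060214761) (nat_lit 1) (nat_lit 4) (nat_lit 2) (nat_lit 5) (nat_lit 2) (nat_lit 4) (nat_lit 419) (nat_lit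 246) (nat_lit 235))) (XT.nd (nat_lit 78) (nat_lit 0) (nat_lit 0) (XT.lf (nat_lit 0) (nat_lit 59871308364) (nat_lit 76) (nat_lit 137396510435) (nat_lit 76) (nat_lit 136786804939) (nat_lit 1) (nat_lit 4) (nat_lit 2) (nat_lit 5) (nat_lit 2) (nat_lit 4) (nat_lit 420) (nat_lit 246) (nat_lit 234)) (XT.nd (nat_lit 78) (nat_lit 0) (nat_lit 0) (XT.lf (nat_lit 0) (nat_lit 66422501176) (nat_lit 76) (nat_lit 142445286194) (nat_lit 76) (nat_lit 141799099748) (nat_lit 1) (nat_lit 4) (nat_lit 2) (nat_lit 5) (nat_lit 2) (nat_lit 4) (nat_lit 421) (nat_lit 246) (nat_lit 233)) (XT.lf (nat_lit 0) (nat_lit 73213010956) (nat_lit 76) (nat_lit 147789963432) (nat_lit 76) (nat_lit 147109033224) (nat_lit 1) (nat_lit 4) (nat_lit 2) (nat_lit 5) (nat_lit 2) (nat_lit 4) (nat_lit 422) (nat_lit 246) (nat_lit 232))))) (XT.nd (nat_lit 234) (nat_lit 0) (nat_lit 0) (XT.nd (nat_lit 78) (nat_lit 0) (nat_lit 0) (XT.lf (nat_lit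 0) (nat_lit 80259005585) (nat_lit 76) (nat_lit 153443267572) (nat_lit 76) (nat_lit 152729248066) (nat_lit 1) (nat_lit 4) (nat_lit 2) (nat_lit 5) (nat_lit 2) (nat_lit 4) (nat_lit 423) (nat_lit 246) (nat_lit 231)) (XT.nd (nat_lit 78) (nat_lit 0) (nat_lit 0) (XT.lf (nat_lit 0) (nat_lit 87577261240) (nat_lit 76) (nat_lit 159418658860) (nat_lit 76) (nat_lit 158673125738) (nat_lit 1) (nat_lit 4) (nat_lit 2) (nat_lit 5) (nat_lit 2) (nat_lit 4) (nat_lit 424) (nat_lit 246) (nat_lit 230)) (XT.lf (nat_lit 0) (nat_lit 95185202339) (nat_lit 76) (nat_lit 165730364419) (nat_lit 76) (nat_lit 164954818329) (nat_lit 1) (nat_lit 4) (nat_lit 2) (nat_lit 5) (nat_lit 2) (nat_lit 4) (nat_lit 425) (nat_lit 246) (nat_lit 229)))) (XT.nd (nat_lit 78) (nat_lit 0) (nat_lit 0) (XT.lf (nat_lit 0) (nat_lit 103100943029) (nat_lit 76) (nat_lit 172393412120) (nat_lit 76) (nat_lit 171589282250) (nat_lit 1) (nat_lit 4) (nat_lit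 2) (nat_lit 5) (nat_lit 2) (nat_lit 4) (nat_lit 426) (nat_lit 246) (nat_lit 228)) (XT.nd (nat_lit 78) (nat_lit 0) (nat_lit 0) (XT.lf (nat_lit 0) (nat_lit 111343330310) (nat_lit 76) (nat_lit 179423666361) (nat_lit 76) (nat_lit 178592313845) (nat_lit 1) (nat_lit 4) (nat_lit 2) (nat_lit 5) (nat_lit 2) (nat_lit 4) (nat_lit 427) (nat_lit 246) (nat_lit 227)) (XT.lf (nat_lit 0) (nat_lit 119931988915) (nat_lit 76) (nat_lit 186837865844) (nat_lit 76) (nat_lit 185980586997) (nat_lit 1) (nat_lit 4) (nat_lit 2) (nat_lit 5) (nat_lit 2) (nat_lit 4) (nat_lit 428) (nat_lit 246) (nat_lit 226)))))) (XT.nd (nat_lit 468) (nat_lit 0) (nat_lit 0) (XT.nd (nat_lit 234) (nat_lit 0) (nat_lit 0) (XT.nd (nat_lit 78) (nat_lit 0) (nat_lit 0) (XT.lf (nat_lit 0) (nat_lit 128887368029) (nat_lit 76) (nat_lit 194653663423) (nat_lit 76) (nat_lit 193771692834) (nat_lit 1) (nat_lit 4) (nat_lit 2) (nat_lit 5) (nat_lit 2) (nat_lit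 4) (nat_lit 429) (nat_lit 246) (nat_lit 225)) (XT.nd (nat_lit 78) (nat_lit 0) (nat_lit 0) (XT.lf (nat_lit 0) (nat_lit 138230789986) (nat_lit 76) (nat_lit 202889668142) (nat_lit 76) (nat_lit 201984181607) (nat_lit 1) (nat_lit 4) (nat_lit 2) (nat_lit 5) (nat_lit 2) (nat_lit 4) (nat_lit 430) (nat_lit 246) (nat_lit 224)) (XT.lf (nat_lit 0) (nat_lit 147984501027) (nat_lit 76) (nat_lit 211565489535) (nat_lit 76) (nat_lit 210637606861) (nat_lit 1) (nat_lit 4) (nat_lit 2) (nat_lit 5) (nat_lit 2) (nat_lit 4) (nat_lit 431) (nat_lit 246) (nat_lit 223)))) (XT.nd (nat_lit 78) (nat_lit 0) (nat_lit 0) (XT.lf (nat_lit 0) (nat_lit 158171724274) (nat_lit 76) (nat_lit 220701784320) (nat_lit 76) (nat_lit 219752571990) (nat_lit 1) (nat_lit 4) (nat_lit 2) (nat_lit 5) (nat_lit 2) (nat_lit 4) (nat_lit 432) (nat_lit 246) (nat_lit 222)) (XT.nd (nat_lit 78) (nat_lit 0) (nat_lit 0) (XT.lf (nat_lit 0) (nat_lit 168816715020)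 (nat_lit 76) (nat_lit 230320305579) (nat_lit 76) (nat_lit 229350779291) (nat_lit 1) (nat_lit 4) (nat_lit 2) (nat_lit 5) (nat_lit 2) (nat_lit 4) (nat_lit 433) (nat_lit 246) (nat_lit 221)) (XT.lf (nat_lit 0) (nat_lit 179944818482) (nat_lit 76) (nat_lit 240443954554) (nat_lit 76) (nat_lit 239455081639) (nat_lit 1) (nat_lit 4) (nat_lit 2) (nat_lit 5) (nat_lit 2) (nat_lit 4) (nat_lit 434) (nat_lit 246) (nat_lit 220))))) (XT.nd (nat_lit 234) (nat_lit 0) (nat_lit 0) (XT.nd (nat_lit 78) (nat_lit 0) (nat_lit 0) (XT.lf (nat_lit 0) (nat_lit 191582530143) (nat_lit 76) (nat_lit 251096835170) (nat_lit 76) (nat_lit 250089536897) (nat_lit 1) (nat_lit 4) (nat_lit 2) (nat_lit 5) (nat_lit 2) (nat_lit 4) (nat_lit 435) (nat_lit 246) (nat_lit 219)) (XT.nd (nat_lit 78) (nat_lit 0) (nat_lit 0) (XT.lf (nat_lit 0) (nat_lit 203757558842) (nat_lit 76) (nat_lit 262304311430) (nat_lit 76) (nat_lit 261279465195) (nat_lit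 1) (nat_lit 4) (nat_lit 2) (nat_lit 5) (nat_lit 2) (nat_lit 4) (nat_lit 436) (nat_lit 246) (nat_lit 218)) (XT.lf (nat_lit 0) (nat_lit 216498892742) (nat_lit 76) (nat_lit 274093067800) (nat_lit 76) (nat_lit 273051509222) (nat_lit 1) (nat_lit 4) (nat_lit 2) (nat_lit 5) (nat_lit 2) (nat_lit 4) (nat_lit 437) (nat_lit 246) (nat_lit 217)))) (XT.nd (nat_lit 44382) (nat_lit 0) (nat_lit 76) (XT.lf (nat_lit 0) (nat_lit 229836868351) (nat_lit 76) (nat_lit 286491172749) (nat_lit 76) (nat_lit 285433697652) (nat_lit 1) (nat_lit 4) (nat_lit 2) (nat_lit 5) (nat_lit 2) (nat_lit 4) (nat_lit 438) (nat_lit 246) (nat_lit 216)) (XT.nd (nat_lit 78) (nat_lit 0) (nat_lit 0) (XT.lf (nat_lit 0) (nat_lit 38941958729) (nat_lit 152) (nat_lit 7039966579) (nat_lit 0) (nat_lit 38941958729) (nat_lit 2) (nat_lit 5) (nat_lit 4) (nat_lit 4) (nat_lit 2) (nat_lit 4) (nat_lit 406) (nat_lit 247) (nat_lit 247)) (XT.lf (nat_lit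 0) (nat_lit 84304848477) (nat_lit 152) (nat_lit 9669005372) (nat_lit 0) (nat_lit 84236058205) (nat_lit 2) (nat_lit 5) (nat_lit 4) (nat_lit 4) (nat_lit 2) (nat_lit 4) (nat_lit 407) (nat_lit 247) (nat_lit 246))))))) (XT.nd (nat_lit 936) (nat_lit 0) (nat_lit 0) (XT.nd (nat_lit 468) (nat_lit 0) (nat_lit 0) (XT.nd (nat_lit 234) (nat_lit 0) (nat_lit 0) (XT.nd (nat_lit 78) (nat_lit 76) (nat_lit 0) (XT.lf (nat_lit 0) (nat_lit 90964984601) (nat_lit 152) (nat_lit 5198600244) (nat_lit 0) (nat_lit 90830679783) (nat_lit 2) (nat_lit 5) (nat_lit 4) (nat_lit 4) (nat_lit 2) (nat_lit 4) (nat_lit 408) (nat_lit 247) (nat_lit 245)) (XT.nd (nat_lit 78) (nat_lit 76) (nat_lit 0) (XT.lf (nat_lit 0) (nat_lit 97880183297) (nat_lit 152) (nat_lit 658073955) (nat_lit 0) (nat_lit 97683483674) (nat_lit 2) (nat_lit 5) (nat_lit 4) (nat_lit 4) (nat_lit 2) (nat_lit 4) (nat_lit 409) (nat_lit 247) (nat_lit 244)) (XT.lf (nat_lit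 0) (nat_lit 4094431654) (nat_lit 76) (nat_lit 101036403222) (nat_lit 76) (nat_lit 100780279975) (nat_lit 1) (nat_lit 4) (nat_lit 2) (nat_lit 5) (nat_lit 2) (nat_lit 4) (nat_lit 410) (nat_lit 247) (nat_lit 243)))) (XT.nd (nat_lit 78) (nat_lit 0) (nat_lit 0) (XT.lf (nat_lit 0) (nat_lit 8963671372) (nat_lit 76) (nat_lit 103718550592) (nat_lit 76) (nat_lit 103405833418) (nat_lit 1) (nat_lit 4) (nat_lit 2) (nat_lit 5) (nat_lit 2) (nat_lit 4) (nat_lit 411) (nat_lit 247) (nat_lit 242)) (XT.nd (nat_lit 78) (nat_lit 0) (nat_lit 0) (XT.lf (nat_lit 0) (nat_lit 13939479729) (nat_lit 76) (nat_lit 106602230230) (nat_lit 76) (nat_lit 106235614077) (nat_lit 1) (nat_lit 4) (nat_lit 2) (nat_lit 5) (nat_lit 2) (nat_lit 4) (nat_lit 412) (nat_lit 247) (nat_lit 241)) (XT.lf (nat_lit 0) (nat_lit 19033703887) (nat_lit 76) (nat_lit 109694308039) (nat_lit 76) (nat_lit 109276359526) (nat_lit 1) (nat_lit 4) (nat_lit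 2) (nat_lit 5) (nat_lit 2) (nat_lit 4) (nat_lit 413) (nat_lit 247) (nat_lit 240))))) (XT.nd (nat_lit 234) (nat_lit 0) (nat_lit 0) (XT.nd (nat_lit 78) (nat_lit 0) (nat_lit 0) (XT.lf (nat_lit 0) (nat_lit 24258472951) (nat_lit 76) (nat_lit 113002146110) (nat_lit 76) (nat_lit 112535309634) (nat_lit 1) (nat_lit 4) (nat_lit 2) (nat_lit 5) (nat_lit 2) (nat_lit 4) (nat_lit 414) (nat_lit 247) (nat_lit 239)) (XT.nd (nat_lit 78) (nat_lit 0) (nat_lit 0) (XT.lf (nat_lit 0) (nat_lit 29626226847) (nat_lit 76) (nat_lit 116533620246) (nat_lit 76) (nat_lit 116020223807) (nat_lit 1) (nat_lit 4) (nat_lit 2) (nat_lit 5) (nat_lit 2) (nat_lit 4) (nat_lit 415) (nat_lit 247) (nat_lit 238)) (XT.lf (nat_lit 0) (nat_lit 35149745942) (nat_lit 76) (nat_lit 120297138721) (nat_lit 76) (nat_lit 119739399458) (nat_lit 1) (nat_lit 4) (nat_lit 2) (nat_lit 5) (nat_lit 2) (nat_lit 4) (nat_lit 416) (nat_lit 247) (nat_lit 237))))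 (XT.nd (nat_lit 78) (nat_lit 0) (nat_lit 0) (XT.lf (nat_lit 0) (nat_lit 40842181473) (nat_lit 76) (nat_lit 124301662292) (nat_lit 76) (nat_lit 123701691769) (nat_lit 1) (nat_lit 4) (nat_lit 2) (nat_lit 5) (nat_lit 2) (nat_lit 4) (nat_lit 417) (nat_lit 247) (nat_lit 236)) (XT.nd (nat_lit 78) (nat_lit 0) (nat_lit 0) (XT.lf (nat_lit 0) (nat_lit 46717086856) (nat_lit 76) (nat_lit 128556725540) (nat_lit 76) (nat_lit 127916534769) (nat_lit 1) (nat_lit 4) (nat_lit 2) (nat_lit 5) (nat_lit 2) (nat_lit 4) (nat_lit 418) (nat_lit 247) (nat_lit 235)) (XT.lf (nat_lit 0) (nat_lit 52788449962) (nat_lit 76) (nat_lit 133072459566) (nat_lit 76) (nat_lit 132393963798) (nat_lit 1) (nat_lit 4) (nat_lit 2) (nat_lit 5) (nat_lit 2) (nat_lit 4) (nat_lit 419) (nat_lit 247) (nat_lit 234)))))) (XT.nd (nat_lit 468) (nat_lit 0) (nat_lit 0) (XT.nd (nat_lit 234) (nat_lit 0) (nat_lit 0) (XT.nd (nat_lit 78) (nat_lit 0) (nat_lit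 0) (XT.lf (nat_lit 0) (nat_lit 59070726418) (nat_lit 76) (nat_lit 137859616119) (nat_lit 76) (nat_lit 137144639401) (nat_lit 1) (nat_lit 4) (nat_lit 2) (nat_lit 5) (nat_lit 2) (nat_lit 4) (nat_lit 420) (nat_lit 247) (nat_lit 233)) (XT.nd (nat_lit 78) (nat_lit 0) (nat_lit 0) (XT.lf (nat_lit 0) (nat_lit 65578874024) (nat_lit 76) (nat_lit 142929593191) (nat_lit 76) (nat_lit 142179872711) (nat_lit 1) (nat_lit 4) (nat_lit 2) (nat_lit 5) (nat_lit 2) (nat_lit 4) (nat_lit 421) (nat_lit 247) (nat_lit 232)) (XT.lf (nat_lit 0) (nat_lit 72328388369) (nat_lit 76) (nat_lit 148294462156) (nat_lit 76) (nat_lit 147511652378) (nat_lit 1) (nat_lit 4) (nat_lit 2) (nat_lit 5) (nat_lit 2) (nat_lit 4) (nat_lit 422) (nat_lit 247) (nat_lit 231)))) (XT.nd (nat_lit 78) (nat_lit 0) (nat_lit 0) (XT.lf (nat_lit 0) (nat_lit 79335339727) (nat_lit 76) (nat_lit 153966996511) (nat_lit 76) (nat_lit 153152673116) (nat_lit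 1) (nat_lit 4) (nat_lit 2) (nat_lit 5) (nat_lit 2) (nat_lit 4) (nat_lit 423) (nat_lit 247) (nat_lit 230)) (XT.nd (nat_lit 78) (nat_lit 0) (nat_lit 0) (XT.lf (nat_lit 0) (nat_lit 86616411315) (nat_lit 76) (nat_lit 159960702290) (nat_lit 76) (nat_lit 159116365928) (nat_lit 1) (nat_lit 4) (nat_lit 2) (nat_lit 5) (nat_lit 2) (nat_lit 4) (nat_lit 424) (nat_lit 247) (nat_lit 229)) (XT.lf (nat_lit 0) (nat_lit 94188939017) (nat_lit 76) (nat_lit 166289850222) (nat_lit 76) (nat_lit 165416930080) (nat_lit 1) (nat_lit 4) (nat_lit 2) (nat_lit 5) (nat_lit 2) (nat_lit 4) (nat_lit 425) (nat_lit 247) (nat_lit 228))))) (XT.nd (nat_lit 234) (nat_lit 0) (nat_lit 0) (XT.nd (nat_lit 78) (nat_lit 0) (nat_lit 0) (XT.lf (nat_lit 0) (nat_lit 102070952661) (nat_lit 76) (nat_lit 172969509706) (nat_lit 76) (nat_lit 172069366917) (nat_lit 1) (nat_lit 4) (nat_lit 2) (nat_lit 5) (nat_lit 2) (nat_lit 4) (nat_lit 426) (nat_lit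 247) (nat_lit 227)) (XT.nd (nat_lit 78) (nat_lit 0) (nat_lit 0) (XT.lf (nat_lit 0) (nat_lit 110281218947) (nat_lit 76) (nat_lit 180015584693) (nat_lit 76) (nat_lit 179089515574) (nat_lit 1) (nat_lit 4) (nat_lit 2) (nat_lit 5) (nat_lit 2) (nat_lit 4) (nat_lit 427) (nat_lit 247) (nat_lit 226)) (XT.lf (nat_lit 0) (nat_lit 118839286127) (nat_lit 76) (nat_lit 187444851553) (nat_lit 76) (nat_lit 186494090691) (nat_lit 1) (nat_lit 4) (nat_lit 2) (nat_lit 5) (nat_lit 2) (nat_lit 4) (nat_lit 428) (nat_lit 247) (nat_lit 225)))) (XT.nd (nat_lit 78) (nat_lit 0) (nat_lit 0) (XT.lf (nat_lit 0) (nat_lit 127765530552) (nat_lit 76) (nat_lit 195274999016) (nat_lit 76) (nat_lit 194300722208) (nat_lit 1) (nat_lit 4) (nat_lit 2) (nat_lit 5) (nat_lit 2) (nat_lit 4) (nat_lit 429) (nat_lit 247) (nat_lit 224)) (XT.nd (nat_lit 78) (nat_lit 0) (nat_lit 0) (XT.lf (nat_lit 0) (nat_lit 137081205185) (nat_lit 76) (nat_lit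 203524670290) (nat_lit 76) (nat_lit 202527997343) (nat_lit 1) (nat_lit 4) (nat_lit 2) (nat_lit 5) (nat_lit 2) (nat_lit 4) (nat_lit 430) (nat_lit 247) (nat_lit 223)) (XT.lf (nat_lit 0) (nat_lit 146808490204) (nat_lit 76) (nat_lit 212213507450) (nat_lit 76) (nat_lit 211195504847) (nat_lit 1) (nat_lit 4) (nat_lit 2) (nat_lit 5) (nat_lit 2) (nat_lit 4) (nat_lit 431) (nat_lit 247) (nat_lit 222))))))))
noncomputable def xc6 : XT := (XT.nd (nat_lit 45942) (nat_lit 0) (nat_lit 0) (XT.nd (nat_lit 45006) (nat_lit 0) (nat_lit 0) (XT.nd (nat_lit 390) (nat_lit 0) (nat_lit 0) (XT.nd (nat_lit 156) (nat_lit 0) (nat_lit 0) (XT.nd (nat_lit 78) (nat_lit 0) (nat_lit 0) (XT.lf (nat_lit 0) (nat_lit 156970545810) (nat_lit 76) (nat_lit 221362198203) (nat_lit 76) (nat_lit 220323881642) (nat_lit 1) (nat_lit 4) (nat_lit 2) (nat_lit 5) (nat_lit 2) (nat_lit 4) (nat_lit 432) (nat_lit 247) (nat_lit 221)) (XT.lf (nat_lit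 0) (nat_lit 167591567375) (nat_lit 76) (nat_lit 230992525146) (nat_lit 76) (nat_lit 229934861959) (nat_lit 1) (nat_lit 4) (nat_lit 2) (nat_lit 5) (nat_lit 2) (nat_lit 4) (nat_lit 433) (nat_lit 247) (nat_lit 220))) (XT.nd (nat_lit 78) (nat_lit 0) (nat_lit 0) (XT.lf (nat_lit 0) (nat_lit 178696843045) (nat_lit 76) (nat_lit 241127417630) (nat_lit 76) (nat_lit 240051329083) (nat_lit 1) (nat_lit 4) (nat_lit 2) (nat_lit 5) (nat_lit 2) (nat_lit 4) (nat_lit 434) (nat_lit 247) (nat_lit 219)) (XT.nd (nat_lit 78) (nat_lit 0) (nat_lit 0) (XT.lf (nat_lit 0) (nat_lit 190312813952) (nat_lit 76) (nat_lit 251791006350) (nat_lit 76) (nat_lit 250697369842) (nat_lit 1) (nat_lit 4) (nat_lit 2) (nat_lit 5) (nat_lit 2) (nat_lit 4) (nat_lit 435) (nat_lit 247) (nat_lit 218)) (XT.lf (nat_lit 0) (nat_lit 202467137171) (nat_lit 76) (nat_lit 263008680803) (nat_lit 76) (nat_lit 261898331952) (nat_lit 1) (nat_lit 4) (nat_lit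 2) (nat_lit 5) (nat_lit 2) (nat_lit 4) (nat_lit 436) (nat_lit 247) (nat_lit 217))))) (XT.nd (nat_lit 44382) (nat_lit 0) (nat_lit 76) (XT.nd (nat_lit 78) (nat_lit 0) (nat_lit 0) (XT.lf (nat_lit 0) (nat_lit 215188751566) (nat_lit 76) (nat_lit 274807149739) (nat_lit 76) (nat_lit 273680884371) (nat_lit 1) (nat_lit 4) (nat_lit 2) (nat_lit 5) (nat_lit 2) (nat_lit 4) (nat_lit 437) (nat_lit 247) (nat_lit 216)) (XT.nd (nat_lit 44226) (nat_lit 0) (nat_lit 76) (XT.lf (nat_lit 0) (nat_lit 228507946694) (nat_lit 76) (nat_lit 287214504750) (nat_lit 76) (nat_lit 286073080793) (nat_lit 1) (nat_lit 4) (nat_lit 2) (nat_lit 5) (nat_lit 2) (nat_lit 4) (nat_lit 438) (nat_lit 247) (nat_lit 215)) (XT.lf (nat_lit 0) (nat_lit 32907648332) (nat_lit 152) (nat_lit 11339312611) (nat_lit 0) (nat_lit 32907648332) (nat_lit 2) (nat_lit 5) (nat_lit 4) (nat_lit 4) (nat_lit 2) (nat_lit 4) (nat_lit 404) (nat_lit 248) (nat_lit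 248)))) (XT.nd (nat_lit 78) (nat_lit 0) (nat_lit 0) (XT.lf (nat_lit 0) (nat_lit 71759133401) (nat_lit 152) (nat_lit 18441885815) (nat_lit 0) (nat_lit 71686903615) (nat_lit 2) (nat_lit 5) (nat_lit 4) (nat_lit 4) (nat_lit 2) (nat_lit 4) (nat_lit 405) (nat_lit 248) (nat_lit 247)) (XT.nd (nat_lit 78) (nat_lit 0) (nat_lit 0) (XT.lf (nat_lit 0) (nat_lit 77914228456) (nat_lit 152) (nat_lit 14162431940) (nat_lit 0) (nat_lit 77773208397) (nat_lit 2) (nat_lit 5) (nat_lit 4) (nat_lit 4) (nat_lit 2) (nat_lit 4) (nat_lit 406) (nat_lit 248) (nat_lit 246)) (XT.lf (nat_lit 0) (nat_lit 84295236818) (nat_lit 152) (nat_lit 9830074421) (nat_lit 0) (nat_lit 84088702214) (nat_lit 2) (nat_lit 5) (nat_lit 4) (nat_lit 4) (nat_lit 2) (nat_lit 4) (nat_lit 407) (nat_lit 248) (nat_lit 245)))))) (XT.nd (nat_lit 468) (nat_lit 0) (nat_lit 0) (XT.nd (nat_lit 234) (nat_lit 0) (nat_lit 0) (XT.nd (nat_lit 78) (nat_lit 76)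 (nat_lit 0) (XT.lf (nat_lit 0) (nat_lit 90917351364) (nat_lit 152) (nat_lit 5434498120) (nat_lit 0) (nat_lit 90648421955) (nat_lit 2) (nat_lit 5) (nat_lit 4) (nat_lit 4) (nat_lit 2) (nat_lit 4) (nat_lit 408) (nat_lit 248) (nat_lit 244)) (XT.nd (nat_lit 78) (nat_lit 76) (nat_lit 0) (XT.lf (nat_lit 0) (nat_lit 97796339034) (nat_lit 152) (nat_lit 965237381) (nat_lit 0) (nat_lit 97467986001) (nat_lit 2) (nat_lit 5) (nat_lit 4) (nat_lit 4) (nat_lit 2) (nat_lit 4) (nat_lit 409) (nat_lit 248) (nat_lit 243)) (XT.lf (nat_lit 0) (nat_lit 3706995914) (nat_lit 76) (nat_lit 101299459050) (nat_lit 76) (nat_lit 100914512089) (nat_lit 1) (nat_lit 4) (nat_lit 2) (nat_lit 5) (nat_lit 2) (nat_lit 4) (nat_lit 410) (nat_lit 248) (nat_lit 242)))) (XT.nd (nat_lit 78) (nat_lit 0) (nat_lit 0) (XT.lf (nat_lit 0) (nat_lit 8509458390) (nat_lit 76) (nat_lit 104014496614) (nat_lit 76) (nat_lit 103575650676) (nat_lit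 1) (nat_lit 4) (nat_lit 2) (nat_lit 5) (nat_lit 2) (nat_lit 4) (nat_lit 411) (nat_lit 248) (nat_lit 241)) (XT.nd (nat_lit 78) (nat_lit 0) (nat_lit 0) (XT.lf (nat_lit 0) (nat_lit 13421669372) (nat_lit 76) (nat_lit 106929500247) (nat_lit 76) (nat_lit 106439321948) (nat_lit 1) (nat_lit 4) (nat_lit 2) (nat_lit 5) (nat_lit 2) (nat_lit 4) (nat_lit 412) (nat_lit 248) (nat_lit 240)) (XT.lf (nat_lit 0) (nat_lit 18455324602) (nat_lit 76) (nat_lit 110051410432) (nat_lit 76) (nat_lit 109512344170) (nat_lit 1) (nat_lit 4) (nat_lit 2) (nat_lit 5) (nat_lit 2) (nat_lit 4) (nat_lit 413) (nat_lit 248) (nat_lit 239))))) (XT.nd (nat_lit 234) (nat_lit 0) (nat_lit 0) (XT.nd (nat_lit 78) (nat_lit 0) (nat_lit 0) (XT.lf (nat_lit 0) (nat_lit 23622408973) (nat_lit 76) (nat_lit 113387660289) (nat_lit 76) (nat_lit 112802034063) (nat_lit 1) (nat_lit 4) (nat_lit 2) (nat_lit 5) (nat_lit 2) (nat_lit 4) (nat_lit 414) (nat_lit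 248) (nat_lit 238)) (XT.nd (nat_lit 78) (nat_lit 0) (nat_lit 0) (XT.lf (nat_lit 0) (nat_lit 28935225067) (nat_lit 76) (nat_lit 116946193271) (nat_lit 76) (nat_lit 116316224222) (nat_lit 1) (nat_lit 4) (nat_lit 2) (nat_lit 5) (nat_lit 2) (nat_lit 4) (nat_lit 415) (nat_lit 248) (nat_lit 237)) (XT.lf (nat_lit 0) (nat_lit 34406422445) (nat_lit 76) (nat_lit 120735482074) (nat_lit 76) (nat_lit 120063281764) (nat_lit 1) (nat_lit 4) (nat_lit 2) (nat_lit 5) (nat_lit 2) (nat_lit 4) (nat_lit 416) (nat_lit 248) (nat_lit 236)))) (XT.nd (nat_lit 78) (nat_lit 0) (nat_lit 0) (XT.lf (nat_lit 0) (nat_lit 40049027769) (nat_lit 76) (nat_lit 124764548814) (nat_lit 76) (nat_lit 124052128257) (nat_lit 1) (nat_lit 4) (nat_lit 2) (nat_lit 5) (nat_lit 2) (nat_lit 4) (nat_lit 417) (nat_lit 248) (nat_lit 235)) (XT.nd (nat_lit 78) (nat_lit 0) (nat_lit 0) (XT.lf (nat_lit 0) (nat_lit 45876475813) (nat_lit 76) (nat_lit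 129042986509) (nat_lit 76) (nat_lit 128292260954) (nat_lit 1) (nat_lit 4) (nat_lit 2) (nat_lit 5) (nat_lit 2) (nat_lit 4) (nat_lit 418) (nat_lit 248) (nat_lit 234)) (XT.lf (nat_lit 0) (nat_lit 51902641453) (nat_lit 76) (nat_lit 133580981914) (nat_lit 76) (nat_lit 132793775409) (nat_lit 1) (nat_lit 4) (nat_lit 2) (nat_lit 5) (nat_lit 2) (nat_lit 4) (nat_lit 419) (nat_lit 248) (nat_lit 233))))))) (XT.nd (nat_lit 936) (nat_lit 0) (nat_lit 0) (XT.nd (nat_lit 468) (nat_lit 0) (nat_lit 0) (XT.nd (nat_lit 234) (nat_lit 0) (nat_lit 0) (XT.nd (nat_lit 78) (nat_lit 0) (nat_lit 0) (XT.lf (nat_lit 0) (nat_lit 58141872702) (nat_lit 76) (nat_lit 138389339780) (nat_lit 76) (nat_lit 137567389513) (nat_lit 1) (nat_lit 4) (nat_lit 2) (nat_lit 5) (nat_lit 2) (nat_lit 4) (nat_lit 420) (nat_lit 248) (nat_lit 232)) (XT.nd (nat_lit 78) (nat_lit 0) (nat_lit 0) (XT.lf (nat_lit 0) (nat_lit 64609024873) (nat_lit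 76) (nat_lit 143479508578) (nat_lit 76) (nat_lit 142624469014) (nat_lit 1) (nat_lit 4) (nat_lit 2) (nat_lit 5) (nat_lit 2) (nat_lit 4) (nat_lit 421) (nat_lit 248) (nat_lit 231)) (XT.lf (nat_lit 0) (nat_lit 71319495948) (nat_lit 76) (nat_lit 148863607758) (nat_lit 76) (nat_lit 147977054577) (nat_lit 1) (nat_lit 4) (nat_lit 2) (nat_lit 5) (nat_lit 2) (nat_lit 4) (nat_lit 422) (nat_lit 248) (nat_lit 230)))) (XT.nd (nat_lit 78) (nat_lit 0) (nat_lit 0) (XT.lf (nat_lit 0) (nat_lit 78289263239) (nat_lit 76) (nat_lit 154554456604) (nat_lit 76) (nat_lit 153637890455) (nat_lit 1) (nat_lit 4) (nat_lit 2) (nat_lit 5) (nat_lit 2) (nat_lit 4) (nat_lit 423) (nat_lit 248) (nat_lit 229)) (XT.nd (nat_lit 78) (nat_lit 0) (nat_lit 0) (XT.lf (nat_lit 0) (nat_lit 85534921429) (nat_lit 76) (nat_lit 160565604756) (nat_lit 76) (nat_lit 159620454828) (nat_lit 1) (nat_lit 4) (nat_lit 2) (nat_lit 5) (nat_lit 2) (nat_lit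 4) (nat_lit 424) (nat_lit 248) (nat_lit 228)) (XT.lf (nat_lit 0) (nat_lit 93073722086) (nat_lit 76) (nat_lit 166911364471) (nat_lit 76) (nat_lit 165938991896) (nat_lit 1) (nat_lit 4) (nat_lit 2) (nat_lit 5) (nat_lit 2) (nat_lit 4) (nat_lit 425) (nat_lit 248) (nat_lit 227))))) (XT.nd (nat_lit 234) (nat_lit 0) (nat_lit 0) (XT.nd (nat_lit 78) (nat_lit 0) (nat_lit 0) (XT.lf (nat_lit 0) (nat_lit 100923614734) (nat_lit 76) (nat_lit 173606844701) (nat_lit 76) (nat_lit 172608545796) (nat_lit 1) (nat_lit 4) (nat_lit 2) (nat_lit 5) (nat_lit 2) (nat_lit 4) (nat_lit 426) (nat_lit 248) (nat_lit 226)) (XT.nd (nat_lit 78) (nat_lit 0) (nat_lit 0) (XT.lf (nat_lit 0) (nat_lit 109103289596) (nat_lit 76) (nat_lit 180667987065) (nat_lit 76) (nat_lit 179644996417) (nat_lit 1) (nat_lit 4) (nat_lit 2) (nat_lit 5) (nat_lit 2) (nat_lit 4) (nat_lit 427) (nat_lit 248) (nat_lit 225)) (XT.lf (nat_lit 0) (nat_lit 117632222086)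 (nat_lit 76) (nat_lit 188111603808) (nat_lit 76) (nat_lit 187065097214) (nat_lit 1) (nat_lit 4) (nat_lit 2) (nat_lit 5) (nat_lit 2) (nat_lit 4) (nat_lit 428) (nat_lit 248) (nat_lit 224)))) (XT.nd (nat_lit 78) (nat_lit 0) (nat_lit 0) (XT.lf (nat_lit 0) (nat_lit 126530719188) (nat_lit 76) (nat_lit 195955417826) (nat_lit 76) (nat_lit 194886515093) (nat_lit 1) (nat_lit 4) (nat_lit 2) (nat_lit 5) (nat_lit 2) (nat_lit 4) (nat_lit 429) (nat_lit 248) (nat_lit 223)) (XT.nd (nat_lit 78) (nat_lit 0) (nat_lit 0) (XT.lf (nat_lit 0) (nat_lit 135819967798) (nat_lit 76) (nat_lit 204218104867) (nat_lit 76) (nat_lit 203127872478) (nat_lit 1) (nat_lit 4) (nat_lit 2) (nat_lit 5) (nat_lit 2) (nat_lit 4) (nat_lit 430) (nat_lit 248) (nat_lit 222)) (XT.lf (nat_lit 0) (nat_lit 145522085176) (nat_lit 76) (nat_lit 212919337995) (nat_lit 76) (nat_lit 211808791648) (nat_lit 1) (nat_lit 4) (nat_lit 2) (nat_lit 5) (nat_lit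 2) (nat_lit 4) (nat_lit 431) (nat_lit 248) (nat_lit 221)))))) (XT.nd (nat_lit 468) (nat_lit 0) (nat_lit 0) (XT.nd (nat_lit 234) (nat_lit 0) (nat_lit 0) (XT.nd (nat_lit 78) (nat_lit 0) (nat_lit 0) (XT.lf (nat_lit 0) (nat_lit 155660171601) (nat_lit 76) (nat_lit 222079834432) (nat_lit 76) (nat_lit 220949941458) (nat_lit 1) (nat_lit 4) (nat_lit 2) (nat_lit 5) (nat_lit 2) (nat_lit 4) (nat_lit 432) (nat_lit 248) (nat_lit 220)) (XT.nd (nat_lit 78) (nat_lit 0) (nat_lit 0) (XT.lf (nat_lit 0) (nat_lit 166258365374) (nat_lit 76) (nat_lit 231721404884) (nat_lit 76) (nat_lit 230573086552) (nat_lit 1) (nat_lit 4) (nat_lit 2) (nat_lit 5) (nat_lit 2) (nat_lit 4) (nat_lit 433) (nat_lit 248) (nat_lit 219)) (XT.lf (nat_lit 0) (nat_lit 177341900290) (nat_lit 76) (nat_lit 241867005471) (nat_lit 76) (nat_lit 240701139178) (nat_lit 1) (nat_lit 4) (nat_lit 2) (nat_lit 5) (nat_lit 2) (nat_lit 4) (nat_lit 434) (nat_lit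 248) (nat_lit 218)))) (XT.nd (nat_lit 78) (nat_lit 0) (nat_lit 0) (XT.lf (nat_lit 0) (nat_lit 188937165717) (nat_lit 76) (nat_lit 252540792385) (nat_lit 76) (nat_lit 251358213748) (nat_lit 1) (nat_lit 4) (nat_lit 2) (nat_lit 5) (nat_lit 2) (nat_lit 4) (nat_lit 435) (nat_lit 248) (nat_lit 217)) (XT.nd (nat_lit 78) (nat_lit 0) (nat_lit 0) (XT.lf (nat_lit 0) (nat_lit 201071769431) (nat_lit 76) (nat_lit 263768179405) (nat_lit 76) (nat_lit 262569684250) (nat_lit 1) (nat_lit 4) (nat_lit 2) (nat_lit 5) (nat_lit 2) (nat_lit 4) (nat_lit 436) (nat_lit 248) (nat_lit 216)) (XT.lf (nat_lit 0) (nat_lit 213774603345) (nat_lit 76) (nat_lit 275575898403) (nat_lit 76) (nat_lit 274362244660) (nat_lit 1) (nat_lit 4) (nat_lit 2) (nat_lit 5) (nat_lit 2) (nat_lit 4) (nat_lit 437) (nat_lit 248) (nat_lit 215))))) (XT.nd (nat_lit 44226) (nat_lit 0) (nat_lit 76) (XT.nd (nat_lit 44070) (nat_lit 0) (nat_lit 76) (XT.lf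 (nat_lit 0) (nat_lit 227075912302) (nat_lit 76) (nat_lit 287992062997) (nat_lit 76) (nat_lit 286763972503) (nat_lit 1) (nat_lit 4) (nat_lit 2) (nat_lit 5) (nat_lit 2) (nat_lit 4) (nat_lit 438) (nat_lit 248) (nat_lit 214)) (XT.nd (nat_lit 78) (nat_lit 0) (nat_lit 0) (XT.lf (nat_lit 0) (nat_lit 27313658111) (nat_lit 152) (nat_lit 15486638969) (nat_lit 0) (nat_lit 27313658111) (nat_lit 2) (nat_lit 5) (nat_lit 4) (nat_lit 4) (nat_lit 2) (nat_lit 4) (nat_lit 402) (nat_lit 249) (nat_lit 249)) (XT.lf (nat_lit 0) (nat_lit 60144407531) (nat_lit 152) (nat_lit 26882737634) (nat_lit 0) (nat_lit 60068566256) (nat_lit 2) (nat_lit 5) (nat_lit 4) (nat_lit 4) (nat_lit 2) (nat_lit 4) (nat_lit 403) (nat_lit 249) (nat_lit 248)))) (XT.nd (nat_lit 78) (nat_lit 0) (nat_lit 0) (XT.lf (nat_lit 0) (nat_lit 65847123212) (nat_lit 152) (nat_lit 22765248942) (nat_lit 0) (nat_lit 65699052150) (nat_lit 2) (nat_lit 5)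 (nat_lit 4) (nat_lit 4) (nat_lit 2) (nat_lit 4) (nat_lit 404) (nat_lit 249) (nat_lit 247)) (XT.nd (nat_lit 78) (nat_lit 0) (nat_lit 0) (XT.lf (nat_lit 0) (nat_lit 71749041159) (nat_lit 152) (nat_lit 18611008317) (nat_lit 0) (nat_lit 71532179824) (nat_lit 2) (nat_lit 5) (nat_lit 4) (nat_lit 4) (nat_lit 2) (nat_lit 4) (nat_lit 405) (nat_lit 249) (nat_lit 246)) (XT.lf (nat_lit 0) (nat_lit 77864213557) (nat_lit 152) (nat_lit 14410124710) (nat_lit 0) (nat_lit 77581837678) (nat_lit 2) (nat_lit 5) (nat_lit 4) (nat_lit 4) (nat_lit 2) (nat_lit 4) (nat_lit 406) (nat_lit 249) (nat_lit 245))))))))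
noncomputable def xc7 : XT := (XT.nd (nat_lit 1872) (nat_lit 0) (nat_lit 0) (XT.nd (nat_lit 936) (nat_lit 0) (nat_lit 0) (XT.nd (nat_lit 468) (nat_lit 0) (nat_lit 0) (XT.nd (nat_lit 234) (nat_lit 76) (nat_lit 0) (XT.nd (nat_lit 78) (nat_lit 0) (nat_lit 0) (XT.lf (nat_lit 0) (nat_lit 84207200342) (nat_lit 152) (nat_lit 10152596017) (nat_lit 0) (nat_lit 83862429657) (nat_lit 2) (nat_lit 5) (nat_lit 4) (nat_lit 4) (nat_lit 2) (nat_lit 4) (nat_lit 407) (nat_lit 249) (nat_lit 244)) (XT.nd (nat_lit 78) (nat_lit 0) (nat_lit 0) (XT.lf (nat_lit 0) (nat_lit 90793103862) (nat_lit 152) (nat_lit 5828285266) (nat_lit 0) (nat_lit 90388909553) (nat_lit 2) (nat_lit 5) (nat_lit 4) (nat_lit 4) (nat_lit 2) (nat_lit 4) (nat_lit 408) (nat_lit 249) (nat_lit 243)) (XT.lf (nat_lit 0) (nat_lit 97637604840) (nat_lit 152) (nat_lit 1426896478) (nat_lit 0) (nat_lit 97176816604) (nat_lit 2) (nat_lit 5) (nat_lit 4) (nat_lit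 4) (nat_lit 2) (nat_lit 4) (nat_lit 409) (nat_lit 249) (nat_lit 242)))) (XT.nd (nat_lit 78) (nat_lit 0) (nat_lit 0) (XT.lf (nat_lit 0) (nat_lit 3163295040) (nat_lit 76) (nat_lit 101643092567) (nat_lit 76) (nat_lit 101128405353) (nat_lit 1) (nat_lit 4) (nat_lit 2) (nat_lit 5) (nat_lit 2) (nat_lit 4) (nat_lit 410) (nat_lit 249) (nat_lit 241)) (XT.nd (nat_lit 78) (nat_lit 0) (nat_lit 0) (XT.lf (nat_lit 0) (nat_lit 7902160141) (nat_lit 76) (nat_lit 104389454127) (nat_lit 76) (nat_lit 103823434552) (nat_lit 1) (nat_lit 4) (nat_lit 2) (nat_lit 5) (nat_lit 2) (nat_lit 4) (nat_lit 411) (nat_lit 249) (nat_lit 240)) (XT.lf (nat_lit 0) (nat_lit 12753802196) (nat_lit 76) (nat_lit 107334290136) (nat_lit 76) (nat_lit 106719382598) (nat_lit 1) (nat_lit 4) (nat_lit 2) (nat_lit 5) (nat_lit 2) (nat_lit 4) (nat_lit 412) (nat_lit 249) (nat_lit 239))))) (XT.nd (nat_lit 234) (nat_lit 0) (nat_lit 0) (XT.nd (nat_lit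 78) (nat_lit 0) (nat_lit 0) (XT.lf (nat_lit 0) (nat_lit 17729772733) (nat_lit 76) (nat_lit 110484612108) (nat_lit 76) (nat_lit 109823144606) (nat_lit 1) (nat_lit 4) (nat_lit 2) (nat_lit 5) (nat_lit 2) (nat_lit 4) (nat_lit 413) (nat_lit 249) (nat_lit 238)) (XT.nd (nat_lit 78) (nat_lit 0) (nat_lit 0) (XT.lf (nat_lit 0) (nat_lit 22841919301) (nat_lit 76) (nat_lit 113847920809) (nat_lit 76) (nat_lit 113142110485) (nat_lit 1) (nat_lit 4) (nat_lit 2) (nat_lit 5) (nat_lit 2) (nat_lit 4) (nat_lit 414) (nat_lit 249) (nat_lit 237)) (XT.lf (nat_lit 0) (nat_lit 28102413678) (nat_lit 76) (nat_lit 117432224119) (nat_lit 76) (nat_lit 116684182534) (nat_lit 1) (nat_lit 4) (nat_lit 2) (nat_lit 5) (nat_lit 2) (nat_lit 4) (nat_lit 415) (nat_lit 249) (nat_lit 236)))) (XT.nd (nat_lit 78) (nat_lit 0) (nat_lit 0) (XT.lf (nat_lit 0) (nat_lit 33523780850) (nat_lit 76) (nat_lit 121246056091) (nat_lit 76) (nat_lit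 120457794259) (nat_lit 1) (nat_lit 4) (nat_lit 2) (nat_lit 5) (nat_lit 2) (nat_lit 4) (nat_lit 416) (nat_lit 249) (nat_lit 235)) (XT.nd (nat_lit 78) (nat_lit 0) (nat_lit 0) (XT.lf (nat_lit 0) (nat_lit 39118928834) (nat_lit 76) (nat_lit 125298497279) (nat_lit 76) (nat_lit 124471930449) (nat_lit 1) (nat_lit 4) (nat_lit 2) (nat_lit 5) (nat_lit 2) (nat_lit 4) (nat_lit 417) (nat_lit 249) (nat_lit 234)) (XT.lf (nat_lit 0) (nat_lit 44901179411) (nat_lit 76) (nat_lit 129599196352) (nat_lit 76) (nat_lit 128736148571) (nat_lit 1) (nat_lit 4) (nat_lit 2) (nat_lit 5) (nat_lit 2) (nat_lit 4) (nat_lit 418) (nat_lit 249) (nat_lit 233)))))) (XT.nd (nat_lit 468) (nat_lit 0) (nat_lit 0) (XT.nd (nat_lit 234) (nat_lit 0) (nat_lit 0) (XT.nd (nat_lit 78) (nat_lit 0) (nat_lit 0) (XT.lf (nat_lit 0) (nat_lit 50884299845) (nat_lit 76) (nat_lit 134158393069) (nat_lit 76) (nat_lit 133260601527) (nat_lit 1) (nat_lit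 4) (nat_lit 2) (nat_lit 5) (nat_lit 2) (nat_lit 4) (nat_lit 419) (nat_lit 249) (nat_lit 232)) (XT.nd (nat_lit 78) (nat_lit 0) (nat_lit 0) (XT.lf (nat_lit 0) (nat_lit 57082535660) (nat_lit 76) (nat_lit 138986942662) (nat_lit 76) (nat_lit 138056061822) (nat_lit 1) (nat_lit 4) (nat_lit 2) (nat_lit 5) (nat_lit 2) (nat_lit 4) (nat_lit 420) (nat_lit 249) (nat_lit 231)) (XT.lf (nat_lit 0) (nat_lit 63510644561) (nat_lit 76) (nat_lit 144096341676) (nat_lit 76) (nat_lit 143133947219) (nat_lit 1) (nat_lit 4) (nat_lit 2) (nat_lit 5) (nat_lit 2) (nat_lit 4) (nat_lit 421) (nat_lit 249) (nat_lit 230)))) (XT.nd (nat_lit 78) (nat_lit 0) (nat_lit 0) (XT.lf (nat_lit 0) (nat_lit 70183931568) (nat_lit 76) (nat_lit 149498755347) (nat_lit 76) (nat_lit 148506347923) (nat_lit 1) (nat_lit 4) (nat_lit 2) (nat_lit 5) (nat_lit 2) (nat_lit 4) (nat_lit 422) (nat_lit 249) (nat_lit 229)) (XT.nd (nat_lit 78) (nat_lit 0)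 (nat_lit 0) (XT.lf (nat_lit 0) (nat_lit 77118285461) (nat_lit 76) (nat_lit 155207046565) (nat_lit 76) (nat_lit 154186055362) (nat_lit 1) (nat_lit 4) (nat_lit 2) (nat_lit 5) (nat_lit 2) (nat_lit 4) (nat_lit 423) (nat_lit 249) (nat_lit 228)) (XT.lf (nat_lit 0) (nat_lit 84330216606) (nat_lit 76) (nat_lit 161234806500) (nat_lit 76) (nat_lit 160186592650) (nat_lit 1) (nat_lit 4) (nat_lit 2) (nat_lit 5) (nat_lit 2) (nat_lit 4) (nat_lit 424) (nat_lit 249) (nat_lit 227))))) (XT.nd (nat_lit 234) (nat_lit 0) (nat_lit 0) (XT.nd (nat_lit 78) (nat_lit 0) (nat_lit 0) (XT.lf (nat_lit 0) (nat_lit 91836896267) (nat_lit 76) (nat_lit 167596386961) (nat_lit 76) (nat_lit 166522246781) (nat_lit 1) (nat_lit 4) (nat_lit 2) (nat_lit 5) (nat_lit 2) (nat_lit 4) (nat_lit 425) (nat_lit 249) (nat_lit 226)) (XT.nd (nat_lit 78) (nat_lit 0) (nat_lit 0) (XT.lf (nat_lit 0) (nat_lit 99656197492) (nat_lit 76) (nat_lit 174306934568)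 (nat_lit 76) (nat_lit 173208102645) (nat_lit 1) (nat_lit 4) (nat_lit 2) (nat_lit 5) (nat_lit 2) (nat_lit 4) (nat_lit 426) (nat_lit 249) (nat_lit 225)) (XT.lf (nat_lit 0) (nat_lit 107806737663) (nat_lit 76) (nat_lit 181382426816) (nat_lit 76) (nat_lit 180260078946) (nat_lit 1) (nat_lit 4) (nat_lit 2) (nat_lit 5) (nat_lit 2) (nat_lit 4) (nat_lit 427) (nat_lit 249) (nat_lit 224)))) (XT.nd (nat_lit 78) (nat_lit 0) (nat_lit 0) (XT.lf (nat_lit 0) (nat_lit 116307922830) (nat_lit 76) (nat_lit 188839710113) (nat_lit 76) (nat_lit 187694966105) (nat_lit 1) (nat_lit 4) (nat_lit 2) (nat_lit 5) (nat_lit 2) (nat_lit 4) (nat_lit 428) (nat_lit 249) (nat_lit 223)) (XT.nd (nat_lit 78) (nat_lit 0) (nat_lit 0) (XT.lf (nat_lit 0) (nat_lit 125179993909) (nat_lit 76) (nat_lit 196696539898) (nat_lit 76) (nat_lit 195530466234) (nat_lit 1) (nat_lit 4) (nat_lit 2) (nat_lit 5) (nat_lit 2) (nat_lit 4) (nat_lit 429)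 (nat_lit 249) (nat_lit 222)) (XT.lf (nat_lit 0) (nat_lit 134444074879) (nat_lit 76) (nat_lit 204971622908) (nat_lit 76) (nat_lit 203785235285) (nat_lit 1) (nat_lit 4) (nat_lit 2) (nat_lit 5) (nat_lit 2) (nat_lit 4) (nat_lit 430) (nat_lit 249) (nat_lit 221))))))) (XT.nd (nat_lit 44772) (nat_lit 0) (nat_lit 0) (XT.nd (nat_lit 468) (nat_lit 0) (nat_lit 0) (XT.nd (nat_lit 234) (nat_lit 0) (nat_lit 0) (XT.nd (nat_lit 78) (nat_lit 0) (nat_lit 0) (XT.lf (nat_lit 0) (nat_lit 144122223075) (nat_lit 76) (nat_lit 213684661720) (nat_lit 76) (nat_lit 212478927471) (nat_lit 1) (nat_lit 4) (nat_lit 2) (nat_lit 5) (nat_lit 2) (nat_lit 4) (nat_lit 431) (nat_lit 249) (nat_lit 220)) (XT.nd (nat_lit 78) (nat_lit 0) (nat_lit 0) (XT.lf (nat_lit 0) (nat_lit 154237481709) (nat_lit 76) (nat_lit 222856401666) (nat_lit 76) (nat_lit 221632242058) (nat_lit 1) (nat_lit 4) (nat_lit 2) (nat_lit 5) (nat_lit 2) (nat_lit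 4) (nat_lit 432) (nat_lit 249) (nat_lit 219)) (XT.lf (nat_lit 0) (nat_lit 164813934728) (nat_lit 76) (nat_lit 232508680222) (nat_lit 76) (nat_lit 231266972653) (nat_lit 1) (nat_lit 4) (nat_lit 2) (nat_lit 5) (nat_lit 2) (nat_lit 4) (nat_lit 433) (nat_lit 249) (nat_lit 218)))) (XT.nd (nat_lit 78) (nat_lit 0) (nat_lit 0) (XT.lf (nat_lit 0) (nat_lit 175876764163) (nat_lit 76) (nat_lit 242664479003) (nat_lit 76) (nat_lit 241406059090) (nat_lit 1) (nat_lit 4) (nat_lit 2) (nat_lit 5) (nat_lit 2) (nat_lit 4) (nat_lit 434) (nat_lit 249) (nat_lit 217)) (XT.nd (nat_lit 78) (nat_lit 0) (nat_lit 0) (XT.lf (nat_lit 0) (nat_lit 187452310086) (nat_lit 76) (nat_lit 253347978483) (nat_lit 76) (nat_lit 252073642052) (nat_lit 1) (nat_lit 4) (nat_lit 2) (nat_lit 5) (nat_lit 2) (nat_lit 4) (nat_lit 435) (nat_lit 249) (nat_lit 216)) (XT.lf (nat_lit 0) (nat_lit 199568133319) (nat_lit 76) (nat_lit 264584615564)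 (nat_lit 76) (nat_lit 263295120546) (nat_lit 1) (nat_lit 4) (nat_lit 2) (nat_lit 5) (nat_lit 2) (nat_lit 4) (nat_lit 436) (nat_lit 249) (nat_lit 215))))) (XT.nd (nat_lit 44070) (nat_lit 0) (nat_lit 76) (XT.nd (nat_lit 78) (nat_lit 0) (nat_lit 0) (XT.lf (nat_lit 0) (nat_lit 212253081060) (nat_lit 76) (nat_lit 276401144146) (nat_lit 76) (nat_lit 275097212376) (nat_lit 1) (nat_lit 4) (nat_lit 2) (nat_lit 5) (nat_lit 2) (nat_lit 4) (nat_lit 437) (nat_lit 249) (nat_lit 214)) (XT.nd (nat_lit 43914) (nat_lit 0) (nat_lit 76) (XT.lf (nat_lit 0) (nat_lit 225537355567) (nat_lit 76) (nat_lit 288825698819) (nat_lit 76) (nat_lit 287508017763) (nat_lit 1) (nat_lit 4) (nat_lit 2) (nat_lit 5) (nat_lit 2) (nat_lit 4) (nat_lit 438) (nat_lit 249) (nat_lit 213)) (XT.lf (nat_lit 0) (nat_lit 22113016628) (nat_lit 152) (nat_lit 19508463641) (nat_lit 0) (nat_lit 22113016628) (nat_lit 2) (nat_lit 5) (nat_lit 4)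 (nat_lit 4) (nat_lit 2) (nat_lit 4) (nat_lit 400) (nat_lit 250) (nat_lit 250)))) (XT.nd (nat_lit 78) (nat_lit 0) (nat_lit 0) (XT.lf (nat_lit 0) (nat_lit 49362346693) (nat_lit 152) (nat_lit 35046609235) (nat_lit 0) (nat_lit 49282713353) (nat_lit 2) (nat_lit 5) (nat_lit 4) (nat_lit 4) (nat_lit 2) (nat_lit 4) (nat_lit 401) (nat_lit 250) (nat_lit 249)) (XT.nd (nat_lit 78) (nat_lit 0) (nat_lit 0) (XT.lf (nat_lit 0) (nat_lit 54660734096) (nat_lit 152) (nat_lit 31064232845) (nat_lit 0) (nat_lit 54505259482) (nat_lit 2) (nat_lit 5) (nat_lit 4) (nat_lit 4) (nat_lit 2) (nat_lit 4) (nat_lit 402) (nat_lit 250) (nat_lit 248)) (XT.lf (nat_lit 0) (nat_lit 60133810677) (nat_lit 152) (nat_lit 27060316261) (nat_lit 0) (nat_lit 59906106276) (nat_lit 2) (nat_lit 5) (nat_lit 4) (nat_lit 4) (nat_lit 2) (nat_lit 4) (nat_lit 403) (nat_lit 250) (nat_lit 247)))))) (XT.nd (nat_lit 468) (nat_lit 76) (nat_lit 0) (XT.nd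 (nat_lit 234) (nat_lit 0) (nat_lit 0) (XT.nd (nat_lit 78) (nat_lit 0) (nat_lit 0) (XT.lf (nat_lit 0) (nat_lit 65794607568) (nat_lit 152) (nat_lit 23025326350) (nat_lit 0) (nat_lit 65498112895) (nat_lit 2) (nat_lit 5) (nat_lit 4) (nat_lit 4) (nat_lit 2) (nat_lit 4) (nat_lit 404) (nat_lit 250) (nat_lit 246)) (XT.nd (nat_lit 78) (nat_lit 0) (nat_lit 0) (XT.lf (nat_lit 0) (nat_lit 71656602858) (nat_lit 152) (nat_lit 18949655993) (nat_lit 0) (nat_lit 71294593640) (nat_lit 2) (nat_lit 5) (nat_lit 4) (nat_lit 4) (nat_lit 2) (nat_lit 4) (nat_lit 405) (nat_lit 250) (nat_lit 245)) (XT.lf (nat_lit 0) (nat_lit 77733753679) (nat_lit 152) (nat_lit 14823601213) (nat_lit 0) (nat_lit 77309349656) (nat_lit 2) (nat_lit 5) (nat_lit 4) (nat_lit 4) (nat_lit 2) (nat_lit 4) (nat_lit 406) (nat_lit 250) (nat_lit 244)))) (XT.nd (nat_lit 78) (nat_lit 0) (nat_lit 0) (XT.lf (nat_lit 0) (nat_lit 84040529438) (nat_lit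 152) (nat_lit 10637338070) (nat_lit 0) (nat_lit 83556701790) (nat_lit 2) (nat_lit 5) (nat_lit 4) (nat_lit 4) (nat_lit 2) (nat_lit 4) (nat_lit 407) (nat_lit 250) (nat_lit 243)) (XT.nd (nat_lit 78) (nat_lit 0) (nat_lit 0) (XT.lf (nat_lit 0) (nat_lit 90591946266) (nat_lit 152) (nat_lit 6380899270) (nat_lit 0) (nat_lit 90051524691) (nat_lit 2) (nat_lit 5) (nat_lit 4) (nat_lit 4) (nat_lit 2) (nat_lit 4) (nat_lit 408) (nat_lit 250) (nat_lit 242)) (XT.lf (nat_lit 0) (nat_lit 97403602776) (nat_lit 152) (nat_lit 2044150435) (nat_lit 0) (nat_lit 96809282222) (nat_lit 2) (nat_lit 5) (nat_lit 4) (nat_lit 4) (nat_lit 2) (nat_lit 4) (nat_lit 409) (nat_lit 250) (nat_lit 241))))) (XT.nd (nat_lit 234) (nat_lit 0) (nat_lit 0) (XT.nd (nat_lit 78) (nat_lit 0) (nat_lit 0) (XT.lf (nat_lit 0) (nat_lit 2462034505) (nat_lit 76) (nat_lit 102068121950) (nat_lit 76) (nat_lit 101422469036) (nat_lit 1) (nat_lit 4) (nat_lit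 2) (nat_lit 5) (nat_lit 2) (nat_lit 4) (nat_lit 410) (nat_lit 250) (nat_lit 240)) (XT.nd (nat_lit 78) (nat_lit 0) (nat_lit 0) (XT.lf (nat_lit 0) (nat_lit 7140330678) (nat_lit 76) (nat_lit 104844315886) (nat_lit 76) (nat_lit 104149775010) (nat_lit 1) (nat_lit 4) (nat_lit 2) (nat_lit 5) (nat_lit 2) (nat_lit 4) (nat_lit 411) (nat_lit 250) (nat_lit 239)) (XT.lf (nat_lit 0) (nat_lit 11934288040) (nat_lit 76) (nat_lit 107817563682) (nat_lit 76) (nat_lit 107076462841) (nat_lit 1) (nat_lit 4) (nat_lit 2) (nat_lit 5) (nat_lit 2) (nat_lit 4) (nat_lit 412) (nat_lit 250) (nat_lit 238)))) (XT.nd (nat_lit 78) (nat_lit 0) (nat_lit 0) (XT.lf (nat_lit 0) (nat_lit 16855320775) (nat_lit 76) (nat_lit 110994944498) (nat_lit 76) (nat_lit 110209500834) (nat_lit 1) (nat_lit 4) (nat_lit 2) (nat_lit 5) (nat_lit 2) (nat_lit 4) (nat_lit 413) (nat_lit 250) (nat_lit 237)) (XT.nd (nat_lit 78) (nat_lit 0) (nat_lit 0)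 (XT.lf (nat_lit 0) (nat_lit 21915145626) (nat_lit 76) (nat_lit 114384023528) (nat_lit 76) (nat_lit 113556348604) (nat_lit 1) (nat_lit 4) (nat_lit 2) (nat_lit 5) (nat_lit 2) (nat_lit 4) (nat_lit 414) (nat_lit 250) (nat_lit 236)) (XT.lf (nat_lit 0) (nat_lit 27125809796) (nat_lit 76) (nat_lit 117992870007) (nat_lit 76) (nat_lit 117124974835) (nat_lit 1) (nat_lit 4) (nat_lit 2) (nat_lit 5) (nat_lit 2) (nat_lit 4) (nat_lit 415) (nat_lit 250) (nat_lit 235))))))))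
noncomputable def xc8 : XT := (XT.nd (nat_lit 45474) (nat_lit 0) (nat_lit 0) (XT.nd (nat_lit 858) (nat_lit 0) (nat_lit 0) (XT.nd (nat_lit 390) (nat_lit 0) (nat_lit 0) (XT.nd (nat_lit 156) (nat_lit 0) (nat_lit 0) (XT.nd (nat_lit 78) (nat_lit 0) (nat_lit 0) (XT.lf (nat_lit 0) (nat_lit 32499719628) (nat_lit 76) (nat_lit 121830076426) (nat_lit 76) (nat_lit 120923876257) (nat_lit 1) (nat_lit 4) (nat_lit 2) (nat_lit 5) (nat_lit 2) (nat_lit 4) (nat_lit 416) (nat_lit 250) (nat_lit 234)) (XT.lf (nat_lit 0) (nat_lit 38049670146) (nat_lit 76) (nat_lit 125904778993) (nat_lit 76) (nat_lit 124962097873) (nat_lit 1) (nat_lit 4) (nat_lit 2) (nat_lit 5) (nat_lit 2) (nat_lit 4) (nat_lit 417) (nat_lit 250) (nat_lit 233))) (XT.nd (nat_lit 78) (nat_lit 0) (nat_lit 0) (XT.lf (nat_lit 0) (nat_lit 43788875517) (nat_lit 76) (nat_lit 130226679378) (nat_lit 76) (nat_lit 129249254496) (nat_lit 1) (nat_lit 4) (nat_lit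 2) (nat_lit 5) (nat_lit 2) (nat_lit 4) (nat_lit 418) (nat_lit 250) (nat_lit 232)) (XT.nd (nat_lit 78) (nat_lit 0) (nat_lit 0) (XT.lf (nat_lit 0) (nat_lit 49731000516) (nat_lit 76) (nat_lit 134806067822) (nat_lit 76) (nat_lit 133795553643) (nat_lit 1) (nat_lit 4) (nat_lit 2) (nat_lit 5) (nat_lit 2) (nat_lit 4) (nat_lit 419) (nat_lit 250) (nat_lit 231)) (XT.lf (nat_lit 0) (nat_lit 55890193061) (nat_lit 76) (nat_lit 139653847630) (nat_lit 76) (nat_lit 138611819834) (nat_lit 1) (nat_lit 4) (nat_lit 2) (nat_lit 5) (nat_lit 2) (nat_lit 4) (nat_lit 420) (nat_lit 250) (nat_lit 230))))) (XT.nd (nat_lit 234) (nat_lit 0) (nat_lit 0) (XT.nd (nat_lit 78) (nat_lit 0) (nat_lit 0) (XT.lf (nat_lit 0) (nat_lit 62281117894) (nat_lit 76) (nat_lit 144781561135) (nat_lit 76) (nat_lit 143709520371) (nat_lit 1) (nat_lit 4) (nat_lit 2) (nat_lit 5) (nat_lit 2) (nat_lit 4) (nat_lit 421) (nat_lit 250) (nat_lit 229))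 (XT.nd (nat_lit 78) (nat_lit 0) (nat_lit 0) (XT.lf (nat_lit 0) (nat_lit 68918991504) (nat_lit 76) (nat_lit 150201417179) (nat_lit 76) (nat_lit 149100792636) (nat_lit 1) (nat_lit 4) (nat_lit 2) (nat_lit 5) (nat_lit 2) (nat_lit 4) (nat_lit 422) (nat_lit 250) (nat_lit 228)) (XT.lf (nat_lit 0) (nat_lit 75819618352) (nat_lit 76) (nat_lit 155926320180) (nat_lit 76) (nat_lit 154798472991) (nat_lit 1) (nat_lit 4) (nat_lit 2) (nat_lit 5) (nat_lit 2) (nat_lit 4) (nat_lit 423) (nat_lit 250) (nat_lit 227)))) (XT.nd (nat_lit 78) (nat_lit 0) (nat_lit 0) (XT.lf (nat_lit 0) (nat_lit 82999428501) (nat_lit 76) (nat_lit 161969900861) (nat_lit 76) (nat_lit 160816127342) (nat_lit 1) (nat_lit 4) (nat_lit 2) (nat_lit 5) (nat_lit 2) (nat_lit 4) (nat_lit 424) (nat_lit 250) (nat_lit 226)) (XT.nd (nat_lit 78) (nat_lit 0) (nat_lit 0) (XT.lf (nat_lit 0) (nat_lit 90475516738) (nat_lit 76) (nat_lit 168346548699) (nat_lit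 76) (nat_lit 167168083436) (nat_lit 1) (nat_lit 4) (nat_lit 2) (nat_lit 5) (nat_lit 2) (nat_lit 4) (nat_lit 425) (nat_lit 250) (nat_lit 225)) (XT.lf (nat_lit 0) (nat_lit 98265683272) (nat_lit 76) (nat_lit 175071446189) (nat_lit 76) (nat_lit 173869464981) (nat_lit 1) (nat_lit 4) (nat_lit 2) (nat_lit 5) (nat_lit 2) (nat_lit 4) (nat_lit 426) (nat_lit 250) (nat_lit 224)))))) (XT.nd (nat_lit 468) (nat_lit 0) (nat_lit 0) (XT.nd (nat_lit 234) (nat_lit 0) (nat_lit 0) (XT.nd (nat_lit 78) (nat_lit 0) (nat_lit 0) (XT.lf (nat_lit 0) (nat_lit 106388476120) (nat_lit 76) (nat_lit 182160604992) (nat_lit 76) (nat_lit 180936227644) (nat_lit 1) (nat_lit 4) (nat_lit 2) (nat_lit 5) (nat_lit 2) (nat_lit 4) (nat_lit 427) (nat_lit 250) (nat_lit 223)) (XT.nd (nat_lit 78) (nat_lit 0) (nat_lit 0) (XT.lf (nat_lit 0) (nat_lit 114863235265) (nat_lit 76) (nat_lit 189630904056) (nat_lit 76) (nat_lit 188385197053) (nat_lit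 1) (nat_lit 4) (nat_lit 2) (nat_lit 5) (nat_lit 2) (nat_lit 4) (nat_lit 428) (nat_lit 250) (nat_lit 222)) (XT.lf (nat_lit 0) (nat_lit 123710138703) (nat_lit 76) (nat_lit 197500129810) (nat_lit 76) (nat_lit 196234108848) (nat_lit 1) (nat_lit 4) (nat_lit 2) (nat_lit 5) (nat_lit 2) (nat_lit 4) (nat_lit 429) (nat_lit 250) (nat_lit 221)))) (XT.nd (nat_lit 78) (nat_lit 0) (nat_lit 0) (XT.lf (nat_lit 0) (nat_lit 132950250492) (nat_lit 76) (nat_lit 205787018503) (nat_lit 76) (nat_lit 204501650915) (nat_lit 1) (nat_lit 4) (nat_lit 2) (nat_lit 5) (nat_lit 2) (nat_lit 4) (nat_lit 430) (nat_lit 250) (nat_lit 220)) (XT.nd (nat_lit 78) (nat_lit 0) (nat_lit 0) (XT.lf (nat_lit 0) (nat_lit 142605570897) (nat_lit 76) (nat_lit 214511300824) (nat_lit 76) (nat_lit 213207507877) (nat_lit 1) (nat_lit 4) (nat_lit 2) (nat_lit 5) (nat_lit 2) (nat_lit 4) (nat_lit 431) (nat_lit 250) (nat_lit 219)) (XT.lf (nat_lit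 0) (nat_lit 152699088776) (nat_lit 76) (nat_lit 223693748874) (nat_lit 76) (nat_lit 222372407966) (nat_lit 1) (nat_lit 4) (nat_lit 2) (nat_lit 5) (nat_lit 2) (nat_lit 4) (nat_lit 432) (nat_lit 250) (nat_lit 218))))) (XT.nd (nat_lit 234) (nat_lit 0) (nat_lit 0) (XT.nd (nat_lit 78) (nat_lit 0) (nat_lit 0) (XT.lf (nat_lit 0) (nat_lit 163254836314) (nat_lit 76) (nat_lit 233356225624) (nat_lit 76) (nat_lit 232018172372) (nat_lit 1) (nat_lit 4) (nat_lit 2) (nat_lit 5) (nat_lit 2) (nat_lit 4) (nat_lit 433) (nat_lit 250) (nat_lit 217)) (XT.nd (nat_lit 78) (nat_lit 0) (nat_lit 0) (XT.lf (nat_lit 0) (nat_lit 174297946245) (nat_lit 76) (nat_lit 243521736971) (nat_lit 76) (nat_lit 242167767201) (nat_lit 1) (nat_lit 4) (nat_lit 2) (nat_lit 5) (nat_lit 2) (nat_lit 4) (nat_lit 434) (nat_lit 250) (nat_lit 216)) (XT.lf (nat_lit 0) (nat_lit 185854711687) (nat_lit 76) (nat_lit 254214486513) (nat_lit 76) (nat_lit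 252845358155) (nat_lit 1) (nat_lit 4) (nat_lit 2) (nat_lit 5) (nat_lit 2) (nat_lit 4) (nat_lit 435) (nat_lit 250) (nat_lit 215)))) (XT.nd (nat_lit 78) (nat_lit 0) (nat_lit 0) (XT.lf (nat_lit 0) (nat_lit 197952648748) (nat_lit 76) (nat_lit 265459933178) (nat_lit 76) (nat_lit 264076368069) (nat_lit 1) (nat_lit 4) (nat_lit 2) (nat_lit 5) (nat_lit 2) (nat_lit 4) (nat_lit 436) (nat_lit 250) (nat_lit 214)) (XT.nd (nat_lit 78) (nat_lit 0) (nat_lit 0) (XT.lf (nat_lit 0) (nat_lit 210620562040) (nat_lit 76) (nat_lit 277284851839) (nat_lit 76) (nat_lit 275887537443) (nat_lit 1) (nat_lit 4) (nat_lit 2) (nat_lit 5) (nat_lit 2) (nat_lit 4) (nat_lit 437) (nat_lit 250) (nat_lit 213)) (XT.lf (nat_lit 0) (nat_lit 223888613261) (nat_lit 76) (nat_lit 289717397064) (nat_lit 76) (nat_lit 288306988110) (nat_lit 1) (nat_lit 4) (nat_lit 2) (nat_lit 5) (nat_lit 2) (nat_lit 4) (nat_lit 438) (nat_lit 250) (nat_lit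 212))))))) (XT.nd (nat_lit 936) (nat_lit 76) (nat_lit 0) (XT.nd (nat_lit 468) (nat_lit 0) (nat_lit 0) (XT.nd (nat_lit 234) (nat_lit 0) (nat_lit 0) (XT.nd (nat_lit 78) (nat_lit 0) (nat_lit 0) (XT.lf (nat_lit 0) (nat_lit 17262817674) (nat_lit 152) (nat_lit 23429458454) (nat_lit 0) (nat_lit 17262817674) (nat_lit 2) (nat_lit 5) (nat_lit 4) (nat_lit 4) (nat_lit 2) (nat_lit 4) (nat_lit 398) (nat_lit 251) (nat_lit 251)) (XT.nd (nat_lit 78) (nat_lit 0) (nat_lit 0) (XT.lf (nat_lit 0) (nat_lit 39323179478) (nat_lit 152) (nat_lit 42984640123) (nat_lit 0) (nat_lit 39239564472) (nat_lit 2) (nat_lit 5) (nat_lit 4) (nat_lit 4) (nat_lit 2) (nat_lit 4) (nat_lit 399) (nat_lit 251) (nat_lit 250)) (XT.lf (nat_lit 0) (nat_lit 44261122025) (nat_lit 152) (nat_lit 39112429934) (nat_lit 0) (nat_lit 44097873679) (nat_lit 2) (nat_lit 5) (nat_lit 4) (nat_lit 4) (nat_lit 2) (nat_lit 4) (nat_lit 400) (nat_lit 251) (nat_lit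 249)))) (XT.nd (nat_lit 78) (nat_lit 0) (nat_lit 0) (XT.lf (nat_lit 0) (nat_lit 49351219995) (nat_lit 152) (nat_lit 35233066794) (nat_lit 0) (nat_lit 49112130374) (nat_lit 2) (nat_lit 5) (nat_lit 4) (nat_lit 4) (nat_lit 2) (nat_lit 4) (nat_lit 401) (nat_lit 251) (nat_lit 248)) (XT.nd (nat_lit 78) (nat_lit 0) (nat_lit 0) (XT.lf (nat_lit 0) (nat_lit 54605592671) (nat_lit 152) (nat_lit 31337314123) (nat_lit 0) (nat_lit 54294273263) (nat_lit 2) (nat_lit 5) (nat_lit 4) (nat_lit 4) (nat_lit 2) (nat_lit 4) (nat_lit 402) (nat_lit 251) (nat_lit 247)) (XT.lf (nat_lit 0) (nat_lit 60036750462) (nat_lit 152) (nat_lit 27415896321) (nat_lit 0) (nat_lit 59656640782) (nat_lit 2) (nat_lit 5) (nat_lit 4) (nat_lit 4) (nat_lit 2) (nat_lit 4) (nat_lit 403) (nat_lit 251) (nat_lit 246))))) (XT.nd (nat_lit 234) (nat_lit 0) (nat_lit 0) (XT.nd (nat_lit 78) (nat_lit 0) (nat_lit 0) (XT.lf (nat_lit 0) (nat_lit 65657624697)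 (nat_lit 152) (nat_lit 23459476678) (nat_lit 0) (nat_lit 65212000472) (nat_lit 2) (nat_lit 5) (nat_lit 4) (nat_lit 4) (nat_lit 2) (nat_lit 4) (nat_lit 404) (nat_lit 251) (nat_lit 245)) (XT.nd (nat_lit 78) (nat_lit 0) (nat_lit 0) (XT.lf (nat_lit 0) (nat_lit 71481598409) (nat_lit 152) (nat_lit 19458635148) (nat_lit 0) (nat_lit 70973579379) (nat_lit 2) (nat_lit 5) (nat_lit 4) (nat_lit 4) (nat_lit 2) (nat_lit 4) (nat_lit 405) (nat_lit 251) (nat_lit 244)) (XT.lf (nat_lit 0) (nat_lit 77522538204) (nat_lit 152) (nat_lit 15403845917) (nat_lit 0) (nat_lit 76955095550) (nat_lit 2) (nat_lit 5) (nat_lit 4) (nat_lit 4) (nat_lit 2) (nat_lit 4) (nat_lit 406) (nat_lit 251) (nat_lit 243)))) (XT.nd (nat_lit 78) (nat_lit 0) (nat_lit 0) (XT.lf (nat_lit 0) (nat_lit 83794827271) (nat_lit 152) (nat_lit 11285454725) (nat_lit 0) (nat_lit 83170790689) (nat_lit 2) (nat_lit 5) (nat_lit 4) (nat_lit 4) (nat_lit 2) (nat_lit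 4) (nat_lit 407) (nat_lit 251) (nat_lit 242)) (XT.nd (nat_lit 78) (nat_lit 0) (nat_lit 0) (XT.lf (nat_lit 0) (nat_lit 90313399631) (nat_lit 152) (nat_lit 7093655879) (nat_lit 0) (nat_lit 89635464071) (nat_lit 2) (nat_lit 5) (nat_lit 4) (nat_lit 4) (nat_lit 2) (nat_lit 4) (nat_lit 408) (nat_lit 251) (nat_lit 241)) (XT.lf (nat_lit 0) (nat_lit 97093775695) (nat_lit 152) (nat_lit 2818468906) (nat_lit 0) (nat_lit 96364507774) (nat_lit 2) (nat_lit 5) (nat_lit 4) (nat_lit 4) (nat_lit 2) (nat_lit 4) (nat_lit 409) (nat_lit 251) (nat_lit 240)))))) (XT.nd (nat_lit 468) (nat_lit 0) (nat_lit 0) (XT.nd (nat_lit 234) (nat_lit 0) (nat_lit 0) (XT.nd (nat_lit 78) (nat_lit 0) (nat_lit 0) (XT.lf (nat_lit 0) (nat_lit 1601544641) (nat_lit 76) (nat_lit 102575559174) (nat_lit 76) (nat_lit 101797403291) (nat_lit 1) (nat_lit 4) (nat_lit 2) (nat_lit 5) (nat_lit 2) (nat_lit 4) (nat_lit 410) (nat_lit 251) (nat_lit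 239)) (XT.nd (nat_lit 78) (nat_lit 0) (nat_lit 0) (XT.lf (nat_lit 0) (nat_lit 6222156122) (nat_lit 76) (nat_lit 105380164896) (nat_lit 76) (nat_lit 104555449049) (nat_lit 1) (nat_lit 4) (nat_lit 2) (nat_lit 5) (nat_lit 2) (nat_lit 4) (nat_lit 411) (nat_lit 251) (nat_lit 238)) (XT.lf (nat_lit 0) (nat_lit 10961175681) (nat_lit 76) (nat_lit 108380471536) (nat_lit 76) (nat_lit 107511412866) (nat_lit 1) (nat_lit 4) (nat_lit 2) (nat_lit 5) (nat_lit 2) (nat_lit 4) (nat_lit 412) (nat_lit 251) (nat_lit 237)))) (XT.nd (nat_lit 78) (nat_lit 0) (nat_lit 0) (XT.lf (nat_lit 0) (nat_lit 15829886698) (nat_lit 76) (nat_lit 111583622681) (nat_lit 76) (nat_lit 110672332750) (nat_lit 1) (nat_lit 4) (nat_lit 2) (nat_lit 5) (nat_lit 2) (nat_lit 4) (nat_lit 413) (nat_lit 251) (nat_lit 236)) (XT.nd (nat_lit 78) (nat_lit 0) (nat_lit 0) (XT.lf (nat_lit 0) (nat_lit 20839881343) (nat_lit 76) (nat_lit 114997244880)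 (nat_lit 76) (nat_lit 114045734702) (nat_lit 1) (nat_lit 4) (nat_lit 2) (nat_lit 5) (nat_lit 2) (nat_lit 4) (nat_lit 414) (nat_lit 251) (nat_lit 235)) (XT.lf (nat_lit 0) (nat_lit 26003088173) (nat_lit 76) (nat_lit 118629465806) (nat_lit 76) (nat_lit 117639650630) (nat_lit 1) (nat_lit 4) (nat_lit 2) (nat_lit 5) (nat_lit 2) (nat_lit 4) (nat_lit 415) (nat_lit 251) (nat_lit 234))))) (XT.nd (nat_lit 234) (nat_lit 0) (nat_lit 0) (XT.nd (nat_lit 78) (nat_lit 0) (nat_lit 0) (XT.lf (nat_lit 0) (nat_lit 31331800539) (nat_lit 76) (nat_lit 122488933604) (nat_lit 76) (nat_lit 121462637478) (nat_lit 1) (nat_lit 4) (nat_lit 2) (nat_lit 5) (nat_lit 2) (nat_lit 4) (nat_lit 416) (nat_lit 251) (nat_lit 233)) (XT.nd (nat_lit 78) (nat_lit 0) (nat_lit 0) (XT.lf (nat_lit 0) (nat_lit 36838705851) (nat_lit 76) (nat_lit 126584837483) (nat_lit 76) (nat_lit 125523797595) (nat_lit 1) (nat_lit 4) (nat_lit 2) (nat_lit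 5) (nat_lit 2) (nat_lit 4) (nat_lit 417) (nat_lit 251) (nat_lit 232)) (XT.lf (nat_lit 0) (nat_lit 42536915788) (nat_lit 76) (nat_lit 130926929595) (nat_lit 76) (nat_lit 129832800410) (nat_lit 1) (nat_lit 4) (nat_lit 2) (nat_lit 5) (nat_lit 2) (nat_lit 4) (nat_lit 418) (nat_lit 251) (nat_lit 231)))) (XT.nd (nat_lit 78) (nat_lit 0) (nat_lit 0) (XT.lf (nat_lit 0) (nat_lit 48439997516) (nat_lit 76) (nat_lit 135525548254) (nat_lit 76) (nat_lit 134399905452) (nat_lit 1) (nat_lit 4) (nat_lit 2) (nat_lit 5) (nat_lit 2) (nat_lit 4) (nat_lit 419) (nat_lit 251) (nat_lit 230)) (XT.nd (nat_lit 78) (nat_lit 0) (nat_lit 0) (XT.lf (nat_lit 0) (nat_lit 54562005993) (nat_lit 76) (nat_lit 140391642553) (nat_lit 76) (nat_lit 139235986783) (nat_lit 1) (nat_lit 4) (nat_lit 2) (nat_lit 5) (nat_lit 2) (nat_lit 4) (nat_lit 420) (nat_lit 251) (nat_lit 229)) (XT.lf (nat_lit 0) (nat_lit 60917517429) (nat_lit 76) (nat_lit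 145536798431) (nat_lit 76) (nat_lit 144352558882) (nat_lit 1) (nat_lit 4) (nat_lit 2) (nat_lit 5) (nat_lit 2) (nat_lit 4) (nat_lit 421) (nat_lit 251) (nat_lit 228))))))))
noncomputable def xc9 : XT := (XT.nd (nat_lit 45318) (nat_lit 0) (nat_lit 0) (XT.nd (nat_lit 858) (nat_lit 0) (nat_lit 0) (XT.nd (nat_lit 390) (nat_lit 0) (nat_lit 0) (XT.nd (nat_lit 156) (nat_lit 0) (nat_lit 0) (XT.nd (nat_lit 78) (nat_lit 0) (nat_lit 0) (XT.lf (nat_lit 0) (nat_lit 67521663994) (nat_lit 76) (nat_lit 150973266258) (nat_lit 76) (nat_lit 149761804062) (nat_lit 1) (nat_lit 4) (nat_lit 2) (nat_lit 5) (nat_lit 2) (nat_lit 4) (nat_lit 422) (nat_lit 251) (nat_lit 227)) (XT.lf (nat_lit 0) (nat_lit 74390169846) (nat_lit 76) (nat_lit 156713990005) (nat_lit 76) (nat_lit 155476601479) (nat_lit 1) (nat_lit 4) (nat_lit 2) (nat_lit 5) (nat_lit 2) (nat_lit 4) (nat_lit 423) (nat_lit 251) (nat_lit 226))) (XT.nd (nat_lit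 78) (nat_lit 0) (nat_lit 0) (XT.lf (nat_lit 0) (nat_lit 81539388571) (nat_lit 76) (nat_lit 162772638063) (nat_lit 76) (nat_lit 161510557794) (nat_lit 1) (nat_lit 4) (nat_lit 2) (nat_lit 5) (nat_lit 2) (nat_lit 4) (nat_lit 424) (nat_lit 251) (nat_lit 225)) (XT.nd (nat_lit 78) (nat_lit 0) (nat_lit 0) (XT.lf (nat_lit 0) (nat_lit 88986342118) (nat_lit 76) (nat_lit 169163635784) (nat_lit 76) (nat_lit 167878039569) (nat_lit 1) (nat_lit 4) (nat_lit 2) (nat_lit 5) (nat_lit 2) (nat_lit 4) (nat_lit 425) (nat_lit 251) (nat_lit 224)) (XT.lf (nat_lit 0) (nat_lit 96748761329) (nat_lit 76) (nat_lit 175902199829) (nat_lit 76) (nat_lit 174594207476) (nat_lit 1) (nat_lit 4) (nat_lit 2) (nat_lit 5) (nat_lit 2) (nat_lit 4) (nat_lit 426) (nat_lit 251) (nat_lit 223))))) (XT.nd (nat_lit 234) (nat_lit 0) (nat_lit 0) (XT.nd (nat_lit 78) (nat_lit 0) (nat_lit 0) (XT.lf (nat_lit 0) (nat_lit 104845128154) (nat_lit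 76) (nat_lit 183004374399) (nat_lit 76) (nat_lit 181675052389) (nat_lit 1) (nat_lit 4) (nat_lit 2) (nat_lit 5) (nat_lit 2) (nat_lit 4) (nat_lit 427) (nat_lit 251) (nat_lit 222)) (XT.nd (nat_lit 78) (nat_lit 0) (nat_lit 0) (XT.lf (nat_lit 0) (nat_lit 113294719658) (nat_lit 76) (nat_lit 190487069432) (nat_lit 76) (nat_lit 189137433464) (nat_lit 1) (nat_lit 4) (nat_lit 2) (nat_lit 5) (nat_lit 2) (nat_lit 4) (nat_lit 428) (nat_lit 251) (nat_lit 221)) (XT.lf (nat_lit 0) (nat_lit 122117653915) (nat_lit 76) (nat_lit 198368100869) (nat_lit 76) (nat_lit 196999118275) (nat_lit 1) (nat_lit 4) (nat_lit 2) (nat_lit 5) (nat_lit 2) (nat_lit 4) (nat_lit 429) (nat_lit 251) (nat_lit 220)))) (XT.nd (nat_lit 78) (nat_lit 0) (nat_lit 0) (XT.lf (nat_lit 0) (nat_lit 131334937912) (nat_lit 76) (nat_lit 206666233072) (nat_lit 76) (nat_lit 205278825118) (nat_lit 1) (nat_lit 4) (nat_lit 2) (nat_lit 5) (nat_lit 2)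 (nat_lit 4) (nat_lit 430) (nat_lit 251) (nat_lit 219)) (XT.nd (nat_lit 78) (nat_lit 0) (nat_lit 0) (XT.lf (nat_lit 0) (nat_lit 140968517563) (nat_lit 76) (nat_lit 215401223497) (nat_lit 76) (nat_lit 213996267582) (nat_lit 1) (nat_lit 4) (nat_lit 2) (nat_lit 5) (nat_lit 2) (nat_lit 4) (nat_lit 431) (nat_lit 251) (nat_lit 218)) (XT.lf (nat_lit 0) (nat_lit 151041329962) (nat_lit 76) (nat_lit 224593869740) (nat_lit 76) (nat_lit 223172201482) (nat_lit 1) (nat_lit 4) (nat_lit 2) (nat_lit 5) (nat_lit 2) (nat_lit 4) (nat_lit 432) (nat_lit 251) (nat_lit 217)))))) (XT.nd (nat_lit 43992) (nat_lit 0) (nat_lit 76) (XT.nd (nat_lit 234) (nat_lit 0) (nat_lit 0) (XT.nd (nat_lit 78) (nat_lit 0) (nat_lit 0) (XT.lf (nat_lit 0) (nat_lit 161577357996) (nat_lit 76) (nat_lit 234266059055) (nat_lit 76) (nat_lit 232828474280) (nat_lit 1) (nat_lit 4) (nat_lit 2) (nat_lit 5) (nat_lit 2) (nat_lit 4) (nat_lit 433) (nat_lit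 251) (nat_lit 216)) (XT.nd (nat_lit 78) (nat_lit 0) (nat_lit 0) (XT.lf (nat_lit 0) (nat_lit 172601687446) (nat_lit 76) (nat_lit 244440820465) (nat_lit 76) (nat_lit 242988077100) (nat_lit 1) (nat_lit 4) (nat_lit 2) (nat_lit 5) (nat_lit 2) (nat_lit 4) (nat_lit 434) (nat_lit 251) (nat_lit 215)) (XT.lf (nat_lit 0) (nat_lit 184140566715) (nat_lit 76) (nat_lit 255142379590) (nat_lit 76) (nat_lit 253675199475) (nat_lit 1) (nat_lit 4) (nat_lit 2) (nat_lit 5) (nat_lit 2) (nat_lit 4) (nat_lit 435) (nat_lit 251) (nat_lit 214)))) (XT.nd (nat_lit 78) (nat_lit 0) (nat_lit 0) (XT.lf (nat_lit 0) (nat_lit 196221469326) (nat_lit 76) (nat_lit 266396216334) (nat_lit 76) (nat_lit 264915286933) (nat_lit 1) (nat_lit 4) (nat_lit 2) (nat_lit 5) (nat_lit 2) (nat_lit 4) (nat_lit 436) (nat_lit 251) (nat_lit 213)) (XT.nd (nat_lit 78) (nat_lit 0) (nat_lit 0) (XT.lf (nat_lit 0) (nat_lit 208873159333) (nat_lit 76) (nat_lit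 278229125547) (nat_lit 76) (nat_lit 276735101587) (nat_lit 1) (nat_lit 4) (nat_lit 2) (nat_lit 5) (nat_lit 2) (nat_lit 4) (nat_lit 437) (nat_lit 251) (nat_lit 212)) (XT.lf (nat_lit 0) (nat_lit 222125759806) (nat_lit 76) (nat_lit 290669280822) (nat_lit 76) (nat_lit 289162785854) (nat_lit 1) (nat_lit 4) (nat_lit 2) (nat_lit 5) (nat_lit 2) (nat_lit 4) (nat_lit 438) (nat_lit 251) (nat_lit 211))))) (XT.nd (nat_lit 234) (nat_lit 0) (nat_lit 0) (XT.nd (nat_lit 78) (nat_lit 0) (nat_lit 0) (XT.lf (nat_lit 0) (nat_lit 12723827234) (nat_lit 152) (nat_lit 27272651677) (nat_lit 0) (nat_lit 12723827234) (nat_lit 2) (nat_lit 5) (nat_lit 4) (nat_lit 4) (nat_lit 2) (nat_lit 4) (nat_lit 396) (nat_lit 252) (nat_lit 252)) (XT.nd (nat_lit 78) (nat_lit 0) (nat_lit 0) (XT.lf (nat_lit 0) (nat_lit 29944862671) (nat_lit 152) (nat_lit 50744484760) (nat_lit 0) (nat_lit 29857066914) (nat_lit 2) (nat_lit 5) (nat_lit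 4) (nat_lit 4) (nat_lit 2) (nat_lit 4) (nat_lit 397) (nat_lit 252) (nat_lit 251)) (XT.lf (nat_lit 0) (nat_lit 34562478556) (nat_lit 152) (nat_lit 46959194693) (nat_lit 0) (nat_lit 34391067793) (nat_lit 2) (nat_lit 5) (nat_lit 4) (nat_lit 4) (nat_lit 2) (nat_lit 4) (nat_lit 398) (nat_lit 252) (nat_lit 250)))) (XT.nd (nat_lit 78) (nat_lit 0) (nat_lit 0) (XT.lf (nat_lit 0) (nat_lit 39311496446) (nat_lit 152) (nat_lit 43180420559) (nat_lit 0) (nat_lit 39060452344) (nat_lit 2) (nat_lit 5) (nat_lit 4) (nat_lit 4) (nat_lit 2) (nat_lit 4) (nat_lit 399) (nat_lit 252) (nat_lit 249)) (XT.nd (nat_lit 78) (nat_lit 0) (nat_lit 0) (XT.lf (nat_lit 0) (nat_lit 44203223528) (nat_lit 152) (nat_lit 39399165276) (nat_lit 0) (nat_lit 43876338150) (nat_lit 2) (nat_lit 5) (nat_lit 4) (nat_lit 4) (nat_lit 2) (nat_lit 4) (nat_lit 400) (nat_lit 252) (nat_lit 248)) (XT.lf (nat_lit 0) (nat_lit 49249306769) (nat_lit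 152) (nat_lit 35606425857) (nat_lit 0) (nat_lit 48850191606) (nat_lit 2) (nat_lit 5) (nat_lit 4) (nat_lit 4) (nat_lit 2) (nat_lit 4) (nat_lit 401) (nat_lit 252) (nat_lit 247))))))) (XT.nd (nat_lit 936) (nat_lit 0) (nat_lit 0) (XT.nd (nat_lit 468) (nat_lit 76) (nat_lit 0) (XT.nd (nat_lit 234) (nat_lit 0) (nat_lit 0) (XT.nd (nat_lit 78) (nat_lit 0) (nat_lit 0) (XT.lf (nat_lit 0) (nat_lit 54461760655) (nat_lit 152) (nat_lit 31793171968) (nat_lit 0) (nat_lit 53993855219) (nat_lit 2) (nat_lit 5) (nat_lit 4) (nat_lit 4) (nat_lit 2) (nat_lit 4) (nat_lit 402) (nat_lit 252) (nat_lit 246)) (XT.nd (nat_lit 78) (nat_lit 0) (nat_lit 0) (XT.lf (nat_lit 0) (nat_lit 59852995790) (nat_lit 152) (nat_lit 27950324434) (nat_lit 0) (nat_lit 59319575808) (nat_lit 2) (nat_lit 5) (nat_lit 4) (nat_lit 4) (nat_lit 2) (nat_lit 4) (nat_lit 403) (nat_lit 252) (nat_lit 245)) (XT.lf (nat_lit 0) (nat_lit 65435848448) (nat_lit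 152) (nat_lit 24068733617) (nat_lit 0) (nat_lit 64840033661) (nat_lit 2) (nat_lit 5) (nat_lit 4) (nat_lit 4) (nat_lit 2) (nat_lit 4) (nat_lit 404) (nat_lit 252) (nat_lit 244)))) (XT.nd (nat_lit 78) (nat_lit 0) (nat_lit 0) (XT.lf (nat_lit 0) (nat_lit 71223611134) (nat_lit 152) (nat_lit 20139157636) (nat_lit 0) (nat_lit 70568372724) (nat_lit 2) (nat_lit 5) (nat_lit 4) (nat_lit 4) (nat_lit 2) (nat_lit 4) (nat_lit 405) (nat_lit 252) (nat_lit 243)) (XT.nd (nat_lit 78) (nat_lit 0) (nat_lit 0) (XT.lf (nat_lit 0) (nat_lit 77230064237) (nat_lit 152) (nat_lit 16152240357) (nat_lit 0) (nat_lit 76518231899) (nat_lit 2) (nat_lit 5) (nat_lit 4) (nat_lit 4) (nat_lit 2) (nat_lit 4) (nat_lit 406) (nat_lit 252) (nat_lit 242)) (XT.lf (nat_lit 0) (nat_lit 83469508836) (nat_lit 152) (nat_lit 12098489119) (nat_lit 0) (nat_lit 82703777519) (nat_lit 2) (nat_lit 5) (nat_lit 4) (nat_lit 4) (nat_lit 2) (nat_lit 4)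 (nat_lit 407) (nat_lit 252) (nat_lit 241))))) (XT.nd (nat_lit 234) (nat_lit 0) (nat_lit 0) (XT.nd (nat_lit 78) (nat_lit 76) (nat_lit 0) (XT.lf (nat_lit 0) (nat_lit 89956800750) (nat_lit 152) (nat_lit 7968252134) (nat_lit 0) (nat_lit 89139737073) (nat_lit 2) (nat_lit 5) (nat_lit 4) (nat_lit 4) (nat_lit 2) (nat_lit 4) (nat_lit 408) (nat_lit 252) (nat_lit 240)) (XT.nd (nat_lit 78) (nat_lit 76) (nat_lit 0) (XT.lf (nat_lit 0) (nat_lit 96707385913) (nat_lit 152) (nat_lit 3751695504) (nat_lit 0) (nat_lit 95841434273) (nat_lit 2) (nat_lit 5) (nat_lit 4) (nat_lit 4) (nat_lit 2) (nat_lit 4) (nat_lit 409) (nat_lit 252) (nat_lit 239)) (XT.lf (nat_lit 0) (nat_lit 579776664) (nat_lit 76) (nat_lit 103166612421) (nat_lit 76) (nat_lit 102254100817) (nat_lit 1) (nat_lit 4) (nat_lit 2) (nat_lit 5) (nat_lit 2) (nat_lit 4) (nat_lit 410) (nat_lit 252) (nat_lit 238)))) (XT.nd (nat_lit 78) (nat_lit 0) (nat_lit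 0) (XT.lf (nat_lit 0) (nat_lit 5145450342) (nat_lit 76) (nat_lit 105998276988) (nat_lit 76) (nat_lit 105041422561) (nat_lit 1) (nat_lit 4) (nat_lit 2) (nat_lit 5) (nat_lit 2) (nat_lit 4) (nat_lit 411) (nat_lit 252) (nat_lit 237)) (XT.nd (nat_lit 78) (nat_lit 0) (nat_lit 0) (XT.lf (nat_lit 0) (nat_lit 9832148184) (nat_lit 76) (nat_lit 109024353956) (nat_lit 76) (nat_lit 108025268269) (nat_lit 1) (nat_lit 4) (nat_lit 2) (nat_lit 5) (nat_lit 2) (nat_lit 4) (nat_lit 412) (nat_lit 252) (nat_lit 236)) (XT.lf (nat_lit 0) (nat_lit 14651028995) (nat_lit 76) (nat_lit 112252048270) (nat_lit 76) (nat_lit 111212742335) (nat_lit 1) (nat_lit 4) (nat_lit 2) (nat_lit 5) (nat_lit 2) (nat_lit 4) (nat_lit 413) (nat_lit 252) (nat_lit 235)))))) (XT.nd (nat_lit 468) (nat_lit 0) (nat_lit 0) (XT.nd (nat_lit 234) (nat_lit 0) (nat_lit 0) (XT.nd (nat_lit 78) (nat_lit 0) (nat_lit 0) (XT.lf (nat_lit 0) (nat_lit 19613566299)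 (nat_lit 76) (nat_lit 115689044916) (nat_lit 76) (nat_lit 114611433984) (nat_lit 1) (nat_lit 4) (nat_lit 2) (nat_lit 5) (nat_lit 2) (nat_lit 4) (nat_lit 414) (nat_lit 252) (nat_lit 234)) (XT.nd (nat_lit 78) (nat_lit 0) (nat_lit 0) (XT.lf (nat_lit 0) (nat_lit 24731575663) (nat_lit 76) (nat_lit 119343527221) (nat_lit 76) (nat_lit 118229435338) (nat_lit 1) (nat_lit 4) (nat_lit 2) (nat_lit 5) (nat_lit 2) (nat_lit 4) (nat_lit 415) (nat_lit 252) (nat_lit 233)) (XT.lf (nat_lit 0) (nat_lit 30017242823) (nat_lit 76) (nat_lit 123224196332) (nat_lit 76) (nat_lit 122075360687) (nat_lit 1) (nat_lit 4) (nat_lit 2) (nat_lit 5) (nat_lit 2) (nat_lit 4) (nat_lit 416) (nat_lit 252) (nat_lit 232)))) (XT.nd (nat_lit 78) (nat_lit 0) (nat_lit 0) (XT.lf (nat_lit 0) (nat_lit 35483152701) (nat_lit 76) (nat_lit 127340291937) (nat_lit 76) (nat_lit 126158366995) (nat_lit 1) (nat_lit 4) (nat_lit 2) (nat_lit 5) (nat_lit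 2) (nat_lit 4) (nat_lit 417) (nat_lit 252) (nat_lit 231)) (XT.nd (nat_lit 78) (nat_lit 0) (nat_lit 0) (XT.lf (nat_lit 0) (nat_lit 41142319367) (nat_lit 76) (nat_lit 131701614264) (nat_lit 76) (nat_lit 130488175706) (nat_lit 1) (nat_lit 4) (nat_lit 2) (nat_lit 5) (nat_lit 2) (nat_lit 4) (nat_lit 418) (nat_lit 252) (nat_lit 230)) (XT.lf (nat_lit 0) (nat_lit 47008217028) (nat_lit 76) (nat_lit 136318547415) (nat_lit 76) (nat_lit 135075095888) (nat_lit 1) (nat_lit 4) (nat_lit 2) (nat_lit 5) (nat_lit 2) (nat_lit 4) (nat_lit 419) (nat_lit 252) (nat_lit 229))))) (XT.nd (nat_lit 234) (nat_lit 0) (nat_lit 0) (XT.nd (nat_lit 78) (nat_lit 0) (nat_lit 0) (XT.lf (nat_lit 0) (nat_lit 53094812107) (nat_lit 76) (nat_lit 141202084086) (nat_lit 76) (nat_lit 139930048781) (nat_lit 1) (nat_lit 4) (nat_lit 2) (nat_lit 5) (nat_lit 2) (nat_lit 4) (nat_lit 420) (nat_lit 252) (nat_lit 228)) (XT.nd (nat_lit 78) (nat_lit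 0) (nat_lit 0) (XT.lf (nat_lit 0) (nat_lit 59416596498) (nat_lit 76) (nat_lit 146363851747) (nat_lit 76) (nat_lit 145064593795) (nat_lit 1) (nat_lit 4) (nat_lit 2) (nat_lit 5) (nat_lit 2) (nat_lit 4) (nat_lit 421) (nat_lit 252) (nat_lit 227)) (XT.lf (nat_lit 0) (nat_lit 65988622067) (nat_lit 76) (nat_lit 151816140320) (nat_lit 76) (nat_lit 150490956037) (nat_lit 1) (nat_lit 4) (nat_lit 2) (nat_lit 5) (nat_lit 2) (nat_lit 4) (nat_lit 422) (nat_lit 252) (nat_lit 226)))) (XT.nd (nat_lit 78) (nat_lit 0) (nat_lit 0) (XT.lf (nat_lit 0) (nat_lit 72826536495) (nat_lit 76) (nat_lit 157571931444) (nat_lit 76) (nat_lit 156222055419) (nat_lit 1) (nat_lit 4) (nat_lit 2) (nat_lit 5) (nat_lit 2) (nat_lit 4) (nat_lit 423) (nat_lit 252) (nat_lit 225)) (XT.nd (nat_lit 78) (nat_lit 0) (nat_lit 0) (XT.lf (nat_lit 0) (nat_lit 79946620530) (nat_lit 76) (nat_lit 163644929385) (nat_lit 76) (nat_lit 162271537414)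 (nat_lit 1) (nat_lit 4) (nat_lit 2) (nat_lit 5) (nat_lit 2) (nat_lit 4) (nat_lit 424) (nat_lit 252) (nat_lit 224)) (XT.lf (nat_lit 0) (nat_lit 87365826753) (nat_lit 76) (nat_lit 170049593662) (nat_lit 76) (nat_lit 168653805551) (nat_lit 1) (nat_lit 4) (nat_lit 2) (nat_lit 5) (nat_lit 2) (nat_lit 4) (nat_lit 425) (nat_lit 252) (nat_lit 223))))))))
noncomputable def xc10 : XT := (XT.nd (nat_lit 45162) (nat_lit 0) (nat_lit 0) (XT.nd (nat_lit 858) (nat_lit 0) (nat_lit 0) (XT.nd (nat_lit 390) (nat_lit 0) (nat_lit 0) (XT.nd (nat_lit 156) (nat_lit 0) (nat_lit 0) (XT.nd (nat_lit 78) (nat_lit 0) (nat_lit 0) (XT.lf (nat_lit 0) (nat_lit 95101819942) (nat_lit 76) (nat_lit 176801173474) (nat_lit 76) (nat_lit 175384055707) (nat_lit 1) (nat_lit 4) (nat_lit 2) (nat_lit 5) (nat_lit 2) (nat_lit 4) (nat_lit 426) (nat_lit 252) (nat_lit 222)) (XT.lf (nat_lit 0) (nat_lit 103173019127) (nat_lit 76) (nat_lit 183915744011)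 (nat_lit 76) (nat_lit 182478312287) (nat_lit 1) (nat_lit 4) (nat_lit 2) (nat_lit 5) (nat_lit 2) (nat_lit 4) (nat_lit 427) (nat_lit 252) (nat_lit 221))) (XT.nd (nat_lit 78) (nat_lit 0) (nat_lit 0) (XT.lf (nat_lit 0) (nat_lit 111598641449) (nat_lit 76) (nat_lit 191410244729) (nat_lit 76) (nat_lit 189953466377) (nat_lit 1) (nat_lit 4) (nat_lit 2) (nat_lit 5) (nat_lit 2) (nat_lit 4) (nat_lit 428) (nat_lit 252) (nat_lit 220)) (XT.nd (nat_lit 78) (nat_lit 0) (nat_lit 0) (XT.lf (nat_lit 0) (nat_lit 120398747915) (nat_lit 76) (nat_lit 199302519675) (nat_lit 76) (nat_lit 197827315965) (nat_lit 1) (nat_lit 4) (nat_lit 2) (nat_lit 5) (nat_lit 2) (nat_lit 4) (nat_lit 429) (nat_lit 252) (nat_lit 219)) (XT.lf (nat_lit 0) (nat_lit 129594291157) (nat_lit 76) (nat_lit 207611359981) (nat_lit 76) (nat_lit 206118608310) (nat_lit 1) (nat_lit 4) (nat_lit 2) (nat_lit 5) (nat_lit 2) (nat_lit 4) (nat_lit 430) (nat_lit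 252) (nat_lit 218))))) (XT.nd (nat_lit 234) (nat_lit 0) (nat_lit 0) (XT.nd (nat_lit 78) (nat_lit 0) (nat_lit 0) (XT.lf (nat_lit 0) (nat_lit 139207165328) (nat_lit 76) (nat_lit 216356548600) (nat_lit 76) (nat_lit 214847084585) (nat_lit 1) (nat_lit 4) (nat_lit 2) (nat_lit 5) (nat_lit 2) (nat_lit 4) (nat_lit 431) (nat_lit 252) (nat_lit 217)) (XT.nd (nat_lit 78) (nat_lit 0) (nat_lit 0) (XT.lf (nat_lit 0) (nat_lit 149260258222) (nat_lit 76) (nat_lit 225558907409) (nat_lit 76) (nat_lit 224033526876) (nat_lit 1) (nat_lit 4) (nat_lit 2) (nat_lit 5) (nat_lit 2) (nat_lit 4) (nat_lit 432) (nat_lit 252) (nat_lit 216)) (XT.lf (nat_lit 0) (nat_lit 159777505775) (nat_lit 76) (nat_lit 235240346787) (nat_lit 76) (nat_lit 233699807666) (nat_lit 1) (nat_lit 4) (nat_lit 2) (nat_lit 5) (nat_lit 2) (nat_lit 4) (nat_lit 433) (nat_lit 252) (nat_lit 215)))) (XT.nd (nat_lit 78) (nat_lit 0) (nat_lit 0) (XT.lf (nat_lit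 0) (nat_lit 170783949053) (nat_lit 76) (nat_lit 245423917779) (nat_lit 76) (nat_lit 243868941908) (nat_lit 1) (nat_lit 4) (nat_lit 2) (nat_lit 5) (nat_lit 2) (nat_lit 4) (nat_lit 434) (nat_lit 252) (nat_lit 214)) (XT.nd (nat_lit 78) (nat_lit 0) (nat_lit 0) (XT.lf (nat_lit 0) (nat_lit 182305793873) (nat_lit 76) (nat_lit 256133866984) (nat_lit 76) (nat_lit 254565141826) (nat_lit 1) (nat_lit 4) (nat_lit 2) (nat_lit 5) (nat_lit 2) (nat_lit 4) (nat_lit 435) (nat_lit 252) (nat_lit 213)) (XT.lf (nat_lit 0) (nat_lit 194370473199) (nat_lit 76) (nat_lit 267395694280) (nat_lit 76) (nat_lit 265813874564) (nat_lit 1) (nat_lit 4) (nat_lit 2) (nat_lit 5) (nat_lit 2) (nat_lit 4) (nat_lit 436) (nat_lit 252) (nat_lit 212)))))) (XT.nd (nat_lit 43836) (nat_lit 0) (nat_lit 76) (XT.nd (nat_lit 43602) (nat_lit 0) (nat_lit 76) (XT.nd (nat_lit 78) (nat_lit 0) (nat_lit 0) (XT.lf (nat_lit 0) (nat_lit 207006712457)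 (nat_lit 76) (nat_lit 279236213542) (nat_lit 76) (nat_lit 277641922818) (nat_lit 1) (nat_lit 4) (nat_lit 2) (nat_lit 5) (nat_lit 2) (nat_lit 4) (nat_lit 437) (nat_lit 252) (nat_lit 211)) (XT.nd (nat_lit 43446) (nat_lit 0) (nat_lit 76) (XT.lf (nat_lit 0) (nat_lit 220244597932) (nat_lit 76) (nat_lit 291683616483) (nat_lit 76) (nat_lit 290077448607) (nat_lit 1) (nat_lit 4) (nat_lit 2) (nat_lit 5) (nat_lit 2) (nat_lit 4) (nat_lit 438) (nat_lit 252) (nat_lit 210)) (XT.lf (nat_lit 0) (nat_lit 8460126238) (nat_lit 152) (nat_lit 31059613332) (nat_lit 0) (nat_lit 8460126238) (nat_lit 2) (nat_lit 5) (nat_lit 4) (nat_lit 4) (nat_lit 2) (nat_lit 4) (nat_lit 394) (nat_lit 253) (nat_lit 253)))) (XT.nd (nat_lit 78) (nat_lit 0) (nat_lit 0) (XT.lf (nat_lit 0) (nat_lit 21152331853) (nat_lit 152) (nat_lit 58370700047) (nat_lit 0) (nat_lit 21060146309) (nat_lit 2) (nat_lit 5) (nat_lit 4) (nat_lit 4) (nat_lit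 2) (nat_lit 4) (nat_lit 395) (nat_lit 253) (nat_lit 252)) (XT.nd (nat_lit 78) (nat_lit 0) (nat_lit 0) (XT.lf (nat_lit 0) (nat_lit 25486339834) (nat_lit 152) (nat_lit 54650595029) (nat_lit 0) (nat_lit 25306358534) (nat_lit 2) (nat_lit 5) (nat_lit 4) (nat_lit 4) (nat_lit 2) (nat_lit 4) (nat_lit 396) (nat_lit 253) (nat_lit 251)) (XT.lf (nat_lit 0) (nat_lit 29932595487) (nat_lit 152) (nat_lit 50950054218) (nat_lit 0) (nat_lit 29668999180) (nat_lit 2) (nat_lit 5) (nat_lit 4) (nat_lit 4) (nat_lit 2) (nat_lit 4) (nat_lit 397) (nat_lit 253) (nat_lit 250))))) (XT.nd (nat_lit 234) (nat_lit 0) (nat_lit 0) (XT.nd (nat_lit 78) (nat_lit 0) (nat_lit 0) (XT.lf (nat_lit 0) (nat_lit 34501685134) (nat_lit 152) (nat_lit 47260266803) (nat_lit 0) (nat_lit 34158455487) (nat_lit 2) (nat_lit 5) (nat_lit 4) (nat_lit 4) (nat_lit 2) (nat_lit 4) (nat_lit 398) (nat_lit 253) (nat_lit 249)) (XT.nd (nat_lit 78) (nat_lit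 0) (nat_lit 0) (XT.lf (nat_lit 0) (nat_lit 39204487559) (nat_lit 152) (nat_lit 43572447575) (nat_lit 0) (nat_lit 38785416637) (nat_lit 2) (nat_lit 5) (nat_lit 4) (nat_lit 4) (nat_lit 2) (nat_lit 4) (nat_lit 399) (nat_lit 253) (nat_lit 248)) (XT.lf (nat_lit 0) (nat_lit 44052199912) (nat_lit 152) (nat_lit 39877816013) (nat_lit 0) (nat_lit 43560899204) (nat_lit 2) (nat_lit 5) (nat_lit 4) (nat_lit 4) (nat_lit 2) (nat_lit 4) (nat_lit 400) (nat_lit 253) (nat_lit 247)))) (XT.nd (nat_lit 78) (nat_lit 0) (nat_lit 0) (XT.lf (nat_lit 0) (nat_lit 49056364364) (nat_lit 152) (nat_lit 36167575375) (nat_lit 0) (nat_lit 48496273384) (nat_lit 2) (nat_lit 5) (nat_lit 4) (nat_lit 4) (nat_lit 2) (nat_lit 4) (nat_lit 401) (nat_lit 253) (nat_lit 246)) (XT.nd (nat_lit 78) (nat_lit 0) (nat_lit 0) (XT.lf (nat_lit 0) (nat_lit 54228895594) (nat_lit 152) (nat_lit 32432891754) (nat_lit 0) (nat_lit 53603290068) (nat_lit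 2) (nat_lit 5) (nat_lit 4) (nat_lit 4) (nat_lit 2) (nat_lit 4) (nat_lit 402) (nat_lit 253) (nat_lit 245)) (XT.lf (nat_lit 0) (nat_lit 59582109151) (nat_lit 152) (nat_lit 28664873046) (nat_lit 0) (nat_lit 58894108820) (nat_lit 2) (nat_lit 5) (nat_lit 4) (nat_lit 4) (nat_lit 2) (nat_lit 4) (nat_lit 403) (nat_lit 253) (nat_lit 244))))))) (XT.nd (nat_lit 936) (nat_lit 0) (nat_lit 0) (XT.nd (nat_lit 468) (nat_lit 76) (nat_lit 0) (XT.nd (nat_lit 234) (nat_lit 0) (nat_lit 0) (XT.nd (nat_lit 78) (nat_lit 0) (nat_lit 0) (XT.lf (nat_lit 0) (nat_lit 65128750782) (nat_lit 152) (nat_lit 24854547779) (nat_lit 0) (nat_lit 64381326827) (nat_lit 2) (nat_lit 5) (nat_lit 4) (nat_lit 4) (nat_lit 2) (nat_lit 4) (nat_lit 404) (nat_lit 253) (nat_lit 243)) (XT.nd (nat_lit 78) (nat_lit 0) (nat_lit 0) (XT.lf (nat_lit 0) (nat_lit 70882026777) (nat_lit 152) (nat_lit 20992843750) (nat_lit 0) (nat_lit 70078008895) (nat_lit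 2) (nat_lit 5) (nat_lit 4) (nat_lit 4) (nat_lit 2) (nat_lit 4) (nat_lit 405) (nat_lit 253) (nat_lit 242)) (XT.lf (nat_lit 0) (nat_lit 76855635412) (nat_lit 152) (nat_lit 17070566424) (nat_lit 0) (nat_lit 75997718551) (nat_lit 2) (nat_lit 5) (nat_lit 4) (nat_lit 4) (nat_lit 2) (nat_lit 4) (nat_lit 406) (nat_lit 253) (nat_lit 241)))) (XT.nd (nat_lit 78) (nat_lit 0) (nat_lit 0) (XT.lf (nat_lit 0) (nat_lit 83063799565) (nat_lit 152) (nat_lit 13078377047) (nat_lit 0) (nat_lit 82154550343) (nat_lit 2) (nat_lit 5) (nat_lit 4) (nat_lit 4) (nat_lit 2) (nat_lit 4) (nat_lit 407) (nat_lit 253) (nat_lit 240)) (XT.nd (nat_lit 78) (nat_lit 0) (nat_lit 0) (XT.lf (nat_lit 0) (nat_lit 89521300578) (nat_lit 152) (nat_lit 9006770406) (nat_lit 0) (nat_lit 88563163394) (nat_lit 2) (nat_lit 5) (nat_lit 4) (nat_lit 4) (nat_lit 2) (nat_lit 4) (nat_lit 408) (nat_lit 253) (nat_lit 239)) (XT.lf (nat_lit 0) (nat_lit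 96243513454) (nat_lit 152) (nat_lit 4846052199) (nat_lit 0) (nat_lit 95238816306) (nat_lit 2) (nat_lit 5) (nat_lit 4) (nat_lit 4) (nat_lit 2) (nat_lit 4) (nat_lit 409) (nat_lit 253) (nat_lit 238))))) (XT.nd (nat_lit 234) (nat_lit 0) (nat_lit 0) (XT.nd (nat_lit 78) (nat_lit 76) (nat_lit 0) (XT.lf (nat_lit 0) (nat_lit 103246443463) (nat_lit 152) (nat_lit 586315954) (nat_lit 0) (nat_lit 102197403492) (nat_lit 2) (nat_lit 5) (nat_lit 4) (nat_lit 4) (nat_lit 2) (nat_lit 4) (nat_lit 410) (nat_lit 253) (nat_lit 237)) (XT.nd (nat_lit 78) (nat_lit 0) (nat_lit 0) (XT.lf (nat_lit 0) (nat_lit 3907649753) (nat_lit 76) (nat_lit 106700123857) (nat_lit 76) (nat_lit 105608852625) (nat_lit 1) (nat_lit 4) (nat_lit 2) (nat_lit 5) (nat_lit 2) (nat_lit 4) (nat_lit 411) (nat_lit 253) (nat_lit 236)) (XT.lf (nat_lit 0) (nat_lit 8544517389) (nat_lit 76) (nat_lit 109750743994) (nat_lit 76) (nat_lit 108619252515)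 (nat_lit 1) (nat_lit 4) (nat_lit 2) (nat_lit 5) (nat_lit 2) (nat_lit 4) (nat_lit 412) (nat_lit 253) (nat_lit 235)))) (XT.nd (nat_lit 78) (nat_lit 0) (nat_lit 0) (XT.lf (nat_lit 0) (nat_lit 13315940859) (nat_lit 76) (nat_lit 113001812755) (nat_lit 76) (nat_lit 111832016279) (nat_lit 1) (nat_lit 4) (nat_lit 2) (nat_lit 5) (nat_lit 2) (nat_lit 4) (nat_lit 413) (nat_lit 253) (nat_lit 234)) (XT.nd (nat_lit 78) (nat_lit 0) (nat_lit 0) (XT.lf (nat_lit 0) (nat_lit 18233280698) (nat_lit 76) (nat_lit 116461070780) (nat_lit 76) (nat_lit 115254793353) (nat_lit 1) (nat_lit 4) (nat_lit 2) (nat_lit 5) (nat_lit 2) (nat_lit 4) (nat_lit 414) (nat_lit 253) (nat_lit 233)) (XT.lf (nat_lit 0) (nat_lit 23308244856) (nat_lit 76) (nat_lit 120136754397) (nat_lit 76) (nat_lit 118895733208) (nat_lit 1) (nat_lit 4) (nat_lit 2) (nat_lit 5) (nat_lit 2) (nat_lit 4) (nat_lit 415) (nat_lit 253) (nat_lit 232)))))) (XT.nd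 (nat_lit 468) (nat_lit 0) (nat_lit 0) (XT.nd (nat_lit 234) (nat_lit 0) (nat_lit 0) (XT.nd (nat_lit 78) (nat_lit 0) (nat_lit 0) (XT.lf (nat_lit 0) (nat_lit 28552916581) (nat_lit 76) (nat_lit 124037615234) (nat_lit 76) (nat_lit 122763504748) (nat_lit 1) (nat_lit 4) (nat_lit 2) (nat_lit 5) (nat_lit 2) (nat_lit 4) (nat_lit 416) (nat_lit 253) (nat_lit 231)) (XT.nd (nat_lit 78) (nat_lit 0) (nat_lit 0) (XT.lf (nat_lit 0) (nat_lit 33979783188) (nat_lit 76) (nat_lit 128172941055) (nat_lit 76) (nat_lit 126867316953) (nat_lit 1) (nat_lit 4) (nat_lit 2) (nat_lit 5) (nat_lit 2) (nat_lit 4) (nat_lit 417) (nat_lit 253) (nat_lit 230)) (XT.lf (nat_lit 0) (nat_lit 39601765787) (nat_lit 76) (nat_lit 132552577874) (nat_lit 76) (nat_lit 131216940803) (nat_lit 1) (nat_lit 4) (nat_lit 2) (nat_lit 5) (nat_lit 2) (nat_lit 4) (nat_lit 418) (nat_lit 253) (nat_lit 229)))) (XT.nd (nat_lit 78) (nat_lit 0) (nat_lit 0)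 (XT.lf (nat_lit 0) (nat_lit 45432250050) (nat_lit 76) (nat_lit 137186953397) (nat_lit 76) (nat_lit 135822732547) (nat_lit 1) (nat_lit 4) (nat_lit 2) (nat_lit 5) (nat_lit 2) (nat_lit 4) (nat_lit 419) (nat_lit 253) (nat_lit 228)) (XT.nd (nat_lit 78) (nat_lit 0) (nat_lit 0) (XT.lf (nat_lit 0) (nat_lit 51485118084) (nat_lit 76) (nat_lit 142087101851) (nat_lit 76) (nat_lit 140695658355) (nat_lit 1) (nat_lit 4) (nat_lit 2) (nat_lit 5) (nat_lit 2) (nat_lit 4) (nat_lit 420) (nat_lit 253) (nat_lit 227)) (XT.lf (nat_lit 0) (nat_lit 57774781479) (nat_lit 76) (nat_lit 147264690258) (nat_lit 76) (nat_lit 145847320431) (nat_lit 1) (nat_lit 4) (nat_lit 2) (nat_lit 5) (nat_lit 2) (nat_lit 4) (nat_lit 421) (nat_lit 253) (nat_lit 226))))) (XT.nd (nat_lit 234) (nat_lit 0) (nat_lit 0) (XT.nd (nat_lit 78) (nat_lit 0) (nat_lit 0) (XT.lf (nat_lit 0) (nat_lit 64316215624) (nat_lit 76) (nat_lit 152732046208) (nat_lit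 76) (nat_lit 151289984638) (nat_lit 1) (nat_lit 4) (nat_lit 2) (nat_lit 5) (nat_lit 2) (nat_lit 4) (nat_lit 422) (nat_lit 253) (nat_lit 225)) (XT.nd (nat_lit 78) (nat_lit 0) (nat_lit 0) (XT.lf (nat_lit 0) (nat_lit 71124995362) (nat_lit 76) (nat_lit 158502187216) (nat_lit 76) (nat_lit 157036609700) (nat_lit 1) (nat_lit 4) (nat_lit 2) (nat_lit 5) (nat_lit 2) (nat_lit 4) (nat_lit 423) (nat_lit 253) (nat_lit 224)) (XT.lf (nat_lit 0) (nat_lit 78217332074) (nat_lit 76) (nat_lit 164588851712) (nat_lit 76) (nat_lit 163100878057) (nat_lit 1) (nat_lit 4) (nat_lit 2) (nat_lit 5) (nat_lit 2) (nat_lit 4) (nat_lit 424) (nat_lit 253) (nat_lit 223)))) (XT.nd (nat_lit 78) (nat_lit 0) (nat_lit 0) (XT.lf (nat_lit 0) (nat_lit 85610112275) (nat_lit 76) (nat_lit 171006531755) (nat_lit 76) (nat_lit 169497228444) (nat_lit 1) (nat_lit 4) (nat_lit 2) (nat_lit 5) (nat_lit 2) (nat_lit 4) (nat_lit 425) (nat_lit 253)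 (nat_lit 222)) (XT.nd (nat_lit 78) (nat_lit 0) (nat_lit 0) (XT.lf (nat_lit 0) (nat_lit 93320937823) (nat_lit 76) (nat_lit 177770507535) (nat_lit 76) (nat_lit 176240890266) (nat_lit 1) (nat_lit 4) (nat_lit 2) (nat_lit 5) (nat_lit 2) (nat_lit 4) (nat_lit 426) (nat_lit 253) (nat_lit 221)) (XT.lf (nat_lit 0) (nat_lit 101368167826) (nat_lit 76) (nat_lit 184896883757) (nat_lit 76) (nat_lit 183347919862) (nat_lit 1) (nat_lit 4) (nat_lit 2) (nat_lit 5) (nat_lit 2) (nat_lit 4) (nat_lit 427) (nat_lit 253) (nat_lit 220))))))))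
noncomputable def xc11 : XT := (XT.nd (nat_lit 45006) (nat_lit 0) (nat_lit 0) (XT.nd (nat_lit 44070) (nat_lit 0) (nat_lit 76) (XT.nd (nat_lit 390) (nat_lit 0) (nat_lit 0) (XT.nd (nat_lit 156) (nat_lit 0) (nat_lit 0) (XT.nd (nat_lit 78) (nat_lit 0) (nat_lit 0) (XT.lf (nat_lit 0) (nat_lit 109770962357) (nat_lit 76) (nat_lit 192402627983) (nat_lit 76) (nat_lit 190835238729) (nat_lit 1) (nat_lit 4) (nat_lit 2) (nat_lit 5) (nat_lit 2) (nat_lit 4) (nat_lit 428) (nat_lit 253) (nat_lit 219)) (XT.lf (nat_lit 0) (nat_lit 118549328068) (nat_lit 76) (nat_lit 200305611033) (nat_lit 76) (nat_lit 198720673818) (nat_lit 1) (nat_lit 4) (nat_lit 2) (nat_lit 5) (nat_lit 2) (nat_lit 4) (nat_lit 429) (nat_lit 253) (nat_lit 218))) (XT.nd (nat_lit 78) (nat_lit 0) (nat_lit 0) (XT.lf (nat_lit 0) (nat_lit 127724165831) (nat_lit 76) (nat_lit 208624649533) (nat_lit 76) (nat_lit 207022999974) (nat_lit 1) (nat_lit 4)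 (nat_lit 2) (nat_lit 5) (nat_lit 2) (nat_lit 4) (nat_lit 430) (nat_lit 253) (nat_lit 217)) (XT.nd (nat_lit 78) (nat_lit 0) (nat_lit 0) (XT.lf (nat_lit 0) (nat_lit 137317320497) (nat_lit 76) (nat_lit 217379550717) (nat_lit 76) (nat_lit 215761984641) (nat_lit 1) (nat_lit 4) (nat_lit 2) (nat_lit 5) (nat_lit 2) (nat_lit 4) (nat_lit 431) (nat_lit 253) (nat_lit 216)) (XT.lf (nat_lit 0) (nat_lit 147351632910) (nat_lit 76) (nat_lit 226591159589) (nat_lit 76) (nat_lit 224958434924) (nat_lit 1) (nat_lit 4) (nat_lit 2) (nat_lit 5) (nat_lit 2) (nat_lit 4) (nat_lit 432) (nat_lit 253) (nat_lit 215))))) (XT.nd (nat_lit 234) (nat_lit 0) (nat_lit 0) (XT.nd (nat_lit 78) (nat_lit 0) (nat_lit 0) (XT.lf (nat_lit 0) (nat_lit 157850994291) (nat_lit 76) (nat_lit 236281408550) (nat_lit 76) (nat_lit 234634247134) (nat_lit 1) (nat_lit 4) (nat_lit 2) (nat_lit 5) (nat_lit 2) (nat_lit 4) (nat_lit 433) (nat_lit 253)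 (nat_lit 214)) (XT.nd (nat_lit 78) (nat_lit 0) (nat_lit 0) (XT.lf (nat_lit 0) (nat_lit 168840403119) (nat_lit 76) (nat_lit 246473369622) (nat_lit 76) (nat_lit 244812458920) (nat_lit 1) (nat_lit 4) (nat_lit 2) (nat_lit 5) (nat_lit 2) (nat_lit 4) (nat_lit 434) (nat_lit 253) (nat_lit 213)) (XT.lf (nat_lit 0) (nat_lit 180346024653) (nat_lit 76) (nat_lit 257191309379) (nat_lit 76) (nat_lit 255517304118) (nat_lit 1) (nat_lit 4) (nat_lit 2) (nat_lit 5) (nat_lit 2) (nat_lit 4) (nat_lit 435) (nat_lit 253) (nat_lit 212)))) (XT.nd (nat_lit 78) (nat_lit 0) (nat_lit 0) (XT.lf (nat_lit 0) (nat_lit 192395253231) (nat_lit 76) (nat_lit 268460746724) (nat_lit 76) (nat_lit 266774270455) (nat_lit 1) (nat_lit 4) (nat_lit 2) (nat_lit 5) (nat_lit 2) (nat_lit 4) (nat_lit 436) (nat_lit 253) (nat_lit 211)) (XT.nd (nat_lit 78) (nat_lit 0) (nat_lit 0) (XT.lf (nat_lit 0) (nat_lit 205016777491) (nat_lit 76) (nat_lit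 280308513652) (nat_lit 76) (nat_lit 278610160233) (nat_lit 1) (nat_lit 4) (nat_lit 2) (nat_lit 5) (nat_lit 2) (nat_lit 4) (nat_lit 437) (nat_lit 253) (nat_lit 210)) (XT.lf (nat_lit 0) (nat_lit 218240648682) (nat_lit 76) (nat_lit 292762819132) (nat_lit 76) (nat_lit 291053154140) (nat_lit 1) (nat_lit 4) (nat_lit 2) (nat_lit 5) (nat_lit 2) (nat_lit 4) (nat_lit 438) (nat_lit 253) (nat_lit 209)))))) (XT.nd (nat_lit 468) (nat_lit 0) (nat_lit 0) (XT.nd (nat_lit 234) (nat_lit 0) (nat_lit 0) (XT.nd (nat_lit 78) (nat_lit 0) (nat_lit 0) (XT.lf (nat_lit 0) (nat_lit 4438785740) (nat_lit 152) (nat_lit 34810624902) (nat_lit 0) (nat_lit 4438785740) (nat_lit 2) (nat_lit 5) (nat_lit 4) (nat_lit 4) (nat_lit 2) (nat_lit 4) (nat_lit 392) (nat_lit 254) (nat_lit 254)) (XT.nd (nat_lit 78) (nat_lit 0) (nat_lit 0) (XT.lf (nat_lit 0) (nat_lit 12876820145) (nat_lit 152) (nat_lit 65905099946) (nat_lit 0) (nat_lit 12780025323)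 (nat_lit 2) (nat_lit 5) (nat_lit 4) (nat_lit 4) (nat_lit 2) (nat_lit 4) (nat_lit 393) (nat_lit 254) (nat_lit 253)) (XT.lf (nat_lit 0) (nat_lit 16960872111) (nat_lit 152) (nat_lit 62229782922) (nat_lit 0) (nat_lit 16771891745) (nat_lit 2) (nat_lit 5) (nat_lit 4) (nat_lit 4) (nat_lit 2) (nat_lit 4) (nat_lit 394) (nat_lit 254) (nat_lit 252)))) (XT.nd (nat_lit 78) (nat_lit 0) (nat_lit 0) (XT.lf (nat_lit 0) (nat_lit 21139451310) (nat_lit 152) (nat_lit 58586547978) (nat_lit 0) (nat_lit 20862675188) (nat_lit 2) (nat_lit 5) (nat_lit 4) (nat_lit 4) (nat_lit 2) (nat_lit 4) (nat_lit 395) (nat_lit 254) (nat_lit 251)) (XT.nd (nat_lit 78) (nat_lit 0) (nat_lit 0) (XT.lf (nat_lit 0) (nat_lit 25422506741) (nat_lit 152) (nat_lit 54966720744) (nat_lit 0) (nat_lit 25062115613) (nat_lit 2) (nat_lit 5) (nat_lit 4) (nat_lit 4) (nat_lit 2) (nat_lit 4) (nat_lit 396) (nat_lit 254) (nat_lit 250)) (XT.lf (nat_lit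 0) (nat_lit 29820236155) (nat_lit 152) (nat_lit 51361682585) (nat_lit 0) (nat_lit 29380211687) (nat_lit 2) (nat_lit 5) (nat_lit 4) (nat_lit 4) (nat_lit 2) (nat_lit 4) (nat_lit 397) (nat_lit 254) (nat_lit 249))))) (XT.nd (nat_lit 234) (nat_lit 0) (nat_lit 0) (XT.nd (nat_lit 78) (nat_lit 0) (nat_lit 0) (XT.lf (nat_lit 0) (nat_lit 34343110337) (nat_lit 152) (nat_lit 47762850077) (nat_lit 0) (nat_lit 33827244593) (nat_lit 2) (nat_lit 5) (nat_lit 4) (nat_lit 4) (nat_lit 2) (nat_lit 4) (nat_lit 398) (nat_lit 254) (nat_lit 248)) (XT.nd (nat_lit 78) (nat_lit 0) (nat_lit 0) (XT.lf (nat_lit 0) (nat_lit 39001898034) (nat_lit 152) (nat_lit 44161654569) (nat_lit 0) (nat_lit 38413802504) (nat_lit 2) (nat_lit 5) (nat_lit 4) (nat_lit 4) (nat_lit 2) (nat_lit 4) (nat_lit 399) (nat_lit 254) (nat_lit 247)) (XT.lf (nat_lit 0) (nat_lit 43807691597) (nat_lit 152) (nat_lit 40549521788) (nat_lit 0) (nat_lit 43150805795)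 (nat_lit 2) (nat_lit 5) (nat_lit 4) (nat_lit 4) (nat_lit 2) (nat_lit 4) (nat_lit 400) (nat_lit 254) (nat_lit 246)))) (XT.nd (nat_lit 78) (nat_lit 0) (nat_lit 0) (XT.lf (nat_lit 0) (nat_lit 48771933393) (nat_lit 152) (nat_lit 36917851418) (nat_lit 0) (nat_lit 48049533046) (nat_lit 2) (nat_lit 5) (nat_lit 4) (nat_lit 4) (nat_lit 2) (nat_lit 4) (nat_lit 401) (nat_lit 254) (nat_lit 245)) (XT.nd (nat_lit 78) (nat_lit 0) (nat_lit 0) (XT.lf (nat_lit 0) (nat_lit 53906443045) (nat_lit 152) (nat_lit 33257996624) (nat_lit 0) (nat_lit 53121647893) (nat_lit 2) (nat_lit 5) (nat_lit 4) (nat_lit 4) (nat_lit 2) (nat_lit 4) (nat_lit 402) (nat_lit 254) (nat_lit 244)) (XT.lf (nat_lit 0) (nat_lit 59223445576) (nat_lit 152) (nat_lit 29561243465) (nat_lit 0) (nat_lit 58379226800) (nat_lit 2) (nat_lit 5) (nat_lit 4) (nat_lit 4) (nat_lit 2) (nat_lit 4) (nat_lit 403) (nat_lit 254) (nat_lit 243))))))) (XT.nd (nat_lit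 936) (nat_lit 0) (nat_lit 0) (XT.nd (nat_lit 468) (nat_lit 76) (nat_lit 0) (XT.nd (nat_lit 234) (nat_lit 0) (nat_lit 0) (XT.nd (nat_lit 78) (nat_lit 0) (nat_lit 0) (XT.lf (nat_lit 0) (nat_lit 64735600516) (nat_lit 152) (nat_lit 25818790150) (nat_lit 0) (nat_lit 63834787812) (nat_lit 2) (nat_lit 5) (nat_lit 4) (nat_lit 4) (nat_lit 2) (nat_lit 4) (nat_lit 404) (nat_lit 254) (nat_lit 242)) (XT.nd (nat_lit 78) (nat_lit 0) (nat_lit 0) (XT.lf (nat_lit 0) (nat_lit 70456032043) (nat_lit 152) (nat_lit 22021726074) (nat_lit 0) (nat_lit 69501320360) (nat_lit 2) (nat_lit 5) (nat_lit 4) (nat_lit 4) (nat_lit 2) (nat_lit 4) (nat_lit 405) (nat_lit 254) (nat_lit 241)) (XT.lf (nat_lit 0) (nat_lit 76398360232) (nat_lit 152) (nat_lit 18161010610) (nat_lit 0) (nat_lit 75392316189) (nat_lit 2) (nat_lit 5) (nat_lit 4) (nat_lit 4) (nat_lit 2) (nat_lit 4) (nat_lit 406) (nat_lit 254) (nat_lit 240)))) (XT.nd (nat_lit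 78) (nat_lit 0) (nat_lit 0) (XT.lf (nat_lit 0) (nat_lit 82576733483) (nat_lit 152) (nat_lit 14227451576) (nat_lit 0) (nat_lit 81521801478) (nat_lit 2) (nat_lit 5) (nat_lit 4) (nat_lit 4) (nat_lit 2) (nat_lit 4) (nat_lit 407) (nat_lit 254) (nat_lit 239)) (XT.nd (nat_lit 78) (nat_lit 0) (nat_lit 0) (XT.lf (nat_lit 0) (nat_lit 89005862210) (nat_lit 152) (nat_lit 10211683357) (nat_lit 0) (nat_lit 87904370240) (nat_lit 2) (nat_lit 5) (nat_lit 4) (nat_lit 4) (nat_lit 2) (nat_lit 4) (nat_lit 408) (nat_lit 254) (nat_lit 238)) (XT.lf (nat_lit 0) (nat_lit 95701053861) (nat_lit 152) (nat_lit 6104144600) (nat_lit 0) (nat_lit 94555219069) (nat_lit 2) (nat_lit 5) (nat_lit 4) (nat_lit 4) (nat_lit 2) (nat_lit 4) (nat_lit 409) (nat_lit 254) (nat_lit 237))))) (XT.nd (nat_lit 234) (nat_lit 0) (nat_lit 0) (XT.nd (nat_lit 78) (nat_lit 76) (nat_lit 0) (XT.lf (nat_lit 0) (nat_lit 102678249370) (nat_lit 152) (nat_lit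 1895055451) (nat_lit 0) (nat_lit 101490183317) (nat_lit 2) (nat_lit 5) (nat_lit 4) (nat_lit 4) (nat_lit 2) (nat_lit 4) (nat_lit 410) (nat_lit 254) (nat_lit 236)) (XT.nd (nat_lit 78) (nat_lit 0) (nat_lit 0) (XT.lf (nat_lit 0) (nat_lit 2505807211) (nat_lit 76) (nat_lit 107487376566) (nat_lit 76) (nat_lit 106259090266) (nat_lit 1) (nat_lit 4) (nat_lit 2) (nat_lit 5) (nat_lit 2) (nat_lit 4) (nat_lit 411) (nat_lit 254) (nat_lit 235)) (XT.lf (nat_lit 0) (nat_lit 7095217507) (nat_lit 76) (nat_lit 110561371151) (nat_lit 76) (nat_lit 109294779853) (nat_lit 1) (nat_lit 4) (nat_lit 2) (nat_lit 5) (nat_lit 2) (nat_lit 4) (nat_lit 412) (nat_lit 254) (nat_lit 234)))) (XT.nd (nat_lit 78) (nat_lit 0) (nat_lit 0) (XT.lf (nat_lit 0) (nat_lit 11821443512) (nat_lit 76) (nat_lit 113834701291) (nat_lit 76) (nat_lit 112531629042) (nat_lit 1) (nat_lit 4) (nat_lit 2) (nat_lit 5) (nat_lit 2) (nat_lit 4) (nat_lit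 413) (nat_lit 254) (nat_lit 233)) (XT.nd (nat_lit 78) (nat_lit 0) (nat_lit 0) (XT.lf (nat_lit 0) (nat_lit 16695738144) (nat_lit 76) (nat_lit 117315160628) (nat_lit 76) (nat_lit 115977344618) (nat_lit 1) (nat_lit 4) (nat_lit 2) (nat_lit 5) (nat_lit 2) (nat_lit 4) (nat_lit 414) (nat_lit 254) (nat_lit 232)) (XT.lf (nat_lit 0) (nat_lit 21729706867) (nat_lit 76) (nat_lit 121011035972) (nat_lit 76) (nat_lit 119640130664) (nat_lit 1) (nat_lit 4) (nat_lit 2) (nat_lit 5) (nat_lit 2) (nat_lit 4) (nat_lit 415) (nat_lit 254) (nat_lit 231)))))) (XT.nd (nat_lit 468) (nat_lit 0) (nat_lit 0) (XT.nd (nat_lit 234) (nat_lit 0) (nat_lit 0) (XT.nd (nat_lit 78) (nat_lit 0) (nat_lit 0) (XT.lf (nat_lit 0) (nat_lit 26935335322) (nat_lit 76) (nat_lit 124931127024) (nat_lit 76) (nat_lit 123528708100) (nat_lit 1) (nat_lit 4) (nat_lit 2) (nat_lit 5) (nat_lit 2) (nat_lit 4) (nat_lit 416) (nat_lit 254) (nat_lit 230))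 (XT.nd (nat_lit 78) (nat_lit 0) (nat_lit 0) (XT.lf (nat_lit 0) (nat_lit 32325017861) (nat_lit 76) (nat_lit 129084767336) (nat_lit 76) (nat_lit 127652335444) (nat_lit 1) (nat_lit 4) (nat_lit 2) (nat_lit 5) (nat_lit 2) (nat_lit 4) (nat_lit 417) (nat_lit 254) (nat_lit 229)) (XT.lf (nat_lit 0) (nat_lit 37911587062) (nat_lit 76) (nat_lit 133481846527) (nat_lit 76) (nat_lit 132020830856) (nat_lit 1) (nat_lit 4) (nat_lit 2) (nat_lit 5) (nat_lit 2) (nat_lit 4) (nat_lit 418) (nat_lit 254) (nat_lit 228)))) (XT.nd (nat_lit 78) (nat_lit 0) (nat_lit 0) (XT.lf (nat_lit 0) (nat_lit 43708344281) (nat_lit 76) (nat_lit 138132833833) (nat_lit 76) (nat_lit 136644595515) (nat_lit 1) (nat_lit 4) (nat_lit 2) (nat_lit 5) (nat_lit 2) (nat_lit 4) (nat_lit 419) (nat_lit 254) (nat_lit 227)) (XT.nd (nat_lit 78) (nat_lit 0) (nat_lit 0) (XT.lf (nat_lit 0) (nat_lit 49729091319) (nat_lit 76) (nat_lit 143048803034) (nat_lit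 76) (nat_lit 141534638386) (nat_lit 1) (nat_lit 4) (nat_lit 2) (nat_lit 5) (nat_lit 2) (nat_lit 4) (nat_lit 420) (nat_lit 254) (nat_lit 226)) (XT.lf (nat_lit 0) (nat_lit 55988163290) (nat_lit 76) (nat_lit 148241458818) (nat_lit 76) (nat_lit 146702602426) (nat_lit 1) (nat_lit 4) (nat_lit 2) (nat_lit 5) (nat_lit 2) (nat_lit 4) (nat_lit 421) (nat_lit 254) (nat_lit 225))))) (XT.nd (nat_lit 234) (nat_lit 0) (nat_lit 0) (XT.nd (nat_lit 78) (nat_lit 0) (nat_lit 0) (XT.lf (nat_lit 0) (nat_lit 62500462745) (nat_lit 76) (nat_lit 153723164651) (nat_lit 76) (nat_lit 152160792313) (nat_lit 1) (nat_lit 4) (nat_lit 2) (nat_lit 5) (nat_lit 2) (nat_lit 4) (nat_lit 422) (nat_lit 254) (nat_lit 224)) (XT.nd (nat_lit 78) (nat_lit 0) (nat_lit 0) (XT.lf (nat_lit 0) (nat_lit 69281495160) (nat_lit 76) (nat_lit 159506972214) (nat_lit 76) (nat_lit 157922203737) (nat_lit 1) (nat_lit 4) (nat_lit 2) (nat_lit 5) (nat_lit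 2) (nat_lit 4) (nat_lit 423) (nat_lit 254) (nat_lit 223)) (XT.lf (nat_lit 0) (nat_lit 76347405849) (nat_lit 76) (nat_lit 165606652477) (nat_lit 76) (nat_lit 164000554344) (nat_lit 1) (nat_lit 4) (nat_lit 2) (nat_lit 5) (nat_lit 2) (nat_lit 4) (nat_lit 424) (nat_lit 254) (nat_lit 222)))) (XT.nd (nat_lit 78) (nat_lit 0) (nat_lit 0) (XT.lf (nat_lit 0) (nat_lit 83715018409) (nat_lit 76) (nat_lit 172036728488) (nat_lit 76) (nat_lit 170410316398) (nat_lit 1) (nat_lit 4) (nat_lit 2) (nat_lit 5) (nat_lit 2) (nat_lit 4) (nat_lit 425) (nat_lit 254) (nat_lit 221)) (XT.nd (nat_lit 78) (nat_lit 0) (nat_lit 0) (XT.lf (nat_lit 0) (nat_lit 91401874776) (nat_lit 76) (nat_lit 178812509953) (nat_lit 76) (nat_lit 177166751235) (nat_lit 1) (nat_lit 4) (nat_lit 2) (nat_lit 5) (nat_lit 2) (nat_lit 4) (nat_lit 426) (nat_lit 254) (nat_lit 220)) (XT.lf (nat_lit 0) (nat_lit 99426276988) (nat_lit 76) (nat_lit 185950129683)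 (nat_lit 76) (nat_lit 184285945607) (nat_lit 1) (nat_lit 4) (nat_lit 2) (nat_lit 5) (nat_lit 2) (nat_lit 4) (nat_lit 427) (nat_lit 254) (nat_lit 219))))))))
noncomputable def xc12 : XT := (XT.nd (nat_lit 44850) (nat_lit 0) (nat_lit 0) (XT.nd (nat_lit 43914) (nat_lit 0) (nat_lit 76) (XT.nd (nat_lit 390) (nat_lit 0) (nat_lit 0) (XT.nd (nat_lit 156) (nat_lit 0) (nat_lit 0) (XT.nd (nat_lit 78) (nat_lit 0) (nat_lit 0) (XT.lf (nat_lit 0) (nat_lit 107807330764) (nat_lit 76) (nat_lit 193466582013) (nat_lit 76) (nat_lit 191784849976) (nat_lit 1) (nat_lit 4) (nat_lit 2) (nat_lit 5) (nat_lit 2) (nat_lit 4) (nat_lit 428) (nat_lit 254) (nat_lit 218)) (XT.lf (nat_lit 0) (nat_lit 116564990995) (nat_lit 76) (nat_lit 201379763257) (nat_lit 76) (nat_lit 199681318876) (nat_lit 1) (nat_lit 4) (nat_lit 2) (nat_lit 5) (nat_lit 2) (nat_lit 4) (nat_lit 429) (nat_lit 254) (nat_lit 217))) (XT.nd (nat_lit 78) (nat_lit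 0) (nat_lit 0) (XT.lf (nat_lit 0) (nat_lit 125720109253) (nat_lit 76) (nat_lit 209708514322) (nat_lit 76) (nat_lit 207994153424) (nat_lit 1) (nat_lit 4) (nat_lit 2) (nat_lit 5) (nat_lit 2) (nat_lit 4) (nat_lit 430) (nat_lit 254) (nat_lit 216)) (XT.nd (nat_lit 78) (nat_lit 0) (nat_lit 0) (XT.lf (nat_lit 0) (nat_lit 135294483438) (nat_lit 76) (nat_lit 218472665569) (nat_lit 76) (nat_lit 216743146083) (nat_lit 1) (nat_lit 4) (nat_lit 2) (nat_lit 5) (nat_lit 2) (nat_lit 4) (nat_lit 431) (nat_lit 254) (nat_lit 215)) (XT.lf (nat_lit 0) (nat_lit 145310909679) (nat_lit 76) (nat_lit 227693084024) (nat_lit 76) (nat_lit 225949127787) (nat_lit 1) (nat_lit 4) (nat_lit 2) (nat_lit 5) (nat_lit 2) (nat_lit 4) (nat_lit 432) (nat_lit 254) (nat_lit 214))))) (XT.nd (nat_lit 234) (nat_lit 0) (nat_lit 0) (XT.nd (nat_lit 78) (nat_lit 0) (nat_lit 0) (XT.lf (nat_lit 0) (nat_lit 155793236610) (nat_lit 76) (nat_lit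 237391723065) (nat_lit 76) (nat_lit 235634017541) (nat_lit 1) (nat_lit 4) (nat_lit 2) (nat_lit 5) (nat_lit 2) (nat_lit 4) (nat_lit 433) (nat_lit 254) (nat_lit 213)) (XT.nd (nat_lit 78) (nat_lit 0) (nat_lit 0) (XT.lf (nat_lit 0) (nat_lit 166766422153) (nat_lit 76) (nat_lit 247591674688) (nat_lit 76) (nat_lit 245820874606) (nat_lit 1) (nat_lit 4) (nat_lit 2) (nat_lit 5) (nat_lit 2) (nat_lit 4) (nat_lit 434) (nat_lit 254) (nat_lit 212)) (XT.lf (nat_lit 0) (nat_lit 178256592939) (nat_lit 76) (nat_lit 258317224494) (nat_lit 76) (nat_lit 256533953404) (nat_lit 1) (nat_lit 4) (nat_lit 2) (nat_lit 5) (nat_lit 2) (nat_lit 4) (nat_lit 435) (nat_lit 254) (nat_lit 211)))) (XT.nd (nat_lit 78) (nat_lit 0) (nat_lit 0) (XT.lf (nat_lit 0) (nat_lit 190291106519) (nat_lit 76) (nat_lit 269593909506) (nat_lit 76) (nat_lit 267798761265) (nat_lit 1) (nat_lit 4) (nat_lit 2) (nat_lit 5) (nat_lit 2) (nat_lit 4)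 (nat_lit 436) (nat_lit 254) (nat_lit 210)) (XT.nd (nat_lit 78) (nat_lit 0) (nat_lit 0) (XT.lf (nat_lit 0) (nat_lit 202898616495) (nat_lit 76) (nat_lit 281448578973) (nat_lit 76) (nat_lit 279642119160) (nat_lit 1) (nat_lit 4) (nat_lit 2) (nat_lit 5) (nat_lit 2) (nat_lit 4) (nat_lit 437) (nat_lit 254) (nat_lit 209)) (XT.lf (nat_lit 0) (nat_lit 216109140749) (nat_lit 76) (nat_lit 293909458299) (nat_lit 76) (nat_lit 292092225560) (nat_lit 1) (nat_lit 4) (nat_lit 2) (nat_lit 5) (nat_lit 2) (nat_lit 4) (nat_lit 438) (nat_lit 254) (nat_lit 208)))))) (XT.nd (nat_lit 468) (nat_lit 0) (nat_lit 0) (XT.nd (nat_lit 234) (nat_lit 0) (nat_lit 0) (XT.nd (nat_lit 78) (nat_lit 0) (nat_lit 0) (XT.lf (nat_lit 0) (nat_lit 629571458) (nat_lit 152) (nat_lit 38544834971) (nat_lit 0) (nat_lit 629571458) (nat_lit 2) (nat_lit 5) (nat_lit 4) (nat_lit 4) (nat_lit 2) (nat_lit 4) (nat_lit 390) (nat_lit 255) (nat_lit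 255)) (XT.nd (nat_lit 78) (nat_lit 0) (nat_lit 0) (XT.lf (nat_lit 0) (nat_lit 5055238657) (nat_lit 152) (nat_lit 73387080473) (nat_lit 0) (nat_lit 4953604095) (nat_lit 2) (nat_lit 5) (nat_lit 4) (nat_lit 4) (nat_lit 2) (nat_lit 4) (nat_lit 391) (nat_lit 255) (nat_lit 254)) (XT.lf (nat_lit 0) (nat_lit 8920222097) (nat_lit 152) (nat_lit 69737333875) (nat_lit 0) (nat_lit 8721792712) (nat_lit 2) (nat_lit 5) (nat_lit 4) (nat_lit 4) (nat_lit 2) (nat_lit 4) (nat_lit 392) (nat_lit 255) (nat_lit 253)))) (XT.nd (nat_lit 78) (nat_lit 0) (nat_lit 0) (XT.lf (nat_lit 0) (nat_lit 12863295575) (nat_lit 152) (nat_lit 66131740273) (nat_lit 0) (nat_lit 12572680646) (nat_lit 2) (nat_lit 5) (nat_lit 4) (nat_lit 4) (nat_lit 2) (nat_lit 4) (nat_lit 393) (nat_lit 255) (nat_lit 252)) (XT.nd (nat_lit 78) (nat_lit 0) (nat_lit 0) (XT.lf (nat_lit 0) (nat_lit 16893847363) (nat_lit 152) (nat_lit 62561714923) (nat_lit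 0) (nat_lit 16515436678) (nat_lit 2) (nat_lit 5) (nat_lit 4) (nat_lit 4) (nat_lit 2) (nat_lit 4) (nat_lit 394) (nat_lit 255) (nat_lit 251)) (XT.lf (nat_lit 0) (nat_lit 21021474012) (nat_lit 152) (nat_lit 59018757763) (nat_lit 0) (nat_lit 20559448320) (nat_lit 2) (nat_lit 5) (nat_lit 4) (nat_lit 4) (nat_lit 2) (nat_lit 4) (nat_lit 395) (nat_lit 255) (nat_lit 250))))) (XT.nd (nat_lit 234) (nat_lit 0) (nat_lit 0) (XT.nd (nat_lit 78) (nat_lit 0) (nat_lit 0) (XT.lf (nat_lit 0) (nat_lit 25256003205) (nat_lit 152) (nat_lit 55494433181) (nat_lit 0) (nat_lit 24714344174) (nat_lit 2) (nat_lit 5) (nat_lit 4) (nat_lit 4) (nat_lit 2) (nat_lit 4) (nat_lit 396) (nat_lit 255) (nat_lit 249)) (XT.nd (nat_lit 78) (nat_lit 0) (nat_lit 0) (XT.lf (nat_lit 0) (nat_lit 29607517154) (nat_lit 152) (nat_lit 51980349929) (nat_lit 0) (nat_lit 28990016848) (nat_lit 2) (nat_lit 5) (nat_lit 4) (nat_lit 4) (nat_lit 2)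 (nat_lit 4) (nat_lit 397) (nat_lit 255) (nat_lit 248)) (XT.lf (nat_lit 0) (nat_lit 34086376607) (nat_lit 152) (nat_lit 48468141141) (nat_lit 0) (nat_lit 33396646514) (nat_lit 2) (nat_lit 5) (nat_lit 4) (nat_lit 4) (nat_lit 2) (nat_lit 4) (nat_lit 398) (nat_lit 255) (nat_lit 247)))) (XT.nd (nat_lit 78) (nat_lit 0) (nat_lit 0) (XT.lf (nat_lit 0) (nat_lit 38703245514) (nat_lit 152) (nat_lit 44949444415) (nat_lit 0) (nat_lit 37944725149) (nat_lit 2) (nat_lit 5) (nat_lit 4) (nat_lit 4) (nat_lit 2) (nat_lit 4) (nat_lit 399) (nat_lit 255) (nat_lit 246)) (XT.nd (nat_lit 78) (nat_lit 0) (nat_lit 0) (XT.lf (nat_lit 0) (nat_lit 43469116421) (nat_lit 152) (nat_lit 41415881902) (nat_lit 0) (nat_lit 42645081511) (nat_lit 2) (nat_lit 5) (nat_lit 4) (nat_lit 4) (nat_lit 2) (nat_lit 4) (nat_lit 400) (nat_lit 255) (nat_lit 245)) (XT.lf (nat_lit 0) (nat_lit 48395336640) (nat_lit 152) (nat_lit 37859040358)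 (nat_lit 0) (nat_lit 47508906925) (nat_lit 2) (nat_lit 5) (nat_lit 4) (nat_lit 4) (nat_lit 2) (nat_lit 4) (nat_lit 401) (nat_lit 255) (nat_lit 244))))))) (XT.nd (nat_lit 936) (nat_lit 0) (nat_lit 0) (XT.nd (nat_lit 468) (nat_lit 76) (nat_lit 0) (XT.nd (nat_lit 234) (nat_lit 0) (nat_lit 0) (XT.nd (nat_lit 78) (nat_lit 0) (nat_lit 0) (XT.lf (nat_lit 0) (nat_lit 53493635266) (nat_lit 152) (nat_lit 34270451113) (nat_lit 0) (nat_lit 52547781927) (nat_lit 2) (nat_lit 5) (nat_lit 4) (nat_lit 4) (nat_lit 2) (nat_lit 4) (nat_lit 402) (nat_lit 255) (nat_lit 243)) (XT.nd (nat_lit 78) (nat_lit 0) (nat_lit 0) (XT.lf (nat_lit 0) (nat_lit 58776151105) (nat_lit 152) (nat_lit 30641569906) (nat_lit 0) (nat_lit 57773703838) (nat_lit 2) (nat_lit 5) (nat_lit 4) (nat_lit 4) (nat_lit 2) (nat_lit 4) (nat_lit 403) (nat_lit 255) (nat_lit 242)) (XT.lf (nat_lit 0) (nat_lit 64255461576) (nat_lit 152) (nat_lit 26963756545)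 (nat_lit 0) (nat_lit 63199115331) (nat_lit 2) (nat_lit 5) (nat_lit 4) (nat_lit 4) (nat_lit 2) (nat_lit 4) (nat_lit 404) (nat_lit 255) (nat_lit 241)))) (XT.nd (nat_lit 78) (nat_lit 0) (nat_lit 0) (XT.lf (nat_lit 0) (nat_lit 69944612657) (nat_lit 152) (nat_lit 23228254330) (nat_lit 0) (nat_lit 68836934052) (nat_lit 2) (nat_lit 5) (nat_lit 4) (nat_lit 4) (nat_lit 2) (nat_lit 4) (nat_lit 405) (nat_lit 255) (nat_lit 240)) (XT.nd (nat_lit 78) (nat_lit 0) (nat_lit 0) (XT.lf (nat_lit 0) (nat_lit 75857149945) (nat_lit 152) (nat_lit 19426169209) (nat_lit 0) (nat_lit 74700583377) (nat_lit 2) (nat_lit 5) (nat_lit 4) (nat_lit 4) (nat_lit 2) (nat_lit 4) (nat_lit 406) (nat_lit 255) (nat_lit 239)) (XT.lf (nat_lit 0) (nat_lit 82007150910) (nat_lit 152) (nat_lit 15548448598) (nat_lit 0) (nat_lit 80804024378) (nat_lit 2) (nat_lit 5) (nat_lit 4) (nat_lit 4) (nat_lit 2) (nat_lit 4) (nat_lit 407) (nat_lit 255)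 (nat_lit 238))))) (XT.nd (nat_lit 234) (nat_lit 76) (nat_lit 0) (XT.nd (nat_lit 78) (nat_lit 0) (nat_lit 0) (XT.lf (nat_lit 0) (nat_lit 88409258412) (nat_lit 152) (nat_lit 11585859829) (nat_lit 0) (nat_lit 87161789057) (nat_lit 2) (nat_lit 5) (nat_lit 4) (nat_lit 4) (nat_lit 2) (nat_lit 4) (nat_lit 408) (nat_lit 255) (nat_lit 237)) (XT.nd (nat_lit 78) (nat_lit 0) (nat_lit 0) (XT.lf (nat_lit 0) (nat_lit 95078715563) (nat_lit 152) (nat_lit 7528968167) (nat_lit 0) (nat_lit 93789014947) (nat_lit 2) (nat_lit 5) (nat_lit 4) (nat_lit 4) (nat_lit 2) (nat_lit 4) (nat_lit 409) (nat_lit 255) (nat_lit 236)) (XT.lf (nat_lit 0) (nat_lit 102031402023) (nat_lit 152) (nat_lit 3368114347) (nat_lit 0) (nat_lit 100701481160) (nat_lit 2) (nat_lit 5) (nat_lit 4) (nat_lit 4) (nat_lit 2) (nat_lit 4) (nat_lit 410) (nat_lit 255) (nat_lit 235)))) (XT.nd (nat_lit 78) (nat_lit 0) (nat_lit 0) (XT.lf (nat_lit 0) (nat_lit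 936584996) (nat_lit 76) (nat_lit 108361909529) (nat_lit 76) (nat_lit 106993683668) (nat_lit 1) (nat_lit 4) (nat_lit 2) (nat_lit 5) (nat_lit 2) (nat_lit 4) (nat_lit 411) (nat_lit 255) (nat_lit 234)) (XT.nd (nat_lit 78) (nat_lit 0) (nat_lit 0) (XT.lf (nat_lit 0) (nat_lit 5480797825) (nat_lit 76) (nat_lit 111458165492) (nat_lit 76) (nat_lit 110053458681) (nat_lit 1) (nat_lit 4) (nat_lit 2) (nat_lit 5) (nat_lit 2) (nat_lit 4) (nat_lit 412) (nat_lit 255) (nat_lit 233)) (XT.lf (nat_lit 0) (nat_lit 10163978624) (nat_lit 76) (nat_lit 114752696944) (nat_lit 76) (nat_lit 113313246371) (nat_lit 1) (nat_lit 4) (nat_lit 2) (nat_lit 5) (nat_lit 2) (nat_lit 4) (nat_lit 413) (nat_lit 255) (nat_lit 232)))))) (XT.nd (nat_lit 468) (nat_lit 0) (nat_lit 0) (XT.nd (nat_lit 234) (nat_lit 0) (nat_lit 0) (XT.nd (nat_lit 78) (nat_lit 0) (nat_lit 0) (XT.lf (nat_lit 0) (nat_lit 14997277822) (nat_lit 76) (nat_lit 118253348008)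 (nat_lit 76) (nat_lit 116780808137) (nat_lit 1) (nat_lit 4) (nat_lit 2) (nat_lit 5) (nat_lit 2) (nat_lit 4) (nat_lit 414) (nat_lit 255) (nat_lit 231)) (XT.nd (nat_lit 78) (nat_lit 0) (nat_lit 0) (XT.lf (nat_lit 0) (nat_lit 19992203275) (nat_lit 76) (nat_lit 121968453567) (nat_lit 76) (nat_lit 120464400080) (nat_lit 1) (nat_lit 4) (nat_lit 2) (nat_lit 5) (nat_lit 2) (nat_lit 4) (nat_lit 415) (nat_lit 255) (nat_lit 230)) (XT.lf (nat_lit 0) (nat_lit 25160647662) (nat_lit 76) (nat_lit 125906859111) (nat_lit 76) (nat_lit 124372792656) (nat_lit 1) (nat_lit 4) (nat_lit 2) (nat_lit 5) (nat_lit 2) (nat_lit 4) (nat_lit 416) (nat_lit 255) (nat_lit 229)))) (XT.nd (nat_lit 78) (nat_lit 0) (nat_lit 0) (XT.lf (nat_lit 0) (nat_lit 30514916803) (nat_lit 76) (nat_lit 130077941795) (nat_lit 76) (nat_lit 128515291561) (nat_lit 1) (nat_lit 4) (nat_lit 2) (nat_lit 5) (nat_lit 2) (nat_lit 4) (nat_lit 417) (nat_lit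 255) (nat_lit 228)) (XT.nd (nat_lit 78) (nat_lit 0) (nat_lit 0) (XT.lf (nat_lit 0) (nat_lit 36067758959) (nat_lit 76) (nat_lit 134491632769) (nat_lit 76) (nat_lit 132901759888) (nat_lit 1) (nat_lit 4) (nat_lit 2) (nat_lit 5) (nat_lit 2) (nat_lit 4) (nat_lit 418) (nat_lit 255) (nat_lit 227)) (XT.lf (nat_lit 0) (nat_lit 41832395182) (nat_lit 76) (nat_lit 139158440821) (nat_lit 76) (nat_lit 137542641610) (nat_lit 1) (nat_lit 4) (nat_lit 2) (nat_lit 5) (nat_lit 2) (nat_lit 4) (nat_lit 419) (nat_lit 255) (nat_lit 226))))) (XT.nd (nat_lit 234) (nat_lit 0) (nat_lit 0) (XT.nd (nat_lit 78) (nat_lit 0) (nat_lit 0) (XT.lf (nat_lit 0) (nat_lit 47822550797) (nat_lit 76) (nat_lit 144089477399) (nat_lit 76) (nat_lit 142448986445) (nat_lit 1) (nat_lit 4) (nat_lit 2) (nat_lit 5) (nat_lit 2) (nat_lit 4) (nat_lit 420) (nat_lit 255) (nat_lit 225)) (XT.nd (nat_lit 78) (nat_lit 0) (nat_lit 0) (XT.lf (nat_lit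 0) (nat_lit 54052488077) (nat_lit 76) (nat_lit 149296483066) (nat_lit 76) (nat_lit 147632476166) (nat_lit 1) (nat_lit 4) (nat_lit 2) (nat_lit 5) (nat_lit 2) (nat_lit 4) (nat_lit 421) (nat_lit 255) (nat_lit 224)) (XT.lf (nat_lit 0) (nat_lit 60537040209) (nat_lit 76) (nat_lit 154791855454) (nat_lit 76) (nat_lit 153105452415) (nat_lit 1) (nat_lit 4) (nat_lit 2) (nat_lit 5) (nat_lit 2) (nat_lit 4) (nat_lit 422) (nat_lit 255) (nat_lit 223)))) (XT.nd (nat_lit 78) (nat_lit 0) (nat_lit 0) (XT.lf (nat_lit 0) (nat_lit 67291646601) (nat_lit 76) (nat_lit 160588678784) (nat_lit 76) (nat_lit 158880946089) (nat_lit 1) (nat_lit 4) (nat_lit 2) (nat_lit 5) (nat_lit 2) (nat_lit 4) (nat_lit 423) (nat_lit 255) (nat_lit 222)) (XT.nd (nat_lit 78) (nat_lit 0) (nat_lit 0) (XT.lf (nat_lit 0) (nat_lit 74332389649) (nat_lit 76) (nat_lit 166700755015) (nat_lit 76) (nat_lit 164972708362) (nat_lit 1) (nat_lit 4) (nat_lit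 2) (nat_lit 5) (nat_lit 2) (nat_lit 4) (nat_lit 424) (nat_lit 255) (nat_lit 221)) (XT.lf (nat_lit 0) (nat_lit 81676033029) (nat_lit 76) (nat_lit 173142636711) (nat_lit 76) (nat_lit 171395243431) (nat_lit 1) (nat_lit 4) (nat_lit 2) (nat_lit 5) (nat_lit 2) (nat_lit 4) (nat_lit 425) (nat_lit 255) (nat_lit 220))))))))
noncomputable def xc13 : XT := (XT.nd (nat_lit 44694) (nat_lit 0) (nat_lit 0) (XT.nd (nat_lit 858) (nat_lit 0) (nat_lit 0) (XT.nd (nat_lit 390) (nat_lit 0) (nat_lit 0) (XT.nd (nat_lit 156) (nat_lit 0) (nat_lit 0) (XT.nd (nat_lit 78) (nat_lit 0) (nat_lit 0) (XT.lf (nat_lit 0) (nat_lit 89340061603) (nat_lit 76) (nat_lit 179929661684) (nat_lit 76) (nat_lit 178163843045) (nat_lit 1) (nat_lit 4) (nat_lit 2) (nat_lit 5) (nat_lit 2) (nat_lit 4) (nat_lit 426) (nat_lit 255) (nat_lit 219)) (XT.lf (nat_lit 0) (nat_lit 97342723061) (nat_lit 76) (nat_lit 187077989518) (nat_lit 76) (nat_lit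 185294622919) (nat_lit 1) (nat_lit 4) (nat_lit 2) (nat_lit 5) (nat_lit 2) (nat_lit 4) (nat_lit 427) (nat_lit 255) (nat_lit 218))) (XT.nd (nat_lit 78) (nat_lit 0) (nat_lit 0) (XT.lf (nat_lit 0) (nat_lit 105703071357) (nat_lit 76) (nat_lit 194604640042) (nat_lit 76) (nat_lit 192804561099) (nat_lit 1) (nat_lit 4) (nat_lit 2) (nat_lit 5) (nat_lit 2) (nat_lit 4) (nat_lit 428) (nat_lit 255) (nat_lit 217)) (XT.nd (nat_lit 78) (nat_lit 0) (nat_lit 0) (XT.lf (nat_lit 0) (nat_lit 114441012084) (nat_lit 76) (nat_lit 202527533851) (nat_lit 76) (nat_lit 200711538390) (nat_lit 1) (nat_lit 4) (nat_lit 2) (nat_lit 5) (nat_lit 2) (nat_lit 4) (nat_lit 429) (nat_lit 255) (nat_lit 216)) (XT.lf (nat_lit 0) (nat_lit 123577349861) (nat_lit 76) (nat_lit 210865534979) (nat_lit 76) (nat_lit 209034380930) (nat_lit 1) (nat_lit 4) (nat_lit 2) (nat_lit 5) (nat_lit 2) (nat_lit 4) (nat_lit 430) (nat_lit 255) (nat_lit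 215))))) (XT.nd (nat_lit 234) (nat_lit 0) (nat_lit 0) (XT.nd (nat_lit 78) (nat_lit 0) (nat_lit 0) (XT.lf (nat_lit 0) (nat_lit 133133837873) (nat_lit 76) (nat_lit 219638495810) (nat_lit 76) (nat_lit 217792905009) (nat_lit 1) (nat_lit 4) (nat_lit 2) (nat_lit 5) (nat_lit 2) (nat_lit 4) (nat_lit 431) (nat_lit 255) (nat_lit 214)) (XT.nd (nat_lit 78) (nat_lit 0) (nat_lit 0) (XT.lf (nat_lit 0) (nat_lit 143133229665) (nat_lit 76) (nat_lit 228867304344) (nat_lit 76) (nat_lit 227007964257) (nat_lit 1) (nat_lit 4) (nat_lit 2) (nat_lit 5) (nat_lit 2) (nat_lit 4) (nat_lit 432) (nat_lit 255) (nat_lit 213)) (XT.lf (nat_lit 0) (nat_lit 153599333311) (nat_lit 76) (nat_lit 238573933936) (nat_lit 76) (nat_lit 236701499291) (nat_lit 1) (nat_lit 4) (nat_lit 2) (nat_lit 5) (nat_lit 2) (nat_lit 4) (nat_lit 433) (nat_lit 255) (nat_lit 212)))) (XT.nd (nat_lit 78) (nat_lit 0) (nat_lit 0) (XT.lf (nat_lit 0) (nat_lit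 164557068105) (nat_lit 76) (nat_lit 248781495609) (nat_lit 76) (nat_lit 246896589956) (nat_lit 1) (nat_lit 4) (nat_lit 2) (nat_lit 5) (nat_lit 2) (nat_lit 4) (nat_lit 434) (nat_lit 255) (nat_lit 211)) (XT.nd (nat_lit 78) (nat_lit 0) (nat_lit 0) (XT.lf (nat_lit 0) (nat_lit 176032523893) (nat_lit 76) (nat_lit 259514293081) (nat_lit 76) (nat_lit 257617510277) (nat_lit 1) (nat_lit 4) (nat_lit 2) (nat_lit 5) (nat_lit 2) (nat_lit 4) (nat_lit 435) (nat_lit 255) (nat_lit 210)) (XT.lf (nat_lit 0) (nat_lit 188053023189) (nat_lit 76) (nat_lit 270797880632) (nat_lit 76) (nat_lit 268889786256) (nat_lit 1) (nat_lit 4) (nat_lit 2) (nat_lit 5) (nat_lit 2) (nat_lit 4) (nat_lit 436) (nat_lit 255) (nat_lit 209)))))) (XT.nd (nat_lit 43368) (nat_lit 0) (nat_lit 76) (XT.nd (nat_lit 43134) (nat_lit 0) (nat_lit 76) (XT.nd (nat_lit 78) (nat_lit 0) (nat_lit 0) (XT.lf (nat_lit 0) (nat_lit 200647186228) (nat_lit 76)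 (nat_lit 282659123946) (nat_lit 76) (nat_lit 280740256644) (nat_lit 1) (nat_lit 4) (nat_lit 2) (nat_lit 5) (nat_lit 2) (nat_lit 4) (nat_lit 437) (nat_lit 255) (nat_lit 208)) (XT.nd (nat_lit 42978) (nat_lit 0) (nat_lit 228) (XT.lf (nat_lit 0) (nat_lit 213844999113) (nat_lit 76) (nat_lit 295126264078) (nat_lit 76) (nat_lit 293197136847) (nat_lit 1) (nat_lit 4) (nat_lit 2) (nat_lit 5) (nat_lit 2) (nat_lit 4) (nat_lit 438) (nat_lit 255) (nat_lit 207)) (XT.lf (nat_lit 0) (nat_lit 30386292937) (nat_lit 76) (nat_lit 2947013393) (nat_lit 76) (nat_lit 2947013393) (nat_lit 4) (nat_lit 4) (nat_lit 5) (nat_lit 5) (nat_lit 5) (nat_lit 4) (nat_lit 388) (nat_lit 256) (nat_lit 256)))) (XT.nd (nat_lit 78) (nat_lit 152) (nat_lit 0) (XT.lf (nat_lit 0) (nat_lit 71229489705) (nat_lit 76) (nat_lit 2440678691) (nat_lit 76) (nat_lit 2328626586) (nat_lit 4) (nat_lit 4) (nat_lit 5) (nat_lit 5) (nat_lit 5) (nat_lit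 4) (nat_lit 389) (nat_lit 256) (nat_lit 255)) (XT.nd (nat_lit 78) (nat_lit 0) (nat_lit 0) (XT.lf (nat_lit 0) (nat_lit 1303926063) (nat_lit 152) (nat_lit 77211558216) (nat_lit 0) (nat_lit 1095575210) (nat_lit 2) (nat_lit 5) (nat_lit 4) (nat_lit 4) (nat_lit 2) (nat_lit 4) (nat_lit 390) (nat_lit 256) (nat_lit 254)) (XT.lf (nat_lit 0) (nat_lit 5041037859) (nat_lit 152) (nat_lit 73625052817) (nat_lit 0) (nat_lit 4735892184) (nat_lit 2) (nat_lit 5) (nat_lit 4) (nat_lit 4) (nat_lit 2) (nat_lit 4) (nat_lit 391) (nat_lit 256) (nat_lit 253))))) (XT.nd (nat_lit 234) (nat_lit 0) (nat_lit 0) (XT.nd (nat_lit 78) (nat_lit 0) (nat_lit 0) (XT.lf (nat_lit 0) (nat_lit 8849846111) (nat_lit 152) (nat_lit 70085862476) (nat_lit 0) (nat_lit 8452514892) (nat_lit 2) (nat_lit 5) (nat_lit 4) (nat_lit 4) (nat_lit 2) (nat_lit 4) (nat_lit 392) (nat_lit 256) (nat_lit 252)) (XT.nd (nat_lit 78) (nat_lit 0) (nat_lit 0) (XT.lf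 (nat_lit 0) (nat_lit 12739419412) (nat_lit 152) (nat_lit 66585560548) (nat_lit 0) (nat_lit 12254292436) (nat_lit 2) (nat_lit 5) (nat_lit 4) (nat_lit 4) (nat_lit 2) (nat_lit 4) (nat_lit 393) (nat_lit 256) (nat_lit 251)) (XT.lf (nat_lit 0) (nat_lit 16719018649) (nat_lit 152) (nat_lit 63115812982) (nat_lit 0) (nat_lit 16150276667) (nat_lit 2) (nat_lit 5) (nat_lit 4) (nat_lit 4) (nat_lit 2) (nat_lit 4) (nat_lit 394) (nat_lit 256) (nat_lit 250)))) (XT.nd (nat_lit 78) (nat_lit 0) (nat_lit 0) (XT.lf (nat_lit 0) (nat_lit 20798119060) (nat_lit 152) (nat_lit 59668358474) (nat_lit 0) (nat_lit 20149743739) (nat_lit 2) (nat_lit 5) (nat_lit 4) (nat_lit 4) (nat_lit 2) (nat_lit 4) (nat_lit 395) (nat_lit 256) (nat_lit 249)) (XT.nd (nat_lit 78) (nat_lit 0) (nat_lit 0) (XT.lf (nat_lit 0) (nat_lit 24986432788) (nat_lit 152) (nat_lit 56234988799) (nat_lit 0) (nat_lit 24262216191) (nat_lit 2) (nat_lit 5) (nat_lit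 4) (nat_lit 4) (nat_lit 2) (nat_lit 4) (nat_lit 396) (nat_lit 256) (nat_lit 248)) (XT.lf (nat_lit 0) (nat_lit 29293932008) (nat_lit 152) (nat_lit 52807529267) (nat_lit 0) (nat_lit 28497485625) (nat_lit 2) (nat_lit 5) (nat_lit 4) (nat_lit 4) (nat_lit 2) (nat_lit 4) (nat_lit 397) (nat_lit 256) (nat_lit 247))))))) (XT.nd (nat_lit 936) (nat_lit 76) (nat_lit 0) (XT.nd (nat_lit 468) (nat_lit 0) (nat_lit 0) (XT.nd (nat_lit 234) (nat_lit 0) (nat_lit 0) (XT.nd (nat_lit 78) (nat_lit 0) (nat_lit 0) (XT.lf (nat_lit 0) (nat_lit 33730872672) (nat_lit 152) (nat_lit 49377819260) (nat_lit 0) (nat_lit 32865636016) (nat_lit 2) (nat_lit 5) (nat_lit 4) (nat_lit 4) (nat_lit 2) (nat_lit 4) (nat_lit 398) (nat_lit 256) (nat_lit 246)) (XT.nd (nat_lit 78) (nat_lit 0) (nat_lit 0) (XT.lf (nat_lit 0) (nat_lit 38307818923) (nat_lit 152) (nat_lit 45937692802) (nat_lit 0) (nat_lit 37377067722) (nat_lit 2) (nat_lit 5) (nat_lit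 4) (nat_lit 4) (nat_lit 2) (nat_lit 4) (nat_lit 399) (nat_lit 256) (nat_lit 245)) (XT.lf (nat_lit 0) (nat_lit 43035668253) (nat_lit 152) (nat_lit 42478959116) (nat_lit 0) (nat_lit 42042522247) (nat_lit 2) (nat_lit 5) (nat_lit 4) (nat_lit 4) (nat_lit 2) (nat_lit 4) (nat_lit 400) (nat_lit 256) (nat_lit 244)))) (XT.nd (nat_lit 78) (nat_lit 0) (nat_lit 0) (XT.lf (nat_lit 0) (nat_lit 47925677445) (nat_lit 152) (nat_lit 38993383121) (nat_lit 0) (nat_lit 46873107815) (nat_lit 2) (nat_lit 5) (nat_lit 4) (nat_lit 4) (nat_lit 2) (nat_lit 4) (nat_lit 401) (nat_lit 256) (nat_lit 243)) (XT.nd (nat_lit 78) (nat_lit 0) (nat_lit 0) (XT.lf (nat_lit 0) (nat_lit 52989489379) (nat_lit 152) (nat_lit 35472665827) (nat_lit 0) (nat_lit 51880325822) (nat_lit 2) (nat_lit 5) (nat_lit 4) (nat_lit 4) (nat_lit 2) (nat_lit 4) (nat_lit 402) (nat_lit 256) (nat_lit 242)) (XT.lf (nat_lit 0) (nat_lit 58239160750) (nat_lit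 152) (nat_lit 31908424575) (nat_lit 0) (nat_lit 57076098214) (nat_lit 2) (nat_lit 5) (nat_lit 4) (nat_lit 4) (nat_lit 2) (nat_lit 4) (nat_lit 403) (nat_lit 256) (nat_lit 241))))) (XT.nd (nat_lit 234) (nat_lit 0) (nat_lit 0) (XT.nd (nat_lit 78) (nat_lit 0) (nat_lit 0) (XT.lf (nat_lit 0) (nat_lit 63687190776) (nat_lit 152) (nat_lit 28292173074) (nat_lit 0) (nat_lit 62472795879) (nat_lit 2) (nat_lit 5) (nat_lit 4) (nat_lit 4) (nat_lit 2) (nat_lit 4) (nat_lit 404) (nat_lit 256) (nat_lit 240)) (XT.nd (nat_lit 78) (nat_lit 0) (nat_lit 0) (XT.lf (nat_lit 0) (nat_lit 69346550956) (nat_lit 152) (nat_lit 24615301203) (nat_lit 0) (nat_lit 68083268097) (nat_lit 2) (nat_lit 5) (nat_lit 4) (nat_lit 4) (nat_lit 2) (nat_lit 4) (nat_lit 405) (nat_lit 256) (nat_lit 239)) (XT.lf (nat_lit 0) (nat_lit 75230715957) (nat_lit 152) (nat_lit 20869054504) (nat_lit 0) (nat_lit 73920873134) (nat_lit 2) (nat_lit 5)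 (nat_lit 4) (nat_lit 4) (nat_lit 2) (nat_lit 4) (nat_lit 406) (nat_lit 256) (nat_lit 238)))) (XT.nd (nat_lit 78) (nat_lit 0) (nat_lit 0) (XT.lf (nat_lit 0) (nat_lit 81353695697) (nat_lit 152) (nat_lit 17044513344) (nat_lit 0) (nat_lit 79999510051) (nat_lit 2) (nat_lit 5) (nat_lit 4) (nat_lit 4) (nat_lit 2) (nat_lit 4) (nat_lit 407) (nat_lit 256) (nat_lit 237)) (XT.nd (nat_lit 78) (nat_lit 0) (nat_lit 0) (XT.lf (nat_lit 0) (nat_lit 87730068698) (nat_lit 152) (nat_lit 13132571670) (nat_lit 0) (nat_lit 86333651792) (nat_lit 2) (nat_lit 5) (nat_lit 4) (nat_lit 4) (nat_lit 2) (nat_lit 4) (nat_lit 408) (nat_lit 256) (nat_lit 236)) (XT.lf (nat_lit 0) (nat_lit 94375016801) (nat_lit 152) (nat_lit 9123915337) (nat_lit 0) (nat_lit 92938379647) (nat_lit 2) (nat_lit 5) (nat_lit 4) (nat_lit 4) (nat_lit 2) (nat_lit 4) (nat_lit 409) (nat_lit 256) (nat_lit 235)))))) (XT.nd (nat_lit 468) (nat_lit 0) (nat_lit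 0) (XT.nd (nat_lit 234) (nat_lit 0) (nat_lit 0) (XT.nd (nat_lit 78) (nat_lit 76) (nat_lit 0) (XT.lf (nat_lit 0) (nat_lit 101304361311) (nat_lit 152) (nat_lit 5008999925) (nat_lit 0) (nat_lit 99829419160) (nat_lit 2) (nat_lit 5) (nat_lit 4) (nat_lit 4) (nat_lit 2) (nat_lit 4) (nat_lit 410) (nat_lit 256) (nat_lit 234)) (XT.nd (nat_lit 78) (nat_lit 76) (nat_lit 0) (XT.lf (nat_lit 0) (nat_lit 108534600668) (nat_lit 152) (nat_lit 778028015) (nat_lit 0) (nat_lit 107023177566) (nat_lit 2) (nat_lit 5) (nat_lit 4) (nat_lit 4) (nat_lit 2) (nat_lit 4) (nat_lit 411) (nat_lit 256) (nat_lit 233)) (XT.lf (nat_lit 0) (nat_lit 3697414487) (nat_lit 76) (nat_lit 112443262240) (nat_lit 76) (nat_lit 110897095376) (nat_lit 1) (nat_lit 4) (nat_lit 2) (nat_lit 5) (nat_lit 2) (nat_lit 4) (nat_lit 412) (nat_lit 256) (nat_lit 232)))) (XT.nd (nat_lit 78) (nat_lit 0) (nat_lit 0) (XT.lf (nat_lit 0) (nat_lit 8339599851)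 (nat_lit 76) (nat_lit 115757985419) (nat_lit 76) (nat_lit 114178729258) (nat_lit 1) (nat_lit 4) (nat_lit 2) (nat_lit 5) (nat_lit 2) (nat_lit 4) (nat_lit 413) (nat_lit 256) (nat_lit 231)) (XT.nd (nat_lit 78) (nat_lit 0) (nat_lit 0) (XT.lf (nat_lit 0) (nat_lit 13133855778) (nat_lit 76) (nat_lit 119277866698) (nat_lit 76) (nat_lit 117667096921) (nat_lit 1) (nat_lit 4) (nat_lit 2) (nat_lit 5) (nat_lit 2) (nat_lit 4) (nat_lit 414) (nat_lit 256) (nat_lit 230)) (XT.lf (nat_lit 0) (nat_lit 18091597164) (nat_lit 76) (nat_lit 123011286748) (nat_lit 76) (nat_lit 121370504003) (nat_lit 1) (nat_lit 4) (nat_lit 2) (nat_lit 5) (nat_lit 2) (nat_lit 4) (nat_lit 415) (nat_lit 256) (nat_lit 229))))) (XT.nd (nat_lit 234) (nat_lit 0) (nat_lit 0) (XT.nd (nat_lit 78) (nat_lit 0) (nat_lit 0) (XT.lf (nat_lit 0) (nat_lit 23224628154) (nat_lit 76) (nat_lit 126967134665) (nat_lit 76) (nat_lit 125297768140) (nat_lit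 1) (nat_lit 4) (nat_lit 2) (nat_lit 5) (nat_lit 2) (nat_lit 4) (nat_lit 416) (nat_lit 256) (nat_lit 228)) (XT.nd (nat_lit 78) (nat_lit 0) (nat_lit 0) (XT.lf (nat_lit 0) (nat_lit 28545170250) (nat_lit 76) (nat_lit 131154829132) (nat_lit 76) (nat_lit 129458239960) (nat_lit 1) (nat_lit 4) (nat_lit 2) (nat_lit 5) (nat_lit 2) (nat_lit 4) (nat_lit 417) (nat_lit 256) (nat_lit 227)) (XT.lf (nat_lit 0) (nat_lit 34065891410) (nat_lit 76) (nat_lit 135584340852) (nat_lit 76) (nat_lit 133861825350) (nat_lit 1) (nat_lit 4) (nat_lit 2) (nat_lit 5) (nat_lit 2) (nat_lit 4) (nat_lit 418) (nat_lit 256) (nat_lit 226)))) (XT.nd (nat_lit 78) (nat_lit 0) (nat_lit 0) (XT.lf (nat_lit 0) (nat_lit 39799936209) (nat_lit 76) (nat_lit 140266216281) (nat_lit 76) (nat_lit 138519009036) (nat_lit 1) (nat_lit 4) (nat_lit 2) (nat_lit 5) (nat_lit 2) (nat_lit 4) (nat_lit 419) (nat_lit 256) (nat_lit 225)) (XT.nd (nat_lit 78)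 (nat_lit 0) (nat_lit 0) (XT.lf (nat_lit 0) (nat_lit 45760957133) (nat_lit 76) (nat_lit 145211602742) (nat_lit 76) (nat_lit 143440879551) (nat_lit 1) (nat_lit 4) (nat_lit 2) (nat_lit 5) (nat_lit 2) (nat_lit 4) (nat_lit 420) (nat_lit 256) (nat_lit 224)) (XT.lf (nat_lit 0) (nat_lit 51963147091) (nat_lit 76) (nat_lit 150432274964) (nat_lit 76) (nat_lit 148639155634) (nat_lit 1) (nat_lit 4) (nat_lit 2) (nat_lit 5) (nat_lit 2) (nat_lit 4) (nat_lit 421) (nat_lit 256) (nat_lit 223))))))))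
noncomputable def xc14 : XT := (XT.nd (nat_lit 44538) (nat_lit 0) (nat_lit 0) (XT.nd (nat_lit 858) (nat_lit 0) (nat_lit 0) (XT.nd (nat_lit 390) (nat_lit 0) (nat_lit 0) (XT.nd (nat_lit 156) (nat_lit 0) (nat_lit 0) (XT.nd (nat_lit 78) (nat_lit 0) (nat_lit 0) (XT.lf (nat_lit 0) (nat_lit 58421273200) (nat_lit 76) (nat_lit 155940663119) (nat_lit 76) (nat_lit 154126214133) (nat_lit 1) (nat_lit 4) (nat_lit 2) (nat_lit 5) (nat_lit 2) (nat_lit 4) (nat_lit 422) (nat_lit 256) (nat_lit 222)) (XT.lf (nat_lit 0) (nat_lit 65150711951) (nat_lit 76) (nat_lit 161749882417) (nat_lit 76) (nat_lit 159915119473) (nat_lit 1) (nat_lit 4) (nat_lit 2) (nat_lit 5) (nat_lit 2) (nat_lit 4) (nat_lit 423) (nat_lit 256) (nat_lit 221))) (XT.nd (nat_lit 78) (nat_lit 0) (nat_lit 0) (XT.lf (nat_lit 0) (nat_lit 72167485818) (nat_lit 76) (nat_lit 167873764333) (nat_lit 76) (nat_lit 166019654762) (nat_lit 1) (nat_lit 4) (nat_lit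 2) (nat_lit 5) (nat_lit 2) (nat_lit 4) (nat_lit 424) (nat_lit 256) (nat_lit 220)) (XT.nd (nat_lit 78) (nat_lit 0) (nat_lit 0) (XT.lf (nat_lit 0) (nat_lit 79488301406) (nat_lit 76) (nat_lit 174326889537) (nat_lit 76) (nat_lit 172454354608) (nat_lit 1) (nat_lit 4) (nat_lit 2) (nat_lit 5) (nat_lit 2) (nat_lit 4) (nat_lit 425) (nat_lit 256) (nat_lit 219)) (XT.lf (nat_lit 0) (nat_lit 87130589226) (nat_lit 76) (nat_lit 181124622614) (nat_lit 76) (nat_lit 179234539724) (nat_lit 1) (nat_lit 4) (nat_lit 2) (nat_lit 5) (nat_lit 2) (nat_lit 4) (nat_lit 426) (nat_lit 256) (nat_lit 218))))) (XT.nd (nat_lit 234) (nat_lit 0) (nat_lit 0) (XT.nd (nat_lit 78) (nat_lit 0) (nat_lit 0) (XT.lf (nat_lit 0) (nat_lit 95112545204) (nat_lit 76) (nat_lit 188283148643) (nat_lit 76) (nat_lit 186376353408) (nat_lit 1) (nat_lit 4) (nat_lit 2) (nat_lit 5) (nat_lit 2) (nat_lit 4) (nat_lit 427) (nat_lit 256) (nat_lit 217))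 (XT.nd (nat_lit 78) (nat_lit 0) (nat_lit 0) (XT.lf (nat_lit 0) (nat_lit 103453173995) (nat_lit 76) (nat_lit 195819511732) (nat_lit 76) (nat_lit 193896799980) (nat_lit 1) (nat_lit 4) (nat_lit 2) (nat_lit 5) (nat_lit 2) (nat_lit 4) (nat_lit 428) (nat_lit 256) (nat_lit 216)) (XT.lf (nat_lit 0) (nat_lit 112172334241) (nat_lit 76) (nat_lit 203751655604) (nat_lit 76) (nat_lit 201813785264) (nat_lit 1) (nat_lit 4) (nat_lit 2) (nat_lit 5) (nat_lit 2) (nat_lit 4) (nat_lit 429) (nat_lit 256) (nat_lit 215)))) (XT.nd (nat_lit 78) (nat_lit 0) (nat_lit 0) (XT.lf (nat_lit 0) (nat_lit 121290785846) (nat_lit 76) (nat_lit 212098466315) (nat_lit 76) (nat_lit 210146159224) (nat_lit 1) (nat_lit 4) (nat_lit 2) (nat_lit 5) (nat_lit 2) (nat_lit 4) (nat_lit 430) (nat_lit 256) (nat_lit 214)) (XT.nd (nat_lit 78) (nat_lit 0) (nat_lit 0) (XT.lf (nat_lit 0) (nat_lit 130830239409) (nat_lit 76) (nat_lit 220879817225)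 (nat_lit 76) (nat_lit 218913760847) (nat_lit 1) (nat_lit 4) (nat_lit 2) (nat_lit 5) (nat_lit 2) (nat_lit 4) (nat_lit 431) (nat_lit 256) (nat_lit 213)) (XT.lf (nat_lit 0) (nat_lit 140813407914) (nat_lit 76) (nat_lit 230116616311) (nat_lit 76) (nat_lit 228137465375) (nat_lit 1) (nat_lit 4) (nat_lit 2) (nat_lit 5) (nat_lit 2) (nat_lit 4) (nat_lit 432) (nat_lit 256) (nat_lit 212)))))) (XT.nd (nat_lit 43212) (nat_lit 0) (nat_lit 76) (XT.nd (nat_lit 234) (nat_lit 0) (nat_lit 0) (XT.nd (nat_lit 78) (nat_lit 0) (nat_lit 0) (XT.lf (nat_lit 0) (nat_lit 151264060812) (nat_lit 76) (nat_lit 239830855952) (nat_lit 76) (nat_lit 237839234008) (nat_lit 1) (nat_lit 4) (nat_lit 2) (nat_lit 5) (nat_lit 2) (nat_lit 4) (nat_lit 433) (nat_lit 256) (nat_lit 211)) (XT.nd (nat_lit 78) (nat_lit 0) (nat_lit 0) (XT.lf (nat_lit 0) (nat_lit 162207080609) (nat_lit 76) (nat_lit 250045665291) (nat_lit 76) (nat_lit 248042166196)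 (nat_lit 1) (nat_lit 4) (nat_lit 2) (nat_lit 5) (nat_lit 2) (nat_lit 4) (nat_lit 434) (nat_lit 256) (nat_lit 210)) (XT.lf (nat_lit 0) (nat_lit 173668522113) (nat_lit 76) (nat_lit 260785365302) (nat_lit 76) (nat_lit 258770554635) (nat_lit 1) (nat_lit 4) (nat_lit 2) (nat_lit 5) (nat_lit 2) (nat_lit 4) (nat_lit 435) (nat_lit 256) (nat_lit 209)))) (XT.nd (nat_lit 78) (nat_lit 0) (nat_lit 0) (XT.lf (nat_lit 0) (nat_lit 185675674471) (nat_lit 76) (nat_lit 272075526699) (nat_lit 76) (nat_lit 270049943107) (nat_lit 1) (nat_lit 4) (nat_lit 2) (nat_lit 5) (nat_lit 2) (nat_lit 4) (nat_lit 436) (nat_lit 256) (nat_lit 208)) (XT.nd (nat_lit 78) (nat_lit 0) (nat_lit 0) (XT.lf (nat_lit 0) (nat_lit 198257126142) (nat_lit 76) (nat_lit 283943030820) (nat_lit 76) (nat_lit 281907187298) (nat_lit 1) (nat_lit 4) (nat_lit 2) (nat_lit 5) (nat_lit 2) (nat_lit 4) (nat_lit 437) (nat_lit 256) (nat_lit 207)) (XT.lf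 (nat_lit 0) (nat_lit 211442832962) (nat_lit 76) (nat_lit 296416133625) (nat_lit 76) (nat_lit 294370518742) (nat_lit 1) (nat_lit 4) (nat_lit 2) (nat_lit 5) (nat_lit 2) (nat_lit 4) (nat_lit 438) (nat_lit 256) (nat_lit 206))))) (XT.nd (nat_lit 234) (nat_lit 152) (nat_lit 0) (XT.nd (nat_lit 78) (nat_lit 0) (nat_lit 0) (XT.lf (nat_lit 0) (nat_lit 20376590478) (nat_lit 76) (nat_lit 6357313112) (nat_lit 76) (nat_lit 6357313112) (nat_lit 4) (nat_lit 4) (nat_lit 5) (nat_lit 5) (nat_lit 5) (nat_lit 4) (nat_lit 386) (nat_lit 257) (nat_lit 257)) (XT.nd (nat_lit 78) (nat_lit 0) (nat_lit 0) (XT.lf (nat_lit 0) (nat_lit 50580028268) (nat_lit 76) (nat_lit 9414905629) (nat_lit 76) (nat_lit 9297250919) (nat_lit 4) (nat_lit 4) (nat_lit 5) (nat_lit 5) (nat_lit 5) (nat_lit 4) (nat_lit 387) (nat_lit 257) (nat_lit 256)) (XT.lf (nat_lit 0) (nat_lit 60652936286) (nat_lit 76) (nat_lit 6070236250) (nat_lit 76) (nat_lit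 5840529434) (nat_lit 4) (nat_lit 4) (nat_lit 5) (nat_lit 5) (nat_lit 5) (nat_lit 4) (nat_lit 388) (nat_lit 257) (nat_lit 255)))) (XT.nd (nat_lit 78) (nat_lit 152) (nat_lit 0) (XT.lf (nat_lit 0) (nat_lit 70995888126) (nat_lit 76) (nat_lit 2672654587) (nat_lit 76) (nat_lit 2336231480) (nat_lit 4) (nat_lit 4) (nat_lit 5) (nat_lit 5) (nat_lit 5) (nat_lit 4) (nat_lit 389) (nat_lit 257) (nat_lit 254)) (XT.nd (nat_lit 78) (nat_lit 0) (nat_lit 0) (XT.lf (nat_lit 0) (nat_lit 1230031279) (nat_lit 152) (nat_lit 77577513247) (nat_lit 0) (nat_lit 812833499) (nat_lit 2) (nat_lit 5) (nat_lit 4) (nat_lit 4) (nat_lit 2) (nat_lit 4) (nat_lit 390) (nat_lit 257) (nat_lit 253)) (XT.lf (nat_lit 0) (nat_lit 4910967888) (nat_lit 152) (nat_lit 74101564105) (nat_lit 0) (nat_lit 4401584563) (nat_lit 2) (nat_lit 5) (nat_lit 4) (nat_lit 4) (nat_lit 2) (nat_lit 4) (nat_lit 391) (nat_lit 257) (nat_lit 252))))))) (XT.nd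 (nat_lit 936) (nat_lit 76) (nat_lit 0) (XT.nd (nat_lit 468) (nat_lit 0) (nat_lit 0) (XT.nd (nat_lit 234) (nat_lit 0) (nat_lit 0) (XT.nd (nat_lit 78) (nat_lit 0) (nat_lit 0) (XT.lf (nat_lit 0) (nat_lit 8666275962) (nat_lit 152) (nat_lit 70667665438) (nat_lit 0) (nat_lit 8069096881) (nat_lit 2) (nat_lit 5) (nat_lit 4) (nat_lit 4) (nat_lit 2) (nat_lit 4) (nat_lit 392) (nat_lit 257) (nat_lit 251)) (XT.nd (nat_lit 78) (nat_lit 0) (nat_lit 0) (XT.lf (nat_lit 0) (nat_lit 12504896713) (nat_lit 152) (nat_lit 67267641294) (nat_lit 0) (nat_lit 11824102625) (nat_lit 2) (nat_lit 5) (nat_lit 4) (nat_lit 4) (nat_lit 2) (nat_lit 4) (nat_lit 393) (nat_lit 257) (nat_lit 250)) (XT.lf (nat_lit 0) (nat_lit 16435969712) (nat_lit 152) (nat_lit 63893396380) (nat_lit 0) (nat_lit 15675542285) (nat_lit 2) (nat_lit 5) (nat_lit 4) (nat_lit 4) (nat_lit 2) (nat_lit 4) (nat_lit 394) (nat_lit 257) (nat_lit 249)))) (XT.nd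 (nat_lit 78) (nat_lit 0) (nat_lit 0) (XT.lf (nat_lit 0) (nat_lit 20468854657) (nat_lit 152) (nat_lit 60536896779) (nat_lit 0) (nat_lit 19632585955) (nat_lit 2) (nat_lit 5) (nat_lit 4) (nat_lit 4) (nat_lit 2) (nat_lit 4) (nat_lit 395) (nat_lit 257) (nat_lit 248)) (XT.nd (nat_lit 78) (nat_lit 0) (nat_lit 0) (XT.lf (nat_lit 0) (nat_lit 24613153657) (nat_lit 152) (nat_lit 57190150824) (nat_lit 0) (nat_lit 23704655168) (nat_lit 2) (nat_lit 5) (nat_lit 4) (nat_lit 4) (nat_lit 2) (nat_lit 4) (nat_lit 396) (nat_lit 257) (nat_lit 247)) (XT.lf (nat_lit 0) (nat_lit 28878734088) (nat_lit 152) (nat_lit 53845190073) (nat_lit 0) (nat_lit 27901445327) (nat_lit 2) (nat_lit 5) (nat_lit 4) (nat_lit 4) (nat_lit 2) (nat_lit 4) (nat_lit 397) (nat_lit 257) (nat_lit 246))))) (XT.nd (nat_lit 234) (nat_lit 0) (nat_lit 0) (XT.nd (nat_lit 78) (nat_lit 0) (nat_lit 0) (XT.lf (nat_lit 0) (nat_lit 33275752095) (nat_lit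 152) (nat_lit 50494050334) (nat_lit 0) (nat_lit 32232948788) (nat_lit 2) (nat_lit 5) (nat_lit 4) (nat_lit 4) (nat_lit 2) (nat_lit 4) (nat_lit 398) (nat_lit 257) (nat_lit 245)) (XT.nd (nat_lit 78) (nat_lit 0) (nat_lit 0) (XT.lf (nat_lit 0) (nat_lit 37814676768) (nat_lit 152) (nat_lit 47128752703) (nat_lit 0) (nat_lit 36709478657) (nat_lit 2) (nat_lit 5) (nat_lit 4) (nat_lit 4) (nat_lit 2) (nat_lit 4) (nat_lit 399) (nat_lit 257) (nat_lit 244)) (XT.lf (nat_lit 0) (nat_lit 42506315072) (nat_lit 152) (nat_lit 43741284566) (nat_lit 0) (nat_lit 41341693336) (nat_lit 2) (nat_lit 5) (nat_lit 4) (nat_lit 4) (nat_lit 2) (nat_lit 4) (nat_lit 400) (nat_lit 257) (nat_lit 243)))) (XT.nd (nat_lit 78) (nat_lit 0) (nat_lit 0) (XT.lf (nat_lit 0) (nat_lit 47361837573) (nat_lit 152) (nat_lit 40323580523) (nat_lit 0) (nat_lit 46140621910) (nat_lit 2) (nat_lit 5) (nat_lit 4) (nat_lit 4) (nat_lit 2) (nat_lit 4)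 (nat_lit 401) (nat_lit 257) (nat_lit 242)) (XT.nd (nat_lit 78) (nat_lit 0) (nat_lit 0) (XT.lf (nat_lit 0) (nat_lit 52392805039) (nat_lit 152) (nat_lit 36867503183) (nat_lit 0) (nat_lit 51117690397) (nat_lit 2) (nat_lit 5) (nat_lit 4) (nat_lit 4) (nat_lit 2) (nat_lit 4) (nat_lit 402) (nat_lit 257) (nat_lit 241)) (XT.lf (nat_lit 0) (nat_lit 57611195964) (nat_lit 152) (nat_lit 33364823791) (nat_lit 0) (nat_lit 56284748962) (nat_lit 2) (nat_lit 5) (nat_lit 4) (nat_lit 4) (nat_lit 2) (nat_lit 4) (nat_lit 403) (nat_lit 257) (nat_lit 240)))))) (XT.nd (nat_lit 468) (nat_lit 76) (nat_lit 0) (XT.nd (nat_lit 234) (nat_lit 0) (nat_lit 0) (XT.nd (nat_lit 78) (nat_lit 0) (nat_lit 0) (XT.lf (nat_lit 0) (nat_lit 63029435088) (nat_lit 152) (nat_lit 29807202634) (nat_lit 0) (nat_lit 61654100124) (nat_lit 2) (nat_lit 5) (nat_lit 4) (nat_lit 4) (nat_lit 2) (nat_lit 4) (nat_lit 404) (nat_lit 257) (nat_lit 239))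 (XT.nd (nat_lit 78) (nat_lit 0) (nat_lit 0) (XT.lf (nat_lit 0) (nat_lit 68660422982) (nat_lit 152) (nat_lit 26186169186) (nat_lit 0) (nat_lit 67238528053) (nat_lit 2) (nat_lit 5) (nat_lit 4) (nat_lit 4) (nat_lit 2) (nat_lit 4) (nat_lit 405) (nat_lit 257) (nat_lit 238)) (XT.lf (nat_lit 0) (nat_lit 74517566758) (nat_lit 152) (nat_lit 22493101937) (nat_lit 0) (nat_lit 73051329007) (nat_lit 2) (nat_lit 5) (nat_lit 4) (nat_lit 4) (nat_lit 2) (nat_lit 4) (nat_lit 406) (nat_lit 257) (nat_lit 237)))) (XT.nd (nat_lit 78) (nat_lit 0) (nat_lit 0) (XT.lf (nat_lit 0) (nat_lit 80614811997) (nat_lit 152) (nat_lit 18719207872) (nat_lit 0) (nat_lit 79106342986) (nat_lit 2) (nat_lit 5) (nat_lit 4) (nat_lit 4) (nat_lit 2) (nat_lit 4) (nat_lit 407) (nat_lit 257) (nat_lit 236)) (XT.nd (nat_lit 78) (nat_lit 0) (nat_lit 0) (XT.lf (nat_lit 0) (nat_lit 86966675951) (nat_lit 152) (nat_lit 14855501527) (nat_lit 0)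 (nat_lit 85417986692) (nat_lit 2) (nat_lit 5) (nat_lit 4) (nat_lit 4) (nat_lit 2) (nat_lit 4) (nat_lit 408) (nat_lit 257) (nat_lit 235)) (XT.lf (nat_lit 0) (nat_lit 93588282104) (nat_lit 152) (nat_lit 10892783603) (nat_lit 0) (nat_lit 92001287847) (nat_lit 2) (nat_lit 5) (nat_lit 4) (nat_lit 4) (nat_lit 2) (nat_lit 4) (nat_lit 409) (nat_lit 257) (nat_lit 234))))) (XT.nd (nat_lit 234) (nat_lit 0) (nat_lit 0) (XT.nd (nat_lit 78) (nat_lit 76) (nat_lit 0) (XT.lf (nat_lit 0) (nat_lit 100495396185) (nat_lit 152) (nat_lit 6821619055) (nat_lit 0) (nat_lit 98871920977) (nat_lit 2) (nat_lit 5) (nat_lit 4) (nat_lit 4) (nat_lit 2) (nat_lit 4) (nat_lit 410) (nat_lit 257) (nat_lit 233)) (XT.nd (nat_lit 78) (nat_lit 76) (nat_lit 0) (XT.lf (nat_lit 0) (nat_lit 107704463704) (nat_lit 152) (nat_lit 2632314637) (nat_lit 0) (nat_lit 106046244734) (nat_lit 2) (nat_lit 5) (nat_lit 4) (nat_lit 4) (nat_lit 2)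 (nat_lit 4) (nat_lit 411) (nat_lit 257) (nat_lit 232)) (XT.lf (nat_lit 0) (nat_lit 1740821342) (nat_lit 76) (nat_lit 113519006865) (nat_lit 76) (nat_lit 111827698599) (nat_lit 1) (nat_lit 4) (nat_lit 2) (nat_lit 5) (nat_lit 2) (nat_lit 4) (nat_lit 412) (nat_lit 257) (nat_lit 231)))) (XT.nd (nat_lit 78) (nat_lit 0) (nat_lit 0) (XT.lf (nat_lit 0) (nat_lit 6343963435) (nat_lit 76) (nat_lit 116852960259) (nat_lit 76) (nat_lit 115130138376) (nat_lit 1) (nat_lit 4) (nat_lit 2) (nat_lit 5) (nat_lit 2) (nat_lit 4) (nat_lit 413) (nat_lit 257) (nat_lit 230)) (XT.nd (nat_lit 78) (nat_lit 0) (nat_lit 0) (XT.lf (nat_lit 0) (nat_lit 11101035295) (nat_lit 76) (nat_lit 120391156030) (nat_lit 76) (nat_lit 118638321179) (nat_lit 1) (nat_lit 4) (nat_lit 2) (nat_lit 5) (nat_lit 2) (nat_lit 4) (nat_lit 414) (nat_lit 257) (nat_lit 229)) (XT.lf (nat_lit 0) (nat_lit 16023363283) (nat_lit 76) (nat_lit 124142018453)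 (nat_lit 76) (nat_lit 122360599822) (nat_lit 1) (nat_lit 4) (nat_lit 2) (nat_lit 5) (nat_lit 2) (nat_lit 4) (nat_lit 415) (nat_lit 257) (nat_lit 228))))))))
noncomputable def xc15 : XT := (XT.nd (nat_lit 44460) (nat_lit 0) (nat_lit 76) (XT.nd (nat_lit 936) (nat_lit 0) (nat_lit 0) (XT.nd (nat_lit 468) (nat_lit 0) (nat_lit 0) (XT.nd (nat_lit 234) (nat_lit 0) (nat_lit 0) (XT.nd (nat_lit 78) (nat_lit 0) (nat_lit 0) (XT.lf (nat_lit 0) (nat_lit 21122667227) (nat_lit 76) (nat_lit 128114478152) (nat_lit 76) (nat_lit 126305836875) (nat_lit 1) (nat_lit 4) (nat_lit 2) (nat_lit 5) (nat_lit 2) (nat_lit 4) (nat_lit 416) (nat_lit 257) (nat_lit 227)) (XT.nd (nat_lit 78) (nat_lit 0) (nat_lit 0) (XT.lf (nat_lit 0) (nat_lit 26411088328) (nat_lit 76) (nat_lit 132317993365) (nat_lit 76) (nat_lit 130483425758) (nat_lit 1) (nat_lit 4) (nat_lit 2) (nat_lit 5) (nat_lit 2) (nat_lit 4) (nat_lit 417) (nat_lit 257)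 (nat_lit 226)) (XT.lf (nat_lit 0) (nat_lit 31901218064) (nat_lit 76) (nat_lit 136762572463) (nat_lit 76) (nat_lit 134903313112) (nat_lit 1) (nat_lit 4) (nat_lit 2) (nat_lit 5) (nat_lit 2) (nat_lit 4) (nat_lit 418) (nat_lit 257) (nat_lit 225)))) (XT.nd (nat_lit 78) (nat_lit 0) (nat_lit 0) (XT.lf (nat_lit 0) (nat_lit 37606128173) (nat_lit 76) (nat_lit 141458797775) (nat_lit 76) (nat_lit 139576022479) (nat_lit 1) (nat_lit 4) (nat_lit 2) (nat_lit 5) (nat_lit 2) (nat_lit 4) (nat_lit 419) (nat_lit 257) (nat_lit 224)) (XT.nd (nat_lit 78) (nat_lit 0) (nat_lit 0) (XT.lf (nat_lit 0) (nat_lit 43539401774) (nat_lit 76) (nat_lit 146417850791) (nat_lit 76) (nat_lit 144512679356) (nat_lit 1) (nat_lit 4) (nat_lit 2) (nat_lit 5) (nat_lit 2) (nat_lit 4) (nat_lit 420) (nat_lit 257) (nat_lit 223)) (XT.lf (nat_lit 0) (nat_lit 49715165708) (nat_lit 76) (nat_lit 151651538779) (nat_lit 76) (nat_lit 149725037688)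 (nat_lit 1) (nat_lit 4) (nat_lit 2) (nat_lit 5) (nat_lit 2) (nat_lit 4) (nat_lit 421) (nat_lit 257) (nat_lit 222))))) (XT.nd (nat_lit 234) (nat_lit 0) (nat_lit 0) (XT.nd (nat_lit 78) (nat_lit 0) (nat_lit 0) (XT.lf (nat_lit 0) (nat_lit 56148124177) (nat_lit 76) (nat_lit 157172322903) (nat_lit 76) (nat_lit 155225507854) (nat_lit 1) (nat_lit 4) (nat_lit 2) (nat_lit 5) (nat_lit 2) (nat_lit 4) (nat_lit 422) (nat_lit 257) (nat_lit 221)) (XT.nd (nat_lit 78) (nat_lit 0) (nat_lit 0) (XT.lf (nat_lit 0) (nat_lit 62853593747) (nat_lit 76) (nat_lit 162993347885) (nat_lit 76) (nat_lit 161027186209) (nat_lit 1) (nat_lit 4) (nat_lit 2) (nat_lit 5) (nat_lit 2) (nat_lit 4) (nat_lit 423) (nat_lit 257) (nat_lit 220)) (XT.lf (nat_lit 0) (nat_lit 69847539822) (nat_lit 76) (nat_lit 169128473310) (nat_lit 76) (nat_lit 167143886275) (nat_lit 1) (nat_lit 4) (nat_lit 2) (nat_lit 5) (nat_lit 2) (nat_lit 4) (nat_lit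 424) (nat_lit 257) (nat_lit 219)))) (XT.nd (nat_lit 78) (nat_lit 0) (nat_lit 0) (XT.lf (nat_lit 0) (nat_lit 77146614656) (nat_lit 76) (nat_lit 175592306618) (nat_lit 76) (nat_lit 173590171622) (nat_lit 1) (nat_lit 4) (nat_lit 2) (nat_lit 5) (nat_lit 2) (nat_lit 4) (nat_lit 425) (nat_lit 257) (nat_lit 218)) (XT.nd (nat_lit 78) (nat_lit 0) (nat_lit 0) (XT.lf (nat_lit 0) (nat_lit 84768196996) (nat_lit 76) (nat_lit 182400237888) (nat_lit 76) (nat_lit 180381390549) (nat_lit 1) (nat_lit 4) (nat_lit 2) (nat_lit 5) (nat_lit 2) (nat_lit 4) (nat_lit 426) (nat_lit 257) (nat_lit 217)) (XT.lf (nat_lit 0) (nat_lit 92730433469) (nat_lit 76) (nat_lit 189568476482) (nat_lit 76) (nat_lit 187533712625) (nat_lit 1) (nat_lit 4) (nat_lit 2) (nat_lit 5) (nat_lit 2) (nat_lit 4) (nat_lit 427) (nat_lit 257) (nat_lit 216)))))) (XT.nd (nat_lit 468) (nat_lit 0) (nat_lit 0) (XT.nd (nat_lit 234) (nat_lit 0) (nat_lit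 0) (XT.nd (nat_lit 78) (nat_lit 0) (nat_lit 0) (XT.lf (nat_lit 0) (nat_lit 101052281780) (nat_lit 76) (nat_lit 197114089634) (nat_lit 76) (nat_lit 195064167189) (nat_lit 1) (nat_lit 4) (nat_lit 2) (nat_lit 5) (nat_lit 2) (nat_lit 4) (nat_lit 428) (nat_lit 257) (nat_lit 215)) (XT.nd (nat_lit 78) (nat_lit 0) (nat_lit 0) (XT.lf (nat_lit 0) (nat_lit 109753555853) (nat_lit 76) (nat_lit 205055043089) (nat_lit 76) (nat_lit 202990683893) (nat_lit 1) (nat_lit 4) (nat_lit 2) (nat_lit 5) (nat_lit 2) (nat_lit 4) (nat_lit 429) (nat_lit 257) (nat_lit 214)) (XT.lf (nat_lit 0) (nat_lit 118854973008) (nat_lit 76) (nat_lit 213410243880) (nat_lit 76) (nat_lit 211332135397) (nat_lit 1) (nat_lit 4) (nat_lit 2) (nat_lit 5) (nat_lit 2) (nat_lit 4) (nat_lit 430) (nat_lit 257) (nat_lit 213)))) (XT.nd (nat_lit 78) (nat_lit 0) (nat_lit 0) (XT.lf (nat_lit 0) (nat_lit 128378203285) (nat_lit 76) (nat_lit 222199585341)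 (nat_lit 76) (nat_lit 220108382300) (nat_lit 1) (nat_lit 4) (nat_lit 2) (nat_lit 5) (nat_lit 2) (nat_lit 4) (nat_lit 431) (nat_lit 257) (nat_lit 212)) (XT.nd (nat_lit 78) (nat_lit 0) (nat_lit 0) (XT.lf (nat_lit 0) (nat_lit 138345921043) (nat_lit 76) (nat_lit 231443994477) (nat_lit 76) (nat_lit 229340320427) (nat_lit 1) (nat_lit 4) (nat_lit 2) (nat_lit 5) (nat_lit 2) (nat_lit 4) (nat_lit 432) (nat_lit 257) (nat_lit 211)) (XT.lf (nat_lit 0) (nat_lit 148781858943) (nat_lit 76) (nat_lit 241165481784) (nat_lit 76) (nat_lit 239049930584) (nat_lit 1) (nat_lit 4) (nat_lit 2) (nat_lit 5) (nat_lit 2) (nat_lit 4) (nat_lit 433) (nat_lit 257) (nat_lit 210))))) (XT.nd (nat_lit 234) (nat_lit 0) (nat_lit 0) (XT.nd (nat_lit 78) (nat_lit 0) (nat_lit 0) (XT.lf (nat_lit 0) (nat_lit 159710864455) (nat_lit 76) (nat_lit 251387193662) (nat_lit 76) (nat_lit 249260330890) (nat_lit 1) (nat_lit 4) (nat_lit 2) (nat_lit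 5) (nat_lit 2) (nat_lit 4) (nat_lit 434) (nat_lit 257) (nat_lit 209)) (XT.nd (nat_lit 78) (nat_lit 0) (nat_lit 0) (XT.lf (nat_lit 0) (nat_lit 171158959023) (nat_lit 76) (nat_lit 262133467520) (nat_lit 76) (nat_lit 259995831822) (nat_lit 1) (nat_lit 4) (nat_lit 2) (nat_lit 5) (nat_lit 2) (nat_lit 4) (nat_lit 435) (nat_lit 257) (nat_lit 208)) (XT.lf (nat_lit 0) (nat_lit 183153400012) (nat_lit 76) (nat_lit 273429889724) (nat_lit 76) (nat_lit 271281994097) (nat_lit 1) (nat_lit 4) (nat_lit 2) (nat_lit 5) (nat_lit 2) (nat_lit 4) (nat_lit 436) (nat_lit 257) (nat_lit 207)))) (XT.nd (nat_lit 78) (nat_lit 0) (nat_lit 0) (XT.lf (nat_lit 0) (nat_lit 195722745617) (nat_lit 76) (nat_lit 285303356517) (nat_lit 76) (nat_lit 283145689529) (nat_lit 1) (nat_lit 4) (nat_lit 2) (nat_lit 5) (nat_lit 2) (nat_lit 4) (nat_lit 437) (nat_lit 257) (nat_lit 206)) (XT.nd (nat_lit 42666) (nat_lit 0) (nat_lit 228) (XT.lf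 (nat_lit 0) (nat_lit 208896922851) (nat_lit 76) (nat_lit 297782138058) (nat_lit 76) (nat_lit 295615165012) (nat_lit 1) (nat_lit 4) (nat_lit 2) (nat_lit 5) (nat_lit 2) (nat_lit 4) (nat_lit 438) (nat_lit 257) (nat_lit 205)) (XT.lf (nat_lit 0) (nat_lit 10938261629) (nat_lit 76) (nat_lit 9634769742) (nat_lit 76) (nat_lit 9634769742) (nat_lit 4) (nat_lit 4) (nat_lit 5) (nat_lit 5) (nat_lit 5) (nat_lit 4) (nat_lit 384) (nat_lit 258) (nat_lit 258))))))) (XT.nd (nat_lit 936) (nat_lit 0) (nat_lit 0) (XT.nd (nat_lit 468) (nat_lit 0) (nat_lit 0) (XT.nd (nat_lit 234) (nat_lit 152) (nat_lit 0) (XT.nd (nat_lit 78) (nat_lit 0) (nat_lit 0) (XT.lf (nat_lit 0) (nat_lit 31148997098) (nat_lit 76) (nat_lit 16100791957) (nat_lit 76) (nat_lit 15977254511) (nat_lit 4) (nat_lit 4) (nat_lit 5) (nat_lit 5) (nat_lit 5) (nat_lit 4) (nat_lit 385) (nat_lit 258) (nat_lit 257)) (XT.nd (nat_lit 78) (nat_lit 0) (nat_lit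 0) (XT.lf (nat_lit 0) (nat_lit 40627548888) (nat_lit 76) (nat_lit 12899646161) (nat_lit 76) (nat_lit 12658454005) (nat_lit 4) (nat_lit 4) (nat_lit 5) (nat_lit 5) (nat_lit 5) (nat_lit 4) (nat_lit 386) (nat_lit 258) (nat_lit 256)) (XT.lf (nat_lit 0) (nat_lit 50334746609) (nat_lit 76) (nat_lit 9658480320) (nat_lit 76) (nat_lit 9305236058) (nat_lit 4) (nat_lit 4) (nat_lit 5) (nat_lit 5) (nat_lit 5) (nat_lit 4) (nat_lit 387) (nat_lit 258) (nat_lit 255)))) (XT.nd (nat_lit 78) (nat_lit 152) (nat_lit 0) (XT.lf (nat_lit 0) (nat_lit 60293702638) (nat_lit 76) (nat_lit 6369577373) (nat_lit 76) (nat_lit 5909616820) (nat_lit 4) (nat_lit 4) (nat_lit 5) (nat_lit 5) (nat_lit 5) (nat_lit 4) (nat_lit 388) (nat_lit 258) (nat_lit 254)) (XT.nd (nat_lit 78) (nat_lit 152) (nat_lit 0) (XT.lf (nat_lit 0) (nat_lit 70528128774) (nat_lit 76) (nat_lit 3025106598) (nat_lit 76) (nat_lit 2463511482) (nat_lit 4) (nat_lit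 4) (nat_lit 5) (nat_lit 5) (nat_lit 5) (nat_lit 4) (nat_lit 389) (nat_lit 258) (nat_lit 253)) (XT.lf (nat_lit 0) (nat_lit 1037282623) (nat_lit 152) (nat_lit 78188406357) (nat_lit 0) (nat_lit 410244587) (nat_lit 2) (nat_lit 5) (nat_lit 4) (nat_lit 4) (nat_lit 2) (nat_lit 4) (nat_lit 390) (nat_lit 258) (nat_lit 252))))) (XT.nd (nat_lit 234) (nat_lit 0) (nat_lit 0) (XT.nd (nat_lit 78) (nat_lit 0) (nat_lit 0) (XT.lf (nat_lit 0) (nat_lit 4664719053) (nat_lit 152) (nat_lit 74817748889) (nat_lit 0) (nat_lit 3949885261) (nat_lit 2) (nat_lit 5) (nat_lit 4) (nat_lit 4) (nat_lit 2) (nat_lit 4) (nat_lit 391) (nat_lit 258) (nat_lit 251)) (XT.nd (nat_lit 78) (nat_lit 0) (nat_lit 0) (XT.lf (nat_lit 0) (nat_lit 8369074578) (nat_lit 152) (nat_lit 71484128006) (nat_lit 0) (nat_lit 7570625780) (nat_lit 2) (nat_lit 5) (nat_lit 4) (nat_lit 4) (nat_lit 2) (nat_lit 4) (nat_lit 392) (nat_lit 258) (nat_lit 250))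 (XT.lf (nat_lit 0) (nat_lit 12159169090) (nat_lit 152) (nat_lit 68179606514) (nat_lit 0) (nat_lit 11281086952) (nat_lit 2) (nat_lit 5) (nat_lit 4) (nat_lit 4) (nat_lit 2) (nat_lit 4) (nat_lit 393) (nat_lit 258) (nat_lit 249)))) (XT.nd (nat_lit 78) (nat_lit 0) (nat_lit 0) (XT.lf (nat_lit 0) (nat_lit 16044026624) (nat_lit 152) (nat_lit 64896316507) (nat_lit 0) (nat_lit 15090103211) (nat_lit 2) (nat_lit 5) (nat_lit 4) (nat_lit 4) (nat_lit 2) (nat_lit 4) (nat_lit 394) (nat_lit 258) (nat_lit 248)) (XT.nd (nat_lit 78) (nat_lit 0) (nat_lit 0) (XT.lf (nat_lit 0) (nat_lit 20032896841) (nat_lit 152) (nat_lit 61626440625) (nat_lit 0) (nat_lit 19006743642) (nat_lit 2) (nat_lit 5) (nat_lit 4) (nat_lit 4) (nat_lit 2) (nat_lit 4) (nat_lit 395) (nat_lit 258) (nat_lit 247)) (XT.lf (nat_lit 0) (nat_lit 24135277051) (nat_lit 152) (nat_lit 58362193452) (nat_lit 0) (nat_lit 23040333579) (nat_lit 2) (nat_lit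 5) (nat_lit 4) (nat_lit 4) (nat_lit 2) (nat_lit 4) (nat_lit 396) (nat_lit 258) (nat_lit 246)))))) (XT.nd (nat_lit 468) (nat_lit 0) (nat_lit 0) (XT.nd (nat_lit 234) (nat_lit 0) (nat_lit 0) (XT.nd (nat_lit 78) (nat_lit 0) (nat_lit 0) (XT.lf (nat_lit 0) (nat_lit 28360934825) (nat_lit 152) (nat_lit 55095802969) (nat_lit 0) (nat_lit 27200476808) (nat_lit 2) (nat_lit 5) (nat_lit 4) (nat_lit 4) (nat_lit 2) (nat_lit 4) (nat_lit 397) (nat_lit 258) (nat_lit 245)) (XT.nd (nat_lit 78) (nat_lit 0) (nat_lit 0) (XT.lf (nat_lit 0) (nat_lit 32719931255) (nat_lit 152) (nat_lit 51819492057) (nat_lit 0) (nat_lit 31497078433) (nat_lit 2) (nat_lit 5) (nat_lit 4) (nat_lit 4) (nat_lit 2) (nat_lit 4) (nat_lit 398) (nat_lit 258) (nat_lit 244)) (XT.lf (nat_lit 0) (nat_lit 37222644902) (nat_lit 152) (nat_lit 48525459975) (nat_lit 0) (nat_lit 35940368456) (nat_lit 2) (nat_lit 5) (nat_lit 4) (nat_lit 4) (nat_lit 2)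 (nat_lit 4) (nat_lit 399) (nat_lit 258) (nat_lit 243)))) (XT.nd (nat_lit 78) (nat_lit 0) (nat_lit 0) (XT.lf (nat_lit 0) (nat_lit 41879796514) (nat_lit 152) (nat_lit 45205863789) (nat_lit 0) (nat_lit 40540926141) (nat_lit 2) (nat_lit 5) (nat_lit 4) (nat_lit 4) (nat_lit 2) (nat_lit 4) (nat_lit 400) (nat_lit 258) (nat_lit 242)) (XT.nd (nat_lit 78) (nat_lit 0) (nat_lit 0) (XT.lf (nat_lit 0) (nat_lit 46702474547) (nat_lit 152) (nat_lit 41852799700) (nat_lit 0) (nat_lit 45309705195) (nat_lit 2) (nat_lit 5) (nat_lit 4) (nat_lit 4) (nat_lit 2) (nat_lit 4) (nat_lit 401) (nat_lit 258) (nat_lit 241)) (XT.lf (nat_lit 0) (nat_lit 51702161567) (nat_lit 152) (nat_lit 38458284221) (nat_lit 0) (nat_lit 50258059854) (nat_lit 2) (nat_lit 5) (nat_lit 4) (nat_lit 4) (nat_lit 2) (nat_lit 4) (nat_lit 402) (nat_lit 258) (nat_lit 240))))) (XT.nd (nat_lit 234) (nat_lit 0) (nat_lit 0) (XT.nd (nat_lit 78) (nat_lit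 0) (nat_lit 0) (XT.lf (nat_lit 0) (nat_lit 56890761591) (nat_lit 152) (nat_lit 35014235173) (nat_lit 0) (nat_lit 55397771916) (nat_lit 2) (nat_lit 5) (nat_lit 4) (nat_lit 4) (nat_lit 2) (nat_lit 4) (nat_lit 403) (nat_lit 258) (nat_lit 239)) (XT.nd (nat_lit 78) (nat_lit 0) (nat_lit 0) (XT.lf (nat_lit 0) (nat_lit 62280628429) (nat_lit 152) (nat_lit 31512452439) (nat_lit 0) (nat_lit 60741078790) (nat_lit 2) (nat_lit 5) (nat_lit 4) (nat_lit 4) (nat_lit 2) (nat_lit 4) (nat_lit 404) (nat_lit 258) (nat_lit 238)) (XT.lf (nat_lit 0) (nat_lit 67884595097) (nat_lit 152) (nat_lit 27944598440) (nat_lit 0) (nat_lit 66300702635) (nat_lit 2) (nat_lit 5) (nat_lit 4) (nat_lit 4) (nat_lit 2) (nat_lit 4) (nat_lit 405) (nat_lit 258) (nat_lit 237)))) (XT.nd (nat_lit 78) (nat_lit 0) (nat_lit 0) (XT.lf (nat_lit 0) (nat_lit 73716004373) (nat_lit 152) (nat_lit 24302178287) (nat_lit 0) (nat_lit 72089880651) (nat_lit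 2) (nat_lit 5) (nat_lit 4) (nat_lit 4) (nat_lit 2) (nat_lit 4) (nat_lit 406) (nat_lit 258) (nat_lit 236)) (XT.nd (nat_lit 78) (nat_lit 0) (nat_lit 0) (XT.lf (nat_lit 0) (nat_lit 79788740565) (nat_lit 152) (nat_lit 20576519551) (nat_lit 0) (nat_lit 78122396595) (nat_lit 2) (nat_lit 5) (nat_lit 4) (nat_lit 4) (nat_lit 2) (nat_lit 4) (nat_lit 407) (nat_lit 258) (nat_lit 235)) (XT.lf (nat_lit 0) (nat_lit 86117262568) (nat_lit 152) (nat_lit 16758751614) (nat_lit 0) (nat_lit 84412613600) (nat_lit 2) (nat_lit 5) (nat_lit 4) (nat_lit 4) (nat_lit 2) (nat_lit 4) (nat_lit 408) (nat_lit 258) (nat_lit 234))))))))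
noncomputable def xc16 : XT := (XT.nd (nat_lit 1794) (nat_lit 0) (nat_lit 0) (XT.nd (nat_lit 858) (nat_lit 0) (nat_lit 0) (XT.nd (nat_lit 390) (nat_lit 0) (nat_lit 0) (XT.nd (nat_lit 156) (nat_lit 76) (nat_lit 0) (XT.nd (nat_lit 78) (nat_lit 0) (nat_lit 0) (XT.lf (nat_lit 0) (nat_lit 92716638292) (nat_lit 152) (nat_lit 12839784555) (nat_lit 0) (nat_lit 90975508374) (nat_lit 2) (nat_lit 5) (nat_lit 4) (nat_lit 4) (nat_lit 2) (nat_lit 4) (nat_lit 409) (nat_lit 258) (nat_lit 233)) (XT.lf (nat_lit 0) (nat_lit 99602580536) (nat_lit 152) (nat_lit 8810287498) (nat_lit 0) (nat_lit 97826706856) (nat_lit 2) (nat_lit 5) (nat_lit 4) (nat_lit 4) (nat_lit 2) (nat_lit 4) (nat_lit 410) (nat_lit 258) (nat_lit 232))) (XT.nd (nat_lit 78) (nat_lit 76) (nat_lit 0) (XT.lf (nat_lit 0) (nat_lit 106791484400) (nat_lit 152) (nat_lit 4660666404) (nat_lit 0) (nat_lit 104982521423) (nat_lit 2) (nat_lit 5) (nat_lit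 4) (nat_lit 4) (nat_lit 2) (nat_lit 4) (nat_lit 411) (nat_lit 258) (nat_lit 231)) (XT.nd (nat_lit 78) (nat_lit 76) (nat_lit 0) (XT.lf (nat_lit 0) (nat_lit 114300466324) (nat_lit 152) (nat_lit 381041222) (nat_lit 0) (nat_lit 112459989730) (nat_lit 2) (nat_lit 5) (nat_lit 4) (nat_lit 4) (nat_lit 2) (nat_lit 4) (nat_lit 412) (nat_lit 258) (nat_lit 230)) (XT.lf (nat_lit 0) (nat_lit 4172317860) (nat_lit 76) (nat_lit 118040228549) (nat_lit 76) (nat_lit 116169738987) (nat_lit 1) (nat_lit 4) (nat_lit 2) (nat_lit 5) (nat_lit 2) (nat_lit 4) (nat_lit 413) (nat_lit 258) (nat_lit 229))))) (XT.nd (nat_lit 234) (nat_lit 0) (nat_lit 0) (XT.nd (nat_lit 78) (nat_lit 0) (nat_lit 0) (XT.lf (nat_lit 0) (nat_lit 8893976322) (nat_lit 76) (nat_lit 121595866692) (nat_lit 76) (nat_lit 119696793351) (nat_lit 1) (nat_lit 4) (nat_lit 2) (nat_lit 5) (nat_lit 2) (nat_lit 4) (nat_lit 414) (nat_lit 258) (nat_lit 228))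 (XT.nd (nat_lit 78) (nat_lit 0) (nat_lit 0) (XT.lf (nat_lit 0) (nat_lit 13782577265) (nat_lit 76) (nat_lit 125363340897) (nat_lit 76) (nat_lit 123437044910) (nat_lit 1) (nat_lit 4) (nat_lit 2) (nat_lit 5) (nat_lit 2) (nat_lit 4) (nat_lit 415) (nat_lit 258) (nat_lit 227)) (XT.lf (nat_lit 0) (nat_lit 18849760213) (nat_lit 76) (nat_lit 129351621343) (nat_lit 76) (nat_lit 127399399025) (nat_lit 1) (nat_lit 4) (nat_lit 2) (nat_lit 5) (nat_lit 2) (nat_lit 4) (nat_lit 416) (nat_lit 258) (nat_lit 226)))) (XT.nd (nat_lit 78) (nat_lit 0) (nat_lit 0) (XT.lf (nat_lit 0) (nat_lit 24107589890) (nat_lit 76) (nat_lit 133570203933) (nat_lit 76) (nat_lit 131593289872) (nat_lit 1) (nat_lit 4) (nat_lit 2) (nat_lit 5) (nat_lit 2) (nat_lit 4) (nat_lit 417) (nat_lit 258) (nat_lit 225)) (XT.nd (nat_lit 78) (nat_lit 0) (nat_lit 0) (XT.lf (nat_lit 0) (nat_lit 29568584936) (nat_lit 76) (nat_lit 138029132914) (nat_lit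 76) (nat_lit 136028702907) (nat_lit 1) (nat_lit 4) (nat_lit 2) (nat_lit 5) (nat_lit 2) (nat_lit 4) (nat_lit 418) (nat_lit 258) (nat_lit 224)) (XT.lf (nat_lit 0) (nat_lit 35245747721) (nat_lit 76) (nat_lit 142739024781) (nat_lit 76) (nat_lit 140716198635) (nat_lit 1) (nat_lit 4) (nat_lit 2) (nat_lit 5) (nat_lit 2) (nat_lit 4) (nat_lit 419) (nat_lit 258) (nat_lit 223)))))) (XT.nd (nat_lit 468) (nat_lit 0) (nat_lit 0) (XT.nd (nat_lit 234) (nat_lit 0) (nat_lit 0) (XT.nd (nat_lit 78) (nat_lit 0) (nat_lit 0) (XT.lf (nat_lit 0) (nat_lit 41152595300) (nat_lit 76) (nat_lit 147711093564) (nat_lit 76) (nat_lit 145666937762) (nat_lit 1) (nat_lit 4) (nat_lit 2) (nat_lit 5) (nat_lit 2) (nat_lit 4) (nat_lit 420) (nat_lit 258) (nat_lit 222)) (XT.nd (nat_lit 78) (nat_lit 0) (nat_lit 0) (XT.lf (nat_lit 0) (nat_lit 47303191594) (nat_lit 76) (nat_lit 152957177521) (nat_lit 76) (nat_lit 150892707761) (nat_lit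 1) (nat_lit 4) (nat_lit 2) (nat_lit 5) (nat_lit 2) (nat_lit 4) (nat_lit 421) (nat_lit 258) (nat_lit 221)) (XT.lf (nat_lit 0) (nat_lit 53712180881) (nat_lit 76) (nat_lit 158489767328) (nat_lit 76) (nat_lit 156405950942) (nat_lit 1) (nat_lit 4) (nat_lit 2) (nat_lit 5) (nat_lit 2) (nat_lit 4) (nat_lit 422) (nat_lit 258) (nat_lit 220)))) (XT.nd (nat_lit 78) (nat_lit 0) (nat_lit 0) (XT.lf (nat_lit 0) (nat_lit 60394822659) (nat_lit 76) (nat_lit 164322035820) (nat_lit 76) (nat_lit 162219794074) (nat_lit 1) (nat_lit 4) (nat_lit 2) (nat_lit 5) (nat_lit 2) (nat_lit 4) (nat_lit 423) (nat_lit 258) (nat_lit 219)) (XT.nd (nat_lit 78) (nat_lit 0) (nat_lit 0) (XT.lf (nat_lit 0) (nat_lit 67367027981) (nat_lit 76) (nat_lit 170467869348) (nat_lit 76) (nat_lit 168348079641) (nat_lit 1) (nat_lit 4) (nat_lit 2) (nat_lit 5) (nat_lit 2) (nat_lit 4) (nat_lit 424) (nat_lit 258) (nat_lit 218)) (XT.lf (nat_lit 0)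 (nat_lit 74645397334) (nat_lit 76) (nat_lit 176941900849) (nat_lit 76) (nat_lit 174805398799) (nat_lit 1) (nat_lit 4) (nat_lit 2) (nat_lit 5) (nat_lit 2) (nat_lit 4) (nat_lit 425) (nat_lit 258) (nat_lit 217))))) (XT.nd (nat_lit 234) (nat_lit 0) (nat_lit 0) (XT.nd (nat_lit 78) (nat_lit 0) (nat_lit 0) (XT.lf (nat_lit 0) (nat_lit 82247260170) (nat_lit 76) (nat_lit 183759544686) (nat_lit 76) (nat_lit 181607126118) (nat_lit 1) (nat_lit 4) (nat_lit 2) (nat_lit 5) (nat_lit 2) (nat_lit 4) (nat_lit 426) (nat_lit 258) (nat_lit 216)) (XT.nd (nat_lit 78) (nat_lit 0) (nat_lit 0) (XT.lf (nat_lit 0) (nat_lit 90190716162) (nat_lit 76) (nat_lit 190937033342) (nat_lit 76) (nat_lit 188769456186) (nat_lit 1) (nat_lit 4) (nat_lit 2) (nat_lit 5) (nat_lit 2) (nat_lit 4) (nat_lit 427) (nat_lit 258) (nat_lit 215)) (XT.lf (nat_lit 0) (nat_lit 98494678300) (nat_lit 76) (nat_lit 198491456078) (nat_lit 76) (nat_lit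 196309442171) (nat_lit 1) (nat_lit 4) (nat_lit 2) (nat_lit 5) (nat_lit 2) (nat_lit 4) (nat_lit 428) (nat_lit 258) (nat_lit 214)))) (XT.nd (nat_lit 78) (nat_lit 0) (nat_lit 0) (XT.lf (nat_lit 0) (nat_lit 107178917924) (nat_lit 76) (nat_lit 206440799612) (nat_lit 76) (nat_lit 204245036419) (nat_lit 1) (nat_lit 4) (nat_lit 2) (nat_lit 5) (nat_lit 2) (nat_lit 4) (nat_lit 429) (nat_lit 258) (nat_lit 213)) (XT.nd (nat_lit 78) (nat_lit 0) (nat_lit 0) (XT.lf (nat_lit 0) (nat_lit 116264111793) (nat_lit 76) (nat_lit 214803990955) (nat_lit 76) (nat_lit 212595133203) (nat_lit 1) (nat_lit 4) (nat_lit 2) (nat_lit 5) (nat_lit 2) (nat_lit 4) (nat_lit 430) (nat_lit 258) (nat_lit 212)) (XT.lf (nat_lit 0) (nat_lit 125771891323) (nat_lit 76) (nat_lit 223600942465) (nat_lit 76) (nat_lit 221379613705) (nat_lit 1) (nat_lit 4) (nat_lit 2) (nat_lit 5) (nat_lit 2) (nat_lit 4) (nat_lit 431) (nat_lit 258) (nat_lit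 211))))))) (XT.nd (nat_lit 43368) (nat_lit 0) (nat_lit 76) (XT.nd (nat_lit 468) (nat_lit 0) (nat_lit 0) (XT.nd (nat_lit 234) (nat_lit 0) (nat_lit 0) (XT.nd (nat_lit 78) (nat_lit 0) (nat_lit 0) (XT.lf (nat_lit 0) (nat_lit 135724894082) (nat_lit 76) (nat_lit 232852599267) (nat_lit 76) (nat_lit 230619393356) (nat_lit 1) (nat_lit 4) (nat_lit 2) (nat_lit 5) (nat_lit 2) (nat_lit 4) (nat_lit 432) (nat_lit 258) (nat_lit 210)) (XT.nd (nat_lit 78) (nat_lit 0) (nat_lit 0) (XT.lf (nat_lit 0) (nat_lit 146146817698) (nat_lit 76) (nat_lit 242580989113) (nat_lit 76) (nat_lit 240336471631) (nat_lit 1) (nat_lit 4) (nat_lit 2) (nat_lit 5) (nat_lit 2) (nat_lit 4) (nat_lit 433) (nat_lit 258) (nat_lit 209)) (XT.lf (nat_lit 0) (nat_lit 157062476273) (nat_lit 76) (nat_lit 252809274838) (nat_lit 76) (nat_lit 250553984430) (nat_lit 1) (nat_lit 4) (nat_lit 2) (nat_lit 5) (nat_lit 2) (nat_lit 4) (nat_lit 434) (nat_lit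 258) (nat_lit 208)))) (XT.nd (nat_lit 78) (nat_lit 0) (nat_lit 0) (XT.lf (nat_lit 0) (nat_lit 168497859472) (nat_lit 76) (nat_lit 263561809502) (nat_lit 76) (nat_lit 261296259164) (nat_lit 1) (nat_lit 4) (nat_lit 2) (nat_lit 5) (nat_lit 2) (nat_lit 4) (nat_lit 435) (nat_lit 258) (nat_lit 207)) (XT.nd (nat_lit 78) (nat_lit 0) (nat_lit 0) (XT.lf (nat_lit 0) (nat_lit 180480194396) (nat_lit 76) (nat_lit 274864194379) (nat_lit 76) (nat_lit 272588872680) (nat_lit 1) (nat_lit 4) (nat_lit 2) (nat_lit 5) (nat_lit 2) (nat_lit 4) (nat_lit 436) (nat_lit 258) (nat_lit 206)) (XT.lf (nat_lit 0) (nat_lit 193038010415) (nat_lit 76) (nat_lit 286743339908) (nat_lit 76) (nat_lit 284458712150) (nat_lit 1) (nat_lit 4) (nat_lit 2) (nat_lit 5) (nat_lit 2) (nat_lit 4) (nat_lit 437) (nat_lit 258) (nat_lit 205))))) (XT.nd (nat_lit 42666) (nat_lit 0) (nat_lit 228) (XT.nd (nat_lit 42510) (nat_lit 0) (nat_lit 228) (XT.lf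 (nat_lit 0) (nat_lit 206201207091) (nat_lit 76) (nat_lit 299227529769) (nat_lit 76) (nat_lit 296934039099) (nat_lit 1) (nat_lit 4) (nat_lit 2) (nat_lit 5) (nat_lit 2) (nat_lit 4) (nat_lit 438) (nat_lit 258) (nat_lit 204)) (XT.nd (nat_lit 78) (nat_lit 0) (nat_lit 0) (XT.lf (nat_lit 0) (nat_lit 2000223805) (nat_lit 76) (nat_lit 12800944487) (nat_lit 76) (nat_lit 12800944487) (nat_lit 4) (nat_lit 4) (nat_lit 5) (nat_lit 5) (nat_lit 5) (nat_lit 4) (nat_lit 382) (nat_lit 259) (nat_lit 259)) (XT.lf (nat_lit 0) (nat_lit 12788050051) (nat_lit 76) (nat_lit 22543147697) (nat_lit 76) (nat_lit 22413433379) (nat_lit 4) (nat_lit 4) (nat_lit 5) (nat_lit 5) (nat_lit 5) (nat_lit 4) (nat_lit 383) (nat_lit 259) (nat_lit 258)))) (XT.nd (nat_lit 78) (nat_lit 0) (nat_lit 0) (XT.lf (nat_lit 0) (nat_lit 21744609586) (nat_lit 76) (nat_lit 19463810419) (nat_lit 76) (nat_lit 19210558654) (nat_lit 4) (nat_lit 4) (nat_lit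 5) (nat_lit 5) (nat_lit 5) (nat_lit 4) (nat_lit 384) (nat_lit 259) (nat_lit 257)) (XT.nd (nat_lit 78) (nat_lit 0) (nat_lit 0) (XT.lf (nat_lit 0) (nat_lit 30891451357) (nat_lit 76) (nat_lit 16356545383) (nat_lit 76) (nat_lit 15985638908) (nat_lit 4) (nat_lit 4) (nat_lit 5) (nat_lit 5) (nat_lit 5) (nat_lit 4) (nat_lit 385) (nat_lit 259) (nat_lit 256)) (XT.lf (nat_lit 0) (nat_lit 40250353558) (nat_lit 76) (nat_lit 13213954341) (nat_lit 76) (nat_lit 12730995760) (nat_lit 4) (nat_lit 4) (nat_lit 5) (nat_lit 5) (nat_lit 5) (nat_lit 4) (nat_lit 386) (nat_lit 259) (nat_lit 255)))))) (XT.nd (nat_lit 468) (nat_lit 0) (nat_lit 0) (XT.nd (nat_lit 234) (nat_lit 152) (nat_lit 0) (XT.nd (nat_lit 78) (nat_lit 0) (nat_lit 0) (XT.lf (nat_lit 0) (nat_lit 49843599289) (nat_lit 76) (nat_lit 10028554932) (nat_lit 76) (nat_lit 9438880060) (nat_lit 4) (nat_lit 4) (nat_lit 5) (nat_lit 5) (nat_lit 5) (nat_lit 4)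 (nat_lit 387) (nat_lit 259) (nat_lit 254)) (XT.nd (nat_lit 78) (nat_lit 0) (nat_lit 0) (XT.lf (nat_lit 0) (nat_lit 59694029614) (nat_lit 76) (nat_lit 6792762872) (nat_lit 76) (nat_lit 6101453438) (nat_lit 4) (nat_lit 4) (nat_lit 5) (nat_lit 5) (nat_lit 5) (nat_lit 4) (nat_lit 388) (nat_lit 259) (nat_lit 253)) (XT.lf (nat_lit 0) (nat_lit 69825097935) (nat_lit 76) (nat_lit 3498873894) (nat_lit 76) (nat_lit 2710769639) (nat_lit 4) (nat_lit 4) (nat_lit 5) (nat_lit 5) (nat_lit 5) (nat_lit 4) (nat_lit 389) (nat_lit 259) (nat_lit 252)))) (XT.nd (nat_lit 78) (nat_lit 0) (nat_lit 0) (XT.lf (nat_lit 0) (nat_lit 610154849) (nat_lit 76) (nat_lit 116891321) (nat_lit 152) (nat_lit 78930625733) (nat_lit 2) (nat_lit 5) (nat_lit 3) (nat_lit 5) (nat_lit 4) (nat_lit 4) (nat_lit 390) (nat_lit 259) (nat_lit 251)) (XT.nd (nat_lit 78) (nat_lit 0) (nat_lit 0) (XT.lf (nat_lit 0) (nat_lit 4301705049) (nat_lit 152)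 (nat_lit 75775312370) (nat_lit 0) (nat_lit 3379718805) (nat_lit 2) (nat_lit 5) (nat_lit 4) (nat_lit 4) (nat_lit 2) (nat_lit 4) (nat_lit 391) (nat_lit 259) (nat_lit 250)) (XT.lf (nat_lit 0) (nat_lit 7957534335) (nat_lit 152) (nat_lit 72537194138) (nat_lit 0) (nat_lit 6955914752) (nat_lit 2) (nat_lit 5) (nat_lit 4) (nat_lit 4) (nat_lit 2) (nat_lit 4) (nat_lit 392) (nat_lit 259) (nat_lit 249))))) (XT.nd (nat_lit 234) (nat_lit 0) (nat_lit 0) (XT.nd (nat_lit 78) (nat_lit 0) (nat_lit 0) (XT.lf (nat_lit 0) (nat_lit 11701413382) (nat_lit 152) (nat_lit 69323627553) (nat_lit 0) (nat_lit 10623952523) (nat_lit 2) (nat_lit 5) (nat_lit 4) (nat_lit 4) (nat_lit 2) (nat_lit 4) (nat_lit 393) (nat_lit 259) (nat_lit 248)) (XT.nd (nat_lit 78) (nat_lit 0) (nat_lit 0) (XT.lf (nat_lit 0) (nat_lit 15542256188) (nat_lit 152) (nat_lit 66126961266) (nat_lit 0) (nat_lit 14392565542) (nat_lit 2) (nat_lit 5) (nat_lit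 4) (nat_lit 4) (nat_lit 2) (nat_lit 4) (nat_lit 394) (nat_lit 259) (nat_lit 247)) (XT.lf (nat_lit 0) (nat_lit 19489207615) (nat_lit 152) (nat_lit 62939584166) (nat_lit 0) (nat_lit 18270726697) (nat_lit 2) (nat_lit 5) (nat_lit 4) (nat_lit 4) (nat_lit 2) (nat_lit 4) (nat_lit 395) (nat_lit 259) (nat_lit 246)))) (XT.nd (nat_lit 78) (nat_lit 0) (nat_lit 0) (XT.lf (nat_lit 0) (nat_lit 23551665169) (nat_lit 152) (nat_lit 59753907261) (nat_lit 0) (nat_lit 22267669706) (nat_lit 2) (nat_lit 5) (nat_lit 4) (nat_lit 4) (nat_lit 2) (nat_lit 4) (nat_lit 396) (nat_lit 259) (nat_lit 245)) (XT.nd (nat_lit 78) (nat_lit 0) (nat_lit 0) (XT.lf (nat_lit 0) (nat_lit 27739301366) (nat_lit 152) (nat_lit 56562345605) (nat_lit 0) (nat_lit 26392911098) (nat_lit 2) (nat_lit 5) (nat_lit 4) (nat_lit 4) (nat_lit 2) (nat_lit 4) (nat_lit 397) (nat_lit 259) (nat_lit 244)) (XT.lf (nat_lit 0) (nat_lit 32062086769) (nat_lit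 152) (nat_lit 53357300242) (nat_lit 0) (nat_lit 30656272877) (nat_lit 2) (nat_lit 5) (nat_lit 4) (nat_lit 4) (nat_lit 2) (nat_lit 4) (nat_lit 398) (nat_lit 259) (nat_lit 243))))))))
noncomputable def xc17 : XT := (XT.nd (nat_lit 1794) (nat_lit 0) (nat_lit 0) (XT.nd (nat_lit 858) (nat_lit 76) (nat_lit 0) (XT.nd (nat_lit 390) (nat_lit 0) (nat_lit 0) (XT.nd (nat_lit 156) (nat_lit 0) (nat_lit 0) (XT.nd (nat_lit 78) (nat_lit 0) (nat_lit 0) (XT.lf (nat_lit 0) (nat_lit 36530313725) (nat_lit 152) (nat_lit 50131140111) (nat_lit 0) (nat_lit 35067905906) (nat_lit 2) (nat_lit 5) (nat_lit 4) (nat_lit 4) (nat_lit 2) (nat_lit 4) (nat_lit 399) (nat_lit 259) (nat_lit 242)) (XT.lf (nat_lit 0) (nat_lit 41154620869) (nat_lit 152) (nat_lit 46876183880) (nat_lit 0) (nat_lit 39638314071) (nat_lit 2) (nat_lit 5) (nat_lit 4) (nat_lit 4) (nat_lit 2) (nat_lit 4) (nat_lit 400) (nat_lit 259) (nat_lit 241))) (XT.nd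 (nat_lit 78) (nat_lit 0) (nat_lit 0) (XT.lf (nat_lit 0) (nat_lit 45946018455) (nat_lit 152) (nat_lit 43584681651) (nat_lit 0) (nat_lit 44378379297) (nat_lit 2) (nat_lit 5) (nat_lit 4) (nat_lit 4) (nat_lit 2) (nat_lit 4) (nat_lit 401) (nat_lit 259) (nat_lit 240)) (XT.nd (nat_lit 78) (nat_lit 0) (nat_lit 0) (XT.lf (nat_lit 0) (nat_lit 50915914575) (nat_lit 152) (nat_lit 40248796516) (nat_lit 0) (nat_lit 49299387454) (nat_lit 2) (nat_lit 5) (nat_lit 4) (nat_lit 4) (nat_lit 2) (nat_lit 4) (nat_lit 402) (nat_lit 259) (nat_lit 239)) (XT.lf (nat_lit 0) (nat_lit 56076142312) (nat_lit 152) (nat_lit 36860585891) (nat_lit 0) (nat_lit 54413055227) (nat_lit 2) (nat_lit 5) (nat_lit 4) (nat_lit 4) (nat_lit 2) (nat_lit 4) (nat_lit 403) (nat_lit 259) (nat_lit 238))))) (XT.nd (nat_lit 234) (nat_lit 0) (nat_lit 0) (XT.nd (nat_lit 78) (nat_lit 0) (nat_lit 0) (XT.lf (nat_lit 0) (nat_lit 61438987925) (nat_lit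 152) (nat_lit 33411982606) (nat_lit 0) (nat_lit 59731558017) (nat_lit 2) (nat_lit 5) (nat_lit 4) (nat_lit 4) (nat_lit 2) (nat_lit 4) (nat_lit 404) (nat_lit 259) (nat_lit 237)) (XT.nd (nat_lit 78) (nat_lit 0) (nat_lit 0) (XT.lf (nat_lit 0) (nat_lit 67017220093) (nat_lit 152) (nat_lit 29894775703) (nat_lit 0) (nat_lit 65267558925) (nat_lit 2) (nat_lit 5) (nat_lit 4) (nat_lit 4) (nat_lit 2) (nat_lit 4) (nat_lit 405) (nat_lit 259) (nat_lit 236)) (XT.lf (nat_lit 0) (nat_lit 72824120321) (nat_lit 152) (nat_lit 26300590879) (nat_lit 0) (nat_lit 71034238905) (nat_lit 2) (nat_lit 5) (nat_lit 4) (nat_lit 4) (nat_lit 2) (nat_lit 4) (nat_lit 406) (nat_lit 259) (nat_lit 235)))) (XT.nd (nat_lit 78) (nat_lit 0) (nat_lit 0) (XT.lf (nat_lit 0) (nat_lit 78873514562) (nat_lit 152) (nat_lit 22620870551) (nat_lit 0) (nat_lit 77045328148) (nat_lit 2) (nat_lit 5) (nat_lit 4) (nat_lit 4) (nat_lit 2) (nat_lit 4)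 (nat_lit 407) (nat_lit 259) (nat_lit 234)) (XT.nd (nat_lit 78) (nat_lit 0) (nat_lit 0) (XT.lf (nat_lit 0) (nat_lit 85179806136) (nat_lit 152) (nat_lit 18846853479) (nat_lit 0) (nat_lit 83315138772) (nat_lit 2) (nat_lit 5) (nat_lit 4) (nat_lit 4) (nat_lit 2) (nat_lit 4) (nat_lit 408) (nat_lit 259) (nat_lit 233)) (XT.lf (nat_lit 0) (nat_lit 91758010023) (nat_lit 152) (nat_lit 14969553911) (nat_lit 0) (nat_lit 89858598897) (nat_lit 2) (nat_lit 5) (nat_lit 4) (nat_lit 4) (nat_lit 2) (nat_lit 4) (nat_lit 409) (nat_lit 259) (nat_lit 232)))))) (XT.nd (nat_lit 468) (nat_lit 0) (nat_lit 0) (XT.nd (nat_lit 234) (nat_lit 76) (nat_lit 0) (XT.nd (nat_lit 78) (nat_lit 0) (nat_lit 0) (XT.lf (nat_lit 0) (nat_lit 98623788613) (nat_lit 152) (nat_lit 10979740179) (nat_lit 0) (nat_lit 96691288189) (nat_lit 2) (nat_lit 5) (nat_lit 4) (nat_lit 4) (nat_lit 2) (nat_lit 4) (nat_lit 410) (nat_lit 259) (nat_lit 231))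 (XT.nd (nat_lit 78) (nat_lit 0) (nat_lit 0) (XT.lf (nat_lit 0) (nat_lit 105793488997) (nat_lit 152) (nat_lit 6867912726) (nat_lit 0) (nat_lit 103829474957) (nat_lit 2) (nat_lit 5) (nat_lit 4) (nat_lit 4) (nat_lit 2) (nat_lit 4) (nat_lit 411) (nat_lit 259) (nat_lit 230)) (XT.lf (nat_lit 0) (nat_lit 113284181892) (nat_lit 152) (nat_lit 2624281489) (nat_lit 0) (nat_lit 111290154884) (nat_lit 2) (nat_lit 5) (nat_lit 4) (nat_lit 4) (nat_lit 2) (nat_lit 4) (nat_lit 412) (nat_lit 259) (nat_lit 229)))) (XT.nd (nat_lit 78) (nat_lit 0) (nat_lit 0) (XT.lf (nat_lit 0) (nat_lit 1819492541) (nat_lit 76) (nat_lit 119322617116) (nat_lit 76) (nat_lit 117300006329) (nat_lit 1) (nat_lit 4) (nat_lit 2) (nat_lit 5) (nat_lit 2) (nat_lit 4) (nat_lit 413) (nat_lit 259) (nat_lit 228)) (XT.nd (nat_lit 78) (nat_lit 0) (nat_lit 0) (XT.lf (nat_lit 0) (nat_lit 6507423958) (nat_lit 76) (nat_lit 122894867042) (nat_lit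 76) (nat_lit 120845033608) (nat_lit 1) (nat_lit 4) (nat_lit 2) (nat_lit 5) (nat_lit 2) (nat_lit 4) (nat_lit 414) (nat_lit 259) (nat_lit 227)) (XT.lf (nat_lit 0) (nat_lit 11363903905) (nat_lit 76) (nat_lit 126678161994) (nat_lit 76) (nat_lit 124602402230) (nat_lit 1) (nat_lit 4) (nat_lit 2) (nat_lit 5) (nat_lit 2) (nat_lit 4) (nat_lit 415) (nat_lit 259) (nat_lit 226))))) (XT.nd (nat_lit 234) (nat_lit 0) (nat_lit 0) (XT.nd (nat_lit 78) (nat_lit 0) (nat_lit 0) (XT.lf (nat_lit 0) (nat_lit 16400495429) (nat_lit 76) (nat_lit 130681509816) (nat_lit 76) (nat_lit 128581058309) (nat_lit 1) (nat_lit 4) (nat_lit 2) (nat_lit 5) (nat_lit 2) (nat_lit 4) (nat_lit 416) (nat_lit 259) (nat_lit 225)) (XT.nd (nat_lit 78) (nat_lit 0) (nat_lit 0) (XT.lf (nat_lit 0) (nat_lit 21629190416) (nat_lit 76) (nat_lit 134914442290) (nat_lit 76) (nat_lit 132790474837) (nat_lit 1) (nat_lit 4) (nat_lit 2) (nat_lit 5) (nat_lit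 2) (nat_lit 4) (nat_lit 417) (nat_lit 259) (nat_lit 224)) (XT.lf (nat_lit 0) (nat_lit 27062438139) (nat_lit 76) (nat_lit 139387037825) (nat_lit 76) (nat_lit 137240674233) (nat_lit 1) (nat_lit 4) (nat_lit 2) (nat_lit 5) (nat_lit 2) (nat_lit 4) (nat_lit 418) (nat_lit 259) (nat_lit 223)))) (XT.nd (nat_lit 78) (nat_lit 0) (nat_lit 0) (XT.lf (nat_lit 0) (nat_lit 32713174901) (nat_lit 76) (nat_lit 144109945459) (nat_lit 76) (nat_lit 141942252211) (nat_lit 1) (nat_lit 4) (nat_lit 2) (nat_lit 5) (nat_lit 2) (nat_lit 4) (nat_lit 419) (nat_lit 259) (nat_lit 222)) (XT.nd (nat_lit 78) (nat_lit 0) (nat_lit 0) (XT.lf (nat_lit 0) (nat_lit 38594854839) (nat_lit 76) (nat_lit 149094410210) (nat_lit 76) (nat_lit 146906403004) (nat_lit 1) (nat_lit 4) (nat_lit 2) (nat_lit 5) (nat_lit 2) (nat_lit 4) (nat_lit 420) (nat_lit 259) (nat_lit 221)) (XT.lf (nat_lit 0) (nat_lit 44721481952) (nat_lit 76) (nat_lit 154352299852)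 (nat_lit 76) (nat_lit 152144946019) (nat_lit 1) (nat_lit 4) (nat_lit 2) (nat_lit 5) (nat_lit 2) (nat_lit 4) (nat_lit 421) (nat_lit 259) (nat_lit 220))))))) (XT.nd (nat_lit 936) (nat_lit 0) (nat_lit 0) (XT.nd (nat_lit 468) (nat_lit 0) (nat_lit 0) (XT.nd (nat_lit 234) (nat_lit 0) (nat_lit 0) (XT.nd (nat_lit 78) (nat_lit 0) (nat_lit 0) (XT.lf (nat_lit 0) (nat_lit 51107643447) (nat_lit 76) (nat_lit 159896133168) (nat_lit 76) (nat_lit 157670353977) (nat_lit 1) (nat_lit 4) (nat_lit 2) (nat_lit 5) (nat_lit 2) (nat_lit 4) (nat_lit 422) (nat_lit 259) (nat_lit 219)) (XT.nd (nat_lit 78) (nat_lit 0) (nat_lit 0) (XT.lf (nat_lit 0) (nat_lit 57768544472) (nat_lit 76) (nat_lit 165739109763) (nat_lit 76) (nat_lit 163495782610) (nat_lit 1) (nat_lit 4) (nat_lit 2) (nat_lit 5) (nat_lit 2) (nat_lit 4) (nat_lit 423) (nat_lit 259) (nat_lit 218)) (XT.lf (nat_lit 0) (nat_lit 64720044313) (nat_lit 76) (nat_lit 171895141485)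 (nat_lit 76) (nat_lit 169635101989) (nat_lit 1) (nat_lit 4) (nat_lit 2) (nat_lit 5) (nat_lit 2) (nat_lit 4) (nat_lit 424) (nat_lit 259) (nat_lit 217)))) (XT.nd (nat_lit 78) (nat_lit 0) (nat_lit 0) (XT.lf (nat_lit 0) (nat_lit 71978694161) (nat_lit 76) (nat_lit 178378885552) (nat_lit 76) (nat_lit 176102929538) (nat_lit 1) (nat_lit 4) (nat_lit 2) (nat_lit 5) (nat_lit 2) (nat_lit 4) (nat_lit 425) (nat_lit 259) (nat_lit 216)) (XT.nd (nat_lit 78) (nat_lit 0) (nat_lit 0) (XT.lf (nat_lit 0) (nat_lit 79561776516) (nat_lit 76) (nat_lit 185205779451) (nat_lit 76) (nat_lit 182914664849) (nat_lit 1) (nat_lit 4) (nat_lit 2) (nat_lit 5) (nat_lit 2) (nat_lit 4) (nat_lit 426) (nat_lit 259) (nat_lit 215)) (XT.lf (nat_lit 0) (nat_lit 87487346336) (nat_lit 76) (nat_lit 192392077691) (nat_lit 76) (nat_lit 190086526338) (nat_lit 1) (nat_lit 4) (nat_lit 2) (nat_lit 5) (nat_lit 2) (nat_lit 4) (nat_lit 427) (nat_lit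 259) (nat_lit 214))))) (XT.nd (nat_lit 234) (nat_lit 0) (nat_lit 0) (XT.nd (nat_lit 78) (nat_lit 0) (nat_lit 0) (XT.lf (nat_lit 0) (nat_lit 95774274025) (nat_lit 76) (nat_lit 199954890506) (nat_lit 76) (nat_lit 197635589866) (nat_lit 1) (nat_lit 4) (nat_lit 2) (nat_lit 5) (nat_lit 2) (nat_lit 4) (nat_lit 428) (nat_lit 259) (nat_lit 213)) (XT.nd (nat_lit 78) (nat_lit 0) (nat_lit 0) (XT.lf (nat_lit 0) (nat_lit 104442290363) (nat_lit 76) (nat_lit 207912224592) (nat_lit 76) (nat_lit 205579829394) (nat_lit 1) (nat_lit 4) (nat_lit 2) (nat_lit 5) (nat_lit 2) (nat_lit 4) (nat_lit 429) (nat_lit 259) (nat_lit 212)) (XT.lf (nat_lit 0) (nat_lit 113512033484) (nat_lit 76) (nat_lit 216283025984) (nat_lit 76) (nat_lit 213938159778) (nat_lit 1) (nat_lit 4) (nat_lit 2) (nat_lit 5) (nat_lit 2) (nat_lit 4) (nat_lit 430) (nat_lit 259) (nat_lit 211)))) (XT.nd (nat_lit 78) (nat_lit 0) (nat_lit 0) (XT.lf (nat_lit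 0) (nat_lit 123005098015) (nat_lit 76) (nat_lit 225087225160) (nat_lit 76) (nat_lit 222730481804) (nat_lit 1) (nat_lit 4) (nat_lit 2) (nat_lit 5) (nat_lit 2) (nat_lit 4) (nat_lit 431) (nat_lit 259) (nat_lit 210)) (XT.nd (nat_lit 78) (nat_lit 0) (nat_lit 0) (XT.lf (nat_lit 0) (nat_lit 132944086491) (nat_lit 76) (nat_lit 234345784501) (nat_lit 76) (nat_lit 231977729572) (nat_lit 1) (nat_lit 4) (nat_lit 2) (nat_lit 5) (nat_lit 2) (nat_lit 4) (nat_lit 432) (nat_lit 259) (nat_lit 209)) (XT.lf (nat_lit 0) (nat_lit 143352663170) (nat_lit 76) (nat_lit 244080748194) (nat_lit 76) (nat_lit 241701920340) (nat_lit 1) (nat_lit 4) (nat_lit 2) (nat_lit 5) (nat_lit 2) (nat_lit 4) (nat_lit 433) (nat_lit 259) (nat_lit 208)))))) (XT.nd (nat_lit 42744) (nat_lit 0) (nat_lit 228) (XT.nd (nat_lit 234) (nat_lit 0) (nat_lit 0) (XT.nd (nat_lit 78) (nat_lit 0) (nat_lit 0) (XT.lf (nat_lit 0) (nat_lit 154255610377)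 (nat_lit 76) (nat_lit 254315294725) (nat_lit 76) (nat_lit 251926206942) (nat_lit 1) (nat_lit 4) (nat_lit 2) (nat_lit 5) (nat_lit 2) (nat_lit 4) (nat_lit 434) (nat_lit 259) (nat_lit 207)) (XT.nd (nat_lit 78) (nat_lit 0) (nat_lit 0) (XT.lf (nat_lit 0) (nat_lit 165678887510) (nat_lit 76) (nat_lit 265073792062) (nat_lit 76) (nat_lit 262674932917) (nat_lit 1) (nat_lit 4) (nat_lit 2) (nat_lit 5) (nat_lit 2) (nat_lit 4) (nat_lit 435) (nat_lit 259) (nat_lit 206)) (XT.lf (nat_lit 0) (nat_lit 177649692848) (nat_lit 76) (nat_lit 276381855675) (nat_lit 76) (nat_lit 273973690471) (nat_lit 1) (nat_lit 4) (nat_lit 2) (nat_lit 5) (nat_lit 2) (nat_lit 4) (nat_lit 436) (nat_lit 259) (nat_lit 205)))) (XT.nd (nat_lit 78) (nat_lit 0) (nat_lit 0) (XT.lf (nat_lit 0) (nat_lit 190196528309) (nat_lit 76) (nat_lit 288266409524) (nat_lit 76) (nat_lit 285849381408) (nat_lit 1) (nat_lit 4) (nat_lit 2) (nat_lit 5) (nat_lit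 2) (nat_lit 4) (nat_lit 437) (nat_lit 259) (nat_lit 204)) (XT.nd (nat_lit 42354) (nat_lit 0) (nat_lit 304) (XT.lf (nat_lit 0) (nat_lit 203349267310) (nat_lit 76) (nat_lit 300755750166) (nat_lit 76) (nat_lit 298330281181) (nat_lit 1) (nat_lit 4) (nat_lit 2) (nat_lit 5) (nat_lit 2) (nat_lit 4) (nat_lit 438) (nat_lit 259) (nat_lit 203)) (XT.lf (nat_lit 0) (nat_lit 9474487870) (nat_lit 152) (nat_lit 6294761823) (nat_lit 0) (nat_lit 9474487870) (nat_lit 5) (nat_lit 5) (nat_lit 7) (nat_lit 4) (nat_lit 5) (nat_lit 4) (nat_lit 380) (nat_lit 260) (nat_lit 260))))) (XT.nd (nat_lit 234) (nat_lit 0) (nat_lit 0) (XT.nd (nat_lit 78) (nat_lit 76) (nat_lit 0) (XT.lf (nat_lit 0) (nat_lit 24216826078) (nat_lit 152) (nat_lit 4490639767) (nat_lit 0) (nat_lit 24080626043) (nat_lit 5) (nat_lit 5) (nat_lit 7) (nat_lit 4) (nat_lit 5) (nat_lit 4) (nat_lit 381) (nat_lit 260) (nat_lit 259)) (XT.nd (nat_lit 78) (nat_lit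 0) (nat_lit 0) (XT.lf (nat_lit 0) (nat_lit 3861938255) (nat_lit 76) (nat_lit 25805873456) (nat_lit 76) (nat_lit 25539959103) (nat_lit 4) (nat_lit 4) (nat_lit 5) (nat_lit 5) (nat_lit 5) (nat_lit 4) (nat_lit 382) (nat_lit 260) (nat_lit 258)) (XT.lf (nat_lit 0) (nat_lit 12517627023) (nat_lit 76) (nat_lit 22811688794) (nat_lit 76) (nat_lit 22422236995) (nat_lit 4) (nat_lit 4) (nat_lit 5) (nat_lit 5) (nat_lit 5) (nat_lit 4) (nat_lit 383) (nat_lit 260) (nat_lit 257)))) (XT.nd (nat_lit 78) (nat_lit 0) (nat_lit 0) (XT.lf (nat_lit 0) (nat_lit 21348554489) (nat_lit 76) (nat_lit 19793834007) (nat_lit 76) (nat_lit 19286727497) (nat_lit 4) (nat_lit 4) (nat_lit 5) (nat_lit 5) (nat_lit 5) (nat_lit 4) (nat_lit 384) (nat_lit 260) (nat_lit 256)) (XT.nd (nat_lit 78) (nat_lit 0) (nat_lit 0) (XT.lf (nat_lit 0) (nat_lit 30375746671) (nat_lit 76) (nat_lit 16745123725) (nat_lit 76) (nat_lit 16125965110) (nat_lit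 4) (nat_lit 4) (nat_lit 5) (nat_lit 5) (nat_lit 5) (nat_lit 4) (nat_lit 385) (nat_lit 260) (nat_lit 255)) (XT.lf (nat_lit 0) (nat_lit 39620696882) (nat_lit 76) (nat_lit 13658299114) (nat_lit 76) (nat_lit 12932424209) (nat_lit 4) (nat_lit 4) (nat_lit 5) (nat_lit 5) (nat_lit 5) (nat_lit 4) (nat_lit 386) (nat_lit 260) (nat_lit 254))))))))
noncomputable def xc18 : XT := (XT.nd (nat_lit 1794) (nat_lit 76) (nat_lit 0) (XT.nd (nat_lit 858) (nat_lit 0) (nat_lit 0) (XT.nd (nat_lit 390) (nat_lit 0) (nat_lit 0) (XT.nd (nat_lit 156) (nat_lit 152) (nat_lit 0) (XT.nd (nat_lit 78) (nat_lit 0) (nat_lit 0) (XT.lf (nat_lit 0) (nat_lit 49105416909) (nat_lit 76) (nat_lit 10526010593) (nat_lit 76) (nat_lit 9698501125) (nat_lit 4) (nat_lit 4) (nat_lit 5) (nat_lit 5) (nat_lit 5) (nat_lit 4) (nat_lit 387) (nat_lit 260) (nat_lit 253)) (XT.lf (nat_lit 0) (nat_lit 58852489419) (nat_lit 76) (nat_lit 7340800331) (nat_lit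 76) (nat_lit 6416496041) (nat_lit 4) (nat_lit 4) (nat_lit 5) (nat_lit 5) (nat_lit 5) (nat_lit 4) (nat_lit 388) (nat_lit 260) (nat_lit 252))) (XT.nd (nat_lit 78) (nat_lit 152) (nat_lit 0) (XT.lf (nat_lit 0) (nat_lit 68885121728) (nat_lit 76) (nat_lit 4095084494) (nat_lit 76) (nat_lit 3078594660) (nat_lit 4) (nat_lit 4) (nat_lit 5) (nat_lit 5) (nat_lit 5) (nat_lit 4) (nat_lit 389) (nat_lit 260) (nat_lit 251)) (XT.nd (nat_lit 78) (nat_lit 76) (nat_lit 0) (XT.lf (nat_lit 0) (nat_lit 312807571) (nat_lit 152) (nat_lit 463030069) (nat_lit 76) (nat_lit 78909095936) (nat_lit 3) (nat_lit 5) (nat_lit 5) (nat_lit 5) (nat_lit 4) (nat_lit 4) (nat_lit 390) (nat_lit 260) (nat_lit 250)) (XT.lf (nat_lit 0) (nat_lit 3821061556) (nat_lit 152) (nat_lit 76976534461) (nat_lit 0) (nat_lit 2689727654) (nat_lit 2) (nat_lit 5) (nat_lit 4) (nat_lit 4) (nat_lit 2) (nat_lit 4) (nat_lit 391) (nat_lit 260) (nat_lit 249)))))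 (XT.nd (nat_lit 234) (nat_lit 0) (nat_lit 0) (XT.nd (nat_lit 78) (nat_lit 0) (nat_lit 0) (XT.lf (nat_lit 0) (nat_lit 7430675377) (nat_lit 152) (nat_lit 73829371136) (nat_lit 0) (nat_lit 6223500200) (nat_lit 2) (nat_lit 5) (nat_lit 4) (nat_lit 4) (nat_lit 2) (nat_lit 4) (nat_lit 392) (nat_lit 260) (nat_lit 248)) (XT.nd (nat_lit 78) (nat_lit 0) (nat_lit 0) (XT.lf (nat_lit 0) (nat_lit 11130539695) (nat_lit 152) (nat_lit 70702428271) (nat_lit 0) (nat_lit 9851134732) (nat_lit 2) (nat_lit 5) (nat_lit 4) (nat_lit 4) (nat_lit 2) (nat_lit 4) (nat_lit 393) (nat_lit 260) (nat_lit 247)) (XT.lf (nat_lit 0) (nat_lit 14929463712) (nat_lit 152) (nat_lit 67588260765) (nat_lit 0) (nat_lit 13581268475) (nat_lit 2) (nat_lit 5) (nat_lit 4) (nat_lit 4) (nat_lit 2) (nat_lit 4) (nat_lit 394) (nat_lit 260) (nat_lit 246)))) (XT.nd (nat_lit 78) (nat_lit 0) (nat_lit 0) (XT.lf (nat_lit 0) (nat_lit 18836492483) (nat_lit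 152) (nat_lit 64479453934) (nat_lit 0) (nat_lit 17422782701) (nat_lit 2) (nat_lit 5) (nat_lit 4) (nat_lit 4) (nat_lit 2) (nat_lit 4) (nat_lit 395) (nat_lit 260) (nat_lit 245)) (XT.nd (nat_lit 78) (nat_lit 0) (nat_lit 0) (XT.lf (nat_lit 0) (nat_lit 22860928459) (nat_lit 152) (nat_lit 61368605855) (nat_lit 0) (nat_lit 21384823872) (nat_lit 2) (nat_lit 5) (nat_lit 4) (nat_lit 4) (nat_lit 2) (nat_lit 4) (nat_lit 396) (nat_lit 260) (nat_lit 244)) (XT.lf (nat_lit 0) (nat_lit 27012353630) (nat_lit 152) (nat_lit 58248309748) (nat_lit 0) (nat_lit 25476825419) (nat_lit 2) (nat_lit 5) (nat_lit 4) (nat_lit 4) (nat_lit 2) (nat_lit 4) (nat_lit 397) (nat_lit 260) (nat_lit 243)))))) (XT.nd (nat_lit 468) (nat_lit 0) (nat_lit 0) (XT.nd (nat_lit 234) (nat_lit 0) (nat_lit 0) (XT.nd (nat_lit 78) (nat_lit 0) (nat_lit 0) (XT.lf (nat_lit 0) (nat_lit 31300652342) (nat_lit 152) (nat_lit 55111136336) (nat_lit 0)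 (nat_lit 29708530204) (nat_lit 2) (nat_lit 5) (nat_lit 4) (nat_lit 4) (nat_lit 2) (nat_lit 4) (nat_lit 398) (nat_lit 260) (nat_lit 242)) (XT.nd (nat_lit 78) (nat_lit 0) (nat_lit 0) (XT.lf (nat_lit 0) (nat_lit 35736034829) (nat_lit 152) (nat_lit 51949616160) (nat_lit 0) (nat_lit 34090013713) (nat_lit 2) (nat_lit 5) (nat_lit 4) (nat_lit 4) (nat_lit 2) (nat_lit 4) (nat_lit 399) (nat_lit 260) (nat_lit 241)) (XT.lf (nat_lit 0) (nat_lit 40329061527) (nat_lit 152) (nat_lit 48756221789) (nat_lit 0) (nat_lit 38631708050) (nat_lit 2) (nat_lit 5) (nat_lit 4) (nat_lit 4) (nat_lit 2) (nat_lit 4) (nat_lit 400) (nat_lit 260) (nat_lit 240)))) (XT.nd (nat_lit 78) (nat_lit 0) (nat_lit 0) (XT.lf (nat_lit 0) (nat_lit 45090668213) (nat_lit 152) (nat_lit 45523349905) (nat_lit 0) (nat_lit 43344426773) (nat_lit 2) (nat_lit 5) (nat_lit 4) (nat_lit 4) (nat_lit 2) (nat_lit 4) (nat_lit 401) (nat_lit 260) (nat_lit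 239)) (XT.nd (nat_lit 78) (nat_lit 0) (nat_lit 0) (XT.lf (nat_lit 0) (nat_lit 50032192045) (nat_lit 152) (nat_lit 42243303192) (nat_lit 0) (nat_lit 48239390642) (nat_lit 2) (nat_lit 5) (nat_lit 4) (nat_lit 4) (nat_lit 2) (nat_lit 4) (nat_lit 402) (nat_lit 260) (nat_lit 238)) (XT.lf (nat_lit 0) (nat_lit 55165398558) (nat_lit 152) (nat_lit 38908272016) (nat_lit 0) (nat_lit 53328254331) (nat_lit 2) (nat_lit 5) (nat_lit 4) (nat_lit 4) (nat_lit 2) (nat_lit 4) (nat_lit 403) (nat_lit 260) (nat_lit 237))))) (XT.nd (nat_lit 234) (nat_lit 0) (nat_lit 0) (XT.nd (nat_lit 78) (nat_lit 0) (nat_lit 0) (XT.lf (nat_lit 0) (nat_lit 60502509670) (nat_lit 152) (nat_lit 35510315827) (nat_lit 0) (nat_lit 58623134183) (nat_lit 2) (nat_lit 5) (nat_lit 4) (nat_lit 4) (nat_lit 2) (nat_lit 4) (nat_lit 404) (nat_lit 260) (nat_lit 236)) (XT.nd (nat_lit 78) (nat_lit 0) (nat_lit 0) (XT.lf (nat_lit 0) (nat_lit 66056232790)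 (nat_lit 152) (nat_lit 32041344253) (nat_lit 0) (nat_lit 64136637056) (nat_lit 2) (nat_lit 5) (nat_lit 4) (nat_lit 4) (nat_lit 2) (nat_lit 4) (nat_lit 405) (nat_lit 260) (nat_lit 235)) (XT.lf (nat_lit 0) (nat_lit 71839791068) (nat_lit 152) (nat_lit 28493097837) (nat_lit 0) (nat_lit 69881890336) (nat_lit 2) (nat_lit 5) (nat_lit 4) (nat_lit 4) (nat_lit 2) (nat_lit 4) (nat_lit 406) (nat_lit 260) (nat_lit 234)))) (XT.nd (nat_lit 78) (nat_lit 0) (nat_lit 0) (XT.lf (nat_lit 0) (nat_lit 77866954880) (nat_lit 152) (nat_lit 24857128374) (nat_lit 0) (nat_lit 75872573198) (nat_lit 2) (nat_lit 5) (nat_lit 4) (nat_lit 4) (nat_lit 2) (nat_lit 4) (nat_lit 407) (nat_lit 260) (nat_lit 233)) (XT.nd (nat_lit 78) (nat_lit 0) (nat_lit 0) (XT.lf (nat_lit 0) (nat_lit 84152074617) (nat_lit 152) (nat_lit 21124778794) (nat_lit 0) (nat_lit 82122949173) (nat_lit 2) (nat_lit 5) (nat_lit 4) (nat_lit 4) (nat_lit 2) (nat_lit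 4) (nat_lit 408) (nat_lit 260) (nat_lit 232)) (XT.lf (nat_lit 0) (nat_lit 90710114850) (nat_lit 152) (nat_lit 17287162549) (nat_lit 0) (nat_lit 88647900108) (nat_lit 2) (nat_lit 5) (nat_lit 4) (nat_lit 4) (nat_lit 2) (nat_lit 4) (nat_lit 409) (nat_lit 260) (nat_lit 231))))))) (XT.nd (nat_lit 936) (nat_lit 0) (nat_lit 0) (XT.nd (nat_lit 468) (nat_lit 0) (nat_lit 0) (XT.nd (nat_lit 234) (nat_lit 76) (nat_lit 0) (XT.nd (nat_lit 78) (nat_lit 0) (nat_lit 0) (XT.lf (nat_lit 0) (nat_lit 97556689959) (nat_lit 152) (nat_lit 13335142459) (nat_lit 0) (nat_lit 95462961601) (nat_lit 2) (nat_lit 5) (nat_lit 4) (nat_lit 4) (nat_lit 2) (nat_lit 4) (nat_lit 410) (nat_lit 260) (nat_lit 230)) (XT.nd (nat_lit 78) (nat_lit 0) (nat_lit 0) (XT.lf (nat_lit 0) (nat_lit 104708101315) (nat_lit 152) (nat_lit 9259308952) (nat_lit 0) (nat_lit 102584359988) (nat_lit 2) (nat_lit 5) (nat_lit 4) (nat_lit 4) (nat_lit 2)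 (nat_lit 4) (nat_lit 411) (nat_lit 260) (nat_lit 229)) (XT.lf (nat_lit 0) (nat_lit 112181376086) (nat_lit 152) (nat_lit 5049957663) (nat_lit 0) (nat_lit 110029050981) (nat_lit 2) (nat_lit 5) (nat_lit 4) (nat_lit 4) (nat_lit 2) (nat_lit 4) (nat_lit 412) (nat_lit 260) (nat_lit 228)))) (XT.nd (nat_lit 78) (nat_lit 76) (nat_lit 0) (XT.lf (nat_lit 0) (nat_lit 119994307786) (nat_lit 152) (nat_lit 697066325) (nat_lit 0) (nat_lit 117814760033) (nat_lit 2) (nat_lit 5) (nat_lit 4) (nat_lit 4) (nat_lit 2) (nat_lit 4) (nat_lit 413) (nat_lit 260) (nat_lit 227)) (XT.nd (nat_lit 78) (nat_lit 0) (nat_lit 0) (XT.lf (nat_lit 0) (nat_lit 3935695934) (nat_lit 76) (nat_lit 124291249939) (nat_lit 76) (nat_lit 122085775857) (nat_lit 1) (nat_lit 4) (nat_lit 2) (nat_lit 5) (nat_lit 2) (nat_lit 4) (nat_lit 414) (nat_lit 260) (nat_lit 226)) (XT.lf (nat_lit 0) (nat_lit 8761584457) (nat_lit 76) (nat_lit 128089612268)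 (nat_lit 76) (nat_lit 125859446442) (nat_lit 1) (nat_lit 4) (nat_lit 2) (nat_lit 5) (nat_lit 2) (nat_lit 4) (nat_lit 415) (nat_lit 260) (nat_lit 225))))) (XT.nd (nat_lit 234) (nat_lit 0) (nat_lit 0) (XT.nd (nat_lit 78) (nat_lit 0) (nat_lit 0) (XT.lf (nat_lit 0) (nat_lit 13769041292) (nat_lit 76) (nat_lit 132107309973) (nat_lit 76) (nat_lit 129853628202) (nat_lit 1) (nat_lit 4) (nat_lit 2) (nat_lit 5) (nat_lit 2) (nat_lit 4) (nat_lit 416) (nat_lit 260) (nat_lit 224)) (XT.nd (nat_lit 78) (nat_lit 0) (nat_lit 0) (XT.lf (nat_lit 0) (nat_lit 18969988955) (nat_lit 76) (nat_lit 136353909002) (nat_lit 76) (nat_lit 134077831092) (nat_lit 1) (nat_lit 4) (nat_lit 2) (nat_lit 5) (nat_lit 2) (nat_lit 4) (nat_lit 417) (nat_lit 260) (nat_lit 223)) (XT.lf (nat_lit 0) (nat_lit 24376810655) (nat_lit 76) (nat_lit 140839520304) (nat_lit 76) (nat_lit 138542112738) (nat_lit 1) (nat_lit 4) (nat_lit 2) (nat_lit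 5) (nat_lit 2) (nat_lit 4) (nat_lit 418) (nat_lit 260) (nat_lit 222)))) (XT.nd (nat_lit 78) (nat_lit 0) (nat_lit 0) (XT.lf (nat_lit 0) (nat_lit 30002379777) (nat_lit 76) (nat_lit 145574823907) (nat_lit 76) (nat_lit 143257102382) (nat_lit 1) (nat_lit 4) (nat_lit 2) (nat_lit 5) (nat_lit 2) (nat_lit 4) (nat_lit 419) (nat_lit 260) (nat_lit 221)) (XT.nd (nat_lit 78) (nat_lit 0) (nat_lit 0) (XT.lf (nat_lit 0) (nat_lit 35860090534) (nat_lit 76) (nat_lit 150571094342) (nat_lit 76) (nat_lit 148234026191) (nat_lit 1) (nat_lit 4) (nat_lit 2) (nat_lit 5) (nat_lit 2) (nat_lit 4) (nat_lit 420) (nat_lit 260) (nat_lit 220)) (XT.lf (nat_lit 0) (nat_lit 41963889855) (nat_lit 76) (nat_lit 155840227493) (nat_lit 76) (nat_lit 153484733982) (nat_lit 1) (nat_lit 4) (nat_lit 2) (nat_lit 5) (nat_lit 2) (nat_lit 4) (nat_lit 421) (nat_lit 260) (nat_lit 219)))))) (XT.nd (nat_lit 468) (nat_lit 0) (nat_lit 0) (XT.nd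 (nat_lit 234) (nat_lit 0) (nat_lit 0) (XT.nd (nat_lit 78) (nat_lit 0) (nat_lit 0) (XT.lf (nat_lit 0) (nat_lit 48328310596) (nat_lit 76) (nat_lit 161394768913) (nat_lit 76) (nat_lit 159021727442) (nat_lit 1) (nat_lit 4) (nat_lit 2) (nat_lit 5) (nat_lit 2) (nat_lit 4) (nat_lit 422) (nat_lit 260) (nat_lit 218)) (XT.nd (nat_lit 78) (nat_lit 0) (nat_lit 0) (XT.lf (nat_lit 0) (nat_lit 54968506140) (nat_lit 76) (nat_lit 167247943701) (nat_lit 76) (nat_lit 164858189886) (nat_lit 1) (nat_lit 4) (nat_lit 2) (nat_lit 5) (nat_lit 2) (nat_lit 4) (nat_lit 423) (nat_lit 260) (nat_lit 217)) (XT.lf (nat_lit 0) (nat_lit 61900286476) (nat_lit 76) (nat_lit 173413687989) (nat_lit 76) (nat_lit 171008017656) (nat_lit 1) (nat_lit 4) (nat_lit 2) (nat_lit 5) (nat_lit 2) (nat_lit 4) (nat_lit 424) (nat_lit 260) (nat_lit 216)))) (XT.nd (nat_lit 78) (nat_lit 0) (nat_lit 0) (XT.lf (nat_lit 0) (nat_lit 69140155844) (nat_lit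 76) (nat_lit 179906682119) (nat_lit 76) (nat_lit 177485853198) (nat_lit 1) (nat_lit 4) (nat_lit 2) (nat_lit 5) (nat_lit 2) (nat_lit 4) (nat_lit 425) (nat_lit 260) (nat_lit 215)) (XT.nd (nat_lit 78) (nat_lit 0) (nat_lit 0) (XT.lf (nat_lit 0) (nat_lit 76705352027) (nat_lit 76) (nat_lit 186742385601) (nat_lit 76) (nat_lit 184307119929) (nat_lit 1) (nat_lit 4) (nat_lit 2) (nat_lit 5) (nat_lit 2) (nat_lit 4) (nat_lit 426) (nat_lit 260) (nat_lit 214)) (XT.lf (nat_lit 0) (nat_lit 84613887397) (nat_lit 76) (nat_lit 193937073920) (nat_lit 76) (nat_lit 191488058962) (nat_lit 1) (nat_lit 4) (nat_lit 2) (nat_lit 5) (nat_lit 2) (nat_lit 4) (nat_lit 427) (nat_lit 260) (nat_lit 213))))) (XT.nd (nat_lit 234) (nat_lit 0) (nat_lit 0) (XT.nd (nat_lit 78) (nat_lit 0) (nat_lit 0) (XT.lf (nat_lit 0) (nat_lit 92884591800) (nat_lit 76) (nat_lit 201507877286) (nat_lit 76) (nat_lit 199045767770) (nat_lit 1) (nat_lit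 4) (nat_lit 2) (nat_lit 5) (nat_lit 2) (nat_lit 4) (nat_lit 428) (nat_lit 260) (nat_lit 212)) (XT.nd (nat_lit 78) (nat_lit 0) (nat_lit 0) (XT.lf (nat_lit 0) (nat_lit 101537157390) (nat_lit 76) (nat_lit 209472821422) (nat_lit 76) (nat_lit 206998240897) (nat_lit 1) (nat_lit 4) (nat_lit 2) (nat_lit 5) (nat_lit 2) (nat_lit 4) (nat_lit 429) (nat_lit 260) (nat_lit 211)) (XT.lf (nat_lit 0) (nat_lit 110592185513) (nat_lit 76) (nat_lit 217850870480) (nat_lit 76) (nat_lit 215364412805) (nat_lit 1) (nat_lit 4) (nat_lit 2) (nat_lit 5) (nat_lit 2) (nat_lit 4) (nat_lit 430) (nat_lit 260) (nat_lit 210)))) (XT.nd (nat_lit 78) (nat_lit 0) (nat_lit 0) (XT.lf (nat_lit 0) (nat_lit 120071235761) (nat_lit 76) (nat_lit 226661972196) (nat_lit 76) (nat_lit 224164202948) (nat_lit 1) (nat_lit 4) (nat_lit 2) (nat_lit 5) (nat_lit 2) (nat_lit 4) (nat_lit 431) (nat_lit 260) (nat_lit 209)) (XT.nd (nat_lit 78) (nat_lit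 0) (nat_lit 0) (XT.lf (nat_lit 0) (nat_lit 129996877300) (nat_lit 76) (nat_lit 235927105383) (nat_lit 76) (nat_lit 233418563210) (nat_lit 1) (nat_lit 4) (nat_lit 2) (nat_lit 5) (nat_lit 2) (nat_lit 4) (nat_lit 432) (nat_lit 260) (nat_lit 208)) (XT.lf (nat_lit 0) (nat_lit 140392742609) (nat_lit 76) (nat_lit 245668329883) (nat_lit 76) (nat_lit 243149527780) (nat_lit 1) (nat_lit 4) (nat_lit 2) (nat_lit 5) (nat_lit 2) (nat_lit 4) (nat_lit 433) (nat_lit 260) (nat_lit 207))))))))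
noncomputable def xc19 : XT := (XT.nd (nat_lit 43914) (nat_lit 0) (nat_lit 0) (XT.nd (nat_lit 42978) (nat_lit 0) (nat_lit 76) (XT.nd (nat_lit 42510) (nat_lit 0) (nat_lit 228) (XT.nd (nat_lit 156) (nat_lit 0) (nat_lit 0) (XT.nd (nat_lit 78) (nat_lit 0) (nat_lit 0) (XT.lf (nat_lit 0) (nat_lit 151283583751) (nat_lit 76) (nat_lit 255908839086) (nat_lit 76) (nat_lit 253380265623) (nat_lit 1) (nat_lit 4) (nat_lit 2) (nat_lit 5) (nat_lit 2) (nat_lit 4) (nat_lit 434) (nat_lit 260) (nat_lit 206)) (XT.lf (nat_lit 0) (nat_lit 162695331298) (nat_lit 76) (nat_lit 266673015159) (nat_lit 76) (nat_lit 264135135637) (nat_lit 1) (nat_lit 4) (nat_lit 2) (nat_lit 5) (nat_lit 2) (nat_lit 4) (nat_lit 435) (nat_lit 260) (nat_lit 205))) (XT.nd (nat_lit 78) (nat_lit 0) (nat_lit 0) (XT.lf (nat_lit 0) (nat_lit 174655156078) (nat_lit 76) (nat_lit 277986487092) (nat_lit 76) (nat_lit 275439744657) (nat_lit 1) (nat_lit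 4) (nat_lit 2) (nat_lit 5) (nat_lit 2) (nat_lit 4) (nat_lit 436) (nat_lit 260) (nat_lit 204)) (XT.nd (nat_lit 78) (nat_lit 0) (nat_lit 0) (XT.lf (nat_lit 0) (nat_lit 187191533864) (nat_lit 76) (nat_lit 289876191722) (nat_lit 76) (nat_lit 287321008418) (nat_lit 1) (nat_lit 4) (nat_lit 2) (nat_lit 5) (nat_lit 2) (nat_lit 4) (nat_lit 437) (nat_lit 260) (nat_lit 203)) (XT.lf (nat_lit 0) (nat_lit 200334313176) (nat_lit 76) (nat_lit 302370437869) (nat_lit 76) (nat_lit 299807215643) (nat_lit 1) (nat_lit 4) (nat_lit 2) (nat_lit 5) (nat_lit 2) (nat_lit 4) (nat_lit 438) (nat_lit 260) (nat_lit 202))))) (XT.nd (nat_lit 234) (nat_lit 76) (nat_lit 0) (XT.nd (nat_lit 78) (nat_lit 0) (nat_lit 0) (XT.lf (nat_lit 0) (nat_lit 4475243300) (nat_lit 152) (nat_lit 14163038402) (nat_lit 0) (nat_lit 4475243300) (nat_lit 5) (nat_lit 5) (nat_lit 7) (nat_lit 4) (nat_lit 5) (nat_lit 4) (nat_lit 378) (nat_lit 261) (nat_lit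 261)) (XT.nd (nat_lit 78) (nat_lit 0) (nat_lit 0) (XT.lf (nat_lit 0) (nat_lit 13934432557) (nat_lit 152) (nat_lit 20577602580) (nat_lit 0) (nat_lit 13791422521) (nat_lit 5) (nat_lit 5) (nat_lit 7) (nat_lit 4) (nat_lit 5) (nat_lit 4) (nat_lit 379) (nat_lit 261) (nat_lit 260)) (XT.lf (nat_lit 0) (nat_lit 19019995268) (nat_lit 152) (nat_lit 12730303647) (nat_lit 0) (nat_lit 18740785197) (nat_lit 5) (nat_lit 5) (nat_lit 7) (nat_lit 4) (nat_lit 5) (nat_lit 4) (nat_lit 380) (nat_lit 261) (nat_lit 259)))) (XT.nd (nat_lit 78) (nat_lit 76) (nat_lit 0) (XT.lf (nat_lit 0) (nat_lit 24219283214) (nat_lit 152) (nat_lit 4765495959) (nat_lit 0) (nat_lit 23810358826) (nat_lit 5) (nat_lit 5) (nat_lit 7) (nat_lit 4) (nat_lit 5) (nat_lit 4) (nat_lit 381) (nat_lit 261) (nat_lit 258)) (XT.nd (nat_lit 78) (nat_lit 0) (nat_lit 0) (XT.lf (nat_lit 0) (nat_lit 3446080403) (nat_lit 76) (nat_lit 26152398223) (nat_lit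 76) (nat_lit 25619936388) (nat_lit 4) (nat_lit 4) (nat_lit 5) (nat_lit 5) (nat_lit 5) (nat_lit 4) (nat_lit 382) (nat_lit 261) (nat_lit 257)) (XT.lf (nat_lit 0) (nat_lit 11976137103) (nat_lit 76) (nat_lit 23219696053) (nat_lit 76) (nat_lit 22569579507) (nat_lit 4) (nat_lit 4) (nat_lit 5) (nat_lit 5) (nat_lit 5) (nat_lit 4) (nat_lit 383) (nat_lit 261) (nat_lit 256)))))) (XT.nd (nat_lit 468) (nat_lit 152) (nat_lit 0) (XT.nd (nat_lit 234) (nat_lit 0) (nat_lit 0) (XT.nd (nat_lit 78) (nat_lit 0) (nat_lit 0) (XT.lf (nat_lit 0) (nat_lit 20687414980) (nat_lit 76) (nat_lit 20260396019) (nat_lit 76) (nat_lit 19498227368) (nat_lit 4) (nat_lit 4) (nat_lit 5) (nat_lit 5) (nat_lit 5) (nat_lit 4) (nat_lit 384) (nat_lit 261) (nat_lit 255)) (XT.nd (nat_lit 78) (nat_lit 0) (nat_lit 0) (XT.lf (nat_lit 0) (nat_lit 29600655171) (nat_lit 76) (nat_lit 17267452169) (nat_lit 76) (nat_lit 16398567227) (nat_lit 4)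 (nat_lit 4) (nat_lit 5) (nat_lit 5) (nat_lit 5) (nat_lit 4) (nat_lit 385) (nat_lit 261) (nat_lit 254)) (XT.lf (nat_lit 0) (nat_lit 38737079678) (nat_lit 76) (nat_lit 14233738446) (nat_lit 76) (nat_lit 13263218942) (nat_lit 4) (nat_lit 4) (nat_lit 5) (nat_lit 5) (nat_lit 5) (nat_lit 4) (nat_lit 386) (nat_lit 261) (nat_lit 253)))) (XT.nd (nat_lit 78) (nat_lit 0) (nat_lit 0) (XT.lf (nat_lit 0) (nat_lit 48118441891) (nat_lit 76) (nat_lit 11152031723) (nat_lit 76) (nat_lit 10084717397) (nat_lit 4) (nat_lit 4) (nat_lit 5) (nat_lit 5) (nat_lit 5) (nat_lit 4) (nat_lit 387) (nat_lit 261) (nat_lit 252)) (XT.nd (nat_lit 78) (nat_lit 0) (nat_lit 0) (XT.lf (nat_lit 0) (nat_lit 57767078388) (nat_lit 76) (nat_lit 8014994601) (nat_lit 76) (nat_lit 6855494731) (nat_lit 4) (nat_lit 4) (nat_lit 5) (nat_lit 5) (nat_lit 5) (nat_lit 4) (nat_lit 388) (nat_lit 261) (nat_lit 251)) (XT.lf (nat_lit 0) (nat_lit 67705962113)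 (nat_lit 76) (nat_lit 4815157946) (nat_lit 76) (nat_lit 3567862319) (nat_lit 4) (nat_lit 4) (nat_lit 5) (nat_lit 5) (nat_lit 5) (nat_lit 4) (nat_lit 389) (nat_lit 261) (nat_lit 250))))) (XT.nd (nat_lit 234) (nat_lit 0) (nat_lit 0) (XT.nd (nat_lit 78) (nat_lit 152) (nat_lit 0) (XT.lf (nat_lit 0) (nat_lit 77958757074) (nat_lit 76) (nat_lit 1544903099) (nat_lit 76) (nat_lit 213992466) (nat_lit 4) (nat_lit 4) (nat_lit 5) (nat_lit 5) (nat_lit 5) (nat_lit 4) (nat_lit 390) (nat_lit 261) (nat_lit 249)) (XT.nd (nat_lit 78) (nat_lit 0) (nat_lit 0) (XT.lf (nat_lit 0) (nat_lit 3221644185) (nat_lit 152) (nat_lit 78424275215) (nat_lit 0) (nat_lit 1878268973) (nat_lit 2) (nat_lit 5) (nat_lit 4) (nat_lit 4) (nat_lit 2) (nat_lit 4) (nat_lit 391) (nat_lit 261) (nat_lit 248)) (XT.lf (nat_lit 0) (nat_lit 6787243278) (nat_lit 152) (nat_lit 75363735610) (nat_lit 0) (nat_lit 5371638279) (nat_lit 2) (nat_lit 5)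 (nat_lit 4) (nat_lit 4) (nat_lit 2) (nat_lit 4) (nat_lit 392) (nat_lit 261) (nat_lit 247)))) (XT.nd (nat_lit 78) (nat_lit 0) (nat_lit 0) (XT.lf (nat_lit 0) (nat_lit 10445188807) (nat_lit 152) (nat_lit 72319291527) (nat_lit 0) (nat_lit 8960793536) (nat_lit 2) (nat_lit 5) (nat_lit 4) (nat_lit 4) (nat_lit 2) (nat_lit 4) (nat_lit 393) (nat_lit 261) (nat_lit 246)) (XT.nd (nat_lit 78) (nat_lit 0) (nat_lit 0) (XT.lf (nat_lit 0) (nat_lit 14204190166) (nat_lit 152) (nat_lit 69283694289) (nat_lit 0) (nat_lit 12654280350) (nat_lit 2) (nat_lit 5) (nat_lit 4) (nat_lit 4) (nat_lit 2) (nat_lit 4) (nat_lit 394) (nat_lit 261) (nat_lit 245)) (XT.lf (nat_lit 0) (nat_lit 18073197360) (nat_lit 152) (nat_lit 66249716284) (nat_lit 0) (nat_lit 16460892739) (nat_lit 2) (nat_lit 5) (nat_lit 4) (nat_lit 4) (nat_lit 2) (nat_lit 4) (nat_lit 395) (nat_lit 261) (nat_lit 244))))))) (XT.nd (nat_lit 936) (nat_lit 76) (nat_lit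 0) (XT.nd (nat_lit 468) (nat_lit 0) (nat_lit 0) (XT.nd (nat_lit 234) (nat_lit 0) (nat_lit 0) (XT.nd (nat_lit 78) (nat_lit 0) (nat_lit 0) (XT.lf (nat_lit 0) (nat_lit 22061422310) (nat_lit 152) (nat_lit 63210133754) (nat_lit 0) (nat_lit 20389694065) (nat_lit 2) (nat_lit 5) (nat_lit 4) (nat_lit 4) (nat_lit 2) (nat_lit 4) (nat_lit 396) (nat_lit 261) (nat_lit 243)) (XT.nd (nat_lit 78) (nat_lit 0) (nat_lit 0) (XT.lf (nat_lit 0) (nat_lit 26178360789) (nat_lit 152) (nat_lit 60157709599) (nat_lit 0) (nat_lit 24450038617) (nat_lit 2) (nat_lit 5) (nat_lit 4) (nat_lit 4) (nat_lit 2) (nat_lit 4) (nat_lit 397) (nat_lit 261) (nat_lit 242)) (XT.lf (nat_lit 0) (nat_lit 30433815033) (nat_lit 152) (nat_lit 57085176141) (nat_lit 0) (nat_lit 28651593882) (nat_lit 2) (nat_lit 5) (nat_lit 4) (nat_lit 4) (nat_lit 2) (nat_lit 4) (nat_lit 398) (nat_lit 261) (nat_lit 241)))) (XT.nd (nat_lit 78) (nat_lit 0) (nat_lit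 0) (XT.lf (nat_lit 0) (nat_lit 34837917074) (nat_lit 152) (nat_lit 53985217826) (nat_lit 0) (nat_lit 33004363563) (nat_lit 2) (nat_lit 5) (nat_lit 4) (nat_lit 4) (nat_lit 2) (nat_lit 4) (nat_lit 399) (nat_lit 261) (nat_lit 240)) (XT.nd (nat_lit 78) (nat_lit 0) (nat_lit 0) (XT.lf (nat_lit 0) (nat_lit 39401152871) (nat_lit 152) (nat_lit 50850453799) (nat_lit 0) (nat_lit 37518711397) (nat_lit 2) (nat_lit 5) (nat_lit 4) (nat_lit 4) (nat_lit 2) (nat_lit 4) (nat_lit 400) (nat_lit 261) (nat_lit 239)) (XT.lf (nat_lit 0) (nat_lit 44134387270) (nat_lit 152) (nat_lit 47673420337) (nat_lit 0) (nat_lit 42205385832) (nat_lit 2) (nat_lit 5) (nat_lit 4) (nat_lit 4) (nat_lit 2) (nat_lit 4) (nat_lit 401) (nat_lit 261) (nat_lit 238))))) (XT.nd (nat_lit 234) (nat_lit 0) (nat_lit 0) (XT.nd (nat_lit 78) (nat_lit 0) (nat_lit 0) (XT.lf (nat_lit 0) (nat_lit 49048889878) (nat_lit 152) (nat_lit 44446553074) (nat_lit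 0) (nat_lit 47075545617) (nat_lit 2) (nat_lit 5) (nat_lit 4) (nat_lit 4) (nat_lit 2) (nat_lit 4) (nat_lit 402) (nat_lit 261) (nat_lit 237)) (XT.nd (nat_lit 78) (nat_lit 0) (nat_lit 0) (XT.lf (nat_lit 0) (nat_lit 54156361890) (nat_lit 152) (nat_lit 41162168994) (nat_lit 0) (nat_lit 52140786369) (nat_lit 2) (nat_lit 5) (nat_lit 4) (nat_lit 4) (nat_lit 2) (nat_lit 4) (nat_lit 403) (nat_lit 261) (nat_lit 236)) (XT.lf (nat_lit 0) (nat_lit 59468963954) (nat_lit 152) (nat_lit 37812448134) (nat_lit 0) (nat_lit 57413168186) (nat_lit 2) (nat_lit 5) (nat_lit 4) (nat_lit 4) (nat_lit 2) (nat_lit 4) (nat_lit 404) (nat_lit 261) (nat_lit 235)))) (XT.nd (nat_lit 78) (nat_lit 0) (nat_lit 0) (XT.lf (nat_lit 0) (nat_lit 64999345124) (nat_lit 152) (nat_lit 34389414968) (nat_lit 0) (nat_lit 62905244357) (nat_lit 2) (nat_lit 5) (nat_lit 4) (nat_lit 4) (nat_lit 2) (nat_lit 4) (nat_lit 405) (nat_lit 261) (nat_lit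 234)) (XT.nd (nat_lit 78) (nat_lit 0) (nat_lit 0) (XT.lf (nat_lit 0) (nat_lit 70760672973) (nat_lit 152) (nat_lit 30884919417) (nat_lit 0) (nat_lit 68630091256) (nat_lit 2) (nat_lit 5) (nat_lit 4) (nat_lit 4) (nat_lit 2) (nat_lit 4) (nat_lit 406) (nat_lit 261) (nat_lit 233)) (XT.lf (nat_lit 0) (nat_lit 76766664948) (nat_lit 152) (nat_lit 27290617445) (nat_lit 0) (nat_lit 74601339469) (nat_lit 2) (nat_lit 5) (nat_lit 4) (nat_lit 4) (nat_lit 2) (nat_lit 4) (nat_lit 407) (nat_lit 261) (nat_lit 232)))))) (XT.nd (nat_lit 468) (nat_lit 76) (nat_lit 0) (XT.nd (nat_lit 234) (nat_lit 0) (nat_lit 0) (XT.nd (nat_lit 78) (nat_lit 0) (nat_lit 0) (XT.lf (nat_lit 0) (nat_lit 83031621031) (nat_lit 152) (nat_lit 23597951189) (nat_lit 0) (nat_lit 80833206254) (nat_lit 2) (nat_lit 5) (nat_lit 4) (nat_lit 4) (nat_lit 2) (nat_lit 4) (nat_lit 408) (nat_lit 261) (nat_lit 231)) (XT.nd (nat_lit 78) (nat_lit 0)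 (nat_lit 0) (XT.lf (nat_lit 0) (nat_lit 89570457783) (nat_lit 152) (nat_lit 19798128586) (nat_lit 0) (nat_lit 87340529390) (nat_lit 2) (nat_lit 5) (nat_lit 4) (nat_lit 4) (nat_lit 2) (nat_lit 4) (nat_lit 409) (nat_lit 261) (nat_lit 230)) (XT.lf (nat_lit 0) (nat_lit 96398743863) (nat_lit 152) (nat_lit 15882102442) (nat_lit 0) (nat_lit 94138802502) (nat_lit 2) (nat_lit 5) (nat_lit 4) (nat_lit 4) (nat_lit 2) (nat_lit 4) (nat_lit 410) (nat_lit 261) (nat_lit 229)))) (XT.nd (nat_lit 78) (nat_lit 0) (nat_lit 0) (XT.lf (nat_lit 0) (nat_lit 103532737096) (nat_lit 152) (nat_lit 11840548882) (nat_lit 0) (nat_lit 101244211956) (nat_lit 2) (nat_lit 5) (nat_lit 4) (nat_lit 4) (nat_lit 2) (nat_lit 4) (nat_lit 411) (nat_lit 261) (nat_lit 228)) (XT.nd (nat_lit 78) (nat_lit 0) (nat_lit 0) (XT.lf (nat_lit 0) (nat_lit 110989423180) (nat_lit 152) (nat_lit 7663845162) (nat_lit 0) (nat_lit 108673675393) (nat_lit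 2) (nat_lit 5) (nat_lit 4) (nat_lit 4) (nat_lit 2) (nat_lit 4) (nat_lit 412) (nat_lit 261) (nat_lit 227)) (XT.lf (nat_lit 0) (nat_lit 118786556128) (nat_lit 152) (nat_lit 3342046748) (nat_lit 0) (nat_lit 116444882011) (nat_lit 2) (nat_lit 5) (nat_lit 4) (nat_lit 4) (nat_lit 2) (nat_lit 4) (nat_lit 413) (nat_lit 261) (nat_lit 226))))) (XT.nd (nat_lit 234) (nat_lit 0) (nat_lit 0) (XT.nd (nat_lit 78) (nat_lit 0) (nat_lit 0) (XT.lf (nat_lit 0) (nat_lit 1172669090) (nat_lit 76) (nat_lit 125788340104) (nat_lit 76) (nat_lit 123421974244) (nat_lit 1) (nat_lit 4) (nat_lit 2) (nat_lit 5) (nat_lit 2) (nat_lit 4) (nat_lit 414) (nat_lit 261) (nat_lit 225)) (XT.nd (nat_lit 78) (nat_lit 0) (nat_lit 0) (XT.lf (nat_lit 0) (nat_lit 5969422923) (nat_lit 76) (nat_lit 129601052316) (nat_lit 76) (nat_lit 127211170510) (nat_lit 1) (nat_lit 4) (nat_lit 2) (nat_lit 5) (nat_lit 2) (nat_lit 4) (nat_lit 415) (nat_lit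 261) (nat_lit 224)) (XT.lf (nat_lit 0) (nat_lit 10949132434) (nat_lit 76) (nat_lit 133632416576) (nat_lit 76) (nat_lit 131220138632) (nat_lit 1) (nat_lit 4) (nat_lit 2) (nat_lit 5) (nat_lit 2) (nat_lit 4) (nat_lit 416) (nat_lit 261) (nat_lit 223)))) (XT.nd (nat_lit 78) (nat_lit 0) (nat_lit 0) (XT.lf (nat_lit 0) (nat_lit 16123654075) (nat_lit 76) (nat_lit 137892031372) (nat_lit 76) (nat_lit 135458423771) (nat_lit 1) (nat_lit 4) (nat_lit 2) (nat_lit 5) (nat_lit 2) (nat_lit 4) (nat_lit 417) (nat_lit 261) (nat_lit 222)) (XT.nd (nat_lit 78) (nat_lit 0) (nat_lit 0) (XT.lf (nat_lit 0) (nat_lit 21505308135) (nat_lit 76) (nat_lit 142390038643) (nat_lit 76) (nat_lit 139936117084) (nat_lit 1) (nat_lit 4) (nat_lit 2) (nat_lit 5) (nat_lit 2) (nat_lit 4) (nat_lit 418) (nat_lit 261) (nat_lit 221)) (XT.lf (nat_lit 0) (nat_lit 27106908075) (nat_lit 76) (nat_lit 147137147930) (nat_lit 76) (nat_lit 144663879744)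 (nat_lit 1) (nat_lit 4) (nat_lit 2) (nat_lit 5) (nat_lit 2) (nat_lit 4) (nat_lit 419) (nat_lit 261) (nat_lit 220))))))))
noncomputable def xc20 : XT := (XT.nd (nat_lit 43758) (nat_lit 0) (nat_lit 76) (XT.nd (nat_lit 858) (nat_lit 0) (nat_lit 0) (XT.nd (nat_lit 390) (nat_lit 0) (nat_lit 0) (XT.nd (nat_lit 156) (nat_lit 0) (nat_lit 0) (XT.nd (nat_lit 78) (nat_lit 0) (nat_lit 0) (XT.lf (nat_lit 0) (nat_lit 32941791040) (nat_lit 76) (nat_lit 152144661874) (nat_lit 76) (nat_lit 149652968329) (nat_lit 1) (nat_lit 4) (nat_lit 2) (nat_lit 5) (nat_lit 2) (nat_lit 4) (nat_lit 420) (nat_lit 261) (nat_lit 219)) (XT.lf (nat_lit 0) (nat_lit 39023849607) (nat_lit 76) (nat_lit 157424503128) (nat_lit 76) (nat_lit 154915261622) (nat_lit 1) (nat_lit 4) (nat_lit 2) (nat_lit 5) (nat_lit 2) (nat_lit 4) (nat_lit 421) (nat_lit 261) (nat_lit 218))) (XT.nd (nat_lit 78) (nat_lit 0) (nat_lit 0) (XT.lf (nat_lit 0)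 (nat_lit 45367564868) (nat_lit 76) (nat_lit 162989242742) (nat_lit 76) (nat_lit 160463288893) (nat_lit 1) (nat_lit 4) (nat_lit 2) (nat_lit 5) (nat_lit 2) (nat_lit 4) (nat_lit 422) (nat_lit 261) (nat_lit 217)) (XT.nd (nat_lit 78) (nat_lit 0) (nat_lit 0) (XT.lf (nat_lit 0) (nat_lit 51988040907) (nat_lit 76) (nat_lit 168852130096) (nat_lit 76) (nat_lit 166310259729) (nat_lit 1) (nat_lit 4) (nat_lit 2) (nat_lit 5) (nat_lit 2) (nat_lit 4) (nat_lit 423) (nat_lit 261) (nat_lit 216)) (XT.lf (nat_lit 0) (nat_lit 58901040763) (nat_lit 76) (nat_lit 175027124446) (nat_lit 76) (nat_lit 172470095491) (nat_lit 1) (nat_lit 4) (nat_lit 2) (nat_lit 5) (nat_lit 2) (nat_lit 4) (nat_lit 424) (nat_lit 261) (nat_lit 215))))) (XT.nd (nat_lit 234) (nat_lit 0) (nat_lit 0) (XT.nd (nat_lit 78) (nat_lit 0) (nat_lit 0) (XT.lf (nat_lit 0) (nat_lit 66123023958) (nat_lit 76) (nat_lit 181528928159) (nat_lit 76) (nat_lit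 178957462453) (nat_lit 1) (nat_lit 4) (nat_lit 2) (nat_lit 5) (nat_lit 2) (nat_lit 4) (nat_lit 425) (nat_lit 261) (nat_lit 214)) (XT.nd (nat_lit 78) (nat_lit 0) (nat_lit 0) (XT.lf (nat_lit 0) (nat_lit 73671185691) (nat_lit 76) (nat_lit 188373021721) (nat_lit 76) (nat_lit 185787806728) (nat_lit 1) (nat_lit 4) (nat_lit 2) (nat_lit 5) (nat_lit 2) (nat_lit 4) (nat_lit 426) (nat_lit 261) (nat_lit 213)) (XT.lf (nat_lit 0) (nat_lit 81563497776) (nat_lit 76) (nat_lit 195575700592) (nat_lit 76) (nat_lit 192977391041) (nat_lit 1) (nat_lit 4) (nat_lit 2) (nat_lit 5) (nat_lit 2) (nat_lit 4) (nat_lit 427) (nat_lit 261) (nat_lit 212)))) (XT.nd (nat_lit 78) (nat_lit 0) (nat_lit 0) (XT.lf (nat_lit 0) (nat_lit 89818751431) (nat_lit 76) (nat_lit 203154114007) (nat_lit 76) (nat_lit 200543333448) (nat_lit 1) (nat_lit 4) (nat_lit 2) (nat_lit 5) (nat_lit 2) (nat_lit 4) (nat_lit 428) (nat_lit 261) (nat_lit 211))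 (XT.nd (nat_lit 78) (nat_lit 0) (nat_lit 0) (XT.lf (nat_lit 0) (nat_lit 98456602023) (nat_lit 76) (nat_lit 211126305809) (nat_lit 76) (nat_lit 208503648099) (nat_lit 1) (nat_lit 4) (nat_lit 2) (nat_lit 5) (nat_lit 2) (nat_lit 4) (nat_lit 429) (nat_lit 261) (nat_lit 210)) (XT.lf (nat_lit 0) (nat_lit 107497615862) (nat_lit 76) (nat_lit 219511257406) (nat_lit 76) (nat_lit 216877288124) (nat_lit 1) (nat_lit 4) (nat_lit 2) (nat_lit 5) (nat_lit 2) (nat_lit 4) (nat_lit 430) (nat_lit 261) (nat_lit 209)))))) (XT.nd (nat_lit 468) (nat_lit 0) (nat_lit 0) (XT.nd (nat_lit 234) (nat_lit 0) (nat_lit 0) (XT.nd (nat_lit 78) (nat_lit 0) (nat_lit 0) (XT.lf (nat_lit 0) (nat_lit 116963319172) (nat_lit 76) (nat_lit 228328932968) (nat_lit 76) (nat_lit 225684190761) (nat_lit 1) (nat_lit 4) (nat_lit 2) (nat_lit 5) (nat_lit 2) (nat_lit 4) (nat_lit 431) (nat_lit 261) (nat_lit 208)) (XT.nd (nat_lit 78) (nat_lit 0)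 (nat_lit 0) (XT.lf (nat_lit 0) (nat_lit 126876249343) (nat_lit 76) (nat_lit 237600326962) (nat_lit 76) (nat_lit 234945324825) (nat_lit 1) (nat_lit 4) (nat_lit 2) (nat_lit 5) (nat_lit 2) (nat_lit 4) (nat_lit 432) (nat_lit 261) (nat_lit 207)) (XT.lf (nat_lit 0) (nat_lit 137260008587) (nat_lit 76) (nat_lit 247347514134) (nat_lit 76) (nat_lit 244682740636) (nat_lit 1) (nat_lit 4) (nat_lit 2) (nat_lit 5) (nat_lit 2) (nat_lit 4) (nat_lit 433) (nat_lit 261) (nat_lit 206)))) (XT.nd (nat_lit 78) (nat_lit 0) (nat_lit 0) (XT.lf (nat_lit 0) (nat_lit 148139320142) (nat_lit 76) (nat_lit 257593702074) (nat_lit 76) (nat_lit 254919622518) (nat_lit 1) (nat_lit 4) (nat_lit 2) (nat_lit 5) (nat_lit 2) (nat_lit 4) (nat_lit 434) (nat_lit 261) (nat_lit 205)) (XT.nd (nat_lit 78) (nat_lit 0) (nat_lit 0) (XT.lf (nat_lit 0) (nat_lit 159540087131) (nat_lit 76) (nat_lit 268363286467) (nat_lit 76) (nat_lit 265680343998)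 (nat_lit 1) (nat_lit 4) (nat_lit 2) (nat_lit 5) (nat_lit 2) (nat_lit 4) (nat_lit 435) (nat_lit 261) (nat_lit 204)) (XT.lf (nat_lit 0) (nat_lit 171489454237) (nat_lit 76) (nat_lit 279681909180) (nat_lit 76) (nat_lit 276990525842) (nat_lit 1) (nat_lit 4) (nat_lit 2) (nat_lit 5) (nat_lit 2) (nat_lit 4) (nat_lit 436) (nat_lit 261) (nat_lit 203))))) (XT.nd (nat_lit 42198) (nat_lit 0) (nat_lit 304) (XT.nd (nat_lit 78) (nat_lit 0) (nat_lit 0) (XT.lf (nat_lit 0) (nat_lit 184015872333) (nat_lit 76) (nat_lit 291576519316) (nat_lit 76) (nat_lit 288877097055) (nat_lit 1) (nat_lit 4) (nat_lit 2) (nat_lit 5) (nat_lit 2) (nat_lit 4) (nat_lit 437) (nat_lit 261) (nat_lit 202)) (XT.nd (nat_lit 42042) (nat_lit 0) (nat_lit 456) (XT.lf (nat_lit 0) (nat_lit 197149166226) (nat_lit 76) (nat_lit 304075437374) (nat_lit 76) (nat_lit 301368358996) (nat_lit 1) (nat_lit 4) (nat_lit 2) (nat_lit 5) (nat_lit 2) (nat_lit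 4) (nat_lit 438) (nat_lit 261) (nat_lit 201)) (XT.lf (nat_lit 0) (nat_lit 20669635457) (nat_lit 76) (nat_lit 260862289) (nat_lit 76) (nat_lit 260862289) (nat_lit 7) (nat_lit 4) (nat_lit 8) (nat_lit 5) (nat_lit 8) (nat_lit 4) (nat_lit 376) (nat_lit 262) (nat_lit 262)))) (XT.nd (nat_lit 78) (nat_lit 0) (nat_lit 0) (XT.lf (nat_lit 0) (nat_lit 4206451396) (nat_lit 152) (nat_lit 35994175067) (nat_lit 0) (nat_lit 4056290858) (nat_lit 5) (nat_lit 5) (nat_lit 7) (nat_lit 4) (nat_lit 5) (nat_lit 4) (nat_lit 377) (nat_lit 262) (nat_lit 261)) (XT.nd (nat_lit 78) (nat_lit 0) (nat_lit 0) (XT.lf (nat_lit 0) (nat_lit 9025057103) (nat_lit 152) (nat_lit 28473895805) (nat_lit 0) (nat_lit 8731886529) (nat_lit 5) (nat_lit 5) (nat_lit 7) (nat_lit 4) (nat_lit 5) (nat_lit 4) (nat_lit 378) (nat_lit 262) (nat_lit 260)) (XT.lf (nat_lit 0) (nat_lit 13937012551) (nat_lit 152) (nat_lit 20866201582) (nat_lit 0) (nat_lit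 13507641942) (nat_lit 5) (nat_lit 5) (nat_lit 7) (nat_lit 4) (nat_lit 5) (nat_lit 4) (nat_lit 379) (nat_lit 262) (nat_lit 259))))))) (XT.nd (nat_lit 936) (nat_lit 0) (nat_lit 0) (XT.nd (nat_lit 468) (nat_lit 152) (nat_lit 0) (XT.nd (nat_lit 234) (nat_lit 0) (nat_lit 0) (XT.nd (nat_lit 78) (nat_lit 76) (nat_lit 0) (XT.lf (nat_lit 0) (nat_lit 18954012871) (nat_lit 152) (nat_lit 13152978840) (nat_lit 0) (nat_lit 18394927944) (nat_lit 5) (nat_lit 5) (nat_lit 7) (nat_lit 4) (nat_lit 5) (nat_lit 4) (nat_lit 380) (nat_lit 262) (nat_lit 258)) (XT.nd (nat_lit 78) (nat_lit 76) (nat_lit 0) (XT.lf (nat_lit 0) (nat_lit 24088003304) (nat_lit 152) (nat_lit 5315862763) (nat_lit 0) (nat_lit 23405380931) (nat_lit 5) (nat_lit 5) (nat_lit 7) (nat_lit 4) (nat_lit 5) (nat_lit 4) (nat_lit 381) (nat_lit 262) (nat_lit 257)) (XT.lf (nat_lit 0) (nat_lit 2751883918) (nat_lit 76) (nat_lit 26642288336) (nat_lit 76)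 (nat_lit 25842011253) (nat_lit 4) (nat_lit 4) (nat_lit 5) (nat_lit 5) (nat_lit 5) (nat_lit 4) (nat_lit 382) (nat_lit 262) (nat_lit 256)))) (XT.nd (nat_lit 78) (nat_lit 0) (nat_lit 0) (XT.lf (nat_lit 0) (nat_lit 11162291029) (nat_lit 76) (nat_lit 23768140920) (nat_lit 76) (nat_lit 22855811731) (nat_lit 4) (nat_lit 4) (nat_lit 5) (nat_lit 5) (nat_lit 5) (nat_lit 4) (nat_lit 383) (nat_lit 262) (nat_lit 255)) (XT.nd (nat_lit 78) (nat_lit 0) (nat_lit 0) (XT.lf (nat_lit 0) (nat_lit 19759616915) (nat_lit 76) (nat_lit 20864607318) (nat_lit 76) (nat_lit 19845561838) (nat_lit 4) (nat_lit 4) (nat_lit 5) (nat_lit 5) (nat_lit 5) (nat_lit 4) (nat_lit 384) (nat_lit 262) (nat_lit 254)) (XT.lf (nat_lit 0) (nat_lit 28564331402) (nat_lit 76) (nat_lit 17924774356) (nat_lit 76) (nat_lit 16804094313) (nat_lit 4) (nat_lit 4) (nat_lit 5) (nat_lit 5) (nat_lit 5) (nat_lit 4) (nat_lit 385) (nat_lit 262) (nat_lit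 253))))) (XT.nd (nat_lit 234) (nat_lit 152) (nat_lit 0) (XT.nd (nat_lit 78) (nat_lit 0) (nat_lit 0) (XT.lf (nat_lit 0) (nat_lit 37597398095) (nat_lit 76) (nat_lit 14941642430) (nat_lit 76) (nat_lit 13724167566) (nat_lit 4) (nat_lit 4) (nat_lit 5) (nat_lit 5) (nat_lit 5) (nat_lit 4) (nat_lit 386) (nat_lit 262) (nat_lit 252)) (XT.nd (nat_lit 78) (nat_lit 0) (nat_lit 0) (XT.lf (nat_lit 0) (nat_lit 46880324295) (nat_lit 76) (nat_lit 11908108848) (nat_lit 76) (nat_lit 10598448439) (nat_lit 4) (nat_lit 4) (nat_lit 5) (nat_lit 5) (nat_lit 5) (nat_lit 4) (nat_lit 387) (nat_lit 262) (nat_lit 251)) (XT.lf (nat_lit 0) (nat_lit 56435212208) (nat_lit 76) (nat_lit 8816950908) (nat_lit 76) (nat_lit 7419494743) (nat_lit 4) (nat_lit 4) (nat_lit 5) (nat_lit 5) (nat_lit 5) (nat_lit 4) (nat_lit 388) (nat_lit 262) (nat_lit 250)))) (XT.nd (nat_lit 78) (nat_lit 152) (nat_lit 0) (XT.lf (nat_lit 0) (nat_lit 66284811567)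 (nat_lit 76) (nat_lit 5660808711) (nat_lit 76) (nat_lit 4179737540) (nat_lit 4) (nat_lit 4) (nat_lit 5) (nat_lit 5) (nat_lit 5) (nat_lit 4) (nat_lit 389) (nat_lit 262) (nat_lit 249)) (XT.nd (nat_lit 78) (nat_lit 152) (nat_lit 0) (XT.lf (nat_lit 0) (nat_lit 76452573799) (nat_lit 76) (nat_lit 2432167634) (nat_lit 76) (nat_lit 871463124) (nat_lit 4) (nat_lit 4) (nat_lit 5) (nat_lit 5) (nat_lit 5) (nat_lit 4) (nat_lit 390) (nat_lit 262) (nat_lit 248)) (XT.lf (nat_lit 0) (nat_lit 2502025752) (nat_lit 152) (nat_lit 80121981633) (nat_lit 0) (nat_lit 943410718) (nat_lit 2) (nat_lit 5) (nat_lit 4) (nat_lit 4) (nat_lit 2) (nat_lit 4) (nat_lit 391) (nat_lit 262) (nat_lit 247)))))) (XT.nd (nat_lit 468) (nat_lit 0) (nat_lit 0) (XT.nd (nat_lit 234) (nat_lit 0) (nat_lit 0) (XT.nd (nat_lit 78) (nat_lit 0) (nat_lit 0) (XT.lf (nat_lit 0) (nat_lit 6025706055) (nat_lit 152) (nat_lit 77143940810) (nat_lit 0)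 (nat_lit 4398300748) (nat_lit 2) (nat_lit 5) (nat_lit 4) (nat_lit 4) (nat_lit 2) (nat_lit 4) (nat_lit 392) (nat_lit 262) (nat_lit 246)) (XT.nd (nat_lit 78) (nat_lit 0) (nat_lit 0) (XT.lf (nat_lit 0) (nat_lit 9643728928) (nat_lit 152) (nat_lit 74178066995) (nat_lit 0) (nat_lit 7950809075) (nat_lit 2) (nat_lit 5) (nat_lit 4) (nat_lit 4) (nat_lit 2) (nat_lit 4) (nat_lit 393) (nat_lit 262) (nat_lit 245)) (XT.lf (nat_lit 0) (nat_lit 13364708710) (nat_lit 152) (nat_lit 71217298584) (nat_lit 0) (nat_lit 11609394053) (nat_lit 2) (nat_lit 5) (nat_lit 4) (nat_lit 4) (nat_lit 2) (nat_lit 4) (nat_lit 394) (nat_lit 262) (nat_lit 244)))) (XT.nd (nat_lit 78) (nat_lit 0) (nat_lit 0) (XT.lf (nat_lit 0) (nat_lit 17197504877) (nat_lit 152) (nat_lit 68254586128) (nat_lit 0) (nat_lit 15382766596) (nat_lit 2) (nat_lit 5) (nat_lit 4) (nat_lit 4) (nat_lit 2) (nat_lit 4) (nat_lit 395) (nat_lit 262) (nat_lit 243))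 (XT.nd (nat_lit 78) (nat_lit 0) (nat_lit 0) (XT.lf (nat_lit 0) (nat_lit 21151243135) (nat_lit 152) (nat_lit 65282875549) (nat_lit 0) (nat_lit 19279910927) (nat_lit 2) (nat_lit 5) (nat_lit 4) (nat_lit 4) (nat_lit 2) (nat_lit 4) (nat_lit 396) (nat_lit 262) (nat_lit 242)) (XT.lf (nat_lit 0) (nat_lit 25235337147) (nat_lit 152) (nat_lit 62295091348) (nat_lit 0) (nat_lit 23310105960) (nat_lit 2) (nat_lit 5) (nat_lit 4) (nat_lit 4) (nat_lit 2) (nat_lit 4) (nat_lit 397) (nat_lit 262) (nat_lit 241))))) (XT.nd (nat_lit 234) (nat_lit 0) (nat_lit 0) (XT.nd (nat_lit 78) (nat_lit 0) (nat_lit 0) (XT.lf (nat_lit 0) (nat_lit 29459510944) (nat_lit 152) (nat_lit 59284119751) (nat_lit 0) (nat_lit 27482947397) (nat_lit 2) (nat_lit 5) (nat_lit 4) (nat_lit 4) (nat_lit 2) (nat_lit 4) (nat_lit 398) (nat_lit 262) (nat_lit 240)) (XT.nd (nat_lit 78) (nat_lit 0) (nat_lit 0) (XT.lf (nat_lit 0) (nat_lit 33833822085)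 (nat_lit 152) (nat_lit 56242791779) (nat_lit 0) (nat_lit 31808370575) (nat_lit 2) (nat_lit 5) (nat_lit 4) (nat_lit 4) (nat_lit 2) (nat_lit 4) (nat_lit 399) (nat_lit 262) (nat_lit 239)) (XT.lf (nat_lit 0) (nat_lit 38368685595) (nat_lit 152) (nat_lit 53163866175) (nat_lit 0) (nat_lit 36296674121) (nat_lit 2) (nat_lit 5) (nat_lit 4) (nat_lit 4) (nat_lit 2) (nat_lit 4) (nat_lit 400) (nat_lit 262) (nat_lit 238)))) (XT.nd (nat_lit 78) (nat_lit 0) (nat_lit 0) (XT.lf (nat_lit 0) (nat_lit 43074898769) (nat_lit 152) (nat_lit 50040012163) (nat_lit 0) (nat_lit 40958544472) (nat_lit 2) (nat_lit 5) (nat_lit 4) (nat_lit 4) (nat_lit 2) (nat_lit 4) (nat_lit 401) (nat_lit 262) (nat_lit 237)) (XT.nd (nat_lit 78) (nat_lit 0) (nat_lit 0) (XT.lf (nat_lit 0) (nat_lit 47963666876) (nat_lit 152) (nat_lit 46863791996) (nat_lit 0) (nat_lit 45805081319) (nat_lit 2) (nat_lit 5) (nat_lit 4) (nat_lit 4) (nat_lit 2) (nat_lit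 4) (nat_lit 402) (nat_lit 262) (nat_lit 236)) (XT.lf (nat_lit 0) (nat_lit 53046629840) (nat_lit 152) (nat_lit 43627643244) (nat_lit 0) (nat_lit 50847824036) (nat_lit 2) (nat_lit 5) (nat_lit 4) (nat_lit 4) (nat_lit 2) (nat_lit 4) (nat_lit 403) (nat_lit 262) (nat_lit 235))))))))
noncomputable def xc21 : XT := (XT.nd (nat_lit 1794) (nat_lit 0) (nat_lit 0) (XT.nd (nat_lit 858) (nat_lit 76) (nat_lit 0) (XT.nd (nat_lit 390) (nat_lit 0) (nat_lit 0) (XT.nd (nat_lit 156) (nat_lit 0) (nat_lit 0) (XT.nd (nat_lit 78) (nat_lit 0) (nat_lit 0) (XT.lf (nat_lit 0) (nat_lit 58335889955) (nat_lit 152) (nat_lit 40323860792) (nat_lit 0) (nat_lit 56098779152) (nat_lit 2) (nat_lit 5) (nat_lit 4) (nat_lit 4) (nat_lit 2) (nat_lit 4) (nat_lit 404) (nat_lit 262) (nat_lit 234)) (XT.lf (nat_lit 0) (nat_lit 63844040695) (nat_lit 152) (nat_lit 36944578492) (nat_lit 0) (nat_lit 61570448942) (nat_lit 2) (nat_lit 5) (nat_lit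 4) (nat_lit 4) (nat_lit 2) (nat_lit 4) (nat_lit 405) (nat_lit 262) (nat_lit 233))) (XT.nd (nat_lit 78) (nat_lit 0) (nat_lit 0) (XT.lf (nat_lit 0) (nat_lit 69584196707) (nat_lit 152) (nat_lit 33481750432) (nat_lit 0) (nat_lit 67275861192) (nat_lit 2) (nat_lit 5) (nat_lit 4) (nat_lit 4) (nat_lit 2) (nat_lit 4) (nat_lit 406) (nat_lit 262) (nat_lit 232)) (XT.nd (nat_lit 78) (nat_lit 0) (nat_lit 0) (XT.lf (nat_lit 0) (nat_lit 75570025028) (nat_lit 152) (nat_lit 29927131784) (nat_lit 0) (nat_lit 73228600216) (nat_lit 2) (nat_lit 5) (nat_lit 4) (nat_lit 4) (nat_lit 2) (nat_lit 4) (nat_lit 407) (nat_lit 262) (nat_lit 231)) (XT.lf (nat_lit 0) (nat_lit 81815777630) (nat_lit 152) (nat_lit 26272259170) (nat_lit 0) (nat_lit 79442839201) (nat_lit 2) (nat_lit 5) (nat_lit 4) (nat_lit 4) (nat_lit 2) (nat_lit 4) (nat_lit 408) (nat_lit 262) (nat_lit 230))))) (XT.nd (nat_lit 234) (nat_lit 0) (nat_lit 0) (XT.nd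 (nat_lit 78) (nat_lit 0) (nat_lit 0) (XT.lf (nat_lit 0) (nat_lit 88336325354) (nat_lit 152) (nat_lit 22508430513) (nat_lit 0) (nat_lit 85933373957) (nat_lit 2) (nat_lit 5) (nat_lit 4) (nat_lit 4) (nat_lit 2) (nat_lit 4) (nat_lit 409) (nat_lit 262) (nat_lit 229)) (XT.nd (nat_lit 78) (nat_lit 0) (nat_lit 0) (XT.lf (nat_lit 0) (nat_lit 95147193311) (nat_lit 152) (nat_lit 18626684316) (nat_lit 0) (nat_lit 92715658135) (nat_lit 2) (nat_lit 5) (nat_lit 4) (nat_lit 4) (nat_lit 2) (nat_lit 4) (nat_lit 410) (nat_lit 262) (nat_lit 228)) (XT.lf (nat_lit 0) (nat_lit 102264597856) (nat_lit 152) (nat_lit 14617778326) (nat_lit 0) (nat_lit 99805840033) (nat_lit 2) (nat_lit 5) (nat_lit 4) (nat_lit 4) (nat_lit 2) (nat_lit 4) (nat_lit 411) (nat_lit 262) (nat_lit 227)))) (XT.nd (nat_lit 78) (nat_lit 0) (nat_lit 0) (XT.lf (nat_lit 0) (nat_lit 109705485188) (nat_lit 152) (nat_lit 10472167528) (nat_lit 0) (nat_lit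 107220801035) (nat_lit 2) (nat_lit 5) (nat_lit 4) (nat_lit 4) (nat_lit 2) (nat_lit 4) (nat_lit 412) (nat_lit 262) (nat_lit 226)) (XT.nd (nat_lit 78) (nat_lit 0) (nat_lit 0) (XT.lf (nat_lit 0) (nat_lit 117487571708) (nat_lit 152) (nat_lit 6179981422) (nat_lit 0) (nat_lit 114978195811) (nat_lit 2) (nat_lit 5) (nat_lit 4) (nat_lit 4) (nat_lit 2) (nat_lit 4) (nat_lit 413) (nat_lit 262) (nat_lit 225)) (XT.lf (nat_lit 0) (nat_lit 125629386191) (nat_lit 152) (nat_lit 1731000515) (nat_lit 0) (nat_lit 123096494349) (nat_lit 2) (nat_lit 5) (nat_lit 4) (nat_lit 4) (nat_lit 2) (nat_lit 4) (nat_lit 414) (nat_lit 262) (nat_lit 224)))))) (XT.nd (nat_lit 468) (nat_lit 0) (nat_lit 0) (XT.nd (nat_lit 234) (nat_lit 0) (nat_lit 0) (XT.nd (nat_lit 78) (nat_lit 0) (nat_lit 0) (XT.lf (nat_lit 0) (nat_lit 2980771299) (nat_lit 76) (nat_lit 131216080804) (nat_lit 76) (nat_lit 128660792824) (nat_lit 1) (nat_lit 4)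 (nat_lit 2) (nat_lit 5) (nat_lit 2) (nat_lit 4) (nat_lit 415) (nat_lit 262) (nat_lit 223)) (XT.nd (nat_lit 78) (nat_lit 0) (nat_lit 0) (XT.lf (nat_lit 0) (nat_lit 7934054787) (nat_lit 76) (nat_lit 135260460832) (nat_lit 76) (nat_lit 132683843195) (nat_lit 1) (nat_lit 4) (nat_lit 2) (nat_lit 5) (nat_lit 2) (nat_lit 4) (nat_lit 416) (nat_lit 262) (nat_lit 222)) (XT.lf (nat_lit 0) (nat_lit 13083408788) (nat_lit 76) (nat_lit 139532471596) (nat_lit 76) (nat_lit 136935540001) (nat_lit 1) (nat_lit 4) (nat_lit 2) (nat_lit 5) (nat_lit 2) (nat_lit 4) (nat_lit 417) (nat_lit 262) (nat_lit 221)))) (XT.nd (nat_lit 78) (nat_lit 0) (nat_lit 0) (XT.lf (nat_lit 0) (nat_lit 18441093666) (nat_lit 76) (nat_lit 144042284551) (nat_lit 76) (nat_lit 141426006329) (nat_lit 1) (nat_lit 4) (nat_lit 2) (nat_lit 5) (nat_lit 2) (nat_lit 4) (nat_lit 418) (nat_lit 262) (nat_lit 220)) (XT.nd (nat_lit 78) (nat_lit 0) (nat_lit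 0) (XT.lf (nat_lit 0) (nat_lit 24019865815) (nat_lit 76) (nat_lit 148800637346) (nat_lit 76) (nat_lit 146165933766) (nat_lit 1) (nat_lit 4) (nat_lit 2) (nat_lit 5) (nat_lit 2) (nat_lit 4) (nat_lit 419) (nat_lit 262) (nat_lit 219)) (XT.lf (nat_lit 0) (nat_lit 29833008025) (nat_lit 76) (nat_lit 153818859394) (nat_lit 76) (nat_lit 151166607853) (nat_lit 1) (nat_lit 4) (nat_lit 2) (nat_lit 5) (nat_lit 2) (nat_lit 4) (nat_lit 420) (nat_lit 262) (nat_lit 218))))) (XT.nd (nat_lit 234) (nat_lit 0) (nat_lit 0) (XT.nd (nat_lit 78) (nat_lit 0) (nat_lit 0) (XT.lf (nat_lit 0) (nat_lit 35894361112) (nat_lit 76) (nat_lit 159108898842) (nat_lit 76) (nat_lit 156439934957) (nat_lit 1) (nat_lit 4) (nat_lit 2) (nat_lit 5) (nat_lit 2) (nat_lit 4) (nat_lit 421) (nat_lit 262) (nat_lit 217)) (XT.nd (nat_lit 78) (nat_lit 0) (nat_lit 0) (XT.lf (nat_lit 0) (nat_lit 42218356869) (nat_lit 76) (nat_lit 164683351021)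 (nat_lit 76) (nat_lit 161998470619) (nat_lit 1) (nat_lit 4) (nat_lit 2) (nat_lit 5) (nat_lit 2) (nat_lit 4) (nat_lit 422) (nat_lit 262) (nat_lit 216)) (XT.lf (nat_lit 0) (nat_lit 48820052427) (nat_lit 76) (nat_lit 170555488438) (nat_lit 76) (nat_lit 167855449447) (nat_lit 1) (nat_lit 4) (nat_lit 2) (nat_lit 5) (nat_lit 2) (nat_lit 4) (nat_lit 423) (nat_lit 262) (nat_lit 215)))) (XT.nd (nat_lit 78) (nat_lit 0) (nat_lit 0) (XT.lf (nat_lit 0) (nat_lit 55715166110) (nat_lit 76) (nat_lit 176739292372) (nat_lit 76) (nat_lit 174024816629) (nat_lit 1) (nat_lit 4) (nat_lit 2) (nat_lit 5) (nat_lit 2) (nat_lit 4) (nat_lit 424) (nat_lit 262) (nat_lit 214)) (XT.nd (nat_lit 78) (nat_lit 0) (nat_lit 0) (XT.lf (nat_lit 0) (nat_lit 62920114856) (nat_lit 76) (nat_lit 183249486164) (nat_lit 76) (nat_lit 180521261136) (nat_lit 1) (nat_lit 4) (nat_lit 2) (nat_lit 5) (nat_lit 2) (nat_lit 4) (nat_lit 425) (nat_lit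 262) (nat_lit 213)) (XT.lf (nat_lit 0) (nat_lit 70452053303) (nat_lit 76) (nat_lit 190101570278) (nat_lit 76) (nat_lit 187360250691) (nat_lit 1) (nat_lit 4) (nat_lit 2) (nat_lit 5) (nat_lit 2) (nat_lit 4) (nat_lit 426) (nat_lit 262) (nat_lit 212))))))) (XT.nd (nat_lit 42744) (nat_lit 0) (nat_lit 228) (XT.nd (nat_lit 468) (nat_lit 0) (nat_lit 0) (XT.nd (nat_lit 234) (nat_lit 0) (nat_lit 0) (XT.nd (nat_lit 78) (nat_lit 0) (nat_lit 0) (XT.lf (nat_lit 0) (nat_lit 78328914640) (nat_lit 76) (nat_lit 197311859198) (nat_lit 76) (nat_lit 194558068603) (nat_lit 1) (nat_lit 4) (nat_lit 2) (nat_lit 5) (nat_lit 2) (nat_lit 4) (nat_lit 427) (nat_lit 262) (nat_lit 211)) (XT.nd (nat_lit 78) (nat_lit 0) (nat_lit 0) (XT.lf (nat_lit 0) (nat_lit 86569453297) (nat_lit 76) (nat_lit 204897520280) (nat_lit 76) (nat_lit 202131852534) (nat_lit 1) (nat_lit 4) (nat_lit 2) (nat_lit 5) (nat_lit 2) (nat_lit 4) (nat_lit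 428) (nat_lit 262) (nat_lit 210)) (XT.lf (nat_lit 0) (nat_lit 95193289605) (nat_lit 76) (nat_lit 212876614620) (nat_lit 76) (nat_lit 210099635302) (nat_lit 1) (nat_lit 4) (nat_lit 2) (nat_lit 5) (nat_lit 2) (nat_lit 4) (nat_lit 429) (nat_lit 262) (nat_lit 209)))) (XT.nd (nat_lit 78) (nat_lit 0) (nat_lit 0) (XT.lf (nat_lit 0) (nat_lit 104220956507) (nat_lit 76) (nat_lit 221268140064) (nat_lit 76) (nat_lit 218480387820) (nat_lit 1) (nat_lit 4) (nat_lit 2) (nat_lit 5) (nat_lit 2) (nat_lit 4) (nat_lit 430) (nat_lit 262) (nat_lit 208)) (XT.nd (nat_lit 78) (nat_lit 0) (nat_lit 0) (XT.lf (nat_lit 0) (nat_lit 113673948449) (nat_lit 76) (nat_lit 230092076433) (nat_lit 76) (nat_lit 227294064260) (nat_lit 1) (nat_lit 4) (nat_lit 2) (nat_lit 5) (nat_lit 2) (nat_lit 4) (nat_lit 431) (nat_lit 262) (nat_lit 207)) (XT.lf (nat_lit 0) (nat_lit 123574772554) (nat_lit 76) (nat_lit 239369433099) (nat_lit 76)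 (nat_lit 236561649565) (nat_lit 1) (nat_lit 4) (nat_lit 2) (nat_lit 5) (nat_lit 2) (nat_lit 4) (nat_lit 432) (nat_lit 262) (nat_lit 206))))) (XT.nd (nat_lit 234) (nat_lit 0) (nat_lit 0) (XT.nd (nat_lit 78) (nat_lit 0) (nat_lit 0) (XT.lf (nat_lit 0) (nat_lit 133947002212) (nat_lit 76) (nat_lit 249122299007) (nat_lit 76) (nat_lit 246305209415) (nat_lit 1) (nat_lit 4) (nat_lit 2) (nat_lit 5) (nat_lit 2) (nat_lit 4) (nat_lit 433) (nat_lit 262) (nat_lit 205)) (XT.nd (nat_lit 78) (nat_lit 0) (nat_lit 0) (XT.lf (nat_lit 0) (nat_lit 144815333209) (nat_lit 76) (nat_lit 259373895267) (nat_lit 76) (nat_lit 256547942762) (nat_lit 1) (nat_lit 4) (nat_lit 2) (nat_lit 5) (nat_lit 2) (nat_lit 4) (nat_lit 434) (nat_lit 262) (nat_lit 204)) (XT.lf (nat_lit 0) (nat_lit 156205642524) (nat_lit 76) (nat_lit 270148630441) (nat_lit 76) (nat_lit 267314237067) (nat_lit 1) (nat_lit 4) (nat_lit 2) (nat_lit 5) (nat_lit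 2) (nat_lit 4) (nat_lit 435) (nat_lit 262) (nat_lit 203)))) (XT.nd (nat_lit 78) (nat_lit 0) (nat_lit 0) (XT.lf (nat_lit 0) (nat_lit 168145049939) (nat_lit 76) (nat_lit 281472158660) (nat_lit 76) (nat_lit 278629726363) (nat_lit 1) (nat_lit 4) (nat_lit 2) (nat_lit 5) (nat_lit 2) (nat_lit 4) (nat_lit 436) (nat_lit 262) (nat_lit 202)) (XT.nd (nat_lit 78) (nat_lit 0) (nat_lit 0) (XT.lf (nat_lit 0) (nat_lit 180661982617) (nat_lit 76) (nat_lit 293371440706) (nat_lit 76) (nat_lit 290521352291) (nat_lit 1) (nat_lit 4) (nat_lit 2) (nat_lit 5) (nat_lit 2) (nat_lit 4) (nat_lit 437) (nat_lit 262) (nat_lit 201)) (XT.lf (nat_lit 0) (nat_lit 193786242777) (nat_lit 76) (nat_lit 305874808202) (nat_lit 76) (nat_lit 303017428247) (nat_lit 1) (nat_lit 4) (nat_lit 2) (nat_lit 5) (nat_lit 2) (nat_lit 4) (nat_lit 438) (nat_lit 262) (nat_lit 200)))))) (XT.nd (nat_lit 468) (nat_lit 76) (nat_lit 0) (XT.nd (nat_lit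 234) (nat_lit 152) (nat_lit 0) (XT.nd (nat_lit 78) (nat_lit 0) (nat_lit 0) (XT.lf (nat_lit 0) (nat_lit 10037998790) (nat_lit 76) (nat_lit 4703907529) (nat_lit 76) (nat_lit 4703907529) (nat_lit 7) (nat_lit 4) (nat_lit 8) (nat_lit 5) (nat_lit 8) (nat_lit 4) (nat_lit 374) (nat_lit 263) (nat_lit 263)) (XT.nd (nat_lit 78) (nat_lit 0) (nat_lit 0) (XT.lf (nat_lit 0) (nat_lit 30522620473) (nat_lit 76) (nat_lit 5117807545) (nat_lit 76) (nat_lit 4952255552) (nat_lit 7) (nat_lit 4) (nat_lit 8) (nat_lit 5) (nat_lit 8) (nat_lit 4) (nat_lit 375) (nat_lit 263) (nat_lit 262)) (XT.lf (nat_lit 0) (nat_lit 41194219869) (nat_lit 76) (nat_lit 757730774) (nat_lit 76) (nat_lit 434510217) (nat_lit 7) (nat_lit 4) (nat_lit 8) (nat_lit 5) (nat_lit 8) (nat_lit 4) (nat_lit 376) (nat_lit 263) (nat_lit 261)))) (XT.nd (nat_lit 78) (nat_lit 0) (nat_lit 0) (XT.lf (nat_lit 0) (nat_lit 4209160389) (nat_lit 152) (nat_lit 36297204019)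 (nat_lit 0) (nat_lit 3758321250) (nat_lit 5) (nat_lit 5) (nat_lit 7) (nat_lit 4) (nat_lit 5) (nat_lit 4) (nat_lit 377) (nat_lit 263) (nat_lit 260)) (XT.nd (nat_lit 78) (nat_lit 0) (nat_lit 0) (XT.lf (nat_lit 0) (nat_lit 8955775587) (nat_lit 152) (nat_lit 28917704758) (nat_lit 0) (nat_lit 8368736413) (nat_lit 5) (nat_lit 5) (nat_lit 7) (nat_lit 4) (nat_lit 5) (nat_lit 4) (nat_lit 378) (nat_lit 263) (nat_lit 259)) (XT.lf (nat_lit 0) (nat_lit 13799168644) (nat_lit 152) (nat_lit 21444086726) (nat_lit 0) (nat_lit 13082415153) (nat_lit 5) (nat_lit 5) (nat_lit 7) (nat_lit 4) (nat_lit 5) (nat_lit 4) (nat_lit 379) (nat_lit 263) (nat_lit 258))))) (XT.nd (nat_lit 234) (nat_lit 0) (nat_lit 0) (XT.nd (nat_lit 78) (nat_lit 76) (nat_lit 0) (XT.lf (nat_lit 0) (nat_lit 18750871451) (nat_lit 152) (nat_lit 13858555595) (nat_lit 0) (nat_lit 17910580513) (nat_lit 5) (nat_lit 5) (nat_lit 7) (nat_lit 4) (nat_lit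 5) (nat_lit 4) (nat_lit 380) (nat_lit 263) (nat_lit 257)) (XT.nd (nat_lit 78) (nat_lit 76) (nat_lit 0) (XT.lf (nat_lit 0) (nat_lit 23822673775) (nat_lit 152) (nat_lit 6143050577) (nat_lit 0) (nat_lit 22864728126) (nat_lit 5) (nat_lit 5) (nat_lit 7) (nat_lit 4) (nat_lit 5) (nat_lit 4) (nat_lit 381) (nat_lit 263) (nat_lit 256)) (XT.lf (nat_lit 0) (nat_lit 1777695951) (nat_lit 76) (nat_lit 27276710200) (nat_lit 76) (nat_lit 26206712446) (nat_lit 4) (nat_lit 4) (nat_lit 5) (nat_lit 5) (nat_lit 5) (nat_lit 4) (nat_lit 382) (nat_lit 263) (nat_lit 255)))) (XT.nd (nat_lit 78) (nat_lit 0) (nat_lit 0) (XT.lf (nat_lit 0) (nat_lit 10074151071) (nat_lit 76) (nat_lit 24458329215) (nat_lit 76) (nat_lit 23281615171) (nat_lit 4) (nat_lit 4) (nat_lit 5) (nat_lit 5) (nat_lit 5) (nat_lit 4) (nat_lit 383) (nat_lit 263) (nat_lit 254)) (XT.nd (nat_lit 78) (nat_lit 0) (nat_lit 0) (XT.lf (nat_lit 0) (nat_lit 18562951254)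 (nat_lit 76) (nat_lit 21607906501) (nat_lit 76) (nat_lit 20329557894) (nat_lit 4) (nat_lit 4) (nat_lit 5) (nat_lit 5) (nat_lit 5) (nat_lit 4) (nat_lit 384) (nat_lit 263) (nat_lit 253)) (XT.lf (nat_lit 0) (nat_lit 27264307927) (nat_lit 76) (nat_lit 18718655337) (nat_lit 76) (nat_lit 17343511908) (nat_lit 4) (nat_lit 4) (nat_lit 5) (nat_lit 5) (nat_lit 5) (nat_lit 4) (nat_lit 385) (nat_lit 263) (nat_lit 252))))))))
noncomputable def xc22 : XT := (XT.nd (nat_lit 1794) (nat_lit 76) (nat_lit 0) (XT.nd (nat_lit 858) (nat_lit 0) (nat_lit 0) (XT.nd (nat_lit 390) (nat_lit 152) (nat_lit 0) (XT.nd (nat_lit 156) (nat_lit 0) (nat_lit 0) (XT.nd (nat_lit 78) (nat_lit 0) (nat_lit 0) (XT.lf (nat_lit 0) (nat_lit 36198938606) (nat_lit 76) (nat_lit 15783696552) (nat_lit 76) (nat_lit 14316367579) (nat_lit 4) (nat_lit 4) (nat_lit 5) (nat_lit 5) (nat_lit 5) (nat_lit 4) (nat_lit 386) (nat_lit 263) (nat_lit 251))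 (XT.lf (nat_lit 0) (nat_lit 45388116222) (nat_lit 76) (nat_lit 12796042151) (nat_lit 76) (nat_lit 11240917421) (nat_lit 4) (nat_lit 4) (nat_lit 5) (nat_lit 5) (nat_lit 5) (nat_lit 4) (nat_lit 387) (nat_lit 263) (nat_lit 250))) (XT.nd (nat_lit 78) (nat_lit 0) (nat_lit 0) (XT.lf (nat_lit 0) (nat_lit 54853719769) (nat_lit 76) (nat_lit 9748578670) (nat_lit 76) (nat_lit 8109838934) (nat_lit 4) (nat_lit 4) (nat_lit 5) (nat_lit 5) (nat_lit 5) (nat_lit 4) (nat_lit 388) (nat_lit 263) (nat_lit 249)) (XT.nd (nat_lit 78) (nat_lit 0) (nat_lit 0) (XT.lf (nat_lit 0) (nat_lit 64618286399) (nat_lit 76) (nat_lit 6634050244) (nat_lit 76) (nat_lit 4915677168) (nat_lit 4) (nat_lit 4) (nat_lit 5) (nat_lit 5) (nat_lit 5) (nat_lit 4) (nat_lit 389) (nat_lit 263) (nat_lit 248)) (XT.lf (nat_lit 0) (nat_lit 74705065079) (nat_lit 76) (nat_lit 3445041328) (nat_lit 76) (nat_lit 1650826978) (nat_lit 4) (nat_lit 4) (nat_lit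 5) (nat_lit 5) (nat_lit 5) (nat_lit 4) (nat_lit 390) (nat_lit 263) (nat_lit 247))))) (XT.nd (nat_lit 234) (nat_lit 0) (nat_lit 0) (XT.nd (nat_lit 78) (nat_lit 0) (nat_lit 0) (XT.lf (nat_lit 0) (nat_lit 1541437227) (nat_lit 76) (nat_lit 120943926) (nat_lit 152) (nat_lit 81954640222) (nat_lit 2) (nat_lit 5) (nat_lit 3) (nat_lit 5) (nat_lit 4) (nat_lit 4) (nat_lit 391) (nat_lit 263) (nat_lit 246)) (XT.nd (nat_lit 78) (nat_lit 0) (nat_lit 0) (XT.lf (nat_lit 0) (nat_lit 5144250526) (nat_lit 152) (nat_lit 79174225319) (nat_lit 0) (nat_lit 3301170136) (nat_lit 2) (nat_lit 5) (nat_lit 4) (nat_lit 4) (nat_lit 2) (nat_lit 4) (nat_lit 392) (nat_lit 263) (nat_lit 245)) (XT.lf (nat_lit 0) (nat_lit 8724251821) (nat_lit 152) (nat_lit 76283180331) (nat_lit 0) (nat_lit 6818776626) (nat_lit 2) (nat_lit 5) (nat_lit 4) (nat_lit 4) (nat_lit 2) (nat_lit 4) (nat_lit 393) (nat_lit 263) (nat_lit 244)))) (XT.nd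 (nat_lit 78) (nat_lit 0) (nat_lit 0) (XT.lf (nat_lit 0) (nat_lit 12409020577) (nat_lit 152) (nat_lit 73393677469) (nat_lit 0) (nat_lit 10444121758) (nat_lit 2) (nat_lit 5) (nat_lit 4) (nat_lit 4) (nat_lit 2) (nat_lit 4) (nat_lit 394) (nat_lit 263) (nat_lit 243)) (XT.nd (nat_lit 78) (nat_lit 0) (nat_lit 0) (XT.lf (nat_lit 0) (nat_lit 16207330053) (nat_lit 152) (nat_lit 70498836964) (nat_lit 0) (nat_lit 14185837306) (nat_lit 2) (nat_lit 5) (nat_lit 4) (nat_lit 4) (nat_lit 2) (nat_lit 4) (nat_lit 395) (nat_lit 263) (nat_lit 242)) (XT.lf (nat_lit 0) (nat_lit 20128223842) (nat_lit 152) (nat_lit 67591766340) (nat_lit 0) (nat_lit 18052832118) (nat_lit 2) (nat_lit 5) (nat_lit 4) (nat_lit 4) (nat_lit 2) (nat_lit 4) (nat_lit 396) (nat_lit 263) (nat_lit 241)))))) (XT.nd (nat_lit 468) (nat_lit 0) (nat_lit 0) (XT.nd (nat_lit 234) (nat_lit 0) (nat_lit 0) (XT.nd (nat_lit 78) (nat_lit 0) (nat_lit 0) (XT.lf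 (nat_lit 0) (nat_lit 24181037408) (nat_lit 152) (nat_lit 64665543999) (nat_lit 0) (nat_lit 22054313322) (nat_lit 2) (nat_lit 5) (nat_lit 4) (nat_lit 4) (nat_lit 2) (nat_lit 4) (nat_lit 397) (nat_lit 263) (nat_lit 240)) (XT.nd (nat_lit 78) (nat_lit 0) (nat_lit 0) (XT.lf (nat_lit 0) (nat_lit 28375420304) (nat_lit 152) (nat_lit 61713202746) (nat_lit 0) (nat_lit 26199808257) (nat_lit 2) (nat_lit 5) (nat_lit 4) (nat_lit 4) (nat_lit 2) (nat_lit 4) (nat_lit 398) (nat_lit 263) (nat_lit 239)) (XT.lf (nat_lit 0) (nat_lit 32721359159) (nat_lit 152) (nat_lit 58727713197) (nat_lit 0) (nat_lit 30499187146) (nat_lit 2) (nat_lit 5) (nat_lit 4) (nat_lit 4) (nat_lit 2) (nat_lit 4) (nat_lit 399) (nat_lit 263) (nat_lit 238)))) (XT.nd (nat_lit 78) (nat_lit 0) (nat_lit 0) (XT.lf (nat_lit 0) (nat_lit 37229201444) (nat_lit 152) (nat_lit 55701967043) (nat_lit 0) (nat_lit 34962686608) (nat_lit 2) (nat_lit 5) (nat_lit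 4) (nat_lit 4) (nat_lit 2) (nat_lit 4) (nat_lit 400) (nat_lit 263) (nat_lit 237)) (XT.nd (nat_lit 78) (nat_lit 0) (nat_lit 0) (XT.lf (nat_lit 0) (nat_lit 41909680117) (nat_lit 152) (nat_lit 52628760126) (nat_lit 0) (nat_lit 39600934022) (nat_lit 2) (nat_lit 5) (nat_lit 4) (nat_lit 4) (nat_lit 2) (nat_lit 4) (nat_lit 401) (nat_lit 263) (nat_lit 236)) (XT.lf (nat_lit 0) (nat_lit 46773939176) (nat_lit 152) (nat_lit 49500775287) (nat_lit 0) (nat_lit 44424972834) (nat_lit 2) (nat_lit 5) (nat_lit 4) (nat_lit 4) (nat_lit 2) (nat_lit 4) (nat_lit 402) (nat_lit 263) (nat_lit 235))))) (XT.nd (nat_lit 234) (nat_lit 0) (nat_lit 0) (XT.nd (nat_lit 78) (nat_lit 0) (nat_lit 0) (XT.lf (nat_lit 0) (nat_lit 51833560190) (nat_lit 152) (nat_lit 46310564944) (nat_lit 0) (nat_lit 49446288850) (nat_lit 2) (nat_lit 5) (nat_lit 4) (nat_lit 4) (nat_lit 2) (nat_lit 4) (nat_lit 403) (nat_lit 263) (nat_lit 234)) (XT.nd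 (nat_lit 78) (nat_lit 0) (nat_lit 0) (XT.lf (nat_lit 0) (nat_lit 57100589876) (nat_lit 152) (nat_lit 43050533358) (nat_lit 0) (nat_lit 54676837585) (nat_lit 2) (nat_lit 5) (nat_lit 4) (nat_lit 4) (nat_lit 2) (nat_lit 4) (nat_lit 404) (nat_lit 263) (nat_lit 233)) (XT.lf (nat_lit 0) (nat_lit 62587568779) (nat_lit 152) (nat_lit 39712918548) (nat_lit 0) (nat_lit 60129072726) (nat_lit 2) (nat_lit 5) (nat_lit 4) (nat_lit 4) (nat_lit 2) (nat_lit 4) (nat_lit 405) (nat_lit 263) (nat_lit 232)))) (XT.nd (nat_lit 78) (nat_lit 0) (nat_lit 0) (XT.lf (nat_lit 0) (nat_lit 68307561137) (nat_lit 152) (nat_lit 36289773812) (nat_lit 0) (nat_lit 65815975786) (nat_lit 2) (nat_lit 5) (nat_lit 4) (nat_lit 4) (nat_lit 2) (nat_lit 4) (nat_lit 406) (nat_lit 263) (nat_lit 231)) (XT.nd (nat_lit 78) (nat_lit 0) (nat_lit 0) (XT.lf (nat_lit 0) (nat_lit 74274185977) (nat_lit 152) (nat_lit 32772948806) (nat_lit 0) (nat_lit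 71751087011) (nat_lit 2) (nat_lit 5) (nat_lit 4) (nat_lit 4) (nat_lit 2) (nat_lit 4) (nat_lit 407) (nat_lit 263) (nat_lit 230)) (XT.lf (nat_lit 0) (nat_lit 80501649551) (nat_lit 152) (nat_lit 29154070138) (nat_lit 0) (nat_lit 77948537616) (nat_lit 2) (nat_lit 5) (nat_lit 4) (nat_lit 4) (nat_lit 2) (nat_lit 4) (nat_lit 408) (nat_lit 263) (nat_lit 229))))))) (XT.nd (nat_lit 936) (nat_lit 0) (nat_lit 0) (XT.nd (nat_lit 468) (nat_lit 76) (nat_lit 0) (XT.nd (nat_lit 234) (nat_lit 0) (nat_lit 0) (XT.nd (nat_lit 78) (nat_lit 0) (nat_lit 0) (XT.lf (nat_lit 0) (nat_lit 87004779151) (nat_lit 152) (nat_lit 25424521428) (nat_lit 0) (nat_lit 84423083437) (nat_lit 2) (nat_lit 5) (nat_lit 4) (nat_lit 4) (nat_lit 2) (nat_lit 4) (nat_lit 409) (nat_lit 263) (nat_lit 228)) (XT.nd (nat_lit 78) (nat_lit 0) (nat_lit 0) (XT.lf (nat_lit 0) (nat_lit 93799058420) (nat_lit 152) (nat_lit 21575422800) (nat_lit 0) (nat_lit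 91190140060) (nat_lit 2) (nat_lit 5) (nat_lit 4) (nat_lit 4) (nat_lit 2) (nat_lit 4) (nat_lit 410) (nat_lit 263) (nat_lit 227)) (XT.lf (nat_lit 0) (nat_lit 100900664214) (nat_lit 152) (nat_lit 17597609733) (nat_lit 0) (nat_lit 98265819523) (nat_lit 2) (nat_lit 5) (nat_lit 4) (nat_lit 4) (nat_lit 2) (nat_lit 4) (nat_lit 411) (nat_lit 263) (nat_lit 226)))) (XT.nd (nat_lit 78) (nat_lit 0) (nat_lit 0) (XT.lf (nat_lit 0) (nat_lit 108326505118) (nat_lit 152) (nat_lit 13481611243) (nat_lit 0) (nat_lit 105666968684) (nat_lit 2) (nat_lit 5) (nat_lit 4) (nat_lit 4) (nat_lit 2) (nat_lit 4) (nat_lit 412) (nat_lit 263) (nat_lit 225)) (XT.nd (nat_lit 78) (nat_lit 0) (nat_lit 0) (XT.lf (nat_lit 0) (nat_lit 116094261704) (nat_lit 152) (nat_lit 9217627335) (nat_lit 0) (nat_lit 113411209324) (nat_lit 2) (nat_lit 5) (nat_lit 4) (nat_lit 4) (nat_lit 2) (nat_lit 4) (nat_lit 413) (nat_lit 263) (nat_lit 224))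 (XT.lf (nat_lit 0) (nat_lit 124222428632) (nat_lit 152) (nat_lit 4795505664) (nat_lit 0) (nat_lit 121516980113) (nat_lit 2) (nat_lit 5) (nat_lit 4) (nat_lit 4) (nat_lit 2) (nat_lit 4) (nat_lit 414) (nat_lit 263) (nat_lit 223))))) (XT.nd (nat_lit 234) (nat_lit 0) (nat_lit 0) (XT.nd (nat_lit 78) (nat_lit 76) (nat_lit 0) (XT.lf (nat_lit 0) (nat_lit 132730358680) (nat_lit 152) (nat_lit 204717371) (nat_lit 0) (nat_lit 130003580506) (nat_lit 2) (nat_lit 5) (nat_lit 4) (nat_lit 4) (nat_lit 2) (nat_lit 4) (nat_lit 415) (nat_lit 263) (nat_lit 222)) (XT.nd (nat_lit 78) (nat_lit 0) (nat_lit 0) (XT.lf (nat_lit 0) (nat_lit 4716629595) (nat_lit 76) (nat_lit 136995319035) (nat_lit 76) (nat_lit 134248226902) (nat_lit 1) (nat_lit 4) (nat_lit 2) (nat_lit 5) (nat_lit 2) (nat_lit 4) (nat_lit 416) (nat_lit 263) (nat_lit 221)) (XT.lf (nat_lit 0) (nat_lit 9842014414) (nat_lit 76) (nat_lit 141279135484) (nat_lit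 76) (nat_lit 138512696724) (nat_lit 1) (nat_lit 4) (nat_lit 2) (nat_lit 5) (nat_lit 2) (nat_lit 4) (nat_lit 417) (nat_lit 263) (nat_lit 220)))) (XT.nd (nat_lit 78) (nat_lit 0) (nat_lit 0) (XT.lf (nat_lit 0) (nat_lit 15176871501) (nat_lit 76) (nat_lit 145800191947) (nat_lit 76) (nat_lit 143015327829) (nat_lit 1) (nat_lit 4) (nat_lit 2) (nat_lit 5) (nat_lit 2) (nat_lit 4) (nat_lit 418) (nat_lit 263) (nat_lit 219)) (XT.nd (nat_lit 78) (nat_lit 0) (nat_lit 0) (XT.lf (nat_lit 0) (nat_lit 20733902896) (nat_lit 76) (nat_lit 150569252846) (nat_lit 76) (nat_lit 147766840767) (nat_lit 1) (nat_lit 4) (nat_lit 2) (nat_lit 5) (nat_lit 2) (nat_lit 4) (nat_lit 419) (nat_lit 263) (nat_lit 218)) (XT.lf (nat_lit 0) (nat_lit 26526339626) (nat_lit 76) (nat_lit 155597673088) (nat_lit 76) (nat_lit 152778548665) (nat_lit 1) (nat_lit 4) (nat_lit 2) (nat_lit 5) (nat_lit 2) (nat_lit 4) (nat_lit 420) (nat_lit 263)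 (nat_lit 217)))))) (XT.nd (nat_lit 468) (nat_lit 0) (nat_lit 0) (XT.nd (nat_lit 234) (nat_lit 0) (nat_lit 0) (XT.nd (nat_lit 78) (nat_lit 0) (nat_lit 0) (XT.lf (nat_lit 0) (nat_lit 32567973208) (nat_lit 76) (nat_lit 160897425101) (nat_lit 76) (nat_lit 158062384161) (nat_lit 1) (nat_lit 4) (nat_lit 2) (nat_lit 5) (nat_lit 2) (nat_lit 4) (nat_lit 421) (nat_lit 263) (nat_lit 216)) (XT.nd (nat_lit 78) (nat_lit 0) (nat_lit 0) (XT.lf (nat_lit 0) (nat_lit 38873188483) (nat_lit 76) (nat_lit 166481127344) (nat_lit 76) (nat_lit 163630927814) (nat_lit 1) (nat_lit 4) (nat_lit 2) (nat_lit 5) (nat_lit 2) (nat_lit 4) (nat_lit 422) (nat_lit 263) (nat_lit 215)) (XT.lf (nat_lit 0) (nat_lit 45456997870) (nat_lit 76) (nat_lit 172362074344) (nat_lit 76) (nat_lit 169497438064) (nat_lit 1) (nat_lit 4) (nat_lit 2) (nat_lit 5) (nat_lit 2) (nat_lit 4) (nat_lit 423) (nat_lit 263) (nat_lit 214)))) (XT.nd (nat_lit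 78) (nat_lit 0) (nat_lit 0) (XT.lf (nat_lit 0) (nat_lit 52335077103) (nat_lit 76) (nat_lit 178554268356) (nat_lit 76) (nat_lit 175675882790) (nat_lit 1) (nat_lit 4) (nat_lit 2) (nat_lit 5) (nat_lit 2) (nat_lit 4) (nat_lit 424) (nat_lit 263) (nat_lit 213)) (XT.nd (nat_lit 78) (nat_lit 0) (nat_lit 0) (XT.lf (nat_lit 0) (nat_lit 59523802563) (nat_lit 76) (nat_lit 185072452701) (nat_lit 76) (nat_lit 182180972576) (nat_lit 1) (nat_lit 4) (nat_lit 2) (nat_lit 5) (nat_lit 2) (nat_lit 4) (nat_lit 425) (nat_lit 263) (nat_lit 212)) (XT.lf (nat_lit 0) (nat_lit 67040290263) (nat_lit 76) (nat_lit 191932146864) (nat_lit 76) (nat_lit 189028195730) (nat_lit 1) (nat_lit 4) (nat_lit 2) (nat_lit 5) (nat_lit 2) (nat_lit 4) (nat_lit 426) (nat_lit 263) (nat_lit 211))))) (XT.nd (nat_lit 234) (nat_lit 0) (nat_lit 0) (XT.nd (nat_lit 78) (nat_lit 0) (nat_lit 0) (XT.lf (nat_lit 0) (nat_lit 74902436601) (nat_lit 76)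 (nat_lit 199149683450) (nat_lit 76) (nat_lit 196233855166) (nat_lit 1) (nat_lit 4) (nat_lit 2) (nat_lit 5) (nat_lit 2) (nat_lit 4) (nat_lit 427) (nat_lit 263) (nat_lit 210)) (XT.nd (nat_lit 78) (nat_lit 0) (nat_lit 0) (XT.lf (nat_lit 0) (nat_lit 83128960974) (nat_lit 76) (nat_lit 206742247070) (nat_lit 76) (nat_lit 203815107215) (nat_lit 1) (nat_lit 4) (nat_lit 2) (nat_lit 5) (nat_lit 2) (nat_lit 4) (nat_lit 428) (nat_lit 263) (nat_lit 209)) (XT.lf (nat_lit 0) (nat_lit 91739450345) (nat_lit 76) (nat_lit 214727915258) (nat_lit 76) (nat_lit 211790002476) (nat_lit 1) (nat_lit 4) (nat_lit 2) (nat_lit 5) (nat_lit 2) (nat_lit 4) (nat_lit 429) (nat_lit 263) (nat_lit 208)))) (XT.nd (nat_lit 78) (nat_lit 0) (nat_lit 0) (XT.lf (nat_lit 0) (nat_lit 100754405879) (nat_lit 76) (nat_lit 223125701508) (nat_lit 76) (nat_lit 220177528797) (nat_lit 1) (nat_lit 4) (nat_lit 2) (nat_lit 5) (nat_lit 2) (nat_lit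 4) (nat_lit 430) (nat_lit 263) (nat_lit 207)) (XT.nd (nat_lit 78) (nat_lit 0) (nat_lit 0) (XT.lf (nat_lit 0) (nat_lit 110195291755) (nat_lit 76) (nat_lit 231955600549) (nat_lit 76) (nat_lit 228997656477) (nat_lit 1) (nat_lit 4) (nat_lit 2) (nat_lit 5) (nat_lit 2) (nat_lit 4) (nat_lit 431) (nat_lit 263) (nat_lit 206)) (XT.lf (nat_lit 0) (nat_lit 120084586274) (nat_lit 76) (nat_lit 241238635952) (nat_lit 76) (nat_lit 238271385822) (nat_lit 1) (nat_lit 4) (nat_lit 2) (nat_lit 5) (nat_lit 2) (nat_lit 4) (nat_lit 432) (nat_lit 263) (nat_lit 205))))))))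
noncomputable def xc23 : XT := (XT.nd (nat_lit 43524) (nat_lit 0) (nat_lit 76) (XT.nd (nat_lit 42588) (nat_lit 0) (nat_lit 228) (XT.nd (nat_lit 42120) (nat_lit 0) (nat_lit 304) (XT.nd (nat_lit 234) (nat_lit 0) (nat_lit 0) (XT.nd (nat_lit 78) (nat_lit 0) (nat_lit 0) (XT.lf (nat_lit 0) (nat_lit 130445835374) (nat_lit 76) (nat_lit 250996910180) (nat_lit 76) (nat_lit 248020797137) (nat_lit 1) (nat_lit 4) (nat_lit 2) (nat_lit 5) (nat_lit 2) (nat_lit 4) (nat_lit 433) (nat_lit 263) (nat_lit 204)) (XT.nd (nat_lit 78) (nat_lit 0) (nat_lit 0) (XT.lf (nat_lit 0) (nat_lit 141303708697) (nat_lit 76) (nat_lit 261253657221) (nat_lit 76) (nat_lit 258269103309) (nat_lit 1) (nat_lit 4) (nat_lit 2) (nat_lit 5) (nat_lit 2) (nat_lit 4) (nat_lit 434) (nat_lit 263) (nat_lit 203)) (XT.lf (nat_lit 0) (nat_lit 152684058321) (nat_lit 76) (nat_lit 272033297900) (nat_lit 76) (nat_lit 269040705065) (nat_lit 1) (nat_lit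 4) (nat_lit 2) (nat_lit 5) (nat_lit 2) (nat_lit 4) (nat_lit 435) (nat_lit 263) (nat_lit 202)))) (XT.nd (nat_lit 78) (nat_lit 0) (nat_lit 0) (XT.lf (nat_lit 0) (nat_lit 164613980318) (nat_lit 76) (nat_lit 283361498029) (nat_lit 76) (nat_lit 280361249077) (nat_lit 1) (nat_lit 4) (nat_lit 2) (nat_lit 5) (nat_lit 2) (nat_lit 4) (nat_lit 436) (nat_lit 263) (nat_lit 201)) (XT.nd (nat_lit 78) (nat_lit 0) (nat_lit 0) (XT.lf (nat_lit 0) (nat_lit 177121879263) (nat_lit 76) (nat_lit 295265229513) (nat_lit 76) (nat_lit 292257689021) (nat_lit 1) (nat_lit 4) (nat_lit 2) (nat_lit 5) (nat_lit 2) (nat_lit 4) (nat_lit 437) (nat_lit 263) (nat_lit 200)) (XT.lf (nat_lit 0) (nat_lit 190237535868) (nat_lit 76) (nat_lit 307772834570) (nat_lit 76) (nat_lit 304758349753) (nat_lit 1) (nat_lit 4) (nat_lit 2) (nat_lit 5) (nat_lit 2) (nat_lit 4) (nat_lit 438) (nat_lit 263) (nat_lit 199))))) (XT.nd (nat_lit 234) (nat_lit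 152) (nat_lit 0) (XT.nd (nat_lit 78) (nat_lit 76) (nat_lit 0) (XT.lf (nat_lit 0) (nat_lit 8917173417) (nat_lit 152) (nat_lit 39404668) (nat_lit 0) (nat_lit 8917173417) (nat_lit 8) (nat_lit 5) (nat_lit 10) (nat_lit 4) (nat_lit 8) (nat_lit 4) (nat_lit 372) (nat_lit 264) (nat_lit 264)) (XT.nd (nat_lit 78) (nat_lit 0) (nat_lit 0) (XT.lf (nat_lit 0) (nat_lit 9829478278) (nat_lit 76) (nat_lit 13811797209) (nat_lit 76) (nat_lit 13637967616) (nat_lit 7) (nat_lit 4) (nat_lit 8) (nat_lit 5) (nat_lit 8) (nat_lit 4) (nat_lit 373) (nat_lit 264) (nat_lit 263)) (XT.lf (nat_lit 0) (nat_lit 19923693983) (nat_lit 76) (nat_lit 9655621564) (nat_lit 76) (nat_lit 9316239979) (nat_lit 7) (nat_lit 4) (nat_lit 8) (nat_lit 5) (nat_lit 8) (nat_lit 4) (nat_lit 374) (nat_lit 264) (nat_lit 262)))) (XT.nd (nat_lit 78) (nat_lit 152) (nat_lit 0) (XT.lf (nat_lit 0) (nat_lit 30225265831) (nat_lit 76) (nat_lit 5436068256)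 (nat_lit 76) (nat_lit 4939018105) (nat_lit 7) (nat_lit 4) (nat_lit 8) (nat_lit 5) (nat_lit 8) (nat_lit 4) (nat_lit 375) (nat_lit 264) (nat_lit 261)) (XT.nd (nat_lit 78) (nat_lit 152) (nat_lit 0) (XT.lf (nat_lit 0) (nat_lit 40758721375) (nat_lit 76) (nat_lit 1143090727) (nat_lit 76) (nat_lit 495880039) (nat_lit 7) (nat_lit 4) (nat_lit 8) (nat_lit 5) (nat_lit 8) (nat_lit 4) (nat_lit 376) (nat_lit 264) (nat_lit 260)) (XT.lf (nat_lit 0) (nat_lit 4064424288) (nat_lit 152) (nat_lit 36903983420) (nat_lit 0) (nat_lit 3311833122) (nat_lit 5) (nat_lit 5) (nat_lit 7) (nat_lit 4) (nat_lit 5) (nat_lit 4) (nat_lit 377) (nat_lit 264) (nat_lit 259)))))) (XT.nd (nat_lit 468) (nat_lit 0) (nat_lit 0) (XT.nd (nat_lit 234) (nat_lit 76) (nat_lit 0) (XT.nd (nat_lit 78) (nat_lit 0) (nat_lit 0) (XT.lf (nat_lit 0) (nat_lit 8742477095) (nat_lit 152) (nat_lit 29658560351) (nat_lit 0) (nat_lit 7860171610) (nat_lit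 5) (nat_lit 5) (nat_lit 7) (nat_lit 4) (nat_lit 5) (nat_lit 4) (nat_lit 378) (nat_lit 264) (nat_lit 258)) (XT.nd (nat_lit 78) (nat_lit 0) (nat_lit 0) (XT.lf (nat_lit 0) (nat_lit 13520572639) (nat_lit 152) (nat_lit 22312633930) (nat_lit 0) (nat_lit 12514729708) (nat_lit 5) (nat_lit 5) (nat_lit 7) (nat_lit 4) (nat_lit 5) (nat_lit 4) (nat_lit 379) (nat_lit 264) (nat_lit 257)) (XT.lf (nat_lit 0) (nat_lit 18410087336) (nat_lit 152) (nat_lit 14848713857) (nat_lit 0) (nat_lit 17286589695) (nat_lit 5) (nat_lit 5) (nat_lit 7) (nat_lit 4) (nat_lit 5) (nat_lit 4) (nat_lit 380) (nat_lit 264) (nat_lit 256)))) (XT.nd (nat_lit 78) (nat_lit 76) (nat_lit 0) (XT.lf (nat_lit 0) (nat_lit 23422662890) (nat_lit 152) (nat_lit 7249028894) (nat_lit 0) (nat_lit 22187113143) (nat_lit 5) (nat_lit 5) (nat_lit 7) (nat_lit 4) (nat_lit 5) (nat_lit 4) (nat_lit 381) (nat_lit 264) (nat_lit 255)) (XT.nd (nat_lit 78) (nat_lit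 0) (nat_lit 0) (XT.lf (nat_lit 0) (nat_lit 521197006) (nat_lit 76) (nat_lit 28057174342) (nat_lit 76) (nat_lit 26714908305) (nat_lit 4) (nat_lit 4) (nat_lit 5) (nat_lit 5) (nat_lit 5) (nat_lit 4) (nat_lit 382) (nat_lit 264) (nat_lit 254)) (XT.lf (nat_lit 0) (nat_lit 8709126422) (nat_lit 76) (nat_lit 25291904245) (nat_lit 76) (nat_lit 23848003645) (nat_lit 4) (nat_lit 4) (nat_lit 5) (nat_lit 5) (nat_lit 5) (nat_lit 4) (nat_lit 383) (nat_lit 264) (nat_lit 253))))) (XT.nd (nat_lit 234) (nat_lit 0) (nat_lit 0) (XT.nd (nat_lit 78) (nat_lit 0) (nat_lit 0) (XT.lf (nat_lit 0) (nat_lit 17094568790) (nat_lit 76) (nat_lit 22492063329) (nat_lit 76) (nat_lit 20951367907) (nat_lit 4) (nat_lit 4) (nat_lit 5) (nat_lit 5) (nat_lit 5) (nat_lit 4) (nat_lit 384) (nat_lit 264) (nat_lit 252)) (XT.nd (nat_lit 78) (nat_lit 0) (nat_lit 0) (XT.lf (nat_lit 0) (nat_lit 25697489450) (nat_lit 76) (nat_lit 19650985305)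 (nat_lit 76) (nat_lit 18018104339) (nat_lit 4) (nat_lit 4) (nat_lit 5) (nat_lit 5) (nat_lit 5) (nat_lit 4) (nat_lit 385) (nat_lit 264) (nat_lit 251)) (XT.lf (nat_lit 0) (nat_lit 34538371545) (nat_lit 76) (nat_lit 16761905702) (nat_lit 76) (nat_lit 15041228979) (nat_lit 4) (nat_lit 4) (nat_lit 5) (nat_lit 5) (nat_lit 5) (nat_lit 4) (nat_lit 386) (nat_lit 264) (nat_lit 250)))) (XT.nd (nat_lit 78) (nat_lit 0) (nat_lit 0) (XT.lf (nat_lit 0) (nat_lit 43638264796) (nat_lit 76) (nat_lit 13817945760) (nat_lit 76) (nat_lit 12013654031) (nat_lit 4) (nat_lit 4) (nat_lit 5) (nat_lit 5) (nat_lit 5) (nat_lit 4) (nat_lit 387) (nat_lit 264) (nat_lit 249)) (XT.nd (nat_lit 78) (nat_lit 0) (nat_lit 0) (XT.lf (nat_lit 0) (nat_lit 53018835614) (nat_lit 76) (nat_lit 10812096049) (nat_lit 76) (nat_lit 8928170980) (nat_lit 4) (nat_lit 4) (nat_lit 5) (nat_lit 5) (nat_lit 5) (nat_lit 4) (nat_lit 388) (nat_lit 264)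 (nat_lit 248)) (XT.lf (nat_lit 0) (nat_lit 62702418692) (nat_lit 76) (nat_lit 7737199785) (nat_lit 76) (nat_lit 5777433441) (nat_lit 4) (nat_lit 4) (nat_lit 5) (nat_lit 5) (nat_lit 5) (nat_lit 4) (nat_lit 389) (nat_lit 264) (nat_lit 247))))))) (XT.nd (nat_lit 936) (nat_lit 0) (nat_lit 0) (XT.nd (nat_lit 468) (nat_lit 0) (nat_lit 0) (XT.nd (nat_lit 234) (nat_lit 0) (nat_lit 0) (XT.nd (nat_lit 78) (nat_lit 152) (nat_lit 0) (XT.lf (nat_lit 0) (nat_lit 72712070180) (nat_lit 76) (nat_lit 4585935786) (nat_lit 76) (nat_lit 2553939656) (nat_lit 4) (nat_lit 4) (nat_lit 5) (nat_lit 5) (nat_lit 5) (nat_lit 4) (nat_lit 390) (nat_lit 264) (nat_lit 246)) (XT.nd (nat_lit 78) (nat_lit 76) (nat_lit 0) (XT.lf (nat_lit 0) (nat_lit 725981144) (nat_lit 152) (nat_lit 612525056) (nat_lit 76) (nat_lit 82333346595) (nat_lit 3) (nat_lit 5) (nat_lit 5) (nat_lit 5) (nat_lit 4) (nat_lit 4) (nat_lit 391) (nat_lit 264)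 (nat_lit 245)) (XT.lf (nat_lit 0) (nat_lit 4140777986) (nat_lit 152) (nat_lit 81459423148) (nat_lit 0) (nat_lit 2077634226) (nat_lit 2) (nat_lit 5) (nat_lit 4) (nat_lit 4) (nat_lit 2) (nat_lit 4) (nat_lit 392) (nat_lit 264) (nat_lit 244)))) (XT.nd (nat_lit 78) (nat_lit 0) (nat_lit 0) (XT.lf (nat_lit 0) (nat_lit 7684568255) (nat_lit 152) (nat_lit 78639643709) (nat_lit 0) (nat_lit 5562000871) (nat_lit 2) (nat_lit 5) (nat_lit 4) (nat_lit 4) (nat_lit 2) (nat_lit 4) (nat_lit 393) (nat_lit 264) (nat_lit 243)) (XT.nd (nat_lit 78) (nat_lit 0) (nat_lit 0) (XT.lf (nat_lit 0) (nat_lit 11334850319) (nat_lit 152) (nat_lit 75818012799) (nat_lit 0) (nat_lit 9155689008) (nat_lit 2) (nat_lit 5) (nat_lit 4) (nat_lit 4) (nat_lit 2) (nat_lit 4) (nat_lit 394) (nat_lit 264) (nat_lit 242)) (XT.lf (nat_lit 0) (nat_lit 15100315327) (nat_lit 152) (nat_lit 72987812248) (nat_lit 0) (nat_lit 12867255037) (nat_lit 2)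 (nat_lit 5) (nat_lit 4) (nat_lit 4) (nat_lit 2) (nat_lit 4) (nat_lit 395) (nat_lit 264) (nat_lit 241))))) (XT.nd (nat_lit 234) (nat_lit 0) (nat_lit 0) (XT.nd (nat_lit 78) (nat_lit 0) (nat_lit 0) (XT.lf (nat_lit 0) (nat_lit 18989928671) (nat_lit 152) (nat_lit 70142303485) (nat_lit 0) (nat_lit 16705536020) (nat_lit 2) (nat_lit 5) (nat_lit 4) (nat_lit 4) (nat_lit 2) (nat_lit 4) (nat_lit 396) (nat_lit 264) (nat_lit 240)) (XT.nd (nat_lit 78) (nat_lit 0) (nat_lit 0) (XT.lf (nat_lit 0) (nat_lit 23012951335) (nat_lit 152) (nat_lit 67274711488) (nat_lit 0) (nat_lit 20679670722) (nat_lit 2) (nat_lit 5) (nat_lit 4) (nat_lit 4) (nat_lit 2) (nat_lit 4) (nat_lit 397) (nat_lit 264) (nat_lit 239)) (XT.lf (nat_lit 0) (nat_lit 27178961945) (nat_lit 152) (nat_lit 64378208657) (nat_lit 0) (nat_lit 24799121368) (nat_lit 2) (nat_lit 5) (nat_lit 4) (nat_lit 4) (nat_lit 2) (nat_lit 4) (nat_lit 398) (nat_lit 264)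 (nat_lit 238)))) (XT.nd (nat_lit 78) (nat_lit 0) (nat_lit 0) (XT.lf (nat_lit 0) (nat_lit 31497879574) (nat_lit 152) (nat_lit 61445898558) (nat_lit 0) (nat_lit 29073696174) (nat_lit 2) (nat_lit 5) (nat_lit 4) (nat_lit 4) (nat_lit 2) (nat_lit 4) (nat_lit 399) (nat_lit 264) (nat_lit 237)) (XT.nd (nat_lit 78) (nat_lit 0) (nat_lit 0) (XT.lf (nat_lit 0) (nat_lit 35979987359) (nat_lit 152) (nat_lit 58470799499) (nat_lit 0) (nat_lit 33513572699) (nat_lit 2) (nat_lit 5) (nat_lit 4) (nat_lit 4) (nat_lit 2) (nat_lit 4) (nat_lit 400) (nat_lit 264) (nat_lit 236)) (XT.lf (nat_lit 0) (nat_lit 40635956985) (nat_lit 152) (nat_lit 55445827911) (nat_lit 0) (nat_lit 38129322077) (nat_lit 2) (nat_lit 5) (nat_lit 4) (nat_lit 4) (nat_lit 2) (nat_lit 4) (nat_lit 401) (nat_lit 264) (nat_lit 235)))))) (XT.nd (nat_lit 468) (nat_lit 0) (nat_lit 0) (XT.nd (nat_lit 234) (nat_lit 0) (nat_lit 0) (XT.nd (nat_lit 78) (nat_lit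 0) (nat_lit 0) (XT.lf (nat_lit 0) (nat_lit 45476874093) (nat_lit 152) (nat_lit 52363781481) (nat_lit 0) (nat_lit 42931934188) (nat_lit 2) (nat_lit 5) (nat_lit 4) (nat_lit 4) (nat_lit 2) (nat_lit 4) (nat_lit 402) (nat_lit 264) (nat_lit 234)) (XT.nd (nat_lit 78) (nat_lit 0) (nat_lit 0) (XT.lf (nat_lit 0) (nat_lit 50514264678) (nat_lit 152) (nat_lit 49217322003) (nat_lit 0) (nat_lit 47932843823) (nat_lit 2) (nat_lit 5) (nat_lit 4) (nat_lit 4) (nat_lit 2) (nat_lit 4) (nat_lit 403) (nat_lit 264) (nat_lit 233)) (XT.lf (nat_lit 0) (nat_lit 55760122527) (nat_lit 152) (nat_lit 45998957907) (nat_lit 0) (nat_lit 53143957909) (nat_lit 2) (nat_lit 5) (nat_lit 4) (nat_lit 4) (nat_lit 2) (nat_lit 4) (nat_lit 404) (nat_lit 264) (nat_lit 232)))) (XT.nd (nat_lit 78) (nat_lit 0) (nat_lit 0) (XT.lf (nat_lit 0) (nat_lit 61226937776) (nat_lit 152) (nat_lit 42701026421) (nat_lit 0) (nat_lit 58577683861) (nat_lit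 2) (nat_lit 5) (nat_lit 4) (nat_lit 4) (nat_lit 2) (nat_lit 4) (nat_lit 405) (nat_lit 264) (nat_lit 231)) (XT.nd (nat_lit 78) (nat_lit 0) (nat_lit 0) (XT.lf (nat_lit 0) (nat_lit 66927726653) (nat_lit 152) (nat_lit 39315675328) (nat_lit 0) (nat_lit 64246959122) (nat_lit 2) (nat_lit 5) (nat_lit 4) (nat_lit 4) (nat_lit 2) (nat_lit 4) (nat_lit 406) (nat_lit 264) (nat_lit 230)) (XT.lf (nat_lit 0) (nat_lit 72876062465) (nat_lit 152) (nat_lit 35834844268) (nat_lit 0) (nat_lit 70165281965) (nat_lit 2) (nat_lit 5) (nat_lit 4) (nat_lit 4) (nat_lit 2) (nat_lit 4) (nat_lit 407) (nat_lit 264) (nat_lit 229))))) (XT.nd (nat_lit 234) (nat_lit 0) (nat_lit 0) (XT.nd (nat_lit 78) (nat_lit 0) (nat_lit 0) (XT.lf (nat_lit 0) (nat_lit 79086107915) (nat_lit 152) (nat_lit 32250245547) (nat_lit 0) (nat_lit 76346743637) (nat_lit 2) (nat_lit 5) (nat_lit 4) (nat_lit 4) (nat_lit 2) (nat_lit 4) (nat_lit 408) (nat_lit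 264) (nat_lit 228)) (XT.nd (nat_lit 78) (nat_lit 0) (nat_lit 0) (XT.lf (nat_lit 0) (nat_lit 85572648828) (nat_lit 152) (nat_lit 28553344406) (nat_lit 0) (nat_lit 82806061902) (nat_lit 2) (nat_lit 5) (nat_lit 4) (nat_lit 4) (nat_lit 2) (nat_lit 4) (nat_lit 409) (nat_lit 264) (nat_lit 227)) (XT.lf (nat_lit 0) (nat_lit 92351129346) (nat_lit 152) (nat_lit 24735338701) (nat_lit 0) (nat_lit 89558616090) (nat_lit 2) (nat_lit 5) (nat_lit 4) (nat_lit 4) (nat_lit 2) (nat_lit 4) (nat_lit 410) (nat_lit 264) (nat_lit 226)))) (XT.nd (nat_lit 78) (nat_lit 0) (nat_lit 0) (XT.lf (nat_lit 0) (nat_lit 99437688710) (nat_lit 152) (nat_lit 20787137942) (nat_lit 0) (nat_lit 96620483712) (nat_lit 2) (nat_lit 5) (nat_lit 4) (nat_lit 4) (nat_lit 2) (nat_lit 4) (nat_lit 411) (nat_lit 264) (nat_lit 225)) (XT.nd (nat_lit 78) (nat_lit 0) (nat_lit 0) (XT.lf (nat_lit 0) (nat_lit 106849199681) (nat_lit 152) (nat_lit 16699341650)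 (nat_lit 0) (nat_lit 104008478736) (nat_lit 2) (nat_lit 5) (nat_lit 4) (nat_lit 4) (nat_lit 2) (nat_lit 4) (nat_lit 412) (nat_lit 264) (nat_lit 224)) (XT.lf (nat_lit 0) (nat_lit 114603308713) (nat_lit 152) (nat_lit 12462216977) (nat_lit 0) (nat_lit 111740191629) (nat_lit 2) (nat_lit 5) (nat_lit 4) (nat_lit 4) (nat_lit 2) (nat_lit 4) (nat_lit 413) (nat_lit 264) (nat_lit 223))))))))
noncomputable def xc24 : XT := (XT.nd (nat_lit 1794) (nat_lit 0) (nat_lit 0) (XT.nd (nat_lit 858) (nat_lit 0) (nat_lit 0) (XT.nd (nat_lit 390) (nat_lit 0) (nat_lit 0) (XT.nd (nat_lit 156) (nat_lit 76) (nat_lit 0) (XT.nd (nat_lit 78) (nat_lit 0) (nat_lit 0) (XT.lf (nat_lit 0) (nat_lit 122718477969) (nat_lit 152) (nat_lit 8065675531) (nat_lit 0) (nat_lit 119834031230) (nat_lit 2) (nat_lit 5) (nat_lit 4) (nat_lit 4) (nat_lit 2) (nat_lit 4) (nat_lit 414) (nat_lit 264) (nat_lit 222)) (XT.lf (nat_lit 0) (nat_lit 131214029283)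 (nat_lit 152) (nat_lit 3499249357) (nat_lit 0) (nat_lit 128309268585) (nat_lit 2) (nat_lit 5) (nat_lit 4) (nat_lit 4) (nat_lit 2) (nat_lit 4) (nat_lit 415) (nat_lit 264) (nat_lit 221))) (XT.nd (nat_lit 78) (nat_lit 0) (nat_lit 0) (XT.lf (nat_lit 0) (nat_lit 1289196322) (nat_lit 76) (nat_lit 138841121802) (nat_lit 76) (nat_lit 135917014477) (nat_lit 1) (nat_lit 4) (nat_lit 2) (nat_lit 5) (nat_lit 2) (nat_lit 4) (nat_lit 416) (nat_lit 264) (nat_lit 220)) (XT.nd (nat_lit 78) (nat_lit 0) (nat_lit 0) (XT.lf (nat_lit 0) (nat_lit 6391753349) (nat_lit 76) (nat_lit 143136181759) (nat_lit 76) (nat_lit 140193649075) (nat_lit 1) (nat_lit 4) (nat_lit 2) (nat_lit 5) (nat_lit 2) (nat_lit 4) (nat_lit 417) (nat_lit 264) (nat_lit 219)) (XT.lf (nat_lit 0) (nat_lit 11704869681) (nat_lit 76) (nat_lit 147667946326) (nat_lit 76) (nat_lit 144707865682) (nat_lit 1) (nat_lit 4) (nat_lit 2) (nat_lit 5) (nat_lit 2)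 (nat_lit 4) (nat_lit 418) (nat_lit 264) (nat_lit 218))))) (XT.nd (nat_lit 234) (nat_lit 0) (nat_lit 0) (XT.nd (nat_lit 78) (nat_lit 0) (nat_lit 0) (XT.lf (nat_lit 0) (nat_lit 17241195596) (nat_lit 76) (nat_lit 152447205419) (nat_lit 76) (nat_lit 149470412431) (nat_lit 1) (nat_lit 4) (nat_lit 2) (nat_lit 5) (nat_lit 2) (nat_lit 4) (nat_lit 419) (nat_lit 264) (nat_lit 217)) (XT.nd (nat_lit 78) (nat_lit 0) (nat_lit 0) (XT.lf (nat_lit 0) (nat_lit 23013912822) (nat_lit 76) (nat_lit 157485338226) (nat_lit 76) (nat_lit 154492628721) (nat_lit 1) (nat_lit 4) (nat_lit 2) (nat_lit 5) (nat_lit 2) (nat_lit 4) (nat_lit 420) (nat_lit 264) (nat_lit 216)) (XT.lf (nat_lit 0) (nat_lit 29036765923) (nat_lit 76) (nat_lit 162794340302) (nat_lit 76) (nat_lit 159786472208) (nat_lit 1) (nat_lit 4) (nat_lit 2) (nat_lit 5) (nat_lit 2) (nat_lit 4) (nat_lit 421) (nat_lit 264) (nat_lit 215)))) (XT.nd (nat_lit 78) (nat_lit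 0) (nat_lit 0) (XT.lf (nat_lit 0) (nat_lit 35324095026) (nat_lit 76) (nat_lit 168386852128) (nat_lit 76) (nat_lit 165364547283) (nat_lit 1) (nat_lit 4) (nat_lit 2) (nat_lit 5) (nat_lit 2) (nat_lit 4) (nat_lit 422) (nat_lit 264) (nat_lit 214)) (XT.nd (nat_lit 78) (nat_lit 0) (nat_lit 0) (XT.lf (nat_lit 0) (nat_lit 41890869963) (nat_lit 76) (nat_lit 174276189207) (nat_lit 76) (nat_lit 171240135076) (nat_lit 1) (nat_lit 4) (nat_lit 2) (nat_lit 5) (nat_lit 2) (nat_lit 4) (nat_lit 423) (nat_lit 264) (nat_lit 213)) (XT.lf (nat_lit 0) (nat_lit 48752725911) (nat_lit 76) (nat_lit 180476373771) (nat_lit 76) (nat_lit 177427225082) (nat_lit 1) (nat_lit 4) (nat_lit 2) (nat_lit 5) (nat_lit 2) (nat_lit 4) (nat_lit 424) (nat_lit 264) (nat_lit 212)))))) (XT.nd (nat_lit 468) (nat_lit 0) (nat_lit 0) (XT.nd (nat_lit 234) (nat_lit 0) (nat_lit 0) (XT.nd (nat_lit 78) (nat_lit 0) (nat_lit 0) (XT.lf (nat_lit 0)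 (nat_lit 55926000623) (nat_lit 76) (nat_lit 187002168165) (nat_lit 76) (nat_lit 183940548467) (nat_lit 1) (nat_lit 4) (nat_lit 2) (nat_lit 5) (nat_lit 2) (nat_lit 4) (nat_lit 425) (nat_lit 264) (nat_lit 211)) (XT.nd (nat_lit 78) (nat_lit 0) (nat_lit 0) (XT.lf (nat_lit 0) (nat_lit 63427773324) (nat_lit 76) (nat_lit 193869109994) (nat_lit 76) (nat_lit 190795613145) (nat_lit 1) (nat_lit 4) (nat_lit 2) (nat_lit 5) (nat_lit 2) (nat_lit 4) (nat_lit 426) (nat_lit 264) (nat_lit 210)) (XT.lf (nat_lit 0) (nat_lit 71275905379) (nat_lit 76) (nat_lit 201093549119) (nat_lit 76) (nat_lit 198008740699) (nat_lit 1) (nat_lit 4) (nat_lit 2) (nat_lit 5) (nat_lit 2) (nat_lit 4) (nat_lit 427) (nat_lit 264) (nat_lit 209)))) (XT.nd (nat_lit 78) (nat_lit 0) (nat_lit 0) (XT.lf (nat_lit 0) (nat_lit 79489082815) (nat_lit 76) (nat_lit 208692686587) (nat_lit 76) (nat_lit 205597105240) (nat_lit 1) (nat_lit 4) (nat_lit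 2) (nat_lit 5) (nat_lit 2) (nat_lit 4) (nat_lit 428) (nat_lit 264) (nat_lit 208)) (XT.nd (nat_lit 78) (nat_lit 0) (nat_lit 0) (XT.lf (nat_lit 0) (nat_lit 88086860817) (nat_lit 76) (nat_lit 216684615580) (nat_lit 76) (nat_lit 213578774305) (nat_lit 1) (nat_lit 4) (nat_lit 2) (nat_lit 5) (nat_lit 2) (nat_lit 4) (nat_lit 429) (nat_lit 264) (nat_lit 207)) (XT.lf (nat_lit 0) (nat_lit 97089710285) (nat_lit 76) (nat_lit 225088364503) (nat_lit 76) (nat_lit 221972751866) (nat_lit 1) (nat_lit 4) (nat_lit 2) (nat_lit 5) (nat_lit 2) (nat_lit 4) (nat_lit 430) (nat_lit 264) (nat_lit 206))))) (XT.nd (nat_lit 234) (nat_lit 0) (nat_lit 0) (XT.nd (nat_lit 78) (nat_lit 0) (nat_lit 0) (XT.lf (nat_lit 0) (nat_lit 106519066575) (nat_lit 76) (nat_lit 233923942281) (nat_lit 76) (nat_lit 230799023586) (nat_lit 1) (nat_lit 4) (nat_lit 2) (nat_lit 5) (nat_lit 2) (nat_lit 4) (nat_lit 431) (nat_lit 264) (nat_lit 205))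 (XT.nd (nat_lit 78) (nat_lit 0) (nat_lit 0) (XT.lf (nat_lit 0) (nat_lit 116397380536) (nat_lit 76) (nat_lit 243212386003) (nat_lit 76) (nat_lit 240078604395) (nat_lit 1) (nat_lit 4) (nat_lit 2) (nat_lit 5) (nat_lit 2) (nat_lit 4) (nat_lit 432) (nat_lit 264) (nat_lit 204)) (XT.lf (nat_lit 0) (nat_lit 126748171962) (nat_lit 76) (nat_lit 252975811012) (nat_lit 76) (nat_lit 249833588536) (nat_lit 1) (nat_lit 4) (nat_lit 2) (nat_lit 5) (nat_lit 2) (nat_lit 4) (nat_lit 433) (nat_lit 264) (nat_lit 203)))) (XT.nd (nat_lit 78) (nat_lit 0) (nat_lit 0) (XT.lf (nat_lit 0) (nat_lit 137596085594) (nat_lit 76) (nat_lit 263237463559) (nat_lit 76) (nat_lit 260087202159) (nat_lit 1) (nat_lit 4) (nat_lit 2) (nat_lit 5) (nat_lit 2) (nat_lit 4) (nat_lit 434) (nat_lit 264) (nat_lit 202)) (XT.nd (nat_lit 78) (nat_lit 0) (nat_lit 0) (XT.lf (nat_lit 0) (nat_lit 148966949800) (nat_lit 76) (nat_lit 274021776148)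 (nat_lit 76) (nat_lit 270863858631) (nat_lit 1) (nat_lit 4) (nat_lit 2) (nat_lit 5) (nat_lit 2) (nat_lit 4) (nat_lit 435) (nat_lit 264) (nat_lit 201)) (XT.lf (nat_lit 0) (nat_lit 160887838064) (nat_lit 76) (nat_lit 285354425716) (nat_lit 76) (nat_lit 282189216658) (nat_lit 1) (nat_lit 4) (nat_lit 2) (nat_lit 5) (nat_lit 2) (nat_lit 4) (nat_lit 436) (nat_lit 264) (nat_lit 200))))))) (XT.nd (nat_lit 42432) (nat_lit 0) (nat_lit 228) (XT.nd (nat_lit 41964) (nat_lit 0) (nat_lit 304) (XT.nd (nat_lit 41730) (nat_lit 0) (nat_lit 456) (XT.nd (nat_lit 78) (nat_lit 0) (nat_lit 0) (XT.lf (nat_lit 0) (nat_lit 173387133455) (nat_lit 76) (nat_lit 297262394760) (nat_lit 76) (nat_lit 294090241378) (nat_lit 1) (nat_lit 4) (nat_lit 2) (nat_lit 5) (nat_lit 2) (nat_lit 4) (nat_lit 437) (nat_lit 264) (nat_lit 199)) (XT.nd (nat_lit 41574) (nat_lit 0) (nat_lit 532) (XT.lf (nat_lit 0) (nat_lit 186494596198) (nat_lit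 76) (nat_lit 309774035588) (nat_lit 76) (nat_lit 306595268565) (nat_lit 1) (nat_lit 4) (nat_lit 2) (nat_lit 5) (nat_lit 2) (nat_lit 4) (nat_lit 438) (nat_lit 264) (nat_lit 198)) (XT.lf (nat_lit 0) (nat_lit 3560518836) (nat_lit 152) (nat_lit 9331135279) (nat_lit 0) (nat_lit 3560518836) (nat_lit 8) (nat_lit 5) (nat_lit 10) (nat_lit 4) (nat_lit 8) (nat_lit 4) (nat_lit 370) (nat_lit 265) (nat_lit 265)))) (XT.nd (nat_lit 78) (nat_lit 76) (nat_lit 0) (XT.lf (nat_lit 0) (nat_lit 12476922444) (nat_lit 152) (nat_lit 9517879525) (nat_lit 0) (nat_lit 12294401372) (nat_lit 8) (nat_lit 5) (nat_lit 10) (nat_lit 4) (nat_lit 8) (nat_lit 4) (nat_lit 371) (nat_lit 265) (nat_lit 264)) (XT.nd (nat_lit 78) (nat_lit 76) (nat_lit 0) (XT.lf (nat_lit 0) (nat_lit 17937121670) (nat_lit 152) (nat_lit 233609714) (nat_lit 0) (nat_lit 17580771005) (nat_lit 8) (nat_lit 5) (nat_lit 10) (nat_lit 4) (nat_lit 8) (nat_lit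 4) (nat_lit 372) (nat_lit 265) (nat_lit 263)) (XT.lf (nat_lit 0) (nat_lit 9517255904) (nat_lit 76) (nat_lit 14145970955) (nat_lit 76) (nat_lit 13624068297) (nat_lit 7) (nat_lit 4) (nat_lit 8) (nat_lit 5) (nat_lit 8) (nat_lit 4) (nat_lit 373) (nat_lit 265) (nat_lit 262))))) (XT.nd (nat_lit 234) (nat_lit 152) (nat_lit 0) (XT.nd (nat_lit 78) (nat_lit 0) (nat_lit 0) (XT.lf (nat_lit 0) (nat_lit 19466420564) (nat_lit 76) (nat_lit 10060249514) (nat_lit 76) (nat_lit 9380678292) (nat_lit 7) (nat_lit 4) (nat_lit 8) (nat_lit 5) (nat_lit 8) (nat_lit 4) (nat_lit 374) (nat_lit 265) (nat_lit 261)) (XT.nd (nat_lit 78) (nat_lit 0) (nat_lit 0) (XT.lf (nat_lit 0) (nat_lit 29629848560) (nat_lit 76) (nat_lit 5907795447) (nat_lit 76) (nat_lit 5078063687) (nat_lit 7) (nat_lit 4) (nat_lit 8) (nat_lit 5) (nat_lit 8) (nat_lit 4) (nat_lit 375) (nat_lit 265) (nat_lit 260)) (XT.lf (nat_lit 0) (nat_lit 40031738531)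 (nat_lit 76) (nat_lit 1678721959) (nat_lit 76) (nat_lit 705980162) (nat_lit 7) (nat_lit 4) (nat_lit 8) (nat_lit 5) (nat_lit 8) (nat_lit 4) (nat_lit 376) (nat_lit 265) (nat_lit 259)))) (XT.nd (nat_lit 78) (nat_lit 0) (nat_lit 0) (XT.lf (nat_lit 0) (nat_lit 3771898482) (nat_lit 152) (nat_lit 37815957985) (nat_lit 0) (nat_lit 2715763404) (nat_lit 5) (nat_lit 5) (nat_lit 7) (nat_lit 4) (nat_lit 5) (nat_lit 4) (nat_lit 377) (nat_lit 265) (nat_lit 258)) (XT.nd (nat_lit 78) (nat_lit 0) (nat_lit 0) (XT.lf (nat_lit 0) (nat_lit 8384653775) (nat_lit 152) (nat_lit 30698226526) (nat_lit 0) (nat_lit 7204981251) (nat_lit 5) (nat_lit 5) (nat_lit 7) (nat_lit 4) (nat_lit 5) (nat_lit 4) (nat_lit 378) (nat_lit 265) (nat_lit 257)) (XT.lf (nat_lit 0) (nat_lit 13100561210) (nat_lit 152) (nat_lit 23473911163) (nat_lit 0) (nat_lit 11803233976) (nat_lit 5) (nat_lit 5) (nat_lit 7) (nat_lit 4) (nat_lit 5) (nat_lit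 4) (nat_lit 379) (nat_lit 265) (nat_lit 256)))))) (XT.nd (nat_lit 468) (nat_lit 0) (nat_lit 0) (XT.nd (nat_lit 234) (nat_lit 76) (nat_lit 0) (XT.nd (nat_lit 78) (nat_lit 0) (nat_lit 0) (XT.lf (nat_lit 0) (nat_lit 17930849137) (nat_lit 152) (nat_lit 16125811146) (nat_lit 0) (nat_lit 16521469798) (nat_lit 5) (nat_lit 5) (nat_lit 7) (nat_lit 4) (nat_lit 5) (nat_lit 4) (nat_lit 380) (nat_lit 265) (nat_lit 255)) (XT.nd (nat_lit 78) (nat_lit 0) (nat_lit 0) (XT.lf (nat_lit 0) (nat_lit 22887018243) (nat_lit 152) (nat_lit 8636430997) (nat_lit 0) (nat_lit 21370922612) (nat_lit 5) (nat_lit 5) (nat_lit 7) (nat_lit 4) (nat_lit 5) (nat_lit 4) (nat_lit 381) (nat_lit 265) (nat_lit 254)) (XT.lf (nat_lit 0) (nat_lit 27980868929) (nat_lit 152) (nat_lit 987938859) (nat_lit 0) (nat_lit 26363138736) (nat_lit 5) (nat_lit 5) (nat_lit 7) (nat_lit 4) (nat_lit 5) (nat_lit 4) (nat_lit 382) (nat_lit 265) (nat_lit 253))))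 (XT.nd (nat_lit 78) (nat_lit 0) (nat_lit 0) (XT.lf (nat_lit 0) (nat_lit 7063967021) (nat_lit 76) (nat_lit 26270850712) (nat_lit 76) (nat_lit 24556325698) (nat_lit 4) (nat_lit 4) (nat_lit 5) (nat_lit 5) (nat_lit 5) (nat_lit 4) (nat_lit 383) (nat_lit 265) (nat_lit 252)) (XT.nd (nat_lit 78) (nat_lit 0) (nat_lit 0) (XT.lf (nat_lit 0) (nat_lit 15350973377) (nat_lit 76) (nat_lit 23519182936) (nat_lit 76) (nat_lit 21712472378) (nat_lit 4) (nat_lit 4) (nat_lit 5) (nat_lit 5) (nat_lit 5) (nat_lit 4) (nat_lit 384) (nat_lit 265) (nat_lit 251)) (XT.lf (nat_lit 0) (nat_lit 23860145452) (nat_lit 76) (nat_lit 20723984094) (nat_lit 76) (nat_lit 18829477779) (nat_lit 4) (nat_lit 4) (nat_lit 5) (nat_lit 5) (nat_lit 5) (nat_lit 4) (nat_lit 385) (nat_lit 265) (nat_lit 250))))) (XT.nd (nat_lit 234) (nat_lit 0) (nat_lit 0) (XT.nd (nat_lit 78) (nat_lit 0) (nat_lit 0) (XT.lf (nat_lit 0) (nat_lit 32611743182) (nat_lit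 76) (nat_lit 17878598950) (nat_lit 76) (nat_lit 15900477628) (nat_lit 4) (nat_lit 4) (nat_lit 5) (nat_lit 5) (nat_lit 5) (nat_lit 4) (nat_lit 386) (nat_lit 265) (nat_lit 249)) (XT.nd (nat_lit 78) (nat_lit 0) (nat_lit 0) (XT.lf (nat_lit 0) (nat_lit 41626603703) (nat_lit 76) (nat_lit 14976252778) (nat_lit 76) (nat_lit 12918498117) (nat_lit 4) (nat_lit 4) (nat_lit 5) (nat_lit 5) (nat_lit 5) (nat_lit 4) (nat_lit 387) (nat_lit 265) (nat_lit 248)) (XT.lf (nat_lit 0) (nat_lit 50926190969) (nat_lit 76) (nat_lit 12010035229) (nat_lit 76) (nat_lit 9876439292) (nat_lit 4) (nat_lit 4) (nat_lit 5) (nat_lit 5) (nat_lit 5) (nat_lit 4) (nat_lit 388) (nat_lit 265) (nat_lit 247)))) (XT.nd (nat_lit 78) (nat_lit 0) (nat_lit 0) (XT.lf (nat_lit 0) (nat_lit 60532646855) (nat_lit 76) (nat_lit 8972883881) (nat_lit 76) (nat_lit 6767058158) (nat_lit 4) (nat_lit 4) (nat_lit 5) (nat_lit 5) (nat_lit 5) (nat_lit 4) (nat_lit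 389) (nat_lit 265) (nat_lit 246)) (XT.nd (nat_lit 78) (nat_lit 0) (nat_lit 0) (XT.lf (nat_lit 0) (nat_lit 70468843875) (nat_lit 76) (nat_lit 5857567421) (nat_lit 76) (nat_lit 3582951426) (nat_lit 4) (nat_lit 4) (nat_lit 5) (nat_lit 5) (nat_lit 5) (nat_lit 4) (nat_lit 390) (nat_lit 265) (nat_lit 245)) (XT.lf (nat_lit 0) (nat_lit 80758439640) (nat_lit 76) (nat_lit 2656668430) (nat_lit 76) (nat_lit 316537889) (nat_lit 4) (nat_lit 4) (nat_lit 5) (nat_lit 5) (nat_lit 5) (nat_lit 4) (nat_lit 391) (nat_lit 265) (nat_lit 244))))))))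
noncomputable def xc25 : XT := (XT.nd (nat_lit 1794) (nat_lit 76) (nat_lit 0) (XT.nd (nat_lit 858) (nat_lit 0) (nat_lit 0) (XT.nd (nat_lit 390) (nat_lit 0) (nat_lit 0) (XT.nd (nat_lit 156) (nat_lit 0) (nat_lit 0) (XT.nd (nat_lit 78) (nat_lit 0) (nat_lit 0) (XT.lf (nat_lit 0) (nat_lit 3012899215) (nat_lit 152) (nat_lit 84004975245) (nat_lit 0) (nat_lit 724779839) (nat_lit 2) (nat_lit 5) (nat_lit 4) (nat_lit 4) (nat_lit 2) (nat_lit 4) (nat_lit 392) (nat_lit 265) (nat_lit 243)) (XT.lf (nat_lit 0) (nat_lit 6522202793) (nat_lit 152) (nat_lit 81253067757) (nat_lit 0) (nat_lit 4177489488) (nat_lit 2) (nat_lit 5) (nat_lit 4) (nat_lit 4) (nat_lit 2) (nat_lit 4) (nat_lit 393) (nat_lit 265) (nat_lit 242))) (XT.nd (nat_lit 78) (nat_lit 0) (nat_lit 0) (XT.lf (nat_lit 0) (nat_lit 10139640389) (nat_lit 152) (nat_lit 78496076801) (nat_lit 0) (nat_lit 7741028106) (nat_lit 2) (nat_lit 5) (nat_lit 4) (nat_lit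 4) (nat_lit 2) (nat_lit 4) (nat_lit 394) (nat_lit 265) (nat_lit 241)) (XT.nd (nat_lit 78) (nat_lit 0) (nat_lit 0) (XT.lf (nat_lit 0) (nat_lit 13873824950) (nat_lit 152) (nat_lit 75727438111) (nat_lit 0) (nat_lit 11423880307) (nat_lit 2) (nat_lit 5) (nat_lit 4) (nat_lit 4) (nat_lit 2) (nat_lit 4) (nat_lit 395) (nat_lit 265) (nat_lit 240)) (XT.lf (nat_lit 0) (nat_lit 17733647394) (nat_lit 152) (nat_lit 72940559691) (nat_lit 0) (nat_lit 15234814788) (nat_lit 2) (nat_lit 5) (nat_lit 4) (nat_lit 4) (nat_lit 2) (nat_lit 4) (nat_lit 396) (nat_lit 265) (nat_lit 239))))) (XT.nd (nat_lit 234) (nat_lit 0) (nat_lit 0) (XT.nd (nat_lit 78) (nat_lit 0) (nat_lit 0) (XT.lf (nat_lit 0) (nat_lit 21728297771) (nat_lit 152) (nat_lit 70128806117) (nat_lit 0) (nat_lit 19182905202) (nat_lit 2) (nat_lit 5) (nat_lit 4) (nat_lit 4) (nat_lit 2) (nat_lit 4) (nat_lit 397) (nat_lit 265) (nat_lit 238)) (XT.nd (nat_lit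 78) (nat_lit 0) (nat_lit 0) (XT.lf (nat_lit 0) (nat_lit 25867287156) (nat_lit 152) (nat_lit 67285482737) (nat_lit 0) (nat_lit 23277551763) (nat_lit 2) (nat_lit 5) (nat_lit 4) (nat_lit 4) (nat_lit 2) (nat_lit 4) (nat_lit 398) (nat_lit 265) (nat_lit 237)) (XT.lf (nat_lit 0) (nat_lit 30160470285) (nat_lit 152) (nat_lit 64403819733) (nat_lit 0) (nat_lit 27528503632) (nat_lit 2) (nat_lit 5) (nat_lit 4) (nat_lit 4) (nat_lit 2) (nat_lit 4) (nat_lit 399) (nat_lit 265) (nat_lit 236)))) (XT.nd (nat_lit 78) (nat_lit 0) (nat_lit 0) (XT.lf (nat_lit 0) (nat_lit 34618069022) (nat_lit 152) (nat_lit 61476956002) (nat_lit 0) (nat_lit 31945882121) (nat_lit 2) (nat_lit 5) (nat_lit 4) (nat_lit 4) (nat_lit 2) (nat_lit 4) (nat_lit 400) (nat_lit 265) (nat_lit 235)) (XT.nd (nat_lit 78) (nat_lit 0) (nat_lit 0) (XT.lf (nat_lit 0) (nat_lit 39250696697) (nat_lit 152) (nat_lit 58497922823) (nat_lit 0) (nat_lit 36540204799)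 (nat_lit 2) (nat_lit 5) (nat_lit 4) (nat_lit 4) (nat_lit 2) (nat_lit 4) (nat_lit 401) (nat_lit 265) (nat_lit 234)) (XT.lf (nat_lit 0) (nat_lit 44069383377) (nat_lit 152) (nat_lit 55459627258) (nat_lit 0) (nat_lit 41322410528) (nat_lit 2) (nat_lit 5) (nat_lit 4) (nat_lit 4) (nat_lit 2) (nat_lit 4) (nat_lit 402) (nat_lit 265) (nat_lit 233)))))) (XT.nd (nat_lit 468) (nat_lit 0) (nat_lit 0) (XT.nd (nat_lit 234) (nat_lit 0) (nat_lit 0) (XT.nd (nat_lit 78) (nat_lit 0) (nat_lit 0) (XT.lf (nat_lit 0) (nat_lit 49085602125) (nat_lit 152) (nat_lit 52354835271) (nat_lit 0) (nat_lit 46303885514) (nat_lit 2) (nat_lit 5) (nat_lit 4) (nat_lit 4) (nat_lit 2) (nat_lit 4) (nat_lit 403) (nat_lit 265) (nat_lit 232)) (XT.nd (nat_lit 78) (nat_lit 0) (nat_lit 0) (XT.lf (nat_lit 0) (nat_lit 54311296319) (nat_lit 152) (nat_lit 49176154499) (nat_lit 0) (nat_lit 51496490411) (nat_lit 2) (nat_lit 5) (nat_lit 4) (nat_lit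 4) (nat_lit 2) (nat_lit 4) (nat_lit 404) (nat_lit 265) (nat_lit 231)) (XT.lf (nat_lit 0) (nat_lit 59758908088) (nat_lit 152) (nat_lit 45916016656) (nat_lit 0) (nat_lit 56912588563) (nat_lit 2) (nat_lit 5) (nat_lit 4) (nat_lit 4) (nat_lit 2) (nat_lit 4) (nat_lit 405) (nat_lit 265) (nat_lit 230)))) (XT.nd (nat_lit 78) (nat_lit 0) (nat_lit 0) (XT.lf (nat_lit 0) (nat_lit 65441407936) (nat_lit 152) (nat_lit 42566659507) (nat_lit 0) (nat_lit 62565075443) (nat_lit 2) (nat_lit 5) (nat_lit 4) (nat_lit 4) (nat_lit 2) (nat_lit 4) (nat_lit 406) (nat_lit 265) (nat_lit 229)) (XT.nd (nat_lit 78) (nat_lit 0) (nat_lit 0) (XT.lf (nat_lit 0) (nat_lit 71372325625) (nat_lit 152) (nat_lit 39120108394) (nat_lit 0) (nat_lit 68467409353) (nat_lit 2) (nat_lit 5) (nat_lit 4) (nat_lit 4) (nat_lit 2) (nat_lit 4) (nat_lit 407) (nat_lit 265) (nat_lit 228)) (XT.lf (nat_lit 0) (nat_lit 77565782387) (nat_lit 152) (nat_lit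 35568157243) (nat_lit 0) (nat_lit 74633643469) (nat_lit 2) (nat_lit 5) (nat_lit 4) (nat_lit 4) (nat_lit 2) (nat_lit 4) (nat_lit 408) (nat_lit 265) (nat_lit 227))))) (XT.nd (nat_lit 234) (nat_lit 0) (nat_lit 0) (XT.nd (nat_lit 78) (nat_lit 0) (nat_lit 0) (XT.lf (nat_lit 0) (nat_lit 84036524549) (nat_lit 152) (nat_lit 31902349026) (nat_lit 0) (nat_lit 81078459300) (nat_lit 2) (nat_lit 5) (nat_lit 4) (nat_lit 4) (nat_lit 2) (nat_lit 4) (nat_lit 409) (nat_lit 265) (nat_lit 226)) (XT.nd (nat_lit 78) (nat_lit 0) (nat_lit 0) (XT.lf (nat_lit 0) (nat_lit 90799958638) (nat_lit 152) (nat_lit 28113955628) (nat_lit 0) (nat_lit 87817201646) (nat_lit 2) (nat_lit 5) (nat_lit 4) (nat_lit 4) (nat_lit 2) (nat_lit 4) (nat_lit 410) (nat_lit 265) (nat_lit 225)) (XT.lf (nat_lit 0) (nat_lit 97872188070) (nat_lit 152) (nat_lit 24193957067) (nat_lit 0) (nat_lit 94865915132) (nat_lit 2) (nat_lit 5) (nat_lit 4) (nat_lit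 4) (nat_lit 2) (nat_lit 4) (nat_lit 411) (nat_lit 265) (nat_lit 224)))) (XT.nd (nat_lit 78) (nat_lit 0) (nat_lit 0) (XT.lf (nat_lit 0) (nat_lit 105270051485) (nat_lit 152) (nat_lit 20133020011) (nat_lit 0) (nat_lit 102241382409) (nat_lit 2) (nat_lit 5) (nat_lit 4) (nat_lit 4) (nat_lit 2) (nat_lit 4) (nat_lit 412) (nat_lit 265) (nat_lit 223)) (XT.nd (nat_lit 78) (nat_lit 0) (nat_lit 0) (XT.lf (nat_lit 0) (nat_lit 113011162845) (nat_lit 152) (nat_lit 15921475563) (nat_lit 0) (nat_lit 109961164113) (nat_lit 2) (nat_lit 5) (nat_lit 4) (nat_lit 4) (nat_lit 2) (nat_lit 4) (nat_lit 413) (nat_lit 265) (nat_lit 222)) (XT.lf (nat_lit 0) (nat_lit 121113953367) (nat_lit 152) (nat_lit 11549296236) (nat_lit 0) (nat_lit 118043640677) (nat_lit 2) (nat_lit 5) (nat_lit 4) (nat_lit 4) (nat_lit 2) (nat_lit 4) (nat_lit 414) (nat_lit 265) (nat_lit 221))))))) (XT.nd (nat_lit 936) (nat_lit 0) (nat_lit 0) (XT.nd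 (nat_lit 468) (nat_lit 0) (nat_lit 0) (XT.nd (nat_lit 234) (nat_lit 0) (nat_lit 0) (XT.nd (nat_lit 78) (nat_lit 76) (nat_lit 0) (XT.lf (nat_lit 0) (nat_lit 129597715410) (nat_lit 152) (nat_lit 7006072079) (nat_lit 0) (nat_lit 126508056092) (nat_lit 2) (nat_lit 5) (nat_lit 4) (nat_lit 4) (nat_lit 2) (nat_lit 4) (nat_lit 415) (nat_lit 265) (nat_lit 220)) (XT.nd (nat_lit 78) (nat_lit 76) (nat_lit 0) (XT.lf (nat_lit 0) (nat_lit 138482648406) (nat_lit 152) (nat_lit 2280985893) (nat_lit 0) (nat_lit 135374563730) (nat_lit 2) (nat_lit 5) (nat_lit 4) (nat_lit 4) (nat_lit 2) (nat_lit 4) (nat_lit 416) (nat_lit 265) (nat_lit 219)) (XT.lf (nat_lit 0) (nat_lit 2724410684) (nat_lit 76) (nat_lit 145108031960) (nat_lit 76) (nat_lit 141982399323) (nat_lit 1) (nat_lit 4) (nat_lit 2) (nat_lit 5) (nat_lit 2) (nat_lit 4) (nat_lit 417) (nat_lit 265) (nat_lit 218)))) (XT.nd (nat_lit 78) (nat_lit 0) (nat_lit 0)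 (XT.lf (nat_lit 0) (nat_lit 8016821537) (nat_lit 76) (nat_lit 149649994721) (nat_lit 76) (nat_lit 146507649740) (nat_lit 1) (nat_lit 4) (nat_lit 2) (nat_lit 5) (nat_lit 2) (nat_lit 4) (nat_lit 418) (nat_lit 265) (nat_lit 217)) (XT.nd (nat_lit 78) (nat_lit 0) (nat_lit 0) (XT.lf (nat_lit 0) (nat_lit 13533427947) (nat_lit 76) (nat_lit 154438966380) (nat_lit 76) (nat_lit 151280704881) (nat_lit 1) (nat_lit 4) (nat_lit 2) (nat_lit 5) (nat_lit 2) (nat_lit 4) (nat_lit 419) (nat_lit 265) (nat_lit 216)) (XT.lf (nat_lit 0) (nat_lit 19287364691) (nat_lit 76) (nat_lit 159486349249) (nat_lit 76) (nat_lit 156312929162) (nat_lit 1) (nat_lit 4) (nat_lit 2) (nat_lit 5) (nat_lit 2) (nat_lit 4) (nat_lit 420) (nat_lit 265) (nat_lit 215))))) (XT.nd (nat_lit 234) (nat_lit 0) (nat_lit 0) (XT.nd (nat_lit 78) (nat_lit 0) (nat_lit 0) (XT.lf (nat_lit 0) (nat_lit 25292331620) (nat_lit 76) (nat_lit 164804160909) (nat_lit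 76) (nat_lit 161616304071) (nat_lit 1) (nat_lit 4) (nat_lit 2) (nat_lit 5) (nat_lit 2) (nat_lit 4) (nat_lit 421) (nat_lit 265) (nat_lit 214)) (XT.nd (nat_lit 78) (nat_lit 0) (nat_lit 0) (XT.lf (nat_lit 0) (nat_lit 31562626274) (nat_lit 76) (nat_lit 170405062813) (nat_lit 76) (nat_lit 167203456689) (nat_lit 1) (nat_lit 4) (nat_lit 2) (nat_lit 5) (nat_lit 2) (nat_lit 4) (nat_lit 422) (nat_lit 265) (nat_lit 213)) (XT.lf (nat_lit 0) (nat_lit 38113177925) (nat_lit 76) (nat_lit 176302390445) (nat_lit 76) (nat_lit 173087689762) (nat_lit 1) (nat_lit 4) (nat_lit 2) (nat_lit 5) (nat_lit 2) (nat_lit 4) (nat_lit 423) (nat_lit 265) (nat_lit 212)))) (XT.nd (nat_lit 78) (nat_lit 0) (nat_lit 0) (XT.lf (nat_lit 0) (nat_lit 44959583125) (nat_lit 76) (nat_lit 182510185058) (nat_lit 76) (nat_lit 179283013367) (nat_lit 1) (nat_lit 4) (nat_lit 2) (nat_lit 5) (nat_lit 2) (nat_lit 4) (nat_lit 424) (nat_lit 265)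 (nat_lit 211)) (XT.nd (nat_lit 78) (nat_lit 0) (nat_lit 0) (XT.lf (nat_lit 0) (nat_lit 52118142839) (nat_lit 76) (nat_lit 189043227118) (nat_lit 76) (nat_lit 185804178277) (nat_lit 1) (nat_lit 4) (nat_lit 2) (nat_lit 5) (nat_lit 2) (nat_lit 4) (nat_lit 425) (nat_lit 265) (nat_lit 210)) (XT.lf (nat_lit 0) (nat_lit 59605901256) (nat_lit 76) (nat_lit 195917071486) (nat_lit 76) (nat_lit 192666711072) (nat_lit 1) (nat_lit 4) (nat_lit 2) (nat_lit 5) (nat_lit 2) (nat_lit 4) (nat_lit 426) (nat_lit 265) (nat_lit 209)))))) (XT.nd (nat_lit 468) (nat_lit 0) (nat_lit 0) (XT.nd (nat_lit 234) (nat_lit 0) (nat_lit 0) (XT.nd (nat_lit 78) (nat_lit 0) (nat_lit 0) (XT.lf (nat_lit 0) (nat_lit 67440686374) (nat_lit 76) (nat_lit 203148084458) (nat_lit 76) (nat_lit 199886951119) (nat_lit 1) (nat_lit 4) (nat_lit 2) (nat_lit 5) (nat_lit 2) (nat_lit 4) (nat_lit 427) (nat_lit 265) (nat_lit 208)) (XT.nd (nat_lit 78)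 (nat_lit 0) (nat_lit 0) (XT.lf (nat_lit 0) (nat_lit 75641152441) (nat_lit 76) (nat_lit 210753482732) (nat_lit 76) (nat_lit 207482089463) (nat_lit 1) (nat_lit 4) (nat_lit 2) (nat_lit 5) (nat_lit 2) (nat_lit 4) (nat_lit 428) (nat_lit 265) (nat_lit 207)) (XT.lf (nat_lit 0) (nat_lit 84226824378) (nat_lit 76) (nat_lit 218751374398) (nat_lit 76) (nat_lit 215470209769) (nat_lit 1) (nat_lit 4) (nat_lit 2) (nat_lit 5) (nat_lit 2) (nat_lit 4) (nat_lit 429) (nat_lit 265) (nat_lit 206)))) (XT.nd (nat_lit 78) (nat_lit 0) (nat_lit 0) (XT.lf (nat_lit 0) (nat_lit 93218144260) (nat_lit 76) (nat_lit 227160802057) (nat_lit 76) (nat_lit 223870331369) (nat_lit 1) (nat_lit 4) (nat_lit 2) (nat_lit 5) (nat_lit 2) (nat_lit 4) (nat_lit 430) (nat_lit 265) (nat_lit 205)) (XT.nd (nat_lit 78) (nat_lit 0) (nat_lit 0) (XT.lf (nat_lit 0) (nat_lit 102636519992) (nat_lit 76) (nat_lit 236001788155) (nat_lit 76) (nat_lit 232702454554)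 (nat_lit 1) (nat_lit 4) (nat_lit 2) (nat_lit 5) (nat_lit 2) (nat_lit 4) (nat_lit 431) (nat_lit 265) (nat_lit 204)) (XT.lf (nat_lit 0) (nat_lit 112504376278) (nat_lit 76) (nat_lit 245295382658) (nat_lit 76) (nat_lit 241987608188) (nat_lit 1) (nat_lit 4) (nat_lit 2) (nat_lit 5) (nat_lit 2) (nat_lit 4) (nat_lit 432) (nat_lit 265) (nat_lit 203))))) (XT.nd (nat_lit 234) (nat_lit 0) (nat_lit 0) (XT.nd (nat_lit 78) (nat_lit 0) (nat_lit 0) (XT.lf (nat_lit 0) (nat_lit 122845208014) (nat_lit 76) (nat_lit 255063713173) (nat_lit 76) (nat_lit 251747899780) (nat_lit 1) (nat_lit 4) (nat_lit 2) (nat_lit 5) (nat_lit 2) (nat_lit 4) (nat_lit 433) (nat_lit 265) (nat_lit 202)) (XT.nd (nat_lit 78) (nat_lit 0) (nat_lit 0) (XT.lf (nat_lit 0) (nat_lit 133683636228) (nat_lit 76) (nat_lit 265330037629) (nat_lit 76) (nat_lit 262006568119) (nat_lit 1) (nat_lit 4) (nat_lit 2) (nat_lit 5) (nat_lit 2) (nat_lit 4) (nat_lit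 434) (nat_lit 265) (nat_lit 201)) (XT.lf (nat_lit 0) (nat_lit 145045466701) (nat_lit 76) (nat_lit 276118799657) (nat_lit 76) (nat_lit 272788038607) (nat_lit 1) (nat_lit 4) (nat_lit 2) (nat_lit 5) (nat_lit 2) (nat_lit 4) (nat_lit 435) (nat_lit 265) (nat_lit 200)))) (XT.nd (nat_lit 78) (nat_lit 0) (nat_lit 0) (XT.lf (nat_lit 0) (nat_lit 156957751411) (nat_lit 76) (nat_lit 287455686784) (nat_lit 76) (nat_lit 284117981410) (nat_lit 1) (nat_lit 4) (nat_lit 2) (nat_lit 5) (nat_lit 2) (nat_lit 4) (nat_lit 436) (nat_lit 265) (nat_lit 199)) (XT.nd (nat_lit 78) (nat_lit 0) (nat_lit 0) (XT.lf (nat_lit 0) (nat_lit 169448852939) (nat_lit 76) (nat_lit 299367691600) (nat_lit 76) (nat_lit 296023372584) (nat_lit 1) (nat_lit 4) (nat_lit 2) (nat_lit 5) (nat_lit 2) (nat_lit 4) (nat_lit 437) (nat_lit 265) (nat_lit 198)) (XT.lf (nat_lit 0) (nat_lit 182548512006) (nat_lit 76) (nat_lit 311883176020) (nat_lit 76)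 (nat_lit 308532558298) (nat_lit 1) (nat_lit 4) (nat_lit 2) (nat_lit 5) (nat_lit 2) (nat_lit 4) (nat_lit 438) (nat_lit 265) (nat_lit 197))))))))
noncomputable def xc26 : XT := (XT.nd (nat_lit 1794) (nat_lit 152) (nat_lit 0) (XT.nd (nat_lit 858) (nat_lit 76) (nat_lit 0) (XT.nd (nat_lit 390) (nat_lit 228) (nat_lit 0) (XT.nd (nat_lit 156) (nat_lit 0) (nat_lit 0) (XT.nd (nat_lit 78) (nat_lit 152) (nat_lit 0) (XT.lf (nat_lit 0) (nat_lit 12170132324) (nat_lit 76) (nat_lit 1499916987) (nat_lit 76) (nat_lit 1499916987) (nat_lit 10) (nat_lit 4) (nat_lit 11) (nat_lit 5) (nat_lit 11) (nat_lit 4) (nat_lit 368) (nat_lit 266) (nat_lit 266)) (XT.lf (nat_lit 0) (nat_lit 2048362372) (nat_lit 152) (nat_lit 27688555172) (nat_lit 0) (nat_lit 1856715246) (nat_lit 8) (nat_lit 5) (nat_lit 10) (nat_lit 4) (nat_lit 8) (nat_lit 4) (nat_lit 369) (nat_lit 266) (nat_lit 265))) (XT.nd (nat_lit 78) (nat_lit 0) (nat_lit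 0) (XT.lf (nat_lit 0) (nat_lit 7228951249) (nat_lit 152) (nat_lit 18824810954) (nat_lit 0) (nat_lit 6854783051) (nat_lit 8) (nat_lit 5) (nat_lit 10) (nat_lit 4) (nat_lit 8) (nat_lit 4) (nat_lit 370) (nat_lit 266) (nat_lit 264)) (XT.nd (nat_lit 78) (nat_lit 0) (nat_lit 0) (XT.lf (nat_lit 0) (nat_lit 12505089785) (nat_lit 152) (nat_lit 9835220298) (nat_lit 0) (nat_lit 11957091994) (nat_lit 8) (nat_lit 5) (nat_lit 10) (nat_lit 4) (nat_lit 8) (nat_lit 4) (nat_lit 371) (nat_lit 266) (nat_lit 263)) (XT.lf (nat_lit 0) (nat_lit 17889340214) (nat_lit 152) (nat_lit 698379418) (nat_lit 0) (nat_lit 17175790430) (nat_lit 8) (nat_lit 5) (nat_lit 10) (nat_lit 4) (nat_lit 8) (nat_lit 4) (nat_lit 372) (nat_lit 266) (nat_lit 262))))) (XT.nd (nat_lit 234) (nat_lit 152) (nat_lit 0) (XT.nd (nat_lit 78) (nat_lit 0) (nat_lit 0) (XT.lf (nat_lit 0) (nat_lit 8892067770) (nat_lit 76) (nat_lit 14641284507) (nat_lit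 76) (nat_lit 13770066158) (nat_lit 7) (nat_lit 4) (nat_lit 8) (nat_lit 5) (nat_lit 8) (nat_lit 4) (nat_lit 373) (nat_lit 266) (nat_lit 261)) (XT.nd (nat_lit 78) (nat_lit 0) (nat_lit 0) (XT.lf (nat_lit 0) (nat_lit 18703088578) (nat_lit 76) (nat_lit 10622662308) (nat_lit 76) (nat_lit 9601283421) (nat_lit 7) (nat_lit 4) (nat_lit 8) (nat_lit 5) (nat_lit 8) (nat_lit 4) (nat_lit 374) (nat_lit 266) (nat_lit 260)) (XT.lf (nat_lit 0) (nat_lit 28734951000) (nat_lit 76) (nat_lit 6534112280) (nat_lit 76) (nat_lit 5369723358) (nat_lit 7) (nat_lit 4) (nat_lit 8) (nat_lit 5) (nat_lit 8) (nat_lit 4) (nat_lit 375) (nat_lit 266) (nat_lit 259)))) (XT.nd (nat_lit 78) (nat_lit 152) (nat_lit 0) (XT.lf (nat_lit 0) (nat_lit 39011540425) (nat_lit 76) (nat_lit 2365899782) (nat_lit 76) (nat_lit 1065310825) (nat_lit 7) (nat_lit 4) (nat_lit 8) (nat_lit 5) (nat_lit 8) (nat_lit 4) (nat_lit 376) (nat_lit 266) (nat_lit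 258)) (XT.nd (nat_lit 78) (nat_lit 0) (nat_lit 0) (XT.lf (nat_lit 0) (nat_lit 3330886481) (nat_lit 152) (nat_lit 39035299079) (nat_lit 0) (nat_lit 1968692885) (nat_lit 5) (nat_lit 5) (nat_lit 7) (nat_lit 4) (nat_lit 5) (nat_lit 4) (nat_lit 377) (nat_lit 266) (nat_lit 257)) (XT.lf (nat_lit 0) (nat_lit 7881453666) (nat_lit 152) (nat_lit 32039178679) (nat_lit 0) (nat_lit 6401605359) (nat_lit 5) (nat_lit 5) (nat_lit 7) (nat_lit 4) (nat_lit 5) (nat_lit 4) (nat_lit 378) (nat_lit 266) (nat_lit 256)))))) (XT.nd (nat_lit 468) (nat_lit 0) (nat_lit 0) (XT.nd (nat_lit 234) (nat_lit 76) (nat_lit 0) (XT.nd (nat_lit 78) (nat_lit 0) (nat_lit 0) (XT.lf (nat_lit 0) (nat_lit 12538134330) (nat_lit 152) (nat_lit 24930683371) (nat_lit 0) (nat_lit 10946233918) (nat_lit 5) (nat_lit 5) (nat_lit 7) (nat_lit 4) (nat_lit 5) (nat_lit 4) (nat_lit 379) (nat_lit 266) (nat_lit 255)) (XT.nd (nat_lit 78) (nat_lit 0) (nat_lit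 0) (XT.lf (nat_lit 0) (nat_lit 17312015810) (nat_lit 152) (nat_lit 17692888168) (nat_lit 0) (nat_lit 15613399107) (nat_lit 5) (nat_lit 5) (nat_lit 7) (nat_lit 4) (nat_lit 5) (nat_lit 4) (nat_lit 380) (nat_lit 266) (nat_lit 254)) (XT.lf (nat_lit 0) (nat_lit 22214464489) (nat_lit 152) (nat_lit 10308560224) (nat_lit 0) (nat_lit 20414213223) (nat_lit 5) (nat_lit 5) (nat_lit 7) (nat_lit 4) (nat_lit 5) (nat_lit 4) (nat_lit 381) (nat_lit 266) (nat_lit 253)))) (XT.nd (nat_lit 78) (nat_lit 76) (nat_lit 0) (XT.lf (nat_lit 0) (nat_lit 27257152864) (nat_lit 152) (nat_lit 2760117804) (nat_lit 0) (nat_lit 25360106777) (nat_lit 5) (nat_lit 5) (nat_lit 7) (nat_lit 4) (nat_lit 5) (nat_lit 4) (nat_lit 382) (nat_lit 266) (nat_lit 252)) (XT.nd (nat_lit 78) (nat_lit 0) (nat_lit 0) (XT.lf (nat_lit 0) (nat_lit 5134755824) (nat_lit 76) (nat_lit 27397499441) (nat_lit 76) (nat_lit 25408267810) (nat_lit 4) (nat_lit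 4) (nat_lit 5) (nat_lit 5) (nat_lit 5) (nat_lit 4) (nat_lit 383) (nat_lit 266) (nat_lit 251)) (XT.lf (nat_lit 0) (nat_lit 13328013595) (nat_lit 76) (nat_lit 24691710847) (nat_lit 76) (nat_lit 22614683459) (nat_lit 4) (nat_lit 4) (nat_lit 5) (nat_lit 5) (nat_lit 5) (nat_lit 4) (nat_lit 384) (nat_lit 266) (nat_lit 250))))) (XT.nd (nat_lit 234) (nat_lit 0) (nat_lit 0) (XT.nd (nat_lit 78) (nat_lit 0) (nat_lit 0) (XT.lf (nat_lit 0) (nat_lit 21747901305) (nat_lit 76) (nat_lit 21940206463) (nat_lit 76) (nat_lit 19779564069) (nat_lit 4) (nat_lit 4) (nat_lit 5) (nat_lit 5) (nat_lit 5) (nat_lit 4) (nat_lit 385) (nat_lit 266) (nat_lit 249)) (XT.nd (nat_lit 78) (nat_lit 0) (nat_lit 0) (XT.lf (nat_lit 0) (nat_lit 30414466305) (nat_lit 76) (nat_lit 19136435089) (nat_lit 76) (nat_lit 16896159356) (nat_lit 4) (nat_lit 4) (nat_lit 5) (nat_lit 5) (nat_lit 5) (nat_lit 4) (nat_lit 386) (nat_lit 266) (nat_lit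 248)) (XT.lf (nat_lit 0) (nat_lit 39348343275) (nat_lit 76) (nat_lit 16273721079) (nat_lit 76) (nat_lit 13957604070) (nat_lit 4) (nat_lit 4) (nat_lit 5) (nat_lit 5) (nat_lit 5) (nat_lit 4) (nat_lit 387) (nat_lit 266) (nat_lit 247)))) (XT.nd (nat_lit 78) (nat_lit 0) (nat_lit 0) (XT.lf (nat_lit 0) (nat_lit 48570803349) (nat_lit 76) (nat_lit 13345248446) (nat_lit 76) (nat_lit 10956901651) (nat_lit 4) (nat_lit 4) (nat_lit 5) (nat_lit 5) (nat_lit 5) (nat_lit 4) (nat_lit 388) (nat_lit 266) (nat_lit 246)) (XT.nd (nat_lit 78) (nat_lit 0) (nat_lit 0) (XT.lf (nat_lit 0) (nat_lit 58103804766) (nat_lit 76) (nat_lit 10344044638) (nat_lit 76) (nat_lit 7886907570) (nat_lit 4) (nat_lit 4) (nat_lit 5) (nat_lit 5) (nat_lit 5) (nat_lit 4) (nat_lit 389) (nat_lit 266) (nat_lit 245)) (XT.lf (nat_lit 0) (nat_lit 67970045149) (nat_lit 76) (nat_lit 7262963930) (nat_lit 76) (nat_lit 4740312317) (nat_lit 4) (nat_lit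 4) (nat_lit 5) (nat_lit 5) (nat_lit 5) (nat_lit 4) (nat_lit 390) (nat_lit 266) (nat_lit 244))))))) (XT.nd (nat_lit 936) (nat_lit 0) (nat_lit 0) (XT.nd (nat_lit 468) (nat_lit 0) (nat_lit 0) (XT.nd (nat_lit 234) (nat_lit 0) (nat_lit 0) (XT.nd (nat_lit 78) (nat_lit 152) (nat_lit 0) (XT.lf (nat_lit 0) (nat_lit 78193015545) (nat_lit 76) (nat_lit 4094670416) (nat_lit 76) (nat_lit 1509623998) (nat_lit 4) (nat_lit 4) (nat_lit 5) (nat_lit 5) (nat_lit 5) (nat_lit 4) (nat_lit 391) (nat_lit 266) (nat_lit 243)) (XT.nd (nat_lit 78) (nat_lit 0) (nat_lit 0) (XT.lf (nat_lit 0) (nat_lit 984433313) (nat_lit 76) (nat_lit 785763445) (nat_lit 152) (nat_lit 86043446971) (nat_lit 2) (nat_lit 5) (nat_lit 3) (nat_lit 5) (nat_lit 4) (nat_lit 4) (nat_lit 392) (nat_lit 266) (nat_lit 242)) (XT.lf (nat_lit 0) (nat_lit 5234387897) (nat_lit 152) (nat_lit 84129674913) (nat_lit 0) (nat_lit 2661946022) (nat_lit 2) (nat_lit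 5) (nat_lit 4) (nat_lit 4) (nat_lit 2) (nat_lit 4) (nat_lit 393) (nat_lit 266) (nat_lit 241)))) (XT.nd (nat_lit 78) (nat_lit 0) (nat_lit 0) (XT.lf (nat_lit 0) (nat_lit 8820545048) (nat_lit 152) (nat_lit 81434245818) (nat_lit 0) (nat_lit 6196770812) (nat_lit 2) (nat_lit 5) (nat_lit 4) (nat_lit 4) (nat_lit 2) (nat_lit 4) (nat_lit 394) (nat_lit 266) (nat_lit 240)) (XT.nd (nat_lit 78) (nat_lit 0) (nat_lit 0) (XT.lf (nat_lit 0) (nat_lit 12524938709) (nat_lit 152) (nat_lit 78724237472) (nat_lit 0) (nat_lit 9852276510) (nat_lit 2) (nat_lit 5) (nat_lit 4) (nat_lit 4) (nat_lit 2) (nat_lit 4) (nat_lit 395) (nat_lit 266) (nat_lit 239)) (XT.lf (nat_lit 0) (nat_lit 16356388865) (nat_lit 152) (nat_lit 75993197475) (nat_lit 0) (nat_lit 13637166703) (nat_lit 2) (nat_lit 5) (nat_lit 4) (nat_lit 4) (nat_lit 2) (nat_lit 4) (nat_lit 396) (nat_lit 266) (nat_lit 238))))) (XT.nd (nat_lit 234) (nat_lit 0) (nat_lit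 0) (XT.nd (nat_lit 78) (nat_lit 0) (nat_lit 0) (XT.lf (nat_lit 0) (nat_lit 20324018018) (nat_lit 152) (nat_lit 73234623350) (nat_lit 0) (nat_lit 17560453032) (nat_lit 2) (nat_lit 5) (nat_lit 4) (nat_lit 4) (nat_lit 2) (nat_lit 4) (nat_lit 397) (nat_lit 266) (nat_lit 237)) (XT.nd (nat_lit 78) (nat_lit 0) (nat_lit 0) (XT.lf (nat_lit 0) (nat_lit 24437272902) (nat_lit 152) (nat_lit 70441947065) (nat_lit 0) (nat_lit 21631476657) (nat_lit 2) (nat_lit 5) (nat_lit 4) (nat_lit 4) (nat_lit 2) (nat_lit 4) (nat_lit 398) (nat_lit 266) (nat_lit 236)) (XT.lf (nat_lit 0) (nat_lit 28705946983) (nat_lit 152) (nat_lit 67608519390) (nat_lit 0) (nat_lit 25859930490) (nat_lit 2) (nat_lit 5) (nat_lit 4) (nat_lit 4) (nat_lit 2) (nat_lit 4) (nat_lit 399) (nat_lit 266) (nat_lit 235)))) (XT.nd (nat_lit 78) (nat_lit 0) (nat_lit 0) (XT.lf (nat_lit 0) (nat_lit 33140203769) (nat_lit 152) (nat_lit 64727594068) (nat_lit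 0) (nat_lit 30255882278) (nat_lit 2) (nat_lit 5) (nat_lit 4) (nat_lit 4) (nat_lit 2) (nat_lit 4) (nat_lit 400) (nat_lit 266) (nat_lit 234)) (XT.nd (nat_lit 78) (nat_lit 0) (nat_lit 0) (XT.lf (nat_lit 0) (nat_lit 37750601016) (nat_lit 152) (nat_lit 61792311754) (nat_lit 0) (nat_lit 34829798575) (nat_lit 2) (nat_lit 5) (nat_lit 4) (nat_lit 4) (nat_lit 2) (nat_lit 4) (nat_lit 401) (nat_lit 266) (nat_lit 233)) (XT.lf (nat_lit 0) (nat_lit 42548115859) (nat_lit 152) (nat_lit 58795683680) (nat_lit 0) (nat_lit 39592569655) (nat_lit 2) (nat_lit 5) (nat_lit 4) (nat_lit 4) (nat_lit 2) (nat_lit 4) (nat_lit 402) (nat_lit 266) (nat_lit 232)))))) (XT.nd (nat_lit 468) (nat_lit 0) (nat_lit 0) (XT.nd (nat_lit 234) (nat_lit 0) (nat_lit 0) (XT.nd (nat_lit 78) (nat_lit 0) (nat_lit 0) (XT.lf (nat_lit 0) (nat_lit 47544170952) (nat_lit 152) (nat_lit 55730575017) (nat_lit 0) (nat_lit 44555535452) (nat_lit 2) (nat_lit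 5) (nat_lit 4) (nat_lit 4) (nat_lit 2) (nat_lit 4) (nat_lit 403) (nat_lit 266) (nat_lit 231)) (XT.nd (nat_lit 78) (nat_lit 0) (nat_lit 0) (XT.lf (nat_lit 0) (nat_lit 52750661666) (nat_lit 152) (nat_lit 52589687887) (nat_lit 0) (nat_lit 49730512549) (nat_lit 2) (nat_lit 5) (nat_lit 4) (nat_lit 4) (nat_lit 2) (nat_lit 4) (nat_lit 404) (nat_lit 266) (nat_lit 230)) (XT.lf (nat_lit 0) (nat_lit 58179984406) (nat_lit 152) (nat_lit 49365543989) (nat_lit 0) (nat_lit 55129822321) (nat_lit 2) (nat_lit 5) (nat_lit 4) (nat_lit 4) (nat_lit 2) (nat_lit 4) (nat_lit 405) (nat_lit 266) (nat_lit 229)))) (XT.nd (nat_lit 78) (nat_lit 0) (nat_lit 0) (XT.lf (nat_lit 0) (nat_lit 63845066131) (nat_lit 152) (nat_lit 46050466788) (nat_lit 0) (nat_lit 60766320267) (nat_lit 2) (nat_lit 5) (nat_lit 4) (nat_lit 4) (nat_lit 2) (nat_lit 4) (nat_lit 406) (nat_lit 266) (nat_lit 228)) (XT.nd (nat_lit 78) (nat_lit 0) (nat_lit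 0) (XT.lf (nat_lit 0) (nat_lit 69759395132) (nat_lit 152) (nat_lit 42636563245) (nat_lit 0) (nat_lit 66653426621) (nat_lit 2) (nat_lit 5) (nat_lit 4) (nat_lit 4) (nat_lit 2) (nat_lit 4) (nat_lit 407) (nat_lit 266) (nat_lit 227)) (XT.lf (nat_lit 0) (nat_lit 75937053144) (nat_lit 152) (nat_lit 39115705016) (nat_lit 0) (nat_lit 72805158302) (nat_lit 2) (nat_lit 5) (nat_lit 4) (nat_lit 4) (nat_lit 2) (nat_lit 4) (nat_lit 408) (nat_lit 266) (nat_lit 226))))) (XT.nd (nat_lit 234) (nat_lit 0) (nat_lit 0) (XT.nd (nat_lit 78) (nat_lit 0) (nat_lit 0) (XT.lf (nat_lit 0) (nat_lit 82392748876) (nat_lit 152) (nat_lit 35479509107) (nat_lit 0) (nat_lit 79236162291) (nat_lit 2) (nat_lit 5) (nat_lit 4) (nat_lit 4) (nat_lit 2) (nat_lit 4) (nat_lit 409) (nat_lit 266) (nat_lit 225)) (XT.nd (nat_lit 78) (nat_lit 0) (nat_lit 0) (XT.lf (nat_lit 0) (nat_lit 89141853032) (nat_lit 152) (nat_lit 31719317907) (nat_lit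 0) (nat_lit 85961750502) (nat_lit 2) (nat_lit 5) (nat_lit 4) (nat_lit 4) (nat_lit 2) (nat_lit 4) (nat_lit 410) (nat_lit 266) (nat_lit 224)) (XT.lf (nat_lit 0) (nat_lit 96200434909) (nat_lit 152) (nat_lit 27826178581) (nat_lit 0) (nat_lit 92997936240) (nat_lit 2) (nat_lit 5) (nat_lit 4) (nat_lit 4) (nat_lit 2) (nat_lit 4) (nat_lit 411) (nat_lit 266) (nat_lit 223)))) (XT.nd (nat_lit 78) (nat_lit 0) (nat_lit 0) (XT.lf (nat_lit 0) (nat_lit 103585300653) (nat_lit 152) (nat_lit 23790821750) (nat_lit 0) (nat_lit 100361472328) (nat_lit 2) (nat_lit 5) (nat_lit 4) (nat_lit 4) (nat_lit 2) (nat_lit 4) (nat_lit 412) (nat_lit 266) (nat_lit 222)) (XT.nd (nat_lit 78) (nat_lit 0) (nat_lit 0) (XT.lf (nat_lit 0) (nat_lit 111314033279) (nat_lit 152) (nat_lit 19603639421) (nat_lit 0) (nat_lit 108069890995) (nat_lit 2) (nat_lit 5) (nat_lit 4) (nat_lit 4) (nat_lit 2) (nat_lit 4) (nat_lit 413) (nat_lit 266) (nat_lit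 221)) (XT.lf (nat_lit 0) (nat_lit 119405034530) (nat_lit 152) (nat_lit 15254662112) (nat_lit 0) (nat_lit 116141545620) (nat_lit 2) (nat_lit 5) (nat_lit 4) (nat_lit 4) (nat_lit 2) (nat_lit 4) (nat_lit 414) (nat_lit 266) (nat_lit 220))))))))
noncomputable def xc27 : XT := (XT.nd (nat_lit 1794) (nat_lit 0) (nat_lit 0) (XT.nd (nat_lit 858) (nat_lit 0) (nat_lit 0) (XT.nd (nat_lit 390) (nat_lit 0) (nat_lit 0) (XT.nd (nat_lit 156) (nat_lit 76) (nat_lit 0) (XT.nd (nat_lit 78) (nat_lit 0) (nat_lit 0) (XT.lf (nat_lit 0) (nat_lit 127877568695) (nat_lit 152) (nat_lit 10733535115) (nat_lit 0) (nat_lit 124595654426) (nat_lit 2) (nat_lit 5) (nat_lit 4) (nat_lit 4) (nat_lit 2) (nat_lit 4) (nat_lit 415) (nat_lit 266) (nat_lit 219)) (XT.lf (nat_lit 0) (nat_lit 136751808475) (nat_lit 152) (nat_lit 6029493843) (nat_lit 0) (nat_lit 133452346245) (nat_lit 2) (nat_lit 5) (nat_lit 4) (nat_lit 4) (nat_lit 2) (nat_lit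 4) (nat_lit 416) (nat_lit 266) (nat_lit 218))) (XT.nd (nat_lit 78) (nat_lit 76) (nat_lit 0) (XT.lf (nat_lit 0) (nat_lit 146048883012) (nat_lit 152) (nat_lit 1131338196) (nat_lit 0) (nat_lit 142732708438) (nat_lit 2) (nat_lit 5) (nat_lit 4) (nat_lit 4) (nat_lit 2) (nat_lit 4) (nat_lit 417) (nat_lit 266) (nat_lit 217)) (XT.nd (nat_lit 78) (nat_lit 0) (nat_lit 0) (XT.lf (nat_lit 0) (nat_lit 4103946000) (nat_lit 76) (nat_lit 151751056295) (nat_lit 76) (nat_lit 148418965204) (nat_lit 1) (nat_lit 4) (nat_lit 2) (nat_lit 5) (nat_lit 2) (nat_lit 4) (nat_lit 418) (nat_lit 266) (nat_lit 216)) (XT.lf (nat_lit 0) (nat_lit 9601771929) (nat_lit 76) (nat_lit 156549278016) (nat_lit 76) (nat_lit 153202028337) (nat_lit 1) (nat_lit 4) (nat_lit 2) (nat_lit 5) (nat_lit 2) (nat_lit 4) (nat_lit 419) (nat_lit 266) (nat_lit 215))))) (XT.nd (nat_lit 234) (nat_lit 0) (nat_lit 0) (XT.nd (nat_lit 78) (nat_lit 0) (nat_lit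 0) (XT.lf (nat_lit 0) (nat_lit 15337822502) (nat_lit 76) (nat_lit 161605470470) (nat_lit 76) (nat_lit 158243784039) (nat_lit 1) (nat_lit 4) (nat_lit 2) (nat_lit 5) (nat_lit 2) (nat_lit 4) (nat_lit 420) (nat_lit 266) (nat_lit 214)) (XT.nd (nat_lit 78) (nat_lit 0) (nat_lit 0) (XT.lf (nat_lit 0) (nat_lit 21325754981) (nat_lit 76) (nat_lit 166931672208) (nat_lit 76) (nat_lit 163556236491) (nat_lit 1) (nat_lit 4) (nat_lit 2) (nat_lit 5) (nat_lit 2) (nat_lit 4) (nat_lit 421) (nat_lit 266) (nat_lit 213)) (XT.lf (nat_lit 0) (nat_lit 27579826349) (nat_lit 76) (nat_lit 172540564665) (nat_lit 76) (nat_lit 169152034389) (nat_lit 1) (nat_lit 4) (nat_lit 2) (nat_lit 5) (nat_lit 2) (nat_lit 4) (nat_lit 422) (nat_lit 266) (nat_lit 212)))) (XT.nd (nat_lit 78) (nat_lit 0) (nat_lit 0) (XT.lf (nat_lit 0) (nat_lit 34114927252) (nat_lit 76) (nat_lit 178445502345) (nat_lit 76) (nat_lit 175044501062) (nat_lit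 1) (nat_lit 4) (nat_lit 2) (nat_lit 5) (nat_lit 2) (nat_lit 4) (nat_lit 423) (nat_lit 266) (nat_lit 211)) (XT.nd (nat_lit 78) (nat_lit 0) (nat_lit 0) (XT.lf (nat_lit 0) (nat_lit 40946617454) (nat_lit 76) (nat_lit 184660544625) (nat_lit 76) (nat_lit 181247666191) (nat_lit 1) (nat_lit 4) (nat_lit 2) (nat_lit 5) (nat_lit 2) (nat_lit 4) (nat_lit 424) (nat_lit 266) (nat_lit 210)) (XT.lf (nat_lit 0) (nat_lit 48091162884) (nat_lit 76) (nat_lit 191200489224) (nat_lit 76) (nat_lit 187776299218) (nat_lit 1) (nat_lit 4) (nat_lit 2) (nat_lit 5) (nat_lit 2) (nat_lit 4) (nat_lit 425) (nat_lit 266) (nat_lit 209)))))) (XT.nd (nat_lit 468) (nat_lit 0) (nat_lit 0) (XT.nd (nat_lit 234) (nat_lit 0) (nat_lit 0) (XT.nd (nat_lit 78) (nat_lit 0) (nat_lit 0) (XT.lf (nat_lit 0) (nat_lit 55565574364) (nat_lit 76) (nat_lit 198080907438) (nat_lit 76) (nat_lit 194645944506) (nat_lit 1) (nat_lit 4) (nat_lit 2) (nat_lit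 5) (nat_lit 2) (nat_lit 4) (nat_lit 426) (nat_lit 266) (nat_lit 208)) (XT.nd (nat_lit 78) (nat_lit 0) (nat_lit 0) (XT.lf (nat_lit 0) (nat_lit 63387648113) (nat_lit 76) (nat_lit 205318181217) (nat_lit 76) (nat_lit 201872958356) (nat_lit 1) (nat_lit 4) (nat_lit 2) (nat_lit 5) (nat_lit 2) (nat_lit 4) (nat_lit 427) (nat_lit 266) (nat_lit 207)) (XT.lf (nat_lit 0) (nat_lit 71576008115) (nat_lit 76) (nat_lit 212929542163) (nat_lit 76) (nat_lit 209474547941) (nat_lit 1) (nat_lit 4) (nat_lit 2) (nat_lit 5) (nat_lit 2) (nat_lit 4) (nat_lit 428) (nat_lit 266) (nat_lit 206)))) (XT.nd (nat_lit 78) (nat_lit 0) (nat_lit 0) (XT.lf (nat_lit 0) (nat_lit 80150150466) (nat_lit 76) (nat_lit 220933112566) (nat_lit 76) (nat_lit 217468812285) (nat_lit 1) (nat_lit 4) (nat_lit 2) (nat_lit 5) (nat_lit 2) (nat_lit 4) (nat_lit 429) (nat_lit 266) (nat_lit 205)) (XT.nd (nat_lit 78) (nat_lit 0) (nat_lit 0) (XT.lf (nat_lit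 0) (nat_lit 89130489790) (nat_lit 76) (nat_lit 229347948544) (nat_lit 76) (nat_lit 225874785351) (nat_lit 1) (nat_lit 4) (nat_lit 2) (nat_lit 5) (nat_lit 2) (nat_lit 4) (nat_lit 430) (nat_lit 266) (nat_lit 204)) (XT.lf (nat_lit 0) (nat_lit 98538407847) (nat_lit 76) (nat_lit 238194085423) (nat_lit 76) (nat_lit 234712481360) (nat_lit 1) (nat_lit 4) (nat_lit 2) (nat_lit 5) (nat_lit 2) (nat_lit 4) (nat_lit 431) (nat_lit 266) (nat_lit 203))))) (XT.nd (nat_lit 234) (nat_lit 0) (nat_lit 0) (XT.nd (nat_lit 78) (nat_lit 0) (nat_lit 0) (XT.lf (nat_lit 0) (nat_lit 108396304443) (nat_lit 76) (nat_lit 247492585432) (nat_lit 76) (nat_lit 244002942446) (nat_lit 1) (nat_lit 4) (nat_lit 2) (nat_lit 5) (nat_lit 2) (nat_lit 4) (nat_lit 432) (nat_lit 266) (nat_lit 202)) (XT.nd (nat_lit 78) (nat_lit 0) (nat_lit 0) (XT.lf (nat_lit 0) (nat_lit 118727650760) (nat_lit 76) (nat_lit 257265587857) (nat_lit 76) (nat_lit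 253768288754) (nat_lit 1) (nat_lit 4) (nat_lit 2) (nat_lit 5) (nat_lit 2) (nat_lit 4) (nat_lit 433) (nat_lit 266) (nat_lit 201)) (XT.lf (nat_lit 0) (nat_lit 129557045242) (nat_lit 76) (nat_lit 267536361752) (nat_lit 76) (nat_lit 264031771109) (nat_lit 1) (nat_lit 4) (nat_lit 2) (nat_lit 5) (nat_lit 2) (nat_lit 4) (nat_lit 434) (nat_lit 266) (nat_lit 200)))) (XT.nd (nat_lit 78) (nat_lit 0) (nat_lit 0) (XT.lf (nat_lit 0) (nat_lit 140910272160) (nat_lit 76) (nat_lit 278329361340) (nat_lit 76) (nat_lit 274817826373) (nat_lit 1) (nat_lit 4) (nat_lit 2) (nat_lit 5) (nat_lit 2) (nat_lit 4) (nat_lit 435) (nat_lit 266) (nat_lit 199)) (XT.nd (nat_lit 78) (nat_lit 0) (nat_lit 0) (XT.lf (nat_lit 0) (nat_lit 152814363008) (nat_lit 76) (nat_lit 289670284239) (nat_lit 76) (nat_lit 286152135630) (nat_lit 1) (nat_lit 4) (nat_lit 2) (nat_lit 5) (nat_lit 2) (nat_lit 4) (nat_lit 436) (nat_lit 266) (nat_lit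 198)) (XT.lf (nat_lit 0) (nat_lit 165297660859) (nat_lit 76) (nat_lit 301586132646) (nat_lit 76) (nat_lit 298061685331) (nat_lit 1) (nat_lit 4) (nat_lit 2) (nat_lit 5) (nat_lit 2) (nat_lit 4) (nat_lit 437) (nat_lit 266) (nat_lit 197))))))) (XT.nd (nat_lit 42120) (nat_lit 0) (nat_lit 228) (XT.nd (nat_lit 41652) (nat_lit 0) (nat_lit 456) (XT.nd (nat_lit 41418) (nat_lit 0) (nat_lit 532) (XT.nd (nat_lit 41262) (nat_lit 0) (nat_lit 684) (XT.lf (nat_lit 0) (nat_lit 178389887851) (nat_lit 76) (nat_lit 314105277630) (nat_lit 76) (nat_lit 310574831547) (nat_lit 1) (nat_lit 4) (nat_lit 2) (nat_lit 5) (nat_lit 2) (nat_lit 4) (nat_lit 438) (nat_lit 266) (nat_lit 196)) (XT.nd (nat_lit 78) (nat_lit 0) (nat_lit 0) (XT.lf (nat_lit 0) (nat_lit 1465338899) (nat_lit 76) (nat_lit 6271659011) (nat_lit 76) (nat_lit 6271659011) (nat_lit 10) (nat_lit 4) (nat_lit 11) (nat_lit 5) (nat_lit 11) (nat_lit 4) (nat_lit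 366) (nat_lit 267) (nat_lit 267)) (XT.lf (nat_lit 0) (nat_lit 13456037440) (nat_lit 76) (nat_lit 7951713882) (nat_lit 76) (nat_lit 7740422926) (nat_lit 10) (nat_lit 4) (nat_lit 11) (nat_lit 5) (nat_lit 11) (nat_lit 4) (nat_lit 367) (nat_lit 267) (nat_lit 266)))) (XT.nd (nat_lit 78) (nat_lit 152) (nat_lit 0) (XT.lf (nat_lit 0) (nat_lit 24180835681) (nat_lit 76) (nat_lit 3287882451) (nat_lit 76) (nat_lit 2875362013) (nat_lit 10) (nat_lit 4) (nat_lit 11) (nat_lit 5) (nat_lit 11) (nat_lit 4) (nat_lit 368) (nat_lit 267) (nat_lit 265)) (XT.nd (nat_lit 78) (nat_lit 0) (nat_lit 0) (XT.lf (nat_lit 0) (nat_lit 2077938079) (nat_lit 152) (nat_lit 28021762984) (nat_lit 0) (nat_lit 1502540399) (nat_lit 8) (nat_lit 5) (nat_lit 10) (nat_lit 4) (nat_lit 8) (nat_lit 4) (nat_lit 369) (nat_lit 267) (nat_lit 264)) (XT.lf (nat_lit 0) (nat_lit 7178780720) (nat_lit 152) (nat_lit 19312819143) (nat_lit 0) (nat_lit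 6429553447) (nat_lit 8) (nat_lit 5) (nat_lit 10) (nat_lit 4) (nat_lit 8) (nat_lit 4) (nat_lit 370) (nat_lit 267) (nat_lit 263))))) (XT.nd (nat_lit 234) (nat_lit 0) (nat_lit 0) (XT.nd (nat_lit 78) (nat_lit 76) (nat_lit 0) (XT.lf (nat_lit 0) (nat_lit 12378970459) (nat_lit 152) (nat_lit 10470657418) (nat_lit 0) (nat_lit 11464191192) (nat_lit 8) (nat_lit 5) (nat_lit 10) (nat_lit 4) (nat_lit 8) (nat_lit 4) (nat_lit 371) (nat_lit 267) (nat_lit 262)) (XT.nd (nat_lit 78) (nat_lit 76) (nat_lit 0) (XT.lf (nat_lit 0) (nat_lit 17690888700) (nat_lit 152) (nat_lit 1474225044) (nat_lit 0) (nat_lit 16618440869) (nat_lit 8) (nat_lit 5) (nat_lit 10) (nat_lit 4) (nat_lit 8) (nat_lit 4) (nat_lit 372) (nat_lit 267) (nat_lit 261)) (XT.lf (nat_lit 0) (nat_lit 7952425332) (nat_lit 76) (nat_lit 15298917181) (nat_lit 76) (nat_lit 14076308812) (nat_lit 7) (nat_lit 4) (nat_lit 8) (nat_lit 5) (nat_lit 8) (nat_lit 4)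 (nat_lit 373) (nat_lit 267) (nat_lit 260)))) (XT.nd (nat_lit 78) (nat_lit 0) (nat_lit 0) (XT.lf (nat_lit 0) (nat_lit 17631880566) (nat_lit 76) (nat_lit 11344199022) (nat_lit 76) (nat_lit 9978580617) (nat_lit 7) (nat_lit 4) (nat_lit 8) (nat_lit 5) (nat_lit 8) (nat_lit 4) (nat_lit 374) (nat_lit 267) (nat_lit 259)) (XT.nd (nat_lit 78) (nat_lit 0) (nat_lit 0) (XT.lf (nat_lit 0) (nat_lit 27538442443) (nat_lit 76) (nat_lit 7316509985) (nat_lit 76) (nat_lit 5814691546) (nat_lit 7) (nat_lit 4) (nat_lit 8) (nat_lit 5) (nat_lit 8) (nat_lit 4) (nat_lit 375) (nat_lit 267) (nat_lit 258)) (XT.lf (nat_lit 0) (nat_lit 37695698013) (nat_lit 76) (nat_lit 3206260335) (nat_lit 76) (nat_lit 1574727577) (nat_lit 7) (nat_lit 4) (nat_lit 8) (nat_lit 5) (nat_lit 8) (nat_lit 4) (nat_lit 376) (nat_lit 267) (nat_lit 257)))))) (XT.nd (nat_lit 468) (nat_lit 76) (nat_lit 0) (XT.nd (nat_lit 234) (nat_lit 0) (nat_lit 0)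 (XT.nd (nat_lit 78) (nat_lit 0) (nat_lit 0) (XT.lf (nat_lit 0) (nat_lit 2740338258) (nat_lit 152) (nat_lit 40564909898) (nat_lit 0) (nat_lit 1068842825) (nat_lit 5) (nat_lit 5) (nat_lit 7) (nat_lit 4) (nat_lit 5) (nat_lit 4) (nat_lit 377) (nat_lit 267) (nat_lit 256)) (XT.nd (nat_lit 78) (nat_lit 0) (nat_lit 0) (XT.lf (nat_lit 0) (nat_lit 7231678672) (nat_lit 152) (nat_lit 33684609552) (nat_lit 0) (nat_lit 5448131134) (nat_lit 5) (nat_lit 5) (nat_lit 7) (nat_lit 4) (nat_lit 5) (nat_lit 4) (nat_lit 378) (nat_lit 267) (nat_lit 255)) (XT.lf (nat_lit 0) (nat_lit 11831952888) (nat_lit 152) (nat_lit 26686419059) (nat_lit 0) (nat_lit 9941689060) (nat_lit 5) (nat_lit 5) (nat_lit 7) (nat_lit 4) (nat_lit 5) (nat_lit 4) (nat_lit 379) (nat_lit 267) (nat_lit 254)))) (XT.nd (nat_lit 78) (nat_lit 0) (nat_lit 0) (XT.lf (nat_lit 0) (nat_lit 16552113941) (nat_lit 152) (nat_lit 19553676060) (nat_lit 0) (nat_lit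 14560215550) (nat_lit 5) (nat_lit 5) (nat_lit 7) (nat_lit 4) (nat_lit 5) (nat_lit 4) (nat_lit 380) (nat_lit 267) (nat_lit 253)) (XT.nd (nat_lit 78) (nat_lit 0) (nat_lit 0) (XT.lf (nat_lit 0) (nat_lit 21403400309) (nat_lit 152) (nat_lit 12269397834) (nat_lit 0) (nat_lit 19314707097) (nat_lit 5) (nat_lit 5) (nat_lit 7) (nat_lit 4) (nat_lit 5) (nat_lit 4) (nat_lit 381) (nat_lit 267) (nat_lit 252)) (XT.lf (nat_lit 0) (nat_lit 26397362674) (nat_lit 152) (nat_lit 4816240861) (nat_lit 0) (nat_lit 24216483917) (nat_lit 5) (nat_lit 5) (nat_lit 7) (nat_lit 4) (nat_lit 5) (nat_lit 4) (nat_lit 382) (nat_lit 267) (nat_lit 251))))) (XT.nd (nat_lit 234) (nat_lit 0) (nat_lit 0) (XT.nd (nat_lit 78) (nat_lit 0) (nat_lit 0) (XT.lf (nat_lit 0) (nat_lit 2916899469) (nat_lit 76) (nat_lit 28674532928) (nat_lit 76) (nat_lit 26405858415) (nat_lit 4) (nat_lit 4) (nat_lit 5) (nat_lit 5) (nat_lit 5) (nat_lit 4) (nat_lit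 383) (nat_lit 267) (nat_lit 250)) (XT.nd (nat_lit 78) (nat_lit 0) (nat_lit 0) (XT.lf (nat_lit 0) (nat_lit 11020872875) (nat_lit 76) (nat_lit 26012438793) (nat_lit 76) (nat_lit 23660149273) (nat_lit 4) (nat_lit 4) (nat_lit 5) (nat_lit 5) (nat_lit 5) (nat_lit 4) (nat_lit 384) (nat_lit 267) (nat_lit 249)) (XT.lf (nat_lit 0) (nat_lit 19355727855) (nat_lit 76) (nat_lit 23302548179) (nat_lit 76) (nat_lit 20870625320) (nat_lit 4) (nat_lit 4) (nat_lit 5) (nat_lit 5) (nat_lit 5) (nat_lit 4) (nat_lit 385) (nat_lit 267) (nat_lit 248)))) (XT.nd (nat_lit 78) (nat_lit 0) (nat_lit 0) (XT.lf (nat_lit 0) (nat_lit 27941309304) (nat_lit 76) (nat_lit 20538408968) (nat_lit 76) (nat_lit 18030644833) (nat_lit 4) (nat_lit 4) (nat_lit 5) (nat_lit 5) (nat_lit 5) (nat_lit 4) (nat_lit 386) (nat_lit 267) (nat_lit 247)) (XT.nd (nat_lit 78) (nat_lit 0) (nat_lit 0) (XT.lf (nat_lit 0) (nat_lit 36798059081) (nat_lit 76)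 (nat_lit 17713439874) (nat_lit 76) (nat_lit 15133445953) (nat_lit 4) (nat_lit 4) (nat_lit 5) (nat_lit 5) (nat_lit 5) (nat_lit 4) (nat_lit 387) (nat_lit 267) (nat_lit 246)) (XT.lf (nat_lit 0) (nat_lit 45947064687) (nat_lit 76) (nat_lit 14820914780) (nat_lit 76) (nat_lit 12172130587) (nat_lit 4) (nat_lit 4) (nat_lit 5) (nat_lit 5) (nat_lit 5) (nat_lit 4) (nat_lit 388) (nat_lit 267) (nat_lit 245))))))))
noncomputable def xc28 : XT := (XT.nd (nat_lit 1794) (nat_lit 76) (nat_lit 0) (XT.nd (nat_lit 858) (nat_lit 0) (nat_lit 0) (XT.nd (nat_lit 390) (nat_lit 0) (nat_lit 0) (XT.nd (nat_lit 156) (nat_lit 152) (nat_lit 0) (XT.nd (nat_lit 78) (nat_lit 0) (nat_lit 0) (XT.lf (nat_lit 0) (nat_lit 55410109467) (nat_lit 76) (nat_lit 11853946723) (nat_lit 76) (nat_lit 9139647985) (nat_lit 4) (nat_lit 4) (nat_lit 5) (nat_lit 5) (nat_lit 5) (nat_lit 4) (nat_lit 389) (nat_lit 267) (nat_lit 244)) (XT.lf (nat_lit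 0) (nat_lit 65209724482) (nat_lit 76) (nat_lit 8805471493) (nat_lit 76) (nat_lit 6028777949) (nat_lit 4) (nat_lit 4) (nat_lit 5) (nat_lit 5) (nat_lit 5) (nat_lit 4) (nat_lit 390) (nat_lit 267) (nat_lit 243))) (XT.nd (nat_lit 78) (nat_lit 152) (nat_lit 0) (XT.lf (nat_lit 0) (nat_lit 75369242146) (nat_lit 76) (nat_lit 5668230815) (nat_lit 76) (nat_lit 2832113648) (nat_lit 4) (nat_lit 4) (nat_lit 5) (nat_lit 5) (nat_lit 5) (nat_lit 4) (nat_lit 391) (nat_lit 267) (nat_lit 242)) (XT.nd (nat_lit 78) (nat_lit 76) (nat_lit 0) (XT.lf (nat_lit 0) (nat_lit 443298572) (nat_lit 152) (nat_lit 1983949021) (nat_lit 76) (nat_lit 85462045741) (nat_lit 3) (nat_lit 5) (nat_lit 5) (nat_lit 5) (nat_lit 4) (nat_lit 4) (nat_lit 392) (nat_lit 267) (nat_lit 241)) (XT.lf (nat_lit 0) (nat_lit 3818057343) (nat_lit 152) (nat_lit 87276314242) (nat_lit 0) (nat_lit 1011762035) (nat_lit 2) (nat_lit 5) (nat_lit 4) (nat_lit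 4) (nat_lit 2) (nat_lit 4) (nat_lit 393) (nat_lit 267) (nat_lit 240))))) (XT.nd (nat_lit 234) (nat_lit 0) (nat_lit 0) (XT.nd (nat_lit 78) (nat_lit 0) (nat_lit 0) (XT.lf (nat_lit 0) (nat_lit 7374423593) (nat_lit 152) (nat_lit 84639515490) (nat_lit 0) (nat_lit 4519240322) (nat_lit 2) (nat_lit 5) (nat_lit 4) (nat_lit 4) (nat_lit 2) (nat_lit 4) (nat_lit 394) (nat_lit 267) (nat_lit 239)) (XT.nd (nat_lit 78) (nat_lit 0) (nat_lit 0) (XT.lf (nat_lit 0) (nat_lit 11050444967) (nat_lit 152) (nat_lit 81985345566) (nat_lit 0) (nat_lit 8148701732) (nat_lit 2) (nat_lit 5) (nat_lit 4) (nat_lit 4) (nat_lit 2) (nat_lit 4) (nat_lit 395) (nat_lit 267) (nat_lit 238)) (XT.lf (nat_lit 0) (nat_lit 14854873898) (nat_lit 152) (nat_lit 79307485020) (nat_lit 0) (nat_lit 11908787841) (nat_lit 2) (nat_lit 5) (nat_lit 4) (nat_lit 4) (nat_lit 2) (nat_lit 4) (nat_lit 396) (nat_lit 267) (nat_lit 237)))) (XT.nd (nat_lit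 78) (nat_lit 0) (nat_lit 0) (XT.lf (nat_lit 0) (nat_lit 18796768551) (nat_lit 152) (nat_lit 76599557991) (nat_lit 0) (nat_lit 15808451233) (nat_lit 2) (nat_lit 5) (nat_lit 4) (nat_lit 4) (nat_lit 2) (nat_lit 4) (nat_lit 397) (nat_lit 267) (nat_lit 236)) (XT.nd (nat_lit 78) (nat_lit 0) (nat_lit 0) (XT.lf (nat_lit 0) (nat_lit 22885514387) (nat_lit 152) (nat_lit 73855117034) (nat_lit 0) (nat_lit 19856976822) (nat_lit 2) (nat_lit 5) (nat_lit 4) (nat_lit 4) (nat_lit 2) (nat_lit 4) (nat_lit 398) (nat_lit 267) (nat_lit 235)) (XT.lf (nat_lit 0) (nat_lit 27130846518) (nat_lit 152) (nat_lit 71067627767) (nat_lit 0) (nat_lit 24064003954) (nat_lit 2) (nat_lit 5) (nat_lit 4) (nat_lit 4) (nat_lit 2) (nat_lit 4) (nat_lit 399) (nat_lit 267) (nat_lit 234)))))) (XT.nd (nat_lit 468) (nat_lit 0) (nat_lit 0) (XT.nd (nat_lit 234) (nat_lit 0) (nat_lit 0) (XT.nd (nat_lit 78) (nat_lit 0) (nat_lit 0) (XT.lf (nat_lit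 0) (nat_lit 31542872875) (nat_lit 152) (nat_lit 68230453311) (nat_lit 0) (nat_lit 28439549362) (nat_lit 2) (nat_lit 5) (nat_lit 4) (nat_lit 4) (nat_lit 2) (nat_lit 4) (nat_lit 400) (nat_lit 267) (nat_lit 233)) (XT.nd (nat_lit 78) (nat_lit 0) (nat_lit 0) (XT.lf (nat_lit 0) (nat_lit 36132098285) (nat_lit 152) (nat_lit 65336838487) (nat_lit 0) (nat_lit 32994031009) (nat_lit 2) (nat_lit 5) (nat_lit 4) (nat_lit 4) (nat_lit 2) (nat_lit 4) (nat_lit 401) (nat_lit 267) (nat_lit 232)) (XT.lf (nat_lit 0) (nat_lit 40909449473) (nat_lit 152) (nat_lit 62379893737) (nat_lit 0) (nat_lit 37738292900) (nat_lit 2) (nat_lit 5) (nat_lit 4) (nat_lit 4) (nat_lit 2) (nat_lit 4) (nat_lit 402) (nat_lit 267) (nat_lit 231)))) (XT.nd (nat_lit 78) (nat_lit 0) (nat_lit 0) (XT.lf (nat_lit 0) (nat_lit 45886301087) (nat_lit 152) (nat_lit 59352578717) (nat_lit 0) (nat_lit 42683630897) (nat_lit 2) (nat_lit 5) (nat_lit 4)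 (nat_lit 4) (nat_lit 2) (nat_lit 4) (nat_lit 403) (nat_lit 267) (nat_lit 230)) (XT.nd (nat_lit 78) (nat_lit 0) (nat_lit 0) (XT.lf (nat_lit 0) (nat_lit 51074502771) (nat_lit 152) (nat_lit 56247685533) (nat_lit 0) (nat_lit 47841819614) (nat_lit 2) (nat_lit 5) (nat_lit 4) (nat_lit 4) (nat_lit 2) (nat_lit 4) (nat_lit 404) (nat_lit 267) (nat_lit 229)) (XT.lf (nat_lit 0) (nat_lit 56486407389) (nat_lit 152) (nat_lit 53057821582) (nat_lit 0) (nat_lit 53225140452) (nat_lit 2) (nat_lit 5) (nat_lit 4) (nat_lit 4) (nat_lit 2) (nat_lit 4) (nat_lit 405) (nat_lit 267) (nat_lit 228))))) (XT.nd (nat_lit 234) (nat_lit 0) (nat_lit 0) (XT.nd (nat_lit 78) (nat_lit 0) (nat_lit 0) (XT.lf (nat_lit 0) (nat_lit 62134900426) (nat_lit 152) (nat_lit 49775391950) (nat_lit 0) (nat_lit 58846410842) (nat_lit 2) (nat_lit 5) (nat_lit 4) (nat_lit 4) (nat_lit 2) (nat_lit 4) (nat_lit 406) (nat_lit 267) (nat_lit 227)) (XT.nd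 (nat_lit 78) (nat_lit 0) (nat_lit 0) (XT.lf (nat_lit 0) (nat_lit 68033430675) (nat_lit 152) (nat_lit 46392581330) (nat_lit 0) (nat_lit 64719014762) (nat_lit 2) (nat_lit 5) (nat_lit 4) (nat_lit 4) (nat_lit 2) (nat_lit 4) (nat_lit 407) (nat_lit 267) (nat_lit 226)) (XT.lf (nat_lit 0) (nat_lit 74196042258) (nat_lit 152) (nat_lit 42901335409) (nat_lit 0) (nat_lit 70856934601) (nat_lit 2) (nat_lit 5) (nat_lit 4) (nat_lit 4) (nat_lit 2) (nat_lit 4) (nat_lit 408) (nat_lit 267) (nat_lit 225)))) (XT.nd (nat_lit 78) (nat_lit 0) (nat_lit 0) (XT.lf (nat_lit 0) (nat_lit 80637408057) (nat_lit 152) (nat_lit 39293341697) (nat_lit 0) (nat_lit 77274784454) (nat_lit 2) (nat_lit 5) (nat_lit 4) (nat_lit 4) (nat_lit 2) (nat_lit 4) (nat_lit 409) (nat_lit 267) (nat_lit 224)) (XT.nd (nat_lit 78) (nat_lit 0) (nat_lit 0) (XT.lf (nat_lit 0) (nat_lit 87372864659) (nat_lit 152) (nat_lit 35560009733) (nat_lit 0) (nat_lit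 83987844917) (nat_lit 2) (nat_lit 5) (nat_lit 4) (nat_lit 4) (nat_lit 2) (nat_lit 4) (nat_lit 410) (nat_lit 267) (nat_lit 223)) (XT.lf (nat_lit 0) (nat_lit 94418448864) (nat_lit 152) (nat_lit 31692450632) (nat_lit 0) (nat_lit 91012099466) (nat_lit 2) (nat_lit 5) (nat_lit 4) (nat_lit 4) (nat_lit 2) (nat_lit 4) (nat_lit 411) (nat_lit 267) (nat_lit 222))))))) (XT.nd (nat_lit 936) (nat_lit 0) (nat_lit 0) (XT.nd (nat_lit 468) (nat_lit 76) (nat_lit 0) (XT.nd (nat_lit 234) (nat_lit 0) (nat_lit 0) (XT.nd (nat_lit 78) (nat_lit 0) (nat_lit 0) (XT.lf (nat_lit 0) (nat_lit 101790935874) (nat_lit 152) (nat_lit 27681455920) (nat_lit 0) (nat_lit 98364272518) (nat_lit 2) (nat_lit 5) (nat_lit 4) (nat_lit 4) (nat_lit 2) (nat_lit 4) (nat_lit 412) (nat_lit 267) (nat_lit 221)) (XT.nd (nat_lit 78) (nat_lit 0) (nat_lit 0) (XT.lf (nat_lit 0) (nat_lit 109507879228) (nat_lit 152) (nat_lit 23517475609) (nat_lit 0)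 (nat_lit 106061869246) (nat_lit 2) (nat_lit 5) (nat_lit 4) (nat_lit 4) (nat_lit 2) (nat_lit 4) (nat_lit 413) (nat_lit 267) (nat_lit 220)) (XT.lf (nat_lit 0) (nat_lit 117587652602) (nat_lit 152) (nat_lit 19190595460) (nat_lit 0) (nat_lit 114123217260) (nat_lit 2) (nat_lit 5) (nat_lit 4) (nat_lit 4) (nat_lit 2) (nat_lit 4) (nat_lit 414) (nat_lit 267) (nat_lit 219)))) (XT.nd (nat_lit 78) (nat_lit 0) (nat_lit 0) (XT.lf (nat_lit 0) (nat_lit 126049493551) (nat_lit 152) (nat_lit 14690513377) (nat_lit 0) (nat_lit 122567510248) (nat_lit 2) (nat_lit 5) (nat_lit 4) (nat_lit 4) (nat_lit 2) (nat_lit 4) (nat_lit 415) (nat_lit 267) (nat_lit 218)) (XT.nd (nat_lit 78) (nat_lit 0) (nat_lit 0) (XT.lf (nat_lit 0) (nat_lit 134913549315) (nat_lit 152) (nat_lit 10006514880) (nat_lit 0) (nat_lit 131414853669) (nat_lit 2) (nat_lit 5) (nat_lit 4) (nat_lit 4) (nat_lit 2) (nat_lit 4) (nat_lit 416) (nat_lit 267) (nat_lit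 217)) (XT.lf (nat_lit 0) (nat_lit 144200924789) (nat_lit 152) (nat_lit 5127447591) (nat_lit 0) (nat_lit 140686312626) (nat_lit 2) (nat_lit 5) (nat_lit 4) (nat_lit 4) (nat_lit 2) (nat_lit 4) (nat_lit 417) (nat_lit 267) (nat_lit 216))))) (XT.nd (nat_lit 234) (nat_lit 0) (nat_lit 0) (XT.nd (nat_lit 78) (nat_lit 76) (nat_lit 0) (XT.lf (nat_lit 0) (nat_lit 153933732773) (nat_lit 152) (nat_lit 41694684) (nat_lit 0) (nat_lit 150403962021) (nat_lit 2) (nat_lit 5) (nat_lit 4) (nat_lit 4) (nat_lit 2) (nat_lit 4) (nat_lit 418) (nat_lit 267) (nat_lit 215)) (XT.nd (nat_lit 78) (nat_lit 0) (nat_lit 0) (XT.lf (nat_lit 0) (nat_lit 5436866458) (nat_lit 76) (nat_lit 158783164881) (nat_lit 76) (nat_lit 155238957378) (nat_lit 1) (nat_lit 4) (nat_lit 2) (nat_lit 5) (nat_lit 2) (nat_lit 4) (nat_lit 419) (nat_lit 267) (nat_lit 214)) (XT.lf (nat_lit 0) (nat_lit 11155882580) (nat_lit 76) (nat_lit 163847747414)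 (nat_lit 76) (nat_lit 160289790624) (nat_lit 1) (nat_lit 4) (nat_lit 2) (nat_lit 5) (nat_lit 2) (nat_lit 4) (nat_lit 420) (nat_lit 267) (nat_lit 213)))) (XT.nd (nat_lit 78) (nat_lit 0) (nat_lit 0) (XT.lf (nat_lit 0) (nat_lit 17127591774) (nat_lit 76) (nat_lit 169181939704) (nat_lit 76) (nat_lit 165610888356) (nat_lit 1) (nat_lit 4) (nat_lit 2) (nat_lit 5) (nat_lit 2) (nat_lit 4) (nat_lit 421) (nat_lit 267) (nat_lit 212)) (XT.nd (nat_lit 78) (nat_lit 0) (nat_lit 0) (XT.lf (nat_lit 0) (nat_lit 23366212394) (nat_lit 76) (nat_lit 174798442210) (nat_lit 76) (nat_lit 171214919854) (nat_lit 1) (nat_lit 4) (nat_lit 2) (nat_lit 5) (nat_lit 2) (nat_lit 4) (nat_lit 422) (nat_lit 267) (nat_lit 211)) (XT.lf (nat_lit 0) (nat_lit 29886598299) (nat_lit 76) (nat_lit 180710627556) (nat_lit 76) (nat_lit 177115228050) (nat_lit 1) (nat_lit 4) (nat_lit 2) (nat_lit 5) (nat_lit 2) (nat_lit 4) (nat_lit 423) (nat_lit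 267) (nat_lit 210)))))) (XT.nd (nat_lit 468) (nat_lit 0) (nat_lit 0) (XT.nd (nat_lit 234) (nat_lit 0) (nat_lit 0) (XT.nd (nat_lit 78) (nat_lit 0) (nat_lit 0) (XT.lf (nat_lit 0) (nat_lit 36704274217) (nat_lit 76) (nat_lit 186932572375) (nat_lit 76) (nat_lit 183325861296) (nat_lit 1) (nat_lit 4) (nat_lit 2) (nat_lit 5) (nat_lit 2) (nat_lit 4) (nat_lit 424) (nat_lit 267) (nat_lit 209)) (XT.nd (nat_lit 78) (nat_lit 0) (nat_lit 0) (XT.lf (nat_lit 0) (nat_lit 43835472710) (nat_lit 76) (nat_lit 193479090821) (nat_lit 76) (nat_lit 189861606816) (nat_lit 1) (nat_lit 4) (nat_lit 2) (nat_lit 5) (nat_lit 2) (nat_lit 4) (nat_lit 425) (nat_lit 267) (nat_lit 208)) (XT.lf (nat_lit 0) (nat_lit 51297172822) (nat_lit 76) (nat_lit 200365769842) (nat_lit 76) (nat_lit 196738025908) (nat_lit 1) (nat_lit 4) (nat_lit 2) (nat_lit 5) (nat_lit 2) (nat_lit 4) (nat_lit 426) (nat_lit 267) (nat_lit 207)))) (XT.nd (nat_lit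 78) (nat_lit 0) (nat_lit 0) (XT.lf (nat_lit 0) (nat_lit 59107140505) (nat_lit 76) (nat_lit 207609006293) (nat_lit 76) (nat_lit 203971490998) (nat_lit 1) (nat_lit 4) (nat_lit 2) (nat_lit 5) (nat_lit 2) (nat_lit 4) (nat_lit 427) (nat_lit 267) (nat_lit 206)) (XT.nd (nat_lit 78) (nat_lit 0) (nat_lit 0) (XT.lf (nat_lit 0) (nat_lit 67283970921) (nat_lit 76) (nat_lit 215226045975) (nat_lit 76) (nat_lit 211579224622) (nat_lit 1) (nat_lit 4) (nat_lit 2) (nat_lit 5) (nat_lit 2) (nat_lit 4) (nat_lit 428) (nat_lit 267) (nat_lit 205)) (XT.lf (nat_lit 0) (nat_lit 75847132714) (nat_lit 76) (nat_lit 223235024698) (nat_lit 76) (nat_lit 219579340432) (nat_lit 1) (nat_lit 4) (nat_lit 2) (nat_lit 5) (nat_lit 2) (nat_lit 4) (nat_lit 429) (nat_lit 267) (nat_lit 204))))) (XT.nd (nat_lit 234) (nat_lit 0) (nat_lit 0) (XT.nd (nat_lit 78) (nat_lit 0) (nat_lit 0) (XT.lf (nat_lit 0) (nat_lit 84817014363) (nat_lit 76)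 (nat_lit 231655011457) (nat_lit 76) (nat_lit 227990886322) (nat_lit 1) (nat_lit 4) (nat_lit 2) (nat_lit 5) (nat_lit 2) (nat_lit 4) (nat_lit 430) (nat_lit 267) (nat_lit 203)) (XT.nd (nat_lit 78) (nat_lit 0) (nat_lit 0) (XT.lf (nat_lit 0) (nat_lit 94214972731) (nat_lit 76) (nat_lit 240506053841) (nat_lit 76) (nat_lit 236833889783) (nat_lit 1) (nat_lit 4) (nat_lit 2) (nat_lit 5) (nat_lit 2) (nat_lit 4) (nat_lit 431) (nat_lit 267) (nat_lit 202)) (XT.lf (nat_lit 0) (nat_lit 104063383908) (nat_lit 76) (nat_lit 249809225760) (nat_lit 76) (nat_lit 246129405585) (nat_lit 1) (nat_lit 4) (nat_lit 2) (nat_lit 5) (nat_lit 2) (nat_lit 4) (nat_lit 432) (nat_lit 267) (nat_lit 201)))) (XT.nd (nat_lit 78) (nat_lit 0) (nat_lit 0) (XT.lf (nat_lit 0) (nat_lit 114385696492) (nat_lit 76) (nat_lit 259586677624) (nat_lit 76) (nat_lit 255899565908) (nat_lit 1) (nat_lit 4) (nat_lit 2) (nat_lit 5) (nat_lit 2) (nat_lit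 4) (nat_lit 433) (nat_lit 267) (nat_lit 200)) (XT.nd (nat_lit 78) (nat_lit 0) (nat_lit 0) (XT.lf (nat_lit 0) (nat_lit 125206487419) (nat_lit 76) (nat_lit 269861689079) (nat_lit 76) (nat_lit 266167633039) (nat_lit 1) (nat_lit 4) (nat_lit 2) (nat_lit 5) (nat_lit 2) (nat_lit 4) (nat_lit 434) (nat_lit 267) (nat_lit 199)) (XT.lf (nat_lit 0) (nat_lit 136551520476) (nat_lit 76) (nat_lit 280658724438) (nat_lit 76) (nat_lit 276958054757) (nat_lit 1) (nat_lit 4) (nat_lit 2) (nat_lit 5) (nat_lit 2) (nat_lit 4) (nat_lit 435) (nat_lit 267) (nat_lit 198))))))))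
noncomputable def xc29 : XT := (XT.nd (nat_lit 42822) (nat_lit 0) (nat_lit 76) (XT.nd (nat_lit 41886) (nat_lit 0) (nat_lit 228) (XT.nd (nat_lit 41418) (nat_lit 0) (nat_lit 532) (XT.nd (nat_lit 156) (nat_lit 0) (nat_lit 0) (XT.nd (nat_lit 78) (nat_lit 0) (nat_lit 0) (XT.lf (nat_lit 0) (nat_lit 148447807646) (nat_lit 76) (nat_lit 292003490929) (nat_lit 76) (nat_lit 288296522542) (nat_lit 1) (nat_lit 4) (nat_lit 2) (nat_lit 5) (nat_lit 2) (nat_lit 4) (nat_lit 436) (nat_lit 267) (nat_lit 197)) (XT.lf (nat_lit 0) (nat_lit 160923673423) (nat_lit 76) (nat_lit 303922999901) (nat_lit 76) (nat_lit 300210032745) (nat_lit 1) (nat_lit 4) (nat_lit 2) (nat_lit 5) (nat_lit 2) (nat_lit 4) (nat_lit 437) (nat_lit 267) (nat_lit 196))) (XT.nd (nat_lit 41106) (nat_lit 0) (nat_lit 760) (XT.lf (nat_lit 0) (nat_lit 174008822250) (nat_lit 76) (nat_lit 316445631136) (nat_lit 76) (nat_lit 312726950868) (nat_lit 1)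 (nat_lit 4) (nat_lit 2) (nat_lit 5) (nat_lit 2) (nat_lit 4) (nat_lit 438) (nat_lit 267) (nat_lit 195)) (XT.nd (nat_lit 78) (nat_lit 0) (nat_lit 0) (XT.lf (nat_lit 0) (nat_lit 2258627173) (nat_lit 152) (nat_lit 8443703810) (nat_lit 0) (nat_lit 2258627173) (nat_lit 11) (nat_lit 5) (nat_lit 13) (nat_lit 4) (nat_lit 11) (nat_lit 4) (nat_lit 364) (nat_lit 268) (nat_lit 268)) (XT.lf (nat_lit 0) (nat_lit 9991030876) (nat_lit 152) (nat_lit 7182807566) (nat_lit 0) (nat_lit 9769175372) (nat_lit 11) (nat_lit 5) (nat_lit 13) (nat_lit 4) (nat_lit 11) (nat_lit 4) (nat_lit 365) (nat_lit 268) (nat_lit 267))))) (XT.nd (nat_lit 234) (nat_lit 152) (nat_lit 0) (XT.nd (nat_lit 78) (nat_lit 0) (nat_lit 0) (XT.lf (nat_lit 0) (nat_lit 2763277383) (nat_lit 76) (nat_lit 12845768921) (nat_lit 76) (nat_lit 12412622461) (nat_lit 10) (nat_lit 4) (nat_lit 11) (nat_lit 5) (nat_lit 11) (nat_lit 4) (nat_lit 366) (nat_lit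 268) (nat_lit 266)) (XT.nd (nat_lit 78) (nat_lit 0) (nat_lit 0) (XT.lf (nat_lit 0) (nat_lit 13129208057) (nat_lit 76) (nat_lit 8330922302) (nat_lit 76) (nat_lit 7696546359) (nat_lit 10) (nat_lit 4) (nat_lit 11) (nat_lit 5) (nat_lit 11) (nat_lit 4) (nat_lit 367) (nat_lit 268) (nat_lit 265)) (XT.lf (nat_lit 0) (nat_lit 23702169187) (nat_lit 76) (nat_lit 3740193271) (nat_lit 76) (nat_lit 2914170202) (nat_lit 10) (nat_lit 4) (nat_lit 11) (nat_lit 5) (nat_lit 11) (nat_lit 4) (nat_lit 368) (nat_lit 268) (nat_lit 264)))) (XT.nd (nat_lit 78) (nat_lit 0) (nat_lit 0) (XT.lf (nat_lit 0) (nat_lit 1945512787) (nat_lit 152) (nat_lit 28688971960) (nat_lit 0) (nat_lit 984994557) (nat_lit 8) (nat_lit 5) (nat_lit 10) (nat_lit 4) (nat_lit 8) (nat_lit 4) (nat_lit 369) (nat_lit 268) (nat_lit 263)) (XT.nd (nat_lit 78) (nat_lit 0) (nat_lit 0) (XT.lf (nat_lit 0) (nat_lit 6970406630) (nat_lit 152) (nat_lit 20127457050)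 (nat_lit 0) (nat_lit 5844336408) (nat_lit 8) (nat_lit 5) (nat_lit 10) (nat_lit 4) (nat_lit 8) (nat_lit 4) (nat_lit 370) (nat_lit 268) (nat_lit 262)) (XT.lf (nat_lit 0) (nat_lit 12098264182) (nat_lit 152) (nat_lit 11425703831) (nat_lit 0) (nat_lit 10814525394) (nat_lit 8) (nat_lit 5) (nat_lit 10) (nat_lit 4) (nat_lit 8) (nat_lit 4) (nat_lit 371) (nat_lit 268) (nat_lit 261)))))) (XT.nd (nat_lit 468) (nat_lit 76) (nat_lit 0) (XT.nd (nat_lit 234) (nat_lit 152) (nat_lit 0) (XT.nd (nat_lit 78) (nat_lit 76) (nat_lit 0) (XT.lf (nat_lit 0) (nat_lit 17341294625) (nat_lit 152) (nat_lit 2562993842) (nat_lit 0) (nat_lit 15907395300) (nat_lit 8) (nat_lit 5) (nat_lit 10) (nat_lit 4) (nat_lit 8) (nat_lit 4) (nat_lit 372) (nat_lit 268) (nat_lit 260)) (XT.nd (nat_lit 78) (nat_lit 0) (nat_lit 0) (XT.lf (nat_lit 0) (nat_lit 6696091347) (nat_lit 76) (nat_lit 16120434771) (nat_lit 76) (nat_lit 14543525410) (nat_lit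 7) (nat_lit 4) (nat_lit 8) (nat_lit 5) (nat_lit 8) (nat_lit 4) (nat_lit 373) (nat_lit 268) (nat_lit 259)) (XT.lf (nat_lit 0) (nat_lit 16250246035) (nat_lit 76) (nat_lit 12226577603) (nat_lit 76) (nat_lit 10513468207) (nat_lit 7) (nat_lit 4) (nat_lit 8) (nat_lit 5) (nat_lit 8) (nat_lit 4) (nat_lit 374) (nat_lit 268) (nat_lit 258)))) (XT.nd (nat_lit 78) (nat_lit 152) (nat_lit 0) (XT.lf (nat_lit 0) (nat_lit 26037474058) (nat_lit 76) (nat_lit 8256851414) (nat_lit 76) (nat_lit 6414027699) (nat_lit 7) (nat_lit 4) (nat_lit 8) (nat_lit 5) (nat_lit 8) (nat_lit 4) (nat_lit 375) (nat_lit 268) (nat_lit 257)) (XT.nd (nat_lit 78) (nat_lit 152) (nat_lit 0) (XT.lf (nat_lit 0) (nat_lit 36081078339) (nat_lit 76) (nat_lit 4201804475) (nat_lit 76) (nat_lit 2235443315) (nat_lit 7) (nat_lit 4) (nat_lit 8) (nat_lit 5) (nat_lit 8) (nat_lit 4) (nat_lit 376) (nat_lit 268) (nat_lit 256)) (XT.lf (nat_lit 0) (nat_lit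 1998847744) (nat_lit 152) (nat_lit 42408432370) (nat_lit 0) (nat_lit 14070724) (nat_lit 5) (nat_lit 5) (nat_lit 7) (nat_lit 4) (nat_lit 5) (nat_lit 4) (nat_lit 377) (nat_lit 268) (nat_lit 255))))) (XT.nd (nat_lit 234) (nat_lit 76) (nat_lit 0) (XT.nd (nat_lit 78) (nat_lit 0) (nat_lit 0) (XT.lf (nat_lit 0) (nat_lit 6433781710) (nat_lit 152) (nat_lit 35638436839) (nat_lit 0) (nat_lit 4342288399) (nat_lit 5) (nat_lit 5) (nat_lit 7) (nat_lit 4) (nat_lit 5) (nat_lit 4) (nat_lit 378) (nat_lit 268) (nat_lit 254)) (XT.nd (nat_lit 78) (nat_lit 0) (nat_lit 0) (XT.lf (nat_lit 0) (nat_lit 10980335500) (nat_lit 152) (nat_lit 28745298550) (nat_lit 0) (nat_lit 8787207627) (nat_lit 5) (nat_lit 5) (nat_lit 7) (nat_lit 4) (nat_lit 5) (nat_lit 4) (nat_lit 379) (nat_lit 268) (nat_lit 253)) (XT.lf (nat_lit 0) (nat_lit 15649334242) (nat_lit 152) (nat_lit 21712605270) (nat_lit 0) (nat_lit 13359411547) (nat_lit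 5) (nat_lit 5) (nat_lit 7) (nat_lit 4) (nat_lit 5) (nat_lit 4) (nat_lit 380) (nat_lit 268) (nat_lit 252)))) (XT.nd (nat_lit 78) (nat_lit 76) (nat_lit 0) (XT.lf (nat_lit 0) (nat_lit 20451894600) (nat_lit 152) (nat_lit 14523612490) (nat_lit 0) (nat_lit 18069786360) (nat_lit 5) (nat_lit 5) (nat_lit 7) (nat_lit 4) (nat_lit 5) (nat_lit 4) (nat_lit 381) (nat_lit 268) (nat_lit 251)) (XT.nd (nat_lit 78) (nat_lit 76) (nat_lit 0) (XT.lf (nat_lit 0) (nat_lit 25399451240) (nat_lit 152) (nat_lit 7161203561) (nat_lit 0) (nat_lit 22929547244) (nat_lit 5) (nat_lit 5) (nat_lit 7) (nat_lit 4) (nat_lit 5) (nat_lit 4) (nat_lit 382) (nat_lit 268) (nat_lit 250)) (XT.lf (nat_lit 0) (nat_lit 405117347) (nat_lit 76) (nat_lit 30104991730) (nat_lit 76) (nat_lit 27551472728) (nat_lit 4) (nat_lit 4) (nat_lit 5) (nat_lit 5) (nat_lit 5) (nat_lit 4) (nat_lit 383) (nat_lit 268) (nat_lit 249))))))) (XT.nd (nat_lit 936)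 (nat_lit 0) (nat_lit 0) (XT.nd (nat_lit 468) (nat_lit 152) (nat_lit 0) (XT.nd (nat_lit 234) (nat_lit 0) (nat_lit 0) (XT.nd (nat_lit 78) (nat_lit 0) (nat_lit 0) (XT.lf (nat_lit 0) (nat_lit 8424058023) (nat_lit 76) (nat_lit 27484511365) (nat_lit 76) (nat_lit 24851359024) (nat_lit 4) (nat_lit 4) (nat_lit 5) (nat_lit 5) (nat_lit 5) (nat_lit 4) (nat_lit 384) (nat_lit 268) (nat_lit 248)) (XT.nd (nat_lit 78) (nat_lit 0) (nat_lit 0) (XT.lf (nat_lit 0) (nat_lit 16677929452) (nat_lit 76) (nat_lit 24814252914) (nat_lit 76) (nat_lit 22105259297) (nat_lit 4) (nat_lit 4) (nat_lit 5) (nat_lit 5) (nat_lit 5) (nat_lit 4) (nat_lit 385) (nat_lit 268) (nat_lit 247)) (XT.lf (nat_lit 0) (nat_lit 25186383709) (nat_lit 76) (nat_lit 22087858618) (nat_lit 76) (nat_lit 19306635215) (nat_lit 4) (nat_lit 4) (nat_lit 5) (nat_lit 5) (nat_lit 5) (nat_lit 4) (nat_lit 386) (nat_lit 268) (nat_lit 246)))) (XT.nd (nat_lit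 78) (nat_lit 0) (nat_lit 0) (XT.lf (nat_lit 0) (nat_lit 33969679018) (nat_lit 76) (nat_lit 19298837063) (nat_lit 76) (nat_lit 16448823388) (nat_lit 4) (nat_lit 4) (nat_lit 5) (nat_lit 5) (nat_lit 5) (nat_lit 4) (nat_lit 387) (nat_lit 268) (nat_lit 245)) (XT.nd (nat_lit 78) (nat_lit 0) (nat_lit 0) (XT.lf (nat_lit 0) (nat_lit 43048727986) (nat_lit 76) (nat_lit 16440547722) (nat_lit 76) (nat_lit 13525019501) (nat_lit 4) (nat_lit 4) (nat_lit 5) (nat_lit 5) (nat_lit 5) (nat_lit 4) (nat_lit 388) (nat_lit 268) (nat_lit 244)) (XT.lf (nat_lit 0) (nat_lit 52445147398) (nat_lit 76) (nat_lit 13506185143) (nat_lit 76) (nat_lit 10528262117) (nat_lit 4) (nat_lit 4) (nat_lit 5) (nat_lit 5) (nat_lit 5) (nat_lit 4) (nat_lit 389) (nat_lit 268) (nat_lit 243))))) (XT.nd (nat_lit 234) (nat_lit 152) (nat_lit 0) (XT.nd (nat_lit 78) (nat_lit 0) (nat_lit 0) (XT.lf (nat_lit 0) (nat_lit 62181309681) (nat_lit 76) (nat_lit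 10488762749) (nat_lit 76) (nat_lit 7451416099) (nat_lit 4) (nat_lit 4) (nat_lit 5) (nat_lit 5) (nat_lit 5) (nat_lit 4) (nat_lit 390) (nat_lit 268) (nat_lit 242)) (XT.nd (nat_lit 78) (nat_lit 0) (nat_lit 0) (XT.lf (nat_lit 0) (nat_lit 72280396172) (nat_lit 76) (nat_lit 7381096200) (nat_lit 76) (nat_lit 4287155623) (nat_lit 4) (nat_lit 4) (nat_lit 5) (nat_lit 5) (nat_lit 5) (nat_lit 4) (nat_lit 391) (nat_lit 268) (nat_lit 241)) (XT.lf (nat_lit 0) (nat_lit 82766452317) (nat_lit 76) (nat_lit 4175786292) (nat_lit 76) (nat_lit 1027946736) (nat_lit 4) (nat_lit 4) (nat_lit 5) (nat_lit 5) (nat_lit 5) (nat_lit 4) (nat_lit 392) (nat_lit 268) (nat_lit 240)))) (XT.nd (nat_lit 78) (nat_lit 0) (nat_lit 0) (XT.lf (nat_lit 0) (nat_lit 1479688707) (nat_lit 76) (nat_lit 802682328) (nat_lit 152) (nat_lit 89910327534) (nat_lit 2) (nat_lit 5) (nat_lit 3) (nat_lit 5) (nat_lit 4) (nat_lit 4) (nat_lit 393) (nat_lit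 268) (nat_lit 239)) (XT.nd (nat_lit 78) (nat_lit 0) (nat_lit 0) (XT.lf (nat_lit 0) (nat_lit 5797832878) (nat_lit 152) (nat_lit 88119517412) (nat_lit 0) (nat_lit 2704442517) (nat_lit 2) (nat_lit 5) (nat_lit 4) (nat_lit 4) (nat_lit 2) (nat_lit 4) (nat_lit 394) (nat_lit 268) (nat_lit 238)) (XT.lf (nat_lit 0) (nat_lit 9446833027) (nat_lit 152) (nat_lit 85518526939) (nat_lit 0) (nat_lit 6309099843) (nat_lit 2) (nat_lit 5) (nat_lit 4) (nat_lit 4) (nat_lit 2) (nat_lit 4) (nat_lit 395) (nat_lit 268) (nat_lit 237)))))) (XT.nd (nat_lit 468) (nat_lit 0) (nat_lit 0) (XT.nd (nat_lit 234) (nat_lit 0) (nat_lit 0) (XT.nd (nat_lit 78) (nat_lit 0) (nat_lit 0) (XT.lf (nat_lit 0) (nat_lit 13225527458) (nat_lit 152) (nat_lit 82891313487) (nat_lit 0) (nat_lit 10045563014) (nat_lit 2) (nat_lit 5) (nat_lit 4) (nat_lit 4) (nat_lit 2) (nat_lit 4) (nat_lit 396) (nat_lit 268) (nat_lit 236)) (XT.nd (nat_lit 78) (nat_lit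 0) (nat_lit 0) (XT.lf (nat_lit 0) (nat_lit 17142913062) (nat_lit 152) (nat_lit 80231621787) (nat_lit 0) (nat_lit 13922728371) (nat_lit 2) (nat_lit 5) (nat_lit 4) (nat_lit 4) (nat_lit 2) (nat_lit 4) (nat_lit 397) (nat_lit 268) (nat_lit 235)) (XT.lf (nat_lit 0) (nat_lit 21208316949) (nat_lit 152) (nat_lit 77533119239) (nat_lit 0) (nat_lit 17949827259) (nat_lit 2) (nat_lit 5) (nat_lit 4) (nat_lit 4) (nat_lit 2) (nat_lit 4) (nat_lit 398) (nat_lit 268) (nat_lit 234)))) (XT.nd (nat_lit 78) (nat_lit 0) (nat_lit 0) (XT.lf (nat_lit 0) (nat_lit 25431418650) (nat_lit 152) (nat_lit 74789380837) (nat_lit 0) (nat_lit 22136448010) (nat_lit 2) (nat_lit 5) (nat_lit 4) (nat_lit 4) (nat_lit 2) (nat_lit 4) (nat_lit 399) (nat_lit 268) (nat_lit 233)) (XT.nd (nat_lit 78) (nat_lit 0) (nat_lit 0) (XT.lf (nat_lit 0) (nat_lit 29822273171) (nat_lit 152) (nat_lit 71993873871) (nat_lit 0) (nat_lit 26492558769) (nat_lit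 2) (nat_lit 5) (nat_lit 4) (nat_lit 4) (nat_lit 2) (nat_lit 4) (nat_lit 400) (nat_lit 268) (nat_lit 232)) (XT.lf (nat_lit 0) (nat_lit 34391334926) (nat_lit 152) (nat_lit 69139942372) (nat_lit 0) (nat_lit 31028531227) (nat_lit 2) (nat_lit 5) (nat_lit 4) (nat_lit 4) (nat_lit 2) (nat_lit 4) (nat_lit 401) (nat_lit 268) (nat_lit 231))))) (XT.nd (nat_lit 234) (nat_lit 0) (nat_lit 0) (XT.nd (nat_lit 78) (nat_lit 0) (nat_lit 0) (XT.lf (nat_lit 0) (nat_lit 39149482634) (nat_lit 152) (nat_lit 66220791265) (nat_lit 0) (nat_lit 35755165318) (nat_lit 2) (nat_lit 5) (nat_lit 4) (nat_lit 4) (nat_lit 2) (nat_lit 4) (nat_lit 402) (nat_lit 268) (nat_lit 230)) (XT.nd (nat_lit 78) (nat_lit 0) (nat_lit 0) (XT.lf (nat_lit 0) (nat_lit 44108045218) (nat_lit 152) (nat_lit 63229470189) (nat_lit 0) (nat_lit 40683714935) (nat_lit 2) (nat_lit 5) (nat_lit 4) (nat_lit 4) (nat_lit 2) (nat_lit 4) (nat_lit 403) (nat_lit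 268) (nat_lit 229)) (XT.lf (nat_lit 0) (nat_lit 49278828780) (nat_lit 152) (nat_lit 60158856953) (nat_lit 0) (nat_lit 45825914717) (nat_lit 2) (nat_lit 5) (nat_lit 4) (nat_lit 4) (nat_lit 2) (nat_lit 4) (nat_lit 404) (nat_lit 268) (nat_lit 228)))) (XT.nd (nat_lit 78) (nat_lit 0) (nat_lit 0) (XT.lf (nat_lit 0) (nat_lit 54674144709) (nat_lit 152) (nat_lit 57001640571) (nat_lit 0) (nat_lit 51194008000) (nat_lit 2) (nat_lit 5) (nat_lit 4) (nat_lit 4) (nat_lit 2) (nat_lit 4) (nat_lit 405) (nat_lit 268) (nat_lit 227)) (XT.nd (nat_lit 78) (nat_lit 0) (nat_lit 0) (XT.lf (nat_lit 0) (nat_lit 60306838995) (nat_lit 152) (nat_lit 53750303863) (nat_lit 0) (nat_lit 56800775956) (nat_lit 2) (nat_lit 5) (nat_lit 4) (nat_lit 4) (nat_lit 2) (nat_lit 4) (nat_lit 406) (nat_lit 268) (nat_lit 226)) (XT.lf (nat_lit 0) (nat_lit 66190322816) (nat_lit 152) (nat_lit 50397105550) (nat_lit 0) (nat_lit 62659568033)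 (nat_lit 2) (nat_lit 5) (nat_lit 4) (nat_lit 4) (nat_lit 2) (nat_lit 4) (nat_lit 407) (nat_lit 268) (nat_lit 225))))))))
noncomputable def xc30 : XT := (XT.nd (nat_lit 1794) (nat_lit 0) (nat_lit 0) (XT.nd (nat_lit 858) (nat_lit 76) (nat_lit 0) (XT.nd (nat_lit 390) (nat_lit 0) (nat_lit 0) (XT.nd (nat_lit 156) (nat_lit 0) (nat_lit 0) (XT.nd (nat_lit 78) (nat_lit 0) (nat_lit 0) (XT.lf (nat_lit 0) (nat_lit 72338604465) (nat_lit 152) (nat_lit 46934061826) (nat_lit 0) (nat_lit 68784333737) (nat_lit 2) (nat_lit 5) (nat_lit 4) (nat_lit 4) (nat_lit 2) (nat_lit 4) (nat_lit 408) (nat_lit 268) (nat_lit 224)) (XT.lf (nat_lit 0) (nat_lit 78766322710) (nat_lit 152) (nat_lit 43352927351) (nat_lit 0) (nat_lit 75189655842) (nat_lit 2) (nat_lit 5) (nat_lit 4) (nat_lit 4) (nat_lit 2) (nat_lit 4) (nat_lit 409) (nat_lit 268) (nat_lit 223))) (XT.nd (nat_lit 78) (nat_lit 0) (nat_lit 0) (XT.lf (nat_lit 0) (nat_lit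 85488781640) (nat_lit 152) (nat_lit 39645175612) (nat_lit 0) (nat_lit 81890785117) (nat_lit 2) (nat_lit 5) (nat_lit 4) (nat_lit 4) (nat_lit 2) (nat_lit 4) (nat_lit 410) (nat_lit 268) (nat_lit 222)) (XT.nd (nat_lit 78) (nat_lit 0) (nat_lit 0) (XT.lf (nat_lit 0) (nat_lit 92521987111) (nat_lit 152) (nat_lit 35801978630) (nat_lit 0) (nat_lit 88903676629) (nat_lit 2) (nat_lit 5) (nat_lit 4) (nat_lit 4) (nat_lit 2) (nat_lit 4) (nat_lit 411) (nat_lit 268) (nat_lit 221)) (XT.lf (nat_lit 0) (nat_lit 99882684849) (nat_lit 152) (nat_lit 31814185935) (nat_lit 0) (nat_lit 96245027741) (nat_lit 2) (nat_lit 5) (nat_lit 4) (nat_lit 4) (nat_lit 2) (nat_lit 4) (nat_lit 412) (nat_lit 268) (nat_lit 220))))) (XT.nd (nat_lit 234) (nat_lit 0) (nat_lit 0) (XT.nd (nat_lit 78) (nat_lit 0) (nat_lit 0) (XT.lf (nat_lit 0) (nat_lit 107588400327) (nat_lit 152) (nat_lit 27672302784) (nat_lit 0) (nat_lit 103932317859)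 (nat_lit 2) (nat_lit 5) (nat_lit 4) (nat_lit 4) (nat_lit 2) (nat_lit 4) (nat_lit 413) (nat_lit 268) (nat_lit 219)) (XT.nd (nat_lit 78) (nat_lit 0) (nat_lit 0) (XT.lf (nat_lit 0) (nat_lit 115657480484) (nat_lit 152) (nat_lit 23366467549) (nat_lit 0) (nat_lit 111983850056) (nat_lit 2) (nat_lit 5) (nat_lit 4) (nat_lit 4) (nat_lit 2) (nat_lit 4) (nat_lit 414) (nat_lit 268) (nat_lit 218)) (XT.lf (nat_lit 0) (nat_lit 124109137417) (nat_lit 152) (nat_lit 18886428242) (nat_lit 0) (nat_lit 120418794645) (nat_lit 2) (nat_lit 5) (nat_lit 4) (nat_lit 4) (nat_lit 2) (nat_lit 4) (nat_lit 415) (nat_lit 268) (nat_lit 217)))) (XT.nd (nat_lit 78) (nat_lit 0) (nat_lit 0) (XT.lf (nat_lit 0) (nat_lit 132963494119) (nat_lit 152) (nat_lit 14221518102) (nat_lit 0) (nat_lit 129257234829) (nat_lit 2) (nat_lit 5) (nat_lit 4) (nat_lit 4) (nat_lit 2) (nat_lit 4) (nat_lit 416) (nat_lit 268) (nat_lit 216)) (XT.nd (nat_lit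 78) (nat_lit 0) (nat_lit 0) (XT.lf (nat_lit 0) (nat_lit 142241632391) (nat_lit 152) (nat_lit 9360630202) (nat_lit 0) (nat_lit 138520214513) (nat_lit 2) (nat_lit 5) (nat_lit 4) (nat_lit 4) (nat_lit 2) (nat_lit 4) (nat_lit 417) (nat_lit 268) (nat_lit 215)) (XT.lf (nat_lit 0) (nat_lit 151965643039) (nat_lit 152) (nat_lit 4292190997) (nat_lit 0) (nat_lit 148229788410) (nat_lit 2) (nat_lit 5) (nat_lit 4) (nat_lit 4) (nat_lit 2) (nat_lit 4) (nat_lit 418) (nat_lit 268) (nat_lit 214)))))) (XT.nd (nat_lit 468) (nat_lit 0) (nat_lit 0) (XT.nd (nat_lit 234) (nat_lit 0) (nat_lit 0) (XT.nd (nat_lit 78) (nat_lit 0) (nat_lit 0) (XT.lf (nat_lit 0) (nat_lit 1028795091) (nat_lit 76) (nat_lit 161145945751) (nat_lit 76) (nat_lit 157396341836) (nat_lit 1) (nat_lit 4) (nat_lit 2) (nat_lit 5) (nat_lit 2) (nat_lit 4) (nat_lit 419) (nat_lit 268) (nat_lit 213)) (XT.nd (nat_lit 78) (nat_lit 0) (nat_lit 0) (XT.lf (nat_lit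 0) (nat_lit 6731587928) (nat_lit 76) (nat_lit 166218518836) (nat_lit 76) (nat_lit 162455820362) (nat_lit 1) (nat_lit 4) (nat_lit 2) (nat_lit 5) (nat_lit 2) (nat_lit 4) (nat_lit 420) (nat_lit 268) (nat_lit 212)) (XT.lf (nat_lit 0) (nat_lit 12687846374) (nat_lit 76) (nat_lit 171560321175) (nat_lit 76) (nat_lit 167785151693) (nat_lit 1) (nat_lit 4) (nat_lit 2) (nat_lit 5) (nat_lit 2) (nat_lit 4) (nat_lit 421) (nat_lit 268) (nat_lit 211)))) (XT.nd (nat_lit 78) (nat_lit 0) (nat_lit 0) (XT.lf (nat_lit 0) (nat_lit 18911751996) (nat_lit 76) (nat_lit 177184071347) (nat_lit 76) (nat_lit 173397024715) (nat_lit 1) (nat_lit 4) (nat_lit 2) (nat_lit 5) (nat_lit 2) (nat_lit 4) (nat_lit 422) (nat_lit 268) (nat_lit 210)) (XT.nd (nat_lit 78) (nat_lit 0) (nat_lit 0) (XT.lf (nat_lit 0) (nat_lit 25418123617) (nat_lit 76) (nat_lit 183103159233) (nat_lit 76) (nat_lit 179304801028) (nat_lit 1) (nat_lit 4) (nat_lit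 2) (nat_lit 5) (nat_lit 2) (nat_lit 4) (nat_lit 423) (nat_lit 268) (nat_lit 209)) (XT.lf (nat_lit 0) (nat_lit 32222452597) (nat_lit 76) (nat_lit 189331677898) (nat_lit 76) (nat_lit 185522546768) (nat_lit 1) (nat_lit 4) (nat_lit 2) (nat_lit 5) (nat_lit 2) (nat_lit 4) (nat_lit 424) (nat_lit 268) (nat_lit 208))))) (XT.nd (nat_lit 234) (nat_lit 0) (nat_lit 0) (XT.nd (nat_lit 78) (nat_lit 0) (nat_lit 0) (XT.lf (nat_lit 0) (nat_lit 39340939722) (nat_lit 76) (nat_lit 195884457150) (nat_lit 76) (nat_lit 192065066091) (nat_lit 1) (nat_lit 4) (nat_lit 2) (nat_lit 5) (nat_lit 2) (nat_lit 4) (nat_lit 425) (nat_lit 268) (nat_lit 207)) (XT.nd (nat_lit 78) (nat_lit 0) (nat_lit 0) (XT.lf (nat_lit 0) (nat_lit 46790533768) (nat_lit 76) (nat_lit 202777098844) (nat_lit 76) (nat_lit 198947936423) (nat_lit 1) (nat_lit 4) (nat_lit 2) (nat_lit 5) (nat_lit 2) (nat_lit 4) (nat_lit 426) (nat_lit 268) (nat_lit 206))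 (XT.lf (nat_lit 0) (nat_lit 54588971865) (nat_lit 76) (nat_lit 210026014031) (nat_lit 76) (nat_lit 206187545552) (nat_lit 1) (nat_lit 4) (nat_lit 2) (nat_lit 5) (nat_lit 2) (nat_lit 4) (nat_lit 427) (nat_lit 268) (nat_lit 205)))) (XT.nd (nat_lit 78) (nat_lit 0) (nat_lit 0) (XT.lf (nat_lit 0) (nat_lit 62754821723) (nat_lit 76) (nat_lit 217648462034) (nat_lit 76) (nat_lit 213801130642) (nat_lit 1) (nat_lit 4) (nat_lit 2) (nat_lit 5) (nat_lit 2) (nat_lit 4) (nat_lit 428) (nat_lit 268) (nat_lit 204)) (XT.nd (nat_lit 78) (nat_lit 0) (nat_lit 0) (XT.lf (nat_lit 0) (nat_lit 71307525841) (nat_lit 76) (nat_lit 225662591537) (nat_lit 76) (nat_lit 221806819276) (nat_lit 1) (nat_lit 4) (nat_lit 2) (nat_lit 5) (nat_lit 2) (nat_lit 4) (nat_lit 429) (nat_lit 268) (nat_lit 203)) (XT.lf (nat_lit 0) (nat_lit 80267447801) (nat_lit 76) (nat_lit 234087483802) (nat_lit 76) (nat_lit 230223672618) (nat_lit 1)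 (nat_lit 4) (nat_lit 2) (nat_lit 5) (nat_lit 2) (nat_lit 4) (nat_lit 430) (nat_lit 268) (nat_lit 202))))))) (XT.nd (nat_lit 41808) (nat_lit 0) (nat_lit 380) (XT.nd (nat_lit 468) (nat_lit 0) (nat_lit 0) (XT.nd (nat_lit 234) (nat_lit 0) (nat_lit 0) (XT.nd (nat_lit 78) (nat_lit 0) (nat_lit 0) (XT.lf (nat_lit 0) (nat_lit 89655920749) (nat_lit 76) (nat_lit 242943198096) (nat_lit 76) (nat_lit 239071730795) (nat_lit 1) (nat_lit 4) (nat_lit 2) (nat_lit 5) (nat_lit 2) (nat_lit 4) (nat_lit 431) (nat_lit 268) (nat_lit 201)) (XT.nd (nat_lit 78) (nat_lit 0) (nat_lit 0) (XT.lf (nat_lit 0) (nat_lit 99495298194) (nat_lit 76) (nat_lit 252250819454) (nat_lit 76) (nat_lit 248372060612) (nat_lit 1) (nat_lit 4) (nat_lit 2) (nat_lit 5) (nat_lit 2) (nat_lit 4) (nat_lit 432) (nat_lit 268) (nat_lit 200)) (XT.lf (nat_lit 0) (nat_lit 109809007224) (nat_lit 76) (nat_lit 262032508877) (nat_lit 76) (nat_lit 258146805712)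 (nat_lit 1) (nat_lit 4) (nat_lit 2) (nat_lit 5) (nat_lit 2) (nat_lit 4) (nat_lit 433) (nat_lit 268) (nat_lit 199)))) (XT.nd (nat_lit 78) (nat_lit 0) (nat_lit 0) (XT.lf (nat_lit 0) (nat_lit 120621604289) (nat_lit 76) (nat_lit 272311556104) (nat_lit 76) (nat_lit 268419239297) (nat_lit 1) (nat_lit 4) (nat_lit 2) (nat_lit 5) (nat_lit 2) (nat_lit 4) (nat_lit 434) (nat_lit 268) (nat_lit 198)) (XT.nd (nat_lit 78) (nat_lit 0) (nat_lit 0) (XT.lf (nat_lit 0) (nat_lit 131958833668) (nat_lit 76) (nat_lit 283112435055) (nat_lit 76) (nat_lit 279213819542) (nat_lit 1) (nat_lit 4) (nat_lit 2) (nat_lit 5) (nat_lit 2) (nat_lit 4) (nat_lit 435) (nat_lit 268) (nat_lit 197)) (XT.lf (nat_lit 0) (nat_lit 143847688765) (nat_lit 76) (nat_lit 294460862110) (nat_lit 76) (nat_lit 290556247828) (nat_lit 1) (nat_lit 4) (nat_lit 2) (nat_lit 5) (nat_lit 2) (nat_lit 4) (nat_lit 436) (nat_lit 268) (nat_lit 196))))) (XT.nd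 (nat_lit 41106) (nat_lit 0) (nat_lit 760) (XT.nd (nat_lit 78) (nat_lit 0) (nat_lit 0) (XT.lf (nat_lit 0) (nat_lit 156316476376) (nat_lit 76) (nat_lit 306383857333) (nat_lit 76) (nat_lit 302473529939) (nat_lit 1) (nat_lit 4) (nat_lit 2) (nat_lit 5) (nat_lit 2) (nat_lit 4) (nat_lit 437) (nat_lit 268) (nat_lit 195)) (XT.nd (nat_lit 40950) (nat_lit 0) (nat_lit 912) (XT.lf (nat_lit 0) (nat_lit 169394884092) (nat_lit 76) (nat_lit 318909808808) (nat_lit 76) (nat_lit 314994040354) (nat_lit 1) (nat_lit 4) (nat_lit 2) (nat_lit 5) (nat_lit 2) (nat_lit 4) (nat_lit 438) (nat_lit 268) (nat_lit 194)) (XT.lf (nat_lit 0) (nat_lit 6254338033) (nat_lit 76) (nat_lit 2879377945) (nat_lit 76) (nat_lit 2879377945) (nat_lit 13) (nat_lit 4) (nat_lit 14) (nat_lit 5) (nat_lit 14) (nat_lit 4) (nat_lit 362) (nat_lit 269) (nat_lit 269)))) (XT.nd (nat_lit 78) (nat_lit 152) (nat_lit 0) (XT.lf (nat_lit 0) (nat_lit 23476022872)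 (nat_lit 76) (nat_lit 862153513) (nat_lit 76) (nat_lit 617557820) (nat_lit 13) (nat_lit 4) (nat_lit 14) (nat_lit 5) (nat_lit 14) (nat_lit 4) (nat_lit 363) (nat_lit 269) (nat_lit 268)) (XT.nd (nat_lit 78) (nat_lit 0) (nat_lit 0) (XT.lf (nat_lit 0) (nat_lit 4661801625) (nat_lit 152) (nat_lit 17057552305) (nat_lit 0) (nat_lit 4206997841) (nat_lit 11) (nat_lit 5) (nat_lit 13) (nat_lit 4) (nat_lit 11) (nat_lit 4) (nat_lit 364) (nat_lit 269) (nat_lit 267)) (XT.lf (nat_lit 0) (nat_lit 10051386724) (nat_lit 152) (nat_lit 7514994807) (nat_lit 0) (nat_lit 9385291984) (nat_lit 11) (nat_lit 5) (nat_lit 13) (nat_lit 4) (nat_lit 11) (nat_lit 4) (nat_lit 365) (nat_lit 269) (nat_lit 266)))))) (XT.nd (nat_lit 468) (nat_lit 152) (nat_lit 0) (XT.nd (nat_lit 234) (nat_lit 152) (nat_lit 0) (XT.nd (nat_lit 78) (nat_lit 0) (nat_lit 0) (XT.lf (nat_lit 0) (nat_lit 2260677565) (nat_lit 76) (nat_lit 13320695282)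 (nat_lit 76) (nat_lit 12453371060) (nat_lit 10) (nat_lit 4) (nat_lit 11) (nat_lit 5) (nat_lit 11) (nat_lit 4) (nat_lit 366) (nat_lit 269) (nat_lit 265)) (XT.nd (nat_lit 78) (nat_lit 0) (nat_lit 0) (XT.lf (nat_lit 0) (nat_lit 12474771127) (nat_lit 76) (nat_lit 8878951062) (nat_lit 76) (nat_lit 7819979714) (nat_lit 10) (nat_lit 4) (nat_lit 11) (nat_lit 5) (nat_lit 11) (nat_lit 4) (nat_lit 367) (nat_lit 269) (nat_lit 264)) (XT.lf (nat_lit 0) (nat_lit 22903125484) (nat_lit 76) (nat_lit 4357843364) (nat_lit 76) (nat_lit 3116350944) (nat_lit 10) (nat_lit 4) (nat_lit 11) (nat_lit 5) (nat_lit 11) (nat_lit 4) (nat_lit 368) (nat_lit 269) (nat_lit 263)))) (XT.nd (nat_lit 78) (nat_lit 0) (nat_lit 0) (XT.lf (nat_lit 0) (nat_lit 1650771196) (nat_lit 152) (nat_lit 29691770693) (nat_lit 0) (nat_lit 302845469) (nat_lit 8) (nat_lit 5) (nat_lit 10) (nat_lit 4) (nat_lit 8) (nat_lit 4) (nat_lit 369) (nat_lit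 269) (nat_lit 262)) (XT.nd (nat_lit 78) (nat_lit 0) (nat_lit 0) (XT.lf (nat_lit 0) (nat_lit 6603332852) (nat_lit 152) (nat_lit 21270664289) (nat_lit 0) (nat_lit 5097738560) (nat_lit 8) (nat_lit 5) (nat_lit 10) (nat_lit 4) (nat_lit 8) (nat_lit 4) (nat_lit 370) (nat_lit 269) (nat_lit 261)) (XT.lf (nat_lit 0) (nat_lit 11662302605) (nat_lit 152) (nat_lit 12702633455) (nat_lit 0) (nat_lit 10006547776) (nat_lit 8) (nat_lit 5) (nat_lit 10) (nat_lit 4) (nat_lit 8) (nat_lit 4) (nat_lit 371) (nat_lit 269) (nat_lit 260))))) (XT.nd (nat_lit 234) (nat_lit 76) (nat_lit 0) (XT.nd (nat_lit 78) (nat_lit 76) (nat_lit 0) (XT.lf (nat_lit 0) (nat_lit 16839725623) (nat_lit 152) (nat_lit 3967278120) (nat_lit 0) (nat_lit 15040960757) (nat_lit 8) (nat_lit 5) (nat_lit 10) (nat_lit 4) (nat_lit 8) (nat_lit 4) (nat_lit 372) (nat_lit 269) (nat_lit 259)) (XT.nd (nat_lit 78) (nat_lit 0) (nat_lit 0) (XT.lf (nat_lit 0)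 (nat_lit 5120074542) (nat_lit 76) (nat_lit 17107793271) (nat_lit 76) (nat_lit 15172828371) (nat_lit 7) (nat_lit 4) (nat_lit 8) (nat_lit 5) (nat_lit 8) (nat_lit 4) (nat_lit 373) (nat_lit 269) (nat_lit 258)) (XT.lf (nat_lit 0) (nat_lit 14554895377) (nat_lit 76) (nat_lit 13271898950) (nat_lit 76) (nat_lit 11207219732) (nat_lit 7) (nat_lit 4) (nat_lit 8) (nat_lit 5) (nat_lit 8) (nat_lit 4) (nat_lit 374) (nat_lit 269) (nat_lit 257)))) (XT.nd (nat_lit 78) (nat_lit 76) (nat_lit 0) (XT.lf (nat_lit 0) (nat_lit 24228472111) (nat_lit 76) (nat_lit 9357375473) (nat_lit 76) (nat_lit 7169158809) (nat_lit 7) (nat_lit 4) (nat_lit 8) (nat_lit 5) (nat_lit 8) (nat_lit 4) (nat_lit 375) (nat_lit 269) (nat_lit 256)) (XT.nd (nat_lit 78) (nat_lit 76) (nat_lit 0) (XT.lf (nat_lit 0) (nat_lit 34163837069) (nat_lit 76) (nat_lit 5354902547) (nat_lit 76) (nat_lit 3049031172) (nat_lit 7) (nat_lit 4) (nat_lit 8) (nat_lit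 5) (nat_lit 8) (nat_lit 4) (nat_lit 376) (nat_lit 269) (nat_lit 255)) (XT.lf (nat_lit 0) (nat_lit 1125750608) (nat_lit 152) (nat_lit 110134733) (nat_lit 76) (nat_lit 43239830144) (nat_lit 6) (nat_lit 5) (nat_lit 8) (nat_lit 5) (nat_lit 7) (nat_lit 4) (nat_lit 377) (nat_lit 269) (nat_lit 254))))))))
noncomputable def xc31 : XT := (XT.nd (nat_lit 1872) (nat_lit 76) (nat_lit 0) (XT.nd (nat_lit 936) (nat_lit 152) (nat_lit 0) (XT.nd (nat_lit 468) (nat_lit 76) (nat_lit 0) (XT.nd (nat_lit 234) (nat_lit 0) (nat_lit 0) (XT.nd (nat_lit 78) (nat_lit 0) (nat_lit 0) (XT.lf (nat_lit 0) (nat_lit 5485863026) (nat_lit 152) (nat_lit 37905312509) (nat_lit 0) (nat_lit 3081444196) (nat_lit 5) (nat_lit 5) (nat_lit 7) (nat_lit 4) (nat_lit 5) (nat_lit 4) (nat_lit 378) (nat_lit 269) (nat_lit 253)) (XT.nd (nat_lit 78) (nat_lit 0) (nat_lit 0) (XT.lf (nat_lit 0) (nat_lit 9981254505) (nat_lit 152) (nat_lit 31112223939)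 (nat_lit 0) (nat_lit 7480040854) (nat_lit 5) (nat_lit 5) (nat_lit 7) (nat_lit 4) (nat_lit 5) (nat_lit 4) (nat_lit 379) (nat_lit 269) (nat_lit 252)) (XT.lf (nat_lit 0) (nat_lit 14601527236) (nat_lit 152) (nat_lit 24174816104) (nat_lit 0) (nat_lit 12008128041) (nat_lit 5) (nat_lit 5) (nat_lit 7) (nat_lit 4) (nat_lit 5) (nat_lit 4) (nat_lit 380) (nat_lit 269) (nat_lit 251)))) (XT.nd (nat_lit 78) (nat_lit 0) (nat_lit 0) (XT.lf (nat_lit 0) (nat_lit 19357681870) (nat_lit 152) (nat_lit 17076571368) (nat_lit 0) (nat_lit 16676486917) (nat_lit 5) (nat_lit 5) (nat_lit 7) (nat_lit 4) (nat_lit 5) (nat_lit 4) (nat_lit 381) (nat_lit 269) (nat_lit 250)) (XT.nd (nat_lit 78) (nat_lit 0) (nat_lit 0) (XT.lf (nat_lit 0) (nat_lit 24261042582) (nat_lit 152) (nat_lit 9800589147) (nat_lit 0) (nat_lit 21496232624) (nat_lit 5) (nat_lit 5) (nat_lit 7) (nat_lit 4) (nat_lit 5) (nat_lit 4) (nat_lit 382) (nat_lit 269)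 (nat_lit 249)) (XT.lf (nat_lit 0) (nat_lit 29323284043) (nat_lit 152) (nat_lit 2329545675) (nat_lit 0) (nat_lit 26478840745) (nat_lit 5) (nat_lit 5) (nat_lit 7) (nat_lit 4) (nat_lit 5) (nat_lit 4) (nat_lit 383) (nat_lit 269) (nat_lit 248))))) (XT.nd (nat_lit 234) (nat_lit 0) (nat_lit 0) (XT.nd (nat_lit 78) (nat_lit 0) (nat_lit 0) (XT.lf (nat_lit 0) (nat_lit 5531386148) (nat_lit 76) (nat_lit 29111433498) (nat_lit 76) (nat_lit 26191148925) (nat_lit 4) (nat_lit 4) (nat_lit 5) (nat_lit 5) (nat_lit 5) (nat_lit 4) (nat_lit 384) (nat_lit 269) (nat_lit 247)) (XT.nd (nat_lit 78) (nat_lit 0) (nat_lit 0) (XT.lf (nat_lit 0) (nat_lit 13708130385) (nat_lit 76) (nat_lit 26478919963) (nat_lit 76) (nat_lit 23486405604) (nat_lit 4) (nat_lit 4) (nat_lit 5) (nat_lit 5) (nat_lit 5) (nat_lit 4) (nat_lit 385) (nat_lit 269) (nat_lit 246)) (XT.lf (nat_lit 0) (nat_lit 22143130173) (nat_lit 76) (nat_lit 23788473207)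 (nat_lit 76) (nat_lit 20727168575) (nat_lit 4) (nat_lit 4) (nat_lit 5) (nat_lit 5) (nat_lit 5) (nat_lit 4) (nat_lit 386) (nat_lit 269) (nat_lit 245)))) (XT.nd (nat_lit 78) (nat_lit 0) (nat_lit 0) (XT.lf (nat_lit 0) (nat_lit 30856468845) (nat_lit 76) (nat_lit 21033687404) (nat_lit 76) (nat_lit 17906868226) (nat_lit 4) (nat_lit 4) (nat_lit 5) (nat_lit 5) (nat_lit 5) (nat_lit 4) (nat_lit 387) (nat_lit 269) (nat_lit 244)) (XT.nd (nat_lit 78) (nat_lit 0) (nat_lit 0) (XT.lf (nat_lit 0) (nat_lit 39868892445) (nat_lit 76) (nat_lit 18208003540) (nat_lit 76) (nat_lit 15018789558) (nat_lit 4) (nat_lit 4) (nat_lit 5) (nat_lit 5) (nat_lit 5) (nat_lit 4) (nat_lit 388) (nat_lit 269) (nat_lit 243)) (XT.lf (nat_lit 0) (nat_lit 49201859126) (nat_lit 76) (nat_lit 15304693797) (nat_lit 76) (nat_lit 12056056191) (nat_lit 4) (nat_lit 4) (nat_lit 5) (nat_lit 5) (nat_lit 5) (nat_lit 4) (nat_lit 389) (nat_lit 269)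 (nat_lit 242)))))) (XT.nd (nat_lit 468) (nat_lit 0) (nat_lit 0) (XT.nd (nat_lit 234) (nat_lit 152) (nat_lit 0) (XT.nd (nat_lit 78) (nat_lit 0) (nat_lit 0) (XT.lf (nat_lit 0) (nat_lit 58877590235) (nat_lit 76) (nat_lit 12316845532) (nat_lit 76) (nat_lit 9011613999) (nat_lit 4) (nat_lit 4) (nat_lit 5) (nat_lit 5) (nat_lit 5) (nat_lit 4) (nat_lit 390) (nat_lit 269) (nat_lit 241)) (XT.nd (nat_lit 78) (nat_lit 0) (nat_lit 0) (XT.lf (nat_lit 0) (nat_lit 68919123228) (nat_lit 76) (nat_lit 9237344822) (nat_lit 76) (nat_lit 5878214309) (nat_lit 4) (nat_lit 4) (nat_lit 5) (nat_lit 5) (nat_lit 5) (nat_lit 4) (nat_lit 391) (nat_lit 269) (nat_lit 240)) (XT.lf (nat_lit 0) (nat_lit 79350366517) (nat_lit 76) (nat_lit 6058859521) (nat_lit 76) (nat_lit 2648396648) (nat_lit 4) (nat_lit 4) (nat_lit 5) (nat_lit 5) (nat_lit 5) (nat_lit 4) (nat_lit 392) (nat_lit 269) (nat_lit 239)))) (XT.nd (nat_lit 78) (nat_lit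 76) (nat_lit 0) (XT.lf (nat_lit 0) (nat_lit 663587818) (nat_lit 152) (nat_lit 2098995808) (nat_lit 76) (nat_lit 89521330397) (nat_lit 3) (nat_lit 5) (nat_lit 5) (nat_lit 5) (nat_lit 4) (nat_lit 4) (nat_lit 393) (nat_lit 269) (nat_lit 238)) (XT.nd (nat_lit 78) (nat_lit 0) (nat_lit 0) (XT.lf (nat_lit 0) (nat_lit 4087019115) (nat_lit 152) (nat_lit 91882537303) (nat_lit 0) (nat_lit 748056449) (nat_lit 2) (nat_lit 5) (nat_lit 4) (nat_lit 4) (nat_lit 2) (nat_lit 4) (nat_lit 394) (nat_lit 269) (nat_lit 237)) (XT.lf (nat_lit 0) (nat_lit 7710284764) (nat_lit 152) (nat_lit 89332193925) (nat_lit 0) (nat_lit 4329090838) (nat_lit 2) (nat_lit 5) (nat_lit 4) (nat_lit 4) (nat_lit 2) (nat_lit 4) (nat_lit 395) (nat_lit 269) (nat_lit 236))))) (XT.nd (nat_lit 234) (nat_lit 0) (nat_lit 0) (XT.nd (nat_lit 78) (nat_lit 0) (nat_lit 0) (XT.lf (nat_lit 0) (nat_lit 11464470147) (nat_lit 152) (nat_lit 86753215802)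 (nat_lit 0) (nat_lit 8043055973) (nat_lit 2) (nat_lit 5) (nat_lit 4) (nat_lit 4) (nat_lit 2) (nat_lit 4) (nat_lit 396) (nat_lit 269) (nat_lit 235)) (XT.nd (nat_lit 78) (nat_lit 0) (nat_lit 0) (XT.lf (nat_lit 0) (nat_lit 15358513801) (nat_lit 152) (nat_lit 84139462510) (nat_lit 0) (nat_lit 11898794630) (nat_lit 2) (nat_lit 5) (nat_lit 4) (nat_lit 4) (nat_lit 2) (nat_lit 4) (nat_lit 397) (nat_lit 269) (nat_lit 234)) (XT.lf (nat_lit 0) (nat_lit 19401687259) (nat_lit 152) (nat_lit 81484710828) (nat_lit 0) (nat_lit 15905487137) (nat_lit 2) (nat_lit 5) (nat_lit 4) (nat_lit 4) (nat_lit 2) (nat_lit 4) (nat_lit 398) (nat_lit 269) (nat_lit 233)))) (XT.nd (nat_lit 78) (nat_lit 0) (nat_lit 0) (XT.lf (nat_lit 0) (nat_lit 23603617123) (nat_lit 152) (nat_lit 78782639917) (nat_lit 0) (nat_lit 20072673239) (nat_lit 2) (nat_lit 5) (nat_lit 4) (nat_lit 4) (nat_lit 2) (nat_lit 4) (nat_lit 399) (nat_lit 269)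 (nat_lit 232)) (XT.nd (nat_lit 78) (nat_lit 0) (nat_lit 0) (XT.lf (nat_lit 0) (nat_lit 27974307989) (nat_lit 152) (nat_lit 76026816275) (nat_lit 0) (nat_lit 24410274808) (nat_lit 2) (nat_lit 5) (nat_lit 4) (nat_lit 4) (nat_lit 2) (nat_lit 4) (nat_lit 400) (nat_lit 269) (nat_lit 231)) (XT.lf (nat_lit 0) (nat_lit 32524166264) (nat_lit 152) (nat_lit 73210678418) (nat_lit 0) (nat_lit 28928619466) (nat_lit 2) (nat_lit 5) (nat_lit 4) (nat_lit 4) (nat_lit 2) (nat_lit 4) (nat_lit 401) (nat_lit 269) (nat_lit 230))))))) (XT.nd (nat_lit 936) (nat_lit 76) (nat_lit 0) (XT.nd (nat_lit 468) (nat_lit 0) (nat_lit 0) (XT.nd (nat_lit 234) (nat_lit 0) (nat_lit 0) (XT.nd (nat_lit 78) (nat_lit 0) (nat_lit 0) (XT.lf (nat_lit 0) (nat_lit 37264024943) (nat_lit 152) (nat_lit 70327521256) (nat_lit 0) (nat_lit 33638465177) (nat_lit 2) (nat_lit 5) (nat_lit 4) (nat_lit 4) (nat_lit 2) (nat_lit 4) (nat_lit 402) (nat_lit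 269) (nat_lit 229)) (XT.nd (nat_lit 78) (nat_lit 0) (nat_lit 0) (XT.lf (nat_lit 0) (nat_lit 42205169405) (nat_lit 152) (nat_lit 67370480128) (nat_lit 0) (nat_lit 38551025860) (nat_lit 2) (nat_lit 5) (nat_lit 4) (nat_lit 4) (nat_lit 2) (nat_lit 4) (nat_lit 403) (nat_lit 269) (nat_lit 228)) (XT.lf (nat_lit 0) (nat_lit 47359364278) (nat_lit 152) (nat_lit 64332514460) (nat_lit 0) (nat_lit 43677998087) (nat_lit 2) (nat_lit 5) (nat_lit 4) (nat_lit 4) (nat_lit 2) (nat_lit 4) (nat_lit 404) (nat_lit 269) (nat_lit 227)))) (XT.nd (nat_lit 78) (nat_lit 0) (nat_lit 0) (XT.lf (nat_lit 0) (nat_lit 52738881457) (nat_lit 152) (nat_lit 61206391002) (nat_lit 0) (nat_lit 49031588935) (nat_lit 2) (nat_lit 5) (nat_lit 4) (nat_lit 4) (nat_lit 2) (nat_lit 4) (nat_lit 405) (nat_lit 269) (nat_lit 226)) (XT.nd (nat_lit 78) (nat_lit 0) (nat_lit 0) (XT.lf (nat_lit 0) (nat_lit 58356529314) (nat_lit 152) (nat_lit 57984666601)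 (nat_lit 0) (nat_lit 54624545049) (nat_lit 2) (nat_lit 5) (nat_lit 4) (nat_lit 4) (nat_lit 2) (nat_lit 4) (nat_lit 406) (nat_lit 269) (nat_lit 225)) (XT.lf (nat_lit 0) (nat_lit 64225683201) (nat_lit 152) (nat_lit 54659670486) (nat_lit 0) (nat_lit 60470182991) (nat_lit 2) (nat_lit 5) (nat_lit 4) (nat_lit 4) (nat_lit 2) (nat_lit 4) (nat_lit 407) (nat_lit 269) (nat_lit 224))))) (XT.nd (nat_lit 234) (nat_lit 0) (nat_lit 0) (XT.nd (nat_lit 78) (nat_lit 0) (nat_lit 0) (XT.lf (nat_lit 0) (nat_lit 70360317296) (nat_lit 152) (nat_lit 51223485999) (nat_lit 0) (nat_lit 66582420946) (nat_lit 2) (nat_lit 5) (nat_lit 4) (nat_lit 4) (nat_lit 2) (nat_lit 4) (nat_lit 408) (nat_lit 269) (nat_lit 223)) (XT.nd (nat_lit 78) (nat_lit 0) (nat_lit 0) (XT.lf (nat_lit 0) (nat_lit 76775037869) (nat_lit 152) (nat_lit 47667931748) (nat_lit 0) (nat_lit 72975811863) (nat_lit 2) (nat_lit 5) (nat_lit 4) (nat_lit 4) (nat_lit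 2) (nat_lit 4) (nat_lit 409) (nat_lit 269) (nat_lit 222)) (XT.lf (nat_lit 0) (nat_lit 83485118065) (nat_lit 152) (nat_lit 43984542128) (nat_lit 0) (nat_lit 79665578101) (nat_lit 2) (nat_lit 5) (nat_lit 4) (nat_lit 4) (nat_lit 2) (nat_lit 4) (nat_lit 410) (nat_lit 269) (nat_lit 221)))) (XT.nd (nat_lit 78) (nat_lit 0) (nat_lit 0) (XT.lf (nat_lit 0) (nat_lit 90506534264) (nat_lit 152) (nat_lit 40164547163) (nat_lit 0) (nat_lit 86667647673) (nat_lit 2) (nat_lit 5) (nat_lit 4) (nat_lit 4) (nat_lit 2) (nat_lit 4) (nat_lit 411) (nat_lit 269) (nat_lit 220)) (XT.nd (nat_lit 78) (nat_lit 0) (nat_lit 0) (XT.lf (nat_lit 0) (nat_lit 97856004126) (nat_lit 152) (nat_lit 36198851629) (nat_lit 0) (nat_lit 93998692176) (nat_lit 2) (nat_lit 5) (nat_lit 4) (nat_lit 4) (nat_lit 2) (nat_lit 4) (nat_lit 412) (nat_lit 269) (nat_lit 219)) (XT.lf (nat_lit 0) (nat_lit 105551026386) (nat_lit 152) (nat_lit 32078013392)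 (nat_lit 0) (nat_lit 101676166476) (nat_lit 2) (nat_lit 5) (nat_lit 4) (nat_lit 4) (nat_lit 2) (nat_lit 4) (nat_lit 413) (nat_lit 269) (nat_lit 218)))))) (XT.nd (nat_lit 468) (nat_lit 76) (nat_lit 0) (XT.nd (nat_lit 234) (nat_lit 0) (nat_lit 0) (XT.nd (nat_lit 78) (nat_lit 0) (nat_lit 0) (XT.lf (nat_lit 0) (nat_lit 113609922528) (nat_lit 152) (nat_lit 27792220932) (nat_lit 0) (nat_lit 109718350274) (nat_lit 2) (nat_lit 5) (nat_lit 4) (nat_lit 4) (nat_lit 2) (nat_lit 4) (nat_lit 414) (nat_lit 269) (nat_lit 217)) (XT.nd (nat_lit 78) (nat_lit 0) (nat_lit 0) (XT.lf (nat_lit 0) (nat_lit 122051880399) (nat_lit 152) (nat_lit 23331269983) (nat_lit 0) (nat_lit 118144391627) (nat_lit 2) (nat_lit 5) (nat_lit 4) (nat_lit 4) (nat_lit 2) (nat_lit 4) (nat_lit 415) (nat_lit 269) (nat_lit 216)) (XT.lf (nat_lit 0) (nat_lit 130896999898) (nat_lit 152) (nat_lit 18684539231) (nat_lit 0) (nat_lit 126974352538)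 (nat_lit 2) (nat_lit 5) (nat_lit 4) (nat_lit 4) (nat_lit 2) (nat_lit 4) (nat_lit 416) (nat_lit 269) (nat_lit 215)))) (XT.nd (nat_lit 78) (nat_lit 0) (nat_lit 0) (XT.lf (nat_lit 0) (nat_lit 140166340835) (nat_lit 152) (nat_lit 13840965034) (nat_lit 0) (nat_lit 136229256724) (nat_lit 2) (nat_lit 5) (nat_lit 4) (nat_lit 4) (nat_lit 2) (nat_lit 4) (nat_lit 417) (nat_lit 269) (nat_lit 214)) (XT.nd (nat_lit 78) (nat_lit 0) (nat_lit 0) (XT.lf (nat_lit 0) (nat_lit 149881973067) (nat_lit 152) (nat_lit 8789015070) (nat_lit 0) (nat_lit 145931139670) (nat_lit 2) (nat_lit 5) (nat_lit 4) (nat_lit 4) (nat_lit 2) (nat_lit 4) (nat_lit 418) (nat_lit 269) (nat_lit 213)) (XT.lf (nat_lit 0) (nat_lit 160067029054) (nat_lit 152) (nat_lit 3516660888) (nat_lit 0) (nat_lit 156103101098) (nat_lit 2) (nat_lit 5) (nat_lit 4) (nat_lit 4) (nat_lit 2) (nat_lit 4) (nat_lit 419) (nat_lit 269) (nat_lit 212))))) (XT.nd (nat_lit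 234) (nat_lit 0) (nat_lit 0) (XT.nd (nat_lit 78) (nat_lit 0) (nat_lit 0) (XT.lf (nat_lit 0) (nat_lit 2054404510) (nat_lit 76) (nat_lit 168723429430) (nat_lit 76) (nat_lit 164747030466) (nat_lit 1) (nat_lit 4) (nat_lit 2) (nat_lit 5) (nat_lit 2) (nat_lit 4) (nat_lit 420) (nat_lit 269) (nat_lit 211)) (XT.nd (nat_lit 78) (nat_lit 0) (nat_lit 0) (XT.lf (nat_lit 0) (nat_lit 7995947957) (nat_lit 76) (nat_lit 174072479436) (nat_lit 76) (nat_lit 170084203321) (nat_lit 1) (nat_lit 4) (nat_lit 2) (nat_lit 5) (nat_lit 2) (nat_lit 4) (nat_lit 421) (nat_lit 269) (nat_lit 210)) (XT.lf (nat_lit 0) (nat_lit 14205839295) (nat_lit 76) (nat_lit 179703132147) (nat_lit 76) (nat_lit 175703544460) (nat_lit 1) (nat_lit 4) (nat_lit 2) (nat_lit 5) (nat_lit 2) (nat_lit 4) (nat_lit 422) (nat_lit 269) (nat_lit 209)))) (XT.nd (nat_lit 78) (nat_lit 0) (nat_lit 0) (XT.lf (nat_lit 0) (nat_lit 20698863979) (nat_lit 76)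 (nat_lit 185628793879) (nat_lit 76) (nat_lit 181618433266) (nat_lit 1) (nat_lit 4) (nat_lit 2) (nat_lit 5) (nat_lit 2) (nat_lit 4) (nat_lit 423) (nat_lit 269) (nat_lit 208)) (XT.nd (nat_lit 78) (nat_lit 0) (nat_lit 0) (XT.lf (nat_lit 0) (nat_lit 27490481591) (nat_lit 76) (nat_lit 191863573351) (nat_lit 76) (nat_lit 187842952809) (nat_lit 1) (nat_lit 4) (nat_lit 2) (nat_lit 5) (nat_lit 2) (nat_lit 4) (nat_lit 424) (nat_lit 269) (nat_lit 207)) (XT.lf (nat_lit 0) (nat_lit 34596862650) (nat_lit 76) (nat_lit 198422315276) (nat_lit 76) (nat_lit 194391923373) (nat_lit 1) (nat_lit 4) (nat_lit 2) (nat_lit 5) (nat_lit 2) (nat_lit 4) (nat_lit 425) (nat_lit 269) (nat_lit 206))))))))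
noncomputable def xc32 : XT := (XT.nd (nat_lit 42510) (nat_lit 0) (nat_lit 228) (XT.nd (nat_lit 858) (nat_lit 0) (nat_lit 0) (XT.nd (nat_lit 390) (nat_lit 0) (nat_lit 0) (XT.nd (nat_lit 156) (nat_lit 0) (nat_lit 0) (XT.nd (nat_lit 78) (nat_lit 0) (nat_lit 0) (XT.lf (nat_lit 0) (nat_lit 42034927110) (nat_lit 76) (nat_lit 205320635705) (nat_lit 76) (nat_lit 201280937744) (nat_lit 1) (nat_lit 4) (nat_lit 2) (nat_lit 5) (nat_lit 2) (nat_lit 4) (nat_lit 426) (nat_lit 269) (nat_lit 205)) (XT.lf (nat_lit 0) (nat_lit 49822384649) (nat_lit 76) (nat_lit 212574959212) (nat_lit 76) (nat_lit 208526398339) (nat_lit 1) (nat_lit 4) (nat_lit 2) (nat_lit 5) (nat_lit 2) (nat_lit 4) (nat_lit 427) (nat_lit 269) (nat_lit 204))) (XT.nd (nat_lit 78) (nat_lit 0) (nat_lit 0) (XT.lf (nat_lit 0) (nat_lit 57977776833) (nat_lit 76) (nat_lit 220202557996) (nat_lit 76) (nat_lit 216145556253) (nat_lit 1) (nat_lit 4) (nat_lit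 2) (nat_lit 5) (nat_lit 2) (nat_lit 4) (nat_lit 428) (nat_lit 269) (nat_lit 203)) (XT.nd (nat_lit 78) (nat_lit 0) (nat_lit 0) (XT.lf (nat_lit 0) (nat_lit 66520521261) (nat_lit 76) (nat_lit 228221593005) (nat_lit 76) (nat_lit 224156552339) (nat_lit 1) (nat_lit 4) (nat_lit 2) (nat_lit 5) (nat_lit 2) (nat_lit 4) (nat_lit 429) (nat_lit 269) (nat_lit 202)) (XT.lf (nat_lit 0) (nat_lit 75470957801) (nat_lit 76) (nat_lit 236651157180) (nat_lit 76) (nat_lit 232578460397) (nat_lit 1) (nat_lit 4) (nat_lit 2) (nat_lit 5) (nat_lit 2) (nat_lit 4) (nat_lit 430) (nat_lit 269) (nat_lit 201))))) (XT.nd (nat_lit 234) (nat_lit 0) (nat_lit 0) (XT.nd (nat_lit 78) (nat_lit 0) (nat_lit 0) (XT.lf (nat_lit 0) (nat_lit 84850397018) (nat_lit 76) (nat_lit 245511320913) (nat_lit 76) (nat_lit 241431332589) (nat_lit 1) (nat_lit 4) (nat_lit 2) (nat_lit 5) (nat_lit 2) (nat_lit 4) (nat_lit 431) (nat_lit 269) (nat_lit 200))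 (XT.nd (nat_lit 78) (nat_lit 0) (nat_lit 0) (XT.lf (nat_lit 0) (nat_lit 94681170908) (nat_lit 76) (nat_lit 254823179830) (nat_lit 76) (nat_lit 250736247183) (nat_lit 1) (nat_lit 4) (nat_lit 2) (nat_lit 5) (nat_lit 2) (nat_lit 4) (nat_lit 432) (nat_lit 269) (nat_lit 199)) (XT.lf (nat_lit 0) (nat_lit 104986686076) (nat_lit 76) (nat_lit 264608905025) (nat_lit 76) (nat_lit 260515358736) (nat_lit 1) (nat_lit 4) (nat_lit 2) (nat_lit 5) (nat_lit 2) (nat_lit 4) (nat_lit 433) (nat_lit 269) (nat_lit 198)))) (XT.nd (nat_lit 78) (nat_lit 0) (nat_lit 0) (XT.lf (nat_lit 0) (nat_lit 115791479463) (nat_lit 76) (nat_lit 274891795844) (nat_lit 76) (nat_lit 270791950848) (nat_lit 1) (nat_lit 4) (nat_lit 2) (nat_lit 5) (nat_lit 2) (nat_lit 4) (nat_lit 434) (nat_lit 269) (nat_lit 197)) (XT.nd (nat_lit 78) (nat_lit 0) (nat_lit 0) (XT.lf (nat_lit 0) (nat_lit 127121276768) (nat_lit 76) (nat_lit 285696335359) (nat_lit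 76) (nat_lit 281590491595) (nat_lit 1) (nat_lit 4) (nat_lit 2) (nat_lit 5) (nat_lit 2) (nat_lit 4) (nat_lit 435) (nat_lit 269) (nat_lit 196)) (XT.lf (nat_lit 0) (nat_lit 139003053699) (nat_lit 76) (nat_lit 297048248665) (nat_lit 76) (nat_lit 292936691789) (nat_lit 1) (nat_lit 4) (nat_lit 2) (nat_lit 5) (nat_lit 2) (nat_lit 4) (nat_lit 436) (nat_lit 269) (nat_lit 195)))))) (XT.nd (nat_lit 41184) (nat_lit 0) (nat_lit 532) (XT.nd (nat_lit 40950) (nat_lit 0) (nat_lit 912) (XT.nd (nat_lit 78) (nat_lit 0) (nat_lit 0) (XT.lf (nat_lit 0) (nat_lit 151465100201) (nat_lit 76) (nat_lit 308974564128) (nat_lit 76) (nat_lit 304857566191) (nat_lit 1) (nat_lit 4) (nat_lit 2) (nat_lit 5) (nat_lit 2) (nat_lit 4) (nat_lit 437) (nat_lit 269) (nat_lit 194)) (XT.nd (nat_lit 40794) (nat_lit 0) (nat_lit 988) (XT.lf (nat_lit 0) (nat_lit 164537087812) (nat_lit 76) (nat_lit 321503677735) (nat_lit 76) (nat_lit 317381497837)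 (nat_lit 1) (nat_lit 4) (nat_lit 2) (nat_lit 5) (nat_lit 2) (nat_lit 4) (nat_lit 438) (nat_lit 269) (nat_lit 193)) (XT.lf (nat_lit 0) (nat_lit 3475841534) (nat_lit 152) (nat_lit 4204361846) (nat_lit 0) (nat_lit 3475841534) (nat_lit 14) (nat_lit 5) (nat_lit 16) (nat_lit 4) (nat_lit 14) (nat_lit 4) (nat_lit 360) (nat_lit 270) (nat_lit 270)))) (XT.nd (nat_lit 78) (nat_lit 0) (nat_lit 0) (XT.lf (nat_lit 0) (nat_lit 1737916873) (nat_lit 76) (nat_lit 10834186016) (nat_lit 76) (nat_lit 10577360538) (nat_lit 13) (nat_lit 4) (nat_lit 14) (nat_lit 5) (nat_lit 14) (nat_lit 4) (nat_lit 361) (nat_lit 270) (nat_lit 269)) (XT.nd (nat_lit 78) (nat_lit 0) (nat_lit 0) (XT.lf (nat_lit 0) (nat_lit 12341871019) (nat_lit 76) (nat_lit 6095060638) (nat_lit 76) (nat_lit 5593639467) (nat_lit 13) (nat_lit 4) (nat_lit 14) (nat_lit 5) (nat_lit 14) (nat_lit 4) (nat_lit 362) (nat_lit 270) (nat_lit 268)) (XT.lf (nat_lit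 0) (nat_lit 23150355873) (nat_lit 76) (nat_lit 1274152803) (nat_lit 76) (nat_lit 539783352) (nat_lit 13) (nat_lit 4) (nat_lit 14) (nat_lit 5) (nat_lit 14) (nat_lit 4) (nat_lit 363) (nat_lit 270) (nat_lit 267))))) (XT.nd (nat_lit 234) (nat_lit 152) (nat_lit 0) (XT.nd (nat_lit 78) (nat_lit 76) (nat_lit 0) (XT.lf (nat_lit 0) (nat_lit 4640983835) (nat_lit 152) (nat_lit 17568391465) (nat_lit 0) (nat_lit 3730293402) (nat_lit 11) (nat_lit 5) (nat_lit 13) (nat_lit 4) (nat_lit 11) (nat_lit 4) (nat_lit 364) (nat_lit 270) (nat_lit 266)) (XT.nd (nat_lit 78) (nat_lit 76) (nat_lit 0) (XT.lf (nat_lit 0) (nat_lit 9950386620) (nat_lit 152) (nat_lit 8180160211) (nat_lit 0) (nat_lit 8838466705) (nat_lit 11) (nat_lit 5) (nat_lit 13) (nat_lit 4) (nat_lit 11) (nat_lit 4) (nat_lit 365) (nat_lit 270) (nat_lit 265)) (XT.lf (nat_lit 0) (nat_lit 1421681677) (nat_lit 76) (nat_lit 13969227880) (nat_lit 76) (nat_lit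 12665660838) (nat_lit 10) (nat_lit 4) (nat_lit 11) (nat_lit 5) (nat_lit 11) (nat_lit 4) (nat_lit 366) (nat_lit 270) (nat_lit 264)))) (XT.nd (nat_lit 78) (nat_lit 152) (nat_lit 0) (XT.lf (nat_lit 0) (nat_lit 11491168467) (nat_lit 76) (nat_lit 9597104993) (nat_lit 76) (nat_lit 8111016879) (nat_lit 10) (nat_lit 4) (nat_lit 11) (nat_lit 5) (nat_lit 11) (nat_lit 4) (nat_lit 367) (nat_lit 270) (nat_lit 263)) (XT.nd (nat_lit 78) (nat_lit 152) (nat_lit 0) (XT.lf (nat_lit 0) (nat_lit 21781802088) (nat_lit 76) (nat_lit 5142303327) (nat_lit 76) (nat_lit 3482385620) (nat_lit 10) (nat_lit 4) (nat_lit 11) (nat_lit 5) (nat_lit 11) (nat_lit 4) (nat_lit 368) (nat_lit 270) (nat_lit 262)) (XT.lf (nat_lit 0) (nat_lit 638241680) (nat_lit 76) (nat_lit 563568748) (nat_lit 152) (nat_lit 30477776938) (nat_lit 8) (nat_lit 5) (nat_lit 9) (nat_lit 5) (nat_lit 10) (nat_lit 4) (nat_lit 369) (nat_lit 270) (nat_lit 261)))))))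 (XT.nd (nat_lit 936) (nat_lit 76) (nat_lit 0) (XT.nd (nat_lit 468) (nat_lit 152) (nat_lit 0) (XT.nd (nat_lit 234) (nat_lit 76) (nat_lit 0) (XT.nd (nat_lit 78) (nat_lit 0) (nat_lit 0) (XT.lf (nat_lit 0) (nat_lit 6076685399) (nat_lit 152) (nat_lit 22745162781) (nat_lit 0) (nat_lit 4187982291) (nat_lit 8) (nat_lit 5) (nat_lit 10) (nat_lit 4) (nat_lit 8) (nat_lit 4) (nat_lit 370) (nat_lit 270) (nat_lit 260)) (XT.nd (nat_lit 78) (nat_lit 0) (nat_lit 0) (XT.lf (nat_lit 0) (nat_lit 11070047727) (nat_lit 152) (nat_lit 14304486601) (nat_lit 0) (nat_lit 9038334582) (nat_lit 8) (nat_lit 5) (nat_lit 10) (nat_lit 4) (nat_lit 8) (nat_lit 4) (nat_lit 371) (nat_lit 270) (nat_lit 259)) (XT.lf (nat_lit 0) (nat_lit 16184987481) (nat_lit 152) (nat_lit 5690421412) (nat_lit 0) (nat_lit 14017074301) (nat_lit 8) (nat_lit 5) (nat_lit 10) (nat_lit 4) (nat_lit 8) (nat_lit 4) (nat_lit 372) (nat_lit 270) (nat_lit 258))))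 (XT.nd (nat_lit 78) (nat_lit 0) (nat_lit 0) (XT.lf (nat_lit 0) (nat_lit 3220622498) (nat_lit 76) (nat_lit 18263343534) (nat_lit 76) (nat_lit 15965716036) (nat_lit 7) (nat_lit 4) (nat_lit 8) (nat_lit 5) (nat_lit 8) (nat_lit 4) (nat_lit 373) (nat_lit 270) (nat_lit 257)) (XT.nd (nat_lit 78) (nat_lit 0) (nat_lit 0) (XT.lf (nat_lit 0) (nat_lit 12541792044) (nat_lit 76) (nat_lit 14482651925) (nat_lit 76) (nat_lit 12061486981) (nat_lit 7) (nat_lit 4) (nat_lit 8) (nat_lit 5) (nat_lit 8) (nat_lit 4) (nat_lit 374) (nat_lit 270) (nat_lit 256)) (XT.lf (nat_lit 0) (nat_lit 22107129455) (nat_lit 76) (nat_lit 10620702460) (nat_lit 76) (nat_lit 8081882806) (nat_lit 7) (nat_lit 4) (nat_lit 8) (nat_lit 5) (nat_lit 8) (nat_lit 4) (nat_lit 375) (nat_lit 270) (nat_lit 255))))) (XT.nd (nat_lit 234) (nat_lit 0) (nat_lit 0) (XT.nd (nat_lit 78) (nat_lit 152) (nat_lit 0) (XT.lf (nat_lit 0) (nat_lit 31939409344)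 (nat_lit 76) (nat_lit 6668300021) (nat_lit 76) (nat_lit 4017428261) (nat_lit 7) (nat_lit 4) (nat_lit 8) (nat_lit 5) (nat_lit 8) (nat_lit 4) (nat_lit 376) (nat_lit 270) (nat_lit 254)) (XT.nd (nat_lit 78) (nat_lit 76) (nat_lit 0) (XT.lf (nat_lit 0) (nat_lit 137023315) (nat_lit 152) (nat_lit 2476690254) (nat_lit 76) (nat_lit 41922698030) (nat_lit 6) (nat_lit 5) (nat_lit 8) (nat_lit 5) (nat_lit 7) (nat_lit 4) (nat_lit 377) (nat_lit 270) (nat_lit 253)) (XT.lf (nat_lit 0) (nat_lit 4385665670) (nat_lit 152) (nat_lit 40490633885) (nat_lit 0) (nat_lit 1662596514) (nat_lit 5) (nat_lit 5) (nat_lit 7) (nat_lit 4) (nat_lit 5) (nat_lit 4) (nat_lit 378) (nat_lit 270) (nat_lit 252)))) (XT.nd (nat_lit 78) (nat_lit 0) (nat_lit 0) (XT.lf (nat_lit 0) (nat_lit 8832331138) (nat_lit 152) (nat_lit 33792830761) (nat_lit 0) (nat_lit 6017076439) (nat_lit 5) (nat_lit 5) (nat_lit 7) (nat_lit 4) (nat_lit 5) (nat_lit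 4) (nat_lit 379) (nat_lit 270) (nat_lit 251)) (XT.nd (nat_lit 78) (nat_lit 0) (nat_lit 0) (XT.lf (nat_lit 0) (nat_lit 13406198146) (nat_lit 152) (nat_lit 26946170970) (nat_lit 0) (nat_lit 10503147689) (nat_lit 5) (nat_lit 5) (nat_lit 7) (nat_lit 4) (nat_lit 5) (nat_lit 4) (nat_lit 380) (nat_lit 270) (nat_lit 250)) (XT.lf (nat_lit 0) (nat_lit 18118156851) (nat_lit 152) (nat_lit 19934352943) (nat_lit 0) (nat_lit 15131491388) (nat_lit 5) (nat_lit 5) (nat_lit 7) (nat_lit 4) (nat_lit 5) (nat_lit 4) (nat_lit 381) (nat_lit 270) (nat_lit 249)))))) (XT.nd (nat_lit 468) (nat_lit 0) (nat_lit 0) (XT.nd (nat_lit 234) (nat_lit 0) (nat_lit 0) (XT.nd (nat_lit 78) (nat_lit 76) (nat_lit 0) (XT.lf (nat_lit 0) (nat_lit 22979426204) (nat_lit 152) (nat_lit 12740681873) (nat_lit 0) (nat_lit 19913127402) (nat_lit 5) (nat_lit 5) (nat_lit 7) (nat_lit 4) (nat_lit 5) (nat_lit 4) (nat_lit 382) (nat_lit 270) (nat_lit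 248)) (XT.nd (nat_lit 78) (nat_lit 76) (nat_lit 0) (XT.lf (nat_lit 0) (nat_lit 28001580655) (nat_lit 152) (nat_lit 5348029972) (nat_lit 0) (nat_lit 24859440578) (nat_lit 5) (nat_lit 5) (nat_lit 7) (nat_lit 4) (nat_lit 5) (nat_lit 4) (nat_lit 383) (nat_lit 270) (nat_lit 247)) (XT.lf (nat_lit 0) (nat_lit 2335969936) (nat_lit 76) (nat_lit 30897078816) (nat_lit 76) (nat_lit 27682708953) (nat_lit 4) (nat_lit 4) (nat_lit 5) (nat_lit 5) (nat_lit 5) (nat_lit 4) (nat_lit 384) (nat_lit 270) (nat_lit 246)))) (XT.nd (nat_lit 78) (nat_lit 0) (nat_lit 0) (XT.lf (nat_lit 0) (nat_lit 10439259704) (nat_lit 76) (nat_lit 28300512821) (nat_lit 76) (nat_lit 25017352684) (nat_lit 4) (nat_lit 4) (nat_lit 5) (nat_lit 5) (nat_lit 5) (nat_lit 4) (nat_lit 385) (nat_lit 270) (nat_lit 245)) (XT.nd (nat_lit 78) (nat_lit 0) (nat_lit 0) (XT.lf (nat_lit 0) (nat_lit 18804302855) (nat_lit 76) (nat_lit 25644301816) (nat_lit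 76) (nat_lit 22295627135) (nat_lit 4) (nat_lit 4) (nat_lit 5) (nat_lit 5) (nat_lit 5) (nat_lit 4) (nat_lit 386) (nat_lit 270) (nat_lit 244)) (XT.lf (nat_lit 0) (nat_lit 27451016159) (nat_lit 76) (nat_lit 22922121491) (nat_lit 76) (nat_lit 19511052004) (nat_lit 4) (nat_lit 4) (nat_lit 5) (nat_lit 5) (nat_lit 5) (nat_lit 4) (nat_lit 387) (nat_lit 270) (nat_lit 243))))) (XT.nd (nat_lit 234) (nat_lit 0) (nat_lit 0) (XT.nd (nat_lit 78) (nat_lit 0) (nat_lit 0) (XT.lf (nat_lit 0) (nat_lit 36399987027) (nat_lit 76) (nat_lit 20127490463) (nat_lit 76) (nat_lit 16656997353) (nat_lit 4) (nat_lit 4) (nat_lit 5) (nat_lit 5) (nat_lit 5) (nat_lit 4) (nat_lit 388) (nat_lit 270) (nat_lit 242)) (XT.nd (nat_lit 78) (nat_lit 0) (nat_lit 0) (XT.lf (nat_lit 0) (nat_lit 45672522534) (nat_lit 76) (nat_lit 17253754850) (nat_lit 76) (nat_lit 13726667812) (nat_lit 4) (nat_lit 4) (nat_lit 5) (nat_lit 5) (nat_lit 5)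 (nat_lit 4) (nat_lit 389) (nat_lit 270) (nat_lit 241)) (XT.lf (nat_lit 0) (nat_lit 55290700145) (nat_lit 76) (nat_lit 14294072423) (nat_lit 76) (nat_lit 10713086406) (nat_lit 4) (nat_lit 4) (nat_lit 5) (nat_lit 5) (nat_lit 5) (nat_lit 4) (nat_lit 390) (nat_lit 270) (nat_lit 240)))) (XT.nd (nat_lit 78) (nat_lit 0) (nat_lit 0) (XT.lf (nat_lit 0) (nat_lit 65277420283) (nat_lit 76) (nat_lit 11241396319) (nat_lit 76) (nat_lit 7609077942) (nat_lit 4) (nat_lit 4) (nat_lit 5) (nat_lit 5) (nat_lit 5) (nat_lit 4) (nat_lit 391) (nat_lit 270) (nat_lit 239)) (XT.nd (nat_lit 78) (nat_lit 0) (nat_lit 0) (XT.lf (nat_lit 0) (nat_lit 75656460853) (nat_lit 76) (nat_lit 8088458263) (nat_lit 76) (nat_lit 4407251924) (nat_lit 4) (nat_lit 4) (nat_lit 5) (nat_lit 5) (nat_lit 5) (nat_lit 4) (nat_lit 392) (nat_lit 270) (nat_lit 238)) (XT.lf (nat_lit 0) (nat_lit 86452533856) (nat_lit 76) (nat_lit 4827751259) (nat_lit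 76) (nat_lit 1099984955) (nat_lit 4) (nat_lit 4) (nat_lit 5) (nat_lit 5) (nat_lit 5) (nat_lit 4) (nat_lit 393) (nat_lit 270) (nat_lit 237))))))))
noncomputable def xc33 : XT := (XT.nd (nat_lit 1794) (nat_lit 76) (nat_lit 0) (XT.nd (nat_lit 858) (nat_lit 0) (nat_lit 0) (XT.nd (nat_lit 390) (nat_lit 0) (nat_lit 0) (XT.nd (nat_lit 156) (nat_lit 0) (nat_lit 0) (XT.nd (nat_lit 78) (nat_lit 0) (nat_lit 0) (XT.lf (nat_lit 0) (nat_lit 860392597) (nat_lit 76) (nat_lit 1399364341) (nat_lit 152) (nat_lit 94560018392) (nat_lit 2) (nat_lit 5) (nat_lit 3) (nat_lit 5) (nat_lit 4) (nat_lit 4) (nat_lit 394) (nat_lit 270) (nat_lit 236)) (XT.lf (nat_lit 0) (nat_lit 5836665540) (nat_lit 152) (nat_lit 93435426684) (nat_lit 0) (nat_lit 2203960410) (nat_lit 2) (nat_lit 5) (nat_lit 4) (nat_lit 4) (nat_lit 2) (nat_lit 4) (nat_lit 395) (nat_lit 270) (nat_lit 235))) (XT.nd (nat_lit 78) (nat_lit 0) (nat_lit 0) (XT.lf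 (nat_lit 0) (nat_lit 9567508973) (nat_lit 152) (nat_lit 90902386970) (nat_lit 0) (nat_lit 5896498845) (nat_lit 2) (nat_lit 5) (nat_lit 4) (nat_lit 4) (nat_lit 2) (nat_lit 4) (nat_lit 396) (nat_lit 270) (nat_lit 234)) (XT.nd (nat_lit 78) (nat_lit 0) (nat_lit 0) (XT.lf (nat_lit 0) (nat_lit 13439322198) (nat_lit 152) (nat_lit 88332384544) (nat_lit 0) (nat_lit 9731831119) (nat_lit 2) (nat_lit 5) (nat_lit 4) (nat_lit 4) (nat_lit 2) (nat_lit 4) (nat_lit 397) (nat_lit 270) (nat_lit 233)) (XT.lf (nat_lit 0) (nat_lit 17461323818) (nat_lit 152) (nat_lit 85719300351) (nat_lit 0) (nat_lit 13719088978) (nat_lit 2) (nat_lit 5) (nat_lit 4) (nat_lit 4) (nat_lit 2) (nat_lit 4) (nat_lit 398) (nat_lit 270) (nat_lit 232))))) (XT.nd (nat_lit 234) (nat_lit 0) (nat_lit 0) (XT.nd (nat_lit 78) (nat_lit 0) (nat_lit 0) (XT.lf (nat_lit 0) (nat_lit 21643090028) (nat_lit 152) (nat_lit 83056912765) (nat_lit 0) (nat_lit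 17867765890) (nat_lit 2) (nat_lit 5) (nat_lit 4) (nat_lit 4) (nat_lit 2) (nat_lit 4) (nat_lit 399) (nat_lit 270) (nat_lit 231)) (XT.nd (nat_lit 78) (nat_lit 0) (nat_lit 0) (XT.lf (nat_lit 0) (nat_lit 25994577414) (nat_lit 152) (nat_lit 80338882766) (nat_lit 0) (nat_lit 22187739660) (nat_lit 2) (nat_lit 5) (nat_lit 4) (nat_lit 4) (nat_lit 2) (nat_lit 4) (nat_lit 400) (nat_lit 270) (nat_lit 230)) (XT.lf (nat_lit 0) (nat_lit 30526146660) (nat_lit 152) (nat_lit 77558738854) (nat_lit 0) (nat_lit 26689295938) (nat_lit 2) (nat_lit 5) (nat_lit 4) (nat_lit 4) (nat_lit 2) (nat_lit 4) (nat_lit 401) (nat_lit 270) (nat_lit 229)))) (XT.nd (nat_lit 78) (nat_lit 0) (nat_lit 0) (XT.lf (nat_lit 0) (nat_lit 35248587216) (nat_lit 152) (nat_lit 74709861639) (nat_lit 0) (nat_lit 31383152715) (nat_lit 2) (nat_lit 5) (nat_lit 4) (nat_lit 4) (nat_lit 2) (nat_lit 4) (nat_lit 402) (nat_lit 270) (nat_lit 228)) (XT.nd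 (nat_lit 78) (nat_lit 0) (nat_lit 0) (XT.lf (nat_lit 0) (nat_lit 40173142990) (nat_lit 152) (nat_lit 71785468080) (nat_lit 0) (nat_lit 36280485842) (nat_lit 2) (nat_lit 5) (nat_lit 4) (nat_lit 4) (nat_lit 2) (nat_lit 4) (nat_lit 403) (nat_lit 270) (nat_lit 227)) (XT.lf (nat_lit 0) (nat_lit 45311539112) (nat_lit 152) (nat_lit 68778595336) (nat_lit 0) (nat_lit 41392955634) (nat_lit 2) (nat_lit 5) (nat_lit 4) (nat_lit 4) (nat_lit 2) (nat_lit 4) (nat_lit 404) (nat_lit 270) (nat_lit 226)))))) (XT.nd (nat_lit 468) (nat_lit 0) (nat_lit 0) (XT.nd (nat_lit 234) (nat_lit 0) (nat_lit 0) (XT.nd (nat_lit 78) (nat_lit 0) (nat_lit 0) (XT.lf (nat_lit 0) (nat_lit 50676009861) (nat_lit 152) (nat_lit 65682084185) (nat_lit 0) (nat_lit 46732734640) (nat_lit 2) (nat_lit 5) (nat_lit 4) (nat_lit 4) (nat_lit 2) (nat_lit 4) (nat_lit 405) (nat_lit 270) (nat_lit 225)) (XT.nd (nat_lit 78) (nat_lit 0) (nat_lit 0) (XT.lf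 (nat_lit 0) (nat_lit 56279327786) (nat_lit 152) (nat_lit 62488561982) (nat_lit 0) (nat_lit 52312536618) (nat_lit 2) (nat_lit 5) (nat_lit 4) (nat_lit 4) (nat_lit 2) (nat_lit 4) (nat_lit 406) (nat_lit 270) (nat_lit 224)) (XT.lf (nat_lit 0) (nat_lit 62134834118) (nat_lit 152) (nat_lit 59190425103) (nat_lit 0) (nat_lit 58145646812) (nat_lit 2) (nat_lit 5) (nat_lit 4) (nat_lit 4) (nat_lit 2) (nat_lit 4) (nat_lit 407) (nat_lit 270) (nat_lit 223)))) (XT.nd (nat_lit 78) (nat_lit 0) (nat_lit 0) (XT.lf (nat_lit 0) (nat_lit 68256470542) (nat_lit 152) (nat_lit 55779820840) (nat_lit 0) (nat_lit 64245953580) (nat_lit 2) (nat_lit 5) (nat_lit 4) (nat_lit 4) (nat_lit 2) (nat_lit 4) (nat_lit 408) (nat_lit 270) (nat_lit 222)) (XT.nd (nat_lit 78) (nat_lit 0) (nat_lit 0) (XT.lf (nat_lit 0) (nat_lit 74658812380) (nat_lit 152) (nat_lit 52248628708) (nat_lit 0) (nat_lit 70627981460) (nat_lit 2) (nat_lit 5) (nat_lit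 4) (nat_lit 4) (nat_lit 2) (nat_lit 4) (nat_lit 409) (nat_lit 270) (nat_lit 221)) (XT.lf (nat_lit 0) (nat_lit 81357103305) (nat_lit 152) (nat_lit 48588441106) (nat_lit 0) (nat_lit 77306925757) (nat_lit 2) (nat_lit 5) (nat_lit 4) (nat_lit 4) (nat_lit 2) (nat_lit 4) (nat_lit 410) (nat_lit 270) (nat_lit 220))))) (XT.nd (nat_lit 234) (nat_lit 0) (nat_lit 0) (XT.nd (nat_lit 78) (nat_lit 0) (nat_lit 0) (XT.lf (nat_lit 0) (nat_lit 88367291627) (nat_lit 152) (nat_lit 44790543302) (nat_lit 0) (nat_lit 84298688721) (nat_lit 2) (nat_lit 5) (nat_lit 4) (nat_lit 4) (nat_lit 2) (nat_lit 4) (nat_lit 411) (nat_lit 270) (nat_lit 219)) (XT.nd (nat_lit 78) (nat_lit 0) (nat_lit 0) (XT.lf (nat_lit 0) (nat_lit 95706068272) (nat_lit 152) (nat_lit 40845892681) (nat_lit 0) (nat_lit 91619917405) (nat_lit 2) (nat_lit 5) (nat_lit 4) (nat_lit 4) (nat_lit 2) (nat_lit 4) (nat_lit 412) (nat_lit 270) (nat_lit 218)) (XT.lf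 (nat_lit 0) (nat_lit 103390906517) (nat_lit 152) (nat_lit 36745097219) (nat_lit 0) (nat_lit 99288043307) (nat_lit 2) (nat_lit 5) (nat_lit 4) (nat_lit 4) (nat_lit 2) (nat_lit 4) (nat_lit 413) (nat_lit 270) (nat_lit 217)))) (XT.nd (nat_lit 78) (nat_lit 0) (nat_lit 0) (XT.lf (nat_lit 0) (nat_lit 111440103596) (nat_lit 152) (nat_lit 32478393118) (nat_lit 0) (nat_lit 107321323868) (nat_lit 2) (nat_lit 5) (nat_lit 4) (nat_lit 4) (nat_lit 2) (nat_lit 4) (nat_lit 414) (nat_lit 270) (nat_lit 216)) (XT.nd (nat_lit 78) (nat_lit 0) (nat_lit 0) (XT.lf (nat_lit 0) (nat_lit 119872824265) (nat_lit 152) (nat_lit 28035621556) (nat_lit 0) (nat_lit 115738885948) (nat_lit 2) (nat_lit 5) (nat_lit 4) (nat_lit 4) (nat_lit 2) (nat_lit 4) (nat_lit 415) (nat_lit 270) (nat_lit 215)) (XT.lf (nat_lit 0) (nat_lit 128709146428) (nat_lit 152) (nat_lit 23406204508) (nat_lit 0) (nat_lit 124560771361) (nat_lit 2) (nat_lit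 5) (nat_lit 4) (nat_lit 4) (nat_lit 2) (nat_lit 4) (nat_lit 416) (nat_lit 270) (nat_lit 214))))))) (XT.nd (nat_lit 936) (nat_lit 0) (nat_lit 0) (XT.nd (nat_lit 468) (nat_lit 0) (nat_lit 0) (XT.nd (nat_lit 234) (nat_lit 76) (nat_lit 0) (XT.nd (nat_lit 78) (nat_lit 0) (nat_lit 0) (XT.lf (nat_lit 0) (nat_lit 137970108950) (nat_lit 152) (nat_lit 18579119551) (nat_lit 0) (nat_lit 133807984596) (nat_lit 2) (nat_lit 5) (nat_lit 4) (nat_lit 4) (nat_lit 2) (nat_lit 4) (nat_lit 417) (nat_lit 270) (nat_lit 213)) (XT.nd (nat_lit 78) (nat_lit 0) (nat_lit 0) (XT.lf (nat_lit 0) (nat_lit 147677761740) (nat_lit 152) (nat_lit 13542873627) (nat_lit 0) (nat_lit 143502542828) (nat_lit 2) (nat_lit 5) (nat_lit 4) (nat_lit 4) (nat_lit 2) (nat_lit 4) (nat_lit 418) (nat_lit 270) (nat_lit 212)) (XT.lf (nat_lit 0) (nat_lit 157855218257) (nat_lit 152) (nat_lit 8285475672) (nat_lit 0) (nat_lit 153667528337) (nat_lit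 2) (nat_lit 5) (nat_lit 4) (nat_lit 4) (nat_lit 2) (nat_lit 4) (nat_lit 419) (nat_lit 270) (nat_lit 211)))) (XT.nd (nat_lit 78) (nat_lit 76) (nat_lit 0) (XT.lf (nat_lit 0) (nat_lit 168526710542) (nat_lit 152) (nat_lit 2794408074) (nat_lit 0) (nat_lit 164327143471) (nat_lit 2) (nat_lit 5) (nat_lit 4) (nat_lit 4) (nat_lit 2) (nat_lit 4) (nat_lit 420) (nat_lit 270) (nat_lit 210)) (XT.nd (nat_lit 78) (nat_lit 0) (nat_lit 0) (XT.lf (nat_lit 0) (nat_lit 3040725338) (nat_lit 76) (nat_lit 176724395814) (nat_lit 76) (nat_lit 172513517171) (nat_lit 1) (nat_lit 4) (nat_lit 2) (nat_lit 5) (nat_lit 2) (nat_lit 4) (nat_lit 421) (nat_lit 270) (nat_lit 209)) (XT.lf (nat_lit 0) (nat_lit 9237269738) (nat_lit 76) (nat_lit 182361622372) (nat_lit 76) (nat_lit 178139970803) (nat_lit 1) (nat_lit 4) (nat_lit 2) (nat_lit 5) (nat_lit 2) (nat_lit 4) (nat_lit 422) (nat_lit 270) (nat_lit 208))))) (XT.nd (nat_lit 234)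 (nat_lit 0) (nat_lit 0) (XT.nd (nat_lit 78) (nat_lit 0) (nat_lit 0) (XT.lf (nat_lit 0) (nat_lit 15717583054) (nat_lit 76) (nat_lit 188293544910) (nat_lit 76) (nat_lit 184061633412) (nat_lit 1) (nat_lit 4) (nat_lit 2) (nat_lit 5) (nat_lit 2) (nat_lit 4) (nat_lit 423) (nat_lit 270) (nat_lit 207)) (XT.nd (nat_lit 78) (nat_lit 0) (nat_lit 0) (XT.lf (nat_lit 0) (nat_lit 22497094600) (nat_lit 76) (nat_lit 194534287055) (nat_lit 76) (nat_lit 190292604196) (nat_lit 1) (nat_lit 4) (nat_lit 2) (nat_lit 5) (nat_lit 2) (nat_lit 4) (nat_lit 424) (nat_lit 270) (nat_lit 206)) (XT.lf (nat_lit 0) (nat_lit 29591946073) (nat_lit 76) (nat_lit 201098707716) (nat_lit 76) (nat_lit 196847718798) (nat_lit 1) (nat_lit 4) (nat_lit 2) (nat_lit 5) (nat_lit 2) (nat_lit 4) (nat_lit 425) (nat_lit 270) (nat_lit 205)))) (XT.nd (nat_lit 78) (nat_lit 0) (nat_lit 0) (XT.lf (nat_lit 0) (nat_lit 37019029975) (nat_lit 76) (nat_lit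 208002436466) (nat_lit 76) (nat_lit 203742584635) (nat_lit 1) (nat_lit 4) (nat_lit 2) (nat_lit 5) (nat_lit 2) (nat_lit 4) (nat_lit 426) (nat_lit 270) (nat_lit 204)) (XT.nd (nat_lit 78) (nat_lit 0) (nat_lit 0) (XT.lf (nat_lit 0) (nat_lit 44796029840) (nat_lit 76) (nat_lit 215261910754) (nat_lit 76) (nat_lit 210993618054) (nat_lit 1) (nat_lit 4) (nat_lit 2) (nat_lit 5) (nat_lit 2) (nat_lit 4) (nat_lit 427) (nat_lit 270) (nat_lit 203)) (XT.lf (nat_lit 0) (nat_lit 52941462333) (nat_lit 76) (nat_lit 222894415043) (nat_lit 76) (nat_lit 218618083420) (nat_lit 1) (nat_lit 4) (nat_lit 2) (nat_lit 5) (nat_lit 2) (nat_lit 4) (nat_lit 428) (nat_lit 270) (nat_lit 202)))))) (XT.nd (nat_lit 468) (nat_lit 0) (nat_lit 0) (XT.nd (nat_lit 234) (nat_lit 0) (nat_lit 0) (XT.nd (nat_lit 78) (nat_lit 0) (nat_lit 0) (XT.lf (nat_lit 0) (nat_lit 61474721342) (nat_lit 76) (nat_lit 230918121962) (nat_lit 76) (nat_lit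 226634134222) (nat_lit 1) (nat_lit 4) (nat_lit 2) (nat_lit 5) (nat_lit 2) (nat_lit 4) (nat_lit 429) (nat_lit 270) (nat_lit 201)) (XT.nd (nat_lit 78) (nat_lit 0) (nat_lit 0) (XT.lf (nat_lit 0) (nat_lit 70416124151) (nat_lit 76) (nat_lit 239352135575) (nat_lit 76) (nat_lit 235060856296) (nat_lit 1) (nat_lit 4) (nat_lit 2) (nat_lit 5) (nat_lit 2) (nat_lit 4) (nat_lit 430) (nat_lit 270) (nat_lit 200)) (XT.lf (nat_lit 0) (nat_lit 79786959812) (nat_lit 76) (nat_lit 248216536868) (nat_lit 76) (nat_lit 243918313264) (nat_lit 1) (nat_lit 4) (nat_lit 2) (nat_lit 5) (nat_lit 2) (nat_lit 4) (nat_lit 431) (nat_lit 270) (nat_lit 199)))) (XT.nd (nat_lit 78) (nat_lit 0) (nat_lit 0) (XT.lf (nat_lit 0) (nat_lit 89609539841) (nat_lit 76) (nat_lit 257532431557) (nat_lit 76) (nat_lit 253227594311) (nat_lit 1) (nat_lit 4) (nat_lit 2) (nat_lit 5) (nat_lit 2) (nat_lit 4) (nat_lit 432) (nat_lit 270) (nat_lit 198))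 (XT.nd (nat_lit 78) (nat_lit 0) (nat_lit 0) (XT.lf (nat_lit 0) (nat_lit 99907251331) (nat_lit 76) (nat_lit 267322000344) (nat_lit 76) (nat_lit 263010864392) (nat_lit 1) (nat_lit 4) (nat_lit 2) (nat_lit 5) (nat_lit 2) (nat_lit 4) (nat_lit 433) (nat_lit 270) (nat_lit 197)) (XT.lf (nat_lit 0) (nat_lit 110704612645) (nat_lit 76) (nat_lit 277608551727) (nat_lit 76) (nat_lit 273291417006) (nat_lit 1) (nat_lit 4) (nat_lit 2) (nat_lit 5) (nat_lit 2) (nat_lit 4) (nat_lit 434) (nat_lit 270) (nat_lit 196))))) (XT.nd (nat_lit 40872) (nat_lit 0) (nat_lit 988) (XT.nd (nat_lit 78) (nat_lit 0) (nat_lit 0) (XT.lf (nat_lit 0) (nat_lit 122027331784) (nat_lit 76) (nat_lit 288416577493) (nat_lit 76) (nat_lit 284093729660) (nat_lit 1) (nat_lit 4) (nat_lit 2) (nat_lit 5) (nat_lit 2) (nat_lit 4) (nat_lit 435) (nat_lit 270) (nat_lit 195)) (XT.nd (nat_lit 78) (nat_lit 0) (nat_lit 0) (XT.lf (nat_lit 0) (nat_lit 133902367605)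 (nat_lit 76) (nat_lit 299771811039) (nat_lit 76) (nat_lit 295443522146) (nat_lit 1) (nat_lit 4) (nat_lit 2) (nat_lit 5) (nat_lit 2) (nat_lit 4) (nat_lit 436) (nat_lit 270) (nat_lit 194)) (XT.lf (nat_lit 0) (nat_lit 146357994001) (nat_lit 76) (nat_lit 311701288634) (nat_lit 76) (nat_lit 307367817780) (nat_lit 1) (nat_lit 4) (nat_lit 2) (nat_lit 5) (nat_lit 2) (nat_lit 4) (nat_lit 437) (nat_lit 270) (nat_lit 193)))) (XT.nd (nat_lit 78) (nat_lit 152) (nat_lit 0) (XT.lf (nat_lit 0) (nat_lit 6832604071) (nat_lit 76) (nat_lit 1774366942) (nat_lit 76) (nat_lit 1774366942) (nat_lit 16) (nat_lit 4) (nat_lit 17) (nat_lit 5) (nat_lit 17) (nat_lit 4) (nat_lit 358) (nat_lit 271) (nat_lit 271)) (XT.nd (nat_lit 78) (nat_lit 0) (nat_lit 0) (XT.lf (nat_lit 0) (nat_lit 1720731666) (nat_lit 152) (nat_lit 18350221281) (nat_lit 0) (nat_lit 1451064914) (nat_lit 14) (nat_lit 5) (nat_lit 16) (nat_lit 4) (nat_lit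 14) (nat_lit 4) (nat_lit 359) (nat_lit 271) (nat_lit 270)) (XT.lf (nat_lit 0) (nat_lit 7132392262) (nat_lit 152) (nat_lit 8578263251) (nat_lit 0) (nat_lit 6605900032) (nat_lit 14) (nat_lit 5) (nat_lit 16) (nat_lit 4) (nat_lit 14) (nat_lit 4) (nat_lit 360) (nat_lit 271) (nat_lit 269))))))))
noncomputable def xc34 : XT := (XT.nd (nat_lit 1794) (nat_lit 228) (nat_lit 0) (XT.nd (nat_lit 858) (nat_lit 228) (nat_lit 0) (XT.nd (nat_lit 390) (nat_lit 228) (nat_lit 0) (XT.nd (nat_lit 156) (nat_lit 152) (nat_lit 0) (XT.nd (nat_lit 78) (nat_lit 0) (nat_lit 0) (XT.lf (nat_lit 0) (nat_lit 1395966524) (nat_lit 76) (nat_lit 11266785270) (nat_lit 76) (nat_lit 10495697346) (nat_lit 13) (nat_lit 4) (nat_lit 14) (nat_lit 5) (nat_lit 14) (nat_lit 4) (nat_lit 361) (nat_lit 271) (nat_lit 268)) (XT.lf (nat_lit 0) (nat_lit 11841058719) (nat_lit 76) (nat_lit 6603354434) (nat_lit 76) (nat_lit 5599318231) (nat_lit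 13) (nat_lit 4) (nat_lit 14) (nat_lit 5) (nat_lit 14) (nat_lit 4) (nat_lit 362) (nat_lit 271) (nat_lit 267))) (XT.nd (nat_lit 78) (nat_lit 152) (nat_lit 0) (XT.lf (nat_lit 0) (nat_lit 22498246477) (nat_lit 76) (nat_lit 1854536639) (nat_lit 76) (nat_lit 628644932) (nat_lit 13) (nat_lit 4) (nat_lit 14) (nat_lit 5) (nat_lit 14) (nat_lit 4) (nat_lit 363) (nat_lit 271) (nat_lit 266)) (XT.nd (nat_lit 78) (nat_lit 0) (nat_lit 0) (XT.lf (nat_lit 0) (nat_lit 4454751412) (nat_lit 152) (nat_lit 18421141384) (nat_lit 0) (nat_lit 3086006018) (nat_lit 11) (nat_lit 5) (nat_lit 13) (nat_lit 4) (nat_lit 11) (nat_lit 4) (nat_lit 364) (nat_lit 271) (nat_lit 265)) (XT.lf (nat_lit 0) (nat_lit 9687790088) (nat_lit 152) (nat_lit 9179887505) (nat_lit 0) (nat_lit 8127397569) (nat_lit 11) (nat_lit 5) (nat_lit 13) (nat_lit 4) (nat_lit 11) (nat_lit 4) (nat_lit 365) (nat_lit 271) (nat_lit 264))))) (XT.nd (nat_lit 234)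 (nat_lit 152) (nat_lit 0) (XT.nd (nat_lit 78) (nat_lit 0) (nat_lit 0) (XT.lf (nat_lit 0) (nat_lit 244292110) (nat_lit 76) (nat_lit 14792910841) (nat_lit 76) (nat_lit 13049997249) (nat_lit 10) (nat_lit 4) (nat_lit 11) (nat_lit 5) (nat_lit 11) (nat_lit 4) (nat_lit 366) (nat_lit 271) (nat_lit 263)) (XT.nd (nat_lit 78) (nat_lit 0) (nat_lit 0) (XT.lf (nat_lit 0) (nat_lit 10176058165) (nat_lit 76) (nat_lit 10487093985) (nat_lit 76) (nat_lit 8570350801) (nat_lit 10) (nat_lit 4) (nat_lit 11) (nat_lit 5) (nat_lit 11) (nat_lit 4) (nat_lit 367) (nat_lit 271) (nat_lit 262)) (XT.lf (nat_lit 0) (nat_lit 20335529180) (nat_lit 76) (nat_lit 6095440921) (nat_lit 76) (nat_lit 4013145743) (nat_lit 10) (nat_lit 4) (nat_lit 11) (nat_lit 5) (nat_lit 11) (nat_lit 4) (nat_lit 368) (nat_lit 271) (nat_lit 261)))) (XT.nd (nat_lit 78) (nat_lit 76) (nat_lit 0) (XT.lf (nat_lit 0) (nat_lit 612225473) (nat_lit 152) (nat_lit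 984901521) (nat_lit 76) (nat_lit 30124300564) (nat_lit 9) (nat_lit 5) (nat_lit 11) (nat_lit 5) (nat_lit 10) (nat_lit 4) (nat_lit 369) (nat_lit 271) (nat_lit 260)) (XT.nd (nat_lit 78) (nat_lit 0) (nat_lit 0) (XT.lf (nat_lit 0) (nat_lit 5389210350) (nat_lit 152) (nat_lit 24554463237) (nat_lit 0) (nat_lit 3112901512) (nat_lit 8) (nat_lit 5) (nat_lit 10) (nat_lit 4) (nat_lit 8) (nat_lit 4) (nat_lit 370) (nat_lit 271) (nat_lit 259)) (XT.lf (nat_lit 0) (nat_lit 10320089414) (nat_lit 152) (nat_lit 16235077203) (nat_lit 0) (nat_lit 7907580542) (nat_lit 8) (nat_lit 5) (nat_lit 10) (nat_lit 4) (nat_lit 8) (nat_lit 4) (nat_lit 371) (nat_lit 271) (nat_lit 258)))))) (XT.nd (nat_lit 468) (nat_lit 152) (nat_lit 0) (XT.nd (nat_lit 234) (nat_lit 0) (nat_lit 0) (XT.nd (nat_lit 78) (nat_lit 76) (nat_lit 0) (XT.lf (nat_lit 0) (nat_lit 15375521298) (nat_lit 152) (nat_lit 7736526439) (nat_lit 0) (nat_lit 12833298107)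 (nat_lit 8) (nat_lit 5) (nat_lit 10) (nat_lit 4) (nat_lit 8) (nat_lit 4) (nat_lit 372) (nat_lit 271) (nat_lit 257)) (XT.nd (nat_lit 78) (nat_lit 0) (nat_lit 0) (XT.lf (nat_lit 0) (nat_lit 993212709) (nat_lit 76) (nat_lit 19589836870) (nat_lit 76) (nat_lit 16924076233) (nat_lit 7) (nat_lit 4) (nat_lit 8) (nat_lit 5) (nat_lit 8) (nat_lit 4) (nat_lit 373) (nat_lit 271) (nat_lit 256)) (XT.lf (nat_lit 0) (nat_lit 10206142932) (nat_lit 76) (nat_lit 15861719273) (nat_lit 76) (nat_lit 13078303925) (nat_lit 7) (nat_lit 4) (nat_lit 8) (nat_lit 5) (nat_lit 8) (nat_lit 4) (nat_lit 374) (nat_lit 271) (nat_lit 255)))) (XT.nd (nat_lit 78) (nat_lit 0) (nat_lit 0) (XT.lf (nat_lit 0) (nat_lit 19668395273) (nat_lit 76) (nat_lit 12049840295) (nat_lit 76) (nat_lit 9154372842) (nat_lit 7) (nat_lit 4) (nat_lit 8) (nat_lit 5) (nat_lit 8) (nat_lit 4) (nat_lit 375) (nat_lit 271) (nat_lit 254)) (XT.nd (nat_lit 78)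 (nat_lit 0) (nat_lit 0) (XT.lf (nat_lit 0) (nat_lit 29402498906) (nat_lit 76) (nat_lit 8145124034) (nat_lit 76) (nat_lit 5142940290) (nat_lit 7) (nat_lit 4) (nat_lit 8) (nat_lit 5) (nat_lit 8) (nat_lit 4) (nat_lit 376) (nat_lit 271) (nat_lit 253)) (XT.lf (nat_lit 0) (nat_lit 39431630267) (nat_lit 76) (nat_lit 4138273547) (nat_lit 76) (nat_lit 1034455240) (nat_lit 7) (nat_lit 4) (nat_lit 8) (nat_lit 5) (nat_lit 8) (nat_lit 4) (nat_lit 377) (nat_lit 271) (nat_lit 252))))) (XT.nd (nat_lit 234) (nat_lit 0) (nat_lit 0) (XT.nd (nat_lit 78) (nat_lit 0) (nat_lit 0) (XT.lf (nat_lit 0) (nat_lit 3130570125) (nat_lit 152) (nat_lit 43400556495) (nat_lit 0) (nat_lit 82367145) (nat_lit 5) (nat_lit 5) (nat_lit 7) (nat_lit 4) (nat_lit 5) (nat_lit 4) (nat_lit 378) (nat_lit 271) (nat_lit 251)) (XT.nd (nat_lit 78) (nat_lit 0) (nat_lit 0) (XT.lf (nat_lit 0) (nat_lit 7530829869) (nat_lit 152) (nat_lit 36793501414)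 (nat_lit 0) (nat_lit 4394831133) (nat_lit 5) (nat_lit 5) (nat_lit 7) (nat_lit 4) (nat_lit 5) (nat_lit 4) (nat_lit 379) (nat_lit 271) (nat_lit 250)) (XT.lf (nat_lit 0) (nat_lit 12060500948) (nat_lit 152) (nat_lit 30033268332) (nat_lit 0) (nat_lit 8840887206) (nat_lit 5) (nat_lit 5) (nat_lit 7) (nat_lit 4) (nat_lit 5) (nat_lit 4) (nat_lit 380) (nat_lit 271) (nat_lit 249)))) (XT.nd (nat_lit 78) (nat_lit 0) (nat_lit 0) (XT.lf (nat_lit 0) (nat_lit 16730368294) (nat_lit 152) (nat_lit 23103761455) (nat_lit 0) (nat_lit 13431121212) (nat_lit 5) (nat_lit 5) (nat_lit 7) (nat_lit 4) (nat_lit 5) (nat_lit 4) (nat_lit 381) (nat_lit 271) (nat_lit 248)) (XT.nd (nat_lit 78) (nat_lit 0) (nat_lit 0) (XT.lf (nat_lit 0) (nat_lit 21551550637) (nat_lit 152) (nat_lit 15988481957) (nat_lit 0) (nat_lit 18176462280) (nat_lit 5) (nat_lit 5) (nat_lit 7) (nat_lit 4) (nat_lit 5) (nat_lit 4) (nat_lit 382) (nat_lit 271)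 (nat_lit 247)) (XT.lf (nat_lit 0) (nat_lit 26535526984) (nat_lit 152) (nat_lit 8670488697) (nat_lit 0) (nat_lit 23088208841) (nat_lit 5) (nat_lit 5) (nat_lit 7) (nat_lit 4) (nat_lit 5) (nat_lit 4) (nat_lit 383) (nat_lit 271) (nat_lit 246))))))) (XT.nd (nat_lit 936) (nat_lit 0) (nat_lit 0) (XT.nd (nat_lit 468) (nat_lit 152) (nat_lit 0) (XT.nd (nat_lit 234) (nat_lit 0) (nat_lit 0) (XT.nd (nat_lit 78) (nat_lit 76) (nat_lit 0) (XT.lf (nat_lit 0) (nat_lit 31694163945) (nat_lit 152) (nat_lit 1132357882) (nat_lit 0) (nat_lit 28178055530) (nat_lit 5) (nat_lit 5) (nat_lit 7) (nat_lit 4) (nat_lit 5) (nat_lit 4) (nat_lit 384) (nat_lit 271) (nat_lit 245)) (XT.nd (nat_lit 78) (nat_lit 0) (nat_lit 0) (XT.lf (nat_lit 0) (nat_lit 6863534383) (nat_lit 76) (nat_lit 30283368612) (nat_lit 76) (nat_lit 26701745651) (nat_lit 4) (nat_lit 4) (nat_lit 5) (nat_lit 5) (nat_lit 5) (nat_lit 4) (nat_lit 385) (nat_lit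 271) (nat_lit 244)) (XT.lf (nat_lit 0) (nat_lit 15161952166) (nat_lit 76) (nat_lit 27659763085) (nat_lit 76) (nat_lit 24015745319) (nat_lit 4) (nat_lit 4) (nat_lit 5) (nat_lit 5) (nat_lit 5) (nat_lit 4) (nat_lit 386) (nat_lit 271) (nat_lit 243)))) (XT.nd (nat_lit 78) (nat_lit 0) (nat_lit 0) (XT.lf (nat_lit 0) (nat_lit 23745212738) (nat_lit 76) (nat_lit 24968635596) (nat_lit 76) (nat_lit 21265194206) (nat_lit 4) (nat_lit 4) (nat_lit 5) (nat_lit 5) (nat_lit 5) (nat_lit 4) (nat_lit 387) (nat_lit 271) (nat_lit 242)) (XT.nd (nat_lit 78) (nat_lit 0) (nat_lit 0) (XT.lf (nat_lit 0) (nat_lit 32633752433) (nat_lit 76) (nat_lit 22203578698) (nat_lit 76) (nat_lit 18443543381) (nat_lit 4) (nat_lit 4) (nat_lit 5) (nat_lit 5) (nat_lit 5) (nat_lit 4) (nat_lit 388) (nat_lit 271) (nat_lit 241)) (XT.lf (nat_lit 0) (nat_lit 41848734442) (nat_lit 76) (nat_lit 19358008922) (nat_lit 76) (nat_lit 15544074626)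 (nat_lit 4) (nat_lit 4) (nat_lit 5) (nat_lit 5) (nat_lit 5) (nat_lit 4) (nat_lit 389) (nat_lit 271) (nat_lit 240))))) (XT.nd (nat_lit 234) (nat_lit 152) (nat_lit 0) (XT.nd (nat_lit 78) (nat_lit 0) (nat_lit 0) (XT.lf (nat_lit 0) (nat_lit 51412099198) (nat_lit 76) (nat_lit 16425151102) (nat_lit 76) (nat_lit 12559884446) (nat_lit 4) (nat_lit 4) (nat_lit 5) (nat_lit 5) (nat_lit 5) (nat_lit 4) (nat_lit 390) (nat_lit 271) (nat_lit 239)) (XT.nd (nat_lit 78) (nat_lit 0) (nat_lit 0) (XT.lf (nat_lit 0) (nat_lit 61346616616) (nat_lit 76) (nat_lit 13398022244) (nat_lit 76) (nat_lit 9483867625) (nat_lit 4) (nat_lit 4) (nat_lit 5) (nat_lit 5) (nat_lit 5) (nat_lit 4) (nat_lit 391) (nat_lit 271) (nat_lit 238)) (XT.lf (nat_lit 0) (nat_lit 71675940310) (nat_lit 76) (nat_lit 10269414897) (nat_lit 76) (nat_lit 6308700314) (nat_lit 4) (nat_lit 4) (nat_lit 5) (nat_lit 5) (nat_lit 5) (nat_lit 4) (nat_lit 392)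 (nat_lit 271) (nat_lit 237)))) (XT.nd (nat_lit 78) (nat_lit 152) (nat_lit 0) (XT.lf (nat_lit 0) (nat_lit 82424663908) (nat_lit 76) (nat_lit 7031879997) (nat_lit 76) (nat_lit 3026822591) (nat_lit 4) (nat_lit 4) (nat_lit 5) (nat_lit 5) (nat_lit 5) (nat_lit 4) (nat_lit 393) (nat_lit 271) (nat_lit 236)) (XT.nd (nat_lit 78) (nat_lit 76) (nat_lit 0) (XT.lf (nat_lit 0) (nat_lit 357750684) (nat_lit 152) (nat_lit 3313899761) (nat_lit 76) (nat_lit 93254570242) (nat_lit 3) (nat_lit 5) (nat_lit 5) (nat_lit 5) (nat_lit 4) (nat_lit 4) (nat_lit 394) (nat_lit 271) (nat_lit 235)) (XT.lf (nat_lit 0) (nat_lit 3748954712) (nat_lit 76) (nat_lit 73710470) (nat_lit 152) (nat_lit 97765435176) (nat_lit 2) (nat_lit 5) (nat_lit 3) (nat_lit 5) (nat_lit 4) (nat_lit 4) (nat_lit 395) (nat_lit 271) (nat_lit 234)))))) (XT.nd (nat_lit 468) (nat_lit 0) (nat_lit 0) (XT.nd (nat_lit 234) (nat_lit 0) (nat_lit 0) (XT.nd (nat_lit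 78) (nat_lit 0) (nat_lit 0) (XT.lf (nat_lit 0) (nat_lit 7530127360) (nat_lit 152) (nat_lit 95348705970) (nat_lit 0) (nat_lit 3600780778) (nat_lit 2) (nat_lit 5) (nat_lit 4) (nat_lit 4) (nat_lit 2) (nat_lit 4) (nat_lit 396) (nat_lit 271) (nat_lit 233)) (XT.nd (nat_lit 78) (nat_lit 0) (nat_lit 0) (XT.lf (nat_lit 0) (nat_lit 11380768748) (nat_lit 152) (nat_lit 92820371034) (nat_lit 0) (nat_lit 7416678404) (nat_lit 2) (nat_lit 5) (nat_lit 4) (nat_lit 4) (nat_lit 2) (nat_lit 4) (nat_lit 397) (nat_lit 271) (nat_lit 232)) (XT.lf (nat_lit 0) (nat_lit 15382606714) (nat_lit 152) (nat_lit 90246970166) (nat_lit 0) (nat_lit 11385427072) (nat_lit 2) (nat_lit 5) (nat_lit 4) (nat_lit 4) (nat_lit 2) (nat_lit 4) (nat_lit 398) (nat_lit 271) (nat_lit 231)))) (XT.nd (nat_lit 78) (nat_lit 0) (nat_lit 0) (XT.lf (nat_lit 0) (nat_lit 19545169444) (nat_lit 152) (nat_lit 87622376222) (nat_lit 0) (nat_lit 15516476185)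 (nat_lit 2) (nat_lit 5) (nat_lit 4) (nat_lit 4) (nat_lit 2) (nat_lit 4) (nat_lit 399) (nat_lit 271) (nat_lit 230)) (XT.nd (nat_lit 78) (nat_lit 0) (nat_lit 0) (XT.lf (nat_lit 0) (nat_lit 23878367801) (nat_lit 152) (nat_lit 84940340168) (nat_lit 0) (nat_lit 19819661574) (nat_lit 2) (nat_lit 5) (nat_lit 4) (nat_lit 4) (nat_lit 2) (nat_lit 4) (nat_lit 400) (nat_lit 271) (nat_lit 229)) (XT.lf (nat_lit 0) (nat_lit 28392518924) (nat_lit 152) (nat_lit 82194476204) (nat_lit 0) (nat_lit 24305228918) (nat_lit 2) (nat_lit 5) (nat_lit 4) (nat_lit 4) (nat_lit 2) (nat_lit 4) (nat_lit 401) (nat_lit 271) (nat_lit 228))))) (XT.nd (nat_lit 234) (nat_lit 0) (nat_lit 0) (XT.nd (nat_lit 78) (nat_lit 0) (nat_lit 0) (XT.lf (nat_lit 0) (nat_lit 33098370792) (nat_lit 152) (nat_lit 79378246558) (nat_lit 0) (nat_lit 28983858140) (nat_lit 2) (nat_lit 5) (nat_lit 4) (nat_lit 4) (nat_lit 2) (nat_lit 4) (nat_lit 402)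 (nat_lit 271) (nat_lit 227)) (XT.nd (nat_lit 78) (nat_lit 0) (nat_lit 0) (XT.lf (nat_lit 0) (nat_lit 38007127815) (nat_lit 152) (nat_lit 76484945923) (nat_lit 0) (nat_lit 33866688832) (nat_lit 2) (nat_lit 5) (nat_lit 4) (nat_lit 4) (nat_lit 2) (nat_lit 4) (nat_lit 403) (nat_lit 271) (nat_lit 226)) (XT.lf (nat_lit 0) (nat_lit 43130477508) (nat_lit 152) (nat_lit 73507685486) (nat_lit 0) (nat_lit 38965346783) (nat_lit 2) (nat_lit 5) (nat_lit 4) (nat_lit 4) (nat_lit 2) (nat_lit 4) (nat_lit 404) (nat_lit 271) (nat_lit 225)))) (XT.nd (nat_lit 78) (nat_lit 0) (nat_lit 0) (XT.lf (nat_lit 0) (nat_lit 48480618324) (nat_lit 152) (nat_lit 70439376533) (nat_lit 0) (nat_lit 44291971653) (nat_lit 2) (nat_lit 5) (nat_lit 4) (nat_lit 4) (nat_lit 2) (nat_lit 4) (nat_lit 405) (nat_lit 271) (nat_lit 224)) (XT.nd (nat_lit 78) (nat_lit 0) (nat_lit 0) (XT.lf (nat_lit 0) (nat_lit 54070288694) (nat_lit 152) (nat_lit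 67272713566) (nat_lit 0) (nat_lit 49859245883) (nat_lit 2) (nat_lit 5) (nat_lit 4) (nat_lit 4) (nat_lit 2) (nat_lit 4) (nat_lit 406) (nat_lit 271) (nat_lit 223)) (XT.lf (nat_lit 0) (nat_lit 59912797355) (nat_lit 152) (nat_lit 64000156911) (nat_lit 0) (nat_lit 55680424889) (nat_lit 2) (nat_lit 5) (nat_lit 4) (nat_lit 4) (nat_lit 2) (nat_lit 4) (nat_lit 407) (nat_lit 271) (nat_lit 222))))))))
noncomputable def xc35 : XT := (XT.nd (nat_lit 1794) (nat_lit 0) (nat_lit 0) (XT.nd (nat_lit 858) (nat_lit 76) (nat_lit 0) (XT.nd (nat_lit 390) (nat_lit 0) (nat_lit 0) (XT.nd (nat_lit 156) (nat_lit 0) (nat_lit 0) (XT.nd (nat_lit 78) (nat_lit 0) (nat_lit 0) (XT.lf (nat_lit 0) (nat_lit 66022055044) (nat_lit 152) (nat_lit 60613914768) (nat_lit 0) (nat_lit 61769368619) (nat_lit 2) (nat_lit 5) (nat_lit 4) (nat_lit 4) (nat_lit 2) (nat_lit 4) (nat_lit 408) (nat_lit 271) (nat_lit 221)) (XT.lf (nat_lit 0) (nat_lit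 72412607611) (nat_lit 152) (nat_lit 57105924653) (nat_lit 0) (nat_lit 68140574560) (nat_lit 2) (nat_lit 5) (nat_lit 4) (nat_lit 4) (nat_lit 2) (nat_lit 4) (nat_lit 409) (nat_lit 271) (nat_lit 220))) (XT.nd (nat_lit 78) (nat_lit 0) (nat_lit 0) (XT.lf (nat_lit 0) (nat_lit 79099670658) (nat_lit 152) (nat_lit 53467834211) (nat_lit 0) (nat_lit 74809212248) (nat_lit 2) (nat_lit 5) (nat_lit 4) (nat_lit 4) (nat_lit 2) (nat_lit 4) (nat_lit 410) (nat_lit 271) (nat_lit 219)) (XT.nd (nat_lit 78) (nat_lit 0) (nat_lit 0) (XT.lf (nat_lit 0) (nat_lit 86099165764) (nat_lit 152) (nat_lit 49690981321) (nat_lit 0) (nat_lit 81791159393) (nat_lit 2) (nat_lit 5) (nat_lit 4) (nat_lit 4) (nat_lit 2) (nat_lit 4) (nat_lit 411) (nat_lit 271) (nat_lit 218)) (XT.lf (nat_lit 0) (nat_lit 93427758394) (nat_lit 152) (nat_lit 45766373476) (nat_lit 0) (nat_lit 89103039679) (nat_lit 2) (nat_lit 5) (nat_lit 4) (nat_lit 4) (nat_lit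 2) (nat_lit 4) (nat_lit 412) (nat_lit 271) (nat_lit 217))))) (XT.nd (nat_lit 234) (nat_lit 0) (nat_lit 0) (XT.nd (nat_lit 78) (nat_lit 0) (nat_lit 0) (XT.lf (nat_lit 0) (nat_lit 101102897576) (nat_lit 152) (nat_lit 41684666372) (nat_lit 0) (nat_lit 96762262344) (nat_lit 2) (nat_lit 5) (nat_lit 4) (nat_lit 4) (nat_lit 2) (nat_lit 4) (nat_lit 413) (nat_lit 271) (nat_lit 216)) (XT.nd (nat_lit 78) (nat_lit 0) (nat_lit 0) (XT.lf (nat_lit 0) (nat_lit 109142857453) (nat_lit 152) (nat_lit 37436141658) (nat_lit 0) (nat_lit 104787063632) (nat_lit 2) (nat_lit 5) (nat_lit 4) (nat_lit 4) (nat_lit 2) (nat_lit 4) (nat_lit 414) (nat_lit 271) (nat_lit 215)) (XT.lf (nat_lit 0) (nat_lit 117566780786) (nat_lit 152) (nat_lit 33010683800) (nat_lit 0) (nat_lit 113196550214) (nat_lit 2) (nat_lit 5) (nat_lit 4) (nat_lit 4) (nat_lit 2) (nat_lit 4) (nat_lit 415) (nat_lit 271) (nat_lit 214)))) (XT.nd (nat_lit 78)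 (nat_lit 0) (nat_lit 0) (XT.lf (nat_lit 0) (nat_lit 126394724535) (nat_lit 152) (nat_lit 28397755992) (nat_lit 0) (nat_lit 122010744677) (nat_lit 2) (nat_lit 5) (nat_lit 4) (nat_lit 4) (nat_lit 2) (nat_lit 4) (nat_lit 416) (nat_lit 271) (nat_lit 213)) (XT.nd (nat_lit 78) (nat_lit 0) (nat_lit 0) (XT.lf (nat_lit 0) (nat_lit 135647707614) (nat_lit 152) (nat_lit 23586375075) (nat_lit 0) (nat_lit 131250633197) (nat_lit 2) (nat_lit 5) (nat_lit 4) (nat_lit 4) (nat_lit 2) (nat_lit 4) (nat_lit 417) (nat_lit 271) (nat_lit 212)) (XT.lf (nat_lit 0) (nat_lit 145347760934) (nat_lit 152) (nat_lit 18565085378) (nat_lit 0) (nat_lit 140938215510) (nat_lit 2) (nat_lit 5) (nat_lit 4) (nat_lit 4) (nat_lit 2) (nat_lit 4) (nat_lit 418) (nat_lit 271) (nat_lit 211)))))) (XT.nd (nat_lit 468) (nat_lit 0) (nat_lit 0) (XT.nd (nat_lit 234) (nat_lit 76) (nat_lit 0) (XT.nd (nat_lit 78) (nat_lit 0) (nat_lit 0) (XT.lf (nat_lit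 0) (nat_lit 155517979862) (nat_lit 152) (nat_lit 13321931450) (nat_lit 0) (nat_lit 151096557287) (nat_lit 2) (nat_lit 5) (nat_lit 4) (nat_lit 4) (nat_lit 2) (nat_lit 4) (nat_lit 419) (nat_lit 271) (nat_lit 210)) (XT.nd (nat_lit 78) (nat_lit 0) (nat_lit 0) (XT.lf (nat_lit 0) (nat_lit 166182579204) (nat_lit 152) (nat_lit 7844429591) (nat_lit 0) (nat_lit 161749845056) (nat_lit 2) (nat_lit 5) (nat_lit 4) (nat_lit 4) (nat_lit 2) (nat_lit 4) (nat_lit 420) (nat_lit 271) (nat_lit 209)) (XT.lf (nat_lit 0) (nat_lit 177366950863) (nat_lit 152) (nat_lit 2119538130) (nat_lit 0) (nat_lit 172923443790) (nat_lit 2) (nat_lit 5) (nat_lit 4) (nat_lit 4) (nat_lit 2) (nat_lit 4) (nat_lit 421) (nat_lit 271) (nat_lit 208)))) (XT.nd (nat_lit 78) (nat_lit 0) (nat_lit 0) (XT.lf (nat_lit 0) (nat_lit 3994213398) (nat_lit 76) (nat_lit 185165871761) (nat_lit 76) (nat_lit 180712104759) (nat_lit 1) (nat_lit 4) (nat_lit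 2) (nat_lit 5) (nat_lit 2) (nat_lit 4) (nat_lit 422) (nat_lit 271) (nat_lit 207)) (XT.nd (nat_lit 78) (nat_lit 0) (nat_lit 0) (XT.lf (nat_lit 0) (nat_lit 10462420648) (nat_lit 76) (nat_lit 191103756973) (nat_lit 76) (nat_lit 186640218609) (nat_lit 1) (nat_lit 4) (nat_lit 2) (nat_lit 5) (nat_lit 2) (nat_lit 4) (nat_lit 423) (nat_lit 271) (nat_lit 206)) (XT.lf (nat_lit 0) (nat_lit 17230402609) (nat_lit 76) (nat_lit 197350177854) (nat_lit 76) (nat_lit 192877333432) (nat_lit 1) (nat_lit 4) (nat_lit 2) (nat_lit 5) (nat_lit 2) (nat_lit 4) (nat_lit 424) (nat_lit 271) (nat_lit 205))))) (XT.nd (nat_lit 234) (nat_lit 0) (nat_lit 0) (XT.nd (nat_lit 78) (nat_lit 0) (nat_lit 0) (XT.lf (nat_lit 0) (nat_lit 24314273523) (nat_lit 76) (nat_lit 203920006834) (nat_lit 76) (nat_lit 199438299500) (nat_lit 1) (nat_lit 4) (nat_lit 2) (nat_lit 5) (nat_lit 2) (nat_lit 4) (nat_lit 425) (nat_lit 271) (nat_lit 204))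 (XT.nd (nat_lit 78) (nat_lit 0) (nat_lit 0) (XT.lf (nat_lit 0) (nat_lit 31730899751) (nat_lit 76) (nat_lit 210828886365) (nat_lit 76) (nat_lit 206338738161) (nat_lit 1) (nat_lit 4) (nat_lit 2) (nat_lit 5) (nat_lit 2) (nat_lit 4) (nat_lit 426) (nat_lit 271) (nat_lit 203)) (XT.lf (nat_lit 0) (nat_lit 39497939926) (nat_lit 76) (nat_lit 218093266158) (nat_lit 76) (nat_lit 213595079032) (nat_lit 1) (nat_lit 4) (nat_lit 2) (nat_lit 5) (nat_lit 2) (nat_lit 4) (nat_lit 427) (nat_lit 271) (nat_lit 202)))) (XT.nd (nat_lit 78) (nat_lit 0) (nat_lit 0) (XT.lf (nat_lit 0) (nat_lit 47633887000) (nat_lit 76) (nat_lit 225730442358) (nat_lit 76) (nat_lit 221224599114) (nat_lit 1) (nat_lit 4) (nat_lit 2) (nat_lit 5) (nat_lit 2) (nat_lit 4) (nat_lit 428) (nat_lit 271) (nat_lit 201)) (XT.nd (nat_lit 78) (nat_lit 0) (nat_lit 0) (XT.lf (nat_lit 0) (nat_lit 56158112277) (nat_lit 76) (nat_lit 233758598715) (nat_lit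 76) (nat_lit 229245463931) (nat_lit 1) (nat_lit 4) (nat_lit 2) (nat_lit 5) (nat_lit 2) (nat_lit 4) (nat_lit 429) (nat_lit 271) (nat_lit 200)) (XT.lf (nat_lit 0) (nat_lit 65090911530) (nat_lit 76) (nat_lit 242196849889) (nat_lit 76) (nat_lit 237676770781) (nat_lit 1) (nat_lit 4) (nat_lit 2) (nat_lit 5) (nat_lit 2) (nat_lit 4) (nat_lit 430) (nat_lit 271) (nat_lit 199))))))) (XT.nd (nat_lit 41418) (nat_lit 0) (nat_lit 532) (XT.nd (nat_lit 468) (nat_lit 0) (nat_lit 0) (XT.nd (nat_lit 234) (nat_lit 0) (nat_lit 0) (XT.nd (nat_lit 78) (nat_lit 0) (nat_lit 0) (XT.lf (nat_lit 0) (nat_lit 74453553330) (nat_lit 76) (nat_lit 251065286953) (nat_lit 76) (nat_lit 246538594203) (nat_lit 1) (nat_lit 4) (nat_lit 2) (nat_lit 5) (nat_lit 2) (nat_lit 4) (nat_lit 431) (nat_lit 271) (nat_lit 198)) (XT.nd (nat_lit 78) (nat_lit 0) (nat_lit 0) (XT.lf (nat_lit 0) (nat_lit 84268329681) (nat_lit 76) (nat_lit 260385025234)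 (nat_lit 76) (nat_lit 255852033778) (nat_lit 1) (nat_lit 4) (nat_lit 2) (nat_lit 5) (nat_lit 2) (nat_lit 4) (nat_lit 432) (nat_lit 271) (nat_lit 197)) (XT.lf (nat_lit 0) (nat_lit 94558609098) (nat_lit 76) (nat_lit 270178254585) (nat_lit 76) (nat_lit 265639264361) (nat_lit 1) (nat_lit 4) (nat_lit 2) (nat_lit 5) (nat_lit 2) (nat_lit 4) (nat_lit 433) (nat_lit 271) (nat_lit 196)))) (XT.nd (nat_lit 78) (nat_lit 0) (nat_lit 0) (XT.lf (nat_lit 0) (nat_lit 105348892245) (nat_lit 76) (nat_lit 280468292219) (nat_lit 76) (nat_lit 275923588882) (nat_lit 1) (nat_lit 4) (nat_lit 2) (nat_lit 5) (nat_lit 2) (nat_lit 4) (nat_lit 434) (nat_lit 271) (nat_lit 195)) (XT.nd (nat_lit 78) (nat_lit 0) (nat_lit 0) (XT.lf (nat_lit 0) (nat_lit 116664870275) (nat_lit 76) (nat_lit 291279638225) (nat_lit 76) (nat_lit 286729493828) (nat_lit 1) (nat_lit 4) (nat_lit 2) (nat_lit 5) (nat_lit 2) (nat_lit 4) (nat_lit 435) (nat_lit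 271) (nat_lit 194)) (XT.lf (nat_lit 0) (nat_lit 128533485990) (nat_lit 76) (nat_lit 302638033903) (nat_lit 76) (nat_lit 298082707545) (nat_lit 1) (nat_lit 4) (nat_lit 2) (nat_lit 5) (nat_lit 2) (nat_lit 4) (nat_lit 436) (nat_lit 271) (nat_lit 193))))) (XT.nd (nat_lit 40716) (nat_lit 0) (nat_lit 988) (XT.nd (nat_lit 40560) (nat_lit 0) (nat_lit 1140) (XT.lf (nat_lit 0) (nat_lit 140982998001) (nat_lit 76) (nat_lit 314570523053) (nat_lit 76) (nat_lit 310010261493) (nat_lit 1) (nat_lit 4) (nat_lit 2) (nat_lit 5) (nat_lit 2) (nat_lit 4) (nat_lit 437) (nat_lit 271) (nat_lit 192)) (XT.nd (nat_lit 78) (nat_lit 76) (nat_lit 0) (XT.lf (nat_lit 0) (nat_lit 3010911326) (nat_lit 152) (nat_lit 3656583995) (nat_lit 0) (nat_lit 3010911326) (nat_lit 17) (nat_lit 5) (nat_lit 19) (nat_lit 4) (nat_lit 17) (nat_lit 4) (nat_lit 356) (nat_lit 272) (nat_lit 272)) (XT.lf (nat_lit 0) (nat_lit 2881417904) (nat_lit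 76) (nat_lit 8729624253) (nat_lit 76) (nat_lit 8432316659) (nat_lit 16) (nat_lit 4) (nat_lit 17) (nat_lit 5) (nat_lit 17) (nat_lit 4) (nat_lit 357) (nat_lit 272) (nat_lit 271)))) (XT.nd (nat_lit 78) (nat_lit 152) (nat_lit 0) (XT.lf (nat_lit 0) (nat_lit 13499092306) (nat_lit 76) (nat_lit 3924228692) (nat_lit 76) (nat_lit 3343771008) (nat_lit 16) (nat_lit 4) (nat_lit 17) (nat_lit 5) (nat_lit 17) (nat_lit 4) (nat_lit 358) (nat_lit 272) (nat_lit 270)) (XT.nd (nat_lit 78) (nat_lit 0) (nat_lit 0) (XT.lf (nat_lit 0) (nat_lit 1821518759) (nat_lit 152) (nat_lit 18697777373) (nat_lit 0) (nat_lit 1011876440) (nat_lit 14) (nat_lit 5) (nat_lit 16) (nat_lit 4) (nat_lit 14) (nat_lit 4) (nat_lit 359) (nat_lit 272) (nat_lit 269)) (XT.lf (nat_lit 0) (nat_lit 7148457871) (nat_lit 152) (nat_lit 9087285588) (nat_lit 0) (nat_lit 6094219858) (nat_lit 14) (nat_lit 5) (nat_lit 16) (nat_lit 4) (nat_lit 14) (nat_lit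 4) (nat_lit 360) (nat_lit 272) (nat_lit 268)))))) (XT.nd (nat_lit 468) (nat_lit 228) (nat_lit 0) (XT.nd (nat_lit 234) (nat_lit 152) (nat_lit 0) (XT.nd (nat_lit 78) (nat_lit 0) (nat_lit 0) (XT.lf (nat_lit 0) (nat_lit 711251658) (nat_lit 76) (nat_lit 11876188298) (nat_lit 76) (nat_lit 10589002005) (nat_lit 13) (nat_lit 4) (nat_lit 14) (nat_lit 5) (nat_lit 14) (nat_lit 4) (nat_lit 361) (nat_lit 272) (nat_lit 267)) (XT.nd (nat_lit 78) (nat_lit 0) (nat_lit 0) (XT.lf (nat_lit 0) (nat_lit 11005046757) (nat_lit 76) (nat_lit 7284847502) (nat_lit 76) (nat_lit 5775805706) (nat_lit 13) (nat_lit 4) (nat_lit 14) (nat_lit 5) (nat_lit 14) (nat_lit 4) (nat_lit 362) (nat_lit 272) (nat_lit 266)) (XT.lf (nat_lit 0) (nat_lit 21518142042) (nat_lit 76) (nat_lit 2604686888) (nat_lit 76) (nat_lit 884354136) (nat_lit 13) (nat_lit 4) (nat_lit 14) (nat_lit 5) (nat_lit 14) (nat_lit 4) (nat_lit 363) (nat_lit 272) (nat_lit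 265)))) (XT.nd (nat_lit 78) (nat_lit 0) (nat_lit 0) (XT.lf (nat_lit 0) (nat_lit 4102660944) (nat_lit 152) (nat_lit 19617832418) (nat_lit 0) (nat_lit 2272601673) (nat_lit 11) (nat_lit 5) (nat_lit 13) (nat_lit 4) (nat_lit 11) (nat_lit 4) (nat_lit 364) (nat_lit 272) (nat_lit 264)) (XT.nd (nat_lit 78) (nat_lit 0) (nat_lit 0) (XT.lf (nat_lit 0) (nat_lit 9262971898) (nat_lit 152) (nat_lit 10516556993) (nat_lit 0) (nat_lit 7250391554) (nat_lit 11) (nat_lit 5) (nat_lit 13) (nat_lit 4) (nat_lit 11) (nat_lit 4) (nat_lit 365) (nat_lit 272) (nat_lit 263)) (XT.lf (nat_lit 0) (nat_lit 14539306179) (nat_lit 152) (nat_lit 1233509062) (nat_lit 0) (nat_lit 12352896242) (nat_lit 11) (nat_lit 5) (nat_lit 13) (nat_lit 4) (nat_lit 11) (nat_lit 4) (nat_lit 366) (nat_lit 272) (nat_lit 262))))) (XT.nd (nat_lit 234) (nat_lit 152) (nat_lit 0) (XT.nd (nat_lit 78) (nat_lit 0) (nat_lit 0) (XT.lf (nat_lit 0) (nat_lit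 8526309005) (nat_lit 76) (nat_lit 11551037060) (nat_lit 76) (nat_lit 9199075131) (nat_lit 10) (nat_lit 4) (nat_lit 11) (nat_lit 5) (nat_lit 11) (nat_lit 4) (nat_lit 367) (nat_lit 272) (nat_lit 261)) (XT.nd (nat_lit 78) (nat_lit 0) (nat_lit 0) (XT.lf (nat_lit 0) (nat_lit 18560863253) (nat_lit 76) (nat_lit 7219525521) (nat_lit 76) (nat_lit 4709895026) (nat_lit 10) (nat_lit 4) (nat_lit 11) (nat_lit 5) (nat_lit 11) (nat_lit 4) (nat_lit 368) (nat_lit 272) (nat_lit 260)) (XT.lf (nat_lit 0) (nat_lit 28853260096) (nat_lit 76) (nat_lit 2788857572) (nat_lit 76) (nat_lit 129066540) (nat_lit 10) (nat_lit 4) (nat_lit 11) (nat_lit 5) (nat_lit 11) (nat_lit 4) (nat_lit 369) (nat_lit 272) (nat_lit 259)))) (XT.nd (nat_lit 78) (nat_lit 0) (nat_lit 0) (XT.lf (nat_lit 0) (nat_lit 4539270859) (nat_lit 152) (nat_lit 26702873515) (nat_lit 0) (nat_lit 1869936508) (nat_lit 8) (nat_lit 5) (nat_lit 10) (nat_lit 4)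 (nat_lit 8) (nat_lit 4) (nat_lit 370) (nat_lit 272) (nat_lit 258)) (XT.nd (nat_lit 78) (nat_lit 0) (nat_lit 0) (XT.lf (nat_lit 0) (nat_lit 9410642053) (nat_lit 152) (nat_lit 18499001907) (nat_lit 0) (nat_lit 6611593384) (nat_lit 8) (nat_lit 5) (nat_lit 10) (nat_lit 4) (nat_lit 8) (nat_lit 4) (nat_lit 371) (nat_lit 272) (nat_lit 257)) (XT.lf (nat_lit 0) (nat_lit 14409399776) (nat_lit 152) (nat_lit 10110464881) (nat_lit 0) (nat_lit 11486813661) (nat_lit 8) (nat_lit 5) (nat_lit 10) (nat_lit 4) (nat_lit 8) (nat_lit 4) (nat_lit 372) (nat_lit 272) (nat_lit 256))))))))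
noncomputable def xc36 : XT := (XT.nd (nat_lit 1794) (nat_lit 76) (nat_lit 0) (XT.nd (nat_lit 858) (nat_lit 152) (nat_lit 0) (XT.nd (nat_lit 390) (nat_lit 152) (nat_lit 0) (XT.nd (nat_lit 156) (nat_lit 0) (nat_lit 0) (XT.nd (nat_lit 78) (nat_lit 76) (nat_lit 0) (XT.lf (nat_lit 0) (nat_lit 19547445831) (nat_lit 152) (nat_lit 1517289730) (nat_lit 0) (nat_lit 16507205005) (nat_lit 8) (nat_lit 5) (nat_lit 10) (nat_lit 4) (nat_lit 8) (nat_lit 4) (nat_lit 373) (nat_lit 272) (nat_lit 255)) (XT.lf (nat_lit 0) (nat_lit 7542386972) (nat_lit 76) (nat_lit 17412384487) (nat_lit 76) (nat_lit 14260091556) (nat_lit 7) (nat_lit 4) (nat_lit 8) (nat_lit 5) (nat_lit 8) (nat_lit 4) (nat_lit 374) (nat_lit 272) (nat_lit 254))) (XT.nd (nat_lit 78) (nat_lit 0) (nat_lit 0) (XT.lf (nat_lit 0) (nat_lit 16906463057) (nat_lit 76) (nat_lit 13648191688) (nat_lit 76) (nat_lit 10389182466) (nat_lit 7) (nat_lit 4) (nat_lit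 8) (nat_lit 5) (nat_lit 8) (nat_lit 4) (nat_lit 375) (nat_lit 272) (nat_lit 253)) (XT.nd (nat_lit 78) (nat_lit 0) (nat_lit 0) (XT.lf (nat_lit 0) (nat_lit 26547065493) (nat_lit 76) (nat_lit 9788890835) (nat_lit 76) (nat_lit 6428247050) (nat_lit 7) (nat_lit 4) (nat_lit 8) (nat_lit 5) (nat_lit 8) (nat_lit 4) (nat_lit 376) (nat_lit 272) (nat_lit 252)) (XT.lf (nat_lit 0) (nat_lit 36487148095) (nat_lit 76) (nat_lit 5825293117) (nat_lit 76) (nat_lit 2367854511) (nat_lit 7) (nat_lit 4) (nat_lit 8) (nat_lit 5) (nat_lit 8) (nat_lit 4) (nat_lit 377) (nat_lit 272) (nat_lit 251))))) (XT.nd (nat_lit 234) (nat_lit 0) (nat_lit 0) (XT.nd (nat_lit 78) (nat_lit 0) (nat_lit 0) (XT.lf (nat_lit 0) (nat_lit 26417889) (nat_lit 76) (nat_lit 1717992861) (nat_lit 152) (nat_lit 44950838546) (nat_lit 5) (nat_lit 5) (nat_lit 6) (nat_lit 5) (nat_lit 7) (nat_lit 4) (nat_lit 378) (nat_lit 272) (nat_lit 250)) (XT.nd (nat_lit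 78) (nat_lit 0) (nat_lit 0) (XT.lf (nat_lit 0) (nat_lit 6073651884) (nat_lit 152) (nat_lit 40121380352) (nat_lit 0) (nat_lit 2609442448) (nat_lit 5) (nat_lit 5) (nat_lit 7) (nat_lit 4) (nat_lit 5) (nat_lit 4) (nat_lit 379) (nat_lit 272) (nat_lit 249)) (XT.lf (nat_lit 0) (nat_lit 10561231603) (nat_lit 152) (nat_lit 33443458421) (nat_lit 0) (nat_lit 7017388828) (nat_lit 5) (nat_lit 5) (nat_lit 7) (nat_lit 4) (nat_lit 5) (nat_lit 4) (nat_lit 380) (nat_lit 272) (nat_lit 248)))) (XT.nd (nat_lit 78) (nat_lit 0) (nat_lit 0) (XT.lf (nat_lit 0) (nat_lit 15191011939) (nat_lit 152) (nat_lit 26592343116) (nat_lit 0) (nat_lit 11571327889) (nat_lit 5) (nat_lit 5) (nat_lit 7) (nat_lit 4) (nat_lit 5) (nat_lit 4) (nat_lit 381) (nat_lit 272) (nat_lit 247)) (XT.nd (nat_lit 78) (nat_lit 0) (nat_lit 0) (XT.lf (nat_lit 0) (nat_lit 19974016179) (nat_lit 152) (nat_lit 19551722259) (nat_lit 0) (nat_lit 16282102342)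 (nat_lit 5) (nat_lit 5) (nat_lit 7) (nat_lit 4) (nat_lit 5) (nat_lit 4) (nat_lit 382) (nat_lit 272) (nat_lit 246)) (XT.lf (nat_lit 0) (nat_lit 24921632426) (nat_lit 152) (nat_lit 12304832466) (nat_lit 0) (nat_lit 21160928317) (nat_lit 5) (nat_lit 5) (nat_lit 7) (nat_lit 4) (nat_lit 5) (nat_lit 4) (nat_lit 383) (nat_lit 272) (nat_lit 245)))))) (XT.nd (nat_lit 468) (nat_lit 76) (nat_lit 0) (XT.nd (nat_lit 234) (nat_lit 0) (nat_lit 0) (XT.nd (nat_lit 78) (nat_lit 76) (nat_lit 0) (XT.lf (nat_lit 0) (nat_lit 30045640721) (nat_lit 152) (nat_lit 4834419238) (nat_lit 0) (nat_lit 26219422067) (nat_lit 5) (nat_lit 5) (nat_lit 7) (nat_lit 4) (nat_lit 5) (nat_lit 4) (nat_lit 384) (nat_lit 272) (nat_lit 244)) (XT.nd (nat_lit 78) (nat_lit 0) (nat_lit 0) (XT.lf (nat_lit 0) (nat_lit 2972440791) (nat_lit 76) (nat_lit 32432208422) (nat_lit 76) (nat_lit 28543594963) (nat_lit 4) (nat_lit 4) (nat_lit 5) (nat_lit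 5) (nat_lit 5) (nat_lit 4) (nat_lit 385) (nat_lit 272) (nat_lit 243)) (XT.lf (nat_lit 0) (nat_lit 11207405842) (nat_lit 76) (nat_lit 29839655732) (nat_lit 76) (nat_lit 25891618648) (nat_lit 4) (nat_lit 4) (nat_lit 5) (nat_lit 5) (nat_lit 5) (nat_lit 4) (nat_lit 386) (nat_lit 272) (nat_lit 242)))) (XT.nd (nat_lit 78) (nat_lit 0) (nat_lit 0) (XT.lf (nat_lit 0) (nat_lit 19730235241) (nat_lit 76) (nat_lit 27178102372) (nat_lit 76) (nat_lit 23173471361) (nat_lit 4) (nat_lit 4) (nat_lit 5) (nat_lit 5) (nat_lit 5) (nat_lit 4) (nat_lit 387) (nat_lit 272) (nat_lit 241)) (XT.nd (nat_lit 78) (nat_lit 0) (nat_lit 0) (XT.lf (nat_lit 0) (nat_lit 28561221438) (nat_lit 76) (nat_lit 24441211311) (nat_lit 76) (nat_lit 20382681322) (nat_lit 4) (nat_lit 4) (nat_lit 5) (nat_lit 5) (nat_lit 5) (nat_lit 4) (nat_lit 388) (nat_lit 272) (nat_lit 240)) (XT.lf (nat_lit 0) (nat_lit 37721390592) (nat_lit 76) (nat_lit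 21622466143) (nat_lit 76) (nat_lit 17512603793) (nat_lit 4) (nat_lit 4) (nat_lit 5) (nat_lit 5) (nat_lit 5) (nat_lit 4) (nat_lit 389) (nat_lit 272) (nat_lit 239))))) (XT.nd (nat_lit 234) (nat_lit 76) (nat_lit 0) (XT.nd (nat_lit 78) (nat_lit 0) (nat_lit 0) (XT.lf (nat_lit 0) (nat_lit 47232552628) (nat_lit 76) (nat_lit 18715155568) (nat_lit 76) (nat_lit 14556405256) (nat_lit 4) (nat_lit 4) (nat_lit 5) (nat_lit 5) (nat_lit 5) (nat_lit 4) (nat_lit 390) (nat_lit 272) (nat_lit 238)) (XT.nd (nat_lit 78) (nat_lit 0) (nat_lit 0) (XT.lf (nat_lit 0) (nat_lit 57117353170) (nat_lit 76) (nat_lit 15712357419) (nat_lit 76) (nat_lit 11507047143) (nat_lit 4) (nat_lit 4) (nat_lit 5) (nat_lit 5) (nat_lit 5) (nat_lit 4) (nat_lit 391) (nat_lit 272) (nat_lit 237)) (XT.lf (nat_lit 0) (nat_lit 67399327459) (nat_lit 76) (nat_lit 12606922177) (nat_lit 76) (nat_lit 8357269078) (nat_lit 4) (nat_lit 4) (nat_lit 5) (nat_lit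 5) (nat_lit 5) (nat_lit 4) (nat_lit 392) (nat_lit 272) (nat_lit 236)))) (XT.nd (nat_lit 78) (nat_lit 76) (nat_lit 0) (XT.lf (nat_lit 0) (nat_lit 78102956385) (nat_lit 76) (nat_lit 9391455948) (nat_lit 76) (nat_lit 5099571588) (nat_lit 4) (nat_lit 4) (nat_lit 5) (nat_lit 5) (nat_lit 5) (nat_lit 4) (nat_lit 393) (nat_lit 272) (nat_lit 235)) (XT.nd (nat_lit 78) (nat_lit 76) (nat_lit 0) (XT.lf (nat_lit 0) (nat_lit 89253724779) (nat_lit 76) (nat_lit 6058302860) (nat_lit 76) (nat_lit 1726198253) (nat_lit 4) (nat_lit 4) (nat_lit 5) (nat_lit 5) (nat_lit 5) (nat_lit 4) (nat_lit 394) (nat_lit 272) (nat_lit 234)) (XT.lf (nat_lit 0) (nat_lit 1714203462) (nat_lit 152) (nat_lit 856292506) (nat_lit 76) (nat_lit 99134947761) (nat_lit 3) (nat_lit 5) (nat_lit 5) (nat_lit 5) (nat_lit 4) (nat_lit 4) (nat_lit 395) (nat_lit 272) (nat_lit 233))))))) (XT.nd (nat_lit 936) (nat_lit 0) (nat_lit 0) (XT.nd (nat_lit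 468) (nat_lit 0) (nat_lit 0) (XT.nd (nat_lit 234) (nat_lit 0) (nat_lit 0) (XT.nd (nat_lit 78) (nat_lit 0) (nat_lit 0) (XT.lf (nat_lit 0) (nat_lit 5347474401) (nat_lit 152) (nat_lit 100102759276) (nat_lit 0) (nat_lit 1150435777) (nat_lit 2) (nat_lit 5) (nat_lit 4) (nat_lit 4) (nat_lit 2) (nat_lit 4) (nat_lit 396) (nat_lit 272) (nat_lit 232)) (XT.nd (nat_lit 78) (nat_lit 0) (nat_lit 0) (XT.lf (nat_lit 0) (nat_lit 9177952135) (nat_lit 152) (nat_lit 97614107664) (nat_lit 0) (nat_lit 4947824213) (nat_lit 2) (nat_lit 5) (nat_lit 4) (nat_lit 4) (nat_lit 2) (nat_lit 4) (nat_lit 397) (nat_lit 272) (nat_lit 231)) (XT.lf (nat_lit 0) (nat_lit 13160586620) (nat_lit 152) (nat_lit 95078500439) (nat_lit 0) (nat_lit 8898945083) (nat_lit 2) (nat_lit 5) (nat_lit 4) (nat_lit 4) (nat_lit 2) (nat_lit 4) (nat_lit 398) (nat_lit 272) (nat_lit 230)))) (XT.nd (nat_lit 78) (nat_lit 0) (nat_lit 0) (XT.lf (nat_lit 0)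 (nat_lit 17304860321) (nat_lit 152) (nat_lit 92489900440) (nat_lit 0) (nat_lit 13013205815) (nat_lit 2) (nat_lit 5) (nat_lit 4) (nat_lit 4) (nat_lit 2) (nat_lit 4) (nat_lit 399) (nat_lit 272) (nat_lit 229)) (XT.nd (nat_lit 78) (nat_lit 0) (nat_lit 0) (XT.lf (nat_lit 0) (nat_lit 21620640555) (nat_lit 152) (nat_lit 89842144333) (nat_lit 0) (nat_lit 17300402270) (nat_lit 2) (nat_lit 5) (nat_lit 4) (nat_lit 4) (nat_lit 2) (nat_lit 4) (nat_lit 400) (nat_lit 272) (nat_lit 228)) (XT.lf (nat_lit 0) (nat_lit 26118202990) (nat_lit 152) (nat_lit 87128927938) (nat_lit 0) (nat_lit 21770742058) (nat_lit 2) (nat_lit 5) (nat_lit 4) (nat_lit 4) (nat_lit 2) (nat_lit 4) (nat_lit 401) (nat_lit 272) (nat_lit 227))))) (XT.nd (nat_lit 234) (nat_lit 0) (nat_lit 0) (XT.nd (nat_lit 78) (nat_lit 0) (nat_lit 0) (XT.lf (nat_lit 0) (nat_lit 30808256107) (nat_lit 152) (nat_lit 84343791216) (nat_lit 0) (nat_lit 26434868846)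 (nat_lit 2) (nat_lit 5) (nat_lit 4) (nat_lit 4) (nat_lit 2) (nat_lit 4) (nat_lit 402) (nat_lit 272) (nat_lit 226)) (XT.nd (nat_lit 78) (nat_lit 0) (nat_lit 0) (XT.lf (nat_lit 0) (nat_lit 35701966701) (nat_lit 152) (nat_lit 81480102888) (nat_lit 0) (nat_lit 31303887696) (nat_lit 2) (nat_lit 5) (nat_lit 4) (nat_lit 4) (nat_lit 2) (nat_lit 4) (nat_lit 403) (nat_lit 272) (nat_lit 225)) (XT.lf (nat_lit 0) (nat_lit 40810986461) (nat_lit 152) (nat_lit 78531044649) (nat_lit 0) (nat_lit 36389391511) (nat_lit 2) (nat_lit 5) (nat_lit 4) (nat_lit 4) (nat_lit 2) (nat_lit 4) (nat_lit 404) (nat_lit 272) (nat_lit 224)))) (XT.nd (nat_lit 78) (nat_lit 0) (nat_lit 0) (XT.lf (nat_lit 0) (nat_lit 46147479723) (nat_lit 152) (nat_lit 75489594932) (nat_lit 0) (nat_lit 41703488633) (nat_lit 2) (nat_lit 5) (nat_lit 4) (nat_lit 4) (nat_lit 2) (nat_lit 4) (nat_lit 405) (nat_lit 272) (nat_lit 223)) (XT.nd (nat_lit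 78) (nat_lit 0) (nat_lit 0) (XT.lf (nat_lit 0) (nat_lit 51724152421) (nat_lit 152) (nat_lit 72348512190) (nat_lit 0) (nat_lit 47258831675) (nat_lit 2) (nat_lit 5) (nat_lit 4) (nat_lit 4) (nat_lit 2) (nat_lit 4) (nat_lit 406) (nat_lit 272) (nat_lit 222)) (XT.lf (nat_lit 0) (nat_lit 57554282348) (nat_lit 152) (nat_lit 69100317654) (nat_lit 0) (nat_lit 53068647644) (nat_lit 2) (nat_lit 5) (nat_lit 4) (nat_lit 4) (nat_lit 2) (nat_lit 4) (nat_lit 407) (nat_lit 272) (nat_lit 221)))))) (XT.nd (nat_lit 468) (nat_lit 0) (nat_lit 0) (XT.nd (nat_lit 234) (nat_lit 0) (nat_lit 0) (XT.nd (nat_lit 78) (nat_lit 0) (nat_lit 0) (XT.lf (nat_lit 0) (nat_lit 63651750765) (nat_lit 152) (nat_lit 65737277528) (nat_lit 0) (nat_lit 59146769434) (nat_lit 2) (nat_lit 5) (nat_lit 4) (nat_lit 4) (nat_lit 2) (nat_lit 4) (nat_lit 408) (nat_lit 272) (nat_lit 220)) (XT.nd (nat_lit 78) (nat_lit 0) (nat_lit 0) (XT.lf (nat_lit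 0) (nat_lit 70031075455) (nat_lit 152) (nat_lit 62251384574) (nat_lit 0) (nat_lit 65507668766) (nat_lit 2) (nat_lit 5) (nat_lit 4) (nat_lit 4) (nat_lit 2) (nat_lit 4) (nat_lit 409) (nat_lit 272) (nat_lit 219)) (XT.lf (nat_lit 0) (nat_lit 76707445286) (nat_lit 152) (nat_lit 58634339046) (nat_lit 0) (nat_lit 72166490636) (nat_lit 2) (nat_lit 5) (nat_lit 4) (nat_lit 4) (nat_lit 2) (nat_lit 4) (nat_lit 410) (nat_lit 272) (nat_lit 218)))) (XT.nd (nat_lit 78) (nat_lit 0) (nat_lit 0) (XT.lf (nat_lit 0) (nat_lit 83696756376) (nat_lit 152) (nat_lit 54877528931) (nat_lit 0) (nat_lit 79139089382) (nat_lit 2) (nat_lit 5) (nat_lit 4) (nat_lit 4) (nat_lit 2) (nat_lit 4) (nat_lit 411) (nat_lit 272) (nat_lit 217)) (XT.nd (nat_lit 78) (nat_lit 0) (nat_lit 0) (XT.lf (nat_lit 0) (nat_lit 91015649943) (nat_lit 152) (nat_lit 50972009444) (nat_lit 0) (nat_lit 86442066431) (nat_lit 2) (nat_lit 5) (nat_lit 4)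 (nat_lit 4) (nat_lit 2) (nat_lit 4) (nat_lit 412) (nat_lit 272) (nat_lit 216)) (XT.lf (nat_lit 0) (nat_lit 98681551923) (nat_lit 152) (nat_lit 46908481727) (nat_lit 0) (nat_lit 94092809823) (nat_lit 2) (nat_lit 5) (nat_lit 4) (nat_lit 4) (nat_lit 2) (nat_lit 4) (nat_lit 413) (nat_lit 272) (nat_lit 215))))) (XT.nd (nat_lit 234) (nat_lit 0) (nat_lit 0) (XT.nd (nat_lit 78) (nat_lit 0) (nat_lit 0) (XT.lf (nat_lit 0) (nat_lit 106712714465) (nat_lit 152) (nat_lit 42677270717) (nat_lit 0) (nat_lit 102109535614) (nat_lit 2) (nat_lit 5) (nat_lit 4) (nat_lit 4) (nat_lit 2) (nat_lit 4) (nat_lit 414) (nat_lit 272) (nat_lit 214)) (XT.nd (nat_lit 78) (nat_lit 0) (nat_lit 0) (XT.lf (nat_lit 0) (nat_lit 115128259383) (nat_lit 152) (nat_lit 38268302099) (nat_lit 0) (nat_lit 110511331245) (nat_lit 2) (nat_lit 5) (nat_lit 4) (nat_lit 4) (nat_lit 2) (nat_lit 4) (nat_lit 415) (nat_lit 272) (nat_lit 213)) (XT.lf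 (nat_lit 0) (nat_lit 123948223689) (nat_lit 152) (nat_lit 33671078331) (nat_lit 0) (nat_lit 119318200993) (nat_lit 2) (nat_lit 5) (nat_lit 4) (nat_lit 4) (nat_lit 2) (nat_lit 4) (nat_lit 416) (nat_lit 272) (nat_lit 212)))) (XT.nd (nat_lit 78) (nat_lit 0) (nat_lit 0) (XT.lf (nat_lit 0) (nat_lit 133193607298) (nat_lit 152) (nat_lit 28874653641) (nat_lit 0) (nat_lit 128551113594) (nat_lit 2) (nat_lit 5) (nat_lit 4) (nat_lit 4) (nat_lit 2) (nat_lit 4) (nat_lit 417) (nat_lit 272) (nat_lit 211)) (XT.nd (nat_lit 78) (nat_lit 0) (nat_lit 0) (XT.lf (nat_lit 0) (nat_lit 142886423029) (nat_lit 152) (nat_lit 23867607970) (nat_lit 0) (nat_lit 138232052175) (nat_lit 2) (nat_lit 5) (nat_lit 4) (nat_lit 4) (nat_lit 2) (nat_lit 4) (nat_lit 418) (nat_lit 272) (nat_lit 210)) (XT.lf (nat_lit 0) (nat_lit 153049749014) (nat_lit 152) (nat_lit 18638019781) (nat_lit 0) (nat_lit 148384066588) (nat_lit 2) (nat_lit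 5) (nat_lit 4) (nat_lit 4) (nat_lit 2) (nat_lit 4) (nat_lit 419) (nat_lit 272) (nat_lit 209))))))))
noncomputable def xc37 : XT := (XT.nd (nat_lit 42120) (nat_lit 0) (nat_lit 304) (XT.nd (nat_lit 858) (nat_lit 0) (nat_lit 0) (XT.nd (nat_lit 390) (nat_lit 0) (nat_lit 0) (XT.nd (nat_lit 156) (nat_lit 76) (nat_lit 0) (XT.nd (nat_lit 78) (nat_lit 0) (nat_lit 0) (XT.lf (nat_lit 0) (nat_lit 163707783649) (nat_lit 152) (nat_lit 13173437674) (nat_lit 0) (nat_lit 159031328296) (nat_lit 2) (nat_lit 5) (nat_lit 4) (nat_lit 4) (nat_lit 2) (nat_lit 4) (nat_lit 420) (nat_lit 272) (nat_lit 208)) (XT.lf (nat_lit 0) (nat_lit 174885903206) (nat_lit 152) (nat_lit 7460850739) (nat_lit 0) (nat_lit 170199187924) (nat_lit 2) (nat_lit 5) (nat_lit 4) (nat_lit 4) (nat_lit 2) (nat_lit 4) (nat_lit 421) (nat_lit 272) (nat_lit 207))) (XT.nd (nat_lit 78) (nat_lit 76) (nat_lit 0) (XT.lf (nat_lit 0) (nat_lit 186610722255)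 (nat_lit 152) (nat_lit 1486657579) (nat_lit 0) (nat_lit 181914235612) (nat_lit 2) (nat_lit 5) (nat_lit 4) (nat_lit 4) (nat_lit 2) (nat_lit 4) (nat_lit 422) (nat_lit 272) (nat_lit 206)) (XT.nd (nat_lit 78) (nat_lit 0) (nat_lit 0) (XT.lf (nat_lit 0) (nat_lit 4920864470) (nat_lit 76) (nat_lit 194066121047) (nat_lit 76) (nat_lit 189360328346) (nat_lit 1) (nat_lit 4) (nat_lit 2) (nat_lit 5) (nat_lit 2) (nat_lit 4) (nat_lit 423) (nat_lit 272) (nat_lit 205)) (XT.lf (nat_lit 0) (nat_lit 11677865873) (nat_lit 76) (nat_lit 200317950248) (nat_lit 76) (nat_lit 195603294634) (nat_lit 1) (nat_lit 4) (nat_lit 2) (nat_lit 5) (nat_lit 2) (nat_lit 4) (nat_lit 424) (nat_lit 272) (nat_lit 204))))) (XT.nd (nat_lit 234) (nat_lit 0) (nat_lit 0) (XT.nd (nat_lit 78) (nat_lit 0) (nat_lit 0) (XT.lf (nat_lit 0) (nat_lit 18751279113) (nat_lit 76) (nat_lit 206892930009) (nat_lit 76) (nat_lit 202169833526) (nat_lit 1)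 (nat_lit 4) (nat_lit 2) (nat_lit 5) (nat_lit 2) (nat_lit 4) (nat_lit 425) (nat_lit 272) (nat_lit 203)) (XT.nd (nat_lit 78) (nat_lit 0) (nat_lit 0) (XT.lf (nat_lit 0) (nat_lit 26157945651) (nat_lit 76) (nat_lit 213806715045) (nat_lit 76) (nat_lit 209075579639) (nat_lit 1) (nat_lit 4) (nat_lit 2) (nat_lit 5) (nat_lit 2) (nat_lit 4) (nat_lit 426) (nat_lit 272) (nat_lit 202)) (XT.lf (nat_lit 0) (nat_lit 33915500407) (nat_lit 76) (nat_lit 221075766749) (nat_lit 76) (nat_lit 216336975226) (nat_lit 1) (nat_lit 4) (nat_lit 2) (nat_lit 5) (nat_lit 2) (nat_lit 4) (nat_lit 427) (nat_lit 272) (nat_lit 201)))) (XT.nd (nat_lit 78) (nat_lit 0) (nat_lit 0) (XT.lf (nat_lit 0) (nat_lit 42042413749) (nat_lit 76) (nat_lit 228717392387) (nat_lit 76) (nat_lit 223971309323) (nat_lit 1) (nat_lit 4) (nat_lit 2) (nat_lit 5) (nat_lit 2) (nat_lit 4) (nat_lit 428) (nat_lit 272) (nat_lit 200)) (XT.nd (nat_lit 78) (nat_lit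 0) (nat_lit 0) (XT.lf (nat_lit 0) (nat_lit 50558035471) (nat_lit 76) (nat_lit 236749786304) (nat_lit 76) (nat_lit 231996758917) (nat_lit 1) (nat_lit 4) (nat_lit 2) (nat_lit 5) (nat_lit 2) (nat_lit 4) (nat_lit 429) (nat_lit 272) (nat_lit 199)) (XT.lf (nat_lit 0) (nat_lit 59482640863) (nat_lit 76) (nat_lit 245192073250) (nat_lit 76) (nat_lit 240432432220) (nat_lit 1) (nat_lit 4) (nat_lit 2) (nat_lit 5) (nat_lit 2) (nat_lit 4) (nat_lit 430) (nat_lit 272) (nat_lit 198)))))) (XT.nd (nat_lit 468) (nat_lit 0) (nat_lit 0) (XT.nd (nat_lit 234) (nat_lit 0) (nat_lit 0) (XT.nd (nat_lit 78) (nat_lit 0) (nat_lit 0) (XT.lf (nat_lit 0) (nat_lit 68837478985) (nat_lit 76) (nat_lit 254064353906) (nat_lit 76) (nat_lit 249298414170) (nat_lit 1) (nat_lit 4) (nat_lit 2) (nat_lit 5) (nat_lit 2) (nat_lit 4) (nat_lit 431) (nat_lit 272) (nat_lit 197)) (XT.nd (nat_lit 78) (nat_lit 0) (nat_lit 0) (XT.lf (nat_lit 0)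 (nat_lit 78644823262) (nat_lit 76) (nat_lit 263387752751) (nat_lit 76) (nat_lit 258615814247) (nat_lit 1) (nat_lit 4) (nat_lit 2) (nat_lit 5) (nat_lit 2) (nat_lit 4) (nat_lit 432) (nat_lit 272) (nat_lit 196)) (XT.lf (nat_lit 0) (nat_lit 88928024513) (nat_lit 76) (nat_lit 273184468353) (nat_lit 76) (nat_lit 268406816737) (nat_lit 1) (nat_lit 4) (nat_lit 2) (nat_lit 5) (nat_lit 2) (nat_lit 4) (nat_lit 433) (nat_lit 272) (nat_lit 195)))) (XT.nd (nat_lit 78) (nat_lit 0) (nat_lit 0) (XT.lf (nat_lit 0) (nat_lit 99711566550) (nat_lit 76) (nat_lit 283477826226) (nat_lit 76) (nat_lit 278694733550) (nat_lit 1) (nat_lit 4) (nat_lit 2) (nat_lit 5) (nat_lit 2) (nat_lit 4) (nat_lit 434) (nat_lit 272) (nat_lit 194)) (XT.nd (nat_lit 78) (nat_lit 0) (nat_lit 0) (XT.lf (nat_lit 0) (nat_lit 111021124475) (nat_lit 76) (nat_lit 294292334365) (nat_lit 76) (nat_lit 289504059727) (nat_lit 1) (nat_lit 4) (nat_lit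 2) (nat_lit 5) (nat_lit 2) (nat_lit 4) (nat_lit 435) (nat_lit 272) (nat_lit 193)) (XT.lf (nat_lit 0) (nat_lit 122883625804) (nat_lit 76) (nat_lit 305653741598) (nat_lit 76) (nat_lit 300860531759) (nat_lit 1) (nat_lit 4) (nat_lit 2) (nat_lit 5) (nat_lit 2) (nat_lit 4) (nat_lit 436) (nat_lit 272) (nat_lit 192))))) (XT.nd (nat_lit 40560) (nat_lit 0) (nat_lit 1140) (XT.nd (nat_lit 40404) (nat_lit 0) (nat_lit 1216) (XT.lf (nat_lit 0) (nat_lit 135327314591) (nat_lit 76) (nat_lit 317589098895) (nat_lit 76) (nat_lit 312791188865) (nat_lit 1) (nat_lit 4) (nat_lit 2) (nat_lit 5) (nat_lit 2) (nat_lit 4) (nat_lit 437) (nat_lit 272) (nat_lit 191)) (XT.nd (nat_lit 78) (nat_lit 152) (nat_lit 0) (XT.lf (nat_lit 0) (nat_lit 4706834776) (nat_lit 76) (nat_lit 2167543250) (nat_lit 76) (nat_lit 2167543250) (nat_lit 19) (nat_lit 4) (nat_lit 20) (nat_lit 5) (nat_lit 20) (nat_lit 4) (nat_lit 354) (nat_lit 273)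 (nat_lit 273)) (XT.lf (nat_lit 0) (nat_lit 878837266) (nat_lit 152) (nat_lit 17264103774) (nat_lit 0) (nat_lit 566664292) (nat_lit 17) (nat_lit 5) (nat_lit 19) (nat_lit 4) (nat_lit 17) (nat_lit 4) (nat_lit 355) (nat_lit 273) (nat_lit 272)))) (XT.nd (nat_lit 78) (nat_lit 76) (nat_lit 0) (XT.lf (nat_lit 0) (nat_lit 6244393781) (nat_lit 152) (nat_lit 7482007037) (nat_lit 0) (nat_lit 5634913213) (nat_lit 17) (nat_lit 5) (nat_lit 19) (nat_lit 4) (nat_lit 17) (nat_lit 4) (nat_lit 356) (nat_lit 273) (nat_lit 271)) (XT.nd (nat_lit 78) (nat_lit 0) (nat_lit 0) (XT.lf (nat_lit 0) (nat_lit 2540880438) (nat_lit 76) (nat_lit 9202081014) (nat_lit 76) (nat_lit 8309450357) (nat_lit 16) (nat_lit 4) (nat_lit 17) (nat_lit 5) (nat_lit 17) (nat_lit 4) (nat_lit 357) (nat_lit 273) (nat_lit 270)) (XT.lf (nat_lit 0) (nat_lit 13000349282) (nat_lit 76) (nat_lit 4471149465) (nat_lit 76) (nat_lit 3308852056) (nat_lit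 16) (nat_lit 4) (nat_lit 17) (nat_lit 5) (nat_lit 17) (nat_lit 4) (nat_lit 358) (nat_lit 273) (nat_lit 269))))))) (XT.nd (nat_lit 936) (nat_lit 228) (nat_lit 0) (XT.nd (nat_lit 468) (nat_lit 228) (nat_lit 0) (XT.nd (nat_lit 234) (nat_lit 228) (nat_lit 0) (XT.nd (nat_lit 78) (nat_lit 0) (nat_lit 0) (XT.lf (nat_lit 0) (nat_lit 1753666163) (nat_lit 152) (nat_lit 19393717073) (nat_lit 0) (nat_lit 402120556) (nat_lit 14) (nat_lit 5) (nat_lit 16) (nat_lit 4) (nat_lit 14) (nat_lit 4) (nat_lit 359) (nat_lit 273) (nat_lit 268)) (XT.nd (nat_lit 78) (nat_lit 0) (nat_lit 0) (XT.lf (nat_lit 0) (nat_lit 6999918146) (nat_lit 152) (nat_lit 9937002665) (nat_lit 0) (nat_lit 5415424260) (nat_lit 14) (nat_lit 5) (nat_lit 16) (nat_lit 4) (nat_lit 14) (nat_lit 4) (nat_lit 360) (nat_lit 273) (nat_lit 267)) (XT.lf (nat_lit 0) (nat_lit 12350950716) (nat_lit 152) (nat_lit 307684556) (nat_lit 0) (nat_lit 10544601325)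 (nat_lit 14) (nat_lit 5) (nat_lit 16) (nat_lit 4) (nat_lit 14) (nat_lit 4) (nat_lit 361) (nat_lit 273) (nat_lit 266)))) (XT.nd (nat_lit 78) (nat_lit 152) (nat_lit 0) (XT.lf (nat_lit 0) (nat_lit 9831844628) (nat_lit 76) (nat_lit 8141162445) (nat_lit 76) (nat_lit 6123522098) (nat_lit 13) (nat_lit 4) (nat_lit 14) (nat_lit 5) (nat_lit 14) (nat_lit 4) (nat_lit 362) (nat_lit 273) (nat_lit 265)) (XT.nd (nat_lit 78) (nat_lit 152) (nat_lit 0) (XT.lf (nat_lit 0) (nat_lit 20207708987) (nat_lit 76) (nat_lit 3526389623) (nat_lit 76) (nat_lit 1307519794) (nat_lit 13) (nat_lit 4) (nat_lit 14) (nat_lit 5) (nat_lit 14) (nat_lit 4) (nat_lit 363) (nat_lit 273) (nat_lit 264)) (XT.lf (nat_lit 0) (nat_lit 3583874121) (nat_lit 152) (nat_lit 21161313833) (nat_lit 0) (nat_lit 1288143688) (nat_lit 11) (nat_lit 5) (nat_lit 13) (nat_lit 4) (nat_lit 11) (nat_lit 4) (nat_lit 364) (nat_lit 273) (nat_lit 263))))) (XT.nd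 (nat_lit 234) (nat_lit 152) (nat_lit 0) (XT.nd (nat_lit 78) (nat_lit 76) (nat_lit 0) (XT.lf (nat_lit 0) (nat_lit 8674920577) (nat_lit 152) (nat_lit 12193351220) (nat_lit 0) (nat_lit 6205360552) (nat_lit 11) (nat_lit 5) (nat_lit 13) (nat_lit 4) (nat_lit 11) (nat_lit 4) (nat_lit 365) (nat_lit 273) (nat_lit 262)) (XT.nd (nat_lit 78) (nat_lit 76) (nat_lit 0) (XT.lf (nat_lit 0) (nat_lit 13885288670) (nat_lit 152) (nat_lit 3037267872) (nat_lit 0) (nat_lit 11250176651) (nat_lit 11) (nat_lit 5) (nat_lit 13) (nat_lit 4) (nat_lit 11) (nat_lit 4) (nat_lit 366) (nat_lit 273) (nat_lit 261)) (XT.lf (nat_lit 0) (nat_lit 6537993015) (nat_lit 76) (nat_lit 12791467416) (nat_lit 76) (nat_lit 9998686832) (nat_lit 10) (nat_lit 4) (nat_lit 11) (nat_lit 5) (nat_lit 11) (nat_lit 4) (nat_lit 367) (nat_lit 273) (nat_lit 260)))) (XT.nd (nat_lit 78) (nat_lit 152) (nat_lit 0) (XT.lf (nat_lit 0) (nat_lit 16453578913)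 (nat_lit 76) (nat_lit 8517233519) (nat_lit 76) (nat_lit 5574292397) (nat_lit 10) (nat_lit 4) (nat_lit 11) (nat_lit 5) (nat_lit 11) (nat_lit 4) (nat_lit 368) (nat_lit 273) (nat_lit 259)) (XT.nd (nat_lit 78) (nat_lit 152) (nat_lit 0) (XT.lf (nat_lit 0) (nat_lit 26632672566) (nat_lit 76) (nat_lit 4141115707) (nat_lit 76) (nat_lit 1055164549) (nat_lit 10) (nat_lit 4) (nat_lit 11) (nat_lit 5) (nat_lit 11) (nat_lit 4) (nat_lit 369) (nat_lit 273) (nat_lit 258)) (XT.lf (nat_lit 0) (nat_lit 3524843260) (nat_lit 152) (nat_lit 29195508879) (nat_lit 0) (nat_lit 456127839) (nat_lit 8) (nat_lit 5) (nat_lit 10) (nat_lit 4) (nat_lit 8) (nat_lit 4) (nat_lit 370) (nat_lit 273) (nat_lit 257)))))) (XT.nd (nat_lit 468) (nat_lit 152) (nat_lit 0) (XT.nd (nat_lit 234) (nat_lit 76) (nat_lit 0) (XT.nd (nat_lit 78) (nat_lit 0) (nat_lit 0) (XT.lf (nat_lit 0) (nat_lit 8339540293) (nat_lit 152) (nat_lit 21101651009)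 (nat_lit 0) (nat_lit 5147287426) (nat_lit 8) (nat_lit 5) (nat_lit 10) (nat_lit 4) (nat_lit 8) (nat_lit 4) (nat_lit 371) (nat_lit 273) (nat_lit 256)) (XT.nd (nat_lit 78) (nat_lit 0) (nat_lit 0) (XT.lf (nat_lit 0) (nat_lit 13284322623) (nat_lit 152) (nat_lit 12817888971) (nat_lit 0) (nat_lit 9974415046) (nat_lit 8) (nat_lit 5) (nat_lit 10) (nat_lit 4) (nat_lit 8) (nat_lit 4) (nat_lit 372) (nat_lit 273) (nat_lit 255)) (XT.lf (nat_lit 0) (nat_lit 18370963543) (nat_lit 152) (nat_lit 4324499524) (nat_lit 0) (nat_lit 14949003860) (nat_lit 8) (nat_lit 5) (nat_lit 10) (nat_lit 4) (nat_lit 8) (nat_lit 4) (nat_lit 373) (nat_lit 273) (nat_lit 254)))) (XT.nd (nat_lit 78) (nat_lit 0) (nat_lit 0) (XT.lf (nat_lit 0) (nat_lit 4544181888) (nat_lit 76) (nat_lit 19138339628) (nat_lit 76) (nat_lit 15609663654) (nat_lit 7) (nat_lit 4) (nat_lit 8) (nat_lit 5) (nat_lit 8) (nat_lit 4) (nat_lit 374) (nat_lit 273)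 (nat_lit 253)) (XT.nd (nat_lit 78) (nat_lit 0) (nat_lit 0) (XT.lf (nat_lit 0) (nat_lit 13814756776) (nat_lit 76) (nat_lit 15419562237) (nat_lit 76) (nat_lit 11789251700) (nat_lit 7) (nat_lit 4) (nat_lit 8) (nat_lit 5) (nat_lit 8) (nat_lit 4) (nat_lit 375) (nat_lit 273) (nat_lit 252)) (XT.lf (nat_lit 0) (nat_lit 23366310453) (nat_lit 76) (nat_lit 11603514153) (nat_lit 76) (nat_lit 7876408795) (nat_lit 7) (nat_lit 4) (nat_lit 8) (nat_lit 5) (nat_lit 8) (nat_lit 4) (nat_lit 376) (nat_lit 273) (nat_lit 251))))) (XT.nd (nat_lit 234) (nat_lit 0) (nat_lit 0) (XT.nd (nat_lit 78) (nat_lit 152) (nat_lit 0) (XT.lf (nat_lit 0) (nat_lit 33221584713) (nat_lit 76) (nat_lit 7681109549) (nat_lit 76) (nat_lit 3861818647) (nat_lit 7) (nat_lit 4) (nat_lit 8) (nat_lit 5) (nat_lit 8) (nat_lit 4) (nat_lit 377) (nat_lit 273) (nat_lit 250)) (XT.nd (nat_lit 78) (nat_lit 76) (nat_lit 0) (XT.lf (nat_lit 0) (nat_lit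 255625170) (nat_lit 152) (nat_lit 3383055059) (nat_lit 76) (nat_lit 43144090190) (nat_lit 6) (nat_lit 5) (nat_lit 8) (nat_lit 5) (nat_lit 7) (nat_lit 4) (nat_lit 378) (nat_lit 273) (nat_lit 249)) (XT.lf (nat_lit 0) (nat_lit 4457327712) (nat_lit 152) (nat_lit 43784391097) (nat_lit 0) (nat_lit 656659459) (nat_lit 5) (nat_lit 5) (nat_lit 7) (nat_lit 4) (nat_lit 5) (nat_lit 4) (nat_lit 379) (nat_lit 273) (nat_lit 248)))) (XT.nd (nat_lit 78) (nat_lit 0) (nat_lit 0) (XT.lf (nat_lit 0) (nat_lit 8904820422) (nat_lit 152) (nat_lit 37184860738) (nat_lit 0) (nat_lit 5028310893) (nat_lit 5) (nat_lit 5) (nat_lit 7) (nat_lit 4) (nat_lit 5) (nat_lit 4) (nat_lit 380) (nat_lit 273) (nat_lit 247)) (XT.nd (nat_lit 78) (nat_lit 0) (nat_lit 0) (XT.lf (nat_lit 0) (nat_lit 13496422653) (nat_lit 152) (nat_lit 30408404073) (nat_lit 0) (nat_lit 9547683339) (nat_lit 5) (nat_lit 5) (nat_lit 7) (nat_lit 4) (nat_lit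 5) (nat_lit 4) (nat_lit 381) (nat_lit 273) (nat_lit 246)) (XT.lf (nat_lit 0) (nat_lit 18243066793) (nat_lit 152) (nat_lit 23438886683) (nat_lit 0) (nat_lit 14225537206) (nat_lit 5) (nat_lit 5) (nat_lit 7) (nat_lit 4) (nat_lit 5) (nat_lit 4) (nat_lit 382) (nat_lit 273) (nat_lit 245))))))))
noncomputable def xc38 : XT := (XT.nd (nat_lit 1794) (nat_lit 76) (nat_lit 0) (XT.nd (nat_lit 858) (nat_lit 152) (nat_lit 0) (XT.nd (nat_lit 390) (nat_lit 0) (nat_lit 0) (XT.nd (nat_lit 156) (nat_lit 76) (nat_lit 0) (XT.nd (nat_lit 78) (nat_lit 0) (nat_lit 0) (XT.lf (nat_lit 0) (nat_lit 23156054375) (nat_lit 152) (nat_lit 16259714477) (nat_lit 0) (nat_lit 19073010243) (nat_lit 5) (nat_lit 5) (nat_lit 7) (nat_lit 4) (nat_lit 5) (nat_lit 4) (nat_lit 383) (nat_lit 273) (nat_lit 244)) (XT.lf (nat_lit 0) (nat_lit 28247082988) (nat_lit 152) (nat_lit 8853794190) (nat_lit 0) (nat_lit 24101644051) (nat_lit 5) (nat_lit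 5) (nat_lit 7) (nat_lit 4) (nat_lit 5) (nat_lit 4) (nat_lit 384) (nat_lit 273) (nat_lit 243))) (XT.nd (nat_lit 78) (nat_lit 76) (nat_lit 0) (XT.lf (nat_lit 0) (nat_lit 33528274130) (nat_lit 152) (nat_lit 1203492676) (nat_lit 0) (nat_lit 29323411568) (nat_lit 5) (nat_lit 5) (nat_lit 7) (nat_lit 4) (nat_lit 5) (nat_lit 4) (nat_lit 385) (nat_lit 273) (nat_lit 242)) (XT.nd (nat_lit 78) (nat_lit 0) (nat_lit 0) (XT.lf (nat_lit 0) (nat_lit 6931248298) (nat_lit 76) (nat_lit 32189169976) (nat_lit 76) (nat_lit 27927713487) (nat_lit 4) (nat_lit 4) (nat_lit 5) (nat_lit 5) (nat_lit 5) (nat_lit 4) (nat_lit 386) (nat_lit 273) (nat_lit 241)) (XT.lf (nat_lit 0) (nat_lit 15396524198) (nat_lit 76) (nat_lit 29555782454) (nat_lit 76) (nat_lit 25240426987) (nat_lit 4) (nat_lit 4) (nat_lit 5) (nat_lit 5) (nat_lit 5) (nat_lit 4) (nat_lit 387) (nat_lit 273) (nat_lit 240))))) (XT.nd (nat_lit 234) (nat_lit 0) (nat_lit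 0) (XT.nd (nat_lit 78) (nat_lit 0) (nat_lit 0) (XT.lf (nat_lit 0) (nat_lit 24172697540) (nat_lit 76) (nat_lit 26845716001) (nat_lit 76) (nat_lit 22479028173) (nat_lit 4) (nat_lit 4) (nat_lit 5) (nat_lit 5) (nat_lit 5) (nat_lit 4) (nat_lit 388) (nat_lit 273) (nat_lit 239)) (XT.nd (nat_lit 78) (nat_lit 0) (nat_lit 0) (XT.lf (nat_lit 0) (nat_lit 33280663974) (nat_lit 76) (nat_lit 24052518077) (nat_lit 76) (nat_lit 19636942287) (nat_lit 4) (nat_lit 4) (nat_lit 5) (nat_lit 5) (nat_lit 5) (nat_lit 4) (nat_lit 389) (nat_lit 273) (nat_lit 238)) (XT.lf (nat_lit 0) (nat_lit 42742109134) (nat_lit 76) (nat_lit 21169538212) (nat_lit 76) (nat_lit 16707402458) (nat_lit 4) (nat_lit 4) (nat_lit 5) (nat_lit 5) (nat_lit 5) (nat_lit 4) (nat_lit 390) (nat_lit 273) (nat_lit 237)))) (XT.nd (nat_lit 78) (nat_lit 0) (nat_lit 0) (XT.lf (nat_lit 0) (nat_lit 52579560271) (nat_lit 76) (nat_lit 18189912168) (nat_lit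 76) (nat_lit 13683433590) (nat_lit 4) (nat_lit 4) (nat_lit 5) (nat_lit 5) (nat_lit 5) (nat_lit 4) (nat_lit 391) (nat_lit 273) (nat_lit 236)) (XT.nd (nat_lit 78) (nat_lit 0) (nat_lit 0) (XT.lf (nat_lit 0) (nat_lit 62816439888) (nat_lit 76) (nat_lit 15106545596) (nat_lit 76) (nat_lit 10557835759) (nat_lit 4) (nat_lit 4) (nat_lit 5) (nat_lit 5) (nat_lit 5) (nat_lit 4) (nat_lit 392) (nat_lit 273) (nat_lit 235)) (XT.lf (nat_lit 0) (nat_lit 73477121508) (nat_lit 76) (nat_lit 11912097149) (nat_lit 76) (nat_lit 7323167064) (nat_lit 4) (nat_lit 4) (nat_lit 5) (nat_lit 5) (nat_lit 5) (nat_lit 4) (nat_lit 393) (nat_lit 273) (nat_lit 234)))))) (XT.nd (nat_lit 468) (nat_lit 0) (nat_lit 0) (XT.nd (nat_lit 234) (nat_lit 0) (nat_lit 0) (XT.nd (nat_lit 78) (nat_lit 152) (nat_lit 0) (XT.lf (nat_lit 0) (nat_lit 84586987705) (nat_lit 76) (nat_lit 8598960995) (nat_lit 76) (nat_lit 3971725913) (nat_lit 4) (nat_lit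 4) (nat_lit 5) (nat_lit 5) (nat_lit 5) (nat_lit 4) (nat_lit 394) (nat_lit 273) (nat_lit 233)) (XT.nd (nat_lit 78) (nat_lit 152) (nat_lit 0) (XT.lf (nat_lit 0) (nat_lit 96172490542) (nat_lit 76) (nat_lit 5159248717) (nat_lit 76) (nat_lit 495532684) (nat_lit 4) (nat_lit 4) (nat_lit 5) (nat_lit 5) (nat_lit 5) (nat_lit 4) (nat_lit 395) (nat_lit 273) (nat_lit 232)) (XT.lf (nat_lit 0) (nat_lit 1529250913) (nat_lit 76) (nat_lit 1508656749) (nat_lit 152) (nat_lit 103690763673) (nat_lit 2) (nat_lit 5) (nat_lit 3) (nat_lit 5) (nat_lit 4) (nat_lit 4) (nat_lit 396) (nat_lit 273) (nat_lit 231)))) (XT.nd (nat_lit 78) (nat_lit 0) (nat_lit 0) (XT.lf (nat_lit 0) (nat_lit 6825627556) (nat_lit 152) (nat_lit 102725008093) (nat_lit 0) (nat_lit 2319390325) (nat_lit 2) (nat_lit 5) (nat_lit 4) (nat_lit 4) (nat_lit 2) (nat_lit 4) (nat_lit 397) (nat_lit 273) (nat_lit 230)) (XT.nd (nat_lit 78) (nat_lit 0) (nat_lit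 0) (XT.lf (nat_lit 0) (nat_lit 10789973013) (nat_lit 152) (nat_lit 100225394813) (nat_lit 0) (nat_lit 6253722813) (nat_lit 2) (nat_lit 5) (nat_lit 4) (nat_lit 4) (nat_lit 2) (nat_lit 4) (nat_lit 398) (nat_lit 273) (nat_lit 229)) (XT.lf (nat_lit 0) (nat_lit 14916828591) (nat_lit 152) (nat_lit 97671074761) (nat_lit 0) (nat_lit 10351994612) (nat_lit 2) (nat_lit 5) (nat_lit 4) (nat_lit 4) (nat_lit 2) (nat_lit 4) (nat_lit 399) (nat_lit 273) (nat_lit 228))))) (XT.nd (nat_lit 234) (nat_lit 0) (nat_lit 0) (XT.nd (nat_lit 78) (nat_lit 0) (nat_lit 0) (XT.lf (nat_lit 0) (nat_lit 19216020136) (nat_lit 152) (nat_lit 95055966224) (nat_lit 0) (nat_lit 14623963511) (nat_lit 2) (nat_lit 5) (nat_lit 4) (nat_lit 4) (nat_lit 2) (nat_lit 4) (nat_lit 400) (nat_lit 273) (nat_lit 227)) (XT.nd (nat_lit 78) (nat_lit 0) (nat_lit 0) (XT.lf (nat_lit 0) (nat_lit 23697783820) (nat_lit 152) (nat_lit 92373842752) (nat_lit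 0) (nat_lit 19079800865) (nat_lit 2) (nat_lit 5) (nat_lit 4) (nat_lit 4) (nat_lit 2) (nat_lit 4) (nat_lit 401) (nat_lit 273) (nat_lit 226)) (XT.lf (nat_lit 0) (nat_lit 28372790509) (nat_lit 152) (nat_lit 89618318337) (nat_lit 0) (nat_lit 23730115810) (nat_lit 2) (nat_lit 5) (nat_lit 4) (nat_lit 4) (nat_lit 2) (nat_lit 4) (nat_lit 402) (nat_lit 273) (nat_lit 225)))) (XT.nd (nat_lit 78) (nat_lit 0) (nat_lit 0) (XT.lf (nat_lit 0) (nat_lit 33252171169) (nat_lit 152) (nat_lit 86782832207) (nat_lit 0) (nat_lit 28585980525) (nat_lit 2) (nat_lit 5) (nat_lit 4) (nat_lit 4) (nat_lit 2) (nat_lit 4) (nat_lit 403) (nat_lit 273) (nat_lit 224)) (XT.nd (nat_lit 78) (nat_lit 0) (nat_lit 0) (XT.lf (nat_lit 0) (nat_lit 38347543375) (nat_lit 152) (nat_lit 83860633204) (nat_lit 0) (nat_lit 33658956592) (nat_lit 2) (nat_lit 5) (nat_lit 4) (nat_lit 4) (nat_lit 2) (nat_lit 4) (nat_lit 404) (nat_lit 273) (nat_lit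 223)) (XT.lf (nat_lit 0) (nat_lit 43671038965) (nat_lit 152) (nat_lit 80844763711) (nat_lit 0) (nat_lit 38961122526) (nat_lit 2) (nat_lit 5) (nat_lit 4) (nat_lit 4) (nat_lit 2) (nat_lit 4) (nat_lit 405) (nat_lit 273) (nat_lit 222))))))) (XT.nd (nat_lit 936) (nat_lit 76) (nat_lit 0) (XT.nd (nat_lit 468) (nat_lit 0) (nat_lit 0) (XT.nd (nat_lit 234) (nat_lit 0) (nat_lit 0) (XT.nd (nat_lit 78) (nat_lit 0) (nat_lit 0) (XT.lf (nat_lit 0) (nat_lit 49235332928) (nat_lit 152) (nat_lit 77728043088) (nat_lit 0) (nat_lit 44505102531) (nat_lit 2) (nat_lit 5) (nat_lit 4) (nat_lit 4) (nat_lit 2) (nat_lit 4) (nat_lit 406) (nat_lit 273) (nat_lit 221)) (XT.nd (nat_lit 78) (nat_lit 0) (nat_lit 0) (XT.lf (nat_lit 0) (nat_lit 55053673584) (nat_lit 152) (nat_lit 74503050570) (nat_lit 0) (nat_lit 50304096560) (nat_lit 2) (nat_lit 5) (nat_lit 4) (nat_lit 4) (nat_lit 2) (nat_lit 4) (nat_lit 407) (nat_lit 273) (nat_lit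 220)) (XT.lf (nat_lit 0) (nat_lit 61139914124) (nat_lit 152) (nat_lit 71162107604) (nat_lit 0) (nat_lit 56371911741) (nat_lit 2) (nat_lit 5) (nat_lit 4) (nat_lit 4) (nat_lit 2) (nat_lit 4) (nat_lit 408) (nat_lit 273) (nat_lit 219)))) (XT.nd (nat_lit 78) (nat_lit 0) (nat_lit 0) (XT.lf (nat_lit 0) (nat_lit 67508545598) (nat_lit 152) (nat_lit 67697259564) (nat_lit 0) (nat_lit 62722995254) (nat_lit 2) (nat_lit 5) (nat_lit 4) (nat_lit 4) (nat_lit 2) (nat_lit 4) (nat_lit 409) (nat_lit 273) (nat_lit 218)) (XT.nd (nat_lit 78) (nat_lit 0) (nat_lit 0) (XT.lf (nat_lit 0) (nat_lit 74174731413) (nat_lit 152) (nat_lit 64100256811) (nat_lit 0) (nat_lit 69372468726) (nat_lit 2) (nat_lit 5) (nat_lit 4) (nat_lit 4) (nat_lit 2) (nat_lit 4) (nat_lit 410) (nat_lit 273) (nat_lit 217)) (XT.lf (nat_lit 0) (nat_lit 81154343441) (nat_lit 152) (nat_lit 60362535054) (nat_lit 0) (nat_lit 76336164236) (nat_lit 2) (nat_lit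 5) (nat_lit 4) (nat_lit 4) (nat_lit 2) (nat_lit 4) (nat_lit 411) (nat_lit 273) (nat_lit 216))))) (XT.nd (nat_lit 234) (nat_lit 0) (nat_lit 0) (XT.nd (nat_lit 78) (nat_lit 0) (nat_lit 0) (XT.lf (nat_lit 0) (nat_lit 88463999805) (nat_lit 152) (nat_lit 56475194955) (nat_lit 0) (nat_lit 83630662012) (nat_lit 2) (nat_lit 5) (nat_lit 4) (nat_lit 4) (nat_lit 2) (nat_lit 4) (nat_lit 412) (nat_lit 273) (nat_lit 215)) (XT.nd (nat_lit 78) (nat_lit 0) (nat_lit 0) (XT.lf (nat_lit 0) (nat_lit 96121104450) (nat_lit 152) (nat_lit 52428980942) (nat_lit 0) (nat_lit 91273329906) (nat_lit 2) (nat_lit 5) (nat_lit 4) (nat_lit 4) (nat_lit 2) (nat_lit 4) (nat_lit 413) (nat_lit 273) (nat_lit 214)) (XT.lf (nat_lit 0) (nat_lit 104143888576) (nat_lit 152) (nat_lit 48214259172) (nat_lit 0) (nat_lit 99282364746) (nat_lit 2) (nat_lit 5) (nat_lit 4) (nat_lit 4) (nat_lit 2) (nat_lit 4) (nat_lit 414) (nat_lit 273) (nat_lit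 213)))) (XT.nd (nat_lit 78) (nat_lit 0) (nat_lit 0) (XT.lf (nat_lit 0) (nat_lit 112551454052) (nat_lit 152) (nat_lit 43820994594) (nat_lit 0) (nat_lit 107676835662) (nat_lit 2) (nat_lit 5) (nat_lit 4) (nat_lit 4) (nat_lit 2) (nat_lit 4) (nat_lit 415) (nat_lit 273) (nat_lit 212)) (XT.nd (nat_lit 78) (nat_lit 0) (nat_lit 0) (XT.lf (nat_lit 0) (nat_lit 121363818888) (nat_lit 152) (nat_lit 39238727053) (nat_lit 0) (nat_lit 116476729491) (nat_lit 2) (nat_lit 5) (nat_lit 4) (nat_lit 4) (nat_lit 2) (nat_lit 4) (nat_lit 416) (nat_lit 273) (nat_lit 211)) (XT.lf (nat_lit 0) (nat_lit 130601964908) (nat_lit 152) (nat_lit 34456546389) (nat_lit 0) (nat_lit 125702998360) (nat_lit 2) (nat_lit 5) (nat_lit 4) (nat_lit 4) (nat_lit 2) (nat_lit 4) (nat_lit 417) (nat_lit 273) (nat_lit 210)))))) (XT.nd (nat_lit 468) (nat_lit 76) (nat_lit 0) (XT.nd (nat_lit 234) (nat_lit 0) (nat_lit 0) (XT.nd (nat_lit 78) (nat_lit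 0) (nat_lit 0) (XT.lf (nat_lit 0) (nat_lit 140287887697) (nat_lit 152) (nat_lit 29463066458) (nat_lit 0) (nat_lit 135377609577) (nat_lit 2) (nat_lit 5) (nat_lit 4) (nat_lit 4) (nat_lit 2) (nat_lit 4) (nat_lit 418) (nat_lit 273) (nat_lit 209)) (XT.nd (nat_lit 78) (nat_lit 0) (nat_lit 0) (XT.lf (nat_lit 0) (nat_lit 150444648974) (nat_lit 152) (nat_lit 24246398021) (nat_lit 0) (nat_lit 145523597929) (nat_lit 2) (nat_lit 5) (nat_lit 4) (nat_lit 4) (nat_lit 2) (nat_lit 4) (nat_lit 419) (nat_lit 273) (nat_lit 208)) (XT.lf (nat_lit 0) (nat_lit 161096431507) (nat_lit 152) (nat_lit 18794120439) (nat_lit 0) (nat_lit 156165120532) (nat_lit 2) (nat_lit 5) (nat_lit 4) (nat_lit 4) (nat_lit 2) (nat_lit 4) (nat_lit 420) (nat_lit 273) (nat_lit 207)))) (XT.nd (nat_lit 78) (nat_lit 0) (nat_lit 0) (XT.lf (nat_lit 0) (nat_lit 172268596680) (nat_lit 152) (nat_lit 13093252100) (nat_lit 0) (nat_lit 167327514344)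 (nat_lit 2) (nat_lit 5) (nat_lit 4) (nat_lit 4) (nat_lit 2) (nat_lit 4) (nat_lit 421) (nat_lit 273) (nat_lit 206)) (XT.nd (nat_lit 78) (nat_lit 0) (nat_lit 0) (XT.lf (nat_lit 0) (nat_lit 183987744889) (nat_lit 152) (nat_lit 7130219507) (nat_lit 0) (nat_lit 179037356494) (nat_lit 2) (nat_lit 5) (nat_lit 4) (nat_lit 4) (nat_lit 2) (nat_lit 4) (nat_lit 422) (nat_lit 273) (nat_lit 205)) (XT.lf (nat_lit 0) (nat_lit 196281778866) (nat_lit 152) (nat_lit 890824963) (nat_lit 0) (nat_lit 191322527559) (nat_lit 2) (nat_lit 5) (nat_lit 4) (nat_lit 4) (nat_lit 2) (nat_lit 4) (nat_lit 423) (nat_lit 273) (nat_lit 204))))) (XT.nd (nat_lit 234) (nat_lit 0) (nat_lit 0) (XT.nd (nat_lit 78) (nat_lit 0) (nat_lit 0) (XT.lf (nat_lit 0) (nat_lit 5826264068) (nat_lit 76) (nat_lit 203444670362) (nat_lit 76) (nat_lit 198476978186) (nat_lit 1) (nat_lit 4) (nat_lit 2) (nat_lit 5) (nat_lit 2) (nat_lit 4) (nat_lit 424)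 (nat_lit 273) (nat_lit 203)) (XT.nd (nat_lit 78) (nat_lit 0) (nat_lit 0) (XT.lf (nat_lit 0) (nat_lit 12889717618) (nat_lit 76) (nat_lit 210024555630) (nat_lit 76) (nat_lit 205048824530) (nat_lit 1) (nat_lit 4) (nat_lit 2) (nat_lit 5) (nat_lit 2) (nat_lit 4) (nat_lit 425) (nat_lit 273) (nat_lit 202)) (XT.lf (nat_lit 0) (nat_lit 20286898737) (nat_lit 76) (nat_lit 216943012576) (nat_lit 76) (nat_lit 211959625359) (nat_lit 1) (nat_lit 4) (nat_lit 2) (nat_lit 5) (nat_lit 2) (nat_lit 4) (nat_lit 426) (nat_lit 273) (nat_lit 201)))) (XT.nd (nat_lit 78) (nat_lit 0) (nat_lit 0) (XT.lf (nat_lit 0) (nat_lit 28035419760) (nat_lit 76) (nat_lit 224216513718) (nat_lit 76) (nat_lit 219225834961) (nat_lit 1) (nat_lit 4) (nat_lit 2) (nat_lit 5) (nat_lit 2) (nat_lit 4) (nat_lit 427) (nat_lit 273) (nat_lit 200)) (XT.nd (nat_lit 78) (nat_lit 0) (nat_lit 0) (XT.lf (nat_lit 0) (nat_lit 36153729548) (nat_lit 76)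 (nat_lit 231862376916) (nat_lit 76) (nat_lit 226864753835) (nat_lit 1) (nat_lit 4) (nat_lit 2) (nat_lit 5) (nat_lit 2) (nat_lit 4) (nat_lit 428) (nat_lit 273) (nat_lit 199)) (XT.lf (nat_lit 0) (nat_lit 44661157408) (nat_lit 76) (nat_lit 239898806605) (nat_lit 76) (nat_lit 234894569882) (nat_lit 1) (nat_lit 4) (nat_lit 2) (nat_lit 5) (nat_lit 2) (nat_lit 4) (nat_lit 429) (nat_lit 273) (nat_lit 198))))))))
noncomputable def xc39 : XT := (XT.nd (nat_lit 42042) (nat_lit 0) (nat_lit 228) (XT.nd (nat_lit 41106) (nat_lit 0) (nat_lit 684) (XT.nd (nat_lit 468) (nat_lit 0) (nat_lit 0) (XT.nd (nat_lit 234) (nat_lit 0) (nat_lit 0) (XT.nd (nat_lit 78) (nat_lit 0) (nat_lit 0) (XT.lf (nat_lit 0) (nat_lit 53577959122) (nat_lit 76) (nat_lit 248344937142) (nat_lit 76) (nat_lit 243334401713) (nat_lit 1) (nat_lit 4) (nat_lit 2) (nat_lit 5) (nat_lit 2) (nat_lit 4) (nat_lit 430) (nat_lit 273) (nat_lit 197))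 (XT.nd (nat_lit 78) (nat_lit 0) (nat_lit 0) (XT.lf (nat_lit 0) (nat_lit 62925365171) (nat_lit 76) (nat_lit 257220878362) (nat_lit 76) (nat_lit 252204344165) (nat_lit 1) (nat_lit 4) (nat_lit 2) (nat_lit 5) (nat_lit 2) (nat_lit 4) (nat_lit 431) (nat_lit 273) (nat_lit 196)) (XT.lf (nat_lit 0) (nat_lit 72725631282) (nat_lit 76) (nat_lit 266547763459) (nat_lit 76) (nat_lit 261525516149) (nat_lit 1) (nat_lit 4) (nat_lit 2) (nat_lit 5) (nat_lit 2) (nat_lit 4) (nat_lit 432) (nat_lit 273) (nat_lit 195)))) (XT.nd (nat_lit 78) (nat_lit 0) (nat_lit 0) (XT.lf (nat_lit 0) (nat_lit 83002091423) (nat_lit 76) (nat_lit 276347799300) (nat_lit 76) (nat_lit 271320110931) (nat_lit 1) (nat_lit 4) (nat_lit 2) (nat_lit 5) (nat_lit 2) (nat_lit 4) (nat_lit 433) (nat_lit 273) (nat_lit 194)) (XT.nd (nat_lit 78) (nat_lit 0) (nat_lit 0) (XT.lf (nat_lit 0) (nat_lit 93779213355) (nat_lit 76) (nat_lit 286644319306) (nat_lit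 76) (nat_lit 281611448975) (nat_lit 1) (nat_lit 4) (nat_lit 2) (nat_lit 5) (nat_lit 2) (nat_lit 4) (nat_lit 434) (nat_lit 273) (nat_lit 193)) (XT.lf (nat_lit 0) (nat_lit 105082656894) (nat_lit 76) (nat_lit 297461838999) (nat_lit 76) (nat_lit 292424033467) (nat_lit 1) (nat_lit 4) (nat_lit 2) (nat_lit 5) (nat_lit 2) (nat_lit 4) (nat_lit 435) (nat_lit 273) (nat_lit 192))))) (XT.nd (nat_lit 40404) (nat_lit 0) (nat_lit 1216) (XT.nd (nat_lit 78) (nat_lit 0) (nat_lit 0) (XT.lf (nat_lit 0) (nat_lit 116939334999) (nat_lit 76) (nat_lit 308826114380) (nat_lit 76) (nat_lit 303783608656) (nat_lit 1) (nat_lit 4) (nat_lit 2) (nat_lit 5) (nat_lit 2) (nat_lit 4) (nat_lit 436) (nat_lit 273) (nat_lit 191)) (XT.nd (nat_lit 40248) (nat_lit 0) (nat_lit 1444) (XT.lf (nat_lit 0) (nat_lit 129377477858) (nat_lit 76) (nat_lit 320764203247) (nat_lit 76) (nat_lit 315717221149) (nat_lit 1) (nat_lit 4) (nat_lit 2) (nat_lit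 5) (nat_lit 2) (nat_lit 4) (nat_lit 437) (nat_lit 273) (nat_lit 190)) (XT.lf (nat_lit 0) (nat_lit 1493849160) (nat_lit 152) (nat_lit 5476631508) (nat_lit 0) (nat_lit 1493849160) (nat_lit 20) (nat_lit 5) (nat_lit 22) (nat_lit 4) (nat_lit 20) (nat_lit 4) (nat_lit 352) (nat_lit 274) (nat_lit 274)))) (XT.nd (nat_lit 78) (nat_lit 228) (nat_lit 0) (XT.lf (nat_lit 0) (nat_lit 8377260446) (nat_lit 152) (nat_lit 1083182786) (nat_lit 0) (nat_lit 8033089742) (nat_lit 20) (nat_lit 5) (nat_lit 22) (nat_lit 4) (nat_lit 20) (nat_lit 4) (nat_lit 353) (nat_lit 274) (nat_lit 273)) (XT.nd (nat_lit 78) (nat_lit 152) (nat_lit 0) (XT.lf (nat_lit 0) (nat_lit 9248351564) (nat_lit 76) (nat_lit 4755948700) (nat_lit 76) (nat_lit 4083996374) (nat_lit 19) (nat_lit 4) (nat_lit 20) (nat_lit 5) (nat_lit 20) (nat_lit 4) (nat_lit 354) (nat_lit 274) (nat_lit 272)) (XT.lf (nat_lit 0) (nat_lit 1022935108) (nat_lit 152) (nat_lit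 17610223820) (nat_lit 0) (nat_lit 85672917) (nat_lit 17) (nat_lit 5) (nat_lit 19) (nat_lit 4) (nat_lit 17) (nat_lit 4) (nat_lit 355) (nat_lit 274) (nat_lit 271)))))) (XT.nd (nat_lit 468) (nat_lit 304) (nat_lit 0) (XT.nd (nat_lit 234) (nat_lit 152) (nat_lit 0) (XT.nd (nat_lit 78) (nat_lit 76) (nat_lit 0) (XT.lf (nat_lit 0) (nat_lit 6303156533) (nat_lit 152) (nat_lit 7988926176) (nat_lit 0) (nat_lit 5082744254) (nat_lit 17) (nat_lit 5) (nat_lit 19) (nat_lit 4) (nat_lit 17) (nat_lit 4) (nat_lit 356) (nat_lit 274) (nat_lit 270)) (XT.nd (nat_lit 78) (nat_lit 0) (nat_lit 0) (XT.lf (nat_lit 0) (nat_lit 1858994704) (nat_lit 76) (nat_lit 9850811839) (nat_lit 76) (nat_lit 8360732808) (nat_lit 16) (nat_lit 4) (nat_lit 17) (nat_lit 5) (nat_lit 17) (nat_lit 4) (nat_lit 357) (nat_lit 274) (nat_lit 269)) (XT.lf (nat_lit 0) (nat_lit 12167791587) (nat_lit 76) (nat_lit 5190798398) (nat_lit 76) (nat_lit 3443893888)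 (nat_lit 16) (nat_lit 4) (nat_lit 17) (nat_lit 5) (nat_lit 17) (nat_lit 4) (nat_lit 358) (nat_lit 274) (nat_lit 268)))) (XT.nd (nat_lit 78) (nat_lit 0) (nat_lit 0) (XT.lf (nat_lit 0) (nat_lit 1130928156) (nat_lit 76) (nat_lit 392207628) (nat_lit 152) (nat_lit 20053613211) (nat_lit 14) (nat_lit 5) (nat_lit 15) (nat_lit 5) (nat_lit 16) (nat_lit 4) (nat_lit 359) (nat_lit 274) (nat_lit 267)) (XT.nd (nat_lit 78) (nat_lit 0) (nat_lit 0) (XT.lf (nat_lit 0) (nat_lit 6686419423) (nat_lit 152) (nat_lit 11129437615) (nat_lit 0) (nat_lit 4567897059) (nat_lit 14) (nat_lit 5) (nat_lit 16) (nat_lit 4) (nat_lit 14) (nat_lit 4) (nat_lit 360) (nat_lit 274) (nat_lit 266)) (XT.lf (nat_lit 0) (nat_lit 11964266388) (nat_lit 152) (nat_lit 1639600120) (nat_lit 0) (nat_lit 9634453068) (nat_lit 14) (nat_lit 5) (nat_lit 16) (nat_lit 4) (nat_lit 14) (nat_lit 4) (nat_lit 361) (nat_lit 274) (nat_lit 265))))) (XT.nd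 (nat_lit 234) (nat_lit 76) (nat_lit 0) (XT.nd (nat_lit 78) (nat_lit 152) (nat_lit 0) (XT.lf (nat_lit 0) (nat_lit 8318658995) (nat_lit 76) (nat_lit 9174338107) (nat_lit 76) (nat_lit 6643295305) (nat_lit 13) (nat_lit 4) (nat_lit 14) (nat_lit 5) (nat_lit 14) (nat_lit 4) (nat_lit 362) (nat_lit 274) (nat_lit 264)) (XT.nd (nat_lit 78) (nat_lit 152) (nat_lit 0) (XT.lf (nat_lit 0) (nat_lit 18563827234) (nat_lit 76) (nat_lit 4621839372) (nat_lit 76) (nat_lit 1899149444) (nat_lit 13) (nat_lit 4) (nat_lit 14) (nat_lit 5) (nat_lit 14) (nat_lit 4) (nat_lit 363) (nat_lit 274) (nat_lit 263)) (XT.lf (nat_lit 0) (nat_lit 2897155737) (nat_lit 152) (nat_lit 23055260584) (nat_lit 0) (nat_lit 130288118) (nat_lit 11) (nat_lit 5) (nat_lit 13) (nat_lit 4) (nat_lit 11) (nat_lit 4) (nat_lit 364) (nat_lit 274) (nat_lit 262)))) (XT.nd (nat_lit 78) (nat_lit 76) (nat_lit 0) (XT.lf (nat_lit 0) (nat_lit 7922236005) (nat_lit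 152) (nat_lit 14214262555) (nat_lit 0) (nat_lit 4989816392) (nat_lit 11) (nat_lit 5) (nat_lit 13) (nat_lit 4) (nat_lit 11) (nat_lit 4) (nat_lit 365) (nat_lit 274) (nat_lit 261)) (XT.nd (nat_lit 78) (nat_lit 76) (nat_lit 0) (XT.lf (nat_lit 0) (nat_lit 13069779156) (nat_lit 152) (nat_lit 5179097857) (nat_lit 0) (nat_lit 9979690979) (nat_lit 11) (nat_lit 5) (nat_lit 13) (nat_lit 4) (nat_lit 11) (nat_lit 4) (nat_lit 366) (nat_lit 274) (nat_lit 260)) (XT.lf (nat_lit 0) (nat_lit 4206376108) (nat_lit 76) (nat_lit 14211338457) (nat_lit 76) (nat_lit 10971089741) (nat_lit 10) (nat_lit 4) (nat_lit 11) (nat_lit 5) (nat_lit 11) (nat_lit 4) (nat_lit 367) (nat_lit 274) (nat_lit 259))))))) (XT.nd (nat_lit 936) (nat_lit 76) (nat_lit 0) (XT.nd (nat_lit 468) (nat_lit 228) (nat_lit 0) (XT.nd (nat_lit 234) (nat_lit 0) (nat_lit 0) (XT.nd (nat_lit 78) (nat_lit 152) (nat_lit 0) (XT.lf (nat_lit 0) (nat_lit 14008658816)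 (nat_lit 76) (nat_lit 9991654697) (nat_lit 76) (nat_lit 6608395945) (nat_lit 10) (nat_lit 4) (nat_lit 11) (nat_lit 5) (nat_lit 11) (nat_lit 4) (nat_lit 368) (nat_lit 274) (nat_lit 258)) (XT.nd (nat_lit 78) (nat_lit 152) (nat_lit 0) (XT.lf (nat_lit 0) (nat_lit 24079844668) (nat_lit 76) (nat_lit 5667489395) (nat_lit 76) (nat_lit 2148030609) (nat_lit 10) (nat_lit 4) (nat_lit 11) (nat_lit 5) (nat_lit 11) (nat_lit 4) (nat_lit 369) (nat_lit 274) (nat_lit 257)) (XT.lf (nat_lit 0) (nat_lit 1192452427) (nat_lit 76) (nat_lit 1169316124) (nat_lit 152) (nat_lit 30887244351) (nat_lit 8) (nat_lit 5) (nat_lit 9) (nat_lit 5) (nat_lit 10) (nat_lit 4) (nat_lit 370) (nat_lit 274) (nat_lit 256)))) (XT.nd (nat_lit 78) (nat_lit 0) (nat_lit 0) (XT.lf (nat_lit 0) (nat_lit 7104233891) (nat_lit 152) (nat_lit 24049221292) (nat_lit 0) (nat_lit 3511176224) (nat_lit 8) (nat_lit 5) (nat_lit 10) (nat_lit 4) (nat_lit 8)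 (nat_lit 4) (nat_lit 371) (nat_lit 274) (nat_lit 255)) (XT.nd (nat_lit 78) (nat_lit 0) (nat_lit 0) (XT.lf (nat_lit 0) (nat_lit 11997611086) (nat_lit 152) (nat_lit 15865244958) (nat_lit 0) (nat_lit 8292501314) (nat_lit 8) (nat_lit 5) (nat_lit 10) (nat_lit 4) (nat_lit 8) (nat_lit 4) (nat_lit 372) (nat_lit 274) (nat_lit 254)) (XT.lf (nat_lit 0) (nat_lit 17035294734) (nat_lit 152) (nat_lit 7466889514) (nat_lit 0) (nat_lit 13223468671) (nat_lit 8) (nat_lit 5) (nat_lit 10) (nat_lit 4) (nat_lit 8) (nat_lit 4) (nat_lit 373) (nat_lit 274) (nat_lit 253))))) (XT.nd (nat_lit 234) (nat_lit 152) (nat_lit 0) (XT.nd (nat_lit 78) (nat_lit 0) (nat_lit 0) (XT.lf (nat_lit 0) (nat_lit 1204389096) (nat_lit 76) (nat_lit 21043694112) (nat_lit 76) (nat_lit 17130233486) (nat_lit 7) (nat_lit 4) (nat_lit 8) (nat_lit 5) (nat_lit 8) (nat_lit 4) (nat_lit 374) (nat_lit 274) (nat_lit 252)) (XT.nd (nat_lit 78) (nat_lit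 0) (nat_lit 0) (XT.lf (nat_lit 0) (nat_lit 10385915226) (nat_lit 76) (nat_lit 17368169490) (nat_lit 76) (nat_lit 13357914043) (nat_lit 7) (nat_lit 4) (nat_lit 8) (nat_lit 5) (nat_lit 8) (nat_lit 4) (nat_lit 375) (nat_lit 274) (nat_lit 251)) (XT.lf (nat_lit 0) (nat_lit 19852660561) (nat_lit 76) (nat_lit 13593314521) (nat_lit 76) (nat_lit 9490873529) (nat_lit 7) (nat_lit 4) (nat_lit 8) (nat_lit 5) (nat_lit 8) (nat_lit 4) (nat_lit 376) (nat_lit 274) (nat_lit 250)))) (XT.nd (nat_lit 78) (nat_lit 152) (nat_lit 0) (XT.lf (nat_lit 0) (nat_lit 29627164972) (nat_lit 76) (nat_lit 9710141454) (nat_lit 76) (nat_lit 5519904705) (nat_lit 7) (nat_lit 4) (nat_lit 8) (nat_lit 5) (nat_lit 8) (nat_lit 4) (nat_lit 377) (nat_lit 274) (nat_lit 249)) (XT.nd (nat_lit 78) (nat_lit 152) (nat_lit 0) (XT.lf (nat_lit 0) (nat_lit 39732701089) (nat_lit 76) (nat_lit 5709404639) (nat_lit 76) (nat_lit 1435552884) (nat_lit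 7) (nat_lit 4) (nat_lit 8) (nat_lit 5) (nat_lit 8) (nat_lit 4) (nat_lit 378) (nat_lit 274) (nat_lit 248)) (XT.lf (nat_lit 0) (nat_lit 1184977519) (nat_lit 76) (nat_lit 1516711560) (nat_lit 152) (nat_lit 46298223659) (nat_lit 5) (nat_lit 5) (nat_lit 6) (nat_lit 5) (nat_lit 7) (nat_lit 4) (nat_lit 379) (nat_lit 274) (nat_lit 247)))))) (XT.nd (nat_lit 468) (nat_lit 76) (nat_lit 0) (XT.nd (nat_lit 234) (nat_lit 0) (nat_lit 0) (XT.nd (nat_lit 78) (nat_lit 0) (nat_lit 0) (XT.lf (nat_lit 0) (nat_lit 7087323567) (nat_lit 152) (nat_lit 41266383383) (nat_lit 0) (nat_lit 2868917501) (nat_lit 5) (nat_lit 5) (nat_lit 7) (nat_lit 4) (nat_lit 5) (nat_lit 4) (nat_lit 380) (nat_lit 274) (nat_lit 246)) (XT.nd (nat_lit 78) (nat_lit 0) (nat_lit 0) (XT.lf (nat_lit 0) (nat_lit 11642565700) (nat_lit 152) (nat_lit 34561030185) (nat_lit 0) (nat_lit 7355369361) (nat_lit 5) (nat_lit 5) (nat_lit 7) (nat_lit 4) (nat_lit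 5) (nat_lit 4) (nat_lit 381) (nat_lit 274) (nat_lit 245)) (XT.lf (nat_lit 0) (nat_lit 16354581174) (nat_lit 152) (nat_lit 27659230382) (nat_lit 0) (nat_lit 12001870290) (nat_lit 5) (nat_lit 5) (nat_lit 7) (nat_lit 4) (nat_lit 5) (nat_lit 4) (nat_lit 382) (nat_lit 274) (nat_lit 244)))) (XT.nd (nat_lit 78) (nat_lit 0) (nat_lit 0) (XT.lf (nat_lit 0) (nat_lit 21234589074) (nat_lit 152) (nat_lit 20544551117) (nat_lit 0) (nat_lit 16819483385) (nat_lit 5) (nat_lit 5) (nat_lit 7) (nat_lit 4) (nat_lit 5) (nat_lit 4) (nat_lit 383) (nat_lit 274) (nat_lit 243)) (XT.nd (nat_lit 78) (nat_lit 0) (nat_lit 0) (XT.lf (nat_lit 0) (nat_lit 26294208466) (nat_lit 152) (nat_lit 13200052678) (nat_lit 0) (nat_lit 21819679153) (nat_lit 5) (nat_lit 5) (nat_lit 7) (nat_lit 4) (nat_lit 5) (nat_lit 4) (nat_lit 384) (nat_lit 274) (nat_lit 242)) (XT.lf (nat_lit 0) (nat_lit 31545486064) (nat_lit 152) (nat_lit 5608248163)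 (nat_lit 0) (nat_lit 27014362823) (nat_lit 5) (nat_lit 5) (nat_lit 7) (nat_lit 4) (nat_lit 5) (nat_lit 4) (nat_lit 385) (nat_lit 274) (nat_lit 241))))) (XT.nd (nat_lit 234) (nat_lit 0) (nat_lit 0) (XT.nd (nat_lit 78) (nat_lit 0) (nat_lit 0) (XT.lf (nat_lit 0) (nat_lit 2323298204) (nat_lit 76) (nat_lit 34713899900) (nat_lit 76) (nat_lit 30128877681) (nat_lit 4) (nat_lit 4) (nat_lit 5) (nat_lit 5) (nat_lit 5) (nat_lit 4) (nat_lit 386) (nat_lit 274) (nat_lit 240)) (XT.nd (nat_lit 78) (nat_lit 0) (nat_lit 0) (XT.lf (nat_lit 0) (nat_lit 10733761249) (nat_lit 76) (nat_lit 32107336985) (nat_lit 76) (nat_lit 27470982405) (nat_lit 4) (nat_lit 4) (nat_lit 5) (nat_lit 5) (nat_lit 5) (nat_lit 4) (nat_lit 387) (nat_lit 274) (nat_lit 239)) (XT.lf (nat_lit 0) (nat_lit 19457731871) (nat_lit 76) (nat_lit 29422817777) (nat_lit 76) (nat_lit 24737575235) (nat_lit 4) (nat_lit 4) (nat_lit 5) (nat_lit 5) (nat_lit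 5) (nat_lit 4) (nat_lit 388) (nat_lit 274) (nat_lit 238)))) (XT.nd (nat_lit 78) (nat_lit 0) (nat_lit 0) (XT.lf (nat_lit 0) (nat_lit 28515981430) (nat_lit 76) (nat_lit 26653950563) (nat_lit 76) (nat_lit 21922148057) (nat_lit 4) (nat_lit 4) (nat_lit 5) (nat_lit 5) (nat_lit 5) (nat_lit 4) (nat_lit 389) (nat_lit 274) (nat_lit 237)) (XT.nd (nat_lit 78) (nat_lit 0) (nat_lit 0) (XT.lf (nat_lit 0) (nat_lit 37930077184) (nat_lit 76) (nat_lit 23794142802) (nat_lit 76) (nat_lit 19017997473) (nat_lit 4) (nat_lit 4) (nat_lit 5) (nat_lit 5) (nat_lit 5) (nat_lit 4) (nat_lit 390) (nat_lit 274) (nat_lit 236)) (XT.lf (nat_lit 0) (nat_lit 47722433650) (nat_lit 76) (nat_lit 20836585428) (nat_lit 76) (nat_lit 16018208839) (nat_lit 4) (nat_lit 4) (nat_lit 5) (nat_lit 5) (nat_lit 5) (nat_lit 4) (nat_lit 391) (nat_lit 274) (nat_lit 235))))))))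
noncomputable def xc40 : XT := (XT.nd (nat_lit 1794) (nat_lit 76) (nat_lit 0) (XT.nd (nat_lit 858) (nat_lit 0) (nat_lit 0) (XT.nd (nat_lit 390) (nat_lit 76) (nat_lit 0) (XT.nd (nat_lit 156) (nat_lit 76) (nat_lit 0) (XT.nd (nat_lit 78) (nat_lit 0) (nat_lit 0) (XT.lf (nat_lit 0) (nat_lit 57916365960) (nat_lit 76) (nat_lit 17774236639) (nat_lit 76) (nat_lit 12915639802) (nat_lit 4) (nat_lit 4) (nat_lit 5) (nat_lit 5) (nat_lit 5) (nat_lit 4) (nat_lit 392) (nat_lit 274) (nat_lit 234)) (XT.lf (nat_lit 0) (nat_lit 68536145383) (nat_lit 76) (nat_lit 14599805126) (nat_lit 76) (nat_lit 9702903291) (nat_lit 4) (nat_lit 4) (nat_lit 5) (nat_lit 5) (nat_lit 5) (nat_lit 4) (nat_lit 393) (nat_lit 274) (nat_lit 233))) (XT.nd (nat_lit 78) (nat_lit 76) (nat_lit 0) (XT.lf (nat_lit 0) (nat_lit 79607057107) (nat_lit 76) (nat_lit 11305732720) (nat_lit 76) (nat_lit 6372349935) (nat_lit 4) (nat_lit 4) (nat_lit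 5) (nat_lit 5) (nat_lit 5) (nat_lit 4) (nat_lit 394) (nat_lit 274) (nat_lit 232)) (XT.nd (nat_lit 78) (nat_lit 76) (nat_lit 0) (XT.lf (nat_lit 0) (nat_lit 91155460446) (nat_lit 76) (nat_lit 7884176392) (nat_lit 76) (nat_lit 2916049845) (nat_lit 4) (nat_lit 4) (nat_lit 5) (nat_lit 5) (nat_lit 5) (nat_lit 4) (nat_lit 395) (nat_lit 274) (nat_lit 231)) (XT.lf (nat_lit 0) (nat_lit 652646814) (nat_lit 152) (nat_lit 3663289875) (nat_lit 76) (nat_lit 102545151895) (nat_lit 3) (nat_lit 5) (nat_lit 5) (nat_lit 5) (nat_lit 4) (nat_lit 4) (nat_lit 396) (nat_lit 274) (nat_lit 230))))) (XT.nd (nat_lit 234) (nat_lit 0) (nat_lit 0) (XT.nd (nat_lit 78) (nat_lit 0) (nat_lit 0) (XT.lf (nat_lit 0) (nat_lit 3835270454) (nat_lit 76) (nat_lit 490583162) (nat_lit 152) (nat_lit 107682317345) (nat_lit 2) (nat_lit 5) (nat_lit 3) (nat_lit 5) (nat_lit 4) (nat_lit 4) (nat_lit 397) (nat_lit 274) (nat_lit 229)) (XT.nd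 (nat_lit 78) (nat_lit 0) (nat_lit 0) (XT.lf (nat_lit 0) (nat_lit 8265121573) (nat_lit 152) (nat_lit 105699907797) (nat_lit 0) (nat_lit 3443462117) (nat_lit 2) (nat_lit 5) (nat_lit 4) (nat_lit 4) (nat_lit 2) (nat_lit 4) (nat_lit 398) (nat_lit 274) (nat_lit 228)) (XT.lf (nat_lit 0) (nat_lit 12375388462) (nat_lit 152) (nat_lit 103178235315) (nat_lit 0) (nat_lit 7526506360) (nat_lit 2) (nat_lit 5) (nat_lit 4) (nat_lit 4) (nat_lit 2) (nat_lit 4) (nat_lit 399) (nat_lit 274) (nat_lit 227)))) (XT.nd (nat_lit 78) (nat_lit 0) (nat_lit 0) (XT.lf (nat_lit 0) (nat_lit 16658781258) (nat_lit 152) (nat_lit 100594219701) (nat_lit 0) (nat_lit 11783972824) (nat_lit 2) (nat_lit 5) (nat_lit 4) (nat_lit 4) (nat_lit 2) (nat_lit 4) (nat_lit 400) (nat_lit 274) (nat_lit 226)) (XT.nd (nat_lit 78) (nat_lit 0) (nat_lit 0) (XT.lf (nat_lit 0) (nat_lit 21125498512) (nat_lit 152) (nat_lit 97941708536) (nat_lit 0) (nat_lit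 16225998336) (nat_lit 2) (nat_lit 5) (nat_lit 4) (nat_lit 4) (nat_lit 2) (nat_lit 4) (nat_lit 401) (nat_lit 274) (nat_lit 225)) (XT.lf (nat_lit 0) (nat_lit 25786175268) (nat_lit 152) (nat_lit 95214386319) (nat_lit 0) (nat_lit 20863159146) (nat_lit 2) (nat_lit 5) (nat_lit 4) (nat_lit 4) (nat_lit 2) (nat_lit 4) (nat_lit 402) (nat_lit 274) (nat_lit 224)))))) (XT.nd (nat_lit 468) (nat_lit 0) (nat_lit 0) (XT.nd (nat_lit 234) (nat_lit 0) (nat_lit 0) (XT.nd (nat_lit 78) (nat_lit 0) (nat_lit 0) (XT.lf (nat_lit 0) (nat_lit 30651908373) (nat_lit 152) (nat_lit 92405759425) (nat_lit 0) (nat_lit 25706496112) (nat_lit 2) (nat_lit 5) (nat_lit 4) (nat_lit 4) (nat_lit 2) (nat_lit 4) (nat_lit 403) (nat_lit 274) (nat_lit 223)) (XT.nd (nat_lit 78) (nat_lit 0) (nat_lit 0) (XT.lf (nat_lit 0) (nat_lit 35734282908) (nat_lit 152) (nat_lit 89509140647) (nat_lit 0) (nat_lit 30767540991) (nat_lit 2) (nat_lit 5) (nat_lit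 4) (nat_lit 4) (nat_lit 2) (nat_lit 4) (nat_lit 404) (nat_lit 274) (nat_lit 222)) (XT.lf (nat_lit 0) (nat_lit 41045399763) (nat_lit 152) (nat_lit 86517633273) (nat_lit 0) (nat_lit 36058343888) (nat_lit 2) (nat_lit 5) (nat_lit 4) (nat_lit 4) (nat_lit 2) (nat_lit 4) (nat_lit 405) (nat_lit 274) (nat_lit 221)))) (XT.nd (nat_lit 78) (nat_lit 0) (nat_lit 0) (XT.lf (nat_lit 0) (nat_lit 46597904455) (nat_lit 152) (nat_lit 83424114668) (nat_lit 0) (nat_lit 41591501953) (nat_lit 2) (nat_lit 5) (nat_lit 4) (nat_lit 4) (nat_lit 2) (nat_lit 4) (nat_lit 406) (nat_lit 274) (nat_lit 220)) (XT.nd (nat_lit 78) (nat_lit 0) (nat_lit 0) (XT.lf (nat_lit 0) (nat_lit 52405017234) (nat_lit 152) (nat_lit 80221219310) (nat_lit 0) (nat_lit 47380189373) (nat_lit 2) (nat_lit 5) (nat_lit 4) (nat_lit 4) (nat_lit 2) (nat_lit 4) (nat_lit 407) (nat_lit 274) (nat_lit 219)) (XT.lf (nat_lit 0) (nat_lit 58480564557) (nat_lit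 152) (nat_lit 76901321258) (nat_lit 0) (nat_lit 53438188736) (nat_lit 2) (nat_lit 5) (nat_lit 4) (nat_lit 4) (nat_lit 2) (nat_lit 4) (nat_lit 408) (nat_lit 274) (nat_lit 218))))) (XT.nd (nat_lit 234) (nat_lit 0) (nat_lit 0) (XT.nd (nat_lit 78) (nat_lit 0) (nat_lit 0) (XT.lf (nat_lit 0) (nat_lit 64839012015) (nat_lit 152) (nat_lit 73456515994) (nat_lit 0) (nat_lit 59779923850) (nat_lit 2) (nat_lit 5) (nat_lit 4) (nat_lit 4) (nat_lit 2) (nat_lit 4) (nat_lit 409) (nat_lit 274) (nat_lit 217)) (XT.nd (nat_lit 78) (nat_lit 0) (nat_lit 0) (XT.lf (nat_lit 0) (nat_lit 71495498768) (nat_lit 152) (nat_lit 69878601599) (nat_lit 0) (nat_lit 66420494085) (nat_lit 2) (nat_lit 5) (nat_lit 4) (nat_lit 4) (nat_lit 2) (nat_lit 4) (nat_lit 410) (nat_lit 274) (nat_lit 216)) (XT.lf (nat_lit 0) (nat_lit 78465873594) (nat_lit 152) (nat_lit 66159059230) (nat_lit 0) (nat_lit 73375710322) (nat_lit 2) (nat_lit 5)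 (nat_lit 4) (nat_lit 4) (nat_lit 2) (nat_lit 4) (nat_lit 411) (nat_lit 274) (nat_lit 215)))) (XT.nd (nat_lit 78) (nat_lit 0) (nat_lit 0) (XT.lf (nat_lit 0) (nat_lit 85766732623) (nat_lit 152) (nat_lit 62289032833) (nat_lit 0) (nat_lit 80662132600) (nat_lit 2) (nat_lit 5) (nat_lit 4) (nat_lit 4) (nat_lit 2) (nat_lit 4) (nat_lit 412) (nat_lit 274) (nat_lit 214)) (XT.nd (nat_lit 78) (nat_lit 0) (nat_lit 0) (XT.lf (nat_lit 0) (nat_lit 93415458852) (nat_lit 152) (nat_lit 58259308061) (nat_lit 0) (nat_lit 88297109544) (nat_lit 2) (nat_lit 5) (nat_lit 4) (nat_lit 4) (nat_lit 2) (nat_lit 4) (nat_lit 413) (nat_lit 274) (nat_lit 213)) (XT.lf (nat_lit 0) (nat_lit 101430263536) (nat_lit 152) (nat_lit 54060290330) (nat_lit 0) (nat_lit 96298819669) (nat_lit 2) (nat_lit 5) (nat_lit 4) (nat_lit 4) (nat_lit 2) (nat_lit 4) (nat_lit 414) (nat_lit 274) (nat_lit 212))))))) (XT.nd (nat_lit 936) (nat_lit 0) (nat_lit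 0) (XT.nd (nat_lit 468) (nat_lit 76) (nat_lit 0) (XT.nd (nat_lit 234) (nat_lit 0) (nat_lit 0) (XT.nd (nat_lit 78) (nat_lit 0) (nat_lit 0) (XT.lf (nat_lit 0) (nat_lit 109830229542) (nat_lit 152) (nat_lit 49681981979) (nat_lit 0) (nat_lit 104686314667) (nat_lit 2) (nat_lit 5) (nat_lit 4) (nat_lit 4) (nat_lit 2) (nat_lit 4) (nat_lit 415) (nat_lit 274) (nat_lit 211)) (XT.nd (nat_lit 78) (nat_lit 0) (nat_lit 0) (XT.lf (nat_lit 0) (nat_lit 118635356789) (nat_lit 152) (nat_lit 45113958465) (nat_lit 0) (nat_lit 113479564763) (nat_lit 2) (nat_lit 5) (nat_lit 4) (nat_lit 4) (nat_lit 2) (nat_lit 4) (nat_lit 416) (nat_lit 274) (nat_lit 210)) (XT.lf (nat_lit 0) (nat_lit 127866609866) (nat_lit 152) (nat_lit 40345343541) (nat_lit 0) (nat_lit 122699506268) (nat_lit 2) (nat_lit 5) (nat_lit 4) (nat_lit 4) (nat_lit 2) (nat_lit 4) (nat_lit 417) (nat_lit 274) (nat_lit 209)))) (XT.nd (nat_lit 78) (nat_lit 0)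 (nat_lit 0) (XT.lf (nat_lit 0) (nat_lit 137545967947) (nat_lit 152) (nat_lit 35364783361) (nat_lit 0) (nat_lit 132368091424) (nat_lit 2) (nat_lit 5) (nat_lit 4) (nat_lit 4) (nat_lit 2) (nat_lit 4) (nat_lit 418) (nat_lit 274) (nat_lit 208)) (XT.nd (nat_lit 78) (nat_lit 0) (nat_lit 0) (XT.lf (nat_lit 0) (nat_lit 147696477123) (nat_lit 152) (nat_lit 30160419450) (nat_lit 0) (nat_lit 142508340670) (nat_lit 2) (nat_lit 5) (nat_lit 4) (nat_lit 4) (nat_lit 2) (nat_lit 4) (nat_lit 419) (nat_lit 274) (nat_lit 207)) (XT.lf (nat_lit 0) (nat_lit 158342305272) (nat_lit 152) (nat_lit 24719860464) (nat_lit 0) (nat_lit 153144397458) (nat_lit 2) (nat_lit 5) (nat_lit 4) (nat_lit 4) (nat_lit 2) (nat_lit 4) (nat_lit 420) (nat_lit 274) (nat_lit 206))))) (XT.nd (nat_lit 234) (nat_lit 76) (nat_lit 0) (XT.nd (nat_lit 78) (nat_lit 0) (nat_lit 0) (XT.lf (nat_lit 0) (nat_lit 169508799605) (nat_lit 152) (nat_lit 19030152692)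 (nat_lit 0) (nat_lit 164301585733) (nat_lit 2) (nat_lit 5) (nat_lit 4) (nat_lit 4) (nat_lit 2) (nat_lit 4) (nat_lit 421) (nat_lit 274) (nat_lit 205)) (XT.nd (nat_lit 78) (nat_lit 0) (nat_lit 0) (XT.lf (nat_lit 0) (nat_lit 181222547013) (nat_lit 152) (nat_lit 13077749210) (nat_lit 0) (nat_lit 176006470227) (nat_lit 2) (nat_lit 5) (nat_lit 4) (nat_lit 4) (nat_lit 2) (nat_lit 4) (nat_lit 422) (nat_lit 274) (nat_lit 204)) (XT.lf (nat_lit 0) (nat_lit 193511437370) (nat_lit 152) (nat_lit 6848477630) (nat_lit 0) (nat_lit 188286919715) (nat_lit 2) (nat_lit 5) (nat_lit 4) (nat_lit 4) (nat_lit 2) (nat_lit 4) (nat_lit 423) (nat_lit 274) (nat_lit 203)))) (XT.nd (nat_lit 78) (nat_lit 76) (nat_lit 0) (XT.lf (nat_lit 0) (nat_lit 206404729939) (nat_lit 152) (nat_lit 327506351) (nat_lit 0) (nat_lit 201172173362) (nat_lit 2) (nat_lit 5) (nat_lit 4) (nat_lit 4) (nat_lit 2) (nat_lit 4) (nat_lit 424) (nat_lit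 274) (nat_lit 202)) (XT.nd (nat_lit 78) (nat_lit 0) (nat_lit 0) (XT.lf (nat_lit 0) (nat_lit 6715632940) (nat_lit 76) (nat_lit 213322339947) (nat_lit 76) (nat_lit 208082127252) (nat_lit 1) (nat_lit 4) (nat_lit 2) (nat_lit 5) (nat_lit 2) (nat_lit 4) (nat_lit 425) (nat_lit 274) (nat_lit 201)) (XT.lf (nat_lit 0) (nat_lit 14103780326) (nat_lit 76) (nat_lit 220245246331) (nat_lit 76) (nat_lit 214997742097) (nat_lit 1) (nat_lit 4) (nat_lit 2) (nat_lit 5) (nat_lit 2) (nat_lit 4) (nat_lit 426) (nat_lit 274) (nat_lit 200)))))) (XT.nd (nat_lit 468) (nat_lit 0) (nat_lit 0) (XT.nd (nat_lit 234) (nat_lit 0) (nat_lit 0) (XT.nd (nat_lit 78) (nat_lit 0) (nat_lit 0) (XT.lf (nat_lit 0) (nat_lit 21843697795) (nat_lit 76) (nat_lit 227522985034) (nat_lit 76) (nat_lit 222268536475) (nat_lit 1) (nat_lit 4) (nat_lit 2) (nat_lit 5) (nat_lit 2) (nat_lit 4) (nat_lit 427) (nat_lit 274) (nat_lit 199)) (XT.nd (nat_lit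 78) (nat_lit 0) (nat_lit 0) (XT.lf (nat_lit 0) (nat_lit 29953813720) (nat_lit 76) (nat_lit 235172884003) (nat_lit 76) (nat_lit 229911821802) (nat_lit 1) (nat_lit 4) (nat_lit 2) (nat_lit 5) (nat_lit 2) (nat_lit 4) (nat_lit 428) (nat_lit 274) (nat_lit 198)) (XT.lf (nat_lit 0) (nat_lit 38453437903) (nat_lit 76) (nat_lit 243213157284) (nat_lit 76) (nat_lit 237945796377) (nat_lit 1) (nat_lit 4) (nat_lit 2) (nat_lit 5) (nat_lit 2) (nat_lit 4) (nat_lit 429) (nat_lit 274) (nat_lit 197)))) (XT.nd (nat_lit 78) (nat_lit 0) (nat_lit 0) (XT.lf (nat_lit 0) (nat_lit 47362807544) (nat_lit 76) (nat_lit 251662948385) (nat_lit 76) (nat_lit 246389588710) (nat_lit 1) (nat_lit 4) (nat_lit 2) (nat_lit 5) (nat_lit 2) (nat_lit 4) (nat_lit 430) (nat_lit 274) (nat_lit 196)) (XT.nd (nat_lit 78) (nat_lit 0) (nat_lit 0) (XT.lf (nat_lit 0) (nat_lit 56703135426) (nat_lit 76) (nat_lit 260542375857) (nat_lit 76) (nat_lit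 255263303069) (nat_lit 1) (nat_lit 4) (nat_lit 2) (nat_lit 5) (nat_lit 2) (nat_lit 4) (nat_lit 431) (nat_lit 274) (nat_lit 195)) (XT.lf (nat_lit 0) (nat_lit 66496660427) (nat_lit 76) (nat_lit 269872581192) (nat_lit 76) (nat_lit 264588067345) (nat_lit 1) (nat_lit 4) (nat_lit 2) (nat_lit 5) (nat_lit 2) (nat_lit 4) (nat_lit 432) (nat_lit 274) (nat_lit 194))))) (XT.nd (nat_lit 234) (nat_lit 0) (nat_lit 0) (XT.nd (nat_lit 78) (nat_lit 0) (nat_lit 0) (XT.lf (nat_lit 0) (nat_lit 76766700463) (nat_lit 76) (nat_lit 279675779167) (nat_lit 76) (nat_lit 274386083358) (nat_lit 1) (nat_lit 4) (nat_lit 2) (nat_lit 5) (nat_lit 2) (nat_lit 4) (nat_lit 433) (nat_lit 274) (nat_lit 193)) (XT.nd (nat_lit 78) (nat_lit 0) (nat_lit 0) (XT.lf (nat_lit 0) (nat_lit 87537708010) (nat_lit 76) (nat_lit 289975310727) (nat_lit 76) (nat_lit 284680679717) (nat_lit 1) (nat_lit 4) (nat_lit 2) (nat_lit 5) (nat_lit 2) (nat_lit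 4) (nat_lit 434) (nat_lit 274) (nat_lit 192)) (XT.lf (nat_lit 0) (nat_lit 98835328324) (nat_lit 76) (nat_lit 300795698568) (nat_lit 76) (nat_lit 295496367366) (nat_lit 1) (nat_lit 4) (nat_lit 2) (nat_lit 5) (nat_lit 2) (nat_lit 4) (nat_lit 435) (nat_lit 274) (nat_lit 191)))) (XT.nd (nat_lit 78) (nat_lit 0) (nat_lit 0) (XT.lf (nat_lit 0) (nat_lit 110686460501) (nat_lit 76) (nat_lit 312162705518) (nat_lit 76) (nat_lit 306858897943) (nat_lit 1) (nat_lit 4) (nat_lit 2) (nat_lit 5) (nat_lit 2) (nat_lit 4) (nat_lit 436) (nat_lit 274) (nat_lit 190)) (XT.nd (nat_lit 40092) (nat_lit 0) (nat_lit 1596) (XT.lf (nat_lit 0) (nat_lit 123119321523) (nat_lit 76) (nat_lit 324103395879) (nat_lit 76) (nat_lit 318795325091) (nat_lit 1) (nat_lit 4) (nat_lit 2) (nat_lit 5) (nat_lit 2) (nat_lit 4) (nat_lit 437) (nat_lit 274) (nat_lit 189)) (XT.lf (nat_lit 0) (nat_lit 946465335) (nat_lit 76) (nat_lit 3496217303)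 (nat_lit 76) (nat_lit 3496217303) (nat_lit 22) (nat_lit 4) (nat_lit 23) (nat_lit 5) (nat_lit 23) (nat_lit 4) (nat_lit 350) (nat_lit 275) (nat_lit 275))))))))
noncomputable def xc41 : XT := (XT.nd (nat_lit 1794) (nat_lit 380) (nat_lit 0) (XT.nd (nat_lit 858) (nat_lit 456) (nat_lit 0) (XT.nd (nat_lit 390) (nat_lit 228) (nat_lit 0) (XT.nd (nat_lit 156) (nat_lit 228) (nat_lit 0) (XT.nd (nat_lit 78) (nat_lit 152) (nat_lit 0) (XT.lf (nat_lit 0) (nat_lit 12180028677) (nat_lit 76) (nat_lit 2296114575) (nat_lit 76) (nat_lit 1916666375) (nat_lit 22) (nat_lit 4) (nat_lit 23) (nat_lit 5) (nat_lit 23) (nat_lit 4) (nat_lit 351) (nat_lit 275) (nat_lit 274)) (XT.lf (nat_lit 0) (nat_lit 3258729875) (nat_lit 152) (nat_lit 11121291137) (nat_lit 0) (nat_lit 2553179933) (nat_lit 20) (nat_lit 5) (nat_lit 22) (nat_lit 4) (nat_lit 20) (nat_lit 4) (nat_lit 352) (nat_lit 275) (nat_lit 273))) (XT.nd (nat_lit 78)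 (nat_lit 228) (nat_lit 0) (XT.lf (nat_lit 0) (nat_lit 8562246586) (nat_lit 152) (nat_lit 1411237685) (nat_lit 0) (nat_lit 7528915021) (nat_lit 20) (nat_lit 5) (nat_lit 22) (nat_lit 4) (nat_lit 20) (nat_lit 4) (nat_lit 353) (nat_lit 275) (nat_lit 272)) (XT.nd (nat_lit 78) (nat_lit 152) (nat_lit 0) (XT.lf (nat_lit 0) (nat_lit 8752003985) (nat_lit 76) (nat_lit 5347585029) (nat_lit 76) (nat_lit 4002080491) (nat_lit 19) (nat_lit 4) (nat_lit 20) (nat_lit 5) (nat_lit 20) (nat_lit 4) (nat_lit 354) (nat_lit 275) (nat_lit 271)) (XT.lf (nat_lit 0) (nat_lit 424445507) (nat_lit 76) (nat_lit 583972853) (nat_lit 152) (nat_lit 17728432609) (nat_lit 17) (nat_lit 5) (nat_lit 18) (nat_lit 5) (nat_lit 19) (nat_lit 4) (nat_lit 355) (nat_lit 275) (nat_lit 270))))) (XT.nd (nat_lit 234) (nat_lit 152) (nat_lit 0) (XT.nd (nat_lit 78) (nat_lit 76) (nat_lit 0) (XT.lf (nat_lit 0) (nat_lit 6198250819) (nat_lit 152)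 (nat_lit 8835132358) (nat_lit 0) (nat_lit 4364001084) (nat_lit 17) (nat_lit 5) (nat_lit 19) (nat_lit 4) (nat_lit 17) (nat_lit 4) (nat_lit 356) (nat_lit 275) (nat_lit 269)) (XT.nd (nat_lit 78) (nat_lit 0) (nat_lit 0) (XT.lf (nat_lit 0) (nat_lit 834137164) (nat_lit 76) (nat_lit 10677361325) (nat_lit 76) (nat_lit 8586286112) (nat_lit 16) (nat_lit 4) (nat_lit 17) (nat_lit 5) (nat_lit 17) (nat_lit 4) (nat_lit 357) (nat_lit 275) (nat_lit 268)) (XT.lf (nat_lit 0) (nat_lit 10999436941) (nat_lit 76) (nat_lit 6084888939) (nat_lit 76) (nat_lit 3749218032) (nat_lit 16) (nat_lit 4) (nat_lit 17) (nat_lit 5) (nat_lit 17) (nat_lit 4) (nat_lit 358) (nat_lit 275) (nat_lit 267)))) (XT.nd (nat_lit 78) (nat_lit 76) (nat_lit 0) (XT.lf (nat_lit 0) (nat_lit 1136386320) (nat_lit 152) (nat_lit 239027229) (nat_lit 76) (nat_lit 20237209120) (nat_lit 15) (nat_lit 5) (nat_lit 17) (nat_lit 5) (nat_lit 16) (nat_lit 4)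 (nat_lit 359) (nat_lit 275) (nat_lit 266)) (XT.nd (nat_lit 78) (nat_lit 0) (nat_lit 0) (XT.lf (nat_lit 0) (nat_lit 6207215275) (nat_lit 152) (nat_lit 12667429571) (nat_lit 0) (nat_lit 3549620332) (nat_lit 14) (nat_lit 5) (nat_lit 16) (nat_lit 4) (nat_lit 14) (nat_lit 4) (nat_lit 360) (nat_lit 275) (nat_lit 265)) (XT.lf (nat_lit 0) (nat_lit 11415361665) (nat_lit 152) (nat_lit 3310430755) (nat_lit 0) (nat_lit 8556537240) (nat_lit 14) (nat_lit 5) (nat_lit 16) (nat_lit 4) (nat_lit 14) (nat_lit 4) (nat_lit 361) (nat_lit 275) (nat_lit 264)))))) (XT.nd (nat_lit 468) (nat_lit 152) (nat_lit 0) (XT.nd (nat_lit 234) (nat_lit 76) (nat_lit 0) (XT.nd (nat_lit 78) (nat_lit 152) (nat_lit 0) (XT.lf (nat_lit 0) (nat_lit 6461887033) (nat_lit 76) (nat_lit 10386834432) (nat_lit 76) (nat_lit 7336362881) (nat_lit 13) (nat_lit 4) (nat_lit 14) (nat_lit 5) (nat_lit 14) (nat_lit 4) (nat_lit 362) (nat_lit 275) (nat_lit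 263)) (XT.nd (nat_lit 78) (nat_lit 152) (nat_lit 0) (XT.lf (nat_lit 0) (nat_lit 16582582777) (nat_lit 76) (nat_lit 5893644351) (nat_lit 76) (nat_lit 2660651728) (nat_lit 13) (nat_lit 4) (nat_lit 14) (nat_lit 5) (nat_lit 14) (nat_lit 4) (nat_lit 363) (nat_lit 275) (nat_lit 262)) (XT.lf (nat_lit 0) (nat_lit 816763298) (nat_lit 76) (nat_lit 1243522318) (nat_lit 152) (nat_lit 24080074619) (nat_lit 11) (nat_lit 5) (nat_lit 12) (nat_lit 5) (nat_lit 13) (nat_lit 4) (nat_lit 364) (nat_lit 275) (nat_lit 261)))) (XT.nd (nat_lit 78) (nat_lit 76) (nat_lit 0) (XT.lf (nat_lit 0) (nat_lit 7003126074) (nat_lit 152) (nat_lit 16584102690) (nat_lit 0) (nat_lit 3600864923) (nat_lit 11) (nat_lit 5) (nat_lit 13) (nat_lit 4) (nat_lit 11) (nat_lit 4) (nat_lit 365) (nat_lit 275) (nat_lit 260)) (XT.nd (nat_lit 78) (nat_lit 76) (nat_lit 0) (XT.lf (nat_lit 0) (nat_lit 12090835948) (nat_lit 152) (nat_lit 7664098612)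 (nat_lit 0) (nat_lit 8538414259) (nat_lit 11) (nat_lit 5) (nat_lit 13) (nat_lit 4) (nat_lit 11) (nat_lit 4) (nat_lit 366) (nat_lit 275) (nat_lit 259)) (XT.lf (nat_lit 0) (nat_lit 1525906816) (nat_lit 76) (nat_lit 15814030830) (nat_lit 76) (nat_lit 12118599104) (nat_lit 10) (nat_lit 4) (nat_lit 11) (nat_lit 5) (nat_lit 11) (nat_lit 4) (nat_lit 367) (nat_lit 275) (nat_lit 258))))) (XT.nd (nat_lit 234) (nat_lit 76) (nat_lit 0) (XT.nd (nat_lit 78) (nat_lit 76) (nat_lit 0) (XT.lf (nat_lit 0) (nat_lit 11220281723) (nat_lit 76) (nat_lit 11646299580) (nat_lit 76) (nat_lit 7814667820) (nat_lit 10) (nat_lit 4) (nat_lit 11) (nat_lit 5) (nat_lit 11) (nat_lit 4) (nat_lit 368) (nat_lit 275) (nat_lit 257)) (XT.nd (nat_lit 78) (nat_lit 76) (nat_lit 0) (XT.lf (nat_lit 0) (nat_lit 21188698242) (nat_lit 76) (nat_lit 7371612860) (nat_lit 76) (nat_lit 3410266782) (nat_lit 10) (nat_lit 4) (nat_lit 11) (nat_lit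 5) (nat_lit 11) (nat_lit 4) (nat_lit 369) (nat_lit 275) (nat_lit 256)) (XT.lf (nat_lit 0) (nat_lit 1069720876) (nat_lit 152) (nat_lit 1891955728) (nat_lit 76) (nat_lit 30367053581) (nat_lit 9) (nat_lit 5) (nat_lit 11) (nat_lit 5) (nat_lit 10) (nat_lit 4) (nat_lit 370) (nat_lit 275) (nat_lit 255)))) (XT.nd (nat_lit 78) (nat_lit 0) (nat_lit 0) (XT.lf (nat_lit 0) (nat_lit 5701781641) (nat_lit 152) (nat_lit 27348730782) (nat_lit 0) (nat_lit 1699364275) (nat_lit 8) (nat_lit 5) (nat_lit 10) (nat_lit 4) (nat_lit 8) (nat_lit 4) (nat_lit 371) (nat_lit 275) (nat_lit 254)) (XT.nd (nat_lit 78) (nat_lit 0) (nat_lit 0) (XT.lf (nat_lit 0) (nat_lit 10546201565) (nat_lit 152) (nat_lit 19259788451) (nat_lit 0) (nat_lit 6437067908) (nat_lit 8) (nat_lit 5) (nat_lit 10) (nat_lit 4) (nat_lit 8) (nat_lit 4) (nat_lit 372) (nat_lit 275) (nat_lit 253)) (XT.lf (nat_lit 0) (nat_lit 15537259240) (nat_lit 152) (nat_lit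 10951941581) (nat_lit 0) (nat_lit 11326491020) (nat_lit 8) (nat_lit 5) (nat_lit 10) (nat_lit 4) (nat_lit 8) (nat_lit 4) (nat_lit 373) (nat_lit 275) (nat_lit 252))))))) (XT.nd (nat_lit 936) (nat_lit 152) (nat_lit 0) (XT.nd (nat_lit 468) (nat_lit 76) (nat_lit 0) (XT.nd (nat_lit 234) (nat_lit 76) (nat_lit 0) (XT.nd (nat_lit 78) (nat_lit 76) (nat_lit 0) (XT.lf (nat_lit 0) (nat_lit 20686838137) (nat_lit 152) (nat_lit 2405409585) (nat_lit 0) (nat_lit 16379275096) (nat_lit 8) (nat_lit 5) (nat_lit 10) (nat_lit 4) (nat_lit 8) (nat_lit 4) (nat_lit 374) (nat_lit 275) (nat_lit 251)) (XT.nd (nat_lit 78) (nat_lit 0) (nat_lit 0) (XT.lf (nat_lit 0) (nat_lit 6611774498) (nat_lit 76) (nat_lit 19498652990) (nat_lit 76) (nat_lit 15098904404) (nat_lit 7) (nat_lit 4) (nat_lit 8) (nat_lit 5) (nat_lit 8) (nat_lit 4) (nat_lit 375) (nat_lit 275) (nat_lit 250)) (XT.lf (nat_lit 0) (nat_lit 15997749984) (nat_lit 76)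 (nat_lit 15763029558) (nat_lit 76) (nat_lit 11275485215) (nat_lit 7) (nat_lit 4) (nat_lit 8) (nat_lit 5) (nat_lit 8) (nat_lit 4) (nat_lit 376) (nat_lit 275) (nat_lit 249)))) (XT.nd (nat_lit 78) (nat_lit 76) (nat_lit 0) (XT.lf (nat_lit 0) (nat_lit 25695330729) (nat_lit 76) (nat_lit 11917219859) (nat_lit 76) (nat_lit 7346060510) (nat_lit 7) (nat_lit 4) (nat_lit 8) (nat_lit 5) (nat_lit 8) (nat_lit 4) (nat_lit 377) (nat_lit 275) (nat_lit 248)) (XT.nd (nat_lit 78) (nat_lit 76) (nat_lit 0) (XT.lf (nat_lit 0) (nat_lit 35727606211) (nat_lit 76) (nat_lit 7952067205) (nat_lit 76) (nat_lit 3301274517) (nat_lit 7) (nat_lit 4) (nat_lit 8) (nat_lit 5) (nat_lit 8) (nat_lit 4) (nat_lit 378) (nat_lit 275) (nat_lit 247)) (XT.lf (nat_lit 0) (nat_lit 840705681) (nat_lit 152) (nat_lit 3003187315) (nat_lit 76) (nat_lit 45263519361) (nat_lit 6) (nat_lit 5) (nat_lit 8) (nat_lit 5) (nat_lit 7) (nat_lit 4) (nat_lit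 379) (nat_lit 275) (nat_lit 246))))) (XT.nd (nat_lit 234) (nat_lit 0) (nat_lit 0) (XT.nd (nat_lit 78) (nat_lit 0) (nat_lit 0) (XT.lf (nat_lit 0) (nat_lit 5104413667) (nat_lit 152) (nat_lit 45697744267) (nat_lit 0) (nat_lit 534067238) (nat_lit 5) (nat_lit 5) (nat_lit 7) (nat_lit 4) (nat_lit 5) (nat_lit 4) (nat_lit 380) (nat_lit 275) (nat_lit 245)) (XT.nd (nat_lit 78) (nat_lit 0) (nat_lit 0) (XT.lf (nat_lit 0) (nat_lit 9625027133) (nat_lit 152) (nat_lit 39060108657) (nat_lit 0) (nat_lit 4989166160) (nat_lit 5) (nat_lit 5) (nat_lit 7) (nat_lit 4) (nat_lit 5) (nat_lit 4) (nat_lit 381) (nat_lit 275) (nat_lit 244)) (XT.lf (nat_lit 0) (nat_lit 14304062926) (nat_lit 152) (nat_lit 32222801795) (nat_lit 0) (nat_lit 9605807147) (nat_lit 5) (nat_lit 5) (nat_lit 7) (nat_lit 4) (nat_lit 5) (nat_lit 4) (nat_lit 382) (nat_lit 275) (nat_lit 243)))) (XT.nd (nat_lit 78) (nat_lit 0) (nat_lit 0) (XT.lf (nat_lit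 0) (nat_lit 19152661605) (nat_lit 152) (nat_lit 25169544378) (nat_lit 0) (nat_lit 14394982202) (nat_lit 5) (nat_lit 5) (nat_lit 7) (nat_lit 4) (nat_lit 5) (nat_lit 4) (nat_lit 383) (nat_lit 275) (nat_lit 242)) (XT.nd (nat_lit 78) (nat_lit 0) (nat_lit 0) (XT.lf (nat_lit 0) (nat_lit 24182367454) (nat_lit 152) (nat_lit 17883542937) (nat_lit 0) (nat_lit 19368094123) (nat_lit 5) (nat_lit 5) (nat_lit 7) (nat_lit 4) (nat_lit 5) (nat_lit 4) (nat_lit 384) (nat_lit 275) (nat_lit 241)) (XT.lf (nat_lit 0) (nat_lit 29405155962) (nat_lit 152) (nat_lit 10347449848) (nat_lit 0) (nat_lit 24536983653) (nat_lit 5) (nat_lit 5) (nat_lit 7) (nat_lit 4) (nat_lit 5) (nat_lit 4) (nat_lit 385) (nat_lit 275) (nat_lit 240)))))) (XT.nd (nat_lit 468) (nat_lit 76) (nat_lit 0) (XT.nd (nat_lit 234) (nat_lit 0) (nat_lit 0) (XT.nd (nat_lit 78) (nat_lit 76) (nat_lit 0) (XT.lf (nat_lit 0) (nat_lit 34833462341) (nat_lit 152)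 (nat_lit 2543322034) (nat_lit 0) (nat_lit 29913957671) (nat_lit 5) (nat_lit 5) (nat_lit 7) (nat_lit 4) (nat_lit 5) (nat_lit 4) (nat_lit 386) (nat_lit 275) (nat_lit 239)) (XT.nd (nat_lit 78) (nat_lit 0) (nat_lit 0) (XT.lf (nat_lit 0) (nat_lit 5730844578) (nat_lit 76) (nat_lit 34838841095) (nat_lit 76) (nat_lit 29870448463) (nat_lit 4) (nat_lit 4) (nat_lit 5) (nat_lit 5) (nat_lit 5) (nat_lit 4) (nat_lit 387) (nat_lit 275) (nat_lit 238)) (XT.lf (nat_lit 0) (nat_lit 14405098324) (nat_lit 76) (nat_lit 32178652596) (nat_lit 76) (nat_lit 27163700000) (nat_lit 4) (nat_lit 4) (nat_lit 5) (nat_lit 5) (nat_lit 5) (nat_lit 4) (nat_lit 388) (nat_lit 275) (nat_lit 237)))) (XT.nd (nat_lit 78) (nat_lit 0) (nat_lit 0) (XT.lf (nat_lit 0) (nat_lit 23415998477) (nat_lit 76) (nat_lit 29432957487) (nat_lit 76) (nat_lit 24373662068) (nat_lit 4) (nat_lit 4) (nat_lit 5) (nat_lit 5) (nat_lit 5) (nat_lit 4) (nat_lit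 389) (nat_lit 275) (nat_lit 236)) (XT.nd (nat_lit 78) (nat_lit 0) (nat_lit 0) (XT.lf (nat_lit 0) (nat_lit 32784999560) (nat_lit 76) (nat_lit 26595218397) (nat_lit 76) (nat_lit 21493691718) (nat_lit 4) (nat_lit 4) (nat_lit 5) (nat_lit 5) (nat_lit 5) (nat_lit 4) (nat_lit 390) (nat_lit 275) (nat_lit 235)) (XT.lf (nat_lit 0) (nat_lit 42534408719) (nat_lit 76) (nat_lit 23658678805) (nat_lit 76) (nat_lit 18516931878) (nat_lit 4) (nat_lit 4) (nat_lit 5) (nat_lit 5) (nat_lit 5) (nat_lit 4) (nat_lit 391) (nat_lit 275) (nat_lit 234))))) (XT.nd (nat_lit 234) (nat_lit 76) (nat_lit 0) (XT.nd (nat_lit 78) (nat_lit 0) (nat_lit 0) (XT.lf (nat_lit 0) (nat_lit 52687438833) (nat_lit 76) (nat_lit 20616346950) (nat_lit 76) (nat_lit 15436295026) (nat_lit 4) (nat_lit 4) (nat_lit 5) (nat_lit 5) (nat_lit 5) (nat_lit 4) (nat_lit 392) (nat_lit 275) (nat_lit 233)) (XT.nd (nat_lit 78) (nat_lit 0) (nat_lit 0) (XT.lf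 (nat_lit 0) (nat_lit 63268263783) (nat_lit 76) (nat_lit 17460979185) (nat_lit 76) (nat_lit 12244446310) (nat_lit 4) (nat_lit 4) (nat_lit 5) (nat_lit 5) (nat_lit 5) (nat_lit 4) (nat_lit 393) (nat_lit 275) (nat_lit 232)) (XT.lf (nat_lit 0) (nat_lit 74302076009) (nat_lit 76) (nat_lit 14185062729) (nat_lit 76) (nat_lit 8933786093) (nat_lit 4) (nat_lit 4) (nat_lit 5) (nat_lit 5) (nat_lit 5) (nat_lit 4) (nat_lit 394) (nat_lit 275) (nat_lit 231)))) (XT.nd (nat_lit 78) (nat_lit 76) (nat_lit 0) (XT.lf (nat_lit 0) (nat_lit 85815146492) (nat_lit 76) (nat_lit 10780797782) (nat_lit 76) (nat_lit 5496431848) (nat_lit 4) (nat_lit 4) (nat_lit 5) (nat_lit 5) (nat_lit 5) (nat_lit 4) (nat_lit 395) (nat_lit 275) (nat_lit 230)) (XT.nd (nat_lit 78) (nat_lit 76) (nat_lit 0) (XT.lf (nat_lit 0) (nat_lit 97834887307) (nat_lit 76) (nat_lit 7240078951) (nat_lit 76) (nat_lit 1924199400) (nat_lit 4) (nat_lit 4) (nat_lit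 5) (nat_lit 5) (nat_lit 5) (nat_lit 4) (nat_lit 396) (nat_lit 275) (nat_lit 229)) (XT.lf (nat_lit 0) (nat_lit 1734080048) (nat_lit 152) (nat_lit 1791028418) (nat_lit 76) (nat_lit 108626469349) (nat_lit 3) (nat_lit 5) (nat_lit 5) (nat_lit 5) (nat_lit 4) (nat_lit 4) (nat_lit 397) (nat_lit 275) (nat_lit 228))))))))
noncomputable def xc42 : XT := (XT.nd (nat_lit 1794) (nat_lit 76) (nat_lit 0) (XT.nd (nat_lit 858) (nat_lit 0) (nat_lit 0) (XT.nd (nat_lit 390) (nat_lit 0) (nat_lit 0) (XT.nd (nat_lit 156) (nat_lit 0) (nat_lit 0) (XT.nd (nat_lit 78) (nat_lit 0) (nat_lit 0) (XT.lf (nat_lit 0) (nat_lit 5580020750) (nat_lit 152) (nat_lit 111515073948) (nat_lit 0) (nat_lit 461471895) (nat_lit 2) (nat_lit 5) (nat_lit 4) (nat_lit 4) (nat_lit 2) (nat_lit 4) (nat_lit 398) (nat_lit 275) (nat_lit 227)) (XT.lf (nat_lit 0) (nat_lit 9674488889) (nat_lit 152) (nat_lit 109024494389) (nat_lit 0) (nat_lit 4530013704)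 (nat_lit 2) (nat_lit 5) (nat_lit 4) (nat_lit 4) (nat_lit 2) (nat_lit 4) (nat_lit 399) (nat_lit 275) (nat_lit 226))) (XT.nd (nat_lit 78) (nat_lit 0) (nat_lit 0) (XT.lf (nat_lit 0) (nat_lit 13942835255) (nat_lit 152) (nat_lit 106470091082) (nat_lit 0) (nat_lit 8773668326) (nat_lit 2) (nat_lit 5) (nat_lit 4) (nat_lit 4) (nat_lit 2) (nat_lit 4) (nat_lit 400) (nat_lit 275) (nat_lit 225)) (XT.nd (nat_lit 78) (nat_lit 0) (nat_lit 0) (XT.lf (nat_lit 0) (nat_lit 18395222577) (nat_lit 152) (nat_lit 103845782116) (nat_lit 0) (nat_lit 13202539703) (nat_lit 2) (nat_lit 5) (nat_lit 4) (nat_lit 4) (nat_lit 2) (nat_lit 4) (nat_lit 401) (nat_lit 275) (nat_lit 224)) (XT.lf (nat_lit 0) (nat_lit 23042251777) (nat_lit 152) (nat_lit 101145319135) (nat_lit 0) (nat_lit 17827172764) (nat_lit 2) (nat_lit 5) (nat_lit 4) (nat_lit 4) (nat_lit 2) (nat_lit 4) (nat_lit 402) (nat_lit 275) (nat_lit 223))))) (XT.nd (nat_lit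 234) (nat_lit 0) (nat_lit 0) (XT.nd (nat_lit 78) (nat_lit 0) (nat_lit 0) (XT.lf (nat_lit 0) (nat_lit 27894987211) (nat_lit 152) (nat_lit 98362272465) (nat_lit 0) (nat_lit 22658578542) (nat_lit 2) (nat_lit 5) (nat_lit 4) (nat_lit 4) (nat_lit 2) (nat_lit 4) (nat_lit 403) (nat_lit 275) (nat_lit 222)) (XT.nd (nat_lit 78) (nat_lit 0) (nat_lit 0) (XT.lf (nat_lit 0) (nat_lit 32964983011) (nat_lit 152) (nat_lit 95490015806) (nat_lit 0) (nat_lit 27708260384) (nat_lit 2) (nat_lit 5) (nat_lit 4) (nat_lit 4) (nat_lit 2) (nat_lit 4) (nat_lit 404) (nat_lit 275) (nat_lit 221)) (XT.lf (nat_lit 0) (nat_lit 38264310595) (nat_lit 152) (nat_lit 92521710450) (nat_lit 0) (nat_lit 32988241341) (nat_lit 2) (nat_lit 5) (nat_lit 4) (nat_lit 4) (nat_lit 2) (nat_lit 4) (nat_lit 405) (nat_lit 275) (nat_lit 220)))) (XT.nd (nat_lit 78) (nat_lit 0) (nat_lit 0) (XT.lf (nat_lit 0) (nat_lit 43805587410) (nat_lit 152) (nat_lit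 89450289005) (nat_lit 0) (nat_lit 38511092797) (nat_lit 2) (nat_lit 5) (nat_lit 4) (nat_lit 4) (nat_lit 2) (nat_lit 4) (nat_lit 406) (nat_lit 275) (nat_lit 219)) (XT.nd (nat_lit 78) (nat_lit 0) (nat_lit 0) (XT.lf (nat_lit 0) (nat_lit 49602006972) (nat_lit 152) (nat_lit 86268438561) (nat_lit 0) (nat_lit 44289964399) (nat_lit 2) (nat_lit 5) (nat_lit 4) (nat_lit 4) (nat_lit 2) (nat_lit 4) (nat_lit 407) (nat_lit 275) (nat_lit 218)) (XT.lf (nat_lit 0) (nat_lit 55667370281) (nat_lit 152) (nat_lit 82968583285) (nat_lit 0) (nat_lit 50338615363) (nat_lit 2) (nat_lit 5) (nat_lit 4) (nat_lit 4) (nat_lit 2) (nat_lit 4) (nat_lit 408) (nat_lit 275) (nat_lit 217)))))) (XT.nd (nat_lit 468) (nat_lit 0) (nat_lit 0) (XT.nd (nat_lit 234) (nat_lit 0) (nat_lit 0) (XT.nd (nat_lit 78) (nat_lit 0) (nat_lit 0) (XT.lf (nat_lit 0) (nat_lit 62016118676) (nat_lit 152) (nat_lit 79542866378) (nat_lit 0) (nat_lit 56671447241)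 (nat_lit 2) (nat_lit 5) (nat_lit 4) (nat_lit 4) (nat_lit 2) (nat_lit 4) (nat_lit 409) (nat_lit 275) (nat_lit 216)) (XT.nd (nat_lit 78) (nat_lit 0) (nat_lit 0) (XT.lf (nat_lit 0) (nat_lit 68663368226) (nat_lit 152) (nat_lit 75983131371) (nat_lit 0) (nat_lit 63303538203) (nat_lit 2) (nat_lit 5) (nat_lit 4) (nat_lit 4) (nat_lit 2) (nat_lit 4) (nat_lit 410) (nat_lit 275) (nat_lit 215)) (XT.lf (nat_lit 0) (nat_lit 75624945716) (nat_lit 152) (nat_lit 72280902705) (nat_lit 0) (nat_lit 70250678942) (nat_lit 2) (nat_lit 5) (nat_lit 4) (nat_lit 4) (nat_lit 2) (nat_lit 4) (nat_lit 411) (nat_lit 275) (nat_lit 214)))) (XT.nd (nat_lit 78) (nat_lit 0) (nat_lit 0) (XT.lf (nat_lit 0) (nat_lit 82917426330) (nat_lit 152) (nat_lit 68427365549) (nat_lit 0) (nat_lit 77529410270) (nat_lit 2) (nat_lit 5) (nat_lit 4) (nat_lit 4) (nat_lit 2) (nat_lit 4) (nat_lit 412) (nat_lit 275) (nat_lit 213)) (XT.nd (nat_lit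 78) (nat_lit 0) (nat_lit 0) (XT.lf (nat_lit 0) (nat_lit 90558173117) (nat_lit 152) (nat_lit 64413344816) (nat_lit 0) (nat_lit 85157062498) (nat_lit 2) (nat_lit 5) (nat_lit 4) (nat_lit 4) (nat_lit 2) (nat_lit 4) (nat_lit 413) (nat_lit 275) (nat_lit 212)) (XT.lf (nat_lit 0) (nat_lit 98565378332) (nat_lit 152) (nat_lit 60229283313) (nat_lit 0) (nat_lit 93151796705) (nat_lit 2) (nat_lit 5) (nat_lit 4) (nat_lit 4) (nat_lit 2) (nat_lit 4) (nat_lit 414) (nat_lit 275) (nat_lit 211))))) (XT.nd (nat_lit 234) (nat_lit 0) (nat_lit 0) (XT.nd (nat_lit 78) (nat_lit 0) (nat_lit 0) (XT.lf (nat_lit 0) (nat_lit 106958106748) (nat_lit 152) (nat_lit 55865218988) (nat_lit 0) (nat_lit 101532647970) (nat_lit 2) (nat_lit 5) (nat_lit 4) (nat_lit 4) (nat_lit 2) (nat_lit 4) (nat_lit 415) (nat_lit 275) (nat_lit 210)) (XT.nd (nat_lit 78) (nat_lit 0) (nat_lit 0) (XT.lf (nat_lit 0) (nat_lit 115756341052) (nat_lit 152)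 (nat_lit 51310761213) (nat_lit 0) (nat_lit 110319570703) (nat_lit 2) (nat_lit 5) (nat_lit 4) (nat_lit 4) (nat_lit 2) (nat_lit 4) (nat_lit 416) (nat_lit 275) (nat_lit 209)) (XT.lf (nat_lit 0) (nat_lit 124981029422) (nat_lit 152) (nat_lit 46555066041) (nat_lit 0) (nat_lit 119533486147) (nat_lit 2) (nat_lit 5) (nat_lit 4) (nat_lit 4) (nat_lit 2) (nat_lit 4) (nat_lit 417) (nat_lit 275) (nat_lit 208)))) (XT.nd (nat_lit 78) (nat_lit 0) (nat_lit 0) (XT.lf (nat_lit 0) (nat_lit 134654135401) (nat_lit 152) (nat_lit 41586810386) (nat_lit 0) (nat_lit 129196332196) (nat_lit 2) (nat_lit 5) (nat_lit 4) (nat_lit 4) (nat_lit 2) (nat_lit 4) (nat_lit 418) (nat_lit 275) (nat_lit 207)) (XT.nd (nat_lit 78) (nat_lit 0) (nat_lit 0) (XT.lf (nat_lit 0) (nat_lit 144798690194) (nat_lit 152) (nat_lit 36394165071) (nat_lit 0) (nat_lit 139331115628) (nat_lit 2) (nat_lit 5) (nat_lit 4) (nat_lit 4) (nat_lit 2) (nat_lit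 4) (nat_lit 419) (nat_lit 275) (nat_lit 206)) (XT.lf (nat_lit 0) (nat_lit 155438847502) (nat_lit 152) (nat_lit 30964766652) (nat_lit 0) (nat_lit 149961966878) (nat_lit 2) (nat_lit 5) (nat_lit 4) (nat_lit 4) (nat_lit 2) (nat_lit 4) (nat_lit 420) (nat_lit 275) (nat_lit 205))))))) (XT.nd (nat_lit 936) (nat_lit 0) (nat_lit 0) (XT.nd (nat_lit 468) (nat_lit 0) (nat_lit 0) (XT.nd (nat_lit 234) (nat_lit 76) (nat_lit 0) (XT.nd (nat_lit 78) (nat_lit 0) (nat_lit 0) (XT.lf (nat_lit 0) (nat_lit 166599941034) (nat_lit 152) (nat_lit 25285687992) (nat_lit 0) (nat_lit 161114197497) (nat_lit 2) (nat_lit 5) (nat_lit 4) (nat_lit 4) (nat_lit 2) (nat_lit 4) (nat_lit 421) (nat_lit 275) (nat_lit 204)) (XT.nd (nat_lit 78) (nat_lit 0) (nat_lit 0) (XT.lf (nat_lit 0) (nat_lit 178308544822) (nat_lit 152) (nat_lit 19343407474) (nat_lit 0) (nat_lit 172814360415) (nat_lit 2) (nat_lit 5) (nat_lit 4) (nat_lit 4) (nat_lit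 2) (nat_lit 4) (nat_lit 422) (nat_lit 275) (nat_lit 203)) (XT.lf (nat_lit 0) (nat_lit 190592536493) (nat_lit 152) (nat_lit 13123776811) (nat_lit 0) (nat_lit 185090313164) (nat_lit 2) (nat_lit 5) (nat_lit 4) (nat_lit 4) (nat_lit 2) (nat_lit 4) (nat_lit 423) (nat_lit 275) (nat_lit 202)))) (XT.nd (nat_lit 78) (nat_lit 76) (nat_lit 0) (XT.lf (nat_lit 0) (nat_lit 203481163647) (nat_lit 152) (nat_lit 6611987359) (nat_lit 0) (nat_lit 197971284201) (nat_lit 2) (nat_lit 5) (nat_lit 4) (nat_lit 4) (nat_lit 2) (nat_lit 4) (nat_lit 424) (nat_lit 275) (nat_lit 201)) (XT.nd (nat_lit 78) (nat_lit 0) (nat_lit 0) (XT.lf (nat_lit 0) (nat_lit 214324876) (nat_lit 76) (nat_lit 216794134828) (nat_lit 76) (nat_lit 211276963842) (nat_lit 1) (nat_lit 4) (nat_lit 2) (nat_lit 5) (nat_lit 2) (nat_lit 4) (nat_lit 425) (nat_lit 275) (nat_lit 200)) (XT.lf (nat_lit 0) (nat_lit 7593868707) (nat_lit 76) (nat_lit 223721278773)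 (nat_lit 76) (nat_lit 218197163462) (nat_lit 1) (nat_lit 4) (nat_lit 2) (nat_lit 5) (nat_lit 2) (nat_lit 4) (nat_lit 426) (nat_lit 275) (nat_lit 199))))) (XT.nd (nat_lit 234) (nat_lit 0) (nat_lit 0) (XT.nd (nat_lit 78) (nat_lit 0) (nat_lit 0) (XT.lf (nat_lit 0) (nat_lit 15325592314) (nat_lit 76) (nat_lit 231003053247) (nat_lit 76) (nat_lit 225472324294) (nat_lit 1) (nat_lit 4) (nat_lit 2) (nat_lit 5) (nat_lit 2) (nat_lit 4) (nat_lit 427) (nat_lit 275) (nat_lit 198)) (XT.nd (nat_lit 78) (nat_lit 0) (nat_lit 0) (XT.lf (nat_lit 0) (nat_lit 23427904563) (nat_lit 76) (nat_lit 238656795808) (nat_lit 76) (nat_lit 233119768149) (nat_lit 1) (nat_lit 4) (nat_lit 2) (nat_lit 5) (nat_lit 2) (nat_lit 4) (nat_lit 428) (nat_lit 275) (nat_lit 197)) (XT.lf (nat_lit 0) (nat_lit 31920096671) (nat_lit 76) (nat_lit 246700729653) (nat_lit 76) (nat_lit 241157703226) (nat_lit 1) (nat_lit 4) (nat_lit 2) (nat_lit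 5) (nat_lit 2) (nat_lit 4) (nat_lit 429) (nat_lit 275) (nat_lit 196)))) (XT.nd (nat_lit 78) (nat_lit 0) (nat_lit 0) (XT.lf (nat_lit 0) (nat_lit 40822388146) (nat_lit 76) (nat_lit 255154007006) (nat_lit 76) (nat_lit 249605267466) (nat_lit 1) (nat_lit 4) (nat_lit 2) (nat_lit 5) (nat_lit 2) (nat_lit 4) (nat_lit 430) (nat_lit 275) (nat_lit 195)) (XT.nd (nat_lit 78) (nat_lit 0) (nat_lit 0) (XT.lf (nat_lit 0) (nat_lit 50155974918) (nat_lit 76) (nat_lit 264036754716) (nat_lit 76) (nat_lit 258482574117) (nat_lit 1) (nat_lit 4) (nat_lit 2) (nat_lit 5) (nat_lit 2) (nat_lit 4) (nat_lit 431) (nat_lit 275) (nat_lit 194)) (XT.lf (nat_lit 0) (nat_lit 59943079814) (nat_lit 76) (nat_lit 273370122185) (nat_lit 76) (nat_lit 267810759624) (nat_lit 1) (nat_lit 4) (nat_lit 2) (nat_lit 5) (nat_lit 2) (nat_lit 4) (nat_lit 432) (nat_lit 275) (nat_lit 193)))))) (XT.nd (nat_lit 40326) (nat_lit 0) (nat_lit 1368) (XT.nd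 (nat_lit 234) (nat_lit 0) (nat_lit 0) (XT.nd (nat_lit 78) (nat_lit 0) (nat_lit 0) (XT.lf (nat_lit 0) (nat_lit 70207005464) (nat_lit 76) (nat_lit 283176331714) (nat_lit 76) (nat_lit 277612033952) (nat_lit 1) (nat_lit 4) (nat_lit 2) (nat_lit 5) (nat_lit 2) (nat_lit 4) (nat_lit 433) (nat_lit 275) (nat_lit 192)) (XT.nd (nat_lit 78) (nat_lit 0) (nat_lit 0) (XT.lf (nat_lit 0) (nat_lit 80972189787) (nat_lit 76) (nat_lit 293478731422) (nat_lit 76) (nat_lit 287909733468) (nat_lit 1) (nat_lit 4) (nat_lit 2) (nat_lit 5) (nat_lit 2) (nat_lit 4) (nat_lit 434) (nat_lit 275) (nat_lit 191)) (XT.lf (nat_lit 0) (nat_lit 92264264173) (nat_lit 76) (nat_lit 304301850832) (nat_lit 76) (nat_lit 298728376505) (nat_lit 1) (nat_lit 4) (nat_lit 2) (nat_lit 5) (nat_lit 2) (nat_lit 4) (nat_lit 435) (nat_lit 275) (nat_lit 190)))) (XT.nd (nat_lit 78) (nat_lit 0) (nat_lit 0) (XT.lf (nat_lit 0) (nat_lit 104110114514) (nat_lit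 76) (nat_lit 315671459276) (nat_lit 76) (nat_lit 310093721737) (nat_lit 1) (nat_lit 4) (nat_lit 2) (nat_lit 5) (nat_lit 2) (nat_lit 4) (nat_lit 436) (nat_lit 275) (nat_lit 189)) (XT.nd (nat_lit 39936) (nat_lit 0) (nat_lit 1824) (XT.lf (nat_lit 0) (nat_lit 116537945216) (nat_lit 76) (nat_lit 327614627251) (nat_lit 76) (nat_lit 322032829509) (nat_lit 1) (nat_lit 4) (nat_lit 2) (nat_lit 5) (nat_lit 2) (nat_lit 4) (nat_lit 437) (nat_lit 275) (nat_lit 188)) (XT.lf (nat_lit 0) (nat_lit 6221559580) (nat_lit 152) (nat_lit 620167078) (nat_lit 152) (nat_lit 620167078) (nat_lit 25) (nat_lit 4) (nat_lit 27) (nat_lit 5) (nat_lit 27) (nat_lit 4) (nat_lit 348) (nat_lit 276) (nat_lit 276))))) (XT.nd (nat_lit 234) (nat_lit 228) (nat_lit 0) (XT.nd (nat_lit 78) (nat_lit 76) (nat_lit 0) (XT.lf (nat_lit 0) (nat_lit 3913044949) (nat_lit 152) (nat_lit 7962006098) (nat_lit 0) (nat_lit 3514624338) (nat_lit 23)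 (nat_lit 5) (nat_lit 25) (nat_lit 4) (nat_lit 23) (nat_lit 4) (nat_lit 349) (nat_lit 276) (nat_lit 275)) (XT.nd (nat_lit 78) (nat_lit 0) (nat_lit 0) (XT.lf (nat_lit 0) (nat_lit 1728536293) (nat_lit 76) (nat_lit 7465815236) (nat_lit 76) (nat_lit 6687946425) (nat_lit 22) (nat_lit 4) (nat_lit 23) (nat_lit 5) (nat_lit 23) (nat_lit 4) (nat_lit 350) (nat_lit 276) (nat_lit 274)) (XT.lf (nat_lit 0) (nat_lit 11859068224) (nat_lit 76) (nat_lit 2840885698) (nat_lit 76) (nat_lit 1701637649) (nat_lit 22) (nat_lit 4) (nat_lit 23) (nat_lit 5) (nat_lit 23) (nat_lit 4) (nat_lit 351) (nat_lit 276) (nat_lit 273)))) (XT.nd (nat_lit 78) (nat_lit 76) (nat_lit 0) (XT.lf (nat_lit 0) (nat_lit 3366919908) (nat_lit 152) (nat_lit 11625775561) (nat_lit 0) (nat_lit 1954140143) (nat_lit 20) (nat_lit 5) (nat_lit 22) (nat_lit 4) (nat_lit 20) (nat_lit 4) (nat_lit 352) (nat_lit 276) (nat_lit 272)) (XT.nd (nat_lit 78) (nat_lit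 76) (nat_lit 0) (XT.lf (nat_lit 0) (nat_lit 8588488606) (nat_lit 152) (nat_lit 2068128567) (nat_lit 0) (nat_lit 6863535867) (nat_lit 20) (nat_lit 5) (nat_lit 22) (nat_lit 4) (nat_lit 20) (nat_lit 4) (nat_lit 353) (nat_lit 276) (nat_lit 271)) (XT.lf (nat_lit 0) (nat_lit 7923445036) (nat_lit 76) (nat_lit 6111404144) (nat_lit 76) (nat_lit 4089143811) (nat_lit 19) (nat_lit 4) (nat_lit 20) (nat_lit 5) (nat_lit 20) (nat_lit 4) (nat_lit 354) (nat_lit 276) (nat_lit 270))))))))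
noncomputable def xc43 : XT := (XT.nd (nat_lit 1794) (nat_lit 380) (nat_lit 0) (XT.nd (nat_lit 858) (nat_lit 304) (nat_lit 0) (XT.nd (nat_lit 390) (nat_lit 304) (nat_lit 0) (XT.nd (nat_lit 156) (nat_lit 152) (nat_lit 0) (XT.nd (nat_lit 78) (nat_lit 76) (nat_lit 0) (XT.lf (nat_lit 0) (nat_lit 839681833) (nat_lit 152) (nat_lit 584062662) (nat_lit 76) (nat_lit 17339739640) (nat_lit 18) (nat_lit 5) (nat_lit 20) (nat_lit 5) (nat_lit 19) (nat_lit 4) (nat_lit 355) (nat_lit 276) (nat_lit 269)) (XT.lf (nat_lit 0) (nat_lit 5929426864) (nat_lit 152) (nat_lit 10022640359) (nat_lit 0) (nat_lit 3476972412) (nat_lit 17) (nat_lit 5) (nat_lit 19) (nat_lit 4) (nat_lit 17) (nat_lit 4) (nat_lit 356) (nat_lit 276) (nat_lit 268))) (XT.nd (nat_lit 78) (nat_lit 152) (nat_lit 0) (XT.lf (nat_lit 0) (nat_lit 11155935656) (nat_lit 152) (nat_lit 518972737) (nat_lit 0) (nat_lit 8458885511) (nat_lit 17) (nat_lit 5) (nat_lit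 19) (nat_lit 4) (nat_lit 17) (nat_lit 4) (nat_lit 357) (nat_lit 276) (nat_lit 267)) (XT.nd (nat_lit 78) (nat_lit 76) (nat_lit 0) (XT.lf (nat_lit 0) (nat_lit 9492503547) (nat_lit 76) (nat_lit 7155549875) (nat_lit 76) (nat_lit 4225551451) (nat_lit 16) (nat_lit 4) (nat_lit 17) (nat_lit 5) (nat_lit 17) (nat_lit 4) (nat_lit 358) (nat_lit 276) (nat_lit 266)) (XT.lf (nat_lit 0) (nat_lit 605259838) (nat_lit 152) (nat_lit 1911071258) (nat_lit 76) (nat_lit 19140240986) (nat_lit 15) (nat_lit 5) (nat_lit 17) (nat_lit 5) (nat_lit 16) (nat_lit 4) (nat_lit 359) (nat_lit 276) (nat_lit 265))))) (XT.nd (nat_lit 234) (nat_lit 152) (nat_lit 0) (XT.nd (nat_lit 78) (nat_lit 76) (nat_lit 0) (XT.lf (nat_lit 0) (nat_lit 5561164740) (nat_lit 152) (nat_lit 14554640417) (nat_lit 0) (nat_lit 2358169612) (nat_lit 14) (nat_lit 5) (nat_lit 16) (nat_lit 4) (nat_lit 14) (nat_lit 4) (nat_lit 360) (nat_lit 276) (nat_lit 264))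 (XT.nd (nat_lit 78) (nat_lit 76) (nat_lit 0) (XT.lf (nat_lit 0) (nat_lit 10702929630) (nat_lit 152) (nat_lit 5324154629) (nat_lit 0) (nat_lit 7308287376) (nat_lit 14) (nat_lit 5) (nat_lit 16) (nat_lit 4) (nat_lit 14) (nat_lit 4) (nat_lit 361) (nat_lit 276) (nat_lit 263)) (XT.lf (nat_lit 0) (nat_lit 4257107858) (nat_lit 76) (nat_lit 11781538314) (nat_lit 76) (nat_lit 8204374987) (nat_lit 13) (nat_lit 4) (nat_lit 14) (nat_lit 5) (nat_lit 14) (nat_lit 4) (nat_lit 362) (nat_lit 276) (nat_lit 262)))) (XT.nd (nat_lit 78) (nat_lit 152) (nat_lit 0) (XT.lf (nat_lit 0) (nat_lit 14259258368) (nat_lit 76) (nat_lit 7344832666) (nat_lit 76) (nat_lit 3593839746) (nat_lit 13) (nat_lit 4) (nat_lit 14) (nat_lit 5) (nat_lit 14) (nat_lit 4) (nat_lit 363) (nat_lit 276) (nat_lit 261)) (XT.nd (nat_lit 78) (nat_lit 76) (nat_lit 0) (XT.lf (nat_lit 0) (nat_lit 1084127881) (nat_lit 152) (nat_lit 1694082754) (nat_lit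 76) (nat_lit 23427582835) (nat_lit 12) (nat_lit 5) (nat_lit 14) (nat_lit 5) (nat_lit 13) (nat_lit 4) (nat_lit 364) (nat_lit 276) (nat_lit 260)) (XT.lf (nat_lit 0) (nat_lit 5915402428) (nat_lit 152) (nat_lit 19308514102) (nat_lit 0) (nat_lit 2035199116) (nat_lit 11) (nat_lit 5) (nat_lit 13) (nat_lit 4) (nat_lit 11) (nat_lit 4) (nat_lit 365) (nat_lit 276) (nat_lit 259)))))) (XT.nd (nat_lit 468) (nat_lit 76) (nat_lit 0) (XT.nd (nat_lit 234) (nat_lit 152) (nat_lit 0) (XT.nd (nat_lit 78) (nat_lit 76) (nat_lit 0) (XT.lf (nat_lit 0) (nat_lit 10946128228) (nat_lit 152) (nat_lit 10498186805) (nat_lit 0) (nat_lit 6922914880) (nat_lit 11) (nat_lit 5) (nat_lit 13) (nat_lit 4) (nat_lit 11) (nat_lit 4) (nat_lit 366) (nat_lit 276) (nat_lit 258)) (XT.nd (nat_lit 78) (nat_lit 76) (nat_lit 0) (XT.lf (nat_lit 0) (nat_lit 16117135698) (nat_lit 152) (nat_lit 1461474000) (nat_lit 0) (nat_lit 11957722316) (nat_lit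 11) (nat_lit 5) (nat_lit 13) (nat_lit 4) (nat_lit 11) (nat_lit 4) (nat_lit 367) (nat_lit 276) (nat_lit 257)) (XT.lf (nat_lit 0) (nat_lit 8081808642) (nat_lit 76) (nat_lit 13485107800) (nat_lit 76) (nat_lit 9195980099) (nat_lit 10) (nat_lit 4) (nat_lit 11) (nat_lit 5) (nat_lit 11) (nat_lit 4) (nat_lit 368) (nat_lit 276) (nat_lit 256)))) (XT.nd (nat_lit 78) (nat_lit 152) (nat_lit 0) (XT.lf (nat_lit 0) (nat_lit 17952349605) (nat_lit 76) (nat_lit 9257543539) (nat_lit 76) (nat_lit 4844878392) (nat_lit 10) (nat_lit 4) (nat_lit 11) (nat_lit 5) (nat_lit 11) (nat_lit 4) (nat_lit 369) (nat_lit 276) (nat_lit 255)) (XT.nd (nat_lit 78) (nat_lit 152) (nat_lit 0) (XT.lf (nat_lit 0) (nat_lit 28125327245) (nat_lit 76) (nat_lit 4910602055) (nat_lit 76) (nat_lit 380282198) (nat_lit 10) (nat_lit 4) (nat_lit 11) (nat_lit 5) (nat_lit 11) (nat_lit 4) (nat_lit 370) (nat_lit 276) (nat_lit 254)) (XT.lf (nat_lit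 0) (nat_lit 3831429125) (nat_lit 76) (nat_lit 302132381) (nat_lit 152) (nat_lit 30710620205) (nat_lit 8) (nat_lit 5) (nat_lit 9) (nat_lit 5) (nat_lit 10) (nat_lit 4) (nat_lit 371) (nat_lit 276) (nat_lit 253))))) (XT.nd (nat_lit 234) (nat_lit 76) (nat_lit 0) (XT.nd (nat_lit 78) (nat_lit 0) (nat_lit 0) (XT.lf (nat_lit 0) (nat_lit 8926638323) (nat_lit 152) (nat_lit 23009601696) (nat_lit 0) (nat_lit 4403697129) (nat_lit 8) (nat_lit 5) (nat_lit 10) (nat_lit 4) (nat_lit 8) (nat_lit 4) (nat_lit 372) (nat_lit 276) (nat_lit 252)) (XT.nd (nat_lit 78) (nat_lit 0) (nat_lit 0) (XT.lf (nat_lit 0) (nat_lit 13873290310) (nat_lit 152) (nat_lit 14787953469) (nat_lit 0) (nat_lit 9253554294) (nat_lit 8) (nat_lit 5) (nat_lit 10) (nat_lit 4) (nat_lit 8) (nat_lit 4) (nat_lit 373) (nat_lit 276) (nat_lit 251)) (XT.lf (nat_lit 0) (nat_lit 18980578075) (nat_lit 152) (nat_lit 6323515418) (nat_lit 0) (nat_lit 14268656515)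 (nat_lit 8) (nat_lit 5) (nat_lit 10) (nat_lit 4) (nat_lit 8) (nat_lit 4) (nat_lit 374) (nat_lit 276) (nat_lit 250)))) (XT.nd (nat_lit 78) (nat_lit 0) (nat_lit 0) (XT.lf (nat_lit 0) (nat_lit 2483348542) (nat_lit 76) (nat_lit 21816085316) (nat_lit 76) (nat_lit 17016368000) (nat_lit 7) (nat_lit 4) (nat_lit 8) (nat_lit 5) (nat_lit 8) (nat_lit 4) (nat_lit 375) (nat_lit 276) (nat_lit 249)) (XT.nd (nat_lit 78) (nat_lit 0) (nat_lit 0) (XT.lf (nat_lit 0) (nat_lit 11792400362) (nat_lit 76) (nat_lit 18117825252) (nat_lit 76) (nat_lit 13234492929) (nat_lit 7) (nat_lit 4) (nat_lit 8) (nat_lit 5) (nat_lit 8) (nat_lit 4) (nat_lit 376) (nat_lit 276) (nat_lit 248)) (XT.lf (nat_lit 0) (nat_lit 21416720473) (nat_lit 76) (nat_lit 14307599714) (nat_lit 76) (nat_lit 9344634052) (nat_lit 7) (nat_lit 4) (nat_lit 8) (nat_lit 5) (nat_lit 8) (nat_lit 4) (nat_lit 377) (nat_lit 276) (nat_lit 247))))))) (XT.nd (nat_lit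 936) (nat_lit 152) (nat_lit 0) (XT.nd (nat_lit 468) (nat_lit 76) (nat_lit 0) (XT.nd (nat_lit 234) (nat_lit 0) (nat_lit 0) (XT.nd (nat_lit 78) (nat_lit 152) (nat_lit 0) (XT.lf (nat_lit 0) (nat_lit 31379223922) (nat_lit 76) (nat_lit 10376336736) (nat_lit 76) (nat_lit 5337529799) (nat_lit 7) (nat_lit 4) (nat_lit 8) (nat_lit 5) (nat_lit 8) (nat_lit 4) (nat_lit 378) (nat_lit 276) (nat_lit 246)) (XT.nd (nat_lit 78) (nat_lit 152) (nat_lit 0) (XT.lf (nat_lit 0) (nat_lit 41703630957) (nat_lit 76) (nat_lit 6314676169) (nat_lit 76) (nat_lit 1203639445) (nat_lit 7) (nat_lit 4) (nat_lit 8) (nat_lit 5) (nat_lit 8) (nat_lit 4) (nat_lit 379) (nat_lit 276) (nat_lit 245)) (XT.lf (nat_lit 0) (nat_lit 936007719) (nat_lit 76) (nat_lit 2047326288) (nat_lit 152) (nat_lit 48474132463) (nat_lit 5) (nat_lit 5) (nat_lit 6) (nat_lit 5) (nat_lit 7) (nat_lit 4) (nat_lit 380) (nat_lit 276) (nat_lit 244)))) (XT.nd (nat_lit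 78) (nat_lit 0) (nat_lit 0) (XT.lf (nat_lit 0) (nat_lit 7439003291) (nat_lit 152) (nat_lit 43916351581) (nat_lit 0) (nat_lit 2443439918) (nat_lit 5) (nat_lit 5) (nat_lit 7) (nat_lit 4) (nat_lit 5) (nat_lit 4) (nat_lit 381) (nat_lit 276) (nat_lit 243)) (XT.nd (nat_lit 78) (nat_lit 0) (nat_lit 0) (XT.lf (nat_lit 0) (nat_lit 12086629862) (nat_lit 152) (nat_lit 37140466567) (nat_lit 0) (nat_lit 7031642866) (nat_lit 5) (nat_lit 5) (nat_lit 7) (nat_lit 4) (nat_lit 5) (nat_lit 4) (nat_lit 382) (nat_lit 276) (nat_lit 242)) (XT.lf (nat_lit 0) (nat_lit 16905314998) (nat_lit 152) (nat_lit 30145706148) (nat_lit 0) (nat_lit 11793734074) (nat_lit 5) (nat_lit 5) (nat_lit 7) (nat_lit 4) (nat_lit 5) (nat_lit 4) (nat_lit 383) (nat_lit 276) (nat_lit 241))))) (XT.nd (nat_lit 234) (nat_lit 76) (nat_lit 0) (XT.nd (nat_lit 78) (nat_lit 0) (nat_lit 0) (XT.lf (nat_lit 0) (nat_lit 21906531757) (nat_lit 152) (nat_lit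 22915416134) (nat_lit 0) (nat_lit 16741051855) (nat_lit 5) (nat_lit 5) (nat_lit 7) (nat_lit 4) (nat_lit 5) (nat_lit 4) (nat_lit 384) (nat_lit 276) (nat_lit 240)) (XT.nd (nat_lit 78) (nat_lit 0) (nat_lit 0) (XT.lf (nat_lit 0) (nat_lit 27102187800) (nat_lit 152) (nat_lit 15432381547) (nat_lit 0) (nat_lit 21885375537) (nat_lit 5) (nat_lit 5) (nat_lit 7) (nat_lit 4) (nat_lit 5) (nat_lit 4) (nat_lit 385) (nat_lit 276) (nat_lit 239)) (XT.lf (nat_lit 0) (nat_lit 32504653735) (nat_lit 152) (nat_lit 7678785639) (nat_lit 0) (nat_lit 27238953509) (nat_lit 5) (nat_lit 5) (nat_lit 7) (nat_lit 4) (nat_lit 5) (nat_lit 4) (nat_lit 386) (nat_lit 276) (nat_lit 238)))) (XT.nd (nat_lit 78) (nat_lit 0) (nat_lit 0) (XT.lf (nat_lit 0) (nat_lit 375862478) (nat_lit 76) (nat_lit 37756798365) (nat_lit 76) (nat_lit 32444538175) (nat_lit 4) (nat_lit 4) (nat_lit 5) (nat_lit 5) (nat_lit 5) (nat_lit 4) (nat_lit 387) (nat_lit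 276) (nat_lit 237)) (XT.nd (nat_lit 78) (nat_lit 0) (nat_lit 0) (XT.lf (nat_lit 0) (nat_lit 9002766819) (nat_lit 76) (nat_lit 35119781971) (nat_lit 76) (nat_lit 29763178958) (nat_lit 4) (nat_lit 4) (nat_lit 5) (nat_lit 5) (nat_lit 5) (nat_lit 4) (nat_lit 388) (nat_lit 276) (nat_lit 236)) (XT.lf (nat_lit 0) (nat_lit 17968572300) (nat_lit 76) (nat_lit 32396155532) (nat_lit 76) (nat_lit 26997321259) (nat_lit 4) (nat_lit 4) (nat_lit 5) (nat_lit 5) (nat_lit 5) (nat_lit 4) (nat_lit 389) (nat_lit 276) (nat_lit 235)))))) (XT.nd (nat_lit 468) (nat_lit 152) (nat_lit 0) (XT.nd (nat_lit 234) (nat_lit 0) (nat_lit 0) (XT.nd (nat_lit 78) (nat_lit 0) (nat_lit 0) (XT.lf (nat_lit 0) (nat_lit 27294626076) (nat_lit 76) (nat_lit 29579434223) (nat_lit 76) (nat_lit 24140379703) (nat_lit 4) (nat_lit 4) (nat_lit 5) (nat_lit 5) (nat_lit 5) (nat_lit 4) (nat_lit 390) (nat_lit 276) (nat_lit 234)) (XT.nd (nat_lit 78)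 (nat_lit 0) (nat_lit 0) (XT.lf (nat_lit 0) (nat_lit 37003133039) (nat_lit 76) (nat_lit 26662911567) (nat_lit 76) (nat_lit 21185552048) (nat_lit 4) (nat_lit 4) (nat_lit 5) (nat_lit 5) (nat_lit 5) (nat_lit 4) (nat_lit 391) (nat_lit 276) (nat_lit 233)) (XT.lf (nat_lit 0) (nat_lit 47117208679) (nat_lit 76) (nat_lit 23639643459) (nat_lit 76) (nat_lit 18125802991) (nat_lit 4) (nat_lit 4) (nat_lit 5) (nat_lit 5) (nat_lit 5) (nat_lit 4) (nat_lit 392) (nat_lit 276) (nat_lit 232)))) (XT.nd (nat_lit 78) (nat_lit 0) (nat_lit 0) (XT.lf (nat_lit 0) (nat_lit 57660934131) (nat_lit 76) (nat_lit 20502431644) (nat_lit 76) (nat_lit 14953847414) (nat_lit 4) (nat_lit 4) (nat_lit 5) (nat_lit 5) (nat_lit 5) (nat_lit 4) (nat_lit 393) (nat_lit 276) (nat_lit 231)) (XT.nd (nat_lit 78) (nat_lit 0) (nat_lit 0) (XT.lf (nat_lit 0) (nat_lit 68659413502) (nat_lit 76) (nat_lit 17243806570) (nat_lit 76) (nat_lit 11662133042)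 (nat_lit 4) (nat_lit 4) (nat_lit 5) (nat_lit 5) (nat_lit 5) (nat_lit 4) (nat_lit 394) (nat_lit 276) (nat_lit 230)) (XT.lf (nat_lit 0) (nat_lit 80138833647) (nat_lit 76) (nat_lit 13856009605) (nat_lit 76) (nat_lit 8242822460) (nat_lit 4) (nat_lit 4) (nat_lit 5) (nat_lit 5) (nat_lit 5) (nat_lit 4) (nat_lit 395) (nat_lit 276) (nat_lit 229))))) (XT.nd (nat_lit 234) (nat_lit 76) (nat_lit 0) (XT.nd (nat_lit 78) (nat_lit 76) (nat_lit 0) (XT.lf (nat_lit 0) (nat_lit 92126526520) (nat_lit 76) (nat_lit 10330974565) (nat_lit 76) (nat_lit 4687774453) (nat_lit 4) (nat_lit 4) (nat_lit 5) (nat_lit 5) (nat_lit 5) (nat_lit 4) (nat_lit 396) (nat_lit 276) (nat_lit 228)) (XT.nd (nat_lit 78) (nat_lit 76) (nat_lit 0) (XT.lf (nat_lit 0) (nat_lit 104651034246) (nat_lit 76) (nat_lit 6660308512) (nat_lit 76) (nat_lit 988524620) (nat_lit 4) (nat_lit 4) (nat_lit 5) (nat_lit 5) (nat_lit 5) (nat_lit 4) (nat_lit 397)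 (nat_lit 276) (nat_lit 227)) (XT.lf (nat_lit 0) (nat_lit 2772077378) (nat_lit 152) (nat_lit 16247912) (nat_lit 76) (nat_lit 114923153232) (nat_lit 3) (nat_lit 5) (nat_lit 5) (nat_lit 5) (nat_lit 4) (nat_lit 4) (nat_lit 398) (nat_lit 276) (nat_lit 226)))) (XT.nd (nat_lit 78) (nat_lit 0) (nat_lit 0) (XT.lf (nat_lit 0) (nat_lit 6807699156) (nat_lit 152) (nat_lit 115223771647) (nat_lit 0) (nat_lit 1355382139) (nat_lit 2) (nat_lit 5) (nat_lit 4) (nat_lit 4) (nat_lit 2) (nat_lit 4) (nat_lit 399) (nat_lit 276) (nat_lit 225)) (XT.nd (nat_lit 78) (nat_lit 0) (nat_lit 0) (XT.lf (nat_lit 0) (nat_lit 11061715589) (nat_lit 152) (nat_lit 112697570539) (nat_lit 0) (nat_lit 5585882626) (nat_lit 2) (nat_lit 5) (nat_lit 4) (nat_lit 4) (nat_lit 2) (nat_lit 4) (nat_lit 400) (nat_lit 276) (nat_lit 224)) (XT.lf (nat_lit 0) (nat_lit 15500455357) (nat_lit 152) (nat_lit 110100120808) (nat_lit 0) (nat_lit 10002226254)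 (nat_lit 2) (nat_lit 5) (nat_lit 4) (nat_lit 4) (nat_lit 2) (nat_lit 4) (nat_lit 401) (nat_lit 276) (nat_lit 223))))))))
noncomputable def xc44 : XT := (XT.nd (nat_lit 1794) (nat_lit 76) (nat_lit 0) (XT.nd (nat_lit 858) (nat_lit 0) (nat_lit 0) (XT.nd (nat_lit 390) (nat_lit 0) (nat_lit 0) (XT.nd (nat_lit 156) (nat_lit 0) (nat_lit 0) (XT.nd (nat_lit 78) (nat_lit 0) (nat_lit 0) (XT.lf (nat_lit 0) (nat_lit 20134486886) (nat_lit 152) (nat_lit 107425238052) (nat_lit 0) (nat_lit 14614928127) (nat_lit 2) (nat_lit 5) (nat_lit 4) (nat_lit 4) (nat_lit 2) (nat_lit 4) (nat_lit 402) (nat_lit 276) (nat_lit 222)) (XT.lf (nat_lit 0) (nat_lit 24974843585) (nat_lit 152) (nat_lit 104666553501) (nat_lit 0) (nat_lit 19434970869) (nat_lit 2) (nat_lit 5) (nat_lit 4) (nat_lit 4) (nat_lit 2) (nat_lit 4) (nat_lit 403) (nat_lit 276) (nat_lit 221))) (XT.nd (nat_lit 78) (nat_lit 0) (nat_lit 0) (XT.lf (nat_lit 0) (nat_lit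 30033050114) (nat_lit 152) (nat_lit 101817498860) (nat_lit 0) (nat_lit 24473830771) (nat_lit 2) (nat_lit 5) (nat_lit 4) (nat_lit 4) (nat_lit 2) (nat_lit 4) (nat_lit 404) (nat_lit 276) (nat_lit 220)) (XT.nd (nat_lit 78) (nat_lit 0) (nat_lit 0) (XT.lf (nat_lit 0) (nat_lit 35321149821) (nat_lit 152) (nat_lit 98871290664) (nat_lit 0) (nat_lit 29743505119) (nat_lit 2) (nat_lit 5) (nat_lit 4) (nat_lit 4) (nat_lit 2) (nat_lit 4) (nat_lit 405) (nat_lit 276) (nat_lit 219)) (XT.lf (nat_lit 0) (nat_lit 40851733419) (nat_lit 152) (nat_lit 95820914133) (nat_lit 0) (nat_lit 35256540756) (nat_lit 2) (nat_lit 5) (nat_lit 4) (nat_lit 4) (nat_lit 2) (nat_lit 4) (nat_lit 406) (nat_lit 276) (nat_lit 218))))) (XT.nd (nat_lit 234) (nat_lit 0) (nat_lit 0) (XT.nd (nat_lit 78) (nat_lit 0) (nat_lit 0) (XT.lf (nat_lit 0) (nat_lit 46637968966) (nat_lit 152) (nat_lit 92659106464) (nat_lit 0) (nat_lit 41026063959) (nat_lit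 2) (nat_lit 5) (nat_lit 4) (nat_lit 4) (nat_lit 2) (nat_lit 4) (nat_lit 407) (nat_lit 276) (nat_lit 217)) (XT.nd (nat_lit 78) (nat_lit 0) (nat_lit 0) (XT.lf (nat_lit 0) (nat_lit 52693633212) (nat_lit 152) (nat_lit 89378339545) (nat_lit 0) (nat_lit 47065811687) (nat_lit 2) (nat_lit 5) (nat_lit 4) (nat_lit 4) (nat_lit 2) (nat_lit 4) (nat_lit 408) (nat_lit 276) (nat_lit 216)) (XT.lf (nat_lit 0) (nat_lit 59033144405) (nat_lit 152) (nat_lit 85970802026) (nat_lit 0) (nat_lit 53390164292) (nat_lit 2) (nat_lit 5) (nat_lit 4) (nat_lit 4) (nat_lit 2) (nat_lit 4) (nat_lit 409) (nat_lit 276) (nat_lit 215)))) (XT.nd (nat_lit 78) (nat_lit 0) (nat_lit 0) (XT.lf (nat_lit 0) (nat_lit 65671596620) (nat_lit 152) (nat_lit 82428380723) (nat_lit 0) (nat_lit 60014179756) (nat_lit 2) (nat_lit 5) (nat_lit 4) (nat_lit 4) (nat_lit 2) (nat_lit 4) (nat_lit 410) (nat_lit 276) (nat_lit 214)) (XT.nd (nat_lit 78) (nat_lit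 0) (nat_lit 0) (XT.lf (nat_lit 0) (nat_lit 72624795695) (nat_lit 152) (nat_lit 78742641298) (nat_lit 0) (nat_lit 66953629544) (nat_lit 2) (nat_lit 5) (nat_lit 4) (nat_lit 4) (nat_lit 2) (nat_lit 4) (nat_lit 411) (nat_lit 276) (nat_lit 213)) (XT.lf (nat_lit 0) (nat_lit 79909296866) (nat_lit 152) (nat_lit 74904808181) (nat_lit 0) (nat_lit 74225036157) (nat_lit 2) (nat_lit 5) (nat_lit 4) (nat_lit 4) (nat_lit 2) (nat_lit 4) (nat_lit 412) (nat_lit 276) (nat_lit 212)))))) (XT.nd (nat_lit 468) (nat_lit 0) (nat_lit 0) (XT.nd (nat_lit 234) (nat_lit 0) (nat_lit 0) (XT.nd (nat_lit 78) (nat_lit 0) (nat_lit 0) (XT.lf (nat_lit 0) (nat_lit 87542444184) (nat_lit 152) (nat_lit 70905743676) (nat_lit 0) (nat_lit 81845712467) (nat_lit 2) (nat_lit 5) (nat_lit 4) (nat_lit 4) (nat_lit 2) (nat_lit 4) (nat_lit 413) (nat_lit 276) (nat_lit 211)) (XT.nd (nat_lit 78) (nat_lit 0) (nat_lit 0) (XT.lf (nat_lit 0) (nat_lit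 95542411808) (nat_lit 152) (nat_lit 66735926199) (nat_lit 0) (nat_lit 89833802941) (nat_lit 2) (nat_lit 5) (nat_lit 4) (nat_lit 4) (nat_lit 2) (nat_lit 4) (nat_lit 414) (nat_lit 276) (nat_lit 210)) (XT.lf (nat_lit 0) (nat_lit 103928247282) (nat_lit 152) (nat_lit 62385427614) (nat_lit 0) (nat_lit 98208326842) (nat_lit 2) (nat_lit 5) (nat_lit 4) (nat_lit 4) (nat_lit 2) (nat_lit 4) (nat_lit 415) (nat_lit 276) (nat_lit 209)))) (XT.nd (nat_lit 78) (nat_lit 0) (nat_lit 0) (XT.lf (nat_lit 0) (nat_lit 112719916879) (nat_lit 152) (nat_lit 57843889590) (nat_lit 0) (nat_lit 106989223514) (nat_lit 2) (nat_lit 5) (nat_lit 4) (nat_lit 4) (nat_lit 2) (nat_lit 4) (nat_lit 416) (nat_lit 276) (nat_lit 208)) (XT.nd (nat_lit 78) (nat_lit 0) (nat_lit 0) (XT.lf (nat_lit 0) (nat_lit 121938353147) (nat_lit 152) (nat_lit 53100498943) (nat_lit 0) (nat_lit 116197399852) (nat_lit 2) (nat_lit 5) (nat_lit 4) (nat_lit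 4) (nat_lit 2) (nat_lit 4) (nat_lit 417) (nat_lit 276) (nat_lit 207)) (XT.lf (nat_lit 0) (nat_lit 131605504743) (nat_lit 152) (nat_lit 48143961884) (nat_lit 0) (nat_lit 125854780087) (nat_lit 2) (nat_lit 5) (nat_lit 4) (nat_lit 4) (nat_lit 2) (nat_lit 4) (nat_lit 418) (nat_lit 276) (nat_lit 206))))) (XT.nd (nat_lit 234) (nat_lit 0) (nat_lit 0) (XT.nd (nat_lit 78) (nat_lit 0) (nat_lit 0) (XT.lf (nat_lit 0) (nat_lit 141744388694) (nat_lit 152) (nat_lit 42962477136) (nat_lit 0) (nat_lit 135984357980) (nat_lit 2) (nat_lit 5) (nat_lit 4) (nat_lit 4) (nat_lit 2) (nat_lit 4) (nat_lit 419) (nat_lit 276) (nat_lit 205)) (XT.nd (nat_lit 78) (nat_lit 0) (nat_lit 0) (XT.lf (nat_lit 0) (nat_lit 152379145202) (nat_lit 152) (nat_lit 37543707829) (nat_lit 0) (nat_lit 146610251575) (nat_lit 2) (nat_lit 5) (nat_lit 4) (nat_lit 4) (nat_lit 2) (nat_lit 4) (nat_lit 420) (nat_lit 276) (nat_lit 204)) (XT.lf (nat_lit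 0) (nat_lit 163535095114) (nat_lit 152) (nat_lit 31874752133) (nat_lit 0) (nat_lit 157757760618) (nat_lit 2) (nat_lit 5) (nat_lit 4) (nat_lit 4) (nat_lit 2) (nat_lit 4) (nat_lit 421) (nat_lit 276) (nat_lit 203)))) (XT.nd (nat_lit 78) (nat_lit 0) (nat_lit 0) (XT.lf (nat_lit 0) (nat_lit 175238800216) (nat_lit 152) (nat_lit 25942112532) (nat_lit 0) (nat_lit 169453426797) (nat_lit 2) (nat_lit 5) (nat_lit 4) (nat_lit 4) (nat_lit 2) (nat_lit 4) (nat_lit 422) (nat_lit 276) (nat_lit 202)) (XT.nd (nat_lit 78) (nat_lit 0) (nat_lit 0) (XT.lf (nat_lit 0) (nat_lit 187518126472) (nat_lit 152) (nat_lit 19731663696) (nat_lit 0) (nat_lit 181725096936) (nat_lit 2) (nat_lit 5) (nat_lit 4) (nat_lit 4) (nat_lit 2) (nat_lit 4) (nat_lit 423) (nat_lit 276) (nat_lit 201)) (XT.lf (nat_lit 0) (nat_lit 200402310374) (nat_lit 152) (nat_lit 13228618841) (nat_lit 0) (nat_lit 194601989298) (nat_lit 2) (nat_lit 5) (nat_lit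 4) (nat_lit 4) (nat_lit 2) (nat_lit 4) (nat_lit 424) (nat_lit 276) (nat_lit 200))))))) (XT.nd (nat_lit 936) (nat_lit 0) (nat_lit 0) (XT.nd (nat_lit 468) (nat_lit 0) (nat_lit 0) (XT.nd (nat_lit 234) (nat_lit 0) (nat_lit 0) (XT.nd (nat_lit 78) (nat_lit 76) (nat_lit 0) (XT.lf (nat_lit 0) (nat_lit 213922028550) (nat_lit 152) (nat_lit 6417494526) (nat_lit 0) (nat_lit 208114763150) (nat_lit 2) (nat_lit 5) (nat_lit 4) (nat_lit 4) (nat_lit 2) (nat_lit 4) (nat_lit 425) (nat_lit 276) (nat_lit 199)) (XT.nd (nat_lit 78) (nat_lit 0) (nat_lit 0) (XT.lf (nat_lit 0) (nat_lit 741664092) (nat_lit 76) (nat_lit 227379386168) (nat_lit 76) (nat_lit 221565507126) (nat_lit 1) (nat_lit 4) (nat_lit 2) (nat_lit 5) (nat_lit 2) (nat_lit 4) (nat_lit 426) (nat_lit 276) (nat_lit 198)) (XT.lf (nat_lit 0) (nat_lit 8465584021) (nat_lit 76) (nat_lit 234665004234) (nat_lit 76) (nat_lit 228844826486) (nat_lit 1) (nat_lit 4)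 (nat_lit 2) (nat_lit 5) (nat_lit 2) (nat_lit 4) (nat_lit 427) (nat_lit 276) (nat_lit 197)))) (XT.nd (nat_lit 78) (nat_lit 0) (nat_lit 0) (XT.lf (nat_lit 0) (nat_lit 16560464195) (nat_lit 76) (nat_lit 242322407359) (nat_lit 76) (nat_lit 236496230843) (nat_lit 1) (nat_lit 4) (nat_lit 2) (nat_lit 5) (nat_lit 2) (nat_lit 4) (nat_lit 428) (nat_lit 276) (nat_lit 196)) (XT.nd (nat_lit 78) (nat_lit 0) (nat_lit 0) (XT.lf (nat_lit 0) (nat_lit 25045578138) (nat_lit 76) (nat_lit 250369827456) (nat_lit 76) (nat_lit 244537937827) (nat_lit 1) (nat_lit 4) (nat_lit 2) (nat_lit 5) (nat_lit 2) (nat_lit 4) (nat_lit 429) (nat_lit 276) (nat_lit 195)) (XT.lf (nat_lit 0) (nat_lit 33941128503) (nat_lit 76) (nat_lit 258826425048) (nat_lit 76) (nat_lit 252989094359) (nat_lit 1) (nat_lit 4) (nat_lit 2) (nat_lit 5) (nat_lit 2) (nat_lit 4) (nat_lit 430) (nat_lit 276) (nat_lit 194))))) (XT.nd (nat_lit 234) (nat_lit 0)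 (nat_lit 0) (XT.nd (nat_lit 78) (nat_lit 0) (nat_lit 0) (XT.lf (nat_lit 0) (nat_lit 43268295170) (nat_lit 76) (nat_lit 267712334891) (nat_lit 76) (nat_lit 261869822241) (nat_lit 1) (nat_lit 4) (nat_lit 2) (nat_lit 5) (nat_lit 2) (nat_lit 4) (nat_lit 431) (nat_lit 276) (nat_lit 193)) (XT.nd (nat_lit 78) (nat_lit 0) (nat_lit 0) (XT.lf (nat_lit 0) (nat_lit 53049285680) (nat_lit 76) (nat_lit 277048713914) (nat_lit 76) (nat_lit 271201266062) (nat_lit 1) (nat_lit 4) (nat_lit 2) (nat_lit 5) (nat_lit 2) (nat_lit 4) (nat_lit 432) (nat_lit 276) (nat_lit 192)) (XT.lf (nat_lit 0) (nat_lit 63307388106) (nat_lit 76) (nat_lit 286857791591) (nat_lit 76) (nat_lit 281005643547) (nat_lit 1) (nat_lit 4) (nat_lit 2) (nat_lit 5) (nat_lit 2) (nat_lit 4) (nat_lit 433) (nat_lit 276) (nat_lit 191)))) (XT.nd (nat_lit 78) (nat_lit 0) (nat_lit 0) (XT.lf (nat_lit 0) (nat_lit 74067026501) (nat_lit 76) (nat_lit 297162922868)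 (nat_lit 76) (nat_lit 291306298452) (nat_lit 1) (nat_lit 4) (nat_lit 2) (nat_lit 5) (nat_lit 2) (nat_lit 4) (nat_lit 434) (nat_lit 276) (nat_lit 190)) (XT.nd (nat_lit 78) (nat_lit 0) (nat_lit 0) (XT.lf (nat_lit 0) (nat_lit 85353819051) (nat_lit 76) (nat_lit 307988643773) (nat_lit 76) (nat_lit 302127756144) (nat_lit 1) (nat_lit 4) (nat_lit 2) (nat_lit 5) (nat_lit 2) (nat_lit 4) (nat_lit 435) (nat_lit 276) (nat_lit 189)) (XT.lf (nat_lit 0) (nat_lit 97194639072) (nat_lit 76) (nat_lit 319360729831) (nat_lit 76) (nat_lit 313495781999) (nat_lit 1) (nat_lit 4) (nat_lit 2) (nat_lit 5) (nat_lit 2) (nat_lit 4) (nat_lit 436) (nat_lit 276) (nat_lit 188)))))) (XT.nd (nat_lit 40170) (nat_lit 0) (nat_lit 1216) (XT.nd (nat_lit 39936) (nat_lit 0) (nat_lit 1596) (XT.nd (nat_lit 39780) (nat_lit 0) (nat_lit 1824) (XT.lf (nat_lit 0) (nat_lit 109617678992) (nat_lit 76) (nat_lit 331306257437) (nat_lit 76) (nat_lit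 325437442746) (nat_lit 1) (nat_lit 4) (nat_lit 2) (nat_lit 5) (nat_lit 2) (nat_lit 4) (nat_lit 437) (nat_lit 276) (nat_lit 187)) (XT.nd (nat_lit 78) (nat_lit 152) (nat_lit 0) (XT.lf (nat_lit 0) (nat_lit 1723307131) (nat_lit 152) (nat_lit 3578805349) (nat_lit 0) (nat_lit 1723307131) (nat_lit 27) (nat_lit 5) (nat_lit 29) (nat_lit 4) (nat_lit 27) (nat_lit 4) (nat_lit 346) (nat_lit 277) (nat_lit 277)) (XT.lf (nat_lit 0) (nat_lit 2362174160) (nat_lit 152) (nat_lit 6277244856) (nat_lit 152) (nat_lit 5837986133) (nat_lit 25) (nat_lit 4) (nat_lit 27) (nat_lit 5) (nat_lit 27) (nat_lit 4) (nat_lit 347) (nat_lit 277) (nat_lit 276)))) (XT.nd (nat_lit 78) (nat_lit 228) (nat_lit 0) (XT.lf (nat_lit 0) (nat_lit 12287571364) (nat_lit 152) (nat_lit 1749074418) (nat_lit 152) (nat_lit 891474054) (nat_lit 25) (nat_lit 4) (nat_lit 27) (nat_lit 5) (nat_lit 27) (nat_lit 4) (nat_lit 348) (nat_lit 277) (nat_lit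 275)) (XT.nd (nat_lit 78) (nat_lit 76) (nat_lit 0) (XT.lf (nat_lit 0) (nat_lit 4153307799) (nat_lit 152) (nat_lit 8288228199) (nat_lit 0) (nat_lit 2957097347) (nat_lit 23) (nat_lit 5) (nat_lit 25) (nat_lit 4) (nat_lit 23) (nat_lit 4) (nat_lit 349) (nat_lit 277) (nat_lit 274)) (XT.lf (nat_lit 0) (nat_lit 1234961742) (nat_lit 76) (nat_lit 8109215409) (nat_lit 76) (nat_lit 6551625718) (nat_lit 22) (nat_lit 4) (nat_lit 23) (nat_lit 5) (nat_lit 23) (nat_lit 4) (nat_lit 350) (nat_lit 277) (nat_lit 273))))) (XT.nd (nat_lit 234) (nat_lit 228) (nat_lit 0) (XT.nd (nat_lit 78) (nat_lit 152) (nat_lit 0) (XT.lf (nat_lit 0) (nat_lit 11216383125) (nat_lit 76) (nat_lit 3552276818) (nat_lit 76) (nat_lit 1650516424) (nat_lit 22) (nat_lit 4) (nat_lit 23) (nat_lit 5) (nat_lit 23) (nat_lit 4) (nat_lit 351) (nat_lit 277) (nat_lit 272)) (XT.nd (nat_lit 78) (nat_lit 0) (nat_lit 0) (XT.lf (nat_lit 0) (nat_lit 3312526016)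 (nat_lit 152) (nat_lit 12467917443) (nat_lit 0) (nat_lit 1189152666) (nat_lit 20) (nat_lit 5) (nat_lit 22) (nat_lit 4) (nat_lit 20) (nat_lit 4) (nat_lit 352) (nat_lit 277) (nat_lit 271)) (XT.lf (nat_lit 0) (nat_lit 8456048986) (nat_lit 152) (nat_lit 3055419456) (nat_lit 0) (nat_lit 6035368043) (nat_lit 20) (nat_lit 5) (nat_lit 22) (nat_lit 4) (nat_lit 20) (nat_lit 4) (nat_lit 353) (nat_lit 277) (nat_lit 270)))) (XT.nd (nat_lit 78) (nat_lit 152) (nat_lit 0) (XT.lf (nat_lit 0) (nat_lit 6760701957) (nat_lit 76) (nat_lit 7049224661) (nat_lit 76) (nat_lit 4345393628) (nat_lit 19) (nat_lit 4) (nat_lit 20) (nat_lit 5) (nat_lit 20) (nat_lit 4) (nat_lit 354) (nat_lit 277) (nat_lit 269)) (XT.nd (nat_lit 78) (nat_lit 76) (nat_lit 0) (XT.lf (nat_lit 0) (nat_lit 517506950) (nat_lit 152) (nat_lit 1912608535) (nat_lit 76) (nat_lit 16368620114) (nat_lit 18) (nat_lit 5) (nat_lit 20) (nat_lit 5) (nat_lit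 19) (nat_lit 4) (nat_lit 355) (nat_lit 277) (nat_lit 268)) (XT.lf (nat_lit 0) (nat_lit 5496044610) (nat_lit 152) (nat_lit 11554277579) (nat_lit 0) (nat_lit 2419546264) (nat_lit 17) (nat_lit 5) (nat_lit 19) (nat_lit 4) (nat_lit 17) (nat_lit 4) (nat_lit 356) (nat_lit 277) (nat_lit 267))))))))
noncomputable def xc45 : XT := (XT.nd (nat_lit 1794) (nat_lit 380) (nat_lit 0) (XT.nd (nat_lit 858) (nat_lit 304) (nat_lit 0) (XT.nd (nat_lit 390) (nat_lit 228) (nat_lit 0) (XT.nd (nat_lit 156) (nat_lit 152) (nat_lit 0) (XT.nd (nat_lit 78) (nat_lit 76) (nat_lit 0) (XT.lf (nat_lit 0) (nat_lit 10652348013) (nat_lit 152) (nat_lit 2182899768) (nat_lit 0) (nat_lit 7342901388) (nat_lit 17) (nat_lit 5) (nat_lit 19) (nat_lit 4) (nat_lit 17) (nat_lit 4) (nat_lit 357) (nat_lit 277) (nat_lit 266)) (XT.lf (nat_lit 0) (nat_lit 7643403469) (nat_lit 76) (nat_lit 8405330400) (nat_lit 76) (nat_lit 4874028271) (nat_lit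 16) (nat_lit 4) (nat_lit 17) (nat_lit 5) (nat_lit 17) (nat_lit 4) (nat_lit 358) (nat_lit 277) (nat_lit 265))) (XT.nd (nat_lit 78) (nat_lit 152) (nat_lit 0) (XT.lf (nat_lit 0) (nat_lit 17782692920) (nat_lit 76) (nat_lit 3834706492) (nat_lit 76) (nat_lit 92113407) (nat_lit 16) (nat_lit 4) (nat_lit 17) (nat_lit 5) (nat_lit 17) (nat_lit 4) (nat_lit 359) (nat_lit 277) (nat_lit 264)) (XT.nd (nat_lit 78) (nat_lit 0) (nat_lit 0) (XT.lf (nat_lit 0) (nat_lit 4746729604) (nat_lit 152) (nat_lit 16795563513) (nat_lit 0) (nat_lit 990708111) (nat_lit 14) (nat_lit 5) (nat_lit 16) (nat_lit 4) (nat_lit 14) (nat_lit 4) (nat_lit 360) (nat_lit 277) (nat_lit 263)) (XT.lf (nat_lit 0) (nat_lit 9825274017) (nat_lit 152) (nat_lit 7685566324) (nat_lit 0) (nat_lit 5886731452) (nat_lit 14) (nat_lit 5) (nat_lit 16) (nat_lit 4) (nat_lit 14) (nat_lit 4) (nat_lit 361) (nat_lit 277) (nat_lit 262))))) (XT.nd (nat_lit 234)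 (nat_lit 152) (nat_lit 0) (XT.nd (nat_lit 78) (nat_lit 0) (nat_lit 0) (XT.lf (nat_lit 0) (nat_lit 1699071995) (nat_lit 76) (nat_lit 13361770477) (nat_lit 76) (nat_lit 9249398319) (nat_lit 13) (nat_lit 4) (nat_lit 14) (nat_lit 5) (nat_lit 14) (nat_lit 4) (nat_lit 362) (nat_lit 277) (nat_lit 261)) (XT.nd (nat_lit 78) (nat_lit 0) (nat_lit 0) (XT.lf (nat_lit 0) (nat_lit 11588322282) (nat_lit 76) (nat_lit 8978859527) (nat_lit 76) (nat_lit 4700935376) (nat_lit 13) (nat_lit 4) (nat_lit 14) (nat_lit 5) (nat_lit 14) (nat_lit 4) (nat_lit 363) (nat_lit 277) (nat_lit 260)) (XT.lf (nat_lit 0) (nat_lit 21751610840) (nat_lit 76) (nat_lit 4481830773) (nat_lit 76) (nat_lit 46238057) (nat_lit 13) (nat_lit 4) (nat_lit 14) (nat_lit 5) (nat_lit 14) (nat_lit 4) (nat_lit 364) (nat_lit 277) (nat_lit 259)))) (XT.nd (nat_lit 78) (nat_lit 0) (nat_lit 0) (XT.lf (nat_lit 0) (nat_lit 4656475248) (nat_lit 152) (nat_lit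 22393983484) (nat_lit 0) (nat_lit 289091197) (nat_lit 11) (nat_lit 5) (nat_lit 13) (nat_lit 4) (nat_lit 11) (nat_lit 4) (nat_lit 365) (nat_lit 277) (nat_lit 258)) (XT.nd (nat_lit 78) (nat_lit 0) (nat_lit 0) (XT.lf (nat_lit 0) (nat_lit 9632930502) (nat_lit 152) (nat_lit 13688110264) (nat_lit 0) (nat_lit 5129346416) (nat_lit 11) (nat_lit 5) (nat_lit 13) (nat_lit 4) (nat_lit 11) (nat_lit 4) (nat_lit 366) (nat_lit 277) (nat_lit 257)) (XT.lf (nat_lit 0) (nat_lit 14752251737) (nat_lit 152) (nat_lit 4750877533) (nat_lit 0) (nat_lit 10118953333) (nat_lit 11) (nat_lit 5) (nat_lit 13) (nat_lit 4) (nat_lit 11) (nat_lit 4) (nat_lit 367) (nat_lit 277) (nat_lit 256)))))) (XT.nd (nat_lit 468) (nat_lit 76) (nat_lit 0) (XT.nd (nat_lit 234) (nat_lit 152) (nat_lit 0) (XT.nd (nat_lit 78) (nat_lit 0) (nat_lit 0) (XT.lf (nat_lit 0) (nat_lit 4585767017) (nat_lit 76) (nat_lit 15512457471) (nat_lit 76) (nat_lit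 10755621621) (nat_lit 10) (nat_lit 4) (nat_lit 11) (nat_lit 5) (nat_lit 11) (nat_lit 4) (nat_lit 368) (nat_lit 277) (nat_lit 255)) (XT.nd (nat_lit 78) (nat_lit 0) (nat_lit 0) (XT.lf (nat_lit 0) (nat_lit 14363093165) (nat_lit 76) (nat_lit 11329771742) (nat_lit 76) (nat_lit 6455281181) (nat_lit 10) (nat_lit 4) (nat_lit 11) (nat_lit 5) (nat_lit 11) (nat_lit 4) (nat_lit 369) (nat_lit 277) (nat_lit 254)) (XT.lf (nat_lit 0) (nat_lit 24447294791) (nat_lit 76) (nat_lit 7025571718) (nat_lit 76) (nat_lit 2039029051) (nat_lit 10) (nat_lit 4) (nat_lit 11) (nat_lit 5) (nat_lit 11) (nat_lit 4) (nat_lit 370) (nat_lit 277) (nat_lit 253)))) (XT.nd (nat_lit 78) (nat_lit 76) (nat_lit 0) (XT.lf (nat_lit 0) (nat_lit 2423517229) (nat_lit 152) (nat_lit 125048637) (nat_lit 76) (nat_lit 32397821233) (nat_lit 9) (nat_lit 5) (nat_lit 11) (nat_lit 5) (nat_lit 10) (nat_lit 4) (nat_lit 371) (nat_lit 277) (nat_lit 252))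 (XT.nd (nat_lit 78) (nat_lit 0) (nat_lit 0) (XT.lf (nat_lit 0) (nat_lit 7135065258) (nat_lit 152) (nat_lit 27123612821) (nat_lit 0) (nat_lit 2187547620) (nat_lit 8) (nat_lit 5) (nat_lit 10) (nat_lit 4) (nat_lit 8) (nat_lit 4) (nat_lit 372) (nat_lit 277) (nat_lit 251)) (XT.lf (nat_lit 0) (nat_lit 12039426112) (nat_lit 152) (nat_lit 18984058539) (nat_lit 0) (nat_lit 6999722930) (nat_lit 8) (nat_lit 5) (nat_lit 10) (nat_lit 4) (nat_lit 8) (nat_lit 4) (nat_lit 373) (nat_lit 277) (nat_lit 250))))) (XT.nd (nat_lit 234) (nat_lit 0) (nat_lit 0) (XT.nd (nat_lit 78) (nat_lit 76) (nat_lit 0) (XT.lf (nat_lit 0) (nat_lit 17106436609) (nat_lit 152) (nat_lit 10597805197) (nat_lit 0) (nat_lit 11978937670) (nat_lit 8) (nat_lit 5) (nat_lit 10) (nat_lit 4) (nat_lit 8) (nat_lit 4) (nat_lit 374) (nat_lit 277) (nat_lit 249)) (XT.nd (nat_lit 78) (nat_lit 76) (nat_lit 0) (XT.lf (nat_lit 0) (nat_lit 22348161058)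 (nat_lit 152) (nat_lit 1944885527) (nat_lit 0) (nat_lit 17137047113) (nat_lit 8) (nat_lit 5) (nat_lit 10) (nat_lit 4) (nat_lit 8) (nat_lit 4) (nat_lit 375) (nat_lit 277) (nat_lit 248)) (XT.lf (nat_lit 0) (nat_lit 7226598959) (nat_lit 76) (nat_lit 20663308260) (nat_lit 76) (nat_lit 15372560976) (nat_lit 7) (nat_lit 4) (nat_lit 8) (nat_lit 5) (nat_lit 8) (nat_lit 4) (nat_lit 376) (nat_lit 277) (nat_lit 247)))) (XT.nd (nat_lit 78) (nat_lit 0) (nat_lit 0) (XT.lf (nat_lit 0) (nat_lit 16781147037) (nat_lit 76) (nat_lit 16886972398) (nat_lit 76) (nat_lit 11520383839) (nat_lit 7) (nat_lit 4) (nat_lit 8) (nat_lit 5) (nat_lit 8) (nat_lit 4) (nat_lit 377) (nat_lit 277) (nat_lit 246)) (XT.nd (nat_lit 78) (nat_lit 0) (nat_lit 0) (XT.lf (nat_lit 0) (nat_lit 26677200932) (nat_lit 76) (nat_lit 12987985303) (nat_lit 76) (nat_lit 7549166957) (nat_lit 7) (nat_lit 4) (nat_lit 8) (nat_lit 5) (nat_lit 8) (nat_lit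 4) (nat_lit 378) (nat_lit 277) (nat_lit 245)) (XT.lf (nat_lit 0) (nat_lit 36938322676) (nat_lit 76) (nat_lit 8957063672) (nat_lit 76) (nat_lit 3449455053) (nat_lit 7) (nat_lit 4) (nat_lit 8) (nat_lit 5) (nat_lit 8) (nat_lit 4) (nat_lit 379) (nat_lit 277) (nat_lit 244))))))) (XT.nd (nat_lit 936) (nat_lit 152) (nat_lit 0) (XT.nd (nat_lit 468) (nat_lit 76) (nat_lit 0) (XT.nd (nat_lit 234) (nat_lit 0) (nat_lit 0) (XT.nd (nat_lit 78) (nat_lit 76) (nat_lit 0) (XT.lf (nat_lit 0) (nat_lit 763275748) (nat_lit 152) (nat_lit 4008407879) (nat_lit 76) (nat_lit 46812741319) (nat_lit 6) (nat_lit 5) (nat_lit 8) (nat_lit 5) (nat_lit 7) (nat_lit 4) (nat_lit 380) (nat_lit 277) (nat_lit 243)) (XT.nd (nat_lit 78) (nat_lit 0) (nat_lit 0) (XT.lf (nat_lit 0) (nat_lit 4786543509) (nat_lit 76) (nat_lit 297388918) (nat_lit 152) (nat_lit 48848575595) (nat_lit 5) (nat_lit 5) (nat_lit 6) (nat_lit 5) (nat_lit 7) (nat_lit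 4) (nat_lit 381) (nat_lit 277) (nat_lit 242)) (XT.lf (nat_lit 0) (nat_lit 9697002381) (nat_lit 152) (nat_lit 42423933424) (nat_lit 0) (nat_lit 4273248484) (nat_lit 5) (nat_lit 5) (nat_lit 7) (nat_lit 4) (nat_lit 5) (nat_lit 4) (nat_lit 382) (nat_lit 277) (nat_lit 241)))) (XT.nd (nat_lit 78) (nat_lit 0) (nat_lit 0) (XT.lf (nat_lit 0) (nat_lit 14487198428) (nat_lit 152) (nat_lit 35484884432) (nat_lit 0) (nat_lit 9009545551) (nat_lit 5) (nat_lit 5) (nat_lit 7) (nat_lit 4) (nat_lit 5) (nat_lit 4) (nat_lit 383) (nat_lit 277) (nat_lit 240)) (XT.nd (nat_lit 78) (nat_lit 0) (nat_lit 0) (XT.lf (nat_lit 0) (nat_lit 19461282721) (nat_lit 152) (nat_lit 28307652919) (nat_lit 0) (nat_lit 13932297485) (nat_lit 5) (nat_lit 5) (nat_lit 7) (nat_lit 4) (nat_lit 5) (nat_lit 4) (nat_lit 384) (nat_lit 277) (nat_lit 239)) (XT.lf (nat_lit 0) (nat_lit 24631098320) (nat_lit 152) (nat_lit 20875150239) (nat_lit 0)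 (nat_lit 19053225121) (nat_lit 5) (nat_lit 5) (nat_lit 7) (nat_lit 4) (nat_lit 5) (nat_lit 4) (nat_lit 385) (nat_lit 277) (nat_lit 238))))) (XT.nd (nat_lit 234) (nat_lit 0) (nat_lit 0) (XT.nd (nat_lit 78) (nat_lit 76) (nat_lit 0) (XT.lf (nat_lit 0) (nat_lit 30008954309) (nat_lit 152) (nat_lit 13169679956) (nat_lit 0) (nat_lit 24384521145) (nat_lit 5) (nat_lit 5) (nat_lit 7) (nat_lit 4) (nat_lit 5) (nat_lit 4) (nat_lit 386) (nat_lit 277) (nat_lit 237)) (XT.nd (nat_lit 78) (nat_lit 76) (nat_lit 0) (XT.lf (nat_lit 0) (nat_lit 35607655106) (nat_lit 152) (nat_lit 5172895713) (nat_lit 0) (nat_lit 29938879120) (nat_lit 5) (nat_lit 5) (nat_lit 7) (nat_lit 4) (nat_lit 5) (nat_lit 4) (nat_lit 387) (nat_lit 277) (nat_lit 236)) (XT.lf (nat_lit 0) (nat_lit 3237874661) (nat_lit 76) (nat_lit 38253208589) (nat_lit 76) (nat_lit 32542201342) (nat_lit 4) (nat_lit 4) (nat_lit 5) (nat_lit 5) (nat_lit 5) (nat_lit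 4) (nat_lit 388) (nat_lit 277) (nat_lit 235)))) (XT.nd (nat_lit 78) (nat_lit 0) (nat_lit 0) (XT.lf (nat_lit 0) (nat_lit 12160732835) (nat_lit 76) (nat_lit 35550599932) (nat_lit 76) (nat_lit 29799372437) (nat_lit 4) (nat_lit 4) (nat_lit 5) (nat_lit 5) (nat_lit 5) (nat_lit 4) (nat_lit 389) (nat_lit 277) (nat_lit 234)) (XT.nd (nat_lit 78) (nat_lit 0) (nat_lit 0) (XT.lf (nat_lit 0) (nat_lit 21445884415) (nat_lit 76) (nat_lit 32753895558) (nat_lit 76) (nat_lit 26964363066) (nat_lit 4) (nat_lit 4) (nat_lit 5) (nat_lit 5) (nat_lit 5) (nat_lit 4) (nat_lit 390) (nat_lit 277) (nat_lit 233)) (XT.lf (nat_lit 0) (nat_lit 31115436905) (nat_lit 76) (nat_lit 29856436649) (nat_lit 76) (nat_lit 24030423207) (nat_lit 4) (nat_lit 4) (nat_lit 5) (nat_lit 5) (nat_lit 5) (nat_lit 4) (nat_lit 391) (nat_lit 277) (nat_lit 232)))))) (XT.nd (nat_lit 468) (nat_lit 152) (nat_lit 0) (XT.nd (nat_lit 234) (nat_lit 0) (nat_lit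 0) (XT.nd (nat_lit 78) (nat_lit 0) (nat_lit 0) (XT.lf (nat_lit 0) (nat_lit 41192413047) (nat_lit 76) (nat_lit 26851324492) (nat_lit 76) (nat_lit 20990567288) (nat_lit 4) (nat_lit 4) (nat_lit 5) (nat_lit 5) (nat_lit 5) (nat_lit 4) (nat_lit 392) (nat_lit 277) (nat_lit 231)) (XT.nd (nat_lit 78) (nat_lit 0) (nat_lit 0) (XT.lf (nat_lit 0) (nat_lit 51700805643) (nat_lit 76) (nat_lit 23731404058) (nat_lit 76) (nat_lit 17837557556) (nat_lit 4) (nat_lit 4) (nat_lit 5) (nat_lit 5) (nat_lit 5) (nat_lit 4) (nat_lit 393) (nat_lit 277) (nat_lit 230)) (XT.lf (nat_lit 0) (nat_lit 62665634676) (nat_lit 76) (nat_lit 20489246965) (nat_lit 76) (nat_lit 14563886847) (nat_lit 4) (nat_lit 4) (nat_lit 5) (nat_lit 5) (nat_lit 5) (nat_lit 4) (nat_lit 394) (nat_lit 277) (nat_lit 229)))) (XT.nd (nat_lit 78) (nat_lit 0) (nat_lit 0) (XT.lf (nat_lit 0) (nat_lit 74113006880) (nat_lit 76) (nat_lit 17117133793) (nat_lit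 76) (nat_lit 11161760706) (nat_lit 4) (nat_lit 4) (nat_lit 5) (nat_lit 5) (nat_lit 5) (nat_lit 4) (nat_lit 395) (nat_lit 277) (nat_lit 228)) (XT.nd (nat_lit 78) (nat_lit 0) (nat_lit 0) (XT.lf (nat_lit 0) (nat_lit 86070177904) (nat_lit 76) (nat_lit 13607035698) (nat_lit 76) (nat_lit 7623078833) (nat_lit 4) (nat_lit 4) (nat_lit 5) (nat_lit 5) (nat_lit 5) (nat_lit 4) (nat_lit 396) (nat_lit 277) (nat_lit 227)) (XT.lf (nat_lit 0) (nat_lit 98565617202) (nat_lit 76) (nat_lit 9950595306) (nat_lit 76) (nat_lit 3939415794) (nat_lit 4) (nat_lit 4) (nat_lit 5) (nat_lit 5) (nat_lit 5) (nat_lit 4) (nat_lit 397) (nat_lit 277) (nat_lit 226))))) (XT.nd (nat_lit 234) (nat_lit 0) (nat_lit 0) (XT.nd (nat_lit 78) (nat_lit 152) (nat_lit 0) (XT.lf (nat_lit 0) (nat_lit 111629075822) (nat_lit 76) (nat_lit 6139106806) (nat_lit 76) (nat_lit 102000964) (nat_lit 4) (nat_lit 4) (nat_lit 5) (nat_lit 5) (nat_lit 5) (nat_lit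 4) (nat_lit 398) (nat_lit 277) (nat_lit 225)) (XT.nd (nat_lit 78) (nat_lit 0) (nat_lit 0) (XT.lf (nat_lit 0) (nat_lit 1729291846) (nat_lit 76) (nat_lit 2071239583) (nat_lit 152) (nat_lit 119751925545) (nat_lit 2) (nat_lit 5) (nat_lit 3) (nat_lit 5) (nat_lit 4) (nat_lit 4) (nat_lit 399) (nat_lit 277) (nat_lit 224)) (XT.lf (nat_lit 0) (nat_lit 8008562453) (nat_lit 152) (nat_lit 119291485401) (nat_lit 0) (nat_lit 2213025757) (nat_lit 2) (nat_lit 5) (nat_lit 4) (nat_lit 4) (nat_lit 2) (nat_lit 4) (nat_lit 400) (nat_lit 277) (nat_lit 223)))) (XT.nd (nat_lit 78) (nat_lit 0) (nat_lit 0) (XT.lf (nat_lit 0) (nat_lit 12434304549) (nat_lit 152) (nat_lit 116719615896) (nat_lit 0) (nat_lit 6617438197) (nat_lit 2) (nat_lit 5) (nat_lit 4) (nat_lit 4) (nat_lit 2) (nat_lit 4) (nat_lit 401) (nat_lit 277) (nat_lit 222)) (XT.nd (nat_lit 78) (nat_lit 0) (nat_lit 0) (XT.lf (nat_lit 0) (nat_lit 17055957344) (nat_lit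 152) (nat_lit 114069095258) (nat_lit 0) (nat_lit 11218777033) (nat_lit 2) (nat_lit 5) (nat_lit 4) (nat_lit 4) (nat_lit 2) (nat_lit 4) (nat_lit 402) (nat_lit 277) (nat_lit 221)) (XT.lf (nat_lit 0) (nat_lit 21884524772) (nat_lit 152) (nat_lit 111333612725) (nat_lit 0) (nat_lit 16027997835) (nat_lit 2) (nat_lit 5) (nat_lit 4) (nat_lit 4) (nat_lit 2) (nat_lit 4) (nat_lit 403) (nat_lit 277) (nat_lit 220))))))))
noncomputable def xc46 : XT := (XT.nd (nat_lit 1794) (nat_lit 76) (nat_lit 0) (XT.nd (nat_lit 858) (nat_lit 0) (nat_lit 0) (XT.nd (nat_lit 390) (nat_lit 0) (nat_lit 0) (XT.nd (nat_lit 156) (nat_lit 0) (nat_lit 0) (XT.nd (nat_lit 78) (nat_lit 0) (nat_lit 0) (XT.lf (nat_lit 0) (nat_lit 26931503424) (nat_lit 152) (nat_lit 108506655244) (nat_lit 0) (nat_lit 21056551127) (nat_lit 2) (nat_lit 5) (nat_lit 4) (nat_lit 4) (nat_lit 2) (nat_lit 4) (nat_lit 404) (nat_lit 277) (nat_lit 219)) (XT.lf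 (nat_lit 0) (nat_lit 32208909914) (nat_lit 152) (nat_lit 105581491962) (nat_lit 0) (nat_lit 26316409657) (nat_lit 2) (nat_lit 5) (nat_lit 4) (nat_lit 4) (nat_lit 2) (nat_lit 4) (nat_lit 405) (nat_lit 277) (nat_lit 218))) (XT.nd (nat_lit 78) (nat_lit 0) (nat_lit 0) (XT.lf (nat_lit 0) (nat_lit 37729309497) (nat_lit 152) (nat_lit 102551158206) (nat_lit 0) (nat_lit 31820096896) (nat_lit 2) (nat_lit 5) (nat_lit 4) (nat_lit 4) (nat_lit 2) (nat_lit 4) (nat_lit 406) (nat_lit 277) (nat_lit 217)) (XT.nd (nat_lit 78) (nat_lit 0) (nat_lit 0) (XT.lf (nat_lit 0) (nat_lit 43505845981) (nat_lit 152) (nat_lit 99408438896) (nat_lit 0) (nat_lit 37580716863) (nat_lit 2) (nat_lit 5) (nat_lit 4) (nat_lit 4) (nat_lit 2) (nat_lit 4) (nat_lit 407) (nat_lit 277) (nat_lit 216)) (XT.lf (nat_lit 0) (nat_lit 49552273024) (nat_lit 152) (nat_lit 96145851365) (nat_lit 0) (nat_lit 43611985318) (nat_lit 2) (nat_lit 5) (nat_lit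 4) (nat_lit 4) (nat_lit 2) (nat_lit 4) (nat_lit 408) (nat_lit 277) (nat_lit 215))))) (XT.nd (nat_lit 234) (nat_lit 0) (nat_lit 0) (XT.nd (nat_lit 78) (nat_lit 0) (nat_lit 0) (XT.lf (nat_lit 0) (nat_lit 55882986882) (nat_lit 152) (nat_lit 92755627549) (nat_lit 0) (nat_lit 49928262424) (nat_lit 2) (nat_lit 5) (nat_lit 4) (nat_lit 4) (nat_lit 2) (nat_lit 4) (nat_lit 409) (nat_lit 277) (nat_lit 214)) (XT.nd (nat_lit 78) (nat_lit 0) (nat_lit 0) (XT.lf (nat_lit 0) (nat_lit 62513060682) (nat_lit 152) (nat_lit 89229695486) (nat_lit 0) (nat_lit 56544586938) (nat_lit 2) (nat_lit 5) (nat_lit 4) (nat_lit 4) (nat_lit 2) (nat_lit 4) (nat_lit 410) (nat_lit 277) (nat_lit 213)) (XT.lf (nat_lit 0) (nat_lit 69458280314) (nat_lit 152) (nat_lit 85559660100) (nat_lit 0) (nat_lit 63476712012) (nat_lit 2) (nat_lit 5) (nat_lit 4) (nat_lit 4) (nat_lit 2) (nat_lit 4) (nat_lit 411) (nat_lit 277) (nat_lit 212)))) (XT.nd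 (nat_lit 78) (nat_lit 0) (nat_lit 0) (XT.lf (nat_lit 0) (nat_lit 76735182016) (nat_lit 152) (nat_lit 81736783211) (nat_lit 0) (nat_lit 70741142705) (nat_lit 2) (nat_lit 5) (nat_lit 4) (nat_lit 4) (nat_lit 2) (nat_lit 4) (nat_lit 412) (nat_lit 277) (nat_lit 211)) (XT.nd (nat_lit 78) (nat_lit 0) (nat_lit 0) (XT.lf (nat_lit 0) (nat_lit 84361091744) (nat_lit 152) (nat_lit 77751962732) (nat_lit 0) (nat_lit 78355175283) (nat_lit 2) (nat_lit 5) (nat_lit 4) (nat_lit 4) (nat_lit 2) (nat_lit 4) (nat_lit 413) (nat_lit 277) (nat_lit 210)) (XT.lf (nat_lit 0) (nat_lit 92354166426) (nat_lit 152) (nat_lit 73595710994) (nat_lit 0) (nat_lit 86336938393) (nat_lit 2) (nat_lit 5) (nat_lit 4) (nat_lit 4) (nat_lit 2) (nat_lit 4) (nat_lit 414) (nat_lit 277) (nat_lit 209)))))) (XT.nd (nat_lit 468) (nat_lit 0) (nat_lit 0) (XT.nd (nat_lit 234) (nat_lit 0) (nat_lit 0) (XT.nd (nat_lit 78) (nat_lit 0) (nat_lit 0) (XT.lf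 (nat_lit 0) (nat_lit 100733437192) (nat_lit 152) (nat_lit 69258132161) (nat_lit 0) (nat_lit 94705436233) (nat_lit 2) (nat_lit 5) (nat_lit 4) (nat_lit 4) (nat_lit 2) (nat_lit 4) (nat_lit 415) (nat_lit 277) (nat_lit 208)) (XT.nd (nat_lit 78) (nat_lit 0) (nat_lit 0) (XT.lf (nat_lit 0) (nat_lit 109518854688) (nat_lit 152) (nat_lit 64728898663) (nat_lit 0) (nat_lit 103480593799) (nat_lit 2) (nat_lit 5) (nat_lit 4) (nat_lit 4) (nat_lit 2) (nat_lit 4) (nat_lit 416) (nat_lit 277) (nat_lit 207)) (XT.lf (nat_lit 0) (nat_lit 118731336572) (nat_lit 152) (nat_lit 59997226612) (nat_lit 0) (nat_lit 112683304323) (nat_lit 2) (nat_lit 5) (nat_lit 4) (nat_lit 4) (nat_lit 2) (nat_lit 4) (nat_lit 417) (nat_lit 277) (nat_lit 206)))) (XT.nd (nat_lit 78) (nat_lit 0) (nat_lit 0) (XT.lf (nat_lit 0) (nat_lit 128392817327) (nat_lit 152) (nat_lit 55051850120) (nat_lit 0) (nat_lit 122335479019) (nat_lit 2) (nat_lit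 5) (nat_lit 4) (nat_lit 4) (nat_lit 2) (nat_lit 4) (nat_lit 418) (nat_lit 277) (nat_lit 205)) (XT.nd (nat_lit 78) (nat_lit 0) (nat_lit 0) (XT.lf (nat_lit 0) (nat_lit 138526300478) (nat_lit 152) (nat_lit 49880994484) (nat_lit 0) (nat_lit 132460099257) (nat_lit 2) (nat_lit 5) (nat_lit 4) (nat_lit 4) (nat_lit 2) (nat_lit 4) (nat_lit 419) (nat_lit 277) (nat_lit 204)) (XT.lf (nat_lit 0) (nat_lit 149155913365) (nat_lit 152) (nat_lit 44472348141) (nat_lit 0) (nat_lit 143081271276) (nat_lit 2) (nat_lit 5) (nat_lit 4) (nat_lit 4) (nat_lit 2) (nat_lit 4) (nat_lit 420) (nat_lit 277) (nat_lit 203))))) (XT.nd (nat_lit 234) (nat_lit 0) (nat_lit 0) (XT.nd (nat_lit 78) (nat_lit 0) (nat_lit 0) (XT.lf (nat_lit 0) (nat_lit 160306964592) (nat_lit 152) (nat_lit 38813033361) (nat_lit 0) (nat_lit 154224283579) (nat_lit 2) (nat_lit 5) (nat_lit 4) (nat_lit 4) (nat_lit 2) (nat_lit 4) (nat_lit 421) (nat_lit 277)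 (nat_lit 202)) (XT.nd (nat_lit 78) (nat_lit 0) (nat_lit 0) (XT.lf (nat_lit 0) (nat_lit 172006004279) (nat_lit 152) (nat_lit 32889575587) (nat_lit 0) (nat_lit 165915667149) (nat_lit 2) (nat_lit 5) (nat_lit 4) (nat_lit 4) (nat_lit 2) (nat_lit 4) (nat_lit 422) (nat_lit 277) (nat_lit 201)) (XT.lf (nat_lit 0) (nat_lit 184280887283) (nat_lit 152) (nat_lit 26687871348) (nat_lit 0) (nat_lit 178183258613) (nat_lit 2) (nat_lit 5) (nat_lit 4) (nat_lit 4) (nat_lit 2) (nat_lit 4) (nat_lit 423) (nat_lit 277) (nat_lit 200)))) (XT.nd (nat_lit 78) (nat_lit 0) (nat_lit 0) (XT.lf (nat_lit 0) (nat_lit 197160839516) (nat_lit 152) (nat_lit 20193154679) (nat_lit 0) (nat_lit 191056266522) (nat_lit 2) (nat_lit 5) (nat_lit 4) (nat_lit 4) (nat_lit 2) (nat_lit 4) (nat_lit 424) (nat_lit 277) (nat_lit 199)) (XT.nd (nat_lit 78) (nat_lit 0) (nat_lit 0) (XT.lf (nat_lit 0) (nat_lit 210676527532) (nat_lit 152) (nat_lit 13389961972)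 (nat_lit 0) (nat_lit 204565340896) (nat_lit 2) (nat_lit 5) (nat_lit 4) (nat_lit 4) (nat_lit 2) (nat_lit 4) (nat_lit 425) (nat_lit 277) (nat_lit 198)) (XT.lf (nat_lit 0) (nat_lit 224860131538) (nat_lit 152) (nat_lit 6262095147) (nat_lit 0) (nat_lit 218742646196) (nat_lit 2) (nat_lit 5) (nat_lit 4) (nat_lit 4) (nat_lit 2) (nat_lit 4) (nat_lit 426) (nat_lit 277) (nat_lit 197))))))) (XT.nd (nat_lit 40482) (nat_lit 0) (nat_lit 1216) (XT.nd (nat_lit 468) (nat_lit 0) (nat_lit 0) (XT.nd (nat_lit 234) (nat_lit 0) (nat_lit 0) (XT.nd (nat_lit 78) (nat_lit 0) (nat_lit 0) (XT.lf (nat_lit 0) (nat_lit 1247339561) (nat_lit 76) (nat_lit 238517556927) (nat_lit 76) (nat_lit 232394072816) (nat_lit 1) (nat_lit 4) (nat_lit 2) (nat_lit 5) (nat_lit 2) (nat_lit 4) (nat_lit 427) (nat_lit 277) (nat_lit 196)) (XT.nd (nat_lit 78) (nat_lit 0) (nat_lit 0) (XT.lf (nat_lit 0) (nat_lit 9335141570) (nat_lit 76) (nat_lit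 246178446303) (nat_lit 76) (nat_lit 240049249080) (nat_lit 1) (nat_lit 4) (nat_lit 2) (nat_lit 5) (nat_lit 2) (nat_lit 4) (nat_lit 428) (nat_lit 277) (nat_lit 195)) (XT.lf (nat_lit 0) (nat_lit 17813514403) (nat_lit 76) (nat_lit 254229186639) (nat_lit 76) (nat_lit 248094548356) (nat_lit 1) (nat_lit 4) (nat_lit 2) (nat_lit 5) (nat_lit 2) (nat_lit 4) (nat_lit 429) (nat_lit 277) (nat_lit 194)))) (XT.nd (nat_lit 78) (nat_lit 0) (nat_lit 0) (XT.lf (nat_lit 0) (nat_lit 26702644662) (nat_lit 76) (nat_lit 262688946364) (nat_lit 76) (nat_lit 256549126119) (nat_lit 1) (nat_lit 4) (nat_lit 2) (nat_lit 5) (nat_lit 2) (nat_lit 4) (nat_lit 430) (nat_lit 277) (nat_lit 193)) (XT.nd (nat_lit 78) (nat_lit 0) (nat_lit 0) (XT.lf (nat_lit 0) (nat_lit 36023696944) (nat_lit 76) (nat_lit 271577867762) (nat_lit 76) (nat_lit 265433112316) (nat_lit 1) (nat_lit 4) (nat_lit 2) (nat_lit 5) (nat_lit 2) (nat_lit 4) (nat_lit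 431) (nat_lit 277) (nat_lit 192)) (XT.lf (nat_lit 0) (nat_lit 45798864230) (nat_lit 76) (nat_lit 280917114933) (nat_lit 76) (nat_lit 274767659295) (nat_lit 1) (nat_lit 4) (nat_lit 2) (nat_lit 5) (nat_lit 2) (nat_lit 4) (nat_lit 432) (nat_lit 277) (nat_lit 191))))) (XT.nd (nat_lit 234) (nat_lit 0) (nat_lit 0) (XT.nd (nat_lit 78) (nat_lit 0) (nat_lit 0) (XT.lf (nat_lit 0) (nat_lit 56051420727) (nat_lit 76) (nat_lit 290728924178) (nat_lit 76) (nat_lit 284574992168) (nat_lit 1) (nat_lit 4) (nat_lit 2) (nat_lit 5) (nat_lit 2) (nat_lit 4) (nat_lit 433) (nat_lit 277) (nat_lit 190)) (XT.nd (nat_lit 78) (nat_lit 0) (nat_lit 0) (XT.lf (nat_lit 0) (nat_lit 66805777286) (nat_lit 76) (nat_lit 301036656950) (nat_lit 76) (nat_lit 294878461727) (nat_lit 1) (nat_lit 4) (nat_lit 2) (nat_lit 5) (nat_lit 2) (nat_lit 4) (nat_lit 434) (nat_lit 277) (nat_lit 189)) (XT.lf (nat_lit 0) (nat_lit 78087539515) (nat_lit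 76) (nat_lit 311864855468) (nat_lit 76) (nat_lit 305702600043) (nat_lit 1) (nat_lit 4) (nat_lit 2) (nat_lit 5) (nat_lit 2) (nat_lit 4) (nat_lit 435) (nat_lit 277) (nat_lit 188)))) (XT.nd (nat_lit 78) (nat_lit 0) (nat_lit 0) (XT.lf (nat_lit 0) (nat_lit 89923568755) (nat_lit 76) (nat_lit 323239301158) (nat_lit 76) (nat_lit 317073178873) (nat_lit 1) (nat_lit 4) (nat_lit 2) (nat_lit 5) (nat_lit 2) (nat_lit 4) (nat_lit 436) (nat_lit 277) (nat_lit 187)) (XT.nd (nat_lit 39624) (nat_lit 0) (nat_lit 2128) (XT.lf (nat_lit 0) (nat_lit 102342046027) (nat_lit 76) (nat_lit 335187076034) (nat_lit 76) (nat_lit 329017271025) (nat_lit 1) (nat_lit 4) (nat_lit 2) (nat_lit 5) (nat_lit 2) (nat_lit 4) (nat_lit 437) (nat_lit 277) (nat_lit 186)) (XT.lf (nat_lit 0) (nat_lit 624856209) (nat_lit 152) (nat_lit 3001649466) (nat_lit 152) (nat_lit 3001649466) (nat_lit 29) (nat_lit 4) (nat_lit 31) (nat_lit 5) (nat_lit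 31) (nat_lit 4) (nat_lit 344) (nat_lit 278) (nat_lit 278)))))) (XT.nd (nat_lit 468) (nat_lit 380) (nat_lit 0) (XT.nd (nat_lit 234) (nat_lit 228) (nat_lit 0) (XT.nd (nat_lit 78) (nat_lit 304) (nat_lit 0) (XT.lf (nat_lit 0) (nat_lit 10883076630) (nat_lit 152) (nat_lit 1624122549) (nat_lit 152) (nat_lit 1139839807) (nat_lit 29) (nat_lit 4) (nat_lit 31) (nat_lit 5) (nat_lit 31) (nat_lit 4) (nat_lit 345) (nat_lit 278) (nat_lit 277)) (XT.nd (nat_lit 78) (nat_lit 152) (nat_lit 0) (XT.lf (nat_lit 0) (nat_lit 3820016317) (nat_lit 152) (nat_lit 7315708458) (nat_lit 0) (nat_lit 2919535935) (nat_lit 27) (nat_lit 5) (nat_lit 29) (nat_lit 4) (nat_lit 27) (nat_lit 4) (nat_lit 346) (nat_lit 278) (nat_lit 276)) (XT.lf (nat_lit 0) (nat_lit 2043301180) (nat_lit 152) (nat_lit 6880903670) (nat_lit 152) (nat_lit 5562081646) (nat_lit 25) (nat_lit 4) (nat_lit 27) (nat_lit 5) (nat_lit 27) (nat_lit 4) (nat_lit 347)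 (nat_lit 278) (nat_lit 275)))) (XT.nd (nat_lit 78) (nat_lit 228) (nat_lit 0) (XT.lf (nat_lit 0) (nat_lit 11820557627) (nat_lit 152) (nat_lit 2418906126) (nat_lit 152) (nat_lit 701663492) (nat_lit 25) (nat_lit 4) (nat_lit 27) (nat_lit 5) (nat_lit 27) (nat_lit 4) (nat_lit 348) (nat_lit 278) (nat_lit 274)) (XT.nd (nat_lit 78) (nat_lit 76) (nat_lit 0) (XT.lf (nat_lit 0) (nat_lit 4235984943) (nat_lit 152) (nat_lit 8941449118) (nat_lit 0) (nat_lit 2239136528) (nat_lit 23) (nat_lit 5) (nat_lit 25) (nat_lit 4) (nat_lit 23) (nat_lit 4) (nat_lit 349) (nat_lit 278) (nat_lit 273)) (XT.lf (nat_lit 0) (nat_lit 411031841) (nat_lit 76) (nat_lit 8924167031) (nat_lit 76) (nat_lit 6583147913) (nat_lit 22) (nat_lit 4) (nat_lit 23) (nat_lit 5) (nat_lit 23) (nat_lit 4) (nat_lit 350) (nat_lit 278) (nat_lit 272))))) (XT.nd (nat_lit 234) (nat_lit 228) (nat_lit 0) (XT.nd (nat_lit 78) (nat_lit 152) (nat_lit 0) (XT.lf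 (nat_lit 0) (nat_lit 10250443179) (nat_lit 76) (nat_lit 4431981723) (nat_lit 76) (nat_lit 1763180983) (nat_lit 22) (nat_lit 4) (nat_lit 23) (nat_lit 5) (nat_lit 23) (nat_lit 4) (nat_lit 351) (nat_lit 278) (nat_lit 271)) (XT.nd (nat_lit 78) (nat_lit 0) (nat_lit 0) (XT.lf (nat_lit 0) (nat_lit 3095418689) (nat_lit 152) (nat_lit 13649721884) (nat_lit 0) (nat_lit 256396104) (nat_lit 20) (nat_lit 5) (nat_lit 22) (nat_lit 4) (nat_lit 20) (nat_lit 4) (nat_lit 352) (nat_lit 278) (nat_lit 270)) (XT.lf (nat_lit 0) (nat_lit 8164612395) (nat_lit 152) (nat_lit 4375461046) (nat_lit 0) (nat_lit 5042439721) (nat_lit 20) (nat_lit 5) (nat_lit 22) (nat_lit 4) (nat_lit 20) (nat_lit 4) (nat_lit 353) (nat_lit 278) (nat_lit 269)))) (XT.nd (nat_lit 78) (nat_lit 152) (nat_lit 0) (XT.lf (nat_lit 0) (nat_lit 5261006313) (nat_lit 76) (nat_lit 8163279488) (nat_lit 76) (nat_lit 4771440062) (nat_lit 19) (nat_lit 4) (nat_lit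 20) (nat_lit 5) (nat_lit 20) (nat_lit 4) (nat_lit 354) (nat_lit 278) (nat_lit 268)) (XT.nd (nat_lit 78) (nat_lit 76) (nat_lit 0) (XT.lf (nat_lit 0) (nat_lit 34499844) (nat_lit 152) (nat_lit 3577940222) (nat_lit 76) (nat_lit 15230580565) (nat_lit 18) (nat_lit 5) (nat_lit 20) (nat_lit 5) (nat_lit 19) (nat_lit 4) (nat_lit 355) (nat_lit 278) (nat_lit 267)) (XT.lf (nat_lit 0) (nat_lit 4897072195) (nat_lit 152) (nat_lit 13433690773) (nat_lit 0) (nat_lit 1189204959) (nat_lit 17) (nat_lit 5) (nat_lit 19) (nat_lit 4) (nat_lit 17) (nat_lit 4) (nat_lit 356) (nat_lit 278) (nat_lit 266))))))))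
noncomputable def xc47 : XT := (XT.nd (nat_lit 1872) (nat_lit 380) (nat_lit 0) (XT.nd (nat_lit 936) (nat_lit 228) (nat_lit 0) (XT.nd (nat_lit 468) (nat_lit 304) (nat_lit 0) (XT.nd (nat_lit 234) (nat_lit 152) (nat_lit 0) (XT.nd (nat_lit 78) (nat_lit 76) (nat_lit 0) (XT.lf (nat_lit 0) (nat_lit 9986513322) (nat_lit 152) (nat_lit 4188303259) (nat_lit 0) (nat_lit 6056790582) (nat_lit 17) (nat_lit 5) (nat_lit 19) (nat_lit 4) (nat_lit 17) (nat_lit 4) (nat_lit 357) (nat_lit 278) (nat_lit 265)) (XT.nd (nat_lit 78) (nat_lit 0) (nat_lit 0) (XT.lf (nat_lit 0) (nat_lit 5447734087) (nat_lit 76) (nat_lit 9837206181) (nat_lit 76) (nat_lit 5696192485) (nat_lit 16) (nat_lit 4) (nat_lit 17) (nat_lit 5) (nat_lit 17) (nat_lit 4) (nat_lit 358) (nat_lit 278) (nat_lit 264)) (XT.lf (nat_lit 0) (nat_lit 15468968115) (nat_lit 76) (nat_lit 5322148466) (nat_lit 76) (nat_lit 979905288) (nat_lit 16) (nat_lit 4) (nat_lit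 17) (nat_lit 5) (nat_lit 17) (nat_lit 4) (nat_lit 359) (nat_lit 278) (nat_lit 263)))) (XT.nd (nat_lit 78) (nat_lit 0) (nat_lit 0) (XT.lf (nat_lit 0) (nat_lit 3196534233) (nat_lit 76) (nat_lit 574404565) (nat_lit 152) (nat_lit 18830097889) (nat_lit 14) (nat_lit 5) (nat_lit 15) (nat_lit 5) (nat_lit 16) (nat_lit 4) (nat_lit 360) (nat_lit 278) (nat_lit 262)) (XT.nd (nat_lit 78) (nat_lit 0) (nat_lit 0) (XT.lf (nat_lit 0) (nat_lit 8780305169) (nat_lit 152) (nat_lit 10400288246) (nat_lit 0) (nat_lit 4288484811) (nat_lit 14) (nat_lit 5) (nat_lit 16) (nat_lit 4) (nat_lit 14) (nat_lit 4) (nat_lit 361) (nat_lit 278) (nat_lit 261)) (XT.lf (nat_lit 0) (nat_lit 13932003513) (nat_lit 152) (nat_lit 1179317552) (nat_lit 0) (nat_lit 9274631162) (nat_lit 14) (nat_lit 5) (nat_lit 16) (nat_lit 4) (nat_lit 14) (nat_lit 4) (nat_lit 362) (nat_lit 278) (nat_lit 260))))) (XT.nd (nat_lit 234) (nat_lit 76) (nat_lit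 0) (XT.nd (nat_lit 78) (nat_lit 152) (nat_lit 0) (XT.lf (nat_lit 0) (nat_lit 8563415149) (nat_lit 76) (nat_lit 10799615475) (nat_lit 76) (nat_lit 5984574559) (nat_lit 13) (nat_lit 4) (nat_lit 14) (nat_lit 5) (nat_lit 14) (nat_lit 4) (nat_lit 363) (nat_lit 278) (nat_lit 259)) (XT.nd (nat_lit 78) (nat_lit 152) (nat_lit 0) (XT.lf (nat_lit 0) (nat_lit 18624299877) (nat_lit 76) (nat_lit 6351380098) (nat_lit 76) (nat_lit 1386178643) (nat_lit 13) (nat_lit 4) (nat_lit 14) (nat_lit 5) (nat_lit 14) (nat_lit 4) (nat_lit 364) (nat_lit 278) (nat_lit 258)) (XT.lf (nat_lit 0) (nat_lit 1553929290) (nat_lit 76) (nat_lit 1695895480) (nat_lit 152) (nat_lit 24178439394) (nat_lit 11) (nat_lit 5) (nat_lit 12) (nat_lit 5) (nat_lit 13) (nat_lit 4) (nat_lit 365) (nat_lit 278) (nat_lit 257)))) (XT.nd (nat_lit 78) (nat_lit 76) (nat_lit 0) (XT.lf (nat_lit 0) (nat_lit 8148116108) (nat_lit 152) (nat_lit 17241464047)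 (nat_lit 0) (nat_lit 3153438466) (nat_lit 11) (nat_lit 5) (nat_lit 13) (nat_lit 4) (nat_lit 11) (nat_lit 4) (nat_lit 366) (nat_lit 278) (nat_lit 256)) (XT.nd (nat_lit 78) (nat_lit 76) (nat_lit 0) (XT.lf (nat_lit 0) (nat_lit 13218212358) (nat_lit 152) (nat_lit 8398974242) (nat_lit 0) (nat_lit 8099997269) (nat_lit 11) (nat_lit 5) (nat_lit 13) (nat_lit 4) (nat_lit 11) (nat_lit 4) (nat_lit 367) (nat_lit 278) (nat_lit 255)) (XT.lf (nat_lit 0) (nat_lit 723832940) (nat_lit 76) (nat_lit 17733175617) (nat_lit 76) (nat_lit 12497305817) (nat_lit 10) (nat_lit 4) (nat_lit 11) (nat_lit 5) (nat_lit 11) (nat_lit 4) (nat_lit 368) (nat_lit 278) (nat_lit 254)))))) (XT.nd (nat_lit 468) (nat_lit 76) (nat_lit 0) (XT.nd (nat_lit 234) (nat_lit 76) (nat_lit 0) (XT.nd (nat_lit 78) (nat_lit 76) (nat_lit 0) (XT.lf (nat_lit 0) (nat_lit 10412383074) (nat_lit 76) (nat_lit 13593231347) (nat_lit 76) (nat_lit 8245309442)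 (nat_lit 10) (nat_lit 4) (nat_lit 11) (nat_lit 5) (nat_lit 11) (nat_lit 4) (nat_lit 369) (nat_lit 278) (nat_lit 253)) (XT.nd (nat_lit 78) (nat_lit 76) (nat_lit 0) (XT.lf (nat_lit 0) (nat_lit 20412036115) (nat_lit 76) (nat_lit 9329737474) (nat_lit 76) (nat_lit 3875099278) (nat_lit 10) (nat_lit 4) (nat_lit 11) (nat_lit 5) (nat_lit 11) (nat_lit 4) (nat_lit 370) (nat_lit 278) (nat_lit 252)) (XT.lf (nat_lit 0) (nat_lit 603766682) (nat_lit 152) (nat_lit 4318551059) (nat_lit 76) (nat_lit 30132608997) (nat_lit 9) (nat_lit 5) (nat_lit 11) (nat_lit 5) (nat_lit 10) (nat_lit 4) (nat_lit 371) (nat_lit 278) (nat_lit 251)))) (XT.nd (nat_lit 78) (nat_lit 0) (nat_lit 0) (XT.lf (nat_lit 0) (nat_lit 4946890357) (nat_lit 76) (nat_lit 223820831) (nat_lit 152) (nat_lit 31391290728) (nat_lit 8) (nat_lit 5) (nat_lit 9) (nat_lit 5) (nat_lit 10) (nat_lit 4) (nat_lit 372) (nat_lit 278) (nat_lit 250)) (XT.nd (nat_lit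 78) (nat_lit 0) (nat_lit 0) (XT.lf (nat_lit 0) (nat_lit 10031300304) (nat_lit 152) (nat_lit 23550247517) (nat_lit 0) (nat_lit 4559630662) (nat_lit 8) (nat_lit 5) (nat_lit 10) (nat_lit 4) (nat_lit 8) (nat_lit 4) (nat_lit 373) (nat_lit 278) (nat_lit 249)) (XT.lf (nat_lit 0) (nat_lit 15059951497) (nat_lit 152) (nat_lit 15238455804) (nat_lit 0) (nat_lit 9504666849) (nat_lit 8) (nat_lit 5) (nat_lit 10) (nat_lit 4) (nat_lit 8) (nat_lit 4) (nat_lit 374) (nat_lit 278) (nat_lit 248))))) (XT.nd (nat_lit 234) (nat_lit 0) (nat_lit 0) (XT.nd (nat_lit 78) (nat_lit 76) (nat_lit 0) (XT.lf (nat_lit 0) (nat_lit 20265143277) (nat_lit 152) (nat_lit 6656451970) (nat_lit 0) (nat_lit 14630225289) (nat_lit 8) (nat_lit 5) (nat_lit 10) (nat_lit 4) (nat_lit 8) (nat_lit 4) (nat_lit 375) (nat_lit 278) (nat_lit 247)) (XT.nd (nat_lit 78) (nat_lit 0) (nat_lit 0) (XT.lf (nat_lit 0) (nat_lit 2289474819) (nat_lit 76) (nat_lit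 23405539255) (nat_lit 76) (nat_lit 17694779992) (nat_lit 7) (nat_lit 4) (nat_lit 8) (nat_lit 5) (nat_lit 8) (nat_lit 4) (nat_lit 376) (nat_lit 278) (nat_lit 246)) (XT.lf (nat_lit 0) (nat_lit 11777573342) (nat_lit 76) (nat_lit 19661479277) (nat_lit 76) (nat_lit 13878490227) (nat_lit 7) (nat_lit 4) (nat_lit 8) (nat_lit 5) (nat_lit 8) (nat_lit 4) (nat_lit 377) (nat_lit 278) (nat_lit 245)))) (XT.nd (nat_lit 78) (nat_lit 0) (nat_lit 0) (XT.lf (nat_lit 0) (nat_lit 21610341946) (nat_lit 76) (nat_lit 15793231117) (nat_lit 76) (nat_lit 9941451795) (nat_lit 7) (nat_lit 4) (nat_lit 8) (nat_lit 5) (nat_lit 8) (nat_lit 4) (nat_lit 378) (nat_lit 278) (nat_lit 244)) (XT.nd (nat_lit 78) (nat_lit 0) (nat_lit 0) (XT.lf (nat_lit 0) (nat_lit 31811191985) (nat_lit 76) (nat_lit 11791584663) (nat_lit 76) (nat_lit 5874290795) (nat_lit 7) (nat_lit 4) (nat_lit 8) (nat_lit 5) (nat_lit 8) (nat_lit 4) (nat_lit 379)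 (nat_lit 278) (nat_lit 243)) (XT.lf (nat_lit 0) (nat_lit 42404411197) (nat_lit 76) (nat_lit 7647012183) (nat_lit 76) (nat_lit 1667323511) (nat_lit 7) (nat_lit 4) (nat_lit 8) (nat_lit 5) (nat_lit 8) (nat_lit 4) (nat_lit 380) (nat_lit 278) (nat_lit 242))))))) (XT.nd (nat_lit 936) (nat_lit 152) (nat_lit 0) (XT.nd (nat_lit 468) (nat_lit 76) (nat_lit 0) (XT.nd (nat_lit 234) (nat_lit 0) (nat_lit 0) (XT.nd (nat_lit 78) (nat_lit 76) (nat_lit 0) (XT.lf (nat_lit 0) (nat_lit 2603386917) (nat_lit 152) (nat_lit 702169114) (nat_lit 76) (nat_lit 50767744998) (nat_lit 6) (nat_lit 5) (nat_lit 8) (nat_lit 5) (nat_lit 7) (nat_lit 4) (nat_lit 381) (nat_lit 278) (nat_lit 241)) (XT.nd (nat_lit 78) (nat_lit 0) (nat_lit 0) (XT.lf (nat_lit 0) (nat_lit 7129490893) (nat_lit 152) (nat_lit 48085782048) (nat_lit 0) (nat_lit 1324056395) (nat_lit 5) (nat_lit 5) (nat_lit 7) (nat_lit 4) (nat_lit 5) (nat_lit 4) (nat_lit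 382) (nat_lit 278) (nat_lit 240)) (XT.lf (nat_lit 0) (nat_lit 11892554474) (nat_lit 152) (nat_lit 41199791558) (nat_lit 0) (nat_lit 6035787615) (nat_lit 5) (nat_lit 5) (nat_lit 7) (nat_lit 4) (nat_lit 5) (nat_lit 4) (nat_lit 383) (nat_lit 278) (nat_lit 239)))) (XT.nd (nat_lit 78) (nat_lit 0) (nat_lit 0) (XT.lf (nat_lit 0) (nat_lit 16840798324) (nat_lit 152) (nat_lit 34073091952) (nat_lit 0) (nat_lit 10935143502) (nat_lit 5) (nat_lit 5) (nat_lit 7) (nat_lit 4) (nat_lit 5) (nat_lit 4) (nat_lit 384) (nat_lit 278) (nat_lit 238)) (XT.nd (nat_lit 78) (nat_lit 0) (nat_lit 0) (XT.lf (nat_lit 0) (nat_lit 21986003976) (nat_lit 152) (nat_lit 26688714897) (nat_lit 0) (nat_lit 16033789191) (nat_lit 5) (nat_lit 5) (nat_lit 7) (nat_lit 4) (nat_lit 5) (nat_lit 4) (nat_lit 385) (nat_lit 278) (nat_lit 237)) (XT.lf (nat_lit 0) (nat_lit 27340421921) (nat_lit 152) (nat_lit 19029078543) (nat_lit 0) (nat_lit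 21343864312) (nat_lit 5) (nat_lit 5) (nat_lit 7) (nat_lit 4) (nat_lit 5) (nat_lit 4) (nat_lit 386) (nat_lit 278) (nat_lit 236))))) (XT.nd (nat_lit 234) (nat_lit 0) (nat_lit 0) (XT.nd (nat_lit 78) (nat_lit 76) (nat_lit 0) (XT.lf (nat_lit 0) (nat_lit 32916800771) (nat_lit 152) (nat_lit 11075945661) (nat_lit 0) (nat_lit 26878011903) (nat_lit 5) (nat_lit 5) (nat_lit 7) (nat_lit 4) (nat_lit 5) (nat_lit 4) (nat_lit 387) (nat_lit 278) (nat_lit 235)) (XT.nd (nat_lit 78) (nat_lit 76) (nat_lit 0) (XT.lf (nat_lit 0) (nat_lit 38728417621) (nat_lit 152) (nat_lit 2810380220) (nat_lit 0) (nat_lit 32649408504) (nat_lit 5) (nat_lit 5) (nat_lit 7) (nat_lit 4) (nat_lit 5) (nat_lit 4) (nat_lit 388) (nat_lit 278) (nat_lit 234)) (XT.lf (nat_lit 0) (nat_lit 5978651895) (nat_lit 76) (nat_lit 38903801268) (nat_lit 76) (nat_lit 32786487154) (nat_lit 4) (nat_lit 4) (nat_lit 5) (nat_lit 5) (nat_lit 5) (nat_lit 4)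 (nat_lit 389) (nat_lit 278) (nat_lit 233)))) (XT.nd (nat_lit 78) (nat_lit 0) (nat_lit 0) (XT.lf (nat_lit 0) (nat_lit 15224849001) (nat_lit 76) (nat_lit 36126160643) (nat_lit 76) (nat_lit 29972365578) (nat_lit 4) (nat_lit 4) (nat_lit 5) (nat_lit 5) (nat_lit 5) (nat_lit 4) (nat_lit 390) (nat_lit 278) (nat_lit 232)) (XT.nd (nat_lit 78) (nat_lit 0) (nat_lit 0) (XT.lf (nat_lit 0) (nat_lit 24857301993) (nat_lit 76) (nat_lit 33246857683) (nat_lit 76) (nat_lit 27058318857) (nat_lit 4) (nat_lit 4) (nat_lit 5) (nat_lit 5) (nat_lit 5) (nat_lit 4) (nat_lit 391) (nat_lit 278) (nat_lit 231)) (XT.lf (nat_lit 0) (nat_lit 34898945280) (nat_lit 76) (nat_lit 30259036907) (nat_lit 76) (nat_lit 24037408783) (nat_lit 4) (nat_lit 4) (nat_lit 5) (nat_lit 5) (nat_lit 5) (nat_lit 4) (nat_lit 392) (nat_lit 278) (nat_lit 230)))))) (XT.nd (nat_lit 468) (nat_lit 152) (nat_lit 0) (XT.nd (nat_lit 234) (nat_lit 0) (nat_lit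 0) (XT.nd (nat_lit 78) (nat_lit 0) (nat_lit 0) (XT.lf (nat_lit 0) (nat_lit 45373687538) (nat_lit 76) (nat_lit 27155584455) (nat_lit 76) (nat_lit 20902442715) (nat_lit 4) (nat_lit 4) (nat_lit 5) (nat_lit 5) (nat_lit 5) (nat_lit 4) (nat_lit 393) (nat_lit 278) (nat_lit 229)) (XT.nd (nat_lit 78) (nat_lit 0) (nat_lit 0) (XT.lf (nat_lit 0) (nat_lit 56306468628) (nat_lit 76) (nat_lit 23929111155) (nat_lit 76) (nat_lit 17645956447) (nat_lit 4) (nat_lit 4) (nat_lit 5) (nat_lit 5) (nat_lit 5) (nat_lit 4) (nat_lit 394) (nat_lit 278) (nat_lit 228)) (XT.lf (nat_lit 0) (nat_lit 67723318984) (nat_lit 76) (nat_lit 20571934927) (nat_lit 76) (nat_lit 14260196440) (nat_lit 4) (nat_lit 4) (nat_lit 5) (nat_lit 5) (nat_lit 5) (nat_lit 4) (nat_lit 395) (nat_lit 278) (nat_lit 227)))) (XT.nd (nat_lit 78) (nat_lit 0) (nat_lit 0) (XT.lf (nat_lit 0) (nat_lit 79651421580) (nat_lit 76) (nat_lit 17076062495) (nat_lit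 76) (nat_lit 10737101361) (nat_lit 4) (nat_lit 4) (nat_lit 5) (nat_lit 5) (nat_lit 5) (nat_lit 4) (nat_lit 396) (nat_lit 278) (nat_lit 226)) (XT.nd (nat_lit 78) (nat_lit 0) (nat_lit 0) (XT.lf (nat_lit 0) (nat_lit 92119176662) (nat_lit 76) (nat_lit 13433170353) (nat_lit 76) (nat_lit 7068282888) (nat_lit 4) (nat_lit 4) (nat_lit 5) (nat_lit 5) (nat_lit 5) (nat_lit 4) (nat_lit 397) (nat_lit 278) (nat_lit 225)) (XT.lf (nat_lit 0) (nat_lit 105156269361) (nat_lit 76) (nat_lit 9634584947) (nat_lit 76) (nat_lit 3245005740) (nat_lit 4) (nat_lit 4) (nat_lit 5) (nat_lit 5) (nat_lit 5) (nat_lit 4) (nat_lit 398) (nat_lit 278) (nat_lit 224))))) (XT.nd (nat_lit 234) (nat_lit 0) (nat_lit 0) (XT.nd (nat_lit 78) (nat_lit 76) (nat_lit 0) (XT.lf (nat_lit 0) (nat_lit 718089831) (nat_lit 152) (nat_lit 4941010997) (nat_lit 76) (nat_lit 118063489342) (nat_lit 3) (nat_lit 5) (nat_lit 5) (nat_lit 5) (nat_lit 4) (nat_lit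 4) (nat_lit 399) (nat_lit 278) (nat_lit 223)) (XT.nd (nat_lit 78) (nat_lit 0) (nat_lit 0) (XT.lf (nat_lit 0) (nat_lit 3400260970) (nat_lit 76) (nat_lit 1397666962) (nat_lit 152) (nat_lit 124891690004) (nat_lit 2) (nat_lit 5) (nat_lit 3) (nat_lit 5) (nat_lit 4) (nat_lit 4) (nat_lit 400) (nat_lit 278) (nat_lit 222)) (XT.lf (nat_lit 0) (nat_lit 9189469795) (nat_lit 152) (nat_lit 123720028081) (nat_lit 0) (nat_lit 3040116511) (nat_lit 2) (nat_lit 5) (nat_lit 4) (nat_lit 4) (nat_lit 2) (nat_lit 4) (nat_lit 401) (nat_lit 278) (nat_lit 221)))) (XT.nd (nat_lit 78) (nat_lit 0) (nat_lit 0) (XT.lf (nat_lit 0) (nat_lit 13799333319) (nat_lit 152) (nat_lit 121092709461) (nat_lit 0) (nat_lit 7630633408) (nat_lit 2) (nat_lit 5) (nat_lit 4) (nat_lit 4) (nat_lit 2) (nat_lit 4) (nat_lit 402) (nat_lit 278) (nat_lit 220)) (XT.nd (nat_lit 78) (nat_lit 0) (nat_lit 0) (XT.lf (nat_lit 0) (nat_lit 18616672870) (nat_lit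 152) (nat_lit 118379324089) (nat_lit 0) (nat_lit 12429547600) (nat_lit 2) (nat_lit 5) (nat_lit 4) (nat_lit 4) (nat_lit 2) (nat_lit 4) (nat_lit 403) (nat_lit 278) (nat_lit 219)) (XT.lf (nat_lit 0) (nat_lit 23652958305) (nat_lit 152) (nat_lit 115573411521) (nat_lit 0) (nat_lit 17448285074) (nat_lit 2) (nat_lit 5) (nat_lit 4) (nat_lit 4) (nat_lit 2) (nat_lit 4) (nat_lit 404) (nat_lit 278) (nat_lit 218))))))))
noncomputable def xc48 : XT := (XT.nd (nat_lit 1794) (nat_lit 76) (nat_lit 0) (XT.nd (nat_lit 858) (nat_lit 0) (nat_lit 0) (XT.nd (nat_lit 390) (nat_lit 0) (nat_lit 0) (XT.nd (nat_lit 156) (nat_lit 0) (nat_lit 0) (XT.nd (nat_lit 78) (nat_lit 0) (nat_lit 0) (XT.lf (nat_lit 0) (nat_lit 28920180780) (nat_lit 152) (nat_lit 112668291015) (nat_lit 0) (nat_lit 22698795206) (nat_lit 2) (nat_lit 5) (nat_lit 4) (nat_lit 4) (nat_lit 2) (nat_lit 4) (nat_lit 405) (nat_lit 278) (nat_lit 217)) (XT.lf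 (nat_lit 0) (nat_lit 34430881300) (nat_lit 152) (nat_lit 109657045617) (nat_lit 0) (nat_lit 28193579208) (nat_lit 2) (nat_lit 5) (nat_lit 4) (nat_lit 4) (nat_lit 2) (nat_lit 4) (nat_lit 406) (nat_lit 278) (nat_lit 216))) (XT.nd (nat_lit 78) (nat_lit 0) (nat_lit 0) (XT.lf (nat_lit 0) (nat_lit 40198180582) (nat_lit 152) (nat_lit 106532505694) (nat_lit 0) (nat_lit 33945719902) (nat_lit 2) (nat_lit 5) (nat_lit 4) (nat_lit 4) (nat_lit 2) (nat_lit 4) (nat_lit 407) (nat_lit 278) (nat_lit 215)) (XT.nd (nat_lit 78) (nat_lit 0) (nat_lit 0) (XT.lf (nat_lit 0) (nat_lit 46235810290) (nat_lit 152) (nat_lit 103287231867) (nat_lit 0) (nat_lit 39968912858) (nat_lit 2) (nat_lit 5) (nat_lit 4) (nat_lit 4) (nat_lit 2) (nat_lit 4) (nat_lit 408) (nat_lit 278) (nat_lit 214)) (XT.lf (nat_lit 0) (nat_lit 52558145732) (nat_lit 152) (nat_lit 99913497291) (nat_lit 0) (nat_lit 46277499015) (nat_lit 2) (nat_lit 5) (nat_lit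 4) (nat_lit 4) (nat_lit 2) (nat_lit 4) (nat_lit 409) (nat_lit 278) (nat_lit 213))))) (XT.nd (nat_lit 234) (nat_lit 0) (nat_lit 0) (XT.nd (nat_lit 78) (nat_lit 0) (nat_lit 0) (XT.lf (nat_lit 0) (nat_lit 59180240090) (nat_lit 152) (nat_lit 96403269268) (nat_lit 0) (nat_lit 52886498813) (nat_lit 2) (nat_lit 5) (nat_lit 4) (nat_lit 4) (nat_lit 2) (nat_lit 4) (nat_lit 410) (nat_lit 278) (nat_lit 212)) (XT.nd (nat_lit 78) (nat_lit 0) (nat_lit 0) (XT.lf (nat_lit 0) (nat_lit 66117860253) (nat_lit 152) (nat_lit 92748190109) (nat_lit 0) (nat_lit 59811647968) (nat_lit 2) (nat_lit 5) (nat_lit 4) (nat_lit 4) (nat_lit 2) (nat_lit 4) (nat_lit 411) (nat_lit 278) (nat_lit 211)) (XT.lf (nat_lit 0) (nat_lit 73387524365) (nat_lit 152) (nat_lit 88939557247) (nat_lit 0) (nat_lit 67069434930) (nat_lit 2) (nat_lit 5) (nat_lit 4) (nat_lit 4) (nat_lit 2) (nat_lit 4) (nat_lit 412) (nat_lit 278) (nat_lit 210)))) (XT.nd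 (nat_lit 78) (nat_lit 0) (nat_lit 0) (XT.lf (nat_lit 0) (nat_lit 81006541150) (nat_lit 152) (nat_lit 84968302507) (nat_lit 0) (nat_lit 74677140143) (nat_lit 2) (nat_lit 5) (nat_lit 4) (nat_lit 4) (nat_lit 2) (nat_lit 4) (nat_lit 413) (nat_lit 278) (nat_lit 209)) (XT.nd (nat_lit 78) (nat_lit 0) (nat_lit 0) (XT.lf (nat_lit 0) (nat_lit 88993051125) (nat_lit 152) (nat_lit 80824970521) (nat_lit 0) (nat_lit 82652877192) (nat_lit 2) (nat_lit 5) (nat_lit 4) (nat_lit 4) (nat_lit 2) (nat_lit 4) (nat_lit 414) (nat_lit 278) (nat_lit 208)) (XT.lf (nat_lit 0) (nat_lit 97366069789) (nat_lit 152) (nat_lit 76499696213) (nat_lit 0) (nat_lit 91015635927) (nat_lit 2) (nat_lit 5) (nat_lit 4) (nat_lit 4) (nat_lit 2) (nat_lit 4) (nat_lit 415) (nat_lit 278) (nat_lit 207)))))) (XT.nd (nat_lit 468) (nat_lit 0) (nat_lit 0) (XT.nd (nat_lit 234) (nat_lit 0) (nat_lit 0) (XT.nd (nat_lit 78) (nat_lit 0) (nat_lit 0) (XT.lf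 (nat_lit 0) (nat_lit 106145532901) (nat_lit 152) (nat_lit 71982181311) (nat_lit 0) (nat_lit 99785327678) (nat_lit 2) (nat_lit 5) (nat_lit 4) (nat_lit 4) (nat_lit 2) (nat_lit 4) (nat_lit 416) (nat_lit 278) (nat_lit 206)) (XT.nd (nat_lit 78) (nat_lit 0) (nat_lit 0) (XT.lf (nat_lit 0) (nat_lit 115352343945) (nat_lit 152) (nat_lit 67261669827) (nat_lit 0) (nat_lit 108982832663) (nat_lit 2) (nat_lit 5) (nat_lit 4) (nat_lit 4) (nat_lit 2) (nat_lit 4) (nat_lit 417) (nat_lit 278) (nat_lit 205)) (XT.lf (nat_lit 0) (nat_lit 125008423899) (nat_lit 152) (nat_lit 62326922447) (nat_lit 0) (nat_lit 118630049705) (nat_lit 2) (nat_lit 5) (nat_lit 4) (nat_lit 4) (nat_lit 2) (nat_lit 4) (nat_lit 418) (nat_lit 278) (nat_lit 204)))) (XT.nd (nat_lit 78) (nat_lit 0) (nat_lit 0) (XT.lf (nat_lit 0) (nat_lit 135136763430) (nat_lit 152) (nat_lit 57166189774) (nat_lit 0) (nat_lit 128749948366) (nat_lit 2) (nat_lit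 5) (nat_lit 4) (nat_lit 4) (nat_lit 2) (nat_lit 4) (nat_lit 419) (nat_lit 278) (nat_lit 203)) (XT.nd (nat_lit 78) (nat_lit 0) (nat_lit 0) (XT.lf (nat_lit 0) (nat_lit 145761477632) (nat_lit 152) (nat_lit 51767184349) (nat_lit 0) (nat_lit 139366623645) (nat_lit 2) (nat_lit 5) (nat_lit 4) (nat_lit 4) (nat_lit 2) (nat_lit 4) (nat_lit 420) (nat_lit 278) (nat_lit 202)) (XT.lf (nat_lit 0) (nat_lit 156907863443) (nat_lit 152) (nat_lit 46117051396) (nat_lit 0) (nat_lit 150505353339) (nat_lit 2) (nat_lit 5) (nat_lit 4) (nat_lit 4) (nat_lit 2) (nat_lit 4) (nat_lit 421) (nat_lit 278) (nat_lit 201))))) (XT.nd (nat_lit 234) (nat_lit 0) (nat_lit 0) (XT.nd (nat_lit 78) (nat_lit 0) (nat_lit 0) (XT.lf (nat_lit 0) (nat_lit 168602459878) (nat_lit 152) (nat_lit 40202338218) (nat_lit 0) (nat_lit 162192658234) (nat_lit 2) (nat_lit 5) (nat_lit 4) (nat_lit 4) (nat_lit 2) (nat_lit 4) (nat_lit 422) (nat_lit 278)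 (nat_lit 200)) (XT.nd (nat_lit 78) (nat_lit 0) (nat_lit 0) (XT.lf (nat_lit 0) (nat_lit 180873111213) (nat_lit 152) (nat_lit 34008962166) (nat_lit 0) (nat_lit 174456365245) (nat_lit 2) (nat_lit 5) (nat_lit 4) (nat_lit 4) (nat_lit 2) (nat_lit 4) (nat_lit 423) (nat_lit 278) (nat_lit 199)) (XT.lf (nat_lit 0) (nat_lit 193749033286) (nat_lit 152) (nat_lit 27522177104) (nat_lit 0) (nat_lit 187325673676) (nat_lit 2) (nat_lit 5) (nat_lit 4) (nat_lit 4) (nat_lit 2) (nat_lit 4) (nat_lit 424) (nat_lit 278) (nat_lit 198)))) (XT.nd (nat_lit 78) (nat_lit 0) (nat_lit 0) (XT.lf (nat_lit 0) (nat_lit 207260883053) (nat_lit 152) (nat_lit 20726538308) (nat_lit 0) (nat_lit 200831224736) (nat_lit 2) (nat_lit 5) (nat_lit 4) (nat_lit 4) (nat_lit 2) (nat_lit 4) (nat_lit 425) (nat_lit 278) (nat_lit 197)) (XT.nd (nat_lit 78) (nat_lit 0) (nat_lit 0) (XT.lf (nat_lit 0) (nat_lit 221440831585) (nat_lit 152) (nat_lit 13605865684)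 (nat_lit 0) (nat_lit 215005174500) (nat_lit 2) (nat_lit 5) (nat_lit 4) (nat_lit 4) (nat_lit 2) (nat_lit 4) (nat_lit 426) (nat_lit 278) (nat_lit 196)) (XT.lf (nat_lit 0) (nat_lit 236322640665) (nat_lit 152) (nat_lit 6143205251) (nat_lit 0) (nat_lit 229881270468) (nat_lit 2) (nat_lit 5) (nat_lit 4) (nat_lit 4) (nat_lit 2) (nat_lit 4) (nat_lit 427) (nat_lit 278) (nat_lit 195))))))) (XT.nd (nat_lit 40326) (nat_lit 0) (nat_lit 1368) (XT.nd (nat_lit 468) (nat_lit 0) (nat_lit 0) (XT.nd (nat_lit 234) (nat_lit 0) (nat_lit 0) (XT.nd (nat_lit 78) (nat_lit 0) (nat_lit 0) (XT.lf (nat_lit 0) (nat_lit 1734733537) (nat_lit 76) (nat_lit 250234093685) (nat_lit 76) (nat_lit 243787282429) (nat_lit 1) (nat_lit 4) (nat_lit 2) (nat_lit 5) (nat_lit 2) (nat_lit 4) (nat_lit 428) (nat_lit 278) (nat_lit 194)) (XT.nd (nat_lit 78) (nat_lit 0) (nat_lit 0) (XT.lf (nat_lit 0) (nat_lit 10206686265) (nat_lit 76) (nat_lit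 258287996154) (nat_lit 76) (nat_lit 251836002936) (nat_lit 1) (nat_lit 4) (nat_lit 2) (nat_lit 5) (nat_lit 2) (nat_lit 4) (nat_lit 429) (nat_lit 278) (nat_lit 193)) (XT.lf (nat_lit 0) (nat_lit 19089702139) (nat_lit 76) (nat_lit 266750767433) (nat_lit 76) (nat_lit 260293839014) (nat_lit 1) (nat_lit 4) (nat_lit 2) (nat_lit 5) (nat_lit 2) (nat_lit 4) (nat_lit 430) (nat_lit 278) (nat_lit 192)))) (XT.nd (nat_lit 78) (nat_lit 0) (nat_lit 0) (XT.lf (nat_lit 0) (nat_lit 28404931196) (nat_lit 76) (nat_lit 275642556979) (nat_lit 76) (nat_lit 269180928368) (nat_lit 1) (nat_lit 4) (nat_lit 2) (nat_lit 5) (nat_lit 2) (nat_lit 4) (nat_lit 431) (nat_lit 278) (nat_lit 191)) (XT.nd (nat_lit 78) (nat_lit 0) (nat_lit 0) (XT.lf (nat_lit 0) (nat_lit 38174552554) (nat_lit 76) (nat_lit 284984535719) (nat_lit 76) (nat_lit 278518430734) (nat_lit 1) (nat_lit 4) (nat_lit 2) (nat_lit 5) (nat_lit 2) (nat_lit 4) (nat_lit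 432) (nat_lit 278) (nat_lit 190)) (XT.lf (nat_lit 0) (nat_lit 48421827215) (nat_lit 76) (nat_lit 294798946459) (nat_lit 76) (nat_lit 288328578262) (nat_lit 1) (nat_lit 4) (nat_lit 2) (nat_lit 5) (nat_lit 2) (nat_lit 4) (nat_lit 433) (nat_lit 278) (nat_lit 189))))) (XT.nd (nat_lit 234) (nat_lit 0) (nat_lit 0) (XT.nd (nat_lit 78) (nat_lit 0) (nat_lit 0) (XT.lf (nat_lit 0) (nat_lit 59171153453) (nat_lit 76) (nat_lit 305109156844) (nat_lit 76) (nat_lit 298634728445) (nat_lit 1) (nat_lit 4) (nat_lit 2) (nat_lit 5) (nat_lit 2) (nat_lit 4) (nat_lit 434) (nat_lit 278) (nat_lit 188)) (XT.nd (nat_lit 78) (nat_lit 0) (nat_lit 0) (XT.lf (nat_lit 0) (nat_lit 70448124902) (nat_lit 76) (nat_lit 315939714995) (nat_lit 76) (nat_lit 309461419736) (nat_lit 1) (nat_lit 4) (nat_lit 2) (nat_lit 5) (nat_lit 2) (nat_lit 4) (nat_lit 435) (nat_lit 278) (nat_lit 187)) (XT.lf (nat_lit 0) (nat_lit 82279591493) (nat_lit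 76) (nat_lit 327316407953) (nat_lit 76) (nat_lit 320834429971) (nat_lit 1) (nat_lit 4) (nat_lit 2) (nat_lit 5) (nat_lit 2) (nat_lit 4) (nat_lit 436) (nat_lit 278) (nat_lit 186)))) (XT.nd (nat_lit 39468) (nat_lit 0) (nat_lit 2280) (XT.lf (nat_lit 0) (nat_lit 94693723385) (nat_lit 76) (nat_lit 339266323084) (nat_lit 76) (nat_lit 332780837747) (nat_lit 1) (nat_lit 4) (nat_lit 2) (nat_lit 5) (nat_lit 2) (nat_lit 4) (nat_lit 437) (nat_lit 278) (nat_lit 185)) (XT.nd (nat_lit 78) (nat_lit 152) (nat_lit 0) (XT.lf (nat_lit 0) (nat_lit 4144500307) (nat_lit 152) (nat_lit 1060381504) (nat_lit 152) (nat_lit 1060381504) (nat_lit 33) (nat_lit 4) (nat_lit 35) (nat_lit 5) (nat_lit 35) (nat_lit 4) (nat_lit 342) (nat_lit 279) (nat_lit 279)) (XT.lf (nat_lit 0) (nat_lit 2715908378) (nat_lit 152) (nat_lit 7963014069) (nat_lit 0) (nat_lit 2207411498) (nat_lit 31) (nat_lit 5) (nat_lit 33) (nat_lit 4) (nat_lit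 31) (nat_lit 4) (nat_lit 343) (nat_lit 279) (nat_lit 278)))))) (XT.nd (nat_lit 468) (nat_lit 304) (nat_lit 0) (XT.nd (nat_lit 234) (nat_lit 304) (nat_lit 0) (XT.nd (nat_lit 78) (nat_lit 152) (nat_lit 0) (XT.lf (nat_lit 0) (nat_lit 1095343409) (nat_lit 152) (nat_lit 6579067497) (nat_lit 152) (nat_lit 5586287875) (nat_lit 29) (nat_lit 4) (nat_lit 31) (nat_lit 5) (nat_lit 31) (nat_lit 4) (nat_lit 344) (nat_lit 279) (nat_lit 277)) (XT.nd (nat_lit 78) (nat_lit 152) (nat_lit 0) (XT.lf (nat_lit 0) (nat_lit 10581689517) (nat_lit 152) (nat_lit 2263959384) (nat_lit 152) (nat_lit 809958103) (nat_lit 29) (nat_lit 4) (nat_lit 31) (nat_lit 5) (nat_lit 31) (nat_lit 4) (nat_lit 345) (nat_lit 279) (nat_lit 276)) (XT.lf (nat_lit 0) (nat_lit 4040631149) (nat_lit 152) (nat_lit 7790378159) (nat_lit 0) (nat_lit 2237526383) (nat_lit 27) (nat_lit 5) (nat_lit 29) (nat_lit 4) (nat_lit 27) (nat_lit 4) (nat_lit 346)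 (nat_lit 279) (nat_lit 275)))) (XT.nd (nat_lit 78) (nat_lit 152) (nat_lit 0) (XT.lf (nat_lit 0) (nat_lit 1404795998) (nat_lit 152) (nat_lit 7650399858) (nat_lit 152) (nat_lit 5448874481) (nat_lit 25) (nat_lit 4) (nat_lit 27) (nat_lit 5) (nat_lit 27) (nat_lit 4) (nat_lit 347) (nat_lit 279) (nat_lit 274)) (XT.nd (nat_lit 78) (nat_lit 152) (nat_lit 0) (XT.lf (nat_lit 0) (nat_lit 11040966009) (nat_lit 152) (nat_lit 3251424117) (nat_lit 152) (nat_lit 670450540) (nat_lit 25) (nat_lit 4) (nat_lit 27) (nat_lit 5) (nat_lit 27) (nat_lit 4) (nat_lit 348) (nat_lit 279) (nat_lit 273)) (XT.lf (nat_lit 0) (nat_lit 4161273230) (nat_lit 152) (nat_lit 9923224145) (nat_lit 0) (nat_lit 1359032453) (nat_lit 23) (nat_lit 5) (nat_lit 25) (nat_lit 4) (nat_lit 23) (nat_lit 4) (nat_lit 349) (nat_lit 279) (nat_lit 272))))) (XT.nd (nat_lit 234) (nat_lit 76) (nat_lit 0) (XT.nd (nat_lit 78) (nat_lit 228) (nat_lit 0)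 (XT.lf (nat_lit 0) (nat_lit 9179030213) (nat_lit 152) (nat_lit 721363608) (nat_lit 0) (nat_lit 6049007814) (nat_lit 23) (nat_lit 5) (nat_lit 25) (nat_lit 4) (nat_lit 23) (nat_lit 4) (nat_lit 350) (nat_lit 279) (nat_lit 271)) (XT.nd (nat_lit 78) (nat_lit 152) (nat_lit 0) (XT.lf (nat_lit 0) (nat_lit 8958948529) (nat_lit 76) (nat_lit 5482094948) (nat_lit 76) (nat_lit 2039899575) (nat_lit 22) (nat_lit 4) (nat_lit 23) (nat_lit 5) (nat_lit 23) (nat_lit 4) (nat_lit 351) (nat_lit 279) (nat_lit 270)) (XT.lf (nat_lit 0) (nat_lit 1854397258) (nat_lit 76) (nat_lit 874334558) (nat_lit 152) (nat_lit 14313318957) (nat_lit 20) (nat_lit 5) (nat_lit 21) (nat_lit 5) (nat_lit 22) (nat_lit 4) (nat_lit 352) (nat_lit 279) (nat_lit 269)))) (XT.nd (nat_lit 78) (nat_lit 76) (nat_lit 0) (XT.lf (nat_lit 0) (nat_lit 7713484936) (nat_lit 152) (nat_lit 6031396293) (nat_lit 0) (nat_lit 3882386787) (nat_lit 20) (nat_lit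 5) (nat_lit 22) (nat_lit 4) (nat_lit 20) (nat_lit 4) (nat_lit 353) (nat_lit 279) (nat_lit 268)) (XT.nd (nat_lit 78) (nat_lit 0) (nat_lit 0) (XT.lf (nat_lit 0) (nat_lit 3420787399) (nat_lit 76) (nat_lit 9456221135) (nat_lit 76) (nat_lit 5368297508) (nat_lit 19) (nat_lit 4) (nat_lit 20) (nat_lit 5) (nat_lit 20) (nat_lit 4) (nat_lit 354) (nat_lit 279) (nat_lit 267)) (XT.lf (nat_lit 0) (nat_lit 13302082939) (nat_lit 76) (nat_lit 4963194361) (nat_lit 76) (nat_lit 630675041) (nat_lit 19) (nat_lit 4) (nat_lit 20) (nat_lit 5) (nat_lit 20) (nat_lit 4) (nat_lit 355) (nat_lit 279) (nat_lit 266))))))))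
noncomputable def xc49 : XT := (XT.nd (nat_lit 1794) (nat_lit 380) (nat_lit 0) (XT.nd (nat_lit 858) (nat_lit 304) (nat_lit 0) (XT.nd (nat_lit 390) (nat_lit 228) (nat_lit 0) (XT.nd (nat_lit 156) (nat_lit 228) (nat_lit 0) (XT.nd (nat_lit 78) (nat_lit 0) (nat_lit 0) (XT.lf (nat_lit 0) (nat_lit 3910427931) (nat_lit 76) (nat_lit 224155254) (nat_lit 152) (nat_lit 15444699172) (nat_lit 17) (nat_lit 5) (nat_lit 18) (nat_lit 5) (nat_lit 19) (nat_lit 4) (nat_lit 356) (nat_lit 279) (nat_lit 265)) (XT.lf (nat_lit 0) (nat_lit 9156846263) (nat_lit 152) (nat_lit 6539957979) (nat_lit 0) (nat_lit 4597490926) (nat_lit 17) (nat_lit 5) (nat_lit 19) (nat_lit 4) (nat_lit 17) (nat_lit 4) (nat_lit 357) (nat_lit 279) (nat_lit 264))) (XT.nd (nat_lit 78) (nat_lit 152) (nat_lit 0) (XT.lf (nat_lit 0) (nat_lit 2900267617) (nat_lit 76) (nat_lit 11454586446) (nat_lit 76) (nat_lit 6694001627) (nat_lit 16) (nat_lit 4) (nat_lit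 17) (nat_lit 5) (nat_lit 17) (nat_lit 4) (nat_lit 358) (nat_lit 279) (nat_lit 263)) (XT.nd (nat_lit 78) (nat_lit 152) (nat_lit 0) (XT.lf (nat_lit 0) (nat_lit 12809067908) (nat_lit 76) (nat_lit 6992448915) (nat_lit 76) (nat_lit 2040216969) (nat_lit 16) (nat_lit 4) (nat_lit 17) (nat_lit 5) (nat_lit 17) (nat_lit 4) (nat_lit 359) (nat_lit 279) (nat_lit 262)) (XT.lf (nat_lit 0) (nat_lit 280136569) (nat_lit 76) (nat_lit 2361272985) (nat_lit 152) (nat_lit 20036336558) (nat_lit 14) (nat_lit 5) (nat_lit 15) (nat_lit 5) (nat_lit 16) (nat_lit 4) (nat_lit 360) (nat_lit 279) (nat_lit 261))))) (XT.nd (nat_lit 234) (nat_lit 152) (nat_lit 0) (XT.nd (nat_lit 78) (nat_lit 76) (nat_lit 0) (XT.lf (nat_lit 0) (nat_lit 7565535065) (nat_lit 152) (nat_lit 13474784022) (nat_lit 0) (nat_lit 2509742103) (nat_lit 14) (nat_lit 5) (nat_lit 16) (nat_lit 4) (nat_lit 14) (nat_lit 4) (nat_lit 361) (nat_lit 279) (nat_lit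 260)) (XT.nd (nat_lit 78) (nat_lit 76) (nat_lit 0) (XT.lf (nat_lit 0) (nat_lit 12662621185) (nat_lit 152) (nat_lit 4357895909) (nat_lit 0) (nat_lit 7449159658) (nat_lit 14) (nat_lit 5) (nat_lit 16) (nat_lit 4) (nat_lit 14) (nat_lit 4) (nat_lit 362) (nat_lit 279) (nat_lit 259)) (XT.lf (nat_lit 0) (nat_lit 5177334807) (nat_lit 76) (nat_lit 12811435643) (nat_lit 76) (nat_lit 7447813578) (nat_lit 13) (nat_lit 4) (nat_lit 14) (nat_lit 5) (nat_lit 14) (nat_lit 4) (nat_lit 363) (nat_lit 279) (nat_lit 258)))) (XT.nd (nat_lit 78) (nat_lit 152) (nat_lit 0) (XT.lf (nat_lit 0) (nat_lit 15140692077) (nat_lit 76) (nat_lit 8409670148) (nat_lit 76) (nat_lit 2903038047) (nat_lit 13) (nat_lit 4) (nat_lit 14) (nat_lit 5) (nat_lit 14) (nat_lit 4) (nat_lit 364) (nat_lit 279) (nat_lit 257)) (XT.nd (nat_lit 78) (nat_lit 76) (nat_lit 0) (XT.lf (nat_lit 0) (nat_lit 1707820581) (nat_lit 152) (nat_lit 2141799943)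 (nat_lit 76) (nat_lit 23675063113) (nat_lit 12) (nat_lit 5) (nat_lit 14) (nat_lit 5) (nat_lit 13) (nat_lit 4) (nat_lit 365) (nat_lit 279) (nat_lit 256)) (XT.lf (nat_lit 0) (nat_lit 6488149775) (nat_lit 152) (nat_lit 21166708518) (nat_lit 0) (nat_lit 990486486) (nat_lit 11) (nat_lit 5) (nat_lit 13) (nat_lit 4) (nat_lit 11) (nat_lit 4) (nat_lit 366) (nat_lit 279) (nat_lit 255)))))) (XT.nd (nat_lit 468) (nat_lit 76) (nat_lit 0) (XT.nd (nat_lit 234) (nat_lit 152) (nat_lit 0) (XT.nd (nat_lit 78) (nat_lit 76) (nat_lit 0) (XT.lf (nat_lit 0) (nat_lit 11511365086) (nat_lit 152) (nat_lit 12414450073) (nat_lit 0) (nat_lit 5896047086) (nat_lit 11) (nat_lit 5) (nat_lit 13) (nat_lit 4) (nat_lit 11) (nat_lit 4) (nat_lit 367) (nat_lit 279) (nat_lit 254)) (XT.nd (nat_lit 78) (nat_lit 76) (nat_lit 0) (XT.lf (nat_lit 0) (nat_lit 16694211712) (nat_lit 152) (nat_lit 3400744691) (nat_lit 0) (nat_lit 10966841606)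 (nat_lit 11) (nat_lit 5) (nat_lit 13) (nat_lit 4) (nat_lit 11) (nat_lit 4) (nat_lit 368) (nat_lit 279) (nat_lit 253)) (XT.lf (nat_lit 0) (nat_lit 6090812878) (nat_lit 76) (nat_lit 16053311542) (nat_lit 76) (nat_lit 10219225146) (nat_lit 10) (nat_lit 4) (nat_lit 11) (nat_lit 5) (nat_lit 11) (nat_lit 4) (nat_lit 369) (nat_lit 279) (nat_lit 252)))) (XT.nd (nat_lit 78) (nat_lit 152) (nat_lit 0) (XT.lf (nat_lit 0) (nat_lit 16009943457) (nat_lit 76) (nat_lit 11828585433) (nat_lit 76) (nat_lit 5892864474) (nat_lit 10) (nat_lit 4) (nat_lit 11) (nat_lit 5) (nat_lit 11) (nat_lit 4) (nat_lit 370) (nat_lit 279) (nat_lit 251)) (XT.nd (nat_lit 78) (nat_lit 152) (nat_lit 0) (XT.lf (nat_lit 0) (nat_lit 26267820044) (nat_lit 76) (nat_lit 7468312461) (nat_lit 76) (nat_lit 1435796680) (nat_lit 10) (nat_lit 4) (nat_lit 11) (nat_lit 5) (nat_lit 11) (nat_lit 4) (nat_lit 371) (nat_lit 279) (nat_lit 250)) (XT.lf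 (nat_lit 0) (nat_lit 156098505) (nat_lit 76) (nat_lit 2907706289) (nat_lit 152) (nat_lit 33621991380) (nat_lit 8) (nat_lit 5) (nat_lit 9) (nat_lit 5) (nat_lit 10) (nat_lit 4) (nat_lit 372) (nat_lit 279) (nat_lit 249))))) (XT.nd (nat_lit 234) (nat_lit 76) (nat_lit 0) (XT.nd (nat_lit 78) (nat_lit 0) (nat_lit 0) (XT.lf (nat_lit 0) (nat_lit 7844131633) (nat_lit 152) (nat_lit 28497392282) (nat_lit 0) (nat_lit 1927467746) (nat_lit 8) (nat_lit 5) (nat_lit 10) (nat_lit 4) (nat_lit 8) (nat_lit 4) (nat_lit 373) (nat_lit 279) (nat_lit 248)) (XT.nd (nat_lit 78) (nat_lit 0) (nat_lit 0) (XT.lf (nat_lit 0) (nat_lit 12836250157) (nat_lit 152) (nat_lit 20256516405) (nat_lit 0) (nat_lit 6839952931) (nat_lit 8) (nat_lit 5) (nat_lit 10) (nat_lit 4) (nat_lit 8) (nat_lit 4) (nat_lit 374) (nat_lit 279) (nat_lit 247)) (XT.lf (nat_lit 0) (nat_lit 18006648918) (nat_lit 152) (nat_lit 11742051463) (nat_lit 0) (nat_lit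 11934510416) (nat_lit 8) (nat_lit 5) (nat_lit 10) (nat_lit 4) (nat_lit 8) (nat_lit 4) (nat_lit 375) (nat_lit 279) (nat_lit 246)))) (XT.nd (nat_lit 78) (nat_lit 76) (nat_lit 0) (XT.lf (nat_lit 0) (nat_lit 23367638389) (nat_lit 152) (nat_lit 2933724920) (nat_lit 0) (nat_lit 17223270101) (nat_lit 8) (nat_lit 5) (nat_lit 10) (nat_lit 4) (nat_lit 8) (nat_lit 4) (nat_lit 376) (nat_lit 279) (nat_lit 245)) (XT.nd (nat_lit 78) (nat_lit 0) (nat_lit 0) (XT.lf (nat_lit 0) (nat_lit 6394086117) (nat_lit 76) (nat_lit 22637726317) (nat_lit 76) (nat_lit 16424567756) (nat_lit 7) (nat_lit 4) (nat_lit 8) (nat_lit 5) (nat_lit 8) (nat_lit 4) (nat_lit 377) (nat_lit 279) (nat_lit 244)) (XT.lf (nat_lit 0) (nat_lit 16166583016) (nat_lit 76) (nat_lit 18798753335) (nat_lit 76) (nat_lit 12520080229) (nat_lit 7) (nat_lit 4) (nat_lit 8) (nat_lit 5) (nat_lit 8) (nat_lit 4) (nat_lit 378) (nat_lit 279) (nat_lit 243)))))))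 (XT.nd (nat_lit 936) (nat_lit 152) (nat_lit 0) (XT.nd (nat_lit 468) (nat_lit 76) (nat_lit 0) (XT.nd (nat_lit 234) (nat_lit 76) (nat_lit 0) (XT.nd (nat_lit 78) (nat_lit 76) (nat_lit 0) (XT.lf (nat_lit 0) (nat_lit 26310031431) (nat_lit 76) (nat_lit 14824988001) (nat_lit 76) (nat_lit 8483920090) (nat_lit 7) (nat_lit 4) (nat_lit 8) (nat_lit 5) (nat_lit 8) (nat_lit 4) (nat_lit 379) (nat_lit 279) (nat_lit 242)) (XT.nd (nat_lit 78) (nat_lit 76) (nat_lit 0) (XT.lf (nat_lit 0) (nat_lit 36848582430) (nat_lit 76) (nat_lit 10706968970) (nat_lit 76) (nat_lit 4306477435) (nat_lit 7) (nat_lit 4) (nat_lit 8) (nat_lit 5) (nat_lit 8) (nat_lit 4) (nat_lit 380) (nat_lit 279) (nat_lit 241)) (XT.lf (nat_lit 0) (nat_lit 21483680) (nat_lit 152) (nat_lit 6413043918) (nat_lit 76) (nat_lit 47785480284) (nat_lit 6) (nat_lit 5) (nat_lit 8) (nat_lit 5) (nat_lit 7) (nat_lit 4) (nat_lit 381) (nat_lit 279) (nat_lit 240))))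 (XT.nd (nat_lit 78) (nat_lit 0) (nat_lit 0) (XT.lf (nat_lit 0) (nat_lit 2524154360) (nat_lit 76) (nat_lit 1883230420) (nat_lit 152) (nat_lit 52285665117) (nat_lit 5) (nat_lit 5) (nat_lit 6) (nat_lit 5) (nat_lit 7) (nat_lit 4) (nat_lit 382) (nat_lit 279) (nat_lit 239)) (XT.nd (nat_lit 78) (nat_lit 0) (nat_lit 0) (XT.lf (nat_lit 0) (nat_lit 9115205413) (nat_lit 152) (nat_lit 47304034449) (nat_lit 0) (nat_lit 2865379888) (nat_lit 5) (nat_lit 5) (nat_lit 7) (nat_lit 4) (nat_lit 5) (nat_lit 4) (nat_lit 383) (nat_lit 279) (nat_lit 238)) (XT.lf (nat_lit 0) (nat_lit 14038839317) (nat_lit 152) (nat_lit 40225460468) (nat_lit 0) (nat_lit 7742453827) (nat_lit 5) (nat_lit 5) (nat_lit 7) (nat_lit 4) (nat_lit 5) (nat_lit 4) (nat_lit 384) (nat_lit 279) (nat_lit 237))))) (XT.nd (nat_lit 234) (nat_lit 76) (nat_lit 0) (XT.nd (nat_lit 78) (nat_lit 0) (nat_lit 0) (XT.lf (nat_lit 0) (nat_lit 19160606925) (nat_lit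 152) (nat_lit 32886917342) (nat_lit 0) (nat_lit 12819878613) (nat_lit 5) (nat_lit 5) (nat_lit 7) (nat_lit 4) (nat_lit 5) (nat_lit 4) (nat_lit 385) (nat_lit 279) (nat_lit 236)) (XT.nd (nat_lit 78) (nat_lit 0) (nat_lit 0) (XT.lf (nat_lit 0) (nat_lit 24492702922) (nat_lit 152) (nat_lit 25270932349) (nat_lit 0) (nat_lit 18109743350) (nat_lit 5) (nat_lit 5) (nat_lit 7) (nat_lit 4) (nat_lit 5) (nat_lit 4) (nat_lit 386) (nat_lit 279) (nat_lit 235)) (XT.lf (nat_lit 0) (nat_lit 30047822776) (nat_lit 152) (nat_lit 17359372191) (nat_lit 0) (nat_lit 23624642956) (nat_lit 5) (nat_lit 5) (nat_lit 7) (nat_lit 4) (nat_lit 5) (nat_lit 4) (nat_lit 387) (nat_lit 279) (nat_lit 234)))) (XT.nd (nat_lit 78) (nat_lit 76) (nat_lit 0) (XT.lf (nat_lit 0) (nat_lit 35839192962) (nat_lit 152) (nat_lit 9133399821) (nat_lit 0) (nat_lit 29377708144) (nat_lit 5) (nat_lit 5) (nat_lit 7) (nat_lit 4) (nat_lit 5) (nat_lit 4)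 (nat_lit 388) (nat_lit 279) (nat_lit 233)) (XT.nd (nat_lit 78) (nat_lit 76) (nat_lit 0) (XT.lf (nat_lit 0) (nat_lit 41880602456) (nat_lit 152) (nat_lit 573429590) (nat_lit 0) (nat_lit 35382636688) (nat_lit 5) (nat_lit 5) (nat_lit 7) (nat_lit 4) (nat_lit 5) (nat_lit 4) (nat_lit 389) (nat_lit 279) (nat_lit 232)) (XT.lf (nat_lit 0) (nat_lit 8616707846) (nat_lit 76) (nat_lit 39704258679) (nat_lit 76) (nat_lit 33171549149) (nat_lit 4) (nat_lit 4) (nat_lit 5) (nat_lit 5) (nat_lit 5) (nat_lit 4) (nat_lit 390) (nat_lit 279) (nat_lit 231)))))) (XT.nd (nat_lit 468) (nat_lit 152) (nat_lit 0) (XT.nd (nat_lit 234) (nat_lit 0) (nat_lit 0) (XT.nd (nat_lit 78) (nat_lit 0) (nat_lit 0) (XT.lf (nat_lit 0) (nat_lit 18213827981) (nat_lit 76) (nat_lit 36842247100) (nat_lit 76) (nat_lit 30276448273) (nat_lit 4) (nat_lit 4) (nat_lit 5) (nat_lit 5) (nat_lit 5) (nat_lit 4) (nat_lit 391) (nat_lit 279) (nat_lit 230))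 (XT.nd (nat_lit 78) (nat_lit 0) (nat_lit 0) (XT.lf (nat_lit 0) (nat_lit 28221820930) (nat_lit 76) (nat_lit 33870894306) (nat_lit 76) (nat_lit 27273581862) (nat_lit 4) (nat_lit 4) (nat_lit 5) (nat_lit 5) (nat_lit 5) (nat_lit 4) (nat_lit 392) (nat_lit 279) (nat_lit 229)) (XT.lf (nat_lit 0) (nat_lit 38664515247) (nat_lit 76) (nat_lit 30783125647) (nat_lit 76) (nat_lit 24155800235) (nat_lit 4) (nat_lit 4) (nat_lit 5) (nat_lit 5) (nat_lit 5) (nat_lit 4) (nat_lit 393) (nat_lit 279) (nat_lit 228)))) (XT.nd (nat_lit 78) (nat_lit 0) (nat_lit 0) (XT.lf (nat_lit 0) (nat_lit 49566774489) (nat_lit 76) (nat_lit 27571589292) (nat_lit 76) (nat_lit 20915680100) (nat_lit 4) (nat_lit 4) (nat_lit 5) (nat_lit 5) (nat_lit 5) (nat_lit 4) (nat_lit 394) (nat_lit 279) (nat_lit 227)) (XT.nd (nat_lit 78) (nat_lit 0) (nat_lit 0) (XT.lf (nat_lit 0) (nat_lit 60954556416) (nat_lit 76) (nat_lit 24228638726) (nat_lit 76)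 (nat_lit 17545506888) (nat_lit 4) (nat_lit 4) (nat_lit 5) (nat_lit 5) (nat_lit 5) (nat_lit 4) (nat_lit 395) (nat_lit 279) (nat_lit 226)) (XT.lf (nat_lit 0) (nat_lit 72854974796) (nat_lit 76) (nat_lit 20746314543) (nat_lit 76) (nat_lit 14037256375) (nat_lit 4) (nat_lit 4) (nat_lit 5) (nat_lit 5) (nat_lit 5) (nat_lit 4) (nat_lit 396) (nat_lit 279) (nat_lit 225))))) (XT.nd (nat_lit 234) (nat_lit 152) (nat_lit 0) (XT.nd (nat_lit 78) (nat_lit 0) (nat_lit 0) (XT.lf (nat_lit 0) (nat_lit 85296363957) (nat_lit 76) (nat_lit 17116325495) (nat_lit 76) (nat_lit 10382575584) (nat_lit 4) (nat_lit 4) (nat_lit 5) (nat_lit 5) (nat_lit 5) (nat_lit 4) (nat_lit 397) (nat_lit 279) (nat_lit 224)) (XT.nd (nat_lit 78) (nat_lit 0) (nat_lit 0) (XT.lf (nat_lit 0) (nat_lit 98308346255) (nat_lit 76) (nat_lit 13330028752) (nat_lit 76) (nat_lit 6572762895) (nat_lit 4) (nat_lit 4) (nat_lit 5) (nat_lit 5) (nat_lit 5) (nat_lit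 4) (nat_lit 398) (nat_lit 279) (nat_lit 223)) (XT.lf (nat_lit 0) (nat_lit 111921902600) (nat_lit 76) (nat_lit 9378409320) (nat_lit 76) (nat_lit 2598747324) (nat_lit 4) (nat_lit 4) (nat_lit 5) (nat_lit 5) (nat_lit 5) (nat_lit 4) (nat_lit 399) (nat_lit 279) (nat_lit 222)))) (XT.nd (nat_lit 78) (nat_lit 76) (nat_lit 0) (XT.lf (nat_lit 0) (nat_lit 1499357537) (nat_lit 152) (nat_lit 3727308699) (nat_lit 76) (nat_lit 124644696339) (nat_lit 3) (nat_lit 5) (nat_lit 5) (nat_lit 5) (nat_lit 4) (nat_lit 4) (nat_lit 400) (nat_lit 279) (nat_lit 221)) (XT.nd (nat_lit 78) (nat_lit 0) (nat_lit 0) (XT.lf (nat_lit 0) (nat_lit 5007466337) (nat_lit 76) (nat_lit 762666319) (nat_lit 152) (nat_lit 130367266051) (nat_lit 2) (nat_lit 5) (nat_lit 3) (nat_lit 5) (nat_lit 4) (nat_lit 4) (nat_lit 401) (nat_lit 279) (nat_lit 220)) (XT.lf (nat_lit 0) (nat_lit 10356860944) (nat_lit 152) (nat_lit 128512803553) (nat_lit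 0) (nat_lit 3841954052) (nat_lit 2) (nat_lit 5) (nat_lit 4) (nat_lit 4) (nat_lit 2) (nat_lit 4) (nat_lit 402) (nat_lit 279) (nat_lit 219))))))))
noncomputable def xc50 : XT := (XT.nd (nat_lit 1794) (nat_lit 76) (nat_lit 0) (XT.nd (nat_lit 858) (nat_lit 0) (nat_lit 0) (XT.nd (nat_lit 390) (nat_lit 0) (nat_lit 0) (XT.nd (nat_lit 156) (nat_lit 0) (nat_lit 0) (XT.nd (nat_lit 78) (nat_lit 0) (nat_lit 0) (XT.lf (nat_lit 0) (nat_lit 15163507279) (nat_lit 152) (nat_lit 125820463094) (nat_lit 0) (nat_lit 8631052426) (nat_lit 2) (nat_lit 5) (nat_lit 4) (nat_lit 4) (nat_lit 2) (nat_lit 4) (nat_lit 403) (nat_lit 279) (nat_lit 218)) (XT.lf (nat_lit 0) (nat_lit 20189608699) (nat_lit 152) (nat_lit 123034593302) (nat_lit 0) (nat_lit 13640441502) (nat_lit 2) (nat_lit 5) (nat_lit 4) (nat_lit 4) (nat_lit 2) (nat_lit 4) (nat_lit 404) (nat_lit 279) (nat_lit 217))) (XT.nd (nat_lit 78) (nat_lit 0) (nat_lit 0)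 (XT.lf (nat_lit 0) (nat_lit 25447132111) (nat_lit 152) (nat_lit 120148561154) (nat_lit 0) (nat_lit 18882048397) (nat_lit 2) (nat_lit 5) (nat_lit 4) (nat_lit 4) (nat_lit 2) (nat_lit 4) (nat_lit 405) (nat_lit 279) (nat_lit 216)) (XT.nd (nat_lit 78) (nat_lit 0) (nat_lit 0) (XT.lf (nat_lit 0) (nat_lit 30948595429) (nat_lit 152) (nat_lit 117155495143) (nat_lit 0) (nat_lit 24368353126) (nat_lit 2) (nat_lit 5) (nat_lit 4) (nat_lit 4) (nat_lit 2) (nat_lit 4) (nat_lit 406) (nat_lit 279) (nat_lit 215)) (XT.lf (nat_lit 0) (nat_lit 36707097375) (nat_lit 152) (nat_lit 114048268924) (nat_lit 0) (nat_lit 30112418321) (nat_lit 2) (nat_lit 5) (nat_lit 4) (nat_lit 4) (nat_lit 2) (nat_lit 4) (nat_lit 407) (nat_lit 279) (nat_lit 214))))) (XT.nd (nat_lit 234) (nat_lit 0) (nat_lit 0) (XT.nd (nat_lit 78) (nat_lit 0) (nat_lit 0) (XT.lf (nat_lit 0) (nat_lit 42736348668) (nat_lit 152) (nat_lit 110819484337) (nat_lit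 0) (nat_lit 36127920328) (nat_lit 2) (nat_lit 5) (nat_lit 4) (nat_lit 4) (nat_lit 2) (nat_lit 4) (nat_lit 408) (nat_lit 279) (nat_lit 213)) (XT.nd (nat_lit 78) (nat_lit 0) (nat_lit 0) (XT.lf (nat_lit 0) (nat_lit 49050704668) (nat_lit 152) (nat_lit 107461453801) (nat_lit 0) (nat_lit 42429181769) (nat_lit 2) (nat_lit 5) (nat_lit 4) (nat_lit 4) (nat_lit 2) (nat_lit 4) (nat_lit 409) (nat_lit 279) (nat_lit 212)) (XT.lf (nat_lit 0) (nat_lit 55665199556) (nat_lit 152) (nat_lit 103966182005) (nat_lit 0) (nat_lit 49031205649) (nat_lit 2) (nat_lit 5) (nat_lit 4) (nat_lit 4) (nat_lit 2) (nat_lit 4) (nat_lit 410) (nat_lit 279) (nat_lit 211)))) (XT.nd (nat_lit 78) (nat_lit 0) (nat_lit 0) (XT.lf (nat_lit 0) (nat_lit 62595582129) (nat_lit 152) (nat_lit 100325346873) (nat_lit 0) (nat_lit 55949711072) (nat_lit 2) (nat_lit 5) (nat_lit 4) (nat_lit 4) (nat_lit 2) (nat_lit 4) (nat_lit 411) (nat_lit 279) (nat_lit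 210)) (XT.nd (nat_lit 78) (nat_lit 0) (nat_lit 0) (XT.lf (nat_lit 0) (nat_lit 69858353299) (nat_lit 152) (nat_lit 96530279750) (nat_lit 0) (nat_lit 63201170669) (nat_lit 2) (nat_lit 5) (nat_lit 4) (nat_lit 4) (nat_lit 2) (nat_lit 4) (nat_lit 412) (nat_lit 279) (nat_lit 209)) (XT.lf (nat_lit 0) (nat_lit 77470805377) (nat_lit 152) (nat_lit 92571944761) (nat_lit 0) (nat_lit 70802849822) (nat_lit 2) (nat_lit 5) (nat_lit 4) (nat_lit 4) (nat_lit 2) (nat_lit 4) (nat_lit 413) (nat_lit 279) (nat_lit 208)))))) (XT.nd (nat_lit 468) (nat_lit 0) (nat_lit 0) (XT.nd (nat_lit 234) (nat_lit 0) (nat_lit 0) (XT.nd (nat_lit 78) (nat_lit 0) (nat_lit 0) (XT.lf (nat_lit 0) (nat_lit 85451063249) (nat_lit 152) (nat_lit 88440917301) (nat_lit 0) (nat_lit 78772847765) (nat_lit 2) (nat_lit 5) (nat_lit 4) (nat_lit 4) (nat_lit 2) (nat_lit 4) (nat_lit 414) (nat_lit 279) (nat_lit 207)) (XT.nd (nat_lit 78) (nat_lit 0) (nat_lit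 0) (XT.lf (nat_lit 0) (nat_lit 93818127531) (nat_lit 152) (nat_lit 84127361589) (nat_lit 0) (nat_lit 87130140685) (nat_lit 2) (nat_lit 5) (nat_lit 4) (nat_lit 4) (nat_lit 2) (nat_lit 4) (nat_lit 415) (nat_lit 279) (nat_lit 206)) (XT.lf (nat_lit 0) (nat_lit 102591919802) (nat_lit 152) (nat_lit 79621007254) (nat_lit 0) (nat_lit 95894626898) (nat_lit 2) (nat_lit 5) (nat_lit 4) (nat_lit 4) (nat_lit 2) (nat_lit 4) (nat_lit 416) (nat_lit 279) (nat_lit 205)))) (XT.nd (nat_lit 78) (nat_lit 0) (nat_lit 0) (XT.lf (nat_lit 0) (nat_lit 111793330044) (nat_lit 152) (nat_lit 74911124881) (nat_lit 0) (nat_lit 105087174228) (nat_lit 2) (nat_lit 5) (nat_lit 4) (nat_lit 4) (nat_lit 2) (nat_lit 4) (nat_lit 417) (nat_lit 279) (nat_lit 204)) (XT.nd (nat_lit 78) (nat_lit 0) (nat_lit 0) (XT.lf (nat_lit 0) (nat_lit 121444266378) (nat_lit 152) (nat_lit 69986500466) (nat_lit 0) (nat_lit 114729669693) (nat_lit 2)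 (nat_lit 5) (nat_lit 4) (nat_lit 4) (nat_lit 2) (nat_lit 4) (nat_lit 418) (nat_lit 279) (nat_lit 203)) (XT.lf (nat_lit 0) (nat_lit 131567707224) (nat_lit 152) (nat_lit 64835408710) (nat_lit 0) (nat_lit 124845071615) (nat_lit 2) (nat_lit 5) (nat_lit 4) (nat_lit 4) (nat_lit 2) (nat_lit 4) (nat_lit 419) (nat_lit 279) (nat_lit 202))))) (XT.nd (nat_lit 234) (nat_lit 0) (nat_lit 0) (XT.nd (nat_lit 78) (nat_lit 0) (nat_lit 0) (XT.lf (nat_lit 0) (nat_lit 142187756011) (nat_lit 152) (nat_lit 59445585111) (nat_lit 0) (nat_lit 135457464285) (nat_lit 2) (nat_lit 5) (nat_lit 4) (nat_lit 4) (nat_lit 2) (nat_lit 4) (nat_lit 420) (nat_lit 279) (nat_lit 201)) (XT.nd (nat_lit 78) (nat_lit 0) (nat_lit 0) (XT.lf (nat_lit 0) (nat_lit 153329698570) (nat_lit 152) (nat_lit 53804196755) (nat_lit 0) (nat_lit 146592115304) (nat_lit 2) (nat_lit 5) (nat_lit 4) (nat_lit 4) (nat_lit 2) (nat_lit 4) (nat_lit 421) (nat_lit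 279) (nat_lit 200)) (XT.lf (nat_lit 0) (nat_lit 165020063336) (nat_lit 152) (nat_lit 47897811764) (nat_lit 0) (nat_lit 158275535745) (nat_lit 2) (nat_lit 5) (nat_lit 4) (nat_lit 4) (nat_lit 2) (nat_lit 4) (nat_lit 422) (nat_lit 279) (nat_lit 199)))) (XT.nd (nat_lit 78) (nat_lit 0) (nat_lit 0) (XT.lf (nat_lit 0) (nat_lit 177286684510) (nat_lit 152) (nat_lit 41712367319) (nat_lit 0) (nat_lit 170535543278) (nat_lit 2) (nat_lit 5) (nat_lit 4) (nat_lit 4) (nat_lit 2) (nat_lit 4) (nat_lit 423) (nat_lit 279) (nat_lit 198)) (XT.nd (nat_lit 78) (nat_lit 0) (nat_lit 0) (XT.lf (nat_lit 0) (nat_lit 190158768334) (nat_lit 152) (nat_lit 35233136169) (nat_lit 0) (nat_lit 183401328396) (nat_lit 2) (nat_lit 5) (nat_lit 4) (nat_lit 4) (nat_lit 2) (nat_lit 4) (nat_lit 424) (nat_lit 279) (nat_lit 197)) (XT.lf (nat_lit 0) (nat_lit 203666962627) (nat_lit 152) (nat_lit 28444691574) (nat_lit 0) (nat_lit 196903523920)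 (nat_lit 2) (nat_lit 5) (nat_lit 4) (nat_lit 4) (nat_lit 2) (nat_lit 4) (nat_lit 425) (nat_lit 279) (nat_lit 196))))))) (XT.nd (nat_lit 40170) (nat_lit 0) (nat_lit 1596) (XT.nd (nat_lit 468) (nat_lit 0) (nat_lit 0) (XT.nd (nat_lit 234) (nat_lit 76) (nat_lit 0) (XT.nd (nat_lit 78) (nat_lit 0) (nat_lit 0) (XT.lf (nat_lit 0) (nat_lit 217843429754) (nat_lit 152) (nat_lit 21330870570) (nat_lit 0) (nat_lit 211074277935) (nat_lit 2) (nat_lit 5) (nat_lit 4) (nat_lit 4) (nat_lit 2) (nat_lit 4) (nat_lit 426) (nat_lit 279) (nat_lit 195)) (XT.nd (nat_lit 78) (nat_lit 0) (nat_lit 0) (XT.lf (nat_lit 0) (nat_lit 232721923211) (nat_lit 152) (nat_lit 13874735489) (nat_lit 0) (nat_lit 225947330332) (nat_lit 2) (nat_lit 5) (nat_lit 4) (nat_lit 4) (nat_lit 2) (nat_lit 4) (nat_lit 427) (nat_lit 279) (nat_lit 194)) (XT.lf (nat_lit 0) (nat_lit 248337867981) (nat_lit 152) (nat_lit 6058533629) (nat_lit 0) (nat_lit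 241558093140) (nat_lit 2) (nat_lit 5) (nat_lit 4) (nat_lit 4) (nat_lit 2) (nat_lit 4) (nat_lit 428) (nat_lit 279) (nat_lit 193)))) (XT.nd (nat_lit 78) (nat_lit 0) (nat_lit 0) (XT.lf (nat_lit 0) (nat_lit 2206982230) (nat_lit 76) (nat_lit 262555919831) (nat_lit 76) (nat_lit 255771209790) (nat_lit 1) (nat_lit 4) (nat_lit 2) (nat_lit 5) (nat_lit 2) (nat_lit 4) (nat_lit 429) (nat_lit 279) (nat_lit 192)) (XT.nd (nat_lit 78) (nat_lit 0) (nat_lit 0) (XT.lf (nat_lit 0) (nat_lit 11084174879) (nat_lit 76) (nat_lit 271021559258) (nat_lit 76) (nat_lit 264232149025) (nat_lit 1) (nat_lit 4) (nat_lit 2) (nat_lit 5) (nat_lit 2) (nat_lit 4) (nat_lit 430) (nat_lit 279) (nat_lit 191)) (XT.lf (nat_lit 0) (nat_lit 20393858009) (nat_lit 76) (nat_lit 279916080373) (nat_lit 76) (nat_lit 273122193767) (nat_lit 1) (nat_lit 4) (nat_lit 2) (nat_lit 5) (nat_lit 2) (nat_lit 4) (nat_lit 431) (nat_lit 279) (nat_lit 190)))))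 (XT.nd (nat_lit 234) (nat_lit 0) (nat_lit 0) (XT.nd (nat_lit 78) (nat_lit 0) (nat_lit 0) (XT.lf (nat_lit 0) (nat_lit 30158197530) (nat_lit 76) (nat_lit 289260660608) (nat_lit 76) (nat_lit 282462510788) (nat_lit 1) (nat_lit 4) (nat_lit 2) (nat_lit 5) (nat_lit 2) (nat_lit 4) (nat_lit 432) (nat_lit 279) (nat_lit 189)) (XT.nd (nat_lit 78) (nat_lit 0) (nat_lit 0) (XT.lf (nat_lit 0) (nat_lit 40400441871) (nat_lit 76) (nat_lit 299077548961) (nat_lit 76) (nat_lit 292275338940) (nat_lit 1) (nat_lit 4) (nat_lit 2) (nat_lit 5) (nat_lit 2) (nat_lit 4) (nat_lit 433) (nat_lit 279) (nat_lit 188)) (XT.lf (nat_lit 0) (nat_lit 51144977328) (nat_lit 76) (nat_lit 309390118979) (nat_lit 76) (nat_lit 302584042098) (nat_lit 1) (nat_lit 4) (nat_lit 2) (nat_lit 5) (nat_lit 2) (nat_lit 4) (nat_lit 434) (nat_lit 279) (nat_lit 187)))) (XT.nd (nat_lit 78) (nat_lit 0) (nat_lit 0) (XT.lf (nat_lit 0) (nat_lit 62417386128)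 (nat_lit 76) (nat_lit 320222924398) (nat_lit 76) (nat_lit 313413164794) (nat_lit 1) (nat_lit 4) (nat_lit 2) (nat_lit 5) (nat_lit 2) (nat_lit 4) (nat_lit 435) (nat_lit 279) (nat_lit 186)) (XT.nd (nat_lit 78) (nat_lit 0) (nat_lit 0) (XT.lf (nat_lit 0) (nat_lit 74244507339) (nat_lit 76) (nat_lit 331601757612) (nat_lit 76) (nat_lit 324788490653) (nat_lit 1) (nat_lit 4) (nat_lit 2) (nat_lit 5) (nat_lit 2) (nat_lit 4) (nat_lit 436) (nat_lit 279) (nat_lit 185)) (XT.lf (nat_lit 0) (nat_lit 86654500775) (nat_lit 76) (nat_lit 343553711082) (nat_lit 76) (nat_lit 336737103784) (nat_lit 1) (nat_lit 4) (nat_lit 2) (nat_lit 5) (nat_lit 2) (nat_lit 4) (nat_lit 437) (nat_lit 279) (nat_lit 184)))))) (XT.nd (nat_lit 468) (nat_lit 532) (nat_lit 0) (XT.nd (nat_lit 234) (nat_lit 304) (nat_lit 0) (XT.nd (nat_lit 78) (nat_lit 152) (nat_lit 0) (XT.lf (nat_lit 0) (nat_lit 551221543) (nat_lit 152) (nat_lit 4831125764)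 (nat_lit 0) (nat_lit 551221543) (nat_lit 35) (nat_lit 5) (nat_lit 37) (nat_lit 4) (nat_lit 35) (nat_lit 4) (nat_lit 340) (nat_lit 280) (nat_lit 280)) (XT.nd (nat_lit 78) (nat_lit 152) (nat_lit 0) (XT.lf (nat_lit 0) (nat_lit 5894845967) (nat_lit 152) (nat_lit 962710221) (nat_lit 0) (nat_lit 5334228158) (nat_lit 35) (nat_lit 5) (nat_lit 37) (nat_lit 4) (nat_lit 35) (nat_lit 4) (nat_lit 341) (nat_lit 280) (nat_lit 279)) (XT.lf (nat_lit 0) (nat_lit 8143282122) (nat_lit 152) (nat_lit 2743012724) (nat_lit 152) (nat_lit 1648473191) (nat_lit 33) (nat_lit 4) (nat_lit 35) (nat_lit 5) (nat_lit 35) (nat_lit 4) (nat_lit 342) (nat_lit 280) (nat_lit 278)))) (XT.nd (nat_lit 78) (nat_lit 152) (nat_lit 0) (XT.lf (nat_lit 0) (nat_lit 3076221358) (nat_lit 152) (nat_lit 8269341955) (nat_lit 0) (nat_lit 1549520012) (nat_lit 31) (nat_lit 5) (nat_lit 33) (nat_lit 4) (nat_lit 31) (nat_lit 4) (nat_lit 343) (nat_lit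 280) (nat_lit 277)) (XT.nd (nat_lit 78) (nat_lit 0) (nat_lit 0) (XT.lf (nat_lit 0) (nat_lit 631868836) (nat_lit 152) (nat_lit 7314964445) (nat_lit 152) (nat_lit 5327041441) (nat_lit 29) (nat_lit 4) (nat_lit 31) (nat_lit 5) (nat_lit 31) (nat_lit 4) (nat_lit 344) (nat_lit 280) (nat_lit 276)) (XT.lf (nat_lit 0) (nat_lit 9978197701) (nat_lit 152) (nat_lit 3060873734) (nat_lit 152) (nat_lit 633692006) (nat_lit 29) (nat_lit 4) (nat_lit 31) (nat_lit 5) (nat_lit 31) (nat_lit 4) (nat_lit 345) (nat_lit 280) (nat_lit 275))))) (XT.nd (nat_lit 234) (nat_lit 228) (nat_lit 0) (XT.nd (nat_lit 78) (nat_lit 152) (nat_lit 0) (XT.lf (nat_lit 0) (nat_lit 4108984031) (nat_lit 152) (nat_lit 8582749967) (nat_lit 0) (nat_lit 1398961775) (nat_lit 27) (nat_lit 5) (nat_lit 29) (nat_lit 4) (nat_lit 27) (nat_lit 4) (nat_lit 346) (nat_lit 280) (nat_lit 274)) (XT.nd (nat_lit 78) (nat_lit 0) (nat_lit 0) (XT.lf (nat_lit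 0) (nat_lit 445138363) (nat_lit 152) (nat_lit 8587565552) (nat_lit 152) (nat_lit 5498095096) (nat_lit 25) (nat_lit 4) (nat_lit 27) (nat_lit 5) (nat_lit 27) (nat_lit 4) (nat_lit 347) (nat_lit 280) (nat_lit 273)) (XT.lf (nat_lit 0) (nat_lit 9946940340) (nat_lit 152) (nat_lit 4248610578) (nat_lit 152) (nat_lit 797760882) (nat_lit 25) (nat_lit 4) (nat_lit 27) (nat_lit 5) (nat_lit 27) (nat_lit 4) (nat_lit 348) (nat_lit 280) (nat_lit 272)))) (XT.nd (nat_lit 78) (nat_lit 76) (nat_lit 0) (XT.lf (nat_lit 0) (nat_lit 3928994777) (nat_lit 152) (nat_lit 11235890839) (nat_lit 0) (nat_lit 314689635) (nat_lit 23) (nat_lit 5) (nat_lit 25) (nat_lit 4) (nat_lit 23) (nat_lit 4) (nat_lit 349) (nat_lit 280) (nat_lit 271)) (XT.nd (nat_lit 78) (nat_lit 76) (nat_lit 0) (XT.lf (nat_lit 0) (nat_lit 8875285485) (nat_lit 152) (nat_lit 2164949194) (nat_lit 0) (nat_lit 4948807370) (nat_lit 23) (nat_lit 5) (nat_lit 25)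 (nat_lit 4) (nat_lit 23) (nat_lit 4) (nat_lit 350) (nat_lit 280) (nat_lit 270)) (XT.lf (nat_lit 0) (nat_lit 7338824186) (nat_lit 76) (nat_lit 6705116763) (nat_lit 76) (nat_lit 2481331053) (nat_lit 22) (nat_lit 4) (nat_lit 23) (nat_lit 5) (nat_lit 23) (nat_lit 4) (nat_lit 351) (nat_lit 280) (nat_lit 269))))))))
noncomputable def xc51 : XT := (XT.nd (nat_lit 1794) (nat_lit 304) (nat_lit 0) (XT.nd (nat_lit 858) (nat_lit 456) (nat_lit 0) (XT.nd (nat_lit 390) (nat_lit 228) (nat_lit 0) (XT.nd (nat_lit 156) (nat_lit 228) (nat_lit 0) (XT.nd (nat_lit 78) (nat_lit 0) (nat_lit 0) (XT.lf (nat_lit 0) (nat_lit 12962760) (nat_lit 76) (nat_lit 2191865805) (nat_lit 152) (nat_lit 14886744504) (nat_lit 20) (nat_lit 5) (nat_lit 21) (nat_lit 5) (nat_lit 22) (nat_lit 4) (nat_lit 352) (nat_lit 280) (nat_lit 268)) (XT.lf (nat_lit 0) (nat_lit 7101592496) (nat_lit 152) (nat_lit 8027167900) (nat_lit 0) (nat_lit 2552447209)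 (nat_lit 20) (nat_lit 5) (nat_lit 22) (nat_lit 4) (nat_lit 20) (nat_lit 4) (nat_lit 353) (nat_lit 280) (nat_lit 267))) (XT.nd (nat_lit 78) (nat_lit 152) (nat_lit 0) (XT.lf (nat_lit 0) (nat_lit 1235663741) (nat_lit 76) (nat_lit 10931128036) (nat_lit 76) (nat_lit 6137387056) (nat_lit 19) (nat_lit 4) (nat_lit 20) (nat_lit 5) (nat_lit 20) (nat_lit 4) (nat_lit 354) (nat_lit 280) (nat_lit 266)) (XT.nd (nat_lit 78) (nat_lit 152) (nat_lit 0) (XT.lf (nat_lit 0) (nat_lit 10999470873) (nat_lit 76) (nat_lit 6492604477) (nat_lit 76) (nat_lit 1465915217) (nat_lit 19) (nat_lit 4) (nat_lit 20) (nat_lit 5) (nat_lit 20) (nat_lit 4) (nat_lit 355) (nat_lit 280) (nat_lit 265)) (XT.lf (nat_lit 0) (nat_lit 1363371561) (nat_lit 76) (nat_lit 1861953475) (nat_lit 152) (nat_lit 16421699787) (nat_lit 17) (nat_lit 5) (nat_lit 18) (nat_lit 5) (nat_lit 19) (nat_lit 4) (nat_lit 356) (nat_lit 280) (nat_lit 264))))) (XT.nd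 (nat_lit 234) (nat_lit 152) (nat_lit 0) (XT.nd (nat_lit 78) (nat_lit 76) (nat_lit 0) (XT.lf (nat_lit 0) (nat_lit 8161371439) (nat_lit 152) (nat_lit 9243463108) (nat_lit 0) (nat_lit 2961527896) (nat_lit 17) (nat_lit 5) (nat_lit 19) (nat_lit 4) (nat_lit 17) (nat_lit 4) (nat_lit 357) (nat_lit 280) (nat_lit 263)) (XT.nd (nat_lit 78) (nat_lit 76) (nat_lit 0) (XT.lf (nat_lit 0) (nat_lit 13256339786) (nat_lit 152) (nat_lit 4899341) (nat_lit 0) (nat_lit 7864849118) (nat_lit 17) (nat_lit 5) (nat_lit 19) (nat_lit 4) (nat_lit 17) (nat_lit 4) (nat_lit 358) (nat_lit 280) (nat_lit 262)) (XT.lf (nat_lit 0) (nat_lit 9796659204) (nat_lit 76) (nat_lit 8849584744) (nat_lit 76) (nat_lit 3275573003) (nat_lit 16) (nat_lit 4) (nat_lit 17) (nat_lit 5) (nat_lit 17) (nat_lit 4) (nat_lit 359) (nat_lit 280) (nat_lit 261)))) (XT.nd (nat_lit 78) (nat_lit 76) (nat_lit 0) (XT.lf (nat_lit 0) (nat_lit 1386341752) (nat_lit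 152) (nat_lit 2905840741) (nat_lit 76) (nat_lit 18469585188) (nat_lit 15) (nat_lit 5) (nat_lit 17) (nat_lit 5) (nat_lit 16) (nat_lit 4) (nat_lit 360) (nat_lit 280) (nat_lit 260)) (XT.nd (nat_lit 78) (nat_lit 0) (nat_lit 0) (XT.lf (nat_lit 0) (nat_lit 6178071396) (nat_lit 152) (nat_lit 16916373877) (nat_lit 0) (nat_lit 546268228) (nat_lit 14) (nat_lit 5) (nat_lit 16) (nat_lit 4) (nat_lit 14) (nat_lit 4) (nat_lit 361) (nat_lit 280) (nat_lit 259)) (XT.lf (nat_lit 0) (nat_lit 11223145874) (nat_lit 152) (nat_lit 7898612032) (nat_lit 0) (nat_lit 5441182168) (nat_lit 14) (nat_lit 5) (nat_lit 16) (nat_lit 4) (nat_lit 14) (nat_lit 4) (nat_lit 362) (nat_lit 280) (nat_lit 258)))))) (XT.nd (nat_lit 468) (nat_lit 228) (nat_lit 0) (XT.nd (nat_lit 234) (nat_lit 76) (nat_lit 0) (XT.nd (nat_lit 78) (nat_lit 76) (nat_lit 0) (XT.lf (nat_lit 0) (nat_lit 1422019161) (nat_lit 76) (nat_lit 15019110078) (nat_lit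 76) (nat_lit 9094136336) (nat_lit 13) (nat_lit 4) (nat_lit 14) (nat_lit 5) (nat_lit 14) (nat_lit 4) (nat_lit 363) (nat_lit 280) (nat_lit 257)) (XT.nd (nat_lit 78) (nat_lit 76) (nat_lit 0) (XT.lf (nat_lit 0) (nat_lit 11292493139) (nat_lit 76) (nat_lit 10661601615) (nat_lit 76) (nat_lit 4600427838) (nat_lit 13) (nat_lit 4) (nat_lit 14) (nat_lit 5) (nat_lit 14) (nat_lit 4) (nat_lit 364) (nat_lit 280) (nat_lit 256)) (XT.lf (nat_lit 0) (nat_lit 17679227) (nat_lit 152) (nat_lit 6154645679) (nat_lit 76) (nat_lit 21457168612) (nat_lit 12) (nat_lit 5) (nat_lit 14) (nat_lit 5) (nat_lit 13) (nat_lit 4) (nat_lit 365) (nat_lit 280) (nat_lit 255)))) (XT.nd (nat_lit 78) (nat_lit 0) (nat_lit 0) (XT.lf (nat_lit 0) (nat_lit 3261308625) (nat_lit 76) (nat_lit 1409781212) (nat_lit 152) (nat_lit 24085418923) (nat_lit 11) (nat_lit 5) (nat_lit 12) (nat_lit 5) (nat_lit 13) (nat_lit 4) (nat_lit 366) (nat_lit 280)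 (nat_lit 254)) (XT.nd (nat_lit 78) (nat_lit 0) (nat_lit 0) (XT.lf (nat_lit 0) (nat_lit 9627646000) (nat_lit 152) (nat_lit 16806865681) (nat_lit 0) (nat_lit 3501855284) (nat_lit 11) (nat_lit 5) (nat_lit 13) (nat_lit 4) (nat_lit 11) (nat_lit 4) (nat_lit 367) (nat_lit 280) (nat_lit 253)) (XT.lf (nat_lit 0) (nat_lit 14767970232) (nat_lit 152) (nat_lit 7875002802) (nat_lit 0) (nat_lit 8535463225) (nat_lit 11) (nat_lit 5) (nat_lit 13) (nat_lit 4) (nat_lit 11) (nat_lit 4) (nat_lit 368) (nat_lit 280) (nat_lit 252))))) (XT.nd (nat_lit 234) (nat_lit 152) (nat_lit 0) (XT.nd (nat_lit 78) (nat_lit 0) (nat_lit 0) (XT.lf (nat_lit 0) (nat_lit 1388093126) (nat_lit 76) (nat_lit 18715869662) (nat_lit 76) (nat_lit 12381728093) (nat_lit 10) (nat_lit 4) (nat_lit 11) (nat_lit 5) (nat_lit 11) (nat_lit 4) (nat_lit 369) (nat_lit 280) (nat_lit 251)) (XT.nd (nat_lit 78) (nat_lit 0) (nat_lit 0) (XT.lf (nat_lit 0) (nat_lit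 11230535646) (nat_lit 76) (nat_lit 14528065232) (nat_lit 76) (nat_lit 8097128841) (nat_lit 10) (nat_lit 4) (nat_lit 11) (nat_lit 5) (nat_lit 11) (nat_lit 4) (nat_lit 370) (nat_lit 280) (nat_lit 250)) (XT.lf (nat_lit 0) (nat_lit 21415375986) (nat_lit 76) (nat_lit 10202955765) (nat_lit 76) (nat_lit 3679833829) (nat_lit 10) (nat_lit 4) (nat_lit 11) (nat_lit 5) (nat_lit 11) (nat_lit 4) (nat_lit 371) (nat_lit 280) (nat_lit 249)))) (XT.nd (nat_lit 78) (nat_lit 76) (nat_lit 0) (XT.lf (nat_lit 0) (nat_lit 852487234) (nat_lit 152) (nat_lit 4863318861) (nat_lit 76) (nat_lit 31099939247) (nat_lit 9) (nat_lit 5) (nat_lit 11) (nat_lit 5) (nat_lit 10) (nat_lit 4) (nat_lit 372) (nat_lit 280) (nat_lit 248)) (XT.nd (nat_lit 78) (nat_lit 0) (nat_lit 0) (XT.lf (nat_lit 0) (nat_lit 4554386387) (nat_lit 76) (nat_lit 932891215) (nat_lit 152) (nat_lit 32918945581) (nat_lit 8) (nat_lit 5) (nat_lit 9) (nat_lit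 5) (nat_lit 10) (nat_lit 4) (nat_lit 373) (nat_lit 280) (nat_lit 247)) (XT.lf (nat_lit 0) (nat_lit 10430038061) (nat_lit 152) (nat_lit 25663934765) (nat_lit 0) (nat_lit 3978451358) (nat_lit 8) (nat_lit 5) (nat_lit 10) (nat_lit 4) (nat_lit 8) (nat_lit 4) (nat_lit 374) (nat_lit 280) (nat_lit 246))))))) (XT.nd (nat_lit 936) (nat_lit 76) (nat_lit 0) (XT.nd (nat_lit 468) (nat_lit 152) (nat_lit 0) (XT.nd (nat_lit 234) (nat_lit 0) (nat_lit 0) (XT.nd (nat_lit 78) (nat_lit 76) (nat_lit 0) (XT.lf (nat_lit 0) (nat_lit 15567300613) (nat_lit 152) (nat_lit 17213792577) (nat_lit 0) (nat_lit 9043484124) (nat_lit 8) (nat_lit 5) (nat_lit 10) (nat_lit 4) (nat_lit 8) (nat_lit 4) (nat_lit 375) (nat_lit 280) (nat_lit 245)) (XT.nd (nat_lit 78) (nat_lit 76) (nat_lit 0) (XT.lf (nat_lit 0) (nat_lit 20896731790) (nat_lit 152) (nat_lit 8466725799) (nat_lit 0) (nat_lit 14304125029) (nat_lit 8) (nat_lit 5) (nat_lit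 10) (nat_lit 4) (nat_lit 8) (nat_lit 4) (nat_lit 376) (nat_lit 280) (nat_lit 244)) (XT.lf (nat_lit 0) (nat_lit 617867536) (nat_lit 76) (nat_lit 25822799822) (nat_lit 76) (nat_lit 19164678516) (nat_lit 7) (nat_lit 4) (nat_lit 8) (nat_lit 5) (nat_lit 8) (nat_lit 4) (nat_lit 377) (nat_lit 280) (nat_lit 243)))) (XT.nd (nat_lit 78) (nat_lit 0) (nat_lit 0) (XT.lf (nat_lit 0) (nat_lit 10332962811) (nat_lit 76) (nat_lit 22011707961) (nat_lit 76) (nat_lit 15291191849) (nat_lit 7) (nat_lit 4) (nat_lit 8) (nat_lit 5) (nat_lit 8) (nat_lit 4) (nat_lit 378) (nat_lit 280) (nat_lit 242)) (XT.nd (nat_lit 78) (nat_lit 0) (nat_lit 0) (XT.lf (nat_lit 0) (nat_lit 20421743013) (nat_lit 76) (nat_lit 18064496075) (nat_lit 76) (nat_lit 11284556340) (nat_lit 7) (nat_lit 4) (nat_lit 8) (nat_lit 5) (nat_lit 8) (nat_lit 4) (nat_lit 379) (nat_lit 280) (nat_lit 241)) (XT.lf (nat_lit 0) (nat_lit 30908229046) (nat_lit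 76) (nat_lit 13971766043) (nat_lit 76) (nat_lit 7135232380) (nat_lit 7) (nat_lit 4) (nat_lit 8) (nat_lit 5) (nat_lit 8) (nat_lit 4) (nat_lit 380) (nat_lit 280) (nat_lit 240))))) (XT.nd (nat_lit 234) (nat_lit 0) (nat_lit 0) (XT.nd (nat_lit 78) (nat_lit 152) (nat_lit 0) (XT.lf (nat_lit 0) (nat_lit 41817388736) (nat_lit 76) (nat_lit 9723773268) (nat_lit 76) (nat_lit 2833340626) (nat_lit 7) (nat_lit 4) (nat_lit 8) (nat_lit 5) (nat_lit 8) (nat_lit 4) (nat_lit 381) (nat_lit 280) (nat_lit 239)) (XT.nd (nat_lit 78) (nat_lit 76) (nat_lit 0) (XT.lf (nat_lit 0) (nat_lit 1579147763) (nat_lit 152) (nat_lit 3704512087) (nat_lit 76) (nat_lit 51569304876) (nat_lit 6) (nat_lit 5) (nat_lit 8) (nat_lit 5) (nat_lit 7) (nat_lit 4) (nat_lit 382) (nat_lit 280) (nat_lit 238)) (XT.lf (nat_lit 0) (nat_lit 5630688298) (nat_lit 76) (nat_lit 526063536) (nat_lit 152) (nat_lit 53294296805) (nat_lit 5) (nat_lit 5) (nat_lit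 6) (nat_lit 5) (nat_lit 7) (nat_lit 4) (nat_lit 383) (nat_lit 280) (nat_lit 237)))) (XT.nd (nat_lit 78) (nat_lit 0) (nat_lit 0) (XT.lf (nat_lit 0) (nat_lit 11048734368) (nat_lit 152) (nat_lit 46779406964) (nat_lit 0) (nat_lit 4346626817) (nat_lit 5) (nat_lit 5) (nat_lit 7) (nat_lit 4) (nat_lit 5) (nat_lit 4) (nat_lit 384) (nat_lit 280) (nat_lit 236)) (XT.nd (nat_lit 78) (nat_lit 0) (nat_lit 0) (XT.lf (nat_lit 0) (nat_lit 16148180030) (nat_lit 152) (nat_lit 39484515198) (nat_lit 0) (nat_lit 9403841219) (nat_lit 5) (nat_lit 5) (nat_lit 7) (nat_lit 4) (nat_lit 5) (nat_lit 4) (nat_lit 385) (nat_lit 280) (nat_lit 235)) (XT.lf (nat_lit 0) (nat_lit 21459017030) (nat_lit 152) (nat_lit 31910102930) (nat_lit 0) (nat_lit 14674457972) (nat_lit 5) (nat_lit 5) (nat_lit 7) (nat_lit 4) (nat_lit 5) (nat_lit 4) (nat_lit 386) (nat_lit 280) (nat_lit 234)))))) (XT.nd (nat_lit 468) (nat_lit 0) (nat_lit 0) (XT.nd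 (nat_lit 234) (nat_lit 76) (nat_lit 0) (XT.nd (nat_lit 78) (nat_lit 0) (nat_lit 0) (XT.lf (nat_lit 0) (nat_lit 26993890220) (nat_lit 152) (nat_lit 24038135843) (nat_lit 0) (nat_lit 20171026164) (nat_lit 5) (nat_lit 5) (nat_lit 7) (nat_lit 4) (nat_lit 5) (nat_lit 4) (nat_lit 387) (nat_lit 280) (nat_lit 233)) (XT.nd (nat_lit 78) (nat_lit 0) (nat_lit 0) (XT.lf (nat_lit 0) (nat_lit 32765977869) (nat_lit 152) (nat_lit 15849871160) (nat_lit 0) (nat_lit 25906632862) (nat_lit 5) (nat_lit 5) (nat_lit 7) (nat_lit 4) (nat_lit 5) (nat_lit 4) (nat_lit 388) (nat_lit 280) (nat_lit 232)) (XT.lf (nat_lit 0) (nat_lit 38789023042) (nat_lit 152) (nat_lit 7325813011) (nat_lit 0) (nat_lit 31894934274) (nat_lit 5) (nat_lit 5) (nat_lit 7) (nat_lit 4) (nat_lit 5) (nat_lit 4) (nat_lit 389) (nat_lit 280) (nat_lit 231)))) (XT.nd (nat_lit 78) (nat_lit 0) (nat_lit 0) (XT.lf (nat_lit 0) (nat_lit 1605727279) (nat_lit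 76) (nat_lit 43496708948) (nat_lit 76) (nat_lit 36569530882) (nat_lit 4) (nat_lit 4) (nat_lit 5) (nat_lit 5) (nat_lit 5) (nat_lit 4) (nat_lit 390) (nat_lit 280) (nat_lit 230)) (XT.nd (nat_lit 78) (nat_lit 0) (nat_lit 0) (XT.lf (nat_lit 0) (nat_lit 11169197076) (nat_lit 76) (nat_lit 40651165351) (nat_lit 76) (nat_lit 33692473669) (nat_lit 4) (nat_lit 4) (nat_lit 5) (nat_lit 5) (nat_lit 5) (nat_lit 4) (nat_lit 391) (nat_lit 280) (nat_lit 229)) (XT.lf (nat_lit 0) (nat_lit 21145142083) (nat_lit 76) (nat_lit 37695496350) (nat_lit 76) (nat_lit 30706791699) (nat_lit 4) (nat_lit 4) (nat_lit 5) (nat_lit 5) (nat_lit 5) (nat_lit 4) (nat_lit 392) (nat_lit 280) (nat_lit 228))))) (XT.nd (nat_lit 234) (nat_lit 0) (nat_lit 0) (XT.nd (nat_lit 78) (nat_lit 0) (nat_lit 0) (XT.lf (nat_lit 0) (nat_lit 31557314551) (nat_lit 76) (nat_lit 34622664635) (nat_lit 76) (nat_lit 27605376205) (nat_lit 4) (nat_lit 4)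 (nat_lit 5) (nat_lit 5) (nat_lit 5) (nat_lit 4) (nat_lit 393) (nat_lit 280) (nat_lit 227)) (XT.nd (nat_lit 78) (nat_lit 0) (nat_lit 0) (XT.lf (nat_lit 0) (nat_lit 42430505365) (nat_lit 76) (nat_lit 31425353942) (nat_lit 76) (nat_lit 24380842865) (nat_lit 4) (nat_lit 4) (nat_lit 5) (nat_lit 5) (nat_lit 5) (nat_lit 4) (nat_lit 394) (nat_lit 280) (nat_lit 226)) (XT.lf (nat_lit 0) (nat_lit 53790603076) (nat_lit 76) (nat_lit 28095951625) (nat_lit 76) (nat_lit 21025514219) (nat_lit 4) (nat_lit 4) (nat_lit 5) (nat_lit 5) (nat_lit 5) (nat_lit 4) (nat_lit 395) (nat_lit 280) (nat_lit 225)))) (XT.nd (nat_lit 78) (nat_lit 0) (nat_lit 0) (XT.lf (nat_lit 0) (nat_lit 65664655535) (nat_lit 76) (nat_lit 24626530537) (nat_lit 76) (nat_lit 17531401388) (nat_lit 4) (nat_lit 4) (nat_lit 5) (nat_lit 5) (nat_lit 5) (nat_lit 4) (nat_lit 396) (nat_lit 280) (nat_lit 224)) (XT.nd (nat_lit 78) (nat_lit 0) (nat_lit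 0) (XT.lf (nat_lit 0) (nat_lit 78080934296) (nat_lit 76) (nat_lit 21008830151) (nat_lit 76) (nat_lit 13890185056) (nat_lit 4) (nat_lit 4) (nat_lit 5) (nat_lit 5) (nat_lit 5) (nat_lit 4) (nat_lit 397) (nat_lit 280) (nat_lit 223)) (XT.lf (nat_lit 0) (nat_lit 91069001927) (nat_lit 76) (nat_lit 17234236895) (nat_lit 76) (nat_lit 10093195661) (nat_lit 4) (nat_lit 4) (nat_lit 5) (nat_lit 5) (nat_lit 5) (nat_lit 4) (nat_lit 398) (nat_lit 280) (nat_lit 222))))))))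
noncomputable def xc52 : XT := (XT.nd (nat_lit 1794) (nat_lit 76) (nat_lit 0) (XT.nd (nat_lit 858) (nat_lit 0) (nat_lit 0) (XT.nd (nat_lit 390) (nat_lit 0) (nat_lit 0) (XT.nd (nat_lit 156) (nat_lit 152) (nat_lit 0) (XT.nd (nat_lit 78) (nat_lit 0) (nat_lit 0) (XT.lf (nat_lit 0) (nat_lit 104659782398) (nat_lit 76) (nat_lit 13293763642) (nat_lit 76) (nat_lit 6131392751) (nat_lit 4) (nat_lit 4) (nat_lit 5) (nat_lit 5) (nat_lit 5) (nat_lit 4) (nat_lit 399) (nat_lit 280) (nat_lit 221)) (XT.lf (nat_lit 0) (nat_lit 118885634712) (nat_lit 76) (nat_lit 9178028312) (nat_lit 76) (nat_lit 1995343463) (nat_lit 4) (nat_lit 4) (nat_lit 5) (nat_lit 5) (nat_lit 5) (nat_lit 4) (nat_lit 400) (nat_lit 280) (nat_lit 220))) (XT.nd (nat_lit 78) (nat_lit 76) (nat_lit 0) (XT.lf (nat_lit 0) (nat_lit 2250391822) (nat_lit 152) (nat_lit 2588728240) (nat_lit 76) (nat_lit 131491926647) (nat_lit 3) (nat_lit 5) (nat_lit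 5) (nat_lit 5) (nat_lit 4) (nat_lit 4) (nat_lit 401) (nat_lit 280) (nat_lit 219)) (XT.nd (nat_lit 78) (nat_lit 0) (nat_lit 0) (XT.lf (nat_lit 0) (nat_lit 6561415453) (nat_lit 76) (nat_lit 161449077) (nat_lit 152) (nat_lit 136188116018) (nat_lit 2) (nat_lit 5) (nat_lit 3) (nat_lit 5) (nat_lit 4) (nat_lit 4) (nat_lit 402) (nat_lit 280) (nat_lit 218)) (XT.lf (nat_lit 0) (nat_lit 11516806177) (nat_lit 152) (nat_lit 133674746740) (nat_lit 0) (nat_lit 4623468277) (nat_lit 2) (nat_lit 5) (nat_lit 4) (nat_lit 4) (nat_lit 2) (nat_lit 4) (nat_lit 403) (nat_lit 280) (nat_lit 217))))) (XT.nd (nat_lit 234) (nat_lit 0) (nat_lit 0) (XT.nd (nat_lit 78) (nat_lit 0) (nat_lit 0) (XT.lf (nat_lit 0) (nat_lit 16533208534) (nat_lit 152) (nat_lit 130907965305) (nat_lit 0) (nat_lit 9623954116) (nat_lit 2) (nat_lit 5) (nat_lit 4) (nat_lit 4) (nat_lit 2) (nat_lit 4) (nat_lit 404) (nat_lit 280) (nat_lit 216)) (XT.nd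 (nat_lit 78) (nat_lit 0) (nat_lit 0) (XT.lf (nat_lit 0) (nat_lit 21781494744) (nat_lit 152) (nat_lit 128040112545) (nat_lit 0) (nat_lit 14857081737) (nat_lit 2) (nat_lit 5) (nat_lit 4) (nat_lit 4) (nat_lit 2) (nat_lit 4) (nat_lit 405) (nat_lit 280) (nat_lit 215)) (XT.lf (nat_lit 0) (nat_lit 27274160726) (nat_lit 152) (nat_lit 125064360238) (nat_lit 0) (nat_lit 20335310969) (nat_lit 2) (nat_lit 5) (nat_lit 4) (nat_lit 4) (nat_lit 2) (nat_lit 4) (nat_lit 406) (nat_lit 280) (nat_lit 214)))) (XT.nd (nat_lit 78) (nat_lit 0) (nat_lit 0) (XT.lf (nat_lit 0) (nat_lit 33024284257) (nat_lit 152) (nat_lit 121973623259) (nat_lit 0) (nat_lit 26071685214) (nat_lit 2) (nat_lit 5) (nat_lit 4) (nat_lit 4) (nat_lit 2) (nat_lit 4) (nat_lit 407) (nat_lit 280) (nat_lit 213)) (XT.nd (nat_lit 78) (nat_lit 0) (nat_lit 0) (XT.lf (nat_lit 0) (nat_lit 39045556108) (nat_lit 152) (nat_lit 118760542711) (nat_lit 0) (nat_lit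 32079862505) (nat_lit 2) (nat_lit 5) (nat_lit 4) (nat_lit 4) (nat_lit 2) (nat_lit 4) (nat_lit 408) (nat_lit 280) (nat_lit 212)) (XT.lf (nat_lit 0) (nat_lit 45352312638) (nat_lit 152) (nat_lit 115417468403) (nat_lit 0) (nat_lit 38374148028) (nat_lit 2) (nat_lit 5) (nat_lit 4) (nat_lit 4) (nat_lit 2) (nat_lit 4) (nat_lit 409) (nat_lit 280) (nat_lit 211)))))) (XT.nd (nat_lit 468) (nat_lit 0) (nat_lit 0) (XT.nd (nat_lit 234) (nat_lit 0) (nat_lit 0) (XT.nd (nat_lit 78) (nat_lit 0) (nat_lit 0) (XT.lf (nat_lit 0) (nat_lit 51959569936) (nat_lit 152) (nat_lit 111936440633) (nat_lit 0) (nat_lit 44969528175) (nat_lit 2) (nat_lit 5) (nat_lit 4) (nat_lit 4) (nat_lit 2) (nat_lit 4) (nat_lit 410) (nat_lit 280) (nat_lit 210)) (XT.nd (nat_lit 78) (nat_lit 0) (nat_lit 0) (XT.lf (nat_lit 0) (nat_lit 58883059567) (nat_lit 152) (nat_lit 108309171240) (nat_lit 0) (nat_lit 51881706234) (nat_lit 2) (nat_lit 5)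 (nat_lit 4) (nat_lit 4) (nat_lit 2) (nat_lit 4) (nat_lit 411) (nat_lit 280) (nat_lit 209)) (XT.lf (nat_lit 0) (nat_lit 66139266029) (nat_lit 152) (nat_lit 104527023869) (nat_lit 0) (nat_lit 59127139771) (nat_lit 2) (nat_lit 5) (nat_lit 4) (nat_lit 4) (nat_lit 2) (nat_lit 4) (nat_lit 412) (nat_lit 280) (nat_lit 208)))) (XT.nd (nat_lit 78) (nat_lit 0) (nat_lit 0) (XT.lf (nat_lit 0) (nat_lit 73745466005) (nat_lit 152) (nat_lit 100580993406) (nat_lit 0) (nat_lit 66723079817) (nat_lit 2) (nat_lit 5) (nat_lit 4) (nat_lit 4) (nat_lit 2) (nat_lit 4) (nat_lit 413) (nat_lit 280) (nat_lit 207)) (XT.nd (nat_lit 78) (nat_lit 0) (nat_lit 0) (XT.lf (nat_lit 0) (nat_lit 81719769495) (nat_lit 152) (nat_lit 96461684541) (nat_lit 0) (nat_lit 74687611946) (nat_lit 2) (nat_lit 5) (nat_lit 4) (nat_lit 4) (nat_lit 2) (nat_lit 4) (nat_lit 414) (nat_lit 280) (nat_lit 206)) (XT.lf (nat_lit 0) (nat_lit 90081162935)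 (nat_lit 152) (nat_lit 92159289396) (nat_lit 0) (nat_lit 83039699328) (nat_lit 2) (nat_lit 5) (nat_lit 4) (nat_lit 4) (nat_lit 2) (nat_lit 4) (nat_lit 415) (nat_lit 280) (nat_lit 205))))) (XT.nd (nat_lit 234) (nat_lit 0) (nat_lit 0) (XT.nd (nat_lit 78) (nat_lit 0) (nat_lit 0) (XT.lf (nat_lit 0) (nat_lit 98849554405) (nat_lit 152) (nat_lit 87663564173) (nat_lit 0) (nat_lit 91799227885) (nat_lit 2) (nat_lit 5) (nat_lit 4) (nat_lit 4) (nat_lit 2) (nat_lit 4) (nat_lit 416) (nat_lit 280) (nat_lit 204)) (XT.nd (nat_lit 78) (nat_lit 0) (nat_lit 0) (XT.lf (nat_lit 0) (nat_lit 108045821028) (nat_lit 152) (nat_lit 82963804764) (nat_lit 0) (nat_lit 100987053639) (nat_lit 2) (nat_lit 5) (nat_lit 4) (nat_lit 4) (nat_lit 2) (nat_lit 4) (nat_lit 417) (nat_lit 280) (nat_lit 203)) (XT.lf (nat_lit 0) (nat_lit 117691858676) (nat_lit 152) (nat_lit 78048821266) (nat_lit 0) (nat_lit 110625052364) (nat_lit 2)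 (nat_lit 5) (nat_lit 4) (nat_lit 4) (nat_lit 2) (nat_lit 4) (nat_lit 418) (nat_lit 280) (nat_lit 202)))) (XT.nd (nat_lit 78) (nat_lit 0) (nat_lit 0) (XT.lf (nat_lit 0) (nat_lit 127810634107) (nat_lit 152) (nat_lit 72906911337) (nat_lit 0) (nat_lit 120736171677) (nat_lit 2) (nat_lit 5) (nat_lit 4) (nat_lit 4) (nat_lit 2) (nat_lit 4) (nat_lit 419) (nat_lit 280) (nat_lit 201)) (XT.nd (nat_lit 78) (nat_lit 0) (nat_lit 0) (XT.lf (nat_lit 0) (nat_lit 138426239641) (nat_lit 152) (nat_lit 67525832334) (nat_lit 0) (nat_lit 131344485672) (nat_lit 2) (nat_lit 5) (nat_lit 4) (nat_lit 4) (nat_lit 2) (nat_lit 4) (nat_lit 420) (nat_lit 280) (nat_lit 200)) (XT.lf (nat_lit 0) (nat_lit 149563950532) (nat_lit 152) (nat_lit 61892772165) (nat_lit 0) (nat_lit 142475252238) (nat_lit 2) (nat_lit 5) (nat_lit 4) (nat_lit 4) (nat_lit 2) (nat_lit 4) (nat_lit 421) (nat_lit 280) (nat_lit 199))))))) (XT.nd (nat_lit 936)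 (nat_lit 0) (nat_lit 0) (XT.nd (nat_lit 468) (nat_lit 76) (nat_lit 0) (XT.nd (nat_lit 234) (nat_lit 0) (nat_lit 0) (XT.nd (nat_lit 78) (nat_lit 0) (nat_lit 0) (XT.lf (nat_lit 0) (nat_lit 161250285137) (nat_lit 152) (nat_lit 55994318782) (nat_lit 0) (nat_lit 154154973201) (nat_lit 2) (nat_lit 5) (nat_lit 4) (nat_lit 4) (nat_lit 2) (nat_lit 4) (nat_lit 422) (nat_lit 280) (nat_lit 198)) (XT.nd (nat_lit 78) (nat_lit 0) (nat_lit 0) (XT.lf (nat_lit 0) (nat_lit 173513068063) (nat_lit 152) (nat_lit 49816428247) (nat_lit 0) (nat_lit 166411457421) (nat_lit 2) (nat_lit 5) (nat_lit 4) (nat_lit 4) (nat_lit 2) (nat_lit 4) (nat_lit 423) (nat_lit 280) (nat_lit 197)) (XT.lf (nat_lit 0) (nat_lit 186381496412) (nat_lit 152) (nat_lit 43344391299) (nat_lit 0) (nat_lit 179273887002) (nat_lit 2) (nat_lit 5) (nat_lit 4) (nat_lit 4) (nat_lit 2) (nat_lit 4) (nat_lit 424) (nat_lit 280) (nat_lit 196)))) (XT.nd (nat_lit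 78) (nat_lit 0) (nat_lit 0) (XT.lf (nat_lit 0) (nat_lit 199886209300) (nat_lit 152) (nat_lit 36562798324) (nat_lit 0) (nat_lit 192772886778) (nat_lit 2) (nat_lit 5) (nat_lit 4) (nat_lit 4) (nat_lit 2) (nat_lit 4) (nat_lit 425) (nat_lit 280) (nat_lit 195)) (XT.nd (nat_lit 78) (nat_lit 0) (nat_lit 0) (XT.lf (nat_lit 0) (nat_lit 214059360805) (nat_lit 152) (nat_lit 29455502673) (nat_lit 0) (nat_lit 206940597223) (nat_lit 2) (nat_lit 5) (nat_lit 4) (nat_lit 4) (nat_lit 2) (nat_lit 4) (nat_lit 426) (nat_lit 280) (nat_lit 194)) (XT.lf (nat_lit 0) (nat_lit 228934696525) (nat_lit 152) (nat_lit 22005582214) (nat_lit 0) (nat_lit 221810750981) (nat_lit 2) (nat_lit 5) (nat_lit 4) (nat_lit 4) (nat_lit 2) (nat_lit 4) (nat_lit 427) (nat_lit 280) (nat_lit 193))))) (XT.nd (nat_lit 234) (nat_lit 0) (nat_lit 0) (XT.nd (nat_lit 78) (nat_lit 76) (nat_lit 0) (XT.lf (nat_lit 0) (nat_lit 244547633927) (nat_lit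 152) (nat_lit 14195299040) (nat_lit 0) (nat_lit 237418753181) (nat_lit 2) (nat_lit 5) (nat_lit 4) (nat_lit 4) (nat_lit 2) (nat_lit 4) (nat_lit 428) (nat_lit 280) (nat_lit 192)) (XT.nd (nat_lit 78) (nat_lit 76) (nat_lit 0) (XT.lf (nat_lit 0) (nat_lit 260935346670) (nat_lit 152) (nat_lit 6006057240) (nat_lit 0) (nat_lit 253801765733) (nat_lit 2) (nat_lit 5) (nat_lit 4) (nat_lit 4) (nat_lit 2) (nat_lit 4) (nat_lit 429) (nat_lit 280) (nat_lit 191)) (XT.lf (nat_lit 0) (nat_lit 2667002104) (nat_lit 76) (nat_lit 275511490392) (nat_lit 76) (nat_lit 268373433082) (nat_lit 1) (nat_lit 4) (nat_lit 2) (nat_lit 5) (nat_lit 2) (nat_lit 4) (nat_lit 430) (nat_lit 280) (nat_lit 190)))) (XT.nd (nat_lit 78) (nat_lit 0) (nat_lit 0) (XT.lf (nat_lit 0) (nat_lit 11971403397) (nat_lit 76) (nat_lit 284408613001) (nat_lit 76) (nat_lit 277266292478) (nat_lit 1) (nat_lit 4) (nat_lit 2) (nat_lit 5) (nat_lit 2) (nat_lit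 4) (nat_lit 431) (nat_lit 280) (nat_lit 189)) (XT.nd (nat_lit 78) (nat_lit 0) (nat_lit 0) (XT.lf (nat_lit 0) (nat_lit 21730712599) (nat_lit 76) (nat_lit 293755670849) (nat_lit 76) (nat_lit 286609290124) (nat_lit 1) (nat_lit 4) (nat_lit 2) (nat_lit 5) (nat_lit 2) (nat_lit 4) (nat_lit 432) (nat_lit 280) (nat_lit 188)) (XT.lf (nat_lit 0) (nat_lit 31968166159) (nat_lit 76) (nat_lit 303574918835) (nat_lit 76) (nat_lit 296424671250) (nat_lit 1) (nat_lit 4) (nat_lit 2) (nat_lit 5) (nat_lit 2) (nat_lit 4) (nat_lit 433) (nat_lit 280) (nat_lit 187)))))) (XT.nd (nat_lit 39546) (nat_lit 0) (nat_lit 2128) (XT.nd (nat_lit 234) (nat_lit 0) (nat_lit 0) (XT.nd (nat_lit 78) (nat_lit 0) (nat_lit 0) (XT.lf (nat_lit 0) (nat_lit 42708138967) (nat_lit 76) (nat_lit 313889736121) (nat_lit 76) (nat_lit 306735805813) (nat_lit 1) (nat_lit 4) (nat_lit 2) (nat_lit 5) (nat_lit 2) (nat_lit 4) (nat_lit 434) (nat_lit 280)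 (nat_lit 186)) (XT.nd (nat_lit 78) (nat_lit 0) (nat_lit 0) (XT.lf (nat_lit 0) (nat_lit 53976202387) (nat_lit 76) (nat_lit 324724681796) (nat_lit 76) (nat_lit 317567244133) (nat_lit 1) (nat_lit 4) (nat_lit 2) (nat_lit 5) (nat_lit 2) (nat_lit 4) (nat_lit 435) (nat_lit 280) (nat_lit 185)) (XT.lf (nat_lit 0) (nat_lit 65799185142) (nat_lit 76) (nat_lit 336105553349) (nat_lit 76) (nat_lit 328944775347) (nat_lit 1) (nat_lit 4) (nat_lit 2) (nat_lit 5) (nat_lit 2) (nat_lit 4) (nat_lit 436) (nat_lit 280) (nat_lit 184)))) (XT.nd (nat_lit 39156) (nat_lit 0) (nat_lit 2736) (XT.lf (nat_lit 0) (nat_lit 78205237189) (nat_lit 76) (nat_lit 348059448094) (nat_lit 76) (nat_lit 340895488818) (nat_lit 1) (nat_lit 4) (nat_lit 2) (nat_lit 5) (nat_lit 2) (nat_lit 4) (nat_lit 437) (nat_lit 280) (nat_lit 183)) (XT.nd (nat_lit 78) (nat_lit 152) (nat_lit 0) (XT.lf (nat_lit 0) (nat_lit 1904415564) (nat_lit 228) (nat_lit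 1819853032) (nat_lit 0) (nat_lit 1904415564) (nat_lit 39) (nat_lit 5) (nat_lit 42) (nat_lit 4) (nat_lit 39) (nat_lit 4) (nat_lit 338) (nat_lit 281) (nat_lit 281)) (XT.lf (nat_lit 0) (nat_lit 4993216137) (nat_lit 152) (nat_lit 3590387377) (nat_lit 152) (nat_lit 2972306242) (nat_lit 37) (nat_lit 4) (nat_lit 39) (nat_lit 5) (nat_lit 39) (nat_lit 4) (nat_lit 339) (nat_lit 281) (nat_lit 280))))) (XT.nd (nat_lit 234) (nat_lit 304) (nat_lit 0) (XT.nd (nat_lit 78) (nat_lit 152) (nat_lit 0) (XT.lf (nat_lit 0) (nat_lit 1605189700) (nat_lit 152) (nat_lit 9810358849) (nat_lit 0) (nat_lit 455923190) (nat_lit 35) (nat_lit 5) (nat_lit 37) (nat_lit 4) (nat_lit 35) (nat_lit 4) (nat_lit 340) (nat_lit 281) (nat_lit 279)) (XT.nd (nat_lit 78) (nat_lit 152) (nat_lit 0) (XT.lf (nat_lit 0) (nat_lit 6315781068) (nat_lit 152) (nat_lit 1251872133) (nat_lit 0) (nat_lit 4632592835) (nat_lit 35) (nat_lit 5) (nat_lit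 37) (nat_lit 4) (nat_lit 35) (nat_lit 4) (nat_lit 341) (nat_lit 281) (nat_lit 278)) (XT.lf (nat_lit 0) (nat_lit 7705779695) (nat_lit 152) (nat_lit 3516703888) (nat_lit 152) (nat_lit 1325018775) (nat_lit 33) (nat_lit 4) (nat_lit 35) (nat_lit 5) (nat_lit 35) (nat_lit 4) (nat_lit 342) (nat_lit 281) (nat_lit 277)))) (XT.nd (nat_lit 78) (nat_lit 152) (nat_lit 0) (XT.lf (nat_lit 0) (nat_lit 3289208326) (nat_lit 152) (nat_lit 8882727080) (nat_lit 0) (nat_lit 740667512) (nat_lit 31) (nat_lit 5) (nat_lit 33) (nat_lit 4) (nat_lit 31) (nat_lit 4) (nat_lit 343) (nat_lit 281) (nat_lit 276)) (XT.nd (nat_lit 78) (nat_lit 152) (nat_lit 0) (XT.lf (nat_lit 0) (nat_lit 8073141227) (nat_lit 152) (nat_lit 137275853) (nat_lit 0) (nat_lit 5085341690) (nat_lit 31) (nat_lit 5) (nat_lit 33) (nat_lit 4) (nat_lit 31) (nat_lit 4) (nat_lit 344) (nat_lit 281) (nat_lit 275)) (XT.lf (nat_lit 0) (nat_lit 9071164297) (nat_lit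 152) (nat_lit 4016763012) (nat_lit 152) (nat_lit 610621834) (nat_lit 29) (nat_lit 4) (nat_lit 31) (nat_lit 5) (nat_lit 31) (nat_lit 4) (nat_lit 345) (nat_lit 281) (nat_lit 274))))))))
noncomputable def xc53 : XT := (XT.nd (nat_lit 1794) (nat_lit 532) (nat_lit 0) (XT.nd (nat_lit 858) (nat_lit 532) (nat_lit 0) (XT.nd (nat_lit 390) (nat_lit 380) (nat_lit 0) (XT.nd (nat_lit 156) (nat_lit 304) (nat_lit 0) (XT.nd (nat_lit 78) (nat_lit 0) (nat_lit 0) (XT.lf (nat_lit 0) (nat_lit 4025237710) (nat_lit 152) (nat_lit 9694710483) (nat_lit 0) (nat_lit 401845530) (nat_lit 27) (nat_lit 5) (nat_lit 29) (nat_lit 4) (nat_lit 27) (nat_lit 4) (nat_lit 346) (nat_lit 281) (nat_lit 273)) (XT.lf (nat_lit 0) (nat_lit 8869758331) (nat_lit 152) (nat_lit 811136777) (nat_lit 0) (nat_lit 4884986912) (nat_lit 27) (nat_lit 5) (nat_lit 29) (nat_lit 4) (nat_lit 27) (nat_lit 4) (nat_lit 347) (nat_lit 281) (nat_lit 272)))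 (XT.nd (nat_lit 78) (nat_lit 152) (nat_lit 0) (XT.lf (nat_lit 0) (nat_lit 8535875798) (nat_lit 152) (nat_lit 5412839761) (nat_lit 152) (nat_lit 1083897639) (nat_lit 25) (nat_lit 4) (nat_lit 27) (nat_lit 5) (nat_lit 27) (nat_lit 4) (nat_lit 348) (nat_lit 281) (nat_lit 271)) (XT.nd (nat_lit 78) (nat_lit 0) (nat_lit 0) (XT.lf (nat_lit 0) (nat_lit 2627037479) (nat_lit 76) (nat_lit 926016776) (nat_lit 152) (nat_lit 11971015538) (nat_lit 23) (nat_lit 5) (nat_lit 24) (nat_lit 5) (nat_lit 25) (nat_lit 4) (nat_lit 349) (nat_lit 281) (nat_lit 270)) (XT.lf (nat_lit 0) (nat_lit 8416824129) (nat_lit 152) (nat_lit 3936317612) (nat_lit 0) (nat_lit 3684541540) (nat_lit 23) (nat_lit 5) (nat_lit 25) (nat_lit 4) (nat_lit 23) (nat_lit 4) (nat_lit 350) (nat_lit 281) (nat_lit 269))))) (XT.nd (nat_lit 234) (nat_lit 152) (nat_lit 0) (XT.nd (nat_lit 78) (nat_lit 152) (nat_lit 0) (XT.lf (nat_lit 0) (nat_lit 5386212713)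 (nat_lit 76) (nat_lit 8103959124) (nat_lit 76) (nat_lit 3088526446) (nat_lit 22) (nat_lit 4) (nat_lit 23) (nat_lit 5) (nat_lit 23) (nat_lit 4) (nat_lit 351) (nat_lit 281) (nat_lit 268)) (XT.nd (nat_lit 78) (nat_lit 76) (nat_lit 0) (XT.lf (nat_lit 0) (nat_lit 1552245418) (nat_lit 152) (nat_lit 2102996322) (nat_lit 76) (nat_lit 13493490536) (nat_lit 21) (nat_lit 5) (nat_lit 23) (nat_lit 5) (nat_lit 22) (nat_lit 4) (nat_lit 352) (nat_lit 281) (nat_lit 267)) (XT.lf (nat_lit 0) (nat_lit 6327478187) (nat_lit 152) (nat_lit 10367527704) (nat_lit 0) (nat_lit 1049454465) (nat_lit 20) (nat_lit 5) (nat_lit 22) (nat_lit 4) (nat_lit 20) (nat_lit 4) (nat_lit 353) (nat_lit 281) (nat_lit 266)))) (XT.nd (nat_lit 78) (nat_lit 152) (nat_lit 0) (XT.lf (nat_lit 0) (nat_lit 11312234425) (nat_lit 152) (nat_lit 1257973064) (nat_lit 0) (nat_lit 5801262424) (nat_lit 20) (nat_lit 5) (nat_lit 22) (nat_lit 4) (nat_lit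 20) (nat_lit 4) (nat_lit 354) (nat_lit 281) (nat_lit 265)) (XT.nd (nat_lit 78) (nat_lit 76) (nat_lit 0) (XT.lf (nat_lit 0) (nat_lit 8352346076) (nat_lit 76) (nat_lit 8204896137) (nat_lit 76) (nat_lit 2472068631) (nat_lit 19) (nat_lit 4) (nat_lit 20) (nat_lit 5) (nat_lit 20) (nat_lit 4) (nat_lit 355) (nat_lit 281) (nat_lit 264)) (XT.lf (nat_lit 0) (nat_lit 2172008586) (nat_lit 152) (nat_lit 1491500859) (nat_lit 76) (nat_lit 16059603383) (nat_lit 18) (nat_lit 5) (nat_lit 20) (nat_lit 5) (nat_lit 19) (nat_lit 4) (nat_lit 356) (nat_lit 281) (nat_lit 263)))))) (XT.nd (nat_lit 468) (nat_lit 228) (nat_lit 0) (XT.nd (nat_lit 234) (nat_lit 152) (nat_lit 0) (XT.nd (nat_lit 78) (nat_lit 76) (nat_lit 0) (XT.lf (nat_lit 0) (nat_lit 6997718670) (nat_lit 152) (nat_lit 12305255561) (nat_lit 0) (nat_lit 1145006342) (nat_lit 17) (nat_lit 5) (nat_lit 19) (nat_lit 4) (nat_lit 17) (nat_lit 4) (nat_lit 357)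 (nat_lit 281) (nat_lit 262)) (XT.nd (nat_lit 78) (nat_lit 76) (nat_lit 0) (XT.lf (nat_lit 0) (nat_lit 12037679258) (nat_lit 152) (nat_lit 3170344323) (nat_lit 0) (nat_lit 6002445858) (nat_lit 17) (nat_lit 5) (nat_lit 19) (nat_lit 4) (nat_lit 17) (nat_lit 4) (nat_lit 358) (nat_lit 281) (nat_lit 261)) (XT.lf (nat_lit 0) (nat_lit 6424569602) (nat_lit 76) (nat_lit 10897977707) (nat_lit 76) (nat_lit 4688914714) (nat_lit 16) (nat_lit 4) (nat_lit 17) (nat_lit 5) (nat_lit 17) (nat_lit 4) (nat_lit 359) (nat_lit 281) (nat_lit 260)))) (XT.nd (nat_lit 78) (nat_lit 152) (nat_lit 0) (XT.lf (nat_lit 0) (nat_lit 16410191217) (nat_lit 76) (nat_lit 6409768268) (nat_lit 76) (nat_lit 35153282) (nat_lit 16) (nat_lit 4) (nat_lit 17) (nat_lit 5) (nat_lit 17) (nat_lit 4) (nat_lit 360) (nat_lit 281) (nat_lit 259)) (XT.nd (nat_lit 78) (nat_lit 0) (nat_lit 0) (XT.lf (nat_lit 0) (nat_lit 2980790177) (nat_lit 76) (nat_lit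 1659733592) (nat_lit 152) (nat_lit 19099431576) (nat_lit 14) (nat_lit 5) (nat_lit 15) (nat_lit 5) (nat_lit 16) (nat_lit 4) (nat_lit 361) (nat_lit 281) (nat_lit 258)) (XT.lf (nat_lit 0) (nat_lit 9610150257) (nat_lit 152) (nat_lit 11809896199) (nat_lit 0) (nat_lit 3245917791) (nat_lit 14) (nat_lit 5) (nat_lit 16) (nat_lit 4) (nat_lit 14) (nat_lit 4) (nat_lit 362) (nat_lit 281) (nat_lit 257))))) (XT.nd (nat_lit 234) (nat_lit 152) (nat_lit 0) (XT.nd (nat_lit 78) (nat_lit 76) (nat_lit 0) (XT.lf (nat_lit 0) (nat_lit 14758755825) (nat_lit 152) (nat_lit 2624688946) (nat_lit 0) (nat_lit 8258323325) (nat_lit 14) (nat_lit 5) (nat_lit 16) (nat_lit 4) (nat_lit 14) (nat_lit 4) (nat_lit 363) (nat_lit 281) (nat_lit 256)) (XT.nd (nat_lit 78) (nat_lit 0) (nat_lit 0) (XT.lf (nat_lit 0) (nat_lit 7070540682) (nat_lit 76) (nat_lit 13112536239) (nat_lit 76) (nat_lit 6482389421) (nat_lit 13) (nat_lit 4) (nat_lit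 14) (nat_lit 5) (nat_lit 14) (nat_lit 4) (nat_lit 364) (nat_lit 281) (nat_lit 255)) (XT.lf (nat_lit 0) (nat_lit 17168946904) (nat_lit 76) (nat_lit 8663701369) (nat_lit 76) (nat_lit 1910017104) (nat_lit 13) (nat_lit 4) (nat_lit 14) (nat_lit 5) (nat_lit 14) (nat_lit 4) (nat_lit 365) (nat_lit 281) (nat_lit 254)))) (XT.nd (nat_lit 78) (nat_lit 76) (nat_lit 0) (XT.lf (nat_lit 0) (nat_lit 2710906102) (nat_lit 152) (nat_lit 1313981465) (nat_lit 76) (nat_lit 24850972863) (nat_lit 12) (nat_lit 5) (nat_lit 14) (nat_lit 5) (nat_lit 13) (nat_lit 4) (nat_lit 366) (nat_lit 281) (nat_lit 253)) (XT.nd (nat_lit 78) (nat_lit 0) (nat_lit 0) (XT.lf (nat_lit 0) (nat_lit 7562570052) (nat_lit 152) (nat_lit 21586679200) (nat_lit 0) (nat_lit 911721404) (nat_lit 11) (nat_lit 5) (nat_lit 13) (nat_lit 4) (nat_lit 11) (nat_lit 4) (nat_lit 367) (nat_lit 281) (nat_lit 252)) (XT.lf (nat_lit 0) (nat_lit 12662396767) (nat_lit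 152) (nat_lit 12732761561) (nat_lit 0) (nat_lit 5909913557) (nat_lit 11) (nat_lit 5) (nat_lit 13) (nat_lit 4) (nat_lit 11) (nat_lit 4) (nat_lit 368) (nat_lit 281) (nat_lit 251))))))) (XT.nd (nat_lit 936) (nat_lit 228) (nat_lit 0) (XT.nd (nat_lit 468) (nat_lit 76) (nat_lit 0) (XT.nd (nat_lit 234) (nat_lit 152) (nat_lit 0) (XT.nd (nat_lit 78) (nat_lit 76) (nat_lit 0) (XT.lf (nat_lit 0) (nat_lit 17938148237) (nat_lit 152) (nat_lit 3588326843) (nat_lit 0) (nat_lit 11088870204) (nat_lit 11) (nat_lit 5) (nat_lit 13) (nat_lit 4) (nat_lit 11) (nat_lit 4) (nat_lit 369) (nat_lit 281) (nat_lit 250)) (XT.nd (nat_lit 78) (nat_lit 0) (nat_lit 0) (XT.lf (nat_lit 0) (nat_lit 6062433138) (nat_lit 76) (nat_lit 17434604206) (nat_lit 76) (nat_lit 10493140629) (nat_lit 10) (nat_lit 4) (nat_lit 11) (nat_lit 5) (nat_lit 11) (nat_lit 4) (nat_lit 370) (nat_lit 281) (nat_lit 249)) (XT.lf (nat_lit 0) (nat_lit 16177715148)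 (nat_lit 76) (nat_lit 13142983789) (nat_lit 76) (nat_lit 6113724456) (nat_lit 10) (nat_lit 4) (nat_lit 11) (nat_lit 5) (nat_lit 11) (nat_lit 4) (nat_lit 371) (nat_lit 281) (nat_lit 248)))) (XT.nd (nat_lit 78) (nat_lit 152) (nat_lit 0) (XT.lf (nat_lit 0) (nat_lit 26662956899) (nat_lit 76) (nat_lit 8702165739) (nat_lit 76) (nat_lit 1589291399) (nat_lit 10) (nat_lit 4) (nat_lit 11) (nat_lit 5) (nat_lit 11) (nat_lit 4) (nat_lit 372) (nat_lit 281) (nat_lit 247)) (XT.nd (nat_lit 78) (nat_lit 76) (nat_lit 0) (XT.lf (nat_lit 0) (nat_lit 2992001905) (nat_lit 152) (nat_lit 1058903772) (nat_lit 76) (nat_lit 34500450348) (nat_lit 9) (nat_lit 5) (nat_lit 11) (nat_lit 5) (nat_lit 10) (nat_lit 4) (nat_lit 373) (nat_lit 281) (nat_lit 246)) (XT.lf (nat_lit 0) (nat_lit 7835586132) (nat_lit 152) (nat_lit 31473585689) (nat_lit 0) (nat_lit 913349033) (nat_lit 8) (nat_lit 5) (nat_lit 10) (nat_lit 4) (nat_lit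 8) (nat_lit 4) (nat_lit 374) (nat_lit 281) (nat_lit 245))))) (XT.nd (nat_lit 234) (nat_lit 76) (nat_lit 0) (XT.nd (nat_lit 78) (nat_lit 0) (nat_lit 0) (XT.lf (nat_lit 0) (nat_lit 12941290390) (nat_lit 152) (nat_lit 23084703266) (nat_lit 0) (nat_lit 5950263019) (nat_lit 8) (nat_lit 5) (nat_lit 10) (nat_lit 4) (nat_lit 8) (nat_lit 4) (nat_lit 375) (nat_lit 281) (nat_lit 244)) (XT.nd (nat_lit 78) (nat_lit 0) (nat_lit 0) (XT.lf (nat_lit 0) (nat_lit 18240666050) (nat_lit 152) (nat_lit 14395979123) (nat_lit 0) (nat_lit 11184124133) (nat_lit 8) (nat_lit 5) (nat_lit 10) (nat_lit 4) (nat_lit 8) (nat_lit 4) (nat_lit 376) (nat_lit 281) (nat_lit 243)) (XT.lf (nat_lit 0) (nat_lit 23746330671) (nat_lit 152) (nat_lit 5386725820) (nat_lit 0) (nat_lit 16627393949) (nat_lit 8) (nat_lit 5) (nat_lit 10) (nat_lit 4) (nat_lit 8) (nat_lit 4) (nat_lit 377) (nat_lit 281) (nat_lit 242)))) (XT.nd (nat_lit 78) (nat_lit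 0) (nat_lit 0) (XT.lf (nat_lit 0) (nat_lit 4095591758) (nat_lit 76) (nat_lit 25439744887) (nat_lit 76) (nat_lit 18261384541) (nat_lit 7) (nat_lit 4) (nat_lit 8) (nat_lit 5) (nat_lit 8) (nat_lit 4) (nat_lit 378) (nat_lit 281) (nat_lit 241)) (XT.nd (nat_lit 78) (nat_lit 0) (nat_lit 0) (XT.lf (nat_lit 0) (nat_lit 14132306995) (nat_lit 76) (nat_lit 21517822001) (nat_lit 76) (nat_lit 14282867727) (nat_lit 7) (nat_lit 4) (nat_lit 8) (nat_lit 5) (nat_lit 8) (nat_lit 4) (nat_lit 379) (nat_lit 281) (nat_lit 240)) (XT.lf (nat_lit 0) (nat_lit 24569207347) (nat_lit 76) (nat_lit 17449176729) (nat_lit 76) (nat_lit 10160323477) (nat_lit 7) (nat_lit 4) (nat_lit 8) (nat_lit 5) (nat_lit 8) (nat_lit 4) (nat_lit 380) (nat_lit 281) (nat_lit 239)))))) (XT.nd (nat_lit 468) (nat_lit 76) (nat_lit 0) (XT.nd (nat_lit 234) (nat_lit 76) (nat_lit 0) (XT.nd (nat_lit 78) (nat_lit 76) (nat_lit 0) (XT.lf (nat_lit 0) (nat_lit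 35431142579) (nat_lit 76) (nat_lit 13224121821) (nat_lit 76) (nat_lit 5883936208) (nat_lit 7) (nat_lit 4) (nat_lit 8) (nat_lit 5) (nat_lit 8) (nat_lit 4) (nat_lit 381) (nat_lit 281) (nat_lit 238)) (XT.nd (nat_lit 78) (nat_lit 76) (nat_lit 0) (XT.lf (nat_lit 0) (nat_lit 46743974439) (nat_lit 76) (nat_lit 8832597622) (nat_lit 76) (nat_lit 1443524047) (nat_lit 7) (nat_lit 4) (nat_lit 8) (nat_lit 5) (nat_lit 8) (nat_lit 4) (nat_lit 382) (nat_lit 281) (nat_lit 237)) (XT.lf (nat_lit 0) (nat_lit 3069978075) (nat_lit 152) (nat_lit 1142178484) (nat_lit 76) (nat_lit 55412668603) (nat_lit 6) (nat_lit 5) (nat_lit 8) (nat_lit 5) (nat_lit 7) (nat_lit 4) (nat_lit 383) (nat_lit 281) (nat_lit 236)))) (XT.nd (nat_lit 78) (nat_lit 0) (nat_lit 0) (XT.lf (nat_lit 0) (nat_lit 7863364182) (nat_lit 152) (nat_lit 53750536074) (nat_lit 0) (nat_lit 739577170) (nat_lit 5) (nat_lit 5) (nat_lit 7) (nat_lit 4) (nat_lit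 5) (nat_lit 4) (nat_lit 384) (nat_lit 281) (nat_lit 235)) (XT.nd (nat_lit 78) (nat_lit 0) (nat_lit 0) (XT.lf (nat_lit 0) (nat_lit 12941550846) (nat_lit 152) (nat_lit 46497217033) (nat_lit 0) (nat_lit 5777543587) (nat_lit 5) (nat_lit 5) (nat_lit 7) (nat_lit 4) (nat_lit 5) (nat_lit 4) (nat_lit 385) (nat_lit 281) (nat_lit 234)) (XT.lf (nat_lit 0) (nat_lit 18232141183) (nat_lit 152) (nat_lit 38962397835) (nat_lit 0) (nat_lit 11029828926) (nat_lit 5) (nat_lit 5) (nat_lit 7) (nat_lit 4) (nat_lit 5) (nat_lit 4) (nat_lit 386) (nat_lit 281) (nat_lit 233))))) (XT.nd (nat_lit 234) (nat_lit 76) (nat_lit 0) (XT.nd (nat_lit 78) (nat_lit 0) (nat_lit 0) (XT.lf (nat_lit 0) (nat_lit 23747731836) (nat_lit 152) (nat_lit 31128138435) (nat_lit 0) (nat_lit 16508938629) (nat_lit 5) (nat_lit 5) (nat_lit 7) (nat_lit 4) (nat_lit 5) (nat_lit 4) (nat_lit 387) (nat_lit 281) (nat_lit 232)) (XT.nd (nat_lit 78) (nat_lit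 0) (nat_lit 0) (XT.lf (nat_lit 0) (nat_lit 29501455164) (nat_lit 152) (nat_lit 22975785834) (nat_lit 0) (nat_lit 22227918194) (nat_lit 5) (nat_lit 5) (nat_lit 7) (nat_lit 4) (nat_lit 5) (nat_lit 4) (nat_lit 388) (nat_lit 281) (nat_lit 231)) (XT.lf (nat_lit 0) (nat_lit 35507010508) (nat_lit 152) (nat_lit 14485929669) (nat_lit 0) (nat_lit 28200384241) (nat_lit 5) (nat_lit 5) (nat_lit 7) (nat_lit 4) (nat_lit 5) (nat_lit 4) (nat_lit 389) (nat_lit 281) (nat_lit 230)))) (XT.nd (nat_lit 78) (nat_lit 76) (nat_lit 0) (XT.lf (nat_lit 0) (nat_lit 41778696809) (nat_lit 152) (nat_lit 5638355997) (nat_lit 0) (nat_lit 34440556926) (nat_lit 5) (nat_lit 5) (nat_lit 7) (nat_lit 4) (nat_lit 5) (nat_lit 4) (nat_lit 390) (nat_lit 281) (nat_lit 229)) (XT.nd (nat_lit 78) (nat_lit 0) (nat_lit 0) (XT.lf (nat_lit 0) (nat_lit 3706636345) (nat_lit 76) (nat_lit 44682681289) (nat_lit 76) (nat_lit 37314528438) (nat_lit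 4) (nat_lit 4) (nat_lit 5) (nat_lit 5) (nat_lit 5) (nat_lit 4) (nat_lit 391) (nat_lit 281) (nat_lit 228)) (XT.lf (nat_lit 0) (nat_lit 13652059504) (nat_lit 76) (nat_lit 41741949232) (nat_lit 76) (nat_lit 34345212602) (nat_lit 4) (nat_lit 4) (nat_lit 5) (nat_lit 5) (nat_lit 5) (nat_lit 4) (nat_lit 392) (nat_lit 281) (nat_lit 227))))))))
noncomputable def xc54 : XT := (XT.nd (nat_lit 1794) (nat_lit 76) (nat_lit 0) (XT.nd (nat_lit 858) (nat_lit 0) (nat_lit 0) (XT.nd (nat_lit 390) (nat_lit 152) (nat_lit 0) (XT.nd (nat_lit 156) (nat_lit 0) (nat_lit 0) (XT.nd (nat_lit 78) (nat_lit 0) (nat_lit 0) (XT.lf (nat_lit 0) (nat_lit 24035163544) (nat_lit 76) (nat_lit 38683343180) (nat_lit 76) (nat_lit 31259383903) (nat_lit 4) (nat_lit 4) (nat_lit 5) (nat_lit 5) (nat_lit 5) (nat_lit 4) (nat_lit 393) (nat_lit 281) (nat_lit 226)) (XT.lf (nat_lit 0) (nat_lit 34880670142) (nat_lit 76) (nat_lit 35499580736)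 (nat_lit 76) (nat_lit 28049695129) (nat_lit 4) (nat_lit 4) (nat_lit 5) (nat_lit 5) (nat_lit 5) (nat_lit 4) (nat_lit 394) (nat_lit 281) (nat_lit 225))) (XT.nd (nat_lit 78) (nat_lit 0) (nat_lit 0) (XT.lf (nat_lit 0) (nat_lit 46214401932) (nat_lit 76) (nat_lit 32183081514) (nat_lit 76) (nat_lit 24708504164) (nat_lit 4) (nat_lit 4) (nat_lit 5) (nat_lit 5) (nat_lit 5) (nat_lit 4) (nat_lit 395) (nat_lit 281) (nat_lit 224)) (XT.nd (nat_lit 78) (nat_lit 0) (nat_lit 0) (XT.lf (nat_lit 0) (nat_lit 58063343990) (nat_lit 76) (nat_lit 28725949088) (nat_lit 76) (nat_lit 21227855792) (nat_lit 4) (nat_lit 4) (nat_lit 5) (nat_lit 5) (nat_lit 5) (nat_lit 4) (nat_lit 396) (nat_lit 281) (nat_lit 223)) (XT.lf (nat_lit 0) (nat_lit 70455708084) (nat_lit 76) (nat_lit 25119952190) (nat_lit 76) (nat_lit 17599462754) (nat_lit 4) (nat_lit 4) (nat_lit 5) (nat_lit 5) (nat_lit 5) (nat_lit 4) (nat_lit 397) (nat_lit 281)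 (nat_lit 222))))) (XT.nd (nat_lit 234) (nat_lit 152) (nat_lit 0) (XT.nd (nat_lit 78) (nat_lit 0) (nat_lit 0) (XT.lf (nat_lit 0) (nat_lit 83420999841) (nat_lit 76) (nat_lit 21356505112) (nat_lit 76) (nat_lit 13814686020) (nat_lit 4) (nat_lit 4) (nat_lit 5) (nat_lit 5) (nat_lit 5) (nat_lit 4) (nat_lit 398) (nat_lit 281) (nat_lit 221)) (XT.nd (nat_lit 78) (nat_lit 0) (nat_lit 0) (XT.lf (nat_lit 0) (nat_lit 96990089004) (nat_lit 76) (nat_lit 17426647266) (nat_lit 76) (nat_lit 9864514217) (nat_lit 4) (nat_lit 4) (nat_lit 5) (nat_lit 5) (nat_lit 5) (nat_lit 4) (nat_lit 399) (nat_lit 281) (nat_lit 220)) (XT.lf (nat_lit 0) (nat_lit 111195282929) (nat_lit 76) (nat_lit 13321021849) (nat_lit 76) (nat_lit 5739542173) (nat_lit 4) (nat_lit 4) (nat_lit 5) (nat_lit 5) (nat_lit 5) (nat_lit 4) (nat_lit 400) (nat_lit 281) (nat_lit 219)))) (XT.nd (nat_lit 78) (nat_lit 152) (nat_lit 0) (XT.lf (nat_lit 0) (nat_lit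 126070403505) (nat_lit 76) (nat_lit 9029853561) (nat_lit 76) (nat_lit 1429948526) (nat_lit 4) (nat_lit 4) (nat_lit 5) (nat_lit 5) (nat_lit 5) (nat_lit 4) (nat_lit 401) (nat_lit 281) (nat_lit 218)) (XT.nd (nat_lit 78) (nat_lit 76) (nat_lit 0) (XT.lf (nat_lit 0) (nat_lit 2976123574) (nat_lit 152) (nat_lit 1516399669) (nat_lit 76) (nat_lit 138624342019) (nat_lit 3) (nat_lit 5) (nat_lit 5) (nat_lit 5) (nat_lit 4) (nat_lit 4) (nat_lit 402) (nat_lit 281) (nat_lit 217)) (XT.lf (nat_lit 0) (nat_lit 7667886941) (nat_lit 152) (nat_lit 141960875700) (nat_lit 0) (nat_lit 397253284) (nat_lit 2) (nat_lit 5) (nat_lit 4) (nat_lit 4) (nat_lit 2) (nat_lit 4) (nat_lit 403) (nat_lit 281) (nat_lit 216)))))) (XT.nd (nat_lit 468) (nat_lit 0) (nat_lit 0) (XT.nd (nat_lit 234) (nat_lit 0) (nat_lit 0) (XT.nd (nat_lit 78) (nat_lit 0) (nat_lit 0) (XT.lf (nat_lit 0) (nat_lit 12675052096) (nat_lit 152) (nat_lit 139212273654)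 (nat_lit 0) (nat_lit 5389259851) (nat_lit 2) (nat_lit 5) (nat_lit 4) (nat_lit 4) (nat_lit 2) (nat_lit 4) (nat_lit 404) (nat_lit 281) (nat_lit 215)) (XT.nd (nat_lit 78) (nat_lit 0) (nat_lit 0) (XT.lf (nat_lit 0) (nat_lit 17914540970) (nat_lit 152) (nat_lit 136361734597) (nat_lit 0) (nat_lit 10614311974) (nat_lit 2) (nat_lit 5) (nat_lit 4) (nat_lit 4) (nat_lit 2) (nat_lit 4) (nat_lit 405) (nat_lit 281) (nat_lit 214)) (XT.lf (nat_lit 0) (nat_lit 23398828538) (nat_lit 152) (nat_lit 133402471530) (nat_lit 0) (nat_lit 16084850256) (nat_lit 2) (nat_lit 5) (nat_lit 4) (nat_lit 4) (nat_lit 2) (nat_lit 4) (nat_lit 406) (nat_lit 281) (nat_lit 213)))) (XT.nd (nat_lit 78) (nat_lit 0) (nat_lit 0) (XT.lf (nat_lit 0) (nat_lit 29140972626) (nat_lit 152) (nat_lit 130327438591) (nat_lit 0) (nat_lit 21813899785) (nat_lit 2) (nat_lit 5) (nat_lit 4) (nat_lit 4) (nat_lit 2) (nat_lit 4) (nat_lit 407) (nat_lit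 281) (nat_lit 212)) (XT.nd (nat_lit 78) (nat_lit 0) (nat_lit 0) (XT.lf (nat_lit 0) (nat_lit 35154645007) (nat_lit 152) (nat_lit 127129314271) (nat_lit 0) (nat_lit 27815101158) (nat_lit 2) (nat_lit 5) (nat_lit 4) (nat_lit 4) (nat_lit 2) (nat_lit 4) (nat_lit 408) (nat_lit 281) (nat_lit 211)) (XT.lf (nat_lit 0) (nat_lit 41454163948) (nat_lit 152) (nat_lit 123800483989) (nat_lit 0) (nat_lit 34102742948) (nat_lit 2) (nat_lit 5) (nat_lit 4) (nat_lit 4) (nat_lit 2) (nat_lit 4) (nat_lit 409) (nat_lit 281) (nat_lit 210))))) (XT.nd (nat_lit 234) (nat_lit 0) (nat_lit 0) (XT.nd (nat_lit 78) (nat_lit 0) (nat_lit 0) (XT.lf (nat_lit 0) (nat_lit 48054528304) (nat_lit 152) (nat_lit 120333021958) (nat_lit 0) (nat_lit 40691795732) (nat_lit 2) (nat_lit 5) (nat_lit 4) (nat_lit 4) (nat_lit 2) (nat_lit 4) (nat_lit 410) (nat_lit 281) (nat_lit 209)) (XT.nd (nat_lit 78) (nat_lit 0) (nat_lit 0) (XT.lf (nat_lit 0)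 (nat_lit 54971453227) (nat_lit 152) (nat_lit 116718672317) (nat_lit 0) (nat_lit 47597947730) (nat_lit 2) (nat_lit 5) (nat_lit 4) (nat_lit 4) (nat_lit 2) (nat_lit 4) (nat_lit 411) (nat_lit 281) (nat_lit 208)) (XT.lf (nat_lit 0) (nat_lit 62221407587) (nat_lit 152) (nat_lit 112948829471) (nat_lit 0) (nat_lit 54837642160) (nat_lit 2) (nat_lit 5) (nat_lit 4) (nat_lit 4) (nat_lit 2) (nat_lit 4) (nat_lit 412) (nat_lit 281) (nat_lit 207)))) (XT.nd (nat_lit 78) (nat_lit 0) (nat_lit 0) (XT.lf (nat_lit 0) (nat_lit 69821653180) (nat_lit 152) (nat_lit 109014517604) (nat_lit 0) (nat_lit 62428116392) (nat_lit 2) (nat_lit 5) (nat_lit 4) (nat_lit 4) (nat_lit 2) (nat_lit 4) (nat_lit 413) (nat_lit 281) (nat_lit 206)) (XT.nd (nat_lit 78) (nat_lit 0) (nat_lit 0) (XT.lf (nat_lit 0) (nat_lit 77790285829) (nat_lit 152) (nat_lit 104906369307) (nat_lit 0) (nat_lit 70387442983) (nat_lit 2) (nat_lit 5) (nat_lit 4)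 (nat_lit 4) (nat_lit 2) (nat_lit 4) (nat_lit 414) (nat_lit 281) (nat_lit 205)) (XT.lf (nat_lit 0) (nat_lit 86146278468) (nat_lit 152) (nat_lit 100614603273) (nat_lit 0) (nat_lit 78734572709) (nat_lit 2) (nat_lit 5) (nat_lit 4) (nat_lit 4) (nat_lit 2) (nat_lit 4) (nat_lit 415) (nat_lit 281) (nat_lit 204))))))) (XT.nd (nat_lit 936) (nat_lit 76) (nat_lit 0) (XT.nd (nat_lit 468) (nat_lit 0) (nat_lit 0) (XT.nd (nat_lit 234) (nat_lit 0) (nat_lit 0) (XT.nd (nat_lit 78) (nat_lit 0) (nat_lit 0) (XT.lf (nat_lit 0) (nat_lit 94909526318) (nat_lit 152) (nat_lit 96129001014) (nat_lit 0) (nat_lit 87489379690) (nat_lit 2) (nat_lit 5) (nat_lit 4) (nat_lit 4) (nat_lit 2) (nat_lit 4) (nat_lit 416) (nat_lit 281) (nat_lit 203)) (XT.nd (nat_lit 78) (nat_lit 0) (nat_lit 0) (XT.lf (nat_lit 0) (nat_lit 104100894255) (nat_lit 152) (nat_lit 91438882523) (nat_lit 0) (nat_lit 96672708704) (nat_lit 2) (nat_lit 5) (nat_lit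 4) (nat_lit 4) (nat_lit 2) (nat_lit 4) (nat_lit 417) (nat_lit 281) (nat_lit 202)) (XT.lf (nat_lit 0) (nat_lit 113742266489) (nat_lit 152) (nat_lit 86533080851) (nat_lit 0) (nat_lit 106306424821) (nat_lit 2) (nat_lit 5) (nat_lit 4) (nat_lit 4) (nat_lit 2) (nat_lit 4) (nat_lit 418) (nat_lit 281) (nat_lit 201)))) (XT.nd (nat_lit 78) (nat_lit 0) (nat_lit 0) (XT.lf (nat_lit 0) (nat_lit 123856598667) (nat_lit 152) (nat_lit 81399915518) (nat_lit 0) (nat_lit 116413465458) (nat_lit 2) (nat_lit 5) (nat_lit 4) (nat_lit 4) (nat_lit 2) (nat_lit 4) (nat_lit 419) (nat_lit 281) (nat_lit 200)) (XT.nd (nat_lit 78) (nat_lit 0) (nat_lit 0) (XT.lf (nat_lit 0) (nat_lit 134467972533) (nat_lit 152) (nat_lit 76027164703) (nat_lit 0) (nat_lit 127017895000) (nat_lit 2) (nat_lit 5) (nat_lit 4) (nat_lit 4) (nat_lit 2) (nat_lit 4) (nat_lit 420) (nat_lit 281) (nat_lit 199)) (XT.lf (nat_lit 0) (nat_lit 145601653262) (nat_lit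 152) (nat_lit 70402036141) (nat_lit 0) (nat_lit 138144962088) (nat_lit 2) (nat_lit 5) (nat_lit 4) (nat_lit 4) (nat_lit 2) (nat_lit 4) (nat_lit 421) (nat_lit 281) (nat_lit 198))))) (XT.nd (nat_lit 234) (nat_lit 0) (nat_lit 0) (XT.nd (nat_lit 78) (nat_lit 0) (nat_lit 0) (XT.lf (nat_lit 0) (nat_lit 157284149619) (nat_lit 152) (nat_lit 64511136668) (nat_lit 0) (nat_lit 149821159738) (nat_lit 2) (nat_lit 5) (nat_lit 4) (nat_lit 4) (nat_lit 2) (nat_lit 4) (nat_lit 422) (nat_lit 281) (nat_lit 197)) (XT.nd (nat_lit 78) (nat_lit 0) (nat_lit 0) (XT.lf (nat_lit 0) (nat_lit 169543277070) (nat_lit 152) (nat_lit 58340440335) (nat_lit 0) (nat_lit 162074288421) (nat_lit 2) (nat_lit 5) (nat_lit 4) (nat_lit 4) (nat_lit 2) (nat_lit 4) (nat_lit 423) (nat_lit 281) (nat_lit 196)) (XT.lf (nat_lit 0) (nat_lit 182408224015) (nat_lit 152) (nat_lit 51875255006) (nat_lit 0) (nat_lit 174933522254) (nat_lit 2) (nat_lit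 5) (nat_lit 4) (nat_lit 4) (nat_lit 2) (nat_lit 4) (nat_lit 424) (nat_lit 281) (nat_lit 195)))) (XT.nd (nat_lit 78) (nat_lit 0) (nat_lit 0) (XT.lf (nat_lit 0) (nat_lit 195909621280) (nat_lit 152) (nat_lit 45100187384) (nat_lit 0) (nat_lit 188429478459) (nat_lit 2) (nat_lit 5) (nat_lit 4) (nat_lit 4) (nat_lit 2) (nat_lit 4) (nat_lit 425) (nat_lit 281) (nat_lit 194)) (XT.nd (nat_lit 78) (nat_lit 0) (nat_lit 0) (XT.lf (nat_lit 0) (nat_lit 210079615048) (nat_lit 152) (nat_lit 37999106355) (nat_lit 0) (nat_lit 202594290266) (nat_lit 2) (nat_lit 5) (nat_lit 4) (nat_lit 4) (nat_lit 2) (nat_lit 4) (nat_lit 426) (nat_lit 281) (nat_lit 193)) (XT.lf (nat_lit 0) (nat_lit 224951943400) (nat_lit 152) (nat_lit 30555104583) (nat_lit 0) (nat_lit 217461683416) (nat_lit 2) (nat_lit 5) (nat_lit 4) (nat_lit 4) (nat_lit 2) (nat_lit 4) (nat_lit 427) (nat_lit 281) (nat_lit 192)))))) (XT.nd (nat_lit 468) (nat_lit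 0) (nat_lit 0) (XT.nd (nat_lit 234) (nat_lit 76) (nat_lit 0) (XT.nd (nat_lit 78) (nat_lit 0) (nat_lit 0) (XT.lf (nat_lit 0) (nat_lit 240562016642) (nat_lit 152) (nat_lit 22750458254) (nat_lit 0) (nat_lit 233067056466) (nat_lit 2) (nat_lit 5) (nat_lit 4) (nat_lit 4) (nat_lit 2) (nat_lit 4) (nat_lit 428) (nat_lit 281) (nat_lit 191)) (XT.nd (nat_lit 78) (nat_lit 0) (nat_lit 0) (XT.lf (nat_lit 0) (nat_lit 256947001614) (nat_lit 152) (nat_lit 14566584877) (nat_lit 0) (nat_lit 249447565065) (nat_lit 2) (nat_lit 5) (nat_lit 4) (nat_lit 4) (nat_lit 2) (nat_lit 4) (nat_lit 429) (nat_lit 281) (nat_lit 190)) (XT.lf (nat_lit 0) (nat_lit 274145910185) (nat_lit 152) (nat_lit 5983999040) (nat_lit 0) (nat_lit 266642210424) (nat_lit 2) (nat_lit 5) (nat_lit 4) (nat_lit 4) (nat_lit 2) (nat_lit 4) (nat_lit 430) (nat_lit 281) (nat_lit 189)))) (XT.nd (nat_lit 78) (nat_lit 0) (nat_lit 0) (XT.lf (nat_lit 0) (nat_lit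 3117513899) (nat_lit 76) (nat_lit 289130851368) (nat_lit 76) (nat_lit 281623091404) (nat_lit 1) (nat_lit 4) (nat_lit 2) (nat_lit 5) (nat_lit 2) (nat_lit 4) (nat_lit 431) (nat_lit 281) (nat_lit 188)) (XT.nd (nat_lit 78) (nat_lit 0) (nat_lit 0) (XT.lf (nat_lit 0) (nat_lit 12872032319) (nat_lit 76) (nat_lit 298480268848) (nat_lit 76) (nat_lit 290968642025) (nat_lit 1) (nat_lit 4) (nat_lit 2) (nat_lit 5) (nat_lit 2) (nat_lit 4) (nat_lit 432) (nat_lit 281) (nat_lit 187)) (XT.lf (nat_lit 0) (nat_lit 23104923231) (nat_lit 76) (nat_lit 308301764103) (nat_lit 76) (nat_lit 300786454556) (nat_lit 1) (nat_lit 4) (nat_lit 2) (nat_lit 5) (nat_lit 2) (nat_lit 4) (nat_lit 433) (nat_lit 281) (nat_lit 186))))) (XT.nd (nat_lit 234) (nat_lit 0) (nat_lit 0) (XT.nd (nat_lit 78) (nat_lit 0) (nat_lit 0) (XT.lf (nat_lit 0) (nat_lit 33840550659) (nat_lit 76) (nat_lit 318618721645) (nat_lit 76) (nat_lit 311099904743)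 (nat_lit 1) (nat_lit 4) (nat_lit 2) (nat_lit 5) (nat_lit 2) (nat_lit 4) (nat_lit 434) (nat_lit 281) (nat_lit 185)) (XT.nd (nat_lit 78) (nat_lit 0) (nat_lit 0) (XT.lf (nat_lit 0) (nat_lit 45104475622) (nat_lit 76) (nat_lit 329455705658) (nat_lit 76) (nat_lit 321933548418) (nat_lit 1) (nat_lit 4) (nat_lit 2) (nat_lit 5) (nat_lit 2) (nat_lit 4) (nat_lit 435) (nat_lit 281) (nat_lit 184)) (XT.lf (nat_lit 0) (nat_lit 56923516989) (nat_lit 76) (nat_lit 340838518487) (nat_lit 76) (nat_lit 333313179972) (nat_lit 1) (nat_lit 4) (nat_lit 2) (nat_lit 5) (nat_lit 2) (nat_lit 4) (nat_lit 436) (nat_lit 281) (nat_lit 183)))) (XT.nd (nat_lit 39000) (nat_lit 0) (nat_lit 3116) (XT.lf (nat_lit 0) (nat_lit 69325815335) (nat_lit 76) (nat_lit 352794262066) (nat_lit 76) (nat_lit 345265893765) (nat_lit 1) (nat_lit 4) (nat_lit 2) (nat_lit 5) (nat_lit 2) (nat_lit 4) (nat_lit 437) (nat_lit 281) (nat_lit 182)) (XT.nd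 (nat_lit 78) (nat_lit 0) (nat_lit 0) (XT.lf (nat_lit 0) (nat_lit 750067598) (nat_lit 152) (nat_lit 2300090648) (nat_lit 152) (nat_lit 2300090648) (nat_lit 42) (nat_lit 4) (nat_lit 44) (nat_lit 5) (nat_lit 44) (nat_lit 4) (nat_lit 336) (nat_lit 282) (nat_lit 282)) (XT.lf (nat_lit 0) (nat_lit 9987799541) (nat_lit 152) (nat_lit 834792667) (nat_lit 152) (nat_lit 153358216) (nat_lit 42) (nat_lit 4) (nat_lit 44) (nat_lit 5) (nat_lit 44) (nat_lit 4) (nat_lit 337) (nat_lit 282) (nat_lit 281))))))))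
noncomputable def xc55 : XT := (XT.nd (nat_lit 1872) (nat_lit 760) (nat_lit 0) (XT.nd (nat_lit 936) (nat_lit 608) (nat_lit 0) (XT.nd (nat_lit 468) (nat_lit 608) (nat_lit 0) (XT.nd (nat_lit 234) (nat_lit 304) (nat_lit 0) (XT.nd (nat_lit 78) (nat_lit 304) (nat_lit 0) (XT.lf (nat_lit 0) (nat_lit 4374665386) (nat_lit 228) (nat_lit 3779304345) (nat_lit 0) (nat_lit 3107599059) (nat_lit 39) (nat_lit 5) (nat_lit 42) (nat_lit 4) (nat_lit 39) (nat_lit 4) (nat_lit 338) (nat_lit 282) (nat_lit 280)) (XT.nd (nat_lit 78) (nat_lit 152) (nat_lit 0) (XT.lf (nat_lit 0) (nat_lit 4711655411) (nat_lit 152) (nat_lit 4354195042) (nat_lit 152) (nat_lit 2498480015) (nat_lit 37) (nat_lit 4) (nat_lit 39) (nat_lit 5) (nat_lit 39) (nat_lit 4) (nat_lit 339) (nat_lit 282) (nat_lit 279)) (XT.lf (nat_lit 0) (nat_lit 1623761933) (nat_lit 76) (nat_lit 347016003) (nat_lit 152) (nat_lit 9913435337) (nat_lit 35) (nat_lit 5)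 (nat_lit 36) (nat_lit 5) (nat_lit 37) (nat_lit 4) (nat_lit 340) (nat_lit 282) (nat_lit 278)))) (XT.nd (nat_lit 78) (nat_lit 304) (nat_lit 0) (XT.lf (nat_lit 0) (nat_lit 6598035686) (nat_lit 152) (nat_lit 1830884437) (nat_lit 0) (nat_lit 3788269438) (nat_lit 35) (nat_lit 5) (nat_lit 37) (nat_lit 4) (nat_lit 35) (nat_lit 4) (nat_lit 341) (nat_lit 282) (nat_lit 277)) (XT.nd (nat_lit 78) (nat_lit 152) (nat_lit 0) (XT.lf (nat_lit 0) (nat_lit 6975451660) (nat_lit 152) (nat_lit 4443678620) (nat_lit 152) (nat_lit 1149629630) (nat_lit 33) (nat_lit 4) (nat_lit 35) (nat_lit 5) (nat_lit 35) (nat_lit 4) (nat_lit 342) (nat_lit 282) (nat_lit 276)) (XT.lf (nat_lit 0) (nat_lit 3130560594) (nat_lit 76) (nat_lit 228381475) (nat_lit 152) (nat_lit 9579814082) (nat_lit 31) (nat_lit 5) (nat_lit 32) (nat_lit 5) (nat_lit 33) (nat_lit 4) (nat_lit 343) (nat_lit 282) (nat_lit 275))))) (XT.nd (nat_lit 234) (nat_lit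 304) (nat_lit 0) (XT.nd (nat_lit 78) (nat_lit 304) (nat_lit 0) (XT.lf (nat_lit 0) (nat_lit 8066153315) (nat_lit 152) (nat_lit 1188260386) (nat_lit 0) (nat_lit 4071363437) (nat_lit 31) (nat_lit 5) (nat_lit 33) (nat_lit 4) (nat_lit 31) (nat_lit 4) (nat_lit 344) (nat_lit 282) (nat_lit 274)) (XT.nd (nat_lit 78) (nat_lit 152) (nat_lit 0) (XT.lf (nat_lit 0) (nat_lit 7858429703) (nat_lit 152) (nat_lit 5133903146) (nat_lit 152) (nat_lit 740692657) (nat_lit 29) (nat_lit 4) (nat_lit 31) (nat_lit 5) (nat_lit 31) (nat_lit 4) (nat_lit 345) (nat_lit 282) (nat_lit 273)) (XT.lf (nat_lit 0) (nat_lit 3020189797) (nat_lit 76) (nat_lit 781199708) (nat_lit 152) (nat_lit 10359904239) (nat_lit 27) (nat_lit 5) (nat_lit 28) (nat_lit 5) (nat_lit 29) (nat_lit 4) (nat_lit 346) (nat_lit 282) (nat_lit 272)))) (XT.nd (nat_lit 78) (nat_lit 304) (nat_lit 0) (XT.lf (nat_lit 0) (nat_lit 8564904450) (nat_lit 152) (nat_lit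 2369207256) (nat_lit 0) (nat_lit 3675344519) (nat_lit 27) (nat_lit 5) (nat_lit 29) (nat_lit 4) (nat_lit 27) (nat_lit 4) (nat_lit 347) (nat_lit 282) (nat_lit 271)) (XT.nd (nat_lit 78) (nat_lit 152) (nat_lit 0) (XT.lf (nat_lit 0) (nat_lit 6804412705) (nat_lit 152) (nat_lit 6746883641) (nat_lit 152) (nat_lit 1529542087) (nat_lit 25) (nat_lit 4) (nat_lit 27) (nat_lit 5) (nat_lit 27) (nat_lit 4) (nat_lit 348) (nat_lit 282) (nat_lit 270)) (XT.lf (nat_lit 0) (nat_lit 673530645) (nat_lit 76) (nat_lit 2352345048) (nat_lit 152) (nat_lit 12551577745) (nat_lit 23) (nat_lit 5) (nat_lit 24) (nat_lit 5) (nat_lit 25) (nat_lit 4) (nat_lit 349) (nat_lit 282) (nat_lit 269)))))) (XT.nd (nat_lit 468) (nat_lit 304) (nat_lit 0) (XT.nd (nat_lit 234) (nat_lit 152) (nat_lit 0) (XT.nd (nat_lit 78) (nat_lit 152) (nat_lit 0) (XT.lf (nat_lit 0) (nat_lit 7802554568) (nat_lit 152) (nat_lit 6039686404) (nat_lit 0) (nat_lit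 2253200166) (nat_lit 23) (nat_lit 5) (nat_lit 25) (nat_lit 4) (nat_lit 23) (nat_lit 4) (nat_lit 350) (nat_lit 282) (nat_lit 268)) (XT.nd (nat_lit 78) (nat_lit 76) (nat_lit 0) (XT.lf (nat_lit 0) (nat_lit 3096465034) (nat_lit 76) (nat_lit 9681952610) (nat_lit 76) (nat_lit 3862931456) (nat_lit 22) (nat_lit 4) (nat_lit 23) (nat_lit 5) (nat_lit 23) (nat_lit 4) (nat_lit 351) (nat_lit 282) (nat_lit 267)) (XT.lf (nat_lit 0) (nat_lit 741083906) (nat_lit 152) (nat_lit 4556624623) (nat_lit 76) (nat_lit 11917373195) (nat_lit 21) (nat_lit 5) (nat_lit 23) (nat_lit 5) (nat_lit 22) (nat_lit 4) (nat_lit 352) (nat_lit 282) (nat_lit 266)))) (XT.nd (nat_lit 78) (nat_lit 76) (nat_lit 0) (XT.lf (nat_lit 0) (nat_lit 4748456648) (nat_lit 76) (nat_lit 651006265) (nat_lit 152) (nat_lit 12417205758) (nat_lit 20) (nat_lit 5) (nat_lit 21) (nat_lit 5) (nat_lit 22) (nat_lit 4) (nat_lit 353) (nat_lit 282) (nat_lit 265))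 (XT.nd (nat_lit 78) (nat_lit 76) (nat_lit 0) (XT.lf (nat_lit 0) (nat_lit 10315816196) (nat_lit 152) (nat_lit 4056805774) (nat_lit 0) (nat_lit 4074491811) (nat_lit 20) (nat_lit 5) (nat_lit 22) (nat_lit 4) (nat_lit 20) (nat_lit 4) (nat_lit 354) (nat_lit 282) (nat_lit 264)) (XT.lf (nat_lit 0) (nat_lit 5354405867) (nat_lit 76) (nat_lit 10104146227) (nat_lit 76) (nat_lit 3651530885) (nat_lit 19) (nat_lit 4) (nat_lit 20) (nat_lit 5) (nat_lit 20) (nat_lit 4) (nat_lit 355) (nat_lit 282) (nat_lit 263))))) (XT.nd (nat_lit 234) (nat_lit 152) (nat_lit 0) (XT.nd (nat_lit 78) (nat_lit 76) (nat_lit 0) (XT.lf (nat_lit 0) (nat_lit 974982035) (nat_lit 152) (nat_lit 4655131650) (nat_lit 76) (nat_lit 14177471045) (nat_lit 18) (nat_lit 5) (nat_lit 20) (nat_lit 5) (nat_lit 19) (nat_lit 4) (nat_lit 356) (nat_lit 282) (nat_lit 262)) (XT.nd (nat_lit 78) (nat_lit 0) (nat_lit 0) (XT.lf (nat_lit 0) (nat_lit 4792215041)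 (nat_lit 76) (nat_lit 884715197) (nat_lit 152) (nat_lit 14861723006) (nat_lit 17) (nat_lit 5) (nat_lit 18) (nat_lit 5) (nat_lit 19) (nat_lit 4) (nat_lit 357) (nat_lit 282) (nat_lit 261)) (XT.lf (nat_lit 0) (nat_lit 10650689601) (nat_lit 152) (nat_lit 6696430777) (nat_lit 0) (nat_lit 3957343866) (nat_lit 17) (nat_lit 5) (nat_lit 19) (nat_lit 4) (nat_lit 17) (nat_lit 4) (nat_lit 358) (nat_lit 282) (nat_lit 260)))) (XT.nd (nat_lit 78) (nat_lit 76) (nat_lit 0) (XT.lf (nat_lit 0) (nat_lit 2684770317) (nat_lit 76) (nat_lit 13142504928) (nat_lit 76) (nat_lit 6283607200) (nat_lit 16) (nat_lit 4) (nat_lit 17) (nat_lit 5) (nat_lit 17) (nat_lit 4) (nat_lit 359) (nat_lit 282) (nat_lit 259)) (XT.nd (nat_lit 78) (nat_lit 76) (nat_lit 0) (XT.lf (nat_lit 0) (nat_lit 12577892418) (nat_lit 76) (nat_lit 8697833056) (nat_lit 76) (nat_lit 1681266762) (nat_lit 16) (nat_lit 4) (nat_lit 17) (nat_lit 5) (nat_lit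 17) (nat_lit 4) (nat_lit 360) (nat_lit 282) (nat_lit 258)) (XT.lf (nat_lit 0) (nat_lit 2953152759) (nat_lit 152) (nat_lit 1112763674) (nat_lit 76) (nat_lit 19781910506) (nat_lit 15) (nat_lit 5) (nat_lit 17) (nat_lit 5) (nat_lit 16) (nat_lit 4) (nat_lit 361) (nat_lit 282) (nat_lit 257))))))) (XT.nd (nat_lit 936) (nat_lit 304) (nat_lit 0) (XT.nd (nat_lit 468) (nat_lit 152) (nat_lit 0) (XT.nd (nat_lit 234) (nat_lit 152) (nat_lit 0) (XT.nd (nat_lit 78) (nat_lit 76) (nat_lit 0) (XT.lf (nat_lit 0) (nat_lit 7819793868) (nat_lit 152) (nat_lit 16101060991) (nat_lit 0) (nat_lit 858139709) (nat_lit 14) (nat_lit 5) (nat_lit 16) (nat_lit 4) (nat_lit 14) (nat_lit 4) (nat_lit 362) (nat_lit 282) (nat_lit 256)) (XT.nd (nat_lit 78) (nat_lit 76) (nat_lit 0) (XT.lf (nat_lit 0) (nat_lit 12923469824) (nat_lit 152) (nat_lit 7001482736) (nat_lit 0) (nat_lit 5832101347) (nat_lit 14) (nat_lit 5) (nat_lit 16) (nat_lit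 4) (nat_lit 14) (nat_lit 4) (nat_lit 363) (nat_lit 282) (nat_lit 255)) (XT.lf (nat_lit 0) (nat_lit 2464782440) (nat_lit 76) (nat_lit 15768309580) (nat_lit 76) (nat_lit 8553403656) (nat_lit 13) (nat_lit 4) (nat_lit 14) (nat_lit 5) (nat_lit 14) (nat_lit 4) (nat_lit 364) (nat_lit 282) (nat_lit 254)))) (XT.nd (nat_lit 78) (nat_lit 152) (nat_lit 0) (XT.lf (nat_lit 0) (nat_lit 12482952581) (nat_lit 76) (nat_lit 11357705597) (nat_lit 76) (nat_lit 4025144962) (nat_lit 13) (nat_lit 4) (nat_lit 14) (nat_lit 5) (nat_lit 14) (nat_lit 4) (nat_lit 365) (nat_lit 282) (nat_lit 253)) (XT.nd (nat_lit 78) (nat_lit 76) (nat_lit 0) (XT.lf (nat_lit 0) (nat_lit 622807247) (nat_lit 152) (nat_lit 6167857881) (nat_lit 76) (nat_lit 22212025045) (nat_lit 12) (nat_lit 5) (nat_lit 14) (nat_lit 5) (nat_lit 13) (nat_lit 4) (nat_lit 366) (nat_lit 282) (nat_lit 252)) (XT.lf (nat_lit 0) (nat_lit 3398851319) (nat_lit 76)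 (nat_lit 1942700070) (nat_lit 152) (nat_lit 24852902059) (nat_lit 11) (nat_lit 5) (nat_lit 12) (nat_lit 5) (nat_lit 13) (nat_lit 4) (nat_lit 367) (nat_lit 282) (nat_lit 251))))) (XT.nd (nat_lit 234) (nat_lit 76) (nat_lit 0) (XT.nd (nat_lit 78) (nat_lit 76) (nat_lit 0) (XT.lf (nat_lit 0) (nat_lit 10372478048) (nat_lit 152) (nat_lit 17985587061) (nat_lit 0) (nat_lit 3083941293) (nat_lit 11) (nat_lit 5) (nat_lit 13) (nat_lit 4) (nat_lit 11) (nat_lit 4) (nat_lit 368) (nat_lit 282) (nat_lit 250)) (XT.nd (nat_lit 78) (nat_lit 76) (nat_lit 0) (XT.lf (nat_lit 0) (nat_lit 15611497075) (nat_lit 152) (nat_lit 8911850973) (nat_lit 0) (nat_lit 8230774776) (nat_lit 11) (nat_lit 5) (nat_lit 13) (nat_lit 4) (nat_lit 11) (nat_lit 4) (nat_lit 369) (nat_lit 282) (nat_lit 249)) (XT.lf (nat_lit 0) (nat_lit 493330928) (nat_lit 76) (nat_lit 20555122683) (nat_lit 76) (nat_lit 13086604627) (nat_lit 10) (nat_lit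 4) (nat_lit 11) (nat_lit 5) (nat_lit 11) (nat_lit 4) (nat_lit 370) (nat_lit 282) (nat_lit 248)))) (XT.nd (nat_lit 78) (nat_lit 76) (nat_lit 0) (XT.lf (nat_lit 0) (nat_lit 10542366909) (nat_lit 76) (nat_lit 16295396602) (nat_lit 76) (nat_lit 8743263539) (nat_lit 10) (nat_lit 4) (nat_lit 11) (nat_lit 5) (nat_lit 11) (nat_lit 4) (nat_lit 371) (nat_lit 282) (nat_lit 247)) (XT.nd (nat_lit 78) (nat_lit 76) (nat_lit 0) (XT.lf (nat_lit 0) (nat_lit 20964517204) (nat_lit 76) (nat_lit 11884954109) (nat_lit 76) (nat_lit 4253187707) (nat_lit 10) (nat_lit 4) (nat_lit 11) (nat_lit 5) (nat_lit 11) (nat_lit 4) (nat_lit 372) (nat_lit 282) (nat_lit 246)) (XT.lf (nat_lit 0) (nat_lit 381693032) (nat_lit 152) (nat_lit 6925136961) (nat_lit 76) (nat_lit 31396439269) (nat_lit 9) (nat_lit 5) (nat_lit 11) (nat_lit 5) (nat_lit 10) (nat_lit 4) (nat_lit 373) (nat_lit 282) (nat_lit 245)))))) (XT.nd (nat_lit 468) (nat_lit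 152) (nat_lit 0) (XT.nd (nat_lit 234) (nat_lit 76) (nat_lit 0) (XT.nd (nat_lit 78) (nat_lit 0) (nat_lit 0) (XT.lf (nat_lit 0) (nat_lit 2644052544) (nat_lit 76) (nat_lit 2440771849) (nat_lit 152) (nat_lit 35296637117) (nat_lit 8) (nat_lit 5) (nat_lit 9) (nat_lit 5) (nat_lit 10) (nat_lit 4) (nat_lit 374) (nat_lit 282) (nat_lit 244)) (XT.nd (nat_lit 78) (nat_lit 0) (nat_lit 0) (XT.lf (nat_lit 0) (nat_lit 10122365845) (nat_lit 152) (nat_lit 29368761890) (nat_lit 0) (nat_lit 2647482287) (nat_lit 8) (nat_lit 5) (nat_lit 10) (nat_lit 4) (nat_lit 8) (nat_lit 4) (nat_lit 375) (nat_lit 282) (nat_lit 243)) (XT.lf (nat_lit 0) (nat_lit 15393117202) (nat_lit 152) (nat_lit 20735602161) (nat_lit 0) (nat_lit 7855838838) (nat_lit 8) (nat_lit 5) (nat_lit 10) (nat_lit 4) (nat_lit 8) (nat_lit 4) (nat_lit 376) (nat_lit 282) (nat_lit 242)))) (XT.nd (nat_lit 78) (nat_lit 76) (nat_lit 0) (XT.lf (nat_lit 0) (nat_lit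 20871520583) (nat_lit 152) (nat_lit 11779267347) (nat_lit 0) (nat_lit 13274818595) (nat_lit 8) (nat_lit 5) (nat_lit 10) (nat_lit 4) (nat_lit 8) (nat_lit 4) (nat_lit 377) (nat_lit 282) (nat_lit 241)) (XT.nd (nat_lit 78) (nat_lit 76) (nat_lit 0) (XT.lf (nat_lit 0) (nat_lit 26570619805) (nat_lit 152) (nat_lit 2478432842) (nat_lit 0) (nat_lit 18917323891) (nat_lit 8) (nat_lit 5) (nat_lit 10) (nat_lit 4) (nat_lit 8) (nat_lit 4) (nat_lit 378) (nat_lit 282) (nat_lit 240)) (XT.lf (nat_lit 0) (nat_lit 7426748530) (nat_lit 76) (nat_lit 25193187981) (nat_lit 76) (nat_lit 17485993088) (nat_lit 7) (nat_lit 4) (nat_lit 8) (nat_lit 5) (nat_lit 8) (nat_lit 4) (nat_lit 379) (nat_lit 282) (nat_lit 239))))) (XT.nd (nat_lit 234) (nat_lit 152) (nat_lit 0) (XT.nd (nat_lit 78) (nat_lit 0) (nat_lit 0) (XT.lf (nat_lit 0) (nat_lit 17816424425) (nat_lit 76) (nat_lit 21147480576) (nat_lit 76) (nat_lit 13388953323)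 (nat_lit 7) (nat_lit 4) (nat_lit 8) (nat_lit 5) (nat_lit 8) (nat_lit 4) (nat_lit 380) (nat_lit 282) (nat_lit 238)) (XT.nd (nat_lit 78) (nat_lit 0) (nat_lit 0) (XT.lf (nat_lit 0) (nat_lit 28633383982) (nat_lit 76) (nat_lit 16944271256) (nat_lit 76) (nat_lit 9136856040) (nat_lit 7) (nat_lit 4) (nat_lit 8) (nat_lit 5) (nat_lit 8) (nat_lit 4) (nat_lit 381) (nat_lit 282) (nat_lit 237)) (XT.lf (nat_lit 0) (nat_lit 39903381867) (nat_lit 76) (nat_lit 12573552380) (nat_lit 76) (nat_lit 4719577199) (nat_lit 7) (nat_lit 4) (nat_lit 8) (nat_lit 5) (nat_lit 8) (nat_lit 4) (nat_lit 382) (nat_lit 282) (nat_lit 236)))) (XT.nd (nat_lit 78) (nat_lit 152) (nat_lit 0) (XT.lf (nat_lit 0) (nat_lit 51653251408) (nat_lit 76) (nat_lit 8024917473) (nat_lit 76) (nat_lit 126599469) (nat_lit 7) (nat_lit 4) (nat_lit 8) (nat_lit 5) (nat_lit 8) (nat_lit 4) (nat_lit 383) (nat_lit 282) (nat_lit 235)) (XT.nd (nat_lit 78)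 (nat_lit 0) (nat_lit 0) (XT.lf (nat_lit 0) (nat_lit 1335576578) (nat_lit 76) (nat_lit 3189362856) (nat_lit 152) (nat_lit 58015877760) (nat_lit 5) (nat_lit 5) (nat_lit 6) (nat_lit 5) (nat_lit 7) (nat_lit 4) (nat_lit 384) (nat_lit 282) (nat_lit 234)) (XT.lf (nat_lit 0) (nat_lit 9533084543) (nat_lit 152) (nat_lit 53941719755) (nat_lit 0) (nat_lit 1932351675) (nat_lit 5) (nat_lit 5) (nat_lit 7) (nat_lit 4) (nat_lit 5) (nat_lit 4) (nat_lit 385) (nat_lit 282) (nat_lit 233))))))))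
noncomputable def xc56 : XT := (XT.nd (nat_lit 1794) (nat_lit 76) (nat_lit 0) (XT.nd (nat_lit 858) (nat_lit 152) (nat_lit 0) (XT.nd (nat_lit 390) (nat_lit 76) (nat_lit 0) (XT.nd (nat_lit 156) (nat_lit 0) (nat_lit 0) (XT.nd (nat_lit 78) (nat_lit 0) (nat_lit 0) (XT.lf (nat_lit 0) (nat_lit 14804392343) (nat_lit 152) (nat_lit 46444608244) (nat_lit 0) (nat_lit 7167178525) (nat_lit 5) (nat_lit 5) (nat_lit 7) (nat_lit 4) (nat_lit 5) (nat_lit 4) (nat_lit 386) (nat_lit 282) (nat_lit 232)) (XT.lf (nat_lit 0) (nat_lit 20301618675) (nat_lit 152) (nat_lit 38646260926) (nat_lit 0) (nat_lit 12629661095) (nat_lit 5) (nat_lit 5) (nat_lit 7) (nat_lit 4) (nat_lit 5) (nat_lit 4) (nat_lit 387) (nat_lit 282) (nat_lit 231))) (XT.nd (nat_lit 78) (nat_lit 0) (nat_lit 0) (XT.lf (nat_lit 0) (nat_lit 26037852173) (nat_lit 152) (nat_lit 30528110309) (nat_lit 0) (nat_lit 18332805296) (nat_lit 5) (nat_lit 5) (nat_lit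 7) (nat_lit 4) (nat_lit 5) (nat_lit 4) (nat_lit 388) (nat_lit 282) (nat_lit 230)) (XT.nd (nat_lit 78) (nat_lit 0) (nat_lit 0) (XT.lf (nat_lit 0) (nat_lit 32026750536) (nat_lit 152) (nat_lit 22070827461) (nat_lit 0) (nat_lit 24290190043) (nat_lit 5) (nat_lit 5) (nat_lit 7) (nat_lit 4) (nat_lit 5) (nat_lit 4) (nat_lit 389) (nat_lit 282) (nat_lit 229)) (XT.lf (nat_lit 0) (nat_lit 38282573047) (nat_lit 152) (nat_lit 13254275995) (nat_lit 0) (nat_lit 30515999585) (nat_lit 5) (nat_lit 5) (nat_lit 7) (nat_lit 4) (nat_lit 5) (nat_lit 4) (nat_lit 390) (nat_lit 282) (nat_lit 228))))) (XT.nd (nat_lit 234) (nat_lit 0) (nat_lit 0) (XT.nd (nat_lit 78) (nat_lit 76) (nat_lit 0) (XT.lf (nat_lit 0) (nat_lit 44820214520) (nat_lit 152) (nat_lit 4057464123) (nat_lit 0) (nat_lit 37025057279) (nat_lit 5) (nat_lit 5) (nat_lit 7) (nat_lit 4) (nat_lit 5) (nat_lit 4) (nat_lit 391) (nat_lit 282) (nat_lit 227)) (XT.nd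 (nat_lit 78) (nat_lit 0) (nat_lit 0) (XT.lf (nat_lit 0) (nat_lit 5724732519) (nat_lit 76) (nat_lit 46019887366) (nat_lit 76) (nat_lit 38197507479) (nat_lit 4) (nat_lit 4) (nat_lit 5) (nat_lit 5) (nat_lit 5) (nat_lit 4) (nat_lit 392) (nat_lit 282) (nat_lit 226)) (XT.lf (nat_lit 0) (nat_lit 16080152342) (nat_lit 76) (nat_lit 42974829563) (nat_lit 76) (nat_lit 35126523345) (nat_lit 4) (nat_lit 4) (nat_lit 5) (nat_lit 5) (nat_lit 5) (nat_lit 4) (nat_lit 393) (nat_lit 282) (nat_lit 225)))) (XT.nd (nat_lit 78) (nat_lit 0) (nat_lit 0) (XT.lf (nat_lit 0) (nat_lit 26899293019) (nat_lit 76) (nat_lit 39803970214) (nat_lit 76) (nat_lit 31930972253) (nat_lit 4) (nat_lit 4) (nat_lit 5) (nat_lit 5) (nat_lit 5) (nat_lit 4) (nat_lit 394) (nat_lit 282) (nat_lit 224)) (XT.nd (nat_lit 78) (nat_lit 0) (nat_lit 0) (XT.lf (nat_lit 0) (nat_lit 38207914409) (nat_lit 76) (nat_lit 36499759654) (nat_lit 76) (nat_lit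 28603245748) (nat_lit 4) (nat_lit 4) (nat_lit 5) (nat_lit 5) (nat_lit 5) (nat_lit 4) (nat_lit 395) (nat_lit 282) (nat_lit 223)) (XT.lf (nat_lit 0) (nat_lit 50032941800) (nat_lit 76) (nat_lit 33054330715) (nat_lit 76) (nat_lit 25135420670) (nat_lit 4) (nat_lit 4) (nat_lit 5) (nat_lit 5) (nat_lit 5) (nat_lit 4) (nat_lit 396) (nat_lit 282) (nat_lit 222)))))) (XT.nd (nat_lit 468) (nat_lit 152) (nat_lit 0) (XT.nd (nat_lit 234) (nat_lit 0) (nat_lit 0) (XT.nd (nat_lit 78) (nat_lit 0) (nat_lit 0) (XT.lf (nat_lit 0) (nat_lit 62402530020) (nat_lit 76) (nat_lit 29459479995) (nat_lit 76) (nat_lit 21519240293) (nat_lit 4) (nat_lit 4) (nat_lit 5) (nat_lit 5) (nat_lit 5) (nat_lit 4) (nat_lit 397) (nat_lit 282) (nat_lit 221)) (XT.nd (nat_lit 78) (nat_lit 0) (nat_lit 0) (XT.lf (nat_lit 0) (nat_lit 75346130469) (nat_lit 76) (nat_lit 25706648325) (nat_lit 76) (nat_lit 17746094665) (nat_lit 4) (nat_lit 4)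 (nat_lit 5) (nat_lit 5) (nat_lit 5) (nat_lit 4) (nat_lit 398) (nat_lit 282) (nat_lit 220)) (XT.lf (nat_lit 0) (nat_lit 88894561244) (nat_lit 76) (nat_lit 21786900392) (nat_lit 76) (nat_lit 13807000105) (nat_lit 4) (nat_lit 4) (nat_lit 5) (nat_lit 5) (nat_lit 5) (nat_lit 4) (nat_lit 399) (nat_lit 282) (nat_lit 219)))) (XT.nd (nat_lit 78) (nat_lit 0) (nat_lit 0) (XT.lf (nat_lit 0) (nat_lit 103080080512) (nat_lit 76) (nat_lit 17690903463) (nat_lit 76) (nat_lit 9692577817) (nat_lit 4) (nat_lit 4) (nat_lit 5) (nat_lit 5) (nat_lit 5) (nat_lit 4) (nat_lit 400) (nat_lit 282) (nat_lit 218)) (XT.nd (nat_lit 78) (nat_lit 0) (nat_lit 0) (XT.lf (nat_lit 0) (nat_lit 117936463321) (nat_lit 76) (nat_lit 13408905164) (nat_lit 76) (nat_lit 5393031557) (nat_lit 4) (nat_lit 4) (nat_lit 5) (nat_lit 5) (nat_lit 5) (nat_lit 4) (nat_lit 401) (nat_lit 282) (nat_lit 217)) (XT.lf (nat_lit 0) (nat_lit 133499082009)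 (nat_lit 76) (nat_lit 8930710260) (nat_lit 76) (nat_lit 898124310) (nat_lit 4) (nat_lit 4) (nat_lit 5) (nat_lit 5) (nat_lit 5) (nat_lit 4) (nat_lit 402) (nat_lit 282) (nat_lit 216))))) (XT.nd (nat_lit 234) (nat_lit 0) (nat_lit 0) (XT.nd (nat_lit 78) (nat_lit 76) (nat_lit 0) (XT.lf (nat_lit 0) (nat_lit 3681131259) (nat_lit 152) (nat_lit 502183386) (nat_lit 76) (nat_lit 146061517433) (nat_lit 3) (nat_lit 5) (nat_lit 5) (nat_lit 5) (nat_lit 4) (nat_lit 4) (nat_lit 403) (nat_lit 282) (nat_lit 215)) (XT.nd (nat_lit 78) (nat_lit 0) (nat_lit 0) (XT.lf (nat_lit 0) (nat_lit 8605953298) (nat_lit 152) (nat_lit 147967290512) (nat_lit 0) (nat_lit 926276101) (nat_lit 2) (nat_lit 5) (nat_lit 4) (nat_lit 4) (nat_lit 2) (nat_lit 4) (nat_lit 404) (nat_lit 282) (nat_lit 214)) (XT.lf (nat_lit 0) (nat_lit 13837063757) (nat_lit 152) (nat_lit 145133240695) (nat_lit 0) (nat_lit 6143637275) (nat_lit 2) (nat_lit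 5) (nat_lit 4) (nat_lit 4) (nat_lit 2) (nat_lit 4) (nat_lit 405) (nat_lit 282) (nat_lit 213)))) (XT.nd (nat_lit 78) (nat_lit 0) (nat_lit 0) (XT.lf (nat_lit 0) (nat_lit 19313371882) (nat_lit 152) (nat_lit 142189681668) (nat_lit 0) (nat_lit 11606850841) (nat_lit 2) (nat_lit 5) (nat_lit 4) (nat_lit 4) (nat_lit 2) (nat_lit 4) (nat_lit 406) (nat_lit 282) (nat_lit 212)) (XT.nd (nat_lit 78) (nat_lit 0) (nat_lit 0) (XT.lf (nat_lit 0) (nat_lit 25047916501) (nat_lit 152) (nat_lit 139129604956) (nat_lit 0) (nat_lit 17328924452) (nat_lit 2) (nat_lit 5) (nat_lit 4) (nat_lit 4) (nat_lit 2) (nat_lit 4) (nat_lit 407) (nat_lit 282) (nat_lit 211)) (XT.lf (nat_lit 0) (nat_lit 31054351293) (nat_lit 152) (nat_lit 135945724662) (nat_lit 0) (nat_lit 23323482092) (nat_lit 2) (nat_lit 5) (nat_lit 4) (nat_lit 4) (nat_lit 2) (nat_lit 4) (nat_lit 408) (nat_lit 282) (nat_lit 210))))))) (XT.nd (nat_lit 936) (nat_lit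 76) (nat_lit 0) (XT.nd (nat_lit 468) (nat_lit 0) (nat_lit 0) (XT.nd (nat_lit 234) (nat_lit 0) (nat_lit 0) (XT.nd (nat_lit 78) (nat_lit 0) (nat_lit 0) (XT.lf (nat_lit 0) (nat_lit 37346977291) (nat_lit 152) (nat_lit 132630460119) (nat_lit 0) (nat_lit 29604796519) (nat_lit 2) (nat_lit 5) (nat_lit 4) (nat_lit 4) (nat_lit 2) (nat_lit 4) (nat_lit 409) (nat_lit 282) (nat_lit 209)) (XT.nd (nat_lit 78) (nat_lit 0) (nat_lit 0) (XT.lf (nat_lit 0) (nat_lit 43940776939) (nat_lit 152) (nat_lit 129175917840) (nat_lit 0) (nat_lit 36187823241) (nat_lit 2) (nat_lit 5) (nat_lit 4) (nat_lit 4) (nat_lit 2) (nat_lit 4) (nat_lit 410) (nat_lit 282) (nat_lit 208)) (XT.lf (nat_lit 0) (nat_lit 50851449760) (nat_lit 152) (nat_lit 125573872725) (nat_lit 0) (nat_lit 43088236133) (nat_lit 2) (nat_lit 5) (nat_lit 4) (nat_lit 4) (nat_lit 2) (nat_lit 4) (nat_lit 411) (nat_lit 282) (nat_lit 207)))) (XT.nd (nat_lit 78) (nat_lit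 0) (nat_lit 0) (XT.lf (nat_lit 0) (nat_lit 58095449737) (nat_lit 152) (nat_lit 121815748475) (nat_lit 0) (nat_lit 50322464749) (nat_lit 2) (nat_lit 5) (nat_lit 4) (nat_lit 4) (nat_lit 2) (nat_lit 4) (nat_lit 412) (nat_lit 282) (nat_lit 206)) (XT.nd (nat_lit 78) (nat_lit 0) (nat_lit 0) (XT.lf (nat_lit 0) (nat_lit 65690024489) (nat_lit 152) (nat_lit 117892597175) (nat_lit 0) (nat_lit 57907733443) (nat_lit 2) (nat_lit 5) (nat_lit 4) (nat_lit 4) (nat_lit 2) (nat_lit 4) (nat_lit 413) (nat_lit 282) (nat_lit 205)) (XT.lf (nat_lit 0) (nat_lit 73653256337) (nat_lit 152) (nat_lit 113795077989) (nat_lit 0) (nat_lit 65862102378) (nat_lit 2) (nat_lit 5) (nat_lit 4) (nat_lit 4) (nat_lit 2) (nat_lit 4) (nat_lit 414) (nat_lit 282) (nat_lit 204))))) (XT.nd (nat_lit 234) (nat_lit 0) (nat_lit 0) (XT.nd (nat_lit 78) (nat_lit 0) (nat_lit 0) (XT.lf (nat_lit 0) (nat_lit 82004105356) (nat_lit 152) (nat_lit 109513434920)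 (nat_lit 0) (nat_lit 74204510528) (nat_lit 2) (nat_lit 5) (nat_lit 4) (nat_lit 4) (nat_lit 2) (nat_lit 4) (nat_lit 415) (nat_lit 282) (nat_lit 203)) (XT.nd (nat_lit 78) (nat_lit 0) (nat_lit 0) (XT.lf (nat_lit 0) (nat_lit 90762454521) (nat_lit 152) (nat_lit 105037473578) (nat_lit 0) (nat_lit 82954820769) (nat_lit 2) (nat_lit 5) (nat_lit 4) (nat_lit 4) (nat_lit 2) (nat_lit 4) (nat_lit 416) (nat_lit 282) (nat_lit 202)) (XT.lf (nat_lit 0) (nat_lit 99949157043) (nat_lit 152) (nat_lit 100356536913) (nat_lit 0) (nat_lit 92133867175) (nat_lit 2) (nat_lit 5) (nat_lit 4) (nat_lit 4) (nat_lit 2) (nat_lit 4) (nat_lit 417) (nat_lit 282) (nat_lit 201)))) (XT.nd (nat_lit 78) (nat_lit 0) (nat_lit 0) (XT.lf (nat_lit 0) (nat_lit 109586086025) (nat_lit 152) (nat_lit 95459479838) (nat_lit 0) (nat_lit 101763504616) (nat_lit 2) (nat_lit 5) (nat_lit 4) (nat_lit 4) (nat_lit 2) (nat_lit 4) (nat_lit 418) (nat_lit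 282) (nat_lit 200)) (XT.nd (nat_lit 78) (nat_lit 0) (nat_lit 0) (XT.lf (nat_lit 0) (nat_lit 119696186534) (nat_lit 152) (nat_lit 90334642692) (nat_lit 0) (nat_lit 111866660801) (nat_lit 2) (nat_lit 5) (nat_lit 4) (nat_lit 4) (nat_lit 2) (nat_lit 4) (nat_lit 419) (nat_lit 282) (nat_lit 199)) (XT.lf (nat_lit 0) (nat_lit 130303530239) (nat_lit 152) (nat_lit 84969823484) (nat_lit 0) (nat_lit 122467390864) (nat_lit 2) (nat_lit 5) (nat_lit 4) (nat_lit 4) (nat_lit 2) (nat_lit 4) (nat_lit 420) (nat_lit 282) (nat_lit 198)))))) (XT.nd (nat_lit 468) (nat_lit 76) (nat_lit 0) (XT.nd (nat_lit 234) (nat_lit 0) (nat_lit 0) (XT.nd (nat_lit 78) (nat_lit 0) (nat_lit 0) (XT.lf (nat_lit 0) (nat_lit 141433372720) (nat_lit 152) (nat_lit 79352248833) (nat_lit 0) (nat_lit 133590934638) (nat_lit 2) (nat_lit 5) (nat_lit 4) (nat_lit 4) (nat_lit 2) (nat_lit 4) (nat_lit 421) (nat_lit 282) (nat_lit 197)) (XT.nd (nat_lit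 78) (nat_lit 0) (nat_lit 0) (XT.lf (nat_lit 0) (nat_lit 153112213602) (nat_lit 152) (nat_lit 73468543562) (nat_lit 0) (nat_lit 145263776752) (nat_lit 2) (nat_lit 5) (nat_lit 4) (nat_lit 4) (nat_lit 2) (nat_lit 4) (nat_lit 422) (nat_lit 282) (nat_lit 196)) (XT.lf (nat_lit 0) (nat_lit 165367859649) (nat_lit 152) (nat_lit 67304698848) (nat_lit 0) (nat_lit 157513709687) (nat_lit 2) (nat_lit 5) (nat_lit 4) (nat_lit 4) (nat_lit 2) (nat_lit 4) (nat_lit 423) (nat_lit 282) (nat_lit 195)))) (XT.nd (nat_lit 78) (nat_lit 0) (nat_lit 0) (XT.lf (nat_lit 0) (nat_lit 178229490971) (nat_lit 152) (nat_lit 60846038872) (nat_lit 0) (nat_lit 170369899949) (nat_lit 2) (nat_lit 5) (nat_lit 4) (nat_lit 4) (nat_lit 2) (nat_lit 4) (nat_lit 424) (nat_lit 282) (nat_lit 194)) (XT.nd (nat_lit 78) (nat_lit 0) (nat_lit 0) (XT.lf (nat_lit 0) (nat_lit 191727730499) (nat_lit 152) (nat_lit 54077185872) (nat_lit 0) (nat_lit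 183862957516) (nat_lit 2) (nat_lit 5) (nat_lit 4) (nat_lit 4) (nat_lit 2) (nat_lit 4) (nat_lit 425) (nat_lit 282) (nat_lit 193)) (XT.lf (nat_lit 0) (nat_lit 205894716899) (nat_lit 152) (nat_lit 46982023529) (nat_lit 0) (nat_lit 198025008715) (nat_lit 2) (nat_lit 5) (nat_lit 4) (nat_lit 4) (nat_lit 2) (nat_lit 4) (nat_lit 426) (nat_lit 282) (nat_lit 192))))) (XT.nd (nat_lit 234) (nat_lit 76) (nat_lit 0) (XT.nd (nat_lit 78) (nat_lit 0) (nat_lit 0) (XT.lf (nat_lit 0) (nat_lit 220764181091) (nat_lit 152) (nat_lit 39543658602) (nat_lit 0) (nat_lit 212889772715) (nat_lit 2) (nat_lit 5) (nat_lit 4) (nat_lit 4) (nat_lit 2) (nat_lit 4) (nat_lit 427) (nat_lit 282) (nat_lit 191)) (XT.nd (nat_lit 78) (nat_lit 0) (nat_lit 0) (XT.lf (nat_lit 0) (nat_lit 236371526561) (nat_lit 152) (nat_lit 31744380697) (nat_lit 0) (nat_lit 228492641812) (nat_lit 2) (nat_lit 5) (nat_lit 4) (nat_lit 4) (nat_lit 2) (nat_lit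 4) (nat_lit 428) (nat_lit 282) (nat_lit 190)) (XT.lf (nat_lit 0) (nat_lit 252753913656) (nat_lit 152) (nat_lit 23565620105) (nat_lit 0) (nat_lit 244870765694) (nat_lit 2) (nat_lit 5) (nat_lit 4) (nat_lit 4) (nat_lit 2) (nat_lit 4) (nat_lit 429) (nat_lit 282) (nat_lit 189)))) (XT.nd (nat_lit 78) (nat_lit 76) (nat_lit 0) (XT.lf (nat_lit 0) (nat_lit 269950348058) (nat_lit 152) (nat_lit 14987903586) (nat_lit 0) (nat_lit 262063139894) (nat_lit 2) (nat_lit 5) (nat_lit 4) (nat_lit 4) (nat_lit 2) (nat_lit 4) (nat_lit 430) (nat_lit 282) (nat_lit 188)) (XT.nd (nat_lit 78) (nat_lit 76) (nat_lit 0) (XT.lf (nat_lit 0) (nat_lit 288001773660) (nat_lit 152) (nat_lit 5990808006) (nat_lit 0) (nat_lit 280110698636) (nat_lit 2) (nat_lit 5) (nat_lit 4) (nat_lit 4) (nat_lit 2) (nat_lit 4) (nat_lit 431) (nat_lit 282) (nat_lit 187)) (XT.lf (nat_lit 0) (nat_lit 3561064596) (nat_lit 76) (nat_lit 303445703648) (nat_lit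 76) (nat_lit 295550945901) (nat_lit 1) (nat_lit 4) (nat_lit 2) (nat_lit 5) (nat_lit 2) (nat_lit 4) (nat_lit 432) (nat_lit 282) (nat_lit 186))))))))
noncomputable def xc57 : XT := (XT.nd (nat_lit 40560) (nat_lit 0) (nat_lit 532) (XT.nd (nat_lit 39624) (nat_lit 0) (nat_lit 1596) (XT.nd (nat_lit 39156) (nat_lit 0) (nat_lit 2736) (XT.nd (nat_lit 156) (nat_lit 0) (nat_lit 0) (XT.nd (nat_lit 78) (nat_lit 0) (nat_lit 0) (XT.lf (nat_lit 0) (nat_lit 13789610128) (nat_lit 76) (nat_lit 313269339158) (nat_lit 76) (nat_lit 305371074056) (nat_lit 1) (nat_lit 4) (nat_lit 2) (nat_lit 5) (nat_lit 2) (nat_lit 4) (nat_lit 433) (nat_lit 282) (nat_lit 185)) (XT.lf (nat_lit 0) (nat_lit 24521099099) (nat_lit 76) (nat_lit 323588335039) (nat_lit 76) (nat_lit 315686729598) (nat_lit 1) (nat_lit 4) (nat_lit 2) (nat_lit 5) (nat_lit 2) (nat_lit 4) (nat_lit 434) (nat_lit 282) (nat_lit 184))) (XT.nd (nat_lit 78) (nat_lit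 0) (nat_lit 0) (XT.lf (nat_lit 0) (nat_lit 35781082675) (nat_lit 76) (nat_lit 334427260328) (nat_lit 76) (nat_lit 326522473612) (nat_lit 1) (nat_lit 4) (nat_lit 2) (nat_lit 5) (nat_lit 2) (nat_lit 4) (nat_lit 435) (nat_lit 282) (nat_lit 183)) (XT.nd (nat_lit 78) (nat_lit 0) (nat_lit 0) (XT.lf (nat_lit 0) (nat_lit 47596370340) (nat_lit 76) (nat_lit 345811921990) (nat_lit 76) (nat_lit 337904105489) (nat_lit 1) (nat_lit 4) (nat_lit 2) (nat_lit 5) (nat_lit 2) (nat_lit 4) (nat_lit 436) (nat_lit 282) (nat_lit 182)) (XT.lf (nat_lit 0) (nat_lit 59995093730) (nat_lit 76) (nat_lit 357769426363) (nat_lit 76) (nat_lit 349858724351) (nat_lit 1) (nat_lit 4) (nat_lit 2) (nat_lit 5) (nat_lit 2) (nat_lit 4) (nat_lit 437) (nat_lit 282) (nat_lit 181))))) (XT.nd (nat_lit 234) (nat_lit 380) (nat_lit 0) (XT.nd (nat_lit 78) (nat_lit 380) (nat_lit 0) (XT.lf (nat_lit 0) (nat_lit 2999400350) (nat_lit 228) (nat_lit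 1047824193) (nat_lit 228) (nat_lit 1047824193) (nat_lit 47) (nat_lit 4) (nat_lit 50) (nat_lit 5) (nat_lit 50) (nat_lit 4) (nat_lit 334) (nat_lit 283) (nat_lit 283)) (XT.nd (nat_lit 78) (nat_lit 152) (nat_lit 0) (XT.lf (nat_lit 0) (nat_lit 2263707022) (nat_lit 228) (nat_lit 6629081982) (nat_lit 0) (nat_lit 1548200848) (nat_lit 44) (nat_lit 5) (nat_lit 47) (nat_lit 4) (nat_lit 44) (nat_lit 4) (nat_lit 335) (nat_lit 283) (nat_lit 282)) (XT.lf (nat_lit 0) (nat_lit 1364447171) (nat_lit 152) (nat_lit 5368588947) (nat_lit 152) (nat_lit 3971648322) (nat_lit 42) (nat_lit 4) (nat_lit 44) (nat_lit 5) (nat_lit 44) (nat_lit 4) (nat_lit 336) (nat_lit 283) (nat_lit 281)))) (XT.nd (nat_lit 78) (nat_lit 304) (nat_lit 0) (XT.lf (nat_lit 0) (nat_lit 379785710) (nat_lit 228) (nat_lit 1267365110) (nat_lit 76) (nat_lit 9336667259) (nat_lit 41) (nat_lit 5) (nat_lit 44) (nat_lit 5) (nat_lit 42) (nat_lit 4) (nat_lit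 337) (nat_lit 283) (nat_lit 280)) (XT.nd (nat_lit 78) (nat_lit 152) (nat_lit 0) (XT.lf (nat_lit 0) (nat_lit 4806449057) (nat_lit 228) (nat_lit 4198431565) (nat_lit 0) (nat_lit 2269299578) (nat_lit 39) (nat_lit 5) (nat_lit 42) (nat_lit 4) (nat_lit 39) (nat_lit 4) (nat_lit 338) (nat_lit 283) (nat_lit 279)) (XT.lf (nat_lit 0) (nat_lit 4147863576) (nat_lit 152) (nat_lit 5265547828) (nat_lit 152) (nat_lit 2167780540) (nat_lit 37) (nat_lit 4) (nat_lit 39) (nat_lit 5) (nat_lit 39) (nat_lit 4) (nat_lit 339) (nat_lit 283) (nat_lit 278)))))) (XT.nd (nat_lit 468) (nat_lit 532) (nat_lit 0) (XT.nd (nat_lit 234) (nat_lit 304) (nat_lit 0) (XT.nd (nat_lit 78) (nat_lit 152) (nat_lit 0) (XT.lf (nat_lit 0) (nat_lit 887280174) (nat_lit 76) (nat_lit 1317095038) (nat_lit 152) (nat_lit 9700802579) (nat_lit 35) (nat_lit 5) (nat_lit 36) (nat_lit 5) (nat_lit 37) (nat_lit 4) (nat_lit 340) (nat_lit 283) (nat_lit 277))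 (XT.nd (nat_lit 78) (nat_lit 152) (nat_lit 0) (XT.lf (nat_lit 0) (nat_lit 6742281857) (nat_lit 152) (nat_lit 2701125735) (nat_lit 0) (nat_lit 2799247675) (nat_lit 35) (nat_lit 5) (nat_lit 37) (nat_lit 4) (nat_lit 35) (nat_lit 4) (nat_lit 341) (nat_lit 283) (nat_lit 276)) (XT.lf (nat_lit 0) (nat_lit 5950559142) (nat_lit 152) (nat_lit 5526144005) (nat_lit 152) (nat_lit 1121888163) (nat_lit 33) (nat_lit 4) (nat_lit 35) (nat_lit 5) (nat_lit 35) (nat_lit 4) (nat_lit 342) (nat_lit 283) (nat_lit 275)))) (XT.nd (nat_lit 78) (nat_lit 152) (nat_lit 0) (XT.lf (nat_lit 0) (nat_lit 1914235728) (nat_lit 76) (nat_lit 1382227829) (nat_lit 152) (nat_lit 9676597994) (nat_lit 31) (nat_lit 5) (nat_lit 32) (nat_lit 5) (nat_lit 33) (nat_lit 4) (nat_lit 343) (nat_lit 283) (nat_lit 274)) (XT.nd (nat_lit 78) (nat_lit 152) (nat_lit 0) (XT.lf (nat_lit 0) (nat_lit 7915987665) (nat_lit 152) (nat_lit 2543810856) (nat_lit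 0) (nat_lit 2904696040) (nat_lit 31) (nat_lit 5) (nat_lit 33) (nat_lit 4) (nat_lit 31) (nat_lit 4) (nat_lit 344) (nat_lit 283) (nat_lit 273)) (XT.lf (nat_lit 0) (nat_lit 6337106454) (nat_lit 152) (nat_lit 6414953994) (nat_lit 152) (nat_lit 1024214169) (nat_lit 29) (nat_lit 4) (nat_lit 31) (nat_lit 5) (nat_lit 31) (nat_lit 4) (nat_lit 345) (nat_lit 283) (nat_lit 272))))) (XT.nd (nat_lit 234) (nat_lit 228) (nat_lit 0) (XT.nd (nat_lit 78) (nat_lit 152) (nat_lit 0) (XT.lf (nat_lit 0) (nat_lit 1287175276) (nat_lit 76) (nat_lit 2146626840) (nat_lit 152) (nat_lit 10775642985) (nat_lit 27) (nat_lit 5) (nat_lit 28) (nat_lit 5) (nat_lit 29) (nat_lit 4) (nat_lit 346) (nat_lit 283) (nat_lit 271)) (XT.nd (nat_lit 78) (nat_lit 152) (nat_lit 0) (XT.lf (nat_lit 0) (nat_lit 8110466576) (nat_lit 152) (nat_lit 4247029972) (nat_lit 0) (nat_lit 2304476321) (nat_lit 27) (nat_lit 5) (nat_lit 29) (nat_lit 4) (nat_lit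 27) (nat_lit 4) (nat_lit 347) (nat_lit 283) (nat_lit 270)) (XT.lf (nat_lit 0) (nat_lit 4748428529) (nat_lit 152) (nat_lit 8253918513) (nat_lit 152) (nat_lit 2135755285) (nat_lit 25) (nat_lit 4) (nat_lit 27) (nat_lit 5) (nat_lit 27) (nat_lit 4) (nat_lit 348) (nat_lit 283) (nat_lit 269)))) (XT.nd (nat_lit 78) (nat_lit 152) (nat_lit 0) (XT.lf (nat_lit 0) (nat_lit 2366361020) (nat_lit 228) (nat_lit 1564430730) (nat_lit 76) (nat_lit 11708053684) (nat_lit 24) (nat_lit 5) (nat_lit 27) (nat_lit 5) (nat_lit 25) (nat_lit 4) (nat_lit 349) (nat_lit 283) (nat_lit 268)) (XT.nd (nat_lit 78) (nat_lit 76) (nat_lit 0) (XT.lf (nat_lit 0) (nat_lit 7031014257) (nat_lit 152) (nat_lit 8480063591) (nat_lit 0) (nat_lit 651375294) (nat_lit 23) (nat_lit 5) (nat_lit 25) (nat_lit 4) (nat_lit 23) (nat_lit 4) (nat_lit 350) (nat_lit 283) (nat_lit 267)) (XT.lf (nat_lit 0) (nat_lit 464129369) (nat_lit 76) (nat_lit 11442854347)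 (nat_lit 76) (nat_lit 4806389905) (nat_lit 22) (nat_lit 4) (nat_lit 23) (nat_lit 5) (nat_lit 23) (nat_lit 4) (nat_lit 351) (nat_lit 283) (nat_lit 266))))))) (XT.nd (nat_lit 936) (nat_lit 456) (nat_lit 0) (XT.nd (nat_lit 468) (nat_lit 228) (nat_lit 0) (XT.nd (nat_lit 234) (nat_lit 228) (nat_lit 0) (XT.nd (nat_lit 78) (nat_lit 152) (nat_lit 0) (XT.lf (nat_lit 0) (nat_lit 9932701969) (nat_lit 76) (nat_lit 7119480777) (nat_lit 76) (nat_lit 238420642) (nat_lit 22) (nat_lit 4) (nat_lit 23) (nat_lit 5) (nat_lit 23) (nat_lit 4) (nat_lit 352) (nat_lit 283) (nat_lit 265)) (XT.nd (nat_lit 78) (nat_lit 0) (nat_lit 0) (XT.lf (nat_lit 0) (nat_lit 1752218970) (nat_lit 76) (nat_lit 2572769997) (nat_lit 152) (nat_lit 13572532912) (nat_lit 20) (nat_lit 5) (nat_lit 21) (nat_lit 5) (nat_lit 22) (nat_lit 4) (nat_lit 353) (nat_lit 283) (nat_lit 264)) (XT.lf (nat_lit 0) (nat_lit 9155872492) (nat_lit 152) (nat_lit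 7207047232) (nat_lit 0) (nat_lit 2169335427) (nat_lit 20) (nat_lit 5) (nat_lit 22) (nat_lit 4) (nat_lit 20) (nat_lit 4) (nat_lit 354) (nat_lit 283) (nat_lit 263)))) (XT.nd (nat_lit 78) (nat_lit 152) (nat_lit 0) (XT.lf (nat_lit 0) (nat_lit 1998512295) (nat_lit 76) (nat_lit 12194876771) (nat_lit 76) (nat_lit 5007110224) (nat_lit 19) (nat_lit 4) (nat_lit 20) (nat_lit 5) (nat_lit 20) (nat_lit 4) (nat_lit 355) (nat_lit 283) (nat_lit 262)) (XT.nd (nat_lit 78) (nat_lit 152) (nat_lit 0) (XT.lf (nat_lit 0) (nat_lit 11716413298) (nat_lit 76) (nat_lit 7782195952) (nat_lit 76) (nat_lit 402782279) (nat_lit 19) (nat_lit 4) (nat_lit 20) (nat_lit 5) (nat_lit 20) (nat_lit 4) (nat_lit 356) (nat_lit 283) (nat_lit 261)) (XT.lf (nat_lit 0) (nat_lit 1055327046) (nat_lit 76) (nat_lit 3148215291) (nat_lit 152) (nat_lit 16434669963) (nat_lit 17) (nat_lit 5) (nat_lit 18) (nat_lit 5) (nat_lit 19) (nat_lit 4) (nat_lit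 357) (nat_lit 283) (nat_lit 260))))) (XT.nd (nat_lit 234) (nat_lit 152) (nat_lit 0) (XT.nd (nat_lit 78) (nat_lit 76) (nat_lit 0) (XT.lf (nat_lit 0) (nat_lit 9092068459) (nat_lit 152) (nat_lit 10591554146) (nat_lit 0) (nat_lit 1724673851) (nat_lit 17) (nat_lit 5) (nat_lit 19) (nat_lit 4) (nat_lit 17) (nat_lit 4) (nat_lit 358) (nat_lit 283) (nat_lit 259)) (XT.nd (nat_lit 78) (nat_lit 76) (nat_lit 0) (XT.lf (nat_lit 0) (nat_lit 14179219544) (nat_lit 152) (nat_lit 1385821420) (nat_lit 0) (nat_lit 6654156371) (nat_lit 17) (nat_lit 5) (nat_lit 19) (nat_lit 4) (nat_lit 17) (nat_lit 4) (nat_lit 359) (nat_lit 283) (nat_lit 258)) (XT.lf (nat_lit 0) (nat_lit 8373384391) (nat_lit 76) (nat_lit 11185302997) (nat_lit 76) (nat_lit 3510079286) (nat_lit 16) (nat_lit 4) (nat_lit 17) (nat_lit 5) (nat_lit 17) (nat_lit 4) (nat_lit 360) (nat_lit 283) (nat_lit 257)))) (XT.nd (nat_lit 78) (nat_lit 76) (nat_lit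 0) (XT.lf (nat_lit 0) (nat_lit 1137726082) (nat_lit 152) (nat_lit 5485895277) (nat_lit 76) (nat_lit 17339674499) (nat_lit 15) (nat_lit 5) (nat_lit 17) (nat_lit 5) (nat_lit 16) (nat_lit 4) (nat_lit 361) (nat_lit 283) (nat_lit 256)) (XT.nd (nat_lit 78) (nat_lit 0) (nat_lit 0) (XT.lf (nat_lit 0) (nat_lit 4090714931) (nat_lit 76) (nat_lit 1784967367) (nat_lit 152) (nat_lit 19025224443) (nat_lit 14) (nat_lit 5) (nat_lit 15) (nat_lit 5) (nat_lit 16) (nat_lit 4) (nat_lit 362) (nat_lit 283) (nat_lit 255)) (XT.lf (nat_lit 0) (nat_lit 10908699804) (nat_lit 152) (nat_lit 11764296637) (nat_lit 0) (nat_lit 3209511138) (nat_lit 14) (nat_lit 5) (nat_lit 16) (nat_lit 4) (nat_lit 14) (nat_lit 4) (nat_lit 363) (nat_lit 283) (nat_lit 254)))))) (XT.nd (nat_lit 468) (nat_lit 228) (nat_lit 0) (XT.nd (nat_lit 234) (nat_lit 152) (nat_lit 0) (XT.nd (nat_lit 78) (nat_lit 76) (nat_lit 0) (XT.lf (nat_lit 0) (nat_lit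 16139087356) (nat_lit 152) (nat_lit 2454587916) (nat_lit 0) (nat_lit 8322243979) (nat_lit 14) (nat_lit 5) (nat_lit 16) (nat_lit 4) (nat_lit 14) (nat_lit 4) (nat_lit 364) (nat_lit 283) (nat_lit 253)) (XT.nd (nat_lit 78) (nat_lit 0) (nat_lit 0) (XT.lf (nat_lit 0) (nat_lit 7406007148) (nat_lit 76) (nat_lit 14261051293) (nat_lit 76) (nat_lit 6332155811) (nat_lit 13) (nat_lit 4) (nat_lit 14) (nat_lit 5) (nat_lit 14) (nat_lit 4) (nat_lit 365) (nat_lit 283) (nat_lit 252)) (XT.lf (nat_lit 0) (nat_lit 17695657911) (nat_lit 76) (nat_lit 9739234909) (nat_lit 76) (nat_lit 1703623136) (nat_lit 13) (nat_lit 4) (nat_lit 14) (nat_lit 5) (nat_lit 14) (nat_lit 4) (nat_lit 366) (nat_lit 283) (nat_lit 251)))) (XT.nd (nat_lit 78) (nat_lit 76) (nat_lit 0) (XT.lf (nat_lit 0) (nat_lit 2979694647) (nat_lit 152) (nat_lit 2028872309) (nat_lit 76) (nat_lit 25327546562) (nat_lit 12) (nat_lit 5) (nat_lit 14) (nat_lit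 5) (nat_lit 13) (nat_lit 4) (nat_lit 367) (nat_lit 283) (nat_lit 250)) (XT.nd (nat_lit 78) (nat_lit 0) (nat_lit 0) (XT.lf (nat_lit 0) (nat_lit 7892761887) (nat_lit 152) (nat_lit 23645986028) (nat_lit 0) (nat_lit 50817928) (nat_lit 11) (nat_lit 5) (nat_lit 13) (nat_lit 4) (nat_lit 11) (nat_lit 4) (nat_lit 368) (nat_lit 283) (nat_lit 249)) (XT.lf (nat_lit 0) (nat_lit 13096797636) (nat_lit 152) (nat_lit 14639581970) (nat_lit 0) (nat_lit 5167057920) (nat_lit 11) (nat_lit 5) (nat_lit 13) (nat_lit 4) (nat_lit 11) (nat_lit 4) (nat_lit 369) (nat_lit 283) (nat_lit 248))))) (XT.nd (nat_lit 234) (nat_lit 152) (nat_lit 0) (XT.nd (nat_lit 78) (nat_lit 76) (nat_lit 0) (XT.lf (nat_lit 0) (nat_lit 18492734487) (nat_lit 152) (nat_lit 5314315480) (nat_lit 0) (nat_lit 10479379765) (nat_lit 11) (nat_lit 5) (nat_lit 13) (nat_lit 4) (nat_lit 11) (nat_lit 4) (nat_lit 370) (nat_lit 283) (nat_lit 247)) (XT.nd (nat_lit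 78) (nat_lit 0) (nat_lit 0) (XT.lf (nat_lit 0) (nat_lit 4495913774) (nat_lit 76) (nat_lit 19667699947) (nat_lit 76) (nat_lit 11574711886) (nat_lit 10) (nat_lit 4) (nat_lit 11) (nat_lit 5) (nat_lit 11) (nat_lit 4) (nat_lit 371) (nat_lit 283) (nat_lit 246)) (XT.lf (nat_lit 0) (nat_lit 14857976968) (nat_lit 76) (nat_lit 15286186556) (nat_lit 76) (nat_lit 7117357219) (nat_lit 10) (nat_lit 4) (nat_lit 11) (nat_lit 5) (nat_lit 11) (nat_lit 4) (nat_lit 372) (nat_lit 283) (nat_lit 245)))) (XT.nd (nat_lit 78) (nat_lit 152) (nat_lit 0) (XT.lf (nat_lit 0) (nat_lit 25620830411) (nat_lit 76) (nat_lit 10742078122) (nat_lit 76) (nat_lit 2501018999) (nat_lit 10) (nat_lit 4) (nat_lit 11) (nat_lit 5) (nat_lit 11) (nat_lit 4) (nat_lit 373) (nat_lit 283) (nat_lit 244)) (XT.nd (nat_lit 78) (nat_lit 76) (nat_lit 0) (XT.lf (nat_lit 0) (nat_lit 2212150372) (nat_lit 152) (nat_lit 3774941131) (nat_lit 76) (nat_lit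 34560485734) (nat_lit 9) (nat_lit 5) (nat_lit 11) (nat_lit 5) (nat_lit 10) (nat_lit 4) (nat_lit 374) (nat_lit 283) (nat_lit 243)) (XT.lf (nat_lit 0) (nat_lit 6216313451) (nat_lit 76) (nat_lit 901577959) (nat_lit 152) (nat_lit 35193428692) (nat_lit 8) (nat_lit 5) (nat_lit 9) (nat_lit 5) (nat_lit 10) (nat_lit 4) (nat_lit 375) (nat_lit 283) (nat_lit 242))))))))
noncomputable def xc58 : XT := (XT.nd (nat_lit 1794) (nat_lit 152) (nat_lit 0) (XT.nd (nat_lit 858) (nat_lit 76) (nat_lit 0) (XT.nd (nat_lit 390) (nat_lit 152) (nat_lit 0) (XT.nd (nat_lit 156) (nat_lit 76) (nat_lit 0) (XT.nd (nat_lit 78) (nat_lit 0) (nat_lit 0) (XT.lf (nat_lit 0) (nat_lit 12347305368) (nat_lit 152) (nat_lit 27500689252) (nat_lit 0) (nat_lit 4311344657) (nat_lit 8) (nat_lit 5) (nat_lit 10) (nat_lit 4) (nat_lit 8) (nat_lit 4) (nat_lit 376) (nat_lit 283) (nat_lit 241)) (XT.lf (nat_lit 0) (nat_lit 17799745662) (nat_lit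 152) (nat_lit 18594753000) (nat_lit 0) (nat_lit 9707191024) (nat_lit 8) (nat_lit 5) (nat_lit 10) (nat_lit 4) (nat_lit 8) (nat_lit 4) (nat_lit 377) (nat_lit 283) (nat_lit 240))) (XT.nd (nat_lit 78) (nat_lit 76) (nat_lit 0) (XT.lf (nat_lit 0) (nat_lit 23474118136) (nat_lit 152) (nat_lit 9341917125) (nat_lit 0) (nat_lit 15327664519) (nat_lit 8) (nat_lit 5) (nat_lit 10) (nat_lit 4) (nat_lit 8) (nat_lit 4) (nat_lit 378) (nat_lit 283) (nat_lit 239)) (XT.nd (nat_lit 78) (nat_lit 0) (nat_lit 0) (XT.lf (nat_lit 0) (nat_lit 289102003) (nat_lit 76) (nat_lit 29099344889) (nat_lit 76) (nat_lit 20901558912) (nat_lit 7) (nat_lit 4) (nat_lit 8) (nat_lit 5) (nat_lit 8) (nat_lit 4) (nat_lit 379) (nat_lit 283) (nat_lit 238)) (XT.lf (nat_lit 0) (nat_lit 10633802223) (nat_lit 76) (nat_lit 25075483071) (nat_lit 76) (nat_lit 16828809132) (nat_lit 7) (nat_lit 4) (nat_lit 8) (nat_lit 5) (nat_lit 8) (nat_lit 4)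 (nat_lit 380) (nat_lit 283) (nat_lit 237))))) (XT.nd (nat_lit 234) (nat_lit 152) (nat_lit 0) (XT.nd (nat_lit 78) (nat_lit 0) (nat_lit 0) (XT.lf (nat_lit 0) (nat_lit 21407927805) (nat_lit 76) (nat_lit 20893079073) (nat_lit 76) (nat_lit 12599845170) (nat_lit 7) (nat_lit 4) (nat_lit 8) (nat_lit 5) (nat_lit 8) (nat_lit 4) (nat_lit 381) (nat_lit 283) (nat_lit 236)) (XT.nd (nat_lit 78) (nat_lit 0) (nat_lit 0) (XT.lf (nat_lit 0) (nat_lit 32637131427) (nat_lit 76) (nat_lit 16542174788) (nat_lit 76) (nat_lit 8204598062) (nat_lit 7) (nat_lit 4) (nat_lit 8) (nat_lit 5) (nat_lit 8) (nat_lit 4) (nat_lit 382) (nat_lit 283) (nat_lit 235)) (XT.lf (nat_lit 0) (nat_lit 44348149290) (nat_lit 76) (nat_lit 12012410922) (nat_lit 76) (nat_lit 3632602935) (nat_lit 7) (nat_lit 4) (nat_lit 8) (nat_lit 5) (nat_lit 8) (nat_lit 4) (nat_lit 383) (nat_lit 283) (nat_lit 234)))) (XT.nd (nat_lit 78) (nat_lit 76) (nat_lit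 0) (XT.lf (nat_lit 0) (nat_lit 1090954045) (nat_lit 152) (nat_lit 6183572441) (nat_lit 76) (nat_lit 55459434889) (nat_lit 6) (nat_lit 5) (nat_lit 8) (nat_lit 5) (nat_lit 7) (nat_lit 4) (nat_lit 384) (nat_lit 283) (nat_lit 233)) (XT.nd (nat_lit 78) (nat_lit 0) (nat_lit 0) (XT.lf (nat_lit 0) (nat_lit 3737518984) (nat_lit 76) (nat_lit 2211677218) (nat_lit 152) (nat_lit 59658601631) (nat_lit 5) (nat_lit 5) (nat_lit 6) (nat_lit 5) (nat_lit 7) (nat_lit 4) (nat_lit 385) (nat_lit 283) (nat_lit 232)) (XT.lf (nat_lit 0) (nat_lit 11167609202) (nat_lit 152) (nat_lit 54374548942) (nat_lit 0) (nat_lit 3077309981) (nat_lit 5) (nat_lit 5) (nat_lit 7) (nat_lit 4) (nat_lit 5) (nat_lit 4) (nat_lit 386) (nat_lit 283) (nat_lit 231)))))) (XT.nd (nat_lit 468) (nat_lit 76) (nat_lit 0) (XT.nd (nat_lit 234) (nat_lit 0) (nat_lit 0) (XT.nd (nat_lit 78) (nat_lit 0) (nat_lit 0) (XT.lf (nat_lit 0) (nat_lit 16647345705)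 (nat_lit 152) (nat_lit 46610403607) (nat_lit 0) (nat_lit 8523957186) (nat_lit 5) (nat_lit 5) (nat_lit 7) (nat_lit 4) (nat_lit 5) (nat_lit 4) (nat_lit 387) (nat_lit 283) (nat_lit 230)) (XT.nd (nat_lit 78) (nat_lit 0) (nat_lit 0) (XT.lf (nat_lit 0) (nat_lit 22366922223) (nat_lit 152) (nat_lit 38524826307) (nat_lit 0) (nat_lit 14212020088) (nat_lit 5) (nat_lit 5) (nat_lit 7) (nat_lit 4) (nat_lit 5) (nat_lit 4) (nat_lit 388) (nat_lit 283) (nat_lit 229)) (XT.lf (nat_lit 0) (nat_lit 28339956795) (nat_lit 152) (nat_lit 30098565667) (nat_lit 0) (nat_lit 20155041692) (nat_lit 5) (nat_lit 5) (nat_lit 7) (nat_lit 4) (nat_lit 5) (nat_lit 4) (nat_lit 389) (nat_lit 283) (nat_lit 228)))) (XT.nd (nat_lit 78) (nat_lit 0) (nat_lit 0) (XT.lf (nat_lit 0) (nat_lit 34580670934) (nat_lit 152) (nat_lit 21311559160) (nat_lit 0) (nat_lit 26367172051) (nat_lit 5) (nat_lit 5) (nat_lit 7) (nat_lit 4) (nat_lit 5) (nat_lit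 4) (nat_lit 390) (nat_lit 283) (nat_lit 227)) (XT.nd (nat_lit 78) (nat_lit 0) (nat_lit 0) (XT.lf (nat_lit 0) (nat_lit 41103923480) (nat_lit 152) (nat_lit 12142885344) (nat_lit 0) (nat_lit 32863201952) (nat_lit 5) (nat_lit 5) (nat_lit 7) (nat_lit 4) (nat_lit 5) (nat_lit 4) (nat_lit 391) (nat_lit 283) (nat_lit 226)) (XT.lf (nat_lit 0) (nat_lit 47925245990) (nat_lit 152) (nat_lit 2570714042) (nat_lit 0) (nat_lit 39658598131) (nat_lit 5) (nat_lit 5) (nat_lit 7) (nat_lit 4) (nat_lit 5) (nat_lit 4) (nat_lit 392) (nat_lit 283) (nat_lit 225))))) (XT.nd (nat_lit 234) (nat_lit 0) (nat_lit 0) (XT.nd (nat_lit 78) (nat_lit 0) (nat_lit 0) (XT.lf (nat_lit 0) (nat_lit 7673340443) (nat_lit 76) (nat_lit 47507341610) (nat_lit 76) (nat_lit 39216002008) (nat_lit 4) (nat_lit 4) (nat_lit 5) (nat_lit 5) (nat_lit 5) (nat_lit 4) (nat_lit 393) (nat_lit 283) (nat_lit 224)) (XT.nd (nat_lit 78) (nat_lit 0) (nat_lit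 0) (XT.lf (nat_lit 0) (nat_lit 18467370720) (nat_lit 76) (nat_lit 44348770923) (nat_lit 76) (nat_lit 36033915375) (nat_lit 4) (nat_lit 4) (nat_lit 5) (nat_lit 5) (nat_lit 5) (nat_lit 4) (nat_lit 394) (nat_lit 283) (nat_lit 223)) (XT.lf (nat_lit 0) (nat_lit 29752077442) (nat_lit 76) (nat_lit 41056263850) (nat_lit 76) (nat_lit 32719012163) (nat_lit 4) (nat_lit 4) (nat_lit 5) (nat_lit 5) (nat_lit 5) (nat_lit 4) (nat_lit 395) (nat_lit 283) (nat_lit 222)))) (XT.nd (nat_lit 78) (nat_lit 0) (nat_lit 0) (XT.lf (nat_lit 0) (nat_lit 41554328960) (nat_lit 76) (nat_lit 37621981090) (nat_lit 76) (nat_lit 29263399747) (nat_lit 4) (nat_lit 4) (nat_lit 5) (nat_lit 5) (nat_lit 5) (nat_lit 4) (nat_lit 396) (nat_lit 283) (nat_lit 221)) (XT.nd (nat_lit 78) (nat_lit 0) (nat_lit 0) (XT.lf (nat_lit 0) (nat_lit 53902225871) (nat_lit 76) (nat_lit 34037745777) (nat_lit 76) (nat_lit 25658850476) (nat_lit 4) (nat_lit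 4) (nat_lit 5) (nat_lit 5) (nat_lit 5) (nat_lit 4) (nat_lit 397) (nat_lit 283) (nat_lit 220)) (XT.lf (nat_lit 0) (nat_lit 66825167932) (nat_lit 76) (nat_lit 30295024020) (nat_lit 76) (nat_lit 21896782092) (nat_lit 4) (nat_lit 4) (nat_lit 5) (nat_lit 5) (nat_lit 5) (nat_lit 4) (nat_lit 398) (nat_lit 283) (nat_lit 219))))))) (XT.nd (nat_lit 936) (nat_lit 0) (nat_lit 0) (XT.nd (nat_lit 468) (nat_lit 0) (nat_lit 0) (XT.nd (nat_lit 234) (nat_lit 152) (nat_lit 0) (XT.nd (nat_lit 78) (nat_lit 0) (nat_lit 0) (XT.lf (nat_lit 0) (nat_lit 80353924050) (nat_lit 76) (nat_lit 26384904575) (nat_lit 76) (nat_lit 17968237288) (nat_lit 4) (nat_lit 4) (nat_lit 5) (nat_lit 5) (nat_lit 5) (nat_lit 4) (nat_lit 399) (nat_lit 283) (nat_lit 218)) (XT.nd (nat_lit 78) (nat_lit 0) (nat_lit 0) (XT.lf (nat_lit 0) (nat_lit 94520705551) (nat_lit 76) (nat_lit 22298077634) (nat_lit 76) (nat_lit 13863862386) (nat_lit 4)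 (nat_lit 4) (nat_lit 5) (nat_lit 5) (nat_lit 5) (nat_lit 4) (nat_lit 400) (nat_lit 283) (nat_lit 217)) (XT.lf (nat_lit 0) (nat_lit 109359242867) (nat_lit 76) (nat_lit 18024812657) (nat_lit 76) (nat_lit 9573885066) (nat_lit 4) (nat_lit 4) (nat_lit 5) (nat_lit 5) (nat_lit 5) (nat_lit 4) (nat_lit 401) (nat_lit 283) (nat_lit 216)))) (XT.nd (nat_lit 78) (nat_lit 152) (nat_lit 0) (XT.lf (nat_lit 0) (nat_lit 124904865848) (nat_lit 76) (nat_lit 13554935204) (nat_lit 76) (nat_lit 5088091095) (nat_lit 4) (nat_lit 4) (nat_lit 5) (nat_lit 5) (nat_lit 5) (nat_lit 4) (nat_lit 402) (nat_lit 283) (nat_lit 215)) (XT.nd (nat_lit 78) (nat_lit 152) (nat_lit 0) (XT.lf (nat_lit 0) (nat_lit 141194587882) (nat_lit 76) (nat_lit 8877802709) (nat_lit 76) (nat_lit 395800011) (nat_lit 4) (nat_lit 4) (nat_lit 5) (nat_lit 5) (nat_lit 5) (nat_lit 4) (nat_lit 403) (nat_lit 283) (nat_lit 214)) (XT.lf (nat_lit 0) (nat_lit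 476658519) (nat_lit 76) (nat_lit 3900462440) (nat_lit 152) (nat_lit 153354295865) (nat_lit 2) (nat_lit 5) (nat_lit 3) (nat_lit 5) (nat_lit 4) (nat_lit 4) (nat_lit 404) (nat_lit 283) (nat_lit 213))))) (XT.nd (nat_lit 234) (nat_lit 0) (nat_lit 0) (XT.nd (nat_lit 78) (nat_lit 0) (nat_lit 0) (XT.lf (nat_lit 0) (nat_lit 9539354826) (nat_lit 152) (nat_lit 154375515378) (nat_lit 0) (nat_lit 1434413174) (nat_lit 2) (nat_lit 5) (nat_lit 4) (nat_lit 4) (nat_lit 2) (nat_lit 4) (nat_lit 405) (nat_lit 283) (nat_lit 212)) (XT.nd (nat_lit 78) (nat_lit 0) (nat_lit 0) (XT.lf (nat_lit 0) (nat_lit 15008063482) (nat_lit 152) (nat_lit 151446912579) (nat_lit 0) (nat_lit 6890650822) (nat_lit 2) (nat_lit 5) (nat_lit 4) (nat_lit 4) (nat_lit 2) (nat_lit 4) (nat_lit 406) (nat_lit 283) (nat_lit 211)) (XT.lf (nat_lit 0) (nat_lit 20735370511) (nat_lit 152) (nat_lit 148401079893) (nat_lit 0) (nat_lit 12606080701) (nat_lit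 2) (nat_lit 5) (nat_lit 4) (nat_lit 4) (nat_lit 2) (nat_lit 4) (nat_lit 407) (nat_lit 283) (nat_lit 210)))) (XT.nd (nat_lit 78) (nat_lit 0) (nat_lit 0) (XT.lf (nat_lit 0) (nat_lit 26734912360) (nat_lit 152) (nat_lit 145230765339) (nat_lit 0) (nat_lit 18594310977) (nat_lit 2) (nat_lit 5) (nat_lit 4) (nat_lit 4) (nat_lit 2) (nat_lit 4) (nat_lit 408) (nat_lit 283) (nat_lit 209)) (XT.nd (nat_lit 78) (nat_lit 0) (nat_lit 0) (XT.lf (nat_lit 0) (nat_lit 33020973651) (nat_lit 152) (nat_lit 141928420547) (nat_lit 0) (nat_lit 24869599342) (nat_lit 2) (nat_lit 5) (nat_lit 4) (nat_lit 4) (nat_lit 2) (nat_lit 4) (nat_lit 409) (nat_lit 283) (nat_lit 208)) (XT.lf (nat_lit 0) (nat_lit 39608521197) (nat_lit 152) (nat_lit 138486182794) (nat_lit 0) (nat_lit 31446886959) (nat_lit 2) (nat_lit 5) (nat_lit 4) (nat_lit 4) (nat_lit 2) (nat_lit 4) (nat_lit 410) (nat_lit 283) (nat_lit 207)))))) (XT.nd (nat_lit 468)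 (nat_lit 0) (nat_lit 0) (XT.nd (nat_lit 234) (nat_lit 0) (nat_lit 0) (XT.nd (nat_lit 78) (nat_lit 0) (nat_lit 0) (XT.lf (nat_lit 0) (nat_lit 46513239635) (nat_lit 152) (nat_lit 134895856274) (nat_lit 0) (nat_lit 38341834036) (nat_lit 2) (nat_lit 5) (nat_lit 4) (nat_lit 4) (nat_lit 2) (nat_lit 4) (nat_lit 411) (nat_lit 283) (nat_lit 206)) (XT.nd (nat_lit 78) (nat_lit 0) (nat_lit 0) (XT.lf (nat_lit 0) (nat_lit 53751568771) (nat_lit 152) (nat_lit 131148892591) (nat_lit 0) (nat_lit 45570857114) (nat_lit 2) (nat_lit 5) (nat_lit 4) (nat_lit 4) (nat_lit 2) (nat_lit 4) (nat_lit 412) (nat_lit 283) (nat_lit 205)) (XT.lf (nat_lit 0) (nat_lit 61340742722) (nat_lit 152) (nat_lit 127236370403) (nat_lit 0) (nat_lit 53151168153) (nat_lit 2) (nat_lit 5) (nat_lit 4) (nat_lit 4) (nat_lit 2) (nat_lit 4) (nat_lit 413) (nat_lit 283) (nat_lit 204)))) (XT.nd (nat_lit 78) (nat_lit 0) (nat_lit 0) (XT.lf (nat_lit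 0) (nat_lit 69298830950) (nat_lit 152) (nat_lit 123148974181) (nat_lit 0) (nat_lit 61100815511) (nat_lit 2) (nat_lit 5) (nat_lit 4) (nat_lit 4) (nat_lit 2) (nat_lit 4) (nat_lit 414) (nat_lit 283) (nat_lit 203)) (XT.nd (nat_lit 78) (nat_lit 0) (nat_lit 0) (XT.lf (nat_lit 0) (nat_lit 77644781284) (nat_lit 152) (nat_lit 118876972029) (nat_lit 0) (nat_lit 69438726922) (nat_lit 2) (nat_lit 5) (nat_lit 4) (nat_lit 4) (nat_lit 2) (nat_lit 4) (nat_lit 415) (nat_lit 283) (nat_lit 202)) (XT.lf (nat_lit 0) (nat_lit 86398465034) (nat_lit 152) (nat_lit 114410192514) (nat_lit 0) (nat_lit 78184754554) (nat_lit 2) (nat_lit 5) (nat_lit 4) (nat_lit 4) (nat_lit 2) (nat_lit 4) (nat_lit 416) (nat_lit 283) (nat_lit 201))))) (XT.nd (nat_lit 234) (nat_lit 0) (nat_lit 0) (XT.nd (nat_lit 78) (nat_lit 0) (nat_lit 0) (XT.lf (nat_lit 0) (nat_lit 95580724304) (nat_lit 152) (nat_lit 109738000445) (nat_lit 0) (nat_lit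 87359722284) (nat_lit 2) (nat_lit 5) (nat_lit 4) (nat_lit 4) (nat_lit 2) (nat_lit 4) (nat_lit 417) (nat_lit 283) (nat_lit 200)) (XT.nd (nat_lit 78) (nat_lit 0) (nat_lit 0) (XT.lf (nat_lit 0) (nat_lit 105213421616) (nat_lit 152) (nat_lit 104849271557) (nat_lit 0) (nat_lit 96985475272) (nat_lit 2) (nat_lit 5) (nat_lit 4) (nat_lit 4) (nat_lit 2) (nat_lit 4) (nat_lit 418) (nat_lit 283) (nat_lit 199)) (XT.lf (nat_lit 0) (nat_lit 115319491964) (nat_lit 152) (nat_lit 99732366019) (nat_lit 0) (nat_lit 107084931979) (nat_lit 2) (nat_lit 5) (nat_lit 4) (nat_lit 4) (nat_lit 2) (nat_lit 4) (nat_lit 419) (nat_lit 283) (nat_lit 198)))) (XT.nd (nat_lit 78) (nat_lit 0) (nat_lit 0) (XT.lf (nat_lit 0) (nat_lit 125922997421) (nat_lit 152) (nat_lit 94375100721) (nat_lit 0) (nat_lit 117682138729) (nat_lit 2) (nat_lit 5) (nat_lit 4) (nat_lit 4) (nat_lit 2) (nat_lit 4) (nat_lit 420) (nat_lit 283) (nat_lit 197))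 (XT.nd (nat_lit 78) (nat_lit 0) (nat_lit 0) (XT.lf (nat_lit 0) (nat_lit 137049184427) (nat_lit 152) (nat_lit 88764720272) (nat_lit 0) (nat_lit 128802326967) (nat_lit 2) (nat_lit 5) (nat_lit 4) (nat_lit 4) (nat_lit 2) (nat_lit 4) (nat_lit 421) (nat_lit 283) (nat_lit 196)) (XT.lf (nat_lit 0) (nat_lit 148724543905) (nat_lit 152) (nat_lit 82887866621) (nat_lit 0) (nat_lit 140471973332) (nat_lit 2) (nat_lit 5) (nat_lit 4) (nat_lit 4) (nat_lit 2) (nat_lit 4) (nat_lit 422) (nat_lit 283) (nat_lit 195))))))))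
noncomputable def xc59 : XT := (XT.nd (nat_lit 40482) (nat_lit 0) (nat_lit 988) (XT.nd (nat_lit 936) (nat_lit 0) (nat_lit 0) (XT.nd (nat_lit 468) (nat_lit 76) (nat_lit 0) (XT.nd (nat_lit 234) (nat_lit 0) (nat_lit 0) (XT.nd (nat_lit 78) (nat_lit 0) (nat_lit 0) (XT.lf (nat_lit 0) (nat_lit 160976874329) (nat_lit 152) (nat_lit 76730547260) (nat_lit 0) (nat_lit 152718862697) (nat_lit 2) (nat_lit 5) (nat_lit 4) (nat_lit 4) (nat_lit 2) (nat_lit 4) (nat_lit 423) (nat_lit 283) (nat_lit 194)) (XT.nd (nat_lit 78) (nat_lit 0) (nat_lit 0) (XT.lf (nat_lit 0) (nat_lit 173835347914) (nat_lit 152) (nat_lit 70278101906) (nat_lit 0) (nat_lit 165572154321) (nat_lit 2) (nat_lit 5) (nat_lit 4) (nat_lit 4) (nat_lit 2) (nat_lit 4) (nat_lit 424) (nat_lit 283) (nat_lit 193)) (XT.lf (nat_lit 0) (nat_lit 187330580074) (nat_lit 152) (nat_lit 63515167592) (nat_lit 0) (nat_lit 179062451279) (nat_lit 2) (nat_lit 5) (nat_lit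 4) (nat_lit 4) (nat_lit 2) (nat_lit 4) (nat_lit 425) (nat_lit 283) (nat_lit 192)))) (XT.nd (nat_lit 78) (nat_lit 0) (nat_lit 0) (XT.lf (nat_lit 0) (nat_lit 201494702314) (nat_lit 152) (nat_lit 56425642095) (nat_lit 0) (nat_lit 193221873328) (nat_lit 2) (nat_lit 5) (nat_lit 4) (nat_lit 4) (nat_lit 2) (nat_lit 4) (nat_lit 426) (nat_lit 283) (nat_lit 191)) (XT.nd (nat_lit 78) (nat_lit 0) (nat_lit 0) (XT.lf (nat_lit 0) (nat_lit 216361438735) (nat_lit 152) (nat_lit 48992645591) (nat_lit 0) (nat_lit 208084133375) (nat_lit 2) (nat_lit 5) (nat_lit 4) (nat_lit 4) (nat_lit 2) (nat_lit 4) (nat_lit 427) (nat_lit 283) (nat_lit 190)) (XT.lf (nat_lit 0) (nat_lit 231966186327) (nat_lit 152) (nat_lit 41198480471) (nat_lit 0) (nat_lit 223684617755) (nat_lit 2) (nat_lit 5) (nat_lit 4) (nat_lit 4) (nat_lit 2) (nat_lit 4) (nat_lit 428) (nat_lit 283) (nat_lit 189))))) (XT.nd (nat_lit 234) (nat_lit 76) (nat_lit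 0) (XT.nd (nat_lit 78) (nat_lit 0) (nat_lit 0) (XT.lf (nat_lit 0) (nat_lit 248346099253) (nat_lit 152) (nat_lit 33024589197) (nat_lit 0) (nat_lit 240060470478) (nat_lit 2) (nat_lit 5) (nat_lit 4) (nat_lit 4) (nat_lit 2) (nat_lit 4) (nat_lit 429) (nat_lit 283) (nat_lit 188)) (XT.nd (nat_lit 78) (nat_lit 0) (nat_lit 0) (XT.lf (nat_lit 0) (nat_lit 265540177304) (nat_lit 152) (nat_lit 24451510124) (nat_lit 0) (nat_lit 257250681669) (nat_lit 2) (nat_lit 5) (nat_lit 4) (nat_lit 4) (nat_lit 2) (nat_lit 4) (nat_lit 430) (nat_lit 283) (nat_lit 187)) (XT.lf (nat_lit 0) (nat_lit 283589358761) (nat_lit 152) (nat_lit 15458831160) (nat_lit 0) (nat_lit 275296180404) (nat_lit 2) (nat_lit 5) (nat_lit 4) (nat_lit 4) (nat_lit 2) (nat_lit 4) (nat_lit 431) (nat_lit 283) (nat_lit 186)))) (XT.nd (nat_lit 78) (nat_lit 76) (nat_lit 0) (XT.lf (nat_lit 0) (nat_lit 302536617867) (nat_lit 152) (nat_lit 6025141163)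 (nat_lit 0) (nat_lit 294239932154) (nat_lit 2) (nat_lit 5) (nat_lit 4) (nat_lit 4) (nat_lit 2) (nat_lit 4) (nat_lit 432) (nat_lit 283) (nat_lit 185)) (XT.nd (nat_lit 78) (nat_lit 0) (nat_lit 0) (XT.lf (nat_lit 0) (nat_lit 4000047533) (nat_lit 76) (nat_lit 318489471562) (nat_lit 76) (nat_lit 310189445510) (nat_lit 1) (nat_lit 4) (nat_lit 2) (nat_lit 5) (nat_lit 2) (nat_lit 4) (nat_lit 433) (nat_lit 283) (nat_lit 184)) (XT.lf (nat_lit 0) (nat_lit 14727595117) (nat_lit 76) (nat_lit 328810408718) (nat_lit 76) (nat_lit 320507201391) (nat_lit 1) (nat_lit 4) (nat_lit 2) (nat_lit 5) (nat_lit 2) (nat_lit 4) (nat_lit 434) (nat_lit 283) (nat_lit 183)))))) (XT.nd (nat_lit 39078) (nat_lit 0) (nat_lit 2660) (XT.nd (nat_lit 38844) (nat_lit 0) (nat_lit 3496) (XT.nd (nat_lit 78) (nat_lit 0) (nat_lit 0) (XT.lf (nat_lit 0) (nat_lit 25983824990) (nat_lit 76) (nat_lit 339651182840) (nat_lit 76) (nat_lit 331344945728)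 (nat_lit 1) (nat_lit 4) (nat_lit 2) (nat_lit 5) (nat_lit 2) (nat_lit 4) (nat_lit 435) (nat_lit 283) (nat_lit 182)) (XT.nd (nat_lit 78) (nat_lit 0) (nat_lit 0) (XT.lf (nat_lit 0) (nat_lit 37795537700) (nat_lit 76) (nat_lit 351037605296) (nat_lit 76) (nat_lit 342728482674) (nat_lit 1) (nat_lit 4) (nat_lit 2) (nat_lit 5) (nat_lit 2) (nat_lit 4) (nat_lit 436) (nat_lit 283) (nat_lit 181)) (XT.lf (nat_lit 0) (nat_lit 50190856372) (nat_lit 76) (nat_lit 362996786615) (nat_lit 76) (nat_lit 354684915888) (nat_lit 1) (nat_lit 4) (nat_lit 2) (nat_lit 5) (nat_lit 2) (nat_lit 4) (nat_lit 437) (nat_lit 283) (nat_lit 180)))) (XT.nd (nat_lit 78) (nat_lit 228) (nat_lit 0) (XT.lf (nat_lit 0) (nat_lit 45268215) (nat_lit 228) (nat_lit 4771630810) (nat_lit 0) (nat_lit 45268215) (nat_lit 50) (nat_lit 5) (nat_lit 53) (nat_lit 4) (nat_lit 50) (nat_lit 4) (nat_lit 332) (nat_lit 284) (nat_lit 284)) (XT.nd (nat_lit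 78) (nat_lit 228) (nat_lit 0) (XT.lf (nat_lit 0) (nat_lit 4374184080) (nat_lit 228) (nat_lit 1992261749) (nat_lit 0) (nat_lit 3585338523) (nat_lit 50) (nat_lit 5) (nat_lit 53) (nat_lit 4) (nat_lit 50) (nat_lit 4) (nat_lit 333) (nat_lit 284) (nat_lit 283)) (XT.lf (nat_lit 0) (nat_lit 5871402694) (nat_lit 228) (nat_lit 2931448092) (nat_lit 228) (nat_lit 1391321053) (nat_lit 47) (nat_lit 4) (nat_lit 50) (nat_lit 5) (nat_lit 50) (nat_lit 4) (nat_lit 334) (nat_lit 284) (nat_lit 282))))) (XT.nd (nat_lit 234) (nat_lit 380) (nat_lit 0) (XT.nd (nat_lit 78) (nat_lit 228) (nat_lit 0) (XT.lf (nat_lit 0) (nat_lit 2849618942) (nat_lit 228) (nat_lit 6898339563) (nat_lit 0) (nat_lit 701396834) (nat_lit 44) (nat_lit 5) (nat_lit 47) (nat_lit 4) (nat_lit 44) (nat_lit 4) (nat_lit 335) (nat_lit 284) (nat_lit 281)) (XT.nd (nat_lit 78) (nat_lit 76) (nat_lit 0) (XT.lf (nat_lit 0) (nat_lit 957060028) (nat_lit 152)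 (nat_lit 6278700814) (nat_lit 152) (nat_lit 3481493514) (nat_lit 42) (nat_lit 4) (nat_lit 44) (nat_lit 5) (nat_lit 44) (nat_lit 4) (nat_lit 336) (nat_lit 284) (nat_lit 280)) (XT.lf (nat_lit 0) (nat_lit 777890132) (nat_lit 228) (nat_lit 1820613662) (nat_lit 76) (nat_lit 8401360563) (nat_lit 41) (nat_lit 5) (nat_lit 44) (nat_lit 5) (nat_lit 42) (nat_lit 4) (nat_lit 337) (nat_lit 284) (nat_lit 279)))) (XT.nd (nat_lit 78) (nat_lit 228) (nat_lit 0) (XT.lf (nat_lit 0) (nat_lit 5105210196) (nat_lit 228) (nat_lit 4898085644) (nat_lit 0) (nat_lit 1291936734) (nat_lit 39) (nat_lit 5) (nat_lit 42) (nat_lit 4) (nat_lit 39) (nat_lit 4) (nat_lit 338) (nat_lit 284) (nat_lit 278)) (XT.nd (nat_lit 78) (nat_lit 76) (nat_lit 0) (XT.lf (nat_lit 0) (nat_lit 3300498272) (nat_lit 152) (nat_lit 6326615621) (nat_lit 152) (nat_lit 1979420436) (nat_lit 37) (nat_lit 4) (nat_lit 39) (nat_lit 5) (nat_lit 39) (nat_lit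 4) (nat_lit 339) (nat_lit 284) (nat_lit 277)) (XT.lf (nat_lit 0) (nat_lit 2301406823) (nat_lit 228) (nat_lit 137808077) (nat_lit 76) (nat_lit 9495456855) (nat_lit 36) (nat_lit 5) (nat_lit 39) (nat_lit 5) (nat_lit 37) (nat_lit 4) (nat_lit 340) (nat_lit 284) (nat_lit 276))))))) (XT.nd (nat_lit 936) (nat_lit 608) (nat_lit 0) (XT.nd (nat_lit 468) (nat_lit 456) (nat_lit 0) (XT.nd (nat_lit 234) (nat_lit 228) (nat_lit 0) (XT.nd (nat_lit 78) (nat_lit 304) (nat_lit 0) (XT.lf (nat_lit 0) (nat_lit 6748863023) (nat_lit 152) (nat_lit 3864668029) (nat_lit 0) (nat_lit 1663172730) (nat_lit 35) (nat_lit 5) (nat_lit 37) (nat_lit 4) (nat_lit 35) (nat_lit 4) (nat_lit 341) (nat_lit 284) (nat_lit 275)) (XT.nd (nat_lit 78) (nat_lit 152) (nat_lit 0) (XT.lf (nat_lit 0) (nat_lit 4628661920) (nat_lit 152) (nat_lit 6766677339) (nat_lit 152) (nat_lit 1241728323) (nat_lit 33) (nat_lit 4) (nat_lit 35) (nat_lit 5) (nat_lit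 35) (nat_lit 4) (nat_lit 342) (nat_lit 284) (nat_lit 274)) (XT.lf (nat_lit 0) (nat_lit 390548791) (nat_lit 76) (nat_lit 2699128988) (nat_lit 152) (nat_lit 9926520326) (nat_lit 31) (nat_lit 5) (nat_lit 32) (nat_lit 5) (nat_lit 33) (nat_lit 4) (nat_lit 343) (nat_lit 284) (nat_lit 273)))) (XT.nd (nat_lit 78) (nat_lit 228) (nat_lit 0) (XT.lf (nat_lit 0) (nat_lit 7622286739) (nat_lit 152) (nat_lit 4207154763) (nat_lit 0) (nat_lit 1582561722) (nat_lit 31) (nat_lit 5) (nat_lit 33) (nat_lit 4) (nat_lit 31) (nat_lit 4) (nat_lit 344) (nat_lit 284) (nat_lit 272)) (XT.nd (nat_lit 78) (nat_lit 76) (nat_lit 0) (XT.lf (nat_lit 0) (nat_lit 4503572353) (nat_lit 152) (nat_lit 7862965676) (nat_lit 152) (nat_lit 1461861421) (nat_lit 29) (nat_lit 4) (nat_lit 31) (nat_lit 5) (nat_lit 31) (nat_lit 4) (nat_lit 345) (nat_lit 284) (nat_lit 271)) (XT.lf (nat_lit 0) (nat_lit 2927129590) (nat_lit 228) (nat_lit 744659299)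 (nat_lit 76) (nat_lit 10594297090) (nat_lit 28) (nat_lit 5) (nat_lit 31) (nat_lit 5) (nat_lit 29) (nat_lit 4) (nat_lit 346) (nat_lit 284) (nat_lit 270))))) (XT.nd (nat_lit 234) (nat_lit 152) (nat_lit 0) (XT.nd (nat_lit 78) (nat_lit 228) (nat_lit 0) (XT.lf (nat_lit 0) (nat_lit 7505362711) (nat_lit 152) (nat_lit 6449075932) (nat_lit 0) (nat_lit 769118348) (nat_lit 27) (nat_lit 5) (nat_lit 29) (nat_lit 4) (nat_lit 27) (nat_lit 4) (nat_lit 347) (nat_lit 284) (nat_lit 269)) (XT.nd (nat_lit 78) (nat_lit 76) (nat_lit 0) (XT.lf (nat_lit 0) (nat_lit 2363028071) (nat_lit 152) (nat_lit 9937532554) (nat_lit 152) (nat_lit 2903980597) (nat_lit 25) (nat_lit 4) (nat_lit 27) (nat_lit 5) (nat_lit 27) (nat_lit 4) (nat_lit 348) (nat_lit 284) (nat_lit 268)) (XT.lf (nat_lit 0) (nat_lit 1563496683) (nat_lit 228) (nat_lit 4111533845) (nat_lit 76) (nat_lit 10033833588) (nat_lit 24) (nat_lit 5) (nat_lit 27) (nat_lit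 5) (nat_lit 25) (nat_lit 4) (nat_lit 349) (nat_lit 284) (nat_lit 267)))) (XT.nd (nat_lit 78) (nat_lit 76) (nat_lit 0) (XT.lf (nat_lit 0) (nat_lit 4956571116) (nat_lit 76) (nat_lit 1161936158) (nat_lit 152) (nat_lit 10119464518) (nat_lit 23) (nat_lit 5) (nat_lit 24) (nat_lit 5) (nat_lit 25) (nat_lit 4) (nat_lit 350) (nat_lit 284) (nat_lit 266)) (XT.nd (nat_lit 78) (nat_lit 76) (nat_lit 0) (XT.lf (nat_lit 0) (nat_lit 10913093598) (nat_lit 152) (nat_lit 2436500052) (nat_lit 0) (nat_lit 3443384763) (nat_lit 23) (nat_lit 5) (nat_lit 25) (nat_lit 4) (nat_lit 23) (nat_lit 4) (nat_lit 351) (nat_lit 284) (nat_lit 265)) (XT.lf (nat_lit 0) (nat_lit 6850586965) (nat_lit 76) (nat_lit 9113502337) (nat_lit 76) (nat_lit 1410845223) (nat_lit 22) (nat_lit 4) (nat_lit 23) (nat_lit 5) (nat_lit 23) (nat_lit 4) (nat_lit 352) (nat_lit 284) (nat_lit 264)))))) (XT.nd (nat_lit 468) (nat_lit 228) (nat_lit 0) (XT.nd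 (nat_lit 234) (nat_lit 228) (nat_lit 0) (XT.nd (nat_lit 78) (nat_lit 76) (nat_lit 0) (XT.lf (nat_lit 0) (nat_lit 3109569695) (nat_lit 152) (nat_lit 1549894741) (nat_lit 76) (nat_lit 13327344473) (nat_lit 21) (nat_lit 5) (nat_lit 23) (nat_lit 5) (nat_lit 22) (nat_lit 4) (nat_lit 353) (nat_lit 284) (nat_lit 263)) (XT.nd (nat_lit 78) (nat_lit 0) (nat_lit 0) (XT.lf (nat_lit 0) (nat_lit 7829641541) (nat_lit 152) (nat_lit 10716198014) (nat_lit 0) (nat_lit 81257184) (nat_lit 20) (nat_lit 5) (nat_lit 22) (nat_lit 4) (nat_lit 20) (nat_lit 4) (nat_lit 354) (nat_lit 284) (nat_lit 262)) (XT.lf (nat_lit 0) (nat_lit 12785646766) (nat_lit 152) (nat_lit 1668167704) (nat_lit 0) (nat_lit 4845615284) (nat_lit 20) (nat_lit 5) (nat_lit 22) (nat_lit 4) (nat_lit 20) (nat_lit 4) (nat_lit 355) (nat_lit 284) (nat_lit 261)))) (XT.nd (nat_lit 78) (nat_lit 152) (nat_lit 0) (XT.lf (nat_lit 0) (nat_lit 7902520898) (nat_lit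 76) (nat_lit 10112089575) (nat_lit 76) (nat_lit 1989537020) (nat_lit 19) (nat_lit 4) (nat_lit 20) (nat_lit 5) (nat_lit 20) (nat_lit 4) (nat_lit 356) (nat_lit 284) (nat_lit 260)) (XT.nd (nat_lit 78) (nat_lit 76) (nat_lit 0) (XT.lf (nat_lit 0) (nat_lit 2603314339) (nat_lit 152) (nat_lit 2959587752) (nat_lit 76) (nat_lit 15182529319) (nat_lit 18) (nat_lit 5) (nat_lit 20) (nat_lit 5) (nat_lit 19) (nat_lit 4) (nat_lit 357) (nat_lit 284) (nat_lit 259)) (XT.lf (nat_lit 0) (nat_lit 6645355021) (nat_lit 76) (nat_lit 724054326) (nat_lit 152) (nat_lit 14152238726) (nat_lit 17) (nat_lit 5) (nat_lit 18) (nat_lit 5) (nat_lit 19) (nat_lit 4) (nat_lit 358) (nat_lit 284) (nat_lit 258))))) (XT.nd (nat_lit 234) (nat_lit 152) (nat_lit 0) (XT.nd (nat_lit 78) (nat_lit 76) (nat_lit 0) (XT.lf (nat_lit 0) (nat_lit 12400000894) (nat_lit 152) (nat_lit 5744531001) (nat_lit 0) (nat_lit 4190855460) (nat_lit 17) (nat_lit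 5) (nat_lit 19) (nat_lit 4) (nat_lit 17) (nat_lit 4) (nat_lit 359) (nat_lit 284) (nat_lit 257)) (XT.nd (nat_lit 78) (nat_lit 0) (nat_lit 0) (XT.lf (nat_lit 0) (nat_lit 3786656401) (nat_lit 76) (nat_lit 13878100640) (nat_lit 76) (nat_lit 5525945170) (nat_lit 16) (nat_lit 4) (nat_lit 17) (nat_lit 5) (nat_lit 17) (nat_lit 4) (nat_lit 360) (nat_lit 284) (nat_lit 256)) (XT.lf (nat_lit 0) (nat_lit 13830035976) (nat_lit 76) (nat_lit 9373296330) (nat_lit 76) (nat_lit 884940826) (nat_lit 16) (nat_lit 4) (nat_lit 17) (nat_lit 5) (nat_lit 17) (nat_lit 4) (nat_lit 361) (nat_lit 284) (nat_lit 255)))) (XT.nd (nat_lit 78) (nat_lit 76) (nat_lit 0) (XT.lf (nat_lit 0) (nat_lit 3776521316) (nat_lit 152) (nat_lit 876201123) (nat_lit 76) (nat_lit 20379101860) (nat_lit 15) (nat_lit 5) (nat_lit 17) (nat_lit 5) (nat_lit 16) (nat_lit 4) (nat_lit 362) (nat_lit 284) (nat_lit 254)) (XT.nd (nat_lit 78) (nat_lit 0)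 (nat_lit 0) (XT.lf (nat_lit 0) (nat_lit 8709648693) (nat_lit 152) (nat_lit 16924470685) (nat_lit 0) (nat_lit 384308437) (nat_lit 14) (nat_lit 5) (nat_lit 16) (nat_lit 4) (nat_lit 14) (nat_lit 4) (nat_lit 363) (nat_lit 284) (nat_lit 253)) (XT.lf (nat_lit 0) (nat_lit 13901224357) (nat_lit 152) (nat_lit 7688731511) (nat_lit 0) (nat_lit 5463831995) (nat_lit 14) (nat_lit 5) (nat_lit 16) (nat_lit 4) (nat_lit 14) (nat_lit 4) (nat_lit 364) (nat_lit 284) (nat_lit 252))))))))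
noncomputable def xc60 : XT := (XT.nd (nat_lit 1794) (nat_lit 228) (nat_lit 0) (XT.nd (nat_lit 858) (nat_lit 304) (nat_lit 0) (XT.nd (nat_lit 390) (nat_lit 152) (nat_lit 0) (XT.nd (nat_lit 156) (nat_lit 152) (nat_lit 0) (XT.nd (nat_lit 78) (nat_lit 0) (nat_lit 0) (XT.lf (nat_lit 0) (nat_lit 1926022638) (nat_lit 76) (nat_lit 17380651185) (nat_lit 76) (nat_lit 8836542533) (nat_lit 13) (nat_lit 4) (nat_lit 14) (nat_lit 5) (nat_lit 14) (nat_lit 4) (nat_lit 365) (nat_lit 284) (nat_lit 251)) (XT.lf (nat_lit 0) (nat_lit 12146362458) (nat_lit 76) (nat_lit 12891860079) (nat_lit 76) (nat_lit 4246116864) (nat_lit 13) (nat_lit 4) (nat_lit 14) (nat_lit 5) (nat_lit 14) (nat_lit 4) (nat_lit 366) (nat_lit 284) (nat_lit 250))) (XT.nd (nat_lit 78) (nat_lit 76) (nat_lit 0) (XT.lf (nat_lit 0) (nat_lit 483445792) (nat_lit 152) (nat_lit 7751474161) (nat_lit 76) (nat_lit 22250764723) (nat_lit 12) (nat_lit 5)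 (nat_lit 14) (nat_lit 5) (nat_lit 13) (nat_lit 4) (nat_lit 367) (nat_lit 284) (nat_lit 249)) (XT.nd (nat_lit 78) (nat_lit 0) (nat_lit 0) (XT.lf (nat_lit 0) (nat_lit 1966528644) (nat_lit 76) (nat_lit 3302374880) (nat_lit 152) (nat_lit 26476620051) (nat_lit 11) (nat_lit 5) (nat_lit 12) (nat_lit 5) (nat_lit 13) (nat_lit 4) (nat_lit 368) (nat_lit 284) (nat_lit 248)) (XT.lf (nat_lit 0) (nat_lit 10388062539) (nat_lit 152) (nat_lit 20785157288) (nat_lit 0) (nat_lit 1890425074) (nat_lit 11) (nat_lit 5) (nat_lit 13) (nat_lit 4) (nat_lit 11) (nat_lit 4) (nat_lit 369) (nat_lit 284) (nat_lit 247))))) (XT.nd (nat_lit 234) (nat_lit 76) (nat_lit 0) (XT.nd (nat_lit 78) (nat_lit 76) (nat_lit 0) (XT.lf (nat_lit 0) (nat_lit 15752268525) (nat_lit 152) (nat_lit 11520962934) (nat_lit 0) (nat_lit 7174997721) (nat_lit 11) (nat_lit 5) (nat_lit 13) (nat_lit 4) (nat_lit 11) (nat_lit 4) (nat_lit 370) (nat_lit 284)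 (nat_lit 246)) (XT.nd (nat_lit 78) (nat_lit 76) (nat_lit 0) (XT.lf (nat_lit 0) (nat_lit 21322734075) (nat_lit 152) (nat_lit 1912794935) (nat_lit 0) (nat_lit 12669621996) (nat_lit 11) (nat_lit 5) (nat_lit 13) (nat_lit 4) (nat_lit 11) (nat_lit 4) (nat_lit 371) (nat_lit 284) (nat_lit 245)) (XT.lf (nat_lit 0) (nat_lit 8328796809) (nat_lit 76) (nat_lit 18913961253) (nat_lit 76) (nat_lit 10188619387) (nat_lit 10) (nat_lit 4) (nat_lit 11) (nat_lit 5) (nat_lit 11) (nat_lit 4) (nat_lit 372) (nat_lit 284) (nat_lit 244)))) (XT.nd (nat_lit 78) (nat_lit 76) (nat_lit 0) (XT.lf (nat_lit 0) (nat_lit 19037149479) (nat_lit 76) (nat_lit 14396092367) (nat_lit 76) (nat_lit 5601960229) (nat_lit 10) (nat_lit 4) (nat_lit 11) (nat_lit 5) (nat_lit 11) (nat_lit 4) (nat_lit 373) (nat_lit 284) (nat_lit 243)) (XT.nd (nat_lit 78) (nat_lit 76) (nat_lit 0) (XT.lf (nat_lit 0) (nat_lit 30174513515) (nat_lit 76) (nat_lit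 9703559632) (nat_lit 76) (nat_lit 843912949) (nat_lit 10) (nat_lit 4) (nat_lit 11) (nat_lit 5) (nat_lit 11) (nat_lit 4) (nat_lit 374) (nat_lit 284) (nat_lit 242)) (XT.lf (nat_lit 0) (nat_lit 3965726316) (nat_lit 152) (nat_lit 792302538) (nat_lit 76) (nat_lit 37734518638) (nat_lit 9) (nat_lit 5) (nat_lit 11) (nat_lit 5) (nat_lit 10) (nat_lit 4) (nat_lit 375) (nat_lit 284) (nat_lit 241)))))) (XT.nd (nat_lit 468) (nat_lit 152) (nat_lit 0) (XT.nd (nat_lit 234) (nat_lit 76) (nat_lit 0) (XT.nd (nat_lit 78) (nat_lit 0) (nat_lit 0) (XT.lf (nat_lit 0) (nat_lit 9095978615) (nat_lit 152) (nat_lit 34707347749) (nat_lit 0) (nat_lit 542202317) (nat_lit 8) (nat_lit 5) (nat_lit 10) (nat_lit 4) (nat_lit 8) (nat_lit 4) (nat_lit 376) (nat_lit 284) (nat_lit 240)) (XT.nd (nat_lit 78) (nat_lit 0) (nat_lit 0) (XT.lf (nat_lit 0) (nat_lit 14523692160) (nat_lit 152) (nat_lit 25849410126) (nat_lit 0) (nat_lit 5916016884)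 (nat_lit 8) (nat_lit 5) (nat_lit 10) (nat_lit 4) (nat_lit 8) (nat_lit 4) (nat_lit 377) (nat_lit 284) (nat_lit 239)) (XT.lf (nat_lit 0) (nat_lit 20174515349) (nat_lit 152) (nat_lit 16642287231) (nat_lit 0) (nat_lit 11515507713) (nat_lit 8) (nat_lit 5) (nat_lit 10) (nat_lit 4) (nat_lit 8) (nat_lit 4) (nat_lit 378) (nat_lit 284) (nat_lit 238)))) (XT.nd (nat_lit 78) (nat_lit 76) (nat_lit 0) (XT.lf (nat_lit 0) (nat_lit 26061902522) (nat_lit 152) (nat_lit 7064057344) (nat_lit 0) (nat_lit 17354006924) (nat_lit 8) (nat_lit 5) (nat_lit 10) (nat_lit 4) (nat_lit 8) (nat_lit 4) (nat_lit 379) (nat_lit 284) (nat_lit 237)) (XT.nd (nat_lit 78) (nat_lit 0) (nat_lit 0) (XT.lf (nat_lit 0) (nat_lit 3004239262) (nat_lit 76) (nat_lit 29242536601) (nat_lit 76) (nat_lit 20488081038) (nat_lit 7) (nat_lit 4) (nat_lit 8) (nat_lit 5) (nat_lit 8) (nat_lit 4) (nat_lit 380) (nat_lit 284) (nat_lit 236)) (XT.lf (nat_lit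 0) (nat_lit 13737570581) (nat_lit 76) (nat_lit 25079947194) (nat_lit 76) (nat_lit 16281148808) (nat_lit 7) (nat_lit 4) (nat_lit 8) (nat_lit 5) (nat_lit 8) (nat_lit 4) (nat_lit 381) (nat_lit 284) (nat_lit 235))))) (XT.nd (nat_lit 234) (nat_lit 152) (nat_lit 0) (XT.nd (nat_lit 78) (nat_lit 0) (nat_lit 0) (XT.lf (nat_lit 0) (nat_lit 24927922525) (nat_lit 76) (nat_lit 20747913950) (nat_lit 76) (nat_lit 11906884304) (nat_lit 7) (nat_lit 4) (nat_lit 8) (nat_lit 5) (nat_lit 8) (nat_lit 4) (nat_lit 382) (nat_lit 284) (nat_lit 234)) (XT.nd (nat_lit 78) (nat_lit 0) (nat_lit 0) (XT.lf (nat_lit 0) (nat_lit 36601938789) (nat_lit 76) (nat_lit 16236122502) (nat_lit 76) (nat_lit 7354872609) (nat_lit 7) (nat_lit 4) (nat_lit 8) (nat_lit 5) (nat_lit 8) (nat_lit 4) (nat_lit 383) (nat_lit 284) (nat_lit 233)) (XT.lf (nat_lit 0) (nat_lit 48787414650) (nat_lit 76) (nat_lit 11533830491) (nat_lit 76) (nat_lit 2614275600)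 (nat_lit 7) (nat_lit 4) (nat_lit 8) (nat_lit 5) (nat_lit 8) (nat_lit 4) (nat_lit 384) (nat_lit 284) (nat_lit 232)))) (XT.nd (nat_lit 78) (nat_lit 76) (nat_lit 0) (XT.lf (nat_lit 0) (nat_lit 2251741127) (nat_lit 152) (nat_lit 4339966530) (nat_lit 76) (nat_lit 59223487693) (nat_lit 6) (nat_lit 5) (nat_lit 8) (nat_lit 5) (nat_lit 7) (nat_lit 4) (nat_lit 385) (nat_lit 284) (nat_lit 231)) (XT.nd (nat_lit 78) (nat_lit 0) (nat_lit 0) (XT.lf (nat_lit 0) (nat_lit 6042457135) (nat_lit 76) (nat_lit 1290829078) (nat_lit 152) (nat_lit 61500425121) (nat_lit 5) (nat_lit 5) (nat_lit 6) (nat_lit 5) (nat_lit 7) (nat_lit 4) (nat_lit 386) (nat_lit 284) (nat_lit 230)) (XT.lf (nat_lit 0) (nat_lit 12776212277) (nat_lit 152) (nat_lit 55039528723) (nat_lit 0) (nat_lit 4182051419) (nat_lit 5) (nat_lit 5) (nat_lit 7) (nat_lit 4) (nat_lit 5) (nat_lit 4) (nat_lit 387) (nat_lit 284) (nat_lit 229))))))) (XT.nd (nat_lit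 936) (nat_lit 152) (nat_lit 0) (XT.nd (nat_lit 468) (nat_lit 76) (nat_lit 0) (XT.nd (nat_lit 234) (nat_lit 0) (nat_lit 0) (XT.nd (nat_lit 78) (nat_lit 0) (nat_lit 0) (XT.lf (nat_lit 0) (nat_lit 18479925004) (nat_lit 152) (nat_lit 46984973630) (nat_lit 0) (nat_lit 9855751178) (nat_lit 5) (nat_lit 5) (nat_lit 7) (nat_lit 4) (nat_lit 5) (nat_lit 4) (nat_lit 388) (nat_lit 284) (nat_lit 228)) (XT.nd (nat_lit 78) (nat_lit 0) (nat_lit 0) (XT.lf (nat_lit 0) (nat_lit 24437851204) (nat_lit 152) (nat_lit 38588257949) (nat_lit 0) (nat_lit 15785093599) (nat_lit 5) (nat_lit 5) (nat_lit 7) (nat_lit 4) (nat_lit 5) (nat_lit 4) (nat_lit 389) (nat_lit 284) (nat_lit 227)) (XT.lf (nat_lit 0) (nat_lit 30664176416) (nat_lit 152) (nat_lit 29829389499) (nat_lit 0) (nat_lit 21984196164) (nat_lit 5) (nat_lit 5) (nat_lit 7) (nat_lit 4) (nat_lit 5) (nat_lit 4) (nat_lit 390) (nat_lit 284) (nat_lit 226)))) (XT.nd (nat_lit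 78) (nat_lit 0) (nat_lit 0) (XT.lf (nat_lit 0) (nat_lit 37173725224) (nat_lit 152) (nat_lit 20687513832) (nat_lit 0) (nat_lit 28467818642) (nat_lit 5) (nat_lit 5) (nat_lit 7) (nat_lit 4) (nat_lit 5) (nat_lit 4) (nat_lit 391) (nat_lit 284) (nat_lit 225)) (XT.nd (nat_lit 78) (nat_lit 0) (nat_lit 0) (XT.lf (nat_lit 0) (nat_lit 43981996553) (nat_lit 152) (nat_lit 11140864576) (nat_lit 0) (nat_lit 35251398228) (nat_lit 5) (nat_lit 5) (nat_lit 7) (nat_lit 4) (nat_lit 5) (nat_lit 4) (nat_lit 392) (nat_lit 284) (nat_lit 224)) (XT.lf (nat_lit 0) (nat_lit 51105200574) (nat_lit 152) (nat_lit 1166711616) (nat_lit 0) (nat_lit 42351086303) (nat_lit 5) (nat_lit 5) (nat_lit 7) (nat_lit 4) (nat_lit 5) (nat_lit 4) (nat_lit 393) (nat_lit 284) (nat_lit 223))))) (XT.nd (nat_lit 234) (nat_lit 0) (nat_lit 0) (XT.nd (nat_lit 78) (nat_lit 0) (nat_lit 0) (XT.lf (nat_lit 0) (nat_lit 9564827237) (nat_lit 76) (nat_lit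 49144803816) (nat_lit 76) (nat_lit 40368293406) (nat_lit 4) (nat_lit 4) (nat_lit 5) (nat_lit 5) (nat_lit 5) (nat_lit 4) (nat_lit 394) (nat_lit 284) (nat_lit 222)) (XT.nd (nat_lit 78) (nat_lit 0) (nat_lit 0) (XT.lf (nat_lit 0) (nat_lit 20826758086) (nat_lit 76) (nat_lit 45863442922) (nat_lit 76) (nat_lit 37065602856) (nat_lit 4) (nat_lit 4) (nat_lit 5) (nat_lit 5) (nat_lit 5) (nat_lit 4) (nat_lit 395) (nat_lit 284) (nat_lit 221)) (XT.lf (nat_lit 0) (nat_lit 32607318295) (nat_lit 76) (nat_lit 42439775569) (nat_lit 76) (nat_lit 33621621545) (nat_lit 4) (nat_lit 4) (nat_lit 5) (nat_lit 5) (nat_lit 5) (nat_lit 4) (nat_lit 396) (nat_lit 284) (nat_lit 220)))) (XT.nd (nat_lit 78) (nat_lit 0) (nat_lit 0) (XT.lf (nat_lit 0) (nat_lit 44934556818) (nat_lit 76) (nat_lit 38865650169) (nat_lit 76) (nat_lit 30028149518) (nat_lit 4) (nat_lit 4) (nat_lit 5) (nat_lit 5) (nat_lit 5) (nat_lit 4) (nat_lit 397)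 (nat_lit 284) (nat_lit 219)) (XT.nd (nat_lit 78) (nat_lit 0) (nat_lit 0) (XT.lf (nat_lit 0) (nat_lit 57837824223) (nat_lit 76) (nat_lit 35132556900) (nat_lit 76) (nat_lit 26276630890) (nat_lit 4) (nat_lit 4) (nat_lit 5) (nat_lit 5) (nat_lit 5) (nat_lit 4) (nat_lit 398) (nat_lit 284) (nat_lit 218)) (XT.lf (nat_lit 0) (nat_lit 71347842574) (nat_lit 76) (nat_lit 31231607443) (nat_lit 76) (nat_lit 22358133472) (nat_lit 4) (nat_lit 4) (nat_lit 5) (nat_lit 5) (nat_lit 5) (nat_lit 4) (nat_lit 399) (nat_lit 284) (nat_lit 217)))))) (XT.nd (nat_lit 468) (nat_lit 0) (nat_lit 0) (XT.nd (nat_lit 234) (nat_lit 152) (nat_lit 0) (XT.nd (nat_lit 78) (nat_lit 0) (nat_lit 0) (XT.lf (nat_lit 0) (nat_lit 85496778582) (nat_lit 76) (nat_lit 27153513825) (nat_lit 76) (nat_lit 18263327510) (nat_lit 4) (nat_lit 4) (nat_lit 5) (nat_lit 5) (nat_lit 5) (nat_lit 4) (nat_lit 400) (nat_lit 284) (nat_lit 216)) (XT.nd (nat_lit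 78) (nat_lit 0) (nat_lit 0) (XT.lf (nat_lit 0) (nat_lit 100318320190) (nat_lit 76) (nat_lit 22888566298) (nat_lit 76) (nat_lit 13982463466) (nat_lit 4) (nat_lit 4) (nat_lit 5) (nat_lit 5) (nat_lit 5) (nat_lit 4) (nat_lit 401) (nat_lit 284) (nat_lit 215)) (XT.lf (nat_lit 0) (nat_lit 115847756782) (nat_lit 76) (nat_lit 18426610225) (nat_lit 76) (nat_lit 9505348805) (nat_lit 4) (nat_lit 4) (nat_lit 5) (nat_lit 5) (nat_lit 5) (nat_lit 4) (nat_lit 402) (nat_lit 284) (nat_lit 214)))) (XT.nd (nat_lit 78) (nat_lit 152) (nat_lit 0) (XT.lf (nat_lit 0) (nat_lit 132122063209) (nat_lit 76) (nat_lit 13757021902) (nat_lit 76) (nat_lit 4821323731) (nat_lit 4) (nat_lit 4) (nat_lit 5) (nat_lit 5) (nat_lit 5) (nat_lit 4) (nat_lit 403) (nat_lit 284) (nat_lit 213)) (XT.nd (nat_lit 78) (nat_lit 76) (nat_lit 0) (XT.lf (nat_lit 0) (nat_lit 78179237) (nat_lit 152) (nat_lit 8789180021) (nat_lit 76) (nat_lit 149100484578)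 (nat_lit 3) (nat_lit 5) (nat_lit 5) (nat_lit 5) (nat_lit 4) (nat_lit 4) (nat_lit 404) (nat_lit 284) (nat_lit 212)) (XT.lf (nat_lit 0) (nat_lit 1426918428) (nat_lit 76) (nat_lit 3641111056) (nat_lit 152) (nat_lit 160526300953) (nat_lit 2) (nat_lit 5) (nat_lit 3) (nat_lit 5) (nat_lit 4) (nat_lit 4) (nat_lit 405) (nat_lit 284) (nat_lit 211))))) (XT.nd (nat_lit 234) (nat_lit 0) (nat_lit 0) (XT.nd (nat_lit 78) (nat_lit 0) (nat_lit 0) (XT.lf (nat_lit 0) (nat_lit 10472652603) (nat_lit 152) (nat_lit 161196205289) (nat_lit 0) (nat_lit 1925021151) (nat_lit 2) (nat_lit 5) (nat_lit 4) (nat_lit 4) (nat_lit 2) (nat_lit 4) (nat_lit 406) (nat_lit 284) (nat_lit 210)) (XT.nd (nat_lit 78) (nat_lit 0) (nat_lit 0) (XT.lf (nat_lit 0) (nat_lit 16193066690) (nat_lit 152) (nat_lit 158163938343) (nat_lit 0) (nat_lit 7634123666) (nat_lit 2) (nat_lit 5) (nat_lit 4) (nat_lit 4) (nat_lit 2) (nat_lit 4) (nat_lit 407)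 (nat_lit 284) (nat_lit 209)) (XT.lf (nat_lit 0) (nat_lit 22186043831) (nat_lit 152) (nat_lit 155006543540) (nat_lit 0) (nat_lit 13616327881) (nat_lit 2) (nat_lit 5) (nat_lit 4) (nat_lit 4) (nat_lit 2) (nat_lit 4) (nat_lit 408) (nat_lit 284) (nat_lit 208)))) (XT.nd (nat_lit 78) (nat_lit 0) (nat_lit 0) (XT.lf (nat_lit 0) (nat_lit 28465853020) (nat_lit 152) (nat_lit 151716503274) (nat_lit 0) (nat_lit 19885877141) (nat_lit 2) (nat_lit 5) (nat_lit 4) (nat_lit 4) (nat_lit 2) (nat_lit 4) (nat_lit 409) (nat_lit 284) (nat_lit 207)) (XT.nd (nat_lit 78) (nat_lit 0) (nat_lit 0) (XT.lf (nat_lit 0) (nat_lit 35047446183) (nat_lit 152) (nat_lit 148285984117) (nat_lit 0) (nat_lit 26457698943) (nat_lit 2) (nat_lit 5) (nat_lit 4) (nat_lit 4) (nat_lit 2) (nat_lit 4) (nat_lit 410) (nat_lit 284) (nat_lit 206)) (XT.lf (nat_lit 0) (nat_lit 41946493780) (nat_lit 152) (nat_lit 144706818164) (nat_lit 0) (nat_lit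 33347440481) (nat_lit 2) (nat_lit 5) (nat_lit 4) (nat_lit 4) (nat_lit 2) (nat_lit 4) (nat_lit 411) (nat_lit 284) (nat_lit 205))))))))
noncomputable def xc61 : XT := (XT.nd (nat_lit 1794) (nat_lit 0) (nat_lit 0) (XT.nd (nat_lit 858) (nat_lit 76) (nat_lit 0) (XT.nd (nat_lit 390) (nat_lit 0) (nat_lit 0) (XT.nd (nat_lit 156) (nat_lit 0) (nat_lit 0) (XT.nd (nat_lit 78) (nat_lit 0) (nat_lit 0) (XT.lf (nat_lit 0) (nat_lit 49179422115) (nat_lit 152) (nat_lit 140970483593) (nat_lit 0) (nat_lit 40571505904) (nat_lit 2) (nat_lit 5) (nat_lit 4) (nat_lit 4) (nat_lit 2) (nat_lit 4) (nat_lit 412) (nat_lit 284) (nat_lit 204)) (XT.lf (nat_lit 0) (nat_lit 56763452446) (nat_lit 152) (nat_lit 137068084369) (nat_lit 0) (nat_lit 48147095366) (nat_lit 2) (nat_lit 5) (nat_lit 4) (nat_lit 4) (nat_lit 2) (nat_lit 4) (nat_lit 413) (nat_lit 284) (nat_lit 203))) (XT.nd (nat_lit 78) (nat_lit 0) (nat_lit 0) (XT.lf (nat_lit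 0) (nat_lit 64716641988) (nat_lit 152) (nat_lit 132990329064) (nat_lit 0) (nat_lit 56092245985) (nat_lit 2) (nat_lit 5) (nat_lit 4) (nat_lit 4) (nat_lit 2) (nat_lit 4) (nat_lit 414) (nat_lit 284) (nat_lit 202)) (XT.nd (nat_lit 78) (nat_lit 0) (nat_lit 0) (XT.lf (nat_lit 0) (nat_lit 73057926907) (nat_lit 152) (nat_lit 128727508739) (nat_lit 0) (nat_lit 64425874787) (nat_lit 2) (nat_lit 5) (nat_lit 4) (nat_lit 4) (nat_lit 2) (nat_lit 4) (nat_lit 415) (nat_lit 284) (nat_lit 201)) (XT.lf (nat_lit 0) (nat_lit 81807167405) (nat_lit 152) (nat_lit 124269473820) (nat_lit 0) (nat_lit 73167823744) (nat_lit 2) (nat_lit 5) (nat_lit 4) (nat_lit 4) (nat_lit 2) (nat_lit 4) (nat_lit 416) (nat_lit 284) (nat_lit 200))))) (XT.nd (nat_lit 234) (nat_lit 0) (nat_lit 0) (XT.nd (nat_lit 78) (nat_lit 0) (nat_lit 0) (XT.lf (nat_lit 0) (nat_lit 90985195006) (nat_lit 152) (nat_lit 119605609938) (nat_lit 0) (nat_lit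 82338907021) (nat_lit 2) (nat_lit 5) (nat_lit 4) (nat_lit 4) (nat_lit 2) (nat_lit 4) (nat_lit 417) (nat_lit 284) (nat_lit 199)) (XT.nd (nat_lit 78) (nat_lit 0) (nat_lit 0) (XT.lf (nat_lit 0) (nat_lit 100613862157) (nat_lit 152) (nat_lit 114724812657) (nat_lit 0) (nat_lit 91960960531) (nat_lit 2) (nat_lit 5) (nat_lit 4) (nat_lit 4) (nat_lit 2) (nat_lit 4) (nat_lit 418) (nat_lit 284) (nat_lit 198)) (XT.lf (nat_lit 0) (nat_lit 110716094257) (nat_lit 152) (nat_lit 109615461030) (nat_lit 0) (nat_lit 102056893924) (nat_lit 2) (nat_lit 5) (nat_lit 4) (nat_lit 4) (nat_lit 2) (nat_lit 4) (nat_lit 419) (nat_lit 284) (nat_lit 197)))) (XT.nd (nat_lit 78) (nat_lit 0) (nat_lit 0) (XT.lf (nat_lit 0) (nat_lit 121315944239) (nat_lit 152) (nat_lit 104265389934) (nat_lit 0) (nat_lit 112650745138) (nat_lit 2) (nat_lit 5) (nat_lit 4) (nat_lit 4) (nat_lit 2) (nat_lit 4) (nat_lit 420) (nat_lit 284) (nat_lit 196))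 (XT.nd (nat_lit 78) (nat_lit 0) (nat_lit 0) (XT.lf (nat_lit 0) (nat_lit 132438649841) (nat_lit 152) (nat_lit 98661861104) (nat_lit 0) (nat_lit 123767737628) (nat_lit 2) (nat_lit 5) (nat_lit 4) (nat_lit 4) (nat_lit 2) (nat_lit 4) (nat_lit 421) (nat_lit 284) (nat_lit 195)) (XT.lf (nat_lit 0) (nat_lit 144110693696) (nat_lit 152) (nat_lit 92791532806) (nat_lit 0) (nat_lit 135434340422) (nat_lit 2) (nat_lit 5) (nat_lit 4) (nat_lit 4) (nat_lit 2) (nat_lit 4) (nat_lit 422) (nat_lit 284) (nat_lit 194)))))) (XT.nd (nat_lit 468) (nat_lit 76) (nat_lit 0) (XT.nd (nat_lit 234) (nat_lit 0) (nat_lit 0) (XT.nd (nat_lit 78) (nat_lit 0) (nat_lit 0) (XT.lf (nat_lit 0) (nat_lit 156359866383) (nat_lit 152) (nat_lit 86640428067) (nat_lit 0) (nat_lit 147678331148) (nat_lit 2) (nat_lit 5) (nat_lit 4) (nat_lit 4) (nat_lit 2) (nat_lit 4) (nat_lit 423) (nat_lit 284) (nat_lit 193)) (XT.nd (nat_lit 78) (nat_lit 0)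 (nat_lit 0) (XT.lf (nat_lit 0) (nat_lit 169215332600) (nat_lit 152) (nat_lit 80193901399) (nat_lit 0) (nat_lit 160528862164) (nat_lit 2) (nat_lit 5) (nat_lit 4) (nat_lit 4) (nat_lit 2) (nat_lit 4) (nat_lit 424) (nat_lit 284) (nat_lit 192)) (XT.lf (nat_lit 0) (nat_lit 182707700600) (nat_lit 152) (nat_lit 73436603931) (nat_lit 0) (nat_lit 174016529972) (nat_lit 2) (nat_lit 5) (nat_lit 4) (nat_lit 4) (nat_lit 2) (nat_lit 4) (nat_lit 425) (nat_lit 284) (nat_lit 191)))) (XT.nd (nat_lit 78) (nat_lit 0) (nat_lit 0) (XT.lf (nat_lit 0) (nat_lit 196869095069) (nat_lit 152) (nat_lit 66352446857) (nat_lit 0) (nat_lit 188173448068) (nat_lit 2) (nat_lit 5) (nat_lit 4) (nat_lit 4) (nat_lit 2) (nat_lit 4) (nat_lit 426) (nat_lit 284) (nat_lit 190)) (XT.nd (nat_lit 78) (nat_lit 0) (nat_lit 0) (XT.lf (nat_lit 0) (nat_lit 211733233612) (nat_lit 152) (nat_lit 58924563138) (nat_lit 0) (nat_lit 203033323398)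 (nat_lit 2) (nat_lit 5) (nat_lit 4) (nat_lit 4) (nat_lit 2) (nat_lit 4) (nat_lit 427) (nat_lit 284) (nat_lit 189)) (XT.lf (nat_lit 0) (nat_lit 227335507035) (nat_lit 152) (nat_lit 51135267336) (nat_lit 0) (nat_lit 218631536619) (nat_lit 2) (nat_lit 5) (nat_lit 4) (nat_lit 4) (nat_lit 2) (nat_lit 4) (nat_lit 428) (nat_lit 284) (nat_lit 188))))) (XT.nd (nat_lit 234) (nat_lit 76) (nat_lit 0) (XT.nd (nat_lit 78) (nat_lit 0) (nat_lit 0) (XT.lf (nat_lit 0) (nat_lit 243713063609) (nat_lit 152) (nat_lit 42966013508) (nat_lit 0) (nat_lit 235005226334) (nat_lit 2) (nat_lit 5) (nat_lit 4) (nat_lit 4) (nat_lit 2) (nat_lit 4) (nat_lit 429) (nat_lit 284) (nat_lit 187)) (XT.nd (nat_lit 78) (nat_lit 0) (nat_lit 0) (XT.lf (nat_lit 0) (nat_lit 260904897516) (nat_lit 152) (nat_lit 34397351051) (nat_lit 0) (nat_lit 252193377517) (nat_lit 2) (nat_lit 5) (nat_lit 4) (nat_lit 4) (nat_lit 2) (nat_lit 4) (nat_lit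 430) (nat_lit 284) (nat_lit 186)) (XT.lf (nat_lit 0) (nat_lit 278951941693) (nat_lit 152) (nat_lit 25408878388) (nat_lit 0) (nat_lit 270236914339) (nat_lit 2) (nat_lit 5) (nat_lit 4) (nat_lit 4) (nat_lit 2) (nat_lit 4) (nat_lit 431) (nat_lit 284) (nat_lit 185)))) (XT.nd (nat_lit 78) (nat_lit 76) (nat_lit 0) (XT.lf (nat_lit 0) (nat_lit 297897165294) (nat_lit 152) (nat_lit 15979194391) (nat_lit 0) (nat_lit 289178797601) (nat_lit 2) (nat_lit 5) (nat_lit 4) (nat_lit 4) (nat_lit 2) (nat_lit 4) (nat_lit 432) (nat_lit 284) (nat_lit 184)) (XT.nd (nat_lit 78) (nat_lit 76) (nat_lit 0) (XT.lf (nat_lit 0) (nat_lit 317785675994) (nat_lit 152) (nat_lit 6085847434) (nat_lit 0) (nat_lit 309064127026) (nat_lit 2) (nat_lit 5) (nat_lit 4) (nat_lit 4) (nat_lit 2) (nat_lit 4) (nat_lit 433) (nat_lit 284) (nat_lit 183)) (XT.lf (nat_lit 0) (nat_lit 4436720846) (nat_lit 76) (nat_lit 334297376189) (nat_lit 76) (nat_lit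 325572797436) (nat_lit 1) (nat_lit 4) (nat_lit 2) (nat_lit 5) (nat_lit 2) (nat_lit 4) (nat_lit 434) (nat_lit 284) (nat_lit 182))))))) (XT.nd (nat_lit 39390) (nat_lit 0) (nat_lit 1672) (XT.nd (nat_lit 38922) (nat_lit 0) (nat_lit 2888) (XT.nd (nat_lit 38688) (nat_lit 0) (nat_lit 3724) (XT.nd (nat_lit 78) (nat_lit 0) (nat_lit 0) (XT.lf (nat_lit 0) (nat_lit 15689375764) (nat_lit 76) (nat_lit 345139911105) (nat_lit 76) (nat_lit 336412446842) (nat_lit 1) (nat_lit 4) (nat_lit 2) (nat_lit 5) (nat_lit 2) (nat_lit 4) (nat_lit 435) (nat_lit 284) (nat_lit 181)) (XT.nd (nat_lit 78) (nat_lit 0) (nat_lit 0) (XT.lf (nat_lit 0) (nat_lit 27497683756) (nat_lit 76) (nat_lit 356528010507) (nat_lit 76) (nat_lit 347797798139) (nat_lit 1) (nat_lit 4) (nat_lit 2) (nat_lit 5) (nat_lit 2) (nat_lit 4) (nat_lit 436) (nat_lit 284) (nat_lit 180)) (XT.lf (nat_lit 0) (nat_lit 39889759838) (nat_lit 76) (nat_lit 368488788918)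 (nat_lit 76) (nat_lit 359755959307) (nat_lit 1) (nat_lit 4) (nat_lit 2) (nat_lit 5) (nat_lit 2) (nat_lit 4) (nat_lit 437) (nat_lit 284) (nat_lit 179)))) (XT.nd (nat_lit 78) (nat_lit 456) (nat_lit 0) (XT.lf (nat_lit 0) (nat_lit 1029482328) (nat_lit 304) (nat_lit 2587977153) (nat_lit 0) (nat_lit 1029482328) (nat_lit 56) (nat_lit 5) (nat_lit 60) (nat_lit 4) (nat_lit 56) (nat_lit 4) (nat_lit 330) (nat_lit 285) (nat_lit 285)) (XT.nd (nat_lit 78) (nat_lit 228) (nat_lit 0) (XT.lf (nat_lit 0) (nat_lit 2152977327) (nat_lit 228) (nat_lit 4110412467) (nat_lit 228) (nat_lit 3240710240) (nat_lit 53) (nat_lit 4) (nat_lit 56) (nat_lit 5) (nat_lit 56) (nat_lit 4) (nat_lit 331) (nat_lit 285) (nat_lit 284)) (XT.lf (nat_lit 0) (nat_lit 42538713) (nat_lit 152) (nat_lit 806499712) (nat_lit 228) (nat_lit 8878840128) (nat_lit 50) (nat_lit 5) (nat_lit 52) (nat_lit 5) (nat_lit 53) (nat_lit 4) (nat_lit 332) (nat_lit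 285) (nat_lit 283))))) (XT.nd (nat_lit 234) (nat_lit 380) (nat_lit 0) (XT.nd (nat_lit 78) (nat_lit 456) (nat_lit 0) (XT.lf (nat_lit 0) (nat_lit 5041639538) (nat_lit 228) (nat_lit 2245068724) (nat_lit 0) (nat_lit 2673224663) (nat_lit 50) (nat_lit 5) (nat_lit 53) (nat_lit 4) (nat_lit 50) (nat_lit 4) (nat_lit 333) (nat_lit 285) (nat_lit 282)) (XT.nd (nat_lit 78) (nat_lit 228) (nat_lit 0) (XT.lf (nat_lit 0) (nat_lit 5488905343) (nat_lit 228) (nat_lit 3900710170) (nat_lit 228) (nat_lit 816789122) (nat_lit 47) (nat_lit 4) (nat_lit 50) (nat_lit 5) (nat_lit 50) (nat_lit 4) (nat_lit 334) (nat_lit 285) (nat_lit 281)) (XT.lf (nat_lit 0) (nat_lit 3023890141) (nat_lit 152) (nat_lit 287937000) (nat_lit 228) (nat_lit 7154054317) (nat_lit 44) (nat_lit 5) (nat_lit 46) (nat_lit 5) (nat_lit 47) (nat_lit 4) (nat_lit 335) (nat_lit 285) (nat_lit 280)))) (XT.nd (nat_lit 78) (nat_lit 228) (nat_lit 0) (XT.lf (nat_lit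 0) (nat_lit 277003797) (nat_lit 152) (nat_lit 7332683831) (nat_lit 152) (nat_lit 3128549839) (nat_lit 42) (nat_lit 4) (nat_lit 44) (nat_lit 5) (nat_lit 44) (nat_lit 4) (nat_lit 336) (nat_lit 285) (nat_lit 279)) (XT.nd (nat_lit 78) (nat_lit 152) (nat_lit 0) (XT.lf (nat_lit 0) (nat_lit 1046811339) (nat_lit 228) (nat_lit 2646819446) (nat_lit 76) (nat_lit 7330616397) (nat_lit 41) (nat_lit 5) (nat_lit 44) (nat_lit 5) (nat_lit 42) (nat_lit 4) (nat_lit 337) (nat_lit 285) (nat_lit 278)) (XT.lf (nat_lit 0) (nat_lit 5271660140) (nat_lit 228) (nat_lit 5879932427) (nat_lit 0) (nat_lit 173183472) (nat_lit 39) (nat_lit 5) (nat_lit 42) (nat_lit 4) (nat_lit 39) (nat_lit 4) (nat_lit 338) (nat_lit 285) (nat_lit 277)))))) (XT.nd (nat_lit 468) (nat_lit 608) (nat_lit 0) (XT.nd (nat_lit 234) (nat_lit 304) (nat_lit 0) (XT.nd (nat_lit 78) (nat_lit 152) (nat_lit 0) (XT.lf (nat_lit 0) (nat_lit 2167541960) (nat_lit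 152) (nat_lit 7539924774) (nat_lit 152) (nat_lit 1932951227) (nat_lit 37) (nat_lit 4) (nat_lit 39) (nat_lit 5) (nat_lit 39) (nat_lit 4) (nat_lit 339) (nat_lit 285) (nat_lit 276)) (XT.nd (nat_lit 78) (nat_lit 76) (nat_lit 0) (XT.lf (nat_lit 0) (nat_lit 2278344095) (nat_lit 228) (nat_lit 1420650894) (nat_lit 76) (nat_lit 8272958384) (nat_lit 36) (nat_lit 5) (nat_lit 39) (nat_lit 5) (nat_lit 37) (nat_lit 4) (nat_lit 340) (nat_lit 285) (nat_lit 275)) (XT.lf (nat_lit 0) (nat_lit 6617794854) (nat_lit 152) (nat_lit 5324281658) (nat_lit 0) (nat_lit 377339664) (nat_lit 35) (nat_lit 5) (nat_lit 37) (nat_lit 4) (nat_lit 35) (nat_lit 4) (nat_lit 341) (nat_lit 285) (nat_lit 274)))) (XT.nd (nat_lit 78) (nat_lit 152) (nat_lit 0) (XT.lf (nat_lit 0) (nat_lit 3006612620) (nat_lit 152) (nat_lit 8168232274) (nat_lit 152) (nat_lit 1509435443) (nat_lit 33) (nat_lit 4) (nat_lit 35) (nat_lit 5) (nat_lit 35) (nat_lit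 4) (nat_lit 342) (nat_lit 285) (nat_lit 273)) (XT.nd (nat_lit 78) (nat_lit 76) (nat_lit 0) (XT.lf (nat_lit 0) (nat_lit 2760639275) (nat_lit 228) (nat_lit 1397906925) (nat_lit 76) (nat_lit 8908594977) (nat_lit 32) (nat_lit 5) (nat_lit 35) (nat_lit 5) (nat_lit 33) (nat_lit 4) (nat_lit 343) (nat_lit 285) (nat_lit 272)) (XT.lf (nat_lit 0) (nat_lit 7184351249) (nat_lit 152) (nat_lit 6182252452) (nat_lit 0) (nat_lit 101812542) (nat_lit 31) (nat_lit 5) (nat_lit 33) (nat_lit 4) (nat_lit 31) (nat_lit 4) (nat_lit 344) (nat_lit 285) (nat_lit 271))))) (XT.nd (nat_lit 234) (nat_lit 304) (nat_lit 0) (XT.nd (nat_lit 78) (nat_lit 152) (nat_lit 0) (XT.lf (nat_lit 0) (nat_lit 2353461843) (nat_lit 152) (nat_lit 9481385840) (nat_lit 152) (nat_lit 2054676430) (nat_lit 29) (nat_lit 4) (nat_lit 31) (nat_lit 5) (nat_lit 31) (nat_lit 4) (nat_lit 345) (nat_lit 285) (nat_lit 270)) (XT.nd (nat_lit 78) (nat_lit 76)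 (nat_lit 0) (XT.lf (nat_lit 0) (nat_lit 2293349023) (nat_lit 228) (nat_lit 3053125533) (nat_lit 76) (nat_lit 8984217504) (nat_lit 28) (nat_lit 5) (nat_lit 31) (nat_lit 5) (nat_lit 29) (nat_lit 4) (nat_lit 346) (nat_lit 285) (nat_lit 269)) (XT.lf (nat_lit 0) (nat_lit 5797942857) (nat_lit 76) (nat_lit 965280002) (nat_lit 152) (nat_lit 8030378825) (nat_lit 27) (nat_lit 5) (nat_lit 28) (nat_lit 5) (nat_lit 29) (nat_lit 4) (nat_lit 347) (nat_lit 285) (nat_lit 268)))) (XT.nd (nat_lit 78) (nat_lit 304) (nat_lit 0) (XT.lf (nat_lit 0) (nat_lit 11449847258) (nat_lit 152) (nat_lit 346026979) (nat_lit 0) (nat_lit 3484160019) (nat_lit 27) (nat_lit 5) (nat_lit 29) (nat_lit 4) (nat_lit 27) (nat_lit 4) (nat_lit 348) (nat_lit 285) (nat_lit 267)) (XT.nd (nat_lit 78) (nat_lit 76) (nat_lit 0) (XT.lf (nat_lit 0) (nat_lit 604855401) (nat_lit 228) (nat_lit 6995400417) (nat_lit 76) (nat_lit 8187946163) (nat_lit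 24) (nat_lit 5) (nat_lit 27) (nat_lit 5) (nat_lit 25) (nat_lit 4) (nat_lit 349) (nat_lit 285) (nat_lit 266)) (XT.lf (nat_lit 0) (nat_lit 1876848087) (nat_lit 76) (nat_lit 3181214134) (nat_lit 152) (nat_lit 11264354610) (nat_lit 23) (nat_lit 5) (nat_lit 24) (nat_lit 5) (nat_lit 25) (nat_lit 4) (nat_lit 350) (nat_lit 285) (nat_lit 265))))))))
noncomputable def xc62 : XT := (XT.nd (nat_lit 1794) (nat_lit 456) (nat_lit 0) (XT.nd (nat_lit 858) (nat_lit 456) (nat_lit 0) (XT.nd (nat_lit 390) (nat_lit 304) (nat_lit 0) (XT.nd (nat_lit 156) (nat_lit 152) (nat_lit 0) (XT.nd (nat_lit 78) (nat_lit 76) (nat_lit 0) (XT.lf (nat_lit 0) (nat_lit 9767792722) (nat_lit 152) (nat_lit 5666835225) (nat_lit 0) (nat_lit 1447054473) (nat_lit 23) (nat_lit 5) (nat_lit 25) (nat_lit 4) (nat_lit 23) (nat_lit 4) (nat_lit 351) (nat_lit 285) (nat_lit 264)) (XT.lf (nat_lit 0) (nat_lit 3417324334) (nat_lit 76) (nat_lit 11297071494)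 (nat_lit 76) (nat_lit 2754477741) (nat_lit 22) (nat_lit 4) (nat_lit 23) (nat_lit 5) (nat_lit 23) (nat_lit 4) (nat_lit 352) (nat_lit 285) (nat_lit 263))) (XT.nd (nat_lit 78) (nat_lit 76) (nat_lit 0) (XT.lf (nat_lit 0) (nat_lit 1758310808) (nat_lit 152) (nat_lit 5149347552) (nat_lit 76) (nat_lit 11176684011) (nat_lit 21) (nat_lit 5) (nat_lit 23) (nat_lit 5) (nat_lit 22) (nat_lit 4) (nat_lit 353) (nat_lit 285) (nat_lit 262)) (XT.nd (nat_lit 78) (nat_lit 0) (nat_lit 0) (XT.lf (nat_lit 0) (nat_lit 4102082568) (nat_lit 76) (nat_lit 2267281705) (nat_lit 152) (nat_lit 12360730157) (nat_lit 20) (nat_lit 5) (nat_lit 21) (nat_lit 5) (nat_lit 22) (nat_lit 4) (nat_lit 354) (nat_lit 285) (nat_lit 261)) (XT.lf (nat_lit 0) (nat_lit 11242057570) (nat_lit 152) (nat_lit 5633691830) (nat_lit 0) (nat_lit 2530856315) (nat_lit 20) (nat_lit 5) (nat_lit 22) (nat_lit 4) (nat_lit 20) (nat_lit 4) (nat_lit 355) (nat_lit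 285) (nat_lit 260))))) (XT.nd (nat_lit 234) (nat_lit 76) (nat_lit 0) (XT.nd (nat_lit 78) (nat_lit 152) (nat_lit 0) (XT.lf (nat_lit 0) (nat_lit 3718206977) (nat_lit 76) (nat_lit 12641853713) (nat_lit 76) (nat_lit 3756822865) (nat_lit 19) (nat_lit 4) (nat_lit 20) (nat_lit 5) (nat_lit 20) (nat_lit 4) (nat_lit 356) (nat_lit 285) (nat_lit 259)) (XT.nd (nat_lit 78) (nat_lit 76) (nat_lit 0) (XT.lf (nat_lit 0) (nat_lit 847085339) (nat_lit 152) (nat_lit 7314057895) (nat_lit 76) (nat_lit 12700690169) (nat_lit 18) (nat_lit 5) (nat_lit 20) (nat_lit 5) (nat_lit 19) (nat_lit 4) (nat_lit 357) (nat_lit 285) (nat_lit 258)) (XT.lf (nat_lit 0) (nat_lit 2063265153) (nat_lit 76) (nat_lit 3435035606) (nat_lit 152) (nat_lit 16145503712) (nat_lit 17) (nat_lit 5) (nat_lit 18) (nat_lit 5) (nat_lit 19) (nat_lit 4) (nat_lit 358) (nat_lit 285) (nat_lit 257)))) (XT.nd (nat_lit 78) (nat_lit 76) (nat_lit 0) (XT.lf (nat_lit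 0) (nat_lit 10443466273) (nat_lit 152) (nat_lit 10487665721) (nat_lit 0) (nat_lit 1530692993) (nat_lit 17) (nat_lit 5) (nat_lit 19) (nat_lit 4) (nat_lit 17) (nat_lit 4) (nat_lit 359) (nat_lit 285) (nat_lit 256)) (XT.nd (nat_lit 78) (nat_lit 76) (nat_lit 0) (XT.lf (nat_lit 0) (nat_lit 15608054465) (nat_lit 152) (nat_lit 1155022084) (nat_lit 0) (nat_lit 6559081151) (nat_lit 17) (nat_lit 5) (nat_lit 19) (nat_lit 4) (nat_lit 17) (nat_lit 4) (nat_lit 360) (nat_lit 285) (nat_lit 255)) (XT.lf (nat_lit 0) (nat_lit 8774067665) (nat_lit 76) (nat_lit 12313651561) (nat_lit 76) (nat_lit 3134963928) (nat_lit 16) (nat_lit 4) (nat_lit 17) (nat_lit 5) (nat_lit 17) (nat_lit 4) (nat_lit 361) (nat_lit 285) (nat_lit 254)))))) (XT.nd (nat_lit 468) (nat_lit 228) (nat_lit 0) (XT.nd (nat_lit 234) (nat_lit 76) (nat_lit 0) (XT.nd (nat_lit 78) (nat_lit 76) (nat_lit 0) (XT.lf (nat_lit 0) (nat_lit 1559512832) (nat_lit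 152) (nat_lit 6105223771) (nat_lit 76) (nat_lit 17505212355) (nat_lit 15) (nat_lit 5) (nat_lit 17) (nat_lit 5) (nat_lit 16) (nat_lit 4) (nat_lit 362) (nat_lit 285) (nat_lit 253)) (XT.nd (nat_lit 78) (nat_lit 0) (nat_lit 0) (XT.lf (nat_lit 0) (nat_lit 3625964242) (nat_lit 76) (nat_lit 2737862114) (nat_lit 152) (nat_lit 19799174592) (nat_lit 14) (nat_lit 5) (nat_lit 15) (nat_lit 5) (nat_lit 16) (nat_lit 4) (nat_lit 363) (nat_lit 285) (nat_lit 252)) (XT.lf (nat_lit 0) (nat_lit 11475692616) (nat_lit 152) (nat_lit 13328999021) (nat_lit 0) (nat_lit 2397662240) (nat_lit 14) (nat_lit 5) (nat_lit 16) (nat_lit 4) (nat_lit 14) (nat_lit 4) (nat_lit 364) (nat_lit 285) (nat_lit 251)))) (XT.nd (nat_lit 78) (nat_lit 76) (nat_lit 0) (XT.lf (nat_lit 0) (nat_lit 16815867944) (nat_lit 152) (nat_lit 3842982184) (nat_lit 0) (nat_lit 7636203006) (nat_lit 14) (nat_lit 5) (nat_lit 16) (nat_lit 4) (nat_lit 14) (nat_lit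 4) (nat_lit 365) (nat_lit 285) (nat_lit 250)) (XT.nd (nat_lit 78) (nat_lit 0) (nat_lit 0) (XT.lf (nat_lit 0) (nat_lit 6184280867) (nat_lit 76) (nat_lit 16266594431) (nat_lit 76) (nat_lit 6990134671) (nat_lit 13) (nat_lit 4) (nat_lit 14) (nat_lit 5) (nat_lit 14) (nat_lit 4) (nat_lit 366) (nat_lit 285) (nat_lit 249)) (XT.lf (nat_lit 0) (nat_lit 16717449246) (nat_lit 76) (nat_lit 11647796595) (nat_lit 76) (nat_lit 2279151290) (nat_lit 13) (nat_lit 4) (nat_lit 14) (nat_lit 5) (nat_lit 14) (nat_lit 4) (nat_lit 367) (nat_lit 285) (nat_lit 248))))) (XT.nd (nat_lit 234) (nat_lit 76) (nat_lit 0) (XT.nd (nat_lit 78) (nat_lit 76) (nat_lit 0) (XT.lf (nat_lit 0) (nat_lit 2516685817) (nat_lit 152) (nat_lit 4297235134) (nat_lit 76) (nat_lit 25095228466) (nat_lit 12) (nat_lit 5) (nat_lit 14) (nat_lit 5) (nat_lit 13) (nat_lit 4) (nat_lit 368) (nat_lit 285) (nat_lit 247)) (XT.nd (nat_lit 78) (nat_lit 0)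 (nat_lit 0) (XT.lf (nat_lit 0) (nat_lit 5844703089) (nat_lit 76) (nat_lit 1660057474) (nat_lit 152) (nat_lit 25729069924) (nat_lit 11) (nat_lit 5) (nat_lit 12) (nat_lit 5) (nat_lit 13) (nat_lit 4) (nat_lit 369) (nat_lit 285) (nat_lit 246)) (XT.lf (nat_lit 0) (nat_lit 12812828530) (nat_lit 152) (nat_lit 18157178833) (nat_lit 0) (nat_lit 3651219571) (nat_lit 11) (nat_lit 5) (nat_lit 13) (nat_lit 4) (nat_lit 11) (nat_lit 4) (nat_lit 370) (nat_lit 285) (nat_lit 245)))) (XT.nd (nat_lit 78) (nat_lit 76) (nat_lit 0) (XT.lf (nat_lit 0) (nat_lit 18354513250) (nat_lit 152) (nat_lit 8604405062) (nat_lit 0) (nat_lit 9120674505) (nat_lit 11) (nat_lit 5) (nat_lit 13) (nat_lit 4) (nat_lit 11) (nat_lit 4) (nat_lit 371) (nat_lit 285) (nat_lit 244)) (XT.nd (nat_lit 78) (nat_lit 0) (nat_lit 0) (XT.lf (nat_lit 0) (nat_lit 1361431059) (nat_lit 76) (nat_lit 22776915758) (nat_lit 76) (nat_lit 13474286741) (nat_lit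 10) (nat_lit 4) (nat_lit 11) (nat_lit 5) (nat_lit 11) (nat_lit 4) (nat_lit 372) (nat_lit 285) (nat_lit 243)) (XT.lf (nat_lit 0) (nat_lit 12017878233) (nat_lit 76) (nat_lit 18284036919) (nat_lit 76) (nat_lit 8915893356) (nat_lit 10) (nat_lit 4) (nat_lit 11) (nat_lit 5) (nat_lit 11) (nat_lit 4) (nat_lit 373) (nat_lit 285) (nat_lit 242))))))) (XT.nd (nat_lit 936) (nat_lit 228) (nat_lit 0) (XT.nd (nat_lit 468) (nat_lit 76) (nat_lit 0) (XT.nd (nat_lit 234) (nat_lit 0) (nat_lit 0) (XT.nd (nat_lit 78) (nat_lit 152) (nat_lit 0) (XT.lf (nat_lit 0) (nat_lit 23105808462) (nat_lit 76) (nat_lit 13615304227) (nat_lit 76) (nat_lit 4184765860) (nat_lit 10) (nat_lit 4) (nat_lit 11) (nat_lit 5) (nat_lit 11) (nat_lit 4) (nat_lit 374) (nat_lit 285) (nat_lit 241)) (XT.nd (nat_lit 78) (nat_lit 76) (nat_lit 0) (XT.lf (nat_lit 0) (nat_lit 706984245) (nat_lit 152) (nat_lit 8040644287) (nat_lit 76) (nat_lit 33932664213)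 (nat_lit 9) (nat_lit 5) (nat_lit 11) (nat_lit 5) (nat_lit 10) (nat_lit 4) (nat_lit 375) (nat_lit 285) (nat_lit 240)) (XT.lf (nat_lit 0) (nat_lit 2112227062) (nat_lit 76) (nat_lit 3574984148) (nat_lit 152) (nat_lit 38853567734) (nat_lit 8) (nat_lit 5) (nat_lit 9) (nat_lit 5) (nat_lit 10) (nat_lit 4) (nat_lit 376) (nat_lit 285) (nat_lit 239)))) (XT.nd (nat_lit 78) (nat_lit 0) (nat_lit 0) (XT.lf (nat_lit 0) (nat_lit 11035559949) (nat_lit 152) (nat_lit 33560511718) (nat_lit 0) (nat_lit 1892269571) (nat_lit 8) (nat_lit 5) (nat_lit 10) (nat_lit 4) (nat_lit 8) (nat_lit 4) (nat_lit 377) (nat_lit 285) (nat_lit 238)) (XT.nd (nat_lit 78) (nat_lit 0) (nat_lit 0) (XT.lf (nat_lit 0) (nat_lit 16663955248) (nat_lit 152) (nat_lit 24396924995) (nat_lit 0) (nat_lit 7471776907) (nat_lit 8) (nat_lit 5) (nat_lit 10) (nat_lit 4) (nat_lit 8) (nat_lit 4) (nat_lit 378) (nat_lit 285) (nat_lit 237)) (XT.lf (nat_lit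 0) (nat_lit 22529982526) (nat_lit 152) (nat_lit 14860158129) (nat_lit 0) (nat_lit 13291244221) (nat_lit 8) (nat_lit 5) (nat_lit 10) (nat_lit 4) (nat_lit 8) (nat_lit 4) (nat_lit 379) (nat_lit 285) (nat_lit 236))))) (XT.nd (nat_lit 234) (nat_lit 0) (nat_lit 0) (XT.nd (nat_lit 78) (nat_lit 76) (nat_lit 0) (XT.lf (nat_lit 0) (nat_lit 28647608515) (nat_lit 152) (nat_lit 4927504532) (nat_lit 0) (nat_lit 19364527386) (nat_lit 8) (nat_lit 5) (nat_lit 10) (nat_lit 4) (nat_lit 8) (nat_lit 4) (nat_lit 380) (nat_lit 285) (nat_lit 235)) (XT.nd (nat_lit 78) (nat_lit 0) (nat_lit 0) (XT.lf (nat_lit 0) (nat_lit 5604049555) (nat_lit 76) (nat_lit 29514844354) (nat_lit 76) (nat_lit 20189531966) (nat_lit 7) (nat_lit 4) (nat_lit 8) (nat_lit 5) (nat_lit 8) (nat_lit 4) (nat_lit 381) (nat_lit 285) (nat_lit 234)) (XT.lf (nat_lit 0) (nat_lit 16757399900) (nat_lit 76) (nat_lit 25200783529) (nat_lit 76) (nat_lit 15835250893)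 (nat_lit 7) (nat_lit 4) (nat_lit 8) (nat_lit 5) (nat_lit 8) (nat_lit 4) (nat_lit 382) (nat_lit 285) (nat_lit 233)))) (XT.nd (nat_lit 78) (nat_lit 0) (nat_lit 0) (XT.lf (nat_lit 0) (nat_lit 28396176547) (nat_lit 76) (nat_lit 20706108671) (nat_lit 76) (nat_lit 11302271037) (nat_lit 7) (nat_lit 4) (nat_lit 8) (nat_lit 5) (nat_lit 8) (nat_lit 4) (nat_lit 383) (nat_lit 285) (nat_lit 232)) (XT.nd (nat_lit 78) (nat_lit 0) (nat_lit 0) (XT.lf (nat_lit 0) (nat_lit 40548090867) (nat_lit 76) (nat_lit 16020118173) (nat_lit 76) (nat_lit 6579799589) (nat_lit 7) (nat_lit 4) (nat_lit 8) (nat_lit 5) (nat_lit 8) (nat_lit 4) (nat_lit 384) (nat_lit 285) (nat_lit 231)) (XT.lf (nat_lit 0) (nat_lit 53242075991) (nat_lit 76) (nat_lit 11131654917) (nat_lit 76) (nat_lit 1656592570) (nat_lit 7) (nat_lit 4) (nat_lit 8) (nat_lit 5) (nat_lit 8) (nat_lit 4) (nat_lit 385) (nat_lit 285) (nat_lit 230)))))) (XT.nd (nat_lit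 468) (nat_lit 76) (nat_lit 0) (XT.nd (nat_lit 234) (nat_lit 0) (nat_lit 0) (XT.nd (nat_lit 78) (nat_lit 76) (nat_lit 0) (XT.lf (nat_lit 0) (nat_lit 3367719911) (nat_lit 152) (nat_lit 2604325824) (nat_lit 76) (nat_lit 63083601814) (nat_lit 6) (nat_lit 5) (nat_lit 8) (nat_lit 5) (nat_lit 7) (nat_lit 4) (nat_lit 386) (nat_lit 285) (nat_lit 229)) (XT.nd (nat_lit 78) (nat_lit 0) (nat_lit 0) (XT.lf (nat_lit 0) (nat_lit 8265724846) (nat_lit 76) (nat_lit 419831302) (nat_lit 152) (nat_lit 63540429060) (nat_lit 5) (nat_lit 5) (nat_lit 6) (nat_lit 5) (nat_lit 7) (nat_lit 4) (nat_lit 387) (nat_lit 285) (nat_lit 228)) (XT.lf (nat_lit 0) (nat_lit 14367605761) (nat_lit 152) (nat_lit 55928695486) (nat_lit 0) (nat_lit 5253626496) (nat_lit 5) (nat_lit 5) (nat_lit 7) (nat_lit 4) (nat_lit 5) (nat_lit 4) (nat_lit 388) (nat_lit 285) (nat_lit 227)))) (XT.nd (nat_lit 78) (nat_lit 0) (nat_lit 0) (XT.lf (nat_lit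 0) (nat_lit 20311143035) (nat_lit 152) (nat_lit 47560117861) (nat_lit 0) (nat_lit 11169941124) (nat_lit 5) (nat_lit 5) (nat_lit 7) (nat_lit 4) (nat_lit 5) (nat_lit 4) (nat_lit 389) (nat_lit 285) (nat_lit 226)) (XT.nd (nat_lit 78) (nat_lit 0) (nat_lit 0) (XT.lf (nat_lit 0) (nat_lit 26523764508) (nat_lit 152) (nat_lit 38828047560) (nat_lit 0) (nat_lit 17356636267) (nat_lit 5) (nat_lit 5) (nat_lit 7) (nat_lit 4) (nat_lit 5) (nat_lit 4) (nat_lit 390) (nat_lit 285) (nat_lit 225)) (XT.lf (nat_lit 0) (nat_lit 33020262136) (nat_lit 152) (nat_lit 29711693939) (nat_lit 0) (nat_lit 23828442151) (nat_lit 5) (nat_lit 5) (nat_lit 7) (nat_lit 4) (nat_lit 5) (nat_lit 4) (nat_lit 391) (nat_lit 285) (nat_lit 224))))) (XT.nd (nat_lit 234) (nat_lit 0) (nat_lit 0) (XT.nd (nat_lit 78) (nat_lit 76) (nat_lit 0) (XT.lf (nat_lit 0) (nat_lit 39816103770) (nat_lit 152) (nat_lit 20189351395) (nat_lit 0) (nat_lit 30600767840)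 (nat_lit 5) (nat_lit 5) (nat_lit 7) (nat_lit 4) (nat_lit 5) (nat_lit 4) (nat_lit 392) (nat_lit 285) (nat_lit 223)) (XT.nd (nat_lit 78) (nat_lit 76) (nat_lit 0) (XT.lf (nat_lit 0) (nat_lit 46927469986) (nat_lit 152) (nat_lit 10238347683) (nat_lit 0) (nat_lit 37689737916) (nat_lit 5) (nat_lit 5) (nat_lit 7) (nat_lit 4) (nat_lit 5) (nat_lit 4) (nat_lit 393) (nat_lit 285) (nat_lit 222)) (XT.lf (nat_lit 0) (nat_lit 170466040) (nat_lit 76) (nat_lit 54203488019) (nat_lit 76) (nat_lit 44944426294) (nat_lit 4) (nat_lit 4) (nat_lit 5) (nat_lit 5) (nat_lit 5) (nat_lit 4) (nat_lit 394) (nat_lit 285) (nat_lit 221)))) (XT.nd (nat_lit 78) (nat_lit 0) (nat_lit 0) (XT.lf (nat_lit 0) (nat_lit 11410705580) (nat_lit 76) (nat_lit 50932742533) (nat_lit 76) (nat_lit 41653366849) (nat_lit 4) (nat_lit 4) (nat_lit 5) (nat_lit 5) (nat_lit 5) (nat_lit 4) (nat_lit 395) (nat_lit 285) (nat_lit 220)) (XT.nd (nat_lit 78)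 (nat_lit 0) (nat_lit 0) (XT.lf (nat_lit 0) (nat_lit 23170607401) (nat_lit 76) (nat_lit 47519185093) (nat_lit 76) (nat_lit 38220462782) (nat_lit 4) (nat_lit 4) (nat_lit 5) (nat_lit 5) (nat_lit 5) (nat_lit 4) (nat_lit 396) (nat_lit 285) (nat_lit 219)) (XT.lf (nat_lit 0) (nat_lit 35478171268) (nat_lit 76) (nat_lit 43954688181) (nat_lit 76) (nat_lit 34637540512) (nat_lit 4) (nat_lit 4) (nat_lit 5) (nat_lit 5) (nat_lit 5) (nat_lit 4) (nat_lit 397) (nat_lit 285) (nat_lit 218))))))))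
noncomputable def xc63 : XT := (XT.nd (nat_lit 1872) (nat_lit 76) (nat_lit 0) (XT.nd (nat_lit 936) (nat_lit 0) (nat_lit 0) (XT.nd (nat_lit 468) (nat_lit 152) (nat_lit 0) (XT.nd (nat_lit 234) (nat_lit 0) (nat_lit 0) (XT.nd (nat_lit 78) (nat_lit 0) (nat_lit 0) (XT.lf (nat_lit 0) (nat_lit 48362700905) (nat_lit 76) (nat_lit 40230764900) (nat_lit 76) (nat_lit 30896069270) (nat_lit 4) (nat_lit 4) (nat_lit 5) (nat_lit 5) (nat_lit 5) (nat_lit 4) (nat_lit 398) (nat_lit 285) (nat_lit 217)) (XT.nd (nat_lit 78) (nat_lit 0) (nat_lit 0) (XT.lf (nat_lit 0) (nat_lit 61854873763) (nat_lit 76) (nat_lit 36338548766) (nat_lit 76) (nat_lit 26987140792) (nat_lit 4) (nat_lit 4) (nat_lit 5) (nat_lit 5) (nat_lit 5) (nat_lit 4) (nat_lit 399) (nat_lit 285) (nat_lit 216)) (XT.lf (nat_lit 0) (nat_lit 75986814063) (nat_lit 76) (nat_lit 32268772597) (nat_lit 76) (nat_lit 22901448106) (nat_lit 4) (nat_lit 4) (nat_lit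 5) (nat_lit 5) (nat_lit 5) (nat_lit 4) (nat_lit 400) (nat_lit 285) (nat_lit 215)))) (XT.nd (nat_lit 78) (nat_lit 0) (nat_lit 0) (XT.lf (nat_lit 0) (nat_lit 90792169283) (nat_lit 76) (nat_lit 28011746451) (nat_lit 76) (nat_lit 18629263371) (nat_lit 4) (nat_lit 4) (nat_lit 5) (nat_lit 5) (nat_lit 5) (nat_lit 4) (nat_lit 401) (nat_lit 285) (nat_lit 214)) (XT.nd (nat_lit 78) (nat_lit 0) (nat_lit 0) (XT.lf (nat_lit 0) (nat_lit 106306190268) (nat_lit 76) (nat_lit 23557334551) (nat_lit 76) (nat_lit 14160414720) (nat_lit 4) (nat_lit 4) (nat_lit 5) (nat_lit 5) (nat_lit 5) (nat_lit 4) (nat_lit 402) (nat_lit 285) (nat_lit 213)) (XT.lf (nat_lit 0) (nat_lit 122565815163) (nat_lit 76) (nat_lit 18894931154) (nat_lit 76) (nat_lit 9484262037) (nat_lit 4) (nat_lit 4) (nat_lit 5) (nat_lit 5) (nat_lit 5) (nat_lit 4) (nat_lit 403) (nat_lit 285) (nat_lit 212))))) (XT.nd (nat_lit 234) (nat_lit 0) (nat_lit 0)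 (XT.nd (nat_lit 78) (nat_lit 152) (nat_lit 0) (XT.lf (nat_lit 0) (nat_lit 139609757362) (nat_lit 76) (nat_lit 14013435300) (nat_lit 76) (nat_lit 4589671624) (nat_lit 4) (nat_lit 4) (nat_lit 5) (nat_lit 5) (nat_lit 5) (nat_lit 4) (nat_lit 404) (nat_lit 285) (nat_lit 211)) (XT.nd (nat_lit 78) (nat_lit 76) (nat_lit 0) (XT.lf (nat_lit 0) (nat_lit 517886633) (nat_lit 152) (nat_lit 8374567086) (nat_lit 76) (nat_lit 156951940384) (nat_lit 3) (nat_lit 5) (nat_lit 5) (nat_lit 5) (nat_lit 4) (nat_lit 4) (nat_lit 405) (nat_lit 285) (nat_lit 210)) (XT.lf (nat_lit 0) (nat_lit 2338560932) (nat_lit 76) (nat_lit 3411035539) (nat_lit 152) (nat_lit 168102992686) (nat_lit 2) (nat_lit 5) (nat_lit 3) (nat_lit 5) (nat_lit 4) (nat_lit 4) (nat_lit 406) (nat_lit 285) (nat_lit 209)))) (XT.nd (nat_lit 78) (nat_lit 0) (nat_lit 0) (XT.lf (nat_lit 0) (nat_lit 11410190027) (nat_lit 152) (nat_lit 168441425206) (nat_lit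 0) (nat_lit 2401215354) (nat_lit 2) (nat_lit 5) (nat_lit 4) (nat_lit 4) (nat_lit 2) (nat_lit 4) (nat_lit 407) (nat_lit 285) (nat_lit 208)) (XT.nd (nat_lit 78) (nat_lit 0) (nat_lit 0) (XT.lf (nat_lit 0) (nat_lit 17396915066) (nat_lit 152) (nat_lit 165296334929) (nat_lit 0) (nat_lit 8377680464) (nat_lit 2) (nat_lit 5) (nat_lit 4) (nat_lit 4) (nat_lit 2) (nat_lit 4) (nat_lit 408) (nat_lit 285) (nat_lit 207)) (XT.lf (nat_lit 0) (nat_lit 23670769871) (nat_lit 152) (nat_lit 162018013259) (nat_lit 0) (nat_lit 14641763908) (nat_lit 2) (nat_lit 5) (nat_lit 4) (nat_lit 4) (nat_lit 2) (nat_lit 4) (nat_lit 409) (nat_lit 285) (nat_lit 206)))))) (XT.nd (nat_lit 468) (nat_lit 0) (nat_lit 0) (XT.nd (nat_lit 234) (nat_lit 0) (nat_lit 0) (XT.nd (nat_lit 78) (nat_lit 0) (nat_lit 0) (XT.lf (nat_lit 0) (nat_lit 30246692194) (nat_lit 152) (nat_lit 158598654668) (nat_lit 0) (nat_lit 21208380172) (nat_lit 2) (nat_lit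 5) (nat_lit 4) (nat_lit 4) (nat_lit 2) (nat_lit 4) (nat_lit 410) (nat_lit 285) (nat_lit 205)) (XT.nd (nat_lit 78) (nat_lit 0) (nat_lit 0) (XT.lf (nat_lit 0) (nat_lit 37140338990) (nat_lit 152) (nat_lit 155030117828) (nat_lit 0) (nat_lit 28093164056) (nat_lit 2) (nat_lit 5) (nat_lit 4) (nat_lit 4) (nat_lit 2) (nat_lit 4) (nat_lit 411) (nat_lit 285) (nat_lit 204)) (XT.lf (nat_lit 0) (nat_lit 44368123705) (nat_lit 152) (nat_lit 151303906220) (nat_lit 0) (nat_lit 35312507902) (nat_lit 2) (nat_lit 5) (nat_lit 4) (nat_lit 4) (nat_lit 2) (nat_lit 4) (nat_lit 412) (nat_lit 285) (nat_lit 203)))) (XT.nd (nat_lit 78) (nat_lit 0) (nat_lit 0) (XT.lf (nat_lit 0) (nat_lit 51947255351) (nat_lit 152) (nat_lit 147411147913) (nat_lit 0) (nat_lit 42883600624) (nat_lit 2) (nat_lit 5) (nat_lit 4) (nat_lit 4) (nat_lit 2) (nat_lit 4) (nat_lit 413) (nat_lit 285) (nat_lit 202)) (XT.nd (nat_lit 78) (nat_lit 0) (nat_lit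 0) (XT.lf (nat_lit 0) (nat_lit 59895779478) (nat_lit 152) (nat_lit 143342574435) (nat_lit 0) (nat_lit 50824468634) (nat_lit 2) (nat_lit 5) (nat_lit 4) (nat_lit 4) (nat_lit 2) (nat_lit 4) (nat_lit 414) (nat_lit 285) (nat_lit 201)) (XT.lf (nat_lit 0) (nat_lit 68232621144) (nat_lit 152) (nat_lit 139088498706) (nat_lit 0) (nat_lit 59154018760) (nat_lit 2) (nat_lit 5) (nat_lit 4) (nat_lit 4) (nat_lit 2) (nat_lit 4) (nat_lit 415) (nat_lit 285) (nat_lit 200))))) (XT.nd (nat_lit 234) (nat_lit 0) (nat_lit 0) (XT.nd (nat_lit 78) (nat_lit 0) (nat_lit 0) (XT.lf (nat_lit 0) (nat_lit 76977629973) (nat_lit 152) (nat_lit 134638791974) (nat_lit 0) (nat_lit 67892083265) (nat_lit 2) (nat_lit 5) (nat_lit 4) (nat_lit 4) (nat_lit 2) (nat_lit 4) (nat_lit 416) (nat_lit 285) (nat_lit 199)) (XT.nd (nat_lit 78) (nat_lit 0) (nat_lit 0) (XT.lf (nat_lit 0) (nat_lit 86151627413) (nat_lit 152) (nat_lit 129982859700) (nat_lit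 0) (nat_lit 77059467064) (nat_lit 2) (nat_lit 5) (nat_lit 4) (nat_lit 4) (nat_lit 2) (nat_lit 4) (nat_lit 417) (nat_lit 285) (nat_lit 198)) (XT.lf (nat_lit 0) (nat_lit 95776456317) (nat_lit 152) (nat_lit 125109616330) (nat_lit 0) (nat_lit 86677997260) (nat_lit 2) (nat_lit 5) (nat_lit 4) (nat_lit 4) (nat_lit 2) (nat_lit 4) (nat_lit 418) (nat_lit 285) (nat_lit 197)))) (XT.nd (nat_lit 78) (nat_lit 0) (nat_lit 0) (XT.lf (nat_lit 0) (nat_lit 105875032942) (nat_lit 152) (nat_lit 120007458904) (nat_lit 0) (nat_lit 96770575117) (nat_lit 2) (nat_lit 5) (nat_lit 4) (nat_lit 4) (nat_lit 2) (nat_lit 4) (nat_lit 419) (nat_lit 285) (nat_lit 196)) (XT.nd (nat_lit 78) (nat_lit 0) (nat_lit 0) (XT.lf (nat_lit 0) (nat_lit 116471401519) (nat_lit 152) (nat_lit 114664239428) (nat_lit 0) (nat_lit 107361230582) (nat_lit 2) (nat_lit 5) (nat_lit 4) (nat_lit 4) (nat_lit 2) (nat_lit 4) (nat_lit 420) (nat_lit 285)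 (nat_lit 195)) (XT.lf (nat_lit 0) (nat_lit 127590791498) (nat_lit 152) (nat_lit 109067235951) (nat_lit 0) (nat_lit 118475179502) (nat_lit 2) (nat_lit 5) (nat_lit 4) (nat_lit 4) (nat_lit 2) (nat_lit 4) (nat_lit 421) (nat_lit 285) (nat_lit 194))))))) (XT.nd (nat_lit 936) (nat_lit 76) (nat_lit 0) (XT.nd (nat_lit 468) (nat_lit 0) (nat_lit 0) (XT.nd (nat_lit 234) (nat_lit 0) (nat_lit 0) (XT.nd (nat_lit 78) (nat_lit 0) (nat_lit 0) (XT.lf (nat_lit 0) (nat_lit 139259677616) (nat_lit 152) (nat_lit 103203122274) (nat_lit 0) (nat_lit 130138883658) (nat_lit 2) (nat_lit 5) (nat_lit 4) (nat_lit 4) (nat_lit 2) (nat_lit 4) (nat_lit 422) (nat_lit 285) (nat_lit 193)) (XT.nd (nat_lit 78) (nat_lit 0) (nat_lit 0) (XT.lf (nat_lit 0) (nat_lit 151505842935) (nat_lit 152) (nat_lit 97057936222) (nat_lit 0) (nat_lit 142380113776) (nat_lit 2) (nat_lit 5) (nat_lit 4) (nat_lit 4) (nat_lit 2) (nat_lit 4) (nat_lit 423)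 (nat_lit 285) (nat_lit 192)) (XT.lf (nat_lit 0) (nat_lit 164358444993) (nat_lit 152) (nat_lit 90617046400) (nat_lit 0) (nat_lit 155228015642) (nat_lit 2) (nat_lit 5) (nat_lit 4) (nat_lit 4) (nat_lit 2) (nat_lit 4) (nat_lit 424) (nat_lit 285) (nat_lit 191)))) (XT.nd (nat_lit 78) (nat_lit 0) (nat_lit 0) (XT.lf (nat_lit 0) (nat_lit 177848085221) (nat_lit 152) (nat_lit 83865117355) (nat_lit 0) (nat_lit 168713179497) (nat_lit 2) (nat_lit 5) (nat_lit 4) (nat_lit 4) (nat_lit 2) (nat_lit 4) (nat_lit 425) (nat_lit 285) (nat_lit 190)) (XT.nd (nat_lit 78) (nat_lit 0) (nat_lit 0) (XT.lf (nat_lit 0) (nat_lit 192006881812) (nat_lit 152) (nat_lit 76786073065) (nat_lit 0) (nat_lit 182867712875) (nat_lit 2) (nat_lit 5) (nat_lit 4) (nat_lit 4) (nat_lit 2) (nat_lit 4) (nat_lit 426) (nat_lit 285) (nat_lit 189)) (XT.lf (nat_lit 0) (nat_lit 206868546186) (nat_lit 152) (nat_lit 69363058665) (nat_lit 0) (nat_lit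 197725317047) (nat_lit 2) (nat_lit 5) (nat_lit 4) (nat_lit 4) (nat_lit 2) (nat_lit 4) (nat_lit 427) (nat_lit 285) (nat_lit 188))))) (XT.nd (nat_lit 234) (nat_lit 0) (nat_lit 0) (XT.nd (nat_lit 78) (nat_lit 0) (nat_lit 0) (XT.lf (nat_lit 0) (nat_lit 222468463258) (nat_lit 152) (nat_lit 61578400309) (nat_lit 0) (nat_lit 213321367259) (nat_lit 2) (nat_lit 5) (nat_lit 4) (nat_lit 4) (nat_lit 2) (nat_lit 4) (nat_lit 428) (nat_lit 285) (nat_lit 187)) (XT.nd (nat_lit 78) (nat_lit 0) (nat_lit 0) (XT.lf (nat_lit 0) (nat_lit 238843775687) (nat_lit 152) (nat_lit 53413563097) (nat_lit 0) (nat_lit 229692996965) (nat_lit 2) (nat_lit 5) (nat_lit 4) (nat_lit 4) (nat_lit 2) (nat_lit 4) (nat_lit 429) (nat_lit 285) (nat_lit 186)) (XT.lf (nat_lit 0) (nat_lit 256033472314) (nat_lit 152) (nat_lit 44849106941) (nat_lit 0) (nat_lit 246879186236) (nat_lit 2) (nat_lit 5) (nat_lit 4) (nat_lit 4) (nat_lit 2) (nat_lit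 4) (nat_lit 430) (nat_lit 285) (nat_lit 185)))) (XT.nd (nat_lit 78) (nat_lit 0) (nat_lit 0) (XT.lf (nat_lit 0) (nat_lit 274078480986) (nat_lit 152) (nat_lit 35864640277) (nat_lit 0) (nat_lit 264920854570) (nat_lit 2) (nat_lit 5) (nat_lit 4) (nat_lit 4) (nat_lit 2) (nat_lit 4) (nat_lit 431) (nat_lit 285) (nat_lit 184)) (XT.nd (nat_lit 78) (nat_lit 0) (nat_lit 0) (XT.lf (nat_lit 0) (nat_lit 293021766011) (nat_lit 152) (nat_lit 26438771520) (nat_lit 0) (nat_lit 283860958320) (nat_lit 2) (nat_lit 5) (nat_lit 4) (nat_lit 4) (nat_lit 2) (nat_lit 4) (nat_lit 432) (nat_lit 285) (nat_lit 183)) (XT.lf (nat_lit 0) (nat_lit 312908430447) (nat_lit 152) (nat_lit 16549058123) (nat_lit 0) (nat_lit 303744592971) (nat_lit 2) (nat_lit 5) (nat_lit 4) (nat_lit 4) (nat_lit 2) (nat_lit 4) (nat_lit 433) (nat_lit 285) (nat_lit 182)))))) (XT.nd (nat_lit 38766) (nat_lit 0) (nat_lit 3268) (XT.nd (nat_lit 234) (nat_lit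 0) (nat_lit 0) (XT.nd (nat_lit 78) (nat_lit 76) (nat_lit 0) (XT.lf (nat_lit 0) (nat_lit 333785823496) (nat_lit 152) (nat_lit 6171953151) (nat_lit 0) (nat_lit 324619100510) (nat_lit 2) (nat_lit 5) (nat_lit 4) (nat_lit 4) (nat_lit 2) (nat_lit 4) (nat_lit 434) (nat_lit 285) (nat_lit 181)) (XT.nd (nat_lit 78) (nat_lit 0) (nat_lit 0) (XT.lf (nat_lit 0) (nat_lit 4873224404) (nat_lit 76) (nat_lit 350906513523) (nat_lit 76) (nat_lit 341737042432) (nat_lit 1) (nat_lit 4) (nat_lit 2) (nat_lit 5) (nat_lit 2) (nat_lit 4) (nat_lit 435) (nat_lit 285) (nat_lit 180)) (XT.lf (nat_lit 0) (nat_lit 16678289806) (nat_lit 76) (nat_lit 362296210017) (nat_lit 76) (nat_lit 353124121684) (nat_lit 1) (nat_lit 4) (nat_lit 2) (nat_lit 5) (nat_lit 2) (nat_lit 4) (nat_lit 436) (nat_lit 285) (nat_lit 179)))) (XT.nd (nat_lit 38376) (nat_lit 0) (nat_lit 4484) (XT.lf (nat_lit 0) (nat_lit 29067277708) (nat_lit 76) (nat_lit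 374258509468) (nat_lit 76) (nat_lit 365083928522) (nat_lit 1) (nat_lit 4) (nat_lit 2) (nat_lit 5) (nat_lit 2) (nat_lit 4) (nat_lit 437) (nat_lit 285) (nat_lit 178)) (XT.nd (nat_lit 78) (nat_lit 228) (nat_lit 0) (XT.lf (nat_lit 0) (nat_lit 1918372764) (nat_lit 304) (nat_lit 614369040) (nat_lit 0) (nat_lit 1918372764) (nat_lit 63) (nat_lit 5) (nat_lit 67) (nat_lit 4) (nat_lit 63) (nat_lit 4) (nat_lit 328) (nat_lit 286) (nat_lit 286)) (XT.lf (nat_lit 0) (nat_lit 5920012584) (nat_lit 228) (nat_lit 2066895320) (nat_lit 228) (nat_lit 1108048616) (nat_lit 60) (nat_lit 4) (nat_lit 63) (nat_lit 5) (nat_lit 63) (nat_lit 4) (nat_lit 329) (nat_lit 286) (nat_lit 285))))) (XT.nd (nat_lit 234) (nat_lit 608) (nat_lit 0) (XT.nd (nat_lit 78) (nat_lit 304) (nat_lit 0) (XT.lf (nat_lit 0) (nat_lit 2891812473) (nat_lit 304) (nat_lit 5297225606) (nat_lit 0) (nat_lit 1108922909) (nat_lit 56) (nat_lit 5) (nat_lit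 60) (nat_lit 4) (nat_lit 56) (nat_lit 4) (nat_lit 330) (nat_lit 286) (nat_lit 284)) (XT.nd (nat_lit 78) (nat_lit 76) (nat_lit 0) (XT.lf (nat_lit 0) (nat_lit 1908380938) (nat_lit 228) (nat_lit 5107524010) (nat_lit 228) (nat_lit 2496346611) (nat_lit 53) (nat_lit 4) (nat_lit 56) (nat_lit 5) (nat_lit 56) (nat_lit 4) (nat_lit 331) (nat_lit 286) (nat_lit 283)) (XT.lf (nat_lit 0) (nat_lit 1492992463) (nat_lit 304) (nat_lit 339388406) (nat_lit 76) (nat_lit 7906949568) (nat_lit 52) (nat_lit 5) (nat_lit 56) (nat_lit 5) (nat_lit 53) (nat_lit 4) (nat_lit 332) (nat_lit 286) (nat_lit 282)))) (XT.nd (nat_lit 78) (nat_lit 456) (nat_lit 0) (XT.lf (nat_lit 0) (nat_lit 5589294075) (nat_lit 228) (nat_lit 2751284595) (nat_lit 0) (nat_lit 1635670801) (nat_lit 50) (nat_lit 5) (nat_lit 53) (nat_lit 4) (nat_lit 50) (nat_lit 4) (nat_lit 333) (nat_lit 286) (nat_lit 281)) (XT.nd (nat_lit 78) (nat_lit 228) (nat_lit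 0) (XT.lf (nat_lit 0) (nat_lit 4850397941) (nat_lit 228) (nat_lit 5005742387) (nat_lit 228) (nat_lit 370684661) (nat_lit 47) (nat_lit 4) (nat_lit 50) (nat_lit 5) (nat_lit 50) (nat_lit 4) (nat_lit 334) (nat_lit 286) (nat_lit 280)) (XT.lf (nat_lit 0) (nat_lit 2219831664) (nat_lit 152) (nat_lit 1440594960) (nat_lit 228) (nat_lit 6829731204) (nat_lit 44) (nat_lit 5) (nat_lit 46) (nat_lit 5) (nat_lit 47) (nat_lit 4) (nat_lit 335) (nat_lit 286) (nat_lit 279))))))))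
noncomputable def xc64 : XT := (XT.nd (nat_lit 1794) (nat_lit 836) (nat_lit 0) (XT.nd (nat_lit 858) (nat_lit 760) (nat_lit 0) (XT.nd (nat_lit 390) (nat_lit 608) (nat_lit 0) (XT.nd (nat_lit 156) (nat_lit 380) (nat_lit 0) (XT.nd (nat_lit 78) (nat_lit 228) (nat_lit 0) (XT.lf (nat_lit 0) (nat_lit 7866281967) (nat_lit 228) (nat_lit 655661569) (nat_lit 0) (nat_lit 2245211440) (nat_lit 44) (nat_lit 5) (nat_lit 47) (nat_lit 4) (nat_lit 44) (nat_lit 4) (nat_lit 336) (nat_lit 286) (nat_lit 278)) (XT.lf (nat_lit 0) (nat_lit 1187189617) (nat_lit 228) (nat_lit 3747949619) (nat_lit 76) (nat_lit 6121885371) (nat_lit 41) (nat_lit 5) (nat_lit 44) (nat_lit 5) (nat_lit 42) (nat_lit 4) (nat_lit 337) (nat_lit 286) (nat_lit 277))) (XT.nd (nat_lit 78) (nat_lit 228) (nat_lit 0) (XT.lf (nat_lit 0) (nat_lit 4198117987) (nat_lit 152) (nat_lit 1125651791) (nat_lit 228) (nat_lit 6038232431) (nat_lit 39) (nat_lit 5)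 (nat_lit 41) (nat_lit 5) (nat_lit 42) (nat_lit 4) (nat_lit 338) (nat_lit 286) (nat_lit 276)) (XT.nd (nat_lit 78) (nat_lit 76) (nat_lit 0) (XT.lf (nat_lit 0) (nat_lit 746297128) (nat_lit 152) (nat_lit 8908364118) (nat_lit 152) (nat_lit 2028262272) (nat_lit 37) (nat_lit 4) (nat_lit 39) (nat_lit 5) (nat_lit 39) (nat_lit 4) (nat_lit 339) (nat_lit 286) (nat_lit 275)) (XT.lf (nat_lit 0) (nat_lit 2121279187) (nat_lit 228) (nat_lit 2992701171) (nat_lit 76) (nat_lit 6903823699) (nat_lit 36) (nat_lit 5) (nat_lit 39) (nat_lit 5) (nat_lit 37) (nat_lit 4) (nat_lit 340) (nat_lit 286) (nat_lit 274))))) (XT.nd (nat_lit 234) (nat_lit 304) (nat_lit 0) (XT.nd (nat_lit 78) (nat_lit 228) (nat_lit 0) (XT.lf (nat_lit 0) (nat_lit 5269478402) (nat_lit 76) (nat_lit 1096404832) (nat_lit 152) (nat_lit 6004155013) (nat_lit 35) (nat_lit 5) (nat_lit 36) (nat_lit 5) (nat_lit 37) (nat_lit 4) (nat_lit 341) (nat_lit 286)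 (nat_lit 273)) (XT.nd (nat_lit 78) (nat_lit 76) (nat_lit 0) (XT.lf (nat_lit 0) (nat_lit 1080549220) (nat_lit 152) (nat_lit 9734145846) (nat_lit 152) (nat_lit 1925646922) (nat_lit 33) (nat_lit 4) (nat_lit 35) (nat_lit 5) (nat_lit 35) (nat_lit 4) (nat_lit 342) (nat_lit 286) (nat_lit 272)) (XT.lf (nat_lit 0) (nat_lit 2296985238) (nat_lit 228) (nat_lit 3479127386) (nat_lit 76) (nat_lit 7350478408) (nat_lit 32) (nat_lit 5) (nat_lit 35) (nat_lit 5) (nat_lit 33) (nat_lit 4) (nat_lit 343) (nat_lit 286) (nat_lit 271)))) (XT.nd (nat_lit 78) (nat_lit 228) (nat_lit 0) (XT.lf (nat_lit 0) (nat_lit 5033962513) (nat_lit 76) (nat_lit 1592032060) (nat_lit 152) (nat_lit 6906630555) (nat_lit 31) (nat_lit 5) (nat_lit 32) (nat_lit 5) (nat_lit 33) (nat_lit 4) (nat_lit 344) (nat_lit 286) (nat_lit 270)) (XT.nd (nat_lit 78) (nat_lit 228) (nat_lit 0) (XT.lf (nat_lit 0) (nat_lit 11157571166) (nat_lit 152) (nat_lit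 114556628) (nat_lit 0) (nat_lit 2687573960) (nat_lit 31) (nat_lit 5) (nat_lit 33) (nat_lit 4) (nat_lit 31) (nat_lit 4) (nat_lit 345) (nat_lit 286) (nat_lit 269)) (XT.lf (nat_lit 0) (nat_lit 1510855003) (nat_lit 228) (nat_lit 5684917422) (nat_lit 76) (nat_lit 7208649568) (nat_lit 28) (nat_lit 5) (nat_lit 31) (nat_lit 5) (nat_lit 29) (nat_lit 4) (nat_lit 346) (nat_lit 286) (nat_lit 268)))))) (XT.nd (nat_lit 468) (nat_lit 380) (nat_lit 0) (XT.nd (nat_lit 234) (nat_lit 152) (nat_lit 0) (XT.nd (nat_lit 78) (nat_lit 152) (nat_lit 0) (XT.lf (nat_lit 0) (nat_lit 2979352004) (nat_lit 76) (nat_lit 2903003985) (nat_lit 152) (nat_lit 8989913935) (nat_lit 27) (nat_lit 5) (nat_lit 28) (nat_lit 5) (nat_lit 29) (nat_lit 4) (nat_lit 347) (nat_lit 286) (nat_lit 267)) (XT.nd (nat_lit 78) (nat_lit 152) (nat_lit 0) (XT.lf (nat_lit 0) (nat_lit 10484813465) (nat_lit 152) (nat_lit 3310091078) (nat_lit 0) (nat_lit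 1568025023) (nat_lit 27) (nat_lit 5) (nat_lit 29) (nat_lit 4) (nat_lit 27) (nat_lit 4) (nat_lit 348) (nat_lit 286) (nat_lit 266)) (XT.lf (nat_lit 0) (nat_lit 5645482785) (nat_lit 152) (nat_lit 9702383142) (nat_lit 152) (nat_lit 528769222) (nat_lit 25) (nat_lit 4) (nat_lit 27) (nat_lit 5) (nat_lit 27) (nat_lit 4) (nat_lit 349) (nat_lit 286) (nat_lit 265)))) (XT.nd (nat_lit 78) (nat_lit 76) (nat_lit 0) (XT.lf (nat_lit 0) (nat_lit 3860896120) (nat_lit 228) (nat_lit 1503372566) (nat_lit 76) (nat_lit 11051033539) (nat_lit 24) (nat_lit 5) (nat_lit 27) (nat_lit 5) (nat_lit 25) (nat_lit 4) (nat_lit 350) (nat_lit 286) (nat_lit 264)) (XT.nd (nat_lit 78) (nat_lit 0) (nat_lit 0) (XT.lf (nat_lit 0) (nat_lit 7718265817) (nat_lit 76) (nat_lit 754623797) (nat_lit 152) (nat_lit 8506580457) (nat_lit 23) (nat_lit 5) (nat_lit 24) (nat_lit 5) (nat_lit 25) (nat_lit 4) (nat_lit 351) (nat_lit 286) (nat_lit 263))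 (XT.lf (nat_lit 0) (nat_lit 13305985730) (nat_lit 152) (nat_lit 363249683) (nat_lit 0) (nat_lit 3903115828) (nat_lit 23) (nat_lit 5) (nat_lit 25) (nat_lit 4) (nat_lit 23) (nat_lit 4) (nat_lit 352) (nat_lit 286) (nat_lit 262))))) (XT.nd (nat_lit 234) (nat_lit 152) (nat_lit 0) (XT.nd (nat_lit 78) (nat_lit 76) (nat_lit 0) (XT.lf (nat_lit 0) (nat_lit 240637973) (nat_lit 152) (nat_lit 9110791537) (nat_lit 76) (nat_lit 8840292829) (nat_lit 21) (nat_lit 5) (nat_lit 23) (nat_lit 5) (nat_lit 22) (nat_lit 4) (nat_lit 353) (nat_lit 286) (nat_lit 261)) (XT.nd (nat_lit 78) (nat_lit 76) (nat_lit 0) (XT.lf (nat_lit 0) (nat_lit 4741722622) (nat_lit 152) (nat_lit 75215133) (nat_lit 76) (nat_lit 14026047758) (nat_lit 21) (nat_lit 5) (nat_lit 23) (nat_lit 5) (nat_lit 22) (nat_lit 4) (nat_lit 354) (nat_lit 286) (nat_lit 260)) (XT.lf (nat_lit 0) (nat_lit 9527743888) (nat_lit 152) (nat_lit 9971466678) (nat_lit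 0) (nat_lit 24631905) (nat_lit 20) (nat_lit 5) (nat_lit 22) (nat_lit 4) (nat_lit 20) (nat_lit 4) (nat_lit 355) (nat_lit 286) (nat_lit 259)))) (XT.nd (nat_lit 78) (nat_lit 152) (nat_lit 0) (XT.lf (nat_lit 0) (nat_lit 14544236596) (nat_lit 152) (nat_lit 819398113) (nat_lit 0) (nat_lit 4875572620) (nat_lit 20) (nat_lit 5) (nat_lit 22) (nat_lit 4) (nat_lit 20) (nat_lit 4) (nat_lit 356) (nat_lit 286) (nat_lit 258)) (XT.nd (nat_lit 78) (nat_lit 76) (nat_lit 0) (XT.lf (nat_lit 0) (nat_lit 8917902436) (nat_lit 76) (nat_lit 10948036856) (nat_lit 76) (nat_lit 1121704315) (nat_lit 19) (nat_lit 4) (nat_lit 20) (nat_lit 5) (nat_lit 20) (nat_lit 4) (nat_lit 357) (nat_lit 286) (nat_lit 257)) (XT.lf (nat_lit 0) (nat_lit 3491922799) (nat_lit 152) (nat_lit 2818051338) (nat_lit 76) (nat_lit 15464200610) (nat_lit 18) (nat_lit 5) (nat_lit 20) (nat_lit 5) (nat_lit 19) (nat_lit 4) (nat_lit 358) (nat_lit 286)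 (nat_lit 256))))))) (XT.nd (nat_lit 936) (nat_lit 304) (nat_lit 0) (XT.nd (nat_lit 468) (nat_lit 228) (nat_lit 0) (XT.nd (nat_lit 234) (nat_lit 152) (nat_lit 0) (XT.nd (nat_lit 78) (nat_lit 76) (nat_lit 0) (XT.lf (nat_lit 0) (nat_lit 6949723194) (nat_lit 76) (nat_lit 1376728663) (nat_lit 152) (nat_lit 14271284687) (nat_lit 17) (nat_lit 5) (nat_lit 18) (nat_lit 5) (nat_lit 19) (nat_lit 4) (nat_lit 359) (nat_lit 286) (nat_lit 255)) (XT.nd (nat_lit 78) (nat_lit 76) (nat_lit 0) (XT.lf (nat_lit 0) (nat_lit 13430452468) (nat_lit 152) (nat_lit 6367539038) (nat_lit 0) (nat_lit 3663116136) (nat_lit 17) (nat_lit 5) (nat_lit 19) (nat_lit 4) (nat_lit 17) (nat_lit 4) (nat_lit 360) (nat_lit 286) (nat_lit 254)) (XT.lf (nat_lit 0) (nat_lit 3316725570) (nat_lit 76) (nat_lit 15470955838) (nat_lit 76) (nat_lit 5580082059) (nat_lit 16) (nat_lit 4) (nat_lit 17) (nat_lit 5) (nat_lit 17) (nat_lit 4) (nat_lit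 361) (nat_lit 286) (nat_lit 253)))) (XT.nd (nat_lit 78) (nat_lit 152) (nat_lit 0) (XT.lf (nat_lit 0) (nat_lit 13564769636) (nat_lit 76) (nat_lit 10880940387) (nat_lit 76) (nat_lit 872411898) (nat_lit 16) (nat_lit 4) (nat_lit 17) (nat_lit 5) (nat_lit 17) (nat_lit 4) (nat_lit 362) (nat_lit 286) (nat_lit 252)) (XT.nd (nat_lit 78) (nat_lit 76) (nat_lit 0) (XT.lf (nat_lit 0) (nat_lit 3867838484) (nat_lit 152) (nat_lit 2191511701) (nat_lit 76) (nat_lit 20257111466) (nat_lit 15) (nat_lit 5) (nat_lit 17) (nat_lit 5) (nat_lit 16) (nat_lit 4) (nat_lit 363) (nat_lit 286) (nat_lit 251)) (XT.lf (nat_lit 0) (nat_lit 7958187757) (nat_lit 76) (nat_lit 912780361) (nat_lit 152) (nat_lit 18490290352) (nat_lit 14) (nat_lit 5) (nat_lit 15) (nat_lit 5) (nat_lit 16) (nat_lit 4) (nat_lit 364) (nat_lit 286) (nat_lit 250))))) (XT.nd (nat_lit 234) (nat_lit 152) (nat_lit 0) (XT.nd (nat_lit 78) (nat_lit 76) (nat_lit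 0) (XT.lf (nat_lit 0) (nat_lit 14163365218) (nat_lit 152) (nat_lit 9966700493) (nat_lit 0) (nat_lit 4326287648) (nat_lit 14) (nat_lit 5) (nat_lit 16) (nat_lit 4) (nat_lit 14) (nat_lit 4) (nat_lit 365) (nat_lit 286) (nat_lit 249)) (XT.nd (nat_lit 78) (nat_lit 76) (nat_lit 0) (XT.lf (nat_lit 0) (nat_lit 19669887981) (nat_lit 152) (nat_lit 198227980) (nat_lit 0) (nat_lit 9740624867) (nat_lit 14) (nat_lit 5) (nat_lit 16) (nat_lit 4) (nat_lit 14) (nat_lit 4) (nat_lit 366) (nat_lit 286) (nat_lit 248)) (XT.lf (nat_lit 0) (nat_lit 10268512687) (nat_lit 76) (nat_lit 15281203688) (nat_lit 76) (nat_lit 5264144817) (nat_lit 13) (nat_lit 4) (nat_lit 14) (nat_lit 5) (nat_lit 14) (nat_lit 4) (nat_lit 367) (nat_lit 286) (nat_lit 247)))) (XT.nd (nat_lit 78) (nat_lit 152) (nat_lit 0) (XT.lf (nat_lit 0) (nat_lit 21148576733) (nat_lit 76) (nat_lit 10517119315) (nat_lit 76) (nat_lit 416445438) (nat_lit 13)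 (nat_lit 4) (nat_lit 14) (nat_lit 5) (nat_lit 14) (nat_lit 4) (nat_lit 368) (nat_lit 286) (nat_lit 246)) (XT.nd (nat_lit 78) (nat_lit 76) (nat_lit 0) (XT.lf (nat_lit 0) (nat_lit 4464803768) (nat_lit 152) (nat_lit 1027459490) (nat_lit 76) (nat_lit 27920897379) (nat_lit 12) (nat_lit 5) (nat_lit 14) (nat_lit 5) (nat_lit 13) (nat_lit 4) (nat_lit 369) (nat_lit 286) (nat_lit 245)) (XT.lf (nat_lit 0) (nat_lit 9565371816) (nat_lit 76) (nat_lit 103662480) (nat_lit 152) (nat_lit 25136719675) (nat_lit 11) (nat_lit 5) (nat_lit 12) (nat_lit 5) (nat_lit 13) (nat_lit 4) (nat_lit 370) (nat_lit 286) (nat_lit 244)))))) (XT.nd (nat_lit 468) (nat_lit 152) (nat_lit 0) (XT.nd (nat_lit 234) (nat_lit 76) (nat_lit 0) (XT.nd (nat_lit 78) (nat_lit 76) (nat_lit 0) (XT.lf (nat_lit 0) (nat_lit 15181690241) (nat_lit 152) (nat_lit 15738746329) (nat_lit 0) (nat_lit 5345139500) (nat_lit 11) (nat_lit 5) (nat_lit 13) (nat_lit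 4) (nat_lit 11) (nat_lit 4) (nat_lit 371) (nat_lit 286) (nat_lit 243)) (XT.nd (nat_lit 78) (nat_lit 76) (nat_lit 0) (XT.lf (nat_lit 0) (nat_lit 20918162993) (nat_lit 152) (nat_lit 5866728700) (nat_lit 0) (nat_lit 11016097707) (nat_lit 11) (nat_lit 5) (nat_lit 13) (nat_lit 4) (nat_lit 11) (nat_lit 4) (nat_lit 372) (nat_lit 286) (nat_lit 242)) (XT.lf (nat_lit 0) (nat_lit 4546304120) (nat_lit 76) (nat_lit 22415168788) (nat_lit 76) (nat_lit 12450708697) (nat_lit 10) (nat_lit 4) (nat_lit 11) (nat_lit 5) (nat_lit 11) (nat_lit 4) (nat_lit 373) (nat_lit 286) (nat_lit 241)))) (XT.nd (nat_lit 78) (nat_lit 76) (nat_lit 0) (XT.lf (nat_lit 0) (nat_lit 15587154533) (nat_lit 76) (nat_lit 17769102805) (nat_lit 76) (nat_lit 7745219090) (nat_lit 10) (nat_lit 4) (nat_lit 11) (nat_lit 5) (nat_lit 11) (nat_lit 4) (nat_lit 374) (nat_lit 286) (nat_lit 240)) (XT.nd (nat_lit 78) (nat_lit 76) (nat_lit 0) (XT.lf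 (nat_lit 0) (nat_lit 27088129731) (nat_lit 76) (nat_lit 12934987572) (nat_lit 76) (nat_lit 2854509929) (nat_lit 10) (nat_lit 4) (nat_lit 11) (nat_lit 5) (nat_lit 11) (nat_lit 4) (nat_lit 375) (nat_lit 286) (nat_lit 239)) (XT.lf (nat_lit 0) (nat_lit 2161591357) (nat_lit 152) (nat_lit 5703114338) (nat_lit 76) (nat_lit 36878414036) (nat_lit 9) (nat_lit 5) (nat_lit 11) (nat_lit 5) (nat_lit 10) (nat_lit 4) (nat_lit 376) (nat_lit 286) (nat_lit 238))))) (XT.nd (nat_lit 234) (nat_lit 76) (nat_lit 0) (XT.nd (nat_lit 78) (nat_lit 0) (nat_lit 0) (XT.lf (nat_lit 0) (nat_lit 4913214092) (nat_lit 76) (nat_lit 2452114236) (nat_lit 152) (nat_lit 39332587681) (nat_lit 8) (nat_lit 5) (nat_lit 9) (nat_lit 5) (nat_lit 10) (nat_lit 4) (nat_lit 377) (nat_lit 286) (nat_lit 237)) (XT.nd (nat_lit 78) (nat_lit 0) (nat_lit 0) (XT.lf (nat_lit 0) (nat_lit 12934079356) (nat_lit 152) (nat_lit 32624293840) (nat_lit 0)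 (nat_lit 3186844171) (nat_lit 8) (nat_lit 5) (nat_lit 10) (nat_lit 4) (nat_lit 8) (nat_lit 4) (nat_lit 378) (nat_lit 286) (nat_lit 236)) (XT.lf (nat_lit 0) (nat_lit 18779763876) (nat_lit 152) (nat_lit 23127015565) (nat_lit 0) (nat_lit 8988185869) (nat_lit 8) (nat_lit 5) (nat_lit 10) (nat_lit 4) (nat_lit 8) (nat_lit 4) (nat_lit 379) (nat_lit 286) (nat_lit 235)))) (XT.nd (nat_lit 78) (nat_lit 76) (nat_lit 0) (XT.lf (nat_lit 0) (nat_lit 24878015810) (nat_lit 152) (nat_lit 13231970150) (nat_lit 0) (nat_lit 15044206543) (nat_lit 8) (nat_lit 5) (nat_lit 10) (nat_lit 4) (nat_lit 8) (nat_lit 4) (nat_lit 380) (nat_lit 286) (nat_lit 234)) (XT.nd (nat_lit 78) (nat_lit 76) (nat_lit 0) (XT.lf (nat_lit 0) (nat_lit 31243354805) (nat_lit 152) (nat_lit 2915597963) (nat_lit 0) (nat_lit 21369325290) (nat_lit 8) (nat_lit 5) (nat_lit 10) (nat_lit 4) (nat_lit 8) (nat_lit 4) (nat_lit 381) (nat_lit 286) (nat_lit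 233)) (XT.lf (nat_lit 0) (nat_lit 8106109928) (nat_lit 76) (nat_lit 29911385595) (nat_lit 76) (nat_lit 19999051082) (nat_lit 7) (nat_lit 4) (nat_lit 8) (nat_lit 5) (nat_lit 8) (nat_lit 4) (nat_lit 382) (nat_lit 286) (nat_lit 232))))))))
noncomputable def xc65 : XT := (XT.nd (nat_lit 1794) (nat_lit 152) (nat_lit 0) (XT.nd (nat_lit 858) (nat_lit 76) (nat_lit 0) (XT.nd (nat_lit 390) (nat_lit 76) (nat_lit 0) (XT.nd (nat_lit 156) (nat_lit 76) (nat_lit 0) (XT.nd (nat_lit 78) (nat_lit 0) (nat_lit 0) (XT.lf (nat_lit 0) (nat_lit 19711325034) (nat_lit 76) (nat_lit 25433012251) (nat_lit 76) (nat_lit 15484196787) (nat_lit 7) (nat_lit 4) (nat_lit 8) (nat_lit 5) (nat_lit 8) (nat_lit 4) (nat_lit 383) (nat_lit 286) (nat_lit 231)) (XT.lf (nat_lit 0) (nat_lit 31831275982) (nat_lit 76) (nat_lit 20762547005) (nat_lit 76) (nat_lit 10778987779) (nat_lit 7) (nat_lit 4) (nat_lit 8) (nat_lit 5) (nat_lit 8) (nat_lit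 4) (nat_lit 384) (nat_lit 286) (nat_lit 230))) (XT.nd (nat_lit 78) (nat_lit 76) (nat_lit 0) (XT.lf (nat_lit 0) (nat_lit 44494819799) (nat_lit 76) (nat_lit 15888869702) (nat_lit 76) (nat_lit 5872221179) (nat_lit 7) (nat_lit 4) (nat_lit 8) (nat_lit 5) (nat_lit 8) (nat_lit 4) (nat_lit 385) (nat_lit 286) (nat_lit 229)) (XT.nd (nat_lit 78) (nat_lit 76) (nat_lit 0) (XT.lf (nat_lit 0) (nat_lit 57732107780) (nat_lit 76) (nat_lit 10800376348) (nat_lit 76) (nat_lit 752214209) (nat_lit 7) (nat_lit 4) (nat_lit 8) (nat_lit 5) (nat_lit 8) (nat_lit 4) (nat_lit 386) (nat_lit 286) (nat_lit 228)) (XT.lf (nat_lit 0) (nat_lit 4446211782) (nat_lit 152) (nat_lit 963440952) (nat_lit 76) (nat_lit 67053146745) (nat_lit 6) (nat_lit 5) (nat_lit 8) (nat_lit 5) (nat_lit 7) (nat_lit 4) (nat_lit 387) (nat_lit 286) (nat_lit 227))))) (XT.nd (nat_lit 234) (nat_lit 0) (nat_lit 0) (XT.nd (nat_lit 78) (nat_lit 0) (nat_lit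 0) (XT.lf (nat_lit 0) (nat_lit 10020173257) (nat_lit 152) (nat_lit 65377286450) (nat_lit 0) (nat_lit 394688604) (nat_lit 5) (nat_lit 5) (nat_lit 7) (nat_lit 4) (nat_lit 5) (nat_lit 4) (nat_lit 388) (nat_lit 286) (nat_lit 226)) (XT.nd (nat_lit 78) (nat_lit 0) (nat_lit 0) (XT.lf (nat_lit 0) (nat_lit 15950006793) (nat_lit 152) (nat_lit 57035506974) (nat_lit 0) (nat_lit 6298595809) (nat_lit 5) (nat_lit 5) (nat_lit 7) (nat_lit 4) (nat_lit 5) (nat_lit 4) (nat_lit 389) (nat_lit 286) (nat_lit 225)) (XT.lf (nat_lit 0) (nat_lit 22149577086) (nat_lit 152) (nat_lit 48328958719) (nat_lit 0) (nat_lit 12473474359) (nat_lit 5) (nat_lit 5) (nat_lit 7) (nat_lit 4) (nat_lit 5) (nat_lit 4) (nat_lit 390) (nat_lit 286) (nat_lit 224)))) (XT.nd (nat_lit 78) (nat_lit 0) (nat_lit 0) (XT.lf (nat_lit 0) (nat_lit 28633645019) (nat_lit 152) (nat_lit 39236911809) (nat_lit 0) (nat_lit 18934026346) (nat_lit 5) (nat_lit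 5) (nat_lit 7) (nat_lit 4) (nat_lit 5) (nat_lit 4) (nat_lit 391) (nat_lit 286) (nat_lit 223)) (XT.nd (nat_lit 78) (nat_lit 0) (nat_lit 0) (XT.lf (nat_lit 0) (nat_lit 35417648848) (nat_lit 152) (nat_lit 29737718513) (nat_lit 0) (nat_lit 25695634036) (nat_lit 5) (nat_lit 5) (nat_lit 7) (nat_lit 4) (nat_lit 5) (nat_lit 4) (nat_lit 392) (nat_lit 286) (nat_lit 222)) (XT.lf (nat_lit 0) (nat_lit 42517740963) (nat_lit 152) (nat_lit 19808761705) (nat_lit 0) (nat_lit 32774396495) (nat_lit 5) (nat_lit 5) (nat_lit 7) (nat_lit 4) (nat_lit 5) (nat_lit 4) (nat_lit 393) (nat_lit 286) (nat_lit 221)))))) (XT.nd (nat_lit 468) (nat_lit 0) (nat_lit 0) (XT.nd (nat_lit 234) (nat_lit 0) (nat_lit 0) (XT.nd (nat_lit 78) (nat_lit 76) (nat_lit 0) (XT.lf (nat_lit 0) (nat_lit 49950826346) (nat_lit 152) (nat_lit 9426401010) (nat_lit 0) (nat_lit 40187167920) (nat_lit 5) (nat_lit 5) (nat_lit 7) (nat_lit 4) (nat_lit 5)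 (nat_lit 4) (nat_lit 394) (nat_lit 286) (nat_lit 220)) (XT.nd (nat_lit 78) (nat_lit 0) (nat_lit 0) (XT.lf (nat_lit 0) (nat_lit 1481500752) (nat_lit 76) (nat_lit 56276232445) (nat_lit 76) (nat_lit 46493227393) (nat_lit 4) (nat_lit 4) (nat_lit 5) (nat_lit 5) (nat_lit 5) (nat_lit 4) (nat_lit 395) (nat_lit 286) (nat_lit 219)) (XT.lf (nat_lit 0) (nat_lit 13221727917) (nat_lit 76) (nat_lit 52872303493) (nat_lit 76) (nat_lit 43070873081) (nat_lit 4) (nat_lit 4) (nat_lit 5) (nat_lit 5) (nat_lit 5) (nat_lit 4) (nat_lit 396) (nat_lit 286) (nat_lit 218)))) (XT.nd (nat_lit 78) (nat_lit 0) (nat_lit 0) (XT.lf (nat_lit 0) (nat_lit 25510554016) (nat_lit 76) (nat_lit 49316976570) (nat_lit 76) (nat_lit 39497998197) (nat_lit 4) (nat_lit 4) (nat_lit 5) (nat_lit 5) (nat_lit 5) (nat_lit 4) (nat_lit 397) (nat_lit 286) (nat_lit 217)) (XT.nd (nat_lit 78) (nat_lit 0) (nat_lit 0) (XT.lf (nat_lit 0) (nat_lit 38377238160)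 (nat_lit 76) (nat_lit 45601786611) (nat_lit 76) (nat_lit 35766095895) (nat_lit 4) (nat_lit 4) (nat_lit 5) (nat_lit 5) (nat_lit 5) (nat_lit 4) (nat_lit 398) (nat_lit 286) (nat_lit 216)) (XT.lf (nat_lit 0) (nat_lit 51852415311) (nat_lit 76) (nat_lit 41717887927) (nat_lit 76) (nat_lit 31866280693) (nat_lit 4) (nat_lit 4) (nat_lit 5) (nat_lit 5) (nat_lit 5) (nat_lit 4) (nat_lit 399) (nat_lit 286) (nat_lit 215))))) (XT.nd (nat_lit 234) (nat_lit 0) (nat_lit 0) (XT.nd (nat_lit 78) (nat_lit 0) (nat_lit 0) (XT.lf (nat_lit 0) (nat_lit 65968169223) (nat_lit 76) (nat_lit 37656033139) (nat_lit 76) (nat_lit 27789267317) (nat_lit 4) (nat_lit 4) (nat_lit 5) (nat_lit 5) (nat_lit 5) (nat_lit 4) (nat_lit 400) (nat_lit 286) (nat_lit 214)) (XT.nd (nat_lit 78) (nat_lit 0) (nat_lit 0) (XT.lf (nat_lit 0) (nat_lit 80758108835) (nat_lit 76) (nat_lit 33406551166) (nat_lit 76) (nat_lit 23525348593) (nat_lit 4) (nat_lit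 4) (nat_lit 5) (nat_lit 5) (nat_lit 5) (nat_lit 4) (nat_lit 401) (nat_lit 286) (nat_lit 213)) (XT.lf (nat_lit 0) (nat_lit 96257448289) (nat_lit 76) (nat_lit 28959324191) (nat_lit 76) (nat_lit 19064372332) (nat_lit 4) (nat_lit 4) (nat_lit 5) (nat_lit 5) (nat_lit 5) (nat_lit 4) (nat_lit 402) (nat_lit 286) (nat_lit 212)))) (XT.nd (nat_lit 78) (nat_lit 0) (nat_lit 0) (XT.lf (nat_lit 0) (nat_lit 112503090774) (nat_lit 76) (nat_lit 24303763581) (nat_lit 76) (nat_lit 14395717163) (nat_lit 4) (nat_lit 4) (nat_lit 5) (nat_lit 5) (nat_lit 5) (nat_lit 4) (nat_lit 403) (nat_lit 286) (nat_lit 211)) (XT.nd (nat_lit 78) (nat_lit 0) (nat_lit 0) (XT.lf (nat_lit 0) (nat_lit 129533716390) (nat_lit 76) (nat_lit 19428784667) (nat_lit 76) (nat_lit 9508267240) (nat_lit 4) (nat_lit 4) (nat_lit 5) (nat_lit 5) (nat_lit 5) (nat_lit 4) (nat_lit 404) (nat_lit 286) (nat_lit 210)) (XT.lf (nat_lit 0) (nat_lit 147389874248)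 (nat_lit 76) (nat_lit 14322780355) (nat_lit 76) (nat_lit 4390385778) (nat_lit 4) (nat_lit 4) (nat_lit 5) (nat_lit 5) (nat_lit 5) (nat_lit 4) (nat_lit 405) (nat_lit 286) (nat_lit 209))))))) (XT.nd (nat_lit 936) (nat_lit 0) (nat_lit 0) (XT.nd (nat_lit 468) (nat_lit 0) (nat_lit 0) (XT.nd (nat_lit 234) (nat_lit 0) (nat_lit 0) (XT.nd (nat_lit 78) (nat_lit 76) (nat_lit 0) (XT.lf (nat_lit 0) (nat_lit 939062991) (nat_lit 152) (nat_lit 8018627016) (nat_lit 76) (nat_lit 165159112530) (nat_lit 3) (nat_lit 5) (nat_lit 5) (nat_lit 5) (nat_lit 4) (nat_lit 4) (nat_lit 406) (nat_lit 286) (nat_lit 208)) (XT.nd (nat_lit 78) (nat_lit 0) (nat_lit 0) (XT.lf (nat_lit 0) (nat_lit 3217662750) (nat_lit 76) (nat_lit 3207772285) (nat_lit 152) (nat_lit 176100320719) (nat_lit 2) (nat_lit 5) (nat_lit 3) (nat_lit 5) (nat_lit 4) (nat_lit 4) (nat_lit 407) (nat_lit 286) (nat_lit 207)) (XT.lf (nat_lit 0) (nat_lit 12356123377)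 (nat_lit 152) (nat_lit 176124639008) (nat_lit 0) (nat_lit 2865895754) (nat_lit 2) (nat_lit 5) (nat_lit 4) (nat_lit 4) (nat_lit 2) (nat_lit 4) (nat_lit 408) (nat_lit 286) (nat_lit 206)))) (XT.nd (nat_lit 78) (nat_lit 0) (nat_lit 0) (XT.lf (nat_lit 0) (nat_lit 18624307342) (nat_lit 152) (nat_lit 172857477905) (nat_lit 0) (nat_lit 9124773661) (nat_lit 2) (nat_lit 5) (nat_lit 4) (nat_lit 4) (nat_lit 2) (nat_lit 4) (nat_lit 409) (nat_lit 286) (nat_lit 205)) (XT.nd (nat_lit 78) (nat_lit 0) (nat_lit 0) (XT.lf (nat_lit 0) (nat_lit 25194828863) (nat_lit 152) (nat_lit 169448748427) (nat_lit 0) (nat_lit 15686432270) (nat_lit 2) (nat_lit 5) (nat_lit 4) (nat_lit 4) (nat_lit 2) (nat_lit 4) (nat_lit 410) (nat_lit 286) (nat_lit 204)) (XT.lf (nat_lit 0) (nat_lit 32083332040) (nat_lit 152) (nat_lit 165890334550) (nat_lit 0) (nat_lit 22566494577) (nat_lit 2) (nat_lit 5) (nat_lit 4) (nat_lit 4) (nat_lit 2)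 (nat_lit 4) (nat_lit 411) (nat_lit 286) (nat_lit 203))))) (XT.nd (nat_lit 234) (nat_lit 0) (nat_lit 0) (XT.nd (nat_lit 78) (nat_lit 0) (nat_lit 0) (XT.lf (nat_lit 0) (nat_lit 39306218069) (nat_lit 152) (nat_lit 162173763860) (nat_lit 0) (nat_lit 29781341683) (nat_lit 2) (nat_lit 5) (nat_lit 4) (nat_lit 4) (nat_lit 2) (nat_lit 4) (nat_lit 412) (nat_lit 286) (nat_lit 202)) (XT.nd (nat_lit 78) (nat_lit 0) (nat_lit 0) (XT.lf (nat_lit 0) (nat_lit 46880684300) (nat_lit 152) (nat_lit 158290187379) (nat_lit 0) (nat_lit 37348151797) (nat_lit 2) (nat_lit 5) (nat_lit 4) (nat_lit 4) (nat_lit 2) (nat_lit 4) (nat_lit 413) (nat_lit 286) (nat_lit 201)) (XT.lf (nat_lit 0) (nat_lit 54824765175) (nat_lit 152) (nat_lit 154230358498) (nat_lit 0) (nat_lit 45284941132) (nat_lit 2) (nat_lit 5) (nat_lit 4) (nat_lit 4) (nat_lit 2) (nat_lit 4) (nat_lit 414) (nat_lit 286) (nat_lit 200)))) (XT.nd (nat_lit 78) (nat_lit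 0) (nat_lit 0) (XT.lf (nat_lit 0) (nat_lit 63157375172) (nat_lit 152) (nat_lit 149984610956) (nat_lit 0) (nat_lit 53610606805) (nat_lit 2) (nat_lit 5) (nat_lit 4) (nat_lit 4) (nat_lit 2) (nat_lit 4) (nat_lit 415) (nat_lit 286) (nat_lit 199)) (XT.nd (nat_lit 78) (nat_lit 0) (nat_lit 0) (XT.lf (nat_lit 0) (nat_lit 71898353840) (nat_lit 152) (nat_lit 145542835831) (nat_lit 0) (nat_lit 62344971831) (nat_lit 2) (nat_lit 5) (nat_lit 4) (nat_lit 4) (nat_lit 2) (nat_lit 4) (nat_lit 416) (nat_lit 286) (nat_lit 198)) (XT.lf (nat_lit 0) (nat_lit 81068513032) (nat_lit 152) (nat_lit 140894457468) (nat_lit 0) (nat_lit 71508832316) (nat_lit 2) (nat_lit 5) (nat_lit 4) (nat_lit 4) (nat_lit 2) (nat_lit 4) (nat_lit 417) (nat_lit 286) (nat_lit 197)))))) (XT.nd (nat_lit 468) (nat_lit 0) (nat_lit 0) (XT.nd (nat_lit 234) (nat_lit 0) (nat_lit 0) (XT.nd (nat_lit 78) (nat_lit 0) (nat_lit 0) (XT.lf (nat_lit 0) (nat_lit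 90689686461) (nat_lit 152) (nat_lit 136028408299) (nat_lit 0) (nat_lit 81124006977) (nat_lit 2) (nat_lit 5) (nat_lit 4) (nat_lit 4) (nat_lit 2) (nat_lit 4) (nat_lit 418) (nat_lit 286) (nat_lit 196)) (XT.nd (nat_lit 78) (nat_lit 0) (nat_lit 0) (XT.lf (nat_lit 0) (nat_lit 100784781682) (nat_lit 152) (nat_lit 130933102493) (nat_lit 0) (nat_lit 91213389085) (nat_lit 2) (nat_lit 5) (nat_lit 4) (nat_lit 4) (nat_lit 2) (nat_lit 4) (nat_lit 419) (nat_lit 286) (nat_lit 195)) (XT.lf (nat_lit 0) (nat_lit 111377834636) (nat_lit 152) (nat_lit 125596408370) (nat_lit 0) (nat_lit 101801000980) (nat_lit 2) (nat_lit 5) (nat_lit 4) (nat_lit 4) (nat_lit 2) (nat_lit 4) (nat_lit 420) (nat_lit 286) (nat_lit 194)))) (XT.nd (nat_lit 78) (nat_lit 0) (nat_lit 0) (XT.lf (nat_lit 0) (nat_lit 122494066878) (nat_lit 152) (nat_lit 120005619514) (nat_lit 0) (nat_lit 112912051261) (nat_lit 2) (nat_lit 5) (nat_lit 4) (nat_lit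 4) (nat_lit 2) (nat_lit 4) (nat_lit 421) (nat_lit 286) (nat_lit 193)) (XT.nd (nat_lit 78) (nat_lit 0) (nat_lit 0) (XT.lf (nat_lit 0) (nat_lit 134159945628) (nat_lit 152) (nat_lit 114147424525) (nat_lit 0) (nat_lit 124572994809) (nat_lit 2) (nat_lit 5) (nat_lit 4) (nat_lit 4) (nat_lit 2) (nat_lit 4) (nat_lit 422) (nat_lit 286) (nat_lit 192)) (XT.lf (nat_lit 0) (nat_lit 146403246787) (nat_lit 152) (nat_lit 108007875317) (nat_lit 0) (nat_lit 136811595777) (nat_lit 2) (nat_lit 5) (nat_lit 4) (nat_lit 4) (nat_lit 2) (nat_lit 4) (nat_lit 423) (nat_lit 286) (nat_lit 191))))) (XT.nd (nat_lit 234) (nat_lit 0) (nat_lit 0) (XT.nd (nat_lit 78) (nat_lit 0) (nat_lit 0) (XT.lf (nat_lit 0) (nat_lit 159253121073) (nat_lit 152) (nat_lit 101572353919) (nat_lit 0) (nat_lit 149656993689) (nat_lit 2) (nat_lit 5) (nat_lit 4) (nat_lit 4) (nat_lit 2) (nat_lit 4) (nat_lit 424) (nat_lit 286) (nat_lit 190)) (XT.nd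 (nat_lit 78) (nat_lit 0) (nat_lit 0) (XT.lf (nat_lit 0) (nat_lit 172740163424) (nat_lit 152) (nat_lit 94825537658) (nat_lit 0) (nat_lit 163139772828) (nat_lit 2) (nat_lit 5) (nat_lit 4) (nat_lit 4) (nat_lit 2) (nat_lit 4) (nat_lit 425) (nat_lit 286) (nat_lit 189)) (XT.lf (nat_lit 0) (nat_lit 186896485846) (nat_lit 152) (nat_lit 87751362687) (nat_lit 0) (nat_lit 177292035047) (nat_lit 2) (nat_lit 5) (nat_lit 4) (nat_lit 4) (nat_lit 2) (nat_lit 4) (nat_lit 426) (nat_lit 286) (nat_lit 188)))) (XT.nd (nat_lit 78) (nat_lit 0) (nat_lit 0) (XT.lf (nat_lit 0) (nat_lit 201755793868) (nat_lit 152) (nat_lit 80332985733) (nat_lit 0) (nat_lit 192147476210) (nat_lit 2) (nat_lit 5) (nat_lit 4) (nat_lit 4) (nat_lit 2) (nat_lit 4) (nat_lit 427) (nat_lit 286) (nat_lit 187)) (XT.nd (nat_lit 78) (nat_lit 0) (nat_lit 0) (XT.lf (nat_lit 0) (nat_lit 217353466796) (nat_lit 152) (nat_lit 72552743993) (nat_lit 0)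 (nat_lit 207741466414) (nat_lit 2) (nat_lit 5) (nat_lit 4) (nat_lit 4) (nat_lit 2) (nat_lit 4) (nat_lit 428) (nat_lit 286) (nat_lit 186)) (XT.lf (nat_lit 0) (nat_lit 233726641945) (nat_lit 152) (nat_lit 64392113081) (nat_lit 0) (nat_lit 224111134208) (nat_lit 2) (nat_lit 5) (nat_lit 4) (nat_lit 4) (nat_lit 2) (nat_lit 4) (nat_lit 429) (nat_lit 286) (nat_lit 185))))))))
noncomputable def xc66 : XT := (XT.nd (nat_lit 40014) (nat_lit 0) (nat_lit 988) (XT.nd (nat_lit 39078) (nat_lit 0) (nat_lit 2584) (XT.nd (nat_lit 390) (nat_lit 76) (nat_lit 0) (XT.nd (nat_lit 156) (nat_lit 0) (nat_lit 0) (XT.nd (nat_lit 78) (nat_lit 0) (nat_lit 0) (XT.lf (nat_lit 0) (nat_lit 250914303066) (nat_lit 152) (nat_lit 55831662925) (nat_lit 0) (nat_lit 241295454991) (nat_lit 2) (nat_lit 5) (nat_lit 4) (nat_lit 4) (nat_lit 2) (nat_lit 4) (nat_lit 430) (nat_lit 286) (nat_lit 184)) (XT.lf (nat_lit 0) (nat_lit 268957373162)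 (nat_lit 152) (nat_lit 46851011500) (nat_lit 0) (nat_lit 259335343812) (nat_lit 2) (nat_lit 5) (nat_lit 4) (nat_lit 4) (nat_lit 2) (nat_lit 4) (nat_lit 431) (nat_lit 286) (nat_lit 183))) (XT.nd (nat_lit 78) (nat_lit 0) (nat_lit 0) (XT.lf (nat_lit 0) (nat_lit 287898811924) (nat_lit 152) (nat_lit 37428776303) (nat_lit 0) (nat_lit 278273752788) (nat_lit 2) (nat_lit 5) (nat_lit 4) (nat_lit 4) (nat_lit 2) (nat_lit 4) (nat_lit 432) (nat_lit 286) (nat_lit 182)) (XT.nd (nat_lit 78) (nat_lit 0) (nat_lit 0) (XT.lf (nat_lit 0) (nat_lit 307783718014) (nat_lit 152) (nat_lit 27542523440) (nat_lit 0) (nat_lit 298155773369) (nat_lit 2) (nat_lit 5) (nat_lit 4) (nat_lit 4) (nat_lit 2) (nat_lit 4) (nat_lit 433) (nat_lit 286) (nat_lit 181)) (XT.lf (nat_lit 0) (nat_lit 328659436449) (nat_lit 152) (nat_lit 17168714214) (nat_lit 0) (nat_lit 319028743698) (nat_lit 2) (nat_lit 5) (nat_lit 4) (nat_lit 4) (nat_lit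 2) (nat_lit 4) (nat_lit 434) (nat_lit 286) (nat_lit 180))))) (XT.nd (nat_lit 38454) (nat_lit 0) (nat_lit 4484) (XT.nd (nat_lit 78) (nat_lit 76) (nat_lit 0) (XT.lf (nat_lit 0) (nat_lit 350575671318) (nat_lit 152) (nat_lit 6282649080) (nat_lit 0) (nat_lit 340942361325) (nat_lit 2) (nat_lit 5) (nat_lit 4) (nat_lit 4) (nat_lit 2) (nat_lit 4) (nat_lit 435) (nat_lit 286) (nat_lit 179)) (XT.nd (nat_lit 38298) (nat_lit 0) (nat_lit 5016) (XT.lf (nat_lit 0) (nat_lit 5311595389) (nat_lit 76) (nat_lit 368355937635) (nat_lit 76) (nat_lit 358720135030) (nat_lit 1) (nat_lit 4) (nat_lit 2) (nat_lit 5) (nat_lit 2) (nat_lit 4) (nat_lit 436) (nat_lit 286) (nat_lit 178)) (XT.lf (nat_lit 0) (nat_lit 1242449262) (nat_lit 304) (nat_lit 1514977307) (nat_lit 304) (nat_lit 1514977307) (nat_lit 67) (nat_lit 4) (nat_lit 71) (nat_lit 5) (nat_lit 71) (nat_lit 4) (nat_lit 326) (nat_lit 287) (nat_lit 287)))) (XT.nd (nat_lit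 78) (nat_lit 228) (nat_lit 0) (XT.lf (nat_lit 0) (nat_lit 641311506) (nat_lit 228) (nat_lit 187195809) (nat_lit 304) (nat_lit 7893426520) (nat_lit 63) (nat_lit 5) (nat_lit 66) (nat_lit 5) (nat_lit 67) (nat_lit 4) (nat_lit 327) (nat_lit 287) (nat_lit 286)) (XT.nd (nat_lit 78) (nat_lit 228) (nat_lit 0) (XT.lf (nat_lit 0) (nat_lit 4764942856) (nat_lit 304) (nat_lit 1341975342) (nat_lit 0) (nat_lit 2799307112) (nat_lit 63) (nat_lit 5) (nat_lit 67) (nat_lit 4) (nat_lit 63) (nat_lit 4) (nat_lit 328) (nat_lit 287) (nat_lit 285)) (XT.lf (nat_lit 0) (nat_lit 5691620334) (nat_lit 228) (nat_lit 3145069805) (nat_lit 228) (nat_lit 266246723) (nat_lit 60) (nat_lit 4) (nat_lit 63) (nat_lit 5) (nat_lit 63) (nat_lit 4) (nat_lit 329) (nat_lit 287) (nat_lit 284)))))) (XT.nd (nat_lit 468) (nat_lit 684) (nat_lit 0) (XT.nd (nat_lit 234) (nat_lit 608) (nat_lit 0) (XT.nd (nat_lit 78) (nat_lit 304) (nat_lit 0)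 (XT.lf (nat_lit 0) (nat_lit 3609449334) (nat_lit 304) (nat_lit 5661328249) (nat_lit 0) (nat_lit 39425230) (nat_lit 56) (nat_lit 5) (nat_lit 60) (nat_lit 4) (nat_lit 56) (nat_lit 4) (nat_lit 330) (nat_lit 287) (nat_lit 283)) (XT.nd (nat_lit 78) (nat_lit 76) (nat_lit 0) (XT.lf (nat_lit 0) (nat_lit 1418605788) (nat_lit 228) (nat_lit 6234418946) (nat_lit 228) (nat_lit 1875549285) (nat_lit 53) (nat_lit 4) (nat_lit 56) (nat_lit 5) (nat_lit 56) (nat_lit 4) (nat_lit 331) (nat_lit 287) (nat_lit 282)) (XT.lf (nat_lit 0) (nat_lit 2021614531) (nat_lit 304) (nat_lit 965841352) (nat_lit 76) (nat_lit 6771377373) (nat_lit 52) (nat_lit 5) (nat_lit 56) (nat_lit 5) (nat_lit 53) (nat_lit 4) (nat_lit 332) (nat_lit 287) (nat_lit 281)))) (XT.nd (nat_lit 78) (nat_lit 456) (nat_lit 0) (XT.lf (nat_lit 0) (nat_lit 6018451633) (nat_lit 228) (nat_lit 3512114637) (nat_lit 0) (nat_lit 470206569) (nat_lit 50) (nat_lit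 5) (nat_lit 53) (nat_lit 4) (nat_lit 50) (nat_lit 4) (nat_lit 333) (nat_lit 287) (nat_lit 280)) (XT.nd (nat_lit 78) (nat_lit 228) (nat_lit 0) (XT.lf (nat_lit 0) (nat_lit 3954360233) (nat_lit 228) (nat_lit 6249175771) (nat_lit 228) (nat_lit 51945516) (nat_lit 47) (nat_lit 4) (nat_lit 50) (nat_lit 5) (nat_lit 50) (nat_lit 4) (nat_lit 334) (nat_lit 287) (nat_lit 279)) (XT.lf (nat_lit 0) (nat_lit 1148804417) (nat_lit 152) (nat_lit 2736130122) (nat_lit 228) (nat_lit 6637873357) (nat_lit 44) (nat_lit 5) (nat_lit 46) (nat_lit 5) (nat_lit 47) (nat_lit 4) (nat_lit 335) (nat_lit 287) (nat_lit 278))))) (XT.nd (nat_lit 234) (nat_lit 304) (nat_lit 0) (XT.nd (nat_lit 78) (nat_lit 380) (nat_lit 0) (XT.lf (nat_lit 0) (nat_lit 8004197119) (nat_lit 228) (nat_lit 1847169938) (nat_lit 0) (nat_lit 952806556) (nat_lit 44) (nat_lit 5) (nat_lit 47) (nat_lit 4) (nat_lit 44) (nat_lit 4) (nat_lit 336) (nat_lit 287)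 (nat_lit 277)) (XT.nd (nat_lit 78) (nat_lit 152) (nat_lit 0) (XT.lf (nat_lit 0) (nat_lit 1199359203) (nat_lit 228) (nat_lit 5126625919) (nat_lit 76) (nat_lit 4772289552) (nat_lit 41) (nat_lit 5) (nat_lit 44) (nat_lit 5) (nat_lit 42) (nat_lit 4) (nat_lit 337) (nat_lit 287) (nat_lit 276)) (XT.lf (nat_lit 0) (nat_lit 2667075409) (nat_lit 152) (nat_lit 2582136578) (nat_lit 228) (nat_lit 6158410288) (nat_lit 39) (nat_lit 5) (nat_lit 41) (nat_lit 5) (nat_lit 42) (nat_lit 4) (nat_lit 338) (nat_lit 287) (nat_lit 275)))) (XT.nd (nat_lit 78) (nat_lit 304) (nat_lit 0) (XT.lf (nat_lit 0) (nat_lit 9483663349) (nat_lit 228) (nat_lit 935682261) (nat_lit 0) (nat_lit 1314052009) (nat_lit 39) (nat_lit 5) (nat_lit 42) (nat_lit 4) (nat_lit 39) (nat_lit 4) (nat_lit 339) (nat_lit 287) (nat_lit 274)) (XT.nd (nat_lit 78) (nat_lit 76) (nat_lit 0) (XT.lf (nat_lit 0) (nat_lit 1829838136) (nat_lit 228) (nat_lit 4857701885)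 (nat_lit 76) (nat_lit 5384792956) (nat_lit 36) (nat_lit 5) (nat_lit 39) (nat_lit 5) (nat_lit 37) (nat_lit 4) (nat_lit 340) (nat_lit 287) (nat_lit 273)) (XT.lf (nat_lit 0) (nat_lit 3239938831) (nat_lit 76) (nat_lit 2744037039) (nat_lit 152) (nat_lit 6445142280) (nat_lit 35) (nat_lit 5) (nat_lit 36) (nat_lit 5) (nat_lit 37) (nat_lit 4) (nat_lit 341) (nat_lit 287) (nat_lit 272))))))) (XT.nd (nat_lit 936) (nat_lit 608) (nat_lit 0) (XT.nd (nat_lit 468) (nat_lit 456) (nat_lit 0) (XT.nd (nat_lit 234) (nat_lit 228) (nat_lit 0) (XT.nd (nat_lit 78) (nat_lit 304) (nat_lit 0) (XT.lf (nat_lit 0) (nat_lit 10332051231) (nat_lit 152) (nat_lit 1117175284) (nat_lit 0) (nat_lit 1355258549) (nat_lit 35) (nat_lit 5) (nat_lit 37) (nat_lit 4) (nat_lit 35) (nat_lit 4) (nat_lit 342) (nat_lit 287) (nat_lit 271)) (XT.nd (nat_lit 78) (nat_lit 76) (nat_lit 0) (XT.lf (nat_lit 0) (nat_lit 1691514167) (nat_lit 228) (nat_lit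 5870567877) (nat_lit 76) (nat_lit 5632912047) (nat_lit 32) (nat_lit 5) (nat_lit 35) (nat_lit 5) (nat_lit 33) (nat_lit 4) (nat_lit 343) (nat_lit 287) (nat_lit 270)) (XT.lf (nat_lit 0) (nat_lit 2464506852) (nat_lit 76) (nat_lit 3460785575) (nat_lit 152) (nat_lit 7680520078) (nat_lit 31) (nat_lit 5) (nat_lit 32) (nat_lit 5) (nat_lit 33) (nat_lit 4) (nat_lit 344) (nat_lit 287) (nat_lit 269)))) (XT.nd (nat_lit 78) (nat_lit 228) (nat_lit 0) (XT.lf (nat_lit 0) (nat_lit 10373102421) (nat_lit 152) (nat_lit 2824345959) (nat_lit 0) (nat_lit 839650758) (nat_lit 31) (nat_lit 5) (nat_lit 33) (nat_lit 4) (nat_lit 31) (nat_lit 4) (nat_lit 345) (nat_lit 287) (nat_lit 268)) (XT.nd (nat_lit 78) (nat_lit 0) (nat_lit 0) (XT.lf (nat_lit 0) (nat_lit 577784448) (nat_lit 228) (nat_lit 8646301137) (nat_lit 76) (nat_lit 5263365740) (nat_lit 28) (nat_lit 5) (nat_lit 31) (nat_lit 5) (nat_lit 29) (nat_lit 4) (nat_lit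 346) (nat_lit 287) (nat_lit 267)) (XT.lf (nat_lit 0) (nat_lit 4850991544) (nat_lit 228) (nat_lit 169376680) (nat_lit 76) (nat_lit 9939864452) (nat_lit 28) (nat_lit 5) (nat_lit 31) (nat_lit 5) (nat_lit 29) (nat_lit 4) (nat_lit 347) (nat_lit 287) (nat_lit 266))))) (XT.nd (nat_lit 234) (nat_lit 152) (nat_lit 0) (XT.nd (nat_lit 78) (nat_lit 228) (nat_lit 0) (XT.lf (nat_lit 0) (nat_lit 8834561272) (nat_lit 76) (nat_lit 540139883) (nat_lit 152) (nat_lit 6080146392) (nat_lit 27) (nat_lit 5) (nat_lit 28) (nat_lit 5) (nat_lit 29) (nat_lit 4) (nat_lit 348) (nat_lit 287) (nat_lit 265)) (XT.nd (nat_lit 78) (nat_lit 76) (nat_lit 0) (XT.lf (nat_lit 0) (nat_lit 2143603944) (nat_lit 152) (nat_lit 11982141191) (nat_lit 152) (nat_lit 1848425404) (nat_lit 25) (nat_lit 4) (nat_lit 27) (nat_lit 5) (nat_lit 27) (nat_lit 4) (nat_lit 349) (nat_lit 287) (nat_lit 264)) (XT.lf (nat_lit 0) (nat_lit 2534750951) (nat_lit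 228) (nat_lit 5170424615) (nat_lit 76) (nat_lit 8811143944) (nat_lit 24) (nat_lit 5) (nat_lit 27) (nat_lit 5) (nat_lit 25) (nat_lit 4) (nat_lit 350) (nat_lit 287) (nat_lit 263)))) (XT.nd (nat_lit 78) (nat_lit 76) (nat_lit 0) (XT.lf (nat_lit 0) (nat_lit 3843146366) (nat_lit 76) (nat_lit 3196690676) (nat_lit 152) (nat_lit 10046010358) (nat_lit 23) (nat_lit 5) (nat_lit 24) (nat_lit 5) (nat_lit 25) (nat_lit 4) (nat_lit 351) (nat_lit 287) (nat_lit 262)) (XT.nd (nat_lit 78) (nat_lit 76) (nat_lit 0) (XT.lf (nat_lit 0) (nat_lit 11788737852) (nat_lit 152) (nat_lit 4391010439) (nat_lit 0) (nat_lit 1503204017) (nat_lit 23) (nat_lit 5) (nat_lit 25) (nat_lit 4) (nat_lit 23) (nat_lit 4) (nat_lit 352) (nat_lit 287) (nat_lit 261)) (XT.lf (nat_lit 0) (nat_lit 4841039073) (nat_lit 76) (nat_lit 11972089691) (nat_lit 76) (nat_lit 1494908730) (nat_lit 22) (nat_lit 4) (nat_lit 23) (nat_lit 5) (nat_lit 23) (nat_lit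 4) (nat_lit 353) (nat_lit 287) (nat_lit 260)))))) (XT.nd (nat_lit 468) (nat_lit 228) (nat_lit 0) (XT.nd (nat_lit 234) (nat_lit 228) (nat_lit 0) (XT.nd (nat_lit 78) (nat_lit 76) (nat_lit 0) (XT.lf (nat_lit 0) (nat_lit 3010285371) (nat_lit 152) (nat_lit 4488617022) (nat_lit 76) (nat_lit 11463764180) (nat_lit 21) (nat_lit 5) (nat_lit 23) (nat_lit 5) (nat_lit 22) (nat_lit 4) (nat_lit 354) (nat_lit 287) (nat_lit 259)) (XT.nd (nat_lit 78) (nat_lit 0) (nat_lit 0) (XT.lf (nat_lit 0) (nat_lit 4914228288) (nat_lit 76) (nat_lit 2767605816) (nat_lit 152) (nat_lit 11967424553) (nat_lit 20) (nat_lit 5) (nat_lit 21) (nat_lit 5) (nat_lit 22) (nat_lit 4) (nat_lit 355) (nat_lit 287) (nat_lit 258)) (XT.lf (nat_lit 0) (nat_lit 12613727414) (nat_lit 152) (nat_lit 5616727337) (nat_lit 0) (nat_lit 2138409681) (nat_lit 20) (nat_lit 5) (nat_lit 22) (nat_lit 4) (nat_lit 20) (nat_lit 4) (nat_lit 356) (nat_lit 287)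 (nat_lit 257)))) (XT.nd (nat_lit 78) (nat_lit 152) (nat_lit 0) (XT.lf (nat_lit 0) (nat_lit 3886217767) (nat_lit 76) (nat_lit 13931235248) (nat_lit 76) (nat_lit 3305756978) (nat_lit 19) (nat_lit 4) (nat_lit 20) (nat_lit 5) (nat_lit 20) (nat_lit 4) (nat_lit 357) (nat_lit 287) (nat_lit 256)) (XT.nd (nat_lit 78) (nat_lit 76) (nat_lit 0) (XT.lf (nat_lit 0) (nat_lit 1338462511) (nat_lit 152) (nat_lit 8024640157) (nat_lit 76) (nat_lit 12550318430) (nat_lit 18) (nat_lit 5) (nat_lit 20) (nat_lit 5) (nat_lit 19) (nat_lit 4) (nat_lit 358) (nat_lit 287) (nat_lit 255)) (XT.lf (nat_lit 0) (nat_lit 1498728555) (nat_lit 76) (nat_lit 4551718710) (nat_lit 152) (nat_lit 16692671852) (nat_lit 17) (nat_lit 5) (nat_lit 18) (nat_lit 5) (nat_lit 19) (nat_lit 4) (nat_lit 359) (nat_lit 287) (nat_lit 254))))) (XT.nd (nat_lit 234) (nat_lit 152) (nat_lit 0) (XT.nd (nat_lit 78) (nat_lit 76) (nat_lit 0) (XT.lf (nat_lit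 0) (nat_lit 11067645968) (nat_lit 152) (nat_lit 11984501869) (nat_lit 0) (nat_lit 558691054) (nat_lit 17) (nat_lit 5) (nat_lit 19) (nat_lit 4) (nat_lit 17) (nat_lit 4) (nat_lit 360) (nat_lit 287) (nat_lit 253)) (XT.nd (nat_lit 78) (nat_lit 76) (nat_lit 0) (XT.lf (nat_lit 0) (nat_lit 16337633034) (nat_lit 152) (nat_lit 2473208536) (nat_lit 0) (nat_lit 5711023410) (nat_lit 17) (nat_lit 5) (nat_lit 19) (nat_lit 4) (nat_lit 17) (nat_lit 4) (nat_lit 361) (nat_lit 287) (nat_lit 252)) (XT.lf (nat_lit 0) (nat_lit 7627322409) (nat_lit 76) (nat_lit 14293652438) (nat_lit 76) (nat_lit 3554990709) (nat_lit 16) (nat_lit 4) (nat_lit 17) (nat_lit 5) (nat_lit 17) (nat_lit 4) (nat_lit 362) (nat_lit 287) (nat_lit 251)))) (XT.nd (nat_lit 78) (nat_lit 76) (nat_lit 0) (XT.lf (nat_lit 0) (nat_lit 1237429133) (nat_lit 152) (nat_lit 8308648296) (nat_lit 76) (nat_lit 16932013533) (nat_lit 15) (nat_lit 5) (nat_lit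 17) (nat_lit 5) (nat_lit 16) (nat_lit 4) (nat_lit 363) (nat_lit 287) (nat_lit 250)) (XT.nd (nat_lit 78) (nat_lit 0) (nat_lit 0) (XT.lf (nat_lit 0) (nat_lit 1576090569) (nat_lit 76) (nat_lit 4532740236) (nat_lit 152) (nat_lit 21420650096) (nat_lit 14) (nat_lit 5) (nat_lit 15) (nat_lit 5) (nat_lit 16) (nat_lit 4) (nat_lit 364) (nat_lit 287) (nat_lit 249)) (XT.lf (nat_lit 0) (nat_lit 11312779550) (nat_lit 152) (nat_lit 16521357323) (nat_lit 0) (nat_lit 794867736) (nat_lit 14) (nat_lit 5) (nat_lit 16) (nat_lit 4) (nat_lit 14) (nat_lit 4) (nat_lit 365) (nat_lit 287) (nat_lit 248))))))))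
noncomputable def xc67 : XT := (XT.nd (nat_lit 1794) (nat_lit 228) (nat_lit 0) (XT.nd (nat_lit 858) (nat_lit 380) (nat_lit 0) (XT.nd (nat_lit 390) (nat_lit 76) (nat_lit 0) (XT.nd (nat_lit 156) (nat_lit 152) (nat_lit 0) (XT.nd (nat_lit 78) (nat_lit 76) (nat_lit 0) (XT.lf (nat_lit 0) (nat_lit 16788892183) (nat_lit 152) (nat_lit 6810841886) (nat_lit 0) (nat_lit 6183184612) (nat_lit 14) (nat_lit 5) (nat_lit 16) (nat_lit 4) (nat_lit 14) (nat_lit 4) (nat_lit 366) (nat_lit 287) (nat_lit 247)) (XT.lf (nat_lit 0) (nat_lit 3380233617) (nat_lit 76) (nat_lit 19151979590) (nat_lit 76) (nat_lit 8462657013) (nat_lit 13) (nat_lit 4) (nat_lit 14) (nat_lit 5) (nat_lit 14) (nat_lit 4) (nat_lit 367) (nat_lit 287) (nat_lit 246))) (XT.nd (nat_lit 78) (nat_lit 152) (nat_lit 0) (XT.lf (nat_lit 0) (nat_lit 14205990726) (nat_lit 76) (nat_lit 14413771387) (nat_lit 76) (nat_lit 3644815471) (nat_lit 13) (nat_lit 4)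 (nat_lit 14) (nat_lit 5) (nat_lit 14) (nat_lit 4) (nat_lit 368) (nat_lit 287) (nat_lit 245)) (XT.nd (nat_lit 78) (nat_lit 76) (nat_lit 0) (XT.lf (nat_lit 0) (nat_lit 1312235834) (nat_lit 152) (nat_lit 8154713730) (nat_lit 76) (nat_lit 24132548676) (nat_lit 12) (nat_lit 5) (nat_lit 14) (nat_lit 5) (nat_lit 13) (nat_lit 4) (nat_lit 369) (nat_lit 287) (nat_lit 244)) (XT.lf (nat_lit 0) (nat_lit 2150671292) (nat_lit 76) (nat_lit 4223815668) (nat_lit 152) (nat_lit 28624708362) (nat_lit 11) (nat_lit 5) (nat_lit 12) (nat_lit 5) (nat_lit 13) (nat_lit 4) (nat_lit 370) (nat_lit 287) (nat_lit 243))))) (XT.nd (nat_lit 234) (nat_lit 76) (nat_lit 0) (XT.nd (nat_lit 78) (nat_lit 0) (nat_lit 0) (XT.lf (nat_lit 0) (nat_lit 11796710707) (nat_lit 152) (nat_lit 23332805263) (nat_lit 0) (nat_lit 1334027611) (nat_lit 11) (nat_lit 5) (nat_lit 13) (nat_lit 4) (nat_lit 11) (nat_lit 4) (nat_lit 371) (nat_lit 287)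 (nat_lit 242)) (XT.nd (nat_lit 78) (nat_lit 0) (nat_lit 0) (XT.lf (nat_lit 0) (nat_lit 17508321497) (nat_lit 152) (nat_lit 13508639251) (nat_lit 0) (nat_lit 6983243596) (nat_lit 11) (nat_lit 5) (nat_lit 13) (nat_lit 4) (nat_lit 11) (nat_lit 4) (nat_lit 372) (nat_lit 287) (nat_lit 241)) (XT.lf (nat_lit 0) (nat_lit 23456972804) (nat_lit 152) (nat_lit 3286689521) (nat_lit 0) (nat_lit 12872471279) (nat_lit 11) (nat_lit 5) (nat_lit 13) (nat_lit 4) (nat_lit 11) (nat_lit 4) (nat_lit 373) (nat_lit 287) (nat_lit 240)))) (XT.nd (nat_lit 78) (nat_lit 0) (nat_lit 0) (XT.lf (nat_lit 0) (nat_lit 7600650173) (nat_lit 76) (nat_lit 22174845360) (nat_lit 76) (nat_lit 11533749908) (nat_lit 10) (nat_lit 4) (nat_lit 11) (nat_lit 5) (nat_lit 11) (nat_lit 4) (nat_lit 374) (nat_lit 287) (nat_lit 239)) (XT.nd (nat_lit 78) (nat_lit 0) (nat_lit 0) (XT.lf (nat_lit 0) (nat_lit 19058922590) (nat_lit 76) (nat_lit 17361289500)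 (nat_lit 76) (nat_lit 6666295069) (nat_lit 10) (nat_lit 4) (nat_lit 11) (nat_lit 5) (nat_lit 11) (nat_lit 4) (nat_lit 375) (nat_lit 287) (nat_lit 238)) (XT.lf (nat_lit 0) (nat_lit 31006736532) (nat_lit 76) (nat_lit 12347195574) (nat_lit 76) (nat_lit 1600868783) (nat_lit 10) (nat_lit 4) (nat_lit 11) (nat_lit 5) (nat_lit 11) (nat_lit 4) (nat_lit 376) (nat_lit 287) (nat_lit 237)))))) (XT.nd (nat_lit 468) (nat_lit 228) (nat_lit 0) (XT.nd (nat_lit 234) (nat_lit 0) (nat_lit 0) (XT.nd (nat_lit 78) (nat_lit 76) (nat_lit 0) (XT.lf (nat_lit 0) (nat_lit 3556979677) (nat_lit 152) (nat_lit 3503406415) (nat_lit 76) (nat_lit 39855320327) (nat_lit 9) (nat_lit 5) (nat_lit 11) (nat_lit 5) (nat_lit 10) (nat_lit 4) (nat_lit 377) (nat_lit 287) (nat_lit 236)) (XT.nd (nat_lit 78) (nat_lit 0) (nat_lit 0) (XT.lf (nat_lit 0) (nat_lit 7603659990) (nat_lit 76) (nat_lit 1394113037) (nat_lit 152) (nat_lit 39971635713)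 (nat_lit 8) (nat_lit 5) (nat_lit 9) (nat_lit 5) (nat_lit 10) (nat_lit 4) (nat_lit 378) (nat_lit 287) (nat_lit 235)) (XT.lf (nat_lit 0) (nat_lit 14802317482) (nat_lit 152) (nat_lit 31884312647) (nat_lit 0) (nat_lit 4434586491) (nat_lit 8) (nat_lit 5) (nat_lit 10) (nat_lit 4) (nat_lit 8) (nat_lit 4) (nat_lit 379) (nat_lit 287) (nat_lit 234)))) (XT.nd (nat_lit 78) (nat_lit 0) (nat_lit 0) (XT.lf (nat_lit 0) (nat_lit 20882117935) (nat_lit 152) (nat_lit 22025084548) (nat_lit 0) (nat_lit 10474166696) (nat_lit 8) (nat_lit 5) (nat_lit 10) (nat_lit 4) (nat_lit 8) (nat_lit 4) (nat_lit 380) (nat_lit 287) (nat_lit 233)) (XT.nd (nat_lit 78) (nat_lit 0) (nat_lit 0) (XT.lf (nat_lit 0) (nat_lit 27229884091) (nat_lit 152) (nat_lit 11742824090) (nat_lit 0) (nat_lit 16783627855) (nat_lit 8) (nat_lit 5) (nat_lit 10) (nat_lit 4) (nat_lit 8) (nat_lit 4) (nat_lit 381) (nat_lit 287) (nat_lit 232)) (XT.lf (nat_lit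 0) (nat_lit 33860729679) (nat_lit 152) (nat_lit 1013049702) (nat_lit 0) (nat_lit 23377992492) (nat_lit 8) (nat_lit 5) (nat_lit 10) (nat_lit 4) (nat_lit 8) (nat_lit 4) (nat_lit 382) (nat_lit 287) (nat_lit 231))))) (XT.nd (nat_lit 234) (nat_lit 152) (nat_lit 0) (XT.nd (nat_lit 78) (nat_lit 0) (nat_lit 0) (XT.lf (nat_lit 0) (nat_lit 10526706033) (nat_lit 76) (nat_lit 30428087776) (nat_lit 76) (nat_lit 19910606827) (nat_lit 7) (nat_lit 4) (nat_lit 8) (nat_lit 5) (nat_lit 8) (nat_lit 4) (nat_lit 383) (nat_lit 287) (nat_lit 230)) (XT.nd (nat_lit 78) (nat_lit 0) (nat_lit 0) (XT.lf (nat_lit 0) (nat_lit 22616215675) (nat_lit 76) (nat_lit 25772408483) (nat_lit 76) (nat_lit 15221838237) (nat_lit 7) (nat_lit 4) (nat_lit 8) (nat_lit 5) (nat_lit 8) (nat_lit 4) (nat_lit 384) (nat_lit 287) (nat_lit 229)) (XT.lf (nat_lit 0) (nat_lit 35250767771) (nat_lit 76) (nat_lit 20912813041) (nat_lit 76) (nat_lit 10330729178)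 (nat_lit 7) (nat_lit 4) (nat_lit 8) (nat_lit 5) (nat_lit 8) (nat_lit 4) (nat_lit 385) (nat_lit 287) (nat_lit 228)))) (XT.nd (nat_lit 78) (nat_lit 152) (nat_lit 0) (XT.lf (nat_lit 0) (nat_lit 48460444589) (nat_lit 76) (nat_lit 15837730983) (nat_lit 76) (nat_lit 5225634152) (nat_lit 7) (nat_lit 4) (nat_lit 8) (nat_lit 5) (nat_lit 8) (nat_lit 4) (nat_lit 386) (nat_lit 287) (nat_lit 227)) (XT.nd (nat_lit 78) (nat_lit 76) (nat_lit 0) (XT.lf (nat_lit 0) (nat_lit 102221910) (nat_lit 152) (nat_lit 10431125692) (nat_lit 76) (nat_lit 62172744651) (nat_lit 6) (nat_lit 5) (nat_lit 8) (nat_lit 5) (nat_lit 7) (nat_lit 4) (nat_lit 387) (nat_lit 287) (nat_lit 226)) (XT.lf (nat_lit 0) (nat_lit 614495662) (nat_lit 76) (nat_lit 4889113566) (nat_lit 152) (nat_lit 70540462365) (nat_lit 5) (nat_lit 5) (nat_lit 6) (nat_lit 5) (nat_lit 7) (nat_lit 4) (nat_lit 388) (nat_lit 287) (nat_lit 225))))))) (XT.nd (nat_lit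 936) (nat_lit 152) (nat_lit 0) (XT.nd (nat_lit 468) (nat_lit 76) (nat_lit 0) (XT.nd (nat_lit 234) (nat_lit 0) (nat_lit 0) (XT.nd (nat_lit 78) (nat_lit 0) (nat_lit 0) (XT.lf (nat_lit 0) (nat_lit 11344058819) (nat_lit 152) (nat_lit 67036985737) (nat_lit 0) (nat_lit 1159459213) (nat_lit 5) (nat_lit 5) (nat_lit 7) (nat_lit 4) (nat_lit 5) (nat_lit 4) (nat_lit 389) (nat_lit 287) (nat_lit 224)) (XT.nd (nat_lit 78) (nat_lit 0) (nat_lit 0) (XT.lf (nat_lit 0) (nat_lit 17531199417) (nat_lit 152) (nat_lit 58354744194) (nat_lit 0) (nat_lit 7323083865) (nat_lit 5) (nat_lit 5) (nat_lit 7) (nat_lit 4) (nat_lit 5) (nat_lit 4) (nat_lit 390) (nat_lit 287) (nat_lit 223)) (XT.lf (nat_lit 0) (nat_lit 24003429545) (nat_lit 152) (nat_lit 49285846532) (nat_lit 0) (nat_lit 13772917854) (nat_lit 5) (nat_lit 5) (nat_lit 7) (nat_lit 4) (nat_lit 5) (nat_lit 4) (nat_lit 391) (nat_lit 287) (nat_lit 222)))) (XT.nd (nat_lit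 78) (nat_lit 0) (nat_lit 0) (XT.lf (nat_lit 0) (nat_lit 30776159274) (nat_lit 152) (nat_lit 39808700140) (nat_lit 0) (nat_lit 20524317927) (nat_lit 5) (nat_lit 5) (nat_lit 7) (nat_lit 4) (nat_lit 5) (nat_lit 4) (nat_lit 392) (nat_lit 287) (nat_lit 221)) (XT.nd (nat_lit 78) (nat_lit 0) (nat_lit 0) (XT.lf (nat_lit 0) (nat_lit 37865514151) (nat_lit 152) (nat_lit 29900740383) (nat_lit 0) (nat_lit 27593358846) (nat_lit 5) (nat_lit 5) (nat_lit 7) (nat_lit 4) (nat_lit 5) (nat_lit 4) (nat_lit 393) (nat_lit 287) (nat_lit 220)) (XT.lf (nat_lit 0) (nat_lit 45288373594) (nat_lit 152) (nat_lit 19538376879) (nat_lit 0) (nat_lit 34996871661) (nat_lit 5) (nat_lit 5) (nat_lit 7) (nat_lit 4) (nat_lit 5) (nat_lit 4) (nat_lit 394) (nat_lit 287) (nat_lit 219))))) (XT.nd (nat_lit 234) (nat_lit 0) (nat_lit 0) (XT.nd (nat_lit 78) (nat_lit 76) (nat_lit 0) (XT.lf (nat_lit 0) (nat_lit 53062411075) (nat_lit 152) (nat_lit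 8696937336) (nat_lit 0) (nat_lit 42752483784) (nat_lit 5) (nat_lit 5) (nat_lit 7) (nat_lit 4) (nat_lit 5) (nat_lit 4) (nat_lit 395) (nat_lit 287) (nat_lit 218)) (XT.nd (nat_lit 78) (nat_lit 0) (nat_lit 0) (XT.lf (nat_lit 0) (nat_lit 2736992035) (nat_lit 76) (nat_lit 58511876290) (nat_lit 76) (nat_lit 48184401038) (nat_lit 4) (nat_lit 4) (nat_lit 5) (nat_lit 5) (nat_lit 5) (nat_lit 4) (nat_lit 396) (nat_lit 287) (nat_lit 217)) (XT.lf (nat_lit 0) (nat_lit 15007972642) (nat_lit 76) (nat_lit 54965282689) (nat_lit 76) (nat_lit 44621095093) (nat_lit 4) (nat_lit 4) (nat_lit 5) (nat_lit 5) (nat_lit 5) (nat_lit 4) (nat_lit 397) (nat_lit 287) (nat_lit 216)))) (XT.nd (nat_lit 78) (nat_lit 0) (nat_lit 0) (XT.lf (nat_lit 0) (nat_lit 27857661078) (nat_lit 76) (nat_lit 51258410180) (nat_lit 76) (nat_lit 40898306067) (nat_lit 4) (nat_lit 4) (nat_lit 5) (nat_lit 5) (nat_lit 5) (nat_lit 4) (nat_lit 398)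 (nat_lit 287) (nat_lit 215)) (XT.nd (nat_lit 78) (nat_lit 0) (nat_lit 0) (XT.lf (nat_lit 0) (nat_lit 41316651841) (nat_lit 76) (nat_lit 47382432877) (nat_lit 76) (nat_lit 37007170175) (nat_lit 4) (nat_lit 4) (nat_lit 5) (nat_lit 5) (nat_lit 5) (nat_lit 4) (nat_lit 399) (nat_lit 287) (nat_lit 214)) (XT.lf (nat_lit 0) (nat_lit 55416990145) (nat_lit 76) (nat_lit 43328122262) (nat_lit 76) (nat_lit 32938422809) (nat_lit 4) (nat_lit 4) (nat_lit 5) (nat_lit 5) (nat_lit 5) (nat_lit 4) (nat_lit 400) (nat_lit 287) (nat_lit 213)))))) (XT.nd (nat_lit 468) (nat_lit 152) (nat_lit 0) (XT.nd (nat_lit 234) (nat_lit 0) (nat_lit 0) (XT.nd (nat_lit 78) (nat_lit 0) (nat_lit 0) (XT.lf (nat_lit 0) (nat_lit 70192248226) (nat_lit 76) (nat_lit 39085825214) (nat_lit 76) (nat_lit 28682376475) (nat_lit 4) (nat_lit 4) (nat_lit 5) (nat_lit 5) (nat_lit 5) (nat_lit 4) (nat_lit 401) (nat_lit 287) (nat_lit 212)) (XT.nd (nat_lit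 78) (nat_lit 0) (nat_lit 0) (XT.lf (nat_lit 0) (nat_lit 85677605269) (nat_lit 76) (nat_lit 34645441026) (nat_lit 76) (nat_lit 24228897729) (nat_lit 4) (nat_lit 4) (nat_lit 5) (nat_lit 5) (nat_lit 5) (nat_lit 4) (nat_lit 402) (nat_lit 287) (nat_lit 211)) (XT.lf (nat_lit 0) (nat_lit 101909931172) (nat_lit 76) (nat_lit 29996397356) (nat_lit 76) (nat_lit 19567383050) (nat_lit 4) (nat_lit 4) (nat_lit 5) (nat_lit 5) (nat_lit 5) (nat_lit 4) (nat_lit 403) (nat_lit 287) (nat_lit 210)))) (XT.nd (nat_lit 78) (nat_lit 0) (nat_lit 0) (XT.lf (nat_lit 0) (nat_lit 118927874330) (nat_lit 76) (nat_lit 25127625050) (nat_lit 76) (nat_lit 14686733594) (nat_lit 4) (nat_lit 4) (nat_lit 5) (nat_lit 5) (nat_lit 5) (nat_lit 4) (nat_lit 404) (nat_lit 287) (nat_lit 209)) (XT.nd (nat_lit 78) (nat_lit 0) (nat_lit 0) (XT.lf (nat_lit 0) (nat_lit 136771953655) (nat_lit 76) (nat_lit 20027531795) (nat_lit 76) (nat_lit 9575328767)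 (nat_lit 4) (nat_lit 4) (nat_lit 5) (nat_lit 5) (nat_lit 5) (nat_lit 4) (nat_lit 405) (nat_lit 287) (nat_lit 208)) (XT.lf (nat_lit 0) (nat_lit 155484655051) (nat_lit 76) (nat_lit 14683974511) (nat_lit 76) (nat_lit 4220998557) (nat_lit 4) (nat_lit 4) (nat_lit 5) (nat_lit 5) (nat_lit 5) (nat_lit 4) (nat_lit 406) (nat_lit 287) (nat_lit 207))))) (XT.nd (nat_lit 234) (nat_lit 0) (nat_lit 0) (XT.nd (nat_lit 78) (nat_lit 76) (nat_lit 0) (XT.lf (nat_lit 0) (nat_lit 1344548591) (nat_lit 152) (nat_lit 7716911271) (nat_lit 76) (nat_lit 173743213396) (nat_lit 3) (nat_lit 5) (nat_lit 5) (nat_lit 5) (nat_lit 4) (nat_lit 4) (nat_lit 407) (nat_lit 287) (nat_lit 206)) (XT.nd (nat_lit 78) (nat_lit 0) (nat_lit 0) (XT.lf (nat_lit 0) (nat_lit 4069859966) (nat_lit 76) (nat_lit 3029099648) (nat_lit 152) (nat_lit 184535430540) (nat_lit 2) (nat_lit 5) (nat_lit 3) (nat_lit 5) (nat_lit 4) (nat_lit 4) (nat_lit 408)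 (nat_lit 287) (nat_lit 205)) (XT.lf (nat_lit 0) (nat_lit 13314450044) (nat_lit 152) (nat_lit 184260705463) (nat_lit 0) (nat_lit 3321770708) (nat_lit 2) (nat_lit 5) (nat_lit 4) (nat_lit 4) (nat_lit 2) (nat_lit 4) (nat_lit 409) (nat_lit 287) (nat_lit 204)))) (XT.nd (nat_lit 78) (nat_lit 0) (nat_lit 0) (XT.lf (nat_lit 0) (nat_lit 19879827945) (nat_lit 152) (nat_lit 180862098948) (nat_lit 0) (nat_lit 9878707740) (nat_lit 2) (nat_lit 5) (nat_lit 4) (nat_lit 4) (nat_lit 2) (nat_lit 4) (nat_lit 410) (nat_lit 287) (nat_lit 203)) (XT.nd (nat_lit 78) (nat_lit 0) (nat_lit 0) (XT.lf (nat_lit 0) (nat_lit 26763432436) (nat_lit 152) (nat_lit 177313325989) (nat_lit 0) (nat_lit 16754273308) (nat_lit 2) (nat_lit 5) (nat_lit 4) (nat_lit 4) (nat_lit 2) (nat_lit 4) (nat_lit 411) (nat_lit 287) (nat_lit 202)) (XT.lf (nat_lit 0) (nat_lit 33981653051) (nat_lit 152) (nat_lit 173605937125) (nat_lit 0) (nat_lit 23964837806)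 (nat_lit 2) (nat_lit 5) (nat_lit 4) (nat_lit 4) (nat_lit 2) (nat_lit 4) (nat_lit 412) (nat_lit 287) (nat_lit 201))))))))
noncomputable def xc68 : XT := (XT.nd (nat_lit 1794) (nat_lit 0) (nat_lit 0) (XT.nd (nat_lit 858) (nat_lit 0) (nat_lit 0) (XT.nd (nat_lit 390) (nat_lit 0) (nat_lit 0) (XT.nd (nat_lit 156) (nat_lit 0) (nat_lit 0) (XT.nd (nat_lit 78) (nat_lit 0) (nat_lit 0) (XT.lf (nat_lit 0) (nat_lit 41551676029) (nat_lit 152) (nat_lit 169731105241) (nat_lit 0) (nat_lit 31527569244) (nat_lit 2) (nat_lit 5) (nat_lit 4) (nat_lit 4) (nat_lit 2) (nat_lit 4) (nat_lit 413) (nat_lit 287) (nat_lit 200)) (XT.lf (nat_lit 0) (nat_lit 49491525235) (nat_lit 152) (nat_lit 165679604547) (nat_lit 0) (nat_lit 39460474126) (nat_lit 2) (nat_lit 5) (nat_lit 4) (nat_lit 4) (nat_lit 2) (nat_lit 4) (nat_lit 414) (nat_lit 287) (nat_lit 199))) (XT.nd (nat_lit 78) (nat_lit 0) (nat_lit 0) (XT.lf (nat_lit 0) (nat_lit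 57820105072) (nat_lit 152) (nat_lit 161441788612) (nat_lit 0) (nat_lit 47782440321) (nat_lit 2) (nat_lit 5) (nat_lit 4) (nat_lit 4) (nat_lit 2) (nat_lit 4) (nat_lit 415) (nat_lit 287) (nat_lit 198)) (XT.nd (nat_lit 78) (nat_lit 0) (nat_lit 0) (XT.lf (nat_lit 0) (nat_lit 66557245491) (nat_lit 152) (nat_lit 157007567398) (nat_lit 0) (nat_lit 56513282033) (nat_lit 2) (nat_lit 5) (nat_lit 4) (nat_lit 4) (nat_lit 2) (nat_lit 4) (nat_lit 416) (nat_lit 287) (nat_lit 197)) (XT.lf (nat_lit 0) (nat_lit 75723749209) (nat_lit 152) (nat_lit 152366383236) (nat_lit 0) (nat_lit 65673786983) (nat_lit 2) (nat_lit 5) (nat_lit 4) (nat_lit 4) (nat_lit 2) (nat_lit 4) (nat_lit 417) (nat_lit 287) (nat_lit 196))))) (XT.nd (nat_lit 234) (nat_lit 0) (nat_lit 0) (XT.nd (nat_lit 78) (nat_lit 0) (nat_lit 0) (XT.lf (nat_lit 0) (nat_lit 85341441233) (nat_lit 152) (nat_lit 147507185688) (nat_lit 0) (nat_lit 75285765894)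 (nat_lit 2) (nat_lit 5) (nat_lit 4) (nat_lit 4) (nat_lit 2) (nat_lit 4) (nat_lit 418) (nat_lit 287) (nat_lit 195)) (XT.nd (nat_lit 78) (nat_lit 0) (nat_lit 0) (XT.lf (nat_lit 0) (nat_lit 95433220831) (nat_lit 152) (nat_lit 142418405234) (nat_lit 0) (nat_lit 85372104432) (nat_lit 2) (nat_lit 5) (nat_lit 4) (nat_lit 4) (nat_lit 2) (nat_lit 4) (nat_lit 419) (nat_lit 287) (nat_lit 194)) (XT.lf (nat_lit 0) (nat_lit 106023116048) (nat_lit 152) (nat_lit 137087925733) (nat_lit 0) (nat_lit 95956817689) (nat_lit 2) (nat_lit 5) (nat_lit 4) (nat_lit 4) (nat_lit 2) (nat_lit 4) (nat_lit 420) (nat_lit 287) (nat_lit 193)))) (XT.nd (nat_lit 78) (nat_lit 0) (nat_lit 0) (XT.lf (nat_lit 0) (nat_lit 117136340923) (nat_lit 152) (nat_lit 131503055564) (nat_lit 0) (nat_lit 107065107362) (nat_lit 2) (nat_lit 5) (nat_lit 4) (nat_lit 4) (nat_lit 2) (nat_lit 4) (nat_lit 421) (nat_lit 287) (nat_lit 192)) (XT.nd (nat_lit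 78) (nat_lit 0) (nat_lit 0) (XT.lf (nat_lit 0) (nat_lit 128799355513) (nat_lit 152) (nat_lit 125650497419) (nat_lit 0) (nat_lit 118723421760) (nat_lit 2) (nat_lit 5) (nat_lit 4) (nat_lit 4) (nat_lit 2) (nat_lit 4) (nat_lit 422) (nat_lit 287) (nat_lit 191)) (XT.lf (nat_lit 0) (nat_lit 141039928900) (nat_lit 152) (nat_lit 119516316636) (nat_lit 0) (nat_lit 130959518774) (nat_lit 2) (nat_lit 5) (nat_lit 4) (nat_lit 4) (nat_lit 2) (nat_lit 4) (nat_lit 423) (nat_lit 287) (nat_lit 190)))))) (XT.nd (nat_lit 468) (nat_lit 0) (nat_lit 0) (XT.nd (nat_lit 234) (nat_lit 0) (nat_lit 0) (XT.nd (nat_lit 78) (nat_lit 0) (nat_lit 0) (XT.lf (nat_lit 0) (nat_lit 153887205309) (nat_lit 152) (nat_lit 113085908022) (nat_lit 0) (nat_lit 143802531970) (nat_lit 2) (nat_lit 5) (nat_lit 4) (nat_lit 4) (nat_lit 2) (nat_lit 4) (nat_lit 424) (nat_lit 287) (nat_lit 189)) (XT.nd (nat_lit 78) (nat_lit 0) (nat_lit 0) (XT.lf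 (nat_lit 0) (nat_lit 167371773491) (nat_lit 152) (nat_lit 106343961080) (nat_lit 0) (nat_lit 157283039950) (nat_lit 2) (nat_lit 5) (nat_lit 4) (nat_lit 4) (nat_lit 2) (nat_lit 4) (nat_lit 425) (nat_lit 287) (nat_lit 188)) (XT.lf (nat_lit 0) (nat_lit 181525739561) (nat_lit 152) (nat_lit 99274423555) (nat_lit 0) (nat_lit 171433139160) (nat_lit 2) (nat_lit 5) (nat_lit 4) (nat_lit 4) (nat_lit 2) (nat_lit 4) (nat_lit 426) (nat_lit 287) (nat_lit 187)))) (XT.nd (nat_lit 78) (nat_lit 0) (nat_lit 0) (XT.lf (nat_lit 0) (nat_lit 196382803439) (nat_lit 152) (nat_lit 91860463217) (nat_lit 0) (nat_lit 186286520315) (nat_lit 2) (nat_lit 5) (nat_lit 4) (nat_lit 4) (nat_lit 2) (nat_lit 4) (nat_lit 427) (nat_lit 287) (nat_lit 186)) (XT.nd (nat_lit 78) (nat_lit 0) (nat_lit 0) (XT.lf (nat_lit 0) (nat_lit 211978339086) (nat_lit 152) (nat_lit 84084427777) (nat_lit 0) (nat_lit 201878548607) (nat_lit 2) (nat_lit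 5) (nat_lit 4) (nat_lit 4) (nat_lit 2) (nat_lit 4) (nat_lit 428) (nat_lit 287) (nat_lit 185)) (XT.lf (nat_lit 0) (nat_lit 228349478730) (nat_lit 152) (nat_lit 75927802866) (nat_lit 0) (nat_lit 218246347912) (nat_lit 2) (nat_lit 5) (nat_lit 4) (nat_lit 4) (nat_lit 2) (nat_lit 4) (nat_lit 429) (nat_lit 287) (nat_lit 184))))) (XT.nd (nat_lit 234) (nat_lit 0) (nat_lit 0) (XT.nd (nat_lit 78) (nat_lit 0) (nat_lit 0) (XT.lf (nat_lit 0) (nat_lit 245535201275) (nat_lit 152) (nat_lit 67371167948) (nat_lit 0) (nat_lit 235428889183) (nat_lit 2) (nat_lit 5) (nat_lit 4) (nat_lit 4) (nat_lit 2) (nat_lit 4) (nat_lit 430) (nat_lit 287) (nat_lit 183)) (XT.nd (nat_lit 78) (nat_lit 0) (nat_lit 0) (XT.lf (nat_lit 0) (nat_lit 263576425108) (nat_lit 152) (nat_lit 58394150084) (nat_lit 0) (nat_lit 253467083230) (nat_lit 2) (nat_lit 5) (nat_lit 4) (nat_lit 4) (nat_lit 2) (nat_lit 4) (nat_lit 431) (nat_lit 287)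 (nat_lit 182)) (XT.lf (nat_lit 0) (nat_lit 282516105524) (nat_lit 152) (nat_lit 48975375420) (nat_lit 0) (nat_lit 272403878136) (nat_lit 2) (nat_lit 5) (nat_lit 4) (nat_lit 4) (nat_lit 2) (nat_lit 4) (nat_lit 432) (nat_lit 287) (nat_lit 181)))) (XT.nd (nat_lit 78) (nat_lit 0) (nat_lit 0) (XT.lf (nat_lit 0) (nat_lit 302399336999) (nat_lit 152) (nat_lit 39092418304) (nat_lit 0) (nat_lit 292284361506) (nat_lit 2) (nat_lit 5) (nat_lit 4) (nat_lit 4) (nat_lit 2) (nat_lit 4) (nat_lit 433) (nat_lit 287) (nat_lit 180)) (XT.nd (nat_lit 78) (nat_lit 0) (nat_lit 0) (XT.lf (nat_lit 0) (nat_lit 323273460562) (nat_lit 152) (nat_lit 28721747884) (nat_lit 0) (nat_lit 313155867826) (nat_lit 2) (nat_lit 5) (nat_lit 4) (nat_lit 4) (nat_lit 2) (nat_lit 4) (nat_lit 434) (nat_lit 287) (nat_lit 179)) (XT.lf (nat_lit 0) (nat_lit 345188176506) (nat_lit 152) (nat_lit 17838672089) (nat_lit 0) (nat_lit 335068091159)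 (nat_lit 2) (nat_lit 5) (nat_lit 4) (nat_lit 4) (nat_lit 2) (nat_lit 4) (nat_lit 435) (nat_lit 287) (nat_lit 178))))))) (XT.nd (nat_lit 39000) (nat_lit 0) (nat_lit 2052) (XT.nd (nat_lit 38532) (nat_lit 0) (nat_lit 3344) (XT.nd (nat_lit 38298) (nat_lit 0) (nat_lit 4636) (XT.nd (nat_lit 38142) (nat_lit 0) (nat_lit 5244) (XT.lf (nat_lit 0) (nat_lit 368195662727) (nat_lit 152) (nat_lit 6417278833) (nat_lit 0) (nat_lit 358073203463) (nat_lit 2) (nat_lit 5) (nat_lit 4) (nat_lit 4) (nat_lit 2) (nat_lit 4) (nat_lit 436) (nat_lit 287) (nat_lit 177)) (XT.nd (nat_lit 78) (nat_lit 304) (nat_lit 0) (XT.lf (nat_lit 0) (nat_lit 3005124352) (nat_lit 304) (nat_lit 552597599) (nat_lit 304) (nat_lit 552597599) (nat_lit 75) (nat_lit 4) (nat_lit 79) (nat_lit 5) (nat_lit 79) (nat_lit 4) (nat_lit 324) (nat_lit 288) (nat_lit 288)) (XT.lf (nat_lit 0) (nat_lit 2676858604) (nat_lit 304) (nat_lit 4135782764) (nat_lit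 0) (nat_lit 1566873687) (nat_lit 71) (nat_lit 5) (nat_lit 75) (nat_lit 4) (nat_lit 71) (nat_lit 4) (nat_lit 325) (nat_lit 288) (nat_lit 287)))) (XT.nd (nat_lit 78) (nat_lit 304) (nat_lit 0) (XT.lf (nat_lit 0) (nat_lit 2376060812) (nat_lit 304) (nat_lit 4169937866) (nat_lit 304) (nat_lit 2002824458) (nat_lit 67) (nat_lit 4) (nat_lit 71) (nat_lit 5) (nat_lit 71) (nat_lit 4) (nat_lit 326) (nat_lit 288) (nat_lit 286)) (XT.nd (nat_lit 78) (nat_lit 0) (nat_lit 0) (XT.lf (nat_lit 0) (nat_lit 398400214) (nat_lit 228) (nat_lit 1344186450) (nat_lit 304) (nat_lit 6986636131) (nat_lit 63) (nat_lit 5) (nat_lit 66) (nat_lit 5) (nat_lit 67) (nat_lit 4) (nat_lit 327) (nat_lit 288) (nat_lit 285)) (XT.lf (nat_lit 0) (nat_lit 5586109088) (nat_lit 304) (nat_lit 1681956738) (nat_lit 0) (nat_lit 1650157514) (nat_lit 63) (nat_lit 5) (nat_lit 67) (nat_lit 4) (nat_lit 63) (nat_lit 4) (nat_lit 328) (nat_lit 288)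 (nat_lit 284))))) (XT.nd (nat_lit 234) (nat_lit 532) (nat_lit 0) (XT.nd (nat_lit 78) (nat_lit 456) (nat_lit 0) (XT.lf (nat_lit 0) (nat_lit 445775301) (nat_lit 304) (nat_lit 3891814431) (nat_lit 76) (nat_lit 4780967320) (nat_lit 59) (nat_lit 5) (nat_lit 63) (nat_lit 5) (nat_lit 60) (nat_lit 4) (nat_lit 329) (nat_lit 288) (nat_lit 283)) (XT.nd (nat_lit 78) (nat_lit 228) (nat_lit 0) (XT.lf (nat_lit 0) (nat_lit 3041998148) (nat_lit 228) (nat_lit 1190167599) (nat_lit 304) (nat_lit 5097543397) (nat_lit 56) (nat_lit 5) (nat_lit 59) (nat_lit 5) (nat_lit 60) (nat_lit 4) (nat_lit 330) (nat_lit 288) (nat_lit 282)) (XT.lf (nat_lit 0) (nat_lit 682485744) (nat_lit 228) (nat_lit 7493780356) (nat_lit 228) (nat_lit 1376840173) (nat_lit 53) (nat_lit 4) (nat_lit 56) (nat_lit 5) (nat_lit 56) (nat_lit 4) (nat_lit 331) (nat_lit 288) (nat_lit 281)))) (XT.nd (nat_lit 78) (nat_lit 456) (nat_lit 0) (XT.lf (nat_lit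 0) (nat_lit 2435499107) (nat_lit 304) (nat_lit 1839673185) (nat_lit 76) (nat_lit 5511294366) (nat_lit 52) (nat_lit 5) (nat_lit 56) (nat_lit 5) (nat_lit 53) (nat_lit 4) (nat_lit 332) (nat_lit 288) (nat_lit 280)) (XT.nd (nat_lit 78) (nat_lit 304) (nat_lit 0) (XT.lf (nat_lit 0) (nat_lit 5490203323) (nat_lit 152) (nat_lit 853252350) (nat_lit 228) (nat_lit 3689439662) (nat_lit 50) (nat_lit 5) (nat_lit 52) (nat_lit 5) (nat_lit 53) (nat_lit 4) (nat_lit 333) (nat_lit 288) (nat_lit 279)) (XT.lf (nat_lit 0) (nat_lit 135700349) (nat_lit 304) (nat_lit 7495972378) (nat_lit 76) (nat_lit 2660660294) (nat_lit 46) (nat_lit 5) (nat_lit 50) (nat_lit 5) (nat_lit 47) (nat_lit 4) (nat_lit 334) (nat_lit 288) (nat_lit 278)))))) (XT.nd (nat_lit 468) (nat_lit 532) (nat_lit 0) (XT.nd (nat_lit 234) (nat_lit 380) (nat_lit 0) (XT.nd (nat_lit 78) (nat_lit 380) (nat_lit 0) (XT.lf (nat_lit 0) (nat_lit 3988879054) (nat_lit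 304) (nat_lit 185604733) (nat_lit 76) (nat_lit 6389275930) (nat_lit 46) (nat_lit 5) (nat_lit 50) (nat_lit 5) (nat_lit 47) (nat_lit 4) (nat_lit 335) (nat_lit 288) (nat_lit 277)) (XT.nd (nat_lit 78) (nat_lit 228) (nat_lit 0) (XT.lf (nat_lit 0) (nat_lit 7532260513) (nat_lit 152) (nat_lit 494902959) (nat_lit 228) (nat_lit 2822047948) (nat_lit 44) (nat_lit 5) (nat_lit 46) (nat_lit 5) (nat_lit 47) (nat_lit 4) (nat_lit 336) (nat_lit 288) (nat_lit 276)) (XT.lf (nat_lit 0) (nat_lit 1083349070) (nat_lit 228) (nat_lit 6786130908) (nat_lit 76) (nat_lit 3278615618) (nat_lit 41) (nat_lit 5) (nat_lit 44) (nat_lit 5) (nat_lit 42) (nat_lit 4) (nat_lit 337) (nat_lit 288) (nat_lit 275)))) (XT.nd (nat_lit 78) (nat_lit 228) (nat_lit 0) (XT.lf (nat_lit 0) (nat_lit 851003488) (nat_lit 152) (nat_lit 4194012479) (nat_lit 228) (nat_lit 6416868554) (nat_lit 39) (nat_lit 5) (nat_lit 41) (nat_lit 5) (nat_lit 42) (nat_lit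 4) (nat_lit 338) (nat_lit 288) (nat_lit 274)) (XT.nd (nat_lit 78) (nat_lit 228) (nat_lit 0) (XT.lf (nat_lit 0) (nat_lit 8907044017) (nat_lit 152) (nat_lit 292733993) (nat_lit 228) (nat_lit 2591896825) (nat_lit 39) (nat_lit 5) (nat_lit 41) (nat_lit 5) (nat_lit 42) (nat_lit 4) (nat_lit 339) (nat_lit 288) (nat_lit 273)) (XT.lf (nat_lit 0) (nat_lit 1403327033) (nat_lit 228) (nat_lit 7020093512) (nat_lit 76) (nat_lit 3712249415) (nat_lit 36) (nat_lit 5) (nat_lit 39) (nat_lit 5) (nat_lit 37) (nat_lit 4) (nat_lit 340) (nat_lit 288) (nat_lit 272))))) (XT.nd (nat_lit 234) (nat_lit 228) (nat_lit 0) (XT.nd (nat_lit 78) (nat_lit 228) (nat_lit 0) (XT.lf (nat_lit 0) (nat_lit 908073998) (nat_lit 76) (nat_lit 4557003338) (nat_lit 152) (nat_lit 7032023521) (nat_lit 35) (nat_lit 5) (nat_lit 36) (nat_lit 5) (nat_lit 37) (nat_lit 4) (nat_lit 341) (nat_lit 288) (nat_lit 271)) (XT.nd (nat_lit 78) (nat_lit 228)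 (nat_lit 0) (XT.lf (nat_lit 0) (nat_lit 9285087599) (nat_lit 76) (nat_lit 451434518) (nat_lit 152) (nat_lit 3139802279) (nat_lit 35) (nat_lit 5) (nat_lit 36) (nat_lit 5) (nat_lit 37) (nat_lit 4) (nat_lit 342) (nat_lit 288) (nat_lit 270)) (XT.lf (nat_lit 0) (nat_lit 942784465) (nat_lit 228) (nat_lit 8577922304) (nat_lit 76) (nat_lit 3751806451) (nat_lit 32) (nat_lit 5) (nat_lit 35) (nat_lit 5) (nat_lit 33) (nat_lit 4) (nat_lit 343) (nat_lit 288) (nat_lit 269)))) (XT.nd (nat_lit 78) (nat_lit 228) (nat_lit 0) (XT.lf (nat_lit 0) (nat_lit 5085594702) (nat_lit 228) (nat_lit 412942940) (nat_lit 76) (nat_lit 8189364071) (nat_lit 32) (nat_lit 5) (nat_lit 35) (nat_lit 5) (nat_lit 33) (nat_lit 4) (nat_lit 344) (nat_lit 288) (nat_lit 268)) (XT.nd (nat_lit 78) (nat_lit 152) (nat_lit 0) (XT.lf (nat_lit 0) (nat_lit 8246124988) (nat_lit 76) (nat_lit 1215684788) (nat_lit 152) (nat_lit 4660978964) (nat_lit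 31) (nat_lit 5) (nat_lit 32) (nat_lit 5) (nat_lit 33) (nat_lit 4) (nat_lit 345) (nat_lit 288) (nat_lit 267)) (XT.lf (nat_lit 0) (nat_lit 2627045499) (nat_lit 152) (nat_lit 11427638701) (nat_lit 152) (nat_lit 524883797) (nat_lit 29) (nat_lit 4) (nat_lit 31) (nat_lit 5) (nat_lit 31) (nat_lit 4) (nat_lit 346) (nat_lit 288) (nat_lit 266))))))))
noncomputable def xc69 : XT := (XT.nd (nat_lit 1794) (nat_lit 608) (nat_lit 0) (XT.nd (nat_lit 858) (nat_lit 532) (nat_lit 0) (XT.nd (nat_lit 390) (nat_lit 304) (nat_lit 0) (XT.nd (nat_lit 156) (nat_lit 228) (nat_lit 0) (XT.nd (nat_lit 78) (nat_lit 76) (nat_lit 0) (XT.lf (nat_lit 0) (nat_lit 3715810614) (nat_lit 228) (nat_lit 3555009896) (nat_lit 76) (nat_lit 7784422031) (nat_lit 28) (nat_lit 5) (nat_lit 31) (nat_lit 5) (nat_lit 29) (nat_lit 4) (nat_lit 347) (nat_lit 288) (nat_lit 265)) (XT.lf (nat_lit 0) (nat_lit 5250789984) (nat_lit 76) (nat_lit 2885813487)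 (nat_lit 152) (nat_lit 7418416766) (nat_lit 27) (nat_lit 5) (nat_lit 28) (nat_lit 5) (nat_lit 29) (nat_lit 4) (nat_lit 348) (nat_lit 288) (nat_lit 264))) (XT.nd (nat_lit 78) (nat_lit 228) (nat_lit 0) (XT.lf (nat_lit 0) (nat_lit 12770984636) (nat_lit 152) (nat_lit 1656168824) (nat_lit 0) (nat_lit 1653039087) (nat_lit 27) (nat_lit 5) (nat_lit 29) (nat_lit 4) (nat_lit 27) (nat_lit 4) (nat_lit 349) (nat_lit 288) (nat_lit 263)) (XT.nd (nat_lit 78) (nat_lit 0) (nat_lit 0) (XT.lf (nat_lit 0) (nat_lit 1047166370) (nat_lit 228) (nat_lit 9193109994) (nat_lit 76) (nat_lit 6386897984) (nat_lit 24) (nat_lit 5) (nat_lit 27) (nat_lit 5) (nat_lit 25) (nat_lit 4) (nat_lit 350) (nat_lit 288) (nat_lit 262)) (XT.lf (nat_lit 0) (nat_lit 5448054052) (nat_lit 228) (nat_lit 382581201) (nat_lit 76) (nat_lit 11371290877) (nat_lit 24) (nat_lit 5) (nat_lit 27) (nat_lit 5) (nat_lit 25) (nat_lit 4) (nat_lit 351) (nat_lit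 288) (nat_lit 261))))) (XT.nd (nat_lit 234) (nat_lit 76) (nat_lit 0) (XT.nd (nat_lit 78) (nat_lit 152) (nat_lit 0) (XT.lf (nat_lit 0) (nat_lit 9000275351) (nat_lit 76) (nat_lit 1122942621) (nat_lit 152) (nat_lit 7679513223) (nat_lit 23) (nat_lit 5) (nat_lit 24) (nat_lit 5) (nat_lit 25) (nat_lit 4) (nat_lit 352) (nat_lit 288) (nat_lit 260)) (XT.nd (nat_lit 78) (nat_lit 76) (nat_lit 0) (XT.lf (nat_lit 0) (nat_lit 222766832) (nat_lit 76) (nat_lit 14793420747) (nat_lit 76) (nat_lit 3418212540) (nat_lit 22) (nat_lit 4) (nat_lit 23) (nat_lit 5) (nat_lit 23) (nat_lit 4) (nat_lit 353) (nat_lit 288) (nat_lit 259)) (XT.lf (nat_lit 0) (nat_lit 1106885044) (nat_lit 152) (nat_lit 9279923459) (nat_lit 76) (nat_lit 8705816313) (nat_lit 21) (nat_lit 5) (nat_lit 23) (nat_lit 5) (nat_lit 22) (nat_lit 4) (nat_lit 354) (nat_lit 288) (nat_lit 258)))) (XT.nd (nat_lit 78) (nat_lit 76) (nat_lit 0) (XT.lf (nat_lit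 0) (nat_lit 5662038187) (nat_lit 152) (nat_lit 107411508) (nat_lit 76) (nat_lit 14015597932) (nat_lit 21) (nat_lit 5) (nat_lit 23) (nat_lit 5) (nat_lit 22) (nat_lit 4) (nat_lit 355) (nat_lit 288) (nat_lit 257)) (XT.nd (nat_lit 78) (nat_lit 0) (nat_lit 0) (XT.lf (nat_lit 0) (nat_lit 9691291609) (nat_lit 76) (nat_lit 827513252) (nat_lit 152) (nat_lit 9989615301) (nat_lit 20) (nat_lit 5) (nat_lit 21) (nat_lit 5) (nat_lit 22) (nat_lit 4) (nat_lit 356) (nat_lit 288) (nat_lit 256)) (XT.lf (nat_lit 0) (nat_lit 15611394583) (nat_lit 152) (nat_lit 1495466040) (nat_lit 0) (nat_lit 4161471825) (nat_lit 20) (nat_lit 5) (nat_lit 22) (nat_lit 4) (nat_lit 20) (nat_lit 4) (nat_lit 357) (nat_lit 288) (nat_lit 255)))))) (XT.nd (nat_lit 468) (nat_lit 228) (nat_lit 0) (XT.nd (nat_lit 234) (nat_lit 76) (nat_lit 0) (XT.nd (nat_lit 78) (nat_lit 152) (nat_lit 0) (XT.lf (nat_lit 0) (nat_lit 8411624744) (nat_lit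 76) (nat_lit 12618588897) (nat_lit 76) (nat_lit 1032466104) (nat_lit 19) (nat_lit 4) (nat_lit 20) (nat_lit 5) (nat_lit 20) (nat_lit 4) (nat_lit 358) (nat_lit 288) (nat_lit 254)) (XT.nd (nat_lit 78) (nat_lit 76) (nat_lit 0) (XT.lf (nat_lit 0) (nat_lit 3653508469) (nat_lit 152) (nat_lit 4226144748) (nat_lit 76) (nat_lit 15016491889) (nat_lit 18) (nat_lit 5) (nat_lit 20) (nat_lit 5) (nat_lit 19) (nat_lit 4) (nat_lit 359) (nat_lit 288) (nat_lit 253)) (XT.lf (nat_lit 0) (nat_lit 5705654861) (nat_lit 76) (nat_lit 2852896074) (nat_lit 152) (nat_lit 15210929926) (nat_lit 17) (nat_lit 5) (nat_lit 18) (nat_lit 5) (nat_lit 19) (nat_lit 4) (nat_lit 360) (nat_lit 288) (nat_lit 252)))) (XT.nd (nat_lit 78) (nat_lit 76) (nat_lit 0) (XT.lf (nat_lit 0) (nat_lit 13750226306) (nat_lit 152) (nat_lit 8571624625) (nat_lit 0) (nat_lit 2362579385) (nat_lit 17) (nat_lit 5) (nat_lit 19) (nat_lit 4) (nat_lit 17) (nat_lit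 4) (nat_lit 361) (nat_lit 288) (nat_lit 251)) (XT.nd (nat_lit 78) (nat_lit 0) (nat_lit 0) (XT.lf (nat_lit 0) (nat_lit 1264657831) (nat_lit 76) (nat_lit 17937409365) (nat_lit 76) (nat_lit 6443046153) (nat_lit 16) (nat_lit 4) (nat_lit 17) (nat_lit 5) (nat_lit 17) (nat_lit 4) (nat_lit 362) (nat_lit 288) (nat_lit 250)) (XT.lf (nat_lit 0) (nat_lit 11768108538) (nat_lit 76) (nat_lit 13238855521) (nat_lit 76) (nat_lit 1642857746) (nat_lit 16) (nat_lit 4) (nat_lit 17) (nat_lit 5) (nat_lit 17) (nat_lit 4) (nat_lit 363) (nat_lit 288) (nat_lit 249))))) (XT.nd (nat_lit 234) (nat_lit 76) (nat_lit 0) (XT.nd (nat_lit 78) (nat_lit 76) (nat_lit 0) (XT.lf (nat_lit 0) (nat_lit 3225960786) (nat_lit 152) (nat_lit 5079572983) (nat_lit 76) (nat_lit 19399725099) (nat_lit 15) (nat_lit 5) (nat_lit 17) (nat_lit 5) (nat_lit 16) (nat_lit 4) (nat_lit 364) (nat_lit 288) (nat_lit 248)) (XT.nd (nat_lit 78) (nat_lit 0)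 (nat_lit 0) (XT.lf (nat_lit 0) (nat_lit 5240620442) (nat_lit 76) (nat_lit 3064549598) (nat_lit 152) (nat_lit 20505855610) (nat_lit 14) (nat_lit 5) (nat_lit 15) (nat_lit 5) (nat_lit 16) (nat_lit 4) (nat_lit 365) (nat_lit 288) (nat_lit 247)) (XT.lf (nat_lit 0) (nat_lit 13704474436) (nat_lit 152) (nat_lit 13867240778) (nat_lit 0) (nat_lit 2397070725) (nat_lit 14) (nat_lit 5) (nat_lit 16) (nat_lit 4) (nat_lit 14) (nat_lit 4) (nat_lit 366) (nat_lit 288) (nat_lit 246)))) (XT.nd (nat_lit 78) (nat_lit 76) (nat_lit 0) (XT.lf (nat_lit 0) (nat_lit 19367437657) (nat_lit 152) (nat_lit 3836922636) (nat_lit 0) (nat_lit 7980400606) (nat_lit 14) (nat_lit 5) (nat_lit 16) (nat_lit 4) (nat_lit 14) (nat_lit 4) (nat_lit 367) (nat_lit 288) (nat_lit 245)) (XT.nd (nat_lit 78) (nat_lit 0) (nat_lit 0) (XT.lf (nat_lit 0) (nat_lit 6810247588) (nat_lit 76) (nat_lit 18555776203) (nat_lit 76) (nat_lit 7092897876) (nat_lit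 13) (nat_lit 4) (nat_lit 14) (nat_lit 5) (nat_lit 14) (nat_lit 4) (nat_lit 368) (nat_lit 288) (nat_lit 244)) (XT.lf (nat_lit 0) (nat_lit 18022006729) (nat_lit 76) (nat_lit 13654648178) (nat_lit 76) (nat_lit 2119540065) (nat_lit 13) (nat_lit 4) (nat_lit 14) (nat_lit 5) (nat_lit 14) (nat_lit 4) (nat_lit 369) (nat_lit 288) (nat_lit 243))))))) (XT.nd (nat_lit 936) (nat_lit 228) (nat_lit 0) (XT.nd (nat_lit 468) (nat_lit 152) (nat_lit 0) (XT.nd (nat_lit 234) (nat_lit 76) (nat_lit 0) (XT.nd (nat_lit 78) (nat_lit 76) (nat_lit 0) (XT.lf (nat_lit 0) (nat_lit 2952004767) (nat_lit 152) (nat_lit 5552288612) (nat_lit 76) (nat_lit 26696185063) (nat_lit 12) (nat_lit 5) (nat_lit 14) (nat_lit 5) (nat_lit 13) (nat_lit 4) (nat_lit 370) (nat_lit 288) (nat_lit 242)) (XT.nd (nat_lit 78) (nat_lit 0) (nat_lit 0) (XT.lf (nat_lit 0) (nat_lit 5219814680) (nat_lit 76) (nat_lit 3018832934) (nat_lit 152) (nat_lit 28432962465)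 (nat_lit 11) (nat_lit 5) (nat_lit 12) (nat_lit 5) (nat_lit 13) (nat_lit 4) (nat_lit 371) (nat_lit 288) (nat_lit 241)) (XT.lf (nat_lit 0) (nat_lit 13879447902) (nat_lit 152) (nat_lit 21626069912) (nat_lit 0) (nat_lit 2706297678) (nat_lit 11) (nat_lit 5) (nat_lit 13) (nat_lit 4) (nat_lit 11) (nat_lit 4) (nat_lit 372) (nat_lit 288) (nat_lit 240)))) (XT.nd (nat_lit 78) (nat_lit 76) (nat_lit 0) (XT.lf (nat_lit 0) (nat_lit 19805548677) (nat_lit 152) (nat_lit 11447523009) (nat_lit 0) (nat_lit 8575804525) (nat_lit 11) (nat_lit 5) (nat_lit 13) (nat_lit 4) (nat_lit 11) (nat_lit 4) (nat_lit 373) (nat_lit 288) (nat_lit 239)) (XT.nd (nat_lit 78) (nat_lit 76) (nat_lit 0) (XT.lf (nat_lit 0) (nat_lit 25983927258) (nat_lit 152) (nat_lit 844787612) (nat_lit 0) (nat_lit 14700284128) (nat_lit 11) (nat_lit 5) (nat_lit 13) (nat_lit 4) (nat_lit 11) (nat_lit 4) (nat_lit 374) (nat_lit 288) (nat_lit 238)) (XT.lf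 (nat_lit 0) (nat_lit 10544882996) (nat_lit 76) (nat_lit 22049046252) (nat_lit 76) (nat_lit 10714070761) (nat_lit 10) (nat_lit 4) (nat_lit 11) (nat_lit 5) (nat_lit 11) (nat_lit 4) (nat_lit 375) (nat_lit 288) (nat_lit 237))))) (XT.nd (nat_lit 234) (nat_lit 76) (nat_lit 0) (XT.nd (nat_lit 78) (nat_lit 76) (nat_lit 0) (XT.lf (nat_lit 0) (nat_lit 22453964257) (nat_lit 76) (nat_lit 17053600284) (nat_lit 76) (nat_lit 5669736830) (nat_lit 10) (nat_lit 4) (nat_lit 11) (nat_lit 5) (nat_lit 11) (nat_lit 4) (nat_lit 376) (nat_lit 288) (nat_lit 236)) (XT.nd (nat_lit 78) (nat_lit 76) (nat_lit 0) (XT.lf (nat_lit 0) (nat_lit 34882878633) (nat_lit 76) (nat_lit 11844789932) (nat_lit 76) (nat_lit 414366515) (nat_lit 10) (nat_lit 4) (nat_lit 11) (nat_lit 5) (nat_lit 11) (nat_lit 4) (nat_lit 377) (nat_lit 288) (nat_lit 235)) (XT.lf (nat_lit 0) (nat_lit 4902455646) (nat_lit 152) (nat_lit 1424732164) (nat_lit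 76) (nat_lit 42875737671) (nat_lit 9) (nat_lit 5) (nat_lit 11) (nat_lit 5) (nat_lit 10) (nat_lit 4) (nat_lit 378) (nat_lit 288) (nat_lit 234)))) (XT.nd (nat_lit 78) (nat_lit 0) (nat_lit 0) (XT.lf (nat_lit 0) (nat_lit 10201335230) (nat_lit 76) (nat_lit 392973419) (nat_lit 152) (nat_lit 40766062078) (nat_lit 8) (nat_lit 5) (nat_lit 9) (nat_lit 5) (nat_lit 10) (nat_lit 4) (nat_lit 379) (nat_lit 288) (nat_lit 233)) (XT.nd (nat_lit 78) (nat_lit 0) (nat_lit 0) (XT.lf (nat_lit 0) (nat_lit 16650400847) (nat_lit 152) (nat_lit 31327783712) (nat_lit 0) (nat_lit 5643526800) (nat_lit 8) (nat_lit 5) (nat_lit 10) (nat_lit 4) (nat_lit 8) (nat_lit 4) (nat_lit 380) (nat_lit 288) (nat_lit 232)) (XT.lf (nat_lit 0) (nat_lit 22981430966) (nat_lit 152) (nat_lit 21078010616) (nat_lit 0) (nat_lit 11938075969) (nat_lit 8) (nat_lit 5) (nat_lit 10) (nat_lit 4) (nat_lit 8) (nat_lit 4) (nat_lit 381) (nat_lit 288) (nat_lit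 231)))))) (XT.nd (nat_lit 468) (nat_lit 152) (nat_lit 0) (XT.nd (nat_lit 234) (nat_lit 0) (nat_lit 0) (XT.nd (nat_lit 78) (nat_lit 76) (nat_lit 0) (XT.lf (nat_lit 0) (nat_lit 29596337471) (nat_lit 152) (nat_lit 10379176572) (nat_lit 0) (nat_lit 18518238712) (nat_lit 8) (nat_lit 5) (nat_lit 10) (nat_lit 4) (nat_lit 8) (nat_lit 4) (nat_lit 382) (nat_lit 288) (nat_lit 230)) (XT.nd (nat_lit 78) (nat_lit 0) (nat_lit 0) (XT.lf (nat_lit 0) (nat_lit 820451403) (nat_lit 76) (nat_lit 35703228282) (nat_lit 76) (nat_lit 24592040226) (nat_lit 7) (nat_lit 4) (nat_lit 8) (nat_lit 5) (nat_lit 8) (nat_lit 4) (nat_lit 383) (nat_lit 288) (nat_lit 229)) (XT.lf (nat_lit 0) (nat_lit 12880969324) (nat_lit 76) (nat_lit 31061630850) (nat_lit 76) (nat_lit 19918929178) (nat_lit 7) (nat_lit 4) (nat_lit 8) (nat_lit 5) (nat_lit 8) (nat_lit 4) (nat_lit 384) (nat_lit 288) (nat_lit 228)))) (XT.nd (nat_lit 78) (nat_lit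 0) (nat_lit 0) (XT.lf (nat_lit 0) (nat_lit 25487910258) (nat_lit 76) (nat_lit 26215446703) (nat_lit 76) (nat_lit 15042732063) (nat_lit 7) (nat_lit 4) (nat_lit 8) (nat_lit 5) (nat_lit 8) (nat_lit 4) (nat_lit 385) (nat_lit 288) (nat_lit 227)) (XT.nd (nat_lit 78) (nat_lit 0) (nat_lit 0) (XT.lf (nat_lit 0) (nat_lit 38671290730) (nat_lit 76) (nat_lit 21153137308) (nat_lit 76) (nat_lit 9951838889) (nat_lit 7) (nat_lit 4) (nat_lit 8) (nat_lit 5) (nat_lit 8) (nat_lit 4) (nat_lit 386) (nat_lit 288) (nat_lit 226)) (XT.lf (nat_lit 0) (nat_lit 52462499743) (nat_lit 76) (nat_lit 15862649546) (nat_lit 76) (nat_lit 4634128480) (nat_lit 7) (nat_lit 4) (nat_lit 8) (nat_lit 5) (nat_lit 8) (nat_lit 4) (nat_lit 387) (nat_lit 288) (nat_lit 225))))) (XT.nd (nat_lit 234) (nat_lit 0) (nat_lit 0) (XT.nd (nat_lit 78) (nat_lit 76) (nat_lit 0) (XT.lf (nat_lit 0) (nat_lit 893516680) (nat_lit 152) (nat_lit 9422738201)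 (nat_lit 76) (nat_lit 65985724690) (nat_lit 6) (nat_lit 5) (nat_lit 8) (nat_lit 5) (nat_lit 7) (nat_lit 4) (nat_lit 388) (nat_lit 288) (nat_lit 224)) (XT.nd (nat_lit 78) (nat_lit 0) (nat_lit 0) (XT.lf (nat_lit 0) (nat_lit 2150487708) (nat_lit 76) (nat_lit 4400549778) (nat_lit 152) (nat_lit 73256522333) (nat_lit 5) (nat_lit 5) (nat_lit 6) (nat_lit 5) (nat_lit 7) (nat_lit 4) (nat_lit 389) (nat_lit 288) (nat_lit 223)) (XT.lf (nat_lit 0) (nat_lit 12657635365) (nat_lit 152) (nat_lit 68929274902) (nat_lit 0) (nat_lit 1893201950) (nat_lit 5) (nat_lit 5) (nat_lit 7) (nat_lit 4) (nat_lit 5) (nat_lit 4) (nat_lit 390) (nat_lit 288) (nat_lit 222)))) (XT.nd (nat_lit 78) (nat_lit 0) (nat_lit 0) (XT.lf (nat_lit 0) (nat_lit 19118591393) (nat_lit 152) (nat_lit 59882424144) (nat_lit 0) (nat_lit 8332828322) (nat_lit 5) (nat_lit 5) (nat_lit 7) (nat_lit 4) (nat_lit 5) (nat_lit 4) (nat_lit 391) (nat_lit 288)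 (nat_lit 221)) (XT.nd (nat_lit 78) (nat_lit 0) (nat_lit 0) (XT.lf (nat_lit 0) (nat_lit 25880583884) (nat_lit 152) (nat_lit 50426274802) (nat_lit 0) (nat_lit 15074506855) (nat_lit 5) (nat_lit 5) (nat_lit 7) (nat_lit 4) (nat_lit 5) (nat_lit 4) (nat_lit 392) (nat_lit 288) (nat_lit 220)) (XT.lf (nat_lit 0) (nat_lit 32959712820) (nat_lit 152) (nat_lit 40538312236) (nat_lit 0) (nat_lit 22134289164) (nat_lit 5) (nat_lit 5) (nat_lit 7) (nat_lit 4) (nat_lit 5) (nat_lit 4) (nat_lit 393) (nat_lit 288) (nat_lit 219))))))))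
noncomputable def xc70 : XT := (XT.nd (nat_lit 1794) (nat_lit 0) (nat_lit 0) (XT.nd (nat_lit 858) (nat_lit 152) (nat_lit 0) (XT.nd (nat_lit 390) (nat_lit 0) (nat_lit 0) (XT.nd (nat_lit 156) (nat_lit 76) (nat_lit 0) (XT.nd (nat_lit 78) (nat_lit 0) (nat_lit 0) (XT.lf (nat_lit 0) (nat_lit 40372833271) (nat_lit 152) (nat_lit 30194993677) (nat_lit 0) (nat_lit 29528984256) (nat_lit 5) (nat_lit 5) (nat_lit 7) (nat_lit 4) (nat_lit 5) (nat_lit 4) (nat_lit 394) (nat_lit 288) (nat_lit 218)) (XT.lf (nat_lit 0) (nat_lit 48137595522) (nat_lit 152) (nat_lit 19371692176) (nat_lit 0) (nat_lit 37276198547) (nat_lit 5) (nat_lit 5) (nat_lit 7) (nat_lit 4) (nat_lit 5) (nat_lit 4) (nat_lit 395) (nat_lit 288) (nat_lit 217))) (XT.nd (nat_lit 78) (nat_lit 76) (nat_lit 0) (XT.lf (nat_lit 0) (nat_lit 56272487104) (nat_lit 152) (nat_lit 8042637967) (nat_lit 0) (nat_lit 45394377785) (nat_lit 5) (nat_lit 5) (nat_lit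 7) (nat_lit 4) (nat_lit 5) (nat_lit 4) (nat_lit 396) (nat_lit 288) (nat_lit 216)) (XT.nd (nat_lit 78) (nat_lit 0) (nat_lit 0) (XT.lf (nat_lit 0) (nat_lit 3945420998) (nat_lit 76) (nat_lit 60913054887) (nat_lit 76) (nat_lit 50019029050) (nat_lit 4) (nat_lit 4) (nat_lit 5) (nat_lit 5) (nat_lit 5) (nat_lit 4) (nat_lit 397) (nat_lit 288) (nat_lit 215)) (XT.lf (nat_lit 0) (nat_lit 16778923046) (nat_lit 76) (nat_lit 57214103759) (nat_lit 76) (nat_lit 46304919334) (nat_lit 4) (nat_lit 4) (nat_lit 5) (nat_lit 5) (nat_lit 5) (nat_lit 4) (nat_lit 398) (nat_lit 288) (nat_lit 214))))) (XT.nd (nat_lit 234) (nat_lit 0) (nat_lit 0) (XT.nd (nat_lit 78) (nat_lit 0) (nat_lit 0) (XT.lf (nat_lit 0) (nat_lit 30222498201) (nat_lit 76) (nat_lit 53345670628) (nat_lit 76) (nat_lit 42422049452) (nat_lit 4) (nat_lit 4) (nat_lit 5) (nat_lit 5) (nat_lit 5) (nat_lit 4) (nat_lit 399) (nat_lit 288) (nat_lit 213)) (XT.nd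 (nat_lit 78) (nat_lit 0) (nat_lit 0) (XT.lf (nat_lit 0) (nat_lit 44308154974) (nat_lit 76) (nat_lit 49298544938) (nat_lit 76) (nat_lit 38361174476) (nat_lit 4) (nat_lit 4) (nat_lit 5) (nat_lit 5) (nat_lit 5) (nat_lit 4) (nat_lit 400) (nat_lit 288) (nat_lit 212)) (XT.lf (nat_lit 0) (nat_lit 59069430645) (nat_lit 76) (nat_lit 45063090677) (nat_lit 76) (nat_lit 34112625656) (nat_lit 4) (nat_lit 4) (nat_lit 5) (nat_lit 5) (nat_lit 5) (nat_lit 4) (nat_lit 401) (nat_lit 288) (nat_lit 211)))) (XT.nd (nat_lit 78) (nat_lit 0) (nat_lit 0) (XT.lf (nat_lit 0) (nat_lit 74541471106) (nat_lit 76) (nat_lit 40629223429) (nat_lit 76) (nat_lit 29666287400) (nat_lit 4) (nat_lit 4) (nat_lit 5) (nat_lit 5) (nat_lit 5) (nat_lit 4) (nat_lit 402) (nat_lit 288) (nat_lit 210)) (XT.nd (nat_lit 78) (nat_lit 0) (nat_lit 0) (XT.lf (nat_lit 0) (nat_lit 90761114551) (nat_lit 76) (nat_lit 35986386368) (nat_lit 76) (nat_lit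 25011573188) (nat_lit 4) (nat_lit 4) (nat_lit 5) (nat_lit 5) (nat_lit 5) (nat_lit 4) (nat_lit 403) (nat_lit 288) (nat_lit 209)) (XT.lf (nat_lit 0) (nat_lit 107766979177) (nat_lit 76) (nat_lit 31123525119) (nat_lit 76) (nat_lit 20137400367) (nat_lit 4) (nat_lit 4) (nat_lit 5) (nat_lit 5) (nat_lit 5) (nat_lit 4) (nat_lit 404) (nat_lit 288) (nat_lit 208)))))) (XT.nd (nat_lit 468) (nat_lit 0) (nat_lit 0) (XT.nd (nat_lit 234) (nat_lit 152) (nat_lit 0) (XT.nd (nat_lit 78) (nat_lit 0) (nat_lit 0) (XT.lf (nat_lit 0) (nat_lit 125599555138) (nat_lit 76) (nat_lit 26029061441) (nat_lit 76) (nat_lit 15032163764) (nat_lit 4) (nat_lit 4) (nat_lit 5) (nat_lit 5) (nat_lit 5) (nat_lit 4) (nat_lit 405) (nat_lit 288) (nat_lit 207)) (XT.nd (nat_lit 78) (nat_lit 0) (nat_lit 0) (XT.lf (nat_lit 0) (nat_lit 144301300949) (nat_lit 76) (nat_lit 20690865660) (nat_lit 76) (nat_lit 9683708053) (nat_lit 4) (nat_lit 4)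 (nat_lit 5) (nat_lit 5) (nat_lit 5) (nat_lit 4) (nat_lit 406) (nat_lit 288) (nat_lit 206)) (XT.lf (nat_lit 0) (nat_lit 163916744575) (nat_lit 76) (nat_lit 15096227784) (nat_lit 76) (nat_lit 4079298816) (nat_lit 4) (nat_lit 4) (nat_lit 5) (nat_lit 5) (nat_lit 5) (nat_lit 4) (nat_lit 407) (nat_lit 288) (nat_lit 205)))) (XT.nd (nat_lit 78) (nat_lit 76) (nat_lit 0) (XT.lf (nat_lit 0) (nat_lit 1736975521) (nat_lit 152) (nat_lit 7465435206) (nat_lit 76) (nat_lit 182726197412) (nat_lit 3) (nat_lit 5) (nat_lit 5) (nat_lit 5) (nat_lit 4) (nat_lit 4) (nat_lit 408) (nat_lit 288) (nat_lit 204)) (XT.nd (nat_lit 78) (nat_lit 0) (nat_lit 0) (XT.lf (nat_lit 0) (nat_lit 4900395213) (nat_lit 76) (nat_lit 2873016080) (nat_lit 152) (nat_lit 193426686227) (nat_lit 2) (nat_lit 5) (nat_lit 3) (nat_lit 5) (nat_lit 4) (nat_lit 4) (nat_lit 409) (nat_lit 288) (nat_lit 203)) (XT.lf (nat_lit 0) (nat_lit 14289034676)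 (nat_lit 152) (nat_lit 192865880877) (nat_lit 0) (nat_lit 3771378668) (nat_lit 2) (nat_lit 5) (nat_lit 4) (nat_lit 4) (nat_lit 2) (nat_lit 4) (nat_lit 410) (nat_lit 288) (nat_lit 202))))) (XT.nd (nat_lit 234) (nat_lit 0) (nat_lit 0) (XT.nd (nat_lit 78) (nat_lit 0) (nat_lit 0) (XT.lf (nat_lit 0) (nat_lit 21167973752) (nat_lit 152) (nat_lit 189326289744) (nat_lit 0) (nat_lit 10642661627) (nat_lit 2) (nat_lit 5) (nat_lit 4) (nat_lit 4) (nat_lit 2) (nat_lit 4) (nat_lit 411) (nat_lit 288) (nat_lit 201)) (XT.nd (nat_lit 78) (nat_lit 0) (nat_lit 0) (XT.lf (nat_lit 0) (nat_lit 28381751114) (nat_lit 152) (nat_lit 185627645477) (nat_lit 0) (nat_lit 17849147449) (nat_lit 2) (nat_lit 5) (nat_lit 4) (nat_lit 4) (nat_lit 2) (nat_lit 4) (nat_lit 412) (nat_lit 288) (nat_lit 200)) (XT.lf (nat_lit 0) (nat_lit 35947542424) (nat_lit 152) (nat_lit 181761141780) (nat_lit 0) (nat_lit 25407994435) (nat_lit 2)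 (nat_lit 5) (nat_lit 4) (nat_lit 4) (nat_lit 2) (nat_lit 4) (nat_lit 413) (nat_lit 288) (nat_lit 199)))) (XT.nd (nat_lit 78) (nat_lit 0) (nat_lit 0) (XT.lf (nat_lit 0) (nat_lit 43883361469) (nat_lit 152) (nat_lit 177717572693) (nat_lit 0) (nat_lit 33337199838) (nat_lit 2) (nat_lit 5) (nat_lit 4) (nat_lit 4) (nat_lit 2) (nat_lit 4) (nat_lit 414) (nat_lit 288) (nat_lit 198)) (XT.nd (nat_lit 78) (nat_lit 0) (nat_lit 0) (XT.lf (nat_lit 0) (nat_lit 52208103058) (nat_lit 152) (nat_lit 173487310669) (nat_lit 0) (nat_lit 41655642720) (nat_lit 2) (nat_lit 5) (nat_lit 4) (nat_lit 4) (nat_lit 2) (nat_lit 4) (nat_lit 415) (nat_lit 288) (nat_lit 197)) (XT.lf (nat_lit 0) (nat_lit 60941588002) (nat_lit 152) (nat_lit 169060283657) (nat_lit 0) (nat_lit 50383128897) (nat_lit 2) (nat_lit 5) (nat_lit 4) (nat_lit 4) (nat_lit 2) (nat_lit 4) (nat_lit 416) (nat_lit 288) (nat_lit 196))))))) (XT.nd (nat_lit 936)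 (nat_lit 0) (nat_lit 0) (XT.nd (nat_lit 468) (nat_lit 0) (nat_lit 0) (XT.nd (nat_lit 234) (nat_lit 0) (nat_lit 0) (XT.nd (nat_lit 78) (nat_lit 0) (nat_lit 0) (XT.lf (nat_lit 0) (nat_lit 70104610315) (nat_lit 152) (nat_lit 164425951115) (nat_lit 0) (nat_lit 59540438097) (nat_lit 2) (nat_lit 5) (nat_lit 4) (nat_lit 4) (nat_lit 2) (nat_lit 4) (nat_lit 417) (nat_lit 288) (nat_lit 195)) (XT.nd (nat_lit 78) (nat_lit 0) (nat_lit 0) (XT.lf (nat_lit 0) (nat_lit 79718986716) (nat_lit 152) (nat_lit 159573278919) (nat_lit 0) (nat_lit 69149373439) (nat_lit 2) (nat_lit 5) (nat_lit 4) (nat_lit 4) (nat_lit 2) (nat_lit 4) (nat_lit 418) (nat_lit 288) (nat_lit 194)) (XT.lf (nat_lit 0) (nat_lit 89807608577) (nat_lit 152) (nat_lit 154490713087) (nat_lit 0) (nat_lit 79232813338) (nat_lit 2) (nat_lit 5) (nat_lit 4) (nat_lit 4) (nat_lit 2) (nat_lit 4) (nat_lit 419) (nat_lit 288) (nat_lit 193)))) (XT.nd (nat_lit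 78) (nat_lit 0) (nat_lit 0) (XT.lf (nat_lit 0) (nat_lit 100394496427) (nat_lit 152) (nat_lit 149166152272) (nat_lit 0) (nat_lit 89814765987) (nat_lit 2) (nat_lit 5) (nat_lit 4) (nat_lit 4) (nat_lit 2) (nat_lit 4) (nat_lit 420) (nat_lit 288) (nat_lit 192)) (XT.nd (nat_lit 78) (nat_lit 0) (nat_lit 0) (XT.lf (nat_lit 0) (nat_lit 111504857141) (nat_lit 152) (nat_lit 143586918949) (nat_lit 0) (nat_lit 100920426509) (nat_lit 2) (nat_lit 5) (nat_lit 4) (nat_lit 4) (nat_lit 2) (nat_lit 4) (nat_lit 421) (nat_lit 288) (nat_lit 191)) (XT.lf (nat_lit 0) (nat_lit 123165143960) (nat_lit 152) (nat_lit 137739729228) (nat_lit 0) (nat_lit 112576236954) (nat_lit 2) (nat_lit 5) (nat_lit 4) (nat_lit 4) (nat_lit 2) (nat_lit 4) (nat_lit 422) (nat_lit 288) (nat_lit 190))))) (XT.nd (nat_lit 234) (nat_lit 0) (nat_lit 0) (XT.nd (nat_lit 78) (nat_lit 0) (nat_lit 0) (XT.lf (nat_lit 0) (nat_lit 135403119470) (nat_lit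 152) (nat_lit 131610661229) (nat_lit 0) (nat_lit 124809949252) (nat_lit 2) (nat_lit 5) (nat_lit 4) (nat_lit 4) (nat_lit 2) (nat_lit 4) (nat_lit 423) (nat_lit 288) (nat_lit 189)) (XT.nd (nat_lit 78) (nat_lit 0) (nat_lit 0) (XT.lf (nat_lit 0) (nat_lit 148247921709) (nat_lit 152) (nat_lit 125185121933) (nat_lit 0) (nat_lit 137650691289) (nat_lit 2) (nat_lit 5) (nat_lit 4) (nat_lit 4) (nat_lit 2) (nat_lit 4) (nat_lit 424) (nat_lit 288) (nat_lit 188)) (XT.lf (nat_lit 0) (nat_lit 161730133539) (nat_lit 152) (nat_lit 118447812437) (nat_lit 0) (nat_lit 151129036260) (nat_lit 2) (nat_lit 5) (nat_lit 4) (nat_lit 4) (nat_lit 2) (nat_lit 4) (nat_lit 425) (nat_lit 288) (nat_lit 187)))) (XT.nd (nat_lit 78) (nat_lit 0) (nat_lit 0) (XT.lf (nat_lit 0) (nat_lit 175881855465) (nat_lit 152) (nat_lit 111382691528) (nat_lit 0) (nat_lit 165277075462) (nat_lit 2) (nat_lit 5) (nat_lit 4) (nat_lit 4) (nat_lit 2)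 (nat_lit 4) (nat_lit 426) (nat_lit 288) (nat_lit 186)) (XT.nd (nat_lit 78) (nat_lit 0) (nat_lit 0) (XT.lf (nat_lit 0) (nat_lit 190736782063) (nat_lit 152) (nat_lit 103972937490) (nat_lit 0) (nat_lit 180128494704) (nat_lit 2) (nat_lit 5) (nat_lit 4) (nat_lit 4) (nat_lit 2) (nat_lit 4) (nat_lit 427) (nat_lit 288) (nat_lit 185)) (XT.lf (nat_lit 0) (nat_lit 206330282205) (nat_lit 152) (nat_lit 96200908051) (nat_lit 0) (nat_lit 195718654508) (nat_lit 2) (nat_lit 5) (nat_lit 4) (nat_lit 4) (nat_lit 2) (nat_lit 4) (nat_lit 428) (nat_lit 288) (nat_lit 184)))))) (XT.nd (nat_lit 468) (nat_lit 0) (nat_lit 0) (XT.nd (nat_lit 234) (nat_lit 0) (nat_lit 0) (XT.nd (nat_lit 78) (nat_lit 0) (nat_lit 0) (XT.lf (nat_lit 0) (nat_lit 222699483273) (nat_lit 152) (nat_lit 88048098378) (nat_lit 0) (nat_lit 212084674301) (nat_lit 2) (nat_lit 5) (nat_lit 4) (nat_lit 4) (nat_lit 2) (nat_lit 4) (nat_lit 429) (nat_lit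 288) (nat_lit 183)) (XT.nd (nat_lit 78) (nat_lit 0) (nat_lit 0) (XT.lf (nat_lit 0) (nat_lit 239883359555) (nat_lit 152) (nat_lit 79495097021) (nat_lit 0) (nat_lit 229265520797) (nat_lit 2) (nat_lit 5) (nat_lit 4) (nat_lit 4) (nat_lit 2) (nat_lit 4) (nat_lit 430) (nat_lit 288) (nat_lit 182)) (XT.lf (nat_lit 0) (nat_lit 257922825042) (nat_lit 152) (nat_lit 70521539690) (nat_lit 0) (nat_lit 247302100774) (nat_lit 2) (nat_lit 5) (nat_lit 4) (nat_lit 4) (nat_lit 2) (nat_lit 4) (nat_lit 431) (nat_lit 288) (nat_lit 181)))) (XT.nd (nat_lit 78) (nat_lit 0) (nat_lit 0) (XT.lf (nat_lit 0) (nat_lit 276860830843) (nat_lit 152) (nat_lit 61106060773) (nat_lit 0) (nat_lit 266237358470) (nat_lit 2) (nat_lit 5) (nat_lit 4) (nat_lit 4) (nat_lit 2) (nat_lit 4) (nat_lit 432) (nat_lit 288) (nat_lit 180)) (XT.nd (nat_lit 78) (nat_lit 0) (nat_lit 0) (XT.lf (nat_lit 0) (nat_lit 296742467447) (nat_lit 152) (nat_lit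 51226242463) (nat_lit 0) (nat_lit 286116377832) (nat_lit 2) (nat_lit 5) (nat_lit 4) (nat_lit 4) (nat_lit 2) (nat_lit 4) (nat_lit 433) (nat_lit 288) (nat_lit 179)) (XT.lf (nat_lit 0) (nat_lit 317615072084) (nat_lit 152) (nat_lit 40858561383) (nat_lit 0) (nat_lit 306986489857) (nat_lit 2) (nat_lit 5) (nat_lit 4) (nat_lit 4) (nat_lit 2) (nat_lit 4) (nat_lit 434) (nat_lit 288) (nat_lit 178))))) (XT.nd (nat_lit 38142) (nat_lit 0) (nat_lit 5244) (XT.nd (nat_lit 78) (nat_lit 0) (nat_lit 0) (XT.lf (nat_lit 0) (nat_lit 339528341433) (nat_lit 152) (nat_lit 29978332577) (nat_lit 0) (nat_lit 328897385290) (nat_lit 2) (nat_lit 5) (nat_lit 4) (nat_lit 4) (nat_lit 2) (nat_lit 4) (nat_lit 435) (nat_lit 288) (nat_lit 177)) (XT.nd (nat_lit 37986) (nat_lit 0) (nat_lit 5852) (XT.lf (nat_lit 0) (nat_lit 362534449944) (nat_lit 152) (nat_lit 18559650740) (nat_lit 0) (nat_lit 351901232928) (nat_lit 2) (nat_lit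 5) (nat_lit 4) (nat_lit 4) (nat_lit 2) (nat_lit 4) (nat_lit 436) (nat_lit 288) (nat_lit 176)) (XT.lf (nat_lit 0) (nat_lit 370849854) (nat_lit 380) (nat_lit 3221627455) (nat_lit 0) (nat_lit 370849854) (nat_lit 79) (nat_lit 5) (nat_lit 84) (nat_lit 4) (nat_lit 79) (nat_lit 4) (nat_lit 322) (nat_lit 289) (nat_lit 289)))) (XT.nd (nat_lit 78) (nat_lit 608) (nat_lit 0) (XT.lf (nat_lit 0) (nat_lit 4440947425) (nat_lit 380) (nat_lit 412226153) (nat_lit 0) (nat_lit 3217189055) (nat_lit 79) (nat_lit 5) (nat_lit 84) (nat_lit 4) (nat_lit 79) (nat_lit 4) (nat_lit 323) (nat_lit 289) (nat_lit 288)) (XT.nd (nat_lit 78) (nat_lit 228) (nat_lit 0) (XT.lf (nat_lit 0) (nat_lit 35851971) (nat_lit 380) (nat_lit 2315745991) (nat_lit 76) (nat_lit 5872971488) (nat_lit 74) (nat_lit 5) (nat_lit 79) (nat_lit 5) (nat_lit 75) (nat_lit 4) (nat_lit 324) (nat_lit 289) (nat_lit 287)) (XT.lf (nat_lit 0) (nat_lit 3684205528)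 (nat_lit 304) (nat_lit 4351758927) (nat_lit 0) (nat_lit 351607957) (nat_lit 71) (nat_lit 5) (nat_lit 75) (nat_lit 4) (nat_lit 71) (nat_lit 4) (nat_lit 325) (nat_lit 289) (nat_lit 286))))))))
noncomputable def xc71 : XT := (XT.nd (nat_lit 1872) (nat_lit 1216) (nat_lit 0) (XT.nd (nat_lit 936) (nat_lit 1064) (nat_lit 0) (XT.nd (nat_lit 468) (nat_lit 1140) (nat_lit 0) (XT.nd (nat_lit 234) (nat_lit 532) (nat_lit 0) (XT.nd (nat_lit 78) (nat_lit 304) (nat_lit 0) (XT.lf (nat_lit 0) (nat_lit 2049288538) (nat_lit 304) (nat_lit 5425488455) (nat_lit 304) (nat_lit 1086101845) (nat_lit 67) (nat_lit 4) (nat_lit 71) (nat_lit 5) (nat_lit 71) (nat_lit 4) (nat_lit 326) (nat_lit 289) (nat_lit 285)) (XT.nd (nat_lit 78) (nat_lit 228) (nat_lit 0) (XT.lf (nat_lit 0) (nat_lit 2551001900) (nat_lit 380) (nat_lit 68679419) (nat_lit 76) (nat_lit 6124893290) (nat_lit 66) (nat_lit 5) (nat_lit 71) (nat_lit 5) (nat_lit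 67) (nat_lit 4) (nat_lit 327) (nat_lit 289) (nat_lit 284)) (XT.lf (nat_lit 0) (nat_lit 6302199383) (nat_lit 304) (nat_lit 2249491749) (nat_lit 0) (nat_lit 386560666) (nat_lit 63) (nat_lit 5) (nat_lit 67) (nat_lit 4) (nat_lit 63) (nat_lit 4) (nat_lit 328) (nat_lit 289) (nat_lit 283)))) (XT.nd (nat_lit 78) (nat_lit 228) (nat_lit 0) (XT.lf (nat_lit 0) (nat_lit 1039592263) (nat_lit 304) (nat_lit 4612762410) (nat_lit 76) (nat_lit 3489740571) (nat_lit 59) (nat_lit 5) (nat_lit 63) (nat_lit 5) (nat_lit 60) (nat_lit 4) (nat_lit 329) (nat_lit 289) (nat_lit 282)) (XT.nd (nat_lit 78) (nat_lit 0) (nat_lit 0) (XT.lf (nat_lit 0) (nat_lit 2195436689) (nat_lit 228) (nat_lit 2550031016) (nat_lit 304) (nat_lit 4611857553) (nat_lit 56) (nat_lit 5) (nat_lit 59) (nat_lit 5) (nat_lit 60) (nat_lit 4) (nat_lit 330) (nat_lit 289) (nat_lit 281)) (XT.lf (nat_lit 0) (nat_lit 8591585743) (nat_lit 304) (nat_lit 292074554)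 (nat_lit 0) (nat_lit 702010895) (nat_lit 56) (nat_lit 5) (nat_lit 60) (nat_lit 4) (nat_lit 56) (nat_lit 4) (nat_lit 331) (nat_lit 289) (nat_lit 280))))) (XT.nd (nat_lit 234) (nat_lit 380) (nat_lit 0) (XT.nd (nat_lit 78) (nat_lit 456) (nat_lit 0) (XT.lf (nat_lit 0) (nat_lit 2735631631) (nat_lit 304) (nat_lit 2962964455) (nat_lit 76) (nat_lit 4123700347) (nat_lit 52) (nat_lit 5) (nat_lit 56) (nat_lit 5) (nat_lit 53) (nat_lit 4) (nat_lit 332) (nat_lit 289) (nat_lit 279)) (XT.nd (nat_lit 78) (nat_lit 304) (nat_lit 0) (XT.lf (nat_lit 0) (nat_lit 4231015356) (nat_lit 152) (nat_lit 2330452862) (nat_lit 228) (nat_lit 3511405814) (nat_lit 50) (nat_lit 5) (nat_lit 52) (nat_lit 5) (nat_lit 53) (nat_lit 4) (nat_lit 333) (nat_lit 289) (nat_lit 278)) (XT.lf (nat_lit 0) (nat_lit 199572234) (nat_lit 304) (nat_lit 8960472755) (nat_lit 76) (nat_lit 1177589869) (nat_lit 46) (nat_lit 5) (nat_lit 50) (nat_lit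 5) (nat_lit 47) (nat_lit 4) (nat_lit 334) (nat_lit 289) (nat_lit 277)))) (XT.nd (nat_lit 78) (nat_lit 380) (nat_lit 0) (XT.lf (nat_lit 0) (nat_lit 3991700734) (nat_lit 304) (nat_lit 1747227138) (nat_lit 76) (nat_lit 4873223270) (nat_lit 46) (nat_lit 5) (nat_lit 50) (nat_lit 5) (nat_lit 47) (nat_lit 4) (nat_lit 335) (nat_lit 289) (nat_lit 276)) (XT.nd (nat_lit 78) (nat_lit 228) (nat_lit 0) (XT.lf (nat_lit 0) (nat_lit 5823448275) (nat_lit 152) (nat_lit 2121714477) (nat_lit 228) (nat_lit 2956716525) (nat_lit 44) (nat_lit 5) (nat_lit 46) (nat_lit 5) (nat_lit 47) (nat_lit 4) (nat_lit 336) (nat_lit 289) (nat_lit 275)) (XT.lf (nat_lit 0) (nat_lit 838883004) (nat_lit 228) (nat_lit 8730415790) (nat_lit 76) (nat_lit 1637307203) (nat_lit 41) (nat_lit 5) (nat_lit 44) (nat_lit 5) (nat_lit 42) (nat_lit 4) (nat_lit 337) (nat_lit 289) (nat_lit 274)))))) (XT.nd (nat_lit 468) (nat_lit 380) (nat_lit 0) (XT.nd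 (nat_lit 234) (nat_lit 304) (nat_lit 0) (XT.nd (nat_lit 78) (nat_lit 380) (nat_lit 0) (XT.lf (nat_lit 0) (nat_lit 4730280576) (nat_lit 228) (nat_lit 1214272428) (nat_lit 76) (nat_lit 5579385888) (nat_lit 41) (nat_lit 5) (nat_lit 44) (nat_lit 5) (nat_lit 42) (nat_lit 4) (nat_lit 338) (nat_lit 289) (nat_lit 273)) (XT.nd (nat_lit 78) (nat_lit 228) (nat_lit 0) (XT.lf (nat_lit 0) (nat_lit 6709377317) (nat_lit 152) (nat_lit 2100370804) (nat_lit 228) (nat_lit 3047774861) (nat_lit 39) (nat_lit 5) (nat_lit 41) (nat_lit 5) (nat_lit 42) (nat_lit 4) (nat_lit 339) (nat_lit 289) (nat_lit 272)) (XT.lf (nat_lit 0) (nat_lit 840730377) (nat_lit 228) (nat_lit 9485024606) (nat_lit 76) (nat_lit 1882210830) (nat_lit 36) (nat_lit 5) (nat_lit 39) (nat_lit 5) (nat_lit 37) (nat_lit 4) (nat_lit 340) (nat_lit 289) (nat_lit 271)))) (XT.nd (nat_lit 78) (nat_lit 304) (nat_lit 0) (XT.lf (nat_lit 0) (nat_lit 4834988350)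 (nat_lit 228) (nat_lit 1676243961) (nat_lit 76) (nat_lit 6061564110) (nat_lit 36) (nat_lit 5) (nat_lit 39) (nat_lit 5) (nat_lit 37) (nat_lit 4) (nat_lit 341) (nat_lit 289) (nat_lit 270)) (XT.nd (nat_lit 78) (nat_lit 228) (nat_lit 0) (XT.lf (nat_lit 0) (nat_lit 6556479437) (nat_lit 76) (nat_lit 2470754102) (nat_lit 152) (nat_lit 3928770302) (nat_lit 35) (nat_lit 5) (nat_lit 36) (nat_lit 5) (nat_lit 37) (nat_lit 4) (nat_lit 342) (nat_lit 289) (nat_lit 269)) (XT.lf (nat_lit 0) (nat_lit 49013442) (nat_lit 228) (nat_lit 11607636750) (nat_lit 76) (nat_lit 1702682797) (nat_lit 32) (nat_lit 5) (nat_lit 35) (nat_lit 5) (nat_lit 33) (nat_lit 4) (nat_lit 343) (nat_lit 289) (nat_lit 268))))) (XT.nd (nat_lit 234) (nat_lit 304) (nat_lit 0) (XT.nd (nat_lit 78) (nat_lit 76) (nat_lit 0) (XT.lf (nat_lit 0) (nat_lit 4141833047) (nat_lit 228) (nat_lit 3529529533) (nat_lit 76) (nat_lit 6105879080) (nat_lit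 32) (nat_lit 5) (nat_lit 35) (nat_lit 5) (nat_lit 33) (nat_lit 4) (nat_lit 344) (nat_lit 289) (nat_lit 267)) (XT.nd (nat_lit 78) (nat_lit 0) (nat_lit 0) (XT.lf (nat_lit 0) (nat_lit 4941018983) (nat_lit 76) (nat_lit 3477817045) (nat_lit 152) (nat_lit 5798272927) (nat_lit 31) (nat_lit 5) (nat_lit 32) (nat_lit 5) (nat_lit 33) (nat_lit 4) (nat_lit 345) (nat_lit 289) (nat_lit 266)) (XT.lf (nat_lit 0) (nat_lit 12888219688) (nat_lit 152) (nat_lit 904351591) (nat_lit 0) (nat_lit 887510198) (nat_lit 31) (nat_lit 5) (nat_lit 33) (nat_lit 4) (nat_lit 31) (nat_lit 4) (nat_lit 346) (nat_lit 289) (nat_lit 265)))) (XT.nd (nat_lit 78) (nat_lit 76) (nat_lit 0) (XT.lf (nat_lit 0) (nat_lit 2427594352) (nat_lit 228) (nat_lit 7280966544) (nat_lit 76) (nat_lit 5451290638) (nat_lit 28) (nat_lit 5) (nat_lit 31) (nat_lit 5) (nat_lit 29) (nat_lit 4) (nat_lit 347) (nat_lit 289) (nat_lit 264)) (XT.nd (nat_lit 78)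 (nat_lit 0) (nat_lit 0) (XT.lf (nat_lit 0) (nat_lit 1319547097) (nat_lit 76) (nat_lit 5422734736) (nat_lit 152) (nat_lit 8922668843) (nat_lit 27) (nat_lit 5) (nat_lit 28) (nat_lit 5) (nat_lit 29) (nat_lit 4) (nat_lit 348) (nat_lit 289) (nat_lit 263)) (XT.lf (nat_lit 0) (nat_lit 10442595582) (nat_lit 76) (nat_lit 863587111) (nat_lit 152) (nat_lit 4887479714) (nat_lit 27) (nat_lit 5) (nat_lit 28) (nat_lit 5) (nat_lit 29) (nat_lit 4) (nat_lit 349) (nat_lit 289) (nat_lit 262))))))) (XT.nd (nat_lit 936) (nat_lit 456) (nat_lit 0) (XT.nd (nat_lit 468) (nat_lit 304) (nat_lit 0) (XT.nd (nat_lit 234) (nat_lit 152) (nat_lit 0) (XT.nd (nat_lit 78) (nat_lit 152) (nat_lit 0) (XT.lf (nat_lit 0) (nat_lit 3156871417) (nat_lit 152) (nat_lit 12965354300) (nat_lit 152) (nat_lit 625416733) (nat_lit 25) (nat_lit 4) (nat_lit 27) (nat_lit 5) (nat_lit 27) (nat_lit 4) (nat_lit 350) (nat_lit 289) (nat_lit 261)) (XT.nd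 (nat_lit 78) (nat_lit 76) (nat_lit 0) (XT.lf (nat_lit 0) (nat_lit 3753396644) (nat_lit 228) (nat_lit 4846703927) (nat_lit 76) (nat_lit 8724899774) (nat_lit 24) (nat_lit 5) (nat_lit 27) (nat_lit 5) (nat_lit 25) (nat_lit 4) (nat_lit 351) (nat_lit 289) (nat_lit 260)) (XT.lf (nat_lit 0) (nat_lit 4313551827) (nat_lit 76) (nat_lit 4001748661) (nat_lit 152) (nat_lit 9616180599) (nat_lit 23) (nat_lit 5) (nat_lit 24) (nat_lit 5) (nat_lit 25) (nat_lit 4) (nat_lit 352) (nat_lit 289) (nat_lit 259)))) (XT.nd (nat_lit 78) (nat_lit 152) (nat_lit 0) (XT.lf (nat_lit 0) (nat_lit 13120050756) (nat_lit 152) (nat_lit 4627790822) (nat_lit 0) (nat_lit 819731473) (nat_lit 23) (nat_lit 5) (nat_lit 25) (nat_lit 4) (nat_lit 23) (nat_lit 4) (nat_lit 353) (nat_lit 289) (nat_lit 258)) (XT.nd (nat_lit 78) (nat_lit 76) (nat_lit 0) (XT.lf (nat_lit 0) (nat_lit 4756148949) (nat_lit 76) (nat_lit 13471053653) (nat_lit 76)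 (nat_lit 1005182377) (nat_lit 22) (nat_lit 4) (nat_lit 23) (nat_lit 5) (nat_lit 23) (nat_lit 4) (nat_lit 354) (nat_lit 289) (nat_lit 257)) (XT.lf (nat_lit 0) (nat_lit 3544361246) (nat_lit 152) (nat_lit 5357599285) (nat_lit 76) (nat_lit 11025531454) (nat_lit 21) (nat_lit 5) (nat_lit 23) (nat_lit 5) (nat_lit 22) (nat_lit 4) (nat_lit 355) (nat_lit 289) (nat_lit 256))))) (XT.nd (nat_lit 234) (nat_lit 152) (nat_lit 0) (XT.nd (nat_lit 78) (nat_lit 76) (nat_lit 0) (XT.lf (nat_lit 0) (nat_lit 4199062075) (nat_lit 76) (nat_lit 4080334243) (nat_lit 152) (nat_lit 12377564714) (nat_lit 20) (nat_lit 5) (nat_lit 21) (nat_lit 5) (nat_lit 22) (nat_lit 4) (nat_lit 356) (nat_lit 289) (nat_lit 255)) (XT.nd (nat_lit 78) (nat_lit 76) (nat_lit 0) (XT.lf (nat_lit 0) (nat_lit 13285446741) (nat_lit 152) (nat_lit 7151945224) (nat_lit 0) (nat_lit 983817775) (nat_lit 20) (nat_lit 5) (nat_lit 22) (nat_lit 4) (nat_lit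 20) (nat_lit 4) (nat_lit 357) (nat_lit 289) (nat_lit 254)) (XT.lf (nat_lit 0) (nat_lit 2502694871) (nat_lit 76) (nat_lit 16075264881) (nat_lit 76) (nat_lit 3643921596) (nat_lit 19) (nat_lit 4) (nat_lit 20) (nat_lit 5) (nat_lit 20) (nat_lit 4) (nat_lit 358) (nat_lit 289) (nat_lit 253)))) (XT.nd (nat_lit 78) (nat_lit 76) (nat_lit 0) (XT.lf (nat_lit 0) (nat_lit 1091677585) (nat_lit 152) (nat_lit 10316941681) (nat_lit 76) (nat_lit 11650472135) (nat_lit 18) (nat_lit 5) (nat_lit 20) (nat_lit 5) (nat_lit 19) (nat_lit 4) (nat_lit 359) (nat_lit 289) (nat_lit 252)) (XT.nd (nat_lit 78) (nat_lit 76) (nat_lit 0) (XT.lf (nat_lit 0) (nat_lit 5875297572) (nat_lit 152) (nat_lit 628175417) (nat_lit 76) (nat_lit 17435033071) (nat_lit 18) (nat_lit 5) (nat_lit 20) (nat_lit 5) (nat_lit 19) (nat_lit 4) (nat_lit 360) (nat_lit 289) (nat_lit 251)) (XT.lf (nat_lit 0) (nat_lit 9738774228) (nat_lit 76) (nat_lit 1248231515)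 (nat_lit 152) (nat_lit 13870455543) (nat_lit 17) (nat_lit 5) (nat_lit 18) (nat_lit 5) (nat_lit 19) (nat_lit 4) (nat_lit 361) (nat_lit 289) (nat_lit 250)))))) (XT.nd (nat_lit 468) (nat_lit 228) (nat_lit 0) (XT.nd (nat_lit 234) (nat_lit 76) (nat_lit 0) (XT.nd (nat_lit 78) (nat_lit 152) (nat_lit 0) (XT.lf (nat_lit 0) (nat_lit 16368983010) (nat_lit 152) (nat_lit 5361110765) (nat_lit 0) (nat_lit 4091550783) (nat_lit 17) (nat_lit 5) (nat_lit 19) (nat_lit 4) (nat_lit 17) (nat_lit 4) (nat_lit 362) (nat_lit 289) (nat_lit 249)) (XT.nd (nat_lit 78) (nat_lit 76) (nat_lit 0) (XT.lf (nat_lit 0) (nat_lit 4908290731) (nat_lit 76) (nat_lit 17149061225) (nat_lit 76) (nat_lit 4774834177) (nat_lit 16) (nat_lit 4) (nat_lit 17) (nat_lit 5) (nat_lit 17) (nat_lit 4) (nat_lit 363) (nat_lit 289) (nat_lit 248)) (XT.lf (nat_lit 0) (nat_lit 165124632) (nat_lit 152) (nat_lit 12127907096) (nat_lit 76) (nat_lit 15598497638)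 (nat_lit 15) (nat_lit 5) (nat_lit 17) (nat_lit 5) (nat_lit 16) (nat_lit 4) (nat_lit 364) (nat_lit 289) (nat_lit 247)))) (XT.nd (nat_lit 78) (nat_lit 76) (nat_lit 0) (XT.lf (nat_lit 0) (nat_lit 5134796419) (nat_lit 152) (nat_lit 2027875689) (nat_lit 76) (nat_lit 21840106719) (nat_lit 15) (nat_lit 5) (nat_lit 17) (nat_lit 5) (nat_lit 16) (nat_lit 4) (nat_lit 365) (nat_lit 289) (nat_lit 246)) (XT.nd (nat_lit 78) (nat_lit 0) (nat_lit 0) (XT.lf (nat_lit 0) (nat_lit 8755010054) (nat_lit 76) (nat_lit 1680518438) (nat_lit 152) (nat_lit 19729944771) (nat_lit 14) (nat_lit 5) (nat_lit 15) (nat_lit 5) (nat_lit 16) (nat_lit 4) (nat_lit 366) (nat_lit 289) (nat_lit 245)) (XT.lf (nat_lit 0) (nat_lit 16045984697) (nat_lit 152) (nat_lit 11403972966) (nat_lit 0) (nat_lit 3934121178) (nat_lit 14) (nat_lit 5) (nat_lit 16) (nat_lit 4) (nat_lit 14) (nat_lit 4) (nat_lit 367) (nat_lit 289) (nat_lit 244))))) (XT.nd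 (nat_lit 234) (nat_lit 152) (nat_lit 0) (XT.nd (nat_lit 78) (nat_lit 76) (nat_lit 0) (XT.lf (nat_lit 0) (nat_lit 21913225291) (nat_lit 152) (nat_lit 1022454624) (nat_lit 0) (nat_lit 9729131986) (nat_lit 14) (nat_lit 5) (nat_lit 16) (nat_lit 4) (nat_lit 14) (nat_lit 4) (nat_lit 368) (nat_lit 289) (nat_lit 243)) (XT.nd (nat_lit 78) (nat_lit 0) (nat_lit 0) (XT.lf (nat_lit 0) (nat_lit 10108585174) (nat_lit 76) (nat_lit 18074220462) (nat_lit 76) (nat_lit 5821336885) (nat_lit 13) (nat_lit 4) (nat_lit 14) (nat_lit 5) (nat_lit 14) (nat_lit 4) (nat_lit 369) (nat_lit 289) (nat_lit 242)) (XT.lf (nat_lit 0) (nat_lit 21740083452) (nat_lit 76) (nat_lit 12995147682) (nat_lit 76) (nat_lit 676749559) (nat_lit 13) (nat_lit 4) (nat_lit 14) (nat_lit 5) (nat_lit 14) (nat_lit 4) (nat_lit 370) (nat_lit 289) (nat_lit 241)))) (XT.nd (nat_lit 78) (nat_lit 76) (nat_lit 0) (XT.lf (nat_lit 0) (nat_lit 4527411935) (nat_lit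 152) (nat_lit 3099598459) (nat_lit 76) (nat_lit 29261841439) (nat_lit 12) (nat_lit 5) (nat_lit 14) (nat_lit 5) (nat_lit 13) (nat_lit 4) (nat_lit 371) (nat_lit 289) (nat_lit 240)) (XT.nd (nat_lit 78) (nat_lit 0) (nat_lit 0) (XT.lf (nat_lit 0) (nat_lit 8167072827) (nat_lit 76) (nat_lit 1885263454) (nat_lit 152) (nat_lit 28382518692) (nat_lit 11) (nat_lit 5) (nat_lit 12) (nat_lit 5) (nat_lit 13) (nat_lit 4) (nat_lit 372) (nat_lit 289) (nat_lit 239)) (XT.lf (nat_lit 0) (nat_lit 15927526112) (nat_lit 152) (nat_lit 20101137023) (nat_lit 0) (nat_lit 4025801846) (nat_lit 11) (nat_lit 5) (nat_lit 13) (nat_lit 4) (nat_lit 11) (nat_lit 4) (nat_lit 373) (nat_lit 289) (nat_lit 238))))))))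
noncomputable def xc72 : XT := (XT.nd (nat_lit 1794) (nat_lit 228) (nat_lit 0) (XT.nd (nat_lit 858) (nat_lit 152) (nat_lit 0) (XT.nd (nat_lit 390) (nat_lit 152) (nat_lit 0) (XT.nd (nat_lit 156) (nat_lit 76) (nat_lit 0) (XT.nd (nat_lit 78) (nat_lit 76) (nat_lit 0) (XT.lf (nat_lit 0) (nat_lit 22085450696) (nat_lit 152) (nat_lit 9537769269) (nat_lit 0) (nat_lit 10132394070) (nat_lit 11) (nat_lit 5) (nat_lit 13) (nat_lit 4) (nat_lit 11) (nat_lit 4) (nat_lit 374) (nat_lit 289) (nat_lit 237)) (XT.lf (nat_lit 0) (nat_lit 1525739426) (nat_lit 76) (nat_lit 27009419154) (nat_lit 76) (nat_lit 15007474566) (nat_lit 10) (nat_lit 4) (nat_lit 11) (nat_lit 5) (nat_lit 11) (nat_lit 4) (nat_lit 375) (nat_lit 289) (nat_lit 236))) (XT.nd (nat_lit 78) (nat_lit 76) (nat_lit 0) (XT.lf (nat_lit 0) (nat_lit 13397932419) (nat_lit 76) (nat_lit 22031733145) (nat_lit 76) (nat_lit 9983228592) (nat_lit 10) (nat_lit 4)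 (nat_lit 11) (nat_lit 5) (nat_lit 11) (nat_lit 4) (nat_lit 376) (nat_lit 289) (nat_lit 235)) (XT.nd (nat_lit 78) (nat_lit 76) (nat_lit 0) (XT.lf (nat_lit 0) (nat_lit 25791715112) (nat_lit 76) (nat_lit 16839837040) (nat_lit 76) (nat_lit 4746989664) (nat_lit 10) (nat_lit 4) (nat_lit 11) (nat_lit 5) (nat_lit 11) (nat_lit 4) (nat_lit 377) (nat_lit 289) (nat_lit 234)) (XT.lf (nat_lit 0) (nat_lit 690866291) (nat_lit 152) (nat_lit 10718802737) (nat_lit 76) (nat_lit 38034030062) (nat_lit 9) (nat_lit 5) (nat_lit 11) (nat_lit 5) (nat_lit 10) (nat_lit 4) (nat_lit 378) (nat_lit 289) (nat_lit 233))))) (XT.nd (nat_lit 234) (nat_lit 76) (nat_lit 0) (XT.nd (nat_lit 78) (nat_lit 0) (nat_lit 0) (XT.lf (nat_lit 0) (nat_lit 566465114) (nat_lit 76) (nat_lit 5649029518) (nat_lit 152) (nat_lit 45394013596) (nat_lit 8) (nat_lit 5) (nat_lit 9) (nat_lit 5) (nat_lit 10) (nat_lit 4) (nat_lit 379) (nat_lit 289) (nat_lit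 232)) (XT.nd (nat_lit 78) (nat_lit 0) (nat_lit 0) (XT.lf (nat_lit 0) (nat_lit 12172789028) (nat_lit 152) (nat_lit 41162216925) (nat_lit 0) (nat_lit 540785331) (nat_lit 8) (nat_lit 5) (nat_lit 10) (nat_lit 4) (nat_lit 8) (nat_lit 4) (nat_lit 380) (nat_lit 289) (nat_lit 231)) (XT.lf (nat_lit 0) (nat_lit 18487880064) (nat_lit 152) (nat_lit 30943384174) (nat_lit 0) (nat_lit 6821132605) (nat_lit 8) (nat_lit 5) (nat_lit 10) (nat_lit 4) (nat_lit 8) (nat_lit 4) (nat_lit 381) (nat_lit 289) (nat_lit 230)))) (XT.nd (nat_lit 78) (nat_lit 76) (nat_lit 0) (XT.lf (nat_lit 0) (nat_lit 25087606490) (nat_lit 152) (nat_lit 20274017125) (nat_lit 0) (nat_lit 13387769734) (nat_lit 8) (nat_lit 5) (nat_lit 10) (nat_lit 4) (nat_lit 8) (nat_lit 4) (nat_lit 382) (nat_lit 289) (nat_lit 229)) (XT.nd (nat_lit 78) (nat_lit 76) (nat_lit 0) (XT.lf (nat_lit 0) (nat_lit 31987681941) (nat_lit 152) (nat_lit 9128712522) (nat_lit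 0) (nat_lit 20256331568) (nat_lit 8) (nat_lit 5) (nat_lit 10) (nat_lit 4) (nat_lit 8) (nat_lit 4) (nat_lit 383) (nat_lit 289) (nat_lit 228)) (XT.lf (nat_lit 0) (nat_lit 2602357773) (nat_lit 76) (nat_lit 36642807491) (nat_lit 76) (nat_lit 24881444151) (nat_lit 7) (nat_lit 4) (nat_lit 8) (nat_lit 5) (nat_lit 8) (nat_lit 4) (nat_lit 384) (nat_lit 289) (nat_lit 227)))))) (XT.nd (nat_lit 468) (nat_lit 0) (nat_lit 0) (XT.nd (nat_lit 234) (nat_lit 152) (nat_lit 0) (XT.nd (nat_lit 78) (nat_lit 0) (nat_lit 0) (XT.lf (nat_lit 0) (nat_lit 15183002361) (nat_lit 76) (nat_lit 31809396008) (nat_lit 76) (nat_lit 20019448888) (nat_lit 7) (nat_lit 4) (nat_lit 8) (nat_lit 5) (nat_lit 8) (nat_lit 4) (nat_lit 385) (nat_lit 289) (nat_lit 226)) (XT.nd (nat_lit 78) (nat_lit 0) (nat_lit 0) (XT.lf (nat_lit 0) (nat_lit 28341338695) (nat_lit 76) (nat_lit 26759251053) (nat_lit 76) (nat_lit 14942081287) (nat_lit 7)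 (nat_lit 4) (nat_lit 8) (nat_lit 5) (nat_lit 8) (nat_lit 4) (nat_lit 386) (nat_lit 289) (nat_lit 225)) (XT.lf (nat_lit 0) (nat_lit 42108696148) (nat_lit 76) (nat_lit 21480348473) (nat_lit 76) (nat_lit 9637252376) (nat_lit 7) (nat_lit 4) (nat_lit 8) (nat_lit 5) (nat_lit 8) (nat_lit 4) (nat_lit 387) (nat_lit 289) (nat_lit 224)))) (XT.nd (nat_lit 78) (nat_lit 152) (nat_lit 0) (XT.lf (nat_lit 0) (nat_lit 56517854140) (nat_lit 76) (nat_lit 15960119452) (nat_lit 76) (nat_lit 4092331612) (nat_lit 7) (nat_lit 4) (nat_lit 8) (nat_lit 5) (nat_lit 8) (nat_lit 4) (nat_lit 388) (nat_lit 289) (nat_lit 223)) (XT.nd (nat_lit 78) (nat_lit 76) (nat_lit 0) (XT.lf (nat_lit 0) (nat_lit 1651284282) (nat_lit 152) (nat_lit 8506171007) (nat_lit 76) (nat_lit 69923870612) (nat_lit 6) (nat_lit 5) (nat_lit 8) (nat_lit 5) (nat_lit 7) (nat_lit 4) (nat_lit 389) (nat_lit 289) (nat_lit 222)) (XT.lf (nat_lit 0) (nat_lit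 3623333874) (nat_lit 76) (nat_lit 3955707002) (nat_lit 152) (nat_lit 76183780967) (nat_lit 5) (nat_lit 5) (nat_lit 6) (nat_lit 5) (nat_lit 7) (nat_lit 4) (nat_lit 390) (nat_lit 289) (nat_lit 221))))) (XT.nd (nat_lit 234) (nat_lit 0) (nat_lit 0) (XT.nd (nat_lit 78) (nat_lit 0) (nat_lit 0) (XT.lf (nat_lit 0) (nat_lit 13967499995) (nat_lit 152) (nat_lit 71051874590) (nat_lit 0) (nat_lit 2600805156) (nat_lit 5) (nat_lit 5) (nat_lit 7) (nat_lit 4) (nat_lit 5) (nat_lit 4) (nat_lit 391) (nat_lit 289) (nat_lit 220)) (XT.nd (nat_lit 78) (nat_lit 0) (nat_lit 0) (XT.lf (nat_lit 0) (nat_lit 20719266544) (nat_lit 152) (nat_lit 61615722440) (nat_lit 0) (nat_lit 9333225079) (nat_lit 5) (nat_lit 5) (nat_lit 7) (nat_lit 4) (nat_lit 5) (nat_lit 4) (nat_lit 392) (nat_lit 289) (nat_lit 219)) (XT.lf (nat_lit 0) (nat_lit 27788656489) (nat_lit 152) (nat_lit 51746804818) (nat_lit 0) (nat_lit 16384189665) (nat_lit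 5) (nat_lit 5) (nat_lit 7) (nat_lit 4) (nat_lit 5) (nat_lit 4) (nat_lit 393) (nat_lit 289) (nat_lit 218)))) (XT.nd (nat_lit 78) (nat_lit 0) (nat_lit 0) (XT.lf (nat_lit 0) (nat_lit 35192501710) (nat_lit 152) (nat_lit 41421624300) (nat_lit 0) (nat_lit 23770486925) (nat_lit 5) (nat_lit 5) (nat_lit 7) (nat_lit 4) (nat_lit 5) (nat_lit 4) (nat_lit 394) (nat_lit 289) (nat_lit 217)) (XT.nd (nat_lit 78) (nat_lit 0) (nat_lit 0) (XT.lf (nat_lit 0) (nat_lit 42948430409) (nat_lit 152) (nat_lit 30615597125) (nat_lit 0) (nat_lit 31509703281) (nat_lit 5) (nat_lit 5) (nat_lit 7) (nat_lit 4) (nat_lit 5) (nat_lit 4) (nat_lit 395) (nat_lit 289) (nat_lit 216)) (XT.lf (nat_lit 0) (nat_lit 51074909085) (nat_lit 152) (nat_lit 19302994655) (nat_lit 0) (nat_lit 39620265438) (nat_lit 5) (nat_lit 5) (nat_lit 7) (nat_lit 4) (nat_lit 5) (nat_lit 4) (nat_lit 396) (nat_lit 289) (nat_lit 215))))))) (XT.nd (nat_lit 936)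 (nat_lit 152) (nat_lit 0) (XT.nd (nat_lit 468) (nat_lit 0) (nat_lit 0) (XT.nd (nat_lit 234) (nat_lit 0) (nat_lit 0) (XT.nd (nat_lit 78) (nat_lit 76) (nat_lit 0) (XT.lf (nat_lit 0) (nat_lit 59591286494) (nat_lit 152) (nat_lit 7456882123) (nat_lit 0) (nat_lit 48121484259) (nat_lit 5) (nat_lit 5) (nat_lit 7) (nat_lit 4) (nat_lit 5) (nat_lit 4) (nat_lit 397) (nat_lit 289) (nat_lit 214)) (XT.nd (nat_lit 78) (nat_lit 0) (nat_lit 0) (XT.lf (nat_lit 0) (nat_lit 5114646117) (nat_lit 76) (nat_lit 63483047569) (nat_lit 76) (nat_lit 51998808584) (nat_lit 4) (nat_lit 4) (nat_lit 5) (nat_lit 5) (nat_lit 5) (nat_lit 4) (nat_lit 398) (nat_lit 289) (nat_lit 213)) (XT.lf (nat_lit 0) (nat_lit 18543539740) (nat_lit 76) (nat_lit 59621799364) (nat_lit 76) (nat_lit 48123811092) (nat_lit 4) (nat_lit 4) (nat_lit 5) (nat_lit 5) (nat_lit 5) (nat_lit 4) (nat_lit 399) (nat_lit 289) (nat_lit 212)))) (XT.nd (nat_lit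 78) (nat_lit 0) (nat_lit 0) (XT.lf (nat_lit 0) (nat_lit 32615214103) (nat_lit 76) (nat_lit 55581516462) (nat_lit 76) (nat_lit 44070433631) (nat_lit 4) (nat_lit 4) (nat_lit 5) (nat_lit 5) (nat_lit 5) (nat_lit 4) (nat_lit 400) (nat_lit 289) (nat_lit 211)) (XT.nd (nat_lit 78) (nat_lit 0) (nat_lit 0) (XT.lf (nat_lit 0) (nat_lit 47363173192) (nat_lit 76) (nat_lit 51352579140) (nat_lit 76) (nat_lit 39829025301) (nat_lit 4) (nat_lit 4) (nat_lit 5) (nat_lit 5) (nat_lit 5) (nat_lit 4) (nat_lit 401) (nat_lit 289) (nat_lit 210)) (XT.lf (nat_lit 0) (nat_lit 62822531195) (nat_lit 76) (nat_lit 46924918501) (nat_lit 76) (nat_lit 35389487512) (nat_lit 4) (nat_lit 4) (nat_lit 5) (nat_lit 5) (nat_lit 5) (nat_lit 4) (nat_lit 402) (nat_lit 289) (nat_lit 209))))) (XT.nd (nat_lit 234) (nat_lit 0) (nat_lit 0) (XT.nd (nat_lit 78) (nat_lit 0) (nat_lit 0) (XT.lf (nat_lit 0) (nat_lit 79030096107) (nat_lit 76) (nat_lit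 42287992496) (nat_lit 76) (nat_lit 30741249935) (nat_lit 4) (nat_lit 4) (nat_lit 5) (nat_lit 5) (nat_lit 5) (nat_lit 4) (nat_lit 403) (nat_lit 289) (nat_lit 208)) (XT.nd (nat_lit 78) (nat_lit 0) (nat_lit 0) (XT.lf (nat_lit 0) (nat_lit 96024457369) (nat_lit 76) (nat_lit 37430760825) (nat_lit 76) (nat_lit 25873245338) (nat_lit 4) (nat_lit 4) (nat_lit 5) (nat_lit 5) (nat_lit 5) (nat_lit 4) (nat_lit 404) (nat_lit 289) (nat_lit 207)) (XT.lf (nat_lit 0) (nat_lit 113846077746) (nat_lit 76) (nat_lit 32341658650) (nat_lit 76) (nat_lit 20773883233) (nat_lit 4) (nat_lit 4) (nat_lit 5) (nat_lit 5) (nat_lit 5) (nat_lit 4) (nat_lit 405) (nat_lit 289) (nat_lit 206)))) (XT.nd (nat_lit 78) (nat_lit 0) (nat_lit 0) (XT.lf (nat_lit 0) (nat_lit 132537389667) (nat_lit 76) (nat_lit 27008569061) (nat_lit 76) (nat_lit 15431022283) (nat_lit 4) (nat_lit 4) (nat_lit 5) (nat_lit 5) (nat_lit 5) (nat_lit 4) (nat_lit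 406) (nat_lit 289) (nat_lit 205)) (XT.nd (nat_lit 78) (nat_lit 0) (nat_lit 0) (XT.lf (nat_lit 0) (nat_lit 152142896255) (nat_lit 76) (nat_lit 21418794226) (nat_lit 76) (nat_lit 9831941390) (nat_lit 4) (nat_lit 4) (nat_lit 5) (nat_lit 5) (nat_lit 5) (nat_lit 4) (nat_lit 407) (nat_lit 289) (nat_lit 204)) (XT.lf (nat_lit 0) (nat_lit 172709277289) (nat_lit 76) (nat_lit 15559025158) (nat_lit 76) (nat_lit 3963309409) (nat_lit 4) (nat_lit 4) (nat_lit 5) (nat_lit 5) (nat_lit 5) (nat_lit 4) (nat_lit 408) (nat_lit 289) (nat_lit 203)))))) (XT.nd (nat_lit 468) (nat_lit 0) (nat_lit 0) (XT.nd (nat_lit 234) (nat_lit 0) (nat_lit 0) (XT.nd (nat_lit 78) (nat_lit 76) (nat_lit 0) (XT.lf (nat_lit 0) (nat_lit 2118789832) (nat_lit 152) (nat_lit 7260637461) (nat_lit 76) (nat_lit 192130827779) (nat_lit 3) (nat_lit 5) (nat_lit 5) (nat_lit 5) (nat_lit 4) (nat_lit 4) (nat_lit 409) (nat_lit 289) (nat_lit 202)) (XT.nd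 (nat_lit 78) (nat_lit 0) (nat_lit 0) (XT.lf (nat_lit 0) (nat_lit 5714160777) (nat_lit 76) (nat_lit 2737720353) (nat_lit 152) (nat_lit 202793697780) (nat_lit 2) (nat_lit 5) (nat_lit 3) (nat_lit 5) (nat_lit 4) (nat_lit 4) (nat_lit 410) (nat_lit 289) (nat_lit 201)) (XT.lf (nat_lit 0) (nat_lit 15283633466) (nat_lit 152) (nat_lit 201957828110) (nat_lit 0) (nat_lit 4217108078) (nat_lit 2) (nat_lit 5) (nat_lit 4) (nat_lit 4) (nat_lit 2) (nat_lit 4) (nat_lit 411) (nat_lit 289) (nat_lit 200)))) (XT.nd (nat_lit 78) (nat_lit 0) (nat_lit 0) (XT.lf (nat_lit 0) (nat_lit 22493179160) (nat_lit 152) (nat_lit 198267512030) (nat_lit 0) (nat_lit 11419709448) (nat_lit 2) (nat_lit 5) (nat_lit 4) (nat_lit 4) (nat_lit 2) (nat_lit 4) (nat_lit 412) (nat_lit 289) (nat_lit 199)) (XT.nd (nat_lit 78) (nat_lit 0) (nat_lit 0) (XT.lf (nat_lit 0) (nat_lit 30054940309) (nat_lit 152) (nat_lit 194408939940) (nat_lit 0) (nat_lit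 18974856954) (nat_lit 2) (nat_lit 5) (nat_lit 4) (nat_lit 4) (nat_lit 2) (nat_lit 4) (nat_lit 413) (nat_lit 289) (nat_lit 198)) (XT.lf (nat_lit 0) (nat_lit 37986921106) (nat_lit 152) (nat_lit 190372924764) (nat_lit 0) (nat_lit 26900539045) (nat_lit 2) (nat_lit 5) (nat_lit 4) (nat_lit 4) (nat_lit 2) (nat_lit 4) (nat_lit 414) (nat_lit 289) (nat_lit 197))))) (XT.nd (nat_lit 234) (nat_lit 0) (nat_lit 0) (XT.nd (nat_lit 78) (nat_lit 0) (nat_lit 0) (XT.lf (nat_lit 0) (nat_lit 46308007219) (nat_lit 152) (nat_lit 186149856941) (nat_lit 0) (nat_lit 35215626390) (nat_lit 2) (nat_lit 5) (nat_lit 4) (nat_lit 4) (nat_lit 2) (nat_lit 4) (nat_lit 415) (nat_lit 289) (nat_lit 196)) (XT.nd (nat_lit 78) (nat_lit 0) (nat_lit 0) (XT.lf (nat_lit 0) (nat_lit 55038010760) (nat_lit 152) (nat_lit 181729681549) (nat_lit 0) (nat_lit 43939916818) (nat_lit 2) (nat_lit 5) (nat_lit 4) (nat_lit 4) (nat_lit 2) (nat_lit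 4) (nat_lit 416) (nat_lit 289) (nat_lit 195)) (XT.lf (nat_lit 0) (nat_lit 64197717449) (nat_lit 152) (nat_lit 177101874360) (nat_lit 0) (nat_lit 53094182448) (nat_lit 2) (nat_lit 5) (nat_lit 4) (nat_lit 4) (nat_lit 2) (nat_lit 4) (nat_lit 417) (nat_lit 289) (nat_lit 194)))) (XT.nd (nat_lit 78) (nat_lit 0) (nat_lit 0) (XT.lf (nat_lit 0) (nat_lit 73808936114) (nat_lit 152) (nat_lit 172255416785) (nat_lit 0) (nat_lit 62700219151) (nat_lit 2) (nat_lit 5) (nat_lit 4) (nat_lit 4) (nat_lit 2) (nat_lit 4) (nat_lit 418) (nat_lit 289) (nat_lit 193)) (XT.nd (nat_lit 78) (nat_lit 0) (nat_lit 0) (XT.lf (nat_lit 0) (nat_lit 83894550607) (nat_lit 152) (nat_lit 167178769641) (nat_lit 0) (nat_lit 72780898443) (nat_lit 2) (nat_lit 5) (nat_lit 4) (nat_lit 4) (nat_lit 2) (nat_lit 4) (nat_lit 419) (nat_lit 289) (nat_lit 192)) (XT.lf (nat_lit 0) (nat_lit 94478574297) (nat_lit 152) (nat_lit 161859845671) (nat_lit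 0) (nat_lit 83360221941) (nat_lit 2) (nat_lit 5) (nat_lit 4) (nat_lit 4) (nat_lit 2) (nat_lit 4) (nat_lit 420) (nat_lit 289) (nat_lit 191))))))))
noncomputable def xc73 : XT := (XT.nd (nat_lit 39546) (nat_lit 0) (nat_lit 1900) (XT.nd (nat_lit 858) (nat_lit 0) (nat_lit 0) (XT.nd (nat_lit 390) (nat_lit 0) (nat_lit 0) (XT.nd (nat_lit 156) (nat_lit 0) (nat_lit 0) (XT.nd (nat_lit 78) (nat_lit 0) (nat_lit 0) (XT.lf (nat_lit 0) (nat_lit 105586207240) (nat_lit 152) (nat_lit 156285980771) (nat_lit 0) (nat_lit 94463378511) (nat_lit 2) (nat_lit 5) (nat_lit 4) (nat_lit 4) (nat_lit 2) (nat_lit 4) (nat_lit 421) (nat_lit 289) (nat_lit 190)) (XT.lf (nat_lit 0) (nat_lit 117243896180) (nat_lit 152) (nat_lit 150443903835) (nat_lit 0) (nat_lit 106116804239) (nat_lit 2) (nat_lit 5) (nat_lit 4) (nat_lit 4) (nat_lit 2) (nat_lit 4) (nat_lit 422) (nat_lit 289) (nat_lit 189))) (XT.nd (nat_lit 78) (nat_lit 0) (nat_lit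 0) (XT.lf (nat_lit 0) (nat_lit 129479397521) (nat_lit 152) (nat_lit 144319705154) (nat_lit 0) (nat_lit 118348245378) (nat_lit 2) (nat_lit 5) (nat_lit 4) (nat_lit 4) (nat_lit 2) (nat_lit 4) (nat_lit 423) (nat_lit 289) (nat_lit 188)) (XT.nd (nat_lit 78) (nat_lit 0) (nat_lit 0) (XT.lf (nat_lit 0) (nat_lit 142321843409) (nat_lit 152) (nat_lit 137898803305) (nat_lit 0) (nat_lit 131186824406) (nat_lit 2) (nat_lit 5) (nat_lit 4) (nat_lit 4) (nat_lit 2) (nat_lit 4) (nat_lit 424) (nat_lit 289) (nat_lit 187)) (XT.lf (nat_lit 0) (nat_lit 155801811095) (nat_lit 152) (nat_lit 131165910424) (nat_lit 0) (nat_lit 144663109368) (nat_lit 2) (nat_lit 5) (nat_lit 4) (nat_lit 4) (nat_lit 2) (nat_lit 4) (nat_lit 425) (nat_lit 289) (nat_lit 186))))) (XT.nd (nat_lit 234) (nat_lit 0) (nat_lit 0) (XT.nd (nat_lit 78) (nat_lit 0) (nat_lit 0) (XT.lf (nat_lit 0) (nat_lit 169951395741) (nat_lit 152) (nat_lit 124104995816)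 (nat_lit 0) (nat_lit 158809186659) (nat_lit 2) (nat_lit 5) (nat_lit 4) (nat_lit 4) (nat_lit 2) (nat_lit 4) (nat_lit 426) (nat_lit 289) (nat_lit 185)) (XT.nd (nat_lit 78) (nat_lit 0) (nat_lit 0) (XT.lf (nat_lit 0) (nat_lit 184804286833) (nat_lit 152) (nat_lit 116699247778) (nat_lit 0) (nat_lit 173658737413) (nat_lit 2) (nat_lit 5) (nat_lit 4) (nat_lit 4) (nat_lit 2) (nat_lit 4) (nat_lit 427) (nat_lit 289) (nat_lit 184)) (XT.lf (nat_lit 0) (nat_lit 200395848399) (nat_lit 152) (nat_lit 108931033577) (nat_lit 0) (nat_lit 189247117704) (nat_lit 2) (nat_lit 5) (nat_lit 4) (nat_lit 4) (nat_lit 2) (nat_lit 4) (nat_lit 428) (nat_lit 289) (nat_lit 183)))) (XT.nd (nat_lit 78) (nat_lit 0) (nat_lit 0) (XT.lf (nat_lit 0) (nat_lit 216763203204) (nat_lit 152) (nat_lit 100781857465) (nat_lit 0) (nat_lit 205611442723) (nat_lit 2) (nat_lit 5) (nat_lit 4) (nat_lit 4) (nat_lit 2) (nat_lit 4) (nat_lit 429) (nat_lit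 289) (nat_lit 182)) (XT.nd (nat_lit 78) (nat_lit 0) (nat_lit 0) (XT.lf (nat_lit 0) (nat_lit 233945321140) (nat_lit 152) (nat_lit 92232316642) (nat_lit 0) (nat_lit 222790675149) (nat_lit 2) (nat_lit 5) (nat_lit 4) (nat_lit 4) (nat_lit 2) (nat_lit 4) (nat_lit 430) (nat_lit 289) (nat_lit 181)) (XT.lf (nat_lit 0) (nat_lit 251983112012) (nat_lit 152) (nat_lit 83262055057) (nat_lit 0) (nat_lit 240825717916) (nat_lit 2) (nat_lit 5) (nat_lit 4) (nat_lit 4) (nat_lit 2) (nat_lit 4) (nat_lit 431) (nat_lit 289) (nat_lit 180)))))) (XT.nd (nat_lit 38220) (nat_lit 0) (nat_lit 4940) (XT.nd (nat_lit 234) (nat_lit 0) (nat_lit 0) (XT.nd (nat_lit 78) (nat_lit 0) (nat_lit 0) (XT.lf (nat_lit 0) (nat_lit 270919522941) (nat_lit 152) (nat_lit 73849714947) (nat_lit 0) (nat_lit 259759511603) (nat_lit 2) (nat_lit 5) (nat_lit 4) (nat_lit 4) (nat_lit 2) (nat_lit 4) (nat_lit 432) (nat_lit 289) (nat_lit 179)) (XT.nd (nat_lit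 78) (nat_lit 0) (nat_lit 0) (XT.lf (nat_lit 0) (nat_lit 290799640620) (nat_lit 152) (nat_lit 63972885976) (nat_lit 0) (nat_lit 279637136669) (nat_lit 2) (nat_lit 5) (nat_lit 4) (nat_lit 4) (nat_lit 2) (nat_lit 4) (nat_lit 433) (nat_lit 289) (nat_lit 178)) (XT.lf (nat_lit 0) (nat_lit 311670798662) (nat_lit 152) (nat_lit 53608051885) (nat_lit 0) (nat_lit 300505920795) (nat_lit 2) (nat_lit 5) (nat_lit 4) (nat_lit 4) (nat_lit 2) (nat_lit 4) (nat_lit 434) (nat_lit 289) (nat_lit 177)))) (XT.nd (nat_lit 78) (nat_lit 0) (nat_lit 0) (XT.lf (nat_lit 0) (nat_lit 333582690301) (nat_lit 152) (nat_lit 42730534498) (nat_lit 0) (nat_lit 322415551562) (nat_lit 2) (nat_lit 5) (nat_lit 4) (nat_lit 4) (nat_lit 2) (nat_lit 4) (nat_lit 435) (nat_lit 289) (nat_lit 176)) (XT.nd (nat_lit 37830) (nat_lit 0) (nat_lit 6612) (XT.lf (nat_lit 0) (nat_lit 356587486707) (nat_lit 152) (nat_lit 31314434964) (nat_lit 0) (nat_lit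 345418194756) (nat_lit 2) (nat_lit 5) (nat_lit 4) (nat_lit 4) (nat_lit 2) (nat_lit 4) (nat_lit 436) (nat_lit 289) (nat_lit 175)) (XT.lf (nat_lit 0) (nat_lit 1276254129) (nat_lit 380) (nat_lit 1277741499) (nat_lit 0) (nat_lit 1276254129) (nat_lit 89) (nat_lit 5) (nat_lit 94) (nat_lit 4) (nat_lit 89) (nat_lit 4) (nat_lit 320) (nat_lit 290) (nat_lit 290))))) (XT.nd (nat_lit 234) (nat_lit 912) (nat_lit 0) (XT.nd (nat_lit 78) (nat_lit 380) (nat_lit 0) (XT.lf (nat_lit 0) (nat_lit 3275131627) (nat_lit 380) (nat_lit 2932290184) (nat_lit 380) (nat_lit 1583096581) (nat_lit 84) (nat_lit 4) (nat_lit 89) (nat_lit 5) (nat_lit 89) (nat_lit 4) (nat_lit 321) (nat_lit 290) (nat_lit 289)) (XT.nd (nat_lit 78) (nat_lit 0) (nat_lit 0) (XT.lf (nat_lit 0) (nat_lit 1375487959) (nat_lit 304) (nat_lit 580428065) (nat_lit 380) (nat_lit 5974359785) (nat_lit 79) (nat_lit 5) (nat_lit 83) (nat_lit 5) (nat_lit 84) (nat_lit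 4) (nat_lit 322) (nat_lit 290) (nat_lit 288)) (XT.lf (nat_lit 0) (nat_lit 5570109175) (nat_lit 380) (nat_lit 612288251) (nat_lit 0) (nat_lit 1895920354) (nat_lit 79) (nat_lit 5) (nat_lit 84) (nat_lit 4) (nat_lit 79) (nat_lit 4) (nat_lit 323) (nat_lit 290) (nat_lit 287)))) (XT.nd (nat_lit 78) (nat_lit 532) (nat_lit 0) (XT.lf (nat_lit 0) (nat_lit 1042734741) (nat_lit 380) (nat_lit 2646567517) (nat_lit 76) (nat_lit 4546342401) (nat_lit 74) (nat_lit 5) (nat_lit 79) (nat_lit 5) (nat_lit 75) (nat_lit 4) (nat_lit 324) (nat_lit 290) (nat_lit 286)) (XT.nd (nat_lit 78) (nat_lit 304) (nat_lit 0) (XT.lf (nat_lit 0) (nat_lit 3603022380) (nat_lit 228) (nat_lit 1003965234) (nat_lit 304) (nat_lit 3795934958) (nat_lit 71) (nat_lit 5) (nat_lit 74) (nat_lit 5) (nat_lit 75) (nat_lit 4) (nat_lit 325) (nat_lit 290) (nat_lit 285)) (XT.lf (nat_lit 0) (nat_lit 1503803673) (nat_lit 304) (nat_lit 6799595789) (nat_lit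 304) (nat_lit 277604104) (nat_lit 67) (nat_lit 4) (nat_lit 71) (nat_lit 5) (nat_lit 71) (nat_lit 4) (nat_lit 326) (nat_lit 290) (nat_lit 284))))))) (XT.nd (nat_lit 936) (nat_lit 1064) (nat_lit 0) (XT.nd (nat_lit 468) (nat_lit 836) (nat_lit 0) (XT.nd (nat_lit 234) (nat_lit 532) (nat_lit 0) (XT.nd (nat_lit 78) (nat_lit 532) (nat_lit 0) (XT.lf (nat_lit 0) (nat_lit 3264340393) (nat_lit 380) (nat_lit 743281216) (nat_lit 76) (nat_lit 4759971092) (nat_lit 66) (nat_lit 5) (nat_lit 71) (nat_lit 5) (nat_lit 67) (nat_lit 4) (nat_lit 327) (nat_lit 290) (nat_lit 283)) (XT.nd (nat_lit 78) (nat_lit 304) (nat_lit 0) (XT.lf (nat_lit 0) (nat_lit 5903584517) (nat_lit 228) (nat_lit 1027374393) (nat_lit 304) (nat_lit 2034597448) (nat_lit 63) (nat_lit 5) (nat_lit 66) (nat_lit 5) (nat_lit 67) (nat_lit 4) (nat_lit 328) (nat_lit 290) (nat_lit 282)) (XT.lf (nat_lit 0) (nat_lit 1525139570) (nat_lit 304) (nat_lit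 5571720152) (nat_lit 76) (nat_lit 2076955603) (nat_lit 59) (nat_lit 5) (nat_lit 63) (nat_lit 5) (nat_lit 60) (nat_lit 4) (nat_lit 329) (nat_lit 290) (nat_lit 281)))) (XT.nd (nat_lit 78) (nat_lit 304) (nat_lit 0) (XT.lf (nat_lit 0) (nat_lit 1107842251) (nat_lit 228) (nat_lit 4042099214) (nat_lit 304) (nat_lit 4243207238) (nat_lit 56) (nat_lit 5) (nat_lit 59) (nat_lit 5) (nat_lit 60) (nat_lit 4) (nat_lit 330) (nat_lit 290) (nat_lit 280)) (XT.nd (nat_lit 78) (nat_lit 304) (nat_lit 0) (XT.lf (nat_lit 0) (nat_lit 8125577549) (nat_lit 228) (nat_lit 796676829) (nat_lit 304) (nat_lit 702977836) (nat_lit 56) (nat_lit 5) (nat_lit 59) (nat_lit 5) (nat_lit 60) (nat_lit 4) (nat_lit 331) (nat_lit 290) (nat_lit 279)) (XT.lf (nat_lit 0) (nat_lit 2922726703) (nat_lit 304) (nat_lit 4338389666) (nat_lit 76) (nat_lit 2605291524) (nat_lit 52) (nat_lit 5) (nat_lit 56) (nat_lit 5) (nat_lit 53) (nat_lit 4) (nat_lit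 332) (nat_lit 290) (nat_lit 278))))) (XT.nd (nat_lit 234) (nat_lit 380) (nat_lit 0) (XT.nd (nat_lit 78) (nat_lit 304) (nat_lit 0) (XT.lf (nat_lit 0) (nat_lit 2716059410) (nat_lit 152) (nat_lit 3949364957) (nat_lit 228) (nat_lit 3455758949) (nat_lit 50) (nat_lit 5) (nat_lit 52) (nat_lit 5) (nat_lit 53) (nat_lit 4) (nat_lit 333) (nat_lit 290) (nat_lit 277)) (XT.nd (nat_lit 78) (nat_lit 228) (nat_lit 0) (XT.lf (nat_lit 0) (nat_lit 153590538) (nat_lit 228) (nat_lit 303308472) (nat_lit 76) (nat_lit 9934031145) (nat_lit 49) (nat_lit 5) (nat_lit 52) (nat_lit 5) (nat_lit 50) (nat_lit 5) (nat_lit 334) (nat_lit 290) (nat_lit 276)) (XT.lf (nat_lit 0) (nat_lit 3875470243) (nat_lit 304) (nat_lit 3576549860) (nat_lit 76) (nat_lit 3216974088) (nat_lit 46) (nat_lit 5) (nat_lit 50) (nat_lit 5) (nat_lit 47) (nat_lit 4) (nat_lit 335) (nat_lit 290) (nat_lit 275)))) (XT.nd (nat_lit 78) (nat_lit 228) (nat_lit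 0) (XT.lf (nat_lit 0) (nat_lit 3842634603) (nat_lit 152) (nat_lit 3899997271) (nat_lit 228) (nat_lit 3220439102) (nat_lit 44) (nat_lit 5) (nat_lit 46) (nat_lit 5) (nat_lit 47) (nat_lit 4) (nat_lit 336) (nat_lit 290) (nat_lit 274)) (XT.nd (nat_lit 78) (nat_lit 0) (nat_lit 0) (XT.lf (nat_lit 0) (nat_lit 307201167) (nat_lit 152) (nat_lit 160686544) (nat_lit 228) (nat_lit 10805932036) (nat_lit 41) (nat_lit 5) (nat_lit 43) (nat_lit 5) (nat_lit 44) (nat_lit 5) (nat_lit 337) (nat_lit 290) (nat_lit 273)) (XT.lf (nat_lit 0) (nat_lit 4302507204) (nat_lit 228) (nat_lit 3537255602) (nat_lit 76) (nat_lit 3754257790) (nat_lit 41) (nat_lit 5) (nat_lit 44) (nat_lit 5) (nat_lit 42) (nat_lit 4) (nat_lit 338) (nat_lit 290) (nat_lit 272)))))) (XT.nd (nat_lit 468) (nat_lit 380) (nat_lit 0) (XT.nd (nat_lit 234) (nat_lit 304) (nat_lit 0) (XT.nd (nat_lit 78) (nat_lit 228) (nat_lit 0) (XT.lf (nat_lit 0) (nat_lit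 4221736824) (nat_lit 152) (nat_lit 4069713828) (nat_lit 228) (nat_lit 3640707909) (nat_lit 39) (nat_lit 5) (nat_lit 41) (nat_lit 5) (nat_lit 42) (nat_lit 4) (nat_lit 339) (nat_lit 290) (nat_lit 271)) (XT.nd (nat_lit 78) (nat_lit 0) (nat_lit 0) (XT.lf (nat_lit 0) (nat_lit 29171133) (nat_lit 152) (nat_lit 113306550) (nat_lit 228) (nat_lit 12146826532) (nat_lit 36) (nat_lit 5) (nat_lit 38) (nat_lit 5) (nat_lit 39) (nat_lit 5) (nat_lit 340) (nat_lit 290) (nat_lit 270)) (XT.lf (nat_lit 0) (nat_lit 4084190672) (nat_lit 228) (nat_lit 4535605144) (nat_lit 76) (nat_lit 4036990157) (nat_lit 36) (nat_lit 5) (nat_lit 39) (nat_lit 5) (nat_lit 37) (nat_lit 4) (nat_lit 341) (nat_lit 290) (nat_lit 269)))) (XT.nd (nat_lit 78) (nat_lit 228) (nat_lit 0) (XT.lf (nat_lit 0) (nat_lit 3517940567) (nat_lit 76) (nat_lit 4662697137) (nat_lit 152) (nat_lit 4864168359) (nat_lit 35) (nat_lit 5) (nat_lit 36) (nat_lit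 5) (nat_lit 37) (nat_lit 4) (nat_lit 342) (nat_lit 290) (nat_lit 268)) (XT.nd (nat_lit 78) (nat_lit 228) (nat_lit 0) (XT.lf (nat_lit 0) (nat_lit 11966391154) (nat_lit 76) (nat_lit 495335432) (nat_lit 152) (nat_lit 991554038) (nat_lit 35) (nat_lit 5) (nat_lit 36) (nat_lit 5) (nat_lit 37) (nat_lit 4) (nat_lit 343) (nat_lit 290) (nat_lit 267)) (XT.lf (nat_lit 0) (nat_lit 3053282551) (nat_lit 228) (nat_lit 6971552982) (nat_lit 76) (nat_lit 3851133419) (nat_lit 32) (nat_lit 5) (nat_lit 35) (nat_lit 5) (nat_lit 33) (nat_lit 4) (nat_lit 344) (nat_lit 290) (nat_lit 266))))) (XT.nd (nat_lit 234) (nat_lit 76) (nat_lit 0) (XT.nd (nat_lit 78) (nat_lit 228) (nat_lit 0) (XT.lf (nat_lit 0) (nat_lit 1303785758) (nat_lit 76) (nat_lit 5924369393) (nat_lit 152) (nat_lit 7092806342) (nat_lit 31) (nat_lit 5) (nat_lit 32) (nat_lit 5) (nat_lit 33) (nat_lit 4) (nat_lit 345) (nat_lit 290) (nat_lit 265)) (XT.nd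 (nat_lit 78) (nat_lit 228) (nat_lit 0) (XT.lf (nat_lit 0) (nat_lit 10076002374) (nat_lit 76) (nat_lit 1562827590) (nat_lit 152) (nat_lit 3148057328) (nat_lit 31) (nat_lit 5) (nat_lit 32) (nat_lit 5) (nat_lit 33) (nat_lit 4) (nat_lit 346) (nat_lit 290) (nat_lit 264)) (XT.lf (nat_lit 0) (nat_lit 983275578) (nat_lit 228) (nat_lit 11356117951) (nat_lit 76) (nat_lit 2934915196) (nat_lit 28) (nat_lit 5) (nat_lit 31) (nat_lit 5) (nat_lit 29) (nat_lit 4) (nat_lit 347) (nat_lit 290) (nat_lit 263)))) (XT.nd (nat_lit 78) (nat_lit 76) (nat_lit 0) (XT.lf (nat_lit 0) (nat_lit 5234763461) (nat_lit 228) (nat_lit 2873516071) (nat_lit 76) (nat_lit 7674303721) (nat_lit 28) (nat_lit 5) (nat_lit 31) (nat_lit 5) (nat_lit 29) (nat_lit 4) (nat_lit 348) (nat_lit 290) (nat_lit 262)) (XT.nd (nat_lit 78) (nat_lit 0) (nat_lit 0) (XT.lf (nat_lit 0) (nat_lit 6080063594) (nat_lit 76) (nat_lit 3630521901) (nat_lit 152)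 (nat_lit 6605128105) (nat_lit 27) (nat_lit 5) (nat_lit 28) (nat_lit 5) (nat_lit 29) (nat_lit 4) (nat_lit 349) (nat_lit 290) (nat_lit 261)) (XT.lf (nat_lit 0) (nat_lit 14393910129) (nat_lit 152) (nat_lit 1457978161) (nat_lit 0) (nat_lit 1024455246) (nat_lit 27) (nat_lit 5) (nat_lit 29) (nat_lit 4) (nat_lit 27) (nat_lit 4) (nat_lit 350) (nat_lit 290) (nat_lit 260))))))))
noncomputable def xc74 : XT := (XT.nd (nat_lit 1794) (nat_lit 456) (nat_lit 0) (XT.nd (nat_lit 858) (nat_lit 456) (nat_lit 0) (XT.nd (nat_lit 390) (nat_lit 304) (nat_lit 0) (XT.nd (nat_lit 156) (nat_lit 228) (nat_lit 0) (XT.nd (nat_lit 78) (nat_lit 0) (nat_lit 0) (XT.lf (nat_lit 0) (nat_lit 1891827633) (nat_lit 228) (nat_lit 9682855360) (nat_lit 76) (nat_lit 5883680198) (nat_lit 24) (nat_lit 5) (nat_lit 27) (nat_lit 5) (nat_lit 25) (nat_lit 4) (nat_lit 351) (nat_lit 290) (nat_lit 259)) (XT.lf (nat_lit 0) (nat_lit 6348206572)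 (nat_lit 228) (nat_lit 729799608) (nat_lit 76) (nat_lit 10992126070) (nat_lit 24) (nat_lit 5) (nat_lit 27) (nat_lit 5) (nat_lit 25) (nat_lit 4) (nat_lit 352) (nat_lit 290) (nat_lit 258))) (XT.nd (nat_lit 78) (nat_lit 152) (nat_lit 0) (XT.lf (nat_lit 0) (nat_lit 8818158619) (nat_lit 76) (nat_lit 2272383474) (nat_lit 152) (nat_lit 7618814354) (nat_lit 23) (nat_lit 5) (nat_lit 24) (nat_lit 5) (nat_lit 25) (nat_lit 4) (nat_lit 353) (nat_lit 290) (nat_lit 257)) (XT.nd (nat_lit 78) (nat_lit 152) (nat_lit 0) (XT.lf (nat_lit 0) (nat_lit 16051863527) (nat_lit 152) (nat_lit 690129189) (nat_lit 0) (nat_lit 2639478129) (nat_lit 23) (nat_lit 5) (nat_lit 25) (nat_lit 4) (nat_lit 23) (nat_lit 4) (nat_lit 354) (nat_lit 290) (nat_lit 256)) (XT.lf (nat_lit 0) (nat_lit 1247036318) (nat_lit 152) (nat_lit 11006121482) (nat_lit 76) (nat_lit 7827609327) (nat_lit 21) (nat_lit 5) (nat_lit 23) (nat_lit 5) (nat_lit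 22) (nat_lit 4) (nat_lit 355) (nat_lit 290) (nat_lit 255))))) (XT.nd (nat_lit 234) (nat_lit 228) (nat_lit 0) (XT.nd (nat_lit 78) (nat_lit 76) (nat_lit 0) (XT.lf (nat_lit 0) (nat_lit 5882243209) (nat_lit 152) (nat_lit 1646957392) (nat_lit 76) (nat_lit 13286036441) (nat_lit 21) (nat_lit 5) (nat_lit 23) (nat_lit 5) (nat_lit 22) (nat_lit 4) (nat_lit 356) (nat_lit 290) (nat_lit 254)) (XT.nd (nat_lit 78) (nat_lit 0) (nat_lit 0) (XT.lf (nat_lit 0) (nat_lit 8323367329) (nat_lit 76) (nat_lit 2488887956) (nat_lit 152) (nat_lit 10771041391) (nat_lit 20) (nat_lit 5) (nat_lit 21) (nat_lit 5) (nat_lit 22) (nat_lit 4) (nat_lit 357) (nat_lit 290) (nat_lit 253)) (XT.lf (nat_lit 0) (nat_lit 15994406088) (nat_lit 152) (nat_lit 3706845011) (nat_lit 0) (nat_lit 2688243874) (nat_lit 20) (nat_lit 5) (nat_lit 22) (nat_lit 4) (nat_lit 20) (nat_lit 4) (nat_lit 358) (nat_lit 290) (nat_lit 252)))) (XT.nd (nat_lit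 78) (nat_lit 152) (nat_lit 0) (XT.lf (nat_lit 0) (nat_lit 6369193259) (nat_lit 76) (nat_lit 15143398613) (nat_lit 76) (nat_lit 1719581689) (nat_lit 19) (nat_lit 4) (nat_lit 20) (nat_lit 5) (nat_lit 20) (nat_lit 4) (nat_lit 359) (nat_lit 290) (nat_lit 251)) (XT.nd (nat_lit 78) (nat_lit 76) (nat_lit 0) (XT.lf (nat_lit 0) (nat_lit 3088274493) (nat_lit 152) (nat_lit 7204906318) (nat_lit 76) (nat_lit 13821297254) (nat_lit 18) (nat_lit 5) (nat_lit 20) (nat_lit 5) (nat_lit 19) (nat_lit 4) (nat_lit 360) (nat_lit 290) (nat_lit 250)) (XT.lf (nat_lit 0) (nat_lit 2887975193) (nat_lit 76) (nat_lit 5175712862) (nat_lit 152) (nat_lit 16976567024) (nat_lit 17) (nat_lit 5) (nat_lit 18) (nat_lit 5) (nat_lit 19) (nat_lit 4) (nat_lit 361) (nat_lit 290) (nat_lit 249)))))) (XT.nd (nat_lit 468) (nat_lit 228) (nat_lit 0) (XT.nd (nat_lit 234) (nat_lit 152) (nat_lit 0) (XT.nd (nat_lit 78) (nat_lit 76) (nat_lit 0)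 (XT.lf (nat_lit 0) (nat_lit 13355174541) (nat_lit 152) (nat_lit 12388353752) (nat_lit 0) (nat_lit 265441319) (nat_lit 17) (nat_lit 5) (nat_lit 19) (nat_lit 4) (nat_lit 17) (nat_lit 4) (nat_lit 362) (nat_lit 290) (nat_lit 248)) (XT.nd (nat_lit 78) (nat_lit 76) (nat_lit 0) (XT.lf (nat_lit 0) (nat_lit 18939128658) (nat_lit 152) (nat_lit 2328399781) (nat_lit 0) (nat_lit 5757209891) (nat_lit 17) (nat_lit 5) (nat_lit 19) (nat_lit 4) (nat_lit 17) (nat_lit 4) (nat_lit 363) (nat_lit 290) (nat_lit 247)) (XT.lf (nat_lit 0) (nat_lit 8401233620) (nat_lit 76) (nat_lit 16477971331) (nat_lit 76) (nat_lit 3208256808) (nat_lit 16) (nat_lit 4) (nat_lit 17) (nat_lit 5) (nat_lit 17) (nat_lit 4) (nat_lit 364) (nat_lit 290) (nat_lit 246)))) (XT.nd (nat_lit 78) (nat_lit 76) (nat_lit 0) (XT.lf (nat_lit 0) (nat_lit 1837702380) (nat_lit 152) (nat_lit 9586039648) (nat_lit 76) (nat_lit 17778799058) (nat_lit 15) (nat_lit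 5) (nat_lit 17) (nat_lit 5) (nat_lit 16) (nat_lit 4) (nat_lit 365) (nat_lit 290) (nat_lit 245)) (XT.nd (nat_lit 78) (nat_lit 0) (nat_lit 0) (XT.lf (nat_lit 0) (nat_lit 897811632) (nat_lit 76) (nat_lit 6092810075) (nat_lit 152) (nat_lit 23382009719) (nat_lit 14) (nat_lit 5) (nat_lit 15) (nat_lit 5) (nat_lit 16) (nat_lit 4) (nat_lit 366) (nat_lit 290) (nat_lit 244)) (XT.lf (nat_lit 0) (nat_lit 12142745672) (nat_lit 76) (nat_lit 370205457) (nat_lit 152) (nat_lit 19082697230) (nat_lit 14) (nat_lit 5) (nat_lit 15) (nat_lit 5) (nat_lit 16) (nat_lit 4) (nat_lit 367) (nat_lit 290) (nat_lit 243))))) (XT.nd (nat_lit 234) (nat_lit 152) (nat_lit 0) (XT.nd (nat_lit 78) (nat_lit 76) (nat_lit 0) (XT.lf (nat_lit 0) (nat_lit 18350584646) (nat_lit 152) (nat_lit 9111015286) (nat_lit 0) (nat_lit 5416266618) (nat_lit 14) (nat_lit 5) (nat_lit 16) (nat_lit 4) (nat_lit 14) (nat_lit 4) (nat_lit 368) (nat_lit 290)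 (nat_lit 242)) (XT.nd (nat_lit 78) (nat_lit 0) (nat_lit 0) (XT.lf (nat_lit 0) (nat_lit 1707901715) (nat_lit 76) (nat_lit 22758412558) (nat_lit 76) (nat_lit 9758579984) (nat_lit 13) (nat_lit 4) (nat_lit 14) (nat_lit 5) (nat_lit 14) (nat_lit 4) (nat_lit 369) (nat_lit 290) (nat_lit 241)) (XT.lf (nat_lit 0) (nat_lit 13296849087) (nat_lit 76) (nat_lit 17699614433) (nat_lit 76) (nat_lit 4637387054) (nat_lit 13) (nat_lit 4) (nat_lit 14) (nat_lit 5) (nat_lit 14) (nat_lit 4) (nat_lit 370) (nat_lit 290) (nat_lit 240)))) (XT.nd (nat_lit 78) (nat_lit 76) (nat_lit 0) (XT.lf (nat_lit 0) (nat_lit 671972309) (nat_lit 152) (nat_lit 11744107768) (nat_lit 76) (nat_lit 24698815762) (nat_lit 12) (nat_lit 5) (nat_lit 14) (nat_lit 5) (nat_lit 13) (nat_lit 4) (nat_lit 371) (nat_lit 290) (nat_lit 239)) (XT.nd (nat_lit 78) (nat_lit 76) (nat_lit 0) (XT.lf (nat_lit 0) (nat_lit 6048845507) (nat_lit 152) (nat_lit 778111639)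 (nat_lit 76) (nat_lit 31841348134) (nat_lit 12) (nat_lit 5) (nat_lit 14) (nat_lit 5) (nat_lit 13) (nat_lit 4) (nat_lit 372) (nat_lit 290) (nat_lit 238)) (XT.lf (nat_lit 0) (nat_lit 11011950200) (nat_lit 76) (nat_lit 814437170) (nat_lit 152) (nat_lit 28466413882) (nat_lit 11) (nat_lit 5) (nat_lit 12) (nat_lit 5) (nat_lit 13) (nat_lit 4) (nat_lit 373) (nat_lit 290) (nat_lit 237))))))) (XT.nd (nat_lit 936) (nat_lit 152) (nat_lit 0) (XT.nd (nat_lit 468) (nat_lit 152) (nat_lit 0) (XT.nd (nat_lit 234) (nat_lit 76) (nat_lit 0) (XT.nd (nat_lit 78) (nat_lit 76) (nat_lit 0) (XT.lf (nat_lit 0) (nat_lit 17952116309) (nat_lit 152) (nat_lit 18742260645) (nat_lit 0) (nat_lit 5301186528) (nat_lit 11) (nat_lit 5) (nat_lit 13) (nat_lit 4) (nat_lit 11) (nat_lit 4) (nat_lit 374) (nat_lit 290) (nat_lit 236)) (XT.nd (nat_lit 78) (nat_lit 76) (nat_lit 0) (XT.lf (nat_lit 0) (nat_lit 24359450746) (nat_lit 152)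 (nat_lit 7763292752) (nat_lit 0) (nat_lit 11661961001) (nat_lit 11) (nat_lit 5) (nat_lit 13) (nat_lit 4) (nat_lit 11) (nat_lit 4) (nat_lit 375) (nat_lit 290) (nat_lit 235)) (XT.lf (nat_lit 0) (nat_lit 3817079039) (nat_lit 76) (nat_lit 27293446854) (nat_lit 76) (nat_lit 14551614287) (nat_lit 10) (nat_lit 4) (nat_lit 11) (nat_lit 5) (nat_lit 11) (nat_lit 4) (nat_lit 376) (nat_lit 290) (nat_lit 234)))) (XT.nd (nat_lit 78) (nat_lit 76) (nat_lit 0) (XT.lf (nat_lit 0) (nat_lit 16177402985) (nat_lit 76) (nat_lit 22117659557) (nat_lit 76) (nat_lit 9333595729) (nat_lit 10) (nat_lit 4) (nat_lit 11) (nat_lit 5) (nat_lit 11) (nat_lit 4) (nat_lit 377) (nat_lit 290) (nat_lit 233)) (XT.nd (nat_lit 78) (nat_lit 76) (nat_lit 0) (XT.lf (nat_lit 0) (nat_lit 29090418910) (nat_lit 76) (nat_lit 16714533421) (nat_lit 76) (nat_lit 3890249345) (nat_lit 10) (nat_lit 4) (nat_lit 11) (nat_lit 5) (nat_lit 11) (nat_lit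 4) (nat_lit 378) (nat_lit 290) (nat_lit 232)) (XT.lf (nat_lit 0) (nat_lit 1734049697) (nat_lit 152) (nat_lit 9307787192) (nat_lit 76) (nat_lit 40823455420) (nat_lit 9) (nat_lit 5) (nat_lit 11) (nat_lit 5) (nat_lit 10) (nat_lit 4) (nat_lit 379) (nat_lit 290) (nat_lit 231))))) (XT.nd (nat_lit 234) (nat_lit 76) (nat_lit 0) (XT.nd (nat_lit 78) (nat_lit 0) (nat_lit 0) (XT.lf (nat_lit 0) (nat_lit 2510341541) (nat_lit 76) (nat_lit 5006444587) (nat_lit 152) (nat_lit 46623519549) (nat_lit 8) (nat_lit 5) (nat_lit 9) (nat_lit 5) (nat_lit 10) (nat_lit 4) (nat_lit 380) (nat_lit 290) (nat_lit 230)) (XT.nd (nat_lit 78) (nat_lit 0) (nat_lit 0) (XT.lf (nat_lit 0) (nat_lit 13738532455) (nat_lit 152) (nat_lit 41362433750) (nat_lit 0) (nat_lit 1420614564) (nat_lit 8) (nat_lit 5) (nat_lit 10) (nat_lit 4) (nat_lit 8) (nat_lit 4) (nat_lit 381) (nat_lit 290) (nat_lit 229)) (XT.lf (nat_lit 0) (nat_lit 20323801663)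 (nat_lit 152) (nat_lit 30721130505) (nat_lit 0) (nat_lit 7974370156) (nat_lit 8) (nat_lit 5) (nat_lit 10) (nat_lit 4) (nat_lit 8) (nat_lit 4) (nat_lit 382) (nat_lit 290) (nat_lit 228)))) (XT.nd (nat_lit 78) (nat_lit 76) (nat_lit 0) (XT.lf (nat_lit 0) (nat_lit 27210108335) (nat_lit 152) (nat_lit 19602553335) (nat_lit 0) (nat_lit 14830663859) (nat_lit 8) (nat_lit 5) (nat_lit 10) (nat_lit 4) (nat_lit 8) (nat_lit 4) (nat_lit 383) (nat_lit 290) (nat_lit 227)) (XT.nd (nat_lit 78) (nat_lit 76) (nat_lit 0) (XT.lf (nat_lit 0) (nat_lit 34413848438) (nat_lit 152) (nat_lit 7980229438) (nat_lit 0) (nat_lit 22005820183) (nat_lit 8) (nat_lit 5) (nat_lit 10) (nat_lit 4) (nat_lit 8) (nat_lit 4) (nat_lit 384) (nat_lit 290) (nat_lit 226)) (XT.lf (nat_lit 0) (nat_lit 4311508586) (nat_lit 76) (nat_lit 37707979880) (nat_lit 76) (nat_lit 25272728979) (nat_lit 7) (nat_lit 4) (nat_lit 8) (nat_lit 5) (nat_lit 8)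 (nat_lit 4) (nat_lit 385) (nat_lit 290) (nat_lit 225)))))) (XT.nd (nat_lit 468) (nat_lit 0) (nat_lit 0) (XT.nd (nat_lit 234) (nat_lit 152) (nat_lit 0) (XT.nd (nat_lit 78) (nat_lit 0) (nat_lit 0) (XT.lf (nat_lit 0) (nat_lit 17445993360) (nat_lit 76) (nat_lit 32669420107) (nat_lit 76) (nat_lit 20208242876) (nat_lit 7) (nat_lit 4) (nat_lit 8) (nat_lit 5) (nat_lit 8) (nat_lit 4) (nat_lit 386) (nat_lit 290) (nat_lit 224)) (XT.nd (nat_lit 78) (nat_lit 0) (nat_lit 0) (XT.lf (nat_lit 0) (nat_lit 31190635040) (nat_lit 76) (nat_lit 27401551034) (nat_lit 76) (nat_lit 14915682059) (nat_lit 7) (nat_lit 4) (nat_lit 8) (nat_lit 5) (nat_lit 8) (nat_lit 4) (nat_lit 387) (nat_lit 290) (nat_lit 223)) (XT.lf (nat_lit 0) (nat_lit 45578158965) (nat_lit 76) (nat_lit 21891830114) (nat_lit 76) (nat_lit 9382445193) (nat_lit 7) (nat_lit 4) (nat_lit 8) (nat_lit 5) (nat_lit 8) (nat_lit 4) (nat_lit 388) (nat_lit 290)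 (nat_lit 222)))) (XT.nd (nat_lit 78) (nat_lit 152) (nat_lit 0) (XT.lf (nat_lit 0) (nat_lit 60642821142) (nat_lit 76) (nat_lit 16127138964) (nat_lit 76) (nat_lit 3595357905) (nat_lit 7) (nat_lit 4) (nat_lit 8) (nat_lit 5) (nat_lit 8) (nat_lit 4) (nat_lit 389) (nat_lit 290) (nat_lit 221)) (XT.nd (nat_lit 78) (nat_lit 76) (nat_lit 0) (XT.lf (nat_lit 0) (nat_lit 2380643750) (nat_lit 152) (nat_lit 7672791027) (nat_lit 76) (nat_lit 73999528712) (nat_lit 6) (nat_lit 5) (nat_lit 8) (nat_lit 5) (nat_lit 7) (nat_lit 4) (nat_lit 390) (nat_lit 290) (nat_lit 220)) (XT.lf (nat_lit 0) (nat_lit 5042887671) (nat_lit 76) (nat_lit 3550435423) (nat_lit 152) (nat_lit 79325788624) (nat_lit 5) (nat_lit 5) (nat_lit 6) (nat_lit 5) (nat_lit 7) (nat_lit 4) (nat_lit 391) (nat_lit 290) (nat_lit 219))))) (XT.nd (nat_lit 234) (nat_lit 0) (nat_lit 0) (XT.nd (nat_lit 78) (nat_lit 0) (nat_lit 0) (XT.lf (nat_lit 0) (nat_lit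 15279918406) (nat_lit 152) (nat_lit 73403684595) (nat_lit 0) (nat_lit 3286802882) (nat_lit 5) (nat_lit 5) (nat_lit 7) (nat_lit 4) (nat_lit 5) (nat_lit 4) (nat_lit 392) (nat_lit 290) (nat_lit 218)) (XT.nd (nat_lit 78) (nat_lit 0) (nat_lit 0) (XT.lf (nat_lit 0) (nat_lit 22340033121) (nat_lit 152) (nat_lit 63552905015) (nat_lit 0) (nat_lit 10329369636) (nat_lit 5) (nat_lit 5) (nat_lit 7) (nat_lit 4) (nat_lit 5) (nat_lit 4) (nat_lit 393) (nat_lit 290) (nat_lit 217)) (XT.lf (nat_lit 0) (nat_lit 29735044789) (nat_lit 152) (nat_lit 53244998823) (nat_lit 0) (nat_lit 17707668960) (nat_lit 5) (nat_lit 5) (nat_lit 7) (nat_lit 4) (nat_lit 5) (nat_lit 4) (nat_lit 394) (nat_lit 290) (nat_lit 216)))) (XT.nd (nat_lit 78) (nat_lit 0) (nat_lit 0) (XT.lf (nat_lit 0) (nat_lit 37482560582) (nat_lit 152) (nat_lit 42455423386) (nat_lit 0) (nat_lit 25439268235) (nat_lit 5) (nat_lit 5) (nat_lit 7) (nat_lit 4) (nat_lit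 5) (nat_lit 4) (nat_lit 395) (nat_lit 290) (nat_lit 215)) (XT.nd (nat_lit 78) (nat_lit 0) (nat_lit 0) (XT.lf (nat_lit 0) (nat_lit 45601026964) (nat_lit 152) (nat_lit 31158489239) (nat_lit 0) (nat_lit 33542576030) (nat_lit 5) (nat_lit 5) (nat_lit 7) (nat_lit 4) (nat_lit 5) (nat_lit 4) (nat_lit 396) (nat_lit 290) (nat_lit 214)) (XT.lf (nat_lit 0) (nat_lit 54109773619) (nat_lit 152) (nat_lit 19327298919) (nat_lit 0) (nat_lit 42036885934) (nat_lit 5) (nat_lit 5) (nat_lit 7) (nat_lit 4) (nat_lit 5) (nat_lit 4) (nat_lit 397) (nat_lit 290) (nat_lit 213))))))))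
noncomputable def xc75 : XT := (XT.nd (nat_lit 1794) (nat_lit 0) (nat_lit 0) (XT.nd (nat_lit 858) (nat_lit 152) (nat_lit 0) (XT.nd (nat_lit 390) (nat_lit 0) (nat_lit 0) (XT.nd (nat_lit 156) (nat_lit 0) (nat_lit 0) (XT.nd (nat_lit 78) (nat_lit 76) (nat_lit 0) (XT.lf (nat_lit 0) (nat_lit 63029059467) (nat_lit 152) (nat_lit 6933682926) (nat_lit 0) (nat_lit 50942422495) (nat_lit 5) (nat_lit 5) (nat_lit 7) (nat_lit 4) (nat_lit 5) (nat_lit 4) (nat_lit 398) (nat_lit 290) (nat_lit 212)) (XT.lf (nat_lit 0) (nat_lit 6251969415) (nat_lit 76) (nat_lit 66225762250) (nat_lit 76) (nat_lit 54126030719) (nat_lit 4) (nat_lit 4) (nat_lit 5) (nat_lit 5) (nat_lit 5) (nat_lit 4) (nat_lit 399) (nat_lit 290) (nat_lit 211))) (XT.nd (nat_lit 78) (nat_lit 0) (nat_lit 0) (XT.lf (nat_lit 0) (nat_lit 20310327196) (nat_lit 76) (nat_lit 62191996287) (nat_lit 76) (nat_lit 50079793748) (nat_lit 4) (nat_lit 4) (nat_lit 5)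 (nat_lit 5) (nat_lit 5) (nat_lit 4) (nat_lit 400) (nat_lit 290) (nat_lit 210)) (XT.nd (nat_lit 78) (nat_lit 0) (nat_lit 0) (XT.lf (nat_lit 0) (nat_lit 35045603826) (nat_lit 76) (nat_lit 57969265575) (nat_lit 76) (nat_lit 45845185885) (nat_lit 4) (nat_lit 4) (nat_lit 5) (nat_lit 5) (nat_lit 5) (nat_lit 4) (nat_lit 401) (nat_lit 290) (nat_lit 209)) (XT.lf (nat_lit 0) (nat_lit 50492883297) (nat_lit 76) (nat_lit 53547515992) (nat_lit 76) (nat_lit 41412124731) (nat_lit 4) (nat_lit 4) (nat_lit 5) (nat_lit 5) (nat_lit 5) (nat_lit 4) (nat_lit 402) (nat_lit 290) (nat_lit 208))))) (XT.nd (nat_lit 234) (nat_lit 0) (nat_lit 0) (XT.nd (nat_lit 78) (nat_lit 0) (nat_lit 0) (XT.lf (nat_lit 0) (nat_lit 66688944846) (nat_lit 76) (nat_lit 48916219565) (nat_lit 76) (nat_lit 36770055378) (nat_lit 4) (nat_lit 4) (nat_lit 5) (nat_lit 5) (nat_lit 5) (nat_lit 4) (nat_lit 403) (nat_lit 290) (nat_lit 207)) (XT.nd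 (nat_lit 78) (nat_lit 0) (nat_lit 0) (XT.lf (nat_lit 0) (nat_lit 83672350523) (nat_lit 76) (nat_lit 44064349396) (nat_lit 76) (nat_lit 31907925279) (nat_lit 4) (nat_lit 4) (nat_lit 5) (nat_lit 5) (nat_lit 5) (nat_lit 4) (nat_lit 404) (nat_lit 290) (nat_lit 206)) (XT.lf (nat_lit 0) (nat_lit 101483537010) (nat_lit 76) (nat_lit 38980353413) (nat_lit 76) (nat_lit 26814157936) (nat_lit 4) (nat_lit 4) (nat_lit 5) (nat_lit 5) (nat_lit 5) (nat_lit 4) (nat_lit 405) (nat_lit 290) (nat_lit 205)))) (XT.nd (nat_lit 78) (nat_lit 0) (nat_lit 0) (XT.lf (nat_lit 0) (nat_lit 120164911892) (nat_lit 76) (nat_lit 33652126865) (nat_lit 76) (nat_lit 21476625329) (nat_lit 4) (nat_lit 4) (nat_lit 5) (nat_lit 5) (nat_lit 5) (nat_lit 4) (nat_lit 406) (nat_lit 290) (nat_lit 204)) (XT.nd (nat_lit 78) (nat_lit 0) (nat_lit 0) (XT.lf (nat_lit 0) (nat_lit 139760954635) (nat_lit 76) (nat_lit 28066983498) (nat_lit 76) (nat_lit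 15882619049) (nat_lit 4) (nat_lit 4) (nat_lit 5) (nat_lit 5) (nat_lit 5) (nat_lit 4) (nat_lit 407) (nat_lit 290) (nat_lit 203)) (XT.lf (nat_lit 0) (nat_lit 160318322482) (nat_lit 76) (nat_lit 22211625351) (nat_lit 76) (nat_lit 10018820033) (nat_lit 4) (nat_lit 4) (nat_lit 5) (nat_lit 5) (nat_lit 5) (nat_lit 4) (nat_lit 408) (nat_lit 290) (nat_lit 202)))))) (XT.nd (nat_lit 468) (nat_lit 0) (nat_lit 0) (XT.nd (nat_lit 234) (nat_lit 0) (nat_lit 0) (XT.nd (nat_lit 78) (nat_lit 152) (nat_lit 0) (XT.lf (nat_lit 0) (nat_lit 181885961548) (nat_lit 76) (nat_lit 16072111095) (nat_lit 76) (nat_lit 3871266854) (nat_lit 4) (nat_lit 4) (nat_lit 5) (nat_lit 5) (nat_lit 5) (nat_lit 4) (nat_lit 409) (nat_lit 290) (nat_lit 201)) (XT.nd (nat_lit 78) (nat_lit 76) (nat_lit 0) (XT.lf (nat_lit 0) (nat_lit 2492271758) (nat_lit 152) (nat_lit 7099343253) (nat_lit 76) (nat_lit 201980743767) (nat_lit 3) (nat_lit 5)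 (nat_lit 5) (nat_lit 5) (nat_lit 4) (nat_lit 4) (nat_lit 410) (nat_lit 290) (nat_lit 200)) (XT.lf (nat_lit 0) (nat_lit 6515738025) (nat_lit 76) (nat_lit 2621593644) (nat_lit 152) (nat_lit 212657352957) (nat_lit 2) (nat_lit 5) (nat_lit 3) (nat_lit 5) (nat_lit 4) (nat_lit 4) (nat_lit 411) (nat_lit 290) (nat_lit 199)))) (XT.nd (nat_lit 78) (nat_lit 0) (nat_lit 0) (XT.lf (nat_lit 0) (nat_lit 16301916778) (nat_lit 152) (nat_lit 211555631705) (nat_lit 0) (nat_lit 4661215614) (nat_lit 2) (nat_lit 5) (nat_lit 4) (nat_lit 4) (nat_lit 2) (nat_lit 4) (nat_lit 412) (nat_lit 290) (nat_lit 198)) (XT.nd (nat_lit 78) (nat_lit 0) (nat_lit 0) (XT.lf (nat_lit 0) (nat_lit 23859839679) (nat_lit 152) (nat_lit 207704613526) (nat_lit 0) (nat_lit 12212839808) (nat_lit 2) (nat_lit 5) (nat_lit 4) (nat_lit 4) (nat_lit 2) (nat_lit 4) (nat_lit 413) (nat_lit 290) (nat_lit 197)) (XT.lf (nat_lit 0) (nat_lit 31788165001)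 (nat_lit 152) (nat_lit 203675792551) (nat_lit 0) (nat_lit 20135166362) (nat_lit 2) (nat_lit 5) (nat_lit 4) (nat_lit 4) (nat_lit 2) (nat_lit 4) (nat_lit 414) (nat_lit 290) (nat_lit 196))))) (XT.nd (nat_lit 234) (nat_lit 0) (nat_lit 0) (XT.nd (nat_lit 78) (nat_lit 0) (nat_lit 0) (XT.lf (nat_lit 0) (nat_lit 40105769710) (nat_lit 152) (nat_lit 199459576349) (nat_lit 0) (nat_lit 28447057959) (nat_lit 2) (nat_lit 5) (nat_lit 4) (nat_lit 4) (nat_lit 2) (nat_lit 4) (nat_lit 415) (nat_lit 290) (nat_lit 195)) (XT.nd (nat_lit 78) (nat_lit 0) (nat_lit 0) (XT.lf (nat_lit 0) (nat_lit 48832457627) (nat_lit 152) (nat_lit 195045926309) (nat_lit 0) (nat_lit 37168304817) (nat_lit 2) (nat_lit 5) (nat_lit 4) (nat_lit 4) (nat_lit 2) (nat_lit 4) (nat_lit 416) (nat_lit 290) (nat_lit 194)) (XT.lf (nat_lit 0) (nat_lit 57989006581) (nat_lit 152) (nat_lit 190424333741) (nat_lit 0) (nat_lit 46319671808) (nat_lit 2)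 (nat_lit 5) (nat_lit 4) (nat_lit 4) (nat_lit 2) (nat_lit 4) (nat_lit 417) (nat_lit 290) (nat_lit 193)))) (XT.nd (nat_lit 78) (nat_lit 0) (nat_lit 0) (XT.lf (nat_lit 0) (nat_lit 67597217877) (nat_lit 152) (nat_lit 185583794854) (nat_lit 0) (nat_lit 55922947903) (nat_lit 2) (nat_lit 5) (nat_lit 4) (nat_lit 4) (nat_lit 2) (nat_lit 4) (nat_lit 418) (nat_lit 290) (nat_lit 192)) (XT.nd (nat_lit 78) (nat_lit 0) (nat_lit 0) (XT.lf (nat_lit 0) (nat_lit 77679968210) (nat_lit 152) (nat_lit 180512784554) (nat_lit 0) (nat_lit 66000998045) (nat_lit 2) (nat_lit 5) (nat_lit 4) (nat_lit 4) (nat_lit 2) (nat_lit 4) (nat_lit 419) (nat_lit 290) (nat_lit 191)) (XT.lf (nat_lit 0) (nat_lit 88261264128) (nat_lit 152) (nat_lit 175199229008) (nat_lit 0) (nat_lit 76577817590) (nat_lit 2) (nat_lit 5) (nat_lit 4) (nat_lit 4) (nat_lit 2) (nat_lit 4) (nat_lit 420) (nat_lit 290) (nat_lit 190))))))) (XT.nd (nat_lit 936)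 (nat_lit 0) (nat_lit 0) (XT.nd (nat_lit 468) (nat_lit 0) (nat_lit 0) (XT.nd (nat_lit 234) (nat_lit 0) (nat_lit 0) (XT.nd (nat_lit 78) (nat_lit 0) (nat_lit 0) (XT.lf (nat_lit 0) (nat_lit 99366299193) (nat_lit 152) (nat_lit 169630476893) (nat_lit 0) (nat_lit 87678589442) (nat_lit 2) (nat_lit 5) (nat_lit 4) (nat_lit 4) (nat_lit 2) (nat_lit 4) (nat_lit 421) (nat_lit 290) (nat_lit 189)) (XT.nd (nat_lit 78) (nat_lit 0) (nat_lit 0) (XT.lf (nat_lit 0) (nat_lit 111021513965) (nat_lit 152) (nat_lit 163793269275) (nat_lit 0) (nat_lit 99329744012) (nat_lit 2) (nat_lit 5) (nat_lit 4) (nat_lit 4) (nat_lit 2) (nat_lit 4) (nat_lit 422) (nat_lit 290) (nat_lit 188)) (XT.lf (nat_lit 0) (nat_lit 123254658955) (nat_lit 152) (nat_lit 157673708041) (nat_lit 0) (nat_lit 111559022142) (nat_lit 2) (nat_lit 5) (nat_lit 4) (nat_lit 4) (nat_lit 2) (nat_lit 4) (nat_lit 423) (nat_lit 290) (nat_lit 187)))) (XT.nd (nat_lit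 78) (nat_lit 0) (nat_lit 0) (XT.lf (nat_lit 0) (nat_lit 136094860698) (nat_lit 152) (nat_lit 151257222807) (nat_lit 0) (nat_lit 124395541162) (nat_lit 2) (nat_lit 5) (nat_lit 4) (nat_lit 4) (nat_lit 2) (nat_lit 4) (nat_lit 424) (nat_lit 290) (nat_lit 186)) (XT.nd (nat_lit 78) (nat_lit 0) (nat_lit 0) (XT.lf (nat_lit 0) (nat_lit 149572691104) (nat_lit 152) (nat_lit 144528536227) (nat_lit 0) (nat_lit 137869864212) (nat_lit 2) (nat_lit 5) (nat_lit 4) (nat_lit 4) (nat_lit 2) (nat_lit 4) (nat_lit 425) (nat_lit 290) (nat_lit 185)) (XT.lf (nat_lit 0) (nat_lit 163720240244) (nat_lit 152) (nat_lit 137471627619) (nat_lit 0) (nat_lit 152014073014) (nat_lit 2) (nat_lit 5) (nat_lit 4) (nat_lit 4) (nat_lit 2) (nat_lit 4) (nat_lit 426) (nat_lit 290) (nat_lit 184))))) (XT.nd (nat_lit 234) (nat_lit 0) (nat_lit 0) (XT.nd (nat_lit 78) (nat_lit 0) (nat_lit 0) (XT.lf (nat_lit 0) (nat_lit 178571192760) (nat_lit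 152) (nat_lit 130069694819) (nat_lit 0) (nat_lit 166861844255) (nat_lit 2) (nat_lit 5) (nat_lit 4) (nat_lit 4) (nat_lit 2) (nat_lit 4) (nat_lit 427) (nat_lit 290) (nat_lit 183)) (XT.nd (nat_lit 78) (nat_lit 0) (nat_lit 0) (XT.lf (nat_lit 0) (nat_lit 194160908063) (nat_lit 152) (nat_lit 122305114179) (nat_lit 0) (nat_lit 182448529773) (nat_lit 2) (nat_lit 5) (nat_lit 4) (nat_lit 4) (nat_lit 2) (nat_lit 4) (nat_lit 428) (nat_lit 290) (nat_lit 182)) (XT.lf (nat_lit 0) (nat_lit 210526504522) (nat_lit 152) (nat_lit 114159398601) (nat_lit 0) (nat_lit 198811240722) (nat_lit 2) (nat_lit 5) (nat_lit 4) (nat_lit 4) (nat_lit 2) (nat_lit 4) (nat_lit 429) (nat_lit 290) (nat_lit 181)))) (XT.nd (nat_lit 78) (nat_lit 0) (nat_lit 0) (XT.lf (nat_lit 0) (nat_lit 227706947843) (nat_lit 152) (nat_lit 105613153524) (nat_lit 0) (nat_lit 215988935938) (nat_lit 2) (nat_lit 5) (nat_lit 4) (nat_lit 4) (nat_lit 2)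 (nat_lit 4) (nat_lit 430) (nat_lit 290) (nat_lit 180)) (XT.nd (nat_lit 78) (nat_lit 0) (nat_lit 0) (XT.lf (nat_lit 0) (nat_lit 245743143844) (nat_lit 152) (nat_lit 96646030746) (nat_lit 0) (nat_lit 234022514696) (nat_lit 2) (nat_lit 5) (nat_lit 4) (nat_lit 4) (nat_lit 2) (nat_lit 4) (nat_lit 431) (nat_lit 290) (nat_lit 179)) (XT.lf (nat_lit 0) (nat_lit 264678035848) (nat_lit 152) (nat_lit 87236679974) (nat_lit 0) (nat_lit 252954914088) (nat_lit 2) (nat_lit 5) (nat_lit 4) (nat_lit 4) (nat_lit 2) (nat_lit 4) (nat_lit 432) (nat_lit 290) (nat_lit 178)))))) (XT.nd (nat_lit 38064) (nat_lit 0) (nat_lit 5244) (XT.nd (nat_lit 234) (nat_lit 0) (nat_lit 0) (XT.nd (nat_lit 78) (nat_lit 0) (nat_lit 0) (XT.lf (nat_lit 0) (nat_lit 284556706931) (nat_lit 152) (nat_lit 77362697993) (nat_lit 0) (nat_lit 272831211255) (nat_lit 2) (nat_lit 5) (nat_lit 4) (nat_lit 4) (nat_lit 2) (nat_lit 4) (nat_lit 433) (nat_lit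 290) (nat_lit 177)) (XT.nd (nat_lit 78) (nat_lit 0) (nat_lit 0) (XT.lf (nat_lit 0) (nat_lit 305426487263) (nat_lit 152) (nat_lit 67000575321) (nat_lit 0) (nat_lit 293698730714) (nat_lit 2) (nat_lit 5) (nat_lit 4) (nat_lit 4) (nat_lit 2) (nat_lit 4) (nat_lit 434) (nat_lit 290) (nat_lit 176)) (XT.lf (nat_lit 0) (nat_lit 327337066798) (nat_lit 152) (nat_lit 56125640238) (nat_lit 0) (nat_lit 315607157036) (nat_lit 2) (nat_lit 5) (nat_lit 4) (nat_lit 4) (nat_lit 2) (nat_lit 4) (nat_lit 435) (nat_lit 290) (nat_lit 175)))) (XT.nd (nat_lit 37674) (nat_lit 0) (nat_lit 6916) (XT.lf (nat_lit 0) (nat_lit 350340613580) (nat_lit 152) (nat_lit 44712000041) (nat_lit 0) (nat_lit 338608653141) (nat_lit 2) (nat_lit 5) (nat_lit 4) (nat_lit 4) (nat_lit 2) (nat_lit 4) (nat_lit 436) (nat_lit 290) (nat_lit 174)) (XT.nd (nat_lit 78) (nat_lit 76) (nat_lit 0) (XT.lf (nat_lit 0) (nat_lit 650525898) (nat_lit 380) (nat_lit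 1530643635) (nat_lit 380) (nat_lit 1530643635) (nat_lit 94) (nat_lit 4) (nat_lit 99) (nat_lit 5) (nat_lit 99) (nat_lit 4) (nat_lit 318) (nat_lit 291) (nat_lit 291)) (XT.lf (nat_lit 0) (nat_lit 410023601) (nat_lit 456) (nat_lit 646937564) (nat_lit 76) (nat_lit 6483807169) (nat_lit 93) (nat_lit 5) (nat_lit 99) (nat_lit 5) (nat_lit 94) (nat_lit 4) (nat_lit 319) (nat_lit 291) (nat_lit 290))))) (XT.nd (nat_lit 234) (nat_lit 608) (nat_lit 0) (XT.nd (nat_lit 78) (nat_lit 760) (nat_lit 0) (XT.lf (nat_lit 0) (nat_lit 3890245293) (nat_lit 380) (nat_lit 2649895323) (nat_lit 0) (nat_lit 1124398406) (nat_lit 89) (nat_lit 5) (nat_lit 94) (nat_lit 4) (nat_lit 89) (nat_lit 4) (nat_lit 320) (nat_lit 291) (nat_lit 289)) (XT.nd (nat_lit 78) (nat_lit 380) (nat_lit 0) (XT.lf (nat_lit 0) (nat_lit 3084708060) (nat_lit 380) (nat_lit 4382319408) (nat_lit 380) (nat_lit 331526232) (nat_lit 84) (nat_lit 4) (nat_lit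 89) (nat_lit 5) (nat_lit 89) (nat_lit 4) (nat_lit 321) (nat_lit 291) (nat_lit 288)) (XT.lf (nat_lit 0) (nat_lit 1056269744) (nat_lit 304) (nat_lit 2031935763) (nat_lit 380) (nat_lit 4853170661) (nat_lit 79) (nat_lit 5) (nat_lit 83) (nat_lit 5) (nat_lit 84) (nat_lit 4) (nat_lit 322) (nat_lit 291) (nat_lit 287)))) (XT.nd (nat_lit 78) (nat_lit 608) (nat_lit 0) (XT.lf (nat_lit 0) (nat_lit 6607362785) (nat_lit 380) (nat_lit 1012888785) (nat_lit 0) (nat_lit 473995443) (nat_lit 79) (nat_lit 5) (nat_lit 84) (nat_lit 4) (nat_lit 79) (nat_lit 4) (nat_lit 323) (nat_lit 291) (nat_lit 286)) (XT.nd (nat_lit 78) (nat_lit 228) (nat_lit 0) (XT.lf (nat_lit 0) (nat_lit 1953223600) (nat_lit 380) (nat_lit 3186387451) (nat_lit 76) (nat_lit 3115142809) (nat_lit 74) (nat_lit 5) (nat_lit 79) (nat_lit 5) (nat_lit 75) (nat_lit 4) (nat_lit 324) (nat_lit 291) (nat_lit 285)) (XT.lf (nat_lit 0) (nat_lit 2952986156) (nat_lit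 228) (nat_lit 2486170443) (nat_lit 304) (nat_lit 2986857754) (nat_lit 71) (nat_lit 5) (nat_lit 74) (nat_lit 5) (nat_lit 75) (nat_lit 4) (nat_lit 325) (nat_lit 291) (nat_lit 284))))))))
noncomputable def xc76 : XT := (XT.nd (nat_lit 1794) (nat_lit 1216) (nat_lit 0) (XT.nd (nat_lit 858) (nat_lit 1216) (nat_lit 0) (XT.nd (nat_lit 390) (nat_lit 1140) (nat_lit 0) (XT.nd (nat_lit 156) (nat_lit 532) (nat_lit 0) (XT.nd (nat_lit 78) (nat_lit 0) (nat_lit 0) (XT.lf (nat_lit 0) (nat_lit 411004107) (nat_lit 380) (nat_lit 7877566891) (nat_lit 76) (nat_lit 320342782) (nat_lit 66) (nat_lit 5) (nat_lit 71) (nat_lit 5) (nat_lit 67) (nat_lit 4) (nat_lit 326) (nat_lit 291) (nat_lit 283)) (XT.lf (nat_lit 0) (nat_lit 3878080425) (nat_lit 380) (nat_lit 1639762666) (nat_lit 76) (nat_lit 3280799791) (nat_lit 66) (nat_lit 5) (nat_lit 71) (nat_lit 5) (nat_lit 67) (nat_lit 4) (nat_lit 327) (nat_lit 291) (nat_lit 282)))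 (XT.nd (nat_lit 78) (nat_lit 304) (nat_lit 0) (XT.lf (nat_lit 0) (nat_lit 4887161393) (nat_lit 228) (nat_lit 2578827272) (nat_lit 304) (nat_lit 1534608169) (nat_lit 63) (nat_lit 5) (nat_lit 66) (nat_lit 5) (nat_lit 67) (nat_lit 4) (nat_lit 328) (nat_lit 291) (nat_lit 281)) (XT.nd (nat_lit 78) (nat_lit 0) (nat_lit 0) (XT.lf (nat_lit 0) (nat_lit 1903573285) (nat_lit 304) (nat_lit 6770970888) (nat_lit 76) (nat_lit 539248642) (nat_lit 59) (nat_lit 5) (nat_lit 63) (nat_lit 5) (nat_lit 60) (nat_lit 4) (nat_lit 329) (nat_lit 291) (nat_lit 280)) (XT.lf (nat_lit 0) (nat_lit 5450037564) (nat_lit 304) (nat_lit 216225291) (nat_lit 76) (nat_lit 3770827543) (nat_lit 59) (nat_lit 5) (nat_lit 63) (nat_lit 5) (nat_lit 60) (nat_lit 4) (nat_lit 330) (nat_lit 291) (nat_lit 279))))) (XT.nd (nat_lit 234) (nat_lit 456) (nat_lit 0) (XT.nd (nat_lit 78) (nat_lit 456) (nat_lit 0) (XT.lf (nat_lit 0) (nat_lit 6706442960)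 (nat_lit 228) (nat_lit 2452912995) (nat_lit 304) (nat_lit 513012749) (nat_lit 56) (nat_lit 5) (nat_lit 59) (nat_lit 5) (nat_lit 60) (nat_lit 4) (nat_lit 331) (nat_lit 291) (nat_lit 278)) (XT.nd (nat_lit 78) (nat_lit 152) (nat_lit 0) (XT.lf (nat_lit 0) (nat_lit 2997229787) (nat_lit 304) (nat_lit 5969223640) (nat_lit 76) (nat_lit 952452635) (nat_lit 52) (nat_lit 5) (nat_lit 56) (nat_lit 5) (nat_lit 53) (nat_lit 4) (nat_lit 332) (nat_lit 291) (nat_lit 277)) (XT.lf (nat_lit 0) (nat_lit 941728446) (nat_lit 152) (nat_lit 5713843188) (nat_lit 228) (nat_lit 3522366574) (nat_lit 50) (nat_lit 5) (nat_lit 52) (nat_lit 5) (nat_lit 53) (nat_lit 4) (nat_lit 333) (nat_lit 291) (nat_lit 276)))) (XT.nd (nat_lit 78) (nat_lit 380) (nat_lit 0) (XT.lf (nat_lit 0) (nat_lit 32884867) (nat_lit 228) (nat_lit 2220557736) (nat_lit 76) (nat_lit 8197141248) (nat_lit 49) (nat_lit 5) (nat_lit 52) (nat_lit 5) (nat_lit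 50) (nat_lit 5) (nat_lit 334) (nat_lit 291) (nat_lit 275)) (XT.nd (nat_lit 78) (nat_lit 152) (nat_lit 0) (XT.lf (nat_lit 0) (nat_lit 3639910841) (nat_lit 304) (nat_lit 5677928430) (nat_lit 76) (nat_lit 1416584934) (nat_lit 46) (nat_lit 5) (nat_lit 50) (nat_lit 5) (nat_lit 47) (nat_lit 4) (nat_lit 335) (nat_lit 291) (nat_lit 274)) (XT.lf (nat_lit 0) (nat_lit 1585103272) (nat_lit 152) (nat_lit 5833985347) (nat_lit 228) (nat_lit 3613843592) (nat_lit 44) (nat_lit 5) (nat_lit 46) (nat_lit 5) (nat_lit 47) (nat_lit 4) (nat_lit 336) (nat_lit 291) (nat_lit 273)))))) (XT.nd (nat_lit 468) (nat_lit 532) (nat_lit 0) (XT.nd (nat_lit 234) (nat_lit 304) (nat_lit 0) (XT.nd (nat_lit 78) (nat_lit 304) (nat_lit 0) (XT.lf (nat_lit 0) (nat_lit 29889411) (nat_lit 228) (nat_lit 2108187345) (nat_lit 76) (nat_lit 9208799645) (nat_lit 43) (nat_lit 5) (nat_lit 46) (nat_lit 5) (nat_lit 44) (nat_lit 5) (nat_lit 337)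 (nat_lit 291) (nat_lit 272)) (XT.nd (nat_lit 78) (nat_lit 152) (nat_lit 0) (XT.lf (nat_lit 0) (nat_lit 3747390795) (nat_lit 228) (nat_lit 6150714373) (nat_lit 76) (nat_lit 1774855657) (nat_lit 41) (nat_lit 5) (nat_lit 44) (nat_lit 5) (nat_lit 42) (nat_lit 4) (nat_lit 338) (nat_lit 291) (nat_lit 271)) (XT.lf (nat_lit 0) (nat_lit 1438199585) (nat_lit 152) (nat_lit 6205451976) (nat_lit 228) (nat_lit 4372107713) (nat_lit 39) (nat_lit 5) (nat_lit 41) (nat_lit 5) (nat_lit 42) (nat_lit 4) (nat_lit 339) (nat_lit 291) (nat_lit 270)))) (XT.nd (nat_lit 78) (nat_lit 304) (nat_lit 0) (XT.lf (nat_lit 0) (nat_lit 9456750804) (nat_lit 152) (nat_lit 2283485839) (nat_lit 228) (nat_lit 635236883) (nat_lit 39) (nat_lit 5) (nat_lit 41) (nat_lit 5) (nat_lit 42) (nat_lit 4) (nat_lit 340) (nat_lit 291) (nat_lit 269)) (XT.nd (nat_lit 78) (nat_lit 76) (nat_lit 0) (XT.lf (nat_lit 0) (nat_lit 3196719109) (nat_lit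 228) (nat_lit 7705881593) (nat_lit 76) (nat_lit 1847377665) (nat_lit 36) (nat_lit 5) (nat_lit 39) (nat_lit 5) (nat_lit 37) (nat_lit 4) (nat_lit 341) (nat_lit 291) (nat_lit 268)) (XT.lf (nat_lit 0) (nat_lit 162236374) (nat_lit 76) (nat_lit 7032482534) (nat_lit 152) (nat_lit 5948223588) (nat_lit 35) (nat_lit 5) (nat_lit 36) (nat_lit 5) (nat_lit 37) (nat_lit 4) (nat_lit 342) (nat_lit 291) (nat_lit 267))))) (XT.nd (nat_lit 234) (nat_lit 304) (nat_lit 0) (XT.nd (nat_lit 78) (nat_lit 228) (nat_lit 0) (XT.lf (nat_lit 0) (nat_lit 8533921163) (nat_lit 76) (nat_lit 2896825922) (nat_lit 152) (nat_lit 2122943654) (nat_lit 35) (nat_lit 5) (nat_lit 36) (nat_lit 5) (nat_lit 37) (nat_lit 4) (nat_lit 343) (nat_lit 291) (nat_lit 266)) (XT.nd (nat_lit 78) (nat_lit 0) (nat_lit 0) (XT.lf (nat_lit 0) (nat_lit 1817351427) (nat_lit 228) (nat_lit 10747208579) (nat_lit 76) (nat_lit 1419758647) (nat_lit 32) (nat_lit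 5) (nat_lit 35) (nat_lit 5) (nat_lit 33) (nat_lit 4) (nat_lit 344) (nat_lit 291) (nat_lit 265)) (XT.lf (nat_lit 0) (nat_lit 5928684490) (nat_lit 228) (nat_lit 2588642553) (nat_lit 76) (nat_lit 5915178963) (nat_lit 32) (nat_lit 5) (nat_lit 35) (nat_lit 5) (nat_lit 33) (nat_lit 4) (nat_lit 345) (nat_lit 291) (nat_lit 264)))) (XT.nd (nat_lit 78) (nat_lit 228) (nat_lit 0) (XT.lf (nat_lit 0) (nat_lit 6024148800) (nat_lit 76) (nat_lit 4231178046) (nat_lit 152) (nat_lit 4647323568) (nat_lit 31) (nat_lit 5) (nat_lit 32) (nat_lit 5) (nat_lit 33) (nat_lit 4) (nat_lit 346) (nat_lit 291) (nat_lit 263)) (XT.nd (nat_lit 78) (nat_lit 228) (nat_lit 0) (XT.lf (nat_lit 0) (nat_lit 14763555340) (nat_lit 152) (nat_lit 388930331) (nat_lit 0) (nat_lit 245586835) (nat_lit 31) (nat_lit 5) (nat_lit 33) (nat_lit 4) (nat_lit 31) (nat_lit 4) (nat_lit 347) (nat_lit 291) (nat_lit 262)) (XT.lf (nat_lit 0) (nat_lit 3590334015)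 (nat_lit 228) (nat_lit 7379639277) (nat_lit 76) (nat_lit 4939231005) (nat_lit 28) (nat_lit 5) (nat_lit 31) (nat_lit 5) (nat_lit 29) (nat_lit 4) (nat_lit 348) (nat_lit 291) (nat_lit 261))))))) (XT.nd (nat_lit 936) (nat_lit 456) (nat_lit 0) (XT.nd (nat_lit 468) (nat_lit 380) (nat_lit 0) (XT.nd (nat_lit 234) (nat_lit 152) (nat_lit 0) (XT.nd (nat_lit 78) (nat_lit 152) (nat_lit 0) (XT.lf (nat_lit 0) (nat_lit 1354035794) (nat_lit 76) (nat_lit 6599696283) (nat_lit 152) (nat_lit 8494237739) (nat_lit 27) (nat_lit 5) (nat_lit 28) (nat_lit 5) (nat_lit 29) (nat_lit 4) (nat_lit 349) (nat_lit 291) (nat_lit 260)) (XT.nd (nat_lit 78) (nat_lit 152) (nat_lit 0) (XT.lf (nat_lit 0) (nat_lit 10642152163) (nat_lit 76) (nat_lit 1940529110) (nat_lit 152) (nat_lit 4428650560) (nat_lit 27) (nat_lit 5) (nat_lit 28) (nat_lit 5) (nat_lit 29) (nat_lit 4) (nat_lit 350) (nat_lit 291) (nat_lit 259)) (XT.lf (nat_lit 0)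 (nat_lit 2697392706) (nat_lit 152) (nat_lit 14759075511) (nat_lit 152) (nat_lit 145750203) (nat_lit 25) (nat_lit 4) (nat_lit 27) (nat_lit 5) (nat_lit 27) (nat_lit 4) (nat_lit 351) (nat_lit 291) (nat_lit 258)))) (XT.nd (nat_lit 78) (nat_lit 76) (nat_lit 0) (XT.lf (nat_lit 0) (nat_lit 4278933392) (nat_lit 228) (nat_lit 6015341446) (nat_lit 76) (nat_lit 7921655929) (nat_lit 24) (nat_lit 5) (nat_lit 27) (nat_lit 5) (nat_lit 25) (nat_lit 4) (nat_lit 352) (nat_lit 291) (nat_lit 257)) (XT.nd (nat_lit 78) (nat_lit 0) (nat_lit 0) (XT.lf (nat_lit 0) (nat_lit 3293067894) (nat_lit 76) (nat_lit 5607310051) (nat_lit 152) (nat_lit 9960832518) (nat_lit 23) (nat_lit 5) (nat_lit 24) (nat_lit 5) (nat_lit 25) (nat_lit 4) (nat_lit 353) (nat_lit 291) (nat_lit 256)) (XT.lf (nat_lit 0) (nat_lit 13149251767) (nat_lit 76) (nat_lit 635932245) (nat_lit 152) (nat_lit 5751977044) (nat_lit 23) (nat_lit 5) (nat_lit 24)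 (nat_lit 5) (nat_lit 25) (nat_lit 4) (nat_lit 354) (nat_lit 291) (nat_lit 255))))) (XT.nd (nat_lit 234) (nat_lit 152) (nat_lit 0) (XT.nd (nat_lit 78) (nat_lit 152) (nat_lit 0) (XT.lf (nat_lit 0) (nat_lit 3157888826) (nat_lit 76) (nat_lit 15810098339) (nat_lit 76) (nat_lit 1276254533) (nat_lit 22) (nat_lit 4) (nat_lit 23) (nat_lit 5) (nat_lit 23) (nat_lit 4) (nat_lit 355) (nat_lit 291) (nat_lit 254)) (XT.nd (nat_lit 78) (nat_lit 76) (nat_lit 0) (XT.lf (nat_lit 0) (nat_lit 3367163277) (nat_lit 152) (nat_lit 7767359121) (nat_lit 76) (nat_lit 9846826378) (nat_lit 21) (nat_lit 5) (nat_lit 23) (nat_lit 5) (nat_lit 22) (nat_lit 4) (nat_lit 356) (nat_lit 291) (nat_lit 253)) (XT.lf (nat_lit 0) (nat_lit 1941470524) (nat_lit 76) (nat_lit 6224982491) (nat_lit 152) (nat_lit 13589500090) (nat_lit 20) (nat_lit 5) (nat_lit 21) (nat_lit 5) (nat_lit 22) (nat_lit 4) (nat_lit 357) (nat_lit 291) (nat_lit 252))))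 (XT.nd (nat_lit 78) (nat_lit 152) (nat_lit 0) (XT.lf (nat_lit 0) (nat_lit 12289968484) (nat_lit 76) (nat_lit 984794486) (nat_lit 152) (nat_lit 9291088646) (nat_lit 20) (nat_lit 5) (nat_lit 21) (nat_lit 5) (nat_lit 22) (nat_lit 4) (nat_lit 358) (nat_lit 291) (nat_lit 251)) (XT.nd (nat_lit 78) (nat_lit 152) (nat_lit 0) (XT.lf (nat_lit 0) (nat_lit 18648717783) (nat_lit 152) (nat_lit 443028554) (nat_lit 0) (nat_lit 4324003197) (nat_lit 20) (nat_lit 5) (nat_lit 22) (nat_lit 4) (nat_lit 20) (nat_lit 4) (nat_lit 359) (nat_lit 291) (nat_lit 250)) (XT.lf (nat_lit 0) (nat_lit 101764664) (nat_lit 152) (nat_lit 14222813315) (nat_lit 76) (nat_lit 9977691939) (nat_lit 18) (nat_lit 5) (nat_lit 20) (nat_lit 5) (nat_lit 19) (nat_lit 4) (nat_lit 360) (nat_lit 291) (nat_lit 249)))))) (XT.nd (nat_lit 468) (nat_lit 228) (nat_lit 0) (XT.nd (nat_lit 234) (nat_lit 152) (nat_lit 0) (XT.nd (nat_lit 78) (nat_lit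 76) (nat_lit 0) (XT.lf (nat_lit 0) (nat_lit 5004151282) (nat_lit 152) (nat_lit 4274555311) (nat_lit 76) (nat_lit 15952998408) (nat_lit 18) (nat_lit 5) (nat_lit 20) (nat_lit 5) (nat_lit 19) (nat_lit 4) (nat_lit 361) (nat_lit 291) (nat_lit 248)) (XT.nd (nat_lit 78) (nat_lit 0) (nat_lit 0) (XT.lf (nat_lit 0) (nat_lit 6269896142) (nat_lit 76) (nat_lit 3925106981) (nat_lit 152) (nat_lit 16010454545) (nat_lit 17) (nat_lit 5) (nat_lit 18) (nat_lit 5) (nat_lit 19) (nat_lit 4) (nat_lit 362) (nat_lit 291) (nat_lit 247)) (XT.lf (nat_lit 0) (nat_lit 15691215647) (nat_lit 152) (nat_lit 9864184275) (nat_lit 0) (nat_lit 1670219641) (nat_lit 17) (nat_lit 5) (nat_lit 19) (nat_lit 4) (nat_lit 17) (nat_lit 4) (nat_lit 363) (nat_lit 291) (nat_lit 246)))) (XT.nd (nat_lit 78) (nat_lit 76) (nat_lit 0) (XT.lf (nat_lit 0) (nat_lit 567227591) (nat_lit 76) (nat_lit 20916553871) (nat_lit 76) (nat_lit 6811942859) (nat_lit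 16) (nat_lit 4) (nat_lit 17) (nat_lit 5) (nat_lit 17) (nat_lit 4) (nat_lit 364) (nat_lit 291) (nat_lit 245)) (XT.nd (nat_lit 78) (nat_lit 76) (nat_lit 0) (XT.lf (nat_lit 0) (nat_lit 11766899249) (nat_lit 76) (nat_lit 15915436377) (nat_lit 76) (nat_lit 1731192026) (nat_lit 16) (nat_lit 4) (nat_lit 17) (nat_lit 5) (nat_lit 17) (nat_lit 4) (nat_lit 365) (nat_lit 291) (nat_lit 244)) (XT.lf (nat_lit 0) (nat_lit 3439176177) (nat_lit 152) (nat_lit 7209774461) (nat_lit 76) (nat_lit 19937921812) (nat_lit 15) (nat_lit 5) (nat_lit 17) (nat_lit 5) (nat_lit 16) (nat_lit 4) (nat_lit 366) (nat_lit 291) (nat_lit 243))))) (XT.nd (nat_lit 234) (nat_lit 152) (nat_lit 0) (XT.nd (nat_lit 78) (nat_lit 0) (nat_lit 0) (XT.lf (nat_lit 0) (nat_lit 3752211847) (nat_lit 76) (nat_lit 5069508767) (nat_lit 152) (nat_lit 22995162796) (nat_lit 14) (nat_lit 5) (nat_lit 15) (nat_lit 5) (nat_lit 16) (nat_lit 4) (nat_lit 367)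 (nat_lit 291) (nat_lit 242)) (XT.nd (nat_lit 78) (nat_lit 0) (nat_lit 0) (XT.lf (nat_lit 0) (nat_lit 14563292330) (nat_lit 152) (nat_lit 17692663330) (nat_lit 0) (nat_lit 847953582) (nat_lit 14) (nat_lit 5) (nat_lit 16) (nat_lit 4) (nat_lit 14) (nat_lit 4) (nat_lit 368) (nat_lit 291) (nat_lit 241)) (XT.lf (nat_lit 0) (nat_lit 20630744913) (nat_lit 152) (nat_lit 6969598860) (nat_lit 0) (nat_lit 6853011360) (nat_lit 14) (nat_lit 5) (nat_lit 16) (nat_lit 4) (nat_lit 14) (nat_lit 4) (nat_lit 369) (nat_lit 291) (nat_lit 240)))) (XT.nd (nat_lit 78) (nat_lit 76) (nat_lit 0) (XT.lf (nat_lit 0) (nat_lit 4348377424) (nat_lit 76) (nat_lit 22678888373) (nat_lit 76) (nat_lit 8841731196) (nat_lit 13) (nat_lit 4) (nat_lit 14) (nat_lit 5) (nat_lit 14) (nat_lit 4) (nat_lit 370) (nat_lit 291) (nat_lit 239)) (XT.nd (nat_lit 78) (nat_lit 76) (nat_lit 0) (XT.lf (nat_lit 0) (nat_lit 16395101659) (nat_lit 76)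 (nat_lit 17425123905) (nat_lit 76) (nat_lit 3531372800) (nat_lit 13) (nat_lit 4) (nat_lit 14) (nat_lit 5) (nat_lit 14) (nat_lit 4) (nat_lit 371) (nat_lit 291) (nat_lit 238)) (XT.lf (nat_lit 0) (nat_lit 1938964234) (nat_lit 152) (nat_lit 9972773401) (nat_lit 76) (nat_lit 26997008573) (nat_lit 12) (nat_lit 5) (nat_lit 14) (nat_lit 5) (nat_lit 13) (nat_lit 4) (nat_lit 372) (nat_lit 291) (nat_lit 237))))))))
noncomputable def xc77 : XT := (XT.nd (nat_lit 1794) (nat_lit 228) (nat_lit 0) (XT.nd (nat_lit 858) (nat_lit 228) (nat_lit 0) (XT.nd (nat_lit 390) (nat_lit 152) (nat_lit 0) (XT.nd (nat_lit 156) (nat_lit 76) (nat_lit 0) (XT.nd (nat_lit 78) (nat_lit 0) (nat_lit 0) (XT.lf (nat_lit 0) (nat_lit 1476467291) (nat_lit 76) (nat_lit 6072532579) (nat_lit 152) (nat_lit 32992621016) (nat_lit 11) (nat_lit 5) (nat_lit 12) (nat_lit 5) (nat_lit 13) (nat_lit 4) (nat_lit 373) (nat_lit 291) (nat_lit 236))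 (XT.lf (nat_lit 0) (nat_lit 13574082824) (nat_lit 152) (nat_lit 28480177196) (nat_lit 0) (nat_lit 195158628) (nat_lit 11) (nat_lit 5) (nat_lit 13) (nat_lit 4) (nat_lit 11) (nat_lit 4) (nat_lit 374) (nat_lit 291) (nat_lit 235))) (XT.nd (nat_lit 78) (nat_lit 76) (nat_lit 0) (XT.lf (nat_lit 0) (nat_lit 19963748329) (nat_lit 152) (nat_lit 17535216553) (nat_lit 0) (nat_lit 6540481310) (nat_lit 11) (nat_lit 5) (nat_lit 13) (nat_lit 4) (nat_lit 11) (nat_lit 4) (nat_lit 375) (nat_lit 291) (nat_lit 234)) (XT.nd (nat_lit 78) (nat_lit 76) (nat_lit 0) (XT.lf (nat_lit 0) (nat_lit 26638400621) (nat_lit 152) (nat_lit 6109402986) (nat_lit 0) (nat_lit 13172902342) (nat_lit 11) (nat_lit 5) (nat_lit 13) (nat_lit 4) (nat_lit 11) (nat_lit 4) (nat_lit 376) (nat_lit 291) (nat_lit 233)) (XT.lf (nat_lit 0) (nat_lit 6017051033) (nat_lit 76) (nat_lit 27690823725) (nat_lit 76) (nat_lit 14185105199) (nat_lit 10) (nat_lit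 4) (nat_lit 11) (nat_lit 5) (nat_lit 11) (nat_lit 4) (nat_lit 377) (nat_lit 291) (nat_lit 232))))) (XT.nd (nat_lit 234) (nat_lit 76) (nat_lit 0) (XT.nd (nat_lit 78) (nat_lit 76) (nat_lit 0) (XT.lf (nat_lit 0) (nat_lit 18899718889) (nat_lit 76) (nat_lit 22302308752) (nat_lit 76) (nat_lit 8758285227) (nat_lit 10) (nat_lit 4) (nat_lit 11) (nat_lit 5) (nat_lit 11) (nat_lit 4) (nat_lit 378) (nat_lit 291) (nat_lit 231)) (XT.nd (nat_lit 78) (nat_lit 76) (nat_lit 0) (XT.lf (nat_lit 0) (nat_lit 32367269145) (nat_lit 76) (nat_lit 16672894584) (nat_lit 76) (nat_lit 3092390110) (nat_lit 10) (nat_lit 4) (nat_lit 11) (nat_lit 5) (nat_lit 11) (nat_lit 4) (nat_lit 379) (nat_lit 291) (nat_lit 230)) (XT.lf (nat_lit 0) (nat_lit 2735618478) (nat_lit 152) (nat_lit 8007230355) (nat_lit 76) (nat_lit 43669819897) (nat_lit 9) (nat_lit 5) (nat_lit 11) (nat_lit 5) (nat_lit 10) (nat_lit 4) (nat_lit 380) (nat_lit 291)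 (nat_lit 229)))) (XT.nd (nat_lit 78) (nat_lit 0) (nat_lit 0) (XT.lf (nat_lit 0) (nat_lit 4373321811) (nat_lit 76) (nat_lit 4417731527) (nat_lit 152) (nat_lit 48011208245) (nat_lit 8) (nat_lit 5) (nat_lit 9) (nat_lit 5) (nat_lit 10) (nat_lit 4) (nat_lit 381) (nat_lit 291) (nat_lit 228)) (XT.nd (nat_lit 78) (nat_lit 0) (nat_lit 0) (XT.lf (nat_lit 0) (nat_lit 15293580598) (nat_lit 152) (nat_lit 41745390791) (nat_lit 0) (nat_lit 2265150931) (nat_lit 8) (nat_lit 5) (nat_lit 10) (nat_lit 4) (nat_lit 8) (nat_lit 4) (nat_lit 382) (nat_lit 291) (nat_lit 227)) (XT.lf (nat_lit 0) (nat_lit 22166774147) (nat_lit 152) (nat_lit 30652268320) (nat_lit 0) (nat_lit 9109760700) (nat_lit 8) (nat_lit 5) (nat_lit 10) (nat_lit 4) (nat_lit 8) (nat_lit 4) (nat_lit 383) (nat_lit 291) (nat_lit 226)))))) (XT.nd (nat_lit 468) (nat_lit 152) (nat_lit 0) (XT.nd (nat_lit 234) (nat_lit 0) (nat_lit 0) (XT.nd (nat_lit 78)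 (nat_lit 76) (nat_lit 0) (XT.lf (nat_lit 0) (nat_lit 29358025562) (nat_lit 152) (nat_lit 19054186992) (nat_lit 0) (nat_lit 16273789468) (nat_lit 8) (nat_lit 5) (nat_lit 10) (nat_lit 4) (nat_lit 8) (nat_lit 4) (nat_lit 384) (nat_lit 291) (nat_lit 225)) (XT.nd (nat_lit 78) (nat_lit 76) (nat_lit 0) (XT.lf (nat_lit 0) (nat_lit 36884456869) (nat_lit 152) (nat_lit 6923532329) (nat_lit 0) (nat_lit 23774294446) (nat_lit 8) (nat_lit 5) (nat_lit 10) (nat_lit 4) (nat_lit 8) (nat_lit 4) (nat_lit 385) (nat_lit 291) (nat_lit 224)) (XT.lf (nat_lit 0) (nat_lit 5959313425) (nat_lit 76) (nat_lit 38897716302) (nat_lit 76) (nat_lit 25762862136) (nat_lit 7) (nat_lit 4) (nat_lit 8) (nat_lit 5) (nat_lit 8) (nat_lit 4) (nat_lit 386) (nat_lit 291) (nat_lit 223)))) (XT.nd (nat_lit 78) (nat_lit 0) (nat_lit 0) (XT.lf (nat_lit 0) (nat_lit 19682321038) (nat_lit 76) (nat_lit 33640355330) (nat_lit 76) (nat_lit 20481985218)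 (nat_lit 7) (nat_lit 4) (nat_lit 8) (nat_lit 5) (nat_lit 8) (nat_lit 4) (nat_lit 387) (nat_lit 291) (nat_lit 222)) (XT.nd (nat_lit 78) (nat_lit 0) (nat_lit 0) (XT.lf (nat_lit 0) (nat_lit 34049241087) (nat_lit 76) (nat_lit 28140642125) (nat_lit 76) (nat_lit 14959875874) (nat_lit 7) (nat_lit 4) (nat_lit 8) (nat_lit 5) (nat_lit 8) (nat_lit 4) (nat_lit 388) (nat_lit 291) (nat_lit 221)) (XT.lf (nat_lit 0) (nat_lit 49094280527) (nat_lit 76) (nat_lit 22385482134) (nat_lit 76) (nat_lit 9183386226) (nat_lit 7) (nat_lit 4) (nat_lit 8) (nat_lit 5) (nat_lit 8) (nat_lit 4) (nat_lit 389) (nat_lit 291) (nat_lit 220))))) (XT.nd (nat_lit 234) (nat_lit 0) (nat_lit 0) (XT.nd (nat_lit 78) (nat_lit 152) (nat_lit 0) (XT.lf (nat_lit 0) (nat_lit 64853260879) (nat_lit 76) (nat_lit 16361172593) (nat_lit 76) (nat_lit 3138762728) (nat_lit 7) (nat_lit 4) (nat_lit 8) (nat_lit 5) (nat_lit 8) (nat_lit 4) (nat_lit 390)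 (nat_lit 291) (nat_lit 219)) (XT.nd (nat_lit 78) (nat_lit 76) (nat_lit 0) (XT.lf (nat_lit 0) (nat_lit 3086338300) (nat_lit 152) (nat_lit 6914762977) (nat_lit 76) (nat_lit 78225096594) (nat_lit 6) (nat_lit 5) (nat_lit 8) (nat_lit 5) (nat_lit 7) (nat_lit 4) (nat_lit 391) (nat_lit 291) (nat_lit 218)) (XT.lf (nat_lit 0) (nat_lit 6418285662) (nat_lit 76) (nat_lit 3180966783) (nat_lit 152) (nat_lit 82686924866) (nat_lit 5) (nat_lit 5) (nat_lit 6) (nat_lit 5) (nat_lit 7) (nat_lit 4) (nat_lit 392) (nat_lit 291) (nat_lit 217)))) (XT.nd (nat_lit 78) (nat_lit 0) (nat_lit 0) (XT.lf (nat_lit 0) (nat_lit 16600869802) (nat_lit 152) (nat_lit 75984722589) (nat_lit 0) (nat_lit 3955412838) (nat_lit 5) (nat_lit 5) (nat_lit 7) (nat_lit 4) (nat_lit 5) (nat_lit 4) (nat_lit 393) (nat_lit 291) (nat_lit 216)) (XT.nd (nat_lit 78) (nat_lit 0) (nat_lit 0) (XT.lf (nat_lit 0) (nat_lit 23987468563) (nat_lit 152) (nat_lit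 65693268136) (nat_lit 0) (nat_lit 11326095081) (nat_lit 5) (nat_lit 5) (nat_lit 7) (nat_lit 4) (nat_lit 5) (nat_lit 4) (nat_lit 394) (nat_lit 291) (nat_lit 215)) (XT.lf (nat_lit 0) (nat_lit 31726972063) (nat_lit 152) (nat_lit 54919361022) (nat_lit 0) (nat_lit 19050439993) (nat_lit 5) (nat_lit 5) (nat_lit 7) (nat_lit 4) (nat_lit 5) (nat_lit 4) (nat_lit 395) (nat_lit 291) (nat_lit 214))))))) (XT.nd (nat_lit 936) (nat_lit 152) (nat_lit 0) (XT.nd (nat_lit 468) (nat_lit 0) (nat_lit 0) (XT.nd (nat_lit 234) (nat_lit 76) (nat_lit 0) (XT.nd (nat_lit 78) (nat_lit 0) (nat_lit 0) (XT.lf (nat_lit 0) (nat_lit 39837807691) (nat_lit 152) (nat_lit 43637349087) (nat_lit 0) (nat_lit 27146838870) (nat_lit 5) (nat_lit 5) (nat_lit 7) (nat_lit 4) (nat_lit 5) (nat_lit 4) (nat_lit 396) (nat_lit 291) (nat_lit 213)) (XT.nd (nat_lit 78) (nat_lit 0) (nat_lit 0) (XT.lf (nat_lit 0) (nat_lit 48339286961) (nat_lit 152)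 (nat_lit 31820370398) (nat_lit 0) (nat_lit 35634568853) (nat_lit 5) (nat_lit 5) (nat_lit 7) (nat_lit 4) (nat_lit 5) (nat_lit 4) (nat_lit 397) (nat_lit 291) (nat_lit 212)) (XT.lf (nat_lit 0) (nat_lit 57251651489) (nat_lit 152) (nat_lit 19440289290) (nat_lit 0) (nat_lit 44533838823) (nat_lit 5) (nat_lit 5) (nat_lit 7) (nat_lit 4) (nat_lit 5) (nat_lit 4) (nat_lit 398) (nat_lit 291) (nat_lit 211)))) (XT.nd (nat_lit 78) (nat_lit 76) (nat_lit 0) (XT.lf (nat_lit 0) (nat_lit 66596121191) (nat_lit 152) (nat_lit 6467629382) (nat_lit 0) (nat_lit 53865837517) (nat_lit 5) (nat_lit 5) (nat_lit 7) (nat_lit 4) (nat_lit 5) (nat_lit 4) (nat_lit 399) (nat_lit 291) (nat_lit 210)) (XT.nd (nat_lit 78) (nat_lit 0) (nat_lit 0) (XT.lf (nat_lit 0) (nat_lit 7364196904) (nat_lit 76) (nat_lit 69145723653) (nat_lit 76) (nat_lit 56403562828) (nat_lit 4) (nat_lit 4) (nat_lit 5) (nat_lit 5) (nat_lit 5) (nat_lit 4) (nat_lit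 400) (nat_lit 291) (nat_lit 209)) (XT.lf (nat_lit 0) (nat_lit 22087395002) (nat_lit 76) (nat_lit 64928903997) (nat_lit 76) (nat_lit 52175431600) (nat_lit 4) (nat_lit 4) (nat_lit 5) (nat_lit 5) (nat_lit 5) (nat_lit 4) (nat_lit 401) (nat_lit 291) (nat_lit 208))))) (XT.nd (nat_lit 234) (nat_lit 0) (nat_lit 0) (XT.nd (nat_lit 78) (nat_lit 0) (nat_lit 0) (XT.lf (nat_lit 0) (nat_lit 37523171109) (nat_lit 76) (nat_lit 60512783992) (nat_lit 76) (nat_lit 47748538670) (nat_lit 4) (nat_lit 4) (nat_lit 5) (nat_lit 5) (nat_lit 5) (nat_lit 4) (nat_lit 402) (nat_lit 291) (nat_lit 207)) (XT.nd (nat_lit 78) (nat_lit 0) (nat_lit 0) (XT.lf (nat_lit 0) (nat_lit 53708277072) (nat_lit 76) (nat_lit 55886849067) (nat_lit 76) (nat_lit 43112343815) (nat_lit 4) (nat_lit 4) (nat_lit 5) (nat_lit 5) (nat_lit 5) (nat_lit 4) (nat_lit 403) (nat_lit 291) (nat_lit 206)) (XT.lf (nat_lit 0) (nat_lit 70681248860) (nat_lit 76)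 (nat_lit 51040085090) (nat_lit 76) (nat_lit 38255808478) (nat_lit 4) (nat_lit 4) (nat_lit 5) (nat_lit 5) (nat_lit 5) (nat_lit 4) (nat_lit 404) (nat_lit 291) (nat_lit 205)))) (XT.nd (nat_lit 78) (nat_lit 0) (nat_lit 0) (XT.lf (nat_lit 0) (nat_lit 88482498308) (nat_lit 76) (nat_lit 45960952149) (nat_lit 76) (nat_lit 33167369478) (nat_lit 4) (nat_lit 4) (nat_lit 5) (nat_lit 5) (nat_lit 5) (nat_lit 4) (nat_lit 405) (nat_lit 291) (nat_lit 204)) (XT.nd (nat_lit 78) (nat_lit 0) (nat_lit 0) (XT.lf (nat_lit 0) (nat_lit 107154409345) (nat_lit 76) (nat_lit 40637357068) (nat_lit 76) (nat_lit 27834911484) (nat_lit 4) (nat_lit 4) (nat_lit 5) (nat_lit 5) (nat_lit 5) (nat_lit 4) (nat_lit 406) (nat_lit 291) (nat_lit 203)) (XT.lf (nat_lit 0) (nat_lit 126741438901) (nat_lit 76) (nat_lit 35056624622) (nat_lit 76) (nat_lit 22245738169) (nat_lit 4) (nat_lit 4) (nat_lit 5) (nat_lit 5) (nat_lit 5) (nat_lit 4)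 (nat_lit 407) (nat_lit 291) (nat_lit 202)))))) (XT.nd (nat_lit 468) (nat_lit 0) (nat_lit 0) (XT.nd (nat_lit 234) (nat_lit 152) (nat_lit 0) (XT.nd (nat_lit 78) (nat_lit 0) (nat_lit 0) (XT.lf (nat_lit 0) (nat_lit 147290222761) (nat_lit 76) (nat_lit 29205467352) (nat_lit 76) (nat_lit 16386541976) (nat_lit 4) (nat_lit 4) (nat_lit 5) (nat_lit 5) (nat_lit 5) (nat_lit 4) (nat_lit 408) (nat_lit 291) (nat_lit 201)) (XT.nd (nat_lit 78) (nat_lit 0) (nat_lit 0) (XT.lf (nat_lit 0) (nat_lit 168849686601) (nat_lit 76) (nat_lit 23069953932) (nat_lit 76) (nat_lit 10243372439) (nat_lit 4) (nat_lit 4) (nat_lit 5) (nat_lit 5) (nat_lit 5) (nat_lit 4) (nat_lit 409) (nat_lit 291) (nat_lit 200)) (XT.lf (nat_lit 0) (nat_lit 191471162477) (nat_lit 76) (nat_lit 16635475996) (nat_lit 76) (nat_lit 3801602963) (nat_lit 4) (nat_lit 4) (nat_lit 5) (nat_lit 5) (nat_lit 5) (nat_lit 4) (nat_lit 410) (nat_lit 291) (nat_lit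 199)))) (XT.nd (nat_lit 78) (nat_lit 76) (nat_lit 0) (XT.lf (nat_lit 0) (nat_lit 2859554221) (nat_lit 152) (nat_lit 6978731203) (nat_lit 76) (nat_lit 212300528891) (nat_lit 3) (nat_lit 5) (nat_lit 5) (nat_lit 5) (nat_lit 4) (nat_lit 4) (nat_lit 411) (nat_lit 291) (nat_lit 198)) (XT.nd (nat_lit 78) (nat_lit 0) (nat_lit 0) (XT.lf (nat_lit 0) (nat_lit 7309433506) (nat_lit 76) (nat_lit 2523183325) (nat_lit 152) (nat_lit 223039853519) (nat_lit 2) (nat_lit 5) (nat_lit 3) (nat_lit 5) (nat_lit 4) (nat_lit 4) (nat_lit 412) (nat_lit 291) (nat_lit 197)) (XT.lf (nat_lit 0) (nat_lit 17347490294) (nat_lit 152) (nat_lit 221679818904) (nat_lit 0) (nat_lit 5105842955) (nat_lit 2) (nat_lit 5) (nat_lit 4) (nat_lit 4) (nat_lit 2) (nat_lit 4) (nat_lit 413) (nat_lit 291) (nat_lit 196))))) (XT.nd (nat_lit 234) (nat_lit 0) (nat_lit 0) (XT.nd (nat_lit 78) (nat_lit 0) (nat_lit 0) (XT.lf (nat_lit 0) (nat_lit 25272334212)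 (nat_lit 152) (nat_lit 217657849549) (nat_lit 0) (nat_lit 13024973761) (nat_lit 2) (nat_lit 5) (nat_lit 4) (nat_lit 4) (nat_lit 2) (nat_lit 4) (nat_lit 414) (nat_lit 291) (nat_lit 195)) (XT.nd (nat_lit 78) (nat_lit 0) (nat_lit 0) (XT.lf (nat_lit 0) (nat_lit 33586623298) (nat_lit 152) (nat_lit 213448158699) (nat_lit 0) (nat_lit 21333821787) (nat_lit 2) (nat_lit 5) (nat_lit 4) (nat_lit 4) (nat_lit 2) (nat_lit 4) (nat_lit 415) (nat_lit 291) (nat_lit 194)) (XT.lf (nat_lit 0) (nat_lit 42310153479) (nat_lit 152) (nat_lit 209040723281) (nat_lit 0) (nat_lit 30052170006) (nat_lit 2) (nat_lit 5) (nat_lit 4) (nat_lit 4) (nat_lit 2) (nat_lit 4) (nat_lit 416) (nat_lit 291) (nat_lit 193)))) (XT.nd (nat_lit 78) (nat_lit 0) (nat_lit 0) (XT.lf (nat_lit 0) (nat_lit 51463695064) (nat_lit 152) (nat_lit 204425049401) (nat_lit 0) (nat_lit 39200776390) (nat_lit 2) (nat_lit 5) (nat_lit 4) (nat_lit 4) (nat_lit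 2) (nat_lit 4) (nat_lit 417) (nat_lit 291) (nat_lit 192)) (XT.nd (nat_lit 78) (nat_lit 0) (nat_lit 0) (XT.lf (nat_lit 0) (nat_lit 61069042200) (nat_lit 152) (nat_lit 199590147358) (nat_lit 0) (nat_lit 48801423335) (nat_lit 2) (nat_lit 5) (nat_lit 4) (nat_lit 4) (nat_lit 2) (nat_lit 4) (nat_lit 418) (nat_lit 291) (nat_lit 191)) (XT.lf (nat_lit 0) (nat_lit 71149064762) (nat_lit 152) (nat_lit 194524505482) (nat_lit 0) (nat_lit 58876969523) (nat_lit 2) (nat_lit 5) (nat_lit 4) (nat_lit 4) (nat_lit 2) (nat_lit 4) (nat_lit 419) (nat_lit 291) (nat_lit 190))))))))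
noncomputable def xc78 : XT := (XT.nd (nat_lit 39234) (nat_lit 0) (nat_lit 2280) (XT.nd (nat_lit 858) (nat_lit 0) (nat_lit 0) (XT.nd (nat_lit 390) (nat_lit 0) (nat_lit 0) (XT.nd (nat_lit 156) (nat_lit 0) (nat_lit 0) (XT.nd (nat_lit 78) (nat_lit 0) (nat_lit 0) (XT.lf (nat_lit 0) (nat_lit 81727762802) (nat_lit 152) (nat_lit 189216062720) (nat_lit 0) (nat_lit 69451404351) (nat_lit 2) (nat_lit 5) (nat_lit 4) (nat_lit 4) (nat_lit 2) (nat_lit 4) (nat_lit 420) (nat_lit 291) (nat_lit 189)) (XT.lf (nat_lit 0) (nat_lit 92830323698) (nat_lit 152) (nat_lit 183652179924) (nat_lit 0) (nat_lit 80549905045) (nat_lit 2) (nat_lit 5) (nat_lit 4) (nat_lit 4) (nat_lit 2) (nat_lit 4) (nat_lit 421) (nat_lit 291) (nat_lit 188))) (XT.nd (nat_lit 78) (nat_lit 0) (nat_lit 0) (XT.lf (nat_lit 0) (nat_lit 104483182119) (nat_lit 152) (nat_lit 177819609752) (nat_lit 0) (nat_lit 92198896606) (nat_lit 2) (nat_lit 5) (nat_lit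 4) (nat_lit 4) (nat_lit 2) (nat_lit 4) (nat_lit 422) (nat_lit 291) (nat_lit 187)) (XT.nd (nat_lit 78) (nat_lit 0) (nat_lit 0) (XT.lf (nat_lit 0) (nat_lit 116714082964) (nat_lit 152) (nat_lit 171704465133) (nat_lit 0) (nat_lit 104426114728) (nat_lit 2) (nat_lit 5) (nat_lit 4) (nat_lit 4) (nat_lit 2) (nat_lit 4) (nat_lit 423) (nat_lit 291) (nat_lit 186)) (XT.lf (nat_lit 0) (nat_lit 129552147427) (nat_lit 152) (nat_lit 165292186200) (nat_lit 0) (nat_lit 117260671835) (nat_lit 2) (nat_lit 5) (nat_lit 4) (nat_lit 4) (nat_lit 2) (nat_lit 4) (nat_lit 424) (nat_lit 291) (nat_lit 185))))) (XT.nd (nat_lit 234) (nat_lit 0) (nat_lit 0) (XT.nd (nat_lit 78) (nat_lit 0) (nat_lit 0) (XT.lf (nat_lit 0) (nat_lit 143027942327) (nat_lit 152) (nat_lit 158567505620) (nat_lit 0) (nat_lit 130733126397) (nat_lit 2) (nat_lit 5) (nat_lit 4) (nat_lit 4) (nat_lit 2) (nat_lit 4) (nat_lit 425) (nat_lit 291) (nat_lit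 184)) (XT.nd (nat_lit 78) (nat_lit 0) (nat_lit 0) (XT.lf (nat_lit 0) (nat_lit 157173552892) (nat_lit 152) (nat_lit 151514412251) (nat_lit 0) (nat_lit 144875555686) (nat_lit 2) (nat_lit 5) (nat_lit 4) (nat_lit 4) (nat_lit 2) (nat_lit 4) (nat_lit 426) (nat_lit 291) (nat_lit 183)) (XT.lf (nat_lit 0) (nat_lit 172022659145) (nat_lit 152) (nat_lit 144116113012) (nat_lit 0) (nat_lit 159721632154) (nat_lit 2) (nat_lit 5) (nat_lit 4) (nat_lit 4) (nat_lit 2) (nat_lit 4) (nat_lit 427) (nat_lit 291) (nat_lit 182)))) (XT.nd (nat_lit 78) (nat_lit 0) (nat_lit 0) (XT.lf (nat_lit 0) (nat_lit 187610616102) (nat_lit 152) (nat_lit 136354992905) (nat_lit 0) (nat_lit 175306703601) (nat_lit 2) (nat_lit 5) (nat_lit 4) (nat_lit 4) (nat_lit 2) (nat_lit 4) (nat_lit 428) (nat_lit 291) (nat_lit 181)) (XT.nd (nat_lit 78) (nat_lit 0) (nat_lit 0) (XT.lf (nat_lit 0) (nat_lit 203974537946) (nat_lit 152) (nat_lit 128212573073)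 (nat_lit 0) (nat_lit 191667877340) (nat_lit 2) (nat_lit 5) (nat_lit 4) (nat_lit 4) (nat_lit 2) (nat_lit 4) (nat_lit 429) (nat_lit 291) (nat_lit 180)) (XT.lf (nat_lit 0) (nat_lit 221153386395) (nat_lit 152) (nat_lit 119669466803) (nat_lit 0) (nat_lit 208844108547) (nat_lit 2) (nat_lit 5) (nat_lit 4) (nat_lit 4) (nat_lit 2) (nat_lit 4) (nat_lit 430) (nat_lit 291) (nat_lit 179)))))) (XT.nd (nat_lit 37908) (nat_lit 0) (nat_lit 6156) (XT.nd (nat_lit 234) (nat_lit 0) (nat_lit 0) (XT.nd (nat_lit 78) (nat_lit 0) (nat_lit 0) (XT.lf (nat_lit 0) (nat_lit 239188063471) (nat_lit 152) (nat_lit 110705333364) (nat_lit 0) (nat_lit 226876293010) (nat_lit 2) (nat_lit 5) (nat_lit 4) (nat_lit 4) (nat_lit 2) (nat_lit 4) (nat_lit 431) (nat_lit 291) (nat_lit 178)) (XT.nd (nat_lit 78) (nat_lit 0) (nat_lit 0) (XT.lf (nat_lit 0) (nat_lit 258121508879) (nat_lit 152) (nat_lit 101298829582) (nat_lit 0) (nat_lit 245807364503)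 (nat_lit 2) (nat_lit 5) (nat_lit 4) (nat_lit 4) (nat_lit 2) (nat_lit 4) (nat_lit 432) (nat_lit 291) (nat_lit 177)) (XT.lf (nat_lit 0) (nat_lit 277998802253) (nat_lit 152) (nat_lit 91427559019) (nat_lit 0) (nat_lit 265682397003) (nat_lit 2) (nat_lit 5) (nat_lit 4) (nat_lit 4) (nat_lit 2) (nat_lit 4) (nat_lit 433) (nat_lit 291) (nat_lit 176)))) (XT.nd (nat_lit 78) (nat_lit 0) (nat_lit 0) (XT.lf (nat_lit 0) (nat_lit 298867270480) (nat_lit 152) (nat_lit 81068018651) (nat_lit 0) (nat_lit 286548712019) (nat_lit 2) (nat_lit 5) (nat_lit 4) (nat_lit 4) (nat_lit 2) (nat_lit 4) (nat_lit 434) (nat_lit 291) (nat_lit 175)) (XT.nd (nat_lit 78) (nat_lit 0) (nat_lit 0) (XT.lf (nat_lit 0) (nat_lit 320776600391) (nat_lit 152) (nat_lit 70195542904) (nat_lit 0) (nat_lit 308455991251) (nat_lit 2) (nat_lit 5) (nat_lit 4) (nat_lit 4) (nat_lit 2) (nat_lit 4) (nat_lit 435) (nat_lit 291) (nat_lit 174)) (XT.lf (nat_lit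 0) (nat_lit 343778957056) (nat_lit 152) (nat_lit 58784244933) (nat_lit 0) (nat_lit 331456394890) (nat_lit 2) (nat_lit 5) (nat_lit 4) (nat_lit 4) (nat_lit 2) (nat_lit 4) (nat_lit 436) (nat_lit 291) (nat_lit 173))))) (XT.nd (nat_lit 234) (nat_lit 836) (nat_lit 0) (XT.nd (nat_lit 78) (nat_lit 1216) (nat_lit 0) (XT.lf (nat_lit 0) (nat_lit 2614466711) (nat_lit 684) (nat_lit 496332064) (nat_lit 684) (nat_lit 496332064) (nat_lit 110) (nat_lit 4) (nat_lit 119) (nat_lit 5) (nat_lit 119) (nat_lit 4) (nat_lit 316) (nat_lit 292) (nat_lit 292)) (XT.nd (nat_lit 78) (nat_lit 380) (nat_lit 0) (XT.lf (nat_lit 0) (nat_lit 2403318523) (nat_lit 836) (nat_lit 4071676491) (nat_lit 0) (nat_lit 841458278) (nat_lit 99) (nat_lit 5) (nat_lit 110) (nat_lit 4) (nat_lit 99) (nat_lit 4) (nat_lit 317) (nat_lit 292) (nat_lit 291)) (XT.lf (nat_lit 0) (nat_lit 1211782921) (nat_lit 380) (nat_lit 4632640842) (nat_lit 380)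 (nat_lit 1583294650) (nat_lit 94) (nat_lit 4) (nat_lit 99) (nat_lit 5) (nat_lit 99) (nat_lit 4) (nat_lit 318) (nat_lit 292) (nat_lit 290)))) (XT.nd (nat_lit 78) (nat_lit 760) (nat_lit 0) (XT.lf (nat_lit 0) (nat_lit 1763393764) (nat_lit 456) (nat_lit 851042259) (nat_lit 76) (nat_lit 4933230174) (nat_lit 93) (nat_lit 5) (nat_lit 99) (nat_lit 5) (nat_lit 94) (nat_lit 4) (nat_lit 319) (nat_lit 292) (nat_lit 289)) (XT.nd (nat_lit 78) (nat_lit 456) (nat_lit 0) (XT.lf (nat_lit 0) (nat_lit 4736578479) (nat_lit 304) (nat_lit 410627159) (nat_lit 380) (nat_lit 2529140970) (nat_lit 89) (nat_lit 5) (nat_lit 93) (nat_lit 5) (nat_lit 94) (nat_lit 4) (nat_lit 320) (nat_lit 292) (nat_lit 288)) (XT.lf (nat_lit 0) (nat_lit 798982810) (nat_lit 456) (nat_lit 5124122731) (nat_lit 76) (nat_lit 1890893565) (nat_lit 83) (nat_lit 5) (nat_lit 89) (nat_lit 5) (nat_lit 84) (nat_lit 4) (nat_lit 321) (nat_lit 292) (nat_lit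 287))))))) (XT.nd (nat_lit 936) (nat_lit 1520) (nat_lit 0) (XT.nd (nat_lit 468) (nat_lit 1064) (nat_lit 0) (XT.nd (nat_lit 234) (nat_lit 608) (nat_lit 0) (XT.nd (nat_lit 78) (nat_lit 380) (nat_lit 0) (XT.lf (nat_lit 0) (nat_lit 537545771) (nat_lit 304) (nat_lit 3591755412) (nat_lit 380) (nat_lit 3831278793) (nat_lit 79) (nat_lit 5) (nat_lit 83) (nat_lit 5) (nat_lit 84) (nat_lit 4) (nat_lit 322) (nat_lit 292) (nat_lit 286)) (XT.nd (nat_lit 78) (nat_lit 380) (nat_lit 0) (XT.lf (nat_lit 0) (nat_lit 6485391054) (nat_lit 304) (nat_lit 1086754129) (nat_lit 380) (nat_lit 545194715) (nat_lit 79) (nat_lit 5) (nat_lit 83) (nat_lit 5) (nat_lit 84) (nat_lit 4) (nat_lit 323) (nat_lit 292) (nat_lit 285)) (XT.lf (nat_lit 0) (nat_lit 2769486379) (nat_lit 380) (nat_lit 3936491078) (nat_lit 76) (nat_lit 1575965093) (nat_lit 74) (nat_lit 5) (nat_lit 79) (nat_lit 5) (nat_lit 75) (nat_lit 4) (nat_lit 324) (nat_lit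 292) (nat_lit 284)))) (XT.nd (nat_lit 78) (nat_lit 380) (nat_lit 0) (XT.lf (nat_lit 0) (nat_lit 2090111758) (nat_lit 228) (nat_lit 4086910982) (nat_lit 304) (nat_lit 2280163550) (nat_lit 71) (nat_lit 5) (nat_lit 74) (nat_lit 5) (nat_lit 75) (nat_lit 4) (nat_lit 325) (nat_lit 292) (nat_lit 283)) (XT.nd (nat_lit 78) (nat_lit 304) (nat_lit 0) (XT.lf (nat_lit 0) (nat_lit 1014175090) (nat_lit 304) (nat_lit 277850437) (nat_lit 76) (nat_lit 7351611267) (nat_lit 70) (nat_lit 5) (nat_lit 74) (nat_lit 5) (nat_lit 71) (nat_lit 5) (nat_lit 326) (nat_lit 292) (nat_lit 282)) (XT.lf (nat_lit 0) (nat_lit 4393683280) (nat_lit 380) (nat_lit 2760258250) (nat_lit 76) (nat_lit 1683857552) (nat_lit 66) (nat_lit 5) (nat_lit 71) (nat_lit 5) (nat_lit 67) (nat_lit 4) (nat_lit 327) (nat_lit 292) (nat_lit 281))))) (XT.nd (nat_lit 234) (nat_lit 532) (nat_lit 0) (XT.nd (nat_lit 78) (nat_lit 304) (nat_lit 0) (XT.lf (nat_lit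 0) (nat_lit 3643617215) (nat_lit 228) (nat_lit 4258710466) (nat_lit 304) (nat_lit 1141440718) (nat_lit 63) (nat_lit 5) (nat_lit 66) (nat_lit 5) (nat_lit 67) (nat_lit 4) (nat_lit 328) (nat_lit 292) (nat_lit 280)) (XT.nd (nat_lit 78) (nat_lit 0) (nat_lit 0) (XT.lf (nat_lit 0) (nat_lit 1029665932) (nat_lit 228) (nat_lit 1164306599) (nat_lit 304) (nat_lit 7067241469) (nat_lit 59) (nat_lit 5) (nat_lit 62) (nat_lit 5) (nat_lit 63) (nat_lit 5) (nat_lit 329) (nat_lit 292) (nat_lit 279)) (XT.lf (nat_lit 0) (nat_lit 5664124345) (nat_lit 304) (nat_lit 1743728130) (nat_lit 76) (nat_lit 2080519798) (nat_lit 59) (nat_lit 5) (nat_lit 63) (nat_lit 5) (nat_lit 60) (nat_lit 4) (nat_lit 330) (nat_lit 292) (nat_lit 278)))) (XT.nd (nat_lit 78) (nat_lit 304) (nat_lit 0) (XT.lf (nat_lit 0) (nat_lit 5044702872) (nat_lit 228) (nat_lit 4247429372) (nat_lit 304) (nat_lit 435626782) (nat_lit 56) (nat_lit 5) (nat_lit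 59) (nat_lit 5) (nat_lit 60) (nat_lit 4) (nat_lit 331) (nat_lit 292) (nat_lit 277)) (XT.nd (nat_lit 78) (nat_lit 0) (nat_lit 0) (XT.lf (nat_lit 0) (nat_lit 2106361959) (nat_lit 228) (nat_lit 866484566) (nat_lit 304) (nat_lit 7006393000) (nat_lit 52) (nat_lit 5) (nat_lit 55) (nat_lit 5) (nat_lit 56) (nat_lit 5) (nat_lit 332) (nat_lit 292) (nat_lit 276)) (XT.lf (nat_lit 0) (nat_lit 6549001350) (nat_lit 304) (nat_lit 1061116817) (nat_lit 76) (nat_lit 2632299933) (nat_lit 52) (nat_lit 5) (nat_lit 56) (nat_lit 5) (nat_lit 53) (nat_lit 4) (nat_lit 333) (nat_lit 292) (nat_lit 275)))))) (XT.nd (nat_lit 468) (nat_lit 684) (nat_lit 0) (XT.nd (nat_lit 234) (nat_lit 380) (nat_lit 0) (XT.nd (nat_lit 78) (nat_lit 304) (nat_lit 0) (XT.lf (nat_lit 0) (nat_lit 6111405970) (nat_lit 152) (nat_lit 4196836605) (nat_lit 228) (nat_lit 210371487) (nat_lit 50) (nat_lit 5) (nat_lit 52) (nat_lit 5) (nat_lit 53) (nat_lit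 4) (nat_lit 334) (nat_lit 292) (nat_lit 274)) (XT.nd (nat_lit 78) (nat_lit 0) (nat_lit 0) (XT.lf (nat_lit 0) (nat_lit 2743217253) (nat_lit 228) (nat_lit 549828787) (nat_lit 304) (nat_lit 7515121711) (nat_lit 46) (nat_lit 5) (nat_lit 49) (nat_lit 5) (nat_lit 50) (nat_lit 5) (nat_lit 335) (nat_lit 292) (nat_lit 273)) (XT.lf (nat_lit 0) (nat_lit 6988665393) (nat_lit 304) (nat_lit 923970163) (nat_lit 76) (nat_lit 3198248627) (nat_lit 46) (nat_lit 5) (nat_lit 50) (nat_lit 5) (nat_lit 47) (nat_lit 4) (nat_lit 336) (nat_lit 292) (nat_lit 272)))) (XT.nd (nat_lit 78) (nat_lit 228) (nat_lit 0) (XT.lf (nat_lit 0) (nat_lit 6620957403) (nat_lit 152) (nat_lit 4262433009) (nat_lit 228) (nat_lit 544689345) (nat_lit 44) (nat_lit 5) (nat_lit 46) (nat_lit 5) (nat_lit 47) (nat_lit 4) (nat_lit 337) (nat_lit 292) (nat_lit 271)) (XT.nd (nat_lit 78) (nat_lit 0) (nat_lit 0) (XT.lf (nat_lit 0) (nat_lit 2693919655)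 (nat_lit 152) (nat_lit 375553429) (nat_lit 228) (nat_lit 8691181274) (nat_lit 41) (nat_lit 5) (nat_lit 43) (nat_lit 5) (nat_lit 44) (nat_lit 5) (nat_lit 338) (nat_lit 292) (nat_lit 270)) (XT.lf (nat_lit 0) (nat_lit 6890536212) (nat_lit 228) (nat_lit 1595119996) (nat_lit 76) (nat_lit 3621581575) (nat_lit 41) (nat_lit 5) (nat_lit 44) (nat_lit 5) (nat_lit 42) (nat_lit 4) (nat_lit 339) (nat_lit 292) (nat_lit 269))))) (XT.nd (nat_lit 234) (nat_lit 304) (nat_lit 0) (XT.nd (nat_lit 78) (nat_lit 228) (nat_lit 0) (XT.lf (nat_lit 0) (nat_lit 6294802078) (nat_lit 152) (nat_lit 4620759165) (nat_lit 228) (nat_lit 1554992697) (nat_lit 39) (nat_lit 5) (nat_lit 41) (nat_lit 5) (nat_lit 42) (nat_lit 4) (nat_lit 340) (nat_lit 292) (nat_lit 268)) (XT.nd (nat_lit 78) (nat_lit 0) (nat_lit 0) (XT.lf (nat_lit 0) (nat_lit 1649294692) (nat_lit 152) (nat_lit 529431854) (nat_lit 228) (nat_lit 10673455644) (nat_lit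 36) (nat_lit 5) (nat_lit 38) (nat_lit 5) (nat_lit 39) (nat_lit 5) (nat_lit 341) (nat_lit 292) (nat_lit 267)) (XT.lf (nat_lit 0) (nat_lit 6122065291) (nat_lit 228) (nat_lit 3406005006) (nat_lit 76) (nat_lit 3719829722) (nat_lit 36) (nat_lit 5) (nat_lit 39) (nat_lit 5) (nat_lit 37) (nat_lit 4) (nat_lit 342) (nat_lit 292) (nat_lit 266)))) (XT.nd (nat_lit 78) (nat_lit 228) (nat_lit 0) (XT.lf (nat_lit 0) (nat_lit 4779951590) (nat_lit 76) (nat_lit 5480291355) (nat_lit 152) (nat_lit 3403317507) (nat_lit 35) (nat_lit 5) (nat_lit 36) (nat_lit 5) (nat_lit 37) (nat_lit 4) (nat_lit 343) (nat_lit 292) (nat_lit 265)) (XT.nd (nat_lit 78) (nat_lit 152) (nat_lit 0) (XT.lf (nat_lit 0) (nat_lit 462582903) (nat_lit 152) (nat_lit 758092816) (nat_lit 76) (nat_lit 12880298726) (nat_lit 34) (nat_lit 5) (nat_lit 36) (nat_lit 5) (nat_lit 35) (nat_lit 5) (nat_lit 344) (nat_lit 292) (nat_lit 264)) (XT.lf (nat_lit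 0) (nat_lit 4501302629) (nat_lit 228) (nat_lit 6778389886) (nat_lit 76) (nat_lit 3273116935) (nat_lit 32) (nat_lit 5) (nat_lit 35) (nat_lit 5) (nat_lit 33) (nat_lit 4) (nat_lit 345) (nat_lit 292) (nat_lit 263))))))))
noncomputable def xc79 : XT := (XT.nd (nat_lit 1872) (nat_lit 684) (nat_lit 0) (XT.nd (nat_lit 936) (nat_lit 532) (nat_lit 0) (XT.nd (nat_lit 468) (nat_lit 456) (nat_lit 0) (XT.nd (nat_lit 234) (nat_lit 76) (nat_lit 0) (XT.nd (nat_lit 78) (nat_lit 228) (nat_lit 0) (XT.lf (nat_lit 0) (nat_lit 1625552308) (nat_lit 76) (nat_lit 7094549290) (nat_lit 152) (nat_lit 6308260606) (nat_lit 31) (nat_lit 5) (nat_lit 32) (nat_lit 5) (nat_lit 33) (nat_lit 4) (nat_lit 346) (nat_lit 292) (nat_lit 262)) (XT.nd (nat_lit 78) (nat_lit 228) (nat_lit 0) (XT.lf (nat_lit 0) (nat_lit 10547736063) (nat_lit 76) (nat_lit 2638283601) (nat_lit 152) (nat_lit 2339895560) (nat_lit 31) (nat_lit 5) (nat_lit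 32) (nat_lit 5) (nat_lit 33) (nat_lit 4) (nat_lit 347) (nat_lit 292) (nat_lit 261)) (XT.lf (nat_lit 0) (nat_lit 1784476360) (nat_lit 228) (nat_lit 12251785131) (nat_lit 76) (nat_lit 2009883886) (nat_lit 28) (nat_lit 5) (nat_lit 31) (nat_lit 5) (nat_lit 29) (nat_lit 4) (nat_lit 348) (nat_lit 292) (nat_lit 260)))) (XT.nd (nat_lit 78) (nat_lit 76) (nat_lit 0) (XT.lf (nat_lit 0) (nat_lit 6089936573) (nat_lit 228) (nat_lit 3626821175) (nat_lit 76) (nat_lit 6871063349) (nat_lit 28) (nat_lit 5) (nat_lit 31) (nat_lit 5) (nat_lit 29) (nat_lit 4) (nat_lit 349) (nat_lit 292) (nat_lit 259)) (XT.nd (nat_lit 78) (nat_lit 0) (nat_lit 0) (XT.lf (nat_lit 0) (nat_lit 5477057003) (nat_lit 76) (nat_lit 5147282158) (nat_lit 152) (nat_lit 6531583959) (nat_lit 27) (nat_lit 5) (nat_lit 28) (nat_lit 5) (nat_lit 29) (nat_lit 4) (nat_lit 350) (nat_lit 292) (nat_lit 258)) (XT.lf (nat_lit 0) (nat_lit 15036468742) (nat_lit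 76) (nat_lit 340032766) (nat_lit 152) (nat_lit 2376401500) (nat_lit 27) (nat_lit 5) (nat_lit 28) (nat_lit 5) (nat_lit 29) (nat_lit 4) (nat_lit 351) (nat_lit 292) (nat_lit 257))))) (XT.nd (nat_lit 234) (nat_lit 152) (nat_lit 0) (XT.nd (nat_lit 78) (nat_lit 76) (nat_lit 0) (XT.lf (nat_lit 0) (nat_lit 2035207474) (nat_lit 228) (nat_lit 11693718908) (nat_lit 76) (nat_lit 4643664727) (nat_lit 24) (nat_lit 5) (nat_lit 27) (nat_lit 5) (nat_lit 25) (nat_lit 4) (nat_lit 352) (nat_lit 292) (nat_lit 256)) (XT.nd (nat_lit 78) (nat_lit 76) (nat_lit 0) (XT.lf (nat_lit 0) (nat_lit 6572258181) (nat_lit 228) (nat_lit 2550433524) (nat_lit 76) (nat_lit 9899409221) (nat_lit 24) (nat_lit 5) (nat_lit 27) (nat_lit 5) (nat_lit 25) (nat_lit 4) (nat_lit 353) (nat_lit 292) (nat_lit 255)) (XT.lf (nat_lit 0) (nat_lit 7162659590) (nat_lit 76) (nat_lit 4220941836) (nat_lit 152) (nat_lit 8318133165) (nat_lit 23) (nat_lit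 5) (nat_lit 24) (nat_lit 5) (nat_lit 25) (nat_lit 4) (nat_lit 354) (nat_lit 292) (nat_lit 254)))) (XT.nd (nat_lit 78) (nat_lit 152) (nat_lit 0) (XT.lf (nat_lit 0) (nat_lit 16429948540) (nat_lit 152) (nat_lit 3095496481) (nat_lit 0) (nat_lit 890202473) (nat_lit 23) (nat_lit 5) (nat_lit 25) (nat_lit 4) (nat_lit 23) (nat_lit 4) (nat_lit 355) (nat_lit 292) (nat_lit 253)) (XT.nd (nat_lit 78) (nat_lit 0) (nat_lit 0) (XT.lf (nat_lit 0) (nat_lit 662609111) (nat_lit 152) (nat_lit 14311111706) (nat_lit 76) (nat_lit 6185248879) (nat_lit 21) (nat_lit 5) (nat_lit 23) (nat_lit 5) (nat_lit 22) (nat_lit 4) (nat_lit 356) (nat_lit 292) (nat_lit 252)) (XT.lf (nat_lit 0) (nat_lit 5401984156) (nat_lit 152) (nat_lit 4718930310) (nat_lit 76) (nat_lit 11815663465) (nat_lit 21) (nat_lit 5) (nat_lit 23) (nat_lit 5) (nat_lit 22) (nat_lit 4) (nat_lit 357) (nat_lit 292) (nat_lit 251)))))) (XT.nd (nat_lit 468) (nat_lit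 228) (nat_lit 0) (XT.nd (nat_lit 234) (nat_lit 152) (nat_lit 0) (XT.nd (nat_lit 78) (nat_lit 76) (nat_lit 0) (XT.lf (nat_lit 0) (nat_lit 5419908611) (nat_lit 76) (nat_lit 4985243170) (nat_lit 152) (nat_lit 12346589557) (nat_lit 20) (nat_lit 5) (nat_lit 21) (nat_lit 5) (nat_lit 22) (nat_lit 4) (nat_lit 358) (nat_lit 292) (nat_lit 250)) (XT.nd (nat_lit 78) (nat_lit 76) (nat_lit 0) (XT.lf (nat_lit 0) (nat_lit 15688634462) (nat_lit 152) (nat_lit 7488620062) (nat_lit 0) (nat_lit 428915750) (nat_lit 20) (nat_lit 5) (nat_lit 22) (nat_lit 4) (nat_lit 20) (nat_lit 4) (nat_lit 359) (nat_lit 292) (nat_lit 249)) (XT.lf (nat_lit 0) (nat_lit 2751369652) (nat_lit 76) (nat_lit 18554909674) (nat_lit 76) (nat_lit 3193556399) (nat_lit 19) (nat_lit 4) (nat_lit 20) (nat_lit 5) (nat_lit 20) (nat_lit 4) (nat_lit 360) (nat_lit 292) (nat_lit 248)))) (XT.nd (nat_lit 78) (nat_lit 76) (nat_lit 0) (XT.lf (nat_lit 0)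 (nat_lit 1784436768) (nat_lit 152) (nat_lit 11800052720) (nat_lit 76) (nat_lit 11848611100) (nat_lit 18) (nat_lit 5) (nat_lit 20) (nat_lit 5) (nat_lit 19) (nat_lit 4) (nat_lit 361) (nat_lit 292) (nat_lit 247)) (XT.nd (nat_lit 78) (nat_lit 76) (nat_lit 0) (XT.lf (nat_lit 0) (nat_lit 6852057770) (nat_lit 152) (nat_lit 1503615210) (nat_lit 76) (nat_lit 18057347914) (nat_lit 18) (nat_lit 5) (nat_lit 20) (nat_lit 5) (nat_lit 19) (nat_lit 4) (nat_lit 362) (nat_lit 292) (nat_lit 246)) (XT.lf (nat_lit 0) (nat_lit 9519919011) (nat_lit 76) (nat_lit 2752299724) (nat_lit 152) (nat_lit 15164772438) (nat_lit 17) (nat_lit 5) (nat_lit 18) (nat_lit 5) (nat_lit 19) (nat_lit 4) (nat_lit 363) (nat_lit 292) (nat_lit 245))))) (XT.nd (nat_lit 234) (nat_lit 152) (nat_lit 0) (XT.nd (nat_lit 78) (nat_lit 76) (nat_lit 0) (XT.lf (nat_lit 0) (nat_lit 17988957724) (nat_lit 152) (nat_lit 7506067263) (nat_lit 0) (nat_lit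 3015867816) (nat_lit 17) (nat_lit 5) (nat_lit 19) (nat_lit 4) (nat_lit 17) (nat_lit 4) (nat_lit 364) (nat_lit 292) (nat_lit 244)) (XT.nd (nat_lit 78) (nat_lit 0) (nat_lit 0) (XT.lf (nat_lit 0) (nat_lit 3400926064) (nat_lit 76) (nat_lit 20641968689) (nat_lit 76) (nat_lit 5593037505) (nat_lit 16) (nat_lit 4) (nat_lit 17) (nat_lit 5) (nat_lit 17) (nat_lit 4) (nat_lit 365) (nat_lit 292) (nat_lit 243)) (XT.lf (nat_lit 0) (nat_lit 15026993824) (nat_lit 76) (nat_lit 15453672124) (nat_lit 76) (nat_lit 332511154) (nat_lit 16) (nat_lit 4) (nat_lit 17) (nat_lit 5) (nat_lit 17) (nat_lit 4) (nat_lit 366) (nat_lit 292) (nat_lit 242)))) (XT.nd (nat_lit 78) (nat_lit 76) (nat_lit 0) (XT.lf (nat_lit 0) (nat_lit 4980376418) (nat_lit 152) (nat_lit 4980179585) (nat_lit 76) (nat_lit 22086911146) (nat_lit 15) (nat_lit 5) (nat_lit 17) (nat_lit 5) (nat_lit 16) (nat_lit 4) (nat_lit 367) (nat_lit 292) (nat_lit 241))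 (XT.nd (nat_lit 78) (nat_lit 0) (nat_lit 0) (XT.lf (nat_lit 0) (nat_lit 6488130498) (nat_lit 76) (nat_lit 4118501836) (nat_lit 152) (nat_lit 22733630769) (nat_lit 14) (nat_lit 5) (nat_lit 15) (nat_lit 5) (nat_lit 16) (nat_lit 4) (nat_lit 368) (nat_lit 292) (nat_lit 240)) (XT.lf (nat_lit 0) (nat_lit 16589200788) (nat_lit 152) (nat_lit 16103994410) (nat_lit 0) (nat_lit 2000762129) (nat_lit 14) (nat_lit 5) (nat_lit 16) (nat_lit 4) (nat_lit 14) (nat_lit 4) (nat_lit 369) (nat_lit 292) (nat_lit 239))))))) (XT.nd (nat_lit 936) (nat_lit 304) (nat_lit 0) (XT.nd (nat_lit 468) (nat_lit 152) (nat_lit 0) (XT.nd (nat_lit 234) (nat_lit 152) (nat_lit 0) (XT.nd (nat_lit 78) (nat_lit 76) (nat_lit 0) (XT.lf (nat_lit 0) (nat_lit 22898228675) (nat_lit 152) (nat_lit 4962553006) (nat_lit 0) (nat_lit 8253196088) (nat_lit 14) (nat_lit 5) (nat_lit 16) (nat_lit 4) (nat_lit 14) (nat_lit 4) (nat_lit 370) (nat_lit 292)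 (nat_lit 238)) (XT.nd (nat_lit 78) (nat_lit 0) (nat_lit 0) (XT.lf (nat_lit 0) (nat_lit 6883329741) (nat_lit 76) (nat_lit 22708574459) (nat_lit 76) (nat_lit 8009642893) (nat_lit 13) (nat_lit 4) (nat_lit 14) (nat_lit 5) (nat_lit 14) (nat_lit 4) (nat_lit 371) (nat_lit 292) (nat_lit 237)) (XT.lf (nat_lit 0) (nat_lit 19422031451) (nat_lit 76) (nat_lit 17244705497) (nat_lit 76) (nat_lit 2494441571) (nat_lit 13) (nat_lit 4) (nat_lit 14) (nat_lit 5) (nat_lit 14) (nat_lit 4) (nat_lit 372) (nat_lit 292) (nat_lit 236)))) (XT.nd (nat_lit 78) (nat_lit 76) (nat_lit 0) (XT.lf (nat_lit 0) (nat_lit 3154636537) (nat_lit 152) (nat_lit 8332146987) (nat_lit 76) (nat_lit 29311259930) (nat_lit 12) (nat_lit 5) (nat_lit 14) (nat_lit 5) (nat_lit 13) (nat_lit 4) (nat_lit 373) (nat_lit 292) (nat_lit 235)) (XT.nd (nat_lit 78) (nat_lit 0) (nat_lit 0) (XT.lf (nat_lit 0) (nat_lit 3655051464) (nat_lit 76) (nat_lit 5369711129)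 (nat_lit 152) (nat_lit 33488829547) (nat_lit 11) (nat_lit 5) (nat_lit 12) (nat_lit 5) (nat_lit 13) (nat_lit 4) (nat_lit 374) (nat_lit 292) (nat_lit 234)) (XT.lf (nat_lit 0) (nat_lit 15313764303) (nat_lit 152) (nat_lit 27862131652) (nat_lit 0) (nat_lit 1132759850) (nat_lit 11) (nat_lit 5) (nat_lit 13) (nat_lit 4) (nat_lit 11) (nat_lit 4) (nat_lit 375) (nat_lit 292) (nat_lit 233))))) (XT.nd (nat_lit 234) (nat_lit 76) (nat_lit 0) (XT.nd (nat_lit 78) (nat_lit 76) (nat_lit 0) (XT.lf (nat_lit 0) (nat_lit 21972390353) (nat_lit 152) (nat_lit 16467163663) (nat_lit 0) (nat_lit 7751165652) (nat_lit 11) (nat_lit 5) (nat_lit 13) (nat_lit 4) (nat_lit 11) (nat_lit 4) (nat_lit 376) (nat_lit 292) (nat_lit 232)) (XT.nd (nat_lit 78) (nat_lit 76) (nat_lit 0) (XT.lf (nat_lit 0) (nat_lit 28932658373) (nat_lit 152) (nat_lit 4562669595) (nat_lit 0) (nat_lit 14673128675) (nat_lit 11) (nat_lit 5) (nat_lit 13) (nat_lit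 4) (nat_lit 11) (nat_lit 4) (nat_lit 377) (nat_lit 292) (nat_lit 231)) (XT.lf (nat_lit 0) (nat_lit 8140232875) (nat_lit 76) (nat_lit 28197999405) (nat_lit 76) (nat_lit 13901988756) (nat_lit 10) (nat_lit 4) (nat_lit 11) (nat_lit 5) (nat_lit 11) (nat_lit 4) (nat_lit 378) (nat_lit 292) (nat_lit 230)))) (XT.nd (nat_lit 78) (nat_lit 76) (nat_lit 0) (XT.lf (nat_lit 0) (nat_lit 21580256538) (nat_lit 76) (nat_lit 22581837992) (nat_lit 76) (nat_lit 8251083581) (nat_lit 10) (nat_lit 4) (nat_lit 11) (nat_lit 5) (nat_lit 11) (nat_lit 4) (nat_lit 379) (nat_lit 292) (nat_lit 229)) (XT.nd (nat_lit 78) (nat_lit 76) (nat_lit 0) (XT.lf (nat_lit 0) (nat_lit 35638538988) (nat_lit 76) (nat_lit 16710742935) (nat_lit 76) (nat_lit 2346899227) (nat_lit 10) (nat_lit 4) (nat_lit 11) (nat_lit 5) (nat_lit 11) (nat_lit 4) (nat_lit 380) (nat_lit 292) (nat_lit 228)) (XT.lf (nat_lit 0) (nat_lit 3702210102) (nat_lit 152)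 (nat_lit 6805826614) (nat_lit 76) (nat_lit 46583643504) (nat_lit 9) (nat_lit 5) (nat_lit 11) (nat_lit 5) (nat_lit 10) (nat_lit 4) (nat_lit 381) (nat_lit 292) (nat_lit 227)))))) (XT.nd (nat_lit 468) (nat_lit 152) (nat_lit 0) (XT.nd (nat_lit 234) (nat_lit 76) (nat_lit 0) (XT.nd (nat_lit 78) (nat_lit 0) (nat_lit 0) (XT.lf (nat_lit 0) (nat_lit 6167918236) (nat_lit 76) (nat_lit 3877588363) (nat_lit 152) (nat_lit 49555997882) (nat_lit 8) (nat_lit 5) (nat_lit 9) (nat_lit 5) (nat_lit 10) (nat_lit 4) (nat_lit 382) (nat_lit 292) (nat_lit 226)) (XT.nd (nat_lit 78) (nat_lit 0) (nat_lit 0) (XT.lf (nat_lit 0) (nat_lit 16845671438) (nat_lit 152) (nat_lit 42304166321) (nat_lit 0) (nat_lit 3080000893) (nat_lit 8) (nat_lit 5) (nat_lit 10) (nat_lit 4) (nat_lit 8) (nat_lit 4) (nat_lit 383) (nat_lit 292) (nat_lit 225)) (XT.lf (nat_lit 0) (nat_lit 24025028864) (nat_lit 152) (nat_lit 30729173155) (nat_lit 0)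 (nat_lit 10233431989) (nat_lit 8) (nat_lit 5) (nat_lit 10) (nat_lit 4) (nat_lit 8) (nat_lit 4) (nat_lit 384) (nat_lit 292) (nat_lit 224)))) (XT.nd (nat_lit 78) (nat_lit 76) (nat_lit 0) (XT.lf (nat_lit 0) (nat_lit 31540132563) (nat_lit 152) (nat_lit 18620507217) (nat_lit 0) (nat_lit 17723843945) (nat_lit 8) (nat_lit 5) (nat_lit 10) (nat_lit 4) (nat_lit 8) (nat_lit 4) (nat_lit 385) (nat_lit 292) (nat_lit 223)) (XT.nd (nat_lit 78) (nat_lit 76) (nat_lit 0) (XT.lf (nat_lit 0) (nat_lit 39408875640) (nat_lit 152) (nat_lit 5949338351) (nat_lit 0) (nat_lit 25569071076) (nat_lit 8) (nat_lit 5) (nat_lit 10) (nat_lit 4) (nat_lit 8) (nat_lit 4) (nat_lit 386) (nat_lit 292) (nat_lit 222)) (XT.lf (nat_lit 0) (nat_lit 7556353392) (nat_lit 76) (nat_lit 40211615658) (nat_lit 76) (nat_lit 26349414955) (nat_lit 7) (nat_lit 4) (nat_lit 8) (nat_lit 5) (nat_lit 8) (nat_lit 4) (nat_lit 387) (nat_lit 292) (nat_lit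 221))))) (XT.nd (nat_lit 234) (nat_lit 152) (nat_lit 0) (XT.nd (nat_lit 78) (nat_lit 0) (nat_lit 0) (XT.lf (nat_lit 0) (nat_lit 21903650704) (nat_lit 76) (nat_lit 34721433611) (nat_lit 76) (nat_lit 20837903252) (nat_lit 7) (nat_lit 4) (nat_lit 8) (nat_lit 5) (nat_lit 8) (nat_lit 4) (nat_lit 388) (nat_lit 292) (nat_lit 220)) (XT.nd (nat_lit 78) (nat_lit 0) (nat_lit 0) (XT.lf (nat_lit 0) (nat_lit 36930001822) (nat_lit 76) (nat_lit 28975350912) (nat_lit 76) (nat_lit 15071506595) (nat_lit 7) (nat_lit 4) (nat_lit 8) (nat_lit 5) (nat_lit 8) (nat_lit 4) (nat_lit 389) (nat_lit 292) (nat_lit 219)) (XT.lf (nat_lit 0) (nat_lit 52671183773) (nat_lit 76) (nat_lit 22959686412) (nat_lit 76) (nat_lit 9036495469) (nat_lit 7) (nat_lit 4) (nat_lit 8) (nat_lit 5) (nat_lit 8) (nat_lit 4) (nat_lit 390) (nat_lit 292) (nat_lit 218)))) (XT.nd (nat_lit 78) (nat_lit 152) (nat_lit 0) (XT.lf (nat_lit 0) (nat_lit 69164675561)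 (nat_lit 76) (nat_lit 16660117101) (nat_lit 76) (nat_lit 2718500798) (nat_lit 7) (nat_lit 4) (nat_lit 8) (nat_lit 5) (nat_lit 8) (nat_lit 4) (nat_lit 391) (nat_lit 292) (nat_lit 217)) (XT.nd (nat_lit 78) (nat_lit 76) (nat_lit 0) (XT.lf (nat_lit 0) (nat_lit 3772775271) (nat_lit 152) (nat_lit 6224974956) (nat_lit 76) (nat_lit 82613078359) (nat_lit 6) (nat_lit 5) (nat_lit 8) (nat_lit 5) (nat_lit 7) (nat_lit 4) (nat_lit 392) (nat_lit 292) (nat_lit 216)) (XT.lf (nat_lit 0) (nat_lit 7758024079) (nat_lit 76) (nat_lit 2843878694) (nat_lit 152) (nat_lit 86272379328) (nat_lit 5) (nat_lit 5) (nat_lit 6) (nat_lit 5) (nat_lit 7) (nat_lit 4) (nat_lit 393) (nat_lit 292) (nat_lit 215))))))))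
noncomputable def xc80 : XT := (XT.nd (nat_lit 1794) (nat_lit 0) (nat_lit 0) (XT.nd (nat_lit 858) (nat_lit 152) (nat_lit 0) (XT.nd (nat_lit 390) (nat_lit 76) (nat_lit 0) (XT.nd (nat_lit 156) (nat_lit 0) (nat_lit 0) (XT.nd (nat_lit 78) (nat_lit 0) (nat_lit 0) (XT.lf (nat_lit 0) (nat_lit 17936088326) (nat_lit 152) (nat_lit 78796070976) (nat_lit 0) (nat_lit 4610571064) (nat_lit 5) (nat_lit 5) (nat_lit 7) (nat_lit 4) (nat_lit 5) (nat_lit 4) (nat_lit 394) (nat_lit 292) (nat_lit 214)) (XT.lf (nat_lit 0) (nat_lit 25667961071) (nat_lit 152) (nat_lit 68037086074) (nat_lit 0) (nat_lit 12328007059) (nat_lit 5) (nat_lit 5) (nat_lit 7) (nat_lit 4) (nat_lit 5) (nat_lit 4) (nat_lit 395) (nat_lit 292) (nat_lit 213))) (XT.nd (nat_lit 78) (nat_lit 0) (nat_lit 0) (XT.lf (nat_lit 0) (nat_lit 33771529314) (nat_lit 152) (nat_lit 56769285770) (nat_lit 0) (nat_lit 20417826015) (nat_lit 5) (nat_lit 5) (nat_lit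 7) (nat_lit 4) (nat_lit 5) (nat_lit 4) (nat_lit 396) (nat_lit 292) (nat_lit 212)) (XT.nd (nat_lit 78) (nat_lit 0) (nat_lit 0) (XT.lf (nat_lit 0) (nat_lit 42266087264) (nat_lit 152) (nat_lit 44965841967) (nat_lit 0) (nat_lit 28899289407) (nat_lit 5) (nat_lit 5) (nat_lit 7) (nat_lit 4) (nat_lit 5) (nat_lit 4) (nat_lit 397) (nat_lit 292) (nat_lit 211)) (XT.lf (nat_lit 0) (nat_lit 51171860060) (nat_lit 152) (nat_lit 32598651227) (nat_lit 0) (nat_lit 37792591194) (nat_lit 5) (nat_lit 5) (nat_lit 7) (nat_lit 4) (nat_lit 5) (nat_lit 4) (nat_lit 398) (nat_lit 292) (nat_lit 210))))) (XT.nd (nat_lit 234) (nat_lit 0) (nat_lit 0) (XT.nd (nat_lit 78) (nat_lit 76) (nat_lit 0) (XT.lf (nat_lit 0) (nat_lit 60510051921) (nat_lit 152) (nat_lit 19638267860) (nat_lit 0) (nat_lit 47118905905) (nat_lit 5) (nat_lit 5) (nat_lit 7) (nat_lit 4) (nat_lit 5) (nat_lit 4) (nat_lit 399) (nat_lit 292) (nat_lit 209)) (XT.nd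 (nat_lit 78) (nat_lit 76) (nat_lit 0) (XT.lf (nat_lit 0) (nat_lit 70302896639) (nat_lit 152) (nat_lit 6053833808) (nat_lit 0) (nat_lit 56900439051) (nat_lit 5) (nat_lit 5) (nat_lit 7) (nat_lit 4) (nat_lit 5) (nat_lit 4) (nat_lit 400) (nat_lit 292) (nat_lit 208)) (XT.lf (nat_lit 0) (nat_lit 8457693840) (nat_lit 76) (nat_lit 72248064974) (nat_lit 76) (nat_lit 58834834460) (nat_lit 4) (nat_lit 4) (nat_lit 5) (nat_lit 5) (nat_lit 5) (nat_lit 4) (nat_lit 401) (nat_lit 292) (nat_lit 207)))) (XT.nd (nat_lit 78) (nat_lit 0) (nat_lit 0) (XT.lf (nat_lit 0) (nat_lit 23882514362) (nat_lit 76) (nat_lit 67837306471) (nat_lit 76) (nat_lit 54413816028) (nat_lit 4) (nat_lit 4) (nat_lit 5) (nat_lit 5) (nat_lit 5) (nat_lit 4) (nat_lit 402) (nat_lit 292) (nat_lit 206)) (XT.nd (nat_lit 78) (nat_lit 0) (nat_lit 0) (XT.lf (nat_lit 0) (nat_lit 40057186436) (nat_lit 76) (nat_lit 63216477739) (nat_lit 76) (nat_lit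 49783215934) (nat_lit 4) (nat_lit 4) (nat_lit 5) (nat_lit 5) (nat_lit 5) (nat_lit 4) (nat_lit 403) (nat_lit 292) (nat_lit 205)) (XT.lf (nat_lit 0) (nat_lit 57020221185) (nat_lit 76) (nat_lit 58374576803) (nat_lit 76) (nat_lit 44932008941) (nat_lit 4) (nat_lit 4) (nat_lit 5) (nat_lit 5) (nat_lit 5) (nat_lit 4) (nat_lit 404) (nat_lit 292) (nat_lit 204)))))) (XT.nd (nat_lit 468) (nat_lit 152) (nat_lit 0) (XT.nd (nat_lit 234) (nat_lit 0) (nat_lit 0) (XT.nd (nat_lit 78) (nat_lit 0) (nat_lit 0) (XT.lf (nat_lit 0) (nat_lit 74812006787) (nat_lit 76) (nat_lit 53300075329) (nat_lit 76) (nat_lit 39848644554) (nat_lit 4) (nat_lit 4) (nat_lit 5) (nat_lit 5) (nat_lit 5) (nat_lit 4) (nat_lit 405) (nat_lit 292) (nat_lit 203)) (XT.nd (nat_lit 78) (nat_lit 0) (nat_lit 0) (XT.lf (nat_lit 0) (nat_lit 93474904638) (nat_lit 76) (nat_lit 47980891170) (nat_lit 76) (nat_lit 34521019525) (nat_lit 4) (nat_lit 4)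 (nat_lit 5) (nat_lit 5) (nat_lit 5) (nat_lit 4) (nat_lit 406) (nat_lit 292) (nat_lit 202)) (XT.lf (nat_lit 0) (nat_lit 113053350206) (nat_lit 76) (nat_lit 42404359601) (nat_lit 76) (nat_lit 28936449033) (nat_lit 4) (nat_lit 4) (nat_lit 5) (nat_lit 5) (nat_lit 5) (nat_lit 4) (nat_lit 407) (nat_lit 292) (nat_lit 201)))) (XT.nd (nat_lit 78) (nat_lit 0) (nat_lit 0) (XT.lf (nat_lit 0) (nat_lit 133593958840) (nat_lit 76) (nat_lit 36557203167) (nat_lit 76) (nat_lit 23081636482) (nat_lit 4) (nat_lit 4) (nat_lit 5) (nat_lit 5) (nat_lit 5) (nat_lit 4) (nat_lit 408) (nat_lit 292) (nat_lit 200)) (XT.nd (nat_lit 78) (nat_lit 0) (nat_lit 0) (XT.lf (nat_lit 0) (nat_lit 155145636751) (nat_lit 76) (nat_lit 30425500066) (nat_lit 76) (nat_lit 16942641841) (nat_lit 4) (nat_lit 4) (nat_lit 5) (nat_lit 5) (nat_lit 5) (nat_lit 4) (nat_lit 409) (nat_lit 292) (nat_lit 199)) (XT.lf (nat_lit 0) (nat_lit 177759697456)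 (nat_lit 76) (nat_lit 23994651006) (nat_lit 76) (nat_lit 10504848457) (nat_lit 4) (nat_lit 4) (nat_lit 5) (nat_lit 5) (nat_lit 5) (nat_lit 4) (nat_lit 410) (nat_lit 292) (nat_lit 198))))) (XT.nd (nat_lit 234) (nat_lit 0) (nat_lit 0) (XT.nd (nat_lit 78) (nat_lit 152) (nat_lit 0) (XT.lf (nat_lit 0) (nat_lit 201489983959) (nat_lit 76) (nat_lit 17249344441) (nat_lit 76) (nat_lit 3752928250) (nat_lit 4) (nat_lit 4) (nat_lit 5) (nat_lit 5) (nat_lit 5) (nat_lit 4) (nat_lit 411) (nat_lit 292) (nat_lit 197)) (XT.nd (nat_lit 78) (nat_lit 76) (nat_lit 0) (XT.lf (nat_lit 0) (nat_lit 3222639755) (nat_lit 152) (nat_lit 6896303398) (nat_lit 76) (nat_lit 223115780221) (nat_lit 3) (nat_lit 5) (nat_lit 5) (nat_lit 5) (nat_lit 4) (nat_lit 4) (nat_lit 412) (nat_lit 292) (nat_lit 196)) (XT.lf (nat_lit 0) (nat_lit 8099312056) (nat_lit 76) (nat_lit 2441188295) (nat_lit 152) (nat_lit 233964755867) (nat_lit 2)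 (nat_lit 5) (nat_lit 3) (nat_lit 5) (nat_lit 4) (nat_lit 4) (nat_lit 413) (nat_lit 292) (nat_lit 195)))) (XT.nd (nat_lit 78) (nat_lit 0) (nat_lit 0) (XT.lf (nat_lit 0) (nat_lit 18423914856) (nat_lit 152) (nat_lit 232352386370) (nat_lit 0) (nat_lit 5553032210) (nat_lit 2) (nat_lit 5) (nat_lit 4) (nat_lit 4) (nat_lit 2) (nat_lit 4) (nat_lit 414) (nat_lit 292) (nat_lit 194)) (XT.nd (nat_lit 78) (nat_lit 0) (nat_lit 0) (XT.lf (nat_lit 0) (nat_lit 26735046205) (nat_lit 152) (nat_lit 228148910141) (nat_lit 0) (nat_lit 13858981598) (nat_lit 2) (nat_lit 5) (nat_lit 4) (nat_lit 4) (nat_lit 2) (nat_lit 4) (nat_lit 415) (nat_lit 292) (nat_lit 193)) (XT.lf (nat_lit 0) (nat_lit 35455569018) (nat_lit 152) (nat_lit 223747393410) (nat_lit 0) (nat_lit 22574569209) (nat_lit 2) (nat_lit 5) (nat_lit 4) (nat_lit 4) (nat_lit 2) (nat_lit 4) (nat_lit 416) (nat_lit 292) (nat_lit 192))))))) (XT.nd (nat_lit 936)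 (nat_lit 0) (nat_lit 0) (XT.nd (nat_lit 468) (nat_lit 0) (nat_lit 0) (XT.nd (nat_lit 234) (nat_lit 0) (nat_lit 0) (XT.nd (nat_lit 78) (nat_lit 0) (nat_lit 0) (XT.lf (nat_lit 0) (nat_lit 44606246443) (nat_lit 152) (nat_lit 219137356375) (nat_lit 0) (nat_lit 31720546442) (nat_lit 2) (nat_lit 5) (nat_lit 4) (nat_lit 4) (nat_lit 2) (nat_lit 4) (nat_lit 417) (nat_lit 292) (nat_lit 191)) (XT.nd (nat_lit 78) (nat_lit 0) (nat_lit 0) (XT.lf (nat_lit 0) (nat_lit 54208865808) (nat_lit 152) (nat_lit 214307822756) (nat_lit 0) (nat_lit 41318689434) (nat_lit 2) (nat_lit 5) (nat_lit 4) (nat_lit 4) (nat_lit 2) (nat_lit 4) (nat_lit 418) (nat_lit 292) (nat_lit 190)) (XT.lf (nat_lit 0) (nat_lit 64286290492) (nat_lit 152) (nat_lit 209247293664) (nat_lit 0) (nat_lit 51391850906) (nat_lit 2) (nat_lit 5) (nat_lit 4) (nat_lit 4) (nat_lit 2) (nat_lit 4) (nat_lit 419) (nat_lit 292) (nat_lit 189)))) (XT.nd (nat_lit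 78) (nat_lit 0) (nat_lit 0) (XT.lf (nat_lit 0) (nat_lit 74862514363) (nat_lit 152) (nat_lit 203943720221) (nat_lit 0) (nat_lit 61964014575) (nat_lit 2) (nat_lit 5) (nat_lit 4) (nat_lit 4) (nat_lit 2) (nat_lit 4) (nat_lit 420) (nat_lit 292) (nat_lit 188)) (XT.nd (nat_lit 78) (nat_lit 0) (nat_lit 0) (XT.lf (nat_lit 0) (nat_lit 85962718908) (nat_lit 152) (nat_lit 198384474871) (nat_lit 0) (nat_lit 73060352260) (nat_lit 2) (nat_lit 5) (nat_lit 4) (nat_lit 4) (nat_lit 2) (nat_lit 4) (nat_lit 421) (nat_lit 292) (nat_lit 187)) (XT.lf (nat_lit 0) (nat_lit 97613333184) (nat_lit 152) (nat_lit 192556321315) (nat_lit 0) (nat_lit 84707283812) (nat_lit 2) (nat_lit 5) (nat_lit 4) (nat_lit 4) (nat_lit 2) (nat_lit 4) (nat_lit 422) (nat_lit 292) (nat_lit 186))))) (XT.nd (nat_lit 234) (nat_lit 0) (nat_lit 0) (XT.nd (nat_lit 78) (nat_lit 0) (nat_lit 0) (XT.lf (nat_lit 0) (nat_lit 109842096749) (nat_lit 152)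 (nat_lit 186445382996) (nat_lit 0) (nat_lit 96932540022) (nat_lit 2) (nat_lit 5) (nat_lit 4) (nat_lit 4) (nat_lit 2) (nat_lit 4) (nat_lit 423) (nat_lit 292) (nat_lit 185)) (XT.nd (nat_lit 78) (nat_lit 0) (nat_lit 0) (XT.lf (nat_lit 0) (nat_lit 122678125706) (nat_lit 152) (nat_lit 180037110063) (nat_lit 0) (nat_lit 109765228641) (nat_lit 2) (nat_lit 5) (nat_lit 4) (nat_lit 4) (nat_lit 2) (nat_lit 4) (nat_lit 424) (nat_lit 292) (nat_lit 184)) (XT.lf (nat_lit 0) (nat_lit 136151982031) (nat_lit 152) (nat_lit 173316244722) (nat_lit 0) (nat_lit 123235903691) (nat_lit 2) (nat_lit 5) (nat_lit 4) (nat_lit 4) (nat_lit 2) (nat_lit 4) (nat_lit 425) (nat_lit 292) (nat_lit 183)))) (XT.nd (nat_lit 78) (nat_lit 0) (nat_lit 0) (XT.lf (nat_lit 0) (nat_lit 150295746332) (nat_lit 152) (nat_lit 166266784913) (nat_lit 0) (nat_lit 137376638206) (nat_lit 2) (nat_lit 5) (nat_lit 4) (nat_lit 4) (nat_lit 2) (nat_lit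 4) (nat_lit 426) (nat_lit 292) (nat_lit 182)) (XT.nd (nat_lit 78) (nat_lit 0) (nat_lit 0) (XT.lf (nat_lit 0) (nat_lit 165143094239) (nat_lit 152) (nat_lit 158871946208) (nat_lit 0) (nat_lit 152221100604) (nat_lit 2) (nat_lit 5) (nat_lit 4) (nat_lit 4) (nat_lit 2) (nat_lit 4) (nat_lit 427) (nat_lit 292) (nat_lit 181)) (XT.lf (nat_lit 0) (nat_lit 180729376581) (nat_lit 152) (nat_lit 151114121848) (nat_lit 0) (nat_lit 167804634841) (nat_lit 2) (nat_lit 5) (nat_lit 4) (nat_lit 4) (nat_lit 2) (nat_lit 4) (nat_lit 428) (nat_lit 292) (nat_lit 180)))))) (XT.nd (nat_lit 468) (nat_lit 0) (nat_lit 0) (XT.nd (nat_lit 234) (nat_lit 0) (nat_lit 0) (XT.nd (nat_lit 78) (nat_lit 0) (nat_lit 0) (XT.lf (nat_lit 0) (nat_lit 197091703554) (nat_lit 152) (nat_lit 142974840822) (nat_lit 0) (nat_lit 184164344570) (nat_lit 2) (nat_lit 5) (nat_lit 4) (nat_lit 4) (nat_lit 2) (nat_lit 4) (nat_lit 429) (nat_lit 292)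 (nat_lit 179)) (XT.nd (nat_lit 78) (nat_lit 0) (nat_lit 0) (XT.lf (nat_lit 0) (nat_lit 214269033078) (nat_lit 152) (nat_lit 134434723891) (nat_lit 0) (nat_lit 201339181483) (nat_lit 2) (nat_lit 5) (nat_lit 4) (nat_lit 4) (nat_lit 2) (nat_lit 4) (nat_lit 430) (nat_lit 292) (nat_lit 178)) (XT.lf (nat_lit 0) (nat_lit 232302263558) (nat_lit 152) (nat_lit 125473437441) (nat_lit 0) (nat_lit 219370038046) (nat_lit 2) (nat_lit 5) (nat_lit 4) (nat_lit 4) (nat_lit 2) (nat_lit 4) (nat_lit 431) (nat_lit 292) (nat_lit 177)))) (XT.nd (nat_lit 78) (nat_lit 0) (nat_lit 0) (XT.lf (nat_lit 0) (nat_lit 251234331257) (nat_lit 152) (nat_lit 116069645078) (nat_lit 0) (nat_lit 238299844872) (nat_lit 2) (nat_lit 5) (nat_lit 4) (nat_lit 4) (nat_lit 2) (nat_lit 4) (nat_lit 432) (nat_lit 292) (nat_lit 176)) (XT.nd (nat_lit 78) (nat_lit 0) (nat_lit 0) (XT.lf (nat_lit 0) (nat_lit 271110312525) (nat_lit 152) (nat_lit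 106200956819) (nat_lit 0) (nat_lit 258173672929) (nat_lit 2) (nat_lit 5) (nat_lit 4) (nat_lit 4) (nat_lit 2) (nat_lit 4) (nat_lit 433) (nat_lit 292) (nat_lit 175)) (XT.lf (nat_lit 0) (nat_lit 291977531129) (nat_lit 152) (nat_lit 95843875788) (nat_lit 0) (nat_lit 279038840855) (nat_lit 2) (nat_lit 5) (nat_lit 4) (nat_lit 4) (nat_lit 2) (nat_lit 4) (nat_lit 434) (nat_lit 292) (nat_lit 174))))) (XT.nd (nat_lit 37518) (nat_lit 0) (nat_lit 7372) (XT.nd (nat_lit 78) (nat_lit 0) (nat_lit 0) (XT.lf (nat_lit 0) (nat_lit 313885670922) (nat_lit 152) (nat_lit 84973742267) (nat_lit 0) (nat_lit 300945027621) (nat_lit 2) (nat_lit 5) (nat_lit 4) (nat_lit 4) (nat_lit 2) (nat_lit 4) (nat_lit 435) (nat_lit 292) (nat_lit 173)) (XT.nd (nat_lit 37362) (nat_lit 0) (nat_lit 8892) (XT.lf (nat_lit 0) (nat_lit 336886894142) (nat_lit 152) (nat_lit 73564674986) (nat_lit 0) (nat_lit 323944390815) (nat_lit 2) (nat_lit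 5) (nat_lit 4) (nat_lit 4) (nat_lit 2) (nat_lit 4) (nat_lit 436) (nat_lit 292) (nat_lit 172)) (XT.lf (nat_lit 0) (nat_lit 550526409) (nat_lit 684) (nat_lit 2414206847) (nat_lit 0) (nat_lit 550526409) (nat_lit 119) (nat_lit 5) (nat_lit 128) (nat_lit 4) (nat_lit 119) (nat_lit 4) (nat_lit 314) (nat_lit 293) (nat_lit 293)))) (XT.nd (nat_lit 78) (nat_lit 836) (nat_lit 0) (XT.lf (nat_lit 0) (nat_lit 37338986) (nat_lit 684) (nat_lit 4402331306) (nat_lit 684) (nat_lit 2680380386) (nat_lit 110) (nat_lit 4) (nat_lit 119) (nat_lit 5) (nat_lit 119) (nat_lit 4) (nat_lit 315) (nat_lit 293) (nat_lit 292)) (XT.nd (nat_lit 78) (nat_lit 760) (nat_lit 0) (XT.lf (nat_lit 0) (nat_lit 625063782) (nat_lit 760) (nat_lit 2080523422) (nat_lit 76) (nat_lit 4512257692) (nat_lit 109) (nat_lit 5) (nat_lit 119) (nat_lit 5) (nat_lit 110) (nat_lit 4) (nat_lit 316) (nat_lit 293) (nat_lit 291)) (XT.lf (nat_lit 0) (nat_lit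 3062216652) (nat_lit 760) (nat_lit 833383871) (nat_lit 836) (nat_lit 3428448093) (nat_lit 99) (nat_lit 5) (nat_lit 109) (nat_lit 5) (nat_lit 110) (nat_lit 4) (nat_lit 317) (nat_lit 293) (nat_lit 290))))))))
noncomputable def xc81 : XT := (XT.nd (nat_lit 1794) (nat_lit 1672) (nat_lit 0) (XT.nd (nat_lit 858) (nat_lit 1824) (nat_lit 0) (XT.nd (nat_lit 390) (nat_lit 1520) (nat_lit 0) (XT.nd (nat_lit 156) (nat_lit 760) (nat_lit 0) (XT.nd (nat_lit 78) (nat_lit 76) (nat_lit 0) (XT.lf (nat_lit 0) (nat_lit 943763747) (nat_lit 380) (nat_lit 6301096684) (nat_lit 380) (nat_lit 195143950) (nat_lit 94) (nat_lit 4) (nat_lit 99) (nat_lit 5) (nat_lit 99) (nat_lit 4) (nat_lit 318) (nat_lit 293) (nat_lit 289)) (XT.lf (nat_lit 0) (nat_lit 3033479292) (nat_lit 456) (nat_lit 1236513786) (nat_lit 76) (nat_lit 3292646457) (nat_lit 93) (nat_lit 5) (nat_lit 99) (nat_lit 5) (nat_lit 94) (nat_lit 4) (nat_lit 319)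 (nat_lit 293) (nat_lit 288))) (XT.nd (nat_lit 78) (nat_lit 456) (nat_lit 0) (XT.lf (nat_lit 0) (nat_lit 4256214728) (nat_lit 304) (nat_lit 2083447395) (nat_lit 380) (nat_lit 1355624258) (nat_lit 89) (nat_lit 5) (nat_lit 93) (nat_lit 5) (nat_lit 94) (nat_lit 4) (nat_lit 320) (nat_lit 293) (nat_lit 287)) (XT.nd (nat_lit 78) (nat_lit 0) (nat_lit 0) (XT.lf (nat_lit 0) (nat_lit 1829933220) (nat_lit 456) (nat_lit 5738018798) (nat_lit 76) (nat_lit 269398172) (nat_lit 83) (nat_lit 5) (nat_lit 89) (nat_lit 5) (nat_lit 84) (nat_lit 4) (nat_lit 321) (nat_lit 293) (nat_lit 286)) (XT.lf (nat_lit 0) (nat_lit 5084522120) (nat_lit 456) (nat_lit 176096471) (nat_lit 76) (nat_lit 2727172355) (nat_lit 83) (nat_lit 5) (nat_lit 89) (nat_lit 5) (nat_lit 84) (nat_lit 4) (nat_lit 322) (nat_lit 293) (nat_lit 285))))) (XT.nd (nat_lit 234) (nat_lit 608) (nat_lit 0) (XT.nd (nat_lit 78) (nat_lit 532) (nat_lit 0) (XT.lf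 (nat_lit 0) (nat_lit 301137887) (nat_lit 380) (nat_lit 2468173549) (nat_lit 76) (nat_lit 5378478421) (nat_lit 78) (nat_lit 5) (nat_lit 83) (nat_lit 5) (nat_lit 79) (nat_lit 5) (nat_lit 323) (nat_lit 293) (nat_lit 284)) (XT.nd (nat_lit 78) (nat_lit 228) (nat_lit 0) (XT.lf (nat_lit 0) (nat_lit 3417343392) (nat_lit 304) (nat_lit 77330514) (nat_lit 380) (nat_lit 4822541191) (nat_lit 74) (nat_lit 5) (nat_lit 78) (nat_lit 5) (nat_lit 79) (nat_lit 5) (nat_lit 324) (nat_lit 293) (nat_lit 283)) (XT.lf (nat_lit 0) (nat_lit 1012344724) (nat_lit 228) (nat_lit 5809998139) (nat_lit 304) (nat_lit 1674169740) (nat_lit 71) (nat_lit 5) (nat_lit 74) (nat_lit 5) (nat_lit 75) (nat_lit 4) (nat_lit 325) (nat_lit 293) (nat_lit 282)))) (XT.nd (nat_lit 78) (nat_lit 532) (nat_lit 0) (XT.lf (nat_lit 0) (nat_lit 1539597410) (nat_lit 304) (nat_lit 1486273015) (nat_lit 76) (nat_lit 5659733193) (nat_lit 70) (nat_lit 5)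 (nat_lit 74) (nat_lit 5) (nat_lit 71) (nat_lit 5) (nat_lit 326) (nat_lit 293) (nat_lit 281)) (XT.nd (nat_lit 78) (nat_lit 228) (nat_lit 0) (XT.lf (nat_lit 0) (nat_lit 4777131770) (nat_lit 304) (nat_lit 35803814) (nat_lit 380) (nat_lit 4072190997) (nat_lit 66) (nat_lit 5) (nat_lit 70) (nat_lit 5) (nat_lit 71) (nat_lit 5) (nat_lit 327) (nat_lit 293) (nat_lit 280)) (XT.lf (nat_lit 0) (nat_lit 2169991162) (nat_lit 228) (nat_lit 6071023696) (nat_lit 304) (nat_lit 854158983) (nat_lit 63) (nat_lit 5) (nat_lit 66) (nat_lit 5) (nat_lit 67) (nat_lit 4) (nat_lit 328) (nat_lit 293) (nat_lit 279)))))) (XT.nd (nat_lit 468) (nat_lit 836) (nat_lit 0) (XT.nd (nat_lit 234) (nat_lit 456) (nat_lit 0) (XT.nd (nat_lit 78) (nat_lit 456) (nat_lit 0) (XT.lf (nat_lit 0) (nat_lit 2399525462) (nat_lit 304) (nat_lit 612722892) (nat_lit 76) (nat_lit 6303818592) (nat_lit 62) (nat_lit 5) (nat_lit 66) (nat_lit 5) (nat_lit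 63) (nat_lit 5) (nat_lit 329) (nat_lit 293) (nat_lit 278)) (XT.nd (nat_lit 78) (nat_lit 228) (nat_lit 0) (XT.lf (nat_lit 0) (nat_lit 5775415017) (nat_lit 304) (nat_lit 3513761047) (nat_lit 76) (nat_lit 258805192) (nat_lit 59) (nat_lit 5) (nat_lit 63) (nat_lit 5) (nat_lit 60) (nat_lit 4) (nat_lit 330) (nat_lit 293) (nat_lit 277)) (XT.lf (nat_lit 0) (nat_lit 3136400762) (nat_lit 228) (nat_lit 6184498618) (nat_lit 304) (nat_lit 470635684) (nat_lit 56) (nat_lit 5) (nat_lit 59) (nat_lit 5) (nat_lit 60) (nat_lit 4) (nat_lit 331) (nat_lit 293) (nat_lit 276)))) (XT.nd (nat_lit 78) (nat_lit 380) (nat_lit 0) (XT.lf (nat_lit 0) (nat_lit 2853787135) (nat_lit 304) (nat_lit 10298769) (nat_lit 76) (nat_lit 7183252617) (nat_lit 55) (nat_lit 5) (nat_lit 59) (nat_lit 5) (nat_lit 56) (nat_lit 5) (nat_lit 332) (nat_lit 293) (nat_lit 275)) (XT.nd (nat_lit 78) (nat_lit 152) (nat_lit 0) (XT.lf (nat_lit 0) (nat_lit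 6347198542) (nat_lit 304) (nat_lit 3293680585) (nat_lit 76) (nat_lit 673810451) (nat_lit 52) (nat_lit 5) (nat_lit 56) (nat_lit 5) (nat_lit 53) (nat_lit 4) (nat_lit 333) (nat_lit 293) (nat_lit 274)) (XT.lf (nat_lit 0) (nat_lit 3727645953) (nat_lit 152) (nat_lit 6292637183) (nat_lit 228) (nat_lit 574943865) (nat_lit 50) (nat_lit 5) (nat_lit 52) (nat_lit 5) (nat_lit 53) (nat_lit 4) (nat_lit 334) (nat_lit 293) (nat_lit 273))))) (XT.nd (nat_lit 234) (nat_lit 380) (nat_lit 0) (XT.nd (nat_lit 78) (nat_lit 152) (nat_lit 0) (XT.lf (nat_lit 0) (nat_lit 129553197) (nat_lit 228) (nat_lit 2721208930) (nat_lit 304) (nat_lit 8038802674) (nat_lit 46) (nat_lit 5) (nat_lit 49) (nat_lit 5) (nat_lit 50) (nat_lit 5) (nat_lit 335) (nat_lit 293) (nat_lit 272)) (XT.nd (nat_lit 78) (nat_lit 152) (nat_lit 0) (XT.lf (nat_lit 0) (nat_lit 6464645718) (nat_lit 304) (nat_lit 3661227591) (nat_lit 76) (nat_lit 1070523764)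 (nat_lit 46) (nat_lit 5) (nat_lit 50) (nat_lit 5) (nat_lit 47) (nat_lit 4) (nat_lit 336) (nat_lit 293) (nat_lit 271)) (XT.lf (nat_lit 0) (nat_lit 3718323614) (nat_lit 152) (nat_lit 6550172272) (nat_lit 228) (nat_lit 1249668171) (nat_lit 44) (nat_lit 5) (nat_lit 46) (nat_lit 5) (nat_lit 47) (nat_lit 4) (nat_lit 337) (nat_lit 293) (nat_lit 270)))) (XT.nd (nat_lit 78) (nat_lit 304) (nat_lit 0) (XT.lf (nat_lit 0) (nat_lit 2299742814) (nat_lit 228) (nat_lit 446840456) (nat_lit 76) (nat_lit 9109096578) (nat_lit 43) (nat_lit 5) (nat_lit 46) (nat_lit 5) (nat_lit 44) (nat_lit 5) (nat_lit 338) (nat_lit 293) (nat_lit 269)) (XT.nd (nat_lit 78) (nat_lit 152) (nat_lit 0) (XT.lf (nat_lit 0) (nat_lit 6031814771) (nat_lit 228) (nat_lit 4882362353) (nat_lit 76) (nat_lit 1292559609) (nat_lit 41) (nat_lit 5) (nat_lit 44) (nat_lit 5) (nat_lit 42) (nat_lit 4) (nat_lit 339) (nat_lit 293) (nat_lit 268)) (XT.lf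 (nat_lit 0) (nat_lit 2826595051) (nat_lit 152) (nat_lit 7133574894) (nat_lit 228) (nat_lit 2614739200) (nat_lit 39) (nat_lit 5) (nat_lit 41) (nat_lit 5) (nat_lit 42) (nat_lit 4) (nat_lit 340) (nat_lit 293) (nat_lit 267))))))) (XT.nd (nat_lit 936) (nat_lit 608) (nat_lit 0) (XT.nd (nat_lit 468) (nat_lit 532) (nat_lit 0) (XT.nd (nat_lit 234) (nat_lit 228) (nat_lit 0) (XT.nd (nat_lit 78) (nat_lit 228) (nat_lit 0) (XT.lf (nat_lit 0) (nat_lit 1084874702) (nat_lit 228) (nat_lit 2029760056) (nat_lit 76) (nat_lit 9846151757) (nat_lit 38) (nat_lit 5) (nat_lit 41) (nat_lit 5) (nat_lit 39) (nat_lit 5) (nat_lit 341) (nat_lit 293) (nat_lit 266)) (XT.nd (nat_lit 78) (nat_lit 76) (nat_lit 0) (XT.lf (nat_lit 0) (nat_lit 4912802928) (nat_lit 228) (nat_lit 7292285362) (nat_lit 76) (nat_lit 1157206243) (nat_lit 36) (nat_lit 5) (nat_lit 39) (nat_lit 5) (nat_lit 37) (nat_lit 4) (nat_lit 342) (nat_lit 293) (nat_lit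 265)) (XT.lf (nat_lit 0) (nat_lit 695544413) (nat_lit 76) (nat_lit 8251882839) (nat_lit 152) (nat_lit 4835724106) (nat_lit 35) (nat_lit 5) (nat_lit 36) (nat_lit 5) (nat_lit 37) (nat_lit 4) (nat_lit 343) (nat_lit 293) (nat_lit 264)))) (XT.nd (nat_lit 78) (nat_lit 228) (nat_lit 0) (XT.lf (nat_lit 0) (nat_lit 9199995335) (nat_lit 76) (nat_lit 4027489319) (nat_lit 152) (nat_lit 995417839) (nat_lit 35) (nat_lit 5) (nat_lit 36) (nat_lit 5) (nat_lit 37) (nat_lit 4) (nat_lit 344) (nat_lit 293) (nat_lit 263)) (XT.nd (nat_lit 78) (nat_lit 0) (nat_lit 0) (XT.lf (nat_lit 0) (nat_lit 2922255289) (nat_lit 228) (nat_lit 11317161118) (nat_lit 76) (nat_lit 443759641) (nat_lit 32) (nat_lit 5) (nat_lit 35) (nat_lit 5) (nat_lit 33) (nat_lit 4) (nat_lit 345) (nat_lit 293) (nat_lit 262)) (XT.lf (nat_lit 0) (nat_lit 7078371053) (nat_lit 228) (nat_lit 3030072082) (nat_lit 76) (nat_lit 5053435235) (nat_lit 32)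 (nat_lit 5) (nat_lit 35) (nat_lit 5) (nat_lit 33) (nat_lit 4) (nat_lit 346) (nat_lit 293) (nat_lit 261))))) (XT.nd (nat_lit 234) (nat_lit 228) (nat_lit 0) (XT.nd (nat_lit 78) (nat_lit 228) (nat_lit 0) (XT.lf (nat_lit 0) (nat_lit 5728144041) (nat_lit 76) (nat_lit 5730749757) (nat_lit 152) (nat_lit 4204822030) (nat_lit 31) (nat_lit 5) (nat_lit 32) (nat_lit 5) (nat_lit 33) (nat_lit 4) (nat_lit 347) (nat_lit 293) (nat_lit 260)) (XT.nd (nat_lit 78) (nat_lit 228) (nat_lit 0) (XT.lf (nat_lit 0) (nat_lit 14904945834) (nat_lit 76) (nat_lit 1133505402) (nat_lit 152) (nat_lit 153222141) (nat_lit 31) (nat_lit 5) (nat_lit 32) (nat_lit 5) (nat_lit 33) (nat_lit 4) (nat_lit 348) (nat_lit 293) (nat_lit 259)) (XT.lf (nat_lit 0) (nat_lit 4083305756) (nat_lit 228) (nat_lit 8938850517) (nat_lit 76) (nat_lit 3715016931) (nat_lit 28) (nat_lit 5) (nat_lit 31) (nat_lit 5) (nat_lit 29) (nat_lit 4) (nat_lit 349)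 (nat_lit 293) (nat_lit 258)))) (XT.nd (nat_lit 78) (nat_lit 228) (nat_lit 0) (XT.lf (nat_lit 0) (nat_lit 8498819667) (nat_lit 228) (nat_lit 69568071) (nat_lit 76) (nat_lit 8742843993) (nat_lit 28) (nat_lit 5) (nat_lit 31) (nat_lit 5) (nat_lit 29) (nat_lit 4) (nat_lit 350) (nat_lit 293) (nat_lit 257)) (XT.nd (nat_lit 78) (nat_lit 152) (nat_lit 0) (XT.lf (nat_lit 0) (nat_lit 9429204110) (nat_lit 76) (nat_lit 3787957886) (nat_lit 152) (nat_lit 4692752121) (nat_lit 27) (nat_lit 5) (nat_lit 28) (nat_lit 5) (nat_lit 29) (nat_lit 4) (nat_lit 351) (nat_lit 293) (nat_lit 256)) (XT.lf (nat_lit 0) (nat_lit 755458064) (nat_lit 152) (nat_lit 17383562280) (nat_lit 152) (nat_lit 401152779) (nat_lit 25) (nat_lit 4) (nat_lit 27) (nat_lit 5) (nat_lit 27) (nat_lit 4) (nat_lit 352) (nat_lit 293) (nat_lit 255)))))) (XT.nd (nat_lit 468) (nat_lit 304) (nat_lit 0) (XT.nd (nat_lit 234) (nat_lit 152) (nat_lit 0)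 (XT.nd (nat_lit 78) (nat_lit 76) (nat_lit 0) (XT.lf (nat_lit 0) (nat_lit 4117327962) (nat_lit 228) (nat_lit 8692047716) (nat_lit 76) (nat_lit 6382200816) (nat_lit 24) (nat_lit 5) (nat_lit 27) (nat_lit 5) (nat_lit 25) (nat_lit 4) (nat_lit 353) (nat_lit 293) (nat_lit 254)) (XT.nd (nat_lit 78) (nat_lit 0) (nat_lit 0) (XT.lf (nat_lit 0) (nat_lit 762012174) (nat_lit 76) (nat_lit 8036813312) (nat_lit 152) (nat_lit 11078886417) (nat_lit 23) (nat_lit 5) (nat_lit 24) (nat_lit 5) (nat_lit 25) (nat_lit 4) (nat_lit 354) (nat_lit 293) (nat_lit 253)) (XT.lf (nat_lit 0) (nat_lit 10881280825) (nat_lit 76) (nat_lit 2920212313) (nat_lit 152) (nat_lit 6792324650) (nat_lit 23) (nat_lit 5) (nat_lit 24) (nat_lit 5) (nat_lit 25) (nat_lit 4) (nat_lit 355) (nat_lit 293) (nat_lit 252)))) (XT.nd (nat_lit 78) (nat_lit 76) (nat_lit 0) (XT.lf (nat_lit 0) (nat_lit 16827978) (nat_lit 76) (nat_lit 19018037588) (nat_lit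 76) (nat_lit 2311852418) (nat_lit 22) (nat_lit 4) (nat_lit 23) (nat_lit 5) (nat_lit 23) (nat_lit 4) (nat_lit 356) (nat_lit 293) (nat_lit 251)) (XT.nd (nat_lit 78) (nat_lit 0) (nat_lit 0) (XT.lf (nat_lit 0) (nat_lit 2473323105) (nat_lit 152) (nat_lit 11753527514) (nat_lit 76) (nat_lit 7900697768) (nat_lit 21) (nat_lit 5) (nat_lit 23) (nat_lit 5) (nat_lit 22) (nat_lit 4) (nat_lit 357) (nat_lit 293) (nat_lit 250)) (XT.lf (nat_lit 0) (nat_lit 7365020067) (nat_lit 152) (nat_lit 1837600847) (nat_lit 76) (nat_lit 13745671825) (nat_lit 21) (nat_lit 5) (nat_lit 23) (nat_lit 5) (nat_lit 22) (nat_lit 4) (nat_lit 358) (nat_lit 293) (nat_lit 249))))) (XT.nd (nat_lit 234) (nat_lit 152) (nat_lit 0) (XT.nd (nat_lit 78) (nat_lit 76) (nat_lit 0) (XT.lf (nat_lit 0) (nat_lit 8757901376) (nat_lit 76) (nat_lit 3827713088) (nat_lit 152) (nat_lit 11220258683) (nat_lit 20) (nat_lit 5) (nat_lit 21) (nat_lit 5) (nat_lit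 22) (nat_lit 4) (nat_lit 359) (nat_lit 293) (nat_lit 248)) (XT.nd (nat_lit 78) (nat_lit 76) (nat_lit 0) (XT.lf (nat_lit 0) (nat_lit 18075131959) (nat_lit 152) (nat_lit 4883538091) (nat_lit 0) (nat_lit 1747281637) (nat_lit 20) (nat_lit 5) (nat_lit 22) (nat_lit 4) (nat_lit 20) (nat_lit 4) (nat_lit 360) (nat_lit 293) (nat_lit 247)) (XT.lf (nat_lit 0) (nat_lit 5820394448) (nat_lit 76) (nat_lit 18122744019) (nat_lit 76) (nat_lit 1702708152) (nat_lit 19) (nat_lit 4) (nat_lit 20) (nat_lit 5) (nat_lit 20) (nat_lit 4) (nat_lit 361) (nat_lit 293) (nat_lit 246)))) (XT.nd (nat_lit 78) (nat_lit 76) (nat_lit 0) (XT.lf (nat_lit 0) (nat_lit 3395276630) (nat_lit 152) (nat_lit 9547514530) (nat_lit 76) (nat_lit 13685517450) (nat_lit 18) (nat_lit 5) (nat_lit 20) (nat_lit 5) (nat_lit 19) (nat_lit 4) (nat_lit 362) (nat_lit 293) (nat_lit 245)) (XT.nd (nat_lit 78) (nat_lit 0) (nat_lit 0) (XT.lf (nat_lit 0) (nat_lit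 1165695297) (nat_lit 76) (nat_lit 7496325154) (nat_lit 152) (nat_lit 18997934825) (nat_lit 17) (nat_lit 5) (nat_lit 18) (nat_lit 5) (nat_lit 19) (nat_lit 4) (nat_lit 363) (nat_lit 293) (nat_lit 244)) (XT.lf (nat_lit 0) (nat_lit 12659432479) (nat_lit 76) (nat_lit 1648134568) (nat_lit 152) (nat_lit 14429854747) (nat_lit 17) (nat_lit 5) (nat_lit 18) (nat_lit 5) (nat_lit 19) (nat_lit 4) (nat_lit 364) (nat_lit 293) (nat_lit 243))))))))
noncomputable def xc82 : XT := (XT.nd (nat_lit 1794) (nat_lit 304) (nat_lit 0) (XT.nd (nat_lit 858) (nat_lit 228) (nat_lit 0) (XT.nd (nat_lit 390) (nat_lit 228) (nat_lit 0) (XT.nd (nat_lit 156) (nat_lit 152) (nat_lit 0) (XT.nd (nat_lit 78) (nat_lit 76) (nat_lit 0) (XT.lf (nat_lit 0) (nat_lit 20260905652) (nat_lit 152) (nat_lit 5295133686) (nat_lit 0) (nat_lit 4311456848) (nat_lit 17) (nat_lit 5) (nat_lit 19) (nat_lit 4) (nat_lit 17) (nat_lit 4) (nat_lit 365) (nat_lit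 293) (nat_lit 242)) (XT.lf (nat_lit 0) (nat_lit 6115495808) (nat_lit 76) (nat_lit 20476413721) (nat_lit 76) (nat_lit 4458174644) (nat_lit 16) (nat_lit 4) (nat_lit 17) (nat_lit 5) (nat_lit 17) (nat_lit 4) (nat_lit 366) (nat_lit 293) (nat_lit 241))) (XT.nd (nat_lit 78) (nat_lit 76) (nat_lit 0) (XT.lf (nat_lit 0) (nat_lit 966077301) (nat_lit 152) (nat_lit 14103295155) (nat_lit 76) (nat_lit 17219260886) (nat_lit 15) (nat_lit 5) (nat_lit 17) (nat_lit 5) (nat_lit 16) (nat_lit 4) (nat_lit 367) (nat_lit 293) (nat_lit 240)) (XT.nd (nat_lit 78) (nat_lit 76) (nat_lit 0) (XT.lf (nat_lit 0) (nat_lit 6471337580) (nat_lit 152) (nat_lit 2879906388) (nat_lit 76) (nat_lit 24236239236) (nat_lit 15) (nat_lit 5) (nat_lit 17) (nat_lit 5) (nat_lit 16) (nat_lit 4) (nat_lit 368) (nat_lit 293) (nat_lit 239)) (XT.lf (nat_lit 0) (nat_lit 9123927551) (nat_lit 76) (nat_lit 3231925913) (nat_lit 152) (nat_lit 22590230523)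 (nat_lit 14) (nat_lit 5) (nat_lit 15) (nat_lit 5) (nat_lit 16) (nat_lit 4) (nat_lit 369) (nat_lit 293) (nat_lit 238))))) (XT.nd (nat_lit 234) (nat_lit 152) (nat_lit 0) (XT.nd (nat_lit 78) (nat_lit 76) (nat_lit 0) (XT.lf (nat_lit 0) (nat_lit 18595752748) (nat_lit 152) (nat_lit 14665836229) (nat_lit 0) (nat_lit 3107975625) (nat_lit 14) (nat_lit 5) (nat_lit 16) (nat_lit 4) (nat_lit 14) (nat_lit 4) (nat_lit 370) (nat_lit 293) (nat_lit 237)) (XT.nd (nat_lit 78) (nat_lit 76) (nat_lit 0) (XT.lf (nat_lit 0) (nat_lit 25164180032) (nat_lit 152) (nat_lit 3074149322) (nat_lit 0) (nat_lit 9625070549) (nat_lit 14) (nat_lit 5) (nat_lit 16) (nat_lit 4) (nat_lit 14) (nat_lit 4) (nat_lit 371) (nat_lit 293) (nat_lit 236)) (XT.lf (nat_lit 0) (nat_lit 9329567380) (nat_lit 76) (nat_lit 22842408322) (nat_lit 76) (nat_lit 7254410877) (nat_lit 13) (nat_lit 4) (nat_lit 14) (nat_lit 5) (nat_lit 14) (nat_lit 4) (nat_lit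 372) (nat_lit 293) (nat_lit 235)))) (XT.nd (nat_lit 78) (nat_lit 152) (nat_lit 0) (XT.lf (nat_lit 0) (nat_lit 22395105550) (nat_lit 76) (nat_lit 17153040906) (nat_lit 76) (nat_lit 1518483496) (nat_lit 13) (nat_lit 4) (nat_lit 14) (nat_lit 5) (nat_lit 14) (nat_lit 4) (nat_lit 373) (nat_lit 293) (nat_lit 234)) (XT.nd (nat_lit 78) (nat_lit 76) (nat_lit 0) (XT.lf (nat_lit 0) (nat_lit 4327084092) (nat_lit 152) (nat_lit 6808377842) (nat_lit 76) (nat_lit 31651562996) (nat_lit 12) (nat_lit 5) (nat_lit 14) (nat_lit 5) (nat_lit 13) (nat_lit 4) (nat_lit 374) (nat_lit 293) (nat_lit 233)) (XT.lf (nat_lit 0) (nat_lit 5746884136) (nat_lit 76) (nat_lit 4725318609) (nat_lit 152) (nat_lit 34117082798) (nat_lit 11) (nat_lit 5) (nat_lit 12) (nat_lit 5) (nat_lit 13) (nat_lit 4) (nat_lit 375) (nat_lit 293) (nat_lit 232)))))) (XT.nd (nat_lit 468) (nat_lit 152) (nat_lit 0) (XT.nd (nat_lit 234) (nat_lit 76) (nat_lit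 0) (XT.nd (nat_lit 78) (nat_lit 0) (nat_lit 0) (XT.lf (nat_lit 0) (nat_lit 17041790240) (nat_lit 152) (nat_lit 27403034694) (nat_lit 0) (nat_lit 2030979059) (nat_lit 11) (nat_lit 5) (nat_lit 13) (nat_lit 4) (nat_lit 11) (nat_lit 4) (nat_lit 376) (nat_lit 293) (nat_lit 231)) (XT.nd (nat_lit 78) (nat_lit 0) (nat_lit 0) (XT.lf (nat_lit 0) (nat_lit 23987521986) (nat_lit 152) (nat_lit 15526518474) (nat_lit 0) (nat_lit 8940229854) (nat_lit 11) (nat_lit 5) (nat_lit 13) (nat_lit 4) (nat_lit 11) (nat_lit 4) (nat_lit 377) (nat_lit 293) (nat_lit 230)) (XT.lf (nat_lit 0) (nat_lit 31252159973) (nat_lit 152) (nat_lit 3110799863) (nat_lit 0) (nat_lit 16170124080) (nat_lit 11) (nat_lit 5) (nat_lit 13) (nat_lit 4) (nat_lit 11) (nat_lit 4) (nat_lit 378) (nat_lit 293) (nat_lit 229)))) (XT.nd (nat_lit 78) (nat_lit 0) (nat_lit 0) (XT.lf (nat_lit 0) (nat_lit 10200150904) (nat_lit 76) (nat_lit 28812102996) (nat_lit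 76) (nat_lit 13696977805) (nat_lit 10) (nat_lit 4) (nat_lit 11) (nat_lit 5) (nat_lit 11) (nat_lit 4) (nat_lit 379) (nat_lit 293) (nat_lit 228)) (XT.nd (nat_lit 78) (nat_lit 0) (nat_lit 0) (XT.lf (nat_lit 0) (nat_lit 24233465923) (nat_lit 76) (nat_lit 22953028579) (nat_lit 76) (nat_lit 7806389771) (nat_lit 10) (nat_lit 4) (nat_lit 11) (nat_lit 5) (nat_lit 11) (nat_lit 4) (nat_lit 380) (nat_lit 293) (nat_lit 227)) (XT.lf (nat_lit 0) (nat_lit 38919700754) (nat_lit 76) (nat_lit 16824469308) (nat_lit 76) (nat_lit 1647817532) (nat_lit 10) (nat_lit 4) (nat_lit 11) (nat_lit 5) (nat_lit 11) (nat_lit 4) (nat_lit 381) (nat_lit 293) (nat_lit 226))))) (XT.nd (nat_lit 234) (nat_lit 0) (nat_lit 0) (XT.nd (nat_lit 78) (nat_lit 76) (nat_lit 0) (XT.lf (nat_lit 0) (nat_lit 4639983373) (nat_lit 152) (nat_lit 5693269639) (nat_lit 76) (nat_lit 49575258888) (nat_lit 9) (nat_lit 5) (nat_lit 11) (nat_lit 5) (nat_lit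 10) (nat_lit 4) (nat_lit 382) (nat_lit 293) (nat_lit 225)) (XT.nd (nat_lit 78) (nat_lit 0) (nat_lit 0) (XT.lf (nat_lit 0) (nat_lit 7905729417) (nat_lit 76) (nat_lit 3381191371) (nat_lit 152) (nat_lit 51257588455) (nat_lit 8) (nat_lit 5) (nat_lit 9) (nat_lit 5) (nat_lit 10) (nat_lit 4) (nat_lit 383) (nat_lit 293) (nat_lit 224)) (XT.lf (nat_lit 0) (nat_lit 18402160733) (nat_lit 152) (nat_lit 43032985513) (nat_lit 0) (nat_lit 3870365941) (nat_lit 8) (nat_lit 5) (nat_lit 10) (nat_lit 4) (nat_lit 8) (nat_lit 4) (nat_lit 384) (nat_lit 293) (nat_lit 223)))) (XT.nd (nat_lit 78) (nat_lit 0) (nat_lit 0) (XT.lf (nat_lit 0) (nat_lit 25906476234) (nat_lit 152) (nat_lit 30945261218) (nat_lit 0) (nat_lit 11351165496) (nat_lit 8) (nat_lit 5) (nat_lit 10) (nat_lit 4) (nat_lit 8) (nat_lit 4) (nat_lit 385) (nat_lit 293) (nat_lit 222)) (XT.nd (nat_lit 78) (nat_lit 0) (nat_lit 0) (XT.lf (nat_lit 0) (nat_lit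 33764944836) (nat_lit 152) (nat_lit 18294036774) (nat_lit 0) (nat_lit 19187237959) (nat_lit 8) (nat_lit 5) (nat_lit 10) (nat_lit 4) (nat_lit 8) (nat_lit 4) (nat_lit 386) (nat_lit 293) (nat_lit 221)) (XT.lf (nat_lit 0) (nat_lit 41996277179) (nat_lit 152) (nat_lit 5049190217) (nat_lit 0) (nat_lit 27397240646) (nat_lit 8) (nat_lit 5) (nat_lit 10) (nat_lit 4) (nat_lit 8) (nat_lit 4) (nat_lit 387) (nat_lit 293) (nat_lit 220))))))) (XT.nd (nat_lit 936) (nat_lit 76) (nat_lit 0) (XT.nd (nat_lit 468) (nat_lit 76) (nat_lit 0) (XT.nd (nat_lit 234) (nat_lit 76) (nat_lit 0) (XT.nd (nat_lit 78) (nat_lit 0) (nat_lit 0) (XT.lf (nat_lit 0) (nat_lit 9112469741) (nat_lit 76) (nat_lit 41649873121) (nat_lit 76) (nat_lit 27030522630) (nat_lit 7) (nat_lit 4) (nat_lit 8) (nat_lit 5) (nat_lit 8) (nat_lit 4) (nat_lit 388) (nat_lit 293) (nat_lit 219)) (XT.nd (nat_lit 78) (nat_lit 0) (nat_lit 0) (XT.lf (nat_lit 0)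 (nat_lit 24121022458) (nat_lit 76) (nat_lit 35912435463) (nat_lit 76) (nat_lit 21273738346) (nat_lit 7) (nat_lit 4) (nat_lit 8) (nat_lit 5) (nat_lit 8) (nat_lit 4) (nat_lit 389) (nat_lit 293) (nat_lit 218)) (XT.lf (nat_lit 0) (nat_lit 39845253550) (nat_lit 76) (nat_lit 29905004336) (nat_lit 76) (nat_lit 15247881859) (nat_lit 7) (nat_lit 4) (nat_lit 8) (nat_lit 5) (nat_lit 8) (nat_lit 4) (nat_lit 390) (nat_lit 293) (nat_lit 217)))) (XT.nd (nat_lit 78) (nat_lit 76) (nat_lit 0) (XT.lf (nat_lit 0) (nat_lit 56322601663) (nat_lit 76) (nat_lit 23613276331) (nat_lit 76) (nat_lit 8938605894) (nat_lit 7) (nat_lit 4) (nat_lit 8) (nat_lit 5) (nat_lit 8) (nat_lit 4) (nat_lit 391) (nat_lit 293) (nat_lit 216)) (XT.nd (nat_lit 78) (nat_lit 76) (nat_lit 0) (XT.lf (nat_lit 0) (nat_lit 73592298579) (nat_lit 76) (nat_lit 17022271144) (nat_lit 76) (nat_lit 2330888363) (nat_lit 7) (nat_lit 4) (nat_lit 8) (nat_lit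 5) (nat_lit 8) (nat_lit 4) (nat_lit 392) (nat_lit 293) (nat_lit 215)) (XT.lf (nat_lit 0) (nat_lit 4444062612) (nat_lit 152) (nat_lit 5596970943) (nat_lit 76) (nat_lit 87176137660) (nat_lit 6) (nat_lit 5) (nat_lit 8) (nat_lit 5) (nat_lit 7) (nat_lit 4) (nat_lit 393) (nat_lit 293) (nat_lit 214))))) (XT.nd (nat_lit 234) (nat_lit 0) (nat_lit 0) (XT.nd (nat_lit 78) (nat_lit 0) (nat_lit 0) (XT.lf (nat_lit 0) (nat_lit 9070028806) (nat_lit 76) (nat_lit 2536062263) (nat_lit 152) (nat_lit 90088137269) (nat_lit 5) (nat_lit 5) (nat_lit 6) (nat_lit 5) (nat_lit 7) (nat_lit 4) (nat_lit 394) (nat_lit 293) (nat_lit 213)) (XT.nd (nat_lit 78) (nat_lit 0) (nat_lit 0) (XT.lf (nat_lit 0) (nat_lit 19291101390) (nat_lit 152) (nat_lit 81839831222) (nat_lit 0) (nat_lit 5255963640) (nat_lit 5) (nat_lit 5) (nat_lit 7) (nat_lit 4) (nat_lit 5) (nat_lit 4) (nat_lit 395) (nat_lit 293) (nat_lit 212)) (XT.lf (nat_lit 0)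 (nat_lit 27387748314) (nat_lit 152) (nat_lit 70585565803) (nat_lit 0) (nat_lit 13339516005) (nat_lit 5) (nat_lit 5) (nat_lit 7) (nat_lit 4) (nat_lit 5) (nat_lit 4) (nat_lit 396) (nat_lit 293) (nat_lit 211)))) (XT.nd (nat_lit 78) (nat_lit 0) (nat_lit 0) (XT.lf (nat_lit 0) (nat_lit 35875714531) (nat_lit 152) (nat_lit 58795012368) (nat_lit 0) (nat_lit 21815011214) (nat_lit 5) (nat_lit 5) (nat_lit 7) (nat_lit 4) (nat_lit 5) (nat_lit 4) (nat_lit 397) (nat_lit 293) (nat_lit 210)) (XT.nd (nat_lit 78) (nat_lit 0) (nat_lit 0) (XT.lf (nat_lit 0) (nat_lit 44775209485) (nat_lit 152) (nat_lit 46440098169) (nat_lit 0) (nat_lit 30702629018) (nat_lit 5) (nat_lit 5) (nat_lit 7) (nat_lit 4) (nat_lit 5) (nat_lit 4) (nat_lit 398) (nat_lit 293) (nat_lit 209)) (XT.lf (nat_lit 0) (nat_lit 54107422451) (nat_lit 152) (nat_lit 33491406745) (nat_lit 0) (nat_lit 40023530411) (nat_lit 5) (nat_lit 5) (nat_lit 7) (nat_lit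 4) (nat_lit 5) (nat_lit 4) (nat_lit 399) (nat_lit 293) (nat_lit 208)))))) (XT.nd (nat_lit 468) (nat_lit 0) (nat_lit 0) (XT.nd (nat_lit 234) (nat_lit 0) (nat_lit 0) (XT.nd (nat_lit 78) (nat_lit 76) (nat_lit 0) (XT.lf (nat_lit 0) (nat_lit 63894572983) (nat_lit 152) (nat_lit 19918107878) (nat_lit 0) (nat_lit 49799908017) (nat_lit 5) (nat_lit 5) (nat_lit 7) (nat_lit 4) (nat_lit 5) (nat_lit 4) (nat_lit 400) (nat_lit 293) (nat_lit 207)) (XT.nd (nat_lit 78) (nat_lit 76) (nat_lit 0) (XT.lf (nat_lit 0) (nat_lit 74159963819) (nat_lit 152) (nat_lit 5687884189) (nat_lit 0) (nat_lit 60055038924) (nat_lit 5) (nat_lit 5) (nat_lit 7) (nat_lit 4) (nat_lit 5) (nat_lit 4) (nat_lit 401) (nat_lit 293) (nat_lit 206)) (XT.lf (nat_lit 0) (nat_lit 9538435304) (nat_lit 76) (nat_lit 75538522770) (nat_lit 76) (nat_lit 61423826514) (nat_lit 4) (nat_lit 4) (nat_lit 5) (nat_lit 5) (nat_lit 5) (nat_lit 4) (nat_lit 402)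 (nat_lit 293) (nat_lit 205)))) (XT.nd (nat_lit 78) (nat_lit 0) (nat_lit 0) (XT.lf (nat_lit 0) (nat_lit 25703170339) (nat_lit 76) (nat_lit 70922557078) (nat_lit 76) (nat_lit 56798554764) (nat_lit 4) (nat_lit 4) (nat_lit 5) (nat_lit 5) (nat_lit 5) (nat_lit 4) (nat_lit 403) (nat_lit 293) (nat_lit 204)) (XT.nd (nat_lit 78) (nat_lit 0) (nat_lit 0) (XT.lf (nat_lit 0) (nat_lit 42656741242) (nat_lit 76) (nat_lit 66085287610) (nat_lit 76) (nat_lit 51952422383) (nat_lit 4) (nat_lit 4) (nat_lit 5) (nat_lit 5) (nat_lit 5) (nat_lit 4) (nat_lit 404) (nat_lit 293) (nat_lit 203)) (XT.lf (nat_lit 0) (nat_lit 60439513658) (nat_lit 76) (nat_lit 61015197057) (nat_lit 76) (nat_lit 46873890961) (nat_lit 4) (nat_lit 4) (nat_lit 5) (nat_lit 5) (nat_lit 5) (nat_lit 4) (nat_lit 405) (nat_lit 293) (nat_lit 202))))) (XT.nd (nat_lit 234) (nat_lit 0) (nat_lit 0) (XT.nd (nat_lit 78) (nat_lit 0) (nat_lit 0) (XT.lf (nat_lit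 0) (nat_lit 79093827521) (nat_lit 76) (nat_lit 55700213775) (nat_lit 76) (nat_lit 41550868756) (nat_lit 4) (nat_lit 4) (nat_lit 5) (nat_lit 5) (nat_lit 5) (nat_lit 4) (nat_lit 406) (nat_lit 293) (nat_lit 201)) (XT.nd (nat_lit 78) (nat_lit 0) (nat_lit 0) (XT.lf (nat_lit 0) (nat_lit 98664097864) (nat_lit 76) (nat_lit 50127683042) (nat_lit 76) (nat_lit 35970681905) (nat_lit 4) (nat_lit 4) (nat_lit 5) (nat_lit 5) (nat_lit 5) (nat_lit 4) (nat_lit 407) (nat_lit 293) (nat_lit 200)) (XT.lf (nat_lit 0) (nat_lit 119196920569) (nat_lit 76) (nat_lit 44284336927) (nat_lit 76) (nat_lit 30120044251) (nat_lit 4) (nat_lit 4) (nat_lit 5) (nat_lit 5) (nat_lit 5) (nat_lit 4) (nat_lit 408) (nat_lit 293) (nat_lit 199)))) (XT.nd (nat_lit 78) (nat_lit 0) (nat_lit 0) (XT.lf (nat_lit 0) (nat_lit 140741183308) (nat_lit 76) (nat_lit 38156262703) (nat_lit 76) (nat_lit 23985025702) (nat_lit 4) (nat_lit 4) (nat_lit 5)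 (nat_lit 5) (nat_lit 5) (nat_lit 4) (nat_lit 409) (nat_lit 293) (nat_lit 198)) (XT.nd (nat_lit 78) (nat_lit 0) (nat_lit 0) (XT.lf (nat_lit 0) (nat_lit 163348181946) (nat_lit 76) (nat_lit 31728869715) (nat_lit 76) (nat_lit 17551019072) (nat_lit 4) (nat_lit 4) (nat_lit 5) (nat_lit 5) (nat_lit 5) (nat_lit 4) (nat_lit 410) (nat_lit 293) (nat_lit 197)) (XT.lf (nat_lit 0) (nat_lit 187071742670) (nat_lit 76) (nat_lit 24986854647) (nat_lit 76) (nat_lit 10802705298) (nat_lit 4) (nat_lit 4) (nat_lit 5) (nat_lit 5) (nat_lit 5) (nat_lit 4) (nat_lit 411) (nat_lit 293) (nat_lit 196))))))))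
noncomputable def xc83 : XT := (XT.nd (nat_lit 1794) (nat_lit 0) (nat_lit 0) (XT.nd (nat_lit 858) (nat_lit 0) (nat_lit 0) (XT.nd (nat_lit 390) (nat_lit 0) (nat_lit 0) (XT.nd (nat_lit 156) (nat_lit 76) (nat_lit 0) (XT.nd (nat_lit 78) (nat_lit 76) (nat_lit 0) (XT.lf (nat_lit 0) (nat_lit 211968350148) (nat_lit 76) (nat_lit 17914165083) (nat_lit 76) (nat_lit 3724016966) (nat_lit 4) (nat_lit 4) (nat_lit 5) (nat_lit 5) (nat_lit 5) (nat_lit 4) (nat_lit 412) (nat_lit 293) (nat_lit 195)) (XT.lf (nat_lit 0) (nat_lit 3583416027) (nat_lit 152) (nat_lit 6849858373) (nat_lit 76) (nat_lit 234453179105) (nat_lit 3) (nat_lit 5) (nat_lit 5) (nat_lit 5) (nat_lit 4) (nat_lit 4) (nat_lit 413) (nat_lit 293) (nat_lit 194))) (XT.nd (nat_lit 78) (nat_lit 0) (nat_lit 0) (XT.lf (nat_lit 0) (nat_lit 8889227205) (nat_lit 76) (nat_lit 2374445718) (nat_lit 152) (nat_lit 245457016039) (nat_lit 2) (nat_lit 5) (nat_lit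 3) (nat_lit 5) (nat_lit 4) (nat_lit 4) (nat_lit 414) (nat_lit 293) (nat_lit 193)) (XT.nd (nat_lit 78) (nat_lit 0) (nat_lit 0) (XT.lf (nat_lit 0) (nat_lit 19534725153) (nat_lit 152) (nat_lit 243596832464) (nat_lit 0) (nat_lit 6004740153) (nat_lit 2) (nat_lit 5) (nat_lit 4) (nat_lit 4) (nat_lit 2) (nat_lit 4) (nat_lit 415) (nat_lit 293) (nat_lit 192)) (XT.lf (nat_lit 0) (nat_lit 28252383806) (nat_lit 152) (nat_lit 239200952578) (nat_lit 0) (nat_lit 14717698614) (nat_lit 2) (nat_lit 5) (nat_lit 4) (nat_lit 4) (nat_lit 2) (nat_lit 4) (nat_lit 416) (nat_lit 293) (nat_lit 191))))) (XT.nd (nat_lit 234) (nat_lit 0) (nat_lit 0) (XT.nd (nat_lit 78) (nat_lit 0) (nat_lit 0) (XT.lf (nat_lit 0) (nat_lit 37400333460) (nat_lit 152) (nat_lit 234596283966) (nat_lit 0) (nat_lit 23861171894) (nat_lit 2) (nat_lit 5) (nat_lit 4) (nat_lit 4) (nat_lit 2) (nat_lit 4) (nat_lit 417) (nat_lit 293) (nat_lit 190)) (XT.nd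 (nat_lit 78) (nat_lit 0) (nat_lit 0) (XT.lf (nat_lit 0) (nat_lit 47000354947) (nat_lit 152) (nat_lit 229771863132) (nat_lit 0) (nat_lit 33456930169) (nat_lit 2) (nat_lit 5) (nat_lit 4) (nat_lit 4) (nat_lit 2) (nat_lit 4) (nat_lit 418) (nat_lit 293) (nat_lit 189)) (XT.lf (nat_lit 0) (nat_lit 57075305462) (nat_lit 152) (nat_lit 224716203359) (nat_lit 0) (nat_lit 43527820481) (nat_lit 2) (nat_lit 5) (nat_lit 4) (nat_lit 4) (nat_lit 2) (nat_lit 4) (nat_lit 419) (nat_lit 293) (nat_lit 188)))) (XT.nd (nat_lit 78) (nat_lit 0) (nat_lit 0) (XT.lf (nat_lit 0) (nat_lit 67649172982) (nat_lit 152) (nat_lit 219417267362) (nat_lit 0) (nat_lit 54097821142) (nat_lit 2) (nat_lit 5) (nat_lit 4) (nat_lit 4) (nat_lit 2) (nat_lit 4) (nat_lit 420) (nat_lit 293) (nat_lit 187)) (XT.nd (nat_lit 78) (nat_lit 0) (nat_lit 0) (XT.lf (nat_lit 0) (nat_lit 78747133382) (nat_lit 152) (nat_lit 213862438627) (nat_lit 0) (nat_lit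 65192098819) (nat_lit 2) (nat_lit 5) (nat_lit 4) (nat_lit 4) (nat_lit 2) (nat_lit 4) (nat_lit 421) (nat_lit 293) (nat_lit 186)) (XT.lf (nat_lit 0) (nat_lit 90395610378) (nat_lit 152) (nat_lit 208038491371) (nat_lit 0) (nat_lit 76837068459) (nat_lit 2) (nat_lit 5) (nat_lit 4) (nat_lit 4) (nat_lit 2) (nat_lit 4) (nat_lit 422) (nat_lit 293) (nat_lit 185)))))) (XT.nd (nat_lit 468) (nat_lit 0) (nat_lit 0) (XT.nd (nat_lit 234) (nat_lit 0) (nat_lit 0) (XT.nd (nat_lit 78) (nat_lit 0) (nat_lit 0) (XT.lf (nat_lit 0) (nat_lit 102622338437) (nat_lit 152) (nat_lit 201931559053) (nat_lit 0) (nat_lit 89060456180) (nat_lit 2) (nat_lit 5) (nat_lit 4) (nat_lit 4) (nat_lit 2) (nat_lit 4) (nat_lit 423) (nat_lit 293) (nat_lit 184)) (XT.nd (nat_lit 78) (nat_lit 0) (nat_lit 0) (XT.lf (nat_lit 0) (nat_lit 115456428819) (nat_lit 152) (nat_lit 195527101359) (nat_lit 0) (nat_lit 101891365287) (nat_lit 2) (nat_lit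 5) (nat_lit 4) (nat_lit 4) (nat_lit 2) (nat_lit 4) (nat_lit 424) (nat_lit 293) (nat_lit 183)) (XT.lf (nat_lit 0) (nat_lit 128928438880) (nat_lit 152) (nat_lit 188809869578) (nat_lit 0) (nat_lit 115360345563) (nat_lit 2) (nat_lit 5) (nat_lit 4) (nat_lit 4) (nat_lit 2) (nat_lit 4) (nat_lit 425) (nat_lit 293) (nat_lit 182)))) (XT.nd (nat_lit 78) (nat_lit 0) (nat_lit 0) (XT.lf (nat_lit 0) (nat_lit 143070444836) (nat_lit 152) (nat_lit 181763870303) (nat_lit 0) (nat_lit 129499466008) (nat_lit 2) (nat_lit 5) (nat_lit 4) (nat_lit 4) (nat_lit 2) (nat_lit 4) (nat_lit 426) (nat_lit 293) (nat_lit 181)) (XT.nd (nat_lit 78) (nat_lit 0) (nat_lit 0) (XT.lf (nat_lit 0) (nat_lit 157916118128) (nat_lit 152) (nat_lit 174372327344) (nat_lit 0) (nat_lit 144342391195) (nat_lit 2) (nat_lit 5) (nat_lit 4) (nat_lit 4) (nat_lit 2) (nat_lit 4) (nat_lit 427) (nat_lit 293) (nat_lit 180)) (XT.lf (nat_lit 0) (nat_lit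 173500805598) (nat_lit 152) (nat_lit 166617641790) (nat_lit 0) (nat_lit 159924461423) (nat_lit 2) (nat_lit 5) (nat_lit 4) (nat_lit 4) (nat_lit 2) (nat_lit 4) (nat_lit 428) (nat_lit 293) (nat_lit 179))))) (XT.nd (nat_lit 234) (nat_lit 0) (nat_lit 0) (XT.nd (nat_lit 78) (nat_lit 0) (nat_lit 0) (XT.lf (nat_lit 0) (nat_lit 189861613646) (nat_lit 152) (nat_lit 158481350104) (nat_lit 0) (nat_lit 176282776858) (nat_lit 2) (nat_lit 5) (nat_lit 4) (nat_lit 4) (nat_lit 2) (nat_lit 4) (nat_lit 429) (nat_lit 293) (nat_lit 178)) (XT.nd (nat_lit 78) (nat_lit 0) (nat_lit 0) (XT.lf (nat_lit 0) (nat_lit 207037496574) (nat_lit 152) (nat_lit 149944080162) (nat_lit 0) (nat_lit 193456285871) (nat_lit 2) (nat_lit 5) (nat_lit 4) (nat_lit 4) (nat_lit 2) (nat_lit 4) (nat_lit 430) (nat_lit 293) (nat_lit 177)) (XT.lf (nat_lit 0) (nat_lit 225069349344) (nat_lit 152) (nat_lit 140985505132) (nat_lit 0) (nat_lit 211485877768)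 (nat_lit 2) (nat_lit 5) (nat_lit 4) (nat_lit 4) (nat_lit 2) (nat_lit 4) (nat_lit 431) (nat_lit 293) (nat_lit 176)))) (XT.nd (nat_lit 78) (nat_lit 0) (nat_lit 0) (XT.lf (nat_lit 0) (nat_lit 244000104938) (nat_lit 152) (nat_lit 131584295072) (nat_lit 0) (nat_lit 230414480150) (nat_lit 2) (nat_lit 5) (nat_lit 4) (nat_lit 4) (nat_lit 2) (nat_lit 4) (nat_lit 432) (nat_lit 293) (nat_lit 175)) (XT.nd (nat_lit 78) (nat_lit 0) (nat_lit 0) (XT.lf (nat_lit 0) (nat_lit 263874836583) (nat_lit 152) (nat_lit 121718066150) (nat_lit 0) (nat_lit 250287161117) (nat_lit 2) (nat_lit 5) (nat_lit 4) (nat_lit 4) (nat_lit 2) (nat_lit 4) (nat_lit 433) (nat_lit 293) (nat_lit 174)) (XT.lf (nat_lit 0) (nat_lit 284740865070) (nat_lit 152) (nat_lit 111363327344) (nat_lit 0) (nat_lit 271151236577) (nat_lit 2) (nat_lit 5) (nat_lit 4) (nat_lit 4) (nat_lit 2) (nat_lit 4) (nat_lit 434) (nat_lit 293) (nat_lit 173))))))) (XT.nd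 (nat_lit 38064) (nat_lit 0) (nat_lit 3800) (XT.nd (nat_lit 37596) (nat_lit 0) (nat_lit 6156) (XT.nd (nat_lit 37362) (nat_lit 0) (nat_lit 8892) (XT.nd (nat_lit 78) (nat_lit 0) (nat_lit 0) (XT.lf (nat_lit 0) (nat_lit 306647871417) (nat_lit 152) (nat_lit 100495424514) (nat_lit 0) (nat_lit 293056382899) (nat_lit 2) (nat_lit 5) (nat_lit 4) (nat_lit 4) (nat_lit 2) (nat_lit 4) (nat_lit 435) (nat_lit 293) (nat_lit 172)) (XT.nd (nat_lit 37206) (nat_lit 0) (nat_lit 10108) (XT.lf (nat_lit 0) (nat_lit 329648015165) (nat_lit 152) (nat_lit 89088481701) (nat_lit 0) (nat_lit 316054755194) (nat_lit 2) (nat_lit 5) (nat_lit 4) (nat_lit 4) (nat_lit 2) (nat_lit 4) (nat_lit 436) (nat_lit 293) (nat_lit 171)) (XT.lf (nat_lit 0) (nat_lit 1622806712) (nat_lit 532) (nat_lit 190578904) (nat_lit 0) (nat_lit 1622806712) (nat_lit 135) (nat_lit 5) (nat_lit 142) (nat_lit 4) (nat_lit 135) (nat_lit 4) (nat_lit 312) (nat_lit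 294) (nat_lit 294)))) (XT.nd (nat_lit 78) (nat_lit 684) (nat_lit 0) (XT.lf (nat_lit 0) (nat_lit 4323673618) (nat_lit 532) (nat_lit 2262024208) (nat_lit 532) (nat_lit 363573318) (nat_lit 128) (nat_lit 4) (nat_lit 135) (nat_lit 5) (nat_lit 135) (nat_lit 4) (nat_lit 313) (nat_lit 294) (nat_lit 293)) (XT.nd (nat_lit 78) (nat_lit 0) (nat_lit 0) (XT.lf (nat_lit 0) (nat_lit 2112070559) (nat_lit 608) (nat_lit 726256228) (nat_lit 684) (nat_lit 4195850850) (nat_lit 119) (nat_lit 5) (nat_lit 127) (nat_lit 5) (nat_lit 128) (nat_lit 4) (nat_lit 314) (nat_lit 294) (nat_lit 292)) (XT.lf (nat_lit 0) (nat_lit 6086819169) (nat_lit 684) (nat_lit 124643429) (nat_lit 0) (nat_lit 916866526) (nat_lit 119) (nat_lit 5) (nat_lit 128) (nat_lit 4) (nat_lit 119) (nat_lit 4) (nat_lit 315) (nat_lit 294) (nat_lit 291))))) (XT.nd (nat_lit 234) (nat_lit 760) (nat_lit 0) (XT.nd (nat_lit 78) (nat_lit 1216) (nat_lit 0) (XT.lf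 (nat_lit 0) (nat_lit 2132407003) (nat_lit 760) (nat_lit 2360378530) (nat_lit 76) (nat_lit 2736115393) (nat_lit 109) (nat_lit 5) (nat_lit 119) (nat_lit 5) (nat_lit 110) (nat_lit 4) (nat_lit 316) (nat_lit 294) (nat_lit 290)) (XT.nd (nat_lit 78) (nat_lit 456) (nat_lit 0) (XT.lf (nat_lit 0) (nat_lit 2694577608) (nat_lit 760) (nat_lit 2629264559) (nat_lit 836) (nat_lit 2015315937) (nat_lit 99) (nat_lit 5) (nat_lit 109) (nat_lit 5) (nat_lit 110) (nat_lit 4) (nat_lit 317) (nat_lit 294) (nat_lit 289)) (XT.lf (nat_lit 0) (nat_lit 468177273) (nat_lit 380) (nat_lit 612440640) (nat_lit 456) (nat_lit 6378553732) (nat_lit 93) (nat_lit 5) (nat_lit 98) (nat_lit 5) (nat_lit 99) (nat_lit 5) (nat_lit 318) (nat_lit 294) (nat_lit 288)))) (XT.nd (nat_lit 78) (nat_lit 760) (nat_lit 0) (XT.lf (nat_lit 0) (nat_lit 4223304199) (nat_lit 456) (nat_lit 1804269937) (nat_lit 76) (nat_lit 1558149866) (nat_lit 93) (nat_lit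 5) (nat_lit 99) (nat_lit 5) (nat_lit 94) (nat_lit 4) (nat_lit 319) (nat_lit 294) (nat_lit 287)) (XT.nd (nat_lit 78) (nat_lit 456) (nat_lit 0) (XT.lf (nat_lit 0) (nat_lit 3591450953) (nat_lit 304) (nat_lit 3860867519) (nat_lit 380) (nat_lit 269991739) (nat_lit 89) (nat_lit 5) (nat_lit 93) (nat_lit 5) (nat_lit 94) (nat_lit 4) (nat_lit 320) (nat_lit 294) (nat_lit 286)) (XT.lf (nat_lit 0) (nat_lit 1292422020) (nat_lit 380) (nat_lit 1505473186) (nat_lit 456) (nat_lit 5069850913) (nat_lit 83) (nat_lit 5) (nat_lit 88) (nat_lit 5) (nat_lit 89) (nat_lit 5) (nat_lit 321) (nat_lit 294) (nat_lit 285)))))) (XT.nd (nat_lit 468) (nat_lit 1064) (nat_lit 0) (XT.nd (nat_lit 234) (nat_lit 608) (nat_lit 0) (XT.nd (nat_lit 78) (nat_lit 684) (nat_lit 0) (XT.lf (nat_lit 0) (nat_lit 5964849090) (nat_lit 456) (nat_lit 1068507931) (nat_lit 76) (nat_lit 989281520) (nat_lit 83) (nat_lit 5) (nat_lit 89) (nat_lit 5)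 (nat_lit 84) (nat_lit 4) (nat_lit 322) (nat_lit 294) (nat_lit 284)) (XT.nd (nat_lit 78) (nat_lit 304) (nat_lit 0) (XT.lf (nat_lit 0) (nat_lit 1041557366) (nat_lit 380) (nat_lit 3518125383) (nat_lit 76) (nat_lit 3626258069) (nat_lit 78) (nat_lit 5) (nat_lit 83) (nat_lit 5) (nat_lit 79) (nat_lit 5) (nat_lit 323) (nat_lit 294) (nat_lit 283)) (XT.lf (nat_lit 0) (nat_lit 2254456095) (nat_lit 304) (nat_lit 1902129380) (nat_lit 380) (nat_lit 4202766373) (nat_lit 74) (nat_lit 5) (nat_lit 78) (nat_lit 5) (nat_lit 79) (nat_lit 5) (nat_lit 324) (nat_lit 294) (nat_lit 282)))) (XT.nd (nat_lit 78) (nat_lit 608) (nat_lit 0) (XT.lf (nat_lit 0) (nat_lit 7381070009) (nat_lit 380) (nat_lit 273827098) (nat_lit 76) (nat_lit 888968989) (nat_lit 74) (nat_lit 5) (nat_lit 79) (nat_lit 5) (nat_lit 75) (nat_lit 4) (nat_lit 325) (nat_lit 294) (nat_lit 281)) (XT.nd (nat_lit 78) (nat_lit 304) (nat_lit 0) (XT.lf (nat_lit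 0) (nat_lit 1971852179) (nat_lit 304) (nat_lit 2914954188) (nat_lit 76) (nat_lit 3848941305) (nat_lit 70) (nat_lit 5) (nat_lit 74) (nat_lit 5) (nat_lit 71) (nat_lit 5) (nat_lit 326) (nat_lit 294) (nat_lit 280)) (XT.lf (nat_lit 0) (nat_lit 3224500023) (nat_lit 304) (nat_lit 1940961049) (nat_lit 380) (nat_lit 3773845714) (nat_lit 66) (nat_lit 5) (nat_lit 70) (nat_lit 5) (nat_lit 71) (nat_lit 5) (nat_lit 327) (nat_lit 294) (nat_lit 279))))) (XT.nd (nat_lit 234) (nat_lit 532) (nat_lit 0) (XT.nd (nat_lit 78) (nat_lit 304) (nat_lit 0) (XT.lf (nat_lit 0) (nat_lit 462774603) (nat_lit 228) (nat_lit 8020081994) (nat_lit 304) (nat_lit 672078960) (nat_lit 63) (nat_lit 5) (nat_lit 66) (nat_lit 5) (nat_lit 67) (nat_lit 4) (nat_lit 328) (nat_lit 294) (nat_lit 278)) (XT.nd (nat_lit 78) (nat_lit 228) (nat_lit 0) (XT.lf (nat_lit 0) (nat_lit 2522008242) (nat_lit 304) (nat_lit 2458654722) (nat_lit 76) (nat_lit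 4397754957) (nat_lit 62) (nat_lit 5) (nat_lit 66) (nat_lit 5) (nat_lit 63) (nat_lit 5) (nat_lit 329) (nat_lit 294) (nat_lit 277)) (XT.lf (nat_lit 0) (nat_lit 4056753343) (nat_lit 228) (nat_lit 1754818855) (nat_lit 304) (nat_lit 3803117191) (nat_lit 59) (nat_lit 5) (nat_lit 62) (nat_lit 5) (nat_lit 63) (nat_lit 5) (nat_lit 330) (nat_lit 294) (nat_lit 276)))) (XT.nd (nat_lit 78) (nat_lit 304) (nat_lit 0) (XT.lf (nat_lit 0) (nat_lit 976993053) (nat_lit 228) (nat_lit 8268732802) (nat_lit 304) (nat_lit 618122809) (nat_lit 56) (nat_lit 5) (nat_lit 59) (nat_lit 5) (nat_lit 60) (nat_lit 4) (nat_lit 331) (nat_lit 294) (nat_lit 275)) (XT.nd (nat_lit 78) (nat_lit 228) (nat_lit 0) (XT.lf (nat_lit 0) (nat_lit 2661225490) (nat_lit 304) (nat_lit 2313729230) (nat_lit 76) (nat_lit 5147337598) (nat_lit 55) (nat_lit 5) (nat_lit 59) (nat_lit 5) (nat_lit 56) (nat_lit 5) (nat_lit 332) (nat_lit 294) (nat_lit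 274)) (XT.lf (nat_lit 0) (nat_lit 4580009925) (nat_lit 228) (nat_lit 1478046227) (nat_lit 304) (nat_lit 4336449893) (nat_lit 52) (nat_lit 5) (nat_lit 55) (nat_lit 5) (nat_lit 56) (nat_lit 5) (nat_lit 333) (nat_lit 294) (nat_lit 273))))))))
noncomputable def xc84 : XT := (XT.nd (nat_lit 1794) (nat_lit 988) (nat_lit 0) (XT.nd (nat_lit 858) (nat_lit 912) (nat_lit 0) (XT.nd (nat_lit 390) (nat_lit 608) (nat_lit 0) (XT.nd (nat_lit 156) (nat_lit 456) (nat_lit 0) (XT.nd (nat_lit 78) (nat_lit 76) (nat_lit 0) (XT.lf (nat_lit 0) (nat_lit 1073627367) (nat_lit 152) (nat_lit 8546391262) (nat_lit 228) (nat_lit 1060612974) (nat_lit 50) (nat_lit 5) (nat_lit 52) (nat_lit 5) (nat_lit 53) (nat_lit 4) (nat_lit 334) (nat_lit 294) (nat_lit 272)) (XT.lf (nat_lit 0) (nat_lit 2332354291) (nat_lit 228) (nat_lit 2678176249) (nat_lit 76) (nat_lit 5967261206) (nat_lit 49) (nat_lit 5) (nat_lit 52) (nat_lit 5) (nat_lit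 50) (nat_lit 5) (nat_lit 335) (nat_lit 294) (nat_lit 271))) (XT.nd (nat_lit 78) (nat_lit 228) (nat_lit 0) (XT.lf (nat_lit 0) (nat_lit 4586432004) (nat_lit 228) (nat_lit 1254183337) (nat_lit 304) (nat_lit 5449317472) (nat_lit 46) (nat_lit 5) (nat_lit 49) (nat_lit 5) (nat_lit 50) (nat_lit 5) (nat_lit 336) (nat_lit 294) (nat_lit 270)) (XT.nd (nat_lit 78) (nat_lit 76) (nat_lit 0) (XT.lf (nat_lit 0) (nat_lit 524382850) (nat_lit 152) (nat_lit 9007247737) (nat_lit 228) (nat_lit 2085737307) (nat_lit 44) (nat_lit 5) (nat_lit 46) (nat_lit 5) (nat_lit 47) (nat_lit 4) (nat_lit 337) (nat_lit 294) (nat_lit 269)) (XT.lf (nat_lit 0) (nat_lit 1447332601) (nat_lit 228) (nat_lit 3796290214) (nat_lit 76) (nat_lit 6714092464) (nat_lit 43) (nat_lit 5) (nat_lit 46) (nat_lit 5) (nat_lit 44) (nat_lit 5) (nat_lit 338) (nat_lit 294) (nat_lit 268))))) (XT.nd (nat_lit 234) (nat_lit 304) (nat_lit 0) (XT.nd (nat_lit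 78) (nat_lit 152) (nat_lit 0) (XT.lf (nat_lit 0) (nat_lit 3817826956) (nat_lit 152) (nat_lit 1244592963) (nat_lit 228) (nat_lit 7252224240) (nat_lit 41) (nat_lit 5) (nat_lit 43) (nat_lit 5) (nat_lit 44) (nat_lit 5) (nat_lit 339) (nat_lit 294) (nat_lit 267)) (XT.nd (nat_lit 78) (nat_lit 152) (nat_lit 0) (XT.lf (nat_lit 0) (nat_lit 8886715845) (nat_lit 228) (nat_lit 925525848) (nat_lit 76) (nat_lit 2875799520) (nat_lit 41) (nat_lit 5) (nat_lit 44) (nat_lit 5) (nat_lit 42) (nat_lit 4) (nat_lit 340) (nat_lit 294) (nat_lit 266)) (XT.lf (nat_lit 0) (nat_lit 7101122094) (nat_lit 152) (nat_lit 5853311270) (nat_lit 228) (nat_lit 123106738) (nat_lit 39) (nat_lit 5) (nat_lit 41) (nat_lit 5) (nat_lit 42) (nat_lit 4) (nat_lit 341) (nat_lit 294) (nat_lit 265)))) (XT.nd (nat_lit 78) (nat_lit 76) (nat_lit 0) (XT.lf (nat_lit 0) (nat_lit 1948614295) (nat_lit 152) (nat_lit 1638486732) (nat_lit 228) (nat_lit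 9898144956) (nat_lit 36) (nat_lit 5) (nat_lit 38) (nat_lit 5) (nat_lit 39) (nat_lit 5) (nat_lit 342) (nat_lit 294) (nat_lit 264)) (XT.nd (nat_lit 78) (nat_lit 76) (nat_lit 0) (XT.lf (nat_lit 0) (nat_lit 7547394787) (nat_lit 228) (nat_lit 3609673054) (nat_lit 76) (nat_lit 2752769330) (nat_lit 36) (nat_lit 5) (nat_lit 39) (nat_lit 5) (nat_lit 37) (nat_lit 4) (nat_lit 343) (nat_lit 294) (nat_lit 263)) (XT.lf (nat_lit 0) (nat_lit 4712270363) (nat_lit 76) (nat_lit 7019889739) (nat_lit 152) (nat_lit 2622209795) (nat_lit 35) (nat_lit 5) (nat_lit 36) (nat_lit 5) (nat_lit 37) (nat_lit 4) (nat_lit 344) (nat_lit 294) (nat_lit 262)))))) (XT.nd (nat_lit 468) (nat_lit 380) (nat_lit 0) (XT.nd (nat_lit 234) (nat_lit 228) (nat_lit 0) (XT.nd (nat_lit 78) (nat_lit 228) (nat_lit 0) (XT.lf (nat_lit 0) (nat_lit 1251802469) (nat_lit 152) (nat_lit 1389587871) (nat_lit 76) (nat_lit 12179324874) (nat_lit 34) (nat_lit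 5) (nat_lit 36) (nat_lit 5) (nat_lit 35) (nat_lit 5) (nat_lit 345) (nat_lit 294) (nat_lit 261)) (XT.nd (nat_lit 78) (nat_lit 76) (nat_lit 0) (XT.lf (nat_lit 0) (nat_lit 5308371189) (nat_lit 228) (nat_lit 7990412222) (nat_lit 76) (nat_lit 2005626150) (nat_lit 32) (nat_lit 5) (nat_lit 35) (nat_lit 5) (nat_lit 33) (nat_lit 4) (nat_lit 346) (nat_lit 294) (nat_lit 260)) (XT.lf (nat_lit 0) (nat_lit 543050021) (nat_lit 76) (nat_lit 9031054436) (nat_lit 152) (nat_lit 6237896010) (nat_lit 31) (nat_lit 5) (nat_lit 32) (nat_lit 5) (nat_lit 33) (nat_lit 4) (nat_lit 347) (nat_lit 294) (nat_lit 259)))) (XT.nd (nat_lit 78) (nat_lit 228) (nat_lit 0) (XT.lf (nat_lit 0) (nat_lit 9662001689) (nat_lit 76) (nat_lit 4458532598) (nat_lit 152) (nat_lit 2221093421) (nat_lit 31) (nat_lit 5) (nat_lit 32) (nat_lit 5) (nat_lit 33) (nat_lit 4) (nat_lit 348) (nat_lit 294) (nat_lit 258)) (XT.nd (nat_lit 78) (nat_lit 0)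 (nat_lit 0) (XT.lf (nat_lit 0) (nat_lit 1907921640) (nat_lit 228) (nat_lit 14638037519) (nat_lit 76) (nat_lit 351479591) (nat_lit 28) (nat_lit 5) (nat_lit 31) (nat_lit 5) (nat_lit 29) (nat_lit 4) (nat_lit 349) (nat_lit 294) (nat_lit 257)) (XT.lf (nat_lit 0) (nat_lit 6291648439) (nat_lit 228) (nat_lit 5825227173) (nat_lit 76) (nat_lit 5356222517) (nat_lit 28) (nat_lit 5) (nat_lit 31) (nat_lit 5) (nat_lit 29) (nat_lit 4) (nat_lit 350) (nat_lit 294) (nat_lit 256))))) (XT.nd (nat_lit 234) (nat_lit 76) (nat_lit 0) (XT.nd (nat_lit 78) (nat_lit 228) (nat_lit 0) (XT.lf (nat_lit 0) (nat_lit 3427675666) (nat_lit 76) (nat_lit 7458340984) (nat_lit 152) (nat_lit 7191973520) (nat_lit 27) (nat_lit 5) (nat_lit 28) (nat_lit 5) (nat_lit 29) (nat_lit 4) (nat_lit 351) (nat_lit 294) (nat_lit 255)) (XT.nd (nat_lit 78) (nat_lit 228) (nat_lit 0) (XT.lf (nat_lit 0) (nat_lit 13236985638) (nat_lit 76) (nat_lit 2510971762)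 (nat_lit 152) (nat_lit 2963298085) (nat_lit 27) (nat_lit 5) (nat_lit 28) (nat_lit 5) (nat_lit 29) (nat_lit 4) (nat_lit 352) (nat_lit 294) (nat_lit 254)) (XT.lf (nat_lit 0) (nat_lit 1478328196) (nat_lit 228) (nat_lit 15251796311) (nat_lit 76) (nat_lit 2642486875) (nat_lit 24) (nat_lit 5) (nat_lit 27) (nat_lit 5) (nat_lit 25) (nat_lit 4) (nat_lit 353) (nat_lit 294) (nat_lit 253)))) (XT.nd (nat_lit 78) (nat_lit 76) (nat_lit 0) (XT.lf (nat_lit 0) (nat_lit 6119439361) (nat_lit 228) (nat_lit 5873718457) (nat_lit 76) (nat_lit 8067617300) (nat_lit 24) (nat_lit 5) (nat_lit 27) (nat_lit 5) (nat_lit 25) (nat_lit 4) (nat_lit 354) (nat_lit 294) (nat_lit 252)) (XT.nd (nat_lit 78) (nat_lit 0) (nat_lit 0) (XT.lf (nat_lit 0) (nat_lit 4000577788) (nat_lit 76) (nat_lit 6998866726) (nat_lit 152) (nat_lit 9783578192) (nat_lit 23) (nat_lit 5) (nat_lit 24) (nat_lit 5) (nat_lit 25) (nat_lit 4) (nat_lit 355) (nat_lit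 294) (nat_lit 251)) (XT.lf (nat_lit 0) (nat_lit 14473406775) (nat_lit 76) (nat_lit 1694996975) (nat_lit 152) (nat_lit 5370747982) (nat_lit 23) (nat_lit 5) (nat_lit 24) (nat_lit 5) (nat_lit 25) (nat_lit 4) (nat_lit 356) (nat_lit 294) (nat_lit 250))))))) (XT.nd (nat_lit 936) (nat_lit 380) (nat_lit 0) (XT.nd (nat_lit 468) (nat_lit 304) (nat_lit 0) (XT.nd (nat_lit 234) (nat_lit 76) (nat_lit 0) (XT.nd (nat_lit 78) (nat_lit 152) (nat_lit 0) (XT.lf (nat_lit 0) (nat_lit 3078501968) (nat_lit 76) (nat_lit 18573270893) (nat_lit 76) (nat_lit 678532203) (nat_lit 22) (nat_lit 4) (nat_lit 23) (nat_lit 5) (nat_lit 23) (nat_lit 4) (nat_lit 357) (nat_lit 294) (nat_lit 249)) (XT.nd (nat_lit 78) (nat_lit 76) (nat_lit 0) (XT.lf (nat_lit 0) (nat_lit 4209309930) (nat_lit 152) (nat_lit 9372369624) (nat_lit 76) (nat_lit 9571185215) (nat_lit 21) (nat_lit 5) (nat_lit 23) (nat_lit 5) (nat_lit 22) (nat_lit 4) (nat_lit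 358) (nat_lit 294) (nat_lit 248)) (XT.lf (nat_lit 0) (nat_lit 927671600) (nat_lit 76) (nat_lit 8355626518) (nat_lit 152) (nat_lit 14734484092) (nat_lit 20) (nat_lit 5) (nat_lit 21) (nat_lit 5) (nat_lit 22) (nat_lit 4) (nat_lit 359) (nat_lit 294) (nat_lit 247)))) (XT.nd (nat_lit 78) (nat_lit 76) (nat_lit 0) (XT.lf (nat_lit 0) (nat_lit 11977653437) (nat_lit 76) (nat_lit 2743096710) (nat_lit 152) (nat_lit 10199720278) (nat_lit 20) (nat_lit 5) (nat_lit 21) (nat_lit 5) (nat_lit 22) (nat_lit 4) (nat_lit 360) (nat_lit 294) (nat_lit 246)) (XT.nd (nat_lit 78) (nat_lit 76) (nat_lit 0) (XT.lf (nat_lit 0) (nat_lit 20432009440) (nat_lit 152) (nat_lit 2425208896) (nat_lit 0) (nat_lit 3010990479) (nat_lit 20) (nat_lit 5) (nat_lit 22) (nat_lit 4) (nat_lit 20) (nat_lit 4) (nat_lit 361) (nat_lit 294) (nat_lit 245)) (XT.lf (nat_lit 0) (nat_lit 8770331462) (nat_lit 76) (nat_lit 17795401730) (nat_lit 76) (nat_lit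 290767763) (nat_lit 19) (nat_lit 4) (nat_lit 20) (nat_lit 5) (nat_lit 20) (nat_lit 4) (nat_lit 362) (nat_lit 294) (nat_lit 244))))) (XT.nd (nat_lit 234) (nat_lit 152) (nat_lit 0) (XT.nd (nat_lit 78) (nat_lit 76) (nat_lit 0) (XT.lf (nat_lit 0) (nat_lit 4945192864) (nat_lit 152) (nat_lit 7446621934) (nat_lit 76) (nat_lit 15498569554) (nat_lit 18) (nat_lit 5) (nat_lit 20) (nat_lit 5) (nat_lit 19) (nat_lit 4) (nat_lit 363) (nat_lit 294) (nat_lit 243)) (XT.nd (nat_lit 78) (nat_lit 0) (nat_lit 0) (XT.lf (nat_lit 0) (nat_lit 3760663412) (nat_lit 76) (nat_lit 6688493658) (nat_lit 152) (nat_lit 18525777935) (nat_lit 17) (nat_lit 5) (nat_lit 18) (nat_lit 5) (nat_lit 19) (nat_lit 4) (nat_lit 364) (nat_lit 294) (nat_lit 242)) (XT.lf (nat_lit 0) (nat_lit 15708293008) (nat_lit 76) (nat_lit 604210102) (nat_lit 152) (nat_lit 13797010692) (nat_lit 17) (nat_lit 5) (nat_lit 18) (nat_lit 5) (nat_lit 19) (nat_lit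 4) (nat_lit 365) (nat_lit 294) (nat_lit 241)))) (XT.nd (nat_lit 78) (nat_lit 152) (nat_lit 0) (XT.lf (nat_lit 0) (nat_lit 22518848931) (nat_lit 152) (nat_lit 3214097228) (nat_lit 0) (nat_lit 5565393082) (nat_lit 17) (nat_lit 5) (nat_lit 19) (nat_lit 4) (nat_lit 17) (nat_lit 4) (nat_lit 366) (nat_lit 294) (nat_lit 240)) (XT.nd (nat_lit 78) (nat_lit 76) (nat_lit 0) (XT.lf (nat_lit 0) (nat_lit 8729228368) (nat_lit 76) (nat_lit 20413927466) (nat_lit 76) (nat_lit 3398076812) (nat_lit 16) (nat_lit 4) (nat_lit 17) (nat_lit 5) (nat_lit 17) (nat_lit 4) (nat_lit 367) (nat_lit 294) (nat_lit 239)) (XT.lf (nat_lit 0) (nat_lit 2197183395) (nat_lit 152) (nat_lit 12571048316) (nat_lit 76) (nat_lit 19075445391) (nat_lit 15) (nat_lit 5) (nat_lit 17) (nat_lit 5) (nat_lit 16) (nat_lit 4) (nat_lit 368) (nat_lit 294) (nat_lit 238)))))) (XT.nd (nat_lit 468) (nat_lit 228) (nat_lit 0) (XT.nd (nat_lit 234) (nat_lit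 76) (nat_lit 0) (XT.nd (nat_lit 78) (nat_lit 76) (nat_lit 0) (XT.lf (nat_lit 0) (nat_lit 7921382773) (nat_lit 152) (nat_lit 893033520) (nat_lit 76) (nat_lit 26395881161) (nat_lit 15) (nat_lit 5) (nat_lit 17) (nat_lit 5) (nat_lit 16) (nat_lit 4) (nat_lit 369) (nat_lit 294) (nat_lit 237)) (XT.nd (nat_lit 78) (nat_lit 0) (nat_lit 0) (XT.lf (nat_lit 0) (nat_lit 11676623274) (nat_lit 76) (nat_lit 2402591582) (nat_lit 152) (nat_lit 22558670136) (nat_lit 14) (nat_lit 5) (nat_lit 15) (nat_lit 5) (nat_lit 16) (nat_lit 4) (nat_lit 370) (nat_lit 294) (nat_lit 236)) (XT.lf (nat_lit 0) (nat_lit 20593197456) (nat_lit 152) (nat_lit 13364336293) (nat_lit 0) (nat_lit 4176912175) (nat_lit 14) (nat_lit 5) (nat_lit 16) (nat_lit 4) (nat_lit 14) (nat_lit 4) (nat_lit 371) (nat_lit 294) (nat_lit 235)))) (XT.nd (nat_lit 78) (nat_lit 76) (nat_lit 0) (XT.lf (nat_lit 0) (nat_lit 27439205291) (nat_lit 152) (nat_lit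 1289959885) (nat_lit 0) (nat_lit 10976360047) (nat_lit 14) (nat_lit 5) (nat_lit 16) (nat_lit 4) (nat_lit 14) (nat_lit 4) (nat_lit 372) (nat_lit 294) (nat_lit 234)) (XT.nd (nat_lit 78) (nat_lit 0) (nat_lit 0) (XT.lf (nat_lit 0) (nat_lit 11702686249) (nat_lit 76) (nat_lit 23076052675) (nat_lit 76) (nat_lit 6568864608) (nat_lit 13) (nat_lit 4) (nat_lit 14) (nat_lit 5) (nat_lit 14) (nat_lit 4) (nat_lit 373) (nat_lit 294) (nat_lit 233)) (XT.lf (nat_lit 0) (nat_lit 25330708923) (nat_lit 76) (nat_lit 17145477652) (nat_lit 76) (nat_lit 596058325) (nat_lit 13) (nat_lit 4) (nat_lit 14) (nat_lit 5) (nat_lit 14) (nat_lit 4) (nat_lit 374) (nat_lit 294) (nat_lit 232))))) (XT.nd (nat_lit 234) (nat_lit 76) (nat_lit 0) (XT.nd (nat_lit 78) (nat_lit 76) (nat_lit 0) (XT.lf (nat_lit 0) (nat_lit 5463815375) (nat_lit 152) (nat_lit 5388818056) (nat_lit 76) (nat_lit 34027556176) (nat_lit 12) (nat_lit 5) (nat_lit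 14) (nat_lit 5) (nat_lit 13) (nat_lit 4) (nat_lit 375) (nat_lit 294) (nat_lit 231)) (XT.nd (nat_lit 78) (nat_lit 0) (nat_lit 0) (XT.lf (nat_lit 0) (nat_lit 7765820269) (nat_lit 76) (nat_lit 4133577214) (nat_lit 152) (nat_lit 34874013376) (nat_lit 11) (nat_lit 5) (nat_lit 12) (nat_lit 5) (nat_lit 13) (nat_lit 4) (nat_lit 376) (nat_lit 294) (nat_lit 230)) (XT.lf (nat_lit 0) (nat_lit 18766748434) (nat_lit 152) (nat_lit 27093183217) (nat_lit 0) (nat_lit 2895866983) (nat_lit 11) (nat_lit 5) (nat_lit 13) (nat_lit 4) (nat_lit 11) (nat_lit 4) (nat_lit 377) (nat_lit 294) (nat_lit 229)))) (XT.nd (nat_lit 78) (nat_lit 76) (nat_lit 0) (XT.lf (nat_lit 0) (nat_lit 26018201591) (nat_lit 152) (nat_lit 14702841339) (nat_lit 0) (nat_lit 10114230844) (nat_lit 11) (nat_lit 5) (nat_lit 13) (nat_lit 4) (nat_lit 11) (nat_lit 4) (nat_lit 378) (nat_lit 294) (nat_lit 228)) (XT.nd (nat_lit 78) (nat_lit 76) (nat_lit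 0) (XT.lf (nat_lit 0) (nat_lit 33606485597) (nat_lit 152) (nat_lit 1742527419) (nat_lit 0) (nat_lit 17671001233) (nat_lit 11) (nat_lit 5) (nat_lit 13) (nat_lit 4) (nat_lit 11) (nat_lit 4) (nat_lit 379) (nat_lit 294) (nat_lit 227)) (XT.lf (nat_lit 0) (nat_lit 12209393266) (nat_lit 76) (nat_lit 29530897372) (nat_lit 76) (nat_lit 13565400040) (nat_lit 10) (nat_lit 4) (nat_lit 11) (nat_lit 5) (nat_lit 11) (nat_lit 4) (nat_lit 380) (nat_lit 294) (nat_lit 226))))))))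
noncomputable def xc85 : XT := (XT.nd (nat_lit 1794) (nat_lit 152) (nat_lit 0) (XT.nd (nat_lit 858) (nat_lit 228) (nat_lit 0) (XT.nd (nat_lit 390) (nat_lit 76) (nat_lit 0) (XT.nd (nat_lit 156) (nat_lit 152) (nat_lit 0) (XT.nd (nat_lit 78) (nat_lit 0) (nat_lit 0) (XT.lf (nat_lit 0) (nat_lit 26872981902) (nat_lit 76) (nat_lit 23413241175) (nat_lit 76) (nat_lit 7419160064) (nat_lit 10) (nat_lit 4) (nat_lit 11) (nat_lit 5) (nat_lit 11) (nat_lit 4) (nat_lit 381) (nat_lit 294) (nat_lit 225)) (XT.lf (nat_lit 0) (nat_lit 42225535966) (nat_lit 76) (nat_lit 17010989123) (nat_lit 76) (nat_lit 989685365) (nat_lit 10) (nat_lit 4) (nat_lit 11) (nat_lit 5) (nat_lit 11) (nat_lit 4) (nat_lit 382) (nat_lit 294) (nat_lit 224))) (XT.nd (nat_lit 78) (nat_lit 76) (nat_lit 0) (XT.lf (nat_lit 0) (nat_lit 5554669858) (nat_lit 152) (nat_lit 4660156879) (nat_lit 76) (nat_lit 52654868280) (nat_lit 9) (nat_lit 5) (nat_lit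 11) (nat_lit 5) (nat_lit 10) (nat_lit 4) (nat_lit 383) (nat_lit 294) (nat_lit 223)) (XT.nd (nat_lit 78) (nat_lit 0) (nat_lit 0) (XT.lf (nat_lit 0) (nat_lit 9597537675) (nat_lit 76) (nat_lit 2924149889) (nat_lit 152) (nat_lit 53116423142) (nat_lit 8) (nat_lit 5) (nat_lit 9) (nat_lit 5) (nat_lit 10) (nat_lit 4) (nat_lit 384) (nat_lit 294) (nat_lit 222)) (XT.lf (nat_lit 0) (nat_lit 19970074415) (nat_lit 152) (nat_lit 43927138984) (nat_lit 0) (nat_lit 4641086055) (nat_lit 8) (nat_lit 5) (nat_lit 10) (nat_lit 4) (nat_lit 8) (nat_lit 4) (nat_lit 385) (nat_lit 294) (nat_lit 221))))) (XT.nd (nat_lit 234) (nat_lit 76) (nat_lit 0) (XT.nd (nat_lit 78) (nat_lit 0) (nat_lit 0) (XT.lf (nat_lit 0) (nat_lit 27818757802) (nat_lit 152) (nat_lit 31294909227) (nat_lit 0) (nat_lit 12468439787) (nat_lit 8) (nat_lit 5) (nat_lit 10) (nat_lit 4) (nat_lit 8) (nat_lit 4) (nat_lit 386) (nat_lit 294) (nat_lit 220))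 (XT.nd (nat_lit 78) (nat_lit 0) (nat_lit 0) (XT.lf (nat_lit 0) (nat_lit 36040770893) (nat_lit 152) (nat_lit 18068152849) (nat_lit 0) (nat_lit 20670138920) (nat_lit 8) (nat_lit 5) (nat_lit 10) (nat_lit 4) (nat_lit 8) (nat_lit 4) (nat_lit 387) (nat_lit 294) (nat_lit 219)) (XT.lf (nat_lit 0) (nat_lit 44655689910) (nat_lit 152) (nat_lit 4215377571) (nat_lit 0) (nat_lit 29265711309) (nat_lit 8) (nat_lit 5) (nat_lit 10) (nat_lit 4) (nat_lit 8) (nat_lit 4) (nat_lit 388) (nat_lit 294) (nat_lit 218)))) (XT.nd (nat_lit 78) (nat_lit 0) (nat_lit 0) (XT.lf (nat_lit 0) (nat_lit 10636844866) (nat_lit 76) (nat_lit 43213252655) (nat_lit 76) (nat_lit 27804848696) (nat_lit 7) (nat_lit 4) (nat_lit 8) (nat_lit 5) (nat_lit 8) (nat_lit 4) (nat_lit 389) (nat_lit 294) (nat_lit 217)) (XT.nd (nat_lit 78) (nat_lit 0) (nat_lit 0) (XT.lf (nat_lit 0) (nat_lit 26344932283) (nat_lit 76) (nat_lit 37213662834) (nat_lit 76)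 (nat_lit 21787710914) (nat_lit 7) (nat_lit 4) (nat_lit 8) (nat_lit 5) (nat_lit 8) (nat_lit 4) (nat_lit 390) (nat_lit 294) (nat_lit 216)) (XT.lf (nat_lit 0) (nat_lit 42806905468) (nat_lit 76) (nat_lit 30929402741) (nat_lit 76) (nat_lit 15486738477) (nat_lit 7) (nat_lit 4) (nat_lit 8) (nat_lit 5) (nat_lit 8) (nat_lit 4) (nat_lit 391) (nat_lit 294) (nat_lit 215)))))) (XT.nd (nat_lit 468) (nat_lit 76) (nat_lit 0) (XT.nd (nat_lit 234) (nat_lit 76) (nat_lit 0) (XT.nd (nat_lit 78) (nat_lit 76) (nat_lit 0) (XT.lf (nat_lit 0) (nat_lit 60061959595) (nat_lit 76) (nat_lit 24345509851) (nat_lit 76) (nat_lit 8886929069) (nat_lit 7) (nat_lit 4) (nat_lit 8) (nat_lit 5) (nat_lit 8) (nat_lit 4) (nat_lit 392) (nat_lit 294) (nat_lit 214)) (XT.nd (nat_lit 78) (nat_lit 76) (nat_lit 0) (XT.lf (nat_lit 0) (nat_lit 78151178125) (nat_lit 76) (nat_lit 17446308229) (nat_lit 76) (nat_lit 1972568859) (nat_lit 7) (nat_lit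 4) (nat_lit 8) (nat_lit 5) (nat_lit 8) (nat_lit 4) (nat_lit 393) (nat_lit 294) (nat_lit 213)) (XT.lf (nat_lit 0) (nat_lit 5104042229) (nat_lit 152) (nat_lit 5024889549) (nat_lit 76) (nat_lit 91927148973) (nat_lit 6) (nat_lit 5) (nat_lit 8) (nat_lit 5) (nat_lit 7) (nat_lit 4) (nat_lit 394) (nat_lit 294) (nat_lit 212)))) (XT.nd (nat_lit 78) (nat_lit 0) (nat_lit 0) (XT.lf (nat_lit 0) (nat_lit 10361719382) (nat_lit 76) (nat_lit 2254692709) (nat_lit 152) (nat_lit 94140969505) (nat_lit 5) (nat_lit 5) (nat_lit 6) (nat_lit 5) (nat_lit 7) (nat_lit 4) (nat_lit 395) (nat_lit 294) (nat_lit 211)) (XT.nd (nat_lit 78) (nat_lit 0) (nat_lit 0) (XT.lf (nat_lit 0) (nat_lit 20671265211) (nat_lit 152) (nat_lit 85119085093) (nat_lit 0) (nat_lit 5895055720) (nat_lit 5) (nat_lit 5) (nat_lit 7) (nat_lit 4) (nat_lit 5) (nat_lit 4) (nat_lit 396) (nat_lit 294) (nat_lit 210)) (XT.lf (nat_lit 0) (nat_lit 29152953587)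 (nat_lit 152) (nat_lit 73340808198) (nat_lit 0) (nat_lit 14364866946) (nat_lit 5) (nat_lit 5) (nat_lit 7) (nat_lit 4) (nat_lit 5) (nat_lit 4) (nat_lit 397) (nat_lit 294) (nat_lit 209))))) (XT.nd (nat_lit 234) (nat_lit 76) (nat_lit 0) (XT.nd (nat_lit 78) (nat_lit 0) (nat_lit 0) (XT.lf (nat_lit 0) (nat_lit 38046469646) (nat_lit 152) (nat_lit 60997585943) (nat_lit 0) (nat_lit 23247071432) (nat_lit 5) (nat_lit 5) (nat_lit 7) (nat_lit 4) (nat_lit 5) (nat_lit 4) (nat_lit 398) (nat_lit 294) (nat_lit 208)) (XT.nd (nat_lit 78) (nat_lit 0) (nat_lit 0) (XT.lf (nat_lit 0) (nat_lit 47372988425) (nat_lit 152) (nat_lit 48060029703) (nat_lit 0) (nat_lit 32562817286) (nat_lit 5) (nat_lit 5) (nat_lit 7) (nat_lit 4) (nat_lit 5) (nat_lit 4) (nat_lit 399) (nat_lit 294) (nat_lit 207)) (XT.lf (nat_lit 0) (nat_lit 57154715922) (nat_lit 152) (nat_lit 34497335773) (nat_lit 0) (nat_lit 42334284853) (nat_lit 5) (nat_lit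 5) (nat_lit 7) (nat_lit 4) (nat_lit 5) (nat_lit 4) (nat_lit 400) (nat_lit 294) (nat_lit 206)))) (XT.nd (nat_lit 78) (nat_lit 76) (nat_lit 0) (XT.lf (nat_lit 0) (nat_lit 67414941963) (nat_lit 152) (nat_lit 20277212025) (nat_lit 0) (nat_lit 52584739533) (nat_lit 5) (nat_lit 5) (nat_lit 7) (nat_lit 4) (nat_lit 5) (nat_lit 4) (nat_lit 401) (nat_lit 294) (nat_lit 205)) (XT.nd (nat_lit 78) (nat_lit 76) (nat_lit 0) (XT.lf (nat_lit 0) (nat_lit 78178095659) (nat_lit 152) (nat_lit 5365801021) (nat_lit 0) (nat_lit 63338587171) (nat_lit 5) (nat_lit 5) (nat_lit 7) (nat_lit 4) (nat_lit 5) (nat_lit 4) (nat_lit 402) (nat_lit 294) (nat_lit 204)) (XT.lf (nat_lit 0) (nat_lit 10612052554) (nat_lit 76) (nat_lit 79023434892) (nat_lit 76) (nat_lit 64175063492) (nat_lit 4) (nat_lit 4) (nat_lit 5) (nat_lit 5) (nat_lit 5) (nat_lit 4) (nat_lit 403) (nat_lit 294) (nat_lit 203))))))) (XT.nd (nat_lit 936) (nat_lit 0)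 (nat_lit 0) (XT.nd (nat_lit 468) (nat_lit 152) (nat_lit 0) (XT.nd (nat_lit 234) (nat_lit 0) (nat_lit 0) (XT.nd (nat_lit 78) (nat_lit 0) (nat_lit 0) (XT.lf (nat_lit 0) (nat_lit 27556610270) (nat_lit 76) (nat_lit 74190576345) (nat_lit 76) (nat_lit 59333764075) (nat_lit 4) (nat_lit 4) (nat_lit 5) (nat_lit 5) (nat_lit 5) (nat_lit 4) (nat_lit 404) (nat_lit 294) (nat_lit 202)) (XT.nd (nat_lit 78) (nat_lit 0) (nat_lit 0) (XT.lf (nat_lit 0) (nat_lit 45330798699) (nat_lit 76) (nat_lit 69124686670) (nat_lit 76) (nat_lit 54259835477) (nat_lit 4) (nat_lit 4) (nat_lit 5) (nat_lit 5) (nat_lit 5) (nat_lit 4) (nat_lit 405) (nat_lit 294) (nat_lit 201)) (XT.lf (nat_lit 0) (nat_lit 63976937336) (nat_lit 76) (nat_lit 63813704223) (nat_lit 76) (nat_lit 48941196913) (nat_lit 4) (nat_lit 4) (nat_lit 5) (nat_lit 5) (nat_lit 5) (nat_lit 4) (nat_lit 406) (nat_lit 294) (nat_lit 200)))) (XT.nd (nat_lit 78) (nat_lit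 0) (nat_lit 0) (XT.lf (nat_lit 0) (nat_lit 83539421749) (nat_lit 76) (nat_lit 58244983810) (nat_lit 76) (nat_lit 43365184959) (nat_lit 4) (nat_lit 4) (nat_lit 5) (nat_lit 5) (nat_lit 5) (nat_lit 4) (nat_lit 407) (nat_lit 294) (nat_lit 199)) (XT.nd (nat_lit 78) (nat_lit 0) (nat_lit 0) (XT.lf (nat_lit 0) (nat_lit 104064829283) (nat_lit 76) (nat_lit 52405266571) (nat_lit 76) (nat_lit 37518523397) (nat_lit 4) (nat_lit 4) (nat_lit 5) (nat_lit 5) (nat_lit 5) (nat_lit 4) (nat_lit 408) (nat_lit 294) (nat_lit 198)) (XT.lf (nat_lit 0) (nat_lit 125602029955) (nat_lit 76) (nat_lit 46280648419) (nat_lit 76) (nat_lit 31387291603) (nat_lit 4) (nat_lit 4) (nat_lit 5) (nat_lit 5) (nat_lit 5) (nat_lit 4) (nat_lit 409) (nat_lit 294) (nat_lit 197))))) (XT.nd (nat_lit 234) (nat_lit 152) (nat_lit 0) (XT.nd (nat_lit 78) (nat_lit 0) (nat_lit 0) (XT.lf (nat_lit 0) (nat_lit 148202302814) (nat_lit 76) (nat_lit 39856546928)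 (nat_lit 76) (nat_lit 24956891405) (nat_lit 4) (nat_lit 4) (nat_lit 5) (nat_lit 5) (nat_lit 5) (nat_lit 4) (nat_lit 410) (nat_lit 294) (nat_lit 196)) (XT.nd (nat_lit 78) (nat_lit 0) (nat_lit 0) (XT.lf (nat_lit 0) (nat_lit 171919458035) (nat_lit 76) (nat_lit 33117666620) (nat_lit 76) (nat_lit 18212012329) (nat_lit 4) (nat_lit 4) (nat_lit 5) (nat_lit 5) (nat_lit 5) (nat_lit 4) (nat_lit 411) (nat_lit 294) (nat_lit 195)) (XT.lf (nat_lit 0) (nat_lit 196809965033) (nat_lit 76) (nat_lit 26047962541) (nat_lit 76) (nat_lit 11136595137) (nat_lit 4) (nat_lit 4) (nat_lit 5) (nat_lit 5) (nat_lit 5) (nat_lit 4) (nat_lit 412) (nat_lit 294) (nat_lit 194)))) (XT.nd (nat_lit 78) (nat_lit 152) (nat_lit 0) (XT.lf (nat_lit 0) (nat_lit 222933086922) (nat_lit 76) (nat_lit 18630602062) (nat_lit 76) (nat_lit 3713793599) (nat_lit 4) (nat_lit 4) (nat_lit 5) (nat_lit 5) (nat_lit 5) (nat_lit 4) (nat_lit 413) (nat_lit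 294) (nat_lit 193)) (XT.nd (nat_lit 78) (nat_lit 76) (nat_lit 0) (XT.lf (nat_lit 0) (nat_lit 3943670079) (nat_lit 152) (nat_lit 6837466762) (nat_lit 76) (nat_lit 246340563569) (nat_lit 3) (nat_lit 5) (nat_lit 5) (nat_lit 5) (nat_lit 4) (nat_lit 4) (nat_lit 414) (nat_lit 294) (nat_lit 192)) (XT.lf (nat_lit 0) (nat_lit 9682849152) (nat_lit 76) (nat_lit 2321919031) (nat_lit 152) (nat_lit 257543039067) (nat_lit 2) (nat_lit 5) (nat_lit 3) (nat_lit 5) (nat_lit 4) (nat_lit 4) (nat_lit 415) (nat_lit 294) (nat_lit 191)))))) (XT.nd (nat_lit 468) (nat_lit 0) (nat_lit 0) (XT.nd (nat_lit 234) (nat_lit 0) (nat_lit 0) (XT.nd (nat_lit 78) (nat_lit 0) (nat_lit 0) (XT.lf (nat_lit 0) (nat_lit 20683447402) (nat_lit 152) (nat_lit 255438194973) (nat_lit 0) (nat_lit 6462851385) (nat_lit 2) (nat_lit 5) (nat_lit 4) (nat_lit 4) (nat_lit 2) (nat_lit 4) (nat_lit 416) (nat_lit 294) (nat_lit 190)) (XT.nd (nat_lit 78)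 (nat_lit 0) (nat_lit 0) (XT.lf (nat_lit 0) (nat_lit 29828799178) (nat_lit 152) (nat_lit 250838639145) (nat_lit 0) (nat_lit 15603939949) (nat_lit 2) (nat_lit 5) (nat_lit 4) (nat_lit 4) (nat_lit 2) (nat_lit 4) (nat_lit 417) (nat_lit 294) (nat_lit 189)) (XT.lf (nat_lit 0) (nat_lit 39426346496) (nat_lit 152) (nat_lit 246019087630) (nat_lit 0) (nat_lit 25197427064) (nat_lit 2) (nat_lit 5) (nat_lit 4) (nat_lit 4) (nat_lit 2) (nat_lit 4) (nat_lit 418) (nat_lit 294) (nat_lit 188)))) (XT.nd (nat_lit 78) (nat_lit 0) (nat_lit 0) (XT.lf (nat_lit 0) (nat_lit 49498940660) (nat_lit 152) (nat_lit 240968065303) (nat_lit 0) (nat_lit 35266154368) (nat_lit 2) (nat_lit 5) (nat_lit 4) (nat_lit 4) (nat_lit 2) (nat_lit 4) (nat_lit 419) (nat_lit 294) (nat_lit 187)) (XT.nd (nat_lit 78) (nat_lit 0) (nat_lit 0) (XT.lf (nat_lit 0) (nat_lit 60070564035) (nat_lit 152) (nat_lit 235673545921) (nat_lit 0) (nat_lit 45834095021)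 (nat_lit 2) (nat_lit 5) (nat_lit 4) (nat_lit 4) (nat_lit 2) (nat_lit 4) (nat_lit 420) (nat_lit 294) (nat_lit 186)) (XT.lf (nat_lit 0) (nat_lit 71166387155) (nat_lit 152) (nat_lit 230122923487) (nat_lit 0) (nat_lit 56926410785) (nat_lit 2) (nat_lit 5) (nat_lit 4) (nat_lit 4) (nat_lit 2) (nat_lit 4) (nat_lit 421) (nat_lit 294) (nat_lit 185))))) (XT.nd (nat_lit 234) (nat_lit 0) (nat_lit 0) (XT.nd (nat_lit 78) (nat_lit 0) (nat_lit 0) (XT.lf (nat_lit 0) (nat_lit 82812828646) (nat_lit 152) (nat_lit 224302982232) (nat_lit 0) (nat_lit 68569511937) (nat_lit 2) (nat_lit 5) (nat_lit 4) (nat_lit 4) (nat_lit 2) (nat_lit 4) (nat_lit 422) (nat_lit 294) (nat_lit 184)) (XT.nd (nat_lit 78) (nat_lit 0) (nat_lit 0) (XT.lf (nat_lit 0) (nat_lit 95037618129) (nat_lit 152) (nat_lit 218199865152) (nat_lit 0) (nat_lit 80791120146) (nat_lit 2) (nat_lit 5) (nat_lit 4) (nat_lit 4) (nat_lit 2) (nat_lit 4) (nat_lit 423)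 (nat_lit 294) (nat_lit 183)) (XT.lf (nat_lit 0) (nat_lit 107869862248) (nat_lit 152) (nat_lit 211799041018) (nat_lit 0) (nat_lit 93620334479) (nat_lit 2) (nat_lit 5) (nat_lit 4) (nat_lit 4) (nat_lit 2) (nat_lit 4) (nat_lit 424) (nat_lit 294) (nat_lit 182)))) (XT.nd (nat_lit 78) (nat_lit 0) (nat_lit 0) (XT.lf (nat_lit 0) (nat_lit 121340113963) (nat_lit 152) (nat_lit 205085269771) (nat_lit 0) (nat_lit 107087700684) (nat_lit 2) (nat_lit 5) (nat_lit 4) (nat_lit 4) (nat_lit 2) (nat_lit 4) (nat_lit 425) (nat_lit 294) (nat_lit 181)) (XT.nd (nat_lit 78) (nat_lit 0) (nat_lit 0) (XT.lf (nat_lit 0) (nat_lit 135480445303) (nat_lit 152) (nat_lit 198042566243) (nat_lit 0) (nat_lit 121225283920) (nat_lit 2) (nat_lit 5) (nat_lit 4) (nat_lit 4) (nat_lit 2) (nat_lit 4) (nat_lit 426) (nat_lit 294) (nat_lit 180)) (XT.lf (nat_lit 0) (nat_lit 150324523724) (nat_lit 152) (nat_lit 190654162090) (nat_lit 0) (nat_lit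 136066745098) (nat_lit 2) (nat_lit 5) (nat_lit 4) (nat_lit 4) (nat_lit 2) (nat_lit 4) (nat_lit 427) (nat_lit 294) (nat_lit 179))))))))
noncomputable def xc86 : XT := (XT.nd (nat_lit 38766) (nat_lit 0) (nat_lit 2280) (XT.nd (nat_lit 37830) (nat_lit 0) (nat_lit 5776) (XT.nd (nat_lit 390) (nat_lit 0) (nat_lit 0) (XT.nd (nat_lit 156) (nat_lit 0) (nat_lit 0) (XT.nd (nat_lit 78) (nat_lit 0) (nat_lit 0) (XT.lf (nat_lit 0) (nat_lit 165907692270) (nat_lit 152) (nat_lit 182902465875) (nat_lit 0) (nat_lit 151647421031) (nat_lit 2) (nat_lit 5) (nat_lit 4) (nat_lit 4) (nat_lit 2) (nat_lit 4) (nat_lit 428) (nat_lit 294) (nat_lit 178)) (XT.lf (nat_lit 0) (nat_lit 182267053721) (nat_lit 152) (nat_lit 174769021178) (nat_lit 0) (nat_lit 168004408566) (nat_lit 2) (nat_lit 5) (nat_lit 4) (nat_lit 4) (nat_lit 2) (nat_lit 4) (nat_lit 429) (nat_lit 294) (nat_lit 177))) (XT.nd (nat_lit 78) (nat_lit 0) (nat_lit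 0) (XT.lf (nat_lit 0) (nat_lit 199441558940) (nat_lit 152) (nat_lit 166234462655) (nat_lit 0) (nat_lit 185176652913) (nat_lit 2) (nat_lit 5) (nat_lit 4) (nat_lit 4) (nat_lit 2) (nat_lit 4) (nat_lit 430) (nat_lit 294) (nat_lit 176)) (XT.nd (nat_lit 78) (nat_lit 0) (nat_lit 0) (XT.lf (nat_lit 0) (nat_lit 217472099605) (nat_lit 152) (nat_lit 157278469929) (nat_lit 0) (nat_lit 203205040366) (nat_lit 2) (nat_lit 5) (nat_lit 4) (nat_lit 4) (nat_lit 2) (nat_lit 4) (nat_lit 431) (nat_lit 294) (nat_lit 175)) (XT.lf (nat_lit 0) (nat_lit 236401605576) (nat_lit 152) (nat_lit 147879719206) (nat_lit 0) (nat_lit 222132495658) (nat_lit 2) (nat_lit 5) (nat_lit 4) (nat_lit 4) (nat_lit 2) (nat_lit 4) (nat_lit 432) (nat_lit 294) (nat_lit 174))))) (XT.nd (nat_lit 234) (nat_lit 0) (nat_lit 0) (XT.nd (nat_lit 78) (nat_lit 0) (nat_lit 0) (XT.lf (nat_lit 0) (nat_lit 256275147103) (nat_lit 152) (nat_lit 138015832509)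 (nat_lit 0) (nat_lit 242004084159) (nat_lit 2) (nat_lit 5) (nat_lit 4) (nat_lit 4) (nat_lit 2) (nat_lit 4) (nat_lit 433) (nat_lit 294) (nat_lit 173)) (XT.nd (nat_lit 78) (nat_lit 0) (nat_lit 0) (XT.lf (nat_lit 0) (nat_lit 277140042144) (nat_lit 152) (nat_lit 127663324394) (nat_lit 0) (nat_lit 262867119174) (nat_lit 2) (nat_lit 5) (nat_lit 4) (nat_lit 4) (nat_lit 2) (nat_lit 4) (nat_lit 434) (nat_lit 294) (nat_lit 172)) (XT.lf (nat_lit 0) (nat_lit 299045969020) (nat_lit 152) (nat_lit 116797546031) (nat_lit 0) (nat_lit 284771274597) (nat_lit 2) (nat_lit 5) (nat_lit 4) (nat_lit 4) (nat_lit 2) (nat_lit 4) (nat_lit 435) (nat_lit 294) (nat_lit 171)))) (XT.nd (nat_lit 37050) (nat_lit 0) (nat_lit 10108) (XT.lf (nat_lit 0) (nat_lit 322045084699) (nat_lit 152) (nat_lit 105392626521) (nat_lit 0) (nat_lit 307768703179) (nat_lit 2) (nat_lit 5) (nat_lit 4) (nat_lit 4) (nat_lit 2) (nat_lit 4) (nat_lit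 436) (nat_lit 294) (nat_lit 170)) (XT.nd (nat_lit 78) (nat_lit 532) (nat_lit 0) (XT.lf (nat_lit 0) (nat_lit 2147695686) (nat_lit 380) (nat_lit 611070310) (nat_lit 380) (nat_lit 611070310) (nat_lit 142) (nat_lit 4) (nat_lit 147) (nat_lit 5) (nat_lit 147) (nat_lit 4) (nat_lit 310) (nat_lit 295) (nat_lit 295)) (XT.lf (nat_lit 0) (nat_lit 1929146320) (nat_lit 456) (nat_lit 32896814) (nat_lit 532) (nat_lit 4842169238) (nat_lit 135) (nat_lit 5) (nat_lit 141) (nat_lit 5) (nat_lit 142) (nat_lit 4) (nat_lit 311) (nat_lit 295) (nat_lit 294)))))) (XT.nd (nat_lit 468) (nat_lit 1596) (nat_lit 0) (XT.nd (nat_lit 234) (nat_lit 1520) (nat_lit 0) (XT.nd (nat_lit 78) (nat_lit 1216) (nat_lit 0) (XT.lf (nat_lit 0) (nat_lit 5156669559) (nat_lit 532) (nat_lit 455117562) (nat_lit 0) (nat_lit 1264845236) (nat_lit 135) (nat_lit 5) (nat_lit 142) (nat_lit 4) (nat_lit 135) (nat_lit 4) (nat_lit 312) (nat_lit 295) (nat_lit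 293)) (XT.nd (nat_lit 78) (nat_lit 608) (nat_lit 0) (XT.lf (nat_lit 0) (nat_lit 1411670608) (nat_lit 608) (nat_lit 2805948042) (nat_lit 76) (nat_lit 2738923632) (nat_lit 127) (nat_lit 5) (nat_lit 135) (nat_lit 5) (nat_lit 128) (nat_lit 4) (nat_lit 313) (nat_lit 295) (nat_lit 292)) (XT.lf (nat_lit 0) (nat_lit 1845548217) (nat_lit 608) (nat_lit 2675121015) (nat_lit 684) (nat_lit 2524672852) (nat_lit 119) (nat_lit 5) (nat_lit 127) (nat_lit 5) (nat_lit 128) (nat_lit 4) (nat_lit 314) (nat_lit 295) (nat_lit 291)))) (XT.nd (nat_lit 78) (nat_lit 1444) (nat_lit 0) (XT.lf (nat_lit 0) (nat_lit 518619662) (nat_lit 684) (nat_lit 470546543) (nat_lit 76) (nat_lit 6154483872) (nat_lit 118) (nat_lit 5) (nat_lit 127) (nat_lit 5) (nat_lit 119) (nat_lit 5) (nat_lit 315) (nat_lit 295) (nat_lit 290)) (XT.nd (nat_lit 78) (nat_lit 760) (nat_lit 0) (XT.lf (nat_lit 0) (nat_lit 3564725897) (nat_lit 760) (nat_lit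 2810061635) (nat_lit 76) (nat_lit 873443478) (nat_lit 109) (nat_lit 5) (nat_lit 119) (nat_lit 5) (nat_lit 110) (nat_lit 4) (nat_lit 316) (nat_lit 295) (nat_lit 289)) (XT.lf (nat_lit 0) (nat_lit 2155234842) (nat_lit 760) (nat_lit 4522637280) (nat_lit 836) (nat_lit 684624207) (nat_lit 99) (nat_lit 5) (nat_lit 109) (nat_lit 5) (nat_lit 110) (nat_lit 4) (nat_lit 317) (nat_lit 295) (nat_lit 288))))) (XT.nd (nat_lit 234) (nat_lit 760) (nat_lit 0) (XT.nd (nat_lit 78) (nat_lit 760) (nat_lit 0) (XT.lf (nat_lit 0) (nat_lit 2292560872) (nat_lit 836) (nat_lit 203855201) (nat_lit 76) (nat_lit 4988947905) (nat_lit 98) (nat_lit 5) (nat_lit 109) (nat_lit 5) (nat_lit 99) (nat_lit 5) (nat_lit 318) (nat_lit 295) (nat_lit 287)) (XT.nd (nat_lit 78) (nat_lit 380) (nat_lit 0) (XT.lf (nat_lit 0) (nat_lit 5056665131) (nat_lit 380) (nat_lit 283461903) (nat_lit 456) (nat_lit 2276626242) (nat_lit 93) (nat_lit 5) (nat_lit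 98) (nat_lit 5) (nat_lit 99) (nat_lit 5) (nat_lit 319) (nat_lit 295) (nat_lit 286)) (XT.lf (nat_lit 0) (nat_lit 706965938) (nat_lit 380) (nat_lit 5028180734) (nat_lit 76) (nat_lit 2021765634) (nat_lit 88) (nat_lit 5) (nat_lit 93) (nat_lit 5) (nat_lit 89) (nat_lit 5) (nat_lit 320) (nat_lit 295) (nat_lit 285)))) (XT.nd (nat_lit 78) (nat_lit 380) (nat_lit 0) (XT.lf (nat_lit 0) (nat_lit 285552214) (nat_lit 380) (nat_lit 3402168683) (nat_lit 456) (nat_lit 4218410996) (nat_lit 83) (nat_lit 5) (nat_lit 88) (nat_lit 5) (nat_lit 89) (nat_lit 5) (nat_lit 321) (nat_lit 295) (nat_lit 284)) (XT.nd (nat_lit 78) (nat_lit 380) (nat_lit 0) (XT.lf (nat_lit 0) (nat_lit 5892087027) (nat_lit 380) (nat_lit 885727170) (nat_lit 456) (nat_lit 1287119732) (nat_lit 83) (nat_lit 5) (nat_lit 88) (nat_lit 5) (nat_lit 89) (nat_lit 5) (nat_lit 322) (nat_lit 295) (nat_lit 283)) (XT.lf (nat_lit 0) (nat_lit 1695276261) (nat_lit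 380) (nat_lit 4775792212) (nat_lit 76) (nat_lit 1761240742) (nat_lit 78) (nat_lit 5) (nat_lit 83) (nat_lit 5) (nat_lit 79) (nat_lit 5) (nat_lit 323) (nat_lit 295) (nat_lit 282))))))) (XT.nd (nat_lit 936) (nat_lit 1292) (nat_lit 0) (XT.nd (nat_lit 468) (nat_lit 988) (nat_lit 0) (XT.nd (nat_lit 234) (nat_lit 608) (nat_lit 0) (XT.nd (nat_lit 78) (nat_lit 304) (nat_lit 0) (XT.lf (nat_lit 0) (nat_lit 880710535) (nat_lit 304) (nat_lit 3850667741) (nat_lit 380) (nat_lit 3678345794) (nat_lit 74) (nat_lit 5) (nat_lit 78) (nat_lit 5) (nat_lit 79) (nat_lit 5) (nat_lit 324) (nat_lit 295) (nat_lit 281)) (XT.nd (nat_lit 78) (nat_lit 304) (nat_lit 0) (XT.lf (nat_lit 0) (nat_lit 6840401335) (nat_lit 304) (nat_lit 1045274555) (nat_lit 380) (nat_lit 712126555) (nat_lit 74) (nat_lit 5) (nat_lit 78) (nat_lit 5) (nat_lit 79) (nat_lit 5) (nat_lit 325) (nat_lit 295) (nat_lit 280)) (XT.lf (nat_lit 0) (nat_lit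 2311968573) (nat_lit 304) (nat_lit 4567295577) (nat_lit 76) (nat_lit 1914924193) (nat_lit 70) (nat_lit 5) (nat_lit 74) (nat_lit 5) (nat_lit 71) (nat_lit 5) (nat_lit 326) (nat_lit 295) (nat_lit 279)))) (XT.nd (nat_lit 78) (nat_lit 304) (nat_lit 0) (XT.lf (nat_lit 0) (nat_lit 1444465791) (nat_lit 304) (nat_lit 3980474307) (nat_lit 380) (nat_lit 3576886550) (nat_lit 66) (nat_lit 5) (nat_lit 70) (nat_lit 5) (nat_lit 71) (nat_lit 5) (nat_lit 327) (nat_lit 295) (nat_lit 278)) (XT.nd (nat_lit 78) (nat_lit 304) (nat_lit 0) (XT.lf (nat_lit 0) (nat_lit 7772742469) (nat_lit 304) (nat_lit 892764486) (nat_lit 380) (nat_lit 555834965) (nat_lit 66) (nat_lit 5) (nat_lit 70) (nat_lit 5) (nat_lit 71) (nat_lit 5) (nat_lit 328) (nat_lit 295) (nat_lit 277)) (XT.lf (nat_lit 0) (nat_lit 2545636525) (nat_lit 304) (nat_lit 4545480376) (nat_lit 76) (nat_lit 2358102277) (nat_lit 62) (nat_lit 5) (nat_lit 66) (nat_lit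 5) (nat_lit 63) (nat_lit 5) (nat_lit 329) (nat_lit 295) (nat_lit 276))))) (XT.nd (nat_lit 234) (nat_lit 456) (nat_lit 0) (XT.nd (nat_lit 78) (nat_lit 304) (nat_lit 0) (XT.lf (nat_lit 0) (nat_lit 1829610491) (nat_lit 228) (nat_lit 3922047485) (nat_lit 304) (nat_lit 3938048726) (nat_lit 59) (nat_lit 5) (nat_lit 62) (nat_lit 5) (nat_lit 63) (nat_lit 5) (nat_lit 330) (nat_lit 295) (nat_lit 275)) (XT.nd (nat_lit 78) (nat_lit 304) (nat_lit 0) (XT.lf (nat_lit 0) (nat_lit 8542026144) (nat_lit 228) (nat_lit 555541644) (nat_lit 304) (nat_lit 845747459) (nat_lit 59) (nat_lit 5) (nat_lit 62) (nat_lit 5) (nat_lit 63) (nat_lit 5) (nat_lit 331) (nat_lit 295) (nat_lit 274)) (XT.lf (nat_lit 0) (nat_lit 2361816900) (nat_lit 304) (nat_lit 4876830519) (nat_lit 76) (nat_lit 2967276274) (nat_lit 55) (nat_lit 5) (nat_lit 59) (nat_lit 5) (nat_lit 56) (nat_lit 5) (nat_lit 332) (nat_lit 295) (nat_lit 273)))) (XT.nd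 (nat_lit 78) (nat_lit 228) (nat_lit 0) (XT.lf (nat_lit 0) (nat_lit 1862810361) (nat_lit 228) (nat_lit 3808248542) (nat_lit 304) (nat_lit 4811489978) (nat_lit 52) (nat_lit 5) (nat_lit 55) (nat_lit 5) (nat_lit 56) (nat_lit 5) (nat_lit 333) (nat_lit 295) (nat_lit 272)) (XT.nd (nat_lit 78) (nat_lit 228) (nat_lit 0) (XT.lf (nat_lit 0) (nat_lit 8973347095) (nat_lit 228) (nat_lit 164713067) (nat_lit 304) (nat_lit 1635392842) (nat_lit 52) (nat_lit 5) (nat_lit 55) (nat_lit 5) (nat_lit 56) (nat_lit 5) (nat_lit 334) (nat_lit 295) (nat_lit 271)) (XT.lf (nat_lit 0) (nat_lit 1699831800) (nat_lit 228) (nat_lit 5762006833) (nat_lit 76) (nat_lit 3613057838) (nat_lit 49) (nat_lit 5) (nat_lit 52) (nat_lit 5) (nat_lit 50) (nat_lit 5) (nat_lit 335) (nat_lit 295) (nat_lit 270)))))) (XT.nd (nat_lit 468) (nat_lit 532) (nat_lit 0) (XT.nd (nat_lit 234) (nat_lit 304) (nat_lit 0) (XT.nd (nat_lit 78) (nat_lit 228)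 (nat_lit 0) (XT.lf (nat_lit 0) (nat_lit 1333411988) (nat_lit 228) (nat_lit 3781932479) (nat_lit 304) (nat_lit 6276356839) (nat_lit 46) (nat_lit 5) (nat_lit 49) (nat_lit 5) (nat_lit 50) (nat_lit 5) (nat_lit 336) (nat_lit 295) (nat_lit 269)) (XT.nd (nat_lit 78) (nat_lit 228) (nat_lit 0) (XT.lf (nat_lit 0) (nat_lit 8717386199) (nat_lit 304) (nat_lit 2873459948) (nat_lit 76) (nat_lit 132764012) (nat_lit 46) (nat_lit 5) (nat_lit 50) (nat_lit 5) (nat_lit 47) (nat_lit 4) (nat_lit 337) (nat_lit 295) (nat_lit 268)) (XT.lf (nat_lit 0) (nat_lit 468153264) (nat_lit 228) (nat_lit 7448626751) (nat_lit 76) (nat_lit 4152326563) (nat_lit 43) (nat_lit 5) (nat_lit 46) (nat_lit 5) (nat_lit 44) (nat_lit 5) (nat_lit 338) (nat_lit 295) (nat_lit 267)))) (XT.nd (nat_lit 78) (nat_lit 304) (nat_lit 0) (XT.lf (nat_lit 0) (nat_lit 3984540171) (nat_lit 228) (nat_lit 19614124) (nat_lit 76) (nat_lit 8426837861) (nat_lit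 43) (nat_lit 5) (nat_lit 46) (nat_lit 5) (nat_lit 44) (nat_lit 5) (nat_lit 339) (nat_lit 295) (nat_lit 266)) (XT.nd (nat_lit 78) (nat_lit 152) (nat_lit 0) (XT.lf (nat_lit 0) (nat_lit 7726861881) (nat_lit 228) (nat_lit 4900345735) (nat_lit 76) (nat_lit 181300950) (nat_lit 41) (nat_lit 5) (nat_lit 44) (nat_lit 5) (nat_lit 42) (nat_lit 4) (nat_lit 340) (nat_lit 295) (nat_lit 265)) (XT.lf (nat_lit 0) (nat_lit 2932444063) (nat_lit 152) (nat_lit 8760318985) (nat_lit 228) (nat_lit 1510354889) (nat_lit 39) (nat_lit 5) (nat_lit 41) (nat_lit 5) (nat_lit 42) (nat_lit 4) (nat_lit 341) (nat_lit 295) (nat_lit 264))))) (XT.nd (nat_lit 234) (nat_lit 304) (nat_lit 0) (XT.nd (nat_lit 78) (nat_lit 152) (nat_lit 0) (XT.lf (nat_lit 0) (nat_lit 2177312507) (nat_lit 228) (nat_lit 2447035502) (nat_lit 76) (nat_lit 8990923633) (nat_lit 38) (nat_lit 5) (nat_lit 41) (nat_lit 5) (nat_lit 39) (nat_lit 5) (nat_lit 342)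 (nat_lit 295) (nat_lit 263)) (XT.nd (nat_lit 78) (nat_lit 0) (nat_lit 0) (XT.lf (nat_lit 0) (nat_lit 5810517608) (nat_lit 152) (nat_lit 207509951) (nat_lit 228) (nat_lit 8027831192) (nat_lit 36) (nat_lit 5) (nat_lit 38) (nat_lit 5) (nat_lit 39) (nat_lit 5) (nat_lit 343) (nat_lit 295) (nat_lit 262)) (XT.lf (nat_lit 0) (nat_lit 10091614153) (nat_lit 228) (nat_lit 119202895) (nat_lit 76) (nat_lit 4285149542) (nat_lit 36) (nat_lit 5) (nat_lit 39) (nat_lit 5) (nat_lit 37) (nat_lit 4) (nat_lit 344) (nat_lit 295) (nat_lit 261)))) (XT.nd (nat_lit 78) (nat_lit 228) (nat_lit 0) (XT.lf (nat_lit 0) (nat_lit 8559628760) (nat_lit 76) (nat_lit 5879195118) (nat_lit 152) (nat_lit 526290337) (nat_lit 35) (nat_lit 5) (nat_lit 36) (nat_lit 5) (nat_lit 37) (nat_lit 4) (nat_lit 345) (nat_lit 295) (nat_lit 260)) (XT.nd (nat_lit 78) (nat_lit 0) (nat_lit 0) (XT.lf (nat_lit 0) (nat_lit 2117219728) (nat_lit 152)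 (nat_lit 1283324865) (nat_lit 228) (nat_lit 12056017704) (nat_lit 32) (nat_lit 5) (nat_lit 34) (nat_lit 5) (nat_lit 35) (nat_lit 5) (nat_lit 346) (nat_lit 295) (nat_lit 259)) (XT.lf (nat_lit 0) (nat_lit 7605538625) (nat_lit 228) (nat_lit 4859223581) (nat_lit 76) (nat_lit 3502441269) (nat_lit 32) (nat_lit 5) (nat_lit 35) (nat_lit 5) (nat_lit 33) (nat_lit 4) (nat_lit 347) (nat_lit 295) (nat_lit 258))))))))
noncomputable def xc87 : XT := (XT.nd (nat_lit 1872) (nat_lit 608) (nat_lit 0) (XT.nd (nat_lit 936) (nat_lit 532) (nat_lit 0) (XT.nd (nat_lit 468) (nat_lit 456) (nat_lit 0) (XT.nd (nat_lit 234) (nat_lit 76) (nat_lit 0) (XT.nd (nat_lit 78) (nat_lit 228) (nat_lit 0) (XT.lf (nat_lit 0) (nat_lit 4043964852) (nat_lit 76) (nat_lit 7998078923) (nat_lit 152) (nat_lit 4460295848) (nat_lit 31) (nat_lit 5) (nat_lit 32) (nat_lit 5) (nat_lit 33) (nat_lit 4) (nat_lit 348) (nat_lit 295) (nat_lit 257))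 (XT.nd (nat_lit 78) (nat_lit 228) (nat_lit 0) (XT.lf (nat_lit 0) (nat_lit 13453446849) (nat_lit 76) (nat_lit 3267622814) (nat_lit 152) (nat_lit 342152889) (nat_lit 31) (nat_lit 5) (nat_lit 32) (nat_lit 5) (nat_lit 33) (nat_lit 4) (nat_lit 349) (nat_lit 295) (nat_lit 256)) (XT.lf (nat_lit 0) (nat_lit 3912058098) (nat_lit 228) (nat_lit 11978924281) (nat_lit 76) (nat_lit 1755200941) (nat_lit 28) (nat_lit 5) (nat_lit 31) (nat_lit 5) (nat_lit 29) (nat_lit 4) (nat_lit 350) (nat_lit 295) (nat_lit 255)))) (XT.nd (nat_lit 78) (nat_lit 76) (nat_lit 0) (XT.lf (nat_lit 0) (nat_lit 8424078839) (nat_lit 228) (nat_lit 2886950328) (nat_lit 76) (nat_lit 6944173997) (nat_lit 28) (nat_lit 5) (nat_lit 31) (nat_lit 5) (nat_lit 29) (nat_lit 4) (nat_lit 351) (nat_lit 295) (nat_lit 254)) (XT.nd (nat_lit 78) (nat_lit 0) (nat_lit 0) (XT.lf (nat_lit 0) (nat_lit 6776508327) (nat_lit 76) (nat_lit 6434701825) (nat_lit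 152) (nat_lit 5681008727) (nat_lit 27) (nat_lit 5) (nat_lit 28) (nat_lit 5) (nat_lit 29) (nat_lit 4) (nat_lit 352) (nat_lit 295) (nat_lit 253)) (XT.lf (nat_lit 0) (nat_lit 16924976708) (nat_lit 76) (nat_lit 1306466819) (nat_lit 152) (nat_lit 1329973971) (nat_lit 27) (nat_lit 5) (nat_lit 28) (nat_lit 5) (nat_lit 29) (nat_lit 4) (nat_lit 353) (nat_lit 295) (nat_lit 252))))) (XT.nd (nat_lit 234) (nat_lit 152) (nat_lit 0) (XT.nd (nat_lit 78) (nat_lit 76) (nat_lit 0) (XT.lf (nat_lit 0) (nat_lit 3262954131) (nat_lit 228) (nat_lit 12916355989) (nat_lit 76) (nat_lit 4075855450) (nat_lit 24) (nat_lit 5) (nat_lit 27) (nat_lit 5) (nat_lit 25) (nat_lit 4) (nat_lit 354) (nat_lit 295) (nat_lit 251)) (XT.nd (nat_lit 78) (nat_lit 76) (nat_lit 0) (XT.lf (nat_lit 0) (nat_lit 8054658496) (nat_lit 228) (nat_lit 3216899487) (nat_lit 76) (nat_lit 9710278385) (nat_lit 24) (nat_lit 5) (nat_lit 27) (nat_lit 5)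 (nat_lit 25) (nat_lit 4) (nat_lit 355) (nat_lit 295) (nat_lit 250)) (XT.lf (nat_lit 0) (nat_lit 7103522782) (nat_lit 76) (nat_lit 6042880582) (nat_lit 152) (nat_lit 8595430529) (nat_lit 23) (nat_lit 5) (nat_lit 24) (nat_lit 5) (nat_lit 25) (nat_lit 4) (nat_lit 356) (nat_lit 295) (nat_lit 249)))) (XT.nd (nat_lit 78) (nat_lit 152) (nat_lit 0) (XT.lf (nat_lit 0) (nat_lit 17961759118) (nat_lit 76) (nat_lit 536004462) (nat_lit 152) (nat_lit 4041831503) (nat_lit 23) (nat_lit 5) (nat_lit 24) (nat_lit 5) (nat_lit 25) (nat_lit 4) (nat_lit 357) (nat_lit 295) (nat_lit 248)) (XT.nd (nat_lit 78) (nat_lit 0) (nat_lit 0) (XT.lf (nat_lit 0) (nat_lit 845887812) (nat_lit 152) (nat_lit 17375808568) (nat_lit 76) (nat_lit 5148479125) (nat_lit 21) (nat_lit 5) (nat_lit 23) (nat_lit 5) (nat_lit 22) (nat_lit 4) (nat_lit 358) (nat_lit 295) (nat_lit 247)) (XT.lf (nat_lit 0) (nat_lit 5882197802) (nat_lit 152) (nat_lit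 7148167909) (nat_lit 76) (nat_lit 11206617545) (nat_lit 21) (nat_lit 5) (nat_lit 23) (nat_lit 5) (nat_lit 22) (nat_lit 4) (nat_lit 359) (nat_lit 295) (nat_lit 246)))))) (XT.nd (nat_lit 468) (nat_lit 228) (nat_lit 0) (XT.nd (nat_lit 234) (nat_lit 228) (nat_lit 0) (XT.nd (nat_lit 78) (nat_lit 0) (nat_lit 0) (XT.lf (nat_lit 0) (nat_lit 3623442792) (nat_lit 76) (nat_lit 7558167813) (nat_lit 152) (nat_lit 13964968925) (nat_lit 20) (nat_lit 5) (nat_lit 21) (nat_lit 5) (nat_lit 22) (nat_lit 4) (nat_lit 360) (nat_lit 295) (nat_lit 245)) (XT.nd (nat_lit 78) (nat_lit 0) (nat_lit 0) (XT.lf (nat_lit 0) (nat_lit 15099762406) (nat_lit 76) (nat_lit 1722880087) (nat_lit 152) (nat_lit 9275192605) (nat_lit 20) (nat_lit 5) (nat_lit 21) (nat_lit 5) (nat_lit 22) (nat_lit 4) (nat_lit 361) (nat_lit 295) (nat_lit 244)) (XT.lf (nat_lit 0) (nat_lit 22771633389) (nat_lit 152) (nat_lit 95216643) (nat_lit 0) (nat_lit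 4228519378) (nat_lit 20) (nat_lit 5) (nat_lit 22) (nat_lit 4) (nat_lit 20) (nat_lit 4) (nat_lit 362) (nat_lit 295) (nat_lit 243)))) (XT.nd (nat_lit 78) (nat_lit 76) (nat_lit 0) (XT.lf (nat_lit 0) (nat_lit 1018896411) (nat_lit 152) (nat_lit 16530217643) (nat_lit 76) (nat_lit 10584412484) (nat_lit 18) (nat_lit 5) (nat_lit 20) (nat_lit 5) (nat_lit 19) (nat_lit 4) (nat_lit 363) (nat_lit 295) (nat_lit 242)) (XT.nd (nat_lit 78) (nat_lit 76) (nat_lit 0) (XT.lf (nat_lit 0) (nat_lit 6444291421) (nat_lit 152) (nat_lit 5480387659) (nat_lit 76) (nat_lit 17297331348) (nat_lit 18) (nat_lit 5) (nat_lit 20) (nat_lit 5) (nat_lit 19) (nat_lit 4) (nat_lit 364) (nat_lit 295) (nat_lit 241)) (XT.lf (nat_lit 0) (nat_lit 6249543158) (nat_lit 76) (nat_lit 5950221965) (nat_lit 152) (nat_lit 18162222268) (nat_lit 17) (nat_lit 5) (nat_lit 18) (nat_lit 5) (nat_lit 19) (nat_lit 4) (nat_lit 365) (nat_lit 295) (nat_lit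 240))))) (XT.nd (nat_lit 234) (nat_lit 152) (nat_lit 0) (XT.nd (nat_lit 78) (nat_lit 76) (nat_lit 0) (XT.lf (nat_lit 0) (nat_lit 18303840322) (nat_lit 152) (nat_lit 12877288043) (nat_lit 0) (nat_lit 374802330) (nat_lit 17) (nat_lit 5) (nat_lit 19) (nat_lit 4) (nat_lit 17) (nat_lit 4) (nat_lit 366) (nat_lit 295) (nat_lit 239)) (XT.nd (nat_lit 78) (nat_lit 76) (nat_lit 0) (XT.lf (nat_lit 0) (nat_lit 24773950558) (nat_lit 152) (nat_lit 1247098559) (nat_lit 0) (nat_lit 6785488943) (nat_lit 17) (nat_lit 5) (nat_lit 19) (nat_lit 4) (nat_lit 17) (nat_lit 4) (nat_lit 367) (nat_lit 295) (nat_lit 238)) (XT.lf (nat_lit 0) (nat_lit 11259075518) (nat_lit 76) (nat_lit 20449311421) (nat_lit 76) (nat_lit 2404255878) (nat_lit 16) (nat_lit 4) (nat_lit 17) (nat_lit 5) (nat_lit 17) (nat_lit 4) (nat_lit 368) (nat_lit 295) (nat_lit 237)))) (XT.nd (nat_lit 78) (nat_lit 76) (nat_lit 0) (XT.lf (nat_lit 0) (nat_lit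 3379879055) (nat_lit 152) (nat_lit 11170202458) (nat_lit 76) (nat_lit 20931912863) (nat_lit 15) (nat_lit 5) (nat_lit 17) (nat_lit 5) (nat_lit 16) (nat_lit 4) (nat_lit 369) (nat_lit 295) (nat_lit 236)) (XT.nd (nat_lit 78) (nat_lit 0) (nat_lit 0) (XT.lf (nat_lit 0) (nat_lit 1027976740) (nat_lit 76) (nat_lit 8327273807) (nat_lit 152) (nat_lit 27563457793) (nat_lit 14) (nat_lit 5) (nat_lit 15) (nat_lit 5) (nat_lit 16) (nat_lit 4) (nat_lit 370) (nat_lit 295) (nat_lit 235)) (XT.lf (nat_lit 0) (nat_lit 14162041146) (nat_lit 76) (nat_lit 1623917873) (nat_lit 152) (nat_lit 22633477191) (nat_lit 14) (nat_lit 5) (nat_lit 15) (nat_lit 5) (nat_lit 16) (nat_lit 4) (nat_lit 371) (nat_lit 295) (nat_lit 234))))))) (XT.nd (nat_lit 936) (nat_lit 304) (nat_lit 0) (XT.nd (nat_lit 468) (nat_lit 76) (nat_lit 0) (XT.nd (nat_lit 234) (nat_lit 152) (nat_lit 0) (XT.nd (nat_lit 78) (nat_lit 76) (nat_lit 0) (XT.lf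 (nat_lit 0) (nat_lit 22591253764) (nat_lit 152) (nat_lit 12186937010) (nat_lit 0) (nat_lit 5214363470) (nat_lit 14) (nat_lit 5) (nat_lit 16) (nat_lit 4) (nat_lit 14) (nat_lit 4) (nat_lit 372) (nat_lit 295) (nat_lit 233)) (XT.nd (nat_lit 78) (nat_lit 0) (nat_lit 0) (XT.lf (nat_lit 0) (nat_lit 416605721) (nat_lit 76) (nat_lit 29323346538) (nat_lit 76) (nat_lit 11904224984) (nat_lit 13) (nat_lit 4) (nat_lit 14) (nat_lit 5) (nat_lit 14) (nat_lit 4) (nat_lit 373) (nat_lit 295) (nat_lit 232)) (XT.lf (nat_lit 0) (nat_lit 14017199701) (nat_lit 76) (nat_lit 23405840739) (nat_lit 76) (nat_lit 5946498937) (nat_lit 13) (nat_lit 4) (nat_lit 14) (nat_lit 5) (nat_lit 14) (nat_lit 4) (nat_lit 374) (nat_lit 295) (nat_lit 231)))) (XT.nd (nat_lit 78) (nat_lit 76) (nat_lit 0) (XT.lf (nat_lit 0) (nat_lit 270719824) (nat_lit 152) (nat_lit 16942671159) (nat_lit 76) (nat_lit 27968967525) (nat_lit 12) (nat_lit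 5) (nat_lit 14) (nat_lit 5) (nat_lit 13) (nat_lit 4) (nat_lit 375) (nat_lit 295) (nat_lit 230)) (XT.nd (nat_lit 78) (nat_lit 76) (nat_lit 0) (XT.lf (nat_lit 0) (nat_lit 6571815284) (nat_lit 152) (nat_lit 4061906415) (nat_lit 76) (nat_lit 36448584806) (nat_lit 12) (nat_lit 5) (nat_lit 14) (nat_lit 5) (nat_lit 13) (nat_lit 4) (nat_lit 376) (nat_lit 295) (nat_lit 229)) (XT.lf (nat_lit 0) (nat_lit 9724716204) (nat_lit 76) (nat_lit 3589229022) (nat_lit 152) (nat_lit 35757012401) (nat_lit 11) (nat_lit 5) (nat_lit 12) (nat_lit 5) (nat_lit 13) (nat_lit 4) (nat_lit 377) (nat_lit 295) (nat_lit 228))))) (XT.nd (nat_lit 234) (nat_lit 76) (nat_lit 0) (XT.nd (nat_lit 78) (nat_lit 0) (nat_lit 0) (XT.lf (nat_lit 0) (nat_lit 20496803480) (nat_lit 152) (nat_lit 26924029941) (nat_lit 0) (nat_lit 3733031281) (nat_lit 11) (nat_lit 5) (nat_lit 13) (nat_lit 4) (nat_lit 11) (nat_lit 4) (nat_lit 378) (nat_lit 295)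 (nat_lit 227)) (XT.nd (nat_lit 78) (nat_lit 0) (nat_lit 0) (XT.lf (nat_lit 0) (nat_lit 28073128457) (nat_lit 152) (nat_lit 13986733466) (nat_lit 0) (nat_lit 11279343290) (nat_lit 11) (nat_lit 5) (nat_lit 13) (nat_lit 4) (nat_lit 11) (nat_lit 4) (nat_lit 379) (nat_lit 295) (nat_lit 226)) (XT.lf (nat_lit 0) (nat_lit 36004921101) (nat_lit 152) (nat_lit 447510990) (nat_lit 0) (nat_lit 19182552155) (nat_lit 11) (nat_lit 5) (nat_lit 13) (nat_lit 4) (nat_lit 11) (nat_lit 4) (nat_lit 380) (nat_lit 295) (nat_lit 225)))) (XT.nd (nat_lit 78) (nat_lit 0) (nat_lit 0) (XT.lf (nat_lit 0) (nat_lit 14179713104) (nat_lit 76) (nat_lit 30352738591) (nat_lit 76) (nat_lit 13503146998) (nat_lit 10) (nat_lit 4) (nat_lit 11) (nat_lit 5) (nat_lit 11) (nat_lit 4) (nat_lit 381) (nat_lit 295) (nat_lit 224)) (XT.nd (nat_lit 78) (nat_lit 0) (nat_lit 0) (XT.lf (nat_lit 0) (nat_lit 29511726401) (nat_lit 76) (nat_lit 23960375949)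 (nat_lit 76) (nat_lit 7084858025) (nat_lit 10) (nat_lit 4) (nat_lit 11) (nat_lit 5) (nat_lit 11) (nat_lit 4) (nat_lit 382) (nat_lit 295) (nat_lit 223)) (XT.lf (nat_lit 0) (nat_lit 45570236959) (nat_lit 76) (nat_lit 17267703069) (nat_lit 76) (nat_lit 367493403) (nat_lit 10) (nat_lit 4) (nat_lit 11) (nat_lit 5) (nat_lit 11) (nat_lit 4) (nat_lit 383) (nat_lit 295) (nat_lit 222)))))) (XT.nd (nat_lit 468) (nat_lit 152) (nat_lit 0) (XT.nd (nat_lit 234) (nat_lit 0) (nat_lit 0) (XT.nd (nat_lit 78) (nat_lit 76) (nat_lit 0) (XT.lf (nat_lit 0) (nat_lit 6451620871) (nat_lit 152) (nat_lit 3697902826) (nat_lit 76) (nat_lit 55832597135) (nat_lit 9) (nat_lit 5) (nat_lit 11) (nat_lit 5) (nat_lit 10) (nat_lit 4) (nat_lit 384) (nat_lit 295) (nat_lit 221)) (XT.nd (nat_lit 78) (nat_lit 0) (nat_lit 0) (XT.lf (nat_lit 0) (nat_lit 11253398038) (nat_lit 76) (nat_lit 2502465273) (nat_lit 152) (nat_lit 55133654970)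 (nat_lit 8) (nat_lit 5) (nat_lit 9) (nat_lit 5) (nat_lit 10) (nat_lit 4) (nat_lit 385) (nat_lit 295) (nat_lit 220)) (XT.lf (nat_lit 0) (nat_lit 21556156951) (nat_lit 152) (nat_lit 44982910169) (nat_lit 0) (nat_lit 5396679421) (nat_lit 8) (nat_lit 5) (nat_lit 10) (nat_lit 4) (nat_lit 8) (nat_lit 4) (nat_lit 386) (nat_lit 295) (nat_lit 219)))) (XT.nd (nat_lit 78) (nat_lit 0) (nat_lit 0) (XT.lf (nat_lit 0) (nat_lit 29769294565) (nat_lit 152) (nat_lit 31773382532) (nat_lit 0) (nat_lit 13590470407) (nat_lit 8) (nat_lit 5) (nat_lit 10) (nat_lit 4) (nat_lit 8) (nat_lit 4) (nat_lit 387) (nat_lit 295) (nat_lit 218)) (XT.nd (nat_lit 78) (nat_lit 0) (nat_lit 0) (XT.lf (nat_lit 0) (nat_lit 38375760745) (nat_lit 152) (nat_lit 17937015581) (nat_lit 0) (nat_lit 22178511229) (nat_lit 8) (nat_lit 5) (nat_lit 10) (nat_lit 4) (nat_lit 8) (nat_lit 4) (nat_lit 388) (nat_lit 295) (nat_lit 217)) (XT.lf (nat_lit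 0) (nat_lit 47396047079) (nat_lit 152) (nat_lit 3440865583) (nat_lit 0) (nat_lit 31181249602) (nat_lit 8) (nat_lit 5) (nat_lit 10) (nat_lit 4) (nat_lit 8) (nat_lit 4) (nat_lit 389) (nat_lit 295) (nat_lit 216))))) (XT.nd (nat_lit 234) (nat_lit 76) (nat_lit 0) (XT.nd (nat_lit 78) (nat_lit 0) (nat_lit 0) (XT.lf (nat_lit 0) (nat_lit 12138076349) (nat_lit 76) (nat_lit 44903063476) (nat_lit 76) (nat_lit 28671553656) (nat_lit 7) (nat_lit 4) (nat_lit 8) (nat_lit 5) (nat_lit 8) (nat_lit 4) (nat_lit 390) (nat_lit 295) (nat_lit 215)) (XT.nd (nat_lit 78) (nat_lit 0) (nat_lit 0) (XT.lf (nat_lit 0) (nat_lit 28585406745) (nat_lit 76) (nat_lit 38625915680) (nat_lit 76) (nat_lit 22378489341) (nat_lit 7) (nat_lit 4) (nat_lit 8) (nat_lit 5) (nat_lit 8) (nat_lit 4) (nat_lit 391) (nat_lit 295) (nat_lit 214)) (XT.lf (nat_lit 0) (nat_lit 45826515358) (nat_lit 76) (nat_lit 32048796405) (nat_lit 76) (nat_lit 15786211479)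 (nat_lit 7) (nat_lit 4) (nat_lit 8) (nat_lit 5) (nat_lit 8) (nat_lit 4) (nat_lit 392) (nat_lit 295) (nat_lit 213)))) (XT.nd (nat_lit 78) (nat_lit 76) (nat_lit 0) (XT.lf (nat_lit 0) (nat_lit 63902452448) (nat_lit 76) (nat_lit 25156045845) (nat_lit 76) (nat_lit 8879024168) (nat_lit 7) (nat_lit 4) (nat_lit 8) (nat_lit 5) (nat_lit 8) (nat_lit 4) (nat_lit 393) (nat_lit 295) (nat_lit 212)) (XT.nd (nat_lit 78) (nat_lit 76) (nat_lit 0) (XT.lf (nat_lit 0) (nat_lit 82856255958) (nat_lit 76) (nat_lit 17931252690) (nat_lit 76) (nat_lit 1640481726) (nat_lit 7) (nat_lit 4) (nat_lit 8) (nat_lit 5) (nat_lit 8) (nat_lit 4) (nat_lit 394) (nat_lit 295) (nat_lit 211)) (XT.lf (nat_lit 0) (nat_lit 5756320520) (nat_lit 152) (nat_lit 4503408455) (nat_lit 76) (nat_lit 96879247400) (nat_lit 6) (nat_lit 5) (nat_lit 8) (nat_lit 5) (nat_lit 7) (nat_lit 4) (nat_lit 395) (nat_lit 295) (nat_lit 210))))))))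
noncomputable def xc88 : XT := (XT.nd (nat_lit 1794) (nat_lit 0) (nat_lit 0) (XT.nd (nat_lit 858) (nat_lit 152) (nat_lit 0) (XT.nd (nat_lit 390) (nat_lit 76) (nat_lit 0) (XT.nd (nat_lit 156) (nat_lit 0) (nat_lit 0) (XT.nd (nat_lit 78) (nat_lit 0) (nat_lit 0) (XT.lf (nat_lit 0) (nat_lit 11640067607) (nat_lit 76) (nat_lit 1997202703) (nat_lit 152) (nat_lit 98438426482) (nat_lit 5) (nat_lit 5) (nat_lit 6) (nat_lit 5) (nat_lit 7) (nat_lit 4) (nat_lit 396) (nat_lit 295) (nat_lit 209)) (XT.lf (nat_lit 0) (nat_lit 22081797860) (nat_lit 152) (nat_lit 88637862304) (nat_lit 0) (nat_lit 6531118163) (nat_lit 5) (nat_lit 5) (nat_lit 7) (nat_lit 4) (nat_lit 5) (nat_lit 4) (nat_lit 397) (nat_lit 295) (nat_lit 208))) (XT.nd (nat_lit 78) (nat_lit 0) (nat_lit 0) (XT.lf (nat_lit 0) (nat_lit 30969619732) (nat_lit 152) (nat_lit 76305775233) (nat_lit 0) (nat_lit 15408167110) (nat_lit 5) (nat_lit 5) (nat_lit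 7) (nat_lit 4) (nat_lit 5) (nat_lit 4) (nat_lit 398) (nat_lit 295) (nat_lit 207)) (XT.nd (nat_lit 78) (nat_lit 0) (nat_lit 0) (XT.lf (nat_lit 0) (nat_lit 40290715476) (nat_lit 152) (nat_lit 63378823931) (nat_lit 0) (nat_lit 24719002925) (nat_lit 5) (nat_lit 5) (nat_lit 7) (nat_lit 4) (nat_lit 5) (nat_lit 4) (nat_lit 399) (nat_lit 295) (nat_lit 206)) (XT.lf (nat_lit 0) (nat_lit 50067278178) (nat_lit 152) (nat_lit 49826229942) (nat_lit 0) (nat_lit 34485794265) (nat_lit 5) (nat_lit 5) (nat_lit 7) (nat_lit 4) (nat_lit 5) (nat_lit 4) (nat_lit 400) (nat_lit 295) (nat_lit 205))))) (XT.nd (nat_lit 234) (nat_lit 76) (nat_lit 0) (XT.nd (nat_lit 78) (nat_lit 0) (nat_lit 0) (XT.lf (nat_lit 0) (nat_lit 60322585367) (nat_lit 152) (nat_lit 35615725184) (nat_lit 0) (nat_lit 44731795396) (nat_lit 5) (nat_lit 5) (nat_lit 7) (nat_lit 4) (nat_lit 5) (nat_lit 4) (nat_lit 401) (nat_lit 295) (nat_lit 204)) (XT.nd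 (nat_lit 78) (nat_lit 0) (nat_lit 0) (XT.lf (nat_lit 0) (nat_lit 71081054441) (nat_lit 152) (nat_lit 20713475124) (nat_lit 0) (nat_lit 55481401558) (nat_lit 5) (nat_lit 5) (nat_lit 7) (nat_lit 4) (nat_lit 5) (nat_lit 4) (nat_lit 402) (nat_lit 295) (nat_lit 203)) (XT.lf (nat_lit 0) (nat_lit 82368300804) (nat_lit 152) (nat_lit 5083998212) (nat_lit 0) (nat_lit 66760207051) (nat_lit 5) (nat_lit 5) (nat_lit 7) (nat_lit 4) (nat_lit 5) (nat_lit 4) (nat_lit 403) (nat_lit 295) (nat_lit 202)))) (XT.nd (nat_lit 78) (nat_lit 0) (nat_lit 0) (XT.lf (nat_lit 0) (nat_lit 11683875576) (nat_lit 76) (nat_lit 82709741316) (nat_lit 76) (nat_lit 67093608641) (nat_lit 4) (nat_lit 4) (nat_lit 5) (nat_lit 5) (nat_lit 5) (nat_lit 4) (nat_lit 404) (nat_lit 295) (nat_lit 201)) (XT.nd (nat_lit 78) (nat_lit 0) (nat_lit 0) (XT.lf (nat_lit 0) (nat_lit 29449888778) (nat_lit 76) (nat_lit 77647852476) (nat_lit 76) (nat_lit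 62024063683) (nat_lit 4) (nat_lit 4) (nat_lit 5) (nat_lit 5) (nat_lit 5) (nat_lit 4) (nat_lit 405) (nat_lit 295) (nat_lit 200)) (XT.lf (nat_lit 0) (nat_lit 48088241486) (nat_lit 76) (nat_lit 72340680350) (nat_lit 76) (nat_lit 56709600017) (nat_lit 4) (nat_lit 4) (nat_lit 5) (nat_lit 5) (nat_lit 5) (nat_lit 4) (nat_lit 406) (nat_lit 295) (nat_lit 199)))))) (XT.nd (nat_lit 468) (nat_lit 152) (nat_lit 0) (XT.nd (nat_lit 234) (nat_lit 0) (nat_lit 0) (XT.nd (nat_lit 78) (nat_lit 0) (nat_lit 0) (XT.lf (nat_lit 0) (nat_lit 67643310728) (nat_lit 76) (nat_lit 66775588812) (nat_lit 76) (nat_lit 51137564155) (nat_lit 4) (nat_lit 4) (nat_lit 5) (nat_lit 5) (nat_lit 5) (nat_lit 4) (nat_lit 407) (nat_lit 295) (nat_lit 198)) (XT.nd (nat_lit 78) (nat_lit 0) (nat_lit 0) (XT.lf (nat_lit 0) (nat_lit 88161656194) (nat_lit 76) (nat_lit 60939327646) (nat_lit 76) (nat_lit 45294689347) (nat_lit 4) (nat_lit 4)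 (nat_lit 5) (nat_lit 5) (nat_lit 5) (nat_lit 4) (nat_lit 408) (nat_lit 295) (nat_lit 197)) (XT.lf (nat_lit 0) (nat_lit 109692131088) (nat_lit 76) (nat_lit 54818000991) (nat_lit 76) (nat_lit 39167063985) (nat_lit 4) (nat_lit 4) (nat_lit 5) (nat_lit 5) (nat_lit 5) (nat_lit 4) (nat_lit 409) (nat_lit 295) (nat_lit 196)))) (XT.nd (nat_lit 78) (nat_lit 0) (nat_lit 0) (XT.lf (nat_lit 0) (nat_lit 132285998444) (nat_lit 76) (nat_lit 48397034260) (nat_lit 76) (nat_lit 32740098486) (nat_lit 4) (nat_lit 4) (nat_lit 5) (nat_lit 5) (nat_lit 5) (nat_lit 4) (nat_lit 410) (nat_lit 295) (nat_lit 195)) (XT.nd (nat_lit 78) (nat_lit 0) (nat_lit 0) (XT.lf (nat_lit 0) (nat_lit 155997053185) (nat_lit 76) (nat_lit 41661139436) (nat_lit 76) (nat_lit 25998490550) (nat_lit 4) (nat_lit 4) (nat_lit 5) (nat_lit 5) (nat_lit 5) (nat_lit 4) (nat_lit 411) (nat_lit 295) (nat_lit 194)) (XT.lf (nat_lit 0) (nat_lit 180881750203)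 (nat_lit 76) (nat_lit 34594278677) (nat_lit 76) (nat_lit 18926188731) (nat_lit 4) (nat_lit 4) (nat_lit 5) (nat_lit 5) (nat_lit 5) (nat_lit 4) (nat_lit 412) (nat_lit 295) (nat_lit 193))))) (XT.nd (nat_lit 234) (nat_lit 76) (nat_lit 0) (XT.nd (nat_lit 78) (nat_lit 76) (nat_lit 0) (XT.lf (nat_lit 0) (nat_lit 206999338777) (nat_lit 76) (nat_lit 27179626121) (nat_lit 76) (nat_lit 11506354214) (nat_lit 4) (nat_lit 4) (nat_lit 5) (nat_lit 5) (nat_lit 5) (nat_lit 4) (nat_lit 413) (nat_lit 295) (nat_lit 192)) (XT.nd (nat_lit 78) (nat_lit 76) (nat_lit 0) (XT.lf (nat_lit 0) (nat_lit 234412003641) (nat_lit 76) (nat_lit 19399527835) (nat_lit 76) (nat_lit 3721320726) (nat_lit 4) (nat_lit 4) (nat_lit 5) (nat_lit 5) (nat_lit 5) (nat_lit 4) (nat_lit 414) (nat_lit 295) (nat_lit 191)) (XT.lf (nat_lit 0) (nat_lit 4305101429) (nat_lit 152) (nat_lit 6857449369) (nat_lit 76) (nat_lit 258807002640) (nat_lit 3)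 (nat_lit 5) (nat_lit 5) (nat_lit 5) (nat_lit 4) (nat_lit 4) (nat_lit 415) (nat_lit 295) (nat_lit 190)))) (XT.nd (nat_lit 78) (nat_lit 0) (nat_lit 0) (XT.lf (nat_lit 0) (nat_lit 10483690555) (nat_lit 76) (nat_lit 2282687117) (nat_lit 152) (nat_lit 270250732721) (nat_lit 2) (nat_lit 5) (nat_lit 3) (nat_lit 5) (nat_lit 4) (nat_lit 4) (nat_lit 416) (nat_lit 295) (nat_lit 189)) (XT.nd (nat_lit 78) (nat_lit 0) (nat_lit 0) (XT.lf (nat_lit 0) (nat_lit 21873616136) (nat_lit 152) (nat_lit 267903094187) (nat_lit 0) (nat_lit 6929190530) (nat_lit 2) (nat_lit 5) (nat_lit 4) (nat_lit 4) (nat_lit 2) (nat_lit 4) (nat_lit 417) (nat_lit 295) (nat_lit 188)) (XT.lf (nat_lit 0) (nat_lit 31468807102) (nat_lit 152) (nat_lit 263088180117) (nat_lit 0) (nat_lit 16520514637) (nat_lit 2) (nat_lit 5) (nat_lit 4) (nat_lit 4) (nat_lit 2) (nat_lit 4) (nat_lit 418) (nat_lit 295) (nat_lit 187))))))) (XT.nd (nat_lit 936)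 (nat_lit 0) (nat_lit 0) (XT.nd (nat_lit 468) (nat_lit 0) (nat_lit 0) (XT.nd (nat_lit 234) (nat_lit 0) (nat_lit 0) (XT.nd (nat_lit 78) (nat_lit 0) (nat_lit 0) (XT.lf (nat_lit 0) (nat_lit 41539157122) (nat_lit 152) (nat_lit 258041574406) (nat_lit 0) (nat_lit 26587181933) (nat_lit 2) (nat_lit 5) (nat_lit 4) (nat_lit 4) (nat_lit 2) (nat_lit 4) (nat_lit 419) (nat_lit 295) (nat_lit 186)) (XT.nd (nat_lit 78) (nat_lit 0) (nat_lit 0) (XT.lf (nat_lit 0) (nat_lit 52108643217) (nat_lit 152) (nat_lit 252751261325) (nat_lit 0) (nat_lit 37153160673) (nat_lit 2) (nat_lit 5) (nat_lit 4) (nat_lit 4) (nat_lit 2) (nat_lit 4) (nat_lit 420) (nat_lit 295) (nat_lit 185)) (XT.lf (nat_lit 0) (nat_lit 63202430832) (nat_lit 152) (nat_lit 247204644891) (nat_lit 0) (nat_lit 48243607949) (nat_lit 2) (nat_lit 5) (nat_lit 4) (nat_lit 4) (nat_lit 2) (nat_lit 4) (nat_lit 421) (nat_lit 295) (nat_lit 184)))) (XT.nd (nat_lit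 78) (nat_lit 0) (nat_lit 0) (XT.lf (nat_lit 0) (nat_lit 74846933746) (nat_lit 152) (nat_lit 241388518874) (nat_lit 0) (nat_lit 59884929588) (nat_lit 2) (nat_lit 5) (nat_lit 4) (nat_lit 4) (nat_lit 2) (nat_lit 4) (nat_lit 422) (nat_lit 295) (nat_lit 183)) (XT.nd (nat_lit 78) (nat_lit 0) (nat_lit 0) (XT.lf (nat_lit 0) (nat_lit 87069876966) (nat_lit 152) (nat_lit 235289035355) (nat_lit 0) (nat_lit 72104843023) (nat_lit 2) (nat_lit 5) (nat_lit 4) (nat_lit 4) (nat_lit 2) (nat_lit 4) (nat_lit 423) (nat_lit 295) (nat_lit 182)) (XT.lf (nat_lit 0) (nat_lit 99900362739) (nat_lit 152) (nat_lit 228891671755) (nat_lit 0) (nat_lit 84932443286) (nat_lit 2) (nat_lit 5) (nat_lit 4) (nat_lit 4) (nat_lit 2) (nat_lit 4) (nat_lit 424) (nat_lit 295) (nat_lit 181))))) (XT.nd (nat_lit 234) (nat_lit 0) (nat_lit 0) (XT.nd (nat_lit 78) (nat_lit 0) (nat_lit 0) (XT.lf (nat_lit 0) (nat_lit 113368939839) (nat_lit 152)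 (nat_lit 222181196254) (nat_lit 0) (nat_lit 98398272281) (nat_lit 2) (nat_lit 5) (nat_lit 4) (nat_lit 4) (nat_lit 2) (nat_lit 4) (nat_lit 425) (nat_lit 295) (nat_lit 180)) (XT.nd (nat_lit 78) (nat_lit 0) (nat_lit 0) (XT.lf (nat_lit 0) (nat_lit 127507676308) (nat_lit 152) (nat_lit 215141631532) (nat_lit 0) (nat_lit 112534391508) (nat_lit 2) (nat_lit 5) (nat_lit 4) (nat_lit 4) (nat_lit 2) (nat_lit 4) (nat_lit 426) (nat_lit 295) (nat_lit 179)) (XT.lf (nat_lit 0) (nat_lit 142350235804) (nat_lit 152) (nat_lit 207756216718) (nat_lit 0) (nat_lit 127374458391) (nat_lit 2) (nat_lit 5) (nat_lit 4) (nat_lit 4) (nat_lit 2) (nat_lit 4) (nat_lit 427) (nat_lit 295) (nat_lit 178)))) (XT.nd (nat_lit 78) (nat_lit 0) (nat_lit 0) (XT.lf (nat_lit 0) (nat_lit 157931957754) (nat_lit 152) (nat_lit 200007367493) (nat_lit 0) (nat_lit 142953806425) (nat_lit 2) (nat_lit 5) (nat_lit 4) (nat_lit 4) (nat_lit 2) (nat_lit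 4) (nat_lit 428) (nat_lit 295) (nat_lit 177)) (XT.nd (nat_lit 78) (nat_lit 0) (nat_lit 0) (XT.lf (nat_lit 0) (nat_lit 174289941495) (nat_lit 152) (nat_lit 191876634215) (nat_lit 0) (nat_lit 159309529294) (nat_lit 2) (nat_lit 5) (nat_lit 4) (nat_lit 4) (nat_lit 2) (nat_lit 4) (nat_lit 429) (nat_lit 295) (nat_lit 176)) (XT.lf (nat_lit 0) (nat_lit 191463134610) (nat_lit 152) (nat_lit 183344657996) (nat_lit 0) (nat_lit 176480569196) (nat_lit 2) (nat_lit 5) (nat_lit 4) (nat_lit 4) (nat_lit 2) (nat_lit 4) (nat_lit 430) (nat_lit 295) (nat_lit 175)))))) (XT.nd (nat_lit 37284) (nat_lit 0) (nat_lit 9500) (XT.nd (nat_lit 234) (nat_lit 0) (nat_lit 0) (XT.nd (nat_lit 78) (nat_lit 0) (nat_lit 0) (XT.lf (nat_lit 0) (nat_lit 209492425651) (nat_lit 152) (nat_lit 174391124606) (nat_lit 0) (nat_lit 194507809560) (nat_lit 2) (nat_lit 5) (nat_lit 4) (nat_lit 4) (nat_lit 2) (nat_lit 4) (nat_lit 431) (nat_lit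 295) (nat_lit 174)) (XT.nd (nat_lit 78) (nat_lit 0) (nat_lit 0) (XT.lf (nat_lit 0) (nat_lit 228420741504) (nat_lit 152) (nat_lit 164994716108) (nat_lit 0) (nat_lit 213434172386) (nat_lit 2) (nat_lit 5) (nat_lit 4) (nat_lit 4) (nat_lit 2) (nat_lit 4) (nat_lit 432) (nat_lit 295) (nat_lit 173)) (XT.lf (nat_lit 0) (nat_lit 248293149586) (nat_lit 152) (nat_lit 155133060103) (nat_lit 0) (nat_lit 233304720442) (nat_lit 2) (nat_lit 5) (nat_lit 4) (nat_lit 4) (nat_lit 2) (nat_lit 4) (nat_lit 433) (nat_lit 295) (nat_lit 172)))) (XT.nd (nat_lit 78) (nat_lit 0) (nat_lit 0) (XT.lf (nat_lit 0) (nat_lit 269156965155) (nat_lit 152) (nat_lit 144782676455) (nat_lit 0) (nat_lit 254166764558) (nat_lit 2) (nat_lit 5) (nat_lit 4) (nat_lit 4) (nat_lit 2) (nat_lit 4) (nat_lit 434) (nat_lit 295) (nat_lit 171)) (XT.nd (nat_lit 78) (nat_lit 0) (nat_lit 0) (XT.lf (nat_lit 0) (nat_lit 291061863963) (nat_lit 152) (nat_lit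 133918921395) (nat_lit 0) (nat_lit 276069976268) (nat_lit 2) (nat_lit 5) (nat_lit 4) (nat_lit 4) (nat_lit 2) (nat_lit 4) (nat_lit 435) (nat_lit 295) (nat_lit 170)) (XT.lf (nat_lit 0) (nat_lit 314060000529) (nat_lit 152) (nat_lit 122515928839) (nat_lit 0) (nat_lit 299066506075) (nat_lit 2) (nat_lit 5) (nat_lit 4) (nat_lit 4) (nat_lit 2) (nat_lit 4) (nat_lit 436) (nat_lit 295) (nat_lit 169))))) (XT.nd (nat_lit 234) (nat_lit 1064) (nat_lit 0) (XT.nd (nat_lit 78) (nat_lit 456) (nat_lit 0) (XT.lf (nat_lit 0) (nat_lit 633982466) (nat_lit 380) (nat_lit 2047821590) (nat_lit 0) (nat_lit 633982466) (nat_lit 147) (nat_lit 5) (nat_lit 152) (nat_lit 4) (nat_lit 147) (nat_lit 4) (nat_lit 308) (nat_lit 296) (nat_lit 296)) (XT.nd (nat_lit 78) (nat_lit 456) (nat_lit 0) (XT.lf (nat_lit 0) (nat_lit 4422734698) (nat_lit 380) (nat_lit 35966695) (nat_lit 0) (nat_lit 2225040488) (nat_lit 147) (nat_lit 5) (nat_lit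 152) (nat_lit 4) (nat_lit 147) (nat_lit 4) (nat_lit 309) (nat_lit 296) (nat_lit 295)) (XT.lf (nat_lit 0) (nat_lit 858822464) (nat_lit 456) (nat_lit 2530150265) (nat_lit 76) (nat_lit 3354352124) (nat_lit 141) (nat_lit 5) (nat_lit 147) (nat_lit 5) (nat_lit 142) (nat_lit 4) (nat_lit 310) (nat_lit 296) (nat_lit 294)))) (XT.nd (nat_lit 78) (nat_lit 608) (nat_lit 0) (XT.lf (nat_lit 0) (nat_lit 1751227557) (nat_lit 456) (nat_lit 2168449177) (nat_lit 532) (nat_lit 2891576327) (nat_lit 135) (nat_lit 5) (nat_lit 141) (nat_lit 5) (nat_lit 142) (nat_lit 4) (nat_lit 311) (nat_lit 296) (nat_lit 293)) (XT.nd (nat_lit 78) (nat_lit 532) (nat_lit 0) (XT.lf (nat_lit 0) (nat_lit 122512365) (nat_lit 532) (nat_lit 691896523) (nat_lit 76) (nat_lit 6074240507) (nat_lit 134) (nat_lit 5) (nat_lit 141) (nat_lit 5) (nat_lit 135) (nat_lit 5) (nat_lit 312) (nat_lit 296) (nat_lit 292)) (XT.lf (nat_lit 0) (nat_lit 3105395689)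 (nat_lit 608) (nat_lit 3148804651) (nat_lit 76) (nat_lit 717815220) (nat_lit 127) (nat_lit 5) (nat_lit 135) (nat_lit 5) (nat_lit 128) (nat_lit 4) (nat_lit 313) (nat_lit 296) (nat_lit 291))))))))
noncomputable def xc89 : XT := (XT.nd (nat_lit 1794) (nat_lit 2128) (nat_lit 0) (XT.nd (nat_lit 858) (nat_lit 2204) (nat_lit 0) (XT.nd (nat_lit 390) (nat_lit 1520) (nat_lit 0) (XT.nd (nat_lit 156) (nat_lit 1520) (nat_lit 0) (XT.nd (nat_lit 78) (nat_lit 76) (nat_lit 0) (XT.lf (nat_lit 0) (nat_lit 1420550897) (nat_lit 608) (nat_lit 4713775917) (nat_lit 684) (nat_lit 930600386) (nat_lit 119) (nat_lit 5) (nat_lit 127) (nat_lit 5) (nat_lit 128) (nat_lit 4) (nat_lit 314) (nat_lit 296) (nat_lit 290)) (XT.lf (nat_lit 0) (nat_lit 1989419976) (nat_lit 684) (nat_lit 1009936958) (nat_lit 76) (nat_lit 4166344836) (nat_lit 118) (nat_lit 5) (nat_lit 127) (nat_lit 5) (nat_lit 119) (nat_lit 5) (nat_lit 315) (nat_lit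 296) (nat_lit 289))) (XT.nd (nat_lit 78) (nat_lit 836) (nat_lit 0) (XT.lf (nat_lit 0) (nat_lit 3826944168) (nat_lit 684) (nat_lit 1115909046) (nat_lit 760) (nat_lit 2332156832) (nat_lit 109) (nat_lit 5) (nat_lit 118) (nat_lit 5) (nat_lit 119) (nat_lit 5) (nat_lit 316) (nat_lit 296) (nat_lit 288)) (XT.nd (nat_lit 78) (nat_lit 0) (nat_lit 0) (XT.lf (nat_lit 0) (nat_lit 548654419) (nat_lit 836) (nat_lit 5960063917) (nat_lit 76) (nat_lit 884958057) (nat_lit 98) (nat_lit 5) (nat_lit 109) (nat_lit 5) (nat_lit 99) (nat_lit 5) (nat_lit 317) (nat_lit 296) (nat_lit 287)) (XT.lf (nat_lit 0) (nat_lit 3438356993) (nat_lit 836) (nat_lit 1037433257) (nat_lit 76) (nat_lit 3043578795) (nat_lit 98) (nat_lit 5) (nat_lit 109) (nat_lit 5) (nat_lit 99) (nat_lit 5) (nat_lit 318) (nat_lit 296) (nat_lit 286))))) (XT.nd (nat_lit 234) (nat_lit 760) (nat_lit 0) (XT.nd (nat_lit 78) (nat_lit 380) (nat_lit 0) (XT.lf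 (nat_lit 0) (nat_lit 4126568926) (nat_lit 380) (nat_lit 2282384960) (nat_lit 456) (nat_lit 1245730003) (nat_lit 93) (nat_lit 5) (nat_lit 98) (nat_lit 5) (nat_lit 99) (nat_lit 5) (nat_lit 319) (nat_lit 296) (nat_lit 285)) (XT.nd (nat_lit 78) (nat_lit 0) (nat_lit 0) (XT.lf (nat_lit 0) (nat_lit 1595018469) (nat_lit 380) (nat_lit 6124663484) (nat_lit 76) (nat_lit 79918553) (nat_lit 88) (nat_lit 5) (nat_lit 93) (nat_lit 5) (nat_lit 89) (nat_lit 5) (nat_lit 320) (nat_lit 296) (nat_lit 284)) (XT.lf (nat_lit 0) (nat_lit 4511533722) (nat_lit 380) (nat_lit 889695591) (nat_lit 76) (nat_lit 2550869350) (nat_lit 88) (nat_lit 5) (nat_lit 93) (nat_lit 5) (nat_lit 89) (nat_lit 5) (nat_lit 321) (nat_lit 296) (nat_lit 283)))) (XT.nd (nat_lit 78) (nat_lit 380) (nat_lit 0) (XT.lf (nat_lit 0) (nat_lit 4618919259) (nat_lit 380) (nat_lit 2910353617) (nat_lit 456) (nat_lit 585308949) (nat_lit 83) (nat_lit 5) (nat_lit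 88) (nat_lit 5) (nat_lit 89) (nat_lit 5) (nat_lit 322) (nat_lit 296) (nat_lit 282)) (XT.nd (nat_lit 78) (nat_lit 0) (nat_lit 0) (XT.lf (nat_lit 0) (nat_lit 2039093989) (nat_lit 304) (nat_lit 228321800) (nat_lit 380) (nat_lit 6019411427) (nat_lit 78) (nat_lit 5) (nat_lit 82) (nat_lit 5) (nat_lit 83) (nat_lit 5) (nat_lit 323) (nat_lit 296) (nat_lit 281)) (XT.lf (nat_lit 0) (nat_lit 5231461677) (nat_lit 380) (nat_lit 684530441) (nat_lit 76) (nat_lit 2551907539) (nat_lit 78) (nat_lit 5) (nat_lit 83) (nat_lit 5) (nat_lit 79) (nat_lit 5) (nat_lit 324) (nat_lit 296) (nat_lit 280)))))) (XT.nd (nat_lit 468) (nat_lit 988) (nat_lit 0) (XT.nd (nat_lit 234) (nat_lit 608) (nat_lit 0) (XT.nd (nat_lit 78) (nat_lit 304) (nat_lit 0) (XT.lf (nat_lit 0) (nat_lit 5184957906) (nat_lit 304) (nat_lit 3136571324) (nat_lit 380) (nat_lit 337712478) (nat_lit 74) (nat_lit 5) (nat_lit 78) (nat_lit 5) (nat_lit 79) (nat_lit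 5) (nat_lit 325) (nat_lit 296) (nat_lit 279)) (XT.nd (nat_lit 78) (nat_lit 0) (nat_lit 0) (XT.lf (nat_lit 0) (nat_lit 2411345239) (nat_lit 228) (nat_lit 151780880) (nat_lit 304) (nat_lit 6297820172) (nat_lit 70) (nat_lit 5) (nat_lit 73) (nat_lit 5) (nat_lit 74) (nat_lit 5) (nat_lit 326) (nat_lit 296) (nat_lit 278)) (XT.lf (nat_lit 0) (nat_lit 5600846195) (nat_lit 304) (nat_lit 549054867) (nat_lit 76) (nat_lit 2922491176) (nat_lit 70) (nat_lit 5) (nat_lit 74) (nat_lit 5) (nat_lit 71) (nat_lit 5) (nat_lit 327) (nat_lit 296) (nat_lit 277)))) (XT.nd (nat_lit 78) (nat_lit 304) (nat_lit 0) (XT.lf (nat_lit 0) (nat_lit 5694800933) (nat_lit 304) (nat_lit 3088788865) (nat_lit 380) (nat_lit 511251797) (nat_lit 66) (nat_lit 5) (nat_lit 70) (nat_lit 5) (nat_lit 71) (nat_lit 5) (nat_lit 328) (nat_lit 296) (nat_lit 276)) (XT.nd (nat_lit 78) (nat_lit 0) (nat_lit 0) (XT.lf (nat_lit 0) (nat_lit 2470466568)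 (nat_lit 304) (nat_lit 6878168485) (nat_lit 76) (nat_lit 180004237) (nat_lit 62) (nat_lit 5) (nat_lit 66) (nat_lit 5) (nat_lit 63) (nat_lit 5) (nat_lit 329) (nat_lit 296) (nat_lit 275)) (XT.lf (nat_lit 0) (nat_lit 5601474518) (nat_lit 304) (nat_lit 627383929) (nat_lit 76) (nat_lit 3544056120) (nat_lit 62) (nat_lit 5) (nat_lit 66) (nat_lit 5) (nat_lit 63) (nat_lit 5) (nat_lit 330) (nat_lit 296) (nat_lit 274))))) (XT.nd (nat_lit 234) (nat_lit 456) (nat_lit 0) (XT.nd (nat_lit 78) (nat_lit 304) (nat_lit 0) (XT.lf (nat_lit 0) (nat_lit 5999600667) (nat_lit 228) (nat_lit 2892418285) (nat_lit 304) (nat_lit 1137307742) (nat_lit 59) (nat_lit 5) (nat_lit 62) (nat_lit 5) (nat_lit 63) (nat_lit 5) (nat_lit 331) (nat_lit 296) (nat_lit 273)) (XT.nd (nat_lit 78) (nat_lit 0) (nat_lit 0) (XT.lf (nat_lit 0) (nat_lit 1954848486) (nat_lit 304) (nat_lit 7705705258) (nat_lit 76) (nat_lit 637878023) (nat_lit 55)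 (nat_lit 5) (nat_lit 59) (nat_lit 5) (nat_lit 56) (nat_lit 5) (nat_lit 332) (nat_lit 296) (nat_lit 272)) (XT.lf (nat_lit 0) (nat_lit 5191991982) (nat_lit 304) (nat_lit 1089620152) (nat_lit 76) (nat_lit 4297080251) (nat_lit 55) (nat_lit 5) (nat_lit 59) (nat_lit 5) (nat_lit 56) (nat_lit 5) (nat_lit 333) (nat_lit 296) (nat_lit 271)))) (XT.nd (nat_lit 78) (nat_lit 228) (nat_lit 0) (XT.lf (nat_lit 0) (nat_lit 5921985806) (nat_lit 228) (nat_lit 2677484330) (nat_lit 304) (nat_lit 2273131578) (nat_lit 52) (nat_lit 5) (nat_lit 55) (nat_lit 5) (nat_lit 56) (nat_lit 5) (nat_lit 334) (nat_lit 296) (nat_lit 270)) (XT.nd (nat_lit 78) (nat_lit 0) (nat_lit 0) (XT.lf (nat_lit 0) (nat_lit 949665959) (nat_lit 228) (nat_lit 9133427520) (nat_lit 76) (nat_lit 1098117833) (nat_lit 49) (nat_lit 5) (nat_lit 52) (nat_lit 5) (nat_lit 50) (nat_lit 5) (nat_lit 335) (nat_lit 296) (nat_lit 269)) (XT.lf (nat_lit 0) (nat_lit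 4304398784) (nat_lit 228) (nat_lit 2142659994) (nat_lit 76) (nat_lit 5054021457) (nat_lit 49) (nat_lit 5) (nat_lit 52) (nat_lit 5) (nat_lit 50) (nat_lit 5) (nat_lit 336) (nat_lit 296) (nat_lit 268))))))) (XT.nd (nat_lit 936) (nat_lit 836) (nat_lit 0) (XT.nd (nat_lit 468) (nat_lit 456) (nat_lit 0) (XT.nd (nat_lit 234) (nat_lit 380) (nat_lit 0) (XT.nd (nat_lit 78) (nat_lit 228) (nat_lit 0) (XT.lf (nat_lit 0) (nat_lit 5244506427) (nat_lit 228) (nat_lit 2586223108) (nat_lit 304) (nat_lit 4006069003) (nat_lit 46) (nat_lit 5) (nat_lit 49) (nat_lit 5) (nat_lit 50) (nat_lit 5) (nat_lit 337) (nat_lit 296) (nat_lit 267)) (XT.nd (nat_lit 78) (nat_lit 76) (nat_lit 0) (XT.lf (nat_lit 0) (nat_lit 766732000) (nat_lit 152) (nat_lit 10761578674) (nat_lit 228) (nat_lit 661292052) (nat_lit 44) (nat_lit 5) (nat_lit 46) (nat_lit 5) (nat_lit 47) (nat_lit 4) (nat_lit 338) (nat_lit 296) (nat_lit 266)) (XT.lf (nat_lit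 0) (nat_lit 2839028489) (nat_lit 228) (nat_lit 4043447992) (nat_lit 76) (nat_lit 5671410294) (nat_lit 43) (nat_lit 5) (nat_lit 46) (nat_lit 5) (nat_lit 44) (nat_lit 5) (nat_lit 339) (nat_lit 296) (nat_lit 265)))) (XT.nd (nat_lit 78) (nat_lit 228) (nat_lit 0) (XT.lf (nat_lit 0) (nat_lit 3695405112) (nat_lit 152) (nat_lit 2781741089) (nat_lit 228) (nat_lit 6459486847) (nat_lit 41) (nat_lit 5) (nat_lit 43) (nat_lit 5) (nat_lit 44) (nat_lit 5) (nat_lit 340) (nat_lit 296) (nat_lit 264)) (XT.nd (nat_lit 78) (nat_lit 228) (nat_lit 0) (XT.lf (nat_lit 0) (nat_lit 10318850444) (nat_lit 228) (nat_lit 1516420469) (nat_lit 76) (nat_lit 1502200080) (nat_lit 41) (nat_lit 5) (nat_lit 44) (nat_lit 5) (nat_lit 42) (nat_lit 4) (nat_lit 341) (nat_lit 296) (nat_lit 263)) (XT.lf (nat_lit 0) (nat_lit 657682708) (nat_lit 228) (nat_lit 7115461686) (nat_lit 76) (nat_lit 5980656605) (nat_lit 38) (nat_lit 5) (nat_lit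 41) (nat_lit 5) (nat_lit 39) (nat_lit 5) (nat_lit 342) (nat_lit 296) (nat_lit 262))))) (XT.nd (nat_lit 234) (nat_lit 228) (nat_lit 0) (XT.nd (nat_lit 78) (nat_lit 76) (nat_lit 0) (XT.lf (nat_lit 0) (nat_lit 930869174) (nat_lit 152) (nat_lit 3458221020) (nat_lit 228) (nat_lit 9800779470) (nat_lit 36) (nat_lit 5) (nat_lit 38) (nat_lit 5) (nat_lit 39) (nat_lit 5) (nat_lit 343) (nat_lit 296) (nat_lit 261)) (XT.nd (nat_lit 78) (nat_lit 76) (nat_lit 0) (XT.lf (nat_lit 0) (nat_lit 8379193447) (nat_lit 228) (nat_lit 5147559912) (nat_lit 76) (nat_lit 1117413717) (nat_lit 36) (nat_lit 5) (nat_lit 39) (nat_lit 5) (nat_lit 37) (nat_lit 4) (nat_lit 344) (nat_lit 296) (nat_lit 260)) (XT.lf (nat_lit 0) (nat_lit 3310455531) (nat_lit 76) (nat_lit 9302821304) (nat_lit 152) (nat_lit 2505708854) (nat_lit 35) (nat_lit 5) (nat_lit 36) (nat_lit 5) (nat_lit 37) (nat_lit 4) (nat_lit 345) (nat_lit 296) (nat_lit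 259)))) (XT.nd (nat_lit 78) (nat_lit 152) (nat_lit 0) (XT.lf (nat_lit 0) (nat_lit 1420411730) (nat_lit 152) (nat_lit 3375681789) (nat_lit 76) (nat_lit 10819102181) (nat_lit 34) (nat_lit 5) (nat_lit 36) (nat_lit 5) (nat_lit 35) (nat_lit 5) (nat_lit 346) (nat_lit 296) (nat_lit 258)) (XT.nd (nat_lit 78) (nat_lit 0) (nat_lit 0) (XT.lf (nat_lit 0) (nat_lit 5484532640) (nat_lit 228) (nat_lit 10622691345) (nat_lit 76) (nat_lit 25669223) (nat_lit 32) (nat_lit 5) (nat_lit 35) (nat_lit 5) (nat_lit 33) (nat_lit 4) (nat_lit 347) (nat_lit 296) (nat_lit 257)) (XT.lf (nat_lit 0) (nat_lit 9828671679) (nat_lit 228) (nat_lit 1899727387) (nat_lit 76) (nat_lit 4944260667) (nat_lit 32) (nat_lit 5) (nat_lit 35) (nat_lit 5) (nat_lit 33) (nat_lit 4) (nat_lit 348) (nat_lit 296) (nat_lit 256)))))) (XT.nd (nat_lit 468) (nat_lit 228) (nat_lit 0) (XT.nd (nat_lit 234) (nat_lit 304) (nat_lit 0) (XT.nd (nat_lit 78) (nat_lit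 228) (nat_lit 0) (XT.lf (nat_lit 0) (nat_lit 7396967928) (nat_lit 76) (nat_lit 7051471999) (nat_lit 152) (nat_lit 2788077114) (nat_lit 31) (nat_lit 5) (nat_lit 32) (nat_lit 5) (nat_lit 33) (nat_lit 4) (nat_lit 349) (nat_lit 296) (nat_lit 255)) (XT.nd (nat_lit 78) (nat_lit 152) (nat_lit 0) (XT.lf (nat_lit 0) (nat_lit 1399451587) (nat_lit 152) (nat_lit 725460672) (nat_lit 76) (nat_lit 15703733723) (nat_lit 30) (nat_lit 5) (nat_lit 32) (nat_lit 5) (nat_lit 31) (nat_lit 5) (nat_lit 350) (nat_lit 296) (nat_lit 254)) (XT.lf (nat_lit 0) (nat_lit 5838944792) (nat_lit 228) (nat_lit 9502119825) (nat_lit 76) (nat_lit 3100237516) (nat_lit 28) (nat_lit 5) (nat_lit 31) (nat_lit 5) (nat_lit 29) (nat_lit 4) (nat_lit 351) (nat_lit 296) (nat_lit 253)))) (XT.nd (nat_lit 78) (nat_lit 304) (nat_lit 0) (XT.lf (nat_lit 0) (nat_lit 10494124484) (nat_lit 228) (nat_lit 102011491) (nat_lit 76) (nat_lit 8488788913)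 (nat_lit 28) (nat_lit 5) (nat_lit 31) (nat_lit 5) (nat_lit 29) (nat_lit 4) (nat_lit 352) (nat_lit 296) (nat_lit 252)) (XT.nd (nat_lit 78) (nat_lit 228) (nat_lit 0) (XT.lf (nat_lit 0) (nat_lit 9997373542) (nat_lit 76) (nat_lit 5489719268) (nat_lit 152) (nat_lit 4268402956) (nat_lit 27) (nat_lit 5) (nat_lit 28) (nat_lit 5) (nat_lit 29) (nat_lit 4) (nat_lit 353) (nat_lit 296) (nat_lit 251)) (XT.lf (nat_lit 0) (nat_lit 52244848) (nat_lit 152) (nat_lit 160939362) (nat_lit 228) (nat_lit 20248631105) (nat_lit 24) (nat_lit 5) (nat_lit 26) (nat_lit 5) (nat_lit 27) (nat_lit 5) (nat_lit 354) (nat_lit 296) (nat_lit 250))))) (XT.nd (nat_lit 234) (nat_lit 152) (nat_lit 0) (XT.nd (nat_lit 78) (nat_lit 76) (nat_lit 0) (XT.lf (nat_lit 0) (nat_lit 4977765806) (nat_lit 228) (nat_lit 10752169128) (nat_lit 76) (nat_lit 5459915098) (nat_lit 24) (nat_lit 5) (nat_lit 27) (nat_lit 5) (nat_lit 25) (nat_lit 4) (nat_lit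 355) (nat_lit 296) (nat_lit 249)) (XT.nd (nat_lit 78) (nat_lit 76) (nat_lit 0) (XT.lf (nat_lit 0) (nat_lit 9935166629) (nat_lit 228) (nat_lit 701549547) (nat_lit 76) (nat_lit 11319855995) (nat_lit 24) (nat_lit 5) (nat_lit 27) (nat_lit 5) (nat_lit 25) (nat_lit 4) (nat_lit 356) (nat_lit 296) (nat_lit 248)) (XT.lf (nat_lit 0) (nat_lit 10091729401) (nat_lit 76) (nat_lit 5160508076) (nat_lit 152) (nat_lit 7503817410) (nat_lit 23) (nat_lit 5) (nat_lit 24) (nat_lit 5) (nat_lit 25) (nat_lit 4) (nat_lit 357) (nat_lit 296) (nat_lit 247)))) (XT.nd (nat_lit 78) (nat_lit 152) (nat_lit 0) (XT.lf (nat_lit 0) (nat_lit 20811014865) (nat_lit 152) (nat_lit 2238505034) (nat_lit 0) (nat_lit 547212968) (nat_lit 23) (nat_lit 5) (nat_lit 25) (nat_lit 4) (nat_lit 23) (nat_lit 4) (nat_lit 358) (nat_lit 296) (nat_lit 246)) (XT.nd (nat_lit 78) (nat_lit 0) (nat_lit 0) (XT.lf (nat_lit 0) (nat_lit 2280965417) (nat_lit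 152) (nat_lit 15680008334) (nat_lit 76) (nat_lit 6507686956) (nat_lit 21) (nat_lit 5) (nat_lit 23) (nat_lit 5) (nat_lit 22) (nat_lit 4) (nat_lit 359) (nat_lit 296) (nat_lit 245)) (XT.lf (nat_lit 0) (nat_lit 7502767897) (nat_lit 152) (nat_lit 5063109007) (nat_lit 76) (nat_lit 12816266399) (nat_lit 21) (nat_lit 5) (nat_lit 23) (nat_lit 5) (nat_lit 22) (nat_lit 4) (nat_lit 360) (nat_lit 296) (nat_lit 244))))))))
noncomputable def xc90 : XT := (XT.nd (nat_lit 1794) (nat_lit 456) (nat_lit 0) (XT.nd (nat_lit 858) (nat_lit 304) (nat_lit 0) (XT.nd (nat_lit 390) (nat_lit 304) (nat_lit 0) (XT.nd (nat_lit 156) (nat_lit 152) (nat_lit 0) (XT.nd (nat_lit 78) (nat_lit 0) (nat_lit 0) (XT.lf (nat_lit 0) (nat_lit 6207687595) (nat_lit 76) (nat_lit 6833817672) (nat_lit 152) (nat_lit 13297013860) (nat_lit 20) (nat_lit 5) (nat_lit 21) (nat_lit 5) (nat_lit 22) (nat_lit 4) (nat_lit 361) (nat_lit 296) (nat_lit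 243)) (XT.lf (nat_lit 0) (nat_lit 18143391158) (nat_lit 76) (nat_lit 759254061) (nat_lit 152) (nat_lit 8437806034) (nat_lit 20) (nat_lit 5) (nat_lit 21) (nat_lit 5) (nat_lit 22) (nat_lit 4) (nat_lit 362) (nat_lit 296) (nat_lit 242))) (XT.nd (nat_lit 78) (nat_lit 76) (nat_lit 0) (XT.lf (nat_lit 0) (nat_lit 2193589545) (nat_lit 76) (nat_lit 22946359741) (nat_lit 76) (nat_lit 3248385628) (nat_lit 19) (nat_lit 4) (nat_lit 20) (nat_lit 5) (nat_lit 20) (nat_lit 4) (nat_lit 363) (nat_lit 296) (nat_lit 241)) (XT.nd (nat_lit 78) (nat_lit 0) (nat_lit 0) (XT.lf (nat_lit 0) (nat_lit 2262068768) (nat_lit 152) (nat_lit 15129523409) (nat_lit 76) (nat_lit 12088712457) (nat_lit 18) (nat_lit 5) (nat_lit 20) (nat_lit 5) (nat_lit 19) (nat_lit 4) (nat_lit 364) (nat_lit 296) (nat_lit 240)) (XT.lf (nat_lit 0) (nat_lit 7901960789) (nat_lit 152) (nat_lit 3633259312) (nat_lit 76) (nat_lit 19090844914) (nat_lit 18)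 (nat_lit 5) (nat_lit 20) (nat_lit 5) (nat_lit 19) (nat_lit 4) (nat_lit 365) (nat_lit 296) (nat_lit 239))))) (XT.nd (nat_lit 234) (nat_lit 152) (nat_lit 0) (XT.nd (nat_lit 78) (nat_lit 76) (nat_lit 0) (XT.lf (nat_lit 0) (nat_lit 8648955985) (nat_lit 76) (nat_lit 5274765829) (nat_lit 152) (nat_lit 17900406340) (nat_lit 17) (nat_lit 5) (nat_lit 18) (nat_lit 5) (nat_lit 19) (nat_lit 4) (nat_lit 366) (nat_lit 296) (nat_lit 238)) (XT.nd (nat_lit 78) (nat_lit 76) (nat_lit 0) (XT.lf (nat_lit 0) (nat_lit 20294422033) (nat_lit 152) (nat_lit 11494768131) (nat_lit 0) (nat_lit 1290519786) (nat_lit 17) (nat_lit 5) (nat_lit 19) (nat_lit 4) (nat_lit 17) (nat_lit 4) (nat_lit 367) (nat_lit 296) (nat_lit 237)) (XT.lf (nat_lit 0) (nat_lit 640950764) (nat_lit 76) (nat_lit 26405885023) (nat_lit 76) (nat_lit 7348083797) (nat_lit 16) (nat_lit 4) (nat_lit 17) (nat_lit 5) (nat_lit 17) (nat_lit 4) (nat_lit 368) (nat_lit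 296) (nat_lit 236)))) (XT.nd (nat_lit 78) (nat_lit 152) (nat_lit 0) (XT.lf (nat_lit 0) (nat_lit 13720791863) (nat_lit 76) (nat_lit 20578069584) (nat_lit 76) (nat_lit 1468935997) (nat_lit 16) (nat_lit 4) (nat_lit 17) (nat_lit 5) (nat_lit 17) (nat_lit 4) (nat_lit 369) (nat_lit 296) (nat_lit 235)) (XT.nd (nat_lit 78) (nat_lit 76) (nat_lit 0) (XT.lf (nat_lit 0) (nat_lit 4521967329) (nat_lit 152) (nat_lit 9887988523) (nat_lit 76) (nat_lit 22797279664) (nat_lit 15) (nat_lit 5) (nat_lit 17) (nat_lit 5) (nat_lit 16) (nat_lit 4) (nat_lit 370) (nat_lit 296) (nat_lit 234)) (XT.lf (nat_lit 0) (nat_lit 2890410537) (nat_lit 76) (nat_lit 7887634365) (nat_lit 152) (nat_lit 27938653110) (nat_lit 14) (nat_lit 5) (nat_lit 15) (nat_lit 5) (nat_lit 16) (nat_lit 4) (nat_lit 371) (nat_lit 296) (nat_lit 233)))))) (XT.nd (nat_lit 468) (nat_lit 152) (nat_lit 0) (XT.nd (nat_lit 234) (nat_lit 76) (nat_lit 0) (XT.nd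 (nat_lit 78) (nat_lit 76) (nat_lit 0) (XT.lf (nat_lit 0) (nat_lit 16594938404) (nat_lit 76) (nat_lit 889872688) (nat_lit 152) (nat_lit 22809934314) (nat_lit 14) (nat_lit 5) (nat_lit 15) (nat_lit 5) (nat_lit 16) (nat_lit 4) (nat_lit 372) (nat_lit 296) (nat_lit 232)) (XT.nd (nat_lit 78) (nat_lit 76) (nat_lit 0) (XT.lf (nat_lit 0) (nat_lit 24599180566) (nat_lit 152) (nat_lit 11122255654) (nat_lit 0) (nat_lit 6226651427) (nat_lit 14) (nat_lit 5) (nat_lit 16) (nat_lit 4) (nat_lit 14) (nat_lit 4) (nat_lit 373) (nat_lit 296) (nat_lit 231)) (XT.lf (nat_lit 0) (nat_lit 2084463758) (nat_lit 76) (nat_lit 30004738084) (nat_lit 76) (nat_lit 11593903947) (nat_lit 13) (nat_lit 4) (nat_lit 14) (nat_lit 5) (nat_lit 14) (nat_lit 4) (nat_lit 374) (nat_lit 296) (nat_lit 230)))) (XT.nd (nat_lit 78) (nat_lit 76) (nat_lit 0) (XT.lf (nat_lit 0) (nat_lit 16286657544) (nat_lit 76) (nat_lit 23828727270) (nat_lit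 76) (nat_lit 5381412183) (nat_lit 13) (nat_lit 4) (nat_lit 14) (nat_lit 5) (nat_lit 14) (nat_lit 4) (nat_lit 375) (nat_lit 296) (nat_lit 229)) (XT.nd (nat_lit 78) (nat_lit 0) (nat_lit 0) (XT.lf (nat_lit 0) (nat_lit 1079312140) (nat_lit 152) (nat_lit 16269468961) (nat_lit 76) (nat_lit 30052797635) (nat_lit 12) (nat_lit 5) (nat_lit 14) (nat_lit 5) (nat_lit 13) (nat_lit 4) (nat_lit 376) (nat_lit 296) (nat_lit 228)) (XT.lf (nat_lit 0) (nat_lit 7657602548) (nat_lit 152) (nat_lit 2817062921) (nat_lit 76) (nat_lit 38923758555) (nat_lit 12) (nat_lit 5) (nat_lit 14) (nat_lit 5) (nat_lit 13) (nat_lit 4) (nat_lit 377) (nat_lit 296) (nat_lit 227))))) (XT.nd (nat_lit 234) (nat_lit 76) (nat_lit 0) (XT.nd (nat_lit 78) (nat_lit 0) (nat_lit 0) (XT.lf (nat_lit 0) (nat_lit 11635536977) (nat_lit 76) (nat_lit 3087486798) (nat_lit 152) (nat_lit 36764181259) (nat_lit 11) (nat_lit 5) (nat_lit 12) (nat_lit 5) (nat_lit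 13) (nat_lit 4) (nat_lit 378) (nat_lit 296) (nat_lit 226)) (XT.nd (nat_lit 78) (nat_lit 0) (nat_lit 0) (XT.lf (nat_lit 0) (nat_lit 22239754879) (nat_lit 152) (nat_lit 26888088638) (nat_lit 0) (nat_lit 4547683706) (nat_lit 11) (nat_lit 5) (nat_lit 13) (nat_lit 4) (nat_lit 11) (nat_lit 4) (nat_lit 379) (nat_lit 296) (nat_lit 225)) (XT.lf (nat_lit 0) (nat_lit 30160700332) (nat_lit 152) (nat_lit 13369743664) (nat_lit 0) (nat_lit 12441406512) (nat_lit 11) (nat_lit 5) (nat_lit 13) (nat_lit 4) (nat_lit 11) (nat_lit 4) (nat_lit 380) (nat_lit 296) (nat_lit 224)))) (XT.nd (nat_lit 78) (nat_lit 0) (nat_lit 0) (XT.lf (nat_lit 0) (nat_lit 809672292) (nat_lit 76) (nat_lit 37659484167) (nat_lit 76) (nat_lit 19914264017) (nat_lit 10) (nat_lit 4) (nat_lit 11) (nat_lit 5) (nat_lit 11) (nat_lit 4) (nat_lit 381) (nat_lit 296) (nat_lit 223)) (XT.nd (nat_lit 78) (nat_lit 0) (nat_lit 0) (XT.lf (nat_lit 0) (nat_lit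 16122122953) (nat_lit 76) (nat_lit 31276540010) (nat_lit 76) (nat_lit 13506628118) (nat_lit 10) (nat_lit 4) (nat_lit 11) (nat_lit 5) (nat_lit 11) (nat_lit 4) (nat_lit 382) (nat_lit 296) (nat_lit 222)) (XT.lf (nat_lit 0) (nat_lit 32162002429) (nat_lit 76) (nat_lit 24592837117) (nat_lit 76) (nat_lit 6799409279) (nat_lit 10) (nat_lit 4) (nat_lit 11) (nat_lit 5) (nat_lit 11) (nat_lit 4) (nat_lit 383) (nat_lit 296) (nat_lit 221))))))) (XT.nd (nat_lit 936) (nat_lit 228) (nat_lit 0) (XT.nd (nat_lit 468) (nat_lit 76) (nat_lit 0) (XT.nd (nat_lit 234) (nat_lit 0) (nat_lit 0) (XT.nd (nat_lit 78) (nat_lit 76) (nat_lit 0) (XT.lf (nat_lit 0) (nat_lit 216213085) (nat_lit 152) (nat_lit 17372587151) (nat_lit 76) (nat_lit 48747626151) (nat_lit 9) (nat_lit 5) (nat_lit 11) (nat_lit 5) (nat_lit 10) (nat_lit 4) (nat_lit 384) (nat_lit 296) (nat_lit 220)) (XT.nd (nat_lit 78) (nat_lit 76) (nat_lit 0) (XT.lf (nat_lit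 0) (nat_lit 7335850459) (nat_lit 152) (nat_lit 2798660192) (nat_lit 76) (nat_lit 59118544851) (nat_lit 9) (nat_lit 5) (nat_lit 11) (nat_lit 5) (nat_lit 10) (nat_lit 4) (nat_lit 385) (nat_lit 296) (nat_lit 219)) (XT.lf (nat_lit 0) (nat_lit 12882719622) (nat_lit 76) (nat_lit 2112493652) (nat_lit 152) (nat_lit 57311118372) (nat_lit 8) (nat_lit 5) (nat_lit 9) (nat_lit 5) (nat_lit 10) (nat_lit 4) (nat_lit 386) (nat_lit 296) (nat_lit 218)))) (XT.nd (nat_lit 78) (nat_lit 0) (nat_lit 0) (XT.lf (nat_lit 0) (nat_lit 23166916106) (nat_lit 152) (nat_lit 46197510767) (nat_lit 0) (nat_lit 6141378755) (nat_lit 8) (nat_lit 5) (nat_lit 10) (nat_lit 4) (nat_lit 8) (nat_lit 4) (nat_lit 387) (nat_lit 296) (nat_lit 217)) (XT.nd (nat_lit 78) (nat_lit 0) (nat_lit 0) (XT.lf (nat_lit 0) (nat_lit 31765331966) (nat_lit 152) (nat_lit 32376770792) (nat_lit 0) (nat_lit 14722246655) (nat_lit 8) (nat_lit 5) (nat_lit 10)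 (nat_lit 4) (nat_lit 8) (nat_lit 4) (nat_lit 388) (nat_lit 296) (nat_lit 216)) (XT.lf (nat_lit 0) (nat_lit 40777951328) (nat_lit 152) (nat_lit 17895503629) (nat_lit 0) (nat_lit 23718153673) (nat_lit 8) (nat_lit 5) (nat_lit 10) (nat_lit 4) (nat_lit 8) (nat_lit 4) (nat_lit 389) (nat_lit 296) (nat_lit 215))))) (XT.nd (nat_lit 234) (nat_lit 0) (nat_lit 0) (XT.nd (nat_lit 78) (nat_lit 76) (nat_lit 0) (XT.lf (nat_lit 0) (nat_lit 50226232810) (nat_lit 152) (nat_lit 2719230071) (nat_lit 0) (nat_lit 33150518637) (nat_lit 8) (nat_lit 5) (nat_lit 10) (nat_lit 4) (nat_lit 8) (nat_lit 4) (nat_lit 390) (nat_lit 296) (nat_lit 214)) (XT.nd (nat_lit 78) (nat_lit 0) (nat_lit 0) (XT.lf (nat_lit 0) (nat_lit 13624244784) (nat_lit 76) (nat_lit 46721140177) (nat_lit 76) (nat_lit 29630267416) (nat_lit 7) (nat_lit 4) (nat_lit 8) (nat_lit 5) (nat_lit 8) (nat_lit 4) (nat_lit 391) (nat_lit 296) (nat_lit 213)) (XT.lf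 (nat_lit 0) (nat_lit 30852071956) (nat_lit 76) (nat_lit 40150471966) (nat_lit 76) (nat_lit 23045162453) (nat_lit 7) (nat_lit 4) (nat_lit 8) (nat_lit 5) (nat_lit 8) (nat_lit 4) (nat_lit 392) (nat_lit 296) (nat_lit 212)))) (XT.nd (nat_lit 78) (nat_lit 0) (nat_lit 0) (XT.lf (nat_lit 0) (nat_lit 48915360053) (nat_lit 76) (nat_lit 33263865275) (nat_lit 76) (nat_lit 16144806476) (nat_lit 7) (nat_lit 4) (nat_lit 8) (nat_lit 5) (nat_lit 8) (nat_lit 4) (nat_lit 393) (nat_lit 296) (nat_lit 211)) (XT.nd (nat_lit 78) (nat_lit 0) (nat_lit 0) (XT.lf (nat_lit 0) (nat_lit 67857116905) (nat_lit 76) (nat_lit 26044923423) (nat_lit 76) (nat_lit 8912770066) (nat_lit 7) (nat_lit 4) (nat_lit 8) (nat_lit 5) (nat_lit 8) (nat_lit 4) (nat_lit 394) (nat_lit 296) (nat_lit 210)) (XT.lf (nat_lit 0) (nat_lit 87722441933) (nat_lit 76) (nat_lit 18476458453) (nat_lit 76) (nat_lit 1331834087) (nat_lit 7) (nat_lit 4) (nat_lit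 8) (nat_lit 5) (nat_lit 8) (nat_lit 4) (nat_lit 395) (nat_lit 296) (nat_lit 209)))))) (XT.nd (nat_lit 468) (nat_lit 76) (nat_lit 0) (XT.nd (nat_lit 234) (nat_lit 0) (nat_lit 0) (XT.nd (nat_lit 78) (nat_lit 76) (nat_lit 0) (XT.lf (nat_lit 0) (nat_lit 6404296345) (nat_lit 152) (nat_lit 4027694006) (nat_lit 76) (nat_lit 102045877325) (nat_lit 6) (nat_lit 5) (nat_lit 8) (nat_lit 5) (nat_lit 7) (nat_lit 4) (nat_lit 396) (nat_lit 296) (nat_lit 208)) (XT.nd (nat_lit 78) (nat_lit 0) (nat_lit 0) (XT.lf (nat_lit 0) (nat_lit 12911651264) (nat_lit 76) (nat_lit 1761258175) (nat_lit 152) (nat_lit 102988836243) (nat_lit 5) (nat_lit 5) (nat_lit 6) (nat_lit 5) (nat_lit 7) (nat_lit 4) (nat_lit 397) (nat_lit 296) (nat_lit 207)) (XT.lf (nat_lit 0) (nat_lit 23527810101) (nat_lit 152) (nat_lit 92401114110) (nat_lit 0) (nat_lit 7167251993) (nat_lit 5) (nat_lit 5) (nat_lit 7) (nat_lit 4) (nat_lit 5) (nat_lit 4)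 (nat_lit 398) (nat_lit 296) (nat_lit 206)))) (XT.nd (nat_lit 78) (nat_lit 0) (nat_lit 0) (XT.lf (nat_lit 0) (nat_lit 32843741050) (nat_lit 152) (nat_lit 79484262748) (nat_lit 0) (nat_lit 16473411581) (nat_lit 5) (nat_lit 5) (nat_lit 7) (nat_lit 4) (nat_lit 5) (nat_lit 4) (nat_lit 399) (nat_lit 296) (nat_lit 205)) (XT.nd (nat_lit 78) (nat_lit 0) (nat_lit 0) (XT.lf (nat_lit 0) (nat_lit 42615384899) (nat_lit 152) (nat_lit 65941287750) (nat_lit 0) (nat_lit 26235749371) (nat_lit 5) (nat_lit 5) (nat_lit 7) (nat_lit 4) (nat_lit 5) (nat_lit 4) (nat_lit 400) (nat_lit 296) (nat_lit 204)) (XT.lf (nat_lit 0) (nat_lit 52866007467) (nat_lit 152) (nat_lit 51739943936) (nat_lit 0) (nat_lit 36477509026) (nat_lit 5) (nat_lit 5) (nat_lit 7) (nat_lit 4) (nat_lit 5) (nat_lit 4) (nat_lit 401) (nat_lit 296) (nat_lit 203))))) (XT.nd (nat_lit 234) (nat_lit 76) (nat_lit 0) (XT.nd (nat_lit 78) (nat_lit 0) (nat_lit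 0) (XT.lf (nat_lit 0) (nat_lit 63620014997) (nat_lit 152) (nat_lit 36846418584) (nat_lit 0) (nat_lit 47223075687) (nat_lit 5) (nat_lit 5) (nat_lit 7) (nat_lit 4) (nat_lit 5) (nat_lit 4) (nat_lit 402) (nat_lit 296) (nat_lit 202)) (XT.nd (nat_lit 78) (nat_lit 0) (nat_lit 0) (XT.lf (nat_lit 0) (nat_lit 74903012270) (nat_lit 152) (nat_lit 21225250918) (nat_lit 0) (nat_lit 58498034037) (nat_lit 5) (nat_lit 5) (nat_lit 7) (nat_lit 4) (nat_lit 5) (nat_lit 4) (nat_lit 403) (nat_lit 296) (nat_lit 201)) (XT.lf (nat_lit 0) (nat_lit 86741863565) (nat_lit 152) (nat_lit 4839247683) (nat_lit 0) (nat_lit 70329229215) (nat_lit 5) (nat_lit 5) (nat_lit 7) (nat_lit 4) (nat_lit 5) (nat_lit 4) (nat_lit 404) (nat_lit 296) (nat_lit 200)))) (XT.nd (nat_lit 78) (nat_lit 0) (nat_lit 0) (XT.lf (nat_lit 0) (nat_lit 12758972206) (nat_lit 76) (nat_lit 86604987729) (nat_lit 76) (nat_lit 70185061839) (nat_lit 4) (nat_lit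 4) (nat_lit 5) (nat_lit 5) (nat_lit 5) (nat_lit 4) (nat_lit 405) (nat_lit 296) (nat_lit 199)) (XT.nd (nat_lit 78) (nat_lit 0) (nat_lit 0) (XT.lf (nat_lit 0) (nat_lit 31389909743) (nat_lit 76) (nat_lit 81301444478) (nat_lit 76) (nat_lit 64874574264) (nat_lit 4) (nat_lit 4) (nat_lit 5) (nat_lit 5) (nat_lit 5) (nat_lit 4) (nat_lit 406) (nat_lit 296) (nat_lit 198)) (XT.lf (nat_lit 0) (nat_lit 50937916918) (nat_lit 76) (nat_lit 75739809012) (nat_lit 76) (nat_lit 59306325157) (nat_lit 4) (nat_lit 4) (nat_lit 5) (nat_lit 5) (nat_lit 5) (nat_lit 4) (nat_lit 407) (nat_lit 296) (nat_lit 197))))))))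
noncomputable def xc91 : XT := (XT.nd (nat_lit 1794) (nat_lit 0) (nat_lit 0) (XT.nd (nat_lit 858) (nat_lit 0) (nat_lit 0) (XT.nd (nat_lit 390) (nat_lit 152) (nat_lit 0) (XT.nd (nat_lit 156) (nat_lit 0) (nat_lit 0) (XT.nd (nat_lit 78) (nat_lit 0) (nat_lit 0) (XT.lf (nat_lit 0) (nat_lit 71449536605) (nat_lit 76) (nat_lit 69906839343) (nat_lit 76) (nat_lit 53467056781) (nat_lit 4) (nat_lit 4) (nat_lit 5) (nat_lit 5) (nat_lit 5) (nat_lit 4) (nat_lit 408) (nat_lit 296) (nat_lit 196)) (XT.lf (nat_lit 0) (nat_lit 92973605995) (nat_lit 76) (nat_lit 63788647448) (nat_lit 76) (nat_lit 47342866117) (nat_lit 4) (nat_lit 4) (nat_lit 5) (nat_lit 5) (nat_lit 5) (nat_lit 4) (nat_lit 409) (nat_lit 296) (nat_lit 195))) (XT.nd (nat_lit 78) (nat_lit 0) (nat_lit 0) (XT.lf (nat_lit 0) (nat_lit 115561372872) (nat_lit 76) (nat_lit 57370666202) (nat_lit 76) (nat_lit 40919171759) (nat_lit 4) (nat_lit 4) (nat_lit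 5) (nat_lit 5) (nat_lit 5) (nat_lit 4) (nat_lit 410) (nat_lit 296) (nat_lit 194)) (XT.nd (nat_lit 78) (nat_lit 0) (nat_lit 0) (XT.lf (nat_lit 0) (nat_lit 139266617632) (nat_lit 76) (nat_lit 50637614698) (nat_lit 76) (nat_lit 34180679195) (nat_lit 4) (nat_lit 4) (nat_lit 5) (nat_lit 5) (nat_lit 5) (nat_lit 4) (nat_lit 411) (nat_lit 296) (nat_lit 193)) (XT.lf (nat_lit 0) (nat_lit 164145781336) (nat_lit 76) (nat_lit 43573461861) (nat_lit 76) (nat_lit 27111344397) (nat_lit 4) (nat_lit 4) (nat_lit 5) (nat_lit 5) (nat_lit 5) (nat_lit 4) (nat_lit 412) (nat_lit 296) (nat_lit 192))))) (XT.nd (nat_lit 234) (nat_lit 152) (nat_lit 0) (XT.nd (nat_lit 78) (nat_lit 0) (nat_lit 0) (XT.lf (nat_lit 0) (nat_lit 190258100086) (nat_lit 76) (nat_lit 36161388280) (nat_lit 76) (nat_lit 19694335614) (nat_lit 4) (nat_lit 4) (nat_lit 5) (nat_lit 5) (nat_lit 5) (nat_lit 4) (nat_lit 413) (nat_lit 296) (nat_lit 191))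 (XT.nd (nat_lit 78) (nat_lit 0) (nat_lit 0) (XT.lf (nat_lit 0) (nat_lit 217665746071) (nat_lit 76) (nat_lit 28383746160) (nat_lit 76) (nat_lit 11911993302) (nat_lit 4) (nat_lit 4) (nat_lit 5) (nat_lit 5) (nat_lit 5) (nat_lit 4) (nat_lit 414) (nat_lit 296) (nat_lit 190)) (XT.lf (nat_lit 0) (nat_lit 246433975590) (nat_lit 76) (nat_lit 20222017305) (nat_lit 76) (nat_lit 3745788075) (nat_lit 4) (nat_lit 4) (nat_lit 5) (nat_lit 5) (nat_lit 5) (nat_lit 4) (nat_lit 415) (nat_lit 296) (nat_lit 189)))) (XT.nd (nat_lit 78) (nat_lit 76) (nat_lit 0) (XT.lf (nat_lit 0) (nat_lit 4669334139) (nat_lit 152) (nat_lit 6908357456) (nat_lit 76) (nat_lit 271882872856) (nat_lit 3) (nat_lit 5) (nat_lit 5) (nat_lit 5) (nat_lit 4) (nat_lit 4) (nat_lit 416) (nat_lit 296) (nat_lit 188)) (XT.nd (nat_lit 78) (nat_lit 0) (nat_lit 0) (XT.lf (nat_lit 0) (nat_lit 11295130361) (nat_lit 76) (nat_lit 2255934519) (nat_lit 152)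 (nat_lit 283609565685) (nat_lit 2) (nat_lit 5) (nat_lit 3) (nat_lit 5) (nat_lit 4) (nat_lit 4) (nat_lit 417) (nat_lit 296) (nat_lit 187)) (XT.lf (nat_lit 0) (nat_lit 23108790243) (nat_lit 152) (nat_lit 281019781291) (nat_lit 0) (nat_lit 7405533572) (nat_lit 2) (nat_lit 5) (nat_lit 4) (nat_lit 4) (nat_lit 2) (nat_lit 4) (nat_lit 418) (nat_lit 296) (nat_lit 186)))))) (XT.nd (nat_lit 468) (nat_lit 0) (nat_lit 0) (XT.nd (nat_lit 234) (nat_lit 0) (nat_lit 0) (XT.nd (nat_lit 78) (nat_lit 0) (nat_lit 0) (XT.lf (nat_lit 0) (nat_lit 33177002982) (nat_lit 152) (nat_lit 275977381880) (nat_lit 0) (nat_lit 17470238955) (nat_lit 2) (nat_lit 5) (nat_lit 4) (nat_lit 4) (nat_lit 2) (nat_lit 4) (nat_lit 419) (nat_lit 296) (nat_lit 185)) (XT.nd (nat_lit 78) (nat_lit 0) (nat_lit 0) (XT.lf (nat_lit 0) (nat_lit 43744453572) (nat_lit 152) (nat_lit 270691074799) (nat_lit 0) (nat_lit 28034349207) (nat_lit 2) (nat_lit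 5) (nat_lit 4) (nat_lit 4) (nat_lit 2) (nat_lit 4) (nat_lit 420) (nat_lit 296) (nat_lit 184)) (XT.lf (nat_lit 0) (nat_lit 54836302611) (nat_lit 152) (nat_lit 265148273604) (nat_lit 0) (nat_lit 39123016970) (nat_lit 2) (nat_lit 5) (nat_lit 4) (nat_lit 4) (nat_lit 2) (nat_lit 4) (nat_lit 421) (nat_lit 296) (nat_lit 183)))) (XT.nd (nat_lit 78) (nat_lit 0) (nat_lit 0) (XT.lf (nat_lit 0) (nat_lit 66478959262) (nat_lit 152) (nat_lit 259335781147) (nat_lit 0) (nat_lit 50762643836) (nat_lit 2) (nat_lit 5) (nat_lit 4) (nat_lit 4) (nat_lit 2) (nat_lit 4) (nat_lit 422) (nat_lit 296) (nat_lit 182)) (XT.nd (nat_lit 78) (nat_lit 0) (nat_lit 0) (XT.lf (nat_lit 0) (nat_lit 78700144136) (nat_lit 152) (nat_lit 253239758162) (nat_lit 0) (nat_lit 62980943201) (nat_lit 2) (nat_lit 5) (nat_lit 4) (nat_lit 4) (nat_lit 2) (nat_lit 4) (nat_lit 423) (nat_lit 296) (nat_lit 181)) (XT.lf (nat_lit 0) (nat_lit 91528955294)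 (nat_lit 152) (nat_lit 246845690308) (nat_lit 0) (nat_lit 75807006253) (nat_lit 2) (nat_lit 5) (nat_lit 4) (nat_lit 4) (nat_lit 2) (nat_lit 4) (nat_lit 424) (nat_lit 296) (nat_lit 180))))) (XT.nd (nat_lit 234) (nat_lit 0) (nat_lit 0) (XT.nd (nat_lit 78) (nat_lit 0) (nat_lit 0) (XT.lf (nat_lit 0) (nat_lit 104995937523) (nat_lit 152) (nat_lit 240138353614) (nat_lit 0) (nat_lit 89271371240) (nat_lit 2) (nat_lit 5) (nat_lit 4) (nat_lit 4) (nat_lit 2) (nat_lit 4) (nat_lit 425) (nat_lit 296) (nat_lit 179)) (XT.nd (nat_lit 78) (nat_lit 0) (nat_lit 0) (XT.lf (nat_lit 0) (nat_lit 119133155066) (nat_lit 152) (nat_lit 233101778231) (nat_lit 0) (nat_lit 103406096171) (nat_lit 2) (nat_lit 5) (nat_lit 4) (nat_lit 4) (nat_lit 2) (nat_lit 4) (nat_lit 426) (nat_lit 296) (nat_lit 178)) (XT.lf (nat_lit 0) (nat_lit 133974267967) (nat_lit 152) (nat_lit 225719210407) (nat_lit 0) (nat_lit 118244835155) (nat_lit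 2) (nat_lit 5) (nat_lit 4) (nat_lit 4) (nat_lit 2) (nat_lit 4) (nat_lit 427) (nat_lit 296) (nat_lit 177)))) (XT.nd (nat_lit 78) (nat_lit 0) (nat_lit 0) (XT.lf (nat_lit 0) (nat_lit 149554612206) (nat_lit 152) (nat_lit 217973072601) (nat_lit 0) (nat_lit 133822918522) (nat_lit 2) (nat_lit 5) (nat_lit 4) (nat_lit 4) (nat_lit 2) (nat_lit 4) (nat_lit 428) (nat_lit 296) (nat_lit 176)) (XT.nd (nat_lit 78) (nat_lit 0) (nat_lit 0) (XT.lf (nat_lit 0) (nat_lit 165911283844) (nat_lit 152) (nat_lit 209844921626) (nat_lit 0) (nat_lit 150177436947) (nat_lit 2) (nat_lit 5) (nat_lit 4) (nat_lit 4) (nat_lit 2) (nat_lit 4) (nat_lit 429) (nat_lit 296) (nat_lit 175)) (XT.lf (nat_lit 0) (nat_lit 183083227334) (nat_lit 152) (nat_lit 201315404744) (nat_lit 0) (nat_lit 167347329760) (nat_lit 2) (nat_lit 5) (nat_lit 4) (nat_lit 4) (nat_lit 2) (nat_lit 4) (nat_lit 430) (nat_lit 296) (nat_lit 174))))))) (XT.nd (nat_lit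 37674) (nat_lit 0) (nat_lit 5776) (XT.nd (nat_lit 37206) (nat_lit 0) (nat_lit 10032) (XT.nd (nat_lit 234) (nat_lit 0) (nat_lit 0) (XT.nd (nat_lit 78) (nat_lit 0) (nat_lit 0) (XT.lf (nat_lit 0) (nat_lit 201111328258) (nat_lit 152) (nat_lit 192364213579) (nat_lit 0) (nat_lit 185373477657) (nat_lit 2) (nat_lit 5) (nat_lit 4) (nat_lit 4) (nat_lit 2) (nat_lit 4) (nat_lit 431) (nat_lit 296) (nat_lit 173)) (XT.nd (nat_lit 78) (nat_lit 0) (nat_lit 0) (XT.lf (nat_lit 0) (nat_lit 220038510666) (nat_lit 152) (nat_lit 182970035773) (nat_lit 0) (nat_lit 204298800039) (nat_lit 2) (nat_lit 5) (nat_lit 4) (nat_lit 4) (nat_lit 2) (nat_lit 4) (nat_lit 432) (nat_lit 296) (nat_lit 172)) (XT.lf (nat_lit 0) (nat_lit 239909839276) (nat_lit 152) (nat_lit 173110504234) (nat_lit 0) (nat_lit 224168357196) (nat_lit 2) (nat_lit 5) (nat_lit 4) (nat_lit 4) (nat_lit 2) (nat_lit 4) (nat_lit 433) (nat_lit 296) (nat_lit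 171)))) (XT.nd (nat_lit 78) (nat_lit 0) (nat_lit 0) (XT.lf (nat_lit 0) (nat_lit 260772626777) (nat_lit 152) (nat_lit 162762143889) (nat_lit 0) (nat_lit 245029457599) (nat_lit 2) (nat_lit 5) (nat_lit 4) (nat_lit 4) (nat_lit 2) (nat_lit 4) (nat_lit 434) (nat_lit 296) (nat_lit 170)) (XT.nd (nat_lit 36816) (nat_lit 0) (nat_lit 11400) (XT.lf (nat_lit 0) (nat_lit 282676546471) (nat_lit 152) (nat_lit 151900315784) (nat_lit 0) (nat_lit 266931770534) (nat_lit 2) (nat_lit 5) (nat_lit 4) (nat_lit 4) (nat_lit 2) (nat_lit 4) (nat_lit 435) (nat_lit 296) (nat_lit 169)) (XT.lf (nat_lit 0) (nat_lit 608084492) (nat_lit 228) (nat_lit 1332888375) (nat_lit 228) (nat_lit 1332888375) (nat_lit 152) (nat_lit 4) (nat_lit 155) (nat_lit 5) (nat_lit 155) (nat_lit 4) (nat_lit 306) (nat_lit 297) (nat_lit 297))))) (XT.nd (nat_lit 234) (nat_lit 988) (nat_lit 0) (XT.nd (nat_lit 78) (nat_lit 304) (nat_lit 0) (XT.lf (nat_lit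 0) (nat_lit 455750448) (nat_lit 304) (nat_lit 1488669449) (nat_lit 76) (nat_lit 4643529050) (nat_lit 151) (nat_lit 5) (nat_lit 155) (nat_lit 5) (nat_lit 152) (nat_lit 4) (nat_lit 307) (nat_lit 297) (nat_lit 296)) (XT.nd (nat_lit 78) (nat_lit 0) (nat_lit 0) (XT.lf (nat_lit 0) (nat_lit 2454434729) (nat_lit 304) (nat_lit 1050429425) (nat_lit 380) (nat_lit 3130395494) (nat_lit 147) (nat_lit 5) (nat_lit 151) (nat_lit 5) (nat_lit 152) (nat_lit 4) (nat_lit 308) (nat_lit 297) (nat_lit 295)) (XT.lf (nat_lit 0) (nat_lit 6521642141) (nat_lit 304) (nat_lit 39271585) (nat_lit 380) (nat_lit 131596117) (nat_lit 147) (nat_lit 5) (nat_lit 151) (nat_lit 5) (nat_lit 152) (nat_lit 4) (nat_lit 309) (nat_lit 297) (nat_lit 294)))) (XT.nd (nat_lit 78) (nat_lit 532) (nat_lit 0) (XT.lf (nat_lit 0) (nat_lit 2835818905) (nat_lit 456) (nat_lit 2778259916) (nat_lit 76) (nat_lit 1140696536) (nat_lit 141) (nat_lit 5)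 (nat_lit 147) (nat_lit 5) (nat_lit 142) (nat_lit 4) (nat_lit 310) (nat_lit 297) (nat_lit 293)) (XT.nd (nat_lit 78) (nat_lit 76) (nat_lit 0) (XT.lf (nat_lit 0) (nat_lit 1428725160) (nat_lit 456) (nat_lit 4385355191) (nat_lit 532) (nat_lit 1012878415) (nat_lit 135) (nat_lit 5) (nat_lit 141) (nat_lit 5) (nat_lit 142) (nat_lit 4) (nat_lit 311) (nat_lit 297) (nat_lit 292)) (XT.lf (nat_lit 0) (nat_lit 1864888807) (nat_lit 532) (nat_lit 1125106740) (nat_lit 76) (nat_lit 3916816421) (nat_lit 134) (nat_lit 5) (nat_lit 141) (nat_lit 5) (nat_lit 135) (nat_lit 5) (nat_lit 312) (nat_lit 297) (nat_lit 291)))))) (XT.nd (nat_lit 468) (nat_lit 1520) (nat_lit 0) (XT.nd (nat_lit 234) (nat_lit 1520) (nat_lit 0) (XT.nd (nat_lit 78) (nat_lit 684) (nat_lit 0) (XT.lf (nat_lit 0) (nat_lit 3323222180) (nat_lit 532) (nat_lit 1432413021) (nat_lit 608) (nat_lit 2239258242) (nat_lit 127) (nat_lit 5) (nat_lit 134) (nat_lit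 5) (nat_lit 135) (nat_lit 5) (nat_lit 313) (nat_lit 297) (nat_lit 290)) (XT.nd (nat_lit 78) (nat_lit 0) (nat_lit 0) (XT.lf (nat_lit 0) (nat_lit 571273088) (nat_lit 684) (nat_lit 6266126999) (nat_lit 76) (nat_lit 255118827) (nat_lit 118) (nat_lit 5) (nat_lit 127) (nat_lit 5) (nat_lit 119) (nat_lit 5) (nat_lit 314) (nat_lit 297) (nat_lit 289)) (XT.lf (nat_lit 0) (nat_lit 3392697114) (nat_lit 684) (nat_lit 1712807448) (nat_lit 76) (nat_lit 2090596716) (nat_lit 118) (nat_lit 5) (nat_lit 127) (nat_lit 5) (nat_lit 119) (nat_lit 5) (nat_lit 315) (nat_lit 297) (nat_lit 288)))) (XT.nd (nat_lit 78) (nat_lit 836) (nat_lit 0) (XT.lf (nat_lit 0) (nat_lit 3035317132) (nat_lit 684) (nat_lit 3232919121) (nat_lit 760) (nat_lit 1041157239) (nat_lit 109) (nat_lit 5) (nat_lit 118) (nat_lit 5) (nat_lit 119) (nat_lit 5) (nat_lit 316) (nat_lit 297) (nat_lit 287)) (XT.nd (nat_lit 78) (nat_lit 0) (nat_lit 0) (XT.lf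 (nat_lit 0) (nat_lit 507708105) (nat_lit 760) (nat_lit 1197152898) (nat_lit 836) (nat_lit 5726945614) (nat_lit 98) (nat_lit 5) (nat_lit 108) (nat_lit 5) (nat_lit 109) (nat_lit 5) (nat_lit 317) (nat_lit 297) (nat_lit 286)) (XT.lf (nat_lit 0) (nat_lit 4513424805) (nat_lit 836) (nat_lit 2049526201) (nat_lit 76) (nat_lit 998682284) (nat_lit 98) (nat_lit 5) (nat_lit 109) (nat_lit 5) (nat_lit 99) (nat_lit 5) (nat_lit 318) (nat_lit 297) (nat_lit 285))))) (XT.nd (nat_lit 234) (nat_lit 760) (nat_lit 0) (XT.nd (nat_lit 78) (nat_lit 380) (nat_lit 0) (XT.lf (nat_lit 0) (nat_lit 3015338959) (nat_lit 380) (nat_lit 4391859171) (nat_lit 456) (nat_lit 293664595) (nat_lit 93) (nat_lit 5) (nat_lit 98) (nat_lit 5) (nat_lit 99) (nat_lit 5) (nat_lit 319) (nat_lit 297) (nat_lit 284)) (XT.nd (nat_lit 78) (nat_lit 0) (nat_lit 0) (XT.lf (nat_lit 0) (nat_lit 398571713) (nat_lit 304) (nat_lit 2038171541) (nat_lit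 380) (nat_lit 5412352884) (nat_lit 88) (nat_lit 5) (nat_lit 92) (nat_lit 5) (nat_lit 93) (nat_lit 5) (nat_lit 320) (nat_lit 297) (nat_lit 283)) (XT.lf (nat_lit 0) (nat_lit 5264502237) (nat_lit 380) (nat_lit 2250045059) (nat_lit 76) (nat_lit 491548228) (nat_lit 88) (nat_lit 5) (nat_lit 93) (nat_lit 5) (nat_lit 89) (nat_lit 5) (nat_lit 321) (nat_lit 297) (nat_lit 282)))) (XT.nd (nat_lit 78) (nat_lit 304) (nat_lit 0) (XT.lf (nat_lit 0) (nat_lit 31517794) (nat_lit 456) (nat_lit 5024656679) (nat_lit 76) (nat_lit 3116298351) (nat_lit 82) (nat_lit 5) (nat_lit 88) (nat_lit 5) (nat_lit 83) (nat_lit 5) (nat_lit 322) (nat_lit 297) (nat_lit 281)) (XT.nd (nat_lit 78) (nat_lit 0) (nat_lit 0) (XT.lf (nat_lit 0) (nat_lit 384030599) (nat_lit 304) (nat_lit 2402108515) (nat_lit 380) (nat_lit 5562145461) (nat_lit 78) (nat_lit 5) (nat_lit 82) (nat_lit 5) (nat_lit 83) (nat_lit 5) (nat_lit 323) (nat_lit 297)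 (nat_lit 280)) (XT.lf (nat_lit 0) (nat_lit 5664111791) (nat_lit 380) (nat_lit 2432518449) (nat_lit 76) (nat_lit 437082610) (nat_lit 78) (nat_lit 5) (nat_lit 83) (nat_lit 5) (nat_lit 79) (nat_lit 5) (nat_lit 324) (nat_lit 297) (nat_lit 279))))))))
noncomputable def xc92 : XT := (XT.nd (nat_lit 1794) (nat_lit 1444) (nat_lit 0) (XT.nd (nat_lit 858) (nat_lit 1292) (nat_lit 0) (XT.nd (nat_lit 390) (nat_lit 836) (nat_lit 0) (XT.nd (nat_lit 156) (nat_lit 608) (nat_lit 0) (XT.nd (nat_lit 78) (nat_lit 304) (nat_lit 0) (XT.lf (nat_lit 0) (nat_lit 3314822297) (nat_lit 304) (nat_lit 5360507266) (nat_lit 380) (nat_lit 53717514) (nat_lit 74) (nat_lit 5) (nat_lit 78) (nat_lit 5) (nat_lit 79) (nat_lit 5) (nat_lit 325) (nat_lit 297) (nat_lit 278)) (XT.lf (nat_lit 0) (nat_lit 337644134) (nat_lit 228) (nat_lit 2418930140) (nat_lit 304) (nat_lit 6178073618) (nat_lit 70) (nat_lit 5) (nat_lit 73) (nat_lit 5)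 (nat_lit 74) (nat_lit 5) (nat_lit 326) (nat_lit 297) (nat_lit 277))) (XT.nd (nat_lit 78) (nat_lit 608) (nat_lit 0) (XT.lf (nat_lit 0) (nat_lit 5710964874) (nat_lit 304) (nat_lit 2725206715) (nat_lit 76) (nat_lit 714131644) (nat_lit 70) (nat_lit 5) (nat_lit 74) (nat_lit 5) (nat_lit 71) (nat_lit 5) (nat_lit 327) (nat_lit 297) (nat_lit 276)) (XT.nd (nat_lit 78) (nat_lit 304) (nat_lit 0) (XT.lf (nat_lit 0) (nat_lit 3383584588) (nat_lit 304) (nat_lit 5428388924) (nat_lit 380) (nat_lit 564906704) (nat_lit 66) (nat_lit 5) (nat_lit 70) (nat_lit 5) (nat_lit 71) (nat_lit 5) (nat_lit 328) (nat_lit 297) (nat_lit 275)) (XT.lf (nat_lit 0) (nat_lit 118323135) (nat_lit 228) (nat_lit 2212540214) (nat_lit 304) (nat_lit 7284276807) (nat_lit 62) (nat_lit 5) (nat_lit 65) (nat_lit 5) (nat_lit 66) (nat_lit 5) (nat_lit 329) (nat_lit 297) (nat_lit 274))))) (XT.nd (nat_lit 234) (nat_lit 532) (nat_lit 0) (XT.nd (nat_lit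 78) (nat_lit 304) (nat_lit 0) (XT.lf (nat_lit 0) (nat_lit 5383091008) (nat_lit 304) (nat_lit 3274105037) (nat_lit 76) (nat_lit 1206193715) (nat_lit 62) (nat_lit 5) (nat_lit 66) (nat_lit 5) (nat_lit 63) (nat_lit 5) (nat_lit 330) (nat_lit 297) (nat_lit 273)) (XT.nd (nat_lit 78) (nat_lit 76) (nat_lit 0) (XT.lf (nat_lit 0) (nat_lit 3203760426) (nat_lit 228) (nat_lit 5384094269) (nat_lit 304) (nat_lit 1536269860) (nat_lit 59) (nat_lit 5) (nat_lit 62) (nat_lit 5) (nat_lit 63) (nat_lit 5) (nat_lit 331) (nat_lit 297) (nat_lit 272)) (XT.lf (nat_lit 0) (nat_lit 1475975405) (nat_lit 304) (nat_lit 424292765) (nat_lit 76) (nat_lit 8497937419) (nat_lit 58) (nat_lit 5) (nat_lit 62) (nat_lit 5) (nat_lit 59) (nat_lit 5) (nat_lit 332) (nat_lit 297) (nat_lit 271)))) (XT.nd (nat_lit 78) (nat_lit 304) (nat_lit 0) (XT.lf (nat_lit 0) (nat_lit 4635528278) (nat_lit 304) (nat_lit 4251893479) (nat_lit 76) (nat_lit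 1794953032) (nat_lit 55) (nat_lit 5) (nat_lit 59) (nat_lit 5) (nat_lit 56) (nat_lit 5) (nat_lit 333) (nat_lit 297) (nat_lit 270)) (XT.nd (nat_lit 78) (nat_lit 76) (nat_lit 0) (XT.lf (nat_lit 0) (nat_lit 2595245810) (nat_lit 228) (nat_lit 5356805181) (nat_lit 304) (nat_lit 3028808568) (nat_lit 52) (nat_lit 5) (nat_lit 55) (nat_lit 5) (nat_lit 56) (nat_lit 5) (nat_lit 334) (nat_lit 297) (nat_lit 269)) (XT.lf (nat_lit 0) (nat_lit 129503917) (nat_lit 304) (nat_lit 1481315260) (nat_lit 76) (nat_lit 9683698559) (nat_lit 51) (nat_lit 5) (nat_lit 55) (nat_lit 5) (nat_lit 52) (nat_lit 5) (nat_lit 335) (nat_lit 297) (nat_lit 268)))))) (XT.nd (nat_lit 468) (nat_lit 532) (nat_lit 0) (XT.nd (nat_lit 234) (nat_lit 380) (nat_lit 0) (XT.nd (nat_lit 78) (nat_lit 228) (nat_lit 0) (XT.lf (nat_lit 0) (nat_lit 3396744871) (nat_lit 228) (nat_lit 5868720629) (nat_lit 76) (nat_lit 2353319655) (nat_lit 49) (nat_lit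 5) (nat_lit 52) (nat_lit 5) (nat_lit 50) (nat_lit 5) (nat_lit 336) (nat_lit 297) (nat_lit 267)) (XT.nd (nat_lit 78) (nat_lit 0) (nat_lit 0) (XT.lf (nat_lit 0) (nat_lit 1337174726) (nat_lit 228) (nat_lit 5488650198) (nat_lit 304) (nat_lit 5133563830) (nat_lit 46) (nat_lit 5) (nat_lit 49) (nat_lit 5) (nat_lit 50) (nat_lit 5) (nat_lit 337) (nat_lit 297) (nat_lit 266)) (XT.lf (nat_lit 0) (nat_lit 8993737498) (nat_lit 228) (nat_lit 1459474404) (nat_lit 304) (nat_lit 1862512427) (nat_lit 46) (nat_lit 5) (nat_lit 49) (nat_lit 5) (nat_lit 50) (nat_lit 5) (nat_lit 338) (nat_lit 297) (nat_lit 265)))) (XT.nd (nat_lit 78) (nat_lit 152) (nat_lit 0) (XT.lf (nat_lit 0) (nat_lit 1563550485) (nat_lit 228) (nat_lit 8385449509) (nat_lit 76) (nat_lit 2737600977) (nat_lit 43) (nat_lit 5) (nat_lit 46) (nat_lit 5) (nat_lit 44) (nat_lit 5) (nat_lit 339) (nat_lit 297) (nat_lit 264)) (XT.nd (nat_lit 78) (nat_lit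 152) (nat_lit 0) (XT.lf (nat_lit 0) (nat_lit 5110202191) (nat_lit 228) (nat_lit 819216676) (nat_lit 76) (nat_lit 7144520404) (nat_lit 43) (nat_lit 5) (nat_lit 46) (nat_lit 5) (nat_lit 44) (nat_lit 5) (nat_lit 340) (nat_lit 297) (nat_lit 263)) (XT.lf (nat_lit 0) (nat_lit 7251314507) (nat_lit 152) (nat_lit 1630152675) (nat_lit 228) (nat_lit 4596849832) (nat_lit 41) (nat_lit 5) (nat_lit 43) (nat_lit 5) (nat_lit 44) (nat_lit 5) (nat_lit 341) (nat_lit 297) (nat_lit 262))))) (XT.nd (nat_lit 234) (nat_lit 152) (nat_lit 0) (XT.nd (nat_lit 78) (nat_lit 228) (nat_lit 0) (XT.lf (nat_lit 0) (nat_lit 1755503452) (nat_lit 152) (nat_lit 11107283301) (nat_lit 228) (nat_lit 1039087145) (nat_lit 39) (nat_lit 5) (nat_lit 41) (nat_lit 5) (nat_lit 42) (nat_lit 4) (nat_lit 342) (nat_lit 297) (nat_lit 261)) (XT.nd (nat_lit 78) (nat_lit 152) (nat_lit 0) (XT.lf (nat_lit 0) (nat_lit 2679498829) (nat_lit 228) (nat_lit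 4166032080) (nat_lit 76) (nat_lit 7495542152) (nat_lit 38) (nat_lit 5) (nat_lit 41) (nat_lit 5) (nat_lit 39) (nat_lit 5) (nat_lit 343) (nat_lit 297) (nat_lit 260)) (XT.lf (nat_lit 0) (nat_lit 4229305602) (nat_lit 152) (nat_lit 2324231204) (nat_lit 228) (nat_lit 8247651605) (nat_lit 36) (nat_lit 5) (nat_lit 38) (nat_lit 5) (nat_lit 39) (nat_lit 5) (nat_lit 344) (nat_lit 297) (nat_lit 259)))) (XT.nd (nat_lit 78) (nat_lit 152) (nat_lit 0) (XT.lf (nat_lit 0) (nat_lit 10669959297) (nat_lit 228) (nat_lit 2233829983) (nat_lit 76) (nat_lit 2378114764) (nat_lit 36) (nat_lit 5) (nat_lit 39) (nat_lit 5) (nat_lit 37) (nat_lit 4) (nat_lit 345) (nat_lit 297) (nat_lit 258)) (XT.nd (nat_lit 78) (nat_lit 76) (nat_lit 0) (XT.lf (nat_lit 0) (nat_lit 6595939331) (nat_lit 76) (nat_lit 8479385232) (nat_lit 152) (nat_lit 707202095) (nat_lit 35) (nat_lit 5) (nat_lit 36) (nat_lit 5) (nat_lit 37) (nat_lit 4) (nat_lit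 346) (nat_lit 297) (nat_lit 257)) (XT.lf (nat_lit 0) (nat_lit 3264974066) (nat_lit 152) (nat_lit 513672021) (nat_lit 76) (nat_lit 12527871203) (nat_lit 34) (nat_lit 5) (nat_lit 36) (nat_lit 5) (nat_lit 35) (nat_lit 5) (nat_lit 347) (nat_lit 297) (nat_lit 256))))))) (XT.nd (nat_lit 936) (nat_lit 608) (nat_lit 0) (XT.nd (nat_lit 468) (nat_lit 304) (nat_lit 0) (XT.nd (nat_lit 234) (nat_lit 304) (nat_lit 0) (XT.nd (nat_lit 78) (nat_lit 76) (nat_lit 0) (XT.lf (nat_lit 0) (nat_lit 7513860342) (nat_lit 228) (nat_lit 8103866510) (nat_lit 76) (nat_lit 1233331098) (nat_lit 32) (nat_lit 5) (nat_lit 35) (nat_lit 5) (nat_lit 33) (nat_lit 4) (nat_lit 348) (nat_lit 297) (nat_lit 255)) (XT.nd (nat_lit 78) (nat_lit 0) (nat_lit 0) (XT.lf (nat_lit 0) (nat_lit 940098506) (nat_lit 76) (nat_lit 11066209158) (nat_lit 152) (nat_lit 5414984590) (nat_lit 31) (nat_lit 5) (nat_lit 32) (nat_lit 5) (nat_lit 33) (nat_lit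 4) (nat_lit 349) (nat_lit 297) (nat_lit 254)) (XT.lf (nat_lit 0) (nat_lit 10624689190) (nat_lit 76) (nat_lit 6182720546) (nat_lit 152) (nat_lit 1208448293) (nat_lit 31) (nat_lit 5) (nat_lit 32) (nat_lit 5) (nat_lit 33) (nat_lit 4) (nat_lit 350) (nat_lit 297) (nat_lit 253)))) (XT.nd (nat_lit 78) (nat_lit 76) (nat_lit 0) (XT.lf (nat_lit 0) (nat_lit 2079606510) (nat_lit 152) (nat_lit 1007060328) (nat_lit 228) (nat_lit 15551952961) (nat_lit 28) (nat_lit 5) (nat_lit 30) (nat_lit 5) (nat_lit 31) (nat_lit 5) (nat_lit 351) (nat_lit 297) (nat_lit 252)) (XT.nd (nat_lit 78) (nat_lit 76) (nat_lit 0) (XT.lf (nat_lit 0) (nat_lit 7701217463) (nat_lit 228) (nat_lit 7187429290) (nat_lit 76) (nat_lit 4395636264) (nat_lit 28) (nat_lit 5) (nat_lit 31) (nat_lit 5) (nat_lit 29) (nat_lit 4) (nat_lit 352) (nat_lit 297) (nat_lit 251)) (XT.lf (nat_lit 0) (nat_lit 2634146133) (nat_lit 76) (nat_lit 9921359009) (nat_lit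 152) (nat_lit 7406291364) (nat_lit 27) (nat_lit 5) (nat_lit 28) (nat_lit 5) (nat_lit 29) (nat_lit 4) (nat_lit 353) (nat_lit 297) (nat_lit 250))))) (XT.nd (nat_lit 234) (nat_lit 76) (nat_lit 0) (XT.nd (nat_lit 78) (nat_lit 228) (nat_lit 0) (XT.lf (nat_lit 0) (nat_lit 13111337275) (nat_lit 76) (nat_lit 4615254983) (nat_lit 152) (nat_lit 2942905908) (nat_lit 27) (nat_lit 5) (nat_lit 28) (nat_lit 5) (nat_lit 29) (nat_lit 4) (nat_lit 354) (nat_lit 297) (nat_lit 249)) (XT.nd (nat_lit 78) (nat_lit 0) (nat_lit 0) (XT.lf (nat_lit 0) (nat_lit 1698980279) (nat_lit 228) (nat_lit 18751215726) (nat_lit 76) (nat_lit 960485978) (nat_lit 24) (nat_lit 5) (nat_lit 27) (nat_lit 5) (nat_lit 25) (nat_lit 4) (nat_lit 355) (nat_lit 297) (nat_lit 248)) (XT.lf (nat_lit 0) (nat_lit 6634059056) (nat_lit 228) (nat_lit 8741020524) (nat_lit 76) (nat_lit 6803447702) (nat_lit 24) (nat_lit 5) (nat_lit 27) (nat_lit 5) (nat_lit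 25) (nat_lit 4) (nat_lit 356) (nat_lit 297) (nat_lit 247)))) (XT.nd (nat_lit 78) (nat_lit 0) (nat_lit 0) (XT.lf (nat_lit 0) (nat_lit 1746664834) (nat_lit 76) (nat_lit 10052916135) (nat_lit 152) (nat_lit 11186013197) (nat_lit 23) (nat_lit 5) (nat_lit 24) (nat_lit 5) (nat_lit 25) (nat_lit 4) (nat_lit 357) (nat_lit 297) (nat_lit 246)) (XT.nd (nat_lit 78) (nat_lit 0) (nat_lit 0) (XT.lf (nat_lit 0) (nat_lit 12984552134) (nat_lit 76) (nat_lit 4344142065) (nat_lit 152) (nat_lit 6499067558) (nat_lit 23) (nat_lit 5) (nat_lit 24) (nat_lit 5) (nat_lit 25) (nat_lit 4) (nat_lit 358) (nat_lit 297) (nat_lit 245)) (XT.lf (nat_lit 0) (nat_lit 23118821902) (nat_lit 152) (nat_lit 28946594) (nat_lit 0) (nat_lit 1565053788) (nat_lit 23) (nat_lit 5) (nat_lit 25) (nat_lit 4) (nat_lit 23) (nat_lit 4) (nat_lit 359) (nat_lit 297) (nat_lit 244)))))) (XT.nd (nat_lit 468) (nat_lit 228) (nat_lit 0) (XT.nd (nat_lit 234)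 (nat_lit 152) (nat_lit 0) (XT.nd (nat_lit 78) (nat_lit 76) (nat_lit 0) (XT.lf (nat_lit 0) (nat_lit 3658309122) (nat_lit 152) (nat_lit 14137849420) (nat_lit 76) (nat_lit 7832421758) (nat_lit 21) (nat_lit 5) (nat_lit 23) (nat_lit 5) (nat_lit 22) (nat_lit 4) (nat_lit 360) (nat_lit 297) (nat_lit 243)) (XT.nd (nat_lit 78) (nat_lit 76) (nat_lit 0) (XT.lf (nat_lit 0) (nat_lit 9081044800) (nat_lit 152) (nat_lit 3100874619) (nat_lit 76) (nat_lit 14408842056) (nat_lit 21) (nat_lit 5) (nat_lit 23) (nat_lit 5) (nat_lit 22) (nat_lit 4) (nat_lit 361) (nat_lit 297) (nat_lit 242)) (XT.lf (nat_lit 0) (nat_lit 8697729719) (nat_lit 76) (nat_lit 6175727575) (nat_lit 152) (nat_lit 12722677695) (nat_lit 20) (nat_lit 5) (nat_lit 21) (nat_lit 5) (nat_lit 22) (nat_lit 4) (nat_lit 362) (nat_lit 297) (nat_lit 241)))) (XT.nd (nat_lit 78) (nat_lit 152) (nat_lit 0) (XT.lf (nat_lit 0) (nat_lit 20973888928) (nat_lit 152)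 (nat_lit 7526982069) (nat_lit 0) (nat_lit 149996051) (nat_lit 20) (nat_lit 5) (nat_lit 22) (nat_lit 4) (nat_lit 20) (nat_lit 4) (nat_lit 363) (nat_lit 297) (nat_lit 240)) (XT.nd (nat_lit 78) (nat_lit 76) (nat_lit 0) (XT.lf (nat_lit 0) (nat_lit 4386600294) (nat_lit 76) (nat_lit 23127214271) (nat_lit 76) (nat_lit 2237806849) (nat_lit 19) (nat_lit 4) (nat_lit 20) (nat_lit 5) (nat_lit 20) (nat_lit 4) (nat_lit 364) (nat_lit 297) (nat_lit 239)) (XT.lf (nat_lit 0) (nat_lit 3456557728) (nat_lit 152) (nat_lit 13865858884) (nat_lit 76) (nat_lit 13577573794) (nat_lit 18) (nat_lit 5) (nat_lit 20) (nat_lit 5) (nat_lit 19) (nat_lit 4) (nat_lit 365) (nat_lit 297) (nat_lit 238))))) (XT.nd (nat_lit 234) (nat_lit 152) (nat_lit 0) (XT.nd (nat_lit 78) (nat_lit 76) (nat_lit 0) (XT.lf (nat_lit 0) (nat_lit 9326949800) (nat_lit 152) (nat_lit 1890978759) (nat_lit 76) (nat_lit 20887697363) (nat_lit 18) (nat_lit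 5) (nat_lit 20) (nat_lit 5) (nat_lit 19) (nat_lit 4) (nat_lit 366) (nat_lit 297) (nat_lit 237)) (XT.nd (nat_lit 78) (nat_lit 0) (nat_lit 0) (XT.lf (nat_lit 0) (nat_lit 10974315956) (nat_lit 76) (nat_lit 4655994158) (nat_lit 152) (nat_lit 17734268343) (nat_lit 17) (nat_lit 5) (nat_lit 18) (nat_lit 5) (nat_lit 19) (nat_lit 4) (nat_lit 367) (nat_lit 297) (nat_lit 236)) (XT.lf (nat_lit 0) (nat_lit 22284553290) (nat_lit 152) (nat_lit 10231516229) (nat_lit 0) (nat_lit 2168630664) (nat_lit 17) (nat_lit 5) (nat_lit 19) (nat_lit 4) (nat_lit 17) (nat_lit 4) (nat_lit 368) (nat_lit 297) (nat_lit 235)))) (XT.nd (nat_lit 78) (nat_lit 76) (nat_lit 0) (XT.lf (nat_lit 0) (nat_lit 2481343605) (nat_lit 76) (nat_lit 26875029361) (nat_lit 76) (nat_lit 6710218772) (nat_lit 16) (nat_lit 4) (nat_lit 17) (nat_lit 5) (nat_lit 17) (nat_lit 4) (nat_lit 369) (nat_lit 297) (nat_lit 234)) (XT.nd (nat_lit 78) (nat_lit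 76) (nat_lit 0) (XT.lf (nat_lit 0) (nat_lit 16129065078) (nat_lit 76) (nat_lit 20796354098) (nat_lit 76) (nat_lit 584983545) (nat_lit 16) (nat_lit 4) (nat_lit 17) (nat_lit 5) (nat_lit 17) (nat_lit 4) (nat_lit 370) (nat_lit 297) (nat_lit 233)) (XT.lf (nat_lit 0) (nat_lit 5630690931) (nat_lit 152) (nat_lit 8712796967) (nat_lit 76) (nat_lit 24679793225) (nat_lit 15) (nat_lit 5) (nat_lit 17) (nat_lit 5) (nat_lit 16) (nat_lit 4) (nat_lit 371) (nat_lit 297) (nat_lit 232))))))))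
noncomputable def xc93 : XT := (XT.nd (nat_lit 1794) (nat_lit 380) (nat_lit 0) (XT.nd (nat_lit 858) (nat_lit 228) (nat_lit 0) (XT.nd (nat_lit 390) (nat_lit 228) (nat_lit 0) (XT.nd (nat_lit 156) (nat_lit 76) (nat_lit 0) (XT.nd (nat_lit 78) (nat_lit 0) (nat_lit 0) (XT.lf (nat_lit 0) (nat_lit 4677593159) (nat_lit 76) (nat_lit 7505596009) (nat_lit 152) (nat_lit 28425855540) (nat_lit 14) (nat_lit 5) (nat_lit 15) (nat_lit 5) (nat_lit 16) (nat_lit 4) (nat_lit 372) (nat_lit 297) (nat_lit 231)) (XT.lf (nat_lit 0) (nat_lit 18989125415) (nat_lit 76) (nat_lit 194918633) (nat_lit 152) (nat_lit 23084021292) (nat_lit 14) (nat_lit 5) (nat_lit 15) (nat_lit 5) (nat_lit 16) (nat_lit 4) (nat_lit 373) (nat_lit 297) (nat_lit 230))) (XT.nd (nat_lit 78) (nat_lit 76) (nat_lit 0) (XT.lf (nat_lit 0) (nat_lit 26625841739) (nat_lit 152) (nat_lit 10159975506) (nat_lit 0) (nat_lit 7219679947) (nat_lit 14) (nat_lit 5)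 (nat_lit 16) (nat_lit 4) (nat_lit 14) (nat_lit 4) (nat_lit 374) (nat_lit 297) (nat_lit 229)) (XT.nd (nat_lit 78) (nat_lit 0) (nat_lit 0) (XT.lf (nat_lit 0) (nat_lit 3682589668) (nat_lit 76) (nat_lit 30793160220) (nat_lit 76) (nat_lit 11352254666) (nat_lit 13) (nat_lit 4) (nat_lit 14) (nat_lit 5) (nat_lit 14) (nat_lit 4) (nat_lit 375) (nat_lit 297) (nat_lit 228)) (XT.lf (nat_lit 0) (nat_lit 18523754919) (nat_lit 76) (nat_lit 24342244808) (nat_lit 76) (nat_lit 4868249957) (nat_lit 13) (nat_lit 4) (nat_lit 14) (nat_lit 5) (nat_lit 14) (nat_lit 4) (nat_lit 376) (nat_lit 297) (nat_lit 227))))) (XT.nd (nat_lit 234) (nat_lit 76) (nat_lit 0) (XT.nd (nat_lit 78) (nat_lit 76) (nat_lit 0) (XT.lf (nat_lit 0) (nat_lit 1854417271) (nat_lit 152) (nat_lit 15703953062) (nat_lit 76) (nat_lit 32177098954) (nat_lit 12) (nat_lit 5) (nat_lit 14) (nat_lit 5) (nat_lit 13) (nat_lit 4) (nat_lit 377) (nat_lit 297)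 (nat_lit 226)) (XT.nd (nat_lit 78) (nat_lit 76) (nat_lit 0) (XT.lf (nat_lit 0) (nat_lit 8727282222) (nat_lit 152) (nat_lit 1644592879) (nat_lit 76) (nat_lit 41462004993) (nat_lit 12) (nat_lit 5) (nat_lit 14) (nat_lit 5) (nat_lit 13) (nat_lit 4) (nat_lit 378) (nat_lit 297) (nat_lit 225)) (XT.lf (nat_lit 0) (nat_lit 13509454382) (nat_lit 76) (nat_lit 2623989323) (nat_lit 152) (nat_lit 37894288950) (nat_lit 11) (nat_lit 5) (nat_lit 12) (nat_lit 5) (nat_lit 13) (nat_lit 4) (nat_lit 379) (nat_lit 297) (nat_lit 224)))) (XT.nd (nat_lit 78) (nat_lit 76) (nat_lit 0) (XT.lf (nat_lit 0) (nat_lit 24003090672) (nat_lit 152) (nat_lit 26978848807) (nat_lit 0) (nat_lit 5344683185) (nat_lit 11) (nat_lit 5) (nat_lit 13) (nat_lit 4) (nat_lit 11) (nat_lit 4) (nat_lit 380) (nat_lit 297) (nat_lit 223)) (XT.nd (nat_lit 78) (nat_lit 76) (nat_lit 0) (XT.lf (nat_lit 0) (nat_lit 32289066824) (nat_lit 152) (nat_lit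 12844283930) (nat_lit 0) (nat_lit 13605967593) (nat_lit 11) (nat_lit 5) (nat_lit 13) (nat_lit 4) (nat_lit 11) (nat_lit 4) (nat_lit 381) (nat_lit 297) (nat_lit 222)) (XT.lf (nat_lit 0) (nat_lit 2024845615) (nat_lit 76) (nat_lit 38976900747) (nat_lit 76) (nat_lit 20270285570) (nat_lit 10) (nat_lit 4) (nat_lit 11) (nat_lit 5) (nat_lit 11) (nat_lit 4) (nat_lit 382) (nat_lit 297) (nat_lit 221)))))) (XT.nd (nat_lit 468) (nat_lit 76) (nat_lit 0) (XT.nd (nat_lit 234) (nat_lit 76) (nat_lit 0) (XT.nd (nat_lit 78) (nat_lit 76) (nat_lit 0) (XT.lf (nat_lit 0) (nat_lit 18046981204) (nat_lit 76) (nat_lit 32301740698) (nat_lit 76) (nat_lit 13572729383) (nat_lit 10) (nat_lit 4) (nat_lit 11) (nat_lit 5) (nat_lit 11) (nat_lit 4) (nat_lit 383) (nat_lit 297) (nat_lit 220)) (XT.nd (nat_lit 78) (nat_lit 76) (nat_lit 0) (XT.lf (nat_lit 0) (nat_lit 34835580745) (nat_lit 76) (nat_lit 25309501532) (nat_lit 76) (nat_lit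 6559160561) (nat_lit 10) (nat_lit 4) (nat_lit 11) (nat_lit 5) (nat_lit 11) (nat_lit 4) (nat_lit 384) (nat_lit 297) (nat_lit 219)) (XT.lf (nat_lit 0) (nat_lit 761927115) (nat_lit 152) (nat_lit 17208704341) (nat_lit 76) (nat_lit 51655786372) (nat_lit 9) (nat_lit 5) (nat_lit 11) (nat_lit 5) (nat_lit 10) (nat_lit 4) (nat_lit 385) (nat_lit 297) (nat_lit 218)))) (XT.nd (nat_lit 78) (nat_lit 76) (nat_lit 0) (XT.lf (nat_lit 0) (nat_lit 8212074768) (nat_lit 152) (nat_lit 1955248280) (nat_lit 76) (nat_lit 62522832964) (nat_lit 9) (nat_lit 5) (nat_lit 11) (nat_lit 5) (nat_lit 10) (nat_lit 4) (nat_lit 386) (nat_lit 297) (nat_lit 217)) (XT.nd (nat_lit 78) (nat_lit 0) (nat_lit 0) (XT.lf (nat_lit 0) (nat_lit 14494340122) (nat_lit 76) (nat_lit 1750912090) (nat_lit 152) (nat_lit 59651305269) (nat_lit 8) (nat_lit 5) (nat_lit 9) (nat_lit 5) (nat_lit 10) (nat_lit 4) (nat_lit 387) (nat_lit 297) (nat_lit 216))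 (XT.lf (nat_lit 0) (nat_lit 24808664457) (nat_lit 152) (nat_lit 47569023575) (nat_lit 0) (nat_lit 6879164576) (nat_lit 8) (nat_lit 5) (nat_lit 10) (nat_lit 4) (nat_lit 8) (nat_lit 4) (nat_lit 388) (nat_lit 297) (nat_lit 215))))) (XT.nd (nat_lit 234) (nat_lit 76) (nat_lit 0) (XT.nd (nat_lit 78) (nat_lit 0) (nat_lit 0) (XT.lf (nat_lit 0) (nat_lit 33813981942) (nat_lit 152) (nat_lit 33101930541) (nat_lit 0) (nat_lit 15868565542) (nat_lit 8) (nat_lit 5) (nat_lit 10) (nat_lit 4) (nat_lit 8) (nat_lit 4) (nat_lit 389) (nat_lit 297) (nat_lit 214)) (XT.nd (nat_lit 78) (nat_lit 0) (nat_lit 0) (XT.lf (nat_lit 0) (nat_lit 43255309254) (nat_lit 152) (nat_lit 17939156152) (nat_lit 0) (nat_lit 25294734266) (nat_lit 8) (nat_lit 5) (nat_lit 10) (nat_lit 4) (nat_lit 8) (nat_lit 4) (nat_lit 390) (nat_lit 297) (nat_lit 213)) (XT.lf (nat_lit 0) (nat_lit 53155125745) (nat_lit 152) (nat_lit 2044598567) (nat_lit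 0) (nat_lit 35180114006) (nat_lit 8) (nat_lit 5) (nat_lit 10) (nat_lit 4) (nat_lit 8) (nat_lit 4) (nat_lit 391) (nat_lit 297) (nat_lit 212)))) (XT.nd (nat_lit 78) (nat_lit 0) (nat_lit 0) (XT.lf (nat_lit 0) (nat_lit 15102975950) (nat_lit 76) (nat_lit 48669826236) (nat_lit 76) (nat_lit 30681065211) (nat_lit 7) (nat_lit 4) (nat_lit 8) (nat_lit 5) (nat_lit 8) (nat_lit 4) (nat_lit 392) (nat_lit 297) (nat_lit 211)) (XT.nd (nat_lit 78) (nat_lit 0) (nat_lit 0) (XT.lf (nat_lit 0) (nat_lit 33154217389) (nat_lit 76) (nat_lit 41789070849) (nat_lit 76) (nat_lit 23787215265) (nat_lit 7) (nat_lit 4) (nat_lit 8) (nat_lit 5) (nat_lit 8) (nat_lit 4) (nat_lit 393) (nat_lit 297) (nat_lit 210)) (XT.lf (nat_lit 0) (nat_lit 52084501232) (nat_lit 76) (nat_lit 34575701668) (nat_lit 76) (nat_lit 16561375076) (nat_lit 7) (nat_lit 4) (nat_lit 8) (nat_lit 5) (nat_lit 8) (nat_lit 4) (nat_lit 394) (nat_lit 297) (nat_lit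 209))))))) (XT.nd (nat_lit 936) (nat_lit 152) (nat_lit 0) (XT.nd (nat_lit 468) (nat_lit 76) (nat_lit 0) (XT.nd (nat_lit 234) (nat_lit 76) (nat_lit 0) (XT.nd (nat_lit 78) (nat_lit 76) (nat_lit 0) (XT.lf (nat_lit 0) (nat_lit 71938899585) (nat_lit 76) (nat_lit 27012544003) (nat_lit 76) (nat_lit 8986340260) (nat_lit 7) (nat_lit 4) (nat_lit 8) (nat_lit 5) (nat_lit 8) (nat_lit 4) (nat_lit 395) (nat_lit 297) (nat_lit 208)) (XT.nd (nat_lit 78) (nat_lit 76) (nat_lit 0) (XT.lf (nat_lit 0) (nat_lit 92764684824) (nat_lit 76) (nat_lit 19081590336) (nat_lit 76) (nat_lit 1044075021) (nat_lit 7) (nat_lit 4) (nat_lit 8) (nat_lit 5) (nat_lit 8) (nat_lit 4) (nat_lit 396) (nat_lit 297) (nat_lit 207)) (XT.lf (nat_lit 0) (nat_lit 7051186718) (nat_lit 152) (nat_lit 3593355467) (nat_lit 76) (nat_lit 107440840175) (nat_lit 6) (nat_lit 5) (nat_lit 8) (nat_lit 5) (nat_lit 7) (nat_lit 4) (nat_lit 397) (nat_lit 297)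 (nat_lit 206)))) (XT.nd (nat_lit 78) (nat_lit 0) (nat_lit 0) (XT.lf (nat_lit 0) (nat_lit 14182703466) (nat_lit 76) (nat_lit 1544736355) (nat_lit 152) (nat_lit 107801306116) (nat_lit 5) (nat_lit 5) (nat_lit 6) (nat_lit 5) (nat_lit 7) (nat_lit 4) (nat_lit 398) (nat_lit 297) (nat_lit 205)) (XT.nd (nat_lit 78) (nat_lit 0) (nat_lit 0) (XT.lf (nat_lit 0) (nat_lit 25014334255) (nat_lit 152) (nat_lit 96414692438) (nat_lit 0) (nat_lit 7806410893) (nat_lit 5) (nat_lit 5) (nat_lit 7) (nat_lit 4) (nat_lit 5) (nat_lit 4) (nat_lit 399) (nat_lit 297) (nat_lit 204)) (XT.lf (nat_lit 0) (nat_lit 34781293483) (nat_lit 152) (nat_lit 82880878383) (nat_lit 0) (nat_lit 17564507207) (nat_lit 5) (nat_lit 5) (nat_lit 7) (nat_lit 4) (nat_lit 5) (nat_lit 4) (nat_lit 400) (nat_lit 297) (nat_lit 203))))) (XT.nd (nat_lit 234) (nat_lit 76) (nat_lit 0) (XT.nd (nat_lit 78) (nat_lit 0) (nat_lit 0) (XT.lf (nat_lit 0) (nat_lit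 45027454506) (nat_lit 152) (nat_lit 68688259277) (nat_lit 0) (nat_lit 27802227362) (nat_lit 5) (nat_lit 5) (nat_lit 7) (nat_lit 4) (nat_lit 5) (nat_lit 4) (nat_lit 401) (nat_lit 297) (nat_lit 202)) (XT.nd (nat_lit 78) (nat_lit 0) (nat_lit 0) (XT.lf (nat_lit 0) (nat_lit 55777212947) (nat_lit 152) (nat_lit 53803043171) (nat_lit 0) (nat_lit 38543946879) (nat_lit 5) (nat_lit 5) (nat_lit 7) (nat_lit 4) (nat_lit 5) (nat_lit 4) (nat_lit 402) (nat_lit 297) (nat_lit 201)) (XT.lf (nat_lit 0) (nat_lit 67056163467) (nat_lit 152) (nat_lit 38189789073) (nat_lit 0) (nat_lit 49815241283) (nat_lit 5) (nat_lit 5) (nat_lit 7) (nat_lit 4) (nat_lit 5) (nat_lit 4) (nat_lit 403) (nat_lit 297) (nat_lit 200)))) (XT.nd (nat_lit 78) (nat_lit 76) (nat_lit 0) (XT.lf (nat_lit 0) (nat_lit 78891160712) (nat_lit 152) (nat_lit 21811322569) (nat_lit 0) (nat_lit 61642946988) (nat_lit 5) (nat_lit 5) (nat_lit 7) (nat_lit 4)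 (nat_lit 5) (nat_lit 4) (nat_lit 404) (nat_lit 297) (nat_lit 199)) (XT.nd (nat_lit 78) (nat_lit 76) (nat_lit 0) (XT.lf (nat_lit 0) (nat_lit 91310383247) (nat_lit 152) (nat_lit 4628647310) (nat_lit 0) (nat_lit 74055225198) (nat_lit 5) (nat_lit 5) (nat_lit 7) (nat_lit 4) (nat_lit 5) (nat_lit 4) (nat_lit 405) (nat_lit 297) (nat_lit 198)) (XT.lf (nat_lit 0) (nat_lit 13842184174) (nat_lit 76) (nat_lit 90717331760) (nat_lit 76) (nat_lit 73455560070) (nat_lit 4) (nat_lit 4) (nat_lit 5) (nat_lit 5) (nat_lit 5) (nat_lit 4) (nat_lit 406) (nat_lit 297) (nat_lit 197)))))) (XT.nd (nat_lit 468) (nat_lit 152) (nat_lit 0) (XT.nd (nat_lit 234) (nat_lit 0) (nat_lit 0) (XT.nd (nat_lit 78) (nat_lit 0) (nat_lit 0) (XT.lf (nat_lit 0) (nat_lit 33383465571) (nat_lit 76) (nat_lit 85158987792) (nat_lit 76) (nat_lit 67890917395) (nat_lit 4) (nat_lit 4) (nat_lit 5) (nat_lit 5) (nat_lit 5) (nat_lit 4) (nat_lit 407)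 (nat_lit 297) (nat_lit 196)) (XT.nd (nat_lit 78) (nat_lit 0) (nat_lit 0) (XT.lf (nat_lit 0) (nat_lit 53888679755) (nat_lit 76) (nat_lit 79329152883) (nat_lit 76) (nat_lit 62055083718) (nat_lit 4) (nat_lit 4) (nat_lit 5) (nat_lit 5) (nat_lit 5) (nat_lit 4) (nat_lit 408) (nat_lit 297) (nat_lit 195)) (XT.lf (nat_lit 0) (nat_lit 75406648665) (nat_lit 76) (nat_lit 73213946472) (nat_lit 76) (nat_lit 55934164194) (nat_lit 4) (nat_lit 4) (nat_lit 5) (nat_lit 5) (nat_lit 5) (nat_lit 4) (nat_lit 409) (nat_lit 297) (nat_lit 194)))) (XT.nd (nat_lit 78) (nat_lit 0) (nat_lit 0) (XT.lf (nat_lit 0) (nat_lit 97988605562) (nat_lit 76) (nat_lit 66798808545) (nat_lit 76) (nat_lit 49513585208) (nat_lit 4) (nat_lit 4) (nat_lit 5) (nat_lit 5) (nat_lit 5) (nat_lit 4) (nat_lit 410) (nat_lit 297) (nat_lit 193)) (XT.nd (nat_lit 78) (nat_lit 0) (nat_lit 0) (XT.lf (nat_lit 0) (nat_lit 121688317007) (nat_lit 76) (nat_lit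 60068464965) (nat_lit 76) (nat_lit 42778059666) (nat_lit 4) (nat_lit 4) (nat_lit 5) (nat_lit 5) (nat_lit 5) (nat_lit 4) (nat_lit 411) (nat_lit 297) (nat_lit 192)) (XT.lf (nat_lit 0) (nat_lit 146562210887) (nat_lit 76) (nat_lit 53006891102) (nat_lit 76) (nat_lit 35711550602) (nat_lit 4) (nat_lit 4) (nat_lit 5) (nat_lit 5) (nat_lit 5) (nat_lit 4) (nat_lit 412) (nat_lit 297) (nat_lit 191))))) (XT.nd (nat_lit 234) (nat_lit 152) (nat_lit 0) (XT.nd (nat_lit 78) (nat_lit 0) (nat_lit 0) (XT.lf (nat_lit 0) (nat_lit 172669510758) (nat_lit 76) (nat_lit 45597273687) (nat_lit 76) (nat_lit 28297232995) (nat_lit 4) (nat_lit 4) (nat_lit 5) (nat_lit 5) (nat_lit 5) (nat_lit 4) (nat_lit 413) (nat_lit 297) (nat_lit 190)) (XT.nd (nat_lit 78) (nat_lit 0) (nat_lit 0) (XT.lf (nat_lit 0) (nat_lit 200072376858) (nat_lit 76) (nat_lit 37821970772) (nat_lit 76) (nat_lit 20517453707) (nat_lit 4) (nat_lit 4) (nat_lit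 5) (nat_lit 5) (nat_lit 5) (nat_lit 4) (nat_lit 414) (nat_lit 297) (nat_lit 189)) (XT.lf (nat_lit 0) (nat_lit 228836054105) (nat_lit 76) (nat_lit 29662469733) (nat_lit 76) (nat_lit 12353689455) (nat_lit 4) (nat_lit 4) (nat_lit 5) (nat_lit 5) (nat_lit 5) (nat_lit 4) (nat_lit 415) (nat_lit 297) (nat_lit 188)))) (XT.nd (nat_lit 78) (nat_lit 152) (nat_lit 0) (XT.lf (nat_lit 0) (nat_lit 259029027446) (nat_lit 76) (nat_lit 21099343185) (nat_lit 76) (nat_lit 3786502705) (nat_lit 4) (nat_lit 4) (nat_lit 5) (nat_lit 5) (nat_lit 5) (nat_lit 4) (nat_lit 416) (nat_lit 297) (nat_lit 187)) (XT.nd (nat_lit 78) (nat_lit 76) (nat_lit 0) (XT.lf (nat_lit 0) (nat_lit 5037927956) (nat_lit 152) (nat_lit 6988955028) (nat_lit 76) (nat_lit 285599937209) (nat_lit 3) (nat_lit 5) (nat_lit 5) (nat_lit 5) (nat_lit 4) (nat_lit 4) (nat_lit 417) (nat_lit 297) (nat_lit 186)) (XT.lf (nat_lit 0) (nat_lit 12120435884) (nat_lit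 76) (nat_lit 2240942626) (nat_lit 152) (nat_lit 297650630207) (nat_lit 2) (nat_lit 5) (nat_lit 3) (nat_lit 5) (nat_lit 4) (nat_lit 4) (nat_lit 418) (nat_lit 297) (nat_lit 185))))))))
noncomputable def xc94 : XT := (XT.nd (nat_lit 38376) (nat_lit 0) (nat_lit 4028) (XT.nd (nat_lit 858) (nat_lit 0) (nat_lit 0) (XT.nd (nat_lit 390) (nat_lit 0) (nat_lit 0) (XT.nd (nat_lit 156) (nat_lit 0) (nat_lit 0) (XT.nd (nat_lit 78) (nat_lit 0) (nat_lit 0) (XT.lf (nat_lit 0) (nat_lit 24392568350) (nat_lit 152) (nat_lit 294818192028) (nat_lit 0) (nat_lit 7893618427) (nat_lit 2) (nat_lit 5) (nat_lit 4) (nat_lit 4) (nat_lit 2) (nat_lit 4) (nat_lit 419) (nat_lit 297) (nat_lit 184)) (XT.lf (nat_lit 0) (nat_lit 34958080364) (nat_lit 152) (nat_lit 289535700186) (nat_lit 0) (nat_lit 18455949167) (nat_lit 2) (nat_lit 5) (nat_lit 4) (nat_lit 4) (nat_lit 2) (nat_lit 4) (nat_lit 420) (nat_lit 297) (nat_lit 183))) (XT.nd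 (nat_lit 78) (nat_lit 0) (nat_lit 0) (XT.lf (nat_lit 0) (nat_lit 46048083139) (nat_lit 152) (nat_lit 283996532551) (nat_lit 0) (nat_lit 29542922157) (nat_lit 2) (nat_lit 5) (nat_lit 4) (nat_lit 4) (nat_lit 2) (nat_lit 4) (nat_lit 421) (nat_lit 297) (nat_lit 182)) (XT.nd (nat_lit 78) (nat_lit 0) (nat_lit 0) (XT.lf (nat_lit 0) (nat_lit 57688981444) (nat_lit 152) (nat_lit 278187500629) (nat_lit 0) (nat_lit 41180934952) (nat_lit 2) (nat_lit 5) (nat_lit 4) (nat_lit 4) (nat_lit 2) (nat_lit 4) (nat_lit 422) (nat_lit 297) (nat_lit 181)) (XT.lf (nat_lit 0) (nat_lit 69908491704) (nat_lit 152) (nat_lit 272094773390) (nat_lit 0) (nat_lit 53397697107) (nat_lit 2) (nat_lit 5) (nat_lit 4) (nat_lit 4) (nat_lit 2) (nat_lit 4) (nat_lit 423) (nat_lit 297) (nat_lit 180))))) (XT.nd (nat_lit 234) (nat_lit 0) (nat_lit 0) (XT.nd (nat_lit 78) (nat_lit 0) (nat_lit 0) (XT.lf (nat_lit 0) (nat_lit 82735707990) (nat_lit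 152) (nat_lit 265703844342) (nat_lit 0) (nat_lit 66222296150) (nat_lit 2) (nat_lit 5) (nat_lit 4) (nat_lit 4) (nat_lit 2) (nat_lit 4) (nat_lit 424) (nat_lit 297) (nat_lit 179)) (XT.nd (nat_lit 78) (nat_lit 0) (nat_lit 0) (XT.lf (nat_lit 0) (nat_lit 96201171294) (nat_lit 152) (nat_lit 258999496987) (nat_lit 0) (nat_lit 79685266842) (nat_lit 2) (nat_lit 5) (nat_lit 4) (nat_lit 4) (nat_lit 2) (nat_lit 4) (nat_lit 425) (nat_lit 297) (nat_lit 178)) (XT.lf (nat_lit 0) (nat_lit 110336942242) (nat_lit 152) (nat_lit 251965768594) (nat_lit 0) (nat_lit 93818663874) (nat_lit 2) (nat_lit 5) (nat_lit 4) (nat_lit 4) (nat_lit 2) (nat_lit 4) (nat_lit 426) (nat_lit 297) (nat_lit 177)))) (XT.nd (nat_lit 78) (nat_lit 0) (nat_lit 0) (XT.lf (nat_lit 0) (nat_lit 125176677432) (nat_lit 152) (nat_lit 244585912189) (nat_lit 0) (nat_lit 108656138191) (nat_lit 2) (nat_lit 5) (nat_lit 4) (nat_lit 4) (nat_lit 2) (nat_lit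 4) (nat_lit 427) (nat_lit 297) (nat_lit 176)) (XT.nd (nat_lit 78) (nat_lit 0) (nat_lit 0) (XT.lf (nat_lit 0) (nat_lit 140755709567) (nat_lit 152) (nat_lit 236842356686) (nat_lit 0) (nat_lit 124233017114) (nat_lit 2) (nat_lit 5) (nat_lit 4) (nat_lit 4) (nat_lit 2) (nat_lit 4) (nat_lit 428) (nat_lit 297) (nat_lit 175)) (XT.lf (nat_lit 0) (nat_lit 157111131581) (nat_lit 152) (nat_lit 228716665048) (nat_lit 0) (nat_lit 140586388450) (nat_lit 2) (nat_lit 5) (nat_lit 4) (nat_lit 4) (nat_lit 2) (nat_lit 4) (nat_lit 429) (nat_lit 297) (nat_lit 174)))))) (XT.nd (nat_lit 37050) (nat_lit 0) (nat_lit 10944) (XT.nd (nat_lit 234) (nat_lit 0) (nat_lit 0) (XT.nd (nat_lit 78) (nat_lit 0) (nat_lit 0) (XT.lf (nat_lit 0) (nat_lit 174281884954) (nat_lit 152) (nat_lit 220189490391) (nat_lit 0) (nat_lit 157755188796) (nat_lit 2) (nat_lit 5) (nat_lit 4) (nat_lit 4) (nat_lit 2) (nat_lit 4) (nat_lit 430) (nat_lit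 297) (nat_lit 173)) (XT.nd (nat_lit 78) (nat_lit 0) (nat_lit 0) (XT.lf (nat_lit 0) (nat_lit 192308852433) (nat_lit 152) (nat_lit 211240529918) (nat_lit 0) (nat_lit 175780296249) (nat_lit 2) (nat_lit 5) (nat_lit 4) (nat_lit 4) (nat_lit 2) (nat_lit 4) (nat_lit 431) (nat_lit 297) (nat_lit 172)) (XT.lf (nat_lit 0) (nat_lit 211234955368) (nat_lit 152) (nat_lit 201848476579) (nat_lit 0) (nat_lit 194704627732) (nat_lit 2) (nat_lit 5) (nat_lit 4) (nat_lit 4) (nat_lit 2) (nat_lit 4) (nat_lit 432) (nat_lit 297) (nat_lit 171)))) (XT.nd (nat_lit 78) (nat_lit 0) (nat_lit 0) (XT.lf (nat_lit 0) (nat_lit 231105255910) (nat_lit 152) (nat_lit 191990968343) (nat_lit 0) (nat_lit 214573241176) (nat_lit 2) (nat_lit 5) (nat_lit 4) (nat_lit 4) (nat_lit 2) (nat_lit 4) (nat_lit 433) (nat_lit 297) (nat_lit 170)) (XT.nd (nat_lit 78) (nat_lit 0) (nat_lit 0) (XT.lf (nat_lit 0) (nat_lit 251967064298) (nat_lit 152) (nat_lit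 181644534952) (nat_lit 0) (nat_lit 235433442804) (nat_lit 2) (nat_lit 5) (nat_lit 4) (nat_lit 4) (nat_lit 2) (nat_lit 4) (nat_lit 434) (nat_lit 297) (nat_lit 169)) (XT.lf (nat_lit 0) (nat_lit 273870051504) (nat_lit 152) (nat_lit 170784542042) (nat_lit 0) (nat_lit 257334899763) (nat_lit 2) (nat_lit 5) (nat_lit 4) (nat_lit 4) (nat_lit 2) (nat_lit 4) (nat_lit 435) (nat_lit 297) (nat_lit 168))))) (XT.nd (nat_lit 234) (nat_lit 456) (nat_lit 0) (XT.nd (nat_lit 78) (nat_lit 228) (nat_lit 0) (XT.lf (nat_lit 0) (nat_lit 93996699) (nat_lit 228) (nat_lit 3056791136) (nat_lit 0) (nat_lit 93996699) (nat_lit 155) (nat_lit 5) (nat_lit 158) (nat_lit 4) (nat_lit 155) (nat_lit 4) (nat_lit 304) (nat_lit 298) (nat_lit 298)) (XT.nd (nat_lit 78) (nat_lit 228) (nat_lit 0) (XT.lf (nat_lit 0) (nat_lit 3266853585) (nat_lit 228) (nat_lit 2526453747) (nat_lit 0) (nat_lit 722747824) (nat_lit 155) (nat_lit 5) (nat_lit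 158) (nat_lit 4) (nat_lit 155) (nat_lit 4) (nat_lit 305) (nat_lit 298) (nat_lit 297)) (XT.lf (nat_lit 0) (nat_lit 1154394462) (nat_lit 228) (nat_lit 5182508665) (nat_lit 228) (nat_lit 215445037) (nat_lit 152) (nat_lit 4) (nat_lit 155) (nat_lit 5) (nat_lit 155) (nat_lit 4) (nat_lit 306) (nat_lit 298) (nat_lit 296)))) (XT.nd (nat_lit 78) (nat_lit 380) (nat_lit 0) (XT.lf (nat_lit 0) (nat_lit 2741206060) (nat_lit 304) (nat_lit 1655170126) (nat_lit 76) (nat_lit 2198760739) (nat_lit 151) (nat_lit 5) (nat_lit 155) (nat_lit 5) (nat_lit 152) (nat_lit 4) (nat_lit 307) (nat_lit 298) (nat_lit 295)) (XT.nd (nat_lit 78) (nat_lit 76) (nat_lit 0) (XT.lf (nat_lit 0) (nat_lit 2221582340) (nat_lit 304) (nat_lit 3482768440) (nat_lit 380) (nat_lit 942540646) (nat_lit 147) (nat_lit 5) (nat_lit 151) (nat_lit 5) (nat_lit 152) (nat_lit 4) (nat_lit 308) (nat_lit 298) (nat_lit 294)) (XT.lf (nat_lit 0) (nat_lit 1909693711)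 (nat_lit 380) (nat_lit 508206688) (nat_lit 76) (nat_lit 4288805456) (nat_lit 146) (nat_lit 5) (nat_lit 151) (nat_lit 5) (nat_lit 147) (nat_lit 5) (nat_lit 309) (nat_lit 298) (nat_lit 293))))))) (XT.nd (nat_lit 936) (nat_lit 2508) (nat_lit 0) (XT.nd (nat_lit 468) (nat_lit 2280) (nat_lit 0) (XT.nd (nat_lit 234) (nat_lit 1216) (nat_lit 0) (XT.nd (nat_lit 78) (nat_lit 532) (nat_lit 0) (XT.lf (nat_lit 0) (nat_lit 3585447230) (nat_lit 380) (nat_lit 1185737421) (nat_lit 456) (nat_lit 2002895156) (nat_lit 141) (nat_lit 5) (nat_lit 146) (nat_lit 5) (nat_lit 147) (nat_lit 5) (nat_lit 310) (nat_lit 298) (nat_lit 292)) (XT.nd (nat_lit 78) (nat_lit 0) (nat_lit 0) (XT.lf (nat_lit 0) (nat_lit 772843879) (nat_lit 532) (nat_lit 5902960839) (nat_lit 76) (nat_lit 174938900) (nat_lit 134) (nat_lit 5) (nat_lit 141) (nat_lit 5) (nat_lit 135) (nat_lit 5) (nat_lit 311) (nat_lit 298) (nat_lit 291)) (XT.lf (nat_lit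 0) (nat_lit 3545629425) (nat_lit 532) (nat_lit 1708191057) (nat_lit 76) (nat_lit 1679722269) (nat_lit 134) (nat_lit 5) (nat_lit 141) (nat_lit 5) (nat_lit 135) (nat_lit 5) (nat_lit 312) (nat_lit 298) (nat_lit 290)))) (XT.nd (nat_lit 78) (nat_lit 684) (nat_lit 0) (XT.lf (nat_lit 0) (nat_lit 2659324009) (nat_lit 532) (nat_lit 3697578649) (nat_lit 608) (nat_lit 668798523) (nat_lit 127) (nat_lit 5) (nat_lit 134) (nat_lit 5) (nat_lit 135) (nat_lit 5) (nat_lit 313) (nat_lit 298) (nat_lit 289)) (XT.nd (nat_lit 78) (nat_lit 0) (nat_lit 0) (XT.lf (nat_lit 0) (nat_lit 24747668) (nat_lit 608) (nat_lit 1982101259) (nat_lit 684) (nat_lit 5119576423) (nat_lit 118) (nat_lit 5) (nat_lit 126) (nat_lit 5) (nat_lit 127) (nat_lit 5) (nat_lit 314) (nat_lit 298) (nat_lit 288)) (XT.lf (nat_lit 0) (nat_lit 4652773537) (nat_lit 608) (nat_lit 80271947) (nat_lit 684) (nat_lit 2501812836) (nat_lit 118) (nat_lit 5)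 (nat_lit 126) (nat_lit 5) (nat_lit 127) (nat_lit 5) (nat_lit 315) (nat_lit 298) (nat_lit 287))))) (XT.nd (nat_lit 234) (nat_lit 760) (nat_lit 0) (XT.nd (nat_lit 78) (nat_lit 760) (nat_lit 0) (XT.lf (nat_lit 0) (nat_lit 172085365) (nat_lit 760) (nat_lit 5278747547) (nat_lit 76) (nat_lit 1901195914) (nat_lit 108) (nat_lit 5) (nat_lit 118) (nat_lit 5) (nat_lit 109) (nat_lit 5) (nat_lit 316) (nat_lit 298) (nat_lit 286)) (XT.nd (nat_lit 78) (nat_lit 760) (nat_lit 0) (XT.lf (nat_lit 0) (nat_lit 2815415722) (nat_lit 760) (nat_lit 591002152) (nat_lit 76) (nat_lit 4070756607) (nat_lit 108) (nat_lit 5) (nat_lit 118) (nat_lit 5) (nat_lit 109) (nat_lit 5) (nat_lit 317) (nat_lit 298) (nat_lit 285)) (XT.lf (nat_lit 0) (nat_lit 4350227421) (nat_lit 760) (nat_lit 1188654804) (nat_lit 836) (nat_lit 2072447207) (nat_lit 98) (nat_lit 5) (nat_lit 108) (nat_lit 5) (nat_lit 109) (nat_lit 5) (nat_lit 318) (nat_lit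 298) (nat_lit 284)))) (XT.nd (nat_lit 78) (nat_lit 304) (nat_lit 0) (XT.lf (nat_lit 0) (nat_lit 563214393) (nat_lit 456) (nat_lit 6044154394) (nat_lit 76) (nat_lit 1147576740) (nat_lit 92) (nat_lit 5) (nat_lit 98) (nat_lit 5) (nat_lit 93) (nat_lit 5) (nat_lit 319) (nat_lit 298) (nat_lit 283)) (XT.nd (nat_lit 78) (nat_lit 304) (nat_lit 0) (XT.lf (nat_lit 0) (nat_lit 3222161459) (nat_lit 456) (nat_lit 1038877364) (nat_lit 76) (nat_lit 3645077370) (nat_lit 92) (nat_lit 5) (nat_lit 98) (nat_lit 5) (nat_lit 93) (nat_lit 5) (nat_lit 320) (nat_lit 298) (nat_lit 282)) (XT.lf (nat_lit 0) (nat_lit 4232090838) (nat_lit 304) (nat_lit 1739021108) (nat_lit 380) (nat_lit 2096004454) (nat_lit 88) (nat_lit 5) (nat_lit 92) (nat_lit 5) (nat_lit 93) (nat_lit 5) (nat_lit 321) (nat_lit 298) (nat_lit 281)))))) (XT.nd (nat_lit 468) (nat_lit 1140) (nat_lit 0) (XT.nd (nat_lit 234) (nat_lit 608) (nat_lit 0) (XT.nd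 (nat_lit 78) (nat_lit 304) (nat_lit 0) (XT.lf (nat_lit 0) (nat_lit 549779774) (nat_lit 456) (nat_lit 6770810855) (nat_lit 76) (nat_lit 917787079) (nat_lit 82) (nat_lit 5) (nat_lit 88) (nat_lit 5) (nat_lit 83) (nat_lit 5) (nat_lit 322) (nat_lit 298) (nat_lit 280)) (XT.nd (nat_lit 78) (nat_lit 304) (nat_lit 0) (XT.lf (nat_lit 0) (nat_lit 3247424635) (nat_lit 456) (nat_lit 1435327906) (nat_lit 76) (nat_lit 3734337913) (nat_lit 82) (nat_lit 5) (nat_lit 88) (nat_lit 5) (nat_lit 83) (nat_lit 5) (nat_lit 323) (nat_lit 298) (nat_lit 279)) (XT.lf (nat_lit 0) (nat_lit 4181849194) (nat_lit 304) (nat_lit 1863859250) (nat_lit 380) (nat_lit 2560844416) (nat_lit 78) (nat_lit 5) (nat_lit 82) (nat_lit 5) (nat_lit 83) (nat_lit 5) (nat_lit 324) (nat_lit 298) (nat_lit 278)))) (XT.nd (nat_lit 78) (nat_lit 228) (nat_lit 0) (XT.lf (nat_lit 0) (nat_lit 136036532) (nat_lit 380) (nat_lit 7584037088) (nat_lit 76)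 (nat_lit 1087201429) (nat_lit 73) (nat_lit 5) (nat_lit 78) (nat_lit 5) (nat_lit 74) (nat_lit 5) (nat_lit 325) (nat_lit 298) (nat_lit 277)) (XT.nd (nat_lit 78) (nat_lit 228) (nat_lit 0) (XT.lf (nat_lit 0) (nat_lit 2892593729) (nat_lit 380) (nat_lit 1903770512) (nat_lit 76) (nat_lit 4219113376) (nat_lit 73) (nat_lit 5) (nat_lit 78) (nat_lit 5) (nat_lit 74) (nat_lit 5) (nat_lit 326) (nat_lit 298) (nat_lit 276)) (XT.lf (nat_lit 0) (nat_lit 4073838896) (nat_lit 228) (nat_lit 1685482374) (nat_lit 304) (nat_lit 3476235721) (nat_lit 70) (nat_lit 5) (nat_lit 73) (nat_lit 5) (nat_lit 74) (nat_lit 5) (nat_lit 327) (nat_lit 298) (nat_lit 275))))) (XT.nd (nat_lit 234) (nat_lit 532) (nat_lit 0) (XT.nd (nat_lit 78) (nat_lit 304) (nat_lit 0) (XT.lf (nat_lit 0) (nat_lit 833590539) (nat_lit 304) (nat_lit 7917135140) (nat_lit 380) (nat_lit 716927438) (nat_lit 66) (nat_lit 5) (nat_lit 70) (nat_lit 5) (nat_lit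 71) (nat_lit 5) (nat_lit 328) (nat_lit 298) (nat_lit 274)) (XT.nd (nat_lit 78) (nat_lit 228) (nat_lit 0) (XT.lf (nat_lit 0) (nat_lit 2138831546) (nat_lit 380) (nat_lit 2582559097) (nat_lit 76) (nat_lit 4986920232) (nat_lit 65) (nat_lit 5) (nat_lit 70) (nat_lit 5) (nat_lit 66) (nat_lit 5) (nat_lit 329) (nat_lit 298) (nat_lit 273)) (XT.lf (nat_lit 0) (nat_lit 3765684025) (nat_lit 228) (nat_lit 1322384237) (nat_lit 304) (nat_lit 4873675396) (nat_lit 62) (nat_lit 5) (nat_lit 65) (nat_lit 5) (nat_lit 66) (nat_lit 5) (nat_lit 330) (nat_lit 298) (nat_lit 272)))) (XT.nd (nat_lit 78) (nat_lit 304) (nat_lit 0) (XT.lf (nat_lit 0) (nat_lit 147848659) (nat_lit 228) (nat_lit 8036502157) (nat_lit 304) (nat_lit 2043583723) (nat_lit 59) (nat_lit 5) (nat_lit 62) (nat_lit 5) (nat_lit 63) (nat_lit 5) (nat_lit 331) (nat_lit 298) (nat_lit 271)) (XT.nd (nat_lit 78) (nat_lit 228) (nat_lit 0) (XT.lf (nat_lit 0)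 (nat_lit 945143042) (nat_lit 304) (nat_lit 3633316465) (nat_lit 76) (nat_lit 5925968933) (nat_lit 58) (nat_lit 5) (nat_lit 62) (nat_lit 5) (nat_lit 59) (nat_lit 5) (nat_lit 332) (nat_lit 298) (nat_lit 270)) (XT.lf (nat_lit 0) (nat_lit 3089451597) (nat_lit 228) (nat_lit 895793437) (nat_lit 304) (nat_lit 6809352818) (nat_lit 55) (nat_lit 5) (nat_lit 58) (nat_lit 5) (nat_lit 59) (nat_lit 5) (nat_lit 333) (nat_lit 298) (nat_lit 269))))))))
noncomputable def xc95 : XT := (XT.nd (nat_lit 1872) (nat_lit 988) (nat_lit 0) (XT.nd (nat_lit 936) (nat_lit 912) (nat_lit 0) (XT.nd (nat_lit 468) (nat_lit 684) (nat_lit 0) (XT.nd (nat_lit 234) (nat_lit 304) (nat_lit 0) (XT.nd (nat_lit 78) (nat_lit 456) (nat_lit 0) (XT.lf (nat_lit 0) (nat_lit 7210105026) (nat_lit 304) (nat_lit 982313966) (nat_lit 76) (nat_lit 2905273117) (nat_lit 55) (nat_lit 5) (nat_lit 59) (nat_lit 5) (nat_lit 56) (nat_lit 5) (nat_lit 334)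 (nat_lit 298) (nat_lit 268)) (XT.nd (nat_lit 78) (nat_lit 228) (nat_lit 0) (XT.lf (nat_lit 0) (nat_lit 6151018188) (nat_lit 228) (nat_lit 4483363385) (nat_lit 304) (nat_lit 779702274) (nat_lit 52) (nat_lit 5) (nat_lit 55) (nat_lit 5) (nat_lit 56) (nat_lit 5) (nat_lit 335) (nat_lit 298) (nat_lit 267)) (XT.lf (nat_lit 0) (nat_lit 1841018805) (nat_lit 152) (nat_lit 536764947) (nat_lit 228) (nat_lit 9367934456) (nat_lit 49) (nat_lit 5) (nat_lit 51) (nat_lit 5) (nat_lit 52) (nat_lit 5) (nat_lit 336) (nat_lit 298) (nat_lit 266)))) (XT.nd (nat_lit 78) (nat_lit 304) (nat_lit 0) (XT.lf (nat_lit 0) (nat_lit 5743086072) (nat_lit 228) (nat_lit 2786756871) (nat_lit 76) (nat_lit 3559689430) (nat_lit 49) (nat_lit 5) (nat_lit 52) (nat_lit 5) (nat_lit 50) (nat_lit 5) (nat_lit 337) (nat_lit 298) (nat_lit 265)) (XT.nd (nat_lit 78) (nat_lit 76) (nat_lit 0) (XT.lf (nat_lit 0) (nat_lit 4724991319) (nat_lit 228)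 (nat_lit 4566835223) (nat_lit 304) (nat_lit 3157994378) (nat_lit 46) (nat_lit 5) (nat_lit 49) (nat_lit 5) (nat_lit 50) (nat_lit 5) (nat_lit 338) (nat_lit 298) (nat_lit 264)) (XT.lf (nat_lit 0) (nat_lit 164861037) (nat_lit 304) (nat_lit 225511767) (nat_lit 76) (nat_lit 12438588341) (nat_lit 45) (nat_lit 5) (nat_lit 49) (nat_lit 5) (nat_lit 46) (nat_lit 5) (nat_lit 339) (nat_lit 298) (nat_lit 263))))) (XT.nd (nat_lit 234) (nat_lit 380) (nat_lit 0) (XT.nd (nat_lit 78) (nat_lit 152) (nat_lit 0) (XT.lf (nat_lit 0) (nat_lit 3669558751) (nat_lit 228) (nat_lit 5541480351) (nat_lit 76) (nat_lit 4007375878) (nat_lit 43) (nat_lit 5) (nat_lit 46) (nat_lit 5) (nat_lit 44) (nat_lit 5) (nat_lit 340) (nat_lit 298) (nat_lit 262)) (XT.nd (nat_lit 78) (nat_lit 0) (nat_lit 0) (XT.lf (nat_lit 0) (nat_lit 2321989840) (nat_lit 152) (nat_lit 5011242602) (nat_lit 228) (nat_lit 6294956831) (nat_lit 41) (nat_lit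 5) (nat_lit 43) (nat_lit 5) (nat_lit 44) (nat_lit 5) (nat_lit 341) (nat_lit 298) (nat_lit 261)) (XT.lf (nat_lit 0) (nat_lit 10671602808) (nat_lit 152) (nat_lit 540979612) (nat_lit 228) (nat_lit 2844278394) (nat_lit 41) (nat_lit 5) (nat_lit 43) (nat_lit 5) (nat_lit 44) (nat_lit 5) (nat_lit 342) (nat_lit 298) (nat_lit 260)))) (XT.nd (nat_lit 78) (nat_lit 152) (nat_lit 0) (XT.lf (nat_lit 0) (nat_lit 838099578) (nat_lit 228) (nat_lit 9588842667) (nat_lit 76) (nat_lit 4075240880) (nat_lit 38) (nat_lit 5) (nat_lit 41) (nat_lit 5) (nat_lit 39) (nat_lit 5) (nat_lit 343) (nat_lit 298) (nat_lit 259)) (XT.nd (nat_lit 78) (nat_lit 152) (nat_lit 0) (XT.lf (nat_lit 0) (nat_lit 4617493713) (nat_lit 228) (nat_lit 1376417412) (nat_lit 76) (nat_lit 8973133515) (nat_lit 38) (nat_lit 5) (nat_lit 41) (nat_lit 5) (nat_lit 39) (nat_lit 5) (nat_lit 344) (nat_lit 298) (nat_lit 258)) (XT.lf (nat_lit 0) (nat_lit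 7390333666) (nat_lit 152) (nat_lit 1255045151) (nat_lit 228) (nat_lit 6806821634) (nat_lit 36) (nat_lit 5) (nat_lit 38) (nat_lit 5) (nat_lit 39) (nat_lit 5) (nat_lit 345) (nat_lit 298) (nat_lit 257)))))) (XT.nd (nat_lit 468) (nat_lit 456) (nat_lit 0) (XT.nd (nat_lit 234) (nat_lit 152) (nat_lit 0) (XT.nd (nat_lit 78) (nat_lit 228) (nat_lit 0) (XT.lf (nat_lit 0) (nat_lit 548316434) (nat_lit 76) (nat_lit 12361484964) (nat_lit 152) (nat_lit 3050081477) (nat_lit 35) (nat_lit 5) (nat_lit 36) (nat_lit 5) (nat_lit 37) (nat_lit 4) (nat_lit 346) (nat_lit 298) (nat_lit 256)) (XT.nd (nat_lit 78) (nat_lit 152) (nat_lit 0) (XT.lf (nat_lit 0) (nat_lit 970291807) (nat_lit 152) (nat_lit 6747852877) (nat_lit 76) (nat_lit 8768908748) (nat_lit 34) (nat_lit 5) (nat_lit 36) (nat_lit 5) (nat_lit 35) (nat_lit 5) (nat_lit 347) (nat_lit 298) (nat_lit 255)) (XT.lf (nat_lit 0) (nat_lit 2282725212) (nat_lit 152) (nat_lit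 2789791942) (nat_lit 228) (nat_lit 11966420933) (nat_lit 32) (nat_lit 5) (nat_lit 34) (nat_lit 5) (nat_lit 35) (nat_lit 5) (nat_lit 348) (nat_lit 298) (nat_lit 254)))) (XT.nd (nat_lit 78) (nat_lit 152) (nat_lit 0) (XT.lf (nat_lit 0) (nat_lit 9481481767) (nat_lit 228) (nat_lit 5742656749) (nat_lit 76) (nat_lit 2389218437) (nat_lit 32) (nat_lit 5) (nat_lit 35) (nat_lit 5) (nat_lit 33) (nat_lit 4) (nat_lit 349) (nat_lit 298) (nat_lit 253)) (XT.nd (nat_lit 78) (nat_lit 76) (nat_lit 0) (XT.lf (nat_lit 0) (nat_lit 3708887112) (nat_lit 76) (nat_lit 10456352899) (nat_lit 152) (nat_lit 4048559841) (nat_lit 31) (nat_lit 5) (nat_lit 32) (nat_lit 5) (nat_lit 33) (nat_lit 4) (nat_lit 350) (nat_lit 298) (nat_lit 252)) (XT.lf (nat_lit 0) (nat_lit 281049828) (nat_lit 152) (nat_lit 5098269205) (nat_lit 76) (nat_lit 13462289041) (nat_lit 30) (nat_lit 5) (nat_lit 32) (nat_lit 5) (nat_lit 31) (nat_lit 5) (nat_lit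 351) (nat_lit 298) (nat_lit 251))))) (XT.nd (nat_lit 234) (nat_lit 228) (nat_lit 0) (XT.nd (nat_lit 78) (nat_lit 76) (nat_lit 0) (XT.lf (nat_lit 0) (nat_lit 4720039025) (nat_lit 228) (nat_lit 14713505695) (nat_lit 76) (nat_lit 62513222) (nat_lit 28) (nat_lit 5) (nat_lit 31) (nat_lit 5) (nat_lit 29) (nat_lit 4) (nat_lit 352) (nat_lit 298) (nat_lit 250)) (XT.nd (nat_lit 78) (nat_lit 76) (nat_lit 0) (XT.lf (nat_lit 0) (nat_lit 9510609793) (nat_lit 228) (nat_lit 5016373066) (nat_lit 76) (nat_lit 5649782588) (nat_lit 28) (nat_lit 5) (nat_lit 31) (nat_lit 5) (nat_lit 29) (nat_lit 4) (nat_lit 353) (nat_lit 298) (nat_lit 249)) (XT.lf (nat_lit 0) (nat_lit 5255467778) (nat_lit 76) (nat_lit 9323188627) (nat_lit 152) (nat_lit 6310970508) (nat_lit 27) (nat_lit 5) (nat_lit 28) (nat_lit 5) (nat_lit 29) (nat_lit 4) (nat_lit 354) (nat_lit 298) (nat_lit 248)))) (XT.nd (nat_lit 78) (nat_lit 228) (nat_lit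 0) (XT.lf (nat_lit 0) (nat_lit 16137965414) (nat_lit 76) (nat_lit 3803885987) (nat_lit 152) (nat_lit 1694207943) (nat_lit 27) (nat_lit 5) (nat_lit 28) (nat_lit 5) (nat_lit 29) (nat_lit 4) (nat_lit 355) (nat_lit 298) (nat_lit 247)) (XT.nd (nat_lit 78) (nat_lit 0) (nat_lit 0) (XT.lf (nat_lit 0) (nat_lit 3124314969) (nat_lit 228) (nat_lit 17261388836) (nat_lit 76) (nat_lit 2028069181) (nat_lit 24) (nat_lit 5) (nat_lit 27) (nat_lit 5) (nat_lit 25) (nat_lit 4) (nat_lit 356) (nat_lit 298) (nat_lit 246)) (XT.lf (nat_lit 0) (nat_lit 8242319796) (nat_lit 228) (nat_lit 6866273762) (nat_lit 76) (nat_lit 8114628567) (nat_lit 24) (nat_lit 5) (nat_lit 27) (nat_lit 5) (nat_lit 25) (nat_lit 4) (nat_lit 357) (nat_lit 298) (nat_lit 245))))))) (XT.nd (nat_lit 936) (nat_lit 456) (nat_lit 0) (XT.nd (nat_lit 468) (nat_lit 228) (nat_lit 0) (XT.nd (nat_lit 234) (nat_lit 152) (nat_lit 0) (XT.nd (nat_lit 78) (nat_lit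 76) (nat_lit 0) (XT.lf (nat_lit 0) (nat_lit 4108508803) (nat_lit 76) (nat_lit 9532332022) (nat_lit 152) (nat_lit 10431084598) (nat_lit 23) (nat_lit 5) (nat_lit 24) (nat_lit 5) (nat_lit 25) (nat_lit 4) (nat_lit 358) (nat_lit 298) (nat_lit 244)) (XT.nd (nat_lit 78) (nat_lit 76) (nat_lit 0) (XT.lf (nat_lit 0) (nat_lit 15799980433) (nat_lit 76) (nat_lit 3586844483) (nat_lit 152) (nat_lit 5572374022) (nat_lit 23) (nat_lit 5) (nat_lit 24) (nat_lit 5) (nat_lit 25) (nat_lit 4) (nat_lit 359) (nat_lit 298) (nat_lit 243)) (XT.lf (nat_lit 0) (nat_lit 2143877692) (nat_lit 76) (nat_lit 23313796059) (nat_lit 76) (nat_lit 431295438) (nat_lit 22) (nat_lit 4) (nat_lit 23) (nat_lit 5) (nat_lit 23) (nat_lit 4) (nat_lit 360) (nat_lit 298) (nat_lit 242)))) (XT.nd (nat_lit 78) (nat_lit 76) (nat_lit 0) (XT.lf (nat_lit 0) (nat_lit 4987070776) (nat_lit 152) (nat_lit 12734846806) (nat_lit 76) (nat_lit 9130483166)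 (nat_lit 21) (nat_lit 5) (nat_lit 23) (nat_lit 5) (nat_lit 22) (nat_lit 4) (nat_lit 361) (nat_lit 298) (nat_lit 241)) (XT.nd (nat_lit 78) (nat_lit 76) (nat_lit 0) (XT.lf (nat_lit 0) (nat_lit 10626379133) (nat_lit 152) (nat_lit 1246494459) (nat_lit 76) (nat_lit 15992560655) (nat_lit 21) (nat_lit 5) (nat_lit 23) (nat_lit 5) (nat_lit 22) (nat_lit 4) (nat_lit 362) (nat_lit 298) (nat_lit 240)) (XT.lf (nat_lit 0) (nat_lit 11109630033) (nat_lit 76) (nat_lit 5577683132) (nat_lit 152) (nat_lit 12234832570) (nat_lit 20) (nat_lit 5) (nat_lit 21) (nat_lit 5) (nat_lit 22) (nat_lit 4) (nat_lit 363) (nat_lit 298) (nat_lit 239))))) (XT.nd (nat_lit 234) (nat_lit 76) (nat_lit 0) (XT.nd (nat_lit 78) (nat_lit 152) (nat_lit 0) (XT.lf (nat_lit 0) (nat_lit 23055289257) (nat_lit 152) (nat_lit 5982710543) (nat_lit 0) (nat_lit 993502113) (nat_lit 20) (nat_lit 5) (nat_lit 22) (nat_lit 4) (nat_lit 20) (nat_lit 4)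 (nat_lit 364) (nat_lit 298) (nat_lit 238)) (XT.nd (nat_lit 78) (nat_lit 76) (nat_lit 0) (XT.lf (nat_lit 0) (nat_lit 6495573187) (nat_lit 76) (nat_lit 23406964140) (nat_lit 76) (nat_lit 1285753372) (nat_lit 19) (nat_lit 4) (nat_lit 20) (nat_lit 5) (nat_lit 20) (nat_lit 4) (nat_lit 365) (nat_lit 298) (nat_lit 237)) (XT.lf (nat_lit 0) (nat_lit 4610234159) (nat_lit 152) (nat_lit 12726824668) (nat_lit 76) (nat_lit 15058652677) (nat_lit 18) (nat_lit 5) (nat_lit 20) (nat_lit 5) (nat_lit 19) (nat_lit 4) (nat_lit 366) (nat_lit 298) (nat_lit 236)))) (XT.nd (nat_lit 78) (nat_lit 76) (nat_lit 0) (XT.lf (nat_lit 0) (nat_lit 10727438762) (nat_lit 152) (nat_lit 240454211) (nat_lit 76) (nat_lit 22696082415) (nat_lit 18) (nat_lit 5) (nat_lit 20) (nat_lit 5) (nat_lit 19) (nat_lit 4) (nat_lit 367) (nat_lit 298) (nat_lit 235)) (XT.nd (nat_lit 78) (nat_lit 0) (nat_lit 0) (XT.lf (nat_lit 0) (nat_lit 13239958894)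 (nat_lit 76) (nat_lit 4088331314) (nat_lit 152) (nat_lit 17658479887) (nat_lit 17) (nat_lit 5) (nat_lit 18) (nat_lit 5) (nat_lit 19) (nat_lit 4) (nat_lit 368) (nat_lit 298) (nat_lit 234)) (XT.lf (nat_lit 0) (nat_lit 24283506719) (nat_lit 152) (nat_lit 9075980650) (nat_lit 0) (nat_lit 3015007674) (nat_lit 17) (nat_lit 5) (nat_lit 19) (nat_lit 4) (nat_lit 17) (nat_lit 4) (nat_lit 369) (nat_lit 298) (nat_lit 233)))))) (XT.nd (nat_lit 468) (nat_lit 228) (nat_lit 0) (XT.nd (nat_lit 234) (nat_lit 76) (nat_lit 0) (XT.nd (nat_lit 78) (nat_lit 76) (nat_lit 0) (XT.lf (nat_lit 0) (nat_lit 4245633283) (nat_lit 76) (nat_lit 27446762767) (nat_lit 76) (nat_lit 6133920899) (nat_lit 16) (nat_lit 4) (nat_lit 17) (nat_lit 5) (nat_lit 17) (nat_lit 4) (nat_lit 370) (nat_lit 298) (nat_lit 232)) (XT.nd (nat_lit 78) (nat_lit 0) (nat_lit 0) (XT.lf (nat_lit 0) (nat_lit 246022021) (nat_lit 152) (nat_lit 20850727982)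 (nat_lit 76) (nat_lit 18247446472) (nat_lit 15) (nat_lit 5) (nat_lit 17) (nat_lit 5) (nat_lit 16) (nat_lit 4) (nat_lit 371) (nat_lit 298) (nat_lit 231)) (XT.lf (nat_lit 0) (nat_lit 6712792584) (nat_lit 152) (nat_lit 7634068578) (nat_lit 76) (nat_lit 26587387944) (nat_lit 15) (nat_lit 5) (nat_lit 17) (nat_lit 5) (nat_lit 16) (nat_lit 4) (nat_lit 372) (nat_lit 298) (nat_lit 230)))) (XT.nd (nat_lit 78) (nat_lit 0) (nat_lit 0) (XT.lf (nat_lit 0) (nat_lit 6401415760) (nat_lit 76) (nat_lit 7176639914) (nat_lit 152) (nat_lit 29021996186) (nat_lit 14) (nat_lit 5) (nat_lit 15) (nat_lit 5) (nat_lit 16) (nat_lit 4) (nat_lit 373) (nat_lit 298) (nat_lit 229)) (XT.nd (nat_lit 78) (nat_lit 0) (nat_lit 0) (XT.lf (nat_lit 0) (nat_lit 20898814810) (nat_lit 152) (nat_lit 22993603028) (nat_lit 0) (nat_lit 451120216) (nat_lit 14) (nat_lit 5) (nat_lit 16) (nat_lit 4) (nat_lit 14) (nat_lit 4) (nat_lit 374) (nat_lit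 298) (nat_lit 228)) (XT.lf (nat_lit 0) (nat_lit 28679766156) (nat_lit 152) (nat_lit 9290747133) (nat_lit 0) (nat_lit 8198982265) (nat_lit 14) (nat_lit 5) (nat_lit 16) (nat_lit 4) (nat_lit 14) (nat_lit 4) (nat_lit 375) (nat_lit 298) (nat_lit 227))))) (XT.nd (nat_lit 234) (nat_lit 76) (nat_lit 0) (XT.nd (nat_lit 78) (nat_lit 76) (nat_lit 0) (XT.lf (nat_lit 0) (nat_lit 5221732959) (nat_lit 76) (nat_lit 31687181254) (nat_lit 76) (nat_lit 11174883747) (nat_lit 13) (nat_lit 4) (nat_lit 14) (nat_lit 5) (nat_lit 14) (nat_lit 4) (nat_lit 376) (nat_lit 298) (nat_lit 226)) (XT.nd (nat_lit 78) (nat_lit 76) (nat_lit 0) (XT.lf (nat_lit 0) (nat_lit 20740432005) (nat_lit 76) (nat_lit 24944464689) (nat_lit 76) (nat_lit 4402154213) (nat_lit 13) (nat_lit 4) (nat_lit 14) (nat_lit 5) (nat_lit 14) (nat_lit 4) (nat_lit 377) (nat_lit 298) (nat_lit 225)) (XT.lf (nat_lit 0) (nat_lit 2601232940) (nat_lit 152) (nat_lit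 15238366726) (nat_lit 76) (nat_lit 34349819150) (nat_lit 12) (nat_lit 5) (nat_lit 14) (nat_lit 5) (nat_lit 13) (nat_lit 4) (nat_lit 378) (nat_lit 298) (nat_lit 224)))) (XT.nd (nat_lit 78) (nat_lit 76) (nat_lit 0) (XT.lf (nat_lit 0) (nat_lit 9786593767) (nat_lit 152) (nat_lit 535599677) (nat_lit 76) (nat_lit 44072119766) (nat_lit 12) (nat_lit 5) (nat_lit 14) (nat_lit 5) (nat_lit 13) (nat_lit 4) (nat_lit 379) (nat_lit 298) (nat_lit 223)) (XT.nd (nat_lit 78) (nat_lit 0) (nat_lit 0) (XT.lf (nat_lit 0) (nat_lit 15356936676) (nat_lit 76) (nat_lit 2194760839) (nat_lit 152) (nat_lit 39146734579) (nat_lit 11) (nat_lit 5) (nat_lit 12) (nat_lit 5) (nat_lit 13) (nat_lit 4) (nat_lit 380) (nat_lit 298) (nat_lit 222)) (XT.lf (nat_lit 0) (nat_lit 25794037087) (nat_lit 152) (nat_lit 27190698945) (nat_lit 0) (nat_lit 6128575207) (nat_lit 11) (nat_lit 5) (nat_lit 13) (nat_lit 4) (nat_lit 11) (nat_lit 4) (nat_lit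 381) (nat_lit 298) (nat_lit 221))))))))
noncomputable def xc96 : XT := (XT.nd (nat_lit 1794) (nat_lit 228) (nat_lit 0) (XT.nd (nat_lit 858) (nat_lit 228) (nat_lit 0) (XT.nd (nat_lit 390) (nat_lit 76) (nat_lit 0) (XT.nd (nat_lit 156) (nat_lit 76) (nat_lit 0) (XT.nd (nat_lit 78) (nat_lit 76) (nat_lit 0) (XT.lf (nat_lit 0) (nat_lit 34466179100) (nat_lit 152) (nat_lit 12403553077) (nat_lit 0) (nat_lit 14778321080) (nat_lit 11) (nat_lit 5) (nat_lit 13) (nat_lit 4) (nat_lit 11) (nat_lit 4) (nat_lit 382) (nat_lit 298) (nat_lit 220)) (XT.lf (nat_lit 0) (nat_lit 3191566090) (nat_lit 76) (nat_lit 40412768343) (nat_lit 76) (nat_lit 20703580667) (nat_lit 10) (nat_lit 4) (nat_lit 11) (nat_lit 5) (nat_lit 11) (nat_lit 4) (nat_lit 383) (nat_lit 298) (nat_lit 219))) (XT.nd (nat_lit 78) (nat_lit 76) (nat_lit 0) (XT.lf (nat_lit 0) (nat_lit 19964071401) (nat_lit 76) (nat_lit 33428277789) (nat_lit 76) (nat_lit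 13698776155) (nat_lit 10) (nat_lit 4) (nat_lit 11) (nat_lit 5) (nat_lit 11) (nat_lit 4) (nat_lit 384) (nat_lit 298) (nat_lit 218)) (XT.nd (nat_lit 78) (nat_lit 76) (nat_lit 0) (XT.lf (nat_lit 0) (nat_lit 37543779912) (nat_lit 76) (nat_lit 26109690948) (nat_lit 76) (nat_lit 6360842687) (nat_lit 10) (nat_lit 4) (nat_lit 11) (nat_lit 5) (nat_lit 11) (nat_lit 4) (nat_lit 385) (nat_lit 298) (nat_lit 217)) (XT.lf (nat_lit 0) (nat_lit 1285196601) (nat_lit 152) (nat_lit 17132620586) (nat_lit 76) (nat_lit 54665586044) (nat_lit 9) (nat_lit 5) (nat_lit 11) (nat_lit 5) (nat_lit 10) (nat_lit 4) (nat_lit 386) (nat_lit 298) (nat_lit 216))))) (XT.nd (nat_lit 234) (nat_lit 0) (nat_lit 0) (XT.nd (nat_lit 78) (nat_lit 76) (nat_lit 0) (XT.lf (nat_lit 0) (nat_lit 9084748154) (nat_lit 152) (nat_lit 1161087864) (nat_lit 76) (nat_lit 66055651138) (nat_lit 9) (nat_lit 5) (nat_lit 11) (nat_lit 5) (nat_lit 10) (nat_lit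 4) (nat_lit 387) (nat_lit 298) (nat_lit 215)) (XT.nd (nat_lit 78) (nat_lit 0) (nat_lit 0) (XT.lf (nat_lit 0) (nat_lit 16096594107) (nat_lit 76) (nat_lit 1414687859) (nat_lit 152) (nat_lit 62157345343) (nat_lit 8) (nat_lit 5) (nat_lit 9) (nat_lit 5) (nat_lit 10) (nat_lit 4) (nat_lit 388) (nat_lit 298) (nat_lit 214)) (XT.lf (nat_lit 0) (nat_lit 26487558039) (nat_lit 152) (nat_lit 49096352096) (nat_lit 0) (nat_lit 7613795714) (nat_lit 8) (nat_lit 5) (nat_lit 10) (nat_lit 4) (nat_lit 8) (nat_lit 4) (nat_lit 389) (nat_lit 298) (nat_lit 213)))) (XT.nd (nat_lit 78) (nat_lit 0) (nat_lit 0) (XT.lf (nat_lit 0) (nat_lit 35922262334) (nat_lit 152) (nat_lit 33946434060) (nat_lit 0) (nat_lit 17034063257) (nat_lit 8) (nat_lit 5) (nat_lit 10) (nat_lit 4) (nat_lit 8) (nat_lit 4) (nat_lit 390) (nat_lit 298) (nat_lit 212)) (XT.nd (nat_lit 78) (nat_lit 0) (nat_lit 0) (XT.lf (nat_lit 0) (nat_lit 45815771188)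 (nat_lit 152) (nat_lit 18064120619) (nat_lit 0) (nat_lit 26913822825) (nat_lit 8) (nat_lit 5) (nat_lit 10) (nat_lit 4) (nat_lit 8) (nat_lit 4) (nat_lit 391) (nat_lit 298) (nat_lit 211)) (XT.lf (nat_lit 0) (nat_lit 56191640576) (nat_lit 152) (nat_lit 1411596742) (nat_lit 0) (nat_lit 37276597655) (nat_lit 8) (nat_lit 5) (nat_lit 10) (nat_lit 4) (nat_lit 8) (nat_lit 4) (nat_lit 392) (nat_lit 298) (nat_lit 210)))))) (XT.nd (nat_lit 468) (nat_lit 76) (nat_lit 0) (XT.nd (nat_lit 234) (nat_lit 76) (nat_lit 0) (XT.nd (nat_lit 78) (nat_lit 0) (nat_lit 0) (XT.lf (nat_lit 0) (nat_lit 16581497924) (nat_lit 76) (nat_lit 50751960676) (nat_lit 76) (nat_lit 31824446747) (nat_lit 7) (nat_lit 4) (nat_lit 8) (nat_lit 5) (nat_lit 8) (nat_lit 4) (nat_lit 393) (nat_lit 298) (nat_lit 209)) (XT.nd (nat_lit 78) (nat_lit 0) (nat_lit 0) (XT.lf (nat_lit 0) (nat_lit 35500855093) (nat_lit 76) (nat_lit 43543898800) (nat_lit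 76) (nat_lit 24604507720) (nat_lit 7) (nat_lit 4) (nat_lit 8) (nat_lit 5) (nat_lit 8) (nat_lit 4) (nat_lit 394) (nat_lit 298) (nat_lit 208)) (XT.lf (nat_lit 0) (nat_lit 55344847089) (nat_lit 76) (nat_lit 35985795711) (nat_lit 76) (nat_lit 17035093059) (nat_lit 7) (nat_lit 4) (nat_lit 8) (nat_lit 5) (nat_lit 8) (nat_lit 4) (nat_lit 395) (nat_lit 298) (nat_lit 207)))) (XT.nd (nat_lit 78) (nat_lit 76) (nat_lit 0) (XT.lf (nat_lit 0) (nat_lit 76160721512) (nat_lit 76) (nat_lit 28059655927) (nat_lit 76) (nat_lit 9098180349) (nat_lit 7) (nat_lit 4) (nat_lit 8) (nat_lit 5) (nat_lit 8) (nat_lit 4) (nat_lit 396) (nat_lit 298) (nat_lit 206)) (XT.nd (nat_lit 78) (nat_lit 76) (nat_lit 0) (XT.lf (nat_lit 0) (nat_lit 97998039968) (nat_lit 76) (nat_lit 19746607685) (nat_lit 76) (nat_lit 774872178) (nat_lit 7) (nat_lit 4) (nat_lit 8) (nat_lit 5) (nat_lit 8) (nat_lit 4) (nat_lit 397) (nat_lit 298) (nat_lit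 205)) (XT.lf (nat_lit 0) (nat_lit 7700050412) (nat_lit 152) (nat_lit 3196403522) (nat_lit 76) (nat_lit 113078341580) (nat_lit 6) (nat_lit 5) (nat_lit 8) (nat_lit 5) (nat_lit 7) (nat_lit 4) (nat_lit 398) (nat_lit 298) (nat_lit 204))))) (XT.nd (nat_lit 234) (nat_lit 0) (nat_lit 0) (XT.nd (nat_lit 78) (nat_lit 0) (nat_lit 0) (XT.lf (nat_lit 0) (nat_lit 15459158040) (nat_lit 76) (nat_lit 1345705845) (nat_lit 152) (nat_lit 112885727940) (nat_lit 5) (nat_lit 5) (nat_lit 6) (nat_lit 5) (nat_lit 7) (nat_lit 4) (nat_lit 399) (nat_lit 298) (nat_lit 203)) (XT.nd (nat_lit 78) (nat_lit 0) (nat_lit 0) (XT.lf (nat_lit 0) (nat_lit 26546351330) (nat_lit 152) (nat_lit 100685334200) (nat_lit 0) (nat_lit 8451421959) (nat_lit 5) (nat_lit 5) (nat_lit 7) (nat_lit 4) (nat_lit 5) (nat_lit 4) (nat_lit 400) (nat_lit 298) (nat_lit 202)) (XT.lf (nat_lit 0) (nat_lit 36788263263) (nat_lit 152) (nat_lit 86501024340) (nat_lit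 0) (nat_lit 18685294969) (nat_lit 5) (nat_lit 5) (nat_lit 7) (nat_lit 4) (nat_lit 5) (nat_lit 4) (nat_lit 401) (nat_lit 298) (nat_lit 201)))) (XT.nd (nat_lit 78) (nat_lit 0) (nat_lit 0) (XT.lf (nat_lit 0) (nat_lit 47533974952) (nat_lit 152) (nat_lit 71623721802) (nat_lit 0) (nat_lit 29423350541) (nat_lit 5) (nat_lit 5) (nat_lit 7) (nat_lit 4) (nat_lit 5) (nat_lit 4) (nat_lit 402) (nat_lit 298) (nat_lit 200)) (XT.nd (nat_lit 78) (nat_lit 0) (nat_lit 0) (XT.lf (nat_lit 0) (nat_lit 58809071423) (nat_lit 152) (nat_lit 56018004435) (nat_lit 0) (nat_lit 40691155472) (nat_lit 5) (nat_lit 5) (nat_lit 7) (nat_lit 4) (nat_lit 5) (nat_lit 4) (nat_lit 403) (nat_lit 298) (nat_lit 199)) (XT.lf (nat_lit 0) (nat_lit 70640398145) (nat_lit 152) (nat_lit 39646715770) (nat_lit 0) (nat_lit 52515537870) (nat_lit 5) (nat_lit 5) (nat_lit 7) (nat_lit 4) (nat_lit 5) (nat_lit 4) (nat_lit 404) (nat_lit 298) (nat_lit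 198))))))) (XT.nd (nat_lit 936) (nat_lit 152) (nat_lit 0) (XT.nd (nat_lit 468) (nat_lit 0) (nat_lit 0) (XT.nd (nat_lit 234) (nat_lit 0) (nat_lit 0) (XT.nd (nat_lit 78) (nat_lit 76) (nat_lit 0) (XT.lf (nat_lit 0) (nat_lit 83056124942) (nat_lit 152) (nat_lit 22470876548) (nat_lit 0) (nat_lit 64924651025) (nat_lit 5) (nat_lit 5) (nat_lit 7) (nat_lit 4) (nat_lit 5) (nat_lit 4) (nat_lit 405) (nat_lit 298) (nat_lit 197)) (XT.nd (nat_lit 78) (nat_lit 76) (nat_lit 0) (XT.lf (nat_lit 0) (nat_lit 96085813070) (nat_lit 152) (nat_lit 4449591914) (nat_lit 0) (nat_lit 77948040447) (nat_lit 5) (nat_lit 5) (nat_lit 7) (nat_lit 4) (nat_lit 5) (nat_lit 4) (nat_lit 406) (nat_lit 298) (nat_lit 196)) (XT.lf (nat_lit 0) (nat_lit 14938160374) (nat_lit 76) (nat_lit 95055551768) (nat_lit 76) (nat_lit 76911780376) (nat_lit 4) (nat_lit 4) (nat_lit 5) (nat_lit 5) (nat_lit 5) (nat_lit 4) (nat_lit 407) (nat_lit 298)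 (nat_lit 195)))) (XT.nd (nat_lit 78) (nat_lit 0) (nat_lit 0) (XT.lf (nat_lit 0) (nat_lit 35437274079) (nat_lit 76) (nat_lit 89228702344) (nat_lit 76) (nat_lit 71079217839) (nat_lit 4) (nat_lit 4) (nat_lit 5) (nat_lit 5) (nat_lit 5) (nat_lit 4) (nat_lit 408) (nat_lit 298) (nat_lit 194)) (XT.nd (nat_lit 78) (nat_lit 0) (nat_lit 0) (XT.lf (nat_lit 0) (nat_lit 56949433009) (nat_lit 76) (nat_lit 83116339252) (nat_lit 76) (nat_lit 64961413689) (nat_lit 4) (nat_lit 4) (nat_lit 5) (nat_lit 5) (nat_lit 5) (nat_lit 4) (nat_lit 409) (nat_lit 298) (nat_lit 193)) (XT.lf (nat_lit 0) (nat_lit 79525856591) (nat_lit 76) (nat_lit 76703909249) (nat_lit 76) (nat_lit 58543801723) (nat_lit 4) (nat_lit 4) (nat_lit 5) (nat_lit 5) (nat_lit 5) (nat_lit 4) (nat_lit 410) (nat_lit 298) (nat_lit 192))))) (XT.nd (nat_lit 234) (nat_lit 0) (nat_lit 0) (XT.nd (nat_lit 78) (nat_lit 0) (nat_lit 0) (XT.lf (nat_lit 0) (nat_lit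 103220298213) (nat_lit 76) (nat_lit 69976144642) (nat_lit 76) (nat_lit 51811101915) (nat_lit 4) (nat_lit 4) (nat_lit 5) (nat_lit 5) (nat_lit 5) (nat_lit 4) (nat_lit 411) (nat_lit 298) (nat_lit 191)) (XT.nd (nat_lit 78) (nat_lit 0) (nat_lit 0) (XT.lf (nat_lit 0) (nat_lit 128089173213) (nat_lit 76) (nat_lit 62917026945) (nat_lit 76) (nat_lit 44747284027) (nat_lit 4) (nat_lit 4) (nat_lit 5) (nat_lit 5) (nat_lit 5) (nat_lit 4) (nat_lit 412) (nat_lit 298) (nat_lit 190)) (XT.lf (nat_lit 0) (nat_lit 154191693199) (nat_lit 76) (nat_lit 55509748736) (nat_lit 76) (nat_lit 37335529444) (nat_lit 4) (nat_lit 4) (nat_lit 5) (nat_lit 5) (nat_lit 5) (nat_lit 4) (nat_lit 413) (nat_lit 298) (nat_lit 189)))) (XT.nd (nat_lit 78) (nat_lit 0) (nat_lit 0) (XT.lf (nat_lit 0) (nat_lit 181590007026) (nat_lit 76) (nat_lit 47736673636) (nat_lit 76) (nat_lit 29558191132) (nat_lit 4) (nat_lit 4) (nat_lit 5) (nat_lit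 5) (nat_lit 5) (nat_lit 4) (nat_lit 414) (nat_lit 298) (nat_lit 188)) (XT.nd (nat_lit 78) (nat_lit 0) (nat_lit 0) (XT.lf (nat_lit 0) (nat_lit 210349348777) (nat_lit 76) (nat_lit 39579294326) (nat_lit 76) (nat_lit 21396751619) (nat_lit 4) (nat_lit 4) (nat_lit 5) (nat_lit 5) (nat_lit 5) (nat_lit 4) (nat_lit 415) (nat_lit 298) (nat_lit 187)) (XT.lf (nat_lit 0) (nat_lit 240538193074) (nat_lit 76) (nat_lit 31018188472) (nat_lit 76) (nat_lit 12831778906) (nat_lit 4) (nat_lit 4) (nat_lit 5) (nat_lit 5) (nat_lit 5) (nat_lit 4) (nat_lit 416) (nat_lit 298) (nat_lit 186)))))) (XT.nd (nat_lit 468) (nat_lit 0) (nat_lit 0) (XT.nd (nat_lit 234) (nat_lit 0) (nat_lit 0) (XT.nd (nat_lit 78) (nat_lit 152) (nat_lit 0) (XT.lf (nat_lit 0) (nat_lit 272228418117) (nat_lit 76) (nat_lit 22032972489) (nat_lit 76) (nat_lit 3842880200) (nat_lit 4) (nat_lit 4) (nat_lit 5) (nat_lit 5) (nat_lit 5) (nat_lit 4) (nat_lit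 417) (nat_lit 298) (nat_lit 185)) (XT.nd (nat_lit 78) (nat_lit 76) (nat_lit 0) (XT.lf (nat_lit 0) (nat_lit 5412388626) (nat_lit 152) (nat_lit 7098202960) (nat_lit 76) (nat_lit 299991426778) (nat_lit 3) (nat_lit 5) (nat_lit 5) (nat_lit 5) (nat_lit 4) (nat_lit 4) (nat_lit 418) (nat_lit 298) (nat_lit 184)) (XT.lf (nat_lit 0) (nat_lit 12962783307) (nat_lit 76) (nat_lit 2237081712) (nat_lit 152) (nat_lit 312406709326) (nat_lit 2) (nat_lit 5) (nat_lit 3) (nat_lit 5) (nat_lit 4) (nat_lit 4) (nat_lit 419) (nat_lit 298) (nat_lit 183)))) (XT.nd (nat_lit 78) (nat_lit 0) (nat_lit 0) (XT.lf (nat_lit 0) (nat_lit 25728603656) (nat_lit 152) (nat_lit 309330005642) (nat_lit 0) (nat_lit 8395154838) (nat_lit 2) (nat_lit 5) (nat_lit 4) (nat_lit 4) (nat_lit 2) (nat_lit 4) (nat_lit 420) (nat_lit 298) (nat_lit 182)) (XT.nd (nat_lit 78) (nat_lit 0) (nat_lit 0) (XT.lf (nat_lit 0) (nat_lit 36816848085) (nat_lit 152)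 (nat_lit 303794298540) (nat_lit 0) (nat_lit 19480513758) (nat_lit 2) (nat_lit 5) (nat_lit 4) (nat_lit 4) (nat_lit 2) (nat_lit 4) (nat_lit 421) (nat_lit 298) (nat_lit 181)) (XT.lf (nat_lit 0) (nat_lit 48456071775) (nat_lit 152) (nat_lit 297988562364) (nat_lit 0) (nat_lit 31116989343) (nat_lit 2) (nat_lit 5) (nat_lit 4) (nat_lit 4) (nat_lit 2) (nat_lit 4) (nat_lit 422) (nat_lit 298) (nat_lit 180))))) (XT.nd (nat_lit 234) (nat_lit 0) (nat_lit 0) (XT.nd (nat_lit 78) (nat_lit 0) (nat_lit 0) (XT.lf (nat_lit 0) (nat_lit 60673987163) (nat_lit 152) (nat_lit 291898973932) (nat_lit 0) (nat_lit 43332287489) (nat_lit 2) (nat_lit 5) (nat_lit 4) (nat_lit 4) (nat_lit 2) (nat_lit 4) (nat_lit 423) (nat_lit 298) (nat_lit 179)) (XT.nd (nat_lit 78) (nat_lit 0) (nat_lit 0) (XT.lf (nat_lit 0) (nat_lit 73499684524) (nat_lit 152) (nat_lit 285511034223) (nat_lit 0) (nat_lit 56155492238) (nat_lit 2) (nat_lit 5) (nat_lit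 4) (nat_lit 4) (nat_lit 2) (nat_lit 4) (nat_lit 424) (nat_lit 298) (nat_lit 178)) (XT.lf (nat_lit 0) (nat_lit 86963701233) (nat_lit 152) (nat_lit 278809533858) (nat_lit 0) (nat_lit 69617135030) (nat_lit 2) (nat_lit 5) (nat_lit 4) (nat_lit 4) (nat_lit 2) (nat_lit 4) (nat_lit 425) (nat_lit 298) (nat_lit 177)))) (XT.nd (nat_lit 78) (nat_lit 0) (nat_lit 0) (XT.lf (nat_lit 0) (nat_lit 101098094471) (nat_lit 152) (nat_lit 271778516883) (nat_lit 0) (nat_lit 83749267395) (nat_lit 2) (nat_lit 5) (nat_lit 4) (nat_lit 4) (nat_lit 2) (nat_lit 4) (nat_lit 426) (nat_lit 298) (nat_lit 176)) (XT.nd (nat_lit 78) (nat_lit 0) (nat_lit 0) (XT.lf (nat_lit 0) (nat_lit 115936517556) (nat_lit 152) (nat_lit 264401242782) (nat_lit 0) (nat_lit 98585537269) (nat_lit 2) (nat_lit 5) (nat_lit 4) (nat_lit 4) (nat_lit 2) (nat_lit 4) (nat_lit 427) (nat_lit 298) (nat_lit 175)) (XT.lf (nat_lit 0) (nat_lit 131514300068) (nat_lit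 152) (nat_lit 256660146616) (nat_lit 0) (nat_lit 114161269102) (nat_lit 2) (nat_lit 5) (nat_lit 4) (nat_lit 4) (nat_lit 2) (nat_lit 4) (nat_lit 428) (nat_lit 298) (nat_lit 174))))))))
noncomputable def xc97 : XT := (XT.nd (nat_lit 38220) (nat_lit 0) (nat_lit 3116) (XT.nd (nat_lit 37284) (nat_lit 0) (nat_lit 8056) (XT.nd (nat_lit 390) (nat_lit 0) (nat_lit 0) (XT.nd (nat_lit 156) (nat_lit 0) (nat_lit 0) (XT.nd (nat_lit 78) (nat_lit 0) (nat_lit 0) (XT.lf (nat_lit 0) (nat_lit 147868531964) (nat_lit 152) (nat_lit 248536797204) (nat_lit 0) (nat_lit 130513547971) (nat_lit 2) (nat_lit 5) (nat_lit 4) (nat_lit 4) (nat_lit 2) (nat_lit 4) (nat_lit 429) (nat_lit 298) (nat_lit 173)) (XT.lf (nat_lit 0) (nat_lit 165038151891) (nat_lit 152) (nat_lit 240011853237) (nat_lit 0) (nat_lit 147681307873) (nat_lit 2) (nat_lit 5) (nat_lit 4) (nat_lit 4) (nat_lit 2) (nat_lit 4) (nat_lit 430) (nat_lit 298) (nat_lit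 172))) (XT.nd (nat_lit 78) (nat_lit 0) (nat_lit 0) (XT.lf (nat_lit 0) (nat_lit 183064039898) (nat_lit 152) (nat_lit 231065017231) (nat_lit 0) (nat_lit 165705424427) (nat_lit 2) (nat_lit 5) (nat_lit 4) (nat_lit 4) (nat_lit 2) (nat_lit 4) (nat_lit 431) (nat_lit 298) (nat_lit 171)) (XT.nd (nat_lit 78) (nat_lit 0) (nat_lit 0) (XT.lf (nat_lit 0) (nat_lit 201989114765) (nat_lit 152) (nat_lit 221674987195) (nat_lit 0) (nat_lit 184628812196) (nat_lit 2) (nat_lit 5) (nat_lit 4) (nat_lit 4) (nat_lit 2) (nat_lit 4) (nat_lit 432) (nat_lit 298) (nat_lit 170)) (XT.lf (nat_lit 0) (nat_lit 221858436195) (nat_lit 152) (nat_lit 211819405914) (nat_lit 0) (nat_lit 204496526866) (nat_lit 2) (nat_lit 5) (nat_lit 4) (nat_lit 4) (nat_lit 2) (nat_lit 4) (nat_lit 433) (nat_lit 298) (nat_lit 169))))) (XT.nd (nat_lit 36660) (nat_lit 0) (nat_lit 11628) (XT.nd (nat_lit 78) (nat_lit 0) (nat_lit 0) (XT.lf (nat_lit 0)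 (nat_lit 242719312094) (nat_lit 152) (nat_lit 201474807718) (nat_lit 0) (nat_lit 225355872518) (nat_lit 2) (nat_lit 5) (nat_lit 4) (nat_lit 4) (nat_lit 2) (nat_lit 4) (nat_lit 434) (nat_lit 298) (nat_lit 168)) (XT.nd (nat_lit 36504) (nat_lit 0) (nat_lit 11932) (XT.lf (nat_lit 0) (nat_lit 264621411217) (nat_lit 152) (nat_lit 190616562613) (nat_lit 0) (nat_lit 247256514261) (nat_lit 2) (nat_lit 5) (nat_lit 4) (nat_lit 4) (nat_lit 2) (nat_lit 4) (nat_lit 435) (nat_lit 298) (nat_lit 167)) (XT.lf (nat_lit 0) (nat_lit 1598150289) (nat_lit 76) (nat_lit 30185556) (nat_lit 0) (nat_lit 1598150289) (nat_lit 159) (nat_lit 5) (nat_lit 160) (nat_lit 0) (nat_lit 159) (nat_lit 4) (nat_lit 302) (nat_lit 299) (nat_lit 299)))) (XT.nd (nat_lit 78) (nat_lit 228) (nat_lit 0) (XT.lf (nat_lit 0) (nat_lit 3341241537) (nat_lit 76) (nat_lit 2966179063) (nat_lit 76) (nat_lit 161302462) (nat_lit 158) (nat_lit 4) (nat_lit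 159) (nat_lit 5) (nat_lit 159) (nat_lit 4) (nat_lit 303) (nat_lit 299) (nat_lit 298)) (XT.nd (nat_lit 78) (nat_lit 0) (nat_lit 0) (XT.lf (nat_lit 0) (nat_lit 276535894) (nat_lit 152) (nat_lit 2529670712) (nat_lit 228) (nat_lit 3686194028) (nat_lit 155) (nat_lit 5) (nat_lit 157) (nat_lit 5) (nat_lit 158) (nat_lit 4) (nat_lit 304) (nat_lit 299) (nat_lit 297)) (XT.lf (nat_lit 0) (nat_lit 3844545195) (nat_lit 152) (nat_lit 1943180954) (nat_lit 228) (nat_lit 736195866) (nat_lit 155) (nat_lit 5) (nat_lit 157) (nat_lit 5) (nat_lit 158) (nat_lit 4) (nat_lit 305) (nat_lit 299) (nat_lit 296)))))) (XT.nd (nat_lit 468) (nat_lit 1976) (nat_lit 0) (XT.nd (nat_lit 234) (nat_lit 912) (nat_lit 0) (XT.nd (nat_lit 78) (nat_lit 380) (nat_lit 0) (XT.lf (nat_lit 0) (nat_lit 913440147) (nat_lit 228) (nat_lit 1210182959) (nat_lit 304) (nat_lit 4439971031) (nat_lit 151) (nat_lit 5) (nat_lit 154) (nat_lit 5) (nat_lit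 155) (nat_lit 5) (nat_lit 306) (nat_lit 299) (nat_lit 295)) (XT.nd (nat_lit 78) (nat_lit 380) (nat_lit 0) (XT.lf (nat_lit 0) (nat_lit 4655407845) (nat_lit 228) (nat_lit 321766593) (nat_lit 304) (nat_lit 1633995833) (nat_lit 151) (nat_lit 5) (nat_lit 154) (nat_lit 5) (nat_lit 155) (nat_lit 5) (nat_lit 307) (nat_lit 299) (nat_lit 294)) (XT.lf (nat_lit 0) (nat_lit 1145806469) (nat_lit 380) (nat_lit 4827707491) (nat_lit 76) (nat_lit 693080630) (nat_lit 146) (nat_lit 5) (nat_lit 151) (nat_lit 5) (nat_lit 147) (nat_lit 5) (nat_lit 308) (nat_lit 299) (nat_lit 293)))) (XT.nd (nat_lit 78) (nat_lit 912) (nat_lit 0) (XT.lf (nat_lit 0) (nat_lit 3890967071) (nat_lit 380) (nat_lit 983178752) (nat_lit 76) (nat_lit 1855498299) (nat_lit 146) (nat_lit 5) (nat_lit 151) (nat_lit 5) (nat_lit 147) (nat_lit 5) (nat_lit 309) (nat_lit 299) (nat_lit 292)) (XT.nd (nat_lit 78) (nat_lit 532) (nat_lit 0) (XT.lf (nat_lit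 0) (nat_lit 3037845679) (nat_lit 380) (nat_lit 3632818386) (nat_lit 456) (nat_lit 130563286) (nat_lit 141) (nat_lit 5) (nat_lit 146) (nat_lit 5) (nat_lit 147) (nat_lit 5) (nat_lit 310) (nat_lit 299) (nat_lit 291)) (XT.lf (nat_lit 0) (nat_lit 268220044) (nat_lit 456) (nat_lit 2231681037) (nat_lit 532) (nat_lit 4380904344) (nat_lit 134) (nat_lit 5) (nat_lit 140) (nat_lit 5) (nat_lit 141) (nat_lit 5) (nat_lit 311) (nat_lit 299) (nat_lit 290))))) (XT.nd (nat_lit 234) (nat_lit 1368) (nat_lit 0) (XT.nd (nat_lit 78) (nat_lit 608) (nat_lit 0) (XT.lf (nat_lit 0) (nat_lit 4515488799) (nat_lit 456) (nat_lit 663607964) (nat_lit 532) (nat_lit 1789290586) (nat_lit 134) (nat_lit 5) (nat_lit 140) (nat_lit 5) (nat_lit 141) (nat_lit 5) (nat_lit 312) (nat_lit 299) (nat_lit 289)) (XT.nd (nat_lit 78) (nat_lit 0) (nat_lit 0) (XT.lf (nat_lit 0) (nat_lit 809573763) (nat_lit 608) (nat_lit 5236056415) (nat_lit 76)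 (nat_lit 1018807950) (nat_lit 126) (nat_lit 5) (nat_lit 134) (nat_lit 5) (nat_lit 127) (nat_lit 5) (nat_lit 313) (nat_lit 299) (nat_lit 288)) (XT.lf (nat_lit 0) (nat_lit 3398742272) (nat_lit 608) (nat_lit 914207107) (nat_lit 76) (nat_lit 2855033719) (nat_lit 126) (nat_lit 5) (nat_lit 134) (nat_lit 5) (nat_lit 127) (nat_lit 5) (nat_lit 314) (nat_lit 299) (nat_lit 287)))) (XT.nd (nat_lit 78) (nat_lit 760) (nat_lit 0) (XT.lf (nat_lit 0) (nat_lit 3626485467) (nat_lit 608) (nat_lit 2421210004) (nat_lit 684) (nat_lit 1232667749) (nat_lit 118) (nat_lit 5) (nat_lit 126) (nat_lit 5) (nat_lit 127) (nat_lit 5) (nat_lit 315) (nat_lit 299) (nat_lit 286)) (XT.nd (nat_lit 78) (nat_lit 0) (nat_lit 0) (XT.lf (nat_lit 0) (nat_lit 919444386) (nat_lit 684) (nat_lit 371407623) (nat_lit 760) (nat_lit 6111255947) (nat_lit 108) (nat_lit 5) (nat_lit 117) (nat_lit 5) (nat_lit 118) (nat_lit 5) (nat_lit 316) (nat_lit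 299) (nat_lit 285)) (XT.lf (nat_lit 0) (nat_lit 3869871646) (nat_lit 760) (nat_lit 1847723138) (nat_lit 76) (nat_lit 1812947775) (nat_lit 108) (nat_lit 5) (nat_lit 118) (nat_lit 5) (nat_lit 109) (nat_lit 5) (nat_lit 317) (nat_lit 299) (nat_lit 284))))))) (XT.nd (nat_lit 936) (nat_lit 1672) (nat_lit 0) (XT.nd (nat_lit 468) (nat_lit 1292) (nat_lit 0) (XT.nd (nat_lit 234) (nat_lit 760) (nat_lit 0) (XT.nd (nat_lit 78) (nat_lit 456) (nat_lit 0) (XT.lf (nat_lit 0) (nat_lit 2994295108) (nat_lit 760) (nat_lit 3522147417) (nat_lit 836) (nat_lit 1152169681) (nat_lit 98) (nat_lit 5) (nat_lit 108) (nat_lit 5) (nat_lit 109) (nat_lit 5) (nat_lit 318) (nat_lit 299) (nat_lit 283)) (XT.nd (nat_lit 78) (nat_lit 0) (nat_lit 0) (XT.lf (nat_lit 0) (nat_lit 196771850) (nat_lit 380) (nat_lit 1159936620) (nat_lit 456) (nat_lit 6459731284) (nat_lit 92) (nat_lit 5) (nat_lit 97) (nat_lit 5) (nat_lit 98) (nat_lit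 5) (nat_lit 319) (nat_lit 299) (nat_lit 282)) (XT.lf (nat_lit 0) (nat_lit 3944365807) (nat_lit 456) (nat_lit 2654830288) (nat_lit 76) (nat_lit 1372039207) (nat_lit 92) (nat_lit 5) (nat_lit 98) (nat_lit 5) (nat_lit 93) (nat_lit 5) (nat_lit 320) (nat_lit 299) (nat_lit 281)))) (XT.nd (nat_lit 78) (nat_lit 456) (nat_lit 0) (XT.lf (nat_lit 0) (nat_lit 2505102281) (nat_lit 304) (nat_lit 4110603389) (nat_lit 380) (nat_lit 1520467891) (nat_lit 88) (nat_lit 5) (nat_lit 92) (nat_lit 5) (nat_lit 93) (nat_lit 5) (nat_lit 321) (nat_lit 299) (nat_lit 280)) (XT.nd (nat_lit 78) (nat_lit 380) (nat_lit 0) (XT.lf (nat_lit 0) (nat_lit 1018986978) (nat_lit 380) (nat_lit 425955804) (nat_lit 76) (nat_lit 6866490403) (nat_lit 87) (nat_lit 5) (nat_lit 92) (nat_lit 5) (nat_lit 88) (nat_lit 5) (nat_lit 322) (nat_lit 299) (nat_lit 279)) (XT.lf (nat_lit 0) (nat_lit 3638536336) (nat_lit 456) (nat_lit 3451673676) (nat_lit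 76) (nat_lit 1403890380) (nat_lit 82) (nat_lit 5) (nat_lit 88) (nat_lit 5) (nat_lit 83) (nat_lit 5) (nat_lit 323) (nat_lit 299) (nat_lit 278))))) (XT.nd (nat_lit 234) (nat_lit 608) (nat_lit 0) (XT.nd (nat_lit 78) (nat_lit 380) (nat_lit 0) (XT.lf (nat_lit 0) (nat_lit 2041757274) (nat_lit 304) (nat_lit 4315409072) (nat_lit 380) (nat_lit 2330426465) (nat_lit 78) (nat_lit 5) (nat_lit 82) (nat_lit 5) (nat_lit 83) (nat_lit 5) (nat_lit 324) (nat_lit 299) (nat_lit 277)) (XT.nd (nat_lit 78) (nat_lit 304) (nat_lit 0) (XT.lf (nat_lit 0) (nat_lit 276491326) (nat_lit 380) (nat_lit 1078731260) (nat_lit 76) (nat_lit 7537084880) (nat_lit 77) (nat_lit 5) (nat_lit 82) (nat_lit 5) (nat_lit 78) (nat_lit 5) (nat_lit 325) (nat_lit 299) (nat_lit 276)) (XT.lf (nat_lit 0) (nat_lit 2949687748) (nat_lit 380) (nat_lit 4362967617) (nat_lit 76) (nat_lit 1792063585) (nat_lit 73) (nat_lit 5) (nat_lit 78) (nat_lit 5) (nat_lit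 74) (nat_lit 5) (nat_lit 326) (nat_lit 299) (nat_lit 275)))) (XT.nd (nat_lit 78) (nat_lit 380) (nat_lit 0) (XT.lf (nat_lit 0) (nat_lit 1477148781) (nat_lit 228) (nat_lit 4256326961) (nat_lit 304) (nat_lit 3595508491) (nat_lit 70) (nat_lit 5) (nat_lit 73) (nat_lit 5) (nat_lit 74) (nat_lit 5) (nat_lit 327) (nat_lit 299) (nat_lit 274)) (XT.nd (nat_lit 78) (nat_lit 380) (nat_lit 0) (XT.lf (nat_lit 0) (nat_lit 7651056967) (nat_lit 228) (nat_lit 994795700) (nat_lit 304) (nat_lit 919216144) (nat_lit 70) (nat_lit 5) (nat_lit 73) (nat_lit 5) (nat_lit 74) (nat_lit 5) (nat_lit 328) (nat_lit 299) (nat_lit 273)) (XT.lf (nat_lit 0) (nat_lit 1855128240) (nat_lit 380) (nat_lit 5529117039) (nat_lit 76) (nat_lit 2426067292) (nat_lit 65) (nat_lit 5) (nat_lit 70) (nat_lit 5) (nat_lit 66) (nat_lit 5) (nat_lit 329) (nat_lit 299) (nat_lit 272)))))) (XT.nd (nat_lit 468) (nat_lit 684) (nat_lit 0) (XT.nd (nat_lit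 234) (nat_lit 456) (nat_lit 0) (XT.nd (nat_lit 78) (nat_lit 304) (nat_lit 0) (XT.lf (nat_lit 0) (nat_lit 666694929) (nat_lit 228) (nat_lit 4050257254) (nat_lit 304) (nat_lit 5351195837) (nat_lit 62) (nat_lit 5) (nat_lit 65) (nat_lit 5) (nat_lit 66) (nat_lit 5) (nat_lit 330) (nat_lit 299) (nat_lit 271)) (XT.nd (nat_lit 78) (nat_lit 304) (nat_lit 0) (XT.lf (nat_lit 0) (nat_lit 7256865943) (nat_lit 228) (nat_lit 480763778) (nat_lit 304) (nat_lit 2600519935) (nat_lit 62) (nat_lit 5) (nat_lit 65) (nat_lit 5) (nat_lit 66) (nat_lit 5) (nat_lit 331) (nat_lit 299) (nat_lit 270)) (XT.lf (nat_lit 0) (nat_lit 310150766) (nat_lit 304) (nat_lit 7114511546) (nat_lit 76) (nat_lit 3195237756) (nat_lit 58) (nat_lit 5) (nat_lit 62) (nat_lit 5) (nat_lit 59) (nat_lit 5) (nat_lit 332) (nat_lit 299) (nat_lit 269)))) (XT.nd (nat_lit 78) (nat_lit 456) (nat_lit 0) (XT.lf (nat_lit 0) (nat_lit 3265958158) (nat_lit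 304) (nat_lit 542527758) (nat_lit 76) (nat_lit 7105824644) (nat_lit 58) (nat_lit 5) (nat_lit 62) (nat_lit 5) (nat_lit 59) (nat_lit 5) (nat_lit 333) (nat_lit 299) (nat_lit 268)) (XT.nd (nat_lit 78) (nat_lit 228) (nat_lit 0) (XT.lf (nat_lit 0) (nat_lit 6401060562) (nat_lit 304) (nat_lit 4759362061) (nat_lit 76) (nat_lit 61495169) (nat_lit 55) (nat_lit 5) (nat_lit 59) (nat_lit 5) (nat_lit 56) (nat_lit 5) (nat_lit 334) (nat_lit 299) (nat_lit 267)) (XT.lf (nat_lit 0) (nat_lit 2197333362) (nat_lit 228) (nat_lit 7532572412) (nat_lit 304) (nat_lit 1813199224) (nat_lit 52) (nat_lit 5) (nat_lit 55) (nat_lit 5) (nat_lit 56) (nat_lit 5) (nat_lit 335) (nat_lit 299) (nat_lit 266))))) (XT.nd (nat_lit 234) (nat_lit 228) (nat_lit 0) (XT.nd (nat_lit 78) (nat_lit 380) (nat_lit 0) (XT.lf (nat_lit 0) (nat_lit 1315193032) (nat_lit 304) (nat_lit 2334888624) (nat_lit 76) (nat_lit 8228594778) (nat_lit 51) (nat_lit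 5) (nat_lit 55) (nat_lit 5) (nat_lit 52) (nat_lit 5) (nat_lit 336) (nat_lit 299) (nat_lit 265)) (XT.nd (nat_lit 78) (nat_lit 228) (nat_lit 0) (XT.lf (nat_lit 0) (nat_lit 4560734428) (nat_lit 228) (nat_lit 7176468483) (nat_lit 76) (nat_lit 491296381) (nat_lit 49) (nat_lit 5) (nat_lit 52) (nat_lit 5) (nat_lit 50) (nat_lit 5) (nat_lit 337) (nat_lit 299) (nat_lit 264)) (XT.lf (nat_lit 0) (nat_lit 139972385) (nat_lit 228) (nat_lit 7866606602) (nat_lit 304) (nat_lit 4587373310) (nat_lit 46) (nat_lit 5) (nat_lit 49) (nat_lit 5) (nat_lit 50) (nat_lit 5) (nat_lit 338) (nat_lit 299) (nat_lit 263)))) (XT.nd (nat_lit 78) (nat_lit 228) (nat_lit 0) (XT.lf (nat_lit 0) (nat_lit 7973447558) (nat_lit 228) (nat_lit 3710145252) (nat_lit 304) (nat_lit 1291179682) (nat_lit 46) (nat_lit 5) (nat_lit 49) (nat_lit 5) (nat_lit 50) (nat_lit 5) (nat_lit 339) (nat_lit 299) (nat_lit 262)) (XT.nd (nat_lit 78) (nat_lit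 0) (nat_lit 0) (XT.lf (nat_lit 0) (nat_lit 2094090147) (nat_lit 228) (nat_lit 10600905437) (nat_lit 76) (nat_lit 678293360) (nat_lit 43) (nat_lit 5) (nat_lit 46) (nat_lit 5) (nat_lit 44) (nat_lit 5) (nat_lit 340) (nat_lit 299) (nat_lit 261)) (XT.lf (nat_lit 0) (nat_lit 5692338948) (nat_lit 228) (nat_lit 2858698011) (nat_lit 76) (nat_lit 5235313699) (nat_lit 43) (nat_lit 5) (nat_lit 46) (nat_lit 5) (nat_lit 44) (nat_lit 5) (nat_lit 341) (nat_lit 299) (nat_lit 260))))))))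
noncomputable def xc98 : XT := (XT.nd (nat_lit 1794) (nat_lit 836) (nat_lit 0) (XT.nd (nat_lit 858) (nat_lit 760) (nat_lit 0) (XT.nd (nat_lit 390) (nat_lit 456) (nat_lit 0) (XT.nd (nat_lit 156) (nat_lit 380) (nat_lit 0) (XT.nd (nat_lit 78) (nat_lit 0) (nat_lit 0) (XT.lf (nat_lit 0) (nat_lit 5350206070) (nat_lit 152) (nat_lit 4146870734) (nat_lit 228) (nat_lit 4721691406) (nat_lit 41) (nat_lit 5) (nat_lit 43) (nat_lit 5) (nat_lit 44) (nat_lit 5) (nat_lit 342) (nat_lit 299) (nat_lit 259)) (XT.lf (nat_lit 0) (nat_lit 13492523961) (nat_lit 228) (nat_lit 702280941) (nat_lit 76) (nat_lit 478008199) (nat_lit 41) (nat_lit 5) (nat_lit 44) (nat_lit 5) (nat_lit 42) (nat_lit 4) (nat_lit 343) (nat_lit 299) (nat_lit 258))) (XT.nd (nat_lit 78) (nat_lit 152) (nat_lit 0) (XT.lf (nat_lit 0) (nat_lit 2598118787) (nat_lit 228) (nat_lit 7213126446) (nat_lit 76) (nat_lit 5329302215) (nat_lit 38) (nat_lit 5)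 (nat_lit 41) (nat_lit 5) (nat_lit 39) (nat_lit 5) (nat_lit 344) (nat_lit 299) (nat_lit 257)) (XT.nd (nat_lit 78) (nat_lit 0) (nat_lit 0) (XT.lf (nat_lit 0) (nat_lit 1316083025) (nat_lit 152) (nat_lit 5189132384) (nat_lit 228) (nat_lit 9126539949) (nat_lit 36) (nat_lit 5) (nat_lit 38) (nat_lit 5) (nat_lit 39) (nat_lit 5) (nat_lit 345) (nat_lit 299) (nat_lit 256)) (XT.lf (nat_lit 0) (nat_lit 10435190743) (nat_lit 152) (nat_lit 242606831) (nat_lit 228) (nat_lit 5466244301) (nat_lit 36) (nat_lit 5) (nat_lit 38) (nat_lit 5) (nat_lit 39) (nat_lit 5) (nat_lit 346) (nat_lit 299) (nat_lit 255))))) (XT.nd (nat_lit 234) (nat_lit 152) (nat_lit 0) (XT.nd (nat_lit 78) (nat_lit 228) (nat_lit 0) (XT.lf (nat_lit 0) (nat_lit 3270871893) (nat_lit 76) (nat_lit 11866437833) (nat_lit 152) (nat_lit 1540741515) (nat_lit 35) (nat_lit 5) (nat_lit 36) (nat_lit 5) (nat_lit 37) (nat_lit 4) (nat_lit 347) (nat_lit 299)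 (nat_lit 254)) (XT.nd (nat_lit 78) (nat_lit 152) (nat_lit 0) (XT.lf (nat_lit 0) (nat_lit 2550858443) (nat_lit 152) (nat_lit 4467131833) (nat_lit 76) (nat_lit 10216155751) (nat_lit 34) (nat_lit 5) (nat_lit 36) (nat_lit 5) (nat_lit 35) (nat_lit 5) (nat_lit 348) (nat_lit 299) (nat_lit 253)) (XT.lf (nat_lit 0) (nat_lit 4972747521) (nat_lit 152) (nat_lit 1852709478) (nat_lit 228) (nat_lit 10989836129) (nat_lit 32) (nat_lit 5) (nat_lit 34) (nat_lit 5) (nat_lit 35) (nat_lit 5) (nat_lit 349) (nat_lit 299) (nat_lit 252)))) (XT.nd (nat_lit 78) (nat_lit 152) (nat_lit 0) (XT.lf (nat_lit 0) (nat_lit 11399481849) (nat_lit 228) (nat_lit 3520580439) (nat_lit 76) (nat_lit 3501169866) (nat_lit 32) (nat_lit 5) (nat_lit 35) (nat_lit 5) (nat_lit 33) (nat_lit 4) (nat_lit 350) (nat_lit 299) (nat_lit 251)) (XT.nd (nat_lit 78) (nat_lit 76) (nat_lit 0) (XT.lf (nat_lit 0) (nat_lit 6363069501) (nat_lit 76) (nat_lit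 9924144043) (nat_lit 152) (nat_lit 2766022774) (nat_lit 31) (nat_lit 5) (nat_lit 32) (nat_lit 5) (nat_lit 33) (nat_lit 4) (nat_lit 351) (nat_lit 299) (nat_lit 250)) (XT.lf (nat_lit 0) (nat_lit 1664089846) (nat_lit 152) (nat_lit 2956223528) (nat_lit 76) (nat_lit 15094410579) (nat_lit 30) (nat_lit 5) (nat_lit 32) (nat_lit 5) (nat_lit 31) (nat_lit 5) (nat_lit 352) (nat_lit 299) (nat_lit 249)))))) (XT.nd (nat_lit 468) (nat_lit 304) (nat_lit 0) (XT.nd (nat_lit 234) (nat_lit 228) (nat_lit 0) (XT.nd (nat_lit 78) (nat_lit 76) (nat_lit 0) (XT.lf (nat_lit 0) (nat_lit 6312547126) (nat_lit 228) (nat_lit 13039249848) (nat_lit 76) (nat_lit 1050747940) (nat_lit 28) (nat_lit 5) (nat_lit 31) (nat_lit 5) (nat_lit 29) (nat_lit 4) (nat_lit 353) (nat_lit 299) (nat_lit 248)) (XT.nd (nat_lit 78) (nat_lit 76) (nat_lit 0) (XT.lf (nat_lit 0) (nat_lit 11278050902) (nat_lit 228) (nat_lit 2972019213) (nat_lit 76) (nat_lit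 6870470819) (nat_lit 28) (nat_lit 5) (nat_lit 31) (nat_lit 5) (nat_lit 29) (nat_lit 4) (nat_lit 354) (nat_lit 299) (nat_lit 247)) (XT.lf (nat_lit 0) (nat_lit 7776394762) (nat_lit 76) (nat_lit 8796841635) (nat_lit 152) (nat_lit 5297144500) (nat_lit 27) (nat_lit 5) (nat_lit 28) (nat_lit 5) (nat_lit 29) (nat_lit 4) (nat_lit 355) (nat_lit 299) (nat_lit 246)))) (XT.nd (nat_lit 78) (nat_lit 228) (nat_lit 0) (XT.lf (nat_lit 0) (nat_lit 19095486156) (nat_lit 76) (nat_lit 3048836074) (nat_lit 152) (nat_lit 512847355) (nat_lit 27) (nat_lit 5) (nat_lit 28) (nat_lit 5) (nat_lit 29) (nat_lit 4) (nat_lit 356) (nat_lit 299) (nat_lit 245)) (XT.nd (nat_lit 78) (nat_lit 0) (nat_lit 0) (XT.lf (nat_lit 0) (nat_lit 4496300039) (nat_lit 228) (nat_lit 15922746098) (nat_lit 76) (nat_lit 3054242621) (nat_lit 24) (nat_lit 5) (nat_lit 27) (nat_lit 5) (nat_lit 25) (nat_lit 4) (nat_lit 357) (nat_lit 299) (nat_lit 244))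 (XT.lf (nat_lit 0) (nat_lit 9812311330) (nat_lit 228) (nat_lit 5112718709) (nat_lit 76) (nat_lit 9401093311) (nat_lit 24) (nat_lit 5) (nat_lit 27) (nat_lit 5) (nat_lit 25) (nat_lit 4) (nat_lit 358) (nat_lit 299) (nat_lit 243))))) (XT.nd (nat_lit 234) (nat_lit 76) (nat_lit 0) (XT.nd (nat_lit 78) (nat_lit 152) (nat_lit 0) (XT.lf (nat_lit 0) (nat_lit 6376982521) (nat_lit 76) (nat_lit 9080848923) (nat_lit 152) (nat_lit 9760594149) (nat_lit 23) (nat_lit 5) (nat_lit 24) (nat_lit 5) (nat_lit 25) (nat_lit 4) (nat_lit 359) (nat_lit 299) (nat_lit 242)) (XT.nd (nat_lit 78) (nat_lit 152) (nat_lit 0) (XT.lf (nat_lit 0) (nat_lit 18554787338) (nat_lit 76) (nat_lit 2882282231) (nat_lit 152) (nat_lit 4715712076) (nat_lit 23) (nat_lit 5) (nat_lit 24) (nat_lit 5) (nat_lit 25) (nat_lit 4) (nat_lit 360) (nat_lit 299) (nat_lit 241)) (XT.lf (nat_lit 0) (nat_lit 652916238) (nat_lit 152) (nat_lit 22915851765) (nat_lit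 76) (nat_lit 3560137866) (nat_lit 21) (nat_lit 5) (nat_lit 23) (nat_lit 5) (nat_lit 22) (nat_lit 4) (nat_lit 361) (nat_lit 299) (nat_lit 240)))) (XT.nd (nat_lit 78) (nat_lit 76) (nat_lit 0) (XT.lf (nat_lit 0) (nat_lit 6275740594) (nat_lit 152) (nat_lit 11457852108) (nat_lit 76) (nat_lit 10409175416) (nat_lit 21) (nat_lit 5) (nat_lit 23) (nat_lit 5) (nat_lit 22) (nat_lit 4) (nat_lit 362) (nat_lit 299) (nat_lit 239)) (XT.nd (nat_lit 78) (nat_lit 0) (nat_lit 0) (XT.lf (nat_lit 0) (nat_lit 530775656) (nat_lit 76) (nat_lit 11625034357) (nat_lit 152) (nat_lit 17052717157) (nat_lit 20) (nat_lit 5) (nat_lit 21) (nat_lit 5) (nat_lit 22) (nat_lit 4) (nat_lit 363) (nat_lit 299) (nat_lit 238)) (XT.lf (nat_lit 0) (nat_lit 13458321356) (nat_lit 76) (nat_lit 5034045001) (nat_lit 152) (nat_lit 11827092104) (nat_lit 20) (nat_lit 5) (nat_lit 21) (nat_lit 5) (nat_lit 22) (nat_lit 4) (nat_lit 364) (nat_lit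 299) (nat_lit 237))))))) (XT.nd (nat_lit 936) (nat_lit 380) (nat_lit 0) (XT.nd (nat_lit 468) (nat_lit 228) (nat_lit 0) (XT.nd (nat_lit 234) (nat_lit 76) (nat_lit 0) (XT.nd (nat_lit 78) (nat_lit 152) (nat_lit 0) (XT.lf (nat_lit 0) (nat_lit 25144748397) (nat_lit 152) (nat_lit 4539786542) (nat_lit 0) (nat_lit 1801459540) (nat_lit 20) (nat_lit 5) (nat_lit 22) (nat_lit 4) (nat_lit 20) (nat_lit 4) (nat_lit 365) (nat_lit 299) (nat_lit 236)) (XT.nd (nat_lit 78) (nat_lit 76) (nat_lit 0) (XT.lf (nat_lit 0) (nat_lit 8534313639) (nat_lit 76) (nat_lit 23782200470) (nat_lit 76) (nat_lit 385012634) (nat_lit 19) (nat_lit 4) (nat_lit 20) (nat_lit 5) (nat_lit 20) (nat_lit 4) (nat_lit 366) (nat_lit 299) (nat_lit 235)) (XT.lf (nat_lit 0) (nat_lit 5730404411) (nat_lit 152) (nat_lit 11701191152) (nat_lit 76) (nat_lit 16539204534) (nat_lit 18) (nat_lit 5) (nat_lit 20) (nat_lit 5) (nat_lit 19) (nat_lit 4) (nat_lit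 367) (nat_lit 299) (nat_lit 234)))) (XT.nd (nat_lit 78) (nat_lit 0) (nat_lit 0) (XT.lf (nat_lit 0) (nat_lit 1374343755) (nat_lit 76) (nat_lit 10758218153) (nat_lit 152) (nat_lit 23170970827) (nat_lit 17) (nat_lit 5) (nat_lit 18) (nat_lit 5) (nat_lit 19) (nat_lit 4) (nat_lit 368) (nat_lit 299) (nat_lit 233)) (XT.nd (nat_lit 78) (nat_lit 0) (nat_lit 0) (XT.lf (nat_lit 0) (nat_lit 15459260367) (nat_lit 76) (nat_lit 3566704749) (nat_lit 152) (nat_lit 17668386310) (nat_lit 17) (nat_lit 5) (nat_lit 18) (nat_lit 5) (nat_lit 19) (nat_lit 4) (nat_lit 369) (nat_lit 299) (nat_lit 232)) (XT.lf (nat_lit 0) (nat_lit 26300154403) (nat_lit 152) (nat_lit 8017660507) (nat_lit 0) (nat_lit 3835096359) (nat_lit 17) (nat_lit 5) (nat_lit 19) (nat_lit 4) (nat_lit 17) (nat_lit 4) (nat_lit 370) (nat_lit 299) (nat_lit 231))))) (XT.nd (nat_lit 234) (nat_lit 76) (nat_lit 0) (XT.nd (nat_lit 78) (nat_lit 76) (nat_lit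 0) (XT.lf (nat_lit 0) (nat_lit 5945645103) (nat_lit 76) (nat_lit 28118857766) (nat_lit 76) (nat_lit 5613579474) (nat_lit 16) (nat_lit 4) (nat_lit 17) (nat_lit 5) (nat_lit 17) (nat_lit 4) (nat_lit 371) (nat_lit 299) (nat_lit 230)) (XT.nd (nat_lit 78) (nat_lit 0) (nat_lit 0) (XT.lf (nat_lit 0) (nat_lit 1020767986) (nat_lit 152) (nat_lit 20451008917) (nat_lit 76) (nat_lit 19801347423) (nat_lit 15) (nat_lit 5) (nat_lit 17) (nat_lit 5) (nat_lit 16) (nat_lit 4) (nat_lit 372) (nat_lit 299) (nat_lit 229)) (XT.lf (nat_lit 0) (nat_lit 7774570178) (nat_lit 152) (nat_lit 6642195374) (nat_lit 76) (nat_lit 28527736986) (nat_lit 15) (nat_lit 5) (nat_lit 17) (nat_lit 5) (nat_lit 16) (nat_lit 4) (nat_lit 373) (nat_lit 299) (nat_lit 228)))) (XT.nd (nat_lit 78) (nat_lit 0) (nat_lit 0) (XT.lf (nat_lit 0) (nat_lit 8072908719) (nat_lit 76) (nat_lit 6896709193) (nat_lit 152) (nat_lit 29724658687) (nat_lit 14)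 (nat_lit 5) (nat_lit 15) (nat_lit 5) (nat_lit 16) (nat_lit 4) (nat_lit 374) (nat_lit 299) (nat_lit 227)) (XT.nd (nat_lit 78) (nat_lit 0) (nat_lit 0) (XT.lf (nat_lit 0) (nat_lit 22631976817) (nat_lit 152) (nat_lit 22831638277) (nat_lit 0) (nat_lit 1062550818) (nat_lit 14) (nat_lit 5) (nat_lit 16) (nat_lit 4) (nat_lit 14) (nat_lit 4) (nat_lit 375) (nat_lit 299) (nat_lit 226)) (XT.lf (nat_lit 0) (nat_lit 30769203290) (nat_lit 152) (nat_lit 8506098868) (nat_lit 0) (nat_lit 9169764323) (nat_lit 14) (nat_lit 5) (nat_lit 16) (nat_lit 4) (nat_lit 14) (nat_lit 4) (nat_lit 376) (nat_lit 299) (nat_lit 225)))))) (XT.nd (nat_lit 468) (nat_lit 152) (nat_lit 0) (XT.nd (nat_lit 234) (nat_lit 76) (nat_lit 0) (XT.nd (nat_lit 78) (nat_lit 76) (nat_lit 0) (XT.lf (nat_lit 0) (nat_lit 6711857074) (nat_lit 76) (nat_lit 32685928547) (nat_lit 76) (nat_lit 11057905800) (nat_lit 13) (nat_lit 4) (nat_lit 14) (nat_lit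 5) (nat_lit 14) (nat_lit 4) (nat_lit 377) (nat_lit 299) (nat_lit 224)) (XT.nd (nat_lit 78) (nat_lit 76) (nat_lit 0) (XT.lf (nat_lit 0) (nat_lit 22947965478) (nat_lit 76) (nat_lit 25633962428) (nat_lit 76) (nat_lit 3978717034) (nat_lit 13) (nat_lit 4) (nat_lit 14) (nat_lit 5) (nat_lit 14) (nat_lit 4) (nat_lit 378) (nat_lit 299) (nat_lit 223)) (XT.lf (nat_lit 0) (nat_lit 3324577858) (nat_lit 152) (nat_lit 14865787113) (nat_lit 76) (nat_lit 36578752510) (nat_lit 12) (nat_lit 5) (nat_lit 14) (nat_lit 5) (nat_lit 13) (nat_lit 4) (nat_lit 379) (nat_lit 299) (nat_lit 222)))) (XT.nd (nat_lit 78) (nat_lit 0) (nat_lit 0) (XT.lf (nat_lit 0) (nat_lit 535225122) (nat_lit 76) (nat_lit 10314086384) (nat_lit 152) (nat_lit 46235944998) (nat_lit 11) (nat_lit 5) (nat_lit 12) (nat_lit 5) (nat_lit 13) (nat_lit 4) (nat_lit 380) (nat_lit 299) (nat_lit 221)) (XT.nd (nat_lit 78) (nat_lit 0) (nat_lit 0) (XT.lf (nat_lit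 0) (nat_lit 17187830743) (nat_lit 76) (nat_lit 1796174210) (nat_lit 152) (nat_lit 40521514557) (nat_lit 11) (nat_lit 5) (nat_lit 12) (nat_lit 5) (nat_lit 13) (nat_lit 4) (nat_lit 381) (nat_lit 299) (nat_lit 220)) (XT.lf (nat_lit 0) (nat_lit 27619604594) (nat_lit 152) (nat_lit 27518857655) (nat_lit 0) (nat_lit 6903627878) (nat_lit 11) (nat_lit 5) (nat_lit 13) (nat_lit 4) (nat_lit 11) (nat_lit 4) (nat_lit 382) (nat_lit 299) (nat_lit 219))))) (XT.nd (nat_lit 234) (nat_lit 76) (nat_lit 0) (XT.nd (nat_lit 78) (nat_lit 76) (nat_lit 0) (XT.lf (nat_lit 0) (nat_lit 36699836295) (nat_lit 152) (nat_lit 12041467647) (nat_lit 0) (nat_lit 15963545621) (nat_lit 11) (nat_lit 5) (nat_lit 13) (nat_lit 4) (nat_lit 11) (nat_lit 4) (nat_lit 383) (nat_lit 299) (nat_lit 218)) (XT.nd (nat_lit 78) (nat_lit 0) (nat_lit 0) (XT.lf (nat_lit 0) (nat_lit 4317564525) (nat_lit 76) (nat_lit 41968121099) (nat_lit 76) (nat_lit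 21212483799) (nat_lit 10) (nat_lit 4) (nat_lit 11) (nat_lit 5) (nat_lit 11) (nat_lit 4) (nat_lit 384) (nat_lit 299) (nat_lit 217)) (XT.lf (nat_lit 0) (nat_lit 21882675096) (nat_lit 76) (nat_lit 34656562477) (nat_lit 76) (nat_lit 13882499818) (nat_lit 10) (nat_lit 4) (nat_lit 11) (nat_lit 5) (nat_lit 11) (nat_lit 4) (nat_lit 385) (nat_lit 299) (nat_lit 216)))) (XT.nd (nat_lit 78) (nat_lit 76) (nat_lit 0) (XT.lf (nat_lit 0) (nat_lit 40297540455) (nat_lit 76) (nat_lit 26993147685) (nat_lit 76) (nat_lit 6201537065) (nat_lit 10) (nat_lit 4) (nat_lit 11) (nat_lit 5) (nat_lit 11) (nat_lit 4) (nat_lit 386) (nat_lit 299) (nat_lit 215)) (XT.nd (nat_lit 78) (nat_lit 0) (nat_lit 0) (XT.lf (nat_lit 0) (nat_lit 1789522762) (nat_lit 152) (nat_lit 17139801301) (nat_lit 76) (nat_lit 57786176324) (nat_lit 9) (nat_lit 5) (nat_lit 11) (nat_lit 5) (nat_lit 10) (nat_lit 4) (nat_lit 387) (nat_lit 299) (nat_lit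 214)) (XT.lf (nat_lit 0) (nat_lit 9958096353) (nat_lit 152) (nat_lit 410141957) (nat_lit 76) (nat_lit 69727301293) (nat_lit 9) (nat_lit 5) (nat_lit 11) (nat_lit 5) (nat_lit 10) (nat_lit 4) (nat_lit 388) (nat_lit 299) (nat_lit 213))))))))
noncomputable def xc99 : XT := (XT.nd (nat_lit 1794) (nat_lit 152) (nat_lit 0) (XT.nd (nat_lit 858) (nat_lit 152) (nat_lit 0) (XT.nd (nat_lit 390) (nat_lit 152) (nat_lit 0) (XT.nd (nat_lit 156) (nat_lit 0) (nat_lit 0) (XT.nd (nat_lit 78) (nat_lit 0) (nat_lit 0) (XT.lf (nat_lit 0) (nat_lit 17697375720) (nat_lit 76) (nat_lit 1101050518) (nat_lit 152) (nat_lit 64832990216) (nat_lit 8) (nat_lit 5) (nat_lit 9) (nat_lit 5) (nat_lit 10) (nat_lit 4) (nat_lit 389) (nat_lit 299) (nat_lit 212)) (XT.lf (nat_lit 0) (nat_lit 28209632412) (nat_lit 152) (nat_lit 50779176360) (nat_lit 0) (nat_lit 8348837345) (nat_lit 8) (nat_lit 5) (nat_lit 10) (nat_lit 4) (nat_lit 8) (nat_lit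 4) (nat_lit 390) (nat_lit 299) (nat_lit 211))) (XT.nd (nat_lit 78) (nat_lit 0) (nat_lit 0) (XT.lf (nat_lit 0) (nat_lit 38097133994) (nat_lit 152) (nat_lit 34908524010) (nat_lit 0) (nat_lit 18223244368) (nat_lit 8) (nat_lit 5) (nat_lit 10) (nat_lit 4) (nat_lit 8) (nat_lit 4) (nat_lit 391) (nat_lit 299) (nat_lit 210)) (XT.nd (nat_lit 78) (nat_lit 0) (nat_lit 0) (XT.lf (nat_lit 0) (nat_lit 48467282170) (nat_lit 152) (nat_lit 18267105933) (nat_lit 0) (nat_lit 28580921536) (nat_lit 8) (nat_lit 5) (nat_lit 10) (nat_lit 4) (nat_lit 8) (nat_lit 4) (nat_lit 392) (nat_lit 299) (nat_lit 209)) (XT.lf (nat_lit 0) (nat_lit 59344767769) (nat_lit 152) (nat_lit 815299706) (nat_lit 0) (nat_lit 39446529984) (nat_lit 8) (nat_lit 5) (nat_lit 10) (nat_lit 4) (nat_lit 8) (nat_lit 4) (nat_lit 393) (nat_lit 299) (nat_lit 208))))) (XT.nd (nat_lit 234) (nat_lit 76) (nat_lit 0) (XT.nd (nat_lit 78) (nat_lit 0) (nat_lit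 0) (XT.lf (nat_lit 0) (nat_lit 18066693615) (nat_lit 76) (nat_lit 52970867670) (nat_lit 76) (nat_lit 33061318314) (nat_lit 7) (nat_lit 4) (nat_lit 8) (nat_lit 5) (nat_lit 8) (nat_lit 4) (nat_lit 394) (nat_lit 299) (nat_lit 207)) (XT.nd (nat_lit 78) (nat_lit 0) (nat_lit 0) (XT.lf (nat_lit 0) (nat_lit 37900774795) (nat_lit 76) (nat_lit 45417578464) (nat_lit 76) (nat_lit 25497256182) (nat_lit 7) (nat_lit 4) (nat_lit 8) (nat_lit 5) (nat_lit 8) (nat_lit 4) (nat_lit 395) (nat_lit 299) (nat_lit 206)) (XT.lf (nat_lit 0) (nat_lit 58707210346) (nat_lit 76) (nat_lit 37496023329) (nat_lit 76) (nat_lit 17565441118) (nat_lit 7) (nat_lit 4) (nat_lit 8) (nat_lit 5) (nat_lit 8) (nat_lit 4) (nat_lit 396) (nat_lit 299) (nat_lit 205)))) (XT.nd (nat_lit 78) (nat_lit 76) (nat_lit 0) (XT.lf (nat_lit 0) (nat_lit 80535539399) (nat_lit 76) (nat_lit 29187341421) (nat_lit 76) (nat_lit 9246987848) (nat_lit 7) (nat_lit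 4) (nat_lit 8) (nat_lit 5) (nat_lit 8) (nat_lit 4) (nat_lit 397) (nat_lit 299) (nat_lit 204)) (XT.nd (nat_lit 78) (nat_lit 76) (nat_lit 0) (XT.lf (nat_lit 0) (nat_lit 103437734168) (nat_lit 76) (nat_lit 20471750162) (nat_lit 76) (nat_lit 522090531) (nat_lit 7) (nat_lit 4) (nat_lit 8) (nat_lit 5) (nat_lit 8) (nat_lit 4) (nat_lit 398) (nat_lit 299) (nat_lit 203)) (XT.lf (nat_lit 0) (nat_lit 8353809720) (nat_lit 152) (nat_lit 2833212616) (nat_lit 76) (nat_lit 118973038156) (nat_lit 6) (nat_lit 5) (nat_lit 8) (nat_lit 5) (nat_lit 7) (nat_lit 4) (nat_lit 399) (nat_lit 299) (nat_lit 202)))))) (XT.nd (nat_lit 468) (nat_lit 76) (nat_lit 0) (XT.nd (nat_lit 234) (nat_lit 0) (nat_lit 0) (XT.nd (nat_lit 78) (nat_lit 0) (nat_lit 0) (XT.lf (nat_lit 0) (nat_lit 16746691362) (nat_lit 76) (nat_lit 1162408528) (nat_lit 152) (nat_lit 118252786688) (nat_lit 5) (nat_lit 5) (nat_lit 6) (nat_lit 5) (nat_lit 7)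 (nat_lit 4) (nat_lit 400) (nat_lit 299) (nat_lit 201)) (XT.nd (nat_lit 78) (nat_lit 0) (nat_lit 0) (XT.lf (nat_lit 0) (nat_lit 28128816617) (nat_lit 152) (nat_lit 105220650470) (nat_lit 0) (nat_lit 9105004868) (nat_lit 5) (nat_lit 5) (nat_lit 7) (nat_lit 4) (nat_lit 5) (nat_lit 4) (nat_lit 401) (nat_lit 299) (nat_lit 200)) (XT.lf (nat_lit 0) (nat_lit 38870674255) (nat_lit 152) (nat_lit 90350884662) (nat_lit 0) (nat_lit 19839570967) (nat_lit 5) (nat_lit 5) (nat_lit 7) (nat_lit 4) (nat_lit 5) (nat_lit 4) (nat_lit 402) (nat_lit 299) (nat_lit 199)))) (XT.nd (nat_lit 78) (nat_lit 0) (nat_lit 0) (XT.lf (nat_lit 0) (nat_lit 50142100203) (nat_lit 152) (nat_lit 74752345135) (nat_lit 0) (nat_lit 31104052590) (nat_lit 5) (nat_lit 5) (nat_lit 7) (nat_lit 4) (nat_lit 5) (nat_lit 4) (nat_lit 403) (nat_lit 299) (nat_lit 198)) (XT.nd (nat_lit 78) (nat_lit 0) (nat_lit 0) (XT.lf (nat_lit 0) (nat_lit 61969931188)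 (nat_lit 152) (nat_lit 58387892507) (nat_lit 0) (nat_lit 42925269934) (nat_lit 5) (nat_lit 5) (nat_lit 7) (nat_lit 4) (nat_lit 5) (nat_lit 4) (nat_lit 404) (nat_lit 299) (nat_lit 197)) (XT.lf (nat_lit 0) (nat_lit 74382328713) (nat_lit 152) (nat_lit 41218563797) (nat_lit 0) (nat_lit 55331368752) (nat_lit 5) (nat_lit 5) (nat_lit 7) (nat_lit 4) (nat_lit 5) (nat_lit 4) (nat_lit 405) (nat_lit 299) (nat_lit 196))))) (XT.nd (nat_lit 234) (nat_lit 0) (nat_lit 0) (XT.nd (nat_lit 78) (nat_lit 76) (nat_lit 0) (XT.lf (nat_lit 0) (nat_lit 87408846105) (nat_lit 152) (nat_lit 23203479650) (nat_lit 0) (nat_lit 68351887375) (nat_lit 5) (nat_lit 5) (nat_lit 7) (nat_lit 4) (nat_lit 5) (nat_lit 4) (nat_lit 406) (nat_lit 299) (nat_lit 195)) (XT.nd (nat_lit 78) (nat_lit 76) (nat_lit 0) (XT.lf (nat_lit 0) (nat_lit 101080498881) (nat_lit 152) (nat_lit 4299747009) (nat_lit 0) (nat_lit 82017827039) (nat_lit 5) (nat_lit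 5) (nat_lit 7) (nat_lit 4) (nat_lit 5) (nat_lit 4) (nat_lit 407) (nat_lit 299) (nat_lit 194)) (XT.lf (nat_lit 0) (nat_lit 16051387660) (nat_lit 76) (nat_lit 99629058082) (nat_lit 76) (nat_lit 80560945180) (nat_lit 4) (nat_lit 4) (nat_lit 5) (nat_lit 5) (nat_lit 5) (nat_lit 4) (nat_lit 408) (nat_lit 299) (nat_lit 193)))) (XT.nd (nat_lit 78) (nat_lit 0) (nat_lit 0) (XT.lf (nat_lit 0) (nat_lit 37558013275) (nat_lit 76) (nat_lit 93519402914) (nat_lit 76) (nat_lit 74446108051) (nat_lit 4) (nat_lit 4) (nat_lit 5) (nat_lit 5) (nat_lit 5) (nat_lit 4) (nat_lit 409) (nat_lit 299) (nat_lit 192)) (XT.nd (nat_lit 78) (nat_lit 0) (nat_lit 0) (XT.lf (nat_lit 0) (nat_lit 60129167033) (nat_lit 76) (nat_lit 87109551884) (nat_lit 76) (nat_lit 68031321820) (nat_lit 4) (nat_lit 4) (nat_lit 5) (nat_lit 5) (nat_lit 5) (nat_lit 4) (nat_lit 410) (nat_lit 299) (nat_lit 191)) (XT.lf (nat_lit 0) (nat_lit 83818589776)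 (nat_lit 76) (nat_lit 80384243444) (nat_lit 76) (nat_lit 61301313188) (nat_lit 4) (nat_lit 4) (nat_lit 5) (nat_lit 5) (nat_lit 5) (nat_lit 4) (nat_lit 411) (nat_lit 299) (nat_lit 190))))))) (XT.nd (nat_lit 936) (nat_lit 0) (nat_lit 0) (XT.nd (nat_lit 468) (nat_lit 152) (nat_lit 0) (XT.nd (nat_lit 234) (nat_lit 0) (nat_lit 0) (XT.nd (nat_lit 78) (nat_lit 0) (nat_lit 0) (XT.lf (nat_lit 0) (nat_lit 108682684891) (nat_lit 76) (nat_lit 73327464953) (nat_lit 76) (nat_lit 54240058324) (nat_lit 4) (nat_lit 4) (nat_lit 5) (nat_lit 5) (nat_lit 5) (nat_lit 4) (nat_lit 412) (nat_lit 299) (nat_lit 189)) (XT.nd (nat_lit 78) (nat_lit 0) (nat_lit 0) (XT.lf (nat_lit 0) (nat_lit 134780652604) (nat_lit 76) (nat_lit 65922414558) (nat_lit 76) (nat_lit 46830744716) (nat_lit 4) (nat_lit 4) (nat_lit 5) (nat_lit 5) (nat_lit 5) (nat_lit 4) (nat_lit 413) (nat_lit 299) (nat_lit 188)) (XT.lf (nat_lit 0) (nat_lit 162174630935)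 (nat_lit 76) (nat_lit 58151461187) (nat_lit 76) (nat_lit 39055731143) (nat_lit 4) (nat_lit 4) (nat_lit 5) (nat_lit 5) (nat_lit 5) (nat_lit 4) (nat_lit 414) (nat_lit 299) (nat_lit 187)))) (XT.nd (nat_lit 78) (nat_lit 0) (nat_lit 0) (XT.lf (nat_lit 0) (nat_lit 190929843641) (nat_lit 76) (nat_lit 49996102570) (nat_lit 76) (nat_lit 30896505667) (nat_lit 4) (nat_lit 4) (nat_lit 5) (nat_lit 5) (nat_lit 5) (nat_lit 4) (nat_lit 415) (nat_lit 299) (nat_lit 186)) (XT.nd (nat_lit 78) (nat_lit 0) (nat_lit 0) (XT.lf (nat_lit 0) (nat_lit 221114755515) (nat_lit 76) (nat_lit 41436921187) (nat_lit 76) (nat_lit 22333641560) (nat_lit 4) (nat_lit 4) (nat_lit 5) (nat_lit 5) (nat_lit 5) (nat_lit 4) (nat_lit 416) (nat_lit 299) (nat_lit 185)) (XT.lf (nat_lit 0) (nat_lit 252801235393) (nat_lit 76) (nat_lit 32453538033) (nat_lit 76) (nat_lit 13346751051) (nat_lit 4) (nat_lit 4) (nat_lit 5) (nat_lit 5) (nat_lit 5)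 (nat_lit 4) (nat_lit 417) (nat_lit 299) (nat_lit 184))))) (XT.nd (nat_lit 234) (nat_lit 0) (nat_lit 0) (XT.nd (nat_lit 78) (nat_lit 152) (nat_lit 0) (XT.lf (nat_lit 0) (nat_lit 286064727276) (nat_lit 76) (nat_lit 23024564102) (nat_lit 76) (nat_lit 3914436781) (nat_lit 4) (nat_lit 4) (nat_lit 5) (nat_lit 5) (nat_lit 5) (nat_lit 4) (nat_lit 418) (nat_lit 299) (nat_lit 183)) (XT.nd (nat_lit 78) (nat_lit 76) (nat_lit 0) (XT.lf (nat_lit 0) (nat_lit 5794177465) (nat_lit 152) (nat_lit 7235244792) (nat_lit 76) (nat_lit 315092125289) (nat_lit 3) (nat_lit 5) (nat_lit 5) (nat_lit 5) (nat_lit 4) (nat_lit 4) (nat_lit 419) (nat_lit 299) (nat_lit 182)) (XT.lf (nat_lit 0) (nat_lit 13825276784) (nat_lit 76) (nat_lit 2243803784) (nat_lit 152) (nat_lit 327912348746) (nat_lit 2) (nat_lit 5) (nat_lit 3) (nat_lit 5) (nat_lit 4) (nat_lit 4) (nat_lit 420) (nat_lit 299) (nat_lit 181)))) (XT.nd (nat_lit 78) (nat_lit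 0) (nat_lit 0) (XT.lf (nat_lit 0) (nat_lit 27120618318) (nat_lit 152) (nat_lit 324588709109) (nat_lit 0) (nat_lit 8911833659) (nat_lit 2) (nat_lit 5) (nat_lit 4) (nat_lit 4) (nat_lit 2) (nat_lit 4) (nat_lit 421) (nat_lit 299) (nat_lit 180)) (XT.nd (nat_lit 78) (nat_lit 0) (nat_lit 0) (XT.lf (nat_lit 0) (nat_lit 38758247136) (nat_lit 152) (nat_lit 318786111739) (nat_lit 0) (nat_lit 20546845235) (nat_lit 2) (nat_lit 5) (nat_lit 4) (nat_lit 4) (nat_lit 2) (nat_lit 4) (nat_lit 422) (nat_lit 299) (nat_lit 179)) (XT.lf (nat_lit 0) (nat_lit 50974643599) (nat_lit 152) (nat_lit 312699512646) (nat_lit 0) (nat_lit 32760749086) (nat_lit 2) (nat_lit 5) (nat_lit 4) (nat_lit 4) (nat_lit 2) (nat_lit 4) (nat_lit 423) (nat_lit 299) (nat_lit 178)))))) (XT.nd (nat_lit 468) (nat_lit 0) (nat_lit 0) (XT.nd (nat_lit 234) (nat_lit 0) (nat_lit 0) (XT.nd (nat_lit 78) (nat_lit 0) (nat_lit 0) (XT.lf (nat_lit 0) (nat_lit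 63798894365) (nat_lit 152) (nat_lit 306314419927) (nat_lit 0) (nat_lit 45582625935) (nat_lit 2) (nat_lit 5) (nat_lit 4) (nat_lit 4) (nat_lit 2) (nat_lit 4) (nat_lit 424) (nat_lit 299) (nat_lit 177)) (XT.nd (nat_lit 78) (nat_lit 0) (nat_lit 0) (XT.lf (nat_lit 0) (nat_lit 77261533363) (nat_lit 152) (nat_lit 299615630981) (nat_lit 0) (nat_lit 59043004061) (nat_lit 2) (nat_lit 5) (nat_lit 4) (nat_lit 4) (nat_lit 2) (nat_lit 4) (nat_lit 425) (nat_lit 299) (nat_lit 176)) (XT.lf (nat_lit 0) (nat_lit 91394614497) (nat_lit 152) (nat_lit 292587196310) (nat_lit 0) (nat_lit 73173931982) (nat_lit 2) (nat_lit 5) (nat_lit 4) (nat_lit 4) (nat_lit 2) (nat_lit 4) (nat_lit 426) (nat_lit 299) (nat_lit 175)))) (XT.nd (nat_lit 78) (nat_lit 0) (nat_lit 0) (XT.lf (nat_lit 0) (nat_lit 106231787958) (nat_lit 152) (nat_lit 285212381545) (nat_lit 0) (nat_lit 88009054766) (nat_lit 2) (nat_lit 5) (nat_lit 4) (nat_lit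 4) (nat_lit 2) (nat_lit 4) (nat_lit 427) (nat_lit 299) (nat_lit 174)) (XT.nd (nat_lit 78) (nat_lit 0) (nat_lit 0) (XT.lf (nat_lit 0) (nat_lit 121808380352) (nat_lit 152) (nat_lit 277473627604) (nat_lit 0) (nat_lit 103583694133) (nat_lit 2) (nat_lit 5) (nat_lit 4) (nat_lit 4) (nat_lit 2) (nat_lit 4) (nat_lit 428) (nat_lit 299) (nat_lit 173)) (XT.lf (nat_lit 0) (nat_lit 138161478803) (nat_lit 152) (nat_lit 269352508883) (nat_lit 0) (nat_lit 119934932558) (nat_lit 2) (nat_lit 5) (nat_lit 4) (nat_lit 4) (nat_lit 2) (nat_lit 4) (nat_lit 429) (nat_lit 299) (nat_lit 172))))) (XT.nd (nat_lit 234) (nat_lit 0) (nat_lit 0) (XT.nd (nat_lit 78) (nat_lit 0) (nat_lit 0) (XT.lf (nat_lit 0) (nat_lit 155330019259) (nat_lit 152) (nat_lit 260829689385) (nat_lit 0) (nat_lit 137101701561) (nat_lit 2) (nat_lit 5) (nat_lit 4) (nat_lit 4) (nat_lit 2) (nat_lit 4) (nat_lit 430) (nat_lit 299) (nat_lit 171)) (XT.nd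 (nat_lit 78) (nat_lit 0) (nat_lit 0) (XT.lf (nat_lit 0) (nat_lit 173354879197) (nat_lit 152) (nat_lit 251884876681) (nat_lit 0) (nat_lit 155124874402) (nat_lit 2) (nat_lit 5) (nat_lit 4) (nat_lit 4) (nat_lit 2) (nat_lit 4) (nat_lit 431) (nat_lit 299) (nat_lit 170)) (XT.lf (nat_lit 0) (nat_lit 192278974952) (nat_lit 152) (nat_lit 242496773599) (nat_lit 0) (nat_lit 174047363396) (nat_lit 2) (nat_lit 5) (nat_lit 4) (nat_lit 4) (nat_lit 2) (nat_lit 4) (nat_lit 432) (nat_lit 299) (nat_lit 169)))) (XT.nd (nat_lit 78) (nat_lit 0) (nat_lit 0) (XT.lf (nat_lit 0) (nat_lit 212147363893) (nat_lit 152) (nat_lit 232643027513) (nat_lit 0) (nat_lit 193914222090) (nat_lit 2) (nat_lit 5) (nat_lit 4) (nat_lit 4) (nat_lit 2) (nat_lit 4) (nat_lit 433) (nat_lit 299) (nat_lit 168)) (XT.nd (nat_lit 78) (nat_lit 0) (nat_lit 0) (XT.lf (nat_lit 0) (nat_lit 233007351708) (nat_lit 152) (nat_lit 222300177122) (nat_lit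 0) (nat_lit 214772752527) (nat_lit 2) (nat_lit 5) (nat_lit 4) (nat_lit 4) (nat_lit 2) (nat_lit 4) (nat_lit 434) (nat_lit 299) (nat_lit 167)) (XT.lf (nat_lit 0) (nat_lit 254908605036) (nat_lit 152) (nat_lit 211443596592) (nat_lit 0) (nat_lit 236672617875) (nat_lit 2) (nat_lit 5) (nat_lit 4) (nat_lit 4) (nat_lit 2) (nat_lit 4) (nat_lit 435) (nat_lit 299) (nat_lit 166))))))))
noncomputable def xc100 : XT := (XT.nd (nat_lit 1794) (nat_lit 3876) (nat_lit 0) (XT.nd (nat_lit 858) (nat_lit 4028) (nat_lit 0) (XT.nd (nat_lit 390) (nat_lit 1140) (nat_lit 0) (XT.nd (nat_lit 156) (nat_lit 304) (nat_lit 0) (XT.nd (nat_lit 78) (nat_lit 76) (nat_lit 0) (XT.lf (nat_lit 0) (nat_lit 1073741823) (nat_lit 0) (nat_lit 0) (nat_lit 0) (nat_lit 0) (nat_lit 160) (nat_lit 0) (nat_lit 1) (nat_lit 0) (nat_lit 1) (nat_lit 0) (nat_lit 300) (nat_lit 300) (nat_lit 300)) (XT.lf (nat_lit 0) (nat_lit 3044095790) (nat_lit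 76) (nat_lit 3301998350) (nat_lit 0) (nat_lit 98975358) (nat_lit 159) (nat_lit 5) (nat_lit 160) (nat_lit 0) (nat_lit 159) (nat_lit 4) (nat_lit 301) (nat_lit 300) (nat_lit 299))) (XT.nd (nat_lit 78) (nat_lit 304) (nat_lit 0) (XT.lf (nat_lit 0) (nat_lit 6047158764) (nat_lit 76) (nat_lit 113559671) (nat_lit 0) (nat_lit 297161731) (nat_lit 159) (nat_lit 5) (nat_lit 160) (nat_lit 0) (nat_lit 159) (nat_lit 4) (nat_lit 302) (nat_lit 300) (nat_lit 298)) (XT.nd (nat_lit 78) (nat_lit 152) (nat_lit 0) (XT.lf (nat_lit 0) (nat_lit 2505595128) (nat_lit 152) (nat_lit 3284838067) (nat_lit 76) (nat_lit 685935052) (nat_lit 157) (nat_lit 5) (nat_lit 159) (nat_lit 5) (nat_lit 158) (nat_lit 4) (nat_lit 303) (nat_lit 300) (nat_lit 297)) (XT.lf (nat_lit 0) (nat_lit 56713146) (nat_lit 152) (nat_lit 5319934165) (nat_lit 228) (nat_lit 1128005561) (nat_lit 155) (nat_lit 5) (nat_lit 157) (nat_lit 5) (nat_lit 158)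 (nat_lit 4) (nat_lit 304) (nat_lit 300) (nat_lit 296))))) (XT.nd (nat_lit 234) (nat_lit 760) (nat_lit 0) (XT.nd (nat_lit 78) (nat_lit 304) (nat_lit 0) (XT.lf (nat_lit 0) (nat_lit 1677646219) (nat_lit 228) (nat_lit 2994954115) (nat_lit 76) (nat_lit 1866605777) (nat_lit 154) (nat_lit 5) (nat_lit 157) (nat_lit 5) (nat_lit 155) (nat_lit 5) (nat_lit 305) (nat_lit 300) (nat_lit 295)) (XT.nd (nat_lit 78) (nat_lit 76) (nat_lit 0) (XT.lf (nat_lit 0) (nat_lit 521386413) (nat_lit 228) (nat_lit 3904460342) (nat_lit 304) (nat_lit 2157004903) (nat_lit 151) (nat_lit 5) (nat_lit 154) (nat_lit 5) (nat_lit 155) (nat_lit 5) (nat_lit 306) (nat_lit 300) (nat_lit 294)) (XT.lf (nat_lit 0) (nat_lit 547934451) (nat_lit 304) (nat_lit 2431580156) (nat_lit 76) (nat_lit 3654551648) (nat_lit 150) (nat_lit 5) (nat_lit 154) (nat_lit 5) (nat_lit 151) (nat_lit 5) (nat_lit 307) (nat_lit 300) (nat_lit 293)))) (XT.nd (nat_lit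 78) (nat_lit 456) (nat_lit 0) (XT.lf (nat_lit 0) (nat_lit 1279222347) (nat_lit 304) (nat_lit 1899673813) (nat_lit 380) (nat_lit 3514271536) (nat_lit 146) (nat_lit 5) (nat_lit 150) (nat_lit 5) (nat_lit 151) (nat_lit 5) (nat_lit 308) (nat_lit 300) (nat_lit 292)) (XT.nd (nat_lit 78) (nat_lit 456) (nat_lit 0) (XT.lf (nat_lit 0) (nat_lit 5155536985) (nat_lit 304) (nat_lit 676173150) (nat_lit 380) (nat_lit 929244004) (nat_lit 146) (nat_lit 5) (nat_lit 150) (nat_lit 5) (nat_lit 151) (nat_lit 5) (nat_lit 309) (nat_lit 300) (nat_lit 291)) (XT.lf (nat_lit 0) (nat_lit 1629306607) (nat_lit 456) (nat_lit 4511756458) (nat_lit 76) (nat_lit 694825518) (nat_lit 140) (nat_lit 5) (nat_lit 146) (nat_lit 5) (nat_lit 141) (nat_lit 5) (nat_lit 310) (nat_lit 300) (nat_lit 290)))))) (XT.nd (nat_lit 468) (nat_lit 2280) (nat_lit 0) (XT.nd (nat_lit 234) (nat_lit 684) (nat_lit 0) (XT.nd (nat_lit 78) (nat_lit 1064)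 (nat_lit 0) (XT.lf (nat_lit 0) (nat_lit 4182956253) (nat_lit 456) (nat_lit 544776862) (nat_lit 76) (nat_lit 2191366710) (nat_lit 140) (nat_lit 5) (nat_lit 146) (nat_lit 5) (nat_lit 141) (nat_lit 5) (nat_lit 311) (nat_lit 300) (nat_lit 289)) (XT.nd (nat_lit 78) (nat_lit 608) (nat_lit 0) (XT.lf (nat_lit 0) (nat_lit 3631351114) (nat_lit 456) (nat_lit 3155995844) (nat_lit 532) (nat_lit 223173418) (nat_lit 134) (nat_lit 5) (nat_lit 140) (nat_lit 5) (nat_lit 141) (nat_lit 5) (nat_lit 312) (nat_lit 300) (nat_lit 288)) (XT.lf (nat_lit 0) (nat_lit 808929124) (nat_lit 532) (nat_lit 1420022043) (nat_lit 608) (nat_lit 4881317360) (nat_lit 126) (nat_lit 5) (nat_lit 133) (nat_lit 5) (nat_lit 134) (nat_lit 5) (nat_lit 313) (nat_lit 300) (nat_lit 287)))) (XT.nd (nat_lit 78) (nat_lit 684) (nat_lit 0) (XT.lf (nat_lit 0) (nat_lit 4734342647) (nat_lit 608) (nat_lit 2012597318) (nat_lit 76) (nat_lit 471147367)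 (nat_lit 126) (nat_lit 5) (nat_lit 134) (nat_lit 5) (nat_lit 127) (nat_lit 5) (nat_lit 314) (nat_lit 300) (nat_lit 286)) (XT.nd (nat_lit 78) (nat_lit 76) (nat_lit 0) (XT.lf (nat_lit 0) (nat_lit 2437391346) (nat_lit 608) (nat_lit 4868666546) (nat_lit 684) (nat_lit 28352397) (nat_lit 118) (nat_lit 5) (nat_lit 126) (nat_lit 5) (nat_lit 127) (nat_lit 5) (nat_lit 315) (nat_lit 300) (nat_lit 285)) (XT.lf (nat_lit 0) (nat_lit 2384575123) (nat_lit 684) (nat_lit 425704809) (nat_lit 76) (nat_lit 4648610698) (nat_lit 117) (nat_lit 5) (nat_lit 126) (nat_lit 5) (nat_lit 118) (nat_lit 5) (nat_lit 316) (nat_lit 300) (nat_lit 284))))) (XT.nd (nat_lit 234) (nat_lit 760) (nat_lit 0) (XT.nd (nat_lit 78) (nat_lit 836) (nat_lit 0) (XT.lf (nat_lit 0) (nat_lit 4301387719) (nat_lit 684) (nat_lit 570329360) (nat_lit 760) (nat_lit 2720271953) (nat_lit 108) (nat_lit 5) (nat_lit 117) (nat_lit 5) (nat_lit 118) (nat_lit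 5) (nat_lit 317) (nat_lit 300) (nat_lit 283)) (XT.nd (nat_lit 78) (nat_lit 76) (nat_lit 0) (XT.lf (nat_lit 0) (nat_lit 1457994909) (nat_lit 760) (nat_lit 5974330543) (nat_lit 836) (nat_lit 302097940) (nat_lit 98) (nat_lit 5) (nat_lit 108) (nat_lit 5) (nat_lit 109) (nat_lit 5) (nat_lit 318) (nat_lit 300) (nat_lit 282)) (XT.lf (nat_lit 0) (nat_lit 2124235683) (nat_lit 836) (nat_lit 1478995888) (nat_lit 76) (nat_lit 4281183010) (nat_lit 97) (nat_lit 5) (nat_lit 108) (nat_lit 5) (nat_lit 98) (nat_lit 5) (nat_lit 319) (nat_lit 300) (nat_lit 281)))) (XT.nd (nat_lit 78) (nat_lit 380) (nat_lit 0) (XT.lf (nat_lit 0) (nat_lit 3561757077) (nat_lit 380) (nat_lit 1053544718) (nat_lit 456) (nat_lit 3428795416) (nat_lit 92) (nat_lit 5) (nat_lit 97) (nat_lit 5) (nat_lit 98) (nat_lit 5) (nat_lit 320) (nat_lit 300) (nat_lit 280)) (XT.nd (nat_lit 78) (nat_lit 76) (nat_lit 0) (XT.lf (nat_lit 0) (nat_lit 579297522)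 (nat_lit 304) (nat_lit 6612592433) (nat_lit 380) (nat_lit 1021937881) (nat_lit 88) (nat_lit 5) (nat_lit 92) (nat_lit 5) (nat_lit 93) (nat_lit 5) (nat_lit 321) (nat_lit 300) (nat_lit 279)) (XT.lf (nat_lit 0) (nat_lit 1453989416) (nat_lit 380) (nat_lit 2491070276) (nat_lit 76) (nat_lit 4446066857) (nat_lit 87) (nat_lit 5) (nat_lit 92) (nat_lit 5) (nat_lit 88) (nat_lit 5) (nat_lit 322) (nat_lit 300) (nat_lit 278))))))) (XT.nd (nat_lit 936) (nat_lit 1444) (nat_lit 0) (XT.nd (nat_lit 468) (nat_lit 1140) (nat_lit 0) (XT.nd (nat_lit 234) (nat_lit 532) (nat_lit 0) (XT.nd (nat_lit 78) (nat_lit 380) (nat_lit 0) (XT.lf (nat_lit 0) (nat_lit 2879802710) (nat_lit 380) (nat_lit 1091650656) (nat_lit 456) (nat_lit 4607491984) (nat_lit 82) (nat_lit 5) (nat_lit 87) (nat_lit 5) (nat_lit 88) (nat_lit 5) (nat_lit 323) (nat_lit 300) (nat_lit 277)) (XT.nd (nat_lit 78) (nat_lit 380) (nat_lit 0) (XT.lf (nat_lit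 0) (nat_lit 6597123082) (nat_lit 456) (nat_lit 306635844) (nat_lit 76) (nat_lit 1873371925) (nat_lit 82) (nat_lit 5) (nat_lit 88) (nat_lit 5) (nat_lit 83) (nat_lit 5) (nat_lit 324) (nat_lit 300) (nat_lit 276)) (XT.lf (nat_lit 0) (nat_lit 373576297) (nat_lit 380) (nat_lit 3582564997) (nat_lit 76) (nat_lit 5028053637) (nat_lit 77) (nat_lit 5) (nat_lit 82) (nat_lit 5) (nat_lit 78) (nat_lit 5) (nat_lit 325) (nat_lit 300) (nat_lit 275)))) (XT.nd (nat_lit 78) (nat_lit 228) (nat_lit 0) (XT.lf (nat_lit 0) (nat_lit 2133088721) (nat_lit 304) (nat_lit 802155877) (nat_lit 380) (nat_lit 6266977155) (nat_lit 73) (nat_lit 5) (nat_lit 77) (nat_lit 5) (nat_lit 78) (nat_lit 5) (nat_lit 326) (nat_lit 300) (nat_lit 274)) (XT.nd (nat_lit 78) (nat_lit 228) (nat_lit 0) (XT.lf (nat_lit 0) (nat_lit 5643067273) (nat_lit 380) (nat_lit 1315563775) (nat_lit 76) (nat_lit 2471691331) (nat_lit 73) (nat_lit 5) (nat_lit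 78) (nat_lit 5) (nat_lit 74) (nat_lit 5) (nat_lit 327) (nat_lit 300) (nat_lit 273)) (XT.lf (nat_lit 0) (nat_lit 4763888246) (nat_lit 228) (nat_lit 3731085412) (nat_lit 304) (nat_lit 1174492141) (nat_lit 70) (nat_lit 5) (nat_lit 73) (nat_lit 5) (nat_lit 74) (nat_lit 5) (nat_lit 328) (nat_lit 300) (nat_lit 272))))) (XT.nd (nat_lit 234) (nat_lit 532) (nat_lit 0) (XT.nd (nat_lit 78) (nat_lit 228) (nat_lit 0) (XT.lf (nat_lit 0) (nat_lit 1184451302) (nat_lit 304) (nat_lit 297422893) (nat_lit 380) (nat_lit 8439374095) (nat_lit 65) (nat_lit 5) (nat_lit 69) (nat_lit 5) (nat_lit 70) (nat_lit 5) (nat_lit 329) (nat_lit 300) (nat_lit 271)) (XT.nd (nat_lit 78) (nat_lit 228) (nat_lit 0) (XT.lf (nat_lit 0) (nat_lit 4291475208) (nat_lit 380) (nat_lit 2608388528) (nat_lit 76) (nat_lit 3281861653) (nat_lit 65) (nat_lit 5) (nat_lit 70) (nat_lit 5) (nat_lit 66) (nat_lit 5) (nat_lit 330) (nat_lit 300) (nat_lit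 270)) (XT.lf (nat_lit 0) (nat_lit 3845646549) (nat_lit 228) (nat_lit 3388256145) (nat_lit 304) (nat_lit 3221765886) (nat_lit 62) (nat_lit 5) (nat_lit 65) (nat_lit 5) (nat_lit 66) (nat_lit 5) (nat_lit 331) (nat_lit 300) (nat_lit 269)))) (XT.nd (nat_lit 78) (nat_lit 532) (nat_lit 0) (XT.lf (nat_lit 0) (nat_lit 10301963536) (nat_lit 304) (nat_lit 134127260) (nat_lit 76) (nat_lit 308349253) (nat_lit 62) (nat_lit 5) (nat_lit 66) (nat_lit 5) (nat_lit 63) (nat_lit 5) (nat_lit 332) (nat_lit 300) (nat_lit 268)) (XT.nd (nat_lit 78) (nat_lit 228) (nat_lit 0) (XT.lf (nat_lit 0) (nat_lit 2490951603) (nat_lit 304) (nat_lit 4353613762) (nat_lit 76) (nat_lit 4196482753) (nat_lit 58) (nat_lit 5) (nat_lit 62) (nat_lit 5) (nat_lit 59) (nat_lit 5) (nat_lit 333) (nat_lit 300) (nat_lit 267)) (XT.lf (nat_lit 0) (nat_lit 2477865757) (nat_lit 228) (nat_lit 3052260831) (nat_lit 304) (nat_lit 5823349033) (nat_lit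 55) (nat_lit 5) (nat_lit 58) (nat_lit 5) (nat_lit 59) (nat_lit 5) (nat_lit 334) (nat_lit 300) (nat_lit 266)))))) (XT.nd (nat_lit 468) (nat_lit 684) (nat_lit 0) (XT.nd (nat_lit 234) (nat_lit 304) (nat_lit 0) (XT.nd (nat_lit 78) (nat_lit 456) (nat_lit 0) (XT.lf (nat_lit 0) (nat_lit 8744912604) (nat_lit 304) (nat_lit 1989297177) (nat_lit 76) (nat_lit 946178768) (nat_lit 55) (nat_lit 5) (nat_lit 59) (nat_lit 5) (nat_lit 56) (nat_lit 5) (nat_lit 335) (nat_lit 300) (nat_lit 265)) (XT.nd (nat_lit 78) (nat_lit 152) (nat_lit 0) (XT.lf (nat_lit 0) (nat_lit 164387922) (nat_lit 304) (nat_lit 6756146771) (nat_lit 76) (nat_lit 5099544444) (nat_lit 51) (nat_lit 5) (nat_lit 55) (nat_lit 5) (nat_lit 52) (nat_lit 5) (nat_lit 336) (nat_lit 300) (nat_lit 264)) (XT.lf (nat_lit 0) (nat_lit 445668127) (nat_lit 152) (nat_lit 2853968137) (nat_lit 228) (nat_lit 9075800047) (nat_lit 49) (nat_lit 5) (nat_lit 51) (nat_lit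 5) (nat_lit 52) (nat_lit 5) (nat_lit 337) (nat_lit 300) (nat_lit 263)))) (XT.nd (nat_lit 78) (nat_lit 304) (nat_lit 0) (XT.lf (nat_lit 0) (nat_lit 6668917102) (nat_lit 228) (nat_lit 4619494659) (nat_lit 76) (nat_lit 1456324469) (nat_lit 49) (nat_lit 5) (nat_lit 52) (nat_lit 5) (nat_lit 50) (nat_lit 5) (nat_lit 338) (nat_lit 300) (nat_lit 262)) (XT.nd (nat_lit 78) (nat_lit 76) (nat_lit 0) (XT.lf (nat_lit 0) (nat_lit 3015739264) (nat_lit 228) (nat_lit 7226573377) (nat_lit 304) (nat_lit 2888442532) (nat_lit 46) (nat_lit 5) (nat_lit 49) (nat_lit 5) (nat_lit 50) (nat_lit 5) (nat_lit 339) (nat_lit 300) (nat_lit 261)) (XT.lf (nat_lit 0) (nat_lit 465350408) (nat_lit 304) (nat_lit 2438265405) (nat_lit 76) (nat_lit 10631048841) (nat_lit 45) (nat_lit 5) (nat_lit 49) (nat_lit 5) (nat_lit 46) (nat_lit 5) (nat_lit 340) (nat_lit 300) (nat_lit 260))))) (XT.nd (nat_lit 234) (nat_lit 380) (nat_lit 0) (XT.nd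 (nat_lit 78) (nat_lit 152) (nat_lit 0) (XT.lf (nat_lit 0) (nat_lit 3950511092) (nat_lit 228) (nat_lit 8312039893) (nat_lit 76) (nat_lit 1690845196) (nat_lit 43) (nat_lit 5) (nat_lit 46) (nat_lit 5) (nat_lit 44) (nat_lit 5) (nat_lit 341) (nat_lit 300) (nat_lit 259)) (XT.nd (nat_lit 78) (nat_lit 152) (nat_lit 0) (XT.lf (nat_lit 0) (nat_lit 7645257264) (nat_lit 228) (nat_lit 316955944) (nat_lit 76) (nat_lit 6429114783) (nat_lit 43) (nat_lit 5) (nat_lit 46) (nat_lit 5) (nat_lit 44) (nat_lit 5) (nat_lit 342) (nat_lit 300) (nat_lit 258)) (XT.lf (nat_lit 0) (nat_lit 8259092101) (nat_lit 152) (nat_lit 3342936269) (nat_lit 228) (nat_lit 3245292288) (nat_lit 41) (nat_lit 5) (nat_lit 43) (nat_lit 5) (nat_lit 44) (nat_lit 5) (nat_lit 343) (nat_lit 300) (nat_lit 257)))) (XT.nd (nat_lit 78) (nat_lit 152) (nat_lit 0) (XT.lf (nat_lit 0) (nat_lit 424572681) (nat_lit 228) (nat_lit 13430082618) (nat_lit 76)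 (nat_lit 1470756203) (nat_lit 38) (nat_lit 5) (nat_lit 41) (nat_lit 5) (nat_lit 39) (nat_lit 5) (nat_lit 344) (nat_lit 300) (nat_lit 256)) (XT.nd (nat_lit 78) (nat_lit 152) (nat_lit 0) (XT.lf (nat_lit 0) (nat_lit 4286404981) (nat_lit 228) (nat_lit 4984069975) (nat_lit 76) (nat_lit 6548419744) (nat_lit 38) (nat_lit 5) (nat_lit 41) (nat_lit 5) (nat_lit 39) (nat_lit 5) (nat_lit 345) (nat_lit 300) (nat_lit 255)) (XT.lf (nat_lit 0) (nat_lit 3929830409) (nat_lit 152) (nat_lit 4424597976) (nat_lit 228) (nat_lit 7981992266) (nat_lit 36) (nat_lit 5) (nat_lit 38) (nat_lit 5) (nat_lit 39) (nat_lit 5) (nat_lit 346) (nat_lit 300) (nat_lit 254))))))))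
noncomputable def xc101 : XT := (XT.nd (nat_lit 1794) (nat_lit 684) (nat_lit 0) (XT.nd (nat_lit 858) (nat_lit 684) (nat_lit 0) (XT.nd (nat_lit 390) (nat_lit 456) (nat_lit 0) (XT.nd (nat_lit 156) (nat_lit 228) (nat_lit 0) (XT.nd (nat_lit 78) (nat_lit 76) (nat_lit 0) (XT.lf (nat_lit 0) (nat_lit 12674319411) (nat_lit 228) (nat_lit 3505670492) (nat_lit 76) (nat_lit 697432120) (nat_lit 36) (nat_lit 5) (nat_lit 39) (nat_lit 5) (nat_lit 37) (nat_lit 4) (nat_lit 347) (nat_lit 300) (nat_lit 253)) (XT.lf (nat_lit 0) (nat_lit 5878986587) (nat_lit 76) (nat_lit 11450125820) (nat_lit 152) (nat_lit 110437062) (nat_lit 35) (nat_lit 5) (nat_lit 36) (nat_lit 5) (nat_lit 37) (nat_lit 4) (nat_lit 348) (nat_lit 300) (nat_lit 252))) (XT.nd (nat_lit 78) (nat_lit 152) (nat_lit 0) (XT.lf (nat_lit 0) (nat_lit 4068017733) (nat_lit 152) (nat_lit 2315782131) (nat_lit 76) (nat_lit 11641976298) (nat_lit 34) (nat_lit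 5) (nat_lit 36) (nat_lit 5) (nat_lit 35) (nat_lit 5) (nat_lit 349) (nat_lit 300) (nat_lit 251)) (XT.nd (nat_lit 78) (nat_lit 0) (nat_lit 0) (XT.lf (nat_lit 0) (nat_lit 7557789475) (nat_lit 152) (nat_lit 968862356) (nat_lit 228) (nat_lit 10110841902) (nat_lit 32) (nat_lit 5) (nat_lit 34) (nat_lit 5) (nat_lit 35) (nat_lit 5) (nat_lit 350) (nat_lit 300) (nat_lit 250)) (XT.lf (nat_lit 0) (nat_lit 13279139383) (nat_lit 228) (nat_lit 1420682796) (nat_lit 76) (nat_lit 4576446506) (nat_lit 32) (nat_lit 5) (nat_lit 35) (nat_lit 5) (nat_lit 33) (nat_lit 4) (nat_lit 351) (nat_lit 300) (nat_lit 249))))) (XT.nd (nat_lit 234) (nat_lit 152) (nat_lit 0) (XT.nd (nat_lit 78) (nat_lit 228) (nat_lit 0) (XT.lf (nat_lit 0) (nat_lit 8920441146) (nat_lit 76) (nat_lit 9463411109) (nat_lit 152) (nat_lit 1557416829) (nat_lit 31) (nat_lit 5) (nat_lit 32) (nat_lit 5) (nat_lit 33) (nat_lit 4) (nat_lit 352) (nat_lit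 300) (nat_lit 248)) (XT.nd (nat_lit 78) (nat_lit 152) (nat_lit 0) (XT.lf (nat_lit 0) (nat_lit 2989006382) (nat_lit 152) (nat_lit 929922109) (nat_lit 76) (nat_lit 16718978804) (nat_lit 30) (nat_lit 5) (nat_lit 32) (nat_lit 5) (nat_lit 31) (nat_lit 5) (nat_lit 353) (nat_lit 300) (nat_lit 247)) (XT.lf (nat_lit 0) (nat_lit 7858565547) (nat_lit 228) (nat_lit 11505333763) (nat_lit 76) (nat_lit 1996808292) (nat_lit 28) (nat_lit 5) (nat_lit 31) (nat_lit 5) (nat_lit 29) (nat_lit 4) (nat_lit 354) (nat_lit 300) (nat_lit 246)))) (XT.nd (nat_lit 78) (nat_lit 152) (nat_lit 0) (XT.lf (nat_lit 0) (nat_lit 13013754462) (nat_lit 228) (nat_lit 1038831052) (nat_lit 76) (nat_lit 8064968603) (nat_lit 28) (nat_lit 5) (nat_lit 31) (nat_lit 5) (nat_lit 29) (nat_lit 4) (nat_lit 355) (nat_lit 300) (nat_lit 245)) (XT.nd (nat_lit 78) (nat_lit 76) (nat_lit 0) (XT.lf (nat_lit 0) (nat_lit 10213426378) (nat_lit 76) (nat_lit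 8336451133) (nat_lit 152) (nat_lit 4356219834) (nat_lit 27) (nat_lit 5) (nat_lit 28) (nat_lit 5) (nat_lit 29) (nat_lit 4) (nat_lit 356) (nat_lit 300) (nat_lit 244)) (XT.lf (nat_lit 0) (nat_lit 590354205) (nat_lit 152) (nat_lit 1743561372) (nat_lit 76) (nat_lit 21400586302) (nat_lit 26) (nat_lit 5) (nat_lit 28) (nat_lit 5) (nat_lit 27) (nat_lit 5) (nat_lit 357) (nat_lit 300) (nat_lit 243)))))) (XT.nd (nat_lit 468) (nat_lit 304) (nat_lit 0) (XT.nd (nat_lit 234) (nat_lit 152) (nat_lit 0) (XT.nd (nat_lit 78) (nat_lit 76) (nat_lit 0) (XT.lf (nat_lit 0) (nat_lit 5823853653) (nat_lit 228) (nat_lit 14721865554) (nat_lit 76) (nat_lit 4045748385) (nat_lit 24) (nat_lit 5) (nat_lit 27) (nat_lit 5) (nat_lit 25) (nat_lit 4) (nat_lit 358) (nat_lit 300) (nat_lit 242)) (XT.nd (nat_lit 78) (nat_lit 76) (nat_lit 0) (XT.lf (nat_lit 0) (nat_lit 11353154146) (nat_lit 228) (nat_lit 3466432883) (nat_lit 76) (nat_lit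 10669999056) (nat_lit 24) (nat_lit 5) (nat_lit 27) (nat_lit 5) (nat_lit 25) (nat_lit 4) (nat_lit 359) (nat_lit 300) (nat_lit 241)) (XT.lf (nat_lit 0) (nat_lit 8567077251) (nat_lit 76) (nat_lit 8693077583) (nat_lit 152) (nat_lit 9167404192) (nat_lit 23) (nat_lit 5) (nat_lit 24) (nat_lit 5) (nat_lit 25) (nat_lit 4) (nat_lit 360) (nat_lit 300) (nat_lit 240)))) (XT.nd (nat_lit 78) (nat_lit 152) (nat_lit 0) (XT.lf (nat_lit 0) (nat_lit 21264665376) (nat_lit 76) (nat_lit 2224668927) (nat_lit 152) (nat_lit 3921764667) (nat_lit 23) (nat_lit 5) (nat_lit 24) (nat_lit 5) (nat_lit 25) (nat_lit 4) (nat_lit 361) (nat_lit 300) (nat_lit 239)) (XT.nd (nat_lit 78) (nat_lit 0) (nat_lit 0) (XT.lf (nat_lit 0) (nat_lit 1675387077) (nat_lit 152) (nat_lit 22239037650) (nat_lit 76) (nat_lit 4521161989) (nat_lit 21) (nat_lit 5) (nat_lit 23) (nat_lit 5) (nat_lit 22) (nat_lit 4) (nat_lit 362) (nat_lit 300) (nat_lit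 238)) (XT.lf (nat_lit 0) (nat_lit 7532218126) (nat_lit 152) (nat_lit 10294928805) (nat_lit 76) (nat_lit 11675364882) (nat_lit 21) (nat_lit 5) (nat_lit 23) (nat_lit 5) (nat_lit 22) (nat_lit 4) (nat_lit 363) (nat_lit 300) (nat_lit 237))))) (XT.nd (nat_lit 234) (nat_lit 228) (nat_lit 0) (XT.nd (nat_lit 78) (nat_lit 0) (nat_lit 0) (XT.lf (nat_lit 0) (nat_lit 2265133315) (nat_lit 76) (nat_lit 11422931516) (nat_lit 152) (nat_lit 16934417686) (nat_lit 20) (nat_lit 5) (nat_lit 21) (nat_lit 5) (nat_lit 22) (nat_lit 4) (nat_lit 364) (nat_lit 300) (nat_lit 236)) (XT.nd (nat_lit 78) (nat_lit 0) (nat_lit 0) (XT.lf (nat_lit 0) (nat_lit 15757731592) (nat_lit 76) (nat_lit 4539695290) (nat_lit 152) (nat_lit 11493746396) (nat_lit 20) (nat_lit 5) (nat_lit 21) (nat_lit 5) (nat_lit 22) (nat_lit 4) (nat_lit 365) (nat_lit 300) (nat_lit 235)) (XT.lf (nat_lit 0) (nat_lit 27251595502) (nat_lit 152) (nat_lit 3186676524)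 (nat_lit 0) (nat_lit 2579316935) (nat_lit 20) (nat_lit 5) (nat_lit 22) (nat_lit 4) (nat_lit 20) (nat_lit 4) (nat_lit 366) (nat_lit 300) (nat_lit 234)))) (XT.nd (nat_lit 78) (nat_lit 76) (nat_lit 0) (XT.lf (nat_lit 0) (nat_lit 455969534) (nat_lit 152) (nat_lit 23786428982) (nat_lit 76) (nat_lit 10051951593) (nat_lit 18) (nat_lit 5) (nat_lit 20) (nat_lit 5) (nat_lit 19) (nat_lit 4) (nat_lit 367) (nat_lit 300) (nat_lit 233)) (XT.nd (nat_lit 78) (nat_lit 76) (nat_lit 0) (XT.lf (nat_lit 0) (nat_lit 6823871157) (nat_lit 152) (nat_lit 10778790620) (nat_lit 76) (nat_lit 18026136845) (nat_lit 18) (nat_lit 5) (nat_lit 20) (nat_lit 5) (nat_lit 19) (nat_lit 4) (nat_lit 368) (nat_lit 300) (nat_lit 232)) (XT.lf (nat_lit 0) (nat_lit 2926207161) (nat_lit 76) (nat_lit 10604659413) (nat_lit 152) (nat_lit 23498074062) (nat_lit 17) (nat_lit 5) (nat_lit 18) (nat_lit 5) (nat_lit 19) (nat_lit 4) (nat_lit 369)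 (nat_lit 300) (nat_lit 231))))))) (XT.nd (nat_lit 936) (nat_lit 228) (nat_lit 0) (XT.nd (nat_lit 468) (nat_lit 228) (nat_lit 0) (XT.nd (nat_lit 234) (nat_lit 152) (nat_lit 0) (XT.nd (nat_lit 78) (nat_lit 76) (nat_lit 0) (XT.lf (nat_lit 0) (nat_lit 17644743593) (nat_lit 76) (nat_lit 3086497465) (nat_lit 152) (nat_lit 17759952953) (nat_lit 17) (nat_lit 5) (nat_lit 18) (nat_lit 5) (nat_lit 19) (nat_lit 4) (nat_lit 370) (nat_lit 300) (nat_lit 230)) (XT.nd (nat_lit 78) (nat_lit 76) (nat_lit 0) (XT.lf (nat_lit 0) (nat_lit 28343028199) (nat_lit 152) (nat_lit 7047006865) (nat_lit 0) (nat_lit 4633960747) (nat_lit 17) (nat_lit 5) (nat_lit 19) (nat_lit 4) (nat_lit 17) (nat_lit 4) (nat_lit 371) (nat_lit 300) (nat_lit 229)) (XT.lf (nat_lit 0) (nat_lit 7592342466) (nat_lit 76) (nat_lit 28889659484) (nat_lit 76) (nat_lit 5144111082) (nat_lit 16) (nat_lit 4) (nat_lit 17) (nat_lit 5) (nat_lit 17) (nat_lit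 4) (nat_lit 372) (nat_lit 300) (nat_lit 228)))) (XT.nd (nat_lit 78) (nat_lit 76) (nat_lit 0) (XT.lf (nat_lit 0) (nat_lit 1763366352) (nat_lit 152) (nat_lit 20165391141) (nat_lit 76) (nat_lit 21373300170) (nat_lit 15) (nat_lit 5) (nat_lit 17) (nat_lit 5) (nat_lit 16) (nat_lit 4) (nat_lit 373) (nat_lit 300) (nat_lit 227)) (XT.nd (nat_lit 78) (nat_lit 76) (nat_lit 0) (XT.lf (nat_lit 0) (nat_lit 8821927227) (nat_lit 152) (nat_lit 5728430645) (nat_lit 76) (nat_lit 30508300384) (nat_lit 15) (nat_lit 5) (nat_lit 17) (nat_lit 5) (nat_lit 16) (nat_lit 4) (nat_lit 374) (nat_lit 300) (nat_lit 226)) (XT.lf (nat_lit 0) (nat_lit 9702333902) (nat_lit 76) (nat_lit 6662168039) (nat_lit 152) (nat_lit 30532036921) (nat_lit 14) (nat_lit 5) (nat_lit 15) (nat_lit 5) (nat_lit 16) (nat_lit 4) (nat_lit 375) (nat_lit 300) (nat_lit 225))))) (XT.nd (nat_lit 234) (nat_lit 152) (nat_lit 0) (XT.nd (nat_lit 78) (nat_lit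 76) (nat_lit 0) (XT.lf (nat_lit 0) (nat_lit 24387812635) (nat_lit 152) (nat_lit 22783519598) (nat_lit 0) (nat_lit 1649804972) (nat_lit 14) (nat_lit 5) (nat_lit 16) (nat_lit 4) (nat_lit 14) (nat_lit 4) (nat_lit 376) (nat_lit 300) (nat_lit 224)) (XT.nd (nat_lit 78) (nat_lit 76) (nat_lit 0) (XT.lf (nat_lit 0) (nat_lit 32902174861) (nat_lit 152) (nat_lit 7798355628) (nat_lit 0) (nat_lit 10136944551) (nat_lit 14) (nat_lit 5) (nat_lit 16) (nat_lit 4) (nat_lit 14) (nat_lit 4) (nat_lit 377) (nat_lit 300) (nat_lit 223)) (XT.lf (nat_lit 0) (nat_lit 8162223140) (nat_lit 76) (nat_lit 33789057835) (nat_lit 76) (nat_lit 10997901195) (nat_lit 13) (nat_lit 4) (nat_lit 14) (nat_lit 5) (nat_lit 14) (nat_lit 4) (nat_lit 378) (nat_lit 300) (nat_lit 222)))) (XT.nd (nat_lit 78) (nat_lit 152) (nat_lit 0) (XT.lf (nat_lit 0) (nat_lit 25157052526) (nat_lit 76) (nat_lit 26409787084) (nat_lit 76) (nat_lit 3593938700)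 (nat_lit 13) (nat_lit 4) (nat_lit 14) (nat_lit 5) (nat_lit 14) (nat_lit 4) (nat_lit 379) (nat_lit 300) (nat_lit 221)) (XT.nd (nat_lit 78) (nat_lit 76) (nat_lit 0) (XT.lf (nat_lit 0) (nat_lit 4028932166) (nat_lit 152) (nat_lit 14580053386) (nat_lit 76) (nat_lit 38871583471) (nat_lit 12) (nat_lit 5) (nat_lit 14) (nat_lit 5) (nat_lit 13) (nat_lit 4) (nat_lit 380) (nat_lit 300) (nat_lit 220)) (XT.lf (nat_lit 0) (nat_lit 1574412314) (nat_lit 76) (nat_lit 10345671969) (nat_lit 152) (nat_lit 47992926295) (nat_lit 11) (nat_lit 5) (nat_lit 12) (nat_lit 5) (nat_lit 13) (nat_lit 4) (nat_lit 381) (nat_lit 300) (nat_lit 219)))))) (XT.nd (nat_lit 468) (nat_lit 152) (nat_lit 0) (XT.nd (nat_lit 234) (nat_lit 76) (nat_lit 0) (XT.nd (nat_lit 78) (nat_lit 0) (nat_lit 0) (XT.lf (nat_lit 0) (nat_lit 19011437457) (nat_lit 76) (nat_lit 1424917460) (nat_lit 152) (nat_lit 42019194139) (nat_lit 11) (nat_lit 5) (nat_lit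 12) (nat_lit 5) (nat_lit 13) (nat_lit 4) (nat_lit 382) (nat_lit 300) (nat_lit 218)) (XT.nd (nat_lit 78) (nat_lit 0) (nat_lit 0) (XT.lf (nat_lit 0) (nat_lit 29486630767) (nat_lit 152) (nat_lit 27959311887) (nat_lit 0) (nat_lit 7673864974) (nat_lit 11) (nat_lit 5) (nat_lit 13) (nat_lit 4) (nat_lit 11) (nat_lit 4) (nat_lit 383) (nat_lit 300) (nat_lit 217)) (XT.lf (nat_lit 0) (nat_lit 38997729008) (nat_lit 152) (nat_lit 11752599457) (nat_lit 0) (nat_lit 17166537857) (nat_lit 11) (nat_lit 5) (nat_lit 13) (nat_lit 4) (nat_lit 11) (nat_lit 4) (nat_lit 384) (nat_lit 300) (nat_lit 216)))) (XT.nd (nat_lit 78) (nat_lit 0) (nat_lit 0) (XT.lf (nat_lit 0) (nat_lit 5410014298) (nat_lit 76) (nat_lit 43644499344) (nat_lit 76) (nat_lit 21795760232) (nat_lit 10) (nat_lit 4) (nat_lit 11) (nat_lit 5) (nat_lit 11) (nat_lit 4) (nat_lit 385) (nat_lit 300) (nat_lit 215)) (XT.nd (nat_lit 78) (nat_lit 0) (nat_lit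 0) (XT.lf (nat_lit 0) (nat_lit 23811638895) (nat_lit 76) (nat_lit 35987459354) (nat_lit 76) (nat_lit 14122007898) (nat_lit 10) (nat_lit 4) (nat_lit 11) (nat_lit 5) (nat_lit 11) (nat_lit 4) (nat_lit 386) (nat_lit 300) (nat_lit 214)) (XT.lf (nat_lit 0) (nat_lit 43107493711) (nat_lit 76) (nat_lit 27960013405) (nat_lit 76) (nat_lit 6078645431) (nat_lit 10) (nat_lit 4) (nat_lit 11) (nat_lit 5) (nat_lit 11) (nat_lit 4) (nat_lit 387) (nat_lit 300) (nat_lit 213))))) (XT.nd (nat_lit 234) (nat_lit 0) (nat_lit 0) (XT.nd (nat_lit 78) (nat_lit 76) (nat_lit 0) (XT.lf (nat_lit 0) (nat_lit 2278152035) (nat_lit 152) (nat_lit 17226314889) (nat_lit 76) (nat_lit 61026787614) (nat_lit 9) (nat_lit 5) (nat_lit 11) (nat_lit 5) (nat_lit 10) (nat_lit 4) (nat_lit 388) (nat_lit 300) (nat_lit 212)) (XT.nd (nat_lit 78) (nat_lit 0) (nat_lit 0) (XT.lf (nat_lit 0) (nat_lit 313161178) (nat_lit 76) (nat_lit 10527875158)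 (nat_lit 152) (nat_lit 73239968288) (nat_lit 8) (nat_lit 5) (nat_lit 9) (nat_lit 5) (nat_lit 10) (nat_lit 4) (nat_lit 389) (nat_lit 300) (nat_lit 211)) (XT.lf (nat_lit 0) (nat_lit 19304196350) (nat_lit 76) (nat_lit 807466551) (nat_lit 152) (nat_lit 67682601274) (nat_lit 8) (nat_lit 5) (nat_lit 9) (nat_lit 5) (nat_lit 10) (nat_lit 4) (nat_lit 390) (nat_lit 300) (nat_lit 210)))) (XT.nd (nat_lit 78) (nat_lit 0) (nat_lit 0) (XT.lf (nat_lit 0) (nat_lit 29980836456) (nat_lit 152) (nat_lit 52617914461) (nat_lit 0) (nat_lit 9087686782) (nat_lit 8) (nat_lit 5) (nat_lit 10) (nat_lit 4) (nat_lit 8) (nat_lit 4) (nat_lit 391) (nat_lit 300) (nat_lit 209)) (XT.nd (nat_lit 78) (nat_lit 0) (nat_lit 0) (XT.lf (nat_lit 0) (nat_lit 40345535858) (nat_lit 152) (nat_lit 35987073337) (nat_lit 0) (nat_lit 19440509034) (nat_lit 8) (nat_lit 5) (nat_lit 10) (nat_lit 4) (nat_lit 8) (nat_lit 4) (nat_lit 392) (nat_lit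 300) (nat_lit 208)) (XT.lf (nat_lit 0) (nat_lit 51217832149) (nat_lit 152) (nat_lit 18545340398) (nat_lit 0) (nat_lit 30301493753) (nat_lit 8) (nat_lit 5) (nat_lit 10) (nat_lit 4) (nat_lit 8) (nat_lit 4) (nat_lit 393) (nat_lit 300) (nat_lit 207))))))))
noncomputable def xc102 : XT := (XT.nd (nat_lit 1794) (nat_lit 152) (nat_lit 0) (XT.nd (nat_lit 858) (nat_lit 76) (nat_lit 0) (XT.nd (nat_lit 390) (nat_lit 152) (nat_lit 0) (XT.nd (nat_lit 156) (nat_lit 0) (nat_lit 0) (XT.nd (nat_lit 78) (nat_lit 76) (nat_lit 0) (XT.lf (nat_lit 0) (nat_lit 62623611749) (nat_lit 152) (nat_lit 251187708) (nat_lit 0) (nat_lit 41696500427) (nat_lit 8) (nat_lit 5) (nat_lit 10) (nat_lit 4) (nat_lit 8) (nat_lit 4) (nat_lit 394) (nat_lit 300) (nat_lit 206)) (XT.lf (nat_lit 0) (nat_lit 19565149198) (nat_lit 76) (nat_lit 55330348886) (nat_lit 76) (nat_lit 34392977635) (nat_lit 7) (nat_lit 4) (nat_lit 8) (nat_lit 5)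 (nat_lit 8) (nat_lit 4) (nat_lit 395) (nat_lit 300) (nat_lit 205))) (XT.nd (nat_lit 78) (nat_lit 0) (nat_lit 0) (XT.lf (nat_lit 0) (nat_lit 40362595347) (nat_lit 76) (nat_lit 47413160085) (nat_lit 76) (nat_lit 26466017472) (nat_lit 7) (nat_lit 4) (nat_lit 8) (nat_lit 5) (nat_lit 8) (nat_lit 4) (nat_lit 396) (nat_lit 300) (nat_lit 204)) (XT.nd (nat_lit 78) (nat_lit 0) (nat_lit 0) (XT.lf (nat_lit 0) (nat_lit 62182363065) (nat_lit 76) (nat_lit 39108636589) (nat_lit 76) (nat_lit 18152187918) (nat_lit 7) (nat_lit 4) (nat_lit 8) (nat_lit 5) (nat_lit 8) (nat_lit 4) (nat_lit 397) (nat_lit 300) (nat_lit 203)) (XT.lf (nat_lit 0) (nat_lit 85076404181) (nat_lit 76) (nat_lit 30397005723) (nat_lit 76) (nat_lit 9431694140) (nat_lit 7) (nat_lit 4) (nat_lit 8) (nat_lit 5) (nat_lit 8) (nat_lit 4) (nat_lit 398) (nat_lit 300) (nat_lit 202))))) (XT.nd (nat_lit 234) (nat_lit 0) (nat_lit 0) (XT.nd (nat_lit 78)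 (nat_lit 152) (nat_lit 0) (XT.lf (nat_lit 0) (nat_lit 109099228316) (nat_lit 76) (nat_lit 21257525510) (nat_lit 76) (nat_lit 283773057) (nat_lit 7) (nat_lit 4) (nat_lit 8) (nat_lit 5) (nat_lit 8) (nat_lit 4) (nat_lit 399) (nat_lit 300) (nat_lit 201)) (XT.nd (nat_lit 78) (nat_lit 76) (nat_lit 0) (XT.lf (nat_lit 0) (nat_lit 9015270535) (nat_lit 152) (nat_lit 2500486778) (nat_lit 76) (nat_lit 125140084166) (nat_lit 6) (nat_lit 5) (nat_lit 8) (nat_lit 5) (nat_lit 7) (nat_lit 4) (nat_lit 400) (nat_lit 300) (nat_lit 200)) (XT.lf (nat_lit 0) (nat_lit 18050761004) (nat_lit 76) (nat_lit 993243140) (nat_lit 152) (nat_lit 123913972373) (nat_lit 5) (nat_lit 5) (nat_lit 6) (nat_lit 5) (nat_lit 7) (nat_lit 4) (nat_lit 401) (nat_lit 300) (nat_lit 199)))) (XT.nd (nat_lit 78) (nat_lit 0) (nat_lit 0) (XT.lf (nat_lit 0) (nat_lit 29766683951) (nat_lit 152) (nat_lit 110029120236) (nat_lit 0) (nat_lit 9769789634)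 (nat_lit 5) (nat_lit 5) (nat_lit 7) (nat_lit 4) (nat_lit 5) (nat_lit 4) (nat_lit 402) (nat_lit 300) (nat_lit 198)) (XT.nd (nat_lit 78) (nat_lit 0) (nat_lit 0) (XT.lf (nat_lit 0) (nat_lit 41034614162) (nat_lit 152) (nat_lit 94437416746) (nat_lit 0) (nat_lit 21031106203) (nat_lit 5) (nat_lit 5) (nat_lit 7) (nat_lit 4) (nat_lit 5) (nat_lit 4) (nat_lit 403) (nat_lit 300) (nat_lit 197)) (XT.lf (nat_lit 0) (nat_lit 52859115874) (nat_lit 152) (nat_lit 78079474630) (nat_lit 0) (nat_lit 32849309209) (nat_lit 5) (nat_lit 5) (nat_lit 7) (nat_lit 4) (nat_lit 5) (nat_lit 4) (nat_lit 404) (nat_lit 300) (nat_lit 196)))))) (XT.nd (nat_lit 468) (nat_lit 0) (nat_lit 0) (XT.nd (nat_lit 234) (nat_lit 76) (nat_lit 0) (XT.nd (nat_lit 78) (nat_lit 0) (nat_lit 0) (XT.lf (nat_lit 0) (nat_lit 65268342663) (nat_lit 152) (nat_lit 60916346407) (nat_lit 0) (nat_lit 45252537229) (nat_lit 5) (nat_lit 5) (nat_lit 7) (nat_lit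 4) (nat_lit 5) (nat_lit 4) (nat_lit 405) (nat_lit 300) (nat_lit 195)) (XT.nd (nat_lit 78) (nat_lit 0) (nat_lit 0) (XT.lf (nat_lit 0) (nat_lit 78291840306) (nat_lit 152) (nat_lit 42907167486) (nat_lit 0) (nat_lit 58270321760) (nat_lit 5) (nat_lit 5) (nat_lit 7) (nat_lit 4) (nat_lit 5) (nat_lit 4) (nat_lit 406) (nat_lit 300) (nat_lit 194)) (XT.lf (nat_lit 0) (nat_lit 91960617131) (nat_lit 152) (nat_lit 24009058870) (nat_lit 0) (nat_lit 71933657525) (nat_lit 5) (nat_lit 5) (nat_lit 7) (nat_lit 4) (nat_lit 5) (nat_lit 4) (nat_lit 407) (nat_lit 300) (nat_lit 193)))) (XT.nd (nat_lit 78) (nat_lit 76) (nat_lit 0) (XT.lf (nat_lit 0) (nat_lit 106307217846) (nat_lit 152) (nat_lit 4177025063) (nat_lit 0) (nat_lit 86275076278) (nat_lit 5) (nat_lit 5) (nat_lit 7) (nat_lit 4) (nat_lit 5) (nat_lit 4) (nat_lit 408) (nat_lit 300) (nat_lit 192)) (XT.nd (nat_lit 78) (nat_lit 0) (nat_lit 0) (XT.lf (nat_lit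 0) (nat_lit 17186219416) (nat_lit 76) (nat_lit 104447906655) (nat_lit 76) (nat_lit 84410829886) (nat_lit 4) (nat_lit 4) (nat_lit 5) (nat_lit 5) (nat_lit 5) (nat_lit 4) (nat_lit 409) (nat_lit 300) (nat_lit 191)) (XT.lf (nat_lit 0) (nat_lit 39752354294) (nat_lit 76) (nat_lit 98040511792) (nat_lit 76) (nat_lit 77998734831) (nat_lit 4) (nat_lit 4) (nat_lit 5) (nat_lit 5) (nat_lit 5) (nat_lit 4) (nat_lit 410) (nat_lit 300) (nat_lit 190))))) (XT.nd (nat_lit 234) (nat_lit 0) (nat_lit 0) (XT.nd (nat_lit 78) (nat_lit 0) (nat_lit 0) (XT.lf (nat_lit 0) (nat_lit 63436997151) (nat_lit 76) (nat_lit 91317542557) (nat_lit 76) (nat_lit 71271289223) (nat_lit 4) (nat_lit 4) (nat_lit 5) (nat_lit 5) (nat_lit 5) (nat_lit 4) (nat_lit 411) (nat_lit 300) (nat_lit 189)) (XT.nd (nat_lit 78) (nat_lit 0) (nat_lit 0) (XT.lf (nat_lit 0) (nat_lit 88296539995) (nat_lit 76) (nat_lit 84262991881) (nat_lit 76) (nat_lit 64212475335)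 (nat_lit 4) (nat_lit 4) (nat_lit 5) (nat_lit 5) (nat_lit 5) (nat_lit 4) (nat_lit 412) (nat_lit 300) (nat_lit 188)) (XT.lf (nat_lit 0) (nat_lit 114390172212) (nat_lit 76) (nat_lit 76860063215) (nat_lit 76) (nat_lit 56805486466) (nat_lit 4) (nat_lit 4) (nat_lit 5) (nat_lit 5) (nat_lit 5) (nat_lit 4) (nat_lit 413) (nat_lit 300) (nat_lit 187)))) (XT.nd (nat_lit 78) (nat_lit 0) (nat_lit 0) (XT.lf (nat_lit 0) (nat_lit 141780021498) (nat_lit 76) (nat_lit 69091130538) (nat_lit 76) (nat_lit 49032686930) (nat_lit 4) (nat_lit 4) (nat_lit 5) (nat_lit 5) (nat_lit 5) (nat_lit 4) (nat_lit 414) (nat_lit 300) (nat_lit 186)) (XT.nd (nat_lit 78) (nat_lit 0) (nat_lit 0) (XT.lf (nat_lit 0) (nat_lit 170531301781) (nat_lit 76) (nat_lit 60937696392) (nat_lit 76) (nat_lit 40875570060) (nat_lit 4) (nat_lit 4) (nat_lit 5) (nat_lit 5) (nat_lit 5) (nat_lit 4) (nat_lit 415) (nat_lit 300) (nat_lit 185)) (XT.lf (nat_lit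 0) (nat_lit 200712468489) (nat_lit 76) (nat_lit 52380347837) (nat_lit 76) (nat_lit 32314714150) (nat_lit 4) (nat_lit 4) (nat_lit 5) (nat_lit 5) (nat_lit 5) (nat_lit 4) (nat_lit 416) (nat_lit 300) (nat_lit 184))))))) (XT.nd (nat_lit 936) (nat_lit 0) (nat_lit 0) (XT.nd (nat_lit 468) (nat_lit 0) (nat_lit 0) (XT.nd (nat_lit 234) (nat_lit 152) (nat_lit 0) (XT.nd (nat_lit 78) (nat_lit 0) (nat_lit 0) (XT.lf (nat_lit 0) (nat_lit 232395381543) (nat_lit 76) (nat_lit 43398710235) (nat_lit 76) (nat_lit 23329736209) (nat_lit 4) (nat_lit 4) (nat_lit 5) (nat_lit 5) (nat_lit 5) (nat_lit 4) (nat_lit 417) (nat_lit 300) (nat_lit 183)) (XT.nd (nat_lit 78) (nat_lit 0) (nat_lit 0) (XT.lf (nat_lit 0) (nat_lit 265655476451) (nat_lit 76) (nat_lit 33971398734) (nat_lit 76) (nat_lit 13899243433) (nat_lit 4) (nat_lit 4) (nat_lit 5) (nat_lit 5) (nat_lit 5) (nat_lit 4) (nat_lit 418) (nat_lit 300) (nat_lit 182)) (XT.lf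 (nat_lit 0) (nat_lit 300571943914) (nat_lit 76) (nat_lit 24075967354) (nat_lit 76) (nat_lit 4000782268) (nat_lit 4) (nat_lit 4) (nat_lit 5) (nat_lit 5) (nat_lit 5) (nat_lit 4) (nat_lit 419) (nat_lit 300) (nat_lit 181)))) (XT.nd (nat_lit 78) (nat_lit 76) (nat_lit 0) (XT.lf (nat_lit 0) (nat_lit 6184720268) (nat_lit 152) (nat_lit 7399394046) (nat_lit 76) (nat_lit 330938456881) (nat_lit 3) (nat_lit 5) (nat_lit 5) (nat_lit 5) (nat_lit 4) (nat_lit 4) (nat_lit 420) (nat_lit 300) (nat_lit 180)) (XT.nd (nat_lit 78) (nat_lit 0) (nat_lit 0) (XT.lf (nat_lit 0) (nat_lit 14710966303) (nat_lit 76) (nat_lit 2260636137) (nat_lit 152) (nat_lit 344203933487) (nat_lit 2) (nat_lit 5) (nat_lit 3) (nat_lit 5) (nat_lit 4) (nat_lit 4) (nat_lit 421) (nat_lit 300) (nat_lit 179)) (XT.lf (nat_lit 0) (nat_lit 28572417469) (nat_lit 152) (nat_lit 340629666728) (nat_lit 0) (nat_lit 9445335618) (nat_lit 2) (nat_lit 5) (nat_lit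 4) (nat_lit 4) (nat_lit 2) (nat_lit 4) (nat_lit 422) (nat_lit 300) (nat_lit 178))))) (XT.nd (nat_lit 234) (nat_lit 0) (nat_lit 0) (XT.nd (nat_lit 78) (nat_lit 0) (nat_lit 0) (XT.lf (nat_lit 0) (nat_lit 40787367336) (nat_lit 152) (nat_lit 334545914625) (nat_lit 0) (nat_lit 21657911569) (nat_lit 2) (nat_lit 5) (nat_lit 4) (nat_lit 4) (nat_lit 2) (nat_lit 4) (nat_lit 423) (nat_lit 300) (nat_lit 177)) (XT.nd (nat_lit 78) (nat_lit 0) (nat_lit 0) (XT.lf (nat_lit 0) (nat_lit 53610240392) (nat_lit 152) (nat_lit 328163533325) (nat_lit 0) (nat_lit 34478523752) (nat_lit 2) (nat_lit 5) (nat_lit 4) (nat_lit 4) (nat_lit 2) (nat_lit 4) (nat_lit 424) (nat_lit 300) (nat_lit 176)) (XT.lf (nat_lit 0) (nat_lit 67071567285) (nat_lit 152) (nat_lit 321467326682) (nat_lit 0) (nat_lit 47937697433) (nat_lit 2) (nat_lit 5) (nat_lit 4) (nat_lit 4) (nat_lit 2) (nat_lit 4) (nat_lit 425) (nat_lit 300) (nat_lit 175))))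 (XT.nd (nat_lit 78) (nat_lit 0) (nat_lit 0) (XT.lf (nat_lit 0) (nat_lit 81203398795) (nat_lit 152) (nat_lit 314441351348) (nat_lit 0) (nat_lit 62067478265) (nat_lit 2) (nat_lit 5) (nat_lit 4) (nat_lit 4) (nat_lit 2) (nat_lit 4) (nat_lit 426) (nat_lit 300) (nat_lit 174)) (XT.nd (nat_lit 78) (nat_lit 0) (nat_lit 0) (XT.lf (nat_lit 0) (nat_lit 96039382140) (nat_lit 152) (nat_lit 307068878808) (nat_lit 0) (nat_lit 76901508583) (nat_lit 2) (nat_lit 5) (nat_lit 4) (nat_lit 4) (nat_lit 2) (nat_lit 4) (nat_lit 427) (nat_lit 300) (nat_lit 173)) (XT.lf (nat_lit 0) (nat_lit 111614841088) (nat_lit 152) (nat_lit 299332355559) (nat_lit 0) (nat_lit 92475107506) (nat_lit 2) (nat_lit 5) (nat_lit 4) (nat_lit 4) (nat_lit 2) (nat_lit 4) (nat_lit 428) (nat_lit 300) (nat_lit 172)))))) (XT.nd (nat_lit 468) (nat_lit 0) (nat_lit 0) (XT.nd (nat_lit 234) (nat_lit 0) (nat_lit 0) (XT.nd (nat_lit 78) (nat_lit 0) (nat_lit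 0) (XT.lf (nat_lit 0) (nat_lit 127966860067) (nat_lit 152) (nat_lit 291213361305) (nat_lit 0) (nat_lit 108825355032) (nat_lit 2) (nat_lit 5) (nat_lit 4) (nat_lit 4) (nat_lit 2) (nat_lit 4) (nat_lit 429) (nat_lit 300) (nat_lit 171)) (XT.nd (nat_lit 78) (nat_lit 0) (nat_lit 0) (XT.lf (nat_lit 0) (nat_lit 145134372454) (nat_lit 152) (nat_lit 282692565109) (nat_lit 0) (nat_lit 125991180321) (nat_lit 2) (nat_lit 5) (nat_lit 4) (nat_lit 4) (nat_lit 2) (nat_lit 4) (nat_lit 430) (nat_lit 300) (nat_lit 170)) (XT.lf (nat_lit 0) (nat_lit 163158253280) (nat_lit 152) (nat_lit 273749679360) (nat_lit 0) (nat_lit 144013454387) (nat_lit 2) (nat_lit 5) (nat_lit 4) (nat_lit 4) (nat_lit 2) (nat_lit 4) (nat_lit 431) (nat_lit 300) (nat_lit 169)))) (XT.nd (nat_lit 78) (nat_lit 0) (nat_lit 0) (XT.lf (nat_lit 0) (nat_lit 182081416546) (nat_lit 152) (nat_lit 264363411473) (nat_lit 0) (nat_lit 162935087405) (nat_lit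 2) (nat_lit 5) (nat_lit 4) (nat_lit 4) (nat_lit 2) (nat_lit 4) (nat_lit 432) (nat_lit 300) (nat_lit 168)) (XT.nd (nat_lit 78) (nat_lit 0) (nat_lit 0) (XT.lf (nat_lit 0) (nat_lit 201948917403) (nat_lit 152) (nat_lit 254511413192) (nat_lit 0) (nat_lit 182801130884) (nat_lit 2) (nat_lit 5) (nat_lit 4) (nat_lit 4) (nat_lit 2) (nat_lit 4) (nat_lit 433) (nat_lit 300) (nat_lit 167)) (XT.lf (nat_lit 0) (nat_lit 222808059424) (nat_lit 152) (nat_lit 244170227377) (nat_lit 0) (nat_lit 203658884925) (nat_lit 2) (nat_lit 5) (nat_lit 4) (nat_lit 4) (nat_lit 2) (nat_lit 4) (nat_lit 434) (nat_lit 300) (nat_lit 166))))) (XT.nd (nat_lit 36582) (nat_lit 0) (nat_lit 11476) (XT.nd (nat_lit 36426) (nat_lit 0) (nat_lit 11704) (XT.lf (nat_lit 0) (nat_lit 244708507233) (nat_lit 152) (nat_lit 233315232158) (nat_lit 0) (nat_lit 225558010849) (nat_lit 2) (nat_lit 5) (nat_lit 4) (nat_lit 4) (nat_lit 2) (nat_lit 4)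 (nat_lit 435) (nat_lit 300) (nat_lit 165)) (XT.nd (nat_lit 78) (nat_lit 228) (nat_lit 0) (XT.lf (nat_lit 0) (nat_lit 1497498735) (nat_lit 0) (nat_lit 1497498735) (nat_lit 76) (nat_lit 231398863) (nat_lit 159) (nat_lit 5) (nat_lit 159) (nat_lit 3) (nat_lit 160) (nat_lit 0) (nat_lit 301) (nat_lit 301) (nat_lit 298)) (XT.lf (nat_lit 0) (nat_lit 2351168552) (nat_lit 228) (nat_lit 354031486) (nat_lit 228) (nat_lit 3763376525) (nat_lit 156) (nat_lit 3) (nat_lit 159) (nat_lit 3) (nat_lit 159) (nat_lit 5) (nat_lit 302) (nat_lit 301) (nat_lit 297)))) (XT.nd (nat_lit 78) (nat_lit 228) (nat_lit 0) (XT.lf (nat_lit 76) (nat_lit 2895385198) (nat_lit 0) (nat_lit 2260202261) (nat_lit 228) (nat_lit 1336262418) (nat_lit 157) (nat_lit 5) (nat_lit 156) (nat_lit 3) (nat_lit 159) (nat_lit 5) (nat_lit 303) (nat_lit 301) (nat_lit 296)) (XT.nd (nat_lit 78) (nat_lit 0) (nat_lit 0) (XT.lf (nat_lit 0) (nat_lit 1363403317)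 (nat_lit 228) (nat_lit 320473963) (nat_lit 304) (nat_lit 4839978015) (nat_lit 153) (nat_lit 5) (nat_lit 156) (nat_lit 3) (nat_lit 157) (nat_lit 5) (nat_lit 304) (nat_lit 301) (nat_lit 295)) (XT.lf (nat_lit 76) (nat_lit 3102202348) (nat_lit 0) (nat_lit 931819613) (nat_lit 304) (nat_lit 2528597851) (nat_lit 154) (nat_lit 5) (nat_lit 153) (nat_lit 5) (nat_lit 157) (nat_lit 5) (nat_lit 305) (nat_lit 301) (nat_lit 294))))))))
noncomputable def xc103 : XT := (XT.nd (nat_lit 1872) (nat_lit 2888) (nat_lit 0) (XT.nd (nat_lit 936) (nat_lit 2964) (nat_lit 0) (XT.nd (nat_lit 468) (nat_lit 2432) (nat_lit 0) (XT.nd (nat_lit 234) (nat_lit 456) (nat_lit 0) (XT.nd (nat_lit 78) (nat_lit 228) (nat_lit 0) (XT.lf (nat_lit 76) (nat_lit 1722217) (nat_lit 0) (nat_lit 67208909) (nat_lit 380) (nat_lit 6542398425) (nat_lit 150) (nat_lit 5) (nat_lit 149) (nat_lit 5) (nat_lit 154) (nat_lit 5) (nat_lit 306) (nat_lit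 301) (nat_lit 293)) (XT.nd (nat_lit 78) (nat_lit 304) (nat_lit 0) (XT.lf (nat_lit 0) (nat_lit 2627340925) (nat_lit 304) (nat_lit 3064134796) (nat_lit 76) (nat_lit 973384738) (nat_lit 150) (nat_lit 5) (nat_lit 154) (nat_lit 5) (nat_lit 151) (nat_lit 5) (nat_lit 307) (nat_lit 301) (nat_lit 292)) (XT.lf (nat_lit 0) (nat_lit 574802855) (nat_lit 304) (nat_lit 4599699330) (nat_lit 380) (nat_lit 1553769318) (nat_lit 146) (nat_lit 5) (nat_lit 150) (nat_lit 5) (nat_lit 151) (nat_lit 5) (nat_lit 308) (nat_lit 301) (nat_lit 291)))) (XT.nd (nat_lit 78) (nat_lit 380) (nat_lit 0) (XT.lf (nat_lit 0) (nat_lit 926898910) (nat_lit 380) (nat_lit 2412032546) (nat_lit 76) (nat_lit 3459997540) (nat_lit 145) (nat_lit 5) (nat_lit 150) (nat_lit 5) (nat_lit 146) (nat_lit 5) (nat_lit 309) (nat_lit 301) (nat_lit 290)) (XT.nd (nat_lit 78) (nat_lit 0) (nat_lit 0) (XT.lf (nat_lit 0) (nat_lit 1437456964) (nat_lit 380)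 (nat_lit 1925062022) (nat_lit 456) (nat_lit 3515381794) (nat_lit 140) (nat_lit 5) (nat_lit 145) (nat_lit 5) (nat_lit 146) (nat_lit 5) (nat_lit 310) (nat_lit 301) (nat_lit 289)) (XT.lf (nat_lit 0) (nat_lit 5465212621) (nat_lit 380) (nat_lit 361353361) (nat_lit 456) (nat_lit 1139124551) (nat_lit 140) (nat_lit 5) (nat_lit 145) (nat_lit 5) (nat_lit 146) (nat_lit 5) (nat_lit 311) (nat_lit 301) (nat_lit 288))))) (XT.nd (nat_lit 234) (nat_lit 1368) (nat_lit 0) (XT.nd (nat_lit 78) (nat_lit 532) (nat_lit 0) (XT.lf (nat_lit 0) (nat_lit 1244569043) (nat_lit 532) (nat_lit 4482190004) (nat_lit 76) (nat_lit 1333634038) (nat_lit 133) (nat_lit 5) (nat_lit 140) (nat_lit 5) (nat_lit 134) (nat_lit 5) (nat_lit 312) (nat_lit 301) (nat_lit 287)) (XT.nd (nat_lit 78) (nat_lit 532) (nat_lit 0) (XT.lf (nat_lit 0) (nat_lit 3615972510) (nat_lit 532) (nat_lit 373755636) (nat_lit 76) (nat_lit 3174002762) (nat_lit 133)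 (nat_lit 5) (nat_lit 140) (nat_lit 5) (nat_lit 134) (nat_lit 5) (nat_lit 313) (nat_lit 301) (nat_lit 286)) (XT.lf (nat_lit 0) (nat_lit 3968948550) (nat_lit 532) (nat_lit 2079969271) (nat_lit 608) (nat_lit 1226335137) (nat_lit 126) (nat_lit 5) (nat_lit 133) (nat_lit 5) (nat_lit 134) (nat_lit 5) (nat_lit 314) (nat_lit 301) (nat_lit 285)))) (XT.nd (nat_lit 78) (nat_lit 684) (nat_lit 0) (XT.lf (nat_lit 0) (nat_lit 1064161474) (nat_lit 608) (nat_lit 14409153) (nat_lit 684) (nat_lit 6317676698) (nat_lit 117) (nat_lit 5) (nat_lit 125) (nat_lit 5) (nat_lit 126) (nat_lit 5) (nat_lit 315) (nat_lit 301) (nat_lit 284)) (XT.nd (nat_lit 78) (nat_lit 684) (nat_lit 0) (XT.lf (nat_lit 0) (nat_lit 3435421420) (nat_lit 684) (nat_lit 1912205893) (nat_lit 76) (nat_lit 2175906602) (nat_lit 117) (nat_lit 5) (nat_lit 126) (nat_lit 5) (nat_lit 118) (nat_lit 5) (nat_lit 316) (nat_lit 301) (nat_lit 283)) (XT.lf (nat_lit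 0) (nat_lit 2715345787) (nat_lit 684) (nat_lit 3130127118) (nat_lit 760) (nat_lit 1815080522) (nat_lit 108) (nat_lit 5) (nat_lit 117) (nat_lit 5) (nat_lit 118) (nat_lit 5) (nat_lit 317) (nat_lit 301) (nat_lit 282)))))) (XT.nd (nat_lit 468) (nat_lit 988) (nat_lit 0) (XT.nd (nat_lit 234) (nat_lit 760) (nat_lit 0) (XT.nd (nat_lit 78) (nat_lit 1140) (nat_lit 0) (XT.lf (nat_lit 0) (nat_lit 480697331) (nat_lit 760) (nat_lit 273591651) (nat_lit 76) (nat_lit 7053443071) (nat_lit 107) (nat_lit 5) (nat_lit 117) (nat_lit 5) (nat_lit 108) (nat_lit 5) (nat_lit 318) (nat_lit 301) (nat_lit 281)) (XT.nd (nat_lit 78) (nat_lit 380) (nat_lit 0) (XT.lf (nat_lit 0) (nat_lit 2831324294) (nat_lit 836) (nat_lit 3337536494) (nat_lit 76) (nat_lit 1791986027) (nat_lit 97) (nat_lit 5) (nat_lit 108) (nat_lit 5) (nat_lit 98) (nat_lit 5) (nat_lit 319) (nat_lit 301) (nat_lit 280)) (XT.lf (nat_lit 0) (nat_lit 1591084666)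 (nat_lit 380) (nat_lit 3653132339) (nat_lit 456) (nat_lit 2880275890) (nat_lit 92) (nat_lit 5) (nat_lit 97) (nat_lit 5) (nat_lit 98) (nat_lit 5) (nat_lit 320) (nat_lit 301) (nat_lit 279)))) (XT.nd (nat_lit 78) (nat_lit 760) (nat_lit 0) (XT.lf (nat_lit 0) (nat_lit 6783061834) (nat_lit 380) (nat_lit 957116527) (nat_lit 456) (nat_lit 558128672) (nat_lit 92) (nat_lit 5) (nat_lit 97) (nat_lit 5) (nat_lit 98) (nat_lit 5) (nat_lit 321) (nat_lit 301) (nat_lit 278)) (XT.nd (nat_lit 78) (nat_lit 380) (nat_lit 0) (XT.lf (nat_lit 0) (nat_lit 1817864287) (nat_lit 380) (nat_lit 4764619116) (nat_lit 76) (nat_lit 1897062074) (nat_lit 87) (nat_lit 5) (nat_lit 92) (nat_lit 5) (nat_lit 88) (nat_lit 5) (nat_lit 322) (nat_lit 301) (nat_lit 277)) (XT.lf (nat_lit 0) (nat_lit 480600949) (nat_lit 380) (nat_lit 3774120273) (nat_lit 456) (nat_lit 4416718474) (nat_lit 82) (nat_lit 5) (nat_lit 87) (nat_lit 5) (nat_lit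 88) (nat_lit 5) (nat_lit 323) (nat_lit 301) (nat_lit 276))))) (XT.nd (nat_lit 234) (nat_lit 608) (nat_lit 0) (XT.nd (nat_lit 78) (nat_lit 380) (nat_lit 0) (XT.lf (nat_lit 0) (nat_lit 6054944346) (nat_lit 380) (nat_lit 753386275) (nat_lit 456) (nat_lit 2064940515) (nat_lit 82) (nat_lit 5) (nat_lit 87) (nat_lit 5) (nat_lit 88) (nat_lit 5) (nat_lit 324) (nat_lit 301) (nat_lit 275)) (XT.nd (nat_lit 78) (nat_lit 0) (nat_lit 0) (XT.lf (nat_lit 0) (nat_lit 390601454) (nat_lit 380) (nat_lit 6315553039) (nat_lit 76) (nat_lit 2378847791) (nat_lit 77) (nat_lit 5) (nat_lit 82) (nat_lit 5) (nat_lit 78) (nat_lit 5) (nat_lit 325) (nat_lit 301) (nat_lit 274)) (XT.lf (nat_lit 0) (nat_lit 2879517221) (nat_lit 380) (nat_lit 716470024) (nat_lit 76) (nat_lit 5710716566) (nat_lit 77) (nat_lit 5) (nat_lit 82) (nat_lit 5) (nat_lit 78) (nat_lit 5) (nat_lit 326) (nat_lit 301) (nat_lit 273)))) (XT.nd (nat_lit 78)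 (nat_lit 304) (nat_lit 0) (XT.lf (nat_lit 0) (nat_lit 5235849877) (nat_lit 304) (nat_lit 261755630) (nat_lit 380) (nat_lit 4041720961) (nat_lit 73) (nat_lit 5) (nat_lit 77) (nat_lit 5) (nat_lit 78) (nat_lit 5) (nat_lit 327) (nat_lit 301) (nat_lit 272)) (XT.nd (nat_lit 78) (nat_lit 76) (nat_lit 0) (XT.lf (nat_lit 0) (nat_lit 1632872275) (nat_lit 228) (nat_lit 6627044013) (nat_lit 304) (nat_lit 1523067010) (nat_lit 70) (nat_lit 5) (nat_lit 73) (nat_lit 5) (nat_lit 74) (nat_lit 5) (nat_lit 328) (nat_lit 301) (nat_lit 271)) (XT.lf (nat_lit 0) (nat_lit 1089746129) (nat_lit 304) (nat_lit 2139997905) (nat_lit 76) (nat_lit 6808059858) (nat_lit 69) (nat_lit 5) (nat_lit 73) (nat_lit 5) (nat_lit 70) (nat_lit 5) (nat_lit 329) (nat_lit 301) (nat_lit 270))))))) (XT.nd (nat_lit 936) (nat_lit 1064) (nat_lit 0) (XT.nd (nat_lit 468) (nat_lit 760) (nat_lit 0) (XT.nd (nat_lit 234) (nat_lit 532) (nat_lit 0)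 (XT.nd (nat_lit 78) (nat_lit 228) (nat_lit 0) (XT.lf (nat_lit 0) (nat_lit 3783083126) (nat_lit 380) (nat_lit 6123823564) (nat_lit 76) (nat_lit 397216556) (nat_lit 65) (nat_lit 5) (nat_lit 70) (nat_lit 5) (nat_lit 66) (nat_lit 5) (nat_lit 330) (nat_lit 301) (nat_lit 269)) (XT.nd (nat_lit 78) (nat_lit 0) (nat_lit 0) (XT.lf (nat_lit 0) (nat_lit 166460278) (nat_lit 228) (nat_lit 6467893321) (nat_lit 304) (nat_lit 3948298355) (nat_lit 62) (nat_lit 5) (nat_lit 65) (nat_lit 5) (nat_lit 66) (nat_lit 5) (nat_lit 331) (nat_lit 301) (nat_lit 268)) (XT.lf (nat_lit 0) (nat_lit 6891096108) (nat_lit 228) (nat_lit 2773529294) (nat_lit 304) (nat_lit 1208713824) (nat_lit 62) (nat_lit 5) (nat_lit 65) (nat_lit 5) (nat_lit 66) (nat_lit 5) (nat_lit 332) (nat_lit 301) (nat_lit 267)))) (XT.nd (nat_lit 78) (nat_lit 228) (nat_lit 0) (XT.lf (nat_lit 0) (nat_lit 1610145118) (nat_lit 304) (nat_lit 8451762171) (nat_lit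 76) (nat_lit 1115616739) (nat_lit 58) (nat_lit 5) (nat_lit 62) (nat_lit 5) (nat_lit 59) (nat_lit 5) (nat_lit 333) (nat_lit 301) (nat_lit 266)) (XT.nd (nat_lit 78) (nat_lit 228) (nat_lit 0) (XT.lf (nat_lit 0) (nat_lit 4579484034) (nat_lit 304) (nat_lit 1744425188) (nat_lit 76) (nat_lit 5169556876) (nat_lit 58) (nat_lit 5) (nat_lit 62) (nat_lit 5) (nat_lit 59) (nat_lit 5) (nat_lit 334) (nat_lit 301) (nat_lit 265)) (XT.lf (nat_lit 0) (nat_lit 5383033641) (nat_lit 228) (nat_lit 2337484530) (nat_lit 304) (nat_lit 4103570127) (nat_lit 55) (nat_lit 5) (nat_lit 58) (nat_lit 5) (nat_lit 59) (nat_lit 5) (nat_lit 335) (nat_lit 301) (nat_lit 264))))) (XT.nd (nat_lit 234) (nat_lit 304) (nat_lit 0) (XT.nd (nat_lit 78) (nat_lit 228) (nat_lit 0) (XT.lf (nat_lit 0) (nat_lit 660761035) (nat_lit 228) (nat_lit 10367358895) (nat_lit 304) (nat_lit 1142688208) (nat_lit 52) (nat_lit 5) (nat_lit 55) (nat_lit 5)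 (nat_lit 56) (nat_lit 5) (nat_lit 336) (nat_lit 301) (nat_lit 263)) (XT.nd (nat_lit 78) (nat_lit 152) (nat_lit 0) (XT.lf (nat_lit 0) (nat_lit 1993298226) (nat_lit 304) (nat_lit 4348204567) (nat_lit 76) (nat_lit 6187365028) (nat_lit 51) (nat_lit 5) (nat_lit 55) (nat_lit 5) (nat_lit 52) (nat_lit 5) (nat_lit 337) (nat_lit 301) (nat_lit 262)) (XT.lf (nat_lit 0) (nat_lit 3169414793) (nat_lit 152) (nat_lit 2071372037) (nat_lit 228) (nat_lit 7663488356) (nat_lit 49) (nat_lit 5) (nat_lit 51) (nat_lit 5) (nat_lit 52) (nat_lit 5) (nat_lit 338) (nat_lit 301) (nat_lit 261)))) (XT.nd (nat_lit 78) (nat_lit 304) (nat_lit 0) (XT.lf (nat_lit 0) (nat_lit 8707710760) (nat_lit 228) (nat_lit 2205755335) (nat_lit 76) (nat_lit 2382168601) (nat_lit 49) (nat_lit 5) (nat_lit 52) (nat_lit 5) (nat_lit 50) (nat_lit 5) (nat_lit 339) (nat_lit 301) (nat_lit 260)) (XT.nd (nat_lit 78) (nat_lit 76) (nat_lit 0) (XT.lf (nat_lit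 0) (nat_lit 5768583606) (nat_lit 228) (nat_lit 6650610840) (nat_lit 304) (nat_lit 1283840220) (nat_lit 46) (nat_lit 5) (nat_lit 49) (nat_lit 5) (nat_lit 50) (nat_lit 5) (nat_lit 340) (nat_lit 301) (nat_lit 259)) (XT.lf (nat_lit 0) (nat_lit 2101041484) (nat_lit 304) (nat_lit 27789655) (nat_lit 76) (nat_lit 12001020438) (nat_lit 45) (nat_lit 5) (nat_lit 49) (nat_lit 5) (nat_lit 46) (nat_lit 5) (nat_lit 341) (nat_lit 301) (nat_lit 258)))))) (XT.nd (nat_lit 468) (nat_lit 380) (nat_lit 0) (XT.nd (nat_lit 234) (nat_lit 380) (nat_lit 0) (XT.nd (nat_lit 78) (nat_lit 152) (nat_lit 0) (XT.lf (nat_lit 0) (nat_lit 5736895093) (nat_lit 228) (nat_lit 6170806680) (nat_lit 76) (nat_lit 2663040217) (nat_lit 43) (nat_lit 5) (nat_lit 46) (nat_lit 5) (nat_lit 44) (nat_lit 5) (nat_lit 342) (nat_lit 301) (nat_lit 257)) (XT.nd (nat_lit 78) (nat_lit 0) (nat_lit 0) (XT.lf (nat_lit 0) (nat_lit 2171788193) (nat_lit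 152) (nat_lit 7402838155) (nat_lit 228) (nat_lit 5458073610) (nat_lit 41) (nat_lit 5) (nat_lit 43) (nat_lit 5) (nat_lit 44) (nat_lit 5) (nat_lit 343) (nat_lit 301) (nat_lit 256)) (XT.lf (nat_lit 0) (nat_lit 11067852353) (nat_lit 152) (nat_lit 2592824124) (nat_lit 228) (nat_lit 1854283716) (nat_lit 41) (nat_lit 5) (nat_lit 43) (nat_lit 5) (nat_lit 44) (nat_lit 5) (nat_lit 344) (nat_lit 301) (nat_lit 255)))) (XT.nd (nat_lit 78) (nat_lit 152) (nat_lit 0) (XT.lf (nat_lit 0) (nat_lit 1929972985) (nat_lit 228) (nat_lit 11635193612) (nat_lit 76) (nat_lit 2451582031) (nat_lit 38) (nat_lit 5) (nat_lit 41) (nat_lit 5) (nat_lit 39) (nat_lit 5) (nat_lit 345) (nat_lit 301) (nat_lit 254)) (XT.nd (nat_lit 78) (nat_lit 152) (nat_lit 0) (XT.lf (nat_lit 0) (nat_lit 5914222059) (nat_lit 228) (nat_lit 2884327630) (nat_lit 76) (nat_lit 7739924557) (nat_lit 38) (nat_lit 5) (nat_lit 41) (nat_lit 5) (nat_lit 39)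 (nat_lit 5) (nat_lit 346) (nat_lit 301) (nat_lit 253)) (XT.lf (nat_lit 0) (nat_lit 6437381550) (nat_lit 152) (nat_lit 3717037828) (nat_lit 228) (nat_lit 6929051353) (nat_lit 36) (nat_lit 5) (nat_lit 38) (nat_lit 5) (nat_lit 39) (nat_lit 5) (nat_lit 347) (nat_lit 301) (nat_lit 252))))) (XT.nd (nat_lit 234) (nat_lit 228) (nat_lit 0) (XT.nd (nat_lit 78) (nat_lit 152) (nat_lit 0) (XT.lf (nat_lit 0) (nat_lit 14638293085) (nat_lit 228) (nat_lit 1427306819) (nat_lit 76) (nat_lit 1588554169) (nat_lit 36) (nat_lit 5) (nat_lit 39) (nat_lit 5) (nat_lit 37) (nat_lit 4) (nat_lit 348) (nat_lit 301) (nat_lit 251)) (XT.nd (nat_lit 78) (nat_lit 0) (nat_lit 0) (XT.lf (nat_lit 0) (nat_lit 1211196653) (nat_lit 152) (nat_lit 9875155543) (nat_lit 76) (nat_lit 7158525112) (nat_lit 34) (nat_lit 5) (nat_lit 36) (nat_lit 5) (nat_lit 35) (nat_lit 5) (nat_lit 349) (nat_lit 301) (nat_lit 250)) (XT.lf (nat_lit 0) (nat_lit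 5531841629) (nat_lit 152) (nat_lit 277642628) (nat_lit 76) (nat_lit 13054018658) (nat_lit 34) (nat_lit 5) (nat_lit 36) (nat_lit 5) (nat_lit 35) (nat_lit 5) (nat_lit 350) (nat_lit 301) (nat_lit 249)))) (XT.nd (nat_lit 78) (nat_lit 76) (nat_lit 0) (XT.lf (nat_lit 0) (nat_lit 10054866775) (nat_lit 152) (nat_lit 131606975) (nat_lit 228) (nat_lit 9320705056) (nat_lit 32) (nat_lit 5) (nat_lit 34) (nat_lit 5) (nat_lit 35) (nat_lit 5) (nat_lit 351) (nat_lit 301) (nat_lit 248)) (XT.nd (nat_lit 78) (nat_lit 0) (nat_lit 0) (XT.lf (nat_lit 0) (nat_lit 591548899) (nat_lit 76) (nat_lit 14548704677) (nat_lit 152) (nat_lit 5039480064) (nat_lit 31) (nat_lit 5) (nat_lit 32) (nat_lit 5) (nat_lit 33) (nat_lit 4) (nat_lit 352) (nat_lit 301) (nat_lit 247)) (XT.lf (nat_lit 0) (nat_lit 11397500093) (nat_lit 76) (nat_lit 9068608751) (nat_lit 152) (nat_lit 413603241) (nat_lit 31) (nat_lit 5) (nat_lit 32) (nat_lit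 5) (nat_lit 33) (nat_lit 4) (nat_lit 353) (nat_lit 301) (nat_lit 246))))))))
noncomputable def xc104 : XT := (XT.nd (nat_lit 1794) (nat_lit 532) (nat_lit 0) (XT.nd (nat_lit 858) (nat_lit 532) (nat_lit 0) (XT.nd (nat_lit 390) (nat_lit 380) (nat_lit 0) (XT.nd (nat_lit 156) (nat_lit 152) (nat_lit 0) (XT.nd (nat_lit 78) (nat_lit 0) (nat_lit 0) (XT.lf (nat_lit 0) (nat_lit 1028483907) (nat_lit 152) (nat_lit 3252299736) (nat_lit 228) (nat_lit 17331478855) (nat_lit 28) (nat_lit 5) (nat_lit 30) (nat_lit 5) (nat_lit 31) (nat_lit 5) (nat_lit 354) (nat_lit 301) (nat_lit 245)) (XT.lf (nat_lit 0) (nat_lit 9367494791) (nat_lit 228) (nat_lit 10097944145) (nat_lit 76) (nat_lit 2907100366) (nat_lit 28) (nat_lit 5) (nat_lit 31) (nat_lit 5) (nat_lit 29) (nat_lit 4) (nat_lit 355) (nat_lit 301) (nat_lit 244))) (XT.nd (nat_lit 78) (nat_lit 76) (nat_lit 0) (XT.lf (nat_lit 0) (nat_lit 823839505) (nat_lit 76) (nat_lit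 13916323186) (nat_lit 152) (nat_lit 8429098695) (nat_lit 27) (nat_lit 5) (nat_lit 28) (nat_lit 5) (nat_lit 29) (nat_lit 4) (nat_lit 356) (nat_lit 301) (nat_lit 243)) (XT.nd (nat_lit 78) (nat_lit 76) (nat_lit 0) (XT.lf (nat_lit 0) (nat_lit 12581886248) (nat_lit 76) (nat_lit 7936736199) (nat_lit 152) (nat_lit 3480351107) (nat_lit 27) (nat_lit 5) (nat_lit 28) (nat_lit 5) (nat_lit 29) (nat_lit 4) (nat_lit 357) (nat_lit 301) (nat_lit 242)) (XT.lf (nat_lit 0) (nat_lit 1628133952) (nat_lit 152) (nat_lit 27747246) (nat_lit 76) (nat_lit 23214600605) (nat_lit 26) (nat_lit 5) (nat_lit 28) (nat_lit 5) (nat_lit 27) (nat_lit 5) (nat_lit 358) (nat_lit 301) (nat_lit 241))))) (XT.nd (nat_lit 234) (nat_lit 152) (nat_lit 0) (XT.nd (nat_lit 78) (nat_lit 76) (nat_lit 0) (XT.lf (nat_lit 0) (nat_lit 7115262765) (nat_lit 228) (nat_lit 13646604773) (nat_lit 76) (nat_lit 5008846357) (nat_lit 24) (nat_lit 5) (nat_lit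 27) (nat_lit 5) (nat_lit 25) (nat_lit 4) (nat_lit 359) (nat_lit 301) (nat_lit 240)) (XT.nd (nat_lit 78) (nat_lit 76) (nat_lit 0) (XT.lf (nat_lit 0) (nat_lit 12873398929) (nat_lit 228) (nat_lit 1914655424) (nat_lit 76) (nat_lit 11928080487) (nat_lit 24) (nat_lit 5) (nat_lit 27) (nat_lit 5) (nat_lit 25) (nat_lit 4) (nat_lit 360) (nat_lit 301) (nat_lit 239)) (XT.lf (nat_lit 0) (nat_lit 10692706038) (nat_lit 76) (nat_lit 8364181542) (nat_lit 152) (nat_lit 8645076294) (nat_lit 23) (nat_lit 5) (nat_lit 24) (nat_lit 5) (nat_lit 25) (nat_lit 4) (nat_lit 361) (nat_lit 301) (nat_lit 238)))) (XT.nd (nat_lit 78) (nat_lit 152) (nat_lit 0) (XT.lf (nat_lit 0) (nat_lit 23944350953) (nat_lit 76) (nat_lit 1608711973) (nat_lit 152) (nat_lit 3183854702) (nat_lit 23) (nat_lit 5) (nat_lit 24) (nat_lit 5) (nat_lit 25) (nat_lit 4) (nat_lit 362) (nat_lit 301) (nat_lit 237)) (XT.nd (nat_lit 78) (nat_lit 0) (nat_lit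 0) (XT.lf (nat_lit 0) (nat_lit 2656956910) (nat_lit 152) (nat_lit 21697831525) (nat_lit 76) (nat_lit 5457439798) (nat_lit 21) (nat_lit 5) (nat_lit 23) (nat_lit 5) (nat_lit 22) (nat_lit 4) (nat_lit 363) (nat_lit 301) (nat_lit 236)) (XT.lf (nat_lit 0) (nat_lit 8763877108) (nat_lit 152) (nat_lit 9235239048) (nat_lit 76) (nat_lit 12935532850) (nat_lit 21) (nat_lit 5) (nat_lit 23) (nat_lit 5) (nat_lit 22) (nat_lit 4) (nat_lit 364) (nat_lit 301) (nat_lit 235)))))) (XT.nd (nat_lit 468) (nat_lit 228) (nat_lit 0) (XT.nd (nat_lit 234) (nat_lit 228) (nat_lit 0) (XT.nd (nat_lit 78) (nat_lit 0) (nat_lit 0) (XT.lf (nat_lit 0) (nat_lit 3927432047) (nat_lit 76) (nat_lit 11283552414) (nat_lit 152) (nat_lit 16900471606) (nat_lit 20) (nat_lit 5) (nat_lit 21) (nat_lit 5) (nat_lit 22) (nat_lit 4) (nat_lit 365) (nat_lit 301) (nat_lit 234)) (XT.nd (nat_lit 78) (nat_lit 0) (nat_lit 0) (XT.lf (nat_lit 0) (nat_lit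 18020896329) (nat_lit 76) (nat_lit 4089988933) (nat_lit 152) (nat_lit 11229703274) (nat_lit 20) (nat_lit 5) (nat_lit 21) (nat_lit 5) (nat_lit 22) (nat_lit 4) (nat_lit 366) (nat_lit 301) (nat_lit 233)) (XT.lf (nat_lit 0) (nat_lit 29384796307) (nat_lit 152) (nat_lit 1912813666) (nat_lit 0) (nat_lit 3332123524) (nat_lit 20) (nat_lit 5) (nat_lit 22) (nat_lit 4) (nat_lit 20) (nat_lit 4) (nat_lit 367) (nat_lit 301) (nat_lit 232)))) (XT.nd (nat_lit 78) (nat_lit 76) (nat_lit 0) (XT.lf (nat_lit 0) (nat_lit 1247288512) (nat_lit 152) (nat_lit 23540074155) (nat_lit 76) (nat_lit 11183094015) (nat_lit 18) (nat_lit 5) (nat_lit 20) (nat_lit 5) (nat_lit 19) (nat_lit 4) (nat_lit 368) (nat_lit 301) (nat_lit 231)) (XT.nd (nat_lit 78) (nat_lit 76) (nat_lit 0) (XT.lf (nat_lit 0) (nat_lit 7896989001) (nat_lit 152) (nat_lit 9950419412) (nat_lit 76) (nat_lit 19526057823) (nat_lit 18) (nat_lit 5) (nat_lit 20) (nat_lit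 5) (nat_lit 19) (nat_lit 4) (nat_lit 369) (nat_lit 301) (nat_lit 230)) (XT.lf (nat_lit 0) (nat_lit 4417774859) (nat_lit 76) (nat_lit 10507709029) (nat_lit 152) (nat_lit 23918832362) (nat_lit 17) (nat_lit 5) (nat_lit 18) (nat_lit 5) (nat_lit 19) (nat_lit 4) (nat_lit 370) (nat_lit 301) (nat_lit 229))))) (XT.nd (nat_lit 234) (nat_lit 152) (nat_lit 0) (XT.nd (nat_lit 78) (nat_lit 76) (nat_lit 0) (XT.lf (nat_lit 0) (nat_lit 19808178239) (nat_lit 76) (nat_lit 2643504858) (nat_lit 152) (nat_lit 17929716884) (nat_lit 17) (nat_lit 5) (nat_lit 18) (nat_lit 5) (nat_lit 19) (nat_lit 4) (nat_lit 371) (nat_lit 301) (nat_lit 228)) (XT.nd (nat_lit 78) (nat_lit 76) (nat_lit 0) (XT.lf (nat_lit 0) (nat_lit 30420375596) (nat_lit 152) (nat_lit 6155333021) (nat_lit 0) (nat_lit 5416325061) (nat_lit 17) (nat_lit 5) (nat_lit 19) (nat_lit 4) (nat_lit 17) (nat_lit 4) (nat_lit 372) (nat_lit 301) (nat_lit 227)) (XT.lf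 (nat_lit 0) (nat_lit 9195918871) (nat_lit 76) (nat_lit 29758050694) (nat_lit 76) (nat_lit 4720910862) (nat_lit 16) (nat_lit 4) (nat_lit 17) (nat_lit 5) (nat_lit 17) (nat_lit 4) (nat_lit 373) (nat_lit 301) (nat_lit 226)))) (XT.nd (nat_lit 78) (nat_lit 76) (nat_lit 0) (XT.lf (nat_lit 0) (nat_lit 2478799946) (nat_lit 152) (nat_lit 19987113558) (nat_lit 76) (nat_lit 22969752368) (nat_lit 15) (nat_lit 5) (nat_lit 17) (nat_lit 5) (nat_lit 16) (nat_lit 4) (nat_lit 374) (nat_lit 301) (nat_lit 225)) (XT.nd (nat_lit 78) (nat_lit 76) (nat_lit 0) (XT.lf (nat_lit 0) (nat_lit 9860419089) (nat_lit 152) (nat_lit 4884807282) (nat_lit 76) (nat_lit 32536369870) (nat_lit 15) (nat_lit 5) (nat_lit 17) (nat_lit 5) (nat_lit 16) (nat_lit 4) (nat_lit 375) (nat_lit 301) (nat_lit 224)) (XT.lf (nat_lit 0) (nat_lit 11299268962) (nat_lit 76) (nat_lit 6469764773) (nat_lit 152) (nat_lit 31442897542) (nat_lit 14) (nat_lit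 5) (nat_lit 15) (nat_lit 5) (nat_lit 16) (nat_lit 4) (nat_lit 376) (nat_lit 301) (nat_lit 223))))))) (XT.nd (nat_lit 936) (nat_lit 228) (nat_lit 0) (XT.nd (nat_lit 468) (nat_lit 76) (nat_lit 0) (XT.nd (nat_lit 234) (nat_lit 152) (nat_lit 0) (XT.nd (nat_lit 78) (nat_lit 76) (nat_lit 0) (XT.lf (nat_lit 0) (nat_lit 26173404606) (nat_lit 152) (nat_lit 22843602070) (nat_lit 0) (nat_lit 2216763804) (nat_lit 14) (nat_lit 5) (nat_lit 16) (nat_lit 4) (nat_lit 14) (nat_lit 4) (nat_lit 377) (nat_lit 301) (nat_lit 222)) (XT.nd (nat_lit 78) (nat_lit 76) (nat_lit 0) (XT.lf (nat_lit 0) (nat_lit 35086522975) (nat_lit 152) (nat_lit 7160565307) (nat_lit 0) (nat_lit 11105190430) (nat_lit 14) (nat_lit 5) (nat_lit 16) (nat_lit 4) (nat_lit 14) (nat_lit 4) (nat_lit 378) (nat_lit 301) (nat_lit 221)) (XT.lf (nat_lit 0) (nat_lit 9581466462) (nat_lit 76) (nat_lit 34996726474) (nat_lit 76) (nat_lit 10991877983) (nat_lit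 13) (nat_lit 4) (nat_lit 14) (nat_lit 5) (nat_lit 14) (nat_lit 4) (nat_lit 379) (nat_lit 301) (nat_lit 220)))) (XT.nd (nat_lit 78) (nat_lit 152) (nat_lit 0) (XT.lf (nat_lit 0) (nat_lit 27377888167) (nat_lit 76) (nat_lit 27271434292) (nat_lit 76) (nat_lit 3244189662) (nat_lit 13) (nat_lit 4) (nat_lit 14) (nat_lit 5) (nat_lit 14) (nat_lit 4) (nat_lit 380) (nat_lit 301) (nat_lit 219)) (XT.nd (nat_lit 78) (nat_lit 76) (nat_lit 0) (XT.lf (nat_lit 0) (nat_lit 4718474390) (nat_lit 152) (nat_lit 14375701785) (nat_lit 76) (nat_lit 41235927575) (nat_lit 12) (nat_lit 5) (nat_lit 14) (nat_lit 5) (nat_lit 13) (nat_lit 4) (nat_lit 381) (nat_lit 301) (nat_lit 218)) (XT.lf (nat_lit 0) (nat_lit 2571433099) (nat_lit 76) (nat_lit 10423845604) (nat_lit 152) (nat_lit 49889338185) (nat_lit 11) (nat_lit 5) (nat_lit 12) (nat_lit 5) (nat_lit 13) (nat_lit 4) (nat_lit 382) (nat_lit 301) (nat_lit 217))))) (XT.nd (nat_lit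 234) (nat_lit 76) (nat_lit 0) (XT.nd (nat_lit 78) (nat_lit 0) (nat_lit 0) (XT.lf (nat_lit 0) (nat_lit 20836580920) (nat_lit 76) (nat_lit 1077963368) (nat_lit 152) (nat_lit 43640882965) (nat_lit 11) (nat_lit 5) (nat_lit 12) (nat_lit 5) (nat_lit 13) (nat_lit 4) (nat_lit 383) (nat_lit 301) (nat_lit 216)) (XT.nd (nat_lit 78) (nat_lit 0) (nat_lit 0) (XT.lf (nat_lit 0) (nat_lit 31401820303) (nat_lit 152) (nat_lit 28508761698) (nat_lit 0) (nat_lit 8443096275) (nat_lit 11) (nat_lit 5) (nat_lit 13) (nat_lit 4) (nat_lit 11) (nat_lit 4) (nat_lit 384) (nat_lit 301) (nat_lit 215)) (XT.lf (nat_lit 0) (nat_lit 41367480219) (nat_lit 152) (nat_lit 11532119161) (nat_lit 0) (nat_lit 18392043846) (nat_lit 11) (nat_lit 5) (nat_lit 13) (nat_lit 4) (nat_lit 11) (nat_lit 4) (nat_lit 385) (nat_lit 301) (nat_lit 214)))) (XT.nd (nat_lit 78) (nat_lit 0) (nat_lit 0) (XT.lf (nat_lit 0) (nat_lit 6475591246) (nat_lit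 76) (nat_lit 45443932647) (nat_lit 76) (nat_lit 22452579757) (nat_lit 10) (nat_lit 4) (nat_lit 11) (nat_lit 5) (nat_lit 11) (nat_lit 4) (nat_lit 386) (nat_lit 301) (nat_lit 213)) (XT.nd (nat_lit 78) (nat_lit 0) (nat_lit 0) (XT.lf (nat_lit 0) (nat_lit 25759436300) (nat_lit 76) (nat_lit 37422268831) (nat_lit 76) (nat_lit 14415757353) (nat_lit 10) (nat_lit 4) (nat_lit 11) (nat_lit 5) (nat_lit 11) (nat_lit 4) (nat_lit 387) (nat_lit 301) (nat_lit 212)) (XT.lf (nat_lit 0) (nat_lit 45984025977) (nat_lit 76) (nat_lit 29010810751) (nat_lit 76) (nat_lit 5989862522) (nat_lit 10) (nat_lit 4) (nat_lit 11) (nat_lit 5) (nat_lit 11) (nat_lit 4) (nat_lit 388) (nat_lit 301) (nat_lit 211)))))) (XT.nd (nat_lit 468) (nat_lit 76) (nat_lit 0) (XT.nd (nat_lit 234) (nat_lit 0) (nat_lit 0) (XT.nd (nat_lit 78) (nat_lit 76) (nat_lit 0) (XT.lf (nat_lit 0) (nat_lit 2754103296) (nat_lit 152) (nat_lit 17388785758) (nat_lit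 76) (nat_lit 64396768694) (nat_lit 9) (nat_lit 5) (nat_lit 11) (nat_lit 5) (nat_lit 10) (nat_lit 4) (nat_lit 389) (nat_lit 301) (nat_lit 210)) (XT.nd (nat_lit 78) (nat_lit 0) (nat_lit 0) (XT.lf (nat_lit 0) (nat_lit 1016392422) (nat_lit 76) (nat_lit 10722234161) (nat_lit 152) (nat_lit 76528596747) (nat_lit 8) (nat_lit 5) (nat_lit 9) (nat_lit 5) (nat_lit 10) (nat_lit 4) (nat_lit 390) (nat_lit 301) (nat_lit 209)) (XT.lf (nat_lit 0) (nat_lit 20924237772) (nat_lit 76) (nat_lit 531616302) (nat_lit 152) (nat_lit 70711140905) (nat_lit 8) (nat_lit 5) (nat_lit 9) (nat_lit 5) (nat_lit 10) (nat_lit 4) (nat_lit 391) (nat_lit 301) (nat_lit 208)))) (XT.nd (nat_lit 78) (nat_lit 0) (nat_lit 0) (XT.lf (nat_lit 0) (nat_lit 31807064149) (nat_lit 152) (nat_lit 54613689352) (nat_lit 0) (nat_lit 9833597261) (nat_lit 8) (nat_lit 5) (nat_lit 10) (nat_lit 4) (nat_lit 8) (nat_lit 4) (nat_lit 392) (nat_lit 301) (nat_lit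 207)) (XT.nd (nat_lit 78) (nat_lit 0) (nat_lit 0) (XT.lf (nat_lit 0) (nat_lit 42674418242) (nat_lit 152) (nat_lit 37181550021) (nat_lit 0) (nat_lit 20690178428) (nat_lit 8) (nat_lit 5) (nat_lit 10) (nat_lit 4) (nat_lit 8) (nat_lit 4) (nat_lit 393) (nat_lit 301) (nat_lit 206)) (XT.lf (nat_lit 0) (nat_lit 54075490987) (nat_lit 152) (nat_lit 18896534101) (nat_lit 0) (nat_lit 32080991243) (nat_lit 8) (nat_lit 5) (nat_lit 10) (nat_lit 4) (nat_lit 8) (nat_lit 4) (nat_lit 394) (nat_lit 301) (nat_lit 205))))) (XT.nd (nat_lit 234) (nat_lit 0) (nat_lit 0) (XT.nd (nat_lit 78) (nat_lit 0) (nat_lit 0) (XT.lf (nat_lit 0) (nat_lit 294314047) (nat_lit 76) (nat_lit 65747708813) (nat_lit 76) (nat_lit 43743437708) (nat_lit 7) (nat_lit 4) (nat_lit 8) (nat_lit 5) (nat_lit 8) (nat_lit 4) (nat_lit 395) (nat_lit 301) (nat_lit 204)) (XT.nd (nat_lit 78) (nat_lit 0) (nat_lit 0) (XT.lf (nat_lit 0) (nat_lit 21083198860)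 (nat_lit 76) (nat_lit 57834678424) (nat_lit 76) (nat_lit 35821101261) (nat_lit 7) (nat_lit 4) (nat_lit 8) (nat_lit 5) (nat_lit 8) (nat_lit 4) (nat_lit 396) (nat_lit 301) (nat_lit 203)) (XT.lf (nat_lit 0) (nat_lit 42894812925) (nat_lit 76) (nat_lit 49534115321) (nat_lit 76) (nat_lit 27511675245) (nat_lit 7) (nat_lit 4) (nat_lit 8) (nat_lit 5) (nat_lit 8) (nat_lit 4) (nat_lit 397) (nat_lit 301) (nat_lit 202)))) (XT.nd (nat_lit 78) (nat_lit 0) (nat_lit 0) (XT.lf (nat_lit 0) (nat_lit 65781088657) (nat_lit 76) (nat_lit 40826256258) (nat_lit 76) (nat_lit 18795375313) (nat_lit 7) (nat_lit 4) (nat_lit 8) (nat_lit 5) (nat_lit 8) (nat_lit 4) (nat_lit 398) (nat_lit 301) (nat_lit 201)) (XT.nd (nat_lit 78) (nat_lit 0) (nat_lit 0) (XT.lf (nat_lit 0) (nat_lit 89796517189) (nat_lit 76) (nat_lit 31690368238) (nat_lit 76) (nat_lit 9651448370) (nat_lit 7) (nat_lit 4) (nat_lit 8) (nat_lit 5) (nat_lit 8) (nat_lit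 4) (nat_lit 399) (nat_lit 301) (nat_lit 200)) (XT.lf (nat_lit 0) (nat_lit 114998278112) (nat_lit 76) (nat_lit 22104699146) (nat_lit 76) (nat_lit 58123161) (nat_lit 7) (nat_lit 4) (nat_lit 8) (nat_lit 5) (nat_lit 8) (nat_lit 4) (nat_lit 400) (nat_lit 301) (nat_lit 199))))))))
noncomputable def xc105 : XT := (XT.nd (nat_lit 1794) (nat_lit 0) (nat_lit 0) (XT.nd (nat_lit 858) (nat_lit 152) (nat_lit 0) (XT.nd (nat_lit 390) (nat_lit 76) (nat_lit 0) (XT.nd (nat_lit 156) (nat_lit 0) (nat_lit 0) (XT.nd (nat_lit 78) (nat_lit 76) (nat_lit 0) (XT.lf (nat_lit 0) (nat_lit 9687140936) (nat_lit 152) (nat_lit 2195228605) (nat_lit 76) (nat_lit 131595178263) (nat_lit 6) (nat_lit 5) (nat_lit 8) (nat_lit 5) (nat_lit 7) (nat_lit 4) (nat_lit 401) (nat_lit 301) (nat_lit 198)) (XT.lf (nat_lit 0) (nat_lit 19376641526) (nat_lit 76) (nat_lit 836750364) (nat_lit 152) (nat_lit 129881595120) (nat_lit 5) (nat_lit 5) (nat_lit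 6) (nat_lit 5) (nat_lit 7) (nat_lit 4) (nat_lit 402) (nat_lit 301) (nat_lit 197))) (XT.nd (nat_lit 78) (nat_lit 0) (nat_lit 0) (XT.lf (nat_lit 0) (nat_lit 31464928810) (nat_lit 152) (nat_lit 115120088487) (nat_lit 0) (nat_lit 10448333104) (nat_lit 5) (nat_lit 5) (nat_lit 7) (nat_lit 4) (nat_lit 5) (nat_lit 4) (nat_lit 403) (nat_lit 301) (nat_lit 196)) (XT.nd (nat_lit 78) (nat_lit 0) (nat_lit 0) (XT.lf (nat_lit 0) (nat_lit 43286259786) (nat_lit 152) (nat_lit 98768346858) (nat_lit 0) (nat_lit 22263665312) (nat_lit 5) (nat_lit 5) (nat_lit 7) (nat_lit 4) (nat_lit 5) (nat_lit 4) (nat_lit 404) (nat_lit 301) (nat_lit 195)) (XT.lf (nat_lit 0) (nat_lit 55692466826) (nat_lit 152) (nat_lit 81611123861) (nat_lit 0) (nat_lit 34664159239) (nat_lit 5) (nat_lit 5) (nat_lit 7) (nat_lit 4) (nat_lit 5) (nat_lit 4) (nat_lit 405) (nat_lit 301) (nat_lit 194))))) (XT.nd (nat_lit 234) (nat_lit 76) (nat_lit 0)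 (XT.nd (nat_lit 78) (nat_lit 0) (nat_lit 0) (XT.lf (nat_lit 0) (nat_lit 68713088518) (nat_lit 152) (nat_lit 63607568965) (nat_lit 0) (nat_lit 47679339872) (nat_lit 5) (nat_lit 5) (nat_lit 7) (nat_lit 4) (nat_lit 5) (nat_lit 4) (nat_lit 406) (nat_lit 301) (nat_lit 193)) (XT.nd (nat_lit 78) (nat_lit 0) (nat_lit 0) (XT.lf (nat_lit 0) (nat_lit 82379126342) (nat_lit 152) (nat_lit 44714816563) (nat_lit 0) (nat_lit 61340195734) (nat_lit 5) (nat_lit 5) (nat_lit 7) (nat_lit 4) (nat_lit 5) (nat_lit 4) (nat_lit 407) (nat_lit 301) (nat_lit 192)) (XT.lf (nat_lit 0) (nat_lit 96723118484) (nat_lit 152) (nat_lit 24887883912) (nat_lit 0) (nat_lit 75679252675) (nat_lit 5) (nat_lit 5) (nat_lit 7) (nat_lit 4) (nat_lit 5) (nat_lit 4) (nat_lit 408) (nat_lit 301) (nat_lit 191)))) (XT.nd (nat_lit 78) (nat_lit 76) (nat_lit 0) (XT.lf (nat_lit 0) (nat_lit 111779217305) (nat_lit 152) (nat_lit 4079564028) (nat_lit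 0) (nat_lit 90730651305) (nat_lit 5) (nat_lit 5) (nat_lit 7) (nat_lit 4) (nat_lit 5) (nat_lit 4) (nat_lit 409) (nat_lit 301) (nat_lit 190)) (XT.nd (nat_lit 78) (nat_lit 0) (nat_lit 0) (XT.lf (nat_lit 0) (nat_lit 18346902154) (nat_lit 76) (nat_lit 109522815067) (nat_lit 76) (nat_lit 88469772693) (nat_lit 4) (nat_lit 4) (nat_lit 5) (nat_lit 5) (nat_lit 5) (nat_lit 4) (nat_lit 410) (nat_lit 301) (nat_lit 189)) (XT.lf (nat_lit 0) (nat_lit 42026992739) (nat_lit 76) (nat_lit 102802073647) (nat_lit 76) (nat_lit 81744768061) (nat_lit 4) (nat_lit 4) (nat_lit 5) (nat_lit 5) (nat_lit 5) (nat_lit 4) (nat_lit 411) (nat_lit 301) (nat_lit 188)))))) (XT.nd (nat_lit 468) (nat_lit 152) (nat_lit 0) (XT.nd (nat_lit 234) (nat_lit 0) (nat_lit 0) (XT.nd (nat_lit 78) (nat_lit 0) (nat_lit 0) (XT.lf (nat_lit 0) (nat_lit 66882200086) (nat_lit 76) (nat_lit 95749644700) (nat_lit 76) (nat_lit 74688278911) (nat_lit 4)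 (nat_lit 4) (nat_lit 5) (nat_lit 5) (nat_lit 5) (nat_lit 4) (nat_lit 412) (nat_lit 301) (nat_lit 187)) (XT.nd (nat_lit 78) (nat_lit 0) (nat_lit 0) (XT.lf (nat_lit 0) (nat_lit 92971703258) (nat_lit 76) (nat_lit 88348736727) (nat_lit 76) (nat_lit 67283504079) (nat_lit 4) (nat_lit 4) (nat_lit 5) (nat_lit 5) (nat_lit 5) (nat_lit 4) (nat_lit 413) (nat_lit 301) (nat_lit 186)) (XT.lf (nat_lit 0) (nat_lit 120357620121) (nat_lit 76) (nat_lit 80581728521) (nat_lit 76) (nat_lit 59512813149) (nat_lit 4) (nat_lit 4) (nat_lit 5) (nat_lit 5) (nat_lit 5) (nat_lit 4) (nat_lit 414) (nat_lit 301) (nat_lit 185)))) (XT.nd (nat_lit 78) (nat_lit 0) (nat_lit 0) (XT.lf (nat_lit 0) (nat_lit 149105155238) (nat_lit 76) (nat_lit 72430127203) (nat_lit 76) (nat_lit 51357704476) (nat_lit 4) (nat_lit 4) (nat_lit 5) (nat_lit 5) (nat_lit 5) (nat_lit 4) (nat_lit 415) (nat_lit 301) (nat_lit 184)) (XT.nd (nat_lit 78) (nat_lit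 0) (nat_lit 0) (XT.lf (nat_lit 0) (nat_lit 179282755122) (nat_lit 76) (nat_lit 63874524200) (nat_lit 76) (nat_lit 42798761134) (nat_lit 4) (nat_lit 4) (nat_lit 5) (nat_lit 5) (nat_lit 5) (nat_lit 4) (nat_lit 416) (nat_lit 301) (nat_lit 183)) (XT.lf (nat_lit 0) (nat_lit 210962271201) (nat_lit 76) (nat_lit 54894549027) (nat_lit 76) (nat_lit 33815604687) (nat_lit 4) (nat_lit 4) (nat_lit 5) (nat_lit 5) (nat_lit 5) (nat_lit 4) (nat_lit 417) (nat_lit 301) (nat_lit 182))))) (XT.nd (nat_lit 234) (nat_lit 152) (nat_lit 0) (XT.nd (nat_lit 78) (nat_lit 0) (nat_lit 0) (XT.lf (nat_lit 0) (nat_lit 244219130895) (nat_lit 76) (nat_lit 45468820793) (nat_lit 76) (nat_lit 24386846667) (nat_lit 4) (nat_lit 4) (nat_lit 5) (nat_lit 5) (nat_lit 5) (nat_lit 4) (nat_lit 418) (nat_lit 301) (nat_lit 181)) (XT.nd (nat_lit 78) (nat_lit 0) (nat_lit 0) (XT.lf (nat_lit 0) (nat_lit 279132517201) (nat_lit 76) (nat_lit 35574897286)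 (nat_lit 76) (nat_lit 14490037650) (nat_lit 4) (nat_lit 4) (nat_lit 5) (nat_lit 5) (nat_lit 5) (nat_lit 4) (nat_lit 419) (nat_lit 301) (nat_lit 180)) (XT.lf (nat_lit 0) (nat_lit 315785557232) (nat_lit 76) (nat_lit 25189221546) (nat_lit 76) (nat_lit 4101613805) (nat_lit 4) (nat_lit 4) (nat_lit 5) (nat_lit 5) (nat_lit 5) (nat_lit 4) (nat_lit 420) (nat_lit 301) (nat_lit 179)))) (XT.nd (nat_lit 78) (nat_lit 76) (nat_lit 0) (XT.lf (nat_lit 0) (nat_lit 6585415628) (nat_lit 152) (nat_lit 7590122945) (nat_lit 76) (nat_lit 347568577300) (nat_lit 3) (nat_lit 5) (nat_lit 5) (nat_lit 5) (nat_lit 4) (nat_lit 4) (nat_lit 421) (nat_lit 301) (nat_lit 178)) (XT.nd (nat_lit 78) (nat_lit 0) (nat_lit 0) (XT.lf (nat_lit 0) (nat_lit 15622864441) (nat_lit 76) (nat_lit 2287175576) (nat_lit 152) (nat_lit 361319769440) (nat_lit 2) (nat_lit 5) (nat_lit 3) (nat_lit 5) (nat_lit 4) (nat_lit 4) (nat_lit 422) (nat_lit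 301) (nat_lit 177)) (XT.lf (nat_lit 0) (nat_lit 30087902954) (nat_lit 152) (nat_lit 357490195111) (nat_lit 0) (nat_lit 9997339610) (nat_lit 2) (nat_lit 5) (nat_lit 4) (nat_lit 4) (nat_lit 2) (nat_lit 4) (nat_lit 423) (nat_lit 301) (nat_lit 176))))))) (XT.nd (nat_lit 37362) (nat_lit 0) (nat_lit 9956) (XT.nd (nat_lit 468) (nat_lit 0) (nat_lit 0) (XT.nd (nat_lit 234) (nat_lit 0) (nat_lit 0) (XT.nd (nat_lit 78) (nat_lit 0) (nat_lit 0) (XT.lf (nat_lit 0) (nat_lit 42909463905) (nat_lit 152) (nat_lit 351110396115) (nat_lit 0) (nat_lit 22816747349) (nat_lit 2) (nat_lit 5) (nat_lit 4) (nat_lit 4) (nat_lit 2) (nat_lit 4) (nat_lit 424) (nat_lit 301) (nat_lit 175)) (XT.nd (nat_lit 78) (nat_lit 0) (nat_lit 0) (XT.lf (nat_lit 0) (nat_lit 56369541175) (nat_lit 152) (nat_lit 344416648809) (nat_lit 0) (nat_lit 36274773941) (nat_lit 2) (nat_lit 5) (nat_lit 4) (nat_lit 4) (nat_lit 2) (nat_lit 4) (nat_lit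 425) (nat_lit 301) (nat_lit 174)) (XT.lf (nat_lit 0) (nat_lit 70500182568) (nat_lit 152) (nat_lit 337393015700) (nat_lit 0) (nat_lit 50403462306) (nat_lit 2) (nat_lit 5) (nat_lit 4) (nat_lit 4) (nat_lit 2) (nat_lit 4) (nat_lit 426) (nat_lit 301) (nat_lit 173)))) (XT.nd (nat_lit 78) (nat_lit 0) (nat_lit 0) (XT.lf (nat_lit 0) (nat_lit 85335032467) (nat_lit 152) (nat_lit 330022773851) (nat_lit 0) (nat_lit 65236452180) (nat_lit 2) (nat_lit 5) (nat_lit 4) (nat_lit 4) (nat_lit 2) (nat_lit 4) (nat_lit 427) (nat_lit 301) (nat_lit 172)) (XT.nd (nat_lit 78) (nat_lit 0) (nat_lit 0) (XT.lf (nat_lit 0) (nat_lit 100909411943) (nat_lit 152) (nat_lit 322288375069) (nat_lit 0) (nat_lit 80809060204) (nat_lit 2) (nat_lit 5) (nat_lit 4) (nat_lit 4) (nat_lit 2) (nat_lit 4) (nat_lit 428) (nat_lit 301) (nat_lit 171)) (XT.lf (nat_lit 0) (nat_lit 117260402854) (nat_lit 152) (nat_lit 314171404118) (nat_lit 0) (nat_lit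 97158364016) (nat_lit 2) (nat_lit 5) (nat_lit 4) (nat_lit 4) (nat_lit 2) (nat_lit 4) (nat_lit 429) (nat_lit 301) (nat_lit 170))))) (XT.nd (nat_lit 234) (nat_lit 0) (nat_lit 0) (XT.nd (nat_lit 78) (nat_lit 0) (nat_lit 0) (XT.lf (nat_lit 0) (nat_lit 134426936128) (nat_lit 152) (nat_lit 305652534877) (nat_lit 0) (nat_lit 114323290531) (nat_lit 2) (nat_lit 5) (nat_lit 4) (nat_lit 4) (nat_lit 2) (nat_lit 4) (nat_lit 430) (nat_lit 301) (nat_lit 169)) (XT.nd (nat_lit 78) (nat_lit 0) (nat_lit 0) (XT.lf (nat_lit 0) (nat_lit 152449884466) (nat_lit 152) (nat_lit 296711484323) (nat_lit 0) (nat_lit 132344708621) (nat_lit 2) (nat_lit 5) (nat_lit 4) (nat_lit 4) (nat_lit 2) (nat_lit 4) (nat_lit 431) (nat_lit 301) (nat_lit 168)) (XT.lf (nat_lit 0) (nat_lit 171372159648) (nat_lit 152) (nat_lit 287326964241) (nat_lit 0) (nat_lit 151265526424) (nat_lit 2) (nat_lit 5) (nat_lit 4) (nat_lit 4) (nat_lit 2) (nat_lit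 4) (nat_lit 432) (nat_lit 301) (nat_lit 167)))) (XT.nd (nat_lit 78) (nat_lit 0) (nat_lit 0) (XT.lf (nat_lit 0) (nat_lit 191238814710) (nat_lit 152) (nat_lit 277476630535) (nat_lit 0) (nat_lit 171130793507) (nat_lit 2) (nat_lit 5) (nat_lit 4) (nat_lit 4) (nat_lit 2) (nat_lit 4) (nat_lit 433) (nat_lit 301) (nat_lit 166)) (XT.nd (nat_lit 78) (nat_lit 0) (nat_lit 0) (XT.lf (nat_lit 0) (nat_lit 212097151213) (nat_lit 152) (nat_lit 267137030031) (nat_lit 0) (nat_lit 191987808124) (nat_lit 2) (nat_lit 5) (nat_lit 4) (nat_lit 4) (nat_lit 2) (nat_lit 4) (nat_lit 434) (nat_lit 301) (nat_lit 165)) (XT.lf (nat_lit 0) (nat_lit 233996831862) (nat_lit 152) (nat_lit 256283544631) (nat_lit 0) (nat_lit 213886229834) (nat_lit 2) (nat_lit 5) (nat_lit 4) (nat_lit 4) (nat_lit 2) (nat_lit 4) (nat_lit 435) (nat_lit 301) (nat_lit 164)))))) (XT.nd (nat_lit 468) (nat_lit 1216) (nat_lit 0) (XT.nd (nat_lit 234) (nat_lit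 304) (nat_lit 0) (XT.nd (nat_lit 78) (nat_lit 228) (nat_lit 0) (XT.lf (nat_lit 0) (nat_lit 2531283713) (nat_lit 228) (nat_lit 356496940) (nat_lit 228) (nat_lit 356496940) (nat_lit 156) (nat_lit 3) (nat_lit 159) (nat_lit 3) (nat_lit 159) (nat_lit 5) (nat_lit 302) (nat_lit 302) (nat_lit 296)) (XT.nd (nat_lit 78) (nat_lit 0) (nat_lit 0) (XT.lf (nat_lit 0) (nat_lit 1220077669) (nat_lit 228) (nat_lit 4057028342) (nat_lit 304) (nat_lit 1238402554) (nat_lit 153) (nat_lit 5) (nat_lit 156) (nat_lit 3) (nat_lit 157) (nat_lit 5) (nat_lit 303) (nat_lit 302) (nat_lit 295)) (XT.lf (nat_lit 0) (nat_lit 3795239408) (nat_lit 228) (nat_lit 847996937) (nat_lit 304) (nat_lit 1907466609) (nat_lit 153) (nat_lit 5) (nat_lit 156) (nat_lit 3) (nat_lit 157) (nat_lit 5) (nat_lit 304) (nat_lit 302) (nat_lit 294)))) (XT.nd (nat_lit 78) (nat_lit 304) (nat_lit 0) (XT.lf (nat_lit 76) (nat_lit 2511884063) (nat_lit 0) (nat_lit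 3866914368) (nat_lit 304) (nat_lit 215160451) (nat_lit 154) (nat_lit 5) (nat_lit 153) (nat_lit 5) (nat_lit 157) (nat_lit 5) (nat_lit 305) (nat_lit 302) (nat_lit 293)) (XT.nd (nat_lit 78) (nat_lit 0) (nat_lit 0) (XT.lf (nat_lit 0) (nat_lit 2232132518) (nat_lit 304) (nat_lit 701946757) (nat_lit 380) (nat_lit 3710718520) (nat_lit 149) (nat_lit 5) (nat_lit 153) (nat_lit 5) (nat_lit 154) (nat_lit 5) (nat_lit 306) (nat_lit 302) (nat_lit 292)) (XT.lf (nat_lit 76) (nat_lit 2845233951) (nat_lit 0) (nat_lit 1845044997) (nat_lit 380) (nat_lit 2013182503) (nat_lit 150) (nat_lit 5) (nat_lit 149) (nat_lit 5) (nat_lit 154) (nat_lit 5) (nat_lit 307) (nat_lit 302) (nat_lit 291))))) (XT.nd (nat_lit 234) (nat_lit 532) (nat_lit 0) (XT.nd (nat_lit 78) (nat_lit 304) (nat_lit 0) (XT.lf (nat_lit 0) (nat_lit 356586891) (nat_lit 380) (nat_lit 271503244) (nat_lit 456) (nat_lit 6143469464) (nat_lit 144) (nat_lit 5)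 (nat_lit 149) (nat_lit 5) (nat_lit 150) (nat_lit 5) (nat_lit 308) (nat_lit 302) (nat_lit 290)) (XT.nd (nat_lit 78) (nat_lit 380) (nat_lit 0) (XT.lf (nat_lit 0) (nat_lit 2705312821) (nat_lit 380) (nat_lit 3373766584) (nat_lit 76) (nat_lit 766138650) (nat_lit 145) (nat_lit 5) (nat_lit 150) (nat_lit 5) (nat_lit 146) (nat_lit 5) (nat_lit 309) (nat_lit 302) (nat_lit 289)) (XT.lf (nat_lit 0) (nat_lit 396143824) (nat_lit 380) (nat_lit 4663812344) (nat_lit 456) (nat_lit 1868380885) (nat_lit 140) (nat_lit 5) (nat_lit 145) (nat_lit 5) (nat_lit 146) (nat_lit 5) (nat_lit 310) (nat_lit 302) (nat_lit 288)))) (XT.nd (nat_lit 78) (nat_lit 456) (nat_lit 0) (XT.lf (nat_lit 0) (nat_lit 428160842) (nat_lit 456) (nat_lit 2647848816) (nat_lit 76) (nat_lit 3942982927) (nat_lit 139) (nat_lit 5) (nat_lit 145) (nat_lit 5) (nat_lit 140) (nat_lit 5) (nat_lit 311) (nat_lit 302) (nat_lit 287)) (XT.nd (nat_lit 78) (nat_lit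 0) (nat_lit 0) (XT.lf (nat_lit 0) (nat_lit 1350184786) (nat_lit 456) (nat_lit 1323736511) (nat_lit 532) (nat_lit 4444043278) (nat_lit 133) (nat_lit 5) (nat_lit 139) (nat_lit 5) (nat_lit 140) (nat_lit 5) (nat_lit 312) (nat_lit 302) (nat_lit 286)) (XT.lf (nat_lit 0) (nat_lit 4966611314) (nat_lit 532) (nat_lit 1686572351) (nat_lit 76) (nat_lit 572135343) (nat_lit 133) (nat_lit 5) (nat_lit 140) (nat_lit 5) (nat_lit 134) (nat_lit 5) (nat_lit 313) (nat_lit 302) (nat_lit 285))))))))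
noncomputable def xc106 : XT := (XT.nd (nat_lit 1794) (nat_lit 2356) (nat_lit 0) (XT.nd (nat_lit 858) (nat_lit 2052) (nat_lit 0) (XT.nd (nat_lit 390) (nat_lit 1900) (nat_lit 0) (XT.nd (nat_lit 156) (nat_lit 1368) (nat_lit 0) (XT.nd (nat_lit 78) (nat_lit 76) (nat_lit 0) (XT.lf (nat_lit 0) (nat_lit 2565602506) (nat_lit 532) (nat_lit 4756761845) (nat_lit 608) (nat_lit 18413403) (nat_lit 126) (nat_lit 5) (nat_lit 133) (nat_lit 5) (nat_lit 134) (nat_lit 5) (nat_lit 314) (nat_lit 302) (nat_lit 284)) (XT.lf (nat_lit 0) (nat_lit 2176920827) (nat_lit 608) (nat_lit 504371197) (nat_lit 76) (nat_lit 4783152586) (nat_lit 125) (nat_lit 5) (nat_lit 133) (nat_lit 5) (nat_lit 126) (nat_lit 5) (nat_lit 315) (nat_lit 302) (nat_lit 283))) (XT.nd (nat_lit 78) (nat_lit 760) (nat_lit 0) (XT.lf (nat_lit 0) (nat_lit 4016979536) (nat_lit 608) (nat_lit 421133347) (nat_lit 684) (nat_lit 3158467839) (nat_lit 117) (nat_lit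 5) (nat_lit 125) (nat_lit 5) (nat_lit 126) (nat_lit 5) (nat_lit 316) (nat_lit 302) (nat_lit 282)) (XT.nd (nat_lit 78) (nat_lit 76) (nat_lit 0) (XT.lf (nat_lit 0) (nat_lit 951620480) (nat_lit 684) (nat_lit 5812596013) (nat_lit 760) (nat_lit 973644550) (nat_lit 108) (nat_lit 5) (nat_lit 117) (nat_lit 5) (nat_lit 118) (nat_lit 5) (nat_lit 317) (nat_lit 302) (nat_lit 281)) (XT.lf (nat_lit 0) (nat_lit 1246177303) (nat_lit 760) (nat_lit 2175145836) (nat_lit 76) (nat_lit 4465568432) (nat_lit 107) (nat_lit 5) (nat_lit 117) (nat_lit 5) (nat_lit 108) (nat_lit 5) (nat_lit 318) (nat_lit 302) (nat_lit 280))))) (XT.nd (nat_lit 234) (nat_lit 760) (nat_lit 0) (XT.nd (nat_lit 78) (nat_lit 380) (nat_lit 0) (XT.lf (nat_lit 0) (nat_lit 2642610489) (nat_lit 760) (nat_lit 847202402) (nat_lit 836) (nat_lit 4555597792) (nat_lit 97) (nat_lit 5) (nat_lit 107) (nat_lit 5) (nat_lit 108) (nat_lit 5) (nat_lit 319) (nat_lit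 302) (nat_lit 279)) (XT.nd (nat_lit 78) (nat_lit 380) (nat_lit 0) (XT.lf (nat_lit 0) (nat_lit 5819488840) (nat_lit 836) (nat_lit 558598362) (nat_lit 76) (nat_lit 1835182571) (nat_lit 97) (nat_lit 5) (nat_lit 108) (nat_lit 5) (nat_lit 98) (nat_lit 5) (nat_lit 320) (nat_lit 302) (nat_lit 278)) (XT.lf (nat_lit 0) (nat_lit 4568940711) (nat_lit 380) (nat_lit 3693783788) (nat_lit 456) (nat_lit 127045385) (nat_lit 92) (nat_lit 5) (nat_lit 97) (nat_lit 5) (nat_lit 98) (nat_lit 5) (nat_lit 321) (nat_lit 302) (nat_lit 277)))) (XT.nd (nat_lit 78) (nat_lit 380) (nat_lit 0) (XT.lf (nat_lit 0) (nat_lit 1311563621) (nat_lit 304) (nat_lit 812601323) (nat_lit 380) (nat_lit 6452101196) (nat_lit 87) (nat_lit 5) (nat_lit 91) (nat_lit 5) (nat_lit 92) (nat_lit 5) (nat_lit 322) (nat_lit 302) (nat_lit 276)) (XT.nd (nat_lit 78) (nat_lit 380) (nat_lit 0) (XT.lf (nat_lit 0) (nat_lit 4499737319) (nat_lit 380) (nat_lit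 2068714350) (nat_lit 76) (nat_lit 2202815840) (nat_lit 87) (nat_lit 5) (nat_lit 92) (nat_lit 5) (nat_lit 88) (nat_lit 5) (nat_lit 323) (nat_lit 302) (nat_lit 275)) (XT.lf (nat_lit 0) (nat_lit 3391441949) (nat_lit 380) (nat_lit 3588686370) (nat_lit 456) (nat_lit 1996672429) (nat_lit 82) (nat_lit 5) (nat_lit 87) (nat_lit 5) (nat_lit 88) (nat_lit 5) (nat_lit 324) (nat_lit 302) (nat_lit 274)))))) (XT.nd (nat_lit 468) (nat_lit 760) (nat_lit 0) (XT.nd (nat_lit 234) (nat_lit 608) (nat_lit 0) (XT.nd (nat_lit 78) (nat_lit 608) (nat_lit 0) (XT.lf (nat_lit 0) (nat_lit 335833956) (nat_lit 456) (nat_lit 93210392) (nat_lit 76) (nat_lit 8765513861) (nat_lit 81) (nat_lit 5) (nat_lit 87) (nat_lit 5) (nat_lit 82) (nat_lit 5) (nat_lit 325) (nat_lit 302) (nat_lit 273)) (XT.nd (nat_lit 78) (nat_lit 304) (nat_lit 0) (XT.lf (nat_lit 0) (nat_lit 2778952583) (nat_lit 380) (nat_lit 3731118097) (nat_lit 76) (nat_lit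 2908514226) (nat_lit 77) (nat_lit 5) (nat_lit 82) (nat_lit 5) (nat_lit 78) (nat_lit 5) (nat_lit 326) (nat_lit 302) (nat_lit 272)) (XT.lf (nat_lit 0) (nat_lit 2076267224) (nat_lit 304) (nat_lit 3235662261) (nat_lit 380) (nat_lit 4343567278) (nat_lit 73) (nat_lit 5) (nat_lit 77) (nat_lit 5) (nat_lit 78) (nat_lit 5) (nat_lit 327) (nat_lit 302) (nat_lit 271)))) (XT.nd (nat_lit 78) (nat_lit 608) (nat_lit 0) (XT.lf (nat_lit 0) (nat_lit 7967434649) (nat_lit 380) (nat_lit 1693452555) (nat_lit 76) (nat_lit 243638698) (nat_lit 73) (nat_lit 5) (nat_lit 78) (nat_lit 5) (nat_lit 74) (nat_lit 5) (nat_lit 328) (nat_lit 302) (nat_lit 270)) (XT.nd (nat_lit 78) (nat_lit 304) (nat_lit 0) (XT.lf (nat_lit 0) (nat_lit 626719192) (nat_lit 304) (nat_lit 5683501067) (nat_lit 76) (nat_lit 3852591196) (nat_lit 69) (nat_lit 5) (nat_lit 73) (nat_lit 5) (nat_lit 70) (nat_lit 5) (nat_lit 329) (nat_lit 302) (nat_lit 269))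 (XT.lf (nat_lit 0) (nat_lit 481899513) (nat_lit 304) (nat_lit 2741052501) (nat_lit 380) (nat_lit 7211061671) (nat_lit 65) (nat_lit 5) (nat_lit 69) (nat_lit 5) (nat_lit 70) (nat_lit 5) (nat_lit 330) (nat_lit 302) (nat_lit 268))))) (XT.nd (nat_lit 234) (nat_lit 456) (nat_lit 0) (XT.nd (nat_lit 78) (nat_lit 304) (nat_lit 0) (XT.lf (nat_lit 0) (nat_lit 5996718920) (nat_lit 380) (nat_lit 3668166680) (nat_lit 76) (nat_lit 1051558323) (nat_lit 65) (nat_lit 5) (nat_lit 70) (nat_lit 5) (nat_lit 66) (nat_lit 5) (nat_lit 331) (nat_lit 302) (nat_lit 267)) (XT.nd (nat_lit 78) (nat_lit 76) (nat_lit 0) (XT.lf (nat_lit 0) (nat_lit 2892085417) (nat_lit 228) (nat_lit 6044488314) (nat_lit 304) (nat_lit 2075103409) (nat_lit 62) (nat_lit 5) (nat_lit 65) (nat_lit 5) (nat_lit 66) (nat_lit 5) (nat_lit 332) (nat_lit 302) (nat_lit 266)) (XT.lf (nat_lit 0) (nat_lit 680363972) (nat_lit 304) (nat_lit 1509081709) (nat_lit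 76) (nat_lit 9131671434) (nat_lit 61) (nat_lit 5) (nat_lit 65) (nat_lit 5) (nat_lit 62) (nat_lit 5) (nat_lit 333) (nat_lit 302) (nat_lit 265)))) (XT.nd (nat_lit 78) (nat_lit 228) (nat_lit 0) (XT.lf (nat_lit 0) (nat_lit 3561114137) (nat_lit 304) (nat_lit 6182093840) (nat_lit 76) (nat_lit 1898302324) (nat_lit 58) (nat_lit 5) (nat_lit 62) (nat_lit 5) (nat_lit 59) (nat_lit 5) (nat_lit 334) (nat_lit 302) (nat_lit 264)) (XT.nd (nat_lit 78) (nat_lit 0) (nat_lit 0) (XT.lf (nat_lit 0) (nat_lit 756623998) (nat_lit 228) (nat_lit 5845039414) (nat_lit 304) (nat_lit 5375513979) (nat_lit 55) (nat_lit 5) (nat_lit 58) (nat_lit 5) (nat_lit 59) (nat_lit 5) (nat_lit 335) (nat_lit 302) (nat_lit 263)) (XT.lf (nat_lit 0) (nat_lit 8174883370) (nat_lit 228) (nat_lit 1667611054) (nat_lit 304) (nat_lit 2484761007) (nat_lit 55) (nat_lit 5) (nat_lit 58) (nat_lit 5) (nat_lit 59) (nat_lit 5) (nat_lit 336) (nat_lit 302)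 (nat_lit 262))))))) (XT.nd (nat_lit 936) (nat_lit 912) (nat_lit 0) (XT.nd (nat_lit 468) (nat_lit 532) (nat_lit 0) (XT.nd (nat_lit 234) (nat_lit 456) (nat_lit 0) (XT.nd (nat_lit 78) (nat_lit 152) (nat_lit 0) (XT.lf (nat_lit 0) (nat_lit 572570538) (nat_lit 304) (nat_lit 9451817301) (nat_lit 76) (nat_lit 2668073266) (nat_lit 51) (nat_lit 5) (nat_lit 55) (nat_lit 5) (nat_lit 52) (nat_lit 5) (nat_lit 337) (nat_lit 302) (nat_lit 261)) (XT.nd (nat_lit 78) (nat_lit 152) (nat_lit 0) (XT.lf (nat_lit 0) (nat_lit 3744383461) (nat_lit 304) (nat_lit 2075139020) (nat_lit 76) (nat_lit 7252146759) (nat_lit 51) (nat_lit 5) (nat_lit 55) (nat_lit 5) (nat_lit 52) (nat_lit 5) (nat_lit 338) (nat_lit 302) (nat_lit 260)) (XT.lf (nat_lit 0) (nat_lit 5778192343) (nat_lit 152) (nat_lit 1335671245) (nat_lit 228) (nat_lit 6354053528) (nat_lit 49) (nat_lit 5) (nat_lit 51) (nat_lit 5) (nat_lit 52) (nat_lit 5) (nat_lit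 339) (nat_lit 302) (nat_lit 259)))) (XT.nd (nat_lit 78) (nat_lit 228) (nat_lit 0) (XT.lf (nat_lit 0) (nat_lit 85527937) (nat_lit 228) (nat_lit 10605704419) (nat_lit 304) (nat_lit 3190805883) (nat_lit 46) (nat_lit 5) (nat_lit 49) (nat_lit 5) (nat_lit 50) (nat_lit 5) (nat_lit 340) (nat_lit 302) (nat_lit 258)) (XT.nd (nat_lit 78) (nat_lit 152) (nat_lit 0) (XT.lf (nat_lit 0) (nat_lit 230754700) (nat_lit 304) (nat_lit 5898327985) (nat_lit 76) (nat_lit 8182492891) (nat_lit 45) (nat_lit 5) (nat_lit 49) (nat_lit 5) (nat_lit 46) (nat_lit 5) (nat_lit 341) (nat_lit 302) (nat_lit 257)) (XT.lf (nat_lit 0) (nat_lit 2342755150) (nat_lit 152) (nat_lit 1362431079) (nat_lit 228) (nat_lit 11055364173) (nat_lit 43) (nat_lit 5) (nat_lit 45) (nat_lit 5) (nat_lit 46) (nat_lit 5) (nat_lit 342) (nat_lit 302) (nat_lit 256))))) (XT.nd (nat_lit 234) (nat_lit 380) (nat_lit 0) (XT.nd (nat_lit 78) (nat_lit 152) (nat_lit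 0) (XT.lf (nat_lit 0) (nat_lit 7464881296) (nat_lit 228) (nat_lit 4160222109) (nat_lit 76) (nat_lit 3601319448) (nat_lit 43) (nat_lit 5) (nat_lit 46) (nat_lit 5) (nat_lit 44) (nat_lit 5) (nat_lit 343) (nat_lit 302) (nat_lit 255)) (XT.nd (nat_lit 78) (nat_lit 0) (nat_lit 0) (XT.lf (nat_lit 0) (nat_lit 4562097267) (nat_lit 152) (nat_lit 6899400102) (nat_lit 228) (nat_lit 4251669494) (nat_lit 41) (nat_lit 5) (nat_lit 43) (nat_lit 5) (nat_lit 44) (nat_lit 5) (nat_lit 344) (nat_lit 302) (nat_lit 254)) (XT.lf (nat_lit 0) (nat_lit 13794311318) (nat_lit 152) (nat_lit 1890484415) (nat_lit 228) (nat_lit 538133334) (nat_lit 41) (nat_lit 5) (nat_lit 43) (nat_lit 5) (nat_lit 44) (nat_lit 5) (nat_lit 345) (nat_lit 302) (nat_lit 253)))) (XT.nd (nat_lit 78) (nat_lit 152) (nat_lit 0) (XT.lf (nat_lit 0) (nat_lit 3372659091) (nat_lit 228) (nat_lit 9979862012) (nat_lit 76) (nat_lit 3397098110) (nat_lit 38)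 (nat_lit 5) (nat_lit 41) (nat_lit 5) (nat_lit 39) (nat_lit 5) (nat_lit 346) (nat_lit 302) (nat_lit 252)) (XT.nd (nat_lit 78) (nat_lit 152) (nat_lit 0) (XT.lf (nat_lit 0) (nat_lit 7492016454) (nat_lit 228) (nat_lit 897980887) (nat_lit 76) (nat_lit 8910670287) (nat_lit 38) (nat_lit 5) (nat_lit 41) (nat_lit 5) (nat_lit 39) (nat_lit 5) (nat_lit 347) (nat_lit 302) (nat_lit 251)) (XT.lf (nat_lit 0) (nat_lit 8855449830) (nat_lit 152) (nat_lit 3060449767) (nat_lit 228) (nat_lit 5958460360) (nat_lit 36) (nat_lit 5) (nat_lit 38) (nat_lit 5) (nat_lit 39) (nat_lit 5) (nat_lit 348) (nat_lit 302) (nat_lit 250)))))) (XT.nd (nat_lit 468) (nat_lit 456) (nat_lit 0) (XT.nd (nat_lit 234) (nat_lit 152) (nat_lit 0) (XT.nd (nat_lit 78) (nat_lit 228) (nat_lit 0) (XT.lf (nat_lit 0) (nat_lit 563487397) (nat_lit 76) (nat_lit 16022100911) (nat_lit 152) (nat_lit 1889936490) (nat_lit 35) (nat_lit 5) (nat_lit 36) (nat_lit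 5) (nat_lit 37) (nat_lit 4) (nat_lit 349) (nat_lit 302) (nat_lit 249)) (XT.nd (nat_lit 78) (nat_lit 152) (nat_lit 0) (XT.lf (nat_lit 0) (nat_lit 2472159352) (nat_lit 152) (nat_lit 8317552739) (nat_lit 76) (nat_lit 8306873791) (nat_lit 34) (nat_lit 5) (nat_lit 36) (nat_lit 5) (nat_lit 35) (nat_lit 5) (nat_lit 350) (nat_lit 302) (nat_lit 248)) (XT.lf (nat_lit 0) (nat_lit 1717110235) (nat_lit 152) (nat_lit 5261373203) (nat_lit 228) (nat_lit 12769201519) (nat_lit 32) (nat_lit 5) (nat_lit 34) (nat_lit 5) (nat_lit 35) (nat_lit 5) (nat_lit 351) (nat_lit 302) (nat_lit 247)))) (XT.nd (nat_lit 78) (nat_lit 152) (nat_lit 0) (XT.lf (nat_lit 0) (nat_lit 11824993745) (nat_lit 228) (nat_lit 7956739117) (nat_lit 76) (nat_lit 643877815) (nat_lit 32) (nat_lit 5) (nat_lit 35) (nat_lit 5) (nat_lit 33) (nat_lit 4) (nat_lit 352) (nat_lit 302) (nat_lit 246)) (XT.nd (nat_lit 78) (nat_lit 76) (nat_lit 0) (XT.lf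 (nat_lit 0) (nat_lit 2555447191) (nat_lit 76) (nat_lit 14449499042) (nat_lit 152) (nat_lit 4127945087) (nat_lit 31) (nat_lit 5) (nat_lit 32) (nat_lit 5) (nat_lit 33) (nat_lit 4) (nat_lit 353) (nat_lit 302) (nat_lit 245)) (XT.lf (nat_lit 0) (nat_lit 652253926) (nat_lit 152) (nat_lit 8071462007) (nat_lit 76) (nat_lit 13146285265) (nat_lit 30) (nat_lit 5) (nat_lit 32) (nat_lit 5) (nat_lit 31) (nat_lit 5) (nat_lit 354) (nat_lit 302) (nat_lit 244))))) (XT.nd (nat_lit 234) (nat_lit 228) (nat_lit 0) (XT.nd (nat_lit 78) (nat_lit 76) (nat_lit 0) (XT.lf (nat_lit 0) (nat_lit 2927696690) (nat_lit 152) (nat_lit 2617534865) (nat_lit 228) (nat_lit 17094739222) (nat_lit 28) (nat_lit 5) (nat_lit 30) (nat_lit 5) (nat_lit 31) (nat_lit 5) (nat_lit 355) (nat_lit 302) (nat_lit 243)) (XT.nd (nat_lit 78) (nat_lit 76) (nat_lit 0) (XT.lf (nat_lit 0) (nat_lit 10848115305) (nat_lit 228) (nat_lit 8804513637) (nat_lit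 76) (nat_lit 3787558930) (nat_lit 28) (nat_lit 5) (nat_lit 31) (nat_lit 5) (nat_lit 29) (nat_lit 4) (nat_lit 356) (nat_lit 302) (nat_lit 242)) (XT.lf (nat_lit 0) (nat_lit 2634353910) (nat_lit 76) (nat_lit 13834484592) (nat_lit 152) (nat_lit 7808953897) (nat_lit 27) (nat_lit 5) (nat_lit 28) (nat_lit 5) (nat_lit 29) (nat_lit 4) (nat_lit 357) (nat_lit 302) (nat_lit 241)))) (XT.nd (nat_lit 78) (nat_lit 228) (nat_lit 0) (XT.lf (nat_lit 0) (nat_lit 14896049541) (nat_lit 76) (nat_lit 7592949435) (nat_lit 152) (nat_lit 2662368917) (nat_lit 27) (nat_lit 5) (nat_lit 28) (nat_lit 5) (nat_lit 29) (nat_lit 4) (nat_lit 358) (nat_lit 302) (nat_lit 240)) (XT.nd (nat_lit 78) (nat_lit 0) (nat_lit 0) (XT.lf (nat_lit 0) (nat_lit 1659341760) (nat_lit 152) (nat_lit 990629253) (nat_lit 228) (nat_lit 23416712166) (nat_lit 24) (nat_lit 5) (nat_lit 26) (nat_lit 5) (nat_lit 27) (nat_lit 5) (nat_lit 359) (nat_lit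 302) (nat_lit 239)) (XT.lf (nat_lit 0) (nat_lit 8378251689) (nat_lit 228) (nat_lit 12685983485) (nat_lit 76) (nat_lit 5949366272) (nat_lit 24) (nat_lit 5) (nat_lit 27) (nat_lit 5) (nat_lit 25) (nat_lit 4) (nat_lit 360) (nat_lit 302) (nat_lit 238))))))))
noncomputable def xc107 : XT := (XT.nd (nat_lit 1794) (nat_lit 456) (nat_lit 0) (XT.nd (nat_lit 858) (nat_lit 456) (nat_lit 0) (XT.nd (nat_lit 390) (nat_lit 304) (nat_lit 0) (XT.nd (nat_lit 156) (nat_lit 152) (nat_lit 0) (XT.nd (nat_lit 78) (nat_lit 76) (nat_lit 0) (XT.lf (nat_lit 0) (nat_lit 14381093433) (nat_lit 228) (nat_lit 445672455) (nat_lit 76) (nat_lit 13181701271) (nat_lit 24) (nat_lit 5) (nat_lit 27) (nat_lit 5) (nat_lit 25) (nat_lit 4) (nat_lit 361) (nat_lit 302) (nat_lit 237)) (XT.lf (nat_lit 0) (nat_lit 12766819729) (nat_lit 76) (nat_lit 8089828333) (nat_lit 152) (nat_lit 8187808015) (nat_lit 23) (nat_lit 5) (nat_lit 24) (nat_lit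 5) (nat_lit 25) (nat_lit 4) (nat_lit 362) (nat_lit 302) (nat_lit 236))) (XT.nd (nat_lit 78) (nat_lit 152) (nat_lit 0) (XT.lf (nat_lit 0) (nat_lit 26607738395) (nat_lit 76) (nat_lit 1029564443) (nat_lit 152) (nat_lit 2495883539) (nat_lit 23) (nat_lit 5) (nat_lit 24) (nat_lit 5) (nat_lit 25) (nat_lit 4) (nat_lit 363) (nat_lit 302) (nat_lit 235)) (XT.nd (nat_lit 78) (nat_lit 0) (nat_lit 0) (XT.lf (nat_lit 0) (nat_lit 3604136256) (nat_lit 152) (nat_lit 21283260056) (nat_lit 76) (nat_lit 6374502001) (nat_lit 21) (nat_lit 5) (nat_lit 23) (nat_lit 5) (nat_lit 22) (nat_lit 4) (nat_lit 364) (nat_lit 302) (nat_lit 234)) (XT.lf (nat_lit 0) (nat_lit 9977624773) (nat_lit 152) (nat_lit 8268940957) (nat_lit 76) (nat_lit 14195823981) (nat_lit 21) (nat_lit 5) (nat_lit 23) (nat_lit 5) (nat_lit 22) (nat_lit 4) (nat_lit 365) (nat_lit 302) (nat_lit 233))))) (XT.nd (nat_lit 234) (nat_lit 228) (nat_lit 0) (XT.nd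 (nat_lit 78) (nat_lit 0) (nat_lit 0) (XT.lf (nat_lit 0) (nat_lit 5528830466) (nat_lit 76) (nat_lit 11203262300) (nat_lit 152) (nat_lit 16946704288) (nat_lit 20) (nat_lit 5) (nat_lit 21) (nat_lit 5) (nat_lit 22) (nat_lit 4) (nat_lit 366) (nat_lit 302) (nat_lit 232)) (XT.nd (nat_lit 78) (nat_lit 0) (nat_lit 0) (XT.lf (nat_lit 0) (nat_lit 20260061923) (nat_lit 76) (nat_lit 3680709585) (nat_lit 152) (nat_lit 11030435201) (nat_lit 20) (nat_lit 5) (nat_lit 21) (nat_lit 5) (nat_lit 22) (nat_lit 4) (nat_lit 367) (nat_lit 302) (nat_lit 231)) (XT.lf (nat_lit 0) (nat_lit 31553012113) (nat_lit 152) (nat_lit 708502708) (nat_lit 0) (nat_lit 4064571643) (nat_lit 20) (nat_lit 5) (nat_lit 22) (nat_lit 4) (nat_lit 20) (nat_lit 4) (nat_lit 368) (nat_lit 302) (nat_lit 230)))) (XT.nd (nat_lit 78) (nat_lit 76) (nat_lit 0) (XT.lf (nat_lit 0) (nat_lit 2006723686) (nat_lit 152) (nat_lit 23414877159) (nat_lit 76)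 (nat_lit 12312357417) (nat_lit 18) (nat_lit 5) (nat_lit 20) (nat_lit 5) (nat_lit 19) (nat_lit 4) (nat_lit 369) (nat_lit 302) (nat_lit 229)) (XT.nd (nat_lit 78) (nat_lit 76) (nat_lit 0) (XT.lf (nat_lit 0) (nat_lit 8955715355) (nat_lit 152) (nat_lit 9207749236) (nat_lit 76) (nat_lit 21045321381) (nat_lit 18) (nat_lit 5) (nat_lit 20) (nat_lit 5) (nat_lit 19) (nat_lit 4) (nat_lit 370) (nat_lit 302) (nat_lit 228)) (XT.lf (nat_lit 0) (nat_lit 5858851666) (nat_lit 76) (nat_lit 10464220690) (nat_lit 152) (nat_lit 24430741869) (nat_lit 17) (nat_lit 5) (nat_lit 18) (nat_lit 5) (nat_lit 19) (nat_lit 4) (nat_lit 371) (nat_lit 302) (nat_lit 227)))))) (XT.nd (nat_lit 468) (nat_lit 228) (nat_lit 0) (XT.nd (nat_lit 234) (nat_lit 152) (nat_lit 0) (XT.nd (nat_lit 78) (nat_lit 76) (nat_lit 0) (XT.lf (nat_lit 0) (nat_lit 21960671021) (nat_lit 76) (nat_lit 2233895538) (nat_lit 152) (nat_lit 18174743575) (nat_lit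 17) (nat_lit 5) (nat_lit 18) (nat_lit 5) (nat_lit 19) (nat_lit 4) (nat_lit 372) (nat_lit 302) (nat_lit 226)) (XT.nd (nat_lit 78) (nat_lit 76) (nat_lit 0) (XT.lf (nat_lit 0) (nat_lit 32540211597) (nat_lit 152) (nat_lit 5334733062) (nat_lit 0) (nat_lit 6186611860) (nat_lit 17) (nat_lit 5) (nat_lit 19) (nat_lit 4) (nat_lit 17) (nat_lit 4) (nat_lit 373) (nat_lit 302) (nat_lit 225)) (XT.lf (nat_lit 0) (nat_lit 10765881963) (nat_lit 76) (nat_lit 30723421017) (nat_lit 76) (nat_lit 4339808311) (nat_lit 16) (nat_lit 4) (nat_lit 17) (nat_lit 5) (nat_lit 17) (nat_lit 4) (nat_lit 374) (nat_lit 302) (nat_lit 224)))) (XT.nd (nat_lit 78) (nat_lit 76) (nat_lit 0) (XT.lf (nat_lit 0) (nat_lit 3171688039) (nat_lit 152) (nat_lit 19910236003) (nat_lit 76) (nat_lit 24596958525) (nat_lit 15) (nat_lit 5) (nat_lit 17) (nat_lit 5) (nat_lit 16) (nat_lit 4) (nat_lit 375) (nat_lit 302) (nat_lit 223)) (XT.nd (nat_lit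 78) (nat_lit 76) (nat_lit 0) (XT.lf (nat_lit 0) (nat_lit 10895295373) (nat_lit 152) (nat_lit 4104063615) (nat_lit 76) (nat_lit 34619110781) (nat_lit 15) (nat_lit 5) (nat_lit 17) (nat_lit 5) (nat_lit 16) (nat_lit 4) (nat_lit 376) (nat_lit 302) (nat_lit 222)) (XT.lf (nat_lit 0) (nat_lit 12872684442) (nat_lit 76) (nat_lit 6316598437) (nat_lit 152) (nat_lit 32456546977) (nat_lit 14) (nat_lit 5) (nat_lit 15) (nat_lit 5) (nat_lit 16) (nat_lit 4) (nat_lit 377) (nat_lit 302) (nat_lit 221))))) (XT.nd (nat_lit 234) (nat_lit 152) (nat_lit 0) (XT.nd (nat_lit 78) (nat_lit 76) (nat_lit 0) (XT.lf (nat_lit 0) (nat_lit 27995636142) (nat_lit 152) (nat_lit 23007012552) (nat_lit 0) (nat_lit 2767029281) (nat_lit 14) (nat_lit 5) (nat_lit 16) (nat_lit 4) (nat_lit 14) (nat_lit 4) (nat_lit 378) (nat_lit 302) (nat_lit 220)) (XT.nd (nat_lit 78) (nat_lit 76) (nat_lit 0) (XT.lf (nat_lit 0) (nat_lit 37329955130) (nat_lit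 152) (nat_lit 6586432028) (nat_lit 0) (nat_lit 12078952129) (nat_lit 14) (nat_lit 5) (nat_lit 16) (nat_lit 4) (nat_lit 14) (nat_lit 4) (nat_lit 379) (nat_lit 302) (nat_lit 219)) (XT.lf (nat_lit 0) (nat_lit 10977666466) (nat_lit 76) (nat_lit 36309570278) (nat_lit 76) (nat_lit 11037237621) (nat_lit 13) (nat_lit 4) (nat_lit 14) (nat_lit 5) (nat_lit 14) (nat_lit 4) (nat_lit 380) (nat_lit 302) (nat_lit 218)))) (XT.nd (nat_lit 78) (nat_lit 152) (nat_lit 0) (XT.lf (nat_lit 0) (nat_lit 29620236557) (nat_lit 76) (nat_lit 28218822655) (nat_lit 76) (nat_lit 2926176040) (nat_lit 13) (nat_lit 4) (nat_lit 14) (nat_lit 5) (nat_lit 14) (nat_lit 4) (nat_lit 381) (nat_lit 302) (nat_lit 217)) (XT.nd (nat_lit 78) (nat_lit 76) (nat_lit 0) (XT.lf (nat_lit 0) (nat_lit 5397115220) (nat_lit 152) (nat_lit 14247907038) (nat_lit 76) (nat_lit 43679370149) (nat_lit 12) (nat_lit 5) (nat_lit 14) (nat_lit 5) (nat_lit 13)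 (nat_lit 4) (nat_lit 382) (nat_lit 302) (nat_lit 216)) (XT.lf (nat_lit 0) (nat_lit 3532930077) (nat_lit 76) (nat_lit 10546752204) (nat_lit 152) (nat_lit 51927356636) (nat_lit 11) (nat_lit 5) (nat_lit 12) (nat_lit 5) (nat_lit 13) (nat_lit 4) (nat_lit 383) (nat_lit 302) (nat_lit 215))))))) (XT.nd (nat_lit 936) (nat_lit 228) (nat_lit 0) (XT.nd (nat_lit 468) (nat_lit 152) (nat_lit 0) (XT.nd (nat_lit 234) (nat_lit 76) (nat_lit 0) (XT.nd (nat_lit 78) (nat_lit 0) (nat_lit 0) (XT.lf (nat_lit 0) (nat_lit 22671672179) (nat_lit 76) (nat_lit 752541840) (nat_lit 152) (nat_lit 45388214297) (nat_lit 11) (nat_lit 5) (nat_lit 12) (nat_lit 5) (nat_lit 13) (nat_lit 4) (nat_lit 384) (nat_lit 302) (nat_lit 214)) (XT.nd (nat_lit 78) (nat_lit 0) (nat_lit 0) (XT.lf (nat_lit 0) (nat_lit 33371782519) (nat_lit 152) (nat_lit 29164570955) (nat_lit 0) (nat_lit 9214945467) (nat_lit 11) (nat_lit 5) (nat_lit 13) (nat_lit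 4) (nat_lit 11) (nat_lit 4) (nat_lit 385) (nat_lit 302) (nat_lit 213)) (XT.lf (nat_lit 0) (nat_lit 43816683944) (nat_lit 152) (nat_lit 11375745282) (nat_lit 0) (nat_lit 19644688303) (nat_lit 11) (nat_lit 5) (nat_lit 13) (nat_lit 4) (nat_lit 11) (nat_lit 4) (nat_lit 386) (nat_lit 302) (nat_lit 212)))) (XT.nd (nat_lit 78) (nat_lit 0) (nat_lit 0) (XT.lf (nat_lit 0) (nat_lit 7520528389) (nat_lit 76) (nat_lit 47368925955) (nat_lit 76) (nat_lit 23182493564) (nat_lit 10) (nat_lit 4) (nat_lit 11) (nat_lit 5) (nat_lit 11) (nat_lit 4) (nat_lit 387) (nat_lit 302) (nat_lit 211)) (XT.nd (nat_lit 78) (nat_lit 0) (nat_lit 0) (XT.lf (nat_lit 0) (nat_lit 27734224859) (nat_lit 76) (nat_lit 38962712440) (nat_lit 76) (nat_lit 14762530763) (nat_lit 10) (nat_lit 4) (nat_lit 11) (nat_lit 5) (nat_lit 11) (nat_lit 4) (nat_lit 388) (nat_lit 302) (nat_lit 210)) (XT.lf (nat_lit 0) (nat_lit 48937338461) (nat_lit 76)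 (nat_lit 30146427639) (nat_lit 76) (nat_lit 5933151403) (nat_lit 10) (nat_lit 4) (nat_lit 11) (nat_lit 5) (nat_lit 11) (nat_lit 4) (nat_lit 389) (nat_lit 302) (nat_lit 209))))) (XT.nd (nat_lit 234) (nat_lit 0) (nat_lit 0) (XT.nd (nat_lit 78) (nat_lit 76) (nat_lit 0) (XT.lf (nat_lit 0) (nat_lit 3220192732) (nat_lit 152) (nat_lit 17624352142) (nat_lit 76) (nat_lit 67905624544) (nat_lit 9) (nat_lit 5) (nat_lit 11) (nat_lit 5) (nat_lit 10) (nat_lit 4) (nat_lit 390) (nat_lit 302) (nat_lit 208)) (XT.nd (nat_lit 78) (nat_lit 0) (nat_lit 0) (XT.lf (nat_lit 0) (nat_lit 1690861190) (nat_lit 76) (nat_lit 10957180558) (nat_lit 152) (nat_lit 80016369029) (nat_lit 8) (nat_lit 5) (nat_lit 9) (nat_lit 5) (nat_lit 10) (nat_lit 4) (nat_lit 391) (nat_lit 302) (nat_lit 207)) (XT.lf (nat_lit 0) (nat_lit 22564401230) (nat_lit 76) (nat_lit 271373012) (nat_lit 152) (nat_lit 73924166945) (nat_lit 8) (nat_lit 5)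 (nat_lit 9) (nat_lit 5) (nat_lit 10) (nat_lit 4) (nat_lit 392) (nat_lit 302) (nat_lit 206)))) (XT.nd (nat_lit 78) (nat_lit 0) (nat_lit 0) (XT.lf (nat_lit 0) (nat_lit 33694184587) (nat_lit 152) (nat_lit 56768300503) (nat_lit 0) (nat_lit 10589699927) (nat_lit 8) (nat_lit 5) (nat_lit 10) (nat_lit 4) (nat_lit 8) (nat_lit 4) (nat_lit 393) (nat_lit 302) (nat_lit 205)) (XT.nd (nat_lit 78) (nat_lit 0) (nat_lit 0) (XT.lf (nat_lit 0) (nat_lit 45090774611) (nat_lit 152) (nat_lit 38491986268) (nat_lit 0) (nat_lit 21976518590) (nat_lit 8) (nat_lit 5) (nat_lit 10) (nat_lit 4) (nat_lit 8) (nat_lit 4) (nat_lit 394) (nat_lit 302) (nat_lit 204)) (XT.lf (nat_lit 0) (nat_lit 57048442162) (nat_lit 152) (nat_lit 19318845326) (nat_lit 0) (nat_lit 33924880082) (nat_lit 8) (nat_lit 5) (nat_lit 10) (nat_lit 4) (nat_lit 8) (nat_lit 4) (nat_lit 395) (nat_lit 302) (nat_lit 203)))))) (XT.nd (nat_lit 468) (nat_lit 76)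 (nat_lit 0) (XT.nd (nat_lit 234) (nat_lit 76) (nat_lit 0) (XT.nd (nat_lit 78) (nat_lit 0) (nat_lit 0) (XT.lf (nat_lit 0) (nat_lit 823117561) (nat_lit 76) (nat_lit 68785391485) (nat_lit 76) (nat_lit 45652966493) (nat_lit 7) (nat_lit 4) (nat_lit 8) (nat_lit 5) (nat_lit 8) (nat_lit 4) (nat_lit 396) (nat_lit 302) (nat_lit 202)) (XT.nd (nat_lit 78) (nat_lit 0) (nat_lit 0) (XT.lf (nat_lit 0) (nat_lit 22626966242) (nat_lit 76) (nat_lit 60488600184) (nat_lit 76) (nat_lit 37347734323) (nat_lit 7) (nat_lit 4) (nat_lit 8) (nat_lit 5) (nat_lit 8) (nat_lit 4) (nat_lit 397) (nat_lit 302) (nat_lit 201)) (XT.lf (nat_lit 0) (nat_lit 45505846371) (nat_lit 76) (nat_lit 51784333315) (nat_lit 76) (nat_lit 28635428530) (nat_lit 7) (nat_lit 4) (nat_lit 8) (nat_lit 5) (nat_lit 8) (nat_lit 4) (nat_lit 398) (nat_lit 302) (nat_lit 200)))) (XT.nd (nat_lit 78) (nat_lit 76) (nat_lit 0) (XT.lf (nat_lit 0) (nat_lit 69514231470)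 (nat_lit 76) (nat_lit 42651866431) (nat_lit 76) (nat_lit 19495305529) (nat_lit 7) (nat_lit 4) (nat_lit 8) (nat_lit 5) (nat_lit 8) (nat_lit 4) (nat_lit 399) (nat_lit 302) (nat_lit 199)) (XT.nd (nat_lit 78) (nat_lit 76) (nat_lit 0) (XT.lf (nat_lit 0) (nat_lit 94709284363) (nat_lit 76) (nat_lit 33069455564) (nat_lit 76) (nat_lit 9905603122) (nat_lit 7) (nat_lit 4) (nat_lit 8) (nat_lit 5) (nat_lit 8) (nat_lit 4) (nat_lit 400) (nat_lit 302) (nat_lit 198)) (XT.lf (nat_lit 0) (nat_lit 151501975) (nat_lit 152) (nat_lit 22860217715) (nat_lit 76) (nat_lit 120996925534) (nat_lit 6) (nat_lit 5) (nat_lit 8) (nat_lit 5) (nat_lit 7) (nat_lit 4) (nat_lit 401) (nat_lit 302) (nat_lit 197))))) (XT.nd (nat_lit 234) (nat_lit 0) (nat_lit 0) (XT.nd (nat_lit 78) (nat_lit 76) (nat_lit 0) (XT.lf (nat_lit 0) (nat_lit 10372048436) (nat_lit 152) (nat_lit 1914711113) (nat_lit 76) (nat_lit 138354610544) (nat_lit 6) (nat_lit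 5) (nat_lit 8) (nat_lit 5) (nat_lit 7) (nat_lit 4) (nat_lit 402) (nat_lit 302) (nat_lit 196)) (XT.nd (nat_lit 78) (nat_lit 0) (nat_lit 0) (XT.lf (nat_lit 0) (nat_lit 20729457703) (nat_lit 76) (nat_lit 691599280) (nat_lit 152) (nat_lit 136168803336) (nat_lit 5) (nat_lit 5) (nat_lit 6) (nat_lit 5) (nat_lit 7) (nat_lit 4) (nat_lit 403) (nat_lit 302) (nat_lit 195)) (XT.lf (nat_lit 0) (nat_lit 33228570408) (nat_lit 152) (nat_lit 120503768411) (nat_lit 0) (nat_lit 11143134330) (nat_lit 5) (nat_lit 5) (nat_lit 7) (nat_lit 4) (nat_lit 5) (nat_lit 4) (nat_lit 404) (nat_lit 302) (nat_lit 194)))) (XT.nd (nat_lit 78) (nat_lit 0) (nat_lit 0) (XT.lf (nat_lit 0) (nat_lit 45631901497) (nat_lit 152) (nat_lit 103352169439) (nat_lit 0) (nat_lit 23541024359) (nat_lit 5) (nat_lit 5) (nat_lit 7) (nat_lit 4) (nat_lit 5) (nat_lit 4) (nat_lit 405) (nat_lit 302) (nat_lit 193)) (XT.nd (nat_lit 78) (nat_lit 0) (nat_lit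 0) (XT.lf (nat_lit 0) (nat_lit 58649784187) (nat_lit 152) (nat_lit 85353970757) (nat_lit 0) (nat_lit 36553725088) (nat_lit 5) (nat_lit 5) (nat_lit 7) (nat_lit 4) (nat_lit 5) (nat_lit 4) (nat_lit 406) (nat_lit 302) (nat_lit 192)) (XT.lf (nat_lit 0) (nat_lit 72313213439) (nat_lit 152) (nat_lit 66466319511) (nat_lit 0) (nat_lit 50212219138) (nat_lit 5) (nat_lit 5) (nat_lit 7) (nat_lit 4) (nat_lit 5) (nat_lit 4) (nat_lit 407) (nat_lit 302) (nat_lit 191))))))))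
noncomputable def xc108 : XT := (XT.nd (nat_lit 1794) (nat_lit 0) (nat_lit 0) (XT.nd (nat_lit 858) (nat_lit 152) (nat_lit 0) (XT.nd (nat_lit 390) (nat_lit 0) (nat_lit 0) (XT.nd (nat_lit 156) (nat_lit 76) (nat_lit 0) (XT.nd (nat_lit 78) (nat_lit 0) (nat_lit 0) (XT.lf (nat_lit 0) (nat_lit 86654721226) (nat_lit 152) (nat_lit 46644245104) (nat_lit 0) (nat_lit 64549026734) (nat_lit 5) (nat_lit 5) (nat_lit 7) (nat_lit 4) (nat_lit 5) (nat_lit 4) (nat_lit 408) (nat_lit 302) (nat_lit 190)) (XT.lf (nat_lit 0) (nat_lit 101708453996) (nat_lit 152) (nat_lit 25840552119) (nat_lit 0) (nat_lit 79598283130) (nat_lit 5) (nat_lit 5) (nat_lit 7) (nat_lit 4) (nat_lit 5) (nat_lit 4) (nat_lit 409) (nat_lit 302) (nat_lit 189))) (XT.nd (nat_lit 78) (nat_lit 76) (nat_lit 0) (XT.lf (nat_lit 0) (nat_lit 117510253968) (nat_lit 152) (nat_lit 4005707955) (nat_lit 0) (nat_lit 95395819890) (nat_lit 5) (nat_lit 5) (nat_lit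 7) (nat_lit 4) (nat_lit 5) (nat_lit 4) (nat_lit 410) (nat_lit 302) (nat_lit 188)) (XT.nd (nat_lit 78) (nat_lit 0) (nat_lit 0) (XT.lf (nat_lit 0) (nat_lit 19537600338) (nat_lit 76) (nat_lit 114865180835) (nat_lit 76) (nat_lit 92746686554) (nat_lit 4) (nat_lit 4) (nat_lit 5) (nat_lit 5) (nat_lit 5) (nat_lit 4) (nat_lit 411) (nat_lit 302) (nat_lit 187)) (XT.lf (nat_lit 0) (nat_lit 44388678640) (nat_lit 76) (nat_lit 107814772581) (nat_lit 76) (nat_lit 85692411441) (nat_lit 4) (nat_lit 4) (nat_lit 5) (nat_lit 5) (nat_lit 5) (nat_lit 4) (nat_lit 412) (nat_lit 302) (nat_lit 186))))) (XT.nd (nat_lit 234) (nat_lit 0) (nat_lit 0) (XT.nd (nat_lit 78) (nat_lit 0) (nat_lit 0) (XT.lf (nat_lit 0) (nat_lit 70474249389) (nat_lit 76) (nat_lit 100415789080) (nat_lit 76) (nat_lit 78289745216) (nat_lit 4) (nat_lit 4) (nat_lit 5) (nat_lit 5) (nat_lit 5) (nat_lit 4) (nat_lit 413) (nat_lit 302) (nat_lit 185))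 (XT.nd (nat_lit 78) (nat_lit 0) (nat_lit 0) (XT.lf (nat_lit 0) (nat_lit 97856421086) (nat_lit 76) (nat_lit 92650613702) (nat_lit 76) (nat_lit 70521062483) (nat_lit 4) (nat_lit 4) (nat_lit 5) (nat_lit 5) (nat_lit 5) (nat_lit 4) (nat_lit 414) (nat_lit 302) (nat_lit 184)) (XT.lf (nat_lit 0) (nat_lit 126600389380) (nat_lit 76) (nat_lit 84500757935) (nat_lit 76) (nat_lit 62367866378) (nat_lit 4) (nat_lit 4) (nat_lit 5) (nat_lit 5) (nat_lit 5) (nat_lit 4) (nat_lit 415) (nat_lit 302) (nat_lit 183)))) (XT.nd (nat_lit 78) (nat_lit 0) (nat_lit 0) (XT.lf (nat_lit 0) (nat_lit 156774592288) (nat_lit 76) (nat_lit 75946817362) (nat_lit 76) (nat_lit 53810744530) (nat_lit 4) (nat_lit 4) (nat_lit 5) (nat_lit 5) (nat_lit 5) (nat_lit 4) (nat_lit 416) (nat_lit 302) (nat_lit 182)) (XT.nd (nat_lit 78) (nat_lit 0) (nat_lit 0) (XT.lf (nat_lit 0) (nat_lit 188450873153) (nat_lit 76) (nat_lit 66968425456) (nat_lit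 76) (nat_lit 44829322838) (nat_lit 4) (nat_lit 4) (nat_lit 5) (nat_lit 5) (nat_lit 5) (nat_lit 4) (nat_lit 417) (nat_lit 302) (nat_lit 181)) (XT.lf (nat_lit 0) (nat_lit 221704651690) (nat_lit 76) (nat_lit 57544205094) (nat_lit 76) (nat_lit 35402216967) (nat_lit 4) (nat_lit 4) (nat_lit 5) (nat_lit 5) (nat_lit 5) (nat_lit 4) (nat_lit 418) (nat_lit 302) (nat_lit 180)))))) (XT.nd (nat_lit 468) (nat_lit 0) (nat_lit 0) (XT.nd (nat_lit 234) (nat_lit 152) (nat_lit 0) (XT.nd (nat_lit 78) (nat_lit 0) (nat_lit 0) (XT.lf (nat_lit 0) (nat_lit 256615103561) (nat_lit 76) (nat_lit 47651717657) (nat_lit 76) (nat_lit 25506981424) (nat_lit 4) (nat_lit 4) (nat_lit 5) (nat_lit 5) (nat_lit 5) (nat_lit 4) (nat_lit 419) (nat_lit 302) (nat_lit 179)) (XT.nd (nat_lit 78) (nat_lit 0) (nat_lit 0) (XT.lf (nat_lit 0) (nat_lit 293265348892) (nat_lit 76) (nat_lit 37267409602) (nat_lit 76) (nat_lit 15120056127) (nat_lit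 4) (nat_lit 4) (nat_lit 5) (nat_lit 5) (nat_lit 5) (nat_lit 4) (nat_lit 420) (nat_lit 302) (nat_lit 178)) (XT.lf (nat_lit 0) (nat_lit 331742650170) (nat_lit 76) (nat_lit 26366556386) (nat_lit 76) (nat_lit 4216710299) (nat_lit 4) (nat_lit 4) (nat_lit 5) (nat_lit 5) (nat_lit 5) (nat_lit 4) (nat_lit 421) (nat_lit 302) (nat_lit 177)))) (XT.nd (nat_lit 78) (nat_lit 76) (nat_lit 0) (XT.lf (nat_lit 0) (nat_lit 6997642733) (nat_lit 152) (nat_lit 7807052399) (nat_lit 76) (nat_lit 365022468819) (nat_lit 3) (nat_lit 5) (nat_lit 5) (nat_lit 5) (nat_lit 4) (nat_lit 4) (nat_lit 422) (nat_lit 302) (nat_lit 176)) (XT.nd (nat_lit 78) (nat_lit 0) (nat_lit 0) (XT.lf (nat_lit 0) (nat_lit 16563962151) (nat_lit 76) (nat_lit 2323083227) (nat_lit 152) (nat_lit 379300169956) (nat_lit 2) (nat_lit 5) (nat_lit 3) (nat_lit 5) (nat_lit 4) (nat_lit 4) (nat_lit 423) (nat_lit 302) (nat_lit 175)) (XT.lf (nat_lit 0) (nat_lit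 31671086866) (nat_lit 152) (nat_lit 375209643685) (nat_lit 0) (nat_lit 10569530592) (nat_lit 2) (nat_lit 5) (nat_lit 4) (nat_lit 4) (nat_lit 2) (nat_lit 4) (nat_lit 424) (nat_lit 302) (nat_lit 174))))) (XT.nd (nat_lit 234) (nat_lit 0) (nat_lit 0) (XT.nd (nat_lit 78) (nat_lit 0) (nat_lit 0) (XT.lf (nat_lit 0) (nat_lit 45129974019) (nat_lit 152) (nat_lit 368518238604) (nat_lit 0) (nat_lit 24026464717) (nat_lit 2) (nat_lit 5) (nat_lit 4) (nat_lit 4) (nat_lit 2) (nat_lit 4) (nat_lit 425) (nat_lit 302) (nat_lit 173)) (XT.nd (nat_lit 78) (nat_lit 0) (nat_lit 0) (XT.lf (nat_lit 0) (nat_lit 59259481966) (nat_lit 152) (nat_lit 361496836186) (nat_lit 0) (nat_lit 38154112639) (nat_lit 2) (nat_lit 5) (nat_lit 4) (nat_lit 4) (nat_lit 2) (nat_lit 4) (nat_lit 426) (nat_lit 302) (nat_lit 172)) (XT.lf (nat_lit 0) (nat_lit 74093252393) (nat_lit 152) (nat_lit 354128718805) (nat_lit 0) (nat_lit 52986111613)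 (nat_lit 2) (nat_lit 5) (nat_lit 4) (nat_lit 4) (nat_lit 2) (nat_lit 4) (nat_lit 427) (nat_lit 302) (nat_lit 171)))) (XT.nd (nat_lit 78) (nat_lit 0) (nat_lit 0) (XT.lf (nat_lit 0) (nat_lit 89666603801) (nat_lit 152) (nat_lit 346396343326) (nat_lit 0) (nat_lit 68557775924) (nat_lit 2) (nat_lit 5) (nat_lit 4) (nat_lit 4) (nat_lit 2) (nat_lit 4) (nat_lit 428) (nat_lit 302) (nat_lit 170)) (XT.nd (nat_lit 78) (nat_lit 0) (nat_lit 0) (XT.lf (nat_lit 0) (nat_lit 106016615599) (nat_lit 152) (nat_lit 338281299329) (nat_lit 0) (nat_lit 84906180961) (nat_lit 2) (nat_lit 5) (nat_lit 4) (nat_lit 4) (nat_lit 2) (nat_lit 4) (nat_lit 429) (nat_lit 302) (nat_lit 169)) (XT.lf (nat_lit 0) (nat_lit 123182216385) (nat_lit 152) (nat_lit 329764265282) (nat_lit 0) (nat_lit 102070251500) (nat_lit 2) (nat_lit 5) (nat_lit 4) (nat_lit 4) (nat_lit 2) (nat_lit 4) (nat_lit 430) (nat_lit 302) (nat_lit 168))))))) (XT.nd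 (nat_lit 37440) (nat_lit 0) (nat_lit 6764) (XT.nd (nat_lit 36972) (nat_lit 0) (nat_lit 10792) (XT.nd (nat_lit 234) (nat_lit 0) (nat_lit 0) (XT.nd (nat_lit 78) (nat_lit 0) (nat_lit 0) (XT.lf (nat_lit 0) (nat_lit 141204276638) (nat_lit 152) (nat_lit 320824962533) (nat_lit 0) (nat_lit 120090854375) (nat_lit 2) (nat_lit 5) (nat_lit 4) (nat_lit 4) (nat_lit 2) (nat_lit 4) (nat_lit 431) (nat_lit 302) (nat_lit 167)) (XT.nd (nat_lit 78) (nat_lit 0) (nat_lit 0) (XT.lf (nat_lit 0) (nat_lit 160125706026) (nat_lit 152) (nat_lit 311442107027) (nat_lit 0) (nat_lit 139010895783) (nat_lit 2) (nat_lit 5) (nat_lit 4) (nat_lit 4) (nat_lit 2) (nat_lit 4) (nat_lit 432) (nat_lit 302) (nat_lit 166)) (XT.lf (nat_lit 0) (nat_lit 179991555570) (nat_lit 152) (nat_lit 301593358632) (nat_lit 0) (nat_lit 158875423441) (nat_lit 2) (nat_lit 5) (nat_lit 4) (nat_lit 4) (nat_lit 2) (nat_lit 4) (nat_lit 433) (nat_lit 302)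 (nat_lit 165)))) (XT.nd (nat_lit 78) (nat_lit 0) (nat_lit 0) (XT.lf (nat_lit 0) (nat_lit 200849124912) (nat_lit 152) (nat_lit 291255267947) (nat_lit 0) (nat_lit 179731733845) (nat_lit 2) (nat_lit 5) (nat_lit 4) (nat_lit 4) (nat_lit 2) (nat_lit 4) (nat_lit 434) (nat_lit 302) (nat_lit 164)) (XT.nd (nat_lit 36582) (nat_lit 0) (nat_lit 11476) (XT.lf (nat_lit 0) (nat_lit 222748074932) (nat_lit 152) (nat_lit 280403220470) (nat_lit 0) (nat_lit 201629484876) (nat_lit 2) (nat_lit 5) (nat_lit 4) (nat_lit 4) (nat_lit 2) (nat_lit 4) (nat_lit 435) (nat_lit 302) (nat_lit 163)) (XT.lf (nat_lit 0) (nat_lit 930204124) (nat_lit 0) (nat_lit 930204124) (nat_lit 228) (nat_lit 1412830956) (nat_lit 153) (nat_lit 5) (nat_lit 153) (nat_lit 3) (nat_lit 156) (nat_lit 3) (nat_lit 303) (nat_lit 303) (nat_lit 294))))) (XT.nd (nat_lit 234) (nat_lit 304) (nat_lit 0) (XT.nd (nat_lit 78) (nat_lit 380) (nat_lit 0) (XT.lf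 (nat_lit 0) (nat_lit 5076737189) (nat_lit 0) (nat_lit 1129994137) (nat_lit 228) (nat_lit 379542248) (nat_lit 153) (nat_lit 5) (nat_lit 153) (nat_lit 3) (nat_lit 156) (nat_lit 3) (nat_lit 304) (nat_lit 303) (nat_lit 293)) (XT.nd (nat_lit 78) (nat_lit 0) (nat_lit 76) (XT.lf (nat_lit 76) (nat_lit 1766176864) (nat_lit 0) (nat_lit 224275754) (nat_lit 380) (nat_lit 4642573185) (nat_lit 149) (nat_lit 5) (nat_lit 148) (nat_lit 3) (nat_lit 153) (nat_lit 5) (nat_lit 305) (nat_lit 303) (nat_lit 292)) (XT.lf (nat_lit 0) (nat_lit 4354819751) (nat_lit 304) (nat_lit 1530233094) (nat_lit 380) (nat_lit 802565456) (nat_lit 149) (nat_lit 5) (nat_lit 153) (nat_lit 5) (nat_lit 154) (nat_lit 5) (nat_lit 306) (nat_lit 303) (nat_lit 291)))) (XT.nd (nat_lit 78) (nat_lit 380) (nat_lit 0) (XT.lf (nat_lit 76) (nat_lit 1946610300) (nat_lit 0) (nat_lit 4783242241) (nat_lit 380) (nat_lit 20698984) (nat_lit 150) (nat_lit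 5) (nat_lit 149) (nat_lit 5) (nat_lit 154) (nat_lit 5) (nat_lit 307) (nat_lit 303) (nat_lit 290)) (XT.nd (nat_lit 78) (nat_lit 0) (nat_lit 0) (XT.lf (nat_lit 0) (nat_lit 2217671891) (nat_lit 380) (nat_lit 1291569727) (nat_lit 456) (nat_lit 3311337271) (nat_lit 144) (nat_lit 5) (nat_lit 149) (nat_lit 5) (nat_lit 150) (nat_lit 5) (nat_lit 308) (nat_lit 303) (nat_lit 289)) (XT.lf (nat_lit 76) (nat_lit 2388084897) (nat_lit 0) (nat_lit 2084432595) (nat_lit 456) (nat_lit 2426512247) (nat_lit 145) (nat_lit 5) (nat_lit 144) (nat_lit 5) (nat_lit 150) (nat_lit 5) (nat_lit 309) (nat_lit 303) (nat_lit 288)))))) (XT.nd (nat_lit 468) (nat_lit 2584) (nat_lit 0) (XT.nd (nat_lit 234) (nat_lit 1064) (nat_lit 0) (XT.nd (nat_lit 78) (nat_lit 380) (nat_lit 0) (XT.lf (nat_lit 76) (nat_lit 6213494657) (nat_lit 0) (nat_lit 521441538) (nat_lit 456) (nat_lit 251917469) (nat_lit 145) (nat_lit 5) (nat_lit 144) (nat_lit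 5) (nat_lit 150) (nat_lit 5) (nat_lit 310) (nat_lit 303) (nat_lit 287)) (XT.nd (nat_lit 78) (nat_lit 0) (nat_lit 0) (XT.lf (nat_lit 0) (nat_lit 1911629773) (nat_lit 456) (nat_lit 3964375619) (nat_lit 76) (nat_lit 1204389789) (nat_lit 139) (nat_lit 5) (nat_lit 145) (nat_lit 5) (nat_lit 140) (nat_lit 5) (nat_lit 311) (nat_lit 303) (nat_lit 286)) (XT.lf (nat_lit 0) (nat_lit 4078749698) (nat_lit 456) (nat_lit 52814517) (nat_lit 76) (nat_lit 3051815919) (nat_lit 139) (nat_lit 5) (nat_lit 145) (nat_lit 5) (nat_lit 140) (nat_lit 5) (nat_lit 312) (nat_lit 303) (nat_lit 285)))) (XT.nd (nat_lit 78) (nat_lit 608) (nat_lit 0) (XT.lf (nat_lit 0) (nat_lit 4101130012) (nat_lit 456) (nat_lit 2204745986) (nat_lit 532) (nat_lit 988213837) (nat_lit 133) (nat_lit 5) (nat_lit 139) (nat_lit 5) (nat_lit 140) (nat_lit 5) (nat_lit 313) (nat_lit 303) (nat_lit 284)) (XT.nd (nat_lit 78) (nat_lit 0) (nat_lit 0) (XT.lf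 (nat_lit 0) (nat_lit 979501198) (nat_lit 532) (nat_lit 120980614) (nat_lit 608) (nat_lit 6313735472) (nat_lit 125) (nat_lit 5) (nat_lit 132) (nat_lit 5) (nat_lit 133) (nat_lit 5) (nat_lit 314) (nat_lit 303) (nat_lit 283)) (XT.lf (nat_lit 0) (nat_lit 3241627423) (nat_lit 608) (nat_lit 2206827792) (nat_lit 76) (nat_lit 2092161102) (nat_lit 125) (nat_lit 5) (nat_lit 133) (nat_lit 5) (nat_lit 126) (nat_lit 5) (nat_lit 315) (nat_lit 303) (nat_lit 282))))) (XT.nd (nat_lit 234) (nat_lit 1216) (nat_lit 0) (XT.nd (nat_lit 78) (nat_lit 760) (nat_lit 0) (XT.lf (nat_lit 0) (nat_lit 2214432935) (nat_lit 608) (nat_lit 3210995709) (nat_lit 684) (nat_lit 2251256742) (nat_lit 117) (nat_lit 5) (nat_lit 125) (nat_lit 5) (nat_lit 126) (nat_lit 5) (nat_lit 316) (nat_lit 303) (nat_lit 281)) (XT.nd (nat_lit 78) (nat_lit 760) (nat_lit 0) (XT.lf (nat_lit 0) (nat_lit 6847860247) (nat_lit 608) (nat_lit 810447371)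 (nat_lit 684) (nat_lit 164379718) (nat_lit 117) (nat_lit 5) (nat_lit 125) (nat_lit 5) (nat_lit 126) (nat_lit 5) (nat_lit 317) (nat_lit 303) (nat_lit 280)) (XT.lf (nat_lit 0) (nat_lit 1954216201) (nat_lit 760) (nat_lit 4264289522) (nat_lit 76) (nat_lit 1756401397) (nat_lit 107) (nat_lit 5) (nat_lit 117) (nat_lit 5) (nat_lit 108) (nat_lit 5) (nat_lit 318) (nat_lit 303) (nat_lit 279)))) (XT.nd (nat_lit 78) (nat_lit 456) (nat_lit 0) (XT.lf (nat_lit 0) (nat_lit 439990440) (nat_lit 760) (nat_lit 3679005343) (nat_lit 836) (nat_lit 4018425421) (nat_lit 97) (nat_lit 5) (nat_lit 107) (nat_lit 5) (nat_lit 108) (nat_lit 5) (nat_lit 319) (nat_lit 303) (nat_lit 278)) (XT.nd (nat_lit 78) (nat_lit 456) (nat_lit 0) (XT.lf (nat_lit 0) (nat_lit 5440845510) (nat_lit 760) (nat_lit 935216848) (nat_lit 836) (nat_lit 1932898095) (nat_lit 97) (nat_lit 5) (nat_lit 107) (nat_lit 5) (nat_lit 108) (nat_lit 5) (nat_lit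 320) (nat_lit 303) (nat_lit 277)) (XT.lf (nat_lit 0) (nat_lit 228327621) (nat_lit 456) (nat_lit 6339487226) (nat_lit 76) (nat_lit 1922171424) (nat_lit 91) (nat_lit 5) (nat_lit 97) (nat_lit 5) (nat_lit 92) (nat_lit 5) (nat_lit 321) (nat_lit 303) (nat_lit 276))))))))
noncomputable def xc109 : XT := (XT.nd (nat_lit 1794) (nat_lit 1748) (nat_lit 0) (XT.nd (nat_lit 858) (nat_lit 1672) (nat_lit 0) (XT.nd (nat_lit 390) (nat_lit 912) (nat_lit 0) (XT.nd (nat_lit 156) (nat_lit 760) (nat_lit 0) (XT.nd (nat_lit 78) (nat_lit 304) (nat_lit 0) (XT.lf (nat_lit 0) (nat_lit 2414649126) (nat_lit 456) (nat_lit 1294127726) (nat_lit 76) (nat_lit 4970690550) (nat_lit 91) (nat_lit 5) (nat_lit 97) (nat_lit 5) (nat_lit 92) (nat_lit 5) (nat_lit 322) (nat_lit 303) (nat_lit 275)) (XT.lf (nat_lit 0) (nat_lit 4049001026) (nat_lit 304) (nat_lit 645732350) (nat_lit 380) (nat_lit 4184550680) (nat_lit 87) (nat_lit 5) (nat_lit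 91) (nat_lit 5) (nat_lit 92) (nat_lit 5) (nat_lit 323) (nat_lit 303) (nat_lit 274))) (XT.nd (nat_lit 78) (nat_lit 380) (nat_lit 0) (XT.lf (nat_lit 0) (nat_lit 505372605) (nat_lit 380) (nat_lit 6577336935) (nat_lit 456) (nat_lit 2006767428) (nat_lit 82) (nat_lit 5) (nat_lit 87) (nat_lit 5) (nat_lit 88) (nat_lit 5) (nat_lit 324) (nat_lit 303) (nat_lit 273)) (XT.nd (nat_lit 78) (nat_lit 304) (nat_lit 0) (XT.lf (nat_lit 0) (nat_lit 289286621) (nat_lit 456) (nat_lit 3134578923) (nat_lit 76) (nat_lit 5885250848) (nat_lit 81) (nat_lit 5) (nat_lit 87) (nat_lit 5) (nat_lit 82) (nat_lit 5) (nat_lit 325) (nat_lit 303) (nat_lit 272)) (XT.lf (nat_lit 0) (nat_lit 2552703425) (nat_lit 304) (nat_lit 48054593) (nat_lit 380) (nat_lit 6939001064) (nat_lit 77) (nat_lit 5) (nat_lit 81) (nat_lit 5) (nat_lit 82) (nat_lit 5) (nat_lit 326) (nat_lit 303) (nat_lit 271))))) (XT.nd (nat_lit 234) (nat_lit 304) (nat_lit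 0) (XT.nd (nat_lit 78) (nat_lit 608) (nat_lit 0) (XT.lf (nat_lit 0) (nat_lit 5066490739) (nat_lit 380) (nat_lit 1287095685) (nat_lit 76) (nat_lit 3426478754) (nat_lit 77) (nat_lit 5) (nat_lit 82) (nat_lit 5) (nat_lit 78) (nat_lit 5) (nat_lit 327) (nat_lit 303) (nat_lit 270)) (XT.nd (nat_lit 78) (nat_lit 304) (nat_lit 0) (XT.lf (nat_lit 0) (nat_lit 4768230219) (nat_lit 304) (nat_lit 2895980702) (nat_lit 380) (nat_lit 2367803150) (nat_lit 73) (nat_lit 5) (nat_lit 77) (nat_lit 5) (nat_lit 78) (nat_lit 5) (nat_lit 328) (nat_lit 303) (nat_lit 269)) (XT.lf (nat_lit 0) (nat_lit 73198334) (nat_lit 304) (nat_lit 9492404933) (nat_lit 76) (nat_lit 731889977) (nat_lit 69) (nat_lit 5) (nat_lit 73) (nat_lit 5) (nat_lit 70) (nat_lit 5) (nat_lit 329) (nat_lit 303) (nat_lit 268)))) (XT.nd (nat_lit 78) (nat_lit 304) (nat_lit 0) (XT.lf (nat_lit 0) (nat_lit 2630621605) (nat_lit 304) (nat_lit 3383415625) (nat_lit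 76) (nat_lit 4556625072) (nat_lit 69) (nat_lit 5) (nat_lit 73) (nat_lit 5) (nat_lit 70) (nat_lit 5) (nat_lit 330) (nat_lit 303) (nat_lit 267)) (XT.nd (nat_lit 78) (nat_lit 0) (nat_lit 0) (XT.lf (nat_lit 0) (nat_lit 3048573363) (nat_lit 304) (nat_lit 2253857750) (nat_lit 380) (nat_lit 5555784392) (nat_lit 65) (nat_lit 5) (nat_lit 69) (nat_lit 5) (nat_lit 70) (nat_lit 5) (nat_lit 331) (nat_lit 303) (nat_lit 266)) (XT.lf (nat_lit 0) (nat_lit 8132819390) (nat_lit 380) (nat_lit 1346497407) (nat_lit 76) (nat_lit 1679629154) (nat_lit 65) (nat_lit 5) (nat_lit 70) (nat_lit 5) (nat_lit 66) (nat_lit 5) (nat_lit 332) (nat_lit 303) (nat_lit 265)))))) (XT.nd (nat_lit 468) (nat_lit 608) (nat_lit 0) (XT.nd (nat_lit 234) (nat_lit 532) (nat_lit 0) (XT.nd (nat_lit 78) (nat_lit 304) (nat_lit 0) (XT.lf (nat_lit 0) (nat_lit 5501362818) (nat_lit 228) (nat_lit 5669343411) (nat_lit 304) (nat_lit 300754395) (nat_lit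 62) (nat_lit 5) (nat_lit 65) (nat_lit 5) (nat_lit 66) (nat_lit 5) (nat_lit 333) (nat_lit 303) (nat_lit 264)) (XT.nd (nat_lit 78) (nat_lit 0) (nat_lit 0) (XT.lf (nat_lit 0) (nat_lit 848478957) (nat_lit 228) (nat_lit 1610572368) (nat_lit 304) (nat_lit 9339586435) (nat_lit 58) (nat_lit 5) (nat_lit 61) (nat_lit 5) (nat_lit 62) (nat_lit 5) (nat_lit 334) (nat_lit 303) (nat_lit 263)) (XT.lf (nat_lit 0) (nat_lit 5435733801) (nat_lit 304) (nat_lit 4049242577) (nat_lit 76) (nat_lit 2652541475) (nat_lit 58) (nat_lit 5) (nat_lit 62) (nat_lit 5) (nat_lit 59) (nat_lit 5) (nat_lit 335) (nat_lit 303) (nat_lit 262)))) (XT.nd (nat_lit 78) (nat_lit 304) (nat_lit 0) (XT.lf (nat_lit 0) (nat_lit 3197024766) (nat_lit 228) (nat_lit 5388007858) (nat_lit 304) (nat_lit 3907158606) (nat_lit 55) (nat_lit 5) (nat_lit 58) (nat_lit 5) (nat_lit 59) (nat_lit 5) (nat_lit 336) (nat_lit 303) (nat_lit 261)) (XT.nd (nat_lit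 78) (nat_lit 304) (nat_lit 0) (XT.lf (nat_lit 0) (nat_lit 10871789033) (nat_lit 228) (nat_lit 1037388248) (nat_lit 304) (nat_lit 954588512) (nat_lit 55) (nat_lit 5) (nat_lit 58) (nat_lit 5) (nat_lit 59) (nat_lit 5) (nat_lit 337) (nat_lit 303) (nat_lit 260)) (XT.lf (nat_lit 0) (nat_lit 2173980325) (nat_lit 304) (nat_lit 7552526475) (nat_lit 76) (nat_lit 3520918339) (nat_lit 51) (nat_lit 5) (nat_lit 55) (nat_lit 5) (nat_lit 52) (nat_lit 5) (nat_lit 338) (nat_lit 303) (nat_lit 259))))) (XT.nd (nat_lit 234) (nat_lit 228) (nat_lit 0) (XT.nd (nat_lit 78) (nat_lit 228) (nat_lit 0) (XT.lf (nat_lit 0) (nat_lit 82685422) (nat_lit 152) (nat_lit 5348095078) (nat_lit 228) (nat_lit 8218541920) (nat_lit 49) (nat_lit 5) (nat_lit 51) (nat_lit 5) (nat_lit 52) (nat_lit 5) (nat_lit 339) (nat_lit 303) (nat_lit 258)) (XT.nd (nat_lit 78) (nat_lit 228) (nat_lit 0) (XT.lf (nat_lit 0) (nat_lit 8289602470) (nat_lit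 152) (nat_lit 641212727) (nat_lit 228) (nat_lit 5136509724) (nat_lit 49) (nat_lit 5) (nat_lit 51) (nat_lit 5) (nat_lit 52) (nat_lit 5) (nat_lit 340) (nat_lit 303) (nat_lit 257)) (XT.lf (nat_lit 0) (nat_lit 2337559332) (nat_lit 228) (nat_lit 10326322255) (nat_lit 304) (nat_lit 1839473107) (nat_lit 46) (nat_lit 5) (nat_lit 49) (nat_lit 5) (nat_lit 50) (nat_lit 5) (nat_lit 341) (nat_lit 303) (nat_lit 256)))) (XT.nd (nat_lit 78) (nat_lit 152) (nat_lit 0) (XT.lf (nat_lit 0) (nat_lit 1635164527) (nat_lit 304) (nat_lit 4005671534) (nat_lit 76) (nat_lit 9315875525) (nat_lit 45) (nat_lit 5) (nat_lit 49) (nat_lit 5) (nat_lit 46) (nat_lit 5) (nat_lit 342) (nat_lit 303) (nat_lit 255)) (XT.nd (nat_lit 78) (nat_lit 0) (nat_lit 0) (XT.lf (nat_lit 0) (nat_lit 4612182325) (nat_lit 152) (nat_lit 638411335) (nat_lit 228) (nat_lit 10179215748) (nat_lit 43) (nat_lit 5) (nat_lit 45) (nat_lit 5) (nat_lit 46)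 (nat_lit 5) (nat_lit 343) (nat_lit 303) (nat_lit 254)) (XT.lf (nat_lit 0) (nat_lit 9145283138) (nat_lit 228) (nat_lit 2264718562) (nat_lit 76) (nat_lit 4511659543) (nat_lit 43) (nat_lit 5) (nat_lit 46) (nat_lit 5) (nat_lit 44) (nat_lit 5) (nat_lit 344) (nat_lit 303) (nat_lit 253))))))) (XT.nd (nat_lit 936) (nat_lit 608) (nat_lit 0) (XT.nd (nat_lit 468) (nat_lit 532) (nat_lit 0) (XT.nd (nat_lit 234) (nat_lit 228) (nat_lit 0) (XT.nd (nat_lit 78) (nat_lit 228) (nat_lit 0) (XT.lf (nat_lit 0) (nat_lit 6859789128) (nat_lit 152) (nat_lit 6452007331) (nat_lit 228) (nat_lit 3122477189) (nat_lit 41) (nat_lit 5) (nat_lit 43) (nat_lit 5) (nat_lit 44) (nat_lit 5) (nat_lit 345) (nat_lit 303) (nat_lit 252)) (XT.nd (nat_lit 78) (nat_lit 152) (nat_lit 0) (XT.lf (nat_lit 0) (nat_lit 690026307) (nat_lit 228) (nat_lit 528665183) (nat_lit 76) (nat_lit 15753349882) (nat_lit 40) (nat_lit 5) (nat_lit 43) (nat_lit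 5) (nat_lit 41) (nat_lit 5) (nat_lit 346) (nat_lit 303) (nat_lit 251)) (XT.lf (nat_lit 0) (nat_lit 4762323752) (nat_lit 228) (nat_lit 8449747376) (nat_lit 76) (nat_lit 4313381113) (nat_lit 38) (nat_lit 5) (nat_lit 41) (nat_lit 5) (nat_lit 39) (nat_lit 5) (nat_lit 347) (nat_lit 303) (nat_lit 250)))) (XT.nd (nat_lit 78) (nat_lit 76) (nat_lit 0) (XT.lf (nat_lit 0) (nat_lit 1022324392) (nat_lit 152) (nat_lit 8023141573) (nat_lit 228) (nat_lit 9060724660) (nat_lit 36) (nat_lit 5) (nat_lit 38) (nat_lit 5) (nat_lit 39) (nat_lit 5) (nat_lit 348) (nat_lit 303) (nat_lit 249)) (XT.nd (nat_lit 78) (nat_lit 76) (nat_lit 0) (XT.lf (nat_lit 0) (nat_lit 11199536791) (nat_lit 152) (nat_lit 2449354385) (nat_lit 228) (nat_lit 5061786043) (nat_lit 36) (nat_lit 5) (nat_lit 38) (nat_lit 5) (nat_lit 39) (nat_lit 5) (nat_lit 349) (nat_lit 303) (nat_lit 248)) (XT.lf (nat_lit 0) (nat_lit 2507047190) (nat_lit 76)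 (nat_lit 16032131374) (nat_lit 152) (nat_lit 803391785) (nat_lit 35) (nat_lit 5) (nat_lit 36) (nat_lit 5) (nat_lit 37) (nat_lit 4) (nat_lit 350) (nat_lit 303) (nat_lit 247))))) (XT.nd (nat_lit 234) (nat_lit 304) (nat_lit 0) (XT.nd (nat_lit 78) (nat_lit 152) (nat_lit 0) (XT.lf (nat_lit 0) (nat_lit 3684568105) (nat_lit 152) (nat_lit 6872785857) (nat_lit 76) (nat_lit 9439153920) (nat_lit 34) (nat_lit 5) (nat_lit 36) (nat_lit 5) (nat_lit 35) (nat_lit 5) (nat_lit 351) (nat_lit 303) (nat_lit 246)) (XT.nd (nat_lit 78) (nat_lit 0) (nat_lit 0) (XT.lf (nat_lit 0) (nat_lit 3633599870) (nat_lit 152) (nat_lit 4759342198) (nat_lit 228) (nat_lit 12288405410) (nat_lit 32) (nat_lit 5) (nat_lit 34) (nat_lit 5) (nat_lit 35) (nat_lit 5) (nat_lit 352) (nat_lit 303) (nat_lit 245)) (XT.lf (nat_lit 0) (nat_lit 13442414678) (nat_lit 228) (nat_lit 6571327978) (nat_lit 76) (nat_lit 1381416179) (nat_lit 32) (nat_lit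 5) (nat_lit 35) (nat_lit 5) (nat_lit 33) (nat_lit 4) (nat_lit 353) (nat_lit 303) (nat_lit 244)))) (XT.nd (nat_lit 78) (nat_lit 228) (nat_lit 0) (XT.lf (nat_lit 0) (nat_lit 4437705579) (nat_lit 76) (nat_lit 14422186357) (nat_lit 152) (nat_lit 3279005398) (nat_lit 31) (nat_lit 5) (nat_lit 32) (nat_lit 5) (nat_lit 33) (nat_lit 4) (nat_lit 354) (nat_lit 303) (nat_lit 243)) (XT.nd (nat_lit 78) (nat_lit 152) (nat_lit 0) (XT.lf (nat_lit 0) (nat_lit 1657780500) (nat_lit 152) (nat_lit 6771561000) (nat_lit 76) (nat_lit 14485147960) (nat_lit 30) (nat_lit 5) (nat_lit 32) (nat_lit 5) (nat_lit 31) (nat_lit 5) (nat_lit 355) (nat_lit 303) (nat_lit 242)) (XT.lf (nat_lit 0) (nat_lit 4750080243) (nat_lit 152) (nat_lit 2025164571) (nat_lit 228) (nat_lit 16948738244) (nat_lit 28) (nat_lit 5) (nat_lit 30) (nat_lit 5) (nat_lit 31) (nat_lit 5) (nat_lit 356) (nat_lit 303) (nat_lit 241)))))) (XT.nd (nat_lit 468)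 (nat_lit 228) (nat_lit 0) (XT.nd (nat_lit 234) (nat_lit 304) (nat_lit 0) (XT.nd (nat_lit 78) (nat_lit 76) (nat_lit 0) (XT.lf (nat_lit 0) (nat_lit 12308657828) (nat_lit 228) (nat_lit 7613603069) (nat_lit 76) (nat_lit 4643697463) (nat_lit 28) (nat_lit 5) (nat_lit 31) (nat_lit 5) (nat_lit 29) (nat_lit 4) (nat_lit 357) (nat_lit 303) (nat_lit 240)) (XT.nd (nat_lit 78) (nat_lit 0) (nat_lit 0) (XT.lf (nat_lit 0) (nat_lit 4370899206) (nat_lit 76) (nat_lit 13820853037) (nat_lit 152) (nat_lit 7254639929) (nat_lit 27) (nat_lit 5) (nat_lit 28) (nat_lit 5) (nat_lit 29) (nat_lit 4) (nat_lit 358) (nat_lit 303) (nat_lit 239)) (XT.lf (nat_lit 0) (nat_lit 17169259256) (nat_lit 76) (nat_lit 7300829492) (nat_lit 152) (nat_lit 1895714351) (nat_lit 27) (nat_lit 5) (nat_lit 28) (nat_lit 5) (nat_lit 29) (nat_lit 4) (nat_lit 359) (nat_lit 303) (nat_lit 238)))) (XT.nd (nat_lit 78) (nat_lit 76) (nat_lit 0) (XT.lf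 (nat_lit 0) (nat_lit 3274680450) (nat_lit 152) (nat_lit 361213402) (nat_lit 228) (nat_lit 23691179078) (nat_lit 24) (nat_lit 5) (nat_lit 26) (nat_lit 5) (nat_lit 27) (nat_lit 5) (nat_lit 360) (nat_lit 303) (nat_lit 237)) (XT.nd (nat_lit 78) (nat_lit 76) (nat_lit 0) (XT.lf (nat_lit 0) (nat_lit 9620044805) (nat_lit 228) (nat_lit 11830077193) (nat_lit 76) (nat_lit 6872755310) (nat_lit 24) (nat_lit 5) (nat_lit 27) (nat_lit 5) (nat_lit 25) (nat_lit 4) (nat_lit 361) (nat_lit 303) (nat_lit 236)) (XT.lf (nat_lit 0) (nat_lit 982741074) (nat_lit 76) (nat_lit 14916446117) (nat_lit 152) (nat_lit 13469503577) (nat_lit 23) (nat_lit 5) (nat_lit 24) (nat_lit 5) (nat_lit 25) (nat_lit 4) (nat_lit 362) (nat_lit 303) (nat_lit 235))))) (XT.nd (nat_lit 234) (nat_lit 76) (nat_lit 0) (XT.nd (nat_lit 78) (nat_lit 152) (nat_lit 0) (XT.lf (nat_lit 0) (nat_lit 14801512996) (nat_lit 76) (nat_lit 7866145341) (nat_lit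 152) (nat_lit 7790375656) (nat_lit 23) (nat_lit 5) (nat_lit 24) (nat_lit 5) (nat_lit 25) (nat_lit 4) (nat_lit 363) (nat_lit 303) (nat_lit 234)) (XT.nd (nat_lit 78) (nat_lit 152) (nat_lit 0) (XT.lf (nat_lit 0) (nat_lit 29267984630) (nat_lit 76) (nat_lit 482781323) (nat_lit 152) (nat_lit 1852275087) (nat_lit 23) (nat_lit 5) (nat_lit 24) (nat_lit 5) (nat_lit 25) (nat_lit 4) (nat_lit 364) (nat_lit 303) (nat_lit 233)) (XT.lf (nat_lit 0) (nat_lit 4522965745) (nat_lit 152) (nat_lit 20987365875) (nat_lit 76) (nat_lit 7277526614) (nat_lit 21) (nat_lit 5) (nat_lit 23) (nat_lit 5) (nat_lit 22) (nat_lit 4) (nat_lit 365) (nat_lit 303) (nat_lit 232)))) (XT.nd (nat_lit 78) (nat_lit 76) (nat_lit 0) (XT.lf (nat_lit 0) (nat_lit 11179956179) (nat_lit 152) (nat_lit 7387095449) (nat_lit 76) (nat_lit 15462090906) (nat_lit 21) (nat_lit 5) (nat_lit 23) (nat_lit 5) (nat_lit 22) (nat_lit 4) (nat_lit 366) (nat_lit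 303) (nat_lit 231)) (XT.nd (nat_lit 78) (nat_lit 0) (nat_lit 0) (XT.lf (nat_lit 0) (nat_lit 7079672730) (nat_lit 76) (nat_lit 11178874182) (nat_lit 152) (nat_lit 17069512612) (nat_lit 20) (nat_lit 5) (nat_lit 21) (nat_lit 5) (nat_lit 22) (nat_lit 4) (nat_lit 367) (nat_lit 303) (nat_lit 230)) (XT.lf (nat_lit 0) (nat_lit 22486780011) (nat_lit 76) (nat_lit 3308029604) (nat_lit 152) (nat_lit 10891931351) (nat_lit 20) (nat_lit 5) (nat_lit 21) (nat_lit 5) (nat_lit 22) (nat_lit 4) (nat_lit 368) (nat_lit 303) (nat_lit 229))))))))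
noncomputable def xc110 : XT := (XT.nd (nat_lit 1794) (nat_lit 380) (nat_lit 0) (XT.nd (nat_lit 858) (nat_lit 380) (nat_lit 0) (XT.nd (nat_lit 390) (nat_lit 228) (nat_lit 0) (XT.nd (nat_lit 156) (nat_lit 76) (nat_lit 0) (XT.nd (nat_lit 78) (nat_lit 76) (nat_lit 0) (XT.lf (nat_lit 0) (nat_lit 449555189) (nat_lit 76) (nat_lit 33322118173) (nat_lit 76) (nat_lit 4338499175) (nat_lit 19) (nat_lit 4) (nat_lit 20) (nat_lit 5) (nat_lit 20) (nat_lit 4) (nat_lit 369) (nat_lit 303) (nat_lit 228)) (XT.lf (nat_lit 0) (nat_lit 2739323588) (nat_lit 152) (nat_lit 23404486592) (nat_lit 76) (nat_lit 13445080685) (nat_lit 18) (nat_lit 5) (nat_lit 20) (nat_lit 5) (nat_lit 19) (nat_lit 4) (nat_lit 370) (nat_lit 303) (nat_lit 227))) (XT.nd (nat_lit 78) (nat_lit 76) (nat_lit 0) (XT.lf (nat_lit 0) (nat_lit 10005657044) (nat_lit 152) (nat_lit 8543246768) (nat_lit 76) (nat_lit 22590068781) (nat_lit 18) (nat_lit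 5) (nat_lit 20) (nat_lit 5) (nat_lit 19) (nat_lit 4) (nat_lit 371) (nat_lit 303) (nat_lit 226)) (XT.nd (nat_lit 78) (nat_lit 0) (nat_lit 0) (XT.lf (nat_lit 0) (nat_lit 7258540792) (nat_lit 76) (nat_lit 10471446427) (nat_lit 152) (nat_lit 25031841674) (nat_lit 17) (nat_lit 5) (nat_lit 18) (nat_lit 5) (nat_lit 19) (nat_lit 4) (nat_lit 372) (nat_lit 303) (nat_lit 225)) (XT.lf (nat_lit 0) (nat_lit 24112748899) (nat_lit 76) (nat_lit 1854175746) (nat_lit 152) (nat_lit 18492588097) (nat_lit 17) (nat_lit 5) (nat_lit 18) (nat_lit 5) (nat_lit 19) (nat_lit 4) (nat_lit 373) (nat_lit 303) (nat_lit 224))))) (XT.nd (nat_lit 234) (nat_lit 76) (nat_lit 0) (XT.nd (nat_lit 78) (nat_lit 152) (nat_lit 0) (XT.lf (nat_lit 0) (nat_lit 34710367050) (nat_lit 152) (nat_lit 4578007937) (nat_lit 0) (nat_lit 6948976962) (nat_lit 17) (nat_lit 5) (nat_lit 19) (nat_lit 4) (nat_lit 17) (nat_lit 4) (nat_lit 374) (nat_lit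 303) (nat_lit 223)) (XT.nd (nat_lit 78) (nat_lit 76) (nat_lit 0) (XT.lf (nat_lit 0) (nat_lit 12311130391) (nat_lit 76) (nat_lit 31785639947) (nat_lit 76) (nat_lit 3997027213) (nat_lit 16) (nat_lit 4) (nat_lit 17) (nat_lit 5) (nat_lit 17) (nat_lit 4) (nat_lit 375) (nat_lit 303) (nat_lit 222)) (XT.lf (nat_lit 0) (nat_lit 3846325136) (nat_lit 152) (nat_lit 19929572534) (nat_lit 76) (nat_lit 26261018278) (nat_lit 15) (nat_lit 5) (nat_lit 17) (nat_lit 5) (nat_lit 16) (nat_lit 4) (nat_lit 376) (nat_lit 303) (nat_lit 221)))) (XT.nd (nat_lit 78) (nat_lit 76) (nat_lit 0) (XT.lf (nat_lit 0) (nat_lit 11931538899) (nat_lit 152) (nat_lit 3379576064) (nat_lit 76) (nat_lit 36763601393) (nat_lit 15) (nat_lit 5) (nat_lit 17) (nat_lit 5) (nat_lit 16) (nat_lit 4) (nat_lit 377) (nat_lit 303) (nat_lit 220)) (XT.nd (nat_lit 78) (nat_lit 0) (nat_lit 0) (XT.lf (nat_lit 0) (nat_lit 14431014384) (nat_lit 76) (nat_lit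 6200088609) (nat_lit 152) (nat_lit 33572802496) (nat_lit 14) (nat_lit 5) (nat_lit 15) (nat_lit 5) (nat_lit 16) (nat_lit 4) (nat_lit 378) (nat_lit 303) (nat_lit 219)) (XT.lf (nat_lit 0) (nat_lit 29861233193) (nat_lit 152) (nat_lit 23269590281) (nat_lit 0) (nat_lit 3303954247) (nat_lit 14) (nat_lit 5) (nat_lit 16) (nat_lit 4) (nat_lit 14) (nat_lit 4) (nat_lit 379) (nat_lit 303) (nat_lit 218)))))) (XT.nd (nat_lit 468) (nat_lit 152) (nat_lit 0) (XT.nd (nat_lit 234) (nat_lit 152) (nat_lit 0) (XT.nd (nat_lit 78) (nat_lit 76) (nat_lit 0) (XT.lf (nat_lit 0) (nat_lit 39640086451) (nat_lit 152) (nat_lit 6070255630) (nat_lit 0) (nat_lit 13062493548) (nat_lit 14) (nat_lit 5) (nat_lit 16) (nat_lit 4) (nat_lit 14) (nat_lit 4) (nat_lit 380) (nat_lit 303) (nat_lit 217)) (XT.nd (nat_lit 78) (nat_lit 0) (nat_lit 0) (XT.lf (nat_lit 0) (nat_lit 12358410724) (nat_lit 76) (nat_lit 37728683695) (nat_lit 76) (nat_lit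 11131744164) (nat_lit 13) (nat_lit 4) (nat_lit 14) (nat_lit 5) (nat_lit 14) (nat_lit 4) (nat_lit 381) (nat_lit 303) (nat_lit 216)) (XT.lf (nat_lit 0) (nat_lit 31893496894) (nat_lit 76) (nat_lit 29252273219) (nat_lit 76) (nat_lit 2636908329) (nat_lit 13) (nat_lit 4) (nat_lit 14) (nat_lit 5) (nat_lit 14) (nat_lit 4) (nat_lit 382) (nat_lit 303) (nat_lit 215)))) (XT.nd (nat_lit 78) (nat_lit 76) (nat_lit 0) (XT.lf (nat_lit 0) (nat_lit 6068528452) (nat_lit 152) (nat_lit 14192429522) (nat_lit 76) (nat_lit 46209503006) (nat_lit 12) (nat_lit 5) (nat_lit 14) (nat_lit 5) (nat_lit 13) (nat_lit 4) (nat_lit 383) (nat_lit 303) (nat_lit 214)) (XT.nd (nat_lit 78) (nat_lit 0) (nat_lit 0) (XT.lf (nat_lit 0) (nat_lit 4465064403) (nat_lit 76) (nat_lit 10712832960) (nat_lit 152) (nat_lit 54109712261) (nat_lit 11) (nat_lit 5) (nat_lit 12) (nat_lit 5) (nat_lit 13) (nat_lit 4) (nat_lit 384) (nat_lit 303) (nat_lit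 213)) (XT.lf (nat_lit 0) (nat_lit 24524767999) (nat_lit 76) (nat_lit 446114786) (nat_lit 152) (nat_lit 47263327672) (nat_lit 11) (nat_lit 5) (nat_lit 12) (nat_lit 5) (nat_lit 13) (nat_lit 4) (nat_lit 385) (nat_lit 303) (nat_lit 212))))) (XT.nd (nat_lit 234) (nat_lit 76) (nat_lit 0) (XT.nd (nat_lit 78) (nat_lit 76) (nat_lit 0) (XT.lf (nat_lit 0) (nat_lit 35403066611) (nat_lit 152) (nat_lit 29924723468) (nat_lit 0) (nat_lit 9992875849) (nat_lit 11) (nat_lit 5) (nat_lit 13) (nat_lit 4) (nat_lit 11) (nat_lit 4) (nat_lit 386) (nat_lit 303) (nat_lit 211)) (XT.nd (nat_lit 78) (nat_lit 76) (nat_lit 0) (XT.lf (nat_lit 0) (nat_lit 46352941918) (nat_lit 152) (nat_lit 11279698228) (nat_lit 0) (nat_lit 20929001870) (nat_lit 11) (nat_lit 5) (nat_lit 13) (nat_lit 4) (nat_lit 11) (nat_lit 4) (nat_lit 387) (nat_lit 303) (nat_lit 210)) (XT.lf (nat_lit 0) (nat_lit 8550665993) (nat_lit 76) (nat_lit 49422448603)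 (nat_lit 76) (nat_lit 23985413996) (nat_lit 10) (nat_lit 4) (nat_lit 11) (nat_lit 5) (nat_lit 11) (nat_lit 4) (nat_lit 388) (nat_lit 303) (nat_lit 209)))) (XT.nd (nat_lit 78) (nat_lit 76) (nat_lit 0) (XT.lf (nat_lit 0) (nat_lit 29743899135) (nat_lit 76) (nat_lit 40610920777) (nat_lit 76) (nat_lit 15161415162) (nat_lit 10) (nat_lit 4) (nat_lit 11) (nat_lit 5) (nat_lit 11) (nat_lit 4) (nat_lit 389) (nat_lit 303) (nat_lit 208)) (XT.nd (nat_lit 78) (nat_lit 76) (nat_lit 0) (XT.lf (nat_lit 0) (nat_lit 51977503510) (nat_lit 76) (nat_lit 31368103987) (nat_lit 76) (nat_lit 5906721222) (nat_lit 10) (nat_lit 4) (nat_lit 11) (nat_lit 5) (nat_lit 11) (nat_lit 4) (nat_lit 390) (nat_lit 303) (nat_lit 207)) (XT.lf (nat_lit 0) (nat_lit 3679056584) (nat_lit 152) (nat_lit 17930628340) (nat_lit 76) (nat_lit 71563053086) (nat_lit 9) (nat_lit 5) (nat_lit 11) (nat_lit 5) (nat_lit 10) (nat_lit 4) (nat_lit 391)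 (nat_lit 303) (nat_lit 206))))))) (XT.nd (nat_lit 936) (nat_lit 152) (nat_lit 0) (XT.nd (nat_lit 468) (nat_lit 76) (nat_lit 0) (XT.nd (nat_lit 234) (nat_lit 76) (nat_lit 0) (XT.nd (nat_lit 78) (nat_lit 0) (nat_lit 0) (XT.lf (nat_lit 0) (nat_lit 2341072410) (nat_lit 76) (nat_lit 11231873771) (nat_lit 152) (nat_lit 83710015094) (nat_lit 8) (nat_lit 5) (nat_lit 9) (nat_lit 5) (nat_lit 10) (nat_lit 4) (nat_lit 392) (nat_lit 303) (nat_lit 205)) (XT.nd (nat_lit 78) (nat_lit 0) (nat_lit 0) (XT.lf (nat_lit 0) (nat_lit 24231352873) (nat_lit 76) (nat_lit 24783744) (nat_lit 152) (nat_lit 77327830163) (nat_lit 8) (nat_lit 5) (nat_lit 9) (nat_lit 5) (nat_lit 10) (nat_lit 4) (nat_lit 393) (nat_lit 303) (nat_lit 204)) (XT.lf (nat_lit 0) (nat_lit 35648070442) (nat_lit 152) (nat_lit 59084200047) (nat_lit 0) (nat_lit 11359024200) (nat_lit 8) (nat_lit 5) (nat_lit 10) (nat_lit 4) (nat_lit 8) (nat_lit 4) (nat_lit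 394) (nat_lit 303) (nat_lit 203)))) (XT.nd (nat_lit 78) (nat_lit 76) (nat_lit 0) (XT.lf (nat_lit 0) (nat_lit 47601672033) (nat_lit 152) (nat_lit 39918951790) (nat_lit 0) (nat_lit 23303762879) (nat_lit 8) (nat_lit 5) (nat_lit 10) (nat_lit 4) (nat_lit 8) (nat_lit 4) (nat_lit 395) (nat_lit 303) (nat_lit 202)) (XT.nd (nat_lit 78) (nat_lit 76) (nat_lit 0) (XT.lf (nat_lit 0) (nat_lit 60145015404) (nat_lit 152) (nat_lit 19810850649) (nat_lit 0) (nat_lit 35838665381) (nat_lit 8) (nat_lit 5) (nat_lit 10) (nat_lit 4) (nat_lit 8) (nat_lit 4) (nat_lit 396) (nat_lit 303) (nat_lit 201)) (XT.lf (nat_lit 0) (nat_lit 1330566238) (nat_lit 76) (nat_lit 71998173287) (nat_lit 76) (nat_lit 47683784341) (nat_lit 7) (nat_lit 4) (nat_lit 8) (nat_lit 5) (nat_lit 8) (nat_lit 4) (nat_lit 397) (nat_lit 303) (nat_lit 200))))) (XT.nd (nat_lit 234) (nat_lit 76) (nat_lit 0) (XT.nd (nat_lit 78) (nat_lit 0) (nat_lit 0) (XT.lf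 (nat_lit 0) (nat_lit 24202402935) (nat_lit 76) (nat_lit 63297327554) (nat_lit 76) (nat_lit 38975282490) (nat_lit 7) (nat_lit 4) (nat_lit 8) (nat_lit 5) (nat_lit 8) (nat_lit 4) (nat_lit 398) (nat_lit 303) (nat_lit 199)) (XT.nd (nat_lit 78) (nat_lit 0) (nat_lit 0) (XT.lf (nat_lit 0) (nat_lit 48204080004) (nat_lit 76) (nat_lit 54168118895) (nat_lit 76) (nat_lit 29838782291) (nat_lit 7) (nat_lit 4) (nat_lit 8) (nat_lit 5) (nat_lit 8) (nat_lit 4) (nat_lit 399) (nat_lit 303) (nat_lit 198)) (XT.lf (nat_lit 0) (nat_lit 73392744296) (nat_lit 76) (nat_lit 44588811099) (nat_lit 76) (nat_lit 20252530171) (nat_lit 7) (nat_lit 4) (nat_lit 8) (nat_lit 5) (nat_lit 8) (nat_lit 4) (nat_lit 400) (nat_lit 303) (nat_lit 197)))) (XT.nd (nat_lit 78) (nat_lit 76) (nat_lit 0) (XT.lf (nat_lit 0) (nat_lit 99828368821) (nat_lit 76) (nat_lit 34536596291) (nat_lit 76) (nat_lit 10193701722) (nat_lit 7) (nat_lit 4) (nat_lit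 8) (nat_lit 5) (nat_lit 8) (nat_lit 4) (nat_lit 401) (nat_lit 303) (nat_lit 196)) (XT.nd (nat_lit 78) (nat_lit 0) (nat_lit 0) (XT.lf (nat_lit 0) (nat_lit 350077505) (nat_lit 152) (nat_lit 23631534389) (nat_lit 76) (nat_lit 127217889304) (nat_lit 6) (nat_lit 5) (nat_lit 8) (nat_lit 5) (nat_lit 7) (nat_lit 4) (nat_lit 402) (nat_lit 303) (nat_lit 195)) (XT.lf (nat_lit 0) (nat_lit 11072556030) (nat_lit 152) (nat_lit 1656452181) (nat_lit 76) (nat_lit 145435310112) (nat_lit 6) (nat_lit 5) (nat_lit 8) (nat_lit 5) (nat_lit 7) (nat_lit 4) (nat_lit 403) (nat_lit 303) (nat_lit 194)))))) (XT.nd (nat_lit 468) (nat_lit 76) (nat_lit 0) (XT.nd (nat_lit 234) (nat_lit 0) (nat_lit 0) (XT.nd (nat_lit 78) (nat_lit 0) (nat_lit 0) (XT.lf (nat_lit 0) (nat_lit 22114215487) (nat_lit 76) (nat_lit 556575070) (nat_lit 152) (nat_lit 142789604918) (nat_lit 5) (nat_lit 5) (nat_lit 6) (nat_lit 5) (nat_lit 7) (nat_lit 4)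 (nat_lit 404) (nat_lit 303) (nat_lit 193)) (XT.nd (nat_lit 78) (nat_lit 0) (nat_lit 0) (XT.lf (nat_lit 0) (nat_lit 35062692949) (nat_lit 152) (nat_lit 126191247534) (nat_lit 0) (nat_lit 11856648933) (nat_lit 5) (nat_lit 5) (nat_lit 7) (nat_lit 4) (nat_lit 5) (nat_lit 4) (nat_lit 405) (nat_lit 303) (nat_lit 192)) (XT.lf (nat_lit 0) (nat_lit 48077967067) (nat_lit 152) (nat_lit 108198150008) (nat_lit 0) (nat_lit 24866987850) (nat_lit 5) (nat_lit 5) (nat_lit 7) (nat_lit 4) (nat_lit 5) (nat_lit 4) (nat_lit 406) (nat_lit 303) (nat_lit 191)))) (XT.nd (nat_lit 78) (nat_lit 0) (nat_lit 0) (XT.lf (nat_lit 0) (nat_lit 61738911964) (nat_lit 152) (nat_lit 89315357007) (nat_lit 0) (nat_lit 38523232555) (nat_lit 5) (nat_lit 5) (nat_lit 7) (nat_lit 4) (nat_lit 5) (nat_lit 4) (nat_lit 407) (nat_lit 303) (nat_lit 190)) (XT.nd (nat_lit 78) (nat_lit 0) (nat_lit 0) (XT.lf (nat_lit 0) (nat_lit 76078053699) (nat_lit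 152) (nat_lit 69497909499) (nat_lit 0) (nat_lit 52857897917) (nat_lit 5) (nat_lit 5) (nat_lit 7) (nat_lit 4) (nat_lit 5) (nat_lit 4) (nat_lit 408) (nat_lit 303) (nat_lit 189)) (XT.lf (nat_lit 0) (nat_lit 91129533085) (nat_lit 152) (nat_lit 48698623084) (nat_lit 0) (nat_lit 67905114091) (nat_lit 5) (nat_lit 5) (nat_lit 7) (nat_lit 4) (nat_lit 5) (nat_lit 4) (nat_lit 409) (nat_lit 303) (nat_lit 188))))) (XT.nd (nat_lit 234) (nat_lit 0) (nat_lit 0) (XT.nd (nat_lit 78) (nat_lit 76) (nat_lit 0) (XT.lf (nat_lit 0) (nat_lit 106929186979) (nat_lit 152) (nat_lit 26867975654) (nat_lit 0) (nat_lit 83700707782) (nat_lit 5) (nat_lit 5) (nat_lit 7) (nat_lit 4) (nat_lit 5) (nat_lit 4) (nat_lit 410) (nat_lit 303) (nat_lit 187)) (XT.nd (nat_lit 78) (nat_lit 76) (nat_lit 0) (XT.lf (nat_lit 0) (nat_lit 123514633604) (nat_lit 152) (nat_lit 3953989475) (nat_lit 0) (nat_lit 100282287547) (nat_lit 5) (nat_lit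 5) (nat_lit 7) (nat_lit 4) (nat_lit 5) (nat_lit 4) (nat_lit 411) (nat_lit 303) (nat_lit 186)) (XT.lf (nat_lit 0) (nat_lit 20762419653) (nat_lit 76) (nat_lit 120487102021) (nat_lit 76) (nat_lit 97251073242) (nat_lit 4) (nat_lit 4) (nat_lit 5) (nat_lit 5) (nat_lit 5) (nat_lit 4) (nat_lit 412) (nat_lit 303) (nat_lit 185)))) (XT.nd (nat_lit 78) (nat_lit 0) (nat_lit 0) (XT.lf (nat_lit 0) (nat_lit 46844245237) (nat_lit 76) (nat_lit 113089951348) (nat_lit 76) (nat_lit 89850415213) (nat_lit 4) (nat_lit 4) (nat_lit 5) (nat_lit 5) (nat_lit 5) (nat_lit 4) (nat_lit 413) (nat_lit 303) (nat_lit 184)) (XT.nd (nat_lit 78) (nat_lit 0) (nat_lit 0) (XT.lf (nat_lit 0) (nat_lit 74222850111) (nat_lit 76) (nat_lit 105326521522) (nat_lit 76) (nat_lit 82083645048) (nat_lit 4) (nat_lit 4) (nat_lit 5) (nat_lit 5) (nat_lit 5) (nat_lit 4) (nat_lit 414) (nat_lit 303) (nat_lit 183)) (XT.lf (nat_lit 0) (nat_lit 102963421429)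 (nat_lit 76) (nat_lit 97178328185) (nat_lit 76) (nat_lit 73932270437) (nat_lit 4) (nat_lit 4) (nat_lit 5) (nat_lit 5) (nat_lit 5) (nat_lit 4) (nat_lit 415) (nat_lit 303) (nat_lit 182))))))))
noncomputable def xc111 : XT := (XT.nd (nat_lit 38532) (nat_lit 0) (nat_lit 4788) (XT.nd (nat_lit 936) (nat_lit 0) (nat_lit 0) (XT.nd (nat_lit 468) (nat_lit 152) (nat_lit 0) (XT.nd (nat_lit 234) (nat_lit 0) (nat_lit 0) (XT.nd (nat_lit 78) (nat_lit 0) (nat_lit 0) (XT.lf (nat_lit 0) (nat_lit 133134389123) (nat_lit 76) (nat_lit 88625970878) (nat_lit 76) (nat_lit 65376883344) (nat_lit 4) (nat_lit 4) (nat_lit 5) (nat_lit 5) (nat_lit 5) (nat_lit 4) (nat_lit 416) (nat_lit 303) (nat_lit 181)) (XT.nd (nat_lit 78) (nat_lit 0) (nat_lit 0) (XT.lf (nat_lit 0) (nat_lit 164807588831) (nat_lit 76) (nat_lit 79649086845) (nat_lit 76) (nat_lit 56397113801) (nat_lit 4) (nat_lit 4) (nat_lit 5) (nat_lit 5) (nat_lit 5) (nat_lit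 4) (nat_lit 417) (nat_lit 303) (nat_lit 180)) (XT.lf (nat_lit 0) (nat_lit 198058432933) (nat_lit 76) (nat_lit 70226302553) (nat_lit 76) (nat_lit 46971581404) (nat_lit 4) (nat_lit 4) (nat_lit 5) (nat_lit 5) (nat_lit 5) (nat_lit 4) (nat_lit 418) (nat_lit 303) (nat_lit 179)))) (XT.nd (nat_lit 78) (nat_lit 0) (nat_lit 0) (XT.lf (nat_lit 0) (nat_lit 232966090105) (nat_lit 76) (nat_lit 60335182801) (nat_lit 76) (nat_lit 37077844409) (nat_lit 4) (nat_lit 4) (nat_lit 5) (nat_lit 5) (nat_lit 5) (nat_lit 4) (nat_lit 419) (nat_lit 303) (nat_lit 178)) (XT.nd (nat_lit 78) (nat_lit 0) (nat_lit 0) (XT.lf (nat_lit 0) (nat_lit 269613673816) (nat_lit 76) (nat_lit 49952177303) (nat_lit 76) (nat_lit 26692346299) (nat_lit 4) (nat_lit 4) (nat_lit 5) (nat_lit 5) (nat_lit 5) (nat_lit 4) (nat_lit 420) (nat_lit 303) (nat_lit 177)) (XT.lf (nat_lit 0) (nat_lit 308088440219) (nat_lit 76) (nat_lit 39052564619) (nat_lit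 76) (nat_lit 15790359699) (nat_lit 4) (nat_lit 4) (nat_lit 5) (nat_lit 5) (nat_lit 5) (nat_lit 4) (nat_lit 421) (nat_lit 303) (nat_lit 176))))) (XT.nd (nat_lit 234) (nat_lit 0) (nat_lit 0) (XT.nd (nat_lit 78) (nat_lit 152) (nat_lit 0) (XT.lf (nat_lit 0) (nat_lit 348481995900) (nat_lit 76) (nat_lit 27610393288) (nat_lit 76) (nat_lit 4345927496) (nat_lit 4) (nat_lit 4) (nat_lit 5) (nat_lit 5) (nat_lit 5) (nat_lit 4) (nat_lit 422) (nat_lit 303) (nat_lit 175)) (XT.nd (nat_lit 78) (nat_lit 76) (nat_lit 0) (XT.lf (nat_lit 0) (nat_lit 7422768701) (nat_lit 152) (nat_lit 8049943167) (nat_lit 76) (nat_lit 383342039111) (nat_lit 3) (nat_lit 5) (nat_lit 5) (nat_lit 5) (nat_lit 4) (nat_lit 4) (nat_lit 423) (nat_lit 303) (nat_lit 174)) (XT.lf (nat_lit 0) (nat_lit 17537243694) (nat_lit 76) (nat_lit 2368079904) (nat_lit 152) (nat_lit 398187547655) (nat_lit 2) (nat_lit 5) (nat_lit 3) (nat_lit 5) (nat_lit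 4) (nat_lit 4) (nat_lit 424) (nat_lit 303) (nat_lit 173)))) (XT.nd (nat_lit 78) (nat_lit 0) (nat_lit 0) (XT.lf (nat_lit 0) (nat_lit 33326104941) (nat_lit 152) (nat_lit 393829480805) (nat_lit 0) (nat_lit 11163607123) (nat_lit 2) (nat_lit 5) (nat_lit 4) (nat_lit 4) (nat_lit 2) (nat_lit 4) (nat_lit 425) (nat_lit 303) (nat_lit 172)) (XT.nd (nat_lit 78) (nat_lit 0) (nat_lit 0) (XT.lf (nat_lit 0) (nat_lit 47454533416) (nat_lit 152) (nat_lit 386810202855) (nat_lit 0) (nat_lit 25290264145) (nat_lit 2) (nat_lit 5) (nat_lit 4) (nat_lit 4) (nat_lit 2) (nat_lit 4) (nat_lit 426) (nat_lit 303) (nat_lit 171)) (XT.lf (nat_lit 0) (nat_lit 62287275775) (nat_lit 152) (nat_lit 379444108777) (nat_lit 0) (nat_lit 40121319406) (nat_lit 2) (nat_lit 5) (nat_lit 4) (nat_lit 4) (nat_lit 2) (nat_lit 4) (nat_lit 427) (nat_lit 303) (nat_lit 170)))))) (XT.nd (nat_lit 468) (nat_lit 0) (nat_lit 0) (XT.nd (nat_lit 234)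 (nat_lit 0) (nat_lit 0) (XT.nd (nat_lit 78) (nat_lit 0) (nat_lit 0) (XT.lf (nat_lit 0) (nat_lit 77859648071) (nat_lit 152) (nat_lit 371713660252) (nat_lit 0) (nat_lit 55692084941) (nat_lit 2) (nat_lit 5) (nat_lit 4) (nat_lit 4) (nat_lit 2) (nat_lit 4) (nat_lit 428) (nat_lit 303) (nat_lit 169)) (XT.nd (nat_lit 78) (nat_lit 0) (nat_lit 0) (XT.lf (nat_lit 0) (nat_lit 94208727380) (nat_lit 152) (nat_lit 363600451450) (nat_lit 0) (nat_lit 72039634003) (nat_lit 2) (nat_lit 5) (nat_lit 4) (nat_lit 4) (nat_lit 2) (nat_lit 4) (nat_lit 429) (nat_lit 303) (nat_lit 168)) (XT.lf (nat_lit 0) (nat_lit 111373440082) (nat_lit 152) (nat_lit 355085165208) (nat_lit 0) (nat_lit 89202889327) (nat_lit 2) (nat_lit 5) (nat_lit 4) (nat_lit 4) (nat_lit 2) (nat_lit 4) (nat_lit 430) (nat_lit 303) (nat_lit 167)))) (XT.nd (nat_lit 78) (nat_lit 0) (nat_lit 0) (XT.lf (nat_lit 0) (nat_lit 129394654541) (nat_lit 152) (nat_lit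 346147527035) (nat_lit 0) (nat_lit 107222715806) (nat_lit 2) (nat_lit 5) (nat_lit 4) (nat_lit 4) (nat_lit 2) (nat_lit 4) (nat_lit 431) (nat_lit 303) (nat_lit 166)) (XT.nd (nat_lit 78) (nat_lit 0) (nat_lit 0) (XT.lf (nat_lit 0) (nat_lit 148315278410) (nat_lit 152) (nat_lit 336766256839) (nat_lit 0) (nat_lit 126142017790) (nat_lit 2) (nat_lit 5) (nat_lit 4) (nat_lit 4) (nat_lit 2) (nat_lit 4) (nat_lit 432) (nat_lit 303) (nat_lit 165)) (XT.lf (nat_lit 0) (nat_lit 168180360794) (nat_lit 152) (nat_lit 326919018263) (nat_lit 0) (nat_lit 146005841235) (nat_lit 2) (nat_lit 5) (nat_lit 4) (nat_lit 4) (nat_lit 2) (nat_lit 4) (nat_lit 433) (nat_lit 303) (nat_lit 164))))) (XT.nd (nat_lit 36894) (nat_lit 0) (nat_lit 10716) (XT.nd (nat_lit 36738) (nat_lit 0) (nat_lit 11096) (XT.lf (nat_lit 0) (nat_lit 189037199507) (nat_lit 152) (nat_lit 316582365502) (nat_lit 0) (nat_lit 166861480959) (nat_lit 2) (nat_lit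 5) (nat_lit 4) (nat_lit 4) (nat_lit 2) (nat_lit 4) (nat_lit 434) (nat_lit 303) (nat_lit 163)) (XT.nd (nat_lit 78) (nat_lit 0) (nat_lit 0) (XT.lf (nat_lit 0) (nat_lit 962180964) (nat_lit 380) (nat_lit 1176005680) (nat_lit 380) (nat_lit 1176005680) (nat_lit 148) (nat_lit 3) (nat_lit 153) (nat_lit 3) (nat_lit 153) (nat_lit 5) (nat_lit 304) (nat_lit 304) (nat_lit 292)) (XT.lf (nat_lit 76) (nat_lit 850368751) (nat_lit 0) (nat_lit 3345092368) (nat_lit 380) (nat_lit 2483836450) (nat_lit 149) (nat_lit 5) (nat_lit 148) (nat_lit 3) (nat_lit 153) (nat_lit 5) (nat_lit 305) (nat_lit 304) (nat_lit 291)))) (XT.nd (nat_lit 78) (nat_lit 380) (nat_lit 0) (XT.lf (nat_lit 76) (nat_lit 4217687536) (nat_lit 0) (nat_lit 2259611281) (nat_lit 380) (nat_lit 260831608) (nat_lit 149) (nat_lit 5) (nat_lit 148) (nat_lit 3) (nat_lit 153) (nat_lit 5) (nat_lit 306) (nat_lit 304) (nat_lit 290)) (XT.nd (nat_lit 78) (nat_lit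 0) (nat_lit 76) (XT.lf (nat_lit 76) (nat_lit 871012288) (nat_lit 0) (nat_lit 1011252352) (nat_lit 456) (nat_lit 4922468502) (nat_lit 144) (nat_lit 5) (nat_lit 143) (nat_lit 5) (nat_lit 149) (nat_lit 5) (nat_lit 307) (nat_lit 304) (nat_lit 289)) (XT.lf (nat_lit 0) (nat_lit 4039778246) (nat_lit 380) (nat_lit 2447069286) (nat_lit 456) (nat_lit 392004931) (nat_lit 144) (nat_lit 5) (nat_lit 149) (nat_lit 5) (nat_lit 150) (nat_lit 5) (nat_lit 308) (nat_lit 304) (nat_lit 288))))))) (XT.nd (nat_lit 936) (nat_lit 2432) (nat_lit 0) (XT.nd (nat_lit 468) (nat_lit 2660) (nat_lit 0) (XT.nd (nat_lit 234) (nat_lit 456) (nat_lit 0) (XT.nd (nat_lit 78) (nat_lit 456) (nat_lit 0) (XT.lf (nat_lit 76) (nat_lit 1153858338) (nat_lit 0) (nat_lit 5060156451) (nat_lit 456) (nat_lit 747412673) (nat_lit 145) (nat_lit 5) (nat_lit 144) (nat_lit 5) (nat_lit 150) (nat_lit 5) (nat_lit 309) (nat_lit 304) (nat_lit 287)) (XT.nd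 (nat_lit 78) (nat_lit 0) (nat_lit 0) (XT.lf (nat_lit 0) (nat_lit 1321428508) (nat_lit 456) (nat_lit 2132928328) (nat_lit 532) (nat_lit 3596869160) (nat_lit 138) (nat_lit 5) (nat_lit 144) (nat_lit 5) (nat_lit 145) (nat_lit 5) (nat_lit 310) (nat_lit 304) (nat_lit 286)) (XT.lf (nat_lit 76) (nat_lit 1687823605) (nat_lit 0) (nat_lit 1689832830) (nat_lit 532) (nat_lit 3771958177) (nat_lit 139) (nat_lit 5) (nat_lit 138) (nat_lit 5) (nat_lit 145) (nat_lit 5) (nat_lit 311) (nat_lit 304) (nat_lit 285)))) (XT.nd (nat_lit 78) (nat_lit 532) (nat_lit 0) (XT.lf (nat_lit 0) (nat_lit 5463573942) (nat_lit 456) (nat_lit 1565045123) (nat_lit 76) (nat_lit 228117703) (nat_lit 139) (nat_lit 5) (nat_lit 145) (nat_lit 5) (nat_lit 140) (nat_lit 5) (nat_lit 312) (nat_lit 304) (nat_lit 284)) (XT.nd (nat_lit 78) (nat_lit 0) (nat_lit 0) (XT.lf (nat_lit 0) (nat_lit 234337855) (nat_lit 532) (nat_lit 4876796678) (nat_lit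 76) (nat_lit 2260057996) (nat_lit 132) (nat_lit 5) (nat_lit 139) (nat_lit 5) (nat_lit 133) (nat_lit 5) (nat_lit 313) (nat_lit 304) (nat_lit 283)) (XT.lf (nat_lit 0) (nat_lit 2224893531) (nat_lit 532) (nat_lit 791478267) (nat_lit 76) (nat_lit 4477568876) (nat_lit 132) (nat_lit 5) (nat_lit 139) (nat_lit 5) (nat_lit 133) (nat_lit 5) (nat_lit 314) (nat_lit 304) (nat_lit 282))))) (XT.nd (nat_lit 234) (nat_lit 1444) (nat_lit 0) (XT.nd (nat_lit 78) (nat_lit 684) (nat_lit 0) (XT.lf (nat_lit 0) (nat_lit 3532358331) (nat_lit 532) (nat_lit 737771232) (nat_lit 608) (nat_lit 3355069038) (nat_lit 125) (nat_lit 5) (nat_lit 132) (nat_lit 5) (nat_lit 133) (nat_lit 5) (nat_lit 315) (nat_lit 304) (nat_lit 281)) (XT.nd (nat_lit 78) (nat_lit 76) (nat_lit 0) (XT.lf (nat_lit 0) (nat_lit 236246474) (nat_lit 608) (nat_lit 6128377715) (nat_lit 684) (nat_lit 1401169207) (nat_lit 117) (nat_lit 5) (nat_lit 125) (nat_lit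 5) (nat_lit 126) (nat_lit 5) (nat_lit 316) (nat_lit 304) (nat_lit 280)) (XT.lf (nat_lit 0) (nat_lit 617673085) (nat_lit 684) (nat_lit 3094133108) (nat_lit 76) (nat_lit 4201813032) (nat_lit 116) (nat_lit 5) (nat_lit 125) (nat_lit 5) (nat_lit 117) (nat_lit 5) (nat_lit 317) (nat_lit 304) (nat_lit 279)))) (XT.nd (nat_lit 78) (nat_lit 760) (nat_lit 0) (XT.lf (nat_lit 0) (nat_lit 1507692467) (nat_lit 684) (nat_lit 1116234918) (nat_lit 760) (nat_lit 5447189498) (nat_lit 107) (nat_lit 5) (nat_lit 116) (nat_lit 5) (nat_lit 117) (nat_lit 5) (nat_lit 318) (nat_lit 304) (nat_lit 278)) (XT.nd (nat_lit 78) (nat_lit 760) (nat_lit 0) (XT.lf (nat_lit 0) (nat_lit 4722060470) (nat_lit 760) (nat_lit 1896731496) (nat_lit 76) (nat_lit 1618221014) (nat_lit 107) (nat_lit 5) (nat_lit 117) (nat_lit 5) (nat_lit 108) (nat_lit 5) (nat_lit 319) (nat_lit 304) (nat_lit 277)) (XT.lf (nat_lit 0) (nat_lit 3001137102) (nat_lit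 760) (nat_lit 3906435920) (nat_lit 836) (nat_lit 1504604228) (nat_lit 97) (nat_lit 5) (nat_lit 107) (nat_lit 5) (nat_lit 108) (nat_lit 5) (nat_lit 320) (nat_lit 304) (nat_lit 276)))))) (XT.nd (nat_lit 468) (nat_lit 1216) (nat_lit 0) (XT.nd (nat_lit 234) (nat_lit 456) (nat_lit 0) (XT.nd (nat_lit 78) (nat_lit 684) (nat_lit 0) (XT.lf (nat_lit 0) (nat_lit 538132908) (nat_lit 836) (nat_lit 476141059) (nat_lit 76) (nat_lit 7583876706) (nat_lit 96) (nat_lit 5) (nat_lit 107) (nat_lit 5) (nat_lit 97) (nat_lit 5) (nat_lit 321) (nat_lit 304) (nat_lit 275)) (XT.nd (nat_lit 78) (nat_lit 304) (nat_lit 0) (XT.lf (nat_lit 0) (nat_lit 2662388976) (nat_lit 456) (nat_lit 4070118545) (nat_lit 76) (nat_lit 2058268433) (nat_lit 91) (nat_lit 5) (nat_lit 97) (nat_lit 5) (nat_lit 92) (nat_lit 5) (nat_lit 322) (nat_lit 304) (nat_lit 274)) (XT.lf (nat_lit 0) (nat_lit 1140864527) (nat_lit 304) (nat_lit 3719610075)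 (nat_lit 380) (nat_lit 4134256869) (nat_lit 87) (nat_lit 5) (nat_lit 91) (nat_lit 5) (nat_lit 92) (nat_lit 5) (nat_lit 323) (nat_lit 304) (nat_lit 273)))) (XT.nd (nat_lit 78) (nat_lit 456) (nat_lit 0) (XT.lf (nat_lit 0) (nat_lit 6674906155) (nat_lit 304) (nat_lit 489811223) (nat_lit 380) (nat_lit 2044430752) (nat_lit 87) (nat_lit 5) (nat_lit 91) (nat_lit 5) (nat_lit 92) (nat_lit 5) (nat_lit 324) (nat_lit 304) (nat_lit 272)) (XT.nd (nat_lit 78) (nat_lit 0) (nat_lit 0) (XT.lf (nat_lit 0) (nat_lit 168612255) (nat_lit 456) (nat_lit 6411539868) (nat_lit 76) (nat_lit 2852909290) (nat_lit 81) (nat_lit 5) (nat_lit 87) (nat_lit 5) (nat_lit 82) (nat_lit 5) (nat_lit 325) (nat_lit 304) (nat_lit 271)) (XT.lf (nat_lit 0) (nat_lit 2406872391) (nat_lit 456) (nat_lit 844763216) (nat_lit 76) (nat_lit 6415761088) (nat_lit 81) (nat_lit 5) (nat_lit 87) (nat_lit 5) (nat_lit 82) (nat_lit 5) (nat_lit 326) (nat_lit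 304) (nat_lit 270))))) (XT.nd (nat_lit 234) (nat_lit 608) (nat_lit 0) (XT.nd (nat_lit 78) (nat_lit 304) (nat_lit 0) (XT.lf (nat_lit 0) (nat_lit 4776284832) (nat_lit 380) (nat_lit 4830307978) (nat_lit 76) (nat_lit 305956499) (nat_lit 77) (nat_lit 5) (nat_lit 82) (nat_lit 5) (nat_lit 78) (nat_lit 5) (nat_lit 327) (nat_lit 304) (nat_lit 269)) (XT.nd (nat_lit 78) (nat_lit 0) (nat_lit 0) (XT.lf (nat_lit 0) (nat_lit 1068768887) (nat_lit 304) (nat_lit 6216567811) (nat_lit 380) (nat_lit 2883623971) (nat_lit 73) (nat_lit 5) (nat_lit 77) (nat_lit 5) (nat_lit 78) (nat_lit 5) (nat_lit 328) (nat_lit 304) (nat_lit 268)) (XT.lf (nat_lit 0) (nat_lit 7354169743) (nat_lit 304) (nat_lit 2585936497) (nat_lit 380) (nat_lit 497129823) (nat_lit 73) (nat_lit 5) (nat_lit 77) (nat_lit 5) (nat_lit 78) (nat_lit 5) (nat_lit 329) (nat_lit 304) (nat_lit 267)))) (XT.nd (nat_lit 78) (nat_lit 304) (nat_lit 0) (XT.lf (nat_lit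 0) (nat_lit 1955492969) (nat_lit 304) (nat_lit 7505824708) (nat_lit 76) (nat_lit 1255536205) (nat_lit 69) (nat_lit 5) (nat_lit 73) (nat_lit 5) (nat_lit 70) (nat_lit 5) (nat_lit 330) (nat_lit 304) (nat_lit 266)) (XT.nd (nat_lit 78) (nat_lit 304) (nat_lit 0) (XT.lf (nat_lit 0) (nat_lit 4551328607) (nat_lit 304) (nat_lit 1208585956) (nat_lit 76) (nat_lit 5248315116) (nat_lit 69) (nat_lit 5) (nat_lit 73) (nat_lit 5) (nat_lit 70) (nat_lit 5) (nat_lit 331) (nat_lit 304) (nat_lit 265)) (XT.lf (nat_lit 0) (nat_lit 5507196022) (nat_lit 304) (nat_lit 1800339867) (nat_lit 380) (nat_lit 4005156048) (nat_lit 65) (nat_lit 5) (nat_lit 69) (nat_lit 5) (nat_lit 70) (nat_lit 5) (nat_lit 332) (nat_lit 304) (nat_lit 264))))))))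
noncomputable def xc112 : XT := (XT.nd (nat_lit 1794) (nat_lit 1292) (nat_lit 0) (XT.nd (nat_lit 858) (nat_lit 1064) (nat_lit 0) (XT.nd (nat_lit 390) (nat_lit 760) (nat_lit 0) (XT.nd (nat_lit 156) (nat_lit 456) (nat_lit 0) (XT.nd (nat_lit 78) (nat_lit 76) (nat_lit 0) (XT.lf (nat_lit 0) (nat_lit 886738115) (nat_lit 228) (nat_lit 9332112765) (nat_lit 304) (nat_lit 1412706002) (nat_lit 62) (nat_lit 5) (nat_lit 65) (nat_lit 5) (nat_lit 66) (nat_lit 5) (nat_lit 333) (nat_lit 304) (nat_lit 263)) (XT.lf (nat_lit 0) (nat_lit 1343288557) (nat_lit 304) (nat_lit 3972378842) (nat_lit 76) (nat_lit 6645924343) (nat_lit 61) (nat_lit 5) (nat_lit 65) (nat_lit 5) (nat_lit 62) (nat_lit 5) (nat_lit 334) (nat_lit 304) (nat_lit 262))) (XT.nd (nat_lit 78) (nat_lit 228) (nat_lit 0) (XT.lf (nat_lit 0) (nat_lit 3145240013) (nat_lit 228) (nat_lit 1042411211) (nat_lit 304) (nat_lit 8119455329) (nat_lit 58) (nat_lit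 5) (nat_lit 61) (nat_lit 5) (nat_lit 62) (nat_lit 5) (nat_lit 335) (nat_lit 304) (nat_lit 261)) (XT.nd (nat_lit 78) (nat_lit 228) (nat_lit 0) (XT.lf (nat_lit 0) (nat_lit 7246354013) (nat_lit 304) (nat_lit 2036778670) (nat_lit 76) (nat_lit 3383194884) (nat_lit 58) (nat_lit 5) (nat_lit 62) (nat_lit 5) (nat_lit 59) (nat_lit 5) (nat_lit 336) (nat_lit 304) (nat_lit 260)) (XT.lf (nat_lit 0) (nat_lit 5536077427) (nat_lit 228) (nat_lit 4977786005) (nat_lit 304) (nat_lit 2526887445) (nat_lit 55) (nat_lit 5) (nat_lit 58) (nat_lit 5) (nat_lit 59) (nat_lit 5) (nat_lit 337) (nat_lit 304) (nat_lit 259))))) (XT.nd (nat_lit 234) (nat_lit 304) (nat_lit 0) (XT.nd (nat_lit 78) (nat_lit 152) (nat_lit 0) (XT.lf (nat_lit 0) (nat_lit 50106987) (nat_lit 228) (nat_lit 433008408) (nat_lit 304) (nat_lit 12950982104) (nat_lit 51) (nat_lit 5) (nat_lit 54) (nat_lit 5) (nat_lit 55) (nat_lit 5) (nat_lit 338) (nat_lit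 304) (nat_lit 258)) (XT.nd (nat_lit 78) (nat_lit 152) (nat_lit 0) (XT.lf (nat_lit 0) (nat_lit 3709238308) (nat_lit 304) (nat_lit 5778786186) (nat_lit 76) (nat_lit 4349518822) (nat_lit 51) (nat_lit 5) (nat_lit 55) (nat_lit 5) (nat_lit 52) (nat_lit 5) (nat_lit 339) (nat_lit 304) (nat_lit 257)) (XT.lf (nat_lit 0) (nat_lit 2203486845) (nat_lit 152) (nat_lit 4890507374) (nat_lit 228) (nat_lit 7167329510) (nat_lit 49) (nat_lit 5) (nat_lit 51) (nat_lit 5) (nat_lit 52) (nat_lit 5) (nat_lit 340) (nat_lit 304) (nat_lit 256)))) (XT.nd (nat_lit 78) (nat_lit 304) (nat_lit 0) (XT.lf (nat_lit 0) (nat_lit 10703028899) (nat_lit 228) (nat_lit 3983894223) (nat_lit 76) (nat_lit 16645276) (nat_lit 49) (nat_lit 5) (nat_lit 52) (nat_lit 5) (nat_lit 50) (nat_lit 5) (nat_lit 341) (nat_lit 304) (nat_lit 255)) (XT.nd (nat_lit 78) (nat_lit 76) (nat_lit 0) (XT.lf (nat_lit 0) (nat_lit 4493217341) (nat_lit 228) (nat_lit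 10108246182) (nat_lit 304) (nat_lit 561040349) (nat_lit 46) (nat_lit 5) (nat_lit 49) (nat_lit 5) (nat_lit 50) (nat_lit 5) (nat_lit 342) (nat_lit 304) (nat_lit 254)) (XT.lf (nat_lit 0) (nat_lit 2980298801) (nat_lit 304) (nat_lit 2221762049) (nat_lit 76) (nat_lit 10438592648) (nat_lit 45) (nat_lit 5) (nat_lit 49) (nat_lit 5) (nat_lit 46) (nat_lit 5) (nat_lit 343) (nat_lit 304) (nat_lit 253)))))) (XT.nd (nat_lit 468) (nat_lit 380) (nat_lit 0) (XT.nd (nat_lit 234) (nat_lit 380) (nat_lit 0) (XT.nd (nat_lit 78) (nat_lit 152) (nat_lit 0) (XT.lf (nat_lit 0) (nat_lit 6747569751) (nat_lit 228) (nat_lit 9344695389) (nat_lit 76) (nat_lit 46622069) (nat_lit 43) (nat_lit 5) (nat_lit 46) (nat_lit 5) (nat_lit 44) (nat_lit 5) (nat_lit 344) (nat_lit 304) (nat_lit 252)) (XT.nd (nat_lit 78) (nat_lit 152) (nat_lit 0) (XT.lf (nat_lit 0) (nat_lit 10788177931) (nat_lit 228) (nat_lit 470004692) (nat_lit 76) (nat_lit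 5399622678) (nat_lit 43) (nat_lit 5) (nat_lit 46) (nat_lit 5) (nat_lit 44) (nat_lit 5) (nat_lit 345) (nat_lit 304) (nat_lit 251)) (XT.lf (nat_lit 0) (nat_lit 9079954999) (nat_lit 152) (nat_lit 6055911301) (nat_lit 228) (nat_lit 2061570863) (nat_lit 41) (nat_lit 5) (nat_lit 43) (nat_lit 5) (nat_lit 44) (nat_lit 5) (nat_lit 346) (nat_lit 304) (nat_lit 250)))) (XT.nd (nat_lit 78) (nat_lit 152) (nat_lit 0) (XT.lf (nat_lit 0) (nat_lit 1312357900) (nat_lit 152) (nat_lit 554637991) (nat_lit 228) (nat_lit 15895956185) (nat_lit 38) (nat_lit 5) (nat_lit 40) (nat_lit 5) (nat_lit 41) (nat_lit 5) (nat_lit 347) (nat_lit 304) (nat_lit 249)) (XT.nd (nat_lit 78) (nat_lit 152) (nat_lit 0) (XT.lf (nat_lit 0) (nat_lit 6107951692) (nat_lit 228) (nat_lit 7031774212) (nat_lit 76) (nat_lit 5206082456) (nat_lit 38) (nat_lit 5) (nat_lit 41) (nat_lit 5) (nat_lit 39) (nat_lit 5) (nat_lit 348) (nat_lit 304) (nat_lit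 248)) (XT.lf (nat_lit 0) (nat_lit 2884216297) (nat_lit 152) (nat_lit 7696567346) (nat_lit 228) (nat_lit 8376049146) (nat_lit 36) (nat_lit 5) (nat_lit 38) (nat_lit 5) (nat_lit 39) (nat_lit 5) (nat_lit 349) (nat_lit 304) (nat_lit 247))))) (XT.nd (nat_lit 234) (nat_lit 228) (nat_lit 0) (XT.nd (nat_lit 78) (nat_lit 152) (nat_lit 0) (XT.lf (nat_lit 0) (nat_lit 13484061902) (nat_lit 152) (nat_lit 1878744671) (nat_lit 228) (nat_lit 4231340348) (nat_lit 36) (nat_lit 5) (nat_lit 38) (nat_lit 5) (nat_lit 39) (nat_lit 5) (nat_lit 350) (nat_lit 304) (nat_lit 246)) (XT.nd (nat_lit 78) (nat_lit 0) (nat_lit 0) (XT.lf (nat_lit 0) (nat_lit 220390986) (nat_lit 152) (nat_lit 15892086562) (nat_lit 76) (nat_lit 4145587176) (nat_lit 34) (nat_lit 5) (nat_lit 36) (nat_lit 5) (nat_lit 35) (nat_lit 5) (nat_lit 351) (nat_lit 304) (nat_lit 245)) (XT.lf (nat_lit 0) (nat_lit 4856370919) (nat_lit 152) (nat_lit 5528765723)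 (nat_lit 76) (nat_lit 10561394100) (nat_lit 34) (nat_lit 5) (nat_lit 36) (nat_lit 5) (nat_lit 35) (nat_lit 5) (nat_lit 352) (nat_lit 304) (nat_lit 244)))) (XT.nd (nat_lit 78) (nat_lit 76) (nat_lit 0) (XT.lf (nat_lit 0) (nat_lit 5475718977) (nat_lit 152) (nat_lit 4303341358) (nat_lit 228) (nat_lit 11887627326) (nat_lit 32) (nat_lit 5) (nat_lit 34) (nat_lit 5) (nat_lit 35) (nat_lit 5) (nat_lit 353) (nat_lit 304) (nat_lit 243)) (XT.nd (nat_lit 78) (nat_lit 76) (nat_lit 0) (XT.lf (nat_lit 0) (nat_lit 15045302982) (nat_lit 228) (nat_lit 5282435787) (nat_lit 76) (nat_lit 2090255218) (nat_lit 32) (nat_lit 5) (nat_lit 35) (nat_lit 5) (nat_lit 33) (nat_lit 4) (nat_lit 354) (nat_lit 304) (nat_lit 242)) (XT.lf (nat_lit 0) (nat_lit 6250961406) (nat_lit 76) (nat_lit 14463216186) (nat_lit 152) (nat_lit 2485733950) (nat_lit 31) (nat_lit 5) (nat_lit 32) (nat_lit 5) (nat_lit 33) (nat_lit 4) (nat_lit 355)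 (nat_lit 304) (nat_lit 241))))))) (XT.nd (nat_lit 936) (nat_lit 532) (nat_lit 0) (XT.nd (nat_lit 468) (nat_lit 228) (nat_lit 0) (XT.nd (nat_lit 234) (nat_lit 304) (nat_lit 0) (XT.nd (nat_lit 78) (nat_lit 152) (nat_lit 0) (XT.lf (nat_lit 0) (nat_lit 2623131091) (nat_lit 152) (nat_lit 5565037819) (nat_lit 76) (nat_lit 15827589876) (nat_lit 30) (nat_lit 5) (nat_lit 32) (nat_lit 5) (nat_lit 31) (nat_lit 5) (nat_lit 356) (nat_lit 304) (nat_lit 240)) (XT.nd (nat_lit 78) (nat_lit 0) (nat_lit 0) (XT.lf (nat_lit 0) (nat_lit 6507764499) (nat_lit 152) (nat_lit 1470416416) (nat_lit 228) (nat_lit 16888476347) (nat_lit 28) (nat_lit 5) (nat_lit 30) (nat_lit 5) (nat_lit 31) (nat_lit 5) (nat_lit 357) (nat_lit 304) (nat_lit 239)) (XT.lf (nat_lit 0) (nat_lit 13756867823) (nat_lit 228) (nat_lit 6514794561) (nat_lit 76) (nat_lit 5480653843) (nat_lit 28) (nat_lit 5) (nat_lit 31) (nat_lit 5) (nat_lit 29) (nat_lit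 4) (nat_lit 358) (nat_lit 304) (nat_lit 238)))) (XT.nd (nat_lit 78) (nat_lit 228) (nat_lit 0) (XT.lf (nat_lit 0) (nat_lit 6045070108) (nat_lit 76) (nat_lit 13872117199) (nat_lit 152) (nat_lit 6760445248) (nat_lit 27) (nat_lit 5) (nat_lit 28) (nat_lit 5) (nat_lit 29) (nat_lit 4) (nat_lit 359) (nat_lit 304) (nat_lit 237)) (XT.nd (nat_lit 78) (nat_lit 228) (nat_lit 0) (XT.lf (nat_lit 0) (nat_lit 19414032640) (nat_lit 76) (nat_lit 7056558119) (nat_lit 152) (nat_lit 1174379423) (nat_lit 27) (nat_lit 5) (nat_lit 28) (nat_lit 5) (nat_lit 29) (nat_lit 4) (nat_lit 360) (nat_lit 304) (nat_lit 236)) (XT.lf (nat_lit 0) (nat_lit 4595462758) (nat_lit 228) (nat_lit 23829847271) (nat_lit 76) (nat_lit 228980041) (nat_lit 24) (nat_lit 5) (nat_lit 27) (nat_lit 5) (nat_lit 25) (nat_lit 4) (nat_lit 361) (nat_lit 304) (nat_lit 235))))) (XT.nd (nat_lit 234) (nat_lit 152) (nat_lit 0) (XT.nd (nat_lit 78) (nat_lit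 76) (nat_lit 0) (XT.lf (nat_lit 0) (nat_lit 10847423945) (nat_lit 228) (nat_lit 11069920766) (nat_lit 76) (nat_lit 7784121623) (nat_lit 24) (nat_lit 5) (nat_lit 27) (nat_lit 5) (nat_lit 25) (nat_lit 4) (nat_lit 362) (nat_lit 304) (nat_lit 234)) (XT.nd (nat_lit 78) (nat_lit 0) (nat_lit 0) (XT.lf (nat_lit 0) (nat_lit 2361737443) (nat_lit 76) (nat_lit 15064007081) (nat_lit 152) (nat_lit 13374576127) (nat_lit 23) (nat_lit 5) (nat_lit 24) (nat_lit 5) (nat_lit 25) (nat_lit 4) (nat_lit 363) (nat_lit 304) (nat_lit 233)) (XT.lf (nat_lit 0) (nat_lit 16808121326) (nat_lit 76) (nat_lit 7689679902) (nat_lit 152) (nat_lit 7448082411) (nat_lit 23) (nat_lit 5) (nat_lit 24) (nat_lit 5) (nat_lit 25) (nat_lit 4) (nat_lit 364) (nat_lit 304) (nat_lit 232)))) (XT.nd (nat_lit 78) (nat_lit 152) (nat_lit 0) (XT.lf (nat_lit 0) (nat_lit 31902442873) (nat_lit 152) (nat_lit 1212762416) (nat_lit 0) (nat_lit 34577010)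 (nat_lit 23) (nat_lit 5) (nat_lit 25) (nat_lit 4) (nat_lit 23) (nat_lit 4) (nat_lit 365) (nat_lit 304) (nat_lit 231)) (XT.nd (nat_lit 78) (nat_lit 0) (nat_lit 0) (XT.lf (nat_lit 0) (nat_lit 5419066572) (nat_lit 152) (nat_lit 20803122211) (nat_lit 76) (nat_lit 8171379827) (nat_lit 21) (nat_lit 5) (nat_lit 23) (nat_lit 5) (nat_lit 22) (nat_lit 4) (nat_lit 366) (nat_lit 304) (nat_lit 230)) (XT.lf (nat_lit 0) (nat_lit 12377004026) (nat_lit 152) (nat_lit 6581581690) (nat_lit 76) (nat_lit 16739935340) (nat_lit 21) (nat_lit 5) (nat_lit 23) (nat_lit 5) (nat_lit 22) (nat_lit 4) (nat_lit 367) (nat_lit 304) (nat_lit 229)))))) (XT.nd (nat_lit 468) (nat_lit 228) (nat_lit 0) (XT.nd (nat_lit 234) (nat_lit 152) (nat_lit 0) (XT.nd (nat_lit 78) (nat_lit 76) (nat_lit 0) (XT.lf (nat_lit 0) (nat_lit 8589575405) (nat_lit 76) (nat_lit 11207612691) (nat_lit 152) (nat_lit 17265820994) (nat_lit 20) (nat_lit 5) (nat_lit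 21) (nat_lit 5) (nat_lit 22) (nat_lit 4) (nat_lit 368) (nat_lit 304) (nat_lit 228)) (XT.nd (nat_lit 78) (nat_lit 76) (nat_lit 0) (XT.lf (nat_lit 0) (nat_lit 24711994287) (nat_lit 76) (nat_lit 2968473750) (nat_lit 152) (nat_lit 10810654349) (nat_lit 20) (nat_lit 5) (nat_lit 21) (nat_lit 5) (nat_lit 22) (nat_lit 4) (nat_lit 369) (nat_lit 304) (nat_lit 227)) (XT.lf (nat_lit 0) (nat_lit 1576868003) (nat_lit 76) (nat_lit 34475687876) (nat_lit 76) (nat_lit 3933358218) (nat_lit 19) (nat_lit 4) (nat_lit 20) (nat_lit 5) (nat_lit 20) (nat_lit 4) (nat_lit 370) (nat_lit 304) (nat_lit 226)))) (XT.nd (nat_lit 78) (nat_lit 76) (nat_lit 0) (XT.lf (nat_lit 0) (nat_lit 3449771597) (nat_lit 152) (nat_lit 23503387180) (nat_lit 76) (nat_lit 14586364558) (nat_lit 18) (nat_lit 5) (nat_lit 20) (nat_lit 5) (nat_lit 19) (nat_lit 4) (nat_lit 371) (nat_lit 304) (nat_lit 225)) (XT.nd (nat_lit 78) (nat_lit 76) (nat_lit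 0) (XT.lf (nat_lit 0) (nat_lit 11052113068) (nat_lit 152) (nat_lit 7950100781) (nat_lit 76) (nat_lit 24166267304) (nat_lit 18) (nat_lit 5) (nat_lit 20) (nat_lit 5) (nat_lit 19) (nat_lit 4) (nat_lit 372) (nat_lit 304) (nat_lit 224)) (XT.lf (nat_lit 0) (nat_lit 8625319571) (nat_lit 76) (nat_lit 10527004873) (nat_lit 152) (nat_lit 25720678847) (nat_lit 17) (nat_lit 5) (nat_lit 18) (nat_lit 5) (nat_lit 19) (nat_lit 4) (nat_lit 373) (nat_lit 304) (nat_lit 223))))) (XT.nd (nat_lit 234) (nat_lit 152) (nat_lit 0) (XT.nd (nat_lit 78) (nat_lit 76) (nat_lit 0) (XT.lf (nat_lit 0) (nat_lit 26274435620) (nat_lit 76) (nat_lit 1501157032) (nat_lit 152) (nat_lit 18881260445) (nat_lit 17) (nat_lit 5) (nat_lit 18) (nat_lit 5) (nat_lit 19) (nat_lit 4) (nat_lit 374) (nat_lit 304) (nat_lit 222)) (XT.nd (nat_lit 78) (nat_lit 76) (nat_lit 0) (XT.lf (nat_lit 0) (nat_lit 36938533812) (nat_lit 152) (nat_lit 3878598331)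 (nat_lit 0) (nat_lit 7707341464) (nat_lit 17) (nat_lit 5) (nat_lit 19) (nat_lit 4) (nat_lit 17) (nat_lit 4) (nat_lit 375) (nat_lit 304) (nat_lit 221)) (XT.lf (nat_lit 0) (nat_lit 13840024172) (nat_lit 76) (nat_lit 32945033401) (nat_lit 76) (nat_lit 3689149309) (nat_lit 16) (nat_lit 4) (nat_lit 17) (nat_lit 5) (nat_lit 17) (nat_lit 4) (nat_lit 376) (nat_lit 304) (nat_lit 220)))) (XT.nd (nat_lit 78) (nat_lit 76) (nat_lit 0) (XT.lf (nat_lit 0) (nat_lit 4506716400) (nat_lit 152) (nat_lit 20040631416) (nat_lit 76) (nat_lit 27967912119) (nat_lit 15) (nat_lit 5) (nat_lit 17) (nat_lit 5) (nat_lit 16) (nat_lit 4) (nat_lit 377) (nat_lit 304) (nat_lit 219)) (XT.nd (nat_lit 78) (nat_lit 76) (nat_lit 0) (XT.lf (nat_lit 0) (nat_lit 12973901565) (nat_lit 152) (nat_lit 2705297967) (nat_lit 76) (nat_lit 38976869965) (nat_lit 15) (nat_lit 5) (nat_lit 17) (nat_lit 5) (nat_lit 16) (nat_lit 4) (nat_lit 378)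 (nat_lit 304) (nat_lit 218)) (XT.lf (nat_lit 0) (nat_lit 15982221085) (nat_lit 76) (nat_lit 6117948142) (nat_lit 152) (nat_lit 34791967038) (nat_lit 14) (nat_lit 5) (nat_lit 15) (nat_lit 5) (nat_lit 16) (nat_lit 4) (nat_lit 379) (nat_lit 304) (nat_lit 217))))))))
noncomputable def xc113 : XT := (XT.nd (nat_lit 1794) (nat_lit 380) (nat_lit 0) (XT.nd (nat_lit 858) (nat_lit 228) (nat_lit 0) (XT.nd (nat_lit 390) (nat_lit 152) (nat_lit 0) (XT.nd (nat_lit 156) (nat_lit 152) (nat_lit 0) (XT.nd (nat_lit 78) (nat_lit 0) (nat_lit 0) (XT.lf (nat_lit 0) (nat_lit 31776803010) (nat_lit 152) (nat_lit 23627833605) (nat_lit 0) (nat_lit 3830669876) (nat_lit 14) (nat_lit 5) (nat_lit 16) (nat_lit 4) (nat_lit 14) (nat_lit 4) (nat_lit 380) (nat_lit 304) (nat_lit 216)) (XT.lf (nat_lit 0) (nat_lit 42024479495) (nat_lit 152) (nat_lit 5606876802) (nat_lit 0) (nat_lit 14059921002) (nat_lit 14) (nat_lit 5) (nat_lit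 16) (nat_lit 4) (nat_lit 14) (nat_lit 4) (nat_lit 381) (nat_lit 304) (nat_lit 215))) (XT.nd (nat_lit 78) (nat_lit 76) (nat_lit 0) (XT.lf (nat_lit 0) (nat_lit 13730853651) (nat_lit 76) (nat_lit 39255603052) (nat_lit 76) (nat_lit 11273496599) (nat_lit 13) (nat_lit 4) (nat_lit 14) (nat_lit 5) (nat_lit 14) (nat_lit 4) (nat_lit 382) (nat_lit 304) (nat_lit 214)) (XT.nd (nat_lit 78) (nat_lit 76) (nat_lit 0) (XT.lf (nat_lit 0) (nat_lit 34206764492) (nat_lit 76) (nat_lit 30372491806) (nat_lit 76) (nat_lit 2373673009) (nat_lit 13) (nat_lit 4) (nat_lit 14) (nat_lit 5) (nat_lit 14) (nat_lit 4) (nat_lit 383) (nat_lit 304) (nat_lit 213)) (XT.lf (nat_lit 0) (nat_lit 6736179338) (nat_lit 152) (nat_lit 14205567671) (nat_lit 76) (nat_lit 48833959426) (nat_lit 12) (nat_lit 5) (nat_lit 14) (nat_lit 5) (nat_lit 13) (nat_lit 4) (nat_lit 384) (nat_lit 304) (nat_lit 212))))) (XT.nd (nat_lit 234) (nat_lit 76) (nat_lit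 0) (XT.nd (nat_lit 78) (nat_lit 0) (nat_lit 0) (XT.lf (nat_lit 0) (nat_lit 5373567348) (nat_lit 76) (nat_lit 10920803993) (nat_lit 152) (nat_lit 56439676598) (nat_lit 11) (nat_lit 5) (nat_lit 12) (nat_lit 5) (nat_lit 13) (nat_lit 4) (nat_lit 385) (nat_lit 304) (nat_lit 211)) (XT.nd (nat_lit 78) (nat_lit 0) (nat_lit 0) (XT.lf (nat_lit 0) (nat_lit 26403625184) (nat_lit 76) (nat_lit 156353273) (nat_lit 152) (nat_lit 49268854745) (nat_lit 11) (nat_lit 5) (nat_lit 12) (nat_lit 5) (nat_lit 13) (nat_lit 4) (nat_lit 386) (nat_lit 304) (nat_lit 210)) (XT.lf (nat_lit 0) (nat_lit 37502194967) (nat_lit 152) (nat_lit 30787784100) (nat_lit 0) (nat_lit 10780214072) (nat_lit 11) (nat_lit 5) (nat_lit 13) (nat_lit 4) (nat_lit 11) (nat_lit 4) (nat_lit 387) (nat_lit 304) (nat_lit 209)))) (XT.nd (nat_lit 78) (nat_lit 76) (nat_lit 0) (XT.lf (nat_lit 0) (nat_lit 48983898563) (nat_lit 152) (nat_lit 11240658814)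 (nat_lit 0) (nat_lit 22249446659) (nat_lit 11) (nat_lit 5) (nat_lit 13) (nat_lit 4) (nat_lit 11) (nat_lit 4) (nat_lit 388) (nat_lit 304) (nat_lit 208)) (XT.nd (nat_lit 78) (nat_lit 0) (nat_lit 0) (XT.lf (nat_lit 0) (nat_lit 9571497420) (nat_lit 76) (nat_lit 51607926000) (nat_lit 76) (nat_lit 24861596945) (nat_lit 10) (nat_lit 4) (nat_lit 11) (nat_lit 5) (nat_lit 11) (nat_lit 4) (nat_lit 389) (nat_lit 304) (nat_lit 207)) (XT.lf (nat_lit 0) (nat_lit 31796139926) (nat_lit 76) (nat_lit 42369423926) (nat_lit 76) (nat_lit 15611783300) (nat_lit 10) (nat_lit 4) (nat_lit 11) (nat_lit 5) (nat_lit 11) (nat_lit 4) (nat_lit 390) (nat_lit 304) (nat_lit 206)))))) (XT.nd (nat_lit 468) (nat_lit 76) (nat_lit 0) (XT.nd (nat_lit 234) (nat_lit 0) (nat_lit 0) (XT.nd (nat_lit 78) (nat_lit 152) (nat_lit 0) (XT.lf (nat_lit 0) (nat_lit 55114517576) (nat_lit 76) (nat_lit 32677420720) (nat_lit 76) (nat_lit 5909007168)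 (nat_lit 10) (nat_lit 4) (nat_lit 11) (nat_lit 5) (nat_lit 11) (nat_lit 4) (nat_lit 391) (nat_lit 304) (nat_lit 205)) (XT.nd (nat_lit 78) (nat_lit 76) (nat_lit 0) (XT.lf (nat_lit 0) (nat_lit 4133171966) (nat_lit 152) (nat_lit 18305670950) (nat_lit 76) (nat_lit 75378981082) (nat_lit 9) (nat_lit 5) (nat_lit 11) (nat_lit 5) (nat_lit 10) (nat_lit 4) (nat_lit 392) (nat_lit 304) (nat_lit 204)) (XT.lf (nat_lit 0) (nat_lit 2971203727) (nat_lit 76) (nat_lit 11545698013) (nat_lit 152) (nat_lit 87616901440) (nat_lit 8) (nat_lit 5) (nat_lit 9) (nat_lit 5) (nat_lit 10) (nat_lit 4) (nat_lit 393) (nat_lit 304) (nat_lit 203)))) (XT.nd (nat_lit 78) (nat_lit 0) (nat_lit 0) (XT.lf (nat_lit 0) (nat_lit 25724895848) (nat_lit 152) (nat_lit 80722204520) (nat_lit 0) (nat_lit 203228324) (nat_lit 8) (nat_lit 5) (nat_lit 10) (nat_lit 4) (nat_lit 8) (nat_lit 4) (nat_lit 394) (nat_lit 304) (nat_lit 202)) (XT.nd (nat_lit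 78) (nat_lit 0) (nat_lit 0) (XT.lf (nat_lit 0) (nat_lit 37674625098) (nat_lit 152) (nat_lit 61564473106) (nat_lit 0) (nat_lit 12144516704) (nat_lit 8) (nat_lit 5) (nat_lit 10) (nat_lit 4) (nat_lit 8) (nat_lit 4) (nat_lit 395) (nat_lit 304) (nat_lit 201)) (XT.lf (nat_lit 0) (nat_lit 50214280525) (nat_lit 152) (nat_lit 41463530862) (nat_lit 0) (nat_lit 24676133208) (nat_lit 8) (nat_lit 5) (nat_lit 10) (nat_lit 4) (nat_lit 8) (nat_lit 4) (nat_lit 396) (nat_lit 304) (nat_lit 200))))) (XT.nd (nat_lit 234) (nat_lit 0) (nat_lit 0) (XT.nd (nat_lit 78) (nat_lit 76) (nat_lit 0) (XT.lf (nat_lit 0) (nat_lit 63373718450) (nat_lit 152) (nat_lit 20371518402) (nat_lit 0) (nat_lit 37827915016) (nat_lit 8) (nat_lit 5) (nat_lit 10) (nat_lit 4) (nat_lit 8) (nat_lit 4) (nat_lit 397) (nat_lit 304) (nat_lit 199)) (XT.nd (nat_lit 78) (nat_lit 0) (nat_lit 0) (XT.lf (nat_lit 0) (nat_lit 1820035864) (nat_lit 76)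 (nat_lit 75392650866) (nat_lit 76) (nat_lit 49839555892) (nat_lit 7) (nat_lit 4) (nat_lit 8) (nat_lit 5) (nat_lit 8) (nat_lit 4) (nat_lit 398) (nat_lit 304) (nat_lit 198)) (XT.lf (nat_lit 0) (nat_lit 25815324333) (nat_lit 76) (nat_lit 66266545278) (nat_lit 76) (nat_lit 40706505980) (nat_lit 7) (nat_lit 4) (nat_lit 8) (nat_lit 5) (nat_lit 8) (nat_lit 4) (nat_lit 399) (nat_lit 304) (nat_lit 197)))) (XT.nd (nat_lit 78) (nat_lit 0) (nat_lit 0) (XT.lf (nat_lit 0) (nat_lit 50997904244) (nat_lit 76) (nat_lit 56690192789) (nat_lit 76) (nat_lit 31123539849) (nat_lit 7) (nat_lit 4) (nat_lit 8) (nat_lit 5) (nat_lit 8) (nat_lit 4) (nat_lit 400) (nat_lit 304) (nat_lit 196)) (XT.nd (nat_lit 78) (nat_lit 0) (nat_lit 0) (XT.lf (nat_lit 0) (nat_lit 77427734120) (nat_lit 76) (nat_lit 46640792559) (nat_lit 76) (nat_lit 21067840912) (nat_lit 7) (nat_lit 4) (nat_lit 8) (nat_lit 5) (nat_lit 8) (nat_lit 4) (nat_lit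 401) (nat_lit 304) (nat_lit 195)) (XT.lf (nat_lit 0) (nat_lit 105167742128) (nat_lit 76) (nat_lit 36094417443) (nat_lit 76) (nat_lit 10515467029) (nat_lit 7) (nat_lit 4) (nat_lit 8) (nat_lit 5) (nat_lit 8) (nat_lit 4) (nat_lit 402) (nat_lit 304) (nat_lit 194))))))) (XT.nd (nat_lit 936) (nat_lit 152) (nat_lit 0) (XT.nd (nat_lit 468) (nat_lit 76) (nat_lit 0) (XT.nd (nat_lit 234) (nat_lit 0) (nat_lit 0) (XT.nd (nat_lit 78) (nat_lit 76) (nat_lit 0) (XT.lf (nat_lit 0) (nat_lit 540824402) (nat_lit 152) (nat_lit 24475973501) (nat_lit 76) (nat_lit 133733992381) (nat_lit 6) (nat_lit 5) (nat_lit 8) (nat_lit 5) (nat_lit 7) (nat_lit 4) (nat_lit 403) (nat_lit 304) (nat_lit 193)) (XT.nd (nat_lit 78) (nat_lit 76) (nat_lit 0) (XT.lf (nat_lit 0) (nat_lit 11791177186) (nat_lit 152) (nat_lit 1418191355) (nat_lit 76) (nat_lit 152854893343) (nat_lit 6) (nat_lit 5) (nat_lit 8) (nat_lit 5) (nat_lit 7) (nat_lit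 4) (nat_lit 404) (nat_lit 304) (nat_lit 192)) (XT.lf (nat_lit 0) (nat_lit 23535830932) (nat_lit 76) (nat_lit 430567838) (nat_lit 152) (nat_lit 149758891436) (nat_lit 5) (nat_lit 5) (nat_lit 6) (nat_lit 5) (nat_lit 7) (nat_lit 4) (nat_lit 405) (nat_lit 304) (nat_lit 191)))) (XT.nd (nat_lit 78) (nat_lit 0) (nat_lit 0) (XT.lf (nat_lit 0) (nat_lit 36972466163) (nat_lit 152) (nat_lit 132194497623) (nat_lit 0) (nat_lit 12591302592) (nat_lit 5) (nat_lit 5) (nat_lit 7) (nat_lit 4) (nat_lit 5) (nat_lit 4) (nat_lit 406) (nat_lit 304) (nat_lit 190)) (XT.nd (nat_lit 78) (nat_lit 0) (nat_lit 0) (XT.lf (nat_lit 0) (nat_lit 50631045008) (nat_lit 152) (nat_lit 113316331521) (nat_lit 0) (nat_lit 26245405064) (nat_lit 5) (nat_lit 5) (nat_lit 7) (nat_lit 4) (nat_lit 5) (nat_lit 4) (nat_lit 407) (nat_lit 304) (nat_lit 189)) (XT.lf (nat_lit 0) (nat_lit 64967933360) (nat_lit 152) (nat_lit 93503290583) (nat_lit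 0) (nat_lit 40578030203) (nat_lit 5) (nat_lit 5) (nat_lit 7) (nat_lit 4) (nat_lit 5) (nat_lit 4) (nat_lit 408) (nat_lit 304) (nat_lit 188))))) (XT.nd (nat_lit 234) (nat_lit 76) (nat_lit 0) (XT.nd (nat_lit 78) (nat_lit 0) (nat_lit 0) (XT.lf (nat_lit 0) (nat_lit 80017266668) (nat_lit 152) (nat_lit 72708200902) (nat_lit 0) (nat_lit 55623303308) (nat_lit 5) (nat_lit 5) (nat_lit 7) (nat_lit 4) (nat_lit 5) (nat_lit 4) (nat_lit 409) (nat_lit 304) (nat_lit 187)) (XT.nd (nat_lit 78) (nat_lit 0) (nat_lit 0) (XT.lf (nat_lit 0) (nat_lit 95814876677) (nat_lit 152) (nat_lit 50881550361) (nat_lit 0) (nat_lit 71417046458) (nat_lit 5) (nat_lit 5) (nat_lit 7) (nat_lit 4) (nat_lit 5) (nat_lit 4) (nat_lit 410) (nat_lit 304) (nat_lit 186)) (XT.lf (nat_lit 0) (nat_lit 112398376744) (nat_lit 152) (nat_lit 27971370744) (nat_lit 0) (nat_lit 87996863802) (nat_lit 5) (nat_lit 5) (nat_lit 7) (nat_lit 4) (nat_lit 5)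 (nat_lit 4) (nat_lit 411) (nat_lit 304) (nat_lit 185)))) (XT.nd (nat_lit 78) (nat_lit 76) (nat_lit 0) (XT.lf (nat_lit 0) (nat_lit 129807251395) (nat_lit 152) (nat_lit 3923114004) (nat_lit 0) (nat_lit 105402231097) (nat_lit 5) (nat_lit 5) (nat_lit 7) (nat_lit 4) (nat_lit 5) (nat_lit 4) (nat_lit 412) (nat_lit 304) (nat_lit 184)) (XT.nd (nat_lit 78) (nat_lit 0) (nat_lit 0) (XT.lf (nat_lit 0) (nat_lit 22025428889) (nat_lit 76) (nat_lit 126401400111) (nat_lit 76) (nat_lit 101993039475) (nat_lit 4) (nat_lit 4) (nat_lit 5) (nat_lit 5) (nat_lit 5) (nat_lit 4) (nat_lit 413) (nat_lit 304) (nat_lit 183)) (XT.lf (nat_lit 0) (nat_lit 49400636787) (nat_lit 76) (nat_lit 118639632714) (nat_lit 76) (nat_lit 94228090804) (nat_lit 4) (nat_lit 4) (nat_lit 5) (nat_lit 5) (nat_lit 5) (nat_lit 4) (nat_lit 414) (nat_lit 304) (nat_lit 182)))))) (XT.nd (nat_lit 468) (nat_lit 152) (nat_lit 0) (XT.nd (nat_lit 234)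 (nat_lit 0) (nat_lit 0) (XT.nd (nat_lit 78) (nat_lit 0) (nat_lit 0) (XT.lf (nat_lit 0) (nat_lit 78137972891) (nat_lit 76) (nat_lit 110493022644) (nat_lit 76) (nat_lit 86078450948) (nat_lit 4) (nat_lit 4) (nat_lit 5) (nat_lit 5) (nat_lit 5) (nat_lit 4) (nat_lit 415) (nat_lit 304) (nat_lit 181)) (XT.nd (nat_lit 78) (nat_lit 0) (nat_lit 0) (XT.lf (nat_lit 0) (nat_lit 108305859428) (nat_lit 76) (nat_lit 101942173210) (nat_lit 76) (nat_lit 77524716004) (nat_lit 4) (nat_lit 4) (nat_lit 5) (nat_lit 5) (nat_lit 5) (nat_lit 4) (nat_lit 416) (nat_lit 304) (nat_lit 180)) (XT.lf (nat_lit 0) (nat_lit 139976124701) (nat_lit 76) (nat_lit 92966725247) (nat_lit 76) (nat_lit 68546519935) (nat_lit 4) (nat_lit 4) (nat_lit 5) (nat_lit 5) (nat_lit 5) (nat_lit 4) (nat_lit 417) (nat_lit 304) (nat_lit 179)))) (XT.nd (nat_lit 78) (nat_lit 0) (nat_lit 0) (XT.lf (nat_lit 0) (nat_lit 173224174103) (nat_lit 76) (nat_lit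 83545308639) (nat_lit 76) (nat_lit 59122486086) (nat_lit 4) (nat_lit 4) (nat_lit 5) (nat_lit 5) (nat_lit 5) (nat_lit 4) (nat_lit 418) (nat_lit 304) (nat_lit 178)) (XT.nd (nat_lit 78) (nat_lit 0) (nat_lit 0) (XT.lf (nat_lit 0) (nat_lit 208129169656) (nat_lit 76) (nat_lit 73655491444) (nat_lit 76) (nat_lit 49230176278) (nat_lit 4) (nat_lit 4) (nat_lit 5) (nat_lit 5) (nat_lit 5) (nat_lit 4) (nat_lit 419) (nat_lit 304) (nat_lit 177)) (XT.lf (nat_lit 0) (nat_lit 244774218492) (nat_lit 76) (nat_lit 63273726477) (nat_lit 76) (nat_lit 38846037395) (nat_lit 4) (nat_lit 4) (nat_lit 5) (nat_lit 5) (nat_lit 5) (nat_lit 4) (nat_lit 420) (nat_lit 304) (nat_lit 176))))) (XT.nd (nat_lit 234) (nat_lit 152) (nat_lit 0) (XT.nd (nat_lit 78) (nat_lit 0) (nat_lit 0) (XT.lf (nat_lit 0) (nat_lit 283246570728) (nat_lit 76) (nat_lit 52375295251) (nat_lit 76) (nat_lit 27945345296) (nat_lit 4) (nat_lit 4) (nat_lit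 5) (nat_lit 5) (nat_lit 5) (nat_lit 4) (nat_lit 421) (nat_lit 304) (nat_lit 175)) (XT.nd (nat_lit 78) (nat_lit 0) (nat_lit 0) (XT.lf (nat_lit 0) (nat_lit 323637827203) (nat_lit 76) (nat_lit 40934249119) (nat_lit 76) (nat_lit 16502145952) (nat_lit 4) (nat_lit 4) (nat_lit 5) (nat_lit 5) (nat_lit 5) (nat_lit 4) (nat_lit 422) (nat_lit 304) (nat_lit 174)) (XT.lf (nat_lit 0) (nat_lit 366044157574) (nat_lit 76) (nat_lit 28923347495) (nat_lit 76) (nat_lit 4489193650) (nat_lit 4) (nat_lit 4) (nat_lit 5) (nat_lit 5) (nat_lit 5) (nat_lit 4) (nat_lit 423) (nat_lit 304) (nat_lit 173)))) (XT.nd (nat_lit 78) (nat_lit 76) (nat_lit 0) (XT.lf (nat_lit 0) (nat_lit 7862155508) (nat_lit 152) (nat_lit 8318688078) (nat_lit 76) (nat_lit 402571224378) (nat_lit 3) (nat_lit 5) (nat_lit 5) (nat_lit 5) (nat_lit 4) (nat_lit 4) (nat_lit 424) (nat_lit 304) (nat_lit 172)) (XT.nd (nat_lit 78) (nat_lit 0) (nat_lit 0) (XT.lf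 (nat_lit 0) (nat_lit 18545700831) (nat_lit 76) (nat_lit 2421941962) (nat_lit 152) (nat_lit 418026511614) (nat_lit 2) (nat_lit 5) (nat_lit 3) (nat_lit 5) (nat_lit 4) (nat_lit 4) (nat_lit 425) (nat_lit 304) (nat_lit 171)) (XT.lf (nat_lit 0) (nat_lit 35057229899) (nat_lit 152) (nat_lit 413393385627) (nat_lit 0) (nat_lit 11781288614) (nat_lit 2) (nat_lit 5) (nat_lit 4) (nat_lit 4) (nat_lit 2) (nat_lit 4) (nat_lit 426) (nat_lit 304) (nat_lit 170))))))))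
noncomputable def xc114 : XT := (XT.nd (nat_lit 38532) (nat_lit 0) (nat_lit 3268) (XT.nd (nat_lit 37596) (nat_lit 0) (nat_lit 7980) (XT.nd (nat_lit 390) (nat_lit 0) (nat_lit 0) (XT.nd (nat_lit 156) (nat_lit 0) (nat_lit 0) (XT.nd (nat_lit 78) (nat_lit 0) (nat_lit 0) (XT.lf (nat_lit 0) (nat_lit 49888993145) (nat_lit 152) (nat_lit 406029218504) (nat_lit 0) (nat_lit 26611445100) (nat_lit 2) (nat_lit 5) (nat_lit 4) (nat_lit 4) (nat_lit 2) (nat_lit 4) (nat_lit 427) (nat_lit 304) (nat_lit 169)) (XT.lf (nat_lit 0) (nat_lit 65460432953) (nat_lit 152) (nat_lit 398300605174) (nat_lit 0) (nat_lit 42181354659) (nat_lit 2) (nat_lit 5) (nat_lit 4) (nat_lit 4) (nat_lit 2) (nat_lit 4) (nat_lit 428) (nat_lit 304) (nat_lit 168))) (XT.nd (nat_lit 78) (nat_lit 0) (nat_lit 0) (XT.lf (nat_lit 0) (nat_lit 81808624178) (nat_lit 152) (nat_lit 390189144177) (nat_lit 0) (nat_lit 58528088506) (nat_lit 2) (nat_lit 5)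 (nat_lit 4) (nat_lit 4) (nat_lit 2) (nat_lit 4) (nat_lit 429) (nat_lit 304) (nat_lit 167)) (XT.nd (nat_lit 78) (nat_lit 0) (nat_lit 0) (XT.lf (nat_lit 0) (nat_lit 98972491086) (nat_lit 152) (nat_lit 381675522511) (nat_lit 0) (nat_lit 75690567434) (nat_lit 2) (nat_lit 5) (nat_lit 4) (nat_lit 4) (nat_lit 2) (nat_lit 4) (nat_lit 430) (nat_lit 304) (nat_lit 166)) (XT.lf (nat_lit 0) (nat_lit 116992900026) (nat_lit 152) (nat_lit 372739469648) (nat_lit 0) (nat_lit 93709654489) (nat_lit 2) (nat_lit 5) (nat_lit 4) (nat_lit 4) (nat_lit 2) (nat_lit 4) (nat_lit 431) (nat_lit 304) (nat_lit 165))))) (XT.nd (nat_lit 36972) (nat_lit 0) (nat_lit 10716) (XT.nd (nat_lit 78) (nat_lit 0) (nat_lit 0) (XT.lf (nat_lit 0) (nat_lit 135912756735) (nat_lit 152) (nat_lit 363359709272) (nat_lit 0) (nat_lit 112628252259) (nat_lit 2) (nat_lit 5) (nat_lit 4) (nat_lit 4) (nat_lit 2) (nat_lit 4) (nat_lit 432) (nat_lit 304)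 (nat_lit 164)) (XT.nd (nat_lit 78) (nat_lit 0) (nat_lit 0) (XT.lf (nat_lit 0) (nat_lit 155777108489) (nat_lit 152) (nat_lit 353513908619) (nat_lit 0) (nat_lit 132491405025) (nat_lit 2) (nat_lit 5) (nat_lit 4) (nat_lit 4) (nat_lit 2) (nat_lit 4) (nat_lit 433) (nat_lit 304) (nat_lit 163)) (XT.lf (nat_lit 0) (nat_lit 176633251365) (nat_lit 152) (nat_lit 343178625308) (nat_lit 0) (nat_lit 153346406007) (nat_lit 2) (nat_lit 5) (nat_lit 4) (nat_lit 4) (nat_lit 2) (nat_lit 4) (nat_lit 434) (nat_lit 304) (nat_lit 162)))) (XT.nd (nat_lit 78) (nat_lit 380) (nat_lit 0) (XT.lf (nat_lit 0) (nat_lit 3185503695) (nat_lit 380) (nat_lit 91023658) (nat_lit 380) (nat_lit 91023658) (nat_lit 148) (nat_lit 3) (nat_lit 153) (nat_lit 3) (nat_lit 153) (nat_lit 5) (nat_lit 305) (nat_lit 305) (nat_lit 290)) (XT.nd (nat_lit 78) (nat_lit 0) (nat_lit 0) (XT.lf (nat_lit 0) (nat_lit 1728966418) (nat_lit 380) (nat_lit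 3681834675) (nat_lit 456) (nat_lit 1385308295) (nat_lit 143) (nat_lit 5) (nat_lit 148) (nat_lit 3) (nat_lit 149) (nat_lit 5) (nat_lit 306) (nat_lit 305) (nat_lit 289)) (XT.lf (nat_lit 0) (nat_lit 3785865320) (nat_lit 380) (nat_lit 358549150) (nat_lit 456) (nat_lit 2722084853) (nat_lit 143) (nat_lit 5) (nat_lit 148) (nat_lit 3) (nat_lit 149) (nat_lit 5) (nat_lit 307) (nat_lit 305) (nat_lit 288)))))) (XT.nd (nat_lit 468) (nat_lit 1824) (nat_lit 0) (XT.nd (nat_lit 234) (nat_lit 456) (nat_lit 0) (XT.nd (nat_lit 78) (nat_lit 456) (nat_lit 0) (XT.lf (nat_lit 76) (nat_lit 3161369956) (nat_lit 0) (nat_lit 2708156258) (nat_lit 456) (nat_lit 1074878760) (nat_lit 144) (nat_lit 5) (nat_lit 143) (nat_lit 5) (nat_lit 149) (nat_lit 5) (nat_lit 308) (nat_lit 305) (nat_lit 287)) (XT.nd (nat_lit 78) (nat_lit 0) (nat_lit 76) (XT.lf (nat_lit 0) (nat_lit 881625269) (nat_lit 456) (nat_lit 246173360) (nat_lit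 532) (nat_lit 5903603291) (nat_lit 137) (nat_lit 5) (nat_lit 143) (nat_lit 5) (nat_lit 144) (nat_lit 5) (nat_lit 309) (nat_lit 305) (nat_lit 286)) (XT.lf (nat_lit 0) (nat_lit 2847686703) (nat_lit 456) (nat_lit 3643995039) (nat_lit 532) (nat_lit 632959083) (nat_lit 138) (nat_lit 5) (nat_lit 144) (nat_lit 5) (nat_lit 145) (nat_lit 5) (nat_lit 310) (nat_lit 305) (nat_lit 285)))) (XT.nd (nat_lit 78) (nat_lit 532) (nat_lit 0) (XT.lf (nat_lit 76) (nat_lit 88692418) (nat_lit 0) (nat_lit 4735765628) (nat_lit 532) (nat_lit 2402621307) (nat_lit 139) (nat_lit 5) (nat_lit 138) (nat_lit 5) (nat_lit 145) (nat_lit 5) (nat_lit 311) (nat_lit 305) (nat_lit 284)) (XT.nd (nat_lit 78) (nat_lit 532) (nat_lit 0) (XT.lf (nat_lit 76) (nat_lit 4060136327) (nat_lit 0) (nat_lit 2794098440) (nat_lit 532) (nat_lit 482847193) (nat_lit 139) (nat_lit 5) (nat_lit 138) (nat_lit 5) (nat_lit 145) (nat_lit 5) (nat_lit 312)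 (nat_lit 305) (nat_lit 283)) (XT.lf (nat_lit 76) (nat_lit 701662100) (nat_lit 0) (nat_lit 688902960) (nat_lit 608) (nat_lit 6065623868) (nat_lit 132) (nat_lit 5) (nat_lit 131) (nat_lit 5) (nat_lit 139) (nat_lit 5) (nat_lit 313) (nat_lit 305) (nat_lit 282))))) (XT.nd (nat_lit 234) (nat_lit 1368) (nat_lit 0) (XT.nd (nat_lit 78) (nat_lit 532) (nat_lit 0) (XT.lf (nat_lit 0) (nat_lit 3321585792) (nat_lit 532) (nat_lit 2696894302) (nat_lit 76) (nat_lit 1563497144) (nat_lit 132) (nat_lit 5) (nat_lit 139) (nat_lit 5) (nat_lit 133) (nat_lit 5) (nat_lit 314) (nat_lit 305) (nat_lit 281)) (XT.nd (nat_lit 78) (nat_lit 0) (nat_lit 0) (XT.lf (nat_lit 0) (nat_lit 1526119074) (nat_lit 532) (nat_lit 3762923314) (nat_lit 608) (nat_lit 2428142144) (nat_lit 125) (nat_lit 5) (nat_lit 132) (nat_lit 5) (nat_lit 133) (nat_lit 5) (nat_lit 315) (nat_lit 305) (nat_lit 280)) (XT.lf (nat_lit 0) (nat_lit 5980071099)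 (nat_lit 532) (nat_lit 1328620416) (nat_lit 608) (nat_lit 552887607) (nat_lit 125) (nat_lit 5) (nat_lit 132) (nat_lit 5) (nat_lit 133) (nat_lit 5) (nat_lit 316) (nat_lit 305) (nat_lit 279)))) (XT.nd (nat_lit 78) (nat_lit 684) (nat_lit 0) (XT.lf (nat_lit 0) (nat_lit 1343323354) (nat_lit 684) (nat_lit 5402743693) (nat_lit 76) (nat_lit 1267501925) (nat_lit 116) (nat_lit 5) (nat_lit 125) (nat_lit 5) (nat_lit 117) (nat_lit 5) (nat_lit 317) (nat_lit 305) (nat_lit 278)) (XT.nd (nat_lit 78) (nat_lit 684) (nat_lit 0) (XT.lf (nat_lit 0) (nat_lit 3284235358) (nat_lit 684) (nat_lit 886639204) (nat_lit 76) (nat_lit 4003508871) (nat_lit 116) (nat_lit 5) (nat_lit 125) (nat_lit 5) (nat_lit 117) (nat_lit 5) (nat_lit 318) (nat_lit 305) (nat_lit 277)) (XT.lf (nat_lit 0) (nat_lit 3907177642) (nat_lit 684) (nat_lit 1394401949) (nat_lit 760) (nat_lit 3042786703) (nat_lit 107) (nat_lit 5) (nat_lit 116) (nat_lit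 5) (nat_lit 117) (nat_lit 5) (nat_lit 319) (nat_lit 305) (nat_lit 276))))))) (XT.nd (nat_lit 936) (nat_lit 1824) (nat_lit 0) (XT.nd (nat_lit 468) (nat_lit 1368) (nat_lit 0) (XT.nd (nat_lit 234) (nat_lit 304) (nat_lit 0) (XT.nd (nat_lit 78) (nat_lit 456) (nat_lit 0) (XT.lf (nat_lit 0) (nat_lit 360817064) (nat_lit 760) (nat_lit 7024869552) (nat_lit 836) (nat_lit 1138959292) (nat_lit 97) (nat_lit 5) (nat_lit 107) (nat_lit 5) (nat_lit 108) (nat_lit 5) (nat_lit 320) (nat_lit 305) (nat_lit 275)) (XT.nd (nat_lit 78) (nat_lit 380) (nat_lit 0) (XT.lf (nat_lit 0) (nat_lit 854270945) (nat_lit 836) (nat_lit 3272457202) (nat_lit 76) (nat_lit 4585536826) (nat_lit 96) (nat_lit 5) (nat_lit 107) (nat_lit 5) (nat_lit 97) (nat_lit 5) (nat_lit 321) (nat_lit 305) (nat_lit 274)) (XT.lf (nat_lit 0) (nat_lit 1829531474) (nat_lit 380) (nat_lit 1034111066) (nat_lit 456) (nat_lit 6047030868) (nat_lit 91) (nat_lit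 5) (nat_lit 96) (nat_lit 5) (nat_lit 97) (nat_lit 5) (nat_lit 322) (nat_lit 305) (nat_lit 273)))) (XT.nd (nat_lit 78) (nat_lit 304) (nat_lit 0) (XT.lf (nat_lit 0) (nat_lit 4992918832) (nat_lit 456) (nat_lit 1927735091) (nat_lit 76) (nat_lit 2197452547) (nat_lit 91) (nat_lit 5) (nat_lit 97) (nat_lit 5) (nat_lit 92) (nat_lit 5) (nat_lit 323) (nat_lit 305) (nat_lit 272)) (XT.nd (nat_lit 78) (nat_lit 0) (nat_lit 0) (XT.lf (nat_lit 0) (nat_lit 3505960209) (nat_lit 304) (nat_lit 3726345107) (nat_lit 380) (nat_lit 2103495940) (nat_lit 87) (nat_lit 5) (nat_lit 91) (nat_lit 5) (nat_lit 92) (nat_lit 5) (nat_lit 324) (nat_lit 305) (nat_lit 271)) (XT.lf (nat_lit 0) (nat_lit 9206796659) (nat_lit 304) (nat_lit 343591811) (nat_lit 380) (nat_lit 15724888) (nat_lit 87) (nat_lit 5) (nat_lit 91) (nat_lit 5) (nat_lit 92) (nat_lit 5) (nat_lit 325) (nat_lit 305) (nat_lit 270))))) (XT.nd (nat_lit 234) (nat_lit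 608) (nat_lit 0) (XT.nd (nat_lit 78) (nat_lit 304) (nat_lit 0) (XT.lf (nat_lit 0) (nat_lit 2180015667) (nat_lit 456) (nat_lit 4402074334) (nat_lit 76) (nat_lit 3220552561) (nat_lit 81) (nat_lit 5) (nat_lit 87) (nat_lit 5) (nat_lit 82) (nat_lit 5) (nat_lit 326) (nat_lit 305) (nat_lit 269)) (XT.nd (nat_lit 78) (nat_lit 0) (nat_lit 0) (XT.lf (nat_lit 0) (nat_lit 1376131547) (nat_lit 304) (nat_lit 3080162875) (nat_lit 380) (nat_lit 5596186489) (nat_lit 77) (nat_lit 5) (nat_lit 81) (nat_lit 5) (nat_lit 82) (nat_lit 5) (nat_lit 327) (nat_lit 305) (nat_lit 268)) (XT.lf (nat_lit 0) (nat_lit 6871132355) (nat_lit 380) (nat_lit 2799430921) (nat_lit 76) (nat_lit 643067361) (nat_lit 77) (nat_lit 5) (nat_lit 82) (nat_lit 5) (nat_lit 78) (nat_lit 5) (nat_lit 328) (nat_lit 305) (nat_lit 267)))) (XT.nd (nat_lit 78) (nat_lit 304) (nat_lit 0) (XT.lf (nat_lit 0) (nat_lit 3357948296) (nat_lit 304) (nat_lit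 6094212163) (nat_lit 380) (nat_lit 1133458993) (nat_lit 73) (nat_lit 5) (nat_lit 77) (nat_lit 5) (nat_lit 78) (nat_lit 5) (nat_lit 329) (nat_lit 305) (nat_lit 266)) (XT.nd (nat_lit 78) (nat_lit 228) (nat_lit 0) (XT.lf (nat_lit 0) (nat_lit 1241116000) (nat_lit 380) (nat_lit 1040542194) (nat_lit 76) (nat_lit 8589020438) (nat_lit 72) (nat_lit 5) (nat_lit 77) (nat_lit 5) (nat_lit 73) (nat_lit 5) (nat_lit 330) (nat_lit 305) (nat_lit 265)) (XT.lf (nat_lit 0) (nat_lit 3757244685) (nat_lit 304) (nat_lit 5648734563) (nat_lit 76) (nat_lit 1760083292) (nat_lit 69) (nat_lit 5) (nat_lit 73) (nat_lit 5) (nat_lit 70) (nat_lit 5) (nat_lit 331) (nat_lit 305) (nat_lit 264)))))) (XT.nd (nat_lit 468) (nat_lit 988) (nat_lit 0) (XT.nd (nat_lit 234) (nat_lit 228) (nat_lit 0) (XT.nd (nat_lit 78) (nat_lit 304) (nat_lit 0) (XT.lf (nat_lit 0) (nat_lit 885400599) (nat_lit 304) (nat_lit 5530153326) (nat_lit 380) (nat_lit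 5059887454) (nat_lit 65) (nat_lit 5) (nat_lit 69) (nat_lit 5) (nat_lit 70) (nat_lit 5) (nat_lit 332) (nat_lit 305) (nat_lit 263)) (XT.nd (nat_lit 78) (nat_lit 304) (nat_lit 0) (XT.lf (nat_lit 0) (nat_lit 7874341756) (nat_lit 304) (nat_lit 1376787000) (nat_lit 380) (nat_lit 2546985222) (nat_lit 65) (nat_lit 5) (nat_lit 69) (nat_lit 5) (nat_lit 70) (nat_lit 5) (nat_lit 333) (nat_lit 305) (nat_lit 262)) (XT.lf (nat_lit 0) (nat_lit 134585695) (nat_lit 304) (nat_lit 9076716348) (nat_lit 76) (nat_lit 2923287369) (nat_lit 61) (nat_lit 5) (nat_lit 65) (nat_lit 5) (nat_lit 62) (nat_lit 5) (nat_lit 334) (nat_lit 305) (nat_lit 261)))) (XT.nd (nat_lit 78) (nat_lit 228) (nat_lit 0) (XT.lf (nat_lit 0) (nat_lit 2906120425) (nat_lit 304) (nat_lit 2092727078) (nat_lit 76) (nat_lit 7484915952) (nat_lit 61) (nat_lit 5) (nat_lit 65) (nat_lit 5) (nat_lit 62) (nat_lit 5) (nat_lit 335) (nat_lit 305) (nat_lit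 260)) (XT.nd (nat_lit 78) (nat_lit 0) (nat_lit 0) (XT.lf (nat_lit 0) (nat_lit 5347252226) (nat_lit 228) (nat_lit 506151022) (nat_lit 304) (nat_lit 6995169205) (nat_lit 58) (nat_lit 5) (nat_lit 61) (nat_lit 5) (nat_lit 62) (nat_lit 5) (nat_lit 336) (nat_lit 305) (nat_lit 259)) (XT.lf (nat_lit 0) (nat_lit 9004439080) (nat_lit 304) (nat_lit 129614396) (nat_lit 76) (nat_lit 4094782143) (nat_lit 58) (nat_lit 5) (nat_lit 62) (nat_lit 5) (nat_lit 59) (nat_lit 5) (nat_lit 337) (nat_lit 305) (nat_lit 258))))) (XT.nd (nat_lit 234) (nat_lit 456) (nat_lit 0) (XT.nd (nat_lit 78) (nat_lit 304) (nat_lit 0) (XT.lf (nat_lit 0) (nat_lit 7789481228) (nat_lit 228) (nat_lit 4610237894) (nat_lit 304) (nat_lit 1224089785) (nat_lit 55) (nat_lit 5) (nat_lit 58) (nat_lit 5) (nat_lit 59) (nat_lit 5) (nat_lit 338) (nat_lit 305) (nat_lit 257)) (XT.nd (nat_lit 78) (nat_lit 0) (nat_lit 0) (XT.lf (nat_lit 0) (nat_lit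 1858800254) (nat_lit 304) (nat_lit 11997170956) (nat_lit 76) (nat_lit 181373632) (nat_lit 51) (nat_lit 5) (nat_lit 55) (nat_lit 5) (nat_lit 52) (nat_lit 5) (nat_lit 339) (nat_lit 305) (nat_lit 256)) (XT.lf (nat_lit 0) (nat_lit 5188631260) (nat_lit 304) (nat_lit 4116372558) (nat_lit 76) (nat_lit 5158880991) (nat_lit 51) (nat_lit 5) (nat_lit 55) (nat_lit 5) (nat_lit 52) (nat_lit 5) (nat_lit 340) (nat_lit 305) (nat_lit 255)))) (XT.nd (nat_lit 78) (nat_lit 304) (nat_lit 0) (XT.lf (nat_lit 0) (nat_lit 4233540689) (nat_lit 152) (nat_lit 4477443212) (nat_lit 228) (nat_lit 6199492352) (nat_lit 49) (nat_lit 5) (nat_lit 51) (nat_lit 5) (nat_lit 52) (nat_lit 5) (nat_lit 341) (nat_lit 305) (nat_lit 254)) (XT.nd (nat_lit 78) (nat_lit 304) (nat_lit 0) (XT.lf (nat_lit 0) (nat_lit 12450139189) (nat_lit 228) (nat_lit 2303540030) (nat_lit 76) (nat_lit 623708548) (nat_lit 49) (nat_lit 5) (nat_lit 52) (nat_lit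 5) (nat_lit 50) (nat_lit 5) (nat_lit 342) (nat_lit 305) (nat_lit 253)) (XT.lf (nat_lit 0) (nat_lit 632977551) (nat_lit 304) (nat_lit 9303845798) (nat_lit 76) (nat_lit 5923414475) (nat_lit 45) (nat_lit 5) (nat_lit 49) (nat_lit 5) (nat_lit 46) (nat_lit 5) (nat_lit 343) (nat_lit 305) (nat_lit 252))))))))
noncomputable def xc115 : XT := (XT.nd (nat_lit 1794) (nat_lit 988) (nat_lit 0) (XT.nd (nat_lit 858) (nat_lit 684) (nat_lit 0) (XT.nd (nat_lit 390) (nat_lit 456) (nat_lit 0) (XT.nd (nat_lit 156) (nat_lit 380) (nat_lit 0) (XT.nd (nat_lit 78) (nat_lit 152) (nat_lit 0) (XT.lf (nat_lit 0) (nat_lit 4275233059) (nat_lit 304) (nat_lit 533128554) (nat_lit 76) (nat_lit 11556371121) (nat_lit 45) (nat_lit 5) (nat_lit 49) (nat_lit 5) (nat_lit 46) (nat_lit 5) (nat_lit 344) (nat_lit 305) (nat_lit 251)) (XT.lf (nat_lit 0) (nat_lit 8214120273) (nat_lit 228) (nat_lit 7994835113) (nat_lit 76) (nat_lit 679791417)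 (nat_lit 43) (nat_lit 5) (nat_lit 46) (nat_lit 5) (nat_lit 44) (nat_lit 5) (nat_lit 345) (nat_lit 305) (nat_lit 250))) (XT.nd (nat_lit 78) (nat_lit 228) (nat_lit 0) (XT.lf (nat_lit 0) (nat_lit 1277964633) (nat_lit 152) (nat_lit 11144976741) (nat_lit 228) (nat_lit 5012390116) (nat_lit 41) (nat_lit 5) (nat_lit 43) (nat_lit 5) (nat_lit 44) (nat_lit 5) (nat_lit 346) (nat_lit 305) (nat_lit 249)) (XT.nd (nat_lit 78) (nat_lit 228) (nat_lit 0) (XT.lf (nat_lit 0) (nat_lit 11236607094) (nat_lit 152) (nat_lit 5706828050) (nat_lit 228) (nat_lit 1060767152) (nat_lit 41) (nat_lit 5) (nat_lit 43) (nat_lit 5) (nat_lit 44) (nat_lit 5) (nat_lit 347) (nat_lit 305) (nat_lit 248)) (XT.lf (nat_lit 0) (nat_lit 3006026358) (nat_lit 228) (nat_lit 15511211905) (nat_lit 76) (nat_lit 81062236) (nat_lit 38) (nat_lit 5) (nat_lit 41) (nat_lit 5) (nat_lit 39) (nat_lit 5) (nat_lit 348) (nat_lit 305) (nat_lit 247))))) (XT.nd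 (nat_lit 234) (nat_lit 304) (nat_lit 0) (XT.nd (nat_lit 78) (nat_lit 152) (nat_lit 0) (XT.lf (nat_lit 0) (nat_lit 7417895083) (nat_lit 228) (nat_lit 5714010966) (nat_lit 76) (nat_lit 6080474822) (nat_lit 38) (nat_lit 5) (nat_lit 41) (nat_lit 5) (nat_lit 39) (nat_lit 5) (nat_lit 349) (nat_lit 305) (nat_lit 246)) (XT.nd (nat_lit 78) (nat_lit 0) (nat_lit 0) (XT.lf (nat_lit 0) (nat_lit 4670854037) (nat_lit 152) (nat_lit 7421321968) (nat_lit 228) (nat_lit 7762913511) (nat_lit 36) (nat_lit 5) (nat_lit 38) (nat_lit 5) (nat_lit 39) (nat_lit 5) (nat_lit 350) (nat_lit 305) (nat_lit 245)) (XT.lf (nat_lit 0) (nat_lit 15722481117) (nat_lit 152) (nat_lit 1344040242) (nat_lit 228) (nat_lit 3460109182) (nat_lit 36) (nat_lit 5) (nat_lit 38) (nat_lit 5) (nat_lit 39) (nat_lit 5) (nat_lit 351) (nat_lit 305) (nat_lit 244)))) (XT.nd (nat_lit 78) (nat_lit 152) (nat_lit 0) (XT.lf (nat_lit 0) (nat_lit 1171957591)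 (nat_lit 152) (nat_lit 15079396198) (nat_lit 76) (nat_lit 4972183186) (nat_lit 34) (nat_lit 5) (nat_lit 36) (nat_lit 5) (nat_lit 35) (nat_lit 5) (nat_lit 352) (nat_lit 305) (nat_lit 243)) (XT.nd (nat_lit 78) (nat_lit 152) (nat_lit 0) (XT.lf (nat_lit 0) (nat_lit 5994948566) (nat_lit 152) (nat_lit 4274447160) (nat_lit 76) (nat_lit 11679289188) (nat_lit 34) (nat_lit 5) (nat_lit 36) (nat_lit 5) (nat_lit 35) (nat_lit 5) (nat_lit 353) (nat_lit 305) (nat_lit 242)) (XT.lf (nat_lit 0) (nat_lit 7255572149) (nat_lit 152) (nat_lit 3889059039) (nat_lit 228) (nat_lit 11561193859) (nat_lit 32) (nat_lit 5) (nat_lit 34) (nat_lit 5) (nat_lit 35) (nat_lit 5) (nat_lit 354) (nat_lit 305) (nat_lit 241)))))) (XT.nd (nat_lit 468) (nat_lit 304) (nat_lit 0) (XT.nd (nat_lit 234) (nat_lit 228) (nat_lit 0) (XT.nd (nat_lit 78) (nat_lit 152) (nat_lit 0) (XT.lf (nat_lit 0) (nat_lit 16641801755) (nat_lit 228) (nat_lit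 4079474956) (nat_lit 76) (nat_lit 2775056623) (nat_lit 32) (nat_lit 5) (nat_lit 35) (nat_lit 5) (nat_lit 33) (nat_lit 4) (nat_lit 355) (nat_lit 305) (nat_lit 240)) (XT.nd (nat_lit 78) (nat_lit 76) (nat_lit 0) (XT.lf (nat_lit 0) (nat_lit 8006929474) (nat_lit 76) (nat_lit 14569524851) (nat_lit 152) (nat_lit 1741792332) (nat_lit 31) (nat_lit 5) (nat_lit 32) (nat_lit 5) (nat_lit 33) (nat_lit 4) (nat_lit 356) (nat_lit 305) (nat_lit 239)) (XT.lf (nat_lit 0) (nat_lit 3554706300) (nat_lit 152) (nat_lit 4441837345) (nat_lit 76) (nat_lit 17179680950) (nat_lit 30) (nat_lit 5) (nat_lit 32) (nat_lit 5) (nat_lit 31) (nat_lit 5) (nat_lit 357) (nat_lit 305) (nat_lit 238)))) (XT.nd (nat_lit 78) (nat_lit 76) (nat_lit 0) (XT.lf (nat_lit 0) (nat_lit 8212001018) (nat_lit 152) (nat_lit 948920110) (nat_lit 228) (nat_lit 16909590586) (nat_lit 28) (nat_lit 5) (nat_lit 30) (nat_lit 5) (nat_lit 31) (nat_lit 5) (nat_lit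 358) (nat_lit 305) (nat_lit 237)) (XT.nd (nat_lit 78) (nat_lit 76) (nat_lit 0) (XT.lf (nat_lit 0) (nat_lit 15200064596) (nat_lit 228) (nat_lit 5498594460) (nat_lit 76) (nat_lit 6303232119) (nat_lit 28) (nat_lit 5) (nat_lit 31) (nat_lit 5) (nat_lit 29) (nat_lit 4) (nat_lit 359) (nat_lit 305) (nat_lit 236)) (XT.lf (nat_lit 0) (nat_lit 7667619252) (nat_lit 76) (nat_lit 13985425109) (nat_lit 152) (nat_lit 6321209753) (nat_lit 27) (nat_lit 5) (nat_lit 28) (nat_lit 5) (nat_lit 29) (nat_lit 4) (nat_lit 360) (nat_lit 305) (nat_lit 235))))) (XT.nd (nat_lit 234) (nat_lit 76) (nat_lit 0) (XT.nd (nat_lit 78) (nat_lit 228) (nat_lit 0) (XT.lf (nat_lit 0) (nat_lit 21642158689) (nat_lit 76) (nat_lit 6856721311) (nat_lit 152) (nat_lit 492852910) (nat_lit 27) (nat_lit 5) (nat_lit 28) (nat_lit 5) (nat_lit 29) (nat_lit 4) (nat_lit 361) (nat_lit 305) (nat_lit 234)) (XT.nd (nat_lit 78) (nat_lit 0) (nat_lit 0)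 (XT.lf (nat_lit 0) (nat_lit 5536071038) (nat_lit 228) (nat_lit 23734044123) (nat_lit 76) (nat_lit 781122898) (nat_lit 24) (nat_lit 5) (nat_lit 27) (nat_lit 5) (nat_lit 25) (nat_lit 4) (nat_lit 362) (nat_lit 305) (nat_lit 233)) (XT.lf (nat_lit 0) (nat_lit 12066780992) (nat_lit 228) (nat_lit 10397421079) (nat_lit 76) (nat_lit 8688274233) (nat_lit 24) (nat_lit 5) (nat_lit 27) (nat_lit 5) (nat_lit 25) (nat_lit 4) (nat_lit 363) (nat_lit 305) (nat_lit 232)))) (XT.nd (nat_lit 78) (nat_lit 0) (nat_lit 0) (XT.lf (nat_lit 0) (nat_lit 3686045916) (nat_lit 76) (nat_lit 15274566762) (nat_lit 152) (nat_lit 13346341098) (nat_lit 23) (nat_lit 5) (nat_lit 24) (nat_lit 5) (nat_lit 25) (nat_lit 4) (nat_lit 364) (nat_lit 305) (nat_lit 231)) (XT.nd (nat_lit 78) (nat_lit 0) (nat_lit 0) (XT.lf (nat_lit 0) (nat_lit 18797309869) (nat_lit 76) (nat_lit 7557363256) (nat_lit 152) (nat_lit 7156711450) (nat_lit 23) (nat_lit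 5) (nat_lit 24) (nat_lit 5) (nat_lit 25) (nat_lit 4) (nat_lit 365) (nat_lit 305) (nat_lit 230)) (XT.lf (nat_lit 0) (nat_lit 34107136961) (nat_lit 152) (nat_lit 156727189) (nat_lit 0) (nat_lit 512743759) (nat_lit 23) (nat_lit 5) (nat_lit 25) (nat_lit 4) (nat_lit 23) (nat_lit 4) (nat_lit 366) (nat_lit 305) (nat_lit 229))))))) (XT.nd (nat_lit 936) (nat_lit 380) (nat_lit 0) (XT.nd (nat_lit 468) (nat_lit 228) (nat_lit 0) (XT.nd (nat_lit 234) (nat_lit 152) (nat_lit 0) (XT.nd (nat_lit 78) (nat_lit 76) (nat_lit 0) (XT.lf (nat_lit 0) (nat_lit 6297686604) (nat_lit 152) (nat_lit 20724355910) (nat_lit 76) (nat_lit 9060653474) (nat_lit 21) (nat_lit 5) (nat_lit 23) (nat_lit 5) (nat_lit 22) (nat_lit 4) (nat_lit 367) (nat_lit 305) (nat_lit 228)) (XT.nd (nat_lit 78) (nat_lit 76) (nat_lit 0) (XT.lf (nat_lit 0) (nat_lit 13574584421) (nat_lit 152) (nat_lit 5845020383) (nat_lit 76) (nat_lit 18034746064) (nat_lit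 21) (nat_lit 5) (nat_lit 23) (nat_lit 5) (nat_lit 22) (nat_lit 4) (nat_lit 368) (nat_lit 305) (nat_lit 227)) (XT.lf (nat_lit 0) (nat_lit 10067506819) (nat_lit 76) (nat_lit 11287081579) (nat_lit 152) (nat_lit 17533041977) (nat_lit 20) (nat_lit 5) (nat_lit 21) (nat_lit 5) (nat_lit 22) (nat_lit 4) (nat_lit 369) (nat_lit 305) (nat_lit 226)))) (XT.nd (nat_lit 78) (nat_lit 152) (nat_lit 0) (XT.lf (nat_lit 0) (nat_lit 26946120328) (nat_lit 76) (nat_lit 2658886251) (nat_lit 152) (nat_lit 10783501288) (nat_lit 20) (nat_lit 5) (nat_lit 21) (nat_lit 5) (nat_lit 22) (nat_lit 4) (nat_lit 370) (nat_lit 305) (nat_lit 225)) (XT.nd (nat_lit 78) (nat_lit 76) (nat_lit 0) (XT.lf (nat_lit 0) (nat_lit 2657829366) (nat_lit 76) (nat_lit 35734586823) (nat_lit 76) (nat_lit 3565794006) (nat_lit 19) (nat_lit 4) (nat_lit 20) (nat_lit 5) (nat_lit 20) (nat_lit 4) (nat_lit 371) (nat_lit 305) (nat_lit 224)) (XT.lf (nat_lit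 0) (nat_lit 4142425102) (nat_lit 152) (nat_lit 23706834324) (nat_lit 76) (nat_lit 15741106676) (nat_lit 18) (nat_lit 5) (nat_lit 20) (nat_lit 5) (nat_lit 19) (nat_lit 4) (nat_lit 372) (nat_lit 305) (nat_lit 223))))) (XT.nd (nat_lit 234) (nat_lit 152) (nat_lit 0) (XT.nd (nat_lit 78) (nat_lit 76) (nat_lit 0) (XT.lf (nat_lit 0) (nat_lit 12100113888) (nat_lit 152) (nat_lit 7422156092) (nat_lit 76) (nat_lit 25779746279) (nat_lit 18) (nat_lit 5) (nat_lit 20) (nat_lit 5) (nat_lit 19) (nat_lit 4) (nat_lit 373) (nat_lit 305) (nat_lit 222)) (XT.nd (nat_lit 78) (nat_lit 0) (nat_lit 0) (XT.lf (nat_lit 0) (nat_lit 9967108670) (nat_lit 76) (nat_lit 10628852735) (nat_lit 152) (nat_lit 26496277496) (nat_lit 17) (nat_lit 5) (nat_lit 18) (nat_lit 5) (nat_lit 19) (nat_lit 4) (nat_lit 374) (nat_lit 305) (nat_lit 221)) (XT.lf (nat_lit 0) (nat_lit 28455322277) (nat_lit 76) (nat_lit 1171926902) (nat_lit 152)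 (nat_lit 19339194616) (nat_lit 17) (nat_lit 5) (nat_lit 18) (nat_lit 5) (nat_lit 19) (nat_lit 4) (nat_lit 375) (nat_lit 305) (nat_lit 220)))) (XT.nd (nat_lit 78) (nat_lit 152) (nat_lit 0) (XT.lf (nat_lit 0) (nat_lit 39232307134) (nat_lit 152) (nat_lit 3230523710) (nat_lit 0) (nat_lit 8465421149) (nat_lit 17) (nat_lit 5) (nat_lit 19) (nat_lit 4) (nat_lit 17) (nat_lit 4) (nat_lit 376) (nat_lit 305) (nat_lit 219)) (XT.nd (nat_lit 78) (nat_lit 76) (nat_lit 0) (XT.lf (nat_lit 0) (nat_lit 15360449200) (nat_lit 76) (nat_lit 34202363489) (nat_lit 76) (nat_lit 3413081365) (nat_lit 16) (nat_lit 4) (nat_lit 17) (nat_lit 5) (nat_lit 17) (nat_lit 4) (nat_lit 377) (nat_lit 305) (nat_lit 218)) (XT.lf (nat_lit 0) (nat_lit 5156610049) (nat_lit 152) (nat_lit 20239561178) (nat_lit 76) (nat_lit 29723534869) (nat_lit 15) (nat_lit 5) (nat_lit 17) (nat_lit 5) (nat_lit 16) (nat_lit 4) (nat_lit 378) (nat_lit 305)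 (nat_lit 217)))))) (XT.nd (nat_lit 468) (nat_lit 228) (nat_lit 0) (XT.nd (nat_lit 234) (nat_lit 76) (nat_lit 0) (XT.nd (nat_lit 78) (nat_lit 76) (nat_lit 0) (XT.lf (nat_lit 0) (nat_lit 14026937433) (nat_lit 152) (nat_lit 2075704000) (nat_lit 76) (nat_lit 41265929791) (nat_lit 15) (nat_lit 5) (nat_lit 17) (nat_lit 5) (nat_lit 16) (nat_lit 4) (nat_lit 379) (nat_lit 305) (nat_lit 216)) (XT.nd (nat_lit 78) (nat_lit 0) (nat_lit 0) (XT.lf (nat_lit 0) (nat_lit 17533854572) (nat_lit 76) (nat_lit 6068158567) (nat_lit 152) (nat_lit 36114807492) (nat_lit 14) (nat_lit 5) (nat_lit 15) (nat_lit 5) (nat_lit 16) (nat_lit 4) (nat_lit 380) (nat_lit 305) (nat_lit 215)) (XT.lf (nat_lit 0) (nat_lit 33748870514) (nat_lit 152) (nat_lit 24078852324) (nat_lit 0) (nat_lit 4350110777) (nat_lit 14) (nat_lit 5) (nat_lit 16) (nat_lit 4) (nat_lit 14) (nat_lit 4) (nat_lit 381) (nat_lit 305) (nat_lit 214)))) (XT.nd (nat_lit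 78) (nat_lit 76) (nat_lit 0) (XT.lf (nat_lit 0) (nat_lit 44490681901) (nat_lit 152) (nat_lit 5191627345) (nat_lit 0) (nat_lit 15075209821) (nat_lit 14) (nat_lit 5) (nat_lit 16) (nat_lit 4) (nat_lit 14) (nat_lit 4) (nat_lit 382) (nat_lit 305) (nat_lit 213)) (XT.nd (nat_lit 78) (nat_lit 0) (nat_lit 0) (XT.lf (nat_lit 0) (nat_lit 15101770383) (nat_lit 76) (nat_lit 40892292658) (nat_lit 76) (nat_lit 11460904060) (nat_lit 13) (nat_lit 4) (nat_lit 14) (nat_lit 5) (nat_lit 14) (nat_lit 4) (nat_lit 383) (nat_lit 305) (nat_lit 212)) (XT.lf (nat_lit 0) (nat_lit 36568887525) (nat_lit 76) (nat_lit 31580553971) (nat_lit 76) (nat_lit 2134006785) (nat_lit 13) (nat_lit 4) (nat_lit 14) (nat_lit 5) (nat_lit 14) (nat_lit 4) (nat_lit 384) (nat_lit 305) (nat_lit 211))))) (XT.nd (nat_lit 234) (nat_lit 76) (nat_lit 0) (XT.nd (nat_lit 78) (nat_lit 76) (nat_lit 0) (XT.lf (nat_lit 0) (nat_lit 7403350629) (nat_lit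 152) (nat_lit 14284115146) (nat_lit 76) (nat_lit 51560447664) (nat_lit 12) (nat_lit 5) (nat_lit 14) (nat_lit 5) (nat_lit 13) (nat_lit 4) (nat_lit 385) (nat_lit 305) (nat_lit 210)) (XT.nd (nat_lit 78) (nat_lit 0) (nat_lit 0) (XT.lf (nat_lit 0) (nat_lit 6263787416) (nat_lit 76) (nat_lit 11169637286) (nat_lit 152) (nat_lit 58921051561) (nat_lit 11) (nat_lit 5) (nat_lit 12) (nat_lit 5) (nat_lit 13) (nat_lit 4) (nat_lit 386) (nat_lit 305) (nat_lit 209)) (XT.lf (nat_lit 0) (nat_lit 28198723760) (nat_lit 152) (nat_lit 51290880925) (nat_lit 0) (nat_lit 115078253) (nat_lit 11) (nat_lit 5) (nat_lit 13) (nat_lit 4) (nat_lit 11) (nat_lit 4) (nat_lit 387) (nat_lit 305) (nat_lit 208)))) (XT.nd (nat_lit 78) (nat_lit 76) (nat_lit 0) (XT.lf (nat_lit 0) (nat_lit 39675694762) (nat_lit 152) (nat_lit 31752864424) (nat_lit 0) (nat_lit 11580172104) (nat_lit 11) (nat_lit 5) (nat_lit 13) (nat_lit 4) (nat_lit 11)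 (nat_lit 4) (nat_lit 388) (nat_lit 305) (nat_lit 207)) (XT.nd (nat_lit 78) (nat_lit 76) (nat_lit 0) (XT.lf (nat_lit 0) (nat_lit 51717274488) (nat_lit 152) (nat_lit 11255730915) (nat_lit 0) (nat_lit 23610440258) (nat_lit 11) (nat_lit 5) (nat_lit 13) (nat_lit 4) (nat_lit 11) (nat_lit 4) (nat_lit 389) (nat_lit 305) (nat_lit 206)) (XT.lf (nat_lit 0) (nat_lit 10588211181) (nat_lit 76) (nat_lit 53929233833) (nat_lit 76) (nat_lit 25811626678) (nat_lit 10) (nat_lit 4) (nat_lit 11) (nat_lit 5) (nat_lit 11) (nat_lit 4) (nat_lit 390) (nat_lit 305) (nat_lit 205))))))))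
noncomputable def xc116 : XT := (XT.nd (nat_lit 1794) (nat_lit 228) (nat_lit 0) (XT.nd (nat_lit 858) (nat_lit 152) (nat_lit 0) (XT.nd (nat_lit 390) (nat_lit 76) (nat_lit 0) (XT.nd (nat_lit 156) (nat_lit 152) (nat_lit 0) (XT.nd (nat_lit 78) (nat_lit 0) (nat_lit 0) (XT.lf (nat_lit 0) (nat_lit 33898460151) (nat_lit 76) (nat_lit 44241144203) (nat_lit 76) (nat_lit 16113277118) (nat_lit 10) (nat_lit 4) (nat_lit 11) (nat_lit 5) (nat_lit 11) (nat_lit 4) (nat_lit 391) (nat_lit 305) (nat_lit 204)) (XT.lf (nat_lit 0) (nat_lit 58358351292) (nat_lit 76) (nat_lit 34076290880) (nat_lit 76) (nat_lit 5938652434) (nat_lit 10) (nat_lit 4) (nat_lit 11) (nat_lit 5) (nat_lit 11) (nat_lit 4) (nat_lit 392) (nat_lit 305) (nat_lit 203))) (XT.nd (nat_lit 78) (nat_lit 76) (nat_lit 0) (XT.lf (nat_lit 0) (nat_lit 4584875964) (nat_lit 152) (nat_lit 18747948777) (nat_lit 76) (nat_lit 79363599381) (nat_lit 9) (nat_lit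 5) (nat_lit 11) (nat_lit 5) (nat_lit 10) (nat_lit 4) (nat_lit 393) (nat_lit 305) (nat_lit 202)) (XT.nd (nat_lit 78) (nat_lit 0) (nat_lit 0) (XT.lf (nat_lit 0) (nat_lit 3585140510) (nat_lit 76) (nat_lit 11898248722) (nat_lit 152) (nat_lit 91745035030) (nat_lit 8) (nat_lit 5) (nat_lit 9) (nat_lit 5) (nat_lit 10) (nat_lit 4) (nat_lit 394) (nat_lit 305) (nat_lit 201)) (XT.lf (nat_lit 0) (nat_lit 27243665530) (nat_lit 152) (nat_lit 84306946229) (nat_lit 0) (nat_lit 420571925) (nat_lit 8) (nat_lit 5) (nat_lit 10) (nat_lit 4) (nat_lit 8) (nat_lit 4) (nat_lit 395) (nat_lit 305) (nat_lit 200))))) (XT.nd (nat_lit 234) (nat_lit 76) (nat_lit 0) (XT.nd (nat_lit 78) (nat_lit 0) (nat_lit 0) (XT.lf (nat_lit 0) (nat_lit 39779808629) (nat_lit 152) (nat_lit 64212821983) (nat_lit 0) (nat_lit 12949058906) (nat_lit 8) (nat_lit 5) (nat_lit 10) (nat_lit 4) (nat_lit 8) (nat_lit 4) (nat_lit 396) (nat_lit 305) (nat_lit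 199)) (XT.nd (nat_lit 78) (nat_lit 0) (nat_lit 0) (XT.lf (nat_lit 0) (nat_lit 52935901481) (nat_lit 152) (nat_lit 43127302854) (nat_lit 0) (nat_lit 26097860218) (nat_lit 8) (nat_lit 5) (nat_lit 10) (nat_lit 4) (nat_lit 8) (nat_lit 4) (nat_lit 397) (nat_lit 305) (nat_lit 198)) (XT.lf (nat_lit 0) (nat_lit 66743268116) (nat_lit 152) (nat_lit 21000185226) (nat_lit 0) (nat_lit 39898282528) (nat_lit 8) (nat_lit 5) (nat_lit 10) (nat_lit 4) (nat_lit 8) (nat_lit 4) (nat_lit 398) (nat_lit 305) (nat_lit 197)))) (XT.nd (nat_lit 78) (nat_lit 0) (nat_lit 0) (XT.lf (nat_lit 0) (nat_lit 2294657897) (nat_lit 76) (nat_lit 78975951359) (nat_lit 76) (nat_lit 52124352130) (nat_lit 7) (nat_lit 4) (nat_lit 8) (nat_lit 5) (nat_lit 8) (nat_lit 4) (nat_lit 399) (nat_lit 305) (nat_lit 196)) (XT.nd (nat_lit 78) (nat_lit 0) (nat_lit 0) (XT.lf (nat_lit 0) (nat_lit 27471443159) (nat_lit 76) (nat_lit 69402413447) (nat_lit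 76) (nat_lit 42544515511) (nat_lit 7) (nat_lit 4) (nat_lit 8) (nat_lit 5) (nat_lit 8) (nat_lit 4) (nat_lit 400) (nat_lit 305) (nat_lit 195)) (XT.lf (nat_lit 0) (nat_lit 53895754322) (nat_lit 76) (nat_lit 59355693766) (nat_lit 76) (nat_lit 32491797062) (nat_lit 7) (nat_lit 4) (nat_lit 8) (nat_lit 5) (nat_lit 8) (nat_lit 4) (nat_lit 401) (nat_lit 305) (nat_lit 194)))))) (XT.nd (nat_lit 468) (nat_lit 0) (nat_lit 0) (XT.nd (nat_lit 234) (nat_lit 76) (nat_lit 0) (XT.nd (nat_lit 78) (nat_lit 76) (nat_lit 0) (XT.lf (nat_lit 0) (nat_lit 81630506413) (nat_lit 76) (nat_lit 48811871555) (nat_lit 76) (nat_lit 21942261739) (nat_lit 7) (nat_lit 4) (nat_lit 8) (nat_lit 5) (nat_lit 8) (nat_lit 4) (nat_lit 402) (nat_lit 305) (nat_lit 193)) (XT.nd (nat_lit 78) (nat_lit 76) (nat_lit 0) (XT.lf (nat_lit 0) (nat_lit 110741734555) (nat_lit 76) (nat_lit 37745842477) (nat_lit 76) (nat_lit 10870791601) (nat_lit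 7) (nat_lit 4) (nat_lit 8) (nat_lit 5) (nat_lit 8) (nat_lit 4) (nat_lit 403) (nat_lit 305) (nat_lit 192)) (XT.lf (nat_lit 0) (nat_lit 725002150) (nat_lit 152) (nat_lit 25393978429) (nat_lit 76) (nat_lit 140561470785) (nat_lit 6) (nat_lit 5) (nat_lit 8) (nat_lit 5) (nat_lit 7) (nat_lit 4) (nat_lit 404) (nat_lit 305) (nat_lit 191)))) (XT.nd (nat_lit 78) (nat_lit 76) (nat_lit 0) (XT.lf (nat_lit 0) (nat_lit 12530389881) (nat_lit 152) (nat_lit 1197868782) (nat_lit 76) (nat_lit 160631713044) (nat_lit 6) (nat_lit 5) (nat_lit 8) (nat_lit 5) (nat_lit 7) (nat_lit 4) (nat_lit 405) (nat_lit 305) (nat_lit 190)) (XT.nd (nat_lit 78) (nat_lit 0) (nat_lit 0) (XT.lf (nat_lit 0) (nat_lit 24999157327) (nat_lit 76) (nat_lit 312562456) (nat_lit 152) (nat_lit 157092465280) (nat_lit 5) (nat_lit 5) (nat_lit 6) (nat_lit 5) (nat_lit 7) (nat_lit 4) (nat_lit 406) (nat_lit 305) (nat_lit 189)) (XT.lf (nat_lit 0) (nat_lit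 38963165270) (nat_lit 152) (nat_lit 138526388229) (nat_lit 0) (nat_lit 13349503742) (nat_lit 5) (nat_lit 5) (nat_lit 7) (nat_lit 4) (nat_lit 5) (nat_lit 4) (nat_lit 407) (nat_lit 305) (nat_lit 188))))) (XT.nd (nat_lit 234) (nat_lit 0) (nat_lit 0) (XT.nd (nat_lit 78) (nat_lit 0) (nat_lit 0) (XT.lf (nat_lit 0) (nat_lit 53297907542) (nat_lit 152) (nat_lit 118717544026) (nat_lit 0) (nat_lit 27680185813) (nat_lit 5) (nat_lit 5) (nat_lit 7) (nat_lit 4) (nat_lit 5) (nat_lit 4) (nat_lit 408) (nat_lit 305) (nat_lit 187)) (XT.nd (nat_lit 78) (nat_lit 0) (nat_lit 0) (XT.lf (nat_lit 0) (nat_lit 68345196965) (nat_lit 152) (nat_lit 97926451235) (nat_lit 0) (nat_lit 42723608376) (nat_lit 5) (nat_lit 5) (nat_lit 7) (nat_lit 4) (nat_lit 5) (nat_lit 4) (nat_lit 409) (nat_lit 305) (nat_lit 186)) (XT.lf (nat_lit 0) (nat_lit 84140860417) (nat_lit 152) (nat_lit 76103607255) (nat_lit 0) (nat_lit 58515589105)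 (nat_lit 5) (nat_lit 5) (nat_lit 7) (nat_lit 4) (nat_lit 5) (nat_lit 4) (nat_lit 410) (nat_lit 305) (nat_lit 185)))) (XT.nd (nat_lit 78) (nat_lit 0) (nat_lit 0) (XT.lf (nat_lit 0) (nat_lit 100722506621) (nat_lit 152) (nat_lit 53197052934) (nat_lit 0) (nat_lit 75093727953) (nat_lit 5) (nat_lit 5) (nat_lit 7) (nat_lit 4) (nat_lit 5) (nat_lit 4) (nat_lit 411) (nat_lit 305) (nat_lit 184)) (XT.nd (nat_lit 78) (nat_lit 0) (nat_lit 0) (XT.lf (nat_lit 0) (nat_lit 118129615687) (nat_lit 152) (nat_lit 29152248857) (nat_lit 0) (nat_lit 92497496680) (nat_lit 5) (nat_lit 5) (nat_lit 7) (nat_lit 4) (nat_lit 5) (nat_lit 4) (nat_lit 412) (nat_lit 305) (nat_lit 183)) (XT.lf (nat_lit 0) (nat_lit 136403633112) (nat_lit 152) (nat_lit 3911945490) (nat_lit 0) (nat_lit 110768332831) (nat_lit 5) (nat_lit 5) (nat_lit 7) (nat_lit 4) (nat_lit 5) (nat_lit 4) (nat_lit 413) (nat_lit 305) (nat_lit 182))))))) (XT.nd (nat_lit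 936) (nat_lit 76) (nat_lit 0) (XT.nd (nat_lit 468) (nat_lit 76) (nat_lit 0) (XT.nd (nat_lit 234) (nat_lit 0) (nat_lit 0) (XT.nd (nat_lit 78) (nat_lit 0) (nat_lit 0) (XT.lf (nat_lit 0) (nat_lit 23330680608) (nat_lit 76) (nat_lit 132621645163) (nat_lit 76) (nat_lit 106983315096) (nat_lit 4) (nat_lit 4) (nat_lit 5) (nat_lit 5) (nat_lit 5) (nat_lit 4) (nat_lit 414) (nat_lit 305) (nat_lit 181)) (XT.nd (nat_lit 78) (nat_lit 0) (nat_lit 0) (XT.lf (nat_lit 0) (nat_lit 52064935555) (nat_lit 76) (nat_lit 124476542966) (nat_lit 76) (nat_lit 98835327389) (nat_lit 4) (nat_lit 4) (nat_lit 5) (nat_lit 5) (nat_lit 5) (nat_lit 4) (nat_lit 415) (nat_lit 305) (nat_lit 180)) (XT.lf (nat_lit 0) (nat_lit 82229887657) (nat_lit 76) (nat_lit 115927129601) (nat_lit 76) (nat_lit 90283165919) (nat_lit 4) (nat_lit 4) (nat_lit 5) (nat_lit 5) (nat_lit 5) (nat_lit 4) (nat_lit 416) (nat_lit 305) (nat_lit 179)))) (XT.nd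 (nat_lit 78) (nat_lit 0) (nat_lit 0) (XT.lf (nat_lit 0) (nat_lit 113897358230) (nat_lit 76) (nat_lit 106953049323) (nat_lit 76) (nat_lit 81306468398) (nat_lit 4) (nat_lit 4) (nat_lit 5) (nat_lit 5) (nat_lit 5) (nat_lit 4) (nat_lit 417) (nat_lit 305) (nat_lit 178)) (XT.nd (nat_lit 78) (nat_lit 0) (nat_lit 0) (XT.lf (nat_lit 0) (nat_lit 147142746013) (nat_lit 76) (nat_lit 97532935273) (nat_lit 76) (nat_lit 71883861736) (nat_lit 4) (nat_lit 4) (nat_lit 5) (nat_lit 5) (nat_lit 5) (nat_lit 4) (nat_lit 418) (nat_lit 305) (nat_lit 177)) (XT.lf (nat_lit 0) (nat_lit 182045206691) (nat_lit 76) (nat_lit 87644358608) (nat_lit 76) (nat_lit 61992911156) (nat_lit 4) (nat_lit 4) (nat_lit 5) (nat_lit 5) (nat_lit 5) (nat_lit 4) (nat_lit 419) (nat_lit 305) (nat_lit 176))))) (XT.nd (nat_lit 234) (nat_lit 76) (nat_lit 0) (XT.nd (nat_lit 78) (nat_lit 0) (nat_lit 0) (XT.lf (nat_lit 0) (nat_lit 218687841360) (nat_lit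 76) (nat_lit 77263775099) (nat_lit 76) (nat_lit 51610066774) (nat_lit 4) (nat_lit 4) (nat_lit 5) (nat_lit 5) (nat_lit 5) (nat_lit 4) (nat_lit 420) (nat_lit 305) (nat_lit 175)) (XT.nd (nat_lit 78) (nat_lit 0) (nat_lit 0) (XT.lf (nat_lit 0) (nat_lit 257157894390) (nat_lit 76) (nat_lit 66366469070) (nat_lit 76) (nat_lit 40710607533) (nat_lit 4) (nat_lit 4) (nat_lit 5) (nat_lit 5) (nat_lit 5) (nat_lit 4) (nat_lit 421) (nat_lit 305) (nat_lit 174)) (XT.lf (nat_lit 0) (nat_lit 297546961144) (nat_lit 76) (nat_lit 54926494555) (nat_lit 76) (nat_lit 29268582340) (nat_lit 4) (nat_lit 4) (nat_lit 5) (nat_lit 5) (nat_lit 5) (nat_lit 4) (nat_lit 422) (nat_lit 305) (nat_lit 173)))) (XT.nd (nat_lit 78) (nat_lit 76) (nat_lit 0) (XT.lf (nat_lit 0) (nat_lit 339951206067) (nat_lit 76) (nat_lit 42916613519) (nat_lit 76) (nat_lit 17256748277) (nat_lit 4) (nat_lit 4) (nat_lit 5) (nat_lit 5) (nat_lit 5) (nat_lit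 4) (nat_lit 423) (nat_lit 305) (nat_lit 172)) (XT.nd (nat_lit 78) (nat_lit 76) (nat_lit 0) (XT.lf (nat_lit 0) (nat_lit 384471591647) (nat_lit 76) (nat_lit 30308231007) (nat_lit 76) (nat_lit 4646505740) (nat_lit 4) (nat_lit 4) (nat_lit 5) (nat_lit 5) (nat_lit 5) (nat_lit 4) (nat_lit 424) (nat_lit 305) (nat_lit 171)) (XT.lf (nat_lit 0) (nat_lit 8317166570) (nat_lit 152) (nat_lit 8613305251) (nat_lit 76) (nat_lit 422756096991) (nat_lit 3) (nat_lit 5) (nat_lit 5) (nat_lit 5) (nat_lit 4) (nat_lit 4) (nat_lit 425) (nat_lit 305) (nat_lit 170)))))) (XT.nd (nat_lit 468) (nat_lit 0) (nat_lit 0) (XT.nd (nat_lit 234) (nat_lit 0) (nat_lit 0) (XT.nd (nat_lit 78) (nat_lit 0) (nat_lit 0) (XT.lf (nat_lit 0) (nat_lit 19592346374) (nat_lit 76) (nat_lit 2484497621) (nat_lit 152) (nat_lit 438863970144) (nat_lit 2) (nat_lit 5) (nat_lit 3) (nat_lit 5) (nat_lit 4) (nat_lit 4) (nat_lit 426) (nat_lit 305) (nat_lit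 169)) (XT.nd (nat_lit 78) (nat_lit 0) (nat_lit 0) (XT.lf (nat_lit 0) (nat_lit 36868884783) (nat_lit 152) (nat_lit 433947345867) (nat_lit 0) (nat_lit 12424322328) (nat_lit 2) (nat_lit 5) (nat_lit 4) (nat_lit 4) (nat_lit 2) (nat_lit 4) (nat_lit 427) (nat_lit 305) (nat_lit 168)) (XT.lf (nat_lit 0) (nat_lit 52439436506) (nat_lit 152) (nat_lit 426220480342) (nat_lit 0) (nat_lit 27993416672) (nat_lit 2) (nat_lit 5) (nat_lit 4) (nat_lit 4) (nat_lit 2) (nat_lit 4) (nat_lit 428) (nat_lit 305) (nat_lit 167)))) (XT.nd (nat_lit 78) (nat_lit 0) (nat_lit 0) (XT.lf (nat_lit 0) (nat_lit 68786781937) (nat_lit 152) (nat_lit 418110683921) (nat_lit 0) (nat_lit 44339374123) (nat_lit 2) (nat_lit 5) (nat_lit 4) (nat_lit 4) (nat_lit 2) (nat_lit 4) (nat_lit 429) (nat_lit 305) (nat_lit 166)) (XT.nd (nat_lit 78) (nat_lit 0) (nat_lit 0) (XT.lf (nat_lit 0) (nat_lit 85949843327) (nat_lit 152) (nat_lit 409598647565)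 (nat_lit 0) (nat_lit 61501113627) (nat_lit 2) (nat_lit 5) (nat_lit 4) (nat_lit 4) (nat_lit 2) (nat_lit 4) (nat_lit 430) (nat_lit 305) (nat_lit 165)) (XT.lf (nat_lit 0) (nat_lit 103969485107) (nat_lit 152) (nat_lit 400664104522) (nat_lit 0) (nat_lit 79519496469) (nat_lit 2) (nat_lit 5) (nat_lit 4) (nat_lit 4) (nat_lit 2) (nat_lit 4) (nat_lit 431) (nat_lit 305) (nat_lit 164))))) (XT.nd (nat_lit 37050) (nat_lit 0) (nat_lit 10260) (XT.nd (nat_lit 78) (nat_lit 0) (nat_lit 0) (XT.lf (nat_lit 0) (nat_lit 122888611186) (nat_lit 152) (nat_lit 391285782068) (nat_lit 0) (nat_lit 98437423559) (nat_lit 2) (nat_lit 5) (nat_lit 4) (nat_lit 4) (nat_lit 2) (nat_lit 4) (nat_lit 432) (nat_lit 305) (nat_lit 163)) (XT.nd (nat_lit 78) (nat_lit 0) (nat_lit 0) (XT.lf (nat_lit 0) (nat_lit 142752267104) (nat_lit 152) (nat_lit 381441350867) (nat_lit 0) (nat_lit 118299937582) (nat_lit 2) (nat_lit 5) (nat_lit 4) (nat_lit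 4) (nat_lit 2) (nat_lit 4) (nat_lit 433) (nat_lit 305) (nat_lit 162)) (XT.lf (nat_lit 0) (nat_lit 163607747278) (nat_lit 152) (nat_lit 371107371795) (nat_lit 0) (nat_lit 139154330238) (nat_lit 2) (nat_lit 5) (nat_lit 4) (nat_lit 4) (nat_lit 2) (nat_lit 4) (nat_lit 434) (nat_lit 305) (nat_lit 161)))) (XT.nd (nat_lit 78) (nat_lit 456) (nat_lit 0) (XT.lf (nat_lit 0) (nat_lit 926677984) (nat_lit 0) (nat_lit 926677984) (nat_lit 380) (nat_lit 1577701040) (nat_lit 143) (nat_lit 5) (nat_lit 143) (nat_lit 3) (nat_lit 148) (nat_lit 3) (nat_lit 306) (nat_lit 306) (nat_lit 288)) (XT.nd (nat_lit 78) (nat_lit 456) (nat_lit 0) (XT.lf (nat_lit 0) (nat_lit 5238834352) (nat_lit 0) (nat_lit 441543506) (nat_lit 380) (nat_lit 1256381438) (nat_lit 143) (nat_lit 5) (nat_lit 143) (nat_lit 3) (nat_lit 148) (nat_lit 3) (nat_lit 307) (nat_lit 306) (nat_lit 287)) (XT.lf (nat_lit 0) (nat_lit 636681365) (nat_lit 456)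 (nat_lit 5278491220) (nat_lit 532) (nat_lit 1103427745) (nat_lit 137) (nat_lit 5) (nat_lit 143) (nat_lit 5) (nat_lit 144) (nat_lit 5) (nat_lit 308) (nat_lit 306) (nat_lit 286))))))))
noncomputable def xc117 : XT := (XT.nd (nat_lit 1794) (nat_lit 2812) (nat_lit 0) (XT.nd (nat_lit 858) (nat_lit 2888) (nat_lit 0) (XT.nd (nat_lit 390) (nat_lit 1824) (nat_lit 0) (XT.nd (nat_lit 156) (nat_lit 456) (nat_lit 0) (XT.nd (nat_lit 78) (nat_lit 0) (nat_lit 0) (XT.lf (nat_lit 0) (nat_lit 2501775812) (nat_lit 456) (nat_lit 1792699555) (nat_lit 532) (nat_lit 2813214087) (nat_lit 137) (nat_lit 5) (nat_lit 143) (nat_lit 5) (nat_lit 144) (nat_lit 5) (nat_lit 309) (nat_lit 306) (nat_lit 285)) (XT.lf (nat_lit 76) (nat_lit 1859968829) (nat_lit 0) (nat_lit 2517896587) (nat_lit 532) (nat_lit 2827638617) (nat_lit 138) (nat_lit 5) (nat_lit 137) (nat_lit 5) (nat_lit 144) (nat_lit 5) (nat_lit 310) (nat_lit 306) (nat_lit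 284))) (XT.nd (nat_lit 78) (nat_lit 456) (nat_lit 0) (XT.lf (nat_lit 76) (nat_lit 5691645367) (nat_lit 0) (nat_lit 579447108) (nat_lit 532) (nat_lit 1041100713) (nat_lit 138) (nat_lit 5) (nat_lit 137) (nat_lit 5) (nat_lit 144) (nat_lit 5) (nat_lit 311) (nat_lit 306) (nat_lit 283)) (XT.nd (nat_lit 78) (nat_lit 0) (nat_lit 0) (XT.lf (nat_lit 0) (nat_lit 764087163) (nat_lit 532) (nat_lit 5166739864) (nat_lit 608) (nat_lit 1495072586) (nat_lit 131) (nat_lit 5) (nat_lit 138) (nat_lit 5) (nat_lit 139) (nat_lit 5) (nat_lit 312) (nat_lit 306) (nat_lit 282)) (XT.lf (nat_lit 0) (nat_lit 2562661760) (nat_lit 532) (nat_lit 1252706737) (nat_lit 608) (nat_lit 3732293748) (nat_lit 131) (nat_lit 5) (nat_lit 138) (nat_lit 5) (nat_lit 139) (nat_lit 5) (nat_lit 313) (nat_lit 306) (nat_lit 281))))) (XT.nd (nat_lit 234) (nat_lit 1292) (nat_lit 0) (XT.nd (nat_lit 78) (nat_lit 532) (nat_lit 0) (XT.lf (nat_lit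 76) (nat_lit 2881751813) (nat_lit 0) (nat_lit 1519854380) (nat_lit 608) (nat_lit 3276508571) (nat_lit 132) (nat_lit 5) (nat_lit 131) (nat_lit 5) (nat_lit 139) (nat_lit 5) (nat_lit 314) (nat_lit 306) (nat_lit 280)) (XT.nd (nat_lit 78) (nat_lit 608) (nat_lit 0) (XT.lf (nat_lit 0) (nat_lit 6277262400) (nat_lit 532) (nat_lit 633333384) (nat_lit 76) (nat_lit 907373814) (nat_lit 132) (nat_lit 5) (nat_lit 139) (nat_lit 5) (nat_lit 133) (nat_lit 5) (nat_lit 315) (nat_lit 306) (nat_lit 279)) (XT.lf (nat_lit 0) (nat_lit 270031693) (nat_lit 608) (nat_lit 4204046215) (nat_lit 76) (nat_lit 3490767694) (nat_lit 124) (nat_lit 5) (nat_lit 132) (nat_lit 5) (nat_lit 125) (nat_lit 5) (nat_lit 316) (nat_lit 306) (nat_lit 278)))) (XT.nd (nat_lit 78) (nat_lit 684) (nat_lit 0) (XT.lf (nat_lit 0) (nat_lit 188825725) (nat_lit 608) (nat_lit 1859770508) (nat_lit 684) (nat_lit 6072854830) (nat_lit 116) (nat_lit 5)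 (nat_lit 124) (nat_lit 5) (nat_lit 125) (nat_lit 5) (nat_lit 317) (nat_lit 306) (nat_lit 277)) (XT.nd (nat_lit 78) (nat_lit 684) (nat_lit 0) (XT.lf (nat_lit 0) (nat_lit 3920659634) (nat_lit 684) (nat_lit 3423166059) (nat_lit 76) (nat_lit 941929580) (nat_lit 116) (nat_lit 5) (nat_lit 125) (nat_lit 5) (nat_lit 117) (nat_lit 5) (nat_lit 318) (nat_lit 306) (nat_lit 276)) (XT.lf (nat_lit 0) (nat_lit 1251675820) (nat_lit 684) (nat_lit 4606951675) (nat_lit 760) (nat_lit 2601124527) (nat_lit 107) (nat_lit 5) (nat_lit 116) (nat_lit 5) (nat_lit 117) (nat_lit 5) (nat_lit 319) (nat_lit 306) (nat_lit 275)))))) (XT.nd (nat_lit 468) (nat_lit 1368) (nat_lit 0) (XT.nd (nat_lit 234) (nat_lit 684) (nat_lit 0) (XT.nd (nat_lit 78) (nat_lit 836) (nat_lit 0) (XT.lf (nat_lit 0) (nat_lit 6210564234) (nat_lit 684) (nat_lit 1665804844) (nat_lit 760) (nat_lit 767023754) (nat_lit 107) (nat_lit 5) (nat_lit 116) (nat_lit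 5) (nat_lit 117) (nat_lit 5) (nat_lit 320) (nat_lit 306) (nat_lit 274)) (XT.nd (nat_lit 78) (nat_lit 0) (nat_lit 0) (XT.lf (nat_lit 0) (nat_lit 1112408116) (nat_lit 836) (nat_lit 6282425670) (nat_lit 76) (nat_lit 1441021398) (nat_lit 96) (nat_lit 5) (nat_lit 107) (nat_lit 5) (nat_lit 97) (nat_lit 5) (nat_lit 321) (nat_lit 306) (nat_lit 273)) (XT.lf (nat_lit 0) (nat_lit 3058926276) (nat_lit 836) (nat_lit 1273296106) (nat_lit 76) (nat_lit 4705220988) (nat_lit 96) (nat_lit 5) (nat_lit 107) (nat_lit 5) (nat_lit 97) (nat_lit 5) (nat_lit 322) (nat_lit 306) (nat_lit 272)))) (XT.nd (nat_lit 78) (nat_lit 304) (nat_lit 0) (XT.lf (nat_lit 0) (nat_lit 4048908391) (nat_lit 380) (nat_lit 1050130939) (nat_lit 456) (nat_lit 4150330576) (nat_lit 91) (nat_lit 5) (nat_lit 96) (nat_lit 5) (nat_lit 97) (nat_lit 5) (nat_lit 323) (nat_lit 306) (nat_lit 271)) (XT.nd (nat_lit 78) (nat_lit 0) (nat_lit 0) (XT.lf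 (nat_lit 0) (nat_lit 107096740) (nat_lit 304) (nat_lit 7130256130) (nat_lit 380) (nat_lit 2234799101) (nat_lit 87) (nat_lit 5) (nat_lit 91) (nat_lit 5) (nat_lit 92) (nat_lit 5) (nat_lit 324) (nat_lit 306) (nat_lit 270)) (XT.lf (nat_lit 0) (nat_lit 5774729834) (nat_lit 304) (nat_lit 3750081436) (nat_lit 380) (nat_lit 179216068) (nat_lit 87) (nat_lit 5) (nat_lit 91) (nat_lit 5) (nat_lit 92) (nat_lit 5) (nat_lit 325) (nat_lit 306) (nat_lit 269))))) (XT.nd (nat_lit 234) (nat_lit 608) (nat_lit 0) (XT.nd (nat_lit 78) (nat_lit 304) (nat_lit 0) (XT.lf (nat_lit 0) (nat_lit 1736014873) (nat_lit 380) (nat_lit 146058362) (nat_lit 456) (nat_lit 8065624186) (nat_lit 81) (nat_lit 5) (nat_lit 86) (nat_lit 5) (nat_lit 87) (nat_lit 5) (nat_lit 326) (nat_lit 306) (nat_lit 268)) (XT.nd (nat_lit 78) (nat_lit 304) (nat_lit 0) (XT.lf (nat_lit 0) (nat_lit 4105771824) (nat_lit 456) (nat_lit 2508760793) (nat_lit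 76) (nat_lit 3585659832) (nat_lit 81) (nat_lit 5) (nat_lit 87) (nat_lit 5) (nat_lit 82) (nat_lit 5) (nat_lit 327) (nat_lit 306) (nat_lit 267)) (XT.lf (nat_lit 0) (nat_lit 3524268008) (nat_lit 304) (nat_lit 2917548515) (nat_lit 380) (nat_lit 4023491662) (nat_lit 77) (nat_lit 5) (nat_lit 81) (nat_lit 5) (nat_lit 82) (nat_lit 5) (nat_lit 328) (nat_lit 306) (nat_lit 266)))) (XT.nd (nat_lit 78) (nat_lit 608) (nat_lit 0) (XT.lf (nat_lit 0) (nat_lit 8898165872) (nat_lit 380) (nat_lit 878275523) (nat_lit 76) (nat_lit 967114640) (nat_lit 77) (nat_lit 5) (nat_lit 82) (nat_lit 5) (nat_lit 78) (nat_lit 5) (nat_lit 329) (nat_lit 306) (nat_lit 265)) (XT.nd (nat_lit 78) (nat_lit 228) (nat_lit 0) (XT.lf (nat_lit 0) (nat_lit 511193514) (nat_lit 380) (nat_lit 5486161256) (nat_lit 76) (nat_lit 5033877848) (nat_lit 72) (nat_lit 5) (nat_lit 77) (nat_lit 5) (nat_lit 73) (nat_lit 5) (nat_lit 330) (nat_lit 306)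 (nat_lit 264)) (XT.lf (nat_lit 0) (nat_lit 921999646) (nat_lit 228) (nat_lit 1979599345) (nat_lit 304) (nat_lit 8431325373) (nat_lit 69) (nat_lit 5) (nat_lit 72) (nat_lit 5) (nat_lit 73) (nat_lit 5) (nat_lit 331) (nat_lit 306) (nat_lit 263))))))) (XT.nd (nat_lit 936) (nat_lit 1292) (nat_lit 0) (XT.nd (nat_lit 468) (nat_lit 684) (nat_lit 0) (XT.nd (nat_lit 234) (nat_lit 532) (nat_lit 0) (XT.nd (nat_lit 78) (nat_lit 304) (nat_lit 0) (XT.lf (nat_lit 0) (nat_lit 5490664351) (nat_lit 304) (nat_lit 3906335572) (nat_lit 76) (nat_lit 2248786120) (nat_lit 69) (nat_lit 5) (nat_lit 73) (nat_lit 5) (nat_lit 70) (nat_lit 5) (nat_lit 332) (nat_lit 306) (nat_lit 262)) (XT.nd (nat_lit 78) (nat_lit 0) (nat_lit 0) (XT.lf (nat_lit 0) (nat_lit 2921847707) (nat_lit 304) (nat_lit 5317546840) (nat_lit 380) (nat_lit 3733425989) (nat_lit 65) (nat_lit 5) (nat_lit 69) (nat_lit 5) (nat_lit 70) (nat_lit 5) (nat_lit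 333) (nat_lit 306) (nat_lit 261)) (XT.lf (nat_lit 0) (nat_lit 10165370347) (nat_lit 304) (nat_lit 979803347) (nat_lit 380) (nat_lit 1170090829) (nat_lit 65) (nat_lit 5) (nat_lit 69) (nat_lit 5) (nat_lit 70) (nat_lit 5) (nat_lit 334) (nat_lit 306) (nat_lit 260)))) (XT.nd (nat_lit 78) (nat_lit 228) (nat_lit 0) (XT.lf (nat_lit 0) (nat_lit 1565760161) (nat_lit 304) (nat_lit 7551246731) (nat_lit 76) (nat_lit 3552018777) (nat_lit 61) (nat_lit 5) (nat_lit 65) (nat_lit 5) (nat_lit 62) (nat_lit 5) (nat_lit 335) (nat_lit 306) (nat_lit 259)) (XT.nd (nat_lit 78) (nat_lit 228) (nat_lit 0) (XT.lf (nat_lit 0) (nat_lit 4408040905) (nat_lit 304) (nat_lit 312310636) (nat_lit 76) (nat_lit 8318749406) (nat_lit 61) (nat_lit 5) (nat_lit 65) (nat_lit 5) (nat_lit 62) (nat_lit 5) (nat_lit 336) (nat_lit 306) (nat_lit 258)) (XT.lf (nat_lit 0) (nat_lit 7467078107) (nat_lit 304) (nat_lit 5954752293) (nat_lit 76) (nat_lit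 2149052) (nat_lit 58) (nat_lit 5) (nat_lit 62) (nat_lit 5) (nat_lit 59) (nat_lit 5) (nat_lit 337) (nat_lit 306) (nat_lit 257))))) (XT.nd (nat_lit 234) (nat_lit 152) (nat_lit 0) (XT.nd (nat_lit 78) (nat_lit 304) (nat_lit 0) (XT.lf (nat_lit 0) (nat_lit 1741881088) (nat_lit 228) (nat_lit 9005977738) (nat_lit 304) (nat_lit 3076833554) (nat_lit 55) (nat_lit 5) (nat_lit 58) (nat_lit 5) (nat_lit 59) (nat_lit 5) (nat_lit 338) (nat_lit 306) (nat_lit 256)) (XT.nd (nat_lit 78) (nat_lit 228) (nat_lit 0) (XT.lf (nat_lit 0) (nat_lit 10628258) (nat_lit 304) (nat_lit 4270814631) (nat_lit 76) (nat_lit 9960981439) (nat_lit 54) (nat_lit 5) (nat_lit 58) (nat_lit 5) (nat_lit 55) (nat_lit 5) (nat_lit 339) (nat_lit 306) (nat_lit 255)) (XT.lf (nat_lit 0) (nat_lit 3184055539) (nat_lit 304) (nat_lit 10738598135) (nat_lit 76) (nat_lit 754143483) (nat_lit 51) (nat_lit 5) (nat_lit 55) (nat_lit 5) (nat_lit 52) (nat_lit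 5) (nat_lit 340) (nat_lit 306) (nat_lit 254)))) (XT.nd (nat_lit 78) (nat_lit 152) (nat_lit 0) (XT.lf (nat_lit 0) (nat_lit 6621696415) (nat_lit 304) (nat_lit 2552256549) (nat_lit 76) (nat_lit 5953683297) (nat_lit 51) (nat_lit 5) (nat_lit 55) (nat_lit 5) (nat_lit 52) (nat_lit 5) (nat_lit 341) (nat_lit 306) (nat_lit 253)) (XT.nd (nat_lit 78) (nat_lit 0) (nat_lit 0) (XT.lf (nat_lit 0) (nat_lit 6186605028) (nat_lit 152) (nat_lit 4104862283) (nat_lit 228) (nat_lit 5306561180) (nat_lit 49) (nat_lit 5) (nat_lit 51) (nat_lit 5) (nat_lit 52) (nat_lit 5) (nat_lit 342) (nat_lit 306) (nat_lit 252)) (XT.lf (nat_lit 0) (nat_lit 14171928547) (nat_lit 228) (nat_lit 713910769) (nat_lit 76) (nat_lit 1204763371) (nat_lit 49) (nat_lit 5) (nat_lit 52) (nat_lit 5) (nat_lit 50) (nat_lit 5) (nat_lit 343) (nat_lit 306) (nat_lit 251)))))) (XT.nd (nat_lit 468) (nat_lit 456) (nat_lit 0) (XT.nd (nat_lit 234) (nat_lit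 380) (nat_lit 0) (XT.nd (nat_lit 78) (nat_lit 152) (nat_lit 0) (XT.lf (nat_lit 0) (nat_lit 1755978159) (nat_lit 304) (nat_lit 8055017518) (nat_lit 76) (nat_lit 6787060285) (nat_lit 45) (nat_lit 5) (nat_lit 49) (nat_lit 5) (nat_lit 46) (nat_lit 5) (nat_lit 344) (nat_lit 306) (nat_lit 250)) (XT.nd (nat_lit 78) (nat_lit 0) (nat_lit 0) (XT.lf (nat_lit 0) (nat_lit 1108081074) (nat_lit 152) (nat_lit 4437596489) (nat_lit 228) (nat_lit 11583861317) (nat_lit 43) (nat_lit 5) (nat_lit 45) (nat_lit 5) (nat_lit 46) (nat_lit 5) (nat_lit 345) (nat_lit 306) (nat_lit 249)) (XT.lf (nat_lit 0) (nat_lit 9649018608) (nat_lit 228) (nat_lit 6746418096) (nat_lit 76) (nat_lit 1285969872) (nat_lit 43) (nat_lit 5) (nat_lit 46) (nat_lit 5) (nat_lit 44) (nat_lit 5) (nat_lit 346) (nat_lit 306) (nat_lit 248)))) (XT.nd (nat_lit 78) (nat_lit 228) (nat_lit 0) (XT.lf (nat_lit 0) (nat_lit 2963438431) (nat_lit 152) (nat_lit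 11081388609) (nat_lit 228) (nat_lit 4211693189) (nat_lit 41) (nat_lit 5) (nat_lit 43) (nat_lit 5) (nat_lit 44) (nat_lit 5) (nat_lit 347) (nat_lit 306) (nat_lit 247)) (XT.nd (nat_lit 78) (nat_lit 228) (nat_lit 0) (XT.lf (nat_lit 0) (nat_lit 13342795130) (nat_lit 152) (nat_lit 5400896149) (nat_lit 228) (nat_lit 112551764) (nat_lit 41) (nat_lit 5) (nat_lit 43) (nat_lit 5) (nat_lit 44) (nat_lit 5) (nat_lit 348) (nat_lit 306) (nat_lit 246)) (XT.lf (nat_lit 0) (nat_lit 4113037968) (nat_lit 228) (nat_lit 14696913494) (nat_lit 76) (nat_lit 669961294) (nat_lit 38) (nat_lit 5) (nat_lit 41) (nat_lit 5) (nat_lit 39) (nat_lit 5) (nat_lit 349) (nat_lit 306) (nat_lit 245))))) (XT.nd (nat_lit 234) (nat_lit 304) (nat_lit 0) (XT.nd (nat_lit 78) (nat_lit 152) (nat_lit 0) (XT.lf (nat_lit 0) (nat_lit 8699942497) (nat_lit 228) (nat_lit 4485560079) (nat_lit 76) (nat_lit 6941494701) (nat_lit 38) (nat_lit 5) (nat_lit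 41) (nat_lit 5) (nat_lit 39) (nat_lit 5) (nat_lit 350) (nat_lit 306) (nat_lit 244)) (XT.nd (nat_lit 78) (nat_lit 0) (nat_lit 0) (XT.lf (nat_lit 0) (nat_lit 6394126376) (nat_lit 152) (nat_lit 7193681720) (nat_lit 228) (nat_lit 7215060916) (nat_lit 36) (nat_lit 5) (nat_lit 38) (nat_lit 5) (nat_lit 39) (nat_lit 5) (nat_lit 351) (nat_lit 306) (nat_lit 243)) (XT.lf (nat_lit 0) (nat_lit 17927395304) (nat_lit 152) (nat_lit 841045735) (nat_lit 228) (nat_lit 2741687717) (nat_lit 36) (nat_lit 5) (nat_lit 38) (nat_lit 5) (nat_lit 39) (nat_lit 5) (nat_lit 352) (nat_lit 306) (nat_lit 242)))) (XT.nd (nat_lit 78) (nat_lit 152) (nat_lit 0) (XT.lf (nat_lit 0) (nat_lit 2083659376) (nat_lit 152) (nat_lit 14375502341) (nat_lit 76) (nat_lit 5782530805) (nat_lit 34) (nat_lit 5) (nat_lit 36) (nat_lit 5) (nat_lit 35) (nat_lit 5) (nat_lit 353) (nat_lit 306) (nat_lit 241)) (XT.nd (nat_lit 78) (nat_lit 152) (nat_lit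 0) (XT.lf (nat_lit 0) (nat_lit 7107175904) (nat_lit 152) (nat_lit 3099727931) (nat_lit 76) (nat_lit 12798242656) (nat_lit 34) (nat_lit 5) (nat_lit 36) (nat_lit 5) (nat_lit 35) (nat_lit 5) (nat_lit 354) (nat_lit 306) (nat_lit 240)) (XT.lf (nat_lit 0) (nat_lit 8984398124) (nat_lit 152) (nat_lit 3512582841) (nat_lit 228) (nat_lit 11304047354) (nat_lit 32) (nat_lit 5) (nat_lit 34) (nat_lit 5) (nat_lit 35) (nat_lit 5) (nat_lit 355) (nat_lit 306) (nat_lit 239))))))))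
noncomputable def xc118 : XT := (XT.nd (nat_lit 1794) (nat_lit 684) (nat_lit 0) (XT.nd (nat_lit 858) (nat_lit 532) (nat_lit 0) (XT.nd (nat_lit 390) (nat_lit 380) (nat_lit 0) (XT.nd (nat_lit 156) (nat_lit 228) (nat_lit 0) (XT.nd (nat_lit 78) (nat_lit 76) (nat_lit 0) (XT.lf (nat_lit 0) (nat_lit 18239636626) (nat_lit 228) (nat_lit 2952761519) (nat_lit 76) (nat_lit 3440148360) (nat_lit 32) (nat_lit 5) (nat_lit 35) (nat_lit 5) (nat_lit 33) (nat_lit 4) (nat_lit 356) (nat_lit 306) (nat_lit 238)) (XT.lf (nat_lit 0) (nat_lit 9716500436) (nat_lit 76) (nat_lit 14738498015) (nat_lit 152) (nat_lit 1041373273) (nat_lit 31) (nat_lit 5) (nat_lit 32) (nat_lit 5) (nat_lit 33) (nat_lit 4) (nat_lit 357) (nat_lit 306) (nat_lit 237))) (XT.nd (nat_lit 78) (nat_lit 152) (nat_lit 0) (XT.lf (nat_lit 0) (nat_lit 4458444929) (nat_lit 152) (nat_lit 3392770606) (nat_lit 76) (nat_lit 18547246931) (nat_lit 30) (nat_lit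 5) (nat_lit 32) (nat_lit 5) (nat_lit 31) (nat_lit 5) (nat_lit 358) (nat_lit 306) (nat_lit 236)) (XT.nd (nat_lit 78) (nat_lit 0) (nat_lit 0) (XT.lf (nat_lit 0) (nat_lit 9873257118) (nat_lit 152) (nat_lit 456668040) (nat_lit 228) (nat_lit 17008304058) (nat_lit 28) (nat_lit 5) (nat_lit 30) (nat_lit 5) (nat_lit 31) (nat_lit 5) (nat_lit 359) (nat_lit 306) (nat_lit 235)) (XT.lf (nat_lit 0) (nat_lit 16645195610) (nat_lit 228) (nat_lit 4556345199) (nat_lit 76) (nat_lit 7115940740) (nat_lit 28) (nat_lit 5) (nat_lit 31) (nat_lit 5) (nat_lit 29) (nat_lit 4) (nat_lit 360) (nat_lit 306) (nat_lit 234))))) (XT.nd (nat_lit 234) (nat_lit 76) (nat_lit 0) (XT.nd (nat_lit 78) (nat_lit 228) (nat_lit 0) (XT.lf (nat_lit 0) (nat_lit 9248547279) (nat_lit 76) (nat_lit 14158349017) (nat_lit 152) (nat_lit 5932274542) (nat_lit 27) (nat_lit 5) (nat_lit 28) (nat_lit 5) (nat_lit 29) (nat_lit 4) (nat_lit 361) (nat_lit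 306) (nat_lit 233)) (XT.nd (nat_lit 78) (nat_lit 152) (nat_lit 0) (XT.lf (nat_lit 0) (nat_lit 149002231) (nat_lit 152) (nat_lit 6546748532) (nat_lit 76) (nat_lit 23713261981) (nat_lit 26) (nat_lit 5) (nat_lit 28) (nat_lit 5) (nat_lit 27) (nat_lit 5) (nat_lit 362) (nat_lit 306) (nat_lit 232)) (XT.lf (nat_lit 0) (nat_lit 6457623018) (nat_lit 228) (nat_lit 23753131353) (nat_lit 76) (nat_lit 1310604309) (nat_lit 24) (nat_lit 5) (nat_lit 27) (nat_lit 5) (nat_lit 25) (nat_lit 4) (nat_lit 363) (nat_lit 306) (nat_lit 231)))) (XT.nd (nat_lit 78) (nat_lit 76) (nat_lit 0) (XT.lf (nat_lit 0) (nat_lit 13284166163) (nat_lit 228) (nat_lit 9805277869) (nat_lit 76) (nat_lit 9589759626) (nat_lit 24) (nat_lit 5) (nat_lit 27) (nat_lit 5) (nat_lit 25) (nat_lit 4) (nat_lit 364) (nat_lit 306) (nat_lit 230)) (XT.nd (nat_lit 78) (nat_lit 0) (nat_lit 0) (XT.lf (nat_lit 0) (nat_lit 4964426761) (nat_lit 76) (nat_lit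 15546104014) (nat_lit 152) (nat_lit 13381491408) (nat_lit 23) (nat_lit 5) (nat_lit 24) (nat_lit 5) (nat_lit 25) (nat_lit 4) (nat_lit 365) (nat_lit 306) (nat_lit 229)) (XT.lf (nat_lit 0) (nat_lit 20779154934) (nat_lit 76) (nat_lit 7466478003) (nat_lit 152) (nat_lit 6912483456) (nat_lit 23) (nat_lit 5) (nat_lit 24) (nat_lit 5) (nat_lit 25) (nat_lit 4) (nat_lit 366) (nat_lit 306) (nat_lit 228)))))) (XT.nd (nat_lit 468) (nat_lit 228) (nat_lit 0) (XT.nd (nat_lit 234) (nat_lit 152) (nat_lit 0) (XT.nd (nat_lit 78) (nat_lit 76) (nat_lit 0) (XT.lf (nat_lit 0) (nat_lit 876340464) (nat_lit 76) (nat_lit 35502735199) (nat_lit 76) (nat_lit 107865831) (nat_lit 22) (nat_lit 4) (nat_lit 23) (nat_lit 5) (nat_lit 23) (nat_lit 4) (nat_lit 367) (nat_lit 306) (nat_lit 227)) (XT.nd (nat_lit 78) (nat_lit 0) (nat_lit 0) (XT.lf (nat_lit 0) (nat_lit 7163742547) (nat_lit 152) (nat_lit 20745678095) (nat_lit 76) (nat_lit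 9949699440) (nat_lit 21) (nat_lit 5) (nat_lit 23) (nat_lit 5) (nat_lit 22) (nat_lit 4) (nat_lit 368) (nat_lit 306) (nat_lit 226)) (XT.lf (nat_lit 0) (nat_lit 14778238988) (nat_lit 152) (nat_lit 5170704154) (nat_lit 76) (nat_lit 19351734122) (nat_lit 21) (nat_lit 5) (nat_lit 23) (nat_lit 5) (nat_lit 22) (nat_lit 4) (nat_lit 369) (nat_lit 306) (nat_lit 225)))) (XT.nd (nat_lit 78) (nat_lit 76) (nat_lit 0) (XT.lf (nat_lit 0) (nat_lit 11521859614) (nat_lit 76) (nat_lit 11415234528) (nat_lit 152) (nat_lit 17869040954) (nat_lit 20) (nat_lit 5) (nat_lit 21) (nat_lit 5) (nat_lit 22) (nat_lit 4) (nat_lit 370) (nat_lit 306) (nat_lit 224)) (XT.nd (nat_lit 78) (nat_lit 76) (nat_lit 0) (XT.lf (nat_lit 0) (nat_lit 29199119158) (nat_lit 76) (nat_lit 2376400916) (nat_lit 152) (nat_lit 10807768618) (nat_lit 20) (nat_lit 5) (nat_lit 21) (nat_lit 5) (nat_lit 22) (nat_lit 4) (nat_lit 371) (nat_lit 306) (nat_lit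 223)) (XT.lf (nat_lit 0) (nat_lit 3699671367) (nat_lit 76) (nat_lit 37099651359) (nat_lit 76) (nat_lit 3232308538) (nat_lit 19) (nat_lit 4) (nat_lit 20) (nat_lit 5) (nat_lit 20) (nat_lit 4) (nat_lit 372) (nat_lit 306) (nat_lit 222))))) (XT.nd (nat_lit 234) (nat_lit 76) (nat_lit 0) (XT.nd (nat_lit 78) (nat_lit 76) (nat_lit 0) (XT.lf (nat_lit 0) (nat_lit 4821351278) (nat_lit 152) (nat_lit 24010795347) (nat_lit 76) (nat_lit 16914034019) (nat_lit 18) (nat_lit 5) (nat_lit 20) (nat_lit 5) (nat_lit 19) (nat_lit 4) (nat_lit 373) (nat_lit 306) (nat_lit 221)) (XT.nd (nat_lit 78) (nat_lit 76) (nat_lit 0) (XT.lf (nat_lit 0) (nat_lit 13154457602) (nat_lit 152) (nat_lit 6953853712) (nat_lit 76) (nat_lit 27436230745) (nat_lit 18) (nat_lit 5) (nat_lit 20) (nat_lit 5) (nat_lit 19) (nat_lit 4) (nat_lit 374) (nat_lit 306) (nat_lit 220)) (XT.lf (nat_lit 0) (nat_lit 11291335414) (nat_lit 76) (nat_lit 10775259198)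 (nat_lit 152) (nat_lit 27358111514) (nat_lit 17) (nat_lit 5) (nat_lit 18) (nat_lit 5) (nat_lit 19) (nat_lit 4) (nat_lit 375) (nat_lit 306) (nat_lit 219)))) (XT.nd (nat_lit 78) (nat_lit 76) (nat_lit 0) (XT.lf (nat_lit 0) (nat_lit 30664632496) (nat_lit 76) (nat_lit 863822129) (nat_lit 152) (nat_lit 19865221149) (nat_lit 17) (nat_lit 5) (nat_lit 18) (nat_lit 5) (nat_lit 19) (nat_lit 4) (nat_lit 376) (nat_lit 306) (nat_lit 218)) (XT.nd (nat_lit 78) (nat_lit 76) (nat_lit 0) (XT.lf (nat_lit 0) (nat_lit 41599225557) (nat_lit 152) (nat_lit 2628326959) (nat_lit 0) (nat_lit 9226753532) (nat_lit 17) (nat_lit 5) (nat_lit 19) (nat_lit 4) (nat_lit 17) (nat_lit 4) (nat_lit 377) (nat_lit 306) (nat_lit 217)) (XT.lf (nat_lit 0) (nat_lit 16879876484) (nat_lit 76) (nat_lit 35558811294) (nat_lit 76) (nat_lit 3166025311) (nat_lit 16) (nat_lit 4) (nat_lit 17) (nat_lit 5) (nat_lit 17) (nat_lit 4) (nat_lit 378)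 (nat_lit 306) (nat_lit 216))))))) (XT.nd (nat_lit 936) (nat_lit 304) (nat_lit 0) (XT.nd (nat_lit 468) (nat_lit 152) (nat_lit 0) (XT.nd (nat_lit 234) (nat_lit 76) (nat_lit 0) (XT.nd (nat_lit 78) (nat_lit 76) (nat_lit 0) (XT.lf (nat_lit 0) (nat_lit 5799527018) (nat_lit 152) (nat_lit 20523102222) (nat_lit 76) (nat_lit 31533727163) (nat_lit 15) (nat_lit 5) (nat_lit 17) (nat_lit 5) (nat_lit 16) (nat_lit 4) (nat_lit 379) (nat_lit 306) (nat_lit 215)) (XT.nd (nat_lit 78) (nat_lit 76) (nat_lit 0) (XT.lf (nat_lit 0) (nat_lit 15095033320) (nat_lit 152) (nat_lit 1485739661) (nat_lit 76) (nat_lit 43637812519) (nat_lit 15) (nat_lit 5) (nat_lit 17) (nat_lit 5) (nat_lit 16) (nat_lit 4) (nat_lit 380) (nat_lit 306) (nat_lit 214)) (XT.lf (nat_lit 0) (nat_lit 19093107330) (nat_lit 76) (nat_lit 6048947918) (nat_lit 152) (nat_lit 37542536168) (nat_lit 14) (nat_lit 5) (nat_lit 15) (nat_lit 5) (nat_lit 16) (nat_lit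 4) (nat_lit 381) (nat_lit 306) (nat_lit 213)))) (XT.nd (nat_lit 78) (nat_lit 76) (nat_lit 0) (XT.lf (nat_lit 0) (nat_lit 35783912546) (nat_lit 152) (nat_lit 24620325134) (nat_lit 0) (nat_lit 4865038000) (nat_lit 14) (nat_lit 5) (nat_lit 16) (nat_lit 4) (nat_lit 14) (nat_lit 4) (nat_lit 382) (nat_lit 306) (nat_lit 212)) (XT.nd (nat_lit 78) (nat_lit 76) (nat_lit 0) (XT.lf (nat_lit 0) (nat_lit 47046262193) (nat_lit 152) (nat_lit 4820285088) (nat_lit 0) (nat_lit 16112229059) (nat_lit 14) (nat_lit 5) (nat_lit 16) (nat_lit 4) (nat_lit 14) (nat_lit 4) (nat_lit 383) (nat_lit 306) (nat_lit 211)) (XT.lf (nat_lit 0) (nat_lit 16477606340) (nat_lit 76) (nat_lit 42641133553) (nat_lit 76) (nat_lit 11692663668) (nat_lit 13) (nat_lit 4) (nat_lit 14) (nat_lit 5) (nat_lit 14) (nat_lit 4) (nat_lit 384) (nat_lit 306) (nat_lit 210))))) (XT.nd (nat_lit 234) (nat_lit 0) (nat_lit 0) (XT.nd (nat_lit 78) (nat_lit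 152) (nat_lit 0) (XT.lf (nat_lit 0) (nat_lit 38988519937) (nat_lit 76) (nat_lit 32877892395) (nat_lit 76) (nat_lit 1915673224) (nat_lit 13) (nat_lit 4) (nat_lit 14) (nat_lit 5) (nat_lit 14) (nat_lit 4) (nat_lit 385) (nat_lit 306) (nat_lit 209)) (XT.nd (nat_lit 78) (nat_lit 76) (nat_lit 0) (XT.lf (nat_lit 0) (nat_lit 8073166528) (nat_lit 152) (nat_lit 14425322347) (nat_lit 76) (nat_lit 54396783214) (nat_lit 12) (nat_lit 5) (nat_lit 14) (nat_lit 5) (nat_lit 13) (nat_lit 4) (nat_lit 386) (nat_lit 306) (nat_lit 208)) (XT.lf (nat_lit 0) (nat_lit 7140733431) (nat_lit 76) (nat_lit 11458543724) (nat_lit 152) (nat_lit 61558161856) (nat_lit 11) (nat_lit 5) (nat_lit 12) (nat_lit 5) (nat_lit 13) (nat_lit 4) (nat_lit 387) (nat_lit 306) (nat_lit 207)))) (XT.nd (nat_lit 78) (nat_lit 0) (nat_lit 0) (XT.lf (nat_lit 0) (nat_lit 29892840945) (nat_lit 152) (nat_lit 53308464132) (nat_lit 0) (nat_lit 369353432)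 (nat_lit 11) (nat_lit 5) (nat_lit 13) (nat_lit 4) (nat_lit 11) (nat_lit 4) (nat_lit 388) (nat_lit 306) (nat_lit 206)) (XT.nd (nat_lit 78) (nat_lit 0) (nat_lit 0) (XT.lf (nat_lit 0) (nat_lit 41930128068) (nat_lit 152) (nat_lit 32819592560) (nat_lit 0) (nat_lit 12395867629) (nat_lit 11) (nat_lit 5) (nat_lit 13) (nat_lit 4) (nat_lit 11) (nat_lit 4) (nat_lit 389) (nat_lit 306) (nat_lit 205)) (XT.lf (nat_lit 0) (nat_lit 54560898753) (nat_lit 152) (nat_lit 11322407856) (nat_lit 0) (nat_lit 25016378385) (nat_lit 11) (nat_lit 5) (nat_lit 13) (nat_lit 4) (nat_lit 11) (nat_lit 4) (nat_lit 390) (nat_lit 306) (nat_lit 204)))))) (XT.nd (nat_lit 468) (nat_lit 76) (nat_lit 0) (XT.nd (nat_lit 234) (nat_lit 152) (nat_lit 0) (XT.nd (nat_lit 78) (nat_lit 0) (nat_lit 0) (XT.lf (nat_lit 0) (nat_lit 11605729577) (nat_lit 76) (nat_lit 56390694649) (nat_lit 76) (nat_lit 26836402920) (nat_lit 10) (nat_lit 4) (nat_lit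 11) (nat_lit 5) (nat_lit 11) (nat_lit 4) (nat_lit 391) (nat_lit 306) (nat_lit 203)) (XT.nd (nat_lit 78) (nat_lit 0) (nat_lit 0) (XT.lf (nat_lit 0) (nat_lit 36058247766) (nat_lit 76) (nat_lit 46229391055) (nat_lit 76) (nat_lit 16665793267) (nat_lit 10) (nat_lit 4) (nat_lit 11) (nat_lit 5) (nat_lit 11) (nat_lit 4) (nat_lit 392) (nat_lit 306) (nat_lit 202)) (XT.lf (nat_lit 0) (nat_lit 61718997053) (nat_lit 76) (nat_lit 35566952702) (nat_lit 76) (nat_lit 5994492002) (nat_lit 10) (nat_lit 4) (nat_lit 11) (nat_lit 5) (nat_lit 11) (nat_lit 4) (nat_lit 393) (nat_lit 306) (nat_lit 201)))) (XT.nd (nat_lit 78) (nat_lit 76) (nat_lit 0) (XT.lf (nat_lit 0) (nat_lit 5036383163) (nat_lit 152) (nat_lit 19256316084) (nat_lit 76) (nat_lit 83527397713) (nat_lit 9) (nat_lit 5) (nat_lit 11) (nat_lit 5) (nat_lit 10) (nat_lit 4) (nat_lit 394) (nat_lit 306) (nat_lit 200)) (XT.nd (nat_lit 78) (nat_lit 0) (nat_lit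 0) (XT.lf (nat_lit 0) (nat_lit 4186507826) (nat_lit 76) (nat_lit 12289320621) (nat_lit 152) (nat_lit 96103070018) (nat_lit 8) (nat_lit 5) (nat_lit 9) (nat_lit 5) (nat_lit 10) (nat_lit 4) (nat_lit 395) (nat_lit 306) (nat_lit 199)) (XT.lf (nat_lit 0) (nat_lit 28816755737) (nat_lit 152) (nat_lit 88112888989) (nat_lit 0) (nat_lit 629520870) (nat_lit 8) (nat_lit 5) (nat_lit 10) (nat_lit 4) (nat_lit 8) (nat_lit 4) (nat_lit 396) (nat_lit 306) (nat_lit 198))))) (XT.nd (nat_lit 234) (nat_lit 76) (nat_lit 0) (XT.nd (nat_lit 78) (nat_lit 0) (nat_lit 0) (XT.lf (nat_lit 0) (nat_lit 41969662803) (nat_lit 152) (nat_lit 67033553986) (nat_lit 0) (nat_lit 13775483613) (nat_lit 8) (nat_lit 5) (nat_lit 10) (nat_lit 4) (nat_lit 8) (nat_lit 4) (nat_lit 397) (nat_lit 306) (nat_lit 197)) (XT.nd (nat_lit 78) (nat_lit 0) (nat_lit 0) (XT.lf (nat_lit 0) (nat_lit 55773995357) (nat_lit 152) (nat_lit 44912326001) (nat_lit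 0) (nat_lit 27573202525) (nat_lit 8) (nat_lit 5) (nat_lit 10) (nat_lit 4) (nat_lit 8) (nat_lit 4) (nat_lit 398) (nat_lit 306) (nat_lit 196)) (XT.lf (nat_lit 0) (nat_lit 70262620857) (nat_lit 152) (nat_lit 21696535443) (nat_lit 0) (nat_lit 42055529318) (nat_lit 8) (nat_lit 5) (nat_lit 10) (nat_lit 4) (nat_lit 8) (nat_lit 4) (nat_lit 399) (nat_lit 306) (nat_lit 195)))) (XT.nd (nat_lit 78) (nat_lit 0) (nat_lit 0) (XT.lf (nat_lit 0) (nat_lit 2757345658) (nat_lit 76) (nat_lit 82755740264) (nat_lit 76) (nat_lit 54542649957) (nat_lit 7) (nat_lit 4) (nat_lit 8) (nat_lit 5) (nat_lit 8) (nat_lit 4) (nat_lit 400) (nat_lit 306) (nat_lit 194)) (XT.nd (nat_lit 78) (nat_lit 0) (nat_lit 0) (XT.lf (nat_lit 0) (nat_lit 29176400904) (nat_lit 76) (nat_lit 72711573488) (nat_lit 76) (nat_lit 44492770069) (nat_lit 7) (nat_lit 4) (nat_lit 8) (nat_lit 5) (nat_lit 8) (nat_lit 4) (nat_lit 401) (nat_lit 306) (nat_lit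 193)) (XT.lf (nat_lit 0) (nat_lit 56906147359) (nat_lit 76) (nat_lit 62170182615) (nat_lit 76) (nat_lit 33945938136) (nat_lit 7) (nat_lit 4) (nat_lit 8) (nat_lit 5) (nat_lit 8) (nat_lit 4) (nat_lit 402) (nat_lit 306) (nat_lit 192))))))))
noncomputable def xc119 : XT := (XT.nd (nat_lit 1872) (nat_lit 76) (nat_lit 0) (XT.nd (nat_lit 936) (nat_lit 152) (nat_lit 0) (XT.nd (nat_lit 468) (nat_lit 0) (nat_lit 0) (XT.nd (nat_lit 234) (nat_lit 76) (nat_lit 0) (XT.nd (nat_lit 78) (nat_lit 76) (nat_lit 0) (XT.lf (nat_lit 0) (nat_lit 86012608230) (nat_lit 76) (nat_lit 51106469096) (nat_lit 76) (nat_lit 22877042656) (nat_lit 7) (nat_lit 4) (nat_lit 8) (nat_lit 5) (nat_lit 8) (nat_lit 4) (nat_lit 403) (nat_lit 306) (nat_lit 191)) (XT.nd (nat_lit 78) (nat_lit 76) (nat_lit 0) (XT.lf (nat_lit 0) (nat_lit 116565084613) (nat_lit 76) (nat_lit 39494090755) (nat_lit 76) (nat_lit 11259729114) (nat_lit 7) (nat_lit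 4) (nat_lit 8) (nat_lit 5) (nat_lit 8) (nat_lit 4) (nat_lit 404) (nat_lit 306) (nat_lit 190)) (XT.lf (nat_lit 0) (nat_lit 903779720) (nat_lit 152) (nat_lit 26386313407) (nat_lit 76) (nat_lit 147717234832) (nat_lit 6) (nat_lit 5) (nat_lit 8) (nat_lit 5) (nat_lit 7) (nat_lit 4) (nat_lit 405) (nat_lit 306) (nat_lit 189)))) (XT.nd (nat_lit 78) (nat_lit 76) (nat_lit 0) (XT.lf (nat_lit 0) (nat_lit 13292649815) (nat_lit 152) (nat_lit 993606084) (nat_lit 76) (nat_lit 168784908704) (nat_lit 6) (nat_lit 5) (nat_lit 8) (nat_lit 5) (nat_lit 7) (nat_lit 4) (nat_lit 406) (nat_lit 306) (nat_lit 188)) (XT.nd (nat_lit 78) (nat_lit 0) (nat_lit 0) (XT.lf (nat_lit 0) (nat_lit 26509010747) (nat_lit 76) (nat_lit 201629333) (nat_lit 152) (nat_lit 164807069743) (nat_lit 5) (nat_lit 5) (nat_lit 6) (nat_lit 5) (nat_lit 7) (nat_lit 4) (nat_lit 407) (nat_lit 306) (nat_lit 187)) (XT.lf (nat_lit 0) (nat_lit 41040190470)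 (nat_lit 152) (nat_lit 145200703764) (nat_lit 0) (nat_lit 14133655592) (nat_lit 5) (nat_lit 5) (nat_lit 7) (nat_lit 4) (nat_lit 5) (nat_lit 4) (nat_lit 408) (nat_lit 306) (nat_lit 186))))) (XT.nd (nat_lit 234) (nat_lit 0) (nat_lit 0) (XT.nd (nat_lit 78) (nat_lit 0) (nat_lit 0) (XT.lf (nat_lit 0) (nat_lit 56085533336) (nat_lit 152) (nat_lit 124413417534) (nat_lit 0) (nat_lit 29175315735) (nat_lit 5) (nat_lit 5) (nat_lit 7) (nat_lit 4) (nat_lit 5) (nat_lit 4) (nat_lit 409) (nat_lit 306) (nat_lit 185)) (XT.nd (nat_lit 78) (nat_lit 0) (nat_lit 0) (XT.lf (nat_lit 0) (nat_lit 71879342924) (nat_lit 152) (nat_lit 102594198851) (nat_lit 0) (nat_lit 44965617967) (nat_lit 5) (nat_lit 5) (nat_lit 7) (nat_lit 4) (nat_lit 5) (nat_lit 4) (nat_lit 410) (nat_lit 306) (nat_lit 184)) (XT.lf (nat_lit 0) (nat_lit 88459223543) (nat_lit 152) (nat_lit 79691097194) (nat_lit 0) (nat_lit 61542158248) (nat_lit 5)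 (nat_lit 5) (nat_lit 7) (nat_lit 4) (nat_lit 5) (nat_lit 4) (nat_lit 411) (nat_lit 306) (nat_lit 183)))) (XT.nd (nat_lit 78) (nat_lit 0) (nat_lit 0) (XT.lf (nat_lit 0) (nat_lit 105864651100) (nat_lit 152) (nat_lit 55649581367) (nat_lit 0) (nat_lit 78944404530) (nat_lit 5) (nat_lit 5) (nat_lit 7) (nat_lit 4) (nat_lit 5) (nat_lit 4) (nat_lit 412) (nat_lit 306) (nat_lit 182)) (XT.nd (nat_lit 78) (nat_lit 0) (nat_lit 0) (XT.lf (nat_lit 0) (nat_lit 124137067088) (nat_lit 152) (nat_lit 30412409668) (nat_lit 0) (nat_lit 97213790733) (nat_lit 5) (nat_lit 5) (nat_lit 7) (nat_lit 4) (nat_lit 5) (nat_lit 4) (nat_lit 413) (nat_lit 306) (nat_lit 181)) (XT.lf (nat_lit 0) (nat_lit 143319977260) (nat_lit 152) (nat_lit 3919493592) (nat_lit 0) (nat_lit 116393815395) (nat_lit 5) (nat_lit 5) (nat_lit 7) (nat_lit 4) (nat_lit 5) (nat_lit 4) (nat_lit 414) (nat_lit 306) (nat_lit 180)))))) (XT.nd (nat_lit 468)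 (nat_lit 76) (nat_lit 0) (XT.nd (nat_lit 234) (nat_lit 0) (nat_lit 0) (XT.nd (nat_lit 78) (nat_lit 0) (nat_lit 0) (XT.lf (nat_lit 0) (nat_lit 24682230760) (nat_lit 76) (nat_lit 139162183245) (nat_lit 76) (nat_lit 112233273275) (nat_lit 4) (nat_lit 4) (nat_lit 5) (nat_lit 5) (nat_lit 5) (nat_lit 4) (nat_lit 415) (nat_lit 306) (nat_lit 179)) (XT.nd (nat_lit 78) (nat_lit 0) (nat_lit 0) (XT.lf (nat_lit 0) (nat_lit 54844388163) (nat_lit 76) (nat_lit 130614137566) (nat_lit 76) (nat_lit 103682610353) (nat_lit 4) (nat_lit 4) (nat_lit 5) (nat_lit 5) (nat_lit 5) (nat_lit 4) (nat_lit 416) (nat_lit 306) (nat_lit 178)) (XT.lf (nat_lit 0) (nat_lit 86509197117) (nat_lit 76) (nat_lit 121641359845) (nat_lit 76) (nat_lit 94707340019) (nat_lit 4) (nat_lit 4) (nat_lit 5) (nat_lit 5) (nat_lit 5) (nat_lit 4) (nat_lit 417) (nat_lit 306) (nat_lit 177)))) (XT.nd (nat_lit 78) (nat_lit 0) (nat_lit 0) (XT.lf (nat_lit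 0) (nat_lit 119752050025) (nat_lit 76) (nat_lit 112222486325) (nat_lit 76) (nat_lit 85286092584) (nat_lit 4) (nat_lit 4) (nat_lit 5) (nat_lit 5) (nat_lit 5) (nat_lit 4) (nat_lit 418) (nat_lit 306) (nat_lit 176)) (XT.nd (nat_lit 78) (nat_lit 0) (nat_lit 0) (XT.lf (nat_lit 0) (nat_lit 154652096535) (nat_lit 76) (nat_lit 102335091119) (nat_lit 76) (nat_lit 75396436505) (nat_lit 4) (nat_lit 4) (nat_lit 5) (nat_lit 5) (nat_lit 5) (nat_lit 4) (nat_lit 419) (nat_lit 306) (nat_lit 175)) (XT.lf (nat_lit 0) (nat_lit 191292431998) (nat_lit 76) (nat_lit 91955632808) (nat_lit 76) (nat_lit 65014824982) (nat_lit 4) (nat_lit 4) (nat_lit 5) (nat_lit 5) (nat_lit 5) (nat_lit 4) (nat_lit 420) (nat_lit 306) (nat_lit 174))))) (XT.nd (nat_lit 234) (nat_lit 76) (nat_lit 0) (XT.nd (nat_lit 78) (nat_lit 0) (nat_lit 0) (XT.lf (nat_lit 0) (nat_lit 229760295307) (nat_lit 76) (nat_lit 81059398396) (nat_lit 76) (nat_lit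 54116539892) (nat_lit 4) (nat_lit 4) (nat_lit 5) (nat_lit 5) (nat_lit 5) (nat_lit 4) (nat_lit 421) (nat_lit 306) (nat_lit 173)) (XT.nd (nat_lit 78) (nat_lit 0) (nat_lit 0) (XT.lf (nat_lit 0) (nat_lit 270147276613) (nat_lit 76) (nat_lit 69620444469) (nat_lit 76) (nat_lit 42675632938) (nat_lit 4) (nat_lit 4) (nat_lit 5) (nat_lit 5) (nat_lit 5) (nat_lit 4) (nat_lit 422) (nat_lit 306) (nat_lit 172)) (XT.lf (nat_lit 0) (nat_lit 312549535395) (nat_lit 76) (nat_lit 57611535421) (nat_lit 76) (nat_lit 30664863865) (nat_lit 4) (nat_lit 4) (nat_lit 5) (nat_lit 5) (nat_lit 5) (nat_lit 4) (nat_lit 423) (nat_lit 306) (nat_lit 171)))) (XT.nd (nat_lit 78) (nat_lit 76) (nat_lit 0) (XT.lf (nat_lit 0) (nat_lit 357068029412) (nat_lit 76) (nat_lit 45004078612) (nat_lit 76) (nat_lit 18055635603) (nat_lit 4) (nat_lit 4) (nat_lit 5) (nat_lit 5) (nat_lit 5) (nat_lit 4) (nat_lit 424) (nat_lit 306) (nat_lit 170))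 (XT.nd (nat_lit 78) (nat_lit 76) (nat_lit 0) (XT.lf (nat_lit 0) (nat_lit 403808755079) (nat_lit 76) (nat_lit 31768056288) (nat_lit 76) (nat_lit 4817926181) (nat_lit 4) (nat_lit 4) (nat_lit 5) (nat_lit 5) (nat_lit 5) (nat_lit 4) (nat_lit 425) (nat_lit 306) (nat_lit 169)) (XT.lf (nat_lit 0) (nat_lit 8789173003) (nat_lit 152) (nat_lit 8933932209) (nat_lit 76) (nat_lit 443944977935) (nat_lit 3) (nat_lit 5) (nat_lit 5) (nat_lit 5) (nat_lit 4) (nat_lit 4) (nat_lit 426) (nat_lit 306) (nat_lit 168))))))) (XT.nd (nat_lit 37830) (nat_lit 0) (nat_lit 7144) (XT.nd (nat_lit 468) (nat_lit 0) (nat_lit 0) (XT.nd (nat_lit 234) (nat_lit 0) (nat_lit 0) (XT.nd (nat_lit 78) (nat_lit 0) (nat_lit 0) (XT.lf (nat_lit 0) (nat_lit 20680227187) (nat_lit 76) (nat_lit 2555623691) (nat_lit 152) (nat_lit 460749239354) (nat_lit 2) (nat_lit 5) (nat_lit 3) (nat_lit 5) (nat_lit 4) (nat_lit 4) (nat_lit 427) (nat_lit 306) (nat_lit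 167)) (XT.nd (nat_lit 78) (nat_lit 0) (nat_lit 0) (XT.lf (nat_lit 0) (nat_lit 38765656359) (nat_lit 152) (nat_lit 455539761648) (nat_lit 0) (nat_lit 13094490175) (nat_lit 2) (nat_lit 5) (nat_lit 4) (nat_lit 4) (nat_lit 2) (nat_lit 4) (nat_lit 428) (nat_lit 306) (nat_lit 166)) (XT.lf (nat_lit 0) (nat_lit 55112196272) (nat_lit 152) (nat_lit 447431550538) (nat_lit 0) (nat_lit 29439708202) (nat_lit 2) (nat_lit 5) (nat_lit 4) (nat_lit 4) (nat_lit 2) (nat_lit 4) (nat_lit 429) (nat_lit 306) (nat_lit 165)))) (XT.nd (nat_lit 78) (nat_lit 0) (nat_lit 0) (XT.lf (nat_lit 0) (nat_lit 72274490501) (nat_lit 152) (nat_lit 438921024002) (nat_lit 0) (nat_lit 46600743492) (nat_lit 2) (nat_lit 5) (nat_lit 4) (nat_lit 4) (nat_lit 2) (nat_lit 4) (nat_lit 430) (nat_lit 306) (nat_lit 164)) (XT.nd (nat_lit 78) (nat_lit 0) (nat_lit 0) (XT.lf (nat_lit 0) (nat_lit 90293401652) (nat_lit 152) (nat_lit 429987918881)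 (nat_lit 0) (nat_lit 64618455654) (nat_lit 2) (nat_lit 5) (nat_lit 4) (nat_lit 4) (nat_lit 2) (nat_lit 4) (nat_lit 431) (nat_lit 306) (nat_lit 163)) (XT.lf (nat_lit 0) (nat_lit 109211831894) (nat_lit 152) (nat_lit 420610965879) (nat_lit 0) (nat_lit 83535744002) (nat_lit 2) (nat_lit 5) (nat_lit 4) (nat_lit 4) (nat_lit 2) (nat_lit 4) (nat_lit 432) (nat_lit 306) (nat_lit 162))))) (XT.nd (nat_lit 37128) (nat_lit 0) (nat_lit 10184) (XT.nd (nat_lit 78) (nat_lit 0) (nat_lit 0) (XT.lf (nat_lit 0) (nat_lit 129074825109) (nat_lit 152) (nat_lit 410767838916) (nat_lit 0) (nat_lit 103397649699) (nat_lit 2) (nat_lit 5) (nat_lit 4) (nat_lit 4) (nat_lit 2) (nat_lit 4) (nat_lit 433) (nat_lit 306) (nat_lit 161)) (XT.nd (nat_lit 36972) (nat_lit 0) (nat_lit 10184) (XT.lf (nat_lit 0) (nat_lit 149929674139) (nat_lit 152) (nat_lit 400435101976) (nat_lit 0) (nat_lit 124251462997) (nat_lit 2) (nat_lit 5) (nat_lit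 4) (nat_lit 4) (nat_lit 2) (nat_lit 4) (nat_lit 434) (nat_lit 306) (nat_lit 160)) (XT.lf (nat_lit 0) (nat_lit 281143091) (nat_lit 532) (nat_lit 1612922733) (nat_lit 532) (nat_lit 1612922733) (nat_lit 136) (nat_lit 3) (nat_lit 143) (nat_lit 3) (nat_lit 143) (nat_lit 5) (nat_lit 307) (nat_lit 307) (nat_lit 286)))) (XT.nd (nat_lit 78) (nat_lit 0) (nat_lit 0) (XT.lf (nat_lit 76) (nat_lit 129169044) (nat_lit 0) (nat_lit 2185789949) (nat_lit 532) (nat_lit 4784968207) (nat_lit 137) (nat_lit 5) (nat_lit 136) (nat_lit 3) (nat_lit 143) (nat_lit 5) (nat_lit 308) (nat_lit 307) (nat_lit 285)) (XT.nd (nat_lit 78) (nat_lit 0) (nat_lit 76) (XT.lf (nat_lit 76) (nat_lit 3703555934) (nat_lit 0) (nat_lit 394234157) (nat_lit 532) (nat_lit 3095416483) (nat_lit 137) (nat_lit 5) (nat_lit 136) (nat_lit 3) (nat_lit 143) (nat_lit 5) (nat_lit 309) (nat_lit 307) (nat_lit 284)) (XT.lf (nat_lit 76) (nat_lit 81138835)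 (nat_lit 0) (nat_lit 5807106438) (nat_lit 532) (nat_lit 1407131014) (nat_lit 138) (nat_lit 5) (nat_lit 137) (nat_lit 5) (nat_lit 144) (nat_lit 5) (nat_lit 310) (nat_lit 307) (nat_lit 283)))))) (XT.nd (nat_lit 468) (nat_lit 2128) (nat_lit 0) (XT.nd (nat_lit 234) (nat_lit 456) (nat_lit 0) (XT.nd (nat_lit 78) (nat_lit 0) (nat_lit 0) (XT.lf (nat_lit 0) (nat_lit 316658397) (nat_lit 532) (nat_lit 3527512214) (nat_lit 608) (nat_lit 3560195490) (nat_lit 130) (nat_lit 5) (nat_lit 137) (nat_lit 5) (nat_lit 138) (nat_lit 5) (nat_lit 311) (nat_lit 307) (nat_lit 282)) (XT.nd (nat_lit 78) (nat_lit 0) (nat_lit 76) (XT.lf (nat_lit 76) (nat_lit 265853380) (nat_lit 0) (nat_lit 1718845346) (nat_lit 608) (nat_lit 5537815783) (nat_lit 131) (nat_lit 5) (nat_lit 130) (nat_lit 5) (nat_lit 138) (nat_lit 5) (nat_lit 312) (nat_lit 307) (nat_lit 281)) (XT.lf (nat_lit 0) (nat_lit 3710314836) (nat_lit 532) (nat_lit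 3348723857) (nat_lit 608) (nat_lit 588946768) (nat_lit 131) (nat_lit 5) (nat_lit 138) (nat_lit 5) (nat_lit 139) (nat_lit 5) (nat_lit 313) (nat_lit 307) (nat_lit 280)))) (XT.nd (nat_lit 78) (nat_lit 532) (nat_lit 0) (XT.lf (nat_lit 76) (nat_lit 684030212) (nat_lit 0) (nat_lit 4786990278) (nat_lit 608) (nat_lit 2311386949) (nat_lit 132) (nat_lit 5) (nat_lit 131) (nat_lit 5) (nat_lit 139) (nat_lit 5) (nat_lit 314) (nat_lit 307) (nat_lit 279)) (XT.nd (nat_lit 78) (nat_lit 532) (nat_lit 0) (XT.lf (nat_lit 76) (nat_lit 4971423629) (nat_lit 0) (nat_lit 2318301767) (nat_lit 608) (nat_lit 635439224) (nat_lit 132) (nat_lit 5) (nat_lit 131) (nat_lit 5) (nat_lit 139) (nat_lit 5) (nat_lit 315) (nat_lit 307) (nat_lit 278)) (XT.lf (nat_lit 0) (nat_lit 1030733138) (nat_lit 608) (nat_lit 6721657184) (nat_lit 76) (nat_lit 324772915) (nat_lit 124) (nat_lit 5) (nat_lit 132) (nat_lit 5) (nat_lit 125) (nat_lit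 5) (nat_lit 316) (nat_lit 307) (nat_lit 277))))) (XT.nd (nat_lit 234) (nat_lit 1520) (nat_lit 0) (XT.nd (nat_lit 78) (nat_lit 608) (nat_lit 0) (XT.lf (nat_lit 0) (nat_lit 2766961347) (nat_lit 608) (nat_lit 2367294414) (nat_lit 76) (nat_lit 3101677075) (nat_lit 124) (nat_lit 5) (nat_lit 132) (nat_lit 5) (nat_lit 125) (nat_lit 5) (nat_lit 317) (nat_lit 307) (nat_lit 276)) (XT.nd (nat_lit 78) (nat_lit 0) (nat_lit 0) (XT.lf (nat_lit 0) (nat_lit 2212205733) (nat_lit 608) (nat_lit 2335433128) (nat_lit 684) (nat_lit 3857212549) (nat_lit 116) (nat_lit 5) (nat_lit 124) (nat_lit 5) (nat_lit 125) (nat_lit 5) (nat_lit 318) (nat_lit 307) (nat_lit 275)) (XT.lf (nat_lit 0) (nat_lit 6393490904) (nat_lit 684) (nat_lit 1553766703) (nat_lit 76) (nat_lit 636239265) (nat_lit 116) (nat_lit 5) (nat_lit 125) (nat_lit 5) (nat_lit 117) (nat_lit 5) (nat_lit 319) (nat_lit 307) (nat_lit 274)))) (XT.nd (nat_lit 78)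 (nat_lit 836) (nat_lit 0) (XT.lf (nat_lit 0) (nat_lit 3321905050) (nat_lit 684) (nat_lit 5029378114) (nat_lit 760) (nat_lit 418892863) (nat_lit 107) (nat_lit 5) (nat_lit 116) (nat_lit 5) (nat_lit 117) (nat_lit 5) (nat_lit 320) (nat_lit 307) (nat_lit 273)) (XT.nd (nat_lit 78) (nat_lit 760) (nat_lit 0) (XT.lf (nat_lit 0) (nat_lit 1352097550) (nat_lit 760) (nat_lit 557031353) (nat_lit 76) (nat_lit 7058139745) (nat_lit 106) (nat_lit 5) (nat_lit 116) (nat_lit 5) (nat_lit 107) (nat_lit 5) (nat_lit 321) (nat_lit 307) (nat_lit 272)) (XT.lf (nat_lit 0) (nat_lit 3227020698) (nat_lit 836) (nat_lit 4536752709) (nat_lit 76) (nat_lit 1408698488) (nat_lit 96) (nat_lit 5) (nat_lit 107) (nat_lit 5) (nat_lit 97) (nat_lit 5) (nat_lit 322) (nat_lit 307) (nat_lit 271))))))))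
noncomputable def xc120 : XT := (XT.nd (nat_lit 1794) (nat_lit 1824) (nat_lit 0) (XT.nd (nat_lit 858) (nat_lit 1824) (nat_lit 0) (XT.nd (nat_lit 390) (nat_lit 912) (nat_lit 0) (XT.nd (nat_lit 156) (nat_lit 760) (nat_lit 0) (XT.nd (nat_lit 78) (nat_lit 0) (nat_lit 0) (XT.lf (nat_lit 0) (nat_lit 645404878) (nat_lit 380) (nat_lit 4537489219) (nat_lit 456) (nat_lit 4205749948) (nat_lit 91) (nat_lit 5) (nat_lit 96) (nat_lit 5) (nat_lit 97) (nat_lit 5) (nat_lit 323) (nat_lit 307) (nat_lit 270)) (XT.lf (nat_lit 0) (nat_lit 6181422150) (nat_lit 380) (nat_lit 1070269522) (nat_lit 456) (nat_lit 2363242265) (nat_lit 91) (nat_lit 5) (nat_lit 96) (nat_lit 5) (nat_lit 97) (nat_lit 5) (nat_lit 324) (nat_lit 307) (nat_lit 269))) (XT.nd (nat_lit 78) (nat_lit 456) (nat_lit 0) (XT.lf (nat_lit 0) (nat_lit 2106234067) (nat_lit 304) (nat_lit 7331929958) (nat_lit 380) (nat_lit 413725085) (nat_lit 87) (nat_lit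 5) (nat_lit 91) (nat_lit 5) (nat_lit 92) (nat_lit 5) (nat_lit 325) (nat_lit 307) (nat_lit 268)) (XT.nd (nat_lit 78) (nat_lit 380) (nat_lit 0) (XT.lf (nat_lit 0) (nat_lit 1599704870) (nat_lit 380) (nat_lit 2163323169) (nat_lit 76) (nat_lit 6335510147) (nat_lit 86) (nat_lit 5) (nat_lit 91) (nat_lit 5) (nat_lit 87) (nat_lit 5) (nat_lit 326) (nat_lit 307) (nat_lit 267)) (XT.lf (nat_lit 0) (nat_lit 3704025711) (nat_lit 456) (nat_lit 6607093936) (nat_lit 76) (nat_lit 45908802) (nat_lit 81) (nat_lit 5) (nat_lit 87) (nat_lit 5) (nat_lit 82) (nat_lit 5) (nat_lit 327) (nat_lit 307) (nat_lit 266))))) (XT.nd (nat_lit 234) (nat_lit 304) (nat_lit 0) (XT.nd (nat_lit 78) (nat_lit 608) (nat_lit 0) (XT.lf (nat_lit 0) (nat_lit 5958911093) (nat_lit 456) (nat_lit 717267078) (nat_lit 76) (nat_lit 3950049076) (nat_lit 81) (nat_lit 5) (nat_lit 87) (nat_lit 5) (nat_lit 82) (nat_lit 5) (nat_lit 328) (nat_lit 307)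 (nat_lit 265)) (XT.nd (nat_lit 78) (nat_lit 304) (nat_lit 0) (XT.lf (nat_lit 0) (nat_lit 5586494908) (nat_lit 304) (nat_lit 2776239996) (nat_lit 380) (nat_lit 2544390371) (nat_lit 77) (nat_lit 5) (nat_lit 81) (nat_lit 5) (nat_lit 82) (nat_lit 5) (nat_lit 329) (nat_lit 307) (nat_lit 264)) (XT.lf (nat_lit 0) (nat_lit 978636062) (nat_lit 304) (nat_lit 9906680528) (nat_lit 380) (nat_lit 316869942) (nat_lit 73) (nat_lit 5) (nat_lit 77) (nat_lit 5) (nat_lit 78) (nat_lit 5) (nat_lit 330) (nat_lit 307) (nat_lit 263)))) (XT.nd (nat_lit 78) (nat_lit 228) (nat_lit 0) (XT.lf (nat_lit 0) (nat_lit 2045355278) (nat_lit 380) (nat_lit 3869936743) (nat_lit 76) (nat_lit 5590770370) (nat_lit 72) (nat_lit 5) (nat_lit 77) (nat_lit 5) (nat_lit 73) (nat_lit 5) (nat_lit 331) (nat_lit 307) (nat_lit 262)) (XT.nd (nat_lit 78) (nat_lit 0) (nat_lit 0) (XT.lf (nat_lit 0) (nat_lit 2828139743) (nat_lit 228) (nat_lit 1684343531)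 (nat_lit 304) (nat_lit 7312557327) (nat_lit 69) (nat_lit 5) (nat_lit 72) (nat_lit 5) (nat_lit 73) (nat_lit 5) (nat_lit 332) (nat_lit 307) (nat_lit 261)) (XT.lf (nat_lit 0) (nat_lit 7167063719) (nat_lit 304) (nat_lit 2265066664) (nat_lit 76) (nat_lit 2724670925) (nat_lit 69) (nat_lit 5) (nat_lit 73) (nat_lit 5) (nat_lit 70) (nat_lit 5) (nat_lit 333) (nat_lit 307) (nat_lit 260)))))) (XT.nd (nat_lit 468) (nat_lit 760) (nat_lit 0) (XT.nd (nat_lit 234) (nat_lit 456) (nat_lit 0) (XT.nd (nat_lit 78) (nat_lit 304) (nat_lit 0) (XT.lf (nat_lit 0) (nat_lit 4874903429) (nat_lit 304) (nat_lit 5139783227) (nat_lit 380) (nat_lit 2487484285) (nat_lit 65) (nat_lit 5) (nat_lit 69) (nat_lit 5) (nat_lit 70) (nat_lit 5) (nat_lit 334) (nat_lit 307) (nat_lit 259)) (XT.nd (nat_lit 78) (nat_lit 228) (nat_lit 0) (XT.lf (nat_lit 0) (nat_lit 131451583) (nat_lit 380) (nat_lit 472600540) (nat_lit 76) (nat_lit 12260878548)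 (nat_lit 64) (nat_lit 5) (nat_lit 69) (nat_lit 5) (nat_lit 65) (nat_lit 5) (nat_lit 335) (nat_lit 307) (nat_lit 258)) (XT.lf (nat_lit 0) (nat_lit 2936061939) (nat_lit 304) (nat_lit 6133520691) (nat_lit 76) (nat_lit 4167322246) (nat_lit 61) (nat_lit 5) (nat_lit 65) (nat_lit 5) (nat_lit 62) (nat_lit 5) (nat_lit 336) (nat_lit 307) (nat_lit 257)))) (XT.nd (nat_lit 78) (nat_lit 228) (nat_lit 0) (XT.lf (nat_lit 0) (nat_lit 1427563223) (nat_lit 228) (nat_lit 4453657294) (nat_lit 304) (nat_lit 7746271468) (nat_lit 58) (nat_lit 5) (nat_lit 61) (nat_lit 5) (nat_lit 62) (nat_lit 5) (nat_lit 337) (nat_lit 307) (nat_lit 256)) (XT.nd (nat_lit 78) (nat_lit 228) (nat_lit 0) (XT.lf (nat_lit 0) (nat_lit 9046148342) (nat_lit 304) (nat_lit 4517037402) (nat_lit 76) (nat_lit 470825787) (nat_lit 58) (nat_lit 5) (nat_lit 62) (nat_lit 5) (nat_lit 59) (nat_lit 5) (nat_lit 338) (nat_lit 307) (nat_lit 255)) (XT.lf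 (nat_lit 0) (nat_lit 3536436479) (nat_lit 228) (nat_lit 8923774812) (nat_lit 304) (nat_lit 1996128610) (nat_lit 55) (nat_lit 5) (nat_lit 58) (nat_lit 5) (nat_lit 59) (nat_lit 5) (nat_lit 339) (nat_lit 307) (nat_lit 254))))) (XT.nd (nat_lit 234) (nat_lit 456) (nat_lit 0) (XT.nd (nat_lit 78) (nat_lit 228) (nat_lit 0) (XT.lf (nat_lit 0) (nat_lit 1149286737) (nat_lit 304) (nat_lit 2819808980) (nat_lit 76) (nat_lit 10927782367) (nat_lit 54) (nat_lit 5) (nat_lit 58) (nat_lit 5) (nat_lit 55) (nat_lit 5) (nat_lit 340) (nat_lit 307) (nat_lit 253)) (XT.nd (nat_lit 78) (nat_lit 0) (nat_lit 0) (XT.lf (nat_lit 0) (nat_lit 4461004594) (nat_lit 304) (nat_lit 9589876007) (nat_lit 76) (nat_lit 1303144235) (nat_lit 51) (nat_lit 5) (nat_lit 55) (nat_lit 5) (nat_lit 52) (nat_lit 5) (nat_lit 341) (nat_lit 307) (nat_lit 252)) (XT.lf (nat_lit 0) (nat_lit 8017301501) (nat_lit 304) (nat_lit 1074486486) (nat_lit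 76) (nat_lit 6738313727) (nat_lit 51) (nat_lit 5) (nat_lit 55) (nat_lit 5) (nat_lit 52) (nat_lit 5) (nat_lit 342) (nat_lit 307) (nat_lit 251)))) (XT.nd (nat_lit 78) (nat_lit 304) (nat_lit 0) (XT.lf (nat_lit 0) (nat_lit 8075424897) (nat_lit 152) (nat_lit 3769104863) (nat_lit 228) (nat_lit 4480818228) (nat_lit 49) (nat_lit 5) (nat_lit 51) (nat_lit 5) (nat_lit 52) (nat_lit 5) (nat_lit 343) (nat_lit 307) (nat_lit 250)) (XT.nd (nat_lit 78) (nat_lit 76) (nat_lit 0) (XT.lf (nat_lit 0) (nat_lit 823045833) (nat_lit 228) (nat_lit 15067410734) (nat_lit 304) (nat_lit 953553510) (nat_lit 46) (nat_lit 5) (nat_lit 49) (nat_lit 5) (nat_lit 50) (nat_lit 5) (nat_lit 344) (nat_lit 307) (nat_lit 249)) (XT.lf (nat_lit 0) (nat_lit 2833665259) (nat_lit 304) (nat_lit 6903101211) (nat_lit 76) (nat_lit 7641129930) (nat_lit 45) (nat_lit 5) (nat_lit 49) (nat_lit 5) (nat_lit 46) (nat_lit 5) (nat_lit 345) (nat_lit 307)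 (nat_lit 248))))))) (XT.nd (nat_lit 936) (nat_lit 836) (nat_lit 0) (XT.nd (nat_lit 468) (nat_lit 456) (nat_lit 0) (XT.nd (nat_lit 234) (nat_lit 228) (nat_lit 0) (XT.nd (nat_lit 78) (nat_lit 152) (nat_lit 0) (XT.lf (nat_lit 0) (nat_lit 2693077033) (nat_lit 152) (nat_lit 4096516283) (nat_lit 228) (nat_lit 11147550009) (nat_lit 43) (nat_lit 5) (nat_lit 45) (nat_lit 5) (nat_lit 46) (nat_lit 5) (nat_lit 346) (nat_lit 307) (nat_lit 247)) (XT.nd (nat_lit 78) (nat_lit 152) (nat_lit 0) (XT.lf (nat_lit 0) (nat_lit 11060442166) (nat_lit 228) (nat_lit 5588810410) (nat_lit 76) (nat_lit 1869260551) (nat_lit 43) (nat_lit 5) (nat_lit 46) (nat_lit 5) (nat_lit 44) (nat_lit 5) (nat_lit 347) (nat_lit 307) (nat_lit 246)) (XT.lf (nat_lit 0) (nat_lit 4582427192) (nat_lit 152) (nat_lit 11072340608) (nat_lit 228) (nat_lit 3468702853) (nat_lit 41) (nat_lit 5) (nat_lit 43) (nat_lit 5) (nat_lit 44) (nat_lit 5) (nat_lit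 348) (nat_lit 307) (nat_lit 245)))) (XT.nd (nat_lit 78) (nat_lit 152) (nat_lit 0) (XT.lf (nat_lit 0) (nat_lit 764702782) (nat_lit 228) (nat_lit 4356985246) (nat_lit 76) (nat_lit 14633059436) (nat_lit 40) (nat_lit 5) (nat_lit 43) (nat_lit 5) (nat_lit 41) (nat_lit 5) (nat_lit 349) (nat_lit 307) (nat_lit 244)) (XT.nd (nat_lit 78) (nat_lit 0) (nat_lit 0) (XT.lf (nat_lit 0) (nat_lit 5186454304) (nat_lit 228) (nat_lit 13989710183) (nat_lit 76) (nat_lit 1233931872) (nat_lit 38) (nat_lit 5) (nat_lit 41) (nat_lit 5) (nat_lit 39) (nat_lit 5) (nat_lit 350) (nat_lit 307) (nat_lit 243)) (XT.lf (nat_lit 0) (nat_lit 9961381943) (nat_lit 228) (nat_lit 3336458097) (nat_lit 76) (nat_lit 7793781354) (nat_lit 38) (nat_lit 5) (nat_lit 41) (nat_lit 5) (nat_lit 39) (nat_lit 5) (nat_lit 351) (nat_lit 307) (nat_lit 242))))) (XT.nd (nat_lit 234) (nat_lit 152) (nat_lit 0) (XT.nd (nat_lit 78) (nat_lit 152) (nat_lit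 0) (XT.lf (nat_lit 0) (nat_lit 8065061391) (nat_lit 152) (nat_lit 7010321502) (nat_lit 228) (nat_lit 6726835940) (nat_lit 36) (nat_lit 5) (nat_lit 38) (nat_lit 5) (nat_lit 39) (nat_lit 5) (nat_lit 352) (nat_lit 307) (nat_lit 241)) (XT.nd (nat_lit 78) (nat_lit 152) (nat_lit 0) (XT.lf (nat_lit 0) (nat_lit 20110649542) (nat_lit 152) (nat_lit 365912969) (nat_lit 228) (nat_lit 2070221606) (nat_lit 36) (nat_lit 5) (nat_lit 38) (nat_lit 5) (nat_lit 39) (nat_lit 5) (nat_lit 353) (nat_lit 307) (nat_lit 240)) (XT.lf (nat_lit 0) (nat_lit 2961632735) (nat_lit 152) (nat_lit 13771952137) (nat_lit 76) (nat_lit 6581170688) (nat_lit 34) (nat_lit 5) (nat_lit 36) (nat_lit 5) (nat_lit 35) (nat_lit 5) (nat_lit 354) (nat_lit 307) (nat_lit 239)))) (XT.nd (nat_lit 78) (nat_lit 152) (nat_lit 0) (XT.lf (nat_lit 0) (nat_lit 8199477928) (nat_lit 152) (nat_lit 1995356879) (nat_lit 76) (nat_lit 13923405591) (nat_lit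 34) (nat_lit 5) (nat_lit 36) (nat_lit 5) (nat_lit 35) (nat_lit 5) (nat_lit 355) (nat_lit 307) (nat_lit 238)) (XT.nd (nat_lit 78) (nat_lit 0) (nat_lit 0) (XT.lf (nat_lit 0) (nat_lit 10672663262) (nat_lit 152) (nat_lit 3170362414) (nat_lit 228) (nat_lit 11111693080) (nat_lit 32) (nat_lit 5) (nat_lit 34) (nat_lit 5) (nat_lit 35) (nat_lit 5) (nat_lit 356) (nat_lit 307) (nat_lit 237)) (XT.lf (nat_lit 0) (nat_lit 19846171548) (nat_lit 228) (nat_lit 1893427092) (nat_lit 76) (nat_lit 4089560682) (nat_lit 32) (nat_lit 5) (nat_lit 35) (nat_lit 5) (nat_lit 33) (nat_lit 4) (nat_lit 357) (nat_lit 307) (nat_lit 236)))))) (XT.nd (nat_lit 468) (nat_lit 380) (nat_lit 0) (XT.nd (nat_lit 234) (nat_lit 152) (nat_lit 0) (XT.nd (nat_lit 78) (nat_lit 228) (nat_lit 0) (XT.lf (nat_lit 0) (nat_lit 11389830662) (nat_lit 76) (nat_lit 14967937130) (nat_lit 152) (nat_lit 379148353) (nat_lit 31) (nat_lit 5) (nat_lit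 32) (nat_lit 5) (nat_lit 33) (nat_lit 4) (nat_lit 358) (nat_lit 307) (nat_lit 235)) (XT.nd (nat_lit 78) (nat_lit 152) (nat_lit 0) (XT.lf (nat_lit 0) (nat_lit 5339873584) (nat_lit 152) (nat_lit 2409430808) (nat_lit 76) (nat_lit 19935908083) (nat_lit 30) (nat_lit 5) (nat_lit 32) (nat_lit 5) (nat_lit 31) (nat_lit 5) (nat_lit 359) (nat_lit 307) (nat_lit 234)) (XT.lf (nat_lit 0) (nat_lit 11491437707) (nat_lit 228) (nat_lit 17171516262) (nat_lit 76) (nat_lit 9699897) (nat_lit 28) (nat_lit 5) (nat_lit 31) (nat_lit 5) (nat_lit 29) (nat_lit 4) (nat_lit 360) (nat_lit 307) (nat_lit 233)))) (XT.nd (nat_lit 78) (nat_lit 152) (nat_lit 0) (XT.lf (nat_lit 0) (nat_lit 18098886488) (nat_lit 228) (nat_lit 3680145241) (nat_lit 76) (nat_lit 7923027587) (nat_lit 28) (nat_lit 5) (nat_lit 31) (nat_lit 5) (nat_lit 29) (nat_lit 4) (nat_lit 361) (nat_lit 307) (nat_lit 232)) (XT.nd (nat_lit 78) (nat_lit 76) (nat_lit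 0) (XT.lf (nat_lit 0) (nat_lit 10797185132) (nat_lit 76) (nat_lit 14388853909) (nat_lit 152) (nat_lit 5589436388) (nat_lit 27) (nat_lit 5) (nat_lit 28) (nat_lit 5) (nat_lit 29) (nat_lit 4) (nat_lit 362) (nat_lit 307) (nat_lit 231)) (XT.lf (nat_lit 0) (nat_lit 745962273) (nat_lit 152) (nat_lit 5819913764) (nat_lit 76) (nat_lit 25333917694) (nat_lit 26) (nat_lit 5) (nat_lit 28) (nat_lit 5) (nat_lit 27) (nat_lit 5) (nat_lit 363) (nat_lit 307) (nat_lit 230))))) (XT.nd (nat_lit 234) (nat_lit 152) (nat_lit 0) (XT.nd (nat_lit 78) (nat_lit 76) (nat_lit 0) (XT.lf (nat_lit 0) (nat_lit 7365310000) (nat_lit 228) (nat_lit 23881726718) (nat_lit 76) (nat_lit 1820964697) (nat_lit 24) (nat_lit 5) (nat_lit 27) (nat_lit 5) (nat_lit 25) (nat_lit 4) (nat_lit 364) (nat_lit 307) (nat_lit 229)) (XT.nd (nat_lit 78) (nat_lit 76) (nat_lit 0) (XT.lf (nat_lit 0) (nat_lit 14505332406) (nat_lit 228) (nat_lit 9286912046)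 (nat_lit 76) (nat_lit 10492895390) (nat_lit 24) (nat_lit 5) (nat_lit 27) (nat_lit 5) (nat_lit 25) (nat_lit 4) (nat_lit 365) (nat_lit 307) (nat_lit 228)) (XT.lf (nat_lit 0) (nat_lit 6205009595) (nat_lit 76) (nat_lit 15876977390) (nat_lit 152) (nat_lit 13477172106) (nat_lit 23) (nat_lit 5) (nat_lit 24) (nat_lit 5) (nat_lit 25) (nat_lit 4) (nat_lit 366) (nat_lit 307) (nat_lit 227)))) (XT.nd (nat_lit 78) (nat_lit 152) (nat_lit 0) (XT.lf (nat_lit 0) (nat_lit 22763218867) (nat_lit 76) (nat_lit 7414628738) (nat_lit 152) (nat_lit 6712018226) (nat_lit 23) (nat_lit 5) (nat_lit 24) (nat_lit 5) (nat_lit 25) (nat_lit 4) (nat_lit 367) (nat_lit 307) (nat_lit 226)) (XT.nd (nat_lit 78) (nat_lit 0) (nat_lit 0) (XT.lf (nat_lit 0) (nat_lit 415291221) (nat_lit 152) (nat_lit 36422795542) (nat_lit 76) (nat_lit 1446899073) (nat_lit 21) (nat_lit 5) (nat_lit 23) (nat_lit 5) (nat_lit 22) (nat_lit 4) (nat_lit 368)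 (nat_lit 307) (nat_lit 225)) (XT.lf (nat_lit 0) (nat_lit 8021858575) (nat_lit 152) (nat_lit 20862421763) (nat_lit 76) (nat_lit 10842661322) (nat_lit 21) (nat_lit 5) (nat_lit 23) (nat_lit 5) (nat_lit 22) (nat_lit 4) (nat_lit 369) (nat_lit 307) (nat_lit 224))))))))
noncomputable def xc121 : XT := (XT.nd (nat_lit 1794) (nat_lit 456) (nat_lit 0) (XT.nd (nat_lit 858) (nat_lit 380) (nat_lit 0) (XT.nd (nat_lit 390) (nat_lit 228) (nat_lit 0) (XT.nd (nat_lit 156) (nat_lit 152) (nat_lit 0) (XT.nd (nat_lit 78) (nat_lit 76) (nat_lit 0) (XT.lf (nat_lit 0) (nat_lit 15993273700) (nat_lit 152) (nat_lit 4552534374) (nat_lit 76) (nat_lit 20695965504) (nat_lit 21) (nat_lit 5) (nat_lit 23) (nat_lit 5) (nat_lit 22) (nat_lit 4) (nat_lit 370) (nat_lit 307) (nat_lit 223)) (XT.lf (nat_lit 0) (nat_lit 12960517179) (nat_lit 76) (nat_lit 11590348970) (nat_lit 152) (nat_lit 18272104683) (nat_lit 20) (nat_lit 5) (nat_lit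 21) (nat_lit 5) (nat_lit 22) (nat_lit 4) (nat_lit 371) (nat_lit 307) (nat_lit 222))) (XT.nd (nat_lit 78) (nat_lit 152) (nat_lit 0) (XT.lf (nat_lit 0) (nat_lit 31480565196) (nat_lit 76) (nat_lit 2118414024) (nat_lit 152) (nat_lit 10881120555) (nat_lit 20) (nat_lit 5) (nat_lit 21) (nat_lit 5) (nat_lit 22) (nat_lit 4) (nat_lit 372) (nat_lit 307) (nat_lit 221)) (XT.nd (nat_lit 78) (nat_lit 76) (nat_lit 0) (XT.lf (nat_lit 0) (nat_lit 4709099864) (nat_lit 76) (nat_lit 38572171520) (nat_lit 76) (nat_lit 2929728801) (nat_lit 19) (nat_lit 4) (nat_lit 20) (nat_lit 5) (nat_lit 20) (nat_lit 4) (nat_lit 373) (nat_lit 307) (nat_lit 220)) (XT.lf (nat_lit 0) (nat_lit 5490359813) (nat_lit 152) (nat_lit 24411896843) (nat_lit 76) (nat_lit 18109733007) (nat_lit 18) (nat_lit 5) (nat_lit 20) (nat_lit 5) (nat_lit 19) (nat_lit 4) (nat_lit 374) (nat_lit 307) (nat_lit 219))))) (XT.nd (nat_lit 234) (nat_lit 152)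 (nat_lit 0) (XT.nd (nat_lit 78) (nat_lit 76) (nat_lit 0) (XT.lf (nat_lit 0) (nat_lit 14219743312) (nat_lit 152) (nat_lit 6540176616) (nat_lit 76) (nat_lit 29141373032) (nat_lit 18) (nat_lit 5) (nat_lit 20) (nat_lit 5) (nat_lit 19) (nat_lit 4) (nat_lit 375) (nat_lit 307) (nat_lit 218)) (XT.nd (nat_lit 78) (nat_lit 0) (nat_lit 0) (XT.lf (nat_lit 0) (nat_lit 12604991808) (nat_lit 76) (nat_lit 10964782998) (nat_lit 152) (nat_lit 28306080710) (nat_lit 17) (nat_lit 5) (nat_lit 18) (nat_lit 5) (nat_lit 19) (nat_lit 4) (nat_lit 376) (nat_lit 307) (nat_lit 217)) (XT.lf (nat_lit 0) (nat_lit 32911282811) (nat_lit 76) (nat_lit 574404512) (nat_lit 152) (nat_lit 20458542798) (nat_lit 17) (nat_lit 5) (nat_lit 18) (nat_lit 5) (nat_lit 19) (nat_lit 4) (nat_lit 377) (nat_lit 307) (nat_lit 216)))) (XT.nd (nat_lit 78) (nat_lit 152) (nat_lit 0) (XT.lf (nat_lit 0) (nat_lit 44046808663) (nat_lit 152) (nat_lit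 2067024090) (nat_lit 0) (nat_lit 9994722796) (nat_lit 17) (nat_lit 5) (nat_lit 19) (nat_lit 4) (nat_lit 17) (nat_lit 4) (nat_lit 378) (nat_lit 307) (nat_lit 215)) (XT.nd (nat_lit 78) (nat_lit 76) (nat_lit 0) (XT.lf (nat_lit 0) (nat_lit 18405416635) (nat_lit 76) (nat_lit 37015962408) (nat_lit 76) (nat_lit 2945451182) (nat_lit 16) (nat_lit 4) (nat_lit 17) (nat_lit 5) (nat_lit 17) (nat_lit 4) (nat_lit 379) (nat_lit 307) (nat_lit 214)) (XT.lf (nat_lit 0) (nat_lit 6438788146) (nat_lit 152) (nat_lit 20888543487) (nat_lit 76) (nat_lit 33404305177) (nat_lit 15) (nat_lit 5) (nat_lit 17) (nat_lit 5) (nat_lit 16) (nat_lit 4) (nat_lit 380) (nat_lit 307) (nat_lit 213)))))) (XT.nd (nat_lit 468) (nat_lit 228) (nat_lit 0) (XT.nd (nat_lit 234) (nat_lit 76) (nat_lit 0) (XT.nd (nat_lit 78) (nat_lit 76) (nat_lit 0) (XT.lf (nat_lit 0) (nat_lit 16182437154) (nat_lit 152) (nat_lit 930775363) (nat_lit 76) (nat_lit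 46099599960) (nat_lit 15) (nat_lit 5) (nat_lit 17) (nat_lit 5) (nat_lit 16) (nat_lit 4) (nat_lit 381) (nat_lit 307) (nat_lit 212)) (XT.nd (nat_lit 78) (nat_lit 0) (nat_lit 0) (XT.lf (nat_lit 0) (nat_lit 20666864764) (nat_lit 76) (nat_lit 6058770753) (nat_lit 152) (nat_lit 39076795222) (nat_lit 14) (nat_lit 5) (nat_lit 15) (nat_lit 5) (nat_lit 16) (nat_lit 4) (nat_lit 382) (nat_lit 307) (nat_lit 211)) (XT.lf (nat_lit 0) (nat_lit 37888390265) (nat_lit 152) (nat_lit 25250461747) (nat_lit 0) (nat_lit 5378060135) (nat_lit 14) (nat_lit 5) (nat_lit 16) (nat_lit 4) (nat_lit 14) (nat_lit 4) (nat_lit 383) (nat_lit 307) (nat_lit 210)))) (XT.nd (nat_lit 78) (nat_lit 76) (nat_lit 0) (XT.lf (nat_lit 0) (nat_lit 49698843962) (nat_lit 152) (nat_lit 4489033016) (nat_lit 0) (nat_lit 17174764546) (nat_lit 14) (nat_lit 5) (nat_lit 16) (nat_lit 4) (nat_lit 14) (nat_lit 4) (nat_lit 384) (nat_lit 307) (nat_lit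 209)) (XT.nd (nat_lit 78) (nat_lit 0) (nat_lit 0) (XT.lf (nat_lit 0) (nat_lit 17864522881) (nat_lit 76) (nat_lit 44504914731) (nat_lit 76) (nat_lit 11967740756) (nat_lit 13) (nat_lit 4) (nat_lit 14) (nat_lit 5) (nat_lit 14) (nat_lit 4) (nat_lit 385) (nat_lit 307) (nat_lit 208)) (XT.lf (nat_lit 0) (nat_lit 41474170910) (nat_lit 76) (nat_lit 34266286539) (nat_lit 76) (nat_lit 1716641556) (nat_lit 13) (nat_lit 4) (nat_lit 14) (nat_lit 5) (nat_lit 14) (nat_lit 4) (nat_lit 386) (nat_lit 307) (nat_lit 207))))) (XT.nd (nat_lit 234) (nat_lit 76) (nat_lit 0) (XT.nd (nat_lit 78) (nat_lit 76) (nat_lit 0) (XT.lf (nat_lit 0) (nat_lit 8748614756) (nat_lit 152) (nat_lit 14626861882) (nat_lit 76) (nat_lit 57350920033) (nat_lit 12) (nat_lit 5) (nat_lit 14) (nat_lit 5) (nat_lit 13) (nat_lit 4) (nat_lit 387) (nat_lit 307) (nat_lit 206)) (XT.nd (nat_lit 78) (nat_lit 0) (nat_lit 0) (XT.lf (nat_lit 0) (nat_lit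 8009113998) (nat_lit 76) (nat_lit 11786958052) (nat_lit 152) (nat_lit 64355850191) (nat_lit 11) (nat_lit 5) (nat_lit 12) (nat_lit 5) (nat_lit 13) (nat_lit 4) (nat_lit 388) (nat_lit 307) (nat_lit 205)) (XT.lf (nat_lit 0) (nat_lit 31645243533) (nat_lit 152) (nat_lit 55477777734) (nat_lit 0) (nat_lit 613237217) (nat_lit 11) (nat_lit 5) (nat_lit 13) (nat_lit 4) (nat_lit 11) (nat_lit 4) (nat_lit 389) (nat_lit 307) (nat_lit 204)))) (XT.nd (nat_lit 78) (nat_lit 76) (nat_lit 0) (XT.lf (nat_lit 0) (nat_lit 44272120701) (nat_lit 152) (nat_lit 33988086850) (nat_lit 0) (nat_lit 13230343024) (nat_lit 11) (nat_lit 5) (nat_lit 13) (nat_lit 4) (nat_lit 11) (nat_lit 4) (nat_lit 390) (nat_lit 307) (nat_lit 203)) (XT.nd (nat_lit 78) (nat_lit 76) (nat_lit 0) (XT.lf (nat_lit 0) (nat_lit 57522740100) (nat_lit 152) (nat_lit 11438542213) (nat_lit 0) (nat_lit 26471656364) (nat_lit 11) (nat_lit 5) (nat_lit 13) (nat_lit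 4) (nat_lit 11) (nat_lit 4) (nat_lit 391) (nat_lit 307) (nat_lit 202)) (XT.lf (nat_lit 0) (nat_lit 12628744253) (nat_lit 76) (nat_lit 58997076659) (nat_lit 76) (nat_lit 27937130011) (nat_lit 10) (nat_lit 4) (nat_lit 11) (nat_lit 5) (nat_lit 11) (nat_lit 4) (nat_lit 392) (nat_lit 307) (nat_lit 201))))))) (XT.nd (nat_lit 936) (nat_lit 228) (nat_lit 0) (XT.nd (nat_lit 468) (nat_lit 76) (nat_lit 0) (XT.nd (nat_lit 234) (nat_lit 76) (nat_lit 0) (XT.nd (nat_lit 78) (nat_lit 76) (nat_lit 0) (XT.lf (nat_lit 0) (nat_lit 38282806056) (nat_lit 76) (nat_lit 48337858015) (nat_lit 76) (nat_lit 17269470498) (nat_lit 10) (nat_lit 4) (nat_lit 11) (nat_lit 5) (nat_lit 11) (nat_lit 4) (nat_lit 393) (nat_lit 307) (nat_lit 200)) (XT.nd (nat_lit 78) (nat_lit 76) (nat_lit 0) (XT.lf (nat_lit 0) (nat_lit 65206514432) (nat_lit 76) (nat_lit 37151964535) (nat_lit 76) (nat_lit 6075538094) (nat_lit 10) (nat_lit 4) (nat_lit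 11) (nat_lit 5) (nat_lit 11) (nat_lit 4) (nat_lit 394) (nat_lit 307) (nat_lit 199)) (XT.lf (nat_lit 0) (nat_lit 5489801778) (nat_lit 152) (nat_lit 19829988912) (nat_lit 76) (nat_lit 87881199220) (nat_lit 9) (nat_lit 5) (nat_lit 11) (nat_lit 5) (nat_lit 10) (nat_lit 4) (nat_lit 395) (nat_lit 307) (nat_lit 198)))) (XT.nd (nat_lit 78) (nat_lit 0) (nat_lit 0) (XT.lf (nat_lit 0) (nat_lit 4778699694) (nat_lit 76) (nat_lit 12718897277) (nat_lit 152) (nat_lit 100700317157) (nat_lit 8) (nat_lit 5) (nat_lit 9) (nat_lit 5) (nat_lit 10) (nat_lit 4) (nat_lit 396) (nat_lit 307) (nat_lit 197)) (XT.nd (nat_lit 78) (nat_lit 0) (nat_lit 0) (XT.lf (nat_lit 0) (nat_lit 30448892326) (nat_lit 152) (nat_lit 92147191442) (nat_lit 0) (nat_lit 831446210) (nat_lit 8) (nat_lit 5) (nat_lit 10) (nat_lit 4) (nat_lit 8) (nat_lit 4) (nat_lit 397) (nat_lit 307) (nat_lit 196)) (XT.lf (nat_lit 0) (nat_lit 44250335279) (nat_lit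 152) (nat_lit 70031572641) (nat_lit 0) (nat_lit 14626590457) (nat_lit 8) (nat_lit 5) (nat_lit 10) (nat_lit 4) (nat_lit 8) (nat_lit 4) (nat_lit 398) (nat_lit 307) (nat_lit 195))))) (XT.nd (nat_lit 234) (nat_lit 0) (nat_lit 0) (XT.nd (nat_lit 78) (nat_lit 76) (nat_lit 0) (XT.lf (nat_lit 0) (nat_lit 58736208778) (nat_lit 152) (nat_lit 46821124163) (nat_lit 0) (nat_lit 29106465187) (nat_lit 8) (nat_lit 5) (nat_lit 10) (nat_lit 4) (nat_lit 8) (nat_lit 4) (nat_lit 399) (nat_lit 307) (nat_lit 194)) (XT.nd (nat_lit 78) (nat_lit 76) (nat_lit 0) (XT.lf (nat_lit 0) (nat_lit 73941002998) (nat_lit 152) (nat_lit 22460583037) (nat_lit 0) (nat_lit 44305546295) (nat_lit 8) (nat_lit 5) (nat_lit 10) (nat_lit 4) (nat_lit 8) (nat_lit 4) (nat_lit 400) (nat_lit 307) (nat_lit 193)) (XT.lf (nat_lit 0) (nat_lit 3210818262) (nat_lit 76) (nat_lit 86740231438) (nat_lit 76) (nat_lit 57099333676) (nat_lit 7) (nat_lit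 4) (nat_lit 8) (nat_lit 5) (nat_lit 8) (nat_lit 4) (nat_lit 401) (nat_lit 307) (nat_lit 192)))) (XT.nd (nat_lit 78) (nat_lit 0) (nat_lit 0) (XT.lf (nat_lit 0) (nat_lit 30935797445) (nat_lit 76) (nat_lit 76201156125) (nat_lit 76) (nat_lit 46555076401) (nat_lit 7) (nat_lit 4) (nat_lit 8) (nat_lit 5) (nat_lit 8) (nat_lit 4) (nat_lit 402) (nat_lit 307) (nat_lit 191)) (XT.nd (nat_lit 78) (nat_lit 0) (nat_lit 0) (XT.lf (nat_lit 0) (nat_lit 60037718057) (nat_lit 76) (nat_lit 65139647901) (nat_lit 76) (nat_lit 35488632976) (nat_lit 7) (nat_lit 4) (nat_lit 8) (nat_lit 5) (nat_lit 8) (nat_lit 4) (nat_lit 403) (nat_lit 307) (nat_lit 190)) (XT.lf (nat_lit 0) (nat_lit 90585870384) (nat_lit 76) (nat_lit 53529369841) (nat_lit 76) (nat_lit 23873654724) (nat_lit 7) (nat_lit 4) (nat_lit 8) (nat_lit 5) (nat_lit 8) (nat_lit 4) (nat_lit 404) (nat_lit 307) (nat_lit 189)))))) (XT.nd (nat_lit 468) (nat_lit 76)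 (nat_lit 0) (XT.nd (nat_lit 234) (nat_lit 76) (nat_lit 0) (XT.nd (nat_lit 78) (nat_lit 76) (nat_lit 0) (XT.lf (nat_lit 0) (nat_lit 122652988122) (nat_lit 76) (nat_lit 41342678427) (nat_lit 76) (nat_lit 11682486937) (nat_lit 7) (nat_lit 4) (nat_lit 8) (nat_lit 5) (nat_lit 8) (nat_lit 4) (nat_lit 405) (nat_lit 307) (nat_lit 188)) (XT.nd (nat_lit 78) (nat_lit 0) (nat_lit 0) (XT.lf (nat_lit 0) (nat_lit 1078245316) (nat_lit 152) (nat_lit 27454051804) (nat_lit 76) (nat_lit 155218915629) (nat_lit 6) (nat_lit 5) (nat_lit 8) (nat_lit 5) (nat_lit 7) (nat_lit 4) (nat_lit 406) (nat_lit 307) (nat_lit 187)) (XT.lf (nat_lit 0) (nat_lit 14080402887) (nat_lit 152) (nat_lit 803688985) (nat_lit 76) (nat_lit 177334458001) (nat_lit 6) (nat_lit 5) (nat_lit 8) (nat_lit 5) (nat_lit 7) (nat_lit 4) (nat_lit 407) (nat_lit 307) (nat_lit 186)))) (XT.nd (nat_lit 78) (nat_lit 0) (nat_lit 0) (XT.lf (nat_lit 0) (nat_lit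 28070194213) (nat_lit 76) (nat_lit 96916019) (nat_lit 152) (nat_lit 172920422051) (nat_lit 5) (nat_lit 5) (nat_lit 6) (nat_lit 5) (nat_lit 7) (nat_lit 4) (nat_lit 408) (nat_lit 307) (nat_lit 185)) (XT.nd (nat_lit 78) (nat_lit 0) (nat_lit 0) (XT.lf (nat_lit 0) (nat_lit 43209086104) (nat_lit 152) (nat_lit 152232164007) (nat_lit 0) (nat_lit 14946167544) (nat_lit 5) (nat_lit 5) (nat_lit 7) (nat_lit 4) (nat_lit 5) (nat_lit 4) (nat_lit 409) (nat_lit 307) (nat_lit 184)) (XT.lf (nat_lit 0) (nat_lit 59001130108) (nat_lit 152) (nat_lit 130416397987) (nat_lit 0) (nat_lit 30734871209) (nat_lit 5) (nat_lit 5) (nat_lit 7) (nat_lit 4) (nat_lit 5) (nat_lit 4) (nat_lit 410) (nat_lit 307) (nat_lit 183))))) (XT.nd (nat_lit 234) (nat_lit 76) (nat_lit 0) (XT.nd (nat_lit 78) (nat_lit 0) (nat_lit 0) (XT.lf (nat_lit 0) (nat_lit 75579329218) (nat_lit 152) (nat_lit 107516584580) (nat_lit 0) (nat_lit 47309889045)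 (nat_lit 5) (nat_lit 5) (nat_lit 7) (nat_lit 4) (nat_lit 5) (nat_lit 4) (nat_lit 411) (nat_lit 307) (nat_lit 182)) (XT.nd (nat_lit 78) (nat_lit 0) (nat_lit 0) (XT.lf (nat_lit 0) (nat_lit 92983155338) (nat_lit 152) (nat_lit 83478200421) (nat_lit 0) (nat_lit 64710685379) (nat_lit 5) (nat_lit 5) (nat_lit 7) (nat_lit 4) (nat_lit 5) (nat_lit 4) (nat_lit 412) (nat_lit 307) (nat_lit 181)) (XT.lf (nat_lit 0) (nat_lit 111254046147) (nat_lit 152) (nat_lit 58244011263) (nat_lit 0) (nat_lit 82978690678) (nat_lit 5) (nat_lit 5) (nat_lit 7) (nat_lit 4) (nat_lit 5) (nat_lit 4) (nat_lit 413) (nat_lit 307) (nat_lit 180)))) (XT.nd (nat_lit 78) (nat_lit 76) (nat_lit 0) (XT.lf (nat_lit 0) (nat_lit 130435503769) (nat_lit 152) (nat_lit 31753935701) (nat_lit 0) (nat_lit 102157400195) (nat_lit 5) (nat_lit 5) (nat_lit 7) (nat_lit 4) (nat_lit 5) (nat_lit 4) (nat_lit 414) (nat_lit 307) (nat_lit 179)) (XT.nd (nat_lit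 78) (nat_lit 76) (nat_lit 0) (XT.lf (nat_lit 0) (nat_lit 150573198339) (nat_lit 152) (nat_lit 3944902128) (nat_lit 0) (nat_lit 122292477522) (nat_lit 5) (nat_lit 5) (nat_lit 7) (nat_lit 4) (nat_lit 5) (nat_lit 4) (nat_lit 415) (nat_lit 307) (nat_lit 178)) (XT.lf (nat_lit 0) (nat_lit 26084157375) (nat_lit 76) (nat_lit 146038166171) (nat_lit 76) (nat_lit 117754952743) (nat_lit 4) (nat_lit 4) (nat_lit 5) (nat_lit 5) (nat_lit 5) (nat_lit 4) (nat_lit 416) (nat_lit 307) (nat_lit 177))))))))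
noncomputable def xc122 : XT := (XT.nd (nat_lit 38766) (nat_lit 0) (nat_lit 4484) (XT.nd (nat_lit 858) (nat_lit 76) (nat_lit 0) (XT.nd (nat_lit 390) (nat_lit 76) (nat_lit 0) (XT.nd (nat_lit 156) (nat_lit 0) (nat_lit 0) (XT.nd (nat_lit 78) (nat_lit 0) (nat_lit 0) (XT.lf (nat_lit 0) (nat_lit 57746431454) (nat_lit 76) (nat_lit 137066628981) (nat_lit 76) (nat_lit 108781041636) (nat_lit 4) (nat_lit 4) (nat_lit 5) (nat_lit 5) (nat_lit 5) (nat_lit 4) (nat_lit 417) (nat_lit 307) (nat_lit 176)) (XT.lf (nat_lit 0) (nat_lit 90986870194) (nat_lit 76) (nat_lit 127648936919) (nat_lit 76) (nat_lit 99361088702) (nat_lit 4) (nat_lit 4) (nat_lit 5) (nat_lit 5) (nat_lit 5) (nat_lit 4) (nat_lit 418) (nat_lit 307) (nat_lit 175))) (XT.nd (nat_lit 78) (nat_lit 0) (nat_lit 0) (XT.lf (nat_lit 0) (nat_lit 125884617499) (nat_lit 76) (nat_lit 117762666911) (nat_lit 76) (nat_lit 89472665481) (nat_lit 4) (nat_lit 4)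 (nat_lit 5) (nat_lit 5) (nat_lit 5) (nat_lit 4) (nat_lit 419) (nat_lit 307) (nat_lit 174)) (XT.nd (nat_lit 78) (nat_lit 0) (nat_lit 0) (XT.lf (nat_lit 0) (nat_lit 162522763241) (nat_lit 76) (nat_lit 107384280217) (nat_lit 76) (nat_lit 79092228109) (nat_lit 4) (nat_lit 4) (nat_lit 5) (nat_lit 5) (nat_lit 5) (nat_lit 4) (nat_lit 420) (nat_lit 307) (nat_lit 173)) (XT.lf (nat_lit 0) (nat_lit 200988541102) (nat_lit 76) (nat_lit 96489066393) (nat_lit 76) (nat_lit 68195061259) (nat_lit 4) (nat_lit 4) (nat_lit 5) (nat_lit 5) (nat_lit 5) (nat_lit 4) (nat_lit 421) (nat_lit 307) (nat_lit 172))))) (XT.nd (nat_lit 234) (nat_lit 76) (nat_lit 0) (XT.nd (nat_lit 78) (nat_lit 0) (nat_lit 0) (XT.lf (nat_lit 0) (nat_lit 241373536267) (nat_lit 76) (nat_lit 85051084454) (nat_lit 76) (nat_lit 56755219294) (nat_lit 4) (nat_lit 4) (nat_lit 5) (nat_lit 5) (nat_lit 5) (nat_lit 4) (nat_lit 422) (nat_lit 307) (nat_lit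 171)) (XT.nd (nat_lit 78) (nat_lit 0) (nat_lit 0) (XT.lf (nat_lit 0) (nat_lit 283773903486) (nat_lit 76) (nat_lit 73043101109) (nat_lit 76) (nat_lit 44745464497) (nat_lit 4) (nat_lit 4) (nat_lit 5) (nat_lit 5) (nat_lit 5) (nat_lit 4) (nat_lit 423) (nat_lit 307) (nat_lit 170)) (XT.lf (nat_lit 0) (nat_lit 328290596014) (nat_lit 76) (nat_lit 60436525923) (nat_lit 76) (nat_lit 32137202212) (nat_lit 4) (nat_lit 4) (nat_lit 5) (nat_lit 5) (nat_lit 5) (nat_lit 4) (nat_lit 424) (nat_lit 307) (nat_lit 169)))) (XT.nd (nat_lit 78) (nat_lit 76) (nat_lit 0) (XT.lf (nat_lit 0) (nat_lit 375029605977) (nat_lit 76) (nat_lit 47201343239) (nat_lit 76) (nat_lit 18900412768) (nat_lit 4) (nat_lit 4) (nat_lit 5) (nat_lit 5) (nat_lit 5) (nat_lit 4) (nat_lit 425) (nat_lit 307) (nat_lit 168)) (XT.nd (nat_lit 78) (nat_lit 76) (nat_lit 0) (XT.lf (nat_lit 0) (nat_lit 424102216732) (nat_lit 76) (nat_lit 33306040718)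 (nat_lit 76) (nat_lit 5003580000) (nat_lit 4) (nat_lit 4) (nat_lit 5) (nat_lit 5) (nat_lit 5) (nat_lit 4) (nat_lit 426) (nat_lit 307) (nat_lit 167)) (XT.lf (nat_lit 0) (nat_lit 9279559640) (nat_lit 152) (nat_lit 9280820833) (nat_lit 76) (nat_lit 466188554355) (nat_lit 3) (nat_lit 5) (nat_lit 5) (nat_lit 5) (nat_lit 4) (nat_lit 4) (nat_lit 427) (nat_lit 307) (nat_lit 166)))))) (XT.nd (nat_lit 468) (nat_lit 0) (nat_lit 0) (XT.nd (nat_lit 234) (nat_lit 0) (nat_lit 0) (XT.nd (nat_lit 78) (nat_lit 0) (nat_lit 0) (XT.lf (nat_lit 0) (nat_lit 21812436726) (nat_lit 76) (nat_lit 2635242689) (nat_lit 152) (nat_lit 483734157741) (nat_lit 2) (nat_lit 5) (nat_lit 3) (nat_lit 5) (nat_lit 4) (nat_lit 4) (nat_lit 428) (nat_lit 307) (nat_lit 165)) (XT.nd (nat_lit 78) (nat_lit 0) (nat_lit 0) (XT.lf (nat_lit 0) (nat_lit 40752308644) (nat_lit 152) (nat_lit 478221555616) (nat_lit 0) (nat_lit 13793615347) (nat_lit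 2) (nat_lit 5) (nat_lit 4) (nat_lit 4) (nat_lit 2) (nat_lit 4) (nat_lit 429) (nat_lit 307) (nat_lit 164)) (XT.lf (nat_lit 0) (nat_lit 57913872244) (nat_lit 152) (nat_lit 469712467003) (nat_lit 0) (nat_lit 30953979958) (nat_lit 2) (nat_lit 5) (nat_lit 4) (nat_lit 4) (nat_lit 2) (nat_lit 4) (nat_lit 430) (nat_lit 307) (nat_lit 163)))) (XT.nd (nat_lit 78) (nat_lit 0) (nat_lit 0) (XT.lf (nat_lit 0) (nat_lit 75932087558) (nat_lit 152) (nat_lit 460780731333) (nat_lit 0) (nat_lit 48971053377) (nat_lit 2) (nat_lit 5) (nat_lit 4) (nat_lit 4) (nat_lit 2) (nat_lit 4) (nat_lit 431) (nat_lit 307) (nat_lit 162)) (XT.nd (nat_lit 78) (nat_lit 0) (nat_lit 0) (XT.lf (nat_lit 0) (nat_lit 94849855098) (nat_lit 152) (nat_lit 451405082570) (nat_lit 0) (nat_lit 67887733399) (nat_lit 2) (nat_lit 5) (nat_lit 4) (nat_lit 4) (nat_lit 2) (nat_lit 4) (nat_lit 432) (nat_lit 307) (nat_lit 161)) (XT.lf (nat_lit 0) (nat_lit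 114712217168) (nat_lit 152) (nat_lit 441563197739) (nat_lit 0) (nat_lit 87749059738) (nat_lit 2) (nat_lit 5) (nat_lit 4) (nat_lit 4) (nat_lit 2) (nat_lit 4) (nat_lit 433) (nat_lit 307) (nat_lit 160))))) (XT.nd (nat_lit 37206) (nat_lit 0) (nat_lit 9652) (XT.nd (nat_lit 37050) (nat_lit 0) (nat_lit 10184) (XT.lf (nat_lit 0) (nat_lit 135566465107) (nat_lit 152) (nat_lit 431231643782) (nat_lit 0) (nat_lit 108602321266) (nat_lit 2) (nat_lit 5) (nat_lit 4) (nat_lit 4) (nat_lit 2) (nat_lit 4) (nat_lit 434) (nat_lit 307) (nat_lit 159)) (XT.nd (nat_lit 78) (nat_lit 0) (nat_lit 0) (XT.lf (nat_lit 0) (nat_lit 2004686035) (nat_lit 532) (nat_lit 794873821) (nat_lit 532) (nat_lit 794873821) (nat_lit 136) (nat_lit 3) (nat_lit 143) (nat_lit 3) (nat_lit 143) (nat_lit 5) (nat_lit 308) (nat_lit 308) (nat_lit 284)) (XT.lf (nat_lit 76) (nat_lit 1904027431) (nat_lit 0) (nat_lit 3810452599) (nat_lit 532) (nat_lit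 1571626267) (nat_lit 137) (nat_lit 5) (nat_lit 136) (nat_lit 3) (nat_lit 143) (nat_lit 5) (nat_lit 309) (nat_lit 308) (nat_lit 283)))) (XT.nd (nat_lit 78) (nat_lit 0) (nat_lit 76) (XT.lf (nat_lit 0) (nat_lit 36777932) (nat_lit 532) (nat_lit 1819757606) (nat_lit 608) (nat_lit 5535523360) (nat_lit 129) (nat_lit 5) (nat_lit 136) (nat_lit 3) (nat_lit 137) (nat_lit 5) (nat_lit 310) (nat_lit 308) (nat_lit 282)) (XT.nd (nat_lit 78) (nat_lit 0) (nat_lit 0) (XT.lf (nat_lit 0) (nat_lit 1608517213) (nat_lit 532) (nat_lit 5610029204) (nat_lit 608) (nat_lit 286817908) (nat_lit 130) (nat_lit 5) (nat_lit 137) (nat_lit 5) (nat_lit 138) (nat_lit 5) (nat_lit 311) (nat_lit 308) (nat_lit 281)) (XT.lf (nat_lit 0) (nat_lit 3226506506) (nat_lit 532) (nat_lit 1854504587) (nat_lit 608) (nat_lit 2545064587) (nat_lit 130) (nat_lit 5) (nat_lit 137) (nat_lit 5) (nat_lit 138) (nat_lit 5) (nat_lit 312) (nat_lit 308)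 (nat_lit 280))))))) (XT.nd (nat_lit 936) (nat_lit 2280) (nat_lit 0) (XT.nd (nat_lit 468) (nat_lit 2432) (nat_lit 0) (XT.nd (nat_lit 234) (nat_lit 0) (nat_lit 0) (XT.nd (nat_lit 78) (nat_lit 532) (nat_lit 0) (XT.lf (nat_lit 76) (nat_lit 2098700525) (nat_lit 0) (nat_lit 2769846425) (nat_lit 608) (nat_lit 2887235985) (nat_lit 131) (nat_lit 5) (nat_lit 130) (nat_lit 5) (nat_lit 138) (nat_lit 5) (nat_lit 313) (nat_lit 308) (nat_lit 279)) (XT.nd (nat_lit 78) (nat_lit 532) (nat_lit 0) (XT.lf (nat_lit 76) (nat_lit 6257606513) (nat_lit 0) (nat_lit 280262620) (nat_lit 608) (nat_lit 1356959735) (nat_lit 131) (nat_lit 5) (nat_lit 130) (nat_lit 5) (nat_lit 138) (nat_lit 5) (nat_lit 314) (nat_lit 308) (nat_lit 278)) (XT.lf (nat_lit 0) (nat_lit 236550628) (nat_lit 608) (nat_lit 5473835128) (nat_lit 684) (nat_lit 2330612352) (nat_lit 123) (nat_lit 5) (nat_lit 131) (nat_lit 5) (nat_lit 132) (nat_lit 5)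 (nat_lit 315) (nat_lit 308) (nat_lit 277)))) (XT.nd (nat_lit 78) (nat_lit 0) (nat_lit 0) (XT.lf (nat_lit 0) (nat_lit 1816838184) (nat_lit 608) (nat_lit 1241897317) (nat_lit 684) (nat_lit 5137089836) (nat_lit 123) (nat_lit 5) (nat_lit 131) (nat_lit 5) (nat_lit 132) (nat_lit 5) (nat_lit 316) (nat_lit 308) (nat_lit 276)) (XT.nd (nat_lit 78) (nat_lit 0) (nat_lit 76) (XT.lf (nat_lit 76) (nat_lit 3248345825) (nat_lit 0) (nat_lit 202251269) (nat_lit 684) (nat_lit 4909166377) (nat_lit 124) (nat_lit 5) (nat_lit 123) (nat_lit 5) (nat_lit 132) (nat_lit 5) (nat_lit 317) (nat_lit 308) (nat_lit 275)) (XT.lf (nat_lit 0) (nat_lit 5157851881) (nat_lit 608) (nat_lit 629011415) (nat_lit 76) (nat_lit 2745532808) (nat_lit 124) (nat_lit 5) (nat_lit 132) (nat_lit 5) (nat_lit 125) (nat_lit 5) (nat_lit 318) (nat_lit 308) (nat_lit 274))))) (XT.nd (nat_lit 234) (nat_lit 1140) (nat_lit 0) (XT.nd (nat_lit 78) (nat_lit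 760) (nat_lit 0) (XT.lf (nat_lit 0) (nat_lit 4149517809) (nat_lit 608) (nat_lit 2799301470) (nat_lit 684) (nat_lit 1765007397) (nat_lit 116) (nat_lit 5) (nat_lit 124) (nat_lit 5) (nat_lit 125) (nat_lit 5) (nat_lit 319) (nat_lit 308) (nat_lit 273)) (XT.nd (nat_lit 78) (nat_lit 76) (nat_lit 0) (XT.lf (nat_lit 0) (nat_lit 226644964) (nat_lit 684) (nat_lit 8555182212) (nat_lit 760) (nat_lit 124956804) (nat_lit 107) (nat_lit 5) (nat_lit 116) (nat_lit 5) (nat_lit 117) (nat_lit 5) (nat_lit 320) (nat_lit 308) (nat_lit 272)) (XT.lf (nat_lit 0) (nat_lit 1604426197) (nat_lit 760) (nat_lit 3823470272) (nat_lit 76) (nat_lit 3677395966) (nat_lit 106) (nat_lit 5) (nat_lit 116) (nat_lit 5) (nat_lit 107) (nat_lit 5) (nat_lit 321) (nat_lit 308) (nat_lit 271)))) (XT.nd (nat_lit 78) (nat_lit 380) (nat_lit 0) (XT.lf (nat_lit 0) (nat_lit 1255635895) (nat_lit 760) (nat_lit 2117181152) (nat_lit 836) (nat_lit 5943038883)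 (nat_lit 96) (nat_lit 5) (nat_lit 106) (nat_lit 5) (nat_lit 107) (nat_lit 5) (nat_lit 322) (nat_lit 308) (nat_lit 270)) (XT.nd (nat_lit 78) (nat_lit 380) (nat_lit 0) (XT.lf (nat_lit 0) (nat_lit 5255938331) (nat_lit 836) (nat_lit 2895296246) (nat_lit 76) (nat_lit 1384463136) (nat_lit 96) (nat_lit 5) (nat_lit 107) (nat_lit 5) (nat_lit 97) (nat_lit 5) (nat_lit 323) (nat_lit 308) (nat_lit 269)) (XT.lf (nat_lit 0) (nat_lit 2515835445) (nat_lit 380) (nat_lit 4733537047) (nat_lit 456) (nat_lit 2516413788) (nat_lit 91) (nat_lit 5) (nat_lit 96) (nat_lit 5) (nat_lit 97) (nat_lit 5) (nat_lit 324) (nat_lit 308) (nat_lit 268)))))) (XT.nd (nat_lit 468) (nat_lit 1216) (nat_lit 0) (XT.nd (nat_lit 234) (nat_lit 684) (nat_lit 0) (XT.nd (nat_lit 78) (nat_lit 380) (nat_lit 0) (XT.lf (nat_lit 0) (nat_lit 8241122136) (nat_lit 380) (nat_lit 1094424300) (nat_lit 456) (nat_lit 672238991) (nat_lit 91) (nat_lit 5)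 (nat_lit 96) (nat_lit 5) (nat_lit 97) (nat_lit 5) (nat_lit 325) (nat_lit 308) (nat_lit 267)) (XT.nd (nat_lit 78) (nat_lit 0) (nat_lit 0) (XT.lf (nat_lit 0) (nat_lit 1276501018) (nat_lit 380) (nat_lit 6259963758) (nat_lit 76) (nat_lit 2721846082) (nat_lit 86) (nat_lit 5) (nat_lit 91) (nat_lit 5) (nat_lit 87) (nat_lit 5) (nat_lit 326) (nat_lit 308) (nat_lit 266)) (XT.lf (nat_lit 0) (nat_lit 3295888668) (nat_lit 380) (nat_lit 494163936) (nat_lit 76) (nat_lit 6731020273) (nat_lit 86) (nat_lit 5) (nat_lit 91) (nat_lit 5) (nat_lit 87) (nat_lit 5) (nat_lit 327) (nat_lit 308) (nat_lit 265)))) (XT.nd (nat_lit 78) (nat_lit 304) (nat_lit 0) (XT.lf (nat_lit 0) (nat_lit 5458608596) (nat_lit 456) (nat_lit 5111799343) (nat_lit 76) (nat_lit 224495911) (nat_lit 81) (nat_lit 5) (nat_lit 87) (nat_lit 5) (nat_lit 82) (nat_lit 5) (nat_lit 328) (nat_lit 308) (nat_lit 264)) (XT.nd (nat_lit 78) (nat_lit 0) (nat_lit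 0) (XT.lf (nat_lit 0) (nat_lit 1018171006) (nat_lit 304) (nat_lit 6749231286) (nat_lit 380) (nat_lit 3313173853) (nat_lit 77) (nat_lit 5) (nat_lit 81) (nat_lit 5) (nat_lit 82) (nat_lit 5) (nat_lit 329) (nat_lit 308) (nat_lit 263)) (XT.lf (nat_lit 0) (nat_lit 7576489494) (nat_lit 304) (nat_lit 2654565878) (nat_lit 380) (nat_lit 1147550139) (nat_lit 77) (nat_lit 5) (nat_lit 81) (nat_lit 5) (nat_lit 82) (nat_lit 5) (nat_lit 330) (nat_lit 308) (nat_lit 262))))) (XT.nd (nat_lit 234) (nat_lit 608) (nat_lit 0) (XT.nd (nat_lit 78) (nat_lit 228) (nat_lit 0) (XT.lf (nat_lit 0) (nat_lit 1114699361) (nat_lit 380) (nat_lit 8929026190) (nat_lit 76) (nat_lit 1645752077) (nat_lit 72) (nat_lit 5) (nat_lit 77) (nat_lit 5) (nat_lit 73) (nat_lit 5) (nat_lit 331) (nat_lit 308) (nat_lit 261)) (XT.nd (nat_lit 78) (nat_lit 228) (nat_lit 0) (XT.lf (nat_lit 0) (nat_lit 3515969608) (nat_lit 380) (nat_lit 2348664804)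 (nat_lit 76) (nat_lit 6147133042) (nat_lit 72) (nat_lit 5) (nat_lit 77) (nat_lit 5) (nat_lit 73) (nat_lit 5) (nat_lit 332) (nat_lit 308) (nat_lit 260)) (XT.lf (nat_lit 0) (nat_lit 4656657946) (nat_lit 228) (nat_lit 1410977232) (nat_lit 304) (nat_lit 6281056563) (nat_lit 69) (nat_lit 5) (nat_lit 72) (nat_lit 5) (nat_lit 73) (nat_lit 5) (nat_lit 333) (nat_lit 308) (nat_lit 259)))) (XT.nd (nat_lit 78) (nat_lit 608) (nat_lit 0) (XT.lf (nat_lit 0) (nat_lit 8796950829) (nat_lit 304) (nat_lit 712482640) (nat_lit 76) (nat_lit 3190560253) (nat_lit 69) (nat_lit 5) (nat_lit 73) (nat_lit 5) (nat_lit 70) (nat_lit 5) (nat_lit 334) (nat_lit 308) (nat_lit 258)) (XT.nd (nat_lit 78) (nat_lit 304) (nat_lit 0) (XT.lf (nat_lit 0) (nat_lit 6757617613) (nat_lit 304) (nat_lit 4994376964) (nat_lit 380) (nat_lit 1312436273) (nat_lit 65) (nat_lit 5) (nat_lit 69) (nat_lit 5) (nat_lit 70) (nat_lit 5) (nat_lit 335)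 (nat_lit 308) (nat_lit 257)) (XT.lf (nat_lit 0) (nat_lit 1141770384) (nat_lit 228) (nat_lit 212015822) (nat_lit 304) (nat_lit 12092677764) (nat_lit 61) (nat_lit 5) (nat_lit 64) (nat_lit 5) (nat_lit 65) (nat_lit 5) (nat_lit 336) (nat_lit 308) (nat_lit 256))))))))
noncomputable def xc123 : XT := (XT.nd (nat_lit 1872) (nat_lit 1216) (nat_lit 0) (XT.nd (nat_lit 936) (nat_lit 988) (nat_lit 0) (XT.nd (nat_lit 468) (nat_lit 608) (nat_lit 0) (XT.nd (nat_lit 234) (nat_lit 532) (nat_lit 0) (XT.nd (nat_lit 78) (nat_lit 228) (nat_lit 0) (XT.lf (nat_lit 0) (nat_lit 4254759612) (nat_lit 304) (nat_lit 4811817245) (nat_lit 76) (nat_lit 4772697456) (nat_lit 61) (nat_lit 5) (nat_lit 65) (nat_lit 5) (nat_lit 62) (nat_lit 5) (nat_lit 337) (nat_lit 308) (nat_lit 255)) (XT.nd (nat_lit 78) (nat_lit 0) (nat_lit 0) (XT.lf (nat_lit 0) (nat_lit 3101056679) (nat_lit 228) (nat_lit 4215328446) (nat_lit 304) (nat_lit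 6934587159) (nat_lit 58) (nat_lit 5) (nat_lit 61) (nat_lit 5) (nat_lit 62) (nat_lit 5) (nat_lit 338) (nat_lit 308) (nat_lit 254)) (XT.lf (nat_lit 0) (nat_lit 10592076013) (nat_lit 304) (nat_lit 3168782690) (nat_lit 76) (nat_lit 919373227) (nat_lit 58) (nat_lit 5) (nat_lit 62) (nat_lit 5) (nat_lit 59) (nat_lit 5) (nat_lit 339) (nat_lit 308) (nat_lit 253)))) (XT.nd (nat_lit 78) (nat_lit 304) (nat_lit 0) (XT.lf (nat_lit 0) (nat_lit 5261976068) (nat_lit 228) (nat_lit 8886968710) (nat_lit 304) (nat_lit 976164863) (nat_lit 55) (nat_lit 5) (nat_lit 58) (nat_lit 5) (nat_lit 59) (nat_lit 5) (nat_lit 340) (nat_lit 308) (nat_lit 252)) (XT.nd (nat_lit 78) (nat_lit 228) (nat_lit 0) (XT.lf (nat_lit 0) (nat_lit 2239065873) (nat_lit 304) (nat_lit 1451006792) (nat_lit 76) (nat_lit 11899343236) (nat_lit 54) (nat_lit 5) (nat_lit 58) (nat_lit 5) (nat_lit 55) (nat_lit 5) (nat_lit 341) (nat_lit 308) (nat_lit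 251)) (XT.lf (nat_lit 0) (nat_lit 5697883648) (nat_lit 304) (nat_lit 8540433722) (nat_lit 76) (nat_lit 1832059793) (nat_lit 51) (nat_lit 5) (nat_lit 55) (nat_lit 5) (nat_lit 52) (nat_lit 5) (nat_lit 342) (nat_lit 308) (nat_lit 250))))) (XT.nd (nat_lit 234) (nat_lit 228) (nat_lit 0) (XT.nd (nat_lit 78) (nat_lit 228) (nat_lit 0) (XT.lf (nat_lit 0) (nat_lit 338761270) (nat_lit 152) (nat_lit 9050245579) (nat_lit 228) (nat_lit 7183431771) (nat_lit 49) (nat_lit 5) (nat_lit 51) (nat_lit 5) (nat_lit 52) (nat_lit 5) (nat_lit 343) (nat_lit 308) (nat_lit 249)) (XT.nd (nat_lit 78) (nat_lit 228) (nat_lit 0) (XT.lf (nat_lit 0) (nat_lit 9911839786) (nat_lit 152) (nat_lit 3466856674) (nat_lit 228) (nat_lit 3715225569) (nat_lit 49) (nat_lit 5) (nat_lit 51) (nat_lit 5) (nat_lit 52) (nat_lit 5) (nat_lit 344) (nat_lit 308) (nat_lit 248)) (XT.lf (nat_lit 0) (nat_lit 2313121037) (nat_lit 228) (nat_lit 15298862456)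 (nat_lit 304) (nat_lit 27308933) (nat_lit 46) (nat_lit 5) (nat_lit 49) (nat_lit 5) (nat_lit 50) (nat_lit 5) (nat_lit 345) (nat_lit 308) (nat_lit 247)))) (XT.nd (nat_lit 78) (nat_lit 152) (nat_lit 0) (XT.lf (nat_lit 0) (nat_lit 3873206292) (nat_lit 304) (nat_lit 5838127308) (nat_lit 76) (nat_lit 8490049585) (nat_lit 45) (nat_lit 5) (nat_lit 49) (nat_lit 5) (nat_lit 46) (nat_lit 5) (nat_lit 346) (nat_lit 308) (nat_lit 246)) (XT.nd (nat_lit 78) (nat_lit 0) (nat_lit 0) (XT.lf (nat_lit 0) (nat_lit 4215115834) (nat_lit 152) (nat_lit 3790720754) (nat_lit 228) (nat_lit 10783835107) (nat_lit 43) (nat_lit 5) (nat_lit 45) (nat_lit 5) (nat_lit 46) (nat_lit 5) (nat_lit 347) (nat_lit 308) (nat_lit 245)) (XT.lf (nat_lit 0) (nat_lit 12456069832) (nat_lit 228) (nat_lit 4512306629) (nat_lit 76) (nat_lit 2433464790) (nat_lit 43) (nat_lit 5) (nat_lit 46) (nat_lit 5) (nat_lit 44) (nat_lit 5) (nat_lit 348) (nat_lit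 308) (nat_lit 244)))))) (XT.nd (nat_lit 468) (nat_lit 456) (nat_lit 0) (XT.nd (nat_lit 234) (nat_lit 152) (nat_lit 0) (XT.nd (nat_lit 78) (nat_lit 228) (nat_lit 0) (XT.lf (nat_lit 0) (nat_lit 6145622783) (nat_lit 152) (nat_lit 11115193528) (nat_lit 228) (nat_lit 2777217364) (nat_lit 41) (nat_lit 5) (nat_lit 43) (nat_lit 5) (nat_lit 44) (nat_lit 5) (nat_lit 349) (nat_lit 308) (nat_lit 243)) (XT.nd (nat_lit 78) (nat_lit 152) (nat_lit 0) (XT.lf (nat_lit 0) (nat_lit 1600307225) (nat_lit 228) (nat_lit 3277519360) (nat_lit 76) (nat_lit 15824386155) (nat_lit 40) (nat_lit 5) (nat_lit 43) (nat_lit 5) (nat_lit 41) (nat_lit 5) (nat_lit 350) (nat_lit 308) (nat_lit 242)) (XT.lf (nat_lit 0) (nat_lit 6232864944) (nat_lit 228) (nat_lit 13381214753) (nat_lit 76) (nat_lit 1776782672) (nat_lit 38) (nat_lit 5) (nat_lit 41) (nat_lit 5) (nat_lit 39) (nat_lit 5) (nat_lit 351) (nat_lit 308) (nat_lit 241)))) (XT.nd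 (nat_lit 78) (nat_lit 152) (nat_lit 0) (XT.lf (nat_lit 0) (nat_lit 11209058588) (nat_lit 228) (nat_lit 2257584869) (nat_lit 76) (nat_lit 8641712523) (nat_lit 38) (nat_lit 5) (nat_lit 41) (nat_lit 5) (nat_lit 39) (nat_lit 5) (nat_lit 352) (nat_lit 308) (nat_lit 240)) (XT.nd (nat_lit 78) (nat_lit 0) (nat_lit 0) (XT.lf (nat_lit 0) (nat_lit 9693918721) (nat_lit 152) (nat_lit 6868280385) (nat_lit 228) (nat_lit 6293129643) (nat_lit 36) (nat_lit 5) (nat_lit 38) (nat_lit 5) (nat_lit 39) (nat_lit 5) (nat_lit 353) (nat_lit 308) (nat_lit 239)) (XT.lf (nat_lit 0) (nat_lit 22199856126) (nat_lit 228) (nat_lit 1356785505) (nat_lit 76) (nat_lit 82176348) (nat_lit 36) (nat_lit 5) (nat_lit 39) (nat_lit 5) (nat_lit 37) (nat_lit 4) (nat_lit 354) (nat_lit 308) (nat_lit 238))))) (XT.nd (nat_lit 234) (nat_lit 152) (nat_lit 0) (XT.nd (nat_lit 78) (nat_lit 152) (nat_lit 0) (XT.lf (nat_lit 0) (nat_lit 3811565067)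 (nat_lit 152) (nat_lit 13261161698) (nat_lit 76) (nat_lit 7372372843) (nat_lit 34) (nat_lit 5) (nat_lit 36) (nat_lit 5) (nat_lit 35) (nat_lit 5) (nat_lit 355) (nat_lit 308) (nat_lit 237)) (XT.nd (nat_lit 78) (nat_lit 152) (nat_lit 0) (XT.lf (nat_lit 0) (nat_lit 9277881058) (nat_lit 152) (nat_lit 952850393) (nat_lit 76) (nat_lit 15059712653) (nat_lit 34) (nat_lit 5) (nat_lit 36) (nat_lit 5) (nat_lit 35) (nat_lit 5) (nat_lit 356) (nat_lit 308) (nat_lit 236)) (XT.lf (nat_lit 0) (nat_lit 12330146976) (nat_lit 152) (nat_lit 2859175711) (nat_lit 228) (nat_lit 10980151528) (nat_lit 32) (nat_lit 5) (nat_lit 34) (nat_lit 5) (nat_lit 35) (nat_lit 5) (nat_lit 357) (nat_lit 308) (nat_lit 235)))) (XT.nd (nat_lit 78) (nat_lit 152) (nat_lit 0) (XT.lf (nat_lit 0) (nat_lit 21468460254) (nat_lit 228) (nat_lit 893338807) (nat_lit 76) (nat_lit 4727059036) (nat_lit 32) (nat_lit 5) (nat_lit 35) (nat_lit 5) (nat_lit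 33) (nat_lit 4) (nat_lit 358) (nat_lit 308) (nat_lit 234)) (XT.nd (nat_lit 78) (nat_lit 0) (nat_lit 0) (XT.lf (nat_lit 0) (nat_lit 241785059) (nat_lit 152) (nat_lit 15010149612) (nat_lit 76) (nat_lit 12790544615) (nat_lit 30) (nat_lit 5) (nat_lit 32) (nat_lit 5) (nat_lit 31) (nat_lit 5) (nat_lit 359) (nat_lit 308) (nat_lit 233)) (XT.lf (nat_lit 0) (nat_lit 6204151987) (nat_lit 152) (nat_lit 1484117016) (nat_lit 76) (nat_lit 21351115101) (nat_lit 30) (nat_lit 5) (nat_lit 32) (nat_lit 5) (nat_lit 31) (nat_lit 5) (nat_lit 360) (nat_lit 308) (nat_lit 232))))))) (XT.nd (nat_lit 936) (nat_lit 456) (nat_lit 0) (XT.nd (nat_lit 468) (nat_lit 304) (nat_lit 0) (XT.nd (nat_lit 234) (nat_lit 228) (nat_lit 0) (XT.nd (nat_lit 78) (nat_lit 76) (nat_lit 0) (XT.lf (nat_lit 0) (nat_lit 12657848732) (nat_lit 228) (nat_lit 16978647105) (nat_lit 76) (nat_lit 439984711) (nat_lit 28) (nat_lit 5) (nat_lit 31) (nat_lit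 5) (nat_lit 29) (nat_lit 4) (nat_lit 361) (nat_lit 308) (nat_lit 231)) (XT.nd (nat_lit 78) (nat_lit 76) (nat_lit 0) (XT.lf (nat_lit 0) (nat_lit 19567487136) (nat_lit 228) (nat_lit 2862776341) (nat_lit 76) (nat_lit 8728512127) (nat_lit 28) (nat_lit 5) (nat_lit 31) (nat_lit 5) (nat_lit 29) (nat_lit 4) (nat_lit 362) (nat_lit 308) (nat_lit 230)) (XT.lf (nat_lit 0) (nat_lit 12322269322) (nat_lit 76) (nat_lit 14675269339) (nat_lit 152) (nat_lit 5288906502) (nat_lit 27) (nat_lit 5) (nat_lit 28) (nat_lit 5) (nat_lit 29) (nat_lit 4) (nat_lit 363) (nat_lit 308) (nat_lit 229)))) (XT.nd (nat_lit 78) (nat_lit 152) (nat_lit 0) (XT.lf (nat_lit 0) (nat_lit 1317963272) (nat_lit 152) (nat_lit 5154744196) (nat_lit 76) (nat_lit 26995164702) (nat_lit 26) (nat_lit 5) (nat_lit 28) (nat_lit 5) (nat_lit 27) (nat_lit 5) (nat_lit 364) (nat_lit 308) (nat_lit 228)) (XT.nd (nat_lit 78) (nat_lit 0) (nat_lit 0) (XT.lf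 (nat_lit 0) (nat_lit 8264011627) (nat_lit 228) (nat_lit 24115213323) (nat_lit 76) (nat_lit 2315487011) (nat_lit 24) (nat_lit 5) (nat_lit 27) (nat_lit 5) (nat_lit 25) (nat_lit 4) (nat_lit 365) (nat_lit 308) (nat_lit 227)) (XT.lf (nat_lit 0) (nat_lit 15735776290) (nat_lit 228) (nat_lit 8836400762) (nat_lit 76) (nat_lit 11401801188) (nat_lit 24) (nat_lit 5) (nat_lit 27) (nat_lit 5) (nat_lit 25) (nat_lit 4) (nat_lit 366) (nat_lit 308) (nat_lit 226))))) (XT.nd (nat_lit 234) (nat_lit 76) (nat_lit 0) (XT.nd (nat_lit 78) (nat_lit 152) (nat_lit 0) (XT.lf (nat_lit 0) (nat_lit 7415361205) (nat_lit 76) (nat_lit 16265899435) (nat_lit 152) (nat_lit 13630945566) (nat_lit 23) (nat_lit 5) (nat_lit 24) (nat_lit 5) (nat_lit 25) (nat_lit 4) (nat_lit 367) (nat_lit 308) (nat_lit 225)) (XT.nd (nat_lit 78) (nat_lit 152) (nat_lit 0) (XT.lf (nat_lit 0) (nat_lit 24758618982) (nat_lit 76) (nat_lit 7399715579) (nat_lit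 152) (nat_lit 6552299952) (nat_lit 23) (nat_lit 5) (nat_lit 24) (nat_lit 5) (nat_lit 25) (nat_lit 4) (nat_lit 368) (nat_lit 308) (nat_lit 224)) (XT.lf (nat_lit 0) (nat_lit 912178545) (nat_lit 152) (nat_lit 37367230332) (nat_lit 76) (nat_lit 1895888702) (nat_lit 21) (nat_lit 5) (nat_lit 23) (nat_lit 5) (nat_lit 22) (nat_lit 4) (nat_lit 369) (nat_lit 308) (nat_lit 223)))) (XT.nd (nat_lit 78) (nat_lit 76) (nat_lit 0) (XT.lf (nat_lit 0) (nat_lit 8876401754) (nat_lit 152) (nat_lit 21070585720) (nat_lit 76) (nat_lit 11743503603) (nat_lit 21) (nat_lit 5) (nat_lit 23) (nat_lit 5) (nat_lit 22) (nat_lit 4) (nat_lit 370) (nat_lit 308) (nat_lit 222)) (XT.nd (nat_lit 78) (nat_lit 76) (nat_lit 0) (XT.lf (nat_lit 0) (nat_lit 17224794766) (nat_lit 152) (nat_lit 3984963825) (nat_lit 76) (nat_lit 22072391603) (nat_lit 21) (nat_lit 5) (nat_lit 23) (nat_lit 5) (nat_lit 22) (nat_lit 4) (nat_lit 371) (nat_lit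 308) (nat_lit 221)) (XT.lf (nat_lit 0) (nat_lit 14390914543) (nat_lit 76) (nat_lit 11811002669) (nat_lit 152) (nat_lit 18740913256) (nat_lit 20) (nat_lit 5) (nat_lit 21) (nat_lit 5) (nat_lit 22) (nat_lit 4) (nat_lit 372) (nat_lit 308) (nat_lit 220)))))) (XT.nd (nat_lit 468) (nat_lit 228) (nat_lit 0) (XT.nd (nat_lit 234) (nat_lit 76) (nat_lit 0) (XT.nd (nat_lit 78) (nat_lit 152) (nat_lit 0) (XT.lf (nat_lit 0) (nat_lit 33799709175) (nat_lit 76) (nat_lit 1882559726) (nat_lit 152) (nat_lit 11001560715) (nat_lit 20) (nat_lit 5) (nat_lit 21) (nat_lit 5) (nat_lit 22) (nat_lit 4) (nat_lit 373) (nat_lit 308) (nat_lit 219)) (XT.nd (nat_lit 78) (nat_lit 76) (nat_lit 0) (XT.lf (nat_lit 0) (nat_lit 5692350710) (nat_lit 76) (nat_lit 40153875417) (nat_lit 76) (nat_lit 2655176544) (nat_lit 19) (nat_lit 4) (nat_lit 20) (nat_lit 5) (nat_lit 20) (nat_lit 4) (nat_lit 374) (nat_lit 308) (nat_lit 218)) (XT.lf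 (nat_lit 0) (nat_lit 6153032880) (nat_lit 152) (nat_lit 24907377607) (nat_lit 76) (nat_lit 19332677515) (nat_lit 18) (nat_lit 5) (nat_lit 20) (nat_lit 5) (nat_lit 19) (nat_lit 4) (nat_lit 375) (nat_lit 308) (nat_lit 217)))) (XT.nd (nat_lit 78) (nat_lit 76) (nat_lit 0) (XT.lf (nat_lit 0) (nat_lit 15300401979) (nat_lit 152) (nat_lit 6176600611) (nat_lit 76) (nat_lit 30900782500) (nat_lit 18) (nat_lit 5) (nat_lit 20) (nat_lit 5) (nat_lit 19) (nat_lit 4) (nat_lit 376) (nat_lit 308) (nat_lit 216)) (XT.nd (nat_lit 78) (nat_lit 0) (nat_lit 0) (XT.lf (nat_lit 0) (nat_lit 13914687770) (nat_lit 76) (nat_lit 11196251935) (nat_lit 152) (nat_lit 29340490071) (nat_lit 17) (nat_lit 5) (nat_lit 18) (nat_lit 5) (nat_lit 19) (nat_lit 4) (nat_lit 377) (nat_lit 308) (nat_lit 215)) (XT.lf (nat_lit 0) (nat_lit 35203938733) (nat_lit 76) (nat_lit 301438821) (nat_lit 152) (nat_lit 21118713105) (nat_lit 17) (nat_lit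 5) (nat_lit 18) (nat_lit 5) (nat_lit 19) (nat_lit 4) (nat_lit 378) (nat_lit 308) (nat_lit 214))))) (XT.nd (nat_lit 234) (nat_lit 76) (nat_lit 0) (XT.nd (nat_lit 78) (nat_lit 152) (nat_lit 0) (XT.lf (nat_lit 0) (nat_lit 46582592932) (nat_lit 152) (nat_lit 1542058545) (nat_lit 0) (nat_lit 10772582825) (nat_lit 17) (nat_lit 5) (nat_lit 19) (nat_lit 4) (nat_lit 17) (nat_lit 4) (nat_lit 379) (nat_lit 308) (nat_lit 213)) (XT.nd (nat_lit 78) (nat_lit 76) (nat_lit 0) (XT.lf (nat_lit 0) (nat_lit 19943870075) (nat_lit 76) (nat_lit 38575795040) (nat_lit 76) (nat_lit 2749072590) (nat_lit 16) (nat_lit 4) (nat_lit 17) (nat_lit 5) (nat_lit 17) (nat_lit 4) (nat_lit 380) (nat_lit 308) (nat_lit 212)) (XT.lf (nat_lit 0) (nat_lit 7077539142) (nat_lit 152) (nat_lit 21333683726) (nat_lit 76) (nat_lit 35341088832) (nat_lit 15) (nat_lit 5) (nat_lit 17) (nat_lit 5) (nat_lit 16) (nat_lit 4) (nat_lit 381) (nat_lit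 308) (nat_lit 211)))) (XT.nd (nat_lit 78) (nat_lit 76) (nat_lit 0) (XT.lf (nat_lit 0) (nat_lit 17293284335) (nat_lit 152) (nat_lit 406564669) (nat_lit 76) (nat_lit 48658454620) (nat_lit 15) (nat_lit 5) (nat_lit 17) (nat_lit 5) (nat_lit 16) (nat_lit 4) (nat_lit 382) (nat_lit 308) (nat_lit 210)) (XT.nd (nat_lit 78) (nat_lit 0) (nat_lit 0) (XT.lf (nat_lit 0) (nat_lit 22261751828) (nat_lit 76) (nat_lit 6096290189) (nat_lit 152) (nat_lit 40719643823) (nat_lit 14) (nat_lit 5) (nat_lit 15) (nat_lit 5) (nat_lit 16) (nat_lit 4) (nat_lit 383) (nat_lit 308) (nat_lit 209)) (XT.lf (nat_lit 0) (nat_lit 40068779930) (nat_lit 152) (nat_lit 25967969286) (nat_lit 0) (nat_lit 5891652698) (nat_lit 14) (nat_lit 5) (nat_lit 16) (nat_lit 4) (nat_lit 14) (nat_lit 4) (nat_lit 384) (nat_lit 308) (nat_lit 208))))))))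
noncomputable def xc124 : XT := (XT.nd (nat_lit 1794) (nat_lit 304) (nat_lit 0) (XT.nd (nat_lit 858) (nat_lit 304) (nat_lit 0) (XT.nd (nat_lit 390) (nat_lit 76) (nat_lit 0) (XT.nd (nat_lit 156) (nat_lit 152) (nat_lit 0) (XT.nd (nat_lit 78) (nat_lit 76) (nat_lit 0) (XT.lf (nat_lit 0) (nat_lit 52456138686) (nat_lit 152) (nat_lit 4194422239) (nat_lit 0) (nat_lit 18266540445) (nat_lit 14) (nat_lit 5) (nat_lit 16) (nat_lit 4) (nat_lit 14) (nat_lit 4) (nat_lit 385) (nat_lit 308) (nat_lit 207)) (XT.lf (nat_lit 0) (nat_lit 19268439478) (nat_lit 76) (nat_lit 46486826681) (nat_lit 76) (nat_lit 12285351290) (nat_lit 13) (nat_lit 4) (nat_lit 14) (nat_lit 5) (nat_lit 14) (nat_lit 4) (nat_lit 386) (nat_lit 308) (nat_lit 206))) (XT.nd (nat_lit 78) (nat_lit 152) (nat_lit 0) (XT.lf (nat_lit 0) (nat_lit 44034251316) (nat_lit 76) (nat_lit 35747854403) (nat_lit 76) (nat_lit 1535067440) (nat_lit 13) (nat_lit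 4) (nat_lit 14) (nat_lit 5) (nat_lit 14) (nat_lit 4) (nat_lit 387) (nat_lit 308) (nat_lit 205)) (XT.nd (nat_lit 78) (nat_lit 76) (nat_lit 0) (XT.lf (nat_lit 0) (nat_lit 9432566947) (nat_lit 152) (nat_lit 14886797645) (nat_lit 76) (nat_lit 60430980916) (nat_lit 12) (nat_lit 5) (nat_lit 14) (nat_lit 5) (nat_lit 13) (nat_lit 4) (nat_lit 388) (nat_lit 308) (nat_lit 204)) (XT.lf (nat_lit 0) (nat_lit 8873373685) (nat_lit 76) (nat_lit 12154525584) (nat_lit 152) (nat_lit 67319475120) (nat_lit 11) (nat_lit 5) (nat_lit 12) (nat_lit 5) (nat_lit 13) (nat_lit 4) (nat_lit 389) (nat_lit 308) (nat_lit 203))))) (XT.nd (nat_lit 234) (nat_lit 76) (nat_lit 0) (XT.nd (nat_lit 78) (nat_lit 0) (nat_lit 0) (XT.lf (nat_lit 0) (nat_lit 33461302119) (nat_lit 152) (nat_lit 57801680584) (nat_lit 0) (nat_lit 848358139) (nat_lit 11) (nat_lit 5) (nat_lit 13) (nat_lit 4) (nat_lit 11) (nat_lit 4) (nat_lit 390) (nat_lit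 308) (nat_lit 202)) (XT.nd (nat_lit 78) (nat_lit 0) (nat_lit 0) (XT.lf (nat_lit 0) (nat_lit 46708389983) (nat_lit 152) (nat_lit 35258933063) (nat_lit 0) (nat_lit 14086583090) (nat_lit 11) (nat_lit 5) (nat_lit 13) (nat_lit 4) (nat_lit 11) (nat_lit 4) (nat_lit 391) (nat_lit 308) (nat_lit 201)) (XT.lf (nat_lit 0) (nat_lit 60610937340) (nat_lit 152) (nat_lit 11602318724) (nat_lit 0) (nat_lit 27980689578) (nat_lit 11) (nat_lit 5) (nat_lit 13) (nat_lit 4) (nat_lit 11) (nat_lit 4) (nat_lit 392) (nat_lit 308) (nat_lit 200)))) (XT.nd (nat_lit 78) (nat_lit 0) (nat_lit 0) (XT.lf (nat_lit 0) (nat_lit 13661748991) (nat_lit 76) (nat_lit 61753594690) (nat_lit 76) (nat_lit 29115308004) (nat_lit 10) (nat_lit 4) (nat_lit 11) (nat_lit 5) (nat_lit 11) (nat_lit 4) (nat_lit 393) (nat_lit 308) (nat_lit 199)) (XT.nd (nat_lit 78) (nat_lit 0) (nat_lit 0) (XT.lf (nat_lit 0) (nat_lit 40579391621) (nat_lit 76) (nat_lit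 50570621580) (nat_lit 76) (nat_lit 17924678777) (nat_lit 10) (nat_lit 4) (nat_lit 11) (nat_lit 5) (nat_lit 11) (nat_lit 4) (nat_lit 394) (nat_lit 308) (nat_lit 198)) (XT.lf (nat_lit 0) (nat_lit 68831073736) (nat_lit 76) (nat_lit 38834201489) (nat_lit 76) (nat_lit 6180967147) (nat_lit 10) (nat_lit 4) (nat_lit 11) (nat_lit 5) (nat_lit 11) (nat_lit 4) (nat_lit 395) (nat_lit 308) (nat_lit 197)))))) (XT.nd (nat_lit 468) (nat_lit 152) (nat_lit 0) (XT.nd (nat_lit 234) (nat_lit 0) (nat_lit 0) (XT.nd (nat_lit 78) (nat_lit 76) (nat_lit 0) (XT.lf (nat_lit 0) (nat_lit 5947148516) (nat_lit 152) (nat_lit 20468524206) (nat_lit 76) (nat_lit 92436194892) (nat_lit 9) (nat_lit 5) (nat_lit 11) (nat_lit 5) (nat_lit 10) (nat_lit 4) (nat_lit 396) (nat_lit 308) (nat_lit 196)) (XT.nd (nat_lit 78) (nat_lit 0) (nat_lit 0) (XT.lf (nat_lit 0) (nat_lit 5364905860) (nat_lit 76) (nat_lit 13187142026) (nat_lit 152) (nat_lit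 105546755816) (nat_lit 8) (nat_lit 5) (nat_lit 9) (nat_lit 5) (nat_lit 10) (nat_lit 4) (nat_lit 397) (nat_lit 308) (nat_lit 195)) (XT.lf (nat_lit 0) (nat_lit 32144850595) (nat_lit 152) (nat_lit 96417732877) (nat_lit 0) (nat_lit 1027621057) (nat_lit 8) (nat_lit 5) (nat_lit 10) (nat_lit 4) (nat_lit 8) (nat_lit 4) (nat_lit 398) (nat_lit 308) (nat_lit 194)))) (XT.nd (nat_lit 78) (nat_lit 0) (nat_lit 0) (XT.lf (nat_lit 0) (nat_lit 46628103141) (nat_lit 152) (nat_lit 73212372094) (nat_lit 0) (nat_lit 15505160490) (nat_lit 8) (nat_lit 5) (nat_lit 10) (nat_lit 4) (nat_lit 8) (nat_lit 4) (nat_lit 399) (nat_lit 308) (nat_lit 193)) (XT.nd (nat_lit 78) (nat_lit 0) (nat_lit 0) (XT.lf (nat_lit 0) (nat_lit 61830401215) (nat_lit 152) (nat_lit 48856676392) (nat_lit 0) (nat_lit 30702017505) (nat_lit 8) (nat_lit 5) (nat_lit 10) (nat_lit 4) (nat_lit 8) (nat_lit 4) (nat_lit 400) (nat_lit 308) (nat_lit 192))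 (XT.lf (nat_lit 0) (nat_lit 77787940765) (nat_lit 152) (nat_lit 23292656018) (nat_lit 0) (nat_lit 46654375093) (nat_lit 8) (nat_lit 5) (nat_lit 10) (nat_lit 4) (nat_lit 8) (nat_lit 4) (nat_lit 401) (nat_lit 308) (nat_lit 191))))) (XT.nd (nat_lit 234) (nat_lit 76) (nat_lit 0) (XT.nd (nat_lit 78) (nat_lit 0) (nat_lit 0) (XT.lf (nat_lit 0) (nat_lit 3657622505) (nat_lit 76) (nat_lit 90938199165) (nat_lit 76) (nat_lit 59799698292) (nat_lit 7) (nat_lit 4) (nat_lit 8) (nat_lit 5) (nat_lit 8) (nat_lit 4) (nat_lit 402) (nat_lit 308) (nat_lit 190)) (XT.nd (nat_lit 78) (nat_lit 0) (nat_lit 0) (XT.lf (nat_lit 0) (nat_lit 32755219060) (nat_lit 76) (nat_lit 79878791222) (nat_lit 76) (nat_lit 48735590157) (nat_lit 7) (nat_lit 4) (nat_lit 8) (nat_lit 5) (nat_lit 8) (nat_lit 4) (nat_lit 403) (nat_lit 308) (nat_lit 189)) (XT.lf (nat_lit 0) (nat_lit 63299253238) (nat_lit 76) (nat_lit 68270513430) (nat_lit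 76) (nat_lit 37122835992) (nat_lit 7) (nat_lit 4) (nat_lit 8) (nat_lit 5) (nat_lit 8) (nat_lit 4) (nat_lit 404) (nat_lit 308) (nat_lit 188)))) (XT.nd (nat_lit 78) (nat_lit 76) (nat_lit 0) (XT.lf (nat_lit 0) (nat_lit 95362448930) (nat_lit 76) (nat_lit 56085727032) (nat_lit 76) (nat_lit 24933786382) (nat_lit 7) (nat_lit 4) (nat_lit 8) (nat_lit 5) (nat_lit 8) (nat_lit 4) (nat_lit 405) (nat_lit 308) (nat_lit 187)) (XT.nd (nat_lit 78) (nat_lit 76) (nat_lit 0) (XT.lf (nat_lit 0) (nat_lit 129021147077) (nat_lit 76) (nat_lit 43295420633) (nat_lit 76) (nat_lit 12139419780) (nat_lit 7) (nat_lit 4) (nat_lit 8) (nat_lit 5) (nat_lit 8) (nat_lit 4) (nat_lit 406) (nat_lit 308) (nat_lit 186)) (XT.lf (nat_lit 0) (nat_lit 1249415278) (nat_lit 152) (nat_lit 28598566391) (nat_lit 76) (nat_lit 163084912708) (nat_lit 6) (nat_lit 5) (nat_lit 8) (nat_lit 5) (nat_lit 7) (nat_lit 4) (nat_lit 407) (nat_lit 308) (nat_lit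 185))))))) (XT.nd (nat_lit 936) (nat_lit 152) (nat_lit 0) (XT.nd (nat_lit 468) (nat_lit 76) (nat_lit 0) (XT.nd (nat_lit 234) (nat_lit 0) (nat_lit 0) (XT.nd (nat_lit 78) (nat_lit 76) (nat_lit 0) (XT.lf (nat_lit 0) (nat_lit 14896097028) (nat_lit 152) (nat_lit 626551527) (nat_lit 76) (nat_lit 186301229755) (nat_lit 6) (nat_lit 5) (nat_lit 8) (nat_lit 5) (nat_lit 7) (nat_lit 4) (nat_lit 408) (nat_lit 308) (nat_lit 184)) (XT.nd (nat_lit 78) (nat_lit 0) (nat_lit 0) (XT.lf (nat_lit 0) (nat_lit 29685197063) (nat_lit 152) (nat_lit 181448925763) (nat_lit 0) (nat_lit 2284881) (nat_lit 5) (nat_lit 5) (nat_lit 7) (nat_lit 4) (nat_lit 5) (nat_lit 4) (nat_lit 409) (nat_lit 308) (nat_lit 183)) (XT.lf (nat_lit 0) (nat_lit 45475559557) (nat_lit 152) (nat_lit 159636447994) (nat_lit 0) (nat_lit 15789466100) (nat_lit 5) (nat_lit 5) (nat_lit 7) (nat_lit 4) (nat_lit 5) (nat_lit 4) (nat_lit 410) (nat_lit 308)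 (nat_lit 182)))) (XT.nd (nat_lit 78) (nat_lit 0) (nat_lit 0) (XT.lf (nat_lit 0) (nat_lit 62052157230) (nat_lit 152) (nat_lit 136739766254) (nat_lit 0) (nat_lit 32363033988) (nat_lit 5) (nat_lit 5) (nat_lit 7) (nat_lit 4) (nat_lit 5) (nat_lit 4) (nat_lit 411) (nat_lit 308) (nat_lit 181)) (XT.nd (nat_lit 78) (nat_lit 0) (nat_lit 0) (XT.lf (nat_lit 0) (nat_lit 79454458171) (nat_lit 152) (nat_lit 112704364636) (nat_lit 0) (nat_lit 49762449419) (nat_lit 5) (nat_lit 5) (nat_lit 7) (nat_lit 4) (nat_lit 5) (nat_lit 4) (nat_lit 412) (nat_lit 308) (nat_lit 180)) (XT.lf (nat_lit 0) (nat_lit 97723896431) (nat_lit 152) (nat_lit 87473015992) (nat_lit 0) (nat_lit 68029139573) (nat_lit 5) (nat_lit 5) (nat_lit 7) (nat_lit 4) (nat_lit 5) (nat_lit 4) (nat_lit 413) (nat_lit 308) (nat_lit 179))))) (XT.nd (nat_lit 234) (nat_lit 76) (nat_lit 0) (XT.nd (nat_lit 78) (nat_lit 0) (nat_lit 0) (XT.lf (nat_lit 0) (nat_lit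 116903970670) (nat_lit 152) (nat_lit 60985645682) (nat_lit 0) (nat_lit 87206596570) (nat_lit 5) (nat_lit 5) (nat_lit 7) (nat_lit 4) (nat_lit 5) (nat_lit 4) (nat_lit 414) (nat_lit 308) (nat_lit 178)) (XT.nd (nat_lit 78) (nat_lit 0) (nat_lit 0) (XT.lf (nat_lit 0) (nat_lit 137040347734) (nat_lit 152) (nat_lit 33179188540) (nat_lit 0) (nat_lit 107340481022) (nat_lit 5) (nat_lit 5) (nat_lit 7) (nat_lit 4) (nat_lit 5) (nat_lit 4) (nat_lit 415) (nat_lit 308) (nat_lit 177)) (XT.lf (nat_lit 0) (nat_lit 158180971376) (nat_lit 152) (nat_lit 3987438714) (nat_lit 0) (nat_lit 128478730748) (nat_lit 5) (nat_lit 5) (nat_lit 7) (nat_lit 4) (nat_lit 5) (nat_lit 4) (nat_lit 416) (nat_lit 308) (nat_lit 176)))) (XT.nd (nat_lit 78) (nat_lit 0) (nat_lit 0) (XT.lf (nat_lit 0) (nat_lit 27540578465) (nat_lit 76) (nat_lit 153265583562) (nat_lit 76) (nat_lit 123561082061) (nat_lit 4) (nat_lit 4) (nat_lit 5) (nat_lit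 5) (nat_lit 5) (nat_lit 4) (nat_lit 417) (nat_lit 308) (nat_lit 175)) (XT.nd (nat_lit 78) (nat_lit 0) (nat_lit 0) (XT.lf (nat_lit 0) (nat_lit 60778717999) (nat_lit 76) (nat_lit 143849016699) (nat_lit 76) (nat_lit 114142361986) (nat_lit 4) (nat_lit 4) (nat_lit 5) (nat_lit 5) (nat_lit 5) (nat_lit 4) (nat_lit 418) (nat_lit 308) (nat_lit 174)) (XT.lf (nat_lit 0) (nat_lit 95674275583) (nat_lit 76) (nat_lit 133963818307) (nat_lit 76) (nat_lit 104255112916) (nat_lit 4) (nat_lit 4) (nat_lit 5) (nat_lit 5) (nat_lit 5) (nat_lit 4) (nat_lit 419) (nat_lit 308) (nat_lit 173)))))) (XT.nd (nat_lit 468) (nat_lit 152) (nat_lit 0) (XT.nd (nat_lit 234) (nat_lit 0) (nat_lit 0) (XT.nd (nat_lit 78) (nat_lit 0) (nat_lit 0) (XT.lf (nat_lit 0) (nat_lit 132310335877) (nat_lit 76) (nat_lit 123586452201) (nat_lit 76) (nat_lit 93875793783) (nat_lit 4) (nat_lit 4) (nat_lit 5) (nat_lit 5) (nat_lit 5) (nat_lit 4) (nat_lit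 420) (nat_lit 308) (nat_lit 172)) (XT.nd (nat_lit 78) (nat_lit 0) (nat_lit 0) (XT.lf (nat_lit 0) (nat_lit 170774127597) (nat_lit 76) (nat_lit 112692210365) (nat_lit 76) (nat_lit 82979691922) (nat_lit 4) (nat_lit 4) (nat_lit 5) (nat_lit 5) (nat_lit 5) (nat_lit 4) (nat_lit 421) (nat_lit 308) (nat_lit 171)) (XT.lf (nat_lit 0) (nat_lit 211157231199) (nat_lit 76) (nat_lit 101255154130) (nat_lit 76) (nat_lit 71540864233) (nat_lit 4) (nat_lit 4) (nat_lit 5) (nat_lit 5) (nat_lit 5) (nat_lit 4) (nat_lit 422) (nat_lit 308) (nat_lit 170)))) (XT.nd (nat_lit 78) (nat_lit 0) (nat_lit 0) (XT.lf (nat_lit 0) (nat_lit 253555796929) (nat_lit 76) (nat_lit 89248052407) (nat_lit 76) (nat_lit 59532075413) (nat_lit 4) (nat_lit 4) (nat_lit 5) (nat_lit 5) (nat_lit 5) (nat_lit 4) (nat_lit 423) (nat_lit 308) (nat_lit 169)) (XT.nd (nat_lit 78) (nat_lit 0) (nat_lit 0) (XT.lf (nat_lit 0) (nat_lit 298070773755) (nat_lit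 76) (nat_lit 76642316860) (nat_lit 76) (nat_lit 46924733106) (nat_lit 4) (nat_lit 4) (nat_lit 5) (nat_lit 5) (nat_lit 5) (nat_lit 4) (nat_lit 424) (nat_lit 308) (nat_lit 168)) (XT.lf (nat_lit 0) (nat_lit 344808149715) (nat_lit 76) (nat_lit 63407933834) (nat_lit 76) (nat_lit 33688819832) (nat_lit 4) (nat_lit 4) (nat_lit 5) (nat_lit 5) (nat_lit 5) (nat_lit 4) (nat_lit 425) (nat_lit 308) (nat_lit 167))))) (XT.nd (nat_lit 234) (nat_lit 76) (nat_lit 0) (XT.nd (nat_lit 78) (nat_lit 76) (nat_lit 0) (XT.lf (nat_lit 0) (nat_lit 393879204276) (nat_lit 76) (nat_lit 49513392891) (nat_lit 76) (nat_lit 19792821511) (nat_lit 4) (nat_lit 4) (nat_lit 5) (nat_lit 5) (nat_lit 5) (nat_lit 4) (nat_lit 426) (nat_lit 308) (nat_lit 166)) (XT.nd (nat_lit 78) (nat_lit 76) (nat_lit 0) (XT.lf (nat_lit 0) (nat_lit 445400773283) (nat_lit 76) (nat_lit 34925611792) (nat_lit 76) (nat_lit 5203652432) (nat_lit 4) (nat_lit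 4) (nat_lit 5) (nat_lit 5) (nat_lit 5) (nat_lit 4) (nat_lit 427) (nat_lit 308) (nat_lit 165)) (XT.lf (nat_lit 0) (nat_lit 9789730807) (nat_lit 152) (nat_lit 9654333089) (nat_lit 76) (nat_lit 489540002502) (nat_lit 3) (nat_lit 5) (nat_lit 5) (nat_lit 5) (nat_lit 4) (nat_lit 4) (nat_lit 428) (nat_lit 308) (nat_lit 164)))) (XT.nd (nat_lit 78) (nat_lit 0) (nat_lit 0) (XT.lf (nat_lit 0) (nat_lit 22992127206) (nat_lit 76) (nat_lit 2723320300) (nat_lit 152) (nat_lit 507873207051) (nat_lit 2) (nat_lit 5) (nat_lit 3) (nat_lit 5) (nat_lit 4) (nat_lit 4) (nat_lit 429) (nat_lit 308) (nat_lit 163)) (XT.nd (nat_lit 78) (nat_lit 0) (nat_lit 0) (XT.lf (nat_lit 0) (nat_lit 42833796608) (nat_lit 152) (nat_lit 502046289528) (nat_lit 0) (nat_lit 14523568824) (nat_lit 2) (nat_lit 5) (nat_lit 4) (nat_lit 4) (nat_lit 2) (nat_lit 4) (nat_lit 430) (nat_lit 308) (nat_lit 162)) (XT.lf (nat_lit 0) (nat_lit 60851349220)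 (nat_lit 152) (nat_lit 493115858097) (nat_lit 0) (nat_lit 32540033918) (nat_lit 2) (nat_lit 5) (nat_lit 4) (nat_lit 4) (nat_lit 2) (nat_lit 4) (nat_lit 431) (nat_lit 308) (nat_lit 161))))))))
noncomputable def xc125 : XT := (XT.nd (nat_lit 38844) (nat_lit 0) (nat_lit 2736) (XT.nd (nat_lit 37908) (nat_lit 0) (nat_lit 6004) (XT.nd (nat_lit 37440) (nat_lit 0) (nat_lit 9120) (XT.nd (nat_lit 156) (nat_lit 0) (nat_lit 0) (XT.nd (nat_lit 78) (nat_lit 0) (nat_lit 0) (XT.lf (nat_lit 0) (nat_lit 79768485615) (nat_lit 152) (nat_lit 483741451466) (nat_lit 0) (nat_lit 51456134581) (nat_lit 2) (nat_lit 5) (nat_lit 4) (nat_lit 4) (nat_lit 2) (nat_lit 4) (nat_lit 432) (nat_lit 308) (nat_lit 160)) (XT.lf (nat_lit 0) (nat_lit 99630246596) (nat_lit 152) (nat_lit 473900749618) (nat_lit 0) (nat_lit 71316909150) (nat_lit 2) (nat_lit 5) (nat_lit 4) (nat_lit 4) (nat_lit 2) (nat_lit 4) (nat_lit 433) (nat_lit 308)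 (nat_lit 159))) (XT.nd (nat_lit 37128) (nat_lit 0) (nat_lit 9652) (XT.lf (nat_lit 0) (nat_lit 120483922068) (nat_lit 152) (nat_lit 463570322312) (nat_lit 0) (nat_lit 92169645183) (nat_lit 2) (nat_lit 5) (nat_lit 4) (nat_lit 4) (nat_lit 2) (nat_lit 4) (nat_lit 434) (nat_lit 308) (nat_lit 158)) (XT.nd (nat_lit 78) (nat_lit 532) (nat_lit 0) (XT.lf (nat_lit 0) (nat_lit 3655474340) (nat_lit 532) (nat_lit 19474610) (nat_lit 532) (nat_lit 19474610) (nat_lit 136) (nat_lit 3) (nat_lit 143) (nat_lit 3) (nat_lit 143) (nat_lit 5) (nat_lit 309) (nat_lit 309) (nat_lit 282)) (XT.lf (nat_lit 0) (nat_lit 1433979794) (nat_lit 532) (nat_lit 3917198412) (nat_lit 608) (nat_lit 2144954737) (nat_lit 129) (nat_lit 5) (nat_lit 136) (nat_lit 3) (nat_lit 137) (nat_lit 5) (nat_lit 310) (nat_lit 309) (nat_lit 281))))) (XT.nd (nat_lit 234) (nat_lit 532) (nat_lit 0) (XT.nd (nat_lit 78) (nat_lit 0) (nat_lit 0) (XT.lf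 (nat_lit 0) (nat_lit 2925636284) (nat_lit 532) (nat_lit 283869265) (nat_lit 608) (nat_lit 4403997355) (nat_lit 129) (nat_lit 5) (nat_lit 136) (nat_lit 3) (nat_lit 137) (nat_lit 5) (nat_lit 311) (nat_lit 309) (nat_lit 280)) (XT.nd (nat_lit 78) (nat_lit 0) (nat_lit 76) (XT.lf (nat_lit 76) (nat_lit 3595838430) (nat_lit 0) (nat_lit 862779999) (nat_lit 608) (nat_lit 3279903708) (nat_lit 130) (nat_lit 5) (nat_lit 129) (nat_lit 5) (nat_lit 137) (nat_lit 5) (nat_lit 312) (nat_lit 309) (nat_lit 279)) (XT.lf (nat_lit 0) (nat_lit 6012788920) (nat_lit 532) (nat_lit 269784703) (nat_lit 608) (nat_lit 1590104049) (nat_lit 130) (nat_lit 5) (nat_lit 137) (nat_lit 5) (nat_lit 138) (nat_lit 5) (nat_lit 313) (nat_lit 309) (nat_lit 278)))) (XT.nd (nat_lit 78) (nat_lit 608) (nat_lit 0) (XT.lf (nat_lit 76) (nat_lit 3854025099) (nat_lit 0) (nat_lit 3783675536) (nat_lit 608) (nat_lit 376295665) (nat_lit 131) (nat_lit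 5) (nat_lit 130) (nat_lit 5) (nat_lit 138) (nat_lit 5) (nat_lit 314) (nat_lit 309) (nat_lit 277)) (XT.nd (nat_lit 78) (nat_lit 0) (nat_lit 76) (XT.lf (nat_lit 0) (nat_lit 1068714898) (nat_lit 608) (nat_lit 41115735) (nat_lit 684) (nat_lit 7055472306) (nat_lit 122) (nat_lit 5) (nat_lit 130) (nat_lit 5) (nat_lit 131) (nat_lit 5) (nat_lit 315) (nat_lit 309) (nat_lit 276)) (XT.lf (nat_lit 0) (nat_lit 2593801441) (nat_lit 608) (nat_lit 3986466231) (nat_lit 684) (nat_lit 1742667614) (nat_lit 123) (nat_lit 5) (nat_lit 131) (nat_lit 5) (nat_lit 132) (nat_lit 5) (nat_lit 316) (nat_lit 309) (nat_lit 275)))))) (XT.nd (nat_lit 468) (nat_lit 1900) (nat_lit 0) (XT.nd (nat_lit 234) (nat_lit 760) (nat_lit 0) (XT.nd (nat_lit 78) (nat_lit 532) (nat_lit 0) (XT.lf (nat_lit 76) (nat_lit 385548395) (nat_lit 0) (nat_lit 3761887648) (nat_lit 684) (nat_lit 4343486514) (nat_lit 124) (nat_lit 5) (nat_lit 123) (nat_lit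 5) (nat_lit 132) (nat_lit 5) (nat_lit 317) (nat_lit 309) (nat_lit 274)) (XT.nd (nat_lit 78) (nat_lit 532) (nat_lit 0) (XT.lf (nat_lit 76) (nat_lit 5060912116) (nat_lit 0) (nat_lit 715346339) (nat_lit 684) (nat_lit 2891259232) (nat_lit 124) (nat_lit 5) (nat_lit 123) (nat_lit 5) (nat_lit 132) (nat_lit 5) (nat_lit 318) (nat_lit 309) (nat_lit 273)) (XT.lf (nat_lit 0) (nat_lit 1057416147) (nat_lit 608) (nat_lit 6417959976) (nat_lit 684) (nat_lit 1378203554) (nat_lit 116) (nat_lit 5) (nat_lit 124) (nat_lit 5) (nat_lit 125) (nat_lit 5) (nat_lit 319) (nat_lit 309) (nat_lit 272)))) (XT.nd (nat_lit 78) (nat_lit 684) (nat_lit 0) (XT.lf (nat_lit 0) (nat_lit 212343229) (nat_lit 684) (nat_lit 3038154104) (nat_lit 76) (nat_lit 5797926706) (nat_lit 115) (nat_lit 5) (nat_lit 124) (nat_lit 5) (nat_lit 116) (nat_lit 5) (nat_lit 320) (nat_lit 309) (nat_lit 271)) (XT.nd (nat_lit 78) (nat_lit 0) (nat_lit 0)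 (XT.lf (nat_lit 0) (nat_lit 1806505348) (nat_lit 760) (nat_lit 7311766869) (nat_lit 76) (nat_lit 135157437) (nat_lit 106) (nat_lit 5) (nat_lit 116) (nat_lit 5) (nat_lit 107) (nat_lit 5) (nat_lit 321) (nat_lit 309) (nat_lit 270)) (XT.lf (nat_lit 0) (nat_lit 3526086197) (nat_lit 760) (nat_lit 2300043190) (nat_lit 76) (nat_lit 3640336290) (nat_lit 106) (nat_lit 5) (nat_lit 116) (nat_lit 5) (nat_lit 107) (nat_lit 5) (nat_lit 322) (nat_lit 309) (nat_lit 269))))) (XT.nd (nat_lit 234) (nat_lit 760) (nat_lit 0) (XT.nd (nat_lit 78) (nat_lit 380) (nat_lit 0) (XT.lf (nat_lit 0) (nat_lit 3005363438) (nat_lit 760) (nat_lit 2316183546) (nat_lit 836) (nat_lit 4369174006) (nat_lit 96) (nat_lit 5) (nat_lit 106) (nat_lit 5) (nat_lit 107) (nat_lit 5) (nat_lit 323) (nat_lit 309) (nat_lit 268)) (XT.nd (nat_lit 78) (nat_lit 380) (nat_lit 0) (XT.lf (nat_lit 0) (nat_lit 7212673206) (nat_lit 836) (nat_lit 1345463237)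 (nat_lit 76) (nat_lit 1367817562) (nat_lit 96) (nat_lit 5) (nat_lit 107) (nat_lit 5) (nat_lit 97) (nat_lit 5) (nat_lit 324) (nat_lit 309) (nat_lit 267)) (XT.lf (nat_lit 0) (nat_lit 4308892816) (nat_lit 380) (nat_lit 4942253235) (nat_lit 456) (nat_lit 919219823) (nat_lit 91) (nat_lit 5) (nat_lit 96) (nat_lit 5) (nat_lit 97) (nat_lit 5) (nat_lit 325) (nat_lit 309) (nat_lit 266)))) (XT.nd (nat_lit 78) (nat_lit 684) (nat_lit 0) (XT.lf (nat_lit 0) (nat_lit 905185864) (nat_lit 456) (nat_lit 202000686) (nat_lit 76) (nat_lit 9320534617) (nat_lit 90) (nat_lit 5) (nat_lit 96) (nat_lit 5) (nat_lit 91) (nat_lit 5) (nat_lit 326) (nat_lit 309) (nat_lit 265)) (XT.nd (nat_lit 78) (nat_lit 380) (nat_lit 0) (XT.lf (nat_lit 0) (nat_lit 2879562789) (nat_lit 380) (nat_lit 4880271097) (nat_lit 76) (nat_lit 2932923737) (nat_lit 86) (nat_lit 5) (nat_lit 91) (nat_lit 5) (nat_lit 87) (nat_lit 5) (nat_lit 327) (nat_lit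 309) (nat_lit 264)) (XT.lf (nat_lit 0) (nat_lit 1129360993) (nat_lit 380) (nat_lit 3814894332) (nat_lit 456) (nat_lit 6027257403) (nat_lit 81) (nat_lit 5) (nat_lit 86) (nat_lit 5) (nat_lit 87) (nat_lit 5) (nat_lit 328) (nat_lit 309) (nat_lit 263))))))) (XT.nd (nat_lit 936) (nat_lit 1520) (nat_lit 0) (XT.nd (nat_lit 468) (nat_lit 836) (nat_lit 0) (XT.nd (nat_lit 234) (nat_lit 532) (nat_lit 0) (XT.nd (nat_lit 78) (nat_lit 380) (nat_lit 0) (XT.lf (nat_lit 0) (nat_lit 7155014398) (nat_lit 456) (nat_lit 3711471588) (nat_lit 76) (nat_lit 395622447) (nat_lit 81) (nat_lit 5) (nat_lit 87) (nat_lit 5) (nat_lit 82) (nat_lit 5) (nat_lit 329) (nat_lit 309) (nat_lit 262)) (XT.nd (nat_lit 78) (nat_lit 76) (nat_lit 0) (XT.lf (nat_lit 0) (nat_lit 2698288929) (nat_lit 304) (nat_lit 6838610833) (nat_lit 380) (nat_lit 2027347069) (nat_lit 77) (nat_lit 5) (nat_lit 81) (nat_lit 5) (nat_lit 82) (nat_lit 5) (nat_lit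 330) (nat_lit 309) (nat_lit 261)) (XT.lf (nat_lit 0) (nat_lit 171760302) (nat_lit 380) (nat_lit 2376356438) (nat_lit 76) (nat_lit 9332272796) (nat_lit 76) (nat_lit 5) (nat_lit 81) (nat_lit 5) (nat_lit 77) (nat_lit 5) (nat_lit 331) (nat_lit 309) (nat_lit 260)))) (XT.nd (nat_lit 78) (nat_lit 228) (nat_lit 0) (XT.lf (nat_lit 0) (nat_lit 2473621535) (nat_lit 380) (nat_lit 7742364380) (nat_lit 76) (nat_lit 1991681732) (nat_lit 72) (nat_lit 5) (nat_lit 77) (nat_lit 5) (nat_lit 73) (nat_lit 5) (nat_lit 332) (nat_lit 309) (nat_lit 259)) (XT.nd (nat_lit 78) (nat_lit 228) (nat_lit 0) (XT.lf (nat_lit 0) (nat_lit 4932898760) (nat_lit 380) (nat_lit 910752216) (nat_lit 76) (nat_lit 6705577361) (nat_lit 72) (nat_lit 5) (nat_lit 77) (nat_lit 5) (nat_lit 73) (nat_lit 5) (nat_lit 333) (nat_lit 309) (nat_lit 258)) (XT.lf (nat_lit 0) (nat_lit 6419750449) (nat_lit 228) (nat_lit 1157187340) (nat_lit 304) (nat_lit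 5327872539) (nat_lit 69) (nat_lit 5) (nat_lit 72) (nat_lit 5) (nat_lit 73) (nat_lit 5) (nat_lit 334) (nat_lit 309) (nat_lit 257))))) (XT.nd (nat_lit 234) (nat_lit 228) (nat_lit 0) (XT.nd (nat_lit 78) (nat_lit 304) (nat_lit 0) (XT.lf (nat_lit 0) (nat_lit 788080308) (nat_lit 304) (nat_lit 9614340956) (nat_lit 380) (nat_lit 2873319612) (nat_lit 65) (nat_lit 5) (nat_lit 69) (nat_lit 5) (nat_lit 70) (nat_lit 5) (nat_lit 335) (nat_lit 309) (nat_lit 256)) (XT.nd (nat_lit 78) (nat_lit 304) (nat_lit 0) (XT.lf (nat_lit 0) (nat_lit 8582091703) (nat_lit 304) (nat_lit 4879111301) (nat_lit 380) (nat_lit 199443823) (nat_lit 65) (nat_lit 5) (nat_lit 69) (nat_lit 5) (nat_lit 70) (nat_lit 5) (nat_lit 336) (nat_lit 309) (nat_lit 255)) (XT.lf (nat_lit 0) (nat_lit 2534089920) (nat_lit 304) (nat_lit 11365614997) (nat_lit 76) (nat_lit 162612410) (nat_lit 61) (nat_lit 5) (nat_lit 65) (nat_lit 5) (nat_lit 62) (nat_lit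 5) (nat_lit 337) (nat_lit 309) (nat_lit 254)))) (XT.nd (nat_lit 78) (nat_lit 228) (nat_lit 0) (XT.lf (nat_lit 0) (nat_lit 5530440518) (nat_lit 304) (nat_lit 3575419917) (nat_lit 76) (nat_lit 5371431283) (nat_lit 61) (nat_lit 5) (nat_lit 65) (nat_lit 5) (nat_lit 62) (nat_lit 5) (nat_lit 338) (nat_lit 309) (nat_lit 253)) (XT.nd (nat_lit 78) (nat_lit 0) (nat_lit 0) (XT.lf (nat_lit 0) (nat_lit 4709275313) (nat_lit 228) (nat_lit 4007943655) (nat_lit 304) (nat_lit 6193790092) (nat_lit 58) (nat_lit 5) (nat_lit 61) (nat_lit 5) (nat_lit 62) (nat_lit 5) (nat_lit 339) (nat_lit 309) (nat_lit 252)) (XT.lf (nat_lit 0) (nat_lit 12113625623) (nat_lit 304) (nat_lit 1899460753) (nat_lit 76) (nat_lit 1350834997) (nat_lit 58) (nat_lit 5) (nat_lit 62) (nat_lit 5) (nat_lit 59) (nat_lit 5) (nat_lit 340) (nat_lit 309) (nat_lit 251)))))) (XT.nd (nat_lit 468) (nat_lit 532) (nat_lit 0) (XT.nd (nat_lit 234) (nat_lit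 456) (nat_lit 0) (XT.nd (nat_lit 78) (nat_lit 304) (nat_lit 0) (XT.lf (nat_lit 0) (nat_lit 6929807539) (nat_lit 228) (nat_lit 8893226586) (nat_lit 304) (nat_lit 9308546) (nat_lit 55) (nat_lit 5) (nat_lit 58) (nat_lit 5) (nat_lit 59) (nat_lit 5) (nat_lit 341) (nat_lit 309) (nat_lit 250)) (XT.nd (nat_lit 78) (nat_lit 228) (nat_lit 0) (XT.lf (nat_lit 0) (nat_lit 3287359121) (nat_lit 304) (nat_lit 154130703) (nat_lit 76) (nat_lit 12879953709) (nat_lit 54) (nat_lit 5) (nat_lit 58) (nat_lit 5) (nat_lit 55) (nat_lit 5) (nat_lit 342) (nat_lit 309) (nat_lit 249)) (XT.lf (nat_lit 0) (nat_lit 6902350460) (nat_lit 304) (nat_lit 7580665307) (nat_lit 76) (nat_lit 2344305275) (nat_lit 51) (nat_lit 5) (nat_lit 55) (nat_lit 5) (nat_lit 52) (nat_lit 5) (nat_lit 343) (nat_lit 309) (nat_lit 248)))) (XT.nd (nat_lit 78) (nat_lit 304) (nat_lit 0) (XT.lf (nat_lit 0) (nat_lit 1720121852) (nat_lit 152) (nat_lit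 9035421256) (nat_lit 228) (nat_lit 6600095198) (nat_lit 49) (nat_lit 5) (nat_lit 51) (nat_lit 5) (nat_lit 52) (nat_lit 5) (nat_lit 344) (nat_lit 309) (nat_lit 247)) (XT.nd (nat_lit 78) (nat_lit 304) (nat_lit 0) (XT.lf (nat_lit 0) (nat_lit 11706881793) (nat_lit 152) (nat_lit 3195117029) (nat_lit 228) (nat_lit 3003360026) (nat_lit 49) (nat_lit 5) (nat_lit 51) (nat_lit 5) (nat_lit 52) (nat_lit 5) (nat_lit 345) (nat_lit 309) (nat_lit 246)) (XT.lf (nat_lit 0) (nat_lit 827346017) (nat_lit 304) (nat_lit 14749052306) (nat_lit 76) (nat_lit 2901635360) (nat_lit 45) (nat_lit 5) (nat_lit 49) (nat_lit 5) (nat_lit 46) (nat_lit 5) (nat_lit 346) (nat_lit 309) (nat_lit 245))))) (XT.nd (nat_lit 234) (nat_lit 380) (nat_lit 0) (XT.nd (nat_lit 78) (nat_lit 152) (nat_lit 0) (XT.lf (nat_lit 0) (nat_lit 4881250071) (nat_lit 304) (nat_lit 4851005134) (nat_lit 76) (nat_lit 9338010711) (nat_lit 45) (nat_lit 5) (nat_lit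 49) (nat_lit 5) (nat_lit 46) (nat_lit 5) (nat_lit 347) (nat_lit 309) (nat_lit 244)) (XT.nd (nat_lit 78) (nat_lit 0) (nat_lit 0) (XT.lf (nat_lit 0) (nat_lit 5684270672) (nat_lit 152) (nat_lit 3517108180) (nat_lit 228) (nat_lit 10487568901) (nat_lit 43) (nat_lit 5) (nat_lit 45) (nat_lit 5) (nat_lit 46) (nat_lit 5) (nat_lit 348) (nat_lit 309) (nat_lit 243)) (XT.lf (nat_lit 0) (nat_lit 13843141403) (nat_lit 228) (nat_lit 3508040509) (nat_lit 76) (nat_lit 2982114184) (nat_lit 43) (nat_lit 5) (nat_lit 46) (nat_lit 5) (nat_lit 44) (nat_lit 5) (nat_lit 349) (nat_lit 309) (nat_lit 242)))) (XT.nd (nat_lit 78) (nat_lit 228) (nat_lit 0) (XT.lf (nat_lit 0) (nat_lit 7662948577) (nat_lit 152) (nat_lit 11207675100) (nat_lit 228) (nat_lit 2131569724) (nat_lit 41) (nat_lit 5) (nat_lit 43) (nat_lit 5) (nat_lit 44) (nat_lit 5) (nat_lit 350) (nat_lit 309) (nat_lit 241)) (XT.nd (nat_lit 78) (nat_lit 152) (nat_lit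 0) (XT.lf (nat_lit 0) (nat_lit 2403560050) (nat_lit 228) (nat_lit 2264692245) (nat_lit 76) (nat_lit 17032543103) (nat_lit 40) (nat_lit 5) (nat_lit 43) (nat_lit 5) (nat_lit 41) (nat_lit 5) (nat_lit 351) (nat_lit 309) (nat_lit 240)) (XT.lf (nat_lit 0) (nat_lit 7258420141) (nat_lit 228) (nat_lit 12863898221) (nat_lit 76) (nat_lit 2302042855) (nat_lit 38) (nat_lit 5) (nat_lit 41) (nat_lit 5) (nat_lit 39) (nat_lit 5) (nat_lit 352) (nat_lit 309) (nat_lit 239))))))))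
noncomputable def xc126 : XT := (XT.nd (nat_lit 1794) (nat_lit 836) (nat_lit 0) (XT.nd (nat_lit 858) (nat_lit 684) (nat_lit 0) (XT.nd (nat_lit 390) (nat_lit 304) (nat_lit 0) (XT.nd (nat_lit 156) (nat_lit 304) (nat_lit 0) (XT.nd (nat_lit 78) (nat_lit 152) (nat_lit 0) (XT.lf (nat_lit 0) (nat_lit 12449427660) (nat_lit 228) (nat_lit 1240580999) (nat_lit 76) (nat_lit 9489437244) (nat_lit 38) (nat_lit 5) (nat_lit 41) (nat_lit 5) (nat_lit 39) (nat_lit 5) (nat_lit 353) (nat_lit 309) (nat_lit 238)) (XT.lf (nat_lit 0) (nat_lit 11290273849) (nat_lit 152) (nat_lit 6764930511) (nat_lit 228) (nat_lit 5909329805) (nat_lit 36) (nat_lit 5) (nat_lit 38) (nat_lit 5) (nat_lit 39) (nat_lit 5) (nat_lit 354) (nat_lit 309) (nat_lit 237))) (XT.nd (nat_lit 78) (nat_lit 304) (nat_lit 0) (XT.lf (nat_lit 0) (nat_lit 23949725633) (nat_lit 228) (nat_lit 340581945) (nat_lit 76) (nat_lit 498156268) (nat_lit 36) (nat_lit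 5) (nat_lit 39) (nat_lit 5) (nat_lit 37) (nat_lit 4) (nat_lit 355) (nat_lit 309) (nat_lit 236)) (XT.nd (nat_lit 78) (nat_lit 152) (nat_lit 0) (XT.lf (nat_lit 0) (nat_lit 4638742589) (nat_lit 152) (nat_lit 12836339469) (nat_lit 76) (nat_lit 8160169373) (nat_lit 34) (nat_lit 5) (nat_lit 36) (nat_lit 5) (nat_lit 35) (nat_lit 5) (nat_lit 356) (nat_lit 309) (nat_lit 235)) (XT.lf (nat_lit 0) (nat_lit 36760130) (nat_lit 152) (nat_lit 10311873927) (nat_lit 228) (nat_lit 16175729119) (nat_lit 32) (nat_lit 5) (nat_lit 34) (nat_lit 5) (nat_lit 35) (nat_lit 5) (nat_lit 357) (nat_lit 309) (nat_lit 234))))) (XT.nd (nat_lit 234) (nat_lit 152) (nat_lit 0) (XT.nd (nat_lit 78) (nat_lit 152) (nat_lit 0) (XT.lf (nat_lit 0) (nat_lit 13966019903) (nat_lit 152) (nat_lit 2576098374) (nat_lit 228) (nat_lit 10905915380) (nat_lit 32) (nat_lit 5) (nat_lit 34) (nat_lit 5) (nat_lit 35) (nat_lit 5) (nat_lit 358) (nat_lit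 309) (nat_lit 233)) (XT.nd (nat_lit 78) (nat_lit 76) (nat_lit 0) (XT.lf (nat_lit 0) (nat_lit 56791190) (nat_lit 76) (nat_lit 23057389293) (nat_lit 152) (nat_lit 5300269663) (nat_lit 31) (nat_lit 5) (nat_lit 32) (nat_lit 5) (nat_lit 33) (nat_lit 4) (nat_lit 359) (nat_lit 309) (nat_lit 232)) (XT.lf (nat_lit 0) (nat_lit 822716906) (nat_lit 152) (nat_lit 14764671062) (nat_lit 76) (nat_lit 13828559098) (nat_lit 30) (nat_lit 5) (nat_lit 32) (nat_lit 5) (nat_lit 31) (nat_lit 5) (nat_lit 360) (nat_lit 309) (nat_lit 231)))) (XT.nd (nat_lit 78) (nat_lit 152) (nat_lit 0) (XT.lf (nat_lit 0) (nat_lit 7056114437) (nat_lit 152) (nat_lit 609764743) (nat_lit 76) (nat_lit 22798182525) (nat_lit 30) (nat_lit 5) (nat_lit 32) (nat_lit 5) (nat_lit 31) (nat_lit 5) (nat_lit 361) (nat_lit 309) (nat_lit 230)) (XT.nd (nat_lit 78) (nat_lit 0) (nat_lit 0) (XT.lf (nat_lit 0) (nat_lit 13827556715) (nat_lit 228) (nat_lit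 16873887878) (nat_lit 76) (nat_lit 851825052) (nat_lit 28) (nat_lit 5) (nat_lit 31) (nat_lit 5) (nat_lit 29) (nat_lit 4) (nat_lit 362) (nat_lit 309) (nat_lit 229)) (XT.lf (nat_lit 0) (nat_lit 21057114394) (nat_lit 228) (nat_lit 2097637460) (nat_lit 76) (nat_lit 9536214976) (nat_lit 28) (nat_lit 5) (nat_lit 31) (nat_lit 5) (nat_lit 29) (nat_lit 4) (nat_lit 363) (nat_lit 309) (nat_lit 228)))))) (XT.nd (nat_lit 468) (nat_lit 304) (nat_lit 0) (XT.nd (nat_lit 234) (nat_lit 76) (nat_lit 0) (XT.nd (nat_lit 78) (nat_lit 228) (nat_lit 0) (XT.lf (nat_lit 0) (nat_lit 13832010846) (nat_lit 76) (nat_lit 15016264312) (nat_lit 152) (nat_lit 5027273182) (nat_lit 27) (nat_lit 5) (nat_lit 28) (nat_lit 5) (nat_lit 29) (nat_lit 4) (nat_lit 364) (nat_lit 309) (nat_lit 227)) (XT.nd (nat_lit 78) (nat_lit 152) (nat_lit 0) (XT.lf (nat_lit 0) (nat_lit 1868852714) (nat_lit 152) (nat_lit 4545211333) (nat_lit 76) (nat_lit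 28702792437) (nat_lit 26) (nat_lit 5) (nat_lit 28) (nat_lit 5) (nat_lit 27) (nat_lit 5) (nat_lit 365) (nat_lit 309) (nat_lit 226)) (XT.lf (nat_lit 0) (nat_lit 9158333413) (nat_lit 228) (nat_lit 24449681716) (nat_lit 76) (nat_lit 2797224245) (nat_lit 24) (nat_lit 5) (nat_lit 27) (nat_lit 5) (nat_lit 25) (nat_lit 4) (nat_lit 366) (nat_lit 309) (nat_lit 225)))) (XT.nd (nat_lit 78) (nat_lit 76) (nat_lit 0) (XT.lf (nat_lit 0) (nat_lit 16980775775) (nat_lit 228) (nat_lit 8448418635) (nat_lit 76) (nat_lit 12320427327) (nat_lit 24) (nat_lit 5) (nat_lit 27) (nat_lit 5) (nat_lit 25) (nat_lit 4) (nat_lit 367) (nat_lit 309) (nat_lit 224)) (XT.nd (nat_lit 78) (nat_lit 0) (nat_lit 0) (XT.lf (nat_lit 0) (nat_lit 8602547524) (nat_lit 76) (nat_lit 16711913840) (nat_lit 152) (nat_lit 13840760287) (nat_lit 23) (nat_lit 5) (nat_lit 24) (nat_lit 5) (nat_lit 25) (nat_lit 4) (nat_lit 368) (nat_lit 309) (nat_lit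 223)) (XT.lf (nat_lit 0) (nat_lit 26774091130) (nat_lit 76) (nat_lit 7419910342) (nat_lit 152) (nat_lit 6430645847) (nat_lit 23) (nat_lit 5) (nat_lit 24) (nat_lit 5) (nat_lit 25) (nat_lit 4) (nat_lit 369) (nat_lit 309) (nat_lit 222))))) (XT.nd (nat_lit 234) (nat_lit 152) (nat_lit 0) (XT.nd (nat_lit 78) (nat_lit 0) (nat_lit 0) (XT.lf (nat_lit 0) (nat_lit 1389644853) (nat_lit 152) (nat_lit 38440394581) (nat_lit 76) (nat_lit 2332310961) (nat_lit 21) (nat_lit 5) (nat_lit 23) (nat_lit 5) (nat_lit 22) (nat_lit 4) (nat_lit 370) (nat_lit 309) (nat_lit 221)) (XT.nd (nat_lit 78) (nat_lit 0) (nat_lit 0) (XT.lf (nat_lit 0) (nat_lit 9731514586) (nat_lit 152) (nat_lit 21366784275) (nat_lit 76) (nat_lit 12656038615) (nat_lit 21) (nat_lit 5) (nat_lit 23) (nat_lit 5) (nat_lit 22) (nat_lit 4) (nat_lit 371) (nat_lit 309) (nat_lit 220)) (XT.lf (nat_lit 0) (nat_lit 18477741879) (nat_lit 152) (nat_lit 3462944654)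 (nat_lit 76) (nat_lit 23485877690) (nat_lit 21) (nat_lit 5) (nat_lit 23) (nat_lit 5) (nat_lit 22) (nat_lit 4) (nat_lit 372) (nat_lit 309) (nat_lit 219)))) (XT.nd (nat_lit 78) (nat_lit 76) (nat_lit 0) (XT.lf (nat_lit 0) (nat_lit 15820094288) (nat_lit 76) (nat_lit 12076052803) (nat_lit 152) (nat_lit 19274515236) (nat_lit 20) (nat_lit 5) (nat_lit 21) (nat_lit 5) (nat_lit 22) (nat_lit 4) (nat_lit 373) (nat_lit 309) (nat_lit 218)) (XT.nd (nat_lit 78) (nat_lit 76) (nat_lit 0) (XT.lf (nat_lit 0) (nat_lit 36165536556) (nat_lit 76) (nat_lit 1666687713) (nat_lit 152) (nat_lit 11167406671) (nat_lit 20) (nat_lit 5) (nat_lit 21) (nat_lit 5) (nat_lit 22) (nat_lit 4) (nat_lit 374) (nat_lit 309) (nat_lit 217)) (XT.lf (nat_lit 0) (nat_lit 6655241129) (nat_lit 76) (nat_lit 41846916419) (nat_lit 76) (nat_lit 2406040861) (nat_lit 19) (nat_lit 4) (nat_lit 20) (nat_lit 5) (nat_lit 20) (nat_lit 4) (nat_lit 375)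 (nat_lit 309) (nat_lit 216))))))) (XT.nd (nat_lit 936) (nat_lit 380) (nat_lit 0) (XT.nd (nat_lit 468) (nat_lit 228) (nat_lit 0) (XT.nd (nat_lit 234) (nat_lit 76) (nat_lit 0) (XT.nd (nat_lit 78) (nat_lit 76) (nat_lit 0) (XT.lf (nat_lit 0) (nat_lit 6812752620) (nat_lit 152) (nat_lit 25495046644) (nat_lit 76) (nat_lit 20587255025) (nat_lit 18) (nat_lit 5) (nat_lit 20) (nat_lit 5) (nat_lit 19) (nat_lit 4) (nat_lit 376) (nat_lit 309) (nat_lit 215)) (XT.nd (nat_lit 78) (nat_lit 76) (nat_lit 0) (XT.lf (nat_lit 0) (nat_lit 16400725026) (nat_lit 152) (nat_lit 5859049837) (nat_lit 76) (nat_lit 32720053657) (nat_lit 18) (nat_lit 5) (nat_lit 20) (nat_lit 5) (nat_lit 19) (nat_lit 4) (nat_lit 377) (nat_lit 309) (nat_lit 214)) (XT.lf (nat_lit 0) (nat_lit 15226700046) (nat_lit 76) (nat_lit 11468744611) (nat_lit 152) (nat_lit 30462031877) (nat_lit 17) (nat_lit 5) (nat_lit 18) (nat_lit 5) (nat_lit 19) (nat_lit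 4) (nat_lit 378) (nat_lit 309) (nat_lit 213)))) (XT.nd (nat_lit 78) (nat_lit 76) (nat_lit 0) (XT.lf (nat_lit 0) (nat_lit 37551066991) (nat_lit 76) (nat_lit 42872742) (nat_lit 152) (nat_lit 21845617620) (nat_lit 17) (nat_lit 5) (nat_lit 18) (nat_lit 5) (nat_lit 19) (nat_lit 4) (nat_lit 379) (nat_lit 309) (nat_lit 212)) (XT.nd (nat_lit 78) (nat_lit 76) (nat_lit 0) (XT.lf (nat_lit 0) (nat_lit 49214165967) (nat_lit 152) (nat_lit 1049259658) (nat_lit 0) (nat_lit 11563478533) (nat_lit 17) (nat_lit 5) (nat_lit 19) (nat_lit 4) (nat_lit 17) (nat_lit 4) (nat_lit 380) (nat_lit 309) (nat_lit 211)) (XT.lf (nat_lit 0) (nat_lit 21501773428) (nat_lit 76) (nat_lit 40240670517) (nat_lit 76) (nat_lit 2574824494) (nat_lit 16) (nat_lit 4) (nat_lit 17) (nat_lit 5) (nat_lit 17) (nat_lit 4) (nat_lit 381) (nat_lit 309) (nat_lit 210))))) (XT.nd (nat_lit 234) (nat_lit 76) (nat_lit 0) (XT.nd (nat_lit 78) (nat_lit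 76) (nat_lit 0) (XT.lf (nat_lit 0) (nat_lit 7718773549) (nat_lit 152) (nat_lit 21856796996) (nat_lit 76) (nat_lit 37349928666) (nat_lit 15) (nat_lit 5) (nat_lit 17) (nat_lit 5) (nat_lit 16) (nat_lit 4) (nat_lit 382) (nat_lit 309) (nat_lit 209)) (XT.nd (nat_lit 78) (nat_lit 0) (nat_lit 0) (XT.lf (nat_lit 0) (nat_lit 93795733) (nat_lit 76) (nat_lit 18339290995) (nat_lit 152) (nat_lit 51229317834) (nat_lit 14) (nat_lit 5) (nat_lit 15) (nat_lit 5) (nat_lit 16) (nat_lit 4) (nat_lit 383) (nat_lit 309) (nat_lit 208)) (XT.lf (nat_lit 0) (nat_lit 23884176223) (nat_lit 76) (nat_lit 6160361748) (nat_lit 152) (nat_lit 42473547865) (nat_lit 14) (nat_lit 5) (nat_lit 15) (nat_lit 5) (nat_lit 16) (nat_lit 4) (nat_lit 384) (nat_lit 309) (nat_lit 207)))) (XT.nd (nat_lit 78) (nat_lit 76) (nat_lit 0) (XT.lf (nat_lit 0) (nat_lit 42331602284) (nat_lit 152) (nat_lit 26772022581) (nat_lit 0) (nat_lit 6408175973)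 (nat_lit 14) (nat_lit 5) (nat_lit 16) (nat_lit 4) (nat_lit 14) (nat_lit 4) (nat_lit 385) (nat_lit 309) (nat_lit 206)) (XT.nd (nat_lit 78) (nat_lit 76) (nat_lit 0) (XT.lf (nat_lit 0) (nat_lit 55325977389) (nat_lit 152) (nat_lit 3933338428) (nat_lit 0) (nat_lit 19391239505) (nat_lit 14) (nat_lit 5) (nat_lit 16) (nat_lit 4) (nat_lit 14) (nat_lit 4) (nat_lit 386) (nat_lit 309) (nat_lit 205)) (XT.lf (nat_lit 0) (nat_lit 20695072747) (nat_lit 76) (nat_lit 48590457098) (nat_lit 76) (nat_lit 12644946289) (nat_lit 13) (nat_lit 4) (nat_lit 14) (nat_lit 5) (nat_lit 14) (nat_lit 4) (nat_lit 387) (nat_lit 309) (nat_lit 204)))))) (XT.nd (nat_lit 468) (nat_lit 228) (nat_lit 0) (XT.nd (nat_lit 234) (nat_lit 0) (nat_lit 0) (XT.nd (nat_lit 78) (nat_lit 152) (nat_lit 0) (XT.lf (nat_lit 0) (nat_lit 46677117496) (nat_lit 76) (nat_lit 37325046249) (nat_lit 76) (nat_lit 1369275511) (nat_lit 13) (nat_lit 4) (nat_lit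 14) (nat_lit 5) (nat_lit 14) (nat_lit 4) (nat_lit 388) (nat_lit 309) (nat_lit 203)) (XT.nd (nat_lit 78) (nat_lit 76) (nat_lit 0) (XT.lf (nat_lit 0) (nat_lit 10127797520) (nat_lit 152) (nat_lit 15203557182) (nat_lit 76) (nat_lit 63645287225) (nat_lit 12) (nat_lit 5) (nat_lit 14) (nat_lit 5) (nat_lit 13) (nat_lit 4) (nat_lit 389) (nat_lit 309) (nat_lit 202)) (XT.lf (nat_lit 0) (nat_lit 9737726257) (nat_lit 76) (nat_lit 12561090530) (nat_lit 152) (nat_lit 70454911387) (nat_lit 11) (nat_lit 5) (nat_lit 12) (nat_lit 5) (nat_lit 13) (nat_lit 4) (nat_lit 390) (nat_lit 309) (nat_lit 201)))) (XT.nd (nat_lit 78) (nat_lit 0) (nat_lit 0) (XT.lf (nat_lit 0) (nat_lit 35346427460) (nat_lit 152) (nat_lit 60283614014) (nat_lit 0) (nat_lit 1076226440) (nat_lit 11) (nat_lit 5) (nat_lit 13) (nat_lit 4) (nat_lit 11) (nat_lit 4) (nat_lit 391) (nat_lit 309) (nat_lit 200)) (XT.nd (nat_lit 78) (nat_lit 0) (nat_lit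 0) (XT.lf (nat_lit 0) (nat_lit 49245771611) (nat_lit 152) (nat_lit 36633164859) (nat_lit 0) (nat_lit 14967531668) (nat_lit 11) (nat_lit 5) (nat_lit 13) (nat_lit 4) (nat_lit 11) (nat_lit 4) (nat_lit 392) (nat_lit 309) (nat_lit 199)) (XT.lf (nat_lit 0) (nat_lit 63833829091) (nat_lit 152) (nat_lit 11812230034) (nat_lit 0) (nat_lit 29547933031) (nat_lit 11) (nat_lit 5) (nat_lit 13) (nat_lit 4) (nat_lit 11) (nat_lit 4) (nat_lit 393) (nat_lit 309) (nat_lit 198))))) (XT.nd (nat_lit 234) (nat_lit 152) (nat_lit 0) (XT.nd (nat_lit 78) (nat_lit 0) (nat_lit 0) (XT.lf (nat_lit 0) (nat_lit 14709070024) (nat_lit 76) (nat_lit 64665913152) (nat_lit 76) (nat_lit 30372725552) (nat_lit 10) (nat_lit 4) (nat_lit 11) (nat_lit 5) (nat_lit 11) (nat_lit 4) (nat_lit 394) (nat_lit 309) (nat_lit 197)) (XT.nd (nat_lit 78) (nat_lit 0) (nat_lit 0) (XT.lf (nat_lit 0) (nat_lit 42955250329) (nat_lit 76) (nat_lit 52932141923)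 (nat_lit 76) (nat_lit 18632010000) (nat_lit 10) (nat_lit 4) (nat_lit 11) (nat_lit 5) (nat_lit 11) (nat_lit 4) (nat_lit 395) (nat_lit 309) (nat_lit 196)) (XT.lf (nat_lit 0) (nat_lit 72602998020) (nat_lit 76) (nat_lit 40616853721) (nat_lit 76) (nat_lit 6310108155) (nat_lit 10) (nat_lit 4) (nat_lit 11) (nat_lit 5) (nat_lit 11) (nat_lit 4) (nat_lit 396) (nat_lit 309) (nat_lit 195)))) (XT.nd (nat_lit 78) (nat_lit 76) (nat_lit 0) (XT.lf (nat_lit 0) (nat_lit 6410362314) (nat_lit 152) (nat_lit 21171801527) (nat_lit 76) (nat_lit 97203978071) (nat_lit 9) (nat_lit 5) (nat_lit 11) (nat_lit 5) (nat_lit 10) (nat_lit 4) (nat_lit 397) (nat_lit 309) (nat_lit 194)) (XT.nd (nat_lit 78) (nat_lit 0) (nat_lit 0) (XT.lf (nat_lit 0) (nat_lit 5948136351) (nat_lit 76) (nat_lit 13694390180) (nat_lit 152) (nat_lit 110653048528) (nat_lit 8) (nat_lit 5) (nat_lit 9) (nat_lit 5) (nat_lit 10) (nat_lit 4) (nat_lit 398)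 (nat_lit 309) (nat_lit 193)) (XT.lf (nat_lit 0) (nat_lit 33909475123) (nat_lit 152) (nat_lit 100933115541) (nat_lit 0) (nat_lit 1219231168) (nat_lit 8) (nat_lit 5) (nat_lit 10) (nat_lit 4) (nat_lit 8) (nat_lit 4) (nat_lit 399) (nat_lit 309) (nat_lit 192))))))))
noncomputable def xc127 : XT := (XT.nd (nat_lit 1872) (nat_lit 152) (nat_lit 0) (XT.nd (nat_lit 936) (nat_lit 76) (nat_lit 0) (XT.nd (nat_lit 468) (nat_lit 152) (nat_lit 0) (XT.nd (nat_lit 234) (nat_lit 76) (nat_lit 0) (XT.nd (nat_lit 78) (nat_lit 0) (nat_lit 0) (XT.lf (nat_lit 0) (nat_lit 49109395915) (nat_lit 152) (nat_lit 76582034528) (nat_lit 0) (nat_lit 16413969999) (nat_lit 8) (nat_lit 5) (nat_lit 10) (nat_lit 4) (nat_lit 8) (nat_lit 4) (nat_lit 400) (nat_lit 309) (nat_lit 191)) (XT.nd (nat_lit 78) (nat_lit 0) (nat_lit 0) (XT.lf (nat_lit 0) (nat_lit 65064671387) (nat_lit 152) (nat_lit 51022409096) (nat_lit 0) (nat_lit 32364310269)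 (nat_lit 8) (nat_lit 5) (nat_lit 10) (nat_lit 4) (nat_lit 8) (nat_lit 4) (nat_lit 401) (nat_lit 309) (nat_lit 190)) (XT.lf (nat_lit 0) (nat_lit 81813290291) (nat_lit 152) (nat_lit 24193382995) (nat_lit 0) (nat_lit 49108228981) (nat_lit 8) (nat_lit 5) (nat_lit 10) (nat_lit 4) (nat_lit 8) (nat_lit 4) (nat_lit 402) (nat_lit 309) (nat_lit 189)))) (XT.nd (nat_lit 78) (nat_lit 0) (nat_lit 0) (XT.lf (nat_lit 0) (nat_lit 4100152909) (nat_lit 76) (nat_lit 95358992257) (nat_lit 76) (nat_lit 62649454574) (nat_lit 7) (nat_lit 4) (nat_lit 8) (nat_lit 5) (nat_lit 8) (nat_lit 4) (nat_lit 403) (nat_lit 309) (nat_lit 188)) (XT.nd (nat_lit 78) (nat_lit 0) (nat_lit 0) (XT.lf (nat_lit 0) (nat_lit 34640265040) (nat_lit 76) (nat_lit 83752619482) (nat_lit 76) (nat_lit 51038818586) (nat_lit 7) (nat_lit 4) (nat_lit 8) (nat_lit 5) (nat_lit 8) (nat_lit 4) (nat_lit 404) (nat_lit 309) (nat_lit 187)) (XT.lf (nat_lit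 0) (nat_lit 66699725450) (nat_lit 76) (nat_lit 71569647386) (nat_lit 76) (nat_lit 38851786288) (nat_lit 7) (nat_lit 4) (nat_lit 8) (nat_lit 5) (nat_lit 8) (nat_lit 4) (nat_lit 405) (nat_lit 309) (nat_lit 186))))) (XT.nd (nat_lit 234) (nat_lit 76) (nat_lit 0) (XT.nd (nat_lit 78) (nat_lit 76) (nat_lit 0) (XT.lf (nat_lit 0) (nat_lit 100354866186) (nat_lit 76) (nat_lit 58781068893) (nat_lit 76) (nat_lit 26059340936) (nat_lit 7) (nat_lit 4) (nat_lit 8) (nat_lit 5) (nat_lit 8) (nat_lit 4) (nat_lit 406) (nat_lit 309) (nat_lit 185)) (XT.nd (nat_lit 78) (nat_lit 76) (nat_lit 0) (XT.lf (nat_lit 0) (nat_lit 135685818535) (nat_lit 76) (nat_lit 45356435007) (nat_lit 76) (nat_lit 12631024326) (nat_lit 7) (nat_lit 4) (nat_lit 8) (nat_lit 5) (nat_lit 8) (nat_lit 4) (nat_lit 407) (nat_lit 309) (nat_lit 184)) (XT.lf (nat_lit 0) (nat_lit 1418242229) (nat_lit 152) (nat_lit 29821521466) (nat_lit 76) (nat_lit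 171334442966) (nat_lit 6) (nat_lit 5) (nat_lit 8) (nat_lit 5) (nat_lit 7) (nat_lit 4) (nat_lit 408) (nat_lit 309) (nat_lit 183)))) (XT.nd (nat_lit 78) (nat_lit 76) (nat_lit 0) (XT.lf (nat_lit 0) (nat_lit 15742193486) (nat_lit 152) (nat_lit 460761727) (nat_lit 76) (nat_lit 195707038503) (nat_lit 6) (nat_lit 5) (nat_lit 8) (nat_lit 5) (nat_lit 7) (nat_lit 4) (nat_lit 409) (nat_lit 309) (nat_lit 182)) (XT.nd (nat_lit 78) (nat_lit 0) (nat_lit 0) (XT.lf (nat_lit 0) (nat_lit 31270427533) (nat_lit 152) (nat_lit 190323920419) (nat_lit 0) (nat_lit 93818343) (nat_lit 5) (nat_lit 5) (nat_lit 7) (nat_lit 4) (nat_lit 5) (nat_lit 4) (nat_lit 410) (nat_lit 309) (nat_lit 181)) (XT.lf (nat_lit 0) (nat_lit 47845500028) (nat_lit 152) (nat_lit 167430221220) (nat_lit 0) (nat_lit 16666005327) (nat_lit 5) (nat_lit 5) (nat_lit 7) (nat_lit 4) (nat_lit 5) (nat_lit 4) (nat_lit 411) (nat_lit 309) (nat_lit 180))))))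 (XT.nd (nat_lit 468) (nat_lit 76) (nat_lit 0) (XT.nd (nat_lit 234) (nat_lit 0) (nat_lit 0) (XT.nd (nat_lit 78) (nat_lit 0) (nat_lit 0) (XT.lf (nat_lit 0) (nat_lit 65246348418) (nat_lit 152) (nat_lit 143397660116) (nat_lit 0) (nat_lit 34064105613) (nat_lit 5) (nat_lit 5) (nat_lit 7) (nat_lit 4) (nat_lit 5) (nat_lit 4) (nat_lit 412) (nat_lit 309) (nat_lit 179)) (XT.nd (nat_lit 78) (nat_lit 0) (nat_lit 0) (XT.lf (nat_lit 0) (nat_lit 83514403295) (nat_lit 152) (nat_lit 118169016724) (nat_lit 0) (nat_lit 52329543248) (nat_lit 5) (nat_lit 5) (nat_lit 7) (nat_lit 4) (nat_lit 5) (nat_lit 4) (nat_lit 413) (nat_lit 309) (nat_lit 178)) (XT.lf (nat_lit 0) (nat_lit 102693160029) (nat_lit 152) (nat_lit 91684222845) (nat_lit 0) (nat_lit 71505807369) (nat_lit 5) (nat_lit 5) (nat_lit 7) (nat_lit 4) (nat_lit 5) (nat_lit 4) (nat_lit 414) (nat_lit 309) (nat_lit 177)))) (XT.nd (nat_lit 78) (nat_lit 0) (nat_lit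 0) (XT.lf (nat_lit 0) (nat_lit 122828282324) (nat_lit 152) (nat_lit 63880219446) (nat_lit 0) (nat_lit 91638555748) (nat_lit 5) (nat_lit 5) (nat_lit 7) (nat_lit 4) (nat_lit 5) (nat_lit 4) (nat_lit 415) (nat_lit 309) (nat_lit 176)) (XT.nd (nat_lit 78) (nat_lit 0) (nat_lit 0) (XT.lf (nat_lit 0) (nat_lit 143967710950) (nat_lit 152) (nat_lit 34690806519) (nat_lit 0) (nat_lit 112775723501) (nat_lit 5) (nat_lit 5) (nat_lit 7) (nat_lit 4) (nat_lit 5) (nat_lit 4) (nat_lit 416) (nat_lit 309) (nat_lit 175)) (XT.lf (nat_lit 0) (nat_lit 166161777877) (nat_lit 152) (nat_lit 4046485461) (nat_lit 0) (nat_lit 134967637217) (nat_lit 5) (nat_lit 5) (nat_lit 7) (nat_lit 4) (nat_lit 5) (nat_lit 4) (nat_lit 417) (nat_lit 309) (nat_lit 174))))) (XT.nd (nat_lit 234) (nat_lit 0) (nat_lit 0) (XT.nd (nat_lit 78) (nat_lit 0) (nat_lit 0) (XT.lf (nat_lit 0) (nat_lit 29055669267) (nat_lit 76) (nat_lit 160861297282) (nat_lit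 76) (nat_lit 129665105944) (nat_lit 4) (nat_lit 4) (nat_lit 5) (nat_lit 5) (nat_lit 5) (nat_lit 4) (nat_lit 418) (nat_lit 309) (nat_lit 173)) (XT.nd (nat_lit 78) (nat_lit 0) (nat_lit 0) (XT.lf (nat_lit 0) (nat_lit 63949141403) (nat_lit 76) (nat_lit 150977119479) (nat_lit 76) (nat_lit 119778975113) (nat_lit 4) (nat_lit 4) (nat_lit 5) (nat_lit 5) (nat_lit 5) (nat_lit 4) (nat_lit 419) (nat_lit 309) (nat_lit 172)) (XT.lf (nat_lit 0) (nat_lit 100583215556) (nat_lit 76) (nat_lit 140600725361) (nat_lit 76) (nat_lit 109400720970) (nat_lit 4) (nat_lit 4) (nat_lit 5) (nat_lit 5) (nat_lit 5) (nat_lit 4) (nat_lit 420) (nat_lit 309) (nat_lit 171)))) (XT.nd (nat_lit 78) (nat_lit 0) (nat_lit 0) (XT.lf (nat_lit 0) (nat_lit 139045115713) (nat_lit 76) (nat_lit 129707409228) (nat_lit 76) (nat_lit 98505633384) (nat_lit 4) (nat_lit 4) (nat_lit 5) (nat_lit 5) (nat_lit 5) (nat_lit 4) (nat_lit 421) (nat_lit 309)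 (nat_lit 170)) (XT.nd (nat_lit 78) (nat_lit 0) (nat_lit 0) (XT.lf (nat_lit 0) (nat_lit 179426417826) (nat_lit 76) (nat_lit 118271234614) (nat_lit 76) (nat_lit 87067771672) (nat_lit 4) (nat_lit 4) (nat_lit 5) (nat_lit 5) (nat_lit 5) (nat_lit 4) (nat_lit 422) (nat_lit 309) (nat_lit 169)) (XT.lf (nat_lit 0) (nat_lit 221823267854) (nat_lit 76) (nat_lit 106264972532) (nat_lit 76) (nat_lit 75059902830) (nat_lit 4) (nat_lit 4) (nat_lit 5) (nat_lit 5) (nat_lit 5) (nat_lit 4) (nat_lit 423) (nat_lit 309) (nat_lit 168))))))) (XT.nd (nat_lit 38064) (nat_lit 0) (nat_lit 7904) (XT.nd (nat_lit 468) (nat_lit 76) (nat_lit 0) (XT.nd (nat_lit 234) (nat_lit 76) (nat_lit 0) (XT.nd (nat_lit 78) (nat_lit 0) (nat_lit 0) (XT.lf (nat_lit 0) (nat_lit 266336610676) (nat_lit 76) (nat_lit 93660036642) (nat_lit 76) (nat_lit 62453436693) (nat_lit 4) (nat_lit 4) (nat_lit 5) (nat_lit 5) (nat_lit 5) (nat_lit 4) (nat_lit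 424) (nat_lit 309) (nat_lit 167)) (XT.nd (nat_lit 78) (nat_lit 0) (nat_lit 0) (XT.lf (nat_lit 0) (nat_lit 313072430442) (nat_lit 76) (nat_lit 80426415194) (nat_lit 76) (nat_lit 49218357866) (nat_lit 4) (nat_lit 4) (nat_lit 5) (nat_lit 5) (nat_lit 5) (nat_lit 4) (nat_lit 425) (nat_lit 309) (nat_lit 166)) (XT.lf (nat_lit 0) (nat_lit 362142002914) (nat_lit 76) (nat_lit 66532599564) (nat_lit 76) (nat_lit 35323154256) (nat_lit 4) (nat_lit 4) (nat_lit 5) (nat_lit 5) (nat_lit 5) (nat_lit 4) (nat_lit 426) (nat_lit 309) (nat_lit 165)))) (XT.nd (nat_lit 78) (nat_lit 76) (nat_lit 0) (XT.lf (nat_lit 0) (nat_lit 413662160408) (nat_lit 76) (nat_lit 51945509239) (nat_lit 76) (nat_lit 20734742046) (nat_lit 4) (nat_lit 4) (nat_lit 5) (nat_lit 5) (nat_lit 5) (nat_lit 4) (nat_lit 427) (nat_lit 309) (nat_lit 164)) (XT.nd (nat_lit 78) (nat_lit 76) (nat_lit 0) (XT.lf (nat_lit 0) (nat_lit 467755569964) (nat_lit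 76) (nat_lit 36630413052) (nat_lit 76) (nat_lit 5418386920) (nat_lit 4) (nat_lit 4) (nat_lit 5) (nat_lit 5) (nat_lit 5) (nat_lit 4) (nat_lit 428) (nat_lit 309) (nat_lit 163)) (XT.lf (nat_lit 0) (nat_lit 10321115928) (nat_lit 152) (nat_lit 10054937466) (nat_lit 76) (nat_lit 514055116395) (nat_lit 3) (nat_lit 5) (nat_lit 5) (nat_lit 5) (nat_lit 4) (nat_lit 4) (nat_lit 429) (nat_lit 309) (nat_lit 162))))) (XT.nd (nat_lit 234) (nat_lit 0) (nat_lit 0) (XT.nd (nat_lit 78) (nat_lit 0) (nat_lit 0) (XT.lf (nat_lit 0) (nat_lit 24222521452) (nat_lit 76) (nat_lit 2819863165) (nat_lit 152) (nat_lit 533223639670) (nat_lit 2) (nat_lit 5) (nat_lit 3) (nat_lit 5) (nat_lit 4) (nat_lit 4) (nat_lit 430) (nat_lit 309) (nat_lit 161)) (XT.nd (nat_lit 78) (nat_lit 0) (nat_lit 0) (XT.lf (nat_lit 0) (nat_lit 45015280118) (nat_lit 152) (nat_lit 527070287571) (nat_lit 0) (nat_lit 15286275801) (nat_lit 2) (nat_lit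 5) (nat_lit 4) (nat_lit 4) (nat_lit 2) (nat_lit 4) (nat_lit 431) (nat_lit 309) (nat_lit 160)) (XT.lf (nat_lit 0) (nat_lit 63931815423) (nat_lit 152) (nat_lit 517697063922) (nat_lit 0) (nat_lit 34201824695) (nat_lit 2) (nat_lit 5) (nat_lit 4) (nat_lit 4) (nat_lit 2) (nat_lit 4) (nat_lit 432) (nat_lit 309) (nat_lit 159)))) (XT.nd (nat_lit 78) (nat_lit 0) (nat_lit 0) (XT.lf (nat_lit 0) (nat_lit 83793003937) (nat_lit 152) (nat_lit 507857488725) (nat_lit 0) (nat_lit 54062073769) (nat_lit 2) (nat_lit 5) (nat_lit 4) (nat_lit 4) (nat_lit 2) (nat_lit 4) (nat_lit 433) (nat_lit 309) (nat_lit 158)) (XT.nd (nat_lit 37206) (nat_lit 0) (nat_lit 9652) (XT.lf (nat_lit 0) (nat_lit 104646134202) (nat_lit 152) (nat_lit 497528134419) (nat_lit 0) (nat_lit 74914309330) (nat_lit 2) (nat_lit 5) (nat_lit 4) (nat_lit 4) (nat_lit 2) (nat_lit 4) (nat_lit 434) (nat_lit 309) (nat_lit 157)) (XT.lf (nat_lit 0) (nat_lit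 707314972) (nat_lit 0) (nat_lit 707314972) (nat_lit 532) (nat_lit 2389931853) (nat_lit 129) (nat_lit 5) (nat_lit 129) (nat_lit 3) (nat_lit 136) (nat_lit 3) (nat_lit 310) (nat_lit 310) (nat_lit 280)))))) (XT.nd (nat_lit 468) (nat_lit 1216) (nat_lit 0) (XT.nd (nat_lit 234) (nat_lit 532) (nat_lit 0) (XT.nd (nat_lit 78) (nat_lit 0) (nat_lit 0) (XT.lf (nat_lit 0) (nat_lit 4255221122) (nat_lit 532) (nat_lit 2563652408) (nat_lit 608) (nat_lit 910962309) (nat_lit 129) (nat_lit 5) (nat_lit 136) (nat_lit 3) (nat_lit 137) (nat_lit 5) (nat_lit 311) (nat_lit 310) (nat_lit 279)) (XT.nd (nat_lit 78) (nat_lit 0) (nat_lit 0) (XT.lf (nat_lit 76) (nat_lit 1216497478) (nat_lit 0) (nat_lit 4493025305) (nat_lit 608) (nat_lit 2149321094) (nat_lit 130) (nat_lit 5) (nat_lit 129) (nat_lit 5) (nat_lit 137) (nat_lit 5) (nat_lit 312) (nat_lit 310) (nat_lit 278)) (XT.lf (nat_lit 76) (nat_lit 5227454644) (nat_lit 0)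 (nat_lit 1970677706) (nat_lit 608) (nat_lit 798197280) (nat_lit 130) (nat_lit 5) (nat_lit 129) (nat_lit 5) (nat_lit 137) (nat_lit 5) (nat_lit 313) (nat_lit 310) (nat_lit 277)))) (XT.nd (nat_lit 78) (nat_lit 0) (nat_lit 0) (XT.lf (nat_lit 0) (nat_lit 552897308) (nat_lit 608) (nat_lit 6872892879) (nat_lit 684) (nat_lit 716898423) (nat_lit 122) (nat_lit 5) (nat_lit 130) (nat_lit 5) (nat_lit 131) (nat_lit 5) (nat_lit 314) (nat_lit 310) (nat_lit 276)) (XT.nd (nat_lit 78) (nat_lit 0) (nat_lit 0) (XT.lf (nat_lit 0) (nat_lit 1948887815) (nat_lit 608) (nat_lit 2784922412) (nat_lit 684) (nat_lit 3561785151) (nat_lit 122) (nat_lit 5) (nat_lit 130) (nat_lit 5) (nat_lit 131) (nat_lit 5) (nat_lit 315) (nat_lit 310) (nat_lit 275)) (XT.lf (nat_lit 76) (nat_lit 1506846075) (nat_lit 0) (nat_lit 1859166144) (nat_lit 684) (nat_lit 5092656535) (nat_lit 123) (nat_lit 5) (nat_lit 122) (nat_lit 5) (nat_lit 131)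 (nat_lit 5) (nat_lit 316) (nat_lit 310) (nat_lit 274))))) (XT.nd (nat_lit 234) (nat_lit 1292) (nat_lit 0) (XT.nd (nat_lit 78) (nat_lit 0) (nat_lit 0) (XT.lf (nat_lit 0) (nat_lit 4850859569) (nat_lit 608) (nat_lit 2588455616) (nat_lit 684) (nat_lit 1190821081) (nat_lit 123) (nat_lit 5) (nat_lit 131) (nat_lit 5) (nat_lit 132) (nat_lit 5) (nat_lit 317) (nat_lit 310) (nat_lit 273)) (XT.nd (nat_lit 78) (nat_lit 0) (nat_lit 0) (XT.lf (nat_lit 76) (nat_lit 1976396291) (nat_lit 0) (nat_lit 4429012989) (nat_lit 684) (nat_lit 2405074684) (nat_lit 124) (nat_lit 5) (nat_lit 123) (nat_lit 5) (nat_lit 132) (nat_lit 5) (nat_lit 318) (nat_lit 310) (nat_lit 272)) (XT.lf (nat_lit 76) (nat_lit 6810691509) (nat_lit 0) (nat_lit 1207333616) (nat_lit 684) (nat_lit 982882998) (nat_lit 124) (nat_lit 5) (nat_lit 123) (nat_lit 5) (nat_lit 132) (nat_lit 5) (nat_lit 319) (nat_lit 310) (nat_lit 271)))) (XT.nd (nat_lit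 78) (nat_lit 684) (nat_lit 0) (XT.lf (nat_lit 0) (nat_lit 509950729) (nat_lit 684) (nat_lit 6520106151) (nat_lit 76) (nat_lit 2169673649) (nat_lit 115) (nat_lit 5) (nat_lit 124) (nat_lit 5) (nat_lit 116) (nat_lit 5) (nat_lit 320) (nat_lit 310) (nat_lit 270)) (XT.nd (nat_lit 78) (nat_lit 684) (nat_lit 0) (XT.lf (nat_lit 0) (nat_lit 2042720185) (nat_lit 684) (nat_lit 1625040803) (nat_lit 76) (nat_lit 5740076817) (nat_lit 115) (nat_lit 5) (nat_lit 124) (nat_lit 5) (nat_lit 116) (nat_lit 5) (nat_lit 321) (nat_lit 310) (nat_lit 269)) (XT.lf (nat_lit 0) (nat_lit 3580928060) (nat_lit 684) (nat_lit 70758426) (nat_lit 760) (nat_lit 5974748574) (nat_lit 106) (nat_lit 5) (nat_lit 115) (nat_lit 5) (nat_lit 116) (nat_lit 5) (nat_lit 322) (nat_lit 310) (nat_lit 268))))))))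
noncomputable def xc128 : XT := (XT.nd (nat_lit 1794) (nat_lit 1976) (nat_lit 0) (XT.nd (nat_lit 858) (nat_lit 1748) (nat_lit 0) (XT.nd (nat_lit 390) (nat_lit 1064) (nat_lit 0) (XT.nd (nat_lit 156) (nat_lit 760) (nat_lit 0) (XT.nd (nat_lit 78) (nat_lit 760) (nat_lit 0) (XT.lf (nat_lit 0) (nat_lit 5372629682) (nat_lit 760) (nat_lit 859852064) (nat_lit 76) (nat_lit 3621963558) (nat_lit 106) (nat_lit 5) (nat_lit 116) (nat_lit 5) (nat_lit 107) (nat_lit 5) (nat_lit 323) (nat_lit 310) (nat_lit 267)) (XT.lf (nat_lit 0) (nat_lit 4685741132) (nat_lit 760) (nat_lit 2516476475) (nat_lit 836) (nat_lit 2890565295) (nat_lit 96) (nat_lit 5) (nat_lit 106) (nat_lit 5) (nat_lit 107) (nat_lit 5) (nat_lit 324) (nat_lit 310) (nat_lit 266))) (XT.nd (nat_lit 78) (nat_lit 380) (nat_lit 0) (XT.lf (nat_lit 0) (nat_lit 128424154) (nat_lit 380) (nat_lit 8983339436) (nat_lit 456) (nat_lit 1231903876) (nat_lit 91) (nat_lit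 5) (nat_lit 96) (nat_lit 5) (nat_lit 97) (nat_lit 5) (nat_lit 325) (nat_lit 310) (nat_lit 265)) (XT.nd (nat_lit 78) (nat_lit 304) (nat_lit 0) (XT.lf (nat_lit 0) (nat_lit 578515920) (nat_lit 456) (nat_lit 4575691383) (nat_lit 76) (nat_lit 5448283136) (nat_lit 90) (nat_lit 5) (nat_lit 96) (nat_lit 5) (nat_lit 91) (nat_lit 5) (nat_lit 326) (nat_lit 310) (nat_lit 264)) (XT.lf (nat_lit 0) (nat_lit 1319450065) (nat_lit 304) (nat_lit 1092361996) (nat_lit 380) (nat_lit 8462791636) (nat_lit 86) (nat_lit 5) (nat_lit 90) (nat_lit 5) (nat_lit 91) (nat_lit 5) (nat_lit 327) (nat_lit 310) (nat_lit 263))))) (XT.nd (nat_lit 234) (nat_lit 684) (nat_lit 0) (XT.nd (nat_lit 78) (nat_lit 380) (nat_lit 0) (XT.lf (nat_lit 0) (nat_lit 4419674007) (nat_lit 380) (nat_lit 3588964155) (nat_lit 76) (nat_lit 3147583848) (nat_lit 86) (nat_lit 5) (nat_lit 91) (nat_lit 5) (nat_lit 87) (nat_lit 5) (nat_lit 328) (nat_lit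 310) (nat_lit 262)) (XT.nd (nat_lit 78) (nat_lit 0) (nat_lit 0) (XT.lf (nat_lit 0) (nat_lit 2696386306) (nat_lit 380) (nat_lit 3848316368) (nat_lit 456) (nat_lit 4906422208) (nat_lit 81) (nat_lit 5) (nat_lit 86) (nat_lit 5) (nat_lit 87) (nat_lit 5) (nat_lit 329) (nat_lit 310) (nat_lit 261)) (XT.lf (nat_lit 0) (nat_lit 8803899243) (nat_lit 456) (nat_lit 2395078979) (nat_lit 76) (nat_lit 560439161) (nat_lit 81) (nat_lit 5) (nat_lit 87) (nat_lit 5) (nat_lit 82) (nat_lit 5) (nat_lit 330) (nat_lit 310) (nat_lit 260)))) (XT.nd (nat_lit 78) (nat_lit 380) (nat_lit 0) (XT.lf (nat_lit 0) (nat_lit 4310944303) (nat_lit 304) (nat_lit 6955523673) (nat_lit 380) (nat_lit 812174308) (nat_lit 77) (nat_lit 5) (nat_lit 81) (nat_lit 5) (nat_lit 82) (nat_lit 5) (nat_lit 331) (nat_lit 310) (nat_lit 259)) (XT.nd (nat_lit 78) (nat_lit 304) (nat_lit 0) (XT.lf (nat_lit 0) (nat_lit 1394065088) (nat_lit 380) (nat_lit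 1046600035) (nat_lit 76) (nat_lit 9971987097) (nat_lit 76) (nat_lit 5) (nat_lit 81) (nat_lit 5) (nat_lit 77) (nat_lit 5) (nat_lit 332) (nat_lit 310) (nat_lit 258)) (XT.lf (nat_lit 0) (nat_lit 3779331823) (nat_lit 380) (nat_lit 6648200857) (nat_lit 76) (nat_lit 2330396931) (nat_lit 72) (nat_lit 5) (nat_lit 77) (nat_lit 5) (nat_lit 73) (nat_lit 5) (nat_lit 333) (nat_lit 310) (nat_lit 257)))))) (XT.nd (nat_lit 468) (nat_lit 912) (nat_lit 0) (XT.nd (nat_lit 234) (nat_lit 304) (nat_lit 0) (XT.nd (nat_lit 78) (nat_lit 304) (nat_lit 0) (XT.lf (nat_lit 0) (nat_lit 469481013) (nat_lit 228) (nat_lit 5843134706) (nat_lit 304) (nat_lit 6806449047) (nat_lit 69) (nat_lit 5) (nat_lit 72) (nat_lit 5) (nat_lit 73) (nat_lit 5) (nat_lit 334) (nat_lit 310) (nat_lit 256)) (XT.nd (nat_lit 78) (nat_lit 304) (nat_lit 0) (XT.lf (nat_lit 0) (nat_lit 8128728543) (nat_lit 228) (nat_lit 920861897) (nat_lit 304) (nat_lit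 4444844984) (nat_lit 69) (nat_lit 5) (nat_lit 72) (nat_lit 5) (nat_lit 73) (nat_lit 5) (nat_lit 335) (nat_lit 310) (nat_lit 255)) (XT.lf (nat_lit 0) (nat_lit 2243287379) (nat_lit 304) (nat_lit 9747453707) (nat_lit 380) (nat_lit 1894495818) (nat_lit 65) (nat_lit 5) (nat_lit 69) (nat_lit 5) (nat_lit 70) (nat_lit 5) (nat_lit 336) (nat_lit 310) (nat_lit 254)))) (XT.nd (nat_lit 78) (nat_lit 228) (nat_lit 0) (XT.lf (nat_lit 0) (nat_lit 832108597) (nat_lit 380) (nat_lit 3945814395) (nat_lit 76) (nat_lit 9513379392) (nat_lit 64) (nat_lit 5) (nat_lit 69) (nat_lit 5) (nat_lit 65) (nat_lit 5) (nat_lit 337) (nat_lit 310) (nat_lit 253)) (XT.nd (nat_lit 78) (nat_lit 0) (nat_lit 0) (XT.lf (nat_lit 0) (nat_lit 3673121012) (nat_lit 304) (nat_lit 10527240328) (nat_lit 76) (nat_lit 513694416) (nat_lit 61) (nat_lit 5) (nat_lit 65) (nat_lit 5) (nat_lit 62) (nat_lit 5) (nat_lit 338) (nat_lit 310) (nat_lit 252))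 (XT.lf (nat_lit 0) (nat_lit 6771083112) (nat_lit 304) (nat_lit 2414519085) (nat_lit 76) (nat_lit 5966623214) (nat_lit 61) (nat_lit 5) (nat_lit 65) (nat_lit 5) (nat_lit 62) (nat_lit 5) (nat_lit 339) (nat_lit 310) (nat_lit 251))))) (XT.nd (nat_lit 234) (nat_lit 380) (nat_lit 0) (XT.nd (nat_lit 78) (nat_lit 304) (nat_lit 0) (XT.lf (nat_lit 0) (nat_lit 6262803296) (nat_lit 228) (nat_lit 3829065360) (nat_lit 304) (nat_lit 5517061072) (nat_lit 58) (nat_lit 5) (nat_lit 61) (nat_lit 5) (nat_lit 62) (nat_lit 5) (nat_lit 340) (nat_lit 310) (nat_lit 250)) (XT.nd (nat_lit 78) (nat_lit 304) (nat_lit 0) (XT.lf (nat_lit 0) (nat_lit 13619030993) (nat_lit 304) (nat_lit 699412411) (nat_lit 76) (nat_lit 1768030359) (nat_lit 58) (nat_lit 5) (nat_lit 62) (nat_lit 5) (nat_lit 59) (nat_lit 5) (nat_lit 341) (nat_lit 310) (nat_lit 249)) (XT.lf (nat_lit 0) (nat_lit 882291191) (nat_lit 304) (nat_lit 8043293644) (nat_lit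 76) (nat_lit 7653198634) (nat_lit 54) (nat_lit 5) (nat_lit 58) (nat_lit 5) (nat_lit 55) (nat_lit 5) (nat_lit 342) (nat_lit 310) (nat_lit 248)))) (XT.nd (nat_lit 78) (nat_lit 152) (nat_lit 0) (XT.lf (nat_lit 0) (nat_lit 1115991601) (nat_lit 228) (nat_lit 3202447172) (nat_lit 304) (nat_lit 12775173402) (nat_lit 51) (nat_lit 5) (nat_lit 54) (nat_lit 5) (nat_lit 55) (nat_lit 5) (nat_lit 343) (nat_lit 310) (nat_lit 247)) (XT.nd (nat_lit 78) (nat_lit 152) (nat_lit 0) (XT.lf (nat_lit 0) (nat_lit 8081547466) (nat_lit 304) (nat_lit 6701839070) (nat_lit 76) (nat_lit 2843055679) (nat_lit 51) (nat_lit 5) (nat_lit 55) (nat_lit 5) (nat_lit 52) (nat_lit 5) (nat_lit 344) (nat_lit 310) (nat_lit 246)) (XT.lf (nat_lit 0) (nat_lit 3043699390) (nat_lit 152) (nat_lit 9063304244) (nat_lit 228) (nat_lit 6075217271) (nat_lit 49) (nat_lit 5) (nat_lit 51) (nat_lit 5) (nat_lit 52) (nat_lit 5) (nat_lit 345) (nat_lit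 310) (nat_lit 245))))))) (XT.nd (nat_lit 936) (nat_lit 836) (nat_lit 0) (XT.nd (nat_lit 468) (nat_lit 532) (nat_lit 0) (XT.nd (nat_lit 234) (nat_lit 304) (nat_lit 0) (XT.nd (nat_lit 78) (nat_lit 304) (nat_lit 0) (XT.lf (nat_lit 0) (nat_lit 13470865355) (nat_lit 152) (nat_lit 2951169952) (nat_lit 228) (nat_lit 2339354039) (nat_lit 49) (nat_lit 5) (nat_lit 51) (nat_lit 5) (nat_lit 52) (nat_lit 5) (nat_lit 346) (nat_lit 310) (nat_lit 244)) (XT.nd (nat_lit 78) (nat_lit 0) (nat_lit 0) (XT.lf (nat_lit 0) (nat_lit 1644316617) (nat_lit 304) (nat_lit 14268382503) (nat_lit 76) (nat_lit 3450011078) (nat_lit 45) (nat_lit 5) (nat_lit 49) (nat_lit 5) (nat_lit 46) (nat_lit 5) (nat_lit 347) (nat_lit 310) (nat_lit 243)) (XT.lf (nat_lit 0) (nat_lit 5863982384) (nat_lit 304) (nat_lit 3933438802) (nat_lit 76) (nat_lit 10189000721) (nat_lit 45) (nat_lit 5) (nat_lit 49) (nat_lit 5) (nat_lit 46) (nat_lit 5) (nat_lit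 348) (nat_lit 310) (nat_lit 242)))) (XT.nd (nat_lit 78) (nat_lit 152) (nat_lit 0) (XT.lf (nat_lit 0) (nat_lit 7109889236) (nat_lit 152) (nat_lit 3272874147) (nat_lit 228) (nat_lit 10254162347) (nat_lit 43) (nat_lit 5) (nat_lit 45) (nat_lit 5) (nat_lit 46) (nat_lit 5) (nat_lit 349) (nat_lit 310) (nat_lit 241)) (XT.nd (nat_lit 78) (nat_lit 152) (nat_lit 0) (XT.lf (nat_lit 0) (nat_lit 15228512150) (nat_lit 228) (nat_lit 2567903803) (nat_lit 76) (nat_lit 3518499853) (nat_lit 43) (nat_lit 5) (nat_lit 46) (nat_lit 5) (nat_lit 44) (nat_lit 5) (nat_lit 350) (nat_lit 310) (nat_lit 240)) (XT.lf (nat_lit 0) (nat_lit 9143642177) (nat_lit 152) (nat_lit 11347851957) (nat_lit 228) (nat_lit 1526575866) (nat_lit 41) (nat_lit 5) (nat_lit 43) (nat_lit 5) (nat_lit 44) (nat_lit 5) (nat_lit 351) (nat_lit 310) (nat_lit 239))))) (XT.nd (nat_lit 234) (nat_lit 304) (nat_lit 0) (XT.nd (nat_lit 78) (nat_lit 152) (nat_lit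 0) (XT.lf (nat_lit 0) (nat_lit 3179735753) (nat_lit 228) (nat_lit 1310622473) (nat_lit 76) (nat_lit 18262344988) (nat_lit 40) (nat_lit 5) (nat_lit 43) (nat_lit 5) (nat_lit 41) (nat_lit 5) (nat_lit 352) (nat_lit 310) (nat_lit 238)) (XT.nd (nat_lit 78) (nat_lit 0) (nat_lit 0) (XT.lf (nat_lit 0) (nat_lit 8268880332) (nat_lit 228) (nat_lit 12431013976) (nat_lit 76) (nat_lit 2812991754) (nat_lit 38) (nat_lit 5) (nat_lit 41) (nat_lit 5) (nat_lit 39) (nat_lit 5) (nat_lit 353) (nat_lit 310) (nat_lit 237)) (XT.lf (nat_lit 0) (nat_lit 13688603027) (nat_lit 228) (nat_lit 277772758) (nat_lit 76) (nat_lit 10340906017) (nat_lit 38) (nat_lit 5) (nat_lit 41) (nat_lit 5) (nat_lit 39) (nat_lit 5) (nat_lit 354) (nat_lit 310) (nat_lit 236)))) (XT.nd (nat_lit 78) (nat_lit 152) (nat_lit 0) (XT.lf (nat_lit 0) (nat_lit 12863095199) (nat_lit 152) (nat_lit 6697949015) (nat_lit 228) (nat_lit 5571275824) (nat_lit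 36) (nat_lit 5) (nat_lit 38) (nat_lit 5) (nat_lit 39) (nat_lit 5) (nat_lit 355) (nat_lit 310) (nat_lit 235)) (XT.nd (nat_lit 78) (nat_lit 76) (nat_lit 0) (XT.lf (nat_lit 0) (nat_lit 646334505) (nat_lit 76) (nat_lit 25091355533) (nat_lit 152) (nat_lit 260399902) (nat_lit 35) (nat_lit 5) (nat_lit 36) (nat_lit 5) (nat_lit 37) (nat_lit 4) (nat_lit 356) (nat_lit 310) (nat_lit 234)) (XT.lf (nat_lit 0) (nat_lit 5448094022) (nat_lit 152) (nat_lit 12491416928) (nat_lit 76) (nat_lit 8948384542) (nat_lit 34) (nat_lit 5) (nat_lit 36) (nat_lit 5) (nat_lit 35) (nat_lit 5) (nat_lit 357) (nat_lit 310) (nat_lit 233)))))) (XT.nd (nat_lit 468) (nat_lit 380) (nat_lit 0) (XT.nd (nat_lit 234) (nat_lit 228) (nat_lit 0) (XT.nd (nat_lit 78) (nat_lit 76) (nat_lit 0) (XT.lf (nat_lit 0) (nat_lit 1009422497) (nat_lit 152) (nat_lit 10421718936) (nat_lit 228) (nat_lit 16390950123) (nat_lit 32) (nat_lit 5) (nat_lit 34)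 (nat_lit 5) (nat_lit 35) (nat_lit 5) (nat_lit 358) (nat_lit 310) (nat_lit 232)) (XT.nd (nat_lit 78) (nat_lit 76) (nat_lit 0) (XT.lf (nat_lit 0) (nat_lit 15588915527) (nat_lit 152) (nat_lit 2318475972) (nat_lit 228) (nat_lit 10885910718) (nat_lit 32) (nat_lit 5) (nat_lit 34) (nat_lit 5) (nat_lit 35) (nat_lit 5) (nat_lit 359) (nat_lit 310) (nat_lit 231)) (XT.lf (nat_lit 0) (nat_lit 990072150) (nat_lit 76) (nat_lit 23812630366) (nat_lit 152) (nat_lit 5005615433) (nat_lit 31) (nat_lit 5) (nat_lit 32) (nat_lit 5) (nat_lit 33) (nat_lit 4) (nat_lit 360) (nat_lit 310) (nat_lit 230)))) (XT.nd (nat_lit 78) (nat_lit 152) (nat_lit 0) (XT.lf (nat_lit 0) (nat_lit 1379809753) (nat_lit 152) (nat_lit 14599515926) (nat_lit 76) (nat_lit 14881426737) (nat_lit 30) (nat_lit 5) (nat_lit 32) (nat_lit 5) (nat_lit 31) (nat_lit 5) (nat_lit 361) (nat_lit 310) (nat_lit 229)) (XT.nd (nat_lit 78) (nat_lit 0) (nat_lit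 0) (XT.lf (nat_lit 0) (nat_lit 227395268) (nat_lit 152) (nat_lit 7676462788) (nat_lit 228) (nat_lit 24058474931) (nat_lit 28) (nat_lit 5) (nat_lit 30) (nat_lit 5) (nat_lit 31) (nat_lit 5) (nat_lit 362) (nat_lit 310) (nat_lit 228)) (XT.lf (nat_lit 0) (nat_lit 15005842076) (nat_lit 228) (nat_lit 16852555893) (nat_lit 76) (nat_lit 1248013679) (nat_lit 28) (nat_lit 5) (nat_lit 31) (nat_lit 5) (nat_lit 29) (nat_lit 4) (nat_lit 363) (nat_lit 310) (nat_lit 227))))) (XT.nd (nat_lit 234) (nat_lit 228) (nat_lit 0) (XT.nd (nat_lit 78) (nat_lit 152) (nat_lit 0) (XT.lf (nat_lit 0) (nat_lit 22573691566) (nat_lit 228) (nat_lit 1378684686) (nat_lit 76) (nat_lit 10349785130) (nat_lit 28) (nat_lit 5) (nat_lit 31) (nat_lit 5) (nat_lit 29) (nat_lit 4) (nat_lit 364) (nat_lit 310) (nat_lit 226)) (XT.nd (nat_lit 78) (nat_lit 76) (nat_lit 0) (XT.lf (nat_lit 0) (nat_lit 15334158380) (nat_lit 76) (nat_lit 15410824925)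 (nat_lit 152) (nat_lit 4801468002) (nat_lit 27) (nat_lit 5) (nat_lit 28) (nat_lit 5) (nat_lit 29) (nat_lit 4) (nat_lit 365) (nat_lit 310) (nat_lit 225)) (XT.lf (nat_lit 0) (nat_lit 2402196737) (nat_lit 152) (nat_lit 3985832377) (nat_lit 76) (nat_lit 30462530245) (nat_lit 26) (nat_lit 5) (nat_lit 28) (nat_lit 5) (nat_lit 27) (nat_lit 5) (nat_lit 366) (nat_lit 310) (nat_lit 224)))) (XT.nd (nat_lit 78) (nat_lit 76) (nat_lit 0) (XT.lf (nat_lit 0) (nat_lit 10052641198) (nat_lit 228) (nat_lit 24881878026) (nat_lit 76) (nat_lit 3269024581) (nat_lit 24) (nat_lit 5) (nat_lit 27) (nat_lit 5) (nat_lit 25) (nat_lit 4) (nat_lit 367) (nat_lit 310) (nat_lit 223)) (XT.nd (nat_lit 78) (nat_lit 76) (nat_lit 0) (XT.lf (nat_lit 0) (nat_lit 18245425150) (nat_lit 228) (nat_lit 8118184542) (nat_lit 76) (nat_lit 13252581192) (nat_lit 24) (nat_lit 5) (nat_lit 27) (nat_lit 5) (nat_lit 25) (nat_lit 4) (nat_lit 368)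 (nat_lit 310) (nat_lit 222)) (XT.lf (nat_lit 0) (nat_lit 9773190327) (nat_lit 76) (nat_lit 17214375231) (nat_lit 152) (nat_lit 14104922965) (nat_lit 23) (nat_lit 5) (nat_lit 24) (nat_lit 5) (nat_lit 25) (nat_lit 4) (nat_lit 369) (nat_lit 310) (nat_lit 221))))))))
noncomputable def xc129 : XT := (XT.nd (nat_lit 1794) (nat_lit 456) (nat_lit 0) (XT.nd (nat_lit 858) (nat_lit 456) (nat_lit 0) (XT.nd (nat_lit 390) (nat_lit 228) (nat_lit 0) (XT.nd (nat_lit 156) (nat_lit 76) (nat_lit 0) (XT.nd (nat_lit 78) (nat_lit 152) (nat_lit 0) (XT.lf (nat_lit 0) (nat_lit 28818048474) (nat_lit 76) (nat_lit 7473635097) (nat_lit 152) (nat_lit 6344677819) (nat_lit 23) (nat_lit 5) (nat_lit 24) (nat_lit 5) (nat_lit 25) (nat_lit 4) (nat_lit 370) (nat_lit 310) (nat_lit 220)) (XT.lf (nat_lit 0) (nat_lit 1850834471) (nat_lit 152) (nat_lit 39641146947) (nat_lit 76) (nat_lit 2758793016) (nat_lit 21) (nat_lit 5) (nat_lit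 23) (nat_lit 5) (nat_lit 22) (nat_lit 4) (nat_lit 371) (nat_lit 310) (nat_lit 219))) (XT.nd (nat_lit 78) (nat_lit 76) (nat_lit 0) (XT.lf (nat_lit 0) (nat_lit 10591144958) (nat_lit 152) (nat_lit 21748202191) (nat_lit 76) (nat_lit 13583951505) (nat_lit 21) (nat_lit 5) (nat_lit 23) (nat_lit 5) (nat_lit 22) (nat_lit 4) (nat_lit 372) (nat_lit 310) (nat_lit 218)) (XT.nd (nat_lit 78) (nat_lit 76) (nat_lit 0) (XT.lf (nat_lit 0) (nat_lit 19756919110) (nat_lit 152) (nat_lit 2981881127) (nat_lit 76) (nat_lit 24941229631) (nat_lit 21) (nat_lit 5) (nat_lit 23) (nat_lit 5) (nat_lit 22) (nat_lit 4) (nat_lit 373) (nat_lit 310) (nat_lit 217)) (XT.lf (nat_lit 0) (nat_lit 17254757976) (nat_lit 76) (nat_lit 12384617349) (nat_lit 152) (nat_lit 19872305684) (nat_lit 20) (nat_lit 5) (nat_lit 21) (nat_lit 5) (nat_lit 22) (nat_lit 4) (nat_lit 374) (nat_lit 310) (nat_lit 216))))) (XT.nd (nat_lit 234) (nat_lit 76)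 (nat_lit 0) (XT.nd (nat_lit 78) (nat_lit 152) (nat_lit 0) (XT.lf (nat_lit 0) (nat_lit 38586821930) (nat_lit 76) (nat_lit 1468842961) (nat_lit 152) (nat_lit 11377267182) (nat_lit 20) (nat_lit 5) (nat_lit 21) (nat_lit 5) (nat_lit 22) (nat_lit 4) (nat_lit 375) (nat_lit 310) (nat_lit 215)) (XT.nd (nat_lit 78) (nat_lit 76) (nat_lit 0) (XT.lf (nat_lit 0) (nat_lit 7603216684) (nat_lit 76) (nat_lit 43653862902) (nat_lit 76) (nat_lit 2179953325) (nat_lit 19) (nat_lit 4) (nat_lit 20) (nat_lit 5) (nat_lit 20) (nat_lit 4) (nat_lit 376) (nat_lit 310) (nat_lit 214)) (XT.lf (nat_lit 0) (nat_lit 7472726393) (nat_lit 152) (nat_lit 26173245829) (nat_lit 76) (nat_lit 21877791140) (nat_lit 18) (nat_lit 5) (nat_lit 20) (nat_lit 5) (nat_lit 19) (nat_lit 4) (nat_lit 377) (nat_lit 310) (nat_lit 213)))) (XT.nd (nat_lit 78) (nat_lit 76) (nat_lit 0) (XT.lf (nat_lit 0) (nat_lit 17524890936) (nat_lit 152) (nat_lit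 5583856476) (nat_lit 76) (nat_lit 34604792878) (nat_lit 18) (nat_lit 5) (nat_lit 20) (nat_lit 5) (nat_lit 19) (nat_lit 4) (nat_lit 378) (nat_lit 310) (nat_lit 212)) (XT.nd (nat_lit 78) (nat_lit 0) (nat_lit 0) (XT.lf (nat_lit 0) (nat_lit 16547017259) (nat_lit 76) (nat_lit 11781574203) (nat_lit 152) (nat_lit 31671770479) (nat_lit 17) (nat_lit 5) (nat_lit 18) (nat_lit 5) (nat_lit 19) (nat_lit 4) (nat_lit 379) (nat_lit 310) (nat_lit 211)) (XT.lf (nat_lit 0) (nat_lit 39760975211) (nat_lit 152) (nat_lit 22439448415) (nat_lit 0) (nat_lit 196678298) (nat_lit 17) (nat_lit 5) (nat_lit 19) (nat_lit 4) (nat_lit 17) (nat_lit 4) (nat_lit 380) (nat_lit 310) (nat_lit 210)))))) (XT.nd (nat_lit 468) (nat_lit 228) (nat_lit 0) (XT.nd (nat_lit 234) (nat_lit 76) (nat_lit 0) (XT.nd (nat_lit 78) (nat_lit 152) (nat_lit 0) (XT.lf (nat_lit 0) (nat_lit 51949199335) (nat_lit 152) (nat_lit 584804896) (nat_lit 0) (nat_lit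 12370465671) (nat_lit 17) (nat_lit 5) (nat_lit 19) (nat_lit 4) (nat_lit 17) (nat_lit 4) (nat_lit 381) (nat_lit 310) (nat_lit 209)) (XT.nd (nat_lit 78) (nat_lit 76) (nat_lit 0) (XT.lf (nat_lit 0) (nat_lit 23085442462) (nat_lit 76) (nat_lit 42013326016) (nat_lit 76) (nat_lit 2420843067) (nat_lit 16) (nat_lit 4) (nat_lit 17) (nat_lit 5) (nat_lit 17) (nat_lit 4) (nat_lit 382) (nat_lit 310) (nat_lit 208)) (XT.lf (nat_lit 0) (nat_lit 8365353905) (nat_lit 152) (nat_lit 22456602001) (nat_lit 76) (nat_lit 39436731578) (nat_lit 15) (nat_lit 5) (nat_lit 17) (nat_lit 5) (nat_lit 16) (nat_lit 4) (nat_lit 383) (nat_lit 310) (nat_lit 207)))) (XT.nd (nat_lit 78) (nat_lit 0) (nat_lit 0) (XT.lf (nat_lit 0) (nat_lit 583568189) (nat_lit 76) (nat_lit 19026976544) (nat_lit 152) (nat_lit 53522137869) (nat_lit 14) (nat_lit 5) (nat_lit 15) (nat_lit 5) (nat_lit 16) (nat_lit 4) (nat_lit 384) (nat_lit 310) (nat_lit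 206)) (XT.nd (nat_lit 78) (nat_lit 0) (nat_lit 0) (XT.lf (nat_lit 0) (nat_lit 25540368529) (nat_lit 76) (nat_lit 6250018883) (nat_lit 152) (nat_lit 44341372061) (nat_lit 14) (nat_lit 5) (nat_lit 15) (nat_lit 5) (nat_lit 16) (nat_lit 4) (nat_lit 385) (nat_lit 310) (nat_lit 205)) (XT.lf (nat_lit 0) (nat_lit 44683450750) (nat_lit 152) (nat_lit 27662238069) (nat_lit 0) (nat_lit 6929891475) (nat_lit 14) (nat_lit 5) (nat_lit 16) (nat_lit 4) (nat_lit 14) (nat_lit 4) (nat_lit 386) (nat_lit 310) (nat_lit 204))))) (XT.nd (nat_lit 234) (nat_lit 152) (nat_lit 0) (XT.nd (nat_lit 78) (nat_lit 76) (nat_lit 0) (XT.lf (nat_lit 0) (nat_lit 58316341355) (nat_lit 152) (nat_lit 3702971405) (nat_lit 0) (nat_lit 20552522150) (nat_lit 14) (nat_lit 5) (nat_lit 16) (nat_lit 4) (nat_lit 14) (nat_lit 4) (nat_lit 387) (nat_lit 310) (nat_lit 203)) (XT.nd (nat_lit 78) (nat_lit 0) (nat_lit 0) (XT.lf (nat_lit 0) (nat_lit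 22149972684) (nat_lit 76) (nat_lit 50819788645) (nat_lit 76) (nat_lit 13046198079) (nat_lit 13) (nat_lit 4) (nat_lit 14) (nat_lit 5) (nat_lit 14) (nat_lit 4) (nat_lit 388) (nat_lit 310) (nat_lit 202)) (XT.lf (nat_lit 0) (nat_lit 49411112704) (nat_lit 76) (nat_lit 39000640173) (nat_lit 76) (nat_lit 1217743549) (nat_lit 13) (nat_lit 4) (nat_lit 14) (nat_lit 5) (nat_lit 14) (nat_lit 4) (nat_lit 389) (nat_lit 310) (nat_lit 201)))) (XT.nd (nat_lit 78) (nat_lit 76) (nat_lit 0) (XT.lf (nat_lit 0) (nat_lit 10837001205) (nat_lit 152) (nat_lit 15575907064) (nat_lit 76) (nat_lit 67002388105) (nat_lit 12) (nat_lit 5) (nat_lit 14) (nat_lit 5) (nat_lit 13) (nat_lit 4) (nat_lit 390) (nat_lit 310) (nat_lit 200)) (XT.nd (nat_lit 78) (nat_lit 0) (nat_lit 0) (XT.lf (nat_lit 0) (nat_lit 10606185258) (nat_lit 76) (nat_lit 13006685797) (nat_lit 152) (nat_lit 73768552659) (nat_lit 11) (nat_lit 5) (nat_lit 12)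 (nat_lit 5) (nat_lit 13) (nat_lit 4) (nat_lit 391) (nat_lit 310) (nat_lit 199)) (XT.lf (nat_lit 0) (nat_lit 37306093717) (nat_lit 152) (nat_lit 62927590089) (nat_lit 0) (nat_lit 1298246737) (nat_lit 11) (nat_lit 5) (nat_lit 13) (nat_lit 4) (nat_lit 11) (nat_lit 4) (nat_lit 392) (nat_lit 310) (nat_lit 198))))))) (XT.nd (nat_lit 936) (nat_lit 152) (nat_lit 0) (XT.nd (nat_lit 468) (nat_lit 152) (nat_lit 0) (XT.nd (nat_lit 234) (nat_lit 76) (nat_lit 0) (XT.nd (nat_lit 78) (nat_lit 76) (nat_lit 0) (XT.lf (nat_lit 0) (nat_lit 51891245795) (nat_lit 152) (nat_lit 38112247268) (nat_lit 0) (nat_lit 15876107275) (nat_lit 11) (nat_lit 5) (nat_lit 13) (nat_lit 4) (nat_lit 11) (nat_lit 4) (nat_lit 393) (nat_lit 310) (nat_lit 197)) (XT.nd (nat_lit 78) (nat_lit 76) (nat_lit 0) (XT.lf (nat_lit 0) (nat_lit 67199983026) (nat_lit 152) (nat_lit 12067055028) (nat_lit 0) (nat_lit 31177900182) (nat_lit 11) (nat_lit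 5) (nat_lit 13) (nat_lit 4) (nat_lit 11) (nat_lit 4) (nat_lit 394) (nat_lit 310) (nat_lit 196)) (XT.lf (nat_lit 0) (nat_lit 15774894122) (nat_lit 76) (nat_lit 67740150967) (nat_lit 76) (nat_lit 31711454481) (nat_lit 10) (nat_lit 4) (nat_lit 11) (nat_lit 5) (nat_lit 11) (nat_lit 4) (nat_lit 395) (nat_lit 310) (nat_lit 195)))) (XT.nd (nat_lit 78) (nat_lit 76) (nat_lit 0) (XT.lf (nat_lit 0) (nat_lit 45417651509) (nat_lit 76) (nat_lit 55427265359) (nat_lit 76) (nat_lit 19392270167) (nat_lit 10) (nat_lit 4) (nat_lit 11) (nat_lit 5) (nat_lit 11) (nat_lit 4) (nat_lit 396) (nat_lit 310) (nat_lit 194)) (XT.nd (nat_lit 78) (nat_lit 76) (nat_lit 0) (XT.lf (nat_lit 0) (nat_lit 76532803792) (nat_lit 76) (nat_lit 42503426254) (nat_lit 76) (nat_lit 6462432294) (nat_lit 10) (nat_lit 4) (nat_lit 11) (nat_lit 5) (nat_lit 11) (nat_lit 4) (nat_lit 397) (nat_lit 310) (nat_lit 193)) (XT.lf (nat_lit 0) (nat_lit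 6881317048) (nat_lit 152) (nat_lit 21940007122) (nat_lit 76) (nat_lit 102196579182) (nat_lit 9) (nat_lit 5) (nat_lit 11) (nat_lit 5) (nat_lit 10) (nat_lit 4) (nat_lit 398) (nat_lit 310) (nat_lit 192))))) (XT.nd (nat_lit 234) (nat_lit 76) (nat_lit 0) (XT.nd (nat_lit 78) (nat_lit 0) (nat_lit 0) (XT.lf (nat_lit 0) (nat_lit 6531244029) (nat_lit 76) (nat_lit 14241142391) (nat_lit 152) (nat_lit 116030558026) (nat_lit 8) (nat_lit 5) (nat_lit 9) (nat_lit 5) (nat_lit 10) (nat_lit 4) (nat_lit 399) (nat_lit 310) (nat_lit 191)) (XT.nd (nat_lit 78) (nat_lit 0) (nat_lit 0) (XT.lf (nat_lit 0) (nat_lit 35747698991) (nat_lit 152) (nat_lit 105702670203) (nat_lit 0) (nat_lit 1407384615) (nat_lit 8) (nat_lit 5) (nat_lit 10) (nat_lit 4) (nat_lit 8) (nat_lit 4) (nat_lit 400) (nat_lit 310) (nat_lit 190)) (XT.lf (nat_lit 0) (nat_lit 51700818198) (nat_lit 152) (nat_lit 80147230431) (nat_lit 0) (nat_lit 17355803631)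 (nat_lit 8) (nat_lit 5) (nat_lit 10) (nat_lit 4) (nat_lit 8) (nat_lit 4) (nat_lit 401) (nat_lit 310) (nat_lit 189)))) (XT.nd (nat_lit 78) (nat_lit 76) (nat_lit 0) (XT.lf (nat_lit 0) (nat_lit 68447383516) (nat_lit 152) (nat_lit 53322190671) (nat_lit 0) (nat_lit 34097892576) (nat_lit 8) (nat_lit 5) (nat_lit 10) (nat_lit 4) (nat_lit 8) (nat_lit 4) (nat_lit 402) (nat_lit 310) (nat_lit 188)) (XT.nd (nat_lit 78) (nat_lit 76) (nat_lit 0) (XT.lf (nat_lit 0) (nat_lit 86027267719) (nat_lit 152) (nat_lit 25163681783) (nat_lit 0) (nat_lit 51673513566) (nat_lit 8) (nat_lit 5) (nat_lit 10) (nat_lit 4) (nat_lit 8) (nat_lit 4) (nat_lit 403) (nat_lit 310) (nat_lit 187)) (XT.lf (nat_lit 0) (nat_lit 4540670104) (nat_lit 76) (nat_lit 100012550155) (nat_lit 76) (nat_lit 65654735800) (nat_lit 7) (nat_lit 4) (nat_lit 8) (nat_lit 5) (nat_lit 8) (nat_lit 4) (nat_lit 404) (nat_lit 310) (nat_lit 186)))))) (XT.nd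 (nat_lit 468) (nat_lit 76) (nat_lit 0) (XT.nd (nat_lit 234) (nat_lit 76) (nat_lit 0) (XT.nd (nat_lit 78) (nat_lit 0) (nat_lit 0) (XT.lf (nat_lit 0) (nat_lit 36596573101) (nat_lit 76) (nat_lit 87831305965) (nat_lit 76) (nat_lit 53469624751) (nat_lit 7) (nat_lit 4) (nat_lit 8) (nat_lit 5) (nat_lit 8) (nat_lit 4) (nat_lit 405) (nat_lit 310) (nat_lit 185)) (XT.nd (nat_lit 78) (nat_lit 0) (nat_lit 0) (XT.lf (nat_lit 0) (nat_lit 70248325826) (nat_lit 76) (nat_lit 75044373097) (nat_lit 76) (nat_lit 40679009159) (nat_lit 7) (nat_lit 4) (nat_lit 8) (nat_lit 5) (nat_lit 8) (nat_lit 4) (nat_lit 406) (nat_lit 310) (nat_lit 184)) (XT.lf (nat_lit 0) (nat_lit 105576051499) (nat_lit 76) (nat_lit 61621306473) (nat_lit 76) (nat_lit 27252435180) (nat_lit 7) (nat_lit 4) (nat_lit 8) (nat_lit 5) (nat_lit 8) (nat_lit 4) (nat_lit 407) (nat_lit 310) (nat_lit 183)))) (XT.nd (nat_lit 78) (nat_lit 76) (nat_lit 0)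 (XT.lf (nat_lit 0) (nat_lit 142663863751) (nat_lit 76) (nat_lit 47530146410) (nat_lit 76) (nat_lit 13157934778) (nat_lit 7) (nat_lit 4) (nat_lit 8) (nat_lit 5) (nat_lit 8) (nat_lit 4) (nat_lit 408) (nat_lit 310) (nat_lit 182)) (XT.nd (nat_lit 78) (nat_lit 0) (nat_lit 0) (XT.lf (nat_lit 0) (nat_lit 1585622537) (nat_lit 152) (nat_lit 31124866704) (nat_lit 76) (nat_lit 179987591077) (nat_lit 6) (nat_lit 5) (nat_lit 8) (nat_lit 5) (nat_lit 7) (nat_lit 4) (nat_lit 409) (nat_lit 310) (nat_lit 181)) (XT.lf (nat_lit 0) (nat_lit 16621177634) (nat_lit 152) (nat_lit 305008542) (nat_lit 76) (nat_lit 205574700869) (nat_lit 6) (nat_lit 5) (nat_lit 8) (nat_lit 5) (nat_lit 7) (nat_lit 4) (nat_lit 410) (nat_lit 310) (nat_lit 180))))) (XT.nd (nat_lit 234) (nat_lit 0) (nat_lit 0) (XT.nd (nat_lit 78) (nat_lit 0) (nat_lit 0) (XT.lf (nat_lit 0) (nat_lit 32925532236) (nat_lit 152) (nat_lit 199661021989) (nat_lit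 0) (nat_lit 181429186) (nat_lit 5) (nat_lit 5) (nat_lit 7) (nat_lit 4) (nat_lit 5) (nat_lit 4) (nat_lit 411) (nat_lit 310) (nat_lit 179)) (XT.nd (nat_lit 78) (nat_lit 0) (nat_lit 0) (XT.lf (nat_lit 0) (nat_lit 50324997244) (nat_lit 152) (nat_lit 175631166138) (nat_lit 0) (nat_lit 17578276952) (nat_lit 5) (nat_lit 5) (nat_lit 7) (nat_lit 4) (nat_lit 5) (nat_lit 4) (nat_lit 412) (nat_lit 310) (nat_lit 178)) (XT.lf (nat_lit 0) (nat_lit 68591734615) (nat_lit 152) (nat_lit 150405099176) (nat_lit 0) (nat_lit 35842521711) (nat_lit 5) (nat_lit 5) (nat_lit 7) (nat_lit 4) (nat_lit 5) (nat_lit 4) (nat_lit 413) (nat_lit 310) (nat_lit 177)))) (XT.nd (nat_lit 78) (nat_lit 0) (nat_lit 0) (XT.lf (nat_lit 0) (nat_lit 87769236581) (nat_lit 152) (nat_lit 123922759040) (nat_lit 0) (nat_lit 55017649760) (nat_lit 5) (nat_lit 5) (nat_lit 7) (nat_lit 4) (nat_lit 5) (nat_lit 4) (nat_lit 414) (nat_lit 310) (nat_lit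 176)) (XT.nd (nat_lit 78) (nat_lit 0) (nat_lit 0) (XT.lf (nat_lit 0) (nat_lit 107903163859) (nat_lit 152) (nat_lit 96121092540) (nat_lit 0) (nat_lit 75149316166) (nat_lit 5) (nat_lit 5) (nat_lit 7) (nat_lit 4) (nat_lit 5) (nat_lit 4) (nat_lit 415) (nat_lit 310) (nat_lit 175)) (XT.lf (nat_lit 0) (nat_lit 129041454373) (nat_lit 152) (nat_lit 66933905230) (nat_lit 0) (nat_lit 96285453467) (nat_lit 5) (nat_lit 5) (nat_lit 7) (nat_lit 4) (nat_lit 5) (nat_lit 4) (nat_lit 416) (nat_lit 310) (nat_lit 174))))))))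
noncomputable def xc130 : XT := (XT.nd (nat_lit 39000) (nat_lit 0) (nat_lit 4484) (XT.nd (nat_lit 858) (nat_lit 152) (nat_lit 0) (XT.nd (nat_lit 390) (nat_lit 0) (nat_lit 0) (XT.nd (nat_lit 156) (nat_lit 76) (nat_lit 0) (XT.nd (nat_lit 78) (nat_lit 0) (nat_lit 0) (XT.lf (nat_lit 0) (nat_lit 151234437385) (nat_lit 152) (nat_lit 36291703808) (nat_lit 0) (nat_lit 118476385801) (nat_lit 5) (nat_lit 5) (nat_lit 7) (nat_lit 4) (nat_lit 5) (nat_lit 4) (nat_lit 417) (nat_lit 310) (nat_lit 173)) (XT.lf (nat_lit 0) (nat_lit 174534953331) (nat_lit 152) (nat_lit 4121530652) (nat_lit 0) (nat_lit 141774948721) (nat_lit 5) (nat_lit 5) (nat_lit 7) (nat_lit 4) (nat_lit 5) (nat_lit 4) (nat_lit 418) (nat_lit 310) (nat_lit 172))) (XT.nd (nat_lit 78) (nat_lit 0) (nat_lit 0) (XT.lf (nat_lit 0) (nat_lit 30633678925) (nat_lit 76) (nat_lit 168843078284) (nat_lit 76) (nat_lit 136081213648) (nat_lit 4) (nat_lit 4)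 (nat_lit 5) (nat_lit 5) (nat_lit 5) (nat_lit 4) (nat_lit 419) (nat_lit 310) (nat_lit 171)) (XT.nd (nat_lit 78) (nat_lit 0) (nat_lit 0) (XT.lf (nat_lit 0) (nat_lit 67265861515) (nat_lit 76) (nat_lit 158467609870) (nat_lit 76) (nat_lit 125703973781) (nat_lit 4) (nat_lit 4) (nat_lit 5) (nat_lit 5) (nat_lit 5) (nat_lit 4) (nat_lit 420) (nat_lit 310) (nat_lit 170)) (XT.lf (nat_lit 0) (nat_lit 105725960183) (nat_lit 76) (nat_lit 147575175359) (nat_lit 76) (nat_lit 114809852172) (nat_lit 4) (nat_lit 4) (nat_lit 5) (nat_lit 5) (nat_lit 5) (nat_lit 4) (nat_lit 421) (nat_lit 310) (nat_lit 169))))) (XT.nd (nat_lit 234) (nat_lit 0) (nat_lit 0) (XT.nd (nat_lit 78) (nat_lit 0) (nat_lit 0) (XT.lf (nat_lit 0) (nat_lit 146105546593) (nat_lit 76) (nat_lit 136139840385) (nat_lit 76) (nat_lit 103372910438) (nat_lit 4) (nat_lit 4) (nat_lit 5) (nat_lit 5) (nat_lit 5) (nat_lit 4) (nat_lit 422) (nat_lit 310) (nat_lit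 168)) (XT.nd (nat_lit 78) (nat_lit 0) (nat_lit 0) (XT.lf (nat_lit 0) (nat_lit 188500762617) (nat_lit 76) (nat_lit 124134377960) (nat_lit 76) (nat_lit 91365917766) (nat_lit 4) (nat_lit 4) (nat_lit 5) (nat_lit 5) (nat_lit 5) (nat_lit 4) (nat_lit 423) (nat_lit 310) (nat_lit 167)) (XT.lf (nat_lit 0) (nat_lit 233012549246) (nat_lit 76) (nat_lit 111530203649) (nat_lit 76) (nat_lit 78760286076) (nat_lit 4) (nat_lit 4) (nat_lit 5) (nat_lit 5) (nat_lit 5) (nat_lit 4) (nat_lit 424) (nat_lit 310) (nat_lit 166)))) (XT.nd (nat_lit 78) (nat_lit 0) (nat_lit 0) (XT.lf (nat_lit 0) (nat_lit 279746886923) (nat_lit 76) (nat_lit 98297307513) (nat_lit 76) (nat_lit 65526001960) (nat_lit 4) (nat_lit 4) (nat_lit 5) (nat_lit 5) (nat_lit 5) (nat_lit 4) (nat_lit 425) (nat_lit 310) (nat_lit 165)) (XT.nd (nat_lit 78) (nat_lit 0) (nat_lit 0) (XT.lf (nat_lit 0) (nat_lit 328815047882) (nat_lit 76) (nat_lit 84404182657)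 (nat_lit 76) (nat_lit 51631555219) (nat_lit 4) (nat_lit 4) (nat_lit 5) (nat_lit 5) (nat_lit 5) (nat_lit 4) (nat_lit 426) (nat_lit 310) (nat_lit 164)) (XT.lf (nat_lit 0) (nat_lit 380333861077) (nat_lit 76) (nat_lit 69817750212) (nat_lit 76) (nat_lit 37043863835) (nat_lit 4) (nat_lit 4) (nat_lit 5) (nat_lit 5) (nat_lit 5) (nat_lit 4) (nat_lit 427) (nat_lit 310) (nat_lit 163)))))) (XT.nd (nat_lit 468) (nat_lit 0) (nat_lit 0) (XT.nd (nat_lit 234) (nat_lit 76) (nat_lit 0) (XT.nd (nat_lit 78) (nat_lit 76) (nat_lit 0) (XT.lf (nat_lit 0) (nat_lit 434425990350) (nat_lit 76) (nat_lit 54503280577) (nat_lit 76) (nat_lit 21728195211) (nat_lit 4) (nat_lit 4) (nat_lit 5) (nat_lit 5) (nat_lit 5) (nat_lit 4) (nat_lit 428) (nat_lit 310) (nat_lit 162)) (XT.nd (nat_lit 78) (nat_lit 76) (nat_lit 0) (XT.lf (nat_lit 0) (nat_lit 491220226483) (nat_lit 76) (nat_lit 38424310729) (nat_lit 76) (nat_lit 5648083469)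 (nat_lit 4) (nat_lit 4) (nat_lit 5) (nat_lit 5) (nat_lit 5) (nat_lit 4) (nat_lit 429) (nat_lit 310) (nat_lit 161)) (XT.lf (nat_lit 0) (nat_lit 10875174972) (nat_lit 152) (nat_lit 10483206084) (nat_lit 76) (nat_lit 539792442526) (nat_lit 3) (nat_lit 5) (nat_lit 5) (nat_lit 5) (nat_lit 4) (nat_lit 4) (nat_lit 430) (nat_lit 310) (nat_lit 160)))) (XT.nd (nat_lit 78) (nat_lit 0) (nat_lit 0) (XT.lf (nat_lit 0) (nat_lit 25506924519) (nat_lit 76) (nat_lit 2924916958) (nat_lit 152) (nat_lit 559845612825) (nat_lit 2) (nat_lit 5) (nat_lit 3) (nat_lit 5) (nat_lit 4) (nat_lit 4) (nat_lit 431) (nat_lit 310) (nat_lit 159)) (XT.nd (nat_lit 78) (nat_lit 0) (nat_lit 0) (XT.lf (nat_lit 0) (nat_lit 47302138165) (nat_lit 152) (nat_lit 553352766635) (nat_lit 0) (nat_lit 16083722049) (nat_lit 2) (nat_lit 5) (nat_lit 4) (nat_lit 4) (nat_lit 2) (nat_lit 4) (nat_lit 432) (nat_lit 310) (nat_lit 158)) (XT.lf (nat_lit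 0) (nat_lit 67162781471) (nat_lit 152) (nat_lit 543514264438) (nat_lit 0) (nat_lit 35943470652) (nat_lit 2) (nat_lit 5) (nat_lit 4) (nat_lit 4) (nat_lit 2) (nat_lit 4) (nat_lit 433) (nat_lit 310) (nat_lit 157))))) (XT.nd (nat_lit 37440) (nat_lit 0) (nat_lit 9044) (XT.nd (nat_lit 37284) (nat_lit 0) (nat_lit 9652) (XT.lf (nat_lit 0) (nat_lit 88015392492) (nat_lit 152) (nat_lit 533185932037) (nat_lit 0) (nat_lit 56795229574) (nat_lit 2) (nat_lit 5) (nat_lit 4) (nat_lit 4) (nat_lit 2) (nat_lit 4) (nat_lit 434) (nat_lit 310) (nat_lit 156)) (XT.nd (nat_lit 78) (nat_lit 0) (nat_lit 0) (XT.lf (nat_lit 0) (nat_lit 1402484350) (nat_lit 0) (nat_lit 1402484350) (nat_lit 532) (nat_lit 1122113855) (nat_lit 129) (nat_lit 5) (nat_lit 129) (nat_lit 3) (nat_lit 136) (nat_lit 3) (nat_lit 311) (nat_lit 311) (nat_lit 278)) (XT.lf (nat_lit 0) (nat_lit 6697460388) (nat_lit 0) (nat_lit 268631838) (nat_lit 532)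 (nat_lit 1022040437) (nat_lit 129) (nat_lit 5) (nat_lit 129) (nat_lit 3) (nat_lit 136) (nat_lit 3) (nat_lit 312) (nat_lit 311) (nat_lit 277)))) (XT.nd (nat_lit 78) (nat_lit 0) (nat_lit 0) (XT.lf (nat_lit 0) (nat_lit 254513314) (nat_lit 608) (nat_lit 5472908861) (nat_lit 684) (nat_lit 2401188534) (nat_lit 121) (nat_lit 5) (nat_lit 129) (nat_lit 5) (nat_lit 130) (nat_lit 5) (nat_lit 313) (nat_lit 311) (nat_lit 276)) (XT.nd (nat_lit 78) (nat_lit 0) (nat_lit 0) (XT.lf (nat_lit 0) (nat_lit 1511640547) (nat_lit 608) (nat_lit 1497738214) (nat_lit 684) (nat_lit 5268433895) (nat_lit 121) (nat_lit 5) (nat_lit 129) (nat_lit 5) (nat_lit 130) (nat_lit 5) (nat_lit 314) (nat_lit 311) (nat_lit 275)) (XT.lf (nat_lit 76) (nat_lit 2720004793) (nat_lit 0) (nat_lit 82155546) (nat_lit 684) (nat_lit 5633875543) (nat_lit 122) (nat_lit 5) (nat_lit 121) (nat_lit 5) (nat_lit 130) (nat_lit 5) (nat_lit 315) (nat_lit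 311) (nat_lit 274))))))) (XT.nd (nat_lit 936) (nat_lit 2204) (nat_lit 0) (XT.nd (nat_lit 468) (nat_lit 1824) (nat_lit 0) (XT.nd (nat_lit 234) (nat_lit 608) (nat_lit 0) (XT.nd (nat_lit 78) (nat_lit 0) (nat_lit 0) (XT.lf (nat_lit 0) (nat_lit 4160937432) (nat_lit 608) (nat_lit 1493893187) (nat_lit 684) (nat_lit 2947236884) (nat_lit 122) (nat_lit 5) (nat_lit 130) (nat_lit 5) (nat_lit 131) (nat_lit 5) (nat_lit 316) (nat_lit 311) (nat_lit 273)) (XT.nd (nat_lit 78) (nat_lit 0) (nat_lit 76) (XT.lf (nat_lit 76) (nat_lit 2989394768) (nat_lit 0) (nat_lit 2580798238) (nat_lit 684) (nat_lit 3207160529) (nat_lit 123) (nat_lit 5) (nat_lit 122) (nat_lit 5) (nat_lit 131) (nat_lit 5) (nat_lit 317) (nat_lit 311) (nat_lit 272)) (XT.lf (nat_lit 0) (nat_lit 7022988086) (nat_lit 608) (nat_lit 1269049438) (nat_lit 684) (nat_lit 670788517) (nat_lit 123) (nat_lit 5) (nat_lit 131) (nat_lit 5) (nat_lit 132) (nat_lit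 5) (nat_lit 318) (nat_lit 311) (nat_lit 271)))) (XT.nd (nat_lit 78) (nat_lit 684) (nat_lit 0) (XT.lf (nat_lit 76) (nat_lit 3500676855) (nat_lit 0) (nat_lit 5084958838) (nat_lit 684) (nat_lit 570148231) (nat_lit 124) (nat_lit 5) (nat_lit 123) (nat_lit 5) (nat_lit 132) (nat_lit 5) (nat_lit 319) (nat_lit 311) (nat_lit 270)) (XT.nd (nat_lit 78) (nat_lit 0) (nat_lit 76) (XT.lf (nat_lit 0) (nat_lit 803482461) (nat_lit 684) (nat_lit 864415424) (nat_lit 760) (nat_lit 7691717925) (nat_lit 114) (nat_lit 5) (nat_lit 123) (nat_lit 5) (nat_lit 124) (nat_lit 5) (nat_lit 320) (nat_lit 311) (nat_lit 269)) (XT.lf (nat_lit 0) (nat_lit 2268552832) (nat_lit 684) (nat_lit 5355615262) (nat_lit 76) (nat_lit 1946970451) (nat_lit 115) (nat_lit 5) (nat_lit 124) (nat_lit 5) (nat_lit 116) (nat_lit 5) (nat_lit 321) (nat_lit 311) (nat_lit 268))))) (XT.nd (nat_lit 234) (nat_lit 456) (nat_lit 0) (XT.nd (nat_lit 78) (nat_lit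 1444) (nat_lit 0) (XT.lf (nat_lit 0) (nat_lit 3795431972) (nat_lit 684) (nat_lit 286772657) (nat_lit 76) (nat_lit 5711664580) (nat_lit 115) (nat_lit 5) (nat_lit 124) (nat_lit 5) (nat_lit 116) (nat_lit 5) (nat_lit 322) (nat_lit 311) (nat_lit 267)) (XT.nd (nat_lit 78) (nat_lit 760) (nat_lit 0) (XT.lf (nat_lit 0) (nat_lit 5156599163) (nat_lit 684) (nat_lit 271453804) (nat_lit 760) (nat_lit 4598270265) (nat_lit 106) (nat_lit 5) (nat_lit 115) (nat_lit 5) (nat_lit 116) (nat_lit 5) (nat_lit 323) (nat_lit 311) (nat_lit 266)) (XT.lf (nat_lit 0) (nat_lit 524550373) (nat_lit 760) (nat_lit 6639856662) (nat_lit 836) (nat_lit 3104941838) (nat_lit 96) (nat_lit 5) (nat_lit 106) (nat_lit 5) (nat_lit 107) (nat_lit 5) (nat_lit 324) (nat_lit 311) (nat_lit 265)))) (XT.nd (nat_lit 78) (nat_lit 456) (nat_lit 0) (XT.lf (nat_lit 0) (nat_lit 6307882631) (nat_lit 760) (nat_lit 2718929552) (nat_lit 836) (nat_lit 1495803391)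 (nat_lit 96) (nat_lit 5) (nat_lit 106) (nat_lit 5) (nat_lit 107) (nat_lit 5) (nat_lit 325) (nat_lit 311) (nat_lit 264)) (XT.nd (nat_lit 78) (nat_lit 0) (nat_lit 0) (XT.lf (nat_lit 0) (nat_lit 188667569) (nat_lit 456) (nat_lit 9216490188) (nat_lit 76) (nat_lit 1383229326) (nat_lit 90) (nat_lit 5) (nat_lit 96) (nat_lit 5) (nat_lit 91) (nat_lit 5) (nat_lit 326) (nat_lit 311) (nat_lit 263)) (XT.lf (nat_lit 0) (nat_lit 1979600374) (nat_lit 456) (nat_lit 3386075815) (nat_lit 76) (nat_lit 5696963998) (nat_lit 90) (nat_lit 5) (nat_lit 96) (nat_lit 5) (nat_lit 91) (nat_lit 5) (nat_lit 327) (nat_lit 311) (nat_lit 262)))))) (XT.nd (nat_lit 468) (nat_lit 836) (nat_lit 0) (XT.nd (nat_lit 234) (nat_lit 684) (nat_lit 0) (XT.nd (nat_lit 78) (nat_lit 380) (nat_lit 0) (XT.lf (nat_lit 0) (nat_lit 2780945284) (nat_lit 304) (nat_lit 1080063171) (nat_lit 380) (nat_lit 7489593385) (nat_lit 86) (nat_lit 5) (nat_lit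 90) (nat_lit 5) (nat_lit 91) (nat_lit 5) (nat_lit 328) (nat_lit 311) (nat_lit 261)) (XT.nd (nat_lit 78) (nat_lit 380) (nat_lit 0) (XT.lf (nat_lit 0) (nat_lit 5906991566) (nat_lit 380) (nat_lit 2375831413) (nat_lit 76) (nat_lit 3366653674) (nat_lit 86) (nat_lit 5) (nat_lit 91) (nat_lit 5) (nat_lit 87) (nat_lit 5) (nat_lit 329) (nat_lit 311) (nat_lit 260)) (XT.lf (nat_lit 0) (nat_lit 4201325588) (nat_lit 380) (nat_lit 3898035878) (nat_lit 456) (nat_lit 3861767748) (nat_lit 81) (nat_lit 5) (nat_lit 86) (nat_lit 5) (nat_lit 87) (nat_lit 5) (nat_lit 330) (nat_lit 311) (nat_lit 259)))) (XT.nd (nat_lit 78) (nat_lit 684) (nat_lit 0) (XT.lf (nat_lit 0) (nat_lit 10415190918) (nat_lit 456) (nat_lit 1152505319) (nat_lit 76) (nat_lit 720012677) (nat_lit 81) (nat_lit 5) (nat_lit 87) (nat_lit 5) (nat_lit 82) (nat_lit 5) (nat_lit 331) (nat_lit 311) (nat_lit 258)) (XT.nd (nat_lit 78) (nat_lit 304) (nat_lit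 0) (XT.lf (nat_lit 0) (nat_lit 330432092) (nat_lit 380) (nat_lit 6763174048) (nat_lit 76) (nat_lit 5530817981) (nat_lit 76) (nat_lit 5) (nat_lit 81) (nat_lit 5) (nat_lit 77) (nat_lit 5) (nat_lit 332) (nat_lit 311) (nat_lit 257)) (XT.lf (nat_lit 0) (nat_lit 222077348) (nat_lit 304) (nat_lit 2346035133) (nat_lit 380) (nat_lit 10408983755) (nat_lit 72) (nat_lit 5) (nat_lit 76) (nat_lit 5) (nat_lit 77) (nat_lit 5) (nat_lit 333) (nat_lit 311) (nat_lit 256))))) (XT.nd (nat_lit 234) (nat_lit 608) (nat_lit 0) (XT.nd (nat_lit 78) (nat_lit 228) (nat_lit 0) (XT.lf (nat_lit 0) (nat_lit 5040433754) (nat_lit 380) (nat_lit 5637044694) (nat_lit 76) (nat_lit 2663815745) (nat_lit 72) (nat_lit 5) (nat_lit 77) (nat_lit 5) (nat_lit 73) (nat_lit 5) (nat_lit 334) (nat_lit 311) (nat_lit 255)) (XT.nd (nat_lit 78) (nat_lit 0) (nat_lit 0) (XT.lf (nat_lit 0) (nat_lit 1814850846) (nat_lit 228) (nat_lit 5855115431)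 (nat_lit 304) (nat_lit 6052084659) (nat_lit 69) (nat_lit 5) (nat_lit 72) (nat_lit 5) (nat_lit 73) (nat_lit 5) (nat_lit 335) (nat_lit 311) (nat_lit 254)) (XT.lf (nat_lit 0) (nat_lit 9794113335) (nat_lit 228) (nat_lit 700070697) (nat_lit 304) (nat_lit 3624528338) (nat_lit 69) (nat_lit 5) (nat_lit 72) (nat_lit 5) (nat_lit 73) (nat_lit 5) (nat_lit 336) (nat_lit 311) (nat_lit 253)))) (XT.nd (nat_lit 78) (nat_lit 304) (nat_lit 0) (XT.lf (nat_lit 0) (nat_lit 3639626856) (nat_lit 304) (nat_lit 9919539049) (nat_lit 380) (nat_lit 971089293) (nat_lit 65) (nat_lit 5) (nat_lit 69) (nat_lit 5) (nat_lit 70) (nat_lit 5) (nat_lit 337) (nat_lit 311) (nat_lit 252)) (XT.nd (nat_lit 78) (nat_lit 228) (nat_lit 0) (XT.lf (nat_lit 0) (nat_lit 1812328079) (nat_lit 380) (nat_lit 2888321519) (nat_lit 76) (nat_lit 10257562338) (nat_lit 64) (nat_lit 5) (nat_lit 69) (nat_lit 5) (nat_lit 65) (nat_lit 5) (nat_lit 338)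 (nat_lit 311) (nat_lit 251)) (XT.lf (nat_lit 0) (nat_lit 4774987127) (nat_lit 304) (nat_lit 9777724413) (nat_lit 76) (nat_lit 850446153) (nat_lit 61) (nat_lit 5) (nat_lit 65) (nat_lit 5) (nat_lit 62) (nat_lit 5) (nat_lit 339) (nat_lit 311) (nat_lit 250))))))))
noncomputable def xc131 : XT := (XT.nd (nat_lit 1794) (nat_lit 1216) (nat_lit 0) (XT.nd (nat_lit 858) (nat_lit 988) (nat_lit 0) (XT.nd (nat_lit 390) (nat_lit 608) (nat_lit 0) (XT.nd (nat_lit 156) (nat_lit 532) (nat_lit 0) (XT.nd (nat_lit 78) (nat_lit 228) (nat_lit 0) (XT.lf (nat_lit 0) (nat_lit 7984123043) (nat_lit 304) (nat_lit 1320123200) (nat_lit 76) (nat_lit 6561208676) (nat_lit 61) (nat_lit 5) (nat_lit 65) (nat_lit 5) (nat_lit 62) (nat_lit 5) (nat_lit 340) (nat_lit 311) (nat_lit 249)) (XT.lf (nat_lit 0) (nat_lit 7771466561) (nat_lit 228) (nat_lit 3676504590) (nat_lit 304) (nat_lit 4898203445) (nat_lit 58) (nat_lit 5) (nat_lit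 61) (nat_lit 5) (nat_lit 62) (nat_lit 5) (nat_lit 341) (nat_lit 311) (nat_lit 248))) (XT.nd (nat_lit 78) (nat_lit 304) (nat_lit 0) (XT.lf (nat_lit 0) (nat_lit 454795842) (nat_lit 228) (nat_lit 14668363610) (nat_lit 304) (nat_lit 1725882806) (nat_lit 55) (nat_lit 5) (nat_lit 58) (nat_lit 5) (nat_lit 59) (nat_lit 5) (nat_lit 342) (nat_lit 311) (nat_lit 247)) (XT.nd (nat_lit 78) (nat_lit 228) (nat_lit 0) (XT.lf (nat_lit 0) (nat_lit 1735251408) (nat_lit 304) (nat_lit 7262496289) (nat_lit 76) (nat_lit 8368991758) (nat_lit 54) (nat_lit 5) (nat_lit 58) (nat_lit 5) (nat_lit 55) (nat_lit 5) (nat_lit 343) (nat_lit 311) (nat_lit 246)) (XT.lf (nat_lit 0) (nat_lit 2335673185) (nat_lit 228) (nat_lit 2987188183) (nat_lit 304) (nat_lit 12585491234) (nat_lit 51) (nat_lit 5) (nat_lit 54) (nat_lit 5) (nat_lit 55) (nat_lit 5) (nat_lit 344) (nat_lit 311) (nat_lit 245))))) (XT.nd (nat_lit 234) (nat_lit 456)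 (nat_lit 0) (XT.nd (nat_lit 78) (nat_lit 152) (nat_lit 0) (XT.lf (nat_lit 0) (nat_lit 9242159517) (nat_lit 304) (nat_lit 5896015376) (nat_lit 76) (nat_lit 3331272081) (nat_lit 51) (nat_lit 5) (nat_lit 55) (nat_lit 5) (nat_lit 52) (nat_lit 5) (nat_lit 345) (nat_lit 311) (nat_lit 244)) (XT.nd (nat_lit 78) (nat_lit 0) (nat_lit 0) (XT.lf (nat_lit 0) (nat_lit 4318398143) (nat_lit 152) (nat_lit 9131990476) (nat_lit 228) (nat_lit 5603574336) (nat_lit 49) (nat_lit 5) (nat_lit 51) (nat_lit 5) (nat_lit 52) (nat_lit 5) (nat_lit 346) (nat_lit 311) (nat_lit 243)) (XT.lf (nat_lit 0) (nat_lit 15213469368) (nat_lit 152) (nat_lit 2732557993) (nat_lit 228) (nat_lit 1717841934) (nat_lit 49) (nat_lit 5) (nat_lit 51) (nat_lit 5) (nat_lit 52) (nat_lit 5) (nat_lit 347) (nat_lit 311) (nat_lit 242)))) (XT.nd (nat_lit 78) (nat_lit 152) (nat_lit 0) (XT.lf (nat_lit 0) (nat_lit 2430027505) (nat_lit 304) (nat_lit 13876928687)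 (nat_lit 76) (nat_lit 3988311132) (nat_lit 45) (nat_lit 5) (nat_lit 49) (nat_lit 5) (nat_lit 46) (nat_lit 5) (nat_lit 348) (nat_lit 311) (nat_lit 241)) (XT.nd (nat_lit 78) (nat_lit 152) (nat_lit 0) (XT.lf (nat_lit 0) (nat_lit 6827176795) (nat_lit 304) (nat_lit 3077850798) (nat_lit 76) (nat_lit 11046831234) (nat_lit 45) (nat_lit 5) (nat_lit 49) (nat_lit 5) (nat_lit 46) (nat_lit 5) (nat_lit 349) (nat_lit 311) (nat_lit 240)) (XT.lf (nat_lit 0) (nat_lit 8500671707) (nat_lit 152) (nat_lit 3055484346) (nat_lit 228) (nat_lit 10079537132) (nat_lit 43) (nat_lit 5) (nat_lit 45) (nat_lit 5) (nat_lit 46) (nat_lit 5) (nat_lit 350) (nat_lit 311) (nat_lit 239)))))) (XT.nd (nat_lit 468) (nat_lit 456) (nat_lit 0) (XT.nd (nat_lit 234) (nat_lit 304) (nat_lit 0) (XT.nd (nat_lit 78) (nat_lit 228) (nat_lit 0) (XT.lf (nat_lit 0) (nat_lit 16618702998) (nat_lit 228) (nat_lit 1684472479) (nat_lit 76) (nat_lit 4045699185)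 (nat_lit 43) (nat_lit 5) (nat_lit 46) (nat_lit 5) (nat_lit 44) (nat_lit 5) (nat_lit 351) (nat_lit 311) (nat_lit 238)) (XT.nd (nat_lit 78) (nat_lit 76) (nat_lit 0) (XT.lf (nat_lit 0) (nat_lit 10596331018) (nat_lit 152) (nat_lit 11534104511) (nat_lit 228) (nat_lit 957487568) (nat_lit 41) (nat_lit 5) (nat_lit 43) (nat_lit 5) (nat_lit 44) (nat_lit 5) (nat_lit 352) (nat_lit 311) (nat_lit 237)) (XT.lf (nat_lit 0) (nat_lit 3933731792) (nat_lit 228) (nat_lit 408077058) (nat_lit 76) (nat_lit 19518477866) (nat_lit 40) (nat_lit 5) (nat_lit 43) (nat_lit 5) (nat_lit 41) (nat_lit 5) (nat_lit 353) (nat_lit 311) (nat_lit 236)))) (XT.nd (nat_lit 78) (nat_lit 152) (nat_lit 0) (XT.lf (nat_lit 0) (nat_lit 9269661477) (nat_lit 228) (nat_lit 12076529160) (nat_lit 76) (nat_lit 3312686019) (nat_lit 38) (nat_lit 5) (nat_lit 41) (nat_lit 5) (nat_lit 39) (nat_lit 5) (nat_lit 354) (nat_lit 311) (nat_lit 235)) (XT.nd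 (nat_lit 78) (nat_lit 0) (nat_lit 0) (XT.lf (nat_lit 0) (nat_lit 658987967) (nat_lit 152) (nat_lit 14283702553) (nat_lit 228) (nat_lit 10551199311) (nat_lit 36) (nat_lit 5) (nat_lit 38) (nat_lit 5) (nat_lit 39) (nat_lit 5) (nat_lit 355) (nat_lit 311) (nat_lit 234)) (XT.lf (nat_lit 0) (nat_lit 14420814728) (nat_lit 152) (nat_lit 6665292706) (nat_lit 228) (nat_lit 5275217872) (nat_lit 36) (nat_lit 5) (nat_lit 38) (nat_lit 5) (nat_lit 39) (nat_lit 5) (nat_lit 356) (nat_lit 311) (nat_lit 233))))) (XT.nd (nat_lit 234) (nat_lit 152) (nat_lit 0) (XT.nd (nat_lit 78) (nat_lit 152) (nat_lit 0) (XT.lf (nat_lit 0) (nat_lit 285249630) (nat_lit 152) (nat_lit 25675322438) (nat_lit 76) (nat_lit 1309903896) (nat_lit 34) (nat_lit 5) (nat_lit 36) (nat_lit 5) (nat_lit 35) (nat_lit 5) (nat_lit 357) (nat_lit 311) (nat_lit 232)) (XT.nd (nat_lit 78) (nat_lit 152) (nat_lit 0) (XT.lf (nat_lit 0) (nat_lit 6244230517)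 (nat_lit 152) (nat_lit 12220985948) (nat_lit 76) (nat_lit 9740662454) (nat_lit 34) (nat_lit 5) (nat_lit 36) (nat_lit 5) (nat_lit 35) (nat_lit 5) (nat_lit 358) (nat_lit 311) (nat_lit 231)) (XT.lf (nat_lit 0) (nat_lit 1940459935) (nat_lit 152) (nat_lit 10574778862) (nat_lit 228) (nat_lit 16672116267) (nat_lit 32) (nat_lit 5) (nat_lit 34) (nat_lit 5) (nat_lit 35) (nat_lit 5) (nat_lit 359) (nat_lit 311) (nat_lit 230)))) (XT.nd (nat_lit 78) (nat_lit 152) (nat_lit 0) (XT.lf (nat_lit 0) (nat_lit 17206995888) (nat_lit 152) (nat_lit 2083898799) (nat_lit 228) (nat_lit 10917462100) (nat_lit 32) (nat_lit 5) (nat_lit 34) (nat_lit 5) (nat_lit 35) (nat_lit 5) (nat_lit 360) (nat_lit 311) (nat_lit 229)) (XT.nd (nat_lit 78) (nat_lit 76) (nat_lit 0) (XT.lf (nat_lit 0) (nat_lit 1883513536) (nat_lit 76) (nat_lit 24642601211) (nat_lit 152) (nat_lit 4748261090) (nat_lit 31) (nat_lit 5) (nat_lit 32) (nat_lit 5)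 (nat_lit 33) (nat_lit 4) (nat_lit 361) (nat_lit 311) (nat_lit 228)) (XT.lf (nat_lit 0) (nat_lit 1916788450) (nat_lit 152) (nat_lit 14510091550) (nat_lit 76) (nat_lit 15953334523) (nat_lit 30) (nat_lit 5) (nat_lit 32) (nat_lit 5) (nat_lit 31) (nat_lit 5) (nat_lit 362) (nat_lit 311) (nat_lit 227))))))) (XT.nd (nat_lit 936) (nat_lit 532) (nat_lit 0) (XT.nd (nat_lit 468) (nat_lit 228) (nat_lit 0) (XT.nd (nat_lit 234) (nat_lit 304) (nat_lit 0) (XT.nd (nat_lit 78) (nat_lit 0) (nat_lit 0) (XT.lf (nat_lit 0) (nat_lit 1044949072) (nat_lit 152) (nat_lit 7712391736) (nat_lit 228) (nat_lit 24780026619) (nat_lit 28) (nat_lit 5) (nat_lit 30) (nat_lit 5) (nat_lit 31) (nat_lit 5) (nat_lit 363) (nat_lit 311) (nat_lit 226)) (XT.nd (nat_lit 78) (nat_lit 0) (nat_lit 0) (XT.lf (nat_lit 0) (nat_lit 16197773659) (nat_lit 228) (nat_lit 16910579262) (nat_lit 76) (nat_lit 1631137605) (nat_lit 28) (nat_lit 5) (nat_lit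 31) (nat_lit 5) (nat_lit 29) (nat_lit 4) (nat_lit 364) (nat_lit 311) (nat_lit 225)) (XT.lf (nat_lit 0) (nat_lit 24122985172) (nat_lit 228) (nat_lit 700376610) (nat_lit 76) (nat_lit 11172725093) (nat_lit 28) (nat_lit 5) (nat_lit 31) (nat_lit 5) (nat_lit 29) (nat_lit 4) (nat_lit 365) (nat_lit 311) (nat_lit 224)))) (XT.nd (nat_lit 78) (nat_lit 228) (nat_lit 0) (XT.lf (nat_lit 0) (nat_lit 16836056313) (nat_lit 76) (nat_lit 15858234559) (nat_lit 152) (nat_lit 4608735199) (nat_lit 27) (nat_lit 5) (nat_lit 28) (nat_lit 5) (nat_lit 29) (nat_lit 4) (nat_lit 366) (nat_lit 311) (nat_lit 223)) (XT.nd (nat_lit 78) (nat_lit 152) (nat_lit 0) (XT.lf (nat_lit 0) (nat_lit 2921310099) (nat_lit 152) (nat_lit 3471618760) (nat_lit 76) (nat_lit 32280076880) (nat_lit 26) (nat_lit 5) (nat_lit 28) (nat_lit 5) (nat_lit 27) (nat_lit 5) (nat_lit 367) (nat_lit 311) (nat_lit 222)) (XT.lf (nat_lit 0) (nat_lit 10951092863)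 (nat_lit 228) (nat_lit 25409157619) (nat_lit 76) (nat_lit 3733554381) (nat_lit 24) (nat_lit 5) (nat_lit 27) (nat_lit 5) (nat_lit 25) (nat_lit 4) (nat_lit 368) (nat_lit 311) (nat_lit 221))))) (XT.nd (nat_lit 234) (nat_lit 152) (nat_lit 0) (XT.nd (nat_lit 78) (nat_lit 76) (nat_lit 0) (XT.lf (nat_lit 0) (nat_lit 19534667460) (nat_lit 228) (nat_lit 7841413475) (nat_lit 76) (nat_lit 14201951747) (nat_lit 24) (nat_lit 5) (nat_lit 27) (nat_lit 5) (nat_lit 25) (nat_lit 4) (nat_lit 369) (nat_lit 311) (nat_lit 220)) (XT.nd (nat_lit 78) (nat_lit 0) (nat_lit 0) (XT.lf (nat_lit 0) (nat_lit 10933519166) (nat_lit 76) (nat_lit 17772931361) (nat_lit 152) (nat_lit 14422073570) (nat_lit 23) (nat_lit 5) (nat_lit 24) (nat_lit 5) (nat_lit 25) (nat_lit 4) (nat_lit 370) (nat_lit 311) (nat_lit 219)) (XT.lf (nat_lit 0) (nat_lit 30898635967) (nat_lit 76) (nat_lit 7559542917) (nat_lit 152) (nat_lit 6292296907) (nat_lit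 23) (nat_lit 5) (nat_lit 24) (nat_lit 5) (nat_lit 25) (nat_lit 4) (nat_lit 371) (nat_lit 311) (nat_lit 218)))) (XT.nd (nat_lit 78) (nat_lit 0) (nat_lit 0) (XT.lf (nat_lit 0) (nat_lit 2298666331) (nat_lit 152) (nat_lit 40968993535) (nat_lit 76) (nat_lit 3177790723) (nat_lit 21) (nat_lit 5) (nat_lit 23) (nat_lit 5) (nat_lit 22) (nat_lit 4) (nat_lit 372) (nat_lit 311) (nat_lit 217)) (XT.nd (nat_lit 78) (nat_lit 0) (nat_lit 0) (XT.lf (nat_lit 0) (nat_lit 11459073764) (nat_lit 152) (nat_lit 22212554434) (nat_lit 76) (nat_lit 14530823419) (nat_lit 21) (nat_lit 5) (nat_lit 23) (nat_lit 5) (nat_lit 22) (nat_lit 4) (nat_lit 373) (nat_lit 311) (nat_lit 216)) (XT.lf (nat_lit 0) (nat_lit 21067023692) (nat_lit 152) (nat_lit 2537586739) (nat_lit 76) (nat_lit 26443219054) (nat_lit 21) (nat_lit 5) (nat_lit 23) (nat_lit 5) (nat_lit 22) (nat_lit 4) (nat_lit 374) (nat_lit 311) (nat_lit 215)))))) (XT.nd (nat_lit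 468) (nat_lit 228) (nat_lit 0) (XT.nd (nat_lit 234) (nat_lit 152) (nat_lit 0) (XT.nd (nat_lit 78) (nat_lit 76) (nat_lit 0) (XT.lf (nat_lit 0) (nat_lit 18701313538) (nat_lit 76) (nat_lit 12736058561) (nat_lit 152) (nat_lit 20534006851) (nat_lit 20) (nat_lit 5) (nat_lit 21) (nat_lit 5) (nat_lit 22) (nat_lit 4) (nat_lit 375) (nat_lit 311) (nat_lit 214)) (XT.nd (nat_lit 78) (nat_lit 76) (nat_lit 0) (XT.lf (nat_lit 0) (nat_lit 41072179848) (nat_lit 76) (nat_lit 1287247342) (nat_lit 152) (nat_lit 11630021858) (nat_lit 20) (nat_lit 5) (nat_lit 21) (nat_lit 5) (nat_lit 22) (nat_lit 4) (nat_lit 376) (nat_lit 311) (nat_lit 213)) (XT.lf (nat_lit 0) (nat_lit 8541394298) (nat_lit 76) (nat_lit 45577690435) (nat_lit 76) (nat_lit 1974765433) (nat_lit 19) (nat_lit 4) (nat_lit 20) (nat_lit 5) (nat_lit 20) (nat_lit 4) (nat_lit 377) (nat_lit 311) (nat_lit 212)))) (XT.nd (nat_lit 78) (nat_lit 76) (nat_lit 0)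 (XT.lf (nat_lit 0) (nat_lit 8136010006) (nat_lit 152) (nat_lit 26940816832) (nat_lit 76) (nat_lit 23208572638) (nat_lit 18) (nat_lit 5) (nat_lit 20) (nat_lit 5) (nat_lit 19) (nat_lit 4) (nat_lit 378) (nat_lit 311) (nat_lit 211)) (XT.nd (nat_lit 78) (nat_lit 76) (nat_lit 0) (XT.lf (nat_lit 0) (nat_lit 18676990049) (nat_lit 152) (nat_lit 5347724262) (nat_lit 76) (nat_lit 36560643894) (nat_lit 18) (nat_lit 5) (nat_lit 20) (nat_lit 5) (nat_lit 19) (nat_lit 4) (nat_lit 379) (nat_lit 311) (nat_lit 210)) (XT.lf (nat_lit 0) (nat_lit 17881381465) (nat_lit 76) (nat_lit 12134274103) (nat_lit 152) (nat_lit 32971129532) (nat_lit 17) (nat_lit 5) (nat_lit 18) (nat_lit 5) (nat_lit 19) (nat_lit 4) (nat_lit 380) (nat_lit 311) (nat_lit 209))))) (XT.nd (nat_lit 234) (nat_lit 152) (nat_lit 0) (XT.nd (nat_lit 78) (nat_lit 76) (nat_lit 0) (XT.lf (nat_lit 0) (nat_lit 42010285941) (nat_lit 152) (nat_lit 23069118222)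 (nat_lit 0) (nat_lit 424429558) (nat_lit 17) (nat_lit 5) (nat_lit 19) (nat_lit 4) (nat_lit 17) (nat_lit 4) (nat_lit 381) (nat_lit 311) (nat_lit 208)) (XT.nd (nat_lit 78) (nat_lit 76) (nat_lit 0) (XT.lf (nat_lit 0) (nat_lit 54795480225) (nat_lit 152) (nat_lit 145185508) (nat_lit 0) (nat_lit 13196529283) (nat_lit 17) (nat_lit 5) (nat_lit 19) (nat_lit 4) (nat_lit 17) (nat_lit 4) (nat_lit 382) (nat_lit 311) (nat_lit 207)) (XT.lf (nat_lit 0) (nat_lit 24701011966) (nat_lit 76) (nat_lit 43896869390) (nat_lit 76) (nat_lit 2285447440) (nat_lit 16) (nat_lit 4) (nat_lit 17) (nat_lit 5) (nat_lit 17) (nat_lit 4) (nat_lit 383) (nat_lit 311) (nat_lit 206)))) (XT.nd (nat_lit 78) (nat_lit 76) (nat_lit 0) (XT.lf (nat_lit 0) (nat_lit 9020031286) (nat_lit 152) (nat_lit 23132234964) (nat_lit 76) (nat_lit 41607485597) (nat_lit 15) (nat_lit 5) (nat_lit 17) (nat_lit 5) (nat_lit 16) (nat_lit 4) (nat_lit 384) (nat_lit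 311) (nat_lit 205)) (XT.nd (nat_lit 78) (nat_lit 0) (nat_lit 0) (XT.lf (nat_lit 0) (nat_lit 1052730880) (nat_lit 76) (nat_lit 19770362560) (nat_lit 152) (nat_lit 55954575051) (nat_lit 14) (nat_lit 5) (nat_lit 15) (nat_lit 5) (nat_lit 16) (nat_lit 4) (nat_lit 385) (nat_lit 311) (nat_lit 204)) (XT.lf (nat_lit 0) (nat_lit 27236419604) (nat_lit 76) (nat_lit 6364460006) (nat_lit 152) (nat_lit 46326374272) (nat_lit 14) (nat_lit 5) (nat_lit 15) (nat_lit 5) (nat_lit 16) (nat_lit 4) (nat_lit 386) (nat_lit 311) (nat_lit 203))))))))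
noncomputable def xc132 : XT := (XT.nd (nat_lit 1794) (nat_lit 380) (nat_lit 0) (XT.nd (nat_lit 858) (nat_lit 228) (nat_lit 0) (XT.nd (nat_lit 390) (nat_lit 152) (nat_lit 0) (XT.nd (nat_lit 156) (nat_lit 152) (nat_lit 0) (XT.nd (nat_lit 78) (nat_lit 0) (nat_lit 0) (XT.lf (nat_lit 0) (nat_lit 47131018617) (nat_lit 152) (nat_lit 28638650978) (nat_lit 0) (nat_lit 7458977162) (nat_lit 14) (nat_lit 5) (nat_lit 16) (nat_lit 4) (nat_lit 14) (nat_lit 4) (nat_lit 387) (nat_lit 311) (nat_lit 202)) (XT.lf (nat_lit 0) (nat_lit 61435392070) (nat_lit 152) (nat_lit 3500787600) (nat_lit 0) (nat_lit 21754044557) (nat_lit 14) (nat_lit 5) (nat_lit 16) (nat_lit 4) (nat_lit 14) (nat_lit 4) (nat_lit 388) (nat_lit 311) (nat_lit 201))) (XT.nd (nat_lit 78) (nat_lit 76) (nat_lit 0) (XT.lf (nat_lit 0) (nat_lit 23638556398) (nat_lit 76) (nat_lit 53179198659) (nat_lit 76) (nat_lit 13488988233) (nat_lit 13) (nat_lit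 4) (nat_lit 14) (nat_lit 5) (nat_lit 14) (nat_lit 4) (nat_lit 389) (nat_lit 311) (nat_lit 200)) (XT.nd (nat_lit 78) (nat_lit 76) (nat_lit 0) (XT.lf (nat_lit 0) (nat_lit 52244606509) (nat_lit 76) (nat_lit 40777739403) (nat_lit 76) (nat_lit 1079088107) (nat_lit 13) (nat_lit 4) (nat_lit 14) (nat_lit 5) (nat_lit 14) (nat_lit 4) (nat_lit 390) (nat_lit 311) (nat_lit 199)) (XT.lf (nat_lit 0) (nat_lit 11562809370) (nat_lit 152) (nat_lit 16002931009) (nat_lit 76) (nat_lit 70511089388) (nat_lit 12) (nat_lit 5) (nat_lit 14) (nat_lit 5) (nat_lit 13) (nat_lit 4) (nat_lit 391) (nat_lit 311) (nat_lit 198))))) (XT.nd (nat_lit 234) (nat_lit 76) (nat_lit 0) (XT.nd (nat_lit 78) (nat_lit 0) (nat_lit 0) (XT.lf (nat_lit 0) (nat_lit 11482592196) (nat_lit 76) (nat_lit 13491524160) (nat_lit 152) (nat_lit 77267316530) (nat_lit 11) (nat_lit 5) (nat_lit 12) (nat_lit 5) (nat_lit 13) (nat_lit 4) (nat_lit 392) (nat_lit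 311) (nat_lit 197)) (XT.nd (nat_lit 78) (nat_lit 0) (nat_lit 0) (XT.lf (nat_lit 0) (nat_lit 39345860883) (nat_lit 152) (nat_lit 65738183085) (nat_lit 0) (nat_lit 1515729573) (nat_lit 11) (nat_lit 5) (nat_lit 13) (nat_lit 4) (nat_lit 11) (nat_lit 4) (nat_lit 393) (nat_lit 311) (nat_lit 196)) (XT.lf (nat_lit 0) (nat_lit 54651962828) (nat_lit 152) (nat_lit 39698062957) (nat_lit 0) (nat_lit 16815217876) (nat_lit 11) (nat_lit 5) (nat_lit 13) (nat_lit 4) (nat_lit 11) (nat_lit 4) (nat_lit 394) (nat_lit 311) (nat_lit 195)))) (XT.nd (nat_lit 78) (nat_lit 76) (nat_lit 0) (XT.lf (nat_lit 0) (nat_lit 70718224789) (nat_lit 152) (nat_lit 12365839517) (nat_lit 0) (nat_lit 32875181131) (nat_lit 11) (nat_lit 5) (nat_lit 13) (nat_lit 4) (nat_lit 11) (nat_lit 4) (nat_lit 395) (nat_lit 311) (nat_lit 194)) (XT.nd (nat_lit 78) (nat_lit 0) (nat_lit 0) (XT.lf (nat_lit 0) (nat_lit 16863294698) (nat_lit 76) (nat_lit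 70982888362) (nat_lit 76) (nat_lit 33133845936) (nat_lit 10) (nat_lit 4) (nat_lit 11) (nat_lit 5) (nat_lit 11) (nat_lit 4) (nat_lit 396) (nat_lit 311) (nat_lit 193)) (XT.lf (nat_lit 0) (nat_lit 47973920628) (nat_lit 76) (nat_lit 58061228482) (nat_lit 76) (nat_lit 20206472943) (nat_lit 10) (nat_lit 4) (nat_lit 11) (nat_lit 5) (nat_lit 11) (nat_lit 4) (nat_lit 397) (nat_lit 311) (nat_lit 192)))))) (XT.nd (nat_lit 468) (nat_lit 76) (nat_lit 0) (XT.nd (nat_lit 234) (nat_lit 0) (nat_lit 0) (XT.nd (nat_lit 78) (nat_lit 152) (nat_lit 0) (XT.lf (nat_lit 0) (nat_lit 80631240689) (nat_lit 76) (nat_lit 44497740286) (nat_lit 76) (nat_lit 6637543687) (nat_lit 10) (nat_lit 4) (nat_lit 11) (nat_lit 5) (nat_lit 11) (nat_lit 4) (nat_lit 398) (nat_lit 311) (nat_lit 191)) (XT.nd (nat_lit 78) (nat_lit 76) (nat_lit 0) (XT.lf (nat_lit 0) (nat_lit 7361833348) (nat_lit 152) (nat_lit 22773620195) (nat_lit 76) (nat_lit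 107426500847) (nat_lit 9) (nat_lit 5) (nat_lit 11) (nat_lit 5) (nat_lit 10) (nat_lit 4) (nat_lit 399) (nat_lit 311) (nat_lit 190)) (XT.lf (nat_lit 0) (nat_lit 7116945333) (nat_lit 76) (nat_lit 14828059103) (nat_lit 152) (nat_lit 121691366718) (nat_lit 8) (nat_lit 5) (nat_lit 9) (nat_lit 5) (nat_lit 10) (nat_lit 4) (nat_lit 400) (nat_lit 311) (nat_lit 189)))) (XT.nd (nat_lit 78) (nat_lit 0) (nat_lit 0) (XT.lf (nat_lit 0) (nat_lit 37664562500) (nat_lit 152) (nat_lit 110736464833) (nat_lit 0) (nat_lit 1593120639) (nat_lit 8) (nat_lit 5) (nat_lit 10) (nat_lit 4) (nat_lit 8) (nat_lit 4) (nat_lit 401) (nat_lit 311) (nat_lit 188)) (XT.nd (nat_lit 78) (nat_lit 0) (nat_lit 0) (XT.lf (nat_lit 0) (nat_lit 54409172022) (nat_lit 152) (nat_lit 83915221590) (nat_lit 0) (nat_lit 18333466949) (nat_lit 8) (nat_lit 5) (nat_lit 10) (nat_lit 4) (nat_lit 8) (nat_lit 4) (nat_lit 402) (nat_lit 311) (nat_lit 187))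 (XT.lf (nat_lit 0) (nat_lit 71987193562) (nat_lit 152) (nat_lit 55760328432) (nat_lit 0) (nat_lit 35907428287) (nat_lit 8) (nat_lit 5) (nat_lit 10) (nat_lit 4) (nat_lit 8) (nat_lit 4) (nat_lit 403) (nat_lit 311) (nat_lit 186))))) (XT.nd (nat_lit 234) (nat_lit 0) (nat_lit 0) (XT.nd (nat_lit 78) (nat_lit 76) (nat_lit 0) (XT.lf (nat_lit 0) (nat_lit 90440479553) (nat_lit 152) (nat_lit 26204749897) (nat_lit 0) (nat_lit 54356847418) (nat_lit 8) (nat_lit 5) (nat_lit 10) (nat_lit 4) (nat_lit 8) (nat_lit 4) (nat_lit 404) (nat_lit 311) (nat_lit 185)) (XT.nd (nat_lit 78) (nat_lit 0) (nat_lit 0) (XT.lf (nat_lit 0) (nat_lit 4981317713) (nat_lit 76) (nat_lit 104909421005) (nat_lit 76) (nat_lit 68822106147) (nat_lit 7) (nat_lit 4) (nat_lit 8) (nat_lit 5) (nat_lit 8) (nat_lit 4) (nat_lit 405) (nat_lit 311) (nat_lit 184)) (XT.lf (nat_lit 0) (nat_lit 38629843760) (nat_lit 76) (nat_lit 92124055399) (nat_lit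 76) (nat_lit 56033233185) (nat_lit 7) (nat_lit 4) (nat_lit 8) (nat_lit 5) (nat_lit 8) (nat_lit 4) (nat_lit 406) (nat_lit 311) (nat_lit 183)))) (XT.nd (nat_lit 78) (nat_lit 0) (nat_lit 0) (XT.lf (nat_lit 0) (nat_lit 73954496407) (nat_lit 76) (nat_lit 78702481405) (nat_lit 76) (nat_lit 42608318853) (nat_lit 7) (nat_lit 4) (nat_lit 8) (nat_lit 5) (nat_lit 8) (nat_lit 4) (nat_lit 407) (nat_lit 311) (nat_lit 182)) (XT.nd (nat_lit 78) (nat_lit 0) (nat_lit 0) (XT.lf (nat_lit 0) (nat_lit 111039381968) (nat_lit 76) (nat_lit 64612742895) (nat_lit 76) (nat_lit 28515399067) (nat_lit 7) (nat_lit 4) (nat_lit 8) (nat_lit 5) (nat_lit 8) (nat_lit 4) (nat_lit 408) (nat_lit 311) (nat_lit 181)) (XT.lf (nat_lit 0) (nat_lit 149972797791) (nat_lit 76) (nat_lit 49821292871) (nat_lit 76) (nat_lit 13720919259) (nat_lit 7) (nat_lit 4) (nat_lit 8) (nat_lit 5) (nat_lit 8) (nat_lit 4) (nat_lit 409) (nat_lit 311) (nat_lit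 180))))))) (XT.nd (nat_lit 936) (nat_lit 152) (nat_lit 0) (XT.nd (nat_lit 468) (nat_lit 76) (nat_lit 0) (XT.nd (nat_lit 234) (nat_lit 0) (nat_lit 0) (XT.nd (nat_lit 78) (nat_lit 76) (nat_lit 0) (XT.lf (nat_lit 0) (nat_lit 1752403162) (nat_lit 152) (nat_lit 32510832638) (nat_lit 76) (nat_lit 189065361526) (nat_lit 6) (nat_lit 5) (nat_lit 8) (nat_lit 5) (nat_lit 7) (nat_lit 4) (nat_lit 410) (nat_lit 311) (nat_lit 179)) (XT.nd (nat_lit 78) (nat_lit 76) (nat_lit 0) (XT.lf (nat_lit 0) (nat_lit 17535569371) (nat_lit 152) (nat_lit 158090016) (nat_lit 76) (nat_lit 215928093908) (nat_lit 6) (nat_lit 5) (nat_lit 8) (nat_lit 5) (nat_lit 7) (nat_lit 4) (nat_lit 411) (nat_lit 311) (nat_lit 178)) (XT.lf (nat_lit 0) (nat_lit 34654877624) (nat_lit 152) (nat_lit 209481629142) (nat_lit 0) (nat_lit 265711462) (nat_lit 5) (nat_lit 5) (nat_lit 7) (nat_lit 4) (nat_lit 5) (nat_lit 4) (nat_lit 412) (nat_lit 311)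 (nat_lit 177)))) (XT.nd (nat_lit 78) (nat_lit 0) (nat_lit 0) (XT.lf (nat_lit 0) (nat_lit 52920360227) (nat_lit 152) (nat_lit 184258015924) (nat_lit 0) (nat_lit 18528820149) (nat_lit 5) (nat_lit 5) (nat_lit 7) (nat_lit 4) (nat_lit 5) (nat_lit 4) (nat_lit 413) (nat_lit 311) (nat_lit 176)) (XT.nd (nat_lit 78) (nat_lit 0) (nat_lit 0) (XT.lf (nat_lit 0) (nat_lit 72096667175) (nat_lit 152) (nat_lit 157778012687) (nat_lit 0) (nat_lit 37702866224) (nat_lit 5) (nat_lit 5) (nat_lit 7) (nat_lit 4) (nat_lit 5) (nat_lit 4) (nat_lit 414) (nat_lit 311) (nat_lit 175)) (XT.lf (nat_lit 0) (nat_lit 92229456342) (nat_lit 152) (nat_lit 129978571804) (nat_lit 0) (nat_lit 57833502179) (nat_lit 5) (nat_lit 5) (nat_lit 7) (nat_lit 4) (nat_lit 5) (nat_lit 4) (nat_lit 415) (nat_lit 311) (nat_lit 174))))) (XT.nd (nat_lit 234) (nat_lit 76) (nat_lit 0) (XT.nd (nat_lit 78) (nat_lit 0) (nat_lit 0) (XT.lf (nat_lit 0) (nat_lit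 113366662940) (nat_lit 152) (nat_lit 100793504130) (nat_lit 0) (nat_lit 78968658099) (nat_lit 5) (nat_lit 5) (nat_lit 7) (nat_lit 4) (nat_lit 5) (nat_lit 4) (nat_lit 416) (nat_lit 311) (nat_lit 173)) (XT.nd (nat_lit 78) (nat_lit 0) (nat_lit 0) (XT.lf (nat_lit 0) (nat_lit 135558613652) (nat_lit 152) (nat_lit 70153321409) (nat_lit 0) (nat_lit 101158655784) (nat_lit 5) (nat_lit 5) (nat_lit 7) (nat_lit 4) (nat_lit 5) (nat_lit 4) (nat_lit 417) (nat_lit 311) (nat_lit 172)) (XT.lf (nat_lit 0) (nat_lit 158858146454) (nat_lit 152) (nat_lit 37985070825) (nat_lit 0) (nat_lit 124456328561) (nat_lit 5) (nat_lit 5) (nat_lit 7) (nat_lit 4) (nat_lit 5) (nat_lit 4) (nat_lit 418) (nat_lit 311) (nat_lit 171)))) (XT.nd (nat_lit 78) (nat_lit 76) (nat_lit 0) (XT.lf (nat_lit 0) (nat_lit 183320736427) (nat_lit 152) (nat_lit 4212161305) (nat_lit 0) (nat_lit 148917147080) (nat_lit 5) (nat_lit 5) (nat_lit 7) (nat_lit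 4) (nat_lit 5) (nat_lit 4) (nat_lit 419) (nat_lit 311) (nat_lit 170)) (XT.nd (nat_lit 78) (nat_lit 0) (nat_lit 0) (XT.lf (nat_lit 0) (nat_lit 32278946720) (nat_lit 76) (nat_lit 177229645929) (nat_lit 76) (nat_lit 142824369485) (nat_lit 4) (nat_lit 4) (nat_lit 5) (nat_lit 5) (nat_lit 5) (nat_lit 4) (nat_lit 420) (nat_lit 311) (nat_lit 169)) (XT.lf (nat_lit 0) (nat_lit 70737329685) (nat_lit 76) (nat_lit 166338051059) (nat_lit 76) (nat_lit 131931167855) (nat_lit 4) (nat_lit 4) (nat_lit 5) (nat_lit 5) (nat_lit 5) (nat_lit 4) (nat_lit 421) (nat_lit 311) (nat_lit 168)))))) (XT.nd (nat_lit 468) (nat_lit 152) (nat_lit 0) (XT.nd (nat_lit 234) (nat_lit 0) (nat_lit 0) (XT.nd (nat_lit 78) (nat_lit 0) (nat_lit 0) (XT.lf (nat_lit 0) (nat_lit 111115282092) (nat_lit 76) (nat_lit 154903515742) (nat_lit 76) (nat_lit 120495102290) (nat_lit 4) (nat_lit 4) (nat_lit 5) (nat_lit 5) (nat_lit 5) (nat_lit 4) (nat_lit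 422) (nat_lit 311) (nat_lit 167)) (XT.nd (nat_lit 78) (nat_lit 0) (nat_lit 0) (XT.lf (nat_lit 0) (nat_lit 153508941923) (nat_lit 76) (nat_lit 142898814895) (nat_lit 76) (nat_lit 108488944065) (nat_lit 4) (nat_lit 4) (nat_lit 5) (nat_lit 5) (nat_lit 5) (nat_lit 4) (nat_lit 423) (nat_lit 311) (nat_lit 166)) (XT.lf (nat_lit 0) (nat_lit 198019246462) (nat_lit 76) (nat_lit 130295365897) (nat_lit 76) (nat_lit 95884107086) (nat_lit 4) (nat_lit 4) (nat_lit 5) (nat_lit 5) (nat_lit 5) (nat_lit 4) (nat_lit 424) (nat_lit 311) (nat_lit 165)))) (XT.nd (nat_lit 78) (nat_lit 0) (nat_lit 0) (XT.lf (nat_lit 0) (nat_lit 244752172626) (nat_lit 76) (nat_lit 117063160535) (nat_lit 76) (nat_lit 82650579839) (nat_lit 4) (nat_lit 4) (nat_lit 5) (nat_lit 5) (nat_lit 5) (nat_lit 4) (nat_lit 425) (nat_lit 311) (nat_lit 164)) (XT.nd (nat_lit 78) (nat_lit 0) (nat_lit 0) (XT.lf (nat_lit 0) (nat_lit 293818989287) (nat_lit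 76) (nat_lit 103170693559) (nat_lit 76) (nat_lit 68756853925) (nat_lit 4) (nat_lit 4) (nat_lit 5) (nat_lit 5) (nat_lit 5) (nat_lit 4) (nat_lit 426) (nat_lit 311) (nat_lit 163)) (XT.lf (nat_lit 0) (nat_lit 345336522198) (nat_lit 76) (nat_lit 88584887666) (nat_lit 76) (nat_lit 54169849043) (nat_lit 4) (nat_lit 4) (nat_lit 5) (nat_lit 5) (nat_lit 5) (nat_lit 4) (nat_lit 427) (nat_lit 311) (nat_lit 162))))) (XT.nd (nat_lit 234) (nat_lit 152) (nat_lit 0) (XT.nd (nat_lit 78) (nat_lit 0) (nat_lit 0) (XT.lf (nat_lit 0) (nat_lit 399427432151) (nat_lit 76) (nat_lit 73271014747) (nat_lit 76) (nat_lit 38854834230) (nat_lit 4) (nat_lit 4) (nat_lit 5) (nat_lit 5) (nat_lit 5) (nat_lit 4) (nat_lit 428) (nat_lit 311) (nat_lit 161)) (XT.nd (nat_lit 78) (nat_lit 0) (nat_lit 0) (XT.lf (nat_lit 0) (nat_lit 456220507029) (nat_lit 76) (nat_lit 57192613201) (nat_lit 76) (nat_lit 22775345165) (nat_lit 4) (nat_lit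 4) (nat_lit 5) (nat_lit 5) (nat_lit 5) (nat_lit 4) (nat_lit 429) (nat_lit 311) (nat_lit 160)) (XT.lf (nat_lit 0) (nat_lit 515850968437) (nat_lit 76) (nat_lit 40311401118) (nat_lit 76) (nat_lit 5893097351) (nat_lit 4) (nat_lit 4) (nat_lit 5) (nat_lit 5) (nat_lit 5) (nat_lit 4) (nat_lit 430) (nat_lit 311) (nat_lit 159)))) (XT.nd (nat_lit 78) (nat_lit 76) (nat_lit 0) (XT.lf (nat_lit 0) (nat_lit 11453403787) (nat_lit 152) (nat_lit 10939812414) (nat_lit 76) (nat_lit 566813420943) (nat_lit 3) (nat_lit 5) (nat_lit 5) (nat_lit 5) (nat_lit 4) (nat_lit 4) (nat_lit 431) (nat_lit 311) (nat_lit 158)) (XT.nd (nat_lit 78) (nat_lit 0) (nat_lit 0) (XT.lf (nat_lit 0) (nat_lit 26848735138) (nat_lit 76) (nat_lit 3038564742) (nat_lit 152) (nat_lit 587802329903) (nat_lit 2) (nat_lit 5) (nat_lit 3) (nat_lit 5) (nat_lit 4) (nat_lit 4) (nat_lit 432) (nat_lit 311) (nat_lit 157)) (XT.lf (nat_lit 0) (nat_lit 49699983432)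 (nat_lit 152) (nat_lit 580955973843) (nat_lit 0) (nat_lit 16917960268) (nat_lit 2) (nat_lit 5) (nat_lit 4) (nat_lit 4) (nat_lit 2) (nat_lit 4) (nat_lit 433) (nat_lit 311) (nat_lit 156))))))))
noncomputable def xc133 : XT := (XT.nd (nat_lit 1794) (nat_lit 2888) (nat_lit 0) (XT.nd (nat_lit 858) (nat_lit 3192) (nat_lit 0) (XT.nd (nat_lit 390) (nat_lit 456) (nat_lit 0) (XT.nd (nat_lit 156) (nat_lit 0) (nat_lit 76) (XT.nd (nat_lit 78) (nat_lit 0) (nat_lit 0) (XT.lf (nat_lit 0) (nat_lit 77551479) (nat_lit 684) (nat_lit 1992205058) (nat_lit 684) (nat_lit 1992205058) (nat_lit 120) (nat_lit 3) (nat_lit 129) (nat_lit 3) (nat_lit 129) (nat_lit 5) (nat_lit 312) (nat_lit 312) (nat_lit 276)) (XT.lf (nat_lit 0) (nat_lit 1281320314) (nat_lit 684) (nat_lit 118969702) (nat_lit 684) (nat_lit 6869239679) (nat_lit 120) (nat_lit 3) (nat_lit 129) (nat_lit 3) (nat_lit 129) (nat_lit 5) (nat_lit 313) (nat_lit 312)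 (nat_lit 275))) (XT.nd (nat_lit 78) (nat_lit 0) (nat_lit 0) (XT.lf (nat_lit 0) (nat_lit 2479546626) (nat_lit 608) (nat_lit 4416558761) (nat_lit 684) (nat_lit 1525614224) (nat_lit 121) (nat_lit 5) (nat_lit 129) (nat_lit 5) (nat_lit 130) (nat_lit 5) (nat_lit 314) (nat_lit 312) (nat_lit 274)) (XT.nd (nat_lit 78) (nat_lit 0) (nat_lit 0) (XT.lf (nat_lit 0) (nat_lit 3694182238) (nat_lit 608) (nat_lit 305962702) (nat_lit 684) (nat_lit 4583632984) (nat_lit 121) (nat_lit 5) (nat_lit 129) (nat_lit 5) (nat_lit 130) (nat_lit 5) (nat_lit 315) (nat_lit 312) (nat_lit 273)) (XT.lf (nat_lit 76) (nat_lit 4102237415) (nat_lit 0) (nat_lit 866116371) (nat_lit 684) (nat_lit 3785724968) (nat_lit 122) (nat_lit 5) (nat_lit 121) (nat_lit 5) (nat_lit 130) (nat_lit 5) (nat_lit 316) (nat_lit 312) (nat_lit 272))))) (XT.nd (nat_lit 234) (nat_lit 608) (nat_lit 0) (XT.nd (nat_lit 78) (nat_lit 0) (nat_lit 0) (XT.lf (nat_lit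 0) (nat_lit 6286993579) (nat_lit 608) (nat_lit 271285945) (nat_lit 684) (nat_lit 2375653129) (nat_lit 122) (nat_lit 5) (nat_lit 130) (nat_lit 5) (nat_lit 131) (nat_lit 5) (nat_lit 317) (nat_lit 312) (nat_lit 271)) (XT.nd (nat_lit 78) (nat_lit 0) (nat_lit 76) (XT.lf (nat_lit 76) (nat_lit 4415242182) (nat_lit 0) (nat_lit 3280063807) (nat_lit 684) (nat_lit 1426358616) (nat_lit 123) (nat_lit 5) (nat_lit 122) (nat_lit 5) (nat_lit 131) (nat_lit 5) (nat_lit 318) (nat_lit 312) (nat_lit 270)) (XT.lf (nat_lit 0) (nat_lit 9124328455) (nat_lit 608) (nat_lit 18371336) (nat_lit 684) (nat_lit 178637586) (nat_lit 123) (nat_lit 5) (nat_lit 131) (nat_lit 5) (nat_lit 132) (nat_lit 5) (nat_lit 319) (nat_lit 312) (nat_lit 269)))) (XT.nd (nat_lit 78) (nat_lit 0) (nat_lit 0) (XT.lf (nat_lit 0) (nat_lit 1137151071) (nat_lit 684) (nat_lit 4576897460) (nat_lit 760) (nat_lit 3812236342) (nat_lit 114) (nat_lit 5)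 (nat_lit 123) (nat_lit 5) (nat_lit 124) (nat_lit 5) (nat_lit 320) (nat_lit 312) (nat_lit 268)) (XT.nd (nat_lit 78) (nat_lit 0) (nat_lit 76) (XT.lf (nat_lit 76) (nat_lit 392171229) (nat_lit 0) (nat_lit 2092509195) (nat_lit 760) (nat_lit 7259033287) (nat_lit 115) (nat_lit 5) (nat_lit 114) (nat_lit 5) (nat_lit 124) (nat_lit 5) (nat_lit 321) (nat_lit 312) (nat_lit 267)) (XT.lf (nat_lit 0) (nat_lit 3953957404) (nat_lit 684) (nat_lit 4271472038) (nat_lit 76) (nat_lit 1743922709) (nat_lit 115) (nat_lit 5) (nat_lit 124) (nat_lit 5) (nat_lit 116) (nat_lit 5) (nat_lit 322) (nat_lit 312) (nat_lit 266)))))) (XT.nd (nat_lit 468) (nat_lit 1368) (nat_lit 0) (XT.nd (nat_lit 234) (nat_lit 456) (nat_lit 0) (XT.nd (nat_lit 78) (nat_lit 760) (nat_lit 0) (XT.lf (nat_lit 0) (nat_lit 1019051372) (nat_lit 684) (nat_lit 4479183333) (nat_lit 760) (nat_lit 4708015005) (nat_lit 106) (nat_lit 5) (nat_lit 115) (nat_lit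 5) (nat_lit 116) (nat_lit 5) (nat_lit 323) (nat_lit 312) (nat_lit 265)) (XT.nd (nat_lit 78) (nat_lit 760) (nat_lit 0) (XT.lf (nat_lit 0) (nat_lit 6681208894) (nat_lit 684) (nat_lit 463854120) (nat_lit 760) (nat_lit 3308713720) (nat_lit 106) (nat_lit 5) (nat_lit 115) (nat_lit 5) (nat_lit 116) (nat_lit 5) (nat_lit 324) (nat_lit 312) (nat_lit 264)) (XT.lf (nat_lit 0) (nat_lit 1872544027) (nat_lit 760) (nat_lit 7044829736) (nat_lit 836) (nat_lit 1794198292) (nat_lit 96) (nat_lit 5) (nat_lit 106) (nat_lit 5) (nat_lit 107) (nat_lit 5) (nat_lit 325) (nat_lit 312) (nat_lit 263)))) (XT.nd (nat_lit 78) (nat_lit 456) (nat_lit 0) (XT.lf (nat_lit 0) (nat_lit 7882101653) (nat_lit 760) (nat_lit 2924381022) (nat_lit 836) (nat_lit 174412001) (nat_lit 96) (nat_lit 5) (nat_lit 106) (nat_lit 5) (nat_lit 107) (nat_lit 5) (nat_lit 326) (nat_lit 312) (nat_lit 262)) (XT.nd (nat_lit 78) (nat_lit 0) (nat_lit 0)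 (XT.lf (nat_lit 0) (nat_lit 1504918718) (nat_lit 456) (nat_lit 8326457424) (nat_lit 76) (nat_lit 1429787655) (nat_lit 90) (nat_lit 5) (nat_lit 96) (nat_lit 5) (nat_lit 91) (nat_lit 5) (nat_lit 327) (nat_lit 312) (nat_lit 261)) (XT.lf (nat_lit 0) (nat_lit 3323168745) (nat_lit 456) (nat_lit 2268848869) (nat_lit 76) (nat_lit 5960285400) (nat_lit 90) (nat_lit 5) (nat_lit 96) (nat_lit 5) (nat_lit 91) (nat_lit 5) (nat_lit 328) (nat_lit 312) (nat_lit 260))))) (XT.nd (nat_lit 234) (nat_lit 684) (nat_lit 0) (XT.nd (nat_lit 78) (nat_lit 380) (nat_lit 0) (XT.lf (nat_lit 0) (nat_lit 4185772789) (nat_lit 304) (nat_lit 1073370706) (nat_lit 380) (nat_lit 6597553478) (nat_lit 86) (nat_lit 5) (nat_lit 90) (nat_lit 5) (nat_lit 91) (nat_lit 5) (nat_lit 329) (nat_lit 312) (nat_lit 259)) (XT.nd (nat_lit 78) (nat_lit 380) (nat_lit 0) (XT.lf (nat_lit 0) (nat_lit 7350943283) (nat_lit 380) (nat_lit 1231511011)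 (nat_lit 76) (nat_lit 3590941581) (nat_lit 86) (nat_lit 5) (nat_lit 91) (nat_lit 5) (nat_lit 87) (nat_lit 5) (nat_lit 330) (nat_lit 312) (nat_lit 258)) (XT.lf (nat_lit 0) (nat_lit 5654131067) (nat_lit 380) (nat_lit 3963507914) (nat_lit 456) (nat_lit 2884810267) (nat_lit 81) (nat_lit 5) (nat_lit 86) (nat_lit 5) (nat_lit 87) (nat_lit 5) (nat_lit 331) (nat_lit 312) (nat_lit 257)))) (XT.nd (nat_lit 78) (nat_lit 380) (nat_lit 0) (XT.lf (nat_lit 0) (nat_lit 26385205) (nat_lit 304) (nat_lit 11972196445) (nat_lit 380) (nat_lit 849361193) (nat_lit 77) (nat_lit 5) (nat_lit 81) (nat_lit 5) (nat_lit 82) (nat_lit 5) (nat_lit 332) (nat_lit 312) (nat_lit 256)) (XT.nd (nat_lit 78) (nat_lit 304) (nat_lit 0) (XT.lf (nat_lit 0) (nat_lit 1395407877) (nat_lit 380) (nat_lit 5849999871) (nat_lit 76) (nat_lit 5956889739) (nat_lit 76) (nat_lit 5) (nat_lit 81) (nat_lit 5) (nat_lit 77) (nat_lit 5) (nat_lit 333) (nat_lit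 312) (nat_lit 255)) (XT.lf (nat_lit 0) (nat_lit 1464331306) (nat_lit 304) (nat_lit 2249936293) (nat_lit 380) (nat_lit 9859914896) (nat_lit 72) (nat_lit 5) (nat_lit 76) (nat_lit 5) (nat_lit 77) (nat_lit 5) (nat_lit 334) (nat_lit 312) (nat_lit 254))))))) (XT.nd (nat_lit 936) (nat_lit 1292) (nat_lit 0) (XT.nd (nat_lit 468) (nat_lit 760) (nat_lit 0) (XT.nd (nat_lit 234) (nat_lit 608) (nat_lit 0) (XT.nd (nat_lit 78) (nat_lit 228) (nat_lit 0) (XT.lf (nat_lit 0) (nat_lit 6264913799) (nat_lit 380) (nat_lit 4700242775) (nat_lit 76) (nat_lit 2993740290) (nat_lit 72) (nat_lit 5) (nat_lit 77) (nat_lit 5) (nat_lit 73) (nat_lit 5) (nat_lit 335) (nat_lit 312) (nat_lit 253)) (XT.nd (nat_lit 78) (nat_lit 0) (nat_lit 0) (XT.lf (nat_lit 0) (nat_lit 3104591831) (nat_lit 228) (nat_lit 5893743303) (nat_lit 304) (nat_lit 5361775659) (nat_lit 69) (nat_lit 5) (nat_lit 72) (nat_lit 5) (nat_lit 73) (nat_lit 5) (nat_lit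 336) (nat_lit 312) (nat_lit 252)) (XT.lf (nat_lit 0) (nat_lit 11425722280) (nat_lit 228) (nat_lit 493047661) (nat_lit 304) (nat_lit 2860123105) (nat_lit 69) (nat_lit 5) (nat_lit 72) (nat_lit 5) (nat_lit 73) (nat_lit 5) (nat_lit 337) (nat_lit 312) (nat_lit 251)))) (XT.nd (nat_lit 78) (nat_lit 304) (nat_lit 0) (XT.lf (nat_lit 0) (nat_lit 4986392877) (nat_lit 304) (nat_lit 10129541086) (nat_lit 380) (nat_lit 96168642) (nat_lit 65) (nat_lit 5) (nat_lit 69) (nat_lit 5) (nat_lit 70) (nat_lit 5) (nat_lit 338) (nat_lit 312) (nat_lit 250)) (XT.nd (nat_lit 78) (nat_lit 228) (nat_lit 0) (XT.lf (nat_lit 0) (nat_lit 2754295098) (nat_lit 380) (nat_lit 1894611884) (nat_lit 76) (nat_lit 11013990547) (nat_lit 64) (nat_lit 5) (nat_lit 69) (nat_lit 5) (nat_lit 65) (nat_lit 5) (nat_lit 339) (nat_lit 312) (nat_lit 249)) (XT.lf (nat_lit 0) (nat_lit 5846580079) (nat_lit 304) (nat_lit 9109351739) (nat_lit 76)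 (nat_lit 1175115414) (nat_lit 61) (nat_lit 5) (nat_lit 65) (nat_lit 5) (nat_lit 62) (nat_lit 5) (nat_lit 340) (nat_lit 312) (nat_lit 248))))) (XT.nd (nat_lit 234) (nat_lit 304) (nat_lit 0) (XT.nd (nat_lit 78) (nat_lit 456) (nat_lit 0) (XT.lf (nat_lit 0) (nat_lit 9176513572) (nat_lit 304) (nat_lit 283978032) (nat_lit 76) (nat_lit 7157980494) (nat_lit 61) (nat_lit 5) (nat_lit 65) (nat_lit 5) (nat_lit 62) (nat_lit 5) (nat_lit 341) (nat_lit 312) (nat_lit 247)) (XT.nd (nat_lit 78) (nat_lit 228) (nat_lit 0) (XT.lf (nat_lit 0) (nat_lit 9244414583) (nat_lit 228) (nat_lit 3548298946) (nat_lit 304) (nat_lit 4331584655) (nat_lit 58) (nat_lit 5) (nat_lit 61) (nat_lit 5) (nat_lit 62) (nat_lit 5) (nat_lit 342) (nat_lit 312) (nat_lit 246)) (XT.lf (nat_lit 0) (nat_lit 1578180436) (nat_lit 228) (nat_lit 15058526373) (nat_lit 304) (nat_lit 1016377187) (nat_lit 55) (nat_lit 5) (nat_lit 58) (nat_lit 5) (nat_lit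 59) (nat_lit 5) (nat_lit 343) (nat_lit 312) (nat_lit 245)))) (XT.nd (nat_lit 78) (nat_lit 228) (nat_lit 0) (XT.lf (nat_lit 0) (nat_lit 2555660833) (nat_lit 304) (nat_lit 6552639663) (nat_lit 76) (nat_lit 9089602971) (nat_lit 54) (nat_lit 5) (nat_lit 58) (nat_lit 5) (nat_lit 55) (nat_lit 5) (nat_lit 344) (nat_lit 312) (nat_lit 244)) (XT.nd (nat_lit 78) (nat_lit 0) (nat_lit 0) (XT.lf (nat_lit 0) (nat_lit 3508132132) (nat_lit 228) (nat_lit 2796065645) (nat_lit 304) (nat_lit 12463345534) (nat_lit 51) (nat_lit 5) (nat_lit 54) (nat_lit 5) (nat_lit 55) (nat_lit 5) (nat_lit 345) (nat_lit 312) (nat_lit 243)) (XT.lf (nat_lit 0) (nat_lit 10390466747) (nat_lit 304) (nat_lit 5155972020) (nat_lit 76) (nat_lit 3811725589) (nat_lit 51) (nat_lit 5) (nat_lit 55) (nat_lit 5) (nat_lit 52) (nat_lit 5) (nat_lit 346) (nat_lit 312) (nat_lit 242)))))) (XT.nd (nat_lit 468) (nat_lit 684) (nat_lit 0) (XT.nd (nat_lit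 234) (nat_lit 152) (nat_lit 0) (XT.nd (nat_lit 78) (nat_lit 304) (nat_lit 0) (XT.lf (nat_lit 0) (nat_lit 5552471141) (nat_lit 152) (nat_lit 9239856232) (nat_lit 228) (nat_lit 5180438951) (nat_lit 49) (nat_lit 5) (nat_lit 51) (nat_lit 5) (nat_lit 52) (nat_lit 5) (nat_lit 347) (nat_lit 312) (nat_lit 241)) (XT.nd (nat_lit 78) (nat_lit 304) (nat_lit 0) (XT.lf (nat_lit 0) (nat_lit 16943812447) (nat_lit 152) (nat_lit 2537058494) (nat_lit 228) (nat_lit 1133911076) (nat_lit 49) (nat_lit 5) (nat_lit 51) (nat_lit 5) (nat_lit 52) (nat_lit 5) (nat_lit 348) (nat_lit 312) (nat_lit 240)) (XT.lf (nat_lit 0) (nat_lit 3189619634) (nat_lit 304) (nat_lit 13568622793) (nat_lit 76) (nat_lit 4519517618) (nat_lit 45) (nat_lit 5) (nat_lit 49) (nat_lit 5) (nat_lit 46) (nat_lit 5) (nat_lit 349) (nat_lit 312) (nat_lit 239)))) (XT.nd (nat_lit 78) (nat_lit 152) (nat_lit 0) (XT.lf (nat_lit 0) (nat_lit 7776241115) (nat_lit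 304) (nat_lit 2277312550) (nat_lit 76) (nat_lit 11915164158) (nat_lit 45) (nat_lit 5) (nat_lit 49) (nat_lit 5) (nat_lit 46) (nat_lit 5) (nat_lit 350) (nat_lit 312) (nat_lit 238)) (XT.nd (nat_lit 78) (nat_lit 0) (nat_lit 0) (XT.lf (nat_lit 0) (nat_lit 9864742036) (nat_lit 152) (nat_lit 2862649939) (nat_lit 228) (nat_lit 9960082395) (nat_lit 43) (nat_lit 5) (nat_lit 45) (nat_lit 5) (nat_lit 46) (nat_lit 5) (nat_lit 351) (nat_lit 312) (nat_lit 237)) (XT.lf (nat_lit 0) (nat_lit 18019946756) (nat_lit 228) (nat_lit 850939627) (nat_lit 76) (nat_lit 4566600325) (nat_lit 43) (nat_lit 5) (nat_lit 46) (nat_lit 5) (nat_lit 44) (nat_lit 5) (nat_lit 352) (nat_lit 312) (nat_lit 236))))) (XT.nd (nat_lit 234) (nat_lit 304) (nat_lit 0) (XT.nd (nat_lit 78) (nat_lit 228) (nat_lit 0) (XT.lf (nat_lit 0) (nat_lit 12029101520) (nat_lit 152) (nat_lit 11765104482) (nat_lit 228) (nat_lit 419949618) (nat_lit 41) (nat_lit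 5) (nat_lit 43) (nat_lit 5) (nat_lit 44) (nat_lit 5) (nat_lit 353) (nat_lit 312) (nat_lit 235)) (XT.nd (nat_lit 78) (nat_lit 0) (nat_lit 0) (XT.lf (nat_lit 0) (nat_lit 464458622) (nat_lit 152) (nat_lit 4212902191) (nat_lit 228) (nat_lit 20348319924) (nat_lit 38) (nat_lit 5) (nat_lit 40) (nat_lit 5) (nat_lit 41) (nat_lit 5) (nat_lit 354) (nat_lit 312) (nat_lit 234)) (XT.lf (nat_lit 0) (nat_lit 10265876640) (nat_lit 228) (nat_lit 11795062633) (nat_lit 76) (nat_lit 3803984427) (nat_lit 38) (nat_lit 5) (nat_lit 41) (nat_lit 5) (nat_lit 39) (nat_lit 5) (nat_lit 355) (nat_lit 312) (nat_lit 233)))) (XT.nd (nat_lit 78) (nat_lit 152) (nat_lit 0) (XT.lf (nat_lit 0) (nat_lit 1562951431) (nat_lit 152) (nat_lit 14647836481) (nat_lit 228) (nat_lit 10531500473) (nat_lit 36) (nat_lit 5) (nat_lit 38) (nat_lit 5) (nat_lit 39) (nat_lit 5) (nat_lit 356) (nat_lit 312) (nat_lit 232)) (XT.nd (nat_lit 78) (nat_lit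 152) (nat_lit 0) (XT.lf (nat_lit 0) (nat_lit 15971392669) (nat_lit 152) (nat_lit 6665175245) (nat_lit 228) (nat_lit 5017779905) (nat_lit 36) (nat_lit 5) (nat_lit 38) (nat_lit 5) (nat_lit 39) (nat_lit 5) (nat_lit 357) (nat_lit 312) (nat_lit 231)) (XT.lf (nat_lit 0) (nat_lit 798304297) (nat_lit 152) (nat_lit 26106705868) (nat_lit 76) (nat_lit 1703835934) (nat_lit 34) (nat_lit 5) (nat_lit 36) (nat_lit 5) (nat_lit 35) (nat_lit 5) (nat_lit 358) (nat_lit 312) (nat_lit 230))))))))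
noncomputable def xc134 : XT := (XT.nd (nat_lit 1794) (nat_lit 684) (nat_lit 0) (XT.nd (nat_lit 858) (nat_lit 532) (nat_lit 0) (XT.nd (nat_lit 390) (nat_lit 456) (nat_lit 0) (XT.nd (nat_lit 156) (nat_lit 152) (nat_lit 0) (XT.nd (nat_lit 78) (nat_lit 152) (nat_lit 0) (XT.lf (nat_lit 0) (nat_lit 7031482219) (nat_lit 152) (nat_lit 12020242205) (nat_lit 76) (nat_lit 10540492571) (nat_lit 34) (nat_lit 5) (nat_lit 36) (nat_lit 5) (nat_lit 35) (nat_lit 5) (nat_lit 359) (nat_lit 312) (nat_lit 229)) (XT.lf (nat_lit 0) (nat_lit 2836182536) (nat_lit 152) (nat_lit 10769707356) (nat_lit 228) (nat_lit 17017394314) (nat_lit 32) (nat_lit 5) (nat_lit 34) (nat_lit 5) (nat_lit 35) (nat_lit 5) (nat_lit 360) (nat_lit 312) (nat_lit 228))) (XT.nd (nat_lit 78) (nat_lit 152) (nat_lit 0) (XT.lf (nat_lit 0) (nat_lit 18828011972) (nat_lit 152) (nat_lit 1870179025) (nat_lit 228) (nat_lit 10998261142) (nat_lit 32) (nat_lit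 5) (nat_lit 34) (nat_lit 5) (nat_lit 35) (nat_lit 5) (nat_lit 361) (nat_lit 312) (nat_lit 227)) (XT.nd (nat_lit 78) (nat_lit 76) (nat_lit 0) (XT.lf (nat_lit 0) (nat_lit 2743165656) (nat_lit 76) (nat_lit 25547601409) (nat_lit 152) (nat_lit 4525234132) (nat_lit 31) (nat_lit 5) (nat_lit 32) (nat_lit 5) (nat_lit 33) (nat_lit 4) (nat_lit 362) (nat_lit 312) (nat_lit 226)) (XT.lf (nat_lit 0) (nat_lit 2437106975) (nat_lit 152) (nat_lit 14492376017) (nat_lit 76) (nat_lit 17048358572) (nat_lit 30) (nat_lit 5) (nat_lit 32) (nat_lit 5) (nat_lit 31) (nat_lit 5) (nat_lit 363) (nat_lit 312) (nat_lit 225))))) (XT.nd (nat_lit 234) (nat_lit 304) (nat_lit 0) (XT.nd (nat_lit 78) (nat_lit 0) (nat_lit 0) (XT.lf (nat_lit 0) (nat_lit 1828429215) (nat_lit 152) (nat_lit 7782461037) (nat_lit 228) (nat_lit 25582409302) (nat_lit 28) (nat_lit 5) (nat_lit 30) (nat_lit 5) (nat_lit 31) (nat_lit 5) (nat_lit 364) (nat_lit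 312) (nat_lit 224)) (XT.nd (nat_lit 78) (nat_lit 0) (nat_lit 0) (XT.lf (nat_lit 0) (nat_lit 17408242367) (nat_lit 228) (nat_lit 17044448882) (nat_lit 76) (nat_lit 2003599921) (nat_lit 28) (nat_lit 5) (nat_lit 31) (nat_lit 5) (nat_lit 29) (nat_lit 4) (nat_lit 365) (nat_lit 312) (nat_lit 223)) (XT.lf (nat_lit 0) (nat_lit 25710639217) (nat_lit 228) (nat_lit 57624638) (nat_lit 76) (nat_lit 12008414143) (nat_lit 28) (nat_lit 5) (nat_lit 31) (nat_lit 5) (nat_lit 29) (nat_lit 4) (nat_lit 366) (nat_lit 312) (nat_lit 222)))) (XT.nd (nat_lit 78) (nat_lit 228) (nat_lit 0) (XT.lf (nat_lit 0) (nat_lit 18344698144) (nat_lit 76) (nat_lit 16358056389) (nat_lit 152) (nat_lit 4446603975) (nat_lit 27) (nat_lit 5) (nat_lit 28) (nat_lit 5) (nat_lit 29) (nat_lit 4) (nat_lit 367) (nat_lit 312) (nat_lit 221)) (XT.nd (nat_lit 78) (nat_lit 152) (nat_lit 0) (XT.lf (nat_lit 0) (nat_lit 3429283563) (nat_lit 152) (nat_lit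 2998029416) (nat_lit 76) (nat_lit 34161128455) (nat_lit 26) (nat_lit 5) (nat_lit 28) (nat_lit 5) (nat_lit 27) (nat_lit 5) (nat_lit 368) (nat_lit 312) (nat_lit 220)) (XT.lf (nat_lit 0) (nat_lit 11857667557) (nat_lit 228) (nat_lit 26029443791) (nat_lit 76) (nat_lit 4193319238) (nat_lit 24) (nat_lit 5) (nat_lit 27) (nat_lit 5) (nat_lit 25) (nat_lit 4) (nat_lit 369) (nat_lit 312) (nat_lit 219)))))) (XT.nd (nat_lit 468) (nat_lit 304) (nat_lit 0) (XT.nd (nat_lit 234) (nat_lit 152) (nat_lit 0) (XT.nd (nat_lit 78) (nat_lit 76) (nat_lit 0) (XT.lf (nat_lit 0) (nat_lit 20853324690) (nat_lit 228) (nat_lit 7614272998) (nat_lit 76) (nat_lit 15172132324) (nat_lit 24) (nat_lit 5) (nat_lit 27) (nat_lit 5) (nat_lit 25) (nat_lit 4) (nat_lit 370) (nat_lit 312) (nat_lit 218)) (XT.nd (nat_lit 78) (nat_lit 0) (nat_lit 0) (XT.lf (nat_lit 0) (nat_lit 12089418999) (nat_lit 76) (nat_lit 18387507516) (nat_lit 152)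 (nat_lit 14791163151) (nat_lit 23) (nat_lit 5) (nat_lit 24) (nat_lit 5) (nat_lit 25) (nat_lit 4) (nat_lit 371) (nat_lit 312) (nat_lit 217)) (XT.lf (nat_lit 0) (nat_lit 33023780979) (nat_lit 76) (nat_lit 7676500621) (nat_lit 152) (nat_lit 6271660231) (nat_lit 23) (nat_lit 5) (nat_lit 24) (nat_lit 5) (nat_lit 25) (nat_lit 4) (nat_lit 372) (nat_lit 312) (nat_lit 216)))) (XT.nd (nat_lit 78) (nat_lit 0) (nat_lit 0) (XT.lf (nat_lit 0) (nat_lit 2735858274) (nat_lit 152) (nat_lit 42424054767) (nat_lit 76) (nat_lit 3591608201) (nat_lit 21) (nat_lit 5) (nat_lit 23) (nat_lit 5) (nat_lit 22) (nat_lit 4) (nat_lit 373) (nat_lit 312) (nat_lit 215)) (XT.nd (nat_lit 78) (nat_lit 0) (nat_lit 0) (XT.lf (nat_lit 0) (nat_lit 12338940430) (nat_lit 152) (nat_lit 22758050304) (nat_lit 76) (nat_lit 15500153106) (nat_lit 21) (nat_lit 5) (nat_lit 23) (nat_lit 5) (nat_lit 22) (nat_lit 4) (nat_lit 374) (nat_lit 312)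 (nat_lit 214)) (XT.lf (nat_lit 0) (nat_lit 22412672951) (nat_lit 152) (nat_lit 2126245264) (nat_lit 76) (nat_lit 27996607165) (nat_lit 21) (nat_lit 5) (nat_lit 23) (nat_lit 5) (nat_lit 22) (nat_lit 4) (nat_lit 375) (nat_lit 312) (nat_lit 213))))) (XT.nd (nat_lit 234) (nat_lit 152) (nat_lit 0) (XT.nd (nat_lit 78) (nat_lit 76) (nat_lit 0) (XT.lf (nat_lit 0) (nat_lit 20165919045) (nat_lit 76) (nat_lit 13129968378) (nat_lit 152) (nat_lit 21259651305) (nat_lit 20) (nat_lit 5) (nat_lit 21) (nat_lit 5) (nat_lit 22) (nat_lit 4) (nat_lit 376) (nat_lit 312) (nat_lit 212)) (XT.nd (nat_lit 78) (nat_lit 76) (nat_lit 0) (XT.lf (nat_lit 0) (nat_lit 43630112489) (nat_lit 76) (nat_lit 1120282937) (nat_lit 152) (nat_lit 11924803058) (nat_lit 20) (nat_lit 5) (nat_lit 21) (nat_lit 5) (nat_lit 22) (nat_lit 4) (nat_lit 377) (nat_lit 312) (nat_lit 211)) (XT.lf (nat_lit 0) (nat_lit 9474601681) (nat_lit 76) (nat_lit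 47621776216) (nat_lit 76) (nat_lit 1788528141) (nat_lit 19) (nat_lit 4) (nat_lit 20) (nat_lit 5) (nat_lit 20) (nat_lit 4) (nat_lit 378) (nat_lit 312) (nat_lit 210)))) (XT.nd (nat_lit 78) (nat_lit 76) (nat_lit 0) (XT.lf (nat_lit 0) (nat_lit 8805529141) (nat_lit 152) (nat_lit 27797071923) (nat_lit 76) (nat_lit 24583869243) (nat_lit 18) (nat_lit 5) (nat_lit 20) (nat_lit 5) (nat_lit 19) (nat_lit 4) (nat_lit 379) (nat_lit 312) (nat_lit 209)) (XT.nd (nat_lit 78) (nat_lit 76) (nat_lit 0) (XT.lf (nat_lit 0) (nat_lit 19861047774) (nat_lit 152) (nat_lit 5147695475) (nat_lit 76) (nat_lit 38593312253) (nat_lit 18) (nat_lit 5) (nat_lit 20) (nat_lit 5) (nat_lit 19) (nat_lit 4) (nat_lit 380) (nat_lit 312) (nat_lit 208)) (XT.lf (nat_lit 0) (nat_lit 19235326587) (nat_lit 76) (nat_lit 12526585260) (nat_lit 152) (nat_lit 34361881500) (nat_lit 17) (nat_lit 5) (nat_lit 18) (nat_lit 5) (nat_lit 19) (nat_lit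 4) (nat_lit 381) (nat_lit 312) (nat_lit 207))))))) (XT.nd (nat_lit 936) (nat_lit 228) (nat_lit 0) (XT.nd (nat_lit 468) (nat_lit 228) (nat_lit 0) (XT.nd (nat_lit 234) (nat_lit 152) (nat_lit 0) (XT.nd (nat_lit 78) (nat_lit 76) (nat_lit 0) (XT.lf (nat_lit 0) (nat_lit 44347772547) (nat_lit 152) (nat_lit 23776041149) (nat_lit 0) (nat_lit 643308491) (nat_lit 17) (nat_lit 5) (nat_lit 19) (nat_lit 4) (nat_lit 17) (nat_lit 4) (nat_lit 382) (nat_lit 312) (nat_lit 206)) (XT.nd (nat_lit 78) (nat_lit 0) (nat_lit 0) (XT.lf (nat_lit 0) (nat_lit 281845542) (nat_lit 76) (nat_lit 57483497007) (nat_lit 76) (nat_lit 13767155800) (nat_lit 16) (nat_lit 4) (nat_lit 17) (nat_lit 5) (nat_lit 17) (nat_lit 4) (nat_lit 383) (nat_lit 312) (nat_lit 205)) (XT.lf (nat_lit 0) (nat_lit 26354472887) (nat_lit 76) (nat_lit 45894775964) (nat_lit 76) (nat_lit 2167123186) (nat_lit 16) (nat_lit 4) (nat_lit 17) (nat_lit 5) (nat_lit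 17) (nat_lit 4) (nat_lit 384) (nat_lit 312) (nat_lit 204)))) (XT.nd (nat_lit 78) (nat_lit 76) (nat_lit 0) (XT.lf (nat_lit 0) (nat_lit 9685463404) (nat_lit 152) (nat_lit 23883225725) (nat_lit 76) (nat_lit 43868283860) (nat_lit 15) (nat_lit 5) (nat_lit 17) (nat_lit 5) (nat_lit 16) (nat_lit 4) (nat_lit 385) (nat_lit 312) (nat_lit 203)) (XT.nd (nat_lit 78) (nat_lit 0) (nat_lit 0) (XT.lf (nat_lit 0) (nat_lit 1504446137) (nat_lit 76) (nat_lit 20570252287) (nat_lit 152) (nat_lit 58531288192) (nat_lit 14) (nat_lit 5) (nat_lit 15) (nat_lit 5) (nat_lit 16) (nat_lit 4) (nat_lit 386) (nat_lit 312) (nat_lit 202)) (XT.lf (nat_lit 0) (nat_lit 28978315549) (nat_lit 76) (nat_lit 6503036911) (nat_lit 152) (nat_lit 48432201927) (nat_lit 14) (nat_lit 5) (nat_lit 15) (nat_lit 5) (nat_lit 16) (nat_lit 4) (nat_lit 387) (nat_lit 312) (nat_lit 201))))) (XT.nd (nat_lit 234) (nat_lit 152) (nat_lit 0) (XT.nd (nat_lit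 78) (nat_lit 76) (nat_lit 0) (XT.lf (nat_lit 0) (nat_lit 49681125403) (nat_lit 152) (nat_lit 29701695551) (nat_lit 0) (nat_lit 7997541543) (nat_lit 14) (nat_lit 5) (nat_lit 16) (nat_lit 4) (nat_lit 14) (nat_lit 4) (nat_lit 388) (nat_lit 312) (nat_lit 200)) (XT.nd (nat_lit 78) (nat_lit 76) (nat_lit 0) (XT.lf (nat_lit 0) (nat_lit 64691500583) (nat_lit 152) (nat_lit 3324505098) (nat_lit 0) (nat_lit 22999475854) (nat_lit 14) (nat_lit 5) (nat_lit 16) (nat_lit 4) (nat_lit 14) (nat_lit 4) (nat_lit 389) (nat_lit 312) (nat_lit 199)) (XT.lf (nat_lit 0) (nat_lit 25166139618) (nat_lit 76) (nat_lit 55673460707) (nat_lit 76) (nat_lit 13973397055) (nat_lit 13) (nat_lit 4) (nat_lit 14) (nat_lit 5) (nat_lit 14) (nat_lit 4) (nat_lit 390) (nat_lit 312) (nat_lit 198)))) (XT.nd (nat_lit 78) (nat_lit 152) (nat_lit 0) (XT.lf (nat_lit 0) (nat_lit 55186032454) (nat_lit 76) (nat_lit 42659771245) (nat_lit 76) (nat_lit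 952051475) (nat_lit 13) (nat_lit 4) (nat_lit 14) (nat_lit 5) (nat_lit 14) (nat_lit 4) (nat_lit 391) (nat_lit 312) (nat_lit 197)) (XT.nd (nat_lit 78) (nat_lit 76) (nat_lit 0) (XT.lf (nat_lit 0) (nat_lit 12307805261) (nat_lit 152) (nat_lit 16484010522) (nat_lit 76) (nat_lit 74180482294) (nat_lit 12) (nat_lit 5) (nat_lit 14) (nat_lit 5) (nat_lit 13) (nat_lit 4) (nat_lit 392) (nat_lit 312) (nat_lit 196)) (XT.lf (nat_lit 0) (nat_lit 12370642601) (nat_lit 76) (nat_lit 14015990684) (nat_lit 152) (nat_lit 80958651733) (nat_lit 11) (nat_lit 5) (nat_lit 12) (nat_lit 5) (nat_lit 13) (nat_lit 4) (nat_lit 393) (nat_lit 312) (nat_lit 195)))))) (XT.nd (nat_lit 468) (nat_lit 152) (nat_lit 0) (XT.nd (nat_lit 234) (nat_lit 76) (nat_lit 0) (XT.nd (nat_lit 78) (nat_lit 0) (nat_lit 0) (XT.lf (nat_lit 0) (nat_lit 41471396540) (nat_lit 152) (nat_lit 68720523978) (nat_lit 0) (nat_lit 1729901992) (nat_lit 11) (nat_lit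 5) (nat_lit 13) (nat_lit 4) (nat_lit 11) (nat_lit 4) (nat_lit 394) (nat_lit 312) (nat_lit 194)) (XT.nd (nat_lit 78) (nat_lit 0) (nat_lit 0) (XT.lf (nat_lit 0) (nat_lit 57535268219) (nat_lit 152) (nat_lit 41392901094) (nat_lit 0) (nat_lit 17787774903) (nat_lit 11) (nat_lit 5) (nat_lit 13) (nat_lit 4) (nat_lit 11) (nat_lit 4) (nat_lit 395) (nat_lit 312) (nat_lit 193)) (XT.lf (nat_lit 0) (nat_lit 74397666743) (nat_lit 152) (nat_lit 12707879102) (nat_lit 0) (nat_lit 34644460314) (nat_lit 11) (nat_lit 5) (nat_lit 13) (nat_lit 4) (nat_lit 11) (nat_lit 4) (nat_lit 396) (nat_lit 312) (nat_lit 192)))) (XT.nd (nat_lit 78) (nat_lit 0) (nat_lit 0) (XT.lf (nat_lit 0) (nat_lit 17978256141) (nat_lit 76) (nat_lit 74401175499) (nat_lit 76) (nat_lit 34642528011) (nat_lit 10) (nat_lit 4) (nat_lit 11) (nat_lit 5) (nat_lit 11) (nat_lit 4) (nat_lit 397) (nat_lit 312) (nat_lit 191)) (XT.nd (nat_lit 78) (nat_lit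 0) (nat_lit 0) (XT.lf (nat_lit 0) (nat_lit 50631470667) (nat_lit 76) (nat_lit 60839663924) (nat_lit 76) (nat_lit 21075834474) (nat_lit 10) (nat_lit 4) (nat_lit 11) (nat_lit 5) (nat_lit 11) (nat_lit 4) (nat_lit 398) (nat_lit 312) (nat_lit 190)) (XT.lf (nat_lit 0) (nat_lit 84909330349) (nat_lit 76) (nat_lit 46603935889) (nat_lit 76) (nat_lit 6835171237) (nat_lit 10) (nat_lit 4) (nat_lit 11) (nat_lit 5) (nat_lit 11) (nat_lit 4) (nat_lit 399) (nat_lit 312) (nat_lit 189))))) (XT.nd (nat_lit 234) (nat_lit 0) (nat_lit 0) (XT.nd (nat_lit 78) (nat_lit 76) (nat_lit 0) (XT.lf (nat_lit 0) (nat_lit 7853689594) (nat_lit 152) (nat_lit 23673401173) (nat_lit 76) (nat_lit 112906753513) (nat_lit 9) (nat_lit 5) (nat_lit 11) (nat_lit 5) (nat_lit 10) (nat_lit 4) (nat_lit 400) (nat_lit 312) (nat_lit 188)) (XT.nd (nat_lit 78) (nat_lit 0) (nat_lit 0) (XT.lf (nat_lit 0) (nat_lit 7707839404) (nat_lit 76) (nat_lit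 15455956020) (nat_lit 152) (nat_lit 127648298583) (nat_lit 8) (nat_lit 5) (nat_lit 9) (nat_lit 5) (nat_lit 10) (nat_lit 4) (nat_lit 401) (nat_lit 312) (nat_lit 187)) (XT.lf (nat_lit 0) (nat_lit 39665231495) (nat_lit 152) (nat_lit 116045316302) (nat_lit 0) (nat_lit 1777417753) (nat_lit 8) (nat_lit 5) (nat_lit 10) (nat_lit 4) (nat_lit 8) (nat_lit 4) (nat_lit 402) (nat_lit 312) (nat_lit 186)))) (XT.nd (nat_lit 78) (nat_lit 0) (nat_lit 0) (XT.lf (nat_lit 0) (nat_lit 57241479071) (nat_lit 152) (nat_lit 87893866695) (nat_lit 0) (nat_lit 19349798470) (nat_lit 8) (nat_lit 5) (nat_lit 10) (nat_lit 4) (nat_lit 8) (nat_lit 4) (nat_lit 403) (nat_lit 312) (nat_lit 185)) (XT.nd (nat_lit 78) (nat_lit 0) (nat_lit 0) (XT.lf (nat_lit 0) (nat_lit 75693075572) (nat_lit 152) (nat_lit 58341567735) (nat_lit 0) (nat_lit 37797712247) (nat_lit 8) (nat_lit 5) (nat_lit 10) (nat_lit 4) (nat_lit 8) (nat_lit 4) (nat_lit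 404) (nat_lit 312) (nat_lit 184)) (XT.lf (nat_lit 0) (nat_lit 95063953370) (nat_lit 152) (nat_lit 27318056803) (nat_lit 0) (nat_lit 57165082690) (nat_lit 8) (nat_lit 5) (nat_lit 10) (nat_lit 4) (nat_lit 8) (nat_lit 4) (nat_lit 405) (nat_lit 312) (nat_lit 183))))))))
noncomputable def xc135 : XT := (XT.nd (nat_lit 1872) (nat_lit 152) (nat_lit 0) (XT.nd (nat_lit 936) (nat_lit 76) (nat_lit 0) (XT.nd (nat_lit 468) (nat_lit 76) (nat_lit 0) (XT.nd (nat_lit 234) (nat_lit 76) (nat_lit 0) (XT.nd (nat_lit 78) (nat_lit 0) (nat_lit 0) (XT.lf (nat_lit 0) (nat_lit 5424137888) (nat_lit 76) (nat_lit 110060781708) (nat_lit 76) (nat_lit 72158570689) (nat_lit 7) (nat_lit 4) (nat_lit 8) (nat_lit 5) (nat_lit 8) (nat_lit 4) (nat_lit 406) (nat_lit 312) (nat_lit 182)) (XT.nd (nat_lit 78) (nat_lit 0) (nat_lit 0) (XT.lf (nat_lit 0) (nat_lit 40745863843) (nat_lit 76) (nat_lit 96640629267) (nat_lit 76) (nat_lit 58735236973)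 (nat_lit 7) (nat_lit 4) (nat_lit 8) (nat_lit 5) (nat_lit 8) (nat_lit 4) (nat_lit 407) (nat_lit 312) (nat_lit 181)) (XT.lf (nat_lit 0) (nat_lit 77827962079) (nat_lit 76) (nat_lit 82552244616) (nat_lit 76) (nat_lit 44643822537) (nat_lit 7) (nat_lit 4) (nat_lit 8) (nat_lit 5) (nat_lit 8) (nat_lit 4) (nat_lit 408) (nat_lit 312) (nat_lit 180)))) (XT.nd (nat_lit 78) (nat_lit 76) (nat_lit 0) (XT.lf (nat_lit 0) (nat_lit 116758723307) (nat_lit 76) (nat_lit 67762083983) (nat_lit 76) (nat_lit 29850776394) (nat_lit 7) (nat_lit 4) (nat_lit 8) (nat_lit 5) (nat_lit 8) (nat_lit 4) (nat_lit 409) (nat_lit 312) (nat_lit 179)) (XT.nd (nat_lit 78) (nat_lit 76) (nat_lit 0) (XT.lf (nat_lit 0) (nat_lit 157630839814) (nat_lit 76) (nat_lit 52234932699) (nat_lit 76) (nat_lit 14320877005) (nat_lit 7) (nat_lit 4) (nat_lit 8) (nat_lit 5) (nat_lit 8) (nat_lit 4) (nat_lit 410) (nat_lit 312) (nat_lit 178)) (XT.lf (nat_lit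 0) (nat_lit 1919387945) (nat_lit 152) (nat_lit 33981927648) (nat_lit 76) (nat_lit 198589732455) (nat_lit 6) (nat_lit 5) (nat_lit 8) (nat_lit 5) (nat_lit 7) (nat_lit 4) (nat_lit 411) (nat_lit 312) (nat_lit 177))))) (XT.nd (nat_lit 234) (nat_lit 0) (nat_lit 0) (XT.nd (nat_lit 78) (nat_lit 76) (nat_lit 0) (XT.lf (nat_lit 0) (nat_lit 18487933196) (nat_lit 152) (nat_lit 18902496) (nat_lit 76) (nat_lit 226792215606) (nat_lit 6) (nat_lit 5) (nat_lit 8) (nat_lit 5) (nat_lit 7) (nat_lit 4) (nat_lit 412) (nat_lit 312) (nat_lit 176)) (XT.nd (nat_lit 78) (nat_lit 0) (nat_lit 0) (XT.lf (nat_lit 0) (nat_lit 36462967334) (nat_lit 152) (nat_lit 219808369152) (nat_lit 0) (nat_lit 347215463) (nat_lit 5) (nat_lit 5) (nat_lit 7) (nat_lit 4) (nat_lit 5) (nat_lit 4) (nat_lit 413) (nat_lit 312) (nat_lit 175)) (XT.lf (nat_lit 0) (nat_lit 55638136171) (nat_lit 152) (nat_lit 193330591532) (nat_lit 0) (nat_lit 19520231088)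 (nat_lit 5) (nat_lit 5) (nat_lit 7) (nat_lit 4) (nat_lit 5) (nat_lit 4) (nat_lit 414) (nat_lit 312) (nat_lit 174)))) (XT.nd (nat_lit 78) (nat_lit 0) (nat_lit 0) (XT.lf (nat_lit 0) (nat_lit 75769841422) (nat_lit 152) (nat_lit 165533270285) (nat_lit 0) (nat_lit 39649885661) (nat_lit 5) (nat_lit 5) (nat_lit 7) (nat_lit 4) (nat_lit 5) (nat_lit 4) (nat_lit 415) (nat_lit 312) (nat_lit 173)) (XT.nd (nat_lit 78) (nat_lit 0) (nat_lit 0) (XT.lf (nat_lit 0) (nat_lit 96906015719) (nat_lit 152) (nat_lit 136350221312) (nat_lit 0) (nat_lit 60784106931) (nat_lit 5) (nat_lit 5) (nat_lit 7) (nat_lit 4) (nat_lit 5) (nat_lit 4) (nat_lit 416) (nat_lit 312) (nat_lit 172)) (XT.lf (nat_lit 0) (nat_lit 119096983287) (nat_lit 152) (nat_lit 105711961163) (nat_lit 0) (nat_lit 82973214474) (nat_lit 5) (nat_lit 5) (nat_lit 7) (nat_lit 4) (nat_lit 5) (nat_lit 4) (nat_lit 417) (nat_lit 312) (nat_lit 171)))))) (XT.nd (nat_lit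 468) (nat_lit 0) (nat_lit 0) (XT.nd (nat_lit 234) (nat_lit 76) (nat_lit 0) (XT.nd (nat_lit 78) (nat_lit 0) (nat_lit 0) (XT.lf (nat_lit 0) (nat_lit 142395579763) (nat_lit 152) (nat_lit 73545541600) (nat_lit 0) (nat_lit 106270039496) (nat_lit 5) (nat_lit 5) (nat_lit 7) (nat_lit 4) (nat_lit 5) (nat_lit 4) (nat_lit 418) (nat_lit 312) (nat_lit 170)) (XT.nd (nat_lit 78) (nat_lit 0) (nat_lit 0) (XT.lf (nat_lit 0) (nat_lit 166857277995) (nat_lit 152) (nat_lit 39774375910) (nat_lit 0) (nat_lit 130730050630) (nat_lit 5) (nat_lit 5) (nat_lit 7) (nat_lit 4) (nat_lit 5) (nat_lit 4) (nat_lit 419) (nat_lit 312) (nat_lit 169)) (XT.lf (nat_lit 0) (nat_lit 192540320122) (nat_lit 152) (nat_lit 4318056554) (nat_lit 0) (nat_lit 156411485998) (nat_lit 5) (nat_lit 5) (nat_lit 7) (nat_lit 4) (nat_lit 5) (nat_lit 4) (nat_lit 420) (nat_lit 312) (nat_lit 168)))) (XT.nd (nat_lit 78) (nat_lit 0) (nat_lit 0) (XT.lf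 (nat_lit 0) (nat_lit 33995917956) (nat_lit 76) (nat_lit 186040709841) (nat_lit 76) (nat_lit 149910345469) (nat_lit 4) (nat_lit 4) (nat_lit 5) (nat_lit 5) (nat_lit 5) (nat_lit 4) (nat_lit 421) (nat_lit 312) (nat_lit 167)) (XT.nd (nat_lit 78) (nat_lit 0) (nat_lit 0) (XT.lf (nat_lit 0) (nat_lit 74372314169) (nat_lit 76) (nat_lit 174606936102) (nat_lit 76) (nat_lit 138475114352) (nat_lit 4) (nat_lit 4) (nat_lit 5) (nat_lit 5) (nat_lit 5) (nat_lit 4) (nat_lit 422) (nat_lit 312) (nat_lit 166)) (XT.lf (nat_lit 0) (nat_lit 116764491911) (nat_lit 76) (nat_lit 162602960568) (nat_lit 76) (nat_lit 126469750838) (nat_lit 4) (nat_lit 4) (nat_lit 5) (nat_lit 5) (nat_lit 5) (nat_lit 4) (nat_lit 423) (nat_lit 312) (nat_lit 165))))) (XT.nd (nat_lit 234) (nat_lit 0) (nat_lit 0) (XT.nd (nat_lit 78) (nat_lit 0) (nat_lit 0) (XT.lf (nat_lit 0) (nat_lit 161273384937) (nat_lit 76) (nat_lit 150000202343) (nat_lit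 76) (nat_lit 113865670728) (nat_lit 4) (nat_lit 4) (nat_lit 5) (nat_lit 5) (nat_lit 5) (nat_lit 4) (nat_lit 424) (nat_lit 312) (nat_lit 164)) (XT.nd (nat_lit 78) (nat_lit 0) (nat_lit 0) (XT.lf (nat_lit 0) (nat_lit 208004966803) (nat_lit 76) (nat_lit 136768654861) (nat_lit 76) (nat_lit 100632864307) (nat_lit 4) (nat_lit 4) (nat_lit 5) (nat_lit 5) (nat_lit 5) (nat_lit 4) (nat_lit 425) (nat_lit 312) (nat_lit 163)) (XT.lf (nat_lit 0) (nat_lit 257070503179) (nat_lit 76) (nat_lit 122876814437) (nat_lit 76) (nat_lit 86739824894) (nat_lit 4) (nat_lit 4) (nat_lit 5) (nat_lit 5) (nat_lit 5) (nat_lit 4) (nat_lit 426) (nat_lit 312) (nat_lit 162)))) (XT.nd (nat_lit 78) (nat_lit 0) (nat_lit 0) (XT.lf (nat_lit 0) (nat_lit 308586816771) (nat_lit 76) (nat_lit 108291605261) (nat_lit 76) (nat_lit 72153473824) (nat_lit 4) (nat_lit 4) (nat_lit 5) (nat_lit 5) (nat_lit 5) (nat_lit 4) (nat_lit 427) (nat_lit 312)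 (nat_lit 161)) (XT.nd (nat_lit 78) (nat_lit 0) (nat_lit 0) (XT.lf (nat_lit 0) (nat_lit 362676565470) (nat_lit 76) (nat_lit 92978300644) (nat_lit 76) (nat_lit 56839081688) (nat_lit 4) (nat_lit 4) (nat_lit 5) (nat_lit 5) (nat_lit 5) (nat_lit 4) (nat_lit 428) (nat_lit 312) (nat_lit 160)) (XT.lf (nat_lit 0) (nat_lit 419468534390) (nat_lit 76) (nat_lit 76900440337) (nat_lit 76) (nat_lit 40760185650) (nat_lit 4) (nat_lit 4) (nat_lit 5) (nat_lit 5) (nat_lit 5) (nat_lit 4) (nat_lit 429) (nat_lit 312) (nat_lit 159))))))) (XT.nd (nat_lit 38376) (nat_lit 0) (nat_lit 6004) (XT.nd (nat_lit 37908) (nat_lit 0) (nat_lit 8436) (XT.nd (nat_lit 234) (nat_lit 76) (nat_lit 0) (XT.nd (nat_lit 78) (nat_lit 76) (nat_lit 0) (XT.lf (nat_lit 0) (nat_lit 479097942505) (nat_lit 76) (nat_lit 60019743721) (nat_lit 76) (nat_lit 23878502622) (nat_lit 4) (nat_lit 4) (nat_lit 5) (nat_lit 5) (nat_lit 5) (nat_lit 4) (nat_lit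 430) (nat_lit 312) (nat_lit 158)) (XT.nd (nat_lit 78) (nat_lit 76) (nat_lit 0) (XT.lf (nat_lit 0) (nat_lit 541706764597) (nat_lit 76) (nat_lit 42296018659) (nat_lit 76) (nat_lit 6153838121) (nat_lit 4) (nat_lit 4) (nat_lit 5) (nat_lit 5) (nat_lit 5) (nat_lit 4) (nat_lit 431) (nat_lit 312) (nat_lit 157)) (XT.lf (nat_lit 0) (nat_lit 12057339342) (nat_lit 152) (nat_lit 11425529589) (nat_lit 76) (nat_lit 595182533071) (nat_lit 3) (nat_lit 5) (nat_lit 5) (nat_lit 5) (nat_lit 4) (nat_lit 4) (nat_lit 432) (nat_lit 312) (nat_lit 156)))) (XT.nd (nat_lit 37518) (nat_lit 0) (nat_lit 8968) (XT.lf (nat_lit 0) (nat_lit 28251457059) (nat_lit 76) (nat_lit 3160925574) (nat_lit 152) (nat_lit 617160189197) (nat_lit 2) (nat_lit 5) (nat_lit 3) (nat_lit 5) (nat_lit 4) (nat_lit 4) (nat_lit 433) (nat_lit 312) (nat_lit 155)) (XT.nd (nat_lit 78) (nat_lit 0) (nat_lit 0) (XT.lf (nat_lit 0) (nat_lit 1186245964) (nat_lit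 684) (nat_lit 1511109870) (nat_lit 684) (nat_lit 1511109870) (nat_lit 120) (nat_lit 3) (nat_lit 129) (nat_lit 3) (nat_lit 129) (nat_lit 5) (nat_lit 313) (nat_lit 313) (nat_lit 274)) (XT.lf (nat_lit 76) (nat_lit 1013629901) (nat_lit 0) (nat_lit 2451995195) (nat_lit 684) (nat_lit 5108791764) (nat_lit 121) (nat_lit 5) (nat_lit 120) (nat_lit 3) (nat_lit 129) (nat_lit 5) (nat_lit 314) (nat_lit 313) (nat_lit 273))))) (XT.nd (nat_lit 234) (nat_lit 608) (nat_lit 0) (XT.nd (nat_lit 78) (nat_lit 0) (nat_lit 0) (XT.lf (nat_lit 0) (nat_lit 4610152208) (nat_lit 608) (nat_lit 3431041535) (nat_lit 684) (nat_lit 698825786) (nat_lit 121) (nat_lit 5) (nat_lit 129) (nat_lit 5) (nat_lit 130) (nat_lit 5) (nat_lit 315) (nat_lit 313) (nat_lit 272)) (XT.nd (nat_lit 78) (nat_lit 0) (nat_lit 0) (XT.lf (nat_lit 76) (nat_lit 855004812) (nat_lit 0) (nat_lit 4948310083) (nat_lit 684) (nat_lit 3111092986) (nat_lit 122)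 (nat_lit 5) (nat_lit 121) (nat_lit 5) (nat_lit 130) (nat_lit 5) (nat_lit 316) (nat_lit 313) (nat_lit 271)) (XT.lf (nat_lit 76) (nat_lit 5437718795) (nat_lit 0) (nat_lit 1616771893) (nat_lit 684) (nat_lit 2043179604) (nat_lit 122) (nat_lit 5) (nat_lit 121) (nat_lit 5) (nat_lit 130) (nat_lit 5) (nat_lit 317) (nat_lit 313) (nat_lit 270)))) (XT.nd (nat_lit 78) (nat_lit 684) (nat_lit 0) (XT.lf (nat_lit 76) (nat_lit 921329108) (nat_lit 0) (nat_lit 7434089632) (nat_lit 684) (nat_lit 935386353) (nat_lit 123) (nat_lit 5) (nat_lit 122) (nat_lit 5) (nat_lit 131) (nat_lit 5) (nat_lit 318) (nat_lit 313) (nat_lit 269)) (XT.nd (nat_lit 78) (nat_lit 0) (nat_lit 0) (XT.lf (nat_lit 0) (nat_lit 254594689) (nat_lit 684) (nat_lit 3702372103) (nat_lit 760) (nat_lit 5534810096) (nat_lit 113) (nat_lit 5) (nat_lit 122) (nat_lit 5) (nat_lit 123) (nat_lit 5) (nat_lit 319) (nat_lit 313) (nat_lit 268)) (XT.lf (nat_lit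 76) (nat_lit 1182961102) (nat_lit 0) (nat_lit 255372115) (nat_lit 760) (nat_lit 8265472225) (nat_lit 114) (nat_lit 5) (nat_lit 113) (nat_lit 5) (nat_lit 123) (nat_lit 5) (nat_lit 320) (nat_lit 313) (nat_lit 267)))))) (XT.nd (nat_lit 468) (nat_lit 1140) (nat_lit 0) (XT.nd (nat_lit 234) (nat_lit 1368) (nat_lit 0) (XT.nd (nat_lit 78) (nat_lit 0) (nat_lit 0) (XT.lf (nat_lit 0) (nat_lit 2751057147) (nat_lit 684) (nat_lit 3579784717) (nat_lit 760) (nat_lit 3592160353) (nat_lit 114) (nat_lit 5) (nat_lit 123) (nat_lit 5) (nat_lit 124) (nat_lit 5) (nat_lit 321) (nat_lit 313) (nat_lit 266)) (XT.nd (nat_lit 78) (nat_lit 0) (nat_lit 76) (XT.lf (nat_lit 76) (nat_lit 1617963896) (nat_lit 0) (nat_lit 2492685817) (nat_lit 760) (nat_lit 6043501516) (nat_lit 115) (nat_lit 5) (nat_lit 114) (nat_lit 5) (nat_lit 124) (nat_lit 5) (nat_lit 322) (nat_lit 313) (nat_lit 265)) (XT.lf (nat_lit 0) (nat_lit 5577484691)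 (nat_lit 684) (nat_lit 3258810731) (nat_lit 76) (nat_lit 1558650578) (nat_lit 115) (nat_lit 5) (nat_lit 124) (nat_lit 5) (nat_lit 116) (nat_lit 5) (nat_lit 323) (nat_lit 313) (nat_lit 264)))) (XT.nd (nat_lit 78) (nat_lit 760) (nat_lit 0) (XT.lf (nat_lit 0) (nat_lit 2276460867) (nat_lit 684) (nat_lit 4873454524) (nat_lit 760) (nat_lit 3496301415) (nat_lit 106) (nat_lit 5) (nat_lit 115) (nat_lit 5) (nat_lit 116) (nat_lit 5) (nat_lit 324) (nat_lit 313) (nat_lit 263)) (XT.nd (nat_lit 78) (nat_lit 760) (nat_lit 0) (XT.lf (nat_lit 0) (nat_lit 8164275936) (nat_lit 684) (nat_lit 649248753) (nat_lit 760) (nat_lit 2095945273) (nat_lit 106) (nat_lit 5) (nat_lit 115) (nat_lit 5) (nat_lit 116) (nat_lit 5) (nat_lit 325) (nat_lit 313) (nat_lit 262)) (XT.lf (nat_lit 0) (nat_lit 3165052076) (nat_lit 760) (nat_lit 7463266454) (nat_lit 836) (nat_lit 554211484) (nat_lit 96) (nat_lit 5) (nat_lit 106) (nat_lit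 5) (nat_lit 107) (nat_lit 5) (nat_lit 326) (nat_lit 313) (nat_lit 261))))) (XT.nd (nat_lit 234) (nat_lit 684) (nat_lit 0) (XT.nd (nat_lit 78) (nat_lit 380) (nat_lit 0) (XT.lf (nat_lit 0) (nat_lit 1048574617) (nat_lit 836) (nat_lit 2067310413) (nat_lit 76) (nat_lit 8351665283) (nat_lit 95) (nat_lit 5) (nat_lit 106) (nat_lit 5) (nat_lit 96) (nat_lit 5) (nat_lit 327) (nat_lit 313) (nat_lit 260)) (XT.nd (nat_lit 78) (nat_lit 0) (nat_lit 0) (XT.lf (nat_lit 0) (nat_lit 2765486894) (nat_lit 456) (nat_lit 7517512927) (nat_lit 76) (nat_lit 1480775325) (nat_lit 90) (nat_lit 5) (nat_lit 96) (nat_lit 5) (nat_lit 91) (nat_lit 5) (nat_lit 328) (nat_lit 313) (nat_lit 259)) (XT.lf (nat_lit 0) (nat_lit 4618205507) (nat_lit 456) (nat_lit 1215370010) (nat_lit 76) (nat_lit 6238774230) (nat_lit 90) (nat_lit 5) (nat_lit 96) (nat_lit 5) (nat_lit 91) (nat_lit 5) (nat_lit 329) (nat_lit 313) (nat_lit 258)))) (XT.nd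 (nat_lit 78) (nat_lit 380) (nat_lit 0) (XT.lf (nat_lit 0) (nat_lit 5543161420) (nat_lit 304) (nat_lit 1071986521) (nat_lit 380) (nat_lit 5778660561) (nat_lit 86) (nat_lit 5) (nat_lit 90) (nat_lit 5) (nat_lit 91) (nat_lit 5) (nat_lit 330) (nat_lit 313) (nat_lit 257)) (XT.nd (nat_lit 78) (nat_lit 380) (nat_lit 0) (XT.lf (nat_lit 0) (nat_lit 8760306446) (nat_lit 380) (nat_lit 147406767) (nat_lit 76) (nat_lit 3821241698) (nat_lit 86) (nat_lit 5) (nat_lit 91) (nat_lit 5) (nat_lit 87) (nat_lit 5) (nat_lit 331) (nat_lit 313) (nat_lit 256)) (XT.lf (nat_lit 0) (nat_lit 7064038708) (nat_lit 380) (nat_lit 4044286704) (nat_lit 456) (nat_lit 1967784687) (nat_lit 81) (nat_lit 5) (nat_lit 86) (nat_lit 5) (nat_lit 87) (nat_lit 5) (nat_lit 332) (nat_lit 313) (nat_lit 255))))))))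
noncomputable def xc136 : XT := (XT.nd (nat_lit 1794) (nat_lit 1444) (nat_lit 0) (XT.nd (nat_lit 858) (nat_lit 1520) (nat_lit 0) (XT.nd (nat_lit 390) (nat_lit 836) (nat_lit 0) (XT.nd (nat_lit 156) (nat_lit 532) (nat_lit 0) (XT.nd (nat_lit 78) (nat_lit 0) (nat_lit 0) (XT.lf (nat_lit 0) (nat_lit 135242643) (nat_lit 380) (nat_lit 12256965966) (nat_lit 76) (nat_lit 1048020106) (nat_lit 76) (nat_lit 5) (nat_lit 81) (nat_lit 5) (nat_lit 77) (nat_lit 5) (nat_lit 333) (nat_lit 313) (nat_lit 254)) (XT.lf (nat_lit 0) (nat_lit 2416157119) (nat_lit 380) (nat_lit 5007504055) (nat_lit 76) (nat_lit 6390363122) (nat_lit 76) (nat_lit 5) (nat_lit 81) (nat_lit 5) (nat_lit 77) (nat_lit 5) (nat_lit 334) (nat_lit 313) (nat_lit 253))) (XT.nd (nat_lit 78) (nat_lit 228) (nat_lit 0) (XT.lf (nat_lit 0) (nat_lit 2654237297) (nat_lit 304) (nat_lit 2168872475) (nat_lit 380) (nat_lit 9382826245) (nat_lit 72) (nat_lit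 5) (nat_lit 76) (nat_lit 5) (nat_lit 77) (nat_lit 5) (nat_lit 335) (nat_lit 313) (nat_lit 252)) (XT.nd (nat_lit 78) (nat_lit 228) (nat_lit 0) (XT.lf (nat_lit 0) (nat_lit 7460207886) (nat_lit 380) (nat_lit 3829899671) (nat_lit 76) (nat_lit 3321870622) (nat_lit 72) (nat_lit 5) (nat_lit 77) (nat_lit 5) (nat_lit 73) (nat_lit 5) (nat_lit 336) (nat_lit 313) (nat_lit 251)) (XT.lf (nat_lit 0) (nat_lit 4347348355) (nat_lit 228) (nat_lit 5957928972) (nat_lit 304) (nat_lit 4729262870) (nat_lit 69) (nat_lit 5) (nat_lit 72) (nat_lit 5) (nat_lit 73) (nat_lit 5) (nat_lit 337) (nat_lit 313) (nat_lit 250))))) (XT.nd (nat_lit 234) (nat_lit 456) (nat_lit 0) (XT.nd (nat_lit 78) (nat_lit 380) (nat_lit 0) (XT.lf (nat_lit 0) (nat_lit 13032748329) (nat_lit 228) (nat_lit 298174809) (nat_lit 304) (nat_lit 2145413477) (nat_lit 69) (nat_lit 5) (nat_lit 72) (nat_lit 5) (nat_lit 73) (nat_lit 5) (nat_lit 338) (nat_lit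 313) (nat_lit 249)) (XT.nd (nat_lit 78) (nat_lit 0) (nat_lit 0) (XT.lf (nat_lit 0) (nat_lit 713064931) (nat_lit 380) (nat_lit 9651489432) (nat_lit 76) (nat_lit 5567065529) (nat_lit 64) (nat_lit 5) (nat_lit 69) (nat_lit 5) (nat_lit 65) (nat_lit 5) (nat_lit 339) (nat_lit 313) (nat_lit 248)) (XT.lf (nat_lit 0) (nat_lit 3664209956) (nat_lit 380) (nat_lit 957028908) (nat_lit 76) (nat_lit 11785597188) (nat_lit 64) (nat_lit 5) (nat_lit 69) (nat_lit 5) (nat_lit 65) (nat_lit 5) (nat_lit 340) (nat_lit 313) (nat_lit 247)))) (XT.nd (nat_lit 78) (nat_lit 228) (nat_lit 0) (XT.lf (nat_lit 0) (nat_lit 6894322776) (nat_lit 304) (nat_lit 8515151394) (nat_lit 76) (nat_lit 1489786789) (nat_lit 61) (nat_lit 5) (nat_lit 65) (nat_lit 5) (nat_lit 62) (nat_lit 5) (nat_lit 341) (nat_lit 313) (nat_lit 246)) (XT.nd (nat_lit 78) (nat_lit 0) (nat_lit 0) (XT.lf (nat_lit 0) (nat_lit 724701793) (nat_lit 228) (nat_lit 9641393695)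 (nat_lit 304) (nat_lit 7046221499) (nat_lit 58) (nat_lit 5) (nat_lit 61) (nat_lit 5) (nat_lit 62) (nat_lit 5) (nat_lit 342) (nat_lit 313) (nat_lit 245)) (XT.lf (nat_lit 0) (nat_lit 10690195126) (nat_lit 228) (nat_lit 3442692693) (nat_lit 304) (nat_lit 3812083197) (nat_lit 58) (nat_lit 5) (nat_lit 61) (nat_lit 5) (nat_lit 62) (nat_lit 5) (nat_lit 343) (nat_lit 313) (nat_lit 244)))))) (XT.nd (nat_lit 468) (nat_lit 836) (nat_lit 0) (XT.nd (nat_lit 234) (nat_lit 152) (nat_lit 0) (XT.nd (nat_lit 78) (nat_lit 304) (nat_lit 0) (XT.lf (nat_lit 0) (nat_lit 2655406738) (nat_lit 228) (nat_lit 15500109911) (nat_lit 304) (nat_lit 345382206) (nat_lit 55) (nat_lit 5) (nat_lit 58) (nat_lit 5) (nat_lit 59) (nat_lit 5) (nat_lit 344) (nat_lit 313) (nat_lit 243)) (XT.nd (nat_lit 78) (nat_lit 228) (nat_lit 0) (XT.lf (nat_lit 0) (nat_lit 3348883198) (nat_lit 304) (nat_lit 5907045851) (nat_lit 76) (nat_lit 9818152622)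 (nat_lit 54) (nat_lit 5) (nat_lit 58) (nat_lit 5) (nat_lit 55) (nat_lit 5) (nat_lit 345) (nat_lit 313) (nat_lit 242)) (XT.lf (nat_lit 0) (nat_lit 4641067344) (nat_lit 228) (nat_lit 2627041763) (nat_lit 304) (nat_lit 12404952484) (nat_lit 51) (nat_lit 5) (nat_lit 54) (nat_lit 5) (nat_lit 55) (nat_lit 5) (nat_lit 346) (nat_lit 313) (nat_lit 241)))) (XT.nd (nat_lit 78) (nat_lit 152) (nat_lit 0) (XT.lf (nat_lit 0) (nat_lit 11532393037) (nat_lit 304) (nat_lit 4475136494) (nat_lit 76) (nat_lit 4287019265) (nat_lit 51) (nat_lit 5) (nat_lit 55) (nat_lit 5) (nat_lit 52) (nat_lit 5) (nat_lit 347) (nat_lit 313) (nat_lit 240)) (XT.nd (nat_lit 78) (nat_lit 0) (nat_lit 0) (XT.lf (nat_lit 0) (nat_lit 6753589565) (nat_lit 152) (nat_lit 9385537236) (nat_lit 228) (nat_lit 4801534275) (nat_lit 49) (nat_lit 5) (nat_lit 51) (nat_lit 5) (nat_lit 52) (nat_lit 5) (nat_lit 348) (nat_lit 313) (nat_lit 239)) (XT.lf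 (nat_lit 0) (nat_lit 18670521990) (nat_lit 152) (nat_lit 2362662078) (nat_lit 228) (nat_lit 583057465) (nat_lit 49) (nat_lit 5) (nat_lit 51) (nat_lit 5) (nat_lit 52) (nat_lit 5) (nat_lit 349) (nat_lit 313) (nat_lit 238))))) (XT.nd (nat_lit 234) (nat_lit 380) (nat_lit 0) (XT.nd (nat_lit 78) (nat_lit 152) (nat_lit 0) (XT.lf (nat_lit 0) (nat_lit 3927867740) (nat_lit 304) (nat_lit 13338072229) (nat_lit 76) (nat_lit 5046437654) (nat_lit 45) (nat_lit 5) (nat_lit 49) (nat_lit 5) (nat_lit 46) (nat_lit 5) (nat_lit 350) (nat_lit 313) (nat_lit 237)) (XT.nd (nat_lit 78) (nat_lit 152) (nat_lit 0) (XT.lf (nat_lit 0) (nat_lit 8716259955) (nat_lit 304) (nat_lit 1525481317) (nat_lit 76) (nat_lit 12797535846) (nat_lit 45) (nat_lit 5) (nat_lit 49) (nat_lit 5) (nat_lit 46) (nat_lit 5) (nat_lit 351) (nat_lit 313) (nat_lit 236)) (XT.lf (nat_lit 0) (nat_lit 11209713146) (nat_lit 152) (nat_lit 2692305225) (nat_lit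 228) (nat_lit 9892615681) (nat_lit 43) (nat_lit 5) (nat_lit 45) (nat_lit 5) (nat_lit 46) (nat_lit 5) (nat_lit 352) (nat_lit 313) (nat_lit 235)))) (XT.nd (nat_lit 78) (nat_lit 380) (nat_lit 0) (XT.lf (nat_lit 0) (nat_lit 19438230813) (nat_lit 228) (nat_lit 61054431) (nat_lit 76) (nat_lit 5083924609) (nat_lit 43) (nat_lit 5) (nat_lit 46) (nat_lit 5) (nat_lit 44) (nat_lit 5) (nat_lit 353) (nat_lit 313) (nat_lit 234)) (XT.nd (nat_lit 78) (nat_lit 152) (nat_lit 0) (XT.lf (nat_lit 0) (nat_lit 87157324) (nat_lit 228) (nat_lit 11951161474) (nat_lit 76) (nat_lit 13360929072) (nat_lit 40) (nat_lit 5) (nat_lit 43) (nat_lit 5) (nat_lit 41) (nat_lit 5) (nat_lit 354) (nat_lit 313) (nat_lit 233)) (XT.lf (nat_lit 0) (nat_lit 1310454386) (nat_lit 152) (nat_lit 4103135841) (nat_lit 228) (nat_lit 20838008683) (nat_lit 38) (nat_lit 5) (nat_lit 40) (nat_lit 5) (nat_lit 41) (nat_lit 5) (nat_lit 355) (nat_lit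 313) (nat_lit 232))))))) (XT.nd (nat_lit 936) (nat_lit 608) (nat_lit 0) (XT.nd (nat_lit 468) (nat_lit 380) (nat_lit 0) (XT.nd (nat_lit 234) (nat_lit 304) (nat_lit 0) (XT.nd (nat_lit 78) (nat_lit 152) (nat_lit 0) (XT.lf (nat_lit 0) (nat_lit 11262374181) (nat_lit 228) (nat_lit 11581828931) (nat_lit 76) (nat_lit 4289570593) (nat_lit 38) (nat_lit 5) (nat_lit 41) (nat_lit 5) (nat_lit 39) (nat_lit 5) (nat_lit 356) (nat_lit 313) (nat_lit 231)) (XT.nd (nat_lit 78) (nat_lit 0) (nat_lit 0) (XT.lf (nat_lit 0) (nat_lit 2431134436) (nat_lit 152) (nat_lit 15062721547) (nat_lit 228) (nat_lit 10561695630) (nat_lit 36) (nat_lit 5) (nat_lit 38) (nat_lit 5) (nat_lit 39) (nat_lit 5) (nat_lit 357) (nat_lit 313) (nat_lit 230)) (XT.lf (nat_lit 0) (nat_lit 17522377001) (nat_lit 152) (nat_lit 6696046619) (nat_lit 228) (nat_lit 4795926170) (nat_lit 36) (nat_lit 5) (nat_lit 38) (nat_lit 5) (nat_lit 39) (nat_lit 5)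 (nat_lit 358) (nat_lit 313) (nat_lit 229)))) (XT.nd (nat_lit 78) (nat_lit 152) (nat_lit 0) (XT.lf (nat_lit 0) (nat_lit 1290638727) (nat_lit 152) (nat_lit 26638904933) (nat_lit 76) (nat_lit 2086929630) (nat_lit 34) (nat_lit 5) (nat_lit 36) (nat_lit 5) (nat_lit 35) (nat_lit 5) (nat_lit 359) (nat_lit 313) (nat_lit 228)) (XT.nd (nat_lit 78) (nat_lit 152) (nat_lit 0) (XT.lf (nat_lit 0) (nat_lit 7813931774) (nat_lit 152) (nat_lit 11884934098) (nat_lit 76) (nat_lit 11351233293) (nat_lit 34) (nat_lit 5) (nat_lit 36) (nat_lit 5) (nat_lit 35) (nat_lit 5) (nat_lit 360) (nat_lit 313) (nat_lit 227)) (XT.lf (nat_lit 0) (nat_lit 3702435748) (nat_lit 152) (nat_lit 11005416806) (nat_lit 228) (nat_lit 17425336351) (nat_lit 32) (nat_lit 5) (nat_lit 34) (nat_lit 5) (nat_lit 35) (nat_lit 5) (nat_lit 361) (nat_lit 313) (nat_lit 226))))) (XT.nd (nat_lit 234) (nat_lit 228) (nat_lit 0) (XT.nd (nat_lit 78) (nat_lit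 152) (nat_lit 0) (XT.lf (nat_lit 0) (nat_lit 20459359318) (nat_lit 152) (nat_lit 1675329959) (nat_lit 228) (nat_lit 11126338314) (nat_lit 32) (nat_lit 5) (nat_lit 34) (nat_lit 5) (nat_lit 35) (nat_lit 5) (nat_lit 362) (nat_lit 313) (nat_lit 225)) (XT.nd (nat_lit 78) (nat_lit 76) (nat_lit 0) (XT.lf (nat_lit 0) (nat_lit 3574633637) (nat_lit 76) (nat_lit 26528265051) (nat_lit 152) (nat_lit 4333863174) (nat_lit 31) (nat_lit 5) (nat_lit 32) (nat_lit 5) (nat_lit 33) (nat_lit 4) (nat_lit 363) (nat_lit 313) (nat_lit 224)) (XT.lf (nat_lit 0) (nat_lit 2943977382) (nat_lit 152) (nat_lit 14542872268) (nat_lit 76) (nat_lit 18170488358) (nat_lit 30) (nat_lit 5) (nat_lit 32) (nat_lit 5) (nat_lit 31) (nat_lit 5) (nat_lit 364) (nat_lit 313) (nat_lit 223)))) (XT.nd (nat_lit 78) (nat_lit 76) (nat_lit 0) (XT.lf (nat_lit 0) (nat_lit 2583100281) (nat_lit 152) (nat_lit 7885370676) (nat_lit 228) (nat_lit 26465503783)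 (nat_lit 28) (nat_lit 5) (nat_lit 30) (nat_lit 5) (nat_lit 31) (nat_lit 5) (nat_lit 365) (nat_lit 313) (nat_lit 222)) (XT.nd (nat_lit 78) (nat_lit 76) (nat_lit 0) (XT.lf (nat_lit 0) (nat_lit 18641992378) (nat_lit 228) (nat_lit 17251175324) (nat_lit 76) (nat_lit 2367639722) (nat_lit 28) (nat_lit 5) (nat_lit 31) (nat_lit 5) (nat_lit 29) (nat_lit 4) (nat_lit 366) (nat_lit 313) (nat_lit 221)) (XT.lf (nat_lit 0) (nat_lit 572578308) (nat_lit 76) (nat_lit 26778568508) (nat_lit 152) (nat_lit 12296491146) (nat_lit 27) (nat_lit 5) (nat_lit 28) (nat_lit 5) (nat_lit 29) (nat_lit 4) (nat_lit 367) (nat_lit 313) (nat_lit 220)))))) (XT.nd (nat_lit 468) (nat_lit 304) (nat_lit 0) (XT.nd (nat_lit 234) (nat_lit 76) (nat_lit 0) (XT.nd (nat_lit 78) (nat_lit 228) (nat_lit 0) (XT.lf (nat_lit 0) (nat_lit 19866775696) (nat_lit 76) (nat_lit 16910118031) (nat_lit 152) (nat_lit 4312863439) (nat_lit 27) (nat_lit 5)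 (nat_lit 28) (nat_lit 5) (nat_lit 29) (nat_lit 4) (nat_lit 368) (nat_lit 313) (nat_lit 219)) (XT.nd (nat_lit 78) (nat_lit 152) (nat_lit 0) (XT.lf (nat_lit 0) (nat_lit 3929008929) (nat_lit 152) (nat_lit 2560928364) (nat_lit 76) (nat_lit 36111405042) (nat_lit 26) (nat_lit 5) (nat_lit 28) (nat_lit 5) (nat_lit 27) (nat_lit 5) (nat_lit 369) (nat_lit 313) (nat_lit 218)) (XT.lf (nat_lit 0) (nat_lit 12776192703) (nat_lit 228) (nat_lit 26741191074) (nat_lit 76) (nat_lit 4650683285) (nat_lit 24) (nat_lit 5) (nat_lit 27) (nat_lit 5) (nat_lit 25) (nat_lit 4) (nat_lit 370) (nat_lit 313) (nat_lit 217)))) (XT.nd (nat_lit 78) (nat_lit 76) (nat_lit 0) (XT.lf (nat_lit 0) (nat_lit 22206125943) (nat_lit 228) (nat_lit 7433343880) (nat_lit 76) (nat_lit 16166641878) (nat_lit 24) (nat_lit 5) (nat_lit 27) (nat_lit 5) (nat_lit 25) (nat_lit 4) (nat_lit 371) (nat_lit 313) (nat_lit 216)) (XT.nd (nat_lit 78) (nat_lit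 0) (nat_lit 0) (XT.lf (nat_lit 0) (nat_lit 13246473962) (nat_lit 76) (nat_lit 19058292947) (nat_lit 152) (nat_lit 15211434145) (nat_lit 23) (nat_lit 5) (nat_lit 24) (nat_lit 5) (nat_lit 25) (nat_lit 4) (nat_lit 372) (nat_lit 313) (nat_lit 215)) (XT.lf (nat_lit 0) (nat_lit 35201240517) (nat_lit 76) (nat_lit 7823573324) (nat_lit 152) (nat_lit 6281160230) (nat_lit 23) (nat_lit 5) (nat_lit 24) (nat_lit 5) (nat_lit 25) (nat_lit 4) (nat_lit 373) (nat_lit 313) (nat_lit 214))))) (XT.nd (nat_lit 234) (nat_lit 152) (nat_lit 0) (XT.nd (nat_lit 78) (nat_lit 0) (nat_lit 0) (XT.lf (nat_lit 0) (nat_lit 3164949262) (nat_lit 152) (nat_lit 44007036694) (nat_lit 76) (nat_lit 4002415770) (nat_lit 21) (nat_lit 5) (nat_lit 23) (nat_lit 5) (nat_lit 22) (nat_lit 4) (nat_lit 374) (nat_lit 313) (nat_lit 213)) (XT.nd (nat_lit 78) (nat_lit 0) (nat_lit 0) (XT.lf (nat_lit 0) (nat_lit 13234266570) (nat_lit 152) (nat_lit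 23383361571) (nat_lit 76) (nat_lit 16495377103) (nat_lit 21) (nat_lit 5) (nat_lit 23) (nat_lit 5) (nat_lit 22) (nat_lit 4) (nat_lit 375) (nat_lit 313) (nat_lit 212)) (XT.lf (nat_lit 0) (nat_lit 23798429568) (nat_lit 152) (nat_lit 1744375386) (nat_lit 76) (nat_lit 29606167372) (nat_lit 21) (nat_lit 5) (nat_lit 23) (nat_lit 5) (nat_lit 22) (nat_lit 4) (nat_lit 376) (nat_lit 313) (nat_lit 211)))) (XT.nd (nat_lit 78) (nat_lit 76) (nat_lit 0) (XT.lf (nat_lit 0) (nat_lit 21654523234) (nat_lit 76) (nat_lit 13566155585) (nat_lit 152) (nat_lit 22049567305) (nat_lit 20) (nat_lit 5) (nat_lit 21) (nat_lit 5) (nat_lit 22) (nat_lit 4) (nat_lit 377) (nat_lit 313) (nat_lit 210)) (XT.nd (nat_lit 78) (nat_lit 76) (nat_lit 0) (XT.lf (nat_lit 0) (nat_lit 46269054529) (nat_lit 76) (nat_lit 966476882) (nat_lit 152) (nat_lit 12260979815) (nat_lit 20) (nat_lit 5) (nat_lit 21) (nat_lit 5) (nat_lit 22) (nat_lit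 4) (nat_lit 378) (nat_lit 313) (nat_lit 209)) (XT.lf (nat_lit 0) (nat_lit 10407413550) (nat_lit 76) (nat_lit 49789895647) (nat_lit 76) (nat_lit 1619473311) (nat_lit 19) (nat_lit 4) (nat_lit 20) (nat_lit 5) (nat_lit 20) (nat_lit 4) (nat_lit 379) (nat_lit 313) (nat_lit 208))))))))
noncomputable def xc137 : XT := (XT.nd (nat_lit 1794) (nat_lit 304) (nat_lit 0) (XT.nd (nat_lit 858) (nat_lit 456) (nat_lit 0) (XT.nd (nat_lit 390) (nat_lit 152) (nat_lit 0) (XT.nd (nat_lit 156) (nat_lit 152) (nat_lit 0) (XT.nd (nat_lit 78) (nat_lit 0) (nat_lit 0) (XT.lf (nat_lit 0) (nat_lit 9484099143) (nat_lit 152) (nat_lit 28741768377) (nat_lit 76) (nat_lit 26007954291) (nat_lit 18) (nat_lit 5) (nat_lit 20) (nat_lit 5) (nat_lit 19) (nat_lit 4) (nat_lit 380) (nat_lit 313) (nat_lit 207)) (XT.lf (nat_lit 0) (nat_lit 21081046397) (nat_lit 152) (nat_lit 4981121065) (nat_lit 76) (nat_lit 40708588900) (nat_lit 18) (nat_lit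 5) (nat_lit 20) (nat_lit 5) (nat_lit 19) (nat_lit 4) (nat_lit 381) (nat_lit 313) (nat_lit 206))) (XT.nd (nat_lit 78) (nat_lit 76) (nat_lit 0) (XT.lf (nat_lit 0) (nat_lit 20614214049) (nat_lit 76) (nat_lit 12958445091) (nat_lit 152) (nat_lit 35846139286) (nat_lit 17) (nat_lit 5) (nat_lit 18) (nat_lit 5) (nat_lit 19) (nat_lit 4) (nat_lit 382) (nat_lit 313) (nat_lit 205)) (XT.nd (nat_lit 78) (nat_lit 76) (nat_lit 0) (XT.lf (nat_lit 0) (nat_lit 46780102044) (nat_lit 152) (nat_lit 24559824628) (nat_lit 0) (nat_lit 854755055) (nat_lit 17) (nat_lit 5) (nat_lit 19) (nat_lit 4) (nat_lit 17) (nat_lit 4) (nat_lit 383) (nat_lit 313) (nat_lit 204)) (XT.lf (nat_lit 0) (nat_lit 694423840) (nat_lit 76) (nat_lit 60170112909) (nat_lit 76) (nat_lit 14233992994) (nat_lit 16) (nat_lit 4) (nat_lit 17) (nat_lit 5) (nat_lit 17) (nat_lit 4) (nat_lit 384) (nat_lit 313) (nat_lit 203))))) (XT.nd (nat_lit 234) (nat_lit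 0) (nat_lit 0) (XT.nd (nat_lit 78) (nat_lit 152) (nat_lit 0) (XT.lf (nat_lit 0) (nat_lit 28051707028) (nat_lit 76) (nat_lit 48010887193) (nat_lit 76) (nat_lit 2064507348) (nat_lit 16) (nat_lit 4) (nat_lit 17) (nat_lit 5) (nat_lit 17) (nat_lit 4) (nat_lit 385) (nat_lit 313) (nat_lit 202)) (XT.nd (nat_lit 78) (nat_lit 76) (nat_lit 0) (XT.lf (nat_lit 0) (nat_lit 10364231407) (nat_lit 152) (nat_lit 24709476819) (nat_lit 76) (nat_lit 46225347923) (nat_lit 15) (nat_lit 5) (nat_lit 17) (nat_lit 5) (nat_lit 16) (nat_lit 4) (nat_lit 386) (nat_lit 313) (nat_lit 201)) (XT.lf (nat_lit 0) (nat_lit 1941644600) (nat_lit 76) (nat_lit 21427673382) (nat_lit 152) (nat_lit 61257384927) (nat_lit 14) (nat_lit 5) (nat_lit 15) (nat_lit 5) (nat_lit 16) (nat_lit 4) (nat_lit 387) (nat_lit 313) (nat_lit 200)))) (XT.nd (nat_lit 78) (nat_lit 0) (nat_lit 0) (XT.lf (nat_lit 0) (nat_lit 30771970523) (nat_lit 76) (nat_lit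 6665244452) (nat_lit 152) (nat_lit 50662890428) (nat_lit 14) (nat_lit 5) (nat_lit 15) (nat_lit 5) (nat_lit 16) (nat_lit 4) (nat_lit 388) (nat_lit 313) (nat_lit 199)) (XT.nd (nat_lit 78) (nat_lit 0) (nat_lit 0) (XT.lf (nat_lit 0) (nat_lit 52340742540) (nat_lit 152) (nat_lit 30852188059) (nat_lit 0) (nat_lit 8547636782) (nat_lit 14) (nat_lit 5) (nat_lit 16) (nat_lit 4) (nat_lit 14) (nat_lit 4) (nat_lit 389) (nat_lit 313) (nat_lit 198)) (XT.lf (nat_lit 0) (nat_lit 68093276437) (nat_lit 152) (nat_lit 3172071049) (nat_lit 0) (nat_lit 24292514562) (nat_lit 14) (nat_lit 5) (nat_lit 16) (nat_lit 4) (nat_lit 14) (nat_lit 4) (nat_lit 390) (nat_lit 313) (nat_lit 197)))))) (XT.nd (nat_lit 468) (nat_lit 228) (nat_lit 0) (XT.nd (nat_lit 234) (nat_lit 76) (nat_lit 0) (XT.nd (nat_lit 78) (nat_lit 76) (nat_lit 0) (XT.lf (nat_lit 0) (nat_lit 26737966236) (nat_lit 76) (nat_lit 58307747906) (nat_lit 76) (nat_lit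 14499694491) (nat_lit 13) (nat_lit 4) (nat_lit 14) (nat_lit 5) (nat_lit 14) (nat_lit 4) (nat_lit 391) (nat_lit 313) (nat_lit 196)) (XT.nd (nat_lit 78) (nat_lit 76) (nat_lit 0) (XT.lf (nat_lit 0) (nat_lit 58243924208) (nat_lit 76) (nat_lit 44650487582) (nat_lit 76) (nat_lit 835489842) (nat_lit 13) (nat_lit 4) (nat_lit 14) (nat_lit 5) (nat_lit 14) (nat_lit 4) (nat_lit 392) (nat_lit 313) (nat_lit 195)) (XT.lf (nat_lit 0) (nat_lit 13074538312) (nat_lit 152) (nat_lit 17018807840) (nat_lit 76) (nat_lit 78019972111) (nat_lit 12) (nat_lit 5) (nat_lit 14) (nat_lit 5) (nat_lit 13) (nat_lit 4) (nat_lit 393) (nat_lit 313) (nat_lit 194)))) (XT.nd (nat_lit 78) (nat_lit 0) (nat_lit 0) (XT.lf (nat_lit 0) (nat_lit 13273910145) (nat_lit 76) (nat_lit 14580636309) (nat_lit 152) (nat_lit 84850547473) (nat_lit 11) (nat_lit 5) (nat_lit 12) (nat_lit 5) (nat_lit 13) (nat_lit 4) (nat_lit 394) (nat_lit 313) (nat_lit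 193)) (XT.nd (nat_lit 78) (nat_lit 0) (nat_lit 0) (XT.lf (nat_lit 0) (nat_lit 43688497081) (nat_lit 152) (nat_lit 71880297785) (nat_lit 0) (nat_lit 1941917218) (nat_lit 11) (nat_lit 5) (nat_lit 13) (nat_lit 4) (nat_lit 11) (nat_lit 4) (nat_lit 395) (nat_lit 313) (nat_lit 192)) (XT.lf (nat_lit 0) (nat_lit 60548727549) (nat_lit 152) (nat_lit 43199448633) (nat_lit 0) (nat_lit 18796706626) (nat_lit 11) (nat_lit 5) (nat_lit 13) (nat_lit 4) (nat_lit 11) (nat_lit 4) (nat_lit 396) (nat_lit 313) (nat_lit 191))))) (XT.nd (nat_lit 234) (nat_lit 152) (nat_lit 0) (XT.nd (nat_lit 78) (nat_lit 76) (nat_lit 0) (XT.lf (nat_lit 0) (nat_lit 78247736669) (nat_lit 152) (nat_lit 13092703994) (nat_lit 0) (nat_lit 36490533785) (nat_lit 11) (nat_lit 5) (nat_lit 13) (nat_lit 4) (nat_lit 11) (nat_lit 4) (nat_lit 397) (nat_lit 313) (nat_lit 190)) (XT.nd (nat_lit 78) (nat_lit 0) (nat_lit 0) (XT.lf (nat_lit 0) (nat_lit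 19123696574) (nat_lit 76) (nat_lit 78002542863) (nat_lit 76) (nat_lit 36240404778) (nat_lit 10) (nat_lit 4) (nat_lit 11) (nat_lit 5) (nat_lit 11) (nat_lit 4) (nat_lit 398) (nat_lit 313) (nat_lit 189)) (XT.lf (nat_lit 0) (nat_lit 53397832415) (nat_lit 76) (nat_lit 63768607681) (nat_lit 76) (nat_lit 22001769404) (nat_lit 10) (nat_lit 4) (nat_lit 11) (nat_lit 5) (nat_lit 11) (nat_lit 4) (nat_lit 399) (nat_lit 313) (nat_lit 188)))) (XT.nd (nat_lit 78) (nat_lit 152) (nat_lit 0) (XT.lf (nat_lit 0) (nat_lit 89378404691) (nat_lit 76) (nat_lit 48826476074) (nat_lit 76) (nat_lit 7055161424) (nat_lit 10) (nat_lit 4) (nat_lit 11) (nat_lit 5) (nat_lit 11) (nat_lit 4) (nat_lit 400) (nat_lit 313) (nat_lit 187)) (XT.nd (nat_lit 78) (nat_lit 76) (nat_lit 0) (XT.lf (nat_lit 0) (nat_lit 8358632195) (nat_lit 152) (nat_lit 24640381862) (nat_lit 76) (nat_lit 118650891755) (nat_lit 9) (nat_lit 5) (nat_lit 11)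 (nat_lit 5) (nat_lit 10) (nat_lit 4) (nat_lit 401) (nat_lit 313) (nat_lit 186)) (XT.lf (nat_lit 0) (nat_lit 8306425755) (nat_lit 76) (nat_lit 16125800498) (nat_lit 152) (nat_lit 133914943471) (nat_lit 8) (nat_lit 5) (nat_lit 9) (nat_lit 5) (nat_lit 10) (nat_lit 4) (nat_lit 402) (nat_lit 313) (nat_lit 185))))))) (XT.nd (nat_lit 936) (nat_lit 76) (nat_lit 0) (XT.nd (nat_lit 468) (nat_lit 152) (nat_lit 0) (XT.nd (nat_lit 234) (nat_lit 76) (nat_lit 0) (XT.nd (nat_lit 78) (nat_lit 0) (nat_lit 0) (XT.lf (nat_lit 0) (nat_lit 41755015401) (nat_lit 152) (nat_lit 121640804998) (nat_lit 0) (nat_lit 1961201187) (nat_lit 8) (nat_lit 5) (nat_lit 10) (nat_lit 4) (nat_lit 8) (nat_lit 4) (nat_lit 403) (nat_lit 313) (nat_lit 184)) (XT.nd (nat_lit 78) (nat_lit 0) (nat_lit 0) (XT.lf (nat_lit 0) (nat_lit 60205002864) (nat_lit 152) (nat_lit 92091629441) (nat_lit 0) (nat_lit 20407681294) (nat_lit 8) (nat_lit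 5) (nat_lit 10) (nat_lit 4) (nat_lit 8) (nat_lit 4) (nat_lit 404) (nat_lit 313) (nat_lit 183)) (XT.lf (nat_lit 0) (nat_lit 79574348245) (nat_lit 152) (nat_lit 61071093179) (nat_lit 0) (nat_lit 39773686337) (nat_lit 8) (nat_lit 5) (nat_lit 10) (nat_lit 4) (nat_lit 8) (nat_lit 4) (nat_lit 405) (nat_lit 313) (nat_lit 182)))) (XT.nd (nat_lit 78) (nat_lit 76) (nat_lit 0) (XT.lf (nat_lit 0) (nat_lit 99909169033) (nat_lit 152) (nat_lit 28505337794) (nat_lit 0) (nat_lit 60105325850) (nat_lit 8) (nat_lit 5) (nat_lit 10) (nat_lit 4) (nat_lit 8) (nat_lit 4) (nat_lit 406) (nat_lit 313) (nat_lit 181)) (XT.nd (nat_lit 78) (nat_lit 0) (nat_lit 0) (XT.lf (nat_lit 0) (nat_lit 5871085634) (nat_lit 76) (nat_lit 115478459934) (nat_lit 76) (nat_lit 75671586966) (nat_lit 7) (nat_lit 4) (nat_lit 8) (nat_lit 5) (nat_lit 8) (nat_lit 4) (nat_lit 407) (nat_lit 313) (nat_lit 180)) (XT.lf (nat_lit 0) (nat_lit 42950529275)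 (nat_lit 76) (nat_lit 101391364674) (nat_lit 76) (nat_lit 61581606195) (nat_lit 7) (nat_lit 4) (nat_lit 8) (nat_lit 5) (nat_lit 8) (nat_lit 4) (nat_lit 408) (nat_lit 313) (nat_lit 179))))) (XT.nd (nat_lit 234) (nat_lit 152) (nat_lit 0) (XT.nd (nat_lit 78) (nat_lit 0) (nat_lit 0) (XT.lf (nat_lit 0) (nat_lit 81878762316) (nat_lit 76) (nat_lit 86602432031) (nat_lit 76) (nat_lit 46789925448) (nat_lit 7) (nat_lit 4) (nat_lit 8) (nat_lit 5) (nat_lit 8) (nat_lit 4) (nat_lit 409) (nat_lit 313) (nat_lit 178)) (XT.nd (nat_lit 78) (nat_lit 0) (nat_lit 0) (XT.lf (nat_lit 0) (nat_lit 122748471027) (nat_lit 76) (nat_lit 71076450262) (nat_lit 76) (nat_lit 31261326437) (nat_lit 7) (nat_lit 4) (nat_lit 8) (nat_lit 5) (nat_lit 8) (nat_lit 4) (nat_lit 410) (nat_lit 313) (nat_lit 177)) (XT.lf (nat_lit 0) (nat_lit 165656964238) (nat_lit 76) (nat_lit 54776452744) (nat_lit 76) (nat_lit 14958836306) (nat_lit 7)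 (nat_lit 4) (nat_lit 8) (nat_lit 5) (nat_lit 8) (nat_lit 4) (nat_lit 411) (nat_lit 313) (nat_lit 176)))) (XT.nd (nat_lit 78) (nat_lit 76) (nat_lit 0) (XT.lf (nat_lit 0) (nat_lit 2087343396) (nat_lit 152) (nat_lit 35540936391) (nat_lit 76) (nat_lit 208583711462) (nat_lit 6) (nat_lit 5) (nat_lit 8) (nat_lit 5) (nat_lit 7) (nat_lit 4) (nat_lit 412) (nat_lit 313) (nat_lit 175)) (XT.nd (nat_lit 78) (nat_lit 0) (nat_lit 0) (XT.lf (nat_lit 0) (nat_lit 117324288) (nat_lit 76) (nat_lit 19365395475) (nat_lit 152) (nat_lit 238077755176) (nat_lit 5) (nat_lit 5) (nat_lit 6) (nat_lit 5) (nat_lit 7) (nat_lit 4) (nat_lit 413) (nat_lit 313) (nat_lit 174)) (XT.lf (nat_lit 0) (nat_lit 38354456589) (nat_lit 152) (nat_lit 230665144573) (nat_lit 0) (nat_lit 426452362) (nat_lit 5) (nat_lit 5) (nat_lit 7) (nat_lit 4) (nat_lit 5) (nat_lit 4) (nat_lit 414) (nat_lit 313) (nat_lit 173)))))) (XT.nd (nat_lit 468) (nat_lit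 76) (nat_lit 0) (XT.nd (nat_lit 234) (nat_lit 0) (nat_lit 0) (XT.nd (nat_lit 78) (nat_lit 0) (nat_lit 0) (XT.lf (nat_lit 0) (nat_lit 58485129539) (nat_lit 152) (nat_lit 202869842026) (nat_lit 0) (nat_lit 20555172285) (nat_lit 5) (nat_lit 5) (nat_lit 7) (nat_lit 4) (nat_lit 5) (nat_lit 4) (nat_lit 415) (nat_lit 313) (nat_lit 172)) (XT.nd (nat_lit 78) (nat_lit 0) (nat_lit 0) (XT.lf (nat_lit 0) (nat_lit 79620320693) (nat_lit 152) (nat_lit 173688715625) (nat_lit 0) (nat_lit 41688503414) (nat_lit 5) (nat_lit 5) (nat_lit 7) (nat_lit 4) (nat_lit 5) (nat_lit 4) (nat_lit 416) (nat_lit 313) (nat_lit 171)) (XT.lf (nat_lit 0) (nat_lit 101810351934) (nat_lit 152) (nat_lit 143052286498) (nat_lit 0) (nat_lit 63876763201) (nat_lit 5) (nat_lit 5) (nat_lit 7) (nat_lit 4) (nat_lit 5) (nat_lit 4) (nat_lit 417) (nat_lit 313) (nat_lit 170)))) (XT.nd (nat_lit 78) (nat_lit 0) (nat_lit 0) (XT.lf (nat_lit 0) (nat_lit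 125108056669) (nat_lit 152) (nat_lit 110887610764) (nat_lit 0) (nat_lit 87172780839) (nat_lit 5) (nat_lit 5) (nat_lit 7) (nat_lit 4) (nat_lit 5) (nat_lit 4) (nat_lit 418) (nat_lit 313) (nat_lit 169)) (XT.nd (nat_lit 78) (nat_lit 0) (nat_lit 0) (XT.lf (nat_lit 0) (nat_lit 149568905625) (nat_lit 152) (nat_lit 77118105864) (nat_lit 0) (nat_lit 111632023035) (nat_lit 5) (nat_lit 5) (nat_lit 7) (nat_lit 4) (nat_lit 5) (nat_lit 4) (nat_lit 419) (nat_lit 313) (nat_lit 168)) (XT.lf (nat_lit 0) (nat_lit 175251138917) (nat_lit 152) (nat_lit 41663368214) (nat_lit 0) (nat_lit 137312726079) (nat_lit 5) (nat_lit 5) (nat_lit 7) (nat_lit 4) (nat_lit 5) (nat_lit 4) (nat_lit 420) (nat_lit 313) (nat_lit 167))))) (XT.nd (nat_lit 234) (nat_lit 0) (nat_lit 0) (XT.nd (nat_lit 78) (nat_lit 76) (nat_lit 0) (XT.lf (nat_lit 0) (nat_lit 202215904721) (nat_lit 152) (nat_lit 4438981771) (nat_lit 0) (nat_lit 164276034505)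 (nat_lit 5) (nat_lit 5) (nat_lit 7) (nat_lit 4) (nat_lit 5) (nat_lit 4) (nat_lit 421) (nat_lit 313) (nat_lit 166)) (XT.nd (nat_lit 78) (nat_lit 0) (nat_lit 0) (XT.lf (nat_lit 0) (nat_lit 35789159568) (nat_lit 76) (nat_lit 195297014371) (nat_lit 76) (nat_lit 157355756175) (nat_lit 4) (nat_lit 4) (nat_lit 5) (nat_lit 5) (nat_lit 5) (nat_lit 4) (nat_lit 422) (nat_lit 313) (nat_lit 165)) (XT.lf (nat_lit 0) (nat_lit 78179925796) (nat_lit 76) (nat_lit 183293729611) (nat_lit 76) (nat_lit 145351149529) (nat_lit 4) (nat_lit 4) (nat_lit 5) (nat_lit 5) (nat_lit 5) (nat_lit 4) (nat_lit 423) (nat_lit 313) (nat_lit 164)))) (XT.nd (nat_lit 78) (nat_lit 0) (nat_lit 0) (XT.lf (nat_lit 0) (nat_lit 122687474524) (nat_lit 76) (nat_lit 170691629266) (nat_lit 76) (nat_lit 132747790246) (nat_lit 4) (nat_lit 4) (nat_lit 5) (nat_lit 5) (nat_lit 5) (nat_lit 4) (nat_lit 424) (nat_lit 313) (nat_lit 163)) (XT.nd (nat_lit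 78) (nat_lit 0) (nat_lit 0) (XT.lf (nat_lit 0) (nat_lit 169417776105) (nat_lit 76) (nat_lit 157460708336) (nat_lit 76) (nat_lit 119515670327) (nat_lit 4) (nat_lit 4) (nat_lit 5) (nat_lit 5) (nat_lit 5) (nat_lit 4) (nat_lit 425) (nat_lit 313) (nat_lit 162)) (XT.lf (nat_lit 0) (nat_lit 218482093163) (nat_lit 76) (nat_lit 143569464629) (nat_lit 76) (nat_lit 105623284726) (nat_lit 4) (nat_lit 4) (nat_lit 5) (nat_lit 5) (nat_lit 5) (nat_lit 4) (nat_lit 426) (nat_lit 313) (nat_lit 161))))))))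
noncomputable def xc138 : XT := (XT.nd (nat_lit 39312) (nat_lit 0) (nat_lit 3040) (XT.nd (nat_lit 38376) (nat_lit 0) (nat_lit 6612) (XT.nd (nat_lit 390) (nat_lit 76) (nat_lit 0) (XT.nd (nat_lit 156) (nat_lit 0) (nat_lit 0) (XT.nd (nat_lit 78) (nat_lit 0) (nat_lit 0) (XT.lf (nat_lit 0) (nat_lit 269997245500) (nat_lit 76) (nat_lit 128984823754) (nat_lit 76) (nat_lit 91037556332) (nat_lit 4) (nat_lit 4) (nat_lit 5) (nat_lit 5) (nat_lit 5) (nat_lit 4) (nat_lit 427) (nat_lit 313) (nat_lit 160)) (XT.lf (nat_lit 0) (nat_lit 324085888241) (nat_lit 76) (nat_lit 113672060377) (nat_lit 76) (nat_lit 75723757223) (nat_lit 4) (nat_lit 4) (nat_lit 5) (nat_lit 5) (nat_lit 5) (nat_lit 4) (nat_lit 428) (nat_lit 313) (nat_lit 159))) (XT.nd (nat_lit 78) (nat_lit 0) (nat_lit 0) (XT.lf (nat_lit 0) (nat_lit 380876803868) (nat_lit 76) (nat_lit 97594715536) (nat_lit 76) (nat_lit 59645425971) (nat_lit 4) (nat_lit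 4) (nat_lit 5) (nat_lit 5) (nat_lit 5) (nat_lit 4) (nat_lit 429) (nat_lit 313) (nat_lit 158)) (XT.nd (nat_lit 78) (nat_lit 0) (nat_lit 0) (XT.lf (nat_lit 0) (nat_lit 440505208847) (nat_lit 76) (nat_lit 80714509839) (nat_lit 76) (nat_lit 42764280835) (nat_lit 4) (nat_lit 4) (nat_lit 5) (nat_lit 5) (nat_lit 5) (nat_lit 4) (nat_lit 430) (nat_lit 313) (nat_lit 157)) (XT.lf (nat_lit 0) (nat_lit 503113075571) (nat_lit 76) (nat_lit 62991252321) (nat_lit 76) (nat_lit 25040128613) (nat_lit 4) (nat_lit 4) (nat_lit 5) (nat_lit 5) (nat_lit 5) (nat_lit 4) (nat_lit 431) (nat_lit 313) (nat_lit 156))))) (XT.nd (nat_lit 37752) (nat_lit 0) (nat_lit 8892) (XT.nd (nat_lit 78) (nat_lit 76) (nat_lit 0) (XT.lf (nat_lit 0) (nat_lit 568849470389) (nat_lit 76) (nat_lit 44382744749) (nat_lit 76) (nat_lit 6430768941) (nat_lit 4) (nat_lit 4) (nat_lit 5) (nat_lit 5) (nat_lit 5) (nat_lit 4) (nat_lit 432) (nat_lit 313)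 (nat_lit 155)) (XT.nd (nat_lit 37596) (nat_lit 0) (nat_lit 8892) (XT.lf (nat_lit 0) (nat_lit 12688564918) (nat_lit 152) (nat_lit 11941229248) (nat_lit 76) (nat_lit 624967456623) (nat_lit 3) (nat_lit 5) (nat_lit 5) (nat_lit 5) (nat_lit 4) (nat_lit 4) (nat_lit 433) (nat_lit 313) (nat_lit 154)) (XT.lf (nat_lit 0) (nat_lit 2247659769) (nat_lit 684) (nat_lit 1059948410) (nat_lit 684) (nat_lit 1059948410) (nat_lit 120) (nat_lit 3) (nat_lit 129) (nat_lit 3) (nat_lit 129) (nat_lit 5) (nat_lit 314) (nat_lit 314) (nat_lit 272)))) (XT.nd (nat_lit 78) (nat_lit 0) (nat_lit 0) (XT.lf (nat_lit 76) (nat_lit 2100754433) (nat_lit 0) (nat_lit 3463098472) (nat_lit 684) (nat_lit 3340699708) (nat_lit 121) (nat_lit 5) (nat_lit 120) (nat_lit 3) (nat_lit 129) (nat_lit 5) (nat_lit 315) (nat_lit 314) (nat_lit 271)) (XT.nd (nat_lit 78) (nat_lit 0) (nat_lit 76) (XT.lf (nat_lit 76) (nat_lit 6573942202) (nat_lit 0) (nat_lit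 88165096) (nat_lit 684) (nat_lit 2421614394) (nat_lit 121) (nat_lit 5) (nat_lit 120) (nat_lit 3) (nat_lit 129) (nat_lit 5) (nat_lit 316) (nat_lit 314) (nat_lit 270)) (XT.lf (nat_lit 76) (nat_lit 1974297441) (nat_lit 0) (nat_lit 5869391972) (nat_lit 684) (nat_lit 1426808005) (nat_lit 122) (nat_lit 5) (nat_lit 121) (nat_lit 5) (nat_lit 130) (nat_lit 5) (nat_lit 317) (nat_lit 314) (nat_lit 269)))))) (XT.nd (nat_lit 468) (nat_lit 1748) (nat_lit 0) (XT.nd (nat_lit 234) (nat_lit 0) (nat_lit 0) (XT.nd (nat_lit 78) (nat_lit 608) (nat_lit 0) (XT.lf (nat_lit 76) (nat_lit 6734883200) (nat_lit 0) (nat_lit 2339197520) (nat_lit 684) (nat_lit 393110365) (nat_lit 122) (nat_lit 5) (nat_lit 121) (nat_lit 5) (nat_lit 130) (nat_lit 5) (nat_lit 318) (nat_lit 314) (nat_lit 268)) (XT.nd (nat_lit 78) (nat_lit 0) (nat_lit 0) (XT.lf (nat_lit 0) (nat_lit 672456809) (nat_lit 684) (nat_lit 7614531284) (nat_lit 760)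 (nat_lit 1386133399) (nat_lit 113) (nat_lit 5) (nat_lit 122) (nat_lit 5) (nat_lit 123) (nat_lit 5) (nat_lit 319) (nat_lit 314) (nat_lit 267)) (XT.lf (nat_lit 0) (nat_lit 1813207630) (nat_lit 684) (nat_lit 2784553281) (nat_lit 760) (nat_lit 5289566188) (nat_lit 113) (nat_lit 5) (nat_lit 122) (nat_lit 5) (nat_lit 123) (nat_lit 5) (nat_lit 320) (nat_lit 314) (nat_lit 266)))) (XT.nd (nat_lit 78) (nat_lit 0) (nat_lit 76) (XT.lf (nat_lit 76) (nat_lit 2327257270) (nat_lit 0) (nat_lit 672204530) (nat_lit 760) (nat_lit 7113411913) (nat_lit 114) (nat_lit 5) (nat_lit 113) (nat_lit 5) (nat_lit 123) (nat_lit 5) (nat_lit 321) (nat_lit 314) (nat_lit 265)) (XT.nd (nat_lit 78) (nat_lit 0) (nat_lit 0) (XT.lf (nat_lit 0) (nat_lit 4300898914) (nat_lit 684) (nat_lit 2646794256) (nat_lit 760) (nat_lit 3399262424) (nat_lit 114) (nat_lit 5) (nat_lit 123) (nat_lit 5) (nat_lit 124) (nat_lit 5) (nat_lit 322) (nat_lit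 314) (nat_lit 264)) (XT.lf (nat_lit 76) (nat_lit 2792906631) (nat_lit 0) (nat_lit 2885393725) (nat_lit 760) (nat_lit 4913945584) (nat_lit 115) (nat_lit 5) (nat_lit 114) (nat_lit 5) (nat_lit 124) (nat_lit 5) (nat_lit 323) (nat_lit 314) (nat_lit 263))))) (XT.nd (nat_lit 234) (nat_lit 1216) (nat_lit 0) (XT.nd (nat_lit 78) (nat_lit 684) (nat_lit 0) (XT.lf (nat_lit 0) (nat_lit 7149628237) (nat_lit 684) (nat_lit 2309520057) (nat_lit 76) (nat_lit 1389446357) (nat_lit 115) (nat_lit 5) (nat_lit 124) (nat_lit 5) (nat_lit 116) (nat_lit 5) (nat_lit 324) (nat_lit 314) (nat_lit 262)) (XT.nd (nat_lit 78) (nat_lit 0) (nat_lit 0) (XT.lf (nat_lit 0) (nat_lit 3484575908) (nat_lit 684) (nat_lit 5271605276) (nat_lit 760) (nat_lit 2358541120) (nat_lit 106) (nat_lit 5) (nat_lit 115) (nat_lit 5) (nat_lit 116) (nat_lit 5) (nat_lit 325) (nat_lit 314) (nat_lit 261)) (XT.lf (nat_lit 0) (nat_lit 9614672587) (nat_lit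 684) (nat_lit 828833121) (nat_lit 760) (nat_lit 950670760) (nat_lit 106) (nat_lit 5) (nat_lit 115) (nat_lit 5) (nat_lit 116) (nat_lit 5) (nat_lit 326) (nat_lit 314) (nat_lit 260)))) (XT.nd (nat_lit 78) (nat_lit 380) (nat_lit 0) (XT.lf (nat_lit 0) (nat_lit 604175302) (nat_lit 836) (nat_lit 7282063498) (nat_lit 76) (nat_lit 3796317647) (nat_lit 95) (nat_lit 5) (nat_lit 106) (nat_lit 5) (nat_lit 96) (nat_lit 5) (nat_lit 327) (nat_lit 314) (nat_lit 259)) (XT.nd (nat_lit 78) (nat_lit 380) (nat_lit 0) (XT.lf (nat_lit 0) (nat_lit 2212881654) (nat_lit 836) (nat_lit 1097149360) (nat_lit 76) (nat_lit 8674178397) (nat_lit 95) (nat_lit 5) (nat_lit 106) (nat_lit 5) (nat_lit 96) (nat_lit 5) (nat_lit 328) (nat_lit 314) (nat_lit 258)) (XT.lf (nat_lit 0) (nat_lit 3978883452) (nat_lit 456) (nat_lit 6782034951) (nat_lit 76) (nat_lit 1536218434) (nat_lit 90) (nat_lit 5) (nat_lit 96) (nat_lit 5) (nat_lit 91)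 (nat_lit 5) (nat_lit 329) (nat_lit 314) (nat_lit 257))))))) (XT.nd (nat_lit 936) (nat_lit 1596) (nat_lit 0) (XT.nd (nat_lit 468) (nat_lit 912) (nat_lit 0) (XT.nd (nat_lit 234) (nat_lit 380) (nat_lit 0) (XT.nd (nat_lit 78) (nat_lit 684) (nat_lit 0) (XT.lf (nat_lit 0) (nat_lit 5873041700) (nat_lit 456) (nat_lit 217706489) (nat_lit 76) (nat_lit 6533002791) (nat_lit 90) (nat_lit 5) (nat_lit 96) (nat_lit 5) (nat_lit 91) (nat_lit 5) (nat_lit 330) (nat_lit 314) (nat_lit 256)) (XT.nd (nat_lit 78) (nat_lit 380) (nat_lit 0) (XT.lf (nat_lit 0) (nat_lit 6861680028) (nat_lit 304) (nat_lit 1075651408) (nat_lit 380) (nat_lit 5025624799) (nat_lit 86) (nat_lit 5) (nat_lit 90) (nat_lit 5) (nat_lit 91) (nat_lit 5) (nat_lit 331) (nat_lit 314) (nat_lit 255)) (XT.lf (nat_lit 0) (nat_lit 913630108) (nat_lit 380) (nat_lit 9243913809) (nat_lit 456) (nat_lit 3158972501) (nat_lit 81) (nat_lit 5) (nat_lit 86) (nat_lit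 5) (nat_lit 87) (nat_lit 5) (nat_lit 332) (nat_lit 314) (nat_lit 254)))) (XT.nd (nat_lit 78) (nat_lit 380) (nat_lit 0) (XT.lf (nat_lit 0) (nat_lit 8439645257) (nat_lit 380) (nat_lit 4140018856) (nat_lit 456) (nat_lit 1103574290) (nat_lit 81) (nat_lit 5) (nat_lit 86) (nat_lit 5) (nat_lit 87) (nat_lit 5) (nat_lit 333) (nat_lit 314) (nat_lit 253)) (XT.nd (nat_lit 78) (nat_lit 0) (nat_lit 0) (XT.lf (nat_lit 0) (nat_lit 1047698917) (nat_lit 380) (nat_lit 11788865875) (nat_lit 76) (nat_lit 1229591489) (nat_lit 76) (nat_lit 5) (nat_lit 81) (nat_lit 5) (nat_lit 77) (nat_lit 5) (nat_lit 334) (nat_lit 314) (nat_lit 252)) (XT.lf (nat_lit 0) (nat_lit 3399530824) (nat_lit 380) (nat_lit 4228404601) (nat_lit 76) (nat_lit 6832900686) (nat_lit 76) (nat_lit 5) (nat_lit 81) (nat_lit 5) (nat_lit 77) (nat_lit 5) (nat_lit 335) (nat_lit 314) (nat_lit 251))))) (XT.nd (nat_lit 234) (nat_lit 380) (nat_lit 0) (XT.nd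 (nat_lit 78) (nat_lit 228) (nat_lit 0) (XT.lf (nat_lit 0) (nat_lit 3799819389) (nat_lit 304) (nat_lit 2101750899) (nat_lit 380) (nat_lit 8972072414) (nat_lit 72) (nat_lit 5) (nat_lit 76) (nat_lit 5) (nat_lit 77) (nat_lit 5) (nat_lit 336) (nat_lit 314) (nat_lit 250)) (XT.nd (nat_lit 78) (nat_lit 228) (nat_lit 0) (XT.lf (nat_lit 0) (nat_lit 8633262177) (nat_lit 380) (nat_lit 3018804866) (nat_lit 76) (nat_lit 3649817503) (nat_lit 72) (nat_lit 5) (nat_lit 77) (nat_lit 5) (nat_lit 73) (nat_lit 5) (nat_lit 337) (nat_lit 314) (nat_lit 249)) (XT.lf (nat_lit 0) (nat_lit 5551134758) (nat_lit 228) (nat_lit 6046753768) (nat_lit 304) (nat_lit 4148853840) (nat_lit 69) (nat_lit 5) (nat_lit 72) (nat_lit 5) (nat_lit 73) (nat_lit 5) (nat_lit 338) (nat_lit 314) (nat_lit 248)))) (XT.nd (nat_lit 78) (nat_lit 380) (nat_lit 0) (XT.lf (nat_lit 0) (nat_lit 14623832399) (nat_lit 228) (nat_lit 113967690) (nat_lit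 304) (nat_lit 1474710652) (nat_lit 69) (nat_lit 5) (nat_lit 72) (nat_lit 5) (nat_lit 73) (nat_lit 5) (nat_lit 339) (nat_lit 314) (nat_lit 247)) (XT.nd (nat_lit 78) (nat_lit 0) (nat_lit 0) (XT.lf (nat_lit 0) (nat_lit 1484146847) (nat_lit 380) (nat_lit 9150908122) (nat_lit 76) (nat_lit 6055806532) (nat_lit 64) (nat_lit 5) (nat_lit 69) (nat_lit 5) (nat_lit 65) (nat_lit 5) (nat_lit 340) (nat_lit 314) (nat_lit 246)) (XT.lf (nat_lit 0) (nat_lit 4547828711) (nat_lit 380) (nat_lit 68541514) (nat_lit 76) (nat_lit 12575246311) (nat_lit 64) (nat_lit 5) (nat_lit 69) (nat_lit 5) (nat_lit 65) (nat_lit 5) (nat_lit 341) (nat_lit 314) (nat_lit 245)))))) (XT.nd (nat_lit 468) (nat_lit 608) (nat_lit 0) (XT.nd (nat_lit 234) (nat_lit 532) (nat_lit 0) (XT.nd (nat_lit 78) (nat_lit 228) (nat_lit 0) (XT.lf (nat_lit 0) (nat_lit 7924221402) (nat_lit 304) (nat_lit 7988829207) (nat_lit 76) (nat_lit 1796399125) (nat_lit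 61) (nat_lit 5) (nat_lit 65) (nat_lit 5) (nat_lit 62) (nat_lit 5) (nat_lit 342) (nat_lit 314) (nat_lit 244)) (XT.nd (nat_lit 78) (nat_lit 0) (nat_lit 0) (XT.lf (nat_lit 0) (nat_lit 1697660514) (nat_lit 228) (nat_lit 9853919380) (nat_lit 304) (nat_lit 6697503344) (nat_lit 58) (nat_lit 5) (nat_lit 61) (nat_lit 5) (nat_lit 62) (nat_lit 5) (nat_lit 343) (nat_lit 314) (nat_lit 243)) (XT.lf (nat_lit 0) (nat_lit 12116822626) (nat_lit 228) (nat_lit 3358118756) (nat_lit 304) (nat_lit 3335040472) (nat_lit 58) (nat_lit 5) (nat_lit 61) (nat_lit 5) (nat_lit 62) (nat_lit 5) (nat_lit 344) (nat_lit 314) (nat_lit 242)))) (XT.nd (nat_lit 78) (nat_lit 228) (nat_lit 0) (XT.lf (nat_lit 0) (nat_lit 282707527) (nat_lit 304) (nat_lit 15705223009) (nat_lit 76) (nat_lit 3406184961) (nat_lit 54) (nat_lit 5) (nat_lit 58) (nat_lit 5) (nat_lit 55) (nat_lit 5) (nat_lit 345) (nat_lit 314) (nat_lit 241)) (XT.nd (nat_lit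 78) (nat_lit 228) (nat_lit 0) (XT.lf (nat_lit 0) (nat_lit 4119900441) (nat_lit 304) (nat_lit 5319653658) (nat_lit 76) (nat_lit 10557649370) (nat_lit 54) (nat_lit 5) (nat_lit 58) (nat_lit 5) (nat_lit 55) (nat_lit 5) (nat_lit 346) (nat_lit 314) (nat_lit 240)) (XT.lf (nat_lit 0) (nat_lit 5741627383) (nat_lit 228) (nat_lit 2478278511) (nat_lit 304) (nat_lit 12407004799) (nat_lit 51) (nat_lit 5) (nat_lit 54) (nat_lit 5) (nat_lit 55) (nat_lit 5) (nat_lit 347) (nat_lit 314) (nat_lit 239))))) (XT.nd (nat_lit 234) (nat_lit 456) (nat_lit 0) (XT.nd (nat_lit 78) (nat_lit 152) (nat_lit 0) (XT.lf (nat_lit 0) (nat_lit 12673550514) (nat_lit 304) (nat_lit 3847524495) (nat_lit 76) (nat_lit 4759608229) (nat_lit 51) (nat_lit 5) (nat_lit 55) (nat_lit 5) (nat_lit 52) (nat_lit 5) (nat_lit 348) (nat_lit 314) (nat_lit 238)) (XT.nd (nat_lit 78) (nat_lit 0) (nat_lit 0) (XT.lf (nat_lit 0) (nat_lit 7928906111) (nat_lit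 152) (nat_lit 9567909963) (nat_lit 228) (nat_lit 4462992737) (nat_lit 49) (nat_lit 5) (nat_lit 51) (nat_lit 5) (nat_lit 52) (nat_lit 5) (nat_lit 349) (nat_lit 314) (nat_lit 237)) (XT.lf (nat_lit 0) (nat_lit 20401797678) (nat_lit 152) (nat_lit 2207553149) (nat_lit 228) (nat_lit 61145336) (nat_lit 49) (nat_lit 5) (nat_lit 51) (nat_lit 5) (nat_lit 52) (nat_lit 5) (nat_lit 350) (nat_lit 314) (nat_lit 236)))) (XT.nd (nat_lit 78) (nat_lit 152) (nat_lit 0) (XT.lf (nat_lit 0) (nat_lit 4649219969) (nat_lit 304) (nat_lit 13180502641) (nat_lit 76) (nat_lit 5571724755) (nat_lit 45) (nat_lit 5) (nat_lit 49) (nat_lit 5) (nat_lit 46) (nat_lit 5) (nat_lit 351) (nat_lit 314) (nat_lit 235)) (XT.nd (nat_lit 78) (nat_lit 152) (nat_lit 0) (XT.lf (nat_lit 0) (nat_lit 9652033756) (nat_lit 304) (nat_lit 816542811) (nat_lit 76) (nat_lit 13697379514) (nat_lit 45) (nat_lit 5) (nat_lit 49) (nat_lit 5) (nat_lit 46)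 (nat_lit 5) (nat_lit 352) (nat_lit 314) (nat_lit 234)) (XT.lf (nat_lit 0) (nat_lit 12542746656) (nat_lit 152) (nat_lit 2542587416) (nat_lit 228) (nat_lit 9874347750) (nat_lit 43) (nat_lit 5) (nat_lit 45) (nat_lit 5) (nat_lit 46) (nat_lit 5) (nat_lit 353) (nat_lit 314) (nat_lit 233))))))))
noncomputable def xc139 : XT := (XT.nd (nat_lit 1794) (nat_lit 836) (nat_lit 0) (XT.nd (nat_lit 858) (nat_lit 760) (nat_lit 0) (XT.nd (nat_lit 390) (nat_lit 380) (nat_lit 0) (XT.nd (nat_lit 156) (nat_lit 304) (nat_lit 0) (XT.nd (nat_lit 78) (nat_lit 76) (nat_lit 0) (XT.lf (nat_lit 0) (nat_lit 713778747) (nat_lit 152) (nat_lit 20176701996) (nat_lit 228) (nat_lit 4897612500) (nat_lit 41) (nat_lit 5) (nat_lit 43) (nat_lit 5) (nat_lit 44) (nat_lit 5) (nat_lit 354) (nat_lit 314) (nat_lit 232)) (XT.lf (nat_lit 0) (nat_lit 557720508) (nat_lit 228) (nat_lit 11790206249) (nat_lit 76) (nat_lit 14297737246) (nat_lit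 40) (nat_lit 5) (nat_lit 43) (nat_lit 5) (nat_lit 41) (nat_lit 5) (nat_lit 355) (nat_lit 314) (nat_lit 231))) (XT.nd (nat_lit 78) (nat_lit 152) (nat_lit 0) (XT.lf (nat_lit 0) (nat_lit 2122256319) (nat_lit 152) (nat_lit 4017669994) (nat_lit 228) (nat_lit 21401244956) (nat_lit 38) (nat_lit 5) (nat_lit 40) (nat_lit 5) (nat_lit 41) (nat_lit 5) (nat_lit 356) (nat_lit 314) (nat_lit 230)) (XT.nd (nat_lit 78) (nat_lit 152) (nat_lit 0) (XT.lf (nat_lit 0) (nat_lit 12263772898) (nat_lit 228) (nat_lit 11432587648) (nat_lit 76) (nat_lit 4771973789) (nat_lit 38) (nat_lit 5) (nat_lit 41) (nat_lit 5) (nat_lit 39) (nat_lit 5) (nat_lit 357) (nat_lit 314) (nat_lit 229)) (XT.lf (nat_lit 0) (nat_lit 3269276585) (nat_lit 152) (nat_lit 15527869635) (nat_lit 228) (nat_lit 10639549240) (nat_lit 36) (nat_lit 5) (nat_lit 38) (nat_lit 5) (nat_lit 39) (nat_lit 5) (nat_lit 358) (nat_lit 314) (nat_lit 228))))) (XT.nd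 (nat_lit 234) (nat_lit 228) (nat_lit 0) (XT.nd (nat_lit 78) (nat_lit 152) (nat_lit 0) (XT.lf (nat_lit 0) (nat_lit 19080958163) (nat_lit 152) (nat_lit 6756574675) (nat_lit 228) (nat_lit 4606930887) (nat_lit 36) (nat_lit 5) (nat_lit 38) (nat_lit 5) (nat_lit 39) (nat_lit 5) (nat_lit 359) (nat_lit 314) (nat_lit 227)) (XT.nd (nat_lit 78) (nat_lit 0) (nat_lit 0) (XT.lf (nat_lit 0) (nat_lit 1765528229) (nat_lit 152) (nat_lit 27269592829) (nat_lit 76) (nat_lit 2461481915) (nat_lit 34) (nat_lit 5) (nat_lit 36) (nat_lit 5) (nat_lit 35) (nat_lit 5) (nat_lit 360) (nat_lit 314) (nat_lit 226)) (XT.lf (nat_lit 0) (nat_lit 8595445091) (nat_lit 152) (nat_lit 11811316660) (nat_lit 76) (nat_lit 12176133819) (nat_lit 34) (nat_lit 5) (nat_lit 36) (nat_lit 5) (nat_lit 35) (nat_lit 5) (nat_lit 361) (nat_lit 314) (nat_lit 225)))) (XT.nd (nat_lit 78) (nat_lit 76) (nat_lit 0) (XT.lf (nat_lit 0) (nat_lit 4544649676)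 (nat_lit 152) (nat_lit 11281060964) (nat_lit 228) (nat_lit 17894854707) (nat_lit 32) (nat_lit 5) (nat_lit 34) (nat_lit 5) (nat_lit 35) (nat_lit 5) (nat_lit 362) (nat_lit 314) (nat_lit 224)) (XT.nd (nat_lit 78) (nat_lit 76) (nat_lit 0) (XT.lf (nat_lit 0) (nat_lit 22108129323) (nat_lit 152) (nat_lit 1497547235) (nat_lit 228) (nat_lit 11300037647) (nat_lit 32) (nat_lit 5) (nat_lit 34) (nat_lit 5) (nat_lit 35) (nat_lit 5) (nat_lit 363) (nat_lit 314) (nat_lit 223)) (XT.lf (nat_lit 0) (nat_lit 4383124683) (nat_lit 76) (nat_lit 27585547756) (nat_lit 152) (nat_lit 4171751195) (nat_lit 31) (nat_lit 5) (nat_lit 32) (nat_lit 5) (nat_lit 33) (nat_lit 4) (nat_lit 364) (nat_lit 314) (nat_lit 222)))))) (XT.nd (nat_lit 468) (nat_lit 380) (nat_lit 0) (XT.nd (nat_lit 234) (nat_lit 152) (nat_lit 0) (XT.nd (nat_lit 78) (nat_lit 152) (nat_lit 0) (XT.lf (nat_lit 0) (nat_lit 3440396258) (nat_lit 152) (nat_lit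 14658566858) (nat_lit 76) (nat_lit 19323649381) (nat_lit 30) (nat_lit 5) (nat_lit 32) (nat_lit 5) (nat_lit 31) (nat_lit 5) (nat_lit 365) (nat_lit 314) (nat_lit 221)) (XT.nd (nat_lit 78) (nat_lit 0) (nat_lit 0) (XT.lf (nat_lit 0) (nat_lit 3313842238) (nat_lit 152) (nat_lit 8020035209) (nat_lit 228) (nat_lit 27429571730) (nat_lit 28) (nat_lit 5) (nat_lit 30) (nat_lit 5) (nat_lit 31) (nat_lit 5) (nat_lit 366) (nat_lit 314) (nat_lit 220)) (XT.lf (nat_lit 0) (nat_lit 19903650175) (nat_lit 228) (nat_lit 17528250188) (nat_lit 76) (nat_lit 2725350329) (nat_lit 28) (nat_lit 5) (nat_lit 31) (nat_lit 5) (nat_lit 29) (nat_lit 4) (nat_lit 367) (nat_lit 314) (nat_lit 219)))) (XT.nd (nat_lit 78) (nat_lit 76) (nat_lit 0) (XT.lf (nat_lit 0) (nat_lit 1177247838) (nat_lit 76) (nat_lit 27864314861) (nat_lit 152) (nat_lit 12572200718) (nat_lit 27) (nat_lit 5) (nat_lit 28) (nat_lit 5) (nat_lit 29) (nat_lit 4)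 (nat_lit 368) (nat_lit 314) (nat_lit 218)) (XT.nd (nat_lit 78) (nat_lit 76) (nat_lit 0) (XT.lf (nat_lit 0) (nat_lit 21408724589) (nat_lit 76) (nat_lit 17514498149) (nat_lit 152) (nat_lit 4205539959) (nat_lit 27) (nat_lit 5) (nat_lit 28) (nat_lit 5) (nat_lit 29) (nat_lit 4) (nat_lit 369) (nat_lit 314) (nat_lit 217)) (XT.lf (nat_lit 0) (nat_lit 4423201950) (nat_lit 152) (nat_lit 2156546190) (nat_lit 76) (nat_lit 38136676123) (nat_lit 26) (nat_lit 5) (nat_lit 28) (nat_lit 5) (nat_lit 27) (nat_lit 5) (nat_lit 370) (nat_lit 314) (nat_lit 216))))) (XT.nd (nat_lit 234) (nat_lit 152) (nat_lit 0) (XT.nd (nat_lit 78) (nat_lit 76) (nat_lit 0) (XT.lf (nat_lit 0) (nat_lit 13710369022) (nat_lit 228) (nat_lit 27543352754) (nat_lit 76) (nat_lit 5107886914) (nat_lit 24) (nat_lit 5) (nat_lit 27) (nat_lit 5) (nat_lit 25) (nat_lit 4) (nat_lit 371) (nat_lit 314) (nat_lit 215)) (XT.nd (nat_lit 78) (nat_lit 76)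 (nat_lit 0) (XT.lf (nat_lit 0) (nat_lit 23597733843) (nat_lit 228) (nat_lit 7295584527) (nat_lit 76) (nat_lit 17188944891) (nat_lit 24) (nat_lit 5) (nat_lit 27) (nat_lit 5) (nat_lit 25) (nat_lit 4) (nat_lit 372) (nat_lit 314) (nat_lit 214)) (XT.lf (nat_lit 0) (nat_lit 14410007649) (nat_lit 76) (nat_lit 19785729187) (nat_lit 152) (nat_lit 15682402983) (nat_lit 23) (nat_lit 5) (nat_lit 24) (nat_lit 5) (nat_lit 25) (nat_lit 4) (nat_lit 373) (nat_lit 314) (nat_lit 213)))) (XT.nd (nat_lit 78) (nat_lit 152) (nat_lit 0) (XT.lf (nat_lit 0) (nat_lit 37438645390) (nat_lit 76) (nat_lit 8000010650) (nat_lit 152) (nat_lit 6319405984) (nat_lit 23) (nat_lit 5) (nat_lit 24) (nat_lit 5) (nat_lit 25) (nat_lit 4) (nat_lit 374) (nat_lit 314) (nat_lit 212)) (XT.nd (nat_lit 78) (nat_lit 0) (nat_lit 0) (XT.lf (nat_lit 0) (nat_lit 3588319695) (nat_lit 152) (nat_lit 45719206387) (nat_lit 76) (nat_lit 4412266407)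 (nat_lit 21) (nat_lit 5) (nat_lit 23) (nat_lit 5) (nat_lit 22) (nat_lit 4) (nat_lit 375) (nat_lit 314) (nat_lit 211)) (XT.lf (nat_lit 0) (nat_lit 14148477965) (nat_lit 152) (nat_lit 24087594276) (nat_lit 76) (nat_lit 17519888671) (nat_lit 21) (nat_lit 5) (nat_lit 23) (nat_lit 5) (nat_lit 22) (nat_lit 4) (nat_lit 376) (nat_lit 314) (nat_lit 210))))))) (XT.nd (nat_lit 936) (nat_lit 304) (nat_lit 0) (XT.nd (nat_lit 468) (nat_lit 304) (nat_lit 0) (XT.nd (nat_lit 234) (nat_lit 152) (nat_lit 0) (XT.nd (nat_lit 78) (nat_lit 76) (nat_lit 0) (XT.lf (nat_lit 0) (nat_lit 25228825396) (nat_lit 152) (nat_lit 1388798562) (nat_lit 76) (nat_lit 31276706896) (nat_lit 21) (nat_lit 5) (nat_lit 23) (nat_lit 5) (nat_lit 22) (nat_lit 4) (nat_lit 377) (nat_lit 314) (nat_lit 209)) (XT.nd (nat_lit 78) (nat_lit 0) (nat_lit 0) (XT.lf (nat_lit 0) (nat_lit 23172903125) (nat_lit 76) (nat_lit 14044634600) (nat_lit 152)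 (nat_lit 22904366246) (nat_lit 20) (nat_lit 5) (nat_lit 21) (nat_lit 5) (nat_lit 22) (nat_lit 4) (nat_lit 378) (nat_lit 314) (nat_lit 208)) (XT.lf (nat_lit 0) (nat_lit 48997415568) (nat_lit 76) (nat_lit 824487617) (nat_lit 152) (nat_lit 12638143640) (nat_lit 20) (nat_lit 5) (nat_lit 21) (nat_lit 5) (nat_lit 22) (nat_lit 4) (nat_lit 379) (nat_lit 314) (nat_lit 207)))) (XT.nd (nat_lit 78) (nat_lit 76) (nat_lit 0) (XT.lf (nat_lit 0) (nat_lit 11344184940) (nat_lit 76) (nat_lit 52086220924) (nat_lit 76) (nat_lit 1465996876) (nat_lit 19) (nat_lit 4) (nat_lit 20) (nat_lit 5) (nat_lit 20) (nat_lit 4) (nat_lit 380) (nat_lit 314) (nat_lit 206)) (XT.nd (nat_lit 78) (nat_lit 0) (nat_lit 0) (XT.lf (nat_lit 0) (nat_lit 10174443371) (nat_lit 152) (nat_lit 29775086145) (nat_lit 76) (nat_lit 27485124419) (nat_lit 18) (nat_lit 5) (nat_lit 20) (nat_lit 5) (nat_lit 19) (nat_lit 4) (nat_lit 381) (nat_lit 314)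 (nat_lit 205)) (XT.lf (nat_lit 0) (nat_lit 22340945641) (nat_lit 152) (nat_lit 4845633642) (nat_lit 76) (nat_lit 42912373025) (nat_lit 18) (nat_lit 5) (nat_lit 20) (nat_lit 5) (nat_lit 19) (nat_lit 4) (nat_lit 382) (nat_lit 314) (nat_lit 204))))) (XT.nd (nat_lit 234) (nat_lit 152) (nat_lit 0) (XT.nd (nat_lit 78) (nat_lit 76) (nat_lit 0) (XT.lf (nat_lit 0) (nat_lit 22023265914) (nat_lit 76) (nat_lit 13429977838) (nat_lit 152) (nat_lit 37426349844) (nat_lit 17) (nat_lit 5) (nat_lit 18) (nat_lit 5) (nat_lit 19) (nat_lit 4) (nat_lit 383) (nat_lit 314) (nat_lit 203)) (XT.nd (nat_lit 78) (nat_lit 76) (nat_lit 0) (XT.lf (nat_lit 0) (nat_lit 49314064851) (nat_lit 152) (nat_lit 25420452068) (nat_lit 0) (nat_lit 1060106085) (nat_lit 17) (nat_lit 5) (nat_lit 19) (nat_lit 4) (nat_lit 17) (nat_lit 4) (nat_lit 384) (nat_lit 314) (nat_lit 202)) (XT.lf (nat_lit 0) (nat_lit 1090583600) (nat_lit 76) (nat_lit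 63008497060) (nat_lit 76) (nat_lit 14744766933) (nat_lit 16) (nat_lit 4) (nat_lit 17) (nat_lit 5) (nat_lit 17) (nat_lit 4) (nat_lit 385) (nat_lit 314) (nat_lit 201)))) (XT.nd (nat_lit 78) (nat_lit 152) (nat_lit 0) (XT.lf (nat_lit 0) (nat_lit 29798519587) (nat_lit 76) (nat_lit 50249411082) (nat_lit 76) (nat_lit 1976374896) (nat_lit 16) (nat_lit 4) (nat_lit 17) (nat_lit 5) (nat_lit 17) (nat_lit 4) (nat_lit 386) (nat_lit 314) (nat_lit 200)) (XT.nd (nat_lit 78) (nat_lit 76) (nat_lit 0) (XT.lf (nat_lit 0) (nat_lit 11058855525) (nat_lit 152) (nat_lit 25611245270) (nat_lit 76) (nat_lit 48685050577) (nat_lit 15) (nat_lit 5) (nat_lit 17) (nat_lit 5) (nat_lit 16) (nat_lit 4) (nat_lit 387) (nat_lit 314) (nat_lit 199)) (XT.lf (nat_lit 0) (nat_lit 2367049875) (nat_lit 76) (nat_lit 22343871999) (nat_lit 152) (nat_lit 64138424083) (nat_lit 14) (nat_lit 5) (nat_lit 15) (nat_lit 5) (nat_lit 16) (nat_lit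 4) (nat_lit 388) (nat_lit 314) (nat_lit 198)))))) (XT.nd (nat_lit 468) (nat_lit 152) (nat_lit 0) (XT.nd (nat_lit 234) (nat_lit 152) (nat_lit 0) (XT.nd (nat_lit 78) (nat_lit 0) (nat_lit 0) (XT.lf (nat_lit 0) (nat_lit 32623257663) (nat_lit 76) (nat_lit 6850711387) (nat_lit 152) (nat_lit 53022863435) (nat_lit 14) (nat_lit 5) (nat_lit 15) (nat_lit 5) (nat_lit 16) (nat_lit 4) (nat_lit 389) (nat_lit 314) (nat_lit 197)) (XT.nd (nat_lit 78) (nat_lit 0) (nat_lit 0) (XT.lf (nat_lit 0) (nat_lit 55117018547) (nat_lit 152) (nat_lit 32091312411) (nat_lit 0) (nat_lit 9111270921) (nat_lit 14) (nat_lit 5) (nat_lit 16) (nat_lit 4) (nat_lit 14) (nat_lit 4) (nat_lit 390) (nat_lit 314) (nat_lit 196)) (XT.lf (nat_lit 0) (nat_lit 71649596336) (nat_lit 152) (nat_lit 3041641219) (nat_lit 0) (nat_lit 25636904386) (nat_lit 14) (nat_lit 5) (nat_lit 16) (nat_lit 4) (nat_lit 14) (nat_lit 4) (nat_lit 391) (nat_lit 314)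 (nat_lit 195)))) (XT.nd (nat_lit 78) (nat_lit 76) (nat_lit 0) (XT.lf (nat_lit 0) (nat_lit 28359236102) (nat_lit 76) (nat_lit 61087637944) (nat_lit 76) (nat_lit 15068332352) (nat_lit 13) (nat_lit 4) (nat_lit 14) (nat_lit 5) (nat_lit 14) (nat_lit 4) (nat_lit 392) (nat_lit 314) (nat_lit 194)) (XT.nd (nat_lit 78) (nat_lit 76) (nat_lit 0) (XT.lf (nat_lit 0) (nat_lit 61426950469) (nat_lit 76) (nat_lit 46753966858) (nat_lit 76) (nat_lit 728362560) (nat_lit 13) (nat_lit 4) (nat_lit 14) (nat_lit 5) (nat_lit 14) (nat_lit 4) (nat_lit 393) (nat_lit 314) (nat_lit 193)) (XT.lf (nat_lit 0) (nat_lit 13865537597) (nat_lit 152) (nat_lit 17607250992) (nat_lit 76) (nat_lit 82039306955) (nat_lit 12) (nat_lit 5) (nat_lit 14) (nat_lit 5) (nat_lit 13) (nat_lit 4) (nat_lit 394) (nat_lit 314) (nat_lit 192))))) (XT.nd (nat_lit 234) (nat_lit 76) (nat_lit 0) (XT.nd (nat_lit 78) (nat_lit 0) (nat_lit 0) (XT.lf (nat_lit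 0) (nat_lit 14195869067) (nat_lit 76) (nat_lit 15186172516) (nat_lit 152) (nat_lit 88951544827) (nat_lit 11) (nat_lit 5) (nat_lit 12) (nat_lit 5) (nat_lit 13) (nat_lit 4) (nat_lit 395) (nat_lit 314) (nat_lit 191)) (XT.nd (nat_lit 78) (nat_lit 0) (nat_lit 0) (XT.lf (nat_lit 0) (nat_lit 46003108524) (nat_lit 152) (nat_lit 75223743612) (nat_lit 0) (nat_lit 2152863534) (nat_lit 11) (nat_lit 5) (nat_lit 13) (nat_lit 4) (nat_lit 11) (nat_lit 4) (nat_lit 396) (nat_lit 314) (nat_lit 190)) (XT.lf (nat_lit 0) (nat_lit 63700151154) (nat_lit 152) (nat_lit 45120783862) (nat_lit 0) (nat_lit 19844970963) (nat_lit 11) (nat_lit 5) (nat_lit 13) (nat_lit 4) (nat_lit 11) (nat_lit 4) (nat_lit 397) (nat_lit 314) (nat_lit 189)))) (XT.nd (nat_lit 78) (nat_lit 76) (nat_lit 0) (XT.lf (nat_lit 0) (nat_lit 82278206576) (nat_lit 152) (nat_lit 13520065668) (nat_lit 0) (nat_lit 38418326194) (nat_lit 11) (nat_lit 5) (nat_lit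 13) (nat_lit 4) (nat_lit 11) (nat_lit 4) (nat_lit 398) (nat_lit 314) (nat_lit 188)) (XT.nd (nat_lit 78) (nat_lit 0) (nat_lit 0) (XT.lf (nat_lit 0) (nat_lit 20303489227) (nat_lit 76) (nat_lit 81795013397) (nat_lit 76) (nat_lit 37930656641) (nat_lit 10) (nat_lit 4) (nat_lit 11) (nat_lit 5) (nat_lit 11) (nat_lit 4) (nat_lit 399) (nat_lit 314) (nat_lit 187)) (XT.lf (nat_lit 0) (nat_lit 56280683869) (nat_lit 76) (nat_lit 66854507961) (nat_lit 76) (nat_lit 22985887993) (nat_lit 10) (nat_lit 4) (nat_lit 11) (nat_lit 5) (nat_lit 11) (nat_lit 4) (nat_lit 400) (nat_lit 314) (nat_lit 186))))))))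
noncomputable def xc140 : XT := (XT.nd (nat_lit 1794) (nat_lit 0) (nat_lit 0) (XT.nd (nat_lit 858) (nat_lit 228) (nat_lit 0) (XT.nd (nat_lit 390) (nat_lit 76) (nat_lit 0) (XT.nd (nat_lit 156) (nat_lit 76) (nat_lit 0) (XT.nd (nat_lit 78) (nat_lit 76) (nat_lit 0) (XT.lf (nat_lit 0) (nat_lit 94050143814) (nat_lit 76) (nat_lit 51170152160) (nat_lit 76) (nat_lit 7297471989) (nat_lit 10) (nat_lit 4) (nat_lit 11) (nat_lit 5) (nat_lit 11) (nat_lit 4) (nat_lit 401) (nat_lit 314) (nat_lit 185)) (XT.lf (nat_lit 0) (nat_lit 8878385230) (nat_lit 152) (nat_lit 25675857308) (nat_lit 76) (nat_lit 124673051368) (nat_lit 9) (nat_lit 5) (nat_lit 11) (nat_lit 5) (nat_lit 10) (nat_lit 4) (nat_lit 402) (nat_lit 314) (nat_lit 184))) (XT.nd (nat_lit 78) (nat_lit 0) (nat_lit 0) (XT.lf (nat_lit 0) (nat_lit 8915120630) (nat_lit 76) (nat_lit 16838708825) (nat_lit 152) (nat_lit 140505683804) (nat_lit 8) (nat_lit 5)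 (nat_lit 9) (nat_lit 5) (nat_lit 10) (nat_lit 4) (nat_lit 403) (nat_lit 314) (nat_lit 183)) (XT.nd (nat_lit 78) (nat_lit 0) (nat_lit 0) (XT.lf (nat_lit 0) (nat_lit 43939385066) (nat_lit 152) (nat_lit 127535292306) (nat_lit 0) (nat_lit 2145349724) (nat_lit 8) (nat_lit 5) (nat_lit 10) (nat_lit 4) (nat_lit 8) (nat_lit 4) (nat_lit 404) (nat_lit 314) (nat_lit 182)) (XT.lf (nat_lit 0) (nat_lit 63307271002) (nat_lit 152) (nat_lit 96517589064) (nat_lit 0) (nat_lit 21510054385) (nat_lit 8) (nat_lit 5) (nat_lit 10) (nat_lit 4) (nat_lit 8) (nat_lit 4) (nat_lit 405) (nat_lit 314) (nat_lit 181))))) (XT.nd (nat_lit 234) (nat_lit 0) (nat_lit 0) (XT.nd (nat_lit 78) (nat_lit 76) (nat_lit 0) (XT.lf (nat_lit 0) (nat_lit 83640701842) (nat_lit 152) (nat_lit 63954531791) (nat_lit 0) (nat_lit 41840455440) (nat_lit 8) (nat_lit 5) (nat_lit 10) (nat_lit 4) (nat_lit 8) (nat_lit 4) (nat_lit 406) (nat_lit 314) (nat_lit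 180)) (XT.nd (nat_lit 78) (nat_lit 76) (nat_lit 0) (XT.lf (nat_lit 0) (nat_lit 104988090518) (nat_lit 152) (nat_lit 29768589400) (nat_lit 0) (nat_lit 63184958606) (nat_lit 8) (nat_lit 5) (nat_lit 10) (nat_lit 4) (nat_lit 8) (nat_lit 4) (nat_lit 407) (nat_lit 314) (nat_lit 179)) (XT.lf (nat_lit 0) (nat_lit 6324042049) (nat_lit 76) (nat_lit 121174958115) (nat_lit 76) (nat_lit 79369078098) (nat_lit 7) (nat_lit 4) (nat_lit 8) (nat_lit 5) (nat_lit 8) (nat_lit 4) (nat_lit 408) (nat_lit 314) (nat_lit 178)))) (XT.nd (nat_lit 78) (nat_lit 0) (nat_lit 0) (XT.lf (nat_lit 0) (nat_lit 45249867294) (nat_lit 76) (nat_lit 106387194988) (nat_lit 76) (nat_lit 64578697728) (nat_lit 7) (nat_lit 4) (nat_lit 8) (nat_lit 5) (nat_lit 8) (nat_lit 4) (nat_lit 409) (nat_lit 314) (nat_lit 177)) (XT.nd (nat_lit 78) (nat_lit 0) (nat_lit 0) (XT.lf (nat_lit 0) (nat_lit 86117282866) (nat_lit 76) (nat_lit 90862327043) (nat_lit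 76) (nat_lit 49051337171) (nat_lit 7) (nat_lit 4) (nat_lit 8) (nat_lit 5) (nat_lit 8) (nat_lit 4) (nat_lit 410) (nat_lit 314) (nat_lit 176)) (XT.lf (nat_lit 0) (nat_lit 129023592135) (nat_lit 76) (nat_lit 74563390309) (nat_lit 76) (nat_lit 32750026521) (nat_lit 7) (nat_lit 4) (nat_lit 8) (nat_lit 5) (nat_lit 8) (nat_lit 4) (nat_lit 411) (nat_lit 314) (nat_lit 175)))))) (XT.nd (nat_lit 468) (nat_lit 76) (nat_lit 0) (XT.nd (nat_lit 234) (nat_lit 0) (nat_lit 0) (XT.nd (nat_lit 78) (nat_lit 152) (nat_lit 0) (XT.lf (nat_lit 0) (nat_lit 174070952980) (nat_lit 76) (nat_lit 57451577794) (nat_lit 76) (nat_lit 15635953133) (nat_lit 7) (nat_lit 4) (nat_lit 8) (nat_lit 5) (nat_lit 8) (nat_lit 4) (nat_lit 412) (nat_lit 314) (nat_lit 174)) (XT.nd (nat_lit 78) (nat_lit 76) (nat_lit 0) (XT.lf (nat_lit 0) (nat_lit 2257004038) (nat_lit 152) (nat_lit 37190919592) (nat_lit 76) (nat_lit 219071393528) (nat_lit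 6) (nat_lit 5) (nat_lit 8) (nat_lit 5) (nat_lit 7) (nat_lit 4) (nat_lit 413) (nat_lit 314) (nat_lit 173)) (XT.lf (nat_lit 0) (nat_lit 248204707) (nat_lit 76) (nat_lit 20272787125) (nat_lit 152) (nat_lit 249914291498) (nat_lit 5) (nat_lit 5) (nat_lit 6) (nat_lit 5) (nat_lit 7) (nat_lit 4) (nat_lit 414) (nat_lit 314) (nat_lit 172)))) (XT.nd (nat_lit 78) (nat_lit 0) (nat_lit 0) (XT.lf (nat_lit 0) (nat_lit 40334166619) (nat_lit 152) (nat_lit 242077183628) (nat_lit 0) (nat_lit 503898449) (nat_lit 5) (nat_lit 5) (nat_lit 7) (nat_lit 4) (nat_lit 5) (nat_lit 4) (nat_lit 415) (nat_lit 314) (nat_lit 171)) (XT.nd (nat_lit 78) (nat_lit 0) (nat_lit 0) (XT.lf (nat_lit 0) (nat_lit 61468421445) (nat_lit 152) (nat_lit 212897888248) (nat_lit 0) (nat_lit 21636381823) (nat_lit 5) (nat_lit 5) (nat_lit 7) (nat_lit 4) (nat_lit 5) (nat_lit 4) (nat_lit 416) (nat_lit 314) (nat_lit 170)) (XT.lf (nat_lit 0) (nat_lit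 83657560946) (nat_lit 152) (nat_lit 182263202950) (nat_lit 0) (nat_lit 43823834226) (nat_lit 5) (nat_lit 5) (nat_lit 7) (nat_lit 4) (nat_lit 5) (nat_lit 4) (nat_lit 417) (nat_lit 314) (nat_lit 169))))) (XT.nd (nat_lit 234) (nat_lit 76) (nat_lit 0) (XT.nd (nat_lit 78) (nat_lit 0) (nat_lit 0) (XT.lf (nat_lit 0) (nat_lit 106954416405) (nat_lit 152) (nat_lit 150100188007) (nat_lit 0) (nat_lit 67119082925) (nat_lit 5) (nat_lit 5) (nat_lit 7) (nat_lit 4) (nat_lit 5) (nat_lit 4) (nat_lit 418) (nat_lit 314) (nat_lit 168)) (XT.nd (nat_lit 78) (nat_lit 0) (nat_lit 0) (XT.lf (nat_lit 0) (nat_lit 131414456526) (nat_lit 152) (nat_lit 116332264811) (nat_lit 0) (nat_lit 91577592798) (nat_lit 5) (nat_lit 5) (nat_lit 7) (nat_lit 4) (nat_lit 5) (nat_lit 4) (nat_lit 419) (nat_lit 314) (nat_lit 167)) (XT.lf (nat_lit 0) (nat_lit 157095919499) (nat_lit 152) (nat_lit 80879033546) (nat_lit 0) (nat_lit 117257598393)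 (nat_lit 5) (nat_lit 5) (nat_lit 7) (nat_lit 4) (nat_lit 5) (nat_lit 4) (nat_lit 420) (nat_lit 314) (nat_lit 166)))) (XT.nd (nat_lit 78) (nat_lit 76) (nat_lit 0) (XT.lf (nat_lit 0) (nat_lit 184059951666) (nat_lit 152) (nat_lit 43656081757) (nat_lit 0) (nat_lit 144220242581) (nat_lit 5) (nat_lit 5) (nat_lit 7) (nat_lit 4) (nat_lit 5) (nat_lit 4) (nat_lit 421) (nat_lit 314) (nat_lit 165)) (XT.nd (nat_lit 78) (nat_lit 76) (nat_lit 0) (XT.lf (nat_lit 0) (nat_lit 212370753103) (nat_lit 152) (nat_lit 4574783367) (nat_lit 0) (nat_lit 172529722132) (nat_lit 5) (nat_lit 5) (nat_lit 7) (nat_lit 4) (nat_lit 5) (nat_lit 4) (nat_lit 422) (nat_lit 314) (nat_lit 164)) (XT.lf (nat_lit 0) (nat_lit 37663375564) (nat_lit 76) (nat_lit 205020385760) (nat_lit 76) (nat_lit 165178095850) (nat_lit 4) (nat_lit 4) (nat_lit 5) (nat_lit 5) (nat_lit 5) (nat_lit 4) (nat_lit 423) (nat_lit 314) (nat_lit 163))))))) (XT.nd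 (nat_lit 38532) (nat_lit 0) (nat_lit 6916) (XT.nd (nat_lit 468) (nat_lit 0) (nat_lit 0) (XT.nd (nat_lit 234) (nat_lit 0) (nat_lit 0) (XT.nd (nat_lit 78) (nat_lit 0) (nat_lit 0) (XT.lf (nat_lit 0) (nat_lit 82169644007) (nat_lit 76) (nat_lit 192418911967) (nat_lit 76) (nat_lit 152575423069) (nat_lit 4) (nat_lit 4) (nat_lit 5) (nat_lit 5) (nat_lit 5) (nat_lit 4) (nat_lit 424) (nat_lit 314) (nat_lit 162)) (XT.nd (nat_lit 78) (nat_lit 0) (nat_lit 0) (XT.lf (nat_lit 0) (nat_lit 128898726270) (nat_lit 76) (nat_lit 179188587754) (nat_lit 76) (nat_lit 139343956961) (nat_lit 4) (nat_lit 4) (nat_lit 5) (nat_lit 5) (nat_lit 5) (nat_lit 4) (nat_lit 425) (nat_lit 314) (nat_lit 161)) (XT.lf (nat_lit 0) (nat_lit 177961882073) (nat_lit 76) (nat_lit 165297912348) (nat_lit 76) (nat_lit 125452194037) (nat_lit 4) (nat_lit 4) (nat_lit 5) (nat_lit 5) (nat_lit 5) (nat_lit 4) (nat_lit 426) (nat_lit 314) (nat_lit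 160)))) (XT.nd (nat_lit 78) (nat_lit 0) (nat_lit 0) (XT.lf (nat_lit 0) (nat_lit 229475928452) (nat_lit 76) (nat_lit 150713812713) (nat_lit 76) (nat_lit 110867058670) (nat_lit 4) (nat_lit 4) (nat_lit 5) (nat_lit 5) (nat_lit 5) (nat_lit 4) (nat_lit 427) (nat_lit 314) (nat_lit 159)) (XT.nd (nat_lit 78) (nat_lit 0) (nat_lit 0) (XT.lf (nat_lit 0) (nat_lit 283563517899) (nat_lit 76) (nat_lit 135401564802) (nat_lit 76) (nat_lit 95553824347) (nat_lit 4) (nat_lit 4) (nat_lit 5) (nat_lit 5) (nat_lit 5) (nat_lit 4) (nat_lit 428) (nat_lit 314) (nat_lit 158)) (XT.lf (nat_lit 0) (nat_lit 340353430390) (nat_lit 76) (nat_lit 119324710881) (nat_lit 76) (nat_lit 79476030987) (nat_lit 4) (nat_lit 4) (nat_lit 5) (nat_lit 5) (nat_lit 5) (nat_lit 4) (nat_lit 429) (nat_lit 314) (nat_lit 157))))) (XT.nd (nat_lit 234) (nat_lit 0) (nat_lit 0) (XT.nd (nat_lit 78) (nat_lit 0) (nat_lit 0) (XT.lf (nat_lit 0) (nat_lit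 399980880001) (nat_lit 76) (nat_lit 102444972727) (nat_lit 76) (nat_lit 62595398129) (nat_lit 4) (nat_lit 4) (nat_lit 5) (nat_lit 5) (nat_lit 5) (nat_lit 4) (nat_lit 430) (nat_lit 314) (nat_lit 156)) (XT.nd (nat_lit 78) (nat_lit 0) (nat_lit 0) (XT.lf (nat_lit 0) (nat_lit 462587836851) (nat_lit 76) (nat_lit 84722160488) (nat_lit 76) (nat_lit 44871733791) (nat_lit 4) (nat_lit 4) (nat_lit 5) (nat_lit 5) (nat_lit 5) (nat_lit 4) (nat_lit 431) (nat_lit 314) (nat_lit 155)) (XT.lf (nat_lit 0) (nat_lit 528323365123) (nat_lit 76) (nat_lit 66114076991) (nat_lit 76) (nat_lit 26262838771) (nat_lit 4) (nat_lit 4) (nat_lit 5) (nat_lit 5) (nat_lit 5) (nat_lit 4) (nat_lit 432) (nat_lit 314) (nat_lit 154)))) (XT.nd (nat_lit 37674) (nat_lit 0) (nat_lit 8816) (XT.lf (nat_lit 0) (nat_lit 597343977979) (nat_lit 76) (nat_lit 46576417276) (nat_lit 76) (nat_lit 6724406177) (nat_lit 4) (nat_lit 4) (nat_lit 5) (nat_lit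 5) (nat_lit 5) (nat_lit 4) (nat_lit 433) (nat_lit 314) (nat_lit 153)) (XT.nd (nat_lit 78) (nat_lit 0) (nat_lit 0) (XT.lf (nat_lit 0) (nat_lit 3268978364) (nat_lit 684) (nat_lit 635198027) (nat_lit 684) (nat_lit 635198027) (nat_lit 120) (nat_lit 3) (nat_lit 129) (nat_lit 3) (nat_lit 129) (nat_lit 5) (nat_lit 315) (nat_lit 315) (nat_lit 270)) (XT.lf (nat_lit 76) (nat_lit 3145876542) (nat_lit 0) (nat_lit 4442152278) (nat_lit 684) (nat_lit 1672331842) (nat_lit 121) (nat_lit 5) (nat_lit 120) (nat_lit 3) (nat_lit 129) (nat_lit 5) (nat_lit 316) (nat_lit 315) (nat_lit 269)))))) (XT.nd (nat_lit 468) (nat_lit 1292) (nat_lit 0) (XT.nd (nat_lit 234) (nat_lit 0) (nat_lit 76) (XT.nd (nat_lit 78) (nat_lit 608) (nat_lit 0) (XT.lf (nat_lit 76) (nat_lit 7797957776) (nat_lit 0) (nat_lit 860096096) (nat_lit 684) (nat_lit 794692398) (nat_lit 121) (nat_lit 5) (nat_lit 120) (nat_lit 3) (nat_lit 129) (nat_lit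 5) (nat_lit 317) (nat_lit 315) (nat_lit 268)) (XT.nd (nat_lit 78) (nat_lit 0) (nat_lit 0) (XT.lf (nat_lit 0) (nat_lit 165178817) (nat_lit 684) (nat_lit 6605920639) (nat_lit 760) (nat_lit 2881491795) (nat_lit 112) (nat_lit 5) (nat_lit 121) (nat_lit 5) (nat_lit 122) (nat_lit 5) (nat_lit 318) (nat_lit 315) (nat_lit 267)) (XT.lf (nat_lit 0) (nat_lit 1138899599) (nat_lit 684) (nat_lit 1879908332) (nat_lit 760) (nat_lit 6843397737) (nat_lit 112) (nat_lit 5) (nat_lit 121) (nat_lit 5) (nat_lit 122) (nat_lit 5) (nat_lit 319) (nat_lit 315) (nat_lit 266)))) (XT.nd (nat_lit 78) (nat_lit 0) (nat_lit 0) (XT.lf (nat_lit 0) (nat_lit 2178349370) (nat_lit 684) (nat_lit 6944841251) (nat_lit 760) (nat_lit 958312057) (nat_lit 113) (nat_lit 5) (nat_lit 122) (nat_lit 5) (nat_lit 123) (nat_lit 5) (nat_lit 320) (nat_lit 315) (nat_lit 265)) (XT.nd (nat_lit 78) (nat_lit 0) (nat_lit 0) (XT.lf (nat_lit 0) (nat_lit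 3306029649) (nat_lit 684) (nat_lit 1923384186) (nat_lit 760) (nat_lit 5080589248) (nat_lit 113) (nat_lit 5) (nat_lit 122) (nat_lit 5) (nat_lit 123) (nat_lit 5) (nat_lit 321) (nat_lit 315) (nat_lit 264)) (XT.lf (nat_lit 76) (nat_lit 3427881462) (nat_lit 0) (nat_lit 1072312543) (nat_lit 760) (nat_lit 6049278498) (nat_lit 114) (nat_lit 5) (nat_lit 113) (nat_lit 5) (nat_lit 123) (nat_lit 5) (nat_lit 322) (nat_lit 315) (nat_lit 263))))) (XT.nd (nat_lit 234) (nat_lit 1444) (nat_lit 0) (XT.nd (nat_lit 78) (nat_lit 0) (nat_lit 0) (XT.lf (nat_lit 0) (nat_lit 5796931532) (nat_lit 684) (nat_lit 1770535604) (nat_lit 760) (nat_lit 3231351671) (nat_lit 114) (nat_lit 5) (nat_lit 123) (nat_lit 5) (nat_lit 124) (nat_lit 5) (nat_lit 323) (nat_lit 315) (nat_lit 262)) (XT.nd (nat_lit 78) (nat_lit 0) (nat_lit 76) (XT.lf (nat_lit 76) (nat_lit 3924882612) (nat_lit 0) (nat_lit 3272814085) (nat_lit 760) (nat_lit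 3861020635) (nat_lit 115) (nat_lit 5) (nat_lit 114) (nat_lit 5) (nat_lit 124) (nat_lit 5) (nat_lit 324) (nat_lit 315) (nat_lit 261)) (XT.lf (nat_lit 0) (nat_lit 8680143038) (nat_lit 684) (nat_lit 1416169565) (nat_lit 76) (nat_lit 1234758358) (nat_lit 115) (nat_lit 5) (nat_lit 124) (nat_lit 5) (nat_lit 116) (nat_lit 5) (nat_lit 325) (nat_lit 315) (nat_lit 260)))) (XT.nd (nat_lit 78) (nat_lit 836) (nat_lit 0) (XT.lf (nat_lit 0) (nat_lit 4651359803) (nat_lit 684) (nat_lit 5675301664) (nat_lit 760) (nat_lit 1285923627) (nat_lit 106) (nat_lit 5) (nat_lit 115) (nat_lit 5) (nat_lit 116) (nat_lit 5) (nat_lit 326) (nat_lit 315) (nat_lit 259)) (XT.nd (nat_lit 78) (nat_lit 760) (nat_lit 0) (XT.lf (nat_lit 0) (nat_lit 131306080) (nat_lit 760) (nat_lit 870188892) (nat_lit 76) (nat_lit 10907166974) (nat_lit 105) (nat_lit 5) (nat_lit 115) (nat_lit 5) (nat_lit 106) (nat_lit 5) (nat_lit 327) (nat_lit 315)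 (nat_lit 258)) (XT.lf (nat_lit 0) (nat_lit 1693315787) (nat_lit 836) (nat_lit 6623760412) (nat_lit 76) (nat_lit 3895590529) (nat_lit 95) (nat_lit 5) (nat_lit 106) (nat_lit 5) (nat_lit 96) (nat_lit 5) (nat_lit 328) (nat_lit 315) (nat_lit 257))))))))
noncomputable def xc141 : XT := (XT.nd (nat_lit 1794) (nat_lit 1900) (nat_lit 0) (XT.nd (nat_lit 858) (nat_lit 1596) (nat_lit 0) (XT.nd (nat_lit 390) (nat_lit 912) (nat_lit 0) (XT.nd (nat_lit 156) (nat_lit 684) (nat_lit 0) (XT.nd (nat_lit 78) (nat_lit 380) (nat_lit 0) (XT.lf (nat_lit 0) (nat_lit 3332032137) (nat_lit 836) (nat_lit 178286579) (nat_lit 76) (nat_lit 9021655888) (nat_lit 95) (nat_lit 5) (nat_lit 106) (nat_lit 5) (nat_lit 96) (nat_lit 5) (nat_lit 329) (nat_lit 315) (nat_lit 256)) (XT.lf (nat_lit 0) (nat_lit 5152995165) (nat_lit 456) (nat_lit 6113106203) (nat_lit 76) (nat_lit 1596162546) (nat_lit 90) (nat_lit 5) (nat_lit 96) (nat_lit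 5) (nat_lit 91) (nat_lit 5) (nat_lit 330) (nat_lit 315) (nat_lit 255))) (XT.nd (nat_lit 78) (nat_lit 380) (nat_lit 0) (XT.lf (nat_lit 0) (nat_lit 755621848) (nat_lit 304) (nat_lit 6351600302) (nat_lit 380) (nat_lit 6099764829) (nat_lit 86) (nat_lit 5) (nat_lit 90) (nat_lit 5) (nat_lit 91) (nat_lit 5) (nat_lit 331) (nat_lit 315) (nat_lit 254)) (XT.nd (nat_lit 78) (nat_lit 380) (nat_lit 0) (XT.lf (nat_lit 0) (nat_lit 8149308734) (nat_lit 304) (nat_lit 1084141969) (nat_lit 380) (nat_lit 4331809631) (nat_lit 86) (nat_lit 5) (nat_lit 90) (nat_lit 5) (nat_lit 91) (nat_lit 5) (nat_lit 332) (nat_lit 315) (nat_lit 253)) (XT.lf (nat_lit 0) (nat_lit 1933030294) (nat_lit 380) (nat_lit 9604697897) (nat_lit 456) (nat_lit 2400159572) (nat_lit 81) (nat_lit 5) (nat_lit 86) (nat_lit 5) (nat_lit 87) (nat_lit 5) (nat_lit 333) (nat_lit 315) (nat_lit 252))))) (XT.nd (nat_lit 234) (nat_lit 532) (nat_lit 0) (XT.nd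 (nat_lit 78) (nat_lit 380) (nat_lit 0) (XT.lf (nat_lit 0) (nat_lit 9788978645) (nat_lit 380) (nat_lit 4250437321) (nat_lit 456) (nat_lit 285646763) (nat_lit 81) (nat_lit 5) (nat_lit 86) (nat_lit 5) (nat_lit 87) (nat_lit 5) (nat_lit 334) (nat_lit 315) (nat_lit 251)) (XT.nd (nat_lit 78) (nat_lit 0) (nat_lit 0) (XT.lf (nat_lit 0) (nat_lit 1921575147) (nat_lit 380) (nat_lit 11397857115) (nat_lit 76) (nat_lit 1408232404) (nat_lit 76) (nat_lit 5) (nat_lit 81) (nat_lit 5) (nat_lit 77) (nat_lit 5) (nat_lit 335) (nat_lit 315) (nat_lit 250)) (XT.lf (nat_lit 0) (nat_lit 4351880017) (nat_lit 380) (nat_lit 3506060970) (nat_lit 76) (nat_lit 7286127950) (nat_lit 76) (nat_lit 5) (nat_lit 81) (nat_lit 5) (nat_lit 77) (nat_lit 5) (nat_lit 336) (nat_lit 315) (nat_lit 249)))) (XT.nd (nat_lit 78) (nat_lit 228) (nat_lit 0) (XT.lf (nat_lit 0) (nat_lit 4908513512) (nat_lit 304) (nat_lit 2047595633) (nat_lit 380)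 (nat_lit 8622585202) (nat_lit 72) (nat_lit 5) (nat_lit 76) (nat_lit 5) (nat_lit 77) (nat_lit 5) (nat_lit 337) (nat_lit 315) (nat_lit 248)) (XT.nd (nat_lit 78) (nat_lit 228) (nat_lit 0) (XT.lf (nat_lit 0) (nat_lit 9790588685) (nat_lit 380) (nat_lit 2260366616) (nat_lit 76) (nat_lit 3979114137) (nat_lit 72) (nat_lit 5) (nat_lit 77) (nat_lit 5) (nat_lit 73) (nat_lit 5) (nat_lit 338) (nat_lit 315) (nat_lit 247)) (XT.lf (nat_lit 0) (nat_lit 6723402594) (nat_lit 228) (nat_lit 6159457305) (nat_lit 304) (nat_lit 3615369390) (nat_lit 69) (nat_lit 5) (nat_lit 72) (nat_lit 5) (nat_lit 73) (nat_lit 5) (nat_lit 339) (nat_lit 315) (nat_lit 246)))))) (XT.nd (nat_lit 468) (nat_lit 760) (nat_lit 0) (XT.nd (nat_lit 234) (nat_lit 228) (nat_lit 0) (XT.nd (nat_lit 78) (nat_lit 608) (nat_lit 0) (XT.lf (nat_lit 0) (nat_lit 16147143359) (nat_lit 304) (nat_lit 782814820) (nat_lit 76) (nat_lit 58987485) (nat_lit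 69) (nat_lit 5) (nat_lit 73) (nat_lit 5) (nat_lit 70) (nat_lit 5) (nat_lit 340) (nat_lit 315) (nat_lit 245)) (XT.nd (nat_lit 78) (nat_lit 228) (nat_lit 0) (XT.lf (nat_lit 0) (nat_lit 2225409673) (nat_lit 380) (nat_lit 8716702253) (nat_lit 76) (nat_lit 6549424729) (nat_lit 64) (nat_lit 5) (nat_lit 69) (nat_lit 5) (nat_lit 65) (nat_lit 5) (nat_lit 341) (nat_lit 315) (nat_lit 244)) (XT.lf (nat_lit 0) (nat_lit 803019992) (nat_lit 228) (nat_lit 4620028483) (nat_lit 304) (nat_lit 12595266855) (nat_lit 61) (nat_lit 5) (nat_lit 64) (nat_lit 5) (nat_lit 65) (nat_lit 5) (nat_lit 342) (nat_lit 315) (nat_lit 243)))) (XT.nd (nat_lit 78) (nat_lit 228) (nat_lit 0) (XT.lf (nat_lit 0) (nat_lit 8941913187) (nat_lit 304) (nat_lit 7524706263) (nat_lit 76) (nat_lit 2096761482) (nat_lit 61) (nat_lit 5) (nat_lit 65) (nat_lit 5) (nat_lit 62) (nat_lit 5) (nat_lit 343) (nat_lit 315) (nat_lit 242)) (XT.nd (nat_lit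 78) (nat_lit 0) (nat_lit 0) (XT.lf (nat_lit 0) (nat_lit 2632179487) (nat_lit 228) (nat_lit 10102130994) (nat_lit 304) (nat_lit 6396524335) (nat_lit 58) (nat_lit 5) (nat_lit 61) (nat_lit 5) (nat_lit 62) (nat_lit 5) (nat_lit 344) (nat_lit 315) (nat_lit 241)) (XT.lf (nat_lit 0) (nat_lit 13531840850) (nat_lit 228) (nat_lit 3293182452) (nat_lit 304) (nat_lit 2896217089) (nat_lit 58) (nat_lit 5) (nat_lit 61) (nat_lit 5) (nat_lit 62) (nat_lit 5) (nat_lit 345) (nat_lit 315) (nat_lit 240))))) (XT.nd (nat_lit 234) (nat_lit 228) (nat_lit 0) (XT.nd (nat_lit 78) (nat_lit 228) (nat_lit 0) (XT.lf (nat_lit 0) (nat_lit 871674411) (nat_lit 304) (nat_lit 15649775125) (nat_lit 76) (nat_lit 3813245749) (nat_lit 54) (nat_lit 5) (nat_lit 58) (nat_lit 5) (nat_lit 55) (nat_lit 5) (nat_lit 346) (nat_lit 315) (nat_lit 239)) (XT.nd (nat_lit 78) (nat_lit 228) (nat_lit 0) (XT.lf (nat_lit 0) (nat_lit 4873354042) (nat_lit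 304) (nat_lit 4784961070) (nat_lit 76) (nat_lit 11311009495) (nat_lit 54) (nat_lit 5) (nat_lit 58) (nat_lit 5) (nat_lit 55) (nat_lit 5) (nat_lit 347) (nat_lit 315) (nat_lit 238)) (XT.lf (nat_lit 0) (nat_lit 6816469905) (nat_lit 228) (nat_lit 2348119565) (nat_lit 304) (nat_lit 12466633671) (nat_lit 51) (nat_lit 5) (nat_lit 54) (nat_lit 5) (nat_lit 55) (nat_lit 5) (nat_lit 348) (nat_lit 315) (nat_lit 237)))) (XT.nd (nat_lit 78) (nat_lit 228) (nat_lit 0) (XT.lf (nat_lit 0) (nat_lit 13819280488) (nat_lit 304) (nat_lit 3267684101) (nat_lit 76) (nat_lit 5231818119) (nat_lit 51) (nat_lit 5) (nat_lit 55) (nat_lit 5) (nat_lit 52) (nat_lit 5) (nat_lit 349) (nat_lit 315) (nat_lit 236)) (XT.nd (nat_lit 78) (nat_lit 76) (nat_lit 0) (XT.lf (nat_lit 0) (nat_lit 9085112929) (nat_lit 152) (nat_lit 9786074954) (nat_lit 228) (nat_lit 4161318562) (nat_lit 49) (nat_lit 5) (nat_lit 51) (nat_lit 5) (nat_lit 52)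 (nat_lit 5) (nat_lit 350) (nat_lit 315) (nat_lit 235)) (XT.lf (nat_lit 0) (nat_lit 421686730) (nat_lit 228) (nat_lit 1641264029) (nat_lit 76) (nat_lit 21716641755) (nat_lit 48) (nat_lit 5) (nat_lit 51) (nat_lit 5) (nat_lit 49) (nat_lit 5) (nat_lit 351) (nat_lit 315) (nat_lit 234))))))) (XT.nd (nat_lit 936) (nat_lit 684) (nat_lit 0) (XT.nd (nat_lit 468) (nat_lit 456) (nat_lit 0) (XT.nd (nat_lit 234) (nat_lit 380) (nat_lit 0) (XT.nd (nat_lit 78) (nat_lit 152) (nat_lit 0) (XT.lf (nat_lit 0) (nat_lit 5357834113) (nat_lit 304) (nat_lit 13091706276) (nat_lit 76) (nat_lit 6097898494) (nat_lit 45) (nat_lit 5) (nat_lit 49) (nat_lit 5) (nat_lit 46) (nat_lit 5) (nat_lit 352) (nat_lit 315) (nat_lit 233)) (XT.nd (nat_lit 78) (nat_lit 152) (nat_lit 0) (XT.lf (nat_lit 0) (nat_lit 10588114630) (nat_lit 304) (nat_lit 145159002) (nat_lit 76) (nat_lit 14618046109) (nat_lit 45) (nat_lit 5) (nat_lit 49) (nat_lit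 5) (nat_lit 46) (nat_lit 5) (nat_lit 353) (nat_lit 315) (nat_lit 232)) (XT.lf (nat_lit 0) (nat_lit 13870607665) (nat_lit 152) (nat_lit 2411818310) (nat_lit 228) (nat_lit 9902850883) (nat_lit 43) (nat_lit 5) (nat_lit 45) (nat_lit 5) (nat_lit 46) (nat_lit 5) (nat_lit 354) (nat_lit 315) (nat_lit 231)))) (XT.nd (nat_lit 78) (nat_lit 228) (nat_lit 0) (XT.lf (nat_lit 0) (nat_lit 1456955733) (nat_lit 152) (nat_lit 20914667983) (nat_lit 228) (nat_lit 4683807247) (nat_lit 41) (nat_lit 5) (nat_lit 43) (nat_lit 5) (nat_lit 44) (nat_lit 5) (nat_lit 355) (nat_lit 315) (nat_lit 230)) (XT.nd (nat_lit 78) (nat_lit 152) (nat_lit 0) (XT.lf (nat_lit 0) (nat_lit 1008468499) (nat_lit 228) (nat_lit 11691722639) (nat_lit 76) (nat_lit 15256398911) (nat_lit 40) (nat_lit 5) (nat_lit 43) (nat_lit 5) (nat_lit 41) (nat_lit 5) (nat_lit 356) (nat_lit 315) (nat_lit 229)) (XT.lf (nat_lit 0) (nat_lit 2905266381) (nat_lit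 152) (nat_lit 3954950193) (nat_lit 228) (nat_lit 22037144700) (nat_lit 38) (nat_lit 5) (nat_lit 40) (nat_lit 5) (nat_lit 41) (nat_lit 5) (nat_lit 357) (nat_lit 315) (nat_lit 228))))) (XT.nd (nat_lit 234) (nat_lit 304) (nat_lit 0) (XT.nd (nat_lit 78) (nat_lit 152) (nat_lit 0) (XT.lf (nat_lit 0) (nat_lit 13274494430) (nat_lit 228) (nat_lit 11343597775) (nat_lit 76) (nat_lit 5253588048) (nat_lit 38) (nat_lit 5) (nat_lit 41) (nat_lit 5) (nat_lit 39) (nat_lit 5) (nat_lit 358) (nat_lit 315) (nat_lit 227)) (XT.nd (nat_lit 78) (nat_lit 0) (nat_lit 0) (XT.lf (nat_lit 0) (nat_lit 4082704521) (nat_lit 152) (nat_lit 16043049521) (nat_lit 228) (nat_lit 10763153757) (nat_lit 36) (nat_lit 5) (nat_lit 38) (nat_lit 5) (nat_lit 39) (nat_lit 5) (nat_lit 359) (nat_lit 315) (nat_lit 226)) (XT.lf (nat_lit 0) (nat_lit 20654019506) (nat_lit 152) (nat_lit 6845628556) (nat_lit 228) (nat_lit 4448350817) (nat_lit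 36) (nat_lit 5) (nat_lit 38) (nat_lit 5) (nat_lit 39) (nat_lit 5) (nat_lit 360) (nat_lit 315) (nat_lit 225)))) (XT.nd (nat_lit 78) (nat_lit 152) (nat_lit 0) (XT.lf (nat_lit 0) (nat_lit 2226011048) (nat_lit 152) (nat_lit 27997011382) (nat_lit 76) (nat_lit 2829640640) (nat_lit 34) (nat_lit 5) (nat_lit 36) (nat_lit 5) (nat_lit 35) (nat_lit 5) (nat_lit 361) (nat_lit 315) (nat_lit 224)) (XT.nd (nat_lit 78) (nat_lit 152) (nat_lit 0) (XT.lf (nat_lit 0) (nat_lit 9379699639) (nat_lit 152) (nat_lit 11796110027) (nat_lit 76) (nat_lit 13018354442) (nat_lit 34) (nat_lit 5) (nat_lit 36) (nat_lit 5) (nat_lit 35) (nat_lit 5) (nat_lit 362) (nat_lit 315) (nat_lit 223)) (XT.lf (nat_lit 0) (nat_lit 5367884102) (nat_lit 152) (nat_lit 11596019515) (nat_lit 228) (nat_lit 18425199745) (nat_lit 32) (nat_lit 5) (nat_lit 34) (nat_lit 5) (nat_lit 35) (nat_lit 5) (nat_lit 363) (nat_lit 315) (nat_lit 222)))))) (XT.nd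 (nat_lit 468) (nat_lit 304) (nat_lit 0) (XT.nd (nat_lit 234) (nat_lit 228) (nat_lit 0) (XT.nd (nat_lit 78) (nat_lit 152) (nat_lit 0) (XT.lf (nat_lit 0) (nat_lit 23781156686) (nat_lit 152) (nat_lit 1335191743) (nat_lit 228) (nat_lit 11517994103) (nat_lit 32) (nat_lit 5) (nat_lit 34) (nat_lit 5) (nat_lit 35) (nat_lit 5) (nat_lit 364) (nat_lit 315) (nat_lit 221)) (XT.nd (nat_lit 78) (nat_lit 76) (nat_lit 0) (XT.lf (nat_lit 0) (nat_lit 5173491225) (nat_lit 76) (nat_lit 28720715804) (nat_lit 152) (nat_lit 4036751328) (nat_lit 31) (nat_lit 5) (nat_lit 32) (nat_lit 5) (nat_lit 33) (nat_lit 4) (nat_lit 365) (nat_lit 315) (nat_lit 220)) (XT.lf (nat_lit 0) (nat_lit 3929168913) (nat_lit 152) (nat_lit 14836892911) (nat_lit 76) (nat_lit 20511724463) (nat_lit 30) (nat_lit 5) (nat_lit 32) (nat_lit 5) (nat_lit 31) (nat_lit 5) (nat_lit 366) (nat_lit 315) (nat_lit 219)))) (XT.nd (nat_lit 78) (nat_lit 76)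 (nat_lit 0) (XT.lf (nat_lit 0) (nat_lit 4025191442) (nat_lit 152) (nat_lit 8185568487) (nat_lit 228) (nat_lit 28475238759) (nat_lit 28) (nat_lit 5) (nat_lit 30) (nat_lit 5) (nat_lit 31) (nat_lit 5) (nat_lit 367) (nat_lit 315) (nat_lit 218)) (XT.nd (nat_lit 78) (nat_lit 76) (nat_lit 0) (XT.lf (nat_lit 0) (nat_lit 21197751667) (nat_lit 228) (nat_lit 17873611538) (nat_lit 76) (nat_lit 3078695961) (nat_lit 28) (nat_lit 5) (nat_lit 31) (nat_lit 5) (nat_lit 29) (nat_lit 4) (nat_lit 368) (nat_lit 315) (nat_lit 217)) (XT.lf (nat_lit 0) (nat_lit 1758596047) (nat_lit 76) (nat_lit 29027887000) (nat_lit 152) (nat_lit 12893223466) (nat_lit 27) (nat_lit 5) (nat_lit 28) (nat_lit 5) (nat_lit 29) (nat_lit 4) (nat_lit 369) (nat_lit 315) (nat_lit 216))))) (XT.nd (nat_lit 234) (nat_lit 76) (nat_lit 0) (XT.nd (nat_lit 78) (nat_lit 228) (nat_lit 0) (XT.lf (nat_lit 0) (nat_lit 22976766359) (nat_lit 76) (nat_lit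 18171514862) (nat_lit 152) (nat_lit 4122876682) (nat_lit 27) (nat_lit 5) (nat_lit 28) (nat_lit 5) (nat_lit 29) (nat_lit 4) (nat_lit 370) (nat_lit 315) (nat_lit 215)) (XT.nd (nat_lit 78) (nat_lit 152) (nat_lit 0) (XT.lf (nat_lit 0) (nat_lit 4914423339) (nat_lit 152) (nat_lit 1781445071) (nat_lit 76) (nat_lit 40242785058) (nat_lit 26) (nat_lit 5) (nat_lit 28) (nat_lit 5) (nat_lit 27) (nat_lit 5) (nat_lit 371) (nat_lit 315) (nat_lit 214)) (XT.lf (nat_lit 0) (nat_lit 14663793763) (nat_lit 228) (nat_lit 28435352252) (nat_lit 76) (nat_lit 5567063087) (nat_lit 24) (nat_lit 5) (nat_lit 27) (nat_lit 5) (nat_lit 25) (nat_lit 4) (nat_lit 372) (nat_lit 315) (nat_lit 213)))) (XT.nd (nat_lit 78) (nat_lit 76) (nat_lit 0) (XT.lf (nat_lit 0) (nat_lit 25032769382) (nat_lit 228) (nat_lit 7198298859) (nat_lit 76) (nat_lit 18242470066) (nat_lit 24) (nat_lit 5) (nat_lit 27) (nat_lit 5) (nat_lit 25) (nat_lit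 4) (nat_lit 373) (nat_lit 315) (nat_lit 212)) (XT.nd (nat_lit 78) (nat_lit 0) (nat_lit 0) (XT.lf (nat_lit 0) (nat_lit 15585120267) (nat_lit 76) (nat_lit 20570500083) (nat_lit 152) (nat_lit 16203844792) (nat_lit 23) (nat_lit 5) (nat_lit 24) (nat_lit 5) (nat_lit 25) (nat_lit 4) (nat_lit 374) (nat_lit 315) (nat_lit 211)) (XT.lf (nat_lit 0) (nat_lit 39743541693) (nat_lit 76) (nat_lit 8205234456) (nat_lit 152) (nat_lit 6385206436) (nat_lit 23) (nat_lit 5) (nat_lit 24) (nat_lit 5) (nat_lit 25) (nat_lit 4) (nat_lit 375) (nat_lit 315) (nat_lit 210))))))))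
noncomputable def xc142 : XT := (XT.nd (nat_lit 1794) (nat_lit 456) (nat_lit 0) (XT.nd (nat_lit 858) (nat_lit 380) (nat_lit 0) (XT.nd (nat_lit 390) (nat_lit 304) (nat_lit 0) (XT.nd (nat_lit 156) (nat_lit 76) (nat_lit 0) (XT.nd (nat_lit 78) (nat_lit 0) (nat_lit 0) (XT.lf (nat_lit 0) (nat_lit 4008210029) (nat_lit 152) (nat_lit 47562371113) (nat_lit 76) (nat_lit 4823110883) (nat_lit 21) (nat_lit 5) (nat_lit 23) (nat_lit 5) (nat_lit 22) (nat_lit 4) (nat_lit 376) (nat_lit 315) (nat_lit 209)) (XT.lf (nat_lit 0) (nat_lit 15084925053) (nat_lit 152) (nat_lit 24870263901) (nat_lit 76) (nat_lit 18577055634) (nat_lit 21) (nat_lit 5) (nat_lit 23) (nat_lit 5) (nat_lit 22) (nat_lit 4) (nat_lit 377) (nat_lit 315) (nat_lit 208))) (XT.nd (nat_lit 78) (nat_lit 76) (nat_lit 0) (XT.lf (nat_lit 0) (nat_lit 26708383989) (nat_lit 152) (nat_lit 1056609834) (nat_lit 76) (nat_lit 33013087507) (nat_lit 21) (nat_lit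 5) (nat_lit 23) (nat_lit 5) (nat_lit 22) (nat_lit 4) (nat_lit 378) (nat_lit 315) (nat_lit 207)) (XT.nd (nat_lit 78) (nat_lit 0) (nat_lit 0) (XT.lf (nat_lit 0) (nat_lit 24726699055) (nat_lit 76) (nat_lit 14565615751) (nat_lit 152) (nat_lit 23824932019) (nat_lit 20) (nat_lit 5) (nat_lit 21) (nat_lit 5) (nat_lit 22) (nat_lit 4) (nat_lit 379) (nat_lit 315) (nat_lit 206)) (XT.lf (nat_lit 0) (nat_lit 51823620418) (nat_lit 76) (nat_lit 693092399) (nat_lit 152) (nat_lit 13056096023) (nat_lit 20) (nat_lit 5) (nat_lit 21) (nat_lit 5) (nat_lit 22) (nat_lit 4) (nat_lit 380) (nat_lit 315) (nat_lit 205))))) (XT.nd (nat_lit 234) (nat_lit 152) (nat_lit 0) (XT.nd (nat_lit 78) (nat_lit 76) (nat_lit 0) (XT.lf (nat_lit 0) (nat_lit 12289081908) (nat_lit 76) (nat_lit 54515321534) (nat_lit 76) (nat_lit 1326643567) (nat_lit 19) (nat_lit 4) (nat_lit 20) (nat_lit 5) (nat_lit 20) (nat_lit 4) (nat_lit 381) (nat_lit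 315) (nat_lit 204)) (XT.nd (nat_lit 78) (nat_lit 0) (nat_lit 0) (XT.lf (nat_lit 0) (nat_lit 10879210229) (nat_lit 152) (nat_lit 30897608569) (nat_lit 76) (nat_lit 29019718430) (nat_lit 18) (nat_lit 5) (nat_lit 20) (nat_lit 5) (nat_lit 19) (nat_lit 4) (nat_lit 382) (nat_lit 315) (nat_lit 203)) (XT.lf (nat_lit 0) (nat_lit 23644702151) (nat_lit 152) (nat_lit 4739123054) (nat_lit 76) (nat_lit 45210694333) (nat_lit 18) (nat_lit 5) (nat_lit 20) (nat_lit 5) (nat_lit 19) (nat_lit 4) (nat_lit 383) (nat_lit 315) (nat_lit 202)))) (XT.nd (nat_lit 78) (nat_lit 76) (nat_lit 0) (XT.lf (nat_lit 0) (nat_lit 23467595798) (nat_lit 76) (nat_lit 13941486247) (nat_lit 152) (nat_lit 39105289642) (nat_lit 17) (nat_lit 5) (nat_lit 18) (nat_lit 5) (nat_lit 19) (nat_lit 4) (nat_lit 384) (nat_lit 315) (nat_lit 201)) (XT.nd (nat_lit 78) (nat_lit 76) (nat_lit 0) (XT.lf (nat_lit 0) (nat_lit 51956600479) (nat_lit 152)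 (nat_lit 26358264884) (nat_lit 0) (nat_lit 1260606426) (nat_lit 17) (nat_lit 5) (nat_lit 19) (nat_lit 4) (nat_lit 17) (nat_lit 4) (nat_lit 385) (nat_lit 315) (nat_lit 200)) (XT.lf (nat_lit 0) (nat_lit 1472948217) (nat_lit 76) (nat_lit 66004616702) (nat_lit 76) (nat_lit 15299759736) (nat_lit 16) (nat_lit 4) (nat_lit 17) (nat_lit 5) (nat_lit 17) (nat_lit 4) (nat_lit 386) (nat_lit 315) (nat_lit 199)))))) (XT.nd (nat_lit 468) (nat_lit 228) (nat_lit 0) (XT.nd (nat_lit 234) (nat_lit 0) (nat_lit 0) (XT.nd (nat_lit 78) (nat_lit 152) (nat_lit 0) (XT.lf (nat_lit 0) (nat_lit 31600669791) (nat_lit 76) (nat_lit 52614924292) (nat_lit 76) (nat_lit 1901626457) (nat_lit 16) (nat_lit 4) (nat_lit 17) (nat_lit 5) (nat_lit 17) (nat_lit 4) (nat_lit 387) (nat_lit 315) (nat_lit 198)) (XT.nd (nat_lit 78) (nat_lit 76) (nat_lit 0) (XT.lf (nat_lit 0) (nat_lit 11771809682) (nat_lit 152) (nat_lit 26589126908) (nat_lit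 76) (nat_lit 51253938259) (nat_lit 15) (nat_lit 5) (nat_lit 17) (nat_lit 5) (nat_lit 16) (nat_lit 4) (nat_lit 388) (nat_lit 315) (nat_lit 197)) (XT.lf (nat_lit 0) (nat_lit 2783201049) (nat_lit 76) (nat_lit 23320308182) (nat_lit 152) (nat_lit 67180420035) (nat_lit 14) (nat_lit 5) (nat_lit 15) (nat_lit 5) (nat_lit 16) (nat_lit 4) (nat_lit 389) (nat_lit 315) (nat_lit 196)))) (XT.nd (nat_lit 78) (nat_lit 0) (nat_lit 0) (XT.lf (nat_lit 0) (nat_lit 34538038337) (nat_lit 76) (nat_lit 7059192273) (nat_lit 152) (nat_lit 55516934938) (nat_lit 14) (nat_lit 5) (nat_lit 15) (nat_lit 5) (nat_lit 16) (nat_lit 4) (nat_lit 390) (nat_lit 315) (nat_lit 195)) (XT.nd (nat_lit 78) (nat_lit 0) (nat_lit 0) (XT.lf (nat_lit 0) (nat_lit 58017303834) (nat_lit 152) (nat_lit 33420608144) (nat_lit 0) (nat_lit 9690419320) (nat_lit 14) (nat_lit 5) (nat_lit 16) (nat_lit 4) (nat_lit 14) (nat_lit 4) (nat_lit 391) (nat_lit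 315) (nat_lit 194)) (XT.lf (nat_lit 0) (nat_lit 75369632686) (nat_lit 152) (nat_lit 2931561482) (nat_lit 0) (nat_lit 27036449465) (nat_lit 14) (nat_lit 5) (nat_lit 16) (nat_lit 4) (nat_lit 14) (nat_lit 4) (nat_lit 392) (nat_lit 315) (nat_lit 193))))) (XT.nd (nat_lit 234) (nat_lit 76) (nat_lit 0) (XT.nd (nat_lit 78) (nat_lit 76) (nat_lit 0) (XT.lf (nat_lit 0) (nat_lit 30035131288) (nat_lit 76) (nat_lit 64019119744) (nat_lit 76) (nat_lit 15679937755) (nat_lit 13) (nat_lit 4) (nat_lit 14) (nat_lit 5) (nat_lit 14) (nat_lit 4) (nat_lit 393) (nat_lit 315) (nat_lit 192)) (XT.nd (nat_lit 78) (nat_lit 76) (nat_lit 0) (XT.lf (nat_lit 0) (nat_lit 64743948833) (nat_lit 76) (nat_lit 48974617490) (nat_lit 76) (nat_lit 629722389) (nat_lit 13) (nat_lit 4) (nat_lit 14) (nat_lit 5) (nat_lit 14) (nat_lit 4) (nat_lit 394) (nat_lit 315) (nat_lit 191)) (XT.lf (nat_lit 0) (nat_lit 14683324563) (nat_lit 152) (nat_lit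 18249520806) (nat_lit 76) (nat_lit 86248606760) (nat_lit 12) (nat_lit 5) (nat_lit 14) (nat_lit 5) (nat_lit 13) (nat_lit 4) (nat_lit 395) (nat_lit 315) (nat_lit 190)))) (XT.nd (nat_lit 78) (nat_lit 0) (nat_lit 0) (XT.lf (nat_lit 0) (nat_lit 15139915050) (nat_lit 76) (nat_lit 15833466984) (nat_lit 152) (nat_lit 93270750169) (nat_lit 11) (nat_lit 5) (nat_lit 12) (nat_lit 5) (nat_lit 13) (nat_lit 4) (nat_lit 396) (nat_lit 315) (nat_lit 189)) (XT.nd (nat_lit 78) (nat_lit 0) (nat_lit 0) (XT.lf (nat_lit 0) (nat_lit 48421347024) (nat_lit 152) (nat_lit 78757657266) (nat_lit 0) (nat_lit 2363772430) (nat_lit 11) (nat_lit 5) (nat_lit 13) (nat_lit 4) (nat_lit 11) (nat_lit 4) (nat_lit 397) (nat_lit 315) (nat_lit 188)) (XT.lf (nat_lit 0) (nat_lit 66997618782) (nat_lit 152) (nat_lit 47160372078) (nat_lit 0) (nat_lit 20935567815) (nat_lit 11) (nat_lit 5) (nat_lit 13) (nat_lit 4) (nat_lit 11) (nat_lit 4)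 (nat_lit 398) (nat_lit 315) (nat_lit 187))))))) (XT.nd (nat_lit 936) (nat_lit 152) (nat_lit 0) (XT.nd (nat_lit 468) (nat_lit 76) (nat_lit 0) (XT.nd (nat_lit 234) (nat_lit 152) (nat_lit 0) (XT.nd (nat_lit 78) (nat_lit 76) (nat_lit 0) (XT.lf (nat_lit 0) (nat_lit 86499221734) (nat_lit 152) (nat_lit 13989925163) (nat_lit 0) (nat_lit 40432907555) (nat_lit 11) (nat_lit 5) (nat_lit 13) (nat_lit 4) (nat_lit 11) (nat_lit 4) (nat_lit 399) (nat_lit 315) (nat_lit 186)) (XT.nd (nat_lit 78) (nat_lit 0) (nat_lit 0) (XT.lf (nat_lit 0) (nat_lit 21521482577) (nat_lit 76) (nat_lit 85787116349) (nat_lit 76) (nat_lit 39716741967) (nat_lit 10) (nat_lit 4) (nat_lit 11) (nat_lit 5) (nat_lit 11) (nat_lit 4) (nat_lit 400) (nat_lit 315) (nat_lit 185)) (XT.lf (nat_lit 0) (nat_lit 59287878908) (nat_lit 76) (nat_lit 70104235533) (nat_lit 76) (nat_lit 24029994291) (nat_lit 10) (nat_lit 4) (nat_lit 11) (nat_lit 5) (nat_lit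 11) (nat_lit 4) (nat_lit 401) (nat_lit 315) (nat_lit 184)))) (XT.nd (nat_lit 78) (nat_lit 152) (nat_lit 0) (XT.lf (nat_lit 0) (nat_lit 98936613715) (nat_lit 76) (nat_lit 53640090409) (nat_lit 76) (nat_lit 7562166444) (nat_lit 10) (nat_lit 4) (nat_lit 11) (nat_lit 5) (nat_lit 11) (nat_lit 4) (nat_lit 402) (nat_lit 315) (nat_lit 183)) (XT.nd (nat_lit 78) (nat_lit 76) (nat_lit 0) (XT.lf (nat_lit 0) (nat_lit 9414659525) (nat_lit 152) (nat_lit 26781379292) (nat_lit 76) (nat_lit 130987987407) (nat_lit 9) (nat_lit 5) (nat_lit 11) (nat_lit 5) (nat_lit 10) (nat_lit 4) (nat_lit 403) (nat_lit 315) (nat_lit 182)) (XT.lf (nat_lit 0) (nat_lit 9536272206) (nat_lit 76) (nat_lit 17595944312) (nat_lit 152) (nat_lit 147435723694) (nat_lit 8) (nat_lit 5) (nat_lit 9) (nat_lit 5) (nat_lit 10) (nat_lit 4) (nat_lit 404) (nat_lit 315) (nat_lit 181))))) (XT.nd (nat_lit 234) (nat_lit 76) (nat_lit 0) (XT.nd (nat_lit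 78) (nat_lit 0) (nat_lit 0) (XT.lf (nat_lit 0) (nat_lit 46223990504) (nat_lit 152) (nat_lit 133741940874) (nat_lit 0) (nat_lit 2330701997) (nat_lit 8) (nat_lit 5) (nat_lit 10) (nat_lit 4) (nat_lit 8) (nat_lit 4) (nat_lit 405) (nat_lit 315) (nat_lit 180)) (XT.nd (nat_lit 78) (nat_lit 0) (nat_lit 0) (XT.lf (nat_lit 0) (nat_lit 66556097586) (nat_lit 152) (nat_lit 101181453234) (nat_lit 0) (nat_lit 22659923568) (nat_lit 8) (nat_lit 5) (nat_lit 10) (nat_lit 4) (nat_lit 8) (nat_lit 4) (nat_lit 406) (nat_lit 315) (nat_lit 179)) (XT.lf (nat_lit 0) (nat_lit 87902225538) (nat_lit 152) (nat_lit 66997958111) (nat_lit 0) (nat_lit 44003303415) (nat_lit 8) (nat_lit 5) (nat_lit 10) (nat_lit 4) (nat_lit 8) (nat_lit 4) (nat_lit 407) (nat_lit 315) (nat_lit 178)))) (XT.nd (nat_lit 78) (nat_lit 76) (nat_lit 0) (XT.lf (nat_lit 0) (nat_lit 110313198476) (nat_lit 152) (nat_lit 31110066233) (nat_lit 0) (nat_lit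 66411659111) (nat_lit 8) (nat_lit 5) (nat_lit 10) (nat_lit 4) (nat_lit 8) (nat_lit 4) (nat_lit 408) (nat_lit 315) (nat_lit 177)) (XT.nd (nat_lit 78) (nat_lit 0) (nat_lit 0) (XT.lf (nat_lit 0) (nat_lit 6784826585) (nat_lit 76) (nat_lit 127163479431) (nat_lit 76) (nat_lit 83259447453) (nat_lit 7) (nat_lit 4) (nat_lit 8) (nat_lit 5) (nat_lit 8) (nat_lit 4) (nat_lit 409) (nat_lit 315) (nat_lit 176)) (XT.lf (nat_lit 0) (nat_lit 47650058215) (nat_lit 76) (nat_lit 111639672270) (nat_lit 76) (nat_lit 67733266376) (nat_lit 7) (nat_lit 4) (nat_lit 8) (nat_lit 5) (nat_lit 8) (nat_lit 4) (nat_lit 410) (nat_lit 315) (nat_lit 175)))))) (XT.nd (nat_lit 468) (nat_lit 0) (nat_lit 0) (XT.nd (nat_lit 234) (nat_lit 152) (nat_lit 0) (XT.nd (nat_lit 78) (nat_lit 0) (nat_lit 0) (XT.lf (nat_lit 0) (nat_lit 90554287539) (nat_lit 76) (nat_lit 95341745807) (nat_lit 76) (nat_lit 51433079041) (nat_lit 7) (nat_lit 4)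 (nat_lit 8) (nat_lit 5) (nat_lit 8) (nat_lit 4) (nat_lit 411) (nat_lit 315) (nat_lit 174)) (XT.nd (nat_lit 78) (nat_lit 0) (nat_lit 0) (XT.lf (nat_lit 0) (nat_lit 135599667484) (nat_lit 76) (nat_lit 78230895455) (nat_lit 76) (nat_lit 34320075477) (nat_lit 7) (nat_lit 4) (nat_lit 8) (nat_lit 5) (nat_lit 8) (nat_lit 4) (nat_lit 412) (nat_lit 315) (nat_lit 173)) (XT.lf (nat_lit 0) (nat_lit 182893448955) (nat_lit 76) (nat_lit 60266381094) (nat_lit 76) (nat_lit 16353510437) (nat_lit 7) (nat_lit 4) (nat_lit 8) (nat_lit 5) (nat_lit 8) (nat_lit 4) (nat_lit 413) (nat_lit 315) (nat_lit 172)))) (XT.nd (nat_lit 78) (nat_lit 76) (nat_lit 0) (XT.lf (nat_lit 0) (nat_lit 2429077345) (nat_lit 152) (nat_lit 38935215125) (nat_lit 76) (nat_lit 230078021248) (nat_lit 6) (nat_lit 5) (nat_lit 8) (nat_lit 5) (nat_lit 7) (nat_lit 4) (nat_lit 414) (nat_lit 315) (nat_lit 171)) (XT.nd (nat_lit 78) (nat_lit 0) (nat_lit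 0) (XT.lf (nat_lit 0) (nat_lit 374006512) (nat_lit 76) (nat_lit 21231208229) (nat_lit 152) (nat_lit 262348916334) (nat_lit 5) (nat_lit 5) (nat_lit 6) (nat_lit 5) (nat_lit 7) (nat_lit 4) (nat_lit 415) (nat_lit 315) (nat_lit 170)) (XT.lf (nat_lit 0) (nat_lit 42407099167) (nat_lit 152) (nat_lit 254071094352) (nat_lit 0) (nat_lit 579999013) (nat_lit 5) (nat_lit 5) (nat_lit 7) (nat_lit 4) (nat_lit 5) (nat_lit 4) (nat_lit 416) (nat_lit 315) (nat_lit 169))))) (XT.nd (nat_lit 234) (nat_lit 0) (nat_lit 0) (XT.nd (nat_lit 78) (nat_lit 0) (nat_lit 0) (XT.lf (nat_lit 0) (nat_lit 64595389391) (nat_lit 152) (nat_lit 223438069844) (nat_lit 0) (nat_lit 22766682477) (nat_lit 5) (nat_lit 5) (nat_lit 7) (nat_lit 4) (nat_lit 5) (nat_lit 4) (nat_lit 417) (nat_lit 315) (nat_lit 168)) (XT.nd (nat_lit 78) (nat_lit 0) (nat_lit 0) (XT.lf (nat_lit 0) (nat_lit 87891436016) (nat_lit 152) (nat_lit 191276636606) (nat_lit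 0) (nat_lit 46061198854) (nat_lit 5) (nat_lit 5) (nat_lit 7) (nat_lit 4) (nat_lit 5) (nat_lit 4) (nat_lit 418) (nat_lit 315) (nat_lit 167)) (XT.lf (nat_lit 0) (nat_lit 112350705818) (nat_lit 152) (nat_lit 157510219796) (nat_lit 0) (nat_lit 70519011278) (nat_lit 5) (nat_lit 5) (nat_lit 7) (nat_lit 4) (nat_lit 5) (nat_lit 4) (nat_lit 419) (nat_lit 315) (nat_lit 166)))) (XT.nd (nat_lit 78) (nat_lit 0) (nat_lit 0) (XT.lf (nat_lit 0) (nat_lit 138031435155) (nat_lit 152) (nat_lit 122058423184) (nat_lit 0) (nat_lit 96198352635) (nat_lit 5) (nat_lit 5) (nat_lit 7) (nat_lit 4) (nat_lit 5) (nat_lit 4) (nat_lit 420) (nat_lit 315) (nat_lit 165)) (XT.nd (nat_lit 78) (nat_lit 0) (nat_lit 0) (XT.lf (nat_lit 0) (nat_lit 164994768620) (nat_lit 152) (nat_lit 84836837731) (nat_lit 0) (nat_lit 123160364215) (nat_lit 5) (nat_lit 5) (nat_lit 7) (nat_lit 4) (nat_lit 5) (nat_lit 4) (nat_lit 421) (nat_lit 315)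 (nat_lit 164)) (XT.lf (nat_lit 0) (nat_lit 193304904627) (nat_lit 152) (nat_lit 45756840613) (nat_lit 0) (nat_lit 151469241283) (nat_lit 5) (nat_lit 5) (nat_lit 7) (nat_lit 4) (nat_lit 5) (nat_lit 4) (nat_lit 422) (nat_lit 315) (nat_lit 163))))))))
noncomputable def xc143 : XT := (XT.nd (nat_lit 39546) (nat_lit 0) (nat_lit 3344) (XT.nd (nat_lit 38610) (nat_lit 0) (nat_lit 7676) (XT.nd (nat_lit 468) (nat_lit 0) (nat_lit 0) (XT.nd (nat_lit 234) (nat_lit 0) (nat_lit 0) (XT.nd (nat_lit 78) (nat_lit 76) (nat_lit 0) (XT.lf (nat_lit 0) (nat_lit 223029248260) (nat_lit 152) (nat_lit 4725384219) (nat_lit 0) (nat_lit 181192385927) (nat_lit 5) (nat_lit 5) (nat_lit 7) (nat_lit 4) (nat_lit 5) (nat_lit 4) (nat_lit 423) (nat_lit 315) (nat_lit 162)) (XT.nd (nat_lit 78) (nat_lit 0) (nat_lit 0) (XT.lf (nat_lit 0) (nat_lit 39623422362) (nat_lit 76) (nat_lit 215233782072) (nat_lit 76) (nat_lit 173395777845)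 (nat_lit 4) (nat_lit 4) (nat_lit 5) (nat_lit 5) (nat_lit 5) (nat_lit 4) (nat_lit 424) (nat_lit 315) (nat_lit 161)) (XT.lf (nat_lit 0) (nat_lit 86351343370) (nat_lit 76) (nat_lit 202004026161) (nat_lit 76) (nat_lit 160164934415) (nat_lit 4) (nat_lit 4) (nat_lit 5) (nat_lit 5) (nat_lit 5) (nat_lit 4) (nat_lit 425) (nat_lit 315) (nat_lit 160)))) (XT.nd (nat_lit 78) (nat_lit 0) (nat_lit 0) (XT.lf (nat_lit 0) (nat_lit 135413393214) (nat_lit 76) (nat_lit 188113891994) (nat_lit 76) (nat_lit 146273764517) (nat_lit 4) (nat_lit 4) (nat_lit 5) (nat_lit 5) (nat_lit 5) (nat_lit 4) (nat_lit 426) (nat_lit 315) (nat_lit 159)) (XT.nd (nat_lit 78) (nat_lit 0) (nat_lit 0) (XT.lf (nat_lit 0) (nat_lit 186926386300) (nat_lit 76) (nat_lit 173530307825) (nat_lit 76) (nat_lit 131689193937) (nat_lit 4) (nat_lit 4) (nat_lit 5) (nat_lit 5) (nat_lit 5) (nat_lit 4) (nat_lit 427) (nat_lit 315) (nat_lit 158)) (XT.lf (nat_lit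 0) (nat_lit 241012972612) (nat_lit 76) (nat_lit 158218550834) (nat_lit 76) (nat_lit 116376497506) (nat_lit 4) (nat_lit 4) (nat_lit 5) (nat_lit 5) (nat_lit 5) (nat_lit 4) (nat_lit 428) (nat_lit 315) (nat_lit 157))))) (XT.nd (nat_lit 234) (nat_lit 0) (nat_lit 0) (XT.nd (nat_lit 78) (nat_lit 0) (nat_lit 0) (XT.lf (nat_lit 0) (nat_lit 297801929735) (nat_lit 76) (nat_lit 142142164456) (nat_lit 76) (nat_lit 100299216424) (nat_lit 4) (nat_lit 4) (nat_lit 5) (nat_lit 5) (nat_lit 5) (nat_lit 4) (nat_lit 429) (nat_lit 315) (nat_lit 156)) (XT.nd (nat_lit 78) (nat_lit 0) (nat_lit 0) (XT.lf (nat_lit 0) (nat_lit 357428469472) (nat_lit 76) (nat_lit 125262871582) (nat_lit 76) (nat_lit 83419071451) (nat_lit 4) (nat_lit 4) (nat_lit 5) (nat_lit 5) (nat_lit 5) (nat_lit 4) (nat_lit 430) (nat_lit 315) (nat_lit 155)) (XT.lf (nat_lit 0) (nat_lit 420034559775) (nat_lit 76) (nat_lit 107540483418) (nat_lit 76) (nat_lit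 65695871764) (nat_lit 4) (nat_lit 4) (nat_lit 5) (nat_lit 5) (nat_lit 5) (nat_lit 4) (nat_lit 431) (nat_lit 315) (nat_lit 154)))) (XT.nd (nat_lit 78) (nat_lit 0) (nat_lit 0) (XT.lf (nat_lit 0) (nat_lit 485769262764) (nat_lit 76) (nat_lit 88932803802) (nat_lit 76) (nat_lit 47087419269) (nat_lit 4) (nat_lit 4) (nat_lit 5) (nat_lit 5) (nat_lit 5) (nat_lit 4) (nat_lit 432) (nat_lit 315) (nat_lit 153)) (XT.nd (nat_lit 37752) (nat_lit 0) (nat_lit 8816) (XT.lf (nat_lit 0) (nat_lit 554789089636) (nat_lit 76) (nat_lit 69395528735) (nat_lit 76) (nat_lit 27549408127) (nat_lit 4) (nat_lit 4) (nat_lit 5) (nat_lit 5) (nat_lit 5) (nat_lit 4) (nat_lit 433) (nat_lit 315) (nat_lit 152)) (XT.lf (nat_lit 0) (nat_lit 4256858672) (nat_lit 684) (nat_lit 233626587) (nat_lit 684) (nat_lit 233626587) (nat_lit 120) (nat_lit 3) (nat_lit 129) (nat_lit 3) (nat_lit 129) (nat_lit 5) (nat_lit 316) (nat_lit 316) (nat_lit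 268)))))) (XT.nd (nat_lit 468) (nat_lit 456) (nat_lit 0) (XT.nd (nat_lit 234) (nat_lit 0) (nat_lit 76) (XT.nd (nat_lit 78) (nat_lit 684) (nat_lit 0) (XT.lf (nat_lit 76) (nat_lit 4155854620) (nat_lit 0) (nat_lit 5395233935) (nat_lit 684) (nat_lit 91183943) (nat_lit 121) (nat_lit 5) (nat_lit 120) (nat_lit 3) (nat_lit 129) (nat_lit 5) (nat_lit 317) (nat_lit 316) (nat_lit 267)) (XT.nd (nat_lit 78) (nat_lit 0) (nat_lit 76) (XT.lf (nat_lit 0) (nat_lit 727024267) (nat_lit 684) (nat_lit 859929881) (nat_lit 760) (nat_lit 8260599129) (nat_lit 111) (nat_lit 5) (nat_lit 120) (nat_lit 3) (nat_lit 121) (nat_lit 5) (nat_lit 318) (nat_lit 316) (nat_lit 266)) (XT.lf (nat_lit 0) (nat_lit 1638632422) (nat_lit 684) (nat_lit 6000435227) (nat_lit 760) (nat_lit 2421232027) (nat_lit 112) (nat_lit 5) (nat_lit 121) (nat_lit 5) (nat_lit 122) (nat_lit 5) (nat_lit 319) (nat_lit 316) (nat_lit 265)))) (XT.nd (nat_lit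 78) (nat_lit 0) (nat_lit 76) (XT.lf (nat_lit 0) (nat_lit 2591268069) (nat_lit 684) (nat_lit 1082683326) (nat_lit 760) (nat_lit 6610011093) (nat_lit 112) (nat_lit 5) (nat_lit 121) (nat_lit 5) (nat_lit 122) (nat_lit 5) (nat_lit 320) (nat_lit 316) (nat_lit 264)) (XT.nd (nat_lit 78) (nat_lit 0) (nat_lit 0) (XT.lf (nat_lit 0) (nat_lit 3622658874) (nat_lit 684) (nat_lit 6339324495) (nat_lit 760) (nat_lit 555317898) (nat_lit 113) (nat_lit 5) (nat_lit 122) (nat_lit 5) (nat_lit 123) (nat_lit 5) (nat_lit 321) (nat_lit 316) (nat_lit 263)) (XT.lf (nat_lit 0) (nat_lit 4743133071) (nat_lit 684) (nat_lit 1112164044) (nat_lit 760) (nat_lit 4905180842) (nat_lit 113) (nat_lit 5) (nat_lit 122) (nat_lit 5) (nat_lit 123) (nat_lit 5) (nat_lit 322) (nat_lit 316) (nat_lit 262))))) (XT.nd (nat_lit 234) (nat_lit 608) (nat_lit 0) (XT.nd (nat_lit 78) (nat_lit 0) (nat_lit 76) (XT.lf (nat_lit 76) (nat_lit 4492029573)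 (nat_lit 0) (nat_lit 1458352466) (nat_lit 760) (nat_lit 5063938331) (nat_lit 114) (nat_lit 5) (nat_lit 113) (nat_lit 5) (nat_lit 123) (nat_lit 5) (nat_lit 323) (nat_lit 316) (nat_lit 261)) (XT.nd (nat_lit 78) (nat_lit 0) (nat_lit 0) (XT.lf (nat_lit 0) (nat_lit 7248671689) (nat_lit 684) (nat_lit 944233936) (nat_lit 760) (nat_lit 3086457691) (nat_lit 114) (nat_lit 5) (nat_lit 123) (nat_lit 5) (nat_lit 124) (nat_lit 5) (nat_lit 324) (nat_lit 316) (nat_lit 260)) (XT.lf (nat_lit 76) (nat_lit 5021199894) (nat_lit 0) (nat_lit 3656999617) (nat_lit 760) (nat_lit 2876183024) (nat_lit 115) (nat_lit 5) (nat_lit 114) (nat_lit 5) (nat_lit 124) (nat_lit 5) (nat_lit 325) (nat_lit 316) (nat_lit 259)))) (XT.nd (nat_lit 78) (nat_lit 760) (nat_lit 0) (XT.lf (nat_lit 0) (nat_lit 10178126053) (nat_lit 684) (nat_lit 571942675) (nat_lit 76) (nat_lit 1093176260) (nat_lit 115) (nat_lit 5) (nat_lit 124) (nat_lit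 5) (nat_lit 116) (nat_lit 5) (nat_lit 326) (nat_lit 316) (nat_lit 258)) (XT.nd (nat_lit 78) (nat_lit 76) (nat_lit 0) (XT.lf (nat_lit 0) (nat_lit 5784204527) (nat_lit 684) (nat_lit 6086156202) (nat_lit 760) (nat_lit 270360807) (nat_lit 106) (nat_lit 5) (nat_lit 115) (nat_lit 5) (nat_lit 116) (nat_lit 5) (nat_lit 327) (nat_lit 316) (nat_lit 257)) (XT.lf (nat_lit 0) (nat_lit 1133392117) (nat_lit 760) (nat_lit 22355554) (nat_lit 76) (nat_lit 11297551378) (nat_lit 105) (nat_lit 5) (nat_lit 115) (nat_lit 5) (nat_lit 106) (nat_lit 5) (nat_lit 328) (nat_lit 316) (nat_lit 256))))))) (XT.nd (nat_lit 936) (nat_lit 1596) (nat_lit 0) (XT.nd (nat_lit 468) (nat_lit 912) (nat_lit 0) (XT.nd (nat_lit 234) (nat_lit 684) (nat_lit 0) (XT.nd (nat_lit 78) (nat_lit 380) (nat_lit 0) (XT.lf (nat_lit 0) (nat_lit 2738463862) (nat_lit 836) (nat_lit 6027595815) (nat_lit 76) (nat_lit 4008244886) (nat_lit 95) (nat_lit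 5) (nat_lit 106) (nat_lit 5) (nat_lit 96) (nat_lit 5) (nat_lit 329) (nat_lit 316) (nat_lit 255)) (XT.nd (nat_lit 78) (nat_lit 0) (nat_lit 0) (XT.lf (nat_lit 0) (nat_lit 719004701) (nat_lit 380) (nat_lit 3705599754) (nat_lit 456) (nat_lit 8686745212) (nat_lit 90) (nat_lit 5) (nat_lit 95) (nat_lit 5) (nat_lit 96) (nat_lit 5) (nat_lit 330) (nat_lit 316) (nat_lit 254)) (XT.lf (nat_lit 0) (nat_lit 6295150629) (nat_lit 456) (nat_lit 5504448138) (nat_lit 76) (nat_lit 1660671980) (nat_lit 90) (nat_lit 5) (nat_lit 96) (nat_lit 5) (nat_lit 91) (nat_lit 5) (nat_lit 331) (nat_lit 316) (nat_lit 253)))) (XT.nd (nat_lit 78) (nat_lit 380) (nat_lit 0) (XT.lf (nat_lit 0) (nat_lit 1692969325) (nat_lit 304) (nat_lit 6626045071) (nat_lit 380) (nat_lit 5504661254) (nat_lit 86) (nat_lit 5) (nat_lit 90) (nat_lit 5) (nat_lit 91) (nat_lit 5) (nat_lit 332) (nat_lit 316) (nat_lit 252)) (XT.nd (nat_lit 78) (nat_lit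 380) (nat_lit 0) (XT.lf (nat_lit 0) (nat_lit 9413504061) (nat_lit 304) (nat_lit 1097267880) (nat_lit 380) (nat_lit 3691169810) (nat_lit 86) (nat_lit 5) (nat_lit 90) (nat_lit 5) (nat_lit 91) (nat_lit 5) (nat_lit 333) (nat_lit 316) (nat_lit 251)) (XT.lf (nat_lit 0) (nat_lit 2912873356) (nat_lit 380) (nat_lit 9992949479) (nat_lit 456) (nat_lit 1688637797) (nat_lit 81) (nat_lit 5) (nat_lit 86) (nat_lit 5) (nat_lit 87) (nat_lit 5) (nat_lit 334) (nat_lit 316) (nat_lit 250))))) (XT.nd (nat_lit 234) (nat_lit 532) (nat_lit 0) (XT.nd (nat_lit 78) (nat_lit 304) (nat_lit 0) (XT.lf (nat_lit 0) (nat_lit 476256796) (nat_lit 456) (nat_lit 3891033596) (nat_lit 76) (nat_lit 10635239947) (nat_lit 80) (nat_lit 5) (nat_lit 86) (nat_lit 5) (nat_lit 81) (nat_lit 5) (nat_lit 335) (nat_lit 316) (nat_lit 249)) (XT.nd (nat_lit 78) (nat_lit 0) (nat_lit 0) (XT.lf (nat_lit 0) (nat_lit 2762770716) (nat_lit 380) (nat_lit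 11078451055) (nat_lit 76) (nat_lit 1584912814) (nat_lit 76) (nat_lit 5) (nat_lit 81) (nat_lit 5) (nat_lit 77) (nat_lit 5) (nat_lit 336) (nat_lit 316) (nat_lit 248)) (XT.lf (nat_lit 0) (nat_lit 5279109076) (nat_lit 380) (nat_lit 2834412670) (nat_lit 76) (nat_lit 7751642718) (nat_lit 76) (nat_lit 5) (nat_lit 81) (nat_lit 5) (nat_lit 77) (nat_lit 5) (nat_lit 337) (nat_lit 316) (nat_lit 247)))) (XT.nd (nat_lit 78) (nat_lit 228) (nat_lit 0) (XT.lf (nat_lit 0) (nat_lit 5987230030) (nat_lit 304) (nat_lit 2005537490) (nat_lit 380) (nat_lit 8329822549) (nat_lit 72) (nat_lit 5) (nat_lit 76) (nat_lit 5) (nat_lit 77) (nat_lit 5) (nat_lit 338) (nat_lit 316) (nat_lit 246)) (XT.nd (nat_lit 78) (nat_lit 228) (nat_lit 0) (XT.lf (nat_lit 0) (nat_lit 10938316214) (nat_lit 380) (nat_lit 1548551846) (nat_lit 76) (nat_lit 4311226995) (nat_lit 72) (nat_lit 5) (nat_lit 77) (nat_lit 5) (nat_lit 73) (nat_lit 5)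 (nat_lit 339) (nat_lit 316) (nat_lit 245)) (XT.lf (nat_lit 0) (nat_lit 7871102065) (nat_lit 228) (nat_lit 6295426405) (nat_lit 304) (nat_lit 3124095100) (nat_lit 69) (nat_lit 5) (nat_lit 72) (nat_lit 5) (nat_lit 73) (nat_lit 5) (nat_lit 340) (nat_lit 316) (nat_lit 244)))))) (XT.nd (nat_lit 468) (nat_lit 760) (nat_lit 0) (XT.nd (nat_lit 234) (nat_lit 228) (nat_lit 0) (XT.nd (nat_lit 78) (nat_lit 608) (nat_lit 0) (XT.lf (nat_lit 0) (nat_lit 17566130085) (nat_lit 304) (nat_lit 20659309) (nat_lit 76) (nat_lit 220506927) (nat_lit 69) (nat_lit 5) (nat_lit 73) (nat_lit 5) (nat_lit 70) (nat_lit 5) (nat_lit 341) (nat_lit 316) (nat_lit 243)) (XT.nd (nat_lit 78) (nat_lit 228) (nat_lit 0) (XT.lf (nat_lit 0) (nat_lit 2941719143) (nat_lit 380) (nat_lit 8343692672) (nat_lit 76) (nat_lit 7049982469) (nat_lit 64) (nat_lit 5) (nat_lit 69) (nat_lit 5) (nat_lit 65) (nat_lit 5) (nat_lit 342) (nat_lit 316) (nat_lit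 242)) (XT.lf (nat_lit 0) (nat_lit 1638969804) (nat_lit 228) (nat_lit 4643883351) (nat_lit 304) (nat_lit 12606500324) (nat_lit 61) (nat_lit 5) (nat_lit 64) (nat_lit 5) (nat_lit 65) (nat_lit 5) (nat_lit 343) (nat_lit 316) (nat_lit 241)))) (XT.nd (nat_lit 78) (nat_lit 228) (nat_lit 0) (XT.lf (nat_lit 0) (nat_lit 9952710174) (nat_lit 304) (nat_lit 7117663204) (nat_lit 76) (nat_lit 2392567721) (nat_lit 61) (nat_lit 5) (nat_lit 65) (nat_lit 5) (nat_lit 62) (nat_lit 5) (nat_lit 344) (nat_lit 316) (nat_lit 240)) (XT.nd (nat_lit 78) (nat_lit 0) (nat_lit 0) (XT.lf (nat_lit 0) (nat_lit 3534433311) (nat_lit 228) (nat_lit 10385483028) (nat_lit 304) (nat_lit 6139612069) (nat_lit 58) (nat_lit 5) (nat_lit 61) (nat_lit 5) (nat_lit 62) (nat_lit 5) (nat_lit 345) (nat_lit 316) (nat_lit 239)) (XT.lf (nat_lit 0) (nat_lit 14942380368) (nat_lit 228) (nat_lit 3246646797) (nat_lit 304) (nat_lit 2491753199) (nat_lit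 58) (nat_lit 5) (nat_lit 61) (nat_lit 5) (nat_lit 62) (nat_lit 5) (nat_lit 346) (nat_lit 316) (nat_lit 238))))) (XT.nd (nat_lit 234) (nat_lit 228) (nat_lit 0) (XT.nd (nat_lit 78) (nat_lit 228) (nat_lit 0) (XT.lf (nat_lit 0) (nat_lit 1436647254) (nat_lit 304) (nat_lit 15669716005) (nat_lit 76) (nat_lit 4218648662) (nat_lit 54) (nat_lit 5) (nat_lit 58) (nat_lit 5) (nat_lit 55) (nat_lit 5) (nat_lit 347) (nat_lit 316) (nat_lit 237)) (XT.nd (nat_lit 78) (nat_lit 228) (nat_lit 0) (XT.lf (nat_lit 0) (nat_lit 5613582813) (nat_lit 304) (nat_lit 4297973050) (nat_lit 76) (nat_lit 12081074852) (nat_lit 54) (nat_lit 5) (nat_lit 58) (nat_lit 5) (nat_lit 55) (nat_lit 5) (nat_lit 348) (nat_lit 316) (nat_lit 236)) (XT.lf (nat_lit 0) (nat_lit 7871815989) (nat_lit 228) (nat_lit 2235073959) (nat_lit 304) (nat_lit 12581374545) (nat_lit 51) (nat_lit 5) (nat_lit 54) (nat_lit 5) (nat_lit 55) (nat_lit 5) (nat_lit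 349) (nat_lit 316) (nat_lit 235)))) (XT.nd (nat_lit 78) (nat_lit 228) (nat_lit 0) (XT.lf (nat_lit 0) (nat_lit 14974691178) (nat_lit 304) (nat_lit 2730645069) (nat_lit 76) (nat_lit 5705862067) (nat_lit 51) (nat_lit 5) (nat_lit 55) (nat_lit 5) (nat_lit 52) (nat_lit 5) (nat_lit 350) (nat_lit 316) (nat_lit 234)) (XT.nd (nat_lit 78) (nat_lit 76) (nat_lit 0) (XT.lf (nat_lit 0) (nat_lit 10228494664) (nat_lit 152) (nat_lit 10039341961) (nat_lit 228) (nat_lit 3893353822) (nat_lit 49) (nat_lit 5) (nat_lit 51) (nat_lit 5) (nat_lit 52) (nat_lit 5) (nat_lit 351) (nat_lit 316) (nat_lit 233)) (XT.lf (nat_lit 0) (nat_lit 881623175) (nat_lit 228) (nat_lit 1052246053) (nat_lit 76) (nat_lit 23012500122) (nat_lit 48) (nat_lit 5) (nat_lit 51) (nat_lit 5) (nat_lit 49) (nat_lit 5) (nat_lit 352) (nat_lit 316) (nat_lit 232))))))))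
noncomputable def xc144 : XT := (XT.nd (nat_lit 1794) (nat_lit 912) (nat_lit 0) (XT.nd (nat_lit 858) (nat_lit 836) (nat_lit 0) (XT.nd (nat_lit 390) (nat_lit 456) (nat_lit 0) (XT.nd (nat_lit 156) (nat_lit 228) (nat_lit 0) (XT.nd (nat_lit 78) (nat_lit 152) (nat_lit 0) (XT.lf (nat_lit 0) (nat_lit 6057610758) (nat_lit 304) (nat_lit 13067995447) (nat_lit 76) (nat_lit 6627362580) (nat_lit 45) (nat_lit 5) (nat_lit 49) (nat_lit 5) (nat_lit 46) (nat_lit 5) (nat_lit 353) (nat_lit 316) (nat_lit 231)) (XT.lf (nat_lit 0) (nat_lit 509899336) (nat_lit 152) (nat_lit 11026900972) (nat_lit 228) (nat_lit 15060885428) (nat_lit 43) (nat_lit 5) (nat_lit 45) (nat_lit 5) (nat_lit 46) (nat_lit 5) (nat_lit 354) (nat_lit 316) (nat_lit 230))) (XT.nd (nat_lit 78) (nat_lit 228) (nat_lit 0) (XT.lf (nat_lit 0) (nat_lit 15199715078) (nat_lit 152) (nat_lit 2298487705) (nat_lit 228) (nat_lit 9976030385) (nat_lit 43) (nat_lit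 5) (nat_lit 45) (nat_lit 5) (nat_lit 46) (nat_lit 5) (nat_lit 355) (nat_lit 316) (nat_lit 229)) (XT.nd (nat_lit 78) (nat_lit 76) (nat_lit 0) (XT.lf (nat_lit 0) (nat_lit 2171516035) (nat_lit 152) (nat_lit 21714715112) (nat_lit 228) (nat_lit 4501955998) (nat_lit 41) (nat_lit 5) (nat_lit 43) (nat_lit 5) (nat_lit 44) (nat_lit 5) (nat_lit 356) (nat_lit 316) (nat_lit 228)) (XT.lf (nat_lit 0) (nat_lit 1442440193) (nat_lit 228) (nat_lit 11652278003) (nat_lit 76) (nat_lit 16240329789) (nat_lit 40) (nat_lit 5) (nat_lit 43) (nat_lit 5) (nat_lit 41) (nat_lit 5) (nat_lit 357) (nat_lit 316) (nat_lit 227))))) (XT.nd (nat_lit 234) (nat_lit 152) (nat_lit 0) (XT.nd (nat_lit 78) (nat_lit 152) (nat_lit 0) (XT.lf (nat_lit 0) (nat_lit 3664495456) (nat_lit 152) (nat_lit 3913601738) (nat_lit 228) (nat_lit 22745203746) (nat_lit 38) (nat_lit 5) (nat_lit 40) (nat_lit 5) (nat_lit 41) (nat_lit 5) (nat_lit 358) (nat_lit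 316) (nat_lit 226)) (XT.nd (nat_lit 78) (nat_lit 152) (nat_lit 0) (XT.lf (nat_lit 0) (nat_lit 14298793198) (nat_lit 228) (nat_lit 11311576525) (nat_lit 76) (nat_lit 5736689737) (nat_lit 38) (nat_lit 5) (nat_lit 41) (nat_lit 5) (nat_lit 39) (nat_lit 5) (nat_lit 359) (nat_lit 316) (nat_lit 225)) (XT.lf (nat_lit 0) (nat_lit 4876376351) (nat_lit 152) (nat_lit 16608273566) (nat_lit 228) (nat_lit 10930905146) (nat_lit 36) (nat_lit 5) (nat_lit 38) (nat_lit 5) (nat_lit 39) (nat_lit 5) (nat_lit 360) (nat_lit 316) (nat_lit 224)))) (XT.nd (nat_lit 78) (nat_lit 152) (nat_lit 0) (XT.lf (nat_lit 0) (nat_lit 22248183914) (nat_lit 152) (nat_lit 6962263859) (nat_lit 228) (nat_lit 4318000454) (nat_lit 36) (nat_lit 5) (nat_lit 38) (nat_lit 5) (nat_lit 39) (nat_lit 5) (nat_lit 361) (nat_lit 316) (nat_lit 223)) (XT.nd (nat_lit 78) (nat_lit 0) (nat_lit 0) (XT.lf (nat_lit 0) (nat_lit 2674913785) (nat_lit 152)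 (nat_lit 28819935793) (nat_lit 76) (nat_lit 3193421655) (nat_lit 34) (nat_lit 5) (nat_lit 36) (nat_lit 5) (nat_lit 35) (nat_lit 5) (nat_lit 362) (nat_lit 316) (nat_lit 222)) (XT.lf (nat_lit 0) (nat_lit 10170210511) (nat_lit 152) (nat_lit 11836462045) (nat_lit 76) (nat_lit 13880985482) (nat_lit 34) (nat_lit 5) (nat_lit 36) (nat_lit 5) (nat_lit 35) (nat_lit 5) (nat_lit 363) (nat_lit 316) (nat_lit 221)))))) (XT.nd (nat_lit 468) (nat_lit 380) (nat_lit 0) (XT.nd (nat_lit 234) (nat_lit 228) (nat_lit 0) (XT.nd (nat_lit 78) (nat_lit 76) (nat_lit 0) (XT.lf (nat_lit 0) (nat_lit 6176869637) (nat_lit 152) (nat_lit 11949884439) (nat_lit 228) (nat_lit 19015940278) (nat_lit 32) (nat_lit 5) (nat_lit 34) (nat_lit 5) (nat_lit 35) (nat_lit 5) (nat_lit 364) (nat_lit 316) (nat_lit 220)) (XT.nd (nat_lit 78) (nat_lit 76) (nat_lit 0) (XT.lf (nat_lit 0) (nat_lit 25485063406) (nat_lit 152) (nat_lit 1186774138) (nat_lit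 228) (nat_lit 11779113376) (nat_lit 32) (nat_lit 5) (nat_lit 34) (nat_lit 5) (nat_lit 35) (nat_lit 5) (nat_lit 365) (nat_lit 316) (nat_lit 219)) (XT.lf (nat_lit 0) (nat_lit 5950270373) (nat_lit 76) (nat_lit 29935337227) (nat_lit 152) (nat_lit 3926944969) (nat_lit 31) (nat_lit 5) (nat_lit 32) (nat_lit 5) (nat_lit 33) (nat_lit 4) (nat_lit 366) (nat_lit 316) (nat_lit 218)))) (XT.nd (nat_lit 78) (nat_lit 152) (nat_lit 0) (XT.lf (nat_lit 0) (nat_lit 4412931523) (nat_lit 152) (nat_lit 15075696931) (nat_lit 76) (nat_lit 21738573827) (nat_lit 30) (nat_lit 5) (nat_lit 32) (nat_lit 5) (nat_lit 31) (nat_lit 5) (nat_lit 367) (nat_lit 316) (nat_lit 217)) (XT.nd (nat_lit 78) (nat_lit 0) (nat_lit 0) (XT.lf (nat_lit 0) (nat_lit 4721378081) (nat_lit 152) (nat_lit 8381270056) (nat_lit 228) (nat_lit 29603480011) (nat_lit 28) (nat_lit 5) (nat_lit 30) (nat_lit 5) (nat_lit 31) (nat_lit 5) (nat_lit 368) (nat_lit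 316) (nat_lit 216)) (XT.lf (nat_lit 0) (nat_lit 22528767579) (nat_lit 228) (nat_lit 18285613060) (nat_lit 76) (nat_lit 3429527008) (nat_lit 28) (nat_lit 5) (nat_lit 31) (nat_lit 5) (nat_lit 29) (nat_lit 4) (nat_lit 369) (nat_lit 316) (nat_lit 215))))) (XT.nd (nat_lit 234) (nat_lit 228) (nat_lit 0) (XT.nd (nat_lit 78) (nat_lit 76) (nat_lit 0) (XT.lf (nat_lit 0) (nat_lit 2320435888) (nat_lit 76) (nat_lit 30270987831) (nat_lit 152) (nat_lit 13258893902) (nat_lit 27) (nat_lit 5) (nat_lit 28) (nat_lit 5) (nat_lit 29) (nat_lit 4) (nat_lit 370) (nat_lit 316) (nat_lit 214)) (XT.nd (nat_lit 78) (nat_lit 76) (nat_lit 0) (XT.lf (nat_lit 0) (nat_lit 24576947571) (nat_lit 76) (nat_lit 18881715826) (nat_lit 152) (nat_lit 4063315052) (nat_lit 27) (nat_lit 5) (nat_lit 28) (nat_lit 5) (nat_lit 29) (nat_lit 4) (nat_lit 371) (nat_lit 316) (nat_lit 213)) (XT.lf (nat_lit 0) (nat_lit 5405098058) (nat_lit 152)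 (nat_lit 1432487004) (nat_lit 76) (nat_lit 42435672726) (nat_lit 26) (nat_lit 5) (nat_lit 28) (nat_lit 5) (nat_lit 27) (nat_lit 5) (nat_lit 372) (nat_lit 316) (nat_lit 212)))) (XT.nd (nat_lit 78) (nat_lit 76) (nat_lit 0) (XT.lf (nat_lit 0) (nat_lit 15639982353) (nat_lit 228) (nat_lit 29417058060) (nat_lit 76) (nat_lit 6030252366) (nat_lit 24) (nat_lit 5) (nat_lit 27) (nat_lit 5) (nat_lit 25) (nat_lit 4) (nat_lit 373) (nat_lit 316) (nat_lit 211)) (XT.nd (nat_lit 78) (nat_lit 76) (nat_lit 0) (XT.lf (nat_lit 0) (nat_lit 26515835377) (nat_lit 228) (nat_lit 7139107321) (nat_lit 76) (nat_lit 19330627974) (nat_lit 24) (nat_lit 5) (nat_lit 27) (nat_lit 5) (nat_lit 25) (nat_lit 4) (nat_lit 374) (nat_lit 316) (nat_lit 210)) (XT.lf (nat_lit 0) (nat_lit 16776722979) (nat_lit 76) (nat_lit 21413523443) (nat_lit 152) (nat_lit 16775780034) (nat_lit 23) (nat_lit 5) (nat_lit 24) (nat_lit 5) (nat_lit 25)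 (nat_lit 4) (nat_lit 375) (nat_lit 316) (nat_lit 209))))))) (XT.nd (nat_lit 936) (nat_lit 380) (nat_lit 0) (XT.nd (nat_lit 468) (nat_lit 304) (nat_lit 0) (XT.nd (nat_lit 234) (nat_lit 76) (nat_lit 0) (XT.nd (nat_lit 78) (nat_lit 152) (nat_lit 0) (XT.lf (nat_lit 0) (nat_lit 42123429919) (nat_lit 76) (nat_lit 8438827946) (nat_lit 152) (nat_lit 6477555332) (nat_lit 23) (nat_lit 5) (nat_lit 24) (nat_lit 5) (nat_lit 25) (nat_lit 4) (nat_lit 376) (nat_lit 316) (nat_lit 208)) (XT.nd (nat_lit 78) (nat_lit 0) (nat_lit 0) (XT.lf (nat_lit 0) (nat_lit 4426737854) (nat_lit 152) (nat_lit 49538861013) (nat_lit 76) (nat_lit 5236811692) (nat_lit 21) (nat_lit 5) (nat_lit 23) (nat_lit 5) (nat_lit 22) (nat_lit 4) (nat_lit 377) (nat_lit 316) (nat_lit 207)) (XT.lf (nat_lit 0) (nat_lit 16046902090) (nat_lit 152) (nat_lit 25731273615) (nat_lit 76) (nat_lit 19670237240) (nat_lit 21) (nat_lit 5) (nat_lit 23) (nat_lit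 5) (nat_lit 22) (nat_lit 4) (nat_lit 378) (nat_lit 316) (nat_lit 206)))) (XT.nd (nat_lit 78) (nat_lit 76) (nat_lit 0) (XT.lf (nat_lit 0) (nat_lit 28241642030) (nat_lit 152) (nat_lit 745151295) (nat_lit 76) (nat_lit 34820245525) (nat_lit 21) (nat_lit 5) (nat_lit 23) (nat_lit 5) (nat_lit 22) (nat_lit 4) (nat_lit 379) (nat_lit 316) (nat_lit 205)) (XT.nd (nat_lit 78) (nat_lit 0) (nat_lit 0) (XT.lf (nat_lit 0) (nat_lit 26321447409) (nat_lit 76) (nat_lit 15129496920) (nat_lit 152) (nat_lit 24812412145) (nat_lit 20) (nat_lit 5) (nat_lit 21) (nat_lit 5) (nat_lit 22) (nat_lit 4) (nat_lit 380) (nat_lit 316) (nat_lit 204)) (XT.lf (nat_lit 0) (nat_lit 54756147535) (nat_lit 76) (nat_lit 571175954) (nat_lit 152) (nat_lit 13514837514) (nat_lit 20) (nat_lit 5) (nat_lit 21) (nat_lit 5) (nat_lit 22) (nat_lit 4) (nat_lit 381) (nat_lit 316) (nat_lit 203))))) (XT.nd (nat_lit 234) (nat_lit 152) (nat_lit 0) (XT.nd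 (nat_lit 78) (nat_lit 76) (nat_lit 0) (XT.lf (nat_lit 0) (nat_lit 13246109900) (nat_lit 76) (nat_lit 57082166581) (nat_lit 76) (nat_lit 1200093066) (nat_lit 19) (nat_lit 4) (nat_lit 20) (nat_lit 5) (nat_lit 20) (nat_lit 4) (nat_lit 382) (nat_lit 316) (nat_lit 202)) (XT.nd (nat_lit 78) (nat_lit 0) (nat_lit 0) (XT.lf (nat_lit 0) (nat_lit 11600989053) (nat_lit 152) (nat_lit 32110305883) (nat_lit 76) (nat_lit 30616135454) (nat_lit 18) (nat_lit 5) (nat_lit 20) (nat_lit 5) (nat_lit 19) (nat_lit 4) (nat_lit 383) (nat_lit 316) (nat_lit 201)) (XT.lf (nat_lit 0) (nat_lit 24996288033) (nat_lit 152) (nat_lit 4659714336) (nat_lit 76) (nat_lit 47609734861) (nat_lit 18) (nat_lit 5) (nat_lit 20) (nat_lit 5) (nat_lit 19) (nat_lit 4) (nat_lit 384) (nat_lit 316) (nat_lit 200)))) (XT.nd (nat_lit 78) (nat_lit 76) (nat_lit 0) (XT.lf (nat_lit 0) (nat_lit 24952237799) (nat_lit 76) (nat_lit 14493444475) (nat_lit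 152) (nat_lit 40886061885) (nat_lit 17) (nat_lit 5) (nat_lit 18) (nat_lit 5) (nat_lit 19) (nat_lit 4) (nat_lit 385) (nat_lit 316) (nat_lit 199)) (XT.nd (nat_lit 78) (nat_lit 76) (nat_lit 0) (XT.lf (nat_lit 0) (nat_lit 54714822689) (nat_lit 152) (nat_lit 27373947029) (nat_lit 0) (nat_lit 1457419093) (nat_lit 17) (nat_lit 5) (nat_lit 19) (nat_lit 4) (nat_lit 17) (nat_lit 4) (nat_lit 386) (nat_lit 316) (nat_lit 198)) (XT.lf (nat_lit 0) (nat_lit 1843952032) (nat_lit 76) (nat_lit 69164888163) (nat_lit 76) (nat_lit 15899445644) (nat_lit 16) (nat_lit 4) (nat_lit 17) (nat_lit 5) (nat_lit 17) (nat_lit 4) (nat_lit 387) (nat_lit 316) (nat_lit 197)))))) (XT.nd (nat_lit 468) (nat_lit 228) (nat_lit 0) (XT.nd (nat_lit 234) (nat_lit 0) (nat_lit 0) (XT.nd (nat_lit 78) (nat_lit 152) (nat_lit 0) (XT.lf (nat_lit 0) (nat_lit 33463899857) (nat_lit 76) (nat_lit 55112375864) (nat_lit 76) (nat_lit 1839277228) (nat_lit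 16) (nat_lit 4) (nat_lit 17) (nat_lit 5) (nat_lit 17) (nat_lit 4) (nat_lit 388) (nat_lit 316) (nat_lit 196)) (XT.nd (nat_lit 78) (nat_lit 76) (nat_lit 0) (XT.lf (nat_lit 0) (nat_lit 12505535205) (nat_lit 152) (nat_lit 27644043004) (nat_lit 76) (nat_lit 53938753226) (nat_lit 15) (nat_lit 5) (nat_lit 17) (nat_lit 5) (nat_lit 16) (nat_lit 4) (nat_lit 389) (nat_lit 316) (nat_lit 195)) (XT.lf (nat_lit 0) (nat_lit 3192473283) (nat_lit 76) (nat_lit 24358652464) (nat_lit 152) (nat_lit 70389848972) (nat_lit 14) (nat_lit 5) (nat_lit 15) (nat_lit 5) (nat_lit 16) (nat_lit 4) (nat_lit 390) (nat_lit 316) (nat_lit 194)))) (XT.nd (nat_lit 78) (nat_lit 0) (nat_lit 0) (XT.lf (nat_lit 0) (nat_lit 36522189950) (nat_lit 76) (nat_lit 7290560338) (nat_lit 152) (nat_lit 58150313052) (nat_lit 14) (nat_lit 5) (nat_lit 15) (nat_lit 5) (nat_lit 16) (nat_lit 4) (nat_lit 391) (nat_lit 316) (nat_lit 193)) (XT.nd (nat_lit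 78) (nat_lit 0) (nat_lit 0) (XT.lf (nat_lit 0) (nat_lit 61049175247) (nat_lit 152) (nat_lit 34841960648) (nat_lit 0) (nat_lit 10287035391) (nat_lit 14) (nat_lit 5) (nat_lit 16) (nat_lit 4) (nat_lit 14) (nat_lit 4) (nat_lit 392) (nat_lit 316) (nat_lit 192)) (XT.lf (nat_lit 0) (nat_lit 79262882150) (nat_lit 152) (nat_lit 2840351078) (nat_lit 0) (nat_lit 28495029181) (nat_lit 14) (nat_lit 5) (nat_lit 16) (nat_lit 4) (nat_lit 14) (nat_lit 4) (nat_lit 393) (nat_lit 316) (nat_lit 191))))) (XT.nd (nat_lit 234) (nat_lit 76) (nat_lit 0) (XT.nd (nat_lit 78) (nat_lit 76) (nat_lit 0) (XT.lf (nat_lit 0) (nat_lit 31770841034) (nat_lit 76) (nat_lit 67108601720) (nat_lit 76) (nat_lit 16335307692) (nat_lit 13) (nat_lit 4) (nat_lit 14) (nat_lit 5) (nat_lit 14) (nat_lit 4) (nat_lit 394) (nat_lit 316) (nat_lit 190)) (XT.nd (nat_lit 78) (nat_lit 76) (nat_lit 0) (XT.lf (nat_lit 0) (nat_lit 68203958827) (nat_lit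 76) (nat_lit 51317182639) (nat_lit 76) (nat_lit 538706650) (nat_lit 13) (nat_lit 4) (nat_lit 14) (nat_lit 5) (nat_lit 14) (nat_lit 4) (nat_lit 395) (nat_lit 316) (nat_lit 189)) (XT.lf (nat_lit 0) (nat_lit 15530425109) (nat_lit 152) (nat_lit 18946039716) (nat_lit 76) (nat_lit 90658392614) (nat_lit 12) (nat_lit 5) (nat_lit 14) (nat_lit 5) (nat_lit 13) (nat_lit 4) (nat_lit 396) (nat_lit 316) (nat_lit 188)))) (XT.nd (nat_lit 78) (nat_lit 0) (nat_lit 0) (XT.lf (nat_lit 0) (nat_lit 16109384753) (nat_lit 76) (nat_lit 16523540190) (nat_lit 152) (nat_lit 97817850580) (nat_lit 11) (nat_lit 5) (nat_lit 12) (nat_lit 5) (nat_lit 13) (nat_lit 4) (nat_lit 397) (nat_lit 316) (nat_lit 187)) (XT.nd (nat_lit 78) (nat_lit 0) (nat_lit 0) (XT.lf (nat_lit 0) (nat_lit 50949519204) (nat_lit 152) (nat_lit 82489396342) (nat_lit 0) (nat_lit 2575626103) (nat_lit 11) (nat_lit 5) (nat_lit 13) (nat_lit 4) (nat_lit 11)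 (nat_lit 4) (nat_lit 398) (nat_lit 316) (nat_lit 186)) (XT.lf (nat_lit 0) (nat_lit 70449504320) (nat_lit 152) (nat_lit 49322063264) (nat_lit 0) (nat_lit 22071551016) (nat_lit 11) (nat_lit 5) (nat_lit 13) (nat_lit 4) (nat_lit 11) (nat_lit 4) (nat_lit 399) (nat_lit 316) (nat_lit 185))))))))
noncomputable def xc145 : XT := (XT.nd (nat_lit 1794) (nat_lit 76) (nat_lit 0) (XT.nd (nat_lit 858) (nat_lit 152) (nat_lit 0) (XT.nd (nat_lit 390) (nat_lit 152) (nat_lit 0) (XT.nd (nat_lit 156) (nat_lit 76) (nat_lit 0) (XT.nd (nat_lit 78) (nat_lit 76) (nat_lit 0) (XT.lf (nat_lit 0) (nat_lit 90921330058) (nat_lit 152) (nat_lit 14502442929) (nat_lit 0) (nat_lit 42539509895) (nat_lit 11) (nat_lit 5) (nat_lit 13) (nat_lit 4) (nat_lit 11) (nat_lit 4) (nat_lit 400) (nat_lit 316) (nat_lit 184)) (XT.lf (nat_lit 0) (nat_lit 22781519416) (nat_lit 76) (nat_lit 89987902807) (nat_lit 76) (nat_lit 41602399922) (nat_lit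 10) (nat_lit 4) (nat_lit 11) (nat_lit 5) (nat_lit 11) (nat_lit 4) (nat_lit 401) (nat_lit 316) (nat_lit 183))) (XT.nd (nat_lit 78) (nat_lit 76) (nat_lit 0) (XT.lf (nat_lit 0) (nat_lit 62427475435) (nat_lit 76) (nat_lit 73525095539) (nat_lit 76) (nat_lit 25136085298) (nat_lit 10) (nat_lit 4) (nat_lit 11) (nat_lit 5) (nat_lit 11) (nat_lit 4) (nat_lit 402) (nat_lit 316) (nat_lit 182)) (XT.nd (nat_lit 78) (nat_lit 76) (nat_lit 0) (XT.lf (nat_lit 0) (nat_lit 104050304002) (nat_lit 76) (nat_lit 56241759910) (nat_lit 76) (nat_lit 7849409330) (nat_lit 10) (nat_lit 4) (nat_lit 11) (nat_lit 5) (nat_lit 11) (nat_lit 4) (nat_lit 403) (nat_lit 316) (nat_lit 181)) (XT.lf (nat_lit 0) (nat_lit 9969161239) (nat_lit 152) (nat_lit 27958751312) (nat_lit 76) (nat_lit 137611113281) (nat_lit 9) (nat_lit 5) (nat_lit 11) (nat_lit 5) (nat_lit 10) (nat_lit 4) (nat_lit 404) (nat_lit 316) (nat_lit 180))))) (XT.nd (nat_lit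 234) (nat_lit 76) (nat_lit 0) (XT.nd (nat_lit 78) (nat_lit 0) (nat_lit 0) (XT.lf (nat_lit 0) (nat_lit 10172174746) (nat_lit 76) (nat_lit 18398916174) (nat_lit 152) (nat_lit 154721120491) (nat_lit 8) (nat_lit 5) (nat_lit 9) (nat_lit 5) (nat_lit 10) (nat_lit 4) (nat_lit 405) (nat_lit 316) (nat_lit 179)) (XT.nd (nat_lit 78) (nat_lit 0) (nat_lit 0) (XT.lf (nat_lit 0) (nat_lit 48614678633) (nat_lit 152) (nat_lit 140274737649) (nat_lit 0) (nat_lit 2518062300) (nat_lit 8) (nat_lit 5) (nat_lit 10) (nat_lit 4) (nat_lit 8) (nat_lit 4) (nat_lit 406) (nat_lit 316) (nat_lit 178)) (XT.lf (nat_lit 0) (nat_lit 69959605897) (nat_lit 152) (nat_lit 106093573258) (nat_lit 0) (nat_lit 23860372321) (nat_lit 8) (nat_lit 5) (nat_lit 10) (nat_lit 4) (nat_lit 8) (nat_lit 4) (nat_lit 407) (nat_lit 316) (nat_lit 177)))) (XT.nd (nat_lit 78) (nat_lit 76) (nat_lit 0) (XT.lf (nat_lit 0) (nat_lit 92369435322) (nat_lit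 152) (nat_lit 70207901124) (nat_lit 0) (nat_lit 46267709133) (nat_lit 8) (nat_lit 5) (nat_lit 10) (nat_lit 4) (nat_lit 8) (nat_lit 4) (nat_lit 408) (nat_lit 316) (nat_lit 176)) (XT.nd (nat_lit 78) (nat_lit 76) (nat_lit 0) (XT.lf (nat_lit 0) (nat_lit 115897523645) (nat_lit 152) (nat_lit 32532279170) (nat_lit 0) (nat_lit 69793423540) (nat_lit 8) (nat_lit 5) (nat_lit 10) (nat_lit 4) (nat_lit 8) (nat_lit 4) (nat_lit 409) (nat_lit 316) (nat_lit 175)) (XT.lf (nat_lit 0) (nat_lit 7255208444) (nat_lit 76) (nat_lit 133457955815) (nat_lit 76) (nat_lit 87351594837) (nat_lit 7) (nat_lit 4) (nat_lit 8) (nat_lit 5) (nat_lit 8) (nat_lit 4) (nat_lit 410) (nat_lit 316) (nat_lit 174)))))) (XT.nd (nat_lit 468) (nat_lit 0) (nat_lit 0) (XT.nd (nat_lit 234) (nat_lit 152) (nat_lit 0) (XT.nd (nat_lit 78) (nat_lit 0) (nat_lit 0) (XT.lf (nat_lit 0) (nat_lit 50157456868) (nat_lit 76) (nat_lit 117160991515) (nat_lit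 76) (nat_lit 71052477325) (nat_lit 7) (nat_lit 4) (nat_lit 8) (nat_lit 5) (nat_lit 8) (nat_lit 4) (nat_lit 411) (nat_lit 316) (nat_lit 173)) (XT.nd (nat_lit 78) (nat_lit 0) (nat_lit 0) (XT.lf (nat_lit 0) (nat_lit 95200950242) (nat_lit 76) (nat_lit 100051057508) (nat_lit 76) (nat_lit 53940492641) (nat_lit 7) (nat_lit 4) (nat_lit 8) (nat_lit 5) (nat_lit 8) (nat_lit 4) (nat_lit 412) (nat_lit 316) (nat_lit 172)) (XT.lf (nat_lit 0) (nat_lit 142492934978) (nat_lit 76) (nat_lit 82087415857) (nat_lit 76) (nat_lit 35974897963) (nat_lit 7) (nat_lit 4) (nat_lit 8) (nat_lit 5) (nat_lit 8) (nat_lit 4) (nat_lit 413) (nat_lit 316) (nat_lit 171)))) (XT.nd (nat_lit 78) (nat_lit 152) (nat_lit 0) (XT.lf (nat_lit 0) (nat_lit 192146011041) (nat_lit 76) (nat_lit 63227295986) (nat_lit 76) (nat_lit 17112918066) (nat_lit 7) (nat_lit 4) (nat_lit 8) (nat_lit 5) (nat_lit 8) (nat_lit 4) (nat_lit 414) (nat_lit 316)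 (nat_lit 170)) (XT.nd (nat_lit 78) (nat_lit 76) (nat_lit 0) (XT.lf (nat_lit 0) (nat_lit 2604248314) (nat_lit 152) (nat_lit 40777440328) (nat_lit 76) (nat_lit 241630047520) (nat_lit 6) (nat_lit 5) (nat_lit 8) (nat_lit 5) (nat_lit 7) (nat_lit 4) (nat_lit 415) (nat_lit 316) (nat_lit 169)) (XT.lf (nat_lit 0) (nat_lit 495556334) (nat_lit 76) (nat_lit 22242684058) (nat_lit 152) (nat_lit 275410951957) (nat_lit 5) (nat_lit 5) (nat_lit 6) (nat_lit 5) (nat_lit 7) (nat_lit 4) (nat_lit 416) (nat_lit 316) (nat_lit 168))))) (XT.nd (nat_lit 234) (nat_lit 0) (nat_lit 0) (XT.nd (nat_lit 78) (nat_lit 0) (nat_lit 0) (XT.lf (nat_lit 0) (nat_lit 44578451148) (nat_lit 152) (nat_lit 266674922578) (nat_lit 0) (nat_lit 655171881) (nat_lit 5) (nat_lit 5) (nat_lit 7) (nat_lit 4) (nat_lit 5) (nat_lit 4) (nat_lit 417) (nat_lit 316) (nat_lit 167)) (XT.nd (nat_lit 78) (nat_lit 0) (nat_lit 0) (XT.lf (nat_lit 0) (nat_lit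 67873727454) (nat_lit 152) (nat_lit 234514995726) (nat_lit 0) (nat_lit 23948990808) (nat_lit 5) (nat_lit 5) (nat_lit 7) (nat_lit 4) (nat_lit 5) (nat_lit 4) (nat_lit 418) (nat_lit 316) (nat_lit 166)) (XT.lf (nat_lit 0) (nat_lit 92332263620) (nat_lit 152) (nat_lit 200750013569) (nat_lit 0) (nat_lit 48406138994) (nat_lit 5) (nat_lit 5) (nat_lit 7) (nat_lit 4) (nat_lit 5) (nat_lit 4) (nat_lit 419) (nat_lit 316) (nat_lit 165)))) (XT.nd (nat_lit 78) (nat_lit 0) (nat_lit 0) (XT.lf (nat_lit 0) (nat_lit 118012294255) (nat_lit 152) (nat_lit 165299583293) (nat_lit 0) (nat_lit 74084847744) (nat_lit 5) (nat_lit 5) (nat_lit 7) (nat_lit 4) (nat_lit 5) (nat_lit 4) (nat_lit 420) (nat_lit 316) (nat_lit 164)) (XT.nd (nat_lit 78) (nat_lit 0) (nat_lit 0) (XT.lf (nat_lit 0) (nat_lit 144974962290) (nat_lit 152) (nat_lit 128079299112) (nat_lit 0) (nat_lit 101046256840) (nat_lit 5) (nat_lit 5) (nat_lit 7) (nat_lit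 4) (nat_lit 5) (nat_lit 4) (nat_lit 421) (nat_lit 316) (nat_lit 163)) (XT.lf (nat_lit 0) (nat_lit 173284464553) (nat_lit 152) (nat_lit 89000541302) (nat_lit 0) (nat_lit 129354560115) (nat_lit 5) (nat_lit 5) (nat_lit 7) (nat_lit 4) (nat_lit 5) (nat_lit 4) (nat_lit 422) (nat_lit 316) (nat_lit 162))))))) (XT.nd (nat_lit 38688) (nat_lit 0) (nat_lit 6916) (XT.nd (nat_lit 468) (nat_lit 0) (nat_lit 0) (XT.nd (nat_lit 234) (nat_lit 0) (nat_lit 0) (XT.nd (nat_lit 78) (nat_lit 76) (nat_lit 0) (XT.lf (nat_lit 0) (nat_lit 203008204622) (nat_lit 152) (nat_lit 47970265200) (nat_lit 0) (nat_lit 159077158289) (nat_lit 5) (nat_lit 5) (nat_lit 7) (nat_lit 4) (nat_lit 5) (nat_lit 4) (nat_lit 423) (nat_lit 316) (nat_lit 161)) (XT.nd (nat_lit 78) (nat_lit 76) (nat_lit 0) (XT.lf (nat_lit 0) (nat_lit 234216953305) (nat_lit 152) (nat_lit 4890779675) (nat_lit 0) (nat_lit 190284819454) (nat_lit 5) (nat_lit 5) (nat_lit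 7) (nat_lit 4) (nat_lit 5) (nat_lit 4) (nat_lit 424) (nat_lit 316) (nat_lit 160)) (XT.lf (nat_lit 0) (nat_lit 41674324111) (nat_lit 76) (nat_lit 225961346029) (nat_lit 76) (nat_lit 182028176446) (nat_lit 4) (nat_lit 4) (nat_lit 5) (nat_lit 5) (nat_lit 5) (nat_lit 4) (nat_lit 425) (nat_lit 316) (nat_lit 159)))) (XT.nd (nat_lit 78) (nat_lit 0) (nat_lit 0) (XT.lf (nat_lit 0) (nat_lit 90735320662) (nat_lit 76) (nat_lit 212071727328) (nat_lit 76) (nat_lit 168137571334) (nat_lit 4) (nat_lit 4) (nat_lit 5) (nat_lit 5) (nat_lit 5) (nat_lit 4) (nat_lit 426) (nat_lit 316) (nat_lit 158)) (XT.nd (nat_lit 78) (nat_lit 0) (nat_lit 0) (XT.lf (nat_lit 0) (nat_lit 142247310612) (nat_lit 76) (nat_lit 197488634079) (nat_lit 76) (nat_lit 153553538646) (nat_lit 4) (nat_lit 4) (nat_lit 5) (nat_lit 5) (nat_lit 5) (nat_lit 4) (nat_lit 427) (nat_lit 316) (nat_lit 157)) (XT.lf (nat_lit 0) (nat_lit 196332941556)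 (nat_lit 76) (nat_lit 182177344631) (nat_lit 76) (nat_lit 138241354493) (nat_lit 4) (nat_lit 4) (nat_lit 5) (nat_lit 5) (nat_lit 5) (nat_lit 4) (nat_lit 428) (nat_lit 316) (nat_lit 156))))) (XT.nd (nat_lit 234) (nat_lit 0) (nat_lit 0) (XT.nd (nat_lit 78) (nat_lit 0) (nat_lit 0) (XT.lf (nat_lit 0) (nat_lit 253120988805) (nat_lit 76) (nat_lit 166101403532) (nat_lit 76) (nat_lit 122164561296) (nat_lit 4) (nat_lit 4) (nat_lit 5) (nat_lit 5) (nat_lit 5) (nat_lit 4) (nat_lit 429) (nat_lit 316) (nat_lit 155)) (XT.nd (nat_lit 78) (nat_lit 0) (nat_lit 0) (XT.lf (nat_lit 0) (nat_lit 312746661995) (nat_lit 76) (nat_lit 149222534733) (nat_lit 76) (nat_lit 105284880973) (nat_lit 4) (nat_lit 4) (nat_lit 5) (nat_lit 5) (nat_lit 5) (nat_lit 4) (nat_lit 430) (nat_lit 316) (nat_lit 154)) (XT.lf (nat_lit 0) (nat_lit 375351927016) (nat_lit 76) (nat_lit 131500550450) (nat_lit 76) (nat_lit 87562123812) (nat_lit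 4) (nat_lit 4) (nat_lit 5) (nat_lit 5) (nat_lit 5) (nat_lit 4) (nat_lit 431) (nat_lit 316) (nat_lit 153)))) (XT.nd (nat_lit 78) (nat_lit 0) (nat_lit 0) (XT.lf (nat_lit 0) (nat_lit 441085844021) (nat_lit 76) (nat_lit 112893255483) (nat_lit 76) (nat_lit 68954092769) (nat_lit 4) (nat_lit 4) (nat_lit 5) (nat_lit 5) (nat_lit 5) (nat_lit 4) (nat_lit 432) (nat_lit 316) (nat_lit 152)) (XT.nd (nat_lit 37830) (nat_lit 0) (nat_lit 8132) (XT.lf (nat_lit 0) (nat_lit 510104922338) (nat_lit 76) (nat_lit 93356346749) (nat_lit 76) (nat_lit 49416483011) (nat_lit 4) (nat_lit 4) (nat_lit 5) (nat_lit 5) (nat_lit 5) (nat_lit 4) (nat_lit 433) (nat_lit 316) (nat_lit 151)) (XT.lf (nat_lit 0) (nat_lit 145353538) (nat_lit 0) (nat_lit 145353538) (nat_lit 684) (nat_lit 4630840114) (nat_lit 111) (nat_lit 5) (nat_lit 111) (nat_lit 3) (nat_lit 120) (nat_lit 3) (nat_lit 317) (nat_lit 317) (nat_lit 266)))))) (XT.nd (nat_lit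 468) (nat_lit 1216) (nat_lit 0) (XT.nd (nat_lit 234) (nat_lit 0) (nat_lit 76) (XT.nd (nat_lit 78) (nat_lit 0) (nat_lit 0) (XT.lf (nat_lit 0) (nat_lit 1368982580) (nat_lit 684) (nat_lit 4935843673) (nat_lit 760) (nat_lit 3744890140) (nat_lit 111) (nat_lit 5) (nat_lit 120) (nat_lit 3) (nat_lit 121) (nat_lit 5) (nat_lit 318) (nat_lit 317) (nat_lit 265)) (XT.nd (nat_lit 78) (nat_lit 0) (nat_lit 76) (XT.lf (nat_lit 0) (nat_lit 2155433902) (nat_lit 684) (nat_lit 118735632) (nat_lit 760) (nat_lit 7994576197) (nat_lit 111) (nat_lit 5) (nat_lit 120) (nat_lit 3) (nat_lit 121) (nat_lit 5) (nat_lit 319) (nat_lit 317) (nat_lit 264)) (XT.lf (nat_lit 0) (nat_lit 3049538795) (nat_lit 684) (nat_lit 5451675634) (nat_lit 760) (nat_lit 1994144551) (nat_lit 112) (nat_lit 5) (nat_lit 121) (nat_lit 5) (nat_lit 122) (nat_lit 5) (nat_lit 320) (nat_lit 317) (nat_lit 263)))) (XT.nd (nat_lit 78) (nat_lit 0) (nat_lit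 76) (XT.lf (nat_lit 0) (nat_lit 3986521713) (nat_lit 684) (nat_lit 328454297) (nat_lit 760) (nat_lit 6418464908) (nat_lit 112) (nat_lit 5) (nat_lit 121) (nat_lit 5) (nat_lit 122) (nat_lit 5) (nat_lit 321) (nat_lit 317) (nat_lit 262)) (XT.nd (nat_lit 78) (nat_lit 0) (nat_lit 0) (XT.lf (nat_lit 0) (nat_lit 5015031760) (nat_lit 684) (nat_lit 5792110386) (nat_lit 760) (nat_lit 174095348) (nat_lit 113) (nat_lit 5) (nat_lit 122) (nat_lit 5) (nat_lit 123) (nat_lit 5) (nat_lit 322) (nat_lit 317) (nat_lit 261)) (XT.lf (nat_lit 0) (nat_lit 6133851574) (nat_lit 684) (nat_lit 344743357) (nat_lit 760) (nat_lit 4760927079) (nat_lit 113) (nat_lit 5) (nat_lit 122) (nat_lit 5) (nat_lit 123) (nat_lit 5) (nat_lit 323) (nat_lit 317) (nat_lit 260))))) (XT.nd (nat_lit 234) (nat_lit 1368) (nat_lit 0) (XT.nd (nat_lit 78) (nat_lit 0) (nat_lit 76) (XT.lf (nat_lit 76) (nat_lit 5526385282) (nat_lit 0) (nat_lit 1832788725)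 (nat_lit 760) (nat_lit 4149058973) (nat_lit 114) (nat_lit 5) (nat_lit 113) (nat_lit 5) (nat_lit 123) (nat_lit 5) (nat_lit 324) (nat_lit 317) (nat_lit 259)) (XT.nd (nat_lit 78) (nat_lit 0) (nat_lit 0) (XT.lf (nat_lit 0) (nat_lit 8664977002) (nat_lit 684) (nat_lit 161669263) (nat_lit 760) (nat_lit 2962810902) (nat_lit 114) (nat_lit 5) (nat_lit 123) (nat_lit 5) (nat_lit 124) (nat_lit 5) (nat_lit 325) (nat_lit 317) (nat_lit 258)) (XT.lf (nat_lit 76) (nat_lit 6088652769) (nat_lit 0) (nat_lit 4039890259) (nat_lit 760) (nat_lit 1951612453) (nat_lit 115) (nat_lit 5) (nat_lit 114) (nat_lit 5) (nat_lit 124) (nat_lit 5) (nat_lit 326) (nat_lit 317) (nat_lit 257)))) (XT.nd (nat_lit 78) (nat_lit 836) (nat_lit 0) (XT.lf (nat_lit 0) (nat_lit 237010046) (nat_lit 684) (nat_lit 11418780173) (nat_lit 760) (nat_lit 730108170) (nat_lit 106) (nat_lit 5) (nat_lit 115) (nat_lit 5) (nat_lit 116) (nat_lit 5) (nat_lit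 327) (nat_lit 317) (nat_lit 256)) (XT.nd (nat_lit 78) (nat_lit 760) (nat_lit 0) (XT.lf (nat_lit 0) (nat_lit 673322031) (nat_lit 760) (nat_lit 5821012827) (nat_lit 76) (nat_lit 6205267224) (nat_lit 105) (nat_lit 5) (nat_lit 115) (nat_lit 5) (nat_lit 106) (nat_lit 5) (nat_lit 328) (nat_lit 317) (nat_lit 255)) (XT.lf (nat_lit 0) (nat_lit 810956520) (nat_lit 760) (nat_lit 1294733158) (nat_lit 836) (nat_lit 10923567795) (nat_lit 95) (nat_lit 5) (nat_lit 105) (nat_lit 5) (nat_lit 106) (nat_lit 5) (nat_lit 329) (nat_lit 317) (nat_lit 254))))))))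
noncomputable def xc146 : XT := (XT.nd (nat_lit 1794) (nat_lit 1976) (nat_lit 0) (XT.nd (nat_lit 858) (nat_lit 1748) (nat_lit 0) (XT.nd (nat_lit 390) (nat_lit 1064) (nat_lit 0) (XT.nd (nat_lit 156) (nat_lit 304) (nat_lit 0) (XT.nd (nat_lit 78) (nat_lit 380) (nat_lit 0) (XT.lf (nat_lit 0) (nat_lit 3746572802) (nat_lit 836) (nat_lit 5487839444) (nat_lit 76) (nat_lit 4134167180) (nat_lit 95) (nat_lit 5) (nat_lit 106) (nat_lit 5) (nat_lit 96) (nat_lit 5) (nat_lit 330) (nat_lit 317) (nat_lit 253)) (XT.lf (nat_lit 0) (nat_lit 1582524385) (nat_lit 380) (nat_lit 3905931682) (nat_lit 456) (nat_lit 8235490892) (nat_lit 90) (nat_lit 5) (nat_lit 95) (nat_lit 5) (nat_lit 96) (nat_lit 5) (nat_lit 331) (nat_lit 317) (nat_lit 252))) (XT.nd (nat_lit 78) (nat_lit 304) (nat_lit 0) (XT.lf (nat_lit 0) (nat_lit 7412180910) (nat_lit 456) (nat_lit 4950361361) (nat_lit 76) (nat_lit 1729829213) (nat_lit 90) (nat_lit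 5) (nat_lit 96) (nat_lit 5) (nat_lit 91) (nat_lit 5) (nat_lit 332) (nat_lit 317) (nat_lit 251)) (XT.nd (nat_lit 78) (nat_lit 0) (nat_lit 0) (XT.lf (nat_lit 0) (nat_lit 2593551021) (nat_lit 304) (nat_lit 6918222384) (nat_lit 380) (nat_lit 4963484505) (nat_lit 86) (nat_lit 5) (nat_lit 90) (nat_lit 5) (nat_lit 91) (nat_lit 5) (nat_lit 333) (nat_lit 317) (nat_lit 250)) (XT.lf (nat_lit 0) (nat_lit 10661258530) (nat_lit 304) (nat_lit 1114869427) (nat_lit 380) (nat_lit 3098195147) (nat_lit 86) (nat_lit 5) (nat_lit 90) (nat_lit 5) (nat_lit 91) (nat_lit 5) (nat_lit 334) (nat_lit 317) (nat_lit 249))))) (XT.nd (nat_lit 234) (nat_lit 304) (nat_lit 0) (XT.nd (nat_lit 78) (nat_lit 380) (nat_lit 0) (XT.lf (nat_lit 0) (nat_lit 3859597792) (nat_lit 380) (nat_lit 10409165377) (nat_lit 456) (nat_lit 1018847688) (nat_lit 81) (nat_lit 5) (nat_lit 86) (nat_lit 5) (nat_lit 87) (nat_lit 5) (nat_lit 335) (nat_lit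 317) (nat_lit 248)) (XT.nd (nat_lit 78) (nat_lit 304) (nat_lit 0) (XT.lf (nat_lit 0) (nat_lit 1195386003) (nat_lit 456) (nat_lit 3299034746) (nat_lit 76) (nat_lit 11222844124) (nat_lit 80) (nat_lit 5) (nat_lit 86) (nat_lit 5) (nat_lit 81) (nat_lit 5) (nat_lit 336) (nat_lit 317) (nat_lit 247)) (XT.lf (nat_lit 0) (nat_lit 3576752165) (nat_lit 380) (nat_lit 10825753276) (nat_lit 76) (nat_lit 1760547380) (nat_lit 76) (nat_lit 5) (nat_lit 81) (nat_lit 5) (nat_lit 77) (nat_lit 5) (nat_lit 337) (nat_lit 317) (nat_lit 246)))) (XT.nd (nat_lit 78) (nat_lit 304) (nat_lit 0) (XT.lf (nat_lit 0) (nat_lit 6186724447) (nat_lit 380) (nat_lit 2207923464) (nat_lit 76) (nat_lit 8231023830) (nat_lit 76) (nat_lit 5) (nat_lit 81) (nat_lit 5) (nat_lit 77) (nat_lit 5) (nat_lit 338) (nat_lit 317) (nat_lit 245)) (XT.nd (nat_lit 78) (nat_lit 0) (nat_lit 0) (XT.lf (nat_lit 0) (nat_lit 7042410889) (nat_lit 304) (nat_lit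 1974804910) (nat_lit 380) (nat_lit 8089722373) (nat_lit 72) (nat_lit 5) (nat_lit 76) (nat_lit 5) (nat_lit 77) (nat_lit 5) (nat_lit 339) (nat_lit 317) (nat_lit 244)) (XT.lf (nat_lit 0) (nat_lit 12082237099) (nat_lit 380) (nat_lit 877831501) (nat_lit 76) (nat_lit 4647565806) (nat_lit 72) (nat_lit 5) (nat_lit 77) (nat_lit 5) (nat_lit 73) (nat_lit 5) (nat_lit 340) (nat_lit 317) (nat_lit 243)))))) (XT.nd (nat_lit 468) (nat_lit 684) (nat_lit 0) (XT.nd (nat_lit 234) (nat_lit 456) (nat_lit 0) (XT.nd (nat_lit 78) (nat_lit 380) (nat_lit 0) (XT.lf (nat_lit 0) (nat_lit 9000738203) (nat_lit 228) (nat_lit 6454185239) (nat_lit 304) (nat_lit 2670737261) (nat_lit 69) (nat_lit 5) (nat_lit 72) (nat_lit 5) (nat_lit 73) (nat_lit 5) (nat_lit 341) (nat_lit 317) (nat_lit 242)) (XT.nd (nat_lit 78) (nat_lit 0) (nat_lit 0) (XT.lf (nat_lit 0) (nat_lit 330752212) (nat_lit 380) (nat_lit 17945800592) (nat_lit 76) (nat_lit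 392067407) (nat_lit 64) (nat_lit 5) (nat_lit 69) (nat_lit 5) (nat_lit 65) (nat_lit 5) (nat_lit 342) (nat_lit 317) (nat_lit 241)) (XT.lf (nat_lit 0) (nat_lit 3637593297) (nat_lit 380) (nat_lit 8027231324) (nat_lit 76) (nat_lit 7559476153) (nat_lit 64) (nat_lit 5) (nat_lit 69) (nat_lit 5) (nat_lit 65) (nat_lit 5) (nat_lit 343) (nat_lit 317) (nat_lit 240)))) (XT.nd (nat_lit 78) (nat_lit 228) (nat_lit 0) (XT.lf (nat_lit 0) (nat_lit 2442731275) (nat_lit 228) (nat_lit 4688189486) (nat_lit 304) (nat_lit 12675800512) (nat_lit 61) (nat_lit 5) (nat_lit 64) (nat_lit 5) (nat_lit 65) (nat_lit 5) (nat_lit 344) (nat_lit 317) (nat_lit 239)) (XT.nd (nat_lit 78) (nat_lit 228) (nat_lit 0) (XT.lf (nat_lit 0) (nat_lit 10961639404) (nat_lit 304) (nat_lit 6763089791) (nat_lit 76) (nat_lit 2685409861) (nat_lit 61) (nat_lit 5) (nat_lit 65) (nat_lit 5) (nat_lit 62) (nat_lit 5) (nat_lit 345) (nat_lit 317) (nat_lit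 238)) (XT.lf (nat_lit 0) (nat_lit 4410152573) (nat_lit 228) (nat_lit 10703619296) (nat_lit 304) (nat_lit 5923473868) (nat_lit 58) (nat_lit 5) (nat_lit 61) (nat_lit 5) (nat_lit 62) (nat_lit 5) (nat_lit 346) (nat_lit 317) (nat_lit 237))))) (XT.nd (nat_lit 234) (nat_lit 380) (nat_lit 0) (XT.nd (nat_lit 78) (nat_lit 304) (nat_lit 0) (XT.lf (nat_lit 0) (nat_lit 16355211383) (nat_lit 228) (nat_lit 3217419248) (nat_lit 304) (nat_lit 2118132473) (nat_lit 58) (nat_lit 5) (nat_lit 61) (nat_lit 5) (nat_lit 62) (nat_lit 5) (nat_lit 347) (nat_lit 317) (nat_lit 236)) (XT.nd (nat_lit 78) (nat_lit 0) (nat_lit 0) (XT.lf (nat_lit 0) (nat_lit 1981394920) (nat_lit 304) (nat_lit 15761548402) (nat_lit 76) (nat_lit 4624357173) (nat_lit 54) (nat_lit 5) (nat_lit 58) (nat_lit 5) (nat_lit 55) (nat_lit 5) (nat_lit 348) (nat_lit 317) (nat_lit 235)) (XT.lf (nat_lit 0) (nat_lit 6344657481) (nat_lit 304) (nat_lit 3854154176)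 (nat_lit 76) (nat_lit 12870629621) (nat_lit 54) (nat_lit 5) (nat_lit 58) (nat_lit 5) (nat_lit 55) (nat_lit 5) (nat_lit 349) (nat_lit 317) (nat_lit 234)))) (XT.nd (nat_lit 78) (nat_lit 152) (nat_lit 0) (XT.lf (nat_lit 0) (nat_lit 8913499839) (nat_lit 228) (nat_lit 2137801276) (nat_lit 304) (nat_lit 12749136415) (nat_lit 51) (nat_lit 5) (nat_lit 54) (nat_lit 5) (nat_lit 55) (nat_lit 5) (nat_lit 350) (nat_lit 317) (nat_lit 233)) (XT.nd (nat_lit 78) (nat_lit 152) (nat_lit 0) (XT.lf (nat_lit 0) (nat_lit 16144692554) (nat_lit 304) (nat_lit 2231872798) (nat_lit 76) (nat_lit 6183856343) (nat_lit 51) (nat_lit 5) (nat_lit 55) (nat_lit 5) (nat_lit 52) (nat_lit 5) (nat_lit 351) (nat_lit 317) (nat_lit 232)) (XT.lf (nat_lit 0) (nat_lit 11364977073) (nat_lit 152) (nat_lit 10327216777) (nat_lit 228) (nat_lit 3656247664) (nat_lit 49) (nat_lit 5) (nat_lit 51) (nat_lit 5) (nat_lit 52) (nat_lit 5) (nat_lit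 352) (nat_lit 317) (nat_lit 231))))))) (XT.nd (nat_lit 936) (nat_lit 836) (nat_lit 0) (XT.nd (nat_lit 468) (nat_lit 456) (nat_lit 0) (XT.nd (nat_lit 234) (nat_lit 228) (nat_lit 0) (XT.nd (nat_lit 78) (nat_lit 380) (nat_lit 0) (XT.lf (nat_lit 0) (nat_lit 1323756133) (nat_lit 228) (nat_lit 496167945) (nat_lit 76) (nat_lit 24353625155) (nat_lit 48) (nat_lit 5) (nat_lit 51) (nat_lit 5) (nat_lit 49) (nat_lit 5) (nat_lit 353) (nat_lit 317) (nat_lit 230)) (XT.nd (nat_lit 78) (nat_lit 152) (nat_lit 0) (XT.lf (nat_lit 0) (nat_lit 6752223667) (nat_lit 304) (nat_lit 13106160624) (nat_lit 76) (nat_lit 7162421558) (nat_lit 45) (nat_lit 5) (nat_lit 49) (nat_lit 5) (nat_lit 46) (nat_lit 5) (nat_lit 354) (nat_lit 317) (nat_lit 229)) (XT.lf (nat_lit 0) (nat_lit 1140705760) (nat_lit 152) (nat_lit 11355463620) (nat_lit 228) (nat_lit 15412060135) (nat_lit 43) (nat_lit 5) (nat_lit 45) (nat_lit 5) (nat_lit 46)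 (nat_lit 5) (nat_lit 355) (nat_lit 317) (nat_lit 228)))) (XT.nd (nat_lit 78) (nat_lit 228) (nat_lit 0) (XT.lf (nat_lit 0) (nat_lit 16536187935) (nat_lit 152) (nat_lit 2201238375) (nat_lit 228) (nat_lit 10092098986) (nat_lit 43) (nat_lit 5) (nat_lit 45) (nat_lit 5) (nat_lit 46) (nat_lit 5) (nat_lit 356) (nat_lit 317) (nat_lit 227)) (XT.nd (nat_lit 78) (nat_lit 76) (nat_lit 0) (XT.lf (nat_lit 0) (nat_lit 2862144005) (nat_lit 152) (nat_lit 22577606178) (nat_lit 228) (nat_lit 4349691791) (nat_lit 41) (nat_lit 5) (nat_lit 43) (nat_lit 5) (nat_lit 44) (nat_lit 5) (nat_lit 357) (nat_lit 317) (nat_lit 226)) (XT.lf (nat_lit 0) (nat_lit 1862451789) (nat_lit 228) (nat_lit 11668877601) (nat_lit 76) (nat_lit 17252900412) (nat_lit 40) (nat_lit 5) (nat_lit 43) (nat_lit 5) (nat_lit 41) (nat_lit 5) (nat_lit 358) (nat_lit 317) (nat_lit 225))))) (XT.nd (nat_lit 234) (nat_lit 152) (nat_lit 0) (XT.nd (nat_lit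 78) (nat_lit 152) (nat_lit 0) (XT.lf (nat_lit 0) (nat_lit 4404605268) (nat_lit 152) (nat_lit 3892414737) (nat_lit 228) (nat_lit 23525277366) (nat_lit 38) (nat_lit 5) (nat_lit 40) (nat_lit 5) (nat_lit 41) (nat_lit 5) (nat_lit 359) (nat_lit 317) (nat_lit 224)) (XT.nd (nat_lit 78) (nat_lit 152) (nat_lit 0) (XT.lf (nat_lit 0) (nat_lit 15340784148) (nat_lit 228) (nat_lit 11333662255) (nat_lit 76) (nat_lit 6223453735) (nat_lit 38) (nat_lit 5) (nat_lit 41) (nat_lit 5) (nat_lit 39) (nat_lit 5) (nat_lit 360) (nat_lit 317) (nat_lit 223)) (XT.lf (nat_lit 0) (nat_lit 5654922248) (nat_lit 152) (nat_lit 17223786173) (nat_lit 228) (nat_lit 11141480971) (nat_lit 36) (nat_lit 5) (nat_lit 38) (nat_lit 5) (nat_lit 39) (nat_lit 5) (nat_lit 361) (nat_lit 317) (nat_lit 222)))) (XT.nd (nat_lit 78) (nat_lit 152) (nat_lit 0) (XT.lf (nat_lit 0) (nat_lit 23869856994) (nat_lit 152) (nat_lit 7105709365) (nat_lit 228)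 (nat_lit 4213929589) (nat_lit 36) (nat_lit 5) (nat_lit 38) (nat_lit 5) (nat_lit 39) (nat_lit 5) (nat_lit 362) (nat_lit 317) (nat_lit 221)) (XT.nd (nat_lit 78) (nat_lit 0) (nat_lit 0) (XT.lf (nat_lit 0) (nat_lit 3114874607) (nat_lit 152) (nat_lit 29737643551) (nat_lit 76) (nat_lit 3554724469) (nat_lit 34) (nat_lit 5) (nat_lit 36) (nat_lit 5) (nat_lit 35) (nat_lit 5) (nat_lit 363) (nat_lit 317) (nat_lit 220)) (XT.lf (nat_lit 0) (nat_lit 10970354497) (nat_lit 152) (nat_lit 11929914641) (nat_lit 76) (nat_lit 14767064976) (nat_lit 34) (nat_lit 5) (nat_lit 36) (nat_lit 5) (nat_lit 35) (nat_lit 5) (nat_lit 364) (nat_lit 317) (nat_lit 219)))))) (XT.nd (nat_lit 468) (nat_lit 380) (nat_lit 0) (XT.nd (nat_lit 234) (nat_lit 228) (nat_lit 0) (XT.nd (nat_lit 78) (nat_lit 76) (nat_lit 0) (XT.lf (nat_lit 0) (nat_lit 6976045392) (nat_lit 152) (nat_lit 12342448002) (nat_lit 228) (nat_lit 19666946404) (nat_lit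 32) (nat_lit 5) (nat_lit 34) (nat_lit 5) (nat_lit 35) (nat_lit 5) (nat_lit 365) (nat_lit 317) (nat_lit 218)) (XT.nd (nat_lit 78) (nat_lit 76) (nat_lit 0) (XT.lf (nat_lit 0) (nat_lit 27226299693) (nat_lit 152) (nat_lit 1050940789) (nat_lit 228) (nat_lit 12082553914) (nat_lit 32) (nat_lit 5) (nat_lit 34) (nat_lit 5) (nat_lit 35) (nat_lit 5) (nat_lit 366) (nat_lit 317) (nat_lit 217)) (XT.lf (nat_lit 0) (nat_lit 6717720025) (nat_lit 76) (nat_lit 31231274730) (nat_lit 152) (nat_lit 3840621992) (nat_lit 31) (nat_lit 5) (nat_lit 32) (nat_lit 5) (nat_lit 33) (nat_lit 4) (nat_lit 367) (nat_lit 317) (nat_lit 216)))) (XT.nd (nat_lit 78) (nat_lit 152) (nat_lit 0) (XT.lf (nat_lit 0) (nat_lit 4894171445) (nat_lit 152) (nat_lit 15373209101) (nat_lit 76) (nat_lit 23008054120) (nat_lit 30) (nat_lit 5) (nat_lit 32) (nat_lit 5) (nat_lit 31) (nat_lit 5) (nat_lit 368) (nat_lit 317) (nat_lit 215)) (XT.nd (nat_lit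 78) (nat_lit 0) (nat_lit 0) (XT.lf (nat_lit 0) (nat_lit 5406360424) (nat_lit 152) (nat_lit 8606613056) (nat_lit 228) (nat_lit 30815608037) (nat_lit 28) (nat_lit 5) (nat_lit 30) (nat_lit 5) (nat_lit 31) (nat_lit 5) (nat_lit 369) (nat_lit 317) (nat_lit 214)) (XT.lf (nat_lit 0) (nat_lit 23901127345) (nat_lit 228) (nat_lit 18762996610) (nat_lit 76) (nat_lit 3779594060) (nat_lit 28) (nat_lit 5) (nat_lit 31) (nat_lit 5) (nat_lit 29) (nat_lit 4) (nat_lit 370) (nat_lit 317) (nat_lit 213))))) (XT.nd (nat_lit 234) (nat_lit 228) (nat_lit 0) (XT.nd (nat_lit 78) (nat_lit 76) (nat_lit 0) (XT.lf (nat_lit 0) (nat_lit 2866308057) (nat_lit 76) (nat_lit 31595608861) (nat_lit 152) (nat_lit 13668785774) (nat_lit 27) (nat_lit 5) (nat_lit 28) (nat_lit 5) (nat_lit 29) (nat_lit 4) (nat_lit 371) (nat_lit 317) (nat_lit 212)) (XT.nd (nat_lit 78) (nat_lit 76) (nat_lit 0) (XT.lf (nat_lit 0) (nat_lit 26215176259) (nat_lit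 76) (nat_lit 19645869844) (nat_lit 152) (nat_lit 4025478116) (nat_lit 27) (nat_lit 5) (nat_lit 28) (nat_lit 5) (nat_lit 29) (nat_lit 4) (nat_lit 372) (nat_lit 317) (nat_lit 211)) (XT.lf (nat_lit 0) (nat_lit 5897533054) (nat_lit 152) (nat_lit 1106804940) (nat_lit 76) (nat_lit 44721400504) (nat_lit 26) (nat_lit 5) (nat_lit 28) (nat_lit 5) (nat_lit 27) (nat_lit 5) (nat_lit 373) (nat_lit 317) (nat_lit 210)))) (XT.nd (nat_lit 78) (nat_lit 76) (nat_lit 0) (XT.lf (nat_lit 0) (nat_lit 16642388637) (nat_lit 228) (nat_lit 30488761934) (nat_lit 76) (nat_lit 6499416798) (nat_lit 24) (nat_lit 5) (nat_lit 27) (nat_lit 5) (nat_lit 25) (nat_lit 4) (nat_lit 374) (nat_lit 317) (nat_lit 209)) (XT.nd (nat_lit 78) (nat_lit 76) (nat_lit 0) (XT.lf (nat_lit 0) (nat_lit 28051538733) (nat_lit 228) (nat_lit 7115920755) (nat_lit 76) (nat_lit 20456827767) (nat_lit 24) (nat_lit 5) (nat_lit 27) (nat_lit 5) (nat_lit 25)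 (nat_lit 4) (nat_lit 375) (nat_lit 317) (nat_lit 208)) (XT.lf (nat_lit 0) (nat_lit 17989569739) (nat_lit 76) (nat_lit 22315944156) (nat_lit 152) (nat_lit 17398462916) (nat_lit 23) (nat_lit 5) (nat_lit 24) (nat_lit 5) (nat_lit 25) (nat_lit 4) (nat_lit 376) (nat_lit 317) (nat_lit 207))))))))
noncomputable def xc147 : XT := (XT.nd (nat_lit 1794) (nat_lit 456) (nat_lit 0) (XT.nd (nat_lit 858) (nat_lit 456) (nat_lit 0) (XT.nd (nat_lit 390) (nat_lit 228) (nat_lit 0) (XT.nd (nat_lit 156) (nat_lit 76) (nat_lit 0) (XT.nd (nat_lit 78) (nat_lit 152) (nat_lit 0) (XT.lf (nat_lit 0) (nat_lit 44585801997) (nat_lit 76) (nat_lit 8700526049) (nat_lit 152) (nat_lit 6595617746) (nat_lit 23) (nat_lit 5) (nat_lit 24) (nat_lit 5) (nat_lit 25) (nat_lit 4) (nat_lit 377) (nat_lit 317) (nat_lit 206)) (XT.lf (nat_lit 0) (nat_lit 4845913588) (nat_lit 152) (nat_lit 51651515033) (nat_lit 76) (nat_lit 5655155919) (nat_lit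 21) (nat_lit 5) (nat_lit 23) (nat_lit 5) (nat_lit 22) (nat_lit 4) (nat_lit 378) (nat_lit 317) (nat_lit 205))) (XT.nd (nat_lit 78) (nat_lit 76) (nat_lit 0) (XT.lf (nat_lit 0) (nat_lit 17037665139) (nat_lit 152) (nat_lit 26670895362) (nat_lit 76) (nat_lit 20802800190) (nat_lit 21) (nat_lit 5) (nat_lit 23) (nat_lit 5) (nat_lit 22) (nat_lit 4) (nat_lit 379) (nat_lit 317) (nat_lit 204)) (XT.nd (nat_lit 78) (nat_lit 76) (nat_lit 0) (XT.lf (nat_lit 0) (nat_lit 29833169794) (nat_lit 152) (nat_lit 451987971) (nat_lit 76) (nat_lit 36703211218) (nat_lit 21) (nat_lit 5) (nat_lit 23) (nat_lit 5) (nat_lit 22) (nat_lit 4) (nat_lit 380) (nat_lit 317) (nat_lit 203)) (XT.lf (nat_lit 0) (nat_lit 27962611300) (nat_lit 76) (nat_lit 15736856466) (nat_lit 152) (nat_lit 25868210552) (nat_lit 20) (nat_lit 5) (nat_lit 21) (nat_lit 5) (nat_lit 22) (nat_lit 4) (nat_lit 381) (nat_lit 317) (nat_lit 202))))) (XT.nd (nat_lit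 234) (nat_lit 76) (nat_lit 0) (XT.nd (nat_lit 78) (nat_lit 152) (nat_lit 0) (XT.lf (nat_lit 0) (nat_lit 57803565883) (nat_lit 76) (nat_lit 457720180) (nat_lit 152) (nat_lit 14014558247) (nat_lit 20) (nat_lit 5) (nat_lit 21) (nat_lit 5) (nat_lit 22) (nat_lit 4) (nat_lit 382) (nat_lit 317) (nat_lit 201)) (XT.nd (nat_lit 78) (nat_lit 76) (nat_lit 0) (XT.lf (nat_lit 0) (nat_lit 14219140017) (nat_lit 76) (nat_lit 59792128851) (nat_lit 76) (nat_lit 1085147444) (nat_lit 19) (nat_lit 4) (nat_lit 20) (nat_lit 5) (nat_lit 20) (nat_lit 4) (nat_lit 383) (nat_lit 317) (nat_lit 200)) (XT.lf (nat_lit 0) (nat_lit 12342324957) (nat_lit 152) (nat_lit 33414521301) (nat_lit 76) (nat_lit 32278852523) (nat_lit 18) (nat_lit 5) (nat_lit 20) (nat_lit 5) (nat_lit 19) (nat_lit 4) (nat_lit 384) (nat_lit 317) (nat_lit 199)))) (XT.nd (nat_lit 78) (nat_lit 76) (nat_lit 0) (XT.lf (nat_lit 0) (nat_lit 26399708578) (nat_lit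 152) (nat_lit 4605747790) (nat_lit 76) (nat_lit 50115850458) (nat_lit 18) (nat_lit 5) (nat_lit 20) (nat_lit 5) (nat_lit 19) (nat_lit 4) (nat_lit 385) (nat_lit 317) (nat_lit 198)) (XT.nd (nat_lit 78) (nat_lit 0) (nat_lit 0) (XT.lf (nat_lit 0) (nat_lit 26482173690) (nat_lit 76) (nat_lit 15086492132) (nat_lit 152) (nat_lit 42772095375) (nat_lit 17) (nat_lit 5) (nat_lit 18) (nat_lit 5) (nat_lit 19) (nat_lit 4) (nat_lit 386) (nat_lit 317) (nat_lit 197)) (XT.lf (nat_lit 0) (nat_lit 57596044265) (nat_lit 152) (nat_lit 28468511863) (nat_lit 0) (nat_lit 1651634580) (nat_lit 17) (nat_lit 5) (nat_lit 19) (nat_lit 4) (nat_lit 17) (nat_lit 4) (nat_lit 387) (nat_lit 317) (nat_lit 196)))))) (XT.nd (nat_lit 468) (nat_lit 228) (nat_lit 0) (XT.nd (nat_lit 234) (nat_lit 76) (nat_lit 0) (XT.nd (nat_lit 78) (nat_lit 76) (nat_lit 0) (XT.lf (nat_lit 0) (nat_lit 2205860658) (nat_lit 76) (nat_lit 72496185292) (nat_lit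 76) (nat_lit 16544484067) (nat_lit 16) (nat_lit 4) (nat_lit 17) (nat_lit 5) (nat_lit 17) (nat_lit 4) (nat_lit 388) (nat_lit 317) (nat_lit 195)) (XT.nd (nat_lit 78) (nat_lit 76) (nat_lit 0) (XT.lf (nat_lit 0) (nat_lit 35393962492) (nat_lit 76) (nat_lit 57747092487) (nat_lit 76) (nat_lit 1788446938) (nat_lit 16) (nat_lit 4) (nat_lit 17) (nat_lit 5) (nat_lit 17) (nat_lit 4) (nat_lit 389) (nat_lit 317) (nat_lit 194)) (XT.lf (nat_lit 0) (nat_lit 13262453725) (nat_lit 152) (nat_lit 28777229054) (nat_lit 76) (nat_lit 56746455561) (nat_lit 15) (nat_lit 5) (nat_lit 17) (nat_lit 5) (nat_lit 16) (nat_lit 4) (nat_lit 390) (nat_lit 317) (nat_lit 193)))) (XT.nd (nat_lit 78) (nat_lit 0) (nat_lit 0) (XT.lf (nat_lit 0) (nat_lit 3597096658) (nat_lit 76) (nat_lit 25460783612) (nat_lit 152) (nat_lit 73773657007) (nat_lit 14) (nat_lit 5) (nat_lit 15) (nat_lit 5) (nat_lit 16) (nat_lit 4) (nat_lit 391) (nat_lit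 317) (nat_lit 192)) (XT.nd (nat_lit 78) (nat_lit 0) (nat_lit 0) (XT.lf (nat_lit 0) (nat_lit 38581632506) (nat_lit 76) (nat_lit 7544801236) (nat_lit 152) (nat_lit 60928605454) (nat_lit 14) (nat_lit 5) (nat_lit 15) (nat_lit 5) (nat_lit 16) (nat_lit 4) (nat_lit 392) (nat_lit 317) (nat_lit 191)) (XT.lf (nat_lit 0) (nat_lit 64220460514) (nat_lit 152) (nat_lit 36357593463) (nat_lit 0) (nat_lit 10903060725) (nat_lit 14) (nat_lit 5) (nat_lit 16) (nat_lit 4) (nat_lit 14) (nat_lit 4) (nat_lit 393) (nat_lit 317) (nat_lit 190))))) (XT.nd (nat_lit 234) (nat_lit 152) (nat_lit 0) (XT.nd (nat_lit 78) (nat_lit 76) (nat_lit 0) (XT.lf (nat_lit 0) (nat_lit 83339194357) (nat_lit 152) (nat_lit 2766687472) (nat_lit 0) (nat_lit 30016612607) (nat_lit 14) (nat_lit 5) (nat_lit 16) (nat_lit 4) (nat_lit 14) (nat_lit 4) (nat_lit 394) (nat_lit 317) (nat_lit 189)) (XT.nd (nat_lit 78) (nat_lit 0) (nat_lit 0) (XT.lf (nat_lit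 0) (nat_lit 33571585517) (nat_lit 76) (nat_lit 70362921591) (nat_lit 76) (nat_lit 17035404639) (nat_lit 13) (nat_lit 4) (nat_lit 14) (nat_lit 5) (nat_lit 14) (nat_lit 4) (nat_lit 395) (nat_lit 317) (nat_lit 188)) (XT.lf (nat_lit 0) (nat_lit 71816254323) (nat_lit 76) (nat_lit 53786746329) (nat_lit 76) (nat_lit 454529185) (nat_lit 13) (nat_lit 4) (nat_lit 14) (nat_lit 5) (nat_lit 14) (nat_lit 4) (nat_lit 396) (nat_lit 317) (nat_lit 187)))) (XT.nd (nat_lit 78) (nat_lit 76) (nat_lit 0) (XT.lf (nat_lit 0) (nat_lit 16409381120) (nat_lit 152) (nat_lit 19697462219) (nat_lit 76) (nat_lit 95279616567) (nat_lit 12) (nat_lit 5) (nat_lit 14) (nat_lit 5) (nat_lit 13) (nat_lit 4) (nat_lit 397) (nat_lit 317) (nat_lit 186)) (XT.nd (nat_lit 78) (nat_lit 0) (nat_lit 0) (XT.lf (nat_lit 0) (nat_lit 17107574127) (nat_lit 76) (nat_lit 17257562875) (nat_lit 152) (nat_lit 102603131230) (nat_lit 11) (nat_lit 5)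 (nat_lit 12) (nat_lit 5) (nat_lit 13) (nat_lit 4) (nat_lit 398) (nat_lit 317) (nat_lit 185)) (XT.lf (nat_lit 0) (nat_lit 53594142401) (nat_lit 152) (nat_lit 86426887666) (nat_lit 0) (nat_lit 2789364371) (nat_lit 11) (nat_lit 5) (nat_lit 13) (nat_lit 4) (nat_lit 11) (nat_lit 4) (nat_lit 399) (nat_lit 317) (nat_lit 184))))))) (XT.nd (nat_lit 936) (nat_lit 152) (nat_lit 0) (XT.nd (nat_lit 468) (nat_lit 152) (nat_lit 0) (XT.nd (nat_lit 234) (nat_lit 76) (nat_lit 0) (XT.nd (nat_lit 78) (nat_lit 76) (nat_lit 0) (XT.lf (nat_lit 0) (nat_lit 74064500714) (nat_lit 152) (nat_lit 51610091673) (nat_lit 0) (nat_lit 23256039960) (nat_lit 11) (nat_lit 5) (nat_lit 13) (nat_lit 4) (nat_lit 11) (nat_lit 4) (nat_lit 400) (nat_lit 317) (nat_lit 183)) (XT.nd (nat_lit 78) (nat_lit 76) (nat_lit 0) (XT.lf (nat_lit 0) (nat_lit 95555511968) (nat_lit 152) (nat_lit 15057970071) (nat_lit 0) (nat_lit 44743543859) (nat_lit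 11) (nat_lit 5) (nat_lit 13) (nat_lit 4) (nat_lit 11) (nat_lit 4) (nat_lit 401) (nat_lit 317) (nat_lit 182)) (XT.lf (nat_lit 0) (nat_lit 24087454988) (nat_lit 76) (nat_lit 94406962929) (nat_lit 76) (nat_lit 43591654481) (nat_lit 10) (nat_lit 4) (nat_lit 11) (nat_lit 5) (nat_lit 11) (nat_lit 4) (nat_lit 402) (nat_lit 317) (nat_lit 181)))) (XT.nd (nat_lit 78) (nat_lit 76) (nat_lit 0) (XT.lf (nat_lit 0) (nat_lit 65707763112) (nat_lit 76) (nat_lit 77124840774) (nat_lit 76) (nat_lit 26306351051) (nat_lit 10) (nat_lit 4) (nat_lit 11) (nat_lit 5) (nat_lit 11) (nat_lit 4) (nat_lit 403) (nat_lit 317) (nat_lit 180)) (XT.nd (nat_lit 78) (nat_lit 76) (nat_lit 0) (XT.lf (nat_lit 0) (nat_lit 109404165779) (nat_lit 76) (nat_lit 58980981675) (nat_lit 76) (nat_lit 8159462167) (nat_lit 10) (nat_lit 4) (nat_lit 11) (nat_lit 5) (nat_lit 11) (nat_lit 4) (nat_lit 404) (nat_lit 317) (nat_lit 179)) (XT.lf (nat_lit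 0) (nat_lit 10543600016) (nat_lit 152) (nat_lit 29210024983) (nat_lit 76) (nat_lit 144558541057) (nat_lit 9) (nat_lit 5) (nat_lit 11) (nat_lit 5) (nat_lit 10) (nat_lit 4) (nat_lit 405) (nat_lit 317) (nat_lit 178))))) (XT.nd (nat_lit 234) (nat_lit 76) (nat_lit 0) (XT.nd (nat_lit 78) (nat_lit 0) (nat_lit 0) (XT.lf (nat_lit 0) (nat_lit 10825081832) (nat_lit 76) (nat_lit 19249179121) (nat_lit 152) (nat_lit 162378818795) (nat_lit 8) (nat_lit 5) (nat_lit 9) (nat_lit 5) (nat_lit 10) (nat_lit 4) (nat_lit 406) (nat_lit 317) (nat_lit 177)) (XT.nd (nat_lit 78) (nat_lit 0) (nat_lit 0) (XT.lf (nat_lit 0) (nat_lit 51117511072) (nat_lit 152) (nat_lit 147148519638) (nat_lit 0) (nat_lit 2708205962) (nat_lit 8) (nat_lit 5) (nat_lit 10) (nat_lit 4) (nat_lit 8) (nat_lit 4) (nat_lit 407) (nat_lit 317) (nat_lit 176)) (XT.lf (nat_lit 0) (nat_lit 73526251436) (nat_lit 152) (nat_lit 111264961546) (nat_lit 0) (nat_lit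 25114572410) (nat_lit 8) (nat_lit 5) (nat_lit 10) (nat_lit 4) (nat_lit 8) (nat_lit 4) (nat_lit 408) (nat_lit 317) (nat_lit 175)))) (XT.nd (nat_lit 78) (nat_lit 76) (nat_lit 0) (XT.lf (nat_lit 0) (nat_lit 97053302559) (nat_lit 152) (nat_lit 73591352966) (nat_lit 0) (nat_lit 48639362660) (nat_lit 8) (nat_lit 5) (nat_lit 10) (nat_lit 4) (nat_lit 8) (nat_lit 4) (nat_lit 409) (nat_lit 317) (nat_lit 174)) (XT.nd (nat_lit 78) (nat_lit 76) (nat_lit 0) (XT.lf (nat_lit 0) (nat_lit 121754681228) (nat_lit 152) (nat_lit 34037994830) (nat_lit 0) (nat_lit 73338588117) (nat_lit 8) (nat_lit 5) (nat_lit 10) (nat_lit 4) (nat_lit 8) (nat_lit 4) (nat_lit 410) (nat_lit 317) (nat_lit 173)) (XT.lf (nat_lit 0) (nat_lit 7736917193) (nat_lit 76) (nat_lit 140073078016) (nat_lit 76) (nat_lit 91654934227) (nat_lit 7) (nat_lit 4) (nat_lit 8) (nat_lit 5) (nat_lit 8) (nat_lit 4) (nat_lit 411) (nat_lit 317) (nat_lit 172))))))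 (XT.nd (nat_lit 468) (nat_lit 0) (nat_lit 0) (XT.nd (nat_lit 234) (nat_lit 152) (nat_lit 0) (XT.nd (nat_lit 78) (nat_lit 0) (nat_lit 0) (XT.lf (nat_lit 0) (nat_lit 52778613832) (nat_lit 76) (nat_lit 122964016720) (nat_lit 76) (nat_lit 74543919904) (nat_lit 7) (nat_lit 4) (nat_lit 8) (nat_lit 5) (nat_lit 8) (nat_lit 4) (nat_lit 412) (nat_lit 317) (nat_lit 171)) (XT.nd (nat_lit 78) (nat_lit 0) (nat_lit 0) (XT.lf (nat_lit 0) (nat_lit 100068887392) (nat_lit 76) (nat_lit 105001206221) (nat_lit 76) (nat_lit 56579249380) (nat_lit 7) (nat_lit 4) (nat_lit 8) (nat_lit 5) (nat_lit 8) (nat_lit 4) (nat_lit 413) (nat_lit 317) (nat_lit 170)) (XT.lf (nat_lit 0) (nat_lit 149720333764) (nat_lit 76) (nat_lit 86141877923) (nat_lit 76) (nat_lit 37718149629) (nat_lit 7) (nat_lit 4) (nat_lit 8) (nat_lit 5) (nat_lit 8) (nat_lit 4) (nat_lit 414) (nat_lit 317) (nat_lit 169)))) (XT.nd (nat_lit 78) (nat_lit 152) (nat_lit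 0) (XT.lf (nat_lit 0) (nat_lit 201851170675) (nat_lit 76) (nat_lit 66341128665) (nat_lit 76) (nat_lit 17915713273) (nat_lit 7) (nat_lit 4) (nat_lit 8) (nat_lit 5) (nat_lit 8) (nat_lit 4) (nat_lit 415) (nat_lit 317) (nat_lit 168)) (XT.nd (nat_lit 78) (nat_lit 76) (nat_lit 0) (XT.lf (nat_lit 0) (nat_lit 2783183724) (nat_lit 152) (nat_lit 42721495516) (nat_lit 76) (nat_lit 253755200880) (nat_lit 6) (nat_lit 5) (nat_lit 8) (nat_lit 5) (nat_lit 7) (nat_lit 4) (nat_lit 416) (nat_lit 317) (nat_lit 167)) (XT.lf (nat_lit 0) (nat_lit 613621675) (nat_lit 76) (nat_lit 23309390068) (nat_lit 152) (nat_lit 289131240875) (nat_lit 5) (nat_lit 5) (nat_lit 6) (nat_lit 5) (nat_lit 7) (nat_lit 4) (nat_lit 417) (nat_lit 317) (nat_lit 166))))) (XT.nd (nat_lit 234) (nat_lit 0) (nat_lit 0) (XT.nd (nat_lit 78) (nat_lit 0) (nat_lit 0) (XT.lf (nat_lit 0) (nat_lit 46853629509) (nat_lit 152) (nat_lit 279918213840) (nat_lit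 0) (nat_lit 729810672) (nat_lit 5) (nat_lit 5) (nat_lit 7) (nat_lit 4) (nat_lit 5) (nat_lit 4) (nat_lit 418) (nat_lit 317) (nat_lit 165)) (XT.nd (nat_lit 78) (nat_lit 0) (nat_lit 0) (XT.lf (nat_lit 0) (nat_lit 71311466973) (nat_lit 152) (nat_lit 246154598019) (nat_lit 0) (nat_lit 25186326251) (nat_lit 5) (nat_lit 5) (nat_lit 7) (nat_lit 4) (nat_lit 5) (nat_lit 4) (nat_lit 419) (nat_lit 317) (nat_lit 164)) (XT.lf (nat_lit 0) (nat_lit 96990832178) (nat_lit 152) (nat_lit 210705469016) (nat_lit 0) (nat_lit 50864432517) (nat_lit 5) (nat_lit 5) (nat_lit 7) (nat_lit 4) (nat_lit 5) (nat_lit 4) (nat_lit 420) (nat_lit 317) (nat_lit 163)))) (XT.nd (nat_lit 78) (nat_lit 0) (nat_lit 0) (XT.lf (nat_lit 0) (nat_lit 123952866469) (nat_lit 152) (nat_lit 173486424142) (nat_lit 0) (nat_lit 77825267820) (nat_lit 5) (nat_lit 5) (nat_lit 7) (nat_lit 4) (nat_lit 5) (nat_lit 4) (nat_lit 421) (nat_lit 317) (nat_lit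 162)) (XT.nd (nat_lit 78) (nat_lit 0) (nat_lit 0) (XT.lf (nat_lit 0) (nat_lit 152261765168) (nat_lit 152) (nat_lit 134408846624) (nat_lit 0) (nat_lit 106133024624) (nat_lit 5) (nat_lit 5) (nat_lit 7) (nat_lit 4) (nat_lit 5) (nat_lit 4) (nat_lit 422) (nat_lit 317) (nat_lit 161)) (XT.lf (nat_lit 0) (nat_lit 181984930413) (nat_lit 152) (nat_lit 93379694611) (nat_lit 0) (nat_lit 135855102351) (nat_lit 5) (nat_lit 5) (nat_lit 7) (nat_lit 4) (nat_lit 5) (nat_lit 4) (nat_lit 423) (nat_lit 317) (nat_lit 160))))))))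
noncomputable def xc148 : XT := (XT.nd (nat_lit 39624) (nat_lit 0) (nat_lit 3116) (XT.nd (nat_lit 38688) (nat_lit 0) (nat_lit 6916) (XT.nd (nat_lit 390) (nat_lit 0) (nat_lit 0) (XT.nd (nat_lit 156) (nat_lit 76) (nat_lit 0) (XT.nd (nat_lit 78) (nat_lit 0) (nat_lit 0) (XT.lf (nat_lit 0) (nat_lit 213193131645) (nat_lit 152) (nat_lit 50301279646) (nat_lit 0) (nat_lit 167062267851) (nat_lit 5) (nat_lit 5) (nat_lit 7) (nat_lit 4) (nat_lit 5) (nat_lit 4) (nat_lit 424) (nat_lit 317) (nat_lit 159)) (XT.lf (nat_lit 0) (nat_lit 245960674106) (nat_lit 152) (nat_lit 5071034073) (nat_lit 0) (nat_lit 199828823901) (nat_lit 5) (nat_lit 5) (nat_lit 7) (nat_lit 4) (nat_lit 5) (nat_lit 4) (nat_lit 425) (nat_lit 317) (nat_lit 158))) (XT.nd (nat_lit 78) (nat_lit 0) (nat_lit 0) (XT.lf (nat_lit 0) (nat_lit 43821288054) (nat_lit 76) (nat_lit 237228460815) (nat_lit 76) (nat_lit 191095671171) (nat_lit 4) (nat_lit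 4) (nat_lit 5) (nat_lit 5) (nat_lit 5) (nat_lit 4) (nat_lit 426) (nat_lit 317) (nat_lit 157)) (XT.nd (nat_lit 78) (nat_lit 0) (nat_lit 0) (XT.lf (nat_lit 0) (nat_lit 95332322636) (nat_lit 76) (nat_lit 222645835109) (nat_lit 76) (nat_lit 176512150761) (nat_lit 4) (nat_lit 4) (nat_lit 5) (nat_lit 5) (nat_lit 5) (nat_lit 4) (nat_lit 427) (nat_lit 317) (nat_lit 156)) (XT.lf (nat_lit 0) (nat_lit 149417043705) (nat_lit 76) (nat_lit 207334990940) (nat_lit 76) (nat_lit 161200454492) (nat_lit 4) (nat_lit 4) (nat_lit 5) (nat_lit 5) (nat_lit 5) (nat_lit 4) (nat_lit 428) (nat_lit 317) (nat_lit 155))))) (XT.nd (nat_lit 234) (nat_lit 0) (nat_lit 0) (XT.nd (nat_lit 78) (nat_lit 0) (nat_lit 0) (XT.lf (nat_lit 0) (nat_lit 206204224407) (nat_lit 76) (nat_lit 191259473917) (nat_lit 76) (nat_lit 145124125946) (nat_lit 4) (nat_lit 4) (nat_lit 5) (nat_lit 5) (nat_lit 5) (nat_lit 4) (nat_lit 429) (nat_lit 317)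 (nat_lit 154)) (XT.nd (nat_lit 78) (nat_lit 0) (nat_lit 0) (XT.lf (nat_lit 0) (nat_lit 265829072315) (nat_lit 76) (nat_lit 174381008998) (nat_lit 76) (nat_lit 128244888149) (nat_lit 4) (nat_lit 4) (nat_lit 5) (nat_lit 5) (nat_lit 5) (nat_lit 4) (nat_lit 430) (nat_lit 317) (nat_lit 153)) (XT.lf (nat_lit 0) (nat_lit 328433551352) (nat_lit 76) (nat_lit 156659409364) (nat_lit 76) (nat_lit 110522552440) (nat_lit 4) (nat_lit 4) (nat_lit 5) (nat_lit 5) (nat_lit 5) (nat_lit 4) (nat_lit 431) (nat_lit 317) (nat_lit 152)))) (XT.nd (nat_lit 78) (nat_lit 0) (nat_lit 0) (XT.lf (nat_lit 0) (nat_lit 394166719802) (nat_lit 76) (nat_lit 138052480730) (nat_lit 76) (nat_lit 91914922781) (nat_lit 4) (nat_lit 4) (nat_lit 5) (nat_lit 5) (nat_lit 5) (nat_lit 4) (nat_lit 432) (nat_lit 317) (nat_lit 151)) (XT.nd (nat_lit 37908) (nat_lit 0) (nat_lit 8132) (XT.lf (nat_lit 0) (nat_lit 463185085208) (nat_lit 76) (nat_lit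 118515920883) (nat_lit 76) (nat_lit 72377695292) (nat_lit 4) (nat_lit 4) (nat_lit 5) (nat_lit 5) (nat_lit 5) (nat_lit 4) (nat_lit 433) (nat_lit 317) (nat_lit 150)) (XT.lf (nat_lit 0) (nat_lit 503373936) (nat_lit 0) (nat_lit 503373936) (nat_lit 684) (nat_lit 4125010259) (nat_lit 111) (nat_lit 5) (nat_lit 111) (nat_lit 3) (nat_lit 120) (nat_lit 3) (nat_lit 318) (nat_lit 318) (nat_lit 264)))))) (XT.nd (nat_lit 468) (nat_lit 1216) (nat_lit 0) (XT.nd (nat_lit 234) (nat_lit 0) (nat_lit 76) (XT.nd (nat_lit 78) (nat_lit 0) (nat_lit 0) (XT.lf (nat_lit 0) (nat_lit 2763201635) (nat_lit 684) (nat_lit 4435787530) (nat_lit 760) (nat_lit 3285417610) (nat_lit 111) (nat_lit 5) (nat_lit 120) (nat_lit 3) (nat_lit 121) (nat_lit 5) (nat_lit 319) (nat_lit 318) (nat_lit 263)) (XT.nd (nat_lit 78) (nat_lit 0) (nat_lit 76) (XT.lf (nat_lit 76) (nat_lit 606007739) (nat_lit 0) (nat_lit 2929297362) (nat_lit 760) (nat_lit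 7181837759) (nat_lit 112) (nat_lit 5) (nat_lit 111) (nat_lit 5) (nat_lit 121) (nat_lit 5) (nat_lit 320) (nat_lit 318) (nat_lit 262)) (XT.lf (nat_lit 0) (nat_lit 4407435012) (nat_lit 684) (nat_lit 4954389706) (nat_lit 760) (nat_lit 1596664408) (nat_lit 112) (nat_lit 5) (nat_lit 121) (nat_lit 5) (nat_lit 122) (nat_lit 5) (nat_lit 321) (nat_lit 318) (nat_lit 261)))) (XT.nd (nat_lit 78) (nat_lit 0) (nat_lit 0) (XT.lf (nat_lit 76) (nat_lit 401172252) (nat_lit 0) (nat_lit 4938957328) (nat_lit 760) (nat_lit 5870967541) (nat_lit 113) (nat_lit 5) (nat_lit 112) (nat_lit 5) (nat_lit 122) (nat_lit 5) (nat_lit 322) (nat_lit 318) (nat_lit 260)) (XT.nd (nat_lit 78) (nat_lit 0) (nat_lit 76) (XT.lf (nat_lit 76) (nat_lit 6173062564) (nat_lit 0) (nat_lit 194386028) (nat_lit 760) (nat_lit 5106527750) (nat_lit 113) (nat_lit 5) (nat_lit 112) (nat_lit 5) (nat_lit 122) (nat_lit 5) (nat_lit 323) (nat_lit 318) (nat_lit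 259)) (XT.lf (nat_lit 76) (nat_lit 397245268) (nat_lit 0) (nat_lit 7095815599) (nat_lit 760) (nat_lit 4254630680) (nat_lit 114) (nat_lit 5) (nat_lit 113) (nat_lit 5) (nat_lit 123) (nat_lit 5) (nat_lit 324) (nat_lit 318) (nat_lit 258))))) (XT.nd (nat_lit 234) (nat_lit 1368) (nat_lit 0) (XT.nd (nat_lit 78) (nat_lit 0) (nat_lit 76) (XT.lf (nat_lit 76) (nat_lit 6537175503) (nat_lit 0) (nat_lit 2197914452) (nat_lit 760) (nat_lit 3297032308) (nat_lit 114) (nat_lit 5) (nat_lit 113) (nat_lit 5) (nat_lit 123) (nat_lit 5) (nat_lit 325) (nat_lit 318) (nat_lit 257)) (XT.nd (nat_lit 78) (nat_lit 0) (nat_lit 0) (XT.lf (nat_lit 76) (nat_lit 602151511) (nat_lit 0) (nat_lit 9461368338) (nat_lit 760) (nat_lit 2266074522) (nat_lit 115) (nat_lit 5) (nat_lit 114) (nat_lit 5) (nat_lit 124) (nat_lit 5) (nat_lit 326) (nat_lit 318) (nat_lit 256)) (XT.lf (nat_lit 76) (nat_lit 7133577816) (nat_lit 0) (nat_lit 4423327548)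 (nat_lit 760) (nat_lit 1080141174) (nat_lit 115) (nat_lit 5) (nat_lit 114) (nat_lit 5) (nat_lit 124) (nat_lit 5) (nat_lit 327) (nat_lit 318) (nat_lit 255)))) (XT.nd (nat_lit 78) (nat_lit 760) (nat_lit 0) (XT.lf (nat_lit 0) (nat_lit 160889493) (nat_lit 760) (nat_lit 11935889595) (nat_lit 76) (nat_lit 862939205) (nat_lit 105) (nat_lit 5) (nat_lit 115) (nat_lit 5) (nat_lit 106) (nat_lit 5) (nat_lit 328) (nat_lit 318) (nat_lit 254)) (XT.nd (nat_lit 78) (nat_lit 760) (nat_lit 0) (XT.lf (nat_lit 0) (nat_lit 1566956372) (nat_lit 760) (nat_lit 5342088060) (nat_lit 76) (nat_lit 6381658265) (nat_lit 105) (nat_lit 5) (nat_lit 115) (nat_lit 5) (nat_lit 106) (nat_lit 5) (nat_lit 329) (nat_lit 318) (nat_lit 253)) (XT.lf (nat_lit 0) (nat_lit 1609060796) (nat_lit 760) (nat_lit 1432758316) (nat_lit 836) (nat_lit 10596519866) (nat_lit 95) (nat_lit 5) (nat_lit 105) (nat_lit 5) (nat_lit 106) (nat_lit 5) (nat_lit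 330) (nat_lit 318) (nat_lit 252))))))) (XT.nd (nat_lit 936) (nat_lit 1824) (nat_lit 0) (XT.nd (nat_lit 468) (nat_lit 912) (nat_lit 0) (XT.nd (nat_lit 234) (nat_lit 684) (nat_lit 0) (XT.nd (nat_lit 78) (nat_lit 380) (nat_lit 0) (XT.lf (nat_lit 0) (nat_lit 4724092595) (nat_lit 836) (nat_lit 4999296123) (nat_lit 76) (nat_lit 4273310958) (nat_lit 95) (nat_lit 5) (nat_lit 106) (nat_lit 5) (nat_lit 96) (nat_lit 5) (nat_lit 331) (nat_lit 318) (nat_lit 251)) (XT.nd (nat_lit 78) (nat_lit 0) (nat_lit 0) (XT.lf (nat_lit 0) (nat_lit 2412280490) (nat_lit 380) (nat_lit 4114880820) (nat_lit 456) (nat_lit 7844007767) (nat_lit 90) (nat_lit 5) (nat_lit 95) (nat_lit 5) (nat_lit 96) (nat_lit 5) (nat_lit 332) (nat_lit 318) (nat_lit 250)) (XT.lf (nat_lit 0) (nat_lit 8510474989) (nat_lit 456) (nat_lit 4445671552) (nat_lit 76) (nat_lit 1803734400) (nat_lit 90) (nat_lit 5) (nat_lit 96) (nat_lit 5) (nat_lit 91)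 (nat_lit 5) (nat_lit 333) (nat_lit 318) (nat_lit 249)))) (XT.nd (nat_lit 78) (nat_lit 380) (nat_lit 0) (XT.lf (nat_lit 0) (nat_lit 3463304063) (nat_lit 304) (nat_lit 7228646029) (nat_lit 380) (nat_lit 4471150964) (nat_lit 86) (nat_lit 5) (nat_lit 90) (nat_lit 5) (nat_lit 91) (nat_lit 5) (nat_lit 334) (nat_lit 318) (nat_lit 248)) (XT.nd (nat_lit 78) (nat_lit 380) (nat_lit 0) (XT.lf (nat_lit 0) (nat_lit 11899155258) (nat_lit 304) (nat_lit 1136815304) (nat_lit 380) (nat_lit 2547859413) (nat_lit 86) (nat_lit 5) (nat_lit 90) (nat_lit 5) (nat_lit 91) (nat_lit 5) (nat_lit 335) (nat_lit 318) (nat_lit 247)) (XT.lf (nat_lit 0) (nat_lit 4779181553) (nat_lit 380) (nat_lit 10853948747) (nat_lit 456) (nat_lit 385688486) (nat_lit 81) (nat_lit 5) (nat_lit 86) (nat_lit 5) (nat_lit 87) (nat_lit 5) (nat_lit 336) (nat_lit 318) (nat_lit 246))))) (XT.nd (nat_lit 234) (nat_lit 532) (nat_lit 0) (XT.nd (nat_lit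 78) (nat_lit 304) (nat_lit 0) (XT.lf (nat_lit 0) (nat_lit 1885827744) (nat_lit 456) (nat_lit 2750561967) (nat_lit 76) (nat_lit 11834636833) (nat_lit 80) (nat_lit 5) (nat_lit 86) (nat_lit 5) (nat_lit 81) (nat_lit 5) (nat_lit 337) (nat_lit 318) (nat_lit 245)) (XT.nd (nat_lit 78) (nat_lit 0) (nat_lit 0) (XT.lf (nat_lit 0) (nat_lit 4368599218) (nat_lit 380) (nat_lit 10635412522) (nat_lit 76) (nat_lit 1936002345) (nat_lit 76) (nat_lit 5) (nat_lit 81) (nat_lit 5) (nat_lit 77) (nat_lit 5) (nat_lit 338) (nat_lit 318) (nat_lit 244)) (XT.lf (nat_lit 0) (nat_lit 7079879188) (nat_lit 380) (nat_lit 1621530668) (nat_lit 76) (nat_lit 8725839399) (nat_lit 76) (nat_lit 5) (nat_lit 81) (nat_lit 5) (nat_lit 77) (nat_lit 5) (nat_lit 339) (nat_lit 318) (nat_lit 243)))) (XT.nd (nat_lit 78) (nat_lit 228) (nat_lit 0) (XT.lf (nat_lit 0) (nat_lit 8080081872) (nat_lit 304) (nat_lit 1954715718) (nat_lit 380) (nat_lit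 7898660824) (nat_lit 72) (nat_lit 5) (nat_lit 76) (nat_lit 5) (nat_lit 77) (nat_lit 5) (nat_lit 340) (nat_lit 318) (nat_lit 242)) (XT.nd (nat_lit 78) (nat_lit 228) (nat_lit 0) (XT.lf (nat_lit 0) (nat_lit 13227850155) (nat_lit 380) (nat_lit 243130843) (nat_lit 76) (nat_lit 4989492814) (nat_lit 72) (nat_lit 5) (nat_lit 77) (nat_lit 5) (nat_lit 73) (nat_lit 5) (nat_lit 341) (nat_lit 318) (nat_lit 241)) (XT.lf (nat_lit 0) (nat_lit 10118422310) (nat_lit 228) (nat_lit 6635386577) (nat_lit 304) (nat_lit 2251382883) (nat_lit 69) (nat_lit 5) (nat_lit 72) (nat_lit 5) (nat_lit 73) (nat_lit 5) (nat_lit 342) (nat_lit 318) (nat_lit 240)))))) (XT.nd (nat_lit 468) (nat_lit 988) (nat_lit 0) (XT.nd (nat_lit 234) (nat_lit 228) (nat_lit 0) (XT.nd (nat_lit 78) (nat_lit 228) (nat_lit 0) (XT.lf (nat_lit 0) (nat_lit 869945249) (nat_lit 380) (nat_lit 18144380164) (nat_lit 76) (nat_lit 561189407) (nat_lit 64) (nat_lit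 5) (nat_lit 69) (nat_lit 5) (nat_lit 65) (nat_lit 5) (nat_lit 343) (nat_lit 318) (nat_lit 239)) (XT.nd (nat_lit 78) (nat_lit 228) (nat_lit 0) (XT.lf (nat_lit 0) (nat_lit 4317240034) (nat_lit 380) (nat_lit 7763154359) (nat_lit 76) (nat_lit 8079848656) (nat_lit 64) (nat_lit 5) (nat_lit 69) (nat_lit 5) (nat_lit 65) (nat_lit 5) (nat_lit 344) (nat_lit 318) (nat_lit 238)) (XT.lf (nat_lit 0) (nat_lit 3219573491) (nat_lit 228) (nat_lit 4752178977) (nat_lit 304) (nat_lit 12800724480) (nat_lit 61) (nat_lit 5) (nat_lit 64) (nat_lit 5) (nat_lit 65) (nat_lit 5) (nat_lit 345) (nat_lit 318) (nat_lit 237)))) (XT.nd (nat_lit 78) (nat_lit 228) (nat_lit 0) (XT.lf (nat_lit 0) (nat_lit 11973479852) (nat_lit 304) (nat_lit 6456839226) (nat_lit 76) (nat_lit 2976790335) (nat_lit 61) (nat_lit 5) (nat_lit 65) (nat_lit 5) (nat_lit 62) (nat_lit 5) (nat_lit 346) (nat_lit 318) (nat_lit 236)) (XT.nd (nat_lit 78) (nat_lit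 0) (nat_lit 0) (XT.lf (nat_lit 0) (nat_lit 5264671627) (nat_lit 228) (nat_lit 11056362271) (nat_lit 304) (nat_lit 5745163385) (nat_lit 58) (nat_lit 5) (nat_lit 61) (nat_lit 5) (nat_lit 62) (nat_lit 5) (nat_lit 347) (nat_lit 318) (nat_lit 235)) (XT.lf (nat_lit 0) (nat_lit 17776792357) (nat_lit 228) (nat_lit 3204539744) (nat_lit 304) (nat_lit 1772149405) (nat_lit 58) (nat_lit 5) (nat_lit 61) (nat_lit 5) (nat_lit 62) (nat_lit 5) (nat_lit 348) (nat_lit 318) (nat_lit 234))))) (XT.nd (nat_lit 234) (nat_lit 456) (nat_lit 0) (XT.nd (nat_lit 78) (nat_lit 228) (nat_lit 0) (XT.lf (nat_lit 0) (nat_lit 2509412788) (nat_lit 304) (nat_lit 15922275797) (nat_lit 76) (nat_lit 5032242676) (nat_lit 54) (nat_lit 5) (nat_lit 58) (nat_lit 5) (nat_lit 55) (nat_lit 5) (nat_lit 349) (nat_lit 318) (nat_lit 233)) (XT.nd (nat_lit 78) (nat_lit 228) (nat_lit 0) (XT.lf (nat_lit 0) (nat_lit 7070412376) (nat_lit 304) (nat_lit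 3449385670) (nat_lit 76) (nat_lit 13682416002) (nat_lit 54) (nat_lit 5) (nat_lit 58) (nat_lit 5) (nat_lit 55) (nat_lit 5) (nat_lit 350) (nat_lit 318) (nat_lit 232)) (XT.lf (nat_lit 0) (nat_lit 9947014332) (nat_lit 228) (nat_lit 2055098251) (nat_lit 304) (nat_lit 12968174317) (nat_lit 51) (nat_lit 5) (nat_lit 54) (nat_lit 5) (nat_lit 55) (nat_lit 5) (nat_lit 351) (nat_lit 318) (nat_lit 231)))) (XT.nd (nat_lit 78) (nat_lit 456) (nat_lit 0) (XT.lf (nat_lit 0) (nat_lit 17334028603) (nat_lit 304) (nat_lit 1767226507) (nat_lit 76) (nat_lit 6667834804) (nat_lit 51) (nat_lit 5) (nat_lit 55) (nat_lit 5) (nat_lit 52) (nat_lit 5) (nat_lit 352) (nat_lit 318) (nat_lit 230)) (XT.nd (nat_lit 78) (nat_lit 304) (nat_lit 0) (XT.lf (nat_lit 0) (nat_lit 12500171665) (nat_lit 152) (nat_lit 10649389604) (nat_lit 228) (nat_lit 3447428438) (nat_lit 49) (nat_lit 5) (nat_lit 51) (nat_lit 5) (nat_lit 52) (nat_lit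 5) (nat_lit 353) (nat_lit 318) (nat_lit 229)) (XT.lf (nat_lit 0) (nat_lit 32152896) (nat_lit 228) (nat_lit 1719337756) (nat_lit 304) (nat_lit 25712444652) (nat_lit 45) (nat_lit 5) (nat_lit 48) (nat_lit 5) (nat_lit 49) (nat_lit 5) (nat_lit 354) (nat_lit 318) (nat_lit 228))))))))
noncomputable def xc149 : XT := (XT.nd (nat_lit 1794) (nat_lit 912) (nat_lit 0) (XT.nd (nat_lit 858) (nat_lit 836) (nat_lit 0) (XT.nd (nat_lit 390) (nat_lit 456) (nat_lit 0) (XT.nd (nat_lit 156) (nat_lit 228) (nat_lit 0) (XT.nd (nat_lit 78) (nat_lit 152) (nat_lit 0) (XT.lf (nat_lit 0) (nat_lit 7445147658) (nat_lit 304) (nat_lit 13203432740) (nat_lit 76) (nat_lit 7705296241) (nat_lit 45) (nat_lit 5) (nat_lit 49) (nat_lit 5) (nat_lit 46) (nat_lit 5) (nat_lit 355) (nat_lit 318) (nat_lit 227)) (XT.lf (nat_lit 0) (nat_lit 1746776383) (nat_lit 152) (nat_lit 11721166596) (nat_lit 228) (nat_lit 15818155600) (nat_lit 43)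 (nat_lit 5) (nat_lit 45) (nat_lit 5) (nat_lit 46) (nat_lit 5) (nat_lit 356) (nat_lit 318) (nat_lit 226))) (XT.nd (nat_lit 78) (nat_lit 228) (nat_lit 0) (XT.lf (nat_lit 0) (nat_lit 17885888127) (nat_lit 152) (nat_lit 2118852480) (nat_lit 228) (nat_lit 10249553896) (nat_lit 43) (nat_lit 5) (nat_lit 45) (nat_lit 5) (nat_lit 46) (nat_lit 5) (nat_lit 357) (nat_lit 318) (nat_lit 225)) (XT.nd (nat_lit 78) (nat_lit 76) (nat_lit 0) (XT.lf (nat_lit 0) (nat_lit 3533189679) (nat_lit 152) (nat_lit 23504359785) (nat_lit 228) (nat_lit 4224897917) (nat_lit 41) (nat_lit 5) (nat_lit 43) (nat_lit 5) (nat_lit 44) (nat_lit 5) (nat_lit 358) (nat_lit 318) (nat_lit 224)) (XT.lf (nat_lit 0) (nat_lit 2271120488) (nat_lit 228) (nat_lit 11738929823) (nat_lit 76) (nat_lit 18297453944) (nat_lit 40) (nat_lit 5) (nat_lit 43) (nat_lit 5) (nat_lit 41) (nat_lit 5) (nat_lit 359) (nat_lit 318) (nat_lit 223))))) (XT.nd (nat_lit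 234) (nat_lit 152) (nat_lit 0) (XT.nd (nat_lit 78) (nat_lit 152) (nat_lit 0) (XT.lf (nat_lit 0) (nat_lit 5129946678) (nat_lit 152) (nat_lit 3890330633) (nat_lit 228) (nat_lit 24377562490) (nat_lit 38) (nat_lit 5) (nat_lit 40) (nat_lit 5) (nat_lit 41) (nat_lit 5) (nat_lit 360) (nat_lit 318) (nat_lit 222)) (XT.nd (nat_lit 78) (nat_lit 152) (nat_lit 0) (XT.lf (nat_lit 0) (nat_lit 16404468517) (nat_lit 228) (nat_lit 11407381108) (nat_lit 76) (nat_lit 6715968382) (nat_lit 38) (nat_lit 5) (nat_lit 41) (nat_lit 5) (nat_lit 39) (nat_lit 5) (nat_lit 361) (nat_lit 318) (nat_lit 221)) (XT.lf (nat_lit 0) (nat_lit 6422681584) (nat_lit 152) (nat_lit 17890053875) (nat_lit 228) (nat_lit 11393820841) (nat_lit 36) (nat_lit 5) (nat_lit 38) (nat_lit 5) (nat_lit 39) (nat_lit 5) (nat_lit 362) (nat_lit 318) (nat_lit 220)))) (XT.nd (nat_lit 78) (nat_lit 152) (nat_lit 0) (XT.lf (nat_lit 0) (nat_lit 25525267199)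 (nat_lit 152) (nat_lit 7275355207) (nat_lit 228) (nat_lit 4134403041) (nat_lit 36) (nat_lit 5) (nat_lit 38) (nat_lit 5) (nat_lit 39) (nat_lit 5) (nat_lit 363) (nat_lit 318) (nat_lit 219)) (XT.nd (nat_lit 78) (nat_lit 0) (nat_lit 0) (XT.lf (nat_lit 0) (nat_lit 3548364490) (nat_lit 152) (nat_lit 30749887151) (nat_lit 76) (nat_lit 3915346616) (nat_lit 34) (nat_lit 5) (nat_lit 36) (nat_lit 5) (nat_lit 35) (nat_lit 5) (nat_lit 364) (nat_lit 318) (nat_lit 218)) (XT.lf (nat_lit 0) (nat_lit 11783392367) (nat_lit 152) (nat_lit 12074373633) (nat_lit 76) (nat_lit 15679595295) (nat_lit 34) (nat_lit 5) (nat_lit 36) (nat_lit 5) (nat_lit 35) (nat_lit 5) (nat_lit 365) (nat_lit 318) (nat_lit 217)))))) (XT.nd (nat_lit 468) (nat_lit 380) (nat_lit 0) (XT.nd (nat_lit 234) (nat_lit 228) (nat_lit 0) (XT.nd (nat_lit 78) (nat_lit 76) (nat_lit 0) (XT.lf (nat_lit 0) (nat_lit 7769593487) (nat_lit 152) (nat_lit 12773692253)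 (nat_lit 228) (nat_lit 20378374552) (nat_lit 32) (nat_lit 5) (nat_lit 34) (nat_lit 5) (nat_lit 35) (nat_lit 5) (nat_lit 366) (nat_lit 318) (nat_lit 216)) (XT.nd (nat_lit 78) (nat_lit 76) (nat_lit 0) (XT.lf (nat_lit 0) (nat_lit 29011182131) (nat_lit 152) (nat_lit 926461020) (nat_lit 228) (nat_lit 12427710969) (nat_lit 32) (nat_lit 5) (nat_lit 34) (nat_lit 5) (nat_lit 35) (nat_lit 5) (nat_lit 367) (nat_lit 318) (nat_lit 215)) (XT.lf (nat_lit 0) (nat_lit 7479851953) (nat_lit 76) (nat_lit 32610680319) (nat_lit 152) (nat_lit 3776262863) (nat_lit 31) (nat_lit 5) (nat_lit 32) (nat_lit 5) (nat_lit 33) (nat_lit 4) (nat_lit 368) (nat_lit 318) (nat_lit 214)))) (XT.nd (nat_lit 78) (nat_lit 152) (nat_lit 0) (XT.lf (nat_lit 0) (nat_lit 5375245865) (nat_lit 152) (nat_lit 15728016789) (nat_lit 76) (nat_lit 24324036510) (nat_lit 30) (nat_lit 5) (nat_lit 32) (nat_lit 5) (nat_lit 31) (nat_lit 5) (nat_lit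 369) (nat_lit 318) (nat_lit 213)) (XT.nd (nat_lit 78) (nat_lit 0) (nat_lit 0) (XT.lf (nat_lit 0) (nat_lit 6083856168) (nat_lit 152) (nat_lit 8861233502) (nat_lit 228) (nat_lit 32113262838) (nat_lit 28) (nat_lit 5) (nat_lit 30) (nat_lit 5) (nat_lit 31) (nat_lit 5) (nat_lit 370) (nat_lit 318) (nat_lit 212)) (XT.lf (nat_lit 0) (nat_lit 25319241660) (nat_lit 228) (nat_lit 19304867889) (nat_lit 76) (nat_lit 4130560795) (nat_lit 28) (nat_lit 5) (nat_lit 31) (nat_lit 5) (nat_lit 29) (nat_lit 4) (nat_lit 371) (nat_lit 318) (nat_lit 211))))) (XT.nd (nat_lit 234) (nat_lit 228) (nat_lit 0) (XT.nd (nat_lit 78) (nat_lit 76) (nat_lit 0) (XT.lf (nat_lit 0) (nat_lit 3399510422) (nat_lit 76) (nat_lit 33004025711) (nat_lit 152) (nat_lit 14122698692) (nat_lit 27) (nat_lit 5) (nat_lit 28) (nat_lit 5) (nat_lit 29) (nat_lit 4) (nat_lit 372) (nat_lit 318) (nat_lit 210)) (XT.nd (nat_lit 78) (nat_lit 76) (nat_lit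 0) (XT.lf (nat_lit 0) (nat_lit 27897255988) (nat_lit 76) (nat_lit 20464959914) (nat_lit 152) (nat_lit 4008155479) (nat_lit 27) (nat_lit 5) (nat_lit 28) (nat_lit 5) (nat_lit 29) (nat_lit 4) (nat_lit 373) (nat_lit 318) (nat_lit 209)) (XT.lf (nat_lit 0) (nat_lit 6393933601) (nat_lit 152) (nat_lit 801776559) (nat_lit 76) (nat_lit 47106172698) (nat_lit 26) (nat_lit 5) (nat_lit 28) (nat_lit 5) (nat_lit 27) (nat_lit 5) (nat_lit 374) (nat_lit 318) (nat_lit 208)))) (XT.nd (nat_lit 78) (nat_lit 76) (nat_lit 0) (XT.lf (nat_lit 0) (nat_lit 17674423867) (nat_lit 228) (nat_lit 31651160095) (nat_lit 76) (nat_lit 6976452775) (nat_lit 24) (nat_lit 5) (nat_lit 27) (nat_lit 5) (nat_lit 25) (nat_lit 4) (nat_lit 375) (nat_lit 318) (nat_lit 207)) (XT.nd (nat_lit 78) (nat_lit 76) (nat_lit 0) (XT.lf (nat_lit 0) (nat_lit 29644511668) (nat_lit 228) (nat_lit 7126916853) (nat_lit 76) (nat_lit 21624493095) (nat_lit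 24) (nat_lit 5) (nat_lit 27) (nat_lit 5) (nat_lit 25) (nat_lit 4) (nat_lit 376) (nat_lit 318) (nat_lit 206)) (XT.lf (nat_lit 0) (nat_lit 19228286876) (nat_lit 76) (nat_lit 23279128702) (nat_lit 152) (nat_lit 18072371441) (nat_lit 23) (nat_lit 5) (nat_lit 24) (nat_lit 5) (nat_lit 25) (nat_lit 4) (nat_lit 377) (nat_lit 318) (nat_lit 205))))))) (XT.nd (nat_lit 936) (nat_lit 380) (nat_lit 0) (XT.nd (nat_lit 468) (nat_lit 304) (nat_lit 0) (XT.nd (nat_lit 234) (nat_lit 76) (nat_lit 0) (XT.nd (nat_lit 78) (nat_lit 152) (nat_lit 0) (XT.lf (nat_lit 0) (nat_lit 47138176525) (nat_lit 76) (nat_lit 8990206959) (nat_lit 152) (nat_lit 6738718042) (nat_lit 23) (nat_lit 5) (nat_lit 24) (nat_lit 5) (nat_lit 25) (nat_lit 4) (nat_lit 378) (nat_lit 318) (nat_lit 204)) (XT.nd (nat_lit 78) (nat_lit 0) (nat_lit 0) (XT.lf (nat_lit 0) (nat_lit 5267654930) (nat_lit 152) (nat_lit 53903669896) (nat_lit 76) (nat_lit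 6079867132) (nat_lit 21) (nat_lit 5) (nat_lit 23) (nat_lit 5) (nat_lit 22) (nat_lit 4) (nat_lit 379) (nat_lit 318) (nat_lit 203)) (XT.lf (nat_lit 0) (nat_lit 18060449027) (nat_lit 152) (nat_lit 27689753568) (nat_lit 76) (nat_lit 21978133930) (nat_lit 21) (nat_lit 5) (nat_lit 23) (nat_lit 5) (nat_lit 22) (nat_lit 4) (nat_lit 380) (nat_lit 318) (nat_lit 202)))) (XT.nd (nat_lit 78) (nat_lit 76) (nat_lit 0) (XT.lf (nat_lit 0) (nat_lit 31487590789) (nat_lit 152) (nat_lit 174885882) (nat_lit 76) (nat_lit 38667127713) (nat_lit 21) (nat_lit 5) (nat_lit 23) (nat_lit 5) (nat_lit 22) (nat_lit 4) (nat_lit 381) (nat_lit 318) (nat_lit 201)) (XT.nd (nat_lit 78) (nat_lit 0) (nat_lit 0) (XT.lf (nat_lit 0) (nat_lit 29655609457) (nat_lit 76) (nat_lit 16388447316) (nat_lit 152) (nat_lit 26993981896) (nat_lit 20) (nat_lit 5) (nat_lit 21) (nat_lit 5) (nat_lit 22) (nat_lit 4) (nat_lit 382) (nat_lit 318) (nat_lit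 200)) (XT.lf (nat_lit 0) (nat_lit 60974570455) (nat_lit 76) (nat_lit 351794786) (nat_lit 152) (nat_lit 14555629794) (nat_lit 20) (nat_lit 5) (nat_lit 21) (nat_lit 5) (nat_lit 22) (nat_lit 4) (nat_lit 383) (nat_lit 318) (nat_lit 199))))) (XT.nd (nat_lit 234) (nat_lit 152) (nat_lit 0) (XT.nd (nat_lit 78) (nat_lit 76) (nat_lit 0) (XT.lf (nat_lit 0) (nat_lit 15211933410) (nat_lit 76) (nat_lit 62650990568) (nat_lit 76) (nat_lit 980719760) (nat_lit 19) (nat_lit 4) (nat_lit 20) (nat_lit 5) (nat_lit 20) (nat_lit 4) (nat_lit 384) (nat_lit 318) (nat_lit 198)) (XT.nd (nat_lit 78) (nat_lit 0) (nat_lit 0) (XT.lf (nat_lit 0) (nat_lit 13105732771) (nat_lit 152) (nat_lit 34811959496) (nat_lit 76) (nat_lit 34012441677) (nat_lit 18) (nat_lit 5) (nat_lit 20) (nat_lit 5) (nat_lit 19) (nat_lit 4) (nat_lit 385) (nat_lit 318) (nat_lit 197)) (XT.lf (nat_lit 0) (nat_lit 27859019308) (nat_lit 152) (nat_lit 4575761018)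 (nat_lit 76) (nat_lit 52735592055) (nat_lit 18) (nat_lit 5) (nat_lit 20) (nat_lit 5) (nat_lit 19) (nat_lit 4) (nat_lit 386) (nat_lit 318) (nat_lit 196)))) (XT.nd (nat_lit 78) (nat_lit 76) (nat_lit 0) (XT.lf (nat_lit 0) (nat_lit 28062358566) (nat_lit 76) (nat_lit 15721429377) (nat_lit 152) (nat_lit 44767144947) (nat_lit 17) (nat_lit 5) (nat_lit 18) (nat_lit 5) (nat_lit 19) (nat_lit 4) (nat_lit 387) (nat_lit 318) (nat_lit 195)) (XT.nd (nat_lit 78) (nat_lit 76) (nat_lit 0) (XT.lf (nat_lit 0) (nat_lit 60607801527) (nat_lit 152) (nat_lit 29643291183) (nat_lit 0) (nat_lit 1844279376) (nat_lit 17) (nat_lit 5) (nat_lit 19) (nat_lit 4) (nat_lit 17) (nat_lit 4) (nat_lit 388) (nat_lit 318) (nat_lit 194)) (XT.lf (nat_lit 0) (nat_lit 2560789541) (nat_lit 76) (nat_lit 76005849633) (nat_lit 76) (nat_lit 17235713840) (nat_lit 16) (nat_lit 4) (nat_lit 17) (nat_lit 5) (nat_lit 17) (nat_lit 4) (nat_lit 389)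 (nat_lit 318) (nat_lit 193)))))) (XT.nd (nat_lit 468) (nat_lit 228) (nat_lit 0) (XT.nd (nat_lit 234) (nat_lit 0) (nat_lit 0) (XT.nd (nat_lit 78) (nat_lit 152) (nat_lit 0) (XT.lf (nat_lit 0) (nat_lit 37396647140) (nat_lit 76) (nat_lit 60524785280) (nat_lit 76) (nat_lit 1748350780) (nat_lit 16) (nat_lit 4) (nat_lit 17) (nat_lit 5) (nat_lit 17) (nat_lit 4) (nat_lit 390) (nat_lit 318) (nat_lit 192)) (XT.nd (nat_lit 78) (nat_lit 76) (nat_lit 0) (XT.lf (nat_lit 0) (nat_lit 14044979367) (nat_lit 152) (nat_lit 29990225564) (nat_lit 76) (nat_lit 59684245164) (nat_lit 15) (nat_lit 5) (nat_lit 17) (nat_lit 5) (nat_lit 16) (nat_lit 4) (nat_lit 391) (nat_lit 318) (nat_lit 191)) (XT.lf (nat_lit 0) (nat_lit 3999173451) (nat_lit 76) (nat_lit 26628787441) (nat_lit 152) (nat_lit 77339270095) (nat_lit 14) (nat_lit 5) (nat_lit 15) (nat_lit 5) (nat_lit 16) (nat_lit 4) (nat_lit 392) (nat_lit 318) (nat_lit 190))))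 (XT.nd (nat_lit 78) (nat_lit 0) (nat_lit 0) (XT.lf (nat_lit 0) (nat_lit 40722354093) (nat_lit 76) (nat_lit 7822007629) (nat_lit 152) (nat_lit 63857826429) (nat_lit 14) (nat_lit 5) (nat_lit 15) (nat_lit 5) (nat_lit 16) (nat_lit 4) (nat_lit 393) (nat_lit 318) (nat_lit 189)) (XT.nd (nat_lit 78) (nat_lit 0) (nat_lit 0) (XT.lf (nat_lit 0) (nat_lit 67539262682) (nat_lit 152) (nat_lit 37970062508) (nat_lit 0) (nat_lit 11540434682) (nat_lit 14) (nat_lit 5) (nat_lit 16) (nat_lit 4) (nat_lit 14) (nat_lit 4) (nat_lit 394) (nat_lit 318) (nat_lit 188)) (XT.lf (nat_lit 0) (nat_lit 87608800877) (nat_lit 152) (nat_lit 2709392676) (nat_lit 0) (nat_lit 31605272685) (nat_lit 14) (nat_lit 5) (nat_lit 16) (nat_lit 4) (nat_lit 14) (nat_lit 4) (nat_lit 395) (nat_lit 318) (nat_lit 187))))) (XT.nd (nat_lit 234) (nat_lit 76) (nat_lit 0) (XT.nd (nat_lit 78) (nat_lit 76) (nat_lit 0) (XT.lf (nat_lit 0) (nat_lit 35442638653)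 (nat_lit 76) (nat_lit 73789357726) (nat_lit 76) (nat_lit 17781353160) (nat_lit 13) (nat_lit 4) (nat_lit 14) (nat_lit 5) (nat_lit 14) (nat_lit 4) (nat_lit 396) (nat_lit 318) (nat_lit 186)) (XT.nd (nat_lit 78) (nat_lit 76) (nat_lit 0) (XT.lf (nat_lit 0) (nat_lit 75590375477) (nat_lit 76) (nat_lit 56388740841) (nat_lit 76) (nat_lit 376473062) (nat_lit 13) (nat_lit 4) (nat_lit 14) (nat_lit 5) (nat_lit 14) (nat_lit 4) (nat_lit 397) (nat_lit 318) (nat_lit 185)) (XT.lf (nat_lit 0) (nat_lit 17322761519) (nat_lit 152) (nat_lit 20504666865) (nat_lit 76) (nat_lit 100123692020) (nat_lit 12) (nat_lit 5) (nat_lit 14) (nat_lit 5) (nat_lit 13) (nat_lit 4) (nat_lit 398) (nat_lit 318) (nat_lit 184)))) (XT.nd (nat_lit 78) (nat_lit 0) (nat_lit 0) (XT.lf (nat_lit 0) (nat_lit 18137755678) (nat_lit 76) (nat_lit 18036854330) (nat_lit 152) (nat_lit 107637494703) (nat_lit 11) (nat_lit 5) (nat_lit 12) (nat_lit 5)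 (nat_lit 13) (nat_lit 4) (nat_lit 399) (nat_lit 318) (nat_lit 183)) (XT.nd (nat_lit 78) (nat_lit 0) (nat_lit 0) (XT.lf (nat_lit 0) (nat_lit 56361964929) (nat_lit 152) (nat_lit 90578637045) (nat_lit 0) (nat_lit 3005891059) (nat_lit 11) (nat_lit 5) (nat_lit 13) (nat_lit 4) (nat_lit 11) (nat_lit 4) (nat_lit 400) (nat_lit 318) (nat_lit 182)) (XT.lf (nat_lit 0) (nat_lit 77851645185) (nat_lit 152) (nat_lit 54029077205) (nat_lit 0) (nat_lit 24492230977) (nat_lit 11) (nat_lit 5) (nat_lit 13) (nat_lit 4) (nat_lit 11) (nat_lit 4) (nat_lit 401) (nat_lit 318) (nat_lit 181))))))))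
noncomputable def xc150 : XT := (XT.nd (nat_lit 1794) (nat_lit 76) (nat_lit 0) (XT.nd (nat_lit 858) (nat_lit 152) (nat_lit 0) (XT.nd (nat_lit 390) (nat_lit 152) (nat_lit 0) (XT.nd (nat_lit 156) (nat_lit 76) (nat_lit 0) (XT.nd (nat_lit 78) (nat_lit 76) (nat_lit 0) (XT.lf (nat_lit 0) (nat_lit 100413210839) (nat_lit 152) (nat_lit 15657040906) (nat_lit 0) (nat_lit 47050615356) (nat_lit 11) (nat_lit 5) (nat_lit 13) (nat_lit 4) (nat_lit 11) (nat_lit 4) (nat_lit 402) (nat_lit 318) (nat_lit 180)) (XT.lf (nat_lit 0) (nat_lit 25443174314) (nat_lit 76) (nat_lit 99054444844) (nat_lit 76) (nat_lit 45688819576) (nat_lit 10) (nat_lit 4) (nat_lit 11) (nat_lit 5) (nat_lit 11) (nat_lit 4) (nat_lit 403) (nat_lit 318) (nat_lit 179))) (XT.nd (nat_lit 78) (nat_lit 76) (nat_lit 0) (XT.lf (nat_lit 0) (nat_lit 69137290865) (nat_lit 76) (nat_lit 80911686402) (nat_lit 76) (nat_lit 27543175624) (nat_lit 10) (nat_lit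 4) (nat_lit 11) (nat_lit 5) (nat_lit 11) (nat_lit 4) (nat_lit 404) (nat_lit 318) (nat_lit 178)) (XT.nd (nat_lit 78) (nat_lit 76) (nat_lit 0) (XT.lf (nat_lit 0) (nat_lit 115011649875) (nat_lit 76) (nat_lit 61863938940) (nat_lit 76) (nat_lit 8492680056) (nat_lit 10) (nat_lit 4) (nat_lit 11) (nat_lit 5) (nat_lit 11) (nat_lit 4) (nat_lit 405) (nat_lit 318) (nat_lit 177)) (XT.lf (nat_lit 0) (nat_lit 11139696766) (nat_lit 152) (nat_lit 30537497756) (nat_lit 76) (nat_lit 151847123086) (nat_lit 9) (nat_lit 5) (nat_lit 11) (nat_lit 5) (nat_lit 10) (nat_lit 4) (nat_lit 406) (nat_lit 318) (nat_lit 176))))) (XT.nd (nat_lit 234) (nat_lit 76) (nat_lit 0) (XT.nd (nat_lit 78) (nat_lit 0) (nat_lit 0) (XT.lf (nat_lit 0) (nat_lit 11497218779) (nat_lit 76) (nat_lit 20148433668) (nat_lit 152) (nat_lit 170426686972) (nat_lit 8) (nat_lit 5) (nat_lit 9) (nat_lit 5) (nat_lit 10) (nat_lit 4) (nat_lit 407) (nat_lit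 318) (nat_lit 175)) (XT.nd (nat_lit 78) (nat_lit 0) (nat_lit 0) (XT.lf (nat_lit 0) (nat_lit 53738782096) (nat_lit 152) (nat_lit 154379002406) (nat_lit 0) (nat_lit 2901884330) (nat_lit 8) (nat_lit 5) (nat_lit 10) (nat_lit 4) (nat_lit 8) (nat_lit 4) (nat_lit 408) (nat_lit 318) (nat_lit 174)) (XT.lf (nat_lit 0) (nat_lit 77264845409) (nat_lit 152) (nat_lit 116707311325) (nat_lit 0) (nat_lit 26425794431) (nat_lit 8) (nat_lit 5) (nat_lit 10) (nat_lit 4) (nat_lit 8) (nat_lit 4) (nat_lit 409) (nat_lit 318) (nat_lit 173)))) (XT.nd (nat_lit 78) (nat_lit 76) (nat_lit 0) (XT.lf (nat_lit 0) (nat_lit 101965283307) (nat_lit 152) (nat_lit 77155779378) (nat_lit 0) (nat_lit 51124181650) (nat_lit 8) (nat_lit 5) (nat_lit 10) (nat_lit 4) (nat_lit 8) (nat_lit 4) (nat_lit 410) (nat_lit 318) (nat_lit 172)) (XT.nd (nat_lit 78) (nat_lit 76) (nat_lit 0) (XT.lf (nat_lit 0) (nat_lit 127898906356) (nat_lit 152) (nat_lit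 35630236250) (nat_lit 0) (nat_lit 77055851672) (nat_lit 8) (nat_lit 5) (nat_lit 10) (nat_lit 4) (nat_lit 8) (nat_lit 4) (nat_lit 411) (nat_lit 318) (nat_lit 171)) (XT.lf (nat_lit 0) (nat_lit 8231652691) (nat_lit 76) (nat_lit 147024327754) (nat_lit 76) (nat_lit 96179413045) (nat_lit 7) (nat_lit 4) (nat_lit 8) (nat_lit 5) (nat_lit 8) (nat_lit 4) (nat_lit 412) (nat_lit 318) (nat_lit 170)))))) (XT.nd (nat_lit 468) (nat_lit 0) (nat_lit 0) (XT.nd (nat_lit 234) (nat_lit 152) (nat_lit 0) (XT.nd (nat_lit 78) (nat_lit 0) (nat_lit 0) (XT.lf (nat_lit 0) (nat_lit 55520296560) (nat_lit 76) (nat_lit 129062308829) (nat_lit 76) (nat_lit 78215622667) (nat_lit 7) (nat_lit 4) (nat_lit 8) (nat_lit 5) (nat_lit 8) (nat_lit 4) (nat_lit 413) (nat_lit 318) (nat_lit 169)) (XT.nd (nat_lit 78) (nat_lit 0) (nat_lit 0) (XT.lf (nat_lit 0) (nat_lit 105170190844) (nat_lit 76) (nat_lit 110203734411) (nat_lit 76) (nat_lit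 59355361152) (nat_lit 7) (nat_lit 4) (nat_lit 8) (nat_lit 5) (nat_lit 8) (nat_lit 4) (nat_lit 414) (nat_lit 318) (nat_lit 168)) (XT.lf (nat_lit 0) (nat_lit 157299549578) (nat_lit 76) (nat_lit 90403703133) (nat_lit 76) (nat_lit 39553723114) (nat_lit 7) (nat_lit 4) (nat_lit 8) (nat_lit 5) (nat_lit 8) (nat_lit 4) (nat_lit 415) (nat_lit 318) (nat_lit 167)))) (XT.nd (nat_lit 78) (nat_lit 152) (nat_lit 0) (XT.lf (nat_lit 0) (nat_lit 212032490282) (nat_lit 76) (nat_lit 69615072063) (nat_lit 76) (nat_lit 18763561796) (nat_lit 7) (nat_lit 4) (nat_lit 8) (nat_lit 5) (nat_lit 8) (nat_lit 4) (nat_lit 416) (nat_lit 318) (nat_lit 166)) (XT.nd (nat_lit 78) (nat_lit 76) (nat_lit 0) (XT.lf (nat_lit 0) (nat_lit 2966536103) (nat_lit 152) (nat_lit 44771568633) (nat_lit 76) (nat_lit 266482553653) (nat_lit 6) (nat_lit 5) (nat_lit 8) (nat_lit 5) (nat_lit 7) (nat_lit 4) (nat_lit 417) (nat_lit 318) (nat_lit 165))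 (XT.lf (nat_lit 0) (nat_lit 728917294) (nat_lit 76) (nat_lit 24433654861) (nat_lit 152) (nat_lit 303542216815) (nat_lit 5) (nat_lit 5) (nat_lit 6) (nat_lit 5) (nat_lit 7) (nat_lit 4) (nat_lit 418) (nat_lit 318) (nat_lit 164))))) (XT.nd (nat_lit 234) (nat_lit 0) (nat_lit 0) (XT.nd (nat_lit 78) (nat_lit 0) (nat_lit 0) (XT.lf (nat_lit 0) (nat_lit 49238266361) (nat_lit 152) (nat_lit 293832079300) (nat_lit 0) (nat_lit 804287780) (nat_lit 5) (nat_lit 5) (nat_lit 7) (nat_lit 4) (nat_lit 5) (nat_lit 4) (nat_lit 419) (nat_lit 318) (nat_lit 163)) (XT.nd (nat_lit 78) (nat_lit 0) (nat_lit 0) (XT.lf (nat_lit 0) (nat_lit 74916997823) (nat_lit 152) (nat_lit 258384189604) (nat_lit 0) (nat_lit 26481820252) (nat_lit 5) (nat_lit 5) (nat_lit 7) (nat_lit 4) (nat_lit 5) (nat_lit 4) (nat_lit 420) (nat_lit 318) (nat_lit 162)) (XT.lf (nat_lit 0) (nat_lit 101878428550) (nat_lit 152) (nat_lit 221166325023) (nat_lit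 0) (nat_lit 53442109085) (nat_lit 5) (nat_lit 5) (nat_lit 7) (nat_lit 4) (nat_lit 5) (nat_lit 4) (nat_lit 421) (nat_lit 318) (nat_lit 161)))) (XT.nd (nat_lit 78) (nat_lit 0) (nat_lit 0) (XT.lf (nat_lit 0) (nat_lit 130186752425) (nat_lit 152) (nat_lit 182089871593) (nat_lit 0) (nat_lit 81749345441) (nat_lit 5) (nat_lit 5) (nat_lit 7) (nat_lit 4) (nat_lit 5) (nat_lit 4) (nat_lit 422) (nat_lit 318) (nat_lit 160)) (XT.nd (nat_lit 78) (nat_lit 0) (nat_lit 0) (XT.lf (nat_lit 0) (nat_lit 159909370219) (nat_lit 152) (nat_lit 141061790140) (nat_lit 0) (nat_lit 111470927503) (nat_lit 5) (nat_lit 5) (nat_lit 7) (nat_lit 4) (nat_lit 5) (nat_lit 4) (nat_lit 423) (nat_lit 318) (nat_lit 159)) (XT.lf (nat_lit 0) (nat_lit 191117050069) (nat_lit 152) (nat_lit 97984394756) (nat_lit 0) (nat_lit 142677620943) (nat_lit 5) (nat_lit 5) (nat_lit 7) (nat_lit 4) (nat_lit 5) (nat_lit 4) (nat_lit 424) (nat_lit 318)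 (nat_lit 158))))))) (XT.nd (nat_lit 38844) (nat_lit 0) (nat_lit 6536) (XT.nd (nat_lit 468) (nat_lit 0) (nat_lit 0) (XT.nd (nat_lit 234) (nat_lit 0) (nat_lit 0) (XT.nd (nat_lit 78) (nat_lit 76) (nat_lit 0) (XT.lf (nat_lit 0) (nat_lit 223884095976) (nat_lit 152) (nat_lit 52755120213) (nat_lit 0) (nat_lit 175443727410) (nat_lit 5) (nat_lit 5) (nat_lit 7) (nat_lit 4) (nat_lit 5) (nat_lit 4) (nat_lit 425) (nat_lit 318) (nat_lit 157)) (XT.nd (nat_lit 78) (nat_lit 76) (nat_lit 0) (XT.lf (nat_lit 0) (nat_lit 258288524715) (nat_lit 152) (nat_lit 5266277762) (nat_lit 0) (nat_lit 209847261445) (nat_lit 5) (nat_lit 5) (nat_lit 7) (nat_lit 4) (nat_lit 5) (nat_lit 4) (nat_lit 426) (nat_lit 318) (nat_lit 156)) (XT.lf (nat_lit 0) (nat_lit 46069720019) (nat_lit 76) (nat_lit 249061809013) (nat_lit 76) (nat_lit 200619693644) (nat_lit 4) (nat_lit 4) (nat_lit 5) (nat_lit 5) (nat_lit 5) (nat_lit 4) (nat_lit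 427) (nat_lit 318) (nat_lit 155)))) (XT.nd (nat_lit 78) (nat_lit 0) (nat_lit 0) (XT.lf (nat_lit 0) (nat_lit 100153574541) (nat_lit 76) (nat_lit 233751388919) (nat_lit 76) (nat_lit 185308462027) (nat_lit 4) (nat_lit 4) (nat_lit 5) (nat_lit 5) (nat_lit 5) (nat_lit 4) (nat_lit 428) (nat_lit 318) (nat_lit 154)) (XT.nd (nat_lit 78) (nat_lit 0) (nat_lit 0) (XT.lf (nat_lit 0) (nat_lit 156939929961) (nat_lit 76) (nat_lit 217676275776) (nat_lit 76) (nat_lit 169232576005) (nat_lit 4) (nat_lit 4) (nat_lit 5) (nat_lit 5) (nat_lit 5) (nat_lit 4) (nat_lit 429) (nat_lit 318) (nat_lit 153)) (XT.lf (nat_lit 0) (nat_lit 216563991885) (nat_lit 76) (nat_lit 200798195507) (nat_lit 76) (nat_lit 152353759661) (nat_lit 4) (nat_lit 4) (nat_lit 5) (nat_lit 5) (nat_lit 5) (nat_lit 4) (nat_lit 430) (nat_lit 318) (nat_lit 152))))) (XT.nd (nat_lit 38142) (nat_lit 0) (nat_lit 8132) (XT.nd (nat_lit 78) (nat_lit 0) (nat_lit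 0) (XT.lf (nat_lit 0) (nat_lit 279167722366) (nat_lit 76) (nat_lit 183076962205) (nat_lit 76) (nat_lit 134631825335) (nat_lit 4) (nat_lit 4) (nat_lit 5) (nat_lit 5) (nat_lit 5) (nat_lit 4) (nat_lit 431) (nat_lit 318) (nat_lit 151)) (XT.nd (nat_lit 78) (nat_lit 0) (nat_lit 0) (XT.lf (nat_lit 0) (nat_lit 344900177906) (nat_lit 76) (nat_lit 164470382458) (nat_lit 76) (nat_lit 116024577946) (nat_lit 4) (nat_lit 4) (nat_lit 5) (nat_lit 5) (nat_lit 5) (nat_lit 4) (nat_lit 432) (nat_lit 318) (nat_lit 150)) (XT.lf (nat_lit 0) (nat_lit 413917864350) (nat_lit 76) (nat_lit 144934154886) (nat_lit 76) (nat_lit 96487714524) (nat_lit 4) (nat_lit 4) (nat_lit 5) (nat_lit 5) (nat_lit 5) (nat_lit 4) (nat_lit 433) (nat_lit 318) (nat_lit 149)))) (XT.nd (nat_lit 78) (nat_lit 0) (nat_lit 0) (XT.lf (nat_lit 0) (nat_lit 846685692) (nat_lit 0) (nat_lit 846685692) (nat_lit 684) (nat_lit 3662442758) (nat_lit 111)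 (nat_lit 5) (nat_lit 111) (nat_lit 3) (nat_lit 120) (nat_lit 3) (nat_lit 319) (nat_lit 319) (nat_lit 262)) (XT.nd (nat_lit 78) (nat_lit 0) (nat_lit 0) (XT.lf (nat_lit 0) (nat_lit 4103874121) (nat_lit 684) (nat_lit 3980163458) (nat_lit 760) (nat_lit 2863097074) (nat_lit 111) (nat_lit 5) (nat_lit 120) (nat_lit 3) (nat_lit 121) (nat_lit 5) (nat_lit 320) (nat_lit 319) (nat_lit 261)) (XT.lf (nat_lit 76) (nat_lit 1302795551) (nat_lit 0) (nat_lit 3564930450) (nat_lit 760) (nat_lit 6326189466) (nat_lit 112) (nat_lit 5) (nat_lit 111) (nat_lit 5) (nat_lit 121) (nat_lit 5) (nat_lit 321) (nat_lit 319) (nat_lit 260)))))) (XT.nd (nat_lit 468) (nat_lit 1672) (nat_lit 0) (XT.nd (nat_lit 234) (nat_lit 0) (nat_lit 76) (XT.nd (nat_lit 78) (nat_lit 0) (nat_lit 0) (XT.lf (nat_lit 0) (nat_lit 5721157580) (nat_lit 684) (nat_lit 4503814670) (nat_lit 760) (nat_lit 1225534026) (nat_lit 112) (nat_lit 5) (nat_lit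 121) (nat_lit 5) (nat_lit 122) (nat_lit 5) (nat_lit 322) (nat_lit 319) (nat_lit 259)) (XT.nd (nat_lit 78) (nat_lit 0) (nat_lit 0) (XT.lf (nat_lit 76) (nat_lit 1108262571) (nat_lit 0) (nat_lit 5550886472) (nat_lit 760) (nat_lit 5058721558) (nat_lit 113) (nat_lit 5) (nat_lit 112) (nat_lit 5) (nat_lit 122) (nat_lit 5) (nat_lit 323) (nat_lit 319) (nat_lit 258)) (XT.lf (nat_lit 76) (nat_lit 7136031603) (nat_lit 0) (nat_lit 551706545) (nat_lit 760) (nat_lit 4308716651) (nat_lit 113) (nat_lit 5) (nat_lit 112) (nat_lit 5) (nat_lit 122) (nat_lit 5) (nat_lit 324) (nat_lit 319) (nat_lit 257)))) (XT.nd (nat_lit 78) (nat_lit 0) (nat_lit 0) (XT.lf (nat_lit 76) (nat_lit 1116603681) (nat_lit 0) (nat_lit 7711069513) (nat_lit 760) (nat_lit 3458334010) (nat_lit 114) (nat_lit 5) (nat_lit 113) (nat_lit 5) (nat_lit 123) (nat_lit 5) (nat_lit 325) (nat_lit 319) (nat_lit 256)) (XT.nd (nat_lit 78) (nat_lit 0) (nat_lit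 76) (XT.lf (nat_lit 76) (nat_lit 7530221087) (nat_lit 0) (nat_lit 2555870302) (nat_lit 760) (nat_lit 2500904683) (nat_lit 114) (nat_lit 5) (nat_lit 113) (nat_lit 5) (nat_lit 123) (nat_lit 5) (nat_lit 326) (nat_lit 319) (nat_lit 255)) (XT.lf (nat_lit 76) (nat_lit 1337489952) (nat_lit 0) (nat_lit 10107239399) (nat_lit 760) (nat_lit 1456471675) (nat_lit 115) (nat_lit 5) (nat_lit 114) (nat_lit 5) (nat_lit 124) (nat_lit 5) (nat_lit 327) (nat_lit 319) (nat_lit 254))))) (XT.nd (nat_lit 234) (nat_lit 1140) (nat_lit 0) (XT.nd (nat_lit 78) (nat_lit 684) (nat_lit 0) (XT.lf (nat_lit 76) (nat_lit 8161905150) (nat_lit 0) (nat_lit 4809067872) (nat_lit 760) (nat_lit 255189592) (nat_lit 115) (nat_lit 5) (nat_lit 114) (nat_lit 5) (nat_lit 124) (nat_lit 5) (nat_lit 328) (nat_lit 319) (nat_lit 253)) (XT.nd (nat_lit 78) (nat_lit 0) (nat_lit 0) (XT.lf (nat_lit 0) (nat_lit 987951339) (nat_lit 760) (nat_lit 11799374162)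 (nat_lit 76) (nat_lit 778588717) (nat_lit 105) (nat_lit 5) (nat_lit 115) (nat_lit 5) (nat_lit 106) (nat_lit 5) (nat_lit 329) (nat_lit 319) (nat_lit 252)) (XT.lf (nat_lit 0) (nat_lit 2425320734) (nat_lit 760) (nat_lit 4910802070) (nat_lit 76) (nat_lit 6579315037) (nat_lit 105) (nat_lit 5) (nat_lit 115) (nat_lit 5) (nat_lit 106) (nat_lit 5) (nat_lit 330) (nat_lit 319) (nat_lit 251)))) (XT.nd (nat_lit 78) (nat_lit 380) (nat_lit 0) (XT.lf (nat_lit 0) (nat_lit 2376639868) (nat_lit 760) (nat_lit 1570871061) (nat_lit 836) (nat_lit 10334303846) (nat_lit 95) (nat_lit 5) (nat_lit 105) (nat_lit 5) (nat_lit 106) (nat_lit 5) (nat_lit 331) (nat_lit 319) (nat_lit 250)) (XT.nd (nat_lit 78) (nat_lit 380) (nat_lit 0) (XT.lf (nat_lit 0) (nat_lit 5677023895) (nat_lit 836) (nat_lit 4557256127) (nat_lit 76) (nat_lit 4425693439) (nat_lit 95) (nat_lit 5) (nat_lit 106) (nat_lit 5) (nat_lit 96) (nat_lit 5) (nat_lit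 332) (nat_lit 319) (nat_lit 249)) (XT.lf (nat_lit 0) (nat_lit 3213737948) (nat_lit 380) (nat_lit 4333008130) (nat_lit 456) (nat_lit 7507629771) (nat_lit 90) (nat_lit 5) (nat_lit 95) (nat_lit 5) (nat_lit 96) (nat_lit 5) (nat_lit 333) (nat_lit 319) (nat_lit 248))))))))
noncomputable def xc151 : XT := (XT.nd (nat_lit 1872) (nat_lit 1672) (nat_lit 0) (XT.nd (nat_lit 936) (nat_lit 1596) (nat_lit 0) (XT.nd (nat_lit 468) (nat_lit 912) (nat_lit 0) (XT.nd (nat_lit 234) (nat_lit 760) (nat_lit 0) (XT.nd (nat_lit 78) (nat_lit 304) (nat_lit 0) (XT.lf (nat_lit 0) (nat_lit 9596030514) (nat_lit 456) (nat_lit 3985680412) (nat_lit 76) (nat_lit 1882505000) (nat_lit 90) (nat_lit 5) (nat_lit 96) (nat_lit 5) (nat_lit 91) (nat_lit 5) (nat_lit 334) (nat_lit 319) (nat_lit 247)) (XT.nd (nat_lit 78) (nat_lit 0) (nat_lit 0) (XT.lf (nat_lit 0) (nat_lit 4307739553) (nat_lit 304) (nat_lit 7557890146) (nat_lit 380) (nat_lit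 4023046140) (nat_lit 86) (nat_lit 5) (nat_lit 90) (nat_lit 5) (nat_lit 91) (nat_lit 5) (nat_lit 335) (nat_lit 319) (nat_lit 246)) (XT.lf (nat_lit 0) (nat_lit 13133418056) (nat_lit 304) (nat_lit 1163000654) (nat_lit 380) (nat_lit 2035573934) (nat_lit 86) (nat_lit 5) (nat_lit 90) (nat_lit 5) (nat_lit 91) (nat_lit 5) (nat_lit 336) (nat_lit 319) (nat_lit 245)))) (XT.nd (nat_lit 78) (nat_lit 304) (nat_lit 0) (XT.lf (nat_lit 0) (nat_lit 208629172) (nat_lit 456) (nat_lit 11115844412) (nat_lit 76) (nat_lit 5465029353) (nat_lit 80) (nat_lit 5) (nat_lit 86) (nat_lit 5) (nat_lit 81) (nat_lit 5) (nat_lit 337) (nat_lit 319) (nat_lit 244)) (XT.nd (nat_lit 78) (nat_lit 304) (nat_lit 0) (XT.lf (nat_lit 0) (nat_lit 2552157627) (nat_lit 456) (nat_lit 2240992998) (nat_lit 76) (nat_lit 12472310174) (nat_lit 80) (nat_lit 5) (nat_lit 86) (nat_lit 5) (nat_lit 81) (nat_lit 5) (nat_lit 338) (nat_lit 319) (nat_lit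 243)) (XT.lf (nat_lit 0) (nat_lit 5143046816) (nat_lit 380) (nat_lit 10503574605) (nat_lit 76) (nat_lit 2112101869) (nat_lit 76) (nat_lit 5) (nat_lit 81) (nat_lit 5) (nat_lit 77) (nat_lit 5) (nat_lit 339) (nat_lit 319) (nat_lit 242))))) (XT.nd (nat_lit 234) (nat_lit 380) (nat_lit 0) (XT.nd (nat_lit 78) (nat_lit 532) (nat_lit 0) (XT.lf (nat_lit 0) (nat_lit 7963413754) (nat_lit 380) (nat_lit 1070599065) (nat_lit 76) (nat_lit 9237654614) (nat_lit 76) (nat_lit 5) (nat_lit 81) (nat_lit 5) (nat_lit 77) (nat_lit 5) (nat_lit 340) (nat_lit 319) (nat_lit 241)) (XT.nd (nat_lit 78) (nat_lit 228) (nat_lit 0) (XT.lf (nat_lit 0) (nat_lit 9105900422) (nat_lit 304) (nat_lit 1944669701) (nat_lit 380) (nat_lit 7753414575) (nat_lit 72) (nat_lit 5) (nat_lit 76) (nat_lit 5) (nat_lit 77) (nat_lit 5) (nat_lit 341) (nat_lit 319) (nat_lit 240)) (XT.lf (nat_lit 0) (nat_lit 372126133) (nat_lit 228) (nat_lit 14014084013)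 (nat_lit 304) (nat_lit 4972015169) (nat_lit 69) (nat_lit 5) (nat_lit 72) (nat_lit 5) (nat_lit 73) (nat_lit 5) (nat_lit 342) (nat_lit 319) (nat_lit 239)))) (XT.nd (nat_lit 78) (nat_lit 380) (nat_lit 0) (XT.lf (nat_lit 0) (nat_lit 11229919115) (nat_lit 228) (nat_lit 6838804048) (nat_lit 304) (nat_lit 1862463373) (nat_lit 69) (nat_lit 5) (nat_lit 72) (nat_lit 5) (nat_lit 73) (nat_lit 5) (nat_lit 343) (nat_lit 319) (nat_lit 238)) (XT.nd (nat_lit 78) (nat_lit 0) (nat_lit 0) (XT.lf (nat_lit 0) (nat_lit 1387506389) (nat_lit 380) (nat_lit 18417848190) (nat_lit 76) (nat_lit 724866681) (nat_lit 64) (nat_lit 5) (nat_lit 69) (nat_lit 5) (nat_lit 65) (nat_lit 5) (nat_lit 344) (nat_lit 319) (nat_lit 237)) (XT.lf (nat_lit 0) (nat_lit 4984591443) (nat_lit 380) (nat_lit 7547739713) (nat_lit 76) (nat_lit 8613000903) (nat_lit 64) (nat_lit 5) (nat_lit 69) (nat_lit 5) (nat_lit 65) (nat_lit 5) (nat_lit 345)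 (nat_lit 319) (nat_lit 236)))))) (XT.nd (nat_lit 468) (nat_lit 836) (nat_lit 0) (XT.nd (nat_lit 234) (nat_lit 304) (nat_lit 0) (XT.nd (nat_lit 78) (nat_lit 228) (nat_lit 0) (XT.lf (nat_lit 0) (nat_lit 3974389492) (nat_lit 228) (nat_lit 4835211977) (nat_lit 304) (nat_lit 12979204190) (nat_lit 61) (nat_lit 5) (nat_lit 64) (nat_lit 5) (nat_lit 65) (nat_lit 5) (nat_lit 346) (nat_lit 319) (nat_lit 235)) (XT.nd (nat_lit 78) (nat_lit 228) (nat_lit 0) (XT.lf (nat_lit 0) (nat_lit 12992796455) (nat_lit 304) (nat_lit 6195186806) (nat_lit 76) (nat_lit 3268133236) (nat_lit 61) (nat_lit 5) (nat_lit 65) (nat_lit 5) (nat_lit 62) (nat_lit 5) (nat_lit 347) (nat_lit 319) (nat_lit 234)) (XT.lf (nat_lit 0) (nat_lit 6102972260) (nat_lit 228) (nat_lit 11443703751) (nat_lit 304) (nat_lit 5602050419) (nat_lit 58) (nat_lit 5) (nat_lit 61) (nat_lit 5) (nat_lit 62) (nat_lit 5) (nat_lit 348) (nat_lit 319) (nat_lit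 233)))) (XT.nd (nat_lit 78) (nat_lit 304) (nat_lit 0) (XT.lf (nat_lit 0) (nat_lit 19213314882) (nat_lit 228) (nat_lit 3207169937) (nat_lit 304) (nat_lit 1450879604) (nat_lit 58) (nat_lit 5) (nat_lit 61) (nat_lit 5) (nat_lit 62) (nat_lit 5) (nat_lit 349) (nat_lit 319) (nat_lit 232)) (XT.nd (nat_lit 78) (nat_lit 0) (nat_lit 0) (XT.lf (nat_lit 0) (nat_lit 3023952018) (nat_lit 304) (nat_lit 16149364620) (nat_lit 76) (nat_lit 5444097571) (nat_lit 54) (nat_lit 5) (nat_lit 58) (nat_lit 5) (nat_lit 55) (nat_lit 5) (nat_lit 350) (nat_lit 319) (nat_lit 231)) (XT.lf (nat_lit 0) (nat_lit 7794474509) (nat_lit 304) (nat_lit 3079926414) (nat_lit 76) (nat_lit 14519148955) (nat_lit 54) (nat_lit 5) (nat_lit 58) (nat_lit 5) (nat_lit 55) (nat_lit 5) (nat_lit 351) (nat_lit 319) (nat_lit 230))))) (XT.nd (nat_lit 234) (nat_lit 456) (nat_lit 0) (XT.nd (nat_lit 78) (nat_lit 152) (nat_lit 0) (XT.lf (nat_lit 0) (nat_lit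 10977552805) (nat_lit 228) (nat_lit 1985886644) (nat_lit 304) (nat_lit 13237064740) (nat_lit 51) (nat_lit 5) (nat_lit 54) (nat_lit 5) (nat_lit 55) (nat_lit 5) (nat_lit 352) (nat_lit 319) (nat_lit 229)) (XT.nd (nat_lit 78) (nat_lit 152) (nat_lit 0) (XT.lf (nat_lit 0) (nat_lit 18547307286) (nat_lit 304) (nat_lit 1332921229) (nat_lit 76) (nat_lit 7159762275) (nat_lit 51) (nat_lit 5) (nat_lit 55) (nat_lit 5) (nat_lit 52) (nat_lit 5) (nat_lit 353) (nat_lit 319) (nat_lit 228)) (XT.lf (nat_lit 0) (nat_lit 13639416746) (nat_lit 152) (nat_lit 11005724834) (nat_lit 228) (nat_lit 3264578446) (nat_lit 49) (nat_lit 5) (nat_lit 51) (nat_lit 5) (nat_lit 52) (nat_lit 5) (nat_lit 354) (nat_lit 319) (nat_lit 227)))) (XT.nd (nat_lit 78) (nat_lit 152) (nat_lit 0) (XT.lf (nat_lit 0) (nat_lit 551089402) (nat_lit 228) (nat_lit 1623530936) (nat_lit 304) (nat_lit 26645539820) (nat_lit 45) (nat_lit 5) (nat_lit 48)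 (nat_lit 5) (nat_lit 49) (nat_lit 5) (nat_lit 355) (nat_lit 319) (nat_lit 226)) (XT.nd (nat_lit 78) (nat_lit 152) (nat_lit 0) (XT.lf (nat_lit 0) (nat_lit 8139684232) (nat_lit 304) (nat_lit 13357449352) (nat_lit 76) (nat_lit 8258138019) (nat_lit 45) (nat_lit 5) (nat_lit 49) (nat_lit 5) (nat_lit 46) (nat_lit 5) (nat_lit 356) (nat_lit 319) (nat_lit 225)) (XT.lf (nat_lit 0) (nat_lit 2332106437) (nat_lit 152) (nat_lit 12123941294) (nat_lit 228) (nat_lit 16278444295) (nat_lit 43) (nat_lit 5) (nat_lit 45) (nat_lit 5) (nat_lit 46) (nat_lit 5) (nat_lit 357) (nat_lit 319) (nat_lit 224))))))) (XT.nd (nat_lit 936) (nat_lit 760) (nat_lit 0) (XT.nd (nat_lit 468) (nat_lit 380) (nat_lit 0) (XT.nd (nat_lit 234) (nat_lit 304) (nat_lit 0) (XT.nd (nat_lit 78) (nat_lit 228) (nat_lit 0) (XT.lf (nat_lit 0) (nat_lit 19254459899) (nat_lit 152) (nat_lit 2050239264) (nat_lit 228) (nat_lit 10447156272) (nat_lit 43)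 (nat_lit 5) (nat_lit 45) (nat_lit 5) (nat_lit 46) (nat_lit 5) (nat_lit 358) (nat_lit 319) (nat_lit 223)) (XT.nd (nat_lit 78) (nat_lit 76) (nat_lit 0) (XT.lf (nat_lit 0) (nat_lit 4188704922) (nat_lit 152) (nat_lit 24496242896) (nat_lit 228) (nat_lit 4125686156) (nat_lit 41) (nat_lit 5) (nat_lit 43) (nat_lit 5) (nat_lit 44) (nat_lit 5) (nat_lit 359) (nat_lit 319) (nat_lit 222)) (XT.lf (nat_lit 0) (nat_lit 2670886136) (nat_lit 228) (nat_lit 11860214947) (nat_lit 76) (nat_lit 19377323023) (nat_lit 40) (nat_lit 5) (nat_lit 43) (nat_lit 5) (nat_lit 41) (nat_lit 5) (nat_lit 360) (nat_lit 319) (nat_lit 221)))) (XT.nd (nat_lit 78) (nat_lit 152) (nat_lit 0) (XT.lf (nat_lit 0) (nat_lit 5844594712) (nat_lit 152) (nat_lit 3906430074) (nat_lit 228) (nat_lit 25302582342) (nat_lit 38) (nat_lit 5) (nat_lit 40) (nat_lit 5) (nat_lit 41) (nat_lit 5) (nat_lit 361) (nat_lit 319) (nat_lit 220)) (XT.nd (nat_lit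 78) (nat_lit 152) (nat_lit 0) (XT.lf (nat_lit 0) (nat_lit 17493757849) (nat_lit 228) (nat_lit 11530617047) (nat_lit 76) (nat_lit 7216249304) (nat_lit 38) (nat_lit 5) (nat_lit 41) (nat_lit 5) (nat_lit 39) (nat_lit 5) (nat_lit 362) (nat_lit 319) (nat_lit 219)) (XT.lf (nat_lit 0) (nat_lit 7183736954) (nat_lit 152) (nat_lit 18607756926) (nat_lit 228) (nat_lit 11687108999) (nat_lit 36) (nat_lit 5) (nat_lit 38) (nat_lit 5) (nat_lit 39) (nat_lit 5) (nat_lit 363) (nat_lit 319) (nat_lit 218))))) (XT.nd (nat_lit 234) (nat_lit 228) (nat_lit 0) (XT.nd (nat_lit 78) (nat_lit 152) (nat_lit 0) (XT.lf (nat_lit 0) (nat_lit 27220503217) (nat_lit 152) (nat_lit 7470742355) (nat_lit 228) (nat_lit 4077882351) (nat_lit 36) (nat_lit 5) (nat_lit 38) (nat_lit 5) (nat_lit 39) (nat_lit 5) (nat_lit 364) (nat_lit 319) (nat_lit 217)) (XT.nd (nat_lit 78) (nat_lit 0) (nat_lit 0) (XT.lf (nat_lit 0) (nat_lit 3977706663) (nat_lit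 152) (nat_lit 31856870328) (nat_lit 76) (nat_lit 4276996871) (nat_lit 34) (nat_lit 5) (nat_lit 36) (nat_lit 5) (nat_lit 35) (nat_lit 5) (nat_lit 365) (nat_lit 319) (nat_lit 216)) (XT.lf (nat_lit 0) (nat_lit 12612489554) (nat_lit 152) (nat_lit 12268081665) (nat_lit 76) (nat_lit 16621558797) (nat_lit 34) (nat_lit 5) (nat_lit 36) (nat_lit 5) (nat_lit 35) (nat_lit 5) (nat_lit 366) (nat_lit 319) (nat_lit 215)))) (XT.nd (nat_lit 78) (nat_lit 76) (nat_lit 0) (XT.lf (nat_lit 0) (nat_lit 8561470735) (nat_lit 152) (nat_lit 13243779906) (nat_lit 228) (nat_lit 21150654575) (nat_lit 32) (nat_lit 5) (nat_lit 34) (nat_lit 5) (nat_lit 35) (nat_lit 5) (nat_lit 367) (nat_lit 319) (nat_lit 214)) (XT.nd (nat_lit 78) (nat_lit 76) (nat_lit 0) (XT.lf (nat_lit 0) (nat_lit 30845929403) (nat_lit 152) (nat_lit 812215537) (nat_lit 228) (nat_lit 12814202513) (nat_lit 32) (nat_lit 5) (nat_lit 34) (nat_lit 5) (nat_lit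 35) (nat_lit 5) (nat_lit 368) (nat_lit 319) (nat_lit 213)) (XT.lf (nat_lit 0) (nat_lit 8240462171) (nat_lit 76) (nat_lit 34075991525) (nat_lit 152) (nat_lit 3732522512) (nat_lit 31) (nat_lit 5) (nat_lit 32) (nat_lit 5) (nat_lit 33) (nat_lit 4) (nat_lit 369) (nat_lit 319) (nat_lit 212)))))) (XT.nd (nat_lit 468) (nat_lit 380) (nat_lit 0) (XT.nd (nat_lit 234) (nat_lit 152) (nat_lit 0) (XT.nd (nat_lit 78) (nat_lit 152) (nat_lit 0) (XT.lf (nat_lit 0) (nat_lit 5858398949) (nat_lit 152) (nat_lit 16139040968) (nat_lit 76) (nat_lit 25690423990) (nat_lit 30) (nat_lit 5) (nat_lit 32) (nat_lit 5) (nat_lit 31) (nat_lit 5) (nat_lit 370) (nat_lit 319) (nat_lit 211)) (XT.nd (nat_lit 78) (nat_lit 0) (nat_lit 0) (XT.lf (nat_lit 0) (nat_lit 6757371175) (nat_lit 152) (nat_lit 9144920840) (nat_lit 228) (nat_lit 33498403893) (nat_lit 28) (nat_lit 5) (nat_lit 30) (nat_lit 5) (nat_lit 31) (nat_lit 5) (nat_lit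 371) (nat_lit 319) (nat_lit 210)) (XT.lf (nat_lit 0) (nat_lit 26787523877) (nat_lit 228) (nat_lit 19910674956) (nat_lit 76) (nat_lit 4484015847) (nat_lit 28) (nat_lit 5) (nat_lit 31) (nat_lit 5) (nat_lit 29) (nat_lit 4) (nat_lit 372) (nat_lit 319) (nat_lit 209)))) (XT.nd (nat_lit 78) (nat_lit 76) (nat_lit 0) (XT.lf (nat_lit 0) (nat_lit 3923124910) (nat_lit 76) (nat_lit 34498795167) (nat_lit 152) (nat_lit 14620646443) (nat_lit 27) (nat_lit 5) (nat_lit 28) (nat_lit 5) (nat_lit 29) (nat_lit 4) (nat_lit 373) (nat_lit 319) (nat_lit 208)) (XT.nd (nat_lit 78) (nat_lit 76) (nat_lit 0) (XT.lf (nat_lit 0) (nat_lit 29628917804) (nat_lit 76) (nat_lit 21340177595) (nat_lit 152) (nat_lit 4010289745) (nat_lit 27) (nat_lit 5) (nat_lit 28) (nat_lit 5) (nat_lit 29) (nat_lit 4) (nat_lit 374) (nat_lit 319) (nat_lit 207)) (XT.lf (nat_lit 0) (nat_lit 6896418393) (nat_lit 152) (nat_lit 515000417) (nat_lit 76)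 (nat_lit 49596358584) (nat_lit 26) (nat_lit 5) (nat_lit 28) (nat_lit 5) (nat_lit 27) (nat_lit 5) (nat_lit 375) (nat_lit 319) (nat_lit 206))))) (XT.nd (nat_lit 234) (nat_lit 152) (nat_lit 0) (XT.nd (nat_lit 78) (nat_lit 76) (nat_lit 0) (XT.lf (nat_lit 0) (nat_lit 18739474582) (nat_lit 228) (nat_lit 32905337206) (nat_lit 76) (nat_lit 7463202976) (nat_lit 24) (nat_lit 5) (nat_lit 27) (nat_lit 5) (nat_lit 25) (nat_lit 4) (nat_lit 376) (nat_lit 319) (nat_lit 205)) (XT.nd (nat_lit 78) (nat_lit 76) (nat_lit 0) (XT.lf (nat_lit 0) (nat_lit 31299432034) (nat_lit 228) (nat_lit 7170518987) (nat_lit 76) (nat_lit 22837077333) (nat_lit 24) (nat_lit 5) (nat_lit 27) (nat_lit 5) (nat_lit 25) (nat_lit 4) (nat_lit 377) (nat_lit 319) (nat_lit 204)) (XT.lf (nat_lit 0) (nat_lit 20497400675) (nat_lit 76) (nat_lit 24304660955) (nat_lit 152) (nat_lit 18798198973) (nat_lit 23) (nat_lit 5) (nat_lit 24) (nat_lit 5)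 (nat_lit 25) (nat_lit 4) (nat_lit 378) (nat_lit 319) (nat_lit 203)))) (XT.nd (nat_lit 78) (nat_lit 152) (nat_lit 0) (XT.lf (nat_lit 0) (nat_lit 49788132452) (nat_lit 76) (nat_lit 9307884752) (nat_lit 152) (nat_lit 6906329144) (nat_lit 23) (nat_lit 5) (nat_lit 24) (nat_lit 5) (nat_lit 25) (nat_lit 4) (nat_lit 379) (nat_lit 319) (nat_lit 202)) (XT.nd (nat_lit 78) (nat_lit 0) (nat_lit 0) (XT.lf (nat_lit 0) (nat_lit 5693800181) (nat_lit 152) (nat_lit 56299151903) (nat_lit 76) (nat_lit 6512616423) (nat_lit 21) (nat_lit 5) (nat_lit 23) (nat_lit 5) (nat_lit 22) (nat_lit 4) (nat_lit 380) (nat_lit 319) (nat_lit 201)) (XT.lf (nat_lit 0) (nat_lit 19118483388) (nat_lit 152) (nat_lit 28788811259) (nat_lit 76) (nat_lit 23199665325) (nat_lit 21) (nat_lit 5) (nat_lit 23) (nat_lit 5) (nat_lit 22) (nat_lit 4) (nat_lit 381) (nat_lit 319) (nat_lit 200))))))))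
noncomputable def xc152 : XT := (XT.nd (nat_lit 1794) (nat_lit 456) (nat_lit 0) (XT.nd (nat_lit 858) (nat_lit 380) (nat_lit 0) (XT.nd (nat_lit 390) (nat_lit 228) (nat_lit 0) (XT.nd (nat_lit 156) (nat_lit 152) (nat_lit 0) (XT.nd (nat_lit 78) (nat_lit 0) (nat_lit 0) (XT.lf (nat_lit 0) (nat_lit 91124458) (nat_lit 76) (nat_lit 33119898968) (nat_lit 152) (nat_lit 40627567776) (nat_lit 20) (nat_lit 5) (nat_lit 21) (nat_lit 5) (nat_lit 22) (nat_lit 4) (nat_lit 382) (nat_lit 319) (nat_lit 199)) (XT.lf (nat_lit 0) (nat_lit 31405843528) (nat_lit 76) (nat_lit 17085192156) (nat_lit 152) (nat_lit 28191627310) (nat_lit 20) (nat_lit 5) (nat_lit 21) (nat_lit 5) (nat_lit 22) (nat_lit 4) (nat_lit 383) (nat_lit 319) (nat_lit 198))) (XT.nd (nat_lit 78) (nat_lit 152) (nat_lit 0) (XT.lf (nat_lit 0) (nat_lit 64278016691) (nat_lit 76) (nat_lit 252548786) (nat_lit 152) (nat_lit 15138598254) (nat_lit 20) (nat_lit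 5) (nat_lit 21) (nat_lit 5) (nat_lit 22) (nat_lit 4) (nat_lit 384) (nat_lit 319) (nat_lit 197)) (XT.nd (nat_lit 78) (nat_lit 76) (nat_lit 0) (XT.lf (nat_lit 0) (nat_lit 16228163997) (nat_lit 76) (nat_lit 65664950777) (nat_lit 76) (nat_lit 885823723) (nat_lit 19) (nat_lit 4) (nat_lit 20) (nat_lit 5) (nat_lit 20) (nat_lit 4) (nat_lit 385) (nat_lit 319) (nat_lit 196)) (XT.lf (nat_lit 0) (nat_lit 13893710172) (nat_lit 152) (nat_lit 36304677317) (nat_lit 76) (nat_lit 35821586688) (nat_lit 18) (nat_lit 5) (nat_lit 20) (nat_lit 5) (nat_lit 19) (nat_lit 4) (nat_lit 386) (nat_lit 319) (nat_lit 195))))) (XT.nd (nat_lit 234) (nat_lit 152) (nat_lit 0) (XT.nd (nat_lit 78) (nat_lit 76) (nat_lit 0) (XT.lf (nat_lit 0) (nat_lit 29378342428) (nat_lit 152) (nat_lit 4568472731) (nat_lit 76) (nat_lit 55475726827) (nat_lit 18) (nat_lit 5) (nat_lit 20) (nat_lit 5) (nat_lit 19) (nat_lit 4) (nat_lit 387) (nat_lit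 319) (nat_lit 194)) (XT.nd (nat_lit 78) (nat_lit 0) (nat_lit 0) (XT.lf (nat_lit 0) (nat_lit 29697745148) (nat_lit 76) (nat_lit 16399212989) (nat_lit 152) (nat_lit 46875293398) (nat_lit 17) (nat_lit 5) (nat_lit 18) (nat_lit 5) (nat_lit 19) (nat_lit 4) (nat_lit 388) (nat_lit 319) (nat_lit 193)) (XT.lf (nat_lit 0) (nat_lit 63757878722) (nat_lit 152) (nat_lit 30899926242) (nat_lit 0) (nat_lit 2036323791) (nat_lit 17) (nat_lit 5) (nat_lit 19) (nat_lit 4) (nat_lit 17) (nat_lit 4) (nat_lit 389) (nat_lit 319) (nat_lit 192)))) (XT.nd (nat_lit 78) (nat_lit 76) (nat_lit 0) (XT.lf (nat_lit 0) (nat_lit 2910720946) (nat_lit 76) (nat_lit 79701702274) (nat_lit 76) (nat_lit 17974148575) (nat_lit 16) (nat_lit 4) (nat_lit 17) (nat_lit 5) (nat_lit 17) (nat_lit 4) (nat_lit 390) (nat_lit 319) (nat_lit 191)) (XT.nd (nat_lit 78) (nat_lit 76) (nat_lit 0) (XT.lf (nat_lit 0) (nat_lit 39477805142) (nat_lit 76) (nat_lit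 63451558029) (nat_lit 76) (nat_lit 1718291218) (nat_lit 16) (nat_lit 4) (nat_lit 17) (nat_lit 5) (nat_lit 17) (nat_lit 4) (nat_lit 391) (nat_lit 319) (nat_lit 190)) (XT.lf (nat_lit 0) (nat_lit 14855530336) (nat_lit 152) (nat_lit 31284870681) (nat_lit 76) (nat_lit 62759583793) (nat_lit 15) (nat_lit 5) (nat_lit 17) (nat_lit 5) (nat_lit 16) (nat_lit 4) (nat_lit 392) (nat_lit 319) (nat_lit 189)))))) (XT.nd (nat_lit 468) (nat_lit 228) (nat_lit 0) (XT.nd (nat_lit 234) (nat_lit 76) (nat_lit 0) (XT.nd (nat_lit 78) (nat_lit 0) (nat_lit 0) (XT.lf (nat_lit 0) (nat_lit 4400693992) (nat_lit 76) (nat_lit 27864956653) (nat_lit 152) (nat_lit 81094605698) (nat_lit 14) (nat_lit 5) (nat_lit 15) (nat_lit 5) (nat_lit 16) (nat_lit 4) (nat_lit 393) (nat_lit 319) (nat_lit 188)) (XT.nd (nat_lit 78) (nat_lit 0) (nat_lit 0) (XT.lf (nat_lit 0) (nat_lit 42950435482) (nat_lit 76) (nat_lit 8122374525) (nat_lit 152) (nat_lit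 66944405462) (nat_lit 14) (nat_lit 5) (nat_lit 15) (nat_lit 5) (nat_lit 16) (nat_lit 4) (nat_lit 394) (nat_lit 319) (nat_lit 187)) (XT.lf (nat_lit 0) (nat_lit 71013984676) (nat_lit 152) (nat_lit 39682252138) (nat_lit 0) (nat_lit 12201103509) (nat_lit 14) (nat_lit 5) (nat_lit 16) (nat_lit 4) (nat_lit 14) (nat_lit 4) (nat_lit 395) (nat_lit 319) (nat_lit 186)))) (XT.nd (nat_lit 78) (nat_lit 76) (nat_lit 0) (XT.lf (nat_lit 0) (nat_lit 92082344597) (nat_lit 152) (nat_lit 2667420885) (nat_lit 0) (nat_lit 33265200217) (nat_lit 14) (nat_lit 5) (nat_lit 16) (nat_lit 4) (nat_lit 14) (nat_lit 4) (nat_lit 396) (nat_lit 319) (nat_lit 185)) (XT.nd (nat_lit 78) (nat_lit 0) (nat_lit 0) (XT.lf (nat_lit 0) (nat_lit 37389350052) (nat_lit 76) (nat_lit 77395641989) (nat_lit 76) (nat_lit 18574437407) (nat_lit 13) (nat_lit 4) (nat_lit 14) (nat_lit 5) (nat_lit 14) (nat_lit 4) (nat_lit 397) (nat_lit 319) (nat_lit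 184)) (XT.lf (nat_lit 0) (nat_lit 79536160409) (nat_lit 76) (nat_lit 59128955384) (nat_lit 76) (nat_lit 303883942) (nat_lit 13) (nat_lit 4) (nat_lit 14) (nat_lit 5) (nat_lit 14) (nat_lit 4) (nat_lit 398) (nat_lit 319) (nat_lit 183))))) (XT.nd (nat_lit 234) (nat_lit 76) (nat_lit 0) (XT.nd (nat_lit 78) (nat_lit 76) (nat_lit 0) (XT.lf (nat_lit 0) (nat_lit 18273172922) (nat_lit 152) (nat_lit 21368749673) (nat_lit 76) (nat_lit 105202524806) (nat_lit 12) (nat_lit 5) (nat_lit 14) (nat_lit 5) (nat_lit 13) (nat_lit 4) (nat_lit 399) (nat_lit 319) (nat_lit 182)) (XT.nd (nat_lit 78) (nat_lit 0) (nat_lit 0) (XT.lf (nat_lit 0) (nat_lit 19203194795) (nat_lit 76) (nat_lit 18862881456) (nat_lit 152) (nat_lit 112932482284) (nat_lit 11) (nat_lit 5) (nat_lit 12) (nat_lit 5) (nat_lit 13) (nat_lit 4) (nat_lit 400) (nat_lit 319) (nat_lit 181)) (XT.lf (nat_lit 0) (nat_lit 59259986448) (nat_lit 152) (nat_lit 94953741229)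 (nat_lit 0) (nat_lit 3226079915) (nat_lit 11) (nat_lit 5) (nat_lit 13) (nat_lit 4) (nat_lit 11) (nat_lit 4) (nat_lit 401) (nat_lit 319) (nat_lit 180)))) (XT.nd (nat_lit 78) (nat_lit 76) (nat_lit 0) (XT.lf (nat_lit 0) (nat_lit 81820344847) (nat_lit 152) (nat_lit 56584028524) (nat_lit 0) (nat_lit 25783408529) (nat_lit 11) (nat_lit 5) (nat_lit 13) (nat_lit 4) (nat_lit 11) (nat_lit 4) (nat_lit 402) (nat_lit 319) (nat_lit 179)) (XT.nd (nat_lit 78) (nat_lit 76) (nat_lit 0) (XT.lf (nat_lit 0) (nat_lit 105506364145) (nat_lit 152) (nat_lit 16300366722) (nat_lit 0) (nat_lit 49466542317) (nat_lit 11) (nat_lit 5) (nat_lit 13) (nat_lit 4) (nat_lit 11) (nat_lit 4) (nat_lit 403) (nat_lit 319) (nat_lit 178)) (XT.lf (nat_lit 0) (nat_lit 26852608837) (nat_lit 76) (nat_lit 103941075268) (nat_lit 76) (nat_lit 47898505335) (nat_lit 10) (nat_lit 4) (nat_lit 11) (nat_lit 5) (nat_lit 11) (nat_lit 4) (nat_lit 404)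 (nat_lit 319) (nat_lit 177))))))) (XT.nd (nat_lit 936) (nat_lit 228) (nat_lit 0) (XT.nd (nat_lit 468) (nat_lit 76) (nat_lit 0) (XT.nd (nat_lit 234) (nat_lit 76) (nat_lit 0) (XT.nd (nat_lit 78) (nat_lit 76) (nat_lit 0) (XT.lf (nat_lit 0) (nat_lit 72724894272) (nat_lit 76) (nat_lit 84894326133) (nat_lit 76) (nat_lit 28849138958) (nat_lit 10) (nat_lit 4) (nat_lit 11) (nat_lit 5) (nat_lit 11) (nat_lit 4) (nat_lit 405) (nat_lit 319) (nat_lit 176)) (XT.nd (nat_lit 78) (nat_lit 76) (nat_lit 0) (XT.lf (nat_lit 0) (nat_lit 120886745572) (nat_lit 76) (nat_lit 64897188658) (nat_lit 76) (nat_lit 8849508871) (nat_lit 10) (nat_lit 4) (nat_lit 11) (nat_lit 5) (nat_lit 11) (nat_lit 4) (nat_lit 406) (nat_lit 319) (nat_lit 175)) (XT.lf (nat_lit 0) (nat_lit 11759191126) (nat_lit 152) (nat_lit 31943711894) (nat_lit 76) (nat_lit 159494495093) (nat_lit 9) (nat_lit 5) (nat_lit 11) (nat_lit 5) (nat_lit 10) (nat_lit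 4) (nat_lit 407) (nat_lit 319) (nat_lit 174)))) (XT.nd (nat_lit 78) (nat_lit 0) (nat_lit 0) (XT.lf (nat_lit 0) (nat_lit 12190794326) (nat_lit 76) (nat_lit 21098527089) (nat_lit 152) (nat_lit 178883556229) (nat_lit 8) (nat_lit 5) (nat_lit 9) (nat_lit 5) (nat_lit 10) (nat_lit 4) (nat_lit 408) (nat_lit 319) (nat_lit 173)) (XT.nd (nat_lit 78) (nat_lit 0) (nat_lit 0) (XT.lf (nat_lit 0) (nat_lit 56485036821) (nat_lit 152) (nat_lit 161982811290) (nat_lit 0) (nat_lit 3099829404) (nat_lit 8) (nat_lit 5) (nat_lit 10) (nat_lit 4) (nat_lit 8) (nat_lit 4) (nat_lit 409) (nat_lit 319) (nat_lit 172)) (XT.lf (nat_lit 0) (nat_lit 81184578746) (nat_lit 152) (nat_lit 122433018571) (nat_lit 0) (nat_lit 27797418302) (nat_lit 8) (nat_lit 5) (nat_lit 10) (nat_lit 4) (nat_lit 8) (nat_lit 4) (nat_lit 410) (nat_lit 319) (nat_lit 171))))) (XT.nd (nat_lit 234) (nat_lit 0) (nat_lit 0) (XT.nd (nat_lit 78) (nat_lit 76)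 (nat_lit 0) (XT.lf (nat_lit 0) (nat_lit 107117348488) (nat_lit 152) (nat_lit 80909131851) (nat_lit 0) (nat_lit 53728328018) (nat_lit 8) (nat_lit 5) (nat_lit 10) (nat_lit 4) (nat_lit 8) (nat_lit 4) (nat_lit 411) (nat_lit 319) (nat_lit 170)) (XT.nd (nat_lit 78) (nat_lit 76) (nat_lit 0) (XT.lf (nat_lit 0) (nat_lit 134345090736) (nat_lit 152) (nat_lit 37312284733) (nat_lit 0) (nat_lit 80954298814) (nat_lit 8) (nat_lit 5) (nat_lit 10) (nat_lit 4) (nat_lit 8) (nat_lit 4) (nat_lit 412) (nat_lit 319) (nat_lit 169)) (XT.lf (nat_lit 0) (nat_lit 8741094407) (nat_lit 76) (nat_lit 154328012021) (nat_lit 76) (nat_lit 100935533001) (nat_lit 7) (nat_lit 4) (nat_lit 8) (nat_lit 5) (nat_lit 8) (nat_lit 4) (nat_lit 413) (nat_lit 319) (nat_lit 168)))) (XT.nd (nat_lit 78) (nat_lit 0) (nat_lit 0) (XT.lf (nat_lit 0) (nat_lit 58389510514) (nat_lit 76) (nat_lit 135470155584) (nat_lit 76) (nat_lit 82076069804) (nat_lit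 7) (nat_lit 4) (nat_lit 8) (nat_lit 5) (nat_lit 8) (nat_lit 4) (nat_lit 414) (nat_lit 319) (nat_lit 167)) (XT.nd (nat_lit 78) (nat_lit 0) (nat_lit 0) (XT.lf (nat_lit 0) (nat_lit 110517461459) (nat_lit 76) (nat_lit 115670808098) (nat_lit 76) (nat_lit 62275192069) (nat_lit 7) (nat_lit 4) (nat_lit 8) (nat_lit 5) (nat_lit 8) (nat_lit 4) (nat_lit 415) (nat_lit 319) (nat_lit 166)) (XT.lf (nat_lit 0) (nat_lit 165249061412) (nat_lit 76) (nat_lit 94882828257) (nat_lit 76) (nat_lit 41485754851) (nat_lit 7) (nat_lit 4) (nat_lit 8) (nat_lit 5) (nat_lit 8) (nat_lit 4) (nat_lit 416) (nat_lit 319) (nat_lit 165)))))) (XT.nd (nat_lit 468) (nat_lit 76) (nat_lit 0) (XT.nd (nat_lit 234) (nat_lit 0) (nat_lit 0) (XT.nd (nat_lit 78) (nat_lit 152) (nat_lit 0) (XT.lf (nat_lit 0) (nat_lit 222714623705) (nat_lit 76) (nat_lit 73056720873) (nat_lit 76) (nat_lit 19658259487) (nat_lit 7) (nat_lit 4) (nat_lit 8) (nat_lit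 5) (nat_lit 8) (nat_lit 4) (nat_lit 417) (nat_lit 319) (nat_lit 164)) (XT.nd (nat_lit 78) (nat_lit 76) (nat_lit 0) (XT.lf (nat_lit 0) (nat_lit 3154947437) (nat_lit 152) (nat_lit 46932141025) (nat_lit 76) (nat_lit 279842593108) (nat_lit 6) (nat_lit 5) (nat_lit 8) (nat_lit 5) (nat_lit 7) (nat_lit 4) (nat_lit 418) (nat_lit 319) (nat_lit 163)) (XT.lf (nat_lit 0) (nat_lit 842111036) (nat_lit 76) (nat_lit 25617963718) (nat_lit 152) (nat_lit 318677979716) (nat_lit 5) (nat_lit 5) (nat_lit 6) (nat_lit 5) (nat_lit 7) (nat_lit 4) (nat_lit 419) (nat_lit 319) (nat_lit 162)))) (XT.nd (nat_lit 78) (nat_lit 0) (nat_lit 0) (XT.lf (nat_lit 0) (nat_lit 51738234443) (nat_lit 152) (nat_lit 308449265822) (nat_lit 0) (nat_lit 878957110) (nat_lit 5) (nat_lit 5) (nat_lit 7) (nat_lit 4) (nat_lit 5) (nat_lit 4) (nat_lit 420) (nat_lit 319) (nat_lit 161)) (XT.nd (nat_lit 78) (nat_lit 0) (nat_lit 0) (XT.lf (nat_lit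 0) (nat_lit 78699090346) (nat_lit 152) (nat_lit 271232525329) (nat_lit 0) (nat_lit 27838725495) (nat_lit 5) (nat_lit 5) (nat_lit 7) (nat_lit 4) (nat_lit 5) (nat_lit 4) (nat_lit 421) (nat_lit 319) (nat_lit 160)) (XT.lf (nat_lit 0) (nat_lit 107006866770) (nat_lit 152) (nat_lit 232157142459) (nat_lit 0) (nat_lit 56145466187) (nat_lit 5) (nat_lit 5) (nat_lit 7) (nat_lit 4) (nat_lit 5) (nat_lit 4) (nat_lit 422) (nat_lit 319) (nat_lit 159))))) (XT.nd (nat_lit 234) (nat_lit 76) (nat_lit 0) (XT.nd (nat_lit 78) (nat_lit 0) (nat_lit 0) (XT.lf (nat_lit 0) (nat_lit 136728963182) (nat_lit 152) (nat_lit 191130080587) (nat_lit 0) (nat_lit 85866576188) (nat_lit 5) (nat_lit 5) (nat_lit 7) (nat_lit 4) (nat_lit 5) (nat_lit 4) (nat_lit 423) (nat_lit 319) (nat_lit 158)) (XT.nd (nat_lit 78) (nat_lit 0) (nat_lit 0) (XT.lf (nat_lit 0) (nat_lit 167936146478) (nat_lit 152) (nat_lit 148053656233) (nat_lit 0) (nat_lit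 117072820045) (nat_lit 5) (nat_lit 5) (nat_lit 7) (nat_lit 4) (nat_lit 5) (nat_lit 4) (nat_lit 424) (nat_lit 319) (nat_lit 157)) (XT.lf (nat_lit 0) (nat_lit 200702719476) (nat_lit 152) (nat_lit 102825306480) (nat_lit 0) (nat_lit 149838498338) (nat_lit 5) (nat_lit 5) (nat_lit 7) (nat_lit 4) (nat_lit 5) (nat_lit 4) (nat_lit 425) (nat_lit 319) (nat_lit 156)))) (XT.nd (nat_lit 78) (nat_lit 76) (nat_lit 0) (XT.lf (nat_lit 0) (nat_lit 235106697825) (nat_lit 152) (nat_lit 55337344782) (nat_lit 0) (nat_lit 184241624589) (nat_lit 5) (nat_lit 5) (nat_lit 7) (nat_lit 4) (nat_lit 5) (nat_lit 4) (nat_lit 426) (nat_lit 319) (nat_lit 155)) (XT.nd (nat_lit 78) (nat_lit 76) (nat_lit 0) (XT.lf (nat_lit 0) (nat_lit 271229995760) (nat_lit 152) (nat_lit 5476704563) (nat_lit 0) (nat_lit 220364111001) (nat_lit 5) (nat_lit 5) (nat_lit 7) (nat_lit 4) (nat_lit 5) (nat_lit 4) (nat_lit 427) (nat_lit 319) (nat_lit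 154)) (XT.lf (nat_lit 0) (nat_lit 48425240090) (nat_lit 76) (nat_lit 261489434753) (nat_lit 76) (nat_lit 210622777114) (nat_lit 4) (nat_lit 4) (nat_lit 5) (nat_lit 5) (nat_lit 5) (nat_lit 4) (nat_lit 428) (nat_lit 319) (nat_lit 153))))))))
noncomputable def xc153 : XT := (XT.nd (nat_lit 39858) (nat_lit 0) (nat_lit 2584) (XT.nd (nat_lit 38922) (nat_lit 0) (nat_lit 5776) (XT.nd (nat_lit 38454) (nat_lit 0) (nat_lit 8132) (XT.nd (nat_lit 156) (nat_lit 0) (nat_lit 0) (XT.nd (nat_lit 78) (nat_lit 0) (nat_lit 0) (XT.lf (nat_lit 0) (nat_lit 105210809526) (nat_lit 76) (nat_lit 245414706259) (nat_lit 76) (nat_lit 194547312545) (nat_lit 4) (nat_lit 4) (nat_lit 5) (nat_lit 5) (nat_lit 5) (nat_lit 4) (nat_lit 429) (nat_lit 319) (nat_lit 152)) (XT.lf (nat_lit 0) (nat_lit 164834122894) (nat_lit 76) (nat_lit 228536992322) (nat_lit 76) (nat_lit 177668897584) (nat_lit 4) (nat_lit 4) (nat_lit 5) (nat_lit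 5) (nat_lit 5) (nat_lit 4) (nat_lit 430) (nat_lit 319) (nat_lit 151))) (XT.nd (nat_lit 78) (nat_lit 0) (nat_lit 0) (XT.lf (nat_lit 0) (nat_lit 227437140466) (nat_lit 76) (nat_lit 210816107908) (nat_lit 76) (nat_lit 159947345528) (nat_lit 4) (nat_lit 4) (nat_lit 5) (nat_lit 5) (nat_lit 5) (nat_lit 4) (nat_lit 431) (nat_lit 319) (nat_lit 150)) (XT.nd (nat_lit 38142) (nat_lit 0) (nat_lit 8132) (XT.lf (nat_lit 0) (nat_lit 293168917043) (nat_lit 76) (nat_lit 192209860435) (nat_lit 76) (nat_lit 141340462206) (nat_lit 4) (nat_lit 4) (nat_lit 5) (nat_lit 5) (nat_lit 5) (nat_lit 4) (nat_lit 432) (nat_lit 319) (nat_lit 149)) (XT.lf (nat_lit 0) (nat_lit 1177585109) (nat_lit 0) (nat_lit 1177585109) (nat_lit 684) (nat_lit 3238927241) (nat_lit 111) (nat_lit 5) (nat_lit 111) (nat_lit 3) (nat_lit 120) (nat_lit 3) (nat_lit 320) (nat_lit 320) (nat_lit 260))))) (XT.nd (nat_lit 234) (nat_lit 0) (nat_lit 76)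 (XT.nd (nat_lit 78) (nat_lit 0) (nat_lit 0) (XT.lf (nat_lit 0) (nat_lit 5399782026) (nat_lit 684) (nat_lit 3564737664) (nat_lit 760) (nat_lit 2474196221) (nat_lit 111) (nat_lit 5) (nat_lit 120) (nat_lit 3) (nat_lit 121) (nat_lit 5) (nat_lit 321) (nat_lit 320) (nat_lit 259)) (XT.nd (nat_lit 78) (nat_lit 0) (nat_lit 76) (XT.lf (nat_lit 76) (nat_lit 1972459070) (nat_lit 0) (nat_lit 4186866968) (nat_lit 760) (nat_lit 5540693787) (nat_lit 112) (nat_lit 5) (nat_lit 111) (nat_lit 5) (nat_lit 121) (nat_lit 5) (nat_lit 322) (nat_lit 320) (nat_lit 258)) (XT.lf (nat_lit 0) (nat_lit 6998916881) (nat_lit 684) (nat_lit 4095631688) (nat_lit 760) (nat_lit 877773446) (nat_lit 112) (nat_lit 5) (nat_lit 121) (nat_lit 5) (nat_lit 122) (nat_lit 5) (nat_lit 323) (nat_lit 320) (nat_lit 257)))) (XT.nd (nat_lit 78) (nat_lit 0) (nat_lit 0) (XT.lf (nat_lit 76) (nat_lit 1786833710) (nat_lit 0) (nat_lit 6159479573)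 (nat_lit 760) (nat_lit 4308669553) (nat_lit 113) (nat_lit 5) (nat_lit 112) (nat_lit 5) (nat_lit 122) (nat_lit 5) (nat_lit 324) (nat_lit 320) (nat_lit 256)) (XT.nd (nat_lit 78) (nat_lit 0) (nat_lit 76) (XT.lf (nat_lit 76) (nat_lit 8086317002) (nat_lit 0) (nat_lit 894576422) (nat_lit 760) (nat_lit 3568925738) (nat_lit 113) (nat_lit 5) (nat_lit 112) (nat_lit 5) (nat_lit 122) (nat_lit 5) (nat_lit 325) (nat_lit 320) (nat_lit 255)) (XT.lf (nat_lit 76) (nat_lit 1806897492) (nat_lit 0) (nat_lit 8332870729) (nat_lit 760) (nat_lit 2716032386) (nat_lit 114) (nat_lit 5) (nat_lit 113) (nat_lit 5) (nat_lit 123) (nat_lit 5) (nat_lit 326) (nat_lit 320) (nat_lit 254)))))) (XT.nd (nat_lit 468) (nat_lit 1140) (nat_lit 0) (XT.nd (nat_lit 234) (nat_lit 684) (nat_lit 0) (XT.nd (nat_lit 78) (nat_lit 684) (nat_lit 0) (XT.lf (nat_lit 76) (nat_lit 8510983216) (nat_lit 0) (nat_lit 2908661666) (nat_lit 760) (nat_lit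 1754313417) (nat_lit 114) (nat_lit 5) (nat_lit 113) (nat_lit 5) (nat_lit 123) (nat_lit 5) (nat_lit 327) (nat_lit 320) (nat_lit 253)) (XT.nd (nat_lit 78) (nat_lit 760) (nat_lit 0) (XT.lf (nat_lit 76) (nat_lit 2044029634) (nat_lit 0) (nat_lit 10769338460) (nat_lit 760) (nat_lit 692191791) (nat_lit 115) (nat_lit 5) (nat_lit 114) (nat_lit 5) (nat_lit 124) (nat_lit 5) (nat_lit 328) (nat_lit 320) (nat_lit 252)) (XT.lf (nat_lit 0) (nat_lit 512351665) (nat_lit 760) (nat_lit 4677766097) (nat_lit 836) (nat_lit 8658176756) (nat_lit 104) (nat_lit 5) (nat_lit 114) (nat_lit 5) (nat_lit 115) (nat_lit 5) (nat_lit 329) (nat_lit 320) (nat_lit 251)))) (XT.nd (nat_lit 78) (nat_lit 760) (nat_lit 0) (XT.lf (nat_lit 0) (nat_lit 1780221804) (nat_lit 760) (nat_lit 11724209162) (nat_lit 76) (nat_lit 701874210) (nat_lit 105) (nat_lit 5) (nat_lit 115) (nat_lit 5) (nat_lit 106) (nat_lit 5) (nat_lit 330) (nat_lit 320)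 (nat_lit 250)) (XT.nd (nat_lit 78) (nat_lit 760) (nat_lit 0) (XT.lf (nat_lit 0) (nat_lit 3254084769) (nat_lit 760) (nat_lit 4522881499) (nat_lit 76) (nat_lit 6798143700) (nat_lit 105) (nat_lit 5) (nat_lit 115) (nat_lit 5) (nat_lit 106) (nat_lit 5) (nat_lit 331) (nat_lit 320) (nat_lit 249)) (XT.lf (nat_lit 0) (nat_lit 3118715428) (nat_lit 760) (nat_lit 1709709244) (nat_lit 836) (nat_lit 10132613585) (nat_lit 95) (nat_lit 5) (nat_lit 105) (nat_lit 5) (nat_lit 106) (nat_lit 5) (nat_lit 332) (nat_lit 320) (nat_lit 248))))) (XT.nd (nat_lit 234) (nat_lit 760) (nat_lit 0) (XT.nd (nat_lit 78) (nat_lit 380) (nat_lit 0) (XT.lf (nat_lit 0) (nat_lit 6610967307) (nat_lit 836) (nat_lit 4157450180) (nat_lit 76) (nat_lit 4591392563) (nat_lit 95) (nat_lit 5) (nat_lit 106) (nat_lit 5) (nat_lit 96) (nat_lit 5) (nat_lit 333) (nat_lit 320) (nat_lit 247)) (XT.nd (nat_lit 78) (nat_lit 0) (nat_lit 0) (XT.lf (nat_lit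 0) (nat_lit 3991969910) (nat_lit 380) (nat_lit 4560890526) (nat_lit 456) (nat_lit 7222169187) (nat_lit 90) (nat_lit 5) (nat_lit 95) (nat_lit 5) (nat_lit 96) (nat_lit 5) (nat_lit 334) (nat_lit 320) (nat_lit 246)) (XT.lf (nat_lit 0) (nat_lit 10674500317) (nat_lit 456) (nat_lit 3566121151) (nat_lit 76) (nat_lit 1966275492) (nat_lit 90) (nat_lit 5) (nat_lit 96) (nat_lit 5) (nat_lit 91) (nat_lit 5) (nat_lit 335) (nat_lit 320) (nat_lit 245)))) (XT.nd (nat_lit 78) (nat_lit 456) (nat_lit 0) (XT.lf (nat_lit 0) (nat_lit 5131988469) (nat_lit 304) (nat_lit 7906589020) (nat_lit 380) (nat_lit 3614980876) (nat_lit 86) (nat_lit 5) (nat_lit 90) (nat_lit 5) (nat_lit 91) (nat_lit 5) (nat_lit 336) (nat_lit 320) (nat_lit 244)) (XT.nd (nat_lit 78) (nat_lit 456) (nat_lit 0) (XT.lf (nat_lit 0) (nat_lit 14369957472) (nat_lit 304) (nat_lit 1193345323) (nat_lit 380) (nat_lit 1557145420) (nat_lit 86) (nat_lit 5) (nat_lit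 90) (nat_lit 5) (nat_lit 91) (nat_lit 5) (nat_lit 337) (nat_lit 320) (nat_lit 243)) (XT.lf (nat_lit 0) (nat_lit 763859197) (nat_lit 456) (nat_lit 11055353711) (nat_lit 76) (nat_lit 5782034630) (nat_lit 80) (nat_lit 5) (nat_lit 86) (nat_lit 5) (nat_lit 81) (nat_lit 5) (nat_lit 338) (nat_lit 320) (nat_lit 242))))))) (XT.nd (nat_lit 936) (nat_lit 1520) (nat_lit 0) (XT.nd (nat_lit 468) (nat_lit 836) (nat_lit 0) (XT.nd (nat_lit 234) (nat_lit 532) (nat_lit 0) (XT.nd (nat_lit 78) (nat_lit 304) (nat_lit 0) (XT.lf (nat_lit 0) (nat_lit 3198621287) (nat_lit 456) (nat_lit 1766106532) (nat_lit 76) (nat_lit 13137595976) (nat_lit 80) (nat_lit 5) (nat_lit 86) (nat_lit 5) (nat_lit 81) (nat_lit 5) (nat_lit 339) (nat_lit 320) (nat_lit 241)) (XT.nd (nat_lit 78) (nat_lit 0) (nat_lit 0) (XT.lf (nat_lit 0) (nat_lit 5904523544) (nat_lit 380) (nat_lit 10426840825) (nat_lit 76) (nat_lit 2289633862) (nat_lit 76)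 (nat_lit 5) (nat_lit 81) (nat_lit 5) (nat_lit 77) (nat_lit 5) (nat_lit 340) (nat_lit 320) (nat_lit 240)) (XT.lf (nat_lit 0) (nat_lit 8841893382) (nat_lit 380) (nat_lit 550879008) (nat_lit 76) (nat_lit 9768039154) (nat_lit 76) (nat_lit 5) (nat_lit 81) (nat_lit 5) (nat_lit 77) (nat_lit 5) (nat_lit 341) (nat_lit 320) (nat_lit 239)))) (XT.nd (nat_lit 78) (nat_lit 228) (nat_lit 0) (XT.lf (nat_lit 0) (nat_lit 10125199486) (nat_lit 304) (nat_lit 1944141913) (nat_lit 380) (nat_lit 7651126764) (nat_lit 72) (nat_lit 5) (nat_lit 76) (nat_lit 5) (nat_lit 77) (nat_lit 5) (nat_lit 342) (nat_lit 320) (nat_lit 238)) (XT.nd (nat_lit 78) (nat_lit 0) (nat_lit 0) (XT.lf (nat_lit 0) (nat_lit 967471191) (nat_lit 228) (nat_lit 14592548349) (nat_lit 304) (nat_lit 4743007685) (nat_lit 69) (nat_lit 5) (nat_lit 72) (nat_lit 5) (nat_lit 73) (nat_lit 5) (nat_lit 343) (nat_lit 320) (nat_lit 237)) (XT.lf (nat_lit 0)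 (nat_lit 12340690072) (nat_lit 228) (nat_lit 7064325331) (nat_lit 304) (nat_lit 1500721550) (nat_lit 69) (nat_lit 5) (nat_lit 72) (nat_lit 5) (nat_lit 73) (nat_lit 5) (nat_lit 344) (nat_lit 320) (nat_lit 236))))) (XT.nd (nat_lit 234) (nat_lit 228) (nat_lit 0) (XT.nd (nat_lit 78) (nat_lit 228) (nat_lit 0) (XT.lf (nat_lit 0) (nat_lit 1886871621) (nat_lit 380) (nat_lit 18763909776) (nat_lit 76) (nat_lit 884119362) (nat_lit 64) (nat_lit 5) (nat_lit 69) (nat_lit 5) (nat_lit 65) (nat_lit 5) (nat_lit 345) (nat_lit 320) (nat_lit 235)) (XT.nd (nat_lit 78) (nat_lit 228) (nat_lit 0) (XT.lf (nat_lit 0) (nat_lit 5643335217) (nat_lit 380) (nat_lit 7377668772) (nat_lit 76) (nat_lit 9160802706) (nat_lit 64) (nat_lit 5) (nat_lit 69) (nat_lit 5) (nat_lit 65) (nat_lit 5) (nat_lit 346) (nat_lit 320) (nat_lit 234)) (XT.lf (nat_lit 0) (nat_lit 4711736927) (nat_lit 228) (nat_lit 4936767633) (nat_lit 304) (nat_lit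 13209519034) (nat_lit 61) (nat_lit 5) (nat_lit 64) (nat_lit 5) (nat_lit 65) (nat_lit 5) (nat_lit 347) (nat_lit 320) (nat_lit 233)))) (XT.nd (nat_lit 78) (nat_lit 228) (nat_lit 0) (XT.lf (nat_lit 0) (nat_lit 14023971525) (nat_lit 304) (nat_lit 5974792513) (nat_lit 76) (nat_lit 3560794668) (nat_lit 61) (nat_lit 5) (nat_lit 65) (nat_lit 5) (nat_lit 62) (nat_lit 5) (nat_lit 348) (nat_lit 320) (nat_lit 232)) (XT.nd (nat_lit 78) (nat_lit 0) (nat_lit 0) (XT.lf (nat_lit 0) (nat_lit 6929723642) (nat_lit 228) (nat_lit 11865796753) (nat_lit 304) (nat_lit 5491793634) (nat_lit 58) (nat_lit 5) (nat_lit 61) (nat_lit 5) (nat_lit 62) (nat_lit 5) (nat_lit 349) (nat_lit 320) (nat_lit 231)) (XT.lf (nat_lit 0) (nat_lit 20670745168) (nat_lit 228) (nat_lit 3224583495) (nat_lit 304) (nat_lit 1151652816) (nat_lit 58) (nat_lit 5) (nat_lit 61) (nat_lit 5) (nat_lit 62) (nat_lit 5) (nat_lit 350) (nat_lit 320) (nat_lit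 230)))))) (XT.nd (nat_lit 468) (nat_lit 532) (nat_lit 0) (XT.nd (nat_lit 234) (nat_lit 456) (nat_lit 0) (XT.nd (nat_lit 78) (nat_lit 228) (nat_lit 0) (XT.lf (nat_lit 0) (nat_lit 3528046300) (nat_lit 304) (nat_lit 16440710433) (nat_lit 76) (nat_lit 5861647358) (nat_lit 54) (nat_lit 5) (nat_lit 58) (nat_lit 5) (nat_lit 55) (nat_lit 5) (nat_lit 351) (nat_lit 320) (nat_lit 229)) (XT.nd (nat_lit 78) (nat_lit 228) (nat_lit 0) (XT.lf (nat_lit 0) (nat_lit 8520290312) (nat_lit 304) (nat_lit 2742377575) (nat_lit 76) (nat_lit 15383530125) (nat_lit 54) (nat_lit 5) (nat_lit 58) (nat_lit 5) (nat_lit 55) (nat_lit 5) (nat_lit 352) (nat_lit 320) (nat_lit 228)) (XT.lf (nat_lit 0) (nat_lit 12010047458) (nat_lit 228) (nat_lit 1929202273) (nat_lit 304) (nat_lit 13554683698) (nat_lit 51) (nat_lit 5) (nat_lit 54) (nat_lit 5) (nat_lit 55) (nat_lit 5) (nat_lit 353) (nat_lit 320) (nat_lit 227)))) (XT.nd (nat_lit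 78) (nat_lit 456) (nat_lit 0) (XT.lf (nat_lit 0) (nat_lit 19789028435) (nat_lit 304) (nat_lit 925493273) (nat_lit 76) (nat_lit 7661546970) (nat_lit 51) (nat_lit 5) (nat_lit 55) (nat_lit 5) (nat_lit 52) (nat_lit 5) (nat_lit 354) (nat_lit 320) (nat_lit 226)) (XT.nd (nat_lit 78) (nat_lit 304) (nat_lit 0) (XT.lf (nat_lit 0) (nat_lit 14787815246) (nat_lit 152) (nat_lit 11396252119) (nat_lit 228) (nat_lit 3105611075) (nat_lit 49) (nat_lit 5) (nat_lit 51) (nat_lit 5) (nat_lit 52) (nat_lit 5) (nat_lit 355) (nat_lit 320) (nat_lit 225)) (XT.lf (nat_lit 0) (nat_lit 1047876400) (nat_lit 228) (nat_lit 1539833371) (nat_lit 304) (nat_lit 27658064371) (nat_lit 45) (nat_lit 5) (nat_lit 48) (nat_lit 5) (nat_lit 49) (nat_lit 5) (nat_lit 356) (nat_lit 320) (nat_lit 224))))) (XT.nd (nat_lit 234) (nat_lit 380) (nat_lit 0) (XT.nd (nat_lit 78) (nat_lit 152) (nat_lit 0) (XT.lf (nat_lit 0) (nat_lit 8838985170) (nat_lit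 304) (nat_lit 13566224292) (nat_lit 76) (nat_lit 8823042168) (nat_lit 45) (nat_lit 5) (nat_lit 49) (nat_lit 5) (nat_lit 46) (nat_lit 5) (nat_lit 357) (nat_lit 320) (nat_lit 223)) (XT.nd (nat_lit 78) (nat_lit 0) (nat_lit 0) (XT.lf (nat_lit 0) (nat_lit 2900404488) (nat_lit 152) (nat_lit 12563894701) (nat_lit 228) (nat_lit 16792485254) (nat_lit 43) (nat_lit 5) (nat_lit 45) (nat_lit 5) (nat_lit 46) (nat_lit 5) (nat_lit 358) (nat_lit 320) (nat_lit 222)) (XT.lf (nat_lit 0) (nat_lit 20647366446) (nat_lit 152) (nat_lit 1994423934) (nat_lit 228) (nat_lit 10683912889) (nat_lit 43) (nat_lit 5) (nat_lit 45) (nat_lit 5) (nat_lit 46) (nat_lit 5) (nat_lit 359) (nat_lit 320) (nat_lit 221)))) (XT.nd (nat_lit 78) (nat_lit 228) (nat_lit 0) (XT.lf (nat_lit 0) (nat_lit 4832476458) (nat_lit 152) (nat_lit 25554764903) (nat_lit 228) (nat_lit 4050377125) (nat_lit 41) (nat_lit 5) (nat_lit 43) (nat_lit 5) (nat_lit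 44) (nat_lit 5) (nat_lit 360) (nat_lit 320) (nat_lit 220)) (XT.nd (nat_lit 78) (nat_lit 152) (nat_lit 0) (XT.lf (nat_lit 0) (nat_lit 3064031009) (nat_lit 228) (nat_lit 12030857108) (nat_lit 76) (nat_lit 20495845757) (nat_lit 40) (nat_lit 5) (nat_lit 43) (nat_lit 5) (nat_lit 41) (nat_lit 5) (nat_lit 361) (nat_lit 320) (nat_lit 219)) (XT.lf (nat_lit 0) (nat_lit 6552380638) (nat_lit 152) (nat_lit 3939922018) (nat_lit 228) (nat_lit 26301173344) (nat_lit 38) (nat_lit 5) (nat_lit 40) (nat_lit 5) (nat_lit 41) (nat_lit 5) (nat_lit 362) (nat_lit 320) (nat_lit 218))))))))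
noncomputable def xc154 : XT := (XT.nd (nat_lit 1794) (nat_lit 912) (nat_lit 0) (XT.nd (nat_lit 858) (nat_lit 608) (nat_lit 0) (XT.nd (nat_lit 390) (nat_lit 456) (nat_lit 0) (XT.nd (nat_lit 156) (nat_lit 152) (nat_lit 0) (XT.nd (nat_lit 78) (nat_lit 152) (nat_lit 0) (XT.lf (nat_lit 0) (nat_lit 18612496449) (nat_lit 228) (nat_lit 11701584983) (nat_lit 76) (nat_lit 7726252249) (nat_lit 38) (nat_lit 5) (nat_lit 41) (nat_lit 5) (nat_lit 39) (nat_lit 5) (nat_lit 363) (nat_lit 320) (nat_lit 217)) (XT.lf (nat_lit 0) (nat_lit 7941945381) (nat_lit 152) (nat_lit 19377782284) (nat_lit 228) (nat_lit 12020758886) (nat_lit 36) (nat_lit 5) (nat_lit 38) (nat_lit 5) (nat_lit 39) (nat_lit 5) (nat_lit 364) (nat_lit 320) (nat_lit 216))) (XT.nd (nat_lit 78) (nat_lit 152) (nat_lit 0) (XT.lf (nat_lit 0) (nat_lit 28961548930) (nat_lit 152) (nat_lit 7691553294) (nat_lit 228) (nat_lit 4043009266) (nat_lit 36) (nat_lit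 5) (nat_lit 38) (nat_lit 5) (nat_lit 39) (nat_lit 5) (nat_lit 365) (nat_lit 320) (nat_lit 215)) (XT.nd (nat_lit 78) (nat_lit 0) (nat_lit 0) (XT.lf (nat_lit 0) (nat_lit 4405094443) (nat_lit 152) (nat_lit 33059227512) (nat_lit 76) (nat_lit 4641307417) (nat_lit 34) (nat_lit 5) (nat_lit 36) (nat_lit 5) (nat_lit 35) (nat_lit 5) (nat_lit 366) (nat_lit 320) (nat_lit 214)) (XT.lf (nat_lit 0) (nat_lit 13460735410) (nat_lit 152) (nat_lit 12509594003) (nat_lit 76) (nat_lit 17595932644) (nat_lit 34) (nat_lit 5) (nat_lit 36) (nat_lit 5) (nat_lit 35) (nat_lit 5) (nat_lit 367) (nat_lit 320) (nat_lit 213))))) (XT.nd (nat_lit 234) (nat_lit 228) (nat_lit 0) (XT.nd (nat_lit 78) (nat_lit 76) (nat_lit 0) (XT.lf (nat_lit 0) (nat_lit 9355437763) (nat_lit 152) (nat_lit 13753046488) (nat_lit 228) (nat_lit 21984478727) (nat_lit 32) (nat_lit 5) (nat_lit 34) (nat_lit 5) (nat_lit 35) (nat_lit 5) (nat_lit 368) (nat_lit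 320) (nat_lit 212)) (XT.nd (nat_lit 78) (nat_lit 76) (nat_lit 0) (XT.lf (nat_lit 0) (nat_lit 32736695865) (nat_lit 152) (nat_lit 707185921) (nat_lit 228) (nat_lit 13241856851) (nat_lit 32) (nat_lit 5) (nat_lit 34) (nat_lit 5) (nat_lit 35) (nat_lit 5) (nat_lit 369) (nat_lit 320) (nat_lit 211)) (XT.lf (nat_lit 0) (nat_lit 9003158857) (nat_lit 76) (nat_lit 35629929142) (nat_lit 152) (nat_lit 3708215762) (nat_lit 31) (nat_lit 5) (nat_lit 32) (nat_lit 5) (nat_lit 33) (nat_lit 4) (nat_lit 370) (nat_lit 320) (nat_lit 210)))) (XT.nd (nat_lit 78) (nat_lit 152) (nat_lit 0) (XT.lf (nat_lit 0) (nat_lit 6345777664) (nat_lit 152) (nat_lit 16605515321) (nat_lit 76) (nat_lit 27111168005) (nat_lit 30) (nat_lit 5) (nat_lit 32) (nat_lit 5) (nat_lit 31) (nat_lit 5) (nat_lit 371) (nat_lit 320) (nat_lit 209)) (XT.nd (nat_lit 78) (nat_lit 0) (nat_lit 0) (XT.lf (nat_lit 0) (nat_lit 7430225854) (nat_lit 152) (nat_lit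 9457609660) (nat_lit 228) (nat_lit 34973304055) (nat_lit 28) (nat_lit 5) (nat_lit 30) (nat_lit 5) (nat_lit 31) (nat_lit 5) (nat_lit 372) (nat_lit 320) (nat_lit 208)) (XT.lf (nat_lit 0) (nat_lit 28310410396) (nat_lit 228) (nat_lit 20580189360) (nat_lit 76) (nat_lit 4841483771) (nat_lit 28) (nat_lit 5) (nat_lit 31) (nat_lit 5) (nat_lit 29) (nat_lit 4) (nat_lit 373) (nat_lit 320) (nat_lit 207)))))) (XT.nd (nat_lit 468) (nat_lit 228) (nat_lit 0) (XT.nd (nat_lit 234) (nat_lit 228) (nat_lit 0) (XT.nd (nat_lit 78) (nat_lit 76) (nat_lit 0) (XT.lf (nat_lit 0) (nat_lit 4440042124) (nat_lit 76) (nat_lit 36082753673) (nat_lit 152) (nat_lit 15162846853) (nat_lit 27) (nat_lit 5) (nat_lit 28) (nat_lit 5) (nat_lit 29) (nat_lit 4) (nat_lit 374) (nat_lit 320) (nat_lit 206)) (XT.nd (nat_lit 78) (nat_lit 76) (nat_lit 0) (XT.lf (nat_lit 0) (nat_lit 31415850331) (nat_lit 76) (nat_lit 22272918616) (nat_lit 152)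 (nat_lit 4030964315) (nat_lit 27) (nat_lit 5) (nat_lit 28) (nat_lit 5) (nat_lit 29) (nat_lit 4) (nat_lit 375) (nat_lit 320) (nat_lit 205)) (XT.lf (nat_lit 0) (nat_lit 7407033519) (nat_lit 152) (nat_lit 244274275) (nat_lit 76) (nat_lit 52198514155) (nat_lit 26) (nat_lit 5) (nat_lit 28) (nat_lit 5) (nat_lit 27) (nat_lit 5) (nat_lit 376) (nat_lit 320) (nat_lit 204)))) (XT.nd (nat_lit 78) (nat_lit 76) (nat_lit 0) (XT.lf (nat_lit 0) (nat_lit 19840919533) (nat_lit 228) (nat_lit 34252752915) (nat_lit 76) (nat_lit 7961467489) (nat_lit 24) (nat_lit 5) (nat_lit 27) (nat_lit 5) (nat_lit 25) (nat_lit 4) (nat_lit 377) (nat_lit 320) (nat_lit 203)) (XT.nd (nat_lit 78) (nat_lit 76) (nat_lit 0) (XT.lf (nat_lit 0) (nat_lit 33021042895) (nat_lit 228) (nat_lit 7245377174) (nat_lit 76) (nat_lit 24098078213) (nat_lit 24) (nat_lit 5) (nat_lit 27) (nat_lit 5) (nat_lit 25) (nat_lit 4) (nat_lit 378) (nat_lit 320)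 (nat_lit 202)) (XT.lf (nat_lit 0) (nat_lit 21801363185) (nat_lit 76) (nat_lit 25394339188) (nat_lit 152) (nat_lit 19576847207) (nat_lit 23) (nat_lit 5) (nat_lit 24) (nat_lit 5) (nat_lit 25) (nat_lit 4) (nat_lit 379) (nat_lit 320) (nat_lit 201))))) (XT.nd (nat_lit 234) (nat_lit 76) (nat_lit 0) (XT.nd (nat_lit 78) (nat_lit 152) (nat_lit 0) (XT.lf (nat_lit 0) (nat_lit 52543341433) (nat_lit 76) (nat_lit 9653702976) (nat_lit 152) (nat_lit 7098063016) (nat_lit 23) (nat_lit 5) (nat_lit 24) (nat_lit 5) (nat_lit 25) (nat_lit 4) (nat_lit 380) (nat_lit 320) (nat_lit 200)) (XT.nd (nat_lit 78) (nat_lit 0) (nat_lit 0) (XT.lf (nat_lit 0) (nat_lit 6126120580) (nat_lit 152) (nat_lit 58842271415) (nat_lit 76) (nat_lit 6955032671) (nat_lit 21) (nat_lit 5) (nat_lit 23) (nat_lit 5) (nat_lit 22) (nat_lit 4) (nat_lit 381) (nat_lit 320) (nat_lit 199)) (XT.lf (nat_lit 0) (nat_lit 20215007928) (nat_lit 152) (nat_lit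 29969358410) (nat_lit 76) (nat_lit 24470872808) (nat_lit 21) (nat_lit 5) (nat_lit 23) (nat_lit 5) (nat_lit 22) (nat_lit 4) (nat_lit 382) (nat_lit 320) (nat_lit 198)))) (XT.nd (nat_lit 78) (nat_lit 0) (nat_lit 0) (XT.lf (nat_lit 0) (nat_lit 350398393) (nat_lit 76) (nat_lit 34659058177) (nat_lit 152) (nat_lit 42514133135) (nat_lit 20) (nat_lit 5) (nat_lit 21) (nat_lit 5) (nat_lit 22) (nat_lit 4) (nat_lit 383) (nat_lit 320) (nat_lit 197)) (XT.nd (nat_lit 78) (nat_lit 0) (nat_lit 0) (XT.lf (nat_lit 0) (nat_lit 33218724002) (nat_lit 76) (nat_lit 17828179631) (nat_lit 152) (nat_lit 29463291504) (nat_lit 20) (nat_lit 5) (nat_lit 21) (nat_lit 5) (nat_lit 22) (nat_lit 4) (nat_lit 384) (nat_lit 320) (nat_lit 196)) (XT.lf (nat_lit 0) (nat_lit 67722953999) (nat_lit 76) (nat_lit 159202765) (nat_lit 152) (nat_lit 15764178480) (nat_lit 20) (nat_lit 5) (nat_lit 21) (nat_lit 5) (nat_lit 22) (nat_lit 4)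 (nat_lit 385) (nat_lit 320) (nat_lit 195))))))) (XT.nd (nat_lit 936) (nat_lit 456) (nat_lit 0) (XT.nd (nat_lit 468) (nat_lit 152) (nat_lit 0) (XT.nd (nat_lit 234) (nat_lit 152) (nat_lit 0) (XT.nd (nat_lit 78) (nat_lit 76) (nat_lit 0) (XT.lf (nat_lit 0) (nat_lit 17271439694) (nat_lit 76) (nat_lit 68840634307) (nat_lit 76) (nat_lit 799564320) (nat_lit 19) (nat_lit 4) (nat_lit 20) (nat_lit 5) (nat_lit 20) (nat_lit 4) (nat_lit 386) (nat_lit 320) (nat_lit 194)) (XT.nd (nat_lit 78) (nat_lit 0) (nat_lit 0) (XT.lf (nat_lit 0) (nat_lit 14708750114) (nat_lit 152) (nat_lit 37895076576) (nat_lit 76) (nat_lit 37711099517) (nat_lit 18) (nat_lit 5) (nat_lit 20) (nat_lit 5) (nat_lit 19) (nat_lit 4) (nat_lit 387) (nat_lit 320) (nat_lit 193)) (XT.lf (nat_lit 0) (nat_lit 30961882820) (nat_lit 152) (nat_lit 4582768171) (nat_lit 76) (nat_lit 58343259353) (nat_lit 18) (nat_lit 5) (nat_lit 20) (nat_lit 5) (nat_lit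 19) (nat_lit 4) (nat_lit 388) (nat_lit 320) (nat_lit 192)))) (XT.nd (nat_lit 78) (nat_lit 76) (nat_lit 0) (XT.lf (nat_lit 0) (nat_lit 31393306922) (nat_lit 76) (nat_lit 17120953361) (nat_lit 152) (nat_lit 49100954853) (nat_lit 17) (nat_lit 5) (nat_lit 18) (nat_lit 5) (nat_lit 19) (nat_lit 4) (nat_lit 389) (nat_lit 320) (nat_lit 191)) (XT.nd (nat_lit 78) (nat_lit 76) (nat_lit 0) (XT.lf (nat_lit 0) (nat_lit 67054332403) (nat_lit 152) (nat_lit 32240360649) (nat_lit 0) (nat_lit 2228689139) (nat_lit 17) (nat_lit 5) (nat_lit 19) (nat_lit 4) (nat_lit 17) (nat_lit 4) (nat_lit 390) (nat_lit 320) (nat_lit 190)) (XT.lf (nat_lit 0) (nat_lit 3257519512) (nat_lit 76) (nat_lit 83592057374) (nat_lit 76) (nat_lit 18760973050) (nat_lit 16) (nat_lit 4) (nat_lit 17) (nat_lit 5) (nat_lit 17) (nat_lit 4) (nat_lit 391) (nat_lit 320) (nat_lit 189))))) (XT.nd (nat_lit 234) (nat_lit 0) (nat_lit 0) (XT.nd (nat_lit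 78) (nat_lit 152) (nat_lit 0) (XT.lf (nat_lit 0) (nat_lit 41643373989) (nat_lit 76) (nat_lit 66533916870) (nat_lit 76) (nat_lit 1697650584) (nat_lit 16) (nat_lit 4) (nat_lit 17) (nat_lit 5) (nat_lit 17) (nat_lit 4) (nat_lit 392) (nat_lit 320) (nat_lit 188)) (XT.nd (nat_lit 78) (nat_lit 76) (nat_lit 0) (XT.lf (nat_lit 0) (nat_lit 15696539960) (nat_lit 152) (nat_lit 32663294567) (nat_lit 76) (nat_lit 65980217288) (nat_lit 15) (nat_lit 5) (nat_lit 17) (nat_lit 5) (nat_lit 16) (nat_lit 4) (nat_lit 393) (nat_lit 320) (nat_lit 187)) (XT.lf (nat_lit 0) (nat_lit 4803551248) (nat_lit 76) (nat_lit 29171791642) (nat_lit 152) (nat_lit 85048086184) (nat_lit 14) (nat_lit 5) (nat_lit 15) (nat_lit 5) (nat_lit 16) (nat_lit 4) (nat_lit 394) (nat_lit 320) (nat_lit 186)))) (XT.nd (nat_lit 78) (nat_lit 0) (nat_lit 0) (XT.lf (nat_lit 0) (nat_lit 45272073977) (nat_lit 76) (nat_lit 8446195305) (nat_lit 152) (nat_lit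 70195197356) (nat_lit 14) (nat_lit 5) (nat_lit 15) (nat_lit 5) (nat_lit 16) (nat_lit 4) (nat_lit 395) (nat_lit 320) (nat_lit 185)) (XT.nd (nat_lit 78) (nat_lit 0) (nat_lit 0) (XT.lf (nat_lit 0) (nat_lit 74653354077) (nat_lit 152) (nat_lit 41497372913) (nat_lit 0) (nat_lit 12887029063) (nat_lit 14) (nat_lit 5) (nat_lit 16) (nat_lit 4) (nat_lit 14) (nat_lit 4) (nat_lit 396) (nat_lit 320) (nat_lit 184)) (XT.lf (nat_lit 0) (nat_lit 96770909605) (nat_lit 152) (nat_lit 2639847327) (nat_lit 0) (nat_lit 35000717732) (nat_lit 14) (nat_lit 5) (nat_lit 16) (nat_lit 4) (nat_lit 14) (nat_lit 4) (nat_lit 397) (nat_lit 320) (nat_lit 183)))))) (XT.nd (nat_lit 468) (nat_lit 228) (nat_lit 0) (XT.nd (nat_lit 234) (nat_lit 76) (nat_lit 0) (XT.nd (nat_lit 78) (nat_lit 76) (nat_lit 0) (XT.lf (nat_lit 0) (nat_lit 39417166276) (nat_lit 76) (nat_lit 81189974090) (nat_lit 76) (nat_lit 19416099493) (nat_lit 13) (nat_lit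 4) (nat_lit 14) (nat_lit 5) (nat_lit 14) (nat_lit 4) (nat_lit 398) (nat_lit 320) (nat_lit 182)) (XT.nd (nat_lit 78) (nat_lit 76) (nat_lit 0) (XT.lf (nat_lit 0) (nat_lit 83663776736) (nat_lit 76) (nat_lit 62013546012) (nat_lit 76) (nat_lit 236164060) (nat_lit 13) (nat_lit 4) (nat_lit 14) (nat_lit 5) (nat_lit 14) (nat_lit 4) (nat_lit 399) (nat_lit 320) (nat_lit 181)) (XT.lf (nat_lit 0) (nat_lit 19263269960) (nat_lit 152) (nat_lit 22291018871) (nat_lit 76) (nat_lit 110528545091) (nat_lit 12) (nat_lit 5) (nat_lit 14) (nat_lit 5) (nat_lit 13) (nat_lit 4) (nat_lit 400) (nat_lit 320) (nat_lit 180)))) (XT.nd (nat_lit 78) (nat_lit 0) (nat_lit 0) (XT.lf (nat_lit 0) (nat_lit 20307165268) (nat_lit 76) (nat_lit 19737258553) (nat_lit 152) (nat_lit 118500297187) (nat_lit 11) (nat_lit 5) (nat_lit 12) (nat_lit 5) (nat_lit 13) (nat_lit 4) (nat_lit 401) (nat_lit 320) (nat_lit 179)) (XT.nd (nat_lit 78) (nat_lit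 0) (nat_lit 0) (XT.lf (nat_lit 0) (nat_lit 62295478534) (nat_lit 152) (nat_lit 99561902061) (nat_lit 0) (nat_lit 3450780105) (nat_lit 11) (nat_lit 5) (nat_lit 13) (nat_lit 4) (nat_lit 11) (nat_lit 4) (nat_lit 402) (nat_lit 320) (nat_lit 178)) (XT.lf (nat_lit 0) (nat_lit 85980402817) (nat_lit 152) (nat_lit 59280347826) (nat_lit 0) (nat_lit 27132956283) (nat_lit 11) (nat_lit 5) (nat_lit 13) (nat_lit 4) (nat_lit 11) (nat_lit 4) (nat_lit 403) (nat_lit 320) (nat_lit 177))))) (XT.nd (nat_lit 234) (nat_lit 152) (nat_lit 0) (XT.nd (nat_lit 78) (nat_lit 76) (nat_lit 0) (XT.lf (nat_lit 0) (nat_lit 110847435426) (nat_lit 152) (nat_lit 16988830654) (nat_lit 0) (nat_lit 51997371649) (nat_lit 11) (nat_lit 5) (nat_lit 13) (nat_lit 4) (nat_lit 11) (nat_lit 4) (nat_lit 404) (nat_lit 320) (nat_lit 176)) (XT.nd (nat_lit 78) (nat_lit 0) (nat_lit 0) (XT.lf (nat_lit 0) (nat_lit 28319752482) (nat_lit 76) (nat_lit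 109078181803) (nat_lit 76) (nat_lit 50225625414) (nat_lit 10) (nat_lit 4) (nat_lit 11) (nat_lit 5) (nat_lit 11) (nat_lit 4) (nat_lit 405) (nat_lit 320) (nat_lit 175)) (XT.lf (nat_lit 0) (nat_lit 76479722989) (nat_lit 76) (nat_lit 89081949841) (nat_lit 76) (nat_lit 30227019536) (nat_lit 10) (nat_lit 4) (nat_lit 11) (nat_lit 5) (nat_lit 11) (nat_lit 4) (nat_lit 406) (nat_lit 320) (nat_lit 174)))) (XT.nd (nat_lit 78) (nat_lit 152) (nat_lit 0) (XT.lf (nat_lit 0) (nat_lit 127044019996) (nat_lit 76) (nat_lit 68087674188) (nat_lit 76) (nat_lit 9230483010) (nat_lit 10) (nat_lit 4) (nat_lit 11) (nat_lit 5) (nat_lit 11) (nat_lit 4) (nat_lit 407) (nat_lit 320) (nat_lit 173)) (XT.nd (nat_lit 78) (nat_lit 76) (nat_lit 0) (XT.lf (nat_lit 0) (nat_lit 12403848662) (nat_lit 152) (nat_lit 33431454632) (nat_lit 76) (nat_lit 167519120847) (nat_lit 9) (nat_lit 5) (nat_lit 11) (nat_lit 5) (nat_lit 10) (nat_lit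 4) (nat_lit 408) (nat_lit 320) (nat_lit 172)) (XT.lf (nat_lit 0) (nat_lit 12908011692) (nat_lit 76) (nat_lit 22101455019) (nat_lit 152) (nat_lit 187769262303) (nat_lit 8) (nat_lit 5) (nat_lit 9) (nat_lit 5) (nat_lit 10) (nat_lit 4) (nat_lit 409) (nat_lit 320) (nat_lit 171))))))))
noncomputable def xc155 : XT := (XT.nd (nat_lit 39936) (nat_lit 0) (nat_lit 4940) (XT.nd (nat_lit 858) (nat_lit 76) (nat_lit 0) (XT.nd (nat_lit 390) (nat_lit 152) (nat_lit 0) (XT.nd (nat_lit 156) (nat_lit 76) (nat_lit 0) (XT.nd (nat_lit 78) (nat_lit 0) (nat_lit 0) (XT.lf (nat_lit 0) (nat_lit 59363089678) (nat_lit 152) (nat_lit 169977515358) (nat_lit 0) (nat_lit 3302758159) (nat_lit 8) (nat_lit 5) (nat_lit 10) (nat_lit 4) (nat_lit 8) (nat_lit 4) (nat_lit 410) (nat_lit 320) (nat_lit 170)) (XT.lf (nat_lit 0) (nat_lit 85295046746) (nat_lit 152) (nat_lit 128455206170) (nat_lit 0) (nat_lit 29232943775) (nat_lit 8) (nat_lit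 5) (nat_lit 10) (nat_lit 4) (nat_lit 8) (nat_lit 4) (nat_lit 411) (nat_lit 320) (nat_lit 169))) (XT.nd (nat_lit 78) (nat_lit 76) (nat_lit 0) (XT.lf (nat_lit 0) (nat_lit 112522015020) (nat_lit 152) (nat_lit 84859861463) (nat_lit 0) (nat_lit 56458224950) (nat_lit 8) (nat_lit 5) (nat_lit 10) (nat_lit 4) (nat_lit 8) (nat_lit 4) (nat_lit 412) (nat_lit 320) (nat_lit 168)) (XT.nd (nat_lit 78) (nat_lit 76) (nat_lit 0) (XT.lf (nat_lit 0) (nat_lit 141108820613) (nat_lit 152) (nat_lit 39087682798) (nat_lit 0) (nat_lit 85043423784) (nat_lit 8) (nat_lit 5) (nat_lit 10) (nat_lit 4) (nat_lit 8) (nat_lit 4) (nat_lit 413) (nat_lit 320) (nat_lit 167)) (XT.lf (nat_lit 0) (nat_lit 9266910200) (nat_lit 76) (nat_lit 162001299588) (nat_lit 76) (nat_lit 105934372511) (nat_lit 7) (nat_lit 4) (nat_lit 8) (nat_lit 5) (nat_lit 8) (nat_lit 4) (nat_lit 414) (nat_lit 320) (nat_lit 166))))) (XT.nd (nat_lit 234) (nat_lit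 152) (nat_lit 0) (XT.nd (nat_lit 78) (nat_lit 0) (nat_lit 0) (XT.lf (nat_lit 0) (nat_lit 61393520394) (nat_lit 76) (nat_lit 142202603331) (nat_lit 76) (nat_lit 86134218875) (nat_lit 7) (nat_lit 4) (nat_lit 8) (nat_lit 5) (nat_lit 8) (nat_lit 4) (nat_lit 415) (nat_lit 320) (nat_lit 165)) (XT.nd (nat_lit 78) (nat_lit 0) (nat_lit 0) (XT.lf (nat_lit 0) (nat_lit 116123843441) (nat_lit 76) (nat_lit 121415243709) (nat_lit 76) (nat_lit 65345471274) (nat_lit 7) (nat_lit 4) (nat_lit 8) (nat_lit 5) (nat_lit 8) (nat_lit 4) (nat_lit 416) (nat_lit 320) (nat_lit 164)) (XT.lf (nat_lit 0) (nat_lit 173588189634) (nat_lit 76) (nat_lit 99589727010) (nat_lit 76) (nat_lit 43518632689) (nat_lit 7) (nat_lit 4) (nat_lit 8) (nat_lit 5) (nat_lit 8) (nat_lit 4) (nat_lit 417) (nat_lit 320) (nat_lit 163)))) (XT.nd (nat_lit 78) (nat_lit 152) (nat_lit 0) (XT.lf (nat_lit 0) (nat_lit 233923378844) (nat_lit 76) (nat_lit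 76674087717) (nat_lit 76) (nat_lit 20601734458) (nat_lit 7) (nat_lit 4) (nat_lit 8) (nat_lit 5) (nat_lit 8) (nat_lit 4) (nat_lit 418) (nat_lit 320) (nat_lit 162)) (XT.nd (nat_lit 78) (nat_lit 76) (nat_lit 0) (XT.lf (nat_lit 0) (nat_lit 3349052657) (nat_lit 152) (nat_lit 49207994299) (nat_lit 76) (nat_lit 293867295800) (nat_lit 6) (nat_lit 5) (nat_lit 8) (nat_lit 5) (nat_lit 7) (nat_lit 4) (nat_lit 419) (nat_lit 320) (nat_lit 161)) (XT.lf (nat_lit 0) (nat_lit 953829175) (nat_lit 76) (nat_lit 26864962687) (nat_lit 152) (nat_lit 334574374901) (nat_lit 5) (nat_lit 5) (nat_lit 6) (nat_lit 5) (nat_lit 7) (nat_lit 4) (nat_lit 420) (nat_lit 320) (nat_lit 160)))))) (XT.nd (nat_lit 468) (nat_lit 76) (nat_lit 0) (XT.nd (nat_lit 234) (nat_lit 0) (nat_lit 0) (XT.nd (nat_lit 78) (nat_lit 0) (nat_lit 0) (XT.lf (nat_lit 0) (nat_lit 54359662958) (nat_lit 152) (nat_lit 323804230298) (nat_lit 0) (nat_lit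 954156614) (nat_lit 5) (nat_lit 5) (nat_lit 7) (nat_lit 4) (nat_lit 5) (nat_lit 4) (nat_lit 421) (nat_lit 320) (nat_lit 159)) (XT.nd (nat_lit 78) (nat_lit 0) (nat_lit 0) (XT.lf (nat_lit 0) (nat_lit 82666917999) (nat_lit 152) (nat_lit 284729867010) (nat_lit 0) (nat_lit 29260425244) (nat_lit 5) (nat_lit 5) (nat_lit 7) (nat_lit 4) (nat_lit 5) (nat_lit 4) (nat_lit 422) (nat_lit 320) (nat_lit 158)) (XT.lf (nat_lit 0) (nat_lit 112388517857) (nat_lit 152) (nat_lit 243703776167) (nat_lit 0) (nat_lit 58981085663) (nat_lit 5) (nat_lit 5) (nat_lit 7) (nat_lit 4) (nat_lit 5) (nat_lit 4) (nat_lit 423) (nat_lit 320) (nat_lit 157)))) (XT.nd (nat_lit 78) (nat_lit 0) (nat_lit 0) (XT.lf (nat_lit 0) (nat_lit 143595228244) (nat_lit 152) (nat_lit 200628276603) (nat_lit 0) (nat_lit 90186901346) (nat_lit 5) (nat_lit 5) (nat_lit 7) (nat_lit 4) (nat_lit 5) (nat_lit 4) (nat_lit 424) (nat_lit 320) (nat_lit 156))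 (XT.nd (nat_lit 78) (nat_lit 0) (nat_lit 0) (XT.lf (nat_lit 0) (nat_lit 176361350852) (nat_lit 152) (nat_lit 155400807602) (nat_lit 0) (nat_lit 122952171855) (nat_lit 5) (nat_lit 5) (nat_lit 7) (nat_lit 4) (nat_lit 5) (nat_lit 4) (nat_lit 425) (nat_lit 320) (nat_lit 155)) (XT.lf (nat_lit 0) (nat_lit 210764900260) (nat_lit 152) (nat_lit 107913684716) (nat_lit 0) (nat_lit 157354909739) (nat_lit 5) (nat_lit 5) (nat_lit 7) (nat_lit 4) (nat_lit 5) (nat_lit 4) (nat_lit 426) (nat_lit 320) (nat_lit 154))))) (XT.nd (nat_lit 234) (nat_lit 0) (nat_lit 0) (XT.nd (nat_lit 78) (nat_lit 76) (nat_lit 0) (XT.lf (nat_lit 0) (nat_lit 246887789678) (nat_lit 152) (nat_lit 58053843366) (nat_lit 0) (nat_lit 193477026279) (nat_lit 5) (nat_lit 5) (nat_lit 7) (nat_lit 4) (nat_lit 5) (nat_lit 4) (nat_lit 427) (nat_lit 320) (nat_lit 153)) (XT.nd (nat_lit 78) (nat_lit 76) (nat_lit 0) (XT.lf (nat_lit 0) (nat_lit 284816025988)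 (nat_lit 152) (nat_lit 5702569644) (nat_lit 0) (nat_lit 231404526514) (nat_lit 5) (nat_lit 5) (nat_lit 7) (nat_lit 4) (nat_lit 5) (nat_lit 4) (nat_lit 428) (nat_lit 320) (nat_lit 152)) (XT.lf (nat_lit 0) (nat_lit 50893698530) (nat_lit 76) (nat_lit 274540809247) (nat_lit 76) (nat_lit 221128608748) (nat_lit 4) (nat_lit 4) (nat_lit 5) (nat_lit 5) (nat_lit 5) (nat_lit 4) (nat_lit 429) (nat_lit 320) (nat_lit 151)))) (XT.nd (nat_lit 78) (nat_lit 0) (nat_lit 0) (XT.lf (nat_lit 0) (nat_lit 110516298988) (nat_lit 76) (nat_lit 257663444198) (nat_lit 76) (nat_lit 204250576057) (nat_lit 4) (nat_lit 4) (nat_lit 5) (nat_lit 5) (nat_lit 5) (nat_lit 4) (nat_lit 430) (nat_lit 320) (nat_lit 150)) (XT.nd (nat_lit 78) (nat_lit 0) (nat_lit 0) (XT.lf (nat_lit 0) (nat_lit 173118637597) (nat_lit 76) (nat_lit 239942892058) (nat_lit 76) (nat_lit 186529388068) (nat_lit 4) (nat_lit 4) (nat_lit 5) (nat_lit 5) (nat_lit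 5) (nat_lit 4) (nat_lit 431) (nat_lit 320) (nat_lit 149)) (XT.lf (nat_lit 0) (nat_lit 238849767544) (nat_lit 76) (nat_lit 221336961037) (nat_lit 76) (nat_lit 167922851475) (nat_lit 4) (nat_lit 4) (nat_lit 5) (nat_lit 5) (nat_lit 5) (nat_lit 4) (nat_lit 432) (nat_lit 320) (nat_lit 148))))))) (XT.nd (nat_lit 936) (nat_lit 2660) (nat_lit 0) (XT.nd (nat_lit 468) (nat_lit 532) (nat_lit 0) (XT.nd (nat_lit 234) (nat_lit 0) (nat_lit 76) (XT.nd (nat_lit 78) (nat_lit 0) (nat_lit 0) (XT.lf (nat_lit 0) (nat_lit 1498201446) (nat_lit 0) (nat_lit 1498201446) (nat_lit 684) (nat_lit 2850635368) (nat_lit 111) (nat_lit 5) (nat_lit 111) (nat_lit 3) (nat_lit 120) (nat_lit 3) (nat_lit 321) (nat_lit 321) (nat_lit 258)) (XT.nd (nat_lit 78) (nat_lit 0) (nat_lit 0) (XT.lf (nat_lit 0) (nat_lit 6659081058) (nat_lit 684) (nat_lit 3185664827) (nat_lit 760) (nat_lit 2115315822) (nat_lit 111) (nat_lit 5) (nat_lit 120)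 (nat_lit 3) (nat_lit 121) (nat_lit 5) (nat_lit 322) (nat_lit 321) (nat_lit 257)) (XT.lf (nat_lit 76) (nat_lit 2619402878) (nat_lit 0) (nat_lit 4798650222) (nat_lit 760) (nat_lit 4818358723) (nat_lit 112) (nat_lit 5) (nat_lit 111) (nat_lit 5) (nat_lit 121) (nat_lit 5) (nat_lit 323) (nat_lit 321) (nat_lit 256)))) (XT.nd (nat_lit 78) (nat_lit 0) (nat_lit 0) (XT.lf (nat_lit 0) (nat_lit 8248365149) (nat_lit 684) (nat_lit 3725924642) (nat_lit 760) (nat_lit 550653247) (nat_lit 112) (nat_lit 5) (nat_lit 121) (nat_lit 5) (nat_lit 122) (nat_lit 5) (nat_lit 324) (nat_lit 321) (nat_lit 255)) (XT.nd (nat_lit 78) (nat_lit 0) (nat_lit 0) (XT.lf (nat_lit 76) (nat_lit 2441398080) (nat_lit 0) (nat_lit 6767724551) (nat_lit 760) (nat_lit 3614363273) (nat_lit 113) (nat_lit 5) (nat_lit 112) (nat_lit 5) (nat_lit 122) (nat_lit 5) (nat_lit 325) (nat_lit 321) (nat_lit 254)) (XT.lf (nat_lit 76) (nat_lit 9028940171)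 (nat_lit 0) (nat_lit 1225277624) (nat_lit 760) (nat_lit 2880953209) (nat_lit 113) (nat_lit 5) (nat_lit 112) (nat_lit 5) (nat_lit 122) (nat_lit 5) (nat_lit 326) (nat_lit 321) (nat_lit 253))))) (XT.nd (nat_lit 234) (nat_lit 0) (nat_lit 0) (XT.nd (nat_lit 78) (nat_lit 684) (nat_lit 0) (XT.lf (nat_lit 76) (nat_lit 2472719580) (nat_lit 0) (nat_lit 8963797931) (nat_lit 760) (nat_lit 2021704005) (nat_lit 114) (nat_lit 5) (nat_lit 113) (nat_lit 5) (nat_lit 123) (nat_lit 5) (nat_lit 327) (nat_lit 321) (nat_lit 252)) (XT.nd (nat_lit 78) (nat_lit 684) (nat_lit 0) (XT.lf (nat_lit 76) (nat_lit 9484605913) (nat_lit 0) (nat_lit 3258174430) (nat_lit 760) (nat_lit 1051429088) (nat_lit 114) (nat_lit 5) (nat_lit 113) (nat_lit 5) (nat_lit 123) (nat_lit 5) (nat_lit 328) (nat_lit 321) (nat_lit 251)) (XT.lf (nat_lit 0) (nat_lit 31436701) (nat_lit 760) (nat_lit 11418001449) (nat_lit 836) (nat_lit 2694457197) (nat_lit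 104) (nat_lit 5) (nat_lit 114) (nat_lit 5) (nat_lit 115) (nat_lit 5) (nat_lit 329) (nat_lit 321) (nat_lit 250)))) (XT.nd (nat_lit 78) (nat_lit 0) (nat_lit 76) (XT.lf (nat_lit 0) (nat_lit 1237946295) (nat_lit 760) (nat_lit 4335218299) (nat_lit 836) (nat_lit 8931820934) (nat_lit 104) (nat_lit 5) (nat_lit 114) (nat_lit 5) (nat_lit 115) (nat_lit 5) (nat_lit 330) (nat_lit 321) (nat_lit 249)) (XT.nd (nat_lit 78) (nat_lit 0) (nat_lit 0) (XT.lf (nat_lit 0) (nat_lit 2543040512) (nat_lit 760) (nat_lit 11707123740) (nat_lit 76) (nat_lit 632075454) (nat_lit 105) (nat_lit 5) (nat_lit 115) (nat_lit 5) (nat_lit 106) (nat_lit 5) (nat_lit 331) (nat_lit 321) (nat_lit 248)) (XT.lf (nat_lit 0) (nat_lit 4058510549) (nat_lit 760) (nat_lit 4174458069) (nat_lit 76) (nat_lit 7038153298) (nat_lit 105) (nat_lit 5) (nat_lit 115) (nat_lit 5) (nat_lit 106) (nat_lit 5) (nat_lit 332) (nat_lit 321) (nat_lit 247)))))) (XT.nd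 (nat_lit 468) (nat_lit 1292) (nat_lit 0) (XT.nd (nat_lit 234) (nat_lit 304) (nat_lit 0) (XT.nd (nat_lit 78) (nat_lit 380) (nat_lit 0) (XT.lf (nat_lit 0) (nat_lit 3839951486) (nat_lit 760) (nat_lit 1849883713) (nat_lit 836) (nat_lit 9987629340) (nat_lit 95) (nat_lit 5) (nat_lit 105) (nat_lit 5) (nat_lit 106) (nat_lit 5) (nat_lit 333) (nat_lit 321) (nat_lit 246)) (XT.nd (nat_lit 78) (nat_lit 380) (nat_lit 0) (XT.lf (nat_lit 0) (nat_lit 7531168477) (nat_lit 836) (nat_lit 3796008626) (nat_lit 76) (nat_lit 4770544461) (nat_lit 95) (nat_lit 5) (nat_lit 106) (nat_lit 5) (nat_lit 96) (nat_lit 5) (nat_lit 334) (nat_lit 321) (nat_lit 245)) (XT.lf (nat_lit 0) (nat_lit 4751699984) (nat_lit 380) (nat_lit 4799122798) (nat_lit 456) (nat_lit 6983874406) (nat_lit 90) (nat_lit 5) (nat_lit 95) (nat_lit 5) (nat_lit 96) (nat_lit 5) (nat_lit 335) (nat_lit 321) (nat_lit 244)))) (XT.nd (nat_lit 78) (nat_lit 304)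 (nat_lit 0) (XT.lf (nat_lit 0) (nat_lit 11751235109) (nat_lit 456) (nat_lit 3183118110) (nat_lit 76) (nat_lit 2055197196) (nat_lit 90) (nat_lit 5) (nat_lit 96) (nat_lit 5) (nat_lit 91) (nat_lit 5) (nat_lit 336) (nat_lit 321) (nat_lit 243)) (XT.nd (nat_lit 78) (nat_lit 0) (nat_lit 0) (XT.lf (nat_lit 0) (nat_lit 5940843619) (nat_lit 304) (nat_lit 8275437172) (nat_lit 380) (nat_lit 3243151624) (nat_lit 86) (nat_lit 5) (nat_lit 90) (nat_lit 5) (nat_lit 91) (nat_lit 5) (nat_lit 337) (nat_lit 321) (nat_lit 242)) (XT.lf (nat_lit 0) (nat_lit 15614413180) (nat_lit 304) (nat_lit 1227792304) (nat_lit 380) (nat_lit 1108737647) (nat_lit 86) (nat_lit 5) (nat_lit 90) (nat_lit 5) (nat_lit 91) (nat_lit 5) (nat_lit 338) (nat_lit 321) (nat_lit 241))))) (XT.nd (nat_lit 234) (nat_lit 532) (nat_lit 0) (XT.nd (nat_lit 78) (nat_lit 304) (nat_lit 0) (XT.lf (nat_lit 0) (nat_lit 1296200517) (nat_lit 456) (nat_lit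 11049134620) (nat_lit 76) (nat_lit 6110822355) (nat_lit 80) (nat_lit 5) (nat_lit 86) (nat_lit 5) (nat_lit 81) (nat_lit 5) (nat_lit 339) (nat_lit 321) (nat_lit 240)) (XT.nd (nat_lit 78) (nat_lit 304) (nat_lit 0) (XT.lf (nat_lit 0) (nat_lit 3829169837) (nat_lit 456) (nat_lit 1322043500) (nat_lit 76) (nat_lit 13832271960) (nat_lit 80) (nat_lit 5) (nat_lit 86) (nat_lit 5) (nat_lit 81) (nat_lit 5) (nat_lit 340) (nat_lit 321) (nat_lit 239)) (XT.lf (nat_lit 0) (nat_lit 6657186807) (nat_lit 380) (nat_lit 10402230475) (nat_lit 76) (nat_lit 2469355374) (nat_lit 76) (nat_lit 5) (nat_lit 81) (nat_lit 5) (nat_lit 77) (nat_lit 5) (nat_lit 341) (nat_lit 321) (nat_lit 238)))) (XT.nd (nat_lit 78) (nat_lit 532) (nat_lit 0) (XT.lf (nat_lit 0) (nat_lit 9719642419) (nat_lit 380) (nat_lit 58468301) (nat_lit 76) (nat_lit 10318574272) (nat_lit 76) (nat_lit 5) (nat_lit 81) (nat_lit 5) (nat_lit 77) (nat_lit 5) (nat_lit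 342) (nat_lit 321) (nat_lit 237)) (XT.nd (nat_lit 78) (nat_lit 228) (nat_lit 0) (XT.lf (nat_lit 0) (nat_lit 11143027752) (nat_lit 304) (nat_lit 1952676653) (nat_lit 380) (nat_lit 7589276263) (nat_lit 72) (nat_lit 5) (nat_lit 76) (nat_lit 5) (nat_lit 77) (nat_lit 5) (nat_lit 343) (nat_lit 321) (nat_lit 236)) (XT.lf (nat_lit 0) (nat_lit 1538963800) (nat_lit 228) (nat_lit 15211300605) (nat_lit 304) (nat_lit 4546953315) (nat_lit 69) (nat_lit 5) (nat_lit 72) (nat_lit 5) (nat_lit 73) (nat_lit 5) (nat_lit 344) (nat_lit 321) (nat_lit 235))))))))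
noncomputable def xc156 : XT := (XT.nd (nat_lit 1794) (nat_lit 1292) (nat_lit 0) (XT.nd (nat_lit 858) (nat_lit 1292) (nat_lit 0) (XT.nd (nat_lit 390) (nat_lit 760) (nat_lit 0) (XT.nd (nat_lit 156) (nat_lit 228) (nat_lit 0) (XT.nd (nat_lit 78) (nat_lit 380) (nat_lit 0) (XT.lf (nat_lit 0) (nat_lit 13455933193) (nat_lit 228) (nat_lit 7311946207) (nat_lit 304) (nat_lit 1163181670) (nat_lit 69) (nat_lit 5) (nat_lit 72) (nat_lit 5) (nat_lit 73) (nat_lit 5) (nat_lit 345) (nat_lit 321) (nat_lit 234)) (XT.lf (nat_lit 0) (nat_lit 2371228727) (nat_lit 380) (nat_lit 19180716763) (nat_lit 76) (nat_lit 1039898434) (nat_lit 64) (nat_lit 5) (nat_lit 69) (nat_lit 5) (nat_lit 65) (nat_lit 5) (nat_lit 346) (nat_lit 321) (nat_lit 233))) (XT.nd (nat_lit 78) (nat_lit 228) (nat_lit 0) (XT.lf (nat_lit 0) (nat_lit 6296943431) (nat_lit 380) (nat_lit 7249991733) (nat_lit 76) (nat_lit 9725102940) (nat_lit 64) (nat_lit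 5) (nat_lit 69) (nat_lit 5) (nat_lit 65) (nat_lit 5) (nat_lit 347) (nat_lit 321) (nat_lit 232)) (XT.nd (nat_lit 78) (nat_lit 0) (nat_lit 0) (XT.lf (nat_lit 0) (nat_lit 5435875211) (nat_lit 228) (nat_lit 5056435999) (nat_lit 304) (nat_lit 13490271299) (nat_lit 61) (nat_lit 5) (nat_lit 64) (nat_lit 5) (nat_lit 65) (nat_lit 5) (nat_lit 348) (nat_lit 321) (nat_lit 231)) (XT.lf (nat_lit 0) (nat_lit 15071233818) (nat_lit 304) (nat_lit 5792667164) (nat_lit 76) (nat_lit 3856072289) (nat_lit 61) (nat_lit 5) (nat_lit 65) (nat_lit 5) (nat_lit 62) (nat_lit 5) (nat_lit 349) (nat_lit 321) (nat_lit 230))))) (XT.nd (nat_lit 234) (nat_lit 228) (nat_lit 0) (XT.nd (nat_lit 78) (nat_lit 304) (nat_lit 0) (XT.lf (nat_lit 0) (nat_lit 7749318911) (nat_lit 228) (nat_lit 12322948554) (nat_lit 304) (nat_lit 5412315918) (nat_lit 58) (nat_lit 5) (nat_lit 61) (nat_lit 5) (nat_lit 62) (nat_lit 5) (nat_lit 350) (nat_lit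 321) (nat_lit 229)) (XT.nd (nat_lit 78) (nat_lit 304) (nat_lit 0) (XT.lf (nat_lit 0) (nat_lit 22154862509) (nat_lit 228) (nat_lit 3256157397) (nat_lit 304) (nat_lit 872028411) (nat_lit 58) (nat_lit 5) (nat_lit 61) (nat_lit 5) (nat_lit 62) (nat_lit 5) (nat_lit 351) (nat_lit 321) (nat_lit 228)) (XT.lf (nat_lit 0) (nat_lit 4024536308) (nat_lit 304) (nat_lit 16794607706) (nat_lit 76) (nat_lit 6286561842) (nat_lit 54) (nat_lit 5) (nat_lit 58) (nat_lit 5) (nat_lit 55) (nat_lit 5) (nat_lit 352) (nat_lit 321) (nat_lit 227)))) (XT.nd (nat_lit 78) (nat_lit 228) (nat_lit 0) (XT.lf (nat_lit 0) (nat_lit 9251150249) (nat_lit 304) (nat_lit 2433650503) (nat_lit 76) (nat_lit 16278261028) (nat_lit 54) (nat_lit 5) (nat_lit 58) (nat_lit 5) (nat_lit 55) (nat_lit 5) (nat_lit 353) (nat_lit 321) (nat_lit 226)) (XT.nd (nat_lit 78) (nat_lit 0) (nat_lit 0) (XT.lf (nat_lit 0) (nat_lit 13049204718) (nat_lit 228) (nat_lit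 1884185104) (nat_lit 304) (nat_lit 13920187243) (nat_lit 51) (nat_lit 5) (nat_lit 54) (nat_lit 5) (nat_lit 55) (nat_lit 5) (nat_lit 354) (nat_lit 321) (nat_lit 225)) (XT.lf (nat_lit 0) (nat_lit 21063609820) (nat_lit 304) (nat_lit 541768828) (nat_lit 76) (nat_lit 8175052057) (nat_lit 51) (nat_lit 5) (nat_lit 55) (nat_lit 5) (nat_lit 52) (nat_lit 5) (nat_lit 355) (nat_lit 321) (nat_lit 224)))))) (XT.nd (nat_lit 468) (nat_lit 532) (nat_lit 0) (XT.nd (nat_lit 234) (nat_lit 304) (nat_lit 0) (XT.nd (nat_lit 78) (nat_lit 304) (nat_lit 0) (XT.lf (nat_lit 0) (nat_lit 15950269647) (nat_lit 152) (nat_lit 11821158641) (nat_lit 228) (nat_lit 2968650092) (nat_lit 49) (nat_lit 5) (nat_lit 51) (nat_lit 5) (nat_lit 52) (nat_lit 5) (nat_lit 356) (nat_lit 321) (nat_lit 223)) (XT.nd (nat_lit 78) (nat_lit 0) (nat_lit 0) (XT.lf (nat_lit 0) (nat_lit 1525877955) (nat_lit 228) (nat_lit 1467279360) (nat_lit 304)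 (nat_lit 28750942701) (nat_lit 45) (nat_lit 5) (nat_lit 48) (nat_lit 5) (nat_lit 49) (nat_lit 5) (nat_lit 357) (nat_lit 321) (nat_lit 222)) (XT.lf (nat_lit 0) (nat_lit 9546074317) (nat_lit 304) (nat_lit 13828120515) (nat_lit 76) (nat_lit 9402060261) (nat_lit 45) (nat_lit 5) (nat_lit 49) (nat_lit 5) (nat_lit 46) (nat_lit 5) (nat_lit 358) (nat_lit 321) (nat_lit 221)))) (XT.nd (nat_lit 78) (nat_lit 152) (nat_lit 0) (XT.lf (nat_lit 0) (nat_lit 3455123333) (nat_lit 152) (nat_lit 13041301538) (nat_lit 228) (nat_lit 17360108377) (nat_lit 43) (nat_lit 5) (nat_lit 45) (nat_lit 5) (nat_lit 46) (nat_lit 5) (nat_lit 359) (nat_lit 321) (nat_lit 220)) (XT.nd (nat_lit 78) (nat_lit 152) (nat_lit 0) (XT.lf (nat_lit 0) (nat_lit 22069923931) (nat_lit 152) (nat_lit 1950537609) (nat_lit 228) (nat_lit 10959059829) (nat_lit 43) (nat_lit 5) (nat_lit 45) (nat_lit 5) (nat_lit 46) (nat_lit 5) (nat_lit 360) (nat_lit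 321) (nat_lit 219)) (XT.lf (nat_lit 0) (nat_lit 5468056099) (nat_lit 152) (nat_lit 26681673091) (nat_lit 228) (nat_lit 3997482522) (nat_lit 41) (nat_lit 5) (nat_lit 43) (nat_lit 5) (nat_lit 44) (nat_lit 5) (nat_lit 361) (nat_lit 321) (nat_lit 218))))) (XT.nd (nat_lit 234) (nat_lit 304) (nat_lit 0) (XT.nd (nat_lit 78) (nat_lit 152) (nat_lit 0) (XT.lf (nat_lit 0) (nat_lit 3452697925) (nat_lit 228) (nat_lit 12249299204) (nat_lit 76) (nat_lit 21656380976) (nat_lit 40) (nat_lit 5) (nat_lit 43) (nat_lit 5) (nat_lit 41) (nat_lit 5) (nat_lit 362) (nat_lit 321) (nat_lit 217)) (XT.nd (nat_lit 78) (nat_lit 0) (nat_lit 0) (XT.lf (nat_lit 0) (nat_lit 7256921385) (nat_lit 152) (nat_lit 3990133938) (nat_lit 228) (nat_lit 27374474083) (nat_lit 38) (nat_lit 5) (nat_lit 40) (nat_lit 5) (nat_lit 41) (nat_lit 5) (nat_lit 363) (nat_lit 321) (nat_lit 216)) (XT.lf (nat_lit 0) (nat_lit 19764482458) (nat_lit 228)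 (nat_lit 11918806712) (nat_lit 76) (nat_lit 8247885024) (nat_lit 38) (nat_lit 5) (nat_lit 41) (nat_lit 5) (nat_lit 39) (nat_lit 5) (nat_lit 364) (nat_lit 321) (nat_lit 215)))) (XT.nd (nat_lit 78) (nat_lit 152) (nat_lit 0) (XT.lf (nat_lit 0) (nat_lit 8700966985) (nat_lit 152) (nat_lit 20201217894) (nat_lit 228) (nat_lit 12394399494) (nat_lit 36) (nat_lit 5) (nat_lit 38) (nat_lit 5) (nat_lit 39) (nat_lit 5) (nat_lit 365) (nat_lit 321) (nat_lit 214)) (XT.nd (nat_lit 78) (nat_lit 152) (nat_lit 0) (XT.lf (nat_lit 0) (nat_lit 30754316219) (nat_lit 152) (nat_lit 7937603812) (nat_lit 228) (nat_lit 4028590838) (nat_lit 36) (nat_lit 5) (nat_lit 38) (nat_lit 5) (nat_lit 39) (nat_lit 5) (nat_lit 366) (nat_lit 321) (nat_lit 213)) (XT.lf (nat_lit 0) (nat_lit 4832607621) (nat_lit 152) (nat_lit 34358006273) (nat_lit 76) (nat_lit 5009845080) (nat_lit 34) (nat_lit 5) (nat_lit 36) (nat_lit 5) (nat_lit 35)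 (nat_lit 5) (nat_lit 367) (nat_lit 321) (nat_lit 212))))))) (XT.nd (nat_lit 936) (nat_lit 532) (nat_lit 0) (XT.nd (nat_lit 468) (nat_lit 304) (nat_lit 0) (XT.nd (nat_lit 234) (nat_lit 304) (nat_lit 0) (XT.nd (nat_lit 78) (nat_lit 152) (nat_lit 0) (XT.lf (nat_lit 0) (nat_lit 14331161186) (nat_lit 152) (nat_lit 12797756928) (nat_lit 76) (nat_lit 18605702888) (nat_lit 34) (nat_lit 5) (nat_lit 36) (nat_lit 5) (nat_lit 35) (nat_lit 5) (nat_lit 368) (nat_lit 321) (nat_lit 211)) (XT.nd (nat_lit 78) (nat_lit 0) (nat_lit 0) (XT.lf (nat_lit 0) (nat_lit 10155085834) (nat_lit 152) (nat_lit 14301993676) (nat_lit 228) (nat_lit 22880792390) (nat_lit 32) (nat_lit 5) (nat_lit 34) (nat_lit 5) (nat_lit 35) (nat_lit 5) (nat_lit 369) (nat_lit 321) (nat_lit 210)) (XT.lf (nat_lit 0) (nat_lit 34689603213) (nat_lit 152) (nat_lit 610445087) (nat_lit 228) (nat_lit 13710701815) (nat_lit 32) (nat_lit 5) (nat_lit 34)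 (nat_lit 5) (nat_lit 35) (nat_lit 5) (nat_lit 370) (nat_lit 321) (nat_lit 209)))) (XT.nd (nat_lit 78) (nat_lit 228) (nat_lit 0) (XT.lf (nat_lit 0) (nat_lit 9771388073) (nat_lit 76) (nat_lit 37275496384) (nat_lit 152) (nat_lit 3702304215) (nat_lit 31) (nat_lit 5) (nat_lit 32) (nat_lit 5) (nat_lit 33) (nat_lit 4) (nat_lit 371) (nat_lit 321) (nat_lit 208)) (XT.nd (nat_lit 78) (nat_lit 152) (nat_lit 0) (XT.lf (nat_lit 0) (nat_lit 6839446382) (nat_lit 152) (nat_lit 17126967780) (nat_lit 76) (nat_lit 28590284515) (nat_lit 30) (nat_lit 5) (nat_lit 32) (nat_lit 5) (nat_lit 31) (nat_lit 5) (nat_lit 372) (nat_lit 321) (nat_lit 207)) (XT.lf (nat_lit 0) (nat_lit 8105579432) (nat_lit 152) (nat_lit 9799372481) (nat_lit 228) (nat_lit 36540545191) (nat_lit 28) (nat_lit 5) (nat_lit 30) (nat_lit 5) (nat_lit 31) (nat_lit 5) (nat_lit 373) (nat_lit 321) (nat_lit 206))))) (XT.nd (nat_lit 234) (nat_lit 228) (nat_lit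 0) (XT.nd (nat_lit 78) (nat_lit 76) (nat_lit 0) (XT.lf (nat_lit 0) (nat_lit 29892380190) (nat_lit 228) (nat_lit 21313489671) (nat_lit 76) (nat_lit 5204435177) (nat_lit 28) (nat_lit 5) (nat_lit 31) (nat_lit 5) (nat_lit 29) (nat_lit 4) (nat_lit 374) (nat_lit 321) (nat_lit 205)) (XT.nd (nat_lit 78) (nat_lit 0) (nat_lit 0) (XT.lf (nat_lit 0) (nat_lit 4952983884) (nat_lit 76) (nat_lit 37759017205) (nat_lit 152) (nat_lit 15749713084) (nat_lit 27) (nat_lit 5) (nat_lit 28) (nat_lit 5) (nat_lit 29) (nat_lit 4) (nat_lit 375) (nat_lit 321) (nat_lit 204)) (XT.lf (nat_lit 0) (nat_lit 33263728232) (nat_lit 76) (nat_lit 23264779641) (nat_lit 152) (nat_lit 4069392425) (nat_lit 27) (nat_lit 5) (nat_lit 28) (nat_lit 5) (nat_lit 29) (nat_lit 4) (nat_lit 376) (nat_lit 321) (nat_lit 203)))) (XT.nd (nat_lit 78) (nat_lit 0) (nat_lit 0) (XT.lf (nat_lit 0) (nat_lit 12835444) (nat_lit 152) (nat_lit 7915130380) (nat_lit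 228) (nat_lit 54906768664) (nat_lit 24) (nat_lit 5) (nat_lit 26) (nat_lit 5) (nat_lit 27) (nat_lit 5) (nat_lit 377) (nat_lit 321) (nat_lit 202)) (XT.nd (nat_lit 78) (nat_lit 0) (nat_lit 0) (XT.lf (nat_lit 0) (nat_lit 20982145756) (nat_lit 228) (nat_lit 35695230786) (nat_lit 76) (nat_lit 8473014210) (nat_lit 24) (nat_lit 5) (nat_lit 27) (nat_lit 5) (nat_lit 25) (nat_lit 4) (nat_lit 378) (nat_lit 321) (nat_lit 201)) (XT.lf (nat_lit 0) (nat_lit 34814171464) (nat_lit 228) (nat_lit 7350351010) (nat_lit 76) (nat_lit 25411051978) (nat_lit 24) (nat_lit 5) (nat_lit 27) (nat_lit 5) (nat_lit 25) (nat_lit 4) (nat_lit 379) (nat_lit 321) (nat_lit 200)))))) (XT.nd (nat_lit 468) (nat_lit 228) (nat_lit 0) (XT.nd (nat_lit 234) (nat_lit 76) (nat_lit 0) (XT.nd (nat_lit 78) (nat_lit 152) (nat_lit 0) (XT.lf (nat_lit 0) (nat_lit 23144576448) (nat_lit 76) (nat_lit 26550174230) (nat_lit 152) (nat_lit 20409420439)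 (nat_lit 23) (nat_lit 5) (nat_lit 24) (nat_lit 5) (nat_lit 25) (nat_lit 4) (nat_lit 380) (nat_lit 321) (nat_lit 199)) (XT.nd (nat_lit 78) (nat_lit 152) (nat_lit 0) (XT.lf (nat_lit 0) (nat_lit 55411599079) (nat_lit 76) (nat_lit 10027929156) (nat_lit 152) (nat_lit 7313662235) (nat_lit 23) (nat_lit 5) (nat_lit 24) (nat_lit 5) (nat_lit 25) (nat_lit 4) (nat_lit 381) (nat_lit 321) (nat_lit 198)) (XT.lf (nat_lit 0) (nat_lit 6566331725) (nat_lit 152) (nat_lit 61537819831) (nat_lit 76) (nat_lit 7408712131) (nat_lit 21) (nat_lit 5) (nat_lit 23) (nat_lit 5) (nat_lit 22) (nat_lit 4) (nat_lit 382) (nat_lit 321) (nat_lit 197)))) (XT.nd (nat_lit 78) (nat_lit 76) (nat_lit 0) (XT.lf (nat_lit 0) (nat_lit 21353287006) (nat_lit 152) (nat_lit 31233002373) (nat_lit 76) (nat_lit 25795300092) (nat_lit 21) (nat_lit 5) (nat_lit 23) (nat_lit 5) (nat_lit 22) (nat_lit 4) (nat_lit 383) (nat_lit 321) (nat_lit 196)) (XT.nd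 (nat_lit 78) (nat_lit 0) (nat_lit 0) (XT.lf (nat_lit 0) (nat_lit 598954787) (nat_lit 76) (nat_lit 36286037626) (nat_lit 152) (nat_lit 44508490105) (nat_lit 20) (nat_lit 5) (nat_lit 21) (nat_lit 5) (nat_lit 22) (nat_lit 4) (nat_lit 384) (nat_lit 321) (nat_lit 195)) (XT.lf (nat_lit 0) (nat_lit 35099694939) (nat_lit 76) (nat_lit 18618661508) (nat_lit 152) (nat_lit 30811361140) (nat_lit 20) (nat_lit 5) (nat_lit 21) (nat_lit 5) (nat_lit 22) (nat_lit 4) (nat_lit 385) (nat_lit 321) (nat_lit 194))))) (XT.nd (nat_lit 234) (nat_lit 76) (nat_lit 0) (XT.nd (nat_lit 78) (nat_lit 152) (nat_lit 0) (XT.lf (nat_lit 0) (nat_lit 71318658591) (nat_lit 76) (nat_lit 71041851) (nat_lit 152) (nat_lit 16433249366) (nat_lit 20) (nat_lit 5) (nat_lit 21) (nat_lit 5) (nat_lit 22) (nat_lit 4) (nat_lit 386) (nat_lit 321) (nat_lit 193)) (XT.nd (nat_lit 78) (nat_lit 76) (nat_lit 0) (XT.lf (nat_lit 0) (nat_lit 18345322334)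 (nat_lit 76) (nat_lit 72185102296) (nat_lit 76) (nat_lit 721129304) (nat_lit 19) (nat_lit 4) (nat_lit 20) (nat_lit 5) (nat_lit 20) (nat_lit 4) (nat_lit 387) (nat_lit 321) (nat_lit 192)) (XT.lf (nat_lit 0) (nat_lit 15553352639) (nat_lit 152) (nat_lit 39585898789) (nat_lit 76) (nat_lit 39685936573) (nat_lit 18) (nat_lit 5) (nat_lit 20) (nat_lit 5) (nat_lit 19) (nat_lit 4) (nat_lit 388) (nat_lit 321) (nat_lit 191)))) (XT.nd (nat_lit 78) (nat_lit 76) (nat_lit 0) (XT.lf (nat_lit 0) (nat_lit 32613943645) (nat_lit 152) (nat_lit 4617685993) (nat_lit 76) (nat_lit 61345452874) (nat_lit 18) (nat_lit 5) (nat_lit 20) (nat_lit 5) (nat_lit 19) (nat_lit 4) (nat_lit 389) (nat_lit 321) (nat_lit 190)) (XT.nd (nat_lit 78) (nat_lit 0) (nat_lit 0) (XT.lf (nat_lit 0) (nat_lit 33154060265) (nat_lit 76) (nat_lit 17887912341) (nat_lit 152) (nat_lit 51448879497) (nat_lit 17) (nat_lit 5) (nat_lit 18) (nat_lit 5) (nat_lit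 19) (nat_lit 4) (nat_lit 390) (nat_lit 321) (nat_lit 189)) (XT.lf (nat_lit 0) (nat_lit 70505515912) (nat_lit 152) (nat_lit 33666835004) (nat_lit 0) (nat_lit 2422254351) (nat_lit 17) (nat_lit 5) (nat_lit 19) (nat_lit 4) (nat_lit 17) (nat_lit 4) (nat_lit 391) (nat_lit 321) (nat_lit 188))))))))
noncomputable def xc157 : XT := (XT.nd (nat_lit 1794) (nat_lit 304) (nat_lit 0) (XT.nd (nat_lit 858) (nat_lit 228) (nat_lit 0) (XT.nd (nat_lit 390) (nat_lit 228) (nat_lit 0) (XT.nd (nat_lit 156) (nat_lit 152) (nat_lit 0) (XT.nd (nat_lit 78) (nat_lit 0) (nat_lit 0) (XT.lf (nat_lit 0) (nat_lit 3602946525) (nat_lit 76) (nat_lit 87685737328) (nat_lit 76) (nat_lit 19597540565) (nat_lit 16) (nat_lit 4) (nat_lit 17) (nat_lit 5) (nat_lit 17) (nat_lit 4) (nat_lit 392) (nat_lit 321) (nat_lit 187)) (XT.lf (nat_lit 0) (nat_lit 43899400820) (nat_lit 76) (nat_lit 69778781365) (nat_lit 76) (nat_lit 1685884411) (nat_lit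 16) (nat_lit 4) (nat_lit 17) (nat_lit 5) (nat_lit 17) (nat_lit 4) (nat_lit 393) (nat_lit 321) (nat_lit 186))) (XT.nd (nat_lit 78) (nat_lit 76) (nat_lit 0) (XT.lf (nat_lit 0) (nat_lit 16570467282) (nat_lit 152) (nat_lit 34127915397) (nat_lit 76) (nat_lit 69354198044) (nat_lit 15) (nat_lit 5) (nat_lit 17) (nat_lit 5) (nat_lit 16) (nat_lit 4) (nat_lit 394) (nat_lit 321) (nat_lit 185)) (XT.nd (nat_lit 78) (nat_lit 0) (nat_lit 0) (XT.lf (nat_lit 0) (nat_lit 5209554259) (nat_lit 76) (nat_lit 30552002228) (nat_lit 152) (nat_lit 89208653942) (nat_lit 14) (nat_lit 5) (nat_lit 15) (nat_lit 5) (nat_lit 16) (nat_lit 4) (nat_lit 395) (nat_lit 321) (nat_lit 184)) (XT.lf (nat_lit 0) (nat_lit 47693606674) (nat_lit 76) (nat_lit 8793858406) (nat_lit 152) (nat_lit 73617493842) (nat_lit 14) (nat_lit 5) (nat_lit 15) (nat_lit 5) (nat_lit 16) (nat_lit 4) (nat_lit 396) (nat_lit 321) (nat_lit 183))))) (XT.nd (nat_lit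 234) (nat_lit 152) (nat_lit 0) (XT.nd (nat_lit 78) (nat_lit 76) (nat_lit 0) (XT.lf (nat_lit 0) (nat_lit 78466448237) (nat_lit 152) (nat_lit 43418960985) (nat_lit 0) (nat_lit 13600197187) (nat_lit 14) (nat_lit 5) (nat_lit 16) (nat_lit 4) (nat_lit 14) (nat_lit 4) (nat_lit 397) (nat_lit 321) (nat_lit 182)) (XT.nd (nat_lit 78) (nat_lit 76) (nat_lit 0) (XT.lf (nat_lit 0) (nat_lit 101686051710) (nat_lit 152) (nat_lit 2625858195) (nat_lit 0) (nat_lit 36816293305) (nat_lit 14) (nat_lit 5) (nat_lit 16) (nat_lit 4) (nat_lit 14) (nat_lit 4) (nat_lit 398) (nat_lit 321) (nat_lit 181)) (XT.lf (nat_lit 0) (nat_lit 41531651548) (nat_lit 76) (nat_lit 85181037421) (nat_lit 76) (nat_lit 20307938678) (nat_lit 13) (nat_lit 4) (nat_lit 14) (nat_lit 5) (nat_lit 14) (nat_lit 4) (nat_lit 399) (nat_lit 321) (nat_lit 180)))) (XT.nd (nat_lit 78) (nat_lit 152) (nat_lit 0) (XT.lf (nat_lit 0) (nat_lit 87983753152) (nat_lit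 76) (nat_lit 65049046767) (nat_lit 76) (nat_lit 172766748) (nat_lit 13) (nat_lit 4) (nat_lit 14) (nat_lit 5) (nat_lit 14) (nat_lit 4) (nat_lit 400) (nat_lit 321) (nat_lit 179)) (XT.nd (nat_lit 78) (nat_lit 76) (nat_lit 0) (XT.lf (nat_lit 0) (nat_lit 20295765333) (nat_lit 152) (nat_lit 23272990871) (nat_lit 76) (nat_lit 116114740187) (nat_lit 12) (nat_lit 5) (nat_lit 14) (nat_lit 5) (nat_lit 13) (nat_lit 4) (nat_lit 401) (nat_lit 321) (nat_lit 178)) (XT.lf (nat_lit 0) (nat_lit 21452964105) (nat_lit 76) (nat_lit 20661747806) (nat_lit 152) (nat_lit 124353829769) (nat_lit 11) (nat_lit 5) (nat_lit 12) (nat_lit 5) (nat_lit 13) (nat_lit 4) (nat_lit 402) (nat_lit 321) (nat_lit 177)))))) (XT.nd (nat_lit 468) (nat_lit 152) (nat_lit 0) (XT.nd (nat_lit 234) (nat_lit 76) (nat_lit 0) (XT.nd (nat_lit 78) (nat_lit 0) (nat_lit 0) (XT.lf (nat_lit 0) (nat_lit 65476005535) (nat_lit 152) (nat_lit 104413442760)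 (nat_lit 0) (nat_lit 3680821326) (nat_lit 11) (nat_lit 5) (nat_lit 13) (nat_lit 4) (nat_lit 11) (nat_lit 4) (nat_lit 403) (nat_lit 321) (nat_lit 176)) (XT.nd (nat_lit 78) (nat_lit 0) (nat_lit 0) (XT.lf (nat_lit 0) (nat_lit 90342044933) (nat_lit 152) (nat_lit 62123837214) (nat_lit 0) (nat_lit 28544368112) (nat_lit 11) (nat_lit 5) (nat_lit 13) (nat_lit 4) (nat_lit 11) (nat_lit 4) (nat_lit 404) (nat_lit 321) (nat_lit 175)) (XT.lf (nat_lit 0) (nat_lit 116449447174) (nat_lit 152) (nat_lit 17723483613) (nat_lit 0) (nat_lit 54649396437) (nat_lit 11) (nat_lit 5) (nat_lit 13) (nat_lit 4) (nat_lit 11) (nat_lit 4) (nat_lit 405) (nat_lit 321) (nat_lit 174)))) (XT.nd (nat_lit 78) (nat_lit 0) (nat_lit 0) (XT.lf (nat_lit 0) (nat_lit 29848677252) (nat_lit 76) (nat_lit 114477716990) (nat_lit 76) (nat_lit 52675405380) (nat_lit 10) (nat_lit 4) (nat_lit 11) (nat_lit 5) (nat_lit 11) (nat_lit 4) (nat_lit 406)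 (nat_lit 321) (nat_lit 173)) (XT.nd (nat_lit 78) (nat_lit 0) (nat_lit 0) (XT.lf (nat_lit 0) (nat_lit 80411268325) (nat_lit 76) (nat_lit 93484262664) (nat_lit 76) (nat_lit 31679797842) (nat_lit 10) (nat_lit 4) (nat_lit 11) (nat_lit 5) (nat_lit 11) (nat_lit 4) (nat_lit 407) (nat_lit 321) (nat_lit 172)) (XT.lf (nat_lit 0) (nat_lit 133498658317) (nat_lit 76) (nat_lit 71442739165) (nat_lit 76) (nat_lit 9636223665) (nat_lit 10) (nat_lit 4) (nat_lit 11) (nat_lit 5) (nat_lit 11) (nat_lit 4) (nat_lit 408) (nat_lit 321) (nat_lit 171))))) (XT.nd (nat_lit 234) (nat_lit 0) (nat_lit 0) (XT.nd (nat_lit 78) (nat_lit 76) (nat_lit 0) (XT.lf (nat_lit 0) (nat_lit 13075467833) (nat_lit 152) (nat_lit 35003759466) (nat_lit 76) (nat_lit 175940338567) (nat_lit 9) (nat_lit 5) (nat_lit 11) (nat_lit 5) (nat_lit 10) (nat_lit 4) (nat_lit 409) (nat_lit 321) (nat_lit 170)) (XT.nd (nat_lit 78) (nat_lit 0) (nat_lit 0) (XT.lf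 (nat_lit 0) (nat_lit 13651079079) (nat_lit 76) (nat_lit 23159363667) (nat_lit 152) (nat_lit 197104689828) (nat_lit 8) (nat_lit 5) (nat_lit 9) (nat_lit 5) (nat_lit 10) (nat_lit 4) (nat_lit 410) (nat_lit 321) (nat_lit 169)) (XT.lf (nat_lit 0) (nat_lit 62380043269) (nat_lit 152) (nat_lit 178381664146) (nat_lit 0) (nat_lit 3511376598) (nat_lit 8) (nat_lit 5) (nat_lit 10) (nat_lit 4) (nat_lit 8) (nat_lit 4) (nat_lit 411) (nat_lit 321) (nat_lit 168)))) (XT.nd (nat_lit 78) (nat_lit 0) (nat_lit 0) (XT.lf (nat_lit 0) (nat_lit 89606274424) (nat_lit 152) (nat_lit 134787750306) (nat_lit 0) (nat_lit 30736000993) (nat_lit 8) (nat_lit 5) (nat_lit 10) (nat_lit 4) (nat_lit 8) (nat_lit 4) (nat_lit 412) (nat_lit 321) (nat_lit 167)) (XT.nd (nat_lit 78) (nat_lit 0) (nat_lit 0) (XT.lf (nat_lit 0) (nat_lit 118192377999) (nat_lit 152) (nat_lit 89016934372) (nat_lit 0) (nat_lit 59320574321) (nat_lit 8) (nat_lit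 5) (nat_lit 10) (nat_lit 4) (nat_lit 8) (nat_lit 4) (nat_lit 413) (nat_lit 321) (nat_lit 166)) (XT.lf (nat_lit 0) (nat_lit 148206416148) (nat_lit 152) (nat_lit 40960238211) (nat_lit 0) (nat_lit 89333155090) (nat_lit 8) (nat_lit 5) (nat_lit 10) (nat_lit 4) (nat_lit 8) (nat_lit 4) (nat_lit 414) (nat_lit 321) (nat_lit 165))))))) (XT.nd (nat_lit 936) (nat_lit 76) (nat_lit 0) (XT.nd (nat_lit 468) (nat_lit 76) (nat_lit 0) (XT.nd (nat_lit 234) (nat_lit 76) (nat_lit 0) (XT.nd (nat_lit 78) (nat_lit 0) (nat_lit 0) (XT.lf (nat_lit 0) (nat_lit 9810764619) (nat_lit 76) (nat_lit 170062259774) (nat_lit 76) (nat_lit 111187610737) (nat_lit 7) (nat_lit 4) (nat_lit 8) (nat_lit 5) (nat_lit 8) (nat_lit 4) (nat_lit 415) (nat_lit 321) (nat_lit 164)) (XT.nd (nat_lit 78) (nat_lit 0) (nat_lit 0) (XT.lf (nat_lit 0) (nat_lit 64539871566) (nat_lit 76) (nat_lit 149275490837) (nat_lit 76) (nat_lit 90399519915) (nat_lit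 7) (nat_lit 4) (nat_lit 8) (nat_lit 5) (nat_lit 8) (nat_lit 4) (nat_lit 416) (nat_lit 321) (nat_lit 163)) (XT.lf (nat_lit 0) (nat_lit 122003059567) (nat_lit 76) (nat_lit 127450536695) (nat_lit 76) (nat_lit 68573306834) (nat_lit 7) (nat_lit 4) (nat_lit 8) (nat_lit 5) (nat_lit 8) (nat_lit 4) (nat_lit 417) (nat_lit 321) (nat_lit 162)))) (XT.nd (nat_lit 78) (nat_lit 76) (nat_lit 0) (XT.lf (nat_lit 0) (nat_lit 182337145738) (nat_lit 76) (nat_lit 104535433170) (nat_lit 76) (nat_lit 45657004320) (nat_lit 7) (nat_lit 4) (nat_lit 8) (nat_lit 5) (nat_lit 8) (nat_lit 4) (nat_lit 418) (nat_lit 321) (nat_lit 161)) (XT.nd (nat_lit 78) (nat_lit 76) (nat_lit 0) (XT.lf (nat_lit 0) (nat_lit 245685782665) (nat_lit 76) (nat_lit 80475620493) (nat_lit 76) (nat_lit 21596049749) (nat_lit 7) (nat_lit 4) (nat_lit 8) (nat_lit 5) (nat_lit 8) (nat_lit 4) (nat_lit 419) (nat_lit 321) (nat_lit 160)) (XT.lf (nat_lit 0)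 (nat_lit 3549482931) (nat_lit 152) (nat_lit 51604218253) (nat_lit 76) (nat_lit 308590205294) (nat_lit 6) (nat_lit 5) (nat_lit 8) (nat_lit 5) (nat_lit 7) (nat_lit 4) (nat_lit 420) (nat_lit 321) (nat_lit 159))))) (XT.nd (nat_lit 234) (nat_lit 0) (nat_lit 0) (XT.nd (nat_lit 78) (nat_lit 0) (nat_lit 0) (XT.lf (nat_lit 0) (nat_lit 1064661302) (nat_lit 76) (nat_lit 28177463232) (nat_lit 152) (nat_lit 351269076593) (nat_lit 5) (nat_lit 5) (nat_lit 6) (nat_lit 5) (nat_lit 7) (nat_lit 4) (nat_lit 421) (nat_lit 321) (nat_lit 158)) (XT.nd (nat_lit 78) (nat_lit 0) (nat_lit 0) (XT.lf (nat_lit 0) (nat_lit 57108953854) (nat_lit 152) (nat_lit 339933218398) (nat_lit 0) (nat_lit 1030210610) (nat_lit 5) (nat_lit 5) (nat_lit 7) (nat_lit 4) (nat_lit 5) (nat_lit 4) (nat_lit 422) (nat_lit 321) (nat_lit 157)) (XT.lf (nat_lit 0) (nat_lit 86830080802) (nat_lit 152) (nat_lit 298908052346) (nat_lit 0) (nat_lit 30750442855)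 (nat_lit 5) (nat_lit 5) (nat_lit 7) (nat_lit 4) (nat_lit 5) (nat_lit 4) (nat_lit 423) (nat_lit 321) (nat_lit 156)))) (XT.nd (nat_lit 78) (nat_lit 0) (nat_lit 0) (XT.lf (nat_lit 0) (nat_lit 118036340800) (nat_lit 152) (nat_lit 255833433534) (nat_lit 0) (nat_lit 61955850754) (nat_lit 5) (nat_lit 5) (nat_lit 7) (nat_lit 4) (nat_lit 5) (nat_lit 4) (nat_lit 424) (nat_lit 321) (nat_lit 155)) (XT.nd (nat_lit 78) (nat_lit 0) (nat_lit 0) (XT.lf (nat_lit 0) (nat_lit 150802034466) (nat_lit 152) (nat_lit 210606803345) (nat_lit 0) (nat_lit 94720732897) (nat_lit 5) (nat_lit 5) (nat_lit 7) (nat_lit 4) (nat_lit 5) (nat_lit 4) (nat_lit 425) (nat_lit 321) (nat_lit 154)) (XT.lf (nat_lit 0) (nat_lit 185205175357) (nat_lit 152) (nat_lit 163120479327) (nat_lit 0) (nat_lit 129123100909) (nat_lit 5) (nat_lit 5) (nat_lit 7) (nat_lit 4) (nat_lit 5) (nat_lit 4) (nat_lit 426) (nat_lit 321) (nat_lit 153)))))) (XT.nd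 (nat_lit 38688) (nat_lit 0) (nat_lit 8132) (XT.nd (nat_lit 234) (nat_lit 76) (nat_lit 0) (XT.nd (nat_lit 78) (nat_lit 0) (nat_lit 0) (XT.lf (nat_lit 0) (nat_lit 221327675713) (nat_lit 152) (nat_lit 113261398804) (nat_lit 0) (nat_lit 165244865189) (nat_lit 5) (nat_lit 5) (nat_lit 7) (nat_lit 4) (nat_lit 5) (nat_lit 4) (nat_lit 427) (nat_lit 321) (nat_lit 152)) (XT.nd (nat_lit 78) (nat_lit 0) (nat_lit 0) (XT.lf (nat_lit 0) (nat_lit 259255541486) (nat_lit 152) (nat_lit 60910849679) (nat_lit 0) (nat_lit 203172029938) (nat_lit 5) (nat_lit 5) (nat_lit 7) (nat_lit 4) (nat_lit 5) (nat_lit 4) (nat_lit 428) (nat_lit 321) (nat_lit 151)) (XT.lf (nat_lit 0) (nat_lit 299079077120) (nat_lit 152) (nat_lit 5944187788) (nat_lit 0) (nat_lit 242994897930) (nat_lit 5) (nat_lit 5) (nat_lit 7) (nat_lit 4) (nat_lit 5) (nat_lit 4) (nat_lit 429) (nat_lit 321) (nat_lit 150)))) (XT.nd (nat_lit 78) (nat_lit 0) (nat_lit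 0) (XT.lf (nat_lit 0) (nat_lit 53481192015) (nat_lit 76) (nat_lit 288246899829) (nat_lit 76) (nat_lit 232162084790) (nat_lit 4) (nat_lit 4) (nat_lit 5) (nat_lit 5) (nat_lit 5) (nat_lit 4) (nat_lit 430) (nat_lit 321) (nat_lit 149)) (XT.nd (nat_lit 78) (nat_lit 0) (nat_lit 0) (XT.lf (nat_lit 0) (nat_lit 116082883993) (nat_lit 76) (nat_lit 270526664141) (nat_lit 76) (nat_lit 214441243531) (nat_lit 4) (nat_lit 4) (nat_lit 5) (nat_lit 5) (nat_lit 5) (nat_lit 4) (nat_lit 431) (nat_lit 321) (nat_lit 148)) (XT.lf (nat_lit 0) (nat_lit 181813398102) (nat_lit 76) (nat_lit 251921034502) (nat_lit 76) (nat_lit 195835037157) (nat_lit 4) (nat_lit 4) (nat_lit 5) (nat_lit 5) (nat_lit 5) (nat_lit 4) (nat_lit 432) (nat_lit 321) (nat_lit 147))))) (XT.nd (nat_lit 234) (nat_lit 0) (nat_lit 76) (XT.nd (nat_lit 78) (nat_lit 0) (nat_lit 0) (XT.lf (nat_lit 0) (nat_lit 1810514767) (nat_lit 0) (nat_lit 1810514767)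 (nat_lit 684) (nat_lit 2494084837) (nat_lit 111) (nat_lit 5) (nat_lit 111) (nat_lit 3) (nat_lit 120) (nat_lit 3) (nat_lit 322) (nat_lit 322) (nat_lit 256)) (XT.nd (nat_lit 78) (nat_lit 0) (nat_lit 0) (XT.lf (nat_lit 0) (nat_lit 7889368382) (nat_lit 684) (nat_lit 2839451723) (nat_lit 760) (nat_lit 1783358066) (nat_lit 111) (nat_lit 5) (nat_lit 120) (nat_lit 3) (nat_lit 121) (nat_lit 5) (nat_lit 323) (nat_lit 322) (nat_lit 255)) (XT.lf (nat_lit 76) (nat_lit 3247716200) (nat_lit 0) (nat_lit 5403607591) (nat_lit 760) (nat_lit 4152818834) (nat_lit 112) (nat_lit 5) (nat_lit 111) (nat_lit 5) (nat_lit 121) (nat_lit 5) (nat_lit 324) (nat_lit 322) (nat_lit 254)))) (XT.nd (nat_lit 78) (nat_lit 0) (nat_lit 0) (XT.lf (nat_lit 0) (nat_lit 9476658620) (nat_lit 684) (nat_lit 3391142751) (nat_lit 760) (nat_lit 241669926) (nat_lit 112) (nat_lit 5) (nat_lit 121) (nat_lit 5) (nat_lit 122) (nat_lit 5) (nat_lit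 325) (nat_lit 322) (nat_lit 253)) (XT.nd (nat_lit 78) (nat_lit 0) (nat_lit 0) (XT.lf (nat_lit 76) (nat_lit 3076141621) (nat_lit 0) (nat_lit 7378465427) (nat_lit 760) (nat_lit 2969920659) (nat_lit 113) (nat_lit 5) (nat_lit 112) (nat_lit 5) (nat_lit 122) (nat_lit 5) (nat_lit 326) (nat_lit 322) (nat_lit 252)) (XT.lf (nat_lit 76) (nat_lit 9968647787) (nat_lit 0) (nat_lit 1545926885) (nat_lit 760) (nat_lit 2239133462) (nat_lit 113) (nat_lit 5) (nat_lit 112) (nat_lit 5) (nat_lit 122) (nat_lit 5) (nat_lit 327) (nat_lit 322) (nat_lit 251))))))))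
noncomputable def xc158 : XT := (XT.nd (nat_lit 1794) (nat_lit 2508) (nat_lit 0) (XT.nd (nat_lit 858) (nat_lit 1900) (nat_lit 0) (XT.nd (nat_lit 390) (nat_lit 1368) (nat_lit 0) (XT.nd (nat_lit 156) (nat_lit 684) (nat_lit 0) (XT.nd (nat_lit 78) (nat_lit 0) (nat_lit 0) (XT.lf (nat_lit 76) (nat_lit 3118330356) (nat_lit 0) (nat_lit 9606349428) (nat_lit 760) (nat_lit 1369836824) (nat_lit 114) (nat_lit 5) (nat_lit 113) (nat_lit 5) (nat_lit 123) (nat_lit 5) (nat_lit 328) (nat_lit 322) (nat_lit 250)) (XT.lf (nat_lit 76) (nat_lit 10455955063) (nat_lit 0) (nat_lit 3606189439) (nat_lit 760) (nat_lit 386903036) (nat_lit 114) (nat_lit 5) (nat_lit 113) (nat_lit 5) (nat_lit 123) (nat_lit 5) (nat_lit 329) (nat_lit 322) (nat_lit 249))) (XT.nd (nat_lit 78) (nat_lit 0) (nat_lit 0) (XT.lf (nat_lit 0) (nat_lit 699653342) (nat_lit 760) (nat_lit 11439914756) (nat_lit 836) (nat_lit 2677499428) (nat_lit 104) (nat_lit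 5) (nat_lit 114) (nat_lit 5) (nat_lit 115) (nat_lit 5) (nat_lit 330) (nat_lit 322) (nat_lit 248)) (XT.nd (nat_lit 78) (nat_lit 0) (nat_lit 76) (XT.lf (nat_lit 0) (nat_lit 1934743425) (nat_lit 760) (nat_lit 4029134675) (nat_lit 836) (nat_lit 9233954239) (nat_lit 104) (nat_lit 5) (nat_lit 114) (nat_lit 5) (nat_lit 115) (nat_lit 5) (nat_lit 331) (nat_lit 322) (nat_lit 247)) (XT.lf (nat_lit 0) (nat_lit 3281355910) (nat_lit 760) (nat_lit 11745272780) (nat_lit 76) (nat_lit 568538668) (nat_lit 105) (nat_lit 5) (nat_lit 115) (nat_lit 5) (nat_lit 106) (nat_lit 5) (nat_lit 332) (nat_lit 322) (nat_lit 246))))) (XT.nd (nat_lit 234) (nat_lit 684) (nat_lit 0) (XT.nd (nat_lit 78) (nat_lit 760) (nat_lit 0) (XT.lf (nat_lit 0) (nat_lit 4843496430) (nat_lit 760) (nat_lit 3862031309) (nat_lit 76) (nat_lit 7299450907) (nat_lit 105) (nat_lit 5) (nat_lit 115) (nat_lit 5) (nat_lit 106) (nat_lit 5) (nat_lit 333)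 (nat_lit 322) (nat_lit 245)) (XT.nd (nat_lit 78) (nat_lit 0) (nat_lit 0) (XT.lf (nat_lit 0) (nat_lit 4544693085) (nat_lit 760) (nat_lit 1991982440) (nat_lit 836) (nat_lit 9895976863) (nat_lit 95) (nat_lit 5) (nat_lit 105) (nat_lit 5) (nat_lit 106) (nat_lit 5) (nat_lit 334) (nat_lit 322) (nat_lit 244)) (XT.lf (nat_lit 0) (nat_lit 8442559377) (nat_lit 836) (nat_lit 3469424420) (nat_lit 76) (nat_lit 4963341316) (nat_lit 95) (nat_lit 5) (nat_lit 106) (nat_lit 5) (nat_lit 96) (nat_lit 5) (nat_lit 335) (nat_lit 322) (nat_lit 243)))) (XT.nd (nat_lit 78) (nat_lit 304) (nat_lit 0) (XT.lf (nat_lit 0) (nat_lit 5497340836) (nat_lit 380) (nat_lit 5048319524) (nat_lit 456) (nat_lit 6789391718) (nat_lit 90) (nat_lit 5) (nat_lit 95) (nat_lit 5) (nat_lit 96) (nat_lit 5) (nat_lit 336) (nat_lit 322) (nat_lit 242)) (XT.nd (nat_lit 78) (nat_lit 304) (nat_lit 0) (XT.lf (nat_lit 0) (nat_lit 12831322738) (nat_lit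 456) (nat_lit 2833150116) (nat_lit 76) (nat_lit 2149438170) (nat_lit 90) (nat_lit 5) (nat_lit 96) (nat_lit 5) (nat_lit 91) (nat_lit 5) (nat_lit 337) (nat_lit 322) (nat_lit 241)) (XT.lf (nat_lit 0) (nat_lit 6738798024) (nat_lit 304) (nat_lit 8665189711) (nat_lit 380) (nat_lit 2904104401) (nat_lit 86) (nat_lit 5) (nat_lit 90) (nat_lit 5) (nat_lit 91) (nat_lit 5) (nat_lit 338) (nat_lit 322) (nat_lit 240)))))) (XT.nd (nat_lit 468) (nat_lit 836) (nat_lit 0) (XT.nd (nat_lit 234) (nat_lit 608) (nat_lit 0) (XT.nd (nat_lit 78) (nat_lit 456) (nat_lit 0) (XT.lf (nat_lit 0) (nat_lit 16872193100) (nat_lit 304) (nat_lit 1266306377) (nat_lit 380) (nat_lit 686836621) (nat_lit 86) (nat_lit 5) (nat_lit 90) (nat_lit 5) (nat_lit 91) (nat_lit 5) (nat_lit 339) (nat_lit 322) (nat_lit 239)) (XT.nd (nat_lit 78) (nat_lit 0) (nat_lit 0) (XT.lf (nat_lit 0) (nat_lit 1809217673) (nat_lit 456) (nat_lit 11094573867) (nat_lit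 76) (nat_lit 6452359840) (nat_lit 80) (nat_lit 5) (nat_lit 86) (nat_lit 5) (nat_lit 81) (nat_lit 5) (nat_lit 340) (nat_lit 322) (nat_lit 238)) (XT.lf (nat_lit 0) (nat_lit 4447492262) (nat_lit 456) (nat_lit 905271880) (nat_lit 76) (nat_lit 14558167812) (nat_lit 80) (nat_lit 5) (nat_lit 86) (nat_lit 5) (nat_lit 81) (nat_lit 5) (nat_lit 341) (nat_lit 322) (nat_lit 237)))) (XT.nd (nat_lit 78) (nat_lit 304) (nat_lit 0) (XT.lf (nat_lit 0) (nat_lit 7404955069) (nat_lit 380) (nat_lit 10427147087) (nat_lit 76) (nat_lit 2651997581) (nat_lit 76) (nat_lit 5) (nat_lit 81) (nat_lit 5) (nat_lit 77) (nat_lit 5) (nat_lit 342) (nat_lit 322) (nat_lit 236)) (XT.nd (nat_lit 78) (nat_lit 0) (nat_lit 0) (XT.lf (nat_lit 0) (nat_lit 423786293) (nat_lit 304) (nat_lit 10183606092) (nat_lit 380) (nat_lit 10473689792) (nat_lit 72) (nat_lit 5) (nat_lit 76) (nat_lit 5) (nat_lit 77) (nat_lit 5) (nat_lit 343) (nat_lit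 322) (nat_lit 235)) (XT.lf (nat_lit 0) (nat_lit 12164186661) (nat_lit 304) (nat_lit 1969882045) (nat_lit 380) (nat_lit 7565649973) (nat_lit 72) (nat_lit 5) (nat_lit 76) (nat_lit 5) (nat_lit 77) (nat_lit 5) (nat_lit 344) (nat_lit 322) (nat_lit 234))))) (XT.nd (nat_lit 234) (nat_lit 228) (nat_lit 0) (XT.nd (nat_lit 78) (nat_lit 380) (nat_lit 0) (XT.lf (nat_lit 0) (nat_lit 2090396388) (nat_lit 228) (nat_lit 15871298596) (nat_lit 304) (nat_lit 4381371498) (nat_lit 69) (nat_lit 5) (nat_lit 72) (nat_lit 5) (nat_lit 73) (nat_lit 5) (nat_lit 345) (nat_lit 322) (nat_lit 233)) (XT.nd (nat_lit 78) (nat_lit 380) (nat_lit 0) (XT.lf (nat_lit 0) (nat_lit 14580619756) (nat_lit 228) (nat_lit 7581765384) (nat_lit 304) (nat_lit 847122199) (nat_lit 69) (nat_lit 5) (nat_lit 72) (nat_lit 5) (nat_lit 73) (nat_lit 5) (nat_lit 346) (nat_lit 322) (nat_lit 232)) (XT.lf (nat_lit 0) (nat_lit 2843543928) (nat_lit 380)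 (nat_lit 19666837861) (nat_lit 76) (nat_lit 1193093449) (nat_lit 64) (nat_lit 5) (nat_lit 69) (nat_lit 5) (nat_lit 65) (nat_lit 5) (nat_lit 347) (nat_lit 322) (nat_lit 231)))) (XT.nd (nat_lit 78) (nat_lit 228) (nat_lit 0) (XT.lf (nat_lit 0) (nat_lit 6948698950) (nat_lit 380) (nat_lit 7162096328) (nat_lit 76) (nat_lit 10307739129) (nat_lit 64) (nat_lit 5) (nat_lit 69) (nat_lit 5) (nat_lit 65) (nat_lit 5) (nat_lit 348) (nat_lit 322) (nat_lit 230)) (XT.nd (nat_lit 78) (nat_lit 0) (nat_lit 0) (XT.lf (nat_lit 0) (nat_lit 6150799527) (nat_lit 228) (nat_lit 5193910845) (nat_lit 304) (nat_lit 13820364287) (nat_lit 61) (nat_lit 5) (nat_lit 64) (nat_lit 5) (nat_lit 65) (nat_lit 5) (nat_lit 349) (nat_lit 322) (nat_lit 229)) (XT.lf (nat_lit 0) (nat_lit 16138685501) (nat_lit 304) (nat_lit 5646141816) (nat_lit 76) (nat_lit 4155214122) (nat_lit 61) (nat_lit 5) (nat_lit 65) (nat_lit 5) (nat_lit 62) (nat_lit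 5) (nat_lit 350) (nat_lit 322) (nat_lit 228))))))) (XT.nd (nat_lit 936) (nat_lit 988) (nat_lit 0) (XT.nd (nat_lit 468) (nat_lit 760) (nat_lit 0) (XT.nd (nat_lit 234) (nat_lit 228) (nat_lit 0) (XT.nd (nat_lit 78) (nat_lit 304) (nat_lit 0) (XT.lf (nat_lit 0) (nat_lit 8565908745) (nat_lit 228) (nat_lit 12815614770) (nat_lit 304) (nat_lit 5361782146) (nat_lit 58) (nat_lit 5) (nat_lit 61) (nat_lit 5) (nat_lit 62) (nat_lit 5) (nat_lit 351) (nat_lit 322) (nat_lit 227)) (XT.nd (nat_lit 78) (nat_lit 304) (nat_lit 0) (XT.lf (nat_lit 0) (nat_lit 23671295052) (nat_lit 228) (nat_lit 3301364113) (nat_lit 304) (nat_lit 609773101) (nat_lit 58) (nat_lit 5) (nat_lit 61) (nat_lit 5) (nat_lit 62) (nat_lit 5) (nat_lit 352) (nat_lit 322) (nat_lit 226)) (XT.lf (nat_lit 0) (nat_lit 4516092096) (nat_lit 304) (nat_lit 17209722901) (nat_lit 76) (nat_lit 6720465550) (nat_lit 54) (nat_lit 5) (nat_lit 58) (nat_lit 5)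 (nat_lit 55) (nat_lit 5) (nat_lit 353) (nat_lit 322) (nat_lit 225)))) (XT.nd (nat_lit 78) (nat_lit 228) (nat_lit 0) (XT.lf (nat_lit 0) (nat_lit 9990211545) (nat_lit 304) (nat_lit 2150937608) (nat_lit 76) (nat_lit 17206055618) (nat_lit 54) (nat_lit 5) (nat_lit 58) (nat_lit 5) (nat_lit 55) (nat_lit 5) (nat_lit 354) (nat_lit 322) (nat_lit 224)) (XT.nd (nat_lit 78) (nat_lit 0) (nat_lit 0) (XT.lf (nat_lit 0) (nat_lit 14099537867) (nat_lit 228) (nat_lit 1850070294) (nat_lit 304) (nat_lit 14332994212) (nat_lit 51) (nat_lit 5) (nat_lit 54) (nat_lit 5) (nat_lit 55) (nat_lit 5) (nat_lit 355) (nat_lit 322) (nat_lit 223)) (XT.lf (nat_lit 0) (nat_lit 22375411594) (nat_lit 304) (nat_lit 178835403) (nat_lit 76) (nat_lit 8702106464) (nat_lit 51) (nat_lit 5) (nat_lit 55) (nat_lit 5) (nat_lit 52) (nat_lit 5) (nat_lit 356) (nat_lit 322) (nat_lit 222))))) (XT.nd (nat_lit 234) (nat_lit 304) (nat_lit 0) (XT.nd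 (nat_lit 78) (nat_lit 304) (nat_lit 0) (XT.lf (nat_lit 0) (nat_lit 17131514321) (nat_lit 152) (nat_lit 12280782483) (nat_lit 228) (nat_lit 2852010909) (nat_lit 49) (nat_lit 5) (nat_lit 51) (nat_lit 5) (nat_lit 52) (nat_lit 5) (nat_lit 357) (nat_lit 322) (nat_lit 221)) (XT.nd (nat_lit 78) (nat_lit 0) (nat_lit 0) (XT.lf (nat_lit 0) (nat_lit 1988210614) (nat_lit 228) (nat_lit 1405000988) (nat_lit 304) (nat_lit 29925428712) (nat_lit 45) (nat_lit 5) (nat_lit 48) (nat_lit 5) (nat_lit 49) (nat_lit 5) (nat_lit 358) (nat_lit 322) (nat_lit 220)) (XT.lf (nat_lit 0) (nat_lit 10263867727) (nat_lit 304) (nat_lit 14141825868) (nat_lit 76) (nat_lit 9997211786) (nat_lit 45) (nat_lit 5) (nat_lit 49) (nat_lit 5) (nat_lit 46) (nat_lit 5) (nat_lit 359) (nat_lit 322) (nat_lit 219)))) (XT.nd (nat_lit 78) (nat_lit 152) (nat_lit 0) (XT.lf (nat_lit 0) (nat_lit 3999488226) (nat_lit 152) (nat_lit 13556597546) (nat_lit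 228) (nat_lit 17981400744) (nat_lit 43) (nat_lit 5) (nat_lit 45) (nat_lit 5) (nat_lit 46) (nat_lit 5) (nat_lit 360) (nat_lit 322) (nat_lit 218)) (XT.nd (nat_lit 78) (nat_lit 152) (nat_lit 0) (XT.lf (nat_lit 0) (nat_lit 23527333200) (nat_lit 152) (nat_lit 1917808234) (nat_lit 228) (nat_lit 11272048009) (nat_lit 43) (nat_lit 5) (nat_lit 45) (nat_lit 5) (nat_lit 46) (nat_lit 5) (nat_lit 361) (nat_lit 322) (nat_lit 217)) (XT.lf (nat_lit 0) (nat_lit 6098788444) (nat_lit 152) (nat_lit 27878949437) (nat_lit 228) (nat_lit 3965689111) (nat_lit 41) (nat_lit 5) (nat_lit 43) (nat_lit 5) (nat_lit 44) (nat_lit 5) (nat_lit 362) (nat_lit 322) (nat_lit 216)))))) (XT.nd (nat_lit 468) (nat_lit 456) (nat_lit 0) (XT.nd (nat_lit 234) (nat_lit 304) (nat_lit 0) (XT.nd (nat_lit 78) (nat_lit 152) (nat_lit 0) (XT.lf (nat_lit 0) (nat_lit 3838906849) (nat_lit 228) (nat_lit 12514280482) (nat_lit 76) (nat_lit 22862322866)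 (nat_lit 40) (nat_lit 5) (nat_lit 43) (nat_lit 5) (nat_lit 41) (nat_lit 5) (nat_lit 363) (nat_lit 322) (nat_lit 215)) (XT.nd (nat_lit 78) (nat_lit 0) (nat_lit 0) (XT.lf (nat_lit 0) (nat_lit 7961646561) (nat_lit 152) (nat_lit 4056503055) (nat_lit 228) (nat_lit 28523916220) (nat_lit 38) (nat_lit 5) (nat_lit 40) (nat_lit 5) (nat_lit 41) (nat_lit 5) (nat_lit 364) (nat_lit 322) (nat_lit 214)) (XT.lf (nat_lit 0) (nat_lit 20953487703) (nat_lit 228) (nat_lit 12181089432) (nat_lit 76) (nat_lit 8783018652) (nat_lit 38) (nat_lit 5) (nat_lit 41) (nat_lit 5) (nat_lit 39) (nat_lit 5) (nat_lit 365) (nat_lit 322) (nat_lit 213)))) (XT.nd (nat_lit 78) (nat_lit 152) (nat_lit 0) (XT.lf (nat_lit 0) (nat_lit 9464291375) (nat_lit 152) (nat_lit 21079348173) (nat_lit 228) (nat_lit 12807863382) (nat_lit 36) (nat_lit 5) (nat_lit 38) (nat_lit 5) (nat_lit 39) (nat_lit 5) (nat_lit 366) (nat_lit 322) (nat_lit 212)) (XT.nd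 (nat_lit 78) (nat_lit 152) (nat_lit 0) (XT.lf (nat_lit 0) (nat_lit 32604675878) (nat_lit 152) (nat_lit 8208835796) (nat_lit 228) (nat_lit 4033586011) (nat_lit 36) (nat_lit 5) (nat_lit 38) (nat_lit 5) (nat_lit 39) (nat_lit 5) (nat_lit 367) (nat_lit 322) (nat_lit 211)) (XT.lf (nat_lit 0) (nat_lit 5262227530) (nat_lit 152) (nat_lit 35754652514) (nat_lit 76) (nat_lit 5384121726) (nat_lit 34) (nat_lit 5) (nat_lit 36) (nat_lit 5) (nat_lit 35) (nat_lit 5) (nat_lit 368) (nat_lit 322) (nat_lit 210))))) (XT.nd (nat_lit 234) (nat_lit 304) (nat_lit 0) (XT.nd (nat_lit 78) (nat_lit 152) (nat_lit 0) (XT.lf (nat_lit 0) (nat_lit 15226756892) (nat_lit 152) (nat_lit 13131688515) (nat_lit 76) (nat_lit 19653877929) (nat_lit 34) (nat_lit 5) (nat_lit 36) (nat_lit 5) (nat_lit 35) (nat_lit 5) (nat_lit 369) (nat_lit 322) (nat_lit 209)) (XT.nd (nat_lit 78) (nat_lit 0) (nat_lit 0) (XT.lf (nat_lit 0) (nat_lit 10963861606)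 (nat_lit 152) (nat_lit 14891283712) (nat_lit 228) (nat_lit 23840786411) (nat_lit 32) (nat_lit 5) (nat_lit 34) (nat_lit 5) (nat_lit 35) (nat_lit 5) (nat_lit 370) (nat_lit 322) (nat_lit 208)) (XT.lf (nat_lit 0) (nat_lit 36710770498) (nat_lit 152) (nat_lit 521148629) (nat_lit 228) (nat_lit 14220955382) (nat_lit 32) (nat_lit 5) (nat_lit 34) (nat_lit 5) (nat_lit 35) (nat_lit 5) (nat_lit 371) (nat_lit 322) (nat_lit 207)))) (XT.nd (nat_lit 78) (nat_lit 228) (nat_lit 0) (XT.lf (nat_lit 0) (nat_lit 10548457498) (nat_lit 76) (nat_lit 39015979399) (nat_lit 152) (nat_lit 3713884427) (nat_lit 31) (nat_lit 5) (nat_lit 32) (nat_lit 5) (nat_lit 33) (nat_lit 4) (nat_lit 372) (nat_lit 322) (nat_lit 206)) (XT.nd (nat_lit 78) (nat_lit 152) (nat_lit 0) (XT.lf (nat_lit 0) (nat_lit 7341400410) (nat_lit 152) (nat_lit 17703204325) (nat_lit 76) (nat_lit 30131869588) (nat_lit 30) (nat_lit 5) (nat_lit 32) (nat_lit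 5) (nat_lit 31) (nat_lit 5) (nat_lit 373) (nat_lit 322) (nat_lit 205)) (XT.lf (nat_lit 0) (nat_lit 8786452314) (nat_lit 152) (nat_lit 10170413520) (nat_lit 228) (nat_lit 38203015475) (nat_lit 28) (nat_lit 5) (nat_lit 30) (nat_lit 5) (nat_lit 31) (nat_lit 5) (nat_lit 374) (nat_lit 322) (nat_lit 204))))))))
noncomputable def xc159 : XT := (XT.nd (nat_lit 1872) (nat_lit 684) (nat_lit 0) (XT.nd (nat_lit 936) (nat_lit 456) (nat_lit 0) (XT.nd (nat_lit 468) (nat_lit 304) (nat_lit 0) (XT.nd (nat_lit 234) (nat_lit 228) (nat_lit 0) (XT.nd (nat_lit 78) (nat_lit 76) (nat_lit 0) (XT.lf (nat_lit 0) (nat_lit 31537973599) (nat_lit 228) (nat_lit 22110947233) (nat_lit 76) (nat_lit 5574296134) (nat_lit 28) (nat_lit 5) (nat_lit 31) (nat_lit 5) (nat_lit 29) (nat_lit 4) (nat_lit 375) (nat_lit 322) (nat_lit 203)) (XT.nd (nat_lit 78) (nat_lit 0) (nat_lit 0) (XT.lf (nat_lit 0) (nat_lit 5464523920) (nat_lit 76)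 (nat_lit 39530982440) (nat_lit 152) (nat_lit 16381846256) (nat_lit 27) (nat_lit 5) (nat_lit 28) (nat_lit 5) (nat_lit 29) (nat_lit 4) (nat_lit 376) (nat_lit 322) (nat_lit 202)) (XT.lf (nat_lit 0) (nat_lit 35178239255) (nat_lit 76) (nat_lit 24317556123) (nat_lit 152) (nat_lit 4124907301) (nat_lit 27) (nat_lit 5) (nat_lit 28) (nat_lit 5) (nat_lit 29) (nat_lit 4) (nat_lit 377) (nat_lit 322) (nat_lit 201)))) (XT.nd (nat_lit 78) (nat_lit 0) (nat_lit 0) (XT.lf (nat_lit 0) (nat_lit 265453710) (nat_lit 152) (nat_lit 8199243768) (nat_lit 228) (nat_lit 57504712144) (nat_lit 24) (nat_lit 5) (nat_lit 26) (nat_lit 5) (nat_lit 27) (nat_lit 5) (nat_lit 378) (nat_lit 322) (nat_lit 200)) (XT.nd (nat_lit 78) (nat_lit 0) (nat_lit 0) (XT.lf (nat_lit 0) (nat_lit 22166563925) (nat_lit 228) (nat_lit 37234949446) (nat_lit 76) (nat_lit 8999588591) (nat_lit 24) (nat_lit 5) (nat_lit 27) (nat_lit 5) (nat_lit 25) (nat_lit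 4) (nat_lit 379) (nat_lit 322) (nat_lit 199)) (XT.lf (nat_lit 0) (nat_lit 36683747543) (nat_lit 228) (nat_lit 7484494389) (nat_lit 76) (nat_lit 26779627120) (nat_lit 24) (nat_lit 5) (nat_lit 27) (nat_lit 5) (nat_lit 25) (nat_lit 4) (nat_lit 380) (nat_lit 322) (nat_lit 198))))) (XT.nd (nat_lit 234) (nat_lit 76) (nat_lit 0) (XT.nd (nat_lit 78) (nat_lit 152) (nat_lit 0) (XT.lf (nat_lit 0) (nat_lit 24531415341) (nat_lit 76) (nat_lit 27774388685) (nat_lit 152) (nat_lit 21297221050) (nat_lit 23) (nat_lit 5) (nat_lit 24) (nat_lit 5) (nat_lit 25) (nat_lit 4) (nat_lit 381) (nat_lit 322) (nat_lit 197)) (XT.nd (nat_lit 78) (nat_lit 152) (nat_lit 0) (XT.lf (nat_lit 0) (nat_lit 58400855291) (nat_lit 76) (nat_lit 10430950131) (nat_lit 152) (nat_lit 7552992574) (nat_lit 23) (nat_lit 5) (nat_lit 24) (nat_lit 5) (nat_lit 25) (nat_lit 4) (nat_lit 382) (nat_lit 322) (nat_lit 196)) (XT.lf (nat_lit 0) (nat_lit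 7016104198) (nat_lit 152) (nat_lit 64391068959) (nat_lit 76) (nat_lit 7875227397) (nat_lit 21) (nat_lit 5) (nat_lit 23) (nat_lit 5) (nat_lit 22) (nat_lit 4) (nat_lit 383) (nat_lit 322) (nat_lit 195)))) (XT.nd (nat_lit 78) (nat_lit 76) (nat_lit 0) (XT.lf (nat_lit 0) (nat_lit 22536623630) (nat_lit 152) (nat_lit 32581660240) (nat_lit 76) (nat_lit 27176569535) (nat_lit 21) (nat_lit 5) (nat_lit 23) (nat_lit 5) (nat_lit 22) (nat_lit 4) (nat_lit 384) (nat_lit 322) (nat_lit 194)) (XT.nd (nat_lit 78) (nat_lit 0) (nat_lit 0) (XT.lf (nat_lit 0) (nat_lit 838459418) (nat_lit 76) (nat_lit 38004218455) (nat_lit 152) (nat_lit 46614776572) (nat_lit 20) (nat_lit 5) (nat_lit 21) (nat_lit 5) (nat_lit 22) (nat_lit 4) (nat_lit 385) (nat_lit 322) (nat_lit 193)) (XT.lf (nat_lit 0) (nat_lit 37054257679) (nat_lit 76) (nat_lit 19458050724) (nat_lit 152) (nat_lit 32238464399) (nat_lit 20) (nat_lit 5) (nat_lit 21)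 (nat_lit 5) (nat_lit 22) (nat_lit 4) (nat_lit 386) (nat_lit 322) (nat_lit 192)))))) (XT.nd (nat_lit 468) (nat_lit 228) (nat_lit 0) (XT.nd (nat_lit 234) (nat_lit 76) (nat_lit 0) (XT.nd (nat_lit 78) (nat_lit 152) (nat_lit 0) (XT.lf (nat_lit 0) (nat_lit 75062271693) (nat_lit 152) (nat_lit 17134456014) (nat_lit 0) (nat_lit 12187702) (nat_lit 20) (nat_lit 5) (nat_lit 22) (nat_lit 4) (nat_lit 20) (nat_lit 4) (nat_lit 387) (nat_lit 322) (nat_lit 191)) (XT.nd (nat_lit 78) (nat_lit 76) (nat_lit 0) (XT.lf (nat_lit 0) (nat_lit 19453346415) (nat_lit 76) (nat_lit 75705864235) (nat_lit 76) (nat_lit 649781476) (nat_lit 19) (nat_lit 4) (nat_lit 20) (nat_lit 5) (nat_lit 20) (nat_lit 4) (nat_lit 388) (nat_lit 322) (nat_lit 190)) (XT.lf (nat_lit 0) (nat_lit 16430036161) (nat_lit 152) (nat_lit 41380221741) (nat_lit 76) (nat_lit 41751214882) (nat_lit 18) (nat_lit 5) (nat_lit 20) (nat_lit 5) (nat_lit 19) (nat_lit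 4) (nat_lit 389) (nat_lit 322) (nat_lit 189)))) (XT.nd (nat_lit 78) (nat_lit 76) (nat_lit 0) (XT.lf (nat_lit 0) (nat_lit 34338941675) (nat_lit 152) (nat_lit 4672406495) (nat_lit 76) (nat_lit 64489850736) (nat_lit 18) (nat_lit 5) (nat_lit 20) (nat_lit 5) (nat_lit 19) (nat_lit 4) (nat_lit 390) (nat_lit 322) (nat_lit 188)) (XT.nd (nat_lit 78) (nat_lit 0) (nat_lit 0) (XT.lf (nat_lit 0) (nat_lit 34985085724) (nat_lit 76) (nat_lit 18701501893) (nat_lit 152) (nat_lit 53924159664) (nat_lit 17) (nat_lit 5) (nat_lit 18) (nat_lit 5) (nat_lit 19) (nat_lit 4) (nat_lit 391) (nat_lit 322) (nat_lit 187)) (XT.lf (nat_lit 0) (nat_lit 74120104079) (nat_lit 152) (nat_lit 35181883169) (nat_lit 0) (nat_lit 2617862085) (nat_lit 17) (nat_lit 5) (nat_lit 19) (nat_lit 4) (nat_lit 17) (nat_lit 4) (nat_lit 392) (nat_lit 322) (nat_lit 186))))) (XT.nd (nat_lit 234) (nat_lit 76) (nat_lit 0) (XT.nd (nat_lit 78) (nat_lit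 76) (nat_lit 0) (XT.lf (nat_lit 0) (nat_lit 3948673024) (nat_lit 76) (nat_lit 91992089577) (nat_lit 76) (nat_lit 20485371210) (nat_lit 16) (nat_lit 4) (nat_lit 17) (nat_lit 5) (nat_lit 17) (nat_lit 4) (nat_lit 393) (nat_lit 322) (nat_lit 185)) (XT.nd (nat_lit 78) (nat_lit 76) (nat_lit 0) (XT.lf (nat_lit 0) (nat_lit 46252065311) (nat_lit 76) (nat_lit 73193496989) (nat_lit 76) (nat_lit 1682515409) (nat_lit 16) (nat_lit 4) (nat_lit 17) (nat_lit 5) (nat_lit 17) (nat_lit 4) (nat_lit 394) (nat_lit 322) (nat_lit 184)) (XT.lf (nat_lit 0) (nat_lit 17479807267) (nat_lit 152) (nat_lit 35681436883) (nat_lit 76) (nat_lit 72889907848) (nat_lit 15) (nat_lit 5) (nat_lit 17) (nat_lit 5) (nat_lit 16) (nat_lit 4) (nat_lit 395) (nat_lit 322) (nat_lit 183)))) (XT.nd (nat_lit 78) (nat_lit 0) (nat_lit 0) (XT.lf (nat_lit 0) (nat_lit 5620440541) (nat_lit 76) (nat_lit 32008510279) (nat_lit 152) (nat_lit 93585788180)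 (nat_lit 14) (nat_lit 5) (nat_lit 15) (nat_lit 5) (nat_lit 16) (nat_lit 4) (nat_lit 396) (nat_lit 322) (nat_lit 182)) (XT.nd (nat_lit 78) (nat_lit 0) (nat_lit 0) (XT.lf (nat_lit 0) (nat_lit 50221533265) (nat_lit 76) (nat_lit 9165844603) (nat_lit 152) (nat_lit 77219036668) (nat_lit 14) (nat_lit 5) (nat_lit 15) (nat_lit 5) (nat_lit 16) (nat_lit 4) (nat_lit 397) (nat_lit 322) (nat_lit 181)) (XT.lf (nat_lit 0) (nat_lit 82462719815) (nat_lit 152) (nat_lit 45450879035) (nat_lit 0) (nat_lit 14342625795) (nat_lit 14) (nat_lit 5) (nat_lit 16) (nat_lit 4) (nat_lit 14) (nat_lit 4) (nat_lit 398) (nat_lit 322) (nat_lit 180))))))) (XT.nd (nat_lit 936) (nat_lit 304) (nat_lit 0) (XT.nd (nat_lit 468) (nat_lit 152) (nat_lit 0) (XT.nd (nat_lit 234) (nat_lit 152) (nat_lit 0) (XT.nd (nat_lit 78) (nat_lit 76) (nat_lit 0) (XT.lf (nat_lit 0) (nat_lit 106839829692) (nat_lit 152) (nat_lit 2624741582) (nat_lit 0)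 (nat_lit 38716554398) (nat_lit 14) (nat_lit 5) (nat_lit 16) (nat_lit 4) (nat_lit 14) (nat_lit 4) (nat_lit 399) (nat_lit 322) (nat_lit 179)) (XT.nd (nat_lit 78) (nat_lit 0) (nat_lit 0) (XT.lf (nat_lit 0) (nat_lit 43738508011) (nat_lit 76) (nat_lit 89378016392) (nat_lit 76) (nat_lit 21251711312) (nat_lit 13) (nat_lit 4) (nat_lit 14) (nat_lit 5) (nat_lit 14) (nat_lit 4) (nat_lit 400) (nat_lit 322) (nat_lit 178)) (XT.lf (nat_lit 0) (nat_lit 92507011176) (nat_lit 76) (nat_lit 68242382057) (nat_lit 76) (nat_lit 113191467) (nat_lit 13) (nat_lit 4) (nat_lit 14) (nat_lit 5) (nat_lit 14) (nat_lit 4) (nat_lit 401) (nat_lit 322) (nat_lit 177)))) (XT.nd (nat_lit 78) (nat_lit 76) (nat_lit 0) (XT.lf (nat_lit 0) (nat_lit 21373439653) (nat_lit 152) (nat_lit 24316387404) (nat_lit 76) (nat_lit 121974688391) (nat_lit 12) (nat_lit 5) (nat_lit 14) (nat_lit 5) (nat_lit 13) (nat_lit 4) (nat_lit 402) (nat_lit 322)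 (nat_lit 176)) (XT.nd (nat_lit 78) (nat_lit 0) (nat_lit 0) (XT.lf (nat_lit 0) (nat_lit 22643925756) (nat_lit 76) (nat_lit 21638260435) (nat_lit 152) (nat_lit 130506684725) (nat_lit 11) (nat_lit 5) (nat_lit 12) (nat_lit 5) (nat_lit 13) (nat_lit 4) (nat_lit 403) (nat_lit 322) (nat_lit 175)) (XT.lf (nat_lit 0) (nat_lit 68809445788) (nat_lit 152) (nat_lit 109519326324) (nat_lit 0) (nat_lit 3917018598) (nat_lit 11) (nat_lit 5) (nat_lit 13) (nat_lit 4) (nat_lit 11) (nat_lit 4) (nat_lit 404) (nat_lit 322) (nat_lit 174))))) (XT.nd (nat_lit 234) (nat_lit 76) (nat_lit 0) (XT.nd (nat_lit 78) (nat_lit 76) (nat_lit 0) (XT.lf (nat_lit 0) (nat_lit 94915947157) (nat_lit 152) (nat_lit 65120706623) (nat_lit 0) (nat_lit 30021259094) (nat_lit 11) (nat_lit 5) (nat_lit 13) (nat_lit 4) (nat_lit 11) (nat_lit 4) (nat_lit 405) (nat_lit 322) (nat_lit 173)) (XT.nd (nat_lit 78) (nat_lit 76) (nat_lit 0) (XT.lf (nat_lit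 0) (nat_lit 122326014749) (nat_lit 152) (nat_lit 18505541172) (nat_lit 0) (nat_lit 57429173475) (nat_lit 11) (nat_lit 5) (nat_lit 13) (nat_lit 4) (nat_lit 11) (nat_lit 4) (nat_lit 406) (nat_lit 322) (nat_lit 172)) (XT.lf (nat_lit 0) (nat_lit 31443548435) (nat_lit 76) (nat_lit 120152284106) (nat_lit 76) (nat_lit 55253392154) (nat_lit 10) (nat_lit 4) (nat_lit 11) (nat_lit 5) (nat_lit 11) (nat_lit 4) (nat_lit 407) (nat_lit 322) (nat_lit 171)))) (XT.nd (nat_lit 78) (nat_lit 76) (nat_lit 0) (XT.lf (nat_lit 0) (nat_lit 84529391094) (nat_lit 76) (nat_lit 98111505575) (nat_lit 76) (nat_lit 33210660596) (nat_lit 10) (nat_lit 4) (nat_lit 11) (nat_lit 5) (nat_lit 11) (nat_lit 4) (nat_lit 408) (nat_lit 322) (nat_lit 170)) (XT.nd (nat_lit 78) (nat_lit 76) (nat_lit 0) (XT.lf (nat_lit 0) (nat_lit 140266504902) (nat_lit 76) (nat_lit 74970142578) (nat_lit 76) (nat_lit 10067437573) (nat_lit 10) (nat_lit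 4) (nat_lit 11) (nat_lit 5) (nat_lit 11) (nat_lit 4) (nat_lit 409) (nat_lit 322) (nat_lit 169)) (XT.lf (nat_lit 0) (nat_lit 13775886793) (nat_lit 152) (nat_lit 36663908530) (nat_lit 76) (nat_lit 184778409171) (nat_lit 9) (nat_lit 5) (nat_lit 11) (nat_lit 5) (nat_lit 10) (nat_lit 4) (nat_lit 410) (nat_lit 322) (nat_lit 168)))))) (XT.nd (nat_lit 468) (nat_lit 152) (nat_lit 0) (XT.nd (nat_lit 234) (nat_lit 76) (nat_lit 0) (XT.nd (nat_lit 78) (nat_lit 0) (nat_lit 0) (XT.lf (nat_lit 0) (nat_lit 14422219702) (nat_lit 76) (nat_lit 24274552618) (nat_lit 152) (nat_lit 206911819475) (nat_lit 8) (nat_lit 5) (nat_lit 9) (nat_lit 5) (nat_lit 10) (nat_lit 4) (nat_lit 411) (nat_lit 322) (nat_lit 167)) (XT.nd (nat_lit 78) (nat_lit 0) (nat_lit 0) (XT.lf (nat_lit 0) (nat_lit 65543307661) (nat_lit 152) (nat_lit 187214827189) (nat_lit 0) (nat_lit 3726383551) (nat_lit 8) (nat_lit 5) (nat_lit 10) (nat_lit 4)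 (nat_lit 8) (nat_lit 4) (nat_lit 412) (nat_lit 322) (nat_lit 166)) (XT.lf (nat_lit 0) (nat_lit 94128742649) (nat_lit 152) (nat_lit 141445309094) (nat_lit 0) (nat_lit 32310361160) (nat_lit 8) (nat_lit 5) (nat_lit 10) (nat_lit 4) (nat_lit 8) (nat_lit 4) (nat_lit 413) (nat_lit 322) (nat_lit 165)))) (XT.nd (nat_lit 78) (nat_lit 76) (nat_lit 0) (XT.lf (nat_lit 0) (nat_lit 124142144046) (nat_lit 152) (nat_lit 93389848970) (nat_lit 0) (nat_lit 62322374577) (nat_lit 8) (nat_lit 5) (nat_lit 10) (nat_lit 4) (nat_lit 8) (nat_lit 4) (nat_lit 414) (nat_lit 322) (nat_lit 164)) (XT.nd (nat_lit 78) (nat_lit 76) (nat_lit 0) (XT.lf (nat_lit 0) (nat_lit 155654972332) (nat_lit 152) (nat_lit 42934029053) (nat_lit 0) (nat_lit 93833880979) (nat_lit 8) (nat_lit 5) (nat_lit 10) (nat_lit 4) (nat_lit 8) (nat_lit 4) (nat_lit 415) (nat_lit 322) (nat_lit 163)) (XT.lf (nat_lit 0) (nat_lit 10374326804) (nat_lit 76) (nat_lit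 178529903563) (nat_lit 76) (nat_lit 116707553270) (nat_lit 7) (nat_lit 4) (nat_lit 8) (nat_lit 5) (nat_lit 8) (nat_lit 4) (nat_lit 416) (nat_lit 322) (nat_lit 162))))) (XT.nd (nat_lit 234) (nat_lit 152) (nat_lit 0) (XT.nd (nat_lit 78) (nat_lit 0) (nat_lit 0) (XT.lf (nat_lit 0) (nat_lit 67836411767) (nat_lit 76) (nat_lit 156705485188) (nat_lit 76) (nat_lit 94881935907) (nat_lit 7) (nat_lit 4) (nat_lit 8) (nat_lit 5) (nat_lit 8) (nat_lit 4) (nat_lit 417) (nat_lit 322) (nat_lit 161)) (XT.nd (nat_lit 78) (nat_lit 0) (nat_lit 0) (XT.lf (nat_lit 0) (nat_lit 128169447424) (nat_lit 76) (nat_lit 133790891919) (nat_lit 76) (nat_lit 71966200744) (nat_lit 7) (nat_lit 4) (nat_lit 8) (nat_lit 5) (nat_lit 8) (nat_lit 4) (nat_lit 418) (nat_lit 322) (nat_lit 160)) (XT.lf (nat_lit 0) (nat_lit 191517083862) (nat_lit 76) (nat_lit 109731565200) (nat_lit 76) (nat_lit 47905786506) (nat_lit 7) (nat_lit 4) (nat_lit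 8) (nat_lit 5) (nat_lit 8) (nat_lit 4) (nat_lit 419) (nat_lit 322) (nat_lit 159)))) (XT.nd (nat_lit 78) (nat_lit 152) (nat_lit 0) (XT.lf (nat_lit 0) (nat_lit 258030148786) (nat_lit 76) (nat_lit 84470220919) (nat_lit 76) (nat_lit 22643406493) (nat_lit 7) (nat_lit 4) (nat_lit 8) (nat_lit 5) (nat_lit 8) (nat_lit 4) (nat_lit 420) (nat_lit 322) (nat_lit 158)) (XT.nd (nat_lit 78) (nat_lit 76) (nat_lit 0) (XT.lf (nat_lit 0) (nat_lit 3756868770) (nat_lit 152) (nat_lit 54126219858) (nat_lit 76) (nat_lit 324046513476) (nat_lit 6) (nat_lit 5) (nat_lit 8) (nat_lit 5) (nat_lit 7) (nat_lit 4) (nat_lit 421) (nat_lit 322) (nat_lit 157)) (XT.lf (nat_lit 0) (nat_lit 1175164815) (nat_lit 76) (nat_lit 29558447424) (nat_lit 152) (nat_lit 368801675954) (nat_lit 5) (nat_lit 5) (nat_lit 6) (nat_lit 5) (nat_lit 7) (nat_lit 4) (nat_lit 422) (nat_lit 322) (nat_lit 156))))))))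
noncomputable def xc160 : XT := (XT.nd (nat_lit 40092) (nat_lit 0) (nat_lit 3116) (XT.nd (nat_lit 39156) (nat_lit 0) (nat_lit 6916) (XT.nd (nat_lit 390) (nat_lit 76) (nat_lit 0) (XT.nd (nat_lit 156) (nat_lit 0) (nat_lit 0) (XT.nd (nat_lit 78) (nat_lit 0) (nat_lit 0) (XT.lf (nat_lit 0) (nat_lit 59992798597) (nat_lit 152) (nat_lit 356874347876) (nat_lit 0) (nat_lit 1107431949) (nat_lit 5) (nat_lit 5) (nat_lit 7) (nat_lit 4) (nat_lit 5) (nat_lit 4) (nat_lit 423) (nat_lit 322) (nat_lit 155)) (XT.lf (nat_lit 0) (nat_lit 91198629653) (nat_lit 152) (nat_lit 313800567876) (nat_lit 0) (nat_lit 32312451482) (nat_lit 5) (nat_lit 5) (nat_lit 7) (nat_lit 4) (nat_lit 5) (nat_lit 4) (nat_lit 424) (nat_lit 322) (nat_lit 154))) (XT.nd (nat_lit 78) (nat_lit 0) (nat_lit 0) (XT.lf (nat_lit 0) (nat_lit 123963914802) (nat_lit 152) (nat_lit 268574736556) (nat_lit 0) (nat_lit 65076963752) (nat_lit 5) (nat_lit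 5) (nat_lit 7) (nat_lit 4) (nat_lit 5) (nat_lit 4) (nat_lit 425) (nat_lit 322) (nat_lit 153)) (XT.nd (nat_lit 78) (nat_lit 0) (nat_lit 0) (XT.lf (nat_lit 0) (nat_lit 158366666630) (nat_lit 152) (nat_lit 221089173365) (nat_lit 0) (nat_lit 99478979504) (nat_lit 5) (nat_lit 5) (nat_lit 7) (nat_lit 4) (nat_lit 5) (nat_lit 4) (nat_lit 426) (nat_lit 322) (nat_lit 152)) (XT.lf (nat_lit 0) (nat_lit 194488796449) (nat_lit 152) (nat_lit 171230817439) (nat_lit 0) (nat_lit 135600408299) (nat_lit 5) (nat_lit 5) (nat_lit 7) (nat_lit 4) (nat_lit 5) (nat_lit 4) (nat_lit 427) (nat_lit 322) (nat_lit 151))))) (XT.nd (nat_lit 234) (nat_lit 76) (nat_lit 0) (XT.nd (nat_lit 78) (nat_lit 0) (nat_lit 0) (XT.lf (nat_lit 0) (nat_lit 232416309330) (nat_lit 152) (nat_lit 118880958407) (nat_lit 0) (nat_lit 173527253539) (nat_lit 5) (nat_lit 5) (nat_lit 7) (nat_lit 4) (nat_lit 5) (nat_lit 4) (nat_lit 428) (nat_lit 322)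 (nat_lit 150)) (XT.nd (nat_lit 78) (nat_lit 0) (nat_lit 0) (XT.lf (nat_lit 0) (nat_lit 272239508877) (nat_lit 152) (nat_lit 63914953746) (nat_lit 0) (nat_lit 213349817236) (nat_lit 5) (nat_lit 5) (nat_lit 7) (nat_lit 4) (nat_lit 5) (nat_lit 4) (nat_lit 429) (nat_lit 322) (nat_lit 149)) (XT.lf (nat_lit 0) (nat_lit 314053212230) (nat_lit 152) (nat_lit 6201932018) (nat_lit 0) (nat_lit 255162915018) (nat_lit 5) (nat_lit 5) (nat_lit 7) (nat_lit 4) (nat_lit 5) (nat_lit 4) (nat_lit 430) (nat_lit 322) (nat_lit 148)))) (XT.nd (nat_lit 78) (nat_lit 0) (nat_lit 0) (XT.lf (nat_lit 0) (nat_lit 56194080240) (nat_lit 76) (nat_lit 302640242662) (nat_lit 76) (nat_lit 243749368716) (nat_lit 4) (nat_lit 4) (nat_lit 5) (nat_lit 5) (nat_lit 5) (nat_lit 4) (nat_lit 431) (nat_lit 322) (nat_lit 147)) (XT.nd (nat_lit 38376) (nat_lit 0) (nat_lit 8132) (XT.lf (nat_lit 0) (nat_lit 121924007835) (nat_lit 76) (nat_lit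 284034900054) (nat_lit 76) (nat_lit 225143476837) (nat_lit 4) (nat_lit 4) (nat_lit 5) (nat_lit 5) (nat_lit 5) (nat_lit 4) (nat_lit 432) (nat_lit 322) (nat_lit 146)) (XT.lf (nat_lit 0) (nat_lit 2116372250) (nat_lit 0) (nat_lit 2116372250) (nat_lit 684) (nat_lit 2166106721) (nat_lit 111) (nat_lit 5) (nat_lit 111) (nat_lit 3) (nat_lit 120) (nat_lit 3) (nat_lit 323) (nat_lit 323) (nat_lit 254)))))) (XT.nd (nat_lit 468) (nat_lit 1216) (nat_lit 0) (XT.nd (nat_lit 234) (nat_lit 0) (nat_lit 76) (XT.nd (nat_lit 78) (nat_lit 0) (nat_lit 0) (XT.lf (nat_lit 0) (nat_lit 9097744530) (nat_lit 684) (nat_lit 2522924223) (nat_lit 760) (nat_lit 1475497810) (nat_lit 111) (nat_lit 5) (nat_lit 120) (nat_lit 3) (nat_lit 121) (nat_lit 5) (nat_lit 324) (nat_lit 323) (nat_lit 253)) (XT.nd (nat_lit 78) (nat_lit 0) (nat_lit 0) (XT.lf (nat_lit 76) (nat_lit 3861206934) (nat_lit 0) (nat_lit 6004876276) (nat_lit 760)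 (nat_lit 3538275806) (nat_lit 112) (nat_lit 5) (nat_lit 111) (nat_lit 5) (nat_lit 121) (nat_lit 5) (nat_lit 325) (nat_lit 323) (nat_lit 252)) (XT.lf (nat_lit 76) (nat_lit 10638166148) (nat_lit 0) (nat_lit 53178539) (nat_lit 760) (nat_lit 3035718397) (nat_lit 112) (nat_lit 5) (nat_lit 111) (nat_lit 5) (nat_lit 121) (nat_lit 5) (nat_lit 326) (nat_lit 323) (nat_lit 251)))) (XT.nd (nat_lit 78) (nat_lit 0) (nat_lit 0) (XT.lf (nat_lit 76) (nat_lit 3694958804) (nat_lit 0) (nat_lit 7994422393) (nat_lit 760) (nat_lit 2369971543) (nat_lit 113) (nat_lit 5) (nat_lit 112) (nat_lit 5) (nat_lit 122) (nat_lit 5) (nat_lit 327) (nat_lit 323) (nat_lit 250)) (XT.nd (nat_lit 78) (nat_lit 0) (nat_lit 76) (XT.lf (nat_lit 76) (nat_lit 10909946940) (nat_lit 0) (nat_lit 1858493415) (nat_lit 760) (nat_lit 1638285230) (nat_lit 113) (nat_lit 5) (nat_lit 112) (nat_lit 5) (nat_lit 122) (nat_lit 5) (nat_lit 328) (nat_lit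 323) (nat_lit 249)) (XT.lf (nat_lit 76) (nat_lit 3747693401) (nat_lit 0) (nat_lit 10262958602) (nat_lit 760) (nat_lit 755378660) (nat_lit 114) (nat_lit 5) (nat_lit 113) (nat_lit 5) (nat_lit 123) (nat_lit 5) (nat_lit 329) (nat_lit 323) (nat_lit 248))))) (XT.nd (nat_lit 234) (nat_lit 608) (nat_lit 0) (XT.nd (nat_lit 78) (nat_lit 0) (nat_lit 76) (XT.lf (nat_lit 0) (nat_lit 236365090) (nat_lit 760) (nat_lit 3714027721) (nat_lit 836) (nat_lit 11189286223) (nat_lit 103) (nat_lit 5) (nat_lit 113) (nat_lit 5) (nat_lit 114) (nat_lit 5) (nat_lit 330) (nat_lit 323) (nat_lit 247)) (XT.nd (nat_lit 78) (nat_lit 0) (nat_lit 0) (XT.lf (nat_lit 0) (nat_lit 1339302501) (nat_lit 760) (nat_lit 11513963314) (nat_lit 836) (nat_lit 2673795597) (nat_lit 104) (nat_lit 5) (nat_lit 114) (nat_lit 5) (nat_lit 115) (nat_lit 5) (nat_lit 331) (nat_lit 323) (nat_lit 246)) (XT.lf (nat_lit 0) (nat_lit 2607353445) (nat_lit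 760) (nat_lit 3756356000) (nat_lit 836) (nat_lit 9564624521) (nat_lit 104) (nat_lit 5) (nat_lit 114) (nat_lit 5) (nat_lit 115) (nat_lit 5) (nat_lit 332) (nat_lit 323) (nat_lit 245)))) (XT.nd (nat_lit 78) (nat_lit 760) (nat_lit 0) (XT.lf (nat_lit 0) (nat_lit 3999766900) (nat_lit 760) (nat_lit 11836203405) (nat_lit 76) (nat_lit 510670310) (nat_lit 105) (nat_lit 5) (nat_lit 115) (nat_lit 5) (nat_lit 106) (nat_lit 5) (nat_lit 333) (nat_lit 323) (nat_lit 244)) (XT.nd (nat_lit 78) (nat_lit 760) (nat_lit 0) (XT.lf (nat_lit 0) (nat_lit 5613617152) (nat_lit 760) (nat_lit 3582434766) (nat_lit 76) (nat_lit 7582237461) (nat_lit 105) (nat_lit 5) (nat_lit 115) (nat_lit 5) (nat_lit 106) (nat_lit 5) (nat_lit 334) (nat_lit 323) (nat_lit 243)) (XT.lf (nat_lit 0) (nat_lit 5237001685) (nat_lit 760) (nat_lit 2136574343) (nat_lit 836) (nat_lit 9854690495) (nat_lit 95) (nat_lit 5) (nat_lit 105) (nat_lit 5) (nat_lit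 106) (nat_lit 5) (nat_lit 335) (nat_lit 323) (nat_lit 242))))))) (XT.nd (nat_lit 936) (nat_lit 1824) (nat_lit 0) (XT.nd (nat_lit 468) (nat_lit 836) (nat_lit 0) (XT.nd (nat_lit 234) (nat_lit 760) (nat_lit 0) (XT.nd (nat_lit 78) (nat_lit 380) (nat_lit 0) (XT.lf (nat_lit 0) (nat_lit 9349796168) (nat_lit 836) (nat_lit 3174519552) (nat_lit 76) (nat_lit 5170029591) (nat_lit 95) (nat_lit 5) (nat_lit 106) (nat_lit 5) (nat_lit 96) (nat_lit 5) (nat_lit 336) (nat_lit 323) (nat_lit 241)) (XT.nd (nat_lit 78) (nat_lit 0) (nat_lit 0) (XT.lf (nat_lit 0) (nat_lit 6233029513) (nat_lit 380) (nat_lit 5309116983) (nat_lit 456) (nat_lit 6635730774) (nat_lit 90) (nat_lit 5) (nat_lit 95) (nat_lit 5) (nat_lit 96) (nat_lit 5) (nat_lit 337) (nat_lit 323) (nat_lit 240)) (XT.lf (nat_lit 0) (nat_lit 13919624361) (nat_lit 456) (nat_lit 2513017237) (nat_lit 76) (nat_lit 2249183199) (nat_lit 90) (nat_lit 5) (nat_lit 96)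 (nat_lit 5) (nat_lit 91) (nat_lit 5) (nat_lit 338) (nat_lit 323) (nat_lit 239)))) (XT.nd (nat_lit 78) (nat_lit 456) (nat_lit 0) (XT.lf (nat_lit 0) (nat_lit 7530080078) (nat_lit 304) (nat_lit 9076662966) (nat_lit 380) (nat_lit 2594702090) (nat_lit 86) (nat_lit 5) (nat_lit 90) (nat_lit 5) (nat_lit 91) (nat_lit 5) (nat_lit 339) (nat_lit 323) (nat_lit 238)) (XT.nd (nat_lit 78) (nat_lit 456) (nat_lit 0) (XT.lf (nat_lit 0) (nat_lit 18148509567) (nat_lit 304) (nat_lit 1308872904) (nat_lit 380) (nat_lit 288218898) (nat_lit 86) (nat_lit 5) (nat_lit 90) (nat_lit 5) (nat_lit 91) (nat_lit 5) (nat_lit 340) (nat_lit 323) (nat_lit 237)) (XT.lf (nat_lit 0) (nat_lit 2306215635) (nat_lit 456) (nat_lit 11189422756) (nat_lit 76) (nat_lit 6807627597) (nat_lit 80) (nat_lit 5) (nat_lit 86) (nat_lit 5) (nat_lit 81) (nat_lit 5) (nat_lit 341) (nat_lit 323) (nat_lit 236))))) (XT.nd (nat_lit 234) (nat_lit 228) (nat_lit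 0) (XT.nd (nat_lit 78) (nat_lit 608) (nat_lit 0) (XT.lf (nat_lit 0) (nat_lit 5057045045) (nat_lit 456) (nat_lit 512554708) (nat_lit 76) (nat_lit 15317171218) (nat_lit 80) (nat_lit 5) (nat_lit 86) (nat_lit 5) (nat_lit 81) (nat_lit 5) (nat_lit 342) (nat_lit 323) (nat_lit 235)) (XT.nd (nat_lit 78) (nat_lit 304) (nat_lit 0) (XT.lf (nat_lit 0) (nat_lit 8151537445) (nat_lit 380) (nat_lit 10499348059) (nat_lit 76) (nat_lit 2838270420) (nat_lit 76) (nat_lit 5) (nat_lit 81) (nat_lit 5) (nat_lit 77) (nat_lit 5) (nat_lit 343) (nat_lit 323) (nat_lit 234)) (XT.lf (nat_lit 0) (nat_lit 886887533) (nat_lit 304) (nat_lit 10616187882) (nat_lit 380) (nat_lit 10613478945) (nat_lit 72) (nat_lit 5) (nat_lit 76) (nat_lit 5) (nat_lit 77) (nat_lit 5) (nat_lit 344) (nat_lit 323) (nat_lit 233)))) (XT.nd (nat_lit 78) (nat_lit 228) (nat_lit 0) (XT.lf (nat_lit 0) (nat_lit 13193264494) (nat_lit 304) (nat_lit 1995425181)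 (nat_lit 380) (nat_lit 7578317865) (nat_lit 72) (nat_lit 5) (nat_lit 76) (nat_lit 5) (nat_lit 77) (nat_lit 5) (nat_lit 345) (nat_lit 323) (nat_lit 232)) (XT.nd (nat_lit 78) (nat_lit 0) (nat_lit 0) (XT.lf (nat_lit 0) (nat_lit 2625287543) (nat_lit 228) (nat_lit 16573646256) (nat_lit 304) (nat_lit 4244041449) (nat_lit 69) (nat_lit 5) (nat_lit 72) (nat_lit 5) (nat_lit 73) (nat_lit 5) (nat_lit 346) (nat_lit 323) (nat_lit 231)) (XT.lf (nat_lit 0) (nat_lit 15719528207) (nat_lit 228) (nat_lit 7873980064) (nat_lit 304) (nat_lit 550051048) (nat_lit 69) (nat_lit 5) (nat_lit 72) (nat_lit 5) (nat_lit 73) (nat_lit 5) (nat_lit 347) (nat_lit 323) (nat_lit 230)))))) (XT.nd (nat_lit 468) (nat_lit 988) (nat_lit 0) (XT.nd (nat_lit 234) (nat_lit 228) (nat_lit 0) (XT.nd (nat_lit 78) (nat_lit 228) (nat_lit 0) (XT.lf (nat_lit 0) (nat_lit 3306586217) (nat_lit 380) (nat_lit 20221232143) (nat_lit 76) (nat_lit 1344539590)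 (nat_lit 64) (nat_lit 5) (nat_lit 69) (nat_lit 5) (nat_lit 65) (nat_lit 5) (nat_lit 348) (nat_lit 323) (nat_lit 229)) (XT.nd (nat_lit 78) (nat_lit 228) (nat_lit 0) (XT.lf (nat_lit 0) (nat_lit 7601719700) (nat_lit 380) (nat_lit 7111679611) (nat_lit 76) (nat_lit 10910546531) (nat_lit 64) (nat_lit 5) (nat_lit 69) (nat_lit 5) (nat_lit 65) (nat_lit 5) (nat_lit 349) (nat_lit 323) (nat_lit 228)) (XT.lf (nat_lit 0) (nat_lit 6860271980) (nat_lit 228) (nat_lit 5348983301) (nat_lit 304) (nat_lit 14198982884) (nat_lit 61) (nat_lit 5) (nat_lit 64) (nat_lit 5) (nat_lit 65) (nat_lit 5) (nat_lit 350) (nat_lit 323) (nat_lit 227)))) (XT.nd (nat_lit 78) (nat_lit 228) (nat_lit 0) (XT.lf (nat_lit 0) (nat_lit 17230327252) (nat_lit 304) (nat_lit 5532840103) (nat_lit 76) (nat_lit 4459426728) (nat_lit 61) (nat_lit 5) (nat_lit 65) (nat_lit 5) (nat_lit 62) (nat_lit 5) (nat_lit 351) (nat_lit 323) (nat_lit 226)) (XT.nd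 (nat_lit 78) (nat_lit 0) (nat_lit 0) (XT.lf (nat_lit 0) (nat_lit 9383432199) (nat_lit 228) (nat_lit 13344394408) (nat_lit 304) (nat_lit 5338579129) (nat_lit 58) (nat_lit 5) (nat_lit 61) (nat_lit 5) (nat_lit 62) (nat_lit 5) (nat_lit 352) (nat_lit 323) (nat_lit 225)) (XT.lf (nat_lit 0) (nat_lit 25225553154) (nat_lit 228) (nat_lit 3359764604) (nat_lit 304) (nat_lit 362840685) (nat_lit 58) (nat_lit 5) (nat_lit 61) (nat_lit 5) (nat_lit 62) (nat_lit 5) (nat_lit 353) (nat_lit 323) (nat_lit 224))))) (XT.nd (nat_lit 234) (nat_lit 456) (nat_lit 0) (XT.nd (nat_lit 78) (nat_lit 228) (nat_lit 0) (XT.lf (nat_lit 0) (nat_lit 5005233637) (nat_lit 304) (nat_lit 17685070551) (nat_lit 76) (nat_lit 7164947436) (nat_lit 54) (nat_lit 5) (nat_lit 58) (nat_lit 5) (nat_lit 55) (nat_lit 5) (nat_lit 354) (nat_lit 323) (nat_lit 223)) (XT.nd (nat_lit 78) (nat_lit 228) (nat_lit 0) (XT.lf (nat_lit 0) (nat_lit 10740519205)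 (nat_lit 304) (nat_lit 1891685922) (nat_lit 76) (nat_lit 18169652312) (nat_lit 54) (nat_lit 5) (nat_lit 58) (nat_lit 5) (nat_lit 55) (nat_lit 5) (nat_lit 355) (nat_lit 323) (nat_lit 222)) (XT.lf (nat_lit 0) (nat_lit 15165397221) (nat_lit 228) (nat_lit 1826180099) (nat_lit 304) (nat_lit 14792771003) (nat_lit 51) (nat_lit 5) (nat_lit 54) (nat_lit 5) (nat_lit 55) (nat_lit 5) (nat_lit 356) (nat_lit 323) (nat_lit 221)))) (XT.nd (nat_lit 78) (nat_lit 304) (nat_lit 0) (XT.lf (nat_lit 0) (nat_lit 171472343) (nat_lit 152) (nat_lit 23559964120) (nat_lit 228) (nat_lit 9075719830) (nat_lit 49) (nat_lit 5) (nat_lit 51) (nat_lit 5) (nat_lit 52) (nat_lit 5) (nat_lit 357) (nat_lit 323) (nat_lit 220)) (XT.nd (nat_lit 78) (nat_lit 304) (nat_lit 0) (XT.lf (nat_lit 0) (nat_lit 18336145540) (nat_lit 152) (nat_lit 12775607014) (nat_lit 228) (nat_lit 2754183619) (nat_lit 49) (nat_lit 5) (nat_lit 51) (nat_lit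 5) (nat_lit 52) (nat_lit 5) (nat_lit 358) (nat_lit 323) (nat_lit 219)) (XT.lf (nat_lit 0) (nat_lit 2437769682) (nat_lit 228) (nat_lit 1352219437) (nat_lit 304) (nat_lit 31183095954) (nat_lit 45) (nat_lit 5) (nat_lit 48) (nat_lit 5) (nat_lit 49) (nat_lit 5) (nat_lit 359) (nat_lit 323) (nat_lit 218))))))))
noncomputable def xc161 : XT := (XT.nd (nat_lit 1794) (nat_lit 912) (nat_lit 0) (XT.nd (nat_lit 858) (nat_lit 836) (nat_lit 0) (XT.nd (nat_lit 390) (nat_lit 456) (nat_lit 0) (XT.nd (nat_lit 156) (nat_lit 228) (nat_lit 0) (XT.nd (nat_lit 78) (nat_lit 152) (nat_lit 0) (XT.lf (nat_lit 0) (nat_lit 10995192356) (nat_lit 304) (nat_lit 14506331517) (nat_lit 76) (nat_lit 10610495062) (nat_lit 45) (nat_lit 5) (nat_lit 49) (nat_lit 5) (nat_lit 46) (nat_lit 5) (nat_lit 360) (nat_lit 323) (nat_lit 217)) (XT.lf (nat_lit 0) (nat_lit 4536522707) (nat_lit 152) (nat_lit 14110373847) (nat_lit 228) (nat_lit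 18656694771) (nat_lit 43) (nat_lit 5) (nat_lit 45) (nat_lit 5) (nat_lit 46) (nat_lit 5) (nat_lit 361) (nat_lit 323) (nat_lit 216))) (XT.nd (nat_lit 78) (nat_lit 228) (nat_lit 0) (XT.lf (nat_lit 0) (nat_lit 25024709450) (nat_lit 152) (nat_lit 1895552382) (nat_lit 228) (nat_lit 11622530400) (nat_lit 43) (nat_lit 5) (nat_lit 45) (nat_lit 5) (nat_lit 46) (nat_lit 5) (nat_lit 362) (nat_lit 323) (nat_lit 215)) (XT.nd (nat_lit 78) (nat_lit 76) (nat_lit 0) (XT.lf (nat_lit 0) (nat_lit 6727836293) (nat_lit 152) (nat_lit 29148808647) (nat_lit 228) (nat_lit 3953844281) (nat_lit 41) (nat_lit 5) (nat_lit 43) (nat_lit 5) (nat_lit 44) (nat_lit 5) (nat_lit 363) (nat_lit 323) (nat_lit 214)) (XT.lf (nat_lit 0) (nat_lit 4224570130) (nat_lit 228) (nat_lit 12824816563) (nat_lit 76) (nat_lit 24117115055) (nat_lit 40) (nat_lit 5) (nat_lit 43) (nat_lit 5) (nat_lit 41) (nat_lit 5) (nat_lit 364) (nat_lit 323) (nat_lit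 213))))) (XT.nd (nat_lit 234) (nat_lit 152) (nat_lit 0) (XT.nd (nat_lit 78) (nat_lit 152) (nat_lit 0) (XT.lf (nat_lit 0) (nat_lit 8669823316) (nat_lit 152) (nat_lit 4138568499) (nat_lit 228) (nat_lit 29751217186) (nat_lit 38) (nat_lit 5) (nat_lit 40) (nat_lit 5) (nat_lit 41) (nat_lit 5) (nat_lit 365) (nat_lit 323) (nat_lit 212)) (XT.nd (nat_lit 78) (nat_lit 152) (nat_lit 0) (XT.lf (nat_lit 0) (nat_lit 22183276484) (nat_lit 228) (nat_lit 12487506611) (nat_lit 76) (nat_lit 9333497817) (nat_lit 38) (nat_lit 5) (nat_lit 41) (nat_lit 5) (nat_lit 39) (nat_lit 5) (nat_lit 366) (nat_lit 323) (nat_lit 211)) (XT.lf (nat_lit 0) (nat_lit 10235261989) (nat_lit 152) (nat_lit 22013650624) (nat_lit 228) (nat_lit 13261176200) (nat_lit 36) (nat_lit 5) (nat_lit 38) (nat_lit 5) (nat_lit 39) (nat_lit 5) (nat_lit 367) (nat_lit 323) (nat_lit 210)))) (XT.nd (nat_lit 78) (nat_lit 152) (nat_lit 0) (XT.lf (nat_lit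 0) (nat_lit 34518486859) (nat_lit 152) (nat_lit 8505310960) (nat_lit 228) (nat_lit 4057093548) (nat_lit 36) (nat_lit 5) (nat_lit 38) (nat_lit 5) (nat_lit 39) (nat_lit 5) (nat_lit 368) (nat_lit 323) (nat_lit 209)) (XT.nd (nat_lit 78) (nat_lit 0) (nat_lit 0) (XT.lf (nat_lit 0) (nat_lit 5695850951) (nat_lit 152) (nat_lit 37250998227) (nat_lit 76) (nat_lit 5765603905) (nat_lit 34) (nat_lit 5) (nat_lit 36) (nat_lit 5) (nat_lit 35) (nat_lit 5) (nat_lit 369) (nat_lit 323) (nat_lit 208)) (XT.lf (nat_lit 0) (nat_lit 16150487159) (nat_lit 152) (nat_lit 13510761595) (nat_lit 76) (nat_lit 20743501438) (nat_lit 34) (nat_lit 5) (nat_lit 36) (nat_lit 5) (nat_lit 35) (nat_lit 5) (nat_lit 370) (nat_lit 323) (nat_lit 207)))))) (XT.nd (nat_lit 468) (nat_lit 380) (nat_lit 0) (XT.nd (nat_lit 234) (nat_lit 228) (nat_lit 0) (XT.nd (nat_lit 78) (nat_lit 76) (nat_lit 0) (XT.lf (nat_lit 0) (nat_lit 11785090043)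 (nat_lit 152) (nat_lit 15521734839) (nat_lit 228) (nat_lit 24865890947) (nat_lit 32) (nat_lit 5) (nat_lit 34) (nat_lit 5) (nat_lit 35) (nat_lit 5) (nat_lit 371) (nat_lit 323) (nat_lit 206)) (XT.nd (nat_lit 78) (nat_lit 76) (nat_lit 0) (XT.lf (nat_lit 0) (nat_lit 38806342696) (nat_lit 152) (nat_lit 438526957) (nat_lit 228) (nat_lit 14773017643) (nat_lit 32) (nat_lit 5) (nat_lit 34) (nat_lit 5) (nat_lit 35) (nat_lit 5) (nat_lit 372) (nat_lit 323) (nat_lit 205)) (XT.lf (nat_lit 0) (nat_lit 11337558396) (nat_lit 76) (nat_lit 40854949068) (nat_lit 152) (nat_lit 3742177289) (nat_lit 31) (nat_lit 5) (nat_lit 32) (nat_lit 5) (nat_lit 33) (nat_lit 4) (nat_lit 373) (nat_lit 323) (nat_lit 204)))) (XT.nd (nat_lit 78) (nat_lit 152) (nat_lit 0) (XT.lf (nat_lit 0) (nat_lit 7853578557) (nat_lit 152) (nat_lit 18334294843) (nat_lit 76) (nat_lit 31740114630) (nat_lit 30) (nat_lit 5) (nat_lit 32) (nat_lit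 5) (nat_lit 31) (nat_lit 5) (nat_lit 374) (nat_lit 323) (nat_lit 203)) (XT.nd (nat_lit 78) (nat_lit 0) (nat_lit 0) (XT.lf (nat_lit 0) (nat_lit 9475746731) (nat_lit 152) (nat_lit 10571063372) (nat_lit 228) (nat_lit 39963908220) (nat_lit 28) (nat_lit 5) (nat_lit 30) (nat_lit 5) (nat_lit 31) (nat_lit 5) (nat_lit 375) (nat_lit 323) (nat_lit 202)) (XT.lf (nat_lit 0) (nat_lit 33251810509) (nat_lit 228) (nat_lit 22973213940) (nat_lit 76) (nat_lit 5952456927) (nat_lit 28) (nat_lit 5) (nat_lit 31) (nat_lit 5) (nat_lit 29) (nat_lit 4) (nat_lit 376) (nat_lit 323) (nat_lit 201))))) (XT.nd (nat_lit 234) (nat_lit 76) (nat_lit 0) (XT.nd (nat_lit 78) (nat_lit 228) (nat_lit 0) (XT.lf (nat_lit 0) (nat_lit 5977106889) (nat_lit 76) (nat_lit 41402329181) (nat_lit 152) (nat_lit 17060029288) (nat_lit 27) (nat_lit 5) (nat_lit 28) (nat_lit 5) (nat_lit 29) (nat_lit 4) (nat_lit 377) (nat_lit 323) (nat_lit 200)) (XT.nd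 (nat_lit 78) (nat_lit 228) (nat_lit 0) (XT.lf (nat_lit 0) (nat_lit 37165110049) (nat_lit 76) (nat_lit 25433241185) (nat_lit 152) (nat_lit 4196953351) (nat_lit 27) (nat_lit 5) (nat_lit 28) (nat_lit 5) (nat_lit 29) (nat_lit 4) (nat_lit 378) (nat_lit 323) (nat_lit 199)) (XT.lf (nat_lit 0) (nat_lit 507276504) (nat_lit 152) (nat_lit 8507942345) (nat_lit 228) (nat_lit 60246256183) (nat_lit 24) (nat_lit 5) (nat_lit 26) (nat_lit 5) (nat_lit 27) (nat_lit 5) (nat_lit 379) (nat_lit 323) (nat_lit 198)))) (XT.nd (nat_lit 78) (nat_lit 76) (nat_lit 0) (XT.lf (nat_lit 0) (nat_lit 23397623079) (nat_lit 228) (nat_lit 38874435804) (nat_lit 76) (nat_lit 9542922824) (nat_lit 24) (nat_lit 5) (nat_lit 27) (nat_lit 5) (nat_lit 25) (nat_lit 4) (nat_lit 380) (nat_lit 323) (nat_lit 197)) (XT.nd (nat_lit 78) (nat_lit 76) (nat_lit 0) (XT.lf (nat_lit 0) (nat_lit 38634821547) (nat_lit 228) (nat_lit 7647041857) (nat_lit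 76) (nat_lit 28207517813) (nat_lit 24) (nat_lit 5) (nat_lit 27) (nat_lit 5) (nat_lit 25) (nat_lit 4) (nat_lit 381) (nat_lit 323) (nat_lit 196)) (XT.lf (nat_lit 0) (nat_lit 25966249211) (nat_lit 76) (nat_lit 29069417183) (nat_lit 152) (nat_lit 22241746128) (nat_lit 23) (nat_lit 5) (nat_lit 24) (nat_lit 5) (nat_lit 25) (nat_lit 4) (nat_lit 382) (nat_lit 323) (nat_lit 195))))))) (XT.nd (nat_lit 936) (nat_lit 380) (nat_lit 0) (XT.nd (nat_lit 468) (nat_lit 304) (nat_lit 0) (XT.nd (nat_lit 234) (nat_lit 76) (nat_lit 0) (XT.nd (nat_lit 78) (nat_lit 152) (nat_lit 0) (XT.lf (nat_lit 0) (nat_lit 61519243868) (nat_lit 76) (nat_lit 10863268175) (nat_lit 152) (nat_lit 7816036514) (nat_lit 23) (nat_lit 5) (nat_lit 24) (nat_lit 5) (nat_lit 25) (nat_lit 4) (nat_lit 383) (nat_lit 323) (nat_lit 194)) (XT.nd (nat_lit 78) (nat_lit 0) (nat_lit 0) (XT.lf (nat_lit 0) (nat_lit 7477073478) (nat_lit 152) (nat_lit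 67407772644) (nat_lit 76) (nat_lit 8356135851) (nat_lit 21) (nat_lit 5) (nat_lit 23) (nat_lit 5) (nat_lit 22) (nat_lit 4) (nat_lit 384) (nat_lit 323) (nat_lit 193)) (XT.lf (nat_lit 0) (nat_lit 23768372974) (nat_lit 152) (nat_lit 34017553002) (nat_lit 76) (nat_lit 28618395235) (nat_lit 21) (nat_lit 5) (nat_lit 23) (nat_lit 5) (nat_lit 22) (nat_lit 4) (nat_lit 385) (nat_lit 323) (nat_lit 192)))) (XT.nd (nat_lit 78) (nat_lit 0) (nat_lit 0) (XT.lf (nat_lit 0) (nat_lit 1070456668) (nat_lit 76) (nat_lit 39817244750) (nat_lit 152) (nat_lit 48837453688) (nat_lit 20) (nat_lit 5) (nat_lit 21) (nat_lit 5) (nat_lit 22) (nat_lit 4) (nat_lit 386) (nat_lit 323) (nat_lit 191)) (XT.nd (nat_lit 78) (nat_lit 0) (nat_lit 0) (XT.lf (nat_lit 0) (nat_lit 39087993685) (nat_lit 76) (nat_lit 20347920281) (nat_lit 152) (nat_lit 33747471702) (nat_lit 20) (nat_lit 5) (nat_lit 21) (nat_lit 5) (nat_lit 22) (nat_lit 4)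 (nat_lit 387) (nat_lit 323) (nat_lit 190)) (XT.lf (nat_lit 0) (nat_lit 78909943869) (nat_lit 152) (nat_lit 17815319274) (nat_lit 0) (nat_lit 89345092) (nat_lit 20) (nat_lit 5) (nat_lit 22) (nat_lit 4) (nat_lit 20) (nat_lit 4) (nat_lit 388) (nat_lit 323) (nat_lit 189))))) (XT.nd (nat_lit 234) (nat_lit 152) (nat_lit 0) (XT.nd (nat_lit 78) (nat_lit 76) (nat_lit 0) (XT.lf (nat_lit 0) (nat_lit 20599036833) (nat_lit 76) (nat_lit 79410891527) (nat_lit 76) (nat_lit 584851690) (nat_lit 19) (nat_lit 4) (nat_lit 20) (nat_lit 5) (nat_lit 20) (nat_lit 4) (nat_lit 389) (nat_lit 323) (nat_lit 188)) (XT.nd (nat_lit 78) (nat_lit 0) (nat_lit 0) (XT.lf (nat_lit 0) (nat_lit 17341348300) (nat_lit 152) (nat_lit 43281457782) (nat_lit 76) (nat_lit 43912228215) (nat_lit 18) (nat_lit 5) (nat_lit 20) (nat_lit 5) (nat_lit 19) (nat_lit 4) (nat_lit 390) (nat_lit 323) (nat_lit 187)) (XT.lf (nat_lit 0) (nat_lit 36141422408)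 (nat_lit 152) (nat_lit 4746241062) (nat_lit 76) (nat_lit 67784298120) (nat_lit 18) (nat_lit 5) (nat_lit 20) (nat_lit 5) (nat_lit 19) (nat_lit 4) (nat_lit 391) (nat_lit 323) (nat_lit 186)))) (XT.nd (nat_lit 78) (nat_lit 76) (nat_lit 0) (XT.lf (nat_lit 0) (nat_lit 36891548578) (nat_lit 76) (nat_lit 19563283504) (nat_lit 152) (nat_lit 56532237209) (nat_lit 17) (nat_lit 5) (nat_lit 18) (nat_lit 5) (nat_lit 19) (nat_lit 4) (nat_lit 392) (nat_lit 323) (nat_lit 185)) (XT.nd (nat_lit 78) (nat_lit 76) (nat_lit 0) (XT.lf (nat_lit 0) (nat_lit 77907118236) (nat_lit 152) (nat_lit 36788330085) (nat_lit 0) (nat_lit 2816324365) (nat_lit 17) (nat_lit 5) (nat_lit 19) (nat_lit 4) (nat_lit 17) (nat_lit 4) (nat_lit 393) (nat_lit 323) (nat_lit 184)) (XT.lf (nat_lit 0) (nat_lit 4296291866) (nat_lit 76) (nat_lit 96521005061) (nat_lit 76) (nat_lit 21426150988) (nat_lit 16) (nat_lit 4) (nat_lit 17) (nat_lit 5) (nat_lit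 17) (nat_lit 4) (nat_lit 394) (nat_lit 323) (nat_lit 183)))))) (XT.nd (nat_lit 468) (nat_lit 228) (nat_lit 0) (XT.nd (nat_lit 234) (nat_lit 0) (nat_lit 0) (XT.nd (nat_lit 78) (nat_lit 152) (nat_lit 0) (XT.lf (nat_lit 0) (nat_lit 48707702092) (nat_lit 76) (nat_lit 76785848986) (nat_lit 76) (nat_lit 1687128053) (nat_lit 16) (nat_lit 4) (nat_lit 17) (nat_lit 5) (nat_lit 17) (nat_lit 4) (nat_lit 395) (nat_lit 323) (nat_lit 182)) (XT.nd (nat_lit 78) (nat_lit 76) (nat_lit 0) (XT.lf (nat_lit 0) (nat_lit 18427100687) (nat_lit 152) (nat_lit 37326847246) (nat_lit 76) (nat_lit 76596081156) (nat_lit 15) (nat_lit 5) (nat_lit 17) (nat_lit 5) (nat_lit 16) (nat_lit 4) (nat_lit 396) (nat_lit 323) (nat_lit 181)) (XT.lf (nat_lit 0) (nat_lit 6037887575) (nat_lit 76) (nat_lit 33544453198) (nat_lit 152) (nat_lit 98189523430) (nat_lit 14) (nat_lit 5) (nat_lit 15) (nat_lit 5) (nat_lit 16) (nat_lit 4) (nat_lit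 397) (nat_lit 323) (nat_lit 180)))) (XT.nd (nat_lit 78) (nat_lit 0) (nat_lit 0) (XT.lf (nat_lit 0) (nat_lit 52862538506) (nat_lit 76) (nat_lit 9562724838) (nat_lit 152) (nat_lit 81008032160) (nat_lit 14) (nat_lit 5) (nat_lit 15) (nat_lit 5) (nat_lit 16) (nat_lit 4) (nat_lit 398) (nat_lit 323) (nat_lit 179)) (XT.nd (nat_lit 78) (nat_lit 0) (nat_lit 0) (XT.lf (nat_lit 0) (nat_lit 86652022849) (nat_lit 152) (nat_lit 47597318680) (nat_lit 0) (nat_lit 15116372730) (nat_lit 14) (nat_lit 5) (nat_lit 16) (nat_lit 4) (nat_lit 14) (nat_lit 4) (nat_lit 399) (nat_lit 323) (nat_lit 178)) (XT.lf (nat_lit 0) (nat_lit 112244837409) (nat_lit 152) (nat_lit 2635879321) (nat_lit 0) (nat_lit 40706301780) (nat_lit 14) (nat_lit 5) (nat_lit 16) (nat_lit 4) (nat_lit 14) (nat_lit 4) (nat_lit 400) (nat_lit 323) (nat_lit 177))))) (XT.nd (nat_lit 234) (nat_lit 76) (nat_lit 0) (XT.nd (nat_lit 78) (nat_lit 76) (nat_lit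 0) (XT.lf (nat_lit 0) (nat_lit 46043595665) (nat_lit 76) (nat_lit 93790615261) (nat_lit 76) (nat_lit 22249331527) (nat_lit 13) (nat_lit 4) (nat_lit 14) (nat_lit 5) (nat_lit 14) (nat_lit 4) (nat_lit 401) (nat_lit 323) (nat_lit 176)) (XT.nd (nat_lit 78) (nat_lit 76) (nat_lit 0) (XT.lf (nat_lit 0) (nat_lit 97244897215) (nat_lit 76) (nat_lit 71600880254) (nat_lit 76) (nat_lit 56979278) (nat_lit 13) (nat_lit 4) (nat_lit 14) (nat_lit 5) (nat_lit 14) (nat_lit 4) (nat_lit 402) (nat_lit 323) (nat_lit 175)) (XT.lf (nat_lit 0) (nat_lit 22499151141) (nat_lit 152) (nat_lit 25423133748) (nat_lit 76) (nat_lit 128122593962) (nat_lit 12) (nat_lit 5) (nat_lit 14) (nat_lit 5) (nat_lit 13) (nat_lit 4) (nat_lit 403) (nat_lit 323) (nat_lit 174)))) (XT.nd (nat_lit 78) (nat_lit 0) (nat_lit 0) (XT.lf (nat_lit 0) (nat_lit 23883435827) (nat_lit 76) (nat_lit 22668858480) (nat_lit 152) (nat_lit 136973210315) (nat_lit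 11) (nat_lit 5) (nat_lit 12) (nat_lit 5) (nat_lit 13) (nat_lit 4) (nat_lit 404) (nat_lit 323) (nat_lit 173)) (XT.nd (nat_lit 78) (nat_lit 0) (nat_lit 0) (XT.lf (nat_lit 0) (nat_lit 72304013294) (nat_lit 152) (nat_lit 114891176019) (nat_lit 0) (nat_lit 4160176744) (nat_lit 11) (nat_lit 5) (nat_lit 13) (nat_lit 4) (nat_lit 11) (nat_lit 4) (nat_lit 405) (nat_lit 323) (nat_lit 172)) (XT.lf (nat_lit 0) (nat_lit 99713263769) (nat_lit 152) (nat_lit 68277583267) (nat_lit 0) (nat_lit 31567376540) (nat_lit 11) (nat_lit 5) (nat_lit 13) (nat_lit 4) (nat_lit 11) (nat_lit 4) (nat_lit 406) (nat_lit 323) (nat_lit 171))))))))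
noncomputable def xc162 : XT := (XT.nd (nat_lit 1794) (nat_lit 76) (nat_lit 0) (XT.nd (nat_lit 858) (nat_lit 152) (nat_lit 0) (XT.nd (nat_lit 390) (nat_lit 152) (nat_lit 0) (XT.nd (nat_lit 156) (nat_lit 76) (nat_lit 0) (XT.nd (nat_lit 78) (nat_lit 76) (nat_lit 0) (XT.lf (nat_lit 0) (nat_lit 128491381443) (nat_lit 152) (nat_lit 19336381386) (nat_lit 0) (nat_lit 60343541188) (nat_lit 11) (nat_lit 5) (nat_lit 13) (nat_lit 4) (nat_lit 11) (nat_lit 4) (nat_lit 407) (nat_lit 323) (nat_lit 170)) (XT.lf (nat_lit 0) (nat_lit 33108639527) (nat_lit 76) (nat_lit 126115164767) (nat_lit 76) (nat_lit 57965464486) (nat_lit 10) (nat_lit 4) (nat_lit 11) (nat_lit 5) (nat_lit 11) (nat_lit 4) (nat_lit 408) (nat_lit 323) (nat_lit 169))) (XT.nd (nat_lit 78) (nat_lit 76) (nat_lit 0) (XT.lf (nat_lit 0) (nat_lit 88844349858) (nat_lit 76) (nat_lit 102974477478) (nat_lit 76) (nat_lit 34823005744) (nat_lit 10) (nat_lit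 4) (nat_lit 11) (nat_lit 5) (nat_lit 11) (nat_lit 4) (nat_lit 409) (nat_lit 323) (nat_lit 168)) (XT.nd (nat_lit 78) (nat_lit 76) (nat_lit 0) (XT.lf (nat_lit 0) (nat_lit 147364105585) (nat_lit 76) (nat_lit 78678075063) (nat_lit 76) (nat_lit 10524916232) (nat_lit 10) (nat_lit 4) (nat_lit 11) (nat_lit 5) (nat_lit 11) (nat_lit 4) (nat_lit 410) (nat_lit 323) (nat_lit 167)) (XT.lf (nat_lit 0) (nat_lit 14506990038) (nat_lit 152) (nat_lit 38415436012) (nat_lit 76) (nat_lit 194054566524) (nat_lit 9) (nat_lit 5) (nat_lit 11) (nat_lit 5) (nat_lit 10) (nat_lit 4) (nat_lit 411) (nat_lit 323) (nat_lit 166))))) (XT.nd (nat_lit 234) (nat_lit 76) (nat_lit 0) (XT.nd (nat_lit 78) (nat_lit 0) (nat_lit 0) (XT.lf (nat_lit 0) (nat_lit 15223681407) (nat_lit 76) (nat_lit 25449478225) (nat_lit 152) (nat_lit 217213777938) (nat_lit 8) (nat_lit 5) (nat_lit 9) (nat_lit 5) (nat_lit 10) (nat_lit 4) (nat_lit 412) (nat_lit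 323) (nat_lit 165)) (XT.nd (nat_lit 78) (nat_lit 0) (nat_lit 0) (XT.lf (nat_lit 0) (nat_lit 68860620191) (nat_lit 152) (nat_lit 196497636428) (nat_lit 0) (nat_lit 3948474269) (nat_lit 8) (nat_lit 5) (nat_lit 10) (nat_lit 4) (nat_lit 8) (nat_lit 4) (nat_lit 413) (nat_lit 323) (nat_lit 164)) (XT.lf (nat_lit 0) (nat_lit 98873415159) (nat_lit 152) (nat_lit 148443353481) (nat_lit 0) (nat_lit 33959947352) (nat_lit 8) (nat_lit 5) (nat_lit 10) (nat_lit 4) (nat_lit 8) (nat_lit 4) (nat_lit 414) (nat_lit 323) (nat_lit 163)))) (XT.nd (nat_lit 78) (nat_lit 76) (nat_lit 0) (XT.lf (nat_lit 0) (nat_lit 130385665893) (nat_lit 152) (nat_lit 97988654687) (nat_lit 0) (nat_lit 65470939148) (nat_lit 8) (nat_lit 5) (nat_lit 10) (nat_lit 4) (nat_lit 8) (nat_lit 4) (nat_lit 415) (nat_lit 323) (nat_lit 162)) (XT.nd (nat_lit 78) (nat_lit 76) (nat_lit 0) (XT.lf (nat_lit 0) (nat_lit 163472401564) (nat_lit 152) (nat_lit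 45013409810) (nat_lit 0) (nat_lit 98556475829) (nat_lit 8) (nat_lit 5) (nat_lit 10) (nat_lit 4) (nat_lit 8) (nat_lit 4) (nat_lit 416) (nat_lit 323) (nat_lit 161)) (XT.lf (nat_lit 0) (nat_lit 10959278023) (nat_lit 76) (nat_lit 187424227131) (nat_lit 76) (nat_lit 122507159502) (nat_lit 7) (nat_lit 4) (nat_lit 8) (nat_lit 5) (nat_lit 8) (nat_lit 4) (nat_lit 417) (nat_lit 323) (nat_lit 160)))))) (XT.nd (nat_lit 468) (nat_lit 0) (nat_lit 0) (XT.nd (nat_lit 234) (nat_lit 152) (nat_lit 0) (XT.nd (nat_lit 78) (nat_lit 0) (nat_lit 0) (XT.lf (nat_lit 0) (nat_lit 71291313192) (nat_lit 76) (nat_lit 164510119819) (nat_lit 76) (nat_lit 99591964672) (nat_lit 7) (nat_lit 4) (nat_lit 8) (nat_lit 5) (nat_lit 8) (nat_lit 4) (nat_lit 418) (nat_lit 323) (nat_lit 159)) (XT.nd (nat_lit 78) (nat_lit 0) (nat_lit 0) (XT.lf (nat_lit 0) (nat_lit 134637996783) (nat_lit 76) (nat_lit 140451255917) (nat_lit 76) (nat_lit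 75532065038) (nat_lit 7) (nat_lit 4) (nat_lit 8) (nat_lit 5) (nat_lit 8) (nat_lit 4) (nat_lit 419) (nat_lit 323) (nat_lit 158)) (XT.lf (nat_lit 0) (nat_lit 201150154234) (nat_lit 76) (nat_lit 115190352413) (nat_lit 76) (nat_lit 50270175123) (nat_lit 7) (nat_lit 4) (nat_lit 8) (nat_lit 5) (nat_lit 8) (nat_lit 4) (nat_lit 420) (nat_lit 323) (nat_lit 157)))) (XT.nd (nat_lit 78) (nat_lit 152) (nat_lit 0) (XT.lf (nat_lit 0) (nat_lit 270986147824) (nat_lit 76) (nat_lit 88667264301) (nat_lit 76) (nat_lit 23746147572) (nat_lit 7) (nat_lit 4) (nat_lit 8) (nat_lit 5) (nat_lit 8) (nat_lit 4) (nat_lit 421) (nat_lit 323) (nat_lit 156)) (XT.nd (nat_lit 78) (nat_lit 76) (nat_lit 0) (XT.lf (nat_lit 0) (nat_lit 3971842995) (nat_lit 152) (nat_lit 56779733293) (nat_lit 76) (nat_lit 340273145651) (nat_lit 6) (nat_lit 5) (nat_lit 8) (nat_lit 5) (nat_lit 7) (nat_lit 4) (nat_lit 422) (nat_lit 323) (nat_lit 155))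 (XT.lf (nat_lit 0) (nat_lit 1285869041) (nat_lit 76) (nat_lit 31011073677) (nat_lit 152) (nat_lit 387213773838) (nat_lit 5) (nat_lit 5) (nat_lit 6) (nat_lit 5) (nat_lit 7) (nat_lit 4) (nat_lit 423) (nat_lit 323) (nat_lit 154))))) (XT.nd (nat_lit 234) (nat_lit 0) (nat_lit 0) (XT.nd (nat_lit 78) (nat_lit 0) (nat_lit 0) (XT.lf (nat_lit 0) (nat_lit 63018195489) (nat_lit 152) (nat_lit 374667696615) (nat_lit 0) (nat_lit 1186124007) (nat_lit 5) (nat_lit 5) (nat_lit 7) (nat_lit 4) (nat_lit 5) (nat_lit 4) (nat_lit 424) (nat_lit 323) (nat_lit 153)) (XT.nd (nat_lit 78) (nat_lit 0) (nat_lit 0) (XT.lf (nat_lit 0) (nat_lit 95783091575) (nat_lit 152) (nat_lit 329442626122) (nat_lit 0) (nat_lit 33950284019) (nat_lit 5) (nat_lit 5) (nat_lit 7) (nat_lit 4) (nat_lit 5) (nat_lit 4) (nat_lit 425) (nat_lit 323) (nat_lit 152)) (XT.lf (nat_lit 0) (nat_lit 130185472866) (nat_lit 152) (nat_lit 281957787529) (nat_lit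 0) (nat_lit 68351964285) (nat_lit 5) (nat_lit 5) (nat_lit 7) (nat_lit 4) (nat_lit 5) (nat_lit 4) (nat_lit 426) (nat_lit 323) (nat_lit 151)))) (XT.nd (nat_lit 78) (nat_lit 0) (nat_lit 0) (XT.lf (nat_lit 0) (nat_lit 166307249793) (nat_lit 152) (nat_lit 232100121695) (nat_lit 0) (nat_lit 104473073571) (nat_lit 5) (nat_lit 5) (nat_lit 7) (nat_lit 4) (nat_lit 5) (nat_lit 4) (nat_lit 427) (nat_lit 323) (nat_lit 150)) (XT.nd (nat_lit 78) (nat_lit 0) (nat_lit 0) (XT.lf (nat_lit 0) (nat_lit 204234426588) (nat_lit 152) (nat_lit 179750919894) (nat_lit 0) (nat_lit 142399614515) (nat_lit 5) (nat_lit 5) (nat_lit 7) (nat_lit 4) (nat_lit 5) (nat_lit 4) (nat_lit 428) (nat_lit 323) (nat_lit 149)) (XT.lf (nat_lit 0) (nat_lit 244057306051) (nat_lit 152) (nat_lit 124785541168) (nat_lit 0) (nat_lit 182221888407) (nat_lit 5) (nat_lit 5) (nat_lit 7) (nat_lit 4) (nat_lit 5) (nat_lit 4) (nat_lit 429) (nat_lit 323)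 (nat_lit 148))))))) (XT.nd (nat_lit 39312) (nat_lit 0) (nat_lit 5472) (XT.nd (nat_lit 38844) (nat_lit 0) (nat_lit 7524) (XT.nd (nat_lit 38610) (nat_lit 0) (nat_lit 8132) (XT.nd (nat_lit 78) (nat_lit 76) (nat_lit 0) (XT.lf (nat_lit 0) (nat_lit 285870704562) (nat_lit 152) (nat_lit 67073115568) (nat_lit 0) (nat_lit 224034710185) (nat_lit 5) (nat_lit 5) (nat_lit 7) (nat_lit 4) (nat_lit 5) (nat_lit 4) (nat_lit 430) (nat_lit 323) (nat_lit 147)) (XT.nd (nat_lit 78) (nat_lit 76) (nat_lit 0) (XT.lf (nat_lit 0) (nat_lit 329774177833) (nat_lit 152) (nat_lit 6476232556) (nat_lit 0) (nat_lit 267937634185) (nat_lit 5) (nat_lit 5) (nat_lit 7) (nat_lit 4) (nat_lit 5) (nat_lit 4) (nat_lit 431) (nat_lit 323) (nat_lit 146)) (XT.lf (nat_lit 0) (nat_lit 59039002958) (nat_lit 76) (nat_lit 317755019276) (nat_lit 76) (nat_lit 255917952513) (nat_lit 4) (nat_lit 4) (nat_lit 5) (nat_lit 5) (nat_lit 5) (nat_lit 4)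 (nat_lit 432) (nat_lit 323) (nat_lit 145)))) (XT.nd (nat_lit 78) (nat_lit 0) (nat_lit 0) (XT.lf (nat_lit 0) (nat_lit 2417503103) (nat_lit 0) (nat_lit 2417503103) (nat_lit 684) (nat_lit 1863815813) (nat_lit 111) (nat_lit 5) (nat_lit 111) (nat_lit 3) (nat_lit 120) (nat_lit 3) (nat_lit 324) (nat_lit 324) (nat_lit 252)) (XT.nd (nat_lit 78) (nat_lit 0) (nat_lit 0) (XT.lf (nat_lit 0) (nat_lit 10290870059) (nat_lit 684) (nat_lit 2233197340) (nat_lit 760) (nat_lit 1189156455) (nat_lit 111) (nat_lit 5) (nat_lit 120) (nat_lit 3) (nat_lit 121) (nat_lit 5) (nat_lit 325) (nat_lit 324) (nat_lit 251)) (XT.lf (nat_lit 76) (nat_lit 4463432744) (nat_lit 0) (nat_lit 6605426944) (nat_lit 760) (nat_lit 2969444500) (nat_lit 112) (nat_lit 5) (nat_lit 111) (nat_lit 5) (nat_lit 121) (nat_lit 5) (nat_lit 326) (nat_lit 324) (nat_lit 250))))) (XT.nd (nat_lit 234) (nat_lit 608) (nat_lit 0) (XT.nd (nat_lit 78) (nat_lit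 0) (nat_lit 76) (XT.lf (nat_lit 76) (nat_lit 11559755849) (nat_lit 0) (nat_lit 341843993) (nat_lit 760) (nat_lit 2477270892) (nat_lit 112) (nat_lit 5) (nat_lit 111) (nat_lit 5) (nat_lit 121) (nat_lit 5) (nat_lit 327) (nat_lit 324) (nat_lit 249)) (XT.nd (nat_lit 78) (nat_lit 0) (nat_lit 0) (XT.lf (nat_lit 76) (nat_lit 4301484615) (nat_lit 0) (nat_lit 8618210356) (nat_lit 760) (nat_lit 1809608306) (nat_lit 113) (nat_lit 5) (nat_lit 112) (nat_lit 5) (nat_lit 122) (nat_lit 5) (nat_lit 328) (nat_lit 324) (nat_lit 248)) (XT.lf (nat_lit 76) (nat_lit 11857137496) (nat_lit 0) (nat_lit 2164815079) (nat_lit 760) (nat_lit 1073664431) (nat_lit 113) (nat_lit 5) (nat_lit 112) (nat_lit 5) (nat_lit 122) (nat_lit 5) (nat_lit 329) (nat_lit 324) (nat_lit 247)))) (XT.nd (nat_lit 78) (nat_lit 760) (nat_lit 0) (XT.lf (nat_lit 76) (nat_lit 4364508029) (nat_lit 0) (nat_lit 10936008302) (nat_lit 760) (nat_lit 173691806)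 (nat_lit 114) (nat_lit 5) (nat_lit 113) (nat_lit 5) (nat_lit 123) (nat_lit 5) (nat_lit 330) (nat_lit 324) (nat_lit 246)) (XT.nd (nat_lit 78) (nat_lit 0) (nat_lit 76) (XT.lf (nat_lit 0) (nat_lit 819258900) (nat_lit 760) (nat_lit 3471269511) (nat_lit 836) (nat_lit 11576984449) (nat_lit 103) (nat_lit 5) (nat_lit 113) (nat_lit 5) (nat_lit 114) (nat_lit 5) (nat_lit 331) (nat_lit 324) (nat_lit 245)) (XT.lf (nat_lit 0) (nat_lit 1954717958) (nat_lit 760) (nat_lit 11638008710) (nat_lit 836) (nat_lit 2682697349) (nat_lit 104) (nat_lit 5) (nat_lit 114) (nat_lit 5) (nat_lit 115) (nat_lit 5) (nat_lit 332) (nat_lit 324) (nat_lit 244)))))) (XT.nd (nat_lit 468) (nat_lit 1064) (nat_lit 0) (XT.nd (nat_lit 234) (nat_lit 1064) (nat_lit 0) (XT.nd (nat_lit 78) (nat_lit 0) (nat_lit 76) (XT.lf (nat_lit 0) (nat_lit 3260054767) (nat_lit 760) (nat_lit 3514028304) (nat_lit 836) (nat_lit 9924010005) (nat_lit 104) (nat_lit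 5) (nat_lit 114) (nat_lit 5) (nat_lit 115) (nat_lit 5) (nat_lit 333) (nat_lit 324) (nat_lit 243)) (XT.nd (nat_lit 78) (nat_lit 0) (nat_lit 0) (XT.lf (nat_lit 0) (nat_lit 4702560864) (nat_lit 760) (nat_lit 11977824901) (nat_lit 76) (nat_lit 457931453) (nat_lit 105) (nat_lit 5) (nat_lit 115) (nat_lit 5) (nat_lit 106) (nat_lit 5) (nat_lit 334) (nat_lit 324) (nat_lit 242)) (XT.lf (nat_lit 0) (nat_lit 6373160503) (nat_lit 760) (nat_lit 3332805385) (nat_lit 76) (nat_lit 7886804217) (nat_lit 105) (nat_lit 5) (nat_lit 115) (nat_lit 5) (nat_lit 106) (nat_lit 5) (nat_lit 335) (nat_lit 324) (nat_lit 241)))) (XT.nd (nat_lit 78) (nat_lit 380) (nat_lit 0) (XT.lf (nat_lit 0) (nat_lit 5920687547) (nat_lit 760) (nat_lit 2284212839) (nat_lit 836) (nat_lit 9861179931) (nat_lit 95) (nat_lit 5) (nat_lit 105) (nat_lit 5) (nat_lit 106) (nat_lit 5) (nat_lit 336) (nat_lit 324) (nat_lit 240)) (XT.nd (nat_lit 78)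 (nat_lit 380) (nat_lit 0) (XT.lf (nat_lit 0) (nat_lit 10257293978) (nat_lit 836) (nat_lit 2908414611) (nat_lit 76) (nat_lit 5390908583) (nat_lit 95) (nat_lit 5) (nat_lit 106) (nat_lit 5) (nat_lit 96) (nat_lit 5) (nat_lit 337) (nat_lit 324) (nat_lit 239)) (XT.lf (nat_lit 0) (nat_lit 6962659797) (nat_lit 380) (nat_lit 5582175085) (nat_lit 456) (nat_lit 6520233386) (nat_lit 90) (nat_lit 5) (nat_lit 95) (nat_lit 5) (nat_lit 96) (nat_lit 5) (nat_lit 338) (nat_lit 324) (nat_lit 238))))) (XT.nd (nat_lit 234) (nat_lit 684) (nat_lit 0) (XT.nd (nat_lit 78) (nat_lit 380) (nat_lit 0) (XT.lf (nat_lit 0) (nat_lit 15020807834) (nat_lit 456) (nat_lit 2219810607) (nat_lit 76) (nat_lit 2354633851) (nat_lit 90) (nat_lit 5) (nat_lit 96) (nat_lit 5) (nat_lit 91) (nat_lit 5) (nat_lit 339) (nat_lit 324) (nat_lit 237)) (XT.nd (nat_lit 78) (nat_lit 76) (nat_lit 0) (XT.lf (nat_lit 0) (nat_lit 8318685807) (nat_lit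 304) (nat_lit 9510735361) (nat_lit 380) (nat_lit 2312094762) (nat_lit 86) (nat_lit 5) (nat_lit 90) (nat_lit 5) (nat_lit 91) (nat_lit 5) (nat_lit 340) (nat_lit 324) (nat_lit 236)) (XT.lf (nat_lit 0) (nat_lit 87194200) (nat_lit 380) (nat_lit 1266825907) (nat_lit 76) (nat_lit 19359742002) (nat_lit 85) (nat_lit 5) (nat_lit 90) (nat_lit 5) (nat_lit 86) (nat_lit 5) (nat_lit 341) (nat_lit 324) (nat_lit 235)))) (XT.nd (nat_lit 78) (nat_lit 304) (nat_lit 0) (XT.lf (nat_lit 0) (nat_lit 2790267532) (nat_lit 456) (nat_lit 11331769354) (nat_lit 76) (nat_lit 7177623277) (nat_lit 80) (nat_lit 5) (nat_lit 86) (nat_lit 5) (nat_lit 81) (nat_lit 5) (nat_lit 342) (nat_lit 324) (nat_lit 234)) (XT.nd (nat_lit 78) (nat_lit 304) (nat_lit 0) (XT.lf (nat_lit 0) (nat_lit 5661079312) (nat_lit 456) (nat_lit 140920978) (nat_lit 76) (nat_lit 16111233874) (nat_lit 80) (nat_lit 5) (nat_lit 86) (nat_lit 5) (nat_lit 81)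 (nat_lit 5) (nat_lit 343) (nat_lit 324) (nat_lit 233)) (XT.lf (nat_lit 0) (nat_lit 8900460914) (nat_lit 380) (nat_lit 10616917382) (nat_lit 76) (nat_lit 3028866898) (nat_lit 76) (nat_lit 5) (nat_lit 81) (nat_lit 5) (nat_lit 77) (nat_lit 5) (nat_lit 344) (nat_lit 324) (nat_lit 232))))))))
noncomputable def xc163 : XT := (XT.nd (nat_lit 1794) (nat_lit 1520) (nat_lit 0) (XT.nd (nat_lit 858) (nat_lit 1216) (nat_lit 0) (XT.nd (nat_lit 390) (nat_lit 760) (nat_lit 0) (XT.nd (nat_lit 156) (nat_lit 608) (nat_lit 0) (XT.nd (nat_lit 78) (nat_lit 0) (nat_lit 0) (XT.lf (nat_lit 0) (nat_lit 1332059052) (nat_lit 304) (nat_lit 11077520165) (nat_lit 380) (nat_lit 10795948505) (nat_lit 72) (nat_lit 5) (nat_lit 76) (nat_lit 5) (nat_lit 77) (nat_lit 5) (nat_lit 345) (nat_lit 324) (nat_lit 231)) (XT.lf (nat_lit 0) (nat_lit 14234667855) (nat_lit 304) (nat_lit 2029027762) (nat_lit 380) (nat_lit 7625610533) (nat_lit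 72) (nat_lit 5) (nat_lit 76) (nat_lit 5) (nat_lit 77) (nat_lit 5) (nat_lit 346) (nat_lit 324) (nat_lit 230))) (XT.nd (nat_lit 78) (nat_lit 380) (nat_lit 0) (XT.lf (nat_lit 0) (nat_lit 3146911409) (nat_lit 228) (nat_lit 17319591817) (nat_lit 304) (nat_lit 4132979464) (nat_lit 69) (nat_lit 5) (nat_lit 72) (nat_lit 5) (nat_lit 73) (nat_lit 5) (nat_lit 347) (nat_lit 324) (nat_lit 229)) (XT.nd (nat_lit 78) (nat_lit 380) (nat_lit 0) (XT.lf (nat_lit 0) (nat_lit 16877275559) (nat_lit 228) (nat_lit 8188882160) (nat_lit 304) (nat_lit 269683069) (nat_lit 69) (nat_lit 5) (nat_lit 72) (nat_lit 5) (nat_lit 73) (nat_lit 5) (nat_lit 348) (nat_lit 324) (nat_lit 228)) (XT.lf (nat_lit 0) (nat_lit 3762949626) (nat_lit 380) (nat_lit 20843225623) (nat_lit 76) (nat_lit 1495024137) (nat_lit 64) (nat_lit 5) (nat_lit 69) (nat_lit 5) (nat_lit 65) (nat_lit 5) (nat_lit 349) (nat_lit 324) (nat_lit 227))))) (XT.nd (nat_lit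 234) (nat_lit 532) (nat_lit 0) (XT.nd (nat_lit 78) (nat_lit 228) (nat_lit 0) (XT.lf (nat_lit 0) (nat_lit 8258981016) (nat_lit 380) (nat_lit 7096722518) (nat_lit 76) (nat_lit 11535366779) (nat_lit 64) (nat_lit 5) (nat_lit 69) (nat_lit 5) (nat_lit 65) (nat_lit 5) (nat_lit 350) (nat_lit 324) (nat_lit 226)) (XT.nd (nat_lit 78) (nat_lit 0) (nat_lit 0) (XT.lf (nat_lit 0) (nat_lit 7567850184) (nat_lit 228) (nat_lit 5521536242) (nat_lit 304) (nat_lit 14625576367) (nat_lit 61) (nat_lit 5) (nat_lit 64) (nat_lit 5) (nat_lit 65) (nat_lit 5) (nat_lit 351) (nat_lit 324) (nat_lit 225)) (XT.lf (nat_lit 0) (nat_lit 18350081688) (nat_lit 304) (nat_lit 5450653261) (nat_lit 76) (nat_lit 4769882781) (nat_lit 61) (nat_lit 5) (nat_lit 65) (nat_lit 5) (nat_lit 62) (nat_lit 5) (nat_lit 352) (nat_lit 324) (nat_lit 224)))) (XT.nd (nat_lit 78) (nat_lit 304) (nat_lit 0) (XT.lf (nat_lit 0) (nat_lit 10205645094) (nat_lit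 228) (nat_lit 13910025830) (nat_lit 304) (nat_lit 5341297542) (nat_lit 58) (nat_lit 5) (nat_lit 61) (nat_lit 5) (nat_lit 62) (nat_lit 5) (nat_lit 353) (nat_lit 324) (nat_lit 223)) (XT.nd (nat_lit 78) (nat_lit 304) (nat_lit 0) (XT.lf (nat_lit 0) (nat_lit 26823060607) (nat_lit 228) (nat_lit 3431002074) (nat_lit 304) (nat_lit 129353630) (nat_lit 58) (nat_lit 5) (nat_lit 61) (nat_lit 5) (nat_lit 62) (nat_lit 5) (nat_lit 354) (nat_lit 324) (nat_lit 222)) (XT.lf (nat_lit 0) (nat_lit 5494349684) (nat_lit 304) (nat_lit 18219992110) (nat_lit 76) (nat_lit 7621569963) (nat_lit 54) (nat_lit 5) (nat_lit 58) (nat_lit 5) (nat_lit 55) (nat_lit 5) (nat_lit 355) (nat_lit 324) (nat_lit 221)))))) (XT.nd (nat_lit 468) (nat_lit 532) (nat_lit 0) (XT.nd (nat_lit 234) (nat_lit 304) (nat_lit 0) (XT.nd (nat_lit 78) (nat_lit 380) (nat_lit 0) (XT.lf (nat_lit 0) (nat_lit 11505025512) (nat_lit 304) (nat_lit 1653573105)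 (nat_lit 76) (nat_lit 19171825551) (nat_lit 54) (nat_lit 5) (nat_lit 58) (nat_lit 5) (nat_lit 55) (nat_lit 5) (nat_lit 356) (nat_lit 324) (nat_lit 220)) (XT.nd (nat_lit 78) (nat_lit 152) (nat_lit 0) (XT.lf (nat_lit 0) (nat_lit 16250998113) (nat_lit 228) (nat_lit 1811916578) (nat_lit 304) (nat_lit 15299418243) (nat_lit 51) (nat_lit 5) (nat_lit 54) (nat_lit 5) (nat_lit 55) (nat_lit 5) (nat_lit 357) (nat_lit 324) (nat_lit 219)) (XT.lf (nat_lit 0) (nat_lit 511527391) (nat_lit 152) (nat_lit 24624424618) (nat_lit 228) (nat_lit 9300526931) (nat_lit 49) (nat_lit 5) (nat_lit 51) (nat_lit 5) (nat_lit 52) (nat_lit 5) (nat_lit 358) (nat_lit 324) (nat_lit 218)))) (XT.nd (nat_lit 78) (nat_lit 304) (nat_lit 0) (XT.lf (nat_lit 0) (nat_lit 19568649418) (nat_lit 152) (nat_lit 13306256214) (nat_lit 228) (nat_lit 2673817666) (nat_lit 49) (nat_lit 5) (nat_lit 51) (nat_lit 5) (nat_lit 52) (nat_lit 5) (nat_lit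 359) (nat_lit 324) (nat_lit 217)) (XT.nd (nat_lit 78) (nat_lit 0) (nat_lit 0) (XT.lf (nat_lit 0) (nat_lit 2877253210) (nat_lit 228) (nat_lit 1308237121) (nat_lit 304) (nat_lit 32525829714) (nat_lit 45) (nat_lit 5) (nat_lit 48) (nat_lit 5) (nat_lit 49) (nat_lit 5) (nat_lit 360) (nat_lit 324) (nat_lit 216)) (XT.lf (nat_lit 0) (nat_lit 11742803440) (nat_lit 304) (nat_lit 14920912815) (nat_lit 76) (nat_lit 11243897535) (nat_lit 45) (nat_lit 5) (nat_lit 49) (nat_lit 5) (nat_lit 46) (nat_lit 5) (nat_lit 361) (nat_lit 324) (nat_lit 215))))) (XT.nd (nat_lit 234) (nat_lit 228) (nat_lit 0) (XT.nd (nat_lit 78) (nat_lit 152) (nat_lit 0) (XT.lf (nat_lit 0) (nat_lit 5069072261) (nat_lit 152) (nat_lit 14703372288) (nat_lit 228) (nat_lit 19386558072) (nat_lit 43) (nat_lit 5) (nat_lit 45) (nat_lit 5) (nat_lit 46) (nat_lit 5) (nat_lit 362) (nat_lit 324) (nat_lit 214)) (XT.nd (nat_lit 78) (nat_lit 152) (nat_lit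 0) (XT.lf (nat_lit 0) (nat_lit 26567110083) (nat_lit 152) (nat_lit 1883167857) (nat_lit 228) (nat_lit 12010350788) (nat_lit 43) (nat_lit 5) (nat_lit 45) (nat_lit 5) (nat_lit 46) (nat_lit 5) (nat_lit 363) (nat_lit 324) (nat_lit 213)) (XT.lf (nat_lit 0) (nat_lit 7358204005) (nat_lit 152) (nat_lit 30493697368) (nat_lit 228) (nat_lit 3960943039) (nat_lit 41) (nat_lit 5) (nat_lit 43) (nat_lit 5) (nat_lit 44) (nat_lit 5) (nat_lit 364) (nat_lit 324) (nat_lit 212)))) (XT.nd (nat_lit 78) (nat_lit 152) (nat_lit 0) (XT.lf (nat_lit 0) (nat_lit 4611506518) (nat_lit 228) (nat_lit 13180181707) (nat_lit 76) (nat_lit 25424264274) (nat_lit 40) (nat_lit 5) (nat_lit 43) (nat_lit 5) (nat_lit 41) (nat_lit 5) (nat_lit 365) (nat_lit 324) (nat_lit 211)) (XT.nd (nat_lit 78) (nat_lit 0) (nat_lit 0) (XT.lf (nat_lit 0) (nat_lit 9384579269) (nat_lit 152) (nat_lit 4235964308) (nat_lit 228) (nat_lit 31058374557) (nat_lit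 38) (nat_lit 5) (nat_lit 40) (nat_lit 5) (nat_lit 41) (nat_lit 5) (nat_lit 366) (nat_lit 324) (nat_lit 210)) (XT.lf (nat_lit 0) (nat_lit 23457623433) (nat_lit 228) (nat_lit 12837380996) (nat_lit 76) (nat_lit 9901150697) (nat_lit 38) (nat_lit 5) (nat_lit 41) (nat_lit 5) (nat_lit 39) (nat_lit 5) (nat_lit 367) (nat_lit 324) (nat_lit 209))))))) (XT.nd (nat_lit 936) (nat_lit 684) (nat_lit 0) (XT.nd (nat_lit 468) (nat_lit 380) (nat_lit 0) (XT.nd (nat_lit 234) (nat_lit 152) (nat_lit 0) (XT.nd (nat_lit 78) (nat_lit 152) (nat_lit 0) (XT.lf (nat_lit 0) (nat_lit 11017098600) (nat_lit 152) (nat_lit 23005793510) (nat_lit 228) (nat_lit 13754547616) (nat_lit 36) (nat_lit 5) (nat_lit 38) (nat_lit 5) (nat_lit 39) (nat_lit 5) (nat_lit 368) (nat_lit 324) (nat_lit 208)) (XT.nd (nat_lit 78) (nat_lit 152) (nat_lit 0) (XT.lf (nat_lit 0) (nat_lit 36501624070) (nat_lit 152) (nat_lit 8827205418) (nat_lit 228) (nat_lit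 4098341184) (nat_lit 36) (nat_lit 5) (nat_lit 38) (nat_lit 5) (nat_lit 39) (nat_lit 5) (nat_lit 369) (nat_lit 324) (nat_lit 207)) (XT.lf (nat_lit 0) (nat_lit 6135302949) (nat_lit 152) (nat_lit 38849251618) (nat_lit 76) (nat_lit 6155721826) (nat_lit 34) (nat_lit 5) (nat_lit 36) (nat_lit 5) (nat_lit 35) (nat_lit 5) (nat_lit 370) (nat_lit 324) (nat_lit 206)))) (XT.nd (nat_lit 78) (nat_lit 152) (nat_lit 0) (XT.lf (nat_lit 0) (nat_lit 17105306232) (nat_lit 152) (nat_lit 13934588703) (nat_lit 76) (nat_lit 21877664820) (nat_lit 34) (nat_lit 5) (nat_lit 36) (nat_lit 5) (nat_lit 35) (nat_lit 5) (nat_lit 371) (nat_lit 324) (nat_lit 205)) (XT.nd (nat_lit 78) (nat_lit 0) (nat_lit 0) (XT.lf (nat_lit 0) (nat_lit 12621995663) (nat_lit 152) (nat_lit 16194317672) (nat_lit 228) (nat_lit 25957770725) (nat_lit 32) (nat_lit 5) (nat_lit 34) (nat_lit 5) (nat_lit 35) (nat_lit 5) (nat_lit 372) (nat_lit 324) (nat_lit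 204)) (XT.lf (nat_lit 0) (nat_lit 40982518037) (nat_lit 152) (nat_lit 361878154) (nat_lit 228) (nat_lit 15367463982) (nat_lit 32) (nat_lit 5) (nat_lit 34) (nat_lit 5) (nat_lit 35) (nat_lit 5) (nat_lit 373) (nat_lit 324) (nat_lit 203))))) (XT.nd (nat_lit 234) (nat_lit 76) (nat_lit 0) (XT.nd (nat_lit 78) (nat_lit 228) (nat_lit 0) (XT.lf (nat_lit 0) (nat_lit 12141785997) (nat_lit 76) (nat_lit 42796264048) (nat_lit 152) (nat_lit 3786518481) (nat_lit 31) (nat_lit 5) (nat_lit 32) (nat_lit 5) (nat_lit 33) (nat_lit 4) (nat_lit 374) (nat_lit 324) (nat_lit 202)) (XT.nd (nat_lit 78) (nat_lit 152) (nat_lit 0) (XT.lf (nat_lit 0) (nat_lit 8377874833) (nat_lit 152) (nat_lit 19020560878) (nat_lit 76) (nat_lit 33419321325) (nat_lit 30) (nat_lit 5) (nat_lit 32) (nat_lit 5) (nat_lit 31) (nat_lit 5) (nat_lit 375) (nat_lit 324) (nat_lit 201)) (XT.lf (nat_lit 0) (nat_lit 10176265859) (nat_lit 152) (nat_lit 11001774522)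 (nat_lit 228) (nat_lit 41826722199) (nat_lit 28) (nat_lit 5) (nat_lit 30) (nat_lit 5) (nat_lit 31) (nat_lit 5) (nat_lit 376) (nat_lit 324) (nat_lit 200)))) (XT.nd (nat_lit 78) (nat_lit 76) (nat_lit 0) (XT.lf (nat_lit 0) (nat_lit 35038608046) (nat_lit 228) (nat_lit 23901211912) (nat_lit 76) (nat_lit 6340280213) (nat_lit 28) (nat_lit 5) (nat_lit 31) (nat_lit 5) (nat_lit 29) (nat_lit 4) (nat_lit 377) (nat_lit 324) (nat_lit 199)) (XT.nd (nat_lit 78) (nat_lit 0) (nat_lit 0) (XT.lf (nat_lit 0) (nat_lit 6493065883) (nat_lit 76) (nat_lit 43377023980) (nat_lit 152) (nat_lit 17785221881) (nat_lit 27) (nat_lit 5) (nat_lit 28) (nat_lit 5) (nat_lit 29) (nat_lit 4) (nat_lit 378) (nat_lit 324) (nat_lit 198)) (XT.lf (nat_lit 0) (nat_lit 39230130932) (nat_lit 76) (nat_lit 26614025472) (nat_lit 152) (nat_lit 4285078284) (nat_lit 27) (nat_lit 5) (nat_lit 28) (nat_lit 5) (nat_lit 29) (nat_lit 4) (nat_lit 379)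 (nat_lit 324) (nat_lit 197)))))) (XT.nd (nat_lit 468) (nat_lit 228) (nat_lit 0) (XT.nd (nat_lit 234) (nat_lit 228) (nat_lit 0) (XT.nd (nat_lit 78) (nat_lit 0) (nat_lit 0) (XT.lf (nat_lit 0) (nat_lit 739942015) (nat_lit 152) (nat_lit 8841490382) (nat_lit 228) (nat_lit 63137306798) (nat_lit 24) (nat_lit 5) (nat_lit 26) (nat_lit 5) (nat_lit 27) (nat_lit 5) (nat_lit 380) (nat_lit 324) (nat_lit 196)) (XT.nd (nat_lit 78) (nat_lit 0) (nat_lit 0) (XT.lf (nat_lit 0) (nat_lit 24678824830) (nat_lit 228) (nat_lit 40616560211) (nat_lit 76) (nat_lit 10104744524) (nat_lit 24) (nat_lit 5) (nat_lit 27) (nat_lit 5) (nat_lit 25) (nat_lit 4) (nat_lit 381) (nat_lit 324) (nat_lit 195)) (XT.lf (nat_lit 0) (nat_lit 40672582241) (nat_lit 228) (nat_lit 7837396442) (nat_lit 76) (nat_lit 29698537092) (nat_lit 24) (nat_lit 5) (nat_lit 27) (nat_lit 5) (nat_lit 25) (nat_lit 4) (nat_lit 382) (nat_lit 324) (nat_lit 194))))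 (XT.nd (nat_lit 78) (nat_lit 152) (nat_lit 0) (XT.lf (nat_lit 0) (nat_lit 27453462446) (nat_lit 76) (nat_lit 30437907602) (nat_lit 152) (nat_lit 23244685159) (nat_lit 23) (nat_lit 5) (nat_lit 24) (nat_lit 5) (nat_lit 25) (nat_lit 4) (nat_lit 383) (nat_lit 324) (nat_lit 193)) (XT.nd (nat_lit 78) (nat_lit 152) (nat_lit 0) (XT.lf (nat_lit 0) (nat_lit 64775111560) (nat_lit 76) (nat_lit 11325497831) (nat_lit 152) (nat_lit 8102887601) (nat_lit 23) (nat_lit 5) (nat_lit 24) (nat_lit 5) (nat_lit 25) (nat_lit 4) (nat_lit 384) (nat_lit 324) (nat_lit 192)) (XT.lf (nat_lit 0) (nat_lit 7950849211) (nat_lit 152) (nat_lit 70594170561) (nat_lit 76) (nat_lit 8852987618) (nat_lit 21) (nat_lit 5) (nat_lit 23) (nat_lit 5) (nat_lit 22) (nat_lit 4) (nat_lit 385) (nat_lit 324) (nat_lit 191))))) (XT.nd (nat_lit 234) (nat_lit 152) (nat_lit 0) (XT.nd (nat_lit 78) (nat_lit 76) (nat_lit 0) (XT.lf (nat_lit 0) (nat_lit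 25051955488) (nat_lit 152) (nat_lit 35543201399) (nat_lit 76) (nat_lit 30124595924) (nat_lit 21) (nat_lit 5) (nat_lit 23) (nat_lit 5) (nat_lit 22) (nat_lit 4) (nat_lit 386) (nat_lit 324) (nat_lit 190)) (XT.nd (nat_lit 78) (nat_lit 0) (nat_lit 0) (XT.lf (nat_lit 0) (nat_lit 1296382476) (nat_lit 76) (nat_lit 41729027961) (nat_lit 152) (nat_lit 51181311214) (nat_lit 20) (nat_lit 5) (nat_lit 21) (nat_lit 5) (nat_lit 22) (nat_lit 4) (nat_lit 387) (nat_lit 324) (nat_lit 189)) (XT.lf (nat_lit 0) (nat_lit 41206586678) (nat_lit 76) (nat_lit 21290002936) (nat_lit 152) (nat_lit 35341497517) (nat_lit 20) (nat_lit 5) (nat_lit 21) (nat_lit 5) (nat_lit 22) (nat_lit 4) (nat_lit 388) (nat_lit 324) (nat_lit 188)))) (XT.nd (nat_lit 78) (nat_lit 152) (nat_lit 0) (XT.lf (nat_lit 0) (nat_lit 82941208493) (nat_lit 152) (nat_lit 18546575450) (nat_lit 0) (nat_lit 163243643) (nat_lit 20) (nat_lit 5) (nat_lit 22)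 (nat_lit 4) (nat_lit 20) (nat_lit 4) (nat_lit 389) (nat_lit 324) (nat_lit 187)) (XT.nd (nat_lit 78) (nat_lit 76) (nat_lit 0) (XT.lf (nat_lit 0) (nat_lit 21785925723) (nat_lit 76) (nat_lit 83308632549) (nat_lit 76) (nat_lit 525732497) (nat_lit 19) (nat_lit 4) (nat_lit 20) (nat_lit 5) (nat_lit 20) (nat_lit 4) (nat_lit 390) (nat_lit 324) (nat_lit 186)) (XT.lf (nat_lit 0) (nat_lit 18289876333) (nat_lit 152) (nat_lit 45293353760) (nat_lit 76) (nat_lit 46174463289) (nat_lit 18) (nat_lit 5) (nat_lit 20) (nat_lit 5) (nat_lit 19) (nat_lit 4) (nat_lit 391) (nat_lit 324) (nat_lit 185))))))))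
noncomputable def xc164 : XT := (XT.nd (nat_lit 1794) (nat_lit 228) (nat_lit 0) (XT.nd (nat_lit 858) (nat_lit 380) (nat_lit 0) (XT.nd (nat_lit 390) (nat_lit 228) (nat_lit 0) (XT.nd (nat_lit 156) (nat_lit 76) (nat_lit 0) (XT.nd (nat_lit 78) (nat_lit 76) (nat_lit 0) (XT.lf (nat_lit 0) (nat_lit 38026075069) (nat_lit 152) (nat_lit 4838622723) (nat_lit 76) (nat_lit 71236964134) (nat_lit 18) (nat_lit 5) (nat_lit 20) (nat_lit 5) (nat_lit 19) (nat_lit 4) (nat_lit 392) (nat_lit 324) (nat_lit 184)) (XT.lf (nat_lit 0) (nat_lit 38878718813) (nat_lit 76) (nat_lit 20474968329) (nat_lit 152) (nat_lit 59278912164) (nat_lit 17) (nat_lit 5) (nat_lit 18) (nat_lit 5) (nat_lit 19) (nat_lit 4) (nat_lit 393) (nat_lit 324) (nat_lit 183))) (XT.nd (nat_lit 78) (nat_lit 76) (nat_lit 0) (XT.lf (nat_lit 0) (nat_lit 81875951656) (nat_lit 152) (nat_lit 38489291040) (nat_lit 0) (nat_lit 3018427817) (nat_lit 17) (nat_lit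 5) (nat_lit 19) (nat_lit 4) (nat_lit 17) (nat_lit 4) (nat_lit 394) (nat_lit 324) (nat_lit 182)) (XT.nd (nat_lit 78) (nat_lit 0) (nat_lit 0) (XT.lf (nat_lit 0) (nat_lit 4647328855) (nat_lit 76) (nat_lit 101282938312) (nat_lit 76) (nat_lit 22421731750) (nat_lit 16) (nat_lit 4) (nat_lit 17) (nat_lit 5) (nat_lit 17) (nat_lit 4) (nat_lit 395) (nat_lit 324) (nat_lit 181)) (XT.lf (nat_lit 0) (nat_lit 51272822811) (nat_lit 76) (nat_lit 80564077624) (nat_lit 76) (nat_lit 1699363706) (nat_lit 16) (nat_lit 4) (nat_lit 17) (nat_lit 5) (nat_lit 17) (nat_lit 4) (nat_lit 396) (nat_lit 324) (nat_lit 180))))) (XT.nd (nat_lit 234) (nat_lit 76) (nat_lit 0) (XT.nd (nat_lit 78) (nat_lit 76) (nat_lit 0) (XT.lf (nat_lit 0) (nat_lit 19414943755) (nat_lit 152) (nat_lit 39067419556) (nat_lit 76) (nat_lit 80481828901) (nat_lit 15) (nat_lit 5) (nat_lit 17) (nat_lit 5) (nat_lit 16) (nat_lit 4) (nat_lit 397) (nat_lit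 324) (nat_lit 179)) (XT.nd (nat_lit 78) (nat_lit 0) (nat_lit 0) (XT.lf (nat_lit 0) (nat_lit 6463523456) (nat_lit 76) (nat_lit 35163188244) (nat_lit 152) (nat_lit 103030469753) (nat_lit 14) (nat_lit 5) (nat_lit 15) (nat_lit 5) (nat_lit 16) (nat_lit 4) (nat_lit 398) (nat_lit 324) (nat_lit 178)) (XT.lf (nat_lit 0) (nat_lit 55623514481) (nat_lit 76) (nat_lit 9985158590) (nat_lit 152) (nat_lit 84993167245) (nat_lit 14) (nat_lit 5) (nat_lit 15) (nat_lit 5) (nat_lit 16) (nat_lit 4) (nat_lit 399) (nat_lit 324) (nat_lit 177)))) (XT.nd (nat_lit 78) (nat_lit 76) (nat_lit 0) (XT.lf (nat_lit 0) (nat_lit 91044639451) (nat_lit 152) (nat_lit 49862804290) (nat_lit 0) (nat_lit 15923543426) (nat_lit 14) (nat_lit 5) (nat_lit 16) (nat_lit 4) (nat_lit 14) (nat_lit 4) (nat_lit 400) (nat_lit 324) (nat_lit 176)) (XT.nd (nat_lit 78) (nat_lit 76) (nat_lit 0) (XT.lf (nat_lit 0) (nat_lit 117914236860) (nat_lit 152)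 (nat_lit 2658739646) (nat_lit 0) (nat_lit 42790523591) (nat_lit 14) (nat_lit 5) (nat_lit 16) (nat_lit 4) (nat_lit 14) (nat_lit 4) (nat_lit 401) (nat_lit 324) (nat_lit 175)) (XT.lf (nat_lit 0) (nat_lit 48452952096) (nat_lit 76) (nat_lit 98429078495) (nat_lit 76) (nat_lit 23302872614) (nat_lit 13) (nat_lit 4) (nat_lit 14) (nat_lit 5) (nat_lit 14) (nat_lit 4) (nat_lit 402) (nat_lit 324) (nat_lit 174)))))) (XT.nd (nat_lit 468) (nat_lit 228) (nat_lit 0) (XT.nd (nat_lit 234) (nat_lit 0) (nat_lit 0) (XT.nd (nat_lit 78) (nat_lit 152) (nat_lit 0) (XT.lf (nat_lit 0) (nat_lit 102209215074) (nat_lit 76) (nat_lit 75132288525) (nat_lit 76) (nat_lit 3708729) (nat_lit 13) (nat_lit 4) (nat_lit 14) (nat_lit 5) (nat_lit 14) (nat_lit 4) (nat_lit 403) (nat_lit 324) (nat_lit 173)) (XT.nd (nat_lit 78) (nat_lit 76) (nat_lit 0) (XT.lf (nat_lit 0) (nat_lit 23675845210) (nat_lit 152) (nat_lit 26595357986) (nat_lit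 76) (nat_lit 134573323344) (nat_lit 12) (nat_lit 5) (nat_lit 14) (nat_lit 5) (nat_lit 13) (nat_lit 4) (nat_lit 404) (nat_lit 324) (nat_lit 172)) (XT.lf (nat_lit 0) (nat_lit 25174944383) (nat_lit 76) (nat_lit 23755757208) (nat_lit 152) (nat_lit 143768529655) (nat_lit 11) (nat_lit 5) (nat_lit 12) (nat_lit 5) (nat_lit 13) (nat_lit 4) (nat_lit 405) (nat_lit 324) (nat_lit 171)))) (XT.nd (nat_lit 78) (nat_lit 0) (nat_lit 0) (XT.lf (nat_lit 0) (nat_lit 75968279915) (nat_lit 152) (nat_lit 120541297976) (nat_lit 0) (nat_lit 4411094620) (nat_lit 11) (nat_lit 5) (nat_lit 13) (nat_lit 4) (nat_lit 11) (nat_lit 4) (nat_lit 406) (nat_lit 324) (nat_lit 170)) (XT.nd (nat_lit 78) (nat_lit 0) (nat_lit 0) (XT.lf (nat_lit 0) (nat_lit 104745656439) (nat_lit 152) (nat_lit 71601522579) (nat_lit 0) (nat_lit 33186611119) (nat_lit 11) (nat_lit 5) (nat_lit 13) (nat_lit 4) (nat_lit 11) (nat_lit 4) (nat_lit 407) (nat_lit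 324) (nat_lit 169)) (XT.lf (nat_lit 0) (nat_lit 134960454784) (nat_lit 152) (nat_lit 20217543454) (nat_lit 0) (nat_lit 63399638011) (nat_lit 11) (nat_lit 5) (nat_lit 13) (nat_lit 4) (nat_lit 11) (nat_lit 4) (nat_lit 408) (nat_lit 324) (nat_lit 168))))) (XT.nd (nat_lit 234) (nat_lit 152) (nat_lit 0) (XT.nd (nat_lit 78) (nat_lit 0) (nat_lit 0) (XT.lf (nat_lit 0) (nat_lit 34848346940) (nat_lit 76) (nat_lit 132380348361) (nat_lit 76) (nat_lit 60817844491) (nat_lit 10) (nat_lit 4) (nat_lit 11) (nat_lit 5) (nat_lit 11) (nat_lit 4) (nat_lit 409) (nat_lit 324) (nat_lit 167)) (XT.nd (nat_lit 78) (nat_lit 0) (nat_lit 0) (XT.lf (nat_lit 0) (nat_lit 93366829672) (nat_lit 76) (nat_lit 108084558834) (nat_lit 76) (nat_lit 36520448203) (nat_lit 10) (nat_lit 4) (nat_lit 11) (nat_lit 5) (nat_lit 11) (nat_lit 4) (nat_lit 410) (nat_lit 324) (nat_lit 166)) (XT.lf (nat_lit 0) (nat_lit 154808751170) (nat_lit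 76) (nat_lit 82575176419) (nat_lit 76) (nat_lit 11009535540) (nat_lit 10) (nat_lit 4) (nat_lit 11) (nat_lit 5) (nat_lit 11) (nat_lit 4) (nat_lit 411) (nat_lit 324) (nat_lit 165)))) (XT.nd (nat_lit 78) (nat_lit 76) (nat_lit 0) (XT.lf (nat_lit 0) (nat_lit 15270714964) (nat_lit 152) (nat_lit 40262132579) (nat_lit 76) (nat_lit 203791069811) (nat_lit 9) (nat_lit 5) (nat_lit 11) (nat_lit 5) (nat_lit 10) (nat_lit 4) (nat_lit 412) (nat_lit 324) (nat_lit 164)) (XT.nd (nat_lit 78) (nat_lit 0) (nat_lit 0) (XT.lf (nat_lit 0) (nat_lit 16057745948) (nat_lit 76) (nat_lit 26686757556) (nat_lit 152) (nat_lit 228034890861) (nat_lit 8) (nat_lit 5) (nat_lit 9) (nat_lit 5) (nat_lit 10) (nat_lit 4) (nat_lit 413) (nat_lit 324) (nat_lit 163)) (XT.lf (nat_lit 0) (nat_lit 72340065846) (nat_lit 152) (nat_lit 206251831518) (nat_lit 0) (nat_lit 4178343824) (nat_lit 8) (nat_lit 5) (nat_lit 10) (nat_lit 4) (nat_lit 8)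 (nat_lit 4) (nat_lit 414) (nat_lit 324) (nat_lit 162))))))) (XT.nd (nat_lit 936) (nat_lit 0) (nat_lit 0) (XT.nd (nat_lit 468) (nat_lit 152) (nat_lit 0) (XT.nd (nat_lit 234) (nat_lit 76) (nat_lit 0) (XT.nd (nat_lit 78) (nat_lit 0) (nat_lit 0) (XT.lf (nat_lit 0) (nat_lit 103851766531) (nat_lit 152) (nat_lit 155798200459) (nat_lit 0) (nat_lit 35688845521) (nat_lit 8) (nat_lit 5) (nat_lit 10) (nat_lit 4) (nat_lit 8) (nat_lit 4) (nat_lit 415) (nat_lit 324) (nat_lit 161)) (XT.nd (nat_lit 78) (nat_lit 0) (nat_lit 0) (XT.lf (nat_lit 0) (nat_lit 136937978345) (nat_lit 152) (nat_lit 102823972472) (nat_lit 0) (nat_lit 68773915440) (nat_lit 8) (nat_lit 5) (nat_lit 10) (nat_lit 4) (nat_lit 8) (nat_lit 4) (nat_lit 416) (nat_lit 324) (nat_lit 160)) (XT.lf (nat_lit 0) (nat_lit 171677477981) (nat_lit 152) (nat_lit 47203018444) (nat_lit 0) (nat_lit 103512327559) (nat_lit 8) (nat_lit 5) (nat_lit 10) (nat_lit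 4) (nat_lit 8) (nat_lit 4) (nat_lit 417) (nat_lit 324) (nat_lit 159)))) (XT.nd (nat_lit 78) (nat_lit 0) (nat_lit 0) (XT.lf (nat_lit 0) (nat_lit 11567318912) (nat_lit 76) (nat_lit 196766257889) (nat_lit 76) (nat_lit 128600071734) (nat_lit 7) (nat_lit 4) (nat_lit 8) (nat_lit 5) (nat_lit 8) (nat_lit 4) (nat_lit 418) (nat_lit 324) (nat_lit 158)) (XT.nd (nat_lit 78) (nat_lit 0) (nat_lit 0) (XT.lf (nat_lit 0) (nat_lit 74913095030) (nat_lit 76) (nat_lit 172707834764) (nat_lit 76) (nat_lit 104540662198) (nat_lit 7) (nat_lit 4) (nat_lit 8) (nat_lit 5) (nat_lit 8) (nat_lit 4) (nat_lit 419) (nat_lit 324) (nat_lit 157)) (XT.lf (nat_lit 0) (nat_lit 141424388221) (nat_lit 76) (nat_lit 147447351049) (nat_lit 76) (nat_lit 79279239044) (nat_lit 7) (nat_lit 4) (nat_lit 8) (nat_lit 5) (nat_lit 8) (nat_lit 4) (nat_lit 420) (nat_lit 324) (nat_lit 156))))) (XT.nd (nat_lit 234) (nat_lit 76) (nat_lit 0) (XT.nd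 (nat_lit 78) (nat_lit 76) (nat_lit 0) (XT.lf (nat_lit 0) (nat_lit 211259558706) (nat_lit 76) (nat_lit 120924662736) (nat_lit 76) (nat_lit 52755656027) (nat_lit 7) (nat_lit 4) (nat_lit 8) (nat_lit 5) (nat_lit 8) (nat_lit 4) (nat_lit 421) (nat_lit 324) (nat_lit 155)) (XT.nd (nat_lit 78) (nat_lit 76) (nat_lit 0) (XT.lf (nat_lit 0) (nat_lit 284584880702) (nat_lit 76) (nat_lit 93076620566) (nat_lit 76) (nat_lit 24906761757) (nat_lit 7) (nat_lit 4) (nat_lit 8) (nat_lit 5) (nat_lit 8) (nat_lit 4) (nat_lit 422) (nat_lit 324) (nat_lit 154)) (XT.lf (nat_lit 0) (nat_lit 4195043568) (nat_lit 152) (nat_lit 59570831016) (nat_lit 76) (nat_lit 357308849646) (nat_lit 6) (nat_lit 5) (nat_lit 8) (nat_lit 5) (nat_lit 7) (nat_lit 4) (nat_lit 423) (nat_lit 324) (nat_lit 153)))) (XT.nd (nat_lit 78) (nat_lit 0) (nat_lit 0) (XT.lf (nat_lit 0) (nat_lit 1397279032) (nat_lit 76) (nat_lit 32538683037) (nat_lit 152)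 (nat_lit 406549078482) (nat_lit 5) (nat_lit 5) (nat_lit 6) (nat_lit 5) (nat_lit 7) (nat_lit 4) (nat_lit 424) (nat_lit 324) (nat_lit 152)) (XT.nd (nat_lit 78) (nat_lit 0) (nat_lit 0) (XT.lf (nat_lit 0) (nat_lit 66192467587) (nat_lit 152) (nat_lit 393355395591) (nat_lit 0) (nat_lit 1266582553) (nat_lit 5) (nat_lit 5) (nat_lit 7) (nat_lit 4) (nat_lit 5) (nat_lit 4) (nat_lit 425) (nat_lit 324) (nat_lit 151)) (XT.lf (nat_lit 0) (nat_lit 100594495986) (nat_lit 152) (nat_lit 345871247090) (nat_lit 0) (nat_lit 35667943310) (nat_lit 5) (nat_lit 5) (nat_lit 7) (nat_lit 4) (nat_lit 5) (nat_lit 4) (nat_lit 426) (nat_lit 324) (nat_lit 150)))))) (XT.nd (nat_lit 38922) (nat_lit 0) (nat_lit 8056) (XT.nd (nat_lit 234) (nat_lit 0) (nat_lit 0) (XT.nd (nat_lit 78) (nat_lit 0) (nat_lit 0) (XT.lf (nat_lit 0) (nat_lit 136715936826) (nat_lit 152) (nat_lit 296014238488) (nat_lit 0) (nat_lit 71788748301) (nat_lit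 5) (nat_lit 5) (nat_lit 7) (nat_lit 4) (nat_lit 5) (nat_lit 4) (nat_lit 427) (nat_lit 324) (nat_lit 149)) (XT.nd (nat_lit 78) (nat_lit 0) (nat_lit 0) (XT.lf (nat_lit 0) (nat_lit 174642793537) (nat_lit 152) (nat_lit 243665662621) (nat_lit 0) (nat_lit 109714999440) (nat_lit 5) (nat_lit 5) (nat_lit 7) (nat_lit 4) (nat_lit 5) (nat_lit 4) (nat_lit 428) (nat_lit 324) (nat_lit 148)) (XT.lf (nat_lit 0) (nat_lit 214465368158) (nat_lit 152) (nat_lit 188700880023) (nat_lit 0) (nat_lit 149536997328) (nat_lit 5) (nat_lit 5) (nat_lit 7) (nat_lit 4) (nat_lit 5) (nat_lit 4) (nat_lit 429) (nat_lit 324) (nat_lit 147)))) (XT.nd (nat_lit 78) (nat_lit 0) (nat_lit 0) (XT.lf (nat_lit 0) (nat_lit 256278476345) (nat_lit 152) (nat_lit 130989022164) (nat_lit 0) (nat_lit 191349556244) (nat_lit 5) (nat_lit 5) (nat_lit 7) (nat_lit 4) (nat_lit 5) (nat_lit 4) (nat_lit 430) (nat_lit 324) (nat_lit 146)) (XT.nd (nat_lit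 78) (nat_lit 0) (nat_lit 0) (XT.lf (nat_lit 0) (nat_lit 300181673116) (nat_lit 152) (nat_lit 70392679858) (nat_lit 0) (nat_lit 235252229900) (nat_lit 5) (nat_lit 5) (nat_lit 7) (nat_lit 4) (nat_lit 5) (nat_lit 4) (nat_lit 431) (nat_lit 324) (nat_lit 145)) (XT.lf (nat_lit 0) (nat_lit 346279489892) (nat_lit 152) (nat_lit 6767576100) (nat_lit 0) (nat_lit 281349548471) (nat_lit 5) (nat_lit 5) (nat_lit 7) (nat_lit 4) (nat_lit 5) (nat_lit 4) (nat_lit 432) (nat_lit 324) (nat_lit 144))))) (XT.nd (nat_lit 234) (nat_lit 0) (nat_lit 0) (XT.nd (nat_lit 78) (nat_lit 0) (nat_lit 0) (XT.lf (nat_lit 0) (nat_lit 2715532217) (nat_lit 0) (nat_lit 2715532217) (nat_lit 684) (nat_lit 1584583708) (nat_lit 111) (nat_lit 5) (nat_lit 111) (nat_lit 3) (nat_lit 120) (nat_lit 3) (nat_lit 325) (nat_lit 325) (nat_lit 250)) (XT.nd (nat_lit 78) (nat_lit 0) (nat_lit 0) (XT.lf (nat_lit 0) (nat_lit 11475017464) (nat_lit 684)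 (nat_lit 1967648051) (nat_lit 760) (nat_lit 921978228) (nat_lit 111) (nat_lit 5) (nat_lit 120) (nat_lit 3) (nat_lit 121) (nat_lit 5) (nat_lit 326) (nat_lit 325) (nat_lit 249)) (XT.lf (nat_lit 76) (nat_lit 5057729518) (nat_lit 0) (nat_lit 7208085460) (nat_lit 760) (nat_lit 2441503939) (nat_lit 112) (nat_lit 5) (nat_lit 111) (nat_lit 5) (nat_lit 121) (nat_lit 5) (nat_lit 327) (nat_lit 325) (nat_lit 248)))) (XT.nd (nat_lit 78) (nat_lit 0) (nat_lit 76) (XT.lf (nat_lit 76) (nat_lit 12491196153) (nat_lit 0) (nat_lit 618352544) (nat_lit 760) (nat_lit 1956931783) (nat_lit 112) (nat_lit 5) (nat_lit 111) (nat_lit 5) (nat_lit 121) (nat_lit 5) (nat_lit 328) (nat_lit 325) (nat_lit 247)) (XT.nd (nat_lit 78) (nat_lit 0) (nat_lit 0) (XT.lf (nat_lit 76) (nat_lit 4899123807) (nat_lit 0) (nat_lit 9252356106) (nat_lit 760) (nat_lit 1284341044) (nat_lit 113) (nat_lit 5) (nat_lit 112) (nat_lit 5) (nat_lit 122)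 (nat_lit 5) (nat_lit 329) (nat_lit 325) (nat_lit 246)) (XT.lf (nat_lit 76) (nat_lit 12814341954) (nat_lit 0) (nat_lit 2466613197) (nat_lit 760) (nat_lit 540921294) (nat_lit 113) (nat_lit 5) (nat_lit 112) (nat_lit 5) (nat_lit 122) (nat_lit 5) (nat_lit 330) (nat_lit 325) (nat_lit 245))))))))
noncomputable def xc165 : XT := (XT.nd (nat_lit 1794) (nat_lit 2508) (nat_lit 0) (XT.nd (nat_lit 858) (nat_lit 1900) (nat_lit 0) (XT.nd (nat_lit 390) (nat_lit 1292) (nat_lit 0) (XT.nd (nat_lit 156) (nat_lit 0) (nat_lit 76) (XT.nd (nat_lit 78) (nat_lit 0) (nat_lit 0) (XT.lf (nat_lit 0) (nat_lit 367342268) (nat_lit 760) (nat_lit 11254280949) (nat_lit 836) (nat_lit 4598675673) (nat_lit 103) (nat_lit 5) (nat_lit 113) (nat_lit 5) (nat_lit 114) (nat_lit 5) (nat_lit 331) (nat_lit 325) (nat_lit 244)) (XT.lf (nat_lit 0) (nat_lit 1378204209) (nat_lit 760) (nat_lit 3256207502) (nat_lit 836) (nat_lit 12000036769)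 (nat_lit 103) (nat_lit 5) (nat_lit 113) (nat_lit 5) (nat_lit 114) (nat_lit 5) (nat_lit 332) (nat_lit 325) (nat_lit 243))) (XT.nd (nat_lit 78) (nat_lit 0) (nat_lit 0) (XT.lf (nat_lit 0) (nat_lit 2549914474) (nat_lit 760) (nat_lit 11810246768) (nat_lit 836) (nat_lit 2703645796) (nat_lit 104) (nat_lit 5) (nat_lit 114) (nat_lit 5) (nat_lit 115) (nat_lit 5) (nat_lit 333) (nat_lit 325) (nat_lit 242)) (XT.nd (nat_lit 78) (nat_lit 0) (nat_lit 76) (XT.lf (nat_lit 0) (nat_lit 3896829523) (nat_lit 760) (nat_lit 3299575075) (nat_lit 836) (nat_lit 10312413915) (nat_lit 104) (nat_lit 5) (nat_lit 114) (nat_lit 5) (nat_lit 115) (nat_lit 5) (nat_lit 334) (nat_lit 325) (nat_lit 241)) (XT.lf (nat_lit 0) (nat_lit 5393748425) (nat_lit 760) (nat_lit 12168381747) (nat_lit 76) (nat_lit 409832676) (nat_lit 105) (nat_lit 5) (nat_lit 115) (nat_lit 5) (nat_lit 106) (nat_lit 5) (nat_lit 335) (nat_lit 325) (nat_lit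 240))))) (XT.nd (nat_lit 234) (nat_lit 684) (nat_lit 0) (XT.nd (nat_lit 78) (nat_lit 760) (nat_lit 0) (XT.lf (nat_lit 0) (nat_lit 7126160927) (nat_lit 760) (nat_lit 3110555751) (nat_lit 76) (nat_lit 8213529809) (nat_lit 105) (nat_lit 5) (nat_lit 115) (nat_lit 5) (nat_lit 106) (nat_lit 5) (nat_lit 336) (nat_lit 325) (nat_lit 239)) (XT.nd (nat_lit 78) (nat_lit 0) (nat_lit 0) (XT.lf (nat_lit 0) (nat_lit 6599339410) (nat_lit 760) (nat_lit 2435439153) (nat_lit 836) (nat_lit 9913200298) (nat_lit 95) (nat_lit 5) (nat_lit 105) (nat_lit 5) (nat_lit 106) (nat_lit 5) (nat_lit 337) (nat_lit 325) (nat_lit 238)) (XT.lf (nat_lit 0) (nat_lit 11169258905) (nat_lit 836) (nat_lit 2668501174) (nat_lit 76) (nat_lit 5626329308) (nat_lit 95) (nat_lit 5) (nat_lit 106) (nat_lit 5) (nat_lit 96) (nat_lit 5) (nat_lit 338) (nat_lit 325) (nat_lit 237)))) (XT.nd (nat_lit 78) (nat_lit 304) (nat_lit 0) (XT.lf (nat_lit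 0) (nat_lit 7689911886) (nat_lit 380) (nat_lit 5868179307) (nat_lit 456) (nat_lit 6440545349) (nat_lit 90) (nat_lit 5) (nat_lit 95) (nat_lit 5) (nat_lit 96) (nat_lit 5) (nat_lit 339) (nat_lit 325) (nat_lit 236)) (XT.nd (nat_lit 78) (nat_lit 304) (nat_lit 0) (XT.lf (nat_lit 0) (nat_lit 16139378616) (nat_lit 456) (nat_lit 1950885045) (nat_lit 76) (nat_lit 2466008621) (nat_lit 90) (nat_lit 5) (nat_lit 96) (nat_lit 5) (nat_lit 91) (nat_lit 5) (nat_lit 340) (nat_lit 325) (nat_lit 235)) (XT.lf (nat_lit 0) (nat_lit 9108408511) (nat_lit 304) (nat_lit 9968348543) (nat_lit 380) (nat_lit 2053692758) (nat_lit 86) (nat_lit 5) (nat_lit 90) (nat_lit 5) (nat_lit 91) (nat_lit 5) (nat_lit 341) (nat_lit 325) (nat_lit 234)))))) (XT.nd (nat_lit 468) (nat_lit 836) (nat_lit 0) (XT.nd (nat_lit 234) (nat_lit 304) (nat_lit 0) (XT.nd (nat_lit 78) (nat_lit 684) (nat_lit 0) (XT.lf (nat_lit 0) (nat_lit 436350282) (nat_lit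 380) (nat_lit 962461456) (nat_lit 76) (nat_lit 20333082403) (nat_lit 85) (nat_lit 5) (nat_lit 90) (nat_lit 5) (nat_lit 86) (nat_lit 5) (nat_lit 342) (nat_lit 325) (nat_lit 233)) (XT.nd (nat_lit 78) (nat_lit 304) (nat_lit 0) (XT.lf (nat_lit 0) (nat_lit 3264239969) (nat_lit 456) (nat_lit 11520013569) (nat_lit 76) (nat_lit 7563365484) (nat_lit 80) (nat_lit 5) (nat_lit 86) (nat_lit 5) (nat_lit 81) (nat_lit 5) (nat_lit 343) (nat_lit 325) (nat_lit 232)) (XT.lf (nat_lit 0) (nat_lit 219382441) (nat_lit 304) (nat_lit 6046708449) (nat_lit 380) (nat_lit 16726420247) (nat_lit 76) (nat_lit 5) (nat_lit 80) (nat_lit 5) (nat_lit 81) (nat_lit 5) (nat_lit 344) (nat_lit 325) (nat_lit 231)))) (XT.nd (nat_lit 78) (nat_lit 304) (nat_lit 0) (XT.lf (nat_lit 0) (nat_lit 9655095385) (nat_lit 380) (nat_lit 10778241183) (nat_lit 76) (nat_lit 3224467120) (nat_lit 76) (nat_lit 5) (nat_lit 81) (nat_lit 5) (nat_lit 77)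 (nat_lit 5) (nat_lit 345) (nat_lit 325) (nat_lit 230)) (XT.nd (nat_lit 78) (nat_lit 0) (nat_lit 0) (XT.lf (nat_lit 0) (nat_lit 1762224039) (nat_lit 304) (nat_lit 11568378385) (nat_lit 380) (nat_lit 11019914287) (nat_lit 72) (nat_lit 5) (nat_lit 76) (nat_lit 5) (nat_lit 77) (nat_lit 5) (nat_lit 346) (nat_lit 325) (nat_lit 229)) (XT.lf (nat_lit 0) (nat_lit 15292650804) (nat_lit 304) (nat_lit 2070462210) (nat_lit 380) (nat_lit 7706099018) (nat_lit 72) (nat_lit 5) (nat_lit 76) (nat_lit 5) (nat_lit 77) (nat_lit 5) (nat_lit 347) (nat_lit 325) (nat_lit 228))))) (XT.nd (nat_lit 234) (nat_lit 228) (nat_lit 0) (XT.nd (nat_lit 78) (nat_lit 380) (nat_lit 0) (XT.lf (nat_lit 0) (nat_lit 3658324543) (nat_lit 228) (nat_lit 18110526735) (nat_lit 304) (nat_lit 4046418407) (nat_lit 69) (nat_lit 5) (nat_lit 72) (nat_lit 5) (nat_lit 73) (nat_lit 5) (nat_lit 348) (nat_lit 325) (nat_lit 227)) (XT.nd (nat_lit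 78) (nat_lit 380) (nat_lit 0) (XT.lf (nat_lit 0) (nat_lit 18058346540) (nat_lit 228) (nat_lit 8526855151) (nat_lit 304) (nat_lit 3919575) (nat_lit 69) (nat_lit 5) (nat_lit 72) (nat_lit 5) (nat_lit 73) (nat_lit 5) (nat_lit 349) (nat_lit 325) (nat_lit 226)) (XT.lf (nat_lit 0) (nat_lit 4215073613) (nat_lit 380) (nat_lit 21532490643) (nat_lit 76) (nat_lit 1645292412) (nat_lit 64) (nat_lit 5) (nat_lit 69) (nat_lit 5) (nat_lit 65) (nat_lit 5) (nat_lit 350) (nat_lit 325) (nat_lit 225)))) (XT.nd (nat_lit 78) (nat_lit 228) (nat_lit 0) (XT.lf (nat_lit 0) (nat_lit 8923336263) (nat_lit 380) (nat_lit 7115466966) (nat_lit 76) (nat_lit 12184056136) (nat_lit 64) (nat_lit 5) (nat_lit 69) (nat_lit 5) (nat_lit 65) (nat_lit 5) (nat_lit 351) (nat_lit 325) (nat_lit 224)) (XT.nd (nat_lit 78) (nat_lit 0) (nat_lit 0) (XT.lf (nat_lit 0) (nat_lit 8276913537) (nat_lit 228) (nat_lit 5711539382) (nat_lit 304) (nat_lit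 15099843247) (nat_lit 61) (nat_lit 5) (nat_lit 64) (nat_lit 5) (nat_lit 65) (nat_lit 5) (nat_lit 352) (nat_lit 325) (nat_lit 223)) (XT.lf (nat_lit 0) (nat_lit 19501815317) (nat_lit 304) (nat_lit 5397717582) (nat_lit 76) (nat_lit 5087728137) (nat_lit 61) (nat_lit 5) (nat_lit 65) (nat_lit 5) (nat_lit 62) (nat_lit 5) (nat_lit 353) (nat_lit 325) (nat_lit 222))))))) (XT.nd (nat_lit 936) (nat_lit 988) (nat_lit 0) (XT.nd (nat_lit 468) (nat_lit 608) (nat_lit 0) (XT.nd (nat_lit 234) (nat_lit 380) (nat_lit 0) (XT.nd (nat_lit 78) (nat_lit 304) (nat_lit 0) (XT.lf (nat_lit 0) (nat_lit 11036146201) (nat_lit 228) (nat_lit 14513383540) (nat_lit 304) (nat_lit 5368715667) (nat_lit 58) (nat_lit 5) (nat_lit 61) (nat_lit 5) (nat_lit 62) (nat_lit 5) (nat_lit 354) (nat_lit 325) (nat_lit 221)) (XT.nd (nat_lit 78) (nat_lit 228) (nat_lit 0) (XT.lf (nat_lit 0) (nat_lit 89455874) (nat_lit 304) (nat_lit 3423825532)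 (nat_lit 76) (nat_lit 28378213120) (nat_lit 57) (nat_lit 5) (nat_lit 61) (nat_lit 5) (nat_lit 58) (nat_lit 5) (nat_lit 355) (nat_lit 325) (nat_lit 220)) (XT.lf (nat_lit 0) (nat_lit 5985715117) (nat_lit 304) (nat_lit 18814137322) (nat_lit 76) (nat_lit 8091877626) (nat_lit 54) (nat_lit 5) (nat_lit 58) (nat_lit 5) (nat_lit 55) (nat_lit 5) (nat_lit 356) (nat_lit 325) (nat_lit 219)))) (XT.nd (nat_lit 78) (nat_lit 380) (nat_lit 0) (XT.lf (nat_lit 0) (nat_lit 12286608169) (nat_lit 304) (nat_lit 1434485672) (nat_lit 76) (nat_lit 20215396986) (nat_lit 54) (nat_lit 5) (nat_lit 58) (nat_lit 5) (nat_lit 55) (nat_lit 5) (nat_lit 357) (nat_lit 325) (nat_lit 218)) (XT.nd (nat_lit 78) (nat_lit 152) (nat_lit 0) (XT.lf (nat_lit 0) (nat_lit 17360446912) (nat_lit 228) (nat_lit 1806755014) (nat_lit 304) (nat_lit 15853059169) (nat_lit 51) (nat_lit 5) (nat_lit 54) (nat_lit 5) (nat_lit 55) (nat_lit 5) (nat_lit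 358) (nat_lit 325) (nat_lit 217)) (XT.lf (nat_lit 0) (nat_lit 837767191) (nat_lit 152) (nat_lit 25752663801) (nat_lit 228) (nat_lit 9557862674) (nat_lit 49) (nat_lit 5) (nat_lit 51) (nat_lit 5) (nat_lit 52) (nat_lit 5) (nat_lit 359) (nat_lit 325) (nat_lit 216))))) (XT.nd (nat_lit 234) (nat_lit 304) (nat_lit 0) (XT.nd (nat_lit 78) (nat_lit 304) (nat_lit 0) (XT.lf (nat_lit 0) (nat_lit 20833428013) (nat_lit 152) (nat_lit 13873490883) (nat_lit 228) (nat_lit 2609707975) (nat_lit 49) (nat_lit 5) (nat_lit 51) (nat_lit 5) (nat_lit 52) (nat_lit 5) (nat_lit 360) (nat_lit 325) (nat_lit 215)) (XT.nd (nat_lit 78) (nat_lit 0) (nat_lit 0) (XT.lf (nat_lit 0) (nat_lit 3309183938) (nat_lit 228) (nat_lit 1272430575) (nat_lit 304) (nat_lit 33955820939) (nat_lit 45) (nat_lit 5) (nat_lit 48) (nat_lit 5) (nat_lit 49) (nat_lit 5) (nat_lit 361) (nat_lit 325) (nat_lit 214)) (XT.lf (nat_lit 0) (nat_lit 12509400725)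 (nat_lit 304) (nat_lit 15385112399) (nat_lit 76) (nat_lit 11899405537) (nat_lit 45) (nat_lit 5) (nat_lit 49) (nat_lit 5) (nat_lit 46) (nat_lit 5) (nat_lit 362) (nat_lit 325) (nat_lit 213)))) (XT.nd (nat_lit 78) (nat_lit 152) (nat_lit 0) (XT.lf (nat_lit 0) (nat_lit 5599826027) (nat_lit 152) (nat_lit 15336481718) (nat_lit 228) (nat_lit 20171784897) (nat_lit 43) (nat_lit 5) (nat_lit 45) (nat_lit 5) (nat_lit 46) (nat_lit 5) (nat_lit 363) (nat_lit 325) (nat_lit 212)) (XT.nd (nat_lit 78) (nat_lit 152) (nat_lit 0) (XT.lf (nat_lit 0) (nat_lit 28159560971) (nat_lit 152) (nat_lit 1880127026) (nat_lit 228) (nat_lit 12435533968) (nat_lit 43) (nat_lit 5) (nat_lit 45) (nat_lit 5) (nat_lit 46) (nat_lit 5) (nat_lit 364) (nat_lit 325) (nat_lit 211)) (XT.lf (nat_lit 0) (nat_lit 7992759010) (nat_lit 152) (nat_lit 31916294517) (nat_lit 228) (nat_lit 3986116308) (nat_lit 41) (nat_lit 5) (nat_lit 43) (nat_lit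 5) (nat_lit 44) (nat_lit 5) (nat_lit 365) (nat_lit 325) (nat_lit 210)))))) (XT.nd (nat_lit 468) (nat_lit 456) (nat_lit 0) (XT.nd (nat_lit 234) (nat_lit 304) (nat_lit 0) (XT.nd (nat_lit 78) (nat_lit 152) (nat_lit 0) (XT.lf (nat_lit 0) (nat_lit 5001454072) (nat_lit 228) (nat_lit 13579893119) (nat_lit 76) (nat_lit 26787353647) (nat_lit 40) (nat_lit 5) (nat_lit 43) (nat_lit 5) (nat_lit 41) (nat_lit 5) (nat_lit 366) (nat_lit 325) (nat_lit 209)) (XT.nd (nat_lit 78) (nat_lit 0) (nat_lit 0) (XT.lf (nat_lit 0) (nat_lit 10108923685) (nat_lit 152) (nat_lit 4348413211) (nat_lit 228) (nat_lit 32447662003) (nat_lit 38) (nat_lit 5) (nat_lit 40) (nat_lit 5) (nat_lit 41) (nat_lit 5) (nat_lit 367) (nat_lit 325) (nat_lit 208)) (XT.lf (nat_lit 0) (nat_lit 24780330569) (nat_lit 228) (nat_lit 13230269596) (nat_lit 76) (nat_lit 10487798245) (nat_lit 38) (nat_lit 5) (nat_lit 41) (nat_lit 5) (nat_lit 39) (nat_lit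 5) (nat_lit 368) (nat_lit 325) (nat_lit 207)))) (XT.nd (nat_lit 78) (nat_lit 152) (nat_lit 0) (XT.lf (nat_lit 0) (nat_lit 11812918166) (nat_lit 152) (nat_lit 24057634529) (nat_lit 228) (nat_lit 14288363529) (nat_lit 36) (nat_lit 5) (nat_lit 38) (nat_lit 5) (nat_lit 39) (nat_lit 5) (nat_lit 369) (nat_lit 325) (nat_lit 206)) (XT.nd (nat_lit 78) (nat_lit 152) (nat_lit 0) (XT.lf (nat_lit 0) (nat_lit 38560004926) (nat_lit 152) (nat_lit 9174805063) (nat_lit 228) (nat_lit 4156675893) (nat_lit 36) (nat_lit 5) (nat_lit 38) (nat_lit 5) (nat_lit 39) (nat_lit 5) (nat_lit 370) (nat_lit 325) (nat_lit 205)) (XT.lf (nat_lit 0) (nat_lit 6582348777) (nat_lit 152) (nat_lit 40551989464) (nat_lit 76) (nat_lit 6555877736) (nat_lit 34) (nat_lit 5) (nat_lit 36) (nat_lit 5) (nat_lit 35) (nat_lit 5) (nat_lit 371) (nat_lit 325) (nat_lit 204))))) (XT.nd (nat_lit 234) (nat_lit 304) (nat_lit 0) (XT.nd (nat_lit 78) (nat_lit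 152) (nat_lit 0) (XT.lf (nat_lit 0) (nat_lit 18094172192) (nat_lit 152) (nat_lit 14403008867) (nat_lit 76) (nat_lit 23059519317) (nat_lit 34) (nat_lit 5) (nat_lit 36) (nat_lit 5) (nat_lit 35) (nat_lit 5) (nat_lit 372) (nat_lit 325) (nat_lit 203)) (XT.nd (nat_lit 78) (nat_lit 0) (nat_lit 0) (XT.lf (nat_lit 0) (nat_lit 13477722309) (nat_lit 152) (nat_lit 16910152460) (nat_lit 228) (nat_lit 27118321601) (nat_lit 32) (nat_lit 5) (nat_lit 34) (nat_lit 5) (nat_lit 35) (nat_lit 5) (nat_lit 373) (nat_lit 325) (nat_lit 202)) (XT.lf (nat_lit 0) (nat_lit 43245574286) (nat_lit 152) (nat_lit 290561494) (nat_lit 228) (nat_lit 16005039410) (nat_lit 32) (nat_lit 5) (nat_lit 34) (nat_lit 5) (nat_lit 35) (nat_lit 5) (nat_lit 374) (nat_lit 325) (nat_lit 201)))) (XT.nd (nat_lit 78) (nat_lit 228) (nat_lit 0) (XT.lf (nat_lit 0) (nat_lit 12964158454) (nat_lit 76) (nat_lit 44844075008) (nat_lit 152) (nat_lit 3846349918)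 (nat_lit 31) (nat_lit 5) (nat_lit 32) (nat_lit 5) (nat_lit 33) (nat_lit 4) (nat_lit 375) (nat_lit 325) (nat_lit 200)) (XT.nd (nat_lit 78) (nat_lit 152) (nat_lit 0) (XT.lf (nat_lit 0) (nat_lit 8916149389) (nat_lit 152) (nat_lit 19762565152) (nat_lit 76) (nat_lit 35173916384) (nat_lit 30) (nat_lit 5) (nat_lit 32) (nat_lit 5) (nat_lit 31) (nat_lit 5) (nat_lit 376) (nat_lit 325) (nat_lit 199)) (XT.lf (nat_lit 0) (nat_lit 10890731571) (nat_lit 152) (nat_lit 11463117654) (nat_lit 228) (nat_lit 43795263360) (nat_lit 28) (nat_lit 5) (nat_lit 30) (nat_lit 5) (nat_lit 31) (nat_lit 5) (nat_lit 377) (nat_lit 325) (nat_lit 198))))))))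
noncomputable def xc166 : XT := (XT.nd (nat_lit 1794) (nat_lit 608) (nat_lit 0) (XT.nd (nat_lit 858) (nat_lit 456) (nat_lit 0) (XT.nd (nat_lit 390) (nat_lit 304) (nat_lit 0) (XT.nd (nat_lit 156) (nat_lit 228) (nat_lit 0) (XT.nd (nat_lit 78) (nat_lit 76) (nat_lit 0) (XT.lf (nat_lit 0) (nat_lit 36903197869) (nat_lit 228) (nat_lit 24896124911) (nat_lit 76) (nat_lit 6739108682) (nat_lit 28) (nat_lit 5) (nat_lit 31) (nat_lit 5) (nat_lit 29) (nat_lit 4) (nat_lit 378) (nat_lit 325) (nat_lit 197)) (XT.lf (nat_lit 0) (nat_lit 7014638587) (nat_lit 76) (nat_lit 45459324919) (nat_lit 152) (nat_lit 18558556562) (nat_lit 27) (nat_lit 5) (nat_lit 28) (nat_lit 5) (nat_lit 29) (nat_lit 4) (nat_lit 379) (nat_lit 325) (nat_lit 196))) (XT.nd (nat_lit 78) (nat_lit 228) (nat_lit 0) (XT.lf (nat_lit 0) (nat_lit 41379179773) (nat_lit 76) (nat_lit 27862297928) (nat_lit 152) (nat_lit 4388926090) (nat_lit 27) (nat_lit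 5) (nat_lit 28) (nat_lit 5) (nat_lit 29) (nat_lit 4) (nat_lit 380) (nat_lit 325) (nat_lit 195)) (XT.nd (nat_lit 78) (nat_lit 0) (nat_lit 0) (XT.lf (nat_lit 0) (nat_lit 964967855) (nat_lit 152) (nat_lit 9200255077) (nat_lit 228) (nat_lit 66184183754) (nat_lit 24) (nat_lit 5) (nat_lit 26) (nat_lit 5) (nat_lit 27) (nat_lit 5) (nat_lit 381) (nat_lit 325) (nat_lit 194)) (XT.lf (nat_lit 0) (nat_lit 26013737134) (nat_lit 228) (nat_lit 42464533452) (nat_lit 76) (nat_lit 10686784977) (nat_lit 24) (nat_lit 5) (nat_lit 27) (nat_lit 5) (nat_lit 25) (nat_lit 4) (nat_lit 382) (nat_lit 325) (nat_lit 193))))) (XT.nd (nat_lit 234) (nat_lit 228) (nat_lit 0) (XT.nd (nat_lit 78) (nat_lit 76) (nat_lit 0) (XT.lf (nat_lit 0) (nat_lit 42802374269) (nat_lit 228) (nat_lit 8055118865) (nat_lit 76) (nat_lit 31256609878) (nat_lit 24) (nat_lit 5) (nat_lit 27) (nat_lit 5) (nat_lit 25) (nat_lit 4) (nat_lit 383) (nat_lit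 325) (nat_lit 192)) (XT.nd (nat_lit 78) (nat_lit 0) (nat_lit 0) (XT.lf (nat_lit 0) (nat_lit 28997474138) (nat_lit 76) (nat_lit 31882723217) (nat_lit 152) (nat_lit 24307918714) (nat_lit 23) (nat_lit 5) (nat_lit 24) (nat_lit 5) (nat_lit 25) (nat_lit 4) (nat_lit 384) (nat_lit 325) (nat_lit 191)) (XT.lf (nat_lit 0) (nat_lit 68177046729) (nat_lit 76) (nat_lit 11818363423) (nat_lit 152) (nat_lit 8413745596) (nat_lit 23) (nat_lit 5) (nat_lit 24) (nat_lit 5) (nat_lit 25) (nat_lit 4) (nat_lit 385) (nat_lit 325) (nat_lit 190)))) (XT.nd (nat_lit 78) (nat_lit 76) (nat_lit 0) (XT.lf (nat_lit 0) (nat_lit 8439023925) (nat_lit 152) (nat_lit 73956994087) (nat_lit 76) (nat_lit 9367333121) (nat_lit 21) (nat_lit 5) (nat_lit 23) (nat_lit 5) (nat_lit 22) (nat_lit 4) (nat_lit 386) (nat_lit 325) (nat_lit 189)) (XT.nd (nat_lit 78) (nat_lit 76) (nat_lit 0) (XT.lf (nat_lit 0) (nat_lit 26390869694) (nat_lit 152) (nat_lit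 37161423372) (nat_lit 76) (nat_lit 31699107741) (nat_lit 21) (nat_lit 5) (nat_lit 23) (nat_lit 5) (nat_lit 22) (nat_lit 4) (nat_lit 387) (nat_lit 325) (nat_lit 188)) (XT.lf (nat_lit 0) (nat_lit 1517576179) (nat_lit 76) (nat_lit 43743752350) (nat_lit 152) (nat_lit 53651474137) (nat_lit 20) (nat_lit 5) (nat_lit 21) (nat_lit 5) (nat_lit 22) (nat_lit 4) (nat_lit 388) (nat_lit 325) (nat_lit 187)))))) (XT.nd (nat_lit 468) (nat_lit 228) (nat_lit 0) (XT.nd (nat_lit 234) (nat_lit 152) (nat_lit 0) (XT.nd (nat_lit 78) (nat_lit 76) (nat_lit 0) (XT.lf (nat_lit 0) (nat_lit 43415844183) (nat_lit 76) (nat_lit 22286191646) (nat_lit 152) (nat_lit 37023903213) (nat_lit 20) (nat_lit 5) (nat_lit 21) (nat_lit 5) (nat_lit 22) (nat_lit 4) (nat_lit 389) (nat_lit 325) (nat_lit 186)) (XT.nd (nat_lit 78) (nat_lit 76) (nat_lit 0) (XT.lf (nat_lit 0) (nat_lit 87166062505) (nat_lit 152) (nat_lit 19329224143) (nat_lit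 0) (nat_lit 234382058) (nat_lit 20) (nat_lit 5) (nat_lit 22) (nat_lit 4) (nat_lit 20) (nat_lit 4) (nat_lit 390) (nat_lit 325) (nat_lit 185)) (XT.lf (nat_lit 0) (nat_lit 23017568539) (nat_lit 76) (nat_lit 87408029205) (nat_lit 76) (nat_lit 471872385) (nat_lit 19) (nat_lit 4) (nat_lit 20) (nat_lit 5) (nat_lit 20) (nat_lit 4) (nat_lit 391) (nat_lit 325) (nat_lit 184)))) (XT.nd (nat_lit 78) (nat_lit 76) (nat_lit 0) (XT.lf (nat_lit 0) (nat_lit 19278257331) (nat_lit 152) (nat_lit 47419992503) (nat_lit 76) (nat_lit 48543616080) (nat_lit 18) (nat_lit 5) (nat_lit 20) (nat_lit 5) (nat_lit 19) (nat_lit 4) (nat_lit 392) (nat_lit 325) (nat_lit 183)) (XT.nd (nat_lit 78) (nat_lit 76) (nat_lit 0) (XT.lf (nat_lit 0) (nat_lit 39997747567) (nat_lit 152) (nat_lit 4949097721) (nat_lit 76) (nat_lit 74856364366) (nat_lit 18) (nat_lit 5) (nat_lit 20) (nat_lit 5) (nat_lit 19) (nat_lit 4) (nat_lit 393) (nat_lit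 325) (nat_lit 182)) (XT.lf (nat_lit 0) (nat_lit 40951990631) (nat_lit 76) (nat_lit 21438418015) (nat_lit 152) (nat_lit 62170352643) (nat_lit 17) (nat_lit 5) (nat_lit 18) (nat_lit 5) (nat_lit 19) (nat_lit 4) (nat_lit 394) (nat_lit 325) (nat_lit 181))))) (XT.nd (nat_lit 234) (nat_lit 152) (nat_lit 0) (XT.nd (nat_lit 78) (nat_lit 76) (nat_lit 0) (XT.lf (nat_lit 0) (nat_lit 86036395505) (nat_lit 152) (nat_lit 40288172327) (nat_lit 0) (nat_lit 3224938536) (nat_lit 17) (nat_lit 5) (nat_lit 19) (nat_lit 4) (nat_lit 17) (nat_lit 4) (nat_lit 395) (nat_lit 325) (nat_lit 180)) (XT.nd (nat_lit 78) (nat_lit 0) (nat_lit 0) (XT.lf (nat_lit 0) (nat_lit 5003253025) (nat_lit 76) (nat_lit 106288929217) (nat_lit 76) (nat_lit 23474131909) (nat_lit 16) (nat_lit 4) (nat_lit 17) (nat_lit 5) (nat_lit 17) (nat_lit 4) (nat_lit 396) (nat_lit 325) (nat_lit 179)) (XT.lf (nat_lit 0) (nat_lit 53954137978) (nat_lit 76)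 (nat_lit 84536894828) (nat_lit 76) (nat_lit 1718916246) (nat_lit 16) (nat_lit 4) (nat_lit 17) (nat_lit 5) (nat_lit 17) (nat_lit 4) (nat_lit 397) (nat_lit 325) (nat_lit 178)))) (XT.nd (nat_lit 78) (nat_lit 76) (nat_lit 0) (XT.lf (nat_lit 0) (nat_lit 20445997550) (nat_lit 152) (nat_lit 40906713389) (nat_lit 76) (nat_lit 84556662919) (nat_lit 15) (nat_lit 5) (nat_lit 17) (nat_lit 5) (nat_lit 16) (nat_lit 4) (nat_lit 398) (nat_lit 325) (nat_lit 177)) (XT.nd (nat_lit 78) (nat_lit 0) (nat_lit 0) (XT.lf (nat_lit 0) (nat_lit 6898936820) (nat_lit 76) (nat_lit 36868297666) (nat_lit 152) (nat_lit 108119834648) (nat_lit 14) (nat_lit 5) (nat_lit 15) (nat_lit 5) (nat_lit 16) (nat_lit 4) (nat_lit 399) (nat_lit 325) (nat_lit 176)) (XT.lf (nat_lit 0) (nat_lit 58511582767) (nat_lit 76) (nat_lit 10433892720) (nat_lit 152) (nat_lit 89183626948) (nat_lit 14) (nat_lit 5) (nat_lit 15) (nat_lit 5) (nat_lit 16)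 (nat_lit 4) (nat_lit 400) (nat_lit 325) (nat_lit 175))))))) (XT.nd (nat_lit 936) (nat_lit 304) (nat_lit 0) (XT.nd (nat_lit 468) (nat_lit 76) (nat_lit 0) (XT.nd (nat_lit 234) (nat_lit 152) (nat_lit 0) (XT.nd (nat_lit 78) (nat_lit 76) (nat_lit 0) (XT.lf (nat_lit 0) (nat_lit 95651307215) (nat_lit 152) (nat_lit 52252198179) (nat_lit 0) (nat_lit 16766298428) (nat_lit 14) (nat_lit 5) (nat_lit 16) (nat_lit 4) (nat_lit 14) (nat_lit 4) (nat_lit 401) (nat_lit 325) (nat_lit 174)) (XT.nd (nat_lit 78) (nat_lit 76) (nat_lit 0) (XT.lf (nat_lit 0) (nat_lit 123861792313) (nat_lit 152) (nat_lit 2692870603) (nat_lit 0) (nat_lit 44974409610) (nat_lit 14) (nat_lit 5) (nat_lit 16) (nat_lit 4) (nat_lit 14) (nat_lit 4) (nat_lit 402) (nat_lit 325) (nat_lit 173)) (XT.lf (nat_lit 0) (nat_lit 50972812080) (nat_lit 76) (nat_lit 103304212665) (nat_lit 76) (nat_lit 24414569090) (nat_lit 13) (nat_lit 4) (nat_lit 14) (nat_lit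 5) (nat_lit 14) (nat_lit 4) (nat_lit 403) (nat_lit 325) (nat_lit 172)))) (XT.nd (nat_lit 78) (nat_lit 76) (nat_lit 0) (XT.lf (nat_lit 0) (nat_lit 45503340) (nat_lit 152) (nat_lit 78798514938) (nat_lit 76) (nat_lit 107365985084) (nat_lit 12) (nat_lit 5) (nat_lit 14) (nat_lit 5) (nat_lit 13) (nat_lit 4) (nat_lit 404) (nat_lit 325) (nat_lit 171)) (XT.nd (nat_lit 78) (nat_lit 76) (nat_lit 0) (XT.lf (nat_lit 0) (nat_lit 24906564013) (nat_lit 152) (nat_lit 27835391238) (nat_lit 76) (nat_lit 141342442739) (nat_lit 12) (nat_lit 5) (nat_lit 14) (nat_lit 5) (nat_lit 13) (nat_lit 4) (nat_lit 405) (nat_lit 325) (nat_lit 170)) (XT.lf (nat_lit 0) (nat_lit 26521978917) (nat_lit 76) (nat_lit 24901328111) (nat_lit 152) (nat_lit 150908574119) (nat_lit 11) (nat_lit 5) (nat_lit 12) (nat_lit 5) (nat_lit 13) (nat_lit 4) (nat_lit 406) (nat_lit 325) (nat_lit 169))))) (XT.nd (nat_lit 234) (nat_lit 76) (nat_lit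 0) (XT.nd (nat_lit 78) (nat_lit 0) (nat_lit 0) (XT.lf (nat_lit 0) (nat_lit 79811198179) (nat_lit 152) (nat_lit 126482705873) (nat_lit 0) (nat_lit 4670569114) (nat_lit 11) (nat_lit 5) (nat_lit 13) (nat_lit 4) (nat_lit 11) (nat_lit 4) (nat_lit 407) (nat_lit 325) (nat_lit 168)) (XT.nd (nat_lit 78) (nat_lit 0) (nat_lit 0) (XT.lf (nat_lit 0) (nat_lit 110025324279) (nat_lit 152) (nat_lit 75100020611) (nat_lit 0) (nat_lit 34883008116) (nat_lit 11) (nat_lit 5) (nat_lit 13) (nat_lit 4) (nat_lit 11) (nat_lit 4) (nat_lit 408) (nat_lit 325) (nat_lit 167)) (XT.lf (nat_lit 0) (nat_lit 141748844206) (nat_lit 152) (nat_lit 21150727201) (nat_lit 0) (nat_lit 66604921284) (nat_lit 11) (nat_lit 5) (nat_lit 13) (nat_lit 4) (nat_lit 11) (nat_lit 4) (nat_lit 409) (nat_lit 325) (nat_lit 166)))) (XT.nd (nat_lit 78) (nat_lit 0) (nat_lit 0) (XT.lf (nat_lit 0) (nat_lit 36667204593) (nat_lit 76) (nat_lit 138962563382)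 (nat_lit 76) (nat_lit 63817110212) (nat_lit 10) (nat_lit 4) (nat_lit 11) (nat_lit 5) (nat_lit 11) (nat_lit 4) (nat_lit 410) (nat_lit 325) (nat_lit 165)) (XT.nd (nat_lit 78) (nat_lit 0) (nat_lit 0) (XT.lf (nat_lit 0) (nat_lit 98107971447) (nat_lit 76) (nat_lit 113453736873) (nat_lit 76) (nat_lit 38306826324) (nat_lit 10) (nat_lit 4) (nat_lit 11) (nat_lit 5) (nat_lit 11) (nat_lit 4) (nat_lit 411) (nat_lit 325) (nat_lit 164)) (XT.lf (nat_lit 0) (nat_lit 162618522339) (nat_lit 76) (nat_lit 86670554380) (nat_lit 76) (nat_lit 11522255851) (nat_lit 10) (nat_lit 4) (nat_lit 11) (nat_lit 5) (nat_lit 11) (nat_lit 4) (nat_lit 412) (nat_lit 325) (nat_lit 163)))))) (XT.nd (nat_lit 468) (nat_lit 152) (nat_lit 0) (XT.nd (nat_lit 234) (nat_lit 0) (nat_lit 0) (XT.nd (nat_lit 78) (nat_lit 76) (nat_lit 0) (XT.lf (nat_lit 0) (nat_lit 16069058353) (nat_lit 152) (nat_lit 42208050788) (nat_lit 76) (nat_lit 214011258187)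 (nat_lit 9) (nat_lit 5) (nat_lit 11) (nat_lit 5) (nat_lit 10) (nat_lit 4) (nat_lit 413) (nat_lit 325) (nat_lit 162)) (XT.nd (nat_lit 78) (nat_lit 0) (nat_lit 0) (XT.lf (nat_lit 0) (nat_lit 16926737982) (nat_lit 76) (nat_lit 27989172912) (nat_lit 152) (nat_lit 239400738829) (nat_lit 8) (nat_lit 5) (nat_lit 9) (nat_lit 5) (nat_lit 10) (nat_lit 4) (nat_lit 414) (nat_lit 325) (nat_lit 161)) (XT.lf (nat_lit 0) (nat_lit 75990098294) (nat_lit 152) (nat_lit 216500308145) (nat_lit 0) (nat_lit 4416690351) (nat_lit 8) (nat_lit 5) (nat_lit 10) (nat_lit 4) (nat_lit 8) (nat_lit 4) (nat_lit 415) (nat_lit 325) (nat_lit 160)))) (XT.nd (nat_lit 78) (nat_lit 0) (nat_lit 0) (XT.lf (nat_lit 0) (nat_lit 109075811197) (nat_lit 152) (nat_lit 163527048625) (nat_lit 0) (nat_lit 37501315735) (nat_lit 8) (nat_lit 5) (nat_lit 10) (nat_lit 4) (nat_lit 8) (nat_lit 4) (nat_lit 416) (nat_lit 325) (nat_lit 159)) (XT.nd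 (nat_lit 78) (nat_lit 0) (nat_lit 0) (XT.lf (nat_lit 0) (nat_lit 143814835681) (nat_lit 152) (nat_lit 107907016947) (nat_lit 0) (nat_lit 72239304486) (nat_lit 8) (nat_lit 5) (nat_lit 10) (nat_lit 4) (nat_lit 8) (nat_lit 4) (nat_lit 417) (nat_lit 325) (nat_lit 158)) (XT.lf (nat_lit 0) (nat_lit 180289883708) (nat_lit 152) (nat_lit 49507784463) (nat_lit 0) (nat_lit 108713366102) (nat_lit 8) (nat_lit 5) (nat_lit 10) (nat_lit 4) (nat_lit 8) (nat_lit 4) (nat_lit 418) (nat_lit 325) (nat_lit 157))))) (XT.nd (nat_lit 234) (nat_lit 76) (nat_lit 0) (XT.nd (nat_lit 78) (nat_lit 0) (nat_lit 0) (XT.lf (nat_lit 0) (nat_lit 12200176456) (nat_lit 76) (nat_lit 206578103120) (nat_lit 76) (nat_lit 135000646075) (nat_lit 7) (nat_lit 4) (nat_lit 8) (nat_lit 5) (nat_lit 8) (nat_lit 4) (nat_lit 419) (nat_lit 325) (nat_lit 156)) (XT.nd (nat_lit 78) (nat_lit 0) (nat_lit 0) (XT.lf (nat_lit 0) (nat_lit 78710646542)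 (nat_lit 76) (nat_lit 181318019204) (nat_lit 76) (nat_lit 109739667455) (nat_lit 7) (nat_lit 4) (nat_lit 8) (nat_lit 5) (nat_lit 8) (nat_lit 4) (nat_lit 420) (nat_lit 325) (nat_lit 155)) (XT.lf (nat_lit 0) (nat_lit 148545033118) (nat_lit 76) (nat_lit 154795711651) (nat_lit 76) (nat_lit 83216507803) (nat_lit 7) (nat_lit 4) (nat_lit 8) (nat_lit 5) (nat_lit 8) (nat_lit 4) (nat_lit 421) (nat_lit 325) (nat_lit 154)))) (XT.nd (nat_lit 78) (nat_lit 76) (nat_lit 0) (XT.lf (nat_lit 0) (nat_lit 221869608533) (nat_lit 76) (nat_lit 126948032110) (nat_lit 76) (nat_lit 55368016739) (nat_lit 7) (nat_lit 4) (nat_lit 8) (nat_lit 5) (nat_lit 8) (nat_lit 4) (nat_lit 422) (nat_lit 325) (nat_lit 153)) (XT.nd (nat_lit 78) (nat_lit 76) (nat_lit 0) (XT.lf (nat_lit 0) (nat_lit 298858955110) (nat_lit 76) (nat_lit 97708676582) (nat_lit 76) (nat_lit 26127888332) (nat_lit 7) (nat_lit 4) (nat_lit 8) (nat_lit 5) (nat_lit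 8) (nat_lit 4) (nat_lit 423) (nat_lit 325) (nat_lit 152)) (XT.lf (nat_lit 0) (nat_lit 4427116311) (nat_lit 152) (nat_lit 62505935885) (nat_lit 76) (nat_lit 375194289147) (nat_lit 6) (nat_lit 5) (nat_lit 8) (nat_lit 5) (nat_lit 7) (nat_lit 4) (nat_lit 424) (nat_lit 325) (nat_lit 151))))))))
noncomputable def xc167 : XT := (XT.nd (nat_lit 40482) (nat_lit 0) (nat_lit 2736) (XT.nd (nat_lit 39546) (nat_lit 0) (nat_lit 6156) (XT.nd (nat_lit 468) (nat_lit 0) (nat_lit 0) (XT.nd (nat_lit 234) (nat_lit 0) (nat_lit 0) (XT.nd (nat_lit 78) (nat_lit 0) (nat_lit 0) (XT.lf (nat_lit 0) (nat_lit 1509879073) (nat_lit 76) (nat_lit 34144806010) (nat_lit 152) (nat_lit 426853508326) (nat_lit 5) (nat_lit 5) (nat_lit 6) (nat_lit 5) (nat_lit 7) (nat_lit 4) (nat_lit 425) (nat_lit 325) (nat_lit 150)) (XT.nd (nat_lit 78) (nat_lit 0) (nat_lit 0) (XT.lf (nat_lit 0) (nat_lit 69523281283) (nat_lit 152) (nat_lit 412981726954)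 (nat_lit 0) (nat_lit 1349097482) (nat_lit 5) (nat_lit 5) (nat_lit 7) (nat_lit 4) (nat_lit 5) (nat_lit 4) (nat_lit 426) (nat_lit 325) (nat_lit 149)) (XT.lf (nat_lit 0) (nat_lit 105644402039) (nat_lit 152) (nat_lit 363125344286) (nat_lit 0) (nat_lit 37469612667) (nat_lit 5) (nat_lit 5) (nat_lit 7) (nat_lit 4) (nat_lit 5) (nat_lit 4) (nat_lit 427) (nat_lit 325) (nat_lit 148)))) (XT.nd (nat_lit 78) (nat_lit 0) (nat_lit 0) (XT.lf (nat_lit 0) (nat_lit 143570953909) (nat_lit 152) (nat_lit 310777364547) (nat_lit 0) (nat_lit 75395587803) (nat_lit 5) (nat_lit 5) (nat_lit 7) (nat_lit 4) (nat_lit 5) (nat_lit 4) (nat_lit 428) (nat_lit 325) (nat_lit 147)) (XT.nd (nat_lit 78) (nat_lit 0) (nat_lit 0) (XT.lf (nat_lit 0) (nat_lit 183393238206) (nat_lit 152) (nat_lit 255813149689) (nat_lit 0) (nat_lit 115217322829) (nat_lit 5) (nat_lit 5) (nat_lit 7) (nat_lit 4) (nat_lit 5) (nat_lit 4) (nat_lit 429) (nat_lit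 325) (nat_lit 146)) (XT.lf (nat_lit 0) (nat_lit 225206069892) (nat_lit 152) (nat_lit 198101832536) (nat_lit 0) (nat_lit 157029631400) (nat_lit 5) (nat_lit 5) (nat_lit 7) (nat_lit 4) (nat_lit 5) (nat_lit 4) (nat_lit 430) (nat_lit 325) (nat_lit 145))))) (XT.nd (nat_lit 38844) (nat_lit 0) (nat_lit 8056) (XT.nd (nat_lit 38688) (nat_lit 0) (nat_lit 8056) (XT.lf (nat_lit 0) (nat_lit 269109003330) (nat_lit 152) (nat_lit 137506005188) (nat_lit 0) (nat_lit 200932066633) (nat_lit 5) (nat_lit 5) (nat_lit 7) (nat_lit 4) (nat_lit 5) (nat_lit 4) (nat_lit 431) (nat_lit 325) (nat_lit 144)) (XT.nd (nat_lit 78) (nat_lit 0) (nat_lit 0) (XT.lf (nat_lit 0) (nat_lit 3011992691) (nat_lit 0) (nat_lit 3011992691) (nat_lit 684) (nat_lit 1326014348) (nat_lit 111) (nat_lit 5) (nat_lit 111) (nat_lit 3) (nat_lit 120) (nat_lit 3) (nat_lit 326) (nat_lit 326) (nat_lit 248)) (XT.lf (nat_lit 0) (nat_lit 12656118816) (nat_lit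 684) (nat_lit 1723890630) (nat_lit 760) (nat_lit 671808613) (nat_lit 111) (nat_lit 5) (nat_lit 120) (nat_lit 3) (nat_lit 121) (nat_lit 5) (nat_lit 327) (nat_lit 326) (nat_lit 247)))) (XT.nd (nat_lit 78) (nat_lit 0) (nat_lit 0) (XT.lf (nat_lit 76) (nat_lit 5647237434) (nat_lit 0) (nat_lit 7815552925) (nat_lit 760) (nat_lit 1950052800) (nat_lit 112) (nat_lit 5) (nat_lit 111) (nat_lit 5) (nat_lit 121) (nat_lit 5) (nat_lit 328) (nat_lit 326) (nat_lit 246)) (XT.nd (nat_lit 78) (nat_lit 0) (nat_lit 76) (XT.lf (nat_lit 76) (nat_lit 13436347808) (nat_lit 0) (nat_lit 884568449) (nat_lit 760) (nat_lit 1470467576) (nat_lit 112) (nat_lit 5) (nat_lit 111) (nat_lit 5) (nat_lit 121) (nat_lit 5) (nat_lit 329) (nat_lit 326) (nat_lit 245)) (XT.lf (nat_lit 76) (nat_lit 5491077695) (nat_lit 0) (nat_lit 9899314258) (nat_lit 760) (nat_lit 790056802) (nat_lit 113) (nat_lit 5) (nat_lit 112) (nat_lit 5) (nat_lit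 122) (nat_lit 5) (nat_lit 330) (nat_lit 326) (nat_lit 244)))))) (XT.nd (nat_lit 468) (nat_lit 1292) (nat_lit 0) (XT.nd (nat_lit 234) (nat_lit 0) (nat_lit 76) (XT.nd (nat_lit 78) (nat_lit 684) (nat_lit 0) (XT.lf (nat_lit 76) (nat_lit 13785533049) (nat_lit 0) (nat_lit 2765506092) (nat_lit 760) (nat_lit 36061364) (nat_lit 113) (nat_lit 5) (nat_lit 112) (nat_lit 5) (nat_lit 122) (nat_lit 5) (nat_lit 331) (nat_lit 326) (nat_lit 243)) (XT.nd (nat_lit 78) (nat_lit 0) (nat_lit 0) (XT.lf (nat_lit 0) (nat_lit 879025918) (nat_lit 760) (nat_lit 11446875487) (nat_lit 836) (nat_lit 4680231454) (nat_lit 103) (nat_lit 5) (nat_lit 113) (nat_lit 5) (nat_lit 114) (nat_lit 5) (nat_lit 332) (nat_lit 326) (nat_lit 242)) (XT.lf (nat_lit 0) (nat_lit 1916939692) (nat_lit 760) (nat_lit 3066523107) (nat_lit 836) (nat_lit 12458726224) (nat_lit 103) (nat_lit 5) (nat_lit 113) (nat_lit 5) (nat_lit 114) (nat_lit 5) (nat_lit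 333) (nat_lit 326) (nat_lit 241)))) (XT.nd (nat_lit 78) (nat_lit 0) (nat_lit 0) (XT.lf (nat_lit 0) (nat_lit 3128621643) (nat_lit 760) (nat_lit 12029183255) (nat_lit 836) (nat_lit 2736164665) (nat_lit 104) (nat_lit 5) (nat_lit 114) (nat_lit 5) (nat_lit 115) (nat_lit 5) (nat_lit 334) (nat_lit 326) (nat_lit 240)) (XT.nd (nat_lit 78) (nat_lit 0) (nat_lit 76) (XT.lf (nat_lit 0) (nat_lit 4521396186) (nat_lit 760) (nat_lit 3110672065) (nat_lit 836) (nat_lit 10730259925) (nat_lit 104) (nat_lit 5) (nat_lit 114) (nat_lit 5) (nat_lit 115) (nat_lit 5) (nat_lit 335) (nat_lit 326) (nat_lit 239)) (XT.lf (nat_lit 0) (nat_lit 6077095273) (nat_lit 760) (nat_lit 12406429498) (nat_lit 76) (nat_lit 365929435) (nat_lit 105) (nat_lit 5) (nat_lit 115) (nat_lit 5) (nat_lit 106) (nat_lit 5) (nat_lit 336) (nat_lit 326) (nat_lit 238))))) (XT.nd (nat_lit 234) (nat_lit 684) (nat_lit 0) (XT.nd (nat_lit 78) (nat_lit 760)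 (nat_lit 0) (XT.lf (nat_lit 0) (nat_lit 7876430332) (nat_lit 760) (nat_lit 2913348933) (nat_lit 76) (nat_lit 8562877847) (nat_lit 105) (nat_lit 5) (nat_lit 115) (nat_lit 5) (nat_lit 106) (nat_lit 5) (nat_lit 337) (nat_lit 326) (nat_lit 237)) (XT.nd (nat_lit 78) (nat_lit 0) (nat_lit 0) (XT.lf (nat_lit 0) (nat_lit 7276351719) (nat_lit 760) (nat_lit 2590785417) (nat_lit 836) (nat_lit 10008825275) (nat_lit 95) (nat_lit 5) (nat_lit 105) (nat_lit 5) (nat_lit 106) (nat_lit 5) (nat_lit 338) (nat_lit 326) (nat_lit 236)) (XT.lf (nat_lit 0) (nat_lit 12089717522) (nat_lit 836) (nat_lit 2452416785) (nat_lit 76) (nat_lit 5876693661) (nat_lit 95) (nat_lit 5) (nat_lit 106) (nat_lit 5) (nat_lit 96) (nat_lit 5) (nat_lit 339) (nat_lit 326) (nat_lit 235)))) (XT.nd (nat_lit 78) (nat_lit 304) (nat_lit 0) (XT.lf (nat_lit 0) (nat_lit 8418279680) (nat_lit 380) (nat_lit 6167842664) (nat_lit 456) (nat_lit 6394591023)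 (nat_lit 90) (nat_lit 5) (nat_lit 95) (nat_lit 5) (nat_lit 96) (nat_lit 5) (nat_lit 340) (nat_lit 326) (nat_lit 234)) (XT.nd (nat_lit 78) (nat_lit 304) (nat_lit 0) (XT.lf (nat_lit 0) (nat_lit 17279708445) (nat_lit 456) (nat_lit 1703834202) (nat_lit 76) (nat_lit 2583543135) (nat_lit 90) (nat_lit 5) (nat_lit 96) (nat_lit 5) (nat_lit 91) (nat_lit 5) (nat_lit 341) (nat_lit 326) (nat_lit 233)) (XT.lf (nat_lit 0) (nat_lit 9902866047) (nat_lit 304) (nat_lit 10450508749) (nat_lit 380) (nat_lit 1817142257) (nat_lit 86) (nat_lit 5) (nat_lit 90) (nat_lit 5) (nat_lit 91) (nat_lit 5) (nat_lit 342) (nat_lit 326) (nat_lit 232))))))) (XT.nd (nat_lit 936) (nat_lit 1520) (nat_lit 0) (XT.nd (nat_lit 468) (nat_lit 836) (nat_lit 0) (XT.nd (nat_lit 234) (nat_lit 304) (nat_lit 0) (XT.nd (nat_lit 78) (nat_lit 684) (nat_lit 0) (XT.lf (nat_lit 0) (nat_lit 770908269) (nat_lit 380) (nat_lit 677064578) (nat_lit 76)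 (nat_lit 21354592125) (nat_lit 85) (nat_lit 5) (nat_lit 90) (nat_lit 5) (nat_lit 86) (nat_lit 5) (nat_lit 343) (nat_lit 326) (nat_lit 231)) (XT.nd (nat_lit 78) (nat_lit 304) (nat_lit 0) (XT.lf (nat_lit 0) (nat_lit 3730816196) (nat_lit 456) (nat_lit 11752844857) (nat_lit 76) (nat_lit 7965897516) (nat_lit 80) (nat_lit 5) (nat_lit 86) (nat_lit 5) (nat_lit 81) (nat_lit 5) (nat_lit 344) (nat_lit 326) (nat_lit 230)) (XT.lf (nat_lit 0) (nat_lit 567985964) (nat_lit 304) (nat_lit 6305599203) (nat_lit 380) (nat_lit 17253581857) (nat_lit 76) (nat_lit 5) (nat_lit 80) (nat_lit 5) (nat_lit 81) (nat_lit 5) (nat_lit 345) (nat_lit 326) (nat_lit 229)))) (XT.nd (nat_lit 78) (nat_lit 304) (nat_lit 0) (XT.lf (nat_lit 0) (nat_lit 10418676844) (nat_lit 380) (nat_lit 10981985834) (nat_lit 76) (nat_lit 3425742065) (nat_lit 76) (nat_lit 5) (nat_lit 81) (nat_lit 5) (nat_lit 77) (nat_lit 5) (nat_lit 346) (nat_lit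 326) (nat_lit 228)) (XT.nd (nat_lit 78) (nat_lit 0) (nat_lit 0) (XT.lf (nat_lit 0) (nat_lit 2180096724) (nat_lit 304) (nat_lit 12089638313) (nat_lit 380) (nat_lit 11284441390) (nat_lit 72) (nat_lit 5) (nat_lit 76) (nat_lit 5) (nat_lit 77) (nat_lit 5) (nat_lit 347) (nat_lit 326) (nat_lit 227)) (XT.lf (nat_lit 0) (nat_lit 16371341899) (nat_lit 304) (nat_lit 2119548186) (nat_lit 380) (nat_lit 7818576721) (nat_lit 72) (nat_lit 5) (nat_lit 76) (nat_lit 5) (nat_lit 77) (nat_lit 5) (nat_lit 348) (nat_lit 326) (nat_lit 226))))) (XT.nd (nat_lit 234) (nat_lit 228) (nat_lit 0) (XT.nd (nat_lit 78) (nat_lit 380) (nat_lit 0) (XT.lf (nat_lit 0) (nat_lit 4162390487) (nat_lit 228) (nat_lit 18947985341) (nat_lit 304) (nat_lit 3982789187) (nat_lit 69) (nat_lit 5) (nat_lit 72) (nat_lit 5) (nat_lit 73) (nat_lit 5) (nat_lit 349) (nat_lit 326) (nat_lit 225)) (XT.nd (nat_lit 78) (nat_lit 304) (nat_lit 0) (XT.lf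 (nat_lit 0) (nat_lit 241195288) (nat_lit 304) (nat_lit 8643091451) (nat_lit 76) (nat_lit 19021840694) (nat_lit 68) (nat_lit 5) (nat_lit 72) (nat_lit 5) (nat_lit 69) (nat_lit 5) (nat_lit 350) (nat_lit 326) (nat_lit 224)) (XT.lf (nat_lit 0) (nat_lit 4665261766) (nat_lit 380) (nat_lit 22289027864) (nat_lit 76) (nat_lit 1796053240) (nat_lit 64) (nat_lit 5) (nat_lit 69) (nat_lit 5) (nat_lit 65) (nat_lit 5) (nat_lit 351) (nat_lit 326) (nat_lit 223)))) (XT.nd (nat_lit 78) (nat_lit 228) (nat_lit 0) (XT.lf (nat_lit 0) (nat_lit 9597535907) (nat_lit 380) (nat_lit 7166395256) (nat_lit 76) (nat_lit 12858493425) (nat_lit 64) (nat_lit 5) (nat_lit 69) (nat_lit 5) (nat_lit 65) (nat_lit 5) (nat_lit 352) (nat_lit 326) (nat_lit 222)) (XT.nd (nat_lit 78) (nat_lit 0) (nat_lit 0) (XT.lf (nat_lit 0) (nat_lit 8990687417) (nat_lit 228) (nat_lit 5919044993) (nat_lit 304) (nat_lit 15621718005) (nat_lit 61) (nat_lit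 5) (nat_lit 64) (nat_lit 5) (nat_lit 65) (nat_lit 5) (nat_lit 353) (nat_lit 326) (nat_lit 221)) (XT.lf (nat_lit 0) (nat_lit 20689359185) (nat_lit 304) (nat_lit 5372394081) (nat_lit 76) (nat_lit 5414088436) (nat_lit 61) (nat_lit 5) (nat_lit 65) (nat_lit 5) (nat_lit 62) (nat_lit 5) (nat_lit 354) (nat_lit 326) (nat_lit 220)))))) (XT.nd (nat_lit 468) (nat_lit 608) (nat_lit 0) (XT.nd (nat_lit 234) (nat_lit 380) (nat_lit 0) (XT.nd (nat_lit 78) (nat_lit 304) (nat_lit 0) (XT.lf (nat_lit 0) (nat_lit 11878401451) (nat_lit 228) (nat_lit 15155475772) (nat_lit 304) (nat_lit 5419784782) (nat_lit 58) (nat_lit 5) (nat_lit 61) (nat_lit 5) (nat_lit 62) (nat_lit 5) (nat_lit 355) (nat_lit 326) (nat_lit 219)) (XT.nd (nat_lit 78) (nat_lit 228) (nat_lit 0) (XT.lf (nat_lit 0) (nat_lit 294318741) (nat_lit 304) (nat_lit 3311635942) (nat_lit 76) (nat_lit 29869957084) (nat_lit 57) (nat_lit 5) (nat_lit 61) (nat_lit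 5) (nat_lit 58) (nat_lit 5) (nat_lit 356) (nat_lit 326) (nat_lit 218)) (XT.lf (nat_lit 0) (nat_lit 6481506950) (nat_lit 304) (nat_lit 19467447913) (nat_lit 76) (nat_lit 8577404991) (nat_lit 54) (nat_lit 5) (nat_lit 58) (nat_lit 5) (nat_lit 55) (nat_lit 5) (nat_lit 357) (nat_lit 326) (nat_lit 217)))) (XT.nd (nat_lit 78) (nat_lit 380) (nat_lit 0) (XT.lf (nat_lit 0) (nat_lit 13088087222) (nat_lit 304) (nat_lit 1232499217) (nat_lit 76) (nat_lit 21303246344) (nat_lit 54) (nat_lit 5) (nat_lit 58) (nat_lit 5) (nat_lit 55) (nat_lit 5) (nat_lit 358) (nat_lit 326) (nat_lit 216)) (XT.nd (nat_lit 78) (nat_lit 152) (nat_lit 0) (XT.lf (nat_lit 0) (nat_lit 18497765307) (nat_lit 228) (nat_lit 1810237986) (nat_lit 304) (nat_lit 16454029600) (nat_lit 51) (nat_lit 5) (nat_lit 54) (nat_lit 5) (nat_lit 55) (nat_lit 5) (nat_lit 359) (nat_lit 326) (nat_lit 215)) (XT.lf (nat_lit 0) (nat_lit 1152366144) (nat_lit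 152) (nat_lit 26946889237) (nat_lit 228) (nat_lit 9847374308) (nat_lit 49) (nat_lit 5) (nat_lit 51) (nat_lit 5) (nat_lit 52) (nat_lit 5) (nat_lit 360) (nat_lit 326) (nat_lit 214))))) (XT.nd (nat_lit 234) (nat_lit 304) (nat_lit 0) (XT.nd (nat_lit 78) (nat_lit 304) (nat_lit 0) (XT.lf (nat_lit 0) (nat_lit 22134823789) (nat_lit 152) (nat_lit 14478205662) (nat_lit 228) (nat_lit 2560782421) (nat_lit 49) (nat_lit 5) (nat_lit 51) (nat_lit 5) (nat_lit 52) (nat_lit 5) (nat_lit 361) (nat_lit 326) (nat_lit 213)) (XT.nd (nat_lit 78) (nat_lit 0) (nat_lit 0) (XT.lf (nat_lit 0) (nat_lit 3735929364) (nat_lit 228) (nat_lit 1244244029) (nat_lit 304) (nat_lit 35475561863) (nat_lit 45) (nat_lit 5) (nat_lit 48) (nat_lit 5) (nat_lit 49) (nat_lit 5) (nat_lit 362) (nat_lit 326) (nat_lit 212)) (XT.lf (nat_lit 0) (nat_lit 13297643652) (nat_lit 304) (nat_lit 15898725336) (nat_lit 76) (nat_lit 12579013569) (nat_lit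 45) (nat_lit 5) (nat_lit 49) (nat_lit 5) (nat_lit 46) (nat_lit 5) (nat_lit 363) (nat_lit 326) (nat_lit 211)))) (XT.nd (nat_lit 78) (nat_lit 152) (nat_lit 0) (XT.lf (nat_lit 0) (nat_lit 6131336741) (nat_lit 152) (nat_lit 16010735115) (nat_lit 228) (nat_lit 21013389038) (nat_lit 43) (nat_lit 5) (nat_lit 45) (nat_lit 5) (nat_lit 46) (nat_lit 5) (nat_lit 364) (nat_lit 326) (nat_lit 210)) (XT.nd (nat_lit 78) (nat_lit 152) (nat_lit 0) (XT.lf (nat_lit 0) (nat_lit 29807081318) (nat_lit 152) (nat_lit 1885970817) (nat_lit 228) (nat_lit 12898277234) (nat_lit 43) (nat_lit 5) (nat_lit 45) (nat_lit 5) (nat_lit 46) (nat_lit 5) (nat_lit 365) (nat_lit 326) (nat_lit 209)) (XT.lf (nat_lit 0) (nat_lit 8634251658) (nat_lit 152) (nat_lit 33419512671) (nat_lit 228) (nat_lit 4028620415) (nat_lit 41) (nat_lit 5) (nat_lit 43) (nat_lit 5) (nat_lit 44) (nat_lit 5) (nat_lit 366) (nat_lit 326) (nat_lit 208))))))))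
noncomputable def xc168 : XT := (XT.nd (nat_lit 1794) (nat_lit 760) (nat_lit 0) (XT.nd (nat_lit 858) (nat_lit 760) (nat_lit 0) (XT.nd (nat_lit 390) (nat_lit 456) (nat_lit 0) (XT.nd (nat_lit 156) (nat_lit 152) (nat_lit 0) (XT.nd (nat_lit 78) (nat_lit 152) (nat_lit 0) (XT.lf (nat_lit 0) (nat_lit 5396082084) (nat_lit 228) (nat_lit 14023697141) (nat_lit 76) (nat_lit 28210055714) (nat_lit 40) (nat_lit 5) (nat_lit 43) (nat_lit 5) (nat_lit 41) (nat_lit 5) (nat_lit 367) (nat_lit 326) (nat_lit 207)) (XT.lf (nat_lit 0) (nat_lit 10845767106) (nat_lit 152) (nat_lit 4475721118) (nat_lit 228) (nat_lit 33921626708) (nat_lit 38) (nat_lit 5) (nat_lit 40) (nat_lit 5) (nat_lit 41) (nat_lit 5) (nat_lit 368) (nat_lit 326) (nat_lit 206))) (XT.nd (nat_lit 78) (nat_lit 152) (nat_lit 0) (XT.lf (nat_lit 0) (nat_lit 26155243664) (nat_lit 228) (nat_lit 13665950469) (nat_lit 76) (nat_lit 11095262998) (nat_lit 38) (nat_lit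 5) (nat_lit 41) (nat_lit 5) (nat_lit 39) (nat_lit 5) (nat_lit 369) (nat_lit 326) (nat_lit 205)) (XT.nd (nat_lit 78) (nat_lit 0) (nat_lit 0) (XT.lf (nat_lit 0) (nat_lit 12625754220) (nat_lit 152) (nat_lit 25171220422) (nat_lit 228) (nat_lit 14863179467) (nat_lit 36) (nat_lit 5) (nat_lit 38) (nat_lit 5) (nat_lit 39) (nat_lit 5) (nat_lit 370) (nat_lit 326) (nat_lit 204)) (XT.lf (nat_lit 0) (nat_lit 40699614836) (nat_lit 152) (nat_lit 9548501665) (nat_lit 228) (nat_lit 4231555175) (nat_lit 36) (nat_lit 5) (nat_lit 38) (nat_lit 5) (nat_lit 39) (nat_lit 5) (nat_lit 371) (nat_lit 326) (nat_lit 203))))) (XT.nd (nat_lit 234) (nat_lit 152) (nat_lit 0) (XT.nd (nat_lit 78) (nat_lit 152) (nat_lit 0) (XT.lf (nat_lit 0) (nat_lit 7038704929) (nat_lit 152) (nat_lit 42362151536) (nat_lit 76) (nat_lit 6967453772) (nat_lit 34) (nat_lit 5) (nat_lit 36) (nat_lit 5) (nat_lit 35) (nat_lit 5) (nat_lit 372) (nat_lit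 326) (nat_lit 202)) (XT.nd (nat_lit 78) (nat_lit 152) (nat_lit 0) (XT.lf (nat_lit 0) (nat_lit 19120060528) (nat_lit 152) (nat_lit 14916076071) (nat_lit 76) (nat_lit 24292287806) (nat_lit 34) (nat_lit 5) (nat_lit 36) (nat_lit 5) (nat_lit 35) (nat_lit 5) (nat_lit 373) (nat_lit 326) (nat_lit 201)) (XT.lf (nat_lit 0) (nat_lit 14355351612) (nat_lit 152) (nat_lit 17670507161) (nat_lit 228) (nat_lit 28349668375) (nat_lit 32) (nat_lit 5) (nat_lit 34) (nat_lit 5) (nat_lit 35) (nat_lit 5) (nat_lit 374) (nat_lit 326) (nat_lit 200)))) (XT.nd (nat_lit 78) (nat_lit 152) (nat_lit 0) (XT.lf (nat_lit 0) (nat_lit 45601894130) (nat_lit 152) (nat_lit 223991548) (nat_lit 228) (nat_lit 16686653946) (nat_lit 32) (nat_lit 5) (nat_lit 34) (nat_lit 5) (nat_lit 35) (nat_lit 5) (nat_lit 375) (nat_lit 326) (nat_lit 199)) (XT.nd (nat_lit 78) (nat_lit 76) (nat_lit 0) (XT.lf (nat_lit 0) (nat_lit 13807634547) (nat_lit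 76) (nat_lit 47002830012) (nat_lit 152) (nat_lit 3921212096) (nat_lit 31) (nat_lit 5) (nat_lit 32) (nat_lit 5) (nat_lit 33) (nat_lit 4) (nat_lit 376) (nat_lit 326) (nat_lit 198)) (XT.lf (nat_lit 0) (nat_lit 9470238776) (nat_lit 152) (nat_lit 20561102689) (nat_lit 76) (nat_lit 37008466164) (nat_lit 30) (nat_lit 5) (nat_lit 32) (nat_lit 5) (nat_lit 31) (nat_lit 5) (nat_lit 377) (nat_lit 326) (nat_lit 197)))))) (XT.nd (nat_lit 468) (nat_lit 304) (nat_lit 0) (XT.nd (nat_lit 234) (nat_lit 228) (nat_lit 0) (XT.nd (nat_lit 78) (nat_lit 76) (nat_lit 0) (XT.lf (nat_lit 0) (nat_lit 11621800956) (nat_lit 152) (nat_lit 11955778666) (nat_lit 228) (nat_lit 45873647889) (nat_lit 28) (nat_lit 5) (nat_lit 30) (nat_lit 5) (nat_lit 31) (nat_lit 5) (nat_lit 378) (nat_lit 326) (nat_lit 196)) (XT.nd (nat_lit 78) (nat_lit 76) (nat_lit 0) (XT.lf (nat_lit 0) (nat_lit 38850543178) (nat_lit 228) (nat_lit 25959391387)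 (nat_lit 76) (nat_lit 7150272242) (nat_lit 28) (nat_lit 5) (nat_lit 31) (nat_lit 5) (nat_lit 29) (nat_lit 4) (nat_lit 379) (nat_lit 326) (nat_lit 195)) (XT.lf (nat_lit 0) (nat_lit 7543982225) (nat_lit 76) (nat_lit 47653787529) (nat_lit 152) (nat_lit 19381335715) (nat_lit 27) (nat_lit 5) (nat_lit 28) (nat_lit 5) (nat_lit 29) (nat_lit 4) (nat_lit 380) (nat_lit 326) (nat_lit 194)))) (XT.nd (nat_lit 78) (nat_lit 228) (nat_lit 0) (XT.lf (nat_lit 0) (nat_lit 43618245152) (nat_lit 76) (nat_lit 29180647456) (nat_lit 152) (nat_lit 4508230800) (nat_lit 27) (nat_lit 5) (nat_lit 28) (nat_lit 5) (nat_lit 29) (nat_lit 4) (nat_lit 381) (nat_lit 326) (nat_lit 193)) (XT.nd (nat_lit 78) (nat_lit 0) (nat_lit 0) (XT.lf (nat_lit 0) (nat_lit 1183763858) (nat_lit 152) (nat_lit 9584703365) (nat_lit 228) (nat_lit 69393630235) (nat_lit 24) (nat_lit 5) (nat_lit 26) (nat_lit 5) (nat_lit 27) (nat_lit 5) (nat_lit 382)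 (nat_lit 326) (nat_lit 192)) (XT.lf (nat_lit 0) (nat_lit 27406007721) (nat_lit 228) (nat_lit 44421905459) (nat_lit 76) (nat_lit 11290787018) (nat_lit 24) (nat_lit 5) (nat_lit 27) (nat_lit 5) (nat_lit 25) (nat_lit 4) (nat_lit 383) (nat_lit 326) (nat_lit 191))))) (XT.nd (nat_lit 234) (nat_lit 228) (nat_lit 0) (XT.nd (nat_lit 78) (nat_lit 76) (nat_lit 0) (XT.lf (nat_lit 0) (nat_lit 45029715583) (nat_lit 228) (nat_lit 8299917983) (nat_lit 76) (nat_lit 32885785887) (nat_lit 24) (nat_lit 5) (nat_lit 27) (nat_lit 5) (nat_lit 25) (nat_lit 4) (nat_lit 384) (nat_lit 326) (nat_lit 190)) (XT.nd (nat_lit 78) (nat_lit 0) (nat_lit 0) (XT.lf (nat_lit 0) (nat_lit 30602756979) (nat_lit 76) (nat_lit 33406945760) (nat_lit 152) (nat_lit 25433518093) (nat_lit 23) (nat_lit 5) (nat_lit 24) (nat_lit 5) (nat_lit 25) (nat_lit 4) (nat_lit 385) (nat_lit 326) (nat_lit 189)) (XT.lf (nat_lit 0) (nat_lit 71733907765) (nat_lit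 76) (nat_lit 12342697196) (nat_lit 152) (nat_lit 8748912346) (nat_lit 23) (nat_lit 5) (nat_lit 24) (nat_lit 5) (nat_lit 25) (nat_lit 4) (nat_lit 386) (nat_lit 326) (nat_lit 188)))) (XT.nd (nat_lit 78) (nat_lit 76) (nat_lit 0) (XT.lf (nat_lit 0) (nat_lit 8943181246) (nat_lit 152) (nat_lit 77503474175) (nat_lit 76) (nat_lit 9900730273) (nat_lit 21) (nat_lit 5) (nat_lit 23) (nat_lit 5) (nat_lit 22) (nat_lit 4) (nat_lit 387) (nat_lit 326) (nat_lit 187)) (XT.nd (nat_lit 78) (nat_lit 76) (nat_lit 0) (XT.lf (nat_lit 0) (nat_lit 27788704727) (nat_lit 152) (nat_lit 38875333001) (nat_lit 76) (nat_lit 33345996934) (nat_lit 21) (nat_lit 5) (nat_lit 23) (nat_lit 5) (nat_lit 22) (nat_lit 4) (nat_lit 388) (nat_lit 326) (nat_lit 186)) (XT.lf (nat_lit 0) (nat_lit 1735291341) (nat_lit 76) (nat_lit 45865881456) (nat_lit 152) (nat_lit 56253410530) (nat_lit 20) (nat_lit 5) (nat_lit 21) (nat_lit 5) (nat_lit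 22) (nat_lit 4) (nat_lit 389) (nat_lit 326) (nat_lit 185))))))) (XT.nd (nat_lit 936) (nat_lit 304) (nat_lit 0) (XT.nd (nat_lit 468) (nat_lit 228) (nat_lit 0) (XT.nd (nat_lit 234) (nat_lit 152) (nat_lit 0) (XT.nd (nat_lit 78) (nat_lit 76) (nat_lit 0) (XT.lf (nat_lit 0) (nat_lit 45721718634) (nat_lit 76) (nat_lit 23338540741) (nat_lit 152) (nat_lit 38798300933) (nat_lit 20) (nat_lit 5) (nat_lit 21) (nat_lit 5) (nat_lit 22) (nat_lit 4) (nat_lit 390) (nat_lit 326) (nat_lit 184)) (XT.nd (nat_lit 78) (nat_lit 76) (nat_lit 0) (XT.lf (nat_lit 0) (nat_lit 91594926708) (nat_lit 152) (nat_lit 20164456253) (nat_lit 0) (nat_lit 303222461) (nat_lit 20) (nat_lit 5) (nat_lit 22) (nat_lit 4) (nat_lit 20) (nat_lit 4) (nat_lit 391) (nat_lit 326) (nat_lit 183)) (XT.lf (nat_lit 0) (nat_lit 24297559465) (nat_lit 76) (nat_lit 91718535001) (nat_lit 76) (nat_lit 422770552) (nat_lit 19) (nat_lit 4) (nat_lit 20)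 (nat_lit 5) (nat_lit 20) (nat_lit 4) (nat_lit 392) (nat_lit 326) (nat_lit 182)))) (XT.nd (nat_lit 78) (nat_lit 76) (nat_lit 0) (XT.lf (nat_lit 0) (nat_lit 20309188049) (nat_lit 152) (nat_lit 49665795806) (nat_lit 76) (nat_lit 51025608337) (nat_lit 18) (nat_lit 5) (nat_lit 20) (nat_lit 5) (nat_lit 19) (nat_lit 4) (nat_lit 393) (nat_lit 326) (nat_lit 181)) (XT.nd (nat_lit 78) (nat_lit 76) (nat_lit 0) (XT.lf (nat_lit 0) (nat_lit 42061461471) (nat_lit 152) (nat_lit 5077318015) (nat_lit 76) (nat_lit 78651383968) (nat_lit 18) (nat_lit 5) (nat_lit 20) (nat_lit 5) (nat_lit 19) (nat_lit 4) (nat_lit 394) (nat_lit 326) (nat_lit 180)) (XT.lf (nat_lit 0) (nat_lit 43116901616) (nat_lit 76) (nat_lit 22455646190) (nat_lit 152) (nat_lit 65213105986) (nat_lit 17) (nat_lit 5) (nat_lit 18) (nat_lit 5) (nat_lit 19) (nat_lit 4) (nat_lit 395) (nat_lit 326) (nat_lit 179))))) (XT.nd (nat_lit 234) (nat_lit 152)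 (nat_lit 0) (XT.nd (nat_lit 78) (nat_lit 76) (nat_lit 0) (XT.lf (nat_lit 0) (nat_lit 90398665409) (nat_lit 152) (nat_lit 42188673221) (nat_lit 0) (nat_lit 3436606622) (nat_lit 17) (nat_lit 5) (nat_lit 19) (nat_lit 4) (nat_lit 17) (nat_lit 4) (nat_lit 396) (nat_lit 326) (nat_lit 178)) (XT.nd (nat_lit 78) (nat_lit 0) (nat_lit 0) (XT.lf (nat_lit 0) (nat_lit 5365486178) (nat_lit 76) (nat_lit 111550626461) (nat_lit 76) (nat_lit 24585537889) (nat_lit 16) (nat_lit 4) (nat_lit 17) (nat_lit 5) (nat_lit 17) (nat_lit 4) (nat_lit 397) (nat_lit 326) (nat_lit 177)) (XT.lf (nat_lit 0) (nat_lit 56758578688) (nat_lit 76) (nat_lit 88713502221) (nat_lit 76) (nat_lit 1745528139) (nat_lit 16) (nat_lit 4) (nat_lit 17) (nat_lit 5) (nat_lit 17) (nat_lit 4) (nat_lit 398) (nat_lit 326) (nat_lit 176)))) (XT.nd (nat_lit 78) (nat_lit 76) (nat_lit 0) (XT.lf (nat_lit 0) (nat_lit 21522997297) (nat_lit 152) (nat_lit 42848577726)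 (nat_lit 76) (nat_lit 88830521075) (nat_lit 15) (nat_lit 5) (nat_lit 17) (nat_lit 5) (nat_lit 16) (nat_lit 4) (nat_lit 399) (nat_lit 326) (nat_lit 175)) (XT.nd (nat_lit 78) (nat_lit 0) (nat_lit 0) (XT.lf (nat_lit 0) (nat_lit 7345686101) (nat_lit 76) (nat_lit 38663594645) (nat_lit 152) (nat_lit 113469446704) (nat_lit 14) (nat_lit 5) (nat_lit 15) (nat_lit 5) (nat_lit 16) (nat_lit 4) (nat_lit 400) (nat_lit 326) (nat_lit 174)) (XT.lf (nat_lit 0) (nat_lit 61534116611) (nat_lit 76) (nat_lit 10909760780) (nat_lit 152) (nat_lit 93589113365) (nat_lit 14) (nat_lit 5) (nat_lit 15) (nat_lit 5) (nat_lit 16) (nat_lit 4) (nat_lit 401) (nat_lit 326) (nat_lit 173)))))) (XT.nd (nat_lit 468) (nat_lit 76) (nat_lit 0) (XT.nd (nat_lit 234) (nat_lit 152) (nat_lit 0) (XT.nd (nat_lit 78) (nat_lit 76) (nat_lit 0) (XT.lf (nat_lit 0) (nat_lit 100483247443) (nat_lit 152) (nat_lit 54770707112) (nat_lit 0) (nat_lit 17646860816)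 (nat_lit 14) (nat_lit 5) (nat_lit 16) (nat_lit 4) (nat_lit 14) (nat_lit 4) (nat_lit 402) (nat_lit 326) (nat_lit 172)) (XT.nd (nat_lit 78) (nat_lit 76) (nat_lit 0) (XT.lf (nat_lit 0) (nat_lit 130101905612) (nat_lit 152) (nat_lit 2737894157) (nat_lit 0) (nat_lit 47263365773) (nat_lit 14) (nat_lit 5) (nat_lit 16) (nat_lit 4) (nat_lit 14) (nat_lit 4) (nat_lit 403) (nat_lit 326) (nat_lit 171)) (XT.lf (nat_lit 0) (nat_lit 53609627177) (nat_lit 76) (nat_lit 108427409916) (nat_lit 76) (nat_lit 25586819399) (nat_lit 13) (nat_lit 4) (nat_lit 14) (nat_lit 5) (nat_lit 14) (nat_lit 4) (nat_lit 404) (nat_lit 326) (nat_lit 170)))) (XT.nd (nat_lit 78) (nat_lit 76) (nat_lit 0) (XT.lf (nat_lit 0) (nat_lit 92470452) (nat_lit 152) (nat_lit 82652979115) (nat_lit 76) (nat_lit 112772811221) (nat_lit 12) (nat_lit 5) (nat_lit 14) (nat_lit 5) (nat_lit 13) (nat_lit 4) (nat_lit 405) (nat_lit 326) (nat_lit 169)) (XT.nd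 (nat_lit 78) (nat_lit 76) (nat_lit 0) (XT.lf (nat_lit 0) (nat_lit 26194455970) (nat_lit 152) (nat_lit 29145768829) (nat_lit 76) (nat_lit 148446257146) (nat_lit 12) (nat_lit 5) (nat_lit 14) (nat_lit 5) (nat_lit 13) (nat_lit 4) (nat_lit 406) (nat_lit 326) (nat_lit 168)) (XT.lf (nat_lit 0) (nat_lit 27928157061) (nat_lit 76) (nat_lit 26108102491) (nat_lit 152) (nat_lit 158410118907) (nat_lit 11) (nat_lit 5) (nat_lit 12) (nat_lit 5) (nat_lit 13) (nat_lit 4) (nat_lit 407) (nat_lit 326) (nat_lit 167))))) (XT.nd (nat_lit 234) (nat_lit 76) (nat_lit 0) (XT.nd (nat_lit 78) (nat_lit 0) (nat_lit 0) (XT.lf (nat_lit 0) (nat_lit 83842124771) (nat_lit 152) (nat_lit 132729147741) (nat_lit 0) (nat_lit 4939398943) (nat_lit 11) (nat_lit 5) (nat_lit 13) (nat_lit 4) (nat_lit 11) (nat_lit 4) (nat_lit 408) (nat_lit 326) (nat_lit 166)) (XT.nd (nat_lit 78) (nat_lit 0) (nat_lit 0) (XT.lf (nat_lit 0) (nat_lit 115565034953)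 (nat_lit 152) (nat_lit 78781027903) (nat_lit 0) (nat_lit 36660778877) (nat_lit 11) (nat_lit 5) (nat_lit 13) (nat_lit 4) (nat_lit 11) (nat_lit 4) (nat_lit 409) (nat_lit 326) (nat_lit 165)) (XT.lf (nat_lit 0) (nat_lit 148872900188) (nat_lit 152) (nat_lit 22137793334) (nat_lit 0) (nat_lit 69967186734) (nat_lit 11) (nat_lit 5) (nat_lit 13) (nat_lit 4) (nat_lit 11) (nat_lit 4) (nat_lit 410) (nat_lit 326) (nat_lit 164)))) (XT.nd (nat_lit 78) (nat_lit 0) (nat_lit 0) (XT.lf (nat_lit 0) (nat_lit 38569898433) (nat_lit 76) (nat_lit 145877310691) (nat_lit 76) (nat_lit 66970209256) (nat_lit 10) (nat_lit 4) (nat_lit 11) (nat_lit 5) (nat_lit 11) (nat_lit 4) (nat_lit 411) (nat_lit 326) (nat_lit 163)) (XT.nd (nat_lit 78) (nat_lit 0) (nat_lit 0) (XT.lf (nat_lit 0) (nat_lit 103079402030) (nat_lit 76) (nat_lit 119094632421) (nat_lit 76) (nat_lit 40186209102) (nat_lit 10) (nat_lit 4) (nat_lit 11) (nat_lit 5)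 (nat_lit 11) (nat_lit 4) (nat_lit 412) (nat_lit 326) (nat_lit 162)) (XT.lf (nat_lit 0) (nat_lit 170812336085) (nat_lit 76) (nat_lit 90973804675) (nat_lit 76) (nat_lit 12064122417) (nat_lit 10) (nat_lit 4) (nat_lit 11) (nat_lit 5) (nat_lit 11) (nat_lit 4) (nat_lit 413) (nat_lit 326) (nat_lit 161))))))))
noncomputable def xc169 : XT := (XT.nd (nat_lit 40482) (nat_lit 0) (nat_lit 4256) (XT.nd (nat_lit 858) (nat_lit 152) (nat_lit 0) (XT.nd (nat_lit 390) (nat_lit 76) (nat_lit 0) (XT.nd (nat_lit 156) (nat_lit 0) (nat_lit 0) (XT.nd (nat_lit 78) (nat_lit 76) (nat_lit 0) (XT.lf (nat_lit 0) (nat_lit 16904082827) (nat_lit 152) (nat_lit 44257511450) (nat_lit 76) (nat_lit 224739607840) (nat_lit 9) (nat_lit 5) (nat_lit 11) (nat_lit 5) (nat_lit 10) (nat_lit 4) (nat_lit 414) (nat_lit 326) (nat_lit 160)) (XT.lf (nat_lit 0) (nat_lit 17833033825) (nat_lit 76) (nat_lit 29359676889) (nat_lit 152) (nat_lit 251338216519)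 (nat_lit 8) (nat_lit 5) (nat_lit 9) (nat_lit 5) (nat_lit 10) (nat_lit 4) (nat_lit 415) (nat_lit 326) (nat_lit 159))) (XT.nd (nat_lit 78) (nat_lit 0) (nat_lit 0) (XT.lf (nat_lit 0) (nat_lit 79819561628) (nat_lit 152) (nat_lit 227267169403) (nat_lit 0) (nat_lit 4664218142) (nat_lit 8) (nat_lit 5) (nat_lit 10) (nat_lit 4) (nat_lit 8) (nat_lit 4) (nat_lit 416) (nat_lit 326) (nat_lit 158)) (XT.nd (nat_lit 78) (nat_lit 0) (nat_lit 0) (XT.lf (nat_lit 0) (nat_lit 114558133584) (nat_lit 152) (nat_lit 171648016153) (nat_lit 0) (nat_lit 39401803687) (nat_lit 8) (nat_lit 5) (nat_lit 10) (nat_lit 4) (nat_lit 8) (nat_lit 4) (nat_lit 417) (nat_lit 326) (nat_lit 157)) (XT.lf (nat_lit 0) (nat_lit 151032750634) (nat_lit 152) (nat_lit 113249620267) (nat_lit 0) (nat_lit 75875481297) (nat_lit 8) (nat_lit 5) (nat_lit 10) (nat_lit 4) (nat_lit 8) (nat_lit 4) (nat_lit 418) (nat_lit 326) (nat_lit 156))))) (XT.nd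 (nat_lit 234) (nat_lit 0) (nat_lit 0) (XT.nd (nat_lit 78) (nat_lit 76) (nat_lit 0) (XT.lf (nat_lit 0) (nat_lit 189330257102) (nat_lit 152) (nat_lit 51932937945) (nat_lit 0) (nat_lit 114172093061) (nat_lit 8) (nat_lit 5) (nat_lit 10) (nat_lit 4) (nat_lit 8) (nat_lit 4) (nat_lit 419) (nat_lit 326) (nat_lit 155)) (XT.nd (nat_lit 78) (nat_lit 0) (nat_lit 0) (XT.lf (nat_lit 0) (nat_lit 12859610766) (nat_lit 76) (nat_lit 216883001325) (nat_lit 76) (nat_lit 141723985186) (nat_lit 7) (nat_lit 4) (nat_lit 8) (nat_lit 5) (nat_lit 8) (nat_lit 4) (nat_lit 420) (nat_lit 326) (nat_lit 154)) (XT.lf (nat_lit 0) (nat_lit 82693250761) (nat_lit 76) (nat_lit 190361056401) (nat_lit 76) (nat_lit 115201228739) (nat_lit 7) (nat_lit 4) (nat_lit 8) (nat_lit 5) (nat_lit 8) (nat_lit 4) (nat_lit 421) (nat_lit 326) (nat_lit 153)))) (XT.nd (nat_lit 78) (nat_lit 0) (nat_lit 0) (XT.lf (nat_lit 0) (nat_lit 156017115147)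 (nat_lit 76) (nat_lit 162513722221) (nat_lit 76) (nat_lit 87353121680) (nat_lit 7) (nat_lit 4) (nat_lit 8) (nat_lit 5) (nat_lit 8) (nat_lit 4) (nat_lit 422) (nat_lit 326) (nat_lit 152)) (XT.nd (nat_lit 78) (nat_lit 0) (nat_lit 0) (XT.lf (nat_lit 0) (nat_lit 233005784554) (nat_lit 76) (nat_lit 133274695609) (nat_lit 76) (nat_lit 58113358992) (nat_lit 7) (nat_lit 4) (nat_lit 8) (nat_lit 5) (nat_lit 8) (nat_lit 4) (nat_lit 423) (nat_lit 326) (nat_lit 151)) (XT.lf (nat_lit 0) (nat_lit 313842565335) (nat_lit 76) (nat_lit 102574359833) (nat_lit 76) (nat_lit 27412322193) (nat_lit 7) (nat_lit 4) (nat_lit 8) (nat_lit 5) (nat_lit 8) (nat_lit 4) (nat_lit 424) (nat_lit 326) (nat_lit 150)))))) (XT.nd (nat_lit 468) (nat_lit 0) (nat_lit 0) (XT.nd (nat_lit 234) (nat_lit 0) (nat_lit 0) (XT.nd (nat_lit 78) (nat_lit 76) (nat_lit 0) (XT.lf (nat_lit 0) (nat_lit 4668717538) (nat_lit 152) (nat_lit 65591834329)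 (nat_lit 76) (nat_lit 393972141490) (nat_lit 6) (nat_lit 5) (nat_lit 8) (nat_lit 5) (nat_lit 7) (nat_lit 4) (nat_lit 425) (nat_lit 326) (nat_lit 149)) (XT.nd (nat_lit 78) (nat_lit 0) (nat_lit 0) (XT.lf (nat_lit 0) (nat_lit 1624135920) (nat_lit 76) (nat_lit 35833169958) (nat_lit 152) (nat_lit 448175300222) (nat_lit 5) (nat_lit 5) (nat_lit 6) (nat_lit 5) (nat_lit 7) (nat_lit 4) (nat_lit 426) (nat_lit 326) (nat_lit 148)) (XT.lf (nat_lit 0) (nat_lit 73018665589) (nat_lit 152) (nat_lit 433593227436) (nat_lit 0) (nat_lit 1433954443) (nat_lit 5) (nat_lit 5) (nat_lit 7) (nat_lit 4) (nat_lit 5) (nat_lit 4) (nat_lit 427) (nat_lit 326) (nat_lit 147)))) (XT.nd (nat_lit 78) (nat_lit 0) (nat_lit 0) (XT.lf (nat_lit 0) (nat_lit 110944927133) (nat_lit 152) (nat_lit 381245815437) (nat_lit 0) (nat_lit 39359666717) (nat_lit 5) (nat_lit 5) (nat_lit 7) (nat_lit 4) (nat_lit 5) (nat_lit 4) (nat_lit 428) (nat_lit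 326) (nat_lit 146)) (XT.nd (nat_lit 78) (nat_lit 0) (nat_lit 0) (XT.lf (nat_lit 0) (nat_lit 150766934930) (nat_lit 152) (nat_lit 326282141286) (nat_lit 0) (nat_lit 79181151399) (nat_lit 5) (nat_lit 5) (nat_lit 7) (nat_lit 4) (nat_lit 5) (nat_lit 4) (nat_lit 429) (nat_lit 326) (nat_lit 145)) (XT.lf (nat_lit 0) (nat_lit 192579503283) (nat_lit 152) (nat_lit 268571339090) (nat_lit 0) (nat_lit 120993221547) (nat_lit 5) (nat_lit 5) (nat_lit 7) (nat_lit 4) (nat_lit 5) (nat_lit 4) (nat_lit 430) (nat_lit 326) (nat_lit 144))))) (XT.nd (nat_lit 38922) (nat_lit 0) (nat_lit 8056) (XT.nd (nat_lit 38766) (nat_lit 0) (nat_lit 8056) (XT.lf (nat_lit 0) (nat_lit 236482185927) (nat_lit 152) (nat_lit 207976002178) (nat_lit 0) (nat_lit 164895429710) (nat_lit 5) (nat_lit 5) (nat_lit 7) (nat_lit 4) (nat_lit 5) (nat_lit 4) (nat_lit 431) (nat_lit 326) (nat_lit 143)) (XT.nd (nat_lit 78) (nat_lit 0) (nat_lit 0) (XT.lf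 (nat_lit 0) (nat_lit 3308337327) (nat_lit 0) (nat_lit 3308337327) (nat_lit 684) (nat_lit 1085921827) (nat_lit 111) (nat_lit 5) (nat_lit 111) (nat_lit 3) (nat_lit 120) (nat_lit 3) (nat_lit 327) (nat_lit 327) (nat_lit 246)) (XT.lf (nat_lit 0) (nat_lit 13839809545) (nat_lit 684) (nat_lit 1499754256) (nat_lit 760) (nat_lit 436674757) (nat_lit 111) (nat_lit 5) (nat_lit 120) (nat_lit 3) (nat_lit 121) (nat_lit 5) (nat_lit 328) (nat_lit 327) (nat_lit 245)))) (XT.nd (nat_lit 78) (nat_lit 0) (nat_lit 0) (XT.lf (nat_lit 76) (nat_lit 6234924874) (nat_lit 0) (nat_lit 8430424169) (nat_lit 760) (nat_lit 1491068967) (nat_lit 112) (nat_lit 5) (nat_lit 111) (nat_lit 5) (nat_lit 121) (nat_lit 5) (nat_lit 329) (nat_lit 327) (nat_lit 244)) (XT.nd (nat_lit 78) (nat_lit 0) (nat_lit 76) (XT.lf (nat_lit 76) (nat_lit 14398951454) (nat_lit 0) (nat_lit 1142219346) (nat_lit 760) (nat_lit 1014003837) (nat_lit 112) (nat_lit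 5) (nat_lit 111) (nat_lit 5) (nat_lit 121) (nat_lit 5) (nat_lit 330) (nat_lit 327) (nat_lit 243)) (XT.lf (nat_lit 76) (nat_lit 6080368720) (nat_lit 0) (nat_lit 10561482099) (nat_lit 760) (nat_lit 322982505) (nat_lit 113) (nat_lit 5) (nat_lit 112) (nat_lit 5) (nat_lit 122) (nat_lit 5) (nat_lit 331) (nat_lit 327) (nat_lit 242))))))) (XT.nd (nat_lit 936) (nat_lit 1900) (nat_lit 0) (XT.nd (nat_lit 468) (nat_lit 1216) (nat_lit 0) (XT.nd (nat_lit 234) (nat_lit 0) (nat_lit 152) (XT.nd (nat_lit 78) (nat_lit 0) (nat_lit 76) (XT.lf (nat_lit 0) (nat_lit 430360328) (nat_lit 760) (nat_lit 2625372830) (nat_lit 836) (nat_lit 14336910670) (nat_lit 102) (nat_lit 5) (nat_lit 112) (nat_lit 5) (nat_lit 113) (nat_lit 5) (nat_lit 332) (nat_lit 327) (nat_lit 241)) (XT.nd (nat_lit 78) (nat_lit 0) (nat_lit 0) (XT.lf (nat_lit 0) (nat_lit 1370429855) (nat_lit 760) (nat_lit 11683509957) (nat_lit 836) (nat_lit 4779659804)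 (nat_lit 103) (nat_lit 5) (nat_lit 113) (nat_lit 5) (nat_lit 114) (nat_lit 5) (nat_lit 333) (nat_lit 327) (nat_lit 240)) (XT.lf (nat_lit 0) (nat_lit 2438932049) (nat_lit 760) (nat_lit 2900126115) (nat_lit 836) (nat_lit 12953488038) (nat_lit 103) (nat_lit 5) (nat_lit 113) (nat_lit 5) (nat_lit 114) (nat_lit 5) (nat_lit 334) (nat_lit 327) (nat_lit 239)))) (XT.nd (nat_lit 78) (nat_lit 0) (nat_lit 0) (XT.lf (nat_lit 0) (nat_lit 3694314808) (nat_lit 760) (nat_lit 12293612166) (nat_lit 836) (nat_lit 2779854150) (nat_lit 104) (nat_lit 5) (nat_lit 114) (nat_lit 5) (nat_lit 115) (nat_lit 5) (nat_lit 335) (nat_lit 327) (nat_lit 238)) (XT.nd (nat_lit 78) (nat_lit 0) (nat_lit 76) (XT.lf (nat_lit 0) (nat_lit 5137239407) (nat_lit 760) (nat_lit 2945224476) (nat_lit 836) (nat_lit 11178088399) (nat_lit 104) (nat_lit 5) (nat_lit 114) (nat_lit 5) (nat_lit 115) (nat_lit 5) (nat_lit 336) (nat_lit 327) (nat_lit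 237)) (XT.lf (nat_lit 0) (nat_lit 6756151331) (nat_lit 760) (nat_lit 12690813253) (nat_lit 76) (nat_lit 325817857) (nat_lit 105) (nat_lit 5) (nat_lit 115) (nat_lit 5) (nat_lit 106) (nat_lit 5) (nat_lit 337) (nat_lit 327) (nat_lit 236))))) (XT.nd (nat_lit 234) (nat_lit 684) (nat_lit 0) (XT.nd (nat_lit 78) (nat_lit 760) (nat_lit 0) (XT.lf (nat_lit 0) (nat_lit 8627586414) (nat_lit 760) (nat_lit 2739075693) (nat_lit 76) (nat_lit 8935395025) (nat_lit 105) (nat_lit 5) (nat_lit 115) (nat_lit 5) (nat_lit 106) (nat_lit 5) (nat_lit 338) (nat_lit 327) (nat_lit 235)) (XT.nd (nat_lit 78) (nat_lit 0) (nat_lit 0) (XT.lf (nat_lit 0) (nat_lit 7954949657) (nat_lit 760) (nat_lit 2750777573) (nat_lit 836) (nat_lit 10146422967) (nat_lit 95) (nat_lit 5) (nat_lit 105) (nat_lit 5) (nat_lit 106) (nat_lit 5) (nat_lit 339) (nat_lit 327) (nat_lit 234)) (XT.lf (nat_lit 0) (nat_lit 13022544144) (nat_lit 836) (nat_lit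 2258022251) (nat_lit 76) (nat_lit 6142453865) (nat_lit 95) (nat_lit 5) (nat_lit 106) (nat_lit 5) (nat_lit 96) (nat_lit 5) (nat_lit 340) (nat_lit 327) (nat_lit 233)))) (XT.nd (nat_lit 78) (nat_lit 304) (nat_lit 0) (XT.lf (nat_lit 0) (nat_lit 9151095886) (nat_lit 380) (nat_lit 6481907716) (nat_lit 456) (nat_lit 6380550421) (nat_lit 90) (nat_lit 5) (nat_lit 95) (nat_lit 5) (nat_lit 96) (nat_lit 5) (nat_lit 341) (nat_lit 327) (nat_lit 232)) (XT.nd (nat_lit 78) (nat_lit 304) (nat_lit 0) (XT.lf (nat_lit 0) (nat_lit 18446062028) (nat_lit 456) (nat_lit 1476468003) (nat_lit 76) (nat_lit 2707490436) (nat_lit 90) (nat_lit 5) (nat_lit 96) (nat_lit 5) (nat_lit 91) (nat_lit 5) (nat_lit 342) (nat_lit 327) (nat_lit 231)) (XT.lf (nat_lit 0) (nat_lit 10705526002) (nat_lit 304) (nat_lit 10958288408) (nat_lit 380) (nat_lit 1600303098) (nat_lit 86) (nat_lit 5) (nat_lit 90) (nat_lit 5) (nat_lit 91) (nat_lit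 5) (nat_lit 343) (nat_lit 327) (nat_lit 230)))))) (XT.nd (nat_lit 468) (nat_lit 836) (nat_lit 0) (XT.nd (nat_lit 234) (nat_lit 304) (nat_lit 0) (XT.nd (nat_lit 78) (nat_lit 684) (nat_lit 0) (XT.lf (nat_lit 0) (nat_lit 1093118510) (nat_lit 380) (nat_lit 408405379) (nat_lit 76) (nat_lit 22426725904) (nat_lit 85) (nat_lit 5) (nat_lit 90) (nat_lit 5) (nat_lit 86) (nat_lit 5) (nat_lit 344) (nat_lit 327) (nat_lit 229)) (XT.nd (nat_lit 78) (nat_lit 304) (nat_lit 0) (XT.lf (nat_lit 0) (nat_lit 4192517302) (nat_lit 456) (nat_lit 12029222346) (nat_lit 76) (nat_lit 8386291039) (nat_lit 80) (nat_lit 5) (nat_lit 86) (nat_lit 5) (nat_lit 81) (nat_lit 5) (nat_lit 345) (nat_lit 327) (nat_lit 228)) (XT.lf (nat_lit 0) (nat_lit 902629616) (nat_lit 304) (nat_lit 6581473567) (nat_lit 380) (nat_lit 17835844258) (nat_lit 76) (nat_lit 5) (nat_lit 80) (nat_lit 5) (nat_lit 81) (nat_lit 5) (nat_lit 346) (nat_lit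 327) (nat_lit 227)))) (XT.nd (nat_lit 78) (nat_lit 304) (nat_lit 0) (XT.lf (nat_lit 0) (nat_lit 11194328772) (nat_lit 380) (nat_lit 11227078406) (nat_lit 76) (nat_lit 3633357141) (nat_lit 76) (nat_lit 5) (nat_lit 81) (nat_lit 5) (nat_lit 77) (nat_lit 5) (nat_lit 347) (nat_lit 327) (nat_lit 226)) (XT.nd (nat_lit 78) (nat_lit 0) (nat_lit 0) (XT.lf (nat_lit 0) (nat_lit 2588204945) (nat_lit 304) (nat_lit 12642275339) (nat_lit 380) (nat_lit 11588827985) (nat_lit 72) (nat_lit 5) (nat_lit 76) (nat_lit 5) (nat_lit 77) (nat_lit 5) (nat_lit 348) (nat_lit 327) (nat_lit 225)) (XT.lf (nat_lit 0) (nat_lit 17474769361) (nat_lit 304) (nat_lit 2176149509) (nat_lit 380) (nat_lit 7962043200) (nat_lit 72) (nat_lit 5) (nat_lit 76) (nat_lit 5) (nat_lit 77) (nat_lit 5) (nat_lit 349) (nat_lit 327) (nat_lit 224))))) (XT.nd (nat_lit 234) (nat_lit 228) (nat_lit 0) (XT.nd (nat_lit 78) (nat_lit 380) (nat_lit 0) (XT.lf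 (nat_lit 0) (nat_lit 4661802272) (nat_lit 228) (nat_lit 19833645169) (nat_lit 304) (nat_lit 3940704029) (nat_lit 69) (nat_lit 5) (nat_lit 72) (nat_lit 5) (nat_lit 73) (nat_lit 5) (nat_lit 350) (nat_lit 327) (nat_lit 223)) (XT.nd (nat_lit 78) (nat_lit 304) (nat_lit 0) (XT.lf (nat_lit 0) (nat_lit 475639740) (nat_lit 304) (nat_lit 8790295678) (nat_lit 76) (nat_lit 20024203048) (nat_lit 68) (nat_lit 5) (nat_lit 72) (nat_lit 5) (nat_lit 69) (nat_lit 5) (nat_lit 351) (nat_lit 327) (nat_lit 222)) (XT.lf (nat_lit 0) (nat_lit 5115698979) (nat_lit 380) (nat_lit 23113150630) (nat_lit 76) (nat_lit 1947983981) (nat_lit 64) (nat_lit 5) (nat_lit 69) (nat_lit 5) (nat_lit 65) (nat_lit 5) (nat_lit 352) (nat_lit 327) (nat_lit 221)))) (XT.nd (nat_lit 78) (nat_lit 228) (nat_lit 0) (XT.lf (nat_lit 0) (nat_lit 10284245203) (nat_lit 380) (nat_lit 7248211565) (nat_lit 76) (nat_lit 13560587696) (nat_lit 64) (nat_lit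 5) (nat_lit 69) (nat_lit 5) (nat_lit 65) (nat_lit 5) (nat_lit 353) (nat_lit 327) (nat_lit 220)) (XT.nd (nat_lit 78) (nat_lit 0) (nat_lit 0) (XT.lf (nat_lit 0) (nat_lit 9712265509) (nat_lit 228) (nat_lit 6144184219) (nat_lit 304) (nat_lit 16191359548) (nat_lit 61) (nat_lit 5) (nat_lit 64) (nat_lit 5) (nat_lit 65) (nat_lit 5) (nat_lit 354) (nat_lit 327) (nat_lit 219)) (XT.lf (nat_lit 0) (nat_lit 21916528371) (nat_lit 304) (nat_lit 5373250175) (nat_lit 76) (nat_lit 5750075300) (nat_lit 61) (nat_lit 5) (nat_lit 65) (nat_lit 5) (nat_lit 62) (nat_lit 5) (nat_lit 355) (nat_lit 327) (nat_lit 218))))))))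
noncomputable def xc170 : XT := (XT.nd (nat_lit 1794) (nat_lit 1216) (nat_lit 0) (XT.nd (nat_lit 858) (nat_lit 988) (nat_lit 0) (XT.nd (nat_lit 390) (nat_lit 608) (nat_lit 0) (XT.nd (nat_lit 156) (nat_lit 456) (nat_lit 0) (XT.nd (nat_lit 78) (nat_lit 76) (nat_lit 0) (XT.lf (nat_lit 0) (nat_lit 12735766366) (nat_lit 228) (nat_lit 15837442807) (nat_lit 304) (nat_lit 5493616045) (nat_lit 58) (nat_lit 5) (nat_lit 61) (nat_lit 5) (nat_lit 62) (nat_lit 5) (nat_lit 356) (nat_lit 327) (nat_lit 217)) (XT.lf (nat_lit 0) (nat_lit 490794383) (nat_lit 304) (nat_lit 3220182939) (nat_lit 76) (nat_lit 31429516896) (nat_lit 57) (nat_lit 5) (nat_lit 61) (nat_lit 5) (nat_lit 58) (nat_lit 5) (nat_lit 357) (nat_lit 327) (nat_lit 216))) (XT.nd (nat_lit 78) (nat_lit 228) (nat_lit 0) (XT.lf (nat_lit 0) (nat_lit 6983819102) (nat_lit 304) (nat_lit 20180143416) (nat_lit 76) (nat_lit 9079684296) (nat_lit 54) (nat_lit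 5) (nat_lit 58) (nat_lit 5) (nat_lit 55) (nat_lit 5) (nat_lit 358) (nat_lit 327) (nat_lit 215)) (XT.nd (nat_lit 78) (nat_lit 228) (nat_lit 0) (XT.lf (nat_lit 0) (nat_lit 13912240920) (nat_lit 304) (nat_lit 1045860470) (nat_lit 76) (nat_lit 22438322047) (nat_lit 54) (nat_lit 5) (nat_lit 58) (nat_lit 5) (nat_lit 55) (nat_lit 5) (nat_lit 359) (nat_lit 327) (nat_lit 214)) (XT.lf (nat_lit 0) (nat_lit 19666913027) (nat_lit 228) (nat_lit 1821970041) (nat_lit 304) (nat_lit 17102869377) (nat_lit 51) (nat_lit 5) (nat_lit 54) (nat_lit 5) (nat_lit 55) (nat_lit 5) (nat_lit 360) (nat_lit 327) (nat_lit 213))))) (XT.nd (nat_lit 234) (nat_lit 152) (nat_lit 0) (XT.nd (nat_lit 78) (nat_lit 304) (nat_lit 0) (XT.lf (nat_lit 0) (nat_lit 1457340999) (nat_lit 152) (nat_lit 28209510113) (nat_lit 228) (nat_lit 10168875450) (nat_lit 49) (nat_lit 5) (nat_lit 51) (nat_lit 5) (nat_lit 52) (nat_lit 5) (nat_lit 361) (nat_lit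 327) (nat_lit 212)) (XT.nd (nat_lit 78) (nat_lit 304) (nat_lit 0) (XT.lf (nat_lit 0) (nat_lit 23477142643) (nat_lit 152) (nat_lit 15121426815) (nat_lit 228) (nat_lit 2526090519) (nat_lit 49) (nat_lit 5) (nat_lit 51) (nat_lit 5) (nat_lit 52) (nat_lit 5) (nat_lit 362) (nat_lit 327) (nat_lit 211)) (XT.lf (nat_lit 0) (nat_lit 4159720145) (nat_lit 228) (nat_lit 1223183600) (nat_lit 304) (nat_lit 37087843246) (nat_lit 45) (nat_lit 5) (nat_lit 48) (nat_lit 5) (nat_lit 49) (nat_lit 5) (nat_lit 363) (nat_lit 327) (nat_lit 210)))) (XT.nd (nat_lit 78) (nat_lit 152) (nat_lit 0) (XT.lf (nat_lit 0) (nat_lit 14110165646) (nat_lit 304) (nat_lit 16461786154) (nat_lit 76) (nat_lit 13284733186) (nat_lit 45) (nat_lit 5) (nat_lit 49) (nat_lit 5) (nat_lit 46) (nat_lit 5) (nat_lit 364) (nat_lit 327) (nat_lit 209)) (XT.nd (nat_lit 78) (nat_lit 0) (nat_lit 0) (XT.lf (nat_lit 0) (nat_lit 6666039101) (nat_lit 152)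 (nat_lit 16727307527) (nat_lit 228) (nat_lit 21912598078) (nat_lit 43) (nat_lit 5) (nat_lit 45) (nat_lit 5) (nat_lit 46) (nat_lit 5) (nat_lit 365) (nat_lit 327) (nat_lit 208)) (XT.lf (nat_lit 0) (nat_lit 31514707310) (nat_lit 152) (nat_lit 1900303316) (nat_lit 228) (nat_lit 13398943084) (nat_lit 43) (nat_lit 5) (nat_lit 45) (nat_lit 5) (nat_lit 46) (nat_lit 5) (nat_lit 366) (nat_lit 327) (nat_lit 207)))))) (XT.nd (nat_lit 468) (nat_lit 456) (nat_lit 0) (XT.nd (nat_lit 234) (nat_lit 152) (nat_lit 0) (XT.nd (nat_lit 78) (nat_lit 228) (nat_lit 0) (XT.lf (nat_lit 0) (nat_lit 9285333582) (nat_lit 152) (nat_lit 35006500485) (nat_lit 228) (nat_lit 4087827665) (nat_lit 41) (nat_lit 5) (nat_lit 43) (nat_lit 5) (nat_lit 44) (nat_lit 5) (nat_lit 367) (nat_lit 327) (nat_lit 206)) (XT.nd (nat_lit 78) (nat_lit 152) (nat_lit 0) (XT.lf (nat_lit 0) (nat_lit 5797002114) (nat_lit 228) (nat_lit 14511557160)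 (nat_lit 76) (nat_lit 29696145243) (nat_lit 40) (nat_lit 5) (nat_lit 43) (nat_lit 5) (nat_lit 41) (nat_lit 5) (nat_lit 368) (nat_lit 327) (nat_lit 205)) (XT.lf (nat_lit 0) (nat_lit 11597939576) (nat_lit 152) (nat_lit 4617772249) (nat_lit 228) (nat_lit 35483088183) (nat_lit 38) (nat_lit 5) (nat_lit 40) (nat_lit 5) (nat_lit 41) (nat_lit 5) (nat_lit 369) (nat_lit 327) (nat_lit 204)))) (XT.nd (nat_lit 78) (nat_lit 152) (nat_lit 0) (XT.lf (nat_lit 0) (nat_lit 27586268039) (nat_lit 228) (nat_lit 14144411160) (nat_lit 76) (nat_lit 11725377478) (nat_lit 38) (nat_lit 5) (nat_lit 41) (nat_lit 5) (nat_lit 39) (nat_lit 5) (nat_lit 370) (nat_lit 327) (nat_lit 203)) (XT.nd (nat_lit 78) (nat_lit 0) (nat_lit 0) (XT.lf (nat_lit 0) (nat_lit 13458574943) (nat_lit 152) (nat_lit 26348787489) (nat_lit 228) (nat_lit 15479715095) (nat_lit 36) (nat_lit 5) (nat_lit 38) (nat_lit 5) (nat_lit 39) (nat_lit 5) (nat_lit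 371) (nat_lit 327) (nat_lit 202)) (XT.lf (nat_lit 0) (nat_lit 42926531779) (nat_lit 152) (nat_lit 9948789650) (nat_lit 228) (nat_lit 4322539271) (nat_lit 36) (nat_lit 5) (nat_lit 38) (nat_lit 5) (nat_lit 39) (nat_lit 5) (nat_lit 372) (nat_lit 327) (nat_lit 201))))) (XT.nd (nat_lit 234) (nat_lit 152) (nat_lit 0) (XT.nd (nat_lit 78) (nat_lit 152) (nat_lit 0) (XT.lf (nat_lit 0) (nat_lit 7506049438) (nat_lit 152) (nat_lit 44283036980) (nat_lit 76) (nat_lit 7391819340) (nat_lit 34) (nat_lit 5) (nat_lit 36) (nat_lit 5) (nat_lit 35) (nat_lit 5) (nat_lit 373) (nat_lit 327) (nat_lit 200)) (XT.nd (nat_lit 78) (nat_lit 152) (nat_lit 0) (XT.lf (nat_lit 0) (nat_lit 20185977138) (nat_lit 152) (nat_lit 15474049272) (nat_lit 76) (nat_lit 25579276366) (nat_lit 34) (nat_lit 5) (nat_lit 36) (nat_lit 5) (nat_lit 35) (nat_lit 5) (nat_lit 374) (nat_lit 327) (nat_lit 199)) (XT.lf (nat_lit 0) (nat_lit 15257920269)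 (nat_lit 152) (nat_lit 18476796309) (nat_lit 228) (nat_lit 29654163761) (nat_lit 32) (nat_lit 5) (nat_lit 34) (nat_lit 5) (nat_lit 35) (nat_lit 5) (nat_lit 375) (nat_lit 327) (nat_lit 198)))) (XT.nd (nat_lit 78) (nat_lit 152) (nat_lit 0) (XT.lf (nat_lit 0) (nat_lit 48057989862) (nat_lit 152) (nat_lit 161632830) (nat_lit 228) (nat_lit 17413378994) (nat_lit 32) (nat_lit 5) (nat_lit 34) (nat_lit 5) (nat_lit 35) (nat_lit 5) (nat_lit 376) (nat_lit 327) (nat_lit 197)) (XT.nd (nat_lit 78) (nat_lit 76) (nat_lit 0) (XT.lf (nat_lit 0) (nat_lit 14675130260) (nat_lit 76) (nat_lit 49277281040) (nat_lit 152) (nat_lit 4010737265) (nat_lit 31) (nat_lit 5) (nat_lit 32) (nat_lit 5) (nat_lit 33) (nat_lit 4) (nat_lit 377) (nat_lit 327) (nat_lit 196)) (XT.lf (nat_lit 0) (nat_lit 10041965607) (nat_lit 152) (nat_lit 21417193450) (nat_lit 76) (nat_lit 38927691251) (nat_lit 30) (nat_lit 5) (nat_lit 32) (nat_lit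 5) (nat_lit 31) (nat_lit 5) (nat_lit 378) (nat_lit 327) (nat_lit 195))))))) (XT.nd (nat_lit 936) (nat_lit 456) (nat_lit 0) (XT.nd (nat_lit 468) (nat_lit 304) (nat_lit 0) (XT.nd (nat_lit 234) (nat_lit 228) (nat_lit 0) (XT.nd (nat_lit 78) (nat_lit 76) (nat_lit 0) (XT.lf (nat_lit 0) (nat_lit 12372081758) (nat_lit 152) (nat_lit 12480556379) (nat_lit 228) (nat_lit 48066306575) (nat_lit 28) (nat_lit 5) (nat_lit 30) (nat_lit 5) (nat_lit 31) (nat_lit 5) (nat_lit 379) (nat_lit 327) (nat_lit 194)) (XT.nd (nat_lit 78) (nat_lit 76) (nat_lit 0) (XT.lf (nat_lit 0) (nat_lit 40885755521) (nat_lit 228) (nat_lit 27092699033) (nat_lit 76) (nat_lit 7575094812) (nat_lit 28) (nat_lit 5) (nat_lit 31) (nat_lit 5) (nat_lit 29) (nat_lit 4) (nat_lit 380) (nat_lit 327) (nat_lit 193)) (XT.lf (nat_lit 0) (nat_lit 8083187422) (nat_lit 76) (nat_lit 49965271793) (nat_lit 152) (nat_lit 20255029553) (nat_lit 27) (nat_lit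 5) (nat_lit 28) (nat_lit 5) (nat_lit 29) (nat_lit 4) (nat_lit 381) (nat_lit 327) (nat_lit 192)))) (XT.nd (nat_lit 78) (nat_lit 228) (nat_lit 0) (XT.lf (nat_lit 0) (nat_lit 45953448919) (nat_lit 76) (nat_lit 30571865436) (nat_lit 152) (nat_lit 4642810961) (nat_lit 27) (nat_lit 5) (nat_lit 28) (nat_lit 5) (nat_lit 29) (nat_lit 4) (nat_lit 382) (nat_lit 327) (nat_lit 191)) (XT.nd (nat_lit 78) (nat_lit 0) (nat_lit 0) (XT.lf (nat_lit 0) (nat_lit 1397643760) (nat_lit 152) (nat_lit 9995399336) (nat_lit 228) (nat_lit 72772824032) (nat_lit 24) (nat_lit 5) (nat_lit 26) (nat_lit 5) (nat_lit 27) (nat_lit 5) (nat_lit 383) (nat_lit 327) (nat_lit 190)) (XT.lf (nat_lit 0) (nat_lit 28859377250) (nat_lit 228) (nat_lit 46492565661) (nat_lit 76) (nat_lit 11918512574) (nat_lit 24) (nat_lit 5) (nat_lit 27) (nat_lit 5) (nat_lit 25) (nat_lit 4) (nat_lit 384) (nat_lit 327) (nat_lit 189))))) (XT.nd (nat_lit 234)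 (nat_lit 228) (nat_lit 0) (XT.nd (nat_lit 78) (nat_lit 76) (nat_lit 0) (XT.lf (nat_lit 0) (nat_lit 47360314832) (nat_lit 228) (nat_lit 8571642386) (nat_lit 76) (nat_lit 34590252520) (nat_lit 24) (nat_lit 5) (nat_lit 27) (nat_lit 5) (nat_lit 25) (nat_lit 4) (nat_lit 385) (nat_lit 327) (nat_lit 188)) (XT.nd (nat_lit 78) (nat_lit 0) (nat_lit 0) (XT.lf (nat_lit 0) (nat_lit 32273855494) (nat_lit 76) (nat_lit 35013879335) (nat_lit 152) (nat_lit 26623745874) (nat_lit 23) (nat_lit 5) (nat_lit 24) (nat_lit 5) (nat_lit 25) (nat_lit 4) (nat_lit 386) (nat_lit 327) (nat_lit 187)) (XT.lf (nat_lit 0) (nat_lit 75454851406) (nat_lit 76) (nat_lit 12899438043) (nat_lit 152) (nat_lit 9108788322) (nat_lit 23) (nat_lit 5) (nat_lit 24) (nat_lit 5) (nat_lit 25) (nat_lit 4) (nat_lit 387) (nat_lit 327) (nat_lit 186)))) (XT.nd (nat_lit 78) (nat_lit 76) (nat_lit 0) (XT.lf (nat_lit 0) (nat_lit 9464903688) (nat_lit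 152) (nat_lit 81241351179) (nat_lit 76) (nat_lit 10454751363) (nat_lit 21) (nat_lit 5) (nat_lit 23) (nat_lit 5) (nat_lit 22) (nat_lit 4) (nat_lit 388) (nat_lit 327) (nat_lit 185)) (XT.nd (nat_lit 78) (nat_lit 76) (nat_lit 0) (XT.lf (nat_lit 0) (nat_lit 29249152705) (nat_lit 152) (nat_lit 40688340885) (nat_lit 76) (nat_lit 35069472568) (nat_lit 21) (nat_lit 5) (nat_lit 23) (nat_lit 5) (nat_lit 22) (nat_lit 4) (nat_lit 389) (nat_lit 327) (nat_lit 184)) (XT.lf (nat_lit 0) (nat_lit 1950705662) (nat_lit 76) (nat_lit 48100165541) (nat_lit 152) (nat_lit 58992940636) (nat_lit 20) (nat_lit 5) (nat_lit 21) (nat_lit 5) (nat_lit 22) (nat_lit 4) (nat_lit 390) (nat_lit 327) (nat_lit 183)))))) (XT.nd (nat_lit 468) (nat_lit 228) (nat_lit 0) (XT.nd (nat_lit 234) (nat_lit 152) (nat_lit 0) (XT.nd (nat_lit 78) (nat_lit 76) (nat_lit 0) (XT.lf (nat_lit 0) (nat_lit 48130328140) (nat_lit 76) (nat_lit 24449267790)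 (nat_lit 152) (nat_lit 40668558436) (nat_lit 20) (nat_lit 5) (nat_lit 21) (nat_lit 5) (nat_lit 22) (nat_lit 4) (nat_lit 391) (nat_lit 327) (nat_lit 182)) (XT.nd (nat_lit 78) (nat_lit 76) (nat_lit 0) (XT.lf (nat_lit 0) (nat_lit 96238674020) (nat_lit 152) (nat_lit 21053650407) (nat_lit 0) (nat_lit 370194287) (nat_lit 20) (nat_lit 5) (nat_lit 22) (nat_lit 4) (nat_lit 20) (nat_lit 4) (nat_lit 392) (nat_lit 327) (nat_lit 181)) (XT.lf (nat_lit 0) (nat_lit 25629546281) (nat_lit 76) (nat_lit 96250134617) (nat_lit 76) (nat_lit 377972161) (nat_lit 19) (nat_lit 4) (nat_lit 20) (nat_lit 5) (nat_lit 20) (nat_lit 4) (nat_lit 393) (nat_lit 327) (nat_lit 180)))) (XT.nd (nat_lit 78) (nat_lit 76) (nat_lit 0) (XT.lf (nat_lit 0) (nat_lit 21385434619) (nat_lit 152) (nat_lit 52035528841) (nat_lit 76) (nat_lit 53626604357) (nat_lit 18) (nat_lit 5) (nat_lit 20) (nat_lit 5) (nat_lit 19) (nat_lit 4) (nat_lit 394)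 (nat_lit 327) (nat_lit 179)) (XT.nd (nat_lit 78) (nat_lit 76) (nat_lit 0) (XT.lf (nat_lit 0) (nat_lit 44222427085) (nat_lit 152) (nat_lit 5223034625) (nat_lit 76) (nat_lit 82631301360) (nat_lit 18) (nat_lit 5) (nat_lit 20) (nat_lit 5) (nat_lit 19) (nat_lit 4) (nat_lit 395) (nat_lit 327) (nat_lit 178)) (XT.lf (nat_lit 0) (nat_lit 45379151644) (nat_lit 76) (nat_lit 23528820584) (nat_lit 152) (nat_lit 68414111135) (nat_lit 17) (nat_lit 5) (nat_lit 18) (nat_lit 5) (nat_lit 19) (nat_lit 4) (nat_lit 396) (nat_lit 327) (nat_lit 177))))) (XT.nd (nat_lit 234) (nat_lit 152) (nat_lit 0) (XT.nd (nat_lit 78) (nat_lit 76) (nat_lit 0) (XT.lf (nat_lit 0) (nat_lit 94973428727) (nat_lit 152) (nat_lit 44194789220) (nat_lit 0) (nat_lit 3654170431) (nat_lit 17) (nat_lit 5) (nat_lit 19) (nat_lit 4) (nat_lit 17) (nat_lit 4) (nat_lit 397) (nat_lit 327) (nat_lit 176)) (XT.nd (nat_lit 78) (nat_lit 0) (nat_lit 0)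 (XT.lf (nat_lit 0) (nat_lit 5735411736) (nat_lit 76) (nat_lit 117080312690) (nat_lit 76) (nat_lit 25758306289) (nat_lit 16) (nat_lit 4) (nat_lit 17) (nat_lit 5) (nat_lit 17) (nat_lit 4) (nat_lit 398) (nat_lit 327) (nat_lit 175)) (XT.lf (nat_lit 0) (nat_lit 59693318335) (nat_lit 76) (nat_lit 93103610575) (nat_lit 76) (nat_lit 1778986932) (nat_lit 16) (nat_lit 4) (nat_lit 17) (nat_lit 5) (nat_lit 17) (nat_lit 4) (nat_lit 399) (nat_lit 327) (nat_lit 174)))) (XT.nd (nat_lit 78) (nat_lit 76) (nat_lit 0) (XT.lf (nat_lit 0) (nat_lit 22648761557) (nat_lit 152) (nat_lit 44897155063) (nat_lit 76) (nat_lit 93313793170) (nat_lit 15) (nat_lit 5) (nat_lit 17) (nat_lit 5) (nat_lit 16) (nat_lit 4) (nat_lit 400) (nat_lit 327) (nat_lit 173)) (XT.nd (nat_lit 78) (nat_lit 0) (nat_lit 0) (XT.lf (nat_lit 0) (nat_lit 7805308220) (nat_lit 76) (nat_lit 40553130019) (nat_lit 152) (nat_lit 119091781011) (nat_lit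 14) (nat_lit 5) (nat_lit 15) (nat_lit 5) (nat_lit 16) (nat_lit 4) (nat_lit 401) (nat_lit 327) (nat_lit 172)) (XT.lf (nat_lit 0) (nat_lit 64698763217) (nat_lit 76) (nat_lit 11413682764) (nat_lit 152) (nat_lit 98219866150) (nat_lit 14) (nat_lit 5) (nat_lit 15) (nat_lit 5) (nat_lit 16) (nat_lit 4) (nat_lit 402) (nat_lit 327) (nat_lit 171))))))))
noncomputable def xc171 : XT := (XT.nd (nat_lit 1794) (nat_lit 152) (nat_lit 0) (XT.nd (nat_lit 858) (nat_lit 228) (nat_lit 0) (XT.nd (nat_lit 390) (nat_lit 152) (nat_lit 0) (XT.nd (nat_lit 156) (nat_lit 152) (nat_lit 0) (XT.nd (nat_lit 78) (nat_lit 0) (nat_lit 0) (XT.lf (nat_lit 0) (nat_lit 105552194275) (nat_lit 152) (nat_lit 57423890109) (nat_lit 0) (nat_lit 18567523554) (nat_lit 14) (nat_lit 5) (nat_lit 16) (nat_lit 4) (nat_lit 14) (nat_lit 4) (nat_lit 403) (nat_lit 327) (nat_lit 170)) (XT.lf (nat_lit 0) (nat_lit 136649652759) (nat_lit 152) (nat_lit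 2793500904) (nat_lit 0) (nat_lit 49663029011) (nat_lit 14) (nat_lit 5) (nat_lit 16) (nat_lit 4) (nat_lit 14) (nat_lit 4) (nat_lit 404) (nat_lit 327) (nat_lit 169))) (XT.nd (nat_lit 78) (nat_lit 76) (nat_lit 0) (XT.lf (nat_lit 0) (nat_lit 56370085401) (nat_lit 76) (nat_lit 113810673036) (nat_lit 76) (nat_lit 26822189263) (nat_lit 13) (nat_lit 4) (nat_lit 14) (nat_lit 5) (nat_lit 14) (nat_lit 4) (nat_lit 405) (nat_lit 327) (nat_lit 168)) (XT.nd (nat_lit 78) (nat_lit 0) (nat_lit 0) (XT.lf (nat_lit 0) (nat_lit 137630886) (nat_lit 152) (nat_lit 86708111908) (nat_lit 76) (nat_lit 118446396802) (nat_lit 12) (nat_lit 5) (nat_lit 14) (nat_lit 5) (nat_lit 13) (nat_lit 4) (nat_lit 406) (nat_lit 327) (nat_lit 167)) (XT.lf (nat_lit 0) (nat_lit 27542785351) (nat_lit 152) (nat_lit 30529232353) (nat_lit 76) (nat_lit 155901850974) (nat_lit 12) (nat_lit 5) (nat_lit 14) (nat_lit 5) (nat_lit 13) (nat_lit 4)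 (nat_lit 407) (nat_lit 327) (nat_lit 166))))) (XT.nd (nat_lit 234) (nat_lit 76) (nat_lit 0) (XT.nd (nat_lit 78) (nat_lit 0) (nat_lit 0) (XT.lf (nat_lit 0) (nat_lit 29397199106) (nat_lit 76) (nat_lit 27378775620) (nat_lit 152) (nat_lit 166290820846) (nat_lit 11) (nat_lit 5) (nat_lit 12) (nat_lit 5) (nat_lit 13) (nat_lit 4) (nat_lit 408) (nat_lit 327) (nat_lit 165)) (XT.nd (nat_lit 78) (nat_lit 0) (nat_lit 0) (XT.lf (nat_lit 0) (nat_lit 88070844782) (nat_lit 152) (nat_lit 139295134900) (nat_lit 0) (nat_lit 5218388276) (nat_lit 11) (nat_lit 5) (nat_lit 13) (nat_lit 4) (nat_lit 11) (nat_lit 4) (nat_lit 409) (nat_lit 327) (nat_lit 164)) (XT.lf (nat_lit 0) (nat_lit 121378156960) (nat_lit 152) (nat_lit 82652964796) (nat_lit 0) (nat_lit 38524312474) (nat_lit 11) (nat_lit 5) (nat_lit 13) (nat_lit 4) (nat_lit 11) (nat_lit 4) (nat_lit 410) (nat_lit 327) (nat_lit 163)))) (XT.nd (nat_lit 78) (nat_lit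 76) (nat_lit 0) (XT.lf (nat_lit 0) (nat_lit 156349754968) (nat_lit 152) (nat_lit 23180764427) (nat_lit 0) (nat_lit 73494588597) (nat_lit 11) (nat_lit 5) (nat_lit 13) (nat_lit 4) (nat_lit 11) (nat_lit 4) (nat_lit 411) (nat_lit 327) (nat_lit 162)) (XT.nd (nat_lit 78) (nat_lit 0) (nat_lit 0) (XT.lf (nat_lit 0) (nat_lit 40561280984) (nat_lit 76) (nat_lit 153140898802) (nat_lit 76) (nat_lit 70284473492) (nat_lit 10) (nat_lit 4) (nat_lit 11) (nat_lit 5) (nat_lit 11) (nat_lit 4) (nat_lit 412) (nat_lit 327) (nat_lit 161)) (XT.lf (nat_lit 0) (nat_lit 108293265111) (nat_lit 76) (nat_lit 125020528401) (nat_lit 76) (nat_lit 42162904102) (nat_lit 10) (nat_lit 4) (nat_lit 11) (nat_lit 5) (nat_lit 11) (nat_lit 4) (nat_lit 413) (nat_lit 327) (nat_lit 160)))))) (XT.nd (nat_lit 468) (nat_lit 76) (nat_lit 0) (XT.nd (nat_lit 234) (nat_lit 0) (nat_lit 0) (XT.nd (nat_lit 78) (nat_lit 152) (nat_lit 0) (XT.lf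 (nat_lit 0) (nat_lit 179409993822) (nat_lit 76) (nat_lit 95495032393) (nat_lit 76) (nat_lit 12636266200) (nat_lit 10) (nat_lit 4) (nat_lit 11) (nat_lit 5) (nat_lit 11) (nat_lit 4) (nat_lit 414) (nat_lit 327) (nat_lit 159)) (XT.nd (nat_lit 78) (nat_lit 76) (nat_lit 0) (XT.lf (nat_lit 0) (nat_lit 17777923301) (nat_lit 152) (nat_lit 46415110943) (nat_lit 76) (nat_lit 236001791628) (nat_lit 9) (nat_lit 5) (nat_lit 11) (nat_lit 5) (nat_lit 10) (nat_lit 4) (nat_lit 415) (nat_lit 327) (nat_lit 158)) (XT.lf (nat_lit 0) (nat_lit 18779070047) (nat_lit 76) (nat_lit 30801397996) (nat_lit 152) (nat_lit 263875595144) (nat_lit 8) (nat_lit 5) (nat_lit 9) (nat_lit 5) (nat_lit 10) (nat_lit 4) (nat_lit 416) (nat_lit 327) (nat_lit 157)))) (XT.nd (nat_lit 78) (nat_lit 0) (nat_lit 0) (XT.lf (nat_lit 0) (nat_lit 83837712878) (nat_lit 152) (nat_lit 238577780346) (nat_lit 0) (nat_lit 4921640636) (nat_lit 8) (nat_lit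 5) (nat_lit 10) (nat_lit 4) (nat_lit 8) (nat_lit 4) (nat_lit 417) (nat_lit 327) (nat_lit 156)) (XT.nd (nat_lit 78) (nat_lit 0) (nat_lit 0) (XT.lf (nat_lit 0) (nat_lit 120311919472) (nat_lit 152) (nat_lit 180180181220) (nat_lit 0) (nat_lit 41394952526) (nat_lit 8) (nat_lit 5) (nat_lit 10) (nat_lit 4) (nat_lit 8) (nat_lit 4) (nat_lit 418) (nat_lit 327) (nat_lit 155)) (XT.lf (nat_lit 0) (nat_lit 158609035030) (nat_lit 152) (nat_lit 118864257718) (nat_lit 0) (nat_lit 79691215985) (nat_lit 8) (nat_lit 5) (nat_lit 10) (nat_lit 4) (nat_lit 8) (nat_lit 4) (nat_lit 419) (nat_lit 327) (nat_lit 154))))) (XT.nd (nat_lit 234) (nat_lit 0) (nat_lit 0) (XT.nd (nat_lit 78) (nat_lit 76) (nat_lit 0) (XT.lf (nat_lit 0) (nat_lit 198820243162) (nat_lit 152) (nat_lit 54484019545) (nat_lit 0) (nat_lit 119901612593) (nat_lit 8) (nat_lit 5) (nat_lit 10) (nat_lit 4) (nat_lit 8) (nat_lit 4) (nat_lit 420) (nat_lit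 327) (nat_lit 153)) (XT.nd (nat_lit 78) (nat_lit 0) (nat_lit 0) (XT.lf (nat_lit 0) (nat_lit 13547421677) (nat_lit 76) (nat_lit 227705376379) (nat_lit 76) (nat_lit 148785972932) (nat_lit 7) (nat_lit 4) (nat_lit 8) (nat_lit 5) (nat_lit 8) (nat_lit 4) (nat_lit 421) (nat_lit 327) (nat_lit 152)) (XT.lf (nat_lit 0) (nat_lit 86870608893) (nat_lit 76) (nat_lit 199858371115) (nat_lit 76) (nat_lit 120938231592) (nat_lit 7) (nat_lit 4) (nat_lit 8) (nat_lit 5) (nat_lit 8) (nat_lit 4) (nat_lit 422) (nat_lit 327) (nat_lit 151)))) (XT.nd (nat_lit 78) (nat_lit 0) (nat_lit 0) (XT.lf (nat_lit 0) (nat_lit 163858633375) (nat_lit 76) (nat_lit 170619657755) (nat_lit 76) (nat_lit 91698817208) (nat_lit 7) (nat_lit 4) (nat_lit 8) (nat_lit 5) (nat_lit 8) (nat_lit 4) (nat_lit 423) (nat_lit 327) (nat_lit 150)) (XT.nd (nat_lit 78) (nat_lit 0) (nat_lit 0) (XT.lf (nat_lit 0) (nat_lit 244694799943) (nat_lit 76) (nat_lit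 139919620315) (nat_lit 76) (nat_lit 60998112126) (nat_lit 7) (nat_lit 4) (nat_lit 8) (nat_lit 5) (nat_lit 8) (nat_lit 4) (nat_lit 424) (nat_lit 327) (nat_lit 149)) (XT.lf (nat_lit 0) (nat_lit 329571575661) (nat_lit 76) (nat_lit 107685163469) (nat_lit 76) (nat_lit 28763019431) (nat_lit 7) (nat_lit 4) (nat_lit 8) (nat_lit 5) (nat_lit 8) (nat_lit 4) (nat_lit 425) (nat_lit 327) (nat_lit 148))))))) (XT.nd (nat_lit 39702) (nat_lit 0) (nat_lit 6080) (XT.nd (nat_lit 39234) (nat_lit 0) (nat_lit 7372) (XT.nd (nat_lit 234) (nat_lit 0) (nat_lit 0) (XT.nd (nat_lit 78) (nat_lit 76) (nat_lit 0) (XT.lf (nat_lit 0) (nat_lit 4920516599) (nat_lit 152) (nat_lit 68835690580) (nat_lit 76) (nat_lit 413687200161) (nat_lit 6) (nat_lit 5) (nat_lit 8) (nat_lit 5) (nat_lit 7) (nat_lit 4) (nat_lit 426) (nat_lit 327) (nat_lit 147)) (XT.nd (nat_lit 78) (nat_lit 0) (nat_lit 0) (XT.lf (nat_lit 0) (nat_lit 1740501803) (nat_lit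 76) (nat_lit 37607707048) (nat_lit 152) (nat_lit 470565123266) (nat_lit 5) (nat_lit 5) (nat_lit 6) (nat_lit 5) (nat_lit 7) (nat_lit 4) (nat_lit 427) (nat_lit 327) (nat_lit 146)) (XT.lf (nat_lit 0) (nat_lit 76687032194) (nat_lit 152) (nat_lit 455238797319) (nat_lit 0) (nat_lit 1521436371) (nat_lit 5) (nat_lit 5) (nat_lit 7) (nat_lit 4) (nat_lit 5) (nat_lit 4) (nat_lit 428) (nat_lit 327) (nat_lit 145)))) (XT.nd (nat_lit 78) (nat_lit 0) (nat_lit 0) (XT.lf (nat_lit 0) (nat_lit 116508776657) (nat_lit 152) (nat_lit 400275638125) (nat_lit 0) (nat_lit 41342682630) (nat_lit 5) (nat_lit 5) (nat_lit 7) (nat_lit 4) (nat_lit 5) (nat_lit 4) (nat_lit 429) (nat_lit 327) (nat_lit 144)) (XT.nd (nat_lit 78) (nat_lit 0) (nat_lit 0) (XT.lf (nat_lit 0) (nat_lit 158321094217) (nat_lit 152) (nat_lit 342565326365) (nat_lit 0) (nat_lit 83154525709) (nat_lit 5) (nat_lit 5) (nat_lit 7) (nat_lit 4) (nat_lit 5) (nat_lit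 4) (nat_lit 430) (nat_lit 327) (nat_lit 143)) (XT.lf (nat_lit 0) (nat_lit 202223538010) (nat_lit 152) (nat_lit 281970456535) (nat_lit 0) (nat_lit 127056517615) (nat_lit 5) (nat_lit 5) (nat_lit 7) (nat_lit 4) (nat_lit 5) (nat_lit 4) (nat_lit 431) (nat_lit 327) (nat_lit 142))))) (XT.nd (nat_lit 234) (nat_lit 684) (nat_lit 0) (XT.nd (nat_lit 78) (nat_lit 0) (nat_lit 0) (XT.lf (nat_lit 0) (nat_lit 3605949205) (nat_lit 0) (nat_lit 3605949205) (nat_lit 684) (nat_lit 862310219) (nat_lit 111) (nat_lit 5) (nat_lit 111) (nat_lit 3) (nat_lit 120) (nat_lit 3) (nat_lit 328) (nat_lit 328) (nat_lit 244)) (XT.nd (nat_lit 78) (nat_lit 0) (nat_lit 0) (XT.lf (nat_lit 0) (nat_lit 15031468764) (nat_lit 684) (nat_lit 1293262689) (nat_lit 760) (nat_lit 214767645) (nat_lit 111) (nat_lit 5) (nat_lit 120) (nat_lit 3) (nat_lit 121) (nat_lit 5) (nat_lit 329) (nat_lit 328) (nat_lit 243)) (XT.lf (nat_lit 76) (nat_lit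 6823610409) (nat_lit 0) (nat_lit 9055204877) (nat_lit 760) (nat_lit 1060872780) (nat_lit 112) (nat_lit 5) (nat_lit 111) (nat_lit 5) (nat_lit 121) (nat_lit 5) (nat_lit 330) (nat_lit 328) (nat_lit 242)))) (XT.nd (nat_lit 78) (nat_lit 684) (nat_lit 0) (XT.lf (nat_lit 76) (nat_lit 15382650733) (nat_lit 0) (nat_lit 1392910789) (nat_lit 760) (nat_lit 583990091) (nat_lit 112) (nat_lit 5) (nat_lit 111) (nat_lit 5) (nat_lit 121) (nat_lit 5) (nat_lit 331) (nat_lit 328) (nat_lit 241)) (XT.nd (nat_lit 78) (nat_lit 0) (nat_lit 0) (XT.lf (nat_lit 0) (nat_lit 116496854) (nat_lit 760) (nat_lit 11122743678) (nat_lit 836) (nat_lit 6551393236) (nat_lit 102) (nat_lit 5) (nat_lit 112) (nat_lit 5) (nat_lit 113) (nat_lit 5) (nat_lit 332) (nat_lit 328) (nat_lit 240)) (XT.lf (nat_lit 0) (nat_lit 875472778) (nat_lit 760) (nat_lit 2470308746) (nat_lit 836) (nat_lit 14894869770) (nat_lit 102) (nat_lit 5) (nat_lit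 112) (nat_lit 5) (nat_lit 113) (nat_lit 5) (nat_lit 333) (nat_lit 328) (nat_lit 239)))))) (XT.nd (nat_lit 468) (nat_lit 1368) (nat_lit 0) (XT.nd (nat_lit 234) (nat_lit 0) (nat_lit 76) (XT.nd (nat_lit 78) (nat_lit 0) (nat_lit 0) (XT.lf (nat_lit 0) (nat_lit 1844804083) (nat_lit 760) (nat_lit 11963187219) (nat_lit 836) (nat_lit 4896571845) (nat_lit 103) (nat_lit 5) (nat_lit 113) (nat_lit 5) (nat_lit 114) (nat_lit 5) (nat_lit 334) (nat_lit 328) (nat_lit 238)) (XT.nd (nat_lit 78) (nat_lit 0) (nat_lit 76) (XT.lf (nat_lit 0) (nat_lit 2947405066) (nat_lit 760) (nat_lit 2755134101) (nat_lit 836) (nat_lit 13484904392) (nat_lit 103) (nat_lit 5) (nat_lit 113) (nat_lit 5) (nat_lit 114) (nat_lit 5) (nat_lit 335) (nat_lit 328) (nat_lit 237)) (XT.lf (nat_lit 0) (nat_lit 4250243321) (nat_lit 760) (nat_lit 12602596401) (nat_lit 836) (nat_lit 2834385408) (nat_lit 104) (nat_lit 5) (nat_lit 114) (nat_lit 5)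 (nat_lit 115) (nat_lit 5) (nat_lit 336) (nat_lit 328) (nat_lit 236)))) (XT.nd (nat_lit 78) (nat_lit 0) (nat_lit 76) (XT.lf (nat_lit 0) (nat_lit 5747637351) (nat_lit 760) (nat_lit 2801346297) (nat_lit 836) (nat_lit 11656553343) (nat_lit 104) (nat_lit 5) (nat_lit 114) (nat_lit 5) (nat_lit 115) (nat_lit 5) (nat_lit 337) (nat_lit 328) (nat_lit 235)) (XT.nd (nat_lit 78) (nat_lit 0) (nat_lit 0) (XT.lf (nat_lit 0) (nat_lit 7434277532) (nat_lit 760) (nat_lit 13020648500) (nat_lit 76) (nat_lit 289130926) (nat_lit 105) (nat_lit 5) (nat_lit 115) (nat_lit 5) (nat_lit 106) (nat_lit 5) (nat_lit 338) (nat_lit 328) (nat_lit 234)) (XT.lf (nat_lit 0) (nat_lit 9383078720) (nat_lit 760) (nat_lit 2585833844) (nat_lit 76) (nat_lit 9331709707) (nat_lit 105) (nat_lit 5) (nat_lit 115) (nat_lit 5) (nat_lit 106) (nat_lit 5) (nat_lit 339) (nat_lit 328) (nat_lit 233))))) (XT.nd (nat_lit 234) (nat_lit 380) (nat_lit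 0) (XT.nd (nat_lit 78) (nat_lit 380) (nat_lit 0) (XT.lf (nat_lit 0) (nat_lit 8638212199) (nat_lit 760) (nat_lit 2915938117) (nat_lit 836) (nat_lit 10324634300) (nat_lit 95) (nat_lit 5) (nat_lit 105) (nat_lit 5) (nat_lit 106) (nat_lit 5) (nat_lit 340) (nat_lit 328) (nat_lit 232)) (XT.nd (nat_lit 78) (nat_lit 380) (nat_lit 0) (XT.lf (nat_lit 0) (nat_lit 13971486086) (nat_lit 836) (nat_lit 2083381075) (nat_lit 76) (nat_lit 6424112178) (nat_lit 95) (nat_lit 5) (nat_lit 106) (nat_lit 5) (nat_lit 96) (nat_lit 5) (nat_lit 341) (nat_lit 328) (nat_lit 231)) (XT.lf (nat_lit 0) (nat_lit 9891555189) (nat_lit 380) (nat_lit 6811148605) (nat_lit 456) (nat_lit 6396838575) (nat_lit 90) (nat_lit 5) (nat_lit 95) (nat_lit 5) (nat_lit 96) (nat_lit 5) (nat_lit 342) (nat_lit 328) (nat_lit 230)))) (XT.nd (nat_lit 78) (nat_lit 380) (nat_lit 0) (XT.lf (nat_lit 0) (nat_lit 19642621966) (nat_lit 456) (nat_lit 1266792165)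 (nat_lit 76) (nat_lit 2838121323) (nat_lit 90) (nat_lit 5) (nat_lit 96) (nat_lit 5) (nat_lit 91) (nat_lit 5) (nat_lit 343) (nat_lit 328) (nat_lit 229)) (XT.nd (nat_lit 78) (nat_lit 76) (nat_lit 0) (XT.lf (nat_lit 0) (nat_lit 11519728971) (nat_lit 304) (nat_lit 11492827973) (nat_lit 380) (nat_lit 1401228664) (nat_lit 86) (nat_lit 5) (nat_lit 90) (nat_lit 5) (nat_lit 91) (nat_lit 5) (nat_lit 344) (nat_lit 328) (nat_lit 228)) (XT.lf (nat_lit 0) (nat_lit 1405066797) (nat_lit 380) (nat_lit 154437958) (nat_lit 76) (nat_lit 23552056915) (nat_lit 85) (nat_lit 5) (nat_lit 90) (nat_lit 5) (nat_lit 86) (nat_lit 5) (nat_lit 345) (nat_lit 328) (nat_lit 227))))))))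
noncomputable def xc172 : XT := (XT.nd (nat_lit 1794) (nat_lit 1596) (nat_lit 0) (XT.nd (nat_lit 858) (nat_lit 1520) (nat_lit 0) (XT.nd (nat_lit 390) (nat_lit 836) (nat_lit 0) (XT.nd (nat_lit 156) (nat_lit 304) (nat_lit 0) (XT.nd (nat_lit 78) (nat_lit 304) (nat_lit 0) (XT.lf (nat_lit 0) (nat_lit 4651721668) (nat_lit 456) (nat_lit 12348357156) (nat_lit 76) (nat_lit 8825649714) (nat_lit 80) (nat_lit 5) (nat_lit 86) (nat_lit 5) (nat_lit 81) (nat_lit 5) (nat_lit 346) (nat_lit 328) (nat_lit 226)) (XT.lf (nat_lit 0) (nat_lit 1225533754) (nat_lit 304) (nat_lit 6874805208) (nat_lit 380) (nat_lit 18473290265) (nat_lit 76) (nat_lit 5) (nat_lit 80) (nat_lit 5) (nat_lit 81) (nat_lit 5) (nat_lit 347) (nat_lit 328) (nat_lit 225))) (XT.nd (nat_lit 78) (nat_lit 304) (nat_lit 0) (XT.lf (nat_lit 0) (nat_lit 11985082023) (nat_lit 380) (nat_lit 11512689270) (nat_lit 76) (nat_lit 3847975539) (nat_lit 76) (nat_lit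 5) (nat_lit 81) (nat_lit 5) (nat_lit 77) (nat_lit 5) (nat_lit 348) (nat_lit 328) (nat_lit 224)) (XT.nd (nat_lit 78) (nat_lit 0) (nat_lit 0) (XT.lf (nat_lit 0) (nat_lit 2988910780) (nat_lit 304) (nat_lit 13227364262) (nat_lit 380) (nat_lit 11932590949) (nat_lit 72) (nat_lit 5) (nat_lit 76) (nat_lit 5) (nat_lit 77) (nat_lit 5) (nat_lit 349) (nat_lit 328) (nat_lit 223)) (XT.lf (nat_lit 0) (nat_lit 18606884579) (nat_lit 304) (nat_lit 2240171419) (nat_lit 380) (nat_lit 8135689707) (nat_lit 72) (nat_lit 5) (nat_lit 76) (nat_lit 5) (nat_lit 77) (nat_lit 5) (nat_lit 350) (nat_lit 328) (nat_lit 222))))) (XT.nd (nat_lit 234) (nat_lit 228) (nat_lit 0) (XT.nd (nat_lit 78) (nat_lit 380) (nat_lit 0) (XT.lf (nat_lit 0) (nat_lit 5159103053) (nat_lit 228) (nat_lit 20769327937) (nat_lit 304) (nat_lit 3918941392) (nat_lit 69) (nat_lit 5) (nat_lit 72) (nat_lit 5) (nat_lit 73) (nat_lit 5) (nat_lit 351) (nat_lit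 328) (nat_lit 221)) (XT.nd (nat_lit 78) (nat_lit 304) (nat_lit 0) (XT.lf (nat_lit 0) (nat_lit 701131196) (nat_lit 304) (nat_lit 8971352098) (nat_lit 76) (nat_lit 21071916892) (nat_lit 68) (nat_lit 5) (nat_lit 72) (nat_lit 5) (nat_lit 69) (nat_lit 5) (nat_lit 352) (nat_lit 328) (nat_lit 220)) (XT.lf (nat_lit 0) (nat_lit 5568467261) (nat_lit 380) (nat_lit 24005471539) (nat_lit 76) (nat_lit 2101735179) (nat_lit 64) (nat_lit 5) (nat_lit 69) (nat_lit 5) (nat_lit 65) (nat_lit 5) (nat_lit 353) (nat_lit 328) (nat_lit 219)))) (XT.nd (nat_lit 78) (nat_lit 228) (nat_lit 0) (XT.lf (nat_lit 0) (nat_lit 10986060637) (nat_lit 380) (nat_lit 7359825359) (nat_lit 76) (nat_lit 14292285651) (nat_lit 64) (nat_lit 5) (nat_lit 69) (nat_lit 5) (nat_lit 65) (nat_lit 5) (nat_lit 354) (nat_lit 328) (nat_lit 218)) (XT.nd (nat_lit 78) (nat_lit 0) (nat_lit 0) (XT.lf (nat_lit 0) (nat_lit 10444630459) (nat_lit 228) (nat_lit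 6387163930) (nat_lit 304) (nat_lit 16809141261) (nat_lit 61) (nat_lit 5) (nat_lit 64) (nat_lit 5) (nat_lit 65) (nat_lit 5) (nat_lit 355) (nat_lit 328) (nat_lit 217)) (XT.lf (nat_lit 0) (nat_lit 23187140482) (nat_lit 304) (nat_lit 5399043195) (nat_lit 76) (nat_lit 6096792165) (nat_lit 61) (nat_lit 5) (nat_lit 65) (nat_lit 5) (nat_lit 62) (nat_lit 5) (nat_lit 356) (nat_lit 328) (nat_lit 216)))))) (XT.nd (nat_lit 468) (nat_lit 608) (nat_lit 0) (XT.nd (nat_lit 234) (nat_lit 380) (nat_lit 0) (XT.nd (nat_lit 78) (nat_lit 304) (nat_lit 0) (XT.lf (nat_lit 0) (nat_lit 13611506922) (nat_lit 228) (nat_lit 16560555988) (nat_lit 304) (nat_lit 5589468752) (nat_lit 58) (nat_lit 5) (nat_lit 61) (nat_lit 5) (nat_lit 62) (nat_lit 5) (nat_lit 357) (nat_lit 328) (nat_lit 215)) (XT.nd (nat_lit 78) (nat_lit 228) (nat_lit 0) (XT.lf (nat_lit 0) (nat_lit 680195511) (nat_lit 304) (nat_lit 3148053945) (nat_lit 76)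 (nat_lit 33060912884) (nat_lit 57) (nat_lit 5) (nat_lit 61) (nat_lit 5) (nat_lit 58) (nat_lit 5) (nat_lit 358) (nat_lit 328) (nat_lit 214)) (XT.lf (nat_lit 0) (nat_lit 7494676093) (nat_lit 304) (nat_lit 20952708960) (nat_lit 76) (nat_lit 9600252688) (nat_lit 54) (nat_lit 5) (nat_lit 58) (nat_lit 5) (nat_lit 55) (nat_lit 5) (nat_lit 359) (nat_lit 328) (nat_lit 213)))) (XT.nd (nat_lit 78) (nat_lit 380) (nat_lit 0) (XT.lf (nat_lit 0) (nat_lit 14761820619) (nat_lit 304) (nat_lit 872970992) (nat_lit 76) (nat_lit 23623651651) (nat_lit 54) (nat_lit 5) (nat_lit 58) (nat_lit 5) (nat_lit 55) (nat_lit 5) (nat_lit 360) (nat_lit 328) (nat_lit 212)) (XT.nd (nat_lit 78) (nat_lit 152) (nat_lit 0) (XT.lf (nat_lit 0) (nat_lit 20871809204) (nat_lit 228) (nat_lit 1841612902) (nat_lit 304) (nat_lit 17800315156) (nat_lit 51) (nat_lit 5) (nat_lit 54) (nat_lit 5) (nat_lit 55) (nat_lit 5) (nat_lit 361) (nat_lit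 328) (nat_lit 211)) (XT.lf (nat_lit 0) (nat_lit 1754567730) (nat_lit 152) (nat_lit 29543138829) (nat_lit 228) (nat_lit 10522337296) (nat_lit 49) (nat_lit 5) (nat_lit 51) (nat_lit 5) (nat_lit 52) (nat_lit 5) (nat_lit 362) (nat_lit 328) (nat_lit 210))))) (XT.nd (nat_lit 234) (nat_lit 304) (nat_lit 0) (XT.nd (nat_lit 78) (nat_lit 304) (nat_lit 0) (XT.lf (nat_lit 0) (nat_lit 24864675661) (nat_lit 152) (nat_lit 15804310737) (nat_lit 228) (nat_lit 2504793211) (nat_lit 49) (nat_lit 5) (nat_lit 51) (nat_lit 5) (nat_lit 52) (nat_lit 5) (nat_lit 363) (nat_lit 328) (nat_lit 209)) (XT.nd (nat_lit 78) (nat_lit 0) (nat_lit 0) (XT.lf (nat_lit 0) (nat_lit 4582666979) (nat_lit 228) (nat_lit 1208812050) (nat_lit 304) (nat_lit 38795753131) (nat_lit 45) (nat_lit 5) (nat_lit 48) (nat_lit 5) (nat_lit 49) (nat_lit 5) (nat_lit 364) (nat_lit 328) (nat_lit 208)) (XT.lf (nat_lit 0) (nat_lit 14949587589) (nat_lit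 304) (nat_lit 17074557595) (nat_lit 76) (nat_lit 14018601536) (nat_lit 45) (nat_lit 5) (nat_lit 49) (nat_lit 5) (nat_lit 46) (nat_lit 5) (nat_lit 365) (nat_lit 328) (nat_lit 207)))) (XT.nd (nat_lit 78) (nat_lit 152) (nat_lit 0) (XT.lf (nat_lit 0) (nat_lit 7206266699) (nat_lit 152) (nat_lit 17487514768) (nat_lit 228) (nat_lit 22870848923) (nat_lit 43) (nat_lit 5) (nat_lit 45) (nat_lit 5) (nat_lit 46) (nat_lit 5) (nat_lit 366) (nat_lit 328) (nat_lit 206)) (XT.nd (nat_lit 78) (nat_lit 152) (nat_lit 0) (XT.lf (nat_lit 0) (nat_lit 33287514717) (nat_lit 152) (nat_lit 1922786925) (nat_lit 228) (nat_lit 13938053039) (nat_lit 43) (nat_lit 5) (nat_lit 45) (nat_lit 5) (nat_lit 46) (nat_lit 5) (nat_lit 367) (nat_lit 328) (nat_lit 205)) (XT.lf (nat_lit 0) (nat_lit 9948574720) (nat_lit 152) (nat_lit 36680646081) (nat_lit 228) (nat_lit 4163217895) (nat_lit 41) (nat_lit 5) (nat_lit 43) (nat_lit 5) (nat_lit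 44) (nat_lit 5) (nat_lit 368) (nat_lit 328) (nat_lit 204))))))) (XT.nd (nat_lit 936) (nat_lit 608) (nat_lit 0) (XT.nd (nat_lit 468) (nat_lit 456) (nat_lit 0) (XT.nd (nat_lit 234) (nat_lit 304) (nat_lit 0) (XT.nd (nat_lit 78) (nat_lit 152) (nat_lit 0) (XT.lf (nat_lit 0) (nat_lit 6205778230) (nat_lit 228) (nat_lit 15043643102) (nat_lit 76) (nat_lit 31249511910) (nat_lit 40) (nat_lit 5) (nat_lit 43) (nat_lit 5) (nat_lit 41) (nat_lit 5) (nat_lit 369) (nat_lit 328) (nat_lit 203)) (XT.nd (nat_lit 78) (nat_lit 0) (nat_lit 0) (XT.lf (nat_lit 0) (nat_lit 12368207633) (nat_lit 152) (nat_lit 4774524875) (nat_lit 228) (nat_lit 37135138410) (nat_lit 38) (nat_lit 5) (nat_lit 40) (nat_lit 5) (nat_lit 41) (nat_lit 5) (nat_lit 370) (nat_lit 328) (nat_lit 202)) (XT.lf (nat_lit 0) (nat_lit 29077383882) (nat_lit 228) (nat_lit 14665838673) (nat_lit 76) (nat_lit 12379992230) (nat_lit 38) (nat_lit 5) (nat_lit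 41) (nat_lit 5) (nat_lit 39) (nat_lit 5) (nat_lit 371) (nat_lit 328) (nat_lit 201)))) (XT.nd (nat_lit 78) (nat_lit 152) (nat_lit 0) (XT.lf (nat_lit 0) (nat_lit 14314300073) (nat_lit 152) (nat_lit 27592762960) (nat_lit 228) (nat_lit 16138849742) (nat_lit 36) (nat_lit 5) (nat_lit 38) (nat_lit 5) (nat_lit 39) (nat_lit 5) (nat_lit 372) (nat_lit 328) (nat_lit 200)) (XT.nd (nat_lit 78) (nat_lit 152) (nat_lit 0) (XT.lf (nat_lit 0) (nat_lit 45246950162) (nat_lit 152) (nat_lit 10376263510) (nat_lit 228) (nat_lit 4429284228) (nat_lit 36) (nat_lit 5) (nat_lit 38) (nat_lit 5) (nat_lit 39) (nat_lit 5) (nat_lit 373) (nat_lit 328) (nat_lit 199)) (XT.lf (nat_lit 0) (nat_lit 7986031514) (nat_lit 152) (nat_lit 46318302541) (nat_lit 76) (nat_lit 7830338088) (nat_lit 34) (nat_lit 5) (nat_lit 36) (nat_lit 5) (nat_lit 35) (nat_lit 5) (nat_lit 374) (nat_lit 328) (nat_lit 198))))) (XT.nd (nat_lit 234) (nat_lit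 304) (nat_lit 0) (XT.nd (nat_lit 78) (nat_lit 152) (nat_lit 0) (XT.lf (nat_lit 0) (nat_lit 21294970856) (nat_lit 152) (nat_lit 16077383843) (nat_lit 76) (nat_lit 26923885691) (nat_lit 34) (nat_lit 5) (nat_lit 36) (nat_lit 5) (nat_lit 35) (nat_lit 5) (nat_lit 375) (nat_lit 328) (nat_lit 197)) (XT.nd (nat_lit 78) (nat_lit 0) (nat_lit 0) (XT.lf (nat_lit 0) (nat_lit 16188436307) (nat_lit 152) (nat_lit 19330580605) (nat_lit 228) (nat_lit 31034388473) (nat_lit 32) (nat_lit 5) (nat_lit 34) (nat_lit 5) (nat_lit 35) (nat_lit 5) (nat_lit 376) (nat_lit 328) (nat_lit 196)) (XT.lf (nat_lit 0) (nat_lit 50620527474) (nat_lit 152) (nat_lit 102994929) (nat_lit 228) (nat_lit 18186444633) (nat_lit 32) (nat_lit 5) (nat_lit 34) (nat_lit 5) (nat_lit 35) (nat_lit 5) (nat_lit 377) (nat_lit 328) (nat_lit 195)))) (XT.nd (nat_lit 78) (nat_lit 228) (nat_lit 0) (XT.lf (nat_lit 0) (nat_lit 15569534380) (nat_lit 76)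 (nat_lit 51672491601) (nat_lit 152) (nat_lit 4114643348) (nat_lit 31) (nat_lit 5) (nat_lit 32) (nat_lit 5) (nat_lit 33) (nat_lit 4) (nat_lit 378) (nat_lit 328) (nat_lit 194)) (XT.nd (nat_lit 78) (nat_lit 152) (nat_lit 0) (XT.lf (nat_lit 0) (nat_lit 10633147689) (nat_lit 152) (nat_lit 22332076367) (nat_lit 76) (nat_lit 40936481055) (nat_lit 30) (nat_lit 5) (nat_lit 32) (nat_lit 5) (nat_lit 31) (nat_lit 5) (nat_lit 379) (nat_lit 328) (nat_lit 193)) (XT.lf (nat_lit 0) (nat_lit 13144146847) (nat_lit 152) (nat_lit 13038360869) (nat_lit 228) (nat_lit 50377990422) (nat_lit 28) (nat_lit 5) (nat_lit 30) (nat_lit 5) (nat_lit 31) (nat_lit 5) (nat_lit 380) (nat_lit 328) (nat_lit 192)))))) (XT.nd (nat_lit 468) (nat_lit 304) (nat_lit 0) (XT.nd (nat_lit 234) (nat_lit 228) (nat_lit 0) (XT.nd (nat_lit 78) (nat_lit 76) (nat_lit 0) (XT.lf (nat_lit 0) (nat_lit 43014111492) (nat_lit 228) (nat_lit 28297980766)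 (nat_lit 76) (nat_lit 8014900761) (nat_lit 28) (nat_lit 5) (nat_lit 31) (nat_lit 5) (nat_lit 29) (nat_lit 4) (nat_lit 381) (nat_lit 328) (nat_lit 191)) (XT.nd (nat_lit 78) (nat_lit 0) (nat_lit 0) (XT.lf (nat_lit 0) (nat_lit 8634291089) (nat_lit 76) (nat_lit 52398950247) (nat_lit 152) (nat_lit 21181274956) (nat_lit 27) (nat_lit 5) (nat_lit 28) (nat_lit 5) (nat_lit 29) (nat_lit 4) (nat_lit 382) (nat_lit 328) (nat_lit 190)) (XT.lf (nat_lit 0) (nat_lit 48391068313) (nat_lit 76) (nat_lit 32038949055) (nat_lit 152) (nat_lit 4792564771) (nat_lit 27) (nat_lit 5) (nat_lit 28) (nat_lit 5) (nat_lit 29) (nat_lit 4) (nat_lit 383) (nat_lit 328) (nat_lit 189)))) (XT.nd (nat_lit 78) (nat_lit 0) (nat_lit 0) (XT.lf (nat_lit 0) (nat_lit 1607835888) (nat_lit 152) (nat_lit 10433002229) (nat_lit 228) (nat_lit 76329390208) (nat_lit 24) (nat_lit 5) (nat_lit 26) (nat_lit 5) (nat_lit 27) (nat_lit 5) (nat_lit 384)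 (nat_lit 328) (nat_lit 188)) (XT.nd (nat_lit 78) (nat_lit 0) (nat_lit 0) (XT.lf (nat_lit 0) (nat_lit 30377692275) (nat_lit 228) (nat_lit 48680744900) (nat_lit 76) (nat_lit 12571749954) (nat_lit 24) (nat_lit 5) (nat_lit 27) (nat_lit 5) (nat_lit 25) (nat_lit 4) (nat_lit 385) (nat_lit 328) (nat_lit 187)) (XT.lf (nat_lit 0) (nat_lit 49800088823) (nat_lit 228) (nat_lit 8870273035) (nat_lit 76) (nat_lit 36374347766) (nat_lit 24) (nat_lit 5) (nat_lit 27) (nat_lit 5) (nat_lit 25) (nat_lit 4) (nat_lit 386) (nat_lit 328) (nat_lit 186))))) (XT.nd (nat_lit 234) (nat_lit 76) (nat_lit 0) (XT.nd (nat_lit 78) (nat_lit 152) (nat_lit 0) (XT.lf (nat_lit 0) (nat_lit 34015403748) (nat_lit 76) (nat_lit 36707055194) (nat_lit 152) (nat_lit 27881057318) (nat_lit 23) (nat_lit 5) (nat_lit 24) (nat_lit 5) (nat_lit 25) (nat_lit 4) (nat_lit 387) (nat_lit 328) (nat_lit 185)) (XT.nd (nat_lit 78) (nat_lit 152) (nat_lit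 0) (XT.lf (nat_lit 0) (nat_lit 79349361099) (nat_lit 76) (nat_lit 13489630795) (nat_lit 152) (nat_lit 9493869786) (nat_lit 23) (nat_lit 5) (nat_lit 24) (nat_lit 5) (nat_lit 25) (nat_lit 4) (nat_lit 388) (nat_lit 328) (nat_lit 184)) (XT.lf (nat_lit 0) (nat_lit 10005780055) (nat_lit 152) (nat_lit 85178886580) (nat_lit 76) (nat_lit 11030989681) (nat_lit 21) (nat_lit 5) (nat_lit 23) (nat_lit 5) (nat_lit 22) (nat_lit 4) (nat_lit 389) (nat_lit 328) (nat_lit 183)))) (XT.nd (nat_lit 78) (nat_lit 76) (nat_lit 0) (XT.lf (nat_lit 0) (nat_lit 30776020990) (nat_lit 152) (nat_lit 42604155874) (nat_lit 76) (nat_lit 36873899292) (nat_lit 21) (nat_lit 5) (nat_lit 23) (nat_lit 5) (nat_lit 22) (nat_lit 4) (nat_lit 390) (nat_lit 328) (nat_lit 182)) (XT.nd (nat_lit 78) (nat_lit 0) (nat_lit 0) (XT.lf (nat_lit 0) (nat_lit 2164930064) (nat_lit 76) (nat_lit 50451650019) (nat_lit 152) (nat_lit 61876247150) (nat_lit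 20) (nat_lit 5) (nat_lit 21) (nat_lit 5) (nat_lit 22) (nat_lit 4) (nat_lit 391) (nat_lit 328) (nat_lit 181)) (XT.lf (nat_lit 0) (nat_lit 50647977042) (nat_lit 76) (nat_lit 25620756133) (nat_lit 152) (nat_lit 42638804912) (nat_lit 20) (nat_lit 5) (nat_lit 21) (nat_lit 5) (nat_lit 22) (nat_lit 4) (nat_lit 392) (nat_lit 328) (nat_lit 180))))))))
noncomputable def xc173 : XT := (XT.nd (nat_lit 1794) (nat_lit 380) (nat_lit 0) (XT.nd (nat_lit 858) (nat_lit 304) (nat_lit 0) (XT.nd (nat_lit 390) (nat_lit 228) (nat_lit 0) (XT.nd (nat_lit 156) (nat_lit 152) (nat_lit 0) (XT.nd (nat_lit 78) (nat_lit 76) (nat_lit 0) (XT.lf (nat_lit 0) (nat_lit 101108658494) (nat_lit 152) (nat_lit 21998370424) (nat_lit 0) (nat_lit 435697836) (nat_lit 20) (nat_lit 5) (nat_lit 22) (nat_lit 4) (nat_lit 20) (nat_lit 4) (nat_lit 393) (nat_lit 328) (nat_lit 179)) (XT.lf (nat_lit 0) (nat_lit 27017244767) (nat_lit 76) (nat_lit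 101013365036) (nat_lit 76) (nat_lit 337064040) (nat_lit 19) (nat_lit 4) (nat_lit 20) (nat_lit 5) (nat_lit 20) (nat_lit 4) (nat_lit 394) (nat_lit 328) (nat_lit 178))) (XT.nd (nat_lit 78) (nat_lit 76) (nat_lit 0) (XT.lf (nat_lit 0) (nat_lit 22509842103) (nat_lit 152) (nat_lit 54534305960) (nat_lit 76) (nat_lit 56353028093) (nat_lit 18) (nat_lit 5) (nat_lit 20) (nat_lit 5) (nat_lit 19) (nat_lit 4) (nat_lit 395) (nat_lit 328) (nat_lit 177)) (XT.nd (nat_lit 78) (nat_lit 76) (nat_lit 0) (XT.lf (nat_lit 0) (nat_lit 46486058680) (nat_lit 152) (nat_lit 5386091762) (nat_lit 76) (nat_lit 86805812636) (nat_lit 18) (nat_lit 5) (nat_lit 20) (nat_lit 5) (nat_lit 19) (nat_lit 4) (nat_lit 396) (nat_lit 328) (nat_lit 176)) (XT.lf (nat_lit 0) (nat_lit 47744621650) (nat_lit 76) (nat_lit 24660265773) (nat_lit 152) (nat_lit 71780712248) (nat_lit 17) (nat_lit 5) (nat_lit 18) (nat_lit 5) (nat_lit 19) (nat_lit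 4) (nat_lit 397) (nat_lit 328) (nat_lit 175))))) (XT.nd (nat_lit 234) (nat_lit 152) (nat_lit 0) (XT.nd (nat_lit 78) (nat_lit 76) (nat_lit 0) (XT.lf (nat_lit 0) (nat_lit 99771832634) (nat_lit 152) (nat_lit 46310816515) (nat_lit 0) (nat_lit 3878360565) (nat_lit 17) (nat_lit 5) (nat_lit 19) (nat_lit 4) (nat_lit 17) (nat_lit 4) (nat_lit 398) (nat_lit 328) (nat_lit 174)) (XT.nd (nat_lit 78) (nat_lit 0) (nat_lit 0) (XT.lf (nat_lit 0) (nat_lit 6114383001) (nat_lit 76) (nat_lit 122890931414) (nat_lit 76) (nat_lit 26994966733) (nat_lit 16) (nat_lit 4) (nat_lit 17) (nat_lit 5) (nat_lit 17) (nat_lit 4) (nat_lit 399) (nat_lit 328) (nat_lit 173)) (XT.lf (nat_lit 0) (nat_lit 62765794422) (nat_lit 76) (nat_lit 97717460713) (nat_lit 76) (nat_lit 1819122116) (nat_lit 16) (nat_lit 4) (nat_lit 17) (nat_lit 5) (nat_lit 17) (nat_lit 4) (nat_lit 400) (nat_lit 328) (nat_lit 172)))) (XT.nd (nat_lit 78) (nat_lit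 76) (nat_lit 0) (XT.lf (nat_lit 0) (nat_lit 23826201353) (nat_lit 152) (nat_lit 47056886695) (nat_lit 76) (nat_lit 98017347718) (nat_lit 15) (nat_lit 5) (nat_lit 17) (nat_lit 5) (nat_lit 16) (nat_lit 4) (nat_lit 401) (nat_lit 328) (nat_lit 171)) (XT.nd (nat_lit 78) (nat_lit 0) (nat_lit 0) (XT.lf (nat_lit 0) (nat_lit 8279326751) (nat_lit 76) (nat_lit 42541199801) (nat_lit 152) (nat_lit 124999986363) (nat_lit 14) (nat_lit 5) (nat_lit 15) (nat_lit 5) (nat_lit 16) (nat_lit 4) (nat_lit 402) (nat_lit 328) (nat_lit 170)) (XT.lf (nat_lit 0) (nat_lit 68013466254) (nat_lit 76) (nat_lit 11946665264) (nat_lit 152) (nat_lit 103086684506) (nat_lit 14) (nat_lit 5) (nat_lit 15) (nat_lit 5) (nat_lit 16) (nat_lit 4) (nat_lit 403) (nat_lit 328) (nat_lit 169)))))) (XT.nd (nat_lit 468) (nat_lit 76) (nat_lit 0) (XT.nd (nat_lit 234) (nat_lit 152) (nat_lit 0) (XT.nd (nat_lit 78) (nat_lit 76) (nat_lit 0) (XT.lf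 (nat_lit 0) (nat_lit 110870424814) (nat_lit 152) (nat_lit 60217667509) (nat_lit 0) (nat_lit 19530656827) (nat_lit 14) (nat_lit 5) (nat_lit 16) (nat_lit 4) (nat_lit 14) (nat_lit 4) (nat_lit 404) (nat_lit 328) (nat_lit 168)) (XT.nd (nat_lit 78) (nat_lit 76) (nat_lit 0) (XT.lf (nat_lit 0) (nat_lit 143520821897) (nat_lit 152) (nat_lit 2859445372) (nat_lit 0) (nat_lit 52179282457) (nat_lit 14) (nat_lit 5) (nat_lit 16) (nat_lit 4) (nat_lit 14) (nat_lit 4) (nat_lit 405) (nat_lit 328) (nat_lit 167)) (XT.lf (nat_lit 0) (nat_lit 59261131045) (nat_lit 76) (nat_lit 119466642174) (nat_lit 76) (nat_lit 28123415636) (nat_lit 13) (nat_lit 4) (nat_lit 14) (nat_lit 5) (nat_lit 14) (nat_lit 4) (nat_lit 406) (nat_lit 328) (nat_lit 166)))) (XT.nd (nat_lit 78) (nat_lit 76) (nat_lit 0) (XT.lf (nat_lit 0) (nat_lit 181280604) (nat_lit 152) (nat_lit 90973208059) (nat_lit 76) (nat_lit 124400412804) (nat_lit 12) (nat_lit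 5) (nat_lit 14) (nat_lit 5) (nat_lit 13) (nat_lit 4) (nat_lit 407) (nat_lit 328) (nat_lit 165)) (XT.nd (nat_lit 78) (nat_lit 76) (nat_lit 0) (XT.lf (nat_lit 0) (nat_lit 28954941926) (nat_lit 152) (nat_lit 31988732595) (nat_lit 76) (nat_lit 163727130344) (nat_lit 12) (nat_lit 5) (nat_lit 14) (nat_lit 5) (nat_lit 13) (nat_lit 4) (nat_lit 408) (nat_lit 328) (nat_lit 164)) (XT.lf (nat_lit 0) (nat_lit 30932940415) (nat_lit 76) (nat_lit 28716211457) (nat_lit 152) (nat_lit 174569258481) (nat_lit 11) (nat_lit 5) (nat_lit 12) (nat_lit 5) (nat_lit 13) (nat_lit 4) (nat_lit 409) (nat_lit 328) (nat_lit 163))))) (XT.nd (nat_lit 234) (nat_lit 76) (nat_lit 0) (XT.nd (nat_lit 78) (nat_lit 0) (nat_lit 0) (XT.lf (nat_lit 0) (nat_lit 92507596791) (nat_lit 152) (nat_lit 146195973072) (nat_lit 0) (nat_lit 5508350216) (nat_lit 11) (nat_lit 5) (nat_lit 13) (nat_lit 4) (nat_lit 11) (nat_lit 4) (nat_lit 410) (nat_lit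 328) (nat_lit 162)) (XT.nd (nat_lit 78) (nat_lit 0) (nat_lit 0) (XT.lf (nat_lit 0) (nat_lit 127478693161) (nat_lit 152) (nat_lit 86724738204) (nat_lit 0) (nat_lit 40478187647) (nat_lit 11) (nat_lit 5) (nat_lit 13) (nat_lit 4) (nat_lit 11) (nat_lit 4) (nat_lit 411) (nat_lit 328) (nat_lit 161)) (XT.lf (nat_lit 0) (nat_lit 164197364958) (nat_lit 152) (nat_lit 24281826618) (nat_lit 0) (nat_lit 77195660455) (nat_lit 11) (nat_lit 5) (nat_lit 13) (nat_lit 4) (nat_lit 11) (nat_lit 4) (nat_lit 412) (nat_lit 328) (nat_lit 160)))) (XT.nd (nat_lit 78) (nat_lit 0) (nat_lit 0) (XT.lf (nat_lit 0) (nat_lit 42646385966) (nat_lit 76) (nat_lit 160770481226) (nat_lit 76) (nat_lit 73767634829) (nat_lit 10) (nat_lit 4) (nat_lit 11) (nat_lit 5) (nat_lit 11) (nat_lit 4) (nat_lit 413) (nat_lit 328) (nat_lit 159)) (XT.nd (nat_lit 78) (nat_lit 0) (nat_lit 0) (XT.lf (nat_lit 0) (nat_lit 113762253065) (nat_lit 76)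 (nat_lit 131245400044) (nat_lit 76) (nat_lit 44241466128) (nat_lit 10) (nat_lit 4) (nat_lit 11) (nat_lit 5) (nat_lit 11) (nat_lit 4) (nat_lit 414) (nat_lit 328) (nat_lit 158)) (XT.lf (nat_lit 0) (nat_lit 188432231321) (nat_lit 76) (nat_lit 100244874701) (nat_lit 76) (nat_lit 13239905054) (nat_lit 10) (nat_lit 4) (nat_lit 11) (nat_lit 5) (nat_lit 11) (nat_lit 4) (nat_lit 415) (nat_lit 328) (nat_lit 157))))))) (XT.nd (nat_lit 936) (nat_lit 76) (nat_lit 0) (XT.nd (nat_lit 468) (nat_lit 152) (nat_lit 0) (XT.nd (nat_lit 234) (nat_lit 0) (nat_lit 0) (XT.nd (nat_lit 78) (nat_lit 76) (nat_lit 0) (XT.lf (nat_lit 0) (nat_lit 18692793464) (nat_lit 152) (nat_lit 48685729456) (nat_lit 76) (nat_lit 247824741432) (nat_lit 9) (nat_lit 5) (nat_lit 11) (nat_lit 5) (nat_lit 10) (nat_lit 4) (nat_lit 416) (nat_lit 328) (nat_lit 156)) (XT.nd (nat_lit 78) (nat_lit 0) (nat_lit 0) (XT.lf (nat_lit 0) (nat_lit 19767351921)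 (nat_lit 76) (nat_lit 32317646819) (nat_lit 152) (nat_lit 277042588325) (nat_lit 8) (nat_lit 5) (nat_lit 9) (nat_lit 5) (nat_lit 10) (nat_lit 4) (nat_lit 417) (nat_lit 328) (nat_lit 155)) (XT.lf (nat_lit 0) (nat_lit 88054245387) (nat_lit 152) (nat_lit 250458825801) (nat_lit 0) (nat_lit 5189683291) (nat_lit 8) (nat_lit 5) (nat_lit 10) (nat_lit 4) (nat_lit 8) (nat_lit 4) (nat_lit 418) (nat_lit 328) (nat_lit 154)))) (XT.nd (nat_lit 78) (nat_lit 0) (nat_lit 0) (XT.lf (nat_lit 0) (nat_lit 126350988651) (nat_lit 152) (nat_lit 189143624984) (nat_lit 0) (nat_lit 43485615031) (nat_lit 8) (nat_lit 5) (nat_lit 10) (nat_lit 4) (nat_lit 8) (nat_lit 4) (nat_lit 419) (nat_lit 328) (nat_lit 153)) (XT.nd (nat_lit 78) (nat_lit 0) (nat_lit 0) (XT.lf (nat_lit 0) (nat_lit 166561842215) (nat_lit 152) (nat_lit 124764075083) (nat_lit 0) (nat_lit 83695695717) (nat_lit 8) (nat_lit 5) (nat_lit 10) (nat_lit 4) (nat_lit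 8) (nat_lit 4) (nat_lit 420) (nat_lit 328) (nat_lit 152)) (XT.lf (nat_lit 0) (nat_lit 208782546209) (nat_lit 152) (nat_lit 57166891455) (nat_lit 0) (nat_lit 125915663635) (nat_lit 8) (nat_lit 5) (nat_lit 10) (nat_lit 4) (nat_lit 8) (nat_lit 4) (nat_lit 421) (nat_lit 328) (nat_lit 151))))) (XT.nd (nat_lit 234) (nat_lit 76) (nat_lit 0) (XT.nd (nat_lit 78) (nat_lit 0) (nat_lit 0) (XT.lf (nat_lit 0) (nat_lit 14265455231) (nat_lit 76) (nat_lit 239070894620) (nat_lit 76) (nat_lit 156203311022) (nat_lit 7) (nat_lit 4) (nat_lit 8) (nat_lit 5) (nat_lit 8) (nat_lit 4) (nat_lit 422) (nat_lit 328) (nat_lit 150)) (XT.nd (nat_lit 78) (nat_lit 0) (nat_lit 0) (XT.lf (nat_lit 0) (nat_lit 91252865499) (nat_lit 76) (nat_lit 209832479596) (nat_lit 76) (nat_lit 126964228356) (nat_lit 7) (nat_lit 4) (nat_lit 8) (nat_lit 5) (nat_lit 8) (nat_lit 4) (nat_lit 423) (nat_lit 328) (nat_lit 149)) (XT.lf (nat_lit 0)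 (nat_lit 172088447102) (nat_lit 76) (nat_lit 179132726286) (nat_lit 76) (nat_lit 96263839197) (nat_lit 7) (nat_lit 4) (nat_lit 8) (nat_lit 5) (nat_lit 8) (nat_lit 4) (nat_lit 424) (nat_lit 328) (nat_lit 148)))) (XT.nd (nat_lit 78) (nat_lit 76) (nat_lit 0) (XT.lf (nat_lit 0) (nat_lit 256964665711) (nat_lit 76) (nat_lit 146898540039) (nat_lit 76) (nat_lit 64029047379) (nat_lit 7) (nat_lit 4) (nat_lit 8) (nat_lit 5) (nat_lit 8) (nat_lit 4) (nat_lit 425) (nat_lit 328) (nat_lit 147)) (XT.nd (nat_lit 78) (nat_lit 76) (nat_lit 0) (XT.lf (nat_lit 0) (nat_lit 346083607559) (nat_lit 76) (nat_lit 113053172793) (nat_lit 76) (nat_lit 30183103398) (nat_lit 7) (nat_lit 4) (nat_lit 8) (nat_lit 5) (nat_lit 8) (nat_lit 4) (nat_lit 426) (nat_lit 328) (nat_lit 146)) (XT.lf (nat_lit 0) (nat_lit 5183198378) (nat_lit 152) (nat_lit 72245061989) (nat_lit 76) (nat_lit 434386482252) (nat_lit 6) (nat_lit 5) (nat_lit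 8) (nat_lit 5) (nat_lit 7) (nat_lit 4) (nat_lit 427) (nat_lit 328) (nat_lit 145)))))) (XT.nd (nat_lit 39312) (nat_lit 0) (nat_lit 7372) (XT.nd (nat_lit 234) (nat_lit 0) (nat_lit 0) (XT.nd (nat_lit 78) (nat_lit 0) (nat_lit 0) (XT.lf (nat_lit 0) (nat_lit 1859417222) (nat_lit 76) (nat_lit 39472562778) (nat_lit 152) (nat_lit 494076198506) (nat_lit 5) (nat_lit 5) (nat_lit 6) (nat_lit 5) (nat_lit 7) (nat_lit 4) (nat_lit 428) (nat_lit 328) (nat_lit 144)) (XT.nd (nat_lit 78) (nat_lit 0) (nat_lit 0) (XT.lf (nat_lit 0) (nat_lit 80537196344) (nat_lit 152) (nat_lit 477969815200) (nat_lit 0) (nat_lit 1611824929) (nat_lit 5) (nat_lit 5) (nat_lit 7) (nat_lit 4) (nat_lit 5) (nat_lit 4) (nat_lit 429) (nat_lit 328) (nat_lit 143)) (XT.lf (nat_lit 0) (nat_lit 122349275052) (nat_lit 152) (nat_lit 420259970522) (nat_lit 0) (nat_lit 43423451752) (nat_lit 5) (nat_lit 5) (nat_lit 7) (nat_lit 4) (nat_lit 5) (nat_lit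 4) (nat_lit 430) (nat_lit 328) (nat_lit 142)))) (XT.nd (nat_lit 38922) (nat_lit 0) (nat_lit 8056) (XT.lf (nat_lit 0) (nat_lit 166251491368) (nat_lit 152) (nat_lit 359665545532) (nat_lit 0) (nat_lit 87325237699) (nat_lit 5) (nat_lit 5) (nat_lit 7) (nat_lit 4) (nat_lit 5) (nat_lit 4) (nat_lit 431) (nat_lit 328) (nat_lit 141)) (XT.nd (nat_lit 78) (nat_lit 0) (nat_lit 0) (XT.lf (nat_lit 0) (nat_lit 3906151438) (nat_lit 0) (nat_lit 3906151438) (nat_lit 684) (nat_lit 653355255) (nat_lit 111) (nat_lit 5) (nat_lit 111) (nat_lit 3) (nat_lit 120) (nat_lit 3) (nat_lit 329) (nat_lit 329) (nat_lit 242)) (XT.lf (nat_lit 0) (nat_lit 16236256480) (nat_lit 684) (nat_lit 1102615819) (nat_lit 760) (nat_lit 4425892) (nat_lit 111) (nat_lit 5) (nat_lit 120) (nat_lit 3) (nat_lit 121) (nat_lit 5) (nat_lit 330) (nat_lit 329) (nat_lit 241))))) (XT.nd (nat_lit 234) (nat_lit 0) (nat_lit 0) (XT.nd (nat_lit 78) (nat_lit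 684) (nat_lit 0) (XT.lf (nat_lit 76) (nat_lit 7415983031) (nat_lit 0) (nat_lit 9692327478) (nat_lit 760) (nat_lit 656093620) (nat_lit 112) (nat_lit 5) (nat_lit 111) (nat_lit 5) (nat_lit 121) (nat_lit 5) (nat_lit 331) (nat_lit 329) (nat_lit 240)) (XT.nd (nat_lit 78) (nat_lit 684) (nat_lit 0) (XT.lf (nat_lit 76) (nat_lit 16391013842) (nat_lit 0) (nat_lit 1638139526) (nat_lit 760) (nat_lit 177167882) (nat_lit 112) (nat_lit 5) (nat_lit 111) (nat_lit 5) (nat_lit 121) (nat_lit 5) (nat_lit 332) (nat_lit 329) (nat_lit 239)) (XT.lf (nat_lit 0) (nat_lit 525744966) (nat_lit 760) (nat_lit 11406183029) (nat_lit 836) (nat_lit 6727642484) (nat_lit 102) (nat_lit 5) (nat_lit 112) (nat_lit 5) (nat_lit 113) (nat_lit 5) (nat_lit 333) (nat_lit 329) (nat_lit 238)))) (XT.nd (nat_lit 78) (nat_lit 0) (nat_lit 76) (XT.lf (nat_lit 0) (nat_lit 1303459054) (nat_lit 760) (nat_lit 2334111962) (nat_lit 836) (nat_lit 15495498579)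 (nat_lit 102) (nat_lit 5) (nat_lit 112) (nat_lit 5) (nat_lit 113) (nat_lit 5) (nat_lit 334) (nat_lit 329) (nat_lit 237)) (XT.nd (nat_lit 78) (nat_lit 0) (nat_lit 0) (XT.lf (nat_lit 0) (nat_lit 2305164682) (nat_lit 760) (nat_lit 12285157704) (nat_lit 836) (nat_lit 5030678487) (nat_lit 103) (nat_lit 5) (nat_lit 113) (nat_lit 5) (nat_lit 114) (nat_lit 5) (nat_lit 335) (nat_lit 329) (nat_lit 236)) (XT.lf (nat_lit 0) (nat_lit 3445366172) (nat_lit 760) (nat_lit 2629853781) (nat_lit 836) (nat_lit 14053700136) (nat_lit 103) (nat_lit 5) (nat_lit 113) (nat_lit 5) (nat_lit 114) (nat_lit 5) (nat_lit 336) (nat_lit 329) (nat_lit 235))))))))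
noncomputable def xc174 : XT := (XT.nd (nat_lit 1794) (nat_lit 2280) (nat_lit 0) (XT.nd (nat_lit 858) (nat_lit 1748) (nat_lit 0) (XT.nd (nat_lit 390) (nat_lit 1140) (nat_lit 0) (XT.nd (nat_lit 156) (nat_lit 684) (nat_lit 0) (XT.nd (nat_lit 78) (nat_lit 0) (nat_lit 0) (XT.lf (nat_lit 0) (nat_lit 4799456415) (nat_lit 760) (nat_lit 12955450600) (nat_lit 836) (nat_lit 2899495654) (nat_lit 104) (nat_lit 5) (nat_lit 114) (nat_lit 5) (nat_lit 115) (nat_lit 5) (nat_lit 337) (nat_lit 329) (nat_lit 234)) (XT.lf (nat_lit 0) (nat_lit 6355686769) (nat_lit 760) (nat_lit 2677341591) (nat_lit 836) (nat_lit 12166420034) (nat_lit 104) (nat_lit 5) (nat_lit 114) (nat_lit 5) (nat_lit 115) (nat_lit 5) (nat_lit 338) (nat_lit 329) (nat_lit 233))) (XT.nd (nat_lit 78) (nat_lit 760) (nat_lit 0) (XT.lf (nat_lit 0) (nat_lit 8114670442) (nat_lit 760) (nat_lit 13395304131) (nat_lit 76) (nat_lit 255535026) (nat_lit 105)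 (nat_lit 5) (nat_lit 115) (nat_lit 5) (nat_lit 106) (nat_lit 5) (nat_lit 339) (nat_lit 329) (nat_lit 232)) (XT.nd (nat_lit 78) (nat_lit 760) (nat_lit 0) (XT.lf (nat_lit 0) (nat_lit 10146212688) (nat_lit 760) (nat_lit 2451909542) (nat_lit 76) (nat_lit 9752530957) (nat_lit 105) (nat_lit 5) (nat_lit 115) (nat_lit 5) (nat_lit 106) (nat_lit 5) (nat_lit 340) (nat_lit 329) (nat_lit 231)) (XT.lf (nat_lit 0) (nat_lit 9329093384) (nat_lit 760) (nat_lit 3086788687) (nat_lit 836) (nat_lit 10542353710) (nat_lit 95) (nat_lit 5) (nat_lit 105) (nat_lit 5) (nat_lit 106) (nat_lit 5) (nat_lit 341) (nat_lit 329) (nat_lit 230))))) (XT.nd (nat_lit 234) (nat_lit 760) (nat_lit 0) (XT.nd (nat_lit 78) (nat_lit 380) (nat_lit 0) (XT.lf (nat_lit 0) (nat_lit 14940187135) (nat_lit 836) (nat_lit 1926740797) (nat_lit 76) (nat_lit 6722220844) (nat_lit 95) (nat_lit 5) (nat_lit 106) (nat_lit 5) (nat_lit 96) (nat_lit 5) (nat_lit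 342) (nat_lit 329) (nat_lit 229)) (XT.nd (nat_lit 78) (nat_lit 0) (nat_lit 0) (XT.lf (nat_lit 0) (nat_lit 10642735679) (nat_lit 380) (nat_lit 7156373159) (nat_lit 456) (nat_lit 6442086973) (nat_lit 90) (nat_lit 5) (nat_lit 95) (nat_lit 5) (nat_lit 96) (nat_lit 5) (nat_lit 343) (nat_lit 329) (nat_lit 228)) (XT.lf (nat_lit 0) (nat_lit 20873512099) (nat_lit 456) (nat_lit 1072989608) (nat_lit 76) (nat_lit 2975724774) (nat_lit 90) (nat_lit 5) (nat_lit 96) (nat_lit 5) (nat_lit 91) (nat_lit 5) (nat_lit 344) (nat_lit 329) (nat_lit 227)))) (XT.nd (nat_lit 78) (nat_lit 456) (nat_lit 0) (XT.lf (nat_lit 0) (nat_lit 12348710131) (nat_lit 304) (nat_lit 12055337983) (nat_lit 380) (nat_lit 1218147613) (nat_lit 86) (nat_lit 5) (nat_lit 90) (nat_lit 5) (nat_lit 91) (nat_lit 5) (nat_lit 345) (nat_lit 329) (nat_lit 226)) (XT.nd (nat_lit 78) (nat_lit 0) (nat_lit 0) (XT.lf (nat_lit 0) (nat_lit 89585150) (nat_lit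 380) (nat_lit 1620505418) (nat_lit 456) (nat_lit 24645096610) (nat_lit 80) (nat_lit 5) (nat_lit 85) (nat_lit 5) (nat_lit 86) (nat_lit 5) (nat_lit 346) (nat_lit 329) (nat_lit 225)) (XT.lf (nat_lit 0) (nat_lit 5110682809) (nat_lit 456) (nat_lit 12709696731) (nat_lit 76) (nat_lit 9285112811) (nat_lit 80) (nat_lit 5) (nat_lit 86) (nat_lit 5) (nat_lit 81) (nat_lit 5) (nat_lit 347) (nat_lit 329) (nat_lit 224)))))) (XT.nd (nat_lit 468) (nat_lit 836) (nat_lit 0) (XT.nd (nat_lit 234) (nat_lit 304) (nat_lit 0) (XT.nd (nat_lit 78) (nat_lit 304) (nat_lit 0) (XT.lf (nat_lit 0) (nat_lit 1538758430) (nat_lit 304) (nat_lit 7186126388) (nat_lit 380) (nat_lit 19166255273) (nat_lit 76) (nat_lit 5) (nat_lit 80) (nat_lit 5) (nat_lit 81) (nat_lit 5) (nat_lit 348) (nat_lit 329) (nat_lit 223)) (XT.nd (nat_lit 78) (nat_lit 304) (nat_lit 0) (XT.lf (nat_lit 0) (nat_lit 12793893324) (nat_lit 380) (nat_lit 11838216653)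 (nat_lit 76) (nat_lit 4070261429) (nat_lit 76) (nat_lit 5) (nat_lit 81) (nat_lit 5) (nat_lit 77) (nat_lit 5) (nat_lit 349) (nat_lit 329) (nat_lit 222)) (XT.lf (nat_lit 0) (nat_lit 3384429414) (nat_lit 304) (nat_lit 13846079556) (nat_lit 380) (nat_lit 12315453209) (nat_lit 72) (nat_lit 5) (nat_lit 76) (nat_lit 5) (nat_lit 77) (nat_lit 5) (nat_lit 350) (nat_lit 329) (nat_lit 221)))) (XT.nd (nat_lit 78) (nat_lit 304) (nat_lit 0) (XT.lf (nat_lit 0) (nat_lit 19771584137) (nat_lit 304) (nat_lit 2311558162) (nat_lit 380) (nat_lit 8338886299) (nat_lit 72) (nat_lit 5) (nat_lit 76) (nat_lit 5) (nat_lit 77) (nat_lit 5) (nat_lit 351) (nat_lit 329) (nat_lit 220)) (XT.nd (nat_lit 78) (nat_lit 76) (nat_lit 0) (XT.lf (nat_lit 0) (nat_lit 5656705069) (nat_lit 228) (nat_lit 21757001146) (nat_lit 304) (nat_lit 3916432372) (nat_lit 69) (nat_lit 5) (nat_lit 72) (nat_lit 5) (nat_lit 73) (nat_lit 5) (nat_lit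 352) (nat_lit 329) (nat_lit 219)) (XT.lf (nat_lit 0) (nat_lit 919144189) (nat_lit 304) (nat_lit 9185490348) (nat_lit 76) (nat_lit 22167692955) (nat_lit 68) (nat_lit 5) (nat_lit 72) (nat_lit 5) (nat_lit 69) (nat_lit 5) (nat_lit 353) (nat_lit 329) (nat_lit 218))))) (XT.nd (nat_lit 234) (nat_lit 304) (nat_lit 0) (XT.nd (nat_lit 78) (nat_lit 228) (nat_lit 0) (XT.lf (nat_lit 0) (nat_lit 6025560314) (nat_lit 380) (nat_lit 24966891035) (nat_lit 76) (nat_lit 2257934862) (nat_lit 64) (nat_lit 5) (nat_lit 69) (nat_lit 5) (nat_lit 65) (nat_lit 5) (nat_lit 354) (nat_lit 329) (nat_lit 217)) (XT.nd (nat_lit 78) (nat_lit 228) (nat_lit 0) (XT.lf (nat_lit 0) (nat_lit 11705525278) (nat_lit 380) (nat_lit 7500336551) (nat_lit 76) (nat_lit 15055578909) (nat_lit 64) (nat_lit 5) (nat_lit 69) (nat_lit 5) (nat_lit 65) (nat_lit 5) (nat_lit 355) (nat_lit 329) (nat_lit 216)) (XT.lf (nat_lit 0) (nat_lit 11190673024)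 (nat_lit 228) (nat_lit 6648264077) (nat_lit 304) (nat_lit 17475642527) (nat_lit 61) (nat_lit 5) (nat_lit 64) (nat_lit 5) (nat_lit 65) (nat_lit 5) (nat_lit 356) (nat_lit 329) (nat_lit 215)))) (XT.nd (nat_lit 78) (nat_lit 304) (nat_lit 0) (XT.lf (nat_lit 0) (nat_lit 24505033282) (nat_lit 304) (nat_lit 5448705570) (nat_lit 76) (nat_lit 6455339800) (nat_lit 61) (nat_lit 5) (nat_lit 65) (nat_lit 5) (nat_lit 62) (nat_lit 5) (nat_lit 357) (nat_lit 329) (nat_lit 214)) (XT.nd (nat_lit 78) (nat_lit 76) (nat_lit 0) (XT.lf (nat_lit 0) (nat_lit 14508818992) (nat_lit 228) (nat_lit 17326217385) (nat_lit 304) (nat_lit 5706739835) (nat_lit 58) (nat_lit 5) (nat_lit 61) (nat_lit 5) (nat_lit 62) (nat_lit 5) (nat_lit 358) (nat_lit 329) (nat_lit 213)) (XT.lf (nat_lit 0) (nat_lit 863739445) (nat_lit 304) (nat_lit 3093993476) (nat_lit 76) (nat_lit 34768307864) (nat_lit 57) (nat_lit 5) (nat_lit 61) (nat_lit 5)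 (nat_lit 58) (nat_lit 5) (nat_lit 359) (nat_lit 329) (nat_lit 212))))))) (XT.nd (nat_lit 936) (nat_lit 836) (nat_lit 0) (XT.nd (nat_lit 468) (nat_lit 532) (nat_lit 0) (XT.nd (nat_lit 234) (nat_lit 456) (nat_lit 0) (XT.nd (nat_lit 78) (nat_lit 228) (nat_lit 0) (XT.lf (nat_lit 0) (nat_lit 8016045757) (nat_lit 304) (nat_lit 21785884883) (nat_lit 76) (nat_lit 10140659134) (nat_lit 54) (nat_lit 5) (nat_lit 58) (nat_lit 5) (nat_lit 55) (nat_lit 5) (nat_lit 360) (nat_lit 329) (nat_lit 211)) (XT.nd (nat_lit 78) (nat_lit 228) (nat_lit 0) (XT.lf (nat_lit 0) (nat_lit 15639564850) (nat_lit 304) (nat_lit 712372375) (nat_lit 76) (nat_lit 24862352150) (nat_lit 54) (nat_lit 5) (nat_lit 58) (nat_lit 5) (nat_lit 55) (nat_lit 5) (nat_lit 361) (nat_lit 329) (nat_lit 210)) (XT.lf (nat_lit 0) (nat_lit 22116352522) (nat_lit 228) (nat_lit 1868881174) (nat_lit 304) (nat_lit 18547294461) (nat_lit 51) (nat_lit 5)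 (nat_lit 54) (nat_lit 5) (nat_lit 55) (nat_lit 5) (nat_lit 362) (nat_lit 329) (nat_lit 209)))) (XT.nd (nat_lit 78) (nat_lit 304) (nat_lit 0) (XT.lf (nat_lit 0) (nat_lit 2045796960) (nat_lit 152) (nat_lit 30950593466) (nat_lit 228) (nat_lit 10907880985) (nat_lit 49) (nat_lit 5) (nat_lit 51) (nat_lit 5) (nat_lit 52) (nat_lit 5) (nat_lit 363) (nat_lit 329) (nat_lit 208)) (XT.nd (nat_lit 78) (nat_lit 304) (nat_lit 0) (XT.lf (nat_lit 0) (nat_lit 26301719772) (nat_lit 152) (nat_lit 16528143128) (nat_lit 228) (nat_lit 2496153656) (nat_lit 49) (nat_lit 5) (nat_lit 51) (nat_lit 5) (nat_lit 52) (nat_lit 5) (nat_lit 364) (nat_lit 329) (nat_lit 207)) (XT.lf (nat_lit 0) (nat_lit 5006776136) (nat_lit 228) (nat_lit 1200744054) (nat_lit 304) (nat_lit 40602677044) (nat_lit 45) (nat_lit 5) (nat_lit 48) (nat_lit 5) (nat_lit 49) (nat_lit 5) (nat_lit 365) (nat_lit 329) (nat_lit 206))))) (XT.nd (nat_lit 234)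 (nat_lit 380) (nat_lit 0) (XT.nd (nat_lit 78) (nat_lit 152) (nat_lit 0) (XT.lf (nat_lit 0) (nat_lit 15818530606) (nat_lit 304) (nat_lit 17737520969) (nat_lit 76) (nat_lit 14782689609) (nat_lit 45) (nat_lit 5) (nat_lit 49) (nat_lit 5) (nat_lit 46) (nat_lit 5) (nat_lit 366) (nat_lit 329) (nat_lit 205)) (XT.nd (nat_lit 78) (nat_lit 0) (nat_lit 0) (XT.lf (nat_lit 0) (nat_lit 7754267693) (nat_lit 152) (nat_lit 18292812833) (nat_lit 228) (nat_lit 23889784513) (nat_lit 43) (nat_lit 5) (nat_lit 45) (nat_lit 5) (nat_lit 46) (nat_lit 5) (nat_lit 367) (nat_lit 329) (nat_lit 204)) (XT.lf (nat_lit 0) (nat_lit 35130640604) (nat_lit 152) (nat_lit 1953138011) (nat_lit 228) (nat_lit 14516282495) (nat_lit 43) (nat_lit 5) (nat_lit 45) (nat_lit 5) (nat_lit 46) (nat_lit 5) (nat_lit 368) (nat_lit 329) (nat_lit 203)))) (XT.nd (nat_lit 78) (nat_lit 228) (nat_lit 0) (XT.lf (nat_lit 0) (nat_lit 10626479155) (nat_lit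 152) (nat_lit 38445581398) (nat_lit 228) (nat_lit 4254370941) (nat_lit 41) (nat_lit 5) (nat_lit 43) (nat_lit 5) (nat_lit 44) (nat_lit 5) (nat_lit 369) (nat_lit 329) (nat_lit 202)) (XT.nd (nat_lit 78) (nat_lit 152) (nat_lit 0) (XT.lf (nat_lit 0) (nat_lit 6623936539) (nat_lit 228) (nat_lit 15620322385) (nat_lit 76) (nat_lit 32874172907) (nat_lit 40) (nat_lit 5) (nat_lit 43) (nat_lit 5) (nat_lit 41) (nat_lit 5) (nat_lit 370) (nat_lit 329) (nat_lit 201)) (XT.lf (nat_lit 0) (nat_lit 13159290195) (nat_lit 152) (nat_lit 4946007594) (nat_lit 228) (nat_lit 38881143239) (nat_lit 38) (nat_lit 5) (nat_lit 40) (nat_lit 5) (nat_lit 41) (nat_lit 5) (nat_lit 371) (nat_lit 329) (nat_lit 200)))))) (XT.nd (nat_lit 468) (nat_lit 380) (nat_lit 0) (XT.nd (nat_lit 234) (nat_lit 304) (nat_lit 0) (XT.nd (nat_lit 78) (nat_lit 152) (nat_lit 0) (XT.lf (nat_lit 0) (nat_lit 30632661186) (nat_lit 228) (nat_lit 15230610838)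 (nat_lit 76) (nat_lit 13060983567) (nat_lit 38) (nat_lit 5) (nat_lit 41) (nat_lit 5) (nat_lit 39) (nat_lit 5) (nat_lit 372) (nat_lit 329) (nat_lit 199)) (XT.nd (nat_lit 78) (nat_lit 0) (nat_lit 0) (XT.lf (nat_lit 0) (nat_lit 15195816785) (nat_lit 152) (nat_lit 28905767182) (nat_lit 228) (nat_lit 16841618890) (nat_lit 36) (nat_lit 5) (nat_lit 38) (nat_lit 5) (nat_lit 39) (nat_lit 5) (nat_lit 373) (nat_lit 329) (nat_lit 198)) (XT.lf (nat_lit 0) (nat_lit 47667204058) (nat_lit 152) (nat_lit 10831615803) (nat_lit 228) (nat_lit 4551535735) (nat_lit 36) (nat_lit 5) (nat_lit 38) (nat_lit 5) (nat_lit 39) (nat_lit 5) (nat_lit 374) (nat_lit 329) (nat_lit 197)))) (XT.nd (nat_lit 78) (nat_lit 152) (nat_lit 0) (XT.lf (nat_lit 0) (nat_lit 8480280576) (nat_lit 152) (nat_lit 48471962532) (nat_lit 76) (nat_lit 8284374522) (nat_lit 34) (nat_lit 5) (nat_lit 36) (nat_lit 5) (nat_lit 35) (nat_lit 5) (nat_lit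 375) (nat_lit 329) (nat_lit 196)) (XT.nd (nat_lit 78) (nat_lit 152) (nat_lit 0) (XT.lf (nat_lit 0) (nat_lit 22450145576) (nat_lit 152) (nat_lit 16726724333) (nat_lit 76) (nat_lit 28329622384) (nat_lit 34) (nat_lit 5) (nat_lit 36) (nat_lit 5) (nat_lit 35) (nat_lit 5) (nat_lit 376) (nat_lit 329) (nat_lit 195)) (XT.lf (nat_lit 0) (nat_lit 17149894425) (nat_lit 152) (nat_lit 20233567214) (nat_lit 228) (nat_lit 32493152363) (nat_lit 32) (nat_lit 5) (nat_lit 34) (nat_lit 5) (nat_lit 35) (nat_lit 5) (nat_lit 377) (nat_lit 329) (nat_lit 194))))) (XT.nd (nat_lit 234) (nat_lit 228) (nat_lit 0) (XT.nd (nat_lit 78) (nat_lit 152) (nat_lit 0) (XT.lf (nat_lit 0) (nat_lit 53296350326) (nat_lit 152) (nat_lit 47628084) (nat_lit 228) (nat_lit 19007237784) (nat_lit 32) (nat_lit 5) (nat_lit 34) (nat_lit 5) (nat_lit 35) (nat_lit 5) (nat_lit 378) (nat_lit 329) (nat_lit 193)) (XT.nd (nat_lit 78) (nat_lit 76) (nat_lit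 0) (XT.lf (nat_lit 0) (nat_lit 16493723214) (nat_lit 76) (nat_lit 54193845442) (nat_lit 152) (nat_lit 4232728549) (nat_lit 31) (nat_lit 5) (nat_lit 32) (nat_lit 5) (nat_lit 33) (nat_lit 4) (nat_lit 379) (nat_lit 329) (nat_lit 192)) (XT.lf (nat_lit 0) (nat_lit 11245606708) (nat_lit 152) (nat_lit 23307204670) (nat_lit 76) (nat_lit 43039908501) (nat_lit 30) (nat_lit 5) (nat_lit 32) (nat_lit 5) (nat_lit 31) (nat_lit 5) (nat_lit 380) (nat_lit 329) (nat_lit 191)))) (XT.nd (nat_lit 78) (nat_lit 76) (nat_lit 0) (XT.lf (nat_lit 0) (nat_lit 13940547842) (nat_lit 152) (nat_lit 13630212401) (nat_lit 228) (nat_lit 52813777488) (nat_lit 28) (nat_lit 5) (nat_lit 30) (nat_lit 5) (nat_lit 31) (nat_lit 5) (nat_lit 381) (nat_lit 329) (nat_lit 190)) (XT.nd (nat_lit 78) (nat_lit 76) (nat_lit 0) (XT.lf (nat_lit 0) (nat_lit 45241069397) (nat_lit 228) (nat_lit 29577412033) (nat_lit 76) (nat_lit 8471021045) (nat_lit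 28) (nat_lit 5) (nat_lit 31) (nat_lit 5) (nat_lit 29) (nat_lit 4) (nat_lit 382) (nat_lit 329) (nat_lit 189)) (XT.lf (nat_lit 0) (nat_lit 9199288451) (nat_lit 76) (nat_lit 54960317137) (nat_lit 152) (nat_lit 22161875144) (nat_lit 27) (nat_lit 5) (nat_lit 28) (nat_lit 5) (nat_lit 29) (nat_lit 4) (nat_lit 383) (nat_lit 329) (nat_lit 188))))))))
noncomputable def xc175 : XT := (XT.nd (nat_lit 1872) (nat_lit 608) (nat_lit 0) (XT.nd (nat_lit 936) (nat_lit 456) (nat_lit 0) (XT.nd (nat_lit 468) (nat_lit 304) (nat_lit 0) (XT.nd (nat_lit 234) (nat_lit 76) (nat_lit 0) (XT.nd (nat_lit 78) (nat_lit 228) (nat_lit 0) (XT.lf (nat_lit 0) (nat_lit 50937557736) (nat_lit 76) (nat_lit 33585105439) (nat_lit 152) (nat_lit 4957465809) (nat_lit 27) (nat_lit 5) (nat_lit 28) (nat_lit 5) (nat_lit 29) (nat_lit 4) (nat_lit 384) (nat_lit 329) (nat_lit 187)) (XT.nd (nat_lit 78) (nat_lit 0) (nat_lit 0) (XT.lf (nat_lit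 0) (nat_lit 1815492935) (nat_lit 152) (nat_lit 10898264973) (nat_lit 228) (nat_lit 80071415250) (nat_lit 24) (nat_lit 5) (nat_lit 26) (nat_lit 5) (nat_lit 27) (nat_lit 5) (nat_lit 385) (nat_lit 329) (nat_lit 186)) (XT.lf (nat_lit 0) (nat_lit 31964918078) (nat_lit 228) (nat_lit 50991018839) (nat_lit 76) (nat_lit 13252320899) (nat_lit 24) (nat_lit 5) (nat_lit 27) (nat_lit 5) (nat_lit 25) (nat_lit 4) (nat_lit 386) (nat_lit 329) (nat_lit 185)))) (XT.nd (nat_lit 78) (nat_lit 76) (nat_lit 0) (XT.lf (nat_lit 0) (nat_lit 52355180112) (nat_lit 228) (nat_lit 9195916872) (nat_lit 76) (nat_lit 38242573200) (nat_lit 24) (nat_lit 5) (nat_lit 27) (nat_lit 5) (nat_lit 25) (nat_lit 4) (nat_lit 387) (nat_lit 329) (nat_lit 184)) (XT.nd (nat_lit 78) (nat_lit 0) (nat_lit 0) (XT.lf (nat_lit 0) (nat_lit 35832142624) (nat_lit 76) (nat_lit 38490237335) (nat_lit 152) (nat_lit 29208102611) (nat_lit 23) (nat_lit 5)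 (nat_lit 24) (nat_lit 5) (nat_lit 25) (nat_lit 4) (nat_lit 388) (nat_lit 329) (nat_lit 183)) (XT.lf (nat_lit 0) (nat_lit 83427275524) (nat_lit 76) (nat_lit 14114426032) (nat_lit 152) (nat_lit 9904746539) (nat_lit 23) (nat_lit 5) (nat_lit 24) (nat_lit 5) (nat_lit 25) (nat_lit 4) (nat_lit 389) (nat_lit 329) (nat_lit 182))))) (XT.nd (nat_lit 234) (nat_lit 76) (nat_lit 0) (XT.nd (nat_lit 78) (nat_lit 76) (nat_lit 0) (XT.lf (nat_lit 0) (nat_lit 10567412534) (nat_lit 152) (nat_lit 89324876570) (nat_lit 76) (nat_lit 11631065923) (nat_lit 21) (nat_lit 5) (nat_lit 23) (nat_lit 5) (nat_lit 22) (nat_lit 4) (nat_lit 390) (nat_lit 329) (nat_lit 181)) (XT.nd (nat_lit 78) (nat_lit 76) (nat_lit 0) (XT.lf (nat_lit 0) (nat_lit 32373244398) (nat_lit 152) (nat_lit 44626788108) (nat_lit 76) (nat_lit 38763810216) (nat_lit 21) (nat_lit 5) (nat_lit 23) (nat_lit 5) (nat_lit 22) (nat_lit 4) (nat_lit 391) (nat_lit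 329) (nat_lit 180)) (XT.lf (nat_lit 0) (nat_lit 2379017038) (nat_lit 76) (nat_lit 52925684857) (nat_lit 152) (nat_lit 64909886703) (nat_lit 20) (nat_lit 5) (nat_lit 21) (nat_lit 5) (nat_lit 22) (nat_lit 4) (nat_lit 392) (nat_lit 329) (nat_lit 179)))) (XT.nd (nat_lit 78) (nat_lit 76) (nat_lit 0) (XT.lf (nat_lit 0) (nat_lit 53281176342) (nat_lit 76) (nat_lit 26855558070) (nat_lit 152) (nat_lit 44713437725) (nat_lit 20) (nat_lit 5) (nat_lit 21) (nat_lit 5) (nat_lit 22) (nat_lit 4) (nat_lit 393) (nat_lit 329) (nat_lit 178)) (XT.nd (nat_lit 78) (nat_lit 76) (nat_lit 0) (XT.lf (nat_lit 0) (nat_lit 106216745181) (nat_lit 152) (nat_lit 23000363773) (nat_lit 0) (nat_lit 500107521) (nat_lit 20) (nat_lit 5) (nat_lit 22) (nat_lit 4) (nat_lit 20) (nat_lit 4) (nat_lit 394) (nat_lit 329) (nat_lit 177)) (XT.lf (nat_lit 0) (nat_lit 28464452740) (nat_lit 76) (nat_lit 106019338221) (nat_lit 76) (nat_lit 299670775)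 (nat_lit 19) (nat_lit 4) (nat_lit 20) (nat_lit 5) (nat_lit 20) (nat_lit 4) (nat_lit 395) (nat_lit 329) (nat_lit 176)))))) (XT.nd (nat_lit 468) (nat_lit 228) (nat_lit 0) (XT.nd (nat_lit 234) (nat_lit 76) (nat_lit 0) (XT.nd (nat_lit 78) (nat_lit 76) (nat_lit 0) (XT.lf (nat_lit 0) (nat_lit 23685343961) (nat_lit 152) (nat_lit 57167597834) (nat_lit 76) (nat_lit 59211580648) (nat_lit 18) (nat_lit 5) (nat_lit 20) (nat_lit 5) (nat_lit 19) (nat_lit 4) (nat_lit 396) (nat_lit 329) (nat_lit 175)) (XT.nd (nat_lit 78) (nat_lit 76) (nat_lit 0) (XT.lf (nat_lit 0) (nat_lit 48857989950) (nat_lit 152) (nat_lit 5566421662) (nat_lit 76) (nat_lit 91185056744) (nat_lit 18) (nat_lit 5) (nat_lit 20) (nat_lit 5) (nat_lit 19) (nat_lit 4) (nat_lit 397) (nat_lit 329) (nat_lit 174)) (XT.lf (nat_lit 0) (nat_lit 50219392345) (nat_lit 76) (nat_lit 25852466507) (nat_lit 152) (nat_lit 75320673535) (nat_lit 17) (nat_lit 5)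 (nat_lit 18) (nat_lit 5) (nat_lit 19) (nat_lit 4) (nat_lit 398) (nat_lit 329) (nat_lit 173)))) (XT.nd (nat_lit 78) (nat_lit 76) (nat_lit 0) (XT.lf (nat_lit 0) (nat_lit 104805533082) (nat_lit 152) (nat_lit 48541357644) (nat_lit 0) (nat_lit 4109903639) (nat_lit 17) (nat_lit 5) (nat_lit 19) (nat_lit 4) (nat_lit 17) (nat_lit 4) (nat_lit 399) (nat_lit 329) (nat_lit 172)) (XT.nd (nat_lit 78) (nat_lit 0) (nat_lit 0) (XT.lf (nat_lit 0) (nat_lit 6503730885) (nat_lit 76) (nat_lit 128996115707) (nat_lit 76) (nat_lit 28298225392) (nat_lit 16) (nat_lit 4) (nat_lit 17) (nat_lit 5) (nat_lit 17) (nat_lit 4) (nat_lit 400) (nat_lit 329) (nat_lit 171)) (XT.lf (nat_lit 0) (nat_lit 65983730556) (nat_lit 76) (nat_lit 102565845865) (nat_lit 76) (nat_lit 1865802338) (nat_lit 16) (nat_lit 4) (nat_lit 17) (nat_lit 5) (nat_lit 17) (nat_lit 4) (nat_lit 401) (nat_lit 329) (nat_lit 170))))) (XT.nd (nat_lit 234) (nat_lit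 76) (nat_lit 0) (XT.nd (nat_lit 78) (nat_lit 76) (nat_lit 0) (XT.lf (nat_lit 0) (nat_lit 25058329305) (nat_lit 152) (nat_lit 49332519128) (nat_lit 76) (nat_lit 102952559675) (nat_lit 15) (nat_lit 5) (nat_lit 17) (nat_lit 5) (nat_lit 16) (nat_lit 4) (nat_lit 402) (nat_lit 329) (nat_lit 169)) (XT.nd (nat_lit 78) (nat_lit 0) (nat_lit 0) (XT.lf (nat_lit 0) (nat_lit 8769259637) (nat_lit 76) (nat_lit 44632353469) (nat_lit 152) (nat_lit 131207914298) (nat_lit 14) (nat_lit 5) (nat_lit 15) (nat_lit 5) (nat_lit 16) (nat_lit 4) (nat_lit 403) (nat_lit 329) (nat_lit 168)) (XT.lf (nat_lit 0) (nat_lit 71486488660) (nat_lit 76) (nat_lit 12509802031) (nat_lit 152) (nat_lit 108200950748) (nat_lit 14) (nat_lit 5) (nat_lit 15) (nat_lit 5) (nat_lit 16) (nat_lit 4) (nat_lit 404) (nat_lit 329) (nat_lit 167)))) (XT.nd (nat_lit 78) (nat_lit 76) (nat_lit 0) (XT.lf (nat_lit 0) (nat_lit 116450790340) (nat_lit 152)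 (nat_lit 63158331287) (nat_lit 0) (nat_lit 20538715378) (nat_lit 14) (nat_lit 5) (nat_lit 16) (nat_lit 4) (nat_lit 14) (nat_lit 4) (nat_lit 405) (nat_lit 329) (nat_lit 166)) (XT.nd (nat_lit 78) (nat_lit 76) (nat_lit 0) (XT.lf (nat_lit 0) (nat_lit 150731952788) (nat_lit 152) (nat_lit 2935541835) (nat_lit 0) (nat_lit 54818271065) (nat_lit 14) (nat_lit 5) (nat_lit 16) (nat_lit 4) (nat_lit 14) (nat_lit 4) (nat_lit 406) (nat_lit 329) (nat_lit 165)) (XT.lf (nat_lit 0) (nat_lit 62289984761) (nat_lit 76) (nat_lit 125408623250) (nat_lit 76) (nat_lit 29493411279) (nat_lit 13) (nat_lit 4) (nat_lit 14) (nat_lit 5) (nat_lit 14) (nat_lit 4) (nat_lit 407) (nat_lit 329) (nat_lit 164))))))) (XT.nd (nat_lit 936) (nat_lit 228) (nat_lit 0) (XT.nd (nat_lit 468) (nat_lit 228) (nat_lit 0) (XT.nd (nat_lit 234) (nat_lit 0) (nat_lit 0) (XT.nd (nat_lit 78) (nat_lit 76) (nat_lit 0) (XT.lf (nat_lit 0) (nat_lit 223694451)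 (nat_lit 152) (nat_lit 95458095723) (nat_lit 76) (nat_lit 130649182798) (nat_lit 12) (nat_lit 5) (nat_lit 14) (nat_lit 5) (nat_lit 13) (nat_lit 4) (nat_lit 408) (nat_lit 329) (nat_lit 163)) (XT.nd (nat_lit 78) (nat_lit 76) (nat_lit 0) (XT.lf (nat_lit 0) (nat_lit 30434450753) (nat_lit 152) (nat_lit 33527433283) (nat_lit 76) (nat_lit 171940867198) (nat_lit 12) (nat_lit 5) (nat_lit 14) (nat_lit 5) (nat_lit 13) (nat_lit 4) (nat_lit 409) (nat_lit 329) (nat_lit 162)) (XT.lf (nat_lit 0) (nat_lit 32539343766) (nat_lit 76) (nat_lit 30123447931) (nat_lit 152) (nat_lit 183264974550) (nat_lit 11) (nat_lit 5) (nat_lit 12) (nat_lit 5) (nat_lit 13) (nat_lit 4) (nat_lit 410) (nat_lit 329) (nat_lit 161)))) (XT.nd (nat_lit 78) (nat_lit 0) (nat_lit 0) (XT.lf (nat_lit 0) (nat_lit 97163098872) (nat_lit 152) (nat_lit 153447795695) (nat_lit 0) (nat_lit 5810110155) (nat_lit 11) (nat_lit 5) (nat_lit 13) (nat_lit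 4) (nat_lit 11) (nat_lit 4) (nat_lit 411) (nat_lit 329) (nat_lit 160)) (XT.nd (nat_lit 78) (nat_lit 0) (nat_lit 0) (XT.lf (nat_lit 0) (nat_lit 133881315667) (nat_lit 152) (nat_lit 91005759847) (nat_lit 0) (nat_lit 42527185056) (nat_lit 11) (nat_lit 5) (nat_lit 13) (nat_lit 4) (nat_lit 11) (nat_lit 4) (nat_lit 412) (nat_lit 329) (nat_lit 159)) (XT.lf (nat_lit 0) (nat_lit 172434554966) (nat_lit 152) (nat_lit 25443331980) (nat_lit 0) (nat_lit 81079336836) (nat_lit 11) (nat_lit 5) (nat_lit 13) (nat_lit 4) (nat_lit 11) (nat_lit 4) (nat_lit 413) (nat_lit 329) (nat_lit 158))))) (XT.nd (nat_lit 234) (nat_lit 152) (nat_lit 0) (XT.nd (nat_lit 78) (nat_lit 0) (nat_lit 0) (XT.lf (nat_lit 0) (nat_lit 44830443072) (nat_lit 76) (nat_lit 168784095975) (nat_lit 76) (nat_lit 77427842114) (nat_lit 10) (nat_lit 4) (nat_lit 11) (nat_lit 5) (nat_lit 11) (nat_lit 4) (nat_lit 414) (nat_lit 329) (nat_lit 157))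 (XT.nd (nat_lit 78) (nat_lit 0) (nat_lit 0) (XT.lf (nat_lit 0) (nat_lit 119499639821) (nat_lit 76) (nat_lit 137783946892) (nat_lit 76) (nat_lit 46426706620) (nat_lit 10) (nat_lit 4) (nat_lit 11) (nat_lit 5) (nat_lit 11) (nat_lit 4) (nat_lit 415) (nat_lit 329) (nat_lit 156)) (XT.lf (nat_lit 0) (nat_lit 197900770604) (nat_lit 76) (nat_lit 105234524956) (nat_lit 76) (nat_lit 13876345244) (nat_lit 10) (nat_lit 4) (nat_lit 11) (nat_lit 5) (nat_lit 11) (nat_lit 4) (nat_lit 416) (nat_lit 329) (nat_lit 155)))) (XT.nd (nat_lit 78) (nat_lit 76) (nat_lit 0) (XT.lf (nat_lit 0) (nat_lit 19650992319) (nat_lit 152) (nat_lit 51074540161) (nat_lit 76) (nat_lit 260236713399) (nat_lit 9) (nat_lit 5) (nat_lit 11) (nat_lit 5) (nat_lit 10) (nat_lit 4) (nat_lit 417) (nat_lit 329) (nat_lit 154)) (XT.nd (nat_lit 78) (nat_lit 0) (nat_lit 0) (XT.lf (nat_lit 0) (nat_lit 20800461804) (nat_lit 76) (nat_lit 33911922741)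 (nat_lit 152) (nat_lit 290870421526) (nat_lit 8) (nat_lit 5) (nat_lit 9) (nat_lit 5) (nat_lit 10) (nat_lit 4) (nat_lit 418) (nat_lit 329) (nat_lit 153)) (XT.lf (nat_lit 0) (nat_lit 92479313090) (nat_lit 152) (nat_lit 262938371570) (nat_lit 0) (nat_lit 5469086387) (nat_lit 8) (nat_lit 5) (nat_lit 10) (nat_lit 4) (nat_lit 8) (nat_lit 4) (nat_lit 419) (nat_lit 329) (nat_lit 152)))))) (XT.nd (nat_lit 468) (nat_lit 152) (nat_lit 0) (XT.nd (nat_lit 234) (nat_lit 76) (nat_lit 0) (XT.nd (nat_lit 78) (nat_lit 0) (nat_lit 0) (XT.lf (nat_lit 0) (nat_lit 132689828972) (nat_lit 152) (nat_lit 198559477165) (nat_lit 0) (nat_lit 45678866194) (nat_lit 8) (nat_lit 5) (nat_lit 10) (nat_lit 4) (nat_lit 8) (nat_lit 4) (nat_lit 420) (nat_lit 329) (nat_lit 151)) (XT.nd (nat_lit 78) (nat_lit 0) (nat_lit 0) (XT.lf (nat_lit 0) (nat_lit 174910211363) (nat_lit 152) (nat_lit 130962917820) (nat_lit 0) (nat_lit 87898547561)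 (nat_lit 8) (nat_lit 5) (nat_lit 10) (nat_lit 4) (nat_lit 8) (nat_lit 4) (nat_lit 421) (nat_lit 329) (nat_lit 150)) (XT.lf (nat_lit 0) (nat_lit 219240984983) (nat_lit 152) (nat_lit 59987749345) (nat_lit 0) (nat_lit 132228653539) (nat_lit 8) (nat_lit 5) (nat_lit 10) (nat_lit 4) (nat_lit 8) (nat_lit 4) (nat_lit 422) (nat_lit 329) (nat_lit 149)))) (XT.nd (nat_lit 78) (nat_lit 0) (nat_lit 0) (XT.lf (nat_lit 0) (nat_lit 15015610051) (nat_lit 76) (nat_lit 251006524995) (nat_lit 76) (nat_lit 163993557702) (nat_lit 7) (nat_lit 4) (nat_lit 8) (nat_lit 5) (nat_lit 8) (nat_lit 4) (nat_lit 423) (nat_lit 329) (nat_lit 148)) (XT.nd (nat_lit 78) (nat_lit 0) (nat_lit 0) (XT.lf (nat_lit 0) (nat_lit 95850634545) (nat_lit 76) (nat_lit 220307042284) (nat_lit 76) (nat_lit 133293469420) (nat_lit 7) (nat_lit 4) (nat_lit 8) (nat_lit 5) (nat_lit 8) (nat_lit 4) (nat_lit 424) (nat_lit 329) (nat_lit 147)) (XT.lf (nat_lit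 0) (nat_lit 180726322572) (nat_lit 76) (nat_lit 188073113751) (nat_lit 76) (nat_lit 101058964152) (nat_lit 7) (nat_lit 4) (nat_lit 8) (nat_lit 5) (nat_lit 8) (nat_lit 4) (nat_lit 425) (nat_lit 329) (nat_lit 146))))) (XT.nd (nat_lit 234) (nat_lit 76) (nat_lit 0) (XT.nd (nat_lit 78) (nat_lit 76) (nat_lit 0) (XT.lf (nat_lit 0) (nat_lit 269844759105) (nat_lit 76) (nat_lit 154227991947) (nat_lit 76) (nat_lit 67213293077) (nat_lit 7) (nat_lit 4) (nat_lit 8) (nat_lit 5) (nat_lit 8) (nat_lit 4) (nat_lit 426) (nat_lit 329) (nat_lit 145)) (XT.nd (nat_lit 78) (nat_lit 76) (nat_lit 0) (XT.lf (nat_lit 0) (nat_lit 363418130898) (nat_lit 76) (nat_lit 118691093247) (nat_lit 76) (nat_lit 31675871263) (nat_lit 7) (nat_lit 4) (nat_lit 8) (nat_lit 5) (nat_lit 8) (nat_lit 4) (nat_lit 427) (nat_lit 329) (nat_lit 144)) (XT.lf (nat_lit 0) (nat_lit 5457465734) (nat_lit 152) (nat_lit 75827915432) (nat_lit 76) (nat_lit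 456119341134) (nat_lit 6) (nat_lit 5) (nat_lit 8) (nat_lit 5) (nat_lit 7) (nat_lit 4) (nat_lit 428) (nat_lit 329) (nat_lit 143)))) (XT.nd (nat_lit 78) (nat_lit 0) (nat_lit 0) (XT.lf (nat_lit 0) (nat_lit 1981313551) (nat_lit 76) (nat_lit 41432105093) (nat_lit 152) (nat_lit 518764424828) (nat_lit 5) (nat_lit 5) (nat_lit 6) (nat_lit 5) (nat_lit 7) (nat_lit 4) (nat_lit 429) (nat_lit 329) (nat_lit 142)) (XT.nd (nat_lit 78) (nat_lit 0) (nat_lit 0) (XT.lf (nat_lit 0) (nat_lit 84578398601) (nat_lit 152) (nat_lit 501840258809) (nat_lit 0) (nat_lit 1705401881) (nat_lit 5) (nat_lit 5) (nat_lit 7) (nat_lit 4) (nat_lit 5) (nat_lit 4) (nat_lit 430) (nat_lit 329) (nat_lit 141)) (XT.lf (nat_lit 0) (nat_lit 128480398272) (nat_lit 152) (nat_lit 441246257475) (nat_lit 0) (nat_lit 45606991677) (nat_lit 5) (nat_lit 5) (nat_lit 7) (nat_lit 4) (nat_lit 5) (nat_lit 4) (nat_lit 431) (nat_lit 329) (nat_lit 140))))))))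
noncomputable def xc176 : XT := (XT.nd (nat_lit 1794) (nat_lit 2888) (nat_lit 0) (XT.nd (nat_lit 858) (nat_lit 2204) (nat_lit 0) (XT.nd (nat_lit 390) (nat_lit 0) (nat_lit 76) (XT.nd (nat_lit 156) (nat_lit 760) (nat_lit 0) (XT.nd (nat_lit 78) (nat_lit 0) (nat_lit 0) (XT.lf (nat_lit 0) (nat_lit 4210216173) (nat_lit 0) (nat_lit 4210216173) (nat_lit 684) (nat_lit 457387665) (nat_lit 111) (nat_lit 5) (nat_lit 111) (nat_lit 3) (nat_lit 120) (nat_lit 3) (nat_lit 330) (nat_lit 330) (nat_lit 240)) (XT.lf (nat_lit 0) (nat_lit 17259951695) (nat_lit 0) (nat_lit 202355658) (nat_lit 684) (nat_lit 726976591) (nat_lit 111) (nat_lit 5) (nat_lit 111) (nat_lit 3) (nat_lit 120) (nat_lit 3) (nat_lit 331) (nat_lit 330) (nat_lit 239))) (XT.nd (nat_lit 78) (nat_lit 760) (nat_lit 0) (XT.lf (nat_lit 76) (nat_lit 8014620823) (nat_lit 0) (nat_lit 10344165945) (nat_lit 760) (nat_lit 273639527) (nat_lit 112) (nat_lit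 5) (nat_lit 111) (nat_lit 5) (nat_lit 121) (nat_lit 5) (nat_lit 332) (nat_lit 330) (nat_lit 238)) (XT.nd (nat_lit 78) (nat_lit 0) (nat_lit 76) (XT.lf (nat_lit 0) (nat_lit 202754297) (nat_lit 760) (nat_lit 1673117599) (nat_lit 836) (nat_lit 17221365676) (nat_lit 101) (nat_lit 5) (nat_lit 111) (nat_lit 5) (nat_lit 112) (nat_lit 5) (nat_lit 333) (nat_lit 330) (nat_lit 237)) (XT.lf (nat_lit 0) (nat_lit 917949013) (nat_lit 760) (nat_lit 11729147207) (nat_lit 836) (nat_lit 6926772533) (nat_lit 102) (nat_lit 5) (nat_lit 112) (nat_lit 5) (nat_lit 113) (nat_lit 5) (nat_lit 334) (nat_lit 330) (nat_lit 236))))) (XT.nd (nat_lit 234) (nat_lit 0) (nat_lit 152) (XT.nd (nat_lit 78) (nat_lit 0) (nat_lit 76) (XT.lf (nat_lit 0) (nat_lit 1717124195) (nat_lit 760) (nat_lit 2215250918) (nat_lit 836) (nat_lit 16139557245) (nat_lit 102) (nat_lit 5) (nat_lit 112) (nat_lit 5) (nat_lit 113) (nat_lit 5) (nat_lit 335)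 (nat_lit 330) (nat_lit 235)) (XT.nd (nat_lit 78) (nat_lit 0) (nat_lit 0) (XT.lf (nat_lit 0) (nat_lit 2754318966) (nat_lit 760) (nat_lit 12648904136) (nat_lit 836) (nat_lit 5181784339) (nat_lit 103) (nat_lit 5) (nat_lit 113) (nat_lit 5) (nat_lit 114) (nat_lit 5) (nat_lit 336) (nat_lit 330) (nat_lit 234)) (XT.lf (nat_lit 0) (nat_lit 3935630719) (nat_lit 760) (nat_lit 2522764135) (nat_lit 836) (nat_lit 14660739359) (nat_lit 103) (nat_lit 5) (nat_lit 113) (nat_lit 5) (nat_lit 114) (nat_lit 5) (nat_lit 337) (nat_lit 330) (nat_lit 233)))) (XT.nd (nat_lit 78) (nat_lit 0) (nat_lit 0) (XT.lf (nat_lit 0) (nat_lit 5344826903) (nat_lit 760) (nat_lit 13351725967) (nat_lit 836) (nat_lit 2974983793) (nat_lit 104) (nat_lit 5) (nat_lit 114) (nat_lit 5) (nat_lit 115) (nat_lit 5) (nat_lit 338) (nat_lit 330) (nat_lit 232)) (XT.nd (nat_lit 78) (nat_lit 0) (nat_lit 76) (XT.lf (nat_lit 0) (nat_lit 6964326028)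 (nat_lit 760) (nat_lit 2571687563) (nat_lit 836) (nat_lit 12708563280) (nat_lit 104) (nat_lit 5) (nat_lit 114) (nat_lit 5) (nat_lit 115) (nat_lit 5) (nat_lit 339) (nat_lit 330) (nat_lit 231)) (XT.lf (nat_lit 0) (nat_lit 8800384947) (nat_lit 760) (nat_lit 13814387439) (nat_lit 76) (nat_lit 224726791) (nat_lit 105) (nat_lit 5) (nat_lit 115) (nat_lit 5) (nat_lit 106) (nat_lit 5) (nat_lit 340) (nat_lit 330) (nat_lit 230)))))) (XT.nd (nat_lit 468) (nat_lit 1064) (nat_lit 0) (XT.nd (nat_lit 234) (nat_lit 684) (nat_lit 0) (XT.nd (nat_lit 78) (nat_lit 760) (nat_lit 0) (XT.lf (nat_lit 0) (nat_lit 10920171877) (nat_lit 760) (nat_lit 2335760354) (nat_lit 76) (nat_lit 10198647994) (nat_lit 105) (nat_lit 5) (nat_lit 115) (nat_lit 5) (nat_lit 106) (nat_lit 5) (nat_lit 341) (nat_lit 330) (nat_lit 229)) (XT.nd (nat_lit 78) (nat_lit 0) (nat_lit 0) (XT.lf (nat_lit 0) (nat_lit 10030441999) (nat_lit 760) (nat_lit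 3263852533) (nat_lit 836) (nat_lit 10798711936) (nat_lit 95) (nat_lit 5) (nat_lit 105) (nat_lit 5) (nat_lit 106) (nat_lit 5) (nat_lit 342) (nat_lit 330) (nat_lit 228)) (XT.lf (nat_lit 0) (nat_lit 15932209411) (nat_lit 836) (nat_lit 1786516085) (nat_lit 76) (nat_lit 7037382278) (nat_lit 95) (nat_lit 5) (nat_lit 106) (nat_lit 5) (nat_lit 96) (nat_lit 5) (nat_lit 343) (nat_lit 330) (nat_lit 227)))) (XT.nd (nat_lit 78) (nat_lit 304) (nat_lit 0) (XT.lf (nat_lit 0) (nat_lit 11407618703) (nat_lit 380) (nat_lit 7518425036) (nat_lit 456) (nat_lit 6515126895) (nat_lit 90) (nat_lit 5) (nat_lit 95) (nat_lit 5) (nat_lit 96) (nat_lit 5) (nat_lit 344) (nat_lit 330) (nat_lit 226)) (XT.nd (nat_lit 78) (nat_lit 304) (nat_lit 0) (XT.lf (nat_lit 0) (nat_lit 22142819481) (nat_lit 456) (nat_lit 893403564) (nat_lit 76) (nat_lit 3120608413) (nat_lit 90) (nat_lit 5) (nat_lit 96) (nat_lit 5) (nat_lit 91) (nat_lit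 5) (nat_lit 345) (nat_lit 330) (nat_lit 225)) (XT.lf (nat_lit 0) (nat_lit 13195619299) (nat_lit 304) (nat_lit 12647101356) (nat_lit 380) (nat_lit 1049447298) (nat_lit 86) (nat_lit 5) (nat_lit 90) (nat_lit 5) (nat_lit 91) (nat_lit 5) (nat_lit 346) (nat_lit 330) (nat_lit 224))))) (XT.nd (nat_lit 234) (nat_lit 304) (nat_lit 0) (XT.nd (nat_lit 78) (nat_lit 304) (nat_lit 0) (XT.lf (nat_lit 0) (nat_lit 327267804) (nat_lit 380) (nat_lit 1683643313) (nat_lit 456) (nat_lit 25651075465) (nat_lit 80) (nat_lit 5) (nat_lit 85) (nat_lit 5) (nat_lit 86) (nat_lit 5) (nat_lit 347) (nat_lit 330) (nat_lit 223)) (XT.nd (nat_lit 78) (nat_lit 304) (nat_lit 0) (XT.lf (nat_lit 0) (nat_lit 5571545800) (nat_lit 456) (nat_lit 13112911016) (nat_lit 76) (nat_lit 9765858802) (nat_lit 80) (nat_lit 5) (nat_lit 86) (nat_lit 5) (nat_lit 81) (nat_lit 5) (nat_lit 348) (nat_lit 330) (nat_lit 222)) (XT.lf (nat_lit 0) (nat_lit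 1844220603) (nat_lit 304) (nat_lit 7516027645) (nat_lit 380) (nat_lit 19915316783) (nat_lit 76) (nat_lit 5) (nat_lit 80) (nat_lit 5) (nat_lit 81) (nat_lit 5) (nat_lit 349) (nat_lit 330) (nat_lit 221)))) (XT.nd (nat_lit 78) (nat_lit 304) (nat_lit 0) (XT.lf (nat_lit 0) (nat_lit 13623662548) (nat_lit 380) (nat_lit 12203272991) (nat_lit 76) (nat_lit 4300882992) (nat_lit 76) (nat_lit 5) (nat_lit 81) (nat_lit 5) (nat_lit 77) (nat_lit 5) (nat_lit 350) (nat_lit 330) (nat_lit 220)) (XT.nd (nat_lit 78) (nat_lit 0) (nat_lit 0) (XT.lf (nat_lit 0) (nat_lit 3776846437) (nat_lit 304) (nat_lit 14499696079) (nat_lit 380) (nat_lit 12737332637) (nat_lit 72) (nat_lit 5) (nat_lit 76) (nat_lit 5) (nat_lit 77) (nat_lit 5) (nat_lit 351) (nat_lit 330) (nat_lit 219)) (XT.lf (nat_lit 0) (nat_lit 20972730536) (nat_lit 304) (nat_lit 2390290875) (nat_lit 380) (nat_lit 8571170394) (nat_lit 72) (nat_lit 5) (nat_lit 76)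 (nat_lit 5) (nat_lit 77) (nat_lit 5) (nat_lit 352) (nat_lit 330) (nat_lit 218))))))) (XT.nd (nat_lit 936) (nat_lit 1140) (nat_lit 0) (XT.nd (nat_lit 468) (nat_lit 912) (nat_lit 0) (XT.nd (nat_lit 234) (nat_lit 228) (nat_lit 0) (XT.nd (nat_lit 78) (nat_lit 380) (nat_lit 0) (XT.lf (nat_lit 0) (nat_lit 6156907093) (nat_lit 228) (nat_lit 22798780283) (nat_lit 304) (nat_lit 3932248467) (nat_lit 69) (nat_lit 5) (nat_lit 72) (nat_lit 5) (nat_lit 73) (nat_lit 5) (nat_lit 353) (nat_lit 330) (nat_lit 217)) (XT.nd (nat_lit 78) (nat_lit 304) (nat_lit 0) (XT.lf (nat_lit 0) (nat_lit 1131048277) (nat_lit 304) (nat_lit 9432130530) (nat_lit 76) (nat_lit 23314336305) (nat_lit 68) (nat_lit 5) (nat_lit 72) (nat_lit 5) (nat_lit 69) (nat_lit 5) (nat_lit 354) (nat_lit 330) (nat_lit 216)) (XT.lf (nat_lit 0) (nat_lit 6488897006) (nat_lit 380) (nat_lit 25998587896) (nat_lit 76) (nat_lit 2417192534) (nat_lit 64)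 (nat_lit 5) (nat_lit 69) (nat_lit 5) (nat_lit 65) (nat_lit 5) (nat_lit 355) (nat_lit 330) (nat_lit 215)))) (XT.nd (nat_lit 78) (nat_lit 228) (nat_lit 0) (XT.lf (nat_lit 0) (nat_lit 12445143138) (nat_lit 380) (nat_lit 7669022243) (nat_lit 76) (nat_lit 15852511120) (nat_lit 64) (nat_lit 5) (nat_lit 69) (nat_lit 5) (nat_lit 65) (nat_lit 5) (nat_lit 356) (nat_lit 330) (nat_lit 214)) (XT.nd (nat_lit 78) (nat_lit 0) (nat_lit 0) (XT.lf (nat_lit 0) (nat_lit 11953209889) (nat_lit 228) (nat_lit 6927835513) (nat_lit 304) (nat_lit 18191641619) (nat_lit 61) (nat_lit 5) (nat_lit 64) (nat_lit 5) (nat_lit 65) (nat_lit 5) (nat_lit 357) (nat_lit 330) (nat_lit 213)) (XT.lf (nat_lit 0) (nat_lit 25874081568) (nat_lit 304) (nat_lit 5521331520) (nat_lit 76) (nat_lit 6826821553) (nat_lit 61) (nat_lit 5) (nat_lit 65) (nat_lit 5) (nat_lit 62) (nat_lit 5) (nat_lit 358) (nat_lit 330) (nat_lit 212))))) (XT.nd (nat_lit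 234) (nat_lit 380) (nat_lit 0) (XT.nd (nat_lit 78) (nat_lit 304) (nat_lit 0) (XT.lf (nat_lit 0) (nat_lit 15430846540) (nat_lit 228) (nat_lit 18135960088) (nat_lit 304) (nat_lit 5844954509) (nat_lit 58) (nat_lit 5) (nat_lit 61) (nat_lit 5) (nat_lit 62) (nat_lit 5) (nat_lit 359) (nat_lit 330) (nat_lit 211)) (XT.nd (nat_lit 78) (nat_lit 228) (nat_lit 0) (XT.lf (nat_lit 0) (nat_lit 1042558307) (nat_lit 304) (nat_lit 3056889825) (nat_lit 76) (nat_lit 36556019707) (nat_lit 57) (nat_lit 5) (nat_lit 61) (nat_lit 5) (nat_lit 58) (nat_lit 5) (nat_lit 360) (nat_lit 330) (nat_lit 210)) (XT.lf (nat_lit 0) (nat_lit 8549851093) (nat_lit 304) (nat_lit 22680658015) (nat_lit 76) (nat_lit 10702471058) (nat_lit 54) (nat_lit 5) (nat_lit 58) (nat_lit 5) (nat_lit 55) (nat_lit 5) (nat_lit 361) (nat_lit 330) (nat_lit 209)))) (XT.nd (nat_lit 78) (nat_lit 380) (nat_lit 0) (XT.lf (nat_lit 0) (nat_lit 16548212662)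 (nat_lit 304) (nat_lit 562732792) (nat_lit 76) (nat_lit 26157640202) (nat_lit 54) (nat_lit 5) (nat_lit 58) (nat_lit 5) (nat_lit 55) (nat_lit 5) (nat_lit 362) (nat_lit 330) (nat_lit 208)) (XT.nd (nat_lit 78) (nat_lit 152) (nat_lit 0) (XT.lf (nat_lit 0) (nat_lit 23404440314) (nat_lit 228) (nat_lit 1903538500) (nat_lit 304) (nat_lit 19344920905) (nat_lit 51) (nat_lit 5) (nat_lit 54) (nat_lit 5) (nat_lit 55) (nat_lit 5) (nat_lit 363) (nat_lit 330) (nat_lit 207)) (XT.lf (nat_lit 0) (nat_lit 2332668072) (nat_lit 152) (nat_lit 32434901095) (nat_lit 228) (nat_lit 11325771020) (nat_lit 49) (nat_lit 5) (nat_lit 51) (nat_lit 5) (nat_lit 52) (nat_lit 5) (nat_lit 364) (nat_lit 330) (nat_lit 206)))))) (XT.nd (nat_lit 468) (nat_lit 532) (nat_lit 0) (XT.nd (nat_lit 234) (nat_lit 304) (nat_lit 0) (XT.nd (nat_lit 78) (nat_lit 304) (nat_lit 0) (XT.lf (nat_lit 0) (nat_lit 27792597441) (nat_lit 152) (nat_lit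 17294338813) (nat_lit 228) (nat_lit 2499528945) (nat_lit 49) (nat_lit 5) (nat_lit 51) (nat_lit 5) (nat_lit 52) (nat_lit 5) (nat_lit 365) (nat_lit 330) (nat_lit 205)) (XT.nd (nat_lit 78) (nat_lit 0) (nat_lit 0) (XT.lf (nat_lit 0) (nat_lit 5433963747) (nat_lit 228) (nat_lit 1198641938) (nat_lit 304) (nat_lit 42512299565) (nat_lit 45) (nat_lit 5) (nat_lit 48) (nat_lit 5) (nat_lit 49) (nat_lit 5) (nat_lit 366) (nat_lit 330) (nat_lit 204)) (XT.lf (nat_lit 0) (nat_lit 16719628236) (nat_lit 304) (nat_lit 18451367987) (nat_lit 76) (nat_lit 15579110254) (nat_lit 45) (nat_lit 5) (nat_lit 49) (nat_lit 5) (nat_lit 46) (nat_lit 5) (nat_lit 367) (nat_lit 330) (nat_lit 203)))) (XT.nd (nat_lit 78) (nat_lit 152) (nat_lit 0) (XT.lf (nat_lit 0) (nat_lit 8312219317) (nat_lit 152) (nat_lit 19144797989) (nat_lit 228) (nat_lit 24971251647) (nat_lit 43) (nat_lit 5) (nat_lit 45) (nat_lit 5) (nat_lit 46) (nat_lit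 5) (nat_lit 368) (nat_lit 330) (nat_lit 202)) (XT.nd (nat_lit 78) (nat_lit 152) (nat_lit 0) (XT.lf (nat_lit 0) (nat_lit 37049304291) (nat_lit 152) (nat_lit 1991123020) (nat_lit 228) (nat_lit 15134456533) (nat_lit 43) (nat_lit 5) (nat_lit 45) (nat_lit 5) (nat_lit 46) (nat_lit 5) (nat_lit 369) (nat_lit 330) (nat_lit 201)) (XT.lf (nat_lit 0) (nat_lit 11321499893) (nat_lit 152) (nat_lit 40305187464) (nat_lit 228) (nat_lit 4360959920) (nat_lit 41) (nat_lit 5) (nat_lit 43) (nat_lit 5) (nat_lit 44) (nat_lit 5) (nat_lit 370) (nat_lit 330) (nat_lit 200))))) (XT.nd (nat_lit 234) (nat_lit 304) (nat_lit 0) (XT.nd (nat_lit 78) (nat_lit 152) (nat_lit 0) (XT.lf (nat_lit 0) (nat_lit 7052974089) (nat_lit 228) (nat_lit 16242152226) (nat_lit 76) (nat_lit 34574285544) (nat_lit 40) (nat_lit 5) (nat_lit 43) (nat_lit 5) (nat_lit 41) (nat_lit 5) (nat_lit 371) (nat_lit 330) (nat_lit 199)) (XT.nd (nat_lit 78) (nat_lit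 0) (nat_lit 0) (XT.lf (nat_lit 0) (nat_lit 13973873463) (nat_lit 152) (nat_lit 5132316115) (nat_lit 228) (nat_lit 40724744988) (nat_lit 38) (nat_lit 5) (nat_lit 40) (nat_lit 5) (nat_lit 41) (nat_lit 5) (nat_lit 372) (nat_lit 330) (nat_lit 198)) (XT.lf (nat_lit 0) (nat_lit 32256274391) (nat_lit 228) (nat_lit 15839288982) (nat_lit 76) (nat_lit 13770261068) (nat_lit 38) (nat_lit 5) (nat_lit 41) (nat_lit 5) (nat_lit 39) (nat_lit 5) (nat_lit 373) (nat_lit 330) (nat_lit 197)))) (XT.nd (nat_lit 78) (nat_lit 152) (nat_lit 0) (XT.lf (nat_lit 0) (nat_lit 16105994661) (nat_lit 152) (nat_lit 30290616606) (nat_lit 228) (nat_lit 17589211544) (nat_lit 36) (nat_lit 5) (nat_lit 38) (nat_lit 5) (nat_lit 39) (nat_lit 5) (nat_lit 374) (nat_lit 330) (nat_lit 196)) (XT.nd (nat_lit 78) (nat_lit 152) (nat_lit 0) (XT.lf (nat_lit 0) (nat_lit 50193790010) (nat_lit 152) (nat_lit 11315635703) (nat_lit 228) (nat_lit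 4689123674) (nat_lit 36) (nat_lit 5) (nat_lit 38) (nat_lit 5) (nat_lit 39) (nat_lit 5) (nat_lit 375) (nat_lit 330) (nat_lit 195)) (XT.lf (nat_lit 0) (nat_lit 8990414774) (nat_lit 152) (nat_lit 50748390467) (nat_lit 76) (nat_lit 8755300304) (nat_lit 34) (nat_lit 5) (nat_lit 36) (nat_lit 5) (nat_lit 35) (nat_lit 5) (nat_lit 376) (nat_lit 330) (nat_lit 194))))))))
noncomputable def xc177 : XT := (XT.nd (nat_lit 1794) (nat_lit 684) (nat_lit 0) (XT.nd (nat_lit 858) (nat_lit 532) (nat_lit 0) (XT.nd (nat_lit 390) (nat_lit 456) (nat_lit 0) (XT.nd (nat_lit 156) (nat_lit 152) (nat_lit 0) (XT.nd (nat_lit 78) (nat_lit 152) (nat_lit 0) (XT.lf (nat_lit 0) (nat_lit 23654672064) (nat_lit 152) (nat_lit 17422898463) (nat_lit 76) (nat_lit 29800110224) (nat_lit 34) (nat_lit 5) (nat_lit 36) (nat_lit 5) (nat_lit 35) (nat_lit 5) (nat_lit 377) (nat_lit 330) (nat_lit 193)) (XT.lf (nat_lit 0) (nat_lit 18145290555)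 (nat_lit 152) (nat_lit 21187610726) (nat_lit 228) (nat_lit 34033496571) (nat_lit 32) (nat_lit 5) (nat_lit 34) (nat_lit 5) (nat_lit 35) (nat_lit 5) (nat_lit 378) (nat_lit 330) (nat_lit 192))) (XT.nd (nat_lit 78) (nat_lit 152) (nat_lit 0) (XT.lf (nat_lit 0) (nat_lit 56087697878) (nat_lit 228) (nat_lit 19872496548) (nat_lit 76) (nat_lit 4724625) (nat_lit 32) (nat_lit 5) (nat_lit 35) (nat_lit 5) (nat_lit 33) (nat_lit 4) (nat_lit 379) (nat_lit 330) (nat_lit 191)) (XT.nd (nat_lit 78) (nat_lit 76) (nat_lit 0) (XT.lf (nat_lit 0) (nat_lit 17450574558) (nat_lit 76) (nat_lit 56847056318) (nat_lit 152) (nat_lit 4364866595) (nat_lit 31) (nat_lit 5) (nat_lit 32) (nat_lit 5) (nat_lit 33) (nat_lit 4) (nat_lit 380) (nat_lit 330) (nat_lit 190)) (XT.lf (nat_lit 0) (nat_lit 11881176508) (nat_lit 152) (nat_lit 24344242441) (nat_lit 76) (nat_lit 45243244873) (nat_lit 30) (nat_lit 5) (nat_lit 32) (nat_lit 5)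 (nat_lit 31) (nat_lit 5) (nat_lit 381) (nat_lit 330) (nat_lit 189))))) (XT.nd (nat_lit 234) (nat_lit 228) (nat_lit 0) (XT.nd (nat_lit 78) (nat_lit 76) (nat_lit 0) (XT.lf (nat_lit 0) (nat_lit 14763827980) (nat_lit 152) (nat_lit 14257240925) (nat_lit 228) (nat_lit 55379080916) (nat_lit 28) (nat_lit 5) (nat_lit 30) (nat_lit 5) (nat_lit 31) (nat_lit 5) (nat_lit 382) (nat_lit 330) (nat_lit 188)) (XT.nd (nat_lit 78) (nat_lit 76) (nat_lit 0) (XT.lf (nat_lit 0) (nat_lit 47572285979) (nat_lit 228) (nat_lit 30933409373) (nat_lit 76) (nat_lit 8944799077) (nat_lit 28) (nat_lit 5) (nat_lit 31) (nat_lit 5) (nat_lit 29) (nat_lit 4) (nat_lit 383) (nat_lit 330) (nat_lit 187)) (XT.lf (nat_lit 0) (nat_lit 9780144309) (nat_lit 76) (nat_lit 57655198643) (nat_lit 152) (nat_lit 23198800139) (nat_lit 27) (nat_lit 5) (nat_lit 28) (nat_lit 5) (nat_lit 29) (nat_lit 4) (nat_lit 384) (nat_lit 330) (nat_lit 186))))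 (XT.nd (nat_lit 78) (nat_lit 228) (nat_lit 0) (XT.lf (nat_lit 0) (nat_lit 53599570323) (nat_lit 76) (nat_lit 35213756567) (nat_lit 152) (nat_lit 5137559327) (nat_lit 27) (nat_lit 5) (nat_lit 28) (nat_lit 5) (nat_lit 29) (nat_lit 4) (nat_lit 385) (nat_lit 330) (nat_lit 185)) (XT.nd (nat_lit 78) (nat_lit 0) (nat_lit 0) (XT.lf (nat_lit 0) (nat_lit 2021700917) (nat_lit 152) (nat_lit 11392033217) (nat_lit 228) (nat_lit 84007462686) (nat_lit 24) (nat_lit 5) (nat_lit 26) (nat_lit 5) (nat_lit 27) (nat_lit 5) (nat_lit 386) (nat_lit 330) (nat_lit 184)) (XT.lf (nat_lit 0) (nat_lit 33625151456) (nat_lit 228) (nat_lit 53428312815) (nat_lit 76) (nat_lit 13962087463) (nat_lit 24) (nat_lit 5) (nat_lit 27) (nat_lit 5) (nat_lit 25) (nat_lit 4) (nat_lit 387) (nat_lit 330) (nat_lit 183)))))) (XT.nd (nat_lit 468) (nat_lit 228) (nat_lit 0) (XT.nd (nat_lit 234) (nat_lit 228) (nat_lit 0) (XT.nd (nat_lit 78) (nat_lit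 76) (nat_lit 0) (XT.lf (nat_lit 0) (nat_lit 55031974806) (nat_lit 228) (nat_lit 9548801319) (nat_lit 76) (nat_lit 40199607116) (nat_lit 24) (nat_lit 5) (nat_lit 27) (nat_lit 5) (nat_lit 25) (nat_lit 4) (nat_lit 388) (nat_lit 330) (nat_lit 182)) (XT.nd (nat_lit 78) (nat_lit 0) (nat_lit 0) (XT.lf (nat_lit 0) (nat_lit 37728936774) (nat_lit 76) (nat_lit 40367428913) (nat_lit 152) (nat_lit 30607729897) (nat_lit 23) (nat_lit 5) (nat_lit 24) (nat_lit 5) (nat_lit 25) (nat_lit 4) (nat_lit 389) (nat_lit 330) (nat_lit 181)) (XT.lf (nat_lit 0) (nat_lit 87698817414) (nat_lit 76) (nat_lit 14775080391) (nat_lit 152) (nat_lit 10342100205) (nat_lit 23) (nat_lit 5) (nat_lit 24) (nat_lit 5) (nat_lit 25) (nat_lit 4) (nat_lit 390) (nat_lit 330) (nat_lit 180)))) (XT.nd (nat_lit 78) (nat_lit 76) (nat_lit 0) (XT.lf (nat_lit 0) (nat_lit 11151423502) (nat_lit 152) (nat_lit 93688667484) (nat_lit 76) (nat_lit 12256634418)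 (nat_lit 21) (nat_lit 5) (nat_lit 23) (nat_lit 5) (nat_lit 22) (nat_lit 4) (nat_lit 391) (nat_lit 330) (nat_lit 179)) (XT.nd (nat_lit 78) (nat_lit 76) (nat_lit 0) (XT.lf (nat_lit 0) (nat_lit 34044897420) (nat_lit 152) (nat_lit 46760553309) (nat_lit 76) (nat_lit 40743919964) (nat_lit 21) (nat_lit 5) (nat_lit 23) (nat_lit 5) (nat_lit 22) (nat_lit 4) (nat_lit 392) (nat_lit 330) (nat_lit 178)) (XT.lf (nat_lit 0) (nat_lit 2593968317) (nat_lit 76) (nat_lit 55527934939) (nat_lit 152) (nat_lit 68100802530) (nat_lit 20) (nat_lit 5) (nat_lit 21) (nat_lit 5) (nat_lit 22) (nat_lit 4) (nat_lit 393) (nat_lit 330) (nat_lit 177))))) (XT.nd (nat_lit 234) (nat_lit 152) (nat_lit 0) (XT.nd (nat_lit 78) (nat_lit 76) (nat_lit 0) (XT.lf (nat_lit 0) (nat_lit 56036664137) (nat_lit 76) (nat_lit 28156398677) (nat_lit 152) (nat_lit 46897130080) (nat_lit 20) (nat_lit 5) (nat_lit 21) (nat_lit 5) (nat_lit 22) (nat_lit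 4) (nat_lit 394) (nat_lit 330) (nat_lit 176)) (XT.nd (nat_lit 78) (nat_lit 76) (nat_lit 0) (XT.lf (nat_lit 0) (nat_lit 111575340954) (nat_lit 152) (nat_lit 24061560943) (nat_lit 0) (nat_lit 563774841) (nat_lit 20) (nat_lit 5) (nat_lit 22) (nat_lit 4) (nat_lit 20) (nat_lit 4) (nat_lit 395) (nat_lit 330) (nat_lit 175)) (XT.lf (nat_lit 0) (nat_lit 29975063798) (nat_lit 76) (nat_lit 111279765388) (nat_lit 76) (nat_lit 265451170) (nat_lit 19) (nat_lit 4) (nat_lit 20) (nat_lit 5) (nat_lit 20) (nat_lit 4) (nat_lit 396) (nat_lit 330) (nat_lit 174)))) (XT.nd (nat_lit 78) (nat_lit 76) (nat_lit 0) (XT.lf (nat_lit 0) (nat_lit 24914971479) (nat_lit 152) (nat_lit 59941239927) (nat_lit 76) (nat_lit 62209258229) (nat_lit 18) (nat_lit 5) (nat_lit 20) (nat_lit 5) (nat_lit 19) (nat_lit 4) (nat_lit 397) (nat_lit 330) (nat_lit 173)) (XT.nd (nat_lit 78) (nat_lit 76) (nat_lit 0) (XT.lf (nat_lit 0) (nat_lit 51344089752)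 (nat_lit 152) (nat_lit 5764040080) (nat_lit 76) (nat_lit 95779641532) (nat_lit 18) (nat_lit 5) (nat_lit 20) (nat_lit 5) (nat_lit 19) (nat_lit 4) (nat_lit 398) (nat_lit 330) (nat_lit 172)) (XT.lf (nat_lit 0) (nat_lit 52809762972) (nat_lit 76) (nat_lit 27108071643) (nat_lit 152) (nat_lit 79042195352) (nat_lit 17) (nat_lit 5) (nat_lit 18) (nat_lit 5) (nat_lit 19) (nat_lit 4) (nat_lit 399) (nat_lit 330) (nat_lit 171))))))) (XT.nd (nat_lit 936) (nat_lit 228) (nat_lit 0) (XT.nd (nat_lit 468) (nat_lit 228) (nat_lit 0) (XT.nd (nat_lit 234) (nat_lit 152) (nat_lit 0) (XT.nd (nat_lit 78) (nat_lit 76) (nat_lit 0) (XT.lf (nat_lit 0) (nat_lit 110086724762) (nat_lit 152) (nat_lit 50891328296) (nat_lit 0) (nat_lit 4349525846) (nat_lit 17) (nat_lit 5) (nat_lit 19) (nat_lit 4) (nat_lit 17) (nat_lit 4) (nat_lit 400) (nat_lit 330) (nat_lit 170)) (XT.nd (nat_lit 78) (nat_lit 0) (nat_lit 0) (XT.lf (nat_lit 0)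 (nat_lit 6904771156) (nat_lit 76) (nat_lit 135410218747) (nat_lit 76) (nat_lit 29670969153) (nat_lit 16) (nat_lit 4) (nat_lit 17) (nat_lit 5) (nat_lit 17) (nat_lit 4) (nat_lit 401) (nat_lit 330) (nat_lit 169)) (XT.lf (nat_lit 0) (nat_lit 69355158729) (nat_lit 76) (nat_lit 107660135543) (nat_lit 76) (nat_lit 1918932922) (nat_lit 16) (nat_lit 4) (nat_lit 17) (nat_lit 5) (nat_lit 17) (nat_lit 4) (nat_lit 402) (nat_lit 330) (nat_lit 168)))) (XT.nd (nat_lit 78) (nat_lit 76) (nat_lit 0) (XT.lf (nat_lit 0) (nat_lit 26348268796) (nat_lit 152) (nat_lit 51729111614) (nat_lit 76) (nat_lit 108131339197) (nat_lit 15) (nat_lit 5) (nat_lit 17) (nat_lit 5) (nat_lit 16) (nat_lit 4) (nat_lit 403) (nat_lit 330) (nat_lit 167)) (XT.nd (nat_lit 78) (nat_lit 0) (nat_lit 0) (XT.lf (nat_lit 0) (nat_lit 9276626518) (nat_lit 76) (nat_lit 46831403051) (nat_lit 152) (nat_lit 137730150029) (nat_lit 14) (nat_lit 5) (nat_lit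 15) (nat_lit 5) (nat_lit 16) (nat_lit 4) (nat_lit 404) (nat_lit 330) (nat_lit 166)) (XT.lf (nat_lit 0) (nat_lit 75126435854) (nat_lit 76) (nat_lit 13104274902) (nat_lit 152) (nat_lit 113574655443) (nat_lit 14) (nat_lit 5) (nat_lit 15) (nat_lit 5) (nat_lit 16) (nat_lit 4) (nat_lit 405) (nat_lit 330) (nat_lit 165))))) (XT.nd (nat_lit 234) (nat_lit 152) (nat_lit 0) (XT.nd (nat_lit 78) (nat_lit 76) (nat_lit 0) (XT.lf (nat_lit 0) (nat_lit 122306748711) (nat_lit 152) (nat_lit 66252556607) (nat_lit 0) (nat_lit 21594245894) (nat_lit 14) (nat_lit 5) (nat_lit 16) (nat_lit 4) (nat_lit 14) (nat_lit 4) (nat_lit 406) (nat_lit 330) (nat_lit 164)) (XT.nd (nat_lit 78) (nat_lit 76) (nat_lit 0) (XT.lf (nat_lit 0) (nat_lit 158300377907) (nat_lit 152) (nat_lit 3021660598) (nat_lit 0) (nat_lit 57586417712) (nat_lit 14) (nat_lit 5) (nat_lit 16) (nat_lit 4) (nat_lit 14) (nat_lit 4) (nat_lit 407) (nat_lit 330)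 (nat_lit 163)) (XT.lf (nat_lit 0) (nat_lit 65464163967) (nat_lit 76) (nat_lit 131650618101) (nat_lit 76) (nat_lit 30935269926) (nat_lit 13) (nat_lit 4) (nat_lit 14) (nat_lit 5) (nat_lit 14) (nat_lit 4) (nat_lit 408) (nat_lit 330) (nat_lit 162)))) (XT.nd (nat_lit 78) (nat_lit 76) (nat_lit 0) (XT.lf (nat_lit 0) (nat_lit 265128441) (nat_lit 152) (nat_lit 100173156755) (nat_lit 76) (nat_lit 137207718449) (nat_lit 12) (nat_lit 5) (nat_lit 14) (nat_lit 5) (nat_lit 13) (nat_lit 4) (nat_lit 409) (nat_lit 330) (nat_lit 161)) (XT.nd (nat_lit 78) (nat_lit 76) (nat_lit 0) (XT.lf (nat_lit 0) (nat_lit 31984982117) (nat_lit 152) (nat_lit 35148715657) (nat_lit 76) (nat_lit 180562745330) (nat_lit 12) (nat_lit 5) (nat_lit 14) (nat_lit 5) (nat_lit 13) (nat_lit 4) (nat_lit 410) (nat_lit 330) (nat_lit 160)) (XT.lf (nat_lit 0) (nat_lit 34220511707) (nat_lit 76) (nat_lit 31603702778) (nat_lit 152) (nat_lit 192398520915)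 (nat_lit 11) (nat_lit 5) (nat_lit 12) (nat_lit 5) (nat_lit 13) (nat_lit 4) (nat_lit 411) (nat_lit 330) (nat_lit 159)))))) (XT.nd (nat_lit 468) (nat_lit 152) (nat_lit 0) (XT.nd (nat_lit 234) (nat_lit 76) (nat_lit 0) (XT.nd (nat_lit 78) (nat_lit 0) (nat_lit 0) (XT.lf (nat_lit 0) (nat_lit 102048575576) (nat_lit 152) (nat_lit 161067599511) (nat_lit 0) (nat_lit 6124509021) (nat_lit 11) (nat_lit 5) (nat_lit 13) (nat_lit 4) (nat_lit 11) (nat_lit 4) (nat_lit 412) (nat_lit 330) (nat_lit 158)) (XT.nd (nat_lit 78) (nat_lit 0) (nat_lit 0) (XT.lf (nat_lit 0) (nat_lit 140601402175) (nat_lit 152) (nat_lit 95505965965) (nat_lit 0) (nat_lit 44676299889) (nat_lit 11) (nat_lit 5) (nat_lit 13) (nat_lit 4) (nat_lit 11) (nat_lit 4) (nat_lit 413) (nat_lit 330) (nat_lit 157)) (XT.lf (nat_lit 0) (nat_lit 181081064356) (nat_lit 152) (nat_lit 26667801556) (nat_lit 0) (nat_lit 85154975659) (nat_lit 11) (nat_lit 5)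 (nat_lit 13) (nat_lit 4) (nat_lit 11) (nat_lit 4) (nat_lit 414) (nat_lit 330) (nat_lit 156)))) (XT.nd (nat_lit 78) (nat_lit 0) (nat_lit 0) (XT.lf (nat_lit 0) (nat_lit 47118892943) (nat_lit 76) (nat_lit 177200707294) (nat_lit 76) (nat_lit 81273679158) (nat_lit 10) (nat_lit 4) (nat_lit 11) (nat_lit 5) (nat_lit 11) (nat_lit 4) (nat_lit 415) (nat_lit 330) (nat_lit 155)) (XT.nd (nat_lit 78) (nat_lit 0) (nat_lit 0) (XT.lf (nat_lit 0) (nat_lit 125519314875) (nat_lit 76) (nat_lit 144651626637) (nat_lit 76) (nat_lit 48723703796) (nat_lit 10) (nat_lit 4) (nat_lit 11) (nat_lit 5) (nat_lit 11) (nat_lit 4) (nat_lit 416) (nat_lit 330) (nat_lit 154)) (XT.lf (nat_lit 0) (nat_lit 207838373957) (nat_lit 76) (nat_lit 110475758252) (nat_lit 76) (nat_lit 14546983312) (nat_lit 10) (nat_lit 4) (nat_lit 11) (nat_lit 5) (nat_lit 11) (nat_lit 4) (nat_lit 417) (nat_lit 330) (nat_lit 153))))) (XT.nd (nat_lit 234)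 (nat_lit 0) (nat_lit 0) (XT.nd (nat_lit 78) (nat_lit 76) (nat_lit 0) (XT.lf (nat_lit 0) (nat_lit 20654910807) (nat_lit 152) (nat_lit 53587019308) (nat_lit 76) (nat_lit 273267356231) (nat_lit 9) (nat_lit 5) (nat_lit 11) (nat_lit 5) (nat_lit 10) (nat_lit 4) (nat_lit 418) (nat_lit 330) (nat_lit 152)) (XT.nd (nat_lit 78) (nat_lit 0) (nat_lit 0) (XT.lf (nat_lit 0) (nat_lit 21881067468) (nat_lit 76) (nat_lit 35587921219) (nat_lit 152) (nat_lit 305391905219) (nat_lit 8) (nat_lit 5) (nat_lit 9) (nat_lit 5) (nat_lit 10) (nat_lit 4) (nat_lit 419) (nat_lit 330) (nat_lit 151)) (XT.lf (nat_lit 0) (nat_lit 97123555782) (nat_lit 152) (nat_lit 276045929131) (nat_lit 0) (nat_lit 5760607765) (nat_lit 8) (nat_lit 5) (nat_lit 10) (nat_lit 4) (nat_lit 8) (nat_lit 4) (nat_lit 420) (nat_lit 330) (nat_lit 150)))) (XT.nd (nat_lit 78) (nat_lit 0) (nat_lit 0) (XT.lf (nat_lit 0) (nat_lit 139343631885) (nat_lit 152)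 (nat_lit 208449964341) (nat_lit 0) (nat_lit 47980016226) (nat_lit 8) (nat_lit 5) (nat_lit 10) (nat_lit 4) (nat_lit 8) (nat_lit 4) (nat_lit 421) (nat_lit 330) (nat_lit 149)) (XT.nd (nat_lit 78) (nat_lit 0) (nat_lit 0) (XT.lf (nat_lit 0) (nat_lit 183674113802) (nat_lit 152) (nat_lit 137475362108) (nat_lit 0) (nat_lit 92309862294) (nat_lit 8) (nat_lit 5) (nat_lit 10) (nat_lit 4) (nat_lit 8) (nat_lit 4) (nat_lit 422) (nat_lit 330) (nat_lit 148)) (XT.lf (nat_lit 0) (nat_lit 230220550299) (nat_lit 152) (nat_lit 62953135286) (nat_lit 0) (nat_lit 138855693221) (nat_lit 8) (nat_lit 5) (nat_lit 10) (nat_lit 4) (nat_lit 8) (nat_lit 4) (nat_lit 423) (nat_lit 330) (nat_lit 147))))))))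
noncomputable def xc178 : XT := (XT.nd (nat_lit 40794) (nat_lit 0) (nat_lit 2888) (XT.nd (nat_lit 39858) (nat_lit 0) (nat_lit 6460) (XT.nd (nat_lit 390) (nat_lit 152) (nat_lit 0) (XT.nd (nat_lit 156) (nat_lit 0) (nat_lit 0) (XT.nd (nat_lit 78) (nat_lit 0) (nat_lit 0) (XT.lf (nat_lit 0) (nat_lit 15799843669) (nat_lit 76) (nat_lit 263540602396) (nat_lit 76) (nat_lit 172175168583) (nat_lit 7) (nat_lit 4) (nat_lit 8) (nat_lit 5) (nat_lit 8) (nat_lit 4) (nat_lit 424) (nat_lit 330) (nat_lit 146)) (XT.lf (nat_lit 0) (nat_lit 100675026381) (nat_lit 76) (nat_lit 231306919304) (nat_lit 76) (nat_lit 139940936221) (nat_lit 7) (nat_lit 4) (nat_lit 8) (nat_lit 5) (nat_lit 8) (nat_lit 4) (nat_lit 425) (nat_lit 330) (nat_lit 145))) (XT.nd (nat_lit 78) (nat_lit 0) (nat_lit 0) (XT.lf (nat_lit 0) (nat_lit 189792981662) (nat_lit 76) (nat_lit 197462031253) (nat_lit 76) (nat_lit 106095525055) (nat_lit 7) (nat_lit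 4) (nat_lit 8) (nat_lit 5) (nat_lit 8) (nat_lit 4) (nat_lit 426) (nat_lit 330) (nat_lit 144)) (XT.nd (nat_lit 78) (nat_lit 0) (nat_lit 0) (XT.lf (nat_lit 0) (nat_lit 283365895119) (nat_lit 76) (nat_lit 161925355177) (nat_lit 76) (nat_lit 70558350774) (nat_lit 7) (nat_lit 4) (nat_lit 8) (nat_lit 5) (nat_lit 8) (nat_lit 4) (nat_lit 427) (nat_lit 330) (nat_lit 143)) (XT.lf (nat_lit 0) (nat_lit 381616559403) (nat_lit 76) (nat_lit 124612279941) (nat_lit 76) (nat_lit 33244801057) (nat_lit 7) (nat_lit 4) (nat_lit 8) (nat_lit 5) (nat_lit 8) (nat_lit 4) (nat_lit 428) (nat_lit 330) (nat_lit 142))))) (XT.nd (nat_lit 39234) (nat_lit 0) (nat_lit 7296) (XT.nd (nat_lit 78) (nat_lit 76) (nat_lit 0) (XT.lf (nat_lit 0) (nat_lit 5744041912) (nat_lit 152) (nat_lit 79592644849) (nat_lit 76) (nat_lit 478937584626) (nat_lit 6) (nat_lit 5) (nat_lit 8) (nat_lit 5) (nat_lit 7) (nat_lit 4) (nat_lit 429) (nat_lit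 330) (nat_lit 141)) (XT.nd (nat_lit 78) (nat_lit 0) (nat_lit 0) (XT.lf (nat_lit 0) (nat_lit 2106615480) (nat_lit 76) (nat_lit 43490934089) (nat_lit 152) (nat_lit 544688511281) (nat_lit 5) (nat_lit 5) (nat_lit 6) (nat_lit 5) (nat_lit 7) (nat_lit 4) (nat_lit 430) (nat_lit 330) (nat_lit 140)) (XT.lf (nat_lit 0) (nat_lit 88820327547) (nat_lit 152) (nat_lit 526906832156) (nat_lit 0) (nat_lit 1802450393) (nat_lit 5) (nat_lit 5) (nat_lit 7) (nat_lit 4) (nat_lit 5) (nat_lit 4) (nat_lit 431) (nat_lit 330) (nat_lit 139)))) (XT.nd (nat_lit 78) (nat_lit 760) (nat_lit 0) (XT.lf (nat_lit 0) (nat_lit 4519372935) (nat_lit 0) (nat_lit 4519372935) (nat_lit 684) (nat_lit 272878045) (nat_lit 111) (nat_lit 5) (nat_lit 111) (nat_lit 3) (nat_lit 120) (nat_lit 3) (nat_lit 331) (nat_lit 331) (nat_lit 238)) (XT.nd (nat_lit 78) (nat_lit 760) (nat_lit 0) (XT.lf (nat_lit 0) (nat_lit 18310846334) (nat_lit 0) (nat_lit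 400370494) (nat_lit 684) (nat_lit 368317794) (nat_lit 111) (nat_lit 5) (nat_lit 111) (nat_lit 3) (nat_lit 120) (nat_lit 3) (nat_lit 332) (nat_lit 331) (nat_lit 237)) (XT.lf (nat_lit 0) (nat_lit 86471313) (nat_lit 760) (nat_lit 10925113863) (nat_lit 836) (nat_lit 8534072480) (nat_lit 101) (nat_lit 5) (nat_lit 111) (nat_lit 5) (nat_lit 112) (nat_lit 5) (nat_lit 333) (nat_lit 331) (nat_lit 236)))))) (XT.nd (nat_lit 468) (nat_lit 836) (nat_lit 0) (XT.nd (nat_lit 234) (nat_lit 0) (nat_lit 152) (XT.nd (nat_lit 78) (nat_lit 0) (nat_lit 76) (XT.lf (nat_lit 0) (nat_lit 560126997) (nat_lit 760) (nat_lit 1548110632) (nat_lit 836) (nat_lit 17926133966) (nat_lit 101) (nat_lit 5) (nat_lit 111) (nat_lit 5) (nat_lit 112) (nat_lit 5) (nat_lit 334) (nat_lit 331) (nat_lit 235)) (XT.nd (nat_lit 78) (nat_lit 0) (nat_lit 0) (XT.lf (nat_lit 0) (nat_lit 1295743786) (nat_lit 760) (nat_lit 12091255385) (nat_lit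 836) (nat_lit 7148619481) (nat_lit 102) (nat_lit 5) (nat_lit 112) (nat_lit 5) (nat_lit 113) (nat_lit 5) (nat_lit 335) (nat_lit 331) (nat_lit 234)) (XT.lf (nat_lit 0) (nat_lit 2119073093) (nat_lit 760) (nat_lit 2112347577) (nat_lit 836) (nat_lit 16827971604) (nat_lit 102) (nat_lit 5) (nat_lit 112) (nat_lit 5) (nat_lit 113) (nat_lit 5) (nat_lit 336) (nat_lit 331) (nat_lit 233)))) (XT.nd (nat_lit 78) (nat_lit 0) (nat_lit 0) (XT.lf (nat_lit 0) (nat_lit 3194888474) (nat_lit 760) (nat_lit 13054128071) (nat_lit 836) (nat_lit 5349782333) (nat_lit 103) (nat_lit 5) (nat_lit 113) (nat_lit 5) (nat_lit 114) (nat_lit 5) (nat_lit 337) (nat_lit 331) (nat_lit 232)) (XT.nd (nat_lit 78) (nat_lit 0) (nat_lit 76) (XT.lf (nat_lit 0) (nat_lit 4420844217) (nat_lit 760) (nat_lit 2432501130) (nat_lit 836) (nat_lit 15307022782) (nat_lit 103) (nat_lit 5) (nat_lit 113) (nat_lit 5) (nat_lit 114) (nat_lit 5) (nat_lit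 338) (nat_lit 331) (nat_lit 231)) (XT.lf (nat_lit 0) (nat_lit 5889072934) (nat_lit 760) (nat_lit 13791196925) (nat_lit 836) (nat_lit 3060706548) (nat_lit 104) (nat_lit 5) (nat_lit 114) (nat_lit 5) (nat_lit 115) (nat_lit 5) (nat_lit 339) (nat_lit 331) (nat_lit 230))))) (XT.nd (nat_lit 234) (nat_lit 1064) (nat_lit 0) (XT.nd (nat_lit 78) (nat_lit 0) (nat_lit 76) (XT.lf (nat_lit 0) (nat_lit 7576356317) (nat_lit 760) (nat_lit 2483019237) (nat_lit 836) (nat_lit 13283966268) (nat_lit 104) (nat_lit 5) (nat_lit 114) (nat_lit 5) (nat_lit 115) (nat_lit 5) (nat_lit 340) (nat_lit 331) (nat_lit 229)) (XT.nd (nat_lit 78) (nat_lit 0) (nat_lit 0) (XT.lf (nat_lit 0) (nat_lit 9494355199) (nat_lit 760) (nat_lit 14277730938) (nat_lit 76) (nat_lit 196430263) (nat_lit 105) (nat_lit 5) (nat_lit 115) (nat_lit 5) (nat_lit 106) (nat_lit 5) (nat_lit 341) (nat_lit 331) (nat_lit 228)) (XT.lf (nat_lit 0) (nat_lit 11708038571)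 (nat_lit 760) (nat_lit 2235999922) (nat_lit 76) (nat_lit 10670930044) (nat_lit 105) (nat_lit 5) (nat_lit 115) (nat_lit 5) (nat_lit 106) (nat_lit 5) (nat_lit 342) (nat_lit 331) (nat_lit 227)))) (XT.nd (nat_lit 78) (nat_lit 380) (nat_lit 0) (XT.lf (nat_lit 0) (nat_lit 10745019831) (nat_lit 760) (nat_lit 3447656871) (nat_lit 836) (nat_lit 11093060721) (nat_lit 95) (nat_lit 5) (nat_lit 105) (nat_lit 5) (nat_lit 106) (nat_lit 5) (nat_lit 343) (nat_lit 331) (nat_lit 226)) (XT.nd (nat_lit 78) (nat_lit 380) (nat_lit 0) (XT.lf (nat_lit 0) (nat_lit 16951053822) (nat_lit 836) (nat_lit 1661273406) (nat_lit 76) (nat_lit 7370249479) (nat_lit 95) (nat_lit 5) (nat_lit 106) (nat_lit 5) (nat_lit 96) (nat_lit 5) (nat_lit 344) (nat_lit 331) (nat_lit 225)) (XT.lf (nat_lit 0) (nat_lit 12189107338) (nat_lit 380) (nat_lit 7898185942) (nat_lit 456) (nat_lit 6614974462) (nat_lit 90) (nat_lit 5) (nat_lit 95) (nat_lit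 5) (nat_lit 96) (nat_lit 5) (nat_lit 345) (nat_lit 331) (nat_lit 224))))))) (XT.nd (nat_lit 936) (nat_lit 1596) (nat_lit 0) (XT.nd (nat_lit 468) (nat_lit 912) (nat_lit 0) (XT.nd (nat_lit 234) (nat_lit 304) (nat_lit 0) (XT.nd (nat_lit 78) (nat_lit 760) (nat_lit 0) (XT.lf (nat_lit 0) (nat_lit 23454615129) (nat_lit 456) (nat_lit 726522246) (nat_lit 76) (nat_lit 3273099061) (nat_lit 90) (nat_lit 5) (nat_lit 96) (nat_lit 5) (nat_lit 91) (nat_lit 5) (nat_lit 346) (nat_lit 331) (nat_lit 223)) (XT.nd (nat_lit 78) (nat_lit 456) (nat_lit 0) (XT.lf (nat_lit 0) (nat_lit 14063539639) (nat_lit 304) (nat_lit 13269475900) (nat_lit 380) (nat_lit 893658715) (nat_lit 86) (nat_lit 5) (nat_lit 90) (nat_lit 5) (nat_lit 91) (nat_lit 5) (nat_lit 347) (nat_lit 331) (nat_lit 222)) (XT.lf (nat_lit 0) (nat_lit 555153549) (nat_lit 380) (nat_lit 1751601102) (nat_lit 456) (nat_lit 26728390258) (nat_lit 80) (nat_lit 5)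 (nat_lit 85) (nat_lit 5) (nat_lit 86) (nat_lit 5) (nat_lit 348) (nat_lit 331) (nat_lit 221)))) (XT.nd (nat_lit 78) (nat_lit 304) (nat_lit 0) (XT.lf (nat_lit 0) (nat_lit 6036362410) (nat_lit 456) (nat_lit 13557880330) (nat_lit 76) (nat_lit 10269108976) (nat_lit 80) (nat_lit 5) (nat_lit 86) (nat_lit 5) (nat_lit 81) (nat_lit 5) (nat_lit 349) (nat_lit 331) (nat_lit 220)) (XT.nd (nat_lit 78) (nat_lit 0) (nat_lit 0) (XT.lf (nat_lit 0) (nat_lit 2143709867) (nat_lit 304) (nat_lit 7865157769) (nat_lit 380) (nat_lit 20721285568) (nat_lit 76) (nat_lit 5) (nat_lit 80) (nat_lit 5) (nat_lit 81) (nat_lit 5) (nat_lit 350) (nat_lit 331) (nat_lit 219)) (XT.lf (nat_lit 0) (nat_lit 14477248902) (nat_lit 380) (nat_lit 12607672927) (nat_lit 76) (nat_lit 4540515343) (nat_lit 76) (nat_lit 5) (nat_lit 81) (nat_lit 5) (nat_lit 77) (nat_lit 5) (nat_lit 351) (nat_lit 331) (nat_lit 218))))) (XT.nd (nat_lit 234) (nat_lit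 380) (nat_lit 0) (XT.nd (nat_lit 78) (nat_lit 228) (nat_lit 0) (XT.lf (nat_lit 0) (nat_lit 4168133703) (nat_lit 304) (nat_lit 15189590220) (nat_lit 380) (nat_lit 13198332392) (nat_lit 72) (nat_lit 5) (nat_lit 76) (nat_lit 5) (nat_lit 77) (nat_lit 5) (nat_lit 352) (nat_lit 331) (nat_lit 217)) (XT.nd (nat_lit 78) (nat_lit 228) (nat_lit 0) (XT.lf (nat_lit 0) (nat_lit 22214171772) (nat_lit 304) (nat_lit 2476385741) (nat_lit 380) (nat_lit 8832236650) (nat_lit 72) (nat_lit 5) (nat_lit 76) (nat_lit 5) (nat_lit 77) (nat_lit 5) (nat_lit 353) (nat_lit 331) (nat_lit 216)) (XT.lf (nat_lit 0) (nat_lit 6661910515) (nat_lit 228) (nat_lit 23896931615) (nat_lit 304) (nat_lit 3965590575) (nat_lit 69) (nat_lit 5) (nat_lit 72) (nat_lit 5) (nat_lit 73) (nat_lit 5) (nat_lit 354) (nat_lit 331) (nat_lit 215)))) (XT.nd (nat_lit 78) (nat_lit 304) (nat_lit 0) (XT.lf (nat_lit 0) (nat_lit 1338119401) (nat_lit 304)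 (nat_lit 9710871446) (nat_lit 76) (nat_lit 24514754891) (nat_lit 68) (nat_lit 5) (nat_lit 72) (nat_lit 5) (nat_lit 69) (nat_lit 5) (nat_lit 355) (nat_lit 331) (nat_lit 214)) (XT.nd (nat_lit 78) (nat_lit 0) (nat_lit 0) (XT.lf (nat_lit 0) (nat_lit 6960333852) (nat_lit 380) (nat_lit 27102011448) (nat_lit 76) (nat_lit 2580102890) (nat_lit 64) (nat_lit 5) (nat_lit 69) (nat_lit 5) (nat_lit 65) (nat_lit 5) (nat_lit 356) (nat_lit 331) (nat_lit 213)) (XT.lf (nat_lit 0) (nat_lit 13207392672) (nat_lit 380) (nat_lit 7865324934) (nat_lit 76) (nat_lit 16685184990) (nat_lit 64) (nat_lit 5) (nat_lit 69) (nat_lit 5) (nat_lit 65) (nat_lit 5) (nat_lit 357) (nat_lit 331) (nat_lit 212)))))) (XT.nd (nat_lit 468) (nat_lit 836) (nat_lit 0) (XT.nd (nat_lit 234) (nat_lit 304) (nat_lit 0) (XT.nd (nat_lit 78) (nat_lit 228) (nat_lit 0) (XT.lf (nat_lit 0) (nat_lit 12735000282) (nat_lit 228) (nat_lit 7226298247) (nat_lit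 304) (nat_lit 18958109836) (nat_lit 61) (nat_lit 5) (nat_lit 64) (nat_lit 5) (nat_lit 65) (nat_lit 5) (nat_lit 358) (nat_lit 331) (nat_lit 211)) (XT.nd (nat_lit 78) (nat_lit 228) (nat_lit 0) (XT.lf (nat_lit 0) (nat_lit 27298213422) (nat_lit 304) (nat_lit 5616165145) (nat_lit 76) (nat_lit 7212348357) (nat_lit 61) (nat_lit 5) (nat_lit 65) (nat_lit 5) (nat_lit 62) (nat_lit 5) (nat_lit 359) (nat_lit 331) (nat_lit 210)) (XT.lf (nat_lit 0) (nat_lit 16380698706) (nat_lit 228) (nat_lit 18991449098) (nat_lit 304) (nat_lit 6003757956) (nat_lit 58) (nat_lit 5) (nat_lit 61) (nat_lit 5) (nat_lit 62) (nat_lit 5) (nat_lit 360) (nat_lit 331) (nat_lit 209)))) (XT.nd (nat_lit 78) (nat_lit 228) (nat_lit 0) (XT.lf (nat_lit 0) (nat_lit 1217708345) (nat_lit 304) (nat_lit 3035763046) (nat_lit 76) (nat_lit 38428534026) (nat_lit 57) (nat_lit 5) (nat_lit 61) (nat_lit 5) (nat_lit 58) (nat_lit 5) (nat_lit 361) (nat_lit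 331) (nat_lit 208)) (XT.nd (nat_lit 78) (nat_lit 0) (nat_lit 0) (XT.lf (nat_lit 0) (nat_lit 9097981332) (nat_lit 304) (nat_lit 23638254534) (nat_lit 76) (nat_lit 11287280749) (nat_lit 54) (nat_lit 5) (nat_lit 58) (nat_lit 5) (nat_lit 55) (nat_lit 5) (nat_lit 362) (nat_lit 331) (nat_lit 207)) (XT.lf (nat_lit 0) (nat_lit 17490516328) (nat_lit 304) (nat_lit 422834782) (nat_lit 76) (nat_lit 27512842344) (nat_lit 54) (nat_lit 5) (nat_lit 58) (nat_lit 5) (nat_lit 55) (nat_lit 5) (nat_lit 363) (nat_lit 331) (nat_lit 206))))) (XT.nd (nat_lit 234) (nat_lit 456) (nat_lit 0) (XT.nd (nat_lit 78) (nat_lit 152) (nat_lit 0) (XT.lf (nat_lit 0) (nat_lit 24739986743) (nat_lit 228) (nat_lit 1945394126) (nat_lit 304) (nat_lit 20194490506) (nat_lit 51) (nat_lit 5) (nat_lit 54) (nat_lit 5) (nat_lit 55) (nat_lit 5) (nat_lit 364) (nat_lit 331) (nat_lit 205)) (XT.nd (nat_lit 78) (nat_lit 0) (nat_lit 0) (XT.lf (nat_lit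 0) (nat_lit 2616722124) (nat_lit 152) (nat_lit 33999301892) (nat_lit 228) (nat_lit 11776409671) (nat_lit 49) (nat_lit 5) (nat_lit 51) (nat_lit 5) (nat_lit 52) (nat_lit 5) (nat_lit 365) (nat_lit 331) (nat_lit 204)) (XT.lf (nat_lit 0) (nat_lit 29341675549) (nat_lit 152) (nat_lit 18104442175) (nat_lit 228) (nat_lit 2514362630) (nat_lit 49) (nat_lit 5) (nat_lit 51) (nat_lit 5) (nat_lit 52) (nat_lit 5) (nat_lit 366) (nat_lit 331) (nat_lit 203)))) (XT.nd (nat_lit 78) (nat_lit 152) (nat_lit 0) (XT.lf (nat_lit 0) (nat_lit 5866069013) (nat_lit 228) (nat_lit 1202211841) (nat_lit 304) (nat_lit 44528607213) (nat_lit 45) (nat_lit 5) (nat_lit 48) (nat_lit 5) (nat_lit 49) (nat_lit 5) (nat_lit 367) (nat_lit 331) (nat_lit 202)) (XT.nd (nat_lit 78) (nat_lit 152) (nat_lit 0) (XT.lf (nat_lit 0) (nat_lit 17655538083) (nat_lit 304) (nat_lit 19216993956) (nat_lit 76) (nat_lit 16410026006) (nat_lit 45) (nat_lit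 5) (nat_lit 49) (nat_lit 5) (nat_lit 46) (nat_lit 5) (nat_lit 368) (nat_lit 331) (nat_lit 201)) (XT.lf (nat_lit 0) (nat_lit 8882241384) (nat_lit 152) (nat_lit 20045207515) (nat_lit 228) (nat_lit 26117299861) (nat_lit 43) (nat_lit 5) (nat_lit 45) (nat_lit 5) (nat_lit 46) (nat_lit 5) (nat_lit 369) (nat_lit 331) (nat_lit 200))))))))
noncomputable def xc179 : XT := (XT.nd (nat_lit 1794) (nat_lit 836) (nat_lit 0) (XT.nd (nat_lit 858) (nat_lit 836) (nat_lit 0) (XT.nd (nat_lit 390) (nat_lit 456) (nat_lit 0) (XT.nd (nat_lit 156) (nat_lit 228) (nat_lit 0) (XT.nd (nat_lit 78) (nat_lit 152) (nat_lit 0) (XT.lf (nat_lit 0) (nat_lit 39048827697) (nat_lit 152) (nat_lit 2036555006) (nat_lit 228) (nat_lit 15793546627) (nat_lit 43) (nat_lit 5) (nat_lit 45) (nat_lit 5) (nat_lit 46) (nat_lit 5) (nat_lit 370) (nat_lit 331) (nat_lit 199)) (XT.lf (nat_lit 0) (nat_lit 12036052692) (nat_lit 152) (nat_lit 42263600574)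 (nat_lit 228) (nat_lit 4482745269) (nat_lit 41) (nat_lit 5) (nat_lit 43) (nat_lit 5) (nat_lit 44) (nat_lit 5) (nat_lit 371) (nat_lit 331) (nat_lit 198))) (XT.nd (nat_lit 78) (nat_lit 152) (nat_lit 0) (XT.lf (nat_lit 0) (nat_lit 7494367213) (nat_lit 228) (nat_lit 16909873191) (nat_lit 76) (nat_lit 36354159905) (nat_lit 40) (nat_lit 5) (nat_lit 43) (nat_lit 5) (nat_lit 41) (nat_lit 5) (nat_lit 372) (nat_lit 331) (nat_lit 197)) (XT.nd (nat_lit 78) (nat_lit 0) (nat_lit 0) (XT.lf (nat_lit 0) (nat_lit 14814624966) (nat_lit 152) (nat_lit 5333610507) (nat_lit 228) (nat_lit 42669866217) (nat_lit 38) (nat_lit 5) (nat_lit 40) (nat_lit 5) (nat_lit 41) (nat_lit 5) (nat_lit 373) (nat_lit 331) (nat_lit 196)) (XT.lf (nat_lit 0) (nat_lit 33952516814) (nat_lit 228) (nat_lit 16492611801) (nat_lit 76) (nat_lit 14509774868) (nat_lit 38) (nat_lit 5) (nat_lit 41) (nat_lit 5) (nat_lit 39) (nat_lit 5) (nat_lit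 374) (nat_lit 331) (nat_lit 195))))) (XT.nd (nat_lit 234) (nat_lit 152) (nat_lit 0) (XT.nd (nat_lit 78) (nat_lit 152) (nat_lit 0) (XT.lf (nat_lit 0) (nat_lit 17047699869) (nat_lit 152) (nat_lit 31750327540) (nat_lit 228) (nat_lit 18382968457) (nat_lit 36) (nat_lit 5) (nat_lit 38) (nat_lit 5) (nat_lit 39) (nat_lit 5) (nat_lit 375) (nat_lit 331) (nat_lit 194)) (XT.nd (nat_lit 78) (nat_lit 152) (nat_lit 0) (XT.lf (nat_lit 0) (nat_lit 52833389488) (nat_lit 152) (nat_lit 11829208063) (nat_lit 228) (nat_lit 4841957320) (nat_lit 36) (nat_lit 5) (nat_lit 38) (nat_lit 5) (nat_lit 39) (nat_lit 5) (nat_lit 376) (nat_lit 331) (nat_lit 193)) (XT.lf (nat_lit 0) (nat_lit 9518049045) (nat_lit 152) (nat_lit 53152322288) (nat_lit 76) (nat_lit 9244500291) (nat_lit 34) (nat_lit 5) (nat_lit 36) (nat_lit 5) (nat_lit 35) (nat_lit 5) (nat_lit 377) (nat_lit 331) (nat_lit 192)))) (XT.nd (nat_lit 78) (nat_lit 152)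 (nat_lit 0) (XT.lf (nat_lit 0) (nat_lit 24911799507) (nat_lit 152) (nat_lit 18166912241) (nat_lit 76) (nat_lit 31339101422) (nat_lit 34) (nat_lit 5) (nat_lit 36) (nat_lit 5) (nat_lit 35) (nat_lit 5) (nat_lit 378) (nat_lit 331) (nat_lit 191)) (XT.nd (nat_lit 78) (nat_lit 0) (nat_lit 0) (XT.lf (nat_lit 0) (nat_lit 19177635726) (nat_lit 152) (nat_lit 22194714755) (nat_lit 228) (nat_lit 35658696652) (nat_lit 32) (nat_lit 5) (nat_lit 34) (nat_lit 5) (nat_lit 35) (nat_lit 5) (nat_lit 379) (nat_lit 331) (nat_lit 190)) (XT.lf (nat_lit 0) (nat_lit 58962197361) (nat_lit 228) (nat_lit 20744278450) (nat_lit 76) (nat_lit 53154507) (nat_lit 32) (nat_lit 5) (nat_lit 35) (nat_lit 5) (nat_lit 33) (nat_lit 4) (nat_lit 380) (nat_lit 331) (nat_lit 189)))))) (XT.nd (nat_lit 468) (nat_lit 456) (nat_lit 0) (XT.nd (nat_lit 234) (nat_lit 76) (nat_lit 0) (XT.nd (nat_lit 78) (nat_lit 228) (nat_lit 0) (XT.lf (nat_lit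 0) (nat_lit 18442981004) (nat_lit 76) (nat_lit 59638178843) (nat_lit 152) (nat_lit 4511002548) (nat_lit 31) (nat_lit 5) (nat_lit 32) (nat_lit 5) (nat_lit 33) (nat_lit 4) (nat_lit 381) (nat_lit 331) (nat_lit 188)) (XT.nd (nat_lit 78) (nat_lit 152) (nat_lit 0) (XT.lf (nat_lit 0) (nat_lit 12541711038) (nat_lit 152) (nat_lit 25445062306) (nat_lit 76) (nat_lit 47551974869) (nat_lit 30) (nat_lit 5) (nat_lit 32) (nat_lit 5) (nat_lit 31) (nat_lit 5) (nat_lit 382) (nat_lit 331) (nat_lit 187)) (XT.lf (nat_lit 0) (nat_lit 15616534341) (nat_lit 152) (nat_lit 14920686103) (nat_lit 228) (nat_lit 58079658139) (nat_lit 28) (nat_lit 5) (nat_lit 30) (nat_lit 5) (nat_lit 31) (nat_lit 5) (nat_lit 383) (nat_lit 331) (nat_lit 186)))) (XT.nd (nat_lit 78) (nat_lit 76) (nat_lit 0) (XT.lf (nat_lit 0) (nat_lit 50013633259) (nat_lit 228) (nat_lit 32368630170) (nat_lit 76) (nat_lit 9437596383) (nat_lit 28) (nat_lit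 5) (nat_lit 31) (nat_lit 5) (nat_lit 29) (nat_lit 4) (nat_lit 384) (nat_lit 331) (nat_lit 185)) (XT.nd (nat_lit 78) (nat_lit 0) (nat_lit 0) (XT.lf (nat_lit 0) (nat_lit 10378803620) (nat_lit 76) (nat_lit 60489764152) (nat_lit 152) (nat_lit 24294187981) (nat_lit 27) (nat_lit 5) (nat_lit 28) (nat_lit 5) (nat_lit 29) (nat_lit 4) (nat_lit 385) (nat_lit 331) (nat_lit 184)) (XT.lf (nat_lit 0) (nat_lit 56383979407) (nat_lit 76) (nat_lit 36928544945) (nat_lit 152) (nat_lit 5332959041) (nat_lit 27) (nat_lit 5) (nat_lit 28) (nat_lit 5) (nat_lit 29) (nat_lit 4) (nat_lit 386) (nat_lit 331) (nat_lit 183))))) (XT.nd (nat_lit 234) (nat_lit 228) (nat_lit 0) (XT.nd (nat_lit 78) (nat_lit 0) (nat_lit 0) (XT.lf (nat_lit 0) (nat_lit 2227487401) (nat_lit 152) (nat_lit 11915244851) (nat_lit 228) (nat_lit 88146590173) (nat_lit 24) (nat_lit 5) (nat_lit 26) (nat_lit 5) (nat_lit 27) (nat_lit 5) (nat_lit 387) (nat_lit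 331) (nat_lit 182)) (XT.nd (nat_lit 78) (nat_lit 0) (nat_lit 0) (XT.lf (nat_lit 0) (nat_lit 35362633494) (nat_lit 228) (nat_lit 55997908078) (nat_lit 76) (nat_lit 14702958747) (nat_lit 24) (nat_lit 5) (nat_lit 27) (nat_lit 5) (nat_lit 25) (nat_lit 4) (nat_lit 388) (nat_lit 331) (nat_lit 181)) (XT.lf (nat_lit 0) (nat_lit 57837120657) (nat_lit 228) (nat_lit 9929269597) (nat_lit 76) (nat_lit 42250317863) (nat_lit 24) (nat_lit 5) (nat_lit 27) (nat_lit 5) (nat_lit 25) (nat_lit 4) (nat_lit 389) (nat_lit 331) (nat_lit 180)))) (XT.nd (nat_lit 78) (nat_lit 152) (nat_lit 0) (XT.lf (nat_lit 0) (nat_lit 39710791340) (nat_lit 76) (nat_lit 42342879462) (nat_lit 152) (nat_lit 32082989096) (nat_lit 23) (nat_lit 5) (nat_lit 24) (nat_lit 5) (nat_lit 25) (nat_lit 4) (nat_lit 390) (nat_lit 331) (nat_lit 179)) (XT.nd (nat_lit 78) (nat_lit 152) (nat_lit 0) (XT.lf (nat_lit 0) (nat_lit 92174622787) (nat_lit 76)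 (nat_lit 15472957366) (nat_lit 152) (nat_lit 10806703029) (nat_lit 23) (nat_lit 5) (nat_lit 24) (nat_lit 5) (nat_lit 25) (nat_lit 4) (nat_lit 391) (nat_lit 331) (nat_lit 178)) (XT.lf (nat_lit 0) (nat_lit 11759462107) (nat_lit 152) (nat_lit 98280173045) (nat_lit 76) (nat_lit 12909389223) (nat_lit 21) (nat_lit 5) (nat_lit 23) (nat_lit 5) (nat_lit 22) (nat_lit 4) (nat_lit 392) (nat_lit 331) (nat_lit 177))))))) (XT.nd (nat_lit 936) (nat_lit 380) (nat_lit 0) (XT.nd (nat_lit 468) (nat_lit 228) (nat_lit 0) (XT.nd (nat_lit 234) (nat_lit 152) (nat_lit 0) (XT.nd (nat_lit 78) (nat_lit 76) (nat_lit 0) (XT.lf (nat_lit 0) (nat_lit 35795206509) (nat_lit 152) (nat_lit 49010078294) (nat_lit 76) (nat_lit 42819137946) (nat_lit 21) (nat_lit 5) (nat_lit 23) (nat_lit 5) (nat_lit 22) (nat_lit 4) (nat_lit 393) (nat_lit 331) (nat_lit 176)) (XT.nd (nat_lit 78) (nat_lit 0) (nat_lit 0) (XT.lf (nat_lit 0) (nat_lit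 2810741950) (nat_lit 76) (nat_lit 58264391403) (nat_lit 152) (nat_lit 71456338341) (nat_lit 20) (nat_lit 5) (nat_lit 21) (nat_lit 5) (nat_lit 22) (nat_lit 4) (nat_lit 394) (nat_lit 331) (nat_lit 175)) (XT.lf (nat_lit 0) (nat_lit 58921426122) (nat_lit 76) (nat_lit 29526180247) (nat_lit 152) (nat_lit 49194839617) (nat_lit 20) (nat_lit 5) (nat_lit 21) (nat_lit 5) (nat_lit 22) (nat_lit 4) (nat_lit 395) (nat_lit 331) (nat_lit 174)))) (XT.nd (nat_lit 78) (nat_lit 152) (nat_lit 0) (XT.lf (nat_lit 0) (nat_lit 117197426382) (nat_lit 152) (nat_lit 25184075708) (nat_lit 0) (nat_lit 627031106) (nat_lit 20) (nat_lit 5) (nat_lit 22) (nat_lit 4) (nat_lit 20) (nat_lit 4) (nat_lit 396) (nat_lit 331) (nat_lit 173)) (XT.nd (nat_lit 78) (nat_lit 76) (nat_lit 0) (XT.lf (nat_lit 0) (nat_lit 31553080862) (nat_lit 76) (nat_lit 116806982915) (nat_lit 76) (nat_lit 234095027) (nat_lit 19) (nat_lit 4) (nat_lit 20)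 (nat_lit 5) (nat_lit 20) (nat_lit 4) (nat_lit 397) (nat_lit 331) (nat_lit 172)) (XT.lf (nat_lit 0) (nat_lit 26201863201) (nat_lit 152) (nat_lit 62861442242) (nat_lit 76) (nat_lit 65353370618) (nat_lit 18) (nat_lit 5) (nat_lit 20) (nat_lit 5) (nat_lit 19) (nat_lit 4) (nat_lit 398) (nat_lit 331) (nat_lit 171))))) (XT.nd (nat_lit 234) (nat_lit 152) (nat_lit 0) (XT.nd (nat_lit 78) (nat_lit 76) (nat_lit 0) (XT.lf (nat_lit 0) (nat_lit 53950478190) (nat_lit 152) (nat_lit 5979042387) (nat_lit 76) (nat_lit 100600670730) (nat_lit 18) (nat_lit 5) (nat_lit 20) (nat_lit 5) (nat_lit 19) (nat_lit 4) (nat_lit 399) (nat_lit 331) (nat_lit 170)) (XT.nd (nat_lit 78) (nat_lit 0) (nat_lit 0) (XT.lf (nat_lit 0) (nat_lit 55522270177) (nat_lit 76) (nat_lit 28429898635) (nat_lit 152) (nat_lit 82953931550) (nat_lit 17) (nat_lit 5) (nat_lit 18) (nat_lit 5) (nat_lit 19) (nat_lit 4) (nat_lit 400) (nat_lit 331) (nat_lit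 169)) (XT.lf (nat_lit 0) (nat_lit 115628172135) (nat_lit 152) (nat_lit 53365965250) (nat_lit 0) (nat_lit 4597956356) (nat_lit 17) (nat_lit 5) (nat_lit 19) (nat_lit 4) (nat_lit 17) (nat_lit 4) (nat_lit 401) (nat_lit 331) (nat_lit 168)))) (XT.nd (nat_lit 78) (nat_lit 76) (nat_lit 0) (XT.lf (nat_lit 0) (nat_lit 7318811280) (nat_lit 76) (nat_lit 142148346241) (nat_lit 76) (nat_lit 31116270437) (nat_lit 16) (nat_lit 4) (nat_lit 17) (nat_lit 5) (nat_lit 17) (nat_lit 4) (nat_lit 402) (nat_lit 331) (nat_lit 167)) (XT.nd (nat_lit 78) (nat_lit 76) (nat_lit 0) (XT.lf (nat_lit 0) (nat_lit 72888441967) (nat_lit 76) (nat_lit 113012300946) (nat_lit 76) (nat_lit 1978453689) (nat_lit 16) (nat_lit 4) (nat_lit 17) (nat_lit 5) (nat_lit 17) (nat_lit 4) (nat_lit 403) (nat_lit 331) (nat_lit 166)) (XT.lf (nat_lit 0) (nat_lit 27699263211) (nat_lit 152) (nat_lit 54252044772) (nat_lit 76) (nat_lit 113566161520) (nat_lit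 15) (nat_lit 5) (nat_lit 17) (nat_lit 5) (nat_lit 16) (nat_lit 4) (nat_lit 404) (nat_lit 331) (nat_lit 165)))))) (XT.nd (nat_lit 468) (nat_lit 152) (nat_lit 0) (XT.nd (nat_lit 234) (nat_lit 152) (nat_lit 0) (XT.nd (nat_lit 78) (nat_lit 0) (nat_lit 0) (XT.lf (nat_lit 0) (nat_lit 9802955711) (nat_lit 76) (nat_lit 49143432984) (nat_lit 152) (nat_lit 144582045300) (nat_lit 14) (nat_lit 5) (nat_lit 15) (nat_lit 5) (nat_lit 16) (nat_lit 4) (nat_lit 405) (nat_lit 331) (nat_lit 164)) (XT.nd (nat_lit 78) (nat_lit 0) (nat_lit 0) (XT.lf (nat_lit 0) (nat_lit 78942279425) (nat_lit 76) (nat_lit 13731355105) (nat_lit 152) (nat_lit 119220424186) (nat_lit 14) (nat_lit 5) (nat_lit 15) (nat_lit 5) (nat_lit 16) (nat_lit 4) (nat_lit 406) (nat_lit 331) (nat_lit 163)) (XT.lf (nat_lit 0) (nat_lit 128452398032) (nat_lit 152) (nat_lit 69507414602) (nat_lit 0) (nat_lit 22699894469) (nat_lit 14) (nat_lit 5) (nat_lit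 16) (nat_lit 4) (nat_lit 14) (nat_lit 4) (nat_lit 407) (nat_lit 331) (nat_lit 162)))) (XT.nd (nat_lit 78) (nat_lit 152) (nat_lit 0) (XT.lf (nat_lit 0) (nat_lit 166244265265) (nat_lit 152) (nat_lit 3117724737) (nat_lit 0) (nat_lit 60490439816) (nat_lit 14) (nat_lit 5) (nat_lit 16) (nat_lit 4) (nat_lit 14) (nat_lit 4) (nat_lit 408) (nat_lit 331) (nat_lit 161)) (XT.nd (nat_lit 78) (nat_lit 76) (nat_lit 0) (XT.lf (nat_lit 0) (nat_lit 68791503656) (nat_lit 76) (nat_lit 138207356434) (nat_lit 76) (nat_lit 32452272047) (nat_lit 13) (nat_lit 4) (nat_lit 14) (nat_lit 5) (nat_lit 14) (nat_lit 4) (nat_lit 409) (nat_lit 331) (nat_lit 160)) (XT.lf (nat_lit 0) (nat_lit 305821840) (nat_lit 152) (nat_lit 105129348603) (nat_lit 76) (nat_lit 144091756536) (nat_lit 12) (nat_lit 5) (nat_lit 14) (nat_lit 5) (nat_lit 13) (nat_lit 4) (nat_lit 410) (nat_lit 331) (nat_lit 159))))) (XT.nd (nat_lit 234) (nat_lit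 76) (nat_lit 0) (XT.nd (nat_lit 78) (nat_lit 76) (nat_lit 0) (XT.lf (nat_lit 0) (nat_lit 33610361677) (nat_lit 152) (nat_lit 36856183831) (nat_lit 76) (nat_lit 189613408468) (nat_lit 12) (nat_lit 5) (nat_lit 14) (nat_lit 5) (nat_lit 13) (nat_lit 4) (nat_lit 411) (nat_lit 331) (nat_lit 158)) (XT.nd (nat_lit 78) (nat_lit 0) (nat_lit 0) (XT.lf (nat_lit 0) (nat_lit 35980698973) (nat_lit 76) (nat_lit 33160379935) (nat_lit 152) (nat_lit 201991506042) (nat_lit 11) (nat_lit 5) (nat_lit 12) (nat_lit 5) (nat_lit 13) (nat_lit 4) (nat_lit 412) (nat_lit 331) (nat_lit 157)) (XT.lf (nat_lit 0) (nat_lit 107175785997) (nat_lit 152) (nat_lit 169073282463) (nat_lit 0) (nat_lit 6452406453) (nat_lit 11) (nat_lit 5) (nat_lit 13) (nat_lit 4) (nat_lit 11) (nat_lit 4) (nat_lit 413) (nat_lit 331) (nat_lit 156)))) (XT.nd (nat_lit 78) (nat_lit 76) (nat_lit 0) (XT.lf (nat_lit 0) (nat_lit 147655073847) (nat_lit 152)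 (nat_lit 100235838526) (nat_lit 0) (nat_lit 46930754865) (nat_lit 11) (nat_lit 5) (nat_lit 13) (nat_lit 4) (nat_lit 11) (nat_lit 4) (nat_lit 414) (nat_lit 331) (nat_lit 155)) (XT.nd (nat_lit 78) (nat_lit 76) (nat_lit 0) (XT.lf (nat_lit 0) (nat_lit 190157595254) (nat_lit 152) (nat_lit 27957929027) (nat_lit 0) (nat_lit 89432381567) (nat_lit 11) (nat_lit 5) (nat_lit 13) (nat_lit 4) (nat_lit 11) (nat_lit 4) (nat_lit 415) (nat_lit 331) (nat_lit 154)) (XT.lf (nat_lit 0) (nat_lit 49517402413) (nat_lit 76) (nat_lit 186040249707) (nat_lit 76) (nat_lit 85314183921) (nat_lit 10) (nat_lit 4) (nat_lit 11) (nat_lit 5) (nat_lit 11) (nat_lit 4) (nat_lit 416) (nat_lit 331) (nat_lit 153))))))))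
noncomputable def xc180 : XT := (XT.nd (nat_lit 40950) (nat_lit 0) (nat_lit 3648) (XT.nd (nat_lit 858) (nat_lit 76) (nat_lit 0) (XT.nd (nat_lit 390) (nat_lit 76) (nat_lit 0) (XT.nd (nat_lit 156) (nat_lit 152) (nat_lit 0) (XT.nd (nat_lit 78) (nat_lit 0) (nat_lit 0) (XT.lf (nat_lit 0) (nat_lit 131835818545) (nat_lit 76) (nat_lit 151864690871) (nat_lit 76) (nat_lit 51137813562) (nat_lit 10) (nat_lit 4) (nat_lit 11) (nat_lit 5) (nat_lit 11) (nat_lit 4) (nat_lit 417) (nat_lit 331) (nat_lit 152)) (XT.lf (nat_lit 0) (nat_lit 218268900204) (nat_lit 76) (nat_lit 115980958452) (nat_lit 76) (nat_lit 15253308264) (nat_lit 10) (nat_lit 4) (nat_lit 11) (nat_lit 5) (nat_lit 11) (nat_lit 4) (nat_lit 418) (nat_lit 331) (nat_lit 151))) (XT.nd (nat_lit 78) (nat_lit 76) (nat_lit 0) (XT.lf (nat_lit 0) (nat_lit 21707038544) (nat_lit 152) (nat_lit 56228957247) (nat_lit 76) (nat_lit 286947782693) (nat_lit 9) (nat_lit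 5) (nat_lit 11) (nat_lit 5) (nat_lit 10) (nat_lit 4) (nat_lit 419) (nat_lit 331) (nat_lit 150)) (XT.nd (nat_lit 78) (nat_lit 0) (nat_lit 0) (XT.lf (nat_lit 0) (nat_lit 23011930432) (nat_lit 76) (nat_lit 37349541625) (nat_lit 152) (nat_lit 320641511924) (nat_lit 8) (nat_lit 5) (nat_lit 9) (nat_lit 5) (nat_lit 10) (nat_lit 4) (nat_lit 420) (nat_lit 331) (nat_lit 149)) (XT.lf (nat_lit 0) (nat_lit 101998125441) (nat_lit 152) (nat_lit 289812523985) (nat_lit 0) (nat_lit 6065025509) (nat_lit 8) (nat_lit 5) (nat_lit 10) (nat_lit 4) (nat_lit 8) (nat_lit 4) (nat_lit 421) (nat_lit 331) (nat_lit 148))))) (XT.nd (nat_lit 234) (nat_lit 76) (nat_lit 0) (XT.nd (nat_lit 78) (nat_lit 0) (nat_lit 0) (XT.lf (nat_lit 0) (nat_lit 146328329546) (nat_lit 152) (nat_lit 218838461032) (nat_lit 0) (nat_lit 50394624042) (nat_lit 8) (nat_lit 5) (nat_lit 10) (nat_lit 4) (nat_lit 8) (nat_lit 4) (nat_lit 422) (nat_lit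 331) (nat_lit 147)) (XT.nd (nat_lit 78) (nat_lit 0) (nat_lit 0) (XT.lf (nat_lit 0) (nat_lit 192874501460) (nat_lit 152) (nat_lit 144316747808) (nat_lit 0) (nat_lit 96940219223) (nat_lit 8) (nat_lit 5) (nat_lit 10) (nat_lit 4) (nat_lit 8) (nat_lit 4) (nat_lit 423) (nat_lit 331) (nat_lit 146)) (XT.lf (nat_lit 0) (nat_lit 241747465403) (nat_lit 152) (nat_lit 66069951663) (nat_lit 0) (nat_lit 145812633895) (nat_lit 8) (nat_lit 5) (nat_lit 10) (nat_lit 4) (nat_lit 8) (nat_lit 4) (nat_lit 424) (nat_lit 331) (nat_lit 145)))) (XT.nd (nat_lit 78) (nat_lit 0) (nat_lit 0) (XT.lf (nat_lit 0) (nat_lit 16620178813) (nat_lit 76) (nat_lit 276702894330) (nat_lit 76) (nat_lit 180767539707) (nat_lit 7) (nat_lit 4) (nat_lit 8) (nat_lit 5) (nat_lit 8) (nat_lit 4) (nat_lit 425) (nat_lit 331) (nat_lit 144)) (XT.nd (nat_lit 78) (nat_lit 0) (nat_lit 0) (XT.lf (nat_lit 0) (nat_lit 105737675759) (nat_lit 76) (nat_lit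 242858228902) (nat_lit 76) (nat_lit 146922376074) (nat_lit 7) (nat_lit 4) (nat_lit 8) (nat_lit 5) (nat_lit 8) (nat_lit 4) (nat_lit 426) (nat_lit 331) (nat_lit 143)) (XT.lf (nat_lit 0) (nat_lit 199310152705) (nat_lit 76) (nat_lit 207321764848) (nat_lit 76) (nat_lit 111385437539) (nat_lit 7) (nat_lit 4) (nat_lit 8) (nat_lit 5) (nat_lit 8) (nat_lit 4) (nat_lit 427) (nat_lit 331) (nat_lit 142)))))) (XT.nd (nat_lit 39624) (nat_lit 0) (nat_lit 7220) (XT.nd (nat_lit 39390) (nat_lit 0) (nat_lit 7220) (XT.nd (nat_lit 78) (nat_lit 76) (nat_lit 0) (XT.lf (nat_lit 0) (nat_lit 297560401266) (nat_lit 76) (nat_lit 170008891537) (nat_lit 76) (nat_lit 74072112342) (nat_lit 7) (nat_lit 4) (nat_lit 8) (nat_lit 5) (nat_lit 8) (nat_lit 4) (nat_lit 428) (nat_lit 331) (nat_lit 141)) (XT.nd (nat_lit 78) (nat_lit 76) (nat_lit 0) (XT.lf (nat_lit 0) (nat_lit 400722350603) (nat_lit 76) (nat_lit 130830768797) (nat_lit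 76) (nat_lit 34893559234) (nat_lit 7) (nat_lit 4) (nat_lit 8) (nat_lit 5) (nat_lit 8) (nat_lit 4) (nat_lit 429) (nat_lit 331) (nat_lit 140)) (XT.lf (nat_lit 0) (nat_lit 6043672933) (nat_lit 152) (nat_lit 83548089922) (nat_lit 76) (nat_lit 502895598945) (nat_lit 6) (nat_lit 5) (nat_lit 8) (nat_lit 5) (nat_lit 7) (nat_lit 4) (nat_lit 430) (nat_lit 331) (nat_lit 139)))) (XT.nd (nat_lit 78) (nat_lit 760) (nat_lit 0) (XT.lf (nat_lit 0) (nat_lit 4834816370) (nat_lit 0) (nat_lit 4834816370) (nat_lit 684) (nat_lit 98423077) (nat_lit 111) (nat_lit 5) (nat_lit 111) (nat_lit 3) (nat_lit 120) (nat_lit 3) (nat_lit 332) (nat_lit 332) (nat_lit 236)) (XT.nd (nat_lit 78) (nat_lit 760) (nat_lit 0) (XT.lf (nat_lit 0) (nat_lit 19396816818) (nat_lit 0) (nat_lit 590817186) (nat_lit 684) (nat_lit 28450122) (nat_lit 111) (nat_lit 5) (nat_lit 111) (nat_lit 3) (nat_lit 120) (nat_lit 3) (nat_lit 333) (nat_lit 332)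 (nat_lit 235)) (XT.lf (nat_lit 0) (nat_lit 421494865) (nat_lit 760) (nat_lit 11272643036) (nat_lit 836) (nat_lit 8811918967) (nat_lit 101) (nat_lit 5) (nat_lit 111) (nat_lit 5) (nat_lit 112) (nat_lit 5) (nat_lit 334) (nat_lit 332) (nat_lit 234))))) (XT.nd (nat_lit 234) (nat_lit 0) (nat_lit 152) (XT.nd (nat_lit 78) (nat_lit 0) (nat_lit 76) (XT.lf (nat_lit 0) (nat_lit 903085715) (nat_lit 760) (nat_lit 1436252811) (nat_lit 836) (nat_lit 18680671962) (nat_lit 101) (nat_lit 5) (nat_lit 111) (nat_lit 5) (nat_lit 112) (nat_lit 5) (nat_lit 335) (nat_lit 332) (nat_lit 233)) (XT.nd (nat_lit 78) (nat_lit 0) (nat_lit 0) (XT.lf (nat_lit 0) (nat_lit 1661571630) (nat_lit 760) (nat_lit 12492326833) (nat_lit 836) (nat_lit 7393132832) (nat_lit 102) (nat_lit 5) (nat_lit 112) (nat_lit 5) (nat_lit 113) (nat_lit 5) (nat_lit 336) (nat_lit 332) (nat_lit 232)) (XT.lf (nat_lit 0) (nat_lit 2511732134) (nat_lit 760)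 (nat_lit 2024163697) (nat_lit 836) (nat_lit 17561829592) (nat_lit 102) (nat_lit 5) (nat_lit 112) (nat_lit 5) (nat_lit 113) (nat_lit 5) (nat_lit 337) (nat_lit 332) (nat_lit 231)))) (XT.nd (nat_lit 78) (nat_lit 0) (nat_lit 0) (XT.lf (nat_lit 0) (nat_lit 3629330005) (nat_lit 760) (nat_lit 13500738083) (nat_lit 836) (nat_lit 5534649026) (nat_lit 103) (nat_lit 5) (nat_lit 113) (nat_lit 5) (nat_lit 114) (nat_lit 5) (nat_lit 338) (nat_lit 332) (nat_lit 230)) (XT.nd (nat_lit 78) (nat_lit 0) (nat_lit 76) (XT.lf (nat_lit 0) (nat_lit 4903502719) (nat_lit 760) (nat_lit 2357843909) (nat_lit 836) (nat_lit 15993685898) (nat_lit 103) (nat_lit 5) (nat_lit 113) (nat_lit 5) (nat_lit 114) (nat_lit 5) (nat_lit 339) (nat_lit 332) (nat_lit 229)) (XT.lf (nat_lit 0) (nat_lit 6434777997) (nat_lit 760) (nat_lit 14273849433) (nat_lit 836) (nat_lit 3156575042) (nat_lit 104) (nat_lit 5) (nat_lit 114) (nat_lit 5) (nat_lit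 115) (nat_lit 5) (nat_lit 340) (nat_lit 332) (nat_lit 228))))))) (XT.nd (nat_lit 936) (nat_lit 1672) (nat_lit 0) (XT.nd (nat_lit 468) (nat_lit 1064) (nat_lit 0) (XT.nd (nat_lit 234) (nat_lit 1064) (nat_lit 0) (XT.nd (nat_lit 78) (nat_lit 0) (nat_lit 76) (XT.lf (nat_lit 0) (nat_lit 8194461196) (nat_lit 760) (nat_lit 2410115591) (nat_lit 836) (nat_lit 13893719978) (nat_lit 104) (nat_lit 5) (nat_lit 114) (nat_lit 5) (nat_lit 115) (nat_lit 5) (nat_lit 341) (nat_lit 332) (nat_lit 227)) (XT.nd (nat_lit 78) (nat_lit 0) (nat_lit 0) (XT.lf (nat_lit 0) (nat_lit 10199414006) (nat_lit 760) (nat_lit 14785380867) (nat_lit 76) (nat_lit 170394300) (nat_lit 105) (nat_lit 5) (nat_lit 115) (nat_lit 5) (nat_lit 106) (nat_lit 5) (nat_lit 342) (nat_lit 332) (nat_lit 226)) (XT.lf (nat_lit 0) (nat_lit 12512812925) (nat_lit 760) (nat_lit 2151384090) (nat_lit 76) (nat_lit 11170326569) (nat_lit 105) (nat_lit 5) (nat_lit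 115) (nat_lit 5) (nat_lit 106) (nat_lit 5) (nat_lit 343) (nat_lit 332) (nat_lit 225)))) (XT.nd (nat_lit 78) (nat_lit 380) (nat_lit 0) (XT.lf (nat_lit 0) (nat_lit 11475518653) (nat_lit 760) (nat_lit 3638735145) (nat_lit 836) (nat_lit 11424959279) (nat_lit 95) (nat_lit 5) (nat_lit 105) (nat_lit 5) (nat_lit 106) (nat_lit 5) (nat_lit 344) (nat_lit 332) (nat_lit 224)) (XT.nd (nat_lit 78) (nat_lit 380) (nat_lit 0) (XT.lf (nat_lit 0) (nat_lit 18000179249) (nat_lit 836) (nat_lit 1549717138) (nat_lit 76) (nat_lit 7721526659) (nat_lit 95) (nat_lit 5) (nat_lit 106) (nat_lit 5) (nat_lit 96) (nat_lit 5) (nat_lit 345) (nat_lit 332) (nat_lit 223)) (XT.lf (nat_lit 0) (nat_lit 12990043613) (nat_lit 380) (nat_lit 8296577919) (nat_lit 456) (nat_lit 6740817265) (nat_lit 90) (nat_lit 5) (nat_lit 95) (nat_lit 5) (nat_lit 96) (nat_lit 5) (nat_lit 346) (nat_lit 332) (nat_lit 222))))) (XT.nd (nat_lit 234) (nat_lit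 304) (nat_lit 0) (XT.nd (nat_lit 78) (nat_lit 760) (nat_lit 0) (XT.lf (nat_lit 0) (nat_lit 24812973707) (nat_lit 456) (nat_lit 570964916) (nat_lit 76) (nat_lit 3433543336) (nat_lit 90) (nat_lit 5) (nat_lit 96) (nat_lit 5) (nat_lit 91) (nat_lit 5) (nat_lit 347) (nat_lit 332) (nat_lit 221)) (XT.nd (nat_lit 78) (nat_lit 456) (nat_lit 0) (XT.lf (nat_lit 0) (nat_lit 14955505170) (nat_lit 304) (nat_lit 13923897066) (nat_lit 380) (nat_lit 749442832) (nat_lit 86) (nat_lit 5) (nat_lit 90) (nat_lit 5) (nat_lit 91) (nat_lit 5) (nat_lit 348) (nat_lit 332) (nat_lit 220)) (XT.lf (nat_lit 0) (nat_lit 774768238) (nat_lit 380) (nat_lit 1824465169) (nat_lit 456) (nat_lit 27878651966) (nat_lit 80) (nat_lit 5) (nat_lit 85) (nat_lit 5) (nat_lit 86) (nat_lit 5) (nat_lit 349) (nat_lit 332) (nat_lit 219)))) (XT.nd (nat_lit 78) (nat_lit 304) (nat_lit 0) (XT.lf (nat_lit 0) (nat_lit 6507105084) (nat_lit 456) (nat_lit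 14044684789) (nat_lit 76) (nat_lit 10796131077) (nat_lit 80) (nat_lit 5) (nat_lit 86) (nat_lit 5) (nat_lit 81) (nat_lit 5) (nat_lit 350) (nat_lit 332) (nat_lit 218)) (XT.nd (nat_lit 78) (nat_lit 0) (nat_lit 0) (XT.lf (nat_lit 0) (nat_lit 2438902828) (nat_lit 304) (nat_lit 8234224040) (nat_lit 380) (nat_lit 21585198323) (nat_lit 76) (nat_lit 5) (nat_lit 80) (nat_lit 5) (nat_lit 81) (nat_lit 5) (nat_lit 351) (nat_lit 332) (nat_lit 217)) (XT.lf (nat_lit 0) (nat_lit 15357486156) (nat_lit 380) (nat_lit 13051422819) (nat_lit 76) (nat_lit 4789843334) (nat_lit 76) (nat_lit 5) (nat_lit 81) (nat_lit 5) (nat_lit 77) (nat_lit 5) (nat_lit 352) (nat_lit 332) (nat_lit 216)))))) (XT.nd (nat_lit 468) (nat_lit 760) (nat_lit 0) (XT.nd (nat_lit 234) (nat_lit 380) (nat_lit 0) (XT.nd (nat_lit 78) (nat_lit 228) (nat_lit 0) (XT.lf (nat_lit 0) (nat_lit 4560163921) (nat_lit 304) (nat_lit 15917241466) (nat_lit 380)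 (nat_lit 13698732570) (nat_lit 72) (nat_lit 5) (nat_lit 76) (nat_lit 5) (nat_lit 77) (nat_lit 5) (nat_lit 353) (nat_lit 332) (nat_lit 215)) (XT.nd (nat_lit 78) (nat_lit 228) (nat_lit 0) (XT.lf (nat_lit 0) (nat_lit 23499759915) (nat_lit 304) (nat_lit 2569892394) (nat_lit 380) (nat_lit 9121928061) (nat_lit 72) (nat_lit 5) (nat_lit 76) (nat_lit 5) (nat_lit 77) (nat_lit 5) (nat_lit 354) (nat_lit 332) (nat_lit 214)) (XT.lf (nat_lit 0) (nat_lit 7173834220) (nat_lit 228) (nat_lit 25053875537) (nat_lit 304) (nat_lit 4015779114) (nat_lit 69) (nat_lit 5) (nat_lit 72) (nat_lit 5) (nat_lit 73) (nat_lit 5) (nat_lit 355) (nat_lit 332) (nat_lit 213)))) (XT.nd (nat_lit 78) (nat_lit 304) (nat_lit 0) (XT.lf (nat_lit 0) (nat_lit 1541550279) (nat_lit 304) (nat_lit 10021480225) (nat_lit 76) (nat_lit 25771968164) (nat_lit 68) (nat_lit 5) (nat_lit 72) (nat_lit 5) (nat_lit 69) (nat_lit 5) (nat_lit 356) (nat_lit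 332) (nat_lit 212)) (XT.nd (nat_lit 78) (nat_lit 0) (nat_lit 0) (XT.lf (nat_lit 0) (nat_lit 7441676618) (nat_lit 380) (nat_lit 28278875428) (nat_lit 76) (nat_lit 2747249285) (nat_lit 64) (nat_lit 5) (nat_lit 69) (nat_lit 5) (nat_lit 65) (nat_lit 5) (nat_lit 357) (nat_lit 332) (nat_lit 211)) (XT.lf (nat_lit 0) (nat_lit 13994739518) (nat_lit 380) (nat_lit 8088842045) (nat_lit 76) (nat_lit 17555769240) (nat_lit 64) (nat_lit 5) (nat_lit 69) (nat_lit 5) (nat_lit 65) (nat_lit 5) (nat_lit 358) (nat_lit 332) (nat_lit 210))))) (XT.nd (nat_lit 234) (nat_lit 304) (nat_lit 0) (XT.nd (nat_lit 78) (nat_lit 228) (nat_lit 0) (XT.lf (nat_lit 0) (nat_lit 13538761542) (nat_lit 228) (nat_lit 7544140106) (nat_lit 304) (nat_lit 19776206834) (nat_lit 61) (nat_lit 5) (nat_lit 64) (nat_lit 5) (nat_lit 65) (nat_lit 5) (nat_lit 359) (nat_lit 332) (nat_lit 209)) (XT.nd (nat_lit 78) (nat_lit 228) (nat_lit 0) (XT.lf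 (nat_lit 0) (nat_lit 28781425930) (nat_lit 304) (nat_lit 5732589773) (nat_lit 76) (nat_lit 7613043532) (nat_lit 61) (nat_lit 5) (nat_lit 65) (nat_lit 5) (nat_lit 62) (nat_lit 5) (nat_lit 360) (nat_lit 332) (nat_lit 208)) (XT.lf (nat_lit 0) (nat_lit 17361465921) (nat_lit 228) (nat_lit 19894482783) (nat_lit 304) (nat_lit 6182907960) (nat_lit 58) (nat_lit 5) (nat_lit 61) (nat_lit 5) (nat_lit 62) (nat_lit 5) (nat_lit 361) (nat_lit 332) (nat_lit 207)))) (XT.nd (nat_lit 78) (nat_lit 228) (nat_lit 0) (XT.lf (nat_lit 0) (nat_lit 1390178453) (nat_lit 304) (nat_lit 3029754128) (nat_lit 76) (nat_lit 40390517038) (nat_lit 57) (nat_lit 5) (nat_lit 61) (nat_lit 5) (nat_lit 58) (nat_lit 5) (nat_lit 362) (nat_lit 332) (nat_lit 206)) (XT.nd (nat_lit 78) (nat_lit 0) (nat_lit 0) (XT.lf (nat_lit 0) (nat_lit 9662302335) (nat_lit 304) (nat_lit 24660134261) (nat_lit 76) (nat_lit 11896711578) (nat_lit 54) (nat_lit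 5) (nat_lit 58) (nat_lit 5) (nat_lit 55) (nat_lit 5) (nat_lit 363) (nat_lit 332) (nat_lit 205)) (XT.lf (nat_lit 0) (nat_lit 18469253513) (nat_lit 304) (nat_lit 291564141) (nat_lit 76) (nat_lit 28931405215) (nat_lit 54) (nat_lit 5) (nat_lit 58) (nat_lit 5) (nat_lit 55) (nat_lit 5) (nat_lit 364) (nat_lit 332) (nat_lit 204))))))))
noncomputable def xc181 : XT := (XT.nd (nat_lit 1794) (nat_lit 1140) (nat_lit 0) (XT.nd (nat_lit 858) (nat_lit 836) (nat_lit 0) (XT.nd (nat_lit 390) (nat_lit 532) (nat_lit 0) (XT.nd (nat_lit 156) (nat_lit 304) (nat_lit 0) (XT.nd (nat_lit 78) (nat_lit 152) (nat_lit 0) (XT.lf (nat_lit 0) (nat_lit 26126940196) (nat_lit 228) (nat_lit 1994299842) (nat_lit 304) (nat_lit 21097479027) (nat_lit 51) (nat_lit 5) (nat_lit 54) (nat_lit 5) (nat_lit 55) (nat_lit 5) (nat_lit 365) (nat_lit 332) (nat_lit 203)) (XT.lf (nat_lit 0) (nat_lit 2899413693) (nat_lit 152) (nat_lit 35647254054)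 (nat_lit 228) (nat_lit 12260332287) (nat_lit 49) (nat_lit 5) (nat_lit 51) (nat_lit 5) (nat_lit 52) (nat_lit 5) (nat_lit 366) (nat_lit 332) (nat_lit 202))) (XT.nd (nat_lit 78) (nat_lit 304) (nat_lit 0) (XT.lf (nat_lit 0) (nat_lit 30953383577) (nat_lit 152) (nat_lit 18960128158) (nat_lit 228) (nat_lit 2540178030) (nat_lit 49) (nat_lit 5) (nat_lit 51) (nat_lit 5) (nat_lit 52) (nat_lit 5) (nat_lit 367) (nat_lit 332) (nat_lit 201)) (XT.nd (nat_lit 78) (nat_lit 0) (nat_lit 0) (XT.lf (nat_lit 0) (nat_lit 6304866413) (nat_lit 228) (nat_lit 1211200262) (nat_lit 304) (nat_lit 46655892602) (nat_lit 45) (nat_lit 5) (nat_lit 48) (nat_lit 5) (nat_lit 49) (nat_lit 5) (nat_lit 368) (nat_lit 332) (nat_lit 200)) (XT.lf (nat_lit 0) (nat_lit 18628953024) (nat_lit 304) (nat_lit 20035492242) (nat_lit 76) (nat_lit 17277656775) (nat_lit 45) (nat_lit 5) (nat_lit 49) (nat_lit 5) (nat_lit 46) (nat_lit 5) (nat_lit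 369) (nat_lit 332) (nat_lit 199))))) (XT.nd (nat_lit 234) (nat_lit 228) (nat_lit 0) (XT.nd (nat_lit 78) (nat_lit 152) (nat_lit 0) (XT.lf (nat_lit 0) (nat_lit 9466408874) (nat_lit 152) (nat_lit 20995921068) (nat_lit 228) (nat_lit 27330181299) (nat_lit 43) (nat_lit 5) (nat_lit 45) (nat_lit 5) (nat_lit 46) (nat_lit 5) (nat_lit 370) (nat_lit 332) (nat_lit 198)) (XT.nd (nat_lit 78) (nat_lit 152) (nat_lit 0) (XT.lf (nat_lit 0) (nat_lit 41134655197) (nat_lit 152) (nat_lit 2089290543) (nat_lit 228) (nat_lit 16494668192) (nat_lit 43) (nat_lit 5) (nat_lit 45) (nat_lit 5) (nat_lit 46) (nat_lit 5) (nat_lit 371) (nat_lit 332) (nat_lit 197)) (XT.lf (nat_lit 0) (nat_lit 12772529072) (nat_lit 152) (nat_lit 44325219367) (nat_lit 228) (nat_lit 4619569474) (nat_lit 41) (nat_lit 5) (nat_lit 43) (nat_lit 5) (nat_lit 44) (nat_lit 5) (nat_lit 372) (nat_lit 332) (nat_lit 196)))) (XT.nd (nat_lit 78) (nat_lit 152)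 (nat_lit 0) (XT.lf (nat_lit 0) (nat_lit 7949579378) (nat_lit 228) (nat_lit 17624403905) (nat_lit 76) (nat_lit 38218271604) (nat_lit 40) (nat_lit 5) (nat_lit 43) (nat_lit 5) (nat_lit 41) (nat_lit 5) (nat_lit 373) (nat_lit 332) (nat_lit 195)) (XT.nd (nat_lit 78) (nat_lit 0) (nat_lit 0) (XT.lf (nat_lit 0) (nat_lit 15684206854) (nat_lit 152) (nat_lit 5550112878) (nat_lit 228) (nat_lit 44720714611) (nat_lit 38) (nat_lit 5) (nat_lit 40) (nat_lit 5) (nat_lit 41) (nat_lit 5) (nat_lit 374) (nat_lit 332) (nat_lit 194)) (XT.lf (nat_lit 0) (nat_lit 35725814947) (nat_lit 228) (nat_lit 17191490345) (nat_lit 76) (nat_lit 15281522791) (nat_lit 38) (nat_lit 5) (nat_lit 41) (nat_lit 5) (nat_lit 39) (nat_lit 5) (nat_lit 375) (nat_lit 332) (nat_lit 193)))))) (XT.nd (nat_lit 468) (nat_lit 380) (nat_lit 0) (XT.nd (nat_lit 234) (nat_lit 152) (nat_lit 0) (XT.nd (nat_lit 78) (nat_lit 152) (nat_lit 0) (XT.lf (nat_lit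 0) (nat_lit 18023808650) (nat_lit 152) (nat_lit 33288120656) (nat_lit 228) (nat_lit 19224381130) (nat_lit 36) (nat_lit 5) (nat_lit 38) (nat_lit 5) (nat_lit 39) (nat_lit 5) (nat_lit 376) (nat_lit 332) (nat_lit 192)) (XT.nd (nat_lit 78) (nat_lit 152) (nat_lit 0) (XT.lf (nat_lit 0) (nat_lit 55592891140) (nat_lit 152) (nat_lit 12373312979) (nat_lit 228) (nat_lit 5010021138) (nat_lit 36) (nat_lit 5) (nat_lit 38) (nat_lit 5) (nat_lit 39) (nat_lit 5) (nat_lit 377) (nat_lit 332) (nat_lit 191)) (XT.lf (nat_lit 0) (nat_lit 10064802773) (nat_lit 152) (nat_lit 55688861121) (nat_lit 76) (nat_lit 9753378341) (nat_lit 34) (nat_lit 5) (nat_lit 36) (nat_lit 5) (nat_lit 35) (nat_lit 5) (nat_lit 378) (nat_lit 332) (nat_lit 190)))) (XT.nd (nat_lit 78) (nat_lit 152) (nat_lit 0) (XT.lf (nat_lit 0) (nat_lit 26224866888) (nat_lit 152) (nat_lit 18959946156) (nat_lit 76) (nat_lit 32950487956) (nat_lit 34) (nat_lit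 5) (nat_lit 36) (nat_lit 5) (nat_lit 35) (nat_lit 5) (nat_lit 379) (nat_lit 332) (nat_lit 189)) (XT.nd (nat_lit 78) (nat_lit 0) (nat_lit 0) (XT.lf (nat_lit 0) (nat_lit 20249969342) (nat_lit 152) (nat_lit 23257034160) (nat_lit 228) (nat_lit 37372266634) (nat_lit 32) (nat_lit 5) (nat_lit 34) (nat_lit 5) (nat_lit 35) (nat_lit 5) (nat_lit 380) (nat_lit 332) (nat_lit 188)) (XT.lf (nat_lit 0) (nat_lit 61973903228) (nat_lit 228) (nat_lit 21670977247) (nat_lit 76) (nat_lit 99525293) (nat_lit 32) (nat_lit 5) (nat_lit 35) (nat_lit 5) (nat_lit 33) (nat_lit 4) (nat_lit 381) (nat_lit 332) (nat_lit 187))))) (XT.nd (nat_lit 234) (nat_lit 76) (nat_lit 0) (XT.nd (nat_lit 78) (nat_lit 228) (nat_lit 0) (XT.lf (nat_lit 0) (nat_lit 19473862678) (nat_lit 76) (nat_lit 62573620400) (nat_lit 152) (nat_lit 4671149160) (nat_lit 31) (nat_lit 5) (nat_lit 32) (nat_lit 5) (nat_lit 33) (nat_lit 4) (nat_lit 382) (nat_lit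 332) (nat_lit 186)) (XT.nd (nat_lit 78) (nat_lit 152) (nat_lit 0) (XT.lf (nat_lit 0) (nat_lit 13229092013) (nat_lit 152) (nat_lit 26611744214) (nat_lit 76) (nat_lit 49971811936) (nat_lit 30) (nat_lit 5) (nat_lit 32) (nat_lit 5) (nat_lit 31) (nat_lit 5) (nat_lit 383) (nat_lit 332) (nat_lit 185)) (XT.lf (nat_lit 0) (nat_lit 16501229504) (nat_lit 152) (nat_lit 15621897853) (nat_lit 228) (nat_lit 60921621252) (nat_lit 28) (nat_lit 5) (nat_lit 30) (nat_lit 5) (nat_lit 31) (nat_lit 5) (nat_lit 384) (nat_lit 332) (nat_lit 184)))) (XT.nd (nat_lit 78) (nat_lit 76) (nat_lit 0) (XT.lf (nat_lit 0) (nat_lit 52571215585) (nat_lit 228) (nat_lit 33885973542) (nat_lit 76) (nat_lit 9950798063) (nat_lit 28) (nat_lit 5) (nat_lit 31) (nat_lit 5) (nat_lit 29) (nat_lit 4) (nat_lit 385) (nat_lit 332) (nat_lit 183)) (XT.nd (nat_lit 78) (nat_lit 0) (nat_lit 0) (XT.lf (nat_lit 0) (nat_lit 10997201484) (nat_lit 76)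 (nat_lit 63470538597) (nat_lit 152) (nat_lit 25450346663) (nat_lit 27) (nat_lit 5) (nat_lit 28) (nat_lit 5) (nat_lit 29) (nat_lit 4) (nat_lit 386) (nat_lit 332) (nat_lit 182)) (XT.lf (nat_lit 0) (nat_lit 59297899980) (nat_lit 76) (nat_lit 38733340037) (nat_lit 152) (nat_lit 5543844405) (nat_lit 27) (nat_lit 5) (nat_lit 28) (nat_lit 5) (nat_lit 29) (nat_lit 4) (nat_lit 387) (nat_lit 332) (nat_lit 181))))))) (XT.nd (nat_lit 936) (nat_lit 456) (nat_lit 0) (XT.nd (nat_lit 468) (nat_lit 228) (nat_lit 0) (XT.nd (nat_lit 234) (nat_lit 228) (nat_lit 0) (XT.nd (nat_lit 78) (nat_lit 0) (nat_lit 0) (XT.lf (nat_lit 0) (nat_lit 2433829062) (nat_lit 152) (nat_lit 12468929971) (nat_lit 228) (nat_lit 92498368074) (nat_lit 24) (nat_lit 5) (nat_lit 26) (nat_lit 5) (nat_lit 27) (nat_lit 5) (nat_lit 388) (nat_lit 332) (nat_lit 180)) (XT.nd (nat_lit 78) (nat_lit 0) (nat_lit 0) (XT.lf (nat_lit 0) (nat_lit 37181762417)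 (nat_lit 228) (nat_lit 58705449398) (nat_lit 76) (nat_lit 15476897534) (nat_lit 24) (nat_lit 5) (nat_lit 27) (nat_lit 5) (nat_lit 25) (nat_lit 4) (nat_lit 389) (nat_lit 332) (nat_lit 179)) (XT.lf (nat_lit 0) (nat_lit 60777545498) (nat_lit 228) (nat_lit 10337776806) (nat_lit 76) (nat_lit 44399777422) (nat_lit 24) (nat_lit 5) (nat_lit 27) (nat_lit 5) (nat_lit 25) (nat_lit 4) (nat_lit 390) (nat_lit 332) (nat_lit 178)))) (XT.nd (nat_lit 78) (nat_lit 152) (nat_lit 0) (XT.lf (nat_lit 0) (nat_lit 41782868528) (nat_lit 76) (nat_lit 44421092916) (nat_lit 152) (nat_lit 33637136468) (nat_lit 23) (nat_lit 5) (nat_lit 24) (nat_lit 5) (nat_lit 25) (nat_lit 4) (nat_lit 391) (nat_lit 332) (nat_lit 177)) (XT.nd (nat_lit 78) (nat_lit 152) (nat_lit 0) (XT.lf (nat_lit 0) (nat_lit 96865770708) (nat_lit 76) (nat_lit 16209528550) (nat_lit 152) (nat_lit 11299417149) (nat_lit 23) (nat_lit 5) (nat_lit 24) (nat_lit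 5) (nat_lit 25) (nat_lit 4) (nat_lit 392) (nat_lit 332) (nat_lit 176)) (XT.lf (nat_lit 0) (nat_lit 12393210659) (nat_lit 152) (nat_lit 103109893431) (nat_lit 76) (nat_lit 13591070097) (nat_lit 21) (nat_lit 5) (nat_lit 23) (nat_lit 5) (nat_lit 22) (nat_lit 4) (nat_lit 393) (nat_lit 332) (nat_lit 175))))) (XT.nd (nat_lit 234) (nat_lit 152) (nat_lit 0) (XT.nd (nat_lit 78) (nat_lit 76) (nat_lit 0) (XT.lf (nat_lit 0) (nat_lit 37628562498) (nat_lit 152) (nat_lit 51380307670) (nat_lit 76) (nat_lit 44994581904) (nat_lit 21) (nat_lit 5) (nat_lit 23) (nat_lit 5) (nat_lit 22) (nat_lit 4) (nat_lit 394) (nat_lit 332) (nat_lit 174)) (XT.nd (nat_lit 78) (nat_lit 0) (nat_lit 0) (XT.lf (nat_lit 0) (nat_lit 3030258837) (nat_lit 76) (nat_lit 61141383960) (nat_lit 152) (nat_lit 74984253385) (nat_lit 20) (nat_lit 5) (nat_lit 21) (nat_lit 5) (nat_lit 22) (nat_lit 4) (nat_lit 395) (nat_lit 332) (nat_lit 173))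 (XT.lf (nat_lit 0) (nat_lit 61942716275) (nat_lit 76) (nat_lit 30967987341) (nat_lit 152) (nat_lit 51611817908) (nat_lit 20) (nat_lit 5) (nat_lit 21) (nat_lit 5) (nat_lit 22) (nat_lit 4) (nat_lit 396) (nat_lit 332) (nat_lit 172)))) (XT.nd (nat_lit 78) (nat_lit 152) (nat_lit 0) (XT.lf (nat_lit 0) (nat_lit 123096588750) (nat_lit 152) (nat_lit 26370206222) (nat_lit 0) (nat_lit 690189938) (nat_lit 20) (nat_lit 5) (nat_lit 22) (nat_lit 4) (nat_lit 20) (nat_lit 4) (nat_lit 397) (nat_lit 332) (nat_lit 171)) (XT.nd (nat_lit 78) (nat_lit 76) (nat_lit 0) (XT.lf (nat_lit 0) (nat_lit 33202629576) (nat_lit 76) (nat_lit 122613979914) (nat_lit 76) (nat_lit 205320230) (nat_lit 19) (nat_lit 4) (nat_lit 20) (nat_lit 5) (nat_lit 20) (nat_lit 4) (nat_lit 398) (nat_lit 332) (nat_lit 170)) (XT.lf (nat_lit 0) (nat_lit 27549274408) (nat_lit 152) (nat_lit 65934800358) (nat_lit 76) (nat_lit 68651560216) (nat_lit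 18) (nat_lit 5) (nat_lit 20) (nat_lit 5) (nat_lit 19) (nat_lit 4) (nat_lit 399) (nat_lit 332) (nat_lit 169)))))) (XT.nd (nat_lit 468) (nat_lit 228) (nat_lit 0) (XT.nd (nat_lit 234) (nat_lit 152) (nat_lit 0) (XT.nd (nat_lit 78) (nat_lit 76) (nat_lit 0) (XT.lf (nat_lit 0) (nat_lit 56683543097) (nat_lit 152) (nat_lit 6211600224) (nat_lit 76) (nat_lit 105659771950) (nat_lit 18) (nat_lit 5) (nat_lit 20) (nat_lit 5) (nat_lit 19) (nat_lit 4) (nat_lit 400) (nat_lit 332) (nat_lit 168)) (XT.nd (nat_lit 78) (nat_lit 0) (nat_lit 0) (XT.lf (nat_lit 0) (nat_lit 58363707093) (nat_lit 76) (nat_lit 29820938611) (nat_lit 152) (nat_lit 87065008111) (nat_lit 17) (nat_lit 5) (nat_lit 18) (nat_lit 5) (nat_lit 19) (nat_lit 4) (nat_lit 401) (nat_lit 332) (nat_lit 167)) (XT.lf (nat_lit 0) (nat_lit 121443241635) (nat_lit 152) (nat_lit 55970835430) (nat_lit 0) (nat_lit 4855930562) (nat_lit 17) (nat_lit 5) (nat_lit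 19) (nat_lit 4) (nat_lit 17) (nat_lit 4) (nat_lit 402) (nat_lit 332) (nat_lit 166)))) (XT.nd (nat_lit 78) (nat_lit 76) (nat_lit 0) (XT.lf (nat_lit 0) (nat_lit 7747156893) (nat_lit 76) (nat_lit 149226390816) (nat_lit 76) (nat_lit 32637392645) (nat_lit 16) (nat_lit 4) (nat_lit 17) (nat_lit 5) (nat_lit 17) (nat_lit 4) (nat_lit 403) (nat_lit 332) (nat_lit 165)) (XT.nd (nat_lit 78) (nat_lit 76) (nat_lit 0) (XT.lf (nat_lit 0) (nat_lit 76592297445) (nat_lit 76) (nat_lit 118634941958) (nat_lit 76) (nat_lit 2044337027) (nat_lit 16) (nat_lit 4) (nat_lit 17) (nat_lit 5) (nat_lit 17) (nat_lit 4) (nat_lit 404) (nat_lit 332) (nat_lit 164)) (XT.lf (nat_lit 0) (nat_lit 29114685306) (nat_lit 152) (nat_lit 56907030301) (nat_lit 76) (nat_lit 119270098044) (nat_lit 15) (nat_lit 5) (nat_lit 17) (nat_lit 5) (nat_lit 16) (nat_lit 4) (nat_lit 405) (nat_lit 332) (nat_lit 163))))) (XT.nd (nat_lit 234) (nat_lit 152)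 (nat_lit 0) (XT.nd (nat_lit 78) (nat_lit 0) (nat_lit 0) (XT.lf (nat_lit 0) (nat_lit 10349790905) (nat_lit 76) (nat_lit 51573810783) (nat_lit 152) (nat_lit 151779753252) (nat_lit 14) (nat_lit 5) (nat_lit 15) (nat_lit 5) (nat_lit 16) (nat_lit 4) (nat_lit 406) (nat_lit 332) (nat_lit 162)) (XT.nd (nat_lit 78) (nat_lit 0) (nat_lit 0) (XT.lf (nat_lit 0) (nat_lit 82943381404) (nat_lit 76) (nat_lit 14392404908) (nat_lit 152) (nat_lit 125151546050) (nat_lit 14) (nat_lit 5) (nat_lit 15) (nat_lit 5) (nat_lit 16) (nat_lit 4) (nat_lit 407) (nat_lit 332) (nat_lit 161)) (XT.lf (nat_lit 0) (nat_lit 134902511707) (nat_lit 152) (nat_lit 72930386387) (nat_lit 0) (nat_lit 23858414162) (nat_lit 14) (nat_lit 5) (nat_lit 16) (nat_lit 4) (nat_lit 14) (nat_lit 4) (nat_lit 408) (nat_lit 332) (nat_lit 160)))) (XT.nd (nat_lit 78) (nat_lit 152) (nat_lit 0) (XT.lf (nat_lit 0) (nat_lit 174582663074) (nat_lit 152) (nat_lit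 3223707217) (nat_lit 0) (nat_lit 63537366540) (nat_lit 14) (nat_lit 5) (nat_lit 16) (nat_lit 4) (nat_lit 14) (nat_lit 4) (nat_lit 409) (nat_lit 332) (nat_lit 159)) (XT.nd (nat_lit 78) (nat_lit 76) (nat_lit 0) (XT.lf (nat_lit 0) (nat_lit 72280177696) (nat_lit 76) (nat_lit 145094329632) (nat_lit 76) (nat_lit 34047891204) (nat_lit 13) (nat_lit 4) (nat_lit 14) (nat_lit 5) (nat_lit 14) (nat_lit 4) (nat_lit 410) (nat_lit 332) (nat_lit 158)) (XT.lf (nat_lit 0) (nat_lit 345999079) (nat_lit 152) (nat_lit 110338227833) (nat_lit 76) (nat_lit 151317797574) (nat_lit 12) (nat_lit 5) (nat_lit 14) (nat_lit 5) (nat_lit 13) (nat_lit 4) (nat_lit 411) (nat_lit 332) (nat_lit 157))))))))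
noncomputable def xc182 : XT := (XT.nd (nat_lit 41028) (nat_lit 0) (nat_lit 4104) (XT.nd (nat_lit 858) (nat_lit 76) (nat_lit 0) (XT.nd (nat_lit 390) (nat_lit 228) (nat_lit 0) (XT.nd (nat_lit 156) (nat_lit 0) (nat_lit 0) (XT.nd (nat_lit 78) (nat_lit 76) (nat_lit 0) (XT.lf (nat_lit 0) (nat_lit 35314580853) (nat_lit 152) (nat_lit 38653670927) (nat_lit 76) (nat_lit 199114510520) (nat_lit 12) (nat_lit 5) (nat_lit 14) (nat_lit 5) (nat_lit 13) (nat_lit 4) (nat_lit 412) (nat_lit 332) (nat_lit 156)) (XT.lf (nat_lit 0) (nat_lit 37824325015) (nat_lit 76) (nat_lit 34797076499) (nat_lit 152) (nat_lit 212066645137) (nat_lit 11) (nat_lit 5) (nat_lit 12) (nat_lit 5) (nat_lit 13) (nat_lit 4) (nat_lit 413) (nat_lit 332) (nat_lit 155))) (XT.nd (nat_lit 78) (nat_lit 0) (nat_lit 0) (XT.lf (nat_lit 0) (nat_lit 112557052976) (nat_lit 152) (nat_lit 177483683980) (nat_lit 0) (nat_lit 6794683901) (nat_lit 11) (nat_lit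 5) (nat_lit 13) (nat_lit 4) (nat_lit 11) (nat_lit 4) (nat_lit 414) (nat_lit 332) (nat_lit 154)) (XT.nd (nat_lit 78) (nat_lit 0) (nat_lit 0) (XT.lf (nat_lit 0) (nat_lit 155059234854) (nat_lit 152) (nat_lit 105206427970) (nat_lit 0) (nat_lit 49296013679) (nat_lit 11) (nat_lit 5) (nat_lit 13) (nat_lit 4) (nat_lit 11) (nat_lit 4) (nat_lit 415) (nat_lit 332) (nat_lit 153)) (XT.lf (nat_lit 0) (nat_lit 199685862935) (nat_lit 152) (nat_lit 29316585019) (nat_lit 0) (nat_lit 93921830238) (nat_lit 11) (nat_lit 5) (nat_lit 13) (nat_lit 4) (nat_lit 11) (nat_lit 4) (nat_lit 416) (nat_lit 332) (nat_lit 152))))) (XT.nd (nat_lit 234) (nat_lit 152) (nat_lit 0) (XT.nd (nat_lit 78) (nat_lit 0) (nat_lit 0) (XT.lf (nat_lit 0) (nat_lit 52031880082) (nat_lit 76) (nat_lit 195323674480) (nat_lit 76) (nat_lit 89558868904) (nat_lit 10) (nat_lit 4) (nat_lit 11) (nat_lit 5) (nat_lit 11) (nat_lit 4) (nat_lit 417) (nat_lit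 332) (nat_lit 151)) (XT.nd (nat_lit 78) (nat_lit 0) (nat_lit 0) (XT.lf (nat_lit 0) (nat_lit 138464378567) (nat_lit 76) (nat_lit 159440222832) (nat_lit 76) (nat_lit 53674681181) (nat_lit 10) (nat_lit 4) (nat_lit 11) (nat_lit 5) (nat_lit 11) (nat_lit 4) (nat_lit 418) (nat_lit 332) (nat_lit 150)) (XT.lf (nat_lit 0) (nat_lit 229217363399) (nat_lit 76) (nat_lit 121763146772) (nat_lit 76) (nat_lit 15996904097) (nat_lit 10) (nat_lit 4) (nat_lit 11) (nat_lit 5) (nat_lit 11) (nat_lit 4) (nat_lit 419) (nat_lit 332) (nat_lit 149)))) (XT.nd (nat_lit 78) (nat_lit 76) (nat_lit 0) (XT.lf (nat_lit 0) (nat_lit 22809970695) (nat_lit 152) (nat_lit 59006470391) (nat_lit 76) (nat_lit 301310644527) (nat_lit 9) (nat_lit 5) (nat_lit 11) (nat_lit 5) (nat_lit 10) (nat_lit 4) (nat_lit 420) (nat_lit 332) (nat_lit 148)) (XT.nd (nat_lit 78) (nat_lit 0) (nat_lit 0) (XT.lf (nat_lit 0) (nat_lit 24195914337) (nat_lit 76)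 (nat_lit 39200895664) (nat_lit 152) (nat_lit 336655457311) (nat_lit 8) (nat_lit 5) (nat_lit 9) (nat_lit 5) (nat_lit 10) (nat_lit 4) (nat_lit 421) (nat_lit 332) (nat_lit 147)) (XT.lf (nat_lit 0) (nat_lit 107114713682) (nat_lit 152) (nat_lit 304270767779) (nat_lit 0) (nat_lit 6383140598) (nat_lit 8) (nat_lit 5) (nat_lit 10) (nat_lit 4) (nat_lit 8) (nat_lit 4) (nat_lit 422) (nat_lit 332) (nat_lit 146)))))) (XT.nd (nat_lit 468) (nat_lit 0) (nat_lit 0) (XT.nd (nat_lit 234) (nat_lit 76) (nat_lit 0) (XT.nd (nat_lit 78) (nat_lit 0) (nat_lit 0) (XT.lf (nat_lit 0) (nat_lit 153660633612) (nat_lit 152) (nat_lit 229749543697) (nat_lit 0) (nat_lit 52928511258) (nat_lit 8) (nat_lit 5) (nat_lit 10) (nat_lit 4) (nat_lit 8) (nat_lit 4) (nat_lit 423) (nat_lit 332) (nat_lit 145)) (XT.nd (nat_lit 78) (nat_lit 0) (nat_lit 0) (XT.lf (nat_lit 0) (nat_lit 202533357571) (nat_lit 152) (nat_lit 151503213401) (nat_lit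 0) (nat_lit 101800712101) (nat_lit 8) (nat_lit 5) (nat_lit 10) (nat_lit 4) (nat_lit 8) (nat_lit 4) (nat_lit 424) (nat_lit 332) (nat_lit 144)) (XT.lf (nat_lit 0) (nat_lit 253849249185) (nat_lit 152) (nat_lit 69345476107) (nat_lit 0) (nat_lit 153116105511) (nat_lit 8) (nat_lit 5) (nat_lit 10) (nat_lit 4) (nat_lit 8) (nat_lit 4) (nat_lit 425) (nat_lit 332) (nat_lit 143)))) (XT.nd (nat_lit 78) (nat_lit 0) (nat_lit 0) (XT.lf (nat_lit 0) (nat_lit 17478709714) (nat_lit 76) (nat_lit 290524671078) (nat_lit 76) (nat_lit 189791052924) (nat_lit 7) (nat_lit 4) (nat_lit 8) (nat_lit 5) (nat_lit 8) (nat_lit 4) (nat_lit 426) (nat_lit 332) (nat_lit 142)) (XT.nd (nat_lit 78) (nat_lit 0) (nat_lit 0) (XT.lf (nat_lit 0) (nat_lit 111050770937) (nat_lit 76) (nat_lit 254988408949) (nat_lit 76) (nat_lit 154254338908) (nat_lit 7) (nat_lit 4) (nat_lit 8) (nat_lit 5) (nat_lit 8) (nat_lit 4) (nat_lit 427) (nat_lit 332)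 (nat_lit 141)) (XT.lf (nat_lit 0) (nat_lit 209300623570) (nat_lit 76) (nat_lit 217675727949) (nat_lit 76) (nat_lit 116941227539) (nat_lit 7) (nat_lit 4) (nat_lit 8) (nat_lit 5) (nat_lit 8) (nat_lit 4) (nat_lit 428) (nat_lit 332) (nat_lit 140))))) (XT.nd (nat_lit 39468) (nat_lit 0) (nat_lit 7068) (XT.nd (nat_lit 78) (nat_lit 0) (nat_lit 0) (XT.lf (nat_lit 0) (nat_lit 312462195833) (nat_lit 76) (nat_lit 178497788360) (nat_lit 76) (nat_lit 77762878077) (nat_lit 7) (nat_lit 4) (nat_lit 8) (nat_lit 5) (nat_lit 8) (nat_lit 4) (nat_lit 429) (nat_lit 332) (nat_lit 139)) (XT.nd (nat_lit 39312) (nat_lit 0) (nat_lit 7068) (XT.lf (nat_lit 0) (nat_lit 420781110517) (nat_lit 76) (nat_lit 137361309376) (nat_lit 76) (nat_lit 36626008736) (nat_lit 7) (nat_lit 4) (nat_lit 8) (nat_lit 5) (nat_lit 8) (nat_lit 4) (nat_lit 430) (nat_lit 332) (nat_lit 138)) (XT.lf (nat_lit 0) (nat_lit 65114024) (nat_lit 836)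 (nat_lit 5091496696) (nat_lit 836) (nat_lit 5091496696) (nat_lit 100) (nat_lit 3) (nat_lit 111) (nat_lit 3) (nat_lit 111) (nat_lit 5) (nat_lit 333) (nat_lit 333) (nat_lit 234)))) (XT.nd (nat_lit 78) (nat_lit 0) (nat_lit 76) (XT.lf (nat_lit 0) (nat_lit 285656044) (nat_lit 836) (nat_lit 484447648) (nat_lit 836) (nat_lit 20230747262) (nat_lit 100) (nat_lit 3) (nat_lit 111) (nat_lit 3) (nat_lit 111) (nat_lit 5) (nat_lit 334) (nat_lit 333) (nat_lit 233)) (XT.nd (nat_lit 78) (nat_lit 0) (nat_lit 0) (XT.lf (nat_lit 0) (nat_lit 742524244) (nat_lit 760) (nat_lit 11656024375) (nat_lit 836) (nat_lit 9117497104) (nat_lit 101) (nat_lit 5) (nat_lit 111) (nat_lit 5) (nat_lit 112) (nat_lit 5) (nat_lit 335) (nat_lit 333) (nat_lit 232)) (XT.lf (nat_lit 0) (nat_lit 1233911082) (nat_lit 760) (nat_lit 1336398011) (nat_lit 836) (nat_lit 19486117168) (nat_lit 101) (nat_lit 5) (nat_lit 111) (nat_lit 5) (nat_lit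 112) (nat_lit 5) (nat_lit 336) (nat_lit 333) (nat_lit 231))))))) (XT.nd (nat_lit 936) (nat_lit 2204) (nat_lit 0) (XT.nd (nat_lit 468) (nat_lit 912) (nat_lit 0) (XT.nd (nat_lit 234) (nat_lit 0) (nat_lit 76) (XT.nd (nat_lit 78) (nat_lit 0) (nat_lit 0) (XT.lf (nat_lit 0) (nat_lit 2017702960) (nat_lit 760) (nat_lit 12932370547) (nat_lit 836) (nat_lit 7660369862) (nat_lit 102) (nat_lit 5) (nat_lit 112) (nat_lit 5) (nat_lit 113) (nat_lit 5) (nat_lit 337) (nat_lit 333) (nat_lit 230)) (XT.nd (nat_lit 78) (nat_lit 0) (nat_lit 76) (XT.lf (nat_lit 0) (nat_lit 2897368977) (nat_lit 760) (nat_lit 1949588427) (nat_lit 836) (nat_lit 18342378584) (nat_lit 102) (nat_lit 5) (nat_lit 112) (nat_lit 5) (nat_lit 113) (nat_lit 5) (nat_lit 338) (nat_lit 333) (nat_lit 229)) (XT.lf (nat_lit 0) (nat_lit 4059954878) (nat_lit 760) (nat_lit 13988839485) (nat_lit 836) (nat_lit 5736440504) (nat_lit 103) (nat_lit 5) (nat_lit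 113) (nat_lit 5) (nat_lit 114) (nat_lit 5) (nat_lit 339) (nat_lit 333) (nat_lit 228)))) (XT.nd (nat_lit 78) (nat_lit 0) (nat_lit 76) (XT.lf (nat_lit 0) (nat_lit 5385971544) (nat_lit 760) (nat_lit 2297702292) (nat_lit 836) (nat_lit 16721997837) (nat_lit 103) (nat_lit 5) (nat_lit 113) (nat_lit 5) (nat_lit 114) (nat_lit 5) (nat_lit 340) (nat_lit 333) (nat_lit 227)) (XT.nd (nat_lit 78) (nat_lit 0) (nat_lit 0) (XT.lf (nat_lit 0) (nat_lit 6984409338) (nat_lit 760) (nat_lit 14799870850) (nat_lit 836) (nat_lit 3262551791) (nat_lit 104) (nat_lit 5) (nat_lit 114) (nat_lit 5) (nat_lit 115) (nat_lit 5) (nat_lit 341) (nat_lit 333) (nat_lit 226)) (XT.lf (nat_lit 0) (nat_lit 8821224676) (nat_lit 760) (nat_lit 2351887032) (nat_lit 836) (nat_lit 14539023117) (nat_lit 104) (nat_lit 5) (nat_lit 114) (nat_lit 5) (nat_lit 115) (nat_lit 5) (nat_lit 342) (nat_lit 333) (nat_lit 225))))) (XT.nd (nat_lit 234) (nat_lit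 380) (nat_lit 0) (XT.nd (nat_lit 78) (nat_lit 760) (nat_lit 0) (XT.lf (nat_lit 0) (nat_lit 10918310826) (nat_lit 760) (nat_lit 15337587217) (nat_lit 76) (nat_lit 146390228) (nat_lit 105) (nat_lit 5) (nat_lit 115) (nat_lit 5) (nat_lit 106) (nat_lit 5) (nat_lit 343) (nat_lit 333) (nat_lit 224)) (XT.nd (nat_lit 78) (nat_lit 760) (nat_lit 0) (XT.lf (nat_lit 0) (nat_lit 13337430828) (nat_lit 760) (nat_lit 2080798349) (nat_lit 76) (nat_lit 11697867862) (nat_lit 105) (nat_lit 5) (nat_lit 115) (nat_lit 5) (nat_lit 106) (nat_lit 5) (nat_lit 344) (nat_lit 333) (nat_lit 223)) (XT.lf (nat_lit 0) (nat_lit 12224576065) (nat_lit 760) (nat_lit 3837629208) (nat_lit 836) (nat_lit 11794162365) (nat_lit 95) (nat_lit 5) (nat_lit 105) (nat_lit 5) (nat_lit 106) (nat_lit 5) (nat_lit 345) (nat_lit 333) (nat_lit 222)))) (XT.nd (nat_lit 78) (nat_lit 380) (nat_lit 0) (XT.lf (nat_lit 0) (nat_lit 19083020624) (nat_lit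 836) (nat_lit 1450676973) (nat_lit 76) (nat_lit 8091970071) (nat_lit 95) (nat_lit 5) (nat_lit 106) (nat_lit 5) (nat_lit 96) (nat_lit 5) (nat_lit 346) (nat_lit 333) (nat_lit 221)) (XT.nd (nat_lit 78) (nat_lit 0) (nat_lit 0) (XT.lf (nat_lit 0) (nat_lit 13813224622) (nat_lit 380) (nat_lit 8714565708) (nat_lit 456) (nat_lit 6892002418) (nat_lit 90) (nat_lit 5) (nat_lit 95) (nat_lit 5) (nat_lit 96) (nat_lit 5) (nat_lit 347) (nat_lit 333) (nat_lit 220)) (XT.lf (nat_lit 0) (nat_lit 26221992299) (nat_lit 456) (nat_lit 425469222) (nat_lit 76) (nat_lit 3602308323) (nat_lit 90) (nat_lit 5) (nat_lit 96) (nat_lit 5) (nat_lit 91) (nat_lit 5) (nat_lit 348) (nat_lit 333) (nat_lit 219)))))) (XT.nd (nat_lit 468) (nat_lit 836) (nat_lit 0) (XT.nd (nat_lit 234) (nat_lit 608) (nat_lit 0) (XT.nd (nat_lit 78) (nat_lit 456) (nat_lit 0) (XT.lf (nat_lit 0) (nat_lit 15874517207) (nat_lit 304) (nat_lit 14611880918)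 (nat_lit 380) (nat_lit 615578176) (nat_lit 86) (nat_lit 5) (nat_lit 90) (nat_lit 5) (nat_lit 91) (nat_lit 5) (nat_lit 349) (nat_lit 333) (nat_lit 218)) (XT.nd (nat_lit 78) (nat_lit 0) (nat_lit 0) (XT.lf (nat_lit 0) (nat_lit 987526614) (nat_lit 380) (nat_lit 1902340592) (nat_lit 456) (nat_lit 29103733948) (nat_lit 80) (nat_lit 5) (nat_lit 85) (nat_lit 5) (nat_lit 86) (nat_lit 5) (nat_lit 350) (nat_lit 333) (nat_lit 217)) (XT.lf (nat_lit 0) (nat_lit 6985679887) (nat_lit 456) (nat_lit 14573595167) (nat_lit 76) (nat_lit 11348242984) (nat_lit 80) (nat_lit 5) (nat_lit 86) (nat_lit 5) (nat_lit 81) (nat_lit 5) (nat_lit 351) (nat_lit 333) (nat_lit 216)))) (XT.nd (nat_lit 78) (nat_lit 304) (nat_lit 0) (XT.lf (nat_lit 0) (nat_lit 2731376285) (nat_lit 304) (nat_lit 8623992731) (nat_lit 380) (nat_lit 22508311733) (nat_lit 76) (nat_lit 5) (nat_lit 80) (nat_lit 5) (nat_lit 81) (nat_lit 5) (nat_lit 352)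 (nat_lit 333) (nat_lit 215)) (XT.nd (nat_lit 78) (nat_lit 304) (nat_lit 0) (XT.lf (nat_lit 0) (nat_lit 16267197026) (nat_lit 380) (nat_lit 13534711643) (nat_lit 76) (nat_lit 5049564275) (nat_lit 76) (nat_lit 5) (nat_lit 81) (nat_lit 5) (nat_lit 77) (nat_lit 5) (nat_lit 353) (nat_lit 333) (nat_lit 214)) (XT.lf (nat_lit 0) (nat_lit 4954724074) (nat_lit 304) (nat_lit 16684234365) (nat_lit 380) (nat_lit 14238983084) (nat_lit 72) (nat_lit 5) (nat_lit 76) (nat_lit 5) (nat_lit 77) (nat_lit 5) (nat_lit 354) (nat_lit 333) (nat_lit 213))))) (XT.nd (nat_lit 234) (nat_lit 532) (nat_lit 0) (XT.nd (nat_lit 78) (nat_lit 304) (nat_lit 0) (XT.lf (nat_lit 0) (nat_lit 24833368822) (nat_lit 304) (nat_lit 2670892562) (nat_lit 380) (nat_lit 9440228165) (nat_lit 72) (nat_lit 5) (nat_lit 76) (nat_lit 5) (nat_lit 77) (nat_lit 5) (nat_lit 355) (nat_lit 333) (nat_lit 212)) (XT.nd (nat_lit 78) (nat_lit 76) (nat_lit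 0) (XT.lf (nat_lit 0) (nat_lit 7694728362) (nat_lit 228) (nat_lit 26272190484) (nat_lit 304) (nat_lit 4082245177) (nat_lit 69) (nat_lit 5) (nat_lit 72) (nat_lit 5) (nat_lit 73) (nat_lit 5) (nat_lit 356) (nat_lit 333) (nat_lit 211)) (XT.lf (nat_lit 0) (nat_lit 1742459909) (nat_lit 304) (nat_lit 10363883221) (nat_lit 76) (nat_lit 27089115805) (nat_lit 68) (nat_lit 5) (nat_lit 72) (nat_lit 5) (nat_lit 69) (nat_lit 5) (nat_lit 357) (nat_lit 333) (nat_lit 210)))) (XT.nd (nat_lit 78) (nat_lit 228) (nat_lit 0) (XT.lf (nat_lit 0) (nat_lit 7934691128) (nat_lit 380) (nat_lit 29531153356) (nat_lit 76) (nat_lit 2919206989) (nat_lit 64) (nat_lit 5) (nat_lit 69) (nat_lit 5) (nat_lit 65) (nat_lit 5) (nat_lit 358) (nat_lit 333) (nat_lit 209)) (XT.nd (nat_lit 78) (nat_lit 228) (nat_lit 0) (XT.lf (nat_lit 0) (nat_lit 14809648570) (nat_lit 380) (nat_lit 8339316678) (nat_lit 76) (nat_lit 18466505549) (nat_lit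 64) (nat_lit 5) (nat_lit 69) (nat_lit 5) (nat_lit 65) (nat_lit 5) (nat_lit 359) (nat_lit 333) (nat_lit 208)) (XT.lf (nat_lit 0) (nat_lit 14367183743) (nat_lit 228) (nat_lit 7881915770) (nat_lit 304) (nat_lit 20647277046) (nat_lit 61) (nat_lit 5) (nat_lit 64) (nat_lit 5) (nat_lit 65) (nat_lit 5) (nat_lit 360) (nat_lit 333) (nat_lit 207))))))))
noncomputable def xc183 : XT := (XT.nd (nat_lit 1872) (nat_lit 1216) (nat_lit 0) (XT.nd (nat_lit 936) (nat_lit 988) (nat_lit 0) (XT.nd (nat_lit 468) (nat_lit 608) (nat_lit 0) (XT.nd (nat_lit 234) (nat_lit 456) (nat_lit 0) (XT.nd (nat_lit 78) (nat_lit 304) (nat_lit 0) (XT.lf (nat_lit 0) (nat_lit 30327800480) (nat_lit 304) (nat_lit 5870118464) (nat_lit 76) (nat_lit 8030047415) (nat_lit 61) (nat_lit 5) (nat_lit 65) (nat_lit 5) (nat_lit 62) (nat_lit 5) (nat_lit 361) (nat_lit 333) (nat_lit 206)) (XT.nd (nat_lit 78) (nat_lit 76) (nat_lit 0) (XT.lf (nat_lit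 0) (nat_lit 18376235163) (nat_lit 228) (nat_lit 20846994885) (nat_lit 304) (nat_lit 6382268420) (nat_lit 58) (nat_lit 5) (nat_lit 61) (nat_lit 5) (nat_lit 62) (nat_lit 5) (nat_lit 362) (nat_lit 333) (nat_lit 205)) (XT.lf (nat_lit 0) (nat_lit 1560897980) (nat_lit 304) (nat_lit 3038115240) (nat_lit 76) (nat_lit 42446828660) (nat_lit 57) (nat_lit 5) (nat_lit 61) (nat_lit 5) (nat_lit 58) (nat_lit 5) (nat_lit 363) (nat_lit 333) (nat_lit 204)))) (XT.nd (nat_lit 78) (nat_lit 228) (nat_lit 0) (XT.lf (nat_lit 0) (nat_lit 10244666374) (nat_lit 304) (nat_lit 25747986326) (nat_lit 76) (nat_lit 12532424066) (nat_lit 54) (nat_lit 5) (nat_lit 58) (nat_lit 5) (nat_lit 55) (nat_lit 5) (nat_lit 364) (nat_lit 333) (nat_lit 203)) (XT.nd (nat_lit 78) (nat_lit 228) (nat_lit 0) (XT.lf (nat_lit 0) (nat_lit 19487238971) (nat_lit 304) (nat_lit 167899825) (nat_lit 76) (nat_lit 30416905865) (nat_lit 54) (nat_lit 5)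 (nat_lit 58) (nat_lit 5) (nat_lit 55) (nat_lit 5) (nat_lit 365) (nat_lit 333) (nat_lit 202)) (XT.lf (nat_lit 0) (nat_lit 27569300010) (nat_lit 228) (nat_lit 2050147269) (nat_lit 304) (nat_lit 22055540277) (nat_lit 51) (nat_lit 5) (nat_lit 54) (nat_lit 5) (nat_lit 55) (nat_lit 5) (nat_lit 366) (nat_lit 333) (nat_lit 201))))) (XT.nd (nat_lit 234) (nat_lit 152) (nat_lit 0) (XT.nd (nat_lit 78) (nat_lit 304) (nat_lit 0) (XT.lf (nat_lit 0) (nat_lit 3182121759) (nat_lit 152) (nat_lit 37382439494) (nat_lit 228) (nat_lit 12778203443) (nat_lit 49) (nat_lit 5) (nat_lit 51) (nat_lit 5) (nat_lit 52) (nat_lit 5) (nat_lit 367) (nat_lit 333) (nat_lit 200)) (XT.nd (nat_lit 78) (nat_lit 304) (nat_lit 0) (XT.lf (nat_lit 0) (nat_lit 32632231214) (nat_lit 152) (nat_lit 19863203839) (nat_lit 228) (nat_lit 2576572210) (nat_lit 49) (nat_lit 5) (nat_lit 51) (nat_lit 5) (nat_lit 52) (nat_lit 5) (nat_lit 368) (nat_lit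 333) (nat_lit 199)) (XT.lf (nat_lit 0) (nat_lit 6752077035) (nat_lit 228) (nat_lit 1225390959) (nat_lit 304) (nat_lit 48898759821) (nat_lit 45) (nat_lit 5) (nat_lit 48) (nat_lit 5) (nat_lit 49) (nat_lit 5) (nat_lit 369) (nat_lit 333) (nat_lit 198)))) (XT.nd (nat_lit 78) (nat_lit 152) (nat_lit 0) (XT.lf (nat_lit 0) (nat_lit 19642612046) (nat_lit 304) (nat_lit 20908149928) (nat_lit 76) (nat_lit 18184287432) (nat_lit 45) (nat_lit 5) (nat_lit 49) (nat_lit 5) (nat_lit 46) (nat_lit 5) (nat_lit 370) (nat_lit 333) (nat_lit 197)) (XT.nd (nat_lit 78) (nat_lit 0) (nat_lit 0) (XT.lf (nat_lit 0) (nat_lit 10066763713) (nat_lit 152) (nat_lit 21998962633) (nat_lit 228) (nat_lit 28612351539) (nat_lit 43) (nat_lit 5) (nat_lit 45) (nat_lit 5) (nat_lit 46) (nat_lit 5) (nat_lit 371) (nat_lit 333) (nat_lit 196)) (XT.lf (nat_lit 0) (nat_lit 43312373095) (nat_lit 152) (nat_lit 2149226986) (nat_lit 228) (nat_lit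 17239078911) (nat_lit 43) (nat_lit 5) (nat_lit 45) (nat_lit 5) (nat_lit 46) (nat_lit 5) (nat_lit 372) (nat_lit 333) (nat_lit 195)))))) (XT.nd (nat_lit 468) (nat_lit 456) (nat_lit 0) (XT.nd (nat_lit 234) (nat_lit 152) (nat_lit 0) (XT.nd (nat_lit 78) (nat_lit 228) (nat_lit 0) (XT.lf (nat_lit 0) (nat_lit 13533308583) (nat_lit 152) (nat_lit 46494712775) (nat_lit 228) (nat_lit 4771352430) (nat_lit 41) (nat_lit 5) (nat_lit 43) (nat_lit 5) (nat_lit 44) (nat_lit 5) (nat_lit 373) (nat_lit 333) (nat_lit 194)) (XT.nd (nat_lit 78) (nat_lit 152) (nat_lit 0) (XT.lf (nat_lit 0) (nat_lit 8420068601) (nat_lit 228) (nat_lit 18386836848) (nat_lit 76) (nat_lit 40171274711) (nat_lit 40) (nat_lit 5) (nat_lit 43) (nat_lit 5) (nat_lit 41) (nat_lit 5) (nat_lit 374) (nat_lit 333) (nat_lit 193)) (XT.lf (nat_lit 0) (nat_lit 16585288526) (nat_lit 152) (nat_lit 5782105458) (nat_lit 228) (nat_lit 46881788967) (nat_lit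 38) (nat_lit 5) (nat_lit 40) (nat_lit 5) (nat_lit 41) (nat_lit 5) (nat_lit 375) (nat_lit 333) (nat_lit 192)))) (XT.nd (nat_lit 78) (nat_lit 152) (nat_lit 0) (XT.lf (nat_lit 0) (nat_lit 37580742695) (nat_lit 228) (nat_lit 17937004049) (nat_lit 76) (nat_lit 16087557371) (nat_lit 38) (nat_lit 5) (nat_lit 41) (nat_lit 5) (nat_lit 39) (nat_lit 5) (nat_lit 376) (nat_lit 333) (nat_lit 191)) (XT.nd (nat_lit 78) (nat_lit 0) (nat_lit 0) (XT.lf (nat_lit 0) (nat_lit 19037220205) (nat_lit 152) (nat_lit 34907426224) (nat_lit 228) (nat_lit 20115091569) (nat_lit 36) (nat_lit 5) (nat_lit 38) (nat_lit 5) (nat_lit 39) (nat_lit 5) (nat_lit 377) (nat_lit 333) (nat_lit 190)) (XT.lf (nat_lit 0) (nat_lit 58479412956) (nat_lit 152) (nat_lit 12949025805) (nat_lit 228) (nat_lit 5193371132) (nat_lit 36) (nat_lit 5) (nat_lit 38) (nat_lit 5) (nat_lit 39) (nat_lit 5) (nat_lit 378) (nat_lit 333) (nat_lit 189))))) (XT.nd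 (nat_lit 234) (nat_lit 152) (nat_lit 0) (XT.nd (nat_lit 78) (nat_lit 152) (nat_lit 0) (XT.lf (nat_lit 0) (nat_lit 10632307108) (nat_lit 152) (nat_lit 58363483514) (nat_lit 76) (nat_lit 10283362937) (nat_lit 34) (nat_lit 5) (nat_lit 36) (nat_lit 5) (nat_lit 35) (nat_lit 5) (nat_lit 379) (nat_lit 333) (nat_lit 188)) (XT.nd (nat_lit 78) (nat_lit 152) (nat_lit 0) (XT.lf (nat_lit 0) (nat_lit 27597314229) (nat_lit 152) (nat_lit 19803352357) (nat_lit 76) (nat_lit 34638313000) (nat_lit 34) (nat_lit 5) (nat_lit 36) (nat_lit 5) (nat_lit 35) (nat_lit 5) (nat_lit 380) (nat_lit 333) (nat_lit 187)) (XT.lf (nat_lit 0) (nat_lit 21365371964) (nat_lit 152) (nat_lit 24376877856) (nat_lit 228) (nat_lit 39177964001) (nat_lit 32) (nat_lit 5) (nat_lit 34) (nat_lit 5) (nat_lit 35) (nat_lit 5) (nat_lit 381) (nat_lit 333) (nat_lit 186)))) (XT.nd (nat_lit 78) (nat_lit 152) (nat_lit 0) (XT.lf (nat_lit 0) (nat_lit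 65130281835) (nat_lit 228) (nat_lit 22654285632) (nat_lit 76) (nat_lit 144150593) (nat_lit 32) (nat_lit 5) (nat_lit 35) (nat_lit 5) (nat_lit 33) (nat_lit 4) (nat_lit 382) (nat_lit 333) (nat_lit 185)) (XT.nd (nat_lit 78) (nat_lit 76) (nat_lit 0) (XT.lf (nat_lit 0) (nat_lit 20546179506) (nat_lit 76) (nat_lit 65660154133) (nat_lit 152) (nat_lit 4845383701) (nat_lit 31) (nat_lit 5) (nat_lit 32) (nat_lit 5) (nat_lit 33) (nat_lit 4) (nat_lit 383) (nat_lit 333) (nat_lit 184)) (XT.lf (nat_lit 0) (nat_lit 13945236340) (nat_lit 152) (nat_lit 27846575227) (nat_lit 76) (nat_lit 52508713937) (nat_lit 30) (nat_lit 5) (nat_lit 32) (nat_lit 5) (nat_lit 31) (nat_lit 5) (nat_lit 384) (nat_lit 333) (nat_lit 183))))))) (XT.nd (nat_lit 936) (nat_lit 456) (nat_lit 0) (XT.nd (nat_lit 468) (nat_lit 304) (nat_lit 0) (XT.nd (nat_lit 234) (nat_lit 228) (nat_lit 0) (XT.nd (nat_lit 78) (nat_lit 76) (nat_lit 0) (XT.lf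 (nat_lit 0) (nat_lit 17420502722) (nat_lit 152) (nat_lit 16362337366) (nat_lit 228) (nat_lit 63911448534) (nat_lit 28) (nat_lit 5) (nat_lit 30) (nat_lit 5) (nat_lit 31) (nat_lit 5) (nat_lit 385) (nat_lit 333) (nat_lit 182)) (XT.nd (nat_lit 78) (nat_lit 76) (nat_lit 0) (XT.lf (nat_lit 0) (nat_lit 55251386943) (nat_lit 228) (nat_lit 35488582299) (nat_lit 76) (nat_lit 10485818112) (nat_lit 28) (nat_lit 5) (nat_lit 31) (nat_lit 5) (nat_lit 29) (nat_lit 4) (nat_lit 386) (nat_lit 333) (nat_lit 181)) (XT.lf (nat_lit 0) (nat_lit 11637272609) (nat_lit 76) (nat_lit 66604415856) (nat_lit 152) (nat_lit 26669756771) (nat_lit 27) (nat_lit 5) (nat_lit 28) (nat_lit 5) (nat_lit 29) (nat_lit 4) (nat_lit 387) (nat_lit 333) (nat_lit 180)))) (XT.nd (nat_lit 78) (nat_lit 228) (nat_lit 0) (XT.lf (nat_lit 0) (nat_lit 62348710265) (nat_lit 76) (nat_lit 40632245448) (nat_lit 152) (nat_lit 5770458315) (nat_lit 27)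 (nat_lit 5) (nat_lit 28) (nat_lit 5) (nat_lit 29) (nat_lit 4) (nat_lit 388) (nat_lit 333) (nat_lit 179)) (XT.nd (nat_lit 78) (nat_lit 0) (nat_lit 0) (XT.lf (nat_lit 0) (nat_lit 2641658647) (nat_lit 152) (nat_lit 13054211280) (nat_lit 228) (nat_lit 97072899531) (nat_lit 24) (nat_lit 5) (nat_lit 26) (nat_lit 5) (nat_lit 27) (nat_lit 5) (nat_lit 389) (nat_lit 333) (nat_lit 178)) (XT.lf (nat_lit 0) (nat_lit 39087106545) (nat_lit 228) (nat_lit 61556953991) (nat_lit 76) (nat_lit 16285926854) (nat_lit 24) (nat_lit 5) (nat_lit 27) (nat_lit 5) (nat_lit 25) (nat_lit 4) (nat_lit 390) (nat_lit 333) (nat_lit 177))))) (XT.nd (nat_lit 234) (nat_lit 228) (nat_lit 0) (XT.nd (nat_lit 78) (nat_lit 76) (nat_lit 0) (XT.lf (nat_lit 0) (nat_lit 63860476113) (nat_lit 228) (nat_lit 10774886716) (nat_lit 76) (nat_lit 46653275287) (nat_lit 24) (nat_lit 5) (nat_lit 27) (nat_lit 5) (nat_lit 25) (nat_lit 4) (nat_lit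 391) (nat_lit 333) (nat_lit 176)) (XT.nd (nat_lit 78) (nat_lit 0) (nat_lit 0) (XT.lf (nat_lit 0) (nat_lit 43950504128) (nat_lit 76) (nat_lit 46606836433) (nat_lit 152) (nat_lit 35273639929) (nat_lit 23) (nat_lit 5) (nat_lit 24) (nat_lit 5) (nat_lit 25) (nat_lit 4) (nat_lit 392) (nat_lit 333) (nat_lit 175)) (XT.lf (nat_lit 0) (nat_lit 101783813694) (nat_lit 76) (nat_lit 16986375331) (nat_lit 152) (nat_lit 11821194327) (nat_lit 23) (nat_lit 5) (nat_lit 24) (nat_lit 5) (nat_lit 25) (nat_lit 4) (nat_lit 393) (nat_lit 333) (nat_lit 174)))) (XT.nd (nat_lit 78) (nat_lit 76) (nat_lit 0) (XT.lf (nat_lit 0) (nat_lit 13054390871) (nat_lit 152) (nat_lit 108188936160) (nat_lit 76) (nat_lit 14303468422) (nat_lit 21) (nat_lit 5) (nat_lit 23) (nat_lit 5) (nat_lit 22) (nat_lit 4) (nat_lit 394) (nat_lit 333) (nat_lit 173)) (XT.nd (nat_lit 78) (nat_lit 76) (nat_lit 0) (XT.lf (nat_lit 0) (nat_lit 39549533175)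 (nat_lit 152) (nat_lit 53876511679) (nat_lit 76) (nat_lit 47275591780) (nat_lit 21) (nat_lit 5) (nat_lit 23) (nat_lit 5) (nat_lit 22) (nat_lit 4) (nat_lit 395) (nat_lit 333) (nat_lit 172)) (XT.lf (nat_lit 0) (nat_lit 3253408775) (nat_lit 76) (nat_lit 64165594188) (nat_lit 152) (nat_lit 78692738731) (nat_lit 20) (nat_lit 5) (nat_lit 21) (nat_lit 5) (nat_lit 22) (nat_lit 4) (nat_lit 396) (nat_lit 333) (nat_lit 171)))))) (XT.nd (nat_lit 468) (nat_lit 228) (nat_lit 0) (XT.nd (nat_lit 234) (nat_lit 152) (nat_lit 0) (XT.nd (nat_lit 78) (nat_lit 76) (nat_lit 0) (XT.lf (nat_lit 0) (nat_lit 65108077800) (nat_lit 76) (nat_lit 32485092452) (nat_lit 152) (nat_lit 54153620877) (nat_lit 20) (nat_lit 5) (nat_lit 21) (nat_lit 5) (nat_lit 22) (nat_lit 4) (nat_lit 397) (nat_lit 333) (nat_lit 170)) (XT.nd (nat_lit 78) (nat_lit 76) (nat_lit 0) (XT.lf (nat_lit 0) (nat_lit 129287056326) (nat_lit 152) (nat_lit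 27622436922) (nat_lit 0) (nat_lit 753549573) (nat_lit 20) (nat_lit 5) (nat_lit 22) (nat_lit 4) (nat_lit 20) (nat_lit 4) (nat_lit 398) (nat_lit 333) (nat_lit 169)) (XT.lf (nat_lit 0) (nat_lit 34927971640) (nat_lit 76) (nat_lit 128714427529) (nat_lit 76) (nat_lit 178870097) (nat_lit 19) (nat_lit 4) (nat_lit 20) (nat_lit 5) (nat_lit 20) (nat_lit 4) (nat_lit 399) (nat_lit 333) (nat_lit 168)))) (XT.nd (nat_lit 78) (nat_lit 76) (nat_lit 0) (XT.lf (nat_lit 0) (nat_lit 28960586698) (nat_lit 152) (nat_lit 69168307726) (nat_lit 76) (nat_lit 72111821736) (nat_lit 18) (nat_lit 5) (nat_lit 20) (nat_lit 5) (nat_lit 19) (nat_lit 4) (nat_lit 400) (nat_lit 333) (nat_lit 167)) (XT.nd (nat_lit 78) (nat_lit 76) (nat_lit 0) (XT.lf (nat_lit 0) (nat_lit 59549956985) (nat_lit 152) (nat_lit 6461958664) (nat_lit 76) (nat_lit 110969125794) (nat_lit 18) (nat_lit 5) (nat_lit 20) (nat_lit 5) (nat_lit 19) (nat_lit 4)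 (nat_lit 401) (nat_lit 333) (nat_lit 166)) (XT.lf (nat_lit 0) (nat_lit 61341142703) (nat_lit 76) (nat_lit 31284361998) (nat_lit 152) (nat_lit 91385043081) (nat_lit 17) (nat_lit 5) (nat_lit 18) (nat_lit 5) (nat_lit 19) (nat_lit 4) (nat_lit 402) (nat_lit 333) (nat_lit 165))))) (XT.nd (nat_lit 234) (nat_lit 152) (nat_lit 0) (XT.nd (nat_lit 78) (nat_lit 76) (nat_lit 0) (XT.lf (nat_lit 0) (nat_lit 127545935139) (nat_lit 152) (nat_lit 58711846061) (nat_lit 0) (nat_lit 5124193202) (nat_lit 17) (nat_lit 5) (nat_lit 19) (nat_lit 4) (nat_lit 17) (nat_lit 4) (nat_lit 403) (nat_lit 333) (nat_lit 164)) (XT.nd (nat_lit 78) (nat_lit 0) (nat_lit 0) (XT.lf (nat_lit 0) (nat_lit 8191117957) (nat_lit 76) (nat_lit 156661068418) (nat_lit 76) (nat_lit 34237796233) (nat_lit 16) (nat_lit 4) (nat_lit 17) (nat_lit 5) (nat_lit 17) (nat_lit 4) (nat_lit 404) (nat_lit 333) (nat_lit 163)) (XT.lf (nat_lit 0) (nat_lit 80475820144)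 (nat_lit 76) (nat_lit 124541315781) (nat_lit 76) (nat_lit 2116586217) (nat_lit 16) (nat_lit 4) (nat_lit 17) (nat_lit 5) (nat_lit 17) (nat_lit 4) (nat_lit 405) (nat_lit 333) (nat_lit 162)))) (XT.nd (nat_lit 78) (nat_lit 76) (nat_lit 0) (XT.lf (nat_lit 0) (nat_lit 30598046722) (nat_lit 152) (nat_lit 59700121761) (nat_lit 76) (nat_lit 125256848704) (nat_lit 15) (nat_lit 5) (nat_lit 17) (nat_lit 5) (nat_lit 16) (nat_lit 4) (nat_lit 406) (nat_lit 333) (nat_lit 161)) (XT.nd (nat_lit 78) (nat_lit 0) (nat_lit 0) (XT.lf (nat_lit 0) (nat_lit 10918697600) (nat_lit 76) (nat_lit 54128198511) (nat_lit 152) (nat_lit 159340265347) (nat_lit 14) (nat_lit 5) (nat_lit 15) (nat_lit 5) (nat_lit 16) (nat_lit 4) (nat_lit 407) (nat_lit 333) (nat_lit 160)) (XT.lf (nat_lit 0) (nat_lit 87139519189) (nat_lit 76) (nat_lit 15088879618) (nat_lit 152) (nat_lit 131382003764) (nat_lit 14) (nat_lit 5) (nat_lit 15) (nat_lit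 5) (nat_lit 16) (nat_lit 4) (nat_lit 408) (nat_lit 333) (nat_lit 159))))))))
noncomputable def xc184 : XT := (XT.nd (nat_lit 41106) (nat_lit 0) (nat_lit 4636) (XT.nd (nat_lit 858) (nat_lit 228) (nat_lit 0) (XT.nd (nat_lit 390) (nat_lit 152) (nat_lit 0) (XT.nd (nat_lit 156) (nat_lit 152) (nat_lit 0) (XT.nd (nat_lit 78) (nat_lit 0) (nat_lit 0) (XT.lf (nat_lit 0) (nat_lit 141672574955) (nat_lit 152) (nat_lit 76529378320) (nat_lit 0) (nat_lit 25072672711) (nat_lit 14) (nat_lit 5) (nat_lit 16) (nat_lit 4) (nat_lit 14) (nat_lit 4) (nat_lit 409) (nat_lit 333) (nat_lit 158)) (XT.lf (nat_lit 0) (nat_lit 183335546383) (nat_lit 152) (nat_lit 3339628400) (nat_lit 0) (nat_lit 66734556621) (nat_lit 14) (nat_lit 5) (nat_lit 16) (nat_lit 4) (nat_lit 14) (nat_lit 4) (nat_lit 410) (nat_lit 333) (nat_lit 157))) (XT.nd (nat_lit 78) (nat_lit 76) (nat_lit 0) (XT.lf (nat_lit 0) (nat_lit 75938720691) (nat_lit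 76) (nat_lit 152327826501) (nat_lit 76) (nat_lit 35725801006) (nat_lit 13) (nat_lit 4) (nat_lit 14) (nat_lit 5) (nat_lit 14) (nat_lit 4) (nat_lit 411) (nat_lit 333) (nat_lit 156)) (XT.nd (nat_lit 78) (nat_lit 0) (nat_lit 0) (XT.lf (nat_lit 0) (nat_lit 385871502) (nat_lit 152) (nat_lit 115811975325) (nat_lit 76) (nat_lit 158903146146) (nat_lit 12) (nat_lit 5) (nat_lit 14) (nat_lit 5) (nat_lit 13) (nat_lit 4) (nat_lit 412) (nat_lit 333) (nat_lit 155)) (XT.lf (nat_lit 0) (nat_lit 37101807486) (nat_lit 152) (nat_lit 40545245998) (nat_lit 76) (nat_lit 209088768136) (nat_lit 12) (nat_lit 5) (nat_lit 14) (nat_lit 5) (nat_lit 13) (nat_lit 4) (nat_lit 413) (nat_lit 333) (nat_lit 154))))) (XT.nd (nat_lit 234) (nat_lit 76) (nat_lit 0) (XT.nd (nat_lit 78) (nat_lit 0) (nat_lit 0) (XT.lf (nat_lit 0) (nat_lit 39755986702) (nat_lit 76) (nat_lit 36517590249) (nat_lit 152) (nat_lit 222647813034) (nat_lit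 11) (nat_lit 5) (nat_lit 12) (nat_lit 5) (nat_lit 13) (nat_lit 4) (nat_lit 414) (nat_lit 333) (nat_lit 153)) (XT.nd (nat_lit 78) (nat_lit 0) (nat_lit 0) (XT.lf (nat_lit 0) (nat_lit 118205293543) (nat_lit 152) (nat_lit 186318627719) (nat_lit 0) (nat_lit 7152247688) (nat_lit 11) (nat_lit 5) (nat_lit 13) (nat_lit 4) (nat_lit 11) (nat_lit 4) (nat_lit 415) (nat_lit 333) (nat_lit 152)) (XT.lf (nat_lit 0) (nat_lit 162831613661) (nat_lit 152) (nat_lit 110429377502) (nat_lit 0) (nat_lit 51777794927) (nat_lit 11) (nat_lit 5) (nat_lit 13) (nat_lit 4) (nat_lit 11) (nat_lit 4) (nat_lit 416) (nat_lit 333) (nat_lit 151)))) (XT.nd (nat_lit 78) (nat_lit 76) (nat_lit 0) (XT.lf (nat_lit 0) (nat_lit 209688648524) (nat_lit 152) (nat_lit 30746822017) (nat_lit 0) (nat_lit 98634093715) (nat_lit 11) (nat_lit 5) (nat_lit 13) (nat_lit 4) (nat_lit 11) (nat_lit 4) (nat_lit 417) (nat_lit 333) (nat_lit 150)) (XT.nd (nat_lit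 78) (nat_lit 0) (nat_lit 0) (XT.lf (nat_lit 0) (nat_lit 54668492271) (nat_lit 76) (nat_lit 205072998602) (nat_lit 76) (nat_lit 94017742769) (nat_lit 10) (nat_lit 4) (nat_lit 11) (nat_lit 5) (nat_lit 11) (nat_lit 4) (nat_lit 418) (nat_lit 333) (nat_lit 149)) (XT.lf (nat_lit 0) (nat_lit 145420948147) (nat_lit 76) (nat_lit 167396177209) (nat_lit 76) (nat_lit 56340253734) (nat_lit 10) (nat_lit 4) (nat_lit 11) (nat_lit 5) (nat_lit 11) (nat_lit 4) (nat_lit 419) (nat_lit 333) (nat_lit 148)))))) (XT.nd (nat_lit 468) (nat_lit 76) (nat_lit 0) (XT.nd (nat_lit 234) (nat_lit 0) (nat_lit 0) (XT.nd (nat_lit 78) (nat_lit 152) (nat_lit 0) (XT.lf (nat_lit 0) (nat_lit 240709994095) (nat_lit 76) (nat_lit 127836011955) (nat_lit 76) (nat_lit 16779452630) (nat_lit 10) (nat_lit 4) (nat_lit 11) (nat_lit 5) (nat_lit 11) (nat_lit 4) (nat_lit 420) (nat_lit 333) (nat_lit 147)) (XT.nd (nat_lit 78) (nat_lit 76) (nat_lit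 0) (XT.lf (nat_lit 0) (nat_lit 23966415011) (nat_lit 152) (nat_lit 61926014121) (nat_lit 76) (nat_lit 316390210947) (nat_lit 9) (nat_lit 5) (nat_lit 11) (nat_lit 5) (nat_lit 10) (nat_lit 4) (nat_lit 421) (nat_lit 333) (nat_lit 146)) (XT.lf (nat_lit 0) (nat_lit 25435993396) (nat_lit 76) (nat_lit 41146316372) (nat_lit 152) (nat_lit 353471785542) (nat_lit 8) (nat_lit 5) (nat_lit 9) (nat_lit 5) (nat_lit 10) (nat_lit 4) (nat_lit 422) (nat_lit 333) (nat_lit 145)))) (XT.nd (nat_lit 78) (nat_lit 0) (nat_lit 0) (XT.lf (nat_lit 0) (nat_lit 112485580403) (nat_lit 152) (nat_lit 319454934371) (nat_lit 0) (nat_lit 6715779545) (nat_lit 8) (nat_lit 5) (nat_lit 10) (nat_lit 4) (nat_lit 8) (nat_lit 4) (nat_lit 423) (nat_lit 333) (nat_lit 144)) (XT.nd (nat_lit 78) (nat_lit 0) (nat_lit 0) (XT.lf (nat_lit 0) (nat_lit 161358075804) (nat_lit 152) (nat_lit 241209047741) (nat_lit 0) (nat_lit 55587776742) (nat_lit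 8) (nat_lit 5) (nat_lit 10) (nat_lit 4) (nat_lit 8) (nat_lit 4) (nat_lit 424) (nat_lit 333) (nat_lit 143)) (XT.lf (nat_lit 0) (nat_lit 212673749746) (nat_lit 152) (nat_lit 159051732986) (nat_lit 0) (nat_lit 106902976203) (nat_lit 8) (nat_lit 5) (nat_lit 10) (nat_lit 4) (nat_lit 8) (nat_lit 4) (nat_lit 425) (nat_lit 333) (nat_lit 142))))) (XT.nd (nat_lit 234) (nat_lit 0) (nat_lit 0) (XT.nd (nat_lit 78) (nat_lit 76) (nat_lit 0) (XT.lf (nat_lit 0) (nat_lit 266554782403) (nat_lit 152) (nat_lit 72787377450) (nat_lit 0) (nat_lit 160783556974) (nat_lit 8) (nat_lit 5) (nat_lit 10) (nat_lit 4) (nat_lit 8) (nat_lit 4) (nat_lit 426) (nat_lit 333) (nat_lit 141)) (XT.nd (nat_lit 78) (nat_lit 0) (nat_lit 0) (XT.lf (nat_lit 0) (nat_lit 18377608429) (nat_lit 76) (nat_lit 305038779491) (nat_lit 76) (nat_lit 199267123693) (nat_lit 7) (nat_lit 4) (nat_lit 8) (nat_lit 5) (nat_lit 8) (nat_lit 4) (nat_lit 427)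 (nat_lit 333) (nat_lit 140)) (XT.lf (nat_lit 0) (nat_lit 116627083988) (nat_lit 76) (nat_lit 267726281643) (nat_lit 76) (nat_lit 161954215971) (nat_lit 7) (nat_lit 4) (nat_lit 8) (nat_lit 5) (nat_lit 8) (nat_lit 4) (nat_lit 428) (nat_lit 333) (nat_lit 139)))) (XT.nd (nat_lit 78) (nat_lit 0) (nat_lit 0) (XT.lf (nat_lit 0) (nat_lit 219788297133) (nat_lit 76) (nat_lit 228548516485) (nat_lit 76) (nat_lit 122776060457) (nat_lit 7) (nat_lit 4) (nat_lit 8) (nat_lit 5) (nat_lit 8) (nat_lit 4) (nat_lit 429) (nat_lit 333) (nat_lit 138)) (XT.nd (nat_lit 39390) (nat_lit 0) (nat_lit 7068) (XT.lf (nat_lit 0) (nat_lit 328106869801) (nat_lit 76) (nat_lit 187412203625) (nat_lit 76) (nat_lit 81639375829) (nat_lit 7) (nat_lit 4) (nat_lit 8) (nat_lit 5) (nat_lit 8) (nat_lit 4) (nat_lit 430) (nat_lit 333) (nat_lit 137)) (XT.lf (nat_lit 0) (nat_lit 218166184) (nat_lit 836) (nat_lit 5267349326) (nat_lit 836)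 (nat_lit 5267349326) (nat_lit 100) (nat_lit 3) (nat_lit 111) (nat_lit 3) (nat_lit 111) (nat_lit 5) (nat_lit 334) (nat_lit 334) (nat_lit 232))))))) (XT.nd (nat_lit 936) (nat_lit 2052) (nat_lit 0) (XT.nd (nat_lit 468) (nat_lit 380) (nat_lit 0) (XT.nd (nat_lit 234) (nat_lit 0) (nat_lit 152) (XT.nd (nat_lit 78) (nat_lit 0) (nat_lit 76) (XT.lf (nat_lit 0) (nat_lit 585265434) (nat_lit 836) (nat_lit 358722974) (nat_lit 836) (nat_lit 21092337568) (nat_lit 100) (nat_lit 3) (nat_lit 111) (nat_lit 3) (nat_lit 111) (nat_lit 5) (nat_lit 335) (nat_lit 334) (nat_lit 231)) (XT.nd (nat_lit 78) (nat_lit 0) (nat_lit 0) (XT.lf (nat_lit 0) (nat_lit 1051718153) (nat_lit 760) (nat_lit 12075332794) (nat_lit 836) (nat_lit 9450906824) (nat_lit 101) (nat_lit 5) (nat_lit 111) (nat_lit 5) (nat_lit 112) (nat_lit 5) (nat_lit 336) (nat_lit 334) (nat_lit 230)) (XT.lf (nat_lit 0) (nat_lit 1554718729) (nat_lit 760) (nat_lit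 1247510483) (nat_lit 836) (nat_lit 20343789565) (nat_lit 101) (nat_lit 5) (nat_lit 111) (nat_lit 5) (nat_lit 112) (nat_lit 5) (nat_lit 337) (nat_lit 334) (nat_lit 229)))) (XT.nd (nat_lit 78) (nat_lit 0) (nat_lit 0) (XT.lf (nat_lit 0) (nat_lit 2366255000) (nat_lit 760) (nat_lit 13411576261) (nat_lit 836) (nat_lit 7950490748) (nat_lit 102) (nat_lit 5) (nat_lit 112) (nat_lit 5) (nat_lit 113) (nat_lit 5) (nat_lit 338) (nat_lit 334) (nat_lit 228)) (XT.nd (nat_lit 78) (nat_lit 0) (nat_lit 76) (XT.lf (nat_lit 0) (nat_lit 3278110656) (nat_lit 760) (nat_lit 1887627073) (nat_lit 836) (nat_lit 19171023601) (nat_lit 102) (nat_lit 5) (nat_lit 112) (nat_lit 5) (nat_lit 113) (nat_lit 5) (nat_lit 339) (nat_lit 334) (nat_lit 227)) (XT.lf (nat_lit 0) (nat_lit 4488946612) (nat_lit 760) (nat_lit 14518725448) (nat_lit 836) (nat_lit 5955288856) (nat_lit 103) (nat_lit 5) (nat_lit 113) (nat_lit 5) (nat_lit 114)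 (nat_lit 5) (nat_lit 340) (nat_lit 334) (nat_lit 226))))) (XT.nd (nat_lit 234) (nat_lit 608) (nat_lit 0) (XT.nd (nat_lit 78) (nat_lit 0) (nat_lit 76) (XT.lf (nat_lit 0) (nat_lit 5870502492) (nat_lit 760) (nat_lit 2251105491) (nat_lit 836) (nat_lit 17493360898) (nat_lit 103) (nat_lit 5) (nat_lit 113) (nat_lit 5) (nat_lit 114) (nat_lit 5) (nat_lit 341) (nat_lit 334) (nat_lit 225)) (XT.nd (nat_lit 78) (nat_lit 0) (nat_lit 0) (XT.lf (nat_lit 0) (nat_lit 7540334967) (nat_lit 760) (nat_lit 15369641213) (nat_lit 836) (nat_lit 3378648085) (nat_lit 104) (nat_lit 5) (nat_lit 114) (nat_lit 5) (nat_lit 115) (nat_lit 5) (nat_lit 342) (nat_lit 334) (nat_lit 224)) (XT.lf (nat_lit 0) (nat_lit 9459147969) (nat_lit 760) (nat_lit 2307364070) (nat_lit 836) (nat_lit 15221182563) (nat_lit 104) (nat_lit 5) (nat_lit 114) (nat_lit 5) (nat_lit 115) (nat_lit 5) (nat_lit 343) (nat_lit 334) (nat_lit 223)))) (XT.nd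 (nat_lit 78) (nat_lit 760) (nat_lit 0) (XT.lf (nat_lit 0) (nat_lit 11653728517) (nat_lit 760) (nat_lit 15934795201) (nat_lit 76) (nat_lit 124209705) (nat_lit 105) (nat_lit 5) (nat_lit 115) (nat_lit 5) (nat_lit 106) (nat_lit 5) (nat_lit 344) (nat_lit 334) (nat_lit 222)) (XT.nd (nat_lit 78) (nat_lit 760) (nat_lit 0) (XT.lf (nat_lit 0) (nat_lit 14184780608) (nat_lit 760) (nat_lit 2023246479) (nat_lit 76) (nat_lit 12254665984) (nat_lit 105) (nat_lit 5) (nat_lit 115) (nat_lit 5) (nat_lit 106) (nat_lit 5) (nat_lit 345) (nat_lit 334) (nat_lit 221)) (XT.lf (nat_lit 0) (nat_lit 12994790336) (nat_lit 760) (nat_lit 4044891445) (nat_lit 836) (nat_lit 12200609823) (nat_lit 95) (nat_lit 5) (nat_lit 105) (nat_lit 5) (nat_lit 106) (nat_lit 5) (nat_lit 346) (nat_lit 334) (nat_lit 220)))))) (XT.nd (nat_lit 468) (nat_lit 912) (nat_lit 0) (XT.nd (nat_lit 234) (nat_lit 760) (nat_lit 0) (XT.nd (nat_lit 78) (nat_lit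 380) (nat_lit 0) (XT.lf (nat_lit 0) (nat_lit 20203006044) (nat_lit 836) (nat_lit 1363096516) (nat_lit 76) (nat_lit 8482389055) (nat_lit 95) (nat_lit 5) (nat_lit 106) (nat_lit 5) (nat_lit 96) (nat_lit 5) (nat_lit 347) (nat_lit 334) (nat_lit 219)) (XT.nd (nat_lit 78) (nat_lit 0) (nat_lit 0) (XT.lf (nat_lit 0) (nat_lit 14661417669) (nat_lit 380) (nat_lit 9153159202) (nat_lit 456) (nat_lit 7068025931) (nat_lit 90) (nat_lit 5) (nat_lit 95) (nat_lit 5) (nat_lit 96) (nat_lit 5) (nat_lit 348) (nat_lit 334) (nat_lit 218)) (XT.lf (nat_lit 0) (nat_lit 27685808382) (nat_lit 456) (nat_lit 288879700) (nat_lit 76) (nat_lit 3779782306) (nat_lit 90) (nat_lit 5) (nat_lit 96) (nat_lit 5) (nat_lit 91) (nat_lit 5) (nat_lit 349) (nat_lit 334) (nat_lit 217)))) (XT.nd (nat_lit 78) (nat_lit 456) (nat_lit 0) (XT.lf (nat_lit 0) (nat_lit 16823559874) (nat_lit 304) (nat_lit 15335027344) (nat_lit 380) (nat_lit 490949558)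 (nat_lit 86) (nat_lit 5) (nat_lit 90) (nat_lit 5) (nat_lit 91) (nat_lit 5) (nat_lit 350) (nat_lit 334) (nat_lit 216)) (XT.nd (nat_lit 78) (nat_lit 0) (nat_lit 0) (XT.lf (nat_lit 0) (nat_lit 1194744183) (nat_lit 380) (nat_lit 1985350742) (nat_lit 456) (nat_lit 30405768158) (nat_lit 80) (nat_lit 5) (nat_lit 85) (nat_lit 5) (nat_lit 86) (nat_lit 5) (nat_lit 351) (nat_lit 334) (nat_lit 215)) (XT.lf (nat_lit 0) (nat_lit 7473938530) (nat_lit 456) (nat_lit 15145065073) (nat_lit 76) (nat_lit 11926816452) (nat_lit 80) (nat_lit 5) (nat_lit 86) (nat_lit 5) (nat_lit 81) (nat_lit 5) (nat_lit 352) (nat_lit 334) (nat_lit 214))))) (XT.nd (nat_lit 234) (nat_lit 304) (nat_lit 0) (XT.nd (nat_lit 78) (nat_lit 304) (nat_lit 0) (XT.lf (nat_lit 0) (nat_lit 3022619308) (nat_lit 304) (nat_lit 9035289864) (nat_lit 380) (nat_lit 23492097835) (nat_lit 76) (nat_lit 5) (nat_lit 80) (nat_lit 5) (nat_lit 81) (nat_lit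 5) (nat_lit 353) (nat_lit 334) (nat_lit 213)) (XT.nd (nat_lit 78) (nat_lit 304) (nat_lit 0) (XT.lf (nat_lit 0) (nat_lit 17209206819) (nat_lit 380) (nat_lit 14057903174) (nat_lit 76) (nat_lit 5320390583) (nat_lit 76) (nat_lit 5) (nat_lit 81) (nat_lit 5) (nat_lit 77) (nat_lit 5) (nat_lit 354) (nat_lit 334) (nat_lit 212)) (XT.lf (nat_lit 0) (nat_lit 5353527812) (nat_lit 304) (nat_lit 17492260891) (nat_lit 380) (nat_lit 14819697667) (nat_lit 72) (nat_lit 5) (nat_lit 76) (nat_lit 5) (nat_lit 77) (nat_lit 5) (nat_lit 355) (nat_lit 334) (nat_lit 211)))) (XT.nd (nat_lit 78) (nat_lit 304) (nat_lit 0) (XT.lf (nat_lit 0) (nat_lit 26218911106) (nat_lit 304) (nat_lit 2779498911) (nat_lit 380) (nat_lit 9787254267) (nat_lit 72) (nat_lit 5) (nat_lit 76) (nat_lit 5) (nat_lit 77) (nat_lit 5) (nat_lit 356) (nat_lit 334) (nat_lit 210)) (XT.nd (nat_lit 78) (nat_lit 76) (nat_lit 0) (XT.lf (nat_lit 0) (nat_lit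 8226587165) (nat_lit 228) (nat_lit 27554617397) (nat_lit 304) (nat_lit 4164522612) (nat_lit 69) (nat_lit 5) (nat_lit 72) (nat_lit 5) (nat_lit 73) (nat_lit 5) (nat_lit 357) (nat_lit 334) (nat_lit 209)) (XT.lf (nat_lit 0) (nat_lit 1941902284) (nat_lit 304) (nat_lit 10738158094) (nat_lit 76) (nat_lit 28469466591) (nat_lit 68) (nat_lit 5) (nat_lit 72) (nat_lit 5) (nat_lit 69) (nat_lit 5) (nat_lit 358) (nat_lit 334) (nat_lit 208))))))))
noncomputable def xc185 : XT := (XT.nd (nat_lit 1794) (nat_lit 1368) (nat_lit 0) (XT.nd (nat_lit 858) (nat_lit 1140) (nat_lit 0) (XT.nd (nat_lit 390) (nat_lit 684) (nat_lit 0) (XT.nd (nat_lit 156) (nat_lit 456) (nat_lit 0) (XT.nd (nat_lit 78) (nat_lit 0) (nat_lit 0) (XT.lf (nat_lit 0) (nat_lit 8441113375) (nat_lit 380) (nat_lit 30861075339) (nat_lit 76) (nat_lit 3096546240) (nat_lit 64) (nat_lit 5) (nat_lit 69) (nat_lit 5) (nat_lit 65) (nat_lit 5) (nat_lit 359)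 (nat_lit 334) (nat_lit 207)) (XT.lf (nat_lit 0) (nat_lit 15654595465) (nat_lit 380) (nat_lit 8616629478) (nat_lit 76) (nat_lit 19419715494) (nat_lit 64) (nat_lit 5) (nat_lit 69) (nat_lit 5) (nat_lit 65) (nat_lit 5) (nat_lit 360) (nat_lit 334) (nat_lit 206))) (XT.nd (nat_lit 78) (nat_lit 228) (nat_lit 0) (XT.lf (nat_lit 0) (nat_lit 15222943496) (nat_lit 228) (nat_lit 8240246170) (nat_lit 304) (nat_lit 21572847129) (nat_lit 61) (nat_lit 5) (nat_lit 64) (nat_lit 5) (nat_lit 65) (nat_lit 5) (nat_lit 361) (nat_lit 334) (nat_lit 205)) (XT.nd (nat_lit 78) (nat_lit 228) (nat_lit 0) (XT.lf (nat_lit 0) (nat_lit 31941517718) (nat_lit 304) (nat_lit 6028385568) (nat_lit 76) (nat_lit 8464521855) (nat_lit 61) (nat_lit 5) (nat_lit 65) (nat_lit 5) (nat_lit 62) (nat_lit 5) (nat_lit 362) (nat_lit 334) (nat_lit 204)) (XT.lf (nat_lit 0) (nat_lit 19428104469) (nat_lit 228) (nat_lit 21851057068) (nat_lit 304)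 (nat_lit 6601803666) (nat_lit 58) (nat_lit 5) (nat_lit 61) (nat_lit 5) (nat_lit 62) (nat_lit 5) (nat_lit 363) (nat_lit 334) (nat_lit 203))))) (XT.nd (nat_lit 234) (nat_lit 380) (nat_lit 0) (XT.nd (nat_lit 78) (nat_lit 228) (nat_lit 0) (XT.lf (nat_lit 0) (nat_lit 1730743881) (nat_lit 304) (nat_lit 3060200962) (nat_lit 76) (nat_lit 44602535871) (nat_lit 57) (nat_lit 5) (nat_lit 61) (nat_lit 5) (nat_lit 58) (nat_lit 5) (nat_lit 364) (nat_lit 334) (nat_lit 202)) (XT.nd (nat_lit 78) (nat_lit 0) (nat_lit 0) (XT.lf (nat_lit 0) (nat_lit 10846921391) (nat_lit 304) (nat_lit 26903726097) (nat_lit 76) (nat_lit 13196121831) (nat_lit 54) (nat_lit 5) (nat_lit 58) (nat_lit 5) (nat_lit 55) (nat_lit 5) (nat_lit 365) (nat_lit 334) (nat_lit 201)) (XT.lf (nat_lit 0) (nat_lit 20547335870) (nat_lit 304) (nat_lit 50904774) (nat_lit 76) (nat_lit 31973062169) (nat_lit 54) (nat_lit 5) (nat_lit 58) (nat_lit 5) (nat_lit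 55) (nat_lit 5) (nat_lit 366) (nat_lit 334) (nat_lit 200)))) (XT.nd (nat_lit 78) (nat_lit 152) (nat_lit 0) (XT.lf (nat_lit 0) (nat_lit 29071132634) (nat_lit 228) (nat_lit 2112865457) (nat_lit 304) (nat_lit 23070505317) (nat_lit 51) (nat_lit 5) (nat_lit 54) (nat_lit 5) (nat_lit 55) (nat_lit 5) (nat_lit 367) (nat_lit 334) (nat_lit 199)) (XT.nd (nat_lit 78) (nat_lit 0) (nat_lit 0) (XT.lf (nat_lit 0) (nat_lit 3466159713) (nat_lit 152) (nat_lit 39208770301) (nat_lit 228) (nat_lit 13330813879) (nat_lit 49) (nat_lit 5) (nat_lit 51) (nat_lit 5) (nat_lit 52) (nat_lit 5) (nat_lit 368) (nat_lit 334) (nat_lit 198)) (XT.lf (nat_lit 0) (nat_lit 34382825504) (nat_lit 152) (nat_lit 20815610537) (nat_lit 228) (nat_lit 2623210596) (nat_lit 49) (nat_lit 5) (nat_lit 51) (nat_lit 5) (nat_lit 52) (nat_lit 5) (nat_lit 369) (nat_lit 334) (nat_lit 197)))))) (XT.nd (nat_lit 468) (nat_lit 456) (nat_lit 0) (XT.nd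 (nat_lit 234) (nat_lit 228) (nat_lit 0) (XT.nd (nat_lit 78) (nat_lit 152) (nat_lit 0) (XT.lf (nat_lit 0) (nat_lit 7209379119) (nat_lit 228) (nat_lit 1244602170) (nat_lit 304) (nat_lit 51262130999) (nat_lit 45) (nat_lit 5) (nat_lit 48) (nat_lit 5) (nat_lit 49) (nat_lit 5) (nat_lit 370) (nat_lit 334) (nat_lit 196)) (XT.nd (nat_lit 78) (nat_lit 152) (nat_lit 0) (XT.lf (nat_lit 0) (nat_lit 20699310785) (nat_lit 304) (nat_lit 21836444567) (nat_lit 76) (nat_lit 19132275334) (nat_lit 45) (nat_lit 5) (nat_lit 49) (nat_lit 5) (nat_lit 46) (nat_lit 5) (nat_lit 371) (nat_lit 334) (nat_lit 195)) (XT.lf (nat_lit 0) (nat_lit 10685325840) (nat_lit 152) (nat_lit 23056503065) (nat_lit 228) (nat_lit 29966471316) (nat_lit 43) (nat_lit 5) (nat_lit 45) (nat_lit 5) (nat_lit 46) (nat_lit 5) (nat_lit 372) (nat_lit 334) (nat_lit 194)))) (XT.nd (nat_lit 78) (nat_lit 228) (nat_lit 0) (XT.lf (nat_lit 0) (nat_lit 45587728837)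 (nat_lit 152) (nat_lit 2216300051) (nat_lit 228) (nat_lit 18028177809) (nat_lit 43) (nat_lit 5) (nat_lit 45) (nat_lit 5) (nat_lit 46) (nat_lit 5) (nat_lit 373) (nat_lit 334) (nat_lit 193)) (XT.nd (nat_lit 78) (nat_lit 76) (nat_lit 0) (XT.lf (nat_lit 0) (nat_lit 14320770436) (nat_lit 152) (nat_lit 48777028858) (nat_lit 228) (nat_lit 4938087383) (nat_lit 41) (nat_lit 5) (nat_lit 43) (nat_lit 5) (nat_lit 44) (nat_lit 5) (nat_lit 374) (nat_lit 334) (nat_lit 192)) (XT.lf (nat_lit 0) (nat_lit 8907294484) (nat_lit 228) (nat_lit 19198435152) (nat_lit 76) (nat_lit 42218014889) (nat_lit 40) (nat_lit 5) (nat_lit 43) (nat_lit 5) (nat_lit 41) (nat_lit 5) (nat_lit 375) (nat_lit 334) (nat_lit 191))))) (XT.nd (nat_lit 234) (nat_lit 152) (nat_lit 0) (XT.nd (nat_lit 78) (nat_lit 152) (nat_lit 0) (XT.lf (nat_lit 0) (nat_lit 17520558692) (nat_lit 152) (nat_lit 6029929040) (nat_lit 228) (nat_lit 49157886238)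 (nat_lit 38) (nat_lit 5) (nat_lit 40) (nat_lit 5) (nat_lit 41) (nat_lit 5) (nat_lit 376) (nat_lit 334) (nat_lit 190)) (XT.nd (nat_lit 78) (nat_lit 152) (nat_lit 0) (XT.lf (nat_lit 0) (nat_lit 39522035613) (nat_lit 228) (nat_lit 18730397732) (nat_lit 76) (nat_lit 16929992782) (nat_lit 38) (nat_lit 5) (nat_lit 41) (nat_lit 5) (nat_lit 39) (nat_lit 5) (nat_lit 377) (nat_lit 334) (nat_lit 189)) (XT.lf (nat_lit 0) (nat_lit 20090869081) (nat_lit 152) (nat_lit 36611890085) (nat_lit 228) (nat_lit 21056892754) (nat_lit 36) (nat_lit 5) (nat_lit 38) (nat_lit 5) (nat_lit 39) (nat_lit 5) (nat_lit 378) (nat_lit 334) (nat_lit 188)))) (XT.nd (nat_lit 78) (nat_lit 152) (nat_lit 0) (XT.lf (nat_lit 0) (nat_lit 61500324429) (nat_lit 152) (nat_lit 13557517619) (nat_lit 228) (nat_lit 5392131694) (nat_lit 36) (nat_lit 5) (nat_lit 38) (nat_lit 5) (nat_lit 39) (nat_lit 5) (nat_lit 379) (nat_lit 334) (nat_lit 187))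 (XT.nd (nat_lit 78) (nat_lit 0) (nat_lit 0) (XT.lf (nat_lit 0) (nat_lit 11222211984) (nat_lit 152) (nat_lit 61182047111) (nat_lit 76) (nat_lit 10835912651) (nat_lit 34) (nat_lit 5) (nat_lit 36) (nat_lit 5) (nat_lit 35) (nat_lit 5) (nat_lit 380) (nat_lit 334) (nat_lit 186)) (XT.lf (nat_lit 0) (nat_lit 29032693769) (nat_lit 152) (nat_lit 20698652756) (nat_lit 76) (nat_lit 36406782524) (nat_lit 34) (nat_lit 5) (nat_lit 36) (nat_lit 5) (nat_lit 35) (nat_lit 5) (nat_lit 381) (nat_lit 334) (nat_lit 185))))))) (XT.nd (nat_lit 936) (nat_lit 532) (nat_lit 0) (XT.nd (nat_lit 468) (nat_lit 380) (nat_lit 0) (XT.nd (nat_lit 234) (nat_lit 228) (nat_lit 0) (XT.nd (nat_lit 78) (nat_lit 76) (nat_lit 0) (XT.lf (nat_lit 0) (nat_lit 22526977663) (nat_lit 152) (nat_lit 25556712214) (nat_lit 228) (nat_lit 41079795567) (nat_lit 32) (nat_lit 5) (nat_lit 34) (nat_lit 5) (nat_lit 35) (nat_lit 5) (nat_lit 382) (nat_lit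 334) (nat_lit 184)) (XT.nd (nat_lit 78) (nat_lit 76) (nat_lit 0) (XT.lf (nat_lit 0) (nat_lit 68439116513) (nat_lit 228) (nat_lit 23696078846) (nat_lit 76) (nat_lit 187320966) (nat_lit 32) (nat_lit 5) (nat_lit 35) (nat_lit 5) (nat_lit 33) (nat_lit 4) (nat_lit 383) (nat_lit 334) (nat_lit 183)) (XT.lf (nat_lit 0) (nat_lit 21662943080) (nat_lit 76) (nat_lit 68904933007) (nat_lit 152) (nat_lit 5033845252) (nat_lit 31) (nat_lit 5) (nat_lit 32) (nat_lit 5) (nat_lit 33) (nat_lit 4) (nat_lit 384) (nat_lit 334) (nat_lit 182)))) (XT.nd (nat_lit 78) (nat_lit 152) (nat_lit 0) (XT.lf (nat_lit 0) (nat_lit 14692103352) (nat_lit 152) (nat_lit 29152050295) (nat_lit 76) (nat_lit 55168899208) (nat_lit 30) (nat_lit 5) (nat_lit 32) (nat_lit 5) (nat_lit 31) (nat_lit 5) (nat_lit 385) (nat_lit 334) (nat_lit 181)) (XT.nd (nat_lit 78) (nat_lit 0) (nat_lit 0) (XT.lf (nat_lit 0) (nat_lit 18376980686) (nat_lit 152)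 (nat_lit 17143578607) (nat_lit 228) (nat_lit 67055997123) (nat_lit 28) (nat_lit 5) (nat_lit 30) (nat_lit 5) (nat_lit 31) (nat_lit 5) (nat_lit 386) (nat_lit 334) (nat_lit 180)) (XT.lf (nat_lit 0) (nat_lit 58060768606) (nat_lit 228) (nat_lit 37179845954) (nat_lit 76) (nat_lit 11044104615) (nat_lit 28) (nat_lit 5) (nat_lit 31) (nat_lit 5) (nat_lit 29) (nat_lit 4) (nat_lit 387) (nat_lit 334) (nat_lit 179))))) (XT.nd (nat_lit 234) (nat_lit 76) (nat_lit 0) (XT.nd (nat_lit 78) (nat_lit 228) (nat_lit 0) (XT.lf (nat_lit 0) (nat_lit 12300960321) (nat_lit 76) (nat_lit 69898673229) (nat_lit 152) (nat_lit 27955074790) (nat_lit 27) (nat_lit 5) (nat_lit 28) (nat_lit 5) (nat_lit 29) (nat_lit 4) (nat_lit 388) (nat_lit 334) (nat_lit 178)) (XT.nd (nat_lit 78) (nat_lit 228) (nat_lit 0) (XT.lf (nat_lit 0) (nat_lit 65544073476) (nat_lit 76) (nat_lit 42629606844) (nat_lit 152) (nat_lit 6013105213) (nat_lit 27)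 (nat_lit 5) (nat_lit 28) (nat_lit 5) (nat_lit 29) (nat_lit 4) (nat_lit 389) (nat_lit 334) (nat_lit 177)) (XT.lf (nat_lit 0) (nat_lit 2851871404) (nat_lit 152) (nat_lit 13672304891) (nat_lit 228) (nat_lit 101880842062) (nat_lit 24) (nat_lit 5) (nat_lit 26) (nat_lit 5) (nat_lit 27) (nat_lit 5) (nat_lit 390) (nat_lit 334) (nat_lit 176)))) (XT.nd (nat_lit 78) (nat_lit 76) (nat_lit 0) (XT.lf (nat_lit 0) (nat_lit 41083417435) (nat_lit 228) (nat_lit 64558821757) (nat_lit 76) (nat_lit 17132136524) (nat_lit 24) (nat_lit 5) (nat_lit 27) (nat_lit 5) (nat_lit 25) (nat_lit 4) (nat_lit 391) (nat_lit 334) (nat_lit 175)) (XT.nd (nat_lit 78) (nat_lit 76) (nat_lit 0) (XT.lf (nat_lit 0) (nat_lit 67093457597) (nat_lit 228) (nat_lit 11241269211) (nat_lit 76) (nat_lit 49016332697) (nat_lit 24) (nat_lit 5) (nat_lit 27) (nat_lit 5) (nat_lit 25) (nat_lit 4) (nat_lit 392) (nat_lit 334) (nat_lit 174)) (XT.lf (nat_lit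 0) (nat_lit 46219224049) (nat_lit 76) (nat_lit 48905150021) (nat_lit 152) (nat_lit 36996185088) (nat_lit 23) (nat_lit 5) (nat_lit 24) (nat_lit 5) (nat_lit 25) (nat_lit 4) (nat_lit 393) (nat_lit 334) (nat_lit 173)))))) (XT.nd (nat_lit 468) (nat_lit 304) (nat_lit 0) (XT.nd (nat_lit 234) (nat_lit 76) (nat_lit 0) (XT.nd (nat_lit 78) (nat_lit 152) (nat_lit 0) (XT.lf (nat_lit 0) (nat_lit 106940808869) (nat_lit 76) (nat_lit 17805191017) (nat_lit 152) (nat_lit 12373076104) (nat_lit 23) (nat_lit 5) (nat_lit 24) (nat_lit 5) (nat_lit 25) (nat_lit 4) (nat_lit 394) (nat_lit 334) (nat_lit 172)) (XT.nd (nat_lit 78) (nat_lit 0) (nat_lit 0) (XT.lf (nat_lit 0) (nat_lit 13744769988) (nat_lit 152) (nat_lit 113529038803) (nat_lit 76) (nat_lit 15048433062) (nat_lit 21) (nat_lit 5) (nat_lit 23) (nat_lit 5) (nat_lit 22) (nat_lit 4) (nat_lit 395) (nat_lit 334) (nat_lit 171)) (XT.lf (nat_lit 0) (nat_lit 41562876094)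 (nat_lit 152) (nat_lit 56504295201) (nat_lit 76) (nat_lit 49667743959) (nat_lit 21) (nat_lit 5) (nat_lit 23) (nat_lit 5) (nat_lit 22) (nat_lit 4) (nat_lit 396) (nat_lit 334) (nat_lit 170)))) (XT.nd (nat_lit 78) (nat_lit 0) (nat_lit 0) (XT.lf (nat_lit 0) (nat_lit 3481056082) (nat_lit 76) (nat_lit 67344069844) (nat_lit 152) (nat_lit 82590434785) (nat_lit 20) (nat_lit 5) (nat_lit 21) (nat_lit 5) (nat_lit 22) (nat_lit 4) (nat_lit 397) (nat_lit 334) (nat_lit 169)) (XT.nd (nat_lit 78) (nat_lit 0) (nat_lit 0) (XT.lf (nat_lit 0) (nat_lit 68425364421) (nat_lit 76) (nat_lit 34080962262) (nat_lit 152) (nat_lit 56826120128) (nat_lit 20) (nat_lit 5) (nat_lit 21) (nat_lit 5) (nat_lit 22) (nat_lit 4) (nat_lit 398) (nat_lit 334) (nat_lit 168)) (XT.lf (nat_lit 0) (nat_lit 135783733985) (nat_lit 152) (nat_lit 28943441207) (nat_lit 0) (nat_lit 817394977) (nat_lit 20) (nat_lit 5) (nat_lit 22) (nat_lit 4) (nat_lit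 20) (nat_lit 4) (nat_lit 399) (nat_lit 334) (nat_lit 167))))) (XT.nd (nat_lit 234) (nat_lit 152) (nat_lit 0) (XT.nd (nat_lit 78) (nat_lit 76) (nat_lit 0) (XT.lf (nat_lit 0) (nat_lit 36733518145) (nat_lit 76) (nat_lit 135122710011) (nat_lit 76) (nat_lit 154510978) (nat_lit 19) (nat_lit 4) (nat_lit 20) (nat_lit 5) (nat_lit 20) (nat_lit 4) (nat_lit 400) (nat_lit 334) (nat_lit 166)) (XT.nd (nat_lit 78) (nat_lit 0) (nat_lit 0) (XT.lf (nat_lit 0) (nat_lit 30439317683) (nat_lit 152) (nat_lit 72569369234) (nat_lit 76) (nat_lit 75742522580) (nat_lit 18) (nat_lit 5) (nat_lit 20) (nat_lit 5) (nat_lit 19) (nat_lit 4) (nat_lit 401) (nat_lit 334) (nat_lit 165)) (XT.lf (nat_lit 0) (nat_lit 62556694501) (nat_lit 152) (nat_lit 6730433856) (nat_lit 76) (nat_lit 116541496139) (nat_lit 18) (nat_lit 5) (nat_lit 20) (nat_lit 5) (nat_lit 19) (nat_lit 4) (nat_lit 402) (nat_lit 334) (nat_lit 164)))) (XT.nd (nat_lit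 78) (nat_lit 76) (nat_lit 0) (XT.lf (nat_lit 0) (nat_lit 64461941567) (nat_lit 76) (nat_lit 32823524730) (nat_lit 152) (nat_lit 95924167856) (nat_lit 17) (nat_lit 5) (nat_lit 18) (nat_lit 5) (nat_lit 19) (nat_lit 4) (nat_lit 403) (nat_lit 334) (nat_lit 163)) (XT.nd (nat_lit 78) (nat_lit 76) (nat_lit 0) (XT.lf (nat_lit 0) (nat_lit 133950924796) (nat_lit 152) (nat_lit 61595255924) (nat_lit 0) (nat_lit 5403501376) (nat_lit 17) (nat_lit 5) (nat_lit 19) (nat_lit 4) (nat_lit 17) (nat_lit 4) (nat_lit 404) (nat_lit 334) (nat_lit 162)) (XT.lf (nat_lit 0) (nat_lit 8652014643) (nat_lit 76) (nat_lit 164469956815) (nat_lit 76) (nat_lit 35921145415) (nat_lit 16) (nat_lit 4) (nat_lit 17) (nat_lit 5) (nat_lit 17) (nat_lit 4) (nat_lit 405) (nat_lit 334) (nat_lit 161))))))))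
noncomputable def xc186 : XT := (XT.nd (nat_lit 1794) (nat_lit 0) (nat_lit 0) (XT.nd (nat_lit 858) (nat_lit 304) (nat_lit 0) (XT.nd (nat_lit 390) (nat_lit 228) (nat_lit 0) (XT.nd (nat_lit 156) (nat_lit 76) (nat_lit 0) (XT.nd (nat_lit 78) (nat_lit 76) (nat_lit 0) (XT.lf (nat_lit 0) (nat_lit 84548507140) (nat_lit 76) (nat_lit 130745367262) (nat_lit 76) (nat_lit 2195233976) (nat_lit 16) (nat_lit 4) (nat_lit 17) (nat_lit 5) (nat_lit 17) (nat_lit 4) (nat_lit 406) (nat_lit 334) (nat_lit 160)) (XT.lf (nat_lit 0) (nat_lit 32153007699) (nat_lit 152) (nat_lit 62637726440) (nat_lit 76) (nat_lit 131540775726) (nat_lit 15) (nat_lit 5) (nat_lit 17) (nat_lit 5) (nat_lit 16) (nat_lit 4) (nat_lit 407) (nat_lit 334) (nat_lit 159))) (XT.nd (nat_lit 78) (nat_lit 0) (nat_lit 0) (XT.lf (nat_lit 0) (nat_lit 11511269351) (nat_lit 76) (nat_lit 56812565070) (nat_lit 152) (nat_lit 167281450435) (nat_lit 14) (nat_lit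 5) (nat_lit 15) (nat_lit 5) (nat_lit 16) (nat_lit 4) (nat_lit 408) (nat_lit 334) (nat_lit 158)) (XT.nd (nat_lit 78) (nat_lit 0) (nat_lit 0) (XT.lf (nat_lit 0) (nat_lit 91540911216) (nat_lit 76) (nat_lit 15822329917) (nat_lit 152) (nat_lit 137926505686) (nat_lit 14) (nat_lit 5) (nat_lit 15) (nat_lit 5) (nat_lit 16) (nat_lit 4) (nat_lit 409) (nat_lit 334) (nat_lit 157)) (XT.lf (nat_lit 0) (nat_lit 148778822898) (nat_lit 152) (nat_lit 80312738495) (nat_lit 0) (nat_lit 26345660398) (nat_lit 14) (nat_lit 5) (nat_lit 16) (nat_lit 4) (nat_lit 14) (nat_lit 4) (nat_lit 410) (nat_lit 334) (nat_lit 156))))) (XT.nd (nat_lit 234) (nat_lit 76) (nat_lit 0) (XT.nd (nat_lit 78) (nat_lit 152) (nat_lit 0) (XT.lf (nat_lit 0) (nat_lit 192523865793) (nat_lit 152) (nat_lit 3465553876) (nat_lit 0) (nat_lit 70089716881) (nat_lit 14) (nat_lit 5) (nat_lit 16) (nat_lit 4) (nat_lit 14) (nat_lit 4) (nat_lit 411) (nat_lit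 334) (nat_lit 155)) (XT.nd (nat_lit 78) (nat_lit 76) (nat_lit 0) (XT.lf (nat_lit 0) (nat_lit 79776050477) (nat_lit 76) (nat_lit 159924971011) (nat_lit 76) (nat_lit 37489882660) (nat_lit 13) (nat_lit 4) (nat_lit 14) (nat_lit 5) (nat_lit 14) (nat_lit 4) (nat_lit 412) (nat_lit 334) (nat_lit 154)) (XT.lf (nat_lit 0) (nat_lit 425638972) (nat_lit 152) (nat_lit 121563423161) (nat_lit 76) (nat_lit 166865953063) (nat_lit 12) (nat_lit 5) (nat_lit 14) (nat_lit 5) (nat_lit 13) (nat_lit 4) (nat_lit 413) (nat_lit 334) (nat_lit 153)))) (XT.nd (nat_lit 78) (nat_lit 76) (nat_lit 0) (XT.lf (nat_lit 0) (nat_lit 38976396807) (nat_lit 152) (nat_lit 42535221698) (nat_lit 76) (nat_lit 219560015694) (nat_lit 12) (nat_lit 5) (nat_lit 14) (nat_lit 5) (nat_lit 13) (nat_lit 4) (nat_lit 414) (nat_lit 334) (nat_lit 152)) (XT.nd (nat_lit 78) (nat_lit 0) (nat_lit 0) (XT.lf (nat_lit 0) (nat_lit 41780471240) (nat_lit 76)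 (nat_lit 38325927743) (nat_lit 152) (nat_lit 233760099957) (nat_lit 11) (nat_lit 5) (nat_lit 12) (nat_lit 5) (nat_lit 13) (nat_lit 4) (nat_lit 415) (nat_lit 334) (nat_lit 151)) (XT.lf (nat_lit 0) (nat_lit 124134050663) (nat_lit 152) (nat_lit 195598966852) (nat_lit 0) (nat_lit 7526032038) (nat_lit 11) (nat_lit 5) (nat_lit 13) (nat_lit 4) (nat_lit 11) (nat_lit 4) (nat_lit 416) (nat_lit 334) (nat_lit 150)))))) (XT.nd (nat_lit 468) (nat_lit 152) (nat_lit 0) (XT.nd (nat_lit 234) (nat_lit 76) (nat_lit 0) (XT.nd (nat_lit 78) (nat_lit 76) (nat_lit 0) (XT.lf (nat_lit 0) (nat_lit 170990806195) (nat_lit 152) (nat_lit 115916948993) (nat_lit 0) (nat_lit 54382086546) (nat_lit 11) (nat_lit 5) (nat_lit 13) (nat_lit 4) (nat_lit 11) (nat_lit 4) (nat_lit 417) (nat_lit 334) (nat_lit 149)) (XT.nd (nat_lit 78) (nat_lit 76) (nat_lit 0) (XT.lf (nat_lit 0) (nat_lit 220189854141) (nat_lit 152) (nat_lit 32251879894)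 (nat_lit 0) (nat_lit 103580466850) (nat_lit 11) (nat_lit 5) (nat_lit 13) (nat_lit 4) (nat_lit 11) (nat_lit 4) (nat_lit 418) (nat_lit 334) (nat_lit 148)) (XT.lf (nat_lit 0) (nat_lit 57433679411) (nat_lit 76) (nat_lit 215311356376) (nat_lit 76) (nat_lit 98701333235) (nat_lit 10) (nat_lit 4) (nat_lit 11) (nat_lit 5) (nat_lit 11) (nat_lit 4) (nat_lit 419) (nat_lit 334) (nat_lit 147)))) (XT.nd (nat_lit 78) (nat_lit 76) (nat_lit 0) (XT.lf (nat_lit 0) (nat_lit 152722245579) (nat_lit 76) (nat_lit 175751422111) (nat_lit 76) (nat_lit 59140793400) (nat_lit 10) (nat_lit 4) (nat_lit 11) (nat_lit 5) (nat_lit 11) (nat_lit 4) (nat_lit 420) (nat_lit 334) (nat_lit 146)) (XT.nd (nat_lit 78) (nat_lit 76) (nat_lit 0) (XT.lf (nat_lit 0) (nat_lit 252774303347) (nat_lit 76) (nat_lit 134213942116) (nat_lit 76) (nat_lit 17602736670) (nat_lit 10) (nat_lit 4) (nat_lit 11) (nat_lit 5) (nat_lit 11) (nat_lit 4) (nat_lit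 421) (nat_lit 334) (nat_lit 145)) (XT.lf (nat_lit 0) (nat_lit 25179199056) (nat_lit 152) (nat_lit 64994396651) (nat_lit 76) (nat_lit 332222450922) (nat_lit 9) (nat_lit 5) (nat_lit 11) (nat_lit 5) (nat_lit 10) (nat_lit 4) (nat_lit 422) (nat_lit 334) (nat_lit 144))))) (XT.nd (nat_lit 234) (nat_lit 76) (nat_lit 0) (XT.nd (nat_lit 78) (nat_lit 0) (nat_lit 0) (XT.lf (nat_lit 0) (nat_lit 26735260949) (nat_lit 76) (nat_lit 43190367724) (nat_lit 152) (nat_lit 371130459051) (nat_lit 8) (nat_lit 5) (nat_lit 9) (nat_lit 5) (nat_lit 10) (nat_lit 4) (nat_lit 423) (nat_lit 334) (nat_lit 143)) (XT.nd (nat_lit 78) (nat_lit 0) (nat_lit 0) (XT.lf (nat_lit 0) (nat_lit 118123583720) (nat_lit 152) (nat_lit 335401040004) (nat_lit 0) (nat_lit 7063797019) (nat_lit 8) (nat_lit 5) (nat_lit 10) (nat_lit 4) (nat_lit 8) (nat_lit 4) (nat_lit 424) (nat_lit 334) (nat_lit 142)) (XT.lf (nat_lit 0) (nat_lit 169439050354)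 (nat_lit 152) (nat_lit 253244127666) (nat_lit 0) (nat_lit 58378811766) (nat_lit 8) (nat_lit 5) (nat_lit 10) (nat_lit 4) (nat_lit 8) (nat_lit 4) (nat_lit 425) (nat_lit 334) (nat_lit 141)))) (XT.nd (nat_lit 78) (nat_lit 76) (nat_lit 0) (XT.lf (nat_lit 0) (nat_lit 223319885575) (nat_lit 152) (nat_lit 166980155385) (nat_lit 0) (nat_lit 112259216620) (nat_lit 8) (nat_lit 5) (nat_lit 10) (nat_lit 4) (nat_lit 8) (nat_lit 4) (nat_lit 426) (nat_lit 334) (nat_lit 140)) (XT.nd (nat_lit 78) (nat_lit 76) (nat_lit 0) (XT.lf (nat_lit 0) (nat_lit 279894377087) (nat_lit 152) (nat_lit 76403732751) (nat_lit 0) (nat_lit 168833298257) (nat_lit 8) (nat_lit 5) (nat_lit 10) (nat_lit 4) (nat_lit 8) (nat_lit 4) (nat_lit 427) (nat_lit 334) (nat_lit 139)) (XT.lf (nat_lit 0) (nat_lit 19319131236) (nat_lit 76) (nat_lit 320279720605) (nat_lit 76) (nat_lit 209218251419) (nat_lit 7) (nat_lit 4) (nat_lit 8) (nat_lit 5)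 (nat_lit 8) (nat_lit 4) (nat_lit 428) (nat_lit 334) (nat_lit 138))))))) (XT.nd (nat_lit 40326) (nat_lit 0) (nat_lit 4940) (XT.nd (nat_lit 39858) (nat_lit 0) (nat_lit 7220) (XT.nd (nat_lit 39624) (nat_lit 0) (nat_lit 7068) (XT.nd (nat_lit 78) (nat_lit 0) (nat_lit 0) (XT.lf (nat_lit 0) (nat_lit 122480002364) (nat_lit 76) (nat_lit 281102121572) (nat_lit 76) (nat_lit 170040280618) (nat_lit 7) (nat_lit 4) (nat_lit 8) (nat_lit 5) (nat_lit 8) (nat_lit 4) (nat_lit 429) (nat_lit 334) (nat_lit 137)) (XT.nd (nat_lit 39468) (nat_lit 0) (nat_lit 7068) (XT.lf (nat_lit 0) (nat_lit 230798249300) (nat_lit 76) (nat_lit 239965966926) (nat_lit 76) (nat_lit 128903771907) (nat_lit 7) (nat_lit 4) (nat_lit 8) (nat_lit 5) (nat_lit 8) (nat_lit 4) (nat_lit 430) (nat_lit 334) (nat_lit 136)) (XT.lf (nat_lit 0) (nat_lit 364944296) (nat_lit 836) (nat_lit 5459313432) (nat_lit 836) (nat_lit 5459313432) (nat_lit 100) (nat_lit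 3) (nat_lit 111) (nat_lit 3) (nat_lit 111) (nat_lit 5) (nat_lit 335) (nat_lit 335) (nat_lit 230)))) (XT.nd (nat_lit 78) (nat_lit 0) (nat_lit 76) (XT.lf (nat_lit 0) (nat_lit 873328331) (nat_lit 836) (nat_lit 240652723) (nat_lit 836) (nat_lit 22010948046) (nat_lit 100) (nat_lit 3) (nat_lit 111) (nat_lit 3) (nat_lit 111) (nat_lit 5) (nat_lit 336) (nat_lit 335) (nat_lit 229)) (XT.nd (nat_lit 78) (nat_lit 0) (nat_lit 0) (XT.lf (nat_lit 0) (nat_lit 1351077482) (nat_lit 760) (nat_lit 12530806644) (nat_lit 836) (nat_lit 9812372678) (nat_lit 101) (nat_lit 5) (nat_lit 111) (nat_lit 5) (nat_lit 112) (nat_lit 5) (nat_lit 337) (nat_lit 335) (nat_lit 228)) (XT.lf (nat_lit 0) (nat_lit 1867476971) (nat_lit 760) (nat_lit 1168654779) (nat_lit 836) (nat_lit 21255189055) (nat_lit 101) (nat_lit 5) (nat_lit 111) (nat_lit 5) (nat_lit 112) (nat_lit 5) (nat_lit 338) (nat_lit 335) (nat_lit 227))))) (XT.nd (nat_lit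 234) (nat_lit 0) (nat_lit 76) (XT.nd (nat_lit 78) (nat_lit 0) (nat_lit 0) (XT.lf (nat_lit 0) (nat_lit 2709208922) (nat_lit 760) (nat_lit 13930306716) (nat_lit 836) (nat_lit 8263754417) (nat_lit 102) (nat_lit 5) (nat_lit 112) (nat_lit 5) (nat_lit 113) (nat_lit 5) (nat_lit 339) (nat_lit 335) (nat_lit 226)) (XT.nd (nat_lit 78) (nat_lit 0) (nat_lit 76) (XT.lf (nat_lit 0) (nat_lit 3655960162) (nat_lit 760) (nat_lit 1837390943) (nat_lit 836) (nat_lit 20049326335) (nat_lit 102) (nat_lit 5) (nat_lit 112) (nat_lit 5) (nat_lit 113) (nat_lit 5) (nat_lit 340) (nat_lit 335) (nat_lit 225)) (XT.lf (nat_lit 0) (nat_lit 4918377153) (nat_lit 760) (nat_lit 15090869419) (nat_lit 836) (nat_lit 6191399174) (nat_lit 103) (nat_lit 5) (nat_lit 113) (nat_lit 5) (nat_lit 114) (nat_lit 5) (nat_lit 341) (nat_lit 335) (nat_lit 224)))) (XT.nd (nat_lit 78) (nat_lit 0) (nat_lit 76) (XT.lf (nat_lit 0) (nat_lit 6359249722)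 (nat_lit 760) (nat_lit 2217191908) (nat_lit 836) (nat_lit 18309310729) (nat_lit 103) (nat_lit 5) (nat_lit 113) (nat_lit 5) (nat_lit 114) (nat_lit 5) (nat_lit 342) (nat_lit 335) (nat_lit 223)) (XT.nd (nat_lit 78) (nat_lit 0) (nat_lit 0) (XT.lf (nat_lit 0) (nat_lit 8104839391) (nat_lit 760) (nat_lit 15983725833) (nat_lit 836) (nat_lit 3504921718) (nat_lit 104) (nat_lit 5) (nat_lit 114) (nat_lit 5) (nat_lit 115) (nat_lit 5) (nat_lit 343) (nat_lit 335) (nat_lit 222)) (XT.lf (nat_lit 0) (nat_lit 10110665058) (nat_lit 760) (nat_lit 2275687092) (nat_lit 836) (nat_lit 15941614289) (nat_lit 104) (nat_lit 5) (nat_lit 114) (nat_lit 5) (nat_lit 115) (nat_lit 5) (nat_lit 344) (nat_lit 335) (nat_lit 221)))))) (XT.nd (nat_lit 468) (nat_lit 1368) (nat_lit 0) (XT.nd (nat_lit 234) (nat_lit 380) (nat_lit 0) (XT.nd (nat_lit 78) (nat_lit 760) (nat_lit 0) (XT.lf (nat_lit 0) (nat_lit 12408298979) (nat_lit 760)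 (nat_lit 16577638021) (nat_lit 76) (nat_lit 103662789) (nat_lit 105) (nat_lit 5) (nat_lit 115) (nat_lit 5) (nat_lit 106) (nat_lit 5) (nat_lit 345) (nat_lit 335) (nat_lit 220)) (XT.nd (nat_lit 78) (nat_lit 760) (nat_lit 0) (XT.lf (nat_lit 0) (nat_lit 15057718720) (nat_lit 760) (nat_lit 1977840289) (nat_lit 76) (nat_lit 12841916045) (nat_lit 105) (nat_lit 5) (nat_lit 115) (nat_lit 5) (nat_lit 106) (nat_lit 5) (nat_lit 346) (nat_lit 335) (nat_lit 219)) (XT.lf (nat_lit 0) (nat_lit 13788734359) (nat_lit 760) (nat_lit 4261086835) (nat_lit 836) (nat_lit 12644417493) (nat_lit 95) (nat_lit 5) (nat_lit 105) (nat_lit 5) (nat_lit 106) (nat_lit 5) (nat_lit 347) (nat_lit 335) (nat_lit 218)))) (XT.nd (nat_lit 78) (nat_lit 380) (nat_lit 0) (XT.lf (nat_lit 0) (nat_lit 21363573024) (nat_lit 836) (nat_lit 1286022947) (nat_lit 76) (nat_lit 8893647266) (nat_lit 95) (nat_lit 5) (nat_lit 106) (nat_lit 5) (nat_lit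 96) (nat_lit 5) (nat_lit 348) (nat_lit 335) (nat_lit 217)) (XT.nd (nat_lit 78) (nat_lit 0) (nat_lit 0) (XT.lf (nat_lit 0) (nat_lit 15537374554) (nat_lit 380) (nat_lit 9613415992) (nat_lit 456) (nat_lit 7268523275) (nat_lit 90) (nat_lit 5) (nat_lit 95) (nat_lit 5) (nat_lit 96) (nat_lit 5) (nat_lit 349) (nat_lit 335) (nat_lit 216)) (XT.lf (nat_lit 0) (nat_lit 29208617140) (nat_lit 456) (nat_lit 160137305) (nat_lit 76) (nat_lit 3966375564) (nat_lit 90) (nat_lit 5) (nat_lit 96) (nat_lit 5) (nat_lit 91) (nat_lit 5) (nat_lit 350) (nat_lit 335) (nat_lit 215))))) (XT.nd (nat_lit 234) (nat_lit 608) (nat_lit 0) (XT.nd (nat_lit 78) (nat_lit 456) (nat_lit 0) (XT.lf (nat_lit 0) (nat_lit 17805614790) (nat_lit 304) (nat_lit 16095023500) (nat_lit 380) (nat_lit 374537829) (nat_lit 86) (nat_lit 5) (nat_lit 90) (nat_lit 5) (nat_lit 91) (nat_lit 5) (nat_lit 351) (nat_lit 335) (nat_lit 214)) (XT.nd (nat_lit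 78) (nat_lit 0) (nat_lit 0) (XT.lf (nat_lit 0) (nat_lit 1397648048) (nat_lit 380) (nat_lit 2073636982) (nat_lit 456) (nat_lit 31787142746) (nat_lit 80) (nat_lit 5) (nat_lit 85) (nat_lit 5) (nat_lit 86) (nat_lit 5) (nat_lit 352) (nat_lit 335) (nat_lit 213)) (XT.lf (nat_lit 0) (nat_lit 7973689559) (nat_lit 456) (nat_lit 15759724357) (nat_lit 76) (nat_lit 12533280919) (nat_lit 80) (nat_lit 5) (nat_lit 86) (nat_lit 5) (nat_lit 81) (nat_lit 5) (nat_lit 353) (nat_lit 335) (nat_lit 212)))) (XT.nd (nat_lit 78) (nat_lit 304) (nat_lit 0) (XT.lf (nat_lit 0) (nat_lit 3314044341) (nat_lit 304) (nat_lit 9469002200) (nat_lit 380) (nat_lit 24538240609) (nat_lit 76) (nat_lit 5) (nat_lit 80) (nat_lit 5) (nat_lit 81) (nat_lit 5) (nat_lit 354) (nat_lit 335) (nat_lit 211)) (XT.nd (nat_lit 78) (nat_lit 304) (nat_lit 0) (XT.lf (nat_lit 0) (nat_lit 18186356450) (nat_lit 380) (nat_lit 14621529351) (nat_lit 76)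 (nat_lit 5603052375) (nat_lit 76) (nat_lit 5) (nat_lit 81) (nat_lit 5) (nat_lit 77) (nat_lit 5) (nat_lit 355) (nat_lit 335) (nat_lit 210)) (XT.lf (nat_lit 0) (nat_lit 5758226910) (nat_lit 304) (nat_lit 18343123194) (nat_lit 380) (nat_lit 15441648925) (nat_lit 72) (nat_lit 5) (nat_lit 76) (nat_lit 5) (nat_lit 77) (nat_lit 5) (nat_lit 356) (nat_lit 335) (nat_lit 209))))))))
noncomputable def xc187 : XT := (XT.nd (nat_lit 1872) (nat_lit 1444) (nat_lit 0) (XT.nd (nat_lit 936) (nat_lit 1140) (nat_lit 0) (XT.nd (nat_lit 468) (nat_lit 760) (nat_lit 0) (XT.nd (nat_lit 234) (nat_lit 532) (nat_lit 0) (XT.nd (nat_lit 78) (nat_lit 304) (nat_lit 0) (XT.lf (nat_lit 0) (nat_lit 27660354477) (nat_lit 304) (nat_lit 2895854103) (nat_lit 380) (nat_lit 10163251623) (nat_lit 72) (nat_lit 5) (nat_lit 76) (nat_lit 5) (nat_lit 77) (nat_lit 5) (nat_lit 357) (nat_lit 335) (nat_lit 208)) (XT.nd (nat_lit 78) (nat_lit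 76) (nat_lit 0) (XT.lf (nat_lit 0) (nat_lit 8771360865) (nat_lit 228) (nat_lit 28904064718) (nat_lit 304) (nat_lit 4262240966) (nat_lit 69) (nat_lit 5) (nat_lit 72) (nat_lit 5) (nat_lit 73) (nat_lit 5) (nat_lit 358) (nat_lit 335) (nat_lit 207)) (XT.lf (nat_lit 0) (nat_lit 2140874386) (nat_lit 304) (nat_lit 11144526962) (nat_lit 76) (nat_lit 29916427445) (nat_lit 68) (nat_lit 5) (nat_lit 72) (nat_lit 5) (nat_lit 69) (nat_lit 5) (nat_lit 359) (nat_lit 335) (nat_lit 206)))) (XT.nd (nat_lit 78) (nat_lit 228) (nat_lit 0) (XT.lf (nat_lit 0) (nat_lit 8962659012) (nat_lit 380) (nat_lit 32271126216) (nat_lit 76) (nat_lit 3279835141) (nat_lit 64) (nat_lit 5) (nat_lit 69) (nat_lit 5) (nat_lit 65) (nat_lit 5) (nat_lit 360) (nat_lit 335) (nat_lit 205)) (XT.nd (nat_lit 78) (nat_lit 228) (nat_lit 0) (XT.lf (nat_lit 0) (nat_lit 16532077590) (nat_lit 380) (nat_lit 8920791534) (nat_lit 76) (nat_lit 20417807544)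 (nat_lit 64) (nat_lit 5) (nat_lit 69) (nat_lit 5) (nat_lit 65) (nat_lit 5) (nat_lit 361) (nat_lit 335) (nat_lit 204)) (XT.lf (nat_lit 0) (nat_lit 16108717034) (nat_lit 228) (nat_lit 8619818216) (nat_lit 304) (nat_lit 22554624390) (nat_lit 61) (nat_lit 5) (nat_lit 64) (nat_lit 5) (nat_lit 65) (nat_lit 5) (nat_lit 362) (nat_lit 335) (nat_lit 203))))) (XT.nd (nat_lit 234) (nat_lit 456) (nat_lit 0) (XT.nd (nat_lit 78) (nat_lit 304) (nat_lit 0) (XT.lf (nat_lit 0) (nat_lit 33626872256) (nat_lit 304) (nat_lit 6207139251) (nat_lit 76) (nat_lit 8917654587) (nat_lit 61) (nat_lit 5) (nat_lit 65) (nat_lit 5) (nat_lit 62) (nat_lit 5) (nat_lit 363) (nat_lit 335) (nat_lit 202)) (XT.nd (nat_lit 78) (nat_lit 76) (nat_lit 0) (XT.lf (nat_lit 0) (nat_lit 20520196810) (nat_lit 228) (nat_lit 22908881975) (nat_lit 304) (nat_lit 6841573509) (nat_lit 58) (nat_lit 5) (nat_lit 61) (nat_lit 5) (nat_lit 62) (nat_lit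 5) (nat_lit 364) (nat_lit 335) (nat_lit 201)) (XT.lf (nat_lit 0) (nat_lit 1900547290) (nat_lit 304) (nat_lit 3095460407) (nat_lit 76) (nat_lit 46862926408) (nat_lit 57) (nat_lit 5) (nat_lit 61) (nat_lit 5) (nat_lit 58) (nat_lit 5) (nat_lit 365) (nat_lit 335) (nat_lit 200)))) (XT.nd (nat_lit 78) (nat_lit 228) (nat_lit 0) (XT.lf (nat_lit 0) (nat_lit 11470919794) (nat_lit 304) (nat_lit 28129493314) (nat_lit 76) (nat_lit 13889557456) (nat_lit 54) (nat_lit 5) (nat_lit 58) (nat_lit 5) (nat_lit 55) (nat_lit 5) (nat_lit 366) (nat_lit 335) (nat_lit 199)) (XT.nd (nat_lit 78) (nat_lit 0) (nat_lit 0) (XT.lf (nat_lit 0) (nat_lit 62275662) (nat_lit 228) (nat_lit 21591163426) (nat_lit 304) (nat_lit 33542440041) (nat_lit 51) (nat_lit 5) (nat_lit 54) (nat_lit 5) (nat_lit 55) (nat_lit 5) (nat_lit 367) (nat_lit 335) (nat_lit 198)) (XT.lf (nat_lit 0) (nat_lit 30636587336) (nat_lit 228) (nat_lit 2182418776)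 (nat_lit 304) (nat_lit 24144382533) (nat_lit 51) (nat_lit 5) (nat_lit 54) (nat_lit 5) (nat_lit 55) (nat_lit 5) (nat_lit 368) (nat_lit 335) (nat_lit 197)))))) (XT.nd (nat_lit 468) (nat_lit 532) (nat_lit 0) (XT.nd (nat_lit 234) (nat_lit 152) (nat_lit 0) (XT.nd (nat_lit 78) (nat_lit 304) (nat_lit 0) (XT.lf (nat_lit 0) (nat_lit 3752784583) (nat_lit 152) (nat_lit 41130395965) (nat_lit 228) (nat_lit 13919078169) (nat_lit 49) (nat_lit 5) (nat_lit 51) (nat_lit 5) (nat_lit 52) (nat_lit 5) (nat_lit 369) (nat_lit 335) (nat_lit 196)) (XT.nd (nat_lit 78) (nat_lit 304) (nat_lit 0) (XT.lf (nat_lit 0) (nat_lit 36209887621) (nat_lit 152) (nat_lit 21819426444) (nat_lit 228) (nat_lit 2679822169) (nat_lit 49) (nat_lit 5) (nat_lit 51) (nat_lit 5) (nat_lit 52) (nat_lit 5) (nat_lit 370) (nat_lit 335) (nat_lit 195)) (XT.lf (nat_lit 0) (nat_lit 7678417900) (nat_lit 228) (nat_lit 1268684127) (nat_lit 304) (nat_lit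 53751254046) (nat_lit 45) (nat_lit 5) (nat_lit 48) (nat_lit 5) (nat_lit 49) (nat_lit 5) (nat_lit 371) (nat_lit 335) (nat_lit 194)))) (XT.nd (nat_lit 78) (nat_lit 152) (nat_lit 0) (XT.lf (nat_lit 0) (nat_lit 21801911823) (nat_lit 304) (nat_lit 22822041980) (nat_lit 76) (nat_lit 20124057836) (nat_lit 45) (nat_lit 5) (nat_lit 49) (nat_lit 5) (nat_lit 46) (nat_lit 5) (nat_lit 372) (nat_lit 335) (nat_lit 193)) (XT.nd (nat_lit 78) (nat_lit 0) (nat_lit 0) (XT.lf (nat_lit 0) (nat_lit 11324103643) (nat_lit 152) (nat_lit 24170863185) (nat_lit 228) (nat_lit 31395409122) (nat_lit 43) (nat_lit 5) (nat_lit 45) (nat_lit 5) (nat_lit 46) (nat_lit 5) (nat_lit 373) (nat_lit 335) (nat_lit 192)) (XT.lf (nat_lit 0) (nat_lit 47966650051) (nat_lit 152) (nat_lit 2290481688) (nat_lit 228) (nat_lit 18863505023) (nat_lit 43) (nat_lit 5) (nat_lit 45) (nat_lit 5) (nat_lit 46) (nat_lit 5) (nat_lit 374) (nat_lit 335)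 (nat_lit 191))))) (XT.nd (nat_lit 234) (nat_lit 152) (nat_lit 0) (XT.nd (nat_lit 78) (nat_lit 228) (nat_lit 0) (XT.lf (nat_lit 0) (nat_lit 15137304580) (nat_lit 152) (nat_lit 51177404513) (nat_lit 228) (nat_lit 5119837404) (nat_lit 41) (nat_lit 5) (nat_lit 43) (nat_lit 5) (nat_lit 44) (nat_lit 5) (nat_lit 375) (nat_lit 335) (nat_lit 190)) (XT.nd (nat_lit 78) (nat_lit 152) (nat_lit 0) (XT.lf (nat_lit 0) (nat_lit 9412724924) (nat_lit 228) (nat_lit 20060630343) (nat_lit 76) (nat_lit 44363542791) (nat_lit 40) (nat_lit 5) (nat_lit 43) (nat_lit 5) (nat_lit 41) (nat_lit 5) (nat_lit 376) (nat_lit 335) (nat_lit 189)) (XT.lf (nat_lit 0) (nat_lit 18492736958) (nat_lit 152) (nat_lit 6293981781) (nat_lit 228) (nat_lit 51554109640) (nat_lit 38) (nat_lit 5) (nat_lit 40) (nat_lit 5) (nat_lit 41) (nat_lit 5) (nat_lit 377) (nat_lit 335) (nat_lit 188)))) (XT.nd (nat_lit 78) (nat_lit 152) (nat_lit 0) (XT.lf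 (nat_lit 0) (nat_lit 41554605224) (nat_lit 228) (nat_lit 19573079506) (nat_lit 76) (nat_lit 17811011733) (nat_lit 38) (nat_lit 5) (nat_lit 41) (nat_lit 5) (nat_lit 39) (nat_lit 5) (nat_lit 378) (nat_lit 335) (nat_lit 187)) (XT.nd (nat_lit 78) (nat_lit 0) (nat_lit 0) (XT.lf (nat_lit 0) (nat_lit 21187737130) (nat_lit 152) (nat_lit 38405380326) (nat_lit 228) (nat_lit 22051729778) (nat_lit 36) (nat_lit 5) (nat_lit 38) (nat_lit 5) (nat_lit 39) (nat_lit 5) (nat_lit 379) (nat_lit 335) (nat_lit 186)) (XT.lf (nat_lit 0) (nat_lit 64663268836) (nat_lit 152) (nat_lit 14200056106) (nat_lit 228) (nat_lit 5606492932) (nat_lit 36) (nat_lit 5) (nat_lit 38) (nat_lit 5) (nat_lit 39) (nat_lit 5) (nat_lit 380) (nat_lit 335) (nat_lit 185))))))) (XT.nd (nat_lit 936) (nat_lit 532) (nat_lit 0) (XT.nd (nat_lit 468) (nat_lit 456) (nat_lit 0) (XT.nd (nat_lit 234) (nat_lit 152) (nat_lit 0) (XT.nd (nat_lit 78) (nat_lit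 152) (nat_lit 0) (XT.lf (nat_lit 0) (nat_lit 11836192897) (nat_lit 152) (nat_lit 64150799735) (nat_lit 76) (nat_lit 11412521497) (nat_lit 34) (nat_lit 5) (nat_lit 36) (nat_lit 5) (nat_lit 35) (nat_lit 5) (nat_lit 381) (nat_lit 335) (nat_lit 184)) (XT.nd (nat_lit 78) (nat_lit 152) (nat_lit 0) (XT.lf (nat_lit 0) (nat_lit 30534681137) (nat_lit 152) (nat_lit 21647538031) (nat_lit 76) (nat_lit 38260277091) (nat_lit 34) (nat_lit 5) (nat_lit 36) (nat_lit 5) (nat_lit 35) (nat_lit 5) (nat_lit 382) (nat_lit 335) (nat_lit 183)) (XT.lf (nat_lit 0) (nat_lit 23737986049) (nat_lit 152) (nat_lit 26799165027) (nat_lit 228) (nat_lit 43082024226) (nat_lit 32) (nat_lit 5) (nat_lit 34) (nat_lit 5) (nat_lit 35) (nat_lit 5) (nat_lit 383) (nat_lit 335) (nat_lit 182)))) (XT.nd (nat_lit 78) (nat_lit 152) (nat_lit 0) (XT.lf (nat_lit 0) (nat_lit 71908528652) (nat_lit 228) (nat_lit 24798414700) (nat_lit 76) (nat_lit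 229306374) (nat_lit 32) (nat_lit 5) (nat_lit 35) (nat_lit 5) (nat_lit 33) (nat_lit 4) (nat_lit 384) (nat_lit 335) (nat_lit 181)) (XT.nd (nat_lit 78) (nat_lit 76) (nat_lit 0) (XT.lf (nat_lit 0) (nat_lit 22827228192) (nat_lit 76) (nat_lit 72315504980) (nat_lit 152) (nat_lit 5236732404) (nat_lit 31) (nat_lit 5) (nat_lit 32) (nat_lit 5) (nat_lit 33) (nat_lit 4) (nat_lit 385) (nat_lit 335) (nat_lit 180)) (XT.lf (nat_lit 0) (nat_lit 15471701893) (nat_lit 152) (nat_lit 30530873949) (nat_lit 76) (nat_lit 57958863056) (nat_lit 30) (nat_lit 5) (nat_lit 32) (nat_lit 5) (nat_lit 31) (nat_lit 5) (nat_lit 386) (nat_lit 335) (nat_lit 179))))) (XT.nd (nat_lit 234) (nat_lit 228) (nat_lit 0) (XT.nd (nat_lit 78) (nat_lit 76) (nat_lit 0) (XT.lf (nat_lit 0) (nat_lit 19373337954) (nat_lit 152) (nat_lit 17967310256) (nat_lit 228) (nat_lit 70362516854) (nat_lit 28) (nat_lit 5) (nat_lit 30) (nat_lit 5) (nat_lit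 31) (nat_lit 5) (nat_lit 387) (nat_lit 335) (nat_lit 178)) (XT.nd (nat_lit 78) (nat_lit 76) (nat_lit 0) (XT.lf (nat_lit 0) (nat_lit 61006267188) (nat_lit 228) (nat_lit 38963404727) (nat_lit 76) (nat_lit 11627144855) (nat_lit 28) (nat_lit 5) (nat_lit 31) (nat_lit 5) (nat_lit 29) (nat_lit 4) (nat_lit 388) (nat_lit 335) (nat_lit 177)) (XT.lf (nat_lit 0) (nat_lit 12990225192) (nat_lit 76) (nat_lit 73360987008) (nat_lit 152) (nat_lit 29309137083) (nat_lit 27) (nat_lit 5) (nat_lit 28) (nat_lit 5) (nat_lit 29) (nat_lit 4) (nat_lit 389) (nat_lit 335) (nat_lit 176)))) (XT.nd (nat_lit 78) (nat_lit 228) (nat_lit 0) (XT.lf (nat_lit 0) (nat_lit 68891959868) (nat_lit 76) (nat_lit 44730020631) (nat_lit 152) (nat_lit 6272149572) (nat_lit 27) (nat_lit 5) (nat_lit 28) (nat_lit 5) (nat_lit 29) (nat_lit 4) (nat_lit 390) (nat_lit 335) (nat_lit 175)) (XT.nd (nat_lit 78) (nat_lit 0) (nat_lit 0) (XT.lf (nat_lit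 0) (nat_lit 3065331029) (nat_lit 152) (nat_lit 14324521540) (nat_lit 228) (nat_lit 106933430700) (nat_lit 24) (nat_lit 5) (nat_lit 26) (nat_lit 5) (nat_lit 27) (nat_lit 5) (nat_lit 391) (nat_lit 335) (nat_lit 174)) (XT.lf (nat_lit 0) (nat_lit 43175643238) (nat_lit 228) (nat_lit 67717846806) (nat_lit 76) (nat_lit 18017689679) (nat_lit 24) (nat_lit 5) (nat_lit 27) (nat_lit 5) (nat_lit 25) (nat_lit 4) (nat_lit 392) (nat_lit 335) (nat_lit 173)))))) (XT.nd (nat_lit 468) (nat_lit 228) (nat_lit 0) (XT.nd (nat_lit 234) (nat_lit 228) (nat_lit 0) (XT.nd (nat_lit 78) (nat_lit 76) (nat_lit 0) (XT.lf (nat_lit 0) (nat_lit 70484373269) (nat_lit 228) (nat_lit 11737698348) (nat_lit 76) (nat_lit 51494717264) (nat_lit 24) (nat_lit 5) (nat_lit 27) (nat_lit 5) (nat_lit 25) (nat_lit 4) (nat_lit 393) (nat_lit 335) (nat_lit 172)) (XT.nd (nat_lit 78) (nat_lit 0) (nat_lit 0) (XT.lf (nat_lit 0) (nat_lit 48594760957)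 (nat_lit 76) (nat_lit 51321356969) (nat_lit 152) (nat_lit 38808682018) (nat_lit 23) (nat_lit 5) (nat_lit 24) (nat_lit 5) (nat_lit 25) (nat_lit 4) (nat_lit 394) (nat_lit 335) (nat_lit 171)) (XT.lf (nat_lit 0) (nat_lit 112349349984) (nat_lit 76) (nat_lit 18667783375) (nat_lit 152) (nat_lit 12956194362) (nat_lit 23) (nat_lit 5) (nat_lit 24) (nat_lit 5) (nat_lit 25) (nat_lit 4) (nat_lit 395) (nat_lit 335) (nat_lit 170)))) (XT.nd (nat_lit 78) (nat_lit 76) (nat_lit 0) (XT.lf (nat_lit 0) (nat_lit 14466166830) (nat_lit 152) (nat_lit 119142593540) (nat_lit 76) (nat_lit 15827876230) (nat_lit 21) (nat_lit 5) (nat_lit 23) (nat_lit 5) (nat_lit 22) (nat_lit 4) (nat_lit 396) (nat_lit 335) (nat_lit 169)) (XT.nd (nat_lit 78) (nat_lit 76) (nat_lit 0) (XT.lf (nat_lit 0) (nat_lit 43673551654) (nat_lit 152) (nat_lit 59269607864) (nat_lit 76) (nat_lit 52176865932) (nat_lit 21) (nat_lit 5) (nat_lit 23) (nat_lit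 5) (nat_lit 22) (nat_lit 4) (nat_lit 397) (nat_lit 335) (nat_lit 168)) (XT.lf (nat_lit 0) (nat_lit 3714044820) (nat_lit 76) (nat_lit 70684240181) (nat_lit 152) (nat_lit 86686450055) (nat_lit 20) (nat_lit 5) (nat_lit 21) (nat_lit 5) (nat_lit 22) (nat_lit 4) (nat_lit 398) (nat_lit 335) (nat_lit 167))))) (XT.nd (nat_lit 234) (nat_lit 152) (nat_lit 0) (XT.nd (nat_lit 78) (nat_lit 76) (nat_lit 0) (XT.lf (nat_lit 0) (nat_lit 71902762104) (nat_lit 76) (nat_lit 35759264512) (nat_lit 152) (nat_lit 59635515211) (nat_lit 20) (nat_lit 5) (nat_lit 21) (nat_lit 5) (nat_lit 22) (nat_lit 4) (nat_lit 399) (nat_lit 335) (nat_lit 166)) (XT.nd (nat_lit 78) (nat_lit 76) (nat_lit 0) (XT.lf (nat_lit 0) (nat_lit 142602240269) (nat_lit 152) (nat_lit 30336084867) (nat_lit 0) (nat_lit 881999806) (nat_lit 20) (nat_lit 5) (nat_lit 22) (nat_lit 4) (nat_lit 20) (nat_lit 4) (nat_lit 400) (nat_lit 335) (nat_lit 165)) (XT.lf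 (nat_lit 0) (nat_lit 38623842962) (nat_lit 76) (nat_lit 141853957625) (nat_lit 76) (nat_lit 132030064) (nat_lit 19) (nat_lit 4) (nat_lit 20) (nat_lit 5) (nat_lit 20) (nat_lit 4) (nat_lit 401) (nat_lit 335) (nat_lit 164)))) (XT.nd (nat_lit 78) (nat_lit 76) (nat_lit 0) (XT.lf (nat_lit 0) (nat_lit 31989130869) (nat_lit 152) (nat_lit 76145816039) (nat_lit 76) (nat_lit 79552424000) (nat_lit 18) (nat_lit 5) (nat_lit 20) (nat_lit 5) (nat_lit 19) (nat_lit 4) (nat_lit 402) (nat_lit 335) (nat_lit 163)) (XT.nd (nat_lit 78) (nat_lit 76) (nat_lit 0) (XT.lf (nat_lit 0) (nat_lit 65711050465) (nat_lit 152) (nat_lit 7017411113) (nat_lit 76) (nat_lit 122390261699) (nat_lit 18) (nat_lit 5) (nat_lit 20) (nat_lit 5) (nat_lit 19) (nat_lit 4) (nat_lit 403) (nat_lit 335) (nat_lit 162)) (XT.lf (nat_lit 0) (nat_lit 67733783978) (nat_lit 76) (nat_lit 34441975009) (nat_lit 152) (nat_lit 100693049828) (nat_lit 17)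 (nat_lit 5) (nat_lit 18) (nat_lit 5) (nat_lit 19) (nat_lit 4) (nat_lit 404) (nat_lit 335) (nat_lit 161))))))))
noncomputable def xc188 : XT := (XT.nd (nat_lit 1794) (nat_lit 76) (nat_lit 0) (XT.nd (nat_lit 858) (nat_lit 304) (nat_lit 0) (XT.nd (nat_lit 390) (nat_lit 152) (nat_lit 0) (XT.nd (nat_lit 156) (nat_lit 152) (nat_lit 0) (XT.nd (nat_lit 78) (nat_lit 76) (nat_lit 0) (XT.lf (nat_lit 0) (nat_lit 140673589313) (nat_lit 152) (nat_lit 64627687709) (nat_lit 0) (nat_lit 5694627478) (nat_lit 17) (nat_lit 5) (nat_lit 19) (nat_lit 4) (nat_lit 17) (nat_lit 4) (nat_lit 405) (nat_lit 335) (nat_lit 160)) (XT.lf (nat_lit 0) (nat_lit 9131182983) (nat_lit 76) (nat_lit 172671536267) (nat_lit 76) (nat_lit 37691315493) (nat_lit 16) (nat_lit 4) (nat_lit 17) (nat_lit 5) (nat_lit 17) (nat_lit 4) (nat_lit 406) (nat_lit 335) (nat_lit 159))) (XT.nd (nat_lit 78) (nat_lit 152) (nat_lit 0) (XT.lf (nat_lit 0)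 (nat_lit 88820282600) (nat_lit 76) (nat_lit 137261760969) (nat_lit 76) (nat_lit 2280341206) (nat_lit 16) (nat_lit 4) (nat_lit 17) (nat_lit 5) (nat_lit 17) (nat_lit 4) (nat_lit 407) (nat_lit 335) (nat_lit 158)) (XT.nd (nat_lit 78) (nat_lit 76) (nat_lit 0) (XT.lf (nat_lit 0) (nat_lit 33783387010) (nat_lit 152) (nat_lit 65726618286) (nat_lit 76) (nat_lit 138136938855) (nat_lit 15) (nat_lit 5) (nat_lit 17) (nat_lit 5) (nat_lit 16) (nat_lit 4) (nat_lit 408) (nat_lit 335) (nat_lit 157)) (XT.lf (nat_lit 0) (nat_lit 12129133835) (nat_lit 76) (nat_lit 59633199340) (nat_lit 152) (nat_lit 175622096037) (nat_lit 14) (nat_lit 5) (nat_lit 15) (nat_lit 5) (nat_lit 16) (nat_lit 4) (nat_lit 409) (nat_lit 335) (nat_lit 156))))) (XT.nd (nat_lit 234) (nat_lit 152) (nat_lit 0) (XT.nd (nat_lit 78) (nat_lit 0) (nat_lit 0) (XT.lf (nat_lit 0) (nat_lit 96158243459) (nat_lit 76) (nat_lit 16594404524) (nat_lit 152)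 (nat_lit 144800519618) (nat_lit 14) (nat_lit 5) (nat_lit 15) (nat_lit 5) (nat_lit 16) (nat_lit 4) (nat_lit 410) (nat_lit 335) (nat_lit 155)) (XT.nd (nat_lit 78) (nat_lit 0) (nat_lit 0) (XT.lf (nat_lit 0) (nat_lit 156238280321) (nat_lit 152) (nat_lit 84289274520) (nat_lit 0) (nat_lit 27680498112) (nat_lit 14) (nat_lit 5) (nat_lit 16) (nat_lit 4) (nat_lit 14) (nat_lit 4) (nat_lit 411) (nat_lit 335) (nat_lit 154)) (XT.lf (nat_lit 0) (nat_lit 202169598394) (nat_lit 152) (nat_lit 3601592618) (nat_lit 0) (nat_lit 73610921482) (nat_lit 14) (nat_lit 5) (nat_lit 16) (nat_lit 4) (nat_lit 14) (nat_lit 4) (nat_lit 412) (nat_lit 335) (nat_lit 153)))) (XT.nd (nat_lit 78) (nat_lit 76) (nat_lit 0) (XT.lf (nat_lit 0) (nat_lit 83801491324) (nat_lit 76) (nat_lit 167903762134) (nat_lit 76) (nat_lit 39344233122) (nat_lit 13) (nat_lit 4) (nat_lit 14) (nat_lit 5) (nat_lit 14) (nat_lit 4) (nat_lit 413) (nat_lit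 335) (nat_lit 152)) (XT.nd (nat_lit 78) (nat_lit 0) (nat_lit 0) (XT.lf (nat_lit 0) (nat_lit 465491347) (nat_lit 152) (nat_lit 127606083272) (nat_lit 76) (nat_lit 175225259432) (nat_lit 12) (nat_lit 5) (nat_lit 14) (nat_lit 5) (nat_lit 13) (nat_lit 4) (nat_lit 414) (nat_lit 335) (nat_lit 151)) (XT.lf (nat_lit 0) (nat_lit 40942902768) (nat_lit 152) (nat_lit 44628162738) (nat_lit 76) (nat_lit 230553262875) (nat_lit 12) (nat_lit 5) (nat_lit 14) (nat_lit 5) (nat_lit 13) (nat_lit 4) (nat_lit 415) (nat_lit 335) (nat_lit 150)))))) (XT.nd (nat_lit 468) (nat_lit 152) (nat_lit 0) (XT.nd (nat_lit 234) (nat_lit 76) (nat_lit 0) (XT.nd (nat_lit 78) (nat_lit 0) (nat_lit 0) (XT.lf (nat_lit 0) (nat_lit 43902769362) (nat_lit 76) (nat_lit 40226313003) (nat_lit 152) (nat_lit 245429870281) (nat_lit 11) (nat_lit 5) (nat_lit 12) (nat_lit 5) (nat_lit 13) (nat_lit 4) (nat_lit 416) (nat_lit 335) (nat_lit 149)) (XT.nd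 (nat_lit 78) (nat_lit 0) (nat_lit 0) (XT.lf (nat_lit 0) (nat_lit 130357526387) (nat_lit 152) (nat_lit 205346631971) (nat_lit 0) (nat_lit 7917002090) (nat_lit 11) (nat_lit 5) (nat_lit 13) (nat_lit 4) (nat_lit 11) (nat_lit 4) (nat_lit 417) (nat_lit 335) (nat_lit 148)) (XT.lf (nat_lit 0) (nat_lit 179556320972) (nat_lit 152) (nat_lit 121682050516) (nat_lit 0) (nat_lit 57115160825) (nat_lit 11) (nat_lit 5) (nat_lit 13) (nat_lit 4) (nat_lit 11) (nat_lit 4) (nat_lit 418) (nat_lit 335) (nat_lit 147)))) (XT.nd (nat_lit 78) (nat_lit 76) (nat_lit 0) (XT.lf (nat_lit 0) (nat_lit 231214560627) (nat_lit 152) (nat_lit 33835192054) (nat_lit 0) (nat_lit 108772794909) (nat_lit 11) (nat_lit 5) (nat_lit 13) (nat_lit 4) (nat_lit 11) (nat_lit 4) (nat_lit 419) (nat_lit 335) (nat_lit 146)) (XT.nd (nat_lit 78) (nat_lit 0) (nat_lit 0) (XT.lf (nat_lit 0) (nat_lit 60334172929) (nat_lit 76) (nat_lit 226063053758) (nat_lit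 76) (nat_lit 103620711305) (nat_lit 10) (nat_lit 4) (nat_lit 11) (nat_lit 5) (nat_lit 11) (nat_lit 4) (nat_lit 420) (nat_lit 335) (nat_lit 145)) (XT.lf (nat_lit 0) (nat_lit 160385795523) (nat_lit 76) (nat_lit 184525783277) (nat_lit 76) (nat_lit 62082891554) (nat_lit 10) (nat_lit 4) (nat_lit 11) (nat_lit 5) (nat_lit 11) (nat_lit 4) (nat_lit 421) (nat_lit 335) (nat_lit 144))))) (XT.nd (nat_lit 234) (nat_lit 0) (nat_lit 0) (XT.nd (nat_lit 78) (nat_lit 152) (nat_lit 0) (XT.lf (nat_lit 0) (nat_lit 265439149623) (nat_lit 76) (nat_lit 140912058327) (nat_lit 76) (nat_lit 18468643489) (nat_lit 10) (nat_lit 4) (nat_lit 11) (nat_lit 5) (nat_lit 11) (nat_lit 4) (nat_lit 422) (nat_lit 335) (nat_lit 143)) (XT.nd (nat_lit 78) (nat_lit 76) (nat_lit 0) (XT.lf (nat_lit 0) (nat_lit 26451277642) (nat_lit 152) (nat_lit 68218793875) (nat_lit 76) (nat_lit 348845119434) (nat_lit 9) (nat_lit 5) (nat_lit 11) (nat_lit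 5) (nat_lit 10) (nat_lit 4) (nat_lit 423) (nat_lit 335) (nat_lit 142)) (XT.lf (nat_lit 0) (nat_lit 28096938176) (nat_lit 76) (nat_lit 45337854847) (nat_lit 152) (nat_lit 389673452962) (nat_lit 8) (nat_lit 5) (nat_lit 9) (nat_lit 5) (nat_lit 10) (nat_lit 4) (nat_lit 424) (nat_lit 335) (nat_lit 141)))) (XT.nd (nat_lit 78) (nat_lit 0) (nat_lit 0) (XT.lf (nat_lit 0) (nat_lit 124042211248) (nat_lit 152) (nat_lit 352146927754) (nat_lit 0) (nat_lit 7428078477) (nat_lit 8) (nat_lit 5) (nat_lit 10) (nat_lit 4) (nat_lit 8) (nat_lit 4) (nat_lit 425) (nat_lit 335) (nat_lit 140)) (XT.nd (nat_lit 78) (nat_lit 0) (nat_lit 0) (XT.lf (nat_lit 0) (nat_lit 177922858435) (nat_lit 152) (nat_lit 265883320478) (nat_lit 0) (nat_lit 61308315790) (nat_lit 8) (nat_lit 5) (nat_lit 10) (nat_lit 4) (nat_lit 8) (nat_lit 4) (nat_lit 426) (nat_lit 335) (nat_lit 139)) (XT.lf (nat_lit 0) (nat_lit 234497170867) (nat_lit 152)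 (nat_lit 175307245467) (nat_lit 0) (nat_lit 117882237865) (nat_lit 8) (nat_lit 5) (nat_lit 10) (nat_lit 4) (nat_lit 8) (nat_lit 4) (nat_lit 427) (nat_lit 335) (nat_lit 138))))))) (XT.nd (nat_lit 40404) (nat_lit 0) (nat_lit 5244) (XT.nd (nat_lit 39936) (nat_lit 0) (nat_lit 7144) (XT.nd (nat_lit 39702) (nat_lit 0) (nat_lit 7068) (XT.nd (nat_lit 78) (nat_lit 76) (nat_lit 0) (XT.lf (nat_lit 0) (nat_lit 293899849287) (nat_lit 152) (nat_lit 80203045400) (nat_lit 0) (nat_lit 177284544517) (nat_lit 8) (nat_lit 5) (nat_lit 10) (nat_lit 4) (nat_lit 8) (nat_lit 4) (nat_lit 428) (nat_lit 335) (nat_lit 137)) (XT.nd (nat_lit 78) (nat_lit 0) (nat_lit 0) (XT.lf (nat_lit 0) (nat_lit 20305625108) (nat_lit 76) (nat_lit 336283731251) (nat_lit 76) (nat_lit 219668072416) (nat_lit 7) (nat_lit 4) (nat_lit 8) (nat_lit 5) (nat_lit 8) (nat_lit 4) (nat_lit 429) (nat_lit 335) (nat_lit 136)) (XT.lf (nat_lit 0) (nat_lit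 128623561825) (nat_lit 76) (nat_lit 295147727285) (nat_lit 76) (nat_lit 178531731246) (nat_lit 7) (nat_lit 4) (nat_lit 8) (nat_lit 5) (nat_lit 8) (nat_lit 4) (nat_lit 430) (nat_lit 335) (nat_lit 135)))) (XT.nd (nat_lit 78) (nat_lit 0) (nat_lit 0) (XT.lf (nat_lit 0) (nat_lit 506429428) (nat_lit 836) (nat_lit 5667514151) (nat_lit 836) (nat_lit 5667514151) (nat_lit 100) (nat_lit 3) (nat_lit 111) (nat_lit 3) (nat_lit 111) (nat_lit 5) (nat_lit 336) (nat_lit 336) (nat_lit 228)) (XT.nd (nat_lit 78) (nat_lit 0) (nat_lit 76) (XT.lf (nat_lit 0) (nat_lit 1151733637) (nat_lit 836) (nat_lit 129323544) (nat_lit 836) (nat_lit 22988133634) (nat_lit 100) (nat_lit 3) (nat_lit 111) (nat_lit 3) (nat_lit 111) (nat_lit 5) (nat_lit 337) (nat_lit 336) (nat_lit 227)) (XT.lf (nat_lit 0) (nat_lit 1642462124) (nat_lit 760) (nat_lit 13022841045) (nat_lit 836) (nat_lit 10202238942) (nat_lit 101) (nat_lit 5) (nat_lit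 111) (nat_lit 5) (nat_lit 112) (nat_lit 5) (nat_lit 338) (nat_lit 336) (nat_lit 226))))) (XT.nd (nat_lit 234) (nat_lit 0) (nat_lit 152) (XT.nd (nat_lit 78) (nat_lit 0) (nat_lit 76) (XT.lf (nat_lit 0) (nat_lit 2174022979) (nat_lit 760) (nat_lit 1098986631) (nat_lit 836) (nat_lit 22221993870) (nat_lit 101) (nat_lit 5) (nat_lit 111) (nat_lit 5) (nat_lit 112) (nat_lit 5) (nat_lit 339) (nat_lit 336) (nat_lit 225)) (XT.nd (nat_lit 78) (nat_lit 0) (nat_lit 0) (XT.lf (nat_lit 0) (nat_lit 3048425533) (nat_lit 760) (nat_lit 14489091116) (nat_lit 836) (nat_lit 8600515046) (nat_lit 102) (nat_lit 5) (nat_lit 112) (nat_lit 5) (nat_lit 113) (nat_lit 5) (nat_lit 340) (nat_lit 336) (nat_lit 224)) (XT.lf (nat_lit 0) (nat_lit 4032811661) (nat_lit 760) (nat_lit 1798088170) (nat_lit 836) (nat_lit 20979004946) (nat_lit 102) (nat_lit 5) (nat_lit 112) (nat_lit 5) (nat_lit 113) (nat_lit 5) (nat_lit 341) (nat_lit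 336) (nat_lit 223)))) (XT.nd (nat_lit 78) (nat_lit 0) (nat_lit 0) (XT.lf (nat_lit 0) (nat_lit 5350221825) (nat_lit 760) (nat_lit 15705918740) (nat_lit 836) (nat_lit 6445047024) (nat_lit 103) (nat_lit 5) (nat_lit 113) (nat_lit 5) (nat_lit 114) (nat_lit 5) (nat_lit 342) (nat_lit 336) (nat_lit 222)) (XT.nd (nat_lit 78) (nat_lit 0) (nat_lit 76) (XT.lf (nat_lit 0) (nat_lit 6854284412) (nat_lit 760) (nat_lit 2195199932) (nat_lit 836) (nat_lit 19171517114) (nat_lit 103) (nat_lit 5) (nat_lit 113) (nat_lit 5) (nat_lit 114) (nat_lit 5) (nat_lit 343) (nat_lit 336) (nat_lit 221)) (XT.lf (nat_lit 0) (nat_lit 8680138209) (nat_lit 760) (nat_lit 16642869094) (nat_lit 836) (nat_lit 3641475040) (nat_lit 104) (nat_lit 5) (nat_lit 114) (nat_lit 5) (nat_lit 115) (nat_lit 5) (nat_lit 344) (nat_lit 336) (nat_lit 220)))))) (XT.nd (nat_lit 468) (nat_lit 1064) (nat_lit 0) (XT.nd (nat_lit 234) (nat_lit 1064) (nat_lit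 0) (XT.nd (nat_lit 78) (nat_lit 0) (nat_lit 76) (XT.lf (nat_lit 0) (nat_lit 10778157214) (nat_lit 760) (nat_lit 2256097131) (nat_lit 836) (nat_lit 16701844753) (nat_lit 104) (nat_lit 5) (nat_lit 114) (nat_lit 5) (nat_lit 115) (nat_lit 5) (nat_lit 345) (nat_lit 336) (nat_lit 219)) (XT.nd (nat_lit 78) (nat_lit 0) (nat_lit 0) (XT.lf (nat_lit 0) (nat_lit 13184617815) (nat_lit 760) (nat_lit 17266930860) (nat_lit 76) (nat_lit 84576178) (nat_lit 105) (nat_lit 5) (nat_lit 115) (nat_lit 5) (nat_lit 106) (nat_lit 5) (nat_lit 346) (nat_lit 336) (nat_lit 218)) (XT.lf (nat_lit 0) (nat_lit 15959084549) (nat_lit 760) (nat_lit 1943790340) (nat_lit 76) (nat_lit 13460897799) (nat_lit 105) (nat_lit 5) (nat_lit 115) (nat_lit 5) (nat_lit 106) (nat_lit 5) (nat_lit 347) (nat_lit 336) (nat_lit 217)))) (XT.nd (nat_lit 78) (nat_lit 380) (nat_lit 0) (XT.lf (nat_lit 0) (nat_lit 14608968815) (nat_lit 760) (nat_lit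 4486794979) (nat_lit 836) (nat_lit 13125869370) (nat_lit 95) (nat_lit 5) (nat_lit 105) (nat_lit 5) (nat_lit 106) (nat_lit 5) (nat_lit 348) (nat_lit 336) (nat_lit 216)) (XT.nd (nat_lit 78) (nat_lit 380) (nat_lit 0) (XT.lf (nat_lit 0) (nat_lit 22568184037) (nat_lit 836) (nat_lit 1218597659) (nat_lit 76) (nat_lit 9326664103) (nat_lit 95) (nat_lit 5) (nat_lit 106) (nat_lit 5) (nat_lit 96) (nat_lit 5) (nat_lit 349) (nat_lit 336) (nat_lit 215)) (XT.lf (nat_lit 0) (nat_lit 16443845097) (nat_lit 380) (nat_lit 10096444006) (nat_lit 456) (nat_lit 7493261046) (nat_lit 90) (nat_lit 5) (nat_lit 95) (nat_lit 5) (nat_lit 96) (nat_lit 5) (nat_lit 350) (nat_lit 336) (nat_lit 214))))) (XT.nd (nat_lit 234) (nat_lit 304) (nat_lit 0) (XT.nd (nat_lit 78) (nat_lit 760) (nat_lit 0) (XT.lf (nat_lit 0) (nat_lit 30794688213) (nat_lit 456) (nat_lit 38269903) (nat_lit 76) (nat_lit 4162521229) (nat_lit 90) (nat_lit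 5) (nat_lit 96) (nat_lit 5) (nat_lit 91) (nat_lit 5) (nat_lit 351) (nat_lit 336) (nat_lit 213)) (XT.nd (nat_lit 78) (nat_lit 456) (nat_lit 0) (XT.lf (nat_lit 0) (nat_lit 18823675050) (nat_lit 304) (nat_lit 16893647500) (nat_lit 380) (nat_lit 265410564) (nat_lit 86) (nat_lit 5) (nat_lit 90) (nat_lit 5) (nat_lit 91) (nat_lit 5) (nat_lit 352) (nat_lit 336) (nat_lit 212)) (XT.lf (nat_lit 0) (nat_lit 1597386827) (nat_lit 380) (nat_lit 2167358471) (nat_lit 456) (nat_lit 33250500953) (nat_lit 80) (nat_lit 5) (nat_lit 85) (nat_lit 5) (nat_lit 86) (nat_lit 5) (nat_lit 353) (nat_lit 336) (nat_lit 211)))) (XT.nd (nat_lit 78) (nat_lit 304) (nat_lit 0) (XT.lf (nat_lit 0) (nat_lit 8486708824) (nat_lit 456) (nat_lit 16418373640) (nat_lit 76) (nat_lit 13169127409) (nat_lit 80) (nat_lit 5) (nat_lit 86) (nat_lit 5) (nat_lit 81) (nat_lit 5) (nat_lit 354) (nat_lit 336) (nat_lit 210)) (XT.nd (nat_lit 78) (nat_lit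 0) (nat_lit 0) (XT.lf (nat_lit 0) (nat_lit 3606997413) (nat_lit 304) (nat_lit 9926078471) (nat_lit 380) (nat_lit 25648633712) (nat_lit 76) (nat_lit 5) (nat_lit 80) (nat_lit 5) (nat_lit 81) (nat_lit 5) (nat_lit 355) (nat_lit 336) (nat_lit 209)) (XT.lf (nat_lit 0) (nat_lit 19201514899) (nat_lit 380) (nat_lit 15226284748) (nat_lit 76) (nat_lit 5898300016) (nat_lit 76) (nat_lit 5) (nat_lit 81) (nat_lit 5) (nat_lit 77) (nat_lit 5) (nat_lit 356) (nat_lit 336) (nat_lit 208))))))))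
noncomputable def xc189 : XT := (XT.nd (nat_lit 1794) (nat_lit 1520) (nat_lit 0) (XT.nd (nat_lit 858) (nat_lit 1216) (nat_lit 0) (XT.nd (nat_lit 390) (nat_lit 760) (nat_lit 0) (XT.nd (nat_lit 156) (nat_lit 608) (nat_lit 0) (XT.nd (nat_lit 78) (nat_lit 0) (nat_lit 0) (XT.lf (nat_lit 0) (nat_lit 6170421890) (nat_lit 304) (nat_lit 19238736731) (nat_lit 380) (nat_lit 16105764365) (nat_lit 72) (nat_lit 5) (nat_lit 76) (nat_lit 5) (nat_lit 77) (nat_lit 5) (nat_lit 357) (nat_lit 336) (nat_lit 207)) (XT.lf (nat_lit 0) (nat_lit 29161737568) (nat_lit 304) (nat_lit 3020130025) (nat_lit 380) (nat_lit 10568588484) (nat_lit 72) (nat_lit 5) (nat_lit 76) (nat_lit 5) (nat_lit 77) (nat_lit 5) (nat_lit 358) (nat_lit 336) (nat_lit 206))) (XT.nd (nat_lit 78) (nat_lit 380) (nat_lit 0) (XT.lf (nat_lit 0) (nat_lit 9330966859) (nat_lit 228) (nat_lit 30323613943) (nat_lit 304) (nat_lit 4375119204) (nat_lit 69) (nat_lit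 5) (nat_lit 72) (nat_lit 5) (nat_lit 73) (nat_lit 5) (nat_lit 359) (nat_lit 336) (nat_lit 205)) (XT.nd (nat_lit 78) (nat_lit 304) (nat_lit 0) (XT.lf (nat_lit 0) (nat_lit 2340323537) (nat_lit 304) (nat_lit 11583350556) (nat_lit 76) (nat_lit 31433552694) (nat_lit 68) (nat_lit 5) (nat_lit 72) (nat_lit 5) (nat_lit 69) (nat_lit 5) (nat_lit 360) (nat_lit 336) (nat_lit 204)) (XT.lf (nat_lit 0) (nat_lit 9501032298) (nat_lit 380) (nat_lit 33764044986) (nat_lit 76) (nat_lit 3469642398) (nat_lit 64) (nat_lit 5) (nat_lit 69) (nat_lit 5) (nat_lit 65) (nat_lit 5) (nat_lit 361) (nat_lit 336) (nat_lit 203))))) (XT.nd (nat_lit 234) (nat_lit 532) (nat_lit 0) (XT.nd (nat_lit 78) (nat_lit 228) (nat_lit 0) (XT.lf (nat_lit 0) (nat_lit 17444624645) (nat_lit 380) (nat_lit 9251938214) (nat_lit 76) (nat_lit 21463284112) (nat_lit 64) (nat_lit 5) (nat_lit 69) (nat_lit 5) (nat_lit 65) (nat_lit 5) (nat_lit 362) (nat_lit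 336) (nat_lit 202)) (XT.nd (nat_lit 78) (nat_lit 0) (nat_lit 0) (XT.lf (nat_lit 0) (nat_lit 17027192670) (nat_lit 228) (nat_lit 9021384853) (nat_lit 304) (nat_lit 23594496111) (nat_lit 61) (nat_lit 5) (nat_lit 64) (nat_lit 5) (nat_lit 65) (nat_lit 5) (nat_lit 363) (nat_lit 336) (nat_lit 201)) (XT.lf (nat_lit 0) (nat_lit 35388287208) (nat_lit 304) (nat_lit 6406234903) (nat_lit 76) (nat_lit 9390663520) (nat_lit 61) (nat_lit 5) (nat_lit 65) (nat_lit 5) (nat_lit 62) (nat_lit 5) (nat_lit 364) (nat_lit 336) (nat_lit 200)))) (XT.nd (nat_lit 78) (nat_lit 304) (nat_lit 0) (XT.lf (nat_lit 0) (nat_lit 21655673424) (nat_lit 228) (nat_lit 24022826802) (nat_lit 304) (nat_lit 7101728973) (nat_lit 58) (nat_lit 5) (nat_lit 61) (nat_lit 5) (nat_lit 62) (nat_lit 5) (nat_lit 365) (nat_lit 336) (nat_lit 199)) (XT.nd (nat_lit 78) (nat_lit 228) (nat_lit 0) (XT.lf (nat_lit 0) (nat_lit 2071099566) (nat_lit 304)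 (nat_lit 3143430159) (nat_lit 76) (nat_lit 49233522836) (nat_lit 57) (nat_lit 5) (nat_lit 61) (nat_lit 5) (nat_lit 58) (nat_lit 5) (nat_lit 366) (nat_lit 336) (nat_lit 198)) (XT.lf (nat_lit 0) (nat_lit 12118526857) (nat_lit 304) (nat_lit 29427651346) (nat_lit 76) (nat_lit 14614538308) (nat_lit 54) (nat_lit 5) (nat_lit 58) (nat_lit 5) (nat_lit 55) (nat_lit 5) (nat_lit 367) (nat_lit 336) (nat_lit 197)))))) (XT.nd (nat_lit 468) (nat_lit 532) (nat_lit 0) (XT.nd (nat_lit 234) (nat_lit 304) (nat_lit 0) (XT.nd (nat_lit 78) (nat_lit 152) (nat_lit 0) (XT.lf (nat_lit 0) (nat_lit 171959036) (nat_lit 228) (nat_lit 22636350213) (nat_lit 304) (nat_lit 35143706758) (nat_lit 51) (nat_lit 5) (nat_lit 54) (nat_lit 5) (nat_lit 55) (nat_lit 5) (nat_lit 368) (nat_lit 336) (nat_lit 196)) (XT.nd (nat_lit 78) (nat_lit 152) (nat_lit 0) (XT.lf (nat_lit 0) (nat_lit 32269911551) (nat_lit 228) (nat_lit 2258805062)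 (nat_lit 304) (nat_lit 25279358531) (nat_lit 51) (nat_lit 5) (nat_lit 54) (nat_lit 5) (nat_lit 55) (nat_lit 5) (nat_lit 369) (nat_lit 336) (nat_lit 195)) (XT.lf (nat_lit 0) (nat_lit 4043205567) (nat_lit 152) (nat_lit 43151711363) (nat_lit 228) (nat_lit 14544033071) (nat_lit 49) (nat_lit 5) (nat_lit 51) (nat_lit 5) (nat_lit 52) (nat_lit 5) (nat_lit 370) (nat_lit 336) (nat_lit 194)))) (XT.nd (nat_lit 78) (nat_lit 304) (nat_lit 0) (XT.lf (nat_lit 0) (nat_lit 38118269388) (nat_lit 152) (nat_lit 22876869767) (nat_lit 228) (nat_lit 2746195176) (nat_lit 49) (nat_lit 5) (nat_lit 51) (nat_lit 5) (nat_lit 52) (nat_lit 5) (nat_lit 371) (nat_lit 336) (nat_lit 193)) (XT.nd (nat_lit 78) (nat_lit 0) (nat_lit 0) (XT.lf (nat_lit 0) (nat_lit 8160814827) (nat_lit 228) (nat_lit 1297516836) (nat_lit 304) (nat_lit 56371711529) (nat_lit 45) (nat_lit 5) (nat_lit 48) (nat_lit 5) (nat_lit 49) (nat_lit 5) (nat_lit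 372) (nat_lit 336) (nat_lit 192)) (XT.lf (nat_lit 0) (nat_lit 22953354805) (nat_lit 304) (nat_lit 23866795041) (nat_lit 76) (nat_lit 21162159808) (nat_lit 45) (nat_lit 5) (nat_lit 49) (nat_lit 5) (nat_lit 46) (nat_lit 5) (nat_lit 373) (nat_lit 336) (nat_lit 191))))) (XT.nd (nat_lit 234) (nat_lit 228) (nat_lit 0) (XT.nd (nat_lit 78) (nat_lit 152) (nat_lit 0) (XT.lf (nat_lit 0) (nat_lit 11985103847) (nat_lit 152) (nat_lit 25344517425) (nat_lit 228) (nat_lit 32902244648) (nat_lit 43) (nat_lit 5) (nat_lit 45) (nat_lit 5) (nat_lit 46) (nat_lit 5) (nat_lit 374) (nat_lit 336) (nat_lit 190)) (XT.nd (nat_lit 78) (nat_lit 152) (nat_lit 0) (XT.lf (nat_lit 0) (nat_lit 50455263527) (nat_lit 152) (nat_lit 2371778231) (nat_lit 228) (nat_lit 19746742246) (nat_lit 43) (nat_lit 5) (nat_lit 45) (nat_lit 5) (nat_lit 46) (nat_lit 5) (nat_lit 375) (nat_lit 336) (nat_lit 189)) (XT.lf (nat_lit 0) (nat_lit 15985322302)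 (nat_lit 152) (nat_lit 53701376064) (nat_lit 228) (nat_lit 5316732359) (nat_lit 41) (nat_lit 5) (nat_lit 43) (nat_lit 5) (nat_lit 44) (nat_lit 5) (nat_lit 376) (nat_lit 336) (nat_lit 188)))) (XT.nd (nat_lit 78) (nat_lit 152) (nat_lit 0) (XT.lf (nat_lit 0) (nat_lit 9937842546) (nat_lit 228) (nat_lit 20975020984) (nat_lit 76) (nat_lit 46613127784) (nat_lit 40) (nat_lit 5) (nat_lit 43) (nat_lit 5) (nat_lit 41) (nat_lit 5) (nat_lit 377) (nat_lit 336) (nat_lit 187)) (XT.nd (nat_lit 78) (nat_lit 0) (nat_lit 0) (XT.lf (nat_lit 0) (nat_lit 19504584990) (nat_lit 152) (nat_lit 6574718321) (nat_lit 228) (nat_lit 54075877790) (nat_lit 38) (nat_lit 5) (nat_lit 40) (nat_lit 5) (nat_lit 41) (nat_lit 5) (nat_lit 378) (nat_lit 336) (nat_lit 186)) (XT.lf (nat_lit 0) (nat_lit 43683553471) (nat_lit 228) (nat_lit 20466619547) (nat_lit 76) (nat_lit 18732872354) (nat_lit 38) (nat_lit 5) (nat_lit 41) (nat_lit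 5) (nat_lit 39) (nat_lit 5) (nat_lit 379) (nat_lit 336) (nat_lit 185))))))) (XT.nd (nat_lit 936) (nat_lit 684) (nat_lit 0) (XT.nd (nat_lit 468) (nat_lit 380) (nat_lit 0) (XT.nd (nat_lit 234) (nat_lit 152) (nat_lit 0) (XT.nd (nat_lit 78) (nat_lit 152) (nat_lit 0) (XT.lf (nat_lit 0) (nat_lit 22330865116) (nat_lit 152) (nat_lit 40291994682) (nat_lit 228) (nat_lit 23101701651) (nat_lit 36) (nat_lit 5) (nat_lit 38) (nat_lit 5) (nat_lit 39) (nat_lit 5) (nat_lit 380) (nat_lit 336) (nat_lit 184)) (XT.nd (nat_lit 78) (nat_lit 152) (nat_lit 0) (XT.lf (nat_lit 0) (nat_lit 67976185734) (nat_lit 152) (nat_lit 14878006854) (nat_lit 228) (nat_lit 5836708421) (nat_lit 36) (nat_lit 5) (nat_lit 38) (nat_lit 5) (nat_lit 39) (nat_lit 5) (nat_lit 381) (nat_lit 336) (nat_lit 183)) (XT.lf (nat_lit 0) (nat_lit 12475957474) (nat_lit 152) (nat_lit 67276389852) (nat_lit 76) (nat_lit 12014724183) (nat_lit 34) (nat_lit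 5) (nat_lit 36) (nat_lit 5) (nat_lit 35) (nat_lit 5) (nat_lit 382) (nat_lit 336) (nat_lit 182)))) (XT.nd (nat_lit 78) (nat_lit 152) (nat_lit 0) (XT.lf (nat_lit 0) (nat_lit 32107086558) (nat_lit 152) (nat_lit 22651867438) (nat_lit 76) (nat_lit 40203363909) (nat_lit 34) (nat_lit 5) (nat_lit 36) (nat_lit 5) (nat_lit 35) (nat_lit 5) (nat_lit 383) (nat_lit 336) (nat_lit 181)) (XT.nd (nat_lit 78) (nat_lit 0) (nat_lit 0) (XT.lf (nat_lit 0) (nat_lit 25001674016) (nat_lit 152) (nat_lit 28107030038) (nat_lit 228) (nat_lit 45189176576) (nat_lit 32) (nat_lit 5) (nat_lit 34) (nat_lit 5) (nat_lit 35) (nat_lit 5) (nat_lit 384) (nat_lit 336) (nat_lit 180)) (XT.lf (nat_lit 0) (nat_lit 75546999360) (nat_lit 228) (nat_lit 25963534448) (nat_lit 76) (nat_lit 270358413) (nat_lit 32) (nat_lit 5) (nat_lit 35) (nat_lit 5) (nat_lit 33) (nat_lit 4) (nat_lit 385) (nat_lit 336) (nat_lit 179))))) (XT.nd (nat_lit 234)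 (nat_lit 76) (nat_lit 0) (XT.nd (nat_lit 78) (nat_lit 228) (nat_lit 0) (XT.lf (nat_lit 0) (nat_lit 24042184121) (nat_lit 76) (nat_lit 75899829274) (nat_lit 152) (nat_lit 5454301350) (nat_lit 31) (nat_lit 5) (nat_lit 32) (nat_lit 5) (nat_lit 33) (nat_lit 4) (nat_lit 386) (nat_lit 336) (nat_lit 178)) (XT.nd (nat_lit 78) (nat_lit 152) (nat_lit 0) (XT.lf (nat_lit 0) (nat_lit 16286097304) (nat_lit 152) (nat_lit 31985962898) (nat_lit 76) (nat_lit 60885394769) (nat_lit 30) (nat_lit 5) (nat_lit 32) (nat_lit 5) (nat_lit 31) (nat_lit 5) (nat_lit 387) (nat_lit 336) (nat_lit 177)) (XT.lf (nat_lit 0) (nat_lit 20412307105) (nat_lit 152) (nat_lit 18835338099) (nat_lit 228) (nat_lit 73838665259) (nat_lit 28) (nat_lit 5) (nat_lit 30) (nat_lit 5) (nat_lit 31) (nat_lit 5) (nat_lit 388) (nat_lit 336) (nat_lit 176)))) (XT.nd (nat_lit 78) (nat_lit 76) (nat_lit 0) (XT.lf (nat_lit 0) (nat_lit 64095093155) (nat_lit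 228) (nat_lit 40843154533) (nat_lit 76) (nat_lit 12236470360) (nat_lit 28) (nat_lit 5) (nat_lit 31) (nat_lit 5) (nat_lit 29) (nat_lit 4) (nat_lit 389) (nat_lit 336) (nat_lit 175)) (XT.nd (nat_lit 78) (nat_lit 0) (nat_lit 0) (XT.lf (nat_lit 0) (nat_lit 13707053326) (nat_lit 76) (nat_lit 76999449163) (nat_lit 152) (nat_lit 30734964507) (nat_lit 27) (nat_lit 5) (nat_lit 28) (nat_lit 5) (nat_lit 29) (nat_lit 4) (nat_lit 390) (nat_lit 336) (nat_lit 174)) (XT.lf (nat_lit 0) (nat_lit 72400669171) (nat_lit 76) (nat_lit 46938343382) (nat_lit 152) (nat_lit 6548014737) (nat_lit 27) (nat_lit 5) (nat_lit 28) (nat_lit 5) (nat_lit 29) (nat_lit 4) (nat_lit 391) (nat_lit 336) (nat_lit 173)))))) (XT.nd (nat_lit 468) (nat_lit 228) (nat_lit 0) (XT.nd (nat_lit 234) (nat_lit 228) (nat_lit 0) (XT.nd (nat_lit 78) (nat_lit 0) (nat_lit 0) (XT.lf (nat_lit 0) (nat_lit 3282875181) (nat_lit 152) (nat_lit 15012268164)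 (nat_lit 228) (nat_lit 112242502721) (nat_lit 24) (nat_lit 5) (nat_lit 26) (nat_lit 5) (nat_lit 27) (nat_lit 5) (nat_lit 392) (nat_lit 336) (nat_lit 172)) (XT.nd (nat_lit 78) (nat_lit 0) (nat_lit 0) (XT.lf (nat_lit 0) (nat_lit 45368942345) (nat_lit 228) (nat_lit 71041230267) (nat_lit 76) (nat_lit 18944829336) (nat_lit 24) (nat_lit 5) (nat_lit 27) (nat_lit 5) (nat_lit 25) (nat_lit 4) (nat_lit 393) (nat_lit 336) (nat_lit 171)) (XT.lf (nat_lit 0) (nat_lit 74041465213) (nat_lit 228) (nat_lit 12265050999) (nat_lit 76) (nat_lit 54094458054) (nat_lit 24) (nat_lit 5) (nat_lit 27) (nat_lit 5) (nat_lit 25) (nat_lit 4) (nat_lit 394) (nat_lit 336) (nat_lit 170)))) (XT.nd (nat_lit 78) (nat_lit 152) (nat_lit 0) (XT.lf (nat_lit 0) (nat_lit 51083071073) (nat_lit 76) (nat_lit 53861075110) (nat_lit 152) (nat_lit 40715272741) (nat_lit 23) (nat_lit 5) (nat_lit 24) (nat_lit 5) (nat_lit 25) (nat_lit 4) (nat_lit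 395) (nat_lit 336) (nat_lit 169)) (XT.nd (nat_lit 78) (nat_lit 152) (nat_lit 0) (XT.lf (nat_lit 0) (nat_lit 118022600406) (nat_lit 76) (nat_lit 19576077585) (nat_lit 152) (nat_lit 13571772292) (nat_lit 23) (nat_lit 5) (nat_lit 24) (nat_lit 5) (nat_lit 25) (nat_lit 4) (nat_lit 396) (nat_lit 336) (nat_lit 168)) (XT.lf (nat_lit 0) (nat_lit 15220457796) (nat_lit 152) (nat_lit 125042673601) (nat_lit 76) (nat_lit 16643779351) (nat_lit 21) (nat_lit 5) (nat_lit 23) (nat_lit 5) (nat_lit 22) (nat_lit 4) (nat_lit 397) (nat_lit 336) (nat_lit 167))))) (XT.nd (nat_lit 234) (nat_lit 152) (nat_lit 0) (XT.nd (nat_lit 78) (nat_lit 76) (nat_lit 0) (XT.lf (nat_lit 0) (nat_lit 45886736498) (nat_lit 152) (nat_lit 62178755289) (nat_lit 76) (nat_lit 54809051429) (nat_lit 21) (nat_lit 5) (nat_lit 23) (nat_lit 5) (nat_lit 22) (nat_lit 4) (nat_lit 398) (nat_lit 336) (nat_lit 166)) (XT.nd (nat_lit 78) (nat_lit 0)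 (nat_lit 0) (XT.lf (nat_lit 0) (nat_lit 3953203691) (nat_lit 76) (nat_lit 74193932321) (nat_lit 152) (nat_lit 90990381202) (nat_lit 20) (nat_lit 5) (nat_lit 21) (nat_lit 5) (nat_lit 22) (nat_lit 4) (nat_lit 399) (nat_lit 336) (nat_lit 165)) (XT.lf (nat_lit 0) (nat_lit 75548811285) (nat_lit 76) (nat_lit 37523875482) (nat_lit 152) (nat_lit 62588346824) (nat_lit 20) (nat_lit 5) (nat_lit 21) (nat_lit 5) (nat_lit 22) (nat_lit 4) (nat_lit 400) (nat_lit 336) (nat_lit 164)))) (XT.nd (nat_lit 78) (nat_lit 152) (nat_lit 0) (XT.lf (nat_lit 0) (nat_lit 149758946010) (nat_lit 152) (nat_lit 31803430244) (nat_lit 0) (nat_lit 947628213) (nat_lit 20) (nat_lit 5) (nat_lit 22) (nat_lit 4) (nat_lit 20) (nat_lit 4) (nat_lit 401) (nat_lit 336) (nat_lit 163)) (XT.nd (nat_lit 78) (nat_lit 76) (nat_lit 0) (XT.lf (nat_lit 0) (nat_lit 40603696253) (nat_lit 76) (nat_lit 148924081461) (nat_lit 76) (nat_lit 111233416)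 (nat_lit 19) (nat_lit 4) (nat_lit 20) (nat_lit 5) (nat_lit 20) (nat_lit 4) (nat_lit 402) (nat_lit 336) (nat_lit 162)) (XT.lf (nat_lit 0) (nat_lit 33613845736) (nat_lit 152) (nat_lit 79905921663) (nat_lit 76) (nat_lit 83550703060) (nat_lit 18) (nat_lit 5) (nat_lit 20) (nat_lit 5) (nat_lit 19) (nat_lit 4) (nat_lit 403) (nat_lit 336) (nat_lit 161))))))))
noncomputable def xc190 : XT := (XT.nd (nat_lit 1794) (nat_lit 0) (nat_lit 0) (XT.nd (nat_lit 858) (nat_lit 380) (nat_lit 0) (XT.nd (nat_lit 390) (nat_lit 228) (nat_lit 0) (XT.nd (nat_lit 156) (nat_lit 76) (nat_lit 0) (XT.nd (nat_lit 78) (nat_lit 76) (nat_lit 0) (XT.lf (nat_lit 0) (nat_lit 69020658535) (nat_lit 152) (nat_lit 7323343405) (nat_lit 76) (nat_lit 128529448936) (nat_lit 18) (nat_lit 5) (nat_lit 20) (nat_lit 5) (nat_lit 19) (nat_lit 4) (nat_lit 404) (nat_lit 336) (nat_lit 160)) (XT.lf (nat_lit 0) (nat_lit 71164686630) (nat_lit 76)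 (nat_lit 36143460647) (nat_lit 152) (nat_lit 105702916451) (nat_lit 17) (nat_lit 5) (nat_lit 18) (nat_lit 5) (nat_lit 19) (nat_lit 4) (nat_lit 405) (nat_lit 336) (nat_lit 159))) (XT.nd (nat_lit 78) (nat_lit 76) (nat_lit 0) (XT.lf (nat_lit 0) (nat_lit 147730051796) (nat_lit 152) (nat_lit 67816141471) (nat_lit 0) (nat_lit 5998362057) (nat_lit 17) (nat_lit 5) (nat_lit 19) (nat_lit 4) (nat_lit 17) (nat_lit 4) (nat_lit 406) (nat_lit 336) (nat_lit 158)) (XT.nd (nat_lit 78) (nat_lit 0) (nat_lit 0) (XT.lf (nat_lit 0) (nat_lit 9629980326) (nat_lit 76) (nat_lit 181285232455) (nat_lit 76) (nat_lit 39552400821) (nat_lit 16) (nat_lit 4) (nat_lit 17) (nat_lit 5) (nat_lit 17) (nat_lit 4) (nat_lit 407) (nat_lit 336) (nat_lit 157)) (XT.lf (nat_lit 0) (nat_lit 93301523581) (nat_lit 76) (nat_lit 144105915089) (nat_lit 76) (nat_lit 2371995936) (nat_lit 16) (nat_lit 4) (nat_lit 17) (nat_lit 5) (nat_lit 17)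 (nat_lit 4) (nat_lit 408) (nat_lit 336) (nat_lit 156))))) (XT.nd (nat_lit 234) (nat_lit 76) (nat_lit 0) (XT.nd (nat_lit 78) (nat_lit 76) (nat_lit 0) (XT.lf (nat_lit 0) (nat_lit 35493172166) (nat_lit 152) (nat_lit 68973951943) (nat_lit 76) (nat_lit 145061132140) (nat_lit 15) (nat_lit 5) (nat_lit 17) (nat_lit 5) (nat_lit 16) (nat_lit 4) (nat_lit 409) (nat_lit 336) (nat_lit 155)) (XT.nd (nat_lit 78) (nat_lit 0) (nat_lit 0) (XT.lf (nat_lit 0) (nat_lit 12773958796) (nat_lit 76) (nat_lit 62596724175) (nat_lit 152) (nat_lit 184381951932) (nat_lit 14) (nat_lit 5) (nat_lit 15) (nat_lit 5) (nat_lit 16) (nat_lit 4) (nat_lit 410) (nat_lit 336) (nat_lit 154)) (XT.lf (nat_lit 0) (nat_lit 101002696841) (nat_lit 76) (nat_lit 17406853195) (nat_lit 152) (nat_lit 152020308545) (nat_lit 14) (nat_lit 5) (nat_lit 15) (nat_lit 5) (nat_lit 16) (nat_lit 4) (nat_lit 411) (nat_lit 336) (nat_lit 153)))) (XT.nd (nat_lit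 78) (nat_lit 76) (nat_lit 0) (XT.lf (nat_lit 0) (nat_lit 164068803205) (nat_lit 152) (nat_lit 88468272578) (nat_lit 0) (nat_lit 29080445644) (nat_lit 14) (nat_lit 5) (nat_lit 16) (nat_lit 4) (nat_lit 14) (nat_lit 4) (nat_lit 412) (nat_lit 336) (nat_lit 152)) (XT.nd (nat_lit 78) (nat_lit 76) (nat_lit 0) (XT.lf (nat_lit 0) (nat_lit 212295801046) (nat_lit 152) (nat_lit 3747895422) (nat_lit 0) (nat_lit 77306631962) (nat_lit 14) (nat_lit 5) (nat_lit 16) (nat_lit 4) (nat_lit 14) (nat_lit 4) (nat_lit 413) (nat_lit 336) (nat_lit 151)) (XT.lf (nat_lit 0) (nat_lit 88024797930) (nat_lit 76) (nat_lit 176283115838) (nat_lit 76) (nat_lit 41293173875) (nat_lit 13) (nat_lit 4) (nat_lit 14) (nat_lit 5) (nat_lit 14) (nat_lit 4) (nat_lit 414) (nat_lit 336) (nat_lit 150)))))) (XT.nd (nat_lit 468) (nat_lit 228) (nat_lit 0) (XT.nd (nat_lit 234) (nat_lit 0) (nat_lit 0) (XT.nd (nat_lit 78) (nat_lit 76) (nat_lit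 0) (XT.lf (nat_lit 0) (nat_lit 505609838) (nat_lit 152) (nat_lit 133954177869) (nat_lit 76) (nat_lit 184001042781) (nat_lit 12) (nat_lit 5) (nat_lit 14) (nat_lit 5) (nat_lit 13) (nat_lit 4) (nat_lit 415) (nat_lit 336) (nat_lit 149)) (XT.nd (nat_lit 78) (nat_lit 76) (nat_lit 0) (XT.lf (nat_lit 0) (nat_lit 43006089739) (nat_lit 152) (nat_lit 46828895097) (nat_lit 76) (nat_lit 242094754950) (nat_lit 12) (nat_lit 5) (nat_lit 14) (nat_lit 5) (nat_lit 13) (nat_lit 4) (nat_lit 416) (nat_lit 336) (nat_lit 148)) (XT.lf (nat_lit 0) (nat_lit 46128088838) (nat_lit 76) (nat_lit 42223196792) (nat_lit 152) (nat_lit 257684824408) (nat_lit 11) (nat_lit 5) (nat_lit 12) (nat_lit 5) (nat_lit 13) (nat_lit 4) (nat_lit 417) (nat_lit 336) (nat_lit 147)))) (XT.nd (nat_lit 78) (nat_lit 0) (nat_lit 0) (XT.lf (nat_lit 0) (nat_lit 136890616485) (nat_lit 152) (nat_lit 215584681735) (nat_lit 0) (nat_lit 8326156910) (nat_lit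 11) (nat_lit 5) (nat_lit 13) (nat_lit 4) (nat_lit 11) (nat_lit 4) (nat_lit 418) (nat_lit 336) (nat_lit 146)) (XT.nd (nat_lit 78) (nat_lit 0) (nat_lit 0) (XT.lf (nat_lit 0) (nat_lit 188548626333) (nat_lit 152) (nat_lit 127738265580) (nat_lit 0) (nat_lit 59983590024) (nat_lit 11) (nat_lit 5) (nat_lit 13) (nat_lit 4) (nat_lit 11) (nat_lit 4) (nat_lit 419) (nat_lit 336) (nat_lit 145)) (XT.lf (nat_lit 0) (nat_lit 242789088004) (nat_lit 152) (nat_lit 35500392169) (nat_lit 0) (nat_lit 114223502424) (nat_lit 11) (nat_lit 5) (nat_lit 13) (nat_lit 4) (nat_lit 11) (nat_lit 4) (nat_lit 420) (nat_lit 336) (nat_lit 144))))) (XT.nd (nat_lit 234) (nat_lit 152) (nat_lit 0) (XT.nd (nat_lit 78) (nat_lit 0) (nat_lit 0) (XT.lf (nat_lit 0) (nat_lit 63377012684) (nat_lit 76) (nat_lit 237353625551) (nat_lit 76) (nat_lit 108787516856) (nat_lit 10) (nat_lit 4) (nat_lit 11) (nat_lit 5) (nat_lit 11) (nat_lit 4) (nat_lit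 421) (nat_lit 336) (nat_lit 143)) (XT.nd (nat_lit 78) (nat_lit 0) (nat_lit 0) (XT.lf (nat_lit 0) (nat_lit 168429972069) (nat_lit 76) (nat_lit 193740090636) (nat_lit 76) (nat_lit 65173483737) (nat_lit 10) (nat_lit 4) (nat_lit 11) (nat_lit 5) (nat_lit 11) (nat_lit 4) (nat_lit 422) (nat_lit 336) (nat_lit 142)) (XT.lf (nat_lit 0) (nat_lit 278734808790) (nat_lit 76) (nat_lit 147946250000) (nat_lit 76) (nat_lit 19379168620) (nat_lit 10) (nat_lit 4) (nat_lit 11) (nat_lit 5) (nat_lit 11) (nat_lit 4) (nat_lit 423) (nat_lit 336) (nat_lit 141)))) (XT.nd (nat_lit 78) (nat_lit 76) (nat_lit 0) (XT.lf (nat_lit 0) (nat_lit 27785740512) (nat_lit 152) (nat_lit 71606765216) (nat_lit 76) (nat_lit 366297847937) (nat_lit 9) (nat_lit 5) (nat_lit 11) (nat_lit 5) (nat_lit 10) (nat_lit 4) (nat_lit 424) (nat_lit 336) (nat_lit 140)) (XT.nd (nat_lit 78) (nat_lit 0) (nat_lit 0) (XT.lf (nat_lit 0) (nat_lit 29524382980)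 (nat_lit 76) (nat_lit 47593834880) (nat_lit 152) (nat_lit 409144854370) (nat_lit 8) (nat_lit 5) (nat_lit 9) (nat_lit 5) (nat_lit 10) (nat_lit 4) (nat_lit 425) (nat_lit 336) (nat_lit 139)) (XT.lf (nat_lit 0) (nat_lit 130255612823) (nat_lit 152) (nat_lit 369732356454) (nat_lit 0) (nat_lit 7809542815) (nat_lit 8) (nat_lit 5) (nat_lit 10) (nat_lit 4) (nat_lit 8) (nat_lit 4) (nat_lit 426) (nat_lit 336) (nat_lit 138))))))) (XT.nd (nat_lit 40560) (nat_lit 0) (nat_lit 5168) (XT.nd (nat_lit 40092) (nat_lit 0) (nat_lit 7068) (XT.nd (nat_lit 39858) (nat_lit 0) (nat_lit 6992) (XT.nd (nat_lit 78) (nat_lit 0) (nat_lit 0) (XT.lf (nat_lit 0) (nat_lit 186829754702) (nat_lit 152) (nat_lit 279156612514) (nat_lit 0) (nat_lit 64383312926) (nat_lit 8) (nat_lit 5) (nat_lit 10) (nat_lit 4) (nat_lit 8) (nat_lit 4) (nat_lit 427) (nat_lit 336) (nat_lit 137)) (XT.nd (nat_lit 78) (nat_lit 0) (nat_lit 0) (XT.lf (nat_lit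 0) (nat_lit 246232270692) (nat_lit 152) (nat_lit 184052727752) (nat_lit 0) (nat_lit 123785474851) (nat_lit 8) (nat_lit 5) (nat_lit 10) (nat_lit 4) (nat_lit 8) (nat_lit 4) (nat_lit 428) (nat_lit 336) (nat_lit 136)) (XT.lf (nat_lit 0) (nat_lit 308604595353) (nat_lit 152) (nat_lit 84194264348) (nat_lit 0) (nat_lit 186157462307) (nat_lit 8) (nat_lit 5) (nat_lit 10) (nat_lit 4) (nat_lit 8) (nat_lit 4) (nat_lit 429) (nat_lit 336) (nat_lit 135)))) (XT.nd (nat_lit 78) (nat_lit 0) (nat_lit 0) (XT.lf (nat_lit 0) (nat_lit 643531323) (nat_lit 836) (nat_lit 5892146138) (nat_lit 836) (nat_lit 5892146138) (nat_lit 100) (nat_lit 3) (nat_lit 111) (nat_lit 3) (nat_lit 111) (nat_lit 5) (nat_lit 337) (nat_lit 337) (nat_lit 226)) (XT.nd (nat_lit 78) (nat_lit 0) (nat_lit 76) (XT.lf (nat_lit 0) (nat_lit 1422235412) (nat_lit 836) (nat_lit 23896919) (nat_lit 836) (nat_lit 24025647514) (nat_lit 100) (nat_lit 3)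 (nat_lit 111) (nat_lit 3) (nat_lit 111) (nat_lit 5) (nat_lit 338) (nat_lit 337) (nat_lit 225)) (XT.lf (nat_lit 0) (nat_lit 1927606334) (nat_lit 760) (nat_lit 13551982252) (nat_lit 836) (nat_lit 10620965519) (nat_lit 101) (nat_lit 5) (nat_lit 111) (nat_lit 5) (nat_lit 112) (nat_lit 5) (nat_lit 339) (nat_lit 337) (nat_lit 224))))) (XT.nd (nat_lit 234) (nat_lit 0) (nat_lit 152) (XT.nd (nat_lit 78) (nat_lit 0) (nat_lit 76) (XT.lf (nat_lit 0) (nat_lit 2476077561) (nat_lit 760) (nat_lit 1037744682) (nat_lit 836) (nat_lit 23246059878) (nat_lit 101) (nat_lit 5) (nat_lit 111) (nat_lit 5) (nat_lit 112) (nat_lit 5) (nat_lit 340) (nat_lit 337) (nat_lit 223)) (XT.nd (nat_lit 78) (nat_lit 0) (nat_lit 0) (XT.lf (nat_lit 0) (nat_lit 3385659658) (nat_lit 760) (nat_lit 15088619652) (nat_lit 836) (nat_lit 8961219174) (nat_lit 102) (nat_lit 5) (nat_lit 112) (nat_lit 5) (nat_lit 113) (nat_lit 5) (nat_lit 341)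 (nat_lit 337) (nat_lit 222)) (XT.lf (nat_lit 0) (nat_lit 4410464480) (nat_lit 760) (nat_lit 1769015417) (nat_lit 836) (nat_lit 21961934598) (nat_lit 102) (nat_lit 5) (nat_lit 112) (nat_lit 5) (nat_lit 113) (nat_lit 5) (nat_lit 342) (nat_lit 337) (nat_lit 221)))) (XT.nd (nat_lit 78) (nat_lit 0) (nat_lit 0) (XT.lf (nat_lit 0) (nat_lit 5786373110) (nat_lit 760) (nat_lit 16364689371) (nat_lit 836) (nat_lit 6716576375) (nat_lit 103) (nat_lit 5) (nat_lit 113) (nat_lit 5) (nat_lit 114) (nat_lit 5) (nat_lit 343) (nat_lit 337) (nat_lit 220)) (XT.nd (nat_lit 78) (nat_lit 0) (nat_lit 76) (XT.lf (nat_lit 0) (nat_lit 7357608342) (nat_lit 760) (nat_lit 2184459636) (nat_lit 836) (nat_lit 20081785350) (nat_lit 103) (nat_lit 5) (nat_lit 113) (nat_lit 5) (nat_lit 114) (nat_lit 5) (nat_lit 344) (nat_lit 337) (nat_lit 219)) (XT.lf (nat_lit 0) (nat_lit 9268391694) (nat_lit 760) (nat_lit 17347989391) (nat_lit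 836) (nat_lit 3788453315) (nat_lit 104) (nat_lit 5) (nat_lit 114) (nat_lit 5) (nat_lit 115) (nat_lit 5) (nat_lit 345) (nat_lit 337) (nat_lit 218)))))) (XT.nd (nat_lit 468) (nat_lit 1064) (nat_lit 0) (XT.nd (nat_lit 234) (nat_lit 1064) (nat_lit 0) (XT.nd (nat_lit 78) (nat_lit 0) (nat_lit 76) (XT.lf (nat_lit 0) (nat_lit 11463966574) (nat_lit 760) (nat_lit 2247927553) (nat_lit 836) (nat_lit 17503512727) (nat_lit 104) (nat_lit 5) (nat_lit 114) (nat_lit 5) (nat_lit 115) (nat_lit 5) (nat_lit 346) (nat_lit 337) (nat_lit 217)) (XT.nd (nat_lit 78) (nat_lit 0) (nat_lit 0) (XT.lf (nat_lit 0) (nat_lit 13985258128) (nat_lit 760) (nat_lit 18003666010) (nat_lit 76) (nat_lit 66791607) (nat_lit 105) (nat_lit 5) (nat_lit 115) (nat_lit 5) (nat_lit 106) (nat_lit 5) (nat_lit 347) (nat_lit 337) (nat_lit 216)) (XT.lf (nat_lit 0) (nat_lit 16891714416) (nat_lit 760) (nat_lit 1920397577) (nat_lit 76) (nat_lit 14112977565)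 (nat_lit 105) (nat_lit 5) (nat_lit 115) (nat_lit 5) (nat_lit 106) (nat_lit 5) (nat_lit 348) (nat_lit 337) (nat_lit 215)))) (XT.nd (nat_lit 78) (nat_lit 380) (nat_lit 0) (XT.lf (nat_lit 0) (nat_lit 15458054660) (nat_lit 760) (nat_lit 4722612101) (nat_lit 836) (nat_lit 13645410912) (nat_lit 95) (nat_lit 5) (nat_lit 105) (nat_lit 5) (nat_lit 106) (nat_lit 5) (nat_lit 349) (nat_lit 337) (nat_lit 214)) (XT.nd (nat_lit 78) (nat_lit 380) (nat_lit 0) (XT.lf (nat_lit 0) (nat_lit 23820341413) (nat_lit 836) (nat_lit 1160047782) (nat_lit 76) (nat_lit 9782416333) (nat_lit 95) (nat_lit 5) (nat_lit 106) (nat_lit 5) (nat_lit 96) (nat_lit 5) (nat_lit 350) (nat_lit 337) (nat_lit 213)) (XT.lf (nat_lit 0) (nat_lit 17383590019) (nat_lit 380) (nat_lit 10603404269) (nat_lit 456) (nat_lit 7742129638) (nat_lit 90) (nat_lit 5) (nat_lit 95) (nat_lit 5) (nat_lit 96) (nat_lit 5) (nat_lit 351) (nat_lit 337) (nat_lit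 212))))) (XT.nd (nat_lit 234) (nat_lit 304) (nat_lit 0) (XT.nd (nat_lit 78) (nat_lit 456) (nat_lit 0) (XT.lf (nat_lit 0) (nat_lit 80182738) (nat_lit 304) (nat_lit 32369451143) (nat_lit 380) (nat_lit 4289745352) (nat_lit 86) (nat_lit 5) (nat_lit 90) (nat_lit 5) (nat_lit 91) (nat_lit 5) (nat_lit 352) (nat_lit 337) (nat_lit 211)) (XT.nd (nat_lit 78) (nat_lit 456) (nat_lit 0) (XT.lf (nat_lit 0) (nat_lit 19880758595) (nat_lit 304) (nat_lit 17732772346) (nat_lit 380) (nat_lit 162713604) (nat_lit 86) (nat_lit 5) (nat_lit 90) (nat_lit 5) (nat_lit 91) (nat_lit 5) (nat_lit 353) (nat_lit 337) (nat_lit 210)) (XT.lf (nat_lit 0) (nat_lit 1795039731) (nat_lit 380) (nat_lit 2266692054) (nat_lit 456) (nat_lit 34798741257) (nat_lit 80) (nat_lit 5) (nat_lit 85) (nat_lit 5) (nat_lit 86) (nat_lit 5) (nat_lit 354) (nat_lit 337) (nat_lit 209)))) (XT.nd (nat_lit 78) (nat_lit 304) (nat_lit 0) (XT.lf (nat_lit 0)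 (nat_lit 9014749287) (nat_lit 456) (nat_lit 17121979910) (nat_lit 76) (nat_lit 13835912527) (nat_lit 80) (nat_lit 5) (nat_lit 86) (nat_lit 5) (nat_lit 81) (nat_lit 5) (nat_lit 355) (nat_lit 337) (nat_lit 208)) (XT.nd (nat_lit 78) (nat_lit 0) (nat_lit 0) (XT.lf (nat_lit 0) (nat_lit 3902767560) (nat_lit 304) (nat_lit 10407530840) (nat_lit 380) (nat_lit 26825379296) (nat_lit 76) (nat_lit 5) (nat_lit 80) (nat_lit 5) (nat_lit 81) (nat_lit 5) (nat_lit 356) (nat_lit 337) (nat_lit 207)) (XT.lf (nat_lit 0) (nat_lit 20257591211) (nat_lit 380) (nat_lit 15873022050) (nat_lit 76) (nat_lit 6206906648) (nat_lit 76) (nat_lit 5) (nat_lit 81) (nat_lit 5) (nat_lit 77) (nat_lit 5) (nat_lit 357) (nat_lit 337) (nat_lit 206))))))))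
noncomputable def xc191 : XT := (XT.nd (nat_lit 1872) (nat_lit 1368) (nat_lit 0) (XT.nd (nat_lit 936) (nat_lit 1140) (nat_lit 0) (XT.nd (nat_lit 468) (nat_lit 988) (nat_lit 0) (XT.nd (nat_lit 234) (nat_lit 380) (nat_lit 0) (XT.nd (nat_lit 78) (nat_lit 228) (nat_lit 0) (XT.lf (nat_lit 0) (nat_lit 6591671904) (nat_lit 304) (nat_lit 20181133774) (nat_lit 380) (nat_lit 16813123326) (nat_lit 72) (nat_lit 5) (nat_lit 76) (nat_lit 5) (nat_lit 77) (nat_lit 5) (nat_lit 358) (nat_lit 337) (nat_lit 205)) (XT.nd (nat_lit 78) (nat_lit 228) (nat_lit 0) (XT.lf (nat_lit 0) (nat_lit 30727185322) (nat_lit 304) (nat_lit 3152527199) (nat_lit 380) (nat_lit 11003751948) (nat_lit 72) (nat_lit 5) (nat_lit 76) (nat_lit 5) (nat_lit 77) (nat_lit 5) (nat_lit 359) (nat_lit 337) (nat_lit 204)) (XT.lf (nat_lit 0) (nat_lit 9907300191) (nat_lit 228) (nat_lit 31816525695) (nat_lit 304) (nat_lit 4502960143) (nat_lit 69)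 (nat_lit 5) (nat_lit 72) (nat_lit 5) (nat_lit 73) (nat_lit 5) (nat_lit 360) (nat_lit 337) (nat_lit 203)))) (XT.nd (nat_lit 78) (nat_lit 304) (nat_lit 0) (XT.lf (nat_lit 0) (nat_lit 2541154164) (nat_lit 304) (nat_lit 12055123295) (nat_lit 76) (nat_lit 33024553573) (nat_lit 68) (nat_lit 5) (nat_lit 72) (nat_lit 5) (nat_lit 69) (nat_lit 5) (nat_lit 361) (nat_lit 337) (nat_lit 202)) (XT.nd (nat_lit 78) (nat_lit 0) (nat_lit 0) (XT.lf (nat_lit 0) (nat_lit 10057934556) (nat_lit 380) (nat_lit 35342825429) (nat_lit 76) (nat_lit 3666539937) (nat_lit 64) (nat_lit 5) (nat_lit 69) (nat_lit 5) (nat_lit 65) (nat_lit 5) (nat_lit 362) (nat_lit 337) (nat_lit 201)) (XT.lf (nat_lit 0) (nat_lit 18394808871) (nat_lit 380) (nat_lit 9610323881) (nat_lit 76) (nat_lit 22558748717) (nat_lit 64) (nat_lit 5) (nat_lit 69) (nat_lit 5) (nat_lit 65) (nat_lit 5) (nat_lit 363) (nat_lit 337) (nat_lit 200))))) (XT.nd (nat_lit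 234) (nat_lit 532) (nat_lit 0) (XT.nd (nat_lit 78) (nat_lit 228) (nat_lit 0) (XT.lf (nat_lit 0) (nat_lit 17981082721) (nat_lit 228) (nat_lit 9445765412) (nat_lit 304) (nat_lit 24694529762) (nat_lit 61) (nat_lit 5) (nat_lit 64) (nat_lit 5) (nat_lit 65) (nat_lit 5) (nat_lit 364) (nat_lit 337) (nat_lit 199)) (XT.nd (nat_lit 78) (nat_lit 228) (nat_lit 0) (XT.lf (nat_lit 0) (nat_lit 37230328634) (nat_lit 304) (nat_lit 6625629360) (nat_lit 76) (nat_lit 9884800962) (nat_lit 61) (nat_lit 5) (nat_lit 65) (nat_lit 5) (nat_lit 62) (nat_lit 5) (nat_lit 365) (nat_lit 337) (nat_lit 198)) (XT.lf (nat_lit 0) (nat_lit 22837746686) (nat_lit 228) (nat_lit 25195397374) (nat_lit 304) (nat_lit 7382508654) (nat_lit 58) (nat_lit 5) (nat_lit 61) (nat_lit 5) (nat_lit 62) (nat_lit 5) (nat_lit 366) (nat_lit 337) (nat_lit 197)))) (XT.nd (nat_lit 78) (nat_lit 456) (nat_lit 0) (XT.lf (nat_lit 0) (nat_lit 2243157865)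 (nat_lit 304) (nat_lit 3203727954) (nat_lit 76) (nat_lit 51720097035) (nat_lit 57) (nat_lit 5) (nat_lit 61) (nat_lit 5) (nat_lit 58) (nat_lit 5) (nat_lit 367) (nat_lit 337) (nat_lit 196)) (XT.nd (nat_lit 78) (nat_lit 228) (nat_lit 0) (XT.lf (nat_lit 0) (nat_lit 12791628777) (nat_lit 304) (nat_lit 30800787534) (nat_lit 76) (nat_lit 15372932324) (nat_lit 54) (nat_lit 5) (nat_lit 58) (nat_lit 5) (nat_lit 55) (nat_lit 5) (nat_lit 368) (nat_lit 337) (nat_lit 195)) (XT.lf (nat_lit 0) (nat_lit 277218748) (nat_lit 228) (nat_lit 23736991864) (nat_lit 304) (nat_lit 36832089116) (nat_lit 51) (nat_lit 5) (nat_lit 54) (nat_lit 5) (nat_lit 55) (nat_lit 5) (nat_lit 369) (nat_lit 337) (nat_lit 194)))))) (XT.nd (nat_lit 468) (nat_lit 532) (nat_lit 0) (XT.nd (nat_lit 234) (nat_lit 456) (nat_lit 0) (XT.nd (nat_lit 78) (nat_lit 152) (nat_lit 0) (XT.lf (nat_lit 0) (nat_lit 33975465948) (nat_lit 228) (nat_lit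 2342054020) (nat_lit 304) (nat_lit 26477799810) (nat_lit 51) (nat_lit 5) (nat_lit 54) (nat_lit 5) (nat_lit 55) (nat_lit 5) (nat_lit 370) (nat_lit 337) (nat_lit 193)) (XT.nd (nat_lit 78) (nat_lit 0) (nat_lit 0) (XT.lf (nat_lit 0) (nat_lit 4338591926) (nat_lit 152) (nat_lit 45277365503) (nat_lit 228) (nat_lit 15206836533) (nat_lit 49) (nat_lit 5) (nat_lit 51) (nat_lit 5) (nat_lit 52) (nat_lit 5) (nat_lit 371) (nat_lit 337) (nat_lit 192)) (XT.lf (nat_lit 0) (nat_lit 40112969601) (nat_lit 152) (nat_lit 23990302371) (nat_lit 228) (nat_lit 2822173324) (nat_lit 49) (nat_lit 5) (nat_lit 51) (nat_lit 5) (nat_lit 52) (nat_lit 5) (nat_lit 372) (nat_lit 337) (nat_lit 191)))) (XT.nd (nat_lit 78) (nat_lit 152) (nat_lit 0) (XT.lf (nat_lit 0) (nat_lit 8658176232) (nat_lit 228) (nat_lit 1331008099) (nat_lit 304) (nat_lit 59129430694) (nat_lit 45) (nat_lit 5) (nat_lit 48) (nat_lit 5) (nat_lit 49) (nat_lit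 5) (nat_lit 373) (nat_lit 337) (nat_lit 190)) (XT.nd (nat_lit 78) (nat_lit 152) (nat_lit 0) (XT.lf (nat_lit 0) (nat_lit 24156666437) (nat_lit 304) (nat_lit 24972743375) (nat_lit 76) (nat_lit 22249201204) (nat_lit 45) (nat_lit 5) (nat_lit 49) (nat_lit 5) (nat_lit 46) (nat_lit 5) (nat_lit 374) (nat_lit 337) (nat_lit 189)) (XT.lf (nat_lit 0) (nat_lit 12670340918) (nat_lit 152) (nat_lit 26580098018) (nat_lit 228) (nat_lit 34490273044) (nat_lit 43) (nat_lit 5) (nat_lit 45) (nat_lit 5) (nat_lit 46) (nat_lit 5) (nat_lit 375) (nat_lit 337) (nat_lit 188))))) (XT.nd (nat_lit 234) (nat_lit 304) (nat_lit 0) (XT.nd (nat_lit 78) (nat_lit 228) (nat_lit 0) (XT.lf (nat_lit 0) (nat_lit 53059914207) (nat_lit 152) (nat_lit 2460228782) (nat_lit 228) (nat_lit 20679713800) (nat_lit 43) (nat_lit 5) (nat_lit 45) (nat_lit 5) (nat_lit 46) (nat_lit 5) (nat_lit 376) (nat_lit 337) (nat_lit 187)) (XT.nd (nat_lit 78)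 (nat_lit 76) (nat_lit 0) (XT.lf (nat_lit 0) (nat_lit 16867266414) (nat_lit 152) (nat_lit 56354790742) (nat_lit 228) (nat_lit 5528966333) (nat_lit 41) (nat_lit 5) (nat_lit 43) (nat_lit 5) (nat_lit 44) (nat_lit 5) (nat_lit 377) (nat_lit 337) (nat_lit 186)) (XT.lf (nat_lit 0) (nat_lit 10484150887) (nat_lit 228) (nat_lit 21943372146) (nat_lit 76) (nat_lit 48972272022) (nat_lit 40) (nat_lit 5) (nat_lit 43) (nat_lit 5) (nat_lit 41) (nat_lit 5) (nat_lit 378) (nat_lit 337) (nat_lit 185)))) (XT.nd (nat_lit 78) (nat_lit 152) (nat_lit 0) (XT.lf (nat_lit 0) (nat_lit 20558917355) (nat_lit 152) (nat_lit 6872649203) (nat_lit 228) (nat_lit 56728934870) (nat_lit 38) (nat_lit 5) (nat_lit 40) (nat_lit 5) (nat_lit 41) (nat_lit 5) (nat_lit 379) (nat_lit 337) (nat_lit 184)) (XT.nd (nat_lit 78) (nat_lit 152) (nat_lit 0) (XT.lf (nat_lit 0) (nat_lit 45914187369) (nat_lit 228) (nat_lit 21412749677) (nat_lit 76)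 (nat_lit 19697915095) (nat_lit 38) (nat_lit 5) (nat_lit 41) (nat_lit 5) (nat_lit 39) (nat_lit 5) (nat_lit 380) (nat_lit 337) (nat_lit 183)) (XT.lf (nat_lit 0) (nat_lit 23523364044) (nat_lit 152) (nat_lit 42276068647) (nat_lit 228) (nat_lit 24209063727) (nat_lit 36) (nat_lit 5) (nat_lit 38) (nat_lit 5) (nat_lit 39) (nat_lit 5) (nat_lit 381) (nat_lit 337) (nat_lit 182))))))) (XT.nd (nat_lit 936) (nat_lit 456) (nat_lit 0) (XT.nd (nat_lit 468) (nat_lit 532) (nat_lit 0) (XT.nd (nat_lit 234) (nat_lit 228) (nat_lit 0) (XT.nd (nat_lit 78) (nat_lit 152) (nat_lit 0) (XT.lf (nat_lit 0) (nat_lit 71447333757) (nat_lit 152) (nat_lit 15592835035) (nat_lit 228) (nat_lit 6083093359) (nat_lit 36) (nat_lit 5) (nat_lit 38) (nat_lit 5) (nat_lit 39) (nat_lit 5) (nat_lit 382) (nat_lit 337) (nat_lit 181)) (XT.nd (nat_lit 78) (nat_lit 0) (nat_lit 0) (XT.lf (nat_lit 0) (nat_lit 13143251885) (nat_lit 152) (nat_lit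 70565878397) (nat_lit 76) (nat_lit 12644101309) (nat_lit 34) (nat_lit 5) (nat_lit 36) (nat_lit 5) (nat_lit 35) (nat_lit 5) (nat_lit 383) (nat_lit 337) (nat_lit 180)) (XT.lf (nat_lit 0) (nat_lit 33753866160) (nat_lit 152) (nat_lit 23713669431) (nat_lit 76) (nat_lit 42240809168) (nat_lit 34) (nat_lit 5) (nat_lit 36) (nat_lit 5) (nat_lit 35) (nat_lit 5) (nat_lit 384) (nat_lit 337) (nat_lit 179)))) (XT.nd (nat_lit 78) (nat_lit 76) (nat_lit 0) (XT.lf (nat_lit 0) (nat_lit 26321407299) (nat_lit 152) (nat_lit 29483272025) (nat_lit 228) (nat_lit 47406051403) (nat_lit 32) (nat_lit 5) (nat_lit 34) (nat_lit 5) (nat_lit 35) (nat_lit 5) (nat_lit 385) (nat_lit 337) (nat_lit 178)) (XT.nd (nat_lit 78) (nat_lit 76) (nat_lit 0) (XT.lf (nat_lit 0) (nat_lit 79363391755) (nat_lit 228) (nat_lit 27193864470) (nat_lit 76) (nat_lit 310712362) (nat_lit 32) (nat_lit 5) (nat_lit 35) (nat_lit 5) (nat_lit 33) (nat_lit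 4) (nat_lit 386) (nat_lit 337) (nat_lit 177)) (XT.lf (nat_lit 0) (nat_lit 25311045726) (nat_lit 76) (nat_lit 79666293794) (nat_lit 152) (nat_lit 5686864333) (nat_lit 31) (nat_lit 5) (nat_lit 32) (nat_lit 5) (nat_lit 33) (nat_lit 4) (nat_lit 387) (nat_lit 337) (nat_lit 176))))) (XT.nd (nat_lit 234) (nat_lit 304) (nat_lit 0) (XT.nd (nat_lit 78) (nat_lit 152) (nat_lit 0) (XT.lf (nat_lit 0) (nat_lit 17137418329) (nat_lit 152) (nat_lit 33520449479) (nat_lit 76) (nat_lit 63955595174) (nat_lit 30) (nat_lit 5) (nat_lit 32) (nat_lit 5) (nat_lit 31) (nat_lit 5) (nat_lit 388) (nat_lit 337) (nat_lit 175)) (XT.nd (nat_lit 78) (nat_lit 0) (nat_lit 0) (XT.lf (nat_lit 0) (nat_lit 21496688676) (nat_lit 152) (nat_lit 19749587842) (nat_lit 228) (nat_lit 77492523748) (nat_lit 28) (nat_lit 5) (nat_lit 30) (nat_lit 5) (nat_lit 31) (nat_lit 5) (nat_lit 389) (nat_lit 337) (nat_lit 174)) (XT.lf (nat_lit 0) (nat_lit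 67334779884) (nat_lit 228) (nat_lit 42823252913) (nat_lit 76) (nat_lit 12873661916) (nat_lit 28) (nat_lit 5) (nat_lit 31) (nat_lit 5) (nat_lit 29) (nat_lit 4) (nat_lit 390) (nat_lit 337) (nat_lit 173)))) (XT.nd (nat_lit 78) (nat_lit 228) (nat_lit 0) (XT.lf (nat_lit 0) (nat_lit 14453464382) (nat_lit 76) (nat_lit 80822585163) (nat_lit 152) (nat_lit 32235767672) (nat_lit 27) (nat_lit 5) (nat_lit 28) (nat_lit 5) (nat_lit 29) (nat_lit 4) (nat_lit 391) (nat_lit 337) (nat_lit 172)) (XT.nd (nat_lit 78) (nat_lit 228) (nat_lit 0) (XT.lf (nat_lit 0) (nat_lit 76078853477) (nat_lit 76) (nat_lit 49259702020) (nat_lit 152) (nat_lit 6841182082) (nat_lit 27) (nat_lit 5) (nat_lit 28) (nat_lit 5) (nat_lit 29) (nat_lit 4) (nat_lit 392) (nat_lit 337) (nat_lit 171)) (XT.lf (nat_lit 0) (nat_lit 3505320618) (nat_lit 152) (nat_lit 15737049869) (nat_lit 228) (nat_lit 117820523988) (nat_lit 24) (nat_lit 5) (nat_lit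 26) (nat_lit 5) (nat_lit 27) (nat_lit 5) (nat_lit 393) (nat_lit 337) (nat_lit 170)))))) (XT.nd (nat_lit 468) (nat_lit 228) (nat_lit 0) (XT.nd (nat_lit 234) (nat_lit 152) (nat_lit 0) (XT.nd (nat_lit 78) (nat_lit 76) (nat_lit 0) (XT.lf (nat_lit 0) (nat_lit 47668697348) (nat_lit 228) (nat_lit 74536594384) (nat_lit 76) (nat_lit 19915885019) (nat_lit 24) (nat_lit 5) (nat_lit 27) (nat_lit 5) (nat_lit 25) (nat_lit 4) (nat_lit 394) (nat_lit 337) (nat_lit 169)) (XT.nd (nat_lit 78) (nat_lit 76) (nat_lit 0) (XT.lf (nat_lit 0) (nat_lit 77773355508) (nat_lit 228) (nat_lit 12824306029) (nat_lit 76) (nat_lit 56821861163) (nat_lit 24) (nat_lit 5) (nat_lit 27) (nat_lit 5) (nat_lit 25) (nat_lit 4) (nat_lit 395) (nat_lit 337) (nat_lit 168)) (XT.lf (nat_lit 0) (nat_lit 53690351219) (nat_lit 76) (nat_lit 56530228904) (nat_lit 152) (nat_lit 42720339437) (nat_lit 23) (nat_lit 5) (nat_lit 24) (nat_lit 5) (nat_lit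 25) (nat_lit 4) (nat_lit 396) (nat_lit 337) (nat_lit 167)))) (XT.nd (nat_lit 78) (nat_lit 152) (nat_lit 0) (XT.lf (nat_lit 0) (nat_lit 123974327181) (nat_lit 76) (nat_lit 20532119596) (nat_lit 152) (nat_lit 14221125724) (nat_lit 23) (nat_lit 5) (nat_lit 24) (nat_lit 5) (nat_lit 25) (nat_lit 4) (nat_lit 397) (nat_lit 337) (nat_lit 166)) (XT.nd (nat_lit 78) (nat_lit 0) (nat_lit 0) (XT.lf (nat_lit 0) (nat_lit 16009582839) (nat_lit 152) (nat_lit 131243061597) (nat_lit 76) (nat_lit 17498198985) (nat_lit 21) (nat_lit 5) (nat_lit 23) (nat_lit 5) (nat_lit 22) (nat_lit 4) (nat_lit 398) (nat_lit 337) (nat_lit 165)) (XT.lf (nat_lit 0) (nat_lit 48207837278) (nat_lit 152) (nat_lit 65238411450) (nat_lit 76) (nat_lit 57570676064) (nat_lit 21) (nat_lit 5) (nat_lit 23) (nat_lit 5) (nat_lit 22) (nat_lit 4) (nat_lit 399) (nat_lit 337) (nat_lit 164))))) (XT.nd (nat_lit 234) (nat_lit 152) (nat_lit 0) (XT.nd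 (nat_lit 78) (nat_lit 0) (nat_lit 0) (XT.lf (nat_lit 0) (nat_lit 4199350615) (nat_lit 76) (nat_lit 77881388694) (nat_lit 152) (nat_lit 95512334407) (nat_lit 20) (nat_lit 5) (nat_lit 21) (nat_lit 5) (nat_lit 22) (nat_lit 4) (nat_lit 400) (nat_lit 337) (nat_lit 163)) (XT.nd (nat_lit 78) (nat_lit 0) (nat_lit 0) (XT.lf (nat_lit 0) (nat_lit 79372429696) (nat_lit 76) (nat_lit 39378888072) (nat_lit 152) (nat_lit 65691510970) (nat_lit 20) (nat_lit 5) (nat_lit 21) (nat_lit 5) (nat_lit 22) (nat_lit 4) (nat_lit 401) (nat_lit 337) (nat_lit 162)) (XT.lf (nat_lit 0) (nat_lit 157271014606) (nat_lit 152) (nat_lit 33348741106) (nat_lit 0) (nat_lit 1014536533) (nat_lit 20) (nat_lit 5) (nat_lit 22) (nat_lit 4) (nat_lit 20) (nat_lit 4) (nat_lit 402) (nat_lit 337) (nat_lit 161)))) (XT.nd (nat_lit 78) (nat_lit 76) (nat_lit 0) (XT.lf (nat_lit 0) (nat_lit 42678018157) (nat_lit 76) (nat_lit 156349810208) (nat_lit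 76) (nat_lit 91944156) (nat_lit 19) (nat_lit 4) (nat_lit 20) (nat_lit 5) (nat_lit 20) (nat_lit 4) (nat_lit 403) (nat_lit 337) (nat_lit 160)) (XT.nd (nat_lit 78) (nat_lit 0) (nat_lit 0) (XT.lf (nat_lit 0) (nat_lit 35317448067) (nat_lit 152) (nat_lit 83858419400) (nat_lit 76) (nat_lit 87746975502) (nat_lit 18) (nat_lit 5) (nat_lit 20) (nat_lit 5) (nat_lit 19) (nat_lit 4) (nat_lit 404) (nat_lit 337) (nat_lit 159)) (XT.lf (nat_lit 0) (nat_lit 72493510551) (nat_lit 152) (nat_lit 7648750245) (nat_lit 76) (nat_lit 134973766419) (nat_lit 18) (nat_lit 5) (nat_lit 20) (nat_lit 5) (nat_lit 19) (nat_lit 4) (nat_lit 405) (nat_lit 337) (nat_lit 158))))))))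
noncomputable def xc192 : XT := (XT.nd (nat_lit 1794) (nat_lit 0) (nat_lit 0) (XT.nd (nat_lit 858) (nat_lit 304) (nat_lit 0) (XT.nd (nat_lit 390) (nat_lit 228) (nat_lit 0) (XT.nd (nat_lit 156) (nat_lit 152) (nat_lit 0) (XT.nd (nat_lit 78) (nat_lit 0) (nat_lit 0) (XT.lf (nat_lit 0) (nat_lit 74763023866) (nat_lit 76) (nat_lit 37931936978) (nat_lit 152) (nat_lit 110965580759) (nat_lit 17) (nat_lit 5) (nat_lit 18) (nat_lit 5) (nat_lit 19) (nat_lit 4) (nat_lit 406) (nat_lit 337) (nat_lit 157)) (XT.lf (nat_lit 0) (nat_lit 155137219255) (nat_lit 152) (nat_lit 71168009205) (nat_lit 0) (nat_lit 6315516626) (nat_lit 17) (nat_lit 5) (nat_lit 19) (nat_lit 4) (nat_lit 17) (nat_lit 4) (nat_lit 407) (nat_lit 337) (nat_lit 156))) (XT.nd (nat_lit 78) (nat_lit 76) (nat_lit 0) (XT.lf (nat_lit 0) (nat_lit 10149790628) (nat_lit 76) (nat_lit 190331461765) (nat_lit 76) (nat_lit 41508723405) (nat_lit 16) (nat_lit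 4) (nat_lit 17) (nat_lit 5) (nat_lit 17) (nat_lit 4) (nat_lit 408) (nat_lit 337) (nat_lit 155)) (XT.nd (nat_lit 78) (nat_lit 76) (nat_lit 0) (XT.lf (nat_lit 0) (nat_lit 98003086700) (nat_lit 76) (nat_lit 151294037212) (nat_lit 76) (nat_lit 2470312440) (nat_lit 16) (nat_lit 4) (nat_lit 17) (nat_lit 5) (nat_lit 17) (nat_lit 4) (nat_lit 409) (nat_lit 337) (nat_lit 154)) (XT.lf (nat_lit 0) (nat_lit 37286529918) (nat_lit 152) (nat_lit 72387277878) (nat_lit 76) (nat_lit 152329922391) (nat_lit 15) (nat_lit 5) (nat_lit 17) (nat_lit 5) (nat_lit 16) (nat_lit 4) (nat_lit 410) (nat_lit 337) (nat_lit 153))))) (XT.nd (nat_lit 234) (nat_lit 152) (nat_lit 0) (XT.nd (nat_lit 78) (nat_lit 0) (nat_lit 0) (XT.lf (nat_lit 0) (nat_lit 13447457887) (nat_lit 76) (nat_lit 65710111284) (nat_lit 152) (nat_lit 193581776143) (nat_lit 14) (nat_lit 5) (nat_lit 15) (nat_lit 5) (nat_lit 16) (nat_lit 4) (nat_lit 411) (nat_lit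 337) (nat_lit 152)) (XT.nd (nat_lit 78) (nat_lit 0) (nat_lit 0) (XT.lf (nat_lit 0) (nat_lit 106085975636) (nat_lit 76) (nat_lit 18261530046) (nat_lit 152) (nat_lit 159602968367) (nat_lit 14) (nat_lit 5) (nat_lit 15) (nat_lit 5) (nat_lit 16) (nat_lit 4) (nat_lit 412) (nat_lit 337) (nat_lit 151)) (XT.lf (nat_lit 0) (nat_lit 172289122157) (nat_lit 152) (nat_lit 92859517801) (nat_lit 0) (nat_lit 30548910217) (nat_lit 14) (nat_lit 5) (nat_lit 16) (nat_lit 4) (nat_lit 14) (nat_lit 4) (nat_lit 413) (nat_lit 337) (nat_lit 150)))) (XT.nd (nat_lit 78) (nat_lit 152) (nat_lit 0) (XT.lf (nat_lit 0) (nat_lit 222926666138) (nat_lit 152) (nat_lit 3904653616) (nat_lit 0) (nat_lit 81185718122) (nat_lit 14) (nat_lit 5) (nat_lit 16) (nat_lit 4) (nat_lit 14) (nat_lit 4) (nat_lit 414) (nat_lit 337) (nat_lit 149)) (XT.nd (nat_lit 78) (nat_lit 76) (nat_lit 0) (XT.lf (nat_lit 0) (nat_lit 92456180265) (nat_lit 76)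 (nat_lit 185082909361) (nat_lit 76) (nat_lit 43341260321) (nat_lit 13) (nat_lit 4) (nat_lit 14) (nat_lit 5) (nat_lit 14) (nat_lit 4) (nat_lit 415) (nat_lit 337) (nat_lit 148)) (XT.lf (nat_lit 0) (nat_lit 546168265) (nat_lit 152) (nat_lit 140622671736) (nat_lit 76) (nat_lit 193214265330) (nat_lit 12) (nat_lit 5) (nat_lit 14) (nat_lit 5) (nat_lit 13) (nat_lit 4) (nat_lit 416) (nat_lit 337) (nat_lit 147)))))) (XT.nd (nat_lit 468) (nat_lit 152) (nat_lit 0) (XT.nd (nat_lit 234) (nat_lit 76) (nat_lit 0) (XT.nd (nat_lit 78) (nat_lit 76) (nat_lit 0) (XT.lf (nat_lit 0) (nat_lit 45170944640) (nat_lit 152) (nat_lit 49142516017) (nat_lit 76) (nat_lit 254212035945) (nat_lit 12) (nat_lit 5) (nat_lit 14) (nat_lit 5) (nat_lit 13) (nat_lit 4) (nat_lit 417) (nat_lit 337) (nat_lit 146)) (XT.nd (nat_lit 78) (nat_lit 0) (nat_lit 0) (XT.lf (nat_lit 0) (nat_lit 48461868343) (nat_lit 76) (nat_lit 44321266507)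 (nat_lit 152) (nat_lit 270554063917) (nat_lit 11) (nat_lit 5) (nat_lit 12) (nat_lit 5) (nat_lit 13) (nat_lit 4) (nat_lit 418) (nat_lit 337) (nat_lit 145)) (XT.lf (nat_lit 0) (nat_lit 143748946655) (nat_lit 152) (nat_lit 226337356334) (nat_lit 0) (nat_lit 8754532526) (nat_lit 11) (nat_lit 5) (nat_lit 13) (nat_lit 4) (nat_lit 11) (nat_lit 4) (nat_lit 419) (nat_lit 337) (nat_lit 144)))) (XT.nd (nat_lit 78) (nat_lit 76) (nat_lit 0) (XT.lf (nat_lit 0) (nat_lit 197989199884) (nat_lit 152) (nat_lit 134099884109) (nat_lit 0) (nat_lit 62994262640) (nat_lit 11) (nat_lit 5) (nat_lit 13) (nat_lit 4) (nat_lit 11) (nat_lit 4) (nat_lit 420) (nat_lit 337) (nat_lit 143)) (XT.nd (nat_lit 78) (nat_lit 76) (nat_lit 0) (XT.lf (nat_lit 0) (nat_lit 254941058817) (nat_lit 152) (nat_lit 37251321540) (nat_lit 0) (nat_lit 119945623368) (nat_lit 11) (nat_lit 5) (nat_lit 13) (nat_lit 4) (nat_lit 11) (nat_lit 4) (nat_lit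 421) (nat_lit 337) (nat_lit 142)) (XT.lf (nat_lit 0) (nat_lit 66569565004) (nat_lit 76) (nat_lit 249209895586) (nat_lit 76) (nat_lit 114213985656) (nat_lit 10) (nat_lit 4) (nat_lit 11) (nat_lit 5) (nat_lit 11) (nat_lit 4) (nat_lit 422) (nat_lit 337) (nat_lit 141))))) (XT.nd (nat_lit 234) (nat_lit 76) (nat_lit 0) (XT.nd (nat_lit 78) (nat_lit 76) (nat_lit 0) (XT.lf (nat_lit 0) (nat_lit 176874043707) (nat_lit 76) (nat_lit 203416227318) (nat_lit 76) (nat_lit 68419865502) (nat_lit 10) (nat_lit 4) (nat_lit 11) (nat_lit 5) (nat_lit 11) (nat_lit 4) (nat_lit 423) (nat_lit 337) (nat_lit 140)) (XT.nd (nat_lit 78) (nat_lit 76) (nat_lit 0) (XT.lf (nat_lit 0) (nat_lit 292693047357) (nat_lit 76) (nat_lit 155333212167) (nat_lit 76) (nat_lit 20336419983) (nat_lit 10) (nat_lit 4) (nat_lit 11) (nat_lit 5) (nat_lit 11) (nat_lit 4) (nat_lit 424) (nat_lit 337) (nat_lit 139)) (XT.lf (nat_lit 0) (nat_lit 29185820270)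 (nat_lit 152) (nat_lit 75166270503) (nat_lit 76) (nat_lit 384622239229) (nat_lit 9) (nat_lit 5) (nat_lit 11) (nat_lit 5) (nat_lit 10) (nat_lit 4) (nat_lit 425) (nat_lit 337) (nat_lit 138)))) (XT.nd (nat_lit 78) (nat_lit 0) (nat_lit 0) (XT.lf (nat_lit 0) (nat_lit 31021099087) (nat_lit 76) (nat_lit 49963628474) (nat_lit 152) (nat_lit 429590966713) (nat_lit 8) (nat_lit 5) (nat_lit 9) (nat_lit 5) (nat_lit 10) (nat_lit 4) (nat_lit 426) (nat_lit 337) (nat_lit 137)) (XT.nd (nat_lit 78) (nat_lit 0) (nat_lit 0) (XT.lf (nat_lit 0) (nat_lit 136778634746) (nat_lit 152) (nat_lit 388199094289) (nat_lit 0) (nat_lit 8209145048) (nat_lit 8) (nat_lit 5) (nat_lit 10) (nat_lit 4) (nat_lit 8) (nat_lit 4) (nat_lit 427) (nat_lit 337) (nat_lit 136)) (XT.lf (nat_lit 0) (nat_lit 196180996039) (nat_lit 152) (nat_lit 293095509818) (nat_lit 0) (nat_lit 67611169137) (nat_lit 8) (nat_lit 5) (nat_lit 10) (nat_lit 4) (nat_lit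 8) (nat_lit 4) (nat_lit 428) (nat_lit 337) (nat_lit 135))))))) (XT.nd (nat_lit 40638) (nat_lit 0) (nat_lit 4864) (XT.nd (nat_lit 40170) (nat_lit 0) (nat_lit 7144) (XT.nd (nat_lit 39936) (nat_lit 0) (nat_lit 7068) (XT.nd (nat_lit 39780) (nat_lit 0) (nat_lit 6992) (XT.lf (nat_lit 0) (nat_lit 258553173370) (nat_lit 152) (nat_lit 193237332405) (nat_lit 0) (nat_lit 129983025321) (nat_lit 8) (nat_lit 5) (nat_lit 10) (nat_lit 4) (nat_lit 8) (nat_lit 4) (nat_lit 429) (nat_lit 337) (nat_lit 134)) (XT.nd (nat_lit 78) (nat_lit 0) (nat_lit 0) (XT.lf (nat_lit 0) (nat_lit 777096029) (nat_lit 836) (nat_lit 6133471158) (nat_lit 836) (nat_lit 6133471158) (nat_lit 100) (nat_lit 3) (nat_lit 111) (nat_lit 3) (nat_lit 111) (nat_lit 5) (nat_lit 338) (nat_lit 338) (nat_lit 224)) (XT.lf (nat_lit 76) (nat_lit 78924377) (nat_lit 0) (nat_lit 1608775301) (nat_lit 836) (nat_lit 25047747673) (nat_lit 101) (nat_lit 5)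 (nat_lit 100) (nat_lit 3) (nat_lit 111) (nat_lit 5) (nat_lit 339) (nat_lit 338) (nat_lit 223)))) (XT.nd (nat_lit 78) (nat_lit 0) (nat_lit 0) (XT.lf (nat_lit 0) (nat_lit 2208132778) (nat_lit 760) (nat_lit 14118923002) (nat_lit 836) (nat_lit 11069124572) (nat_lit 101) (nat_lit 5) (nat_lit 111) (nat_lit 5) (nat_lit 112) (nat_lit 5) (nat_lit 340) (nat_lit 338) (nat_lit 222)) (XT.nd (nat_lit 78) (nat_lit 0) (nat_lit 76) (XT.lf (nat_lit 0) (nat_lit 2775258703) (nat_lit 760) (nat_lit 984242999) (nat_lit 836) (nat_lit 24329420754) (nat_lit 101) (nat_lit 5) (nat_lit 111) (nat_lit 5) (nat_lit 112) (nat_lit 5) (nat_lit 341) (nat_lit 338) (nat_lit 221)) (XT.lf (nat_lit 0) (nat_lit 3722573342) (nat_lit 760) (nat_lit 15729739053) (nat_lit 836) (nat_lit 9346403375) (nat_lit 102) (nat_lit 5) (nat_lit 112) (nat_lit 5) (nat_lit 113) (nat_lit 5) (nat_lit 342) (nat_lit 338) (nat_lit 220))))) (XT.nd (nat_lit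 234) (nat_lit 0) (nat_lit 152) (XT.nd (nat_lit 78) (nat_lit 0) (nat_lit 76) (XT.lf (nat_lit 0) (nat_lit 4790635991) (nat_lit 760) (nat_lit 1749550396) (nat_lit 836) (nat_lit 23000148702) (nat_lit 102) (nat_lit 5) (nat_lit 112) (nat_lit 5) (nat_lit 113) (nat_lit 5) (nat_lit 343) (nat_lit 338) (nat_lit 219)) (XT.nd (nat_lit 78) (nat_lit 0) (nat_lit 0) (XT.lf (nat_lit 0) (nat_lit 6228653394) (nat_lit 760) (nat_lit 17068161657) (nat_lit 836) (nat_lit 7006397936) (nat_lit 103) (nat_lit 5) (nat_lit 113) (nat_lit 5) (nat_lit 114) (nat_lit 5) (nat_lit 344) (nat_lit 338) (nat_lit 218)) (XT.lf (nat_lit 0) (nat_lit 7871166500) (nat_lit 760) (nat_lit 2184385302) (nat_lit 836) (nat_lit 21042058182) (nat_lit 103) (nat_lit 5) (nat_lit 113) (nat_lit 5) (nat_lit 114) (nat_lit 5) (nat_lit 345) (nat_lit 338) (nat_lit 217)))) (XT.nd (nat_lit 78) (nat_lit 0) (nat_lit 0) (XT.lf (nat_lit 0) (nat_lit 9871717469)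 (nat_lit 760) (nat_lit 18100175113) (nat_lit 836) (nat_lit 3946043349) (nat_lit 104) (nat_lit 5) (nat_lit 114) (nat_lit 5) (nat_lit 115) (nat_lit 5) (nat_lit 346) (nat_lit 338) (nat_lit 216)) (XT.nd (nat_lit 78) (nat_lit 0) (nat_lit 76) (XT.lf (nat_lit 0) (nat_lit 12170408894) (nat_lit 760) (nat_lit 2250596551) (nat_lit 836) (nat_lit 18348371571) (nat_lit 104) (nat_lit 5) (nat_lit 114) (nat_lit 5) (nat_lit 115) (nat_lit 5) (nat_lit 347) (nat_lit 338) (nat_lit 215)) (XT.lf (nat_lit 0) (nat_lit 14812783548) (nat_lit 760) (nat_lit 18789009044) (nat_lit 76) (nat_lit 50164403) (nat_lit 105) (nat_lit 5) (nat_lit 115) (nat_lit 5) (nat_lit 106) (nat_lit 5) (nat_lit 348) (nat_lit 338) (nat_lit 214)))))) (XT.nd (nat_lit 468) (nat_lit 1064) (nat_lit 0) (XT.nd (nat_lit 234) (nat_lit 684) (nat_lit 0) (XT.nd (nat_lit 78) (nat_lit 760) (nat_lit 0) (XT.lf (nat_lit 0) (nat_lit 17858454912) (nat_lit 760)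 (nat_lit 1907045774) (nat_lit 76) (nat_lit 14799610458) (nat_lit 105) (nat_lit 5) (nat_lit 115) (nat_lit 5) (nat_lit 106) (nat_lit 5) (nat_lit 349) (nat_lit 338) (nat_lit 213)) (XT.nd (nat_lit 78) (nat_lit 0) (nat_lit 0) (XT.lf (nat_lit 0) (nat_lit 16338565016) (nat_lit 760) (nat_lit 4969153020) (nat_lit 836) (nat_lit 14203643429) (nat_lit 95) (nat_lit 5) (nat_lit 105) (nat_lit 5) (nat_lit 106) (nat_lit 5) (nat_lit 350) (nat_lit 338) (nat_lit 212)) (XT.lf (nat_lit 0) (nat_lit 25123601725) (nat_lit 836) (nat_lit 1109678507) (nat_lit 76) (nat_lit 10261939892) (nat_lit 95) (nat_lit 5) (nat_lit 106) (nat_lit 5) (nat_lit 96) (nat_lit 5) (nat_lit 351) (nat_lit 338) (nat_lit 211)))) (XT.nd (nat_lit 78) (nat_lit 304) (nat_lit 0) (XT.lf (nat_lit 0) (nat_lit 18359393255) (nat_lit 380) (nat_lit 11135513769) (nat_lit 456) (nat_lit 8015136836) (nat_lit 90) (nat_lit 5) (nat_lit 95) (nat_lit 5) (nat_lit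 96) (nat_lit 5) (nat_lit 352) (nat_lit 338) (nat_lit 210)) (XT.nd (nat_lit 78) (nat_lit 0) (nat_lit 0) (XT.lf (nat_lit 0) (nat_lit 194572629) (nat_lit 304) (nat_lit 33982630816) (nat_lit 380) (nat_lit 4393787392) (nat_lit 86) (nat_lit 5) (nat_lit 90) (nat_lit 5) (nat_lit 91) (nat_lit 5) (nat_lit 353) (nat_lit 338) (nat_lit 209)) (XT.lf (nat_lit 0) (nat_lit 20979921053) (nat_lit 304) (nat_lit 18614370121) (nat_lit 380) (nat_lit 65663353) (nat_lit 86) (nat_lit 5) (nat_lit 90) (nat_lit 5) (nat_lit 91) (nat_lit 5) (nat_lit 354) (nat_lit 338) (nat_lit 208))))) (XT.nd (nat_lit 234) (nat_lit 304) (nat_lit 0) (XT.nd (nat_lit 78) (nat_lit 304) (nat_lit 0) (XT.lf (nat_lit 0) (nat_lit 1991624880) (nat_lit 380) (nat_lit 2371832244) (nat_lit 456) (nat_lit 36435018688) (nat_lit 80) (nat_lit 5) (nat_lit 85) (nat_lit 5) (nat_lit 86) (nat_lit 5) (nat_lit 355) (nat_lit 338) (nat_lit 207)) (XT.nd (nat_lit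 78) (nat_lit 304) (nat_lit 0) (XT.lf (nat_lit 0) (nat_lit 9559550263) (nat_lit 456) (nat_lit 17871673090) (nat_lit 76) (nat_lit 14535262573) (nat_lit 80) (nat_lit 5) (nat_lit 86) (nat_lit 5) (nat_lit 81) (nat_lit 5) (nat_lit 356) (nat_lit 338) (nat_lit 206)) (XT.lf (nat_lit 0) (nat_lit 4202595531) (nat_lit 304) (nat_lit 10914436584) (nat_lit 380) (nat_lit 28070787851) (nat_lit 76) (nat_lit 5) (nat_lit 80) (nat_lit 5) (nat_lit 81) (nat_lit 5) (nat_lit 357) (nat_lit 338) (nat_lit 205)))) (XT.nd (nat_lit 78) (nat_lit 304) (nat_lit 0) (XT.lf (nat_lit 0) (nat_lit 21357546117) (nat_lit 380) (nat_lit 16562748494) (nat_lit 76) (nat_lit 6529670693) (nat_lit 76) (nat_lit 5) (nat_lit 81) (nat_lit 5) (nat_lit 77) (nat_lit 5) (nat_lit 358) (nat_lit 338) (nat_lit 204)) (XT.nd (nat_lit 78) (nat_lit 0) (nat_lit 0) (XT.lf (nat_lit 0) (nat_lit 7023503953) (nat_lit 304) (nat_lit 21172467293) (nat_lit 380)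 (nat_lit 17564954768) (nat_lit 72) (nat_lit 5) (nat_lit 76) (nat_lit 5) (nat_lit 77) (nat_lit 5) (nat_lit 359) (nat_lit 338) (nat_lit 203)) (XT.lf (nat_lit 0) (nat_lit 32360924068) (nat_lit 304) (nat_lit 3293274350) (nat_lit 380) (nat_lit 11469344571) (nat_lit 72) (nat_lit 5) (nat_lit 76) (nat_lit 5) (nat_lit 77) (nat_lit 5) (nat_lit 360) (nat_lit 338) (nat_lit 202))))))))
noncomputable def xc193 : XT := (XT.nd (nat_lit 1794) (nat_lit 1444) (nat_lit 0) (XT.nd (nat_lit 858) (nat_lit 1140) (nat_lit 0) (XT.nd (nat_lit 390) (nat_lit 760) (nat_lit 0) (XT.nd (nat_lit 156) (nat_lit 532) (nat_lit 0) (XT.nd (nat_lit 78) (nat_lit 76) (nat_lit 0) (XT.lf (nat_lit 0) (nat_lit 10502243422) (nat_lit 228) (nat_lit 33386246360) (nat_lit 304) (nat_lit 4645645546) (nat_lit 69) (nat_lit 5) (nat_lit 72) (nat_lit 5) (nat_lit 73) (nat_lit 5) (nat_lit 361) (nat_lit 338) (nat_lit 201)) (XT.lf (nat_lit 0) (nat_lit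 2744234049) (nat_lit 304) (nat_lit 12560469221) (nat_lit 76) (nat_lit 34693308004) (nat_lit 68) (nat_lit 5) (nat_lit 72) (nat_lit 5) (nat_lit 69) (nat_lit 5) (nat_lit 362) (nat_lit 338) (nat_lit 200))) (XT.nd (nat_lit 78) (nat_lit 228) (nat_lit 0) (XT.lf (nat_lit 0) (nat_lit 10635072230) (nat_lit 380) (nat_lit 37010717897) (nat_lit 76) (nat_lit 3871105410) (nat_lit 64) (nat_lit 5) (nat_lit 69) (nat_lit 5) (nat_lit 65) (nat_lit 5) (nat_lit 363) (nat_lit 338) (nat_lit 199)) (XT.nd (nat_lit 78) (nat_lit 228) (nat_lit 0) (XT.lf (nat_lit 0) (nat_lit 19385254978) (nat_lit 380) (nat_lit 9996317405) (nat_lit 76) (nat_lit 23706913273) (nat_lit 64) (nat_lit 5) (nat_lit 69) (nat_lit 5) (nat_lit 65) (nat_lit 5) (nat_lit 364) (nat_lit 338) (nat_lit 198)) (XT.lf (nat_lit 0) (nat_lit 18973134969) (nat_lit 228) (nat_lit 9893846260) (nat_lit 304) (nat_lit 25856974024) (nat_lit 61) (nat_lit 5) (nat_lit 64)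 (nat_lit 5) (nat_lit 65) (nat_lit 5) (nat_lit 365) (nat_lit 338) (nat_lit 197))))) (XT.nd (nat_lit 234) (nat_lit 456) (nat_lit 0) (XT.nd (nat_lit 78) (nat_lit 304) (nat_lit 0) (XT.lf (nat_lit 0) (nat_lit 39157719955) (nat_lit 304) (nat_lit 6865375872) (nat_lit 76) (nat_lit 10401357804) (nat_lit 61) (nat_lit 5) (nat_lit 65) (nat_lit 5) (nat_lit 62) (nat_lit 5) (nat_lit 366) (nat_lit 338) (nat_lit 196)) (XT.nd (nat_lit 78) (nat_lit 76) (nat_lit 0) (XT.lf (nat_lit 0) (nat_lit 24069692606) (nat_lit 228) (nat_lit 26429252714) (nat_lit 304) (nat_lit 7684235658) (nat_lit 58) (nat_lit 5) (nat_lit 61) (nat_lit 5) (nat_lit 62) (nat_lit 5) (nat_lit 367) (nat_lit 338) (nat_lit 195)) (XT.lf (nat_lit 0) (nat_lit 2417450289) (nat_lit 304) (nat_lit 3276047038) (nat_lit 76) (nat_lit 54328685158) (nat_lit 57) (nat_lit 5) (nat_lit 61) (nat_lit 5) (nat_lit 58) (nat_lit 5) (nat_lit 368) (nat_lit 338) (nat_lit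 194)))) (XT.nd (nat_lit 78) (nat_lit 228) (nat_lit 0) (XT.lf (nat_lit 0) (nat_lit 13492140445) (nat_lit 304) (nat_lit 32251714548) (nat_lit 76) (nat_lit 16166673817) (nat_lit 54) (nat_lit 5) (nat_lit 58) (nat_lit 5) (nat_lit 55) (nat_lit 5) (nat_lit 369) (nat_lit 338) (nat_lit 193)) (XT.nd (nat_lit 78) (nat_lit 0) (nat_lit 0) (XT.lf (nat_lit 0) (nat_lit 378754752) (nat_lit 228) (nat_lit 24895564033) (nat_lit 304) (nat_lit 38611287242) (nat_lit 51) (nat_lit 5) (nat_lit 54) (nat_lit 5) (nat_lit 55) (nat_lit 5) (nat_lit 370) (nat_lit 338) (nat_lit 192)) (XT.lf (nat_lit 0) (nat_lit 35757739309) (nat_lit 228) (nat_lit 2432225842) (nat_lit 304) (nat_lit 27742255200) (nat_lit 51) (nat_lit 5) (nat_lit 54) (nat_lit 5) (nat_lit 55) (nat_lit 5) (nat_lit 371) (nat_lit 338) (nat_lit 191)))))) (XT.nd (nat_lit 468) (nat_lit 532) (nat_lit 0) (XT.nd (nat_lit 234) (nat_lit 152) (nat_lit 0) (XT.nd (nat_lit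 78) (nat_lit 304) (nat_lit 0) (XT.lf (nat_lit 0) (nat_lit 4640080327) (nat_lit 152) (nat_lit 47512271031) (nat_lit 228) (nat_lit 15908767302) (nat_lit 49) (nat_lit 5) (nat_lit 51) (nat_lit 5) (nat_lit 52) (nat_lit 5) (nat_lit 372) (nat_lit 338) (nat_lit 190)) (XT.nd (nat_lit 78) (nat_lit 304) (nat_lit 0) (XT.lf (nat_lit 0) (nat_lit 42199150276) (nat_lit 152) (nat_lit 25162233921) (nat_lit 228) (nat_lit 2907652411) (nat_lit 49) (nat_lit 5) (nat_lit 51) (nat_lit 5) (nat_lit 52) (nat_lit 5) (nat_lit 373) (nat_lit 338) (nat_lit 189)) (XT.lf (nat_lit 0) (nat_lit 9172101518) (nat_lit 228) (nat_lit 1369091766) (nat_lit 304) (nat_lit 62030694599) (nat_lit 45) (nat_lit 5) (nat_lit 48) (nat_lit 5) (nat_lit 49) (nat_lit 5) (nat_lit 374) (nat_lit 338) (nat_lit 188)))) (XT.nd (nat_lit 78) (nat_lit 152) (nat_lit 0) (XT.lf (nat_lit 0) (nat_lit 25414970409) (nat_lit 304) (nat_lit 26142113951) (nat_lit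 76) (nat_lit 23387904716) (nat_lit 45) (nat_lit 5) (nat_lit 49) (nat_lit 5) (nat_lit 46) (nat_lit 5) (nat_lit 375) (nat_lit 338) (nat_lit 187)) (XT.nd (nat_lit 78) (nat_lit 0) (nat_lit 0) (XT.lf (nat_lit 0) (nat_lit 13381846063) (nat_lit 152) (nat_lit 27880399719) (nat_lit 228) (nat_lit 36163009974) (nat_lit 43) (nat_lit 5) (nat_lit 45) (nat_lit 5) (nat_lit 46) (nat_lit 5) (nat_lit 376) (nat_lit 338) (nat_lit 186)) (XT.lf (nat_lit 0) (nat_lit 55787184297) (nat_lit 152) (nat_lit 2555903840) (nat_lit 228) (nat_lit 21664388326) (nat_lit 43) (nat_lit 5) (nat_lit 45) (nat_lit 5) (nat_lit 46) (nat_lit 5) (nat_lit 377) (nat_lit 338) (nat_lit 185))))) (XT.nd (nat_lit 234) (nat_lit 152) (nat_lit 0) (XT.nd (nat_lit 78) (nat_lit 228) (nat_lit 0) (XT.lf (nat_lit 0) (nat_lit 17785621116) (nat_lit 152) (nat_lit 59143819053) (nat_lit 228) (nat_lit 5756795472) (nat_lit 41) (nat_lit 5) (nat_lit 43) (nat_lit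 5) (nat_lit 44) (nat_lit 5) (nat_lit 378) (nat_lit 338) (nat_lit 184)) (XT.nd (nat_lit 78) (nat_lit 152) (nat_lit 0) (XT.lf (nat_lit 0) (nat_lit 11053180394) (nat_lit 228) (nat_lit 22967615685) (nat_lit 76) (nat_lit 51446724942) (nat_lit 40) (nat_lit 5) (nat_lit 43) (nat_lit 5) (nat_lit 41) (nat_lit 5) (nat_lit 379) (nat_lit 338) (nat_lit 183)) (XT.lf (nat_lit 0) (nat_lit 21658612080) (nat_lit 152) (nat_lit 7188340590) (nat_lit 228) (nat_lit 59519361832) (nat_lit 38) (nat_lit 5) (nat_lit 40) (nat_lit 5) (nat_lit 41) (nat_lit 5) (nat_lit 380) (nat_lit 338) (nat_lit 182)))) (XT.nd (nat_lit 78) (nat_lit 152) (nat_lit 0) (XT.lf (nat_lit 0) (nat_lit 48252033901) (nat_lit 228) (nat_lit 22413363716) (nat_lit 76) (nat_lit 20708569693) (nat_lit 38) (nat_lit 5) (nat_lit 41) (nat_lit 5) (nat_lit 39) (nat_lit 5) (nat_lit 381) (nat_lit 338) (nat_lit 181)) (XT.nd (nat_lit 78) (nat_lit 0) (nat_lit 0)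 (XT.lf (nat_lit 0) (nat_lit 24768426281) (nat_lit 152) (nat_lit 44362184306) (nat_lit 228) (nat_lit 25376230739) (nat_lit 36) (nat_lit 5) (nat_lit 38) (nat_lit 5) (nat_lit 39) (nat_lit 5) (nat_lit 382) (nat_lit 338) (nat_lit 180)) (XT.lf (nat_lit 0) (nat_lit 75085313811) (nat_lit 152) (nat_lit 16346107480) (nat_lit 228) (nat_lit 6346023099) (nat_lit 36) (nat_lit 5) (nat_lit 38) (nat_lit 5) (nat_lit 39) (nat_lit 5) (nat_lit 383) (nat_lit 338) (nat_lit 179))))))) (XT.nd (nat_lit 936) (nat_lit 532) (nat_lit 0) (XT.nd (nat_lit 468) (nat_lit 456) (nat_lit 0) (XT.nd (nat_lit 234) (nat_lit 152) (nat_lit 0) (XT.nd (nat_lit 78) (nat_lit 152) (nat_lit 0) (XT.lf (nat_lit 0) (nat_lit 13839867121) (nat_lit 152) (nat_lit 74026751956) (nat_lit 76) (nat_lit 13302284530) (nat_lit 34) (nat_lit 5) (nat_lit 36) (nat_lit 5) (nat_lit 35) (nat_lit 5) (nat_lit 384) (nat_lit 338) (nat_lit 178)) (XT.nd (nat_lit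 78) (nat_lit 152) (nat_lit 0) (XT.lf (nat_lit 0) (nat_lit 35479133413) (nat_lit 152) (nat_lit 24835143035) (nat_lit 76) (nat_lit 44377590727) (nat_lit 34) (nat_lit 5) (nat_lit 36) (nat_lit 5) (nat_lit 35) (nat_lit 5) (nat_lit 385) (nat_lit 338) (nat_lit 177)) (XT.lf (nat_lit 0) (nat_lit 27700651888) (nat_lit 152) (nat_lit 30931032438) (nat_lit 228) (nat_lit 49737729029) (nat_lit 32) (nat_lit 5) (nat_lit 34) (nat_lit 5) (nat_lit 35) (nat_lit 5) (nat_lit 386) (nat_lit 338) (nat_lit 176)))) (XT.nd (nat_lit 78) (nat_lit 152) (nat_lit 0) (XT.lf (nat_lit 0) (nat_lit 83366973975) (nat_lit 228) (nat_lit 28492018737) (nat_lit 76) (nat_lit 350589048) (nat_lit 32) (nat_lit 5) (nat_lit 35) (nat_lit 5) (nat_lit 33) (nat_lit 4) (nat_lit 387) (nat_lit 338) (nat_lit 175)) (XT.nd (nat_lit 78) (nat_lit 76) (nat_lit 0) (XT.lf (nat_lit 0) (nat_lit 26637144406) (nat_lit 76) (nat_lit 83623733706) (nat_lit 152)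 (nat_lit 5934788425) (nat_lit 31) (nat_lit 5) (nat_lit 32) (nat_lit 5) (nat_lit 33) (nat_lit 4) (nat_lit 388) (nat_lit 338) (nat_lit 174)) (XT.lf (nat_lit 0) (nat_lit 18027863993) (nat_lit 152) (nat_lit 35137685954) (nat_lit 76) (nat_lit 67176894812) (nat_lit 30) (nat_lit 5) (nat_lit 32) (nat_lit 5) (nat_lit 31) (nat_lit 5) (nat_lit 389) (nat_lit 338) (nat_lit 173))))) (XT.nd (nat_lit 234) (nat_lit 228) (nat_lit 0) (XT.nd (nat_lit 78) (nat_lit 76) (nat_lit 0) (XT.lf (nat_lit 0) (nat_lit 22629360947) (nat_lit 152) (nat_lit 20712108358) (nat_lit 228) (nat_lit 81332614994) (nat_lit 28) (nat_lit 5) (nat_lit 30) (nat_lit 5) (nat_lit 31) (nat_lit 5) (nat_lit 390) (nat_lit 338) (nat_lit 172)) (XT.nd (nat_lit 78) (nat_lit 76) (nat_lit 0) (XT.lf (nat_lit 0) (nat_lit 70733203297) (nat_lit 228) (nat_lit 44908125902) (nat_lit 76) (nat_lit 13540354570) (nat_lit 28) (nat_lit 5) (nat_lit 31) (nat_lit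 5) (nat_lit 29) (nat_lit 4) (nat_lit 391) (nat_lit 338) (nat_lit 171)) (XT.lf (nat_lit 0) (nat_lit 15231519361) (nat_lit 76) (nat_lit 84839372963) (nat_lit 152) (nat_lit 33814952826) (nat_lit 27) (nat_lit 5) (nat_lit 28) (nat_lit 5) (nat_lit 29) (nat_lit 4) (nat_lit 392) (nat_lit 338) (nat_lit 170)))) (XT.nd (nat_lit 78) (nat_lit 228) (nat_lit 0) (XT.lf (nat_lit 0) (nat_lit 79935540684) (nat_lit 76) (nat_lit 51699504779) (nat_lit 152) (nat_lit 7152190491) (nat_lit 27) (nat_lit 5) (nat_lit 28) (nat_lit 5) (nat_lit 29) (nat_lit 4) (nat_lit 393) (nat_lit 338) (nat_lit 169)) (XT.nd (nat_lit 78) (nat_lit 0) (nat_lit 0) (XT.lf (nat_lit 0) (nat_lit 3733467990) (nat_lit 152) (nat_lit 16500472247) (nat_lit 228) (nat_lit 123680616974) (nat_lit 24) (nat_lit 5) (nat_lit 26) (nat_lit 5) (nat_lit 27) (nat_lit 5) (nat_lit 394) (nat_lit 338) (nat_lit 168)) (XT.lf (nat_lit 0) (nat_lit 50080529392) (nat_lit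 228) (nat_lit 78211997894) (nat_lit 76) (nat_lit 20933279466) (nat_lit 24) (nat_lit 5) (nat_lit 27) (nat_lit 5) (nat_lit 25) (nat_lit 4) (nat_lit 395) (nat_lit 338) (nat_lit 167)))))) (XT.nd (nat_lit 468) (nat_lit 228) (nat_lit 0) (XT.nd (nat_lit 234) (nat_lit 228) (nat_lit 0) (XT.nd (nat_lit 78) (nat_lit 76) (nat_lit 0) (XT.lf (nat_lit 0) (nat_lit 81689068213) (nat_lit 228) (nat_lit 13416543988) (nat_lit 76) (nat_lit 59683525836) (nat_lit 24) (nat_lit 5) (nat_lit 27) (nat_lit 5) (nat_lit 25) (nat_lit 4) (nat_lit 396) (nat_lit 338) (nat_lit 166)) (XT.nd (nat_lit 78) (nat_lit 0) (nat_lit 0) (XT.lf (nat_lit 0) (nat_lit 56423056165) (nat_lit 76) (nat_lit 59335062380) (nat_lit 152) (nat_lit 44828513379) (nat_lit 23) (nat_lit 5) (nat_lit 24) (nat_lit 5) (nat_lit 25) (nat_lit 4) (nat_lit 397) (nat_lit 338) (nat_lit 165)) (XT.lf (nat_lit 0) (nat_lit 130218936288) (nat_lit 76) (nat_lit 21538079890)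 (nat_lit 152) (nat_lit 14905664839) (nat_lit 23) (nat_lit 5) (nat_lit 24) (nat_lit 5) (nat_lit 25) (nat_lit 4) (nat_lit 398) (nat_lit 338) (nat_lit 164)))) (XT.nd (nat_lit 78) (nat_lit 76) (nat_lit 0) (XT.lf (nat_lit 0) (nat_lit 16835551462) (nat_lit 152) (nat_lit 137758279816) (nat_lit 76) (nat_lit 18393272805) (nat_lit 21) (nat_lit 5) (nat_lit 23) (nat_lit 5) (nat_lit 22) (nat_lit 4) (nat_lit 399) (nat_lit 338) (nat_lit 163)) (XT.nd (nat_lit 78) (nat_lit 76) (nat_lit 0) (XT.lf (nat_lit 0) (nat_lit 50642504839) (nat_lit 152) (nat_lit 68455632155) (nat_lit 76) (nat_lit 60468413553) (nat_lit 21) (nat_lit 5) (nat_lit 23) (nat_lit 5) (nat_lit 22) (nat_lit 4) (nat_lit 400) (nat_lit 338) (nat_lit 162)) (XT.lf (nat_lit 0) (nat_lit 4453297047) (nat_lit 76) (nat_lit 81755285572) (nat_lit 152) (nat_lit 100262948084) (nat_lit 20) (nat_lit 5) (nat_lit 21) (nat_lit 5) (nat_lit 22) (nat_lit 4) (nat_lit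 401) (nat_lit 338) (nat_lit 161))))) (XT.nd (nat_lit 234) (nat_lit 152) (nat_lit 0) (XT.nd (nat_lit 78) (nat_lit 76) (nat_lit 0) (XT.lf (nat_lit 0) (nat_lit 83382935849) (nat_lit 76) (nat_lit 41328620517) (nat_lit 152) (nat_lit 68952274096) (nat_lit 20) (nat_lit 5) (nat_lit 21) (nat_lit 5) (nat_lit 22) (nat_lit 4) (nat_lit 402) (nat_lit 338) (nat_lit 160)) (XT.nd (nat_lit 78) (nat_lit 76) (nat_lit 0) (XT.lf (nat_lit 0) (nat_lit 165156444062) (nat_lit 152) (nat_lit 34975488229) (nat_lit 0) (nat_lit 1082974842) (nat_lit 20) (nat_lit 5) (nat_lit 22) (nat_lit 4) (nat_lit 20) (nat_lit 4) (nat_lit 403) (nat_lit 338) (nat_lit 159)) (XT.lf (nat_lit 0) (nat_lit 44851952708) (nat_lit 76) (nat_lit 164148728995) (nat_lit 76) (nat_lit 74000836) (nat_lit 19) (nat_lit 4) (nat_lit 20) (nat_lit 5) (nat_lit 20) (nat_lit 4) (nat_lit 404) (nat_lit 338) (nat_lit 158)))) (XT.nd (nat_lit 78) (nat_lit 76) (nat_lit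 0) (XT.lf (nat_lit 0) (nat_lit 37104100555) (nat_lit 152) (nat_lit 88012521008) (nat_lit 76) (nat_lit 92151319549) (nat_lit 18) (nat_lit 5) (nat_lit 20) (nat_lit 5) (nat_lit 19) (nat_lit 4) (nat_lit 405) (nat_lit 338) (nat_lit 157)) (XT.nd (nat_lit 78) (nat_lit 76) (nat_lit 0) (XT.lf (nat_lit 0) (nat_lit 76137976636) (nat_lit 152) (nat_lit 7994216936) (nat_lit 76) (nat_lit 141738640714) (nat_lit 18) (nat_lit 5) (nat_lit 20) (nat_lit 5) (nat_lit 19) (nat_lit 4) (nat_lit 406) (nat_lit 338) (nat_lit 156)) (XT.lf (nat_lit 0) (nat_lit 78537549577) (nat_lit 76) (nat_lit 39811575367) (nat_lit 152) (nat_lit 116493468401) (nat_lit 17) (nat_lit 5) (nat_lit 18) (nat_lit 5) (nat_lit 19) (nat_lit 4) (nat_lit 407) (nat_lit 338) (nat_lit 155))))))))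
noncomputable def xc194 : XT := (XT.nd (nat_lit 41574) (nat_lit 0) (nat_lit 4560) (XT.nd (nat_lit 858) (nat_lit 304) (nat_lit 0) (XT.nd (nat_lit 390) (nat_lit 152) (nat_lit 0) (XT.nd (nat_lit 156) (nat_lit 152) (nat_lit 0) (XT.nd (nat_lit 78) (nat_lit 76) (nat_lit 0) (XT.lf (nat_lit 0) (nat_lit 162912823862) (nat_lit 152) (nat_lit 74691090535) (nat_lit 0) (nat_lit 6646926441) (nat_lit 17) (nat_lit 5) (nat_lit 19) (nat_lit 4) (nat_lit 17) (nat_lit 4) (nat_lit 408) (nat_lit 338) (nat_lit 154)) (XT.lf (nat_lit 0) (nat_lit 10692029626) (nat_lit 76) (nat_lit 199831679014) (nat_lit 76) (nat_lit 43564842154) (nat_lit 16) (nat_lit 4) (nat_lit 17) (nat_lit 5) (nat_lit 17) (nat_lit 4) (nat_lit 409) (nat_lit 338) (nat_lit 153))) (XT.nd (nat_lit 78) (nat_lit 152) (nat_lit 0) (XT.lf (nat_lit 0) (nat_lit 102936335765) (nat_lit 76) (nat_lit 158843162083) (nat_lit 76) (nat_lit 2575430518) (nat_lit 16)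 (nat_lit 4) (nat_lit 17) (nat_lit 5) (nat_lit 17) (nat_lit 4) (nat_lit 410) (nat_lit 338) (nat_lit 152)) (XT.nd (nat_lit 78) (nat_lit 76) (nat_lit 0) (XT.lf (nat_lit 0) (nat_lit 39167817088) (nat_lit 152) (nat_lit 75974558632) (nat_lit 76) (nat_lit 159960689389) (nat_lit 15) (nat_lit 5) (nat_lit 17) (nat_lit 5) (nat_lit 16) (nat_lit 4) (nat_lit 411) (nat_lit 338) (nat_lit 151)) (XT.lf (nat_lit 0) (nat_lit 14151396451) (nat_lit 76) (nat_lit 68980697030) (nat_lit 152) (nat_lit 203243383422) (nat_lit 14) (nat_lit 5) (nat_lit 15) (nat_lit 5) (nat_lit 16) (nat_lit 4) (nat_lit 412) (nat_lit 338) (nat_lit 150))))) (XT.nd (nat_lit 234) (nat_lit 152) (nat_lit 0) (XT.nd (nat_lit 78) (nat_lit 0) (nat_lit 0) (XT.lf (nat_lit 0) (nat_lit 111420336961) (nat_lit 76) (nat_lit 19160397198) (nat_lit 152) (nat_lit 167566467711) (nat_lit 14) (nat_lit 5) (nat_lit 15) (nat_lit 5) (nat_lit 16) (nat_lit 4) (nat_lit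 413) (nat_lit 338) (nat_lit 149)) (XT.nd (nat_lit 78) (nat_lit 0) (nat_lit 0) (XT.lf (nat_lit 0) (nat_lit 180918887827) (nat_lit 152) (nat_lit 97473315998) (nat_lit 0) (nat_lit 32089455311) (nat_lit 14) (nat_lit 5) (nat_lit 16) (nat_lit 4) (nat_lit 14) (nat_lit 4) (nat_lit 414) (nat_lit 338) (nat_lit 148)) (XT.lf (nat_lit 0) (nat_lit 234087579980) (nat_lit 152) (nat_lit 4072098018) (nat_lit 0) (nat_lit 85257479822) (nat_lit 14) (nat_lit 5) (nat_lit 16) (nat_lit 4) (nat_lit 14) (nat_lit 4) (nat_lit 415) (nat_lit 338) (nat_lit 147)))) (XT.nd (nat_lit 78) (nat_lit 76) (nat_lit 0) (XT.lf (nat_lit 0) (nat_lit 97106329360) (nat_lit 76) (nat_lit 194324027827) (nat_lit 76) (nat_lit 45493291820) (nat_lit 13) (nat_lit 4) (nat_lit 14) (nat_lit 5) (nat_lit 14) (nat_lit 4) (nat_lit 416) (nat_lit 338) (nat_lit 146)) (XT.nd (nat_lit 78) (nat_lit 0) (nat_lit 0) (XT.lf (nat_lit 0) (nat_lit 587334216) (nat_lit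 152) (nat_lit 147627306432) (nat_lit 76) (nat_lit 202886924547) (nat_lit 12) (nat_lit 5) (nat_lit 14) (nat_lit 5) (nat_lit 13) (nat_lit 4) (nat_lit 417) (nat_lit 338) (nat_lit 145)) (XT.lf (nat_lit 0) (nat_lit 47442689527) (nat_lit 152) (nat_lit 51574404779) (nat_lit 76) (nat_lit 266934014838) (nat_lit 12) (nat_lit 5) (nat_lit 14) (nat_lit 5) (nat_lit 13) (nat_lit 4) (nat_lit 418) (nat_lit 338) (nat_lit 144)))))) (XT.nd (nat_lit 468) (nat_lit 152) (nat_lit 0) (XT.nd (nat_lit 234) (nat_lit 76) (nat_lit 0) (XT.nd (nat_lit 78) (nat_lit 0) (nat_lit 0) (XT.lf (nat_lit 0) (nat_lit 50909791749) (nat_lit 76) (nat_lit 46525456704) (nat_lit 152) (nat_lit 284068160118) (nat_lit 11) (nat_lit 5) (nat_lit 12) (nat_lit 5) (nat_lit 13) (nat_lit 4) (nat_lit 419) (nat_lit 338) (nat_lit 143)) (XT.nd (nat_lit 78) (nat_lit 0) (nat_lit 0) (XT.lf (nat_lit 0) (nat_lit 150948910401) (nat_lit 152) (nat_lit 237630133913)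 (nat_lit 0) (nat_lit 9203204975) (nat_lit 11) (nat_lit 5) (nat_lit 13) (nat_lit 4) (nat_lit 11) (nat_lit 4) (nat_lit 420) (nat_lit 338) (nat_lit 142)) (XT.lf (nat_lit 0) (nat_lit 207900580272) (nat_lit 152) (nat_lit 140781935231) (nat_lit 0) (nat_lit 66154400365) (nat_lit 11) (nat_lit 5) (nat_lit 13) (nat_lit 4) (nat_lit 11) (nat_lit 4) (nat_lit 421) (nat_lit 338) (nat_lit 141)))) (XT.nd (nat_lit 78) (nat_lit 76) (nat_lit 0) (XT.lf (nat_lit 0) (nat_lit 267699464514) (nat_lit 152) (nat_lit 39092037060) (nat_lit 0) (nat_lit 125952832721) (nat_lit 11) (nat_lit 5) (nat_lit 13) (nat_lit 4) (nat_lit 11) (nat_lit 4) (nat_lit 422) (nat_lit 338) (nat_lit 140)) (XT.nd (nat_lit 78) (nat_lit 0) (nat_lit 0) (XT.lf (nat_lit 0) (nat_lit 69919541382) (nat_lit 76) (nat_lit 261660040031) (nat_lit 76) (nat_lit 119912977870) (nat_lit 10) (nat_lit 4) (nat_lit 11) (nat_lit 5) (nat_lit 11) (nat_lit 4) (nat_lit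 423) (nat_lit 338) (nat_lit 139)) (XT.lf (nat_lit 0) (nat_lit 185738220299) (nat_lit 76) (nat_lit 213577181224) (nat_lit 76) (nat_lit 71829709188) (nat_lit 10) (nat_lit 4) (nat_lit 11) (nat_lit 5) (nat_lit 11) (nat_lit 4) (nat_lit 424) (nat_lit 338) (nat_lit 138))))) (XT.nd (nat_lit 234) (nat_lit 0) (nat_lit 0) (XT.nd (nat_lit 78) (nat_lit 152) (nat_lit 0) (XT.lf (nat_lit 0) (nat_lit 307347199161) (nat_lit 76) (nat_lit 163090484718) (nat_lit 76) (nat_lit 21342622326) (nat_lit 10) (nat_lit 4) (nat_lit 11) (nat_lit 5) (nat_lit 11) (nat_lit 4) (nat_lit 425) (nat_lit 338) (nat_lit 137)) (XT.nd (nat_lit 78) (nat_lit 76) (nat_lit 0) (XT.lf (nat_lit 0) (nat_lit 30654900610) (nat_lit 152) (nat_lit 78905687908) (nat_lit 76) (nat_lit 403861966968) (nat_lit 9) (nat_lit 5) (nat_lit 11) (nat_lit 5) (nat_lit 10) (nat_lit 4) (nat_lit 426) (nat_lit 338) (nat_lit 136)) (XT.lf (nat_lit 0) (nat_lit 32590745386)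 (nat_lit 76) (nat_lit 52452831985) (nat_lit 152) (nat_lit 451060419469) (nat_lit 8) (nat_lit 5) (nat_lit 9) (nat_lit 5) (nat_lit 10) (nat_lit 4) (nat_lit 427) (nat_lit 338) (nat_lit 135)))) (XT.nd (nat_lit 78) (nat_lit 0) (nat_lit 0) (XT.lf (nat_lit 0) (nat_lit 143626855628) (nat_lit 152) (nat_lit 407591017268) (nat_lit 0) (nat_lit 8627879028) (nat_lit 8) (nat_lit 5) (nat_lit 10) (nat_lit 4) (nat_lit 8) (nat_lit 4) (nat_lit 428) (nat_lit 338) (nat_lit 134)) (XT.nd (nat_lit 39858) (nat_lit 0) (nat_lit 6992) (XT.lf (nat_lit 0) (nat_lit 205998892645) (nat_lit 152) (nat_lit 307733112227) (nat_lit 0) (nat_lit 70999610191) (nat_lit 8) (nat_lit 5) (nat_lit 10) (nat_lit 4) (nat_lit 8) (nat_lit 4) (nat_lit 429) (nat_lit 338) (nat_lit 133)) (XT.lf (nat_lit 0) (nat_lit 907912861) (nat_lit 836) (nat_lit 6391816111) (nat_lit 836) (nat_lit 6391816111) (nat_lit 100) (nat_lit 3) (nat_lit 111) (nat_lit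 3) (nat_lit 111) (nat_lit 5) (nat_lit 339) (nat_lit 339) (nat_lit 222))))))) (XT.nd (nat_lit 936) (nat_lit 2052) (nat_lit 0) (XT.nd (nat_lit 468) (nat_lit 380) (nat_lit 0) (XT.nd (nat_lit 234) (nat_lit 0) (nat_lit 152) (XT.nd (nat_lit 78) (nat_lit 0) (nat_lit 76) (XT.lf (nat_lit 76) (nat_lit 177968818) (nat_lit 0) (nat_lit 1770766367) (nat_lit 836) (nat_lit 26114467099) (nat_lit 101) (nat_lit 5) (nat_lit 100) (nat_lit 3) (nat_lit 111) (nat_lit 5) (nat_lit 340) (nat_lit 339) (nat_lit 221)) (XT.nd (nat_lit 78) (nat_lit 0) (nat_lit 0) (XT.lf (nat_lit 0) (nat_lit 2485565382) (nat_lit 760) (nat_lit 14724498755) (nat_lit 836) (nat_lit 11547397831) (nat_lit 101) (nat_lit 5) (nat_lit 111) (nat_lit 5) (nat_lit 112) (nat_lit 5) (nat_lit 341) (nat_lit 339) (nat_lit 220)) (XT.lf (nat_lit 0) (nat_lit 3073093986) (nat_lit 760) (nat_lit 937864295) (nat_lit 836) (nat_lit 25474288964) (nat_lit 101) (nat_lit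 5) (nat_lit 111) (nat_lit 5) (nat_lit 112) (nat_lit 5) (nat_lit 342) (nat_lit 339) (nat_lit 219)))) (XT.nd (nat_lit 78) (nat_lit 0) (nat_lit 0) (XT.lf (nat_lit 0) (nat_lit 4060747996) (nat_lit 760) (nat_lit 16413449060) (nat_lit 836) (nat_lit 9756692472) (nat_lit 102) (nat_lit 5) (nat_lit 112) (nat_lit 5) (nat_lit 113) (nat_lit 5) (nat_lit 343) (nat_lit 339) (nat_lit 218)) (XT.nd (nat_lit 78) (nat_lit 0) (nat_lit 76) (XT.lf (nat_lit 0) (nat_lit 5174973493) (nat_lit 760) (nat_lit 1739145110) (nat_lit 836) (nat_lit 24095840830) (nat_lit 102) (nat_lit 5) (nat_lit 112) (nat_lit 5) (nat_lit 113) (nat_lit 5) (nat_lit 344) (nat_lit 339) (nat_lit 217)) (XT.lf (nat_lit 0) (nat_lit 6678826769) (nat_lit 760) (nat_lit 17817477057) (nat_lit 836) (nat_lit 7314987895) (nat_lit 103) (nat_lit 5) (nat_lit 113) (nat_lit 5) (nat_lit 114) (nat_lit 5) (nat_lit 345) (nat_lit 339) (nat_lit 216))))) (XT.nd (nat_lit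 234) (nat_lit 608) (nat_lit 0) (XT.nd (nat_lit 78) (nat_lit 0) (nat_lit 76) (XT.lf (nat_lit 0) (nat_lit 8396858830) (nat_lit 760) (nat_lit 2194468678) (nat_lit 836) (nat_lit 22054418293) (nat_lit 103) (nat_lit 5) (nat_lit 113) (nat_lit 5) (nat_lit 114) (nat_lit 5) (nat_lit 346) (nat_lit 339) (nat_lit 215)) (XT.nd (nat_lit 78) (nat_lit 0) (nat_lit 0) (XT.lf (nat_lit 0) (nat_lit 10492202381) (nat_lit 760) (nat_lit 18900681603) (nat_lit 836) (nat_lit 4114472381) (nat_lit 104) (nat_lit 5) (nat_lit 114) (nat_lit 5) (nat_lit 115) (nat_lit 5) (nat_lit 347) (nat_lit 339) (nat_lit 214)) (XT.lf (nat_lit 0) (nat_lit 12899785566) (nat_lit 760) (nat_lit 2263600411) (nat_lit 836) (nat_lit 19238291925) (nat_lit 104) (nat_lit 5) (nat_lit 114) (nat_lit 5) (nat_lit 115) (nat_lit 5) (nat_lit 348) (nat_lit 339) (nat_lit 213)))) (XT.nd (nat_lit 78) (nat_lit 760) (nat_lit 0) (XT.lf (nat_lit 0) (nat_lit 15669760607)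 (nat_lit 760) (nat_lit 19624295989) (nat_lit 76) (nat_lit 34562161) (nat_lit 105) (nat_lit 5) (nat_lit 115) (nat_lit 5) (nat_lit 106) (nat_lit 5) (nat_lit 349) (nat_lit 339) (nat_lit 212)) (XT.nd (nat_lit 78) (nat_lit 760) (nat_lit 0) (XT.lf (nat_lit 0) (nat_lit 18862175640) (nat_lit 760) (nat_lit 1903194723) (nat_lit 76) (nat_lit 15522342922) (nat_lit 105) (nat_lit 5) (nat_lit 115) (nat_lit 5) (nat_lit 106) (nat_lit 5) (nat_lit 350) (nat_lit 339) (nat_lit 211)) (XT.lf (nat_lit 0) (nat_lit 17253096553) (nat_lit 760) (nat_lit 5227053134) (nat_lit 836) (nat_lit 14801319453) (nat_lit 95) (nat_lit 5) (nat_lit 105) (nat_lit 5) (nat_lit 106) (nat_lit 5) (nat_lit 351) (nat_lit 339) (nat_lit 210)))))) (XT.nd (nat_lit 468) (nat_lit 912) (nat_lit 0) (XT.nd (nat_lit 234) (nat_lit 456) (nat_lit 0) (XT.nd (nat_lit 78) (nat_lit 684) (nat_lit 0) (XT.lf (nat_lit 0) (nat_lit 26481589740) (nat_lit 836) (nat_lit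 1066866138) (nat_lit 76) (nat_lit 10766331892) (nat_lit 95) (nat_lit 5) (nat_lit 106) (nat_lit 5) (nat_lit 96) (nat_lit 5) (nat_lit 352) (nat_lit 339) (nat_lit 209)) (XT.nd (nat_lit 78) (nat_lit 304) (nat_lit 0) (XT.lf (nat_lit 0) (nat_lit 19374073787) (nat_lit 380) (nat_lit 11694048447) (nat_lit 456) (nat_lit 8312402264) (nat_lit 90) (nat_lit 5) (nat_lit 95) (nat_lit 5) (nat_lit 96) (nat_lit 5) (nat_lit 353) (nat_lit 339) (nat_lit 208)) (XT.lf (nat_lit 0) (nat_lit 304419859) (nat_lit 304) (nat_lit 35676961554) (nat_lit 380) (nat_lit 4513299685) (nat_lit 86) (nat_lit 5) (nat_lit 90) (nat_lit 5) (nat_lit 91) (nat_lit 5) (nat_lit 354) (nat_lit 339) (nat_lit 207)))) (XT.nd (nat_lit 78) (nat_lit 380) (nat_lit 0) (XT.lf (nat_lit 0) (nat_lit 25613326) (nat_lit 380) (nat_lit 19514469334) (nat_lit 76) (nat_lit 22098221051) (nat_lit 85) (nat_lit 5) (nat_lit 90) (nat_lit 5) (nat_lit 86) (nat_lit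 5) (nat_lit 355) (nat_lit 339) (nat_lit 206)) (XT.nd (nat_lit 78) (nat_lit 0) (nat_lit 0) (XT.lf (nat_lit 0) (nat_lit 2188106952) (nat_lit 380) (nat_lit 2482991283) (nat_lit 456) (nat_lit 38162747281) (nat_lit 80) (nat_lit 5) (nat_lit 85) (nat_lit 5) (nat_lit 86) (nat_lit 5) (nat_lit 356) (nat_lit 339) (nat_lit 205)) (XT.lf (nat_lit 0) (nat_lit 10122846155) (nat_lit 456) (nat_lit 18668743533) (nat_lit 76) (nat_lit 15268877783) (nat_lit 80) (nat_lit 5) (nat_lit 86) (nat_lit 5) (nat_lit 81) (nat_lit 5) (nat_lit 357) (nat_lit 339) (nat_lit 204))))) (XT.nd (nat_lit 234) (nat_lit 304) (nat_lit 0) (XT.nd (nat_lit 78) (nat_lit 304) (nat_lit 0) (XT.lf (nat_lit 0) (nat_lit 4507681854) (nat_lit 304) (nat_lit 11447940003) (nat_lit 380) (nat_lit 29387379026) (nat_lit 76) (nat_lit 5) (nat_lit 80) (nat_lit 5) (nat_lit 81) (nat_lit 5) (nat_lit 358) (nat_lit 339) (nat_lit 203)) (XT.nd (nat_lit 78) (nat_lit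 304) (nat_lit 0) (XT.lf (nat_lit 0) (nat_lit 22504403327) (nat_lit 380) (nat_lit 17296623191) (nat_lit 76) (nat_lit 6867418366) (nat_lit 76) (nat_lit 5) (nat_lit 81) (nat_lit 5) (nat_lit 77) (nat_lit 5) (nat_lit 359) (nat_lit 339) (nat_lit 202)) (XT.lf (nat_lit 0) (nat_lit 7467421513) (nat_lit 304) (nat_lit 22215015221) (nat_lit 380) (nat_lit 18362635864) (nat_lit 72) (nat_lit 5) (nat_lit 76) (nat_lit 5) (nat_lit 77) (nat_lit 5) (nat_lit 360) (nat_lit 339) (nat_lit 201)))) (XT.nd (nat_lit 78) (nat_lit 304) (nat_lit 0) (XT.lf (nat_lit 0) (nat_lit 34067296330) (nat_lit 304) (nat_lit 3442628128) (nat_lit 380) (nat_lit 11966081664) (nat_lit 72) (nat_lit 5) (nat_lit 76) (nat_lit 5) (nat_lit 77) (nat_lit 5) (nat_lit 361) (nat_lit 339) (nat_lit 200)) (XT.nd (nat_lit 78) (nat_lit 76) (nat_lit 0) (XT.lf (nat_lit 0) (nat_lit 11117675976) (nat_lit 228) (nat_lit 35036415260) (nat_lit 304) (nat_lit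 4803131810) (nat_lit 69) (nat_lit 5) (nat_lit 72) (nat_lit 5) (nat_lit 73) (nat_lit 5) (nat_lit 362) (nat_lit 339) (nat_lit 199)) (XT.lf (nat_lit 0) (nat_lit 2950400108) (nat_lit 304) (nat_lit 13100138724) (nat_lit 76) (nat_lit 36443870685) (nat_lit 68) (nat_lit 5) (nat_lit 72) (nat_lit 5) (nat_lit 69) (nat_lit 5) (nat_lit 363) (nat_lit 339) (nat_lit 198))))))))
noncomputable def xc195 : XT := (XT.nd (nat_lit 1794) (nat_lit 1368) (nat_lit 0) (XT.nd (nat_lit 858) (nat_lit 1140) (nat_lit 0) (XT.nd (nat_lit 390) (nat_lit 684) (nat_lit 0) (XT.nd (nat_lit 156) (nat_lit 456) (nat_lit 0) (XT.nd (nat_lit 78) (nat_lit 0) (nat_lit 0) (XT.lf (nat_lit 0) (nat_lit 11234164569) (nat_lit 380) (nat_lit 38771232201) (nat_lit 76) (nat_lit 4083924604) (nat_lit 64) (nat_lit 5) (nat_lit 69) (nat_lit 5) (nat_lit 65) (nat_lit 5) (nat_lit 364) (nat_lit 339) (nat_lit 197)) (XT.lf (nat_lit 0) (nat_lit 20418649848)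 (nat_lit 380) (nat_lit 10410398427) (nat_lit 76) (nat_lit 24910605530) (nat_lit 64) (nat_lit 5) (nat_lit 69) (nat_lit 5) (nat_lit 65) (nat_lit 5) (nat_lit 365) (nat_lit 339) (nat_lit 196))) (XT.nd (nat_lit 78) (nat_lit 228) (nat_lit 0) (XT.lf (nat_lit 0) (nat_lit 20006143745) (nat_lit 228) (nat_lit 10366581727) (nat_lit 304) (nat_lit 27084260615) (nat_lit 61) (nat_lit 5) (nat_lit 64) (nat_lit 5) (nat_lit 65) (nat_lit 5) (nat_lit 366) (nat_lit 339) (nat_lit 195)) (XT.nd (nat_lit 78) (nat_lit 228) (nat_lit 0) (XT.lf (nat_lit 0) (nat_lit 41175356420) (nat_lit 304) (nat_lit 7125619763) (nat_lit 76) (nat_lit 10941667685) (nat_lit 61) (nat_lit 5) (nat_lit 65) (nat_lit 5) (nat_lit 62) (nat_lit 5) (nat_lit 367) (nat_lit 339) (nat_lit 194)) (XT.lf (nat_lit 0) (nat_lit 25354863028) (nat_lit 228) (nat_lit 27727210109) (nat_lit 304) (nat_lit 8007315079) (nat_lit 58) (nat_lit 5) (nat_lit 61) (nat_lit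 5) (nat_lit 62) (nat_lit 5) (nat_lit 368) (nat_lit 339) (nat_lit 193))))) (XT.nd (nat_lit 234) (nat_lit 152) (nat_lit 0) (XT.nd (nat_lit 78) (nat_lit 456) (nat_lit 0) (XT.lf (nat_lit 0) (nat_lit 2594680655) (nat_lit 304) (nat_lit 3360151147) (nat_lit 76) (nat_lit 57065603110) (nat_lit 57) (nat_lit 5) (nat_lit 61) (nat_lit 5) (nat_lit 58) (nat_lit 5) (nat_lit 369) (nat_lit 339) (nat_lit 192)) (XT.nd (nat_lit 78) (nat_lit 228) (nat_lit 0) (XT.lf (nat_lit 0) (nat_lit 14222012980) (nat_lit 304) (nat_lit 33783472736) (nat_lit 76) (nat_lit 16997769300) (nat_lit 54) (nat_lit 5) (nat_lit 58) (nat_lit 5) (nat_lit 55) (nat_lit 5) (nat_lit 370) (nat_lit 339) (nat_lit 191)) (XT.lf (nat_lit 0) (nat_lit 477216359) (nat_lit 228) (nat_lit 26114693778) (nat_lit 304) (nat_lit 40485247222) (nat_lit 51) (nat_lit 5) (nat_lit 54) (nat_lit 5) (nat_lit 55) (nat_lit 5) (nat_lit 371) (nat_lit 339) (nat_lit 190))))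 (XT.nd (nat_lit 78) (nat_lit 152) (nat_lit 0) (XT.lf (nat_lit 0) (nat_lit 37621363293) (nat_lit 228) (nat_lit 2529410032) (nat_lit 304) (nat_lit 29075459025) (nat_lit 51) (nat_lit 5) (nat_lit 54) (nat_lit 5) (nat_lit 55) (nat_lit 5) (nat_lit 372) (nat_lit 339) (nat_lit 189)) (XT.nd (nat_lit 78) (nat_lit 0) (nat_lit 0) (XT.lf (nat_lit 0) (nat_lit 4948781671) (nat_lit 152) (nat_lit 49861614518) (nat_lit 228) (nat_lit 16651225115) (nat_lit 49) (nat_lit 5) (nat_lit 51) (nat_lit 5) (nat_lit 52) (nat_lit 5) (nat_lit 373) (nat_lit 339) (nat_lit 188)) (XT.lf (nat_lit 0) (nat_lit 44382152864) (nat_lit 152) (nat_lit 26395326507) (nat_lit 228) (nat_lit 3002577364) (nat_lit 49) (nat_lit 5) (nat_lit 51) (nat_lit 5) (nat_lit 52) (nat_lit 5) (nat_lit 374) (nat_lit 339) (nat_lit 187)))))) (XT.nd (nat_lit 468) (nat_lit 456) (nat_lit 0) (XT.nd (nat_lit 234) (nat_lit 228) (nat_lit 0) (XT.nd (nat_lit 78) (nat_lit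 152) (nat_lit 0) (XT.lf (nat_lit 0) (nat_lit 9704190926) (nat_lit 228) (nat_lit 1411726184) (nat_lit 304) (nat_lit 65082154382) (nat_lit 45) (nat_lit 5) (nat_lit 48) (nat_lit 5) (nat_lit 49) (nat_lit 5) (nat_lit 375) (nat_lit 339) (nat_lit 186)) (XT.nd (nat_lit 78) (nat_lit 152) (nat_lit 0) (XT.lf (nat_lit 0) (nat_lit 26731497297) (nat_lit 304) (nat_lit 27377322513) (nat_lit 76) (nat_lit 24581103536) (nat_lit 45) (nat_lit 5) (nat_lit 49) (nat_lit 5) (nat_lit 46) (nat_lit 5) (nat_lit 376) (nat_lit 339) (nat_lit 185)) (XT.lf (nat_lit 0) (nat_lit 14121675871) (nat_lit 152) (nat_lit 29248385056) (nat_lit 228) (nat_lit 37924197459) (nat_lit 43) (nat_lit 5) (nat_lit 45) (nat_lit 5) (nat_lit 46) (nat_lit 5) (nat_lit 377) (nat_lit 339) (nat_lit 184)))) (XT.nd (nat_lit 78) (nat_lit 228) (nat_lit 0) (XT.lf (nat_lit 0) (nat_lit 58643912564) (nat_lit 152) (nat_lit 2658904129) (nat_lit 228) (nat_lit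 22702881063) (nat_lit 43) (nat_lit 5) (nat_lit 45) (nat_lit 5) (nat_lit 46) (nat_lit 5) (nat_lit 378) (nat_lit 339) (nat_lit 183)) (XT.nd (nat_lit 78) (nat_lit 76) (nat_lit 0) (XT.lf (nat_lit 0) (nat_lit 18742921564) (nat_lit 152) (nat_lit 62074968078) (nat_lit 228) (nat_lit 6000536218) (nat_lit 41) (nat_lit 5) (nat_lit 43) (nat_lit 5) (nat_lit 44) (nat_lit 5) (nat_lit 379) (nat_lit 339) (nat_lit 182)) (XT.lf (nat_lit 0) (nat_lit 11646494255) (nat_lit 228) (nat_lit 24049851282) (nat_lit 76) (nat_lit 54042498213) (nat_lit 40) (nat_lit 5) (nat_lit 43) (nat_lit 5) (nat_lit 41) (nat_lit 5) (nat_lit 380) (nat_lit 339) (nat_lit 181))))) (XT.nd (nat_lit 234) (nat_lit 152) (nat_lit 0) (XT.nd (nat_lit 78) (nat_lit 152) (nat_lit 0) (XT.lf (nat_lit 0) (nat_lit 22806621013) (nat_lit 152) (nat_lit 7522414242) (nat_lit 228) (nat_lit 62453588624) (nat_lit 38) (nat_lit 5) (nat_lit 40) (nat_lit 5) (nat_lit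 41) (nat_lit 5) (nat_lit 381) (nat_lit 339) (nat_lit 180)) (XT.nd (nat_lit 78) (nat_lit 152) (nat_lit 0) (XT.lf (nat_lit 0) (nat_lit 50702855247) (nat_lit 228) (nat_lit 23470518573) (nat_lit 76) (nat_lit 21767362207) (nat_lit 38) (nat_lit 5) (nat_lit 41) (nat_lit 5) (nat_lit 39) (nat_lit 5) (nat_lit 382) (nat_lit 339) (nat_lit 179)) (XT.lf (nat_lit 0) (nat_lit 26069336515) (nat_lit 152) (nat_lit 46555179896) (nat_lit 228) (nat_lit 26605780440) (nat_lit 36) (nat_lit 5) (nat_lit 38) (nat_lit 5) (nat_lit 39) (nat_lit 5) (nat_lit 383) (nat_lit 339) (nat_lit 178)))) (XT.nd (nat_lit 78) (nat_lit 152) (nat_lit 0) (XT.lf (nat_lit 0) (nat_lit 78899092759) (nat_lit 152) (nat_lit 17139495115) (nat_lit 228) (nat_lit 6625932030) (nat_lit 36) (nat_lit 5) (nat_lit 38) (nat_lit 5) (nat_lit 39) (nat_lit 5) (nat_lit 384) (nat_lit 339) (nat_lit 177)) (XT.nd (nat_lit 78) (nat_lit 0) (nat_lit 0) (XT.lf (nat_lit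 0) (nat_lit 14567645186) (nat_lit 152) (nat_lit 77666937300) (nat_lit 76) (nat_lit 13990961710) (nat_lit 34) (nat_lit 5) (nat_lit 36) (nat_lit 5) (nat_lit 35) (nat_lit 5) (nat_lit 385) (nat_lit 339) (nat_lit 176)) (XT.lf (nat_lit 0) (nat_lit 37287170759) (nat_lit 152) (nat_lit 26018659945) (nat_lit 76) (nat_lit 46618911171) (nat_lit 34) (nat_lit 5) (nat_lit 36) (nat_lit 5) (nat_lit 35) (nat_lit 5) (nat_lit 386) (nat_lit 339) (nat_lit 175))))))) (XT.nd (nat_lit 936) (nat_lit 532) (nat_lit 0) (XT.nd (nat_lit 468) (nat_lit 380) (nat_lit 0) (XT.nd (nat_lit 234) (nat_lit 228) (nat_lit 0) (XT.nd (nat_lit 78) (nat_lit 76) (nat_lit 0) (XT.lf (nat_lit 0) (nat_lit 29142985366) (nat_lit 152) (nat_lit 32453635589) (nat_lit 228) (nat_lit 52189581517) (nat_lit 32) (nat_lit 5) (nat_lit 34) (nat_lit 5) (nat_lit 35) (nat_lit 5) (nat_lit 387) (nat_lit 339) (nat_lit 174)) (XT.nd (nat_lit 78) (nat_lit 76)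 (nat_lit 0) (XT.lf (nat_lit 0) (nat_lit 87567442974) (nat_lit 228) (nat_lit 29860802025) (nat_lit 76) (nat_lit 390196567) (nat_lit 32) (nat_lit 5) (nat_lit 35) (nat_lit 5) (nat_lit 33) (nat_lit 4) (nat_lit 388) (nat_lit 339) (nat_lit 173)) (XT.lf (nat_lit 0) (nat_lit 28023918990) (nat_lit 76) (nat_lit 87781451204) (nat_lit 152) (nat_lit 6198494626) (nat_lit 31) (nat_lit 5) (nat_lit 32) (nat_lit 5) (nat_lit 33) (nat_lit 4) (nat_lit 389) (nat_lit 339) (nat_lit 172)))) (XT.nd (nat_lit 78) (nat_lit 152) (nat_lit 0) (XT.lf (nat_lit 0) (nat_lit 18959710479) (nat_lit 152) (nat_lit 36841249618) (nat_lit 76) (nat_lit 70557072776) (nat_lit 30) (nat_lit 5) (nat_lit 32) (nat_lit 5) (nat_lit 31) (nat_lit 5) (nat_lit 390) (nat_lit 339) (nat_lit 171)) (XT.nd (nat_lit 78) (nat_lit 0) (nat_lit 0) (XT.lf (nat_lit 0) (nat_lit 23813289618) (nat_lit 152) (nat_lit 21725075340) (nat_lit 228) (nat_lit 85367921534)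 (nat_lit 28) (nat_lit 5) (nat_lit 30) (nat_lit 5) (nat_lit 31) (nat_lit 5) (nat_lit 391) (nat_lit 339) (nat_lit 170)) (XT.lf (nat_lit 0) (nat_lit 74298602163) (nat_lit 228) (nat_lit 47102475818) (nat_lit 76) (nat_lit 14238242646) (nat_lit 28) (nat_lit 5) (nat_lit 31) (nat_lit 5) (nat_lit 29) (nat_lit 4) (nat_lit 392) (nat_lit 339) (nat_lit 169))))) (XT.nd (nat_lit 234) (nat_lit 76) (nat_lit 0) (XT.nd (nat_lit 78) (nat_lit 228) (nat_lit 0) (XT.lf (nat_lit 0) (nat_lit 16043328217) (nat_lit 76) (nat_lit 89059263191) (nat_lit 152) (nat_lit 35476128376) (nat_lit 27) (nat_lit 5) (nat_lit 28) (nat_lit 5) (nat_lit 29) (nat_lit 4) (nat_lit 393) (nat_lit 339) (nat_lit 168)) (XT.nd (nat_lit 78) (nat_lit 228) (nat_lit 0) (XT.lf (nat_lit 0) (nat_lit 83980158564) (nat_lit 76) (nat_lit 54263452951) (nat_lit 152) (nat_lit 7481636120) (nat_lit 27) (nat_lit 5) (nat_lit 28) (nat_lit 5) (nat_lit 29) (nat_lit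 4) (nat_lit 394) (nat_lit 339) (nat_lit 167)) (XT.lf (nat_lit 0) (nat_lit 3968106325) (nat_lit 152) (nat_lit 17304244053) (nat_lit 228) (nat_lit 129836590486) (nat_lit 24) (nat_lit 5) (nat_lit 26) (nat_lit 5) (nat_lit 27) (nat_lit 5) (nat_lit 395) (nat_lit 339) (nat_lit 166)))) (XT.nd (nat_lit 78) (nat_lit 76) (nat_lit 0) (XT.lf (nat_lit 0) (nat_lit 52610312937) (nat_lit 228) (nat_lit 82075952700) (nat_lit 76) (nat_lit 21999535454) (nat_lit 24) (nat_lit 5) (nat_lit 27) (nat_lit 5) (nat_lit 25) (nat_lit 4) (nat_lit 396) (nat_lit 339) (nat_lit 165)) (XT.nd (nat_lit 78) (nat_lit 76) (nat_lit 0) (XT.lf (nat_lit 0) (nat_lit 85798052172) (nat_lit 228) (nat_lit 14042947294) (nat_lit 76) (nat_lit 62686361190) (nat_lit 24) (nat_lit 5) (nat_lit 27) (nat_lit 5) (nat_lit 25) (nat_lit 4) (nat_lit 397) (nat_lit 339) (nat_lit 164)) (XT.lf (nat_lit 0) (nat_lit 59287916353) (nat_lit 76) (nat_lit 62282152941)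 (nat_lit 152) (nat_lit 47044684598) (nat_lit 23) (nat_lit 5) (nat_lit 24) (nat_lit 5) (nat_lit 25) (nat_lit 4) (nat_lit 398) (nat_lit 339) (nat_lit 163)))))) (XT.nd (nat_lit 468) (nat_lit 304) (nat_lit 0) (XT.nd (nat_lit 234) (nat_lit 76) (nat_lit 0) (XT.nd (nat_lit 78) (nat_lit 152) (nat_lit 0) (XT.lf (nat_lit 0) (nat_lit 136771509178) (nat_lit 76) (nat_lit 22596257639) (nat_lit 152) (nat_lit 15626896224) (nat_lit 23) (nat_lit 5) (nat_lit 24) (nat_lit 5) (nat_lit 25) (nat_lit 4) (nat_lit 399) (nat_lit 339) (nat_lit 162)) (XT.nd (nat_lit 78) (nat_lit 0) (nat_lit 0) (XT.lf (nat_lit 0) (nat_lit 17700448746) (nat_lit 152) (nat_lit 144603622505) (nat_lit 76) (nat_lit 19331225669) (nat_lit 21) (nat_lit 5) (nat_lit 23) (nat_lit 5) (nat_lit 22) (nat_lit 4) (nat_lit 400) (nat_lit 339) (nat_lit 161)) (XT.lf (nat_lit 0) (nat_lit 53196648853) (nat_lit 152) (nat_lit 71837869665) (nat_lit 76) (nat_lit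 63509252540) (nat_lit 21) (nat_lit 5) (nat_lit 23) (nat_lit 5) (nat_lit 22) (nat_lit 4) (nat_lit 401) (nat_lit 339) (nat_lit 160)))) (XT.nd (nat_lit 78) (nat_lit 0) (nat_lit 0) (XT.lf (nat_lit 0) (nat_lit 4715852060) (nat_lit 76) (nat_lit 85824752747) (nat_lit 152) (nat_lit 105253416991) (nat_lit 20) (nat_lit 5) (nat_lit 21) (nat_lit 5) (nat_lit 22) (nat_lit 4) (nat_lit 402) (nat_lit 339) (nat_lit 159)) (XT.nd (nat_lit 78) (nat_lit 0) (nat_lit 0) (XT.lf (nat_lit 0) (nat_lit 87590073270) (nat_lit 76) (nat_lit 43377625729) (nat_lit 152) (nat_lit 72378289232) (nat_lit 20) (nat_lit 5) (nat_lit 21) (nat_lit 5) (nat_lit 22) (nat_lit 4) (nat_lit 403) (nat_lit 339) (nat_lit 158)) (XT.lf (nat_lit 0) (nat_lit 173434110914) (nat_lit 152) (nat_lit 36687355673) (nat_lit 0) (nat_lit 1153188420) (nat_lit 20) (nat_lit 5) (nat_lit 22) (nat_lit 4) (nat_lit 20) (nat_lit 4) (nat_lit 404) (nat_lit 339) (nat_lit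 157))))) (XT.nd (nat_lit 234) (nat_lit 152) (nat_lit 0) (XT.nd (nat_lit 78) (nat_lit 76) (nat_lit 0) (XT.lf (nat_lit 0) (nat_lit 47130862037) (nat_lit 76) (nat_lit 172339320344) (nat_lit 76) (nat_lit 57255955) (nat_lit 19) (nat_lit 4) (nat_lit 20) (nat_lit 5) (nat_lit 20) (nat_lit 4) (nat_lit 405) (nat_lit 339) (nat_lit 156)) (XT.nd (nat_lit 78) (nat_lit 0) (nat_lit 0) (XT.lf (nat_lit 0) (nat_lit 38978153733) (nat_lit 152) (nat_lit 92377936753) (nat_lit 76) (nat_lit 96774300740) (nat_lit 18) (nat_lit 5) (nat_lit 20) (nat_lit 5) (nat_lit 19) (nat_lit 4) (nat_lit 406) (nat_lit 339) (nat_lit 155)) (XT.lf (nat_lit 0) (nat_lit 79962826087) (nat_lit 152) (nat_lit 8360394159) (nat_lit 76) (nat_lit 148840253905) (nat_lit 18) (nat_lit 5) (nat_lit 20) (nat_lit 5) (nat_lit 19) (nat_lit 4) (nat_lit 407) (nat_lit 339) (nat_lit 154)))) (XT.nd (nat_lit 78) (nat_lit 76) (nat_lit 0) (XT.lf (nat_lit 0) (nat_lit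 82497419816) (nat_lit 76) (nat_lit 41786772313) (nat_lit 152) (nat_lit 122299646224) (nat_lit 17) (nat_lit 5) (nat_lit 18) (nat_lit 5) (nat_lit 19) (nat_lit 4) (nat_lit 408) (nat_lit 339) (nat_lit 153)) (XT.nd (nat_lit 78) (nat_lit 76) (nat_lit 0) (XT.lf (nat_lit 0) (nat_lit 171075466094) (nat_lit 152) (nat_lit 78393609570) (nat_lit 0) (nat_lit 6993453247) (nat_lit 17) (nat_lit 5) (nat_lit 19) (nat_lit 4) (nat_lit 17) (nat_lit 4) (nat_lit 409) (nat_lit 339) (nat_lit 152)) (XT.lf (nat_lit 0) (nat_lit 11258149898) (nat_lit 76) (nat_lit 209808427737) (nat_lit 76) (nat_lit 45725562790) (nat_lit 16) (nat_lit 4) (nat_lit 17) (nat_lit 5) (nat_lit 17) (nat_lit 4) (nat_lit 410) (nat_lit 339) (nat_lit 151))))))))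
noncomputable def xc196 : XT := (XT.nd (nat_lit 41652) (nat_lit 0) (nat_lit 4028) (XT.nd (nat_lit 858) (nat_lit 228) (nat_lit 0) (XT.nd (nat_lit 390) (nat_lit 228) (nat_lit 0) (XT.nd (nat_lit 156) (nat_lit 76) (nat_lit 0) (XT.nd (nat_lit 78) (nat_lit 76) (nat_lit 0) (XT.lf (nat_lit 0) (nat_lit 108113170448) (nat_lit 76) (nat_lit 166771191398) (nat_lit 76) (nat_lit 2687514929) (nat_lit 16) (nat_lit 4) (nat_lit 17) (nat_lit 5) (nat_lit 17) (nat_lit 4) (nat_lit 411) (nat_lit 339) (nat_lit 150)) (XT.lf (nat_lit 0) (nat_lit 41141591774) (nat_lit 152) (nat_lit 79744186210) (nat_lit 76) (nat_lit 167971667966) (nat_lit 15) (nat_lit 5) (nat_lit 17) (nat_lit 5) (nat_lit 16) (nat_lit 4) (nat_lit 412) (nat_lit 339) (nat_lit 149))) (XT.nd (nat_lit 78) (nat_lit 0) (nat_lit 0) (XT.lf (nat_lit 0) (nat_lit 14887597267) (nat_lit 76) (nat_lit 72416199166) (nat_lit 152) (nat_lit 213389696332) (nat_lit 14)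 (nat_lit 5) (nat_lit 15) (nat_lit 5) (nat_lit 16) (nat_lit 4) (nat_lit 413) (nat_lit 339) (nat_lit 148)) (XT.nd (nat_lit 78) (nat_lit 0) (nat_lit 0) (XT.lf (nat_lit 0) (nat_lit 117018621421) (nat_lit 76) (nat_lit 20105528758) (nat_lit 152) (nat_lit 175929689895) (nat_lit 14) (nat_lit 5) (nat_lit 15) (nat_lit 5) (nat_lit 16) (nat_lit 4) (nat_lit 414) (nat_lit 339) (nat_lit 147)) (XT.lf (nat_lit 0) (nat_lit 189978718442) (nat_lit 152) (nat_lit 102320516770) (nat_lit 0) (nat_lit 33705809785) (nat_lit 14) (nat_lit 5) (nat_lit 16) (nat_lit 4) (nat_lit 14) (nat_lit 4) (nat_lit 415) (nat_lit 339) (nat_lit 146))))) (XT.nd (nat_lit 234) (nat_lit 76) (nat_lit 0) (XT.nd (nat_lit 78) (nat_lit 152) (nat_lit 0) (XT.lf (nat_lit 0) (nat_lit 245805183954) (nat_lit 152) (nat_lit 4250498131) (nat_lit 0) (nat_lit 89531669726) (nat_lit 14) (nat_lit 5) (nat_lit 16) (nat_lit 4) (nat_lit 14) (nat_lit 4) (nat_lit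 416) (nat_lit 339) (nat_lit 145)) (XT.nd (nat_lit 78) (nat_lit 76) (nat_lit 0) (XT.lf (nat_lit 0) (nat_lit 101986444087) (nat_lit 76) (nat_lit 204028413344) (nat_lit 76) (nat_lit 47754322382) (nat_lit 13) (nat_lit 4) (nat_lit 14) (nat_lit 5) (nat_lit 14) (nat_lit 4) (nat_lit 417) (nat_lit 339) (nat_lit 144)) (XT.lf (nat_lit 0) (nat_lit 629270123) (nat_lit 152) (nat_lit 154984636479) (nat_lit 76) (nat_lit 213042106104) (nat_lit 12) (nat_lit 5) (nat_lit 14) (nat_lit 5) (nat_lit 13) (nat_lit 4) (nat_lit 418) (nat_lit 339) (nat_lit 143)))) (XT.nd (nat_lit 78) (nat_lit 76) (nat_lit 0) (XT.lf (nat_lit 0) (nat_lit 49826794666) (nat_lit 152) (nat_lit 54130234280) (nat_lit 76) (nat_lit 280291034941) (nat_lit 12) (nat_lit 5) (nat_lit 14) (nat_lit 5) (nat_lit 13) (nat_lit 4) (nat_lit 419) (nat_lit 339) (nat_lit 142)) (XT.nd (nat_lit 78) (nat_lit 0) (nat_lit 0) (XT.lf (nat_lit 0) (nat_lit 53477802869)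 (nat_lit 76) (nat_lit 48840960262) (nat_lit 152) (nat_lit 298259226179) (nat_lit 11) (nat_lit 5) (nat_lit 12) (nat_lit 5) (nat_lit 13) (nat_lit 4) (nat_lit 420) (nat_lit 339) (nat_lit 141)) (XT.lf (nat_lit 0) (nat_lit 158507708677) (nat_lit 152) (nat_lit 249489790052) (nat_lit 0) (nat_lit 9673293408) (nat_lit 11) (nat_lit 5) (nat_lit 13) (nat_lit 4) (nat_lit 11) (nat_lit 4) (nat_lit 421) (nat_lit 339) (nat_lit 140)))))) (XT.nd (nat_lit 468) (nat_lit 76) (nat_lit 0) (XT.nd (nat_lit 234) (nat_lit 76) (nat_lit 0) (XT.nd (nat_lit 78) (nat_lit 76) (nat_lit 0) (XT.lf (nat_lit 0) (nat_lit 218306421434) (nat_lit 152) (nat_lit 147800221939) (nat_lit 0) (nat_lit 69471575797) (nat_lit 11) (nat_lit 5) (nat_lit 13) (nat_lit 4) (nat_lit 11) (nat_lit 4) (nat_lit 422) (nat_lit 339) (nat_lit 139)) (XT.nd (nat_lit 78) (nat_lit 76) (nat_lit 0) (XT.lf (nat_lit 0) (nat_lit 281094735024) (nat_lit 152) (nat_lit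 41026819815) (nat_lit 0) (nat_lit 132259479512) (nat_lit 11) (nat_lit 5) (nat_lit 13) (nat_lit 4) (nat_lit 11) (nat_lit 4) (nat_lit 423) (nat_lit 339) (nat_lit 138)) (XT.lf (nat_lit 0) (nat_lit 73435017887) (nat_lit 76) (nat_lit 274733653975) (nat_lit 76) (nat_lit 125898008108) (nat_lit 10) (nat_lit 4) (nat_lit 11) (nat_lit 5) (nat_lit 11) (nat_lit 4) (nat_lit 424) (nat_lit 339) (nat_lit 137)))) (XT.nd (nat_lit 78) (nat_lit 76) (nat_lit 0) (XT.lf (nat_lit 0) (nat_lit 195043702205) (nat_lit 76) (nat_lit 224247099278) (nat_lit 76) (nat_lit 75411081642) (nat_lit 10) (nat_lit 4) (nat_lit 11) (nat_lit 5) (nat_lit 11) (nat_lit 4) (nat_lit 425) (nat_lit 339) (nat_lit 136)) (XT.nd (nat_lit 78) (nat_lit 76) (nat_lit 0) (XT.lf (nat_lit 0) (nat_lit 322732245682) (nat_lit 76) (nat_lit 171236493709) (nat_lit 76) (nat_lit 22400122008) (nat_lit 10) (nat_lit 4) (nat_lit 11) (nat_lit 5) (nat_lit 11) (nat_lit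 4) (nat_lit 426) (nat_lit 339) (nat_lit 135)) (XT.lf (nat_lit 0) (nat_lit 32196524848) (nat_lit 152) (nat_lit 82833832965) (nat_lit 76) (nat_lit 424062880080) (nat_lit 9) (nat_lit 5) (nat_lit 11) (nat_lit 5) (nat_lit 10) (nat_lit 4) (nat_lit 427) (nat_lit 339) (nat_lit 134))))) (XT.nd (nat_lit 40092) (nat_lit 0) (nat_lit 6992) (XT.nd (nat_lit 78) (nat_lit 0) (nat_lit 0) (XT.lf (nat_lit 0) (nat_lit 34237145552) (nat_lit 76) (nat_lit 55067330352) (nat_lit 152) (nat_lit 473604283455) (nat_lit 8) (nat_lit 5) (nat_lit 9) (nat_lit 5) (nat_lit 10) (nat_lit 4) (nat_lit 428) (nat_lit 339) (nat_lit 133)) (XT.nd (nat_lit 39936) (nat_lit 0) (nat_lit 6992) (XT.lf (nat_lit 0) (nat_lit 150816623937) (nat_lit 152) (nat_lit 427954212816) (nat_lit 0) (nat_lit 9066780216) (nat_lit 8) (nat_lit 5) (nat_lit 10) (nat_lit 4) (nat_lit 8) (nat_lit 4) (nat_lit 429) (nat_lit 339) (nat_lit 132)) (XT.lf (nat_lit 0)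 (nat_lit 1036720777) (nat_lit 836) (nat_lit 6667571448) (nat_lit 836) (nat_lit 6667571448) (nat_lit 100) (nat_lit 3) (nat_lit 111) (nat_lit 3) (nat_lit 111) (nat_lit 5) (nat_lit 340) (nat_lit 340) (nat_lit 220)))) (XT.nd (nat_lit 78) (nat_lit 0) (nat_lit 76) (XT.lf (nat_lit 76) (nat_lit 273124150) (nat_lit 0) (nat_lit 1933275027) (nat_lit 836) (nat_lit 27251784143) (nat_lit 101) (nat_lit 5) (nat_lit 100) (nat_lit 3) (nat_lit 111) (nat_lit 5) (nat_lit 341) (nat_lit 340) (nat_lit 219)) (XT.nd (nat_lit 78) (nat_lit 0) (nat_lit 0) (XT.lf (nat_lit 0) (nat_lit 2761341125) (nat_lit 760) (nat_lit 15369684784) (nat_lit 836) (nat_lit 12056574552) (nat_lit 101) (nat_lit 5) (nat_lit 111) (nat_lit 5) (nat_lit 112) (nat_lit 5) (nat_lit 342) (nat_lit 340) (nat_lit 218)) (XT.lf (nat_lit 0) (nat_lit 3371031993) (nat_lit 760) (nat_lit 898053787) (nat_lit 836) (nat_lit 26683057536) (nat_lit 101) (nat_lit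 5) (nat_lit 111) (nat_lit 5) (nat_lit 112) (nat_lit 5) (nat_lit 343) (nat_lit 340) (nat_lit 217))))))) (XT.nd (nat_lit 936) (nat_lit 1900) (nat_lit 0) (XT.nd (nat_lit 468) (nat_lit 1216) (nat_lit 0) (XT.nd (nat_lit 234) (nat_lit 0) (nat_lit 76) (XT.nd (nat_lit 78) (nat_lit 0) (nat_lit 0) (XT.lf (nat_lit 0) (nat_lit 4401695589) (nat_lit 760) (nat_lit 17140899794) (nat_lit 836) (nat_lit 10192798232) (nat_lit 102) (nat_lit 5) (nat_lit 112) (nat_lit 5) (nat_lit 113) (nat_lit 5) (nat_lit 344) (nat_lit 340) (nat_lit 216)) (XT.nd (nat_lit 78) (nat_lit 0) (nat_lit 76) (XT.lf (nat_lit 0) (nat_lit 5565065209) (nat_lit 760) (nat_lit 1737319776) (nat_lit 836) (nat_lit 25251367287) (nat_lit 102) (nat_lit 5) (nat_lit 112) (nat_lit 5) (nat_lit 113) (nat_lit 5) (nat_lit 345) (nat_lit 340) (nat_lit 215)) (XT.lf (nat_lit 0) (nat_lit 7138610017) (nat_lit 760) (nat_lit 18613935778) (nat_lit 836) (nat_lit 7642887005)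 (nat_lit 103) (nat_lit 5) (nat_lit 113) (nat_lit 5) (nat_lit 114) (nat_lit 5) (nat_lit 346) (nat_lit 340) (nat_lit 214)))) (XT.nd (nat_lit 78) (nat_lit 0) (nat_lit 76) (XT.lf (nat_lit 0) (nat_lit 8936551209) (nat_lit 760) (nat_lit 2214272939) (nat_lit 836) (nat_lit 23121091318) (nat_lit 103) (nat_lit 5) (nat_lit 113) (nat_lit 5) (nat_lit 114) (nat_lit 5) (nat_lit 347) (nat_lit 340) (nat_lit 213)) (XT.nd (nat_lit 78) (nat_lit 0) (nat_lit 0) (XT.lf (nat_lit 0) (nat_lit 11131913669) (nat_lit 760) (nat_lit 19750929047) (nat_lit 836) (nat_lit 4294007215) (nat_lit 104) (nat_lit 5) (nat_lit 114) (nat_lit 5) (nat_lit 115) (nat_lit 5) (nat_lit 348) (nat_lit 340) (nat_lit 212)) (XT.lf (nat_lit 0) (nat_lit 13654395005) (nat_lit 760) (nat_lit 2286507446) (nat_lit 836) (nat_lit 20175264821) (nat_lit 104) (nat_lit 5) (nat_lit 114) (nat_lit 5) (nat_lit 115) (nat_lit 5) (nat_lit 349) (nat_lit 340) (nat_lit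 211))))) (XT.nd (nat_lit 234) (nat_lit 684) (nat_lit 0) (XT.nd (nat_lit 78) (nat_lit 760) (nat_lit 0) (XT.lf (nat_lit 0) (nat_lit 16558770525) (nat_lit 760) (nat_lit 20511031417) (nat_lit 76) (nat_lit 19863546) (nat_lit 105) (nat_lit 5) (nat_lit 115) (nat_lit 5) (nat_lit 106) (nat_lit 5) (nat_lit 350) (nat_lit 340) (nat_lit 210)) (XT.nd (nat_lit 78) (nat_lit 760) (nat_lit 0) (XT.lf (nat_lit 0) (nat_lit 19905781458) (nat_lit 760) (nat_lit 1908374105) (nat_lit 76) (nat_lit 16282815570) (nat_lit 105) (nat_lit 5) (nat_lit 115) (nat_lit 5) (nat_lit 106) (nat_lit 5) (nat_lit 351) (nat_lit 340) (nat_lit 209)) (XT.lf (nat_lit 0) (nat_lit 18204280439) (nat_lit 760) (nat_lit 5496970383) (nat_lit 836) (nat_lit 15439339032) (nat_lit 95) (nat_lit 5) (nat_lit 105) (nat_lit 5) (nat_lit 106) (nat_lit 5) (nat_lit 352) (nat_lit 340) (nat_lit 208)))) (XT.nd (nat_lit 78) (nat_lit 684) (nat_lit 0) (XT.lf (nat_lit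 0) (nat_lit 27898012020) (nat_lit 836) (nat_lit 1031051809) (nat_lit 76) (nat_lit 11296752800) (nat_lit 95) (nat_lit 5) (nat_lit 106) (nat_lit 5) (nat_lit 96) (nat_lit 5) (nat_lit 353) (nat_lit 340) (nat_lit 207)) (XT.nd (nat_lit 78) (nat_lit 304) (nat_lit 0) (XT.lf (nat_lit 0) (nat_lit 20430497087) (nat_lit 380) (nat_lit 12280346325) (nat_lit 456) (nat_lit 8634152615) (nat_lit 90) (nat_lit 5) (nat_lit 95) (nat_lit 5) (nat_lit 96) (nat_lit 5) (nat_lit 354) (nat_lit 340) (nat_lit 206)) (XT.lf (nat_lit 0) (nat_lit 410451372) (nat_lit 304) (nat_lit 37456455163) (nat_lit 380) (nat_lit 4648101107) (nat_lit 86) (nat_lit 5) (nat_lit 90) (nat_lit 5) (nat_lit 91) (nat_lit 5) (nat_lit 355) (nat_lit 340) (nat_lit 205)))))) (XT.nd (nat_lit 468) (nat_lit 836) (nat_lit 0) (XT.nd (nat_lit 234) (nat_lit 608) (nat_lit 0) (XT.nd (nat_lit 78) (nat_lit 380) (nat_lit 0) (XT.lf (nat_lit 0) (nat_lit 110661002)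 (nat_lit 380) (nat_lit 20400860042) (nat_lit 76) (nat_lit 23204432668) (nat_lit 85) (nat_lit 5) (nat_lit 90) (nat_lit 5) (nat_lit 86) (nat_lit 5) (nat_lit 356) (nat_lit 340) (nat_lit 204)) (XT.nd (nat_lit 78) (nat_lit 0) (nat_lit 0) (XT.lf (nat_lit 0) (nat_lit 2385404207) (nat_lit 380) (nat_lit 2600399283) (nat_lit 456) (nat_lit 39985603610) (nat_lit 80) (nat_lit 5) (nat_lit 85) (nat_lit 5) (nat_lit 86) (nat_lit 5) (nat_lit 357) (nat_lit 340) (nat_lit 203)) (XT.lf (nat_lit 0) (nat_lit 10706374747) (nat_lit 456) (nat_lit 19514640382) (nat_lit 76) (nat_lit 16038536712) (nat_lit 80) (nat_lit 5) (nat_lit 86) (nat_lit 5) (nat_lit 81) (nat_lit 5) (nat_lit 358) (nat_lit 340) (nat_lit 202)))) (XT.nd (nat_lit 78) (nat_lit 304) (nat_lit 0) (XT.lf (nat_lit 0) (nat_lit 4819194334) (nat_lit 304) (nat_lit 12009254544) (nat_lit 380) (nat_lit 30777883381) (nat_lit 76) (nat_lit 5) (nat_lit 80) (nat_lit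 5) (nat_lit 81) (nat_lit 5) (nat_lit 359) (nat_lit 340) (nat_lit 201)) (XT.nd (nat_lit 78) (nat_lit 304) (nat_lit 0) (XT.lf (nat_lit 0) (nat_lit 23701260595) (nat_lit 380) (nat_lit 18075955277) (nat_lit 76) (nat_lit 7221006190) (nat_lit 76) (nat_lit 5) (nat_lit 81) (nat_lit 5) (nat_lit 77) (nat_lit 5) (nat_lit 360) (nat_lit 340) (nat_lit 200)) (XT.lf (nat_lit 0) (nat_lit 7924912644) (nat_lit 304) (nat_lit 23311185088) (nat_lit 380) (nat_lit 19207691338) (nat_lit 72) (nat_lit 5) (nat_lit 76) (nat_lit 5) (nat_lit 77) (nat_lit 5) (nat_lit 361) (nat_lit 340) (nat_lit 199))))) (XT.nd (nat_lit 234) (nat_lit 532) (nat_lit 0) (XT.nd (nat_lit 78) (nat_lit 304) (nat_lit 0) (XT.lf (nat_lit 0) (nat_lit 35850775486) (nat_lit 304) (nat_lit 3600872968) (nat_lit 380) (nat_lit 12494789252) (nat_lit 72) (nat_lit 5) (nat_lit 76) (nat_lit 5) (nat_lit 77) (nat_lit 5) (nat_lit 362) (nat_lit 340) (nat_lit 198))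 (XT.nd (nat_lit 78) (nat_lit 76) (nat_lit 0) (XT.lf (nat_lit 0) (nat_lit 11755483024) (nat_lit 228) (nat_lit 36770872378) (nat_lit 304) (nat_lit 4975446212) (nat_lit 69) (nat_lit 5) (nat_lit 72) (nat_lit 5) (nat_lit 73) (nat_lit 5) (nat_lit 363) (nat_lit 340) (nat_lit 197)) (XT.lf (nat_lit 0) (nat_lit 3160463746) (nat_lit 304) (nat_lit 13675006015) (nat_lit 76) (nat_lit 38280483521) (nat_lit 68) (nat_lit 5) (nat_lit 72) (nat_lit 5) (nat_lit 69) (nat_lit 5) (nat_lit 364) (nat_lit 340) (nat_lit 196)))) (XT.nd (nat_lit 78) (nat_lit 228) (nat_lit 0) (XT.lf (nat_lit 0) (nat_lit 11856951008) (nat_lit 380) (nat_lit 40628141575) (nat_lit 76) (nat_lit 4305593781) (nat_lit 64) (nat_lit 5) (nat_lit 69) (nat_lit 5) (nat_lit 65) (nat_lit 5) (nat_lit 365) (nat_lit 340) (nat_lit 195)) (XT.nd (nat_lit 78) (nat_lit 228) (nat_lit 0) (XT.lf (nat_lit 0) (nat_lit 21497752065) (nat_lit 380) (nat_lit 10853154313)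 (nat_lit 76) (nat_lit 26172776708) (nat_lit 64) (nat_lit 5) (nat_lit 69) (nat_lit 5) (nat_lit 65) (nat_lit 5) (nat_lit 366) (nat_lit 340) (nat_lit 194)) (XT.lf (nat_lit 0) (nat_lit 21082960709) (nat_lit 228) (nat_lit 10864995306) (nat_lit 304) (nat_lit 28379006880) (nat_lit 61) (nat_lit 5) (nat_lit 64) (nat_lit 5) (nat_lit 65) (nat_lit 5) (nat_lit 367) (nat_lit 340) (nat_lit 193))))))))
noncomputable def xc197 : XT := (XT.nd (nat_lit 1794) (nat_lit 1292) (nat_lit 0) (XT.nd (nat_lit 858) (nat_lit 912) (nat_lit 0) (XT.nd (nat_lit 390) (nat_lit 608) (nat_lit 0) (XT.nd (nat_lit 156) (nat_lit 532) (nat_lit 0) (XT.nd (nat_lit 78) (nat_lit 228) (nat_lit 0) (XT.lf (nat_lit 0) (nat_lit 43288319675) (nat_lit 304) (nat_lit 7406594716) (nat_lit 76) (nat_lit 11507111151) (nat_lit 61) (nat_lit 5) (nat_lit 65) (nat_lit 5) (nat_lit 62) (nat_lit 5) (nat_lit 368) (nat_lit 340) (nat_lit 192)) (XT.lf (nat_lit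 0) (nat_lit 26696697601) (nat_lit 228) (nat_lit 29092250667) (nat_lit 304) (nat_lit 8352231979) (nat_lit 58) (nat_lit 5) (nat_lit 61) (nat_lit 5) (nat_lit 62) (nat_lit 5) (nat_lit 369) (nat_lit 340) (nat_lit 191))) (XT.nd (nat_lit 78) (nat_lit 456) (nat_lit 0) (XT.lf (nat_lit 0) (nat_lit 2775532921) (nat_lit 304) (nat_lit 3455870048) (nat_lit 76) (nat_lit 59937462578) (nat_lit 57) (nat_lit 5) (nat_lit 61) (nat_lit 5) (nat_lit 58) (nat_lit 5) (nat_lit 370) (nat_lit 340) (nat_lit 190)) (XT.nd (nat_lit 78) (nat_lit 228) (nat_lit 0) (XT.lf (nat_lit 0) (nat_lit 14983241079) (nat_lit 304) (nat_lit 35399333412) (nat_lit 76) (nat_lit 17868303381) (nat_lit 54) (nat_lit 5) (nat_lit 58) (nat_lit 5) (nat_lit 55) (nat_lit 5) (nat_lit 371) (nat_lit 340) (nat_lit 189)) (XT.lf (nat_lit 0) (nat_lit 573207671) (nat_lit 228) (nat_lit 27397164561) (nat_lit 304) (nat_lit 42458167740) (nat_lit 51) (nat_lit 5)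 (nat_lit 54) (nat_lit 5) (nat_lit 55) (nat_lit 5) (nat_lit 372) (nat_lit 340) (nat_lit 188))))) (XT.nd (nat_lit 234) (nat_lit 456) (nat_lit 0) (XT.nd (nat_lit 78) (nat_lit 152) (nat_lit 0) (XT.lf (nat_lit 0) (nat_lit 39571127166) (nat_lit 228) (nat_lit 2633724432) (nat_lit 304) (nat_lit 30480334984) (nat_lit 51) (nat_lit 5) (nat_lit 54) (nat_lit 5) (nat_lit 55) (nat_lit 5) (nat_lit 373) (nat_lit 340) (nat_lit 187)) (XT.nd (nat_lit 78) (nat_lit 0) (nat_lit 0) (XT.lf (nat_lit 0) (nat_lit 5265787492) (nat_lit 152) (nat_lit 52330867520) (nat_lit 228) (nat_lit 17435731449) (nat_lit 49) (nat_lit 5) (nat_lit 51) (nat_lit 5) (nat_lit 52) (nat_lit 5) (nat_lit 374) (nat_lit 340) (nat_lit 186)) (XT.lf (nat_lit 0) (nat_lit 46667514542) (nat_lit 152) (nat_lit 27692399762) (nat_lit 228) (nat_lit 3106939640) (nat_lit 49) (nat_lit 5) (nat_lit 51) (nat_lit 5) (nat_lit 52) (nat_lit 5) (nat_lit 375) (nat_lit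 340) (nat_lit 185)))) (XT.nd (nat_lit 78) (nat_lit 152) (nat_lit 0) (XT.lf (nat_lit 0) (nat_lit 10256052926) (nat_lit 228) (nat_lit 1458892838) (nat_lit 304) (nat_lit 68290842647) (nat_lit 45) (nat_lit 5) (nat_lit 48) (nat_lit 5) (nat_lit 49) (nat_lit 5) (nat_lit 376) (nat_lit 340) (nat_lit 184)) (XT.nd (nat_lit 78) (nat_lit 152) (nat_lit 0) (XT.lf (nat_lit 0) (nat_lit 28109594491) (nat_lit 304) (nat_lit 28680975817) (nat_lit 76) (nat_lit 25831749266) (nat_lit 45) (nat_lit 5) (nat_lit 49) (nat_lit 5) (nat_lit 46) (nat_lit 5) (nat_lit 377) (nat_lit 340) (nat_lit 183)) (XT.lf (nat_lit 0) (nat_lit 14891920667) (nat_lit 152) (nat_lit 30687190116) (nat_lit 228) (nat_lit 39777810495) (nat_lit 43) (nat_lit 5) (nat_lit 45) (nat_lit 5) (nat_lit 46) (nat_lit 5) (nat_lit 378) (nat_lit 340) (nat_lit 182)))))) (XT.nd (nat_lit 468) (nat_lit 380) (nat_lit 0) (XT.nd (nat_lit 234) (nat_lit 304) (nat_lit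 0) (XT.nd (nat_lit 78) (nat_lit 228) (nat_lit 0) (XT.lf (nat_lit 0) (nat_lit 61637213909) (nat_lit 152) (nat_lit 2769359627) (nat_lit 228) (nat_lit 23797456699) (nat_lit 43) (nat_lit 5) (nat_lit 45) (nat_lit 5) (nat_lit 46) (nat_lit 5) (nat_lit 379) (nat_lit 340) (nat_lit 181)) (XT.nd (nat_lit 78) (nat_lit 76) (nat_lit 0) (XT.lf (nat_lit 0) (nat_lit 19741763237) (nat_lit 152) (nat_lit 65155095686) (nat_lit 228) (nat_lit 6260563911) (nat_lit 41) (nat_lit 5) (nat_lit 43) (nat_lit 5) (nat_lit 44) (nat_lit 5) (nat_lit 380) (nat_lit 340) (nat_lit 180)) (XT.lf (nat_lit 0) (nat_lit 12265694107) (nat_lit 228) (nat_lit 25192348212) (nat_lit 76) (nat_lit 56765881195) (nat_lit 40) (nat_lit 5) (nat_lit 43) (nat_lit 5) (nat_lit 41) (nat_lit 5) (nat_lit 381) (nat_lit 340) (nat_lit 179)))) (XT.nd (nat_lit 78) (nat_lit 152) (nat_lit 0) (XT.lf (nat_lit 0) (nat_lit 24005980027) (nat_lit 152) (nat_lit 7875547764)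 (nat_lit 228) (nat_lit 65538407467) (nat_lit 38) (nat_lit 5) (nat_lit 40) (nat_lit 5) (nat_lit 41) (nat_lit 5) (nat_lit 382) (nat_lit 340) (nat_lit 178)) (XT.nd (nat_lit 78) (nat_lit 152) (nat_lit 0) (XT.lf (nat_lit 0) (nat_lit 53272664358) (nat_lit 228) (nat_lit 24586436041) (nat_lit 76) (nat_lit 22876922181) (nat_lit 38) (nat_lit 5) (nat_lit 41) (nat_lit 5) (nat_lit 39) (nat_lit 5) (nat_lit 383) (nat_lit 340) (nat_lit 177)) (XT.lf (nat_lit 0) (nat_lit 27429482633) (nat_lit 152) (nat_lit 48860160091) (nat_lit 228) (nat_lit 27900457819) (nat_lit 36) (nat_lit 5) (nat_lit 38) (nat_lit 5) (nat_lit 39) (nat_lit 5) (nat_lit 384) (nat_lit 340) (nat_lit 176))))) (XT.nd (nat_lit 234) (nat_lit 228) (nat_lit 0) (XT.nd (nat_lit 78) (nat_lit 152) (nat_lit 0) (XT.lf (nat_lit 0) (nat_lit 82898027675) (nat_lit 152) (nat_lit 17974775776) (nat_lit 228) (nat_lit 6923312781) (nat_lit 36) (nat_lit 5) (nat_lit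 38) (nat_lit 5) (nat_lit 39) (nat_lit 5) (nat_lit 385) (nat_lit 340) (nat_lit 175)) (XT.nd (nat_lit 78) (nat_lit 0) (nat_lit 0) (XT.lf (nat_lit 0) (nat_lit 15328485232) (nat_lit 152) (nat_lit 81494817267) (nat_lit 76) (nat_lit 14711882088) (nat_lit 34) (nat_lit 5) (nat_lit 36) (nat_lit 5) (nat_lit 35) (nat_lit 5) (nat_lit 386) (nat_lit 340) (nat_lit 174)) (XT.lf (nat_lit 0) (nat_lit 39182441474) (nat_lit 152) (nat_lit 27266767325) (nat_lit 76) (nat_lit 48970211294) (nat_lit 34) (nat_lit 5) (nat_lit 36) (nat_lit 5) (nat_lit 35) (nat_lit 5) (nat_lit 387) (nat_lit 340) (nat_lit 173)))) (XT.nd (nat_lit 78) (nat_lit 76) (nat_lit 0) (XT.lf (nat_lit 0) (nat_lit 30652108225) (nat_lit 152) (nat_lit 34054595400) (nat_lit 228) (nat_lit 54767283756) (nat_lit 32) (nat_lit 5) (nat_lit 34) (nat_lit 5) (nat_lit 35) (nat_lit 5) (nat_lit 388) (nat_lit 340) (nat_lit 172)) (XT.nd (nat_lit 78) (nat_lit 76)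 (nat_lit 0) (XT.lf (nat_lit 0) (nat_lit 91974949183) (nat_lit 228) (nat_lit 31303213874) (nat_lit 76) (nat_lit 429731852) (nat_lit 32) (nat_lit 5) (nat_lit 35) (nat_lit 5) (nat_lit 33) (nat_lit 4) (nat_lit 389) (nat_lit 340) (nat_lit 171)) (XT.lf (nat_lit 0) (nat_lit 29474926607) (nat_lit 76) (nat_lit 92149236520) (nat_lit 152) (nat_lit 6478457253) (nat_lit 31) (nat_lit 5) (nat_lit 32) (nat_lit 5) (nat_lit 33) (nat_lit 4) (nat_lit 390) (nat_lit 340) (nat_lit 170))))))) (XT.nd (nat_lit 936) (nat_lit 532) (nat_lit 0) (XT.nd (nat_lit 468) (nat_lit 228) (nat_lit 0) (XT.nd (nat_lit 234) (nat_lit 304) (nat_lit 0) (XT.nd (nat_lit 78) (nat_lit 152) (nat_lit 0) (XT.lf (nat_lit 0) (nat_lit 19935318031) (nat_lit 152) (nat_lit 38634948712) (nat_lit 76) (nat_lit 74104276278) (nat_lit 30) (nat_lit 5) (nat_lit 32) (nat_lit 5) (nat_lit 31) (nat_lit 5) (nat_lit 391) (nat_lit 340) (nat_lit 169)) (XT.nd (nat_lit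 78) (nat_lit 0) (nat_lit 0) (XT.lf (nat_lit 0) (nat_lit 25051537431) (nat_lit 152) (nat_lit 22790795378) (nat_lit 228) (nat_lit 89607905628) (nat_lit 28) (nat_lit 5) (nat_lit 30) (nat_lit 5) (nat_lit 31) (nat_lit 5) (nat_lit 392) (nat_lit 340) (nat_lit 168)) (XT.lf (nat_lit 0) (nat_lit 78039599121) (nat_lit 228) (nat_lit 49411289969) (nat_lit 76) (nat_lit 14969084799) (nat_lit 28) (nat_lit 5) (nat_lit 31) (nat_lit 5) (nat_lit 29) (nat_lit 4) (nat_lit 393) (nat_lit 340) (nat_lit 167)))) (XT.nd (nat_lit 78) (nat_lit 228) (nat_lit 0) (XT.lf (nat_lit 0) (nat_lit 16891057339) (nat_lit 76) (nat_lit 93492200572) (nat_lit 152) (nat_lit 37223112037) (nat_lit 27) (nat_lit 5) (nat_lit 28) (nat_lit 5) (nat_lit 29) (nat_lit 4) (nat_lit 394) (nat_lit 340) (nat_lit 166)) (XT.nd (nat_lit 78) (nat_lit 228) (nat_lit 0) (XT.lf (nat_lit 0) (nat_lit 88222559550) (nat_lit 76) (nat_lit 56957553429) (nat_lit 152)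 (nat_lit 7830172443) (nat_lit 27) (nat_lit 5) (nat_lit 28) (nat_lit 5) (nat_lit 29) (nat_lit 4) (nat_lit 395) (nat_lit 340) (nat_lit 165)) (XT.lf (nat_lit 0) (nat_lit 4210017251) (nat_lit 152) (nat_lit 18150180242) (nat_lit 228) (nat_lit 136302971178) (nat_lit 24) (nat_lit 5) (nat_lit 26) (nat_lit 5) (nat_lit 27) (nat_lit 5) (nat_lit 396) (nat_lit 340) (nat_lit 164))))) (XT.nd (nat_lit 234) (nat_lit 152) (nat_lit 0) (XT.nd (nat_lit 78) (nat_lit 76) (nat_lit 0) (XT.lf (nat_lit 0) (nat_lit 55264191011) (nat_lit 228) (nat_lit 86137441865) (nat_lit 76) (nat_lit 23117282762) (nat_lit 24) (nat_lit 5) (nat_lit 27) (nat_lit 5) (nat_lit 25) (nat_lit 4) (nat_lit 397) (nat_lit 340) (nat_lit 163)) (XT.nd (nat_lit 78) (nat_lit 76) (nat_lit 0) (XT.lf (nat_lit 0) (nat_lit 90110204711) (nat_lit 228) (nat_lit 14704800878) (nat_lit 76) (nat_lit 65837603568) (nat_lit 24) (nat_lit 5) (nat_lit 27) (nat_lit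 5) (nat_lit 25) (nat_lit 4) (nat_lit 398) (nat_lit 340) (nat_lit 162)) (XT.lf (nat_lit 0) (nat_lit 62291956052) (nat_lit 76) (nat_lit 65378426069) (nat_lit 152) (nat_lit 49374012298) (nat_lit 23) (nat_lit 5) (nat_lit 24) (nat_lit 5) (nat_lit 25) (nat_lit 4) (nat_lit 399) (nat_lit 340) (nat_lit 161)))) (XT.nd (nat_lit 78) (nat_lit 152) (nat_lit 0) (XT.lf (nat_lit 0) (nat_lit 143647840714) (nat_lit 76) (nat_lit 23709085265) (nat_lit 152) (nat_lit 16386425292) (nat_lit 23) (nat_lit 5) (nat_lit 24) (nat_lit 5) (nat_lit 25) (nat_lit 4) (nat_lit 400) (nat_lit 340) (nat_lit 160)) (XT.nd (nat_lit 78) (nat_lit 0) (nat_lit 0) (XT.lf (nat_lit 0) (nat_lit 18606441443) (nat_lit 152) (nat_lit 151795190204) (nat_lit 76) (nat_lit 20314375819) (nat_lit 21) (nat_lit 5) (nat_lit 23) (nat_lit 5) (nat_lit 22) (nat_lit 4) (nat_lit 401) (nat_lit 340) (nat_lit 159)) (XT.lf (nat_lit 0) (nat_lit 55876452971) (nat_lit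 152) (nat_lit 75392988457) (nat_lit 76) (nat_lit 66700514086) (nat_lit 21) (nat_lit 5) (nat_lit 23) (nat_lit 5) (nat_lit 22) (nat_lit 4) (nat_lit 402) (nat_lit 340) (nat_lit 158)))))) (XT.nd (nat_lit 468) (nat_lit 304) (nat_lit 0) (XT.nd (nat_lit 234) (nat_lit 152) (nat_lit 0) (XT.nd (nat_lit 78) (nat_lit 0) (nat_lit 0) (XT.lf (nat_lit 0) (nat_lit 4987826214) (nat_lit 76) (nat_lit 90099394372) (nat_lit 152) (nat_lit 110495517775) (nat_lit 20) (nat_lit 5) (nat_lit 21) (nat_lit 5) (nat_lit 22) (nat_lit 4) (nat_lit 403) (nat_lit 340) (nat_lit 157)) (XT.nd (nat_lit 78) (nat_lit 0) (nat_lit 0) (XT.lf (nat_lit 0) (nat_lit 92004035554) (nat_lit 76) (nat_lit 45530701290) (nat_lit 152) (nat_lit 75977613155) (nat_lit 20) (nat_lit 5) (nat_lit 21) (nat_lit 5) (nat_lit 22) (nat_lit 4) (nat_lit 404) (nat_lit 340) (nat_lit 156)) (XT.lf (nat_lit 0) (nat_lit 182123816142) (nat_lit 152) (nat_lit 38488247749)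 (nat_lit 0) (nat_lit 1225419121) (nat_lit 20) (nat_lit 5) (nat_lit 22) (nat_lit 4) (nat_lit 20) (nat_lit 4) (nat_lit 405) (nat_lit 340) (nat_lit 155)))) (XT.nd (nat_lit 78) (nat_lit 76) (nat_lit 0) (XT.lf (nat_lit 0) (nat_lit 49520340916) (nat_lit 76) (nat_lit 180941007358) (nat_lit 76) (nat_lit 41574606) (nat_lit 19) (nat_lit 4) (nat_lit 20) (nat_lit 5) (nat_lit 20) (nat_lit 4) (nat_lit 406) (nat_lit 340) (nat_lit 154)) (XT.nd (nat_lit 78) (nat_lit 0) (nat_lit 0) (XT.lf (nat_lit 0) (nat_lit 40944157247) (nat_lit 152) (nat_lit 96964896805) (nat_lit 76) (nat_lit 101626997830) (nat_lit 18) (nat_lit 5) (nat_lit 20) (nat_lit 5) (nat_lit 19) (nat_lit 4) (nat_lit 407) (nat_lit 340) (nat_lit 153)) (XT.lf (nat_lit 0) (nat_lit 83977249132) (nat_lit 152) (nat_lit 8747997881) (nat_lit 76) (nat_lit 156295582841) (nat_lit 18) (nat_lit 5) (nat_lit 20) (nat_lit 5) (nat_lit 19) (nat_lit 4) (nat_lit 408)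 (nat_lit 340) (nat_lit 152))))) (XT.nd (nat_lit 234) (nat_lit 152) (nat_lit 0) (XT.nd (nat_lit 78) (nat_lit 76) (nat_lit 0) (XT.lf (nat_lit 0) (nat_lit 86652216212) (nat_lit 76) (nat_lit 43862159163) (nat_lit 152) (nat_lit 128397852484) (nat_lit 17) (nat_lit 5) (nat_lit 18) (nat_lit 5) (nat_lit 19) (nat_lit 4) (nat_lit 409) (nat_lit 340) (nat_lit 151)) (XT.nd (nat_lit 78) (nat_lit 76) (nat_lit 0) (XT.lf (nat_lit 0) (nat_lit 179644659842) (nat_lit 152) (nat_lit 82284232913) (nat_lit 0) (nat_lit 7355988026) (nat_lit 17) (nat_lit 5) (nat_lit 19) (nat_lit 4) (nat_lit 17) (nat_lit 4) (nat_lit 410) (nat_lit 340) (nat_lit 150)) (XT.lf (nat_lit 0) (nat_lit 11849645864) (nat_lit 76) (nat_lit 220285393134) (nat_lit 76) (nat_lit 47995948439) (nat_lit 16) (nat_lit 4) (nat_lit 17) (nat_lit 5) (nat_lit 17) (nat_lit 4) (nat_lit 411) (nat_lit 340) (nat_lit 149)))) (XT.nd (nat_lit 78) (nat_lit 152) (nat_lit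 0) (XT.lf (nat_lit 0) (nat_lit 113546056087) (nat_lit 76) (nat_lit 175096935740) (nat_lit 76) (nat_lit 2806754970) (nat_lit 16) (nat_lit 4) (nat_lit 17) (nat_lit 5) (nat_lit 17) (nat_lit 4) (nat_lit 412) (nat_lit 340) (nat_lit 148)) (XT.nd (nat_lit 78) (nat_lit 76) (nat_lit 0) (XT.lf (nat_lit 0) (nat_lit 43212624951) (nat_lit 152) (nat_lit 83705000642) (nat_lit 76) (nat_lit 176381992052) (nat_lit 15) (nat_lit 5) (nat_lit 17) (nat_lit 5) (nat_lit 16) (nat_lit 4) (nat_lit 413) (nat_lit 340) (nat_lit 147)) (XT.lf (nat_lit 0) (nat_lit 15657946285) (nat_lit 76) (nat_lit 76024734553) (nat_lit 152) (nat_lit 224044799052) (nat_lit 14) (nat_lit 5) (nat_lit 15) (nat_lit 5) (nat_lit 16) (nat_lit 4) (nat_lit 414) (nat_lit 340) (nat_lit 146))))))))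
noncomputable def xc198 : XT := (XT.nd (nat_lit 41808) (nat_lit 0) (nat_lit 3192) (XT.nd (nat_lit 858) (nat_lit 76) (nat_lit 0) (XT.nd (nat_lit 390) (nat_lit 152) (nat_lit 0) (XT.nd (nat_lit 156) (nat_lit 152) (nat_lit 0) (XT.nd (nat_lit 78) (nat_lit 0) (nat_lit 0) (XT.lf (nat_lit 0) (nat_lit 122894285021) (nat_lit 76) (nat_lit 21099115128) (nat_lit 152) (nat_lit 184712477155) (nat_lit 14) (nat_lit 5) (nat_lit 15) (nat_lit 5) (nat_lit 16) (nat_lit 4) (nat_lit 415) (nat_lit 340) (nat_lit 145)) (XT.lf (nat_lit 0) (nat_lit 199490249578) (nat_lit 152) (nat_lit 107412538049) (nat_lit 0) (nat_lit 35401877334) (nat_lit 14) (nat_lit 5) (nat_lit 16) (nat_lit 4) (nat_lit 14) (nat_lit 4) (nat_lit 416) (nat_lit 340) (nat_lit 144))) (XT.nd (nat_lit 78) (nat_lit 152) (nat_lit 0) (XT.lf (nat_lit 0) (nat_lit 258107438594) (nat_lit 152) (nat_lit 4440161552) (nat_lit 0) (nat_lit 94018517079) (nat_lit 14)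 (nat_lit 5) (nat_lit 16) (nat_lit 4) (nat_lit 14) (nat_lit 4) (nat_lit 417) (nat_lit 340) (nat_lit 143)) (XT.nd (nat_lit 78) (nat_lit 76) (nat_lit 0) (XT.lf (nat_lit 0) (nat_lit 107108259043) (nat_lit 76) (nat_lit 214219116665) (nat_lit 76) (nat_lit 50129672035) (nat_lit 13) (nat_lit 4) (nat_lit 14) (nat_lit 5) (nat_lit 14) (nat_lit 4) (nat_lit 418) (nat_lit 340) (nat_lit 142)) (XT.lf (nat_lit 0) (nat_lit 672134260) (nat_lit 152) (nat_lit 162712067601) (nat_lit 76) (nat_lit 223704039372) (nat_lit 12) (nat_lit 5) (nat_lit 14) (nat_lit 5) (nat_lit 13) (nat_lit 4) (nat_lit 419) (nat_lit 340) (nat_lit 141))))) (XT.nd (nat_lit 234) (nat_lit 76) (nat_lit 0) (XT.nd (nat_lit 78) (nat_lit 76) (nat_lit 0) (XT.lf (nat_lit 0) (nat_lit 52328992143) (nat_lit 152) (nat_lit 56815983421) (nat_lit 76) (nat_lit 294314946652) (nat_lit 12) (nat_lit 5) (nat_lit 14) (nat_lit 5) (nat_lit 13) (nat_lit 4) (nat_lit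 420) (nat_lit 340) (nat_lit 140)) (XT.nd (nat_lit 78) (nat_lit 0) (nat_lit 0) (XT.lf (nat_lit 0) (nat_lit 56172120706) (nat_lit 76) (nat_lit 51273240223) (nat_lit 152) (nat_lit 313160992980) (nat_lit 11) (nat_lit 5) (nat_lit 12) (nat_lit 5) (nat_lit 13) (nat_lit 4) (nat_lit 421) (nat_lit 340) (nat_lit 139)) (XT.lf (nat_lit 0) (nat_lit 166443391395) (nat_lit 152) (nat_lit 261944460457) (nat_lit 0) (nat_lit 10165963234) (nat_lit 11) (nat_lit 5) (nat_lit 13) (nat_lit 4) (nat_lit 11) (nat_lit 4) (nat_lit 422) (nat_lit 340) (nat_lit 138)))) (XT.nd (nat_lit 78) (nat_lit 76) (nat_lit 0) (XT.lf (nat_lit 0) (nat_lit 229231549443) (nat_lit 152) (nat_lit 155171357704) (nat_lit 0) (nat_lit 72953730925) (nat_lit 11) (nat_lit 5) (nat_lit 13) (nat_lit 4) (nat_lit 11) (nat_lit 4) (nat_lit 423) (nat_lit 340) (nat_lit 137)) (XT.nd (nat_lit 78) (nat_lit 76) (nat_lit 0) (XT.lf (nat_lit 0) (nat_lit 295158811715)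 (nat_lit 152) (nat_lit 43060184299) (nat_lit 0) (nat_lit 138880621430) (nat_lit 11) (nat_lit 5) (nat_lit 13) (nat_lit 4) (nat_lit 11) (nat_lit 4) (nat_lit 424) (nat_lit 340) (nat_lit 136)) (XT.lf (nat_lit 0) (nat_lit 77124455344) (nat_lit 76) (nat_lit 288461821429) (nat_lit 76) (nat_lit 132183277079) (nat_lit 10) (nat_lit 4) (nat_lit 11) (nat_lit 5) (nat_lit 11) (nat_lit 4) (nat_lit 425) (nat_lit 340) (nat_lit 135)))))) (XT.nd (nat_lit 40482) (nat_lit 0) (nat_lit 6992) (XT.nd (nat_lit 40248) (nat_lit 0) (nat_lit 6916) (XT.nd (nat_lit 78) (nat_lit 76) (nat_lit 0) (XT.lf (nat_lit 0) (nat_lit 204812731661) (nat_lit 76) (nat_lit 235451344484) (nat_lit 76) (nat_lit 79172462929) (nat_lit 10) (nat_lit 4) (nat_lit 11) (nat_lit 5) (nat_lit 11) (nat_lit 4) (nat_lit 426) (nat_lit 340) (nat_lit 134)) (XT.nd (nat_lit 78) (nat_lit 76) (nat_lit 0) (XT.lf (nat_lit 0) (nat_lit 338884900200) (nat_lit 76)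 (nat_lit 179790594816) (nat_lit 76) (nat_lit 23511392114) (nat_lit 10) (nat_lit 4) (nat_lit 11) (nat_lit 5) (nat_lit 11) (nat_lit 4) (nat_lit 427) (nat_lit 340) (nat_lit 133)) (XT.lf (nat_lit 0) (nat_lit 33814404794) (nat_lit 152) (nat_lit 86959978728) (nat_lit 76) (nat_lit 445273112306) (nat_lit 9) (nat_lit 5) (nat_lit 11) (nat_lit 5) (nat_lit 10) (nat_lit 4) (nat_lit 428) (nat_lit 340) (nat_lit 132)))) (XT.nd (nat_lit 78) (nat_lit 0) (nat_lit 0) (XT.lf (nat_lit 0) (nat_lit 1164214207) (nat_lit 836) (nat_lit 6961189957) (nat_lit 836) (nat_lit 6961189957) (nat_lit 100) (nat_lit 3) (nat_lit 111) (nat_lit 3) (nat_lit 111) (nat_lit 5) (nat_lit 341) (nat_lit 341) (nat_lit 218)) (XT.nd (nat_lit 78) (nat_lit 0) (nat_lit 76) (XT.lf (nat_lit 76) (nat_lit 365017900) (nat_lit 0) (nat_lit 2097032058) (nat_lit 836) (nat_lit 28461623861) (nat_lit 101) (nat_lit 5) (nat_lit 100) (nat_lit 3) (nat_lit 111)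 (nat_lit 5) (nat_lit 342) (nat_lit 341) (nat_lit 217)) (XT.lf (nat_lit 0) (nat_lit 3036820856) (nat_lit 760) (nat_lit 16055594049) (nat_lit 836) (nat_lit 12597550065) (nat_lit 101) (nat_lit 5) (nat_lit 111) (nat_lit 5) (nat_lit 112) (nat_lit 5) (nat_lit 343) (nat_lit 341) (nat_lit 216))))) (XT.nd (nat_lit 234) (nat_lit 0) (nat_lit 152) (XT.nd (nat_lit 78) (nat_lit 0) (nat_lit 76) (XT.lf (nat_lit 0) (nat_lit 3670452807) (nat_lit 760) (nat_lit 864313644) (nat_lit 836) (nat_lit 27958302589) (nat_lit 101) (nat_lit 5) (nat_lit 111) (nat_lit 5) (nat_lit 112) (nat_lit 5) (nat_lit 344) (nat_lit 341) (nat_lit 215)) (XT.nd (nat_lit 78) (nat_lit 0) (nat_lit 0) (XT.lf (nat_lit 0) (nat_lit 4746868979) (nat_lit 760) (nat_lit 17913389936) (nat_lit 836) (nat_lit 10655518539) (nat_lit 102) (nat_lit 5) (nat_lit 112) (nat_lit 5) (nat_lit 113) (nat_lit 5) (nat_lit 345) (nat_lit 341) (nat_lit 214)) (XT.lf (nat_lit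 0) (nat_lit 5962450479) (nat_lit 760) (nat_lit 1743657339) (nat_lit 836) (nat_lit 26469250314) (nat_lit 102) (nat_lit 5) (nat_lit 112) (nat_lit 5) (nat_lit 113) (nat_lit 5) (nat_lit 346) (nat_lit 341) (nat_lit 213)))) (XT.nd (nat_lit 78) (nat_lit 0) (nat_lit 0) (XT.lf (nat_lit 0) (nat_lit 7609682839) (nat_lit 760) (nat_lit 19458995259) (nat_lit 836) (nat_lit 7990700032) (nat_lit 103) (nat_lit 5) (nat_lit 113) (nat_lit 5) (nat_lit 114) (nat_lit 5) (nat_lit 347) (nat_lit 341) (nat_lit 212)) (XT.nd (nat_lit 78) (nat_lit 0) (nat_lit 76) (XT.lf (nat_lit 0) (nat_lit 9492085742) (nat_lit 760) (nat_lit 2243427246) (nat_lit 836) (nat_lit 24244449385) (nat_lit 103) (nat_lit 5) (nat_lit 113) (nat_lit 5) (nat_lit 114) (nat_lit 5) (nat_lit 348) (nat_lit 341) (nat_lit 211)) (XT.lf (nat_lit 0) (nat_lit 11792909505) (nat_lit 760) (nat_lit 20652501227) (nat_lit 836) (nat_lit 4484953575) (nat_lit 104) (nat_lit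 5) (nat_lit 114) (nat_lit 5) (nat_lit 115) (nat_lit 5) (nat_lit 349) (nat_lit 341) (nat_lit 210))))))) (XT.nd (nat_lit 936) (nat_lit 1900) (nat_lit 0) (XT.nd (nat_lit 468) (nat_lit 1064) (nat_lit 0) (XT.nd (nat_lit 234) (nat_lit 1064) (nat_lit 0) (XT.nd (nat_lit 78) (nat_lit 0) (nat_lit 76) (XT.lf (nat_lit 0) (nat_lit 14436543472) (nat_lit 760) (nat_lit 2318952558) (nat_lit 836) (nat_lit 21161405205) (nat_lit 104) (nat_lit 5) (nat_lit 114) (nat_lit 5) (nat_lit 115) (nat_lit 5) (nat_lit 350) (nat_lit 341) (nat_lit 209)) (XT.nd (nat_lit 78) (nat_lit 0) (nat_lit 0) (XT.lf (nat_lit 0) (nat_lit 17482420514) (nat_lit 760) (nat_lit 21450887413) (nat_lit 76) (nat_lit 5957202) (nat_lit 105) (nat_lit 5) (nat_lit 115) (nat_lit 5) (nat_lit 106) (nat_lit 5) (nat_lit 351) (nat_lit 341) (nat_lit 208)) (XT.lf (nat_lit 0) (nat_lit 20992224305) (nat_lit 760) (nat_lit 1922177977) (nat_lit 76) (nat_lit 17082766328)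 (nat_lit 105) (nat_lit 5) (nat_lit 115) (nat_lit 5) (nat_lit 106) (nat_lit 5) (nat_lit 352) (nat_lit 341) (nat_lit 207)))) (XT.nd (nat_lit 78) (nat_lit 380) (nat_lit 0) (XT.lf (nat_lit 0) (nat_lit 19194792925) (nat_lit 760) (nat_lit 5779587239) (nat_lit 836) (nat_lit 16118746898) (nat_lit 95) (nat_lit 5) (nat_lit 105) (nat_lit 5) (nat_lit 106) (nat_lit 5) (nat_lit 353) (nat_lit 341) (nat_lit 206)) (XT.nd (nat_lit 78) (nat_lit 380) (nat_lit 0) (XT.lf (nat_lit 0) (nat_lit 29376670256) (nat_lit 836) (nat_lit 1001735795) (nat_lit 76) (nat_lit 11854428819) (nat_lit 95) (nat_lit 5) (nat_lit 106) (nat_lit 5) (nat_lit 96) (nat_lit 5) (nat_lit 354) (nat_lit 341) (nat_lit 205)) (XT.lf (nat_lit 0) (nat_lit 21531586213) (nat_lit 380) (nat_lit 12895810767) (nat_lit 456) (nat_lit 8980717603) (nat_lit 90) (nat_lit 5) (nat_lit 95) (nat_lit 5) (nat_lit 96) (nat_lit 5) (nat_lit 355) (nat_lit 341) (nat_lit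 204))))) (XT.nd (nat_lit 234) (nat_lit 304) (nat_lit 0) (XT.nd (nat_lit 78) (nat_lit 456) (nat_lit 0) (XT.lf (nat_lit 0) (nat_lit 513341759) (nat_lit 304) (nat_lit 39325328289) (nat_lit 380) (nat_lit 4798090233) (nat_lit 86) (nat_lit 5) (nat_lit 90) (nat_lit 5) (nat_lit 91) (nat_lit 5) (nat_lit 356) (nat_lit 341) (nat_lit 203)) (XT.nd (nat_lit 78) (nat_lit 380) (nat_lit 0) (XT.lf (nat_lit 0) (nat_lit 192173200) (nat_lit 380) (nat_lit 21339875599) (nat_lit 76) (nat_lit 24365833952) (nat_lit 85) (nat_lit 5) (nat_lit 90) (nat_lit 5) (nat_lit 86) (nat_lit 5) (nat_lit 357) (nat_lit 341) (nat_lit 202)) (XT.lf (nat_lit 0) (nat_lit 2584394969) (nat_lit 380) (nat_lit 2724304450) (nat_lit 456) (nat_lit 41907531377) (nat_lit 80) (nat_lit 5) (nat_lit 85) (nat_lit 5) (nat_lit 86) (nat_lit 5) (nat_lit 358) (nat_lit 341) (nat_lit 201)))) (XT.nd (nat_lit 78) (nat_lit 304) (nat_lit 0) (XT.lf (nat_lit 0)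 (nat_lit 11311885125) (nat_lit 456) (nat_lit 20410970743) (nat_lit 76) (nat_lit 16846100771) (nat_lit 80) (nat_lit 5) (nat_lit 86) (nat_lit 5) (nat_lit 81) (nat_lit 5) (nat_lit 359) (nat_lit 341) (nat_lit 200)) (XT.nd (nat_lit 78) (nat_lit 0) (nat_lit 0) (XT.lf (nat_lit 0) (nat_lit 5138275037) (nat_lit 304) (nat_lit 12599665155) (nat_lit 380) (nat_lit 32245245037) (nat_lit 76) (nat_lit 5) (nat_lit 80) (nat_lit 5) (nat_lit 81) (nat_lit 5) (nat_lit 360) (nat_lit 341) (nat_lit 199)) (XT.lf (nat_lit 0) (nat_lit 24951300588) (nat_lit 380) (nat_lit 18902202861) (nat_lit 76) (nat_lit 7591323534) (nat_lit 76) (nat_lit 5) (nat_lit 81) (nat_lit 5) (nat_lit 77) (nat_lit 5) (nat_lit 361) (nat_lit 341) (nat_lit 198)))))) (XT.nd (nat_lit 468) (nat_lit 988) (nat_lit 0) (XT.nd (nat_lit 234) (nat_lit 380) (nat_lit 0) (XT.nd (nat_lit 78) (nat_lit 228) (nat_lit 0) (XT.lf (nat_lit 0) (nat_lit 8397457647) (nat_lit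 304) (nat_lit 24463519040) (nat_lit 380) (nat_lit 20101793528) (nat_lit 72) (nat_lit 5) (nat_lit 76) (nat_lit 5) (nat_lit 77) (nat_lit 5) (nat_lit 362) (nat_lit 341) (nat_lit 197)) (XT.nd (nat_lit 78) (nat_lit 228) (nat_lit 0) (XT.lf (nat_lit 0) (nat_lit 37715980327) (nat_lit 304) (nat_lit 3768321091) (nat_lit 380) (nat_lit 13056402642) (nat_lit 72) (nat_lit 5) (nat_lit 76) (nat_lit 5) (nat_lit 77) (nat_lit 5) (nat_lit 363) (nat_lit 341) (nat_lit 196)) (XT.lf (nat_lit 0) (nat_lit 12417563978) (nat_lit 228) (nat_lit 38593666659) (nat_lit 304) (nat_lit 5162683657) (nat_lit 69) (nat_lit 5) (nat_lit 72) (nat_lit 5) (nat_lit 73) (nat_lit 5) (nat_lit 364) (nat_lit 341) (nat_lit 195)))) (XT.nd (nat_lit 78) (nat_lit 304) (nat_lit 0) (XT.lf (nat_lit 0) (nat_lit 3375215853) (nat_lit 304) (nat_lit 14286067296) (nat_lit 76) (nat_lit 40207586430) (nat_lit 68) (nat_lit 5) (nat_lit 72) (nat_lit 5) (nat_lit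 69) (nat_lit 5) (nat_lit 365) (nat_lit 341) (nat_lit 194)) (XT.nd (nat_lit 78) (nat_lit 0) (nat_lit 0) (XT.lf (nat_lit 0) (nat_lit 12505198296) (nat_lit 380) (nat_lit 42585487668) (nat_lit 76) (nat_lit 4536721947) (nat_lit 64) (nat_lit 5) (nat_lit 69) (nat_lit 5) (nat_lit 65) (nat_lit 5) (nat_lit 366) (nat_lit 341) (nat_lit 193)) (XT.lf (nat_lit 0) (nat_lit 22625401322) (nat_lit 380) (nat_lit 11325277757) (nat_lit 76) (nat_lit 27496509332) (nat_lit 64) (nat_lit 5) (nat_lit 69) (nat_lit 5) (nat_lit 65) (nat_lit 5) (nat_lit 367) (nat_lit 341) (nat_lit 192))))) (XT.nd (nat_lit 234) (nat_lit 532) (nat_lit 0) (XT.nd (nat_lit 78) (nat_lit 228) (nat_lit 0) (XT.lf (nat_lit 0) (nat_lit 22206505366) (nat_lit 228) (nat_lit 11390181120) (nat_lit 304) (nat_lit 29744019113) (nat_lit 61) (nat_lit 5) (nat_lit 64) (nat_lit 5) (nat_lit 65) (nat_lit 5) (nat_lit 368) (nat_lit 341) (nat_lit 191)) (XT.nd (nat_lit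 78) (nat_lit 228) (nat_lit 0) (XT.lf (nat_lit 0) (nat_lit 45501892516) (nat_lit 304) (nat_lit 7708619659) (nat_lit 76) (nat_lit 12099119844) (nat_lit 61) (nat_lit 5) (nat_lit 65) (nat_lit 5) (nat_lit 62) (nat_lit 5) (nat_lit 369) (nat_lit 341) (nat_lit 190)) (XT.lf (nat_lit 0) (nat_lit 28098735584) (nat_lit 228) (nat_lit 30527525380) (nat_lit 304) (nat_lit 8719549833) (nat_lit 58) (nat_lit 5) (nat_lit 61) (nat_lit 5) (nat_lit 62) (nat_lit 5) (nat_lit 370) (nat_lit 341) (nat_lit 189)))) (XT.nd (nat_lit 78) (nat_lit 456) (nat_lit 0) (XT.lf (nat_lit 0) (nat_lit 2960675311) (nat_lit 304) (nat_lit 3563095608) (nat_lit 76) (nat_lit 62951187692) (nat_lit 57) (nat_lit 5) (nat_lit 61) (nat_lit 5) (nat_lit 58) (nat_lit 5) (nat_lit 371) (nat_lit 341) (nat_lit 188)) (XT.nd (nat_lit 78) (nat_lit 228) (nat_lit 0) (XT.lf (nat_lit 0) (nat_lit 15777870208) (nat_lit 304) (nat_lit 37102803065) (nat_lit 76)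 (nat_lit 18780444733) (nat_lit 54) (nat_lit 5) (nat_lit 58) (nat_lit 5) (nat_lit 55) (nat_lit 5) (nat_lit 372) (nat_lit 341) (nat_lit 187)) (XT.lf (nat_lit 0) (nat_lit 667292539) (nat_lit 228) (nat_lit 28745921740) (nat_lit 304) (nat_lit 44534507563) (nat_lit 51) (nat_lit 5) (nat_lit 54) (nat_lit 5) (nat_lit 55) (nat_lit 5) (nat_lit 373) (nat_lit 341) (nat_lit 186))))))))
noncomputable def xc199 : XT := (XT.nd (nat_lit 1872) (nat_lit 912) (nat_lit 0) (XT.nd (nat_lit 936) (nat_lit 912) (nat_lit 0) (XT.nd (nat_lit 468) (nat_lit 532) (nat_lit 0) (XT.nd (nat_lit 234) (nat_lit 456) (nat_lit 0) (XT.nd (nat_lit 78) (nat_lit 152) (nat_lit 0) (XT.lf (nat_lit 0) (nat_lit 41611992557) (nat_lit 228) (nat_lit 2745314417) (nat_lit 304) (nat_lit 31960000719) (nat_lit 51) (nat_lit 5) (nat_lit 54) (nat_lit 5) (nat_lit 55) (nat_lit 5) (nat_lit 374) (nat_lit 341) (nat_lit 185)) (XT.nd (nat_lit 78) (nat_lit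 0) (nat_lit 0) (XT.lf (nat_lit 0) (nat_lit 5592175948) (nat_lit 152) (nat_lit 54925798448) (nat_lit 228) (nat_lit 18263930791) (nat_lit 49) (nat_lit 5) (nat_lit 51) (nat_lit 5) (nat_lit 52) (nat_lit 5) (nat_lit 375) (nat_lit 341) (nat_lit 184)) (XT.lf (nat_lit 0) (nat_lit 49060984633) (nat_lit 152) (nat_lit 29056436467) (nat_lit 228) (nat_lit 3220774973) (nat_lit 49) (nat_lit 5) (nat_lit 51) (nat_lit 5) (nat_lit 52) (nat_lit 5) (nat_lit 376) (nat_lit 341) (nat_lit 183)))) (XT.nd (nat_lit 78) (nat_lit 152) (nat_lit 0) (XT.lf (nat_lit 0) (nat_lit 10829311314) (nat_lit 228) (nat_lit 1510595161) (nat_lit 304) (nat_lit 71664187996) (nat_lit 45) (nat_lit 5) (nat_lit 48) (nat_lit 5) (nat_lit 49) (nat_lit 5) (nat_lit 377) (nat_lit 341) (nat_lit 182)) (XT.nd (nat_lit 78) (nat_lit 152) (nat_lit 0) (XT.lf (nat_lit 0) (nat_lit 29552736192) (nat_lit 304) (nat_lit 30055874656) (nat_lit 76) (nat_lit 27142919997)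 (nat_lit 45) (nat_lit 5) (nat_lit 49) (nat_lit 5) (nat_lit 46) (nat_lit 5) (nat_lit 378) (nat_lit 341) (nat_lit 181)) (XT.lf (nat_lit 0) (nat_lit 15694712620) (nat_lit 152) (nat_lit 32200130851) (nat_lit 228) (nat_lit 41728064432) (nat_lit 43) (nat_lit 5) (nat_lit 45) (nat_lit 5) (nat_lit 46) (nat_lit 5) (nat_lit 379) (nat_lit 341) (nat_lit 180))))) (XT.nd (nat_lit 234) (nat_lit 304) (nat_lit 0) (XT.nd (nat_lit 78) (nat_lit 228) (nat_lit 0) (XT.lf (nat_lit 0) (nat_lit 64774499290) (nat_lit 152) (nat_lit 2887428780) (nat_lit 228) (nat_lit 24950532784) (nat_lit 43) (nat_lit 5) (nat_lit 45) (nat_lit 5) (nat_lit 46) (nat_lit 5) (nat_lit 380) (nat_lit 341) (nat_lit 179)) (XT.nd (nat_lit 78) (nat_lit 76) (nat_lit 0) (XT.lf (nat_lit 0) (nat_lit 20784811122) (nat_lit 152) (nat_lit 68391425712) (nat_lit 228) (nat_lit 6537311728) (nat_lit 41) (nat_lit 5) (nat_lit 43) (nat_lit 5) (nat_lit 44) (nat_lit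 5) (nat_lit 381) (nat_lit 341) (nat_lit 178)) (XT.lf (nat_lit 0) (nat_lit 12912425651) (nat_lit 228) (nat_lit 26397547814) (nat_lit 76) (nat_lit 59623456952) (nat_lit 40) (nat_lit 5) (nat_lit 43) (nat_lit 5) (nat_lit 41) (nat_lit 5) (nat_lit 382) (nat_lit 341) (nat_lit 177)))) (XT.nd (nat_lit 78) (nat_lit 152) (nat_lit 0) (XT.lf (nat_lit 0) (nat_lit 25259819130) (nat_lit 152) (nat_lit 8248475093) (nat_lit 228) (nat_lit 68780987171) (nat_lit 38) (nat_lit 5) (nat_lit 40) (nat_lit 5) (nat_lit 41) (nat_lit 5) (nat_lit 383) (nat_lit 341) (nat_lit 176)) (XT.nd (nat_lit 78) (nat_lit 152) (nat_lit 0) (XT.lf (nat_lit 0) (nat_lit 55967740977) (nat_lit 228) (nat_lit 25763505270) (nat_lit 76) (nat_lit 24039989935) (nat_lit 38) (nat_lit 5) (nat_lit 41) (nat_lit 5) (nat_lit 39) (nat_lit 5) (nat_lit 384) (nat_lit 341) (nat_lit 175)) (XT.lf (nat_lit 0) (nat_lit 28852366554) (nat_lit 152) (nat_lit 51282507054)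 (nat_lit 228) (nat_lit 29263179900) (nat_lit 36) (nat_lit 5) (nat_lit 38) (nat_lit 5) (nat_lit 39) (nat_lit 5) (nat_lit 385) (nat_lit 341) (nat_lit 174)))))) (XT.nd (nat_lit 468) (nat_lit 532) (nat_lit 0) (XT.nd (nat_lit 234) (nat_lit 228) (nat_lit 0) (XT.nd (nat_lit 78) (nat_lit 152) (nat_lit 0) (XT.lf (nat_lit 0) (nat_lit 87091890763) (nat_lit 152) (nat_lit 18853837382) (nat_lit 228) (nat_lit 7238715744) (nat_lit 36) (nat_lit 5) (nat_lit 38) (nat_lit 5) (nat_lit 39) (nat_lit 5) (nat_lit 386) (nat_lit 341) (nat_lit 173)) (XT.nd (nat_lit 78) (nat_lit 0) (nat_lit 0) (XT.lf (nat_lit 0) (nat_lit 16124349662) (nat_lit 152) (nat_lit 85519248020) (nat_lit 76) (nat_lit 15466861493) (nat_lit 34) (nat_lit 5) (nat_lit 36) (nat_lit 5) (nat_lit 35) (nat_lit 5) (nat_lit 387) (nat_lit 341) (nat_lit 172)) (XT.lf (nat_lit 0) (nat_lit 41169601803) (nat_lit 152) (nat_lit 28582191300) (nat_lit 76) (nat_lit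 51437184050) (nat_lit 34) (nat_lit 5) (nat_lit 36) (nat_lit 5) (nat_lit 35) (nat_lit 5) (nat_lit 388) (nat_lit 341) (nat_lit 171)))) (XT.nd (nat_lit 78) (nat_lit 76) (nat_lit 0) (XT.lf (nat_lit 0) (nat_lit 32231855215) (nat_lit 152) (nat_lit 35737622705) (nat_lit 228) (nat_lit 57476825415) (nat_lit 32) (nat_lit 5) (nat_lit 34) (nat_lit 5) (nat_lit 35) (nat_lit 5) (nat_lit 389) (nat_lit 341) (nat_lit 170)) (XT.nd (nat_lit 78) (nat_lit 76) (nat_lit 0) (XT.lf (nat_lit 0) (nat_lit 96600122093) (nat_lit 228) (nat_lit 32822453251) (nat_lit 76) (nat_lit 469382124) (nat_lit 32) (nat_lit 5) (nat_lit 35) (nat_lit 5) (nat_lit 33) (nat_lit 4) (nat_lit 390) (nat_lit 341) (nat_lit 169)) (XT.lf (nat_lit 0) (nat_lit 30993853589) (nat_lit 76) (nat_lit 96737390188) (nat_lit 152) (nat_lit 6775203604) (nat_lit 31) (nat_lit 5) (nat_lit 32) (nat_lit 5) (nat_lit 33) (nat_lit 4) (nat_lit 391) (nat_lit 341) (nat_lit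 168))))) (XT.nd (nat_lit 234) (nat_lit 304) (nat_lit 0) (XT.nd (nat_lit 78) (nat_lit 152) (nat_lit 0) (XT.lf (nat_lit 0) (nat_lit 20957137927) (nat_lit 152) (nat_lit 40522829131) (nat_lit 76) (nat_lit 77827040988) (nat_lit 30) (nat_lit 5) (nat_lit 32) (nat_lit 5) (nat_lit 31) (nat_lit 5) (nat_lit 392) (nat_lit 341) (nat_lit 167)) (XT.nd (nat_lit 78) (nat_lit 0) (nat_lit 0) (XT.lf (nat_lit 0) (nat_lit 26347273787) (nat_lit 152) (nat_lit 23911710449) (nat_lit 228) (nat_lit 94062530404) (nat_lit 28) (nat_lit 5) (nat_lit 30) (nat_lit 5) (nat_lit 31) (nat_lit 5) (nat_lit 393) (nat_lit 341) (nat_lit 166)) (XT.lf (nat_lit 0) (nat_lit 81965222478) (nat_lit 228) (nat_lit 51839850259) (nat_lit 76) (nat_lit 15734709126) (nat_lit 28) (nat_lit 5) (nat_lit 31) (nat_lit 5) (nat_lit 29) (nat_lit 4) (nat_lit 394) (nat_lit 341) (nat_lit 165)))) (XT.nd (nat_lit 78) (nat_lit 228) (nat_lit 0) (XT.lf (nat_lit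 0) (nat_lit 17776936927) (nat_lit 76) (nat_lit 98148646630) (nat_lit 152) (nat_lit 39059938607) (nat_lit 27) (nat_lit 5) (nat_lit 28) (nat_lit 5) (nat_lit 29) (nat_lit 4) (nat_lit 395) (nat_lit 341) (nat_lit 164)) (XT.nd (nat_lit 78) (nat_lit 228) (nat_lit 0) (XT.lf (nat_lit 0) (nat_lit 92673046310) (nat_lit 76) (nat_lit 59788132080) (nat_lit 152) (nat_lit 8198510558) (nat_lit 27) (nat_lit 5) (nat_lit 28) (nat_lit 5) (nat_lit 29) (nat_lit 4) (nat_lit 396) (nat_lit 341) (nat_lit 163)) (XT.lf (nat_lit 0) (nat_lit 4459978985) (nat_lit 152) (nat_lit 19040205340) (nat_lit 228) (nat_lit 143095036897) (nat_lit 24) (nat_lit 5) (nat_lit 26) (nat_lit 5) (nat_lit 27) (nat_lit 5) (nat_lit 397) (nat_lit 341) (nat_lit 162))))))) (XT.nd (nat_lit 936) (nat_lit 456) (nat_lit 0) (XT.nd (nat_lit 468) (nat_lit 228) (nat_lit 0) (XT.nd (nat_lit 234) (nat_lit 152) (nat_lit 0) (XT.nd (nat_lit 78) (nat_lit 76)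 (nat_lit 0) (XT.lf (nat_lit 0) (nat_lit 58048590971) (nat_lit 228) (nat_lit 90405938929) (nat_lit 76) (nat_lit 24289265299) (nat_lit 24) (nat_lit 5) (nat_lit 27) (nat_lit 5) (nat_lit 25) (nat_lit 4) (nat_lit 398) (nat_lit 341) (nat_lit 161)) (XT.nd (nat_lit 78) (nat_lit 76) (nat_lit 0) (XT.lf (nat_lit 0) (nat_lit 94635896289) (nat_lit 228) (nat_lit 15403493275) (nat_lit 76) (nat_lit 69144834603) (nat_lit 24) (nat_lit 5) (nat_lit 27) (nat_lit 5) (nat_lit 25) (nat_lit 4) (nat_lit 399) (nat_lit 341) (nat_lit 160)) (XT.lf (nat_lit 0) (nat_lit 65442512023) (nat_lit 76) (nat_lit 68631170938) (nat_lit 152) (nat_lit 51821936014) (nat_lit 23) (nat_lit 5) (nat_lit 24) (nat_lit 5) (nat_lit 25) (nat_lit 4) (nat_lit 400) (nat_lit 341) (nat_lit 159)))) (XT.nd (nat_lit 78) (nat_lit 152) (nat_lit 0) (XT.lf (nat_lit 0) (nat_lit 150864478625) (nat_lit 76) (nat_lit 24879133400) (nat_lit 152) (nat_lit 17185959035)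 (nat_lit 23) (nat_lit 5) (nat_lit 24) (nat_lit 5) (nat_lit 25) (nat_lit 4) (nat_lit 401) (nat_lit 341) (nat_lit 158)) (XT.nd (nat_lit 78) (nat_lit 0) (nat_lit 0) (XT.lf (nat_lit 0) (nat_lit 19555784159) (nat_lit 152) (nat_lit 159349926199) (nat_lit 76) (nat_lit 21345141200) (nat_lit 21) (nat_lit 5) (nat_lit 23) (nat_lit 5) (nat_lit 22) (nat_lit 4) (nat_lit 402) (nat_lit 341) (nat_lit 157)) (XT.lf (nat_lit 0) (nat_lit 58688390519) (nat_lit 152) (nat_lit 79129282151) (nat_lit 76) (nat_lit 70049869877) (nat_lit 21) (nat_lit 5) (nat_lit 23) (nat_lit 5) (nat_lit 22) (nat_lit 4) (nat_lit 403) (nat_lit 341) (nat_lit 156))))) (XT.nd (nat_lit 234) (nat_lit 152) (nat_lit 0) (XT.nd (nat_lit 78) (nat_lit 0) (nat_lit 0) (XT.lf (nat_lit 0) (nat_lit 5270035259) (nat_lit 76) (nat_lit 94589311018) (nat_lit 152) (nat_lit 116001636008) (nat_lit 20) (nat_lit 5) (nat_lit 21) (nat_lit 5) (nat_lit 22) (nat_lit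 4) (nat_lit 404) (nat_lit 341) (nat_lit 155)) (XT.nd (nat_lit 78) (nat_lit 0) (nat_lit 0) (XT.lf (nat_lit 0) (nat_lit 96635492316) (nat_lit 76) (nat_lit 47792900095) (nat_lit 152) (nat_lit 79758724617) (nat_lit 20) (nat_lit 5) (nat_lit 21) (nat_lit 5) (nat_lit 22) (nat_lit 4) (nat_lit 405) (nat_lit 341) (nat_lit 154)) (XT.lf (nat_lit 0) (nat_lit 191246333191) (nat_lit 152) (nat_lit 40382296683) (nat_lit 0) (nat_lit 1299906658) (nat_lit 20) (nat_lit 5) (nat_lit 22) (nat_lit 4) (nat_lit 20) (nat_lit 4) (nat_lit 406) (nat_lit 341) (nat_lit 153)))) (XT.nd (nat_lit 78) (nat_lit 76) (nat_lit 0) (XT.lf (nat_lit 0) (nat_lit 52026231682) (nat_lit 76) (nat_lit 189974199220) (nat_lit 76) (nat_lit 26833248) (nat_lit 19) (nat_lit 4) (nat_lit 20) (nat_lit 5) (nat_lit 20) (nat_lit 4) (nat_lit 407) (nat_lit 341) (nat_lit 152)) (XT.nd (nat_lit 78) (nat_lit 0) (nat_lit 0) (XT.lf (nat_lit 0) (nat_lit 43006871529)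 (nat_lit 152) (nat_lit 101784174040) (nat_lit 76) (nat_lit 106721029856) (nat_lit 18) (nat_lit 5) (nat_lit 20) (nat_lit 5) (nat_lit 19) (nat_lit 4) (nat_lit 408) (nat_lit 341) (nat_lit 151)) (XT.lf (nat_lit 0) (nat_lit 88190879607) (nat_lit 152) (nat_lit 9157809579) (nat_lit 76) (nat_lit 164122440206) (nat_lit 18) (nat_lit 5) (nat_lit 20) (nat_lit 5) (nat_lit 19) (nat_lit 4) (nat_lit 409) (nat_lit 341) (nat_lit 150)))))) (XT.nd (nat_lit 468) (nat_lit 152) (nat_lit 0) (XT.nd (nat_lit 234) (nat_lit 152) (nat_lit 0) (XT.nd (nat_lit 78) (nat_lit 76) (nat_lit 0) (XT.lf (nat_lit 0) (nat_lit 91011970247) (nat_lit 76) (nat_lit 46042612457) (nat_lit 152) (nat_lit 134802528734) (nat_lit 17) (nat_lit 5) (nat_lit 18) (nat_lit 5) (nat_lit 19) (nat_lit 4) (nat_lit 410) (nat_lit 341) (nat_lit 149)) (XT.nd (nat_lit 78) (nat_lit 76) (nat_lit 0) (XT.lf (nat_lit 0) (nat_lit 188640879630) (nat_lit 152) (nat_lit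 86372088881) (nat_lit 0) (nat_lit 7735453747) (nat_lit 17) (nat_lit 5) (nat_lit 19) (nat_lit 4) (nat_lit 17) (nat_lit 4) (nat_lit 411) (nat_lit 341) (nat_lit 148)) (XT.lf (nat_lit 0) (nat_lit 12468058744) (nat_lit 76) (nat_lit 231287457812) (nat_lit 76) (nat_lit 50381330904) (nat_lit 16) (nat_lit 4) (nat_lit 17) (nat_lit 5) (nat_lit 17) (nat_lit 4) (nat_lit 412) (nat_lit 341) (nat_lit 147)))) (XT.nd (nat_lit 78) (nat_lit 152) (nat_lit 0) (XT.lf (nat_lit 0) (nat_lit 119248054688) (nat_lit 76) (nat_lit 183840158737) (nat_lit 76) (nat_lit 2933364188) (nat_lit 16) (nat_lit 4) (nat_lit 17) (nat_lit 5) (nat_lit 17) (nat_lit 4) (nat_lit 413) (nat_lit 341) (nat_lit 146)) (XT.nd (nat_lit 78) (nat_lit 76) (nat_lit 0) (XT.lf (nat_lit 0) (nat_lit 45385912515) (nat_lit 152) (nat_lit 87866309741) (nat_lit 76) (nat_lit 185211740803) (nat_lit 15) (nat_lit 5) (nat_lit 17) (nat_lit 5) (nat_lit 16) (nat_lit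 4) (nat_lit 414) (nat_lit 341) (nat_lit 145)) (XT.lf (nat_lit 0) (nat_lit 16464398389) (nat_lit 76) (nat_lit 79814837883) (nat_lit 152) (nat_lit 235233994019) (nat_lit 14) (nat_lit 5) (nat_lit 15) (nat_lit 5) (nat_lit 16) (nat_lit 4) (nat_lit 415) (nat_lit 341) (nat_lit 144))))) (XT.nd (nat_lit 234) (nat_lit 152) (nat_lit 0) (XT.nd (nat_lit 78) (nat_lit 0) (nat_lit 0) (XT.lf (nat_lit 0) (nat_lit 129061432404) (nat_lit 76) (nat_lit 22143467648) (nat_lit 152) (nat_lit 193935677217) (nat_lit 14) (nat_lit 5) (nat_lit 15) (nat_lit 5) (nat_lit 16) (nat_lit 4) (nat_lit 416) (nat_lit 341) (nat_lit 143)) (XT.nd (nat_lit 78) (nat_lit 0) (nat_lit 0) (XT.lf (nat_lit 0) (nat_lit 209476186288) (nat_lit 152) (nat_lit 112761392108) (nat_lit 0) (nat_lit 37181746312) (nat_lit 14) (nat_lit 5) (nat_lit 16) (nat_lit 4) (nat_lit 14) (nat_lit 4) (nat_lit 417) (nat_lit 341) (nat_lit 142)) (XT.lf (nat_lit 0) (nat_lit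 271023690743) (nat_lit 152) (nat_lit 4641433588) (nat_lit 0) (nat_lit 98728752563) (nat_lit 14) (nat_lit 5) (nat_lit 16) (nat_lit 4) (nat_lit 14) (nat_lit 4) (nat_lit 418) (nat_lit 341) (nat_lit 141)))) (XT.nd (nat_lit 78) (nat_lit 76) (nat_lit 0) (XT.lf (nat_lit 0) (nat_lit 112484073585) (nat_lit 76) (nat_lit 224920351549) (nat_lit 76) (nat_lit 52624938887) (nat_lit 13) (nat_lit 4) (nat_lit 14) (nat_lit 5) (nat_lit 14) (nat_lit 4) (nat_lit 419) (nat_lit 341) (nat_lit 140)) (XT.nd (nat_lit 78) (nat_lit 0) (nat_lit 0) (XT.lf (nat_lit 0) (nat_lit 716081681) (nat_lit 152) (nat_lit 170827897101) (nat_lit 76) (nat_lit 234898155592) (nat_lit 12) (nat_lit 5) (nat_lit 14) (nat_lit 5) (nat_lit 13) (nat_lit 4) (nat_lit 420) (nat_lit 341) (nat_lit 139)) (XT.lf (nat_lit 0) (nat_lit 54955290043) (nat_lit 152) (nat_lit 59637950325) (nat_lit 76) (nat_lit 309039183749) (nat_lit 12) (nat_lit 5) (nat_lit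 14) (nat_lit 5) (nat_lit 13) (nat_lit 4) (nat_lit 421) (nat_lit 341) (nat_lit 138))))))))
noncomputable def xc200 : XT := (XT.nd (nat_lit 41886) (nat_lit 0) (nat_lit 2508) (XT.nd (nat_lit 40950) (nat_lit 0) (nat_lit 5776) (XT.nd (nat_lit 390) (nat_lit 0) (nat_lit 0) (XT.nd (nat_lit 156) (nat_lit 76) (nat_lit 0) (XT.nd (nat_lit 78) (nat_lit 0) (nat_lit 0) (XT.lf (nat_lit 0) (nat_lit 58999255262) (nat_lit 76) (nat_lit 53828042324) (nat_lit 152) (nat_lit 328808888880) (nat_lit 11) (nat_lit 5) (nat_lit 12) (nat_lit 5) (nat_lit 13) (nat_lit 4) (nat_lit 422) (nat_lit 341) (nat_lit 137)) (XT.lf (nat_lit 0) (nat_lit 174774900905) (nat_lit 152) (nat_lit 275023706973) (nat_lit 0) (nat_lit 10682429337) (nat_lit 11) (nat_lit 5) (nat_lit 13) (nat_lit 4) (nat_lit 11) (nat_lit 4) (nat_lit 423) (nat_lit 341) (nat_lit 136))) (XT.nd (nat_lit 78) (nat_lit 76) (nat_lit 0) (XT.lf (nat_lit 0) (nat_lit 240702022096)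 (nat_lit 152) (nat_lit 162912805106) (nat_lit 0) (nat_lit 76609196463) (nat_lit 11) (nat_lit 5) (nat_lit 13) (nat_lit 4) (nat_lit 11) (nat_lit 4) (nat_lit 424) (nat_lit 341) (nat_lit 135)) (XT.nd (nat_lit 78) (nat_lit 76) (nat_lit 0) (XT.lf (nat_lit 0) (nat_lit 309925223902) (nat_lit 152) (nat_lit 45196888293) (nat_lit 0) (nat_lit 145832061065) (nat_lit 11) (nat_lit 5) (nat_lit 13) (nat_lit 4) (nat_lit 11) (nat_lit 4) (nat_lit 425) (nat_lit 341) (nat_lit 134)) (XT.lf (nat_lit 0) (nat_lit 80996720345) (nat_lit 76) (nat_lit 302877188923) (nat_lit 76) (nat_lit 138783704938) (nat_lit 10) (nat_lit 4) (nat_lit 11) (nat_lit 5) (nat_lit 11) (nat_lit 4) (nat_lit 426) (nat_lit 341) (nat_lit 133))))) (XT.nd (nat_lit 40326) (nat_lit 0) (nat_lit 6840) (XT.nd (nat_lit 78) (nat_lit 0) (nat_lit 0) (XT.lf (nat_lit 0) (nat_lit 215068646563) (nat_lit 76) (nat_lit 247216555920) (nat_lit 76) (nat_lit 83122766081)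 (nat_lit 10) (nat_lit 4) (nat_lit 11) (nat_lit 5) (nat_lit 11) (nat_lit 4) (nat_lit 427) (nat_lit 341) (nat_lit 132)) (XT.nd (nat_lit 40170) (nat_lit 0) (nat_lit 6840) (XT.lf (nat_lit 0) (nat_lit 355843695989) (nat_lit 76) (nat_lit 188773119044) (nat_lit 76) (nat_lit 24679037915) (nat_lit 10) (nat_lit 4) (nat_lit 11) (nat_lit 5) (nat_lit 11) (nat_lit 4) (nat_lit 428) (nat_lit 341) (nat_lit 131)) (XT.lf (nat_lit 0) (nat_lit 1291048401) (nat_lit 836) (nat_lit 7273185906) (nat_lit 836) (nat_lit 7273185906) (nat_lit 100) (nat_lit 3) (nat_lit 111) (nat_lit 3) (nat_lit 111) (nat_lit 5) (nat_lit 342) (nat_lit 342) (nat_lit 216)))) (XT.nd (nat_lit 78) (nat_lit 0) (nat_lit 76) (XT.lf (nat_lit 76) (nat_lit 454232553) (nat_lit 0) (nat_lit 2262739244) (nat_lit 836) (nat_lit 29746156766) (nat_lit 101) (nat_lit 5) (nat_lit 100) (nat_lit 3) (nat_lit 111) (nat_lit 5) (nat_lit 343) (nat_lit 342) (nat_lit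 215)) (XT.nd (nat_lit 78) (nat_lit 0) (nat_lit 0) (XT.lf (nat_lit 0) (nat_lit 3313299245) (nat_lit 760) (nat_lit 16783475816) (nat_lit 836) (nat_lit 13171324879) (nat_lit 101) (nat_lit 5) (nat_lit 111) (nat_lit 5) (nat_lit 112) (nat_lit 5) (nat_lit 344) (nat_lit 342) (nat_lit 214)) (XT.lf (nat_lit 0) (nat_lit 3972677683) (nat_lit 760) (nat_lit 836197958) (nat_lit 836) (nat_lit 29302786585) (nat_lit 101) (nat_lit 5) (nat_lit 111) (nat_lit 5) (nat_lit 112) (nat_lit 5) (nat_lit 345) (nat_lit 342) (nat_lit 213)))))) (XT.nd (nat_lit 468) (nat_lit 1216) (nat_lit 0) (XT.nd (nat_lit 234) (nat_lit 0) (nat_lit 76) (XT.nd (nat_lit 78) (nat_lit 0) (nat_lit 0) (XT.lf (nat_lit 0) (nat_lit 5097671485) (nat_lit 760) (nat_lit 18732365694) (nat_lit 836) (nat_lit 11145737001) (nat_lit 102) (nat_lit 5) (nat_lit 112) (nat_lit 5) (nat_lit 113) (nat_lit 5) (nat_lit 346) (nat_lit 342) (nat_lit 212)) (XT.nd (nat_lit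 78) (nat_lit 0) (nat_lit 76) (XT.lf (nat_lit 0) (nat_lit 6368629247) (nat_lit 760) (nat_lit 1757798550) (nat_lit 836) (nat_lit 27752181911) (nat_lit 102) (nat_lit 5) (nat_lit 112) (nat_lit 5) (nat_lit 113) (nat_lit 5) (nat_lit 347) (nat_lit 342) (nat_lit 211)) (XT.lf (nat_lit 0) (nat_lit 8093697432) (nat_lit 760) (nat_lit 20354269460) (nat_lit 836) (nat_lit 8359095511) (nat_lit 103) (nat_lit 5) (nat_lit 113) (nat_lit 5) (nat_lit 114) (nat_lit 5) (nat_lit 348) (nat_lit 342) (nat_lit 210)))) (XT.nd (nat_lit 78) (nat_lit 0) (nat_lit 76) (XT.lf (nat_lit 0) (nat_lit 10065290459) (nat_lit 760) (nat_lit 2281621882) (nat_lit 836) (nat_lit 25427015166) (nat_lit 103) (nat_lit 5) (nat_lit 113) (nat_lit 5) (nat_lit 114) (nat_lit 5) (nat_lit 349) (nat_lit 342) (nat_lit 209)) (XT.nd (nat_lit 78) (nat_lit 0) (nat_lit 0) (XT.lf (nat_lit 0) (nat_lit 12477248997) (nat_lit 760) (nat_lit 21607145089) (nat_lit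 836) (nat_lit 4687655676) (nat_lit 104) (nat_lit 5) (nat_lit 114) (nat_lit 5) (nat_lit 115) (nat_lit 5) (nat_lit 350) (nat_lit 342) (nat_lit 208)) (XT.lf (nat_lit 0) (nat_lit 15248555423) (nat_lit 760) (nat_lit 2360632377) (nat_lit 836) (nat_lit 22198955867) (nat_lit 104) (nat_lit 5) (nat_lit 114) (nat_lit 5) (nat_lit 115) (nat_lit 5) (nat_lit 351) (nat_lit 342) (nat_lit 207))))) (XT.nd (nat_lit 234) (nat_lit 684) (nat_lit 0) (XT.nd (nat_lit 78) (nat_lit 684) (nat_lit 0) (XT.lf (nat_lit 76) (nat_lit 18435972476) (nat_lit 0) (nat_lit 7499266) (nat_lit 836) (nat_lit 22438321190) (nat_lit 105) (nat_lit 5) (nat_lit 104) (nat_lit 5) (nat_lit 115) (nat_lit 5) (nat_lit 352) (nat_lit 342) (nat_lit 206)) (XT.nd (nat_lit 78) (nat_lit 760) (nat_lit 0) (XT.lf (nat_lit 0) (nat_lit 22124514680) (nat_lit 760) (nat_lit 1944259816) (nat_lit 76) (nat_lit 17924033877) (nat_lit 105) (nat_lit 5) (nat_lit 115)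 (nat_lit 5) (nat_lit 106) (nat_lit 5) (nat_lit 353) (nat_lit 342) (nat_lit 205)) (XT.lf (nat_lit 0) (nat_lit 20227365647) (nat_lit 760) (nat_lit 6075612712) (nat_lit 836) (nat_lit 16840730423) (nat_lit 95) (nat_lit 5) (nat_lit 105) (nat_lit 5) (nat_lit 106) (nat_lit 5) (nat_lit 354) (nat_lit 342) (nat_lit 204)))) (XT.nd (nat_lit 78) (nat_lit 684) (nat_lit 0) (XT.lf (nat_lit 0) (nat_lit 30921474413) (nat_lit 836) (nat_lit 978472376) (nat_lit 76) (nat_lit 12440654458) (nat_lit 95) (nat_lit 5) (nat_lit 106) (nat_lit 5) (nat_lit 96) (nat_lit 5) (nat_lit 355) (nat_lit 342) (nat_lit 203)) (XT.nd (nat_lit 78) (nat_lit 304) (nat_lit 0) (XT.lf (nat_lit 0) (nat_lit 22680332664) (nat_lit 380) (nat_lit 13541913891) (nat_lit 456) (nat_lit 9352526597) (nat_lit 90) (nat_lit 5) (nat_lit 95) (nat_lit 5) (nat_lit 96) (nat_lit 5) (nat_lit 356) (nat_lit 342) (nat_lit 202)) (XT.lf (nat_lit 0) (nat_lit 613718886)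 (nat_lit 304) (nat_lit 41288012271) (nat_lit 380) (nat_lit 4963241068) (nat_lit 86) (nat_lit 5) (nat_lit 90) (nat_lit 5) (nat_lit 91) (nat_lit 5) (nat_lit 357) (nat_lit 342) (nat_lit 201))))))) (XT.nd (nat_lit 936) (nat_lit 1368) (nat_lit 0) (XT.nd (nat_lit 468) (nat_lit 836) (nat_lit 0) (XT.nd (nat_lit 234) (nat_lit 608) (nat_lit 0) (XT.nd (nat_lit 78) (nat_lit 380) (nat_lit 0) (XT.lf (nat_lit 0) (nat_lit 270697186) (nat_lit 380) (nat_lit 22333375098) (nat_lit 76) (nat_lit 25585195628) (nat_lit 85) (nat_lit 5) (nat_lit 90) (nat_lit 5) (nat_lit 86) (nat_lit 5) (nat_lit 358) (nat_lit 342) (nat_lit 200)) (XT.nd (nat_lit 78) (nat_lit 0) (nat_lit 0) (XT.lf (nat_lit 0) (nat_lit 2785923607) (nat_lit 380) (nat_lit 2854973372) (nat_lit 456) (nat_lit 43932747027) (nat_lit 80) (nat_lit 5) (nat_lit 85) (nat_lit 5) (nat_lit 86) (nat_lit 5) (nat_lit 359) (nat_lit 342) (nat_lit 199)) (XT.lf (nat_lit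 0) (nat_lit 11941145269) (nat_lit 456) (nat_lit 21359499635) (nat_lit 76) (nat_lit 17693518938) (nat_lit 80) (nat_lit 5) (nat_lit 86) (nat_lit 5) (nat_lit 81) (nat_lit 5) (nat_lit 360) (nat_lit 342) (nat_lit 198)))) (XT.nd (nat_lit 78) (nat_lit 304) (nat_lit 0) (XT.lf (nat_lit 0) (nat_lit 5466046827) (nat_lit 304) (nat_lit 13220530846) (nat_lit 380) (nat_lit 33792625190) (nat_lit 76) (nat_lit 5) (nat_lit 80) (nat_lit 5) (nat_lit 81) (nat_lit 5) (nat_lit 361) (nat_lit 342) (nat_lit 197)) (XT.nd (nat_lit 78) (nat_lit 304) (nat_lit 0) (XT.lf (nat_lit 0) (nat_lit 26257801638) (nat_lit 380) (nat_lit 19776972705) (nat_lit 76) (nat_lit 7979295184) (nat_lit 76) (nat_lit 5) (nat_lit 81) (nat_lit 5) (nat_lit 77) (nat_lit 5) (nat_lit 362) (nat_lit 342) (nat_lit 196)) (XT.lf (nat_lit 0) (nat_lit 8886536308) (nat_lit 304) (nat_lit 25674699254) (nat_lit 380) (nat_lit 21046763135) (nat_lit 72) (nat_lit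 5) (nat_lit 76) (nat_lit 5) (nat_lit 77) (nat_lit 5) (nat_lit 363) (nat_lit 342) (nat_lit 195))))) (XT.nd (nat_lit 234) (nat_lit 532) (nat_lit 0) (XT.nd (nat_lit 78) (nat_lit 304) (nat_lit 0) (XT.lf (nat_lit 0) (nat_lit 39667689609) (nat_lit 304) (nat_lit 3945312633) (nat_lit 380) (nat_lit 13651965565) (nat_lit 72) (nat_lit 5) (nat_lit 76) (nat_lit 5) (nat_lit 77) (nat_lit 5) (nat_lit 364) (nat_lit 342) (nat_lit 194)) (XT.nd (nat_lit 78) (nat_lit 76) (nat_lit 0) (XT.lf (nat_lit 0) (nat_lit 13105840637) (nat_lit 228) (nat_lit 40509064878) (nat_lit 304) (nat_lit 5365003904) (nat_lit 69) (nat_lit 5) (nat_lit 72) (nat_lit 5) (nat_lit 73) (nat_lit 5) (nat_lit 365) (nat_lit 342) (nat_lit 193)) (XT.lf (nat_lit 0) (nat_lit 3595431447) (nat_lit 304) (nat_lit 14934439577) (nat_lit 76) (nat_lit 42229828547) (nat_lit 68) (nat_lit 5) (nat_lit 72) (nat_lit 5) (nat_lit 69) (nat_lit 5) (nat_lit 366) (nat_lit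 342) (nat_lit 192)))) (XT.nd (nat_lit 78) (nat_lit 228) (nat_lit 0) (XT.lf (nat_lit 0) (nat_lit 13180707405) (nat_lit 380) (nat_lit 44647586554) (nat_lit 76) (nat_lit 4777933081) (nat_lit 64) (nat_lit 5) (nat_lit 69) (nat_lit 5) (nat_lit 65) (nat_lit 5) (nat_lit 367) (nat_lit 342) (nat_lit 191)) (XT.nd (nat_lit 78) (nat_lit 228) (nat_lit 0) (XT.lf (nat_lit 0) (nat_lit 23804527765) (nat_lit 380) (nat_lit 11827564981) (nat_lit 76) (nat_lit 28885025309) (nat_lit 64) (nat_lit 5) (nat_lit 69) (nat_lit 5) (nat_lit 65) (nat_lit 5) (nat_lit 368) (nat_lit 342) (nat_lit 190)) (XT.lf (nat_lit 0) (nat_lit 23379775417) (nat_lit 228) (nat_lit 11943305639) (nat_lit 304) (nat_lit 31182296613) (nat_lit 61) (nat_lit 5) (nat_lit 64) (nat_lit 5) (nat_lit 65) (nat_lit 5) (nat_lit 369) (nat_lit 342) (nat_lit 189)))))) (XT.nd (nat_lit 468) (nat_lit 608) (nat_lit 0) (XT.nd (nat_lit 234) (nat_lit 456) (nat_lit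 0) (XT.nd (nat_lit 78) (nat_lit 304) (nat_lit 0) (XT.lf (nat_lit 0) (nat_lit 47821573860) (nat_lit 304) (nat_lit 8032096181) (nat_lit 76) (nat_lit 12719180721) (nat_lit 61) (nat_lit 5) (nat_lit 65) (nat_lit 5) (nat_lit 62) (nat_lit 5) (nat_lit 370) (nat_lit 342) (nat_lit 188)) (XT.nd (nat_lit 78) (nat_lit 76) (nat_lit 0) (XT.lf (nat_lit 0) (nat_lit 29564627558) (nat_lit 228) (nat_lit 32036361676) (nat_lit 304) (nat_lit 9109909416) (nat_lit 58) (nat_lit 5) (nat_lit 61) (nat_lit 5) (nat_lit 62) (nat_lit 5) (nat_lit 371) (nat_lit 342) (nat_lit 187)) (XT.lf (nat_lit 0) (nat_lit 3150764173) (nat_lit 304) (nat_lit 3681778333) (nat_lit 76) (nat_lit 66114032324) (nat_lit 57) (nat_lit 5) (nat_lit 61) (nat_lit 5) (nat_lit 58) (nat_lit 5) (nat_lit 372) (nat_lit 342) (nat_lit 186)))) (XT.nd (nat_lit 78) (nat_lit 228) (nat_lit 0) (XT.lf (nat_lit 0) (nat_lit 16608003695) (nat_lit 304) (nat_lit 38897628464)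 (nat_lit 76) (nat_lit 19736452170) (nat_lit 54) (nat_lit 5) (nat_lit 58) (nat_lit 5) (nat_lit 55) (nat_lit 5) (nat_lit 373) (nat_lit 342) (nat_lit 185)) (XT.nd (nat_lit 78) (nat_lit 0) (nat_lit 0) (XT.lf (nat_lit 0) (nat_lit 759999101) (nat_lit 228) (nat_lit 30164078554) (nat_lit 304) (nat_lit 46718993880) (nat_lit 51) (nat_lit 5) (nat_lit 54) (nat_lit 5) (nat_lit 55) (nat_lit 5) (nat_lit 374) (nat_lit 342) (nat_lit 184)) (XT.lf (nat_lit 0) (nat_lit 43749108315) (nat_lit 228) (nat_lit 2864352259) (nat_lit 304) (nat_lit 33517773077) (nat_lit 51) (nat_lit 5) (nat_lit 54) (nat_lit 5) (nat_lit 55) (nat_lit 5) (nat_lit 375) (nat_lit 342) (nat_lit 183))))) (XT.nd (nat_lit 234) (nat_lit 152) (nat_lit 0) (XT.nd (nat_lit 78) (nat_lit 304) (nat_lit 0) (XT.lf (nat_lit 0) (nat_lit 5929017472) (nat_lit 152) (nat_lit 57652485243) (nat_lit 228) (nat_lit 19137592427) (nat_lit 49) (nat_lit 5) (nat_lit 51)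 (nat_lit 5) (nat_lit 52) (nat_lit 5) (nat_lit 376) (nat_lit 342) (nat_lit 182)) (XT.nd (nat_lit 78) (nat_lit 304) (nat_lit 0) (XT.lf (nat_lit 0) (nat_lit 51568541224) (nat_lit 152) (nat_lit 30490588645) (nat_lit 228) (nat_lit 3344161433) (nat_lit 49) (nat_lit 5) (nat_lit 51) (nat_lit 5) (nat_lit 52) (nat_lit 5) (nat_lit 377) (nat_lit 342) (nat_lit 181)) (XT.lf (nat_lit 0) (nat_lit 11425612019) (nat_lit 228) (nat_lit 1566857511) (nat_lit 304) (nat_lit 75210030699) (nat_lit 45) (nat_lit 5) (nat_lit 48) (nat_lit 5) (nat_lit 49) (nat_lit 5) (nat_lit 378) (nat_lit 342) (nat_lit 180)))) (XT.nd (nat_lit 78) (nat_lit 152) (nat_lit 0) (XT.lf (nat_lit 0) (nat_lit 31064533524) (nat_lit 304) (nat_lit 31505017640) (nat_lit 76) (nat_lit 28517828598) (nat_lit 45) (nat_lit 5) (nat_lit 49) (nat_lit 5) (nat_lit 46) (nat_lit 5) (nat_lit 379) (nat_lit 342) (nat_lit 179)) (XT.nd (nat_lit 78) (nat_lit 0) (nat_lit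 0) (XT.lf (nat_lit 0) (nat_lit 16532233666) (nat_lit 152) (nat_lit 33790709938) (nat_lit 228) (nat_lit 43779423130) (nat_lit 43) (nat_lit 5) (nat_lit 45) (nat_lit 5) (nat_lit 46) (nat_lit 5) (nat_lit 380) (nat_lit 342) (nat_lit 178)) (XT.lf (nat_lit 0) (nat_lit 68063496078) (nat_lit 152) (nat_lit 3013297880) (nat_lit 228) (nat_lit 26164683687) (nat_lit 43) (nat_lit 5) (nat_lit 45) (nat_lit 5) (nat_lit 46) (nat_lit 5) (nat_lit 381) (nat_lit 342) (nat_lit 177))))))))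
noncomputable def xc201 : XT := (XT.nd (nat_lit 1794) (nat_lit 836) (nat_lit 0) (XT.nd (nat_lit 858) (nat_lit 760) (nat_lit 0) (XT.nd (nat_lit 390) (nat_lit 380) (nat_lit 0) (XT.nd (nat_lit 156) (nat_lit 304) (nat_lit 0) (XT.nd (nat_lit 78) (nat_lit 76) (nat_lit 0) (XT.lf (nat_lit 0) (nat_lit 21874808797) (nat_lit 152) (nat_lit 71791564110) (nat_lit 228) (nat_lit 6831269941) (nat_lit 41) (nat_lit 5) (nat_lit 43) (nat_lit 5) (nat_lit 44) (nat_lit 5) (nat_lit 382) (nat_lit 342) (nat_lit 176)) (XT.lf (nat_lit 0) (nat_lit 13588384202) (nat_lit 228) (nat_lit 27668066648) (nat_lit 76) (nat_lit 62622118867) (nat_lit 40) (nat_lit 5) (nat_lit 43) (nat_lit 5) (nat_lit 41) (nat_lit 5) (nat_lit 383) (nat_lit 342) (nat_lit 175))) (XT.nd (nat_lit 78) (nat_lit 152) (nat_lit 0) (XT.lf (nat_lit 0) (nat_lit 26571372538) (nat_lit 152) (nat_lit 8641987230) (nat_lit 228) (nat_lit 72188888530) (nat_lit 38) (nat_lit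 5) (nat_lit 40) (nat_lit 5) (nat_lit 41) (nat_lit 5) (nat_lit 384) (nat_lit 342) (nat_lit 174)) (XT.nd (nat_lit 78) (nat_lit 152) (nat_lit 0) (XT.lf (nat_lit 0) (nat_lit 58794648117) (nat_lit 228) (nat_lit 27004285910) (nat_lit 76) (nat_lit 25259424030) (nat_lit 38) (nat_lit 5) (nat_lit 41) (nat_lit 5) (nat_lit 39) (nat_lit 5) (nat_lit 385) (nat_lit 342) (nat_lit 173)) (XT.lf (nat_lit 0) (nat_lit 30341615076) (nat_lit 152) (nat_lit 53827892232) (nat_lit 228) (nat_lit 30697041108) (nat_lit 36) (nat_lit 5) (nat_lit 38) (nat_lit 5) (nat_lit 39) (nat_lit 5) (nat_lit 386) (nat_lit 342) (nat_lit 172))))) (XT.nd (nat_lit 234) (nat_lit 228) (nat_lit 0) (XT.nd (nat_lit 78) (nat_lit 152) (nat_lit 0) (XT.lf (nat_lit 0) (nat_lit 91490895010) (nat_lit 152) (nat_lit 19778681466) (nat_lit 228) (nat_lit 7572748877) (nat_lit 36) (nat_lit 5) (nat_lit 38) (nat_lit 5) (nat_lit 39) (nat_lit 5) (nat_lit 387)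 (nat_lit 342) (nat_lit 171)) (XT.nd (nat_lit 78) (nat_lit 0) (nat_lit 0) (XT.lf (nat_lit 0) (nat_lit 16957270246) (nat_lit 152) (nat_lit 89749577667) (nat_lit 76) (nat_lit 16257787606) (nat_lit 34) (nat_lit 5) (nat_lit 36) (nat_lit 5) (nat_lit 35) (nat_lit 5) (nat_lit 388) (nat_lit 342) (nat_lit 170)) (XT.lf (nat_lit 0) (nat_lit 43253513418) (nat_lit 152) (nat_lit 29967841100) (nat_lit 76) (nat_lit 54025789003) (nat_lit 34) (nat_lit 5) (nat_lit 36) (nat_lit 5) (nat_lit 35) (nat_lit 5) (nat_lit 389) (nat_lit 342) (nat_lit 169)))) (XT.nd (nat_lit 78) (nat_lit 76) (nat_lit 0) (XT.lf (nat_lit 0) (nat_lit 33886206777) (nat_lit 152) (nat_lit 37506633123) (nat_lit 228) (nat_lit 60324523803) (nat_lit 32) (nat_lit 5) (nat_lit 34) (nat_lit 5) (nat_lit 35) (nat_lit 5) (nat_lit 390) (nat_lit 342) (nat_lit 168)) (XT.nd (nat_lit 78) (nat_lit 76) (nat_lit 0) (XT.lf (nat_lit 0) (nat_lit 101454096861) (nat_lit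 228) (nat_lit 34421923925) (nat_lit 76) (nat_lit 509326224) (nat_lit 32) (nat_lit 5) (nat_lit 35) (nat_lit 5) (nat_lit 33) (nat_lit 4) (nat_lit 391) (nat_lit 342) (nat_lit 167)) (XT.lf (nat_lit 0) (nat_lit 32584526450) (nat_lit 76) (nat_lit 101556746629) (nat_lit 152) (nat_lit 7089313887) (nat_lit 31) (nat_lit 5) (nat_lit 32) (nat_lit 5) (nat_lit 33) (nat_lit 4) (nat_lit 392) (nat_lit 342) (nat_lit 166)))))) (XT.nd (nat_lit 468) (nat_lit 228) (nat_lit 0) (XT.nd (nat_lit 234) (nat_lit 304) (nat_lit 0) (XT.nd (nat_lit 78) (nat_lit 152) (nat_lit 0) (XT.lf (nat_lit 0) (nat_lit 22027719534) (nat_lit 152) (nat_lit 42509181909) (nat_lit 76) (nat_lit 81734312217) (nat_lit 30) (nat_lit 5) (nat_lit 32) (nat_lit 5) (nat_lit 31) (nat_lit 5) (nat_lit 393) (nat_lit 342) (nat_lit 165)) (XT.nd (nat_lit 78) (nat_lit 0) (nat_lit 0) (XT.lf (nat_lit 0) (nat_lit 27703784402) (nat_lit 152) (nat_lit 25090402821)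 (nat_lit 228) (nat_lit 98742282317) (nat_lit 28) (nat_lit 5) (nat_lit 30) (nat_lit 5) (nat_lit 31) (nat_lit 5) (nat_lit 394) (nat_lit 342) (nat_lit 164)) (XT.lf (nat_lit 0) (nat_lit 86084928863) (nat_lit 228) (nat_lit 54393743716) (nat_lit 76) (nat_lit 16537018357) (nat_lit 28) (nat_lit 5) (nat_lit 31) (nat_lit 5) (nat_lit 29) (nat_lit 4) (nat_lit 395) (nat_lit 342) (nat_lit 163)))) (XT.nd (nat_lit 78) (nat_lit 228) (nat_lit 0) (XT.lf (nat_lit 0) (nat_lit 18703268328) (nat_lit 76) (nat_lit 103039603704) (nat_lit 152) (nat_lit 40990868388) (nat_lit 27) (nat_lit 5) (nat_lit 28) (nat_lit 5) (nat_lit 29) (nat_lit 4) (nat_lit 396) (nat_lit 342) (nat_lit 162)) (XT.nd (nat_lit 78) (nat_lit 228) (nat_lit 0) (XT.lf (nat_lit 0) (nat_lit 97342398201) (nat_lit 76) (nat_lit 62761847963) (nat_lit 152) (nat_lit 8587419753) (nat_lit 27) (nat_lit 5) (nat_lit 28) (nat_lit 5) (nat_lit 29) (nat_lit 4) (nat_lit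 397) (nat_lit 342) (nat_lit 161)) (XT.lf (nat_lit 0) (nat_lit 4718770107) (nat_lit 152) (nat_lit 19976357183) (nat_lit 228) (nat_lit 150228851925) (nat_lit 24) (nat_lit 5) (nat_lit 26) (nat_lit 5) (nat_lit 27) (nat_lit 5) (nat_lit 398) (nat_lit 342) (nat_lit 160))))) (XT.nd (nat_lit 234) (nat_lit 152) (nat_lit 0) (XT.nd (nat_lit 78) (nat_lit 76) (nat_lit 0) (XT.lf (nat_lit 0) (nat_lit 60970240846) (nat_lit 228) (nat_lit 94891428593) (nat_lit 76) (nat_lit 25518348427) (nat_lit 24) (nat_lit 5) (nat_lit 27) (nat_lit 5) (nat_lit 25) (nat_lit 4) (nat_lit 399) (nat_lit 342) (nat_lit 159)) (XT.nd (nat_lit 78) (nat_lit 76) (nat_lit 0) (XT.lf (nat_lit 0) (nat_lit 99385996177) (nat_lit 228) (nat_lit 16140518145) (nat_lit 76) (nat_lit 72616000012) (nat_lit 24) (nat_lit 5) (nat_lit 27) (nat_lit 5) (nat_lit 25) (nat_lit 4) (nat_lit 400) (nat_lit 342) (nat_lit 158)) (XT.lf (nat_lit 0) (nat_lit 68747252743)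 (nat_lit 76) (nat_lit 72048056981) (nat_lit 152) (nat_lit 54394187556) (nat_lit 23) (nat_lit 5) (nat_lit 24) (nat_lit 5) (nat_lit 25) (nat_lit 4) (nat_lit 401) (nat_lit 342) (nat_lit 157)))) (XT.nd (nat_lit 78) (nat_lit 152) (nat_lit 0) (XT.lf (nat_lit 0) (nat_lit 158438764574) (nat_lit 76) (nat_lit 26109116257) (nat_lit 152) (nat_lit 18027309121) (nat_lit 23) (nat_lit 5) (nat_lit 24) (nat_lit 5) (nat_lit 25) (nat_lit 4) (nat_lit 402) (nat_lit 342) (nat_lit 156)) (XT.nd (nat_lit 78) (nat_lit 0) (nat_lit 0) (XT.lf (nat_lit 0) (nat_lit 20550825651) (nat_lit 152) (nat_lit 167285655148) (nat_lit 76) (nat_lit 22426045961) (nat_lit 21) (nat_lit 5) (nat_lit 23) (nat_lit 5) (nat_lit 22) (nat_lit 4) (nat_lit 403) (nat_lit 342) (nat_lit 155)) (XT.lf (nat_lit 0) (nat_lit 61639240792) (nat_lit 152) (nat_lit 83055491629) (nat_lit 76) (nat_lit 73565361181) (nat_lit 21) (nat_lit 5) (nat_lit 23) (nat_lit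 5) (nat_lit 22) (nat_lit 4) (nat_lit 404) (nat_lit 342) (nat_lit 154))))))) (XT.nd (nat_lit 936) (nat_lit 304) (nat_lit 0) (XT.nd (nat_lit 468) (nat_lit 304) (nat_lit 0) (XT.nd (nat_lit 234) (nat_lit 152) (nat_lit 0) (XT.nd (nat_lit 78) (nat_lit 0) (nat_lit 0) (XT.lf (nat_lit 0) (nat_lit 5563303673) (nat_lit 76) (nat_lit 99305122988) (nat_lit 152) (nat_lit 121784794764) (nat_lit 20) (nat_lit 5) (nat_lit 21) (nat_lit 5) (nat_lit 22) (nat_lit 4) (nat_lit 405) (nat_lit 342) (nat_lit 153)) (XT.nd (nat_lit 78) (nat_lit 0) (nat_lit 0) (XT.lf (nat_lit 0) (nat_lit 101495616124) (nat_lit 76) (nat_lit 50169541690) (nat_lit 152) (nat_lit 83730543663) (nat_lit 20) (nat_lit 5) (nat_lit 21) (nat_lit 5) (nat_lit 22) (nat_lit 4) (nat_lit 406) (nat_lit 342) (nat_lit 152)) (XT.lf (nat_lit 0) (nat_lit 200823458233) (nat_lit 152) (nat_lit 42373870970) (nat_lit 0) (nat_lit 1376889819) (nat_lit 20) (nat_lit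 5) (nat_lit 22) (nat_lit 4) (nat_lit 20) (nat_lit 4) (nat_lit 407) (nat_lit 342) (nat_lit 151)))) (XT.nd (nat_lit 78) (nat_lit 76) (nat_lit 0) (XT.lf (nat_lit 0) (nat_lit 54654639612) (nat_lit 76) (nat_lit 199460339108) (nat_lit 76) (nat_lit 12918594) (nat_lit 19) (nat_lit 4) (nat_lit 20) (nat_lit 5) (nat_lit 20) (nat_lit 4) (nat_lit 408) (nat_lit 342) (nat_lit 150)) (XT.nd (nat_lit 78) (nat_lit 0) (nat_lit 0) (XT.lf (nat_lit 0) (nat_lit 45171279885) (nat_lit 152) (nat_lit 106847108270) (nat_lit 76) (nat_lit 112068584418) (nat_lit 18) (nat_lit 5) (nat_lit 20) (nat_lit 5) (nat_lit 19) (nat_lit 4) (nat_lit 409) (nat_lit 342) (nat_lit 149)) (XT.lf (nat_lit 0) (nat_lit 92613818616) (nat_lit 152) (nat_lit 9590676752) (nat_lit 76) (nat_lit 172339517521) (nat_lit 18) (nat_lit 5) (nat_lit 20) (nat_lit 5) (nat_lit 19) (nat_lit 4) (nat_lit 410) (nat_lit 342) (nat_lit 148))))) (XT.nd (nat_lit 234)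 (nat_lit 152) (nat_lit 0) (XT.nd (nat_lit 78) (nat_lit 76) (nat_lit 0) (XT.lf (nat_lit 0) (nat_lit 95587188465) (nat_lit 76) (nat_lit 48333264928) (nat_lit 152) (nat_lit 141528853472) (nat_lit 17) (nat_lit 5) (nat_lit 18) (nat_lit 5) (nat_lit 19) (nat_lit 4) (nat_lit 411) (nat_lit 342) (nat_lit 147)) (XT.nd (nat_lit 78) (nat_lit 76) (nat_lit 0) (XT.lf (nat_lit 0) (nat_lit 198085610049) (nat_lit 152) (nat_lit 90666787948) (nat_lit 0) (nat_lit 8132808129) (nat_lit 17) (nat_lit 5) (nat_lit 19) (nat_lit 4) (nat_lit 17) (nat_lit 4) (nat_lit 412) (nat_lit 342) (nat_lit 146)) (XT.lf (nat_lit 0) (nat_lit 13114981488) (nat_lit 76) (nat_lit 242840760426) (nat_lit 76) (nat_lit 52887322658) (nat_lit 16) (nat_lit 4) (nat_lit 17) (nat_lit 5) (nat_lit 17) (nat_lit 4) (nat_lit 413) (nat_lit 342) (nat_lit 145)))) (XT.nd (nat_lit 78) (nat_lit 152) (nat_lit 0) (XT.lf (nat_lit 0) (nat_lit 125232857238) (nat_lit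 76) (nat_lit 193021623554) (nat_lit 76) (nat_lit 3067580215) (nat_lit 16) (nat_lit 4) (nat_lit 17) (nat_lit 5) (nat_lit 17) (nat_lit 4) (nat_lit 414) (nat_lit 342) (nat_lit 144)) (XT.nd (nat_lit 78) (nat_lit 76) (nat_lit 0) (XT.lf (nat_lit 0) (nat_lit 47666687793) (nat_lit 152) (nat_lit 92237910096) (nat_lit 76) (nat_lit 194481986936) (nat_lit 15) (nat_lit 5) (nat_lit 17) (nat_lit 5) (nat_lit 16) (nat_lit 4) (nat_lit 415) (nat_lit 342) (nat_lit 143)) (XT.lf (nat_lit 0) (nat_lit 17308983196) (nat_lit 76) (nat_lit 83795481457) (nat_lit 152) (nat_lit 246983861533) (nat_lit 14) (nat_lit 5) (nat_lit 15) (nat_lit 5) (nat_lit 16) (nat_lit 4) (nat_lit 416) (nat_lit 342) (nat_lit 142)))))) (XT.nd (nat_lit 468) (nat_lit 152) (nat_lit 0) (XT.nd (nat_lit 234) (nat_lit 152) (nat_lit 0) (XT.nd (nat_lit 78) (nat_lit 0) (nat_lit 0) (XT.lf (nat_lit 0) (nat_lit 135534851537) (nat_lit 76) (nat_lit 23241023582)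 (nat_lit 152) (nat_lit 203621192329) (nat_lit 14) (nat_lit 5) (nat_lit 15) (nat_lit 5) (nat_lit 16) (nat_lit 4) (nat_lit 417) (nat_lit 342) (nat_lit 141)) (XT.nd (nat_lit 78) (nat_lit 0) (nat_lit 0) (XT.lf (nat_lit 0) (nat_lit 219960357717) (nat_lit 152) (nat_lit 118379713102) (nat_lit 0) (nat_lit 39049699941) (nat_lit 14) (nat_lit 5) (nat_lit 16) (nat_lit 4) (nat_lit 14) (nat_lit 4) (nat_lit 418) (nat_lit 342) (nat_lit 140)) (XT.lf (nat_lit 0) (nat_lit 284584743961) (nat_lit 152) (nat_lit 4854697066) (nat_lit 0) (nat_lit 103673634299) (nat_lit 14) (nat_lit 5) (nat_lit 16) (nat_lit 4) (nat_lit 14) (nat_lit 4) (nat_lit 419) (nat_lit 342) (nat_lit 139)))) (XT.nd (nat_lit 78) (nat_lit 76) (nat_lit 0) (XT.lf (nat_lit 0) (nat_lit 118126782107) (nat_lit 76) (nat_lit 236157551939) (nat_lit 76) (nat_lit 55246011909) (nat_lit 13) (nat_lit 4) (nat_lit 14) (nat_lit 5) (nat_lit 14) (nat_lit 4) (nat_lit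 420) (nat_lit 342) (nat_lit 138)) (XT.nd (nat_lit 78) (nat_lit 0) (nat_lit 0) (XT.lf (nat_lit 0) (nat_lit 761265092) (nat_lit 152) (nat_lit 179351356464) (nat_lit 76) (nat_lit 246651148861) (nat_lit 12) (nat_lit 5) (nat_lit 14) (nat_lit 5) (nat_lit 13) (nat_lit 4) (nat_lit 421) (nat_lit 342) (nat_lit 137)) (XT.lf (nat_lit 0) (nat_lit 57711987238) (nat_lit 152) (nat_lit 62602766420) (nat_lit 76) (nat_lit 324498843403) (nat_lit 12) (nat_lit 5) (nat_lit 14) (nat_lit 5) (nat_lit 13) (nat_lit 4) (nat_lit 422) (nat_lit 342) (nat_lit 136))))) (XT.nd (nat_lit 234) (nat_lit 76) (nat_lit 0) (XT.nd (nat_lit 78) (nat_lit 0) (nat_lit 0) (XT.lf (nat_lit 0) (nat_lit 61966023939) (nat_lit 76) (nat_lit 56511408239) (nat_lit 152) (nat_lit 345240123575) (nat_lit 11) (nat_lit 5) (nat_lit 12) (nat_lit 5) (nat_lit 13) (nat_lit 4) (nat_lit 423) (nat_lit 342) (nat_lit 135)) (XT.nd (nat_lit 78) (nat_lit 0) (nat_lit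 0) (XT.lf (nat_lit 0) (nat_lit 183522117551) (nat_lit 152) (nat_lit 288758587100) (nat_lit 0) (nat_lit 11223959367) (nat_lit 11) (nat_lit 5) (nat_lit 13) (nat_lit 4) (nat_lit 11) (nat_lit 4) (nat_lit 424) (nat_lit 342) (nat_lit 134)) (XT.lf (nat_lit 0) (nat_lit 252745191392) (nat_lit 152) (nat_lit 171042916580) (nat_lit 0) (nat_lit 80446712061) (nat_lit 11) (nat_lit 5) (nat_lit 13) (nat_lit 4) (nat_lit 11) (nat_lit 4) (nat_lit 425) (nat_lit 342) (nat_lit 133)))) (XT.nd (nat_lit 78) (nat_lit 76) (nat_lit 0) (XT.lf (nat_lit 0) (nat_lit 325429169089) (nat_lit 152) (nat_lit 47441943391) (nat_lit 0) (nat_lit 153130383904) (nat_lit 11) (nat_lit 5) (nat_lit 13) (nat_lit 4) (nat_lit 11) (nat_lit 4) (nat_lit 426) (nat_lit 342) (nat_lit 132)) (XT.nd (nat_lit 78) (nat_lit 0) (nat_lit 0) (XT.lf (nat_lit 0) (nat_lit 85061107142) (nat_lit 76) (nat_lit 318014042856) (nat_lit 76) (nat_lit 145714966380)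 (nat_lit 10) (nat_lit 4) (nat_lit 11) (nat_lit 5) (nat_lit 11) (nat_lit 4) (nat_lit 427) (nat_lit 342) (nat_lit 131)) (XT.lf (nat_lit 0) (nat_lit 225835936776) (nat_lit 76) (nat_lit 259570711799) (nat_lit 76) (nat_lit 87271357904) (nat_lit 10) (nat_lit 4) (nat_lit 11) (nat_lit 5) (nat_lit 11) (nat_lit 4) (nat_lit 428) (nat_lit 342) (nat_lit 130))))))))
noncomputable def xc202 : XT := (XT.nd (nat_lit 1794) (nat_lit 2888) (nat_lit 0) (XT.nd (nat_lit 858) (nat_lit 2128) (nat_lit 0) (XT.nd (nat_lit 390) (nat_lit 0) (nat_lit 152) (XT.nd (nat_lit 156) (nat_lit 0) (nat_lit 76) (XT.nd (nat_lit 78) (nat_lit 0) (nat_lit 0) (XT.lf (nat_lit 0) (nat_lit 1417844343) (nat_lit 836) (nat_lit 7604134499) (nat_lit 836) (nat_lit 7604134499) (nat_lit 100) (nat_lit 3) (nat_lit 111) (nat_lit 3) (nat_lit 111) (nat_lit 5) (nat_lit 343) (nat_lit 343) (nat_lit 214)) (XT.lf (nat_lit 76) (nat_lit 541310400) (nat_lit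 0) (nat_lit 2431074013) (nat_lit 836) (nat_lit 31107797222) (nat_lit 101) (nat_lit 5) (nat_lit 100) (nat_lit 3) (nat_lit 111) (nat_lit 5) (nat_lit 344) (nat_lit 343) (nat_lit 213))) (XT.nd (nat_lit 78) (nat_lit 0) (nat_lit 0) (XT.lf (nat_lit 0) (nat_lit 3592013955) (nat_lit 760) (nat_lit 17554714972) (nat_lit 836) (nat_lit 13779004330) (nat_lit 101) (nat_lit 5) (nat_lit 111) (nat_lit 5) (nat_lit 112) (nat_lit 5) (nat_lit 345) (nat_lit 343) (nat_lit 212)) (XT.nd (nat_lit 78) (nat_lit 0) (nat_lit 76) (XT.lf (nat_lit 0) (nat_lit 4278977993) (nat_lit 760) (nat_lit 813308204) (nat_lit 836) (nat_lit 30719462302) (nat_lit 101) (nat_lit 5) (nat_lit 111) (nat_lit 5) (nat_lit 112) (nat_lit 5) (nat_lit 346) (nat_lit 343) (nat_lit 211)) (XT.lf (nat_lit 0) (nat_lit 5455465768) (nat_lit 760) (nat_lit 19599420497) (nat_lit 836) (nat_lit 11664422977) (nat_lit 102) (nat_lit 5) (nat_lit 112) (nat_lit 5)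 (nat_lit 113) (nat_lit 5) (nat_lit 347) (nat_lit 343) (nat_lit 210))))) (XT.nd (nat_lit 234) (nat_lit 0) (nat_lit 152) (XT.nd (nat_lit 78) (nat_lit 0) (nat_lit 76) (XT.lf (nat_lit 0) (nat_lit 6785070909) (nat_lit 760) (nat_lit 1779437542) (nat_lit 836) (nat_lit 29103028269) (nat_lit 102) (nat_lit 5) (nat_lit 112) (nat_lit 5) (nat_lit 113) (nat_lit 5) (nat_lit 348) (nat_lit 343) (nat_lit 209)) (XT.nd (nat_lit 78) (nat_lit 0) (nat_lit 0) (XT.lf (nat_lit 0) (nat_lit 8592287474) (nat_lit 760) (nat_lit 21301528908) (nat_lit 836) (nat_lit 8748805821) (nat_lit 103) (nat_lit 5) (nat_lit 113) (nat_lit 5) (nat_lit 114) (nat_lit 5) (nat_lit 349) (nat_lit 343) (nat_lit 208)) (XT.lf (nat_lit 0) (nat_lit 10657988477) (nat_lit 760) (nat_lit 2328603904) (nat_lit 836) (nat_lit 26671466434) (nat_lit 103) (nat_lit 5) (nat_lit 113) (nat_lit 5) (nat_lit 114) (nat_lit 5) (nat_lit 350) (nat_lit 343) (nat_lit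 207)))) (XT.nd (nat_lit 78) (nat_lit 0) (nat_lit 0) (XT.lf (nat_lit 0) (nat_lit 13187001711) (nat_lit 760) (nat_lit 22616771096) (nat_lit 836) (nat_lit 4902495985) (nat_lit 104) (nat_lit 5) (nat_lit 114) (nat_lit 5) (nat_lit 115) (nat_lit 5) (nat_lit 351) (nat_lit 343) (nat_lit 206)) (XT.nd (nat_lit 78) (nat_lit 0) (nat_lit 0) (XT.lf (nat_lit 0) (nat_lit 16092783446) (nat_lit 760) (nat_lit 2411300904) (nat_lit 836) (nat_lit 23290291779) (nat_lit 104) (nat_lit 5) (nat_lit 114) (nat_lit 5) (nat_lit 115) (nat_lit 5) (nat_lit 352) (nat_lit 343) (nat_lit 205)) (XT.lf (nat_lit 76) (nat_lit 19424047691) (nat_lit 0) (nat_lit 20537403) (nat_lit 836) (nat_lit 23477269821) (nat_lit 105) (nat_lit 5) (nat_lit 104) (nat_lit 5) (nat_lit 115) (nat_lit 5) (nat_lit 353) (nat_lit 343) (nat_lit 204)))))) (XT.nd (nat_lit 468) (nat_lit 988) (nat_lit 0) (XT.nd (nat_lit 234) (nat_lit 760) (nat_lit 0) (XT.nd (nat_lit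 78) (nat_lit 760) (nat_lit 0) (XT.lf (nat_lit 0) (nat_lit 23305732850) (nat_lit 760) (nat_lit 1974328082) (nat_lit 76) (nat_lit 18808561406) (nat_lit 105) (nat_lit 5) (nat_lit 115) (nat_lit 5) (nat_lit 106) (nat_lit 5) (nat_lit 354) (nat_lit 343) (nat_lit 203)) (XT.nd (nat_lit 78) (nat_lit 0) (nat_lit 0) (XT.lf (nat_lit 0) (nat_lit 21304795675) (nat_lit 760) (nat_lit 6385784378) (nat_lit 836) (nat_lit 17606618354) (nat_lit 95) (nat_lit 5) (nat_lit 105) (nat_lit 5) (nat_lit 106) (nat_lit 5) (nat_lit 355) (nat_lit 343) (nat_lit 202)) (XT.lf (nat_lit 0) (nat_lit 32536455747) (nat_lit 836) (nat_lit 960865194) (nat_lit 76) (nat_lit 13056795298) (nat_lit 95) (nat_lit 5) (nat_lit 106) (nat_lit 5) (nat_lit 96) (nat_lit 5) (nat_lit 356) (nat_lit 343) (nat_lit 201)))) (XT.nd (nat_lit 78) (nat_lit 380) (nat_lit 0) (XT.lf (nat_lit 0) (nat_lit 23879807021) (nat_lit 380) (nat_lit 14220200139) (nat_lit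 456) (nat_lit 9750105864) (nat_lit 90) (nat_lit 5) (nat_lit 95) (nat_lit 5) (nat_lit 96) (nat_lit 5) (nat_lit 357) (nat_lit 343) (nat_lit 200)) (XT.nd (nat_lit 78) (nat_lit 76) (nat_lit 0) (XT.lf (nat_lit 0) (nat_lit 712169039) (nat_lit 304) (nat_lit 43349163512) (nat_lit 380) (nat_lit 5143599332) (nat_lit 86) (nat_lit 5) (nat_lit 90) (nat_lit 5) (nat_lit 91) (nat_lit 5) (nat_lit 358) (nat_lit 343) (nat_lit 199)) (XT.lf (nat_lit 0) (nat_lit 346740278) (nat_lit 380) (nat_lit 23383382373) (nat_lit 76) (nat_lit 26865425910) (nat_lit 85) (nat_lit 5) (nat_lit 90) (nat_lit 5) (nat_lit 86) (nat_lit 5) (nat_lit 359) (nat_lit 343) (nat_lit 198))))) (XT.nd (nat_lit 234) (nat_lit 304) (nat_lit 0) (XT.nd (nat_lit 78) (nat_lit 304) (nat_lit 0) (XT.lf (nat_lit 0) (nat_lit 2990806082) (nat_lit 380) (nat_lit 2992691381) (nat_lit 456) (nat_lit 46065746357) (nat_lit 80) (nat_lit 5) (nat_lit 85) (nat_lit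 5) (nat_lit 86) (nat_lit 5) (nat_lit 360) (nat_lit 343) (nat_lit 197)) (XT.nd (nat_lit 78) (nat_lit 304) (nat_lit 0) (XT.lf (nat_lit 0) (nat_lit 12595949369) (nat_lit 456) (nat_lit 22362150677) (nat_lit 76) (nat_lit 18582832644) (nat_lit 80) (nat_lit 5) (nat_lit 86) (nat_lit 5) (nat_lit 81) (nat_lit 5) (nat_lit 361) (nat_lit 343) (nat_lit 196)) (XT.lf (nat_lit 0) (nat_lit 5803619497) (nat_lit 304) (nat_lit 13873287487) (nat_lit 380) (nat_lit 35423406473) (nat_lit 76) (nat_lit 5) (nat_lit 80) (nat_lit 5) (nat_lit 81) (nat_lit 5) (nat_lit 362) (nat_lit 343) (nat_lit 195)))) (XT.nd (nat_lit 78) (nat_lit 304) (nat_lit 0) (XT.lf (nat_lit 0) (nat_lit 27624148428) (nat_lit 380) (nat_lit 20702020616) (nat_lit 76) (nat_lit 8385883955) (nat_lit 76) (nat_lit 5) (nat_lit 81) (nat_lit 5) (nat_lit 77) (nat_lit 5) (nat_lit 363) (nat_lit 343) (nat_lit 194)) (XT.nd (nat_lit 78) (nat_lit 0) (nat_lit 0) (XT.lf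 (nat_lit 0) (nat_lit 9393634804) (nat_lit 304) (nat_lit 26947553728) (nat_lit 380) (nat_lit 22044570617) (nat_lit 72) (nat_lit 5) (nat_lit 76) (nat_lit 5) (nat_lit 77) (nat_lit 5) (nat_lit 364) (nat_lit 343) (nat_lit 193)) (XT.lf (nat_lit 0) (nat_lit 41710856642) (nat_lit 304) (nat_lit 4132215894) (nat_lit 380) (nat_lit 14282629867) (nat_lit 72) (nat_lit 5) (nat_lit 76) (nat_lit 5) (nat_lit 77) (nat_lit 5) (nat_lit 365) (nat_lit 343) (nat_lit 192))))))) (XT.nd (nat_lit 936) (nat_lit 1140) (nat_lit 0) (XT.nd (nat_lit 468) (nat_lit 912) (nat_lit 0) (XT.nd (nat_lit 234) (nat_lit 228) (nat_lit 0) (XT.nd (nat_lit 78) (nat_lit 380) (nat_lit 0) (XT.lf (nat_lit 0) (nat_lit 13822265059) (nat_lit 228) (nat_lit 42521561103) (nat_lit 304) (nat_lit 5582629213) (nat_lit 69) (nat_lit 5) (nat_lit 72) (nat_lit 5) (nat_lit 73) (nat_lit 5) (nat_lit 366) (nat_lit 343) (nat_lit 191)) (XT.nd (nat_lit 78) (nat_lit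 304) (nat_lit 0) (XT.lf (nat_lit 0) (nat_lit 3821874042) (nat_lit 304) (nat_lit 15621360119) (nat_lit 76) (nat_lit 44352079880) (nat_lit 68) (nat_lit 5) (nat_lit 72) (nat_lit 5) (nat_lit 69) (nat_lit 5) (nat_lit 367) (nat_lit 343) (nat_lit 190)) (XT.lf (nat_lit 0) (nat_lit 13885320277) (nat_lit 380) (nat_lit 46819035726) (nat_lit 76) (nat_lit 5029868317) (nat_lit 64) (nat_lit 5) (nat_lit 69) (nat_lit 5) (nat_lit 65) (nat_lit 5) (nat_lit 368) (nat_lit 343) (nat_lit 189)))) (XT.nd (nat_lit 78) (nat_lit 228) (nat_lit 0) (XT.lf (nat_lit 0) (nat_lit 25038161297) (nat_lit 380) (nat_lit 12360914510) (nat_lit 76) (nat_lit 30341694272) (nat_lit 64) (nat_lit 5) (nat_lit 69) (nat_lit 5) (nat_lit 65) (nat_lit 5) (nat_lit 369) (nat_lit 343) (nat_lit 188)) (XT.nd (nat_lit 78) (nat_lit 0) (nat_lit 0) (XT.lf (nat_lit 0) (nat_lit 24605856961) (nat_lit 228) (nat_lit 12525609664) (nat_lit 304) (nat_lit 32697036427)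 (nat_lit 61) (nat_lit 5) (nat_lit 64) (nat_lit 5) (nat_lit 65) (nat_lit 5) (nat_lit 370) (nat_lit 343) (nat_lit 187)) (XT.lf (nat_lit 0) (nat_lit 50253094020) (nat_lit 304) (nat_lit 8377506467) (nat_lit 76) (nat_lit 13368840333) (nat_lit 61) (nat_lit 5) (nat_lit 65) (nat_lit 5) (nat_lit 62) (nat_lit 5) (nat_lit 371) (nat_lit 343) (nat_lit 186))))) (XT.nd (nat_lit 234) (nat_lit 380) (nat_lit 0) (XT.nd (nat_lit 78) (nat_lit 304) (nat_lit 0) (XT.lf (nat_lit 0) (nat_lit 31098147096) (nat_lit 228) (nat_lit 33622270488) (nat_lit 304) (nat_lit 9524028098) (nat_lit 58) (nat_lit 5) (nat_lit 61) (nat_lit 5) (nat_lit 62) (nat_lit 5) (nat_lit 372) (nat_lit 343) (nat_lit 185)) (XT.nd (nat_lit 78) (nat_lit 228) (nat_lit 0) (XT.lf (nat_lit 0) (nat_lit 3346447594) (nat_lit 304) (nat_lit 3811924341) (nat_lit 76) (nat_lit 69433598110) (nat_lit 57) (nat_lit 5) (nat_lit 61) (nat_lit 5) (nat_lit 58) (nat_lit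 5) (nat_lit 373) (nat_lit 343) (nat_lit 184)) (XT.lf (nat_lit 0) (nat_lit 17475809755) (nat_lit 304) (nat_lit 40787802627) (nat_lit 76) (nat_lit 20738680856) (nat_lit 54) (nat_lit 5) (nat_lit 58) (nat_lit 5) (nat_lit 55) (nat_lit 5) (nat_lit 374) (nat_lit 343) (nat_lit 183)))) (XT.nd (nat_lit 78) (nat_lit 152) (nat_lit 0) (XT.lf (nat_lit 0) (nat_lit 851823942) (nat_lit 228) (nat_lit 31654922596) (nat_lit 304) (nat_lit 49016631500) (nat_lit 51) (nat_lit 5) (nat_lit 54) (nat_lit 5) (nat_lit 55) (nat_lit 5) (nat_lit 375) (nat_lit 343) (nat_lit 182)) (XT.nd (nat_lit 78) (nat_lit 152) (nat_lit 0) (XT.lf (nat_lit 0) (nat_lit 45987825526) (nat_lit 228) (nat_lit 2991036648) (nat_lit 304) (nat_lit 35157174042) (nat_lit 51) (nat_lit 5) (nat_lit 54) (nat_lit 5) (nat_lit 55) (nat_lit 5) (nat_lit 376) (nat_lit 343) (nat_lit 181)) (XT.lf (nat_lit 0) (nat_lit 6277380116) (nat_lit 152) (nat_lit 60517328891)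 (nat_lit 228) (nat_lit 20058612726) (nat_lit 49) (nat_lit 5) (nat_lit 51) (nat_lit 5) (nat_lit 52) (nat_lit 5) (nat_lit 377) (nat_lit 343) (nat_lit 180)))))) (XT.nd (nat_lit 468) (nat_lit 532) (nat_lit 0) (XT.nd (nat_lit 234) (nat_lit 304) (nat_lit 0) (XT.nd (nat_lit 78) (nat_lit 304) (nat_lit 0) (XT.lf (nat_lit 0) (nat_lit 54196408066) (nat_lit 152) (nat_lit 31998184159) (nat_lit 228) (nat_lit 3477217769) (nat_lit 49) (nat_lit 5) (nat_lit 51) (nat_lit 5) (nat_lit 52) (nat_lit 5) (nat_lit 378) (nat_lit 343) (nat_lit 179)) (XT.nd (nat_lit 78) (nat_lit 0) (nat_lit 0) (XT.lf (nat_lit 0) (nat_lit 12046629708) (nat_lit 228) (nat_lit 1627724279) (nat_lit 304) (nat_lit 78936639539) (nat_lit 45) (nat_lit 5) (nat_lit 48) (nat_lit 5) (nat_lit 49) (nat_lit 5) (nat_lit 379) (nat_lit 343) (nat_lit 178)) (XT.lf (nat_lit 0) (nat_lit 32648744802) (nat_lit 304) (nat_lit 33031605710) (nat_lit 76) (nat_lit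 29959831231) (nat_lit 45) (nat_lit 5) (nat_lit 49) (nat_lit 5) (nat_lit 46) (nat_lit 5) (nat_lit 380) (nat_lit 343) (nat_lit 177)))) (XT.nd (nat_lit 78) (nat_lit 152) (nat_lit 0) (XT.lf (nat_lit 0) (nat_lit 17406723277) (nat_lit 152) (nat_lit 35462624160) (nat_lit 228) (nat_lit 45936607870) (nat_lit 43) (nat_lit 5) (nat_lit 45) (nat_lit 5) (nat_lit 46) (nat_lit 5) (nat_lit 381) (nat_lit 343) (nat_lit 176)) (XT.nd (nat_lit 78) (nat_lit 152) (nat_lit 0) (XT.lf (nat_lit 0) (nat_lit 71512268908) (nat_lit 152) (nat_lit 3147180607) (nat_lit 228) (nat_lit 27442645094) (nat_lit 43) (nat_lit 5) (nat_lit 45) (nat_lit 5) (nat_lit 46) (nat_lit 5) (nat_lit 382) (nat_lit 343) (nat_lit 175)) (XT.lf (nat_lit 0) (nat_lit 23014587439) (nat_lit 152) (nat_lit 75363516114) (nat_lit 228) (nat_lit 7142985480) (nat_lit 41) (nat_lit 5) (nat_lit 43) (nat_lit 5) (nat_lit 44) (nat_lit 5) (nat_lit 383) (nat_lit 343)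 (nat_lit 174))))) (XT.nd (nat_lit 234) (nat_lit 304) (nat_lit 0) (XT.nd (nat_lit 78) (nat_lit 152) (nat_lit 0) (XT.lf (nat_lit 0) (nat_lit 14295320209) (nat_lit 228) (nat_lit 29006700315) (nat_lit 76) (nat_lit 65769087911) (nat_lit 40) (nat_lit 5) (nat_lit 43) (nat_lit 5) (nat_lit 41) (nat_lit 5) (nat_lit 384) (nat_lit 343) (nat_lit 173)) (XT.nd (nat_lit 78) (nat_lit 0) (nat_lit 0) (XT.lf (nat_lit 0) (nat_lit 27943988739) (nat_lit 152) (nat_lit 9056933196) (nat_lit 228) (nat_lit 75770080802) (nat_lit 38) (nat_lit 5) (nat_lit 40) (nat_lit 5) (nat_lit 41) (nat_lit 5) (nat_lit 385) (nat_lit 343) (nat_lit 172)) (XT.lf (nat_lit 0) (nat_lit 61760249087) (nat_lit 228) (nat_lit 28311511885) (nat_lit 76) (nat_lit 26538208926) (nat_lit 38) (nat_lit 5) (nat_lit 41) (nat_lit 5) (nat_lit 39) (nat_lit 5) (nat_lit 386) (nat_lit 343) (nat_lit 171)))) (XT.nd (nat_lit 78) (nat_lit 152) (nat_lit 0) (XT.lf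 (nat_lit 0) (nat_lit 31900990790) (nat_lit 152) (nat_lit 56502288953) (nat_lit 228) (nat_lit 32205319208) (nat_lit 36) (nat_lit 5) (nat_lit 38) (nat_lit 5) (nat_lit 39) (nat_lit 5) (nat_lit 387) (nat_lit 343) (nat_lit 170)) (XT.nd (nat_lit 78) (nat_lit 152) (nat_lit 0) (XT.lf (nat_lit 0) (nat_lit 96105720675) (nat_lit 152) (nat_lit 20751427072) (nat_lit 228) (nat_lit 7926077791) (nat_lit 36) (nat_lit 5) (nat_lit 38) (nat_lit 5) (nat_lit 39) (nat_lit 5) (nat_lit 388) (nat_lit 343) (nat_lit 169)) (XT.lf (nat_lit 0) (nat_lit 17829354258) (nat_lit 152) (nat_lit 94195666297) (nat_lit 76) (nat_lit 17086625320) (nat_lit 34) (nat_lit 5) (nat_lit 36) (nat_lit 5) (nat_lit 35) (nat_lit 5) (nat_lit 389) (nat_lit 343) (nat_lit 168))))))))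
noncomputable def xc203 : XT := (XT.nd (nat_lit 1794) (nat_lit 532) (nat_lit 0) (XT.nd (nat_lit 858) (nat_lit 532) (nat_lit 0) (XT.nd (nat_lit 390) (nat_lit 456) (nat_lit 0) (XT.nd (nat_lit 156) (nat_lit 152) (nat_lit 0) (XT.nd (nat_lit 78) (nat_lit 152) (nat_lit 0) (XT.lf (nat_lit 0) (nat_lit 45439256232) (nat_lit 152) (nat_lit 31426813866) (nat_lit 76) (nat_lit 56742267343) (nat_lit 34) (nat_lit 5) (nat_lit 36) (nat_lit 5) (nat_lit 35) (nat_lit 5) (nat_lit 390) (nat_lit 343) (nat_lit 167)) (XT.lf (nat_lit 0) (nat_lit 35619300610) (nat_lit 152) (nat_lit 39365755511) (nat_lit 228) (nat_lit 63317037628) (nat_lit 32) (nat_lit 5) (nat_lit 34) (nat_lit 5) (nat_lit 35) (nat_lit 5) (nat_lit 391) (nat_lit 343) (nat_lit 166))) (XT.nd (nat_lit 78) (nat_lit 152) (nat_lit 0) (XT.lf (nat_lit 0) (nat_lit 106548541988) (nat_lit 228) (nat_lit 36105240539) (nat_lit 76) (nat_lit 549735839) (nat_lit 32)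 (nat_lit 5) (nat_lit 35) (nat_lit 5) (nat_lit 33) (nat_lit 4) (nat_lit 392) (nat_lit 343) (nat_lit 165)) (XT.nd (nat_lit 78) (nat_lit 76) (nat_lit 0) (XT.lf (nat_lit 0) (nat_lit 34250923006) (nat_lit 76) (nat_lit 106618699091) (nat_lit 152) (nat_lit 7421421398) (nat_lit 31) (nat_lit 5) (nat_lit 32) (nat_lit 5) (nat_lit 33) (nat_lit 4) (nat_lit 393) (nat_lit 343) (nat_lit 164)) (XT.lf (nat_lit 0) (nat_lit 23149717494) (nat_lit 152) (nat_lit 44598551501) (nat_lit 76) (nat_lit 85835466994) (nat_lit 30) (nat_lit 5) (nat_lit 32) (nat_lit 5) (nat_lit 31) (nat_lit 5) (nat_lit 394) (nat_lit 343) (nat_lit 163))))) (XT.nd (nat_lit 234) (nat_lit 228) (nat_lit 0) (XT.nd (nat_lit 78) (nat_lit 76) (nat_lit 0) (XT.lf (nat_lit 0) (nat_lit 29124481037) (nat_lit 152) (nat_lit 26329600378) (nat_lit 228) (nat_lit 103658194974) (nat_lit 28) (nat_lit 5) (nat_lit 30) (nat_lit 5) (nat_lit 31) (nat_lit 5) (nat_lit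 395) (nat_lit 343) (nat_lit 162)) (XT.nd (nat_lit 78) (nat_lit 76) (nat_lit 0) (XT.lf (nat_lit 0) (nat_lit 90408626791) (nat_lit 228) (nat_lit 57078873935) (nat_lit 76) (nat_lit 17377995148) (nat_lit 28) (nat_lit 5) (nat_lit 31) (nat_lit 5) (nat_lit 29) (nat_lit 4) (nat_lit 396) (nat_lit 343) (nat_lit 161)) (XT.lf (nat_lit 0) (nat_lit 19672431341) (nat_lit 76) (nat_lit 108176640345) (nat_lit 152) (nat_lit 43020396253) (nat_lit 27) (nat_lit 5) (nat_lit 28) (nat_lit 5) (nat_lit 29) (nat_lit 4) (nat_lit 397) (nat_lit 343) (nat_lit 160)))) (XT.nd (nat_lit 78) (nat_lit 228) (nat_lit 0) (XT.lf (nat_lit 0) (nat_lit 102241898679) (nat_lit 76) (nat_lit 65885708415) (nat_lit 152) (nat_lit 8997728308) (nat_lit 27) (nat_lit 5) (nat_lit 28) (nat_lit 5) (nat_lit 29) (nat_lit 4) (nat_lit 398) (nat_lit 343) (nat_lit 159)) (XT.nd (nat_lit 78) (nat_lit 0) (nat_lit 0) (XT.lf (nat_lit 0) (nat_lit 4987173168)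 (nat_lit 152) (nat_lit 20960790983) (nat_lit 228) (nat_lit 157721304211) (nat_lit 24) (nat_lit 5) (nat_lit 26) (nat_lit 5) (nat_lit 27) (nat_lit 5) (nat_lit 399) (nat_lit 343) (nat_lit 158)) (XT.lf (nat_lit 0) (nat_lit 64036186291) (nat_lit 228) (nat_lit 99604428790) (nat_lit 76) (nat_lit 26807526495) (nat_lit 24) (nat_lit 5) (nat_lit 27) (nat_lit 5) (nat_lit 25) (nat_lit 4) (nat_lit 400) (nat_lit 343) (nat_lit 157)))))) (XT.nd (nat_lit 468) (nat_lit 228) (nat_lit 0) (XT.nd (nat_lit 234) (nat_lit 228) (nat_lit 0) (XT.nd (nat_lit 78) (nat_lit 76) (nat_lit 0) (XT.lf (nat_lit 0) (nat_lit 104371899226) (nat_lit 228) (nat_lit 16917476213) (nat_lit 76) (nat_lit 76259429200) (nat_lit 24) (nat_lit 5) (nat_lit 27) (nat_lit 5) (nat_lit 25) (nat_lit 4) (nat_lit 401) (nat_lit 343) (nat_lit 156)) (XT.nd (nat_lit 78) (nat_lit 0) (nat_lit 0) (XT.lf (nat_lit 0) (nat_lit 72214198255) (nat_lit 76) (nat_lit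 75637151438) (nat_lit 152) (nat_lit 57096803728) (nat_lit 23) (nat_lit 5) (nat_lit 24) (nat_lit 5) (nat_lit 25) (nat_lit 4) (nat_lit 402) (nat_lit 343) (nat_lit 155)) (XT.lf (nat_lit 0) (nat_lit 166388876969) (nat_lit 76) (nat_lit 27401897410) (nat_lit 152) (nat_lit 18912395333) (nat_lit 23) (nat_lit 5) (nat_lit 24) (nat_lit 5) (nat_lit 25) (nat_lit 4) (nat_lit 403) (nat_lit 343) (nat_lit 154)))) (XT.nd (nat_lit 78) (nat_lit 76) (nat_lit 0) (XT.lf (nat_lit 0) (nat_lit 21594015264) (nat_lit 152) (nat_lit 175621123972) (nat_lit 76) (nat_lit 23559727126) (nat_lit 21) (nat_lit 5) (nat_lit 23) (nat_lit 5) (nat_lit 22) (nat_lit 4) (nat_lit 404) (nat_lit 343) (nat_lit 153)) (XT.nd (nat_lit 78) (nat_lit 76) (nat_lit 0) (XT.lf (nat_lit 0) (nat_lit 64736106003) (nat_lit 152) (nat_lit 87180824369) (nat_lit 76) (nat_lit 77255418637) (nat_lit 21) (nat_lit 5) (nat_lit 23) (nat_lit 5) (nat_lit 22) (nat_lit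 4) (nat_lit 405) (nat_lit 343) (nat_lit 152)) (XT.lf (nat_lit 0) (nat_lit 5868468088) (nat_lit 76) (nat_lit 104257994938) (nat_lit 152) (nat_lit 127858684803) (nat_lit 20) (nat_lit 5) (nat_lit 21) (nat_lit 5) (nat_lit 22) (nat_lit 4) (nat_lit 406) (nat_lit 343) (nat_lit 151))))) (XT.nd (nat_lit 234) (nat_lit 76) (nat_lit 0) (XT.nd (nat_lit 78) (nat_lit 152) (nat_lit 0) (XT.lf (nat_lit 0) (nat_lit 106596110483) (nat_lit 76) (nat_lit 52666224298) (nat_lit 152) (nat_lit 87902452084) (nat_lit 20) (nat_lit 5) (nat_lit 21) (nat_lit 5) (nat_lit 22) (nat_lit 4) (nat_lit 407) (nat_lit 343) (nat_lit 150)) (XT.nd (nat_lit 78) (nat_lit 152) (nat_lit 0) (XT.lf (nat_lit 0) (nat_lit 210878062785) (nat_lit 152) (nat_lit 44467584430) (nat_lit 0) (nat_lit 1456607623) (nat_lit 20) (nat_lit 5) (nat_lit 22) (nat_lit 4) (nat_lit 20) (nat_lit 4) (nat_lit 408) (nat_lit 343) (nat_lit 149)) (XT.lf (nat_lit 0) (nat_lit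 264653) (nat_lit 152) (nat_lit 209421685500) (nat_lit 76) (nat_lit 57411679640) (nat_lit 18) (nat_lit 5) (nat_lit 20) (nat_lit 5) (nat_lit 19) (nat_lit 4) (nat_lit 409) (nat_lit 343) (nat_lit 148)))) (XT.nd (nat_lit 78) (nat_lit 76) (nat_lit 0) (XT.lf (nat_lit 0) (nat_lit 47442601049) (nat_lit 152) (nat_lit 112165631963) (nat_lit 76) (nat_lit 117682447262) (nat_lit 18) (nat_lit 5) (nat_lit 20) (nat_lit 5) (nat_lit 19) (nat_lit 4) (nat_lit 410) (nat_lit 343) (nat_lit 147)) (XT.nd (nat_lit 78) (nat_lit 76) (nat_lit 0) (XT.lf (nat_lit 0) (nat_lit 97256659232) (nat_lit 152) (nat_lit 10047513712) (nat_lit 76) (nat_lit 180966430181) (nat_lit 18) (nat_lit 5) (nat_lit 20) (nat_lit 5) (nat_lit 19) (nat_lit 4) (nat_lit 411) (nat_lit 343) (nat_lit 146)) (XT.lf (nat_lit 0) (nat_lit 100388878686) (nat_lit 76) (nat_lit 50739517151) (nat_lit 152) (nat_lit 148592777597) (nat_lit 17) (nat_lit 5) (nat_lit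 18) (nat_lit 5) (nat_lit 19) (nat_lit 4) (nat_lit 412) (nat_lit 343) (nat_lit 145))))))) (XT.nd (nat_lit 936) (nat_lit 76) (nat_lit 0) (XT.nd (nat_lit 468) (nat_lit 228) (nat_lit 0) (XT.nd (nat_lit 234) (nat_lit 152) (nat_lit 0) (XT.nd (nat_lit 78) (nat_lit 76) (nat_lit 0) (XT.lf (nat_lit 0) (nat_lit 208001397523) (nat_lit 152) (nat_lit 95178444463) (nat_lit 0) (nat_lit 8549046446) (nat_lit 17) (nat_lit 5) (nat_lit 19) (nat_lit 4) (nat_lit 17) (nat_lit 4) (nat_lit 413) (nat_lit 343) (nat_lit 144)) (XT.nd (nat_lit 78) (nat_lit 0) (nat_lit 0) (XT.lf (nat_lit 0) (nat_lit 13792063720) (nat_lit 76) (nat_lit 254972757381) (nat_lit 76) (nat_lit 55519829570) (nat_lit 16) (nat_lit 4) (nat_lit 17) (nat_lit 5) (nat_lit 17) (nat_lit 4) (nat_lit 414) (nat_lit 343) (nat_lit 143)) (XT.lf (nat_lit 0) (nat_lit 131514817393) (nat_lit 76) (nat_lit 202663141811) (nat_lit 76) (nat_lit 3209664729) (nat_lit 16)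 (nat_lit 4) (nat_lit 17) (nat_lit 5) (nat_lit 17) (nat_lit 4) (nat_lit 415) (nat_lit 343) (nat_lit 142)))) (XT.nd (nat_lit 78) (nat_lit 76) (nat_lit 0) (XT.lf (nat_lit 0) (nat_lit 50060434565) (nat_lit 152) (nat_lit 96830109336) (nat_lit 76) (nat_lit 204214847364) (nat_lit 15) (nat_lit 5) (nat_lit 17) (nat_lit 5) (nat_lit 16) (nat_lit 4) (nat_lit 416) (nat_lit 343) (nat_lit 141)) (XT.nd (nat_lit 78) (nat_lit 0) (nat_lit 0) (XT.lf (nat_lit 0) (nat_lit 18193810939) (nat_lit 76) (nat_lit 87976096056) (nat_lit 152) (nat_lit 259322322468) (nat_lit 14) (nat_lit 5) (nat_lit 15) (nat_lit 5) (nat_lit 16) (nat_lit 4) (nat_lit 417) (nat_lit 343) (nat_lit 140)) (XT.lf (nat_lit 0) (nat_lit 142330049907) (nat_lit 76) (nat_lit 24394351453) (nat_lit 152) (nat_lit 213792030857) (nat_lit 14) (nat_lit 5) (nat_lit 15) (nat_lit 5) (nat_lit 16) (nat_lit 4) (nat_lit 418) (nat_lit 343) (nat_lit 139))))) (XT.nd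 (nat_lit 234) (nat_lit 152) (nat_lit 0) (XT.nd (nat_lit 78) (nat_lit 76) (nat_lit 0) (XT.lf (nat_lit 0) (nat_lit 230967774345) (nat_lit 152) (nat_lit 124280786185) (nat_lit 0) (nat_lit 41010226946) (nat_lit 14) (nat_lit 5) (nat_lit 16) (nat_lit 4) (nat_lit 14) (nat_lit 4) (nat_lit 419) (nat_lit 343) (nat_lit 138)) (XT.nd (nat_lit 78) (nat_lit 76) (nat_lit 0) (XT.lf (nat_lit 0) (nat_lit 298822932342) (nat_lit 152) (nat_lit 5080372327) (nat_lit 0) (nat_lit 108864975069) (nat_lit 14) (nat_lit 5) (nat_lit 16) (nat_lit 4) (nat_lit 14) (nat_lit 4) (nat_lit 420) (nat_lit 343) (nat_lit 137)) (XT.lf (nat_lit 0) (nat_lit 124049905650) (nat_lit 76) (nat_lit 247957432087) (nat_lit 76) (nat_lit 57999084457) (nat_lit 13) (nat_lit 4) (nat_lit 14) (nat_lit 5) (nat_lit 14) (nat_lit 4) (nat_lit 421) (nat_lit 343) (nat_lit 136)))) (XT.nd (nat_lit 78) (nat_lit 76) (nat_lit 0) (XT.lf (nat_lit 0) (nat_lit 807835673)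 (nat_lit 152) (nat_lit 188302656267) (nat_lit 76) (nat_lit 258991040082) (nat_lit 12) (nat_lit 5) (nat_lit 14) (nat_lit 5) (nat_lit 13) (nat_lit 4) (nat_lit 422) (nat_lit 343) (nat_lit 135)) (XT.nd (nat_lit 78) (nat_lit 76) (nat_lit 0) (XT.lf (nat_lit 0) (nat_lit 60605688815) (nat_lit 152) (nat_lit 65717411389) (nat_lit 76) (nat_lit 340730770122) (nat_lit 12) (nat_lit 5) (nat_lit 14) (nat_lit 5) (nat_lit 13) (nat_lit 4) (nat_lit 423) (nat_lit 343) (nat_lit 134)) (XT.lf (nat_lit 0) (nat_lit 65079568596) (nat_lit 76) (nat_lit 59329689580) (nat_lit 152) (nat_lit 362493776239) (nat_lit 11) (nat_lit 5) (nat_lit 12) (nat_lit 5) (nat_lit 13) (nat_lit 4) (nat_lit 424) (nat_lit 343) (nat_lit 133)))))) (XT.nd (nat_lit 40716) (nat_lit 0) (nat_lit 6916) (XT.nd (nat_lit 234) (nat_lit 76) (nat_lit 0) (XT.nd (nat_lit 78) (nat_lit 0) (nat_lit 0) (XT.lf (nat_lit 0) (nat_lit 192705907421) (nat_lit 152) (nat_lit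 303181727139) (nat_lit 0) (nat_lit 11791877122) (nat_lit 11) (nat_lit 5) (nat_lit 13) (nat_lit 4) (nat_lit 11) (nat_lit 4) (nat_lit 425) (nat_lit 343) (nat_lit 132)) (XT.nd (nat_lit 78) (nat_lit 0) (nat_lit 0) (XT.lf (nat_lit 0) (nat_lit 265389769050) (nat_lit 152) (nat_lit 179580977345) (nat_lit 0) (nat_lit 84475447460) (nat_lit 11) (nat_lit 5) (nat_lit 13) (nat_lit 4) (nat_lit 11) (nat_lit 4) (nat_lit 426) (nat_lit 343) (nat_lit 131)) (XT.lf (nat_lit 0) (nat_lit 341707597151) (nat_lit 152) (nat_lit 49800626214) (nat_lit 0) (nat_lit 160792998143) (nat_lit 11) (nat_lit 5) (nat_lit 13) (nat_lit 4) (nat_lit 11) (nat_lit 4) (nat_lit 427) (nat_lit 343) (nat_lit 130)))) (XT.nd (nat_lit 40326) (nat_lit 0) (nat_lit 6840) (XT.lf (nat_lit 0) (nat_lit 89327360484) (nat_lit 76) (nat_lit 333908390792) (nat_lit 76) (nat_lit 152993527575) (nat_lit 10) (nat_lit 4) (nat_lit 11) (nat_lit 5) (nat_lit 11)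 (nat_lit 4) (nat_lit 428) (nat_lit 343) (nat_lit 129)) (XT.nd (nat_lit 78) (nat_lit 0) (nat_lit 0) (XT.lf (nat_lit 0) (nat_lit 1545193270) (nat_lit 836) (nat_lit 7954671653) (nat_lit 836) (nat_lit 7954671653) (nat_lit 100) (nat_lit 3) (nat_lit 111) (nat_lit 3) (nat_lit 111) (nat_lit 5) (nat_lit 344) (nat_lit 344) (nat_lit 212)) (XT.lf (nat_lit 76) (nat_lit 626757980) (nat_lit 0) (nat_lit 2602693752) (nat_lit 836) (nat_lit 32549203063) (nat_lit 101) (nat_lit 5) (nat_lit 100) (nat_lit 3) (nat_lit 111) (nat_lit 5) (nat_lit 345) (nat_lit 344) (nat_lit 211))))) (XT.nd (nat_lit 234) (nat_lit 0) (nat_lit 76) (XT.nd (nat_lit 78) (nat_lit 0) (nat_lit 0) (XT.lf (nat_lit 0) (nat_lit 3874154107) (nat_lit 760) (nat_lit 18370832003) (nat_lit 836) (nat_lit 14421798725) (nat_lit 101) (nat_lit 5) (nat_lit 111) (nat_lit 5) (nat_lit 112) (nat_lit 5) (nat_lit 346) (nat_lit 344) (nat_lit 210)) (XT.nd (nat_lit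 78) (nat_lit 0) (nat_lit 76) (XT.lf (nat_lit 0) (nat_lit 4590583515) (nat_lit 760) (nat_lit 795289121) (nat_lit 836) (nat_lit 32211477492) (nat_lit 101) (nat_lit 5) (nat_lit 111) (nat_lit 5) (nat_lit 112) (nat_lit 5) (nat_lit 347) (nat_lit 344) (nat_lit 209)) (XT.lf (nat_lit 0) (nat_lit 5821582103) (nat_lit 760) (nat_lit 20516295393) (nat_lit 836) (nat_lit 12212631995) (nat_lit 102) (nat_lit 5) (nat_lit 112) (nat_lit 5) (nat_lit 113) (nat_lit 5) (nat_lit 348) (nat_lit 344) (nat_lit 208)))) (XT.nd (nat_lit 78) (nat_lit 0) (nat_lit 76) (XT.lf (nat_lit 0) (nat_lit 7213222594) (nat_lit 760) (nat_lit 1808317868) (nat_lit 836) (nat_lit 30524834796) (nat_lit 102) (nat_lit 5) (nat_lit 112) (nat_lit 5) (nat_lit 113) (nat_lit 5) (nat_lit 349) (nat_lit 344) (nat_lit 207)) (XT.nd (nat_lit 78) (nat_lit 0) (nat_lit 0) (XT.lf (nat_lit 0) (nat_lit 9107076605) (nat_lit 760) (nat_lit 22302701476) (nat_lit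 836) (nat_lit 9160627550) (nat_lit 103) (nat_lit 5) (nat_lit 113) (nat_lit 5) (nat_lit 114) (nat_lit 5) (nat_lit 350) (nat_lit 344) (nat_lit 206)) (XT.lf (nat_lit 0) (nat_lit 11272006718) (nat_lit 760) (nat_lit 2384173264) (nat_lit 836) (nat_lit 27980641125) (nat_lit 103) (nat_lit 5) (nat_lit 113) (nat_lit 5) (nat_lit 114) (nat_lit 5) (nat_lit 351) (nat_lit 344) (nat_lit 205))))))))
noncomputable def xc204 : XT := (XT.nd (nat_lit 1794) (nat_lit 2280) (nat_lit 0) (XT.nd (nat_lit 858) (nat_lit 1748) (nat_lit 0) (XT.nd (nat_lit 390) (nat_lit 1140) (nat_lit 0) (XT.nd (nat_lit 156) (nat_lit 684) (nat_lit 0) (XT.nd (nat_lit 78) (nat_lit 0) (nat_lit 0) (XT.lf (nat_lit 0) (nat_lit 13924256798) (nat_lit 760) (nat_lit 23683454325) (nat_lit 836) (nat_lit 5129895183) (nat_lit 104) (nat_lit 5) (nat_lit 114) (nat_lit 5) (nat_lit 115) (nat_lit 5) (nat_lit 352) (nat_lit 344) (nat_lit 204)) (XT.lf (nat_lit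 0) (nat_lit 16971617858) (nat_lit 760) (nat_lit 2470765639) (nat_lit 836) (nat_lit 24437924844) (nat_lit 104) (nat_lit 5) (nat_lit 114) (nat_lit 5) (nat_lit 115) (nat_lit 5) (nat_lit 353) (nat_lit 344) (nat_lit 203))) (XT.nd (nat_lit 78) (nat_lit 684) (nat_lit 0) (XT.lf (nat_lit 76) (nat_lit 20455364897) (nat_lit 0) (nat_lit 33050146) (nat_lit 836) (nat_lit 24575879409) (nat_lit 105) (nat_lit 5) (nat_lit 104) (nat_lit 5) (nat_lit 115) (nat_lit 5) (nat_lit 354) (nat_lit 344) (nat_lit 202)) (XT.nd (nat_lit 78) (nat_lit 760) (nat_lit 0) (XT.lf (nat_lit 0) (nat_lit 24539039842) (nat_lit 760) (nat_lit 2012142241) (nat_lit 76) (nat_lit 19738400664) (nat_lit 105) (nat_lit 5) (nat_lit 115) (nat_lit 5) (nat_lit 106) (nat_lit 5) (nat_lit 355) (nat_lit 344) (nat_lit 201)) (XT.lf (nat_lit 0) (nat_lit 22429955409) (nat_lit 760) (nat_lit 6710870450) (nat_lit 836) (nat_lit 18417880256) (nat_lit 95) (nat_lit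 5) (nat_lit 105) (nat_lit 5) (nat_lit 106) (nat_lit 5) (nat_lit 356) (nat_lit 344) (nat_lit 200))))) (XT.nd (nat_lit 234) (nat_lit 456) (nat_lit 0) (XT.nd (nat_lit 78) (nat_lit 684) (nat_lit 0) (XT.lf (nat_lit 0) (nat_lit 34225779771) (nat_lit 836) (nat_lit 948563056) (nat_lit 76) (nat_lit 13704290951) (nat_lit 95) (nat_lit 5) (nat_lit 106) (nat_lit 5) (nat_lit 96) (nat_lit 5) (nat_lit 357) (nat_lit 344) (nat_lit 199)) (XT.nd (nat_lit 78) (nat_lit 304) (nat_lit 0) (XT.lf (nat_lit 0) (nat_lit 25133169457) (nat_lit 380) (nat_lit 14932290013) (nat_lit 456) (nat_lit 10174076407) (nat_lit 90) (nat_lit 5) (nat_lit 95) (nat_lit 5) (nat_lit 96) (nat_lit 5) (nat_lit 358) (nat_lit 344) (nat_lit 198)) (XT.lf (nat_lit 0) (nat_lit 809241625) (nat_lit 304) (nat_lit 45513674412) (nat_lit 380) (nat_lit 5339279264) (nat_lit 86) (nat_lit 5) (nat_lit 90) (nat_lit 5) (nat_lit 91) (nat_lit 5) (nat_lit 359)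 (nat_lit 344) (nat_lit 197)))) (XT.nd (nat_lit 78) (nat_lit 380) (nat_lit 0) (XT.lf (nat_lit 0) (nat_lit 420774101) (nat_lit 380) (nat_lit 24492087564) (nat_lit 76) (nat_lit 28209577479) (nat_lit 85) (nat_lit 5) (nat_lit 90) (nat_lit 5) (nat_lit 86) (nat_lit 5) (nat_lit 360) (nat_lit 344) (nat_lit 196)) (XT.nd (nat_lit 78) (nat_lit 0) (nat_lit 0) (XT.lf (nat_lit 0) (nat_lit 3199835088) (nat_lit 380) (nat_lit 3137762995) (nat_lit 456) (nat_lit 48311312113) (nat_lit 80) (nat_lit 5) (nat_lit 85) (nat_lit 5) (nat_lit 86) (nat_lit 5) (nat_lit 361) (nat_lit 344) (nat_lit 195)) (XT.lf (nat_lit 0) (nat_lit 13278124921) (nat_lit 456) (nat_lit 23421007471) (nat_lit 76) (nat_lit 19516180859) (nat_lit 80) (nat_lit 5) (nat_lit 86) (nat_lit 5) (nat_lit 81) (nat_lit 5) (nat_lit 362) (nat_lit 344) (nat_lit 194)))))) (XT.nd (nat_lit 468) (nat_lit 836) (nat_lit 0) (XT.nd (nat_lit 234) (nat_lit 304) (nat_lit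 0) (XT.nd (nat_lit 78) (nat_lit 304) (nat_lit 0) (XT.lf (nat_lit 0) (nat_lit 6152095554) (nat_lit 304) (nat_lit 14559450817) (nat_lit 380) (nat_lit 37141198134) (nat_lit 76) (nat_lit 5) (nat_lit 80) (nat_lit 5) (nat_lit 81) (nat_lit 5) (nat_lit 363) (nat_lit 344) (nat_lit 193)) (XT.nd (nat_lit 78) (nat_lit 304) (nat_lit 0) (XT.lf (nat_lit 0) (nat_lit 29053842660) (nat_lit 380) (nat_lit 21679252508) (nat_lit 76) (nat_lit 8812093357) (nat_lit 76) (nat_lit 5) (nat_lit 81) (nat_lit 5) (nat_lit 77) (nat_lit 5) (nat_lit 364) (nat_lit 344) (nat_lit 192)) (XT.lf (nat_lit 0) (nat_lit 9920252309) (nat_lit 304) (nat_lit 28285062491) (nat_lit 380) (nat_lit 23097338218) (nat_lit 72) (nat_lit 5) (nat_lit 76) (nat_lit 5) (nat_lit 77) (nat_lit 5) (nat_lit 365) (nat_lit 344) (nat_lit 191)))) (XT.nd (nat_lit 78) (nat_lit 304) (nat_lit 0) (XT.lf (nat_lit 0) (nat_lit 43850624013) (nat_lit 304) (nat_lit 4329427714)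 (nat_lit 380) (nat_lit 14949655713) (nat_lit 72) (nat_lit 5) (nat_lit 76) (nat_lit 5) (nat_lit 77) (nat_lit 5) (nat_lit 366) (nat_lit 344) (nat_lit 190)) (XT.nd (nat_lit 78) (nat_lit 76) (nat_lit 0) (XT.lf (nat_lit 0) (nat_lit 14568827192) (nat_lit 228) (nat_lit 44635886760) (nat_lit 304) (nat_lit 5815842410) (nat_lit 69) (nat_lit 5) (nat_lit 72) (nat_lit 5) (nat_lit 73) (nat_lit 5) (nat_lit 367) (nat_lit 344) (nat_lit 189)) (XT.lf (nat_lit 0) (nat_lit 4055299736) (nat_lit 304) (nat_lit 16348186459) (nat_lit 76) (nat_lit 46579443425) (nat_lit 68) (nat_lit 5) (nat_lit 72) (nat_lit 5) (nat_lit 69) (nat_lit 5) (nat_lit 368) (nat_lit 344) (nat_lit 188))))) (XT.nd (nat_lit 234) (nat_lit 304) (nat_lit 0) (XT.nd (nat_lit 78) (nat_lit 228) (nat_lit 0) (XT.lf (nat_lit 0) (nat_lit 14620926427) (nat_lit 380) (nat_lit 49104722065) (nat_lit 76) (nat_lit 5293188111) (nat_lit 64) (nat_lit 5) (nat_lit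 69) (nat_lit 5) (nat_lit 65) (nat_lit 5) (nat_lit 369) (nat_lit 344) (nat_lit 187)) (XT.nd (nat_lit 78) (nat_lit 228) (nat_lit 0) (XT.lf (nat_lit 0) (nat_lit 26329440921) (nat_lit 380) (nat_lit 12926326476) (nat_lit 76) (nat_lit 31870042203) (nat_lit 64) (nat_lit 5) (nat_lit 69) (nat_lit 5) (nat_lit 65) (nat_lit 5) (nat_lit 370) (nat_lit 344) (nat_lit 186)) (XT.lf (nat_lit 0) (nat_lit 25887934637) (nat_lit 228) (nat_lit 13138410548) (nat_lit 304) (nat_lit 34291638800) (nat_lit 61) (nat_lit 5) (nat_lit 64) (nat_lit 5) (nat_lit 65) (nat_lit 5) (nat_lit 371) (nat_lit 344) (nat_lit 185)))) (XT.nd (nat_lit 78) (nat_lit 304) (nat_lit 0) (XT.lf (nat_lit 0) (nat_lit 52802430325) (nat_lit 304) (nat_lit 8745411702) (nat_lit 76) (nat_lit 14049709176) (nat_lit 61) (nat_lit 5) (nat_lit 65) (nat_lit 5) (nat_lit 62) (nat_lit 5) (nat_lit 372) (nat_lit 344) (nat_lit 184)) (XT.nd (nat_lit 78) (nat_lit 76)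 (nat_lit 0) (XT.lf (nat_lit 0) (nat_lit 32703202441) (nat_lit 228) (nat_lit 35288953833) (nat_lit 304) (nat_lit 9962699536) (nat_lit 58) (nat_lit 5) (nat_lit 61) (nat_lit 5) (nat_lit 62) (nat_lit 5) (nat_lit 373) (nat_lit 344) (nat_lit 183)) (XT.lf (nat_lit 0) (nat_lit 3548368806) (nat_lit 304) (nat_lit 3953592750) (nat_lit 76) (nat_lit 72917853227) (nat_lit 57) (nat_lit 5) (nat_lit 61) (nat_lit 5) (nat_lit 58) (nat_lit 5) (nat_lit 374) (nat_lit 344) (nat_lit 182))))))) (XT.nd (nat_lit 936) (nat_lit 836) (nat_lit 0) (XT.nd (nat_lit 468) (nat_lit 532) (nat_lit 0) (XT.nd (nat_lit 234) (nat_lit 456) (nat_lit 0) (XT.nd (nat_lit 78) (nat_lit 228) (nat_lit 0) (XT.lf (nat_lit 0) (nat_lit 18383528474) (nat_lit 304) (nat_lit 42777571660) (nat_lit 76) (nat_lit 21789588664) (nat_lit 54) (nat_lit 5) (nat_lit 58) (nat_lit 5) (nat_lit 55) (nat_lit 5) (nat_lit 375) (nat_lit 344) (nat_lit 181)) (XT.nd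 (nat_lit 78) (nat_lit 0) (nat_lit 0) (XT.lf (nat_lit 0) (nat_lit 943235896) (nat_lit 228) (nat_lit 33221922798) (nat_lit 304) (nat_lit 51432712895) (nat_lit 51) (nat_lit 5) (nat_lit 54) (nat_lit 5) (nat_lit 55) (nat_lit 5) (nat_lit 376) (nat_lit 344) (nat_lit 180)) (XT.lf (nat_lit 0) (nat_lit 48333712762) (nat_lit 228) (nat_lit 3125592358) (nat_lit 304) (nat_lit 36881937335) (nat_lit 51) (nat_lit 5) (nat_lit 54) (nat_lit 5) (nat_lit 55) (nat_lit 5) (nat_lit 377) (nat_lit 344) (nat_lit 179)))) (XT.nd (nat_lit 78) (nat_lit 304) (nat_lit 0) (XT.lf (nat_lit 0) (nat_lit 6638334628) (nat_lit 152) (nat_lit 63527067795) (nat_lit 228) (nat_lit 21029017899) (nat_lit 49) (nat_lit 5) (nat_lit 51) (nat_lit 5) (nat_lit 52) (nat_lit 5) (nat_lit 378) (nat_lit 344) (nat_lit 178)) (XT.nd (nat_lit 78) (nat_lit 304) (nat_lit 0) (XT.lf (nat_lit 0) (nat_lit 56951071809) (nat_lit 152) (nat_lit 33582733804) (nat_lit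 228) (nat_lit 3620102026) (nat_lit 49) (nat_lit 5) (nat_lit 51) (nat_lit 5) (nat_lit 52) (nat_lit 5) (nat_lit 379) (nat_lit 344) (nat_lit 177)) (XT.lf (nat_lit 0) (nat_lit 12694074198) (nat_lit 228) (nat_lit 1693259148) (nat_lit 304) (nat_lit 82852729842) (nat_lit 45) (nat_lit 5) (nat_lit 48) (nat_lit 5) (nat_lit 49) (nat_lit 5) (nat_lit 380) (nat_lit 344) (nat_lit 176))))) (XT.nd (nat_lit 234) (nat_lit 380) (nat_lit 0) (XT.nd (nat_lit 78) (nat_lit 152) (nat_lit 0) (XT.lf (nat_lit 0) (nat_lit 34309285988) (nat_lit 304) (nat_lit 34639047391) (nat_lit 76) (nat_lit 31472436129) (nat_lit 45) (nat_lit 5) (nat_lit 49) (nat_lit 5) (nat_lit 46) (nat_lit 5) (nat_lit 381) (nat_lit 344) (nat_lit 175)) (XT.nd (nat_lit 78) (nat_lit 0) (nat_lit 0) (XT.lf (nat_lit 0) (nat_lit 18320486132) (nat_lit 152) (nat_lit 37219772353) (nat_lit 228) (nat_lit 48204607047) (nat_lit 43) (nat_lit 5) (nat_lit 45) (nat_lit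 5) (nat_lit 46) (nat_lit 5) (nat_lit 382) (nat_lit 344) (nat_lit 174)) (XT.lf (nat_lit 0) (nat_lit 75129241108) (nat_lit 152) (nat_lit 3289317718) (nat_lit 228) (nat_lit 28787319047) (nat_lit 43) (nat_lit 5) (nat_lit 45) (nat_lit 5) (nat_lit 46) (nat_lit 5) (nat_lit 383) (nat_lit 344) (nat_lit 173)))) (XT.nd (nat_lit 78) (nat_lit 228) (nat_lit 0) (XT.lf (nat_lit 0) (nat_lit 24207074818) (nat_lit 152) (nat_lit 79115704435) (nat_lit 228) (nat_lit 7473061776) (nat_lit 41) (nat_lit 5) (nat_lit 43) (nat_lit 5) (nat_lit 44) (nat_lit 5) (nat_lit 384) (nat_lit 344) (nat_lit 172)) (XT.nd (nat_lit 78) (nat_lit 152) (nat_lit 0) (XT.lf (nat_lit 0) (nat_lit 15035044765) (nat_lit 228) (nat_lit 30416427924) (nat_lit 76) (nat_lit 69071930606) (nat_lit 40) (nat_lit 5) (nat_lit 43) (nat_lit 5) (nat_lit 41) (nat_lit 5) (nat_lit 385) (nat_lit 344) (nat_lit 171)) (XT.lf (nat_lit 0) (nat_lit 29381140624) (nat_lit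 152) (nat_lit 9494221221) (nat_lit 228) (nat_lit 79532959306) (nat_lit 38) (nat_lit 5) (nat_lit 40) (nat_lit 5) (nat_lit 41) (nat_lit 5) (nat_lit 386) (nat_lit 344) (nat_lit 170)))))) (XT.nd (nat_lit 468) (nat_lit 380) (nat_lit 0) (XT.nd (nat_lit 234) (nat_lit 304) (nat_lit 0) (XT.nd (nat_lit 78) (nat_lit 152) (nat_lit 0) (XT.lf (nat_lit 0) (nat_lit 64871725091) (nat_lit 228) (nat_lit 29688095805) (nat_lit 76) (nat_lit 27879462860) (nat_lit 38) (nat_lit 5) (nat_lit 41) (nat_lit 5) (nat_lit 39) (nat_lit 5) (nat_lit 387) (nat_lit 344) (nat_lit 169)) (XT.nd (nat_lit 78) (nat_lit 0) (nat_lit 0) (XT.lf (nat_lit 0) (nat_lit 33534403106) (nat_lit 152) (nat_lit 59311985813) (nat_lit 228) (nat_lit 33791481806) (nat_lit 36) (nat_lit 5) (nat_lit 38) (nat_lit 5) (nat_lit 39) (nat_lit 5) (nat_lit 388) (nat_lit 344) (nat_lit 168)) (XT.lf (nat_lit 0) (nat_lit 100947542686) (nat_lit 152) (nat_lit 21774315009)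 (nat_lit 228) (nat_lit 8299426098) (nat_lit 36) (nat_lit 5) (nat_lit 38) (nat_lit 5) (nat_lit 39) (nat_lit 5) (nat_lit 389) (nat_lit 344) (nat_lit 167)))) (XT.nd (nat_lit 78) (nat_lit 152) (nat_lit 0) (XT.lf (nat_lit 0) (nat_lit 18742790678) (nat_lit 152) (nat_lit 98867907433) (nat_lit 76) (nat_lit 17955422196) (nat_lit 34) (nat_lit 5) (nat_lit 36) (nat_lit 5) (nat_lit 35) (nat_lit 5) (nat_lit 390) (nat_lit 344) (nat_lit 166)) (XT.nd (nat_lit 78) (nat_lit 152) (nat_lit 0) (XT.lf (nat_lit 0) (nat_lit 47732141622) (nat_lit 152) (nat_lit 32962400103) (nat_lit 76) (nat_lit 59593157481) (nat_lit 34) (nat_lit 5) (nat_lit 36) (nat_lit 5) (nat_lit 35) (nat_lit 5) (nat_lit 391) (nat_lit 344) (nat_lit 165)) (XT.lf (nat_lit 0) (nat_lit 37435443412) (nat_lit 152) (nat_lit 41319341004) (nat_lit 228) (nat_lit 66461381695) (nat_lit 32) (nat_lit 5) (nat_lit 34) (nat_lit 5) (nat_lit 35) (nat_lit 5) (nat_lit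 392) (nat_lit 344) (nat_lit 164))))) (XT.nd (nat_lit 234) (nat_lit 228) (nat_lit 0) (XT.nd (nat_lit 78) (nat_lit 152) (nat_lit 0) (XT.lf (nat_lit 0) (nat_lit 111895688166) (nat_lit 228) (nat_lit 37876235372) (nat_lit 76) (nat_lit 590776649) (nat_lit 32) (nat_lit 5) (nat_lit 35) (nat_lit 5) (nat_lit 33) (nat_lit 4) (nat_lit 393) (nat_lit 344) (nat_lit 163)) (XT.nd (nat_lit 78) (nat_lit 76) (nat_lit 0) (XT.lf (nat_lit 0) (nat_lit 35997183654) (nat_lit 76) (nat_lit 111935226001) (nat_lit 152) (nat_lit 7772212937) (nat_lit 31) (nat_lit 5) (nat_lit 32) (nat_lit 5) (nat_lit 33) (nat_lit 4) (nat_lit 394) (nat_lit 344) (nat_lit 162)) (XT.lf (nat_lit 0) (nat_lit 24325899044) (nat_lit 152) (nat_lit 46795744832) (nat_lit 76) (nat_lit 90140337092) (nat_lit 30) (nat_lit 5) (nat_lit 32) (nat_lit 5) (nat_lit 31) (nat_lit 5) (nat_lit 395) (nat_lit 344) (nat_lit 161)))) (XT.nd (nat_lit 78) (nat_lit 76)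 (nat_lit 0) (XT.lf (nat_lit 0) (nat_lit 30612911361) (nat_lit 152) (nat_lit 27632182360) (nat_lit 228) (nat_lit 108821874375) (nat_lit 28) (nat_lit 5) (nat_lit 30) (nat_lit 5) (nat_lit 31) (nat_lit 5) (nat_lit 396) (nat_lit 344) (nat_lit 160)) (XT.nd (nat_lit 78) (nat_lit 76) (nat_lit 0) (XT.lf (nat_lit 0) (nat_lit 94946701200) (nat_lit 228) (nat_lit 59901473445) (nat_lit 76) (nat_lit 18259707489) (nat_lit 28) (nat_lit 5) (nat_lit 31) (nat_lit 5) (nat_lit 29) (nat_lit 4) (nat_lit 397) (nat_lit 344) (nat_lit 159)) (XT.lf (nat_lit 0) (nat_lit 20686891544) (nat_lit 76) (nat_lit 113571918128) (nat_lit 152) (nat_lit 45153261367) (nat_lit 27) (nat_lit 5) (nat_lit 28) (nat_lit 5) (nat_lit 29) (nat_lit 4) (nat_lit 398) (nat_lit 344) (nat_lit 158))))))))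
noncomputable def xc205 : XT := (XT.nd (nat_lit 1794) (nat_lit 228) (nat_lit 0) (XT.nd (nat_lit 858) (nat_lit 456) (nat_lit 0) (XT.nd (nat_lit 390) (nat_lit 228) (nat_lit 0) (XT.nd (nat_lit 156) (nat_lit 76) (nat_lit 0) (XT.nd (nat_lit 78) (nat_lit 228) (nat_lit 0) (XT.lf (nat_lit 0) (nat_lit 107383363743) (nat_lit 76) (nat_lit 69167085040) (nat_lit 152) (nat_lit 9430324534) (nat_lit 27) (nat_lit 5) (nat_lit 28) (nat_lit 5) (nat_lit 29) (nat_lit 4) (nat_lit 399) (nat_lit 344) (nat_lit 157)) (XT.lf (nat_lit 0) (nat_lit 5265978136) (nat_lit 152) (nat_lit 21995783767) (nat_lit 228) (nat_lit 165590144651) (nat_lit 24) (nat_lit 5) (nat_lit 26) (nat_lit 5) (nat_lit 27) (nat_lit 5) (nat_lit 400) (nat_lit 344) (nat_lit 156))) (XT.nd (nat_lit 78) (nat_lit 76) (nat_lit 0) (XT.lf (nat_lit 0) (nat_lit 67253808216) (nat_lit 228) (nat_lit 104556014192) (nat_lit 76) (nat_lit 28159930617) (nat_lit 24)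 (nat_lit 5) (nat_lit 27) (nat_lit 5) (nat_lit 25) (nat_lit 4) (nat_lit 401) (nat_lit 344) (nat_lit 155)) (XT.nd (nat_lit 78) (nat_lit 76) (nat_lit 0) (XT.lf (nat_lit 0) (nat_lit 109605553816) (nat_lit 228) (nat_lit 17736077606) (nat_lit 76) (nat_lit 80083855705) (nat_lit 24) (nat_lit 5) (nat_lit 27) (nat_lit 5) (nat_lit 25) (nat_lit 4) (nat_lit 402) (nat_lit 344) (nat_lit 154)) (XT.lf (nat_lit 0) (nat_lit 75851740707) (nat_lit 76) (nat_lit 79406937905) (nat_lit 152) (nat_lit 59936139874) (nat_lit 23) (nat_lit 5) (nat_lit 24) (nat_lit 5) (nat_lit 25) (nat_lit 4) (nat_lit 403) (nat_lit 344) (nat_lit 153))))) (XT.nd (nat_lit 234) (nat_lit 76) (nat_lit 0) (XT.nd (nat_lit 78) (nat_lit 152) (nat_lit 0) (XT.lf (nat_lit 0) (nat_lit 174733875617) (nat_lit 76) (nat_lit 28760495991) (nat_lit 152) (nat_lit 19843249346) (nat_lit 23) (nat_lit 5) (nat_lit 24) (nat_lit 5) (nat_lit 25) (nat_lit 4) (nat_lit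 404) (nat_lit 344) (nat_lit 152)) (XT.nd (nat_lit 78) (nat_lit 0) (nat_lit 0) (XT.lf (nat_lit 0) (nat_lit 22687909525) (nat_lit 152) (nat_lit 184376045084) (nat_lit 76) (nat_lit 24748941479) (nat_lit 21) (nat_lit 5) (nat_lit 23) (nat_lit 5) (nat_lit 22) (nat_lit 4) (nat_lit 405) (nat_lit 344) (nat_lit 151)) (XT.lf (nat_lit 0) (nat_lit 67986428919) (nat_lit 152) (nat_lit 91514975029) (nat_lit 76) (nat_lit 81128882900) (nat_lit 21) (nat_lit 5) (nat_lit 23) (nat_lit 5) (nat_lit 22) (nat_lit 4) (nat_lit 406) (nat_lit 344) (nat_lit 150)))) (XT.nd (nat_lit 78) (nat_lit 0) (nat_lit 0) (XT.lf (nat_lit 0) (nat_lit 6186380590) (nat_lit 76) (nat_lit 109459661850) (nat_lit 152) (nat_lit 134237696413) (nat_lit 20) (nat_lit 5) (nat_lit 21) (nat_lit 5) (nat_lit 22) (nat_lit 4) (nat_lit 407) (nat_lit 344) (nat_lit 149)) (XT.nd (nat_lit 78) (nat_lit 0) (nat_lit 0) (XT.lf (nat_lit 0) (nat_lit 111949238958)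 (nat_lit 76) (nat_lit 55288837576) (nat_lit 152) (nat_lit 92284315041) (nat_lit 20) (nat_lit 5) (nat_lit 21) (nat_lit 5) (nat_lit 22) (nat_lit 4) (nat_lit 408) (nat_lit 344) (nat_lit 148)) (XT.lf (nat_lit 0) (nat_lit 221434148817) (nat_lit 152) (nat_lit 46668305975) (nat_lit 0) (nat_lit 1539300420) (nat_lit 20) (nat_lit 5) (nat_lit 22) (nat_lit 4) (nat_lit 20) (nat_lit 4) (nat_lit 409) (nat_lit 344) (nat_lit 147)))))) (XT.nd (nat_lit 468) (nat_lit 152) (nat_lit 0) (XT.nd (nat_lit 234) (nat_lit 152) (nat_lit 0) (XT.nd (nat_lit 78) (nat_lit 0) (nat_lit 0) (XT.lf (nat_lit 0) (nat_lit 12427571) (nat_lit 152) (nat_lit 219870072898) (nat_lit 76) (nat_lit 60292200406) (nat_lit 18) (nat_lit 5) (nat_lit 20) (nat_lit 5) (nat_lit 19) (nat_lit 4) (nat_lit 410) (nat_lit 344) (nat_lit 146)) (XT.nd (nat_lit 78) (nat_lit 0) (nat_lit 0) (XT.lf (nat_lit 0) (nat_lit 49826302231) (nat_lit 152) (nat_lit 117752297488)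 (nat_lit 76) (nat_lit 123576033229) (nat_lit 18) (nat_lit 5) (nat_lit 20) (nat_lit 5) (nat_lit 19) (nat_lit 4) (nat_lit 411) (nat_lit 344) (nat_lit 145)) (XT.lf (nat_lit 0) (nat_lit 102130512317) (nat_lit 152) (nat_lit 10529302661) (nat_lit 76) (nat_lit 190023764646) (nat_lit 18) (nat_lit 5) (nat_lit 20) (nat_lit 5) (nat_lit 19) (nat_lit 4) (nat_lit 412) (nat_lit 344) (nat_lit 144)))) (XT.nd (nat_lit 78) (nat_lit 76) (nat_lit 0) (XT.lf (nat_lit 0) (nat_lit 105428577313) (nat_lit 76) (nat_lit 53267049904) (nat_lit 152) (nat_lit 156011061785) (nat_lit 17) (nat_lit 5) (nat_lit 18) (nat_lit 5) (nat_lit 19) (nat_lit 4) (nat_lit 413) (nat_lit 344) (nat_lit 143)) (XT.nd (nat_lit 78) (nat_lit 76) (nat_lit 0) (XT.lf (nat_lit 0) (nat_lit 218411904562) (nat_lit 152) (nat_lit 99917699674) (nat_lit 0) (nat_lit 8985204355) (nat_lit 17) (nat_lit 5) (nat_lit 19) (nat_lit 4) (nat_lit 17) (nat_lit 4) (nat_lit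 414) (nat_lit 344) (nat_lit 142)) (XT.lf (nat_lit 0) (nat_lit 14501016710) (nat_lit 76) (nat_lit 267712287707) (nat_lit 76) (nat_lit 58285064385) (nat_lit 16) (nat_lit 4) (nat_lit 17) (nat_lit 5) (nat_lit 17) (nat_lit 4) (nat_lit 415) (nat_lit 344) (nat_lit 141))))) (XT.nd (nat_lit 234) (nat_lit 0) (nat_lit 0) (XT.nd (nat_lit 78) (nat_lit 152) (nat_lit 0) (XT.lf (nat_lit 0) (nat_lit 138108986647) (nat_lit 76) (nat_lit 212787625051) (nat_lit 76) (nat_lit 3359903525) (nat_lit 16) (nat_lit 4) (nat_lit 17) (nat_lit 5) (nat_lit 17) (nat_lit 4) (nat_lit 416) (nat_lit 344) (nat_lit 140)) (XT.nd (nat_lit 78) (nat_lit 76) (nat_lit 0) (XT.lf (nat_lit 0) (nat_lit 52572900632) (nat_lit 152) (nat_lit 101653749710) (nat_lit 76) (nat_lit 214433536292) (nat_lit 15) (nat_lit 5) (nat_lit 17) (nat_lit 5) (nat_lit 16) (nat_lit 4) (nat_lit 417) (nat_lit 344) (nat_lit 139)) (XT.lf (nat_lit 0) (nat_lit 19121078432)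 (nat_lit 76) (nat_lit 92366592946) (nat_lit 152) (nat_lit 272278704222) (nat_lit 14) (nat_lit 5) (nat_lit 15) (nat_lit 5) (nat_lit 16) (nat_lit 4) (nat_lit 418) (nat_lit 344) (nat_lit 138)))) (XT.nd (nat_lit 78) (nat_lit 0) (nat_lit 0) (XT.lf (nat_lit 0) (nat_lit 149463292351) (nat_lit 76) (nat_lit 25606156727) (nat_lit 152) (nat_lit 224472361573) (nat_lit 14) (nat_lit 5) (nat_lit 15) (nat_lit 5) (nat_lit 16) (nat_lit 4) (nat_lit 419) (nat_lit 344) (nat_lit 137)) (XT.nd (nat_lit 78) (nat_lit 0) (nat_lit 0) (XT.lf (nat_lit 0) (nat_lit 242524688000) (nat_lit 152) (nat_lit 130478578263) (nat_lit 0) (nat_lit 43068032632) (nat_lit 14) (nat_lit 5) (nat_lit 16) (nat_lit 4) (nat_lit 14) (nat_lit 4) (nat_lit 420) (nat_lit 344) (nat_lit 136)) (XT.lf (nat_lit 0) (nat_lit 313772197947) (nat_lit 152) (nat_lit 5318917389) (nat_lit 0) (nat_lit 114315170812) (nat_lit 14) (nat_lit 5) (nat_lit 16) (nat_lit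 4) (nat_lit 14) (nat_lit 4) (nat_lit 421) (nat_lit 344) (nat_lit 135))))))) (XT.nd (nat_lit 41340) (nat_lit 0) (nat_lit 5244) (XT.nd (nat_lit 40872) (nat_lit 0) (nat_lit 6764) (XT.nd (nat_lit 234) (nat_lit 76) (nat_lit 0) (XT.nd (nat_lit 78) (nat_lit 76) (nat_lit 0) (XT.lf (nat_lit 0) (nat_lit 130267624913) (nat_lit 76) (nat_lit 260348049769) (nat_lit 76) (nat_lit 60890668569) (nat_lit 13) (nat_lit 4) (nat_lit 14) (nat_lit 5) (nat_lit 14) (nat_lit 4) (nat_lit 422) (nat_lit 344) (nat_lit 134)) (XT.nd (nat_lit 78) (nat_lit 0) (nat_lit 0) (XT.lf (nat_lit 0) (nat_lit 855943852) (nat_lit 152) (nat_lit 197703033507) (nat_lit 76) (nat_lit 271947244038) (nat_lit 12) (nat_lit 5) (nat_lit 14) (nat_lit 5) (nat_lit 13) (nat_lit 4) (nat_lit 423) (nat_lit 344) (nat_lit 133)) (XT.lf (nat_lit 0) (nat_lit 63643322204) (nat_lit 152) (nat_lit 68989229031) (nat_lit 76) (nat_lit 357773643821) (nat_lit 12) (nat_lit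 5) (nat_lit 14) (nat_lit 5) (nat_lit 13) (nat_lit 4) (nat_lit 424) (nat_lit 344) (nat_lit 132)))) (XT.nd (nat_lit 78) (nat_lit 0) (nat_lit 0) (XT.lf (nat_lit 0) (nat_lit 68347373293) (nat_lit 76) (nat_lit 62289562657) (nat_lit 152) (nat_lit 380610888167) (nat_lit 11) (nat_lit 5) (nat_lit 12) (nat_lit 5) (nat_lit 13) (nat_lit 4) (nat_lit 425) (nat_lit 344) (nat_lit 131)) (XT.nd (nat_lit 78) (nat_lit 0) (nat_lit 0) (XT.lf (nat_lit 0) (nat_lit 202348172399) (nat_lit 152) (nat_lit 318327399150) (nat_lit 0) (nat_lit 12387566021) (nat_lit 11) (nat_lit 5) (nat_lit 13) (nat_lit 4) (nat_lit 11) (nat_lit 4) (nat_lit 426) (nat_lit 344) (nat_lit 130)) (XT.lf (nat_lit 0) (nat_lit 278665895223) (nat_lit 152) (nat_lit 188547250645) (nat_lit 0) (nat_lit 88705024637) (nat_lit 11) (nat_lit 5) (nat_lit 13) (nat_lit 4) (nat_lit 11) (nat_lit 4) (nat_lit 427) (nat_lit 344) (nat_lit 129))))) (XT.nd (nat_lit 234)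 (nat_lit 0) (nat_lit 76) (XT.nd (nat_lit 78) (nat_lit 0) (nat_lit 0) (XT.lf (nat_lit 0) (nat_lit 1673660834) (nat_lit 836) (nat_lit 8325494061) (nat_lit 836) (nat_lit 8325494061) (nat_lit 100) (nat_lit 3) (nat_lit 111) (nat_lit 3) (nat_lit 111) (nat_lit 5) (nat_lit 345) (nat_lit 345) (nat_lit 210)) (XT.nd (nat_lit 78) (nat_lit 0) (nat_lit 76) (XT.lf (nat_lit 76) (nat_lit 711050127) (nat_lit 0) (nat_lit 2778239813) (nat_lit 836) (nat_lit 34073276350) (nat_lit 101) (nat_lit 5) (nat_lit 100) (nat_lit 3) (nat_lit 111) (nat_lit 5) (nat_lit 346) (nat_lit 345) (nat_lit 209)) (XT.lf (nat_lit 0) (nat_lit 4160868119) (nat_lit 760) (nat_lit 19233483611) (nat_lit 836) (nat_lit 15101023970) (nat_lit 101) (nat_lit 5) (nat_lit 111) (nat_lit 5) (nat_lit 112) (nat_lit 5) (nat_lit 347) (nat_lit 345) (nat_lit 208)))) (XT.nd (nat_lit 78) (nat_lit 0) (nat_lit 76) (XT.lf (nat_lit 0) (nat_lit 4908690126) (nat_lit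 760) (nat_lit 781825013) (nat_lit 836) (nat_lit 33782180233) (nat_lit 101) (nat_lit 5) (nat_lit 111) (nat_lit 5) (nat_lit 112) (nat_lit 5) (nat_lit 348) (nat_lit 345) (nat_lit 207)) (XT.nd (nat_lit 78) (nat_lit 0) (nat_lit 0) (XT.lf (nat_lit 0) (nat_lit 6197326104) (nat_lit 760) (nat_lit 21484880113) (nat_lit 836) (nat_lit 12791506559) (nat_lit 102) (nat_lit 5) (nat_lit 112) (nat_lit 5) (nat_lit 113) (nat_lit 5) (nat_lit 349) (nat_lit 345) (nat_lit 206)) (XT.lf (nat_lit 0) (nat_lit 7654516957) (nat_lit 760) (nat_lit 1844228953) (nat_lit 836) (nat_lit 32020831740) (nat_lit 102) (nat_lit 5) (nat_lit 112) (nat_lit 5) (nat_lit 113) (nat_lit 5) (nat_lit 350) (nat_lit 345) (nat_lit 205)))))) (XT.nd (nat_lit 468) (nat_lit 1748) (nat_lit 0) (XT.nd (nat_lit 234) (nat_lit 0) (nat_lit 76) (XT.nd (nat_lit 78) (nat_lit 0) (nat_lit 0) (XT.lf (nat_lit 0) (nat_lit 9639686452) (nat_lit 760) (nat_lit 23359873849)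 (nat_lit 836) (nat_lit 9595422137) (nat_lit 103) (nat_lit 5) (nat_lit 113) (nat_lit 5) (nat_lit 114) (nat_lit 5) (nat_lit 351) (nat_lit 345) (nat_lit 204)) (XT.nd (nat_lit 78) (nat_lit 0) (nat_lit 76) (XT.lf (nat_lit 0) (nat_lit 11909184212) (nat_lit 760) (nat_lit 2448179355) (nat_lit 836) (nat_lit 29357542904) (nat_lit 103) (nat_lit 5) (nat_lit 113) (nat_lit 5) (nat_lit 114) (nat_lit 5) (nat_lit 352) (nat_lit 345) (nat_lit 203)) (XT.lf (nat_lit 0) (nat_lit 14691131771) (nat_lit 760) (nat_lit 24809436270) (nat_lit 836) (nat_lit 5370312300) (nat_lit 104) (nat_lit 5) (nat_lit 114) (nat_lit 5) (nat_lit 115) (nat_lit 5) (nat_lit 353) (nat_lit 345) (nat_lit 202)))) (XT.nd (nat_lit 78) (nat_lit 0) (nat_lit 0) (XT.lf (nat_lit 0) (nat_lit 17887496020) (nat_lit 760) (nat_lit 2538884138) (nat_lit 836) (nat_lit 25644509046) (nat_lit 104) (nat_lit 5) (nat_lit 114) (nat_lit 5) (nat_lit 115) (nat_lit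 5) (nat_lit 354) (nat_lit 345) (nat_lit 201)) (XT.nd (nat_lit 78) (nat_lit 0) (nat_lit 76) (XT.lf (nat_lit 76) (nat_lit 21532659057) (nat_lit 0) (nat_lit 45120678) (nat_lit 836) (nat_lit 25736415871) (nat_lit 105) (nat_lit 5) (nat_lit 104) (nat_lit 5) (nat_lit 115) (nat_lit 5) (nat_lit 355) (nat_lit 345) (nat_lit 200)) (XT.lf (nat_lit 0) (nat_lit 25827688297) (nat_lit 760) (nat_lit 2057509221) (nat_lit 76) (nat_lit 20715716333) (nat_lit 105) (nat_lit 5) (nat_lit 115) (nat_lit 5) (nat_lit 106) (nat_lit 5) (nat_lit 356) (nat_lit 345) (nat_lit 199))))) (XT.nd (nat_lit 234) (nat_lit 760) (nat_lit 0) (XT.nd (nat_lit 78) (nat_lit 380) (nat_lit 0) (XT.lf (nat_lit 0) (nat_lit 23605802342) (nat_lit 760) (nat_lit 7051671889) (nat_lit 836) (nat_lit 19276126636) (nat_lit 95) (nat_lit 5) (nat_lit 105) (nat_lit 5) (nat_lit 106) (nat_lit 5) (nat_lit 357) (nat_lit 345) (nat_lit 198)) (XT.nd (nat_lit 78)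 (nat_lit 380) (nat_lit 0) (XT.lf (nat_lit 0) (nat_lit 35993759224) (nat_lit 836) (nat_lit 941256154) (nat_lit 76) (nat_lit 14384658232) (nat_lit 95) (nat_lit 5) (nat_lit 106) (nat_lit 5) (nat_lit 96) (nat_lit 5) (nat_lit 358) (nat_lit 345) (nat_lit 197)) (XT.lf (nat_lit 0) (nat_lit 26443680161) (nat_lit 380) (nat_lit 15679883985) (nat_lit 456) (nat_lit 10625152336) (nat_lit 90) (nat_lit 5) (nat_lit 95) (nat_lit 5) (nat_lit 96) (nat_lit 5) (nat_lit 359) (nat_lit 345) (nat_lit 196)))) (XT.nd (nat_lit 78) (nat_lit 456) (nat_lit 0) (XT.lf (nat_lit 0) (nat_lit 905453488) (nat_lit 304) (nat_lit 47786684866) (nat_lit 380) (nat_lit 5550460882) (nat_lit 86) (nat_lit 5) (nat_lit 90) (nat_lit 5) (nat_lit 91) (nat_lit 5) (nat_lit 360) (nat_lit 345) (nat_lit 195)) (XT.nd (nat_lit 78) (nat_lit 380) (nat_lit 0) (XT.lf (nat_lit 0) (nat_lit 493238484) (nat_lit 380) (nat_lit 25661849378) (nat_lit 76) (nat_lit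 29620854787) (nat_lit 85) (nat_lit 5) (nat_lit 90) (nat_lit 5) (nat_lit 86) (nat_lit 5) (nat_lit 361) (nat_lit 345) (nat_lit 194)) (XT.lf (nat_lit 0) (nat_lit 3413784850) (nat_lit 380) (nat_lit 3290512409) (nat_lit 456) (nat_lit 50674522561) (nat_lit 80) (nat_lit 5) (nat_lit 85) (nat_lit 5) (nat_lit 86) (nat_lit 5) (nat_lit 362) (nat_lit 345) (nat_lit 193))))))))
noncomputable def xc206 : XT := (XT.nd (nat_lit 1794) (nat_lit 1596) (nat_lit 0) (XT.nd (nat_lit 858) (nat_lit 1520) (nat_lit 0) (XT.nd (nat_lit 390) (nat_lit 836) (nat_lit 0) (XT.nd (nat_lit 156) (nat_lit 304) (nat_lit 0) (XT.nd (nat_lit 78) (nat_lit 304) (nat_lit 0) (XT.lf (nat_lit 0) (nat_lit 13989539633) (nat_lit 456) (nat_lit 24538315677) (nat_lit 76) (nat_lit 20495805397) (nat_lit 80) (nat_lit 5) (nat_lit 86) (nat_lit 5) (nat_lit 81) (nat_lit 5) (nat_lit 363) (nat_lit 345) (nat_lit 192)) (XT.lf (nat_lit 0) (nat_lit 6512575690)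 (nat_lit 304) (nat_lit 15280619690) (nat_lit 380) (nat_lit 38949842019) (nat_lit 76) (nat_lit 5) (nat_lit 80) (nat_lit 5) (nat_lit 81) (nat_lit 5) (nat_lit 364) (nat_lit 345) (nat_lit 191))) (XT.nd (nat_lit 78) (nat_lit 304) (nat_lit 0) (XT.lf (nat_lit 0) (nat_lit 30550513759) (nat_lit 380) (nat_lit 22710726119) (nat_lit 76) (nat_lit 9258970318) (nat_lit 76) (nat_lit 5) (nat_lit 81) (nat_lit 5) (nat_lit 77) (nat_lit 5) (nat_lit 365) (nat_lit 345) (nat_lit 190)) (XT.nd (nat_lit 78) (nat_lit 0) (nat_lit 0) (XT.lf (nat_lit 0) (nat_lit 10467907342) (nat_lit 304) (nat_lit 29690364211) (nat_lit 380) (nat_lit 24207342608) (nat_lit 72) (nat_lit 5) (nat_lit 76) (nat_lit 5) (nat_lit 77) (nat_lit 5) (nat_lit 366) (nat_lit 345) (nat_lit 189)) (XT.lf (nat_lit 0) (nat_lit 46092338468) (nat_lit 304) (nat_lit 4537373953) (nat_lit 380) (nat_lit 15654412288) (nat_lit 72) (nat_lit 5) (nat_lit 76) (nat_lit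 5) (nat_lit 77) (nat_lit 5) (nat_lit 367) (nat_lit 345) (nat_lit 188))))) (XT.nd (nat_lit 234) (nat_lit 228) (nat_lit 0) (XT.nd (nat_lit 78) (nat_lit 380) (nat_lit 0) (XT.lf (nat_lit 0) (nat_lit 15347562320) (nat_lit 228) (nat_lit 46857021326) (nat_lit 304) (nat_lit 6064985312) (nat_lit 69) (nat_lit 5) (nat_lit 72) (nat_lit 5) (nat_lit 73) (nat_lit 5) (nat_lit 368) (nat_lit 345) (nat_lit 187)) (XT.nd (nat_lit 78) (nat_lit 304) (nat_lit 0) (XT.lf (nat_lit 0) (nat_lit 4296461089) (nat_lit 304) (nat_lit 17116396992) (nat_lit 76) (nat_lit 48917267797) (nat_lit 68) (nat_lit 5) (nat_lit 72) (nat_lit 5) (nat_lit 69) (nat_lit 5) (nat_lit 369) (nat_lit 345) (nat_lit 186)) (XT.lf (nat_lit 0) (nat_lit 15389469472) (nat_lit 380) (nat_lit 51509830778) (nat_lit 76) (nat_lit 5568574390) (nat_lit 64) (nat_lit 5) (nat_lit 69) (nat_lit 5) (nat_lit 65) (nat_lit 5) (nat_lit 370) (nat_lit 345) (nat_lit 185))))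 (XT.nd (nat_lit 78) (nat_lit 228) (nat_lit 0) (XT.lf (nat_lit 0) (nat_lit 27681624131) (nat_lit 380) (nat_lit 13524902429) (nat_lit 76) (nat_lit 33473760383) (nat_lit 64) (nat_lit 5) (nat_lit 69) (nat_lit 5) (nat_lit 65) (nat_lit 5) (nat_lit 371) (nat_lit 345) (nat_lit 184)) (XT.nd (nat_lit 78) (nat_lit 0) (nat_lit 0) (XT.lf (nat_lit 0) (nat_lit 27229301734) (nat_lit 228) (nat_lit 13783104682) (nat_lit 304) (nat_lit 35969713304) (nat_lit 61) (nat_lit 5) (nat_lit 64) (nat_lit 5) (nat_lit 65) (nat_lit 5) (nat_lit 372) (nat_lit 345) (nat_lit 183)) (XT.lf (nat_lit 0) (nat_lit 55475823137) (nat_lit 304) (nat_lit 9136450915) (nat_lit 76) (nat_lit 14763466133) (nat_lit 61) (nat_lit 5) (nat_lit 65) (nat_lit 5) (nat_lit 62) (nat_lit 5) (nat_lit 373) (nat_lit 345) (nat_lit 182)))))) (XT.nd (nat_lit 468) (nat_lit 608) (nat_lit 0) (XT.nd (nat_lit 234) (nat_lit 380) (nat_lit 0) (XT.nd (nat_lit 78) (nat_lit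 304) (nat_lit 0) (XT.lf (nat_lit 0) (nat_lit 34383848268) (nat_lit 228) (nat_lit 37040312926) (nat_lit 304) (nat_lit 10426793726) (nat_lit 58) (nat_lit 5) (nat_lit 61) (nat_lit 5) (nat_lit 62) (nat_lit 5) (nat_lit 374) (nat_lit 345) (nat_lit 181)) (XT.nd (nat_lit 78) (nat_lit 228) (nat_lit 0) (XT.lf (nat_lit 0) (nat_lit 3757169407) (nat_lit 304) (nat_lit 4106893424) (nat_lit 76) (nat_lit 76575151975) (nat_lit 57) (nat_lit 5) (nat_lit 61) (nat_lit 5) (nat_lit 58) (nat_lit 5) (nat_lit 375) (nat_lit 345) (nat_lit 180)) (XT.lf (nat_lit 0) (nat_lit 19333478804) (nat_lit 304) (nat_lit 44871442445) (nat_lit 76) (nat_lit 22891742715) (nat_lit 54) (nat_lit 5) (nat_lit 58) (nat_lit 5) (nat_lit 55) (nat_lit 5) (nat_lit 376) (nat_lit 345) (nat_lit 179)))) (XT.nd (nat_lit 78) (nat_lit 152) (nat_lit 0) (XT.lf (nat_lit 0) (nat_lit 1034679557) (nat_lit 228) (nat_lit 34868736918) (nat_lit 304) (nat_lit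 53972829102) (nat_lit 51) (nat_lit 5) (nat_lit 54) (nat_lit 5) (nat_lit 55) (nat_lit 5) (nat_lit 377) (nat_lit 345) (nat_lit 178)) (XT.nd (nat_lit 78) (nat_lit 152) (nat_lit 0) (XT.lf (nat_lit 0) (nat_lit 50792571606) (nat_lit 228) (nat_lit 3268270052) (nat_lit 304) (nat_lit 38696015689) (nat_lit 51) (nat_lit 5) (nat_lit 54) (nat_lit 5) (nat_lit 55) (nat_lit 5) (nat_lit 378) (nat_lit 345) (nat_lit 177)) (XT.lf (nat_lit 0) (nat_lit 7012959302) (nat_lit 152) (nat_lit 66688793029) (nat_lit 228) (nat_lit 22050967241) (nat_lit 49) (nat_lit 5) (nat_lit 51) (nat_lit 5) (nat_lit 52) (nat_lit 5) (nat_lit 379) (nat_lit 345) (nat_lit 176))))) (XT.nd (nat_lit 234) (nat_lit 304) (nat_lit 0) (XT.nd (nat_lit 78) (nat_lit 304) (nat_lit 0) (XT.lf (nat_lit 0) (nat_lit 59839299630) (nat_lit 152) (nat_lit 35247938918) (nat_lit 228) (nat_lit 3773010410) (nat_lit 49) (nat_lit 5) (nat_lit 51) (nat_lit 5) (nat_lit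 52) (nat_lit 5) (nat_lit 380) (nat_lit 345) (nat_lit 175)) (XT.nd (nat_lit 78) (nat_lit 0) (nat_lit 0) (XT.lf (nat_lit 0) (nat_lit 13369696733) (nat_lit 228) (nat_lit 1763544468) (nat_lit 304) (nat_lit 86967482730) (nat_lit 45) (nat_lit 5) (nat_lit 48) (nat_lit 5) (nat_lit 49) (nat_lit 5) (nat_lit 381) (nat_lit 345) (nat_lit 174)) (XT.lf (nat_lit 0) (nat_lit 36050241396) (nat_lit 304) (nat_lit 36330964745) (nat_lit 76) (nat_lit 33059312662) (nat_lit 45) (nat_lit 5) (nat_lit 49) (nat_lit 5) (nat_lit 46) (nat_lit 5) (nat_lit 382) (nat_lit 345) (nat_lit 173)))) (XT.nd (nat_lit 78) (nat_lit 152) (nat_lit 0) (XT.lf (nat_lit 0) (nat_lit 19275899728) (nat_lit 152) (nat_lit 39066263904) (nat_lit 228) (nat_lit 50588686637) (nat_lit 43) (nat_lit 5) (nat_lit 45) (nat_lit 5) (nat_lit 46) (nat_lit 5) (nat_lit 383) (nat_lit 345) (nat_lit 172)) (XT.nd (nat_lit 78) (nat_lit 152) (nat_lit 0) (XT.lf (nat_lit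 0) (nat_lit 78923216772) (nat_lit 152) (nat_lit 3439976874) (nat_lit 228) (nat_lit 30201779511) (nat_lit 43) (nat_lit 5) (nat_lit 45) (nat_lit 5) (nat_lit 46) (nat_lit 5) (nat_lit 384) (nat_lit 345) (nat_lit 171)) (XT.lf (nat_lit 0) (nat_lit 25455304302) (nat_lit 152) (nat_lit 83056988537) (nat_lit 228) (nat_lit 7822158877) (nat_lit 41) (nat_lit 5) (nat_lit 43) (nat_lit 5) (nat_lit 44) (nat_lit 5) (nat_lit 385) (nat_lit 345) (nat_lit 170))))))) (XT.nd (nat_lit 936) (nat_lit 608) (nat_lit 0) (XT.nd (nat_lit 468) (nat_lit 456) (nat_lit 0) (XT.nd (nat_lit 234) (nat_lit 304) (nat_lit 0) (XT.nd (nat_lit 78) (nat_lit 152) (nat_lit 0) (XT.lf (nat_lit 0) (nat_lit 15809435141) (nat_lit 228) (nat_lit 31900417205) (nat_lit 76) (nat_lit 72538577748) (nat_lit 40) (nat_lit 5) (nat_lit 43) (nat_lit 5) (nat_lit 41) (nat_lit 5) (nat_lit 386) (nat_lit 345) (nat_lit 169)) (XT.nd (nat_lit 78) (nat_lit 0) (nat_lit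 0) (XT.lf (nat_lit 0) (nat_lit 30886435704) (nat_lit 152) (nat_lit 9954820141) (nat_lit 228) (nat_lit 83486364154) (nat_lit 38) (nat_lit 5) (nat_lit 40) (nat_lit 5) (nat_lit 41) (nat_lit 5) (nat_lit 387) (nat_lit 345) (nat_lit 168)) (XT.lf (nat_lit 0) (nat_lit 68136593477) (nat_lit 228) (nat_lit 31137133998) (nat_lit 76) (nat_lit 29286445969) (nat_lit 38) (nat_lit 5) (nat_lit 41) (nat_lit 5) (nat_lit 39) (nat_lit 5) (nat_lit 388) (nat_lit 345) (nat_lit 167)))) (XT.nd (nat_lit 78) (nat_lit 152) (nat_lit 0) (XT.lf (nat_lit 0) (nat_lit 35245919430) (nat_lit 152) (nat_lit 62263600897) (nat_lit 228) (nat_lit 35459193437) (nat_lit 36) (nat_lit 5) (nat_lit 38) (nat_lit 5) (nat_lit 39) (nat_lit 5) (nat_lit 389) (nat_lit 345) (nat_lit 166)) (XT.nd (nat_lit 78) (nat_lit 152) (nat_lit 0) (XT.lf (nat_lit 0) (nat_lit 106028059029) (nat_lit 152) (nat_lit 22849712467) (nat_lit 228) (nat_lit 8693576013)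 (nat_lit 36) (nat_lit 5) (nat_lit 38) (nat_lit 5) (nat_lit 39) (nat_lit 5) (nat_lit 390) (nat_lit 345) (nat_lit 165)) (XT.lf (nat_lit 0) (nat_lit 19699856477) (nat_lit 152) (nat_lit 103777250941) (nat_lit 76) (nat_lit 18866314039) (nat_lit 34) (nat_lit 5) (nat_lit 36) (nat_lit 5) (nat_lit 35) (nat_lit 5) (nat_lit 391) (nat_lit 345) (nat_lit 164))))) (XT.nd (nat_lit 234) (nat_lit 304) (nat_lit 0) (XT.nd (nat_lit 78) (nat_lit 152) (nat_lit 0) (XT.lf (nat_lit 0) (nat_lit 50137726098) (nat_lit 152) (nat_lit 34578089762) (nat_lit 76) (nat_lit 62585311292) (nat_lit 34) (nat_lit 5) (nat_lit 36) (nat_lit 5) (nat_lit 35) (nat_lit 5) (nat_lit 392) (nat_lit 345) (nat_lit 163)) (XT.nd (nat_lit 78) (nat_lit 0) (nat_lit 0) (XT.lf (nat_lit 0) (nat_lit 39339122859) (nat_lit 152) (nat_lit 43371972650) (nat_lit 228) (nat_lit 69764942559) (nat_lit 32) (nat_lit 5) (nat_lit 34) (nat_lit 5) (nat_lit 35) (nat_lit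 5) (nat_lit 393) (nat_lit 345) (nat_lit 162)) (XT.lf (nat_lit 0) (nat_lit 117508358360) (nat_lit 228) (nat_lit 39738965786) (nat_lit 76) (nat_lit 632609375) (nat_lit 32) (nat_lit 5) (nat_lit 35) (nat_lit 5) (nat_lit 33) (nat_lit 4) (nat_lit 394) (nat_lit 345) (nat_lit 161)))) (XT.nd (nat_lit 78) (nat_lit 228) (nat_lit 0) (XT.lf (nat_lit 0) (nat_lit 37827622880) (nat_lit 76) (nat_lit 117518918780) (nat_lit 152) (nat_lit 8142429451) (nat_lit 31) (nat_lit 5) (nat_lit 32) (nat_lit 5) (nat_lit 33) (nat_lit 4) (nat_lit 395) (nat_lit 345) (nat_lit 160)) (XT.nd (nat_lit 78) (nat_lit 152) (nat_lit 0) (XT.lf (nat_lit 0) (nat_lit 25559151526) (nat_lit 152) (nat_lit 49105841150) (nat_lit 76) (nat_lit 94659233084) (nat_lit 30) (nat_lit 5) (nat_lit 32) (nat_lit 5) (nat_lit 31) (nat_lit 5) (nat_lit 396) (nat_lit 345) (nat_lit 159)) (XT.lf (nat_lit 0) (nat_lit 32172768967) (nat_lit 152) (nat_lit 29001185550)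 (nat_lit 228) (nat_lit 114245525601) (nat_lit 28) (nat_lit 5) (nat_lit 30) (nat_lit 5) (nat_lit 31) (nat_lit 5) (nat_lit 397) (nat_lit 345) (nat_lit 158)))))) (XT.nd (nat_lit 468) (nat_lit 304) (nat_lit 0) (XT.nd (nat_lit 234) (nat_lit 228) (nat_lit 0) (XT.nd (nat_lit 78) (nat_lit 76) (nat_lit 0) (XT.lf (nat_lit 0) (nat_lit 99710039044) (nat_lit 228) (nat_lit 62868117015) (nat_lit 76) (nat_lit 19184314254) (nat_lit 28) (nat_lit 5) (nat_lit 31) (nat_lit 5) (nat_lit 29) (nat_lit 4) (nat_lit 398) (nat_lit 345) (nat_lit 157)) (XT.nd (nat_lit 78) (nat_lit 0) (nat_lit 0) (XT.lf (nat_lit 0) (nat_lit 21749207673) (nat_lit 76) (nat_lit 119238219944) (nat_lit 152) (nat_lit 47394457589) (nat_lit 27) (nat_lit 5) (nat_lit 28) (nat_lit 5) (nat_lit 29) (nat_lit 4) (nat_lit 399) (nat_lit 345) (nat_lit 156)) (XT.lf (nat_lit 0) (nat_lit 112779171503) (nat_lit 76) (nat_lit 72613730635) (nat_lit 152) (nat_lit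 9886158050) (nat_lit 27) (nat_lit 5) (nat_lit 28) (nat_lit 5) (nat_lit 29) (nat_lit 4) (nat_lit 400) (nat_lit 345) (nat_lit 155)))) (XT.nd (nat_lit 78) (nat_lit 0) (nat_lit 0) (XT.lf (nat_lit 0) (nat_lit 5555985714) (nat_lit 152) (nat_lit 23083739155) (nat_lit 228) (nat_lit 173854028508) (nat_lit 24) (nat_lit 5) (nat_lit 26) (nat_lit 5) (nat_lit 27) (nat_lit 5) (nat_lit 401) (nat_lit 345) (nat_lit 154)) (XT.nd (nat_lit 78) (nat_lit 0) (nat_lit 0) (XT.lf (nat_lit 0) (nat_lit 70630841130) (nat_lit 228) (nat_lit 109757841171) (nat_lit 76) (nat_lit 29578836715) (nat_lit 24) (nat_lit 5) (nat_lit 27) (nat_lit 5) (nat_lit 25) (nat_lit 4) (nat_lit 402) (nat_lit 345) (nat_lit 153)) (XT.lf (nat_lit 0) (nat_lit 115099491034) (nat_lit 228) (nat_lit 18598144600) (nat_lit 76) (nat_lit 84098438554) (nat_lit 24) (nat_lit 5) (nat_lit 27) (nat_lit 5) (nat_lit 25) (nat_lit 4) (nat_lit 403) (nat_lit 345) (nat_lit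 152))))) (XT.nd (nat_lit 234) (nat_lit 76) (nat_lit 0) (XT.nd (nat_lit 78) (nat_lit 152) (nat_lit 0) (XT.lf (nat_lit 0) (nat_lit 79668665647) (nat_lit 76) (nat_lit 83366335952) (nat_lit 152) (nat_lit 62918884245) (nat_lit 23) (nat_lit 5) (nat_lit 24) (nat_lit 5) (nat_lit 25) (nat_lit 4) (nat_lit 404) (nat_lit 345) (nat_lit 151)) (XT.nd (nat_lit 78) (nat_lit 152) (nat_lit 0) (XT.lf (nat_lit 0) (nat_lit 183493748354) (nat_lit 76) (nat_lit 30188093316) (nat_lit 152) (nat_lit 20822018840) (nat_lit 23) (nat_lit 5) (nat_lit 24) (nat_lit 5) (nat_lit 25) (nat_lit 4) (nat_lit 405) (nat_lit 345) (nat_lit 150)) (XT.lf (nat_lit 0) (nat_lit 23835178921) (nat_lit 152) (nat_lit 193571142044) (nat_lit 76) (nat_lit 25996572678) (nat_lit 21) (nat_lit 5) (nat_lit 23) (nat_lit 5) (nat_lit 22) (nat_lit 4) (nat_lit 406) (nat_lit 345) (nat_lit 149)))) (XT.nd (nat_lit 78) (nat_lit 76) (nat_lit 0) (XT.lf (nat_lit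 0) (nat_lit 71398011242) (nat_lit 152) (nat_lit 96068147310) (nat_lit 76) (nat_lit 85195026211) (nat_lit 21) (nat_lit 5) (nat_lit 23) (nat_lit 5) (nat_lit 22) (nat_lit 4) (nat_lit 407) (nat_lit 345) (nat_lit 148)) (XT.nd (nat_lit 78) (nat_lit 0) (nat_lit 0) (XT.lf (nat_lit 0) (nat_lit 6517911953) (nat_lit 76) (nat_lit 114922456431) (nat_lit 152) (nat_lit 140936952998) (nat_lit 20) (nat_lit 5) (nat_lit 21) (nat_lit 5) (nat_lit 22) (nat_lit 4) (nat_lit 408) (nat_lit 345) (nat_lit 147)) (XT.lf (nat_lit 0) (nat_lit 117567855510) (nat_lit 76) (nat_lit 58043576110) (nat_lit 152) (nat_lit 96886503902) (nat_lit 20) (nat_lit 5) (nat_lit 21) (nat_lit 5) (nat_lit 22) (nat_lit 4) (nat_lit 409) (nat_lit 345) (nat_lit 146))))))))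
noncomputable def xc207 : XT := (XT.nd (nat_lit 42354) (nat_lit 0) (nat_lit 3572) (XT.nd (nat_lit 936) (nat_lit 228) (nat_lit 0) (XT.nd (nat_lit 468) (nat_lit 228) (nat_lit 0) (XT.nd (nat_lit 234) (nat_lit 76) (nat_lit 0) (XT.nd (nat_lit 78) (nat_lit 152) (nat_lit 0) (XT.lf (nat_lit 0) (nat_lit 232516906501) (nat_lit 152) (nat_lit 48981170093) (nat_lit 0) (nat_lit 1625210943) (nat_lit 20) (nat_lit 5) (nat_lit 22) (nat_lit 4) (nat_lit 20) (nat_lit 4) (nat_lit 410) (nat_lit 345) (nat_lit 145)) (XT.nd (nat_lit 78) (nat_lit 0) (nat_lit 0) (XT.lf (nat_lit 0) (nat_lit 24069073) (nat_lit 152) (nat_lit 230842989807) (nat_lit 76) (nat_lit 63315823383) (nat_lit 18) (nat_lit 5) (nat_lit 20) (nat_lit 5) (nat_lit 19) (nat_lit 4) (nat_lit 411) (nat_lit 345) (nat_lit 144)) (XT.lf (nat_lit 0) (nat_lit 52328112698) (nat_lit 152) (nat_lit 123620305946) (nat_lit 76) (nat_lit 129763418658) (nat_lit 18) (nat_lit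 5) (nat_lit 20) (nat_lit 5) (nat_lit 19) (nat_lit 4) (nat_lit 412) (nat_lit 345) (nat_lit 143)))) (XT.nd (nat_lit 78) (nat_lit 76) (nat_lit 0) (XT.lf (nat_lit 0) (nat_lit 107247033509) (nat_lit 152) (nat_lit 11037095018) (nat_lit 76) (nat_lit 199533127895) (nat_lit 18) (nat_lit 5) (nat_lit 20) (nat_lit 5) (nat_lit 19) (nat_lit 4) (nat_lit 413) (nat_lit 345) (nat_lit 142)) (XT.nd (nat_lit 78) (nat_lit 0) (nat_lit 0) (XT.lf (nat_lit 0) (nat_lit 110718377782) (nat_lit 76) (nat_lit 55921837225) (nat_lit 152) (nat_lit 163801315833) (nat_lit 17) (nat_lit 5) (nat_lit 18) (nat_lit 5) (nat_lit 19) (nat_lit 4) (nat_lit 414) (nat_lit 345) (nat_lit 141)) (XT.lf (nat_lit 0) (nat_lit 229341966604) (nat_lit 152) (nat_lit 104895746097) (nat_lit 0) (nat_lit 9442360797) (nat_lit 17) (nat_lit 5) (nat_lit 19) (nat_lit 4) (nat_lit 17) (nat_lit 4) (nat_lit 415) (nat_lit 345) (nat_lit 140))))) (XT.nd (nat_lit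 234) (nat_lit 76) (nat_lit 0) (XT.nd (nat_lit 78) (nat_lit 76) (nat_lit 0) (XT.lf (nat_lit 0) (nat_lit 15243618387) (nat_lit 76) (nat_lit 281089641282) (nat_lit 76) (nat_lit 61189560994) (nat_lit 16) (nat_lit 4) (nat_lit 17) (nat_lit 5) (nat_lit 17) (nat_lit 4) (nat_lit 416) (nat_lit 345) (nat_lit 139)) (XT.nd (nat_lit 78) (nat_lit 76) (nat_lit 0) (XT.lf (nat_lit 0) (nat_lit 145031151067) (nat_lit 76) (nat_lit 223419138865) (nat_lit 76) (nat_lit 3518606691) (nat_lit 16) (nat_lit 4) (nat_lit 17) (nat_lit 5) (nat_lit 17) (nat_lit 4) (nat_lit 417) (nat_lit 345) (nat_lit 138)) (XT.lf (nat_lit 0) (nat_lit 55210111957) (nat_lit 152) (nat_lit 106720233030) (nat_lit 76) (nat_lit 225162420870) (nat_lit 15) (nat_lit 5) (nat_lit 17) (nat_lit 5) (nat_lit 16) (nat_lit 4) (nat_lit 418) (nat_lit 345) (nat_lit 137)))) (XT.nd (nat_lit 78) (nat_lit 0) (nat_lit 0) (XT.lf (nat_lit 0) (nat_lit 20093075162)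 (nat_lit 76) (nat_lit 96977387071) (nat_lit 152) (nat_lit 285883810074) (nat_lit 14) (nat_lit 5) (nat_lit 15) (nat_lit 5) (nat_lit 16) (nat_lit 4) (nat_lit 419) (nat_lit 345) (nat_lit 136)) (XT.nd (nat_lit 78) (nat_lit 0) (nat_lit 0) (XT.lf (nat_lit 0) (nat_lit 156951640596) (nat_lit 76) (nat_lit 26879287876) (nat_lit 152) (nat_lit 235687570737) (nat_lit 14) (nat_lit 5) (nat_lit 15) (nat_lit 5) (nat_lit 16) (nat_lit 4) (nat_lit 420) (nat_lit 345) (nat_lit 135)) (XT.lf (nat_lit 0) (nat_lit 254658654769) (nat_lit 152) (nat_lit 136987770458) (nat_lit 0) (nat_lit 45228050443) (nat_lit 14) (nat_lit 5) (nat_lit 16) (nat_lit 4) (nat_lit 14) (nat_lit 4) (nat_lit 421) (nat_lit 345) (nat_lit 134)))))) (XT.nd (nat_lit 40950) (nat_lit 0) (nat_lit 6764) (XT.nd (nat_lit 234) (nat_lit 76) (nat_lit 0) (XT.nd (nat_lit 78) (nat_lit 152) (nat_lit 0) (XT.lf (nat_lit 0) (nat_lit 329468172006) (nat_lit 152)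 (nat_lit 5570828290) (nat_lit 0) (nat_lit 120037230476) (nat_lit 14) (nat_lit 5) (nat_lit 16) (nat_lit 4) (nat_lit 14) (nat_lit 4) (nat_lit 422) (nat_lit 345) (nat_lit 133)) (XT.nd (nat_lit 78) (nat_lit 76) (nat_lit 0) (XT.lf (nat_lit 0) (nat_lit 136794814757) (nat_lit 76) (nat_lit 273358872736) (nat_lit 76) (nat_lit 63927610059) (nat_lit 13) (nat_lit 4) (nat_lit 14) (nat_lit 5) (nat_lit 14) (nat_lit 4) (nat_lit 423) (nat_lit 345) (nat_lit 132)) (XT.lf (nat_lit 0) (nat_lit 905740043) (nat_lit 152) (nat_lit 207574801442) (nat_lit 76) (nat_lit 285550639756) (nat_lit 12) (nat_lit 5) (nat_lit 14) (nat_lit 5) (nat_lit 13) (nat_lit 4) (nat_lit 424) (nat_lit 345) (nat_lit 131)))) (XT.nd (nat_lit 78) (nat_lit 76) (nat_lit 0) (XT.lf (nat_lit 0) (nat_lit 66832154027) (nat_lit 152) (nat_lit 72425944064) (nat_lit 76) (nat_lit 375668072218) (nat_lit 12) (nat_lit 5) (nat_lit 14) (nat_lit 5) (nat_lit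 13) (nat_lit 4) (nat_lit 425) (nat_lit 345) (nat_lit 130)) (XT.nd (nat_lit 78) (nat_lit 0) (nat_lit 0) (XT.lf (nat_lit 0) (nat_lit 71777282789) (nat_lit 76) (nat_lit 65398044054) (nat_lit 152) (nat_lit 399634560119) (nat_lit 11) (nat_lit 5) (nat_lit 12) (nat_lit 5) (nat_lit 13) (nat_lit 4) (nat_lit 426) (nat_lit 345) (nat_lit 129)) (XT.lf (nat_lit 0) (nat_lit 212471902658) (nat_lit 152) (nat_lit 334231601900) (nat_lit 0) (nat_lit 13012472707) (nat_lit 11) (nat_lit 5) (nat_lit 13) (nat_lit 4) (nat_lit 11) (nat_lit 4) (nat_lit 427) (nat_lit 345) (nat_lit 128))))) (XT.nd (nat_lit 234) (nat_lit 0) (nat_lit 76) (XT.nd (nat_lit 78) (nat_lit 0) (nat_lit 0) (XT.lf (nat_lit 0) (nat_lit 1803790950) (nat_lit 836) (nat_lit 8717359534) (nat_lit 836) (nat_lit 8717359534) (nat_lit 100) (nat_lit 3) (nat_lit 111) (nat_lit 3) (nat_lit 111) (nat_lit 5) (nat_lit 346) (nat_lit 346) (nat_lit 208)) (XT.nd (nat_lit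 78) (nat_lit 0) (nat_lit 76) (XT.lf (nat_lit 76) (nat_lit 794633698) (nat_lit 0) (nat_lit 2958341257) (nat_lit 836) (nat_lit 35683165232) (nat_lit 101) (nat_lit 5) (nat_lit 100) (nat_lit 3) (nat_lit 111) (nat_lit 5) (nat_lit 347) (nat_lit 346) (nat_lit 207)) (XT.lf (nat_lit 0) (nat_lit 4453270988) (nat_lit 760) (nat_lit 20144463920) (nat_lit 836) (nat_lit 15818102660) (nat_lit 101) (nat_lit 5) (nat_lit 111) (nat_lit 5) (nat_lit 112) (nat_lit 5) (nat_lit 348) (nat_lit 346) (nat_lit 206)))) (XT.nd (nat_lit 78) (nat_lit 0) (nat_lit 76) (XT.lf (nat_lit 0) (nat_lit 5234466978) (nat_lit 760) (nat_lit 772636387) (nat_lit 836) (nat_lit 35435124951) (nat_lit 101) (nat_lit 5) (nat_lit 111) (nat_lit 5) (nat_lit 112) (nat_lit 5) (nat_lit 349) (nat_lit 346) (nat_lit 205)) (XT.nd (nat_lit 78) (nat_lit 0) (nat_lit 0) (XT.lf (nat_lit 0) (nat_lit 6583985964) (nat_lit 760) (nat_lit 22507214778) (nat_lit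 836) (nat_lit 13402277320) (nat_lit 102) (nat_lit 5) (nat_lit 112) (nat_lit 5) (nat_lit 113) (nat_lit 5) (nat_lit 350) (nat_lit 346) (nat_lit 204)) (XT.lf (nat_lit 0) (nat_lit 8110379525) (nat_lit 760) (nat_lit 1887002933) (nat_lit 836) (nat_lit 33594440406) (nat_lit 102) (nat_lit 5) (nat_lit 112) (nat_lit 5) (nat_lit 113) (nat_lit 5) (nat_lit 351) (nat_lit 346) (nat_lit 203))))))) (XT.nd (nat_lit 936) (nat_lit 1672) (nat_lit 0) (XT.nd (nat_lit 468) (nat_lit 1748) (nat_lit 0) (XT.nd (nat_lit 234) (nat_lit 0) (nat_lit 76) (XT.nd (nat_lit 78) (nat_lit 0) (nat_lit 0) (XT.lf (nat_lit 0) (nat_lit 10191744258) (nat_lit 760) (nat_lit 24475293663) (nat_lit 836) (nat_lit 10054116789) (nat_lit 103) (nat_lit 5) (nat_lit 113) (nat_lit 5) (nat_lit 114) (nat_lit 5) (nat_lit 352) (nat_lit 346) (nat_lit 202)) (XT.nd (nat_lit 78) (nat_lit 0) (nat_lit 76) (XT.lf (nat_lit 0) (nat_lit 12571380074) (nat_lit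 760) (nat_lit 2520517963) (nat_lit 836) (nat_lit 30805347235) (nat_lit 103) (nat_lit 5) (nat_lit 113) (nat_lit 5) (nat_lit 114) (nat_lit 5) (nat_lit 353) (nat_lit 346) (nat_lit 201)) (XT.lf (nat_lit 0) (nat_lit 15489780997) (nat_lit 760) (nat_lit 25997127338) (nat_lit 836) (nat_lit 5624245020) (nat_lit 104) (nat_lit 5) (nat_lit 114) (nat_lit 5) (nat_lit 115) (nat_lit 5) (nat_lit 354) (nat_lit 346) (nat_lit 200)))) (XT.nd (nat_lit 78) (nat_lit 0) (nat_lit 0) (XT.lf (nat_lit 0) (nat_lit 18842911429) (nat_lit 760) (nat_lit 2615560968) (nat_lit 836) (nat_lit 26912846026) (nat_lit 104) (nat_lit 5) (nat_lit 114) (nat_lit 5) (nat_lit 115) (nat_lit 5) (nat_lit 355) (nat_lit 346) (nat_lit 199)) (XT.nd (nat_lit 78) (nat_lit 0) (nat_lit 76) (XT.lf (nat_lit 76) (nat_lit 22658748622) (nat_lit 0) (nat_lit 56826167) (nat_lit 836) (nat_lit 26961325092) (nat_lit 105) (nat_lit 5) (nat_lit 104) (nat_lit 5)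 (nat_lit 115) (nat_lit 5) (nat_lit 356) (nat_lit 346) (nat_lit 198)) (XT.lf (nat_lit 0) (nat_lit 27175033221) (nat_lit 760) (nat_lit 2110280254) (nat_lit 76) (nat_lit 21742790707) (nat_lit 105) (nat_lit 5) (nat_lit 115) (nat_lit 5) (nat_lit 106) (nat_lit 5) (nat_lit 357) (nat_lit 346) (nat_lit 197))))) (XT.nd (nat_lit 234) (nat_lit 760) (nat_lit 0) (XT.nd (nat_lit 78) (nat_lit 380) (nat_lit 0) (XT.lf (nat_lit 0) (nat_lit 24835388751) (nat_lit 760) (nat_lit 7409024568) (nat_lit 836) (nat_lit 20183109718) (nat_lit 95) (nat_lit 5) (nat_lit 105) (nat_lit 5) (nat_lit 106) (nat_lit 5) (nat_lit 358) (nat_lit 346) (nat_lit 196)) (XT.nd (nat_lit 78) (nat_lit 380) (nat_lit 0) (XT.lf (nat_lit 0) (nat_lit 37844867107) (nat_lit 836) (nat_lit 938672654) (nat_lit 76) (nat_lit 15099494529) (nat_lit 95) (nat_lit 5) (nat_lit 106) (nat_lit 5) (nat_lit 96) (nat_lit 5) (nat_lit 359) (nat_lit 346) (nat_lit 195))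 (XT.lf (nat_lit 0) (nat_lit 27814709731) (nat_lit 380) (nat_lit 16464766594) (nat_lit 456) (nat_lit 11104139756) (nat_lit 90) (nat_lit 5) (nat_lit 95) (nat_lit 5) (nat_lit 96) (nat_lit 5) (nat_lit 360) (nat_lit 346) (nat_lit 194)))) (XT.nd (nat_lit 78) (nat_lit 456) (nat_lit 0) (XT.lf (nat_lit 0) (nat_lit 1001292858) (nat_lit 304) (nat_lit 50173594378) (nat_lit 380) (nat_lit 5777387695) (nat_lit 86) (nat_lit 5) (nat_lit 90) (nat_lit 5) (nat_lit 91) (nat_lit 5) (nat_lit 361) (nat_lit 346) (nat_lit 193)) (XT.nd (nat_lit 78) (nat_lit 380) (nat_lit 0) (XT.lf (nat_lit 0) (nat_lit 564545014) (nat_lit 380) (nat_lit 26895198025) (nat_lit 76) (nat_lit 31102621730) (nat_lit 85) (nat_lit 5) (nat_lit 90) (nat_lit 5) (nat_lit 86) (nat_lit 5) (nat_lit 362) (nat_lit 346) (nat_lit 192)) (XT.lf (nat_lit 0) (nat_lit 3633415595) (nat_lit 380) (nat_lit 3451284075) (nat_lit 456) (nat_lit 53160761017) (nat_lit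 80) (nat_lit 5) (nat_lit 85) (nat_lit 5) (nat_lit 86) (nat_lit 5) (nat_lit 363) (nat_lit 346) (nat_lit 191)))))) (XT.nd (nat_lit 468) (nat_lit 836) (nat_lit 0) (XT.nd (nat_lit 234) (nat_lit 532) (nat_lit 0) (XT.nd (nat_lit 78) (nat_lit 304) (nat_lit 0) (XT.lf (nat_lit 0) (nat_lit 14732108193) (nat_lit 456) (nat_lit 25716485730) (nat_lit 76) (nat_lit 21524056434) (nat_lit 80) (nat_lit 5) (nat_lit 86) (nat_lit 5) (nat_lit 81) (nat_lit 5) (nat_lit 364) (nat_lit 346) (nat_lit 190)) (XT.nd (nat_lit 78) (nat_lit 0) (nat_lit 0) (XT.lf (nat_lit 0) (nat_lit 6886163984) (nat_lit 304) (nat_lit 16038479547) (nat_lit 380) (nat_lit 40853419362) (nat_lit 76) (nat_lit 5) (nat_lit 80) (nat_lit 5) (nat_lit 81) (nat_lit 5) (nat_lit 365) (nat_lit 346) (nat_lit 189)) (XT.lf (nat_lit 0) (nat_lit 32117929666) (nat_lit 380) (nat_lit 23798653342) (nat_lit 76) (nat_lit 9727607990) (nat_lit 76) (nat_lit 5) (nat_lit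 81) (nat_lit 5) (nat_lit 77) (nat_lit 5) (nat_lit 366) (nat_lit 346) (nat_lit 188)))) (XT.nd (nat_lit 78) (nat_lit 228) (nat_lit 0) (XT.lf (nat_lit 0) (nat_lit 11038143904) (nat_lit 304) (nat_lit 31166763234) (nat_lit 380) (nat_lit 25377018109) (nat_lit 72) (nat_lit 5) (nat_lit 76) (nat_lit 5) (nat_lit 77) (nat_lit 5) (nat_lit 367) (nat_lit 346) (nat_lit 187)) (XT.nd (nat_lit 78) (nat_lit 228) (nat_lit 0) (XT.lf (nat_lit 0) (nat_lit 48441566053) (nat_lit 304) (nat_lit 4756510090) (nat_lit 380) (nat_lit 16398378970) (nat_lit 72) (nat_lit 5) (nat_lit 76) (nat_lit 5) (nat_lit 77) (nat_lit 5) (nat_lit 368) (nat_lit 346) (nat_lit 186)) (XT.lf (nat_lit 0) (nat_lit 16160558367) (nat_lit 228) (nat_lit 49190203665) (nat_lit 304) (nat_lit 6330457509) (nat_lit 69) (nat_lit 5) (nat_lit 72) (nat_lit 5) (nat_lit 73) (nat_lit 5) (nat_lit 369) (nat_lit 346) (nat_lit 185))))) (XT.nd (nat_lit 234) (nat_lit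 456) (nat_lit 0) (XT.nd (nat_lit 78) (nat_lit 304) (nat_lit 0) (XT.lf (nat_lit 0) (nat_lit 4546110778) (nat_lit 304) (nat_lit 17927592089) (nat_lit 76) (nat_lit 51371160394) (nat_lit 68) (nat_lit 5) (nat_lit 72) (nat_lit 5) (nat_lit 69) (nat_lit 5) (nat_lit 370) (nat_lit 346) (nat_lit 184)) (XT.nd (nat_lit 78) (nat_lit 0) (nat_lit 0) (XT.lf (nat_lit 0) (nat_lit 16192953578) (nat_lit 380) (nat_lit 54039855296) (nat_lit 76) (nat_lit 5856732700) (nat_lit 64) (nat_lit 5) (nat_lit 69) (nat_lit 5) (nat_lit 65) (nat_lit 5) (nat_lit 371) (nat_lit 346) (nat_lit 183)) (XT.lf (nat_lit 0) (nat_lit 29098096417) (nat_lit 380) (nat_lit 14157845626) (nat_lit 76) (nat_lit 35156714678) (nat_lit 64) (nat_lit 5) (nat_lit 69) (nat_lit 5) (nat_lit 65) (nat_lit 5) (nat_lit 372) (nat_lit 346) (nat_lit 182)))) (XT.nd (nat_lit 78) (nat_lit 228) (nat_lit 0) (XT.lf (nat_lit 0) (nat_lit 28633370327) (nat_lit 228) (nat_lit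 14461170217) (nat_lit 304) (nat_lit 37735085649) (nat_lit 61) (nat_lit 5) (nat_lit 64) (nat_lit 5) (nat_lit 65) (nat_lit 5) (nat_lit 373) (nat_lit 346) (nat_lit 181)) (XT.nd (nat_lit 78) (nat_lit 228) (nat_lit 0) (XT.lf (nat_lit 0) (nat_lit 58279792339) (nat_lit 304) (nat_lit 9551340242) (nat_lit 76) (nat_lit 15511863020) (nat_lit 61) (nat_lit 5) (nat_lit 65) (nat_lit 5) (nat_lit 62) (nat_lit 5) (nat_lit 374) (nat_lit 346) (nat_lit 180)) (XT.lf (nat_lit 0) (nat_lit 36144297557) (nat_lit 228) (nat_lit 38880456829) (nat_lit 304) (nat_lit 10917257416) (nat_lit 58) (nat_lit 5) (nat_lit 61) (nat_lit 5) (nat_lit 62) (nat_lit 5) (nat_lit 375) (nat_lit 346) (nat_lit 179))))))))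
noncomputable def xc208 : XT := (XT.nd (nat_lit 1794) (nat_lit 1064) (nat_lit 0) (XT.nd (nat_lit 858) (nat_lit 988) (nat_lit 0) (XT.nd (nat_lit 390) (nat_lit 608) (nat_lit 0) (XT.nd (nat_lit 156) (nat_lit 380) (nat_lit 0) (XT.nd (nat_lit 78) (nat_lit 228) (nat_lit 0) (XT.lf (nat_lit 0) (nat_lit 3973492422) (nat_lit 304) (nat_lit 4271985067) (nat_lit 76) (nat_lit 80414255230) (nat_lit 57) (nat_lit 5) (nat_lit 61) (nat_lit 5) (nat_lit 58) (nat_lit 5) (nat_lit 376) (nat_lit 346) (nat_lit 178)) (XT.lf (nat_lit 0) (nat_lit 20328065584) (nat_lit 304) (nat_lit 47074191167) (nat_lit 76) (nat_lit 24047826103) (nat_lit 54) (nat_lit 5) (nat_lit 58) (nat_lit 5) (nat_lit 55) (nat_lit 5) (nat_lit 377) (nat_lit 346) (nat_lit 177))) (XT.nd (nat_lit 78) (nat_lit 152) (nat_lit 0) (XT.lf (nat_lit 0) (nat_lit 1126578493) (nat_lit 228) (nat_lit 36599219550) (nat_lit 304) (nat_lit 56642881498) (nat_lit 51) (nat_lit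 5) (nat_lit 54) (nat_lit 5) (nat_lit 55) (nat_lit 5) (nat_lit 378) (nat_lit 346) (nat_lit 176)) (XT.nd (nat_lit 78) (nat_lit 152) (nat_lit 0) (XT.lf (nat_lit 0) (nat_lit 53370452527) (nat_lit 228) (nat_lit 3419346209) (nat_lit 304) (nat_lit 40603588798) (nat_lit 51) (nat_lit 5) (nat_lit 54) (nat_lit 5) (nat_lit 55) (nat_lit 5) (nat_lit 379) (nat_lit 346) (nat_lit 175)) (XT.lf (nat_lit 0) (nat_lit 7402344629) (nat_lit 152) (nat_lit 70009964513) (nat_lit 228) (nat_lit 23126756824) (nat_lit 49) (nat_lit 5) (nat_lit 51) (nat_lit 5) (nat_lit 52) (nat_lit 5) (nat_lit 380) (nat_lit 346) (nat_lit 174))))) (XT.nd (nat_lit 234) (nat_lit 304) (nat_lit 0) (XT.nd (nat_lit 78) (nat_lit 304) (nat_lit 0) (XT.lf (nat_lit 0) (nat_lit 62868157337) (nat_lit 152) (nat_lit 36997699513) (nat_lit 228) (nat_lit 3936176379) (nat_lit 49) (nat_lit 5) (nat_lit 51) (nat_lit 5) (nat_lit 52) (nat_lit 5) (nat_lit 381)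 (nat_lit 346) (nat_lit 173)) (XT.nd (nat_lit 78) (nat_lit 0) (nat_lit 0) (XT.lf (nat_lit 0) (nat_lit 14075296150) (nat_lit 228) (nat_lit 1838680751) (nat_lit 304) (nat_lit 91290565615) (nat_lit 45) (nat_lit 5) (nat_lit 48) (nat_lit 5) (nat_lit 49) (nat_lit 5) (nat_lit 382) (nat_lit 346) (nat_lit 172)) (XT.lf (nat_lit 0) (nat_lit 37875874652) (nat_lit 304) (nat_lit 38111200043) (nat_lit 76) (nat_lit 34724300722) (nat_lit 45) (nat_lit 5) (nat_lit 49) (nat_lit 5) (nat_lit 46) (nat_lit 5) (nat_lit 383) (nat_lit 346) (nat_lit 171)))) (XT.nd (nat_lit 78) (nat_lit 152) (nat_lit 0) (XT.lf (nat_lit 0) (nat_lit 20275421962) (nat_lit 152) (nat_lit 41006427832) (nat_lit 228) (nat_lit 53094401455) (nat_lit 43) (nat_lit 5) (nat_lit 45) (nat_lit 5) (nat_lit 46) (nat_lit 5) (nat_lit 384) (nat_lit 346) (nat_lit 170)) (XT.nd (nat_lit 78) (nat_lit 152) (nat_lit 0) (XT.lf (nat_lit 0) (nat_lit 82903403560)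 (nat_lit 152) (nat_lit 3599452606) (nat_lit 228) (nat_lit 31689278474) (nat_lit 43) (nat_lit 5) (nat_lit 45) (nat_lit 5) (nat_lit 46) (nat_lit 5) (nat_lit 385) (nat_lit 346) (nat_lit 169)) (XT.lf (nat_lit 0) (nat_lit 26762423933) (nat_lit 152) (nat_lit 87196685021) (nat_lit 228) (nat_lit 8190993815) (nat_lit 41) (nat_lit 5) (nat_lit 43) (nat_lit 5) (nat_lit 44) (nat_lit 5) (nat_lit 386) (nat_lit 346) (nat_lit 168)))))) (XT.nd (nat_lit 468) (nat_lit 456) (nat_lit 0) (XT.nd (nat_lit 234) (nat_lit 304) (nat_lit 0) (XT.nd (nat_lit 78) (nat_lit 152) (nat_lit 0) (XT.lf (nat_lit 0) (nat_lit 16620440355) (nat_lit 228) (nat_lit 33462030251) (nat_lit 76) (nat_lit 76177343925) (nat_lit 40) (nat_lit 5) (nat_lit 43) (nat_lit 5) (nat_lit 41) (nat_lit 5) (nat_lit 387) (nat_lit 346) (nat_lit 167)) (XT.nd (nat_lit 78) (nat_lit 0) (nat_lit 0) (XT.lf (nat_lit 0) (nat_lit 32463626468) (nat_lit 152) (nat_lit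 10439761020) (nat_lit 228) (nat_lit 87639600169) (nat_lit 38) (nat_lit 5) (nat_lit 40) (nat_lit 5) (nat_lit 41) (nat_lit 5) (nat_lit 388) (nat_lit 346) (nat_lit 166)) (XT.lf (nat_lit 0) (nat_lit 71562726671) (nat_lit 228) (nat_lit 32661912151) (nat_lit 76) (nat_lit 30762568690) (nat_lit 38) (nat_lit 5) (nat_lit 41) (nat_lit 5) (nat_lit 39) (nat_lit 5) (nat_lit 389) (nat_lit 346) (nat_lit 165)))) (XT.nd (nat_lit 78) (nat_lit 152) (nat_lit 0) (XT.lf (nat_lit 0) (nat_lit 37039776553) (nat_lit 152) (nat_lit 65364096854) (nat_lit 228) (nat_lit 37212323214) (nat_lit 36) (nat_lit 5) (nat_lit 38) (nat_lit 5) (nat_lit 39) (nat_lit 5) (nat_lit 390) (nat_lit 346) (nat_lit 164)) (XT.nd (nat_lit 78) (nat_lit 152) (nat_lit 0) (XT.lf (nat_lit 0) (nat_lit 111359520219) (nat_lit 152) (nat_lit 23980118007) (nat_lit 228) (nat_lit 9109369200) (nat_lit 36) (nat_lit 5) (nat_lit 38) (nat_lit 5) (nat_lit 39) (nat_lit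 5) (nat_lit 391) (nat_lit 346) (nat_lit 163)) (XT.lf (nat_lit 0) (nat_lit 20702923011) (nat_lit 152) (nat_lit 108935227444) (nat_lit 76) (nat_lit 19821530634) (nat_lit 34) (nat_lit 5) (nat_lit 36) (nat_lit 5) (nat_lit 35) (nat_lit 5) (nat_lit 392) (nat_lit 346) (nat_lit 162))))) (XT.nd (nat_lit 234) (nat_lit 304) (nat_lit 0) (XT.nd (nat_lit 78) (nat_lit 152) (nat_lit 0) (XT.lf (nat_lit 0) (nat_lit 52661825460) (nat_lit 152) (nat_lit 36277578970) (nat_lit 76) (nat_lit 65725911040) (nat_lit 34) (nat_lit 5) (nat_lit 36) (nat_lit 5) (nat_lit 35) (nat_lit 5) (nat_lit 393) (nat_lit 346) (nat_lit 161)) (XT.nd (nat_lit 78) (nat_lit 0) (nat_lit 0) (XT.lf (nat_lit 0) (nat_lit 41335019842) (nat_lit 152) (nat_lit 45528475677) (nat_lit 228) (nat_lit 73235495155) (nat_lit 32) (nat_lit 5) (nat_lit 34) (nat_lit 5) (nat_lit 35) (nat_lit 5) (nat_lit 394) (nat_lit 346) (nat_lit 160)) (XT.lf (nat_lit 0) (nat_lit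 123399999213) (nat_lit 228) (nat_lit 41697722370) (nat_lit 76) (nat_lit 675390767) (nat_lit 32) (nat_lit 5) (nat_lit 35) (nat_lit 5) (nat_lit 33) (nat_lit 4) (nat_lit 395) (nat_lit 346) (nat_lit 159)))) (XT.nd (nat_lit 78) (nat_lit 228) (nat_lit 0) (XT.lf (nat_lit 0) (nat_lit 39746741024) (nat_lit 76) (nat_lit 123383011185) (nat_lit 152) (nat_lit 8532866902) (nat_lit 31) (nat_lit 5) (nat_lit 32) (nat_lit 5) (nat_lit 33) (nat_lit 4) (nat_lit 396) (nat_lit 346) (nat_lit 158)) (XT.nd (nat_lit 78) (nat_lit 152) (nat_lit 0) (XT.lf (nat_lit 0) (nat_lit 26852490081) (nat_lit 152) (nat_lit 51534202664) (nat_lit 76) (nat_lit 99402969466) (nat_lit 30) (nat_lit 5) (nat_lit 32) (nat_lit 5) (nat_lit 31) (nat_lit 5) (nat_lit 397) (nat_lit 346) (nat_lit 157)) (XT.lf (nat_lit 0) (nat_lit 33807903595) (nat_lit 152) (nat_lit 30439810878) (nat_lit 228) (nat_lit 119941981027) (nat_lit 28) (nat_lit 5) (nat_lit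 30) (nat_lit 5) (nat_lit 31) (nat_lit 5) (nat_lit 398) (nat_lit 346) (nat_lit 156))))))) (XT.nd (nat_lit 936) (nat_lit 456) (nat_lit 0) (XT.nd (nat_lit 468) (nat_lit 304) (nat_lit 0) (XT.nd (nat_lit 234) (nat_lit 228) (nat_lit 0) (XT.nd (nat_lit 78) (nat_lit 76) (nat_lit 0) (XT.lf (nat_lit 0) (nat_lit 104710055994) (nat_lit 228) (nat_lit 65985735925) (nat_lit 76) (nat_lit 20154070910) (nat_lit 28) (nat_lit 5) (nat_lit 31) (nat_lit 5) (nat_lit 29) (nat_lit 4) (nat_lit 399) (nat_lit 346) (nat_lit 155)) (XT.nd (nat_lit 78) (nat_lit 0) (nat_lit 0) (XT.lf (nat_lit 0) (nat_lit 22862039079) (nat_lit 76) (nat_lit 125188979838) (nat_lit 152) (nat_lit 49749244553) (nat_lit 27) (nat_lit 5) (nat_lit 28) (nat_lit 5) (nat_lit 29) (nat_lit 4) (nat_lit 400) (nat_lit 346) (nat_lit 154)) (XT.lf (nat_lit 0) (nat_lit 118442292956) (nat_lit 76) (nat_lit 76233797069) (nat_lit 152) (nat_lit 10366241271) (nat_lit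 27) (nat_lit 5) (nat_lit 28) (nat_lit 5) (nat_lit 29) (nat_lit 4) (nat_lit 401) (nat_lit 346) (nat_lit 153)))) (XT.nd (nat_lit 78) (nat_lit 0) (nat_lit 0) (XT.lf (nat_lit 0) (nat_lit 5858010551) (nat_lit 152) (nat_lit 24227192506) (nat_lit 228) (nat_lit 182532559072) (nat_lit 24) (nat_lit 5) (nat_lit 26) (nat_lit 5) (nat_lit 27) (nat_lit 5) (nat_lit 402) (nat_lit 346) (nat_lit 152)) (XT.nd (nat_lit 78) (nat_lit 0) (nat_lit 0) (XT.lf (nat_lit 0) (nat_lit 74175392260) (nat_lit 228) (nat_lit 115222174291) (nat_lit 76) (nat_lit 31067673850) (nat_lit 24) (nat_lit 5) (nat_lit 27) (nat_lit 5) (nat_lit 25) (nat_lit 4) (nat_lit 403) (nat_lit 346) (nat_lit 151)) (XT.lf (nat_lit 0) (nat_lit 120866855179) (nat_lit 228) (nat_lit 19505614746) (nat_lit 76) (nat_lit 88312784576) (nat_lit 24) (nat_lit 5) (nat_lit 27) (nat_lit 5) (nat_lit 25) (nat_lit 4) (nat_lit 404) (nat_lit 346) (nat_lit 150))))) (XT.nd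 (nat_lit 234) (nat_lit 76) (nat_lit 0) (XT.nd (nat_lit 78) (nat_lit 152) (nat_lit 0) (XT.lf (nat_lit 0) (nat_lit 83674174126) (nat_lit 76) (nat_lit 87524721822) (nat_lit 152) (nat_lit 66052073244) (nat_lit 23) (nat_lit 5) (nat_lit 24) (nat_lit 5) (nat_lit 25) (nat_lit 4) (nat_lit 405) (nat_lit 346) (nat_lit 149)) (XT.nd (nat_lit 78) (nat_lit 152) (nat_lit 0) (XT.lf (nat_lit 0) (nat_lit 192689459769) (nat_lit 76) (nat_lit 31688039956) (nat_lit 152) (nat_lit 21850971960) (nat_lit 23) (nat_lit 5) (nat_lit 24) (nat_lit 5) (nat_lit 25) (nat_lit 4) (nat_lit 406) (nat_lit 346) (nat_lit 148)) (XT.lf (nat_lit 0) (nat_lit 25038614892) (nat_lit 152) (nat_lit 203228197746) (nat_lit 76) (nat_lit 27305638613) (nat_lit 21) (nat_lit 5) (nat_lit 23) (nat_lit 5) (nat_lit 22) (nat_lit 4) (nat_lit 407) (nat_lit 346) (nat_lit 147)))) (XT.nd (nat_lit 78) (nat_lit 76) (nat_lit 0) (XT.lf (nat_lit 0) (nat_lit 74979032780)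 (nat_lit 152) (nat_lit 100851077151) (nat_lit 76) (nat_lit 89463574951) (nat_lit 21) (nat_lit 5) (nat_lit 23) (nat_lit 5) (nat_lit 22) (nat_lit 4) (nat_lit 408) (nat_lit 346) (nat_lit 146)) (XT.nd (nat_lit 78) (nat_lit 0) (nat_lit 0) (XT.lf (nat_lit 0) (nat_lit 6863954793) (nat_lit 76) (nat_lit 120659337972) (nat_lit 152) (nat_lit 147972346466) (nat_lit 20) (nat_lit 5) (nat_lit 21) (nat_lit 5) (nat_lit 22) (nat_lit 4) (nat_lit 409) (nat_lit 346) (nat_lit 145)) (XT.lf (nat_lit 0) (nat_lit 123465436134) (nat_lit 76) (nat_lit 60936953696) (nat_lit 152) (nat_lit 101719920352) (nat_lit 20) (nat_lit 5) (nat_lit 21) (nat_lit 5) (nat_lit 22) (nat_lit 4) (nat_lit 410) (nat_lit 346) (nat_lit 144)))))) (XT.nd (nat_lit 468) (nat_lit 228) (nat_lit 0) (XT.nd (nat_lit 234) (nat_lit 76) (nat_lit 0) (XT.nd (nat_lit 78) (nat_lit 152) (nat_lit 0) (XT.lf (nat_lit 0) (nat_lit 244152774723) (nat_lit 152) (nat_lit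 51411588071) (nat_lit 0) (nat_lit 1714585325) (nat_lit 20) (nat_lit 5) (nat_lit 22) (nat_lit 4) (nat_lit 20) (nat_lit 4) (nat_lit 411) (nat_lit 346) (nat_lit 143)) (XT.nd (nat_lit 78) (nat_lit 0) (nat_lit 0) (XT.lf (nat_lit 0) (nat_lit 35268103) (nat_lit 152) (nat_lit 242366466520) (nat_lit 76) (nat_lit 66489789569) (nat_lit 18) (nat_lit 5) (nat_lit 20) (nat_lit 5) (nat_lit 19) (nat_lit 4) (nat_lit 412) (nat_lit 346) (nat_lit 142)) (XT.lf (nat_lit 0) (nat_lit 54954037929) (nat_lit 152) (nat_lit 129783537647) (nat_lit 76) (nat_lit 136259375321) (nat_lit 18) (nat_lit 5) (nat_lit 20) (nat_lit 5) (nat_lit 19) (nat_lit 4) (nat_lit 413) (nat_lit 346) (nat_lit 141)))) (XT.nd (nat_lit 78) (nat_lit 76) (nat_lit 0) (XT.lf (nat_lit 0) (nat_lit 112618451467) (nat_lit 152) (nat_lit 11572013010) (nat_lit 76) (nat_lit 209517199271) (nat_lit 18) (nat_lit 5) (nat_lit 20) (nat_lit 5) (nat_lit 19) (nat_lit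 4) (nat_lit 414) (nat_lit 346) (nat_lit 140)) (XT.nd (nat_lit 78) (nat_lit 0) (nat_lit 0) (XT.lf (nat_lit 0) (nat_lit 116270960256) (nat_lit 76) (nat_lit 58710160221) (nat_lit 152) (nat_lit 171982040091) (nat_lit 17) (nat_lit 5) (nat_lit 18) (nat_lit 5) (nat_lit 19) (nat_lit 4) (nat_lit 415) (nat_lit 346) (nat_lit 139)) (XT.lf (nat_lit 0) (nat_lit 240817651614) (nat_lit 152) (nat_lit 110124353302) (nat_lit 0) (nat_lit 9921640945) (nat_lit 17) (nat_lit 5) (nat_lit 19) (nat_lit 4) (nat_lit 17) (nat_lit 4) (nat_lit 416) (nat_lit 346) (nat_lit 138))))) (XT.nd (nat_lit 234) (nat_lit 76) (nat_lit 0) (XT.nd (nat_lit 78) (nat_lit 76) (nat_lit 0) (XT.lf (nat_lit 0) (nat_lit 16021718437) (nat_lit 76) (nat_lit 295136630548) (nat_lit 76) (nat_lit 64240189510) (nat_lit 16) (nat_lit 4) (nat_lit 17) (nat_lit 5) (nat_lit 17) (nat_lit 4) (nat_lit 417) (nat_lit 346) (nat_lit 137)) (XT.nd (nat_lit 78) (nat_lit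 76) (nat_lit 0) (XT.lf (nat_lit 0) (nat_lit 152297869697) (nat_lit 76) (nat_lit 234582959810) (nat_lit 76) (nat_lit 3686108898) (nat_lit 16) (nat_lit 4) (nat_lit 17) (nat_lit 5) (nat_lit 17) (nat_lit 4) (nat_lit 418) (nat_lit 346) (nat_lit 136)) (XT.lf (nat_lit 0) (nat_lit 57978387435) (nat_lit 152) (nat_lit 112041547026) (nat_lit 76) (nat_lit 236427079567) (nat_lit 15) (nat_lit 5) (nat_lit 17) (nat_lit 5) (nat_lit 16) (nat_lit 4) (nat_lit 419) (nat_lit 346) (nat_lit 135)))) (XT.nd (nat_lit 78) (nat_lit 0) (nat_lit 0) (XT.lf (nat_lit 0) (nat_lit 21112189517) (nat_lit 76) (nat_lit 101819421484) (nat_lit 152) (nat_lit 300169992088) (nat_lit 14) (nat_lit 5) (nat_lit 15) (nat_lit 5) (nat_lit 16) (nat_lit 4) (nat_lit 420) (nat_lit 346) (nat_lit 134)) (XT.nd (nat_lit 78) (nat_lit 0) (nat_lit 0) (XT.lf (nat_lit 0) (nat_lit 164812994623) (nat_lit 76) (nat_lit 28216742803) (nat_lit 152) (nat_lit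 247464322141) (nat_lit 14) (nat_lit 5) (nat_lit 15) (nat_lit 5) (nat_lit 16) (nat_lit 4) (nat_lit 421) (nat_lit 346) (nat_lit 133)) (XT.lf (nat_lit 0) (nat_lit 267398600994) (nat_lit 152) (nat_lit 143823792344) (nat_lit 0) (nat_lit 47495454036) (nat_lit 14) (nat_lit 5) (nat_lit 16) (nat_lit 4) (nat_lit 14) (nat_lit 4) (nat_lit 422) (nat_lit 346) (nat_lit 132))))))))
noncomputable def xc209 : XT := (XT.nd (nat_lit 42354) (nat_lit 0) (nat_lit 2204) (XT.nd (nat_lit 41418) (nat_lit 0) (nat_lit 5244) (XT.nd (nat_lit 40950) (nat_lit 0) (nat_lit 6764) (XT.nd (nat_lit 156) (nat_lit 152) (nat_lit 0) (XT.nd (nat_lit 78) (nat_lit 76) (nat_lit 0) (XT.lf (nat_lit 0) (nat_lit 345948260117) (nat_lit 152) (nat_lit 5836639574) (nat_lit 0) (nat_lit 126044807305) (nat_lit 14) (nat_lit 5) (nat_lit 16) (nat_lit 4) (nat_lit 14) (nat_lit 4) (nat_lit 423) (nat_lit 346) (nat_lit 131)) (XT.lf (nat_lit 0) (nat_lit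 143647080301) (nat_lit 76) (nat_lit 287020848554) (nat_lit 76) (nat_lit 67117104451) (nat_lit 13) (nat_lit 4) (nat_lit 14) (nat_lit 5) (nat_lit 14) (nat_lit 4) (nat_lit 424) (nat_lit 346) (nat_lit 130))) (XT.nd (nat_lit 78) (nat_lit 76) (nat_lit 0) (XT.lf (nat_lit 0) (nat_lit 957375343) (nat_lit 152) (nat_lit 217941402067) (nat_lit 76) (nat_lit 299833644322) (nat_lit 12) (nat_lit 5) (nat_lit 14) (nat_lit 5) (nat_lit 13) (nat_lit 4) (nat_lit 425) (nat_lit 346) (nat_lit 129)) (XT.nd (nat_lit 78) (nat_lit 76) (nat_lit 0) (XT.lf (nat_lit 0) (nat_lit 70179807727) (nat_lit 152) (nat_lit 76035679889) (nat_lit 76) (nat_lit 394456687808) (nat_lit 12) (nat_lit 5) (nat_lit 14) (nat_lit 5) (nat_lit 13) (nat_lit 4) (nat_lit 426) (nat_lit 346) (nat_lit 128)) (XT.lf (nat_lit 0) (nat_lit 75377521833) (nat_lit 76) (nat_lit 68662507039) (nat_lit 152) (nat_lit 419610054604) (nat_lit 11) (nat_lit 5) (nat_lit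 12) (nat_lit 5) (nat_lit 13) (nat_lit 4) (nat_lit 427) (nat_lit 346) (nat_lit 127))))) (XT.nd (nat_lit 234) (nat_lit 0) (nat_lit 76) (XT.nd (nat_lit 78) (nat_lit 0) (nat_lit 0) (XT.lf (nat_lit 0) (nat_lit 1936109364) (nat_lit 836) (nat_lit 9131087620) (nat_lit 836) (nat_lit 9131087620) (nat_lit 100) (nat_lit 3) (nat_lit 111) (nat_lit 3) (nat_lit 111) (nat_lit 5) (nat_lit 347) (nat_lit 347) (nat_lit 206)) (XT.nd (nat_lit 78) (nat_lit 0) (nat_lit 76) (XT.lf (nat_lit 76) (nat_lit 877930974) (nat_lit 0) (nat_lit 3143618369) (nat_lit 836) (nat_lit 37382266863) (nat_lit 101) (nat_lit 5) (nat_lit 100) (nat_lit 3) (nat_lit 111) (nat_lit 5) (nat_lit 348) (nat_lit 347) (nat_lit 205)) (XT.lf (nat_lit 0) (nat_lit 4752451056) (nat_lit 760) (nat_lit 21105706281) (nat_lit 836) (nat_lit 16574565609) (nat_lit 101) (nat_lit 5) (nat_lit 111) (nat_lit 5) (nat_lit 112) (nat_lit 5) (nat_lit 349) (nat_lit 347)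 (nat_lit 204)))) (XT.nd (nat_lit 78) (nat_lit 0) (nat_lit 76) (XT.lf (nat_lit 0) (nat_lit 5569063202) (nat_lit 760) (nat_lit 767476934) (nat_lit 836) (nat_lit 37174079118) (nat_lit 101) (nat_lit 5) (nat_lit 111) (nat_lit 5) (nat_lit 112) (nat_lit 5) (nat_lit 350) (nat_lit 347) (nat_lit 203)) (XT.nd (nat_lit 78) (nat_lit 0) (nat_lit 0) (XT.lf (nat_lit 0) (nat_lit 6982839281) (nat_lit 760) (nat_lit 23585492214) (nat_lit 836) (nat_lit 14046264595) (nat_lit 102) (nat_lit 5) (nat_lit 112) (nat_lit 5) (nat_lit 113) (nat_lit 5) (nat_lit 351) (nat_lit 347) (nat_lit 202)) (XT.lf (nat_lit 0) (nat_lit 8582235662) (nat_lit 760) (nat_lit 1936511839) (nat_lit 836) (nat_lit 35249279959) (nat_lit 102) (nat_lit 5) (nat_lit 112) (nat_lit 5) (nat_lit 113) (nat_lit 5) (nat_lit 352) (nat_lit 347) (nat_lit 201)))))) (XT.nd (nat_lit 468) (nat_lit 1748) (nat_lit 0) (XT.nd (nat_lit 234) (nat_lit 0) (nat_lit 76)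 (XT.nd (nat_lit 78) (nat_lit 0) (nat_lit 0) (XT.lf (nat_lit 0) (nat_lit 10764890187) (nat_lit 760) (nat_lit 25651372289) (nat_lit 836) (nat_lit 10537705663) (nat_lit 103) (nat_lit 5) (nat_lit 113) (nat_lit 5) (nat_lit 114) (nat_lit 5) (nat_lit 353) (nat_lit 347) (nat_lit 200)) (XT.nd (nat_lit 78) (nat_lit 0) (nat_lit 76) (XT.lf (nat_lit 0) (nat_lit 13260481188) (nat_lit 760) (nat_lit 2601128568) (nat_lit 836) (nat_lit 32327407963) (nat_lit 103) (nat_lit 5) (nat_lit 113) (nat_lit 5) (nat_lit 114) (nat_lit 5) (nat_lit 354) (nat_lit 347) (nat_lit 199)) (XT.lf (nat_lit 0) (nat_lit 16322403959) (nat_lit 760) (nat_lit 27249110013) (nat_lit 836) (nat_lit 5892230154) (nat_lit 104) (nat_lit 5) (nat_lit 114) (nat_lit 5) (nat_lit 115) (nat_lit 5) (nat_lit 355) (nat_lit 347) (nat_lit 198)))) (XT.nd (nat_lit 78) (nat_lit 0) (nat_lit 0) (XT.lf (nat_lit 0) (nat_lit 19840422630) (nat_lit 760) (nat_lit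 2700745024) (nat_lit 836) (nat_lit 28245891074) (nat_lit 104) (nat_lit 5) (nat_lit 114) (nat_lit 5) (nat_lit 115) (nat_lit 5) (nat_lit 356) (nat_lit 347) (nat_lit 197)) (XT.nd (nat_lit 78) (nat_lit 0) (nat_lit 76) (XT.lf (nat_lit 76) (nat_lit 23836544659) (nat_lit 0) (nat_lit 68238410) (nat_lit 836) (nat_lit 28253235726) (nat_lit 105) (nat_lit 5) (nat_lit 104) (nat_lit 5) (nat_lit 115) (nat_lit 5) (nat_lit 357) (nat_lit 347) (nat_lit 196)) (XT.lf (nat_lit 0) (nat_lit 28584542715) (nat_lit 760) (nat_lit 2170348074) (nat_lit 76) (nat_lit 22822028708) (nat_lit 105) (nat_lit 5) (nat_lit 115) (nat_lit 5) (nat_lit 106) (nat_lit 5) (nat_lit 358) (nat_lit 347) (nat_lit 195))))) (XT.nd (nat_lit 234) (nat_lit 760) (nat_lit 0) (XT.nd (nat_lit 78) (nat_lit 380) (nat_lit 0) (XT.lf (nat_lit 0) (nat_lit 26121871378) (nat_lit 760) (nat_lit 7783801498) (nat_lit 836) (nat_lit 21140724841) (nat_lit 95) (nat_lit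 5) (nat_lit 105) (nat_lit 5) (nat_lit 106) (nat_lit 5) (nat_lit 359) (nat_lit 347) (nat_lit 194)) (XT.nd (nat_lit 78) (nat_lit 380) (nat_lit 0) (XT.lf (nat_lit 0) (nat_lit 39783749848) (nat_lit 836) (nat_lit 940575622) (nat_lit 76) (nat_lit 15850481397) (nat_lit 95) (nat_lit 5) (nat_lit 106) (nat_lit 5) (nat_lit 96) (nat_lit 5) (nat_lit 360) (nat_lit 347) (nat_lit 193)) (XT.lf (nat_lit 0) (nat_lit 29249749581) (nat_lit 380) (nat_lit 17288810737) (nat_lit 456) (nat_lit 11611936135) (nat_lit 90) (nat_lit 5) (nat_lit 95) (nat_lit 5) (nat_lit 96) (nat_lit 5) (nat_lit 361) (nat_lit 347) (nat_lit 192)))) (XT.nd (nat_lit 78) (nat_lit 456) (nat_lit 0) (XT.lf (nat_lit 0) (nat_lit 1097222985) (nat_lit 304) (nat_lit 52680074794) (nat_lit 380) (nat_lit 6020364807) (nat_lit 86) (nat_lit 5) (nat_lit 90) (nat_lit 5) (nat_lit 91) (nat_lit 5) (nat_lit 362) (nat_lit 347) (nat_lit 191)) (XT.nd (nat_lit 78)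 (nat_lit 380) (nat_lit 0) (XT.lf (nat_lit 0) (nat_lit 635080297) (nat_lit 380) (nat_lit 28194838812) (nat_lit 76) (nat_lit 32658409690) (nat_lit 85) (nat_lit 5) (nat_lit 90) (nat_lit 5) (nat_lit 86) (nat_lit 5) (nat_lit 363) (nat_lit 347) (nat_lit 190)) (XT.lf (nat_lit 0) (nat_lit 3859477760) (nat_lit 380) (nat_lit 3620443331) (nat_lit 456) (nat_lit 55775726350) (nat_lit 80) (nat_lit 5) (nat_lit 85) (nat_lit 5) (nat_lit 86) (nat_lit 5) (nat_lit 364) (nat_lit 347) (nat_lit 189))))))) (XT.nd (nat_lit 936) (nat_lit 1368) (nat_lit 0) (XT.nd (nat_lit 468) (nat_lit 836) (nat_lit 0) (XT.nd (nat_lit 234) (nat_lit 532) (nat_lit 0) (XT.nd (nat_lit 78) (nat_lit 304) (nat_lit 0) (XT.lf (nat_lit 0) (nat_lit 15507798935) (nat_lit 456) (nat_lit 26958096202) (nat_lit 76) (nat_lit 22603398273) (nat_lit 80) (nat_lit 5) (nat_lit 86) (nat_lit 5) (nat_lit 81) (nat_lit 5) (nat_lit 365) (nat_lit 347) (nat_lit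 188)) (XT.nd (nat_lit 78) (nat_lit 0) (nat_lit 0) (XT.lf (nat_lit 0) (nat_lit 7273972871) (nat_lit 304) (nat_lit 16834806129) (nat_lit 380) (nat_lit 42856258350) (nat_lit 76) (nat_lit 5) (nat_lit 80) (nat_lit 5) (nat_lit 81) (nat_lit 5) (nat_lit 366) (nat_lit 347) (nat_lit 187)) (XT.lf (nat_lit 0) (nat_lit 33760007754) (nat_lit 380) (nat_lit 24945403167) (nat_lit 76) (nat_lit 10219148621) (nat_lit 76) (nat_lit 5) (nat_lit 81) (nat_lit 5) (nat_lit 77) (nat_lit 5) (nat_lit 367) (nat_lit 347) (nat_lit 186)))) (XT.nd (nat_lit 78) (nat_lit 228) (nat_lit 0) (XT.lf (nat_lit 0) (nat_lit 11632537444) (nat_lit 304) (nat_lit 32717737053) (nat_lit 380) (nat_lit 26608960507) (nat_lit 72) (nat_lit 5) (nat_lit 76) (nat_lit 5) (nat_lit 77) (nat_lit 5) (nat_lit 368) (nat_lit 347) (nat_lit 185)) (XT.nd (nat_lit 78) (nat_lit 228) (nat_lit 0) (XT.lf (nat_lit 0) (nat_lit 50904107541) (nat_lit 304) (nat_lit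 4987321935) (nat_lit 380) (nat_lit 17183146959) (nat_lit 72) (nat_lit 5) (nat_lit 76) (nat_lit 5) (nat_lit 77) (nat_lit 5) (nat_lit 369) (nat_lit 347) (nat_lit 184)) (XT.lf (nat_lit 0) (nat_lit 17009963093) (nat_lit 228) (nat_lit 51640944027) (nat_lit 304) (nat_lit 6612715469) (nat_lit 69) (nat_lit 5) (nat_lit 72) (nat_lit 5) (nat_lit 73) (nat_lit 5) (nat_lit 370) (nat_lit 347) (nat_lit 183))))) (XT.nd (nat_lit 234) (nat_lit 456) (nat_lit 0) (XT.nd (nat_lit 78) (nat_lit 304) (nat_lit 0) (XT.lf (nat_lit 0) (nat_lit 4805005102) (nat_lit 304) (nat_lit 18783495727) (nat_lit 76) (nat_lit 53947001142) (nat_lit 68) (nat_lit 5) (nat_lit 72) (nat_lit 5) (nat_lit 69) (nat_lit 5) (nat_lit 371) (nat_lit 347) (nat_lit 182)) (XT.nd (nat_lit 78) (nat_lit 0) (nat_lit 0) (XT.lf (nat_lit 0) (nat_lit 17033449904) (nat_lit 380) (nat_lit 56700608133) (nat_lit 76) (nat_lit 6158394360) (nat_lit 64) (nat_lit 5)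 (nat_lit 69) (nat_lit 5) (nat_lit 65) (nat_lit 5) (nat_lit 372) (nat_lit 347) (nat_lit 181)) (XT.lf (nat_lit 0) (nat_lit 30582380901) (nat_lit 380) (nat_lit 14826461785) (nat_lit 76) (nat_lit 36922955198) (nat_lit 64) (nat_lit 5) (nat_lit 69) (nat_lit 5) (nat_lit 65) (nat_lit 5) (nat_lit 373) (nat_lit 347) (nat_lit 180)))) (XT.nd (nat_lit 78) (nat_lit 228) (nat_lit 0) (XT.lf (nat_lit 0) (nat_lit 30103681479) (nat_lit 228) (nat_lit 15174170043) (nat_lit 304) (nat_lit 39591805173) (nat_lit 61) (nat_lit 5) (nat_lit 64) (nat_lit 5) (nat_lit 65) (nat_lit 5) (nat_lit 374) (nat_lit 347) (nat_lit 179)) (XT.nd (nat_lit 78) (nat_lit 228) (nat_lit 0) (XT.lf (nat_lit 0) (nat_lit 61221154334) (nat_lit 304) (nat_lit 9990872590) (nat_lit 76) (nat_lit 16296729260) (nat_lit 61) (nat_lit 5) (nat_lit 65) (nat_lit 5) (nat_lit 62) (nat_lit 5) (nat_lit 375) (nat_lit 347) (nat_lit 178)) (XT.lf (nat_lit 0) (nat_lit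 37988933638) (nat_lit 228) (nat_lit 40813711648) (nat_lit 304) (nat_lit 11435114847) (nat_lit 58) (nat_lit 5) (nat_lit 61) (nat_lit 5) (nat_lit 62) (nat_lit 5) (nat_lit 376) (nat_lit 347) (nat_lit 177)))))) (XT.nd (nat_lit 468) (nat_lit 684) (nat_lit 0) (XT.nd (nat_lit 234) (nat_lit 152) (nat_lit 0) (XT.nd (nat_lit 78) (nat_lit 456) (nat_lit 0) (XT.lf (nat_lit 0) (nat_lit 4197985224) (nat_lit 304) (nat_lit 4449073636) (nat_lit 76) (nat_lit 84444351808) (nat_lit 57) (nat_lit 5) (nat_lit 61) (nat_lit 5) (nat_lit 58) (nat_lit 5) (nat_lit 377) (nat_lit 347) (nat_lit 176)) (XT.nd (nat_lit 78) (nat_lit 228) (nat_lit 0) (XT.lf (nat_lit 0) (nat_lit 21369786631) (nat_lit 304) (nat_lit 49390872699) (nat_lit 76) (nat_lit 25260644848) (nat_lit 54) (nat_lit 5) (nat_lit 58) (nat_lit 5) (nat_lit 55) (nat_lit 5) (nat_lit 378) (nat_lit 347) (nat_lit 175)) (XT.lf (nat_lit 0) (nat_lit 1219338219) (nat_lit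 228) (nat_lit 38417430674) (nat_lit 304) (nat_lit 59449094454) (nat_lit 51) (nat_lit 5) (nat_lit 54) (nat_lit 5) (nat_lit 55) (nat_lit 5) (nat_lit 379) (nat_lit 347) (nat_lit 174)))) (XT.nd (nat_lit 78) (nat_lit 152) (nat_lit 0) (XT.lf (nat_lit 0) (nat_lit 56073671154) (nat_lit 228) (nat_lit 3579123182) (nat_lit 304) (nat_lit 42609071934) (nat_lit 51) (nat_lit 5) (nat_lit 54) (nat_lit 5) (nat_lit 55) (nat_lit 5) (nat_lit 380) (nat_lit 347) (nat_lit 173)) (XT.nd (nat_lit 78) (nat_lit 0) (nat_lit 0) (XT.lf (nat_lit 0) (nat_lit 7807597790) (nat_lit 152) (nat_lit 73498428119) (nat_lit 228) (nat_lit 24258823664) (nat_lit 49) (nat_lit 5) (nat_lit 51) (nat_lit 5) (nat_lit 52) (nat_lit 5) (nat_lit 381) (nat_lit 347) (nat_lit 172)) (XT.lf (nat_lit 0) (nat_lit 66045027994) (nat_lit 152) (nat_lit 38836122946) (nat_lit 228) (nat_lit 4109869959) (nat_lit 49) (nat_lit 5) (nat_lit 51) (nat_lit 5) (nat_lit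 52) (nat_lit 5) (nat_lit 382) (nat_lit 347) (nat_lit 171))))) (XT.nd (nat_lit 234) (nat_lit 228) (nat_lit 0) (XT.nd (nat_lit 78) (nat_lit 152) (nat_lit 0) (XT.lf (nat_lit 0) (nat_lit 14812724977) (nat_lit 228) (nat_lit 1918786271) (nat_lit 304) (nat_lit 95832153985) (nat_lit 45) (nat_lit 5) (nat_lit 48) (nat_lit 5) (nat_lit 49) (nat_lit 5) (nat_lit 383) (nat_lit 347) (nat_lit 170)) (XT.nd (nat_lit 78) (nat_lit 152) (nat_lit 0) (XT.lf (nat_lit 0) (nat_lit 39790639982) (nat_lit 304) (nat_lit 39983823139) (nat_lit 76) (nat_lit 36471420455) (nat_lit 45) (nat_lit 5) (nat_lit 49) (nat_lit 5) (nat_lit 46) (nat_lit 5) (nat_lit 384) (nat_lit 347) (nat_lit 169)) (XT.lf (nat_lit 0) (nat_lit 21321598726) (nat_lit 152) (nat_lit 43044822451) (nat_lit 228) (nat_lit 55727607230) (nat_lit 43) (nat_lit 5) (nat_lit 45) (nat_lit 5) (nat_lit 46) (nat_lit 5) (nat_lit 385) (nat_lit 347) (nat_lit 168)))) (XT.nd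 (nat_lit 78) (nat_lit 228) (nat_lit 0) (XT.lf (nat_lit 0) (nat_lit 87079436277) (nat_lit 152) (nat_lit 3768066406) (nat_lit 228) (nat_lit 33253252590) (nat_lit 43) (nat_lit 5) (nat_lit 45) (nat_lit 5) (nat_lit 46) (nat_lit 5) (nat_lit 386) (nat_lit 347) (nat_lit 167)) (XT.nd (nat_lit 78) (nat_lit 76) (nat_lit 0) (XT.lf (nat_lit 0) (nat_lit 28131705597) (nat_lit 152) (nat_lit 91544589164) (nat_lit 228) (nat_lit 8580341233) (nat_lit 41) (nat_lit 5) (nat_lit 43) (nat_lit 5) (nat_lit 44) (nat_lit 5) (nat_lit 387) (nat_lit 347) (nat_lit 166)) (XT.lf (nat_lit 0) (nat_lit 17470086824) (nat_lit 228) (nat_lit 35104829892) (nat_lit 76) (nat_lit 79996947892) (nat_lit 40) (nat_lit 5) (nat_lit 43) (nat_lit 5) (nat_lit 41) (nat_lit 5) (nat_lit 388) (nat_lit 347) (nat_lit 165))))))))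
noncomputable def xc210 : XT := (XT.nd (nat_lit 1794) (nat_lit 608) (nat_lit 0) (XT.nd (nat_lit 858) (nat_lit 608) (nat_lit 0) (XT.nd (nat_lit 390) (nat_lit 456) (nat_lit 0) (XT.nd (nat_lit 156) (nat_lit 304) (nat_lit 0) (XT.nd (nat_lit 78) (nat_lit 0) (nat_lit 0) (XT.lf (nat_lit 0) (nat_lit 34116620924) (nat_lit 152) (nat_lit 10950138978) (nat_lit 228) (nat_lit 92002458008) (nat_lit 38) (nat_lit 5) (nat_lit 40) (nat_lit 5) (nat_lit 41) (nat_lit 5) (nat_lit 389) (nat_lit 347) (nat_lit 164)) (XT.lf (nat_lit 0) (nat_lit 75158371867) (nat_lit 228) (nat_lit 34265911571) (nat_lit 76) (nat_lit 32311400455) (nat_lit 38) (nat_lit 5) (nat_lit 41) (nat_lit 5) (nat_lit 39) (nat_lit 5) (nat_lit 390) (nat_lit 347) (nat_lit 163))) (XT.nd (nat_lit 78) (nat_lit 152) (nat_lit 0) (XT.lf (nat_lit 0) (nat_lit 38920392274) (nat_lit 152) (nat_lit 68620796856) (nat_lit 228) (nat_lit 39054953075) (nat_lit 36)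 (nat_lit 5) (nat_lit 38) (nat_lit 5) (nat_lit 39) (nat_lit 5) (nat_lit 391) (nat_lit 347) (nat_lit 162)) (XT.nd (nat_lit 78) (nat_lit 152) (nat_lit 0) (XT.lf (nat_lit 0) (nat_lit 116954759939) (nat_lit 152) (nat_lit 25168166916) (nat_lit 228) (nat_lit 9547707851) (nat_lit 36) (nat_lit 5) (nat_lit 38) (nat_lit 5) (nat_lit 39) (nat_lit 5) (nat_lit 392) (nat_lit 347) (nat_lit 161)) (XT.lf (nat_lit 0) (nat_lit 21754462549) (nat_lit 152) (nat_lit 114353974264) (nat_lit 76) (nat_lit 20823401626) (nat_lit 34) (nat_lit 5) (nat_lit 36) (nat_lit 5) (nat_lit 35) (nat_lit 5) (nat_lit 393) (nat_lit 347) (nat_lit 160))))) (XT.nd (nat_lit 234) (nat_lit 304) (nat_lit 0) (XT.nd (nat_lit 78) (nat_lit 152) (nat_lit 0) (XT.lf (nat_lit 0) (nat_lit 55310529483) (nat_lit 152) (nat_lit 38064777392) (nat_lit 76) (nat_lit 69022487030) (nat_lit 34) (nat_lit 5) (nat_lit 36) (nat_lit 5) (nat_lit 35) (nat_lit 5) (nat_lit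 394) (nat_lit 347) (nat_lit 159)) (XT.nd (nat_lit 78) (nat_lit 0) (nat_lit 0) (XT.lf (nat_lit 0) (nat_lit 43428021029) (nat_lit 152) (nat_lit 47793928391) (nat_lit 228) (nat_lit 76881220450) (nat_lit 32) (nat_lit 5) (nat_lit 34) (nat_lit 5) (nat_lit 35) (nat_lit 5) (nat_lit 395) (nat_lit 347) (nat_lit 158)) (XT.lf (nat_lit 0) (nat_lit 129584713854) (nat_lit 228) (nat_lit 43757037780) (nat_lit 76) (nat_lit 719274522) (nat_lit 32) (nat_lit 5) (nat_lit 35) (nat_lit 5) (nat_lit 33) (nat_lit 4) (nat_lit 396) (nat_lit 347) (nat_lit 157)))) (XT.nd (nat_lit 78) (nat_lit 228) (nat_lit 0) (XT.lf (nat_lit 0) (nat_lit 41759236352) (nat_lit 76) (nat_lit 129541410239) (nat_lit 152) (nat_lit 8944377349) (nat_lit 31) (nat_lit 5) (nat_lit 32) (nat_lit 5) (nat_lit 33) (nat_lit 4) (nat_lit 397) (nat_lit 347) (nat_lit 156)) (XT.nd (nat_lit 78) (nat_lit 152) (nat_lit 0) (XT.lf (nat_lit 0) (nat_lit 28209065586)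 (nat_lit 152) (nat_lit 54086486001) (nat_lit 76) (nat_lit 104382890935) (nat_lit 30) (nat_lit 5) (nat_lit 32) (nat_lit 5) (nat_lit 31) (nat_lit 5) (nat_lit 398) (nat_lit 347) (nat_lit 155)) (XT.lf (nat_lit 0) (nat_lit 35522331591) (nat_lit 152) (nat_lit 31951430494) (nat_lit 228) (nat_lit 125924730096) (nat_lit 28) (nat_lit 5) (nat_lit 30) (nat_lit 5) (nat_lit 31) (nat_lit 5) (nat_lit 399) (nat_lit 347) (nat_lit 154)))))) (XT.nd (nat_lit 468) (nat_lit 304) (nat_lit 0) (XT.nd (nat_lit 234) (nat_lit 228) (nat_lit 0) (XT.nd (nat_lit 78) (nat_lit 76) (nat_lit 0) (XT.lf (nat_lit 0) (nat_lit 109958724323) (nat_lit 228) (nat_lit 69261633206) (nat_lit 76) (nat_lit 21171335402) (nat_lit 28) (nat_lit 5) (nat_lit 31) (nat_lit 5) (nat_lit 29) (nat_lit 4) (nat_lit 400) (nat_lit 347) (nat_lit 153)) (XT.nd (nat_lit 78) (nat_lit 0) (nat_lit 0) (XT.lf (nat_lit 0) (nat_lit 24028153298) (nat_lit 76) (nat_lit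 131438314451) (nat_lit 152) (nat_lit 52223159465) (nat_lit 27) (nat_lit 5) (nat_lit 28) (nat_lit 5) (nat_lit 29) (nat_lit 4) (nat_lit 401) (nat_lit 347) (nat_lit 152)) (XT.lf (nat_lit 0) (nat_lit 124386324047) (nat_lit 76) (nat_lit 80035854181) (nat_lit 152) (nat_lit 10871651130) (nat_lit 27) (nat_lit 5) (nat_lit 28) (nat_lit 5) (nat_lit 29) (nat_lit 4) (nat_lit 402) (nat_lit 347) (nat_lit 151)))) (XT.nd (nat_lit 78) (nat_lit 0) (nat_lit 0) (XT.lf (nat_lit 0) (nat_lit 6172884368) (nat_lit 152) (nat_lit 25428816435) (nat_lit 228) (nat_lit 191646333636) (nat_lit 24) (nat_lit 5) (nat_lit 26) (nat_lit 5) (nat_lit 27) (nat_lit 5) (nat_lit 403) (nat_lit 347) (nat_lit 150)) (XT.nd (nat_lit 78) (nat_lit 0) (nat_lit 0) (XT.lf (nat_lit 0) (nat_lit 77895961486) (nat_lit 228) (nat_lit 120961914353) (nat_lit 76) (nat_lit 32630032870) (nat_lit 24) (nat_lit 5) (nat_lit 27) (nat_lit 5) (nat_lit 25) (nat_lit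 4) (nat_lit 404) (nat_lit 347) (nat_lit 149)) (XT.lf (nat_lit 0) (nat_lit 126921435665) (nat_lit 228) (nat_lit 20460544385) (nat_lit 76) (nat_lit 92736971736) (nat_lit 24) (nat_lit 5) (nat_lit 27) (nat_lit 5) (nat_lit 25) (nat_lit 4) (nat_lit 405) (nat_lit 347) (nat_lit 148))))) (XT.nd (nat_lit 234) (nat_lit 76) (nat_lit 0) (XT.nd (nat_lit 78) (nat_lit 152) (nat_lit 0) (XT.lf (nat_lit 0) (nat_lit 87877905686) (nat_lit 76) (nat_lit 91891950269) (nat_lit 152) (nat_lit 69343107552) (nat_lit 23) (nat_lit 5) (nat_lit 24) (nat_lit 5) (nat_lit 25) (nat_lit 4) (nat_lit 406) (nat_lit 347) (nat_lit 147)) (XT.nd (nat_lit 78) (nat_lit 152) (nat_lit 0) (XT.lf (nat_lit 0) (nat_lit 202343002142) (nat_lit 76) (nat_lit 33263863245) (nat_lit 152) (nat_lit 22932502125) (nat_lit 23) (nat_lit 5) (nat_lit 24) (nat_lit 5) (nat_lit 25) (nat_lit 4) (nat_lit 407) (nat_lit 347) (nat_lit 146)) (XT.lf (nat_lit 0) (nat_lit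 26301137043) (nat_lit 152) (nat_lit 213370105229) (nat_lit 76) (nat_lit 28679299048) (nat_lit 21) (nat_lit 5) (nat_lit 23) (nat_lit 5) (nat_lit 22) (nat_lit 4) (nat_lit 408) (nat_lit 347) (nat_lit 145)))) (XT.nd (nat_lit 78) (nat_lit 76) (nat_lit 0) (XT.lf (nat_lit 0) (nat_lit 78738071473) (nat_lit 152) (nat_lit 105875057291) (nat_lit 76) (nat_lit 93944733227) (nat_lit 21) (nat_lit 5) (nat_lit 23) (nat_lit 5) (nat_lit 22) (nat_lit 4) (nat_lit 409) (nat_lit 347) (nat_lit 144)) (XT.nd (nat_lit 78) (nat_lit 0) (nat_lit 0) (XT.lf (nat_lit 0) (nat_lit 7225426674) (nat_lit 76) (nat_lit 126683922757) (nat_lit 152) (nat_lit 155360574508) (nat_lit 20) (nat_lit 5) (nat_lit 21) (nat_lit 5) (nat_lit 22) (nat_lit 4) (nat_lit 410) (nat_lit 347) (nat_lit 143)) (XT.lf (nat_lit 0) (nat_lit 129656111886) (nat_lit 76) (nat_lit 63975818415) (nat_lit 152) (nat_lit 106796021816) (nat_lit 20) (nat_lit 5) (nat_lit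 21) (nat_lit 5) (nat_lit 22) (nat_lit 4) (nat_lit 411) (nat_lit 347) (nat_lit 142))))))) (XT.nd (nat_lit 936) (nat_lit 152) (nat_lit 0) (XT.nd (nat_lit 468) (nat_lit 228) (nat_lit 0) (XT.nd (nat_lit 234) (nat_lit 76) (nat_lit 0) (XT.nd (nat_lit 78) (nat_lit 152) (nat_lit 0) (XT.lf (nat_lit 0) (nat_lit 256369504521) (nat_lit 152) (nat_lit 53965259967) (nat_lit 0) (nat_lit 1807674077) (nat_lit 20) (nat_lit 5) (nat_lit 22) (nat_lit 4) (nat_lit 20) (nat_lit 4) (nat_lit 412) (nat_lit 347) (nat_lit 141)) (XT.nd (nat_lit 78) (nat_lit 0) (nat_lit 0) (XT.lf (nat_lit 0) (nat_lit 46097790) (nat_lit 152) (nat_lit 254467853087) (nat_lit 76) (nat_lit 69821694028) (nat_lit 18) (nat_lit 5) (nat_lit 20) (nat_lit 5) (nat_lit 19) (nat_lit 4) (nat_lit 413) (nat_lit 347) (nat_lit 140)) (XT.lf (nat_lit 0) (nat_lit 57710374380) (nat_lit 152) (nat_lit 136256584283) (nat_lit 76) (nat_lit 143079405974) (nat_lit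 18) (nat_lit 5) (nat_lit 20) (nat_lit 5) (nat_lit 19) (nat_lit 4) (nat_lit 414) (nat_lit 347) (nat_lit 139)))) (XT.nd (nat_lit 78) (nat_lit 76) (nat_lit 0) (XT.lf (nat_lit 0) (nat_lit 118257597426) (nat_lit 152) (nat_lit 12135251520) (nat_lit 76) (nat_lit 219999784841) (nat_lit 18) (nat_lit 5) (nat_lit 20) (nat_lit 5) (nat_lit 19) (nat_lit 4) (nat_lit 415) (nat_lit 347) (nat_lit 138)) (XT.nd (nat_lit 78) (nat_lit 0) (nat_lit 0) (XT.lf (nat_lit 0) (nat_lit 122099622632) (nat_lit 76) (nat_lit 61638621641) (nat_lit 152) (nat_lit 180572669050) (nat_lit 17) (nat_lit 5) (nat_lit 18) (nat_lit 5) (nat_lit 19) (nat_lit 4) (nat_lit 416) (nat_lit 347) (nat_lit 137)) (XT.lf (nat_lit 0) (nat_lit 252866322567) (nat_lit 152) (nat_lit 115615895139) (nat_lit 0) (nat_lit 10424219235) (nat_lit 17) (nat_lit 5) (nat_lit 19) (nat_lit 4) (nat_lit 17) (nat_lit 4) (nat_lit 417) (nat_lit 347) (nat_lit 136))))) (XT.nd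 (nat_lit 234) (nat_lit 76) (nat_lit 0) (XT.nd (nat_lit 78) (nat_lit 76) (nat_lit 0) (XT.lf (nat_lit 0) (nat_lit 16837243480) (nat_lit 76) (nat_lit 309886665886) (nat_lit 76) (nat_lit 67444172198) (nat_lit 16) (nat_lit 4) (nat_lit 17) (nat_lit 5) (nat_lit 17) (nat_lit 4) (nat_lit 418) (nat_lit 347) (nat_lit 135)) (XT.nd (nat_lit 78) (nat_lit 76) (nat_lit 0) (XT.lf (nat_lit 0) (nat_lit 159926514726) (nat_lit 76) (nat_lit 246305635240) (nat_lit 76) (nat_lit 3862769783) (nat_lit 16) (nat_lit 4) (nat_lit 17) (nat_lit 5) (nat_lit 17) (nat_lit 4) (nat_lit 419) (nat_lit 347) (nat_lit 134)) (XT.lf (nat_lit 0) (nat_lit 60884354317) (nat_lit 152) (nat_lit 117630293170) (nat_lit 76) (nat_lit 248254363391) (nat_lit 15) (nat_lit 5) (nat_lit 17) (nat_lit 5) (nat_lit 16) (nat_lit 4) (nat_lit 420) (nat_lit 347) (nat_lit 133)))) (XT.nd (nat_lit 78) (nat_lit 0) (nat_lit 0) (XT.lf (nat_lit 0) (nat_lit 22180915181)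 (nat_lit 76) (nat_lit 106904193065) (nat_lit 152) (nat_lit 315171227756) (nat_lit 14) (nat_lit 5) (nat_lit 15) (nat_lit 5) (nat_lit 16) (nat_lit 4) (nat_lit 421) (nat_lit 347) (nat_lit 132)) (XT.nd (nat_lit 78) (nat_lit 0) (nat_lit 0) (XT.lf (nat_lit 0) (nat_lit 173066135962) (nat_lit 76) (nat_lit 29621675664) (nat_lit 152) (nat_lit 259830620214) (nat_lit 14) (nat_lit 5) (nat_lit 15) (nat_lit 5) (nat_lit 16) (nat_lit 4) (nat_lit 422) (nat_lit 347) (nat_lit 131)) (XT.lf (nat_lit 0) (nat_lit 280774892483) (nat_lit 152) (nat_lit 151002858027) (nat_lit 0) (nat_lit 49875669885) (nat_lit 14) (nat_lit 5) (nat_lit 16) (nat_lit 4) (nat_lit 14) (nat_lit 4) (nat_lit 423) (nat_lit 347) (nat_lit 130)))))) (XT.nd (nat_lit 41106) (nat_lit 0) (nat_lit 6764) (XT.nd (nat_lit 234) (nat_lit 0) (nat_lit 0) (XT.nd (nat_lit 78) (nat_lit 152) (nat_lit 0) (XT.lf (nat_lit 0) (nat_lit 363251731636) (nat_lit 152)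 (nat_lit 6116924948) (nat_lit 0) (nat_lit 132352231620) (nat_lit 14) (nat_lit 5) (nat_lit 16) (nat_lit 4) (nat_lit 14) (nat_lit 4) (nat_lit 424) (nat_lit 347) (nat_lit 129)) (XT.nd (nat_lit 78) (nat_lit 76) (nat_lit 0) (XT.lf (nat_lit 0) (nat_lit 150840794685) (nat_lit 76) (nat_lit 301366477993) (nat_lit 76) (nat_lit 70466713768) (nat_lit 13) (nat_lit 4) (nat_lit 14) (nat_lit 5) (nat_lit 14) (nat_lit 4) (nat_lit 425) (nat_lit 347) (nat_lit 128)) (XT.lf (nat_lit 0) (nat_lit 1011002203) (nat_lit 152) (nat_lit 228827461335) (nat_lit 76) (nat_lit 314830290327) (nat_lit 12) (nat_lit 5) (nat_lit 14) (nat_lit 5) (nat_lit 13) (nat_lit 4) (nat_lit 426) (nat_lit 347) (nat_lit 127)))) (XT.nd (nat_lit 40716) (nat_lit 0) (nat_lit 6688) (XT.lf (nat_lit 0) (nat_lit 73694282011) (nat_lit 152) (nat_lit 79826977373) (nat_lit 76) (nat_lit 414184249617) (nat_lit 12) (nat_lit 5) (nat_lit 14) (nat_lit 5) (nat_lit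 13) (nat_lit 4) (nat_lit 427) (nat_lit 347) (nat_lit 126)) (XT.nd (nat_lit 78) (nat_lit 0) (nat_lit 0) (XT.lf (nat_lit 0) (nat_lit 2071126955) (nat_lit 836) (nat_lit 9567560468) (nat_lit 836) (nat_lit 9567560468) (nat_lit 100) (nat_lit 3) (nat_lit 111) (nat_lit 3) (nat_lit 111) (nat_lit 5) (nat_lit 348) (nat_lit 348) (nat_lit 204)) (XT.lf (nat_lit 76) (nat_lit 961342799) (nat_lit 0) (nat_lit 3334685953) (nat_lit 836) (nat_lit 39174231334) (nat_lit 101) (nat_lit 5) (nat_lit 100) (nat_lit 3) (nat_lit 111) (nat_lit 5) (nat_lit 349) (nat_lit 348) (nat_lit 203))))) (XT.nd (nat_lit 234) (nat_lit 0) (nat_lit 76) (XT.nd (nat_lit 78) (nat_lit 0) (nat_lit 0) (XT.lf (nat_lit 0) (nat_lit 5059476347) (nat_lit 760) (nat_lit 22119285622) (nat_lit 836) (nat_lit 17372053812) (nat_lit 101) (nat_lit 5) (nat_lit 111) (nat_lit 5) (nat_lit 112) (nat_lit 5) (nat_lit 350) (nat_lit 348) (nat_lit 202)) (XT.nd (nat_lit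 78) (nat_lit 0) (nat_lit 76) (XT.lf (nat_lit 0) (nat_lit 5913614208) (nat_lit 760) (nat_lit 766130807) (nat_lit 836) (nat_lit 39003030619) (nat_lit 101) (nat_lit 5) (nat_lit 111) (nat_lit 5) (nat_lit 112) (nat_lit 5) (nat_lit 351) (nat_lit 348) (nat_lit 201)) (XT.lf (nat_lit 0) (nat_lit 7395159494) (nat_lit 760) (nat_lit 24722060881) (nat_lit 836) (nat_lit 14724880236) (nat_lit 102) (nat_lit 5) (nat_lit 112) (nat_lit 5) (nat_lit 113) (nat_lit 5) (nat_lit 352) (nat_lit 348) (nat_lit 200)))) (XT.nd (nat_lit 78) (nat_lit 0) (nat_lit 76) (XT.lf (nat_lit 0) (nat_lit 9071517205) (nat_lit 760) (nat_lit 1992665103) (nat_lit 836) (nat_lit 36989174825) (nat_lit 102) (nat_lit 5) (nat_lit 112) (nat_lit 5) (nat_lit 113) (nat_lit 5) (nat_lit 353) (nat_lit 348) (nat_lit 199)) (XT.nd (nat_lit 78) (nat_lit 0) (nat_lit 0) (XT.lf (nat_lit 0) (nat_lit 11360784325) (nat_lit 760) (nat_lit 26890688244) (nat_lit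 836) (nat_lit 11047251294) (nat_lit 103) (nat_lit 5) (nat_lit 113) (nat_lit 5) (nat_lit 114) (nat_lit 5) (nat_lit 354) (nat_lit 348) (nat_lit 198)) (XT.lf (nat_lit 0) (nat_lit 13978409656) (nat_lit 760) (nat_lit 2689991988) (nat_lit 836) (nat_lit 33927264407) (nat_lit 103) (nat_lit 5) (nat_lit 113) (nat_lit 5) (nat_lit 114) (nat_lit 5) (nat_lit 355) (nat_lit 348) (nat_lit 197))))))))
noncomputable def xc211 : XT := (XT.nd (nat_lit 1794) (nat_lit 2280) (nat_lit 0) (XT.nd (nat_lit 858) (nat_lit 1748) (nat_lit 0) (XT.nd (nat_lit 390) (nat_lit 1140) (nat_lit 0) (XT.nd (nat_lit 156) (nat_lit 684) (nat_lit 0) (XT.nd (nat_lit 78) (nat_lit 0) (nat_lit 0) (XT.lf (nat_lit 0) (nat_lit 17191253328) (nat_lit 760) (nat_lit 28568142664) (nat_lit 836) (nat_lit 6174844278) (nat_lit 104) (nat_lit 5) (nat_lit 114) (nat_lit 5) (nat_lit 115) (nat_lit 5) (nat_lit 356) (nat_lit 348) (nat_lit 196)) (XT.lf (nat_lit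 0) (nat_lit 20882662021) (nat_lit 760) (nat_lit 2794427180) (nat_lit 836) (nat_lit 29646759548) (nat_lit 104) (nat_lit 5) (nat_lit 114) (nat_lit 5) (nat_lit 115) (nat_lit 5) (nat_lit 357) (nat_lit 348) (nat_lit 195))) (XT.nd (nat_lit 78) (nat_lit 684) (nat_lit 0) (XT.lf (nat_lit 76) (nat_lit 25069059969) (nat_lit 0) (nat_lit 79424421) (nat_lit 836) (nat_lit 29614962709) (nat_lit 105) (nat_lit 5) (nat_lit 104) (nat_lit 5) (nat_lit 115) (nat_lit 5) (nat_lit 358) (nat_lit 348) (nat_lit 194)) (XT.nd (nat_lit 78) (nat_lit 760) (nat_lit 0) (XT.lf (nat_lit 0) (nat_lit 30059808701) (nat_lit 760) (nat_lit 2237644441) (nat_lit 76) (nat_lit 23955963219) (nat_lit 105) (nat_lit 5) (nat_lit 115) (nat_lit 5) (nat_lit 106) (nat_lit 5) (nat_lit 359) (nat_lit 348) (nat_lit 193)) (XT.lf (nat_lit 0) (nat_lit 27468521129) (nat_lit 760) (nat_lit 8176915111) (nat_lit 836) (nat_lit 22151012455) (nat_lit 95) (nat_lit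 5) (nat_lit 105) (nat_lit 5) (nat_lit 106) (nat_lit 5) (nat_lit 360) (nat_lit 348) (nat_lit 192))))) (XT.nd (nat_lit 234) (nat_lit 456) (nat_lit 0) (XT.nd (nat_lit 78) (nat_lit 684) (nat_lit 0) (XT.lf (nat_lit 0) (nat_lit 41815240638) (nat_lit 836) (nat_lit 946760262) (nat_lit 76) (nat_lit 16639388362) (nat_lit 95) (nat_lit 5) (nat_lit 106) (nat_lit 5) (nat_lit 96) (nat_lit 5) (nat_lit 361) (nat_lit 348) (nat_lit 191)) (XT.nd (nat_lit 78) (nat_lit 304) (nat_lit 0) (XT.lf (nat_lit 0) (nat_lit 30752422424) (nat_lit 380) (nat_lit 18153982170) (nat_lit 456) (nat_lit 12149530121) (nat_lit 90) (nat_lit 5) (nat_lit 95) (nat_lit 5) (nat_lit 96) (nat_lit 5) (nat_lit 362) (nat_lit 348) (nat_lit 190)) (XT.lf (nat_lit 0) (nat_lit 1193685479) (nat_lit 304) (nat_lit 55312083701) (nat_lit 380) (nat_lit 6279757402) (nat_lit 86) (nat_lit 5) (nat_lit 90) (nat_lit 5) (nat_lit 91) (nat_lit 5) (nat_lit 363)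 (nat_lit 348) (nat_lit 189)))) (XT.nd (nat_lit 78) (nat_lit 380) (nat_lit 0) (XT.lf (nat_lit 0) (nat_lit 705208944) (nat_lit 380) (nat_lit 29563656387) (nat_lit 76) (nat_lit 34291925978) (nat_lit 85) (nat_lit 5) (nat_lit 90) (nat_lit 5) (nat_lit 86) (nat_lit 5) (nat_lit 364) (nat_lit 348) (nat_lit 188)) (XT.nd (nat_lit 78) (nat_lit 0) (nat_lit 0) (XT.lf (nat_lit 0) (nat_lit 4092715944) (nat_lit 380) (nat_lit 3798377109) (nat_lit 456) (nat_lit 58525444443) (nat_lit 80) (nat_lit 5) (nat_lit 85) (nat_lit 5) (nat_lit 86) (nat_lit 5) (nat_lit 365) (nat_lit 348) (nat_lit 187)) (XT.lf (nat_lit 0) (nat_lit 16318640430) (nat_lit 456) (nat_lit 28265897780) (nat_lit 76) (nat_lit 23736415368) (nat_lit 80) (nat_lit 5) (nat_lit 86) (nat_lit 5) (nat_lit 81) (nat_lit 5) (nat_lit 366) (nat_lit 348) (nat_lit 186)))))) (XT.nd (nat_lit 468) (nat_lit 836) (nat_lit 0) (XT.nd (nat_lit 234) (nat_lit 304) (nat_lit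 0) (XT.nd (nat_lit 78) (nat_lit 304) (nat_lit 0) (XT.lf (nat_lit 0) (nat_lit 7677127921) (nat_lit 304) (nat_lit 17671469434) (nat_lit 380) (nat_lit 44962942487) (nat_lit 76) (nat_lit 5) (nat_lit 80) (nat_lit 5) (nat_lit 81) (nat_lit 5) (nat_lit 367) (nat_lit 348) (nat_lit 185)) (XT.nd (nat_lit 78) (nat_lit 304) (nat_lit 0) (XT.lf (nat_lit 0) (nat_lit 35480825923) (nat_lit 380) (nat_lit 26153505215) (nat_lit 76) (nat_lit 10734786534) (nat_lit 76) (nat_lit 5) (nat_lit 81) (nat_lit 5) (nat_lit 77) (nat_lit 5) (nat_lit 368) (nat_lit 348) (nat_lit 184)) (XT.lf (nat_lit 0) (nat_lit 12252700683) (nat_lit 304) (nat_lit 34346944229) (nat_lit 380) (nat_lit 27905931429) (nat_lit 72) (nat_lit 5) (nat_lit 76) (nat_lit 5) (nat_lit 77) (nat_lit 5) (nat_lit 369) (nat_lit 348) (nat_lit 183)))) (XT.nd (nat_lit 78) (nat_lit 304) (nat_lit 0) (XT.lf (nat_lit 0) (nat_lit 53486014220) (nat_lit 304) (nat_lit 5230326436)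 (nat_lit 380) (nat_lit 18010421351) (nat_lit 72) (nat_lit 5) (nat_lit 76) (nat_lit 5) (nat_lit 77) (nat_lit 5) (nat_lit 370) (nat_lit 348) (nat_lit 182)) (XT.nd (nat_lit 78) (nat_lit 76) (nat_lit 0) (XT.lf (nat_lit 0) (nat_lit 17897991232) (nat_lit 228) (nat_lit 54215036743) (nat_lit 304) (nat_lit 6912271954) (nat_lit 69) (nat_lit 5) (nat_lit 72) (nat_lit 5) (nat_lit 73) (nat_lit 5) (nat_lit 371) (nat_lit 348) (nat_lit 181)) (XT.lf (nat_lit 0) (nat_lit 5073907316) (nat_lit 304) (nat_lit 19685957619) (nat_lit 76) (nat_lit 56650956847) (nat_lit 68) (nat_lit 5) (nat_lit 72) (nat_lit 5) (nat_lit 69) (nat_lit 5) (nat_lit 372) (nat_lit 348) (nat_lit 180))))) (XT.nd (nat_lit 234) (nat_lit 304) (nat_lit 0) (XT.nd (nat_lit 78) (nat_lit 228) (nat_lit 0) (XT.lf (nat_lit 0) (nat_lit 17913103031) (nat_lit 380) (nat_lit 59498232710) (nat_lit 76) (nat_lit 6474318636) (nat_lit 64) (nat_lit 5) (nat_lit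 69) (nat_lit 5) (nat_lit 65) (nat_lit 5) (nat_lit 373) (nat_lit 348) (nat_lit 179)) (XT.nd (nat_lit 78) (nat_lit 228) (nat_lit 0) (XT.lf (nat_lit 0) (nat_lit 32138148167) (nat_lit 380) (nat_lit 15532160274) (nat_lit 76) (nat_lit 38776726347) (nat_lit 64) (nat_lit 5) (nat_lit 69) (nat_lit 5) (nat_lit 65) (nat_lit 5) (nat_lit 374) (nat_lit 348) (nat_lit 178)) (XT.lf (nat_lit 0) (nat_lit 31643915563) (nat_lit 228) (nat_lit 15923755022) (nat_lit 304) (nat_lit 41544153021) (nat_lit 61) (nat_lit 5) (nat_lit 64) (nat_lit 5) (nat_lit 65) (nat_lit 5) (nat_lit 375) (nat_lit 348) (nat_lit 177)))) (XT.nd (nat_lit 78) (nat_lit 304) (nat_lit 0) (XT.lf (nat_lit 0) (nat_lit 64307039603) (nat_lit 304) (nat_lit 10455917657) (nat_lit 76) (nat_lit 17119976689) (nat_lit 61) (nat_lit 5) (nat_lit 65) (nat_lit 5) (nat_lit 62) (nat_lit 5) (nat_lit 376) (nat_lit 348) (nat_lit 176)) (XT.nd (nat_lit 78) (nat_lit 76)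 (nat_lit 0) (XT.lf (nat_lit 0) (nat_lit 39922322453) (nat_lit 228) (nat_lit 42844630317) (nat_lit 304) (nat_lit 11981468831) (nat_lit 58) (nat_lit 5) (nat_lit 61) (nat_lit 5) (nat_lit 62) (nat_lit 5) (nat_lit 377) (nat_lit 348) (nat_lit 175)) (XT.lf (nat_lit 0) (nat_lit 4431302337) (nat_lit 304) (nat_lit 4638411052) (nat_lit 76) (nat_lit 88675080796) (nat_lit 57) (nat_lit 5) (nat_lit 61) (nat_lit 5) (nat_lit 58) (nat_lit 5) (nat_lit 378) (nat_lit 348) (nat_lit 174))))))) (XT.nd (nat_lit 936) (nat_lit 836) (nat_lit 0) (XT.nd (nat_lit 468) (nat_lit 532) (nat_lit 0) (XT.nd (nat_lit 234) (nat_lit 456) (nat_lit 0) (XT.nd (nat_lit 78) (nat_lit 228) (nat_lit 0) (XT.lf (nat_lit 0) (nat_lit 22461239925) (nat_lit 304) (nat_lit 51826830821) (nat_lit 76) (nat_lit 26533135085) (nat_lit 54) (nat_lit 5) (nat_lit 58) (nat_lit 5) (nat_lit 55) (nat_lit 5) (nat_lit 379) (nat_lit 348) (nat_lit 173)) (XT.nd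 (nat_lit 78) (nat_lit 0) (nat_lit 0) (XT.lf (nat_lit 0) (nat_lit 1313348940) (nat_lit 228) (nat_lit 40327644744) (nat_lit 304) (nat_lit 62398028887) (nat_lit 51) (nat_lit 5) (nat_lit 54) (nat_lit 5) (nat_lit 55) (nat_lit 5) (nat_lit 380) (nat_lit 348) (nat_lit 172)) (XT.lf (nat_lit 0) (nat_lit 58908825008) (nat_lit 228) (nat_lit 3747929376) (nat_lit 304) (nat_lit 44717125255) (nat_lit 51) (nat_lit 5) (nat_lit 54) (nat_lit 5) (nat_lit 55) (nat_lit 5) (nat_lit 381) (nat_lit 348) (nat_lit 171)))) (XT.nd (nat_lit 78) (nat_lit 304) (nat_lit 0) (XT.lf (nat_lit 0) (nat_lit 8229847004) (nat_lit 152) (nat_lit 77162433770) (nat_lit 228) (nat_lit 25449750334) (nat_lit 49) (nat_lit 5) (nat_lit 51) (nat_lit 5) (nat_lit 52) (nat_lit 5) (nat_lit 382) (nat_lit 348) (nat_lit 170)) (XT.nd (nat_lit 78) (nat_lit 304) (nat_lit 0) (XT.lf (nat_lit 0) (nat_lit 69377631131) (nat_lit 152) (nat_lit 40767533137) (nat_lit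 228) (nat_lit 4294397254) (nat_lit 49) (nat_lit 5) (nat_lit 51) (nat_lit 5) (nat_lit 52) (nat_lit 5) (nat_lit 383) (nat_lit 348) (nat_lit 169)) (XT.lf (nat_lit 0) (nat_lit 15583895483) (nat_lit 228) (nat_lit 2003996771) (nat_lit 304) (nat_lit 100602954510) (nat_lit 45) (nat_lit 5) (nat_lit 48) (nat_lit 5) (nat_lit 49) (nat_lit 5) (nat_lit 384) (nat_lit 348) (nat_lit 168))))) (XT.nd (nat_lit 234) (nat_lit 380) (nat_lit 0) (XT.nd (nat_lit 78) (nat_lit 152) (nat_lit 0) (XT.lf (nat_lit 0) (nat_lit 41799193839) (nat_lit 304) (nat_lit 41953139551) (nat_lit 76) (nat_lit 38304882359) (nat_lit 45) (nat_lit 5) (nat_lit 49) (nat_lit 5) (nat_lit 46) (nat_lit 5) (nat_lit 385) (nat_lit 348) (nat_lit 167)) (XT.nd (nat_lit 78) (nat_lit 0) (nat_lit 0) (XT.lf (nat_lit 0) (nat_lit 22417071556) (nat_lit 152) (nat_lit 45186245640) (nat_lit 228) (nat_lit 58494473490) (nat_lit 43) (nat_lit 5) (nat_lit 45) (nat_lit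 5) (nat_lit 46) (nat_lit 5) (nat_lit 386) (nat_lit 348) (nat_lit 166)) (XT.lf (nat_lit 0) (nat_lit 91461401323) (nat_lit 152) (nat_lit 3946166932) (nat_lit 228) (nat_lit 34897330361) (nat_lit 43) (nat_lit 5) (nat_lit 45) (nat_lit 5) (nat_lit 46) (nat_lit 5) (nat_lit 387) (nat_lit 348) (nat_lit 165)))) (XT.nd (nat_lit 78) (nat_lit 228) (nat_lit 0) (XT.lf (nat_lit 0) (nat_lit 29566554340) (nat_lit 152) (nat_lit 96110997664) (nat_lit 228) (nat_lit 8991034238) (nat_lit 41) (nat_lit 5) (nat_lit 43) (nat_lit 5) (nat_lit 44) (nat_lit 5) (nat_lit 388) (nat_lit 348) (nat_lit 164)) (XT.nd (nat_lit 78) (nat_lit 152) (nat_lit 0) (XT.lf (nat_lit 0) (nat_lit 18360484092) (nat_lit 228) (nat_lit 36832586695) (nat_lit 76) (nat_lit 84006533854) (nat_lit 40) (nat_lit 5) (nat_lit 43) (nat_lit 5) (nat_lit 41) (nat_lit 5) (nat_lit 389) (nat_lit 348) (nat_lit 163)) (XT.lf (nat_lit 0) (nat_lit 35849493360) (nat_lit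 152) (nat_lit 11487115230) (nat_lit 228) (nat_lit 96585236536) (nat_lit 38) (nat_lit 5) (nat_lit 40) (nat_lit 5) (nat_lit 41) (nat_lit 5) (nat_lit 390) (nat_lit 348) (nat_lit 162)))))) (XT.nd (nat_lit 468) (nat_lit 380) (nat_lit 0) (XT.nd (nat_lit 234) (nat_lit 304) (nat_lit 0) (XT.nd (nat_lit 78) (nat_lit 152) (nat_lit 0) (XT.lf (nat_lit 0) (nat_lit 78932171515) (nat_lit 228) (nat_lit 35952816049) (nat_lit 76) (nat_lit 33936678715) (nat_lit 38) (nat_lit 5) (nat_lit 41) (nat_lit 5) (nat_lit 39) (nat_lit 5) (nat_lit 391) (nat_lit 348) (nat_lit 161)) (XT.nd (nat_lit 78) (nat_lit 0) (nat_lit 0) (XT.lf (nat_lit 0) (nat_lit 40892377325) (nat_lit 152) (nat_lit 72041401468) (nat_lit 228) (nat_lit 40991386625) (nat_lit 36) (nat_lit 5) (nat_lit 38) (nat_lit 5) (nat_lit 39) (nat_lit 5) (nat_lit 392) (nat_lit 348) (nat_lit 160)) (XT.lf (nat_lit 0) (nat_lit 122827226924) (nat_lit 152) (nat_lit 26416636947)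 (nat_lit 228) (nat_lit 10009556001) (nat_lit 36) (nat_lit 5) (nat_lit 38) (nat_lit 5) (nat_lit 39) (nat_lit 5) (nat_lit 393) (nat_lit 348) (nat_lit 159)))) (XT.nd (nat_lit 78) (nat_lit 152) (nat_lit 0) (XT.lf (nat_lit 0) (nat_lit 22857054962) (nat_lit 152) (nat_lit 120046262952) (nat_lit 76) (nat_lit 21874362601) (nat_lit 34) (nat_lit 5) (nat_lit 36) (nat_lit 5) (nat_lit 35) (nat_lit 5) (nat_lit 394) (nat_lit 348) (nat_lit 158)) (XT.nd (nat_lit 78) (nat_lit 152) (nat_lit 0) (XT.lf (nat_lit 0) (nat_lit 58090217181) (nat_lit 152) (nat_lit 39943816238) (nat_lit 76) (nat_lit 72482936042) (nat_lit 34) (nat_lit 5) (nat_lit 36) (nat_lit 5) (nat_lit 35) (nat_lit 5) (nat_lit 395) (nat_lit 348) (nat_lit 157)) (XT.lf (nat_lit 0) (nat_lit 45623231781) (nat_lit 152) (nat_lit 50173673726) (nat_lit 228) (nat_lit 80710724137) (nat_lit 32) (nat_lit 5) (nat_lit 34) (nat_lit 5) (nat_lit 35) (nat_lit 5) (nat_lit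 396) (nat_lit 348) (nat_lit 156))))) (XT.nd (nat_lit 234) (nat_lit 228) (nat_lit 0) (XT.nd (nat_lit 78) (nat_lit 152) (nat_lit 0) (XT.lf (nat_lit 0) (nat_lit 136077296195) (nat_lit 228) (nat_lit 45921696284) (nat_lit 76) (nat_lit 764412141) (nat_lit 32) (nat_lit 5) (nat_lit 35) (nat_lit 5) (nat_lit 33) (nat_lit 4) (nat_lit 397) (nat_lit 348) (nat_lit 155)) (XT.nd (nat_lit 78) (nat_lit 76) (nat_lit 0) (XT.lf (nat_lit 0) (nat_lit 43870017469) (nat_lit 76) (nat_lit 136008728819) (nat_lit 152) (nat_lit 9377870231) (nat_lit 31) (nat_lit 5) (nat_lit 32) (nat_lit 5) (nat_lit 33) (nat_lit 4) (nat_lit 398) (nat_lit 348) (nat_lit 154)) (XT.lf (nat_lit 0) (nat_lit 29632172835) (nat_lit 152) (nat_lit 56768654476) (nat_lit 76) (nat_lit 109610899877) (nat_lit 30) (nat_lit 5) (nat_lit 32) (nat_lit 5) (nat_lit 31) (nat_lit 5) (nat_lit 399) (nat_lit 348) (nat_lit 153)))) (XT.nd (nat_lit 78) (nat_lit 76)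 (nat_lit 0) (XT.lf (nat_lit 0) (nat_lit 37320246643) (nat_lit 152) (nat_lit 33539595281) (nat_lit 228) (nat_lit 132207950745) (nat_lit 28) (nat_lit 5) (nat_lit 30) (nat_lit 5) (nat_lit 31) (nat_lit 5) (nat_lit 400) (nat_lit 348) (nat_lit 152)) (XT.nd (nat_lit 78) (nat_lit 76) (nat_lit 0) (XT.lf (nat_lit 0) (nat_lit 115468602064) (nat_lit 228) (nat_lit 72703499887) (nat_lit 76) (nat_lit 22238574233) (nat_lit 28) (nat_lit 5) (nat_lit 31) (nat_lit 5) (nat_lit 29) (nat_lit 4) (nat_lit 401) (nat_lit 348) (nat_lit 151)) (XT.lf (nat_lit 0) (nat_lit 25250433765) (nat_lit 76) (nat_lit 138001056134) (nat_lit 152) (nat_lit 54822029624) (nat_lit 27) (nat_lit 5) (nat_lit 28) (nat_lit 5) (nat_lit 29) (nat_lit 4) (nat_lit 402) (nat_lit 348) (nat_lit 150))))))))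
noncomputable def xc212 : XT := (XT.nd (nat_lit 1794) (nat_lit 76) (nat_lit 0) (XT.nd (nat_lit 858) (nat_lit 456) (nat_lit 0) (XT.nd (nat_lit 390) (nat_lit 228) (nat_lit 0) (XT.nd (nat_lit 156) (nat_lit 76) (nat_lit 0) (XT.nd (nat_lit 78) (nat_lit 228) (nat_lit 0) (XT.lf (nat_lit 0) (nat_lit 130625519109) (nat_lit 76) (nat_lit 84028909709) (nat_lit 152) (nat_lit 11403531006) (nat_lit 27) (nat_lit 5) (nat_lit 28) (nat_lit 5) (nat_lit 29) (nat_lit 4) (nat_lit 403) (nat_lit 348) (nat_lit 149)) (XT.lf (nat_lit 0) (nat_lit 6501459007) (nat_lit 152) (nat_lit 26691426692) (nat_lit 228) (nat_lit 201216991915) (nat_lit 24) (nat_lit 5) (nat_lit 26) (nat_lit 5) (nat_lit 27) (nat_lit 5) (nat_lit 404) (nat_lit 348) (nat_lit 148))) (XT.nd (nat_lit 78) (nat_lit 76) (nat_lit 0) (XT.lf (nat_lit 0) (nat_lit 81801462158) (nat_lit 228) (nat_lit 126990628073) (nat_lit 76) (nat_lit 34269675400) (nat_lit 24)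 (nat_lit 5) (nat_lit 27) (nat_lit 5) (nat_lit 25) (nat_lit 4) (nat_lit 405) (nat_lit 348) (nat_lit 147)) (XT.nd (nat_lit 78) (nat_lit 76) (nat_lit 0) (XT.lf (nat_lit 0) (nat_lit 133277700398) (nat_lit 228) (nat_lit 21465112559) (nat_lit 76) (nat_lit 97381573548) (nat_lit 24) (nat_lit 5) (nat_lit 27) (nat_lit 5) (nat_lit 25) (nat_lit 4) (nat_lit 406) (nat_lit 348) (nat_lit 146)) (XT.lf (nat_lit 0) (nat_lit 92289962289) (nat_lit 76) (nat_lit 96478377584) (nat_lit 152) (nat_lit 72799769184) (nat_lit 23) (nat_lit 5) (nat_lit 24) (nat_lit 5) (nat_lit 25) (nat_lit 4) (nat_lit 407) (nat_lit 348) (nat_lit 145))))) (XT.nd (nat_lit 234) (nat_lit 76) (nat_lit 0) (XT.nd (nat_lit 78) (nat_lit 152) (nat_lit 0) (XT.lf (nat_lit 0) (nat_lit 212477448743) (nat_lit 76) (nat_lit 34919275266) (nat_lit 152) (nat_lit 24069133188) (nat_lit 23) (nat_lit 5) (nat_lit 24) (nat_lit 5) (nat_lit 25) (nat_lit 4) (nat_lit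 408) (nat_lit 348) (nat_lit 144)) (XT.nd (nat_lit 78) (nat_lit 0) (nat_lit 0) (XT.lf (nat_lit 0) (nat_lit 27625800613) (nat_lit 152) (nat_lit 224020921236) (nat_lit 76) (nat_lit 30120863551) (nat_lit 21) (nat_lit 5) (nat_lit 23) (nat_lit 5) (nat_lit 22) (nat_lit 4) (nat_lit 409) (nat_lit 348) (nat_lit 143)) (XT.lf (nat_lit 0) (nat_lit 82684124301) (nat_lit 152) (nat_lit 111151963246) (nat_lit 76) (nat_lit 98649207555) (nat_lit 21) (nat_lit 5) (nat_lit 23) (nat_lit 5) (nat_lit 22) (nat_lit 4) (nat_lit 410) (nat_lit 348) (nat_lit 142)))) (XT.nd (nat_lit 78) (nat_lit 0) (nat_lit 0) (XT.lf (nat_lit 0) (nat_lit 7603273194) (nat_lit 76) (nat_lit 133010516070) (nat_lit 152) (nat_lit 163119179849) (nat_lit 20) (nat_lit 5) (nat_lit 21) (nat_lit 5) (nat_lit 22) (nat_lit 4) (nat_lit 411) (nat_lit 348) (nat_lit 141)) (XT.nd (nat_lit 78) (nat_lit 0) (nat_lit 0) (XT.lf (nat_lit 0) (nat_lit 136154703371)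 (nat_lit 76) (nat_lit 67167368550) (nat_lit 152) (nat_lit 112126848255) (nat_lit 20) (nat_lit 5) (nat_lit 21) (nat_lit 5) (nat_lit 22) (nat_lit 4) (nat_lit 412) (nat_lit 348) (nat_lit 140)) (XT.lf (nat_lit 0) (nat_lit 269196225609) (nat_lit 152) (nat_lit 56648187358) (nat_lit 0) (nat_lit 1904733053) (nat_lit 20) (nat_lit 5) (nat_lit 22) (nat_lit 4) (nat_lit 20) (nat_lit 4) (nat_lit 413) (nat_lit 348) (nat_lit 139)))))) (XT.nd (nat_lit 468) (nat_lit 152) (nat_lit 0) (XT.nd (nat_lit 234) (nat_lit 152) (nat_lit 0) (XT.nd (nat_lit 78) (nat_lit 0) (nat_lit 0) (XT.lf (nat_lit 0) (nat_lit 56626065) (nat_lit 152) (nat_lit 267175883602) (nat_lit 76) (nat_lit 73319504336) (nat_lit 18) (nat_lit 5) (nat_lit 20) (nat_lit 5) (nat_lit 19) (nat_lit 4) (nat_lit 414) (nat_lit 348) (nat_lit 138)) (XT.nd (nat_lit 78) (nat_lit 0) (nat_lit 0) (XT.lf (nat_lit 0) (nat_lit 60603724895) (nat_lit 152) (nat_lit 143054782887)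 (nat_lit 76) (nat_lit 150239781612) (nat_lit 18) (nat_lit 5) (nat_lit 20) (nat_lit 5) (nat_lit 19) (nat_lit 4) (nat_lit 415) (nat_lit 348) (nat_lit 137)) (XT.lf (nat_lit 0) (nat_lit 124177936150) (nat_lit 152) (nat_lit 12728080183) (nat_lit 76) (nat_lit 231005874407) (nat_lit 18) (nat_lit 5) (nat_lit 20) (nat_lit 5) (nat_lit 19) (nat_lit 4) (nat_lit 416) (nat_lit 348) (nat_lit 136)))) (XT.nd (nat_lit 78) (nat_lit 76) (nat_lit 0) (XT.lf (nat_lit 0) (nat_lit 128218312937) (nat_lit 76) (nat_lit 64714161259) (nat_lit 152) (nat_lit 189593617200) (nat_lit 17) (nat_lit 5) (nat_lit 18) (nat_lit 5) (nat_lit 19) (nat_lit 4) (nat_lit 417) (nat_lit 348) (nat_lit 135)) (XT.nd (nat_lit 78) (nat_lit 76) (nat_lit 0) (XT.lf (nat_lit 0) (nat_lit 265516702978) (nat_lit 152) (nat_lit 121383378487) (nat_lit 0) (nat_lit 10951322481) (nat_lit 17) (nat_lit 5) (nat_lit 19) (nat_lit 4) (nat_lit 17) (nat_lit 4) (nat_lit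 418) (nat_lit 348) (nat_lit 134)) (XT.lf (nat_lit 0) (nat_lit 17692202362) (nat_lit 76) (nat_lit 325374834837) (nat_lit 76) (nat_lit 70809100275) (nat_lit 16) (nat_lit 4) (nat_lit 17) (nat_lit 5) (nat_lit 17) (nat_lit 4) (nat_lit 419) (nat_lit 348) (nat_lit 133))))) (XT.nd (nat_lit 234) (nat_lit 0) (nat_lit 0) (XT.nd (nat_lit 78) (nat_lit 152) (nat_lit 0) (XT.lf (nat_lit 0) (nat_lit 167935313517) (nat_lit 76) (nat_lit 258615046198) (nat_lit 76) (nat_lit 4048974432) (nat_lit 16) (nat_lit 4) (nat_lit 17) (nat_lit 5) (nat_lit 17) (nat_lit 4) (nat_lit 420) (nat_lit 348) (nat_lit 132)) (XT.nd (nat_lit 78) (nat_lit 76) (nat_lit 0) (XT.lf (nat_lit 0) (nat_lit 63934964333) (nat_lit 152) (nat_lit 123499716030) (nat_lit 76) (nat_lit 260672460104) (nat_lit 15) (nat_lit 5) (nat_lit 17) (nat_lit 5) (nat_lit 16) (nat_lit 4) (nat_lit 421) (nat_lit 348) (nat_lit 131)) (XT.lf (nat_lit 0) (nat_lit 23301857709)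 (nat_lit 76) (nat_lit 112243779596) (nat_lit 152) (nat_lit 330923200540) (nat_lit 14) (nat_lit 5) (nat_lit 15) (nat_lit 5) (nat_lit 16) (nat_lit 4) (nat_lit 422) (nat_lit 348) (nat_lit 130)))) (XT.nd (nat_lit 78) (nat_lit 0) (nat_lit 0) (XT.lf (nat_lit 0) (nat_lit 181730773016) (nat_lit 76) (nat_lit 31097404093) (nat_lit 152) (nat_lit 272815876364) (nat_lit 14) (nat_lit 5) (nat_lit 15) (nat_lit 5) (nat_lit 16) (nat_lit 4) (nat_lit 423) (nat_lit 348) (nat_lit 129)) (XT.nd (nat_lit 78) (nat_lit 0) (nat_lit 0) (XT.lf (nat_lit 0) (nat_lit 294819407120) (nat_lit 152) (nat_lit 158542004163) (nat_lit 0) (nat_lit 52374390475) (nat_lit 14) (nat_lit 5) (nat_lit 16) (nat_lit 4) (nat_lit 14) (nat_lit 4) (nat_lit 424) (nat_lit 348) (nat_lit 128)) (XT.lf (nat_lit 0) (nat_lit 381419813468) (nat_lit 152) (nat_lit 6412298086) (nat_lit 0) (nat_lit 138974545196) (nat_lit 14) (nat_lit 5) (nat_lit 16) (nat_lit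 4) (nat_lit 14) (nat_lit 4) (nat_lit 425) (nat_lit 348) (nat_lit 127))))))) (XT.nd (nat_lit 41730) (nat_lit 0) (nat_lit 4484) (XT.nd (nat_lit 41262) (nat_lit 0) (nat_lit 6764) (XT.nd (nat_lit 41028) (nat_lit 0) (nat_lit 6688) (XT.nd (nat_lit 40872) (nat_lit 0) (nat_lit 6612) (XT.lf (nat_lit 0) (nat_lit 158393138608) (nat_lit 76) (nat_lit 316429892153) (nat_lit 76) (nat_lit 73984384236) (nat_lit 13) (nat_lit 4) (nat_lit 14) (nat_lit 5) (nat_lit 14) (nat_lit 4) (nat_lit 426) (nat_lit 348) (nat_lit 126)) (XT.nd (nat_lit 78) (nat_lit 0) (nat_lit 0) (XT.lf (nat_lit 0) (nat_lit 2209342826) (nat_lit 836) (nat_lit 10027723948) (nat_lit 836) (nat_lit 10027723948) (nat_lit 100) (nat_lit 3) (nat_lit 111) (nat_lit 3) (nat_lit 111) (nat_lit 5) (nat_lit 349) (nat_lit 349) (nat_lit 202)) (XT.lf (nat_lit 76) (nat_lit 1045251458) (nat_lit 0) (nat_lit 3532156455) (nat_lit 836) (nat_lit 41062966601) (nat_lit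 101) (nat_lit 5) (nat_lit 100) (nat_lit 3) (nat_lit 111) (nat_lit 5) (nat_lit 350) (nat_lit 349) (nat_lit 201)))) (XT.nd (nat_lit 78) (nat_lit 0) (nat_lit 0) (XT.lf (nat_lit 0) (nat_lit 5375400494) (nat_lit 760) (nat_lit 23187421356) (nat_lit 836) (nat_lit 18212320832) (nat_lit 101) (nat_lit 5) (nat_lit 111) (nat_lit 5) (nat_lit 112) (nat_lit 5) (nat_lit 351) (nat_lit 349) (nat_lit 200)) (XT.nd (nat_lit 78) (nat_lit 0) (nat_lit 76) (XT.lf (nat_lit 0) (nat_lit 6269247614) (nat_lit 760) (nat_lit 768410159) (nat_lit 836) (nat_lit 40926195798) (nat_lit 101) (nat_lit 5) (nat_lit 111) (nat_lit 5) (nat_lit 112) (nat_lit 5) (nat_lit 352) (nat_lit 349) (nat_lit 199)) (XT.lf (nat_lit 0) (nat_lit 7822222002) (nat_lit 760) (nat_lit 25919428375) (nat_lit 836) (nat_lit 15439629837) (nat_lit 102) (nat_lit 5) (nat_lit 112) (nat_lit 5) (nat_lit 113) (nat_lit 5) (nat_lit 353) (nat_lit 349) (nat_lit 198)))))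 (XT.nd (nat_lit 234) (nat_lit 0) (nat_lit 152) (XT.nd (nat_lit 78) (nat_lit 0) (nat_lit 76) (XT.lf (nat_lit 0) (nat_lit 9579668812) (nat_lit 760) (nat_lit 2055407359) (nat_lit 836) (nat_lit 38818162698) (nat_lit 102) (nat_lit 5) (nat_lit 112) (nat_lit 5) (nat_lit 113) (nat_lit 5) (nat_lit 354) (nat_lit 349) (nat_lit 197)) (XT.nd (nat_lit 78) (nat_lit 0) (nat_lit 0) (XT.lf (nat_lit 0) (nat_lit 11981113454) (nat_lit 760) (nat_lit 28195991219) (nat_lit 836) (nat_lit 11583886284) (nat_lit 103) (nat_lit 5) (nat_lit 113) (nat_lit 5) (nat_lit 114) (nat_lit 5) (nat_lit 355) (nat_lit 349) (nat_lit 196)) (XT.lf (nat_lit 0) (nat_lit 14727130056) (nat_lit 760) (nat_lit 2787128313) (nat_lit 836) (nat_lit 35608648985) (nat_lit 103) (nat_lit 5) (nat_lit 113) (nat_lit 5) (nat_lit 114) (nat_lit 5) (nat_lit 356) (nat_lit 349) (nat_lit 195)))) (XT.nd (nat_lit 78) (nat_lit 0) (nat_lit 0) (XT.lf (nat_lit 0)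 (nat_lit 18098642908) (nat_lit 760) (nat_lit 29957163992) (nat_lit 836) (nat_lit 6472704511) (nat_lit 104) (nat_lit 5) (nat_lit 114) (nat_lit 5) (nat_lit 115) (nat_lit 5) (nat_lit 357) (nat_lit 349) (nat_lit 194)) (XT.nd (nat_lit 78) (nat_lit 0) (nat_lit 0) (XT.lf (nat_lit 0) (nat_lit 21972344563) (nat_lit 760) (nat_lit 2896638249) (nat_lit 836) (nat_lit 31118733733) (nat_lit 104) (nat_lit 5) (nat_lit 114) (nat_lit 5) (nat_lit 115) (nat_lit 5) (nat_lit 358) (nat_lit 349) (nat_lit 193)) (XT.lf (nat_lit 76) (nat_lit 26359418254) (nat_lit 0) (nat_lit 90446972) (nat_lit 836) (nat_lit 31049511476) (nat_lit 105) (nat_lit 5) (nat_lit 104) (nat_lit 5) (nat_lit 115) (nat_lit 5) (nat_lit 359) (nat_lit 349) (nat_lit 192)))))) (XT.nd (nat_lit 468) (nat_lit 988) (nat_lit 0) (XT.nd (nat_lit 234) (nat_lit 760) (nat_lit 0) (XT.nd (nat_lit 78) (nat_lit 760) (nat_lit 0) (XT.lf (nat_lit 0) (nat_lit 31604557730)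 (nat_lit 760) (nat_lit 2312137968) (nat_lit 76) (nat_lit 25147260768) (nat_lit 105) (nat_lit 5) (nat_lit 115) (nat_lit 5) (nat_lit 106) (nat_lit 5) (nat_lit 360) (nat_lit 349) (nat_lit 191)) (XT.nd (nat_lit 78) (nat_lit 0) (nat_lit 0) (XT.lf (nat_lit 0) (nat_lit 28878732837) (nat_lit 760) (nat_lit 8589319631) (nat_lit 836) (nat_lit 23216160694) (nat_lit 95) (nat_lit 5) (nat_lit 105) (nat_lit 5) (nat_lit 106) (nat_lit 5) (nat_lit 361) (nat_lit 349) (nat_lit 190)) (XT.lf (nat_lit 0) (nat_lit 43944373007) (nat_lit 836) (nat_lit 957051436) (nat_lit 76) (nat_lit 17468076959) (nat_lit 95) (nat_lit 5) (nat_lit 106) (nat_lit 5) (nat_lit 96) (nat_lit 5) (nat_lit 362) (nat_lit 349) (nat_lit 189)))) (XT.nd (nat_lit 78) (nat_lit 380) (nat_lit 0) (XT.lf (nat_lit 0) (nat_lit 32326492855) (nat_lit 380) (nat_lit 19062344224) (nat_lit 456) (nat_lit 12718001802) (nat_lit 90) (nat_lit 5) (nat_lit 95) (nat_lit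 5) (nat_lit 96) (nat_lit 5) (nat_lit 363) (nat_lit 349) (nat_lit 188)) (XT.nd (nat_lit 78) (nat_lit 76) (nat_lit 0) (XT.lf (nat_lit 0) (nat_lit 1291103400) (nat_lit 304) (nat_lit 58075878514) (nat_lit 380) (nat_lit 6555989586) (nat_lit 86) (nat_lit 5) (nat_lit 90) (nat_lit 5) (nat_lit 91) (nat_lit 5) (nat_lit 364) (nat_lit 349) (nat_lit 187)) (XT.lf (nat_lit 0) (nat_lit 775276314) (nat_lit 380) (nat_lit 31004719600) (nat_lit 76) (nat_lit 36007062688) (nat_lit 85) (nat_lit 5) (nat_lit 90) (nat_lit 5) (nat_lit 86) (nat_lit 5) (nat_lit 365) (nat_lit 349) (nat_lit 186))))) (XT.nd (nat_lit 234) (nat_lit 304) (nat_lit 0) (XT.nd (nat_lit 78) (nat_lit 304) (nat_lit 0) (XT.lf (nat_lit 0) (nat_lit 4333872644) (nat_lit 380) (nat_lit 3985494706) (nat_lit 456) (nat_lit 61416280633) (nat_lit 80) (nat_lit 5) (nat_lit 85) (nat_lit 5) (nat_lit 86) (nat_lit 5) (nat_lit 366) (nat_lit 349) (nat_lit 185)) (XT.nd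 (nat_lit 78) (nat_lit 304) (nat_lit 0) (XT.lf (nat_lit 0) (nat_lit 17166728051) (nat_lit 456) (nat_lit 29642817854) (nat_lit 76) (nat_lit 24925818614) (nat_lit 80) (nat_lit 5) (nat_lit 86) (nat_lit 5) (nat_lit 81) (nat_lit 5) (nat_lit 367) (nat_lit 349) (nat_lit 184)) (XT.lf (nat_lit 0) (nat_lit 8096772441) (nat_lit 304) (nat_lit 18550437915) (nat_lit 380) (nat_lit 47178319743) (nat_lit 76) (nat_lit 5) (nat_lit 80) (nat_lit 5) (nat_lit 81) (nat_lit 5) (nat_lit 368) (nat_lit 349) (nat_lit 183)))) (XT.nd (nat_lit 78) (nat_lit 304) (nat_lit 0) (XT.lf (nat_lit 0) (nat_lit 37284633915) (nat_lit 380) (nat_lit 27425653845) (nat_lit 76) (nat_lit 11275771196) (nat_lit 76) (nat_lit 5) (nat_lit 81) (nat_lit 5) (nat_lit 77) (nat_lit 5) (nat_lit 369) (nat_lit 349) (nat_lit 182)) (XT.nd (nat_lit 78) (nat_lit 0) (nat_lit 0) (XT.lf (nat_lit 0) (nat_lit 12900289337) (nat_lit 304) (nat_lit 36058232778) (nat_lit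 380) (nat_lit 29270863280) (nat_lit 72) (nat_lit 5) (nat_lit 76) (nat_lit 5) (nat_lit 77) (nat_lit 5) (nat_lit 370) (nat_lit 349) (nat_lit 181)) (XT.lf (nat_lit 0) (nat_lit 56193604093) (nat_lit 304) (nat_lit 5486072602) (nat_lit 380) (nat_lit 18882023637) (nat_lit 72) (nat_lit 5) (nat_lit 76) (nat_lit 5) (nat_lit 77) (nat_lit 5) (nat_lit 371) (nat_lit 349) (nat_lit 180))))))))
noncomputable def xc213 : XT := (XT.nd (nat_lit 1794) (nat_lit 1444) (nat_lit 0) (XT.nd (nat_lit 858) (nat_lit 1140) (nat_lit 0) (XT.nd (nat_lit 390) (nat_lit 760) (nat_lit 0) (XT.nd (nat_lit 156) (nat_lit 532) (nat_lit 0) (XT.nd (nat_lit 78) (nat_lit 76) (nat_lit 0) (XT.lf (nat_lit 0) (nat_lit 18826931596) (nat_lit 228) (nat_lit 56918573627) (nat_lit 304) (nat_lit 7229695721) (nat_lit 69) (nat_lit 5) (nat_lit 72) (nat_lit 5) (nat_lit 73) (nat_lit 5) (nat_lit 372) (nat_lit 349) (nat_lit 179)) (XT.lf (nat_lit 0) (nat_lit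 5353590854) (nat_lit 304) (nat_lit 20636955822) (nat_lit 76) (nat_lit 59489496208) (nat_lit 68) (nat_lit 5) (nat_lit 72) (nat_lit 5) (nat_lit 69) (nat_lit 5) (nat_lit 373) (nat_lit 349) (nat_lit 178))) (XT.nd (nat_lit 78) (nat_lit 228) (nat_lit 0) (XT.lf (nat_lit 0) (nat_lit 18834137441) (nat_lit 380) (nat_lit 62439216154) (nat_lit 76) (nat_lit 6805294938) (nat_lit 64) (nat_lit 5) (nat_lit 69) (nat_lit 5) (nat_lit 65) (nat_lit 5) (nat_lit 374) (nat_lit 349) (nat_lit 177)) (XT.nd (nat_lit 78) (nat_lit 228) (nat_lit 0) (XT.lf (nat_lit 0) (nat_lit 33769226298) (nat_lit 380) (nat_lit 16276455725) (nat_lit 76) (nat_lit 40722477303) (nat_lit 64) (nat_lit 5) (nat_lit 69) (nat_lit 5) (nat_lit 65) (nat_lit 5) (nat_lit 375) (nat_lit 349) (nat_lit 176)) (XT.lf (nat_lit 0) (nat_lit 33257902734) (nat_lit 228) (nat_lit 16711667469) (nat_lit 304) (nat_lit 43596651002) (nat_lit 61) (nat_lit 5) (nat_lit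 64) (nat_lit 5) (nat_lit 65) (nat_lit 5) (nat_lit 376) (nat_lit 349) (nat_lit 175))))) (XT.nd (nat_lit 234) (nat_lit 456) (nat_lit 0) (XT.nd (nat_lit 78) (nat_lit 304) (nat_lit 0) (XT.lf (nat_lit 0) (nat_lit 67544910906) (nat_lit 304) (nat_lit 10947422327) (nat_lit 76) (nat_lit 17983604516) (nat_lit 61) (nat_lit 5) (nat_lit 65) (nat_lit 5) (nat_lit 62) (nat_lit 5) (nat_lit 377) (nat_lit 349) (nat_lit 174)) (XT.nd (nat_lit 78) (nat_lit 76) (nat_lit 0) (XT.lf (nat_lit 0) (nat_lit 41949225092) (nat_lit 228) (nat_lit 44978002955) (nat_lit 304) (nat_lit 12557502128) (nat_lit 58) (nat_lit 5) (nat_lit 61) (nat_lit 5) (nat_lit 62) (nat_lit 5) (nat_lit 378) (nat_lit 349) (nat_lit 173)) (XT.lf (nat_lit 0) (nat_lit 4674108135) (nat_lit 304) (nat_lit 4840294175) (nat_lit 76) (nat_lit 93116554924) (nat_lit 57) (nat_lit 5) (nat_lit 61) (nat_lit 5) (nat_lit 58) (nat_lit 5) (nat_lit 379) (nat_lit 349)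 (nat_lit 172)))) (XT.nd (nat_lit 78) (nat_lit 228) (nat_lit 0) (XT.lf (nat_lit 0) (nat_lit 23605130912) (nat_lit 304) (nat_lit 54387709313) (nat_lit 76) (nat_lit 27868370519) (nat_lit 54) (nat_lit 5) (nat_lit 58) (nat_lit 5) (nat_lit 55) (nat_lit 5) (nat_lit 380) (nat_lit 349) (nat_lit 171)) (XT.nd (nat_lit 78) (nat_lit 0) (nat_lit 0) (XT.lf (nat_lit 0) (nat_lit 1408988097) (nat_lit 228) (nat_lit 42334360348) (nat_lit 304) (nat_lit 65496596735) (nat_lit 51) (nat_lit 5) (nat_lit 54) (nat_lit 5) (nat_lit 55) (nat_lit 5) (nat_lit 381) (nat_lit 349) (nat_lit 170)) (XT.lf (nat_lit 0) (nat_lit 61882810744) (nat_lit 228) (nat_lit 3926119527) (nat_lit 304) (nat_lit 46932663807) (nat_lit 51) (nat_lit 5) (nat_lit 54) (nat_lit 5) (nat_lit 55) (nat_lit 5) (nat_lit 382) (nat_lit 349) (nat_lit 169)))))) (XT.nd (nat_lit 468) (nat_lit 532) (nat_lit 0) (XT.nd (nat_lit 234) (nat_lit 152) (nat_lit 0) (XT.nd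 (nat_lit 78) (nat_lit 304) (nat_lit 0) (XT.lf (nat_lit 0) (nat_lit 8670245770) (nat_lit 152) (nat_lit 81010654547) (nat_lit 228) (nat_lit 26702270038) (nat_lit 49) (nat_lit 5) (nat_lit 51) (nat_lit 5) (nat_lit 52) (nat_lit 5) (nat_lit 383) (nat_lit 349) (nat_lit 168)) (XT.nd (nat_lit 78) (nat_lit 304) (nat_lit 0) (XT.lf (nat_lit 0) (nat_lit 72874042608) (nat_lit 152) (nat_lit 42796480354) (nat_lit 228) (nat_lit 4490100152) (nat_lit 49) (nat_lit 5) (nat_lit 51) (nat_lit 5) (nat_lit 52) (nat_lit 5) (nat_lit 384) (nat_lit 349) (nat_lit 167)) (XT.lf (nat_lit 0) (nat_lit 16390785728) (nat_lit 228) (nat_lit 2094465259) (nat_lit 304) (nat_lit 105614229514) (nat_lit 45) (nat_lit 5) (nat_lit 48) (nat_lit 5) (nat_lit 49) (nat_lit 5) (nat_lit 385) (nat_lit 349) (nat_lit 166)))) (XT.nd (nat_lit 78) (nat_lit 152) (nat_lit 0) (XT.lf (nat_lit 0) (nat_lit 43906406916) (nat_lit 304) (nat_lit 44023699254)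 (nat_lit 76) (nat_lit 40229097797) (nat_lit 45) (nat_lit 5) (nat_lit 49) (nat_lit 5) (nat_lit 46) (nat_lit 5) (nat_lit 386) (nat_lit 349) (nat_lit 165)) (XT.nd (nat_lit 78) (nat_lit 0) (nat_lit 0) (XT.lf (nat_lit 0) (nat_lit 23564585356) (nat_lit 152) (nat_lit 47435745737) (nat_lit 228) (nat_lit 61401497299) (nat_lit 43) (nat_lit 5) (nat_lit 45) (nat_lit 5) (nat_lit 46) (nat_lit 5) (nat_lit 387) (nat_lit 349) (nat_lit 164)) (XT.lf (nat_lit 0) (nat_lit 96059862077) (nat_lit 152) (nat_lit 4134130340) (nat_lit 228) (nat_lit 36625339864) (nat_lit 43) (nat_lit 5) (nat_lit 45) (nat_lit 5) (nat_lit 46) (nat_lit 5) (nat_lit 388) (nat_lit 349) (nat_lit 163))))) (XT.nd (nat_lit 234) (nat_lit 152) (nat_lit 0) (XT.nd (nat_lit 78) (nat_lit 228) (nat_lit 0) (XT.lf (nat_lit 0) (nat_lit 31070517851) (nat_lit 152) (nat_lit 100906732618) (nat_lit 228) (nat_lit 9423965490) (nat_lit 41) (nat_lit 5) (nat_lit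 43) (nat_lit 5) (nat_lit 44) (nat_lit 5) (nat_lit 389) (nat_lit 349) (nat_lit 162)) (XT.nd (nat_lit 78) (nat_lit 152) (nat_lit 0) (XT.lf (nat_lit 0) (nat_lit 19293830678) (nat_lit 228) (nat_lit 38649286605) (nat_lit 76) (nat_lit 88215693714) (nat_lit 40) (nat_lit 5) (nat_lit 43) (nat_lit 5) (nat_lit 41) (nat_lit 5) (nat_lit 390) (nat_lit 349) (nat_lit 161)) (XT.lf (nat_lit 0) (nat_lit 37666495365) (nat_lit 152) (nat_lit 12051919340) (nat_lit 228) (nat_lit 101398766507) (nat_lit 38) (nat_lit 5) (nat_lit 40) (nat_lit 5) (nat_lit 41) (nat_lit 5) (nat_lit 391) (nat_lit 349) (nat_lit 160)))) (XT.nd (nat_lit 78) (nat_lit 152) (nat_lit 0) (XT.lf (nat_lit 0) (nat_lit 82893184674) (nat_lit 228) (nat_lit 37726519346) (nat_lit 76) (nat_lit 35642318308) (nat_lit 38) (nat_lit 5) (nat_lit 41) (nat_lit 5) (nat_lit 39) (nat_lit 5) (nat_lit 392) (nat_lit 349) (nat_lit 159)) (XT.nd (nat_lit 78) (nat_lit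 0) (nat_lit 0) (XT.lf (nat_lit 0) (nat_lit 42960547608) (nat_lit 152) (nat_lit 75634006480) (nat_lit 228) (nat_lit 43026158583) (nat_lit 36) (nat_lit 5) (nat_lit 38) (nat_lit 5) (nat_lit 39) (nat_lit 5) (nat_lit 393) (nat_lit 349) (nat_lit 158)) (XT.lf (nat_lit 0) (nat_lit 128991018191) (nat_lit 152) (nat_lit 27728454450) (nat_lit 228) (nat_lit 10495941065) (nat_lit 36) (nat_lit 5) (nat_lit 38) (nat_lit 5) (nat_lit 39) (nat_lit 5) (nat_lit 394) (nat_lit 349) (nat_lit 157))))))) (XT.nd (nat_lit 936) (nat_lit 532) (nat_lit 0) (XT.nd (nat_lit 468) (nat_lit 456) (nat_lit 0) (XT.nd (nat_lit 234) (nat_lit 152) (nat_lit 0) (XT.nd (nat_lit 78) (nat_lit 152) (nat_lit 0) (XT.lf (nat_lit 0) (nat_lit 24013394591) (nat_lit 152) (nat_lit 126025528458) (nat_lit 76) (nat_lit 22976961360) (nat_lit 34) (nat_lit 5) (nat_lit 36) (nat_lit 5) (nat_lit 35) (nat_lit 5) (nat_lit 395) (nat_lit 349) (nat_lit 156))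 (XT.nd (nat_lit 78) (nat_lit 152) (nat_lit 0) (XT.lf (nat_lit 0) (nat_lit 61007572689) (nat_lit 152) (nat_lit 41919056915) (nat_lit 76) (nat_lit 76115540587) (nat_lit 34) (nat_lit 5) (nat_lit 36) (nat_lit 5) (nat_lit 35) (nat_lit 5) (nat_lit 396) (nat_lit 349) (nat_lit 155)) (XT.lf (nat_lit 0) (nat_lit 47925989471) (nat_lit 152) (nat_lit 52673331486) (nat_lit 228) (nat_lit 84733056412) (nat_lit 32) (nat_lit 5) (nat_lit 34) (nat_lit 5) (nat_lit 35) (nat_lit 5) (nat_lit 397) (nat_lit 349) (nat_lit 154)))) (XT.nd (nat_lit 78) (nat_lit 152) (nat_lit 0) (XT.lf (nat_lit 0) (nat_lit 142893266808) (nat_lit 228) (nat_lit 48196744013) (nat_lit 76) (nat_lit 810953739) (nat_lit 32) (nat_lit 5) (nat_lit 35) (nat_lit 5) (nat_lit 33) (nat_lit 4) (nat_lit 398) (nat_lit 349) (nat_lit 153)) (XT.nd (nat_lit 78) (nat_lit 76) (nat_lit 0) (XT.lf (nat_lit 0) (nat_lit 46084216119) (nat_lit 76) (nat_lit 142800319971)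 (nat_lit 152) (nat_lit 9834313870) (nat_lit 31) (nat_lit 5) (nat_lit 32) (nat_lit 5) (nat_lit 33) (nat_lit 4) (nat_lit 399) (nat_lit 349) (nat_lit 152)) (XT.lf (nat_lit 0) (nat_lit 31125259000) (nat_lit 152) (nat_lit 59586991214) (nat_lit 76) (nat_lit 115099485139) (nat_lit 30) (nat_lit 5) (nat_lit 32) (nat_lit 5) (nat_lit 31) (nat_lit 5) (nat_lit 400) (nat_lit 349) (nat_lit 151))))) (XT.nd (nat_lit 234) (nat_lit 228) (nat_lit 0) (XT.nd (nat_lit 78) (nat_lit 76) (nat_lit 0) (XT.lf (nat_lit 0) (nat_lit 39206030833) (nat_lit 152) (nat_lit 35208042856) (nat_lit 228) (nat_lit 138806542517) (nat_lit 28) (nat_lit 5) (nat_lit 30) (nat_lit 5) (nat_lit 31) (nat_lit 5) (nat_lit 401) (nat_lit 349) (nat_lit 150)) (XT.nd (nat_lit 78) (nat_lit 76) (nat_lit 0) (XT.lf (nat_lit 0) (nat_lit 121252863481) (nat_lit 228) (nat_lit 76319432269) (nat_lit 76) (nat_lit 23358368759) (nat_lit 28) (nat_lit 5) (nat_lit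 31) (nat_lit 5) (nat_lit 29) (nat_lit 4) (nat_lit 402) (nat_lit 349) (nat_lit 149)) (XT.lf (nat_lit 0) (nat_lit 26531887701) (nat_lit 76) (nat_lit 144892787817) (nat_lit 152) (nat_lit 57551985696) (nat_lit 27) (nat_lit 5) (nat_lit 28) (nat_lit 5) (nat_lit 29) (nat_lit 4) (nat_lit 403) (nat_lit 349) (nat_lit 148)))) (XT.nd (nat_lit 78) (nat_lit 228) (nat_lit 0) (XT.lf (nat_lit 0) (nat_lit 137174825776) (nat_lit 76) (nat_lit 88222430314) (nat_lit 152) (nat_lit 11963092880) (nat_lit 27) (nat_lit 5) (nat_lit 28) (nat_lit 5) (nat_lit 29) (nat_lit 4) (nat_lit 404) (nat_lit 349) (nat_lit 147)) (XT.nd (nat_lit 78) (nat_lit 0) (nat_lit 0) (XT.lf (nat_lit 0) (nat_lit 6844609437) (nat_lit 152) (nat_lit 28017988444) (nat_lit 228) (nat_lit 211267266995) (nat_lit 24) (nat_lit 5) (nat_lit 26) (nat_lit 5) (nat_lit 27) (nat_lit 5) (nat_lit 405) (nat_lit 349) (nat_lit 146)) (XT.lf (nat_lit 0) (nat_lit 85901242836)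 (nat_lit 228) (nat_lit 133322579434) (nat_lit 76) (nat_lit 35990543194) (nat_lit 24) (nat_lit 5) (nat_lit 27) (nat_lit 5) (nat_lit 25) (nat_lit 4) (nat_lit 406) (nat_lit 349) (nat_lit 145)))))) (XT.nd (nat_lit 468) (nat_lit 228) (nat_lit 0) (XT.nd (nat_lit 234) (nat_lit 228) (nat_lit 0) (XT.nd (nat_lit 78) (nat_lit 76) (nat_lit 0) (XT.lf (nat_lit 0) (nat_lit 139950830724) (nat_lit 228) (nat_lit 22521625289) (nat_lit 76) (nat_lit 102257684629) (nat_lit 24) (nat_lit 5) (nat_lit 27) (nat_lit 5) (nat_lit 25) (nat_lit 4) (nat_lit 407) (nat_lit 349) (nat_lit 144)) (XT.nd (nat_lit 78) (nat_lit 0) (nat_lit 0) (XT.lf (nat_lit 0) (nat_lit 96920933255) (nat_lit 76) (nat_lit 101294885852) (nat_lit 152) (nat_lit 76430239507) (nat_lit 23) (nat_lit 5) (nat_lit 24) (nat_lit 5) (nat_lit 25) (nat_lit 4) (nat_lit 408) (nat_lit 349) (nat_lit 143)) (XT.lf (nat_lit 0) (nat_lit 223117009610) (nat_lit 76) (nat_lit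 36658181304) (nat_lit 152) (nat_lit 25263524956) (nat_lit 23) (nat_lit 5) (nat_lit 24) (nat_lit 5) (nat_lit 25) (nat_lit 4) (nat_lit 409) (nat_lit 349) (nat_lit 142)))) (XT.nd (nat_lit 78) (nat_lit 76) (nat_lit 0) (XT.lf (nat_lit 0) (nat_lit 29015804219) (nat_lit 152) (nat_lit 235205922621) (nat_lit 76) (nat_lit 31633799745) (nat_lit 21) (nat_lit 5) (nat_lit 23) (nat_lit 5) (nat_lit 22) (nat_lit 4) (nat_lit 410) (nat_lit 349) (nat_lit 141)) (XT.nd (nat_lit 78) (nat_lit 76) (nat_lit 0) (XT.lf (nat_lit 0) (nat_lit 86826629160) (nat_lit 152) (nat_lit 116694280764) (nat_lit 76) (nat_lit 103588232711) (nat_lit 21) (nat_lit 5) (nat_lit 23) (nat_lit 5) (nat_lit 22) (nat_lit 4) (nat_lit 411) (nat_lit 349) (nat_lit 140)) (XT.lf (nat_lit 0) (nat_lit 7998471035) (nat_lit 76) (nat_lit 139654145888) (nat_lit 152) (nat_lit 171266591555) (nat_lit 20) (nat_lit 5) (nat_lit 21) (nat_lit 5) (nat_lit 22) (nat_lit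 4) (nat_lit 412) (nat_lit 349) (nat_lit 139))))) (XT.nd (nat_lit 234) (nat_lit 76) (nat_lit 0) (XT.nd (nat_lit 78) (nat_lit 152) (nat_lit 0) (XT.lf (nat_lit 0) (nat_lit 142976756808) (nat_lit 76) (nat_lit 70519169372) (nat_lit 152) (nat_lit 117725050395) (nat_lit 20) (nat_lit 5) (nat_lit 21) (nat_lit 5) (nat_lit 22) (nat_lit 4) (nat_lit 413) (nat_lit 349) (nat_lit 138)) (XT.nd (nat_lit 78) (nat_lit 152) (nat_lit 0) (XT.lf (nat_lit 0) (nat_lit 282663516129) (nat_lit 152) (nat_lit 59466686878) (nat_lit 0) (nat_lit 2006024373) (nat_lit 20) (nat_lit 5) (nat_lit 22) (nat_lit 4) (nat_lit 20) (nat_lit 4) (nat_lit 414) (nat_lit 349) (nat_lit 137)) (XT.lf (nat_lit 0) (nat_lit 66916221) (nat_lit 152) (nat_lit 280520743868) (nat_lit 76) (nat_lit 76991579876) (nat_lit 18) (nat_lit 5) (nat_lit 20) (nat_lit 5) (nat_lit 19) (nat_lit 4) (nat_lit 415) (nat_lit 349) (nat_lit 136)))) (XT.nd (nat_lit 78) (nat_lit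 76) (nat_lit 0) (XT.lf (nat_lit 0) (nat_lit 63641014809) (nat_lit 152) (nat_lit 150194251638) (nat_lit 76) (nat_lit 157757580524) (nat_lit 18) (nat_lit 5) (nat_lit 20) (nat_lit 5) (nat_lit 19) (nat_lit 4) (nat_lit 416) (nat_lit 349) (nat_lit 135)) (XT.nd (nat_lit 78) (nat_lit 76) (nat_lit 0) (XT.lf (nat_lit 0) (nat_lit 130393598357) (nat_lit 152) (nat_lit 13351845722) (nat_lit 76) (nat_lit 242561701300) (nat_lit 18) (nat_lit 5) (nat_lit 20) (nat_lit 5) (nat_lit 19) (nat_lit 4) (nat_lit 417) (nat_lit 349) (nat_lit 134)) (XT.lf (nat_lit 0) (nat_lit 134641663208) (nat_lit 76) (nat_lit 67944072075) (nat_lit 152) (nat_lit 199066327264) (nat_lit 17) (nat_lit 5) (nat_lit 18) (nat_lit 5) (nat_lit 19) (nat_lit 4) (nat_lit 418) (nat_lit 349) (nat_lit 133))))))))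
noncomputable def xc214 : XT := (XT.nd (nat_lit 42666) (nat_lit 0) (nat_lit 2204) (XT.nd (nat_lit 41730) (nat_lit 0) (nat_lit 5776) (XT.nd (nat_lit 390) (nat_lit 0) (nat_lit 0) (XT.nd (nat_lit 156) (nat_lit 152) (nat_lit 0) (XT.nd (nat_lit 78) (nat_lit 76) (nat_lit 0) (XT.lf (nat_lit 0) (nat_lit 278798945639) (nat_lit 152) (nat_lit 127440473572) (nat_lit 0) (nat_lit 11504233080) (nat_lit 17) (nat_lit 5) (nat_lit 19) (nat_lit 4) (nat_lit 17) (nat_lit 4) (nat_lit 419) (nat_lit 349) (nat_lit 132)) (XT.lf (nat_lit 0) (nat_lit 18588691581) (nat_lit 76) (nat_lit 341637985337) (nat_lit 76) (nat_lit 74342951631) (nat_lit 16) (nat_lit 4) (nat_lit 17) (nat_lit 5) (nat_lit 17) (nat_lit 4) (nat_lit 420) (nat_lit 349) (nat_lit 131))) (XT.nd (nat_lit 78) (nat_lit 152) (nat_lit 0) (XT.lf (nat_lit 0) (nat_lit 176343392622) (nat_lit 76) (nat_lit 271540473516) (nat_lit 76) (nat_lit 4245133955) (nat_lit 16)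 (nat_lit 4) (nat_lit 17) (nat_lit 5) (nat_lit 17) (nat_lit 4) (nat_lit 421) (nat_lit 349) (nat_lit 130)) (XT.nd (nat_lit 78) (nat_lit 76) (nat_lit 0) (XT.lf (nat_lit 0) (nat_lit 67137510554) (nat_lit 152) (nat_lit 129663734214) (nat_lit 76) (nat_lit 273710961608) (nat_lit 15) (nat_lit 5) (nat_lit 17) (nat_lit 5) (nat_lit 16) (nat_lit 4) (nat_lit 422) (nat_lit 349) (nat_lit 129)) (XT.lf (nat_lit 0) (nat_lit 24477741315) (nat_lit 76) (nat_lit 117850868238) (nat_lit 152) (nat_lit 347463384509) (nat_lit 14) (nat_lit 5) (nat_lit 15) (nat_lit 5) (nat_lit 16) (nat_lit 4) (nat_lit 423) (nat_lit 349) (nat_lit 128))))) (XT.nd (nat_lit 41106) (nat_lit 0) (nat_lit 6536) (XT.nd (nat_lit 78) (nat_lit 0) (nat_lit 0) (XT.lf (nat_lit 0) (nat_lit 190827588543) (nat_lit 76) (nat_lit 32647416833) (nat_lit 152) (nat_lit 286450978698) (nat_lit 14) (nat_lit 5) (nat_lit 15) (nat_lit 5) (nat_lit 16) (nat_lit 4)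 (nat_lit 424) (nat_lit 349) (nat_lit 127)) (XT.nd (nat_lit 78) (nat_lit 0) (nat_lit 0) (XT.lf (nat_lit 0) (nat_lit 309565611047) (nat_lit 152) (nat_lit 166459129981) (nat_lit 0) (nat_lit 54997588089) (nat_lit 14) (nat_lit 5) (nat_lit 16) (nat_lit 4) (nat_lit 14) (nat_lit 4) (nat_lit 425) (nat_lit 349) (nat_lit 126)) (XT.lf (nat_lit 0) (nat_lit 400495788496) (nat_lit 152) (nat_lit 6723413571) (nat_lit 0) (nat_lit 145927537305) (nat_lit 14) (nat_lit 5) (nat_lit 16) (nat_lit 4) (nat_lit 14) (nat_lit 4) (nat_lit 426) (nat_lit 349) (nat_lit 125)))) (XT.nd (nat_lit 78) (nat_lit 0) (nat_lit 0) (XT.lf (nat_lit 0) (nat_lit 2351247175) (nat_lit 836) (nat_lit 10512589018) (nat_lit 836) (nat_lit 10512589018) (nat_lit 100) (nat_lit 3) (nat_lit 111) (nat_lit 3) (nat_lit 111) (nat_lit 5) (nat_lit 350) (nat_lit 350) (nat_lit 200)) (XT.nd (nat_lit 78) (nat_lit 0) (nat_lit 76) (XT.lf (nat_lit 76) (nat_lit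 1130023346) (nat_lit 0) (nat_lit 3736642921) (nat_lit 836) (nat_lit 43052644363) (nat_lit 101) (nat_lit 5) (nat_lit 100) (nat_lit 3) (nat_lit 111) (nat_lit 5) (nat_lit 351) (nat_lit 350) (nat_lit 199)) (XT.lf (nat_lit 0) (nat_lit 5701268324) (nat_lit 760) (nat_lit 24312480817) (nat_lit 836) (nat_lit 19097235586) (nat_lit 101) (nat_lit 5) (nat_lit 111) (nat_lit 5) (nat_lit 112) (nat_lit 5) (nat_lit 352) (nat_lit 350) (nat_lit 198)))))) (XT.nd (nat_lit 468) (nat_lit 836) (nat_lit 0) (XT.nd (nat_lit 234) (nat_lit 0) (nat_lit 152) (XT.nd (nat_lit 78) (nat_lit 0) (nat_lit 76) (XT.lf (nat_lit 0) (nat_lit 6637088856) (nat_lit 760) (nat_lit 774152946) (nat_lit 836) (nat_lit 42948028170) (nat_lit 101) (nat_lit 5) (nat_lit 111) (nat_lit 5) (nat_lit 112) (nat_lit 5) (nat_lit 353) (nat_lit 350) (nat_lit 197)) (XT.nd (nat_lit 78) (nat_lit 0) (nat_lit 0) (XT.lf (nat_lit 0) (nat_lit 8265310003) (nat_lit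 760) (nat_lit 27180265509) (nat_lit 836) (nat_lit 16192115264) (nat_lit 102) (nat_lit 5) (nat_lit 112) (nat_lit 5) (nat_lit 113) (nat_lit 5) (nat_lit 354) (nat_lit 350) (nat_lit 196)) (XT.lf (nat_lit 0) (nat_lit 10108154063) (nat_lit 760) (nat_lit 2124716502) (nat_lit 836) (nat_lit 40740503152) (nat_lit 102) (nat_lit 5) (nat_lit 112) (nat_lit 5) (nat_lit 113) (nat_lit 5) (nat_lit 355) (nat_lit 350) (nat_lit 195)))) (XT.nd (nat_lit 78) (nat_lit 0) (nat_lit 0) (XT.lf (nat_lit 0) (nat_lit 12627597619) (nat_lit 760) (nat_lit 29570206710) (nat_lit 836) (nat_lit 12148815224) (nat_lit 103) (nat_lit 5) (nat_lit 113) (nat_lit 5) (nat_lit 114) (nat_lit 5) (nat_lit 356) (nat_lit 350) (nat_lit 194)) (XT.nd (nat_lit 78) (nat_lit 0) (nat_lit 76) (XT.lf (nat_lit 0) (nat_lit 15508656551) (nat_lit 760) (nat_lit 2892595138) (nat_lit 836) (nat_lit 37375495364) (nat_lit 103) (nat_lit 5) (nat_lit 113) (nat_lit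 5) (nat_lit 114) (nat_lit 5) (nat_lit 357) (nat_lit 350) (nat_lit 193)) (XT.lf (nat_lit 0) (nat_lit 19046955473) (nat_lit 760) (nat_lit 31419298105) (nat_lit 836) (nat_lit 6786469458) (nat_lit 104) (nat_lit 5) (nat_lit 114) (nat_lit 5) (nat_lit 115) (nat_lit 5) (nat_lit 358) (nat_lit 350) (nat_lit 192))))) (XT.nd (nat_lit 234) (nat_lit 1064) (nat_lit 0) (XT.nd (nat_lit 78) (nat_lit 0) (nat_lit 0) (XT.lf (nat_lit 0) (nat_lit 23112276477) (nat_lit 760) (nat_lit 3007447222) (nat_lit 836) (nat_lit 32665270156) (nat_lit 104) (nat_lit 5) (nat_lit 114) (nat_lit 5) (nat_lit 115) (nat_lit 5) (nat_lit 359) (nat_lit 350) (nat_lit 191)) (XT.nd (nat_lit 78) (nat_lit 0) (nat_lit 76) (XT.lf (nat_lit 76) (nat_lit 27710863348) (nat_lit 0) (nat_lit 101365084) (nat_lit 836) (nat_lit 32560082860) (nat_lit 105) (nat_lit 5) (nat_lit 104) (nat_lit 5) (nat_lit 115) (nat_lit 5) (nat_lit 360) (nat_lit 350) (nat_lit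 190)) (XT.lf (nat_lit 0) (nat_lit 33222661892) (nat_lit 760) (nat_lit 2393832217) (nat_lit 76) (nat_lit 26398727559) (nat_lit 105) (nat_lit 5) (nat_lit 115) (nat_lit 5) (nat_lit 106) (nat_lit 5) (nat_lit 361) (nat_lit 350) (nat_lit 189)))) (XT.nd (nat_lit 78) (nat_lit 380) (nat_lit 0) (XT.lf (nat_lit 0) (nat_lit 30356035150) (nat_lit 760) (nat_lit 9022013517) (nat_lit 836) (nat_lit 24338508516) (nat_lit 95) (nat_lit 5) (nat_lit 105) (nat_lit 5) (nat_lit 106) (nat_lit 5) (nat_lit 362) (nat_lit 350) (nat_lit 188)) (XT.nd (nat_lit 78) (nat_lit 380) (nat_lit 0) (XT.lf (nat_lit 0) (nat_lit 46176394685) (nat_lit 836) (nat_lit 971301432) (nat_lit 76) (nat_lit 18338505006) (nat_lit 95) (nat_lit 5) (nat_lit 106) (nat_lit 5) (nat_lit 96) (nat_lit 5) (nat_lit 363) (nat_lit 350) (nat_lit 187)) (XT.lf (nat_lit 0) (nat_lit 33975878097) (nat_lit 380) (nat_lit 20016062745) (nat_lit 456) (nat_lit 13318523366)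 (nat_lit 90) (nat_lit 5) (nat_lit 95) (nat_lit 5) (nat_lit 96) (nat_lit 5) (nat_lit 364) (nat_lit 350) (nat_lit 186))))))) (XT.nd (nat_lit 936) (nat_lit 1596) (nat_lit 0) (XT.nd (nat_lit 468) (nat_lit 912) (nat_lit 0) (XT.nd (nat_lit 234) (nat_lit 304) (nat_lit 0) (XT.nd (nat_lit 78) (nat_lit 456) (nat_lit 0) (XT.lf (nat_lit 0) (nat_lit 1389884100) (nat_lit 304) (nat_lit 60978031286) (nat_lit 380) (nat_lit 6849543544) (nat_lit 86) (nat_lit 5) (nat_lit 90) (nat_lit 5) (nat_lit 91) (nat_lit 5) (nat_lit 365) (nat_lit 350) (nat_lit 185)) (XT.nd (nat_lit 78) (nat_lit 380) (nat_lit 0) (XT.lf (nat_lit 0) (nat_lit 845611035) (nat_lit 380) (nat_lit 32521287003) (nat_lit 76) (nat_lit 37807905992) (nat_lit 85) (nat_lit 5) (nat_lit 90) (nat_lit 5) (nat_lit 86) (nat_lit 5) (nat_lit 366) (nat_lit 350) (nat_lit 184)) (XT.lf (nat_lit 0) (nat_lit 4583691812) (nat_lit 380) (nat_lit 4182228617) (nat_lit 456)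 (nat_lit 64454953140) (nat_lit 80) (nat_lit 5) (nat_lit 85) (nat_lit 5) (nat_lit 86) (nat_lit 5) (nat_lit 367) (nat_lit 350) (nat_lit 183)))) (XT.nd (nat_lit 78) (nat_lit 304) (nat_lit 0) (XT.lf (nat_lit 0) (nat_lit 18054230530) (nat_lit 456) (nat_lit 31091965718) (nat_lit 76) (nat_lit 26174451927) (nat_lit 80) (nat_lit 5) (nat_lit 86) (nat_lit 5) (nat_lit 81) (nat_lit 5) (nat_lit 368) (nat_lit 350) (nat_lit 182)) (XT.nd (nat_lit 78) (nat_lit 0) (nat_lit 0) (XT.lf (nat_lit 0) (nat_lit 8534071947) (nat_lit 304) (nat_lit 19473782949) (nat_lit 380) (nat_lit 49507512493) (nat_lit 76) (nat_lit 5) (nat_lit 80) (nat_lit 5) (nat_lit 81) (nat_lit 5) (nat_lit 369) (nat_lit 350) (nat_lit 181)) (XT.lf (nat_lit 0) (nat_lit 39175864880) (nat_lit 380) (nat_lit 28764712836) (nat_lit 76) (nat_lit 11843410400) (nat_lit 76) (nat_lit 5) (nat_lit 81) (nat_lit 5) (nat_lit 77) (nat_lit 5) (nat_lit 370) (nat_lit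 350) (nat_lit 180))))) (XT.nd (nat_lit 234) (nat_lit 380) (nat_lit 0) (XT.nd (nat_lit 78) (nat_lit 228) (nat_lit 0) (XT.lf (nat_lit 0) (nat_lit 13577007769) (nat_lit 304) (nat_lit 37855649031) (nat_lit 380) (nat_lit 30706864747) (nat_lit 72) (nat_lit 5) (nat_lit 76) (nat_lit 5) (nat_lit 77) (nat_lit 5) (nat_lit 371) (nat_lit 350) (nat_lit 179)) (XT.nd (nat_lit 78) (nat_lit 228) (nat_lit 0) (XT.lf (nat_lit 0) (nat_lit 59033478550) (nat_lit 304) (nat_lit 5755142532) (nat_lit 380) (nat_lit 19799894632) (nat_lit 72) (nat_lit 5) (nat_lit 76) (nat_lit 5) (nat_lit 77) (nat_lit 5) (nat_lit 372) (nat_lit 350) (nat_lit 178)) (XT.lf (nat_lit 0) (nat_lit 19799154187) (nat_lit 228) (nat_lit 59757958133) (nat_lit 304) (nat_lit 7565611500) (nat_lit 69) (nat_lit 5) (nat_lit 72) (nat_lit 5) (nat_lit 73) (nat_lit 5) (nat_lit 373) (nat_lit 350) (nat_lit 177)))) (XT.nd (nat_lit 78) (nat_lit 304) (nat_lit 0)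 (XT.lf (nat_lit 0) (nat_lit 5644842434) (nat_lit 304) (nat_lit 21638599824) (nat_lit 76) (nat_lit 62469405502) (nat_lit 68) (nat_lit 5) (nat_lit 72) (nat_lit 5) (nat_lit 69) (nat_lit 5) (nat_lit 374) (nat_lit 350) (nat_lit 176)) (XT.nd (nat_lit 78) (nat_lit 0) (nat_lit 0) (XT.lf (nat_lit 0) (nat_lit 19798864048) (nat_lit 380) (nat_lit 65530403093) (nat_lit 76) (nat_lit 7152145055) (nat_lit 64) (nat_lit 5) (nat_lit 69) (nat_lit 5) (nat_lit 65) (nat_lit 5) (nat_lit 375) (nat_lit 350) (nat_lit 175)) (XT.lf (nat_lit 0) (nat_lit 35479611170) (nat_lit 380) (nat_lit 17060970065) (nat_lit 76) (nat_lit 42764872949) (nat_lit 64) (nat_lit 5) (nat_lit 69) (nat_lit 5) (nat_lit 65) (nat_lit 5) (nat_lit 376) (nat_lit 350) (nat_lit 174)))))) (XT.nd (nat_lit 468) (nat_lit 608) (nat_lit 0) (XT.nd (nat_lit 234) (nat_lit 532) (nat_lit 0) (XT.nd (nat_lit 78) (nat_lit 228) (nat_lit 0) (XT.lf (nat_lit 0) (nat_lit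 34949633601) (nat_lit 228) (nat_lit 17539744898) (nat_lit 304) (nat_lit 45754071154) (nat_lit 61) (nat_lit 5) (nat_lit 64) (nat_lit 5) (nat_lit 65) (nat_lit 5) (nat_lit 377) (nat_lit 350) (nat_lit 173)) (XT.nd (nat_lit 78) (nat_lit 228) (nat_lit 0) (XT.lf (nat_lit 0) (nat_lit 70942582140) (nat_lit 304) (nat_lit 11466411391) (nat_lit 76) (nat_lit 18889704464) (nat_lit 61) (nat_lit 5) (nat_lit 65) (nat_lit 5) (nat_lit 62) (nat_lit 5) (nat_lit 378) (nat_lit 350) (nat_lit 172)) (XT.lf (nat_lit 0) (nat_lit 44074610624) (nat_lit 228) (nat_lit 47218867839) (nat_lit 304) (nat_lit 13164479145) (nat_lit 58) (nat_lit 5) (nat_lit 61) (nat_lit 5) (nat_lit 62) (nat_lit 5) (nat_lit 379) (nat_lit 350) (nat_lit 171)))) (XT.nd (nat_lit 78) (nat_lit 456) (nat_lit 0) (XT.lf (nat_lit 0) (nat_lit 4927079467) (nat_lit 304) (nat_lit 5055064049) (nat_lit 76) (nat_lit 97779385018) (nat_lit 57) (nat_lit 5) (nat_lit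 61) (nat_lit 5) (nat_lit 58) (nat_lit 5) (nat_lit 380) (nat_lit 350) (nat_lit 170)) (XT.nd (nat_lit 78) (nat_lit 228) (nat_lit 0) (XT.lf (nat_lit 0) (nat_lit 24804279966) (nat_lit 304) (nat_lit 57079463895) (nat_lit 76) (nat_lit 29269570161) (nat_lit 54) (nat_lit 5) (nat_lit 58) (nat_lit 5) (nat_lit 55) (nat_lit 5) (nat_lit 381) (nat_lit 350) (nat_lit 169)) (XT.lf (nat_lit 0) (nat_lit 1506622727) (nat_lit 228) (nat_lit 44442310444) (nat_lit 304) (nat_lit 68752076371) (nat_lit 51) (nat_lit 5) (nat_lit 54) (nat_lit 5) (nat_lit 55) (nat_lit 5) (nat_lit 382) (nat_lit 350) (nat_lit 168))))) (XT.nd (nat_lit 234) (nat_lit 456) (nat_lit 0) (XT.nd (nat_lit 78) (nat_lit 152) (nat_lit 0) (XT.lf (nat_lit 0) (nat_lit 65002841971) (nat_lit 228) (nat_lit 4114075102) (nat_lit 304) (nat_lit 49260868235) (nat_lit 51) (nat_lit 5) (nat_lit 54) (nat_lit 5) (nat_lit 55) (nat_lit 5) (nat_lit 383) (nat_lit 350)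 (nat_lit 167)) (XT.nd (nat_lit 78) (nat_lit 0) (nat_lit 0) (XT.lf (nat_lit 0) (nat_lit 9129977030) (nat_lit 152) (nat_lit 85052206856) (nat_lit 228) (nat_lit 28019272145) (nat_lit 49) (nat_lit 5) (nat_lit 51) (nat_lit 5) (nat_lit 52) (nat_lit 5) (nat_lit 384) (nat_lit 350) (nat_lit 166)) (XT.lf (nat_lit 0) (nat_lit 76542715187) (nat_lit 152) (nat_lit 44927751593) (nat_lit 228) (nat_lit 4697356213) (nat_lit 49) (nat_lit 5) (nat_lit 51) (nat_lit 5) (nat_lit 52) (nat_lit 5) (nat_lit 385) (nat_lit 350) (nat_lit 165)))) (XT.nd (nat_lit 78) (nat_lit 152) (nat_lit 0) (XT.lf (nat_lit 0) (nat_lit 17235445624) (nat_lit 228) (nat_lit 2190361900) (nat_lit 304) (nat_lit 110877822875) (nat_lit 45) (nat_lit 5) (nat_lit 48) (nat_lit 5) (nat_lit 49) (nat_lit 5) (nat_lit 386) (nat_lit 350) (nat_lit 164)) (XT.nd (nat_lit 78) (nat_lit 152) (nat_lit 0) (XT.lf (nat_lit 0) (nat_lit 46117376591) (nat_lit 304)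 (nat_lit 46200306190) (nat_lit 76) (nat_lit 42248689939) (nat_lit 45) (nat_lit 5) (nat_lit 49) (nat_lit 5) (nat_lit 46) (nat_lit 5) (nat_lit 387) (nat_lit 350) (nat_lit 163)) (XT.lf (nat_lit 0) (nat_lit 24766996230) (nat_lit 152) (nat_lit 49798633082) (nat_lit 228) (nat_lit 64455517863) (nat_lit 43) (nat_lit 5) (nat_lit 45) (nat_lit 5) (nat_lit 46) (nat_lit 5) (nat_lit 388) (nat_lit 350) (nat_lit 162))))))))
noncomputable def xc215 : XT := (XT.nd (nat_lit 1872) (nat_lit 532) (nat_lit 0) (XT.nd (nat_lit 936) (nat_lit 760) (nat_lit 0) (XT.nd (nat_lit 468) (nat_lit 380) (nat_lit 0) (XT.nd (nat_lit 234) (nat_lit 304) (nat_lit 0) (XT.nd (nat_lit 78) (nat_lit 228) (nat_lit 0) (XT.lf (nat_lit 0) (nat_lit 100885885282) (nat_lit 152) (nat_lit 4332360722) (nat_lit 228) (nat_lit 38441317047) (nat_lit 43) (nat_lit 5) (nat_lit 45) (nat_lit 5) (nat_lit 46) (nat_lit 5) (nat_lit 389) (nat_lit 350) (nat_lit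 161)) (XT.nd (nat_lit 78) (nat_lit 76) (nat_lit 0) (XT.lf (nat_lit 0) (nat_lit 32647296164) (nat_lit 152) (nat_lit 105943166820) (nat_lit 228) (nat_lit 9880088518) (nat_lit 41) (nat_lit 5) (nat_lit 43) (nat_lit 5) (nat_lit 44) (nat_lit 5) (nat_lit 390) (nat_lit 350) (nat_lit 160)) (XT.lf (nat_lit 0) (nat_lit 20272420064) (nat_lit 228) (nat_lit 40559139211) (nat_lit 76) (nat_lit 92634490344) (nat_lit 40) (nat_lit 5) (nat_lit 43) (nat_lit 5) (nat_lit 41) (nat_lit 5) (nat_lit 391) (nat_lit 350) (nat_lit 159)))) (XT.nd (nat_lit 78) (nat_lit 152) (nat_lit 0) (XT.lf (nat_lit 0) (nat_lit 39572067152) (nat_lit 152) (nat_lit 12645851676) (nat_lit 228) (nat_lit 106454435575) (nat_lit 38) (nat_lit 5) (nat_lit 40) (nat_lit 5) (nat_lit 41) (nat_lit 5) (nat_lit 392) (nat_lit 350) (nat_lit 158)) (XT.nd (nat_lit 78) (nat_lit 152) (nat_lit 0) (XT.lf (nat_lit 0) (nat_lit 87050909291) (nat_lit 228) (nat_lit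 39591133291) (nat_lit 76) (nat_lit 37432421213) (nat_lit 38) (nat_lit 5) (nat_lit 41) (nat_lit 5) (nat_lit 39) (nat_lit 5) (nat_lit 393) (nat_lit 350) (nat_lit 157)) (XT.lf (nat_lit 0) (nat_lit 45129936818) (nat_lit 152) (nat_lit 79407121714) (nat_lit 228) (nat_lit 45164044859) (nat_lit 36) (nat_lit 5) (nat_lit 38) (nat_lit 5) (nat_lit 39) (nat_lit 5) (nat_lit 394) (nat_lit 350) (nat_lit 156))))) (XT.nd (nat_lit 234) (nat_lit 228) (nat_lit 0) (XT.nd (nat_lit 78) (nat_lit 152) (nat_lit 0) (XT.lf (nat_lit 0) (nat_lit 135460913699) (nat_lit 152) (nat_lit 29106700896) (nat_lit 228) (nat_lit 11007955591) (nat_lit 36) (nat_lit 5) (nat_lit 38) (nat_lit 5) (nat_lit 39) (nat_lit 5) (nat_lit 395) (nat_lit 350) (nat_lit 155)) (XT.nd (nat_lit 78) (nat_lit 0) (nat_lit 0) (XT.lf (nat_lit 0) (nat_lit 25226297318) (nat_lit 152) (nat_lit 132305899991) (nat_lit 76) (nat_lit 24133864421) (nat_lit 34) (nat_lit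 5) (nat_lit 36) (nat_lit 5) (nat_lit 35) (nat_lit 5) (nat_lit 396) (nat_lit 350) (nat_lit 154)) (XT.lf (nat_lit 0) (nat_lit 64069601798) (nat_lit 152) (nat_lit 43995100342) (nat_lit 76) (nat_lit 79928989037) (nat_lit 34) (nat_lit 5) (nat_lit 36) (nat_lit 5) (nat_lit 35) (nat_lit 5) (nat_lit 397) (nat_lit 350) (nat_lit 153)))) (XT.nd (nat_lit 78) (nat_lit 76) (nat_lit 0) (XT.lf (nat_lit 0) (nat_lit 50341877244) (nat_lit 152) (nat_lit 55298811279) (nat_lit 228) (nat_lit 88957732877) (nat_lit 32) (nat_lit 5) (nat_lit 34) (nat_lit 5) (nat_lit 35) (nat_lit 5) (nat_lit 398) (nat_lit 350) (nat_lit 152)) (XT.nd (nat_lit 78) (nat_lit 76) (nat_lit 0) (XT.lf (nat_lit 0) (nat_lit 150048910470) (nat_lit 228) (nat_lit 50587499958) (nat_lit 76) (nat_lit 859048810) (nat_lit 32) (nat_lit 5) (nat_lit 35) (nat_lit 5) (nat_lit 33) (nat_lit 4) (nat_lit 399) (nat_lit 350) (nat_lit 151)) (XT.lf (nat_lit 0) (nat_lit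 48407200419) (nat_lit 76) (nat_lit 149932313031) (nat_lit 152) (nat_lit 10314737161) (nat_lit 31) (nat_lit 5) (nat_lit 32) (nat_lit 5) (nat_lit 33) (nat_lit 4) (nat_lit 400) (nat_lit 350) (nat_lit 150)))))) (XT.nd (nat_lit 468) (nat_lit 228) (nat_lit 0) (XT.nd (nat_lit 234) (nat_lit 304) (nat_lit 0) (XT.nd (nat_lit 78) (nat_lit 152) (nat_lit 0) (XT.lf (nat_lit 0) (nat_lit 32691932402) (nat_lit 152) (nat_lit 62548113123) (nat_lit 76) (nat_lit 120861752155) (nat_lit 30) (nat_lit 5) (nat_lit 32) (nat_lit 5) (nat_lit 31) (nat_lit 5) (nat_lit 401) (nat_lit 350) (nat_lit 149)) (XT.nd (nat_lit 78) (nat_lit 0) (nat_lit 0) (XT.lf (nat_lit 0) (nat_lit 41184266032) (nat_lit 152) (nat_lit 36960706052) (nat_lit 228) (nat_lit 145736161465) (nat_lit 28) (nat_lit 5) (nat_lit 30) (nat_lit 5) (nat_lit 31) (nat_lit 5) (nat_lit 402) (nat_lit 350) (nat_lit 148)) (XT.lf (nat_lit 0) (nat_lit 127325330977) (nat_lit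 228) (nat_lit 80117950266) (nat_lit 76) (nat_lit 24533421723) (nat_lit 28) (nat_lit 5) (nat_lit 31) (nat_lit 5) (nat_lit 29) (nat_lit 4) (nat_lit 403) (nat_lit 350) (nat_lit 147)))) (XT.nd (nat_lit 78) (nat_lit 228) (nat_lit 0) (XT.lf (nat_lit 0) (nat_lit 27875654192) (nat_lit 76) (nat_lit 152129879702) (nat_lit 152) (nat_lit 60419475765) (nat_lit 27) (nat_lit 5) (nat_lit 28) (nat_lit 5) (nat_lit 29) (nat_lit 4) (nat_lit 404) (nat_lit 350) (nat_lit 146)) (XT.nd (nat_lit 78) (nat_lit 228) (nat_lit 0) (XT.lf (nat_lit 0) (nat_lit 144049921452) (nat_lit 76) (nat_lit 92626363730) (nat_lit 152) (nat_lit 12551619700) (nat_lit 27) (nat_lit 5) (nat_lit 28) (nat_lit 5) (nat_lit 29) (nat_lit 4) (nat_lit 405) (nat_lit 350) (nat_lit 145)) (XT.lf (nat_lit 0) (nat_lit 7203236716) (nat_lit 152) (nat_lit 29411622940) (nat_lit 228) (nat_lit 221821038948) (nat_lit 24) (nat_lit 5) (nat_lit 26) (nat_lit 5)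 (nat_lit 27) (nat_lit 5) (nat_lit 406) (nat_lit 350) (nat_lit 144))))) (XT.nd (nat_lit 234) (nat_lit 152) (nat_lit 0) (XT.nd (nat_lit 78) (nat_lit 76) (nat_lit 0) (XT.lf (nat_lit 0) (nat_lit 90205110031) (nat_lit 228) (nat_lit 139972762788) (nat_lit 76) (nat_lit 37796767882) (nat_lit 24) (nat_lit 5) (nat_lit 27) (nat_lit 5) (nat_lit 25) (nat_lit 4) (nat_lit 407) (nat_lit 350) (nat_lit 143)) (XT.nd (nat_lit 78) (nat_lit 76) (nat_lit 0) (XT.lf (nat_lit 0) (nat_lit 146956758025) (nat_lit 228) (nat_lit 23632520251) (nat_lit 76) (nat_lit 107376947459) (nat_lit 24) (nat_lit 5) (nat_lit 27) (nat_lit 5) (nat_lit 25) (nat_lit 4) (nat_lit 408) (nat_lit 350) (nat_lit 142)) (XT.lf (nat_lit 0) (nat_lit 101781921280) (nat_lit 76) (nat_lit 106352908502) (nat_lit 152) (nat_lit 80243118252) (nat_lit 23) (nat_lit 5) (nat_lit 24) (nat_lit 5) (nat_lit 25) (nat_lit 4) (nat_lit 409) (nat_lit 350) (nat_lit 141))))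 (XT.nd (nat_lit 78) (nat_lit 152) (nat_lit 0) (XT.lf (nat_lit 0) (nat_lit 234287089959) (nat_lit 76) (nat_lit 38484688805) (nat_lit 152) (nat_lit 26518479079) (nat_lit 23) (nat_lit 5) (nat_lit 24) (nat_lit 5) (nat_lit 25) (nat_lit 4) (nat_lit 410) (nat_lit 350) (nat_lit 140)) (XT.nd (nat_lit 78) (nat_lit 0) (nat_lit 0) (XT.lf (nat_lit 0) (nat_lit 30474497901) (nat_lit 152) (nat_lit 246951665758) (nat_lit 76) (nat_lit 33221741901) (nat_lit 21) (nat_lit 5) (nat_lit 23) (nat_lit 5) (nat_lit 22) (nat_lit 4) (nat_lit 411) (nat_lit 350) (nat_lit 139)) (XT.lf (nat_lit 0) (nat_lit 91175487732) (nat_lit 152) (nat_lit 122515134808) (nat_lit 76) (nat_lit 108773598793) (nat_lit 21) (nat_lit 5) (nat_lit 23) (nat_lit 5) (nat_lit 22) (nat_lit 4) (nat_lit 412) (nat_lit 350) (nat_lit 138))))))) (XT.nd (nat_lit 936) (nat_lit 0) (nat_lit 0) (XT.nd (nat_lit 468) (nat_lit 304) (nat_lit 0) (XT.nd (nat_lit 234)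 (nat_lit 152) (nat_lit 0) (XT.nd (nat_lit 78) (nat_lit 0) (nat_lit 0) (XT.lf (nat_lit 0) (nat_lit 8412031033) (nat_lit 76) (nat_lit 146630598320) (nat_lit 152) (nat_lit 179822168491) (nat_lit 20) (nat_lit 5) (nat_lit 21) (nat_lit 5) (nat_lit 22) (nat_lit 4) (nat_lit 413) (nat_lit 350) (nat_lit 137)) (XT.nd (nat_lit 78) (nat_lit 0) (nat_lit 0) (XT.lf (nat_lit 0) (nat_lit 150138581740) (nat_lit 76) (nat_lit 74039170829) (nat_lit 152) (nat_lit 123603919447) (nat_lit 20) (nat_lit 5) (nat_lit 21) (nat_lit 5) (nat_lit 22) (nat_lit 4) (nat_lit 414) (nat_lit 350) (nat_lit 136)) (XT.lf (nat_lit 0) (nat_lit 296803475826) (nat_lit 152) (nat_lit 62427404580) (nat_lit 0) (nat_lit 2111817354) (nat_lit 20) (nat_lit 5) (nat_lit 22) (nat_lit 4) (nat_lit 20) (nat_lit 4) (nat_lit 415) (nat_lit 350) (nat_lit 135)))) (XT.nd (nat_lit 78) (nat_lit 0) (nat_lit 0) (XT.lf (nat_lit 0) (nat_lit 77027432) (nat_lit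 152) (nat_lit 294534142592) (nat_lit 76) (nat_lit 80846692043) (nat_lit 18) (nat_lit 5) (nat_lit 20) (nat_lit 5) (nat_lit 19) (nat_lit 4) (nat_lit 416) (nat_lit 350) (nat_lit 134)) (XT.nd (nat_lit 78) (nat_lit 0) (nat_lit 0) (XT.lf (nat_lit 0) (nat_lit 66829508787) (nat_lit 152) (nat_lit 157691927581) (nat_lit 76) (nat_lit 165650729239) (nat_lit 18) (nat_lit 5) (nat_lit 20) (nat_lit 5) (nat_lit 19) (nat_lit 4) (nat_lit 417) (nat_lit 350) (nat_lit 133)) (XT.lf (nat_lit 0) (nat_lit 136919414691) (nat_lit 152) (nat_lit 14007974543) (nat_lit 76) (nat_lit 254694805116) (nat_lit 18) (nat_lit 5) (nat_lit 20) (nat_lit 5) (nat_lit 19) (nat_lit 4) (nat_lit 418) (nat_lit 350) (nat_lit 132))))) (XT.nd (nat_lit 234) (nat_lit 152) (nat_lit 0) (XT.nd (nat_lit 78) (nat_lit 76) (nat_lit 0) (XT.lf (nat_lit 0) (nat_lit 141385024939) (nat_lit 76) (nat_lit 71336017404) (nat_lit 152) (nat_lit 209013320909) (nat_lit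 17) (nat_lit 5) (nat_lit 18) (nat_lit 5) (nat_lit 19) (nat_lit 4) (nat_lit 419) (nat_lit 350) (nat_lit 131)) (XT.nd (nat_lit 78) (nat_lit 76) (nat_lit 0) (XT.lf (nat_lit 0) (nat_lit 292744704724) (nat_lit 152) (nat_lit 133801545922) (nat_lit 0) (nat_lit 12084292331) (nat_lit 17) (nat_lit 5) (nat_lit 19) (nat_lit 4) (nat_lit 17) (nat_lit 4) (nat_lit 420) (nat_lit 350) (nat_lit 130)) (XT.lf (nat_lit 0) (nat_lit 19528900854) (nat_lit 76) (nat_lit 358714813183) (nat_lit 76) (nat_lit 78054109500) (nat_lit 16) (nat_lit 4) (nat_lit 17) (nat_lit 5) (nat_lit 17) (nat_lit 4) (nat_lit 421) (nat_lit 350) (nat_lit 129)))) (XT.nd (nat_lit 78) (nat_lit 152) (nat_lit 0) (XT.lf (nat_lit 0) (nat_lit 185170823867) (nat_lit 76) (nat_lit 285112667267) (nat_lit 76) (nat_lit 4451686165) (nat_lit 16) (nat_lit 4) (nat_lit 17) (nat_lit 5) (nat_lit 17) (nat_lit 4) (nat_lit 422) (nat_lit 350) (nat_lit 128)) (XT.nd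 (nat_lit 78) (nat_lit 76) (nat_lit 0) (XT.lf (nat_lit 0) (nat_lit 70499645042) (nat_lit 152) (nat_lit 136136972973) (nat_lit 76) (nat_lit 287400934630) (nat_lit 15) (nat_lit 5) (nat_lit 17) (nat_lit 5) (nat_lit 16) (nat_lit 4) (nat_lit 423) (nat_lit 350) (nat_lit 127)) (XT.lf (nat_lit 0) (nat_lit 25711415882) (nat_lit 76) (nat_lit 123738785493) (nat_lit 152) (nat_lit 364831133273) (nat_lit 14) (nat_lit 5) (nat_lit 15) (nat_lit 5) (nat_lit 16) (nat_lit 4) (nat_lit 424) (nat_lit 350) (nat_lit 126)))))) (XT.nd (nat_lit 41418) (nat_lit 0) (nat_lit 6688) (XT.nd (nat_lit 41184) (nat_lit 0) (nat_lit 6536) (XT.nd (nat_lit 78) (nat_lit 0) (nat_lit 0) (XT.lf (nat_lit 0) (nat_lit 200378289400) (nat_lit 76) (nat_lit 34275381811) (nat_lit 152) (nat_lit 300768365289) (nat_lit 14) (nat_lit 5) (nat_lit 15) (nat_lit 5) (nat_lit 16) (nat_lit 4) (nat_lit 425) (nat_lit 350) (nat_lit 125)) (XT.nd (nat_lit 41028)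 (nat_lit 0) (nat_lit 6536) (XT.lf (nat_lit 0) (nat_lit 325048638604) (nat_lit 152) (nat_lit 174773039413) (nat_lit 0) (nat_lit 57751529254) (nat_lit 14) (nat_lit 5) (nat_lit 16) (nat_lit 4) (nat_lit 14) (nat_lit 4) (nat_lit 426) (nat_lit 350) (nat_lit 124)) (XT.lf (nat_lit 0) (nat_lit 2497324009) (nat_lit 836) (nat_lit 11023233320) (nat_lit 836) (nat_lit 11023233320) (nat_lit 100) (nat_lit 3) (nat_lit 111) (nat_lit 3) (nat_lit 111) (nat_lit 5) (nat_lit 351) (nat_lit 351) (nat_lit 198)))) (XT.nd (nat_lit 78) (nat_lit 0) (nat_lit 76) (XT.lf (nat_lit 76) (nat_lit 1216011421) (nat_lit 0) (nat_lit 3948761819) (nat_lit 836) (nat_lit 45147706906) (nat_lit 101) (nat_lit 5) (nat_lit 100) (nat_lit 3) (nat_lit 111) (nat_lit 5) (nat_lit 352) (nat_lit 351) (nat_lit 197)) (XT.nd (nat_lit 78) (nat_lit 0) (nat_lit 0) (XT.lf (nat_lit 0) (nat_lit 6038121132) (nat_lit 760) (nat_lit 25496983218) (nat_lit 836)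 (nat_lit 20028785539) (nat_lit 101) (nat_lit 5) (nat_lit 111) (nat_lit 5) (nat_lit 112) (nat_lit 5) (nat_lit 353) (nat_lit 351) (nat_lit 196)) (XT.lf (nat_lit 0) (nat_lit 7018266529) (nat_lit 760) (nat_lit 783220937) (nat_lit 836) (nat_lit 45073227839) (nat_lit 101) (nat_lit 5) (nat_lit 111) (nat_lit 5) (nat_lit 112) (nat_lit 5) (nat_lit 354) (nat_lit 351) (nat_lit 195))))) (XT.nd (nat_lit 234) (nat_lit 0) (nat_lit 76) (XT.nd (nat_lit 78) (nat_lit 0) (nat_lit 0) (XT.lf (nat_lit 0) (nat_lit 8725720085) (nat_lit 760) (nat_lit 28507410951) (nat_lit 836) (nat_lit 16984037522) (nat_lit 102) (nat_lit 5) (nat_lit 112) (nat_lit 5) (nat_lit 113) (nat_lit 5) (nat_lit 355) (nat_lit 351) (nat_lit 194)) (XT.nd (nat_lit 78) (nat_lit 0) (nat_lit 76) (XT.lf (nat_lit 0) (nat_lit 10658461368) (nat_lit 760) (nat_lit 2200602011) (nat_lit 836) (nat_lit 42760686876) (nat_lit 102) (nat_lit 5) (nat_lit 112) (nat_lit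 5) (nat_lit 113) (nat_lit 5) (nat_lit 356) (nat_lit 351) (nat_lit 193)) (XT.lf (nat_lit 0) (nat_lit 13301996540) (nat_lit 760) (nat_lit 31016441245) (nat_lit 836) (nat_lit 12743316871) (nat_lit 103) (nat_lit 5) (nat_lit 113) (nat_lit 5) (nat_lit 114) (nat_lit 5) (nat_lit 357) (nat_lit 351) (nat_lit 192)))) (XT.nd (nat_lit 78) (nat_lit 0) (nat_lit 76) (XT.lf (nat_lit 0) (nat_lit 16325059893) (nat_lit 760) (nat_lit 3006486038) (nat_lit 836) (nat_lit 39231947166) (nat_lit 103) (nat_lit 5) (nat_lit 113) (nat_lit 5) (nat_lit 114) (nat_lit 5) (nat_lit 358) (nat_lit 351) (nat_lit 191)) (XT.nd (nat_lit 78) (nat_lit 0) (nat_lit 0) (XT.lf (nat_lit 0) (nat_lit 20038650567) (nat_lit 760) (nat_lit 32957860212) (nat_lit 836) (nat_lit 7116840299) (nat_lit 104) (nat_lit 5) (nat_lit 114) (nat_lit 5) (nat_lit 115) (nat_lit 5) (nat_lit 359) (nat_lit 351) (nat_lit 190)) (XT.lf (nat_lit 0) (nat_lit 24305363938)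 (nat_lit 760) (nat_lit 3126959775) (nat_lit 836) (nat_lit 34290007346) (nat_lit 104) (nat_lit 5) (nat_lit 114) (nat_lit 5) (nat_lit 115) (nat_lit 5) (nat_lit 360) (nat_lit 351) (nat_lit 189))))))))
noncomputable def xc216 : XT := (XT.nd (nat_lit 1794) (nat_lit 2052) (nat_lit 0) (XT.nd (nat_lit 858) (nat_lit 1900) (nat_lit 0) (XT.nd (nat_lit 390) (nat_lit 1064) (nat_lit 0) (XT.nd (nat_lit 156) (nat_lit 1064) (nat_lit 0) (XT.nd (nat_lit 78) (nat_lit 0) (nat_lit 76) (XT.lf (nat_lit 76) (nat_lit 29126768586) (nat_lit 0) (nat_lit 112234484) (nat_lit 836) (nat_lit 34150078668) (nat_lit 105) (nat_lit 5) (nat_lit 104) (nat_lit 5) (nat_lit 115) (nat_lit 5) (nat_lit 361) (nat_lit 351) (nat_lit 188)) (XT.lf (nat_lit 0) (nat_lit 34918149886) (nat_lit 760) (nat_lit 2482764056) (nat_lit 76) (nat_lit 27713315868) (nat_lit 105) (nat_lit 5) (nat_lit 115) (nat_lit 5) (nat_lit 106) (nat_lit 5) (nat_lit 362)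 (nat_lit 351) (nat_lit 187))) (XT.nd (nat_lit 78) (nat_lit 380) (nat_lit 0) (XT.lf (nat_lit 0) (nat_lit 31904100554) (nat_lit 760) (nat_lit 9476041998) (nat_lit 836) (nat_lit 25520549396) (nat_lit 95) (nat_lit 5) (nat_lit 105) (nat_lit 5) (nat_lit 106) (nat_lit 5) (nat_lit 363) (nat_lit 351) (nat_lit 186)) (XT.nd (nat_lit 78) (nat_lit 380) (nat_lit 0) (XT.lf (nat_lit 0) (nat_lit 48516781791) (nat_lit 836) (nat_lit 989387977) (nat_lit 76) (nat_lit 19252731116) (nat_lit 95) (nat_lit 5) (nat_lit 106) (nat_lit 5) (nat_lit 96) (nat_lit 5) (nat_lit 364) (nat_lit 351) (nat_lit 185)) (XT.lf (nat_lit 0) (nat_lit 35704658939) (nat_lit 380) (nat_lit 21017411289) (nat_lit 456) (nat_lit 13952360168) (nat_lit 90) (nat_lit 5) (nat_lit 95) (nat_lit 5) (nat_lit 96) (nat_lit 5) (nat_lit 365) (nat_lit 351) (nat_lit 184))))) (XT.nd (nat_lit 234) (nat_lit 304) (nat_lit 0) (XT.nd (nat_lit 78) (nat_lit 456) (nat_lit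 0) (XT.lf (nat_lit 0) (nat_lit 1490421870) (nat_lit 304) (nat_lit 64025444276) (nat_lit 380) (nat_lit 7160959025) (nat_lit 86) (nat_lit 5) (nat_lit 90) (nat_lit 5) (nat_lit 91) (nat_lit 5) (nat_lit 366) (nat_lit 351) (nat_lit 183)) (XT.nd (nat_lit 78) (nat_lit 380) (nat_lit 0) (XT.lf (nat_lit 0) (nat_lit 916527328) (nat_lit 380) (nat_lit 34116812961) (nat_lit 76) (nat_lit 39698745889) (nat_lit 85) (nat_lit 5) (nat_lit 90) (nat_lit 5) (nat_lit 86) (nat_lit 5) (nat_lit 367) (nat_lit 351) (nat_lit 182)) (XT.lf (nat_lit 0) (nat_lit 4842922240) (nat_lit 380) (nat_lit 4389035445) (nat_lit 456) (nat_lit 67648547486) (nat_lit 80) (nat_lit 5) (nat_lit 85) (nat_lit 5) (nat_lit 86) (nat_lit 5) (nat_lit 368) (nat_lit 351) (nat_lit 181)))) (XT.nd (nat_lit 78) (nat_lit 304) (nat_lit 0) (XT.lf (nat_lit 0) (nat_lit 18983396548) (nat_lit 456) (nat_lit 32616638354) (nat_lit 76) (nat_lit 27485299134) (nat_lit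 80) (nat_lit 5) (nat_lit 86) (nat_lit 5) (nat_lit 81) (nat_lit 5) (nat_lit 369) (nat_lit 351) (nat_lit 180)) (XT.nd (nat_lit 78) (nat_lit 0) (nat_lit 0) (XT.lf (nat_lit 0) (nat_lit 8990218522) (nat_lit 304) (nat_lit 20443683559) (nat_lit 380) (nat_lit 51955928266) (nat_lit 76) (nat_lit 5) (nat_lit 80) (nat_lit 5) (nat_lit 81) (nat_lit 5) (nat_lit 370) (nat_lit 351) (nat_lit 179)) (XT.lf (nat_lit 0) (nat_lit 41159147259) (nat_lit 380) (nat_lit 30173720631) (nat_lit 76) (nat_lit 12439073568) (nat_lit 76) (nat_lit 5) (nat_lit 81) (nat_lit 5) (nat_lit 77) (nat_lit 5) (nat_lit 371) (nat_lit 351) (nat_lit 178)))))) (XT.nd (nat_lit 468) (nat_lit 988) (nat_lit 0) (XT.nd (nat_lit 234) (nat_lit 380) (nat_lit 0) (XT.nd (nat_lit 78) (nat_lit 228) (nat_lit 0) (XT.lf (nat_lit 0) (nat_lit 14284614588) (nat_lit 304) (nat_lit 39743447005) (nat_lit 380) (nat_lit 32217226854) (nat_lit 72) (nat_lit 5) (nat_lit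 76) (nat_lit 5) (nat_lit 77) (nat_lit 5) (nat_lit 372) (nat_lit 351) (nat_lit 177)) (XT.nd (nat_lit 78) (nat_lit 228) (nat_lit 0) (XT.lf (nat_lit 0) (nat_lit 62012539554) (nat_lit 304) (nat_lit 6038152537) (nat_lit 380) (nat_lit 20766097811) (nat_lit 72) (nat_lit 5) (nat_lit 76) (nat_lit 5) (nat_lit 77) (nat_lit 5) (nat_lit 373) (nat_lit 351) (nat_lit 176)) (XT.lf (nat_lit 0) (nat_lit 20817117348) (nat_lit 228) (nat_lit 62739920280) (nat_lit 304) (nat_lit 7920700231) (nat_lit 69) (nat_lit 5) (nat_lit 72) (nat_lit 5) (nat_lit 73) (nat_lit 5) (nat_lit 374) (nat_lit 351) (nat_lit 175)))) (XT.nd (nat_lit 78) (nat_lit 304) (nat_lit 0) (XT.lf (nat_lit 0) (nat_lit 5948465088) (nat_lit 304) (nat_lit 22693134088) (nat_lit 76) (nat_lit 65597805013) (nat_lit 68) (nat_lit 5) (nat_lit 72) (nat_lit 5) (nat_lit 69) (nat_lit 5) (nat_lit 375) (nat_lit 351) (nat_lit 174)) (XT.nd (nat_lit 78) (nat_lit 0)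 (nat_lit 0) (XT.lf (nat_lit 0) (nat_lit 20809686829) (nat_lit 380) (nat_lit 68779010441) (nat_lit 76) (nat_lit 7515725432) (nat_lit 64) (nat_lit 5) (nat_lit 69) (nat_lit 5) (nat_lit 65) (nat_lit 5) (nat_lit 376) (nat_lit 351) (nat_lit 173)) (XT.lf (nat_lit 0) (nat_lit 37273477041) (nat_lit 380) (nat_lit 17887434943) (nat_lit 76) (nat_lit 44908805286) (nat_lit 64) (nat_lit 5) (nat_lit 69) (nat_lit 5) (nat_lit 65) (nat_lit 5) (nat_lit 377) (nat_lit 351) (nat_lit 172))))) (XT.nd (nat_lit 234) (nat_lit 532) (nat_lit 0) (XT.nd (nat_lit 78) (nat_lit 228) (nat_lit 0) (XT.lf (nat_lit 0) (nat_lit 36723270138) (nat_lit 228) (nat_lit 18409924029) (nat_lit 304) (nat_lit 48021446005) (nat_lit 61) (nat_lit 5) (nat_lit 64) (nat_lit 5) (nat_lit 65) (nat_lit 5) (nat_lit 378) (nat_lit 351) (nat_lit 171)) (XT.nd (nat_lit 78) (nat_lit 228) (nat_lit 0) (XT.lf (nat_lit 0) (nat_lit 74508237950) (nat_lit 304)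 (nat_lit 12013988603) (nat_lit 76) (nat_lit 19840466079) (nat_lit 61) (nat_lit 5) (nat_lit 65) (nat_lit 5) (nat_lit 62) (nat_lit 5) (nat_lit 379) (nat_lit 351) (nat_lit 170)) (XT.lf (nat_lit 0) (nat_lit 46303669298) (nat_lit 228) (nat_lit 49572523010) (nat_lit 304) (nat_lit 13803747919) (nat_lit 58) (nat_lit 5) (nat_lit 61) (nat_lit 5) (nat_lit 62) (nat_lit 5) (nat_lit 380) (nat_lit 351) (nat_lit 169)))) (XT.nd (nat_lit 78) (nat_lit 456) (nat_lit 0) (XT.lf (nat_lit 0) (nat_lit 5190908201) (nat_lit 304) (nat_lit 5283105384) (nat_lit 76) (nat_lit 102674705605) (nat_lit 57) (nat_lit 5) (nat_lit 61) (nat_lit 5) (nat_lit 58) (nat_lit 5) (nat_lit 381) (nat_lit 351) (nat_lit 168)) (XT.nd (nat_lit 78) (nat_lit 228) (nat_lit 0) (XT.lf (nat_lit 0) (nat_lit 26061630027) (nat_lit 304) (nat_lit 59908375063) (nat_lit 76) (nat_lit 30740106370) (nat_lit 54) (nat_lit 5) (nat_lit 58) (nat_lit 5) (nat_lit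 55) (nat_lit 5) (nat_lit 382) (nat_lit 351) (nat_lit 167)) (XT.lf (nat_lit 0) (nat_lit 1606611663) (nat_lit 228) (nat_lit 46656473203) (nat_lit 304) (nat_lit 72172128987) (nat_lit 51) (nat_lit 5) (nat_lit 54) (nat_lit 5) (nat_lit 55) (nat_lit 5) (nat_lit 383) (nat_lit 351) (nat_lit 166))))))) (XT.nd (nat_lit 936) (nat_lit 912) (nat_lit 0) (XT.nd (nat_lit 468) (nat_lit 532) (nat_lit 0) (XT.nd (nat_lit 234) (nat_lit 456) (nat_lit 0) (XT.nd (nat_lit 78) (nat_lit 152) (nat_lit 0) (XT.lf (nat_lit 0) (nat_lit 68276467689) (nat_lit 228) (nat_lit 4312204797) (nat_lit 304) (nat_lit 51707196216) (nat_lit 51) (nat_lit 5) (nat_lit 54) (nat_lit 5) (nat_lit 55) (nat_lit 5) (nat_lit 384) (nat_lit 351) (nat_lit 165)) (XT.nd (nat_lit 78) (nat_lit 0) (nat_lit 0) (XT.lf (nat_lit 0) (nat_lit 9610257262) (nat_lit 152) (nat_lit 89296671695) (nat_lit 228) (nat_lit 29403808184) (nat_lit 49) (nat_lit 5) (nat_lit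 51) (nat_lit 5) (nat_lit 52) (nat_lit 5) (nat_lit 385) (nat_lit 351) (nat_lit 164)) (XT.lf (nat_lit 0) (nat_lit 80392499880) (nat_lit 152) (nat_lit 47166381549) (nat_lit 228) (nat_lit 4916578720) (nat_lit 49) (nat_lit 5) (nat_lit 51) (nat_lit 5) (nat_lit 52) (nat_lit 5) (nat_lit 386) (nat_lit 351) (nat_lit 163)))) (XT.nd (nat_lit 78) (nat_lit 152) (nat_lit 0) (XT.lf (nat_lit 0) (nat_lit 18120003038) (nat_lit 228) (nat_lit 2291873988) (nat_lit 304) (nat_lit 116406187385) (nat_lit 45) (nat_lit 5) (nat_lit 48) (nat_lit 5) (nat_lit 49) (nat_lit 5) (nat_lit 387) (nat_lit 351) (nat_lit 162)) (XT.nd (nat_lit 78) (nat_lit 152) (nat_lit 0) (XT.lf (nat_lit 0) (nat_lit 48437439823) (nat_lit 304) (nat_lit 48488028505) (nat_lit 76) (nat_lit 44368505164) (nat_lit 45) (nat_lit 5) (nat_lit 49) (nat_lit 5) (nat_lit 46) (nat_lit 5) (nat_lit 388) (nat_lit 351) (nat_lit 161)) (XT.lf (nat_lit 0) (nat_lit 26027279472)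 (nat_lit 152) (nat_lit 52280492227) (nat_lit 228) (nat_lit 67663732033) (nat_lit 43) (nat_lit 5) (nat_lit 45) (nat_lit 5) (nat_lit 46) (nat_lit 5) (nat_lit 389) (nat_lit 351) (nat_lit 160))))) (XT.nd (nat_lit 234) (nat_lit 304) (nat_lit 0) (XT.nd (nat_lit 78) (nat_lit 228) (nat_lit 0) (XT.lf (nat_lit 0) (nat_lit 105951068528) (nat_lit 152) (nat_lit 4541290655) (nat_lit 228) (nat_lit 40349514591) (nat_lit 43) (nat_lit 5) (nat_lit 45) (nat_lit 5) (nat_lit 46) (nat_lit 5) (nat_lit 390) (nat_lit 351) (nat_lit 159)) (XT.nd (nat_lit 78) (nat_lit 76) (nat_lit 0) (XT.lf (nat_lit 0) (nat_lit 34300751603) (nat_lit 152) (nat_lit 111232250394) (nat_lit 228) (nat_lit 10360419250) (nat_lit 41) (nat_lit 5) (nat_lit 43) (nat_lit 5) (nat_lit 44) (nat_lit 5) (nat_lit 391) (nat_lit 351) (nat_lit 158)) (XT.lf (nat_lit 0) (nat_lit 21298646829) (nat_lit 228) (nat_lit 42566586672) (nat_lit 76) (nat_lit 97273481930)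 (nat_lit 40) (nat_lit 5) (nat_lit 43) (nat_lit 5) (nat_lit 41) (nat_lit 5) (nat_lit 392) (nat_lit 351) (nat_lit 157)))) (XT.nd (nat_lit 78) (nat_lit 152) (nat_lit 0) (XT.lf (nat_lit 0) (nat_lit 41570849211) (nat_lit 152) (nat_lit 13270286092) (nat_lit 228) (nat_lit 111764214716) (nat_lit 38) (nat_lit 5) (nat_lit 40) (nat_lit 5) (nat_lit 41) (nat_lit 5) (nat_lit 393) (nat_lit 351) (nat_lit 156)) (XT.nd (nat_lit 78) (nat_lit 152) (nat_lit 0) (XT.lf (nat_lit 0) (nat_lit 91415305442) (nat_lit 228) (nat_lit 41550996510) (nat_lit 76) (nat_lit 39311286710) (nat_lit 38) (nat_lit 5) (nat_lit 41) (nat_lit 5) (nat_lit 39) (nat_lit 5) (nat_lit 394) (nat_lit 351) (nat_lit 155)) (XT.lf (nat_lit 0) (nat_lit 47405809468) (nat_lit 152) (nat_lit 83369690870) (nat_lit 228) (nat_lit 47410073266) (nat_lit 36) (nat_lit 5) (nat_lit 38) (nat_lit 5) (nat_lit 39) (nat_lit 5) (nat_lit 395) (nat_lit 351) (nat_lit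 154)))))) (XT.nd (nat_lit 468) (nat_lit 532) (nat_lit 0) (XT.nd (nat_lit 234) (nat_lit 228) (nat_lit 0) (XT.nd (nat_lit 78) (nat_lit 152) (nat_lit 0) (XT.lf (nat_lit 0) (nat_lit 142252412536) (nat_lit 152) (nat_lit 30554619818) (nat_lit 228) (nat_lit 11546759242) (nat_lit 36) (nat_lit 5) (nat_lit 38) (nat_lit 5) (nat_lit 39) (nat_lit 5) (nat_lit 396) (nat_lit 351) (nat_lit 153)) (XT.nd (nat_lit 78) (nat_lit 0) (nat_lit 0) (XT.lf (nat_lit 0) (nat_lit 26498707874) (nat_lit 152) (nat_lit 138902233638) (nat_lit 76) (nat_lit 25347863757) (nat_lit 34) (nat_lit 5) (nat_lit 36) (nat_lit 5) (nat_lit 35) (nat_lit 5) (nat_lit 397) (nat_lit 351) (nat_lit 152)) (XT.lf (nat_lit 0) (nat_lit 67283649211) (nat_lit 152) (nat_lit 46176796929) (nat_lit 76) (nat_lit 83932396695) (nat_lit 34) (nat_lit 5) (nat_lit 36) (nat_lit 5) (nat_lit 35) (nat_lit 5) (nat_lit 398) (nat_lit 351) (nat_lit 151)))) (XT.nd (nat_lit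 78) (nat_lit 76) (nat_lit 0) (XT.lf (nat_lit 0) (nat_lit 52876738272) (nat_lit 152) (nat_lit 58056326191) (nat_lit 228) (nat_lit 93394756613) (nat_lit 32) (nat_lit 5) (nat_lit 34) (nat_lit 5) (nat_lit 35) (nat_lit 5) (nat_lit 399) (nat_lit 351) (nat_lit 150)) (XT.nd (nat_lit 78) (nat_lit 76) (nat_lit 0) (XT.lf (nat_lit 0) (nat_lit 157561315468) (nat_lit 228) (nat_lit 53099567695) (nat_lit 76) (nat_lit 908846950) (nat_lit 32) (nat_lit 5) (nat_lit 35) (nat_lit 5) (nat_lit 33) (nat_lit 4) (nat_lit 400) (nat_lit 351) (nat_lit 149)) (XT.lf (nat_lit 0) (nat_lit 50844588552) (nat_lit 76) (nat_lit 157421651641) (nat_lit 152) (nat_lit 10820231478) (nat_lit 31) (nat_lit 5) (nat_lit 32) (nat_lit 5) (nat_lit 33) (nat_lit 4) (nat_lit 401) (nat_lit 351) (nat_lit 148))))) (XT.nd (nat_lit 234) (nat_lit 304) (nat_lit 0) (XT.nd (nat_lit 78) (nat_lit 152) (nat_lit 0) (XT.lf (nat_lit 0) (nat_lit 34335971609)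 (nat_lit 152) (nat_lit 65658985761) (nat_lit 76) (nat_lit 126911454511) (nat_lit 30) (nat_lit 5) (nat_lit 32) (nat_lit 5) (nat_lit 31) (nat_lit 5) (nat_lit 402) (nat_lit 351) (nat_lit 147)) (XT.nd (nat_lit 78) (nat_lit 0) (nat_lit 0) (XT.lf (nat_lit 0) (nat_lit 43259745689) (nat_lit 152) (nat_lit 38801721902) (nat_lit 228) (nat_lit 153013256906) (nat_lit 28) (nat_lit 5) (nat_lit 30) (nat_lit 5) (nat_lit 31) (nat_lit 5) (nat_lit 403) (nat_lit 351) (nat_lit 146)) (XT.lf (nat_lit 0) (nat_lit 133700508475) (nat_lit 228) (nat_lit 84108016835) (nat_lit 76) (nat_lit 25766564034) (nat_lit 28) (nat_lit 5) (nat_lit 31) (nat_lit 5) (nat_lit 29) (nat_lit 4) (nat_lit 404) (nat_lit 351) (nat_lit 145)))) (XT.nd (nat_lit 78) (nat_lit 228) (nat_lit 0) (XT.lf (nat_lit 0) (nat_lit 29285012509) (nat_lit 76) (nat_lit 159729527878) (nat_lit 152) (nat_lit 63431280197) (nat_lit 27) (nat_lit 5) (nat_lit 28) (nat_lit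 5) (nat_lit 29) (nat_lit 4) (nat_lit 405) (nat_lit 351) (nat_lit 144)) (XT.nd (nat_lit 78) (nat_lit 228) (nat_lit 0) (XT.lf (nat_lit 0) (nat_lit 151267251436) (nat_lit 76) (nat_lit 97251162097) (nat_lit 152) (nat_lit 13170467964) (nat_lit 27) (nat_lit 5) (nat_lit 28) (nat_lit 5) (nat_lit 29) (nat_lit 4) (nat_lit 406) (nat_lit 351) (nat_lit 143)) (XT.lf (nat_lit 0) (nat_lit 7578270939) (nat_lit 152) (nat_lit 30875614584) (nat_lit 228) (nat_lit 232903391216) (nat_lit 24) (nat_lit 5) (nat_lit 26) (nat_lit 5) (nat_lit 27) (nat_lit 5) (nat_lit 407) (nat_lit 351) (nat_lit 142))))))))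
noncomputable def xc217 : XT := (XT.nd (nat_lit 42900) (nat_lit 0) (nat_lit 3572) (XT.nd (nat_lit 858) (nat_lit 304) (nat_lit 0) (XT.nd (nat_lit 390) (nat_lit 228) (nat_lit 0) (XT.nd (nat_lit 156) (nat_lit 228) (nat_lit 0) (XT.nd (nat_lit 78) (nat_lit 0) (nat_lit 0) (XT.lf (nat_lit 0) (nat_lit 94723351976) (nat_lit 228) (nat_lit 146956937782) (nat_lit 76) (nat_lit 39692681131) (nat_lit 24) (nat_lit 5) (nat_lit 27) (nat_lit 5) (nat_lit 25) (nat_lit 4) (nat_lit 408) (nat_lit 351) (nat_lit 141)) (XT.lf (nat_lit 0) (nat_lit 154312202062) (nat_lit 228) (nat_lit 24800371840) (nat_lit 76) (nat_lit 112751580408) (nat_lit 24) (nat_lit 5) (nat_lit 27) (nat_lit 5) (nat_lit 25) (nat_lit 4) (nat_lit 409) (nat_lit 351) (nat_lit 140))) (XT.nd (nat_lit 78) (nat_lit 152) (nat_lit 0) (XT.lf (nat_lit 0) (nat_lit 106884569599) (nat_lit 76) (nat_lit 111664457199) (nat_lit 152) (nat_lit 84247443570) (nat_lit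 23) (nat_lit 5) (nat_lit 24) (nat_lit 5) (nat_lit 25) (nat_lit 4) (nat_lit 410) (nat_lit 351) (nat_lit 139)) (XT.nd (nat_lit 78) (nat_lit 152) (nat_lit 0) (XT.lf (nat_lit 0) (nat_lit 246014351367) (nat_lit 76) (nat_lit 40403116837) (nat_lit 152) (nat_lit 27836945325) (nat_lit 23) (nat_lit 5) (nat_lit 24) (nat_lit 5) (nat_lit 25) (nat_lit 4) (nat_lit 411) (nat_lit 351) (nat_lit 138)) (XT.lf (nat_lit 0) (nat_lit 32005391476) (nat_lit 152) (nat_lit 259286049052) (nat_lit 76) (nat_lit 34888499898) (nat_lit 21) (nat_lit 5) (nat_lit 23) (nat_lit 5) (nat_lit 22) (nat_lit 4) (nat_lit 412) (nat_lit 351) (nat_lit 137))))) (XT.nd (nat_lit 234) (nat_lit 152) (nat_lit 0) (XT.nd (nat_lit 78) (nat_lit 76) (nat_lit 0) (XT.lf (nat_lit 0) (nat_lit 95741089434) (nat_lit 152) (nat_lit 128628320125) (nat_lit 76) (nat_lit 114217679591) (nat_lit 21) (nat_lit 5) (nat_lit 23) (nat_lit 5) (nat_lit 22) (nat_lit 4)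 (nat_lit 413) (nat_lit 351) (nat_lit 136)) (XT.nd (nat_lit 78) (nat_lit 0) (nat_lit 0) (XT.lf (nat_lit 0) (nat_lit 8845001244) (nat_lit 76) (nat_lit 153956454891) (nat_lit 152) (nat_lit 188806245041) (nat_lit 20) (nat_lit 5) (nat_lit 21) (nat_lit 5) (nat_lit 22) (nat_lit 4) (nat_lit 414) (nat_lit 351) (nat_lit 135)) (XT.lf (nat_lit 0) (nat_lit 157657290502) (nat_lit 76) (nat_lit 77735726185) (nat_lit 152) (nat_lit 129777418396) (nat_lit 20) (nat_lit 5) (nat_lit 21) (nat_lit 5) (nat_lit 22) (nat_lit 4) (nat_lit 415) (nat_lit 351) (nat_lit 134)))) (XT.nd (nat_lit 78) (nat_lit 152) (nat_lit 0) (XT.lf (nat_lit 0) (nat_lit 311649802807) (nat_lit 152) (nat_lit 65537331143) (nat_lit 0) (nat_lit 2222389412) (nat_lit 20) (nat_lit 5) (nat_lit 22) (nat_lit 4) (nat_lit 20) (nat_lit 4) (nat_lit 416) (nat_lit 351) (nat_lit 133)) (XT.nd (nat_lit 78) (nat_lit 0) (nat_lit 0) (XT.lf (nat_lit 0) (nat_lit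 87015220) (nat_lit 152) (nat_lit 309249386256) (nat_lit 76) (nat_lit 84894045396) (nat_lit 18) (nat_lit 5) (nat_lit 20) (nat_lit 5) (nat_lit 19) (nat_lit 4) (nat_lit 417) (nat_lit 351) (nat_lit 132)) (XT.lf (nat_lit 0) (nat_lit 70176828433) (nat_lit 152) (nat_lit 165565606375) (nat_lit 76) (nat_lit 173938045464) (nat_lit 18) (nat_lit 5) (nat_lit 20) (nat_lit 5) (nat_lit 19) (nat_lit 4) (nat_lit 418) (nat_lit 351) (nat_lit 131)))))) (XT.nd (nat_lit 468) (nat_lit 76) (nat_lit 0) (XT.nd (nat_lit 234) (nat_lit 152) (nat_lit 0) (XT.nd (nat_lit 78) (nat_lit 76) (nat_lit 0) (XT.lf (nat_lit 0) (nat_lit 143770951337) (nat_lit 152) (nat_lit 14697975569) (nat_lit 76) (nat_lit 267434097527) (nat_lit 18) (nat_lit 5) (nat_lit 20) (nat_lit 5) (nat_lit 19) (nat_lit 4) (nat_lit 419) (nat_lit 351) (nat_lit 130)) (XT.nd (nat_lit 78) (nat_lit 0) (nat_lit 0) (XT.lf (nat_lit 0) (nat_lit 148464506182) (nat_lit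 76) (nat_lit 74898048865) (nat_lit 152) (nat_lit 219458252064) (nat_lit 17) (nat_lit 5) (nat_lit 18) (nat_lit 5) (nat_lit 19) (nat_lit 4) (nat_lit 420) (nat_lit 351) (nat_lit 129)) (XT.lf (nat_lit 0) (nat_lit 307387211437) (nat_lit 152) (nat_lit 140481690040) (nat_lit 0) (nat_lit 12692903860) (nat_lit 17) (nat_lit 5) (nat_lit 19) (nat_lit 4) (nat_lit 17) (nat_lit 4) (nat_lit 421) (nat_lit 351) (nat_lit 128)))) (XT.nd (nat_lit 78) (nat_lit 76) (nat_lit 0) (XT.lf (nat_lit 0) (nat_lit 20515118863) (nat_lit 76) (nat_lit 376645953914) (nat_lit 76) (nat_lit 81951382129) (nat_lit 16) (nat_lit 4) (nat_lit 17) (nat_lit 5) (nat_lit 17) (nat_lit 4) (nat_lit 422) (nat_lit 351) (nat_lit 127)) (XT.nd (nat_lit 78) (nat_lit 76) (nat_lit 0) (XT.lf (nat_lit 0) (nat_lit 194438672647) (nat_lit 76) (nat_lit 299363919747) (nat_lit 76) (nat_lit 4669096334) (nat_lit 16) (nat_lit 4) (nat_lit 17) (nat_lit 5) (nat_lit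 17) (nat_lit 4) (nat_lit 423) (nat_lit 351) (nat_lit 126)) (XT.lf (nat_lit 0) (nat_lit 74029397327) (nat_lit 152) (nat_lit 142934798536) (nat_lit 76) (nat_lit 301774994913) (nat_lit 15) (nat_lit 5) (nat_lit 17) (nat_lit 5) (nat_lit 16) (nat_lit 4) (nat_lit 424) (nat_lit 351) (nat_lit 125))))) (XT.nd (nat_lit 41340) (nat_lit 0) (nat_lit 6612) (XT.nd (nat_lit 41184) (nat_lit 0) (nat_lit 6536) (XT.lf (nat_lit 0) (nat_lit 27005864228) (nat_lit 76) (nat_lit 129921528707) (nat_lit 152) (nat_lit 383067773419) (nat_lit 14) (nat_lit 5) (nat_lit 15) (nat_lit 5) (nat_lit 16) (nat_lit 4) (nat_lit 425) (nat_lit 351) (nat_lit 124)) (XT.nd (nat_lit 78) (nat_lit 0) (nat_lit 0) (XT.lf (nat_lit 0) (nat_lit 2648053679) (nat_lit 836) (nat_lit 11560803014) (nat_lit 836) (nat_lit 11560803014) (nat_lit 100) (nat_lit 3) (nat_lit 111) (nat_lit 3) (nat_lit 111) (nat_lit 5) (nat_lit 352) (nat_lit 352) (nat_lit 196))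 (XT.lf (nat_lit 76) (nat_lit 1303557486) (nat_lit 0) (nat_lit 4169135739) (nat_lit 836) (nat_lit 47352874858) (nat_lit 101) (nat_lit 5) (nat_lit 100) (nat_lit 3) (nat_lit 111) (nat_lit 5) (nat_lit 353) (nat_lit 352) (nat_lit 195)))) (XT.nd (nat_lit 78) (nat_lit 0) (nat_lit 0) (XT.lf (nat_lit 0) (nat_lit 6387001694) (nat_lit 760) (nat_lit 26743604135) (nat_lit 836) (nat_lit 21009080302) (nat_lit 101) (nat_lit 5) (nat_lit 111) (nat_lit 5) (nat_lit 112) (nat_lit 5) (nat_lit 354) (nat_lit 352) (nat_lit 194)) (XT.nd (nat_lit 78) (nat_lit 0) (nat_lit 76) (XT.lf (nat_lit 0) (nat_lit 7413917479) (nat_lit 760) (nat_lit 795497942) (nat_lit 836) (nat_lit 47306751599) (nat_lit 101) (nat_lit 5) (nat_lit 111) (nat_lit 5) (nat_lit 112) (nat_lit 5) (nat_lit 355) (nat_lit 352) (nat_lit 193)) (XT.lf (nat_lit 0) (nat_lit 9204767615) (nat_lit 760) (nat_lit 29903876435) (nat_lit 836) (nat_lit 17817199937) (nat_lit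 102) (nat_lit 5) (nat_lit 112) (nat_lit 5) (nat_lit 113) (nat_lit 5) (nat_lit 356) (nat_lit 352) (nat_lit 192))))))) (XT.nd (nat_lit 936) (nat_lit 1824) (nat_lit 0) (XT.nd (nat_lit 468) (nat_lit 1292) (nat_lit 0) (XT.nd (nat_lit 234) (nat_lit 0) (nat_lit 152) (XT.nd (nat_lit 78) (nat_lit 0) (nat_lit 76) (XT.lf (nat_lit 0) (nat_lit 11232109699) (nat_lit 760) (nat_lit 2283103479) (nat_lit 836) (nat_lit 44883445543) (nat_lit 102) (nat_lit 5) (nat_lit 112) (nat_lit 5) (nat_lit 113) (nat_lit 5) (nat_lit 357) (nat_lit 352) (nat_lit 191)) (XT.nd (nat_lit 78) (nat_lit 0) (nat_lit 0) (XT.lf (nat_lit 0) (nat_lit 14006115905) (nat_lit 760) (nat_lit 32537988204) (nat_lit 836) (nat_lit 13368746556) (nat_lit 103) (nat_lit 5) (nat_lit 113) (nat_lit 5) (nat_lit 114) (nat_lit 5) (nat_lit 358) (nat_lit 352) (nat_lit 190)) (XT.lf (nat_lit 0) (nat_lit 17178474353) (nat_lit 760) (nat_lit 3128929289) (nat_lit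 836) (nat_lit 41182367230) (nat_lit 103) (nat_lit 5) (nat_lit 113) (nat_lit 5) (nat_lit 114) (nat_lit 5) (nat_lit 359) (nat_lit 352) (nat_lit 189)))) (XT.nd (nat_lit 78) (nat_lit 0) (nat_lit 0) (XT.lf (nat_lit 0) (nat_lit 21076272274) (nat_lit 760) (nat_lit 34576362928) (nat_lit 836) (nat_lit 7464562012) (nat_lit 104) (nat_lit 5) (nat_lit 114) (nat_lit 5) (nat_lit 115) (nat_lit 5) (nat_lit 360) (nat_lit 352) (nat_lit 188)) (XT.nd (nat_lit 78) (nat_lit 0) (nat_lit 0) (XT.lf (nat_lit 0) (nat_lit 25554621829) (nat_lit 760) (nat_lit 3255317007) (nat_lit 836) (nat_lit 35996774093) (nat_lit 104) (nat_lit 5) (nat_lit 114) (nat_lit 5) (nat_lit 115) (nat_lit 5) (nat_lit 361) (nat_lit 352) (nat_lit 187)) (XT.lf (nat_lit 76) (nat_lit 30610646307) (nat_lit 0) (nat_lit 123108019) (nat_lit 836) (nat_lit 35823107922) (nat_lit 105) (nat_lit 5) (nat_lit 104) (nat_lit 5) (nat_lit 115) (nat_lit 5) (nat_lit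 362) (nat_lit 352) (nat_lit 186))))) (XT.nd (nat_lit 234) (nat_lit 760) (nat_lit 0) (XT.nd (nat_lit 78) (nat_lit 760) (nat_lit 0) (XT.lf (nat_lit 0) (nat_lit 36695218286) (nat_lit 760) (nat_lit 2579002238) (nat_lit 76) (nat_lit 29094130804) (nat_lit 105) (nat_lit 5) (nat_lit 115) (nat_lit 5) (nat_lit 106) (nat_lit 5) (nat_lit 363) (nat_lit 352) (nat_lit 185)) (XT.nd (nat_lit 78) (nat_lit 0) (nat_lit 0) (XT.lf (nat_lit 0) (nat_lit 33526755602) (nat_lit 760) (nat_lit 9952499703) (nat_lit 836) (nat_lit 26764935554) (nat_lit 95) (nat_lit 5) (nat_lit 105) (nat_lit 5) (nat_lit 106) (nat_lit 5) (nat_lit 364) (nat_lit 352) (nat_lit 184)) (XT.lf (nat_lit 0) (nat_lit 50971253417) (nat_lit 836) (nat_lit 1011212454) (nat_lit 76) (nat_lit 20212919473) (nat_lit 95) (nat_lit 5) (nat_lit 106) (nat_lit 5) (nat_lit 96) (nat_lit 5) (nat_lit 365) (nat_lit 352) (nat_lit 183)))) (XT.nd (nat_lit 78) (nat_lit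 380) (nat_lit 0) (XT.lf (nat_lit 0) (nat_lit 37517090922) (nat_lit 380) (nat_lit 22068776553) (nat_lit 456) (nat_lit 14620872175) (nat_lit 90) (nat_lit 5) (nat_lit 95) (nat_lit 5) (nat_lit 96) (nat_lit 5) (nat_lit 366) (nat_lit 352) (nat_lit 182)) (XT.nd (nat_lit 78) (nat_lit 76) (nat_lit 0) (XT.lf (nat_lit 0) (nat_lit 1593100391) (nat_lit 304) (nat_lit 67225366308) (nat_lit 380) (nat_lit 7490833101) (nat_lit 86) (nat_lit 5) (nat_lit 90) (nat_lit 5) (nat_lit 91) (nat_lit 5) (nat_lit 367) (nat_lit 352) (nat_lit 181)) (XT.lf (nat_lit 0) (nat_lit 988327156) (nat_lit 380) (nat_lit 35794954388) (nat_lit 76) (nat_lit 41684086447) (nat_lit 85) (nat_lit 5) (nat_lit 90) (nat_lit 5) (nat_lit 86) (nat_lit 5) (nat_lit 368) (nat_lit 352) (nat_lit 180)))))) (XT.nd (nat_lit 468) (nat_lit 836) (nat_lit 0) (XT.nd (nat_lit 234) (nat_lit 304) (nat_lit 0) (XT.nd (nat_lit 78) (nat_lit 304) (nat_lit 0) (XT.lf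 (nat_lit 0) (nat_lit 5112320812) (nat_lit 380) (nat_lit 4606396875) (nat_lit 456) (nat_lit 71004531947) (nat_lit 80) (nat_lit 5) (nat_lit 85) (nat_lit 5) (nat_lit 86) (nat_lit 5) (nat_lit 369) (nat_lit 352) (nat_lit 179)) (XT.nd (nat_lit 78) (nat_lit 304) (nat_lit 0) (XT.lf (nat_lit 0) (nat_lit 19956561379) (nat_lit 456) (nat_lit 34220326825) (nat_lit 76) (nat_lit 28861491175) (nat_lit 80) (nat_lit 5) (nat_lit 86) (nat_lit 5) (nat_lit 81) (nat_lit 5) (nat_lit 370) (nat_lit 352) (nat_lit 178)) (XT.lf (nat_lit 0) (nat_lit 9466435097) (nat_lit 304) (nat_lit 21462431422) (nat_lit 380) (nat_lit 54529271298) (nat_lit 76) (nat_lit 5) (nat_lit 80) (nat_lit 5) (nat_lit 81) (nat_lit 5) (nat_lit 371) (nat_lit 352) (nat_lit 177)))) (XT.nd (nat_lit 78) (nat_lit 304) (nat_lit 0) (XT.lf (nat_lit 0) (nat_lit 43239316988) (nat_lit 380) (nat_lit 31655896143) (nat_lit 76) (nat_lit 13064195181) (nat_lit 76)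 (nat_lit 5) (nat_lit 81) (nat_lit 5) (nat_lit 77) (nat_lit 5) (nat_lit 372) (nat_lit 352) (nat_lit 176)) (XT.nd (nat_lit 78) (nat_lit 0) (nat_lit 0) (XT.lf (nat_lit 0) (nat_lit 15024928247) (nat_lit 304) (nat_lit 41726098288) (nat_lit 380) (nat_lit 33805429575) (nat_lit 72) (nat_lit 5) (nat_lit 76) (nat_lit 5) (nat_lit 77) (nat_lit 5) (nat_lit 373) (nat_lit 352) (nat_lit 175)) (XT.lf (nat_lit 0) (nat_lit 65138007417) (nat_lit 304) (nat_lit 6335754385) (nat_lit 380) (nat_lit 21782823062) (nat_lit 72) (nat_lit 5) (nat_lit 76) (nat_lit 5) (nat_lit 77) (nat_lit 5) (nat_lit 374) (nat_lit 352) (nat_lit 174))))) (XT.nd (nat_lit 234) (nat_lit 228) (nat_lit 0) (XT.nd (nat_lit 78) (nat_lit 380) (nat_lit 0) (XT.lf (nat_lit 0) (nat_lit 21883374987) (nat_lit 228) (nat_lit 65871532385) (nat_lit 304) (nat_lit 8295699557) (nat_lit 69) (nat_lit 5) (nat_lit 72) (nat_lit 5) (nat_lit 73) (nat_lit 5) (nat_lit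 375) (nat_lit 352) (nat_lit 173)) (XT.nd (nat_lit 78) (nat_lit 304) (nat_lit 0) (XT.lf (nat_lit 0) (nat_lit 6265281117) (nat_lit 304) (nat_lit 23802942060) (nat_lit 76) (nat_lit 68882166227) (nat_lit 68) (nat_lit 5) (nat_lit 72) (nat_lit 5) (nat_lit 69) (nat_lit 5) (nat_lit 376) (nat_lit 352) (nat_lit 172)) (XT.lf (nat_lit 0) (nat_lit 21869109563) (nat_lit 380) (nat_lit 72192643225) (nat_lit 76) (nat_lit 7896929504) (nat_lit 64) (nat_lit 5) (nat_lit 69) (nat_lit 5) (nat_lit 65) (nat_lit 5) (nat_lit 377) (nat_lit 352) (nat_lit 171)))) (XT.nd (nat_lit 78) (nat_lit 228) (nat_lit 0) (XT.lf (nat_lit 0) (nat_lit 39155187458) (nat_lit 380) (nat_lit 18757694558) (nat_lit 76) (nat_lit 47159405360) (nat_lit 64) (nat_lit 5) (nat_lit 69) (nat_lit 5) (nat_lit 65) (nat_lit 5) (nat_lit 378) (nat_lit 352) (nat_lit 170)) (XT.nd (nat_lit 78) (nat_lit 0) (nat_lit 0) (XT.lf (nat_lit 0) (nat_lit 38583156871)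 (nat_lit 228) (nat_lit 19324245071) (nat_lit 304) (nat_lit 50404079569) (nat_lit 61) (nat_lit 5) (nat_lit 64) (nat_lit 5) (nat_lit 65) (nat_lit 5) (nat_lit 379) (nat_lit 352) (nat_lit 169)) (XT.lf (nat_lit 0) (nat_lit 78250454112) (nat_lit 304) (nat_lit 12591338048) (nat_lit 76) (nat_lit 20838182255) (nat_lit 61) (nat_lit 5) (nat_lit 65) (nat_lit 5) (nat_lit 62) (nat_lit 5) (nat_lit 380) (nat_lit 352) (nat_lit 168))))))))
noncomputable def xc218 : XT := (XT.nd (nat_lit 1794) (nat_lit 1140) (nat_lit 0) (XT.nd (nat_lit 858) (nat_lit 988) (nat_lit 0) (XT.nd (nat_lit 390) (nat_lit 608) (nat_lit 0) (XT.nd (nat_lit 156) (nat_lit 456) (nat_lit 0) (XT.nd (nat_lit 78) (nat_lit 76) (nat_lit 0) (XT.lf (nat_lit 0) (nat_lit 48641826135) (nat_lit 228) (nat_lit 52044538529) (nat_lit 304) (nat_lit 14476742404) (nat_lit 58) (nat_lit 5) (nat_lit 61) (nat_lit 5) (nat_lit 62) (nat_lit 5) (nat_lit 381) (nat_lit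 352) (nat_lit 167)) (XT.lf (nat_lit 0) (nat_lit 5466303735) (nat_lit 304) (nat_lit 5524846261) (nat_lit 76) (nat_lit 107814201734) (nat_lit 57) (nat_lit 5) (nat_lit 61) (nat_lit 5) (nat_lit 58) (nat_lit 5) (nat_lit 382) (nat_lit 352) (nat_lit 166))) (XT.nd (nat_lit 78) (nat_lit 228) (nat_lit 0) (XT.lf (nat_lit 0) (nat_lit 27380254442) (nat_lit 304) (nat_lit 62881061820) (nat_lit 76) (nat_lit 32283513232) (nat_lit 54) (nat_lit 5) (nat_lit 58) (nat_lit 5) (nat_lit 55) (nat_lit 5) (nat_lit 383) (nat_lit 352) (nat_lit 165)) (XT.nd (nat_lit 78) (nat_lit 0) (nat_lit 0) (XT.lf (nat_lit 0) (nat_lit 1709307598) (nat_lit 228) (nat_lit 48982083472) (nat_lit 304) (nat_lit 75764815979) (nat_lit 51) (nat_lit 5) (nat_lit 54) (nat_lit 5) (nat_lit 55) (nat_lit 5) (nat_lit 384) (nat_lit 352) (nat_lit 164)) (XT.lf (nat_lit 0) (nat_lit 71711591408) (nat_lit 228) (nat_lit 4520945141) (nat_lit 304) (nat_lit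 54277394638) (nat_lit 51) (nat_lit 5) (nat_lit 54) (nat_lit 5) (nat_lit 55) (nat_lit 5) (nat_lit 385) (nat_lit 352) (nat_lit 163))))) (XT.nd (nat_lit 234) (nat_lit 152) (nat_lit 0) (XT.nd (nat_lit 78) (nat_lit 304) (nat_lit 0) (XT.lf (nat_lit 0) (nat_lit 10112340538) (nat_lit 152) (nat_lit 93754117067) (nat_lit 228) (nat_lit 30859098304) (nat_lit 49) (nat_lit 5) (nat_lit 51) (nat_lit 5) (nat_lit 52) (nat_lit 5) (nat_lit 386) (nat_lit 352) (nat_lit 162)) (XT.nd (nat_lit 78) (nat_lit 304) (nat_lit 0) (XT.lf (nat_lit 0) (nat_lit 84432668124) (nat_lit 152) (nat_lit 49517664234) (nat_lit 228) (nat_lit 5148216904) (nat_lit 49) (nat_lit 5) (nat_lit 51) (nat_lit 5) (nat_lit 52) (nat_lit 5) (nat_lit 387) (nat_lit 352) (nat_lit 161)) (XT.lf (nat_lit 0) (nat_lit 19046669977) (nat_lit 228) (nat_lit 2399206004) (nat_lit 304) (nat_lit 122212413639) (nat_lit 45) (nat_lit 5) (nat_lit 48) (nat_lit 5) (nat_lit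 49) (nat_lit 5) (nat_lit 388) (nat_lit 352) (nat_lit 160)))) (XT.nd (nat_lit 78) (nat_lit 152) (nat_lit 0) (XT.lf (nat_lit 0) (nat_lit 50872186556) (nat_lit 304) (nat_lit 50892209527) (nat_lit 76) (nat_lit 46593624960) (nat_lit 45) (nat_lit 5) (nat_lit 49) (nat_lit 5) (nat_lit 46) (nat_lit 5) (nat_lit 389) (nat_lit 352) (nat_lit 159)) (XT.nd (nat_lit 78) (nat_lit 0) (nat_lit 0) (XT.lf (nat_lit 0) (nat_lit 27348537713) (nat_lit 152) (nat_lit 54887194835) (nat_lit 228) (nat_lit 71033710722) (nat_lit 43) (nat_lit 5) (nat_lit 45) (nat_lit 5) (nat_lit 46) (nat_lit 5) (nat_lit 390) (nat_lit 352) (nat_lit 158)) (XT.lf (nat_lit 0) (nat_lit 111267568876) (nat_lit 152) (nat_lit 4761381850) (nat_lit 228) (nat_lit 42354411357) (nat_lit 43) (nat_lit 5) (nat_lit 45) (nat_lit 5) (nat_lit 46) (nat_lit 5) (nat_lit 391) (nat_lit 352) (nat_lit 157)))))) (XT.nd (nat_lit 468) (nat_lit 456) (nat_lit 0) (XT.nd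 (nat_lit 234) (nat_lit 152) (nat_lit 0) (XT.nd (nat_lit 78) (nat_lit 228) (nat_lit 0) (XT.lf (nat_lit 0) (nat_lit 36034919008) (nat_lit 152) (nat_lit 116786538863) (nat_lit 228) (nat_lit 10866037770) (nat_lit 41) (nat_lit 5) (nat_lit 43) (nat_lit 5) (nat_lit 44) (nat_lit 5) (nat_lit 392) (nat_lit 352) (nat_lit 156)) (XT.nd (nat_lit 78) (nat_lit 152) (nat_lit 0) (XT.lf (nat_lit 0) (nat_lit 22375012968) (nat_lit 228) (nat_lit 44676313285) (nat_lit 76) (nat_lit 102143747472) (nat_lit 40) (nat_lit 5) (nat_lit 43) (nat_lit 5) (nat_lit 41) (nat_lit 5) (nat_lit 393) (nat_lit 352) (nat_lit 155)) (XT.lf (nat_lit 0) (nat_lit 43667694348) (nat_lit 152) (nat_lit 13926672807) (nat_lit 228) (nat_lit 117340686098) (nat_lit 38) (nat_lit 5) (nat_lit 40) (nat_lit 5) (nat_lit 41) (nat_lit 5) (nat_lit 394) (nat_lit 352) (nat_lit 154)))) (XT.nd (nat_lit 78) (nat_lit 152) (nat_lit 0) (XT.lf (nat_lit 0) (nat_lit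 95996819637) (nat_lit 228) (nat_lit 43610683800) (nat_lit 76) (nat_lit 41283421962) (nat_lit 38) (nat_lit 5) (nat_lit 41) (nat_lit 5) (nat_lit 39) (nat_lit 5) (nat_lit 395) (nat_lit 352) (nat_lit 153)) (XT.nd (nat_lit 78) (nat_lit 0) (nat_lit 0) (XT.lf (nat_lit 0) (nat_lit 49793674371) (nat_lit 152) (nat_lit 87531112439) (nat_lit 228) (nat_lit 49769534902) (nat_lit 36) (nat_lit 5) (nat_lit 38) (nat_lit 5) (nat_lit 39) (nat_lit 5) (nat_lit 396) (nat_lit 352) (nat_lit 152)) (XT.lf (nat_lit 0) (nat_lit 149381770715) (nat_lit 152) (nat_lit 32075624166) (nat_lit 228) (nat_lit 12113580987) (nat_lit 36) (nat_lit 5) (nat_lit 38) (nat_lit 5) (nat_lit 39) (nat_lit 5) (nat_lit 397) (nat_lit 352) (nat_lit 151))))) (XT.nd (nat_lit 234) (nat_lit 152) (nat_lit 0) (XT.nd (nat_lit 78) (nat_lit 152) (nat_lit 0) (XT.lf (nat_lit 0) (nat_lit 27833707386) (nat_lit 152) (nat_lit 145830146815) (nat_lit 76) (nat_lit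 26621883808) (nat_lit 34) (nat_lit 5) (nat_lit 36) (nat_lit 5) (nat_lit 35) (nat_lit 5) (nat_lit 398) (nat_lit 352) (nat_lit 150)) (XT.nd (nat_lit 78) (nat_lit 152) (nat_lit 0) (XT.lf (nat_lit 0) (nat_lit 70657416546) (nat_lit 152) (nat_lit 48469257247) (nat_lit 76) (nat_lit 88135327827) (nat_lit 34) (nat_lit 5) (nat_lit 36) (nat_lit 5) (nat_lit 35) (nat_lit 5) (nat_lit 399) (nat_lit 352) (nat_lit 149)) (XT.lf (nat_lit 0) (nat_lit 55536690528) (nat_lit 152) (nat_lit 60952407215) (nat_lit 228) (nat_lit 98054641466) (nat_lit 32) (nat_lit 5) (nat_lit 34) (nat_lit 5) (nat_lit 35) (nat_lit 5) (nat_lit 400) (nat_lit 352) (nat_lit 148)))) (XT.nd (nat_lit 78) (nat_lit 152) (nat_lit 0) (XT.lf (nat_lit 0) (nat_lit 165448414778) (nat_lit 228) (nat_lit 55738847883) (nat_lit 76) (nat_lit 960498550) (nat_lit 32) (nat_lit 5) (nat_lit 35) (nat_lit 5) (nat_lit 33) (nat_lit 4) (nat_lit 401) (nat_lit 352)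 (nat_lit 147)) (XT.nd (nat_lit 78) (nat_lit 76) (nat_lit 0) (XT.lf (nat_lit 0) (nat_lit 53402262979) (nat_lit 76) (nat_lit 165286133731) (nat_lit 152) (nat_lit 11351952765) (nat_lit 31) (nat_lit 5) (nat_lit 32) (nat_lit 5) (nat_lit 33) (nat_lit 4) (nat_lit 402) (nat_lit 352) (nat_lit 146)) (XT.lf (nat_lit 0) (nat_lit 36061334894) (nat_lit 152) (nat_lit 68926939115) (nat_lit 76) (nat_lit 133263027008) (nat_lit 30) (nat_lit 5) (nat_lit 32) (nat_lit 5) (nat_lit 31) (nat_lit 5) (nat_lit 403) (nat_lit 352) (nat_lit 145))))))) (XT.nd (nat_lit 936) (nat_lit 380) (nat_lit 0) (XT.nd (nat_lit 468) (nat_lit 304) (nat_lit 0) (XT.nd (nat_lit 234) (nat_lit 228) (nat_lit 0) (XT.nd (nat_lit 78) (nat_lit 76) (nat_lit 0) (XT.lf (nat_lit 0) (nat_lit 45437487038) (nat_lit 152) (nat_lit 40735441147) (nat_lit 228) (nat_lit 160655110108) (nat_lit 28) (nat_lit 5) (nat_lit 30) (nat_lit 5) (nat_lit 31) (nat_lit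 5) (nat_lit 404) (nat_lit 352) (nat_lit 144)) (XT.nd (nat_lit 78) (nat_lit 76) (nat_lit 0) (XT.lf (nat_lit 0) (nat_lit 140393616392) (nat_lit 228) (nat_lit 88299058543) (nat_lit 76) (nat_lit 27060761828) (nat_lit 28) (nat_lit 5) (nat_lit 31) (nat_lit 5) (nat_lit 29) (nat_lit 4) (nat_lit 405) (nat_lit 352) (nat_lit 143)) (XT.lf (nat_lit 0) (nat_lit 30763390669) (nat_lit 76) (nat_lit 167709794920) (nat_lit 152) (nat_lit 66594527330) (nat_lit 27) (nat_lit 5) (nat_lit 28) (nat_lit 5) (nat_lit 29) (nat_lit 4) (nat_lit 406) (nat_lit 352) (nat_lit 142)))) (XT.nd (nat_lit 78) (nat_lit 228) (nat_lit 0) (XT.lf (nat_lit 0) (nat_lit 158844068803) (nat_lit 76) (nat_lit 102107806534) (nat_lit 152) (nat_lit 13821070528) (nat_lit 27) (nat_lit 5) (nat_lit 28) (nat_lit 5) (nat_lit 29) (nat_lit 4) (nat_lit 407) (nat_lit 352) (nat_lit 141)) (XT.nd (nat_lit 78) (nat_lit 0) (nat_lit 0) (XT.lf (nat_lit 0) (nat_lit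 7970674180) (nat_lit 152) (nat_lit 32413418439) (nat_lit 228) (nat_lit 244540669911) (nat_lit 24) (nat_lit 5) (nat_lit 26) (nat_lit 5) (nat_lit 27) (nat_lit 5) (nat_lit 408) (nat_lit 352) (nat_lit 140)) (XT.lf (nat_lit 0) (nat_lit 99466763513) (nat_lit 228) (nat_lit 154291666173) (nat_lit 76) (nat_lit 41682825260) (nat_lit 24) (nat_lit 5) (nat_lit 27) (nat_lit 5) (nat_lit 25) (nat_lit 4) (nat_lit 409) (nat_lit 352) (nat_lit 139))))) (XT.nd (nat_lit 234) (nat_lit 228) (nat_lit 0) (XT.nd (nat_lit 78) (nat_lit 76) (nat_lit 0) (XT.lf (nat_lit 0) (nat_lit 162034711154) (nat_lit 228) (nat_lit 26027896624) (nat_lit 76) (nat_lit 118394407116) (nat_lit 24) (nat_lit 5) (nat_lit 27) (nat_lit 5) (nat_lit 25) (nat_lit 4) (nat_lit 410) (nat_lit 352) (nat_lit 138)) (XT.nd (nat_lit 78) (nat_lit 0) (nat_lit 0) (XT.lf (nat_lit 0) (nat_lit 112241090375) (nat_lit 76) (nat_lit 117242150147) (nat_lit 152) (nat_lit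 88452713169) (nat_lit 23) (nat_lit 5) (nat_lit 24) (nat_lit 5) (nat_lit 25) (nat_lit 4) (nat_lit 411) (nat_lit 352) (nat_lit 137)) (XT.lf (nat_lit 0) (nat_lit 258326775884) (nat_lit 76) (nat_lit 42418006096) (nat_lit 152) (nat_lit 29222028229) (nat_lit 23) (nat_lit 5) (nat_lit 24) (nat_lit 5) (nat_lit 25) (nat_lit 4) (nat_lit 412) (nat_lit 352) (nat_lit 136)))) (XT.nd (nat_lit 78) (nat_lit 76) (nat_lit 0) (XT.lf (nat_lit 0) (nat_lit 33612163255) (nat_lit 152) (nat_lit 272238378720) (nat_lit 76) (nat_lit 36638068568) (nat_lit 21) (nat_lit 5) (nat_lit 23) (nat_lit 5) (nat_lit 22) (nat_lit 4) (nat_lit 413) (nat_lit 352) (nat_lit 135)) (XT.nd (nat_lit 78) (nat_lit 76) (nat_lit 0) (XT.lf (nat_lit 0) (nat_lit 100534336481) (nat_lit 152) (nat_lit 135048333479) (nat_lit 76) (nat_lit 119933462309) (nat_lit 21) (nat_lit 5) (nat_lit 23) (nat_lit 5) (nat_lit 22) (nat_lit 4) (nat_lit 414) (nat_lit 352)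 (nat_lit 134)) (XT.lf (nat_lit 0) (nat_lit 9298470044) (nat_lit 76) (nat_lit 161649131745) (nat_lit 152) (nat_lit 198240179176) (nat_lit 20) (nat_lit 5) (nat_lit 21) (nat_lit 5) (nat_lit 22) (nat_lit 4) (nat_lit 415) (nat_lit 352) (nat_lit 133)))))) (XT.nd (nat_lit 468) (nat_lit 152) (nat_lit 0) (XT.nd (nat_lit 234) (nat_lit 76) (nat_lit 0) (XT.nd (nat_lit 78) (nat_lit 152) (nat_lit 0) (XT.lf (nat_lit 0) (nat_lit 165550839540) (nat_lit 76) (nat_lit 81617611646) (nat_lit 152) (nat_lit 136260214918) (nat_lit 20) (nat_lit 5) (nat_lit 21) (nat_lit 5) (nat_lit 22) (nat_lit 4) (nat_lit 416) (nat_lit 352) (nat_lit 132)) (XT.nd (nat_lit 78) (nat_lit 152) (nat_lit 0) (XT.lf (nat_lit 0) (nat_lit 327237874071) (nat_lit 152) (nat_lit 68803817957) (nat_lit 0) (nat_lit 2338026969) (nat_lit 20) (nat_lit 5) (nat_lit 22) (nat_lit 4) (nat_lit 20) (nat_lit 4) (nat_lit 417) (nat_lit 352) (nat_lit 131)) (XT.lf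 (nat_lit 0) (nat_lit 96931892) (nat_lit 152) (nat_lit 324701457868) (nat_lit 76) (nat_lit 89143299822) (nat_lit 18) (nat_lit 5) (nat_lit 20) (nat_lit 5) (nat_lit 19) (nat_lit 4) (nat_lit 418) (nat_lit 352) (nat_lit 130)))) (XT.nd (nat_lit 78) (nat_lit 76) (nat_lit 0) (XT.lf (nat_lit 0) (nat_lit 73690970722) (nat_lit 152) (nat_lit 173833984121) (nat_lit 76) (nat_lit 182639283123) (nat_lit 18) (nat_lit 5) (nat_lit 20) (nat_lit 5) (nat_lit 19) (nat_lit 4) (nat_lit 419) (nat_lit 352) (nat_lit 129)) (XT.nd (nat_lit 78) (nat_lit 76) (nat_lit 0) (XT.lf (nat_lit 0) (nat_lit 150964547349) (nat_lit 152) (nat_lit 15423443326) (nat_lit 76) (nat_lit 280809931343) (nat_lit 18) (nat_lit 5) (nat_lit 20) (nat_lit 5) (nat_lit 19) (nat_lit 4) (nat_lit 420) (nat_lit 352) (nat_lit 128)) (XT.lf (nat_lit 0) (nat_lit 155897010399) (nat_lit 76) (nat_lit 78638625313) (nat_lit 152) (nat_lit 230425962952) (nat_lit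 17) (nat_lit 5) (nat_lit 18) (nat_lit 5) (nat_lit 19) (nat_lit 4) (nat_lit 421) (nat_lit 352) (nat_lit 127))))) (XT.nd (nat_lit 234) (nat_lit 76) (nat_lit 0) (XT.nd (nat_lit 78) (nat_lit 76) (nat_lit 0) (XT.lf (nat_lit 0) (nat_lit 322761353393) (nat_lit 152) (nat_lit 147496764857) (nat_lit 0) (nat_lit 13331537183) (nat_lit 17) (nat_lit 5) (nat_lit 19) (nat_lit 4) (nat_lit 17) (nat_lit 4) (nat_lit 422) (nat_lit 352) (nat_lit 126)) (XT.nd (nat_lit 78) (nat_lit 0) (nat_lit 0) (XT.lf (nat_lit 0) (nat_lit 21549739173) (nat_lit 76) (nat_lit 395474079339) (nat_lit 76) (nat_lit 86044023484) (nat_lit 16) (nat_lit 4) (nat_lit 17) (nat_lit 5) (nat_lit 17) (nat_lit 4) (nat_lit 423) (nat_lit 352) (nat_lit 125)) (XT.lf (nat_lit 0) (nat_lit 204169048534) (nat_lit 76) (nat_lit 314328142143) (nat_lit 76) (nat_lit 4897858054) (nat_lit 16) (nat_lit 4) (nat_lit 17) (nat_lit 5) (nat_lit 17) (nat_lit 4) (nat_lit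 424) (nat_lit 352) (nat_lit 124)))) (XT.nd (nat_lit 41262) (nat_lit 0) (nat_lit 6460) (XT.lf (nat_lit 0) (nat_lit 77735193753) (nat_lit 152) (nat_lit 150073354258) (nat_lit 76) (nat_lit 316867385070) (nat_lit 15) (nat_lit 5) (nat_lit 17) (nat_lit 5) (nat_lit 16) (nat_lit 4) (nat_lit 425) (nat_lit 352) (nat_lit 123)) (XT.nd (nat_lit 78) (nat_lit 0) (nat_lit 0) (XT.lf (nat_lit 0) (nat_lit 2803915292) (nat_lit 836) (nat_lit 12126514845) (nat_lit 836) (nat_lit 12126514845) (nat_lit 100) (nat_lit 3) (nat_lit 111) (nat_lit 3) (nat_lit 111) (nat_lit 5) (nat_lit 353) (nat_lit 353) (nat_lit 194)) (XT.lf (nat_lit 76) (nat_lit 1392994312) (nat_lit 0) (nat_lit 4398395999) (nat_lit 836) (nat_lit 49673155886) (nat_lit 101) (nat_lit 5) (nat_lit 100) (nat_lit 3) (nat_lit 111) (nat_lit 5) (nat_lit 354) (nat_lit 353) (nat_lit 193))))))))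
noncomputable def xc219 : XT := (XT.nd (nat_lit 1872) (nat_lit 2432) (nat_lit 0) (XT.nd (nat_lit 936) (nat_lit 2356) (nat_lit 0) (XT.nd (nat_lit 468) (nat_lit 456) (nat_lit 0) (XT.nd (nat_lit 234) (nat_lit 0) (nat_lit 76) (XT.nd (nat_lit 78) (nat_lit 0) (nat_lit 0) (XT.lf (nat_lit 0) (nat_lit 6748959039) (nat_lit 760) (nat_lit 28055180492) (nat_lit 836) (nat_lit 22040355620) (nat_lit 101) (nat_lit 5) (nat_lit 111) (nat_lit 5) (nat_lit 112) (nat_lit 5) (nat_lit 355) (nat_lit 353) (nat_lit 192)) (XT.nd (nat_lit 78) (nat_lit 0) (nat_lit 76) (XT.lf (nat_lit 0) (nat_lit 7825191697) (nat_lit 760) (nat_lit 810888220) (nat_lit 836) (nat_lit 49653823753) (nat_lit 101) (nat_lit 5) (nat_lit 111) (nat_lit 5) (nat_lit 112) (nat_lit 5) (nat_lit 356) (nat_lit 353) (nat_lit 191)) (XT.lf (nat_lit 0) (nat_lit 9703791959) (nat_lit 760) (nat_lit 31372852512) (nat_lit 836) (nat_lit 18693511670) (nat_lit 102)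 (nat_lit 5) (nat_lit 112) (nat_lit 5) (nat_lit 113) (nat_lit 5) (nat_lit 357) (nat_lit 353) (nat_lit 190)))) (XT.nd (nat_lit 78) (nat_lit 0) (nat_lit 76) (XT.lf (nat_lit 0) (nat_lit 11830654197) (nat_lit 760) (nat_lit 2372289372) (nat_lit 836) (nat_lit 47113762331) (nat_lit 102) (nat_lit 5) (nat_lit 112) (nat_lit 5) (nat_lit 113) (nat_lit 5) (nat_lit 358) (nat_lit 353) (nat_lit 189)) (XT.nd (nat_lit 78) (nat_lit 0) (nat_lit 0) (XT.lf (nat_lit 0) (nat_lit 14741813572) (nat_lit 760) (nat_lit 34138334233) (nat_lit 836) (nat_lit 14026538842) (nat_lit 103) (nat_lit 5) (nat_lit 113) (nat_lit 5) (nat_lit 114) (nat_lit 5) (nat_lit 359) (nat_lit 353) (nat_lit 188)) (XT.lf (nat_lit 0) (nat_lit 18071104614) (nat_lit 760) (nat_lit 3260086820) (nat_lit 836) (nat_lit 43231347456) (nat_lit 103) (nat_lit 5) (nat_lit 113) (nat_lit 5) (nat_lit 114) (nat_lit 5) (nat_lit 360) (nat_lit 353) (nat_lit 187)))))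 (XT.nd (nat_lit 234) (nat_lit 684) (nat_lit 0) (XT.nd (nat_lit 78) (nat_lit 0) (nat_lit 0) (XT.lf (nat_lit 0) (nat_lit 22162457025) (nat_lit 760) (nat_lit 36278523212) (nat_lit 836) (nat_lit 7830424759) (nat_lit 104) (nat_lit 5) (nat_lit 114) (nat_lit 5) (nat_lit 115) (nat_lit 5) (nat_lit 361) (nat_lit 353) (nat_lit 186)) (XT.nd (nat_lit 78) (nat_lit 0) (nat_lit 0) (XT.lf (nat_lit 0) (nat_lit 26863182575) (nat_lit 760) (nat_lit 3392694417) (nat_lit 836) (nat_lit 37789598175) (nat_lit 104) (nat_lit 5) (nat_lit 114) (nat_lit 5) (nat_lit 115) (nat_lit 5) (nat_lit 362) (nat_lit 353) (nat_lit 185)) (XT.lf (nat_lit 76) (nat_lit 32166157573) (nat_lit 0) (nat_lit 134036037) (nat_lit 836) (nat_lit 37582993767) (nat_lit 105) (nat_lit 5) (nat_lit 104) (nat_lit 5) (nat_lit 115) (nat_lit 5) (nat_lit 363) (nat_lit 353) (nat_lit 184)))) (XT.nd (nat_lit 78) (nat_lit 760) (nat_lit 0) (XT.lf (nat_lit 0)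 (nat_lit 38558243060) (nat_lit 760) (nat_lit 2682646209) (nat_lit 76) (nat_lit 30544437475) (nat_lit 105) (nat_lit 5) (nat_lit 115) (nat_lit 5) (nat_lit 106) (nat_lit 5) (nat_lit 364) (nat_lit 353) (nat_lit 183)) (XT.nd (nat_lit 78) (nat_lit 0) (nat_lit 0) (XT.lf (nat_lit 0) (nat_lit 35227991359) (nat_lit 760) (nat_lit 10452533400) (nat_lit 836) (nat_lit 28074482729) (nat_lit 95) (nat_lit 5) (nat_lit 105) (nat_lit 5) (nat_lit 106) (nat_lit 5) (nat_lit 365) (nat_lit 353) (nat_lit 182)) (XT.lf (nat_lit 0) (nat_lit 53545786643) (nat_lit 836) (nat_lit 1036698318) (nat_lit 76) (nat_lit 21221344858) (nat_lit 95) (nat_lit 5) (nat_lit 106) (nat_lit 5) (nat_lit 96) (nat_lit 5) (nat_lit 366) (nat_lit 353) (nat_lit 181)))))) (XT.nd (nat_lit 468) (nat_lit 912) (nat_lit 0) (XT.nd (nat_lit 234) (nat_lit 684) (nat_lit 0) (XT.nd (nat_lit 78) (nat_lit 380) (nat_lit 0) (XT.lf (nat_lit 0) (nat_lit 39417615796)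 (nat_lit 380) (nat_lit 23172664088) (nat_lit 456) (nat_lit 15325515782) (nat_lit 90) (nat_lit 5) (nat_lit 95) (nat_lit 5) (nat_lit 96) (nat_lit 5) (nat_lit 367) (nat_lit 353) (nat_lit 180)) (XT.nd (nat_lit 78) (nat_lit 76) (nat_lit 0) (XT.lf (nat_lit 0) (nat_lit 1698295028) (nat_lit 304) (nat_lit 70585409970) (nat_lit 380) (nat_lit 7839820221) (nat_lit 86) (nat_lit 5) (nat_lit 90) (nat_lit 5) (nat_lit 91) (nat_lit 5) (nat_lit 368) (nat_lit 353) (nat_lit 179)) (XT.lf (nat_lit 0) (nat_lit 1061302210) (nat_lit 380) (nat_lit 37559578097) (nat_lit 76) (nat_lit 43768656541) (nat_lit 85) (nat_lit 5) (nat_lit 90) (nat_lit 5) (nat_lit 86) (nat_lit 5) (nat_lit 369) (nat_lit 353) (nat_lit 178)))) (XT.nd (nat_lit 78) (nat_lit 304) (nat_lit 0) (XT.lf (nat_lit 0) (nat_lit 5392655637) (nat_lit 380) (nat_lit 4834820716) (nat_lit 456) (nat_lit 74530774044) (nat_lit 80) (nat_lit 5) (nat_lit 85) (nat_lit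 5) (nat_lit 86) (nat_lit 5) (nat_lit 370) (nat_lit 353) (nat_lit 177)) (XT.nd (nat_lit 78) (nat_lit 304) (nat_lit 0) (XT.lf (nat_lit 0) (nat_lit 20976153623) (nat_lit 456) (nat_lit 35906723260) (nat_lit 76) (nat_lit 30306313656) (nat_lit 80) (nat_lit 5) (nat_lit 86) (nat_lit 5) (nat_lit 81) (nat_lit 5) (nat_lit 371) (nat_lit 353) (nat_lit 176)) (XT.lf (nat_lit 0) (nat_lit 9963979663) (nat_lit 304) (nat_lit 22532436155) (nat_lit 380) (nat_lit 57233554926) (nat_lit 76) (nat_lit 5) (nat_lit 80) (nat_lit 5) (nat_lit 81) (nat_lit 5) (nat_lit 372) (nat_lit 353) (nat_lit 175))))) (XT.nd (nat_lit 234) (nat_lit 608) (nat_lit 0) (XT.nd (nat_lit 78) (nat_lit 304) (nat_lit 0) (XT.lf (nat_lit 0) (nat_lit 45421430108) (nat_lit 380) (nat_lit 33214645128) (nat_lit 76) (nat_lit 13720278350) (nat_lit 76) (nat_lit 5) (nat_lit 81) (nat_lit 5) (nat_lit 77) (nat_lit 5) (nat_lit 373) (nat_lit 353) (nat_lit 174))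 (XT.nd (nat_lit 78) (nat_lit 0) (nat_lit 0) (XT.lf (nat_lit 0) (nat_lit 15799832646) (nat_lit 304) (nat_lit 43808302461) (nat_lit 380) (nat_lit 35475149016) (nat_lit 72) (nat_lit 5) (nat_lit 76) (nat_lit 5) (nat_lit 77) (nat_lit 5) (nat_lit 374) (nat_lit 353) (nat_lit 173)) (XT.lf (nat_lit 0) (nat_lit 68417439203) (nat_lit 304) (nat_lit 6648636636) (nat_lit 380) (nat_lit 22852390845) (nat_lit 72) (nat_lit 5) (nat_lit 76) (nat_lit 5) (nat_lit 77) (nat_lit 5) (nat_lit 375) (nat_lit 353) (nat_lit 172)))) (XT.nd (nat_lit 78) (nat_lit 380) (nat_lit 0) (XT.lf (nat_lit 0) (nat_lit 23000583891) (nat_lit 228) (nat_lit 69160225640) (nat_lit 304) (nat_lit 8691404548) (nat_lit 69) (nat_lit 5) (nat_lit 72) (nat_lit 5) (nat_lit 73) (nat_lit 5) (nat_lit 376) (nat_lit 353) (nat_lit 171)) (XT.nd (nat_lit 78) (nat_lit 304) (nat_lit 0) (XT.lf (nat_lit 0) (nat_lit 6596134990) (nat_lit 304) (nat_lit 24970550630)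 (nat_lit 76) (nat_lit 72330329834) (nat_lit 68) (nat_lit 5) (nat_lit 72) (nat_lit 5) (nat_lit 69) (nat_lit 5) (nat_lit 377) (nat_lit 353) (nat_lit 170)) (XT.lf (nat_lit 0) (nat_lit 22979742722) (nat_lit 380) (nat_lit 75779311451) (nat_lit 76) (nat_lit 8296690083) (nat_lit 64) (nat_lit 5) (nat_lit 69) (nat_lit 5) (nat_lit 65) (nat_lit 5) (nat_lit 378) (nat_lit 353) (nat_lit 169))))))) (XT.nd (nat_lit 936) (nat_lit 988) (nat_lit 0) (XT.nd (nat_lit 468) (nat_lit 684) (nat_lit 0) (XT.nd (nat_lit 234) (nat_lit 532) (nat_lit 0) (XT.nd (nat_lit 78) (nat_lit 228) (nat_lit 0) (XT.lf (nat_lit 0) (nat_lit 41129306527) (nat_lit 380) (nat_lit 19673708872) (nat_lit 76) (nat_lit 49522055727) (nat_lit 64) (nat_lit 5) (nat_lit 69) (nat_lit 5) (nat_lit 65) (nat_lit 5) (nat_lit 379) (nat_lit 353) (nat_lit 168)) (XT.nd (nat_lit 78) (nat_lit 0) (nat_lit 0) (XT.lf (nat_lit 0) (nat_lit 40533832380) (nat_lit 228)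 (nat_lit 20284856273) (nat_lit 304) (nat_lit 52907559070) (nat_lit 61) (nat_lit 5) (nat_lit 64) (nat_lit 5) (nat_lit 65) (nat_lit 5) (nat_lit 380) (nat_lit 353) (nat_lit 167)) (XT.lf (nat_lit 0) (nat_lit 82178218782) (nat_lit 304) (nat_lit 13199725826) (nat_lit 76) (nat_lit 21885254971) (nat_lit 61) (nat_lit 5) (nat_lit 65) (nat_lit 5) (nat_lit 62) (nat_lit 5) (nat_lit 381) (nat_lit 353) (nat_lit 166)))) (XT.nd (nat_lit 78) (nat_lit 304) (nat_lit 0) (XT.lf (nat_lit 0) (nat_lit 51094754967) (nat_lit 228) (nat_lit 54640769418) (nat_lit 304) (nat_lit 15184985048) (nat_lit 58) (nat_lit 5) (nat_lit 61) (nat_lit 5) (nat_lit 62) (nat_lit 5) (nat_lit 382) (nat_lit 353) (nat_lit 165)) (XT.nd (nat_lit 78) (nat_lit 228) (nat_lit 0) (XT.lf (nat_lit 0) (nat_lit 5753995451) (nat_lit 304) (nat_lit 5780758059) (nat_lit 76) (nat_lit 113210137081) (nat_lit 57) (nat_lit 5) (nat_lit 61) (nat_lit 5) (nat_lit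 58) (nat_lit 5) (nat_lit 383) (nat_lit 353) (nat_lit 164)) (XT.lf (nat_lit 0) (nat_lit 28763365045) (nat_lit 304) (nat_lit 66004496320) (nat_lit 76) (nat_lit 33903495282) (nat_lit 54) (nat_lit 5) (nat_lit 58) (nat_lit 5) (nat_lit 55) (nat_lit 5) (nat_lit 384) (nat_lit 353) (nat_lit 163))))) (XT.nd (nat_lit 234) (nat_lit 304) (nat_lit 0) (XT.nd (nat_lit 78) (nat_lit 152) (nat_lit 0) (XT.lf (nat_lit 0) (nat_lit 1815059011) (nat_lit 228) (nat_lit 51424644887) (nat_lit 304) (nat_lit 79538617360) (nat_lit 51) (nat_lit 5) (nat_lit 54) (nat_lit 5) (nat_lit 55) (nat_lit 5) (nat_lit 385) (nat_lit 353) (nat_lit 162)) (XT.nd (nat_lit 78) (nat_lit 152) (nat_lit 0) (XT.lf (nat_lit 0) (nat_lit 75316491010) (nat_lit 228) (nat_lit 4740761199) (nat_lit 304) (nat_lit 56977512544) (nat_lit 51) (nat_lit 5) (nat_lit 54) (nat_lit 5) (nat_lit 55) (nat_lit 5) (nat_lit 386) (nat_lit 353) (nat_lit 161)) (XT.lf (nat_lit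 0) (nat_lit 10637522565) (nat_lit 152) (nat_lit 98435121594) (nat_lit 228) (nat_lit 32388538218) (nat_lit 49) (nat_lit 5) (nat_lit 51) (nat_lit 5) (nat_lit 52) (nat_lit 5) (nat_lit 387) (nat_lit 353) (nat_lit 160)))) (XT.nd (nat_lit 78) (nat_lit 304) (nat_lit 0) (XT.lf (nat_lit 0) (nat_lit 88672934864) (nat_lit 152) (nat_lit 51987165230) (nat_lit 228) (nat_lit 5392756319) (nat_lit 49) (nat_lit 5) (nat_lit 51) (nat_lit 5) (nat_lit 52) (nat_lit 5) (nat_lit 388) (nat_lit 353) (nat_lit 159)) (XT.nd (nat_lit 78) (nat_lit 0) (nat_lit 0) (XT.lf (nat_lit 0) (nat_lit 20017748862) (nat_lit 228) (nat_lit 2512579743) (nat_lit 304) (nat_lit 128310260521) (nat_lit 45) (nat_lit 5) (nat_lit 48) (nat_lit 5) (nat_lit 49) (nat_lit 5) (nat_lit 389) (nat_lit 353) (nat_lit 158)) (XT.lf (nat_lit 0) (nat_lit 53427473654) (nat_lit 304) (nat_lit 53418479502) (nat_lit 76) (nat_lit 48929378351) (nat_lit 45) (nat_lit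 5) (nat_lit 49) (nat_lit 5) (nat_lit 46) (nat_lit 5) (nat_lit 390) (nat_lit 353) (nat_lit 157)))))) (XT.nd (nat_lit 468) (nat_lit 456) (nat_lit 0) (XT.nd (nat_lit 234) (nat_lit 228) (nat_lit 0) (XT.nd (nat_lit 78) (nat_lit 152) (nat_lit 0) (XT.lf (nat_lit 0) (nat_lit 28734009286) (nat_lit 152) (nat_lit 57624913303) (nat_lit 228) (nat_lit 74573416293) (nat_lit 43) (nat_lit 5) (nat_lit 45) (nat_lit 5) (nat_lit 46) (nat_lit 5) (nat_lit 391) (nat_lit 353) (nat_lit 156)) (XT.nd (nat_lit 78) (nat_lit 152) (nat_lit 0) (XT.lf (nat_lit 0) (nat_lit 116848132736) (nat_lit 152) (nat_lit 4993125921) (nat_lit 228) (nat_lit 44460722433) (nat_lit 43) (nat_lit 5) (nat_lit 45) (nat_lit 5) (nat_lit 46) (nat_lit 5) (nat_lit 392) (nat_lit 353) (nat_lit 155)) (XT.lf (nat_lit 0) (nat_lit 37854016272) (nat_lit 152) (nat_lit 122619222676) (nat_lit 228) (nat_lit 11398090277) (nat_lit 41) (nat_lit 5) (nat_lit 43)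 (nat_lit 5) (nat_lit 44) (nat_lit 5) (nat_lit 393) (nat_lit 353) (nat_lit 154)))) (XT.nd (nat_lit 78) (nat_lit 152) (nat_lit 0) (XT.lf (nat_lit 0) (nat_lit 23504134408) (nat_lit 228) (nat_lit 46893255733) (nat_lit 76) (nat_lit 107256913481) (nat_lit 40) (nat_lit 5) (nat_lit 43) (nat_lit 5) (nat_lit 41) (nat_lit 5) (nat_lit 394) (nat_lit 353) (nat_lit 153)) (XT.nd (nat_lit 78) (nat_lit 0) (nat_lit 0) (XT.lf (nat_lit 0) (nat_lit 45867680133) (nat_lit 152) (nat_lit 14616541513) (nat_lit 228) (nat_lit 123197072464) (nat_lit 38) (nat_lit 5) (nat_lit 40) (nat_lit 5) (nat_lit 41) (nat_lit 5) (nat_lit 395) (nat_lit 353) (nat_lit 152)) (XT.lf (nat_lit 0) (nat_lit 100806410208) (nat_lit 228) (nat_lit 45775016145) (nat_lit 76) (nat_lit 43353553076) (nat_lit 38) (nat_lit 5) (nat_lit 41) (nat_lit 5) (nat_lit 39) (nat_lit 5) (nat_lit 396) (nat_lit 353) (nat_lit 151))))) (XT.nd (nat_lit 234) (nat_lit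 152) (nat_lit 0) (XT.nd (nat_lit 78) (nat_lit 152) (nat_lit 0) (XT.lf (nat_lit 0) (nat_lit 52299298615) (nat_lit 152) (nat_lit 91901261735) (nat_lit 228) (nat_lit 52247996202) (nat_lit 36) (nat_lit 5) (nat_lit 38) (nat_lit 5) (nat_lit 39) (nat_lit 5) (nat_lit 397) (nat_lit 353) (nat_lit 150)) (XT.nd (nat_lit 78) (nat_lit 152) (nat_lit 0) (XT.lf (nat_lit 0) (nat_lit 156866040704) (nat_lit 152) (nat_lit 33673304112) (nat_lit 228) (nat_lit 12709721518) (nat_lit 36) (nat_lit 5) (nat_lit 38) (nat_lit 5) (nat_lit 39) (nat_lit 5) (nat_lit 398) (nat_lit 353) (nat_lit 149)) (XT.lf (nat_lit 0) (nat_lit 29234521207) (nat_lit 152) (nat_lit 153106054605) (nat_lit 76) (nat_lit 27958988757) (nat_lit 34) (nat_lit 5) (nat_lit 36) (nat_lit 5) (nat_lit 35) (nat_lit 5) (nat_lit 399) (nat_lit 353) (nat_lit 148)))) (XT.nd (nat_lit 78) (nat_lit 152) (nat_lit 0) (XT.lf (nat_lit 0) (nat_lit 74198981137) (nat_lit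 152) (nat_lit 50877863394) (nat_lit 76) (nat_lit 92547818751) (nat_lit 34) (nat_lit 5) (nat_lit 36) (nat_lit 5) (nat_lit 35) (nat_lit 5) (nat_lit 400) (nat_lit 353) (nat_lit 147)) (XT.nd (nat_lit 78) (nat_lit 0) (nat_lit 0) (XT.lf (nat_lit 0) (nat_lit 58328142145) (nat_lit 152) (nat_lit 63993918473) (nat_lit 228) (nat_lit 102948436598) (nat_lit 32) (nat_lit 5) (nat_lit 34) (nat_lit 5) (nat_lit 35) (nat_lit 5) (nat_lit 401) (nat_lit 353) (nat_lit 146)) (XT.lf (nat_lit 0) (nat_lit 173729029201) (nat_lit 228) (nat_lit 58511551550) (nat_lit 76) (nat_lit 1014155451) (nat_lit 32) (nat_lit 5) (nat_lit 35) (nat_lit 5) (nat_lit 33) (nat_lit 4) (nat_lit 402) (nat_lit 353) (nat_lit 145))))))))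
noncomputable def xc220 : XT := (XT.nd (nat_lit 43056) (nat_lit 0) (nat_lit 4028) (XT.nd (nat_lit 858) (nat_lit 532) (nat_lit 0) (XT.nd (nat_lit 390) (nat_lit 304) (nat_lit 0) (XT.nd (nat_lit 156) (nat_lit 228) (nat_lit 0) (XT.nd (nat_lit 78) (nat_lit 76) (nat_lit 0) (XT.lf (nat_lit 0) (nat_lit 56086385198) (nat_lit 76) (nat_lit 173544453578) (nat_lit 152) (nat_lit 11911123839) (nat_lit 31) (nat_lit 5) (nat_lit 32) (nat_lit 5) (nat_lit 33) (nat_lit 4) (nat_lit 403) (nat_lit 353) (nat_lit 144)) (XT.lf (nat_lit 0) (nat_lit 37872170078) (nat_lit 152) (nat_lit 72359684317) (nat_lit 76) (nat_lit 139931620328) (nat_lit 30) (nat_lit 5) (nat_lit 32) (nat_lit 5) (nat_lit 31) (nat_lit 5) (nat_lit 404) (nat_lit 353) (nat_lit 143))) (XT.nd (nat_lit 78) (nat_lit 76) (nat_lit 0) (XT.lf (nat_lit 0) (nat_lit 47722743761) (nat_lit 152) (nat_lit 42766438283) (nat_lit 228) (nat_lit 168679875006) (nat_lit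 28) (nat_lit 5) (nat_lit 30) (nat_lit 5) (nat_lit 31) (nat_lit 5) (nat_lit 405) (nat_lit 353) (nat_lit 142)) (XT.nd (nat_lit 78) (nat_lit 76) (nat_lit 0) (XT.lf (nat_lit 0) (nat_lit 147420628271) (nat_lit 228) (nat_lit 92700987313) (nat_lit 76) (nat_lit 28419123812) (nat_lit 28) (nat_lit 5) (nat_lit 31) (nat_lit 5) (nat_lit 29) (nat_lit 4) (nat_lit 406) (nat_lit 353) (nat_lit 141)) (XT.lf (nat_lit 0) (nat_lit 32314374292) (nat_lit 76) (nat_lit 176089652602) (nat_lit 152) (nat_lit 69916710045) (nat_lit 27) (nat_lit 5) (nat_lit 28) (nat_lit 5) (nat_lit 29) (nat_lit 4) (nat_lit 407) (nat_lit 353) (nat_lit 140))))) (XT.nd (nat_lit 234) (nat_lit 76) (nat_lit 0) (XT.nd (nat_lit 78) (nat_lit 228) (nat_lit 0) (XT.lf (nat_lit 0) (nat_lit 166798476138) (nat_lit 76) (nat_lit 107207832990) (nat_lit 152) (nat_lit 14504939624) (nat_lit 27) (nat_lit 5) (nat_lit 28) (nat_lit 5) (nat_lit 29) (nat_lit 4)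 (nat_lit 408) (nat_lit 353) (nat_lit 139)) (XT.nd (nat_lit 78) (nat_lit 0) (nat_lit 0) (XT.lf (nat_lit 0) (nat_lit 8381443439) (nat_lit 152) (nat_lit 34028668161) (nat_lit 228) (nat_lit 256760546158) (nat_lit 24) (nat_lit 5) (nat_lit 26) (nat_lit 5) (nat_lit 27) (nat_lit 5) (nat_lit 409) (nat_lit 353) (nat_lit 138)) (XT.lf (nat_lit 0) (nat_lit 104446672155) (nat_lit 228) (nat_lit 161994350616) (nat_lit 76) (nat_lit 43771964322) (nat_lit 24) (nat_lit 5) (nat_lit 27) (nat_lit 5) (nat_lit 25) (nat_lit 4) (nat_lit 410) (nat_lit 353) (nat_lit 137)))) (XT.nd (nat_lit 78) (nat_lit 76) (nat_lit 0) (XT.lf (nat_lit 0) (nat_lit 170142704299) (nat_lit 228) (nat_lit 27317959202) (nat_lit 76) (nat_lit 124318887280) (nat_lit 24) (nat_lit 5) (nat_lit 27) (nat_lit 5) (nat_lit 25) (nat_lit 4) (nat_lit 411) (nat_lit 353) (nat_lit 136)) (XT.nd (nat_lit 78) (nat_lit 0) (nat_lit 0) (XT.lf (nat_lit 0) (nat_lit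 117864294368) (nat_lit 76) (nat_lit 123099241861) (nat_lit 152) (nat_lit 92868906578) (nat_lit 23) (nat_lit 5) (nat_lit 24) (nat_lit 5) (nat_lit 25) (nat_lit 4) (nat_lit 412) (nat_lit 353) (nat_lit 135)) (XT.lf (nat_lit 0) (nat_lit 271253733225) (nat_lit 76) (nat_lit 44534129455) (nat_lit 152) (nat_lit 30676994165) (nat_lit 23) (nat_lit 5) (nat_lit 24) (nat_lit 5) (nat_lit 25) (nat_lit 4) (nat_lit 413) (nat_lit 353) (nat_lit 134)))))) (XT.nd (nat_lit 468) (nat_lit 152) (nat_lit 0) (XT.nd (nat_lit 234) (nat_lit 152) (nat_lit 0) (XT.nd (nat_lit 78) (nat_lit 76) (nat_lit 0) (XT.lf (nat_lit 0) (nat_lit 35298669109) (nat_lit 152) (nat_lit 285839437987) (nat_lit 76) (nat_lit 38474637461) (nat_lit 21) (nat_lit 5) (nat_lit 23) (nat_lit 5) (nat_lit 22) (nat_lit 4) (nat_lit 414) (nat_lit 353) (nat_lit 133)) (XT.nd (nat_lit 78) (nat_lit 76) (nat_lit 0) (XT.lf (nat_lit 0) (nat_lit 105566670154) (nat_lit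 152) (nat_lit 141790407612) (nat_lit 76) (nat_lit 125934578724) (nat_lit 21) (nat_lit 5) (nat_lit 23) (nat_lit 5) (nat_lit 22) (nat_lit 4) (nat_lit 415) (nat_lit 353) (nat_lit 132)) (XT.lf (nat_lit 0) (nat_lit 9773569272) (nat_lit 76) (nat_lit 169726920857) (nat_lit 152) (nat_lit 208146402995) (nat_lit 20) (nat_lit 5) (nat_lit 21) (nat_lit 5) (nat_lit 22) (nat_lit 4) (nat_lit 416) (nat_lit 353) (nat_lit 131)))) (XT.nd (nat_lit 78) (nat_lit 152) (nat_lit 0) (XT.lf (nat_lit 0) (nat_lit 173838072684) (nat_lit 76) (nat_lit 85694047014) (nat_lit 152) (nat_lit 143067716007) (nat_lit 20) (nat_lit 5) (nat_lit 21) (nat_lit 5) (nat_lit 22) (nat_lit 4) (nat_lit 417) (nat_lit 353) (nat_lit 130)) (XT.nd (nat_lit 78) (nat_lit 152) (nat_lit 0) (XT.lf (nat_lit 0) (nat_lit 343604830018) (nat_lit 152) (nat_lit 72234594122) (nat_lit 0) (nat_lit 2459026355) (nat_lit 20) (nat_lit 5) (nat_lit 22) (nat_lit 4)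 (nat_lit 20) (nat_lit 4) (nat_lit 418) (nat_lit 353) (nat_lit 129)) (XT.lf (nat_lit 0) (nat_lit 106826932) (nat_lit 152) (nat_lit 340927099740) (nat_lit 76) (nat_lit 93604593752) (nat_lit 18) (nat_lit 5) (nat_lit 20) (nat_lit 5) (nat_lit 19) (nat_lit 4) (nat_lit 419) (nat_lit 353) (nat_lit 128))))) (XT.nd (nat_lit 234) (nat_lit 76) (nat_lit 0) (XT.nd (nat_lit 78) (nat_lit 76) (nat_lit 0) (XT.lf (nat_lit 0) (nat_lit 77380327302) (nat_lit 152) (nat_lit 182516701402) (nat_lit 76) (nat_lit 191775179602) (nat_lit 18) (nat_lit 5) (nat_lit 20) (nat_lit 5) (nat_lit 19) (nat_lit 4) (nat_lit 420) (nat_lit 353) (nat_lit 127)) (XT.nd (nat_lit 78) (nat_lit 76) (nat_lit 0) (XT.lf (nat_lit 0) (nat_lit 158517353805) (nat_lit 152) (nat_lit 16186061278) (nat_lit 76) (nat_lit 294854172979) (nat_lit 18) (nat_lit 5) (nat_lit 20) (nat_lit 5) (nat_lit 19) (nat_lit 4) (nat_lit 421) (nat_lit 353) (nat_lit 126))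 (XT.lf (nat_lit 0) (nat_lit 163700277162) (nat_lit 76) (nat_lit 82566632774) (nat_lit 152) (nat_lit 241942542990) (nat_lit 17) (nat_lit 5) (nat_lit 18) (nat_lit 5) (nat_lit 19) (nat_lit 4) (nat_lit 422) (nat_lit 353) (nat_lit 125)))) (XT.nd (nat_lit 78) (nat_lit 76) (nat_lit 0) (XT.lf (nat_lit 0) (nat_lit 338903757920) (nat_lit 152) (nat_lit 154863431049) (nat_lit 0) (nat_lit 14001731393) (nat_lit 17) (nat_lit 5) (nat_lit 19) (nat_lit 4) (nat_lit 17) (nat_lit 4) (nat_lit 423) (nat_lit 353) (nat_lit 124)) (XT.nd (nat_lit 78) (nat_lit 0) (nat_lit 0) (XT.lf (nat_lit 0) (nat_lit 22635266375) (nat_lit 76) (nat_lit 415243998934) (nat_lit 76) (nat_lit 90341755042) (nat_lit 16) (nat_lit 4) (nat_lit 17) (nat_lit 5) (nat_lit 17) (nat_lit 4) (nat_lit 424) (nat_lit 353) (nat_lit 123)) (XT.lf (nat_lit 0) (nat_lit 214385158335) (nat_lit 76) (nat_lit 330040945086) (nat_lit 76) (nat_lit 5138494180) (nat_lit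 16) (nat_lit 4) (nat_lit 17) (nat_lit 5) (nat_lit 17) (nat_lit 4) (nat_lit 425) (nat_lit 353) (nat_lit 122))))))) (XT.nd (nat_lit 936) (nat_lit 2356) (nat_lit 0) (XT.nd (nat_lit 468) (nat_lit 0) (nat_lit 228) (XT.nd (nat_lit 234) (nat_lit 0) (nat_lit 76) (XT.nd (nat_lit 78) (nat_lit 0) (nat_lit 0) (XT.lf (nat_lit 0) (nat_lit 2965388996) (nat_lit 836) (nat_lit 12721658438) (nat_lit 836) (nat_lit 12721658438) (nat_lit 100) (nat_lit 3) (nat_lit 111) (nat_lit 3) (nat_lit 111) (nat_lit 5) (nat_lit 354) (nat_lit 354) (nat_lit 192)) (XT.nd (nat_lit 78) (nat_lit 0) (nat_lit 76) (XT.lf (nat_lit 76) (nat_lit 1484647611) (nat_lit 0) (nat_lit 4637185162) (nat_lit 836) (nat_lit 52113854302) (nat_lit 101) (nat_lit 5) (nat_lit 100) (nat_lit 3) (nat_lit 111) (nat_lit 5) (nat_lit 355) (nat_lit 354) (nat_lit 191)) (XT.lf (nat_lit 0) (nat_lit 7125053033) (nat_lit 760) (nat_lit 29434716071) (nat_lit 836) (nat_lit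 23124977757) (nat_lit 101) (nat_lit 5) (nat_lit 111) (nat_lit 5) (nat_lit 112) (nat_lit 5) (nat_lit 356) (nat_lit 354) (nat_lit 190)))) (XT.nd (nat_lit 78) (nat_lit 0) (nat_lit 76) (XT.lf (nat_lit 0) (nat_lit 8253257036) (nat_lit 760) (nat_lit 829315063) (nat_lit 836) (nat_lit 52119947661) (nat_lit 101) (nat_lit 5) (nat_lit 111) (nat_lit 5) (nat_lit 112) (nat_lit 5) (nat_lit 357) (nat_lit 354) (nat_lit 189)) (XT.nd (nat_lit 78) (nat_lit 0) (nat_lit 0) (XT.lf (nat_lit 0) (nat_lit 10224161570) (nat_lit 760) (nat_lit 32917714871) (nat_lit 836) (nat_lit 19614991550) (nat_lit 102) (nat_lit 5) (nat_lit 112) (nat_lit 5) (nat_lit 113) (nat_lit 5) (nat_lit 358) (nat_lit 354) (nat_lit 188)) (XT.lf (nat_lit 0) (nat_lit 12455691681) (nat_lit 760) (nat_lit 2468255967) (nat_lit 836) (nat_lit 49456883110) (nat_lit 102) (nat_lit 5) (nat_lit 112) (nat_lit 5) (nat_lit 113) (nat_lit 5) (nat_lit 359) (nat_lit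 354) (nat_lit 187))))) (XT.nd (nat_lit 234) (nat_lit 0) (nat_lit 76) (XT.nd (nat_lit 78) (nat_lit 0) (nat_lit 0) (XT.lf (nat_lit 0) (nat_lit 15511005721) (nat_lit 760) (nat_lit 35821166246) (nat_lit 836) (nat_lit 14718210417) (nat_lit 103) (nat_lit 5) (nat_lit 113) (nat_lit 5) (nat_lit 114) (nat_lit 5) (nat_lit 360) (nat_lit 354) (nat_lit 186)) (XT.nd (nat_lit 78) (nat_lit 0) (nat_lit 76) (XT.lf (nat_lit 0) (nat_lit 19005232674) (nat_lit 760) (nat_lit 3400153352) (nat_lit 836) (nat_lit 45383719242) (nat_lit 103) (nat_lit 5) (nat_lit 113) (nat_lit 5) (nat_lit 114) (nat_lit 5) (nat_lit 361) (nat_lit 354) (nat_lit 185)) (XT.lf (nat_lit 0) (nat_lit 23299941452) (nat_lit 760) (nat_lit 38068269905) (nat_lit 836) (nat_lit 8215265405) (nat_lit 104) (nat_lit 5) (nat_lit 114) (nat_lit 5) (nat_lit 115) (nat_lit 5) (nat_lit 362) (nat_lit 354) (nat_lit 184)))) (XT.nd (nat_lit 78) (nat_lit 0) (nat_lit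 0) (XT.lf (nat_lit 0) (nat_lit 28234305110) (nat_lit 760) (nat_lit 3539301073) (nat_lit 836) (nat_lit 39672715615) (nat_lit 104) (nat_lit 5) (nat_lit 114) (nat_lit 5) (nat_lit 115) (nat_lit 5) (nat_lit 363) (nat_lit 354) (nat_lit 183)) (XT.nd (nat_lit 78) (nat_lit 0) (nat_lit 76) (XT.lf (nat_lit 76) (nat_lit 33797122095) (nat_lit 0) (nat_lit 145066743) (nat_lit 836) (nat_lit 39433781051) (nat_lit 105) (nat_lit 5) (nat_lit 104) (nat_lit 5) (nat_lit 115) (nat_lit 5) (nat_lit 364) (nat_lit 354) (nat_lit 182)) (XT.lf (nat_lit 0) (nat_lit 40511791368) (nat_lit 760) (nat_lit 2793825104) (nat_lit 76) (nat_lit 32067668536) (nat_lit 105) (nat_lit 5) (nat_lit 115) (nat_lit 5) (nat_lit 106) (nat_lit 5) (nat_lit 365) (nat_lit 354) (nat_lit 181)))))) (XT.nd (nat_lit 468) (nat_lit 836) (nat_lit 0) (XT.nd (nat_lit 234) (nat_lit 760) (nat_lit 0) (XT.nd (nat_lit 78) (nat_lit 380) (nat_lit 0) (XT.lf (nat_lit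 0) (nat_lit 37011974126) (nat_lit 760) (nat_lit 10977344843) (nat_lit 836) (nat_lit 29452175480) (nat_lit 95) (nat_lit 5) (nat_lit 105) (nat_lit 5) (nat_lit 106) (nat_lit 5) (nat_lit 366) (nat_lit 354) (nat_lit 180)) (XT.nd (nat_lit 78) (nat_lit 380) (nat_lit 0) (XT.lf (nat_lit 0) (nat_lit 56246632034) (nat_lit 836) (nat_lit 1065789688) (nat_lit 76) (nat_lit 22280397961) (nat_lit 95) (nat_lit 5) (nat_lit 106) (nat_lit 5) (nat_lit 96) (nat_lit 5) (nat_lit 367) (nat_lit 354) (nat_lit 179)) (XT.lf (nat_lit 0) (nat_lit 41410873300) (nat_lit 380) (nat_lit 24331704283) (nat_lit 456) (nat_lit 16067845992) (nat_lit 90) (nat_lit 5) (nat_lit 95) (nat_lit 5) (nat_lit 96) (nat_lit 5) (nat_lit 368) (nat_lit 354) (nat_lit 178)))) (XT.nd (nat_lit 78) (nat_lit 456) (nat_lit 0) (XT.lf (nat_lit 0) (nat_lit 1806374965) (nat_lit 304) (nat_lit 74113569671) (nat_lit 380) (nat_lit 8208632516) (nat_lit 86) (nat_lit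 5) (nat_lit 90) (nat_lit 5) (nat_lit 91) (nat_lit 5) (nat_lit 369) (nat_lit 354) (nat_lit 177)) (XT.nd (nat_lit 78) (nat_lit 380) (nat_lit 0) (XT.lf (nat_lit 0) (nat_lit 1135735752) (nat_lit 380) (nat_lit 39414768783) (nat_lit 76) (nat_lit 45957421134) (nat_lit 85) (nat_lit 5) (nat_lit 90) (nat_lit 5) (nat_lit 86) (nat_lit 5) (nat_lit 370) (nat_lit 354) (nat_lit 176)) (XT.lf (nat_lit 0) (nat_lit 5684709085) (nat_lit 380) (nat_lit 5074842022) (nat_lit 456) (nat_lit 78235558096) (nat_lit 80) (nat_lit 5) (nat_lit 85) (nat_lit 5) (nat_lit 86) (nat_lit 5) (nat_lit 371) (nat_lit 354) (nat_lit 175))))) (XT.nd (nat_lit 234) (nat_lit 532) (nat_lit 0) (XT.nd (nat_lit 78) (nat_lit 304) (nat_lit 0) (XT.lf (nat_lit 0) (nat_lit 22044702053) (nat_lit 456) (nat_lit 37679728443) (nat_lit 76) (nat_lit 31823214756) (nat_lit 80) (nat_lit 5) (nat_lit 86) (nat_lit 5) (nat_lit 81) (nat_lit 5) (nat_lit 372) (nat_lit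 354) (nat_lit 174)) (XT.nd (nat_lit 78) (nat_lit 0) (nat_lit 0) (XT.lf (nat_lit 0) (nat_lit 10484149450) (nat_lit 304) (nat_lit 23656230898) (nat_lit 380) (nat_lit 60075114816) (nat_lit 76) (nat_lit 5) (nat_lit 80) (nat_lit 5) (nat_lit 81) (nat_lit 5) (nat_lit 373) (nat_lit 354) (nat_lit 173)) (XT.lf (nat_lit 0) (nat_lit 47710775783) (nat_lit 380) (nat_lit 34853567115) (nat_lit 76) (nat_lit 14408898535) (nat_lit 76) (nat_lit 5) (nat_lit 81) (nat_lit 5) (nat_lit 77) (nat_lit 5) (nat_lit 374) (nat_lit 354) (nat_lit 172)))) (XT.nd (nat_lit 78) (nat_lit 228) (nat_lit 0) (XT.lf (nat_lit 0) (nat_lit 16611282769) (nat_lit 304) (nat_lit 45994998090) (nat_lit 380) (nat_lit 37230265163) (nat_lit 72) (nat_lit 5) (nat_lit 76) (nat_lit 5) (nat_lit 77) (nat_lit 5) (nat_lit 375) (nat_lit 354) (nat_lit 171)) (XT.nd (nat_lit 78) (nat_lit 228) (nat_lit 0) (XT.lf (nat_lit 0) (nat_lit 71858747822) (nat_lit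 304) (nat_lit 6977526093) (nat_lit 380) (nat_lit 23977256764) (nat_lit 72) (nat_lit 5) (nat_lit 76) (nat_lit 5) (nat_lit 77) (nat_lit 5) (nat_lit 376) (nat_lit 354) (nat_lit 170)) (XT.lf (nat_lit 0) (nat_lit 24171511185) (nat_lit 228) (nat_lit 72613807567) (nat_lit 304) (nat_lit 9108668665) (nat_lit 69) (nat_lit 5) (nat_lit 72) (nat_lit 5) (nat_lit 73) (nat_lit 5) (nat_lit 377) (nat_lit 354) (nat_lit 169))))))))
noncomputable def xc221 : XT := (XT.nd (nat_lit 1794) (nat_lit 1292) (nat_lit 0) (XT.nd (nat_lit 858) (nat_lit 1140) (nat_lit 0) (XT.nd (nat_lit 390) (nat_lit 912) (nat_lit 0) (XT.nd (nat_lit 156) (nat_lit 228) (nat_lit 0) (XT.nd (nat_lit 78) (nat_lit 304) (nat_lit 0) (XT.lf (nat_lit 0) (nat_lit 6941896222) (nat_lit 304) (nat_lit 26198635048) (nat_lit 76) (nat_lit 75950524598) (nat_lit 68) (nat_lit 5) (nat_lit 72) (nat_lit 5) (nat_lit 69) (nat_lit 5) (nat_lit 378) (nat_lit 354)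 (nat_lit 168)) (XT.lf (nat_lit 0) (nat_lit 24144310521) (nat_lit 380) (nat_lit 79547448058) (nat_lit 76) (nat_lit 8715981825) (nat_lit 64) (nat_lit 5) (nat_lit 69) (nat_lit 5) (nat_lit 65) (nat_lit 5) (nat_lit 379) (nat_lit 354) (nat_lit 167))) (XT.nd (nat_lit 78) (nat_lit 228) (nat_lit 0) (XT.lf (nat_lit 0) (nat_lit 43200610580) (nat_lit 380) (nat_lit 20637557205) (nat_lit 76) (nat_lit 52002403502) (nat_lit 64) (nat_lit 5) (nat_lit 69) (nat_lit 5) (nat_lit 65) (nat_lit 5) (nat_lit 380) (nat_lit 354) (nat_lit 166)) (XT.nd (nat_lit 78) (nat_lit 0) (nat_lit 0) (XT.lf (nat_lit 0) (nat_lit 42580041156) (nat_lit 228) (nat_lit 21294018768) (nat_lit 304) (nat_lit 55537767430) (nat_lit 61) (nat_lit 5) (nat_lit 64) (nat_lit 5) (nat_lit 65) (nat_lit 5) (nat_lit 381) (nat_lit 354) (nat_lit 165)) (XT.lf (nat_lit 0) (nat_lit 86300954632) (nat_lit 304) (nat_lit 13840502027) (nat_lit 76) (nat_lit 22984201260)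 (nat_lit 61) (nat_lit 5) (nat_lit 65) (nat_lit 5) (nat_lit 62) (nat_lit 5) (nat_lit 382) (nat_lit 354) (nat_lit 164))))) (XT.nd (nat_lit 234) (nat_lit 380) (nat_lit 0) (XT.nd (nat_lit 78) (nat_lit 304) (nat_lit 0) (XT.lf (nat_lit 0) (nat_lit 53668392966) (nat_lit 228) (nat_lit 57367369306) (nat_lit 304) (nat_lit 15930089651) (nat_lit 58) (nat_lit 5) (nat_lit 61) (nat_lit 5) (nat_lit 62) (nat_lit 5) (nat_lit 383) (nat_lit 354) (nat_lit 163)) (XT.nd (nat_lit 78) (nat_lit 228) (nat_lit 0) (XT.lf (nat_lit 0) (nat_lit 6054735160) (nat_lit 304) (nat_lit 6051355586) (nat_lit 76) (nat_lit 118875383399) (nat_lit 57) (nat_lit 5) (nat_lit 61) (nat_lit 5) (nat_lit 58) (nat_lit 5) (nat_lit 384) (nat_lit 354) (nat_lit 162)) (XT.lf (nat_lit 0) (nat_lit 30214320491) (nat_lit 304) (nat_lit 69286019466) (nat_lit 76) (nat_lit 35603936612) (nat_lit 54) (nat_lit 5) (nat_lit 58) (nat_lit 5) (nat_lit 55) (nat_lit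 5) (nat_lit 385) (nat_lit 354) (nat_lit 161)))) (XT.nd (nat_lit 78) (nat_lit 152) (nat_lit 0) (XT.lf (nat_lit 0) (nat_lit 1924211992) (nat_lit 228) (nat_lit 53989942657) (nat_lit 304) (nat_lit 83502451251) (nat_lit 51) (nat_lit 5) (nat_lit 54) (nat_lit 5) (nat_lit 55) (nat_lit 5) (nat_lit 386) (nat_lit 354) (nat_lit 160)) (XT.nd (nat_lit 78) (nat_lit 152) (nat_lit 0) (XT.lf (nat_lit 0) (nat_lit 79099839399) (nat_lit 228) (nat_lit 4972147379) (nat_lit 304) (nat_lit 59813914859) (nat_lit 51) (nat_lit 5) (nat_lit 54) (nat_lit 5) (nat_lit 55) (nat_lit 5) (nat_lit 387) (nat_lit 354) (nat_lit 159)) (XT.lf (nat_lit 0) (nat_lit 11187144725) (nat_lit 152) (nat_lit 103350799373) (nat_lit 228) (nat_lit 33995706624) (nat_lit 49) (nat_lit 5) (nat_lit 51) (nat_lit 5) (nat_lit 52) (nat_lit 5) (nat_lit 388) (nat_lit 354) (nat_lit 158)))))) (XT.nd (nat_lit 468) (nat_lit 532) (nat_lit 0) (XT.nd (nat_lit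 234) (nat_lit 304) (nat_lit 0) (XT.nd (nat_lit 78) (nat_lit 304) (nat_lit 0) (XT.lf (nat_lit 0) (nat_lit 93123482591) (nat_lit 152) (nat_lit 54580734634) (nat_lit 228) (nat_lit 5650719368) (nat_lit 49) (nat_lit 5) (nat_lit 51) (nat_lit 5) (nat_lit 52) (nat_lit 5) (nat_lit 389) (nat_lit 354) (nat_lit 157)) (XT.nd (nat_lit 78) (nat_lit 0) (nat_lit 0) (XT.lf (nat_lit 0) (nat_lit 21035638922) (nat_lit 228) (nat_lit 2632234525) (nat_lit 304) (nat_lit 134714187333) (nat_lit 45) (nat_lit 5) (nat_lit 48) (nat_lit 5) (nat_lit 49) (nat_lit 5) (nat_lit 390) (nat_lit 354) (nat_lit 156)) (XT.lf (nat_lit 0) (nat_lit 56109439419) (nat_lit 304) (nat_lit 56072768101) (nat_lit 76) (nat_lit 51381354881) (nat_lit 45) (nat_lit 5) (nat_lit 49) (nat_lit 5) (nat_lit 46) (nat_lit 5) (nat_lit 391) (nat_lit 354) (nat_lit 155)))) (XT.nd (nat_lit 78) (nat_lit 152) (nat_lit 0) (XT.lf (nat_lit 0) (nat_lit 30187076814)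 (nat_lit 152) (nat_lit 60500135138) (nat_lit 228) (nat_lit 78291220925) (nat_lit 43) (nat_lit 5) (nat_lit 45) (nat_lit 5) (nat_lit 46) (nat_lit 5) (nat_lit 392) (nat_lit 354) (nat_lit 154)) (XT.nd (nat_lit 78) (nat_lit 152) (nat_lit 0) (XT.lf (nat_lit 0) (nat_lit 122706127052) (nat_lit 152) (nat_lit 5237045235) (nat_lit 228) (nat_lit 46673409810) (nat_lit 43) (nat_lit 5) (nat_lit 45) (nat_lit 5) (nat_lit 46) (nat_lit 5) (nat_lit 393) (nat_lit 354) (nat_lit 153)) (XT.lf (nat_lit 0) (nat_lit 39762455240) (nat_lit 152) (nat_lit 128744158295) (nat_lit 228) (nat_lit 11957791270) (nat_lit 41) (nat_lit 5) (nat_lit 43) (nat_lit 5) (nat_lit 44) (nat_lit 5) (nat_lit 394) (nat_lit 354) (nat_lit 152))))) (XT.nd (nat_lit 234) (nat_lit 304) (nat_lit 0) (XT.nd (nat_lit 78) (nat_lit 152) (nat_lit 0) (XT.lf (nat_lit 0) (nat_lit 24688747742) (nat_lit 228) (nat_lit 49222614015) (nat_lit 76) (nat_lit 112625181954)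 (nat_lit 40) (nat_lit 5) (nat_lit 43) (nat_lit 5) (nat_lit 41) (nat_lit 5) (nat_lit 395) (nat_lit 354) (nat_lit 151)) (XT.nd (nat_lit 78) (nat_lit 0) (nat_lit 0) (XT.lf (nat_lit 0) (nat_lit 48176121798) (nat_lit 152) (nat_lit 15341504703) (nat_lit 228) (nat_lit 129347268092) (nat_lit 38) (nat_lit 5) (nat_lit 40) (nat_lit 5) (nat_lit 41) (nat_lit 5) (nat_lit 396) (nat_lit 354) (nat_lit 150)) (XT.lf (nat_lit 0) (nat_lit 105855573884) (nat_lit 228) (nat_lit 48049071400) (nat_lit 76) (nat_lit 45526636639) (nat_lit 38) (nat_lit 5) (nat_lit 41) (nat_lit 5) (nat_lit 39) (nat_lit 5) (nat_lit 397) (nat_lit 354) (nat_lit 149)))) (XT.nd (nat_lit 78) (nat_lit 152) (nat_lit 0) (XT.lf (nat_lit 0) (nat_lit 54928722073) (nat_lit 152) (nat_lit 96490514095) (nat_lit 228) (nat_lit 54851311709) (nat_lit 36) (nat_lit 5) (nat_lit 38) (nat_lit 5) (nat_lit 39) (nat_lit 5) (nat_lit 398) (nat_lit 354) (nat_lit 148))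 (XT.nd (nat_lit 78) (nat_lit 152) (nat_lit 0) (XT.lf (nat_lit 0) (nat_lit 164723112764) (nat_lit 152) (nat_lit 35351435292) (nat_lit 228) (nat_lit 13336555876) (nat_lit 36) (nat_lit 5) (nat_lit 38) (nat_lit 5) (nat_lit 39) (nat_lit 5) (nat_lit 399) (nat_lit 354) (nat_lit 147)) (XT.lf (nat_lit 0) (nat_lit 30704527042) (nat_lit 152) (nat_lit 160747208083) (nat_lit 76) (nat_lit 29362390131) (nat_lit 34) (nat_lit 5) (nat_lit 36) (nat_lit 5) (nat_lit 35) (nat_lit 5) (nat_lit 400) (nat_lit 354) (nat_lit 146))))))) (XT.nd (nat_lit 936) (nat_lit 532) (nat_lit 0) (XT.nd (nat_lit 468) (nat_lit 304) (nat_lit 0) (XT.nd (nat_lit 234) (nat_lit 304) (nat_lit 0) (XT.nd (nat_lit 78) (nat_lit 152) (nat_lit 0) (XT.lf (nat_lit 0) (nat_lit 77916815693) (nat_lit 152) (nat_lit 53408281085) (nat_lit 76) (nat_lit 97180402009) (nat_lit 34) (nat_lit 5) (nat_lit 36) (nat_lit 5) (nat_lit 35) (nat_lit 5) (nat_lit 401)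 (nat_lit 354) (nat_lit 145)) (XT.nd (nat_lit 78) (nat_lit 0) (nat_lit 0) (XT.lf (nat_lit 0) (nat_lit 61257807385) (nat_lit 152) (nat_lit 67188073261) (nat_lit 228) (nat_lit 108087752359) (nat_lit 32) (nat_lit 5) (nat_lit 34) (nat_lit 5) (nat_lit 35) (nat_lit 5) (nat_lit 402) (nat_lit 354) (nat_lit 144)) (XT.lf (nat_lit 0) (nat_lit 182422912575) (nat_lit 228) (nat_lit 61424214183) (nat_lit 76) (nat_lit 1069971590) (nat_lit 32) (nat_lit 5) (nat_lit 35) (nat_lit 5) (nat_lit 33) (nat_lit 4) (nat_lit 403) (nat_lit 354) (nat_lit 143)))) (XT.nd (nat_lit 78) (nat_lit 228) (nat_lit 0) (XT.lf (nat_lit 0) (nat_lit 58903411098) (nat_lit 76) (nat_lit 182216246016) (nat_lit 152) (nat_lit 12499036889) (nat_lit 31) (nat_lit 5) (nat_lit 32) (nat_lit 5) (nat_lit 33) (nat_lit 4) (nat_lit 404) (nat_lit 354) (nat_lit 142)) (XT.nd (nat_lit 78) (nat_lit 152) (nat_lit 0) (XT.lf (nat_lit 0) (nat_lit 39772824786)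 (nat_lit 152) (nat_lit 75965331340) (nat_lit 76) (nat_lit 146933137372) (nat_lit 30) (nat_lit 5) (nat_lit 32) (nat_lit 5) (nat_lit 31) (nat_lit 5) (nat_lit 405) (nat_lit 354) (nat_lit 141)) (XT.lf (nat_lit 0) (nat_lit 50121019154) (nat_lit 152) (nat_lit 44899522174) (nat_lit 228) (nat_lit 177106621041) (nat_lit 28) (nat_lit 5) (nat_lit 30) (nat_lit 5) (nat_lit 31) (nat_lit 5) (nat_lit 406) (nat_lit 354) (nat_lit 140))))) (XT.nd (nat_lit 234) (nat_lit 228) (nat_lit 0) (XT.nd (nat_lit 78) (nat_lit 76) (nat_lit 0) (XT.lf (nat_lit 0) (nat_lit 154798309172) (nat_lit 228) (nat_lit 97324223385) (nat_lit 76) (nat_lit 29844908931) (nat_lit 28) (nat_lit 5) (nat_lit 31) (nat_lit 5) (nat_lit 29) (nat_lit 4) (nat_lit 407) (nat_lit 354) (nat_lit 139)) (XT.nd (nat_lit 78) (nat_lit 0) (nat_lit 0) (XT.lf (nat_lit 0) (nat_lit 33941715765) (nat_lit 76) (nat_lit 184889026783) (nat_lit 152) (nat_lit 73405703232)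 (nat_lit 27) (nat_lit 5) (nat_lit 28) (nat_lit 5) (nat_lit 29) (nat_lit 4) (nat_lit 408) (nat_lit 354) (nat_lit 138)) (XT.lf (nat_lit 0) (nat_lit 175149469238) (nat_lit 76) (nat_lit 112563359451) (nat_lit 152) (nat_lit 15223670115) (nat_lit 27) (nat_lit 5) (nat_lit 28) (nat_lit 5) (nat_lit 29) (nat_lit 4) (nat_lit 409) (nat_lit 354) (nat_lit 137)))) (XT.nd (nat_lit 78) (nat_lit 0) (nat_lit 0) (XT.lf (nat_lit 0) (nat_lit 8811613615) (nat_lit 152) (nat_lit 35725184380) (nat_lit 228) (nat_lit 269592081631) (nat_lit 24) (nat_lit 5) (nat_lit 26) (nat_lit 5) (nat_lit 27) (nat_lit 5) (nat_lit 410) (nat_lit 354) (nat_lit 136)) (XT.nd (nat_lit 78) (nat_lit 0) (nat_lit 0) (XT.lf (nat_lit 0) (nat_lit 109674965369) (nat_lit 228) (nat_lit 170083275525) (nat_lit 76) (nat_lit 45965095688) (nat_lit 24) (nat_lit 5) (nat_lit 27) (nat_lit 5) (nat_lit 25) (nat_lit 4) (nat_lit 411) (nat_lit 354) (nat_lit 135))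 (XT.lf (nat_lit 0) (nat_lit 178655515329) (nat_lit 228) (nat_lit 28673578475) (nat_lit 76) (nat_lit 130539148930) (nat_lit 24) (nat_lit 5) (nat_lit 27) (nat_lit 5) (nat_lit 25) (nat_lit 4) (nat_lit 412) (nat_lit 354) (nat_lit 134)))))) (XT.nd (nat_lit 468) (nat_lit 228) (nat_lit 0) (XT.nd (nat_lit 234) (nat_lit 76) (nat_lit 0) (XT.nd (nat_lit 78) (nat_lit 152) (nat_lit 0) (XT.lf (nat_lit 0) (nat_lit 123767621988) (nat_lit 76) (nat_lit 129249654482) (nat_lit 152) (nat_lit 97506508596) (nat_lit 23) (nat_lit 5) (nat_lit 24) (nat_lit 5) (nat_lit 25) (nat_lit 4) (nat_lit 413) (nat_lit 354) (nat_lit 133)) (XT.nd (nat_lit 78) (nat_lit 152) (nat_lit 0) (XT.lf (nat_lit 0) (nat_lit 284826051221) (nat_lit 76) (nat_lit 46756503097) (nat_lit 152) (nat_lit 32205278816) (nat_lit 23) (nat_lit 5) (nat_lit 24) (nat_lit 5) (nat_lit 25) (nat_lit 4) (nat_lit 414) (nat_lit 354) (nat_lit 132)) (XT.lf (nat_lit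 0) (nat_lit 37068951944) (nat_lit 152) (nat_lit 300121559848) (nat_lit 76) (nat_lit 40402601048) (nat_lit 21) (nat_lit 5) (nat_lit 23) (nat_lit 5) (nat_lit 22) (nat_lit 4) (nat_lit 415) (nat_lit 354) (nat_lit 131)))) (XT.nd (nat_lit 78) (nat_lit 76) (nat_lit 0) (XT.lf (nat_lit 0) (nat_lit 110850098309) (nat_lit 152) (nat_lit 148870547003) (nat_lit 76) (nat_lit 132235337864) (nat_lit 21) (nat_lit 5) (nat_lit 23) (nat_lit 5) (nat_lit 22) (nat_lit 4) (nat_lit 416) (nat_lit 354) (nat_lit 130)) (XT.nd (nat_lit 78) (nat_lit 0) (nat_lit 0) (XT.lf (nat_lit 0) (nat_lit 10271477419) (nat_lit 76) (nat_lit 178209033363) (nat_lit 152) (nat_lit 218548475851) (nat_lit 20) (nat_lit 5) (nat_lit 21) (nat_lit 5) (nat_lit 22) (nat_lit 4) (nat_lit 417) (nat_lit 354) (nat_lit 129)) (XT.lf (nat_lit 0) (nat_lit 182538766493) (nat_lit 76) (nat_lit 89974717425) (nat_lit 152) (nat_lit 150216104385) (nat_lit 20) (nat_lit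 5) (nat_lit 21) (nat_lit 5) (nat_lit 22) (nat_lit 4) (nat_lit 418) (nat_lit 354) (nat_lit 128))))) (XT.nd (nat_lit 234) (nat_lit 76) (nat_lit 0) (XT.nd (nat_lit 78) (nat_lit 152) (nat_lit 0) (XT.lf (nat_lit 0) (nat_lit 360789663123) (nat_lit 152) (nat_lit 75837784389) (nat_lit 0) (nat_lit 2585694714) (nat_lit 20) (nat_lit 5) (nat_lit 22) (nat_lit 4) (nat_lit 20) (nat_lit 4) (nat_lit 419) (nat_lit 354) (nat_lit 127)) (XT.nd (nat_lit 78) (nat_lit 0) (nat_lit 0) (XT.lf (nat_lit 0) (nat_lit 116747368) (nat_lit 152) (nat_lit 357964900513) (nat_lit 76) (nat_lit 98288568509) (nat_lit 18) (nat_lit 5) (nat_lit 20) (nat_lit 5) (nat_lit 19) (nat_lit 4) (nat_lit 420) (nat_lit 354) (nat_lit 126)) (XT.lf (nat_lit 0) (nat_lit 81253704703) (nat_lit 152) (nat_lit 191634389602) (nat_lit 76) (nat_lit 201367505315) (nat_lit 18) (nat_lit 5) (nat_lit 20) (nat_lit 5) (nat_lit 19) (nat_lit 4) (nat_lit 421) (nat_lit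 354) (nat_lit 125)))) (XT.nd (nat_lit 78) (nat_lit 76) (nat_lit 0) (XT.lf (nat_lit 0) (nat_lit 166447374864) (nat_lit 152) (nat_lit 16987605418) (nat_lit 76) (nat_lit 309600278516) (nat_lit 18) (nat_lit 5) (nat_lit 20) (nat_lit 5) (nat_lit 19) (nat_lit 4) (nat_lit 422) (nat_lit 354) (nat_lit 124)) (XT.nd (nat_lit 78) (nat_lit 0) (nat_lit 0) (XT.lf (nat_lit 0) (nat_lit 171892924801) (nat_lit 76) (nat_lit 86691405406) (nat_lit 152) (nat_lit 254035390675) (nat_lit 17) (nat_lit 5) (nat_lit 18) (nat_lit 5) (nat_lit 19) (nat_lit 4) (nat_lit 423) (nat_lit 354) (nat_lit 123)) (XT.lf (nat_lit 0) (nat_lit 355852879473) (nat_lit 152) (nat_lit 162599190312) (nat_lit 0) (nat_lit 14705099007) (nat_lit 17) (nat_lit 5) (nat_lit 19) (nat_lit 4) (nat_lit 17) (nat_lit 4) (nat_lit 424) (nat_lit 354) (nat_lit 122))))))))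
noncomputable def xc222 : XT := (XT.nd (nat_lit 1794) (nat_lit 2888) (nat_lit 0) (XT.nd (nat_lit 858) (nat_lit 2128) (nat_lit 0) (XT.nd (nat_lit 390) (nat_lit 0) (nat_lit 152) (XT.nd (nat_lit 156) (nat_lit 0) (nat_lit 76) (XT.nd (nat_lit 78) (nat_lit 0) (nat_lit 0) (XT.lf (nat_lit 0) (nat_lit 3132958165) (nat_lit 836) (nat_lit 13347598821) (nat_lit 836) (nat_lit 13347598821) (nat_lit 100) (nat_lit 3) (nat_lit 111) (nat_lit 3) (nat_lit 111) (nat_lit 5) (nat_lit 355) (nat_lit 355) (nat_lit 190)) (XT.lf (nat_lit 76) (nat_lit 1578837891) (nat_lit 0) (nat_lit 4886159489) (nat_lit 836) (nat_lit 54680581595) (nat_lit 101) (nat_lit 5) (nat_lit 100) (nat_lit 3) (nat_lit 111) (nat_lit 5) (nat_lit 356) (nat_lit 355) (nat_lit 189))) (XT.nd (nat_lit 78) (nat_lit 0) (nat_lit 0) (XT.lf (nat_lit 0) (nat_lit 7516358784) (nat_lit 760) (nat_lit 30885387524) (nat_lit 836) (nat_lit 24265448284) (nat_lit 101)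 (nat_lit 5) (nat_lit 111) (nat_lit 5) (nat_lit 112) (nat_lit 5) (nat_lit 357) (nat_lit 355) (nat_lit 188)) (XT.nd (nat_lit 78) (nat_lit 0) (nat_lit 76) (XT.lf (nat_lit 0) (nat_lit 8699303792) (nat_lit 760) (nat_lit 850719530) (nat_lit 836) (nat_lit 54710918033) (nat_lit 101) (nat_lit 5) (nat_lit 111) (nat_lit 5) (nat_lit 112) (nat_lit 5) (nat_lit 358) (nat_lit 355) (nat_lit 187)) (XT.lf (nat_lit 0) (nat_lit 10767278957) (nat_lit 760) (nat_lit 34542031211) (nat_lit 836) (nat_lit 20583772235) (nat_lit 102) (nat_lit 5) (nat_lit 112) (nat_lit 5) (nat_lit 113) (nat_lit 5) (nat_lit 359) (nat_lit 355) (nat_lit 186))))) (XT.nd (nat_lit 234) (nat_lit 0) (nat_lit 152) (XT.nd (nat_lit 78) (nat_lit 0) (nat_lit 76) (XT.lf (nat_lit 0) (nat_lit 13108866082) (nat_lit 760) (nat_lit 2571126477) (nat_lit 836) (nat_lit 51918328321) (nat_lit 102) (nat_lit 5) (nat_lit 112) (nat_lit 5) (nat_lit 113) (nat_lit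 5) (nat_lit 360) (nat_lit 355) (nat_lit 185)) (XT.nd (nat_lit 78) (nat_lit 0) (nat_lit 0) (XT.lf (nat_lit 0) (nat_lit 16315672987) (nat_lit 760) (nat_lit 37590379026) (nat_lit 836) (nat_lit 15445363236) (nat_lit 103) (nat_lit 5) (nat_lit 113) (nat_lit 5) (nat_lit 114) (nat_lit 5) (nat_lit 361) (nat_lit 355) (nat_lit 184)) (XT.lf (nat_lit 0) (nat_lit 19983224765) (nat_lit 760) (nat_lit 3549355750) (nat_lit 836) (nat_lit 47644564535) (nat_lit 103) (nat_lit 5) (nat_lit 113) (nat_lit 5) (nat_lit 114) (nat_lit 5) (nat_lit 362) (nat_lit 355) (nat_lit 183)))) (XT.nd (nat_lit 78) (nat_lit 0) (nat_lit 0) (XT.lf (nat_lit 0) (nat_lit 24491570339) (nat_lit 760) (nat_lit 39949751910) (nat_lit 836) (nat_lit 8619969180) (nat_lit 104) (nat_lit 5) (nat_lit 114) (nat_lit 5) (nat_lit 115) (nat_lit 5) (nat_lit 363) (nat_lit 355) (nat_lit 182)) (XT.nd (nat_lit 78) (nat_lit 0) (nat_lit 0) (XT.lf (nat_lit 0)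 (nat_lit 29671383998) (nat_lit 760) (nat_lit 3695378994) (nat_lit 836) (nat_lit 41650580449) (nat_lit 104) (nat_lit 5) (nat_lit 114) (nat_lit 5) (nat_lit 115) (nat_lit 5) (nat_lit 364) (nat_lit 355) (nat_lit 181)) (XT.lf (nat_lit 76) (nat_lit 35507528444) (nat_lit 0) (nat_lit 156246524) (nat_lit 836) (nat_lit 41379744566) (nat_lit 105) (nat_lit 5) (nat_lit 104) (nat_lit 5) (nat_lit 115) (nat_lit 5) (nat_lit 365) (nat_lit 355) (nat_lit 180)))))) (XT.nd (nat_lit 468) (nat_lit 988) (nat_lit 0) (XT.nd (nat_lit 234) (nat_lit 760) (nat_lit 0) (XT.nd (nat_lit 78) (nat_lit 760) (nat_lit 0) (XT.lf (nat_lit 0) (nat_lit 42560633684) (nat_lit 760) (nat_lit 2912696935) (nat_lit 76) (nat_lit 33667432179) (nat_lit 105) (nat_lit 5) (nat_lit 115) (nat_lit 5) (nat_lit 106) (nat_lit 5) (nat_lit 366) (nat_lit 355) (nat_lit 179)) (XT.nd (nat_lit 78) (nat_lit 0) (nat_lit 0) (XT.lf (nat_lit 0) (nat_lit 38883056460)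 (nat_lit 760) (nat_lit 11528193739) (nat_lit 836) (nat_lit 30901173020) (nat_lit 95) (nat_lit 5) (nat_lit 105) (nat_lit 5) (nat_lit 106) (nat_lit 5) (nat_lit 367) (nat_lit 355) (nat_lit 178)) (XT.lf (nat_lit 0) (nat_lit 59080329676) (nat_lit 836) (nat_lit 1098450106) (nat_lit 76) (nat_lit 23392590975) (nat_lit 95) (nat_lit 5) (nat_lit 106) (nat_lit 5) (nat_lit 96) (nat_lit 5) (nat_lit 368) (nat_lit 355) (nat_lit 177)))) (XT.nd (nat_lit 78) (nat_lit 380) (nat_lit 0) (XT.lf (nat_lit 0) (nat_lit 43501713304) (nat_lit 380) (nat_lit 25548658649) (nat_lit 456) (nat_lit 16849518945) (nat_lit 90) (nat_lit 5) (nat_lit 95) (nat_lit 5) (nat_lit 96) (nat_lit 5) (nat_lit 369) (nat_lit 355) (nat_lit 176)) (XT.nd (nat_lit 78) (nat_lit 76) (nat_lit 0) (XT.lf (nat_lit 0) (nat_lit 1917705220) (nat_lit 304) (nat_lit 77818240628) (nat_lit 380) (nat_lit 8598040363) (nat_lit 86) (nat_lit 5) (nat_lit 90) (nat_lit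 5) (nat_lit 91) (nat_lit 5) (nat_lit 370) (nat_lit 355) (nat_lit 175)) (XT.lf (nat_lit 0) (nat_lit 1211904336) (nat_lit 380) (nat_lit 41364837637) (nat_lit 76) (nat_lit 48255593112) (nat_lit 85) (nat_lit 5) (nat_lit 90) (nat_lit 5) (nat_lit 86) (nat_lit 5) (nat_lit 371) (nat_lit 355) (nat_lit 174))))) (XT.nd (nat_lit 234) (nat_lit 304) (nat_lit 0) (XT.nd (nat_lit 78) (nat_lit 304) (nat_lit 0) (XT.lf (nat_lit 0) (nat_lit 5989280745) (nat_lit 380) (nat_lit 5327024277) (nat_lit 456) (nat_lit 82127603893) (nat_lit 80) (nat_lit 5) (nat_lit 85) (nat_lit 5) (nat_lit 86) (nat_lit 5) (nat_lit 372) (nat_lit 355) (nat_lit 173)) (XT.nd (nat_lit 78) (nat_lit 304) (nat_lit 0) (XT.lf (nat_lit 0) (nat_lit 23164842597) (nat_lit 456) (nat_lit 39543460007) (nat_lit 76) (nat_lit 33415813514) (nat_lit 80) (nat_lit 5) (nat_lit 86) (nat_lit 5) (nat_lit 81) (nat_lit 5) (nat_lit 373) (nat_lit 355) (nat_lit 172))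 (XT.lf (nat_lit 0) (nat_lit 11028285089) (nat_lit 304) (nat_lit 24836478212) (nat_lit 380) (nat_lit 63060623067) (nat_lit 76) (nat_lit 5) (nat_lit 80) (nat_lit 5) (nat_lit 81) (nat_lit 5) (nat_lit 374) (nat_lit 355) (nat_lit 171)))) (XT.nd (nat_lit 78) (nat_lit 304) (nat_lit 0) (XT.lf (nat_lit 0) (nat_lit 50112889782) (nat_lit 380) (nat_lit 36576462913) (nat_lit 76) (nat_lit 15131707423) (nat_lit 76) (nat_lit 5) (nat_lit 81) (nat_lit 5) (nat_lit 77) (nat_lit 5) (nat_lit 375) (nat_lit 355) (nat_lit 170)) (XT.nd (nat_lit 78) (nat_lit 0) (nat_lit 0) (XT.lf (nat_lit 0) (nat_lit 17461310391) (nat_lit 304) (nat_lit 48291374305) (nat_lit 380) (nat_lit 39074870208) (nat_lit 72) (nat_lit 5) (nat_lit 76) (nat_lit 5) (nat_lit 77) (nat_lit 5) (nat_lit 376) (nat_lit 355) (nat_lit 169)) (XT.lf (nat_lit 0) (nat_lit 75470221864) (nat_lit 304) (nat_lit 7323189360) (nat_lit 380) (nat_lit 25160016543) (nat_lit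 72) (nat_lit 5) (nat_lit 76) (nat_lit 5) (nat_lit 77) (nat_lit 5) (nat_lit 377) (nat_lit 355) (nat_lit 168))))))) (XT.nd (nat_lit 936) (nat_lit 1140) (nat_lit 0) (XT.nd (nat_lit 468) (nat_lit 912) (nat_lit 0) (XT.nd (nat_lit 234) (nat_lit 228) (nat_lit 0) (XT.nd (nat_lit 78) (nat_lit 380) (nat_lit 0) (XT.lf (nat_lit 0) (nat_lit 25399041937) (nat_lit 228) (nat_lit 76240480389) (nat_lit 304) (nat_lit 9548404946) (nat_lit 69) (nat_lit 5) (nat_lit 72) (nat_lit 5) (nat_lit 73) (nat_lit 5) (nat_lit 378) (nat_lit 355) (nat_lit 167)) (XT.nd (nat_lit 78) (nat_lit 304) (nat_lit 0) (XT.lf (nat_lit 0) (nat_lit 7303462220) (nat_lit 304) (nat_lit 27490024294) (nat_lit 76) (nat_lit 79751387129) (nat_lit 68) (nat_lit 5) (nat_lit 72) (nat_lit 5) (nat_lit 69) (nat_lit 5) (nat_lit 379) (nat_lit 355) (nat_lit 166)) (XT.lf (nat_lit 0) (nat_lit 25365658168) (nat_lit 380) (nat_lit 83505927975) (nat_lit 76) (nat_lit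 9155823762) (nat_lit 64) (nat_lit 5) (nat_lit 69) (nat_lit 5) (nat_lit 65) (nat_lit 5) (nat_lit 380) (nat_lit 355) (nat_lit 165)))) (XT.nd (nat_lit 78) (nat_lit 228) (nat_lit 0) (XT.lf (nat_lit 0) (nat_lit 45374100271) (nat_lit 380) (nat_lit 21651442221) (nat_lit 76) (nat_lit 54606374006) (nat_lit 64) (nat_lit 5) (nat_lit 69) (nat_lit 5) (nat_lit 65) (nat_lit 5) (nat_lit 381) (nat_lit 355) (nat_lit 164)) (XT.nd (nat_lit 78) (nat_lit 0) (nat_lit 0) (XT.lf (nat_lit 0) (nat_lit 44726745851) (nat_lit 228) (nat_lit 22354111707) (nat_lit 304) (nat_lit 58300896533) (nat_lit 61) (nat_lit 5) (nat_lit 64) (nat_lit 5) (nat_lit 65) (nat_lit 5) (nat_lit 382) (nat_lit 355) (nat_lit 163)) (XT.lf (nat_lit 0) (nat_lit 90628541965) (nat_lit 304) (nat_lit 14515103010) (nat_lit 76) (nat_lit 24137659431) (nat_lit 61) (nat_lit 5) (nat_lit 65) (nat_lit 5) (nat_lit 62) (nat_lit 5) (nat_lit 383) (nat_lit 355) (nat_lit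 162))))) (XT.nd (nat_lit 234) (nat_lit 380) (nat_lit 0) (XT.nd (nat_lit 78) (nat_lit 304) (nat_lit 0) (XT.lf (nat_lit 0) (nat_lit 56368955698) (nat_lit 228) (nat_lit 60230804816) (nat_lit 304) (nat_lit 16713764519) (nat_lit 58) (nat_lit 5) (nat_lit 61) (nat_lit 5) (nat_lit 62) (nat_lit 5) (nat_lit 384) (nat_lit 355) (nat_lit 161)) (XT.nd (nat_lit 78) (nat_lit 228) (nat_lit 0) (XT.lf (nat_lit 0) (nat_lit 6369299524) (nat_lit 304) (nat_lit 6337197400) (nat_lit 76) (nat_lit 124823451403) (nat_lit 57) (nat_lit 5) (nat_lit 61) (nat_lit 5) (nat_lit 58) (nat_lit 5) (nat_lit 385) (nat_lit 355) (nat_lit 160)) (XT.lf (nat_lit 0) (nat_lit 31736634877) (nat_lit 304) (nat_lit 72733357473) (nat_lit 76) (nat_lit 37388910373) (nat_lit 54) (nat_lit 5) (nat_lit 58) (nat_lit 5) (nat_lit 55) (nat_lit 5) (nat_lit 386) (nat_lit 355) (nat_lit 159)))) (XT.nd (nat_lit 78) (nat_lit 152) (nat_lit 0) (XT.lf (nat_lit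 0) (nat_lit 2037111961) (nat_lit 228) (nat_lit 56684057047) (nat_lit 304) (nat_lit 87665694469) (nat_lit 51) (nat_lit 5) (nat_lit 54) (nat_lit 5) (nat_lit 55) (nat_lit 5) (nat_lit 387) (nat_lit 355) (nat_lit 158)) (XT.nd (nat_lit 78) (nat_lit 152) (nat_lit 0) (XT.lf (nat_lit 0) (nat_lit 83070726006) (nat_lit 228) (nat_lit 5215628326) (nat_lit 304) (nat_lit 62793296941) (nat_lit 51) (nat_lit 5) (nat_lit 54) (nat_lit 5) (nat_lit 55) (nat_lit 5) (nat_lit 388) (nat_lit 355) (nat_lit 157)) (XT.lf (nat_lit 0) (nat_lit 11762598136) (nat_lit 152) (nat_lit 108512826143) (nat_lit 228) (nat_lit 35684373130) (nat_lit 49) (nat_lit 5) (nat_lit 51) (nat_lit 5) (nat_lit 52) (nat_lit 5) (nat_lit 389) (nat_lit 355) (nat_lit 156)))))) (XT.nd (nat_lit 468) (nat_lit 532) (nat_lit 0) (XT.nd (nat_lit 234) (nat_lit 304) (nat_lit 0) (XT.nd (nat_lit 78) (nat_lit 304) (nat_lit 0) (XT.lf (nat_lit 0) (nat_lit 97794986410)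 (nat_lit 152) (nat_lit 57304520701) (nat_lit 228) (nat_lit 5922665980) (nat_lit 49) (nat_lit 5) (nat_lit 51) (nat_lit 5) (nat_lit 52) (nat_lit 5) (nat_lit 390) (nat_lit 355) (nat_lit 155)) (XT.nd (nat_lit 78) (nat_lit 0) (nat_lit 0) (XT.lf (nat_lit 0) (nat_lit 22102842743) (nat_lit 228) (nat_lit 2758427471) (nat_lit 304) (nat_lit 141439387662) (nat_lit 45) (nat_lit 5) (nat_lit 48) (nat_lit 5) (nat_lit 49) (nat_lit 5) (nat_lit 391) (nat_lit 355) (nat_lit 154)) (XT.lf (nat_lit 0) (nat_lit 58924518720) (nat_lit 304) (nat_lit 58861317730) (nat_lit 76) (nat_lit 53955418192) (nat_lit 45) (nat_lit 5) (nat_lit 49) (nat_lit 5) (nat_lit 46) (nat_lit 5) (nat_lit 392) (nat_lit 355) (nat_lit 153)))) (XT.nd (nat_lit 78) (nat_lit 152) (nat_lit 0) (XT.lf (nat_lit 0) (nat_lit 31711276064) (nat_lit 152) (nat_lit 63519678103) (nat_lit 228) (nat_lit 82195926024) (nat_lit 43) (nat_lit 5) (nat_lit 45) (nat_lit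 5) (nat_lit 46) (nat_lit 5) (nat_lit 393) (nat_lit 355) (nat_lit 152)) (XT.nd (nat_lit 78) (nat_lit 152) (nat_lit 0) (XT.lf (nat_lit 0) (nat_lit 128855571890) (nat_lit 152) (nat_lit 5493693886) (nat_lit 228) (nat_lit 48997693684) (nat_lit 43) (nat_lit 5) (nat_lit 45) (nat_lit 5) (nat_lit 46) (nat_lit 5) (nat_lit 394) (nat_lit 355) (nat_lit 151)) (XT.lf (nat_lit 0) (nat_lit 41764852971) (nat_lit 152) (nat_lit 135175900891) (nat_lit 228) (nat_lit 12546425940) (nat_lit 41) (nat_lit 5) (nat_lit 43) (nat_lit 5) (nat_lit 44) (nat_lit 5) (nat_lit 395) (nat_lit 355) (nat_lit 150))))) (XT.nd (nat_lit 234) (nat_lit 304) (nat_lit 0) (XT.nd (nat_lit 78) (nat_lit 152) (nat_lit 0) (XT.lf (nat_lit 0) (nat_lit 25931717205) (nat_lit 228) (nat_lit 51669863079) (nat_lit 76) (nat_lit 118261359690) (nat_lit 40) (nat_lit 5) (nat_lit 43) (nat_lit 5) (nat_lit 41) (nat_lit 5) (nat_lit 396) (nat_lit 355) (nat_lit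 149)) (XT.nd (nat_lit 78) (nat_lit 0) (nat_lit 0) (XT.lf (nat_lit 0) (nat_lit 50598585627) (nat_lit 152) (nat_lit 16103261220) (nat_lit 228) (nat_lit 135805871410) (nat_lit 38) (nat_lit 5) (nat_lit 40) (nat_lit 5) (nat_lit 41) (nat_lit 5) (nat_lit 397) (nat_lit 355) (nat_lit 148)) (XT.lf (nat_lit 0) (nat_lit 111156373590) (nat_lit 228) (nat_lit 50438195671) (nat_lit 76) (nat_lit 47807871790) (nat_lit 38) (nat_lit 5) (nat_lit 41) (nat_lit 5) (nat_lit 39) (nat_lit 5) (nat_lit 398) (nat_lit 355) (nat_lit 147)))) (XT.nd (nat_lit 78) (nat_lit 152) (nat_lit 0) (XT.lf (nat_lit 0) (nat_lit 57688272487) (nat_lit 152) (nat_lit 101309769300) (nat_lit 228) (nat_lit 57585637564) (nat_lit 36) (nat_lit 5) (nat_lit 38) (nat_lit 5) (nat_lit 39) (nat_lit 5) (nat_lit 399) (nat_lit 355) (nat_lit 146)) (XT.nd (nat_lit 78) (nat_lit 152) (nat_lit 0) (XT.lf (nat_lit 0) (nat_lit 172971758222) (nat_lit 152) (nat_lit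 37113987532) (nat_lit 228) (nat_lit 13995536307) (nat_lit 36) (nat_lit 5) (nat_lit 38) (nat_lit 5) (nat_lit 39) (nat_lit 5) (nat_lit 400) (nat_lit 355) (nat_lit 145)) (XT.lf (nat_lit 0) (nat_lit 32247263394) (nat_lit 152) (nat_lit 168771734698) (nat_lit 76) (nat_lit 30835454705) (nat_lit 34) (nat_lit 5) (nat_lit 36) (nat_lit 5) (nat_lit 35) (nat_lit 5) (nat_lit 401) (nat_lit 355) (nat_lit 144))))))))
noncomputable def xc223 : XT := (XT.nd (nat_lit 43368) (nat_lit 0) (nat_lit 3876) (XT.nd (nat_lit 936) (nat_lit 532) (nat_lit 0) (XT.nd (nat_lit 468) (nat_lit 304) (nat_lit 0) (XT.nd (nat_lit 234) (nat_lit 304) (nat_lit 0) (XT.nd (nat_lit 78) (nat_lit 152) (nat_lit 0) (XT.lf (nat_lit 0) (nat_lit 81819808859) (nat_lit 152) (nat_lit 56066472483) (nat_lit 76) (nat_lit 102044131696) (nat_lit 34) (nat_lit 5) (nat_lit 36) (nat_lit 5) (nat_lit 35) (nat_lit 5) (nat_lit 402) (nat_lit 355) (nat_lit 143))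 (XT.nd (nat_lit 78) (nat_lit 0) (nat_lit 0) (XT.lf (nat_lit 0) (nat_lit 64332723271) (nat_lit 152) (nat_lit 70542450951) (nat_lit 228) (nat_lit 113484787534) (nat_lit 32) (nat_lit 5) (nat_lit 34) (nat_lit 5) (nat_lit 35) (nat_lit 5) (nat_lit 403) (nat_lit 355) (nat_lit 142)) (XT.lf (nat_lit 0) (nat_lit 191550799168) (nat_lit 228) (nat_lit 64483710656) (nat_lit 76) (nat_lit 1128103609) (nat_lit 32) (nat_lit 5) (nat_lit 35) (nat_lit 5) (nat_lit 33) (nat_lit 4) (nat_lit 404) (nat_lit 355) (nat_lit 141)))) (XT.nd (nat_lit 78) (nat_lit 228) (nat_lit 0) (XT.lf (nat_lit 0) (nat_lit 61860106949) (nat_lit 76) (nat_lit 191322132929) (nat_lit 152) (nat_lit 13117056178) (nat_lit 31) (nat_lit 5) (nat_lit 32) (nat_lit 5) (nat_lit 33) (nat_lit 4) (nat_lit 405) (nat_lit 355) (nat_lit 140)) (XT.nd (nat_lit 78) (nat_lit 152) (nat_lit 0) (XT.lf (nat_lit 0) (nat_lit 41767857140) (nat_lit 152) (nat_lit 79752407710)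 (nat_lit 76) (nat_lit 154284271362) (nat_lit 30) (nat_lit 5) (nat_lit 32) (nat_lit 5) (nat_lit 31) (nat_lit 5) (nat_lit 406) (nat_lit 355) (nat_lit 139)) (XT.lf (nat_lit 0) (nat_lit 52638079822) (nat_lit 152) (nat_lit 47139747240) (nat_lit 228) (nat_lit 185955378201) (nat_lit 28) (nat_lit 5) (nat_lit 30) (nat_lit 5) (nat_lit 31) (nat_lit 5) (nat_lit 407) (nat_lit 355) (nat_lit 138))))) (XT.nd (nat_lit 234) (nat_lit 228) (nat_lit 0) (XT.nd (nat_lit 78) (nat_lit 76) (nat_lit 0) (XT.lf (nat_lit 0) (nat_lit 162544255912) (nat_lit 228) (nat_lit 102179719547) (nat_lit 76) (nat_lit 31341534357) (nat_lit 28) (nat_lit 5) (nat_lit 31) (nat_lit 5) (nat_lit 29) (nat_lit 4) (nat_lit 408) (nat_lit 355) (nat_lit 137)) (XT.nd (nat_lit 78) (nat_lit 0) (nat_lit 0) (XT.lf (nat_lit 0) (nat_lit 35649343737) (nat_lit 76) (nat_lit 194128844609) (nat_lit 152) (nat_lit 77069782213) (nat_lit 27) (nat_lit 5) (nat_lit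 28) (nat_lit 5) (nat_lit 29) (nat_lit 4) (nat_lit 409) (nat_lit 355) (nat_lit 136)) (XT.lf (nat_lit 0) (nat_lit 183916982875) (nat_lit 76) (nat_lit 118187114553) (nat_lit 152) (nat_lit 15978942971) (nat_lit 27) (nat_lit 5) (nat_lit 28) (nat_lit 5) (nat_lit 29) (nat_lit 4) (nat_lit 410) (nat_lit 355) (nat_lit 135)))) (XT.nd (nat_lit 78) (nat_lit 0) (nat_lit 0) (XT.lf (nat_lit 0) (nat_lit 9262260513) (nat_lit 152) (nat_lit 37506983564) (nat_lit 228) (nat_lit 283065797427) (nat_lit 24) (nat_lit 5) (nat_lit 26) (nat_lit 5) (nat_lit 27) (nat_lit 5) (nat_lit 411) (nat_lit 355) (nat_lit 134)) (XT.nd (nat_lit 78) (nat_lit 0) (nat_lit 0) (XT.lf (nat_lit 0) (nat_lit 115164119176) (nat_lit 228) (nat_lit 178577650076) (nat_lit 76) (nat_lit 48267462173) (nat_lit 24) (nat_lit 5) (nat_lit 27) (nat_lit 5) (nat_lit 25) (nat_lit 4) (nat_lit 412) (nat_lit 355) (nat_lit 133)) (XT.lf (nat_lit 0) (nat_lit 187593439228)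 (nat_lit 228) (nat_lit 30097934327) (nat_lit 76) (nat_lit 137070022282) (nat_lit 24) (nat_lit 5) (nat_lit 27) (nat_lit 5) (nat_lit 25) (nat_lit 4) (nat_lit 413) (nat_lit 355) (nat_lit 132)))))) (XT.nd (nat_lit 468) (nat_lit 228) (nat_lit 0) (XT.nd (nat_lit 234) (nat_lit 76) (nat_lit 0) (XT.nd (nat_lit 78) (nat_lit 152) (nat_lit 0) (XT.lf (nat_lit 0) (nat_lit 129965175788) (nat_lit 76) (nat_lit 135708010700) (nat_lit 152) (nat_lit 102376533972) (nat_lit 23) (nat_lit 5) (nat_lit 24) (nat_lit 5) (nat_lit 25) (nat_lit 4) (nat_lit 414) (nat_lit 355) (nat_lit 131)) (XT.nd (nat_lit 78) (nat_lit 152) (nat_lit 0) (XT.lf (nat_lit 0) (nat_lit 299076089687) (nat_lit 76) (nat_lit 49090398246) (nat_lit 152) (nat_lit 33810495086) (nat_lit 23) (nat_lit 5) (nat_lit 24) (nat_lit 5) (nat_lit 25) (nat_lit 4) (nat_lit 415) (nat_lit 355) (nat_lit 130)) (XT.lf (nat_lit 0) (nat_lit 38927251586) (nat_lit 152) (nat_lit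 315118703564) (nat_lit 76) (nat_lit 42426569390) (nat_lit 21) (nat_lit 5) (nat_lit 23) (nat_lit 5) (nat_lit 22) (nat_lit 4) (nat_lit 416) (nat_lit 355) (nat_lit 129)))) (XT.nd (nat_lit 78) (nat_lit 76) (nat_lit 0) (XT.lf (nat_lit 0) (nat_lit 116397224220) (nat_lit 152) (nat_lit 156305565519) (nat_lit 76) (nat_lit 138850760271) (nat_lit 21) (nat_lit 5) (nat_lit 23) (nat_lit 5) (nat_lit 22) (nat_lit 4) (nat_lit 417) (nat_lit 355) (nat_lit 128)) (XT.nd (nat_lit 78) (nat_lit 0) (nat_lit 0) (XT.lf (nat_lit 0) (nat_lit 10793422885) (nat_lit 76) (nat_lit 187115645088) (nat_lit 152) (nat_lit 229471140195) (nat_lit 20) (nat_lit 5) (nat_lit 21) (nat_lit 5) (nat_lit 22) (nat_lit 4) (nat_lit 418) (nat_lit 355) (nat_lit 127)) (XT.lf (nat_lit 0) (nat_lit 191673677766) (nat_lit 76) (nat_lit 94469796207) (nat_lit 152) (nat_lit 157722376796) (nat_lit 20) (nat_lit 5) (nat_lit 21) (nat_lit 5) (nat_lit 22)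 (nat_lit 4) (nat_lit 419) (nat_lit 355) (nat_lit 126))))) (XT.nd (nat_lit 234) (nat_lit 76) (nat_lit 0) (XT.nd (nat_lit 78) (nat_lit 152) (nat_lit 0) (XT.lf (nat_lit 0) (nat_lit 378833311000) (nat_lit 152) (nat_lit 79621928084) (nat_lit 0) (nat_lit 2718350915) (nat_lit 20) (nat_lit 5) (nat_lit 22) (nat_lit 4) (nat_lit 20) (nat_lit 4) (nat_lit 420) (nat_lit 355) (nat_lit 125)) (XT.nd (nat_lit 78) (nat_lit 0) (nat_lit 0) (XT.lf (nat_lit 0) (nat_lit 126738104) (nat_lit 152) (nat_lit 375855386614) (nat_lit 76) (nat_lit 103206393822) (nat_lit 18) (nat_lit 5) (nat_lit 20) (nat_lit 5) (nat_lit 19) (nat_lit 4) (nat_lit 421) (nat_lit 355) (nat_lit 124)) (XT.lf (nat_lit 0) (nat_lit 85320345528) (nat_lit 152) (nat_lit 201208719630) (nat_lit 76) (nat_lit 211439115713) (nat_lit 18) (nat_lit 5) (nat_lit 20) (nat_lit 5) (nat_lit 19) (nat_lit 4) (nat_lit 422) (nat_lit 355) (nat_lit 123)))) (XT.nd (nat_lit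 78) (nat_lit 76) (nat_lit 0) (XT.lf (nat_lit 0) (nat_lit 174773510835) (nat_lit 152) (nat_lit 17829948115) (nat_lit 76) (nat_lit 325083373520) (nat_lit 18) (nat_lit 5) (nat_lit 20) (nat_lit 5) (nat_lit 19) (nat_lit 4) (nat_lit 423) (nat_lit 355) (nat_lit 122)) (XT.nd (nat_lit 41574) (nat_lit 0) (nat_lit 6308) (XT.lf (nat_lit 0) (nat_lit 180494495105) (nat_lit 76) (nat_lit 91022747552) (nat_lit 152) (nat_lit 266733278609) (nat_lit 17) (nat_lit 5) (nat_lit 18) (nat_lit 5) (nat_lit 19) (nat_lit 4) (nat_lit 424) (nat_lit 355) (nat_lit 121)) (XT.lf (nat_lit 0) (nat_lit 3307111487) (nat_lit 836) (nat_lit 14005779180) (nat_lit 836) (nat_lit 14005779180) (nat_lit 100) (nat_lit 3) (nat_lit 111) (nat_lit 3) (nat_lit 111) (nat_lit 5) (nat_lit 356) (nat_lit 356) (nat_lit 188))))))) (XT.nd (nat_lit 936) (nat_lit 2052) (nat_lit 0) (XT.nd (nat_lit 468) (nat_lit 380) (nat_lit 0) (XT.nd (nat_lit 234) (nat_lit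 0) (nat_lit 152) (XT.nd (nat_lit 78) (nat_lit 0) (nat_lit 76) (XT.lf (nat_lit 76) (nat_lit 1675882189) (nat_lit 0) (nat_lit 5145991335) (nat_lit 836) (nat_lit 57379267888) (nat_lit 101) (nat_lit 5) (nat_lit 100) (nat_lit 3) (nat_lit 111) (nat_lit 5) (nat_lit 357) (nat_lit 356) (nat_lit 187)) (XT.nd (nat_lit 78) (nat_lit 0) (nat_lit 0) (XT.lf (nat_lit 0) (nat_lit 7923970917) (nat_lit 760) (nat_lit 32410550913) (nat_lit 836) (nat_lit 25464409259) (nat_lit 101) (nat_lit 5) (nat_lit 111) (nat_lit 5) (nat_lit 112) (nat_lit 5) (nat_lit 358) (nat_lit 356) (nat_lit 186)) (XT.lf (nat_lit 0) (nat_lit 9164549166) (nat_lit 760) (nat_lit 875059329) (nat_lit 836) (nat_lit 57432833993) (nat_lit 101) (nat_lit 5) (nat_lit 111) (nat_lit 5) (nat_lit 112) (nat_lit 5) (nat_lit 359) (nat_lit 356) (nat_lit 185)))) (XT.nd (nat_lit 78) (nat_lit 0) (nat_lit 0) (XT.lf (nat_lit 0) (nat_lit 11334585589) (nat_lit 760)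 (nat_lit 36249568686) (nat_lit 836) (nat_lit 21602104708) (nat_lit 102) (nat_lit 5) (nat_lit 112) (nat_lit 5) (nat_lit 113) (nat_lit 5) (nat_lit 360) (nat_lit 356) (nat_lit 184)) (XT.nd (nat_lit 78) (nat_lit 0) (nat_lit 76) (XT.lf (nat_lit 0) (nat_lit 13791873847) (nat_lit 760) (nat_lit 2681050339) (nat_lit 836) (nat_lit 54503905557) (nat_lit 102) (nat_lit 5) (nat_lit 112) (nat_lit 5) (nat_lit 113) (nat_lit 5) (nat_lit 361) (nat_lit 356) (nat_lit 183)) (XT.lf (nat_lit 0) (nat_lit 17157866595) (nat_lit 760) (nat_lit 39450083435) (nat_lit 836) (nat_lit 16209687904) (nat_lit 103) (nat_lit 5) (nat_lit 113) (nat_lit 5) (nat_lit 114) (nat_lit 5) (nat_lit 362) (nat_lit 356) (nat_lit 182))))) (XT.nd (nat_lit 234) (nat_lit 608) (nat_lit 0) (XT.nd (nat_lit 78) (nat_lit 0) (nat_lit 76) (XT.lf (nat_lit 0) (nat_lit 21007538345) (nat_lit 760) (nat_lit 3707952546) (nat_lit 836) (nat_lit 50019227530) (nat_lit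 103) (nat_lit 5) (nat_lit 113) (nat_lit 5) (nat_lit 114) (nat_lit 5) (nat_lit 363) (nat_lit 356) (nat_lit 181)) (XT.nd (nat_lit 78) (nat_lit 0) (nat_lit 0) (XT.lf (nat_lit 0) (nat_lit 25740304697) (nat_lit 760) (nat_lit 41927346998) (nat_lit 836) (nat_lit 9045471500) (nat_lit 104) (nat_lit 5) (nat_lit 114) (nat_lit 5) (nat_lit 115) (nat_lit 5) (nat_lit 364) (nat_lit 356) (nat_lit 180)) (XT.lf (nat_lit 0) (nat_lit 31177958761) (nat_lit 760) (nat_lit 3861202698) (nat_lit 836) (nat_lit 43727875053) (nat_lit 104) (nat_lit 5) (nat_lit 114) (nat_lit 5) (nat_lit 115) (nat_lit 5) (nat_lit 365) (nat_lit 356) (nat_lit 179)))) (XT.nd (nat_lit 78) (nat_lit 684) (nat_lit 0) (XT.lf (nat_lit 76) (nat_lit 37301544543) (nat_lit 0) (nat_lit 167620251) (nat_lit 836) (nat_lit 43425397974) (nat_lit 105) (nat_lit 5) (nat_lit 104) (nat_lit 5) (nat_lit 115) (nat_lit 5) (nat_lit 366) (nat_lit 356) (nat_lit 178))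 (XT.nd (nat_lit 78) (nat_lit 760) (nat_lit 0) (XT.lf (nat_lit 0) (nat_lit 44709756296) (nat_lit 760) (nat_lit 3039447950) (nat_lit 76) (nat_lit 35347520537) (nat_lit 105) (nat_lit 5) (nat_lit 115) (nat_lit 5) (nat_lit 106) (nat_lit 5) (nat_lit 367) (nat_lit 356) (nat_lit 177)) (XT.lf (nat_lit 0) (nat_lit 40845788537) (nat_lit 760) (nat_lit 12106400844) (nat_lit 836) (nat_lit 32424815586) (nat_lit 95) (nat_lit 5) (nat_lit 105) (nat_lit 5) (nat_lit 106) (nat_lit 5) (nat_lit 368) (nat_lit 356) (nat_lit 176)))))) (XT.nd (nat_lit 468) (nat_lit 912) (nat_lit 0) (XT.nd (nat_lit 234) (nat_lit 456) (nat_lit 0) (XT.nd (nat_lit 78) (nat_lit 684) (nat_lit 0) (XT.lf (nat_lit 0) (nat_lit 62053725787) (nat_lit 836) (nat_lit 1134661440) (nat_lit 76) (nat_lit 24560563487) (nat_lit 95) (nat_lit 5) (nat_lit 106) (nat_lit 5) (nat_lit 96) (nat_lit 5) (nat_lit 369) (nat_lit 356) (nat_lit 175)) (XT.nd (nat_lit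 78) (nat_lit 304) (nat_lit 0) (XT.lf (nat_lit 0) (nat_lit 45695208348) (nat_lit 380) (nat_lit 26826426414) (nat_lit 456) (nat_lit 17672294805) (nat_lit 90) (nat_lit 5) (nat_lit 95) (nat_lit 5) (nat_lit 96) (nat_lit 5) (nat_lit 370) (nat_lit 356) (nat_lit 174)) (XT.lf (nat_lit 0) (nat_lit 2032648537) (nat_lit 304) (nat_lit 81708238804) (nat_lit 380) (nat_lit 9008873193) (nat_lit 86) (nat_lit 5) (nat_lit 90) (nat_lit 5) (nat_lit 91) (nat_lit 5) (nat_lit 371) (nat_lit 356) (nat_lit 173)))) (XT.nd (nat_lit 78) (nat_lit 380) (nat_lit 0) (XT.lf (nat_lit 0) (nat_lit 1290079414) (nat_lit 380) (nat_lit 43414331595) (nat_lit 76) (nat_lit 50668645712) (nat_lit 85) (nat_lit 5) (nat_lit 90) (nat_lit 5) (nat_lit 86) (nat_lit 5) (nat_lit 372) (nat_lit 356) (nat_lit 172)) (XT.nd (nat_lit 78) (nat_lit 0) (nat_lit 0) (XT.lf (nat_lit 0) (nat_lit 6307190320) (nat_lit 380) (nat_lit 5591960665) (nat_lit 456)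 (nat_lit 86216086484) (nat_lit 80) (nat_lit 5) (nat_lit 85) (nat_lit 5) (nat_lit 86) (nat_lit 5) (nat_lit 373) (nat_lit 356) (nat_lit 171)) (XT.lf (nat_lit 0) (nat_lit 24339325489) (nat_lit 456) (nat_lit 41502261254) (nat_lit 76) (nat_lit 35087908516) (nat_lit 80) (nat_lit 5) (nat_lit 86) (nat_lit 5) (nat_lit 81) (nat_lit 5) (nat_lit 374) (nat_lit 356) (nat_lit 170))))) (XT.nd (nat_lit 234) (nat_lit 304) (nat_lit 0) (XT.nd (nat_lit 78) (nat_lit 304) (nat_lit 0) (XT.lf (nat_lit 0) (nat_lit 11597774778) (nat_lit 304) (nat_lit 26075976289) (nat_lit 380) (nat_lit 66197103210) (nat_lit 76) (nat_lit 5) (nat_lit 80) (nat_lit 5) (nat_lit 81) (nat_lit 5) (nat_lit 375) (nat_lit 356) (nat_lit 169)) (XT.nd (nat_lit 78) (nat_lit 304) (nat_lit 0) (XT.lf (nat_lit 0) (nat_lit 52633568475) (nat_lit 380) (nat_lit 38387342696) (nat_lit 76) (nat_lit 15890436977) (nat_lit 76) (nat_lit 5) (nat_lit 81) (nat_lit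 5) (nat_lit 77) (nat_lit 5) (nat_lit 376) (nat_lit 356) (nat_lit 168)) (XT.lf (nat_lit 0) (nat_lit 18352029865) (nat_lit 304) (nat_lit 50702882983) (nat_lit 380) (nat_lit 41013277472) (nat_lit 72) (nat_lit 5) (nat_lit 76) (nat_lit 5) (nat_lit 77) (nat_lit 5) (nat_lit 377) (nat_lit 356) (nat_lit 167)))) (XT.nd (nat_lit 78) (nat_lit 304) (nat_lit 0) (XT.lf (nat_lit 0) (nat_lit 79260546247) (nat_lit 304) (nat_lit 7686434507) (nat_lit 380) (nat_lit 26403411421) (nat_lit 72) (nat_lit 5) (nat_lit 76) (nat_lit 5) (nat_lit 77) (nat_lit 5) (nat_lit 378) (nat_lit 356) (nat_lit 166)) (XT.nd (nat_lit 78) (nat_lit 76) (nat_lit 0) (XT.lf (nat_lit 0) (nat_lit 26686186952) (nat_lit 228) (nat_lit 80048860367) (nat_lit 304) (nat_lit 10011587413) (nat_lit 69) (nat_lit 5) (nat_lit 72) (nat_lit 5) (nat_lit 73) (nat_lit 5) (nat_lit 379) (nat_lit 356) (nat_lit 165)) (XT.lf (nat_lit 0) (nat_lit 7681761123) (nat_lit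 304) (nat_lit 28847706909) (nat_lit 76) (nat_lit 83741982609) (nat_lit 68) (nat_lit 5) (nat_lit 72) (nat_lit 5) (nat_lit 69) (nat_lit 5) (nat_lit 380) (nat_lit 356) (nat_lit 164))))))))
noncomputable def xc224 : XT := (XT.nd (nat_lit 1794) (nat_lit 1216) (nat_lit 0) (XT.nd (nat_lit 858) (nat_lit 1140) (nat_lit 0) (XT.nd (nat_lit 390) (nat_lit 684) (nat_lit 0) (XT.nd (nat_lit 156) (nat_lit 456) (nat_lit 0) (XT.nd (nat_lit 78) (nat_lit 0) (nat_lit 0) (XT.lf (nat_lit 0) (nat_lit 26646759326) (nat_lit 380) (nat_lit 87664088331) (nat_lit 76) (nat_lit 9617281931) (nat_lit 64) (nat_lit 5) (nat_lit 69) (nat_lit 5) (nat_lit 65) (nat_lit 5) (nat_lit 381) (nat_lit 356) (nat_lit 163)) (XT.lf (nat_lit 0) (nat_lit 47655013142) (nat_lit 380) (nat_lit 22717694292) (nat_lit 76) (nat_lit 57340185069) (nat_lit 64) (nat_lit 5) (nat_lit 69) (nat_lit 5) (nat_lit 65) (nat_lit 5) (nat_lit 382) (nat_lit 356) (nat_lit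 162))) (XT.nd (nat_lit 78) (nat_lit 228) (nat_lit 0) (XT.lf (nat_lit 0) (nat_lit 46979139957) (nat_lit 228) (nat_lit 23467637701) (nat_lit 304) (nat_lit 61203461297) (nat_lit 61) (nat_lit 5) (nat_lit 64) (nat_lit 5) (nat_lit 65) (nat_lit 5) (nat_lit 383) (nat_lit 356) (nat_lit 161)) (XT.nd (nat_lit 78) (nat_lit 228) (nat_lit 0) (XT.lf (nat_lit 0) (nat_lit 95171342851) (nat_lit 304) (nat_lit 15225053972) (nat_lit 76) (nat_lit 25348395563) (nat_lit 61) (nat_lit 5) (nat_lit 65) (nat_lit 5) (nat_lit 62) (nat_lit 5) (nat_lit 384) (nat_lit 356) (nat_lit 160)) (XT.lf (nat_lit 0) (nat_lit 59202952765) (nat_lit 228) (nat_lit 63237870722) (nat_lit 304) (nat_lit 17537815906) (nat_lit 58) (nat_lit 5) (nat_lit 61) (nat_lit 5) (nat_lit 62) (nat_lit 5) (nat_lit 385) (nat_lit 356) (nat_lit 159))))) (XT.nd (nat_lit 234) (nat_lit 152) (nat_lit 0) (XT.nd (nat_lit 78) (nat_lit 456) (nat_lit 0) (XT.lf (nat_lit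 0) (nat_lit 6698492488) (nat_lit 304) (nat_lit 6638886327) (nat_lit 76) (nat_lit 131068523143) (nat_lit 57) (nat_lit 5) (nat_lit 61) (nat_lit 5) (nat_lit 58) (nat_lit 5) (nat_lit 386) (nat_lit 356) (nat_lit 158)) (XT.nd (nat_lit 78) (nat_lit 228) (nat_lit 0) (XT.lf (nat_lit 0) (nat_lit 33333986676) (nat_lit 304) (nat_lit 76354639437) (nat_lit 76) (nat_lit 39262688708) (nat_lit 54) (nat_lit 5) (nat_lit 58) (nat_lit 5) (nat_lit 55) (nat_lit 5) (nat_lit 387) (nat_lit 356) (nat_lit 157)) (XT.lf (nat_lit 0) (nat_lit 2154105309) (nat_lit 228) (nat_lit 59513377592) (nat_lit 304) (nat_lit 92038204276) (nat_lit 51) (nat_lit 5) (nat_lit 54) (nat_lit 5) (nat_lit 55) (nat_lit 5) (nat_lit 388) (nat_lit 356) (nat_lit 156)))) (XT.nd (nat_lit 78) (nat_lit 152) (nat_lit 0) (XT.lf (nat_lit 0) (nat_lit 87238679212) (nat_lit 228) (nat_lit 5471759926) (nat_lit 304) (nat_lit 65922699963) (nat_lit 51) (nat_lit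 5) (nat_lit 54) (nat_lit 5) (nat_lit 55) (nat_lit 5) (nat_lit 389) (nat_lit 356) (nat_lit 155)) (XT.nd (nat_lit 78) (nat_lit 0) (nat_lit 0) (XT.lf (nat_lit 0) (nat_lit 12365327747) (nat_lit 152) (nat_lit 113933466818) (nat_lit 228) (nat_lit 37458506684) (nat_lit 49) (nat_lit 5) (nat_lit 51) (nat_lit 5) (nat_lit 52) (nat_lit 5) (nat_lit 390) (nat_lit 356) (nat_lit 154)) (XT.lf (nat_lit 0) (nat_lit 102698640211) (nat_lit 152) (nat_lit 60164984228) (nat_lit 228) (nat_lit 6209194419) (nat_lit 49) (nat_lit 5) (nat_lit 51) (nat_lit 5) (nat_lit 52) (nat_lit 5) (nat_lit 391) (nat_lit 356) (nat_lit 153)))))) (XT.nd (nat_lit 468) (nat_lit 456) (nat_lit 0) (XT.nd (nat_lit 234) (nat_lit 228) (nat_lit 0) (XT.nd (nat_lit 78) (nat_lit 152) (nat_lit 0) (XT.lf (nat_lit 0) (nat_lit 23221972975) (nat_lit 228) (nat_lit 2891433852) (nat_lit 304) (nat_lit 148501825039) (nat_lit 45) (nat_lit 5) (nat_lit 48) (nat_lit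 5) (nat_lit 49) (nat_lit 5) (nat_lit 392) (nat_lit 356) (nat_lit 152)) (XT.nd (nat_lit 78) (nat_lit 152) (nat_lit 0) (XT.lf (nat_lit 0) (nat_lit 61879458788) (nat_lit 304) (nat_lit 61790697651) (nat_lit 76) (nat_lit 56657720228) (nat_lit 45) (nat_lit 5) (nat_lit 49) (nat_lit 5) (nat_lit 46) (nat_lit 5) (nat_lit 393) (nat_lit 356) (nat_lit 151)) (XT.lf (nat_lit 0) (nat_lit 33310305090) (nat_lit 152) (nat_lit 66690706188) (nat_lit 228) (nat_lit 86296782690) (nat_lit 43) (nat_lit 5) (nat_lit 45) (nat_lit 5) (nat_lit 46) (nat_lit 5) (nat_lit 394) (nat_lit 356) (nat_lit 150)))) (XT.nd (nat_lit 78) (nat_lit 228) (nat_lit 0) (XT.lf (nat_lit 0) (nat_lit 135311174507) (nat_lit 152) (nat_lit 5763658751) (nat_lit 228) (nat_lit 51439064430) (nat_lit 43) (nat_lit 5) (nat_lit 45) (nat_lit 5) (nat_lit 46) (nat_lit 5) (nat_lit 395) (nat_lit 356) (nat_lit 149)) (XT.nd (nat_lit 78) (nat_lit 76) (nat_lit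 0) (XT.lf (nat_lit 0) (nat_lit 43866043437) (nat_lit 152) (nat_lit 141929738729) (nat_lit 228) (nat_lit 13165352776) (nat_lit 41) (nat_lit 5) (nat_lit 43) (nat_lit 5) (nat_lit 44) (nat_lit 5) (nat_lit 396) (nat_lit 356) (nat_lit 148)) (XT.lf (nat_lit 0) (nat_lit 27236041909) (nat_lit 228) (nat_lit 54240765179) (nat_lit 76) (nat_lit 124178889025) (nat_lit 40) (nat_lit 5) (nat_lit 43) (nat_lit 5) (nat_lit 41) (nat_lit 5) (nat_lit 397) (nat_lit 356) (nat_lit 147))))) (XT.nd (nat_lit 234) (nat_lit 152) (nat_lit 0) (XT.nd (nat_lit 78) (nat_lit 152) (nat_lit 0) (XT.lf (nat_lit 0) (nat_lit 53140902881) (nat_lit 152) (nat_lit 16903600048) (nat_lit 228) (nat_lit 142588219324) (nat_lit 38) (nat_lit 5) (nat_lit 40) (nat_lit 5) (nat_lit 41) (nat_lit 5) (nat_lit 398) (nat_lit 356) (nat_lit 146)) (XT.nd (nat_lit 78) (nat_lit 152) (nat_lit 0) (XT.lf (nat_lit 0) (nat_lit 116721467563) (nat_lit 228) (nat_lit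 52948015388) (nat_lit 76) (nat_lit 50202712835) (nat_lit 38) (nat_lit 5) (nat_lit 41) (nat_lit 5) (nat_lit 39) (nat_lit 5) (nat_lit 399) (nat_lit 356) (nat_lit 145)) (XT.lf (nat_lit 0) (nat_lit 60584581177) (nat_lit 152) (nat_lit 106370477265) (nat_lit 228) (nat_lit 60457445763) (nat_lit 36) (nat_lit 5) (nat_lit 38) (nat_lit 5) (nat_lit 39) (nat_lit 5) (nat_lit 400) (nat_lit 356) (nat_lit 144)))) (XT.nd (nat_lit 78) (nat_lit 152) (nat_lit 0) (XT.lf (nat_lit 0) (nat_lit 181631674767) (nat_lit 152) (nat_lit 38965134053) (nat_lit 228) (nat_lit 14688195333) (nat_lit 36) (nat_lit 5) (nat_lit 38) (nat_lit 5) (nat_lit 39) (nat_lit 5) (nat_lit 401) (nat_lit 356) (nat_lit 143)) (XT.nd (nat_lit 78) (nat_lit 0) (nat_lit 0) (XT.lf (nat_lit 0) (nat_lit 33866438354) (nat_lit 152) (nat_lit 177198680807) (nat_lit 76) (nat_lit 32381712761) (nat_lit 34) (nat_lit 5) (nat_lit 36) (nat_lit 5) (nat_lit 35) (nat_lit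 5) (nat_lit 402) (nat_lit 356) (nat_lit 142)) (XT.lf (nat_lit 0) (nat_lit 85917286722) (nat_lit 152) (nat_lit 58858709797) (nat_lit 76) (nat_lit 107150610016) (nat_lit 34) (nat_lit 5) (nat_lit 36) (nat_lit 5) (nat_lit 35) (nat_lit 5) (nat_lit 403) (nat_lit 356) (nat_lit 141))))))) (XT.nd (nat_lit 936) (nat_lit 380) (nat_lit 0) (XT.nd (nat_lit 468) (nat_lit 380) (nat_lit 0) (XT.nd (nat_lit 234) (nat_lit 228) (nat_lit 0) (XT.nd (nat_lit 78) (nat_lit 76) (nat_lit 0) (XT.lf (nat_lit 0) (nat_lit 67560266933) (nat_lit 152) (nat_lit 74065014792) (nat_lit 228) (nat_lit 119152358027) (nat_lit 32) (nat_lit 5) (nat_lit 34) (nat_lit 5) (nat_lit 35) (nat_lit 5) (nat_lit 404) (nat_lit 356) (nat_lit 140)) (XT.nd (nat_lit 78) (nat_lit 76) (nat_lit 0) (XT.lf (nat_lit 0) (nat_lit 201134453380) (nat_lit 228) (nat_lit 67697271032) (nat_lit 76) (nat_lit 1188711456) (nat_lit 32) (nat_lit 5) (nat_lit 35) (nat_lit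 5) (nat_lit 33) (nat_lit 4) (nat_lit 405) (nat_lit 356) (nat_lit 139)) (XT.lf (nat_lit 0) (nat_lit 64963566080) (nat_lit 76) (nat_lit 200883772103) (nat_lit 152) (nat_lit 13766620955) (nat_lit 31) (nat_lit 5) (nat_lit 32) (nat_lit 5) (nat_lit 33) (nat_lit 4) (nat_lit 406) (nat_lit 356) (nat_lit 138)))) (XT.nd (nat_lit 78) (nat_lit 152) (nat_lit 0) (XT.lf (nat_lit 0) (nat_lit 43862046926) (nat_lit 152) (nat_lit 83729878257) (nat_lit 76) (nat_lit 162002545812) (nat_lit 30) (nat_lit 5) (nat_lit 32) (nat_lit 5) (nat_lit 31) (nat_lit 5) (nat_lit 407) (nat_lit 356) (nat_lit 137)) (XT.nd (nat_lit 78) (nat_lit 0) (nat_lit 0) (XT.lf (nat_lit 0) (nat_lit 55279969945) (nat_lit 152) (nat_lit 49492425267) (nat_lit 228) (nat_lit 195247184397) (nat_lit 28) (nat_lit 5) (nat_lit 30) (nat_lit 5) (nat_lit 31) (nat_lit 5) (nat_lit 408) (nat_lit 356) (nat_lit 136)) (XT.lf (nat_lit 0) (nat_lit 170676939258)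 (nat_lit 228) (nat_lit 107278986698) (nat_lit 76) (nat_lit 32912583846) (nat_lit 28) (nat_lit 5) (nat_lit 31) (nat_lit 5) (nat_lit 29) (nat_lit 4) (nat_lit 409) (nat_lit 356) (nat_lit 135))))) (XT.nd (nat_lit 234) (nat_lit 76) (nat_lit 0) (XT.nd (nat_lit 78) (nat_lit 228) (nat_lit 0) (XT.lf (nat_lit 0) (nat_lit 37441372995) (nat_lit 76) (nat_lit 203831084106) (nat_lit 152) (nat_lit 80917642134) (nat_lit 27) (nat_lit 5) (nat_lit 28) (nat_lit 5) (nat_lit 29) (nat_lit 4) (nat_lit 410) (nat_lit 356) (nat_lit 134)) (XT.nd (nat_lit 78) (nat_lit 228) (nat_lit 0) (XT.lf (nat_lit 0) (nat_lit 193121938754) (nat_lit 76) (nat_lit 124092467678) (nat_lit 152) (nat_lit 16772528987) (nat_lit 27) (nat_lit 5) (nat_lit 28) (nat_lit 5) (nat_lit 29) (nat_lit 4) (nat_lit 411) (nat_lit 356) (nat_lit 133)) (XT.lf (nat_lit 0) (nat_lit 9734503894) (nat_lit 152) (nat_lit 39378287359) (nat_lit 228) (nat_lit 297213746449)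 (nat_lit 24) (nat_lit 5) (nat_lit 26) (nat_lit 5) (nat_lit 27) (nat_lit 5) (nat_lit 412) (nat_lit 356) (nat_lit 132)))) (XT.nd (nat_lit 78) (nat_lit 76) (nat_lit 0) (XT.lf (nat_lit 0) (nat_lit 120927228118) (nat_lit 228) (nat_lit 187497653463) (nat_lit 76) (nat_lit 50684564716) (nat_lit 24) (nat_lit 5) (nat_lit 27) (nat_lit 5) (nat_lit 25) (nat_lit 4) (nat_lit 413) (nat_lit 356) (nat_lit 131)) (XT.nd (nat_lit 78) (nat_lit 76) (nat_lit 0) (XT.lf (nat_lit 0) (nat_lit 196977780697) (nat_lit 228) (nat_lit 31594374742) (nat_lit 76) (nat_lit 143927075239) (nat_lit 24) (nat_lit 5) (nat_lit 27) (nat_lit 5) (nat_lit 25) (nat_lit 4) (nat_lit 414) (nat_lit 356) (nat_lit 130)) (XT.lf (nat_lit 0) (nat_lit 136471754486) (nat_lit 76) (nat_lit 142489668373) (nat_lit 152) (nat_lit 107490553365) (nat_lit 23) (nat_lit 5) (nat_lit 24) (nat_lit 5) (nat_lit 25) (nat_lit 4) (nat_lit 415) (nat_lit 356) (nat_lit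 129)))))) (XT.nd (nat_lit 468) (nat_lit 152) (nat_lit 0) (XT.nd (nat_lit 234) (nat_lit 76) (nat_lit 0) (XT.nd (nat_lit 78) (nat_lit 152) (nat_lit 0) (XT.lf (nat_lit 0) (nat_lit 314037817895) (nat_lit 76) (nat_lit 51541353528) (nat_lit 152) (nat_lit 35496441454) (nat_lit 23) (nat_lit 5) (nat_lit 24) (nat_lit 5) (nat_lit 25) (nat_lit 4) (nat_lit 416) (nat_lit 356) (nat_lit 128)) (XT.nd (nat_lit 78) (nat_lit 0) (nat_lit 0) (XT.lf (nat_lit 0) (nat_lit 40878015113) (nat_lit 152) (nat_lit 330866535091) (nat_lit 76) (nat_lit 44551379302) (nat_lit 21) (nat_lit 5) (nat_lit 23) (nat_lit 5) (nat_lit 22) (nat_lit 4) (nat_lit 417) (nat_lit 356) (nat_lit 127)) (XT.lf (nat_lit 0) (nat_lit 122221276810) (nat_lit 152) (nat_lit 164113126031) (nat_lit 76) (nat_lit 145796613943) (nat_lit 21) (nat_lit 5) (nat_lit 23) (nat_lit 5) (nat_lit 22) (nat_lit 4) (nat_lit 418) (nat_lit 356) (nat_lit 126)))) (XT.nd (nat_lit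 78) (nat_lit 0) (nat_lit 0) (XT.lf (nat_lit 0) (nat_lit 11340687313) (nat_lit 76) (nat_lit 196467944401) (nat_lit 152) (nat_lit 240940380244) (nat_lit 20) (nat_lit 5) (nat_lit 21) (nat_lit 5) (nat_lit 22) (nat_lit 4) (nat_lit 419) (nat_lit 356) (nat_lit 125)) (XT.nd (nat_lit 78) (nat_lit 0) (nat_lit 0) (XT.lf (nat_lit 0) (nat_lit 201264593353) (nat_lit 76) (nat_lit 99189968931) (nat_lit 152) (nat_lit 165604384244) (nat_lit 20) (nat_lit 5) (nat_lit 21) (nat_lit 5) (nat_lit 22) (nat_lit 4) (nat_lit 420) (nat_lit 356) (nat_lit 124)) (XT.lf (nat_lit 0) (nat_lit 397778754074) (nat_lit 152) (nat_lit 83595999070) (nat_lit 0) (nat_lit 2857326479) (nat_lit 20) (nat_lit 5) (nat_lit 22) (nat_lit 4) (nat_lit 20) (nat_lit 4) (nat_lit 421) (nat_lit 356) (nat_lit 123))))) (XT.nd (nat_lit 41808) (nat_lit 0) (nat_lit 6232) (XT.nd (nat_lit 78) (nat_lit 0) (nat_lit 0) (XT.lf (nat_lit 0) (nat_lit 136842237)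 (nat_lit 152) (nat_lit 394641118372) (nat_lit 76) (nat_lit 108369794591) (nat_lit 18) (nat_lit 5) (nat_lit 20) (nat_lit 5) (nat_lit 19) (nat_lit 4) (nat_lit 422) (nat_lit 356) (nat_lit 122)) (XT.nd (nat_lit 78) (nat_lit 0) (nat_lit 0) (XT.lf (nat_lit 0) (nat_lit 89589950640) (nat_lit 152) (nat_lit 211262453161) (nat_lit 76) (nat_lit 222014005858) (nat_lit 18) (nat_lit 5) (nat_lit 20) (nat_lit 5) (nat_lit 19) (nat_lit 4) (nat_lit 423) (nat_lit 356) (nat_lit 121)) (XT.lf (nat_lit 0) (nat_lit 183515603363) (nat_lit 152) (nat_lit 18715062235) (nat_lit 76) (nat_lit 341340336824) (nat_lit 18) (nat_lit 5) (nat_lit 20) (nat_lit 5) (nat_lit 19) (nat_lit 4) (nat_lit 424) (nat_lit 356) (nat_lit 120)))) (XT.nd (nat_lit 78) (nat_lit 0) (nat_lit 0) (XT.lf (nat_lit 0) (nat_lit 3488344988) (nat_lit 836) (nat_lit 14697723847) (nat_lit 836) (nat_lit 14697723847) (nat_lit 100) (nat_lit 3) (nat_lit 111) (nat_lit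 3) (nat_lit 111) (nat_lit 5) (nat_lit 357) (nat_lit 357) (nat_lit 186)) (XT.nd (nat_lit 78) (nat_lit 0) (nat_lit 76) (XT.lf (nat_lit 76) (nat_lit 1776095711) (nat_lit 0) (nat_lit 5417371512) (nat_lit 836) (nat_lit 60216174333) (nat_lit 101) (nat_lit 5) (nat_lit 100) (nat_lit 3) (nat_lit 111) (nat_lit 5) (nat_lit 358) (nat_lit 357) (nat_lit 185)) (XT.lf (nat_lit 0) (nat_lit 8349007734) (nat_lit 760) (nat_lit 34013748765) (nat_lit 836) (nat_lit 26724648825) (nat_lit 101) (nat_lit 5) (nat_lit 111) (nat_lit 5) (nat_lit 112) (nat_lit 5) (nat_lit 359) (nat_lit 357) (nat_lit 184))))))))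
noncomputable def xc225 : XT := (XT.nd (nat_lit 1794) (nat_lit 2432) (nat_lit 0) (XT.nd (nat_lit 858) (nat_lit 2356) (nat_lit 0) (XT.nd (nat_lit 390) (nat_lit 456) (nat_lit 0) (XT.nd (nat_lit 156) (nat_lit 0) (nat_lit 76) (XT.nd (nat_lit 78) (nat_lit 0) (nat_lit 76) (XT.lf (nat_lit 0) (nat_lit 9650241645) (nat_lit 760) (nat_lit 902307826) (nat_lit 836) (nat_lit 60292112933) (nat_lit 101) (nat_lit 5) (nat_lit 111) (nat_lit 5) (nat_lit 112) (nat_lit 5) (nat_lit 360) (nat_lit 357) (nat_lit 183)) (XT.lf (nat_lit 0) (nat_lit 11927566735) (nat_lit 760) (nat_lit 38044301919) (nat_lit 836) (nat_lit 22672363106) (nat_lit 102) (nat_lit 5) (nat_lit 112) (nat_lit 5) (nat_lit 113) (nat_lit 5) (nat_lit 361) (nat_lit 357) (nat_lit 182))) (XT.nd (nat_lit 78) (nat_lit 0) (nat_lit 76) (XT.lf (nat_lit 0) (nat_lit 14506469318) (nat_lit 760) (nat_lit 2798202664) (nat_lit 836) (nat_lit 57219722895) (nat_lit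 102) (nat_lit 5) (nat_lit 112) (nat_lit 5) (nat_lit 113) (nat_lit 5) (nat_lit 362) (nat_lit 357) (nat_lit 181)) (XT.nd (nat_lit 78) (nat_lit 0) (nat_lit 0) (XT.lf (nat_lit 0) (nat_lit 18039714537) (nat_lit 760) (nat_lit 41404615234) (nat_lit 836) (nat_lit 17012967316) (nat_lit 103) (nat_lit 5) (nat_lit 113) (nat_lit 5) (nat_lit 114) (nat_lit 5) (nat_lit 363) (nat_lit 357) (nat_lit 180)) (XT.lf (nat_lit 0) (nat_lit 22080729178) (nat_lit 760) (nat_lit 3876233627) (nat_lit 836) (nat_lit 52513327017) (nat_lit 103) (nat_lit 5) (nat_lit 113) (nat_lit 5) (nat_lit 114) (nat_lit 5) (nat_lit 364) (nat_lit 357) (nat_lit 179))))) (XT.nd (nat_lit 234) (nat_lit 684) (nat_lit 0) (XT.nd (nat_lit 78) (nat_lit 0) (nat_lit 0) (XT.lf (nat_lit 0) (nat_lit 27049229992) (nat_lit 760) (nat_lit 44005671256) (nat_lit 836) (nat_lit 9492759914) (nat_lit 104) (nat_lit 5) (nat_lit 114) (nat_lit 5) (nat_lit 115) (nat_lit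 5) (nat_lit 365) (nat_lit 357) (nat_lit 178)) (XT.nd (nat_lit 78) (nat_lit 0) (nat_lit 0) (XT.lf (nat_lit 0) (nat_lit 32757723423) (nat_lit 760) (nat_lit 4037078936) (nat_lit 836) (nat_lit 45909521033) (nat_lit 104) (nat_lit 5) (nat_lit 114) (nat_lit 5) (nat_lit 115) (nat_lit 5) (nat_lit 366) (nat_lit 357) (nat_lit 177)) (XT.lf (nat_lit 76) (nat_lit 39183528507) (nat_lit 0) (nat_lit 179231559) (nat_lit 836) (nat_lit 45575503410) (nat_lit 105) (nat_lit 5) (nat_lit 104) (nat_lit 5) (nat_lit 115) (nat_lit 5) (nat_lit 367) (nat_lit 357) (nat_lit 176)))) (XT.nd (nat_lit 78) (nat_lit 760) (nat_lit 0) (XT.lf (nat_lit 0) (nat_lit 46964374204) (nat_lit 760) (nat_lit 3174292155) (nat_lit 76) (nat_lit 37111918559) (nat_lit 105) (nat_lit 5) (nat_lit 115) (nat_lit 5) (nat_lit 106) (nat_lit 5) (nat_lit 368) (nat_lit 357) (nat_lit 175)) (XT.nd (nat_lit 78) (nat_lit 0) (nat_lit 0) (XT.lf (nat_lit 0) (nat_lit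 42904929895) (nat_lit 760) (nat_lit 12713351197) (nat_lit 836) (nat_lit 34026631345) (nat_lit 95) (nat_lit 5) (nat_lit 105) (nat_lit 5) (nat_lit 106) (nat_lit 5) (nat_lit 369) (nat_lit 357) (nat_lit 174)) (XT.lf (nat_lit 0) (nat_lit 65173989970) (nat_lit 836) (nat_lit 1174422928) (nat_lit 76) (nat_lit 25787088679) (nat_lit 95) (nat_lit 5) (nat_lit 106) (nat_lit 5) (nat_lit 96) (nat_lit 5) (nat_lit 370) (nat_lit 357) (nat_lit 173)))))) (XT.nd (nat_lit 468) (nat_lit 912) (nat_lit 0) (XT.nd (nat_lit 234) (nat_lit 684) (nat_lit 0) (XT.nd (nat_lit 78) (nat_lit 380) (nat_lit 0) (XT.lf (nat_lit 0) (nat_lit 47996666614) (nat_lit 380) (nat_lit 28168051437) (nat_lit 456) (nat_lit 18538040986) (nat_lit 90) (nat_lit 5) (nat_lit 95) (nat_lit 5) (nat_lit 96) (nat_lit 5) (nat_lit 371) (nat_lit 357) (nat_lit 172)) (XT.nd (nat_lit 78) (nat_lit 76) (nat_lit 0) (XT.lf (nat_lit 0) (nat_lit 2151567182) (nat_lit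 304) (nat_lit 85792821850) (nat_lit 380) (nat_lit 9442020538) (nat_lit 86) (nat_lit 5) (nat_lit 90) (nat_lit 5) (nat_lit 91) (nat_lit 5) (nat_lit 372) (nat_lit 357) (nat_lit 171)) (XT.lf (nat_lit 0) (nat_lit 1370528837) (nat_lit 380) (nat_lit 45568043256) (nat_lit 76) (nat_lit 53202325567) (nat_lit 85) (nat_lit 5) (nat_lit 90) (nat_lit 5) (nat_lit 86) (nat_lit 5) (nat_lit 373) (nat_lit 357) (nat_lit 170)))) (XT.nd (nat_lit 78) (nat_lit 304) (nat_lit 0) (XT.lf (nat_lit 0) (nat_lit 6639280482) (nat_lit 380) (nat_lit 5870275409) (nat_lit 456) (nat_lit 90510657153) (nat_lit 80) (nat_lit 5) (nat_lit 85) (nat_lit 5) (nat_lit 86) (nat_lit 5) (nat_lit 374) (nat_lit 357) (nat_lit 169)) (XT.nd (nat_lit 78) (nat_lit 304) (nat_lit 0) (XT.lf (nat_lit 0) (nat_lit 25571022614) (nat_lit 456) (nat_lit 43560710596) (nat_lit 76) (nat_lit 36843487005) (nat_lit 80) (nat_lit 5) (nat_lit 86) (nat_lit 5) (nat_lit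 81) (nat_lit 5) (nat_lit 375) (nat_lit 357) (nat_lit 168)) (XT.lf (nat_lit 0) (nat_lit 12194058468) (nat_lit 304) (nat_lit 27377665504) (nat_lit 380) (nat_lit 69491946116) (nat_lit 76) (nat_lit 5) (nat_lit 80) (nat_lit 5) (nat_lit 81) (nat_lit 5) (nat_lit 376) (nat_lit 357) (nat_lit 167))))) (XT.nd (nat_lit 234) (nat_lit 608) (nat_lit 0) (XT.nd (nat_lit 78) (nat_lit 304) (nat_lit 0) (XT.lf (nat_lit 0) (nat_lit 55278883365) (nat_lit 380) (nat_lit 40290434672) (nat_lit 76) (nat_lit 16686903663) (nat_lit 76) (nat_lit 5) (nat_lit 81) (nat_lit 5) (nat_lit 77) (nat_lit 5) (nat_lit 377) (nat_lit 357) (nat_lit 166)) (XT.nd (nat_lit 78) (nat_lit 0) (nat_lit 0) (XT.lf (nat_lit 0) (nat_lit 19285644014) (nat_lit 304) (nat_lit 53235251589) (nat_lit 380) (nat_lit 43050030917) (nat_lit 72) (nat_lit 5) (nat_lit 76) (nat_lit 5) (nat_lit 77) (nat_lit 5) (nat_lit 378) (nat_lit 357) (nat_lit 165)) (XT.lf (nat_lit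 0) (nat_lit 83238823708) (nat_lit 304) (nat_lit 8068112858) (nat_lit 380) (nat_lit 27710333965) (nat_lit 72) (nat_lit 5) (nat_lit 76) (nat_lit 5) (nat_lit 77) (nat_lit 5) (nat_lit 379) (nat_lit 357) (nat_lit 164)))) (XT.nd (nat_lit 78) (nat_lit 380) (nat_lit 0) (XT.lf (nat_lit 0) (nat_lit 28036090783) (nat_lit 228) (nat_lit 84047998132) (nat_lit 304) (nat_lit 10499252698) (nat_lit 69) (nat_lit 5) (nat_lit 72) (nat_lit 5) (nat_lit 73) (nat_lit 5) (nat_lit 380) (nat_lit 357) (nat_lit 163)) (XT.nd (nat_lit 78) (nat_lit 304) (nat_lit 0) (XT.lf (nat_lit 0) (nat_lit 8077754660) (nat_lit 304) (nat_lit 30274837289) (nat_lit 76) (nat_lit 87931826523) (nat_lit 68) (nat_lit 5) (nat_lit 72) (nat_lit 5) (nat_lit 69) (nat_lit 5) (nat_lit 381) (nat_lit 357) (nat_lit 162)) (XT.lf (nat_lit 0) (nat_lit 27990723823) (nat_lit 380) (nat_lit 92031749853) (nat_lit 76) (nat_lit 10101472086) (nat_lit 64) (nat_lit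 5) (nat_lit 69) (nat_lit 5) (nat_lit 65) (nat_lit 5) (nat_lit 382) (nat_lit 357) (nat_lit 161))))))) (XT.nd (nat_lit 936) (nat_lit 988) (nat_lit 0) (XT.nd (nat_lit 468) (nat_lit 684) (nat_lit 0) (XT.nd (nat_lit 234) (nat_lit 532) (nat_lit 0) (XT.nd (nat_lit 78) (nat_lit 228) (nat_lit 0) (XT.lf (nat_lit 0) (nat_lit 50048836685) (nat_lit 380) (nat_lit 23838776250) (nat_lit 76) (nat_lit 60210361998) (nat_lit 64) (nat_lit 5) (nat_lit 69) (nat_lit 5) (nat_lit 65) (nat_lit 5) (nat_lit 383) (nat_lit 357) (nat_lit 160)) (XT.nd (nat_lit 78) (nat_lit 0) (nat_lit 0) (XT.lf (nat_lit 0) (nat_lit 49342660958) (nat_lit 228) (nat_lit 24637228574) (nat_lit 304) (nat_lit 64252314578) (nat_lit 61) (nat_lit 5) (nat_lit 64) (nat_lit 5) (nat_lit 65) (nat_lit 5) (nat_lit 384) (nat_lit 357) (nat_lit 159)) (XT.lf (nat_lit 0) (nat_lit 99940226355) (nat_lit 304) (nat_lit 15971971805) (nat_lit 76) (nat_lit 26619310271)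 (nat_lit 61) (nat_lit 5) (nat_lit 65) (nat_lit 5) (nat_lit 62) (nat_lit 5) (nat_lit 385) (nat_lit 357) (nat_lit 158)))) (XT.nd (nat_lit 78) (nat_lit 304) (nat_lit 0) (XT.lf (nat_lit 0) (nat_lit 62177204061) (nat_lit 228) (nat_lit 66395705904) (nat_lit 304) (nat_lit 18404151746) (nat_lit 58) (nat_lit 5) (nat_lit 61) (nat_lit 5) (nat_lit 62) (nat_lit 5) (nat_lit 386) (nat_lit 357) (nat_lit 157)) (XT.nd (nat_lit 78) (nat_lit 228) (nat_lit 0) (XT.lf (nat_lit 0) (nat_lit 7043147713) (nat_lit 304) (nat_lit 6957070151) (nat_lit 76) (nat_lit 137625485962) (nat_lit 57) (nat_lit 5) (nat_lit 61) (nat_lit 5) (nat_lit 58) (nat_lit 5) (nat_lit 387) (nat_lit 357) (nat_lit 156)) (XT.lf (nat_lit 0) (nat_lit 35010228011) (nat_lit 304) (nat_lit 80158415934) (nat_lit 76) (nat_lit 41229753135) (nat_lit 54) (nat_lit 5) (nat_lit 58) (nat_lit 5) (nat_lit 55) (nat_lit 5) (nat_lit 388) (nat_lit 357) (nat_lit 155)))))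 (XT.nd (nat_lit 234) (nat_lit 304) (nat_lit 0) (XT.nd (nat_lit 78) (nat_lit 152) (nat_lit 0) (XT.lf (nat_lit 0) (nat_lit 2275540961) (nat_lit 228) (nat_lit 62484618076) (nat_lit 304) (nat_lit 96630341324) (nat_lit 51) (nat_lit 5) (nat_lit 54) (nat_lit 5) (nat_lit 55) (nat_lit 5) (nat_lit 389) (nat_lit 357) (nat_lit 154)) (XT.nd (nat_lit 78) (nat_lit 152) (nat_lit 0) (XT.lf (nat_lit 0) (nat_lit 91613689730) (nat_lit 228) (nat_lit 5741130402) (nat_lit 304) (nat_lit 69209527184) (nat_lit 51) (nat_lit 5) (nat_lit 54) (nat_lit 5) (nat_lit 55) (nat_lit 5) (nat_lit 390) (nat_lit 357) (nat_lit 153)) (XT.lf (nat_lit 0) (nat_lit 12996836497) (nat_lit 152) (nat_lit 119625604437) (nat_lit 228) (nat_lit 39322284533) (nat_lit 49) (nat_lit 5) (nat_lit 51) (nat_lit 5) (nat_lit 52) (nat_lit 5) (nat_lit 391) (nat_lit 357) (nat_lit 152)))) (XT.nd (nat_lit 78) (nat_lit 304) (nat_lit 0) (XT.lf (nat_lit 0) (nat_lit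 107846183995) (nat_lit 152) (nat_lit 63168913705) (nat_lit 228) (nat_lit 6510942250) (nat_lit 49) (nat_lit 5) (nat_lit 51) (nat_lit 5) (nat_lit 52) (nat_lit 5) (nat_lit 392) (nat_lit 357) (nat_lit 151)) (XT.nd (nat_lit 78) (nat_lit 0) (nat_lit 0) (XT.lf (nat_lit 0) (nat_lit 24395759239) (nat_lit 228) (nat_lit 3031547500) (nat_lit 304) (nat_lit 155918270480) (nat_lit 45) (nat_lit 5) (nat_lit 48) (nat_lit 5) (nat_lit 49) (nat_lit 5) (nat_lit 393) (nat_lit 357) (nat_lit 150)) (XT.lf (nat_lit 0) (nat_lit 64981335702) (nat_lit 304) (nat_lit 64867818960) (nat_lit 76) (nat_lit 59494716105) (nat_lit 45) (nat_lit 5) (nat_lit 49) (nat_lit 5) (nat_lit 46) (nat_lit 5) (nat_lit 394) (nat_lit 357) (nat_lit 149)))))) (XT.nd (nat_lit 468) (nat_lit 456) (nat_lit 0) (XT.nd (nat_lit 234) (nat_lit 228) (nat_lit 0) (XT.nd (nat_lit 78) (nat_lit 152) (nat_lit 0) (XT.lf (nat_lit 0) (nat_lit 34988033700) (nat_lit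 152) (nat_lit 70020746422) (nat_lit 228) (nat_lit 90603513312) (nat_lit 43) (nat_lit 5) (nat_lit 45) (nat_lit 5) (nat_lit 46) (nat_lit 5) (nat_lit 395) (nat_lit 357) (nat_lit 148)) (XT.nd (nat_lit 78) (nat_lit 152) (nat_lit 0) (XT.lf (nat_lit 0) (nat_lit 142088364998) (nat_lit 152) (nat_lit 6047560665) (nat_lit 228) (nat_lit 54003295258) (nat_lit 43) (nat_lit 5) (nat_lit 45) (nat_lit 5) (nat_lit 46) (nat_lit 5) (nat_lit 396) (nat_lit 357) (nat_lit 147)) (XT.lf (nat_lit 0) (nat_lit 46071089662) (nat_lit 152) (nat_lit 149021729334) (nat_lit 228) (nat_lit 13816006390) (nat_lit 41) (nat_lit 5) (nat_lit 43) (nat_lit 5) (nat_lit 44) (nat_lit 5) (nat_lit 397) (nat_lit 357) (nat_lit 146)))) (XT.nd (nat_lit 78) (nat_lit 152) (nat_lit 0) (XT.lf (nat_lit 0) (nat_lit 28604863364) (nat_lit 228) (nat_lit 56941382981) (nat_lit 76) (nat_lit 130391880052) (nat_lit 40) (nat_lit 5) (nat_lit 43) (nat_lit 5)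 (nat_lit 41) (nat_lit 5) (nat_lit 398) (nat_lit 357) (nat_lit 145)) (XT.nd (nat_lit 78) (nat_lit 0) (nat_lit 0) (XT.lf (nat_lit 0) (nat_lit 55809184281) (nat_lit 152) (nat_lit 17744404328) (nat_lit 228) (nat_lit 149710423345) (nat_lit 38) (nat_lit 5) (nat_lit 40) (nat_lit 5) (nat_lit 41) (nat_lit 5) (nat_lit 399) (nat_lit 357) (nat_lit 144)) (XT.lf (nat_lit 0) (nat_lit 122564139847) (nat_lit 228) (nat_lit 55584450110) (nat_lit 76) (nat_lit 52716882450) (nat_lit 38) (nat_lit 5) (nat_lit 41) (nat_lit 5) (nat_lit 39) (nat_lit 5) (nat_lit 400) (nat_lit 357) (nat_lit 143))))) (XT.nd (nat_lit 234) (nat_lit 152) (nat_lit 0) (XT.nd (nat_lit 78) (nat_lit 152) (nat_lit 0) (XT.lf (nat_lit 0) (nat_lit 63624599411) (nat_lit 152) (nat_lit 111684665075) (nat_lit 228) (nat_lit 63473539204) (nat_lit 36) (nat_lit 5) (nat_lit 38) (nat_lit 5) (nat_lit 39) (nat_lit 5) (nat_lit 401) (nat_lit 357) (nat_lit 142))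 (XT.nd (nat_lit 78) (nat_lit 152) (nat_lit 0) (XT.lf (nat_lit 0) (nat_lit 190723533910) (nat_lit 152) (nat_lit 40909261180) (nat_lit 228) (nat_lit 15416149055) (nat_lit 36) (nat_lit 5) (nat_lit 38) (nat_lit 5) (nat_lit 39) (nat_lit 5) (nat_lit 402) (nat_lit 357) (nat_lit 141)) (XT.lf (nat_lit 0) (nat_lit 35565938768) (nat_lit 152) (nat_lit 186048056458) (nat_lit 76) (nat_lit 34004866718) (nat_lit 34) (nat_lit 5) (nat_lit 36) (nat_lit 5) (nat_lit 35) (nat_lit 5) (nat_lit 403) (nat_lit 357) (nat_lit 140)))) (XT.nd (nat_lit 78) (nat_lit 152) (nat_lit 0) (XT.lf (nat_lit 0) (nat_lit 90219035339) (nat_lit 152) (nat_lit 61791589677) (nat_lit 76) (nat_lit 112512015106) (nat_lit 34) (nat_lit 5) (nat_lit 36) (nat_lit 5) (nat_lit 35) (nat_lit 5) (nat_lit 404) (nat_lit 357) (nat_lit 139)) (XT.nd (nat_lit 78) (nat_lit 0) (nat_lit 0) (XT.lf (nat_lit 0) (nat_lit 70948173702) (nat_lit 152) (nat_lit 77764130651)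 (nat_lit 228) (nat_lit 125103927055) (nat_lit 32) (nat_lit 5) (nat_lit 34) (nat_lit 5) (nat_lit 35) (nat_lit 5) (nat_lit 405) (nat_lit 357) (nat_lit 138)) (XT.lf (nat_lit 0) (nat_lit 211196721857) (nat_lit 228) (nat_lit 71072497252) (nat_lit 76) (nat_lit 1251958970) (nat_lit 32) (nat_lit 5) (nat_lit 35) (nat_lit 5) (nat_lit 33) (nat_lit 4) (nat_lit 406) (nat_lit 357) (nat_lit 137))))))))
noncomputable def xc226 : XT := (XT.nd (nat_lit 43524) (nat_lit 0) (nat_lit 3040) (XT.nd (nat_lit 858) (nat_lit 380) (nat_lit 0) (XT.nd (nat_lit 390) (nat_lit 304) (nat_lit 0) (XT.nd (nat_lit 156) (nat_lit 228) (nat_lit 0) (XT.nd (nat_lit 78) (nat_lit 76) (nat_lit 0) (XT.lf (nat_lit 0) (nat_lit 68221226274) (nat_lit 76) (nat_lit 210923908579) (nat_lit 152) (nat_lit 14449248573) (nat_lit 31) (nat_lit 5) (nat_lit 32) (nat_lit 5) (nat_lit 33) (nat_lit 4) (nat_lit 407) (nat_lit 357) (nat_lit 136)) (XT.lf (nat_lit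 0) (nat_lit 46060407258) (nat_lit 152) (nat_lit 87907165967) (nat_lit 76) (nat_lit 170106356442) (nat_lit 30) (nat_lit 5) (nat_lit 32) (nat_lit 5) (nat_lit 31) (nat_lit 5) (nat_lit 408) (nat_lit 357) (nat_lit 135))) (XT.nd (nat_lit 78) (nat_lit 76) (nat_lit 0) (XT.lf (nat_lit 0) (nat_lit 58053026158) (nat_lit 152) (nat_lit 51963137837) (nat_lit 228) (nat_lit 205004135260) (nat_lit 28) (nat_lit 5) (nat_lit 30) (nat_lit 5) (nat_lit 31) (nat_lit 5) (nat_lit 409) (nat_lit 357) (nat_lit 134)) (XT.nd (nat_lit 78) (nat_lit 76) (nat_lit 0) (XT.lf (nat_lit 0) (nat_lit 179215748170) (nat_lit 228) (nat_lit 112634120771) (nat_lit 76) (nat_lit 34561816459) (nat_lit 28) (nat_lit 5) (nat_lit 31) (nat_lit 5) (nat_lit 29) (nat_lit 4) (nat_lit 410) (nat_lit 357) (nat_lit 133)) (XT.lf (nat_lit 0) (nat_lit 39322114725) (nat_lit 76) (nat_lit 214018826309) (nat_lit 152) (nat_lit 84958418400) (nat_lit 27) (nat_lit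 5) (nat_lit 28) (nat_lit 5) (nat_lit 29) (nat_lit 4) (nat_lit 411) (nat_lit 357) (nat_lit 132))))) (XT.nd (nat_lit 234) (nat_lit 76) (nat_lit 0) (XT.nd (nat_lit 78) (nat_lit 228) (nat_lit 0) (XT.lf (nat_lit 0) (nat_lit 202786295768) (nat_lit 76) (nat_lit 130293460583) (nat_lit 152) (nat_lit 17606292731) (nat_lit 27) (nat_lit 5) (nat_lit 28) (nat_lit 5) (nat_lit 29) (nat_lit 4) (nat_lit 412) (nat_lit 357) (nat_lit 131)) (XT.nd (nat_lit 78) (nat_lit 0) (nat_lit 0) (XT.lf (nat_lit 0) (nat_lit 10229510590) (nat_lit 152) (nat_lit 41343532445) (nat_lit 228) (nat_lit 312069589465) (nat_lit 24) (nat_lit 5) (nat_lit 26) (nat_lit 5) (nat_lit 27) (nat_lit 5) (nat_lit 413) (nat_lit 357) (nat_lit 130)) (XT.lf (nat_lit 0) (nat_lit 126978036674) (nat_lit 228) (nat_lit 196864482516) (nat_lit 76) (nat_lit 53222175659) (nat_lit 24) (nat_lit 5) (nat_lit 27) (nat_lit 5) (nat_lit 25) (nat_lit 4) (nat_lit 414)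 (nat_lit 357) (nat_lit 129)))) (XT.nd (nat_lit 78) (nat_lit 76) (nat_lit 0) (XT.lf (nat_lit 0) (nat_lit 206830905113) (nat_lit 228) (nat_lit 33166423364) (nat_lit 76) (nat_lit 151126650626) (nat_lit 24) (nat_lit 5) (nat_lit 27) (nat_lit 5) (nat_lit 25) (nat_lit 4) (nat_lit 415) (nat_lit 357) (nat_lit 128)) (XT.nd (nat_lit 78) (nat_lit 0) (nat_lit 0) (XT.lf (nat_lit 0) (nat_lit 143302888614) (nat_lit 76) (nat_lit 149610756905) (nat_lit 152) (nat_lit 112860720665) (nat_lit 23) (nat_lit 5) (nat_lit 24) (nat_lit 5) (nat_lit 25) (nat_lit 4) (nat_lit 416) (nat_lit 357) (nat_lit 127)) (XT.lf (nat_lit 0) (nat_lit 329746895840) (nat_lit 76) (nat_lit 54115187979) (nat_lit 152) (nat_lit 37267110795) (nat_lit 23) (nat_lit 5) (nat_lit 24) (nat_lit 5) (nat_lit 25) (nat_lit 4) (nat_lit 417) (nat_lit 357) (nat_lit 126)))))) (XT.nd (nat_lit 42198) (nat_lit 0) (nat_lit 6232) (XT.nd (nat_lit 234) (nat_lit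 152) (nat_lit 0) (XT.nd (nat_lit 78) (nat_lit 76) (nat_lit 0) (XT.lf (nat_lit 0) (nat_lit 42925907659) (nat_lit 152) (nat_lit 347402511594) (nat_lit 76) (nat_lit 46782106037) (nat_lit 21) (nat_lit 5) (nat_lit 23) (nat_lit 5) (nat_lit 22) (nat_lit 4) (nat_lit 418) (nat_lit 357) (nat_lit 125)) (XT.nd (nat_lit 78) (nat_lit 76) (nat_lit 0) (XT.lf (nat_lit 0) (nat_lit 128336142355) (nat_lit 152) (nat_lit 172311782094) (nat_lit 76) (nat_lit 153089452041) (nat_lit 21) (nat_lit 5) (nat_lit 23) (nat_lit 5) (nat_lit 22) (nat_lit 4) (nat_lit 419) (nat_lit 357) (nat_lit 124)) (XT.lf (nat_lit 0) (nat_lit 11914609011) (nat_lit 76) (nat_lit 206288182490) (nat_lit 152) (nat_lit 252983483645) (nat_lit 20) (nat_lit 5) (nat_lit 21) (nat_lit 5) (nat_lit 22) (nat_lit 4) (nat_lit 420) (nat_lit 357) (nat_lit 123)))) (XT.nd (nat_lit 78) (nat_lit 152) (nat_lit 0) (XT.lf (nat_lit 0) (nat_lit 211334382384) (nat_lit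 76) (nat_lit 104146458681) (nat_lit 152) (nat_lit 173880874303) (nat_lit 20) (nat_lit 5) (nat_lit 21) (nat_lit 5) (nat_lit 22) (nat_lit 4) (nat_lit 421) (nat_lit 357) (nat_lit 122)) (XT.nd (nat_lit 78) (nat_lit 152) (nat_lit 0) (XT.lf (nat_lit 0) (nat_lit 417671118104) (nat_lit 152) (nat_lit 87769426762) (nat_lit 0) (nat_lit 3002966516) (nat_lit 20) (nat_lit 5) (nat_lit 22) (nat_lit 4) (nat_lit 20) (nat_lit 4) (nat_lit 422) (nat_lit 357) (nat_lit 121)) (XT.lf (nat_lit 0) (nat_lit 147101336) (nat_lit 152) (nat_lit 414366791004) (nat_lit 76) (nat_lit 113791078949) (nat_lit 18) (nat_lit 5) (nat_lit 20) (nat_lit 5) (nat_lit 19) (nat_lit 4) (nat_lit 423) (nat_lit 357) (nat_lit 120))))) (XT.nd (nat_lit 234) (nat_lit 0) (nat_lit 76) (XT.nd (nat_lit 78) (nat_lit 0) (nat_lit 0) (XT.lf (nat_lit 0) (nat_lit 3677163985) (nat_lit 836) (nat_lit 15425041520) (nat_lit 836) (nat_lit 15425041520) (nat_lit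 100) (nat_lit 3) (nat_lit 111) (nat_lit 3) (nat_lit 111) (nat_lit 5) (nat_lit 358) (nat_lit 358) (nat_lit 184)) (XT.nd (nat_lit 78) (nat_lit 0) (nat_lit 76) (XT.lf (nat_lit 76) (nat_lit 1879793389) (nat_lit 0) (nat_lit 5701011615) (nat_lit 836) (nat_lit 63197906451) (nat_lit 101) (nat_lit 5) (nat_lit 100) (nat_lit 3) (nat_lit 111) (nat_lit 5) (nat_lit 359) (nat_lit 358) (nat_lit 183)) (XT.lf (nat_lit 0) (nat_lit 8792615283) (nat_lit 760) (nat_lit 35698717661) (nat_lit 836) (nat_lit 28049107209) (nat_lit 101) (nat_lit 5) (nat_lit 111) (nat_lit 5) (nat_lit 112) (nat_lit 5) (nat_lit 360) (nat_lit 358) (nat_lit 182)))) (XT.nd (nat_lit 78) (nat_lit 0) (nat_lit 76) (XT.lf (nat_lit 0) (nat_lit 10157665310) (nat_lit 760) (nat_lit 932453176) (nat_lit 836) (nat_lit 63295505193) (nat_lit 101) (nat_lit 5) (nat_lit 111) (nat_lit 5) (nat_lit 112) (nat_lit 5) (nat_lit 361) (nat_lit 358) (nat_lit 181))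 (XT.nd (nat_lit 78) (nat_lit 0) (nat_lit 0) (XT.lf (nat_lit 0) (nat_lit 12547756289) (nat_lit 760) (nat_lit 39930421594) (nat_lit 836) (nat_lit 23797049889) (nat_lit 102) (nat_lit 5) (nat_lit 112) (nat_lit 5) (nat_lit 113) (nat_lit 5) (nat_lit 362) (nat_lit 358) (nat_lit 180)) (XT.lf (nat_lit 0) (nat_lit 15254470133) (nat_lit 760) (nat_lit 2922783825) (nat_lit 836) (nat_lit 60072202971) (nat_lit 102) (nat_lit 5) (nat_lit 112) (nat_lit 5) (nat_lit 113) (nat_lit 5) (nat_lit 363) (nat_lit 358) (nat_lit 179))))))) (XT.nd (nat_lit 936) (nat_lit 1672) (nat_lit 0) (XT.nd (nat_lit 468) (nat_lit 1748) (nat_lit 0) (XT.nd (nat_lit 234) (nat_lit 0) (nat_lit 76) (XT.nd (nat_lit 78) (nat_lit 0) (nat_lit 0) (XT.lf (nat_lit 0) (nat_lit 18963427802) (nat_lit 760) (nat_lit 43458544523) (nat_lit 836) (nat_lit 17857080549) (nat_lit 103) (nat_lit 5) (nat_lit 113) (nat_lit 5) (nat_lit 114) (nat_lit 5) (nat_lit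 364) (nat_lit 358) (nat_lit 178)) (XT.nd (nat_lit 78) (nat_lit 0) (nat_lit 76) (XT.lf (nat_lit 0) (nat_lit 23205458531) (nat_lit 760) (nat_lit 4054520096) (nat_lit 836) (nat_lit 55132769433) (nat_lit 103) (nat_lit 5) (nat_lit 113) (nat_lit 5) (nat_lit 114) (nat_lit 5) (nat_lit 365) (nat_lit 358) (nat_lit 177)) (XT.lf (nat_lit 0) (nat_lit 28421564562) (nat_lit 760) (nat_lit 46189589204) (nat_lit 836) (nat_lit 9962876221) (nat_lit 104) (nat_lit 5) (nat_lit 114) (nat_lit 5) (nat_lit 115) (nat_lit 5) (nat_lit 366) (nat_lit 358) (nat_lit 176)))) (XT.nd (nat_lit 78) (nat_lit 0) (nat_lit 0) (XT.lf (nat_lit 0) (nat_lit 34414536328) (nat_lit 760) (nat_lit 4223346583) (nat_lit 836) (nat_lit 48200690715) (nat_lit 104) (nat_lit 5) (nat_lit 114) (nat_lit 5) (nat_lit 115) (nat_lit 5) (nat_lit 367) (nat_lit 358) (nat_lit 175)) (XT.nd (nat_lit 78) (nat_lit 0) (nat_lit 76) (XT.lf (nat_lit 76) (nat_lit 41158039841)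 (nat_lit 0) (nat_lit 191123110) (nat_lit 836) (nat_lit 47835081788) (nat_lit 105) (nat_lit 5) (nat_lit 104) (nat_lit 5) (nat_lit 115) (nat_lit 5) (nat_lit 368) (nat_lit 358) (nat_lit 174)) (XT.lf (nat_lit 0) (nat_lit 49329944473) (nat_lit 760) (nat_lit 3317470987) (nat_lit 76) (nat_lit 38964813348) (nat_lit 105) (nat_lit 5) (nat_lit 115) (nat_lit 5) (nat_lit 106) (nat_lit 5) (nat_lit 369) (nat_lit 358) (nat_lit 173))))) (XT.nd (nat_lit 234) (nat_lit 760) (nat_lit 0) (XT.nd (nat_lit 78) (nat_lit 380) (nat_lit 0) (XT.lf (nat_lit 0) (nat_lit 45065461588) (nat_lit 760) (nat_lit 13350497497) (nat_lit 836) (nat_lit 35710343846) (nat_lit 95) (nat_lit 5) (nat_lit 105) (nat_lit 5) (nat_lit 106) (nat_lit 5) (nat_lit 370) (nat_lit 358) (nat_lit 172)) (XT.nd (nat_lit 78) (nat_lit 380) (nat_lit 0) (XT.lf (nat_lit 0) (nat_lit 68448633137) (nat_lit 836) (nat_lit 1217750347) (nat_lit 76) (nat_lit 27075079864)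 (nat_lit 95) (nat_lit 5) (nat_lit 106) (nat_lit 5) (nat_lit 96) (nat_lit 5) (nat_lit 371) (nat_lit 358) (nat_lit 171)) (XT.lf (nat_lit 0) (nat_lit 50411645386) (nat_lit 380) (nat_lit 29576729477) (nat_lit 456) (nat_lit 19448735724) (nat_lit 90) (nat_lit 5) (nat_lit 95) (nat_lit 5) (nat_lit 96) (nat_lit 5) (nat_lit 372) (nat_lit 358) (nat_lit 170)))) (XT.nd (nat_lit 78) (nat_lit 456) (nat_lit 0) (XT.lf (nat_lit 0) (nat_lit 2274824651) (nat_lit 304) (nat_lit 90081711111) (nat_lit 380) (nat_lit 9898433297) (nat_lit 86) (nat_lit 5) (nat_lit 90) (nat_lit 5) (nat_lit 91) (nat_lit 5) (nat_lit 373) (nat_lit 358) (nat_lit 169)) (XT.nd (nat_lit 78) (nat_lit 380) (nat_lit 0) (XT.lf (nat_lit 0) (nat_lit 1453518275) (nat_lit 380) (nat_lit 47831021455) (nat_lit 76) (nat_lit 55862666397) (nat_lit 85) (nat_lit 5) (nat_lit 90) (nat_lit 5) (nat_lit 86) (nat_lit 5) (nat_lit 374) (nat_lit 358) (nat_lit 168))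 (XT.lf (nat_lit 0) (nat_lit 6986419696) (nat_lit 380) (nat_lit 6162625199) (nat_lit 456) (nat_lit 95021465608) (nat_lit 80) (nat_lit 5) (nat_lit 85) (nat_lit 5) (nat_lit 86) (nat_lit 5) (nat_lit 375) (nat_lit 358) (nat_lit 167)))))) (XT.nd (nat_lit 468) (nat_lit 836) (nat_lit 0) (XT.nd (nat_lit 234) (nat_lit 532) (nat_lit 0) (XT.nd (nat_lit 78) (nat_lit 304) (nat_lit 0) (XT.lf (nat_lit 0) (nat_lit 26862935061) (nat_lit 456) (nat_lit 45723631639) (nat_lit 76) (nat_lit 38686734428) (nat_lit 80) (nat_lit 5) (nat_lit 86) (nat_lit 5) (nat_lit 81) (nat_lit 5) (nat_lit 376) (nat_lit 358) (nat_lit 166)) (XT.nd (nat_lit 78) (nat_lit 0) (nat_lit 0) (XT.lf (nat_lit 0) (nat_lit 12818632097) (nat_lit 304) (nat_lit 28744635311) (nat_lit 380) (nat_lit 72952926865) (nat_lit 76) (nat_lit 5) (nat_lit 80) (nat_lit 5) (nat_lit 81) (nat_lit 5) (nat_lit 377) (nat_lit 358) (nat_lit 165)) (XT.lf (nat_lit 0) (nat_lit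 58055196210) (nat_lit 380) (nat_lit 42290194357) (nat_lit 76) (nat_lit 17523012871) (nat_lit 76) (nat_lit 5) (nat_lit 81) (nat_lit 5) (nat_lit 77) (nat_lit 5) (nat_lit 378) (nat_lit 358) (nat_lit 164)))) (XT.nd (nat_lit 78) (nat_lit 228) (nat_lit 0) (XT.lf (nat_lit 0) (nat_lit 20264450166) (nat_lit 304) (nat_lit 55894496669) (nat_lit 380) (nat_lit 45189915294) (nat_lit 72) (nat_lit 5) (nat_lit 76) (nat_lit 5) (nat_lit 77) (nat_lit 5) (nat_lit 379) (nat_lit 358) (nat_lit 163)) (XT.nd (nat_lit 78) (nat_lit 228) (nat_lit 0) (XT.lf (nat_lit 0) (nat_lit 87414597228) (nat_lit 304) (nat_lit 8469120882) (nat_lit 380) (nat_lit 29083834312) (nat_lit 72) (nat_lit 5) (nat_lit 76) (nat_lit 5) (nat_lit 77) (nat_lit 5) (nat_lit 380) (nat_lit 358) (nat_lit 162)) (XT.lf (nat_lit 0) (nat_lit 29452039979) (nat_lit 228) (nat_lit 88247400077) (nat_lit 304) (nat_lit 11012501876) (nat_lit 69) (nat_lit 5) (nat_lit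 72) (nat_lit 5) (nat_lit 73) (nat_lit 5) (nat_lit 381) (nat_lit 358) (nat_lit 161))))) (XT.nd (nat_lit 234) (nat_lit 456) (nat_lit 0) (XT.nd (nat_lit 78) (nat_lit 304) (nat_lit 0) (XT.lf (nat_lit 0) (nat_lit 8492441015) (nat_lit 304) (nat_lit 31774742449) (nat_lit 76) (nat_lit 92330907449) (nat_lit 68) (nat_lit 5) (nat_lit 72) (nat_lit 5) (nat_lit 69) (nat_lit 5) (nat_lit 382) (nat_lit 358) (nat_lit 160)) (XT.nd (nat_lit 78) (nat_lit 0) (nat_lit 0) (XT.lf (nat_lit 0) (nat_lit 29400805620) (nat_lit 380) (nat_lit 96619239482) (nat_lit 76) (nat_lit 10609562524) (nat_lit 64) (nat_lit 5) (nat_lit 69) (nat_lit 5) (nat_lit 65) (nat_lit 5) (nat_lit 383) (nat_lit 358) (nat_lit 159)) (XT.lf (nat_lit 0) (nat_lit 52561321954) (nat_lit 380) (nat_lit 25017288525) (nat_lit 76) (nat_lit 63223753273) (nat_lit 64) (nat_lit 5) (nat_lit 69) (nat_lit 5) (nat_lit 65) (nat_lit 5) (nat_lit 384) (nat_lit 358) (nat_lit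 158)))) (XT.nd (nat_lit 78) (nat_lit 228) (nat_lit 0) (XT.lf (nat_lit 0) (nat_lit 51823003986) (nat_lit 228) (nat_lit 25865651443) (nat_lit 304) (nat_lit 67454662929) (nat_lit 61) (nat_lit 5) (nat_lit 64) (nat_lit 5) (nat_lit 65) (nat_lit 5) (nat_lit 385) (nat_lit 358) (nat_lit 157)) (XT.nd (nat_lit 78) (nat_lit 228) (nat_lit 0) (XT.lf (nat_lit 0) (nat_lit 104946594916) (nat_lit 304) (nat_lit 16757568250) (nat_lit 76) (nat_lit 27953445789) (nat_lit 61) (nat_lit 5) (nat_lit 65) (nat_lit 5) (nat_lit 62) (nat_lit 5) (nat_lit 386) (nat_lit 358) (nat_lit 156)) (XT.lf (nat_lit 0) (nat_lit 65298856698) (nat_lit 228) (nat_lit 69711810152) (nat_lit 304) (nat_lit 19314785678) (nat_lit 58) (nat_lit 5) (nat_lit 61) (nat_lit 5) (nat_lit 62) (nat_lit 5) (nat_lit 387) (nat_lit 358) (nat_lit 155))))))))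
noncomputable def xc227 : XT := (XT.nd (nat_lit 1794) (nat_lit 608) (nat_lit 0) (XT.nd (nat_lit 858) (nat_lit 988) (nat_lit 0) (XT.nd (nat_lit 390) (nat_lit 608) (nat_lit 0) (XT.nd (nat_lit 156) (nat_lit 380) (nat_lit 0) (XT.nd (nat_lit 78) (nat_lit 228) (nat_lit 0) (XT.lf (nat_lit 0) (nat_lit 7404131040) (nat_lit 304) (nat_lit 7292442486) (nat_lit 76) (nat_lit 144509968116) (nat_lit 57) (nat_lit 5) (nat_lit 61) (nat_lit 5) (nat_lit 58) (nat_lit 5) (nat_lit 388) (nat_lit 358) (nat_lit 154)) (XT.lf (nat_lit 0) (nat_lit 36769394287) (nat_lit 304) (nat_lit 84153678705) (nat_lit 76) (nat_lit 43294805411) (nat_lit 54) (nat_lit 5) (nat_lit 58) (nat_lit 5) (nat_lit 55) (nat_lit 5) (nat_lit 389) (nat_lit 358) (nat_lit 153))) (XT.nd (nat_lit 78) (nat_lit 152) (nat_lit 0) (XT.lf (nat_lit 0) (nat_lit 2401771873) (nat_lit 228) (nat_lit 65604832294) (nat_lit 304) (nat_lit 101452993840) (nat_lit 51)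 (nat_lit 5) (nat_lit 54) (nat_lit 5) (nat_lit 55) (nat_lit 5) (nat_lit 390) (nat_lit 358) (nat_lit 152)) (XT.nd (nat_lit 78) (nat_lit 152) (nat_lit 0) (XT.lf (nat_lit 0) (nat_lit 96206235040) (nat_lit 228) (nat_lit 6024361507) (nat_lit 304) (nat_lit 72661561115) (nat_lit 51) (nat_lit 5) (nat_lit 54) (nat_lit 5) (nat_lit 55) (nat_lit 5) (nat_lit 391) (nat_lit 358) (nat_lit 151)) (XT.lf (nat_lit 0) (nat_lit 13658689535) (nat_lit 152) (nat_lit 125602770626) (nat_lit 228) (nat_lit 41280101721) (nat_lit 49) (nat_lit 5) (nat_lit 51) (nat_lit 5) (nat_lit 52) (nat_lit 5) (nat_lit 392) (nat_lit 358) (nat_lit 150))))) (XT.nd (nat_lit 234) (nat_lit 304) (nat_lit 0) (XT.nd (nat_lit 78) (nat_lit 304) (nat_lit 0) (XT.lf (nat_lit 0) (nat_lit 113249932445) (nat_lit 152) (nat_lit 66323441263) (nat_lit 228) (nat_lit 6828587421) (nat_lit 49) (nat_lit 5) (nat_lit 51) (nat_lit 5) (nat_lit 52) (nat_lit 5) (nat_lit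 393) (nat_lit 358) (nat_lit 149)) (XT.nd (nat_lit 78) (nat_lit 0) (nat_lit 0) (XT.lf (nat_lit 0) (nat_lit 25627055241) (nat_lit 228) (nat_lit 3179081298) (nat_lit 304) (nat_lit 163706341999) (nat_lit 45) (nat_lit 5) (nat_lit 48) (nat_lit 5) (nat_lit 49) (nat_lit 5) (nat_lit 394) (nat_lit 358) (nat_lit 148)) (XT.lf (nat_lit 0) (nat_lit 68237571626) (nat_lit 304) (nat_lit 68099950431) (nat_lit 76) (nat_lit 62473179679) (nat_lit 45) (nat_lit 5) (nat_lit 49) (nat_lit 5) (nat_lit 46) (nat_lit 5) (nat_lit 395) (nat_lit 358) (nat_lit 147)))) (XT.nd (nat_lit 78) (nat_lit 152) (nat_lit 0) (XT.lf (nat_lit 0) (nat_lit 36748513257) (nat_lit 152) (nat_lit 73517706578) (nat_lit 228) (nat_lit 95126334318) (nat_lit 43) (nat_lit 5) (nat_lit 45) (nat_lit 5) (nat_lit 46) (nat_lit 5) (nat_lit 396) (nat_lit 358) (nat_lit 146)) (XT.nd (nat_lit 78) (nat_lit 152) (nat_lit 0) (XT.lf (nat_lit 0) (nat_lit 149203333603)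 (nat_lit 152) (nat_lit 6346055683) (nat_lit 228) (nat_lit 56696455583) (nat_lit 43) (nat_lit 5) (nat_lit 45) (nat_lit 5) (nat_lit 46) (nat_lit 5) (nat_lit 397) (nat_lit 358) (nat_lit 145)) (XT.lf (nat_lit 0) (nat_lit 48385296347) (nat_lit 152) (nat_lit 156468737495) (nat_lit 228) (nat_lit 14499900566) (nat_lit 41) (nat_lit 5) (nat_lit 43) (nat_lit 5) (nat_lit 44) (nat_lit 5) (nat_lit 398) (nat_lit 358) (nat_lit 144)))))) (XT.nd (nat_lit 468) (nat_lit 456) (nat_lit 0) (XT.nd (nat_lit 234) (nat_lit 304) (nat_lit 0) (XT.nd (nat_lit 78) (nat_lit 152) (nat_lit 0) (XT.lf (nat_lit 0) (nat_lit 30041473299) (nat_lit 228) (nat_lit 59778093439) (nat_lit 76) (nat_lit 136915144418) (nat_lit 40) (nat_lit 5) (nat_lit 43) (nat_lit 5) (nat_lit 41) (nat_lit 5) (nat_lit 399) (nat_lit 358) (nat_lit 143)) (XT.nd (nat_lit 78) (nat_lit 0) (nat_lit 0) (XT.lf (nat_lit 0) (nat_lit 58609835110) (nat_lit 152) (nat_lit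 18627655636) (nat_lit 228) (nat_lit 157189407601) (nat_lit 38) (nat_lit 5) (nat_lit 40) (nat_lit 5) (nat_lit 41) (nat_lit 5) (nat_lit 400) (nat_lit 358) (nat_lit 142)) (XT.lf (nat_lit 0) (nat_lit 128698332242) (nat_lit 228) (nat_lit 58353726088) (nat_lit 76) (nat_lit 55356385504) (nat_lit 38) (nat_lit 5) (nat_lit 41) (nat_lit 5) (nat_lit 39) (nat_lit 5) (nat_lit 401) (nat_lit 358) (nat_lit 141)))) (XT.nd (nat_lit 78) (nat_lit 152) (nat_lit 0) (XT.lf (nat_lit 0) (nat_lit 66815615482) (nat_lit 152) (nat_lit 117264965400) (nat_lit 228) (nat_lit 66641067550) (nat_lit 36) (nat_lit 5) (nat_lit 38) (nat_lit 5) (nat_lit 39) (nat_lit 5) (nat_lit 402) (nat_lit 358) (nat_lit 140)) (XT.nd (nat_lit 78) (nat_lit 152) (nat_lit 0) (XT.lf (nat_lit 0) (nat_lit 200269030701) (nat_lit 152) (nat_lit 42950978593) (nat_lit 228) (nat_lit 16181100684) (nat_lit 36) (nat_lit 5) (nat_lit 38) (nat_lit 5) (nat_lit 39)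 (nat_lit 5) (nat_lit 403) (nat_lit 358) (nat_lit 139)) (XT.lf (nat_lit 0) (nat_lit 37349839783) (nat_lit 152) (nat_lit 195340882509) (nat_lit 76) (nat_lit 35708800139) (nat_lit 34) (nat_lit 5) (nat_lit 36) (nat_lit 5) (nat_lit 35) (nat_lit 5) (nat_lit 404) (nat_lit 358) (nat_lit 138))))) (XT.nd (nat_lit 234) (nat_lit 304) (nat_lit 0) (XT.nd (nat_lit 78) (nat_lit 152) (nat_lit 0) (XT.lf (nat_lit 0) (nat_lit 94735324323) (nat_lit 152) (nat_lit 64872048427) (nat_lit 76) (nat_lit 118141130227) (nat_lit 34) (nat_lit 5) (nat_lit 36) (nat_lit 5) (nat_lit 35) (nat_lit 5) (nat_lit 405) (nat_lit 358) (nat_lit 137)) (XT.nd (nat_lit 78) (nat_lit 0) (nat_lit 0) (XT.lf (nat_lit 0) (nat_lit 74504556012) (nat_lit 152) (nat_lit 81648586724) (nat_lit 228) (nat_lit 131353636901) (nat_lit 32) (nat_lit 5) (nat_lit 34) (nat_lit 5) (nat_lit 35) (nat_lit 5) (nat_lit 406) (nat_lit 358) (nat_lit 136)) (XT.lf (nat_lit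 0) (nat_lit 221761588162) (nat_lit 228) (nat_lit 74617380772) (nat_lit 76) (nat_lit 1318014462) (nat_lit 32) (nat_lit 5) (nat_lit 35) (nat_lit 5) (nat_lit 33) (nat_lit 4) (nat_lit 407) (nat_lit 358) (nat_lit 135)))) (XT.nd (nat_lit 78) (nat_lit 228) (nat_lit 0) (XT.lf (nat_lit 0) (nat_lit 71640887942) (nat_lit 76) (nat_lit 221466428607) (nat_lit 152) (nat_lit 15166537822) (nat_lit 31) (nat_lit 5) (nat_lit 32) (nat_lit 5) (nat_lit 33) (nat_lit 4) (nat_lit 408) (nat_lit 358) (nat_lit 134)) (XT.nd (nat_lit 78) (nat_lit 152) (nat_lit 0) (XT.lf (nat_lit 0) (nat_lit 48368196769) (nat_lit 152) (nat_lit 92294173968) (nat_lit 76) (nat_lit 178615015161) (nat_lit 30) (nat_lit 5) (nat_lit 32) (nat_lit 5) (nat_lit 31) (nat_lit 5) (nat_lit 409) (nat_lit 358) (nat_lit 133)) (XT.lf (nat_lit 0) (nat_lit 60963893081) (nat_lit 152) (nat_lit 54557749428) (nat_lit 228) (nat_lit 215249436484) (nat_lit 28) (nat_lit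 5) (nat_lit 30) (nat_lit 5) (nat_lit 31) (nat_lit 5) (nat_lit 410) (nat_lit 358) (nat_lit 132))))))) (XT.nd (nat_lit 936) (nat_lit 0) (nat_lit 0) (XT.nd (nat_lit 468) (nat_lit 304) (nat_lit 0) (XT.nd (nat_lit 234) (nat_lit 228) (nat_lit 0) (XT.nd (nat_lit 78) (nat_lit 76) (nat_lit 0) (XT.lf (nat_lit 0) (nat_lit 188181036214) (nat_lit 228) (nat_lit 118257831107) (nat_lit 76) (nat_lit 36293175690) (nat_lit 28) (nat_lit 5) (nat_lit 31) (nat_lit 5) (nat_lit 29) (nat_lit 4) (nat_lit 411) (nat_lit 358) (nat_lit 131)) (XT.nd (nat_lit 78) (nat_lit 0) (nat_lit 0) (XT.lf (nat_lit 0) (nat_lit 41296087201) (nat_lit 76) (nat_lit 224716310025) (nat_lit 152) (nat_lit 89201708172) (nat_lit 27) (nat_lit 5) (nat_lit 28) (nat_lit 5) (nat_lit 29) (nat_lit 4) (nat_lit 412) (nat_lit 358) (nat_lit 130)) (XT.lf (nat_lit 0) (nat_lit 212933102690) (nat_lit 76) (nat_lit 136804840660) (nat_lit 152) (nat_lit 18482196751)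 (nat_lit 27) (nat_lit 5) (nat_lit 28) (nat_lit 5) (nat_lit 29) (nat_lit 4) (nat_lit 413) (nat_lit 358) (nat_lit 129)))) (XT.nd (nat_lit 78) (nat_lit 0) (nat_lit 0) (XT.lf (nat_lit 0) (nat_lit 10748497686) (nat_lit 152) (nat_lit 43407380921) (nat_lit 228) (nat_lit 327668675008) (nat_lit 24) (nat_lit 5) (nat_lit 26) (nat_lit 5) (nat_lit 27) (nat_lit 5) (nat_lit 414) (nat_lit 358) (nat_lit 128)) (XT.nd (nat_lit 78) (nat_lit 0) (nat_lit 0) (XT.lf (nat_lit 0) (nat_lit 133330972204) (nat_lit 228) (nat_lit 206700401771) (nat_lit 76) (nat_lit 55886352656) (nat_lit 24) (nat_lit 5) (nat_lit 27) (nat_lit 5) (nat_lit 25) (nat_lit 4) (nat_lit 415) (nat_lit 358) (nat_lit 127)) (XT.lf (nat_lit 0) (nat_lit 217176291984) (nat_lit 228) (nat_lit 34817787513) (nat_lit 76) (nat_lit 158685905266) (nat_lit 24) (nat_lit 5) (nat_lit 27) (nat_lit 5) (nat_lit 25) (nat_lit 4) (nat_lit 416) (nat_lit 358) (nat_lit 126)))))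 (XT.nd (nat_lit 234) (nat_lit 76) (nat_lit 0) (XT.nd (nat_lit 78) (nat_lit 152) (nat_lit 0) (XT.lf (nat_lit 0) (nat_lit 150474877855) (nat_lit 76) (nat_lit 157088215489) (nat_lit 152) (nat_lit 118499801716) (nat_lit 23) (nat_lit 5) (nat_lit 24) (nat_lit 5) (nat_lit 25) (nat_lit 4) (nat_lit 417) (nat_lit 358) (nat_lit 125)) (XT.nd (nat_lit 78) (nat_lit 152) (nat_lit 0) (XT.lf (nat_lit 0) (nat_lit 346240759499) (nat_lit 76) (nat_lit 56818014748) (nat_lit 152) (nat_lit 39126699685) (nat_lit 23) (nat_lit 5) (nat_lit 24) (nat_lit 5) (nat_lit 25) (nat_lit 4) (nat_lit 418) (nat_lit 358) (nat_lit 124)) (XT.lf (nat_lit 0) (nat_lit 45075823712) (nat_lit 152) (nat_lit 364765970280) (nat_lit 76) (nat_lit 49124075529) (nat_lit 21) (nat_lit 5) (nat_lit 23) (nat_lit 5) (nat_lit 22) (nat_lit 4) (nat_lit 419) (nat_lit 358) (nat_lit 123)))) (XT.nd (nat_lit 78) (nat_lit 76) (nat_lit 0) (XT.lf (nat_lit 0)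 (nat_lit 134756397731) (nat_lit 152) (nat_lit 180921021775) (nat_lit 76) (nat_lit 160746652443) (nat_lit 21) (nat_lit 5) (nat_lit 23) (nat_lit 5) (nat_lit 22) (nat_lit 4) (nat_lit 420) (nat_lit 358) (nat_lit 122)) (XT.nd (nat_lit 78) (nat_lit 0) (nat_lit 0) (XT.lf (nat_lit 0) (nat_lit 12516586474) (nat_lit 76) (nat_lit 216599726190) (nat_lit 152) (nat_lit 265629106253) (nat_lit 20) (nat_lit 5) (nat_lit 21) (nat_lit 5) (nat_lit 22) (nat_lit 4) (nat_lit 421) (nat_lit 358) (nat_lit 121)) (XT.lf (nat_lit 0) (nat_lit 221907051040) (nat_lit 76) (nat_lit 109351052640) (nat_lit 152) (nat_lit 182571535567) (nat_lit 20) (nat_lit 5) (nat_lit 21) (nat_lit 5) (nat_lit 22) (nat_lit 4) (nat_lit 422) (nat_lit 358) (nat_lit 120)))))) (XT.nd (nat_lit 42276) (nat_lit 0) (nat_lit 6232) (XT.nd (nat_lit 42042) (nat_lit 0) (nat_lit 6156) (XT.nd (nat_lit 41886) (nat_lit 0) (nat_lit 6080) (XT.lf (nat_lit 0) (nat_lit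 438557781787) (nat_lit 152) (nat_lit 92152118271) (nat_lit 0) (nat_lit 3155630682) (nat_lit 20) (nat_lit 5) (nat_lit 22) (nat_lit 4) (nat_lit 20) (nat_lit 4) (nat_lit 423) (nat_lit 358) (nat_lit 119)) (XT.nd (nat_lit 78) (nat_lit 0) (nat_lit 0) (XT.lf (nat_lit 0) (nat_lit 3874084994) (nat_lit 836) (nat_lit 16189428727) (nat_lit 836) (nat_lit 16189428727) (nat_lit 100) (nat_lit 3) (nat_lit 111) (nat_lit 3) (nat_lit 111) (nat_lit 5) (nat_lit 359) (nat_lit 359) (nat_lit 182)) (XT.lf (nat_lit 76) (nat_lit 1987291350) (nat_lit 0) (nat_lit 5997646348) (nat_lit 836) (nat_lit 66331428442) (nat_lit 101) (nat_lit 5) (nat_lit 100) (nat_lit 3) (nat_lit 111) (nat_lit 5) (nat_lit 360) (nat_lit 359) (nat_lit 181)))) (XT.nd (nat_lit 78) (nat_lit 0) (nat_lit 0) (XT.lf (nat_lit 0) (nat_lit 9255971364) (nat_lit 760) (nat_lit 37469396363) (nat_lit 836) (nat_lit 29440883154) (nat_lit 101) (nat_lit 5) (nat_lit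 111) (nat_lit 5) (nat_lit 112) (nat_lit 5) (nat_lit 361) (nat_lit 359) (nat_lit 180)) (XT.nd (nat_lit 78) (nat_lit 0) (nat_lit 76) (XT.lf (nat_lit 0) (nat_lit 10688144116) (nat_lit 760) (nat_lit 965497567) (nat_lit 836) (nat_lit 66450109580) (nat_lit 101) (nat_lit 5) (nat_lit 111) (nat_lit 5) (nat_lit 112) (nat_lit 5) (nat_lit 362) (nat_lit 359) (nat_lit 179)) (XT.lf (nat_lit 0) (nat_lit 13196741580) (nat_lit 760) (nat_lit 41912343652) (nat_lit 836) (nat_lit 24978801366) (nat_lit 102) (nat_lit 5) (nat_lit 112) (nat_lit 5) (nat_lit 113) (nat_lit 5) (nat_lit 363) (nat_lit 359) (nat_lit 178))))) (XT.nd (nat_lit 234) (nat_lit 0) (nat_lit 152) (XT.nd (nat_lit 78) (nat_lit 0) (nat_lit 76) (XT.lf (nat_lit 0) (nat_lit 16037762665) (nat_lit 760) (nat_lit 3055019186) (nat_lit 836) (nat_lit 63068097865) (nat_lit 102) (nat_lit 5) (nat_lit 112) (nat_lit 5) (nat_lit 113) (nat_lit 5) (nat_lit 364) (nat_lit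 359) (nat_lit 177)) (XT.nd (nat_lit 78) (nat_lit 0) (nat_lit 0) (XT.lf (nat_lit 0) (nat_lit 19931306710) (nat_lit 760) (nat_lit 45616685833) (nat_lit 836) (nat_lit 18744007019) (nat_lit 103) (nat_lit 5) (nat_lit 113) (nat_lit 5) (nat_lit 114) (nat_lit 5) (nat_lit 365) (nat_lit 359) (nat_lit 176)) (XT.lf (nat_lit 0) (nat_lit 24384500523) (nat_lit 760) (nat_lit 4243164276) (nat_lit 836) (nat_lit 57883762611) (nat_lit 103) (nat_lit 5) (nat_lit 113) (nat_lit 5) (nat_lit 114) (nat_lit 5) (nat_lit 366) (nat_lit 359) (nat_lit 175)))) (XT.nd (nat_lit 78) (nat_lit 0) (nat_lit 0) (XT.lf (nat_lit 0) (nat_lit 29860668250) (nat_lit 760) (nat_lit 48484224568) (nat_lit 836) (nat_lit 10456918728) (nat_lit 104) (nat_lit 5) (nat_lit 114) (nat_lit 5) (nat_lit 115) (nat_lit 5) (nat_lit 367) (nat_lit 359) (nat_lit 174)) (XT.nd (nat_lit 78) (nat_lit 0) (nat_lit 0) (XT.lf (nat_lit 0) (nat_lit 36152430249) (nat_lit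 760) (nat_lit 4420376678) (nat_lit 836) (nat_lit 50606819247) (nat_lit 104) (nat_lit 5) (nat_lit 114) (nat_lit 5) (nat_lit 115) (nat_lit 5) (nat_lit 368) (nat_lit 359) (nat_lit 173)) (XT.lf (nat_lit 76) (nat_lit 43229851047) (nat_lit 0) (nat_lit 203336837) (nat_lit 836) (nat_lit 50209423822) (nat_lit 105) (nat_lit 5) (nat_lit 104) (nat_lit 5) (nat_lit 115) (nat_lit 5) (nat_lit 369) (nat_lit 359) (nat_lit 172))))))))
noncomputable def xc228 : XT := (XT.nd (nat_lit 1794) (nat_lit 2052) (nat_lit 0) (XT.nd (nat_lit 858) (nat_lit 1596) (nat_lit 0) (XT.nd (nat_lit 390) (nat_lit 1064) (nat_lit 0) (XT.nd (nat_lit 156) (nat_lit 684) (nat_lit 0) (XT.nd (nat_lit 78) (nat_lit 760) (nat_lit 0) (XT.lf (nat_lit 0) (nat_lit 51812180071) (nat_lit 760) (nat_lit 3469253131) (nat_lit 76) (nat_lit 40910604003) (nat_lit 105) (nat_lit 5) (nat_lit 115) (nat_lit 5) (nat_lit 106) (nat_lit 5) (nat_lit 370) (nat_lit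 359) (nat_lit 171)) (XT.lf (nat_lit 0) (nat_lit 47332598793) (nat_lit 760) (nat_lit 14019363633) (nat_lit 836) (nat_lit 37479880025) (nat_lit 95) (nat_lit 5) (nat_lit 105) (nat_lit 5) (nat_lit 106) (nat_lit 5) (nat_lit 371) (nat_lit 359) (nat_lit 170))) (XT.nd (nat_lit 78) (nat_lit 684) (nat_lit 0) (XT.lf (nat_lit 0) (nat_lit 71885526170) (nat_lit 836) (nat_lit 1264675300) (nat_lit 76) (nat_lit 28427597350) (nat_lit 95) (nat_lit 5) (nat_lit 106) (nat_lit 5) (nat_lit 96) (nat_lit 5) (nat_lit 372) (nat_lit 359) (nat_lit 169)) (XT.nd (nat_lit 78) (nat_lit 304) (nat_lit 0) (XT.lf (nat_lit 0) (nat_lit 52945965017) (nat_lit 380) (nat_lit 31055815807) (nat_lit 456) (nat_lit 20406472002) (nat_lit 90) (nat_lit 5) (nat_lit 95) (nat_lit 5) (nat_lit 96) (nat_lit 5) (nat_lit 373) (nat_lit 359) (nat_lit 168)) (XT.lf (nat_lit 0) (nat_lit 2402787298) (nat_lit 304) (nat_lit 94585114734) (nat_lit 380) (nat_lit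 10379125241) (nat_lit 86) (nat_lit 5) (nat_lit 90) (nat_lit 5) (nat_lit 91) (nat_lit 5) (nat_lit 374) (nat_lit 359) (nat_lit 167))))) (XT.nd (nat_lit 234) (nat_lit 608) (nat_lit 0) (XT.nd (nat_lit 78) (nat_lit 380) (nat_lit 0) (XT.lf (nat_lit 0) (nat_lit 1539312552) (nat_lit 380) (nat_lit 50208582539) (nat_lit 76) (nat_lit 58656003392) (nat_lit 85) (nat_lit 5) (nat_lit 90) (nat_lit 5) (nat_lit 86) (nat_lit 5) (nat_lit 375) (nat_lit 359) (nat_lit 166)) (XT.nd (nat_lit 78) (nat_lit 0) (nat_lit 0) (XT.lf (nat_lit 0) (nat_lit 7349505025) (nat_lit 380) (nat_lit 6469700694) (nat_lit 456) (nat_lit 99759183421) (nat_lit 80) (nat_lit 5) (nat_lit 85) (nat_lit 5) (nat_lit 86) (nat_lit 5) (nat_lit 376) (nat_lit 359) (nat_lit 165)) (XT.lf (nat_lit 0) (nat_lit 28218200921) (nat_lit 456) (nat_lit 47996103936) (nat_lit 76) (nat_lit 40622044458) (nat_lit 80) (nat_lit 5) (nat_lit 86) (nat_lit 5) (nat_lit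 81) (nat_lit 5) (nat_lit 377) (nat_lit 359) (nat_lit 164)))) (XT.nd (nat_lit 78) (nat_lit 304) (nat_lit 0) (XT.lf (nat_lit 0) (nat_lit 13473051869) (nat_lit 304) (nat_lit 30180131504) (nat_lit 380) (nat_lit 76588222589) (nat_lit 76) (nat_lit 5) (nat_lit 80) (nat_lit 5) (nat_lit 81) (nat_lit 5) (nat_lit 378) (nat_lit 359) (nat_lit 163)) (XT.nd (nat_lit 78) (nat_lit 304) (nat_lit 0) (XT.lf (nat_lit 0) (nat_lit 60969174775) (nat_lit 380) (nat_lit 44391314461) (nat_lit 76) (nat_lit 18400763537) (nat_lit 76) (nat_lit 5) (nat_lit 81) (nat_lit 5) (nat_lit 77) (nat_lit 5) (nat_lit 379) (nat_lit 359) (nat_lit 162)) (XT.lf (nat_lit 0) (nat_lit 21290846327) (nat_lit 304) (nat_lit 58686938056) (nat_lit 380) (nat_lit 47437966916) (nat_lit 72) (nat_lit 5) (nat_lit 76) (nat_lit 5) (nat_lit 77) (nat_lit 5) (nat_lit 380) (nat_lit 359) (nat_lit 161)))))) (XT.nd (nat_lit 468) (nat_lit 760) (nat_lit 0) (XT.nd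 (nat_lit 234) (nat_lit 532) (nat_lit 0) (XT.nd (nat_lit 78) (nat_lit 304) (nat_lit 0) (XT.lf (nat_lit 0) (nat_lit 91797873425) (nat_lit 304) (nat_lit 8890402216) (nat_lit 380) (nat_lit 30527126843) (nat_lit 72) (nat_lit 5) (nat_lit 76) (nat_lit 5) (nat_lit 77) (nat_lit 5) (nat_lit 381) (nat_lit 359) (nat_lit 160)) (XT.nd (nat_lit 78) (nat_lit 76) (nat_lit 0) (XT.lf (nat_lit 0) (nat_lit 30937471598) (nat_lit 228) (nat_lit 92657050841) (nat_lit 304) (nat_lit 11552502519) (nat_lit 69) (nat_lit 5) (nat_lit 72) (nat_lit 5) (nat_lit 73) (nat_lit 5) (nat_lit 382) (nat_lit 359) (nat_lit 159)) (XT.lf (nat_lit 0) (nat_lit 8926857734) (nat_lit 304) (nat_lit 33350929273) (nat_lit 76) (nat_lit 96949710961) (nat_lit 68) (nat_lit 5) (nat_lit 72) (nat_lit 5) (nat_lit 69) (nat_lit 5) (nat_lit 383) (nat_lit 359) (nat_lit 158)))) (XT.nd (nat_lit 78) (nat_lit 228) (nat_lit 0) (XT.lf (nat_lit 0) (nat_lit 30880411076)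 (nat_lit 380) (nat_lit 101437414277) (nat_lit 76) (nat_lit 11142777008) (nat_lit 64) (nat_lit 5) (nat_lit 69) (nat_lit 5) (nat_lit 65) (nat_lit 5) (nat_lit 384) (nat_lit 359) (nat_lit 157)) (XT.nd (nat_lit 78) (nat_lit 228) (nat_lit 0) (XT.lf (nat_lit 0) (nat_lit 55198497742) (nat_lit 380) (nat_lit 26255974686) (nat_lit 76) (nat_lit 66387546991) (nat_lit 64) (nat_lit 5) (nat_lit 69) (nat_lit 5) (nat_lit 65) (nat_lit 5) (nat_lit 385) (nat_lit 359) (nat_lit 156)) (XT.lf (nat_lit 0) (nat_lit 54426136027) (nat_lit 228) (nat_lit 27155815140) (nat_lit 304) (nat_lit 70818083260) (nat_lit 61) (nat_lit 5) (nat_lit 64) (nat_lit 5) (nat_lit 65) (nat_lit 5) (nat_lit 386) (nat_lit 359) (nat_lit 155))))) (XT.nd (nat_lit 234) (nat_lit 456) (nat_lit 0) (XT.nd (nat_lit 78) (nat_lit 304) (nat_lit 0) (XT.lf (nat_lit 0) (nat_lit 110202411958) (nat_lit 304) (nat_lit 17583653334) (nat_lit 76) (nat_lit 29353993366)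 (nat_lit 61) (nat_lit 5) (nat_lit 65) (nat_lit 5) (nat_lit 62) (nat_lit 5) (nat_lit 387) (nat_lit 359) (nat_lit 154)) (XT.nd (nat_lit 78) (nat_lit 76) (nat_lit 0) (XT.lf (nat_lit 0) (nat_lit 68575402647) (nat_lit 228) (nat_lit 73194061842) (nat_lit 304) (nat_lit 20271841374) (nat_lit 58) (nat_lit 5) (nat_lit 61) (nat_lit 5) (nat_lit 62) (nat_lit 5) (nat_lit 388) (nat_lit 359) (nat_lit 153)) (XT.lf (nat_lit 0) (nat_lit 7782342982) (nat_lit 304) (nat_lit 7645743819) (nat_lit 76) (nat_lit 151738376142) (nat_lit 57) (nat_lit 5) (nat_lit 61) (nat_lit 5) (nat_lit 58) (nat_lit 5) (nat_lit 389) (nat_lit 359) (nat_lit 152)))) (XT.nd (nat_lit 78) (nat_lit 228) (nat_lit 0) (XT.lf (nat_lit 0) (nat_lit 38615714229) (nat_lit 304) (nat_lit 88349881437) (nat_lit 76) (nat_lit 45462778896) (nat_lit 54) (nat_lit 5) (nat_lit 58) (nat_lit 5) (nat_lit 55) (nat_lit 5) (nat_lit 390) (nat_lit 359) (nat_lit 151))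 (XT.nd (nat_lit 78) (nat_lit 0) (nat_lit 0) (XT.lf (nat_lit 0) (nat_lit 2533156489) (nat_lit 228) (nat_lit 68881430656) (nat_lit 304) (nat_lit 106517603124) (nat_lit 51) (nat_lit 5) (nat_lit 54) (nat_lit 5) (nat_lit 55) (nat_lit 5) (nat_lit 391) (nat_lit 359) (nat_lit 150)) (XT.lf (nat_lit 0) (nat_lit 101027304909) (nat_lit 228) (nat_lit 6322109818) (nat_lit 304) (nat_lit 76286981639) (nat_lit 51) (nat_lit 5) (nat_lit 54) (nat_lit 5) (nat_lit 55) (nat_lit 5) (nat_lit 392) (nat_lit 359) (nat_lit 149))))))) (XT.nd (nat_lit 936) (nat_lit 912) (nat_lit 0) (XT.nd (nat_lit 468) (nat_lit 532) (nat_lit 0) (XT.nd (nat_lit 234) (nat_lit 152) (nat_lit 0) (XT.nd (nat_lit 78) (nat_lit 304) (nat_lit 0) (XT.lf (nat_lit 0) (nat_lit 14352518536) (nat_lit 152) (nat_lit 131879177608) (nat_lit 228) (nat_lit 43336581148) (nat_lit 49) (nat_lit 5) (nat_lit 51) (nat_lit 5) (nat_lit 52) (nat_lit 5) (nat_lit 393)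 (nat_lit 359) (nat_lit 148)) (XT.nd (nat_lit 78) (nat_lit 304) (nat_lit 0) (XT.lf (nat_lit 0) (nat_lit 118922804805) (nat_lit 152) (nat_lit 69636059470) (nat_lit 228) (nat_lit 7162849498) (nat_lit 49) (nat_lit 5) (nat_lit 51) (nat_lit 5) (nat_lit 52) (nat_lit 5) (nat_lit 394) (nat_lit 359) (nat_lit 147)) (XT.lf (nat_lit 0) (nat_lit 26918846135) (nat_lit 228) (nat_lit 3334367719) (nat_lit 304) (nat_lit 171884546168) (nat_lit 45) (nat_lit 5) (nat_lit 48) (nat_lit 5) (nat_lit 49) (nat_lit 5) (nat_lit 395) (nat_lit 359) (nat_lit 146)))) (XT.nd (nat_lit 78) (nat_lit 152) (nat_lit 0) (XT.lf (nat_lit 0) (nat_lit 71655952826) (nat_lit 304) (nat_lit 71494735275) (nat_lit 76) (nat_lit 65600219860) (nat_lit 45) (nat_lit 5) (nat_lit 49) (nat_lit 5) (nat_lit 46) (nat_lit 5) (nat_lit 396) (nat_lit 359) (nat_lit 145)) (XT.nd (nat_lit 78) (nat_lit 0) (nat_lit 0) (XT.lf (nat_lit 0) (nat_lit 38595986877)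 (nat_lit 152) (nat_lit 77189893797) (nat_lit 228) (nat_lit 99875980140) (nat_lit 43) (nat_lit 5) (nat_lit 45) (nat_lit 5) (nat_lit 46) (nat_lit 5) (nat_lit 397) (nat_lit 359) (nat_lit 144)) (XT.lf (nat_lit 0) (nat_lit 156673069766) (nat_lit 152) (nat_lit 6659836459) (nat_lit 228) (nat_lit 59524925131) (nat_lit 43) (nat_lit 5) (nat_lit 45) (nat_lit 5) (nat_lit 46) (nat_lit 5) (nat_lit 398) (nat_lit 359) (nat_lit 143))))) (XT.nd (nat_lit 234) (nat_lit 152) (nat_lit 0) (XT.nd (nat_lit 78) (nat_lit 228) (nat_lit 0) (XT.lf (nat_lit 0) (nat_lit 50814223025) (nat_lit 152) (nat_lit 164288475226) (nat_lit 228) (nat_lit 15218631517) (nat_lit 41) (nat_lit 5) (nat_lit 43) (nat_lit 5) (nat_lit 44) (nat_lit 5) (nat_lit 399) (nat_lit 359) (nat_lit 142)) (XT.nd (nat_lit 78) (nat_lit 152) (nat_lit 0) (XT.lf (nat_lit 0) (nat_lit 31549321809) (nat_lit 228) (nat_lit 62757602473) (nat_lit 76) (nat_lit 143764230767)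 (nat_lit 40) (nat_lit 5) (nat_lit 43) (nat_lit 5) (nat_lit 41) (nat_lit 5) (nat_lit 400) (nat_lit 359) (nat_lit 141)) (XT.lf (nat_lit 0) (nat_lit 61549570961) (nat_lit 152) (nat_lit 19555438500) (nat_lit 228) (nat_lit 165042948810) (nat_lit 38) (nat_lit 5) (nat_lit 40) (nat_lit 5) (nat_lit 41) (nat_lit 5) (nat_lit 401) (nat_lit 359) (nat_lit 140)))) (XT.nd (nat_lit 78) (nat_lit 152) (nat_lit 0) (XT.lf (nat_lit 0) (nat_lit 135138677790) (nat_lit 228) (nat_lit 61262390598) (nat_lit 76) (nat_lit 58127523539) (nat_lit 38) (nat_lit 5) (nat_lit 41) (nat_lit 5) (nat_lit 39) (nat_lit 5) (nat_lit 402) (nat_lit 359) (nat_lit 139)) (XT.nd (nat_lit 78) (nat_lit 0) (nat_lit 0) (XT.lf (nat_lit 0) (nat_lit 70165272537) (nat_lit 152) (nat_lit 123124646388) (nat_lit 228) (nat_lit 69967543953) (nat_lit 36) (nat_lit 5) (nat_lit 38) (nat_lit 5) (nat_lit 39) (nat_lit 5) (nat_lit 403) (nat_lit 359) (nat_lit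 138)) (XT.lf (nat_lit 0) (nat_lit 210290935838) (nat_lit 152) (nat_lit 45095130111) (nat_lit 228) (nat_lit 16984844314) (nat_lit 36) (nat_lit 5) (nat_lit 38) (nat_lit 5) (nat_lit 39) (nat_lit 5) (nat_lit 404) (nat_lit 359) (nat_lit 137)))))) (XT.nd (nat_lit 468) (nat_lit 456) (nat_lit 0) (XT.nd (nat_lit 234) (nat_lit 152) (nat_lit 0) (XT.nd (nat_lit 78) (nat_lit 152) (nat_lit 0) (XT.lf (nat_lit 0) (nat_lit 39222414836) (nat_lit 152) (nat_lit 205099240221) (nat_lit 76) (nat_lit 37497587161) (nat_lit 34) (nat_lit 5) (nat_lit 36) (nat_lit 5) (nat_lit 35) (nat_lit 5) (nat_lit 405) (nat_lit 359) (nat_lit 136)) (XT.nd (nat_lit 78) (nat_lit 152) (nat_lit 0) (XT.lf (nat_lit 0) (nat_lit 99476931552) (nat_lit 152) (nat_lit 68107378073) (nat_lit 76) (nat_lit 124051374373) (nat_lit 34) (nat_lit 5) (nat_lit 36) (nat_lit 5) (nat_lit 35) (nat_lit 5) (nat_lit 406) (nat_lit 359) (nat_lit 135)) (XT.lf (nat_lit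 0) (nat_lit 78237923156) (nat_lit 152) (nat_lit 85727614284) (nat_lit 228) (nat_lit 137916342323) (nat_lit 32) (nat_lit 5) (nat_lit 34) (nat_lit 5) (nat_lit 35) (nat_lit 5) (nat_lit 407) (nat_lit 359) (nat_lit 134)))) (XT.nd (nat_lit 78) (nat_lit 152) (nat_lit 0) (XT.lf (nat_lit 0) (nat_lit 232854230120) (nat_lit 228) (nat_lit 78340321154) (nat_lit 76) (nat_lit 1387051280) (nat_lit 32) (nat_lit 5) (nat_lit 35) (nat_lit 5) (nat_lit 33) (nat_lit 4) (nat_lit 408) (nat_lit 359) (nat_lit 133)) (XT.nd (nat_lit 78) (nat_lit 76) (nat_lit 0) (XT.lf (nat_lit 0) (nat_lit 75230733113) (nat_lit 76) (nat_lit 232536416341) (nat_lit 152) (nat_lit 15920172487) (nat_lit 31) (nat_lit 5) (nat_lit 32) (nat_lit 5) (nat_lit 33) (nat_lit 4) (nat_lit 409) (nat_lit 359) (nat_lit 132)) (XT.lf (nat_lit 0) (nat_lit 50790932365) (nat_lit 152) (nat_lit 96901308701) (nat_lit 76) (nat_lit 187548796212) (nat_lit 30) (nat_lit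 5) (nat_lit 32) (nat_lit 5) (nat_lit 31) (nat_lit 5) (nat_lit 410) (nat_lit 359) (nat_lit 131))))) (XT.nd (nat_lit 234) (nat_lit 228) (nat_lit 0) (XT.nd (nat_lit 78) (nat_lit 76) (nat_lit 0) (XT.lf (nat_lit 0) (nat_lit 64019539540) (nat_lit 152) (nat_lit 57282421207) (nat_lit 228) (nat_lit 226007458839) (nat_lit 28) (nat_lit 5) (nat_lit 30) (nat_lit 5) (nat_lit 31) (nat_lit 5) (nat_lit 411) (nat_lit 359) (nat_lit 130)) (XT.nd (nat_lit 78) (nat_lit 76) (nat_lit 0) (XT.lf (nat_lit 0) (nat_lit 197594170233) (nat_lit 228) (nat_lit 124163470324) (nat_lit 76) (nat_lit 38110799017) (nat_lit 28) (nat_lit 5) (nat_lit 31) (nat_lit 5) (nat_lit 29) (nat_lit 4) (nat_lit 412) (nat_lit 359) (nat_lit 129)) (XT.lf (nat_lit 0) (nat_lit 43368026926) (nat_lit 76) (nat_lit 235948989382) (nat_lit 152) (nat_lit 93657592993) (nat_lit 27) (nat_lit 5) (nat_lit 28) (nat_lit 5) (nat_lit 29) (nat_lit 4) (nat_lit 413)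 (nat_lit 359) (nat_lit 128)))) (XT.nd (nat_lit 78) (nat_lit 228) (nat_lit 0) (XT.lf (nat_lit 0) (nat_lit 223586553410) (nat_lit 76) (nat_lit 143642095889) (nat_lit 152) (nat_lit 19402306029) (nat_lit 27) (nat_lit 5) (nat_lit 28) (nat_lit 5) (nat_lit 29) (nat_lit 4) (nat_lit 414) (nat_lit 359) (nat_lit 127)) (XT.nd (nat_lit 78) (nat_lit 0) (nat_lit 0) (XT.lf (nat_lit 0) (nat_lit 11292735782) (nat_lit 152) (nat_lit 45574731240) (nat_lit 228) (nat_lit 344048123335) (nat_lit 24) (nat_lit 5) (nat_lit 26) (nat_lit 5) (nat_lit 27) (nat_lit 5) (nat_lit 415) (nat_lit 359) (nat_lit 126)) (XT.lf (nat_lit 0) (nat_lit 140001179496) (nat_lit 228) (nat_lit 217028796126) (nat_lit 76) (nat_lit 58683453250) (nat_lit 24) (nat_lit 5) (nat_lit 27) (nat_lit 5) (nat_lit 25) (nat_lit 4) (nat_lit 416) (nat_lit 359) (nat_lit 125))))))))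
noncomputable def xc229 : XT := (XT.nd (nat_lit 43680) (nat_lit 0) (nat_lit 1748) (XT.nd (nat_lit 42744) (nat_lit 0) (nat_lit 5016) (XT.nd (nat_lit 390) (nat_lit 76) (nat_lit 0) (XT.nd (nat_lit 156) (nat_lit 152) (nat_lit 0) (XT.nd (nat_lit 78) (nat_lit 76) (nat_lit 0) (XT.lf (nat_lit 0) (nat_lit 228038591042) (nat_lit 228) (nat_lit 36552366666) (nat_lit 76) (nat_lit 166622850969) (nat_lit 24) (nat_lit 5) (nat_lit 27) (nat_lit 5) (nat_lit 25) (nat_lit 4) (nat_lit 417) (nat_lit 359) (nat_lit 124)) (XT.lf (nat_lit 0) (nat_lit 158004830192) (nat_lit 76) (nat_lit 164939833282) (nat_lit 152) (nat_lit 124421204516) (nat_lit 23) (nat_lit 5) (nat_lit 24) (nat_lit 5) (nat_lit 25) (nat_lit 4) (nat_lit 418) (nat_lit 359) (nat_lit 123))) (XT.nd (nat_lit 78) (nat_lit 152) (nat_lit 0) (XT.lf (nat_lit 0) (nat_lit 363558710278) (nat_lit 76) (nat_lit 59656255503) (nat_lit 152) (nat_lit 41079618207) (nat_lit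 23) (nat_lit 5) (nat_lit 24) (nat_lit 5) (nat_lit 25) (nat_lit 4) (nat_lit 419) (nat_lit 359) (nat_lit 122)) (XT.nd (nat_lit 78) (nat_lit 0) (nat_lit 0) (XT.lf (nat_lit 0) (nat_lit 47332898953) (nat_lit 152) (nat_lit 382998221724) (nat_lit 76) (nat_lit 51582877211) (nat_lit 21) (nat_lit 5) (nat_lit 23) (nat_lit 5) (nat_lit 22) (nat_lit 4) (nat_lit 420) (nat_lit 359) (nat_lit 121)) (XT.lf (nat_lit 0) (nat_lit 141497345289) (nat_lit 152) (nat_lit 189961313750) (nat_lit 76) (nat_lit 168786459261) (nat_lit 21) (nat_lit 5) (nat_lit 23) (nat_lit 5) (nat_lit 22) (nat_lit 4) (nat_lit 421) (nat_lit 359) (nat_lit 120))))) (XT.nd (nat_lit 42120) (nat_lit 0) (nat_lit 6080) (XT.nd (nat_lit 78) (nat_lit 0) (nat_lit 0) (XT.lf (nat_lit 0) (nat_lit 13148082023) (nat_lit 76) (nat_lit 227427113475) (nat_lit 152) (nat_lit 278907340183) (nat_lit 20) (nat_lit 5) (nat_lit 21) (nat_lit 5) (nat_lit 22) (nat_lit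 4) (nat_lit 422) (nat_lit 359) (nat_lit 119)) (XT.nd (nat_lit 41964) (nat_lit 0) (nat_lit 6080) (XT.lf (nat_lit 0) (nat_lit 233007799996) (nat_lit 76) (nat_lit 114816130010) (nat_lit 152) (nat_lit 191697044362) (nat_lit 20) (nat_lit 5) (nat_lit 21) (nat_lit 5) (nat_lit 22) (nat_lit 4) (nat_lit 423) (nat_lit 359) (nat_lit 118)) (XT.lf (nat_lit 0) (nat_lit 4079637597) (nat_lit 836) (nat_lit 16992673524) (nat_lit 836) (nat_lit 16992673524) (nat_lit 100) (nat_lit 3) (nat_lit 111) (nat_lit 3) (nat_lit 111) (nat_lit 5) (nat_lit 360) (nat_lit 360) (nat_lit 180)))) (XT.nd (nat_lit 78) (nat_lit 0) (nat_lit 76) (XT.lf (nat_lit 76) (nat_lit 2098908337) (nat_lit 0) (nat_lit 6308035833) (nat_lit 836) (nat_lit 69624078475) (nat_lit 101) (nat_lit 5) (nat_lit 100) (nat_lit 3) (nat_lit 111) (nat_lit 5) (nat_lit 361) (nat_lit 360) (nat_lit 179)) (XT.nd (nat_lit 78) (nat_lit 0) (nat_lit 0) (XT.lf (nat_lit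 0) (nat_lit 9740289495) (nat_lit 760) (nat_lit 39329934497) (nat_lit 836) (nat_lit 30903240766) (nat_lit 101) (nat_lit 5) (nat_lit 111) (nat_lit 5) (nat_lit 112) (nat_lit 5) (nat_lit 362) (nat_lit 360) (nat_lit 178)) (XT.lf (nat_lit 0) (nat_lit 11243046143) (nat_lit 760) (nat_lit 1001456556) (nat_lit 836) (nat_lit 69763389778) (nat_lit 101) (nat_lit 5) (nat_lit 111) (nat_lit 5) (nat_lit 112) (nat_lit 5) (nat_lit 363) (nat_lit 360) (nat_lit 177)))))) (XT.nd (nat_lit 468) (nat_lit 1216) (nat_lit 0) (XT.nd (nat_lit 234) (nat_lit 0) (nat_lit 76) (XT.nd (nat_lit 78) (nat_lit 0) (nat_lit 0) (XT.lf (nat_lit 0) (nat_lit 13876168206) (nat_lit 760) (nat_lit 43994719092) (nat_lit 836) (nat_lit 26220393573) (nat_lit 102) (nat_lit 5) (nat_lit 112) (nat_lit 5) (nat_lit 113) (nat_lit 5) (nat_lit 364) (nat_lit 360) (nat_lit 176)) (XT.nd (nat_lit 78) (nat_lit 0) (nat_lit 76) (XT.lf (nat_lit 0) (nat_lit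 16858307510) (nat_lit 760) (nat_lit 3195158962) (nat_lit 836) (nat_lit 66214504794) (nat_lit 102) (nat_lit 5) (nat_lit 112) (nat_lit 5) (nat_lit 113) (nat_lit 5) (nat_lit 365) (nat_lit 360) (nat_lit 175)) (XT.lf (nat_lit 0) (nat_lit 20945747346) (nat_lit 760) (nat_lit 47884108863) (nat_lit 836) (nat_lit 19675830901) (nat_lit 103) (nat_lit 5) (nat_lit 113) (nat_lit 5) (nat_lit 114) (nat_lit 5) (nat_lit 366) (nat_lit 360) (nat_lit 174)))) (XT.nd (nat_lit 78) (nat_lit 0) (nat_lit 76) (XT.lf (nat_lit 0) (nat_lit 25620749644) (nat_lit 760) (nat_lit 4442549860) (nat_lit 836) (nat_lit 60772830295) (nat_lit 103) (nat_lit 5) (nat_lit 113) (nat_lit 5) (nat_lit 114) (nat_lit 5) (nat_lit 367) (nat_lit 360) (nat_lit 173)) (XT.nd (nat_lit 78) (nat_lit 0) (nat_lit 0) (XT.lf (nat_lit 0) (nat_lit 31370051287) (nat_lit 760) (nat_lit 50894971765) (nat_lit 836) (nat_lit 10976044661) (nat_lit 104) (nat_lit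 5) (nat_lit 114) (nat_lit 5) (nat_lit 115) (nat_lit 5) (nat_lit 368) (nat_lit 360) (nat_lit 172)) (XT.lf (nat_lit 0) (nat_lit 37975622832) (nat_lit 760) (nat_lit 4628572624) (nat_lit 836) (nat_lit 53133617348) (nat_lit 104) (nat_lit 5) (nat_lit 114) (nat_lit 5) (nat_lit 115) (nat_lit 5) (nat_lit 369) (nat_lit 360) (nat_lit 171))))) (XT.nd (nat_lit 234) (nat_lit 684) (nat_lit 0) (XT.nd (nat_lit 78) (nat_lit 684) (nat_lit 0) (XT.lf (nat_lit 76) (nat_lit 45403959667) (nat_lit 0) (nat_lit 215914175) (nat_lit 836) (nat_lit 52704101765) (nat_lit 105) (nat_lit 5) (nat_lit 104) (nat_lit 5) (nat_lit 115) (nat_lit 5) (nat_lit 370) (nat_lit 360) (nat_lit 170)) (XT.nd (nat_lit 78) (nat_lit 760) (nat_lit 0) (XT.lf (nat_lit 0) (nat_lit 54417064245) (nat_lit 760) (nat_lit 3629934467) (nat_lit 76) (nat_lit 42953911970) (nat_lit 105) (nat_lit 5) (nat_lit 115) (nat_lit 5) (nat_lit 106) (nat_lit 5) (nat_lit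 371) (nat_lit 360) (nat_lit 169)) (XT.lf (nat_lit 0) (nat_lit 49711803903) (nat_lit 760) (nat_lit 14721548378) (nat_lit 836) (nat_lit 39339378777) (nat_lit 95) (nat_lit 5) (nat_lit 105) (nat_lit 5) (nat_lit 106) (nat_lit 5) (nat_lit 372) (nat_lit 360) (nat_lit 168)))) (XT.nd (nat_lit 78) (nat_lit 684) (nat_lit 0) (XT.lf (nat_lit 0) (nat_lit 75492919374) (nat_lit 836) (nat_lit 1315244608) (nat_lit 76) (nat_lit 29847855670) (nat_lit 95) (nat_lit 5) (nat_lit 106) (nat_lit 5) (nat_lit 96) (nat_lit 5) (nat_lit 373) (nat_lit 360) (nat_lit 167)) (XT.nd (nat_lit 78) (nat_lit 304) (nat_lit 0) (XT.lf (nat_lit 0) (nat_lit 55605723460) (nat_lit 380) (nat_lit 32608833225) (nat_lit 456) (nat_lit 21413461808) (nat_lit 90) (nat_lit 5) (nat_lit 95) (nat_lit 5) (nat_lit 96) (nat_lit 5) (nat_lit 374) (nat_lit 360) (nat_lit 166)) (XT.lf (nat_lit 0) (nat_lit 2535825905) (nat_lit 304) (nat_lit 99313751937) (nat_lit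 380) (nat_lit 10885174726) (nat_lit 86) (nat_lit 5) (nat_lit 90) (nat_lit 5) (nat_lit 91) (nat_lit 5) (nat_lit 375) (nat_lit 360) (nat_lit 165))))))) (XT.nd (nat_lit 936) (nat_lit 1368) (nat_lit 0) (XT.nd (nat_lit 468) (nat_lit 836) (nat_lit 0) (XT.nd (nat_lit 234) (nat_lit 608) (nat_lit 0) (XT.nd (nat_lit 78) (nat_lit 380) (nat_lit 0) (XT.lf (nat_lit 0) (nat_lit 1628176921) (nat_lit 380) (nat_lit 52706322333) (nat_lit 76) (nat_lit 61588988302) (nat_lit 85) (nat_lit 5) (nat_lit 90) (nat_lit 5) (nat_lit 86) (nat_lit 5) (nat_lit 376) (nat_lit 360) (nat_lit 164)) (XT.nd (nat_lit 78) (nat_lit 0) (nat_lit 0) (XT.lf (nat_lit 0) (nat_lit 7729464942) (nat_lit 380) (nat_lit 6792228118) (nat_lit 456) (nat_lit 104735028789) (nat_lit 80) (nat_lit 5) (nat_lit 85) (nat_lit 5) (nat_lit 86) (nat_lit 5) (nat_lit 377) (nat_lit 360) (nat_lit 163)) (XT.lf (nat_lit 0) (nat_lit 29640103355) (nat_lit 456) (nat_lit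 50383474407) (nat_lit 76) (nat_lit 42654029500) (nat_lit 80) (nat_lit 5) (nat_lit 86) (nat_lit 5) (nat_lit 81) (nat_lit 5) (nat_lit 378) (nat_lit 360) (nat_lit 162)))) (XT.nd (nat_lit 78) (nat_lit 304) (nat_lit 0) (XT.lf (nat_lit 0) (nat_lit 14158938628) (nat_lit 304) (nat_lit 31687563864) (nat_lit 380) (nat_lit 80406431343) (nat_lit 76) (nat_lit 5) (nat_lit 80) (nat_lit 5) (nat_lit 81) (nat_lit 5) (nat_lit 379) (nat_lit 360) (nat_lit 161)) (XT.nd (nat_lit 78) (nat_lit 304) (nat_lit 0) (XT.lf (nat_lit 0) (nat_lit 64027809254) (nat_lit 380) (nat_lit 46598735410) (nat_lit 76) (nat_lit 19322252981) (nat_lit 76) (nat_lit 5) (nat_lit 81) (nat_lit 5) (nat_lit 77) (nat_lit 5) (nat_lit 380) (nat_lit 360) (nat_lit 160)) (XT.lf (nat_lit 0) (nat_lit 22367337534) (nat_lit 304) (nat_lit 61619213806) (nat_lit 380) (nat_lit 49799485086) (nat_lit 72) (nat_lit 5) (nat_lit 76) (nat_lit 5) (nat_lit 77) (nat_lit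 5) (nat_lit 381) (nat_lit 360) (nat_lit 159))))) (XT.nd (nat_lit 234) (nat_lit 532) (nat_lit 0) (XT.nd (nat_lit 78) (nat_lit 304) (nat_lit 0) (XT.lf (nat_lit 0) (nat_lit 96399146992) (nat_lit 304) (nat_lit 9332949800) (nat_lit 380) (nat_lit 32043597304) (nat_lit 72) (nat_lit 5) (nat_lit 76) (nat_lit 5) (nat_lit 77) (nat_lit 5) (nat_lit 382) (nat_lit 360) (nat_lit 158)) (XT.nd (nat_lit 78) (nat_lit 76) (nat_lit 0) (XT.lf (nat_lit 0) (nat_lit 32495982022) (nat_lit 228) (nat_lit 97287436952) (nat_lit 304) (nat_lit 12120490955) (nat_lit 69) (nat_lit 5) (nat_lit 72) (nat_lit 5) (nat_lit 73) (nat_lit 5) (nat_lit 383) (nat_lit 360) (nat_lit 157)) (XT.lf (nat_lit 0) (nat_lit 9382084674) (nat_lit 304) (nat_lit 35007092247) (nat_lit 76) (nat_lit 101799244709) (nat_lit 68) (nat_lit 5) (nat_lit 72) (nat_lit 5) (nat_lit 69) (nat_lit 5) (nat_lit 384) (nat_lit 360) (nat_lit 156)))) (XT.nd (nat_lit 78)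 (nat_lit 228) (nat_lit 0) (XT.lf (nat_lit 0) (nat_lit 32433107526) (nat_lit 380) (nat_lit 106497686644) (nat_lit 76) (nat_lit 11702397815) (nat_lit 64) (nat_lit 5) (nat_lit 69) (nat_lit 5) (nat_lit 65) (nat_lit 5) (nat_lit 385) (nat_lit 360) (nat_lit 155)) (XT.nd (nat_lit 78) (nat_lit 228) (nat_lit 0) (XT.lf (nat_lit 0) (nat_lit 57966685388) (nat_lit 380) (nat_lit 27557727375) (nat_lit 76) (nat_lit 69709288109) (nat_lit 64) (nat_lit 5) (nat_lit 69) (nat_lit 5) (nat_lit 65) (nat_lit 5) (nat_lit 386) (nat_lit 360) (nat_lit 154)) (XT.lf (nat_lit 0) (nat_lit 57158310711) (nat_lit 228) (nat_lit 28510776985) (nat_lit 304) (nat_lit 74350540426) (nat_lit 61) (nat_lit 5) (nat_lit 64) (nat_lit 5) (nat_lit 65) (nat_lit 5) (nat_lit 387) (nat_lit 360) (nat_lit 153)))))) (XT.nd (nat_lit 468) (nat_lit 608) (nat_lit 0) (XT.nd (nat_lit 234) (nat_lit 456) (nat_lit 0) (XT.nd (nat_lit 78) (nat_lit 304) (nat_lit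 0) (XT.lf (nat_lit 0) (nat_lit 115720230783) (nat_lit 304) (nat_lit 18452139104) (nat_lit 76) (nat_lit 30824301004) (nat_lit 61) (nat_lit 5) (nat_lit 65) (nat_lit 5) (nat_lit 62) (nat_lit 5) (nat_lit 388) (nat_lit 360) (nat_lit 152)) (XT.nd (nat_lit 78) (nat_lit 76) (nat_lit 0) (XT.lf (nat_lit 0) (nat_lit 72014697145) (nat_lit 228) (nat_lit 76850736527) (nat_lit 304) (nat_lit 21277557172) (nat_lit 58) (nat_lit 5) (nat_lit 61) (nat_lit 5) (nat_lit 62) (nat_lit 5) (nat_lit 389) (nat_lit 360) (nat_lit 151)) (XT.lf (nat_lit 0) (nat_lit 8178721255) (nat_lit 304) (nat_lit 8017762719) (nat_lit 76) (nat_lit 159327934060) (nat_lit 57) (nat_lit 5) (nat_lit 61) (nat_lit 5) (nat_lit 58) (nat_lit 5) (nat_lit 390) (nat_lit 360) (nat_lit 150)))) (XT.nd (nat_lit 78) (nat_lit 228) (nat_lit 0) (XT.lf (nat_lit 0) (nat_lit 40553620329) (nat_lit 304) (nat_lit 92756961719) (nat_lit 76) (nat_lit 47738850461)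 (nat_lit 54) (nat_lit 5) (nat_lit 58) (nat_lit 5) (nat_lit 55) (nat_lit 5) (nat_lit 391) (nat_lit 360) (nat_lit 149)) (XT.nd (nat_lit 78) (nat_lit 0) (nat_lit 0) (XT.lf (nat_lit 0) (nat_lit 2670060139) (nat_lit 228) (nat_lit 72322197651) (nat_lit 304) (nat_lit 111836190394) (nat_lit 51) (nat_lit 5) (nat_lit 54) (nat_lit 5) (nat_lit 55) (nat_lit 5) (nat_lit 392) (nat_lit 360) (nat_lit 148)) (XT.lf (nat_lit 0) (nat_lit 106088428083) (nat_lit 228) (nat_lit 6635068130) (nat_lit 304) (nat_lit 80094385115) (nat_lit 51) (nat_lit 5) (nat_lit 54) (nat_lit 5) (nat_lit 55) (nat_lit 5) (nat_lit 393) (nat_lit 360) (nat_lit 147))))) (XT.nd (nat_lit 234) (nat_lit 152) (nat_lit 0) (XT.nd (nat_lit 78) (nat_lit 304) (nat_lit 0) (XT.lf (nat_lit 0) (nat_lit 15080026117) (nat_lit 152) (nat_lit 138469751863) (nat_lit 228) (nat_lit 45496584212) (nat_lit 49) (nat_lit 5) (nat_lit 51) (nat_lit 5) (nat_lit 52) (nat_lit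 5) (nat_lit 394) (nat_lit 360) (nat_lit 146)) (XT.nd (nat_lit 78) (nat_lit 304) (nat_lit 0) (XT.lf (nat_lit 0) (nat_lit 124878356145) (nat_lit 152) (nat_lit 73114638991) (nat_lit 228) (nat_lit 7514491026) (nat_lit 49) (nat_lit 5) (nat_lit 51) (nat_lit 5) (nat_lit 52) (nat_lit 5) (nat_lit 395) (nat_lit 360) (nat_lit 145)) (XT.lf (nat_lit 0) (nat_lit 28274256135) (nat_lit 228) (nat_lit 3497759444) (nat_lit 304) (nat_lit 180472321840) (nat_lit 45) (nat_lit 5) (nat_lit 48) (nat_lit 5) (nat_lit 49) (nat_lit 5) (nat_lit 396) (nat_lit 360) (nat_lit 144)))) (XT.nd (nat_lit 78) (nat_lit 152) (nat_lit 0) (XT.lf (nat_lit 0) (nat_lit 75244648535) (nat_lit 304) (nat_lit 75060208839) (nat_lit 76) (nat_lit 68883297697) (nat_lit 45) (nat_lit 5) (nat_lit 49) (nat_lit 5) (nat_lit 46) (nat_lit 5) (nat_lit 397) (nat_lit 360) (nat_lit 143)) (XT.nd (nat_lit 78) (nat_lit 0) (nat_lit 0) (XT.lf (nat_lit 0) (nat_lit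 40534900015) (nat_lit 152) (nat_lit 81046034193) (nat_lit 228) (nat_lit 104863728450) (nat_lit 43) (nat_lit 5) (nat_lit 45) (nat_lit 5) (nat_lit 46) (nat_lit 5) (nat_lit 398) (nat_lit 360) (nat_lit 142)) (XT.lf (nat_lit 0) (nat_lit 164515403058) (nat_lit 152) (nat_lit 6989633716) (nat_lit 228) (nat_lit 62495408819) (nat_lit 43) (nat_lit 5) (nat_lit 45) (nat_lit 5) (nat_lit 46) (nat_lit 5) (nat_lit 399) (nat_lit 360) (nat_lit 141))))))))
noncomputable def xc230 : XT := (XT.nd (nat_lit 43836) (nat_lit 0) (nat_lit 3648) (XT.nd (nat_lit 858) (nat_lit 760) (nat_lit 0) (XT.nd (nat_lit 390) (nat_lit 380) (nat_lit 0) (XT.nd (nat_lit 156) (nat_lit 304) (nat_lit 0) (XT.nd (nat_lit 78) (nat_lit 76) (nat_lit 0) (XT.lf (nat_lit 0) (nat_lit 53363697769) (nat_lit 152) (nat_lit 172499543756) (nat_lit 228) (nat_lit 15973881391) (nat_lit 41) (nat_lit 5) (nat_lit 43) (nat_lit 5) (nat_lit 44) (nat_lit 5) (nat_lit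 400) (nat_lit 360) (nat_lit 140)) (XT.lf (nat_lit 0) (nat_lit 33132025853) (nat_lit 228) (nat_lit 65886960476) (nat_lit 76) (nat_lit 150955461923) (nat_lit 40) (nat_lit 5) (nat_lit 43) (nat_lit 5) (nat_lit 41) (nat_lit 5) (nat_lit 401) (nat_lit 360) (nat_lit 139))) (XT.nd (nat_lit 78) (nat_lit 152) (nat_lit 0) (XT.lf (nat_lit 0) (nat_lit 64635434177) (nat_lit 152) (nat_lit 20529945194) (nat_lit 228) (nat_lit 173289718317) (nat_lit 38) (nat_lit 5) (nat_lit 40) (nat_lit 5) (nat_lit 41) (nat_lit 5) (nat_lit 402) (nat_lit 360) (nat_lit 138)) (XT.nd (nat_lit 78) (nat_lit 152) (nat_lit 0) (XT.lf (nat_lit 0) (nat_lit 141900535885) (nat_lit 228) (nat_lit 64317327095) (nat_lit 76) (nat_lit 61036909929) (nat_lit 38) (nat_lit 5) (nat_lit 41) (nat_lit 5) (nat_lit 39) (nat_lit 5) (nat_lit 403) (nat_lit 360) (nat_lit 137)) (XT.lf (nat_lit 0) (nat_lit 73681587213) (nat_lit 152) (nat_lit 129277643077)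 (nat_lit 228) (nat_lit 73460862671) (nat_lit 36) (nat_lit 5) (nat_lit 38) (nat_lit 5) (nat_lit 39) (nat_lit 5) (nat_lit 404) (nat_lit 360) (nat_lit 136))))) (XT.nd (nat_lit 234) (nat_lit 228) (nat_lit 0) (XT.nd (nat_lit 78) (nat_lit 152) (nat_lit 0) (XT.lf (nat_lit 0) (nat_lit 220813150295) (nat_lit 152) (nat_lit 47346805064) (nat_lit 228) (nat_lit 17829268930) (nat_lit 36) (nat_lit 5) (nat_lit 38) (nat_lit 5) (nat_lit 39) (nat_lit 5) (nat_lit 405) (nat_lit 360) (nat_lit 135)) (XT.nd (nat_lit 78) (nat_lit 0) (nat_lit 0) (XT.lf (nat_lit 0) (nat_lit 41188146066) (nat_lit 152) (nat_lit 215346323399) (nat_lit 76) (nat_lit 39375502361) (nat_lit 34) (nat_lit 5) (nat_lit 36) (nat_lit 5) (nat_lit 35) (nat_lit 5) (nat_lit 406) (nat_lit 360) (nat_lit 134)) (XT.lf (nat_lit 0) (nat_lit 104455169071) (nat_lit 152) (nat_lit 71505243326) (nat_lit 76) (nat_lit 130256834370) (nat_lit 34) (nat_lit 5) (nat_lit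 36) (nat_lit 5) (nat_lit 35) (nat_lit 5) (nat_lit 407) (nat_lit 360) (nat_lit 133)))) (XT.nd (nat_lit 78) (nat_lit 76) (nat_lit 0) (XT.lf (nat_lit 0) (nat_lit 82157201938) (nat_lit 152) (nat_lit 90010909486) (nat_lit 228) (nat_lit 144807645677) (nat_lit 32) (nat_lit 5) (nat_lit 34) (nat_lit 5) (nat_lit 35) (nat_lit 5) (nat_lit 408) (nat_lit 360) (nat_lit 132)) (XT.nd (nat_lit 78) (nat_lit 76) (nat_lit 0) (XT.lf (nat_lit 0) (nat_lit 244501079993) (nat_lit 228) (nat_lit 82250145688) (nat_lit 76) (nat_lit 1459248373) (nat_lit 32) (nat_lit 5) (nat_lit 35) (nat_lit 5) (nat_lit 33) (nat_lit 4) (nat_lit 409) (nat_lit 360) (nat_lit 131)) (XT.lf (nat_lit 0) (nat_lit 78999345301) (nat_lit 76) (nat_lit 244160213397) (nat_lit 152) (nat_lit 16711925123) (nat_lit 31) (nat_lit 5) (nat_lit 32) (nat_lit 5) (nat_lit 33) (nat_lit 4) (nat_lit 410) (nat_lit 360) (nat_lit 130)))))) (XT.nd (nat_lit 468) (nat_lit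 228) (nat_lit 0) (XT.nd (nat_lit 234) (nat_lit 304) (nat_lit 0) (XT.nd (nat_lit 78) (nat_lit 152) (nat_lit 0) (XT.lf (nat_lit 0) (nat_lit 53334402573) (nat_lit 152) (nat_lit 101739504326) (nat_lit 76) (nat_lit 196928984587) (nat_lit 30) (nat_lit 5) (nat_lit 32) (nat_lit 5) (nat_lit 31) (nat_lit 5) (nat_lit 411) (nat_lit 360) (nat_lit 129)) (XT.nd (nat_lit 78) (nat_lit 0) (nat_lit 0) (XT.lf (nat_lit 0) (nat_lit 67227275524) (nat_lit 152) (nat_lit 60143625540) (nat_lit 228) (nat_lit 237303795982) (nat_lit 28) (nat_lit 5) (nat_lit 30) (nat_lit 5) (nat_lit 31) (nat_lit 5) (nat_lit 412) (nat_lit 360) (nat_lit 128)) (XT.lf (nat_lit 0) (nat_lit 207477581428) (nat_lit 228) (nat_lit 130365065756) (nat_lit 76) (nat_lit 40019027896) (nat_lit 28) (nat_lit 5) (nat_lit 31) (nat_lit 5) (nat_lit 29) (nat_lit 4) (nat_lit 413) (nat_lit 360) (nat_lit 127)))) (XT.nd (nat_lit 78) (nat_lit 228) (nat_lit 0) (XT.lf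 (nat_lit 0) (nat_lit 45542900259) (nat_lit 76) (nat_lit 247743594276) (nat_lit 152) (nat_lit 98336662585) (nat_lit 27) (nat_lit 5) (nat_lit 28) (nat_lit 5) (nat_lit 29) (nat_lit 4) (nat_lit 414) (nat_lit 360) (nat_lit 126)) (XT.nd (nat_lit 78) (nat_lit 228) (nat_lit 0) (XT.lf (nat_lit 0) (nat_lit 234772044877) (nat_lit 76) (nat_lit 150821491564) (nat_lit 152) (nat_lit 20368792704) (nat_lit 27) (nat_lit 5) (nat_lit 28) (nat_lit 5) (nat_lit 29) (nat_lit 4) (nat_lit 415) (nat_lit 360) (nat_lit 125)) (XT.lf (nat_lit 0) (nat_lit 11863552355) (nat_lit 152) (nat_lit 47850729727) (nat_lit 228) (nat_lit 361246914605) (nat_lit 24) (nat_lit 5) (nat_lit 26) (nat_lit 5) (nat_lit 27) (nat_lit 5) (nat_lit 416) (nat_lit 360) (nat_lit 124))))) (XT.nd (nat_lit 234) (nat_lit 152) (nat_lit 0) (XT.nd (nat_lit 78) (nat_lit 76) (nat_lit 0) (XT.lf (nat_lit 0) (nat_lit 147004557003) (nat_lit 228) (nat_lit 227874226197)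 (nat_lit 76) (nat_lit 61620150140) (nat_lit 24) (nat_lit 5) (nat_lit 27) (nat_lit 5) (nat_lit 25) (nat_lit 4) (nat_lit 417) (nat_lit 360) (nat_lit 123)) (XT.nd (nat_lit 78) (nat_lit 76) (nat_lit 0) (XT.lf (nat_lit 0) (nat_lit 239443681100) (nat_lit 228) (nat_lit 38374261442) (nat_lit 76) (nat_lit 174956397544) (nat_lit 24) (nat_lit 5) (nat_lit 27) (nat_lit 5) (nat_lit 25) (nat_lit 4) (nat_lit 418) (nat_lit 360) (nat_lit 122)) (XT.lf (nat_lit 0) (nat_lit 165910702944) (nat_lit 76) (nat_lit 173184291629) (nat_lit 152) (nat_lit 130639010968) (nat_lit 23) (nat_lit 5) (nat_lit 24) (nat_lit 5) (nat_lit 25) (nat_lit 4) (nat_lit 419) (nat_lit 360) (nat_lit 121)))) (XT.nd (nat_lit 78) (nat_lit 152) (nat_lit 0) (XT.lf (nat_lit 0) (nat_lit 381742008880) (nat_lit 76) (nat_lit 62636655596) (nat_lit 152) (nat_lit 43130500285) (nat_lit 23) (nat_lit 5) (nat_lit 24) (nat_lit 5) (nat_lit 25) (nat_lit 4)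 (nat_lit 420) (nat_lit 360) (nat_lit 120)) (XT.nd (nat_lit 78) (nat_lit 0) (nat_lit 0) (XT.lf (nat_lit 0) (nat_lit 49702522636) (nat_lit 152) (nat_lit 402142647940) (nat_lit 76) (nat_lit 54164377449) (nat_lit 21) (nat_lit 5) (nat_lit 23) (nat_lit 5) (nat_lit 22) (nat_lit 4) (nat_lit 421) (nat_lit 360) (nat_lit 119)) (XT.lf (nat_lit 0) (nat_lit 148575049444) (nat_lit 152) (nat_lit 199454155752) (nat_lit 76) (nat_lit 177228026393) (nat_lit 21) (nat_lit 5) (nat_lit 23) (nat_lit 5) (nat_lit 22) (nat_lit 4) (nat_lit 422) (nat_lit 360) (nat_lit 118))))))) (XT.nd (nat_lit 936) (nat_lit 2356) (nat_lit 0) (XT.nd (nat_lit 468) (nat_lit 0) (nat_lit 228) (XT.nd (nat_lit 234) (nat_lit 0) (nat_lit 76) (XT.nd (nat_lit 78) (nat_lit 0) (nat_lit 0) (XT.lf (nat_lit 0) (nat_lit 4294366282) (nat_lit 836) (nat_lit 17836659455) (nat_lit 836) (nat_lit 17836659455) (nat_lit 100) (nat_lit 3) (nat_lit 111) (nat_lit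 3) (nat_lit 111) (nat_lit 5) (nat_lit 361) (nat_lit 361) (nat_lit 178)) (XT.nd (nat_lit 78) (nat_lit 0) (nat_lit 76) (XT.lf (nat_lit 76) (nat_lit 2214967059) (nat_lit 0) (nat_lit 6632967936) (nat_lit 836) (nat_lit 73083584993) (nat_lit 101) (nat_lit 5) (nat_lit 100) (nat_lit 3) (nat_lit 111) (nat_lit 5) (nat_lit 362) (nat_lit 361) (nat_lit 177)) (XT.lf (nat_lit 0) (nat_lit 10246822847) (nat_lit 760) (nat_lit 41284701803) (nat_lit 836) (nat_lit 32439616822) (nat_lit 101) (nat_lit 5) (nat_lit 111) (nat_lit 5) (nat_lit 112) (nat_lit 5) (nat_lit 363) (nat_lit 361) (nat_lit 176)))) (XT.nd (nat_lit 78) (nat_lit 0) (nat_lit 76) (XT.lf (nat_lit 0) (nat_lit 11823787857) (nat_lit 760) (nat_lit 1040358509) (nat_lit 836) (nat_lit 73243191665) (nat_lit 101) (nat_lit 5) (nat_lit 111) (nat_lit 5) (nat_lit 112) (nat_lit 5) (nat_lit 364) (nat_lit 361) (nat_lit 175)) (XT.nd (nat_lit 78) (nat_lit 0) (nat_lit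 0) (XT.lf (nat_lit 0) (nat_lit 14587744913) (nat_lit 760) (nat_lit 46182444396) (nat_lit 836) (nat_lit 27524748524) (nat_lit 102) (nat_lit 5) (nat_lit 112) (nat_lit 5) (nat_lit 113) (nat_lit 5) (nat_lit 365) (nat_lit 361) (nat_lit 174)) (XT.lf (nat_lit 0) (nat_lit 17718145073) (nat_lit 760) (nat_lit 3343478195) (nat_lit 836) (nat_lit 69518882675) (nat_lit 102) (nat_lit 5) (nat_lit 112) (nat_lit 5) (nat_lit 113) (nat_lit 5) (nat_lit 366) (nat_lit 361) (nat_lit 173))))) (XT.nd (nat_lit 234) (nat_lit 0) (nat_lit 76) (XT.nd (nat_lit 78) (nat_lit 0) (nat_lit 0) (XT.lf (nat_lit 0) (nat_lit 22009248137) (nat_lit 760) (nat_lit 50266149896) (nat_lit 836) (nat_lit 20654745829) (nat_lit 103) (nat_lit 5) (nat_lit 113) (nat_lit 5) (nat_lit 114) (nat_lit 5) (nat_lit 367) (nat_lit 361) (nat_lit 172)) (XT.nd (nat_lit 78) (nat_lit 0) (nat_lit 76) (XT.lf (nat_lit 0) (nat_lit 26917228483) (nat_lit 760) (nat_lit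 4653092201) (nat_lit 836) (nat_lit 63806827413) (nat_lit 103) (nat_lit 5) (nat_lit 113) (nat_lit 5) (nat_lit 114) (nat_lit 5) (nat_lit 368) (nat_lit 361) (nat_lit 171)) (XT.lf (nat_lit 0) (nat_lit 32953383442) (nat_lit 760) (nat_lit 53427508079) (nat_lit 836) (nat_lit 11521472741) (nat_lit 104) (nat_lit 5) (nat_lit 114) (nat_lit 5) (nat_lit 115) (nat_lit 5) (nat_lit 369) (nat_lit 361) (nat_lit 170)))) (XT.nd (nat_lit 78) (nat_lit 0) (nat_lit 0) (XT.lf (nat_lit 0) (nat_lit 39888527394) (nat_lit 760) (nat_lit 4848370518) (nat_lit 836) (nat_lit 55787084737) (nat_lit 104) (nat_lit 5) (nat_lit 114) (nat_lit 5) (nat_lit 115) (nat_lit 5) (nat_lit 370) (nat_lit 361) (nat_lit 169)) (XT.nd (nat_lit 78) (nat_lit 0) (nat_lit 76) (XT.lf (nat_lit 76) (nat_lit 47685600795) (nat_lit 0) (nat_lit 228896275) (nat_lit 836) (nat_lit 55324981911) (nat_lit 105) (nat_lit 5) (nat_lit 104) (nat_lit 5) (nat_lit 115)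 (nat_lit 5) (nat_lit 371) (nat_lit 361) (nat_lit 168)) (XT.lf (nat_lit 0) (nat_lit 57150865457) (nat_lit 760) (nat_lit 3799838155) (nat_lit 76) (nat_lit 45099591938) (nat_lit 105) (nat_lit 5) (nat_lit 115) (nat_lit 5) (nat_lit 106) (nat_lit 5) (nat_lit 372) (nat_lit 361) (nat_lit 167)))))) (XT.nd (nat_lit 468) (nat_lit 836) (nat_lit 0) (XT.nd (nat_lit 234) (nat_lit 760) (nat_lit 0) (XT.nd (nat_lit 78) (nat_lit 380) (nat_lit 0) (XT.lf (nat_lit 0) (nat_lit 52208800148) (nat_lit 760) (nat_lit 15458729256) (nat_lit 836) (nat_lit 41293200098) (nat_lit 95) (nat_lit 5) (nat_lit 105) (nat_lit 5) (nat_lit 106) (nat_lit 5) (nat_lit 373) (nat_lit 361) (nat_lit 166)) (XT.nd (nat_lit 78) (nat_lit 380) (nat_lit 0) (XT.lf (nat_lit 0) (nat_lit 79279462753) (nat_lit 836) (nat_lit 1369519803) (nat_lit 76) (nat_lit 31339231176) (nat_lit 95) (nat_lit 5) (nat_lit 106) (nat_lit 5) (nat_lit 96) (nat_lit 5) (nat_lit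 374) (nat_lit 361) (nat_lit 165)) (XT.lf (nat_lit 0) (nat_lit 58397311394) (nat_lit 380) (nat_lit 34239480444) (nat_lit 456) (nat_lit 22472040754) (nat_lit 90) (nat_lit 5) (nat_lit 95) (nat_lit 5) (nat_lit 96) (nat_lit 5) (nat_lit 375) (nat_lit 361) (nat_lit 164)))) (XT.nd (nat_lit 78) (nat_lit 456) (nat_lit 0) (XT.lf (nat_lit 0) (nat_lit 2674317193) (nat_lit 304) (nat_lit 104278878506) (nat_lit 380) (nat_lit 11417726636) (nat_lit 86) (nat_lit 5) (nat_lit 90) (nat_lit 5) (nat_lit 91) (nat_lit 5) (nat_lit 376) (nat_lit 361) (nat_lit 163)) (XT.nd (nat_lit 78) (nat_lit 380) (nat_lit 0) (XT.lf (nat_lit 0) (nat_lit 1720378277) (nat_lit 380) (nat_lit 55330128851) (nat_lit 76) (nat_lit 64668605281) (nat_lit 85) (nat_lit 5) (nat_lit 90) (nat_lit 5) (nat_lit 86) (nat_lit 5) (nat_lit 377) (nat_lit 361) (nat_lit 162)) (XT.lf (nat_lit 0) (nat_lit 8127262149) (nat_lit 380) (nat_lit 7130970944) (nat_lit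 456) (nat_lit 109960792652) (nat_lit 80) (nat_lit 5) (nat_lit 85) (nat_lit 5) (nat_lit 86) (nat_lit 5) (nat_lit 378) (nat_lit 361) (nat_lit 161))))) (XT.nd (nat_lit 234) (nat_lit 532) (nat_lit 0) (XT.nd (nat_lit 78) (nat_lit 304) (nat_lit 0) (XT.lf (nat_lit 0) (nat_lit 31132078942) (nat_lit 456) (nat_lit 52891369464) (nat_lit 76) (nat_lit 44787531719) (nat_lit 80) (nat_lit 5) (nat_lit 86) (nat_lit 5) (nat_lit 81) (nat_lit 5) (nat_lit 379) (nat_lit 361) (nat_lit 160)) (XT.nd (nat_lit 78) (nat_lit 0) (nat_lit 0) (XT.lf (nat_lit 0) (nat_lit 14877982308) (nat_lit 304) (nat_lit 33270514197) (nat_lit 380) (nat_lit 84416592026) (nat_lit 76) (nat_lit 5) (nat_lit 80) (nat_lit 5) (nat_lit 81) (nat_lit 5) (nat_lit 380) (nat_lit 361) (nat_lit 159)) (XT.lf (nat_lit 0) (nat_lit 67238429414) (nat_lit 380) (nat_lit 48917656512) (nat_lit 76) (nat_lit 20289681972) (nat_lit 76) (nat_lit 5) (nat_lit 81) (nat_lit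 5) (nat_lit 77) (nat_lit 5) (nat_lit 381) (nat_lit 361) (nat_lit 158)))) (XT.nd (nat_lit 78) (nat_lit 228) (nat_lit 0) (XT.lf (nat_lit 0) (nat_lit 23496542407) (nat_lit 304) (nat_lit 64698295899) (nat_lit 380) (nat_lit 52280044215) (nat_lit 72) (nat_lit 5) (nat_lit 76) (nat_lit 5) (nat_lit 77) (nat_lit 5) (nat_lit 382) (nat_lit 361) (nat_lit 157)) (XT.nd (nat_lit 78) (nat_lit 228) (nat_lit 0) (XT.lf (nat_lit 0) (nat_lit 101229426243) (nat_lit 304) (nat_lit 9797808150) (nat_lit 380) (nat_lit 33636810383) (nat_lit 72) (nat_lit 5) (nat_lit 76) (nat_lit 5) (nat_lit 77) (nat_lit 5) (nat_lit 383) (nat_lit 361) (nat_lit 156)) (XT.lf (nat_lit 0) (nat_lit 34131336084) (nat_lit 228) (nat_lit 102149571674) (nat_lit 304) (nat_lit 12717774741) (nat_lit 69) (nat_lit 5) (nat_lit 72) (nat_lit 5) (nat_lit 73) (nat_lit 5) (nat_lit 384) (nat_lit 361) (nat_lit 155))))))))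
noncomputable def xc231 : XT := (XT.nd (nat_lit 1872) (nat_lit 988) (nat_lit 0) (XT.nd (nat_lit 936) (nat_lit 1140) (nat_lit 0) (XT.nd (nat_lit 468) (nat_lit 684) (nat_lit 0) (XT.nd (nat_lit 234) (nat_lit 456) (nat_lit 0) (XT.nd (nat_lit 78) (nat_lit 304) (nat_lit 0) (XT.lf (nat_lit 0) (nat_lit 9859247006) (nat_lit 304) (nat_lit 36747121697) (nat_lit 76) (nat_lit 106891064722) (nat_lit 68) (nat_lit 5) (nat_lit 72) (nat_lit 5) (nat_lit 69) (nat_lit 5) (nat_lit 385) (nat_lit 361) (nat_lit 154)) (XT.nd (nat_lit 78) (nat_lit 0) (nat_lit 0) (XT.lf (nat_lit 0) (nat_lit 34062632196) (nat_lit 380) (nat_lit 111812050933) (nat_lit 76) (nat_lit 12289768913) (nat_lit 64) (nat_lit 5) (nat_lit 69) (nat_lit 5) (nat_lit 65) (nat_lit 5) (nat_lit 386) (nat_lit 361) (nat_lit 153)) (XT.lf (nat_lit 0) (nat_lit 60872514222) (nat_lit 380) (nat_lit 28925594655) (nat_lit 76) (nat_lit 73196896522) (nat_lit 64) (nat_lit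 5) (nat_lit 69) (nat_lit 5) (nat_lit 65) (nat_lit 5) (nat_lit 387) (nat_lit 361) (nat_lit 152)))) (XT.nd (nat_lit 78) (nat_lit 228) (nat_lit 0) (XT.lf (nat_lit 0) (nat_lit 60026083738) (nat_lit 228) (nat_lit 29933749928) (nat_lit 304) (nat_lit 78060405772) (nat_lit 61) (nat_lit 5) (nat_lit 64) (nat_lit 5) (nat_lit 65) (nat_lit 5) (nat_lit 388) (nat_lit 361) (nat_lit 151)) (XT.nd (nat_lit 78) (nat_lit 228) (nat_lit 0) (XT.lf (nat_lit 0) (nat_lit 121513224841) (nat_lit 304) (nat_lit 19365043658) (nat_lit 76) (nat_lit 32367881561) (nat_lit 61) (nat_lit 5) (nat_lit 65) (nat_lit 5) (nat_lit 62) (nat_lit 5) (nat_lit 389) (nat_lit 361) (nat_lit 150)) (XT.lf (nat_lit 0) (nat_lit 75624977913) (nat_lit 228) (nat_lit 80690526500) (nat_lit 304) (nat_lit 22334291021) (nat_lit 58) (nat_lit 5) (nat_lit 61) (nat_lit 5) (nat_lit 62) (nat_lit 5) (nat_lit 390) (nat_lit 361) (nat_lit 149))))) (XT.nd (nat_lit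 234) (nat_lit 152) (nat_lit 0) (XT.nd (nat_lit 78) (nat_lit 456) (nat_lit 0) (XT.lf (nat_lit 0) (nat_lit 8594243372) (nat_lit 304) (nat_lit 8409337212) (nat_lit 76) (nat_lit 167296724515) (nat_lit 57) (nat_lit 5) (nat_lit 61) (nat_lit 5) (nat_lit 58) (nat_lit 5) (nat_lit 391) (nat_lit 361) (nat_lit 148)) (XT.nd (nat_lit 78) (nat_lit 228) (nat_lit 0) (XT.lf (nat_lit 0) (nat_lit 42587759747) (nat_lit 304) (nat_lit 97385364191) (nat_lit 76) (nat_lit 50128452958) (nat_lit 54) (nat_lit 5) (nat_lit 58) (nat_lit 5) (nat_lit 55) (nat_lit 5) (nat_lit 392) (nat_lit 361) (nat_lit 147)) (XT.lf (nat_lit 0) (nat_lit 2812856411) (nat_lit 228) (nat_lit 75935310221) (nat_lit 304) (nat_lit 117421385050) (nat_lit 51) (nat_lit 5) (nat_lit 54) (nat_lit 5) (nat_lit 55) (nat_lit 5) (nat_lit 393) (nat_lit 361) (nat_lit 146)))) (XT.nd (nat_lit 78) (nat_lit 152) (nat_lit 0) (XT.lf (nat_lit 0) (nat_lit 111401700216)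 (nat_lit 228) (nat_lit 6963966953) (nat_lit 304) (nat_lit 84092804500) (nat_lit 51) (nat_lit 5) (nat_lit 54) (nat_lit 5) (nat_lit 55) (nat_lit 5) (nat_lit 394) (nat_lit 361) (nat_lit 145)) (XT.nd (nat_lit 78) (nat_lit 0) (nat_lit 0) (XT.lf (nat_lit 0) (nat_lit 15842990375) (nat_lit 152) (nat_lit 145390169501) (nat_lit 228) (nat_lit 47765222044) (nat_lit 49) (nat_lit 5) (nat_lit 51) (nat_lit 5) (nat_lit 52) (nat_lit 5) (nat_lit 395) (nat_lit 361) (nat_lit 144)) (XT.lf (nat_lit 0) (nat_lit 131130810097) (nat_lit 152) (nat_lit 76767447174) (nat_lit 228) (nat_lit 7884319027) (nat_lit 49) (nat_lit 5) (nat_lit 51) (nat_lit 5) (nat_lit 52) (nat_lit 5) (nat_lit 396) (nat_lit 361) (nat_lit 143)))))) (XT.nd (nat_lit 468) (nat_lit 456) (nat_lit 0) (XT.nd (nat_lit 234) (nat_lit 228) (nat_lit 0) (XT.nd (nat_lit 78) (nat_lit 152) (nat_lit 0) (XT.lf (nat_lit 0) (nat_lit 29696556419) (nat_lit 228) (nat_lit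 3669630037) (nat_lit 304) (nat_lit 189490086107) (nat_lit 45) (nat_lit 5) (nat_lit 48) (nat_lit 5) (nat_lit 49) (nat_lit 5) (nat_lit 397) (nat_lit 361) (nat_lit 142)) (XT.nd (nat_lit 78) (nat_lit 152) (nat_lit 0) (XT.lf (nat_lit 0) (nat_lit 79012230683) (nat_lit 304) (nat_lit 78804817286) (nat_lit 76) (nat_lit 72330244301) (nat_lit 45) (nat_lit 5) (nat_lit 49) (nat_lit 5) (nat_lit 46) (nat_lit 5) (nat_lit 398) (nat_lit 361) (nat_lit 141)) (XT.lf (nat_lit 0) (nat_lit 42569911495) (nat_lit 152) (nat_lit 85095293459) (nat_lit 228) (nat_lit 110101426713) (nat_lit 43) (nat_lit 5) (nat_lit 45) (nat_lit 5) (nat_lit 46) (nat_lit 5) (nat_lit 399) (nat_lit 361) (nat_lit 140)))) (XT.nd (nat_lit 78) (nat_lit 228) (nat_lit 0) (XT.lf (nat_lit 0) (nat_lit 172749046048) (nat_lit 152) (nat_lit 7336217836) (nat_lit 228) (nat_lit 65614952441) (nat_lit 43) (nat_lit 5) (nat_lit 45) (nat_lit 5) (nat_lit 46)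 (nat_lit 5) (nat_lit 400) (nat_lit 361) (nat_lit 139)) (XT.nd (nat_lit 78) (nat_lit 76) (nat_lit 0) (XT.lf (nat_lit 0) (nat_lit 56039831495) (nat_lit 152) (nat_lit 181121477649) (nat_lit 228) (nat_lit 16767421990) (nat_lit 41) (nat_lit 5) (nat_lit 43) (nat_lit 5) (nat_lit 44) (nat_lit 5) (nat_lit 401) (nat_lit 361) (nat_lit 138)) (XT.lf (nat_lit 0) (nat_lit 34793378125) (nat_lit 228) (nat_lit 69173578685) (nat_lit 76) (nat_lit 158505973901) (nat_lit 40) (nat_lit 5) (nat_lit 43) (nat_lit 5) (nat_lit 41) (nat_lit 5) (nat_lit 402) (nat_lit 361) (nat_lit 137))))) (XT.nd (nat_lit 234) (nat_lit 152) (nat_lit 0) (XT.nd (nat_lit 78) (nat_lit 152) (nat_lit 0) (XT.lf (nat_lit 0) (nat_lit 67874811026) (nat_lit 152) (nat_lit 21553480793) (nat_lit 228) (nat_lit 181949326289) (nat_lit 38) (nat_lit 5) (nat_lit 40) (nat_lit 5) (nat_lit 41) (nat_lit 5) (nat_lit 403) (nat_lit 361) (nat_lit 136)) (XT.nd (nat_lit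 78) (nat_lit 152) (nat_lit 0) (XT.lf (nat_lit 0) (nat_lit 149000029079) (nat_lit 228) (nat_lit 67525771197) (nat_lit 76) (nat_lit 64091485777) (nat_lit 38) (nat_lit 5) (nat_lit 41) (nat_lit 5) (nat_lit 39) (nat_lit 5) (nat_lit 404) (nat_lit 361) (nat_lit 135)) (XT.lf (nat_lit 0) (nat_lit 77372969112) (nat_lit 152) (nat_lit 135738590419) (nat_lit 228) (nat_lit 77129317614) (nat_lit 36) (nat_lit 5) (nat_lit 38) (nat_lit 5) (nat_lit 39) (nat_lit 5) (nat_lit 405) (nat_lit 361) (nat_lit 134)))) (XT.nd (nat_lit 78) (nat_lit 152) (nat_lit 0) (XT.lf (nat_lit 0) (nat_lit 231860762608) (nat_lit 152) (nat_lit 49711350259) (nat_lit 228) (nat_lit 18716362671) (nat_lit 36) (nat_lit 5) (nat_lit 38) (nat_lit 5) (nat_lit 39) (nat_lit 5) (nat_lit 406) (nat_lit 361) (nat_lit 133)) (XT.nd (nat_lit 78) (nat_lit 0) (nat_lit 0) (XT.lf (nat_lit 0) (nat_lit 43251735218) (nat_lit 152) (nat_lit 226106493235) (nat_lit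 76) (nat_lit 41347031077) (nat_lit 34) (nat_lit 5) (nat_lit 36) (nat_lit 5) (nat_lit 35) (nat_lit 5) (nat_lit 407) (nat_lit 361) (nat_lit 132)) (XT.lf (nat_lit 0) (nat_lit 109681910237) (nat_lit 152) (nat_lit 75073699460) (nat_lit 76) (nat_lit 136772298562) (nat_lit 34) (nat_lit 5) (nat_lit 36) (nat_lit 5) (nat_lit 35) (nat_lit 5) (nat_lit 408) (nat_lit 361) (nat_lit 131))))))) (XT.nd (nat_lit 936) (nat_lit 152) (nat_lit 0) (XT.nd (nat_lit 468) (nat_lit 380) (nat_lit 0) (XT.nd (nat_lit 234) (nat_lit 228) (nat_lit 0) (XT.nd (nat_lit 78) (nat_lit 76) (nat_lit 0) (XT.lf (nat_lit 0) (nat_lit 86271758293) (nat_lit 152) (nat_lit 94508656310) (nat_lit 228) (nat_lit 152043933845) (nat_lit 32) (nat_lit 5) (nat_lit 34) (nat_lit 5) (nat_lit 35) (nat_lit 5) (nat_lit 409) (nat_lit 361) (nat_lit 130)) (XT.nd (nat_lit 78) (nat_lit 76) (nat_lit 0) (XT.lf (nat_lit 0) (nat_lit 256729887614) (nat_lit 228)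 (nat_lit 86356130047) (nat_lit 76) (nat_lit 1534790864) (nat_lit 32) (nat_lit 5) (nat_lit 35) (nat_lit 5) (nat_lit 33) (nat_lit 4) (nat_lit 410) (nat_lit 361) (nat_lit 129)) (XT.lf (nat_lit 0) (nat_lit 82955730283) (nat_lit 76) (nat_lit 256365481426) (nat_lit 152) (nat_lit 17543661074) (nat_lit 31) (nat_lit 5) (nat_lit 32) (nat_lit 5) (nat_lit 33) (nat_lit 4) (nat_lit 411) (nat_lit 361) (nat_lit 128)))) (XT.nd (nat_lit 78) (nat_lit 152) (nat_lit 0) (XT.lf (nat_lit 0) (nat_lit 56004681514) (nat_lit 152) (nat_lit 106820248422) (nat_lit 76) (nat_lit 206777926845) (nat_lit 30) (nat_lit 5) (nat_lit 32) (nat_lit 5) (nat_lit 31) (nat_lit 5) (nat_lit 412) (nat_lit 361) (nat_lit 127)) (XT.nd (nat_lit 78) (nat_lit 0) (nat_lit 0) (XT.lf (nat_lit 0) (nat_lit 70594769918) (nat_lit 152) (nat_lit 63148161259) (nat_lit 228) (nat_lit 249165325192) (nat_lit 28) (nat_lit 5) (nat_lit 30) (nat_lit 5) (nat_lit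 31) (nat_lit 5) (nat_lit 413) (nat_lit 361) (nat_lit 126)) (XT.lf (nat_lit 0) (nat_lit 217854818942) (nat_lit 228) (nat_lit 136877352527) (nat_lit 76) (nat_lit 42022418227) (nat_lit 28) (nat_lit 5) (nat_lit 31) (nat_lit 5) (nat_lit 29) (nat_lit 4) (nat_lit 414) (nat_lit 361) (nat_lit 125))))) (XT.nd (nat_lit 234) (nat_lit 76) (nat_lit 0) (XT.nd (nat_lit 78) (nat_lit 228) (nat_lit 0) (XT.lf (nat_lit 0) (nat_lit 47825915554) (nat_lit 76) (nat_lit 260128193876) (nat_lit 152) (nat_lit 103250039881) (nat_lit 27) (nat_lit 5) (nat_lit 28) (nat_lit 5) (nat_lit 29) (nat_lit 4) (nat_lit 415) (nat_lit 361) (nat_lit 124)) (XT.nd (nat_lit 78) (nat_lit 228) (nat_lit 0) (XT.lf (nat_lit 0) (nat_lit 246516237866) (nat_lit 76) (nat_lit 158360108891) (nat_lit 152) (nat_lit 21383941069) (nat_lit 27) (nat_lit 5) (nat_lit 28) (nat_lit 5) (nat_lit 29) (nat_lit 4) (nat_lit 416) (nat_lit 361) (nat_lit 123)) (XT.lf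 (nat_lit 0) (nat_lit 12462335220) (nat_lit 152) (nat_lit 50240782699) (nat_lit 228) (nat_lit 379305981518) (nat_lit 24) (nat_lit 5) (nat_lit 26) (nat_lit 5) (nat_lit 27) (nat_lit 5) (nat_lit 417) (nat_lit 361) (nat_lit 122)))) (XT.nd (nat_lit 78) (nat_lit 76) (nat_lit 0) (XT.lf (nat_lit 0) (nat_lit 154357794859) (nat_lit 228) (nat_lit 239262486500) (nat_lit 76) (nat_lit 64703447196) (nat_lit 24) (nat_lit 5) (nat_lit 27) (nat_lit 5) (nat_lit 25) (nat_lit 4) (nat_lit 418) (nat_lit 361) (nat_lit 121)) (XT.nd (nat_lit 78) (nat_lit 76) (nat_lit 0) (XT.lf (nat_lit 0) (nat_lit 251418731828) (nat_lit 228) (nat_lit 40287783078) (nat_lit 76) (nat_lit 183706397944) (nat_lit 24) (nat_lit 5) (nat_lit 27) (nat_lit 5) (nat_lit 25) (nat_lit 4) (nat_lit 419) (nat_lit 361) (nat_lit 120)) (XT.lf (nat_lit 0) (nat_lit 174211345793) (nat_lit 76) (nat_lit 181841208418) (nat_lit 152) (nat_lit 137168010248) (nat_lit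 23) (nat_lit 5) (nat_lit 24) (nat_lit 5) (nat_lit 25) (nat_lit 4) (nat_lit 420) (nat_lit 361) (nat_lit 119)))))) (XT.nd (nat_lit 42588) (nat_lit 0) (nat_lit 6156) (XT.nd (nat_lit 42354) (nat_lit 0) (nat_lit 6004) (XT.nd (nat_lit 78) (nat_lit 152) (nat_lit 0) (XT.lf (nat_lit 0) (nat_lit 400833973803) (nat_lit 76) (nat_lit 65766300002) (nat_lit 152) (nat_lit 45284214567) (nat_lit 23) (nat_lit 5) (nat_lit 24) (nat_lit 5) (nat_lit 25) (nat_lit 4) (nat_lit 421) (nat_lit 361) (nat_lit 118)) (XT.nd (nat_lit 42198) (nat_lit 0) (nat_lit 6004) (XT.lf (nat_lit 0) (nat_lit 52190350568) (nat_lit 152) (nat_lit 422244805397) (nat_lit 76) (nat_lit 56874733624) (nat_lit 21) (nat_lit 5) (nat_lit 23) (nat_lit 5) (nat_lit 22) (nat_lit 4) (nat_lit 422) (nat_lit 361) (nat_lit 117)) (XT.lf (nat_lit 0) (nat_lit 4518832266) (nat_lit 836) (nat_lit 18723369756) (nat_lit 836) (nat_lit 18723369756) (nat_lit 100) (nat_lit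 3) (nat_lit 111) (nat_lit 3) (nat_lit 111) (nat_lit 5) (nat_lit 362) (nat_lit 362) (nat_lit 176)))) (XT.nd (nat_lit 78) (nat_lit 0) (nat_lit 76) (XT.lf (nat_lit 76) (nat_lit 2335795507) (nat_lit 0) (nat_lit 6973260605) (nat_lit 836) (nat_lit 76718084056) (nat_lit 101) (nat_lit 5) (nat_lit 100) (nat_lit 3) (nat_lit 111) (nat_lit 5) (nat_lit 363) (nat_lit 362) (nat_lit 175)) (XT.nd (nat_lit 78) (nat_lit 0) (nat_lit 0) (XT.lf (nat_lit 0) (nat_lit 10776868186) (nat_lit 760) (nat_lit 43338297965) (nat_lit 836) (nat_lit 34053628519) (nat_lit 101) (nat_lit 5) (nat_lit 111) (nat_lit 5) (nat_lit 112) (nat_lit 5) (nat_lit 364) (nat_lit 362) (nat_lit 174)) (XT.lf (nat_lit 0) (nat_lit 12431838389) (nat_lit 760) (nat_lit 1082244122) (nat_lit 836) (nat_lit 76897761586) (nat_lit 101) (nat_lit 5) (nat_lit 111) (nat_lit 5) (nat_lit 112) (nat_lit 5) (nat_lit 365) (nat_lit 362) (nat_lit 173))))) (XT.nd (nat_lit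 234) (nat_lit 0) (nat_lit 76) (XT.nd (nat_lit 78) (nat_lit 0) (nat_lit 0) (XT.lf (nat_lit 0) (nat_lit 15333248528) (nat_lit 760) (nat_lit 48480672601) (nat_lit 836) (nat_lit 28894940846) (nat_lit 102) (nat_lit 5) (nat_lit 112) (nat_lit 5) (nat_lit 113) (nat_lit 5) (nat_lit 366) (nat_lit 362) (nat_lit 172)) (XT.nd (nat_lit 78) (nat_lit 0) (nat_lit 76) (XT.lf (nat_lit 0) (nat_lit 18619401250) (nat_lit 760) (nat_lit 3500276853) (nat_lit 836) (nat_lit 72989069567) (nat_lit 102) (nat_lit 5) (nat_lit 112) (nat_lit 5) (nat_lit 113) (nat_lit 5) (nat_lit 367) (nat_lit 362) (nat_lit 171)) (XT.lf (nat_lit 0) (nat_lit 23124416597) (nat_lit 760) (nat_lit 52768423913) (nat_lit 836) (nat_lit 21683059886) (nat_lit 103) (nat_lit 5) (nat_lit 113) (nat_lit 5) (nat_lit 114) (nat_lit 5) (nat_lit 368) (nat_lit 362) (nat_lit 170)))) (XT.nd (nat_lit 78) (nat_lit 0) (nat_lit 76) (XT.lf (nat_lit 0) (nat_lit 28277095672)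 (nat_lit 760) (nat_lit 4875238736) (nat_lit 836) (nat_lit 66992956179) (nat_lit 103) (nat_lit 5) (nat_lit 113) (nat_lit 5) (nat_lit 114) (nat_lit 5) (nat_lit 369) (nat_lit 362) (nat_lit 169)) (XT.nd (nat_lit 78) (nat_lit 0) (nat_lit 0) (XT.lf (nat_lit 0) (nat_lit 34614503491) (nat_lit 760) (nat_lit 56087806590) (nat_lit 836) (nat_lit 12094485921) (nat_lit 104) (nat_lit 5) (nat_lit 114) (nat_lit 5) (nat_lit 115) (nat_lit 5) (nat_lit 370) (nat_lit 362) (nat_lit 168)) (XT.lf (nat_lit 0) (nat_lit 41895764122) (nat_lit 760) (nat_lit 5080239622) (nat_lit 836) (nat_lit 58573524253) (nat_lit 104) (nat_lit 5) (nat_lit 114) (nat_lit 5) (nat_lit 115) (nat_lit 5) (nat_lit 371) (nat_lit 362) (nat_lit 167))))))))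
noncomputable def xc232 : XT := (XT.nd (nat_lit 1794) (nat_lit 2052) (nat_lit 0) (XT.nd (nat_lit 858) (nat_lit 1900) (nat_lit 0) (XT.nd (nat_lit 390) (nat_lit 1064) (nat_lit 0) (XT.nd (nat_lit 156) (nat_lit 1064) (nat_lit 0) (XT.nd (nat_lit 78) (nat_lit 0) (nat_lit 76) (XT.lf (nat_lit 76) (nat_lit 50080260104) (nat_lit 0) (nat_lit 242324209) (nat_lit 836) (nat_lit 58078237863) (nat_lit 105) (nat_lit 5) (nat_lit 104) (nat_lit 5) (nat_lit 115) (nat_lit 5) (nat_lit 372) (nat_lit 362) (nat_lit 166)) (XT.lf (nat_lit 0) (nat_lit 60020152948) (nat_lit 760) (nat_lit 3979314839) (nat_lit 76) (nat_lit 47352743298) (nat_lit 105) (nat_lit 5) (nat_lit 115) (nat_lit 5) (nat_lit 106) (nat_lit 5) (nat_lit 373) (nat_lit 362) (nat_lit 165))) (XT.nd (nat_lit 78) (nat_lit 380) (nat_lit 0) (XT.lf (nat_lit 0) (nat_lit 54829585780) (nat_lit 760) (nat_lit 16232666588) (nat_lit 836) (nat_lit 43345934825) (nat_lit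 95) (nat_lit 5) (nat_lit 105) (nat_lit 5) (nat_lit 106) (nat_lit 5) (nat_lit 374) (nat_lit 362) (nat_lit 164)) (XT.nd (nat_lit 78) (nat_lit 380) (nat_lit 0) (XT.lf (nat_lit 0) (nat_lit 83254227193) (nat_lit 836) (nat_lit 1427576712) (nat_lit 76) (nat_lit 32905270034) (nat_lit 95) (nat_lit 5) (nat_lit 106) (nat_lit 5) (nat_lit 96) (nat_lit 5) (nat_lit 375) (nat_lit 362) (nat_lit 163)) (XT.lf (nat_lit 0) (nat_lit 61327427994) (nat_lit 380) (nat_lit 35951640914) (nat_lit 456) (nat_lit 23584673046) (nat_lit 90) (nat_lit 5) (nat_lit 95) (nat_lit 5) (nat_lit 96) (nat_lit 5) (nat_lit 376) (nat_lit 362) (nat_lit 162))))) (XT.nd (nat_lit 234) (nat_lit 304) (nat_lit 0) (XT.nd (nat_lit 78) (nat_lit 456) (nat_lit 0) (XT.lf (nat_lit 0) (nat_lit 2818645291) (nat_lit 304) (nat_lit 109492313562) (nat_lit 380) (nat_lit 11977994530) (nat_lit 86) (nat_lit 5) (nat_lit 90) (nat_lit 5) (nat_lit 91) (nat_lit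 5) (nat_lit 377) (nat_lit 362) (nat_lit 161)) (XT.nd (nat_lit 78) (nat_lit 380) (nat_lit 0) (XT.lf (nat_lit 0) (nat_lit 1816186316) (nat_lit 380) (nat_lit 58086195748) (nat_lit 76) (nat_lit 67902187531) (nat_lit 85) (nat_lit 5) (nat_lit 90) (nat_lit 5) (nat_lit 86) (nat_lit 5) (nat_lit 378) (nat_lit 362) (nat_lit 160)) (XT.lf (nat_lit 0) (nat_lit 8543896422) (nat_lit 380) (nat_lit 7486731663) (nat_lit 456) (nat_lit 115448866229) (nat_lit 80) (nat_lit 5) (nat_lit 85) (nat_lit 5) (nat_lit 86) (nat_lit 5) (nat_lit 379) (nat_lit 362) (nat_lit 159)))) (XT.nd (nat_lit 78) (nat_lit 304) (nat_lit 0) (XT.lf (nat_lit 0) (nat_lit 32697726354) (nat_lit 456) (nat_lit 55525707858) (nat_lit 76) (nat_lit 47027634602) (nat_lit 80) (nat_lit 5) (nat_lit 86) (nat_lit 5) (nat_lit 81) (nat_lit 5) (nat_lit 380) (nat_lit 362) (nat_lit 158)) (XT.nd (nat_lit 78) (nat_lit 0) (nat_lit 0) (XT.lf (nat_lit 0) (nat_lit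 15631946502) (nat_lit 304) (nat_lit 34932744796) (nat_lit 380) (nat_lit 88628205405) (nat_lit 76) (nat_lit 5) (nat_lit 80) (nat_lit 5) (nat_lit 81) (nat_lit 5) (nat_lit 381) (nat_lit 362) (nat_lit 157)) (XT.lf (nat_lit 0) (nat_lit 70608722492) (nat_lit 380) (nat_lit 51353547802) (nat_lit 76) (nat_lit 21305360032) (nat_lit 76) (nat_lit 5) (nat_lit 81) (nat_lit 5) (nat_lit 77) (nat_lit 5) (nat_lit 382) (nat_lit 362) (nat_lit 156)))))) (XT.nd (nat_lit 468) (nat_lit 988) (nat_lit 0) (XT.nd (nat_lit 234) (nat_lit 380) (nat_lit 0) (XT.nd (nat_lit 78) (nat_lit 228) (nat_lit 0) (XT.lf (nat_lit 0) (nat_lit 24681199909) (nat_lit 304) (nat_lit 67931506751) (nat_lit 380) (nat_lit 54885506629) (nat_lit 72) (nat_lit 5) (nat_lit 76) (nat_lit 5) (nat_lit 77) (nat_lit 5) (nat_lit 383) (nat_lit 362) (nat_lit 155)) (XT.nd (nat_lit 78) (nat_lit 228) (nat_lit 0) (XT.lf (nat_lit 0) (nat_lit 106300259823) (nat_lit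 304) (nat_lit 10286075754) (nat_lit 380) (nat_lit 35310517763) (nat_lit 72) (nat_lit 5) (nat_lit 76) (nat_lit 5) (nat_lit 77) (nat_lit 5) (nat_lit 384) (nat_lit 362) (nat_lit 154)) (XT.lf (nat_lit 0) (nat_lit 35847476548) (nat_lit 228) (nat_lit 107255021119) (nat_lit 304) (nat_lit 13345735349) (nat_lit 69) (nat_lit 5) (nat_lit 72) (nat_lit 5) (nat_lit 73) (nat_lit 5) (nat_lit 385) (nat_lit 362) (nat_lit 153)))) (XT.nd (nat_lit 78) (nat_lit 304) (nat_lit 0) (XT.lf (nat_lit 0) (nat_lit 10359518289) (nat_lit 304) (nat_lit 38575112557) (nat_lit 76) (nat_lit 112237303017) (nat_lit 68) (nat_lit 5) (nat_lit 72) (nat_lit 5) (nat_lit 69) (nat_lit 5) (nat_lit 386) (nat_lit 362) (nat_lit 152)) (XT.nd (nat_lit 78) (nat_lit 0) (nat_lit 0) (XT.lf (nat_lit 0) (nat_lit 35772901487) (nat_lit 380) (nat_lit 117393111490) (nat_lit 76) (nat_lit 12906299271) (nat_lit 64) (nat_lit 5) (nat_lit 69) (nat_lit 5)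 (nat_lit 65) (nat_lit 5) (nat_lit 387) (nat_lit 362) (nat_lit 151)) (XT.lf (nat_lit 0) (nat_lit 63922937725) (nat_lit 380) (nat_lit 30362786779) (nat_lit 76) (nat_lit 76858686026) (nat_lit 64) (nat_lit 5) (nat_lit 69) (nat_lit 5) (nat_lit 65) (nat_lit 5) (nat_lit 388) (nat_lit 362) (nat_lit 150))))) (XT.nd (nat_lit 234) (nat_lit 532) (nat_lit 0) (XT.nd (nat_lit 78) (nat_lit 228) (nat_lit 0) (XT.lf (nat_lit 0) (nat_lit 63036328959) (nat_lit 228) (nat_lit 31428110072) (nat_lit 304) (nat_lit 81956476695) (nat_lit 61) (nat_lit 5) (nat_lit 64) (nat_lit 5) (nat_lit 65) (nat_lit 5) (nat_lit 389) (nat_lit 362) (nat_lit 149)) (XT.nd (nat_lit 78) (nat_lit 228) (nat_lit 0) (XT.lf (nat_lit 0) (nat_lit 127595219434) (nat_lit 304) (nat_lit 20324495477) (nat_lit 76) (nat_lit 33988421222) (nat_lit 61) (nat_lit 5) (nat_lit 65) (nat_lit 5) (nat_lit 62) (nat_lit 5) (nat_lit 390) (nat_lit 362) (nat_lit 148))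 (XT.lf (nat_lit 0) (nat_lit 79414885231) (nat_lit 228) (nat_lit 84722561347) (nat_lit 304) (nat_lit 23444525745) (nat_lit 58) (nat_lit 5) (nat_lit 61) (nat_lit 5) (nat_lit 62) (nat_lit 5) (nat_lit 391) (nat_lit 362) (nat_lit 147)))) (XT.nd (nat_lit 78) (nat_lit 456) (nat_lit 0) (XT.lf (nat_lit 0) (nat_lit 9029929285) (nat_lit 304) (nat_lit 8821356323) (nat_lit 76) (nat_lit 175663731944) (nat_lit 57) (nat_lit 5) (nat_lit 61) (nat_lit 5) (nat_lit 58) (nat_lit 5) (nat_lit 392) (nat_lit 362) (nat_lit 146)) (XT.nd (nat_lit 78) (nat_lit 228) (nat_lit 0) (XT.lf (nat_lit 0) (nat_lit 44723005695) (nat_lit 304) (nat_lit 102246064950) (nat_lit 76) (nat_lit 52637288280) (nat_lit 54) (nat_lit 5) (nat_lit 58) (nat_lit 5) (nat_lit 55) (nat_lit 5) (nat_lit 393) (nat_lit 362) (nat_lit 145)) (XT.lf (nat_lit 0) (nat_lit 2961928498) (nat_lit 228) (nat_lit 79729357081) (nat_lit 304) (nat_lit 123286454426) (nat_lit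 51) (nat_lit 5) (nat_lit 54) (nat_lit 5) (nat_lit 55) (nat_lit 5) (nat_lit 394) (nat_lit 362) (nat_lit 144))))))) (XT.nd (nat_lit 936) (nat_lit 912) (nat_lit 0) (XT.nd (nat_lit 468) (nat_lit 532) (nat_lit 0) (XT.nd (nat_lit 234) (nat_lit 456) (nat_lit 0) (XT.nd (nat_lit 78) (nat_lit 152) (nat_lit 0) (XT.lf (nat_lit 0) (nat_lit 116979813099) (nat_lit 228) (nat_lit 7309576109) (nat_lit 304) (nat_lit 88291730558) (nat_lit 51) (nat_lit 5) (nat_lit 54) (nat_lit 5) (nat_lit 55) (nat_lit 5) (nat_lit 395) (nat_lit 362) (nat_lit 143)) (XT.nd (nat_lit 78) (nat_lit 0) (nat_lit 0) (XT.lf (nat_lit 0) (nat_lit 16643269556) (nat_lit 152) (nat_lit 152656893437) (nat_lit 228) (nat_lit 50147867384) (nat_lit 49) (nat_lit 5) (nat_lit 51) (nat_lit 5) (nat_lit 52) (nat_lit 5) (nat_lit 396) (nat_lit 362) (nat_lit 142)) (XT.lf (nat_lit 0) (nat_lit 137695093137) (nat_lit 152) (nat_lit 80603167590) (nat_lit 228)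 (nat_lit 8273186633) (nat_lit 49) (nat_lit 5) (nat_lit 51) (nat_lit 5) (nat_lit 52) (nat_lit 5) (nat_lit 397) (nat_lit 362) (nat_lit 141)))) (XT.nd (nat_lit 78) (nat_lit 152) (nat_lit 0) (XT.lf (nat_lit 0) (nat_lit 31189173335) (nat_lit 228) (nat_lit 3850374687) (nat_lit 304) (nat_lit 198959282634) (nat_lit 45) (nat_lit 5) (nat_lit 48) (nat_lit 5) (nat_lit 49) (nat_lit 5) (nat_lit 398) (nat_lit 362) (nat_lit 140)) (XT.nd (nat_lit 78) (nat_lit 152) (nat_lit 0) (XT.lf (nat_lit 0) (nat_lit 82967694572) (nat_lit 304) (nat_lit 82737437293) (nat_lit 76) (nat_lit 75949279617) (nat_lit 45) (nat_lit 5) (nat_lit 49) (nat_lit 5) (nat_lit 46) (nat_lit 5) (nat_lit 399) (nat_lit 362) (nat_lit 139)) (XT.lf (nat_lit 0) (nat_lit 44705905010) (nat_lit 152) (nat_lit 89347298545) (nat_lit 228) (nat_lit 115601520125) (nat_lit 43) (nat_lit 5) (nat_lit 45) (nat_lit 5) (nat_lit 46) (nat_lit 5) (nat_lit 400) (nat_lit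 362) (nat_lit 138))))) (XT.nd (nat_lit 234) (nat_lit 304) (nat_lit 0) (XT.nd (nat_lit 78) (nat_lit 228) (nat_lit 0) (XT.lf (nat_lit 0) (nat_lit 181393639246) (nat_lit 152) (nat_lit 7700400550) (nat_lit 228) (nat_lit 68890959183) (nat_lit 43) (nat_lit 5) (nat_lit 45) (nat_lit 5) (nat_lit 46) (nat_lit 5) (nat_lit 401) (nat_lit 362) (nat_lit 137)) (XT.nd (nat_lit 78) (nat_lit 76) (nat_lit 0) (XT.lf (nat_lit 0) (nat_lit 58849032899) (nat_lit 152) (nat_lit 190174791174) (nat_lit 228) (nat_lit 17601118739) (nat_lit 41) (nat_lit 5) (nat_lit 43) (nat_lit 5) (nat_lit 44) (nat_lit 5) (nat_lit 402) (nat_lit 362) (nat_lit 136)) (XT.lf (nat_lit 0) (nat_lit 36537356309) (nat_lit 228) (nat_lit 72625246450) (nat_lit 76) (nat_lit 166433756843) (nat_lit 40) (nat_lit 5) (nat_lit 43) (nat_lit 5) (nat_lit 41) (nat_lit 5) (nat_lit 403) (nat_lit 362) (nat_lit 135)))) (XT.nd (nat_lit 78) (nat_lit 152) (nat_lit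 0) (XT.lf (nat_lit 0) (nat_lit 71275449664) (nat_lit 152) (nat_lit 22628468519) (nat_lit 228) (nat_lit 191042368165) (nat_lit 38) (nat_lit 5) (nat_lit 40) (nat_lit 5) (nat_lit 41) (nat_lit 5) (nat_lit 404) (nat_lit 362) (nat_lit 134)) (XT.nd (nat_lit 78) (nat_lit 152) (nat_lit 0) (XT.lf (nat_lit 0) (nat_lit 156454081688) (nat_lit 228) (nat_lit 70895327555) (nat_lit 76) (nat_lit 67298536575) (nat_lit 38) (nat_lit 5) (nat_lit 41) (nat_lit 5) (nat_lit 39) (nat_lit 5) (nat_lit 405) (nat_lit 362) (nat_lit 133)) (XT.lf (nat_lit 0) (nat_lit 81248241185) (nat_lit 152) (nat_lit 142522857980) (nat_lit 228) (nat_lit 80981621870) (nat_lit 36) (nat_lit 5) (nat_lit 38) (nat_lit 5) (nat_lit 39) (nat_lit 5) (nat_lit 406) (nat_lit 362) (nat_lit 132)))))) (XT.nd (nat_lit 468) (nat_lit 532) (nat_lit 0) (XT.nd (nat_lit 234) (nat_lit 228) (nat_lit 0) (XT.nd (nat_lit 78) (nat_lit 152) (nat_lit 0) (XT.lf (nat_lit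 0) (nat_lit 243460108946) (nat_lit 152) (nat_lit 52194382571) (nat_lit 228) (nat_lit 19648217353) (nat_lit 36) (nat_lit 5) (nat_lit 38) (nat_lit 5) (nat_lit 39) (nat_lit 5) (nat_lit 407) (nat_lit 362) (nat_lit 131)) (XT.nd (nat_lit 78) (nat_lit 0) (nat_lit 0) (XT.lf (nat_lit 0) (nat_lit 45418115039) (nat_lit 152) (nat_lit 237405335961) (nat_lit 76) (nat_lit 43416880226) (nat_lit 34) (nat_lit 5) (nat_lit 36) (nat_lit 5) (nat_lit 35) (nat_lit 5) (nat_lit 408) (nat_lit 362) (nat_lit 130)) (XT.lf (nat_lit 0) (nat_lit 115169618187) (nat_lit 152) (nat_lit 78821211161) (nat_lit 76) (nat_lit 143613292152) (nat_lit 34) (nat_lit 5) (nat_lit 36) (nat_lit 5) (nat_lit 35) (nat_lit 5) (nat_lit 409) (nat_lit 362) (nat_lit 129)))) (XT.nd (nat_lit 78) (nat_lit 76) (nat_lit 0) (XT.lf (nat_lit 0) (nat_lit 90591419911) (nat_lit 152) (nat_lit 99231550667) (nat_lit 228) (nat_lit 159642417054) (nat_lit 32) (nat_lit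 5) (nat_lit 34) (nat_lit 5) (nat_lit 35) (nat_lit 5) (nat_lit 410) (nat_lit 362) (nat_lit 128)) (XT.nd (nat_lit 78) (nat_lit 76) (nat_lit 0) (XT.lf (nat_lit 0) (nat_lit 269569786640) (nat_lit 228) (nat_lit 90668020064) (nat_lit 76) (nat_lit 1613870609) (nat_lit 32) (nat_lit 5) (nat_lit 35) (nat_lit 5) (nat_lit 33) (nat_lit 4) (nat_lit 411) (nat_lit 362) (nat_lit 127)) (XT.lf (nat_lit 0) (nat_lit 87109337855) (nat_lit 76) (nat_lit 269181267842) (nat_lit 152) (nat_lit 18417342716) (nat_lit 31) (nat_lit 5) (nat_lit 32) (nat_lit 5) (nat_lit 33) (nat_lit 4) (nat_lit 412) (nat_lit 362) (nat_lit 126))))) (XT.nd (nat_lit 234) (nat_lit 304) (nat_lit 0) (XT.nd (nat_lit 78) (nat_lit 152) (nat_lit 0) (XT.lf (nat_lit 0) (nat_lit 58808143536) (nat_lit 152) (nat_lit 112155609033) (nat_lit 76) (nat_lit 217119084438) (nat_lit 30) (nat_lit 5) (nat_lit 32) (nat_lit 5) (nat_lit 31) (nat_lit 5) (nat_lit 413)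 (nat_lit 362) (nat_lit 125)) (XT.nd (nat_lit 78) (nat_lit 0) (nat_lit 0) (XT.lf (nat_lit 0) (nat_lit 74130069066) (nat_lit 152) (nat_lit 66303169723) (nat_lit 228) (nat_lit 261620271189) (nat_lit 28) (nat_lit 5) (nat_lit 30) (nat_lit 5) (nat_lit 31) (nat_lit 5) (nat_lit 414) (nat_lit 362) (nat_lit 124)) (XT.lf (nat_lit 0) (nat_lit 228750606096) (nat_lit 228) (nat_lit 143715808347) (nat_lit 76) (nat_lit 44125751326) (nat_lit 28) (nat_lit 5) (nat_lit 31) (nat_lit 5) (nat_lit 29) (nat_lit 4) (nat_lit 415) (nat_lit 362) (nat_lit 123)))) (XT.nd (nat_lit 78) (nat_lit 228) (nat_lit 0) (XT.lf (nat_lit 0) (nat_lit 50222535851) (nat_lit 76) (nat_lit 273132263331) (nat_lit 152) (nat_lit 108409407331) (nat_lit 27) (nat_lit 5) (nat_lit 28) (nat_lit 5) (nat_lit 29) (nat_lit 4) (nat_lit 416) (nat_lit 362) (nat_lit 122)) (XT.nd (nat_lit 78) (nat_lit 228) (nat_lit 0) (XT.lf (nat_lit 0) (nat_lit 258847120730)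 (nat_lit 76) (nat_lit 166275885537) (nat_lit 152) (nat_lit 22450152843) (nat_lit 27) (nat_lit 5) (nat_lit 28) (nat_lit 5) (nat_lit 29) (nat_lit 4) (nat_lit 417) (nat_lit 362) (nat_lit 121)) (XT.lf (nat_lit 0) (nat_lit 13090536104) (nat_lit 152) (nat_lit 52750569213) (nat_lit 228) (nat_lit 398268306609) (nat_lit 24) (nat_lit 5) (nat_lit 26) (nat_lit 5) (nat_lit 27) (nat_lit 5) (nat_lit 418) (nat_lit 362) (nat_lit 120))))))))
noncomputable def xc233 : XT := (XT.nd (nat_lit 44070) (nat_lit 0) (nat_lit 1140) (XT.nd (nat_lit 43134) (nat_lit 0) (nat_lit 4028) (XT.nd (nat_lit 42666) (nat_lit 0) (nat_lit 5928) (XT.nd (nat_lit 156) (nat_lit 76) (nat_lit 0) (XT.nd (nat_lit 78) (nat_lit 0) (nat_lit 0) (XT.lf (nat_lit 0) (nat_lit 162078414766) (nat_lit 228) (nat_lit 251220666600) (nat_lit 76) (nat_lit 67940696245) (nat_lit 24) (nat_lit 5) (nat_lit 27) (nat_lit 5) (nat_lit 25) (nat_lit 4) (nat_lit 419)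 (nat_lit 362) (nat_lit 119)) (XT.lf (nat_lit 0) (nat_lit 263992268576) (nat_lit 228) (nat_lit 42297463447) (nat_lit 76) (nat_lit 192893695639) (nat_lit 24) (nat_lit 5) (nat_lit 27) (nat_lit 5) (nat_lit 25) (nat_lit 4) (nat_lit 420) (nat_lit 362) (nat_lit 118))) (XT.nd (nat_lit 42354) (nat_lit 0) (nat_lit 5852) (XT.lf (nat_lit 0) (nat_lit 182926545920) (nat_lit 76) (nat_lit 190931184673) (nat_lit 152) (nat_lit 144023733873) (nat_lit 23) (nat_lit 5) (nat_lit 24) (nat_lit 5) (nat_lit 25) (nat_lit 4) (nat_lit 421) (nat_lit 362) (nat_lit 117)) (XT.nd (nat_lit 78) (nat_lit 0) (nat_lit 0) (XT.lf (nat_lit 0) (nat_lit 4753615303) (nat_lit 836) (nat_lit 19654891830) (nat_lit 836) (nat_lit 19654891830) (nat_lit 100) (nat_lit 3) (nat_lit 111) (nat_lit 3) (nat_lit 111) (nat_lit 5) (nat_lit 363) (nat_lit 363) (nat_lit 174)) (XT.lf (nat_lit 76) (nat_lit 2461728226) (nat_lit 0) (nat_lit 7329764246) (nat_lit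 836) (nat_lit 80536137750) (nat_lit 101) (nat_lit 5) (nat_lit 100) (nat_lit 3) (nat_lit 111) (nat_lit 5) (nat_lit 364) (nat_lit 363) (nat_lit 173))))) (XT.nd (nat_lit 234) (nat_lit 0) (nat_lit 76) (XT.nd (nat_lit 78) (nat_lit 0) (nat_lit 0) (XT.lf (nat_lit 0) (nat_lit 11331769824) (nat_lit 760) (nat_lit 45495563042) (nat_lit 836) (nat_lit 35749081695) (nat_lit 101) (nat_lit 5) (nat_lit 111) (nat_lit 5) (nat_lit 112) (nat_lit 5) (nat_lit 365) (nat_lit 363) (nat_lit 172)) (XT.nd (nat_lit 78) (nat_lit 0) (nat_lit 76) (XT.lf (nat_lit 0) (nat_lit 13068723860) (nat_lit 760) (nat_lit 1127166021) (nat_lit 836) (nat_lit 80735765619) (nat_lit 101) (nat_lit 5) (nat_lit 111) (nat_lit 5) (nat_lit 112) (nat_lit 5) (nat_lit 366) (nat_lit 363) (nat_lit 171)) (XT.lf (nat_lit 0) (nat_lit 16114528977) (nat_lit 760) (nat_lit 50894825039) (nat_lit 836) (nat_lit 30334204801) (nat_lit 102) (nat_lit 5) (nat_lit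 112) (nat_lit 5) (nat_lit 113) (nat_lit 5) (nat_lit 367) (nat_lit 363) (nat_lit 170)))) (XT.nd (nat_lit 78) (nat_lit 0) (nat_lit 76) (XT.lf (nat_lit 0) (nat_lit 19564293238) (nat_lit 760) (nat_lit 3665880036) (nat_lit 836) (nat_lit 76633301057) (nat_lit 102) (nat_lit 5) (nat_lit 112) (nat_lit 5) (nat_lit 113) (nat_lit 5) (nat_lit 368) (nat_lit 363) (nat_lit 169)) (XT.nd (nat_lit 78) (nat_lit 0) (nat_lit 0) (XT.lf (nat_lit 0) (nat_lit 24293976251) (nat_lit 760) (nat_lit 55396837418) (nat_lit 836) (nat_lit 22763200876) (nat_lit 103) (nat_lit 5) (nat_lit 113) (nat_lit 5) (nat_lit 114) (nat_lit 5) (nat_lit 369) (nat_lit 363) (nat_lit 168)) (XT.lf (nat_lit 0) (nat_lit 29703654097) (nat_lit 760) (nat_lit 5109469540) (nat_lit 836) (nat_lit 70338783032) (nat_lit 103) (nat_lit 5) (nat_lit 113) (nat_lit 5) (nat_lit 114) (nat_lit 5) (nat_lit 370) (nat_lit 363) (nat_lit 167)))))) (XT.nd (nat_lit 468)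 (nat_lit 1444) (nat_lit 0) (XT.nd (nat_lit 234) (nat_lit 684) (nat_lit 0) (XT.nd (nat_lit 78) (nat_lit 0) (nat_lit 0) (XT.lf (nat_lit 0) (nat_lit 36357429006) (nat_lit 760) (nat_lit 58882149851) (nat_lit 836) (nat_lit 12696434293) (nat_lit 104) (nat_lit 5) (nat_lit 114) (nat_lit 5) (nat_lit 115) (nat_lit 5) (nat_lit 371) (nat_lit 363) (nat_lit 166)) (XT.nd (nat_lit 78) (nat_lit 0) (nat_lit 0) (XT.lf (nat_lit 0) (nat_lit 44002171701) (nat_lit 760) (nat_lit 5324682967) (nat_lit 836) (nat_lit 61499556728) (nat_lit 104) (nat_lit 5) (nat_lit 114) (nat_lit 5) (nat_lit 115) (nat_lit 5) (nat_lit 372) (nat_lit 363) (nat_lit 165)) (XT.lf (nat_lit 76) (nat_lit 52593687413) (nat_lit 0) (nat_lit 256239169) (nat_lit 836) (nat_lit 60970364591) (nat_lit 105) (nat_lit 5) (nat_lit 104) (nat_lit 5) (nat_lit 115) (nat_lit 5) (nat_lit 373) (nat_lit 363) (nat_lit 164)))) (XT.nd (nat_lit 78) (nat_lit 760) (nat_lit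 0) (XT.lf (nat_lit 0) (nat_lit 63031812947) (nat_lit 760) (nat_lit 4168742963) (nat_lit 76) (nat_lit 49718722198) (nat_lit 105) (nat_lit 5) (nat_lit 115) (nat_lit 5) (nat_lit 106) (nat_lit 5) (nat_lit 374) (nat_lit 363) (nat_lit 163)) (XT.nd (nat_lit 78) (nat_lit 0) (nat_lit 0) (XT.lf (nat_lit 0) (nat_lit 57580448854) (nat_lit 760) (nat_lit 17045207736) (nat_lit 836) (nat_lit 45502414988) (nat_lit 95) (nat_lit 5) (nat_lit 105) (nat_lit 5) (nat_lit 106) (nat_lit 5) (nat_lit 375) (nat_lit 363) (nat_lit 162)) (XT.lf (nat_lit 0) (nat_lit 87426726581) (nat_lit 836) (nat_lit 1489505135) (nat_lit 76) (nat_lit 34549696619) (nat_lit 95) (nat_lit 5) (nat_lit 106) (nat_lit 5) (nat_lit 96) (nat_lit 5) (nat_lit 376) (nat_lit 363) (nat_lit 161))))) (XT.nd (nat_lit 234) (nat_lit 684) (nat_lit 0) (XT.nd (nat_lit 78) (nat_lit 380) (nat_lit 0) (XT.lf (nat_lit 0) (nat_lit 64403097381) (nat_lit 380) (nat_lit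 37749392072) (nat_lit 456) (nat_lit 24753956815) (nat_lit 90) (nat_lit 5) (nat_lit 95) (nat_lit 5) (nat_lit 96) (nat_lit 5) (nat_lit 377) (nat_lit 363) (nat_lit 160)) (XT.nd (nat_lit 78) (nat_lit 76) (nat_lit 0) (XT.lf (nat_lit 0) (nat_lit 2969203169) (nat_lit 304) (nat_lit 114966467681) (nat_lit 380) (nat_lit 12567263021) (nat_lit 86) (nat_lit 5) (nat_lit 90) (nat_lit 5) (nat_lit 91) (nat_lit 5) (nat_lit 378) (nat_lit 363) (nat_lit 159)) (XT.lf (nat_lit 0) (nat_lit 1915874656) (nat_lit 380) (nat_lit 60981036560) (nat_lit 76) (nat_lit 71297434763) (nat_lit 85) (nat_lit 5) (nat_lit 90) (nat_lit 5) (nat_lit 86) (nat_lit 5) (nat_lit 379) (nat_lit 363) (nat_lit 158)))) (XT.nd (nat_lit 78) (nat_lit 304) (nat_lit 0) (XT.lf (nat_lit 0) (nat_lit 8980407493) (nat_lit 380) (nat_lit 7860353663) (nat_lit 456) (nat_lit 121212270035) (nat_lit 80) (nat_lit 5) (nat_lit 85) (nat_lit 5) (nat_lit 86) (nat_lit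 5) (nat_lit 380) (nat_lit 363) (nat_lit 157)) (XT.nd (nat_lit 78) (nat_lit 304) (nat_lit 0) (XT.lf (nat_lit 0) (nat_lit 34340815360) (nat_lit 456) (nat_lit 58292714267) (nat_lit 76) (nat_lit 49379675106) (nat_lit 80) (nat_lit 5) (nat_lit 86) (nat_lit 5) (nat_lit 81) (nat_lit 5) (nat_lit 381) (nat_lit 363) (nat_lit 156)) (XT.lf (nat_lit 0) (nat_lit 16422673150) (nat_lit 304) (nat_lit 36678207332) (nat_lit 380) (nat_lit 93051256291) (nat_lit 76) (nat_lit 5) (nat_lit 80) (nat_lit 5) (nat_lit 81) (nat_lit 5) (nat_lit 382) (nat_lit 363) (nat_lit 155))))))) (XT.nd (nat_lit 936) (nat_lit 1216) (nat_lit 0) (XT.nd (nat_lit 468) (nat_lit 760) (nat_lit 0) (XT.nd (nat_lit 234) (nat_lit 608) (nat_lit 0) (XT.nd (nat_lit 78) (nat_lit 304) (nat_lit 0) (XT.lf (nat_lit 0) (nat_lit 74146751911) (nat_lit 380) (nat_lit 53912162575) (nat_lit 76) (nat_lit 22371710992) (nat_lit 76) (nat_lit 5) (nat_lit 81) (nat_lit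 5) (nat_lit 77) (nat_lit 5) (nat_lit 383) (nat_lit 363) (nat_lit 154)) (XT.nd (nat_lit 78) (nat_lit 0) (nat_lit 0) (XT.lf (nat_lit 0) (nat_lit 25924176351) (nat_lit 304) (nat_lit 71326536562) (nat_lit 380) (nat_lit 57622036114) (nat_lit 72) (nat_lit 5) (nat_lit 76) (nat_lit 5) (nat_lit 77) (nat_lit 5) (nat_lit 384) (nat_lit 363) (nat_lit 153)) (XT.lf (nat_lit 0) (nat_lit 111623764668) (nat_lit 304) (nat_lit 10798907612) (nat_lit 380) (nat_lit 37068666654) (nat_lit 72) (nat_lit 5) (nat_lit 76) (nat_lit 5) (nat_lit 77) (nat_lit 5) (nat_lit 385) (nat_lit 363) (nat_lit 152)))) (XT.nd (nat_lit 78) (nat_lit 380) (nat_lit 0) (XT.lf (nat_lit 0) (nat_lit 37648533968) (nat_lit 228) (nat_lit 112615931686) (nat_lit 304) (nat_lit 14005831070) (nat_lit 69) (nat_lit 5) (nat_lit 72) (nat_lit 5) (nat_lit 73) (nat_lit 5) (nat_lit 386) (nat_lit 363) (nat_lit 151)) (XT.nd (nat_lit 78) (nat_lit 304) (nat_lit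 0) (XT.lf (nat_lit 0) (nat_lit 10884123620) (nat_lit 304) (nat_lit 40495373649) (nat_lit 76) (nat_lit 117850696566) (nat_lit 68) (nat_lit 5) (nat_lit 72) (nat_lit 5) (nat_lit 69) (nat_lit 5) (nat_lit 387) (nat_lit 363) (nat_lit 150)) (XT.lf (nat_lit 0) (nat_lit 37568020649) (nat_lit 380) (nat_lit 123254112199) (nat_lit 76) (nat_lit 13553466309) (nat_lit 64) (nat_lit 5) (nat_lit 69) (nat_lit 5) (nat_lit 65) (nat_lit 5) (nat_lit 388) (nat_lit 363) (nat_lit 149))))) (XT.nd (nat_lit 234) (nat_lit 532) (nat_lit 0) (XT.nd (nat_lit 78) (nat_lit 228) (nat_lit 0) (XT.lf (nat_lit 0) (nat_lit 67125250409) (nat_lit 380) (nat_lit 31872683389) (nat_lit 76) (nat_lit 80703384207) (nat_lit 64) (nat_lit 5) (nat_lit 69) (nat_lit 5) (nat_lit 65) (nat_lit 5) (nat_lit 389) (nat_lit 363) (nat_lit 148)) (XT.nd (nat_lit 78) (nat_lit 0) (nat_lit 0) (XT.lf (nat_lit 0) (nat_lit 66196255189) (nat_lit 228) (nat_lit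 32997404598) (nat_lit 304) (nat_lit 86047997250) (nat_lit 61) (nat_lit 5) (nat_lit 64) (nat_lit 5) (nat_lit 65) (nat_lit 5) (nat_lit 390) (nat_lit 363) (nat_lit 147)) (XT.lf (nat_lit 0) (nat_lit 133980724942) (nat_lit 304) (nat_lit 21332738062) (nat_lit 76) (nat_lit 35689788391) (nat_lit 61) (nat_lit 5) (nat_lit 65) (nat_lit 5) (nat_lit 62) (nat_lit 5) (nat_lit 391) (nat_lit 363) (nat_lit 146)))) (XT.nd (nat_lit 78) (nat_lit 304) (nat_lit 0) (XT.lf (nat_lit 0) (nat_lit 83393482937) (nat_lit 228) (nat_lit 88956429571) (nat_lit 304) (nat_lit 24610874638) (nat_lit 58) (nat_lit 5) (nat_lit 61) (nat_lit 5) (nat_lit 62) (nat_lit 5) (nat_lit 392) (nat_lit 363) (nat_lit 145)) (XT.nd (nat_lit 78) (nat_lit 228) (nat_lit 0) (XT.lf (nat_lit 0) (nat_lit 9486844112) (nat_lit 304) (nat_lit 9254761782) (nat_lit 76) (nat_lit 184448887887) (nat_lit 57) (nat_lit 5) (nat_lit 61) (nat_lit 5) (nat_lit 58) (nat_lit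 5) (nat_lit 393) (nat_lit 363) (nat_lit 144)) (XT.lf (nat_lit 0) (nat_lit 46964469323) (nat_lit 304) (nat_lit 107350597268) (nat_lit 76) (nat_lit 55271341061) (nat_lit 54) (nat_lit 5) (nat_lit 58) (nat_lit 5) (nat_lit 55) (nat_lit 5) (nat_lit 394) (nat_lit 363) (nat_lit 143)))))) (XT.nd (nat_lit 468) (nat_lit 532) (nat_lit 0) (XT.nd (nat_lit 234) (nat_lit 304) (nat_lit 0) (XT.nd (nat_lit 78) (nat_lit 152) (nat_lit 0) (XT.lf (nat_lit 0) (nat_lit 3117670515) (nat_lit 228) (nat_lit 83713359038) (nat_lit 304) (nat_lit 129445335083) (nat_lit 51) (nat_lit 5) (nat_lit 54) (nat_lit 5) (nat_lit 55) (nat_lit 5) (nat_lit 395) (nat_lit 363) (nat_lit 142)) (XT.nd (nat_lit 78) (nat_lit 152) (nat_lit 0) (XT.lf (nat_lit 0) (nat_lit 122836085271) (nat_lit 228) (nat_lit 7672706442) (nat_lit 304) (nat_lit 92701134167) (nat_lit 51) (nat_lit 5) (nat_lit 54) (nat_lit 5) (nat_lit 55) (nat_lit 5) (nat_lit 396)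 (nat_lit 363) (nat_lit 141)) (XT.lf (nat_lit 0) (nat_lit 17482806876) (nat_lit 152) (nat_lit 160287212449) (nat_lit 228) (nat_lit 52650167092) (nat_lit 49) (nat_lit 5) (nat_lit 51) (nat_lit 5) (nat_lit 52) (nat_lit 5) (nat_lit 397) (nat_lit 363) (nat_lit 140)))) (XT.nd (nat_lit 78) (nat_lit 304) (nat_lit 0) (XT.lf (nat_lit 0) (nat_lit 144586870501) (nat_lit 152) (nat_lit 84630920580) (nat_lit 228) (nat_lit 8681994858) (nat_lit 49) (nat_lit 5) (nat_lit 51) (nat_lit 5) (nat_lit 52) (nat_lit 5) (nat_lit 398) (nat_lit 363) (nat_lit 139)) (XT.nd (nat_lit 78) (nat_lit 0) (nat_lit 0) (XT.lf (nat_lit 0) (nat_lit 32755696940) (nat_lit 228) (nat_lit 4040411016) (nat_lit 304) (nat_lit 208902432455) (nat_lit 45) (nat_lit 5) (nat_lit 48) (nat_lit 5) (nat_lit 49) (nat_lit 5) (nat_lit 399) (nat_lit 363) (nat_lit 138)) (XT.lf (nat_lit 0) (nat_lit 87120480529) (nat_lit 304) (nat_lit 86867396815) (nat_lit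 76) (nat_lit 79749032124) (nat_lit 45) (nat_lit 5) (nat_lit 49) (nat_lit 5) (nat_lit 46) (nat_lit 5) (nat_lit 400) (nat_lit 363) (nat_lit 137))))) (XT.nd (nat_lit 234) (nat_lit 228) (nat_lit 0) (XT.nd (nat_lit 78) (nat_lit 152) (nat_lit 0) (XT.lf (nat_lit 0) (nat_lit 46948001113) (nat_lit 152) (nat_lit 93812160447) (nat_lit 228) (nat_lit 121377081008) (nat_lit 43) (nat_lit 5) (nat_lit 45) (nat_lit 5) (nat_lit 46) (nat_lit 5) (nat_lit 401) (nat_lit 363) (nat_lit 136)) (XT.nd (nat_lit 78) (nat_lit 152) (nat_lit 0) (XT.lf (nat_lit 0) (nat_lit 190469798211) (nat_lit 152) (nat_lit 8083036744) (nat_lit 228) (nat_lit 72331207025) (nat_lit 43) (nat_lit 5) (nat_lit 45) (nat_lit 5) (nat_lit 46) (nat_lit 5) (nat_lit 402) (nat_lit 363) (nat_lit 135)) (XT.lf (nat_lit 0) (nat_lit 61798024072) (nat_lit 152) (nat_lit 199681027007) (nat_lit 228) (nat_lit 18476934902) (nat_lit 41) (nat_lit 5) (nat_lit 43)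 (nat_lit 5) (nat_lit 44) (nat_lit 5) (nat_lit 403) (nat_lit 363) (nat_lit 134)))) (XT.nd (nat_lit 78) (nat_lit 152) (nat_lit 0) (XT.lf (nat_lit 0) (nat_lit 38368132767) (nat_lit 228) (nat_lit 76250149434) (nat_lit 76) (nat_lit 174757697970) (nat_lit 40) (nat_lit 5) (nat_lit 43) (nat_lit 5) (nat_lit 41) (nat_lit 5) (nat_lit 404) (nat_lit 363) (nat_lit 133)) (XT.nd (nat_lit 78) (nat_lit 0) (nat_lit 0) (XT.lf (nat_lit 0) (nat_lit 74845478915) (nat_lit 152) (nat_lit 23757455379) (nat_lit 228) (nat_lit 200590473477) (nat_lit 38) (nat_lit 5) (nat_lit 40) (nat_lit 5) (nat_lit 41) (nat_lit 5) (nat_lit 405) (nat_lit 363) (nat_lit 132)) (XT.lf (nat_lit 0) (nat_lit 164280460291) (nat_lit 228) (nat_lit 74433987628) (nat_lit 76) (nat_lit 70665709671) (nat_lit 38) (nat_lit 5) (nat_lit 41) (nat_lit 5) (nat_lit 39) (nat_lit 5) (nat_lit 406) (nat_lit 363) (nat_lit 131))))))))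
noncomputable def xc234 : XT := (XT.nd (nat_lit 44148) (nat_lit 0) (nat_lit 2280) (XT.nd (nat_lit 858) (nat_lit 228) (nat_lit 0) (XT.nd (nat_lit 390) (nat_lit 380) (nat_lit 0) (XT.nd (nat_lit 156) (nat_lit 304) (nat_lit 0) (XT.nd (nat_lit 78) (nat_lit 0) (nat_lit 0) (XT.lf (nat_lit 0) (nat_lit 85316661061) (nat_lit 152) (nat_lit 149646586402) (nat_lit 228) (nat_lit 85026928248) (nat_lit 36) (nat_lit 5) (nat_lit 38) (nat_lit 5) (nat_lit 39) (nat_lit 5) (nat_lit 407) (nat_lit 363) (nat_lit 130)) (XT.lf (nat_lit 0) (nat_lit 255638836124) (nat_lit 152) (nat_lit 54801802197) (nat_lit 228) (nat_lit 20627033254) (nat_lit 36) (nat_lit 5) (nat_lit 38) (nat_lit 5) (nat_lit 39) (nat_lit 5) (nat_lit 408) (nat_lit 363) (nat_lit 129))) (XT.nd (nat_lit 78) (nat_lit 152) (nat_lit 0) (XT.lf (nat_lit 0) (nat_lit 47692461209) (nat_lit 152) (nat_lit 249269723452) (nat_lit 76) (nat_lit 45589989629) (nat_lit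 34) (nat_lit 5) (nat_lit 36) (nat_lit 5) (nat_lit 35) (nat_lit 5) (nat_lit 409) (nat_lit 363) (nat_lit 128)) (XT.nd (nat_lit 78) (nat_lit 152) (nat_lit 0) (XT.lf (nat_lit 0) (nat_lit 120931375685) (nat_lit 152) (nat_lit 82756672379) (nat_lit 76) (nat_lit 150796114276) (nat_lit 34) (nat_lit 5) (nat_lit 36) (nat_lit 5) (nat_lit 35) (nat_lit 5) (nat_lit 410) (nat_lit 363) (nat_lit 127)) (XT.lf (nat_lit 0) (nat_lit 95126499934) (nat_lit 152) (nat_lit 104190825744) (nat_lit 228) (nat_lit 167621169667) (nat_lit 32) (nat_lit 5) (nat_lit 34) (nat_lit 5) (nat_lit 35) (nat_lit 5) (nat_lit 411) (nat_lit 363) (nat_lit 126))))) (XT.nd (nat_lit 234) (nat_lit 228) (nat_lit 0) (XT.nd (nat_lit 78) (nat_lit 152) (nat_lit 0) (XT.lf (nat_lit 0) (nat_lit 283051364085) (nat_lit 228) (nat_lit 95196054641) (nat_lit 76) (nat_lit 1696686771) (nat_lit 32) (nat_lit 5) (nat_lit 35) (nat_lit 5) (nat_lit 33) (nat_lit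 4) (nat_lit 412) (nat_lit 363) (nat_lit 125)) (XT.nd (nat_lit 78) (nat_lit 76) (nat_lit 0) (XT.lf (nat_lit 0) (nat_lit 91470084619) (nat_lit 76) (nat_lit 282638074857) (nat_lit 152) (nat_lit 19335033968) (nat_lit 31) (nat_lit 5) (nat_lit 32) (nat_lit 5) (nat_lit 33) (nat_lit 4) (nat_lit 413) (nat_lit 363) (nat_lit 124)) (XT.lf (nat_lit 0) (nat_lit 61751478556) (nat_lit 152) (nat_lit 117758263126) (nat_lit 76) (nat_lit 227977089681) (nat_lit 30) (nat_lit 5) (nat_lit 32) (nat_lit 5) (nat_lit 31) (nat_lit 5) (nat_lit 414) (nat_lit 363) (nat_lit 123)))) (XT.nd (nat_lit 78) (nat_lit 76) (nat_lit 0) (XT.lf (nat_lit 0) (nat_lit 77841616194) (nat_lit 152) (nat_lit 69616151703) (nat_lit 228) (nat_lit 274698273173) (nat_lit 28) (nat_lit 5) (nat_lit 30) (nat_lit 5) (nat_lit 31) (nat_lit 5) (nat_lit 415) (nat_lit 363) (nat_lit 122)) (XT.nd (nat_lit 78) (nat_lit 76) (nat_lit 0) (XT.lf (nat_lit 0) (nat_lit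 240190899401) (nat_lit 228) (nat_lit 150896690096) (nat_lit 76) (nat_lit 46334045412) (nat_lit 28) (nat_lit 5) (nat_lit 31) (nat_lit 5) (nat_lit 29) (nat_lit 4) (nat_lit 416) (nat_lit 363) (nat_lit 121)) (XT.lf (nat_lit 0) (nat_lit 52738492140) (nat_lit 76) (nat_lit 286786753831) (nat_lit 152) (nat_lit 113827034575) (nat_lit 27) (nat_lit 5) (nat_lit 28) (nat_lit 5) (nat_lit 29) (nat_lit 4) (nat_lit 417) (nat_lit 363) (nat_lit 120)))))) (XT.nd (nat_lit 42822) (nat_lit 0) (nat_lit 5852) (XT.nd (nat_lit 234) (nat_lit 0) (nat_lit 0) (XT.nd (nat_lit 78) (nat_lit 228) (nat_lit 0) (XT.lf (nat_lit 0) (nat_lit 271794076286) (nat_lit 76) (nat_lit 174587658227) (nat_lit 152) (nat_lit 23569952749) (nat_lit 27) (nat_lit 5) (nat_lit 28) (nat_lit 5) (nat_lit 29) (nat_lit 4) (nat_lit 418) (nat_lit 363) (nat_lit 119)) (XT.nd (nat_lit 78) (nat_lit 0) (nat_lit 0) (XT.lf (nat_lit 0) (nat_lit 13749674359) (nat_lit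 152) (nat_lit 55386054480) (nat_lit 228) (nat_lit 418179024448) (nat_lit 24) (nat_lit 5) (nat_lit 26) (nat_lit 5) (nat_lit 27) (nat_lit 5) (nat_lit 419) (nat_lit 363) (nat_lit 118)) (XT.lf (nat_lit 0) (nat_lit 170184811844) (nat_lit 228) (nat_lit 263777215373) (nat_lit 76) (nat_lit 71339614674) (nat_lit 24) (nat_lit 5) (nat_lit 27) (nat_lit 5) (nat_lit 25) (nat_lit 4) (nat_lit 420) (nat_lit 363) (nat_lit 117)))) (XT.nd (nat_lit 42432) (nat_lit 0) (nat_lit 5776) (XT.lf (nat_lit 0) (nat_lit 277194240423) (nat_lit 228) (nat_lit 44408065613) (nat_lit 76) (nat_lit 202540174343) (nat_lit 24) (nat_lit 5) (nat_lit 27) (nat_lit 5) (nat_lit 25) (nat_lit 4) (nat_lit 421) (nat_lit 363) (nat_lit 116)) (XT.nd (nat_lit 78) (nat_lit 0) (nat_lit 0) (XT.lf (nat_lit 0) (nat_lit 4999315500) (nat_lit 836) (nat_lit 20633421987) (nat_lit 836) (nat_lit 20633421987) (nat_lit 100) (nat_lit 3) (nat_lit 111) (nat_lit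 3) (nat_lit 111) (nat_lit 5) (nat_lit 364) (nat_lit 364) (nat_lit 172)) (XT.lf (nat_lit 76) (nat_lit 2593107557) (nat_lit 0) (nat_lit 7703364122) (nat_lit 836) (nat_lit 84546753700) (nat_lit 101) (nat_lit 5) (nat_lit 100) (nat_lit 3) (nat_lit 111) (nat_lit 5) (nat_lit 365) (nat_lit 364) (nat_lit 171))))) (XT.nd (nat_lit 234) (nat_lit 0) (nat_lit 76) (XT.nd (nat_lit 78) (nat_lit 0) (nat_lit 0) (XT.lf (nat_lit 0) (nat_lit 11912923602) (nat_lit 760) (nat_lit 47761588521) (nat_lit 836) (nat_lit 37529979545) (nat_lit 101) (nat_lit 5) (nat_lit 111) (nat_lit 5) (nat_lit 112) (nat_lit 5) (nat_lit 366) (nat_lit 364) (nat_lit 170)) (XT.nd (nat_lit 78) (nat_lit 0) (nat_lit 76) (XT.lf (nat_lit 0) (nat_lit 13736031754) (nat_lit 760) (nat_lit 1175188444) (nat_lit 836) (nat_lit 84766309866) (nat_lit 101) (nat_lit 5) (nat_lit 111) (nat_lit 5) (nat_lit 112) (nat_lit 5) (nat_lit 367) (nat_lit 364) (nat_lit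 169)) (XT.lf (nat_lit 0) (nat_lit 16933514402) (nat_lit 760) (nat_lit 53430603758) (nat_lit 836) (nat_lit 31845941719) (nat_lit 102) (nat_lit 5) (nat_lit 112) (nat_lit 5) (nat_lit 113) (nat_lit 5) (nat_lit 368) (nat_lit 364) (nat_lit 168)))) (XT.nd (nat_lit 78) (nat_lit 0) (nat_lit 76) (XT.lf (nat_lit 0) (nat_lit 20555135497) (nat_lit 760) (nat_lit 3840638292) (nat_lit 836) (nat_lit 80460229613) (nat_lit 102) (nat_lit 5) (nat_lit 112) (nat_lit 5) (nat_lit 113) (nat_lit 5) (nat_lit 369) (nat_lit 364) (nat_lit 167)) (XT.nd (nat_lit 78) (nat_lit 0) (nat_lit 0) (XT.lf (nat_lit 0) (nat_lit 25520773771) (nat_lit 760) (nat_lit 58157602019) (nat_lit 836) (nat_lit 23897721914) (nat_lit 103) (nat_lit 5) (nat_lit 113) (nat_lit 5) (nat_lit 114) (nat_lit 5) (nat_lit 370) (nat_lit 364) (nat_lit 166)) (XT.lf (nat_lit 0) (nat_lit 31200359380) (nat_lit 760) (nat_lit 5356297998) (nat_lit 836) (nat_lit 73852256463)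 (nat_lit 103) (nat_lit 5) (nat_lit 113) (nat_lit 5) (nat_lit 114) (nat_lit 5) (nat_lit 371) (nat_lit 364) (nat_lit 165))))))) (XT.nd (nat_lit 936) (nat_lit 1672) (nat_lit 0) (XT.nd (nat_lit 468) (nat_lit 1444) (nat_lit 0) (XT.nd (nat_lit 234) (nat_lit 684) (nat_lit 0) (XT.nd (nat_lit 78) (nat_lit 0) (nat_lit 0) (XT.lf (nat_lit 0) (nat_lit 38186366526) (nat_lit 760) (nat_lit 61817144357) (nat_lit 836) (nat_lit 13328738163) (nat_lit 104) (nat_lit 5) (nat_lit 114) (nat_lit 5) (nat_lit 115) (nat_lit 5) (nat_lit 372) (nat_lit 364) (nat_lit 164)) (XT.nd (nat_lit 78) (nat_lit 0) (nat_lit 0) (XT.lf (nat_lit 0) (nat_lit 46212819399) (nat_lit 760) (nat_lit 5582238080) (nat_lit 836) (nat_lit 64572136617) (nat_lit 104) (nat_lit 5) (nat_lit 114) (nat_lit 5) (nat_lit 115) (nat_lit 5) (nat_lit 373) (nat_lit 364) (nat_lit 163)) (XT.lf (nat_lit 76) (nat_lit 55231910835) (nat_lit 0) (nat_lit 270682646) (nat_lit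 836) (nat_lit 64008193328) (nat_lit 105) (nat_lit 5) (nat_lit 104) (nat_lit 5) (nat_lit 115) (nat_lit 5) (nat_lit 374) (nat_lit 364) (nat_lit 162)))) (XT.nd (nat_lit 78) (nat_lit 760) (nat_lit 0) (XT.lf (nat_lit 0) (nat_lit 66193065591) (nat_lit 760) (nat_lit 4368529210) (nat_lit 76) (nat_lit 52203154213) (nat_lit 105) (nat_lit 5) (nat_lit 115) (nat_lit 5) (nat_lit 106) (nat_lit 5) (nat_lit 375) (nat_lit 364) (nat_lit 161)) (XT.nd (nat_lit 78) (nat_lit 0) (nat_lit 0) (XT.lf (nat_lit 0) (nat_lit 60467982667) (nat_lit 760) (nat_lit 17898291540) (nat_lit 836) (nat_lit 47767724782) (nat_lit 95) (nat_lit 5) (nat_lit 105) (nat_lit 5) (nat_lit 106) (nat_lit 5) (nat_lit 376) (nat_lit 364) (nat_lit 160)) (XT.lf (nat_lit 0) (nat_lit 91806940941) (nat_lit 836) (nat_lit 1555408589) (nat_lit 76) (nat_lit 36276422342) (nat_lit 95) (nat_lit 5) (nat_lit 106) (nat_lit 5) (nat_lit 96) (nat_lit 5) (nat_lit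 377) (nat_lit 364) (nat_lit 159))))) (XT.nd (nat_lit 234) (nat_lit 684) (nat_lit 0) (XT.nd (nat_lit 78) (nat_lit 380) (nat_lit 0) (XT.lf (nat_lit 0) (nat_lit 67631685798) (nat_lit 380) (nat_lit 39637015067) (nat_lit 456) (nat_lit 25982629819) (nat_lit 90) (nat_lit 5) (nat_lit 95) (nat_lit 5) (nat_lit 96) (nat_lit 5) (nat_lit 378) (nat_lit 364) (nat_lit 158)) (XT.nd (nat_lit 78) (nat_lit 76) (nat_lit 0) (XT.lf (nat_lit 0) (nat_lit 3126394043) (nat_lit 304) (nat_lit 120714372417) (nat_lit 380) (nat_lit 13186890358) (nat_lit 86) (nat_lit 5) (nat_lit 90) (nat_lit 5) (nat_lit 91) (nat_lit 5) (nat_lit 379) (nat_lit 364) (nat_lit 157)) (XT.lf (nat_lit 0) (nat_lit 2019721926) (nat_lit 380) (nat_lit 64021499749) (nat_lit 76) (nat_lit 74862431540) (nat_lit 85) (nat_lit 5) (nat_lit 90) (nat_lit 5) (nat_lit 86) (nat_lit 5) (nat_lit 380) (nat_lit 364) (nat_lit 156)))) (XT.nd (nat_lit 78) (nat_lit 304)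 (nat_lit 0) (XT.lf (nat_lit 0) (nat_lit 9437877982) (nat_lit 380) (nat_lit 8252723198) (nat_lit 456) (nat_lit 127264684438) (nat_lit 80) (nat_lit 5) (nat_lit 85) (nat_lit 5) (nat_lit 86) (nat_lit 5) (nat_lit 381) (nat_lit 364) (nat_lit 155)) (XT.nd (nat_lit 78) (nat_lit 304) (nat_lit 0) (XT.lf (nat_lit 0) (nat_lit 36065296209) (nat_lit 456) (nat_lit 61198933669) (nat_lit 76) (nat_lit 51849256388) (nat_lit 80) (nat_lit 5) (nat_lit 86) (nat_lit 5) (nat_lit 81) (nat_lit 5) (nat_lit 382) (nat_lit 364) (nat_lit 154)) (XT.lf (nat_lit 0) (nat_lit 17252087372) (nat_lit 304) (nat_lit 38511052208) (nat_lit 380) (nat_lit 97696236896) (nat_lit 76) (nat_lit 5) (nat_lit 80) (nat_lit 5) (nat_lit 81) (nat_lit 5) (nat_lit 383) (nat_lit 364) (nat_lit 153)))))) (XT.nd (nat_lit 468) (nat_lit 760) (nat_lit 0) (XT.nd (nat_lit 234) (nat_lit 608) (nat_lit 0) (XT.nd (nat_lit 78) (nat_lit 304) (nat_lit 0) (XT.lf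 (nat_lit 0) (nat_lit 77860976849) (nat_lit 380) (nat_lit 56599550643) (nat_lit 76) (nat_lit 23491278816) (nat_lit 76) (nat_lit 5) (nat_lit 81) (nat_lit 5) (nat_lit 77) (nat_lit 5) (nat_lit 384) (nat_lit 364) (nat_lit 152)) (XT.nd (nat_lit 78) (nat_lit 0) (nat_lit 0) (XT.lf (nat_lit 0) (nat_lit 27228472648) (nat_lit 304) (nat_lit 74891461553) (nat_lit 380) (nat_lit 60496112208) (nat_lit 72) (nat_lit 5) (nat_lit 76) (nat_lit 5) (nat_lit 77) (nat_lit 5) (nat_lit 385) (nat_lit 364) (nat_lit 151)) (XT.lf (nat_lit 0) (nat_lit 117212655263) (nat_lit 304) (nat_lit 11337517909) (nat_lit 380) (nat_lit 38915408833) (nat_lit 72) (nat_lit 5) (nat_lit 76) (nat_lit 5) (nat_lit 77) (nat_lit 5) (nat_lit 386) (nat_lit 364) (nat_lit 150)))) (XT.nd (nat_lit 78) (nat_lit 380) (nat_lit 0) (XT.lf (nat_lit 0) (nat_lit 39538836940) (nat_lit 228) (nat_lit 118245058893) (nat_lit 304) (nat_lit 14699600132) (nat_lit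 69) (nat_lit 5) (nat_lit 72) (nat_lit 5) (nat_lit 73) (nat_lit 5) (nat_lit 387) (nat_lit 364) (nat_lit 149)) (XT.nd (nat_lit 78) (nat_lit 304) (nat_lit 0) (XT.lf (nat_lit 0) (nat_lit 11434342878) (nat_lit 304) (nat_lit 42512437537) (nat_lit 76) (nat_lit 123744617697) (nat_lit 68) (nat_lit 5) (nat_lit 72) (nat_lit 5) (nat_lit 69) (nat_lit 5) (nat_lit 388) (nat_lit 364) (nat_lit 148)) (XT.lf (nat_lit 0) (nat_lit 39452293869) (nat_lit 380) (nat_lit 129408967591) (nat_lit 76) (nat_lit 14232819510) (nat_lit 64) (nat_lit 5) (nat_lit 69) (nat_lit 5) (nat_lit 65) (nat_lit 5) (nat_lit 389) (nat_lit 364) (nat_lit 147))))) (XT.nd (nat_lit 234) (nat_lit 532) (nat_lit 0) (XT.nd (nat_lit 78) (nat_lit 228) (nat_lit 0) (XT.lf (nat_lit 0) (nat_lit 70487105489) (nat_lit 380) (nat_lit 33458841160) (nat_lit 76) (nat_lit 84740153309) (nat_lit 64) (nat_lit 5) (nat_lit 69) (nat_lit 5) (nat_lit 65) (nat_lit 5)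 (nat_lit 390) (nat_lit 364) (nat_lit 146)) (XT.nd (nat_lit 78) (nat_lit 0) (nat_lit 0) (XT.lf (nat_lit 0) (nat_lit 69513423760) (nat_lit 228) (nat_lit 34645360109) (nat_lit 304) (nat_lit 90344679852) (nat_lit 61) (nat_lit 5) (nat_lit 64) (nat_lit 5) (nat_lit 65) (nat_lit 5) (nat_lit 391) (nat_lit 364) (nat_lit 145)) (XT.lf (nat_lit 0) (nat_lit 140684971652) (nat_lit 304) (nat_lit 22392134884) (nat_lit 76) (nat_lit 37476042988) (nat_lit 61) (nat_lit 5) (nat_lit 65) (nat_lit 5) (nat_lit 62) (nat_lit 5) (nat_lit 392) (nat_lit 364) (nat_lit 144)))) (XT.nd (nat_lit 78) (nat_lit 304) (nat_lit 0) (XT.lf (nat_lit 0) (nat_lit 87570280390) (nat_lit 228) (nat_lit 93402201305) (nat_lit 304) (nat_lit 25836087401) (nat_lit 58) (nat_lit 5) (nat_lit 61) (nat_lit 5) (nat_lit 62) (nat_lit 5) (nat_lit 393) (nat_lit 364) (nat_lit 143)) (XT.nd (nat_lit 78) (nat_lit 228) (nat_lit 0) (XT.lf (nat_lit 0) (nat_lit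 9966100933) (nat_lit 304) (nat_lit 9710549888) (nat_lit 76) (nat_lit 193673118536) (nat_lit 57) (nat_lit 5) (nat_lit 61) (nat_lit 5) (nat_lit 58) (nat_lit 5) (nat_lit 394) (nat_lit 364) (nat_lit 142)) (XT.lf (nat_lit 0) (nat_lit 49317512148) (nat_lit 304) (nat_lit 112711078669) (nat_lit 76) (nat_lit 58036893027) (nat_lit 54) (nat_lit 5) (nat_lit 58) (nat_lit 5) (nat_lit 55) (nat_lit 5) (nat_lit 395) (nat_lit 364) (nat_lit 141))))))))
noncomputable def xc235 : XT := (XT.nd (nat_lit 1794) (nat_lit 228) (nat_lit 0) (XT.nd (nat_lit 858) (nat_lit 836) (nat_lit 0) (XT.nd (nat_lit 390) (nat_lit 532) (nat_lit 0) (XT.nd (nat_lit 156) (nat_lit 456) (nat_lit 0) (XT.nd (nat_lit 78) (nat_lit 0) (nat_lit 0) (XT.lf (nat_lit 0) (nat_lit 3280488819) (nat_lit 228) (nat_lit 87896790349) (nat_lit 304) (nat_lit 135912665724) (nat_lit 51) (nat_lit 5) (nat_lit 54) (nat_lit 5) (nat_lit 55) (nat_lit 5) (nat_lit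 396) (nat_lit 364) (nat_lit 140)) (XT.lf (nat_lit 0) (nat_lit 128984494085) (nat_lit 228) (nat_lit 8054211630) (nat_lit 304) (nat_lit 97331489815) (nat_lit 51) (nat_lit 5) (nat_lit 54) (nat_lit 5) (nat_lit 55) (nat_lit 5) (nat_lit 397) (nat_lit 364) (nat_lit 139))) (XT.nd (nat_lit 78) (nat_lit 304) (nat_lit 0) (XT.lf (nat_lit 0) (nat_lit 18363635513) (nat_lit 152) (nat_lit 168299282224) (nat_lit 228) (nat_lit 55278055345) (nat_lit 49) (nat_lit 5) (nat_lit 51) (nat_lit 5) (nat_lit 52) (nat_lit 5) (nat_lit 398) (nat_lit 364) (nat_lit 138)) (XT.nd (nat_lit 78) (nat_lit 304) (nat_lit 0) (XT.lf (nat_lit 0) (nat_lit 151822583829) (nat_lit 152) (nat_lit 88860284849) (nat_lit 228) (nat_lit 9111694504) (nat_lit 49) (nat_lit 5) (nat_lit 51) (nat_lit 5) (nat_lit 52) (nat_lit 5) (nat_lit 399) (nat_lit 364) (nat_lit 137)) (XT.lf (nat_lit 0) (nat_lit 34399889895) (nat_lit 228) (nat_lit 4240179951) (nat_lit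 304) (nat_lit 219343187355) (nat_lit 45) (nat_lit 5) (nat_lit 48) (nat_lit 5) (nat_lit 49) (nat_lit 5) (nat_lit 400) (nat_lit 364) (nat_lit 136))))) (XT.nd (nat_lit 234) (nat_lit 380) (nat_lit 0) (XT.nd (nat_lit 78) (nat_lit 152) (nat_lit 0) (XT.lf (nat_lit 0) (nat_lit 91480496600) (nat_lit 304) (nat_lit 91204496958) (nat_lit 76) (nat_lit 83738559492) (nat_lit 45) (nat_lit 5) (nat_lit 49) (nat_lit 5) (nat_lit 46) (nat_lit 5) (nat_lit 401) (nat_lit 364) (nat_lit 135)) (XT.nd (nat_lit 78) (nat_lit 0) (nat_lit 0) (XT.lf (nat_lit 0) (nat_lit 49301569743) (nat_lit 152) (nat_lit 98500498151) (nat_lit 228) (nat_lit 127441839709) (nat_lit 43) (nat_lit 5) (nat_lit 45) (nat_lit 5) (nat_lit 46) (nat_lit 5) (nat_lit 402) (nat_lit 364) (nat_lit 134)) (XT.lf (nat_lit 0) (nat_lit 199999162954) (nat_lit 152) (nat_lit 8485026373) (nat_lit 228) (nat_lit 75943867043) (nat_lit 43) (nat_lit 5) (nat_lit 45)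 (nat_lit 5) (nat_lit 46) (nat_lit 5) (nat_lit 403) (nat_lit 364) (nat_lit 133)))) (XT.nd (nat_lit 78) (nat_lit 228) (nat_lit 0) (XT.lf (nat_lit 0) (nat_lit 64893856820) (nat_lit 152) (nat_lit 209662807404) (nat_lit 228) (nat_lit 19396936048) (nat_lit 41) (nat_lit 5) (nat_lit 43) (nat_lit 5) (nat_lit 44) (nat_lit 5) (nat_lit 404) (nat_lit 364) (nat_lit 132)) (XT.nd (nat_lit 78) (nat_lit 152) (nat_lit 0) (XT.lf (nat_lit 0) (nat_lit 40290084659) (nat_lit 228) (nat_lit 80056888799) (nat_lit 76) (nat_lit 183497626664) (nat_lit 40) (nat_lit 5) (nat_lit 43) (nat_lit 5) (nat_lit 41) (nat_lit 5) (nat_lit 405) (nat_lit 364) (nat_lit 131)) (XT.lf (nat_lit 0) (nat_lit 78593427933) (nat_lit 152) (nat_lit 24943118111) (nat_lit 228) (nat_lit 210616357154) (nat_lit 38) (nat_lit 5) (nat_lit 40) (nat_lit 5) (nat_lit 41) (nat_lit 5) (nat_lit 406) (nat_lit 364) (nat_lit 130)))))) (XT.nd (nat_lit 468) (nat_lit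 380) (nat_lit 0) (XT.nd (nat_lit 234) (nat_lit 304) (nat_lit 0) (XT.nd (nat_lit 78) (nat_lit 152) (nat_lit 0) (XT.lf (nat_lit 0) (nat_lit 172497816201) (nat_lit 228) (nat_lit 78150148410) (nat_lit 76) (nat_lit 74201032585) (nat_lit 38) (nat_lit 5) (nat_lit 41) (nat_lit 5) (nat_lit 39) (nat_lit 5) (nat_lit 407) (nat_lit 364) (nat_lit 129)) (XT.nd (nat_lit 78) (nat_lit 0) (nat_lit 0) (XT.lf (nat_lit 0) (nat_lit 89587943381) (nat_lit 152) (nat_lit 157126725720) (nat_lit 228) (nat_lit 89274850882) (nat_lit 36) (nat_lit 5) (nat_lit 38) (nat_lit 5) (nat_lit 39) (nat_lit 5) (nat_lit 408) (nat_lit 364) (nat_lit 128)) (XT.lf (nat_lit 0) (nat_lit 268425967708) (nat_lit 152) (nat_lit 57539806591) (nat_lit 228) (nat_lit 21655124175) (nat_lit 36) (nat_lit 5) (nat_lit 38) (nat_lit 5) (nat_lit 39) (nat_lit 5) (nat_lit 409) (nat_lit 364) (nat_lit 127)))) (XT.nd (nat_lit 78) (nat_lit 152) (nat_lit 0) (XT.lf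 (nat_lit 0) (nat_lit 50080204829) (nat_lit 152) (nat_lit 261727876920) (nat_lit 76) (nat_lit 47871543888) (nat_lit 34) (nat_lit 5) (nat_lit 36) (nat_lit 5) (nat_lit 35) (nat_lit 5) (nat_lit 410) (nat_lit 364) (nat_lit 126)) (XT.nd (nat_lit 78) (nat_lit 152) (nat_lit 0) (XT.lf (nat_lit 0) (nat_lit 126980916431) (nat_lit 152) (nat_lit 86889427232) (nat_lit 76) (nat_lit 158337876921) (nat_lit 34) (nat_lit 5) (nat_lit 36) (nat_lit 5) (nat_lit 35) (nat_lit 5) (nat_lit 411) (nat_lit 364) (nat_lit 125)) (XT.lf (nat_lit 0) (nat_lit 99887821781) (nat_lit 152) (nat_lit 109398278636) (nat_lit 228) (nat_lit 175999173059) (nat_lit 32) (nat_lit 5) (nat_lit 34) (nat_lit 5) (nat_lit 35) (nat_lit 5) (nat_lit 412) (nat_lit 364) (nat_lit 124))))) (XT.nd (nat_lit 234) (nat_lit 228) (nat_lit 0) (XT.nd (nat_lit 78) (nat_lit 152) (nat_lit 0) (XT.lf (nat_lit 0) (nat_lit 297206733300) (nat_lit 228) (nat_lit 99950989866)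 (nat_lit 76) (nat_lit 1783446400) (nat_lit 32) (nat_lit 5) (nat_lit 35) (nat_lit 5) (nat_lit 33) (nat_lit 4) (nat_lit 413) (nat_lit 364) (nat_lit 123)) (XT.nd (nat_lit 78) (nat_lit 76) (nat_lit 0) (XT.lf (nat_lit 0) (nat_lit 96048377849) (nat_lit 76) (nat_lit 296767931999) (nat_lit 152) (nat_lit 20298905047) (nat_lit 31) (nat_lit 5) (nat_lit 32) (nat_lit 5) (nat_lit 33) (nat_lit 4) (nat_lit 414) (nat_lit 364) (nat_lit 122)) (XT.lf (nat_lit 0) (nat_lit 64841708124) (nat_lit 152) (nat_lit 123641526525) (nat_lit 76) (nat_lit 239377804502) (nat_lit 30) (nat_lit 5) (nat_lit 32) (nat_lit 5) (nat_lit 31) (nat_lit 5) (nat_lit 415) (nat_lit 364) (nat_lit 121)))) (XT.nd (nat_lit 78) (nat_lit 76) (nat_lit 0) (XT.lf (nat_lit 0) (nat_lit 81738271766) (nat_lit 152) (nat_lit 73094985132) (nat_lit 228) (nat_lit 288430455244) (nat_lit 28) (nat_lit 5) (nat_lit 30) (nat_lit 5) (nat_lit 31) (nat_lit 5) (nat_lit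 416) (nat_lit 364) (nat_lit 120)) (XT.nd (nat_lit 78) (nat_lit 76) (nat_lit 0) (XT.lf (nat_lit 0) (nat_lit 252202950493) (nat_lit 228) (nat_lit 158437072295) (nat_lit 76) (nat_lit 48652567655) (nat_lit 28) (nat_lit 5) (nat_lit 31) (nat_lit 5) (nat_lit 29) (nat_lit 4) (nat_lit 417) (nat_lit 364) (nat_lit 119)) (XT.lf (nat_lit 0) (nat_lit 55379797242) (nat_lit 76) (nat_lit 301124166202) (nat_lit 152) (nat_lit 119515807507) (nat_lit 27) (nat_lit 5) (nat_lit 28) (nat_lit 5) (nat_lit 29) (nat_lit 4) (nat_lit 418) (nat_lit 364) (nat_lit 118))))))) (XT.nd (nat_lit 43446) (nat_lit 0) (nat_lit 3648) (XT.nd (nat_lit 42978) (nat_lit 0) (nat_lit 5928) (XT.nd (nat_lit 42744) (nat_lit 0) (nat_lit 5776) (XT.nd (nat_lit 78) (nat_lit 228) (nat_lit 0) (XT.lf (nat_lit 0) (nat_lit 285387952000) (nat_lit 76) (nat_lit 183315207500) (nat_lit 152) (nat_lit 24745994390) (nat_lit 27) (nat_lit 5) (nat_lit 28) (nat_lit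 5) (nat_lit 29) (nat_lit 4) (nat_lit 419) (nat_lit 364) (nat_lit 117)) (XT.nd (nat_lit 42588) (nat_lit 0) (nat_lit 5776) (XT.lf (nat_lit 0) (nat_lit 14441340798) (nat_lit 152) (nat_lit 58153503968) (nat_lit 228) (nat_lit 439085528966) (nat_lit 24) (nat_lit 5) (nat_lit 26) (nat_lit 5) (nat_lit 27) (nat_lit 5) (nat_lit 420) (nat_lit 364) (nat_lit 116)) (XT.lf (nat_lit 0) (nat_lit 5256555136) (nat_lit 836) (nat_lit 21661270470) (nat_lit 836) (nat_lit 21661270470) (nat_lit 100) (nat_lit 3) (nat_lit 111) (nat_lit 3) (nat_lit 111) (nat_lit 5) (nat_lit 365) (nat_lit 365) (nat_lit 170)))) (XT.nd (nat_lit 78) (nat_lit 0) (nat_lit 76) (XT.lf (nat_lit 76) (nat_lit 2730284857) (nat_lit 0) (nat_lit 8094982818) (nat_lit 836) (nat_lit 88759405727) (nat_lit 101) (nat_lit 5) (nat_lit 100) (nat_lit 3) (nat_lit 111) (nat_lit 5) (nat_lit 366) (nat_lit 365) (nat_lit 169)) (XT.nd (nat_lit 78) (nat_lit 0) (nat_lit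 0) (XT.lf (nat_lit 0) (nat_lit 12521780926) (nat_lit 760) (nat_lit 50141729015) (nat_lit 836) (nat_lit 39400531824) (nat_lit 101) (nat_lit 5) (nat_lit 111) (nat_lit 5) (nat_lit 112) (nat_lit 5) (nat_lit 367) (nat_lit 365) (nat_lit 168)) (XT.lf (nat_lit 0) (nat_lit 14435415384) (nat_lit 760) (nat_lit 1226386978) (nat_lit 836) (nat_lit 88998961837) (nat_lit 101) (nat_lit 5) (nat_lit 111) (nat_lit 5) (nat_lit 112) (nat_lit 5) (nat_lit 368) (nat_lit 365) (nat_lit 167))))) (XT.nd (nat_lit 234) (nat_lit 0) (nat_lit 76) (XT.nd (nat_lit 78) (nat_lit 0) (nat_lit 0) (XT.lf (nat_lit 0) (nat_lit 17792216405) (nat_lit 760) (nat_lit 56094004665) (nat_lit 836) (nat_lit 33433727856) (nat_lit 102) (nat_lit 5) (nat_lit 112) (nat_lit 5) (nat_lit 113) (nat_lit 5) (nat_lit 369) (nat_lit 365) (nat_lit 166)) (XT.nd (nat_lit 78) (nat_lit 0) (nat_lit 76) (XT.lf (nat_lit 0) (nat_lit 21594345874) (nat_lit 760) (nat_lit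 4024928034) (nat_lit 836) (nat_lit 84478944951) (nat_lit 102) (nat_lit 5) (nat_lit 112) (nat_lit 5) (nat_lit 113) (nat_lit 5) (nat_lit 370) (nat_lit 365) (nat_lit 165)) (XT.lf (nat_lit 0) (nat_lit 26807786343) (nat_lit 760) (nat_lit 61057248769) (nat_lit 836) (nat_lit 25089307324) (nat_lit 103) (nat_lit 5) (nat_lit 113) (nat_lit 5) (nat_lit 114) (nat_lit 5) (nat_lit 371) (nat_lit 365) (nat_lit 164)))) (XT.nd (nat_lit 78) (nat_lit 0) (nat_lit 76) (XT.lf (nat_lit 0) (nat_lit 32770828667) (nat_lit 760) (nat_lit 5616271611) (nat_lit 836) (nat_lit 77541725776) (nat_lit 103) (nat_lit 5) (nat_lit 113) (nat_lit 5) (nat_lit 114) (nat_lit 5) (nat_lit 372) (nat_lit 365) (nat_lit 163)) (XT.nd (nat_lit 78) (nat_lit 0) (nat_lit 0) (XT.lf (nat_lit 0) (nat_lit 40105722103) (nat_lit 760) (nat_lit 64899735827) (nat_lit 836) (nat_lit 13992891311) (nat_lit 104) (nat_lit 5) (nat_lit 114) (nat_lit 5) (nat_lit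 115) (nat_lit 5) (nat_lit 373) (nat_lit 365) (nat_lit 162)) (XT.lf (nat_lit 0) (nat_lit 48533019656) (nat_lit 760) (nat_lit 5853477843) (nat_lit 836) (nat_lit 67798568439) (nat_lit 104) (nat_lit 5) (nat_lit 114) (nat_lit 5) (nat_lit 115) (nat_lit 5) (nat_lit 374) (nat_lit 365) (nat_lit 161)))))) (XT.nd (nat_lit 468) (nat_lit 1064) (nat_lit 0) (XT.nd (nat_lit 234) (nat_lit 684) (nat_lit 0) (XT.nd (nat_lit 78) (nat_lit 684) (nat_lit 0) (XT.lf (nat_lit 76) (nat_lit 58001251547) (nat_lit 0) (nat_lit 285696614) (nat_lit 836) (nat_lit 67198907311) (nat_lit 105) (nat_lit 5) (nat_lit 104) (nat_lit 5) (nat_lit 115) (nat_lit 5) (nat_lit 375) (nat_lit 365) (nat_lit 160)) (XT.nd (nat_lit 78) (nat_lit 760) (nat_lit 0) (XT.lf (nat_lit 0) (nat_lit 69511482587) (nat_lit 760) (nat_lit 4579109048) (nat_lit 76) (nat_lit 54811947665) (nat_lit 105) (nat_lit 5) (nat_lit 115) (nat_lit 5) (nat_lit 106) (nat_lit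 5) (nat_lit 376) (nat_lit 365) (nat_lit 159)) (XT.lf (nat_lit 0) (nat_lit 63499101865) (nat_lit 760) (nat_lit 18793952982) (nat_lit 836) (nat_lit 50147212195) (nat_lit 95) (nat_lit 5) (nat_lit 105) (nat_lit 5) (nat_lit 106) (nat_lit 5) (nat_lit 377) (nat_lit 365) (nat_lit 158)))) (XT.nd (nat_lit 78) (nat_lit 684) (nat_lit 0) (XT.lf (nat_lit 0) (nat_lit 96405340624) (nat_lit 836) (nat_lit 1625404140) (nat_lit 76) (nat_lit 38089554926) (nat_lit 95) (nat_lit 5) (nat_lit 106) (nat_lit 5) (nat_lit 96) (nat_lit 5) (nat_lit 378) (nat_lit 365) (nat_lit 157)) (XT.nd (nat_lit 78) (nat_lit 304) (nat_lit 0) (XT.lf (nat_lit 0) (nat_lit 71020919565) (nat_lit 380) (nat_lit 41619004950) (nat_lit 456) (nat_lit 27273575517) (nat_lit 90) (nat_lit 5) (nat_lit 95) (nat_lit 5) (nat_lit 96) (nat_lit 5) (nat_lit 379) (nat_lit 365) (nat_lit 156)) (XT.lf (nat_lit 0) (nat_lit 3290632761) (nat_lit 304) (nat_lit 126749711312)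 (nat_lit 380) (nat_lit 13838311235) (nat_lit 86) (nat_lit 5) (nat_lit 90) (nat_lit 5) (nat_lit 91) (nat_lit 5) (nat_lit 380) (nat_lit 365) (nat_lit 155))))) (XT.nd (nat_lit 234) (nat_lit 608) (nat_lit 0) (XT.nd (nat_lit 78) (nat_lit 380) (nat_lit 0) (XT.lf (nat_lit 0) (nat_lit 2128012818) (nat_lit 380) (nat_lit 67214784587) (nat_lit 76) (nat_lit 78605666531) (nat_lit 85) (nat_lit 5) (nat_lit 90) (nat_lit 5) (nat_lit 86) (nat_lit 5) (nat_lit 381) (nat_lit 365) (nat_lit 154)) (XT.nd (nat_lit 78) (nat_lit 0) (nat_lit 0) (XT.lf (nat_lit 0) (nat_lit 9917436383) (nat_lit 380) (nat_lit 8664771468) (nat_lit 456) (nat_lit 133620481835) (nat_lit 80) (nat_lit 5) (nat_lit 85) (nat_lit 5) (nat_lit 86) (nat_lit 5) (nat_lit 382) (nat_lit 365) (nat_lit 153)) (XT.lf (nat_lit 0) (nat_lit 37875309392) (nat_lit 456) (nat_lit 64251246510) (nat_lit 76) (nat_lit 54442261182) (nat_lit 80) (nat_lit 5) (nat_lit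 86) (nat_lit 5) (nat_lit 81) (nat_lit 5) (nat_lit 383) (nat_lit 365) (nat_lit 152)))) (XT.nd (nat_lit 78) (nat_lit 304) (nat_lit 0) (XT.lf (nat_lit 0) (nat_lit 18122202457) (nat_lit 304) (nat_lit 40435638387) (nat_lit 380) (nat_lit 102574171455) (nat_lit 76) (nat_lit 5) (nat_lit 80) (nat_lit 5) (nat_lit 81) (nat_lit 5) (nat_lit 384) (nat_lit 365) (nat_lit 151)) (XT.nd (nat_lit 78) (nat_lit 304) (nat_lit 0) (XT.lf (nat_lit 0) (nat_lit 81760272714) (nat_lit 380) (nat_lit 59422072337) (nat_lit 76) (nat_lit 24666733709) (nat_lit 76) (nat_lit 5) (nat_lit 81) (nat_lit 5) (nat_lit 77) (nat_lit 5) (nat_lit 385) (nat_lit 365) (nat_lit 150)) (XT.lf (nat_lit 0) (nat_lit 28597231863) (nat_lit 304) (nat_lit 78634763122) (nat_lit 380) (nat_lit 63514545291) (nat_lit 72) (nat_lit 5) (nat_lit 76) (nat_lit 5) (nat_lit 77) (nat_lit 5) (nat_lit 386) (nat_lit 365) (nat_lit 149))))))))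
noncomputable def xc236 : XT := (XT.nd (nat_lit 1794) (nat_lit 684) (nat_lit 0) (XT.nd (nat_lit 858) (nat_lit 1140) (nat_lit 0) (XT.nd (nat_lit 390) (nat_lit 988) (nat_lit 0) (XT.nd (nat_lit 156) (nat_lit 380) (nat_lit 0) (XT.nd (nat_lit 78) (nat_lit 228) (nat_lit 0) (XT.lf (nat_lit 0) (nat_lit 123080274295) (nat_lit 304) (nat_lit 11903182844) (nat_lit 380) (nat_lit 40855110201) (nat_lit 72) (nat_lit 5) (nat_lit 76) (nat_lit 5) (nat_lit 77) (nat_lit 5) (nat_lit 387) (nat_lit 365) (nat_lit 148)) (XT.lf (nat_lit 0) (nat_lit 41522922800) (nat_lit 228) (nat_lit 124155797663) (nat_lit 304) (nat_lit 15428664047) (nat_lit 69) (nat_lit 5) (nat_lit 72) (nat_lit 5) (nat_lit 73) (nat_lit 5) (nat_lit 388) (nat_lit 365) (nat_lit 147))) (XT.nd (nat_lit 78) (nat_lit 304) (nat_lit 0) (XT.lf (nat_lit 0) (nat_lit 12011514060) (nat_lit 304) (nat_lit 44631070938) (nat_lit 76) (nat_lit 129933105998) (nat_lit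 68) (nat_lit 5) (nat_lit 72) (nat_lit 5) (nat_lit 69) (nat_lit 5) (nat_lit 389) (nat_lit 365) (nat_lit 146)) (XT.nd (nat_lit 78) (nat_lit 0) (nat_lit 0) (XT.lf (nat_lit 0) (nat_lit 41430234810) (nat_lit 380) (nat_lit 135872295591) (nat_lit 76) (nat_lit 14945984192) (nat_lit 64) (nat_lit 5) (nat_lit 69) (nat_lit 5) (nat_lit 65) (nat_lit 5) (nat_lit 390) (nat_lit 365) (nat_lit 145)) (XT.lf (nat_lit 0) (nat_lit 74016533380) (nat_lit 380) (nat_lit 35125001905) (nat_lit 76) (nat_lit 88978612123) (nat_lit 64) (nat_lit 5) (nat_lit 69) (nat_lit 5) (nat_lit 65) (nat_lit 5) (nat_lit 391) (nat_lit 365) (nat_lit 144))))) (XT.nd (nat_lit 234) (nat_lit 532) (nat_lit 0) (XT.nd (nat_lit 78) (nat_lit 228) (nat_lit 0) (XT.lf (nat_lit 0) (nat_lit 72995766885) (nat_lit 228) (nat_lit 36375891408) (nat_lit 304) (nat_lit 94856728121) (nat_lit 61) (nat_lit 5) (nat_lit 64) (nat_lit 5) (nat_lit 65) (nat_lit 5) (nat_lit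 392) (nat_lit 365) (nat_lit 143)) (XT.nd (nat_lit 78) (nat_lit 228) (nat_lit 0) (XT.lf (nat_lit 0) (nat_lit 147723946279) (nat_lit 304) (nat_lit 23505174661) (nat_lit 76) (nat_lit 39351446205) (nat_lit 61) (nat_lit 5) (nat_lit 65) (nat_lit 5) (nat_lit 62) (nat_lit 5) (nat_lit 393) (nat_lit 365) (nat_lit 142)) (XT.lf (nat_lit 0) (nat_lit 91955255457) (nat_lit 228) (nat_lit 98070452192) (nat_lit 304) (nat_lit 27123056424) (nat_lit 58) (nat_lit 5) (nat_lit 61) (nat_lit 5) (nat_lit 62) (nat_lit 5) (nat_lit 394) (nat_lit 365) (nat_lit 141)))) (XT.nd (nat_lit 78) (nat_lit 456) (nat_lit 0) (XT.lf (nat_lit 0) (nat_lit 10468863680) (nat_lit 304) (nat_lit 10189773542) (nat_lit 76) (nat_lit 203358394648) (nat_lit 57) (nat_lit 5) (nat_lit 61) (nat_lit 5) (nat_lit 58) (nat_lit 5) (nat_lit 395) (nat_lit 365) (nat_lit 140)) (XT.nd (nat_lit 78) (nat_lit 228) (nat_lit 0) (XT.lf (nat_lit 0) (nat_lit 51787759055)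 (nat_lit 304) (nat_lit 118340239439) (nat_lit 76) (nat_lit 60940538053) (nat_lit 54) (nat_lit 5) (nat_lit 58) (nat_lit 5) (nat_lit 55) (nat_lit 5) (nat_lit 396) (nat_lit 365) (nat_lit 139)) (XT.lf (nat_lit 0) (nat_lit 3450803308) (nat_lit 228) (nat_lit 92289601167) (nat_lit 304) (nat_lit 142703821810) (nat_lit 51) (nat_lit 5) (nat_lit 54) (nat_lit 5) (nat_lit 55) (nat_lit 5) (nat_lit 397) (nat_lit 365) (nat_lit 138)))))) (XT.nd (nat_lit 468) (nat_lit 532) (nat_lit 0) (XT.nd (nat_lit 234) (nat_lit 456) (nat_lit 0) (XT.nd (nat_lit 78) (nat_lit 152) (nat_lit 0) (XT.lf (nat_lit 0) (nat_lit 135439709311) (nat_lit 228) (nat_lit 8454990117) (nat_lit 304) (nat_lit 102193800306) (nat_lit 51) (nat_lit 5) (nat_lit 54) (nat_lit 5) (nat_lit 55) (nat_lit 5) (nat_lit 398) (nat_lit 365) (nat_lit 137)) (XT.nd (nat_lit 78) (nat_lit 0) (nat_lit 0) (XT.lf (nat_lit 0) (nat_lit 19287883768) (nat_lit 152) (nat_lit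 176712168469) (nat_lit 228) (nat_lit 58037767544) (nat_lit 49) (nat_lit 5) (nat_lit 51) (nat_lit 5) (nat_lit 52) (nat_lit 5) (nat_lit 399) (nat_lit 365) (nat_lit 136)) (XT.lf (nat_lit 0) (nat_lit 159419490619) (nat_lit 152) (nat_lit 93301320171) (nat_lit 228) (nat_lit 9563288212) (nat_lit 49) (nat_lit 5) (nat_lit 51) (nat_lit 5) (nat_lit 52) (nat_lit 5) (nat_lit 400) (nat_lit 365) (nat_lit 135)))) (XT.nd (nat_lit 78) (nat_lit 152) (nat_lit 0) (XT.lf (nat_lit 0) (nat_lit 36125696732) (nat_lit 228) (nat_lit 4450146668) (nat_lit 304) (nat_lit 230306385977) (nat_lit 45) (nat_lit 5) (nat_lit 48) (nat_lit 5) (nat_lit 49) (nat_lit 5) (nat_lit 401) (nat_lit 365) (nat_lit 134)) (XT.nd (nat_lit 78) (nat_lit 152) (nat_lit 0) (XT.lf (nat_lit 0) (nat_lit 96058142332) (nat_lit 304) (nat_lit 95759035004) (nat_lit 76) (nat_lit 87927370243) (nat_lit 45) (nat_lit 5) (nat_lit 49) (nat_lit 5) (nat_lit 46)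 (nat_lit 5) (nat_lit 402) (nat_lit 365) (nat_lit 133)) (XT.lf (nat_lit 0) (nat_lit 51772243308) (nat_lit 152) (nat_lit 103423463812) (nat_lit 228) (nat_lit 133810217091) (nat_lit 43) (nat_lit 5) (nat_lit 45) (nat_lit 5) (nat_lit 46) (nat_lit 5) (nat_lit 403) (nat_lit 365) (nat_lit 132))))) (XT.nd (nat_lit 234) (nat_lit 304) (nat_lit 0) (XT.nd (nat_lit 78) (nat_lit 228) (nat_lit 0) (XT.lf (nat_lit 0) (nat_lit 210004449748) (nat_lit 152) (nat_lit 8907316505) (nat_lit 228) (nat_lit 79737522678) (nat_lit 43) (nat_lit 5) (nat_lit 45) (nat_lit 5) (nat_lit 46) (nat_lit 5) (nat_lit 404) (nat_lit 365) (nat_lit 131)) (XT.nd (nat_lit 78) (nat_lit 76) (nat_lit 0) (XT.lf (nat_lit 0) (nat_lit 68143929747) (nat_lit 152) (nat_lit 220143887953) (nat_lit 228) (nat_lit 20363294778) (nat_lit 41) (nat_lit 5) (nat_lit 43) (nat_lit 5) (nat_lit 44) (nat_lit 5) (nat_lit 405) (nat_lit 365) (nat_lit 130)) (XT.lf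 (nat_lit 0) (nat_lit 42307804542) (nat_lit 228) (nat_lit 84054501396) (nat_lit 76) (nat_lit 192674361780) (nat_lit 40) (nat_lit 5) (nat_lit 43) (nat_lit 5) (nat_lit 41) (nat_lit 5) (nat_lit 406) (nat_lit 365) (nat_lit 129)))) (XT.nd (nat_lit 78) (nat_lit 152) (nat_lit 0) (XT.lf (nat_lit 0) (nat_lit 82528246788) (nat_lit 152) (nat_lit 26188269448) (nat_lit 228) (nat_lit 221143873427) (nat_lit 38) (nat_lit 5) (nat_lit 40) (nat_lit 5) (nat_lit 41) (nat_lit 5) (nat_lit 407) (nat_lit 365) (nat_lit 128)) (XT.nd (nat_lit 78) (nat_lit 152) (nat_lit 0) (XT.lf (nat_lit 0) (nat_lit 181125730046) (nat_lit 228) (nat_lit 82052632158) (nat_lit 76) (nat_lit 77912932224) (nat_lit 38) (nat_lit 5) (nat_lit 41) (nat_lit 5) (nat_lit 39) (nat_lit 5) (nat_lit 408) (nat_lit 365) (nat_lit 127)) (XT.lf (nat_lit 0) (nat_lit 94072283195) (nat_lit 152) (nat_lit 164981075610) (nat_lit 228) (nat_lit 93735487958) (nat_lit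 36) (nat_lit 5) (nat_lit 38) (nat_lit 5) (nat_lit 39) (nat_lit 5) (nat_lit 409) (nat_lit 365) (nat_lit 126))))))) (XT.nd (nat_lit 43524) (nat_lit 0) (nat_lit 5168) (XT.nd (nat_lit 468) (nat_lit 304) (nat_lit 0) (XT.nd (nat_lit 234) (nat_lit 228) (nat_lit 0) (XT.nd (nat_lit 78) (nat_lit 152) (nat_lit 0) (XT.lf (nat_lit 0) (nat_lit 281851973375) (nat_lit 152) (nat_lit 60414905115) (nat_lit 228) (nat_lit 22734922795) (nat_lit 36) (nat_lit 5) (nat_lit 38) (nat_lit 5) (nat_lit 39) (nat_lit 5) (nat_lit 410) (nat_lit 365) (nat_lit 125)) (XT.nd (nat_lit 78) (nat_lit 0) (nat_lit 0) (XT.lf (nat_lit 0) (nat_lit 52587045511) (nat_lit 152) (nat_lit 274809433846) (nat_lit 76) (nat_lit 50266984826) (nat_lit 34) (nat_lit 5) (nat_lit 36) (nat_lit 5) (nat_lit 35) (nat_lit 5) (nat_lit 411) (nat_lit 365) (nat_lit 124)) (XT.lf (nat_lit 0) (nat_lit 133332657910) (nat_lit 152) (nat_lit 91229292003) (nat_lit 76)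 (nat_lit 166256545761) (nat_lit 34) (nat_lit 5) (nat_lit 36) (nat_lit 5) (nat_lit 35) (nat_lit 5) (nat_lit 412) (nat_lit 365) (nat_lit 123)))) (XT.nd (nat_lit 78) (nat_lit 76) (nat_lit 0) (XT.lf (nat_lit 0) (nat_lit 104886745161) (nat_lit 152) (nat_lit 114866298331) (nat_lit 228) (nat_lit 184796360653) (nat_lit 32) (nat_lit 5) (nat_lit 34) (nat_lit 5) (nat_lit 35) (nat_lit 5) (nat_lit 413) (nat_lit 365) (nat_lit 122)) (XT.nd (nat_lit 78) (nat_lit 76) (nat_lit 0) (XT.lf (nat_lit 0) (nat_lit 312069610563) (nat_lit 228) (nat_lit 104944124387) (nat_lit 76) (nat_lit 1874365014) (nat_lit 32) (nat_lit 5) (nat_lit 35) (nat_lit 5) (nat_lit 33) (nat_lit 4) (nat_lit 414) (nat_lit 365) (nat_lit 121)) (XT.lf (nat_lit 0) (nat_lit 100855140504) (nat_lit 76) (nat_lit 311604472272) (nat_lit 152) (nat_lit 21311237492) (nat_lit 31) (nat_lit 5) (nat_lit 32) (nat_lit 5) (nat_lit 33) (nat_lit 4) (nat_lit 415)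 (nat_lit 365) (nat_lit 120))))) (XT.nd (nat_lit 234) (nat_lit 76) (nat_lit 0) (XT.nd (nat_lit 78) (nat_lit 152) (nat_lit 0) (XT.lf (nat_lit 0) (nat_lit 68086202274) (nat_lit 152) (nat_lit 129819385383) (nat_lit 76) (nat_lit 251348382107) (nat_lit 30) (nat_lit 5) (nat_lit 32) (nat_lit 5) (nat_lit 31) (nat_lit 5) (nat_lit 416) (nat_lit 365) (nat_lit 119)) (XT.nd (nat_lit 78) (nat_lit 0) (nat_lit 0) (XT.lf (nat_lit 0) (nat_lit 85829334798) (nat_lit 152) (nat_lit 76747943771) (nat_lit 228) (nat_lit 302849500375) (nat_lit 28) (nat_lit 5) (nat_lit 30) (nat_lit 5) (nat_lit 31) (nat_lit 5) (nat_lit 417) (nat_lit 365) (nat_lit 118)) (XT.lf (nat_lit 0) (nat_lit 264815371144) (nat_lit 228) (nat_lit 166354887536) (nat_lit 76) (nat_lit 51086846806) (nat_lit 28) (nat_lit 5) (nat_lit 31) (nat_lit 5) (nat_lit 29) (nat_lit 4) (nat_lit 418) (nat_lit 365) (nat_lit 117)))) (XT.nd (nat_lit 78) (nat_lit 0) (nat_lit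 0) (XT.lf (nat_lit 0) (nat_lit 58152760342) (nat_lit 76) (nat_lit 316178628190) (nat_lit 152) (nat_lit 125489258838) (nat_lit 27) (nat_lit 5) (nat_lit 28) (nat_lit 5) (nat_lit 29) (nat_lit 4) (nat_lit 419) (nat_lit 365) (nat_lit 116)) (XT.nd (nat_lit 42666) (nat_lit 0) (nat_lit 5548) (XT.lf (nat_lit 0) (nat_lit 299661133637) (nat_lit 76) (nat_lit 192479304711) (nat_lit 152) (nat_lit 25981066448) (nat_lit 27) (nat_lit 5) (nat_lit 28) (nat_lit 5) (nat_lit 29) (nat_lit 4) (nat_lit 420) (nat_lit 365) (nat_lit 115)) (XT.lf (nat_lit 0) (nat_lit 5525980500) (nat_lit 836) (nat_lit 22740866768) (nat_lit 836) (nat_lit 22740866768) (nat_lit 100) (nat_lit 3) (nat_lit 111) (nat_lit 3) (nat_lit 111) (nat_lit 5) (nat_lit 366) (nat_lit 366) (nat_lit 168)))))) (XT.nd (nat_lit 468) (nat_lit 380) (nat_lit 0) (XT.nd (nat_lit 234) (nat_lit 0) (nat_lit 152) (XT.nd (nat_lit 78) (nat_lit 0) (nat_lit 76) (XT.lf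 (nat_lit 76) (nat_lit 2873621705) (nat_lit 0) (nat_lit 8505582743) (nat_lit 836) (nat_lit 93184055689) (nat_lit 101) (nat_lit 5) (nat_lit 100) (nat_lit 3) (nat_lit 111) (nat_lit 5) (nat_lit 367) (nat_lit 366) (nat_lit 167)) (XT.nd (nat_lit 78) (nat_lit 0) (nat_lit 0) (XT.lf (nat_lit 0) (nat_lit 13159852870) (nat_lit 760) (nat_lit 52641614620) (nat_lit 836) (nat_lit 41365164584) (nat_lit 101) (nat_lit 5) (nat_lit 111) (nat_lit 5) (nat_lit 112) (nat_lit 5) (nat_lit 368) (nat_lit 366) (nat_lit 166)) (XT.lf (nat_lit 0) (nat_lit 15168598437) (nat_lit 760) (nat_lit 1280848379) (nat_lit 836) (nat_lit 93443772947) (nat_lit 101) (nat_lit 5) (nat_lit 111) (nat_lit 5) (nat_lit 112) (nat_lit 5) (nat_lit 369) (nat_lit 366) (nat_lit 165)))) (XT.nd (nat_lit 78) (nat_lit 0) (nat_lit 0) (XT.lf (nat_lit 0) (nat_lit 18692735418) (nat_lit 760) (nat_lit 58891331400) (nat_lit 836) (nat_lit 35101322684) (nat_lit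 102) (nat_lit 5) (nat_lit 112) (nat_lit 5) (nat_lit 113) (nat_lit 5) (nat_lit 370) (nat_lit 366) (nat_lit 164)) (XT.nd (nat_lit 78) (nat_lit 0) (nat_lit 76) (XT.lf (nat_lit 0) (nat_lit 22684451923) (nat_lit 760) (nat_lit 4219152057) (nat_lit 836) (nat_lit 88698995470) (nat_lit 102) (nat_lit 5) (nat_lit 112) (nat_lit 5) (nat_lit 113) (nat_lit 5) (nat_lit 371) (nat_lit 366) (nat_lit 163)) (XT.lf (nat_lit 0) (nat_lit 28158129296) (nat_lit 760) (nat_lit 64102643315) (nat_lit 836) (nat_lit 26340778871) (nat_lit 103) (nat_lit 5) (nat_lit 113) (nat_lit 5) (nat_lit 114) (nat_lit 5) (nat_lit 372) (nat_lit 366) (nat_lit 162))))) (XT.nd (nat_lit 234) (nat_lit 608) (nat_lit 0) (XT.nd (nat_lit 78) (nat_lit 0) (nat_lit 76) (XT.lf (nat_lit 0) (nat_lit 34418849753) (nat_lit 760) (nat_lit 5889972913) (nat_lit 836) (nat_lit 81415960809) (nat_lit 103) (nat_lit 5) (nat_lit 113) (nat_lit 5) (nat_lit 114) (nat_lit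 5) (nat_lit 373) (nat_lit 366) (nat_lit 161)) (XT.nd (nat_lit 78) (nat_lit 0) (nat_lit 0) (XT.lf (nat_lit 0) (nat_lit 42120112291) (nat_lit 760) (nat_lit 68137225341) (nat_lit 836) (nat_lit 14690464440) (nat_lit 104) (nat_lit 5) (nat_lit 114) (nat_lit 5) (nat_lit 115) (nat_lit 5) (nat_lit 374) (nat_lit 366) (nat_lit 160)) (XT.lf (nat_lit 0) (nat_lit 50968341193) (nat_lit 760) (nat_lit 6139011472) (nat_lit 836) (nat_lit 71186524063) (nat_lit 104) (nat_lit 5) (nat_lit 114) (nat_lit 5) (nat_lit 115) (nat_lit 5) (nat_lit 375) (nat_lit 366) (nat_lit 159)))) (XT.nd (nat_lit 78) (nat_lit 684) (nat_lit 0) (XT.lf (nat_lit 76) (nat_lit 60908339223) (nat_lit 0) (nat_lit 301323699) (nat_lit 836) (nat_lit 70550058405) (nat_lit 105) (nat_lit 5) (nat_lit 104) (nat_lit 5) (nat_lit 115) (nat_lit 5) (nat_lit 376) (nat_lit 366) (nat_lit 158)) (XT.nd (nat_lit 78) (nat_lit 760) (nat_lit 0) (XT.lf (nat_lit 0)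 (nat_lit 72995005665) (nat_lit 760) (nat_lit 4800947383) (nat_lit 76) (nat_lit 57551307625) (nat_lit 105) (nat_lit 5) (nat_lit 115) (nat_lit 5) (nat_lit 106) (nat_lit 5) (nat_lit 377) (nat_lit 366) (nat_lit 157)) (XT.lf (nat_lit 0) (nat_lit 66681059283) (nat_lit 760) (nat_lit 19734328059) (nat_lit 836) (nat_lit 52646501307) (nat_lit 95) (nat_lit 5) (nat_lit 105) (nat_lit 5) (nat_lit 106) (nat_lit 5) (nat_lit 378) (nat_lit 366) (nat_lit 156))))))))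
noncomputable def xc237 : XT := (XT.nd (nat_lit 1794) (nat_lit 1672) (nat_lit 0) (XT.nd (nat_lit 858) (nat_lit 1520) (nat_lit 0) (XT.nd (nat_lit 390) (nat_lit 836) (nat_lit 0) (XT.nd (nat_lit 156) (nat_lit 760) (nat_lit 0) (XT.nd (nat_lit 78) (nat_lit 380) (nat_lit 0) (XT.lf (nat_lit 0) (nat_lit 101232911633) (nat_lit 836) (nat_lit 1699622303) (nat_lit 76) (nat_lit 39993408152) (nat_lit 95) (nat_lit 5) (nat_lit 106) (nat_lit 5) (nat_lit 96) (nat_lit 5) (nat_lit 379) (nat_lit 366) (nat_lit 155)) (XT.lf (nat_lit 0) (nat_lit 74578903845) (nat_lit 380) (nat_lit 43700081392) (nat_lit 456) (nat_lit 28629829537) (nat_lit 90) (nat_lit 5) (nat_lit 95) (nat_lit 5) (nat_lit 96) (nat_lit 5) (nat_lit 380) (nat_lit 366) (nat_lit 154))) (XT.nd (nat_lit 78) (nat_lit 456) (nat_lit 0) (XT.lf (nat_lit 0) (nat_lit 3462347179) (nat_lit 304) (nat_lit 133086852455) (nat_lit 380) (nat_lit 14523039820) (nat_lit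 86) (nat_lit 5) (nat_lit 90) (nat_lit 5) (nat_lit 91) (nat_lit 5) (nat_lit 381) (nat_lit 366) (nat_lit 153)) (XT.nd (nat_lit 78) (nat_lit 380) (nat_lit 0) (XT.lf (nat_lit 0) (nat_lit 2241039123) (nat_lit 380) (nat_lit 70568457921) (nat_lit 76) (nat_lit 82536052728) (nat_lit 85) (nat_lit 5) (nat_lit 90) (nat_lit 5) (nat_lit 86) (nat_lit 5) (nat_lit 382) (nat_lit 366) (nat_lit 152)) (XT.lf (nat_lit 0) (nat_lit 10420260131) (nat_lit 380) (nat_lit 9097476808) (nat_lit 456) (nat_lit 140294760509) (nat_lit 80) (nat_lit 5) (nat_lit 85) (nat_lit 5) (nat_lit 86) (nat_lit 5) (nat_lit 383) (nat_lit 366) (nat_lit 151))))) (XT.nd (nat_lit 234) (nat_lit 532) (nat_lit 0) (XT.nd (nat_lit 78) (nat_lit 304) (nat_lit 0) (XT.lf (nat_lit 0) (nat_lit 39775195834) (nat_lit 456) (nat_lit 67456884715) (nat_lit 76) (nat_lit 57164865828) (nat_lit 80) (nat_lit 5) (nat_lit 86) (nat_lit 5) (nat_lit 81) (nat_lit 5) (nat_lit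 384) (nat_lit 366) (nat_lit 150)) (XT.nd (nat_lit 78) (nat_lit 0) (nat_lit 0) (XT.lf (nat_lit 0) (nat_lit 19035125021) (nat_lit 304) (nat_lit 42456543724) (nat_lit 380) (nat_lit 107696642126) (nat_lit 76) (nat_lit 5) (nat_lit 80) (nat_lit 5) (nat_lit 81) (nat_lit 5) (nat_lit 385) (nat_lit 366) (nat_lit 149)) (XT.lf (nat_lit 0) (nat_lit 85853952583) (nat_lit 380) (nat_lit 62386413289) (nat_lit 76) (nat_lit 25900878515) (nat_lit 76) (nat_lit 5) (nat_lit 81) (nat_lit 5) (nat_lit 77) (nat_lit 5) (nat_lit 386) (nat_lit 366) (nat_lit 148)))) (XT.nd (nat_lit 78) (nat_lit 228) (nat_lit 0) (XT.lf (nat_lit 0) (nat_lit 30033747045) (nat_lit 304) (nat_lit 82565347982) (nat_lit 380) (nat_lit 66684492485) (nat_lit 72) (nat_lit 5) (nat_lit 76) (nat_lit 5) (nat_lit 77) (nat_lit 5) (nat_lit 387) (nat_lit 366) (nat_lit 147)) (XT.nd (nat_lit 78) (nat_lit 228) (nat_lit 0) (XT.lf (nat_lit 0) (nat_lit 129240624762)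 (nat_lit 304) (nat_lit 12497243610) (nat_lit 380) (nat_lit 42892360882) (nat_lit 72) (nat_lit 5) (nat_lit 76) (nat_lit 5) (nat_lit 77) (nat_lit 5) (nat_lit 388) (nat_lit 366) (nat_lit 146)) (XT.lf (nat_lit 0) (nat_lit 43605548770) (nat_lit 228) (nat_lit 130362214146) (nat_lit 304) (nat_lit 16194731180) (nat_lit 69) (nat_lit 5) (nat_lit 72) (nat_lit 5) (nat_lit 73) (nat_lit 5) (nat_lit 389) (nat_lit 366) (nat_lit 145)))))) (XT.nd (nat_lit 468) (nat_lit 684) (nat_lit 0) (XT.nd (nat_lit 234) (nat_lit 456) (nat_lit 0) (XT.nd (nat_lit 78) (nat_lit 304) (nat_lit 0) (XT.lf (nat_lit 0) (nat_lit 12617036736) (nat_lit 304) (nat_lit 46856285731) (nat_lit 76) (nat_lit 136430901813) (nat_lit 68) (nat_lit 5) (nat_lit 72) (nat_lit 5) (nat_lit 69) (nat_lit 5) (nat_lit 390) (nat_lit 366) (nat_lit 144)) (XT.nd (nat_lit 78) (nat_lit 0) (nat_lit 0) (XT.lf (nat_lit 0) (nat_lit 43506577614) (nat_lit 380) (nat_lit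 142659451977) (nat_lit 76) (nat_lit 15694665448) (nat_lit 64) (nat_lit 5) (nat_lit 69) (nat_lit 5) (nat_lit 65) (nat_lit 5) (nat_lit 391) (nat_lit 366) (nat_lit 143)) (XT.lf (nat_lit 0) (nat_lit 77721961062) (nat_lit 380) (nat_lit 36875101149) (nat_lit 76) (nat_lit 93428858964) (nat_lit 64) (nat_lit 5) (nat_lit 69) (nat_lit 5) (nat_lit 65) (nat_lit 5) (nat_lit 392) (nat_lit 366) (nat_lit 142)))) (XT.nd (nat_lit 78) (nat_lit 228) (nat_lit 0) (XT.lf (nat_lit 0) (nat_lit 76651606874) (nat_lit 228) (nat_lit 38193110734) (nat_lit 304) (nat_lit 99594860923) (nat_lit 61) (nat_lit 5) (nat_lit 64) (nat_lit 5) (nat_lit 65) (nat_lit 5) (nat_lit 393) (nat_lit 366) (nat_lit 141)) (XT.nd (nat_lit 78) (nat_lit 228) (nat_lit 0) (XT.lf (nat_lit 0) (nat_lit 155114430254) (nat_lit 304) (nat_lit 24674476962) (nat_lit 76) (nat_lit 41320470731) (nat_lit 61) (nat_lit 5) (nat_lit 65) (nat_lit 5) (nat_lit 62) (nat_lit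 5) (nat_lit 394) (nat_lit 366) (nat_lit 140)) (XT.lf (nat_lit 0) (nat_lit 96558878591) (nat_lit 228) (nat_lit 102972288471) (nat_lit 304) (nat_lit 28474823443) (nat_lit 58) (nat_lit 5) (nat_lit 61) (nat_lit 5) (nat_lit 62) (nat_lit 5) (nat_lit 395) (nat_lit 366) (nat_lit 139))))) (XT.nd (nat_lit 234) (nat_lit 152) (nat_lit 0) (XT.nd (nat_lit 78) (nat_lit 456) (nat_lit 0) (XT.lf (nat_lit 0) (nat_lit 10996350130) (nat_lit 304) (nat_lit 10693544450) (nat_lit 76) (nat_lit 213527783936) (nat_lit 57) (nat_lit 5) (nat_lit 61) (nat_lit 5) (nat_lit 58) (nat_lit 5) (nat_lit 396) (nat_lit 366) (nat_lit 138)) (XT.nd (nat_lit 78) (nat_lit 228) (nat_lit 0) (XT.lf (nat_lit 0) (nat_lit 54381111907) (nat_lit 304) (nat_lit 124251452623) (nat_lit 76) (nat_lit 63989197949) (nat_lit 54) (nat_lit 5) (nat_lit 58) (nat_lit 5) (nat_lit 55) (nat_lit 5) (nat_lit 397) (nat_lit 366) (nat_lit 137)) (XT.lf (nat_lit 0)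 (nat_lit 3629048732) (nat_lit 228) (nat_lit 96902241136) (nat_lit 304) (nat_lit 149834951948) (nat_lit 51) (nat_lit 5) (nat_lit 54) (nat_lit 5) (nat_lit 55) (nat_lit 5) (nat_lit 398) (nat_lit 366) (nat_lit 136)))) (XT.nd (nat_lit 78) (nat_lit 152) (nat_lit 0) (XT.lf (nat_lit 0) (nat_lit 142217128356) (nat_lit 228) (nat_lit 8875987156) (nat_lit 304) (nat_lit 107299622747) (nat_lit 51) (nat_lit 5) (nat_lit 54) (nat_lit 5) (nat_lit 55) (nat_lit 5) (nat_lit 399) (nat_lit 366) (nat_lit 135)) (XT.nd (nat_lit 78) (nat_lit 0) (nat_lit 0) (XT.lf (nat_lit 0) (nat_lit 20257780431) (nat_lit 152) (nat_lit 185545892206) (nat_lit 228) (nat_lit 60935854952) (nat_lit 49) (nat_lit 5) (nat_lit 51) (nat_lit 5) (nat_lit 52) (nat_lit 5) (nat_lit 400) (nat_lit 366) (nat_lit 134)) (XT.lf (nat_lit 0) (nat_lit 167395705603) (nat_lit 152) (nat_lit 97964591241) (nat_lit 228) (nat_lit 10037832652) (nat_lit 49) (nat_lit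 5) (nat_lit 51) (nat_lit 5) (nat_lit 52) (nat_lit 5) (nat_lit 401) (nat_lit 366) (nat_lit 133))))))) (XT.nd (nat_lit 936) (nat_lit 532) (nat_lit 0) (XT.nd (nat_lit 468) (nat_lit 456) (nat_lit 0) (XT.nd (nat_lit 234) (nat_lit 228) (nat_lit 0) (XT.nd (nat_lit 78) (nat_lit 152) (nat_lit 0) (XT.lf (nat_lit 0) (nat_lit 37937253534) (nat_lit 228) (nat_lit 4670801592) (nat_lit 304) (nat_lit 241818112763) (nat_lit 45) (nat_lit 5) (nat_lit 48) (nat_lit 5) (nat_lit 49) (nat_lit 5) (nat_lit 402) (nat_lit 366) (nat_lit 132)) (XT.nd (nat_lit 78) (nat_lit 152) (nat_lit 0) (XT.lf (nat_lit 0) (nat_lit 100864333713) (nat_lit 304) (nat_lit 100541828658) (nat_lit 76) (nat_lit 92325446489) (nat_lit 45) (nat_lit 5) (nat_lit 49) (nat_lit 5) (nat_lit 46) (nat_lit 5) (nat_lit 403) (nat_lit 366) (nat_lit 131)) (XT.lf (nat_lit 0) (nat_lit 54365930375) (nat_lit 152) (nat_lit 108592769207) (nat_lit 228) (nat_lit 140497358691)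 (nat_lit 43) (nat_lit 5) (nat_lit 45) (nat_lit 5) (nat_lit 46) (nat_lit 5) (nat_lit 404) (nat_lit 366) (nat_lit 130)))) (XT.nd (nat_lit 78) (nat_lit 228) (nat_lit 0) (XT.lf (nat_lit 0) (nat_lit 220509505475) (nat_lit 152) (nat_lit 9350903476) (nat_lit 228) (nat_lit 83721189999) (nat_lit 43) (nat_lit 5) (nat_lit 45) (nat_lit 5) (nat_lit 46) (nat_lit 5) (nat_lit 405) (nat_lit 366) (nat_lit 129)) (XT.nd (nat_lit 78) (nat_lit 76) (nat_lit 0) (XT.lf (nat_lit 0) (nat_lit 71556006131) (nat_lit 152) (nat_lit 231149214031) (nat_lit 228) (nat_lit 21378295733) (nat_lit 41) (nat_lit 5) (nat_lit 43) (nat_lit 5) (nat_lit 44) (nat_lit 5) (nat_lit 406) (nat_lit 366) (nat_lit 128)) (XT.lf (nat_lit 0) (nat_lit 44426111458) (nat_lit 228) (nat_lit 88252481031) (nat_lit 76) (nat_lit 202309761305) (nat_lit 40) (nat_lit 5) (nat_lit 43) (nat_lit 5) (nat_lit 41) (nat_lit 5) (nat_lit 407) (nat_lit 366) (nat_lit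 127))))) (XT.nd (nat_lit 234) (nat_lit 152) (nat_lit 0) (XT.nd (nat_lit 78) (nat_lit 152) (nat_lit 0) (XT.lf (nat_lit 0) (nat_lit 86659328024) (nat_lit 152) (nat_lit 27495864718) (nat_lit 228) (nat_lit 232198072464) (nat_lit 38) (nat_lit 5) (nat_lit 40) (nat_lit 5) (nat_lit 41) (nat_lit 5) (nat_lit 408) (nat_lit 366) (nat_lit 126)) (XT.nd (nat_lit 78) (nat_lit 152) (nat_lit 0) (XT.lf (nat_lit 0) (nat_lit 190184758530) (nat_lit 228) (nat_lit 86150707147) (nat_lit 76) (nat_lit 81810255034) (nat_lit 38) (nat_lit 5) (nat_lit 41) (nat_lit 5) (nat_lit 39) (nat_lit 5) (nat_lit 409) (nat_lit 366) (nat_lit 125)) (XT.lf (nat_lit 0) (nat_lit 98780380481) (nat_lit 152) (nat_lit 173228327670) (nat_lit 228) (nat_lit 98419445605) (nat_lit 36) (nat_lit 5) (nat_lit 38) (nat_lit 5) (nat_lit 39) (nat_lit 5) (nat_lit 410) (nat_lit 366) (nat_lit 124)))) (XT.nd (nat_lit 78) (nat_lit 152) (nat_lit 0) (XT.lf (nat_lit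 0) (nat_lit 295948841686) (nat_lit 152) (nat_lit 63433934447) (nat_lit 228) (nat_lit 23868986315) (nat_lit 36) (nat_lit 5) (nat_lit 38) (nat_lit 5) (nat_lit 39) (nat_lit 5) (nat_lit 411) (nat_lit 366) (nat_lit 123)) (XT.nd (nat_lit 78) (nat_lit 0) (nat_lit 0) (XT.lf (nat_lit 0) (nat_lit 55218965079) (nat_lit 152) (nat_lit 288545518309) (nat_lit 76) (nat_lit 52782024538) (nat_lit 34) (nat_lit 5) (nat_lit 36) (nat_lit 5) (nat_lit 35) (nat_lit 5) (nat_lit 412) (nat_lit 366) (nat_lit 122)) (XT.lf (nat_lit 0) (nat_lit 140001735846) (nat_lit 152) (nat_lit 95786578290) (nat_lit 76) (nat_lit 174570983020) (nat_lit 34) (nat_lit 5) (nat_lit 36) (nat_lit 5) (nat_lit 35) (nat_lit 5) (nat_lit 413) (nat_lit 366) (nat_lit 121)))))) (XT.nd (nat_lit 468) (nat_lit 76) (nat_lit 0) (XT.nd (nat_lit 234) (nat_lit 228) (nat_lit 0) (XT.nd (nat_lit 78) (nat_lit 76) (nat_lit 0) (XT.lf (nat_lit 0) (nat_lit 110135193341)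 (nat_lit 152) (nat_lit 120607895119) (nat_lit 228) (nat_lit 194033665254) (nat_lit 32) (nat_lit 5) (nat_lit 34) (nat_lit 5) (nat_lit 35) (nat_lit 5) (nat_lit 414) (nat_lit 366) (nat_lit 120)) (XT.nd (nat_lit 78) (nat_lit 76) (nat_lit 0) (XT.lf (nat_lit 0) (nat_lit 327675395489) (nat_lit 228) (nat_lit 110187326097) (nat_lit 76) (nat_lit 1969667206) (nat_lit 32) (nat_lit 5) (nat_lit 35) (nat_lit 5) (nat_lit 33) (nat_lit 4) (nat_lit 415) (nat_lit 366) (nat_lit 119)) (XT.lf (nat_lit 0) (nat_lit 105901837451) (nat_lit 76) (nat_lit 327183012142) (nat_lit 152) (nat_lit 22374429473) (nat_lit 31) (nat_lit 5) (nat_lit 32) (nat_lit 5) (nat_lit 33) (nat_lit 4) (nat_lit 416) (nat_lit 366) (nat_lit 118)))) (XT.nd (nat_lit 78) (nat_lit 152) (nat_lit 0) (XT.lf (nat_lit 0) (nat_lit 71492697190) (nat_lit 152) (nat_lit 136306529285) (nat_lit 76) (nat_lit 263917331716) (nat_lit 30) (nat_lit 5) (nat_lit 32)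 (nat_lit 5) (nat_lit 31) (nat_lit 5) (nat_lit 417) (nat_lit 366) (nat_lit 117)) (XT.nd (nat_lit 78) (nat_lit 0) (nat_lit 0) (XT.lf (nat_lit 0) (nat_lit 90124565206) (nat_lit 152) (nat_lit 80583716816) (nat_lit 228) (nat_lit 317989728110) (nat_lit 28) (nat_lit 5) (nat_lit 30) (nat_lit 5) (nat_lit 31) (nat_lit 5) (nat_lit 418) (nat_lit 366) (nat_lit 116)) (XT.lf (nat_lit 0) (nat_lit 278058201493) (nat_lit 228) (nat_lit 174668968990) (nat_lit 76) (nat_lit 53642686441) (nat_lit 28) (nat_lit 5) (nat_lit 31) (nat_lit 5) (nat_lit 29) (nat_lit 4) (nat_lit 419) (nat_lit 366) (nat_lit 115))))) (XT.nd (nat_lit 42900) (nat_lit 0) (nat_lit 5624) (XT.nd (nat_lit 42744) (nat_lit 0) (nat_lit 5548) (XT.lf (nat_lit 0) (nat_lit 61064002203) (nat_lit 76) (nat_lit 331985975634) (nat_lit 152) (nat_lit 131761600198) (nat_lit 27) (nat_lit 5) (nat_lit 28) (nat_lit 5) (nat_lit 29) (nat_lit 4) (nat_lit 420) (nat_lit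 366) (nat_lit 114)) (XT.nd (nat_lit 78) (nat_lit 0) (nat_lit 0) (XT.lf (nat_lit 0) (nat_lit 5808263748) (nat_lit 836) (nat_lit 23874765231) (nat_lit 836) (nat_lit 23874765231) (nat_lit 100) (nat_lit 3) (nat_lit 111) (nat_lit 3) (nat_lit 111) (nat_lit 5) (nat_lit 367) (nat_lit 367) (nat_lit 166)) (XT.lf (nat_lit 76) (nat_lit 3023491095) (nat_lit 0) (nat_lit 8936168714) (nat_lit 836) (nat_lit 97831176546) (nat_lit 101) (nat_lit 5) (nat_lit 100) (nat_lit 3) (nat_lit 111) (nat_lit 5) (nat_lit 368) (nat_lit 367) (nat_lit 165)))) (XT.nd (nat_lit 78) (nat_lit 0) (nat_lit 0) (XT.lf (nat_lit 0) (nat_lit 13828714354) (nat_lit 760) (nat_lit 55267163972) (nat_lit 836) (nat_lit 43428530450) (nat_lit 101) (nat_lit 5) (nat_lit 111) (nat_lit 5) (nat_lit 112) (nat_lit 5) (nat_lit 369) (nat_lit 367) (nat_lit 164)) (XT.nd (nat_lit 78) (nat_lit 0) (nat_lit 76) (XT.lf (nat_lit 0) (nat_lit 15937379636) (nat_lit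 760) (nat_lit 1338670437) (nat_lit 836) (nat_lit 98111302201) (nat_lit 101) (nat_lit 5) (nat_lit 111) (nat_lit 5) (nat_lit 112) (nat_lit 5) (nat_lit 370) (nat_lit 367) (nat_lit 163)) (XT.lf (nat_lit 0) (nat_lit 19637266242) (nat_lit 760) (nat_lit 61829209991) (nat_lit 836) (nat_lit 36852677649) (nat_lit 102) (nat_lit 5) (nat_lit 112) (nat_lit 5) (nat_lit 113) (nat_lit 5) (nat_lit 371) (nat_lit 367) (nat_lit 162))))))))
noncomputable def xc238 : XT := (XT.nd (nat_lit 1794) (nat_lit 2356) (nat_lit 0) (XT.nd (nat_lit 858) (nat_lit 1900) (nat_lit 0) (XT.nd (nat_lit 390) (nat_lit 1216) (nat_lit 0) (XT.nd (nat_lit 156) (nat_lit 0) (nat_lit 76) (XT.nd (nat_lit 78) (nat_lit 0) (nat_lit 76) (XT.lf (nat_lit 0) (nat_lit 23828097427) (nat_lit 760) (nat_lit 4423740155) (nat_lit 836) (nat_lit 93130410797) (nat_lit 102) (nat_lit 5) (nat_lit 112) (nat_lit 5) (nat_lit 113) (nat_lit 5) (nat_lit 372) (nat_lit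 367) (nat_lit 161)) (XT.lf (nat_lit 0) (nat_lit 29575064002) (nat_lit 760) (nat_lit 67301001882) (nat_lit 836) (nat_lit 27655102332) (nat_lit 103) (nat_lit 5) (nat_lit 113) (nat_lit 5) (nat_lit 114) (nat_lit 5) (nat_lit 373) (nat_lit 367) (nat_lit 160))) (XT.nd (nat_lit 78) (nat_lit 0) (nat_lit 76) (XT.lf (nat_lit 0) (nat_lit 36148390566) (nat_lit 760) (nat_lit 6178020512) (nat_lit 836) (nat_lit 85484172675) (nat_lit 103) (nat_lit 5) (nat_lit 113) (nat_lit 5) (nat_lit 114) (nat_lit 5) (nat_lit 374) (nat_lit 367) (nat_lit 159)) (XT.nd (nat_lit 78) (nat_lit 0) (nat_lit 0) (XT.lf (nat_lit 0) (nat_lit 44234375576) (nat_lit 760) (nat_lit 71537286357) (nat_lit 836) (nat_lit 15423108807) (nat_lit 104) (nat_lit 5) (nat_lit 114) (nat_lit 5) (nat_lit 115) (nat_lit 5) (nat_lit 375) (nat_lit 367) (nat_lit 158)) (XT.lf (nat_lit 0) (nat_lit 53524622701) (nat_lit 760) (nat_lit 6439485615) (nat_lit 836)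 (nat_lit 74744060881) (nat_lit 104) (nat_lit 5) (nat_lit 114) (nat_lit 5) (nat_lit 115) (nat_lit 5) (nat_lit 376) (nat_lit 367) (nat_lit 157))))) (XT.nd (nat_lit 234) (nat_lit 684) (nat_lit 0) (XT.nd (nat_lit 78) (nat_lit 684) (nat_lit 0) (XT.lf (nat_lit 76) (nat_lit 63960128155) (nat_lit 0) (nat_lit 317607348) (nat_lit 836) (nat_lit 74069584661) (nat_lit 105) (nat_lit 5) (nat_lit 104) (nat_lit 5) (nat_lit 115) (nat_lit 5) (nat_lit 377) (nat_lit 367) (nat_lit 156)) (XT.nd (nat_lit 78) (nat_lit 760) (nat_lit 0) (XT.lf (nat_lit 0) (nat_lit 76651965879) (nat_lit 760) (nat_lit 5034539316) (nat_lit 76) (nat_lit 60427750628) (nat_lit 105) (nat_lit 5) (nat_lit 115) (nat_lit 5) (nat_lit 106) (nat_lit 5) (nat_lit 378) (nat_lit 367) (nat_lit 155)) (XT.lf (nat_lit 0) (nat_lit 70021463563) (nat_lit 760) (nat_lit 20721658909) (nat_lit 836) (nat_lit 55271505287) (nat_lit 95) (nat_lit 5) (nat_lit 105)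 (nat_lit 5) (nat_lit 106) (nat_lit 5) (nat_lit 379) (nat_lit 367) (nat_lit 154)))) (XT.nd (nat_lit 78) (nat_lit 684) (nat_lit 0) (XT.lf (nat_lit 0) (nat_lit 106301182138) (nat_lit 836) (nat_lit 1778207007) (nat_lit 76) (nat_lit 41992512102) (nat_lit 95) (nat_lit 5) (nat_lit 106) (nat_lit 5) (nat_lit 96) (nat_lit 5) (nat_lit 380) (nat_lit 367) (nat_lit 153)) (XT.nd (nat_lit 78) (nat_lit 304) (nat_lit 0) (XT.lf (nat_lit 0) (nat_lit 78314142281) (nat_lit 380) (nat_lit 45885199924) (nat_lit 456) (nat_lit 30054586541) (nat_lit 90) (nat_lit 5) (nat_lit 95) (nat_lit 5) (nat_lit 96) (nat_lit 5) (nat_lit 381) (nat_lit 367) (nat_lit 152)) (XT.lf (nat_lit 0) (nat_lit 3641979532) (nat_lit 304) (nat_lit 139740882676) (nat_lit 380) (nat_lit 15242673012) (nat_lit 86) (nat_lit 5) (nat_lit 90) (nat_lit 5) (nat_lit 91) (nat_lit 5) (nat_lit 382) (nat_lit 367) (nat_lit 151)))))) (XT.nd (nat_lit 468) (nat_lit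 836) (nat_lit 0) (XT.nd (nat_lit 234) (nat_lit 608) (nat_lit 0) (XT.nd (nat_lit 78) (nat_lit 380) (nat_lit 0) (XT.lf (nat_lit 0) (nat_lit 2359100753) (nat_lit 380) (nat_lit 74090471842) (nat_lit 76) (nat_lit 86662948670) (nat_lit 85) (nat_lit 5) (nat_lit 90) (nat_lit 5) (nat_lit 86) (nat_lit 5) (nat_lit 383) (nat_lit 367) (nat_lit 150)) (XT.nd (nat_lit 78) (nat_lit 0) (nat_lit 0) (XT.lf (nat_lit 0) (nat_lit 10947578742) (nat_lit 380) (nat_lit 9551866991) (nat_lit 456) (nat_lit 147303380240) (nat_lit 80) (nat_lit 5) (nat_lit 85) (nat_lit 5) (nat_lit 86) (nat_lit 5) (nat_lit 384) (nat_lit 367) (nat_lit 149)) (XT.lf (nat_lit 0) (nat_lit 41769507529) (nat_lit 456) (nat_lit 70823448569) (nat_lit 76) (nat_lit 60023555004) (nat_lit 80) (nat_lit 5) (nat_lit 86) (nat_lit 5) (nat_lit 81) (nat_lit 5) (nat_lit 385) (nat_lit 367) (nat_lit 148)))) (XT.nd (nat_lit 78) (nat_lit 304) (nat_lit 0) (XT.lf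 (nat_lit 0) (nat_lit 19993060357) (nat_lit 304) (nat_lit 44578575824) (nat_lit 380) (nat_lit 113075816271) (nat_lit 76) (nat_lit 5) (nat_lit 80) (nat_lit 5) (nat_lit 81) (nat_lit 5) (nat_lit 386) (nat_lit 367) (nat_lit 147)) (XT.nd (nat_lit 78) (nat_lit 304) (nat_lit 0) (XT.lf (nat_lit 0) (nat_lit 90151789653) (nat_lit 380) (nat_lit 65499600017) (nat_lit 76) (nat_lit 27196655429) (nat_lit 76) (nat_lit 5) (nat_lit 81) (nat_lit 5) (nat_lit 77) (nat_lit 5) (nat_lit 387) (nat_lit 367) (nat_lit 146)) (XT.lf (nat_lit 0) (nat_lit 31541469399) (nat_lit 304) (nat_lit 86692569308) (nat_lit 380) (nat_lit 70013474415) (nat_lit 72) (nat_lit 5) (nat_lit 76) (nat_lit 5) (nat_lit 77) (nat_lit 5) (nat_lit 388) (nat_lit 367) (nat_lit 145))))) (XT.nd (nat_lit 234) (nat_lit 532) (nat_lit 0) (XT.nd (nat_lit 78) (nat_lit 304) (nat_lit 0) (XT.lf (nat_lit 0) (nat_lit 135708403621) (nat_lit 304) (nat_lit 13121109530)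 (nat_lit 380) (nat_lit 45031985884) (nat_lit 72) (nat_lit 5) (nat_lit 76) (nat_lit 5) (nat_lit 77) (nat_lit 5) (nat_lit 389) (nat_lit 367) (nat_lit 144)) (XT.nd (nat_lit 78) (nat_lit 76) (nat_lit 0) (XT.lf (nat_lit 0) (nat_lit 45791703605) (nat_lit 228) (nat_lit 136879079138) (nat_lit 304) (nat_lit 16999600556) (nat_lit 69) (nat_lit 5) (nat_lit 72) (nat_lit 5) (nat_lit 73) (nat_lit 5) (nat_lit 390) (nat_lit 367) (nat_lit 143)) (XT.lf (nat_lit 0) (nat_lit 13252375624) (nat_lit 304) (nat_lit 49193350581) (nat_lit 76) (nat_lit 143253481383) (nat_lit 68) (nat_lit 5) (nat_lit 72) (nat_lit 5) (nat_lit 69) (nat_lit 5) (nat_lit 391) (nat_lit 367) (nat_lit 142)))) (XT.nd (nat_lit 78) (nat_lit 228) (nat_lit 0) (XT.lf (nat_lit 0) (nat_lit 45686288412) (nat_lit 380) (nat_lit 149786566622) (nat_lit 76) (nat_lit 16480652277) (nat_lit 64) (nat_lit 5) (nat_lit 69) (nat_lit 5) (nat_lit 65) (nat_lit 5) (nat_lit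 392) (nat_lit 367) (nat_lit 141)) (XT.nd (nat_lit 78) (nat_lit 228) (nat_lit 0) (XT.lf (nat_lit 0) (nat_lit 81612232370) (nat_lit 380) (nat_lit 38713277202) (nat_lit 76) (nat_lit 98101495776) (nat_lit 64) (nat_lit 5) (nat_lit 69) (nat_lit 5) (nat_lit 65) (nat_lit 5) (nat_lit 393) (nat_lit 367) (nat_lit 140)) (XT.lf (nat_lit 0) (nat_lit 80489676237) (nat_lit 228) (nat_lit 40101337479) (nat_lit 304) (nat_lit 104570337661) (nat_lit 61) (nat_lit 5) (nat_lit 64) (nat_lit 5) (nat_lit 65) (nat_lit 5) (nat_lit 394) (nat_lit 367) (nat_lit 139))))))) (XT.nd (nat_lit 936) (nat_lit 988) (nat_lit 0) (XT.nd (nat_lit 468) (nat_lit 608) (nat_lit 0) (XT.nd (nat_lit 234) (nat_lit 456) (nat_lit 0) (XT.nd (nat_lit 78) (nat_lit 304) (nat_lit 0) (XT.lf (nat_lit 0) (nat_lit 162874039895) (nat_lit 304) (nat_lit 25902798150) (nat_lit 76) (nat_lit 43387811469) (nat_lit 61) (nat_lit 5) (nat_lit 65) (nat_lit 5) (nat_lit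 62) (nat_lit 5) (nat_lit 395) (nat_lit 367) (nat_lit 138)) (XT.nd (nat_lit 78) (nat_lit 76) (nat_lit 0) (XT.lf (nat_lit 0) (nat_lit 101392138041) (nat_lit 228) (nat_lit 108119373344) (nat_lit 304) (nat_lit 29894586564) (nat_lit 58) (nat_lit 5) (nat_lit 61) (nat_lit 5) (nat_lit 62) (nat_lit 5) (nat_lit 396) (nat_lit 367) (nat_lit 137)) (XT.lf (nat_lit 0) (nat_lit 11549834997) (nat_lit 304) (nat_lit 11223035488) (nat_lit 76) (nat_lit 224205506063) (nat_lit 57) (nat_lit 5) (nat_lit 61) (nat_lit 5) (nat_lit 58) (nat_lit 5) (nat_lit 397) (nat_lit 367) (nat_lit 136)))) (XT.nd (nat_lit 78) (nat_lit 228) (nat_lit 0) (XT.lf (nat_lit 0) (nat_lit 57103763782) (nat_lit 304) (nat_lit 130458765583) (nat_lit 76) (nat_lit 67190139019) (nat_lit 54) (nat_lit 5) (nat_lit 58) (nat_lit 5) (nat_lit 55) (nat_lit 5) (nat_lit 398) (nat_lit 367) (nat_lit 135)) (XT.nd (nat_lit 78) (nat_lit 0) (nat_lit 0) (XT.lf (nat_lit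 0) (nat_lit 3815676007) (nat_lit 228) (nat_lit 101745684176) (nat_lit 304) (nat_lit 157323016142) (nat_lit 51) (nat_lit 5) (nat_lit 54) (nat_lit 5) (nat_lit 55) (nat_lit 5) (nat_lit 399) (nat_lit 367) (nat_lit 134)) (XT.lf (nat_lit 0) (nat_lit 149332913191) (nat_lit 228) (nat_lit 9318196974) (nat_lit 304) (nat_lit 112661095881) (nat_lit 51) (nat_lit 5) (nat_lit 54) (nat_lit 5) (nat_lit 55) (nat_lit 5) (nat_lit 400) (nat_lit 367) (nat_lit 133))))) (XT.nd (nat_lit 234) (nat_lit 152) (nat_lit 0) (XT.nd (nat_lit 78) (nat_lit 304) (nat_lit 0) (XT.lf (nat_lit 0) (nat_lit 21275660360) (nat_lit 152) (nat_lit 194821477351) (nat_lit 228) (nat_lit 63979200109) (nat_lit 49) (nat_lit 5) (nat_lit 51) (nat_lit 5) (nat_lit 52) (nat_lit 5) (nat_lit 401) (nat_lit 367) (nat_lit 132)) (XT.nd (nat_lit 78) (nat_lit 304) (nat_lit 0) (XT.lf (nat_lit 0) (nat_lit 175770244128) (nat_lit 152) (nat_lit 102861192740)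 (nat_lit 228) (nat_lit 10536440865) (nat_lit 49) (nat_lit 5) (nat_lit 51) (nat_lit 5) (nat_lit 52) (nat_lit 5) (nat_lit 402) (nat_lit 367) (nat_lit 131)) (XT.lf (nat_lit 0) (nat_lit 39838898040) (nat_lit 228) (nat_lit 4902661481) (nat_lit 304) (nat_lit 253905759886) (nat_lit 45) (nat_lit 5) (nat_lit 48) (nat_lit 5) (nat_lit 49) (nat_lit 5) (nat_lit 403) (nat_lit 367) (nat_lit 130)))) (XT.nd (nat_lit 78) (nat_lit 152) (nat_lit 0) (XT.lf (nat_lit 0) (nat_lit 105910529324) (nat_lit 304) (nat_lit 105564241546) (nat_lit 76) (nat_lit 96943267779) (nat_lit 45) (nat_lit 5) (nat_lit 49) (nat_lit 5) (nat_lit 46) (nat_lit 5) (nat_lit 404) (nat_lit 367) (nat_lit 129)) (XT.nd (nat_lit 78) (nat_lit 0) (nat_lit 0) (XT.lf (nat_lit 0) (nat_lit 57088829979) (nat_lit 152) (nat_lit 114020713520) (nat_lit 228) (nat_lit 147519170613) (nat_lit 43) (nat_lit 5) (nat_lit 45) (nat_lit 5) (nat_lit 46) (nat_lit 5)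 (nat_lit 405) (nat_lit 367) (nat_lit 128)) (XT.lf (nat_lit 0) (nat_lit 231539364639) (nat_lit 152) (nat_lit 9816835177) (nat_lit 228) (nat_lit 87904339010) (nat_lit 43) (nat_lit 5) (nat_lit 45) (nat_lit 5) (nat_lit 46) (nat_lit 5) (nat_lit 406) (nat_lit 367) (nat_lit 127)))))) (XT.nd (nat_lit 468) (nat_lit 456) (nat_lit 0) (XT.nd (nat_lit 234) (nat_lit 152) (nat_lit 0) (XT.nd (nat_lit 78) (nat_lit 228) (nat_lit 0) (XT.lf (nat_lit 0) (nat_lit 75138232647) (nat_lit 152) (nat_lit 242704980113) (nat_lit 228) (nat_lit 22444340874) (nat_lit 41) (nat_lit 5) (nat_lit 43) (nat_lit 5) (nat_lit 44) (nat_lit 5) (nat_lit 407) (nat_lit 367) (nat_lit 126)) (XT.nd (nat_lit 78) (nat_lit 152) (nat_lit 0) (XT.lf (nat_lit 0) (nat_lit 46650062553) (nat_lit 228) (nat_lit 92660800832) (nat_lit 76) (nat_lit 212426774482) (nat_lit 40) (nat_lit 5) (nat_lit 43) (nat_lit 5) (nat_lit 41) (nat_lit 5) (nat_lit 408) (nat_lit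 367) (nat_lit 125)) (XT.lf (nat_lit 0) (nat_lit 90996529252) (nat_lit 152) (nat_lit 28869008790) (nat_lit 228) (nat_lit 243805259866) (nat_lit 38) (nat_lit 5) (nat_lit 40) (nat_lit 5) (nat_lit 41) (nat_lit 5) (nat_lit 409) (nat_lit 367) (nat_lit 124)))) (XT.nd (nat_lit 78) (nat_lit 152) (nat_lit 0) (XT.lf (nat_lit 0) (nat_lit 199696483515) (nat_lit 228) (nat_lit 90454109517) (nat_lit 76) (nat_lit 85902288148) (nat_lit 38) (nat_lit 5) (nat_lit 41) (nat_lit 5) (nat_lit 39) (nat_lit 5) (nat_lit 410) (nat_lit 367) (nat_lit 123)) (XT.nd (nat_lit 78) (nat_lit 0) (nat_lit 0) (XT.lf (nat_lit 0) (nat_lit 103723465831) (nat_lit 152) (nat_lit 181888109841) (nat_lit 228) (nat_lit 103337863009) (nat_lit 36) (nat_lit 5) (nat_lit 38) (nat_lit 5) (nat_lit 39) (nat_lit 5) (nat_lit 411) (nat_lit 367) (nat_lit 122)) (XT.lf (nat_lit 0) (nat_lit 310750156463) (nat_lit 152) (nat_lit 66604074776) (nat_lit 228)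 (nat_lit 25060002416) (nat_lit 36) (nat_lit 5) (nat_lit 38) (nat_lit 5) (nat_lit 39) (nat_lit 5) (nat_lit 412) (nat_lit 367) (nat_lit 121))))) (XT.nd (nat_lit 234) (nat_lit 152) (nat_lit 0) (XT.nd (nat_lit 78) (nat_lit 152) (nat_lit 0) (XT.lf (nat_lit 0) (nat_lit 57982241943) (nat_lit 152) (nat_lit 302968814879) (nat_lit 76) (nat_lit 55422659071) (nat_lit 34) (nat_lit 5) (nat_lit 36) (nat_lit 5) (nat_lit 35) (nat_lit 5) (nat_lit 413) (nat_lit 367) (nat_lit 120)) (XT.nd (nat_lit 78) (nat_lit 152) (nat_lit 0) (XT.lf (nat_lit 0) (nat_lit 147004040362) (nat_lit 152) (nat_lit 100572117351) (nat_lit 76) (nat_lit 183300992463) (nat_lit 34) (nat_lit 5) (nat_lit 36) (nat_lit 5) (nat_lit 35) (nat_lit 5) (nat_lit 414) (nat_lit 367) (nat_lit 119)) (XT.lf (nat_lit 0) (nat_lit 115645681735) (nat_lit 152) (nat_lit 126636731482) (nat_lit 228) (nat_lit 203733068760) (nat_lit 32) (nat_lit 5) (nat_lit 34)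 (nat_lit 5) (nat_lit 35) (nat_lit 5) (nat_lit 415) (nat_lit 367) (nat_lit 118)))) (XT.nd (nat_lit 78) (nat_lit 152) (nat_lit 0) (XT.lf (nat_lit 0) (nat_lit 344061255421) (nat_lit 228) (nat_lit 115693060193) (nat_lit 76) (nat_lit 2069587247) (nat_lit 32) (nat_lit 5) (nat_lit 35) (nat_lit 5) (nat_lit 33) (nat_lit 4) (nat_lit 416) (nat_lit 367) (nat_lit 117)) (XT.nd (nat_lit 78) (nat_lit 76) (nat_lit 0) (XT.lf (nat_lit 0) (nat_lit 111200502948) (nat_lit 76) (nat_lit 343540635544) (nat_lit 152) (nat_lit 23491001384) (nat_lit 31) (nat_lit 5) (nat_lit 32) (nat_lit 5) (nat_lit 33) (nat_lit 4) (nat_lit 417) (nat_lit 367) (nat_lit 116)) (XT.lf (nat_lit 0) (nat_lit 75069313729) (nat_lit 152) (nat_lit 143118386029) (nat_lit 76) (nat_lit 277114586514) (nat_lit 30) (nat_lit 5) (nat_lit 32) (nat_lit 5) (nat_lit 31) (nat_lit 5) (nat_lit 418) (nat_lit 367) (nat_lit 115))))))))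
noncomputable def xc239 : XT := (XT.nd (nat_lit 44694) (nat_lit 0) (nat_lit 456) (XT.nd (nat_lit 43758) (nat_lit 0) (nat_lit 3344) (XT.nd (nat_lit 43290) (nat_lit 0) (nat_lit 5624) (XT.nd (nat_lit 43056) (nat_lit 0) (nat_lit 5548) (XT.nd (nat_lit 42900) (nat_lit 0) (nat_lit 5472) (XT.lf (nat_lit 0) (nat_lit 94634207224) (nat_lit 152) (nat_lit 84611429511) (nat_lit 228) (nat_lit 333887176163) (nat_lit 28) (nat_lit 5) (nat_lit 30) (nat_lit 5) (nat_lit 31) (nat_lit 5) (nat_lit 419) (nat_lit 367) (nat_lit 114)) (XT.nd (nat_lit 78) (nat_lit 0) (nat_lit 0) (XT.lf (nat_lit 0) (nat_lit 6104104803) (nat_lit 836) (nat_lit 25065650997) (nat_lit 836) (nat_lit 25065650997) (nat_lit 100) (nat_lit 3) (nat_lit 111) (nat_lit 3) (nat_lit 111) (nat_lit 5) (nat_lit 368) (nat_lit 368) (nat_lit 164)) (XT.lf (nat_lit 76) (nat_lit 3180278624) (nat_lit 0) (nat_lit 9387790604) (nat_lit 836) (nat_lit 102711776709)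 (nat_lit 101) (nat_lit 5) (nat_lit 100) (nat_lit 3) (nat_lit 111) (nat_lit 5) (nat_lit 369) (nat_lit 368) (nat_lit 163)))) (XT.nd (nat_lit 78) (nat_lit 0) (nat_lit 0) (XT.lf (nat_lit 0) (nat_lit 14530008431) (nat_lit 760) (nat_lit 58024598018) (nat_lit 836) (nat_lit 45595519454) (nat_lit 101) (nat_lit 5) (nat_lit 111) (nat_lit 5) (nat_lit 112) (nat_lit 5) (nat_lit 370) (nat_lit 368) (nat_lit 162)) (XT.nd (nat_lit 78) (nat_lit 0) (nat_lit 76) (XT.lf (nat_lit 0) (nat_lit 16743637532) (nat_lit 760) (nat_lit 1399961908) (nat_lit 836) (nat_lit 103012641103) (nat_lit 101) (nat_lit 5) (nat_lit 111) (nat_lit 5) (nat_lit 112) (nat_lit 5) (nat_lit 371) (nat_lit 368) (nat_lit 161)) (XT.lf (nat_lit 0) (nat_lit 20628103752) (nat_lit 760) (nat_lit 64914604295) (nat_lit 836) (nat_lit 38691945391) (nat_lit 102) (nat_lit 5) (nat_lit 112) (nat_lit 5) (nat_lit 113) (nat_lit 5) (nat_lit 372) (nat_lit 368)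 (nat_lit 160))))) (XT.nd (nat_lit 234) (nat_lit 0) (nat_lit 152) (XT.nd (nat_lit 78) (nat_lit 0) (nat_lit 76) (XT.lf (nat_lit 0) (nat_lit 25028049153) (nat_lit 760) (nat_lit 4639149835) (nat_lit 836) (nat_lit 97783725489) (nat_lit 102) (nat_lit 5) (nat_lit 112) (nat_lit 5) (nat_lit 113) (nat_lit 5) (nat_lit 373) (nat_lit 368) (nat_lit 159)) (XT.nd (nat_lit 78) (nat_lit 0) (nat_lit 0) (XT.lf (nat_lit 0) (nat_lit 31062006083) (nat_lit 760) (nat_lit 70659908123) (nat_lit 836) (nat_lit 29035394426) (nat_lit 103) (nat_lit 5) (nat_lit 113) (nat_lit 5) (nat_lit 114) (nat_lit 5) (nat_lit 374) (nat_lit 368) (nat_lit 158)) (XT.lf (nat_lit 0) (nat_lit 37963609028) (nat_lit 760) (nat_lit 6481070249) (nat_lit 836) (nat_lit 89756035573) (nat_lit 103) (nat_lit 5) (nat_lit 113) (nat_lit 5) (nat_lit 114) (nat_lit 5) (nat_lit 375) (nat_lit 368) (nat_lit 157)))) (XT.nd (nat_lit 78) (nat_lit 0) (nat_lit 0)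 (XT.lf (nat_lit 0) (nat_lit 46453584307) (nat_lit 760) (nat_lit 75107982646) (nat_lit 836) (nat_lit 16192560071) (nat_lit 104) (nat_lit 5) (nat_lit 114) (nat_lit 5) (nat_lit 115) (nat_lit 5) (nat_lit 376) (nat_lit 368) (nat_lit 156)) (XT.nd (nat_lit 78) (nat_lit 0) (nat_lit 0) (XT.lf (nat_lit 0) (nat_lit 56207987123) (nat_lit 760) (nat_lit 6755585583) (nat_lit 836) (nat_lit 78479640900) (nat_lit 104) (nat_lit 5) (nat_lit 114) (nat_lit 5) (nat_lit 115) (nat_lit 5) (nat_lit 377) (nat_lit 368) (nat_lit 155)) (XT.lf (nat_lit 76) (nat_lit 67163914129) (nat_lit 0) (nat_lit 334591992) (nat_lit 836) (nat_lit 77765828825) (nat_lit 105) (nat_lit 5) (nat_lit 104) (nat_lit 5) (nat_lit 115) (nat_lit 5) (nat_lit 378) (nat_lit 368) (nat_lit 154)))))) (XT.nd (nat_lit 468) (nat_lit 988) (nat_lit 0) (XT.nd (nat_lit 234) (nat_lit 760) (nat_lit 0) (XT.nd (nat_lit 78) (nat_lit 760) (nat_lit 0) (XT.lf (nat_lit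 0) (nat_lit 80491103793) (nat_lit 760) (nat_lit 5280411012) (nat_lit 76) (nat_lit 63448120128) (nat_lit 105) (nat_lit 5) (nat_lit 115) (nat_lit 5) (nat_lit 106) (nat_lit 5) (nat_lit 379) (nat_lit 368) (nat_lit 153)) (XT.nd (nat_lit 78) (nat_lit 0) (nat_lit 0) (XT.lf (nat_lit 0) (nat_lit 73528297572) (nat_lit 760) (nat_lit 21758299176) (nat_lit 836) (nat_lit 58028440110) (nat_lit 95) (nat_lit 5) (nat_lit 105) (nat_lit 5) (nat_lit 106) (nat_lit 5) (nat_lit 380) (nat_lit 368) (nat_lit 152)) (XT.lf (nat_lit 0) (nat_lit 111622250246) (nat_lit 836) (nat_lit 1861315623) (nat_lit 76) (nat_lit 44091623913) (nat_lit 95) (nat_lit 5) (nat_lit 106) (nat_lit 5) (nat_lit 96) (nat_lit 5) (nat_lit 381) (nat_lit 368) (nat_lit 151)))) (XT.nd (nat_lit 78) (nat_lit 380) (nat_lit 0) (XT.lf (nat_lit 0) (nat_lit 82235557552) (nat_lit 380) (nat_lit 48179563741) (nat_lit 456) (nat_lit 31551207503) (nat_lit 90) (nat_lit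 5) (nat_lit 95) (nat_lit 5) (nat_lit 96) (nat_lit 5) (nat_lit 382) (nat_lit 368) (nat_lit 150)) (XT.nd (nat_lit 78) (nat_lit 76) (nat_lit 0) (XT.lf (nat_lit 0) (nat_lit 3829987800) (nat_lit 304) (nat_lit 146727643452) (nat_lit 380) (nat_lit 15998893920) (nat_lit 86) (nat_lit 5) (nat_lit 90) (nat_lit 5) (nat_lit 91) (nat_lit 5) (nat_lit 383) (nat_lit 368) (nat_lit 149)) (XT.lf (nat_lit 0) (nat_lit 2482506741) (nat_lit 380) (nat_lit 77789182304) (nat_lit 76) (nat_lit 90996180735) (nat_lit 85) (nat_lit 5) (nat_lit 90) (nat_lit 5) (nat_lit 86) (nat_lit 5) (nat_lit 384) (nat_lit 368) (nat_lit 148))))) (XT.nd (nat_lit 234) (nat_lit 304) (nat_lit 0) (XT.nd (nat_lit 78) (nat_lit 304) (nat_lit 0) (XT.lf (nat_lit 0) (nat_lit 11500677049) (nat_lit 380) (nat_lit 10029021648) (nat_lit 456) (nat_lit 154662999780) (nat_lit 80) (nat_lit 5) (nat_lit 85) (nat_lit 5) (nat_lit 86) (nat_lit 5) (nat_lit 385)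 (nat_lit 368) (nat_lit 147)) (XT.nd (nat_lit 78) (nat_lit 304) (nat_lit 0) (XT.lf (nat_lit 0) (nat_lit 43863018644) (nat_lit 456) (nat_lit 74358924506) (nat_lit 76) (nat_lit 63025137184) (nat_lit 80) (nat_lit 5) (nat_lit 86) (nat_lit 5) (nat_lit 81) (nat_lit 5) (nat_lit 386) (nat_lit 368) (nat_lit 146)) (XT.lf (nat_lit 0) (nat_lit 20998317987) (nat_lit 304) (nat_lit 46806783449) (nat_lit 380) (nat_lit 118724475147) (nat_lit 76) (nat_lit 5) (nat_lit 80) (nat_lit 5) (nat_lit 81) (nat_lit 5) (nat_lit 387) (nat_lit 368) (nat_lit 145)))) (XT.nd (nat_lit 78) (nat_lit 304) (nat_lit 0) (XT.lf (nat_lit 0) (nat_lit 94664040759) (nat_lit 380) (nat_lit 68769016357) (nat_lit 76) (nat_lit 28557153043) (nat_lit 76) (nat_lit 5) (nat_lit 81) (nat_lit 5) (nat_lit 77) (nat_lit 5) (nat_lit 388) (nat_lit 368) (nat_lit 144)) (XT.nd (nat_lit 78) (nat_lit 0) (nat_lit 0) (XT.lf (nat_lit 0) (nat_lit 33124016794)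 (nat_lit 304) (nat_lit 91026248955) (nat_lit 380) (nat_lit 73509392858) (nat_lit 72) (nat_lit 5) (nat_lit 76) (nat_lit 5) (nat_lit 77) (nat_lit 5) (nat_lit 389) (nat_lit 368) (nat_lit 143)) (XT.lf (nat_lit 0) (nat_lit 142499037063) (nat_lit 304) (nat_lit 13776261369) (nat_lit 380) (nat_lit 47279056342) (nat_lit 72) (nat_lit 5) (nat_lit 76) (nat_lit 5) (nat_lit 77) (nat_lit 5) (nat_lit 390) (nat_lit 368) (nat_lit 142))))))) (XT.nd (nat_lit 936) (nat_lit 1140) (nat_lit 0) (XT.nd (nat_lit 468) (nat_lit 912) (nat_lit 0) (XT.nd (nat_lit 234) (nat_lit 228) (nat_lit 0) (XT.nd (nat_lit 78) (nat_lit 380) (nat_lit 0) (XT.lf (nat_lit 0) (nat_lit 48086619758) (nat_lit 228) (nat_lit 143721903194) (nat_lit 304) (nat_lit 17845165905) (nat_lit 69) (nat_lit 5) (nat_lit 72) (nat_lit 5) (nat_lit 73) (nat_lit 5) (nat_lit 391) (nat_lit 368) (nat_lit 141)) (XT.nd (nat_lit 78) (nat_lit 304) (nat_lit 0) (XT.lf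 (nat_lit 0) (nat_lit 13919064292) (nat_lit 304) (nat_lit 51647803202) (nat_lit 76) (nat_lit 150417093756) (nat_lit 68) (nat_lit 5) (nat_lit 72) (nat_lit 5) (nat_lit 69) (nat_lit 5) (nat_lit 392) (nat_lit 368) (nat_lit 140)) (XT.lf (nat_lit 0) (nat_lit 47974577361) (nat_lit 380) (nat_lit 157270581616) (nat_lit 76) (nat_lit 17305821904) (nat_lit 64) (nat_lit 5) (nat_lit 69) (nat_lit 5) (nat_lit 65) (nat_lit 5) (nat_lit 393) (nat_lit 368) (nat_lit 139)))) (XT.nd (nat_lit 78) (nat_lit 228) (nat_lit 0) (XT.lf (nat_lit 0) (nat_lit 85696629253) (nat_lit 380) (nat_lit 40643880742) (nat_lit 76) (nat_lit 103007653434) (nat_lit 64) (nat_lit 5) (nat_lit 69) (nat_lit 5) (nat_lit 65) (nat_lit 5) (nat_lit 394) (nat_lit 368) (nat_lit 138)) (XT.nd (nat_lit 78) (nat_lit 0) (nat_lit 0) (XT.lf (nat_lit 0) (nat_lit 84519138751) (nat_lit 228) (nat_lit 42105108395) (nat_lit 304) (nat_lit 109794984878) (nat_lit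 61) (nat_lit 5) (nat_lit 64) (nat_lit 5) (nat_lit 65) (nat_lit 5) (nat_lit 395) (nat_lit 368) (nat_lit 137)) (XT.lf (nat_lit 0) (nat_lit 171021268536) (nat_lit 304) (nat_lit 27193037686) (nat_lit 76) (nat_lit 45558396784) (nat_lit 61) (nat_lit 5) (nat_lit 65) (nat_lit 5) (nat_lit 62) (nat_lit 5) (nat_lit 396) (nat_lit 368) (nat_lit 136))))) (XT.nd (nat_lit 234) (nat_lit 380) (nat_lit 0) (XT.nd (nat_lit 78) (nat_lit 304) (nat_lit 0) (XT.lf (nat_lit 0) (nat_lit 106466566276) (nat_lit 228) (nat_lit 113523954663) (nat_lit 304) (nat_lit 31385707682) (nat_lit 58) (nat_lit 5) (nat_lit 61) (nat_lit 5) (nat_lit 62) (nat_lit 5) (nat_lit 397) (nat_lit 368) (nat_lit 135)) (XT.nd (nat_lit 78) (nat_lit 228) (nat_lit 0) (XT.lf (nat_lit 0) (nat_lit 12130653152) (nat_lit 304) (nat_lit 11779483240) (nat_lit 76) (nat_lit 235416990374) (nat_lit 57) (nat_lit 5) (nat_lit 61) (nat_lit 5) (nat_lit 58) (nat_lit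 5) (nat_lit 398) (nat_lit 368) (nat_lit 134)) (XT.lf (nat_lit 0) (nat_lit 59962213902) (nat_lit 304) (nat_lit 136976933185) (nat_lit 76) (nat_lit 70550989437) (nat_lit 54) (nat_lit 5) (nat_lit 58) (nat_lit 5) (nat_lit 55) (nat_lit 5) (nat_lit 399) (nat_lit 368) (nat_lit 133)))) (XT.nd (nat_lit 78) (nat_lit 152) (nat_lit 0) (XT.lf (nat_lit 0) (nat_lit 4011153538) (nat_lit 228) (nat_lit 106831454539) (nat_lit 304) (nat_lit 165185825994) (nat_lit 51) (nat_lit 5) (nat_lit 54) (nat_lit 5) (nat_lit 55) (nat_lit 5) (nat_lit 400) (nat_lit 368) (nat_lit 132)) (XT.nd (nat_lit 78) (nat_lit 152) (nat_lit 0) (XT.lf (nat_lit 0) (nat_lit 156804029070) (nat_lit 228) (nat_lit 9782665064) (nat_lit 304) (nat_lit 118290968813) (nat_lit 51) (nat_lit 5) (nat_lit 54) (nat_lit 5) (nat_lit 55) (nat_lit 5) (nat_lit 401) (nat_lit 368) (nat_lit 131)) (XT.lf (nat_lit 0) (nat_lit 22343970278) (nat_lit 152) (nat_lit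 204561000683) (nat_lit 228) (nat_lit 67175033047) (nat_lit 49) (nat_lit 5) (nat_lit 51) (nat_lit 5) (nat_lit 52) (nat_lit 5) (nat_lit 402) (nat_lit 368) (nat_lit 130)))))) (XT.nd (nat_lit 468) (nat_lit 532) (nat_lit 0) (XT.nd (nat_lit 234) (nat_lit 304) (nat_lit 0) (XT.nd (nat_lit 78) (nat_lit 304) (nat_lit 0) (XT.lf (nat_lit 0) (nat_lit 184563067667) (nat_lit 152) (nat_lit 108002775676) (nat_lit 228) (nat_lit 11060284750) (nat_lit 49) (nat_lit 5) (nat_lit 51) (nat_lit 5) (nat_lit 52) (nat_lit 5) (nat_lit 403) (nat_lit 368) (nat_lit 129)) (XT.nd (nat_lit 78) (nat_lit 0) (nat_lit 0) (XT.lf (nat_lit 0) (nat_lit 41835180201) (nat_lit 228) (nat_lit 5146270574) (nat_lit 304) (nat_lit 266598092311) (nat_lit 45) (nat_lit 5) (nat_lit 48) (nat_lit 5) (nat_lit 49) (nat_lit 5) (nat_lit 404) (nat_lit 368) (nat_lit 128)) (XT.lf (nat_lit 0) (nat_lit 111208757763) (nat_lit 304) (nat_lit 110838210045)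 (nat_lit 76) (nat_lit 101791836125) (nat_lit 45) (nat_lit 5) (nat_lit 49) (nat_lit 5) (nat_lit 46) (nat_lit 5) (nat_lit 405) (nat_lit 368) (nat_lit 127)))) (XT.nd (nat_lit 78) (nat_lit 152) (nat_lit 0) (XT.lf (nat_lit 0) (nat_lit 59947446611) (nat_lit 152) (nat_lit 119720212556) (nat_lit 228) (nat_lit 154892357249) (nat_lit 43) (nat_lit 5) (nat_lit 45) (nat_lit 5) (nat_lit 46) (nat_lit 5) (nat_lit 406) (nat_lit 368) (nat_lit 126)) (XT.nd (nat_lit 78) (nat_lit 152) (nat_lit 0) (XT.lf (nat_lit 0) (nat_lit 243120309189) (nat_lit 152) (nat_lit 10306213469) (nat_lit 228) (nat_lit 92296916061) (nat_lit 43) (nat_lit 5) (nat_lit 45) (nat_lit 5) (nat_lit 46) (nat_lit 5) (nat_lit 407) (nat_lit 368) (nat_lit 125)) (XT.lf (nat_lit 0) (nat_lit 78899158982) (nat_lit 152) (nat_lit 254838692048) (nat_lit 228) (nat_lit 23563955064) (nat_lit 41) (nat_lit 5) (nat_lit 43) (nat_lit 5) (nat_lit 44) (nat_lit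 5) (nat_lit 408) (nat_lit 368) (nat_lit 124))))) (XT.nd (nat_lit 234) (nat_lit 304) (nat_lit 0) (XT.nd (nat_lit 78) (nat_lit 152) (nat_lit 0) (XT.lf (nat_lit 0) (nat_lit 48984965248) (nat_lit 228) (nat_lit 97289936792) (nat_lit 76) (nat_lit 223049496528) (nat_lit 40) (nat_lit 5) (nat_lit 43) (nat_lit 5) (nat_lit 41) (nat_lit 5) (nat_lit 409) (nat_lit 368) (nat_lit 123)) (XT.nd (nat_lit 78) (nat_lit 0) (nat_lit 0) (XT.lf (nat_lit 0) (nat_lit 95550196828) (nat_lit 152) (nat_lit 30310963390) (nat_lit 228) (nat_lit 255993059166) (nat_lit 38) (nat_lit 5) (nat_lit 40) (nat_lit 5) (nat_lit 41) (nat_lit 5) (nat_lit 410) (nat_lit 368) (nat_lit 122)) (XT.lf (nat_lit 0) (nat_lit 209683563526) (nat_lit 228) (nat_lit 94973066251) (nat_lit 76) (nat_lit 90198781568) (nat_lit 38) (nat_lit 5) (nat_lit 41) (nat_lit 5) (nat_lit 39) (nat_lit 5) (nat_lit 411) (nat_lit 368) (nat_lit 121)))) (XT.nd (nat_lit 78)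 (nat_lit 152) (nat_lit 0) (XT.lf (nat_lit 0) (nat_lit 108913327401) (nat_lit 152) (nat_lit 190981033054) (nat_lit 228) (nat_lit 108502438812) (nat_lit 36) (nat_lit 5) (nat_lit 38) (nat_lit 5) (nat_lit 39) (nat_lit 5) (nat_lit 412) (nat_lit 368) (nat_lit 120)) (XT.nd (nat_lit 78) (nat_lit 152) (nat_lit 0) (XT.lf (nat_lit 0) (nat_lit 326291176932) (nat_lit 152) (nat_lit 69932866820) (nat_lit 228) (nat_lit 26310795538) (nat_lit 36) (nat_lit 5) (nat_lit 38) (nat_lit 5) (nat_lit 39) (nat_lit 5) (nat_lit 413) (nat_lit 368) (nat_lit 119)) (XT.lf (nat_lit 0) (nat_lit 60883466158) (nat_lit 152) (nat_lit 318113646238) (nat_lit 76) (nat_lit 58195182779) (nat_lit 34) (nat_lit 5) (nat_lit 36) (nat_lit 5) (nat_lit 35) (nat_lit 5) (nat_lit 414) (nat_lit 368) (nat_lit 118))))))))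
noncomputable def xc240 : XT := (XT.nd (nat_lit 44694) (nat_lit 0) (nat_lit 760) (XT.nd (nat_lit 43758) (nat_lit 0) (nat_lit 3800) (XT.nd (nat_lit 43290) (nat_lit 0) (nat_lit 5320) (XT.nd (nat_lit 156) (nat_lit 152) (nat_lit 0) (XT.nd (nat_lit 78) (nat_lit 152) (nat_lit 0) (XT.lf (nat_lit 0) (nat_lit 154356253921) (nat_lit 152) (nat_lit 105597285709) (nat_lit 76) (nat_lit 192467366614) (nat_lit 34) (nat_lit 5) (nat_lit 36) (nat_lit 5) (nat_lit 35) (nat_lit 5) (nat_lit 415) (nat_lit 368) (nat_lit 117)) (XT.lf (nat_lit 0) (nat_lit 121431347887) (nat_lit 152) (nat_lit 132967154548) (nat_lit 228) (nat_lit 213917654391) (nat_lit 32) (nat_lit 5) (nat_lit 34) (nat_lit 5) (nat_lit 35) (nat_lit 5) (nat_lit 416) (nat_lit 368) (nat_lit 116))) (XT.nd (nat_lit 78) (nat_lit 152) (nat_lit 0) (XT.lf (nat_lit 0) (nat_lit 361266214025) (nat_lit 228) (nat_lit 121474418682) (nat_lit 76) (nat_lit 2174369721)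 (nat_lit 32) (nat_lit 5) (nat_lit 35) (nat_lit 5) (nat_lit 33) (nat_lit 4) (nat_lit 417) (nat_lit 368) (nat_lit 115)) (XT.nd (nat_lit 78) (nat_lit 76) (nat_lit 0) (XT.lf (nat_lit 0) (nat_lit 116763769478) (nat_lit 76) (nat_lit 360716282102) (nat_lit 152) (nat_lit 24663601737) (nat_lit 31) (nat_lit 5) (nat_lit 32) (nat_lit 5) (nat_lit 33) (nat_lit 4) (nat_lit 418) (nat_lit 368) (nat_lit 114)) (XT.lf (nat_lit 0) (nat_lit 78824576857) (nat_lit 152) (nat_lit 150271158191) (nat_lit 76) (nat_lit 290971574988) (nat_lit 30) (nat_lit 5) (nat_lit 32) (nat_lit 5) (nat_lit 31) (nat_lit 5) (nat_lit 419) (nat_lit 368) (nat_lit 113))))) (XT.nd (nat_lit 234) (nat_lit 0) (nat_lit 76) (XT.nd (nat_lit 78) (nat_lit 0) (nat_lit 0) (XT.lf (nat_lit 0) (nat_lit 6414233278) (nat_lit 836) (nat_lit 26316346250) (nat_lit 836) (nat_lit 26316346250) (nat_lit 100) (nat_lit 3) (nat_lit 111) (nat_lit 3) (nat_lit 111) (nat_lit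 5) (nat_lit 369) (nat_lit 369) (nat_lit 162)) (XT.nd (nat_lit 78) (nat_lit 0) (nat_lit 76) (XT.lf (nat_lit 76) (nat_lit 3344383688) (nat_lit 0) (nat_lit 9861546079) (nat_lit 836) (nat_lit 107837425713) (nat_lit 101) (nat_lit 5) (nat_lit 100) (nat_lit 3) (nat_lit 111) (nat_lit 5) (nat_lit 370) (nat_lit 369) (nat_lit 161)) (XT.lf (nat_lit 0) (nat_lit 15265450676) (nat_lit 760) (nat_lit 60920454537) (nat_lit 836) (nat_lit 47871270467) (nat_lit 101) (nat_lit 5) (nat_lit 111) (nat_lit 5) (nat_lit 112) (nat_lit 5) (nat_lit 371) (nat_lit 369) (nat_lit 160)))) (XT.nd (nat_lit 78) (nat_lit 0) (nat_lit 76) (XT.lf (nat_lit 0) (nat_lit 17589335430) (nat_lit 760) (nat_lit 1464842497) (nat_lit 836) (nat_lit 108159439864) (nat_lit 101) (nat_lit 5) (nat_lit 111) (nat_lit 5) (nat_lit 112) (nat_lit 5) (nat_lit 372) (nat_lit 369) (nat_lit 159)) (XT.nd (nat_lit 78) (nat_lit 0) (nat_lit 0) (XT.lf (nat_lit 0)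 (nat_lit 21667648801) (nat_lit 760) (nat_lit 68154832292) (nat_lit 836) (nat_lit 40623489472) (nat_lit 102) (nat_lit 5) (nat_lit 112) (nat_lit 5) (nat_lit 113) (nat_lit 5) (nat_lit 373) (nat_lit 369) (nat_lit 158)) (XT.lf (nat_lit 0) (nat_lit 26287203859) (nat_lit 760) (nat_lit 4865867119) (nat_lit 836) (nat_lit 102670003965) (nat_lit 102) (nat_lit 5) (nat_lit 112) (nat_lit 5) (nat_lit 113) (nat_lit 5) (nat_lit 374) (nat_lit 369) (nat_lit 157)))))) (XT.nd (nat_lit 468) (nat_lit 1748) (nat_lit 0) (XT.nd (nat_lit 234) (nat_lit 0) (nat_lit 76) (XT.nd (nat_lit 78) (nat_lit 0) (nat_lit 0) (XT.lf (nat_lit 0) (nat_lit 32622533943) (nat_lit 760) (nat_lit 74187330873) (nat_lit 836) (nat_lit 30484930113) (nat_lit 103) (nat_lit 5) (nat_lit 113) (nat_lit 5) (nat_lit 114) (nat_lit 5) (nat_lit 375) (nat_lit 369) (nat_lit 156)) (XT.nd (nat_lit 78) (nat_lit 0) (nat_lit 76) (XT.lf (nat_lit 0) (nat_lit 39868863343)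 (nat_lit 760) (nat_lit 6799816470) (nat_lit 836) (nat_lit 94241709700) (nat_lit 103) (nat_lit 5) (nat_lit 113) (nat_lit 5) (nat_lit 114) (nat_lit 5) (nat_lit 376) (nat_lit 369) (nat_lit 155)) (XT.lf (nat_lit 0) (nat_lit 48783057128) (nat_lit 760) (nat_lit 78857787195) (nat_lit 836) (nat_lit 17000642336) (nat_lit 104) (nat_lit 5) (nat_lit 114) (nat_lit 5) (nat_lit 115) (nat_lit 5) (nat_lit 377) (nat_lit 369) (nat_lit 154)))) (XT.nd (nat_lit 78) (nat_lit 0) (nat_lit 0) (XT.lf (nat_lit 0) (nat_lit 59024856581) (nat_lit 760) (nat_lit 7088036688) (nat_lit 836) (nat_lit 82402150813) (nat_lit 104) (nat_lit 5) (nat_lit 114) (nat_lit 5) (nat_lit 115) (nat_lit 5) (nat_lit 378) (nat_lit 369) (nat_lit 153)) (XT.nd (nat_lit 78) (nat_lit 0) (nat_lit 76) (XT.lf (nat_lit 76) (nat_lit 70527352072) (nat_lit 0) (nat_lit 352323202) (nat_lit 836) (nat_lit 81647557846) (nat_lit 105) (nat_lit 5) (nat_lit 104)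 (nat_lit 5) (nat_lit 115) (nat_lit 5) (nat_lit 379) (nat_lit 369) (nat_lit 152)) (XT.lf (nat_lit 0) (nat_lit 84521590611) (nat_lit 760) (nat_lit 5539120660) (nat_lit 76) (nat_lit 66619602751) (nat_lit 105) (nat_lit 5) (nat_lit 115) (nat_lit 5) (nat_lit 106) (nat_lit 5) (nat_lit 380) (nat_lit 369) (nat_lit 151))))) (XT.nd (nat_lit 234) (nat_lit 760) (nat_lit 0) (XT.nd (nat_lit 78) (nat_lit 380) (nat_lit 0) (XT.lf (nat_lit 0) (nat_lit 77209937693) (nat_lit 760) (nat_lit 22846719642) (nat_lit 836) (nat_lit 60923839040) (nat_lit 95) (nat_lit 5) (nat_lit 105) (nat_lit 5) (nat_lit 106) (nat_lit 5) (nat_lit 381) (nat_lit 369) (nat_lit 150)) (XT.nd (nat_lit 78) (nat_lit 380) (nat_lit 0) (XT.lf (nat_lit 0) (nat_lit 117208813099) (nat_lit 836) (nat_lit 1949119061) (nat_lit 76) (nat_lit 46295739082) (nat_lit 95) (nat_lit 5) (nat_lit 106) (nat_lit 5) (nat_lit 96) (nat_lit 5) (nat_lit 382) (nat_lit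 369) (nat_lit 149)) (XT.lf (nat_lit 0) (nat_lit 86352512897) (nat_lit 380) (nat_lit 50588636096) (nat_lit 456) (nat_lit 33123227412) (nat_lit 90) (nat_lit 5) (nat_lit 95) (nat_lit 5) (nat_lit 96) (nat_lit 5) (nat_lit 383) (nat_lit 369) (nat_lit 148)))) (XT.nd (nat_lit 78) (nat_lit 456) (nat_lit 0) (XT.lf (nat_lit 0) (nat_lit 4026847092) (nat_lit 304) (nat_lit 154063768612) (nat_lit 380) (nat_lit 16793475583) (nat_lit 86) (nat_lit 5) (nat_lit 90) (nat_lit 5) (nat_lit 91) (nat_lit 5) (nat_lit 384) (nat_lit 369) (nat_lit 147)) (XT.nd (nat_lit 78) (nat_lit 380) (nat_lit 0) (XT.lf (nat_lit 0) (nat_lit 2611576251) (nat_lit 380) (nat_lit 81673368740) (nat_lit 76) (nat_lit 95546066535) (nat_lit 85) (nat_lit 5) (nat_lit 90) (nat_lit 5) (nat_lit 86) (nat_lit 5) (nat_lit 385) (nat_lit 369) (nat_lit 146)) (XT.lf (nat_lit 0) (nat_lit 12080898538) (nat_lit 380) (nat_lit 10530074824) (nat_lit 456) (nat_lit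 162391116233) (nat_lit 80) (nat_lit 5) (nat_lit 85) (nat_lit 5) (nat_lit 86) (nat_lit 5) (nat_lit 386) (nat_lit 369) (nat_lit 145))))))) (XT.nd (nat_lit 936) (nat_lit 1368) (nat_lit 0) (XT.nd (nat_lit 468) (nat_lit 836) (nat_lit 0) (XT.nd (nat_lit 234) (nat_lit 532) (nat_lit 0) (XT.nd (nat_lit 78) (nat_lit 304) (nat_lit 0) (XT.lf (nat_lit 0) (nat_lit 46060737141) (nat_lit 456) (nat_lit 78071703846) (nat_lit 76) (nat_lit 66176760873) (nat_lit 80) (nat_lit 5) (nat_lit 86) (nat_lit 5) (nat_lit 81) (nat_lit 5) (nat_lit 387) (nat_lit 369) (nat_lit 144)) (XT.nd (nat_lit 78) (nat_lit 0) (nat_lit 0) (XT.lf (nat_lit 0) (nat_lit 22053317435) (nat_lit 304) (nat_lit 49146468503) (nat_lit 380) (nat_lit 124656044086) (nat_lit 76) (nat_lit 5) (nat_lit 80) (nat_lit 5) (nat_lit 81) (nat_lit 5) (nat_lit 388) (nat_lit 369) (nat_lit 143)) (XT.lf (nat_lit 0) (nat_lit 99401471028) (nat_lit 380) (nat_lit 72202420770)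 (nat_lit 76) (nat_lit 29985613727) (nat_lit 76) (nat_lit 5) (nat_lit 81) (nat_lit 5) (nat_lit 77) (nat_lit 5) (nat_lit 389) (nat_lit 369) (nat_lit 142)))) (XT.nd (nat_lit 78) (nat_lit 228) (nat_lit 0) (XT.lf (nat_lit 0) (nat_lit 34785182645) (nat_lit 304) (nat_lit 95576700796) (nat_lit 380) (nat_lit 77180549323) (nat_lit 72) (nat_lit 5) (nat_lit 76) (nat_lit 5) (nat_lit 77) (nat_lit 5) (nat_lit 390) (nat_lit 369) (nat_lit 141)) (XT.nd (nat_lit 78) (nat_lit 228) (nat_lit 0) (XT.lf (nat_lit 0) (nat_lit 149628717498) (nat_lit 304) (nat_lit 14464254812) (nat_lit 380) (nat_lit 49638901371) (nat_lit 72) (nat_lit 5) (nat_lit 76) (nat_lit 5) (nat_lit 77) (nat_lit 5) (nat_lit 391) (nat_lit 369) (nat_lit 140)) (XT.lf (nat_lit 0) (nat_lit 50495786095) (nat_lit 228) (nat_lit 150906973501) (nat_lit 304) (nat_lit 18733419957) (nat_lit 69) (nat_lit 5) (nat_lit 72) (nat_lit 5) (nat_lit 73) (nat_lit 5)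 (nat_lit 392) (nat_lit 369) (nat_lit 139))))) (XT.nd (nat_lit 234) (nat_lit 456) (nat_lit 0) (XT.nd (nat_lit 78) (nat_lit 304) (nat_lit 0) (XT.lf (nat_lit 0) (nat_lit 14618709014) (nat_lit 304) (nat_lit 54225463287) (nat_lit 76) (nat_lit 157938799513) (nat_lit 68) (nat_lit 5) (nat_lit 72) (nat_lit 5) (nat_lit 69) (nat_lit 5) (nat_lit 393) (nat_lit 369) (nat_lit 138)) (XT.nd (nat_lit 78) (nat_lit 0) (nat_lit 0) (XT.lf (nat_lit 0) (nat_lit 50376911243) (nat_lit 380) (nat_lit 165129291344) (nat_lit 76) (nat_lit 18172144303) (nat_lit 64) (nat_lit 5) (nat_lit 69) (nat_lit 5) (nat_lit 65) (nat_lit 5) (nat_lit 394) (nat_lit 369) (nat_lit 137)) (XT.lf (nat_lit 0) (nat_lit 89984894062) (nat_lit 380) (nat_lit 42671484919) (nat_lit 76) (nat_lit 108159018300) (nat_lit 64) (nat_lit 5) (nat_lit 69) (nat_lit 5) (nat_lit 65) (nat_lit 5) (nat_lit 395) (nat_lit 369) (nat_lit 136)))) (XT.nd (nat_lit 78) (nat_lit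 228) (nat_lit 0) (XT.lf (nat_lit 0) (nat_lit 88749611519) (nat_lit 228) (nat_lit 44209188344) (nat_lit 304) (nat_lit 115281224220) (nat_lit 61) (nat_lit 5) (nat_lit 64) (nat_lit 5) (nat_lit 65) (nat_lit 5) (nat_lit 396) (nat_lit 369) (nat_lit 135)) (XT.nd (nat_lit 78) (nat_lit 228) (nat_lit 0) (XT.lf (nat_lit 0) (nat_lit 179575530735) (nat_lit 304) (nat_lit 28548244788) (nat_lit 76) (nat_lit 47837400289) (nat_lit 61) (nat_lit 5) (nat_lit 65) (nat_lit 5) (nat_lit 62) (nat_lit 5) (nat_lit 397) (nat_lit 369) (nat_lit 134)) (XT.lf (nat_lit 0) (nat_lit 111794267682) (nat_lit 228) (nat_lit 119198894031) (nat_lit 304) (nat_lit 32951720313) (nat_lit 58) (nat_lit 5) (nat_lit 61) (nat_lit 5) (nat_lit 62) (nat_lit 5) (nat_lit 398) (nat_lit 369) (nat_lit 133)))))) (XT.nd (nat_lit 468) (nat_lit 684) (nat_lit 0) (XT.nd (nat_lit 234) (nat_lit 152) (nat_lit 0) (XT.nd (nat_lit 78) (nat_lit 456) (nat_lit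 0) (XT.lf (nat_lit 0) (nat_lit 12740202957) (nat_lit 304) (nat_lit 12364190714) (nat_lit 76) (nat_lit 247188936498) (nat_lit 57) (nat_lit 5) (nat_lit 61) (nat_lit 5) (nat_lit 58) (nat_lit 5) (nat_lit 399) (nat_lit 369) (nat_lit 132)) (XT.nd (nat_lit 78) (nat_lit 228) (nat_lit 0) (XT.lf (nat_lit 0) (nat_lit 62963283266) (nat_lit 304) (nat_lit 143821452699) (nat_lit 76) (nat_lit 74079757474) (nat_lit 54) (nat_lit 5) (nat_lit 58) (nat_lit 5) (nat_lit 55) (nat_lit 5) (nat_lit 400) (nat_lit 369) (nat_lit 131)) (XT.lf (nat_lit 0) (nat_lit 4215968566) (nat_lit 228) (nat_lit 112171654162) (nat_lit 304) (nat_lit 173442086948) (nat_lit 51) (nat_lit 5) (nat_lit 54) (nat_lit 5) (nat_lit 55) (nat_lit 5) (nat_lit 401) (nat_lit 369) (nat_lit 130)))) (XT.nd (nat_lit 78) (nat_lit 152) (nat_lit 0) (XT.lf (nat_lit 0) (nat_lit 164648285145) (nat_lit 228) (nat_lit 10270490600) (nat_lit 304) (nat_lit 124202631211)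 (nat_lit 51) (nat_lit 5) (nat_lit 54) (nat_lit 5) (nat_lit 55) (nat_lit 5) (nat_lit 402) (nat_lit 369) (nat_lit 129)) (XT.nd (nat_lit 78) (nat_lit 0) (nat_lit 0) (XT.lf (nat_lit 0) (nat_lit 23465274823) (nat_lit 152) (nat_lit 214787644335) (nat_lit 228) (nat_lit 70530948358) (nat_lit 49) (nat_lit 5) (nat_lit 51) (nat_lit 5) (nat_lit 52) (nat_lit 5) (nat_lit 403) (nat_lit 369) (nat_lit 128)) (XT.lf (nat_lit 0) (nat_lit 193795131557) (nat_lit 152) (nat_lit 113401575049) (nat_lit 228) (nat_lit 11610597710) (nat_lit 49) (nat_lit 5) (nat_lit 51) (nat_lit 5) (nat_lit 52) (nat_lit 5) (nat_lit 404) (nat_lit 369) (nat_lit 127))))) (XT.nd (nat_lit 234) (nat_lit 228) (nat_lit 0) (XT.nd (nat_lit 78) (nat_lit 152) (nat_lit 0) (XT.lf (nat_lit 0) (nat_lit 43930873233) (nat_lit 228) (nat_lit 5402201806) (nat_lit 304) (nat_lit 279925316138) (nat_lit 45) (nat_lit 5) (nat_lit 48) (nat_lit 5) (nat_lit 49)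 (nat_lit 5) (nat_lit 405) (nat_lit 369) (nat_lit 126)) (XT.nd (nat_lit 78) (nat_lit 152) (nat_lit 0) (XT.lf (nat_lit 0) (nat_lit 116771646420) (nat_lit 304) (nat_lit 116376271496) (nat_lit 76) (nat_lit 106882702269) (nat_lit 45) (nat_lit 5) (nat_lit 49) (nat_lit 5) (nat_lit 46) (nat_lit 5) (nat_lit 406) (nat_lit 369) (nat_lit 125)) (XT.lf (nat_lit 0) (nat_lit 62948605911) (nat_lit 152) (nat_lit 125704829405) (nat_lit 228) (nat_lit 162634460922) (nat_lit 43) (nat_lit 5) (nat_lit 45) (nat_lit 5) (nat_lit 46) (nat_lit 5) (nat_lit 407) (nat_lit 369) (nat_lit 124)))) (XT.nd (nat_lit 78) (nat_lit 228) (nat_lit 0) (XT.lf (nat_lit 0) (nat_lit 255279931286) (nat_lit 152) (nat_lit 10820196734) (nat_lit 228) (nat_lit 96909367398) (nat_lit 43) (nat_lit 5) (nat_lit 45) (nat_lit 5) (nat_lit 46) (nat_lit 5) (nat_lit 408) (nat_lit 369) (nat_lit 123)) (XT.nd (nat_lit 78) (nat_lit 76) (nat_lit 0) (XT.lf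 (nat_lit 0) (nat_lit 82847758385) (nat_lit 152) (nat_lit 267579232482) (nat_lit 228) (nat_lit 24739791953) (nat_lit 41) (nat_lit 5) (nat_lit 43) (nat_lit 5) (nat_lit 44) (nat_lit 5) (nat_lit 409) (nat_lit 369) (nat_lit 122)) (XT.lf (nat_lit 0) (nat_lit 51436389989) (nat_lit 228) (nat_lit 102150892514) (nat_lit 76) (nat_lit 234203226068) (nat_lit 40) (nat_lit 5) (nat_lit 43) (nat_lit 5) (nat_lit 41) (nat_lit 5) (nat_lit 410) (nat_lit 369) (nat_lit 121))))))))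
noncomputable def xc241 : XT := (XT.nd (nat_lit 44850) (nat_lit 0) (nat_lit 836) (XT.nd (nat_lit 43914) (nat_lit 0) (nat_lit 4408) (XT.nd (nat_lit 390) (nat_lit 152) (nat_lit 0) (XT.nd (nat_lit 156) (nat_lit 304) (nat_lit 0) (XT.nd (nat_lit 78) (nat_lit 0) (nat_lit 0) (XT.lf (nat_lit 0) (nat_lit 100331190671) (nat_lit 152) (nat_lit 31825154788) (nat_lit 228) (nat_lit 268790477482) (nat_lit 38) (nat_lit 5) (nat_lit 40) (nat_lit 5) (nat_lit 41) (nat_lit 5) (nat_lit 411) (nat_lit 369) (nat_lit 120)) (XT.lf (nat_lit 0) (nat_lit 220169787811) (nat_lit 228) (nat_lit 99718319344) (nat_lit 76) (nat_lit 94709971452) (nat_lit 38) (nat_lit 5) (nat_lit 41) (nat_lit 5) (nat_lit 39) (nat_lit 5) (nat_lit 412) (nat_lit 369) (nat_lit 119))) (XT.nd (nat_lit 78) (nat_lit 152) (nat_lit 0) (XT.lf (nat_lit 0) (nat_lit 114362339148) (nat_lit 152) (nat_lit 200528740235) (nat_lit 228) (nat_lit 113925458849) (nat_lit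 36) (nat_lit 5) (nat_lit 38) (nat_lit 5) (nat_lit 39) (nat_lit 5) (nat_lit 413) (nat_lit 369) (nat_lit 118)) (XT.nd (nat_lit 78) (nat_lit 152) (nat_lit 0) (XT.lf (nat_lit 0) (nat_lit 342608921852) (nat_lit 152) (nat_lit 73428229713) (nat_lit 228) (nat_lit 27624333503) (nat_lit 36) (nat_lit 5) (nat_lit 38) (nat_lit 5) (nat_lit 39) (nat_lit 5) (nat_lit 414) (nat_lit 369) (nat_lit 117)) (XT.lf (nat_lit 0) (nat_lit 63929555219) (nat_lit 152) (nat_lit 334016054732) (nat_lit 76) (nat_lit 61106203373) (nat_lit 34) (nat_lit 5) (nat_lit 36) (nat_lit 5) (nat_lit 35) (nat_lit 5) (nat_lit 415) (nat_lit 369) (nat_lit 116))))) (XT.nd (nat_lit 43290) (nat_lit 0) (nat_lit 5168) (XT.nd (nat_lit 78) (nat_lit 152) (nat_lit 0) (XT.lf (nat_lit 0) (nat_lit 162075891143) (nat_lit 152) (nat_lit 110874032073) (nat_lit 76) (nat_lit 202091936331) (nat_lit 34) (nat_lit 5) (nat_lit 36) (nat_lit 5) (nat_lit 35) (nat_lit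 5) (nat_lit 416) (nat_lit 369) (nat_lit 115)) (XT.nd (nat_lit 78) (nat_lit 0) (nat_lit 0) (XT.lf (nat_lit 0) (nat_lit 127505982914) (nat_lit 152) (nat_lit 139614230181) (nat_lit 228) (nat_lit 224611661549) (nat_lit 32) (nat_lit 5) (nat_lit 34) (nat_lit 5) (nat_lit 35) (nat_lit 5) (nat_lit 417) (nat_lit 369) (nat_lit 114)) (XT.lf (nat_lit 0) (nat_lit 379331244304) (nat_lit 228) (nat_lit 127545151389) (nat_lit 76) (nat_lit 2284270168) (nat_lit 32) (nat_lit 5) (nat_lit 35) (nat_lit 5) (nat_lit 33) (nat_lit 4) (nat_lit 418) (nat_lit 369) (nat_lit 113)))) (XT.nd (nat_lit 78) (nat_lit 0) (nat_lit 0) (XT.lf (nat_lit 0) (nat_lit 6739410462) (nat_lit 836) (nat_lit 27629816808) (nat_lit 836) (nat_lit 27629816808) (nat_lit 100) (nat_lit 3) (nat_lit 111) (nat_lit 3) (nat_lit 111) (nat_lit 5) (nat_lit 370) (nat_lit 370) (nat_lit 160)) (XT.nd (nat_lit 78) (nat_lit 0) (nat_lit 76) (XT.lf (nat_lit 76)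 (nat_lit 3516220680) (nat_lit 0) (nat_lit 10358583424) (nat_lit 836) (nat_lit 113220281279) (nat_lit 101) (nat_lit 5) (nat_lit 100) (nat_lit 3) (nat_lit 111) (nat_lit 5) (nat_lit 371) (nat_lit 370) (nat_lit 159)) (XT.lf (nat_lit 0) (nat_lit 16036833706) (nat_lit 760) (nat_lit 63961603448) (nat_lit 836) (nat_lit 50261183234) (nat_lit 101) (nat_lit 5) (nat_lit 111) (nat_lit 5) (nat_lit 112) (nat_lit 5) (nat_lit 372) (nat_lit 370) (nat_lit 158)))))) (XT.nd (nat_lit 468) (nat_lit 836) (nat_lit 0) (XT.nd (nat_lit 234) (nat_lit 0) (nat_lit 152) (XT.nd (nat_lit 78) (nat_lit 0) (nat_lit 76) (XT.lf (nat_lit 0) (nat_lit 18476526484) (nat_lit 760) (nat_lit 1533442893) (nat_lit 836) (nat_lit 113563934945) (nat_lit 101) (nat_lit 5) (nat_lit 111) (nat_lit 5) (nat_lit 112) (nat_lit 5) (nat_lit 373) (nat_lit 370) (nat_lit 157)) (XT.nd (nat_lit 78) (nat_lit 0) (nat_lit 0) (XT.lf (nat_lit 0) (nat_lit 22758414335)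 (nat_lit 760) (nat_lit 71557583234) (nat_lit 836) (nat_lit 42651894614) (nat_lit 102) (nat_lit 5) (nat_lit 112) (nat_lit 5) (nat_lit 113) (nat_lit 5) (nat_lit 374) (nat_lit 370) (nat_lit 156)) (XT.lf (nat_lit 0) (nat_lit 27608595571) (nat_lit 760) (nat_lit 5104407453) (nat_lit 836) (nat_lit 107800866704) (nat_lit 102) (nat_lit 5) (nat_lit 112) (nat_lit 5) (nat_lit 113) (nat_lit 5) (nat_lit 375) (nat_lit 370) (nat_lit 155)))) (XT.nd (nat_lit 78) (nat_lit 0) (nat_lit 0) (XT.lf (nat_lit 0) (nat_lit 34260397653) (nat_lit 760) (nat_lit 77891642853) (nat_lit 836) (nat_lit 32007150284) (nat_lit 103) (nat_lit 5) (nat_lit 113) (nat_lit 5) (nat_lit 114) (nat_lit 5) (nat_lit 376) (nat_lit 370) (nat_lit 154)) (XT.nd (nat_lit 78) (nat_lit 0) (nat_lit 76) (XT.lf (nat_lit 0) (nat_lit 41868722712) (nat_lit 760) (nat_lit 7134993423) (nat_lit 836) (nat_lit 98951865343) (nat_lit 103) (nat_lit 5) (nat_lit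 113) (nat_lit 5) (nat_lit 114) (nat_lit 5) (nat_lit 377) (nat_lit 370) (nat_lit 153)) (XT.lf (nat_lit 0) (nat_lit 51228371986) (nat_lit 760) (nat_lit 82795602103) (nat_lit 836) (nat_lit 17849272422) (nat_lit 104) (nat_lit 5) (nat_lit 114) (nat_lit 5) (nat_lit 115) (nat_lit 5) (nat_lit 378) (nat_lit 370) (nat_lit 152))))) (XT.nd (nat_lit 234) (nat_lit 1064) (nat_lit 0) (XT.nd (nat_lit 78) (nat_lit 0) (nat_lit 0) (XT.lf (nat_lit 0) (nat_lit 61981967983) (nat_lit 760) (nat_lit 7437605711) (nat_lit 836) (nat_lit 86520923087) (nat_lit 104) (nat_lit 5) (nat_lit 114) (nat_lit 5) (nat_lit 115) (nat_lit 5) (nat_lit 379) (nat_lit 370) (nat_lit 151)) (XT.nd (nat_lit 78) (nat_lit 0) (nat_lit 76) (XT.lf (nat_lit 76) (nat_lit 74058474539) (nat_lit 0) (nat_lit 370847853) (nat_lit 836) (nat_lit 85723983429) (nat_lit 105) (nat_lit 5) (nat_lit 104) (nat_lit 5) (nat_lit 115) (nat_lit 5) (nat_lit 380) (nat_lit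 370) (nat_lit 150)) (XT.lf (nat_lit 0) (nat_lit 88753050303) (nat_lit 760) (nat_lit 5811259548) (nat_lit 76) (nat_lit 69949745352) (nat_lit 105) (nat_lit 5) (nat_lit 115) (nat_lit 5) (nat_lit 106) (nat_lit 5) (nat_lit 381) (nat_lit 370) (nat_lit 149)))) (XT.nd (nat_lit 78) (nat_lit 380) (nat_lit 0) (XT.lf (nat_lit 0) (nat_lit 81075174027) (nat_lit 760) (nat_lit 23989514134) (nat_lit 836) (nat_lit 63964567885) (nat_lit 95) (nat_lit 5) (nat_lit 105) (nat_lit 5) (nat_lit 106) (nat_lit 5) (nat_lit 382) (nat_lit 370) (nat_lit 148)) (XT.nd (nat_lit 78) (nat_lit 380) (nat_lit 0) (XT.lf (nat_lit 0) (nat_lit 123074197374) (nat_lit 836) (nat_lit 2041801913) (nat_lit 76) (nat_lit 48610103336) (nat_lit 95) (nat_lit 5) (nat_lit 106) (nat_lit 5) (nat_lit 96) (nat_lit 5) (nat_lit 383) (nat_lit 370) (nat_lit 147)) (XT.lf (nat_lit 0) (nat_lit 90674834657) (nat_lit 380) (nat_lit 53118153315) (nat_lit 456)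 (nat_lit 34774363415) (nat_lit 90) (nat_lit 5) (nat_lit 95) (nat_lit 5) (nat_lit 96) (nat_lit 5) (nat_lit 384) (nat_lit 370) (nat_lit 146))))))) (XT.nd (nat_lit 936) (nat_lit 1596) (nat_lit 0) (XT.nd (nat_lit 468) (nat_lit 912) (nat_lit 0) (XT.nd (nat_lit 234) (nat_lit 304) (nat_lit 0) (XT.nd (nat_lit 78) (nat_lit 456) (nat_lit 0) (XT.lf (nat_lit 0) (nat_lit 4233051035) (nat_lit 304) (nat_lit 161766723923) (nat_lit 380) (nat_lit 17628284934) (nat_lit 86) (nat_lit 5) (nat_lit 90) (nat_lit 5) (nat_lit 91) (nat_lit 5) (nat_lit 385) (nat_lit 370) (nat_lit 145)) (XT.nd (nat_lit 78) (nat_lit 380) (nat_lit 0) (XT.lf (nat_lit 0) (nat_lit 2746639575) (nat_lit 380) (nat_lit 85752254701) (nat_lit 76) (nat_lit 100323439488) (nat_lit 85) (nat_lit 5) (nat_lit 90) (nat_lit 5) (nat_lit 86) (nat_lit 5) (nat_lit 386) (nat_lit 370) (nat_lit 144)) (XT.lf (nat_lit 0) (nat_lit 12689648804) (nat_lit 380) (nat_lit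 11056217652) (nat_lit 456) (nat_lit 170506106480) (nat_lit 80) (nat_lit 5) (nat_lit 85) (nat_lit 5) (nat_lit 86) (nat_lit 5) (nat_lit 387) (nat_lit 370) (nat_lit 143)))) (XT.nd (nat_lit 78) (nat_lit 304) (nat_lit 0) (XT.lf (nat_lit 0) (nat_lit 48367916913) (nat_lit 456) (nat_lit 81970602521) (nat_lit 76) (nat_lit 69485931642) (nat_lit 80) (nat_lit 5) (nat_lit 86) (nat_lit 5) (nat_lit 81) (nat_lit 5) (nat_lit 388) (nat_lit 370) (nat_lit 142)) (XT.nd (nat_lit 78) (nat_lit 0) (nat_lit 0) (XT.lf (nat_lit 0) (nat_lit 23160594235) (nat_lit 304) (nat_lit 51603198623) (nat_lit 380) (nat_lit 130884624233) (nat_lit 76) (nat_lit 5) (nat_lit 80) (nat_lit 5) (nat_lit 81) (nat_lit 5) (nat_lit 389) (nat_lit 370) (nat_lit 141)) (XT.lf (nat_lit 0) (nat_lit 104375379709) (nat_lit 380) (nat_lit 75807964571) (nat_lit 76) (nat_lit 31485441381) (nat_lit 76) (nat_lit 5) (nat_lit 81) (nat_lit 5) (nat_lit 77) (nat_lit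 5) (nat_lit 390) (nat_lit 370) (nat_lit 140))))) (XT.nd (nat_lit 234) (nat_lit 380) (nat_lit 0) (XT.nd (nat_lit 78) (nat_lit 228) (nat_lit 0) (XT.lf (nat_lit 0) (nat_lit 36528945188) (nat_lit 304) (nat_lit 100354755240) (nat_lit 380) (nat_lit 81035664611) (nat_lit 72) (nat_lit 5) (nat_lit 76) (nat_lit 5) (nat_lit 77) (nat_lit 5) (nat_lit 391) (nat_lit 370) (nat_lit 139)) (XT.nd (nat_lit 78) (nat_lit 228) (nat_lit 0) (XT.lf (nat_lit 0) (nat_lit 157114442336) (nat_lit 304) (nat_lit 15186724128) (nat_lit 380) (nat_lit 52117120555) (nat_lit 72) (nat_lit 5) (nat_lit 76) (nat_lit 5) (nat_lit 77) (nat_lit 5) (nat_lit 392) (nat_lit 370) (nat_lit 138)) (XT.lf (nat_lit 0) (nat_lit 53024961204) (nat_lit 228) (nat_lit 158451392604) (nat_lit 304) (nat_lit 19666458987) (nat_lit 69) (nat_lit 5) (nat_lit 72) (nat_lit 5) (nat_lit 73) (nat_lit 5) (nat_lit 393) (nat_lit 370) (nat_lit 137)))) (XT.nd (nat_lit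 78) (nat_lit 304) (nat_lit 0) (XT.lf (nat_lit 0) (nat_lit 15352992771) (nat_lit 304) (nat_lit 56932446134) (nat_lit 76) (nat_lit 165836511434) (nat_lit 68) (nat_lit 5) (nat_lit 72) (nat_lit 5) (nat_lit 69) (nat_lit 5) (nat_lit 394) (nat_lit 370) (nat_lit 136)) (XT.nd (nat_lit 78) (nat_lit 0) (nat_lit 0) (XT.lf (nat_lit 0) (nat_lit 52899026659) (nat_lit 380) (nat_lit 173381384616) (nat_lit 76) (nat_lit 19081686942) (nat_lit 64) (nat_lit 5) (nat_lit 69) (nat_lit 5) (nat_lit 65) (nat_lit 5) (nat_lit 395) (nat_lit 370) (nat_lit 135)) (XT.lf (nat_lit 0) (nat_lit 94487252912) (nat_lit 380) (nat_lit 44800896027) (nat_lit 76) (nat_lit 113567860094) (nat_lit 64) (nat_lit 5) (nat_lit 69) (nat_lit 5) (nat_lit 65) (nat_lit 5) (nat_lit 396) (nat_lit 370) (nat_lit 134)))))) (XT.nd (nat_lit 468) (nat_lit 608) (nat_lit 0) (XT.nd (nat_lit 234) (nat_lit 532) (nat_lit 0) (XT.nd (nat_lit 78) (nat_lit 228)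 (nat_lit 0) (XT.lf (nat_lit 0) (nat_lit 93191188086) (nat_lit 228) (nat_lit 46418581574) (nat_lit 304) (nat_lit 121042101846) (nat_lit 61) (nat_lit 5) (nat_lit 64) (nat_lit 5) (nat_lit 65) (nat_lit 5) (nat_lit 397) (nat_lit 370) (nat_lit 133)) (XT.nd (nat_lit 78) (nat_lit 228) (nat_lit 0) (XT.lf (nat_lit 0) (nat_lit 188557208653) (nat_lit 304) (nat_lit 29971625480) (nat_lit 76) (nat_lit 50230253220) (nat_lit 61) (nat_lit 5) (nat_lit 65) (nat_lit 5) (nat_lit 62) (nat_lit 5) (nat_lit 398) (nat_lit 370) (nat_lit 132)) (XT.lf (nat_lit 0) (nat_lit 117387947589) (nat_lit 228) (nat_lit 125157697358) (nat_lit 304) (nat_lit 34596337845) (nat_lit 58) (nat_lit 5) (nat_lit 61) (nat_lit 5) (nat_lit 62) (nat_lit 5) (nat_lit 399) (nat_lit 370) (nat_lit 131)))) (XT.nd (nat_lit 78) (nat_lit 456) (nat_lit 0) (XT.lf (nat_lit 0) (nat_lit 13379949746) (nat_lit 304) (nat_lit 12978530239) (nat_lit 76) (nat_lit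 259549377976) (nat_lit 57) (nat_lit 5) (nat_lit 61) (nat_lit 5) (nat_lit 58) (nat_lit 5) (nat_lit 400) (nat_lit 370) (nat_lit 130)) (XT.nd (nat_lit 78) (nat_lit 228) (nat_lit 0) (XT.lf (nat_lit 0) (nat_lit 66114131028) (nat_lit 304) (nat_lit 151008600487) (nat_lit 76) (nat_lit 77784850621) (nat_lit 54) (nat_lit 5) (nat_lit 58) (nat_lit 5) (nat_lit 55) (nat_lit 5) (nat_lit 401) (nat_lit 370) (nat_lit 129)) (XT.lf (nat_lit 0) (nat_lit 4430628539) (nat_lit 228) (nat_lit 117778991425) (nat_lit 304) (nat_lit 182111442683) (nat_lit 51) (nat_lit 5) (nat_lit 54) (nat_lit 5) (nat_lit 55) (nat_lit 5) (nat_lit 402) (nat_lit 370) (nat_lit 128))))) (XT.nd (nat_lit 234) (nat_lit 456) (nat_lit 0) (XT.nd (nat_lit 78) (nat_lit 152) (nat_lit 0) (XT.lf (nat_lit 0) (nat_lit 172884377063) (nat_lit 228) (nat_lit 10782828991) (nat_lit 304) (nat_lit 130410145045) (nat_lit 51) (nat_lit 5) (nat_lit 54) (nat_lit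 5) (nat_lit 55) (nat_lit 5) (nat_lit 403) (nat_lit 370) (nat_lit 127)) (XT.nd (nat_lit 78) (nat_lit 0) (nat_lit 0) (XT.lf (nat_lit 0) (nat_lit 24642262856) (nat_lit 152) (nat_lit 225525750922) (nat_lit 228) (nat_lit 74054923131) (nat_lit 49) (nat_lit 5) (nat_lit 51) (nat_lit 5) (nat_lit 52) (nat_lit 5) (nat_lit 404) (nat_lit 370) (nat_lit 126)) (XT.lf (nat_lit 0) (nat_lit 203488435079) (nat_lit 152) (nat_lit 119070438916) (nat_lit 228) (nat_lit 12188677457) (nat_lit 49) (nat_lit 5) (nat_lit 51) (nat_lit 5) (nat_lit 52) (nat_lit 5) (nat_lit 405) (nat_lit 370) (nat_lit 125)))) (XT.nd (nat_lit 78) (nat_lit 152) (nat_lit 0) (XT.lf (nat_lit 0) (nat_lit 46130985169) (nat_lit 228) (nat_lit 5671058113) (nat_lit 304) (nat_lit 293919150391) (nat_lit 45) (nat_lit 5) (nat_lit 48) (nat_lit 5) (nat_lit 49) (nat_lit 5) (nat_lit 406) (nat_lit 370) (nat_lit 124)) (XT.nd (nat_lit 78) (nat_lit 152) (nat_lit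 0) (XT.lf (nat_lit 0) (nat_lit 122612451661) (nat_lit 304) (nat_lit 122191593869) (nat_lit 76) (nat_lit 112227993244) (nat_lit 45) (nat_lit 5) (nat_lit 49) (nat_lit 5) (nat_lit 46) (nat_lit 5) (nat_lit 407) (nat_lit 370) (nat_lit 123)) (XT.lf (nat_lit 0) (nat_lit 66099471100) (nat_lit 152) (nat_lit 131988806677) (nat_lit 228) (nat_lit 170763903525) (nat_lit 43) (nat_lit 5) (nat_lit 45) (nat_lit 5) (nat_lit 46) (nat_lit 5) (nat_lit 408) (nat_lit 370) (nat_lit 122))))))))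
noncomputable def xc242 : XT := (XT.nd (nat_lit 44928) (nat_lit 0) (nat_lit 988) (XT.nd (nat_lit 43992) (nat_lit 0) (nat_lit 4788) (XT.nd (nat_lit 390) (nat_lit 456) (nat_lit 0) (XT.nd (nat_lit 156) (nat_lit 228) (nat_lit 0) (XT.nd (nat_lit 78) (nat_lit 152) (nat_lit 0) (XT.lf (nat_lit 0) (nat_lit 268047199176) (nat_lit 152) (nat_lit 11360002573) (nat_lit 228) (nat_lit 101752663917) (nat_lit 43) (nat_lit 5) (nat_lit 45) (nat_lit 5) (nat_lit 46) (nat_lit 5) (nat_lit 409) (nat_lit 370) (nat_lit 121)) (XT.lf (nat_lit 0) (nat_lit 86993449211) (nat_lit 152) (nat_lit 280956929555) (nat_lit 228) (nat_lit 25974640177) (nat_lit 41) (nat_lit 5) (nat_lit 43) (nat_lit 5) (nat_lit 44) (nat_lit 5) (nat_lit 410) (nat_lit 370) (nat_lit 120))) (XT.nd (nat_lit 78) (nat_lit 152) (nat_lit 0) (XT.lf (nat_lit 0) (nat_lit 54010183618) (nat_lit 228) (nat_lit 107255225242) (nat_lit 76) (nat_lit 245914525433) (nat_lit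 40) (nat_lit 5) (nat_lit 43) (nat_lit 5) (nat_lit 41) (nat_lit 5) (nat_lit 411) (nat_lit 370) (nat_lit 119)) (XT.nd (nat_lit 78) (nat_lit 0) (nat_lit 0) (XT.lf (nat_lit 0) (nat_lit 105350910298) (nat_lit 152) (nat_lit 33415181896) (nat_lit 228) (nat_lit 282227974470) (nat_lit 38) (nat_lit 5) (nat_lit 40) (nat_lit 5) (nat_lit 41) (nat_lit 5) (nat_lit 412) (nat_lit 370) (nat_lit 118)) (XT.lf (nat_lit 0) (nat_lit 231180133083) (nat_lit 228) (nat_lit 104701151212) (nat_lit 76) (nat_lit 99446604543) (nat_lit 38) (nat_lit 5) (nat_lit 41) (nat_lit 5) (nat_lit 39) (nat_lit 5) (nat_lit 413) (nat_lit 370) (nat_lit 117))))) (XT.nd (nat_lit 234) (nat_lit 152) (nat_lit 0) (XT.nd (nat_lit 78) (nat_lit 152) (nat_lit 0) (XT.lf (nat_lit 0) (nat_lit 120083490461) (nat_lit 152) (nat_lit 210553957772) (nat_lit 228) (nat_lit 119619825304) (nat_lit 36) (nat_lit 5) (nat_lit 38) (nat_lit 5) (nat_lit 39) (nat_lit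 5) (nat_lit 414) (nat_lit 370) (nat_lit 116)) (XT.nd (nat_lit 78) (nat_lit 152) (nat_lit 0) (XT.lf (nat_lit 0) (nat_lit 359742257807) (nat_lit 152) (nat_lit 77098479794) (nat_lit 228) (nat_lit 29003734475) (nat_lit 36) (nat_lit 5) (nat_lit 38) (nat_lit 5) (nat_lit 39) (nat_lit 5) (nat_lit 415) (nat_lit 370) (nat_lit 115)) (XT.lf (nat_lit 0) (nat_lit 67127770624) (nat_lit 152) (nat_lit 350713888020) (nat_lit 76) (nat_lit 64162657719) (nat_lit 34) (nat_lit 5) (nat_lit 36) (nat_lit 5) (nat_lit 35) (nat_lit 5) (nat_lit 416) (nat_lit 370) (nat_lit 114)))) (XT.nd (nat_lit 78) (nat_lit 152) (nat_lit 0) (XT.lf (nat_lit 0) (nat_lit 170181340600) (nat_lit 152) (nat_lit 116414905629) (nat_lit 76) (nat_lit 212197622840) (nat_lit 34) (nat_lit 5) (nat_lit 36) (nat_lit 5) (nat_lit 35) (nat_lit 5) (nat_lit 417) (nat_lit 370) (nat_lit 113)) (XT.nd (nat_lit 43212) (nat_lit 0) (nat_lit 5168) (XT.lf (nat_lit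 0) (nat_lit 133884064493) (nat_lit 152) (nat_lit 146593778793) (nat_lit 228) (nat_lit 235840543437) (nat_lit 32) (nat_lit 5) (nat_lit 34) (nat_lit 5) (nat_lit 35) (nat_lit 5) (nat_lit 418) (nat_lit 370) (nat_lit 112)) (XT.lf (nat_lit 0) (nat_lit 7080431343) (nat_lit 836) (nat_lit 29009179072) (nat_lit 836) (nat_lit 29009179072) (nat_lit 100) (nat_lit 3) (nat_lit 111) (nat_lit 3) (nat_lit 111) (nat_lit 5) (nat_lit 371) (nat_lit 371) (nat_lit 158)))))) (XT.nd (nat_lit 468) (nat_lit 380) (nat_lit 0) (XT.nd (nat_lit 234) (nat_lit 0) (nat_lit 152) (XT.nd (nat_lit 78) (nat_lit 0) (nat_lit 76) (XT.lf (nat_lit 76) (nat_lit 3696220202) (nat_lit 0) (nat_lit 10880104469) (nat_lit 836) (nat_lit 118873117819) (nat_lit 101) (nat_lit 5) (nat_lit 100) (nat_lit 3) (nat_lit 111) (nat_lit 5) (nat_lit 372) (nat_lit 371) (nat_lit 157)) (XT.nd (nat_lit 78) (nat_lit 0) (nat_lit 0) (XT.lf (nat_lit 0) (nat_lit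 16846031851) (nat_lit 760) (nat_lit 67155262926) (nat_lit 836) (nat_lit 52770931051) (nat_lit 101) (nat_lit 5) (nat_lit 111) (nat_lit 5) (nat_lit 112) (nat_lit 5) (nat_lit 373) (nat_lit 371) (nat_lit 156)) (XT.lf (nat_lit 0) (nat_lit 19407358960) (nat_lit 760) (nat_lit 1605904852) (nat_lit 836) (nat_lit 119238978031) (nat_lit 101) (nat_lit 5) (nat_lit 111) (nat_lit 5) (nat_lit 112) (nat_lit 5) (nat_lit 374) (nat_lit 371) (nat_lit 155)))) (XT.nd (nat_lit 78) (nat_lit 0) (nat_lit 0) (XT.lf (nat_lit 0) (nat_lit 23903031736) (nat_lit 760) (nat_lit 75130935707) (nat_lit 836) (nat_lit 44781977479) (nat_lit 102) (nat_lit 5) (nat_lit 112) (nat_lit 5) (nat_lit 113) (nat_lit 5) (nat_lit 375) (nat_lit 371) (nat_lit 154)) (XT.nd (nat_lit 78) (nat_lit 0) (nat_lit 76) (XT.lf (nat_lit 0) (nat_lit 28995403144) (nat_lit 760) (nat_lit 5355316694) (nat_lit 836) (nat_lit 113188517786) (nat_lit 102) (nat_lit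 5) (nat_lit 112) (nat_lit 5) (nat_lit 113) (nat_lit 5) (nat_lit 376) (nat_lit 371) (nat_lit 153)) (XT.lf (nat_lit 0) (nat_lit 35979528204) (nat_lit 760) (nat_lit 81781640358) (nat_lit 836) (nat_lit 33605669853) (nat_lit 103) (nat_lit 5) (nat_lit 113) (nat_lit 5) (nat_lit 114) (nat_lit 5) (nat_lit 377) (nat_lit 371) (nat_lit 152))))) (XT.nd (nat_lit 234) (nat_lit 608) (nat_lit 0) (XT.nd (nat_lit 78) (nat_lit 0) (nat_lit 76) (XT.lf (nat_lit 0) (nat_lit 43967978533) (nat_lit 760) (nat_lit 7487376772) (nat_lit 836) (nat_lit 103897708186) (nat_lit 103) (nat_lit 5) (nat_lit 113) (nat_lit 5) (nat_lit 114) (nat_lit 5) (nat_lit 378) (nat_lit 371) (nat_lit 151)) (XT.nd (nat_lit 78) (nat_lit 0) (nat_lit 0) (XT.lf (nat_lit 0) (nat_lit 53795379702) (nat_lit 760) (nat_lit 86930779530) (nat_lit 836) (nat_lit 18740464360) (nat_lit 104) (nat_lit 5) (nat_lit 114) (nat_lit 5) (nat_lit 115) (nat_lit 5) (nat_lit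 379) (nat_lit 371) (nat_lit 150)) (XT.lf (nat_lit 0) (nat_lit 65086389350) (nat_lit 760) (nat_lit 7805102494) (nat_lit 836) (nat_lit 90845758115) (nat_lit 104) (nat_lit 5) (nat_lit 114) (nat_lit 5) (nat_lit 115) (nat_lit 5) (nat_lit 380) (nat_lit 371) (nat_lit 149)))) (XT.nd (nat_lit 78) (nat_lit 684) (nat_lit 0) (XT.lf (nat_lit 76) (nat_lit 77765711066) (nat_lit 0) (nat_lit 390214273) (nat_lit 836) (nat_lit 90004783681) (nat_lit 105) (nat_lit 5) (nat_lit 104) (nat_lit 5) (nat_lit 115) (nat_lit 5) (nat_lit 381) (nat_lit 371) (nat_lit 148)) (XT.nd (nat_lit 78) (nat_lit 760) (nat_lit 0) (XT.lf (nat_lit 0) (nat_lit 93195582783) (nat_lit 760) (nat_lit 6097453232) (nat_lit 76) (nat_lit 73446472950) (nat_lit 105) (nat_lit 5) (nat_lit 115) (nat_lit 5) (nat_lit 106) (nat_lit 5) (nat_lit 382) (nat_lit 371) (nat_lit 147)) (XT.lf (nat_lit 0) (nat_lit 85133231549) (nat_lit 760) (nat_lit 25189405723)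 (nat_lit 836) (nat_lit 67157841081) (nat_lit 95) (nat_lit 5) (nat_lit 105) (nat_lit 5) (nat_lit 106) (nat_lit 5) (nat_lit 383) (nat_lit 371) (nat_lit 146))))))) (XT.nd (nat_lit 936) (nat_lit 1748) (nat_lit 0) (XT.nd (nat_lit 468) (nat_lit 912) (nat_lit 0) (XT.nd (nat_lit 234) (nat_lit 456) (nat_lit 0) (XT.nd (nat_lit 78) (nat_lit 684) (nat_lit 0) (XT.lf (nat_lit 0) (nat_lit 129232391251) (nat_lit 836) (nat_lit 2139562666) (nat_lit 76) (nat_lit 51040225102) (nat_lit 95) (nat_lit 5) (nat_lit 106) (nat_lit 5) (nat_lit 96) (nat_lit 5) (nat_lit 384) (nat_lit 371) (nat_lit 145)) (XT.nd (nat_lit 78) (nat_lit 304) (nat_lit 0) (XT.lf (nat_lit 0) (nat_lit 95212835905) (nat_lit 380) (nat_lit 55774138453) (nat_lit 456) (nat_lit 36508523430) (nat_lit 90) (nat_lit 5) (nat_lit 95) (nat_lit 5) (nat_lit 96) (nat_lit 5) (nat_lit 385) (nat_lit 371) (nat_lit 144)) (XT.lf (nat_lit 0) (nat_lit 4449113192) (nat_lit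 304) (nat_lit 169854848674) (nat_lit 380) (nat_lit 18505287001) (nat_lit 86) (nat_lit 5) (nat_lit 90) (nat_lit 5) (nat_lit 91) (nat_lit 5) (nat_lit 386) (nat_lit 371) (nat_lit 143)))) (XT.nd (nat_lit 78) (nat_lit 380) (nat_lit 0) (XT.lf (nat_lit 0) (nat_lit 2888039137) (nat_lit 380) (nat_lit 90035529589) (nat_lit 76) (nat_lit 105339674616) (nat_lit 85) (nat_lit 5) (nat_lit 90) (nat_lit 5) (nat_lit 86) (nat_lit 5) (nat_lit 387) (nat_lit 371) (nat_lit 142)) (XT.nd (nat_lit 78) (nat_lit 0) (nat_lit 0) (XT.lf (nat_lit 0) (nat_lit 13328399125) (nat_lit 380) (nat_lit 11608701176) (nat_lit 456) (nat_lit 179027270702) (nat_lit 80) (nat_lit 5) (nat_lit 85) (nat_lit 5) (nat_lit 86) (nat_lit 5) (nat_lit 388) (nat_lit 371) (nat_lit 141)) (XT.lf (nat_lit 0) (nat_lit 50790070505) (nat_lit 456) (nat_lit 86064881838) (nat_lit 76) (nat_lit 72960530016) (nat_lit 80) (nat_lit 5) (nat_lit 86) (nat_lit 5) (nat_lit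 81) (nat_lit 5) (nat_lit 389) (nat_lit 371) (nat_lit 140))))) (XT.nd (nat_lit 234) (nat_lit 304) (nat_lit 0) (XT.nd (nat_lit 78) (nat_lit 304) (nat_lit 0) (XT.lf (nat_lit 0) (nat_lit 24322806195) (nat_lit 304) (nat_lit 54182820409) (nat_lit 380) (nat_lit 137425025914) (nat_lit 76) (nat_lit 5) (nat_lit 80) (nat_lit 5) (nat_lit 81) (nat_lit 5) (nat_lit 390) (nat_lit 371) (nat_lit 139)) (XT.nd (nat_lit 78) (nat_lit 304) (nat_lit 0) (XT.lf (nat_lit 0) (nat_lit 109597627270) (nat_lit 380) (nat_lit 79594211110) (nat_lit 76) (nat_lit 33060209565) (nat_lit 76) (nat_lit 5) (nat_lit 81) (nat_lit 5) (nat_lit 77) (nat_lit 5) (nat_lit 391) (nat_lit 371) (nat_lit 138)) (XT.lf (nat_lit 0) (nat_lit 38359477174) (nat_lit 304) (nat_lit 105371784978) (nat_lit 380) (nat_lit 85083899379) (nat_lit 72) (nat_lit 5) (nat_lit 76) (nat_lit 5) (nat_lit 77) (nat_lit 5) (nat_lit 392) (nat_lit 371) (nat_lit 137)))) (XT.nd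 (nat_lit 78) (nat_lit 304) (nat_lit 0) (XT.lf (nat_lit 0) (nat_lit 164974054669) (nat_lit 304) (nat_lit 15945386027) (nat_lit 380) (nat_lit 54719597096) (nat_lit 72) (nat_lit 5) (nat_lit 76) (nat_lit 5) (nat_lit 77) (nat_lit 5) (nat_lit 393) (nat_lit 371) (nat_lit 136)) (XT.nd (nat_lit 78) (nat_lit 76) (nat_lit 0) (XT.lf (nat_lit 0) (nat_lit 55680187317) (nat_lit 228) (nat_lit 166373119085) (nat_lit 304) (nat_lit 20646487636) (nat_lit 69) (nat_lit 5) (nat_lit 72) (nat_lit 5) (nat_lit 73) (nat_lit 5) (nat_lit 394) (nat_lit 371) (nat_lit 135)) (XT.lf (nat_lit 0) (nat_lit 16123679422) (nat_lit 304) (nat_lit 59775176996) (nat_lit 76) (nat_lit 174129037182) (nat_lit 68) (nat_lit 5) (nat_lit 72) (nat_lit 5) (nat_lit 69) (nat_lit 5) (nat_lit 395) (nat_lit 371) (nat_lit 134)))))) (XT.nd (nat_lit 468) (nat_lit 912) (nat_lit 0) (XT.nd (nat_lit 234) (nat_lit 304) (nat_lit 0) (XT.nd (nat_lit 78) (nat_lit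 228) (nat_lit 0) (XT.lf (nat_lit 0) (nat_lit 55546943846) (nat_lit 380) (nat_lit 182046488953) (nat_lit 76) (nat_lit 20036619745) (nat_lit 64) (nat_lit 5) (nat_lit 69) (nat_lit 5) (nat_lit 65) (nat_lit 5) (nat_lit 396) (nat_lit 371) (nat_lit 133)) (XT.nd (nat_lit 78) (nat_lit 228) (nat_lit 0) (XT.lf (nat_lit 0) (nat_lit 99214440180) (nat_lit 380) (nat_lit 47037164739) (nat_lit 76) (nat_lit 119247061153) (nat_lit 64) (nat_lit 5) (nat_lit 69) (nat_lit 5) (nat_lit 65) (nat_lit 5) (nat_lit 397) (nat_lit 371) (nat_lit 132)) (XT.lf (nat_lit 0) (nat_lit 97854462675) (nat_lit 228) (nat_lit 48738543590) (nat_lit 304) (nat_lit 127091319333) (nat_lit 61) (nat_lit 5) (nat_lit 64) (nat_lit 5) (nat_lit 65) (nat_lit 5) (nat_lit 398) (nat_lit 371) (nat_lit 131)))) (XT.nd (nat_lit 78) (nat_lit 304) (nat_lit 0) (XT.lf (nat_lit 0) (nat_lit 197987700724) (nat_lit 304) (nat_lit 31466550021) (nat_lit 76) (nat_lit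 52742657415) (nat_lit 61) (nat_lit 5) (nat_lit 65) (nat_lit 5) (nat_lit 62) (nat_lit 5) (nat_lit 399) (nat_lit 371) (nat_lit 130)) (XT.nd (nat_lit 78) (nat_lit 76) (nat_lit 0) (XT.lf (nat_lit 0) (nat_lit 123260942722) (nat_lit 228) (nat_lit 131414546966) (nat_lit 304) (nat_lit 36323462235) (nat_lit 58) (nat_lit 5) (nat_lit 61) (nat_lit 5) (nat_lit 62) (nat_lit 5) (nat_lit 400) (nat_lit 371) (nat_lit 129)) (XT.lf (nat_lit 0) (nat_lit 14051429447) (nat_lit 304) (nat_lit 13623946537) (nat_lit 76) (nat_lit 272527749055) (nat_lit 57) (nat_lit 5) (nat_lit 61) (nat_lit 5) (nat_lit 58) (nat_lit 5) (nat_lit 401) (nat_lit 371) (nat_lit 128))))) (XT.nd (nat_lit 234) (nat_lit 456) (nat_lit 0) (XT.nd (nat_lit 78) (nat_lit 228) (nat_lit 0) (XT.lf (nat_lit 0) (nat_lit 69422271683) (nat_lit 304) (nat_lit 158555470558) (nat_lit 76) (nat_lit 81675095668) (nat_lit 54) (nat_lit 5) (nat_lit 58) (nat_lit 5)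 (nat_lit 55) (nat_lit 5) (nat_lit 402) (nat_lit 371) (nat_lit 127)) (XT.nd (nat_lit 78) (nat_lit 0) (nat_lit 0) (XT.lf (nat_lit 0) (nat_lit 4655662500) (nat_lit 228) (nat_lit 123666811340) (nat_lit 304) (nat_lit 191214521745) (nat_lit 51) (nat_lit 5) (nat_lit 54) (nat_lit 5) (nat_lit 55) (nat_lit 5) (nat_lit 403) (nat_lit 371) (nat_lit 126)) (XT.lf (nat_lit 0) (nat_lit 181531931663) (nat_lit 228) (nat_lit 11320894579) (nat_lit 304) (nat_lit 136928277943) (nat_lit 51) (nat_lit 5) (nat_lit 54) (nat_lit 5) (nat_lit 55) (nat_lit 5) (nat_lit 404) (nat_lit 371) (nat_lit 125)))) (XT.nd (nat_lit 78) (nat_lit 304) (nat_lit 0) (XT.lf (nat_lit 0) (nat_lit 25877754041) (nat_lit 152) (nat_lit 236800881435) (nat_lit 228) (nat_lit 77755335822) (nat_lit 49) (nat_lit 5) (nat_lit 51) (nat_lit 5) (nat_lit 52) (nat_lit 5) (nat_lit 405) (nat_lit 371) (nat_lit 124)) (XT.nd (nat_lit 78) (nat_lit 304) (nat_lit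 0) (XT.lf (nat_lit 0) (nat_lit 213666074016) (nat_lit 152) (nat_lit 125022858925) (nat_lit 228) (nat_lit 12795888982) (nat_lit 49) (nat_lit 5) (nat_lit 51) (nat_lit 5) (nat_lit 52) (nat_lit 5) (nat_lit 406) (nat_lit 371) (nat_lit 123)) (XT.lf (nat_lit 0) (nat_lit 48440770957) (nat_lit 228) (nat_lit 5953473800) (nat_lit 304) (nat_lit 308612902419) (nat_lit 45) (nat_lit 5) (nat_lit 48) (nat_lit 5) (nat_lit 49) (nat_lit 5) (nat_lit 407) (nat_lit 371) (nat_lit 122))))))))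
noncomputable def xc243 : XT := (XT.nd (nat_lit 45162) (nat_lit 0) (nat_lit 836) (XT.nd (nat_lit 44226) (nat_lit 0) (nat_lit 4636) (XT.nd (nat_lit 390) (nat_lit 456) (nat_lit 0) (XT.nd (nat_lit 156) (nat_lit 228) (nat_lit 0) (XT.nd (nat_lit 78) (nat_lit 152) (nat_lit 0) (XT.lf (nat_lit 0) (nat_lit 128745090497) (nat_lit 304) (nat_lit 128298006938) (nat_lit 76) (nat_lit 117840441306) (nat_lit 45) (nat_lit 5) (nat_lit 49) (nat_lit 5) (nat_lit 46) (nat_lit 5) (nat_lit 408) (nat_lit 371) (nat_lit 121)) (XT.lf (nat_lit 0) (nat_lit 69407560204) (nat_lit 152) (nat_lit 138587100346) (nat_lit 228) (nat_lit 179300030271) (nat_lit 43) (nat_lit 5) (nat_lit 45) (nat_lit 5) (nat_lit 46) (nat_lit 5) (nat_lit 409) (nat_lit 371) (nat_lit 120))) (XT.nd (nat_lit 78) (nat_lit 228) (nat_lit 0) (XT.lf (nat_lit 0) (nat_lit 281452526325) (nat_lit 152) (nat_lit 11926910639) (nat_lit 228) (nat_lit 106838327179)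 (nat_lit 43) (nat_lit 5) (nat_lit 45) (nat_lit 5) (nat_lit 46) (nat_lit 5) (nat_lit 410) (nat_lit 371) (nat_lit 119)) (XT.nd (nat_lit 78) (nat_lit 76) (nat_lit 0) (XT.lf (nat_lit 0) (nat_lit 91346117504) (nat_lit 152) (nat_lit 295003629047) (nat_lit 228) (nat_lit 27271429897) (nat_lit 41) (nat_lit 5) (nat_lit 43) (nat_lit 5) (nat_lit 44) (nat_lit 5) (nat_lit 411) (nat_lit 371) (nat_lit 118)) (XT.lf (nat_lit 0) (nat_lit 56712483393) (nat_lit 228) (nat_lit 112615073219) (nat_lit 76) (nat_lit 258211283960) (nat_lit 40) (nat_lit 5) (nat_lit 43) (nat_lit 5) (nat_lit 41) (nat_lit 5) (nat_lit 412) (nat_lit 371) (nat_lit 117))))) (XT.nd (nat_lit 312) (nat_lit 152) (nat_lit 0) (XT.nd (nat_lit 78) (nat_lit 152) (nat_lit 0) (XT.lf (nat_lit 0) (nat_lit 110621322110) (nat_lit 152) (nat_lit 35084824773) (nat_lit 228) (nat_lit 296337534747) (nat_lit 38) (nat_lit 5) (nat_lit 40) (nat_lit 5) (nat_lit 41)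 (nat_lit 5) (nat_lit 413) (nat_lit 371) (nat_lit 116)) (XT.nd (nat_lit 156) (nat_lit 152) (nat_lit 0) (XT.lf (nat_lit 0) (nat_lit 242740823076) (nat_lit 228) (nat_lit 109933411404) (nat_lit 76) (nat_lit 104419963811) (nat_lit 38) (nat_lit 5) (nat_lit 41) (nat_lit 5) (nat_lit 39) (nat_lit 5) (nat_lit 414) (nat_lit 371) (nat_lit 115)) (XT.lf (nat_lit 0) (nat_lit 377731991888) (nat_lit 152) (nat_lit 80952350355) (nat_lit 228) (nat_lit 30452274303) (nat_lit 36) (nat_lit 5) (nat_lit 38) (nat_lit 5) (nat_lit 39) (nat_lit 5) (nat_lit 416) (nat_lit 371) (nat_lit 113)))) (XT.nd (nat_lit 43368) (nat_lit 0) (nat_lit 5016) (XT.lf (nat_lit 0) (nat_lit 70485735250) (nat_lit 152) (nat_lit 368246889042) (nat_lit 76) (nat_lit 67371828407) (nat_lit 34) (nat_lit 5) (nat_lit 36) (nat_lit 5) (nat_lit 35) (nat_lit 5) (nat_lit 417) (nat_lit 371) (nat_lit 112)) (XT.nd (nat_lit 78) (nat_lit 0) (nat_lit 0) (XT.lf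 (nat_lit 0) (nat_lit 7438126704) (nat_lit 836) (nat_lit 30457707345) (nat_lit 836) (nat_lit 30457707345) (nat_lit 100) (nat_lit 3) (nat_lit 111) (nat_lit 3) (nat_lit 111) (nat_lit 5) (nat_lit 372) (nat_lit 372) (nat_lit 156)) (XT.lf (nat_lit 76) (nat_lit 3884830294) (nat_lit 0) (nat_lit 11427367628) (nat_lit 836) (nat_lit 124809356455) (nat_lit 101) (nat_lit 5) (nat_lit 100) (nat_lit 3) (nat_lit 111) (nat_lit 5) (nat_lit 373) (nat_lit 372) (nat_lit 155)))))) (XT.nd (nat_lit 468) (nat_lit 456) (nat_lit 0) (XT.nd (nat_lit 234) (nat_lit 0) (nat_lit 76) (XT.nd (nat_lit 78) (nat_lit 0) (nat_lit 0) (XT.lf (nat_lit 0) (nat_lit 17695005969) (nat_lit 760) (nat_lit 70509016372) (nat_lit 836) (nat_lit 55406474117) (nat_lit 101) (nat_lit 5) (nat_lit 111) (nat_lit 5) (nat_lit 112) (nat_lit 5) (nat_lit 374) (nat_lit 372) (nat_lit 154)) (XT.nd (nat_lit 78) (nat_lit 0) (nat_lit 76) (XT.lf (nat_lit 0) (nat_lit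 20384081694) (nat_lit 760) (nat_lit 1682381333) (nat_lit 836) (nat_lit 125198066469) (nat_lit 101) (nat_lit 5) (nat_lit 111) (nat_lit 5) (nat_lit 112) (nat_lit 5) (nat_lit 375) (nat_lit 372) (nat_lit 153)) (XT.lf (nat_lit 0) (nat_lit 25104257413) (nat_lit 760) (nat_lit 78883376653) (nat_lit 836) (nat_lit 47018798017) (nat_lit 102) (nat_lit 5) (nat_lit 112) (nat_lit 5) (nat_lit 113) (nat_lit 5) (nat_lit 376) (nat_lit 372) (nat_lit 152)))) (XT.nd (nat_lit 78) (nat_lit 0) (nat_lit 76) (XT.lf (nat_lit 0) (nat_lit 30450958149) (nat_lit 760) (nat_lit 5619172205) (nat_lit 836) (nat_lit 118845773832) (nat_lit 102) (nat_lit 5) (nat_lit 112) (nat_lit 5) (nat_lit 113) (nat_lit 5) (nat_lit 377) (nat_lit 372) (nat_lit 151)) (XT.nd (nat_lit 78) (nat_lit 0) (nat_lit 0) (XT.lf (nat_lit 0) (nat_lit 37784047171) (nat_lit 760) (nat_lit 85866563974) (nat_lit 836) (nat_lit 35284286275) (nat_lit 103) (nat_lit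 5) (nat_lit 113) (nat_lit 5) (nat_lit 114) (nat_lit 5) (nat_lit 378) (nat_lit 372) (nat_lit 150)) (XT.lf (nat_lit 0) (nat_lit 46171656085) (nat_lit 760) (nat_lit 7857785228) (nat_lit 836) (nat_lit 109091005909) (nat_lit 103) (nat_lit 5) (nat_lit 113) (nat_lit 5) (nat_lit 114) (nat_lit 5) (nat_lit 379) (nat_lit 372) (nat_lit 149))))) (XT.nd (nat_lit 234) (nat_lit 684) (nat_lit 0) (XT.nd (nat_lit 78) (nat_lit 0) (nat_lit 0) (XT.lf (nat_lit 0) (nat_lit 56490218181) (nat_lit 760) (nat_lit 91273143742) (nat_lit 836) (nat_lit 19676334125) (nat_lit 104) (nat_lit 5) (nat_lit 114) (nat_lit 5) (nat_lit 115) (nat_lit 5) (nat_lit 380) (nat_lit 372) (nat_lit 148)) (XT.nd (nat_lit 78) (nat_lit 0) (nat_lit 0) (XT.lf (nat_lit 0) (nat_lit 68345536907) (nat_lit 760) (nat_lit 8191381652) (nat_lit 836) (nat_lit 95386947493) (nat_lit 104) (nat_lit 5) (nat_lit 114) (nat_lit 5) (nat_lit 115) (nat_lit 5) (nat_lit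 381) (nat_lit 372) (nat_lit 147)) (XT.lf (nat_lit 76) (nat_lit 81657908457) (nat_lit 0) (nat_lit 410472404) (nat_lit 836) (nat_lit 94500125885) (nat_lit 105) (nat_lit 5) (nat_lit 104) (nat_lit 5) (nat_lit 115) (nat_lit 5) (nat_lit 382) (nat_lit 372) (nat_lit 146)))) (XT.nd (nat_lit 78) (nat_lit 760) (nat_lit 0) (XT.lf (nat_lit 0) (nat_lit 97859788194) (nat_lit 760) (nat_lit 6398362816) (nat_lit 76) (nat_lit 77118107554) (nat_lit 105) (nat_lit 5) (nat_lit 115) (nat_lit 5) (nat_lit 106) (nat_lit 5) (nat_lit 383) (nat_lit 372) (nat_lit 145)) (XT.nd (nat_lit 78) (nat_lit 0) (nat_lit 0) (XT.lf (nat_lit 0) (nat_lit 89393792283) (nat_lit 760) (nat_lit 26449253226) (nat_lit 836) (nat_lit 70511238623) (nat_lit 95) (nat_lit 5) (nat_lit 105) (nat_lit 5) (nat_lit 106) (nat_lit 5) (nat_lit 384) (nat_lit 372) (nat_lit 144)) (XT.lf (nat_lit 0) (nat_lit 135698077942) (nat_lit 836) (nat_lit 2242613957)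 (nat_lit 76) (nat_lit 53591888601) (nat_lit 95) (nat_lit 5) (nat_lit 106) (nat_lit 5) (nat_lit 96) (nat_lit 5) (nat_lit 385) (nat_lit 372) (nat_lit 143))))))) (XT.nd (nat_lit 936) (nat_lit 1444) (nat_lit 0) (XT.nd (nat_lit 468) (nat_lit 912) (nat_lit 0) (XT.nd (nat_lit 234) (nat_lit 684) (nat_lit 0) (XT.nd (nat_lit 78) (nat_lit 380) (nat_lit 0) (XT.lf (nat_lit 0) (nat_lit 99977341206) (nat_lit 380) (nat_lit 58562915646) (nat_lit 456) (nat_lit 38329815220) (nat_lit 90) (nat_lit 5) (nat_lit 95) (nat_lit 5) (nat_lit 96) (nat_lit 5) (nat_lit 386) (nat_lit 372) (nat_lit 142)) (XT.nd (nat_lit 78) (nat_lit 76) (nat_lit 0) (XT.lf (nat_lit 0) (nat_lit 4675568492) (nat_lit 304) (nat_lit 178347399320) (nat_lit 380) (nat_lit 19426549374) (nat_lit 86) (nat_lit 5) (nat_lit 90) (nat_lit 5) (nat_lit 91) (nat_lit 5) (nat_lit 387) (nat_lit 372) (nat_lit 141)) (XT.lf (nat_lit 0) (nat_lit 3036130512) (nat_lit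 380) (nat_lit 94533371514) (nat_lit 76) (nat_lit 110606715629) (nat_lit 85) (nat_lit 5) (nat_lit 90) (nat_lit 5) (nat_lit 86) (nat_lit 5) (nat_lit 388) (nat_lit 372) (nat_lit 140)))) (XT.nd (nat_lit 78) (nat_lit 304) (nat_lit 0) (XT.lf (nat_lit 0) (nat_lit 13998690176) (nat_lit 380) (nat_lit 12188839310) (nat_lit 456) (nat_lit 187974878136) (nat_lit 80) (nat_lit 5) (nat_lit 85) (nat_lit 5) (nat_lit 86) (nat_lit 5) (nat_lit 389) (nat_lit 372) (nat_lit 139)) (XT.nd (nat_lit 78) (nat_lit 304) (nat_lit 0) (XT.lf (nat_lit 0) (nat_lit 53332982417) (nat_lit 456) (nat_lit 90364270321) (nat_lit 76) (nat_lit 76608830250) (nat_lit 80) (nat_lit 5) (nat_lit 86) (nat_lit 5) (nat_lit 81) (nat_lit 5) (nat_lit 390) (nat_lit 372) (nat_lit 138)) (XT.lf (nat_lit 0) (nat_lit 25542739927) (nat_lit 304) (nat_lit 56891473315) (nat_lit 380) (nat_lit 144292803713) (nat_lit 76) (nat_lit 5) (nat_lit 80) (nat_lit 5)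 (nat_lit 81) (nat_lit 5) (nat_lit 391) (nat_lit 372) (nat_lit 137))))) (XT.nd (nat_lit 234) (nat_lit 608) (nat_lit 0) (XT.nd (nat_lit 78) (nat_lit 304) (nat_lit 0) (XT.lf (nat_lit 0) (nat_lit 115080663805) (nat_lit 380) (nat_lit 83570155961) (nat_lit 76) (nat_lit 34713670035) (nat_lit 76) (nat_lit 5) (nat_lit 81) (nat_lit 5) (nat_lit 77) (nat_lit 5) (nat_lit 392) (nat_lit 372) (nat_lit 136)) (XT.nd (nat_lit 78) (nat_lit 0) (nat_lit 0) (XT.lf (nat_lit 0) (nat_lit 40281156001) (nat_lit 304) (nat_lit 110639732029) (nat_lit 380) (nat_lit 89334875789) (nat_lit 72) (nat_lit 5) (nat_lit 76) (nat_lit 5) (nat_lit 77) (nat_lit 5) (nat_lit 393) (nat_lit 372) (nat_lit 135)) (XT.lf (nat_lit 0) (nat_lit 173226285943) (nat_lit 304) (nat_lit 16742043711) (nat_lit 380) (nat_lit 57452511656) (nat_lit 72) (nat_lit 5) (nat_lit 76) (nat_lit 5) (nat_lit 77) (nat_lit 5) (nat_lit 394) (nat_lit 372) (nat_lit 134))))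 (XT.nd (nat_lit 78) (nat_lit 380) (nat_lit 0) (XT.lf (nat_lit 0) (nat_lit 58467804895) (nat_lit 228) (nat_lit 174691010279) (nat_lit 304) (nat_lit 21675823989) (nat_lit 69) (nat_lit 5) (nat_lit 72) (nat_lit 5) (nat_lit 73) (nat_lit 5) (nat_lit 395) (nat_lit 372) (nat_lit 133)) (XT.nd (nat_lit 78) (nat_lit 304) (nat_lit 0) (XT.lf (nat_lit 0) (nat_lit 16932618053) (nat_lit 304) (nat_lit 62760406190) (nat_lit 76) (nat_lit 182836124123) (nat_lit 68) (nat_lit 5) (nat_lit 72) (nat_lit 5) (nat_lit 69) (nat_lit 5) (nat_lit 396) (nat_lit 372) (nat_lit 132)) (XT.lf (nat_lit 0) (nat_lit 58326981155) (nat_lit 380) (nat_lit 191145217125) (nat_lit 76) (nat_lit 21039220308) (nat_lit 64) (nat_lit 5) (nat_lit 69) (nat_lit 5) (nat_lit 65) (nat_lit 5) (nat_lit 397) (nat_lit 372) (nat_lit 131)))))) (XT.nd (nat_lit 468) (nat_lit 684) (nat_lit 0) (XT.nd (nat_lit 234) (nat_lit 532) (nat_lit 0) (XT.nd (nat_lit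 78) (nat_lit 228) (nat_lit 0) (XT.lf (nat_lit 0) (nat_lit 104177724206) (nat_lit 380) (nat_lit 49385597952) (nat_lit 76) (nat_lit 125210147139) (nat_lit 64) (nat_lit 5) (nat_lit 69) (nat_lit 5) (nat_lit 65) (nat_lit 5) (nat_lit 398) (nat_lit 372) (nat_lit 130)) (XT.nd (nat_lit 78) (nat_lit 0) (nat_lit 0) (XT.lf (nat_lit 0) (nat_lit 102750555590) (nat_lit 228) (nat_lit 51174593614) (nat_lit 304) (nat_lit 133443266157) (nat_lit 61) (nat_lit 5) (nat_lit 64) (nat_lit 5) (nat_lit 65) (nat_lit 5) (nat_lit 399) (nat_lit 372) (nat_lit 129)) (XT.lf (nat_lit 0) (nat_lit 207889472733) (nat_lit 304) (nat_lit 33036560757) (nat_lit 76) (nat_lit 55380598934) (nat_lit 61) (nat_lit 5) (nat_lit 65) (nat_lit 5) (nat_lit 62) (nat_lit 5) (nat_lit 400) (nat_lit 372) (nat_lit 128)))) (XT.nd (nat_lit 78) (nat_lit 304) (nat_lit 0) (XT.lf (nat_lit 0) (nat_lit 129427253126) (nat_lit 228) (nat_lit 137984335302) (nat_lit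 304) (nat_lit 38137193168) (nat_lit 58) (nat_lit 5) (nat_lit 61) (nat_lit 5) (nat_lit 62) (nat_lit 5) (nat_lit 401) (nat_lit 372) (nat_lit 127)) (XT.nd (nat_lit 78) (nat_lit 228) (nat_lit 0) (XT.lf (nat_lit 0) (nat_lit 14756252361) (nat_lit 304) (nat_lit 14301959996) (nat_lit 76) (nat_lit 286154954811) (nat_lit 57) (nat_lit 5) (nat_lit 61) (nat_lit 5) (nat_lit 58) (nat_lit 5) (nat_lit 402) (nat_lit 372) (nat_lit 126)) (XT.lf (nat_lit 0) (nat_lit 72895593071) (nat_lit 304) (nat_lit 166480015104) (nat_lit 76) (nat_lit 85759759763) (nat_lit 54) (nat_lit 5) (nat_lit 58) (nat_lit 5) (nat_lit 55) (nat_lit 5) (nat_lit 403) (nat_lit 372) (nat_lit 125))))) (XT.nd (nat_lit 234) (nat_lit 304) (nat_lit 0) (XT.nd (nat_lit 78) (nat_lit 152) (nat_lit 0) (XT.lf (nat_lit 0) (nat_lit 4891622526) (nat_lit 228) (nat_lit 129849127276) (nat_lit 304) (nat_lit 200772986542) (nat_lit 51) (nat_lit 5) (nat_lit 54)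 (nat_lit 5) (nat_lit 55) (nat_lit 5) (nat_lit 404) (nat_lit 372) (nat_lit 124)) (XT.nd (nat_lit 78) (nat_lit 152) (nat_lit 0) (XT.lf (nat_lit 0) (nat_lit 190611553866) (nat_lit 228) (nat_lit 11885963468) (nat_lit 304) (nat_lit 143772538230) (nat_lit 51) (nat_lit 5) (nat_lit 54) (nat_lit 5) (nat_lit 55) (nat_lit 5) (nat_lit 405) (nat_lit 372) (nat_lit 123)) (XT.lf (nat_lit 0) (nat_lit 27174705727) (nat_lit 152) (nat_lit 248639876043) (nat_lit 228) (nat_lit 81640986092) (nat_lit 49) (nat_lit 5) (nat_lit 51) (nat_lit 5) (nat_lit 52) (nat_lit 5) (nat_lit 406) (nat_lit 372) (nat_lit 122)))) (XT.nd (nat_lit 78) (nat_lit 304) (nat_lit 0) (XT.lf (nat_lit 0) (nat_lit 224352295797) (nat_lit 152) (nat_lit 131273002382) (nat_lit 228) (nat_lit 13433667696) (nat_lit 49) (nat_lit 5) (nat_lit 51) (nat_lit 5) (nat_lit 52) (nat_lit 5) (nat_lit 407) (nat_lit 372) (nat_lit 121)) (XT.nd (nat_lit 78) (nat_lit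 0) (nat_lit 0) (XT.lf (nat_lit 0) (nat_lit 50865745133) (nat_lit 228) (nat_lit 6250115999) (nat_lit 304) (nat_lit 324041547095) (nat_lit 45) (nat_lit 5) (nat_lit 48) (nat_lit 5) (nat_lit 49) (nat_lit 5) (nat_lit 408) (nat_lit 372) (nat_lit 120)) (XT.lf (nat_lit 0) (nat_lit 135184173824) (nat_lit 304) (nat_lit 134710035064) (nat_lit 76) (nat_lit 123733414302) (nat_lit 45) (nat_lit 5) (nat_lit 49) (nat_lit 5) (nat_lit 46) (nat_lit 5) (nat_lit 409) (nat_lit 372) (nat_lit 119))))))))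
noncomputable def xc244 : XT := (XT.nd (nat_lit 45240) (nat_lit 0) (nat_lit 532) (XT.nd (nat_lit 44304) (nat_lit 0) (nat_lit 3800) (XT.nd (nat_lit 468) (nat_lit 152) (nat_lit 0) (XT.nd (nat_lit 156) (nat_lit 380) (nat_lit 0) (XT.nd (nat_lit 78) (nat_lit 0) (nat_lit 0) (XT.lf (nat_lit 0) (nat_lit 72880764109) (nat_lit 152) (nat_lit 145515415304) (nat_lit 228) (nat_lit 188263155657) (nat_lit 43) (nat_lit 5) (nat_lit 45) (nat_lit 5) (nat_lit 46) (nat_lit 5) (nat_lit 410) (nat_lit 372) (nat_lit 118)) (XT.lf (nat_lit 0) (nat_lit 295527843970) (nat_lit 152) (nat_lit 12522265639) (nat_lit 228) (nat_lit 112178456751) (nat_lit 43) (nat_lit 5) (nat_lit 45) (nat_lit 5) (nat_lit 46) (nat_lit 5) (nat_lit 411) (nat_lit 372) (nat_lit 117))) (XT.nd (nat_lit 78) (nat_lit 228) (nat_lit 0) (XT.lf (nat_lit 0) (nat_lit 95916140689) (nat_lit 152) (nat_lit 309752770149) (nat_lit 228) (nat_lit 28633239678) (nat_lit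 41) (nat_lit 5) (nat_lit 43) (nat_lit 5) (nat_lit 44) (nat_lit 5) (nat_lit 412) (nat_lit 372) (nat_lit 116)) (XT.nd (nat_lit 78) (nat_lit 152) (nat_lit 0) (XT.lf (nat_lit 0) (nat_lit 59549731685) (nat_lit 228) (nat_lit 118243184443) (nat_lit 76) (nat_lit 271122784445) (nat_lit 40) (nat_lit 5) (nat_lit 43) (nat_lit 5) (nat_lit 41) (nat_lit 5) (nat_lit 413) (nat_lit 372) (nat_lit 115)) (XT.lf (nat_lit 0) (nat_lit 116154988032) (nat_lit 152) (nat_lit 36838053568) (nat_lit 228) (nat_lit 311152743960) (nat_lit 38) (nat_lit 5) (nat_lit 40) (nat_lit 5) (nat_lit 41) (nat_lit 5) (nat_lit 414) (nat_lit 372) (nat_lit 114))))) (XT.nd (nat_lit 43602) (nat_lit 0) (nat_lit 4864) (XT.nd (nat_lit 78) (nat_lit 0) (nat_lit 0) (XT.lf (nat_lit 0) (nat_lit 132397434468) (nat_lit 152) (nat_lit 232133573774) (nat_lit 228) (nat_lit 131877473223) (nat_lit 36) (nat_lit 5) (nat_lit 38) (nat_lit 5) (nat_lit 39) (nat_lit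 5) (nat_lit 416) (nat_lit 372) (nat_lit 112)) (XT.nd (nat_lit 43446) (nat_lit 0) (nat_lit 4864) (XT.lf (nat_lit 0) (nat_lit 396620968979) (nat_lit 152) (nat_lit 84999012382) (nat_lit 228) (nat_lit 31973394235) (nat_lit 36) (nat_lit 5) (nat_lit 38) (nat_lit 5) (nat_lit 39) (nat_lit 5) (nat_lit 417) (nat_lit 372) (nat_lit 111)) (XT.lf (nat_lit 0) (nat_lit 7813365279) (nat_lit 836) (nat_lit 31978841528) (nat_lit 836) (nat_lit 31978841528) (nat_lit 100) (nat_lit 3) (nat_lit 111) (nat_lit 3) (nat_lit 111) (nat_lit 5) (nat_lit 373) (nat_lit 373) (nat_lit 154)))) (XT.nd (nat_lit 78) (nat_lit 0) (nat_lit 76) (XT.lf (nat_lit 76) (nat_lit 4082517688) (nat_lit 0) (nat_lit 12001691053) (nat_lit 836) (nat_lit 131043096608) (nat_lit 101) (nat_lit 5) (nat_lit 100) (nat_lit 3) (nat_lit 111) (nat_lit 5) (nat_lit 374) (nat_lit 373) (nat_lit 153)) (XT.nd (nat_lit 78) (nat_lit 0) (nat_lit 0) (XT.lf (nat_lit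 0) (nat_lit 18585808445) (nat_lit 760) (nat_lit 74030830274) (nat_lit 836) (nat_lit 58174073572) (nat_lit 101) (nat_lit 5) (nat_lit 111) (nat_lit 5) (nat_lit 112) (nat_lit 5) (nat_lit 375) (nat_lit 373) (nat_lit 152)) (XT.lf (nat_lit 0) (nat_lit 21409049757) (nat_lit 760) (nat_lit 1763036670) (nat_lit 836) (nat_lit 131455375268) (nat_lit 101) (nat_lit 5) (nat_lit 111) (nat_lit 5) (nat_lit 112) (nat_lit 5) (nat_lit 376) (nat_lit 373) (nat_lit 151)))))) (XT.nd (nat_lit 468) (nat_lit 1216) (nat_lit 0) (XT.nd (nat_lit 234) (nat_lit 0) (nat_lit 76) (XT.nd (nat_lit 78) (nat_lit 0) (nat_lit 0) (XT.lf (nat_lit 0) (nat_lit 26364979663) (nat_lit 760) (nat_lit 82823821368) (nat_lit 836) (nat_lit 49367671400) (nat_lit 102) (nat_lit 5) (nat_lit 112) (nat_lit 5) (nat_lit 113) (nat_lit 5) (nat_lit 377) (nat_lit 373) (nat_lit 150)) (XT.nd (nat_lit 78) (nat_lit 0) (nat_lit 76) (XT.lf (nat_lit 0) (nat_lit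 31978753084) (nat_lit 760) (nat_lit 5896584037) (nat_lit 836) (nat_lit 124786094411) (nat_lit 102) (nat_lit 5) (nat_lit 112) (nat_lit 5) (nat_lit 113) (nat_lit 5) (nat_lit 378) (nat_lit 373) (nat_lit 149)) (XT.lf (nat_lit 0) (nat_lit 39678276793) (nat_lit 760) (nat_lit 90156120379) (nat_lit 836) (nat_lit 37046988506) (nat_lit 103) (nat_lit 5) (nat_lit 113) (nat_lit 5) (nat_lit 114) (nat_lit 5) (nat_lit 379) (nat_lit 373) (nat_lit 148)))) (XT.nd (nat_lit 78) (nat_lit 0) (nat_lit 76) (XT.lf (nat_lit 0) (nat_lit 48485026758) (nat_lit 760) (nat_lit 8247082306) (nat_lit 836) (nat_lit 114544116126) (nat_lit 103) (nat_lit 5) (nat_lit 113) (nat_lit 5) (nat_lit 114) (nat_lit 5) (nat_lit 380) (nat_lit 373) (nat_lit 147)) (XT.nd (nat_lit 78) (nat_lit 0) (nat_lit 0) (XT.lf (nat_lit 0) (nat_lit 59319327271) (nat_lit 760) (nat_lit 95833014295) (nat_lit 836) (nat_lit 20659104614) (nat_lit 104) (nat_lit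 5) (nat_lit 114) (nat_lit 5) (nat_lit 115) (nat_lit 5) (nat_lit 381) (nat_lit 373) (nat_lit 146)) (XT.lf (nat_lit 0) (nat_lit 71767192972) (nat_lit 760) (nat_lit 8597344417) (nat_lit 836) (nat_lit 100155298471) (nat_lit 104) (nat_lit 5) (nat_lit 114) (nat_lit 5) (nat_lit 115) (nat_lit 5) (nat_lit 382) (nat_lit 373) (nat_lit 145))))) (XT.nd (nat_lit 234) (nat_lit 684) (nat_lit 0) (XT.nd (nat_lit 78) (nat_lit 684) (nat_lit 0) (XT.lf (nat_lit 76) (nat_lit 85744352032) (nat_lit 0) (nat_lit 431673954) (nat_lit 836) (nat_lit 99220690475) (nat_lit 105) (nat_lit 5) (nat_lit 104) (nat_lit 5) (nat_lit 115) (nat_lit 5) (nat_lit 383) (nat_lit 373) (nat_lit 144)) (XT.nd (nat_lit 78) (nat_lit 760) (nat_lit 0) (XT.lf (nat_lit 0) (nat_lit 102756792363) (nat_lit 760) (nat_lit 6714686329) (nat_lit 76) (nat_lit 80973387949) (nat_lit 105) (nat_lit 5) (nat_lit 115) (nat_lit 5) (nat_lit 106) (nat_lit 5) (nat_lit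 384) (nat_lit 373) (nat_lit 143)) (XT.lf (nat_lit 0) (nat_lit 93867018548) (nat_lit 760) (nat_lit 27772058035) (nat_lit 836) (nat_lit 74032723899) (nat_lit 95) (nat_lit 5) (nat_lit 105) (nat_lit 5) (nat_lit 106) (nat_lit 5) (nat_lit 385) (nat_lit 373) (nat_lit 142)))) (XT.nd (nat_lit 78) (nat_lit 684) (nat_lit 0) (XT.lf (nat_lit 0) (nat_lit 142486670844) (nat_lit 836) (nat_lit 2351182894) (nat_lit 76) (nat_lit 56271167606) (nat_lit 95) (nat_lit 5) (nat_lit 106) (nat_lit 5) (nat_lit 96) (nat_lit 5) (nat_lit 386) (nat_lit 373) (nat_lit 141)) (XT.nd (nat_lit 78) (nat_lit 304) (nat_lit 0) (XT.lf (nat_lit 0) (nat_lit 104979712580) (nat_lit 380) (nat_lit 61491125165) (nat_lit 456) (nat_lit 40242555975) (nat_lit 90) (nat_lit 5) (nat_lit 95) (nat_lit 5) (nat_lit 96) (nat_lit 5) (nat_lit 387) (nat_lit 373) (nat_lit 140)) (XT.lf (nat_lit 0) (nat_lit 4912974709) (nat_lit 304) (nat_lit 187264595330)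 (nat_lit 380) (nat_lit 20394246931) (nat_lit 86) (nat_lit 5) (nat_lit 90) (nat_lit 5) (nat_lit 91) (nat_lit 5) (nat_lit 388) (nat_lit 373) (nat_lit 139))))))) (XT.nd (nat_lit 936) (nat_lit 1368) (nat_lit 0) (XT.nd (nat_lit 468) (nat_lit 836) (nat_lit 0) (XT.nd (nat_lit 234) (nat_lit 608) (nat_lit 0) (XT.nd (nat_lit 78) (nat_lit 380) (nat_lit 0) (XT.lf (nat_lit 0) (nat_lit 3191283449) (nat_lit 380) (nat_lit 99256471332) (nat_lit 76) (nat_lit 116137103366) (nat_lit 85) (nat_lit 5) (nat_lit 90) (nat_lit 5) (nat_lit 86) (nat_lit 5) (nat_lit 389) (nat_lit 373) (nat_lit 138)) (XT.nd (nat_lit 78) (nat_lit 0) (nat_lit 0) (XT.lf (nat_lit 0) (nat_lit 14702135881) (nat_lit 380) (nat_lit 12798011957) (nat_lit 456) (nat_lit 197370215148) (nat_lit 80) (nat_lit 5) (nat_lit 85) (nat_lit 5) (nat_lit 86) (nat_lit 5) (nat_lit 390) (nat_lit 373) (nat_lit 137)) (XT.lf (nat_lit 0) (nat_lit 56002723045) (nat_lit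 456) (nat_lit 94878986685) (nat_lit 76) (nat_lit 80439520048) (nat_lit 80) (nat_lit 5) (nat_lit 86) (nat_lit 5) (nat_lit 81) (nat_lit 5) (nat_lit 391) (nat_lit 373) (nat_lit 136)))) (XT.nd (nat_lit 78) (nat_lit 304) (nat_lit 0) (XT.lf (nat_lit 0) (nat_lit 26823317669) (nat_lit 304) (nat_lit 59735604248) (nat_lit 380) (nat_lit 151504293334) (nat_lit 76) (nat_lit 5) (nat_lit 80) (nat_lit 5) (nat_lit 81) (nat_lit 5) (nat_lit 392) (nat_lit 373) (nat_lit 135)) (XT.nd (nat_lit 78) (nat_lit 304) (nat_lit 0) (XT.lf (nat_lit 0) (nat_lit 120837558828) (nat_lit 380) (nat_lit 87745248154) (nat_lit 76) (nat_lit 36449761692) (nat_lit 76) (nat_lit 5) (nat_lit 81) (nat_lit 5) (nat_lit 77) (nat_lit 5) (nat_lit 393) (nat_lit 373) (nat_lit 134)) (XT.lf (nat_lit 0) (nat_lit 42298574315) (nat_lit 304) (nat_lit 116171136138) (nat_lit 380) (nat_lit 93798700250) (nat_lit 72) (nat_lit 5) (nat_lit 76) (nat_lit 5)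 (nat_lit 77) (nat_lit 5) (nat_lit 394) (nat_lit 373) (nat_lit 133))))) (XT.nd (nat_lit 234) (nat_lit 532) (nat_lit 0) (XT.nd (nat_lit 78) (nat_lit 304) (nat_lit 0) (XT.lf (nat_lit 0) (nat_lit 181890800731) (nat_lit 304) (nat_lit 17578591141) (nat_lit 380) (nat_lit 60322356926) (nat_lit 72) (nat_lit 5) (nat_lit 76) (nat_lit 5) (nat_lit 77) (nat_lit 5) (nat_lit 395) (nat_lit 373) (nat_lit 132)) (XT.nd (nat_lit 78) (nat_lit 76) (nat_lit 0) (XT.lf (nat_lit 0) (nat_lit 61394467894) (nat_lit 228) (nat_lit 183424867132) (nat_lit 304) (nat_lit 22756904959) (nat_lit 69) (nat_lit 5) (nat_lit 72) (nat_lit 5) (nat_lit 73) (nat_lit 5) (nat_lit 396) (nat_lit 373) (nat_lit 131)) (XT.lf (nat_lit 0) (nat_lit 17781747513) (nat_lit 304) (nat_lit 65895224999) (nat_lit 76) (nat_lit 191978506366) (nat_lit 68) (nat_lit 5) (nat_lit 72) (nat_lit 5) (nat_lit 69) (nat_lit 5) (nat_lit 397) (nat_lit 373) (nat_lit 130))))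 (XT.nd (nat_lit 78) (nat_lit 228) (nat_lit 0) (XT.lf (nat_lit 0) (nat_lit 61245770228) (nat_lit 380) (nat_lit 200699216054) (nat_lit 76) (nat_lit 22091879350) (nat_lit 64) (nat_lit 5) (nat_lit 69) (nat_lit 5) (nat_lit 65) (nat_lit 5) (nat_lit 398) (nat_lit 373) (nat_lit 129)) (XT.nd (nat_lit 78) (nat_lit 228) (nat_lit 0) (XT.lf (nat_lit 0) (nat_lit 109388934240) (nat_lit 380) (nat_lit 51851771251) (nat_lit 76) (nat_lit 131471319284) (nat_lit 64) (nat_lit 5) (nat_lit 69) (nat_lit 5) (nat_lit 65) (nat_lit 5) (nat_lit 399) (nat_lit 373) (nat_lit 128)) (XT.lf (nat_lit 0) (nat_lit 107891139861) (nat_lit 228) (nat_lit 53732527690) (nat_lit 304) (nat_lit 140113053825) (nat_lit 61) (nat_lit 5) (nat_lit 64) (nat_lit 5) (nat_lit 65) (nat_lit 5) (nat_lit 400) (nat_lit 373) (nat_lit 127)))))) (XT.nd (nat_lit 468) (nat_lit 608) (nat_lit 0) (XT.nd (nat_lit 234) (nat_lit 456) (nat_lit 0) (XT.nd (nat_lit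 78) (nat_lit 304) (nat_lit 0) (XT.lf (nat_lit 0) (nat_lit 218286111425) (nat_lit 304) (nat_lit 34685380392) (nat_lit 76) (nat_lit 58150362348) (nat_lit 61) (nat_lit 5) (nat_lit 65) (nat_lit 5) (nat_lit 62) (nat_lit 5) (nat_lit 401) (nat_lit 373) (nat_lit 126)) (XT.nd (nat_lit 78) (nat_lit 76) (nat_lit 0) (XT.lf (nat_lit 0) (nat_lit 135901575663) (nat_lit 228) (nat_lit 144882700356) (nat_lit 304) (nat_lit 40041837699) (nat_lit 58) (nat_lit 5) (nat_lit 61) (nat_lit 5) (nat_lit 62) (nat_lit 5) (nat_lit 402) (nat_lit 373) (nat_lit 125)) (XT.lf (nat_lit 0) (nat_lit 15496107103) (nat_lit 304) (nat_lit 15014170134) (nat_lit 76) (nat_lit 300463444777) (nat_lit 57) (nat_lit 5) (nat_lit 61) (nat_lit 5) (nat_lit 58) (nat_lit 5) (nat_lit 403) (nat_lit 373) (nat_lit 124)))) (XT.nd (nat_lit 78) (nat_lit 228) (nat_lit 0) (XT.lf (nat_lit 0) (nat_lit 76542375268) (nat_lit 304) (nat_lit 174801087078) (nat_lit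 76) (nat_lit 90048572524) (nat_lit 54) (nat_lit 5) (nat_lit 58) (nat_lit 5) (nat_lit 55) (nat_lit 5) (nat_lit 404) (nat_lit 373) (nat_lit 123)) (XT.nd (nat_lit 78) (nat_lit 0) (nat_lit 0) (XT.lf (nat_lit 0) (nat_lit 5139085196) (nat_lit 228) (nat_lit 136340654270) (nat_lit 304) (nat_lit 210809584812) (nat_lit 51) (nat_lit 5) (nat_lit 54) (nat_lit 5) (nat_lit 55) (nat_lit 5) (nat_lit 405) (nat_lit 373) (nat_lit 122)) (XT.lf (nat_lit 0) (nat_lit 200144875887) (nat_lit 228) (nat_lit 12479376527) (nat_lit 304) (nat_lit 150959211754) (nat_lit 51) (nat_lit 5) (nat_lit 54) (nat_lit 5) (nat_lit 55) (nat_lit 5) (nat_lit 406) (nat_lit 373) (nat_lit 121))))) (XT.nd (nat_lit 234) (nat_lit 152) (nat_lit 0) (XT.nd (nat_lit 78) (nat_lit 304) (nat_lit 0) (XT.lf (nat_lit 0) (nat_lit 28536220138) (nat_lit 152) (nat_lit 261070917950) (nat_lit 228) (nat_lit 85721115649) (nat_lit 49) (nat_lit 5) (nat_lit 51)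 (nat_lit 5) (nat_lit 52) (nat_lit 5) (nat_lit 407) (nat_lit 373) (nat_lit 120)) (XT.nd (nat_lit 78) (nat_lit 304) (nat_lit 0) (XT.lf (nat_lit 0) (nat_lit 235572557372) (nat_lit 152) (nat_lit 137835745935) (nat_lit 228) (nat_lit 14103522750) (nat_lit 49) (nat_lit 5) (nat_lit 51) (nat_lit 5) (nat_lit 52) (nat_lit 5) (nat_lit 408) (nat_lit 373) (nat_lit 119)) (XT.lf (nat_lit 0) (nat_lit 53411695091) (nat_lit 228) (nat_lit 6561686207) (nat_lit 304) (nat_lit 340241809986) (nat_lit 45) (nat_lit 5) (nat_lit 48) (nat_lit 5) (nat_lit 49) (nat_lit 5) (nat_lit 409) (nat_lit 373) (nat_lit 118)))) (XT.nd (nat_lit 78) (nat_lit 152) (nat_lit 0) (XT.lf (nat_lit 0) (nat_lit 141945041292) (nat_lit 304) (nat_lit 141442931628) (nat_lit 76) (nat_lit 129920947539) (nat_lit 45) (nat_lit 5) (nat_lit 49) (nat_lit 5) (nat_lit 46) (nat_lit 5) (nat_lit 410) (nat_lit 373) (nat_lit 117)) (XT.nd (nat_lit 78) (nat_lit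 0) (nat_lit 0) (XT.lf (nat_lit 0) (nat_lit 76527365484) (nat_lit 152) (nat_lit 152790242705) (nat_lit 228) (nat_lit 197674611738) (nat_lit 43) (nat_lit 5) (nat_lit 45) (nat_lit 5) (nat_lit 46) (nat_lit 5) (nat_lit 411) (nat_lit 373) (nat_lit 116)) (XT.lf (nat_lit 0) (nat_lit 310306677282) (nat_lit 152) (nat_lit 13147480479) (nat_lit 228) (nat_lit 117785758919) (nat_lit 43) (nat_lit 5) (nat_lit 45) (nat_lit 5) (nat_lit 46) (nat_lit 5) (nat_lit 412) (nat_lit 373) (nat_lit 115))))))))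
noncomputable def xc245 : XT := (XT.nd (nat_lit 45474) (nat_lit 0) (nat_lit 380) (XT.nd (nat_lit 44538) (nat_lit 0) (nat_lit 2888) (XT.nd (nat_lit 44070) (nat_lit 0) (nat_lit 4788) (XT.nd (nat_lit 43836) (nat_lit 0) (nat_lit 4712) (XT.nd (nat_lit 234) (nat_lit 228) (nat_lit 0) (XT.lf (nat_lit 0) (nat_lit 100714412402) (nat_lit 152) (nat_lit 325239465029) (nat_lit 228) (nat_lit 30063303736) (nat_lit 41) (nat_lit 5) (nat_lit 43) (nat_lit 5) (nat_lit 44) (nat_lit 5) (nat_lit 413) (nat_lit 373) (nat_lit 114)) (XT.lf (nat_lit 0) (nat_lit 267624745508) (nat_lit 228) (nat_lit 121196620510) (nat_lit 76) (nat_lit 115124836734) (nat_lit 38) (nat_lit 5) (nat_lit 41) (nat_lit 5) (nat_lit 39) (nat_lit 5) (nat_lit 416) (nat_lit 373) (nat_lit 111))) (XT.nd (nat_lit 78) (nat_lit 0) (nat_lit 0) (XT.lf (nat_lit 0) (nat_lit 8207055983) (nat_lit 836) (nat_lit 33576195228) (nat_lit 836) (nat_lit 33576195228)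 (nat_lit 100) (nat_lit 3) (nat_lit 111) (nat_lit 3) (nat_lit 111) (nat_lit 5) (nat_lit 374) (nat_lit 374) (nat_lit 152)) (XT.nd (nat_lit 78) (nat_lit 0) (nat_lit 76) (XT.lf (nat_lit 76) (nat_lit 4289769087) (nat_lit 0) (nat_lit 12604455918) (nat_lit 836) (nat_lit 137589149245) (nat_lit 101) (nat_lit 5) (nat_lit 100) (nat_lit 3) (nat_lit 111) (nat_lit 5) (nat_lit 375) (nat_lit 374) (nat_lit 151)) (XT.lf (nat_lit 0) (nat_lit 19520588371) (nat_lit 760) (nat_lit 77729072998) (nat_lit 836) (nat_lit 61080306274) (nat_lit 101) (nat_lit 5) (nat_lit 111) (nat_lit 5) (nat_lit 112) (nat_lit 5) (nat_lit 376) (nat_lit 374) (nat_lit 150))))) (XT.nd (nat_lit 234) (nat_lit 0) (nat_lit 152) (XT.nd (nat_lit 78) (nat_lit 0) (nat_lit 76) (XT.lf (nat_lit 0) (nat_lit 22484730344) (nat_lit 760) (nat_lit 1848046798) (nat_lit 836) (nat_lit 138025790721) (nat_lit 101) (nat_lit 5) (nat_lit 111) (nat_lit 5) (nat_lit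 112) (nat_lit 5) (nat_lit 377) (nat_lit 374) (nat_lit 149)) (XT.nd (nat_lit 78) (nat_lit 0) (nat_lit 0) (XT.lf (nat_lit 0) (nat_lit 27688225815) (nat_lit 760) (nat_lit 86961634552) (nat_lit 836) (nat_lit 51834180577) (nat_lit 102) (nat_lit 5) (nat_lit 112) (nat_lit 5) (nat_lit 113) (nat_lit 5) (nat_lit 378) (nat_lit 374) (nat_lit 148)) (XT.lf (nat_lit 0) (nat_lit 33582449946) (nat_lit 760) (nat_lit 6188196206) (nat_lit 836) (nat_lit 131023613996) (nat_lit 102) (nat_lit 5) (nat_lit 112) (nat_lit 5) (nat_lit 113) (nat_lit 5) (nat_lit 379) (nat_lit 374) (nat_lit 147)))) (XT.nd (nat_lit 78) (nat_lit 0) (nat_lit 0) (XT.lf (nat_lit 0) (nat_lit 41666750507) (nat_lit 760) (nat_lit 94660505271) (nat_lit 836) (nat_lit 38897966428) (nat_lit 103) (nat_lit 5) (nat_lit 113) (nat_lit 5) (nat_lit 114) (nat_lit 5) (nat_lit 380) (nat_lit 374) (nat_lit 146)) (XT.nd (nat_lit 78) (nat_lit 0) (nat_lit 76) (XT.lf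 (nat_lit 0) (nat_lit 50913620835) (nat_lit 760) (nat_lit 8656178204) (nat_lit 836) (nat_lit 120270015739) (nat_lit 103) (nat_lit 5) (nat_lit 113) (nat_lit 5) (nat_lit 114) (nat_lit 5) (nat_lit 381) (nat_lit 374) (nat_lit 145)) (XT.lf (nat_lit 0) (nat_lit 62289464319) (nat_lit 760) (nat_lit 100621230421) (nat_lit 836) (nat_lit 21691110896) (nat_lit 104) (nat_lit 5) (nat_lit 114) (nat_lit 5) (nat_lit 115) (nat_lit 5) (nat_lit 382) (nat_lit 374) (nat_lit 144)))))) (XT.nd (nat_lit 468) (nat_lit 1064) (nat_lit 0) (XT.nd (nat_lit 234) (nat_lit 1064) (nat_lit 0) (XT.nd (nat_lit 78) (nat_lit 0) (nat_lit 0) (XT.lf (nat_lit 0) (nat_lit 75359524702) (nat_lit 760) (nat_lit 9023940600) (nat_lit 836) (nat_lit 105162159633) (nat_lit 104) (nat_lit 5) (nat_lit 114) (nat_lit 5) (nat_lit 115) (nat_lit 5) (nat_lit 383) (nat_lit 374) (nat_lit 143)) (XT.nd (nat_lit 78) (nat_lit 0) (nat_lit 76) (XT.lf (nat_lit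 76) (nat_lit 90034787912) (nat_lit 0) (nat_lit 453872554) (nat_lit 836) (nat_lit 104177696242) (nat_lit 105) (nat_lit 5) (nat_lit 104) (nat_lit 5) (nat_lit 115) (nat_lit 5) (nat_lit 384) (nat_lit 374) (nat_lit 142)) (XT.lf (nat_lit 0) (nat_lit 107898273487) (nat_lit 760) (nat_lit 7047160212) (nat_lit 76) (nat_lit 85021490469) (nat_lit 105) (nat_lit 5) (nat_lit 115) (nat_lit 5) (nat_lit 106) (nat_lit 5) (nat_lit 385) (nat_lit 374) (nat_lit 141)))) (XT.nd (nat_lit 78) (nat_lit 380) (nat_lit 0) (XT.lf (nat_lit 0) (nat_lit 98563577321) (nat_lit 760) (nat_lit 29160971274) (nat_lit 836) (nat_lit 77730662448) (nat_lit 95) (nat_lit 5) (nat_lit 105) (nat_lit 5) (nat_lit 106) (nat_lit 5) (nat_lit 386) (nat_lit 374) (nat_lit 140)) (XT.nd (nat_lit 78) (nat_lit 380) (nat_lit 0) (XT.lf (nat_lit 0) (nat_lit 149614350423) (nat_lit 836) (nat_lit 2465511416) (nat_lit 76) (nat_lit 59084439887) (nat_lit 95)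 (nat_lit 5) (nat_lit 106) (nat_lit 5) (nat_lit 96) (nat_lit 5) (nat_lit 387) (nat_lit 374) (nat_lit 139)) (XT.lf (nat_lit 0) (nat_lit 110231876724) (nat_lit 380) (nat_lit 64565739234) (nat_lit 456) (nat_lit 42251282407) (nat_lit 90) (nat_lit 5) (nat_lit 95) (nat_lit 5) (nat_lit 96) (nat_lit 5) (nat_lit 388) (nat_lit 374) (nat_lit 138))))) (XT.nd (nat_lit 234) (nat_lit 304) (nat_lit 0) (XT.nd (nat_lit 78) (nat_lit 456) (nat_lit 0) (XT.lf (nat_lit 0) (nat_lit 5161913959) (nat_lit 304) (nat_lit 196627667312) (nat_lit 380) (nat_lit 21410666841) (nat_lit 86) (nat_lit 5) (nat_lit 90) (nat_lit 5) (nat_lit 91) (nat_lit 5) (nat_lit 389) (nat_lit 374) (nat_lit 137)) (XT.nd (nat_lit 78) (nat_lit 380) (nat_lit 0) (XT.lf (nat_lit 0) (nat_lit 3353882914) (nat_lit 380) (nat_lit 104216057931) (nat_lit 76) (nat_lit 121944005661) (nat_lit 85) (nat_lit 5) (nat_lit 90) (nat_lit 5) (nat_lit 86) (nat_lit 5)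 (nat_lit 390) (nat_lit 374) (nat_lit 136)) (XT.lf (nat_lit 0) (nat_lit 15440427434) (nat_lit 380) (nat_lit 13437668275) (nat_lit 456) (nat_lit 207235635751) (nat_lit 80) (nat_lit 5) (nat_lit 85) (nat_lit 5) (nat_lit 86) (nat_lit 5) (nat_lit 391) (nat_lit 374) (nat_lit 135)))) (XT.nd (nat_lit 78) (nat_lit 304) (nat_lit 0) (XT.lf (nat_lit 0) (nat_lit 58805663285) (nat_lit 456) (nat_lit 99619764000) (nat_lit 76) (nat_lit 84461721252) (nat_lit 80) (nat_lit 5) (nat_lit 86) (nat_lit 5) (nat_lit 81) (nat_lit 5) (nat_lit 392) (nat_lit 374) (nat_lit 134)) (XT.nd (nat_lit 78) (nat_lit 0) (nat_lit 0) (XT.lf (nat_lit 0) (nat_lit 28167604410) (nat_lit 304) (nat_lit 62721982888) (nat_lit 380) (nat_lit 159076650346) (nat_lit 76) (nat_lit 5) (nat_lit 80) (nat_lit 5) (nat_lit 81) (nat_lit 5) (nat_lit 393) (nat_lit 374) (nat_lit 133)) (XT.lf (nat_lit 0) (nat_lit 126882032536) (nat_lit 380) (nat_lit 92129412507)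 (nat_lit 76) (nat_lit 38272619986) (nat_lit 76) (nat_lit 5) (nat_lit 81) (nat_lit 5) (nat_lit 77) (nat_lit 5) (nat_lit 394) (nat_lit 374) (nat_lit 132))))))) (XT.nd (nat_lit 936) (nat_lit 608) (nat_lit 0) (XT.nd (nat_lit 468) (nat_lit 988) (nat_lit 0) (XT.nd (nat_lit 234) (nat_lit 380) (nat_lit 0) (XT.nd (nat_lit 78) (nat_lit 228) (nat_lit 0) (XT.lf (nat_lit 0) (nat_lit 44416551117) (nat_lit 304) (nat_lit 121979164607) (nat_lit 380) (nat_lit 98485987346) (nat_lit 72) (nat_lit 5) (nat_lit 76) (nat_lit 5) (nat_lit 77) (nat_lit 5) (nat_lit 395) (nat_lit 374) (nat_lit 131)) (XT.nd (nat_lit 78) (nat_lit 228) (nat_lit 0) (XT.lf (nat_lit 0) (nat_lit 190988243706) (nat_lit 304) (nat_lit 18457017519) (nat_lit 380) (nat_lit 63335952947) (nat_lit 72) (nat_lit 5) (nat_lit 76) (nat_lit 5) (nat_lit 77) (nat_lit 5) (nat_lit 396) (nat_lit 374) (nat_lit 130)) (XT.lf (nat_lit 0) (nat_lit 64467159774) (nat_lit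 228) (nat_lit 192595481318) (nat_lit 304) (nat_lit 23892291948) (nat_lit 69) (nat_lit 5) (nat_lit 72) (nat_lit 5) (nat_lit 73) (nat_lit 5) (nat_lit 397) (nat_lit 374) (nat_lit 129)))) (XT.nd (nat_lit 78) (nat_lit 304) (nat_lit 0) (XT.lf (nat_lit 0) (nat_lit 18673101154) (nat_lit 304) (nat_lit 69187082392) (nat_lit 76) (nat_lit 201577954167) (nat_lit 68) (nat_lit 5) (nat_lit 72) (nat_lit 5) (nat_lit 69) (nat_lit 5) (nat_lit 398) (nat_lit 374) (nat_lit 128)) (XT.nd (nat_lit 78) (nat_lit 0) (nat_lit 0) (XT.lf (nat_lit 0) (nat_lit 64310271906) (nat_lit 380) (nat_lit 210731218192) (nat_lit 76) (nat_lit 23197106449) (nat_lit 64) (nat_lit 5) (nat_lit 69) (nat_lit 5) (nat_lit 65) (nat_lit 5) (nat_lit 399) (nat_lit 374) (nat_lit 127)) (XT.lf (nat_lit 0) (nat_lit 114860488729) (nat_lit 380) (nat_lit 54441542038) (nat_lit 76) (nat_lit 138045488231) (nat_lit 64) (nat_lit 5) (nat_lit 69) (nat_lit 5)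 (nat_lit 65) (nat_lit 5) (nat_lit 400) (nat_lit 374) (nat_lit 126))))) (XT.nd (nat_lit 234) (nat_lit 532) (nat_lit 0) (XT.nd (nat_lit 78) (nat_lit 228) (nat_lit 0) (XT.lf (nat_lit 0) (nat_lit 113288469182) (nat_lit 228) (nat_lit 56418432437) (nat_lit 304) (nat_lit 147116551741) (nat_lit 61) (nat_lit 5) (nat_lit 64) (nat_lit 5) (nat_lit 65) (nat_lit 5) (nat_lit 401) (nat_lit 374) (nat_lit 125)) (XT.nd (nat_lit 78) (nat_lit 228) (nat_lit 0) (XT.lf (nat_lit 0) (nat_lit 229202380765) (nat_lit 304) (nat_lit 36416920701) (nat_lit 76) (nat_lit 61058545742) (nat_lit 61) (nat_lit 5) (nat_lit 65) (nat_lit 5) (nat_lit 62) (nat_lit 5) (nat_lit 402) (nat_lit 374) (nat_lit 124)) (XT.lf (nat_lit 0) (nat_lit 142699339145) (nat_lit 228) (nat_lit 152126062847) (nat_lit 304) (nat_lit 42041920397) (nat_lit 58) (nat_lit 5) (nat_lit 61) (nat_lit 5) (nat_lit 62) (nat_lit 5) (nat_lit 403) (nat_lit 374) (nat_lit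 123)))) (XT.nd (nat_lit 78) (nat_lit 456) (nat_lit 0) (XT.lf (nat_lit 0) (nat_lit 16272764725) (nat_lit 304) (nat_lit 15762259265) (nat_lit 76) (nat_lit 315487290237) (nat_lit 57) (nat_lit 5) (nat_lit 61) (nat_lit 5) (nat_lit 58) (nat_lit 5) (nat_lit 404) (nat_lit 374) (nat_lit 122)) (XT.nd (nat_lit 78) (nat_lit 228) (nat_lit 0) (XT.lf (nat_lit 0) (nat_lit 80371310397) (nat_lit 304) (nat_lit 183538484940) (nat_lit 76) (nat_lit 94551749243) (nat_lit 54) (nat_lit 5) (nat_lit 58) (nat_lit 5) (nat_lit 55) (nat_lit 5) (nat_lit 405) (nat_lit 374) (nat_lit 121)) (XT.lf (nat_lit 0) (nat_lit 5398653101) (nat_lit 228) (nat_lit 143156844017) (nat_lit 304) (nat_lit 221348203683) (nat_lit 51) (nat_lit 5) (nat_lit 54) (nat_lit 5) (nat_lit 55) (nat_lit 5) (nat_lit 406) (nat_lit 374) (nat_lit 120)))))) (XT.nd (nat_lit 468) (nat_lit 0) (nat_lit 0) (XT.nd (nat_lit 234) (nat_lit 456) (nat_lit 0) (XT.nd (nat_lit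 78) (nat_lit 152) (nat_lit 0) (XT.lf (nat_lit 0) (nat_lit 210154608867) (nat_lit 228) (nat_lit 13102542528) (nat_lit 304) (nat_lit 158505400562) (nat_lit 51) (nat_lit 5) (nat_lit 54) (nat_lit 5) (nat_lit 55) (nat_lit 5) (nat_lit 407) (nat_lit 374) (nat_lit 119)) (XT.nd (nat_lit 78) (nat_lit 0) (nat_lit 0) (XT.lf (nat_lit 0) (nat_lit 29965551892) (nat_lit 152) (nat_lit 274123600452) (nat_lit 228) (nat_lit 90005430163) (nat_lit 49) (nat_lit 5) (nat_lit 51) (nat_lit 5) (nat_lit 52) (nat_lit 5) (nat_lit 408) (nat_lit 374) (nat_lit 118)) (XT.lf (nat_lit 0) (nat_lit 247353585952) (nat_lit 152) (nat_lit 144726710950) (nat_lit 228) (nat_lit 14807040537) (nat_lit 49) (nat_lit 5) (nat_lit 51) (nat_lit 5) (nat_lit 52) (nat_lit 5) (nat_lit 409) (nat_lit 374) (nat_lit 117)))) (XT.nd (nat_lit 78) (nat_lit 152) (nat_lit 0) (XT.lf (nat_lit 0) (nat_lit 56084694994) (nat_lit 228) (nat_lit 6888921907) (nat_lit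 304) (nat_lit 357252254714) (nat_lit 45) (nat_lit 5) (nat_lit 48) (nat_lit 5) (nat_lit 49) (nat_lit 5) (nat_lit 410) (nat_lit 374) (nat_lit 116)) (XT.nd (nat_lit 78) (nat_lit 152) (nat_lit 0) (XT.lf (nat_lit 0) (nat_lit 149043797916) (nat_lit 304) (nat_lit 148512715227) (nat_lit 76) (nat_lit 136417777248) (nat_lit 45) (nat_lit 5) (nat_lit 49) (nat_lit 5) (nat_lit 46) (nat_lit 5) (nat_lit 411) (nat_lit 374) (nat_lit 115)) (XT.lf (nat_lit 0) (nat_lit 80356058629) (nat_lit 152) (nat_lit 160428899181) (nat_lit 228) (nat_lit 207556798831) (nat_lit 43) (nat_lit 5) (nat_lit 45) (nat_lit 5) (nat_lit 46) (nat_lit 5) (nat_lit 412) (nat_lit 374) (nat_lit 114))))) (XT.nd (nat_lit 44070) (nat_lit 0) (nat_lit 4408) (XT.nd (nat_lit 43914) (nat_lit 0) (nat_lit 4332) (XT.lf (nat_lit 0) (nat_lit 325824225309) (nat_lit 152) (nat_lit 13804039589) (nat_lit 228) (nat_lit 123673576871) (nat_lit 43) (nat_lit 5)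 (nat_lit 45) (nat_lit 5) (nat_lit 46) (nat_lit 5) (nat_lit 413) (nat_lit 374) (nat_lit 113)) (XT.nd (nat_lit 78) (nat_lit 0) (nat_lit 0) (XT.lf (nat_lit 0) (nat_lit 8620150224) (nat_lit 836) (nat_lit 35253564286) (nat_lit 836) (nat_lit 35253564286) (nat_lit 100) (nat_lit 3) (nat_lit 111) (nat_lit 3) (nat_lit 111) (nat_lit 5) (nat_lit 375) (nat_lit 375) (nat_lit 150)) (XT.lf (nat_lit 76) (nat_lit 4507092475) (nat_lit 0) (nat_lit 13237109835) (nat_lit 836) (nat_lit 144463071837) (nat_lit 101) (nat_lit 5) (nat_lit 100) (nat_lit 3) (nat_lit 111) (nat_lit 5) (nat_lit 376) (nat_lit 375) (nat_lit 149)))) (XT.nd (nat_lit 78) (nat_lit 0) (nat_lit 0) (XT.lf (nat_lit 0) (nat_lit 20501596930) (nat_lit 760) (nat_lit 81612534548) (nat_lit 836) (nat_lit 64132080340) (nat_lit 101) (nat_lit 5) (nat_lit 111) (nat_lit 5) (nat_lit 112) (nat_lit 5) (nat_lit 377) (nat_lit 375) (nat_lit 148)) (XT.nd (nat_lit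 78) (nat_lit 0) (nat_lit 76) (XT.lf (nat_lit 0) (nat_lit 23613708900) (nat_lit 760) (nat_lit 1937599519) (nat_lit 836) (nat_lit 144924945735) (nat_lit 101) (nat_lit 5) (nat_lit 111) (nat_lit 5) (nat_lit 112) (nat_lit 5) (nat_lit 378) (nat_lit 375) (nat_lit 147)) (XT.lf (nat_lit 0) (nat_lit 29077169685) (nat_lit 760) (nat_lit 91306652439) (nat_lit 836) (nat_lit 54424189477) (nat_lit 102) (nat_lit 5) (nat_lit 112) (nat_lit 5) (nat_lit 113) (nat_lit 5) (nat_lit 379) (nat_lit 375) (nat_lit 146))))))))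
noncomputable def xc246 : XT := (XT.nd (nat_lit 1794) (nat_lit 1520) (nat_lit 0) (XT.nd (nat_lit 858) (nat_lit 1900) (nat_lit 0) (XT.nd (nat_lit 390) (nat_lit 1216) (nat_lit 0) (XT.nd (nat_lit 156) (nat_lit 0) (nat_lit 76) (XT.nd (nat_lit 78) (nat_lit 0) (nat_lit 76) (XT.lf (nat_lit 0) (nat_lit 35265889186) (nat_lit 760) (nat_lit 6494688073) (nat_lit 836) (nat_lit 137573175524) (nat_lit 102) (nat_lit 5) (nat_lit 112) (nat_lit 5) (nat_lit 113) (nat_lit 5) (nat_lit 380) (nat_lit 375) (nat_lit 145)) (XT.lf (nat_lit 0) (nat_lit 43754223974) (nat_lit 760) (nat_lit 99390427471) (nat_lit 836) (nat_lit 40841620756) (nat_lit 103) (nat_lit 5) (nat_lit 113) (nat_lit 5) (nat_lit 114) (nat_lit 5) (nat_lit 381) (nat_lit 375) (nat_lit 144))) (XT.nd (nat_lit 78) (nat_lit 0) (nat_lit 76) (XT.lf (nat_lit 0) (nat_lit 53463240868) (nat_lit 760) (nat_lit 9086031816) (nat_lit 836) (nat_lit 126282331770) (nat_lit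 103) (nat_lit 5) (nat_lit 113) (nat_lit 5) (nat_lit 114) (nat_lit 5) (nat_lit 382) (nat_lit 375) (nat_lit 143)) (XT.nd (nat_lit 78) (nat_lit 0) (nat_lit 0) (XT.lf (nat_lit 0) (nat_lit 65407720470) (nat_lit 760) (nat_lit 105649176669) (nat_lit 836) (nat_lit 22774805716) (nat_lit 104) (nat_lit 5) (nat_lit 114) (nat_lit 5) (nat_lit 115) (nat_lit 5) (nat_lit 383) (nat_lit 375) (nat_lit 142)) (XT.lf (nat_lit 0) (nat_lit 79131103731) (nat_lit 760) (nat_lit 9472170703) (nat_lit 836) (nat_lit 110419447877) (nat_lit 104) (nat_lit 5) (nat_lit 114) (nat_lit 5) (nat_lit 115) (nat_lit 5) (nat_lit 384) (nat_lit 375) (nat_lit 141))))) (XT.nd (nat_lit 234) (nat_lit 684) (nat_lit 0) (XT.nd (nat_lit 78) (nat_lit 684) (nat_lit 0) (XT.lf (nat_lit 76) (nat_lit 94539446381) (nat_lit 0) (nat_lit 477123916) (nat_lit 836) (nat_lit 109382926852) (nat_lit 105) (nat_lit 5) (nat_lit 104) (nat_lit 5) (nat_lit 115) (nat_lit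 5) (nat_lit 385) (nat_lit 375) (nat_lit 140)) (XT.nd (nat_lit 78) (nat_lit 760) (nat_lit 0) (XT.lf (nat_lit 0) (nat_lit 113296490113) (nat_lit 760) (nat_lit 7396560913) (nat_lit 76) (nat_lit 89272050818) (nat_lit 105) (nat_lit 5) (nat_lit 115) (nat_lit 5) (nat_lit 106) (nat_lit 5) (nat_lit 386) (nat_lit 375) (nat_lit 139)) (XT.lf (nat_lit 0) (nat_lit 103494665798) (nat_lit 760) (nat_lit 30619301323) (nat_lit 836) (nat_lit 81613841697) (nat_lit 95) (nat_lit 5) (nat_lit 105) (nat_lit 5) (nat_lit 106) (nat_lit 5) (nat_lit 387) (nat_lit 375) (nat_lit 138)))) (XT.nd (nat_lit 78) (nat_lit 684) (nat_lit 0) (XT.lf (nat_lit 0) (nat_lit 157098102898) (nat_lit 836) (nat_lit 2585856717) (nat_lit 76) (nat_lit 62038402380) (nat_lit 95) (nat_lit 5) (nat_lit 106) (nat_lit 5) (nat_lit 96) (nat_lit 5) (nat_lit 388) (nat_lit 375) (nat_lit 137)) (XT.nd (nat_lit 78) (nat_lit 304) (nat_lit 0) (XT.lf (nat_lit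 0) (nat_lit 115746353568) (nat_lit 380) (nat_lit 67794078633) (nat_lit 456) (nat_lit 44360761388) (nat_lit 90) (nat_lit 5) (nat_lit 95) (nat_lit 5) (nat_lit 96) (nat_lit 5) (nat_lit 389) (nat_lit 375) (nat_lit 136)) (XT.lf (nat_lit 0) (nat_lit 5422994251) (nat_lit 304) (nat_lit 206458907563) (nat_lit 380) (nat_lit 22478213846) (nat_lit 86) (nat_lit 5) (nat_lit 90) (nat_lit 5) (nat_lit 91) (nat_lit 5) (nat_lit 390) (nat_lit 375) (nat_lit 135)))))) (XT.nd (nat_lit 468) (nat_lit 836) (nat_lit 0) (XT.nd (nat_lit 234) (nat_lit 608) (nat_lit 0) (XT.nd (nat_lit 78) (nat_lit 380) (nat_lit 0) (XT.lf (nat_lit 0) (nat_lit 3524330161) (nat_lit 380) (nat_lit 109423924802) (nat_lit 76) (nat_lit 128041248688) (nat_lit 85) (nat_lit 5) (nat_lit 90) (nat_lit 5) (nat_lit 86) (nat_lit 5) (nat_lit 391) (nat_lit 375) (nat_lit 134)) (XT.nd (nat_lit 78) (nat_lit 0) (nat_lit 0) (XT.lf (nat_lit 0) (nat_lit 16215337476)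 (nat_lit 380) (nat_lit 14109330119) (nat_lit 456) (nat_lit 217594614678) (nat_lit 80) (nat_lit 5) (nat_lit 85) (nat_lit 5) (nat_lit 86) (nat_lit 5) (nat_lit 392) (nat_lit 375) (nat_lit 133)) (XT.lf (nat_lit 0) (nat_lit 61748489840) (nat_lit 456) (nat_lit 104597875085) (nat_lit 76) (nat_lit 88685011579) (nat_lit 80) (nat_lit 5) (nat_lit 86) (nat_lit 5) (nat_lit 81) (nat_lit 5) (nat_lit 393) (nat_lit 375) (nat_lit 132)))) (XT.nd (nat_lit 78) (nat_lit 304) (nat_lit 0) (XT.lf (nat_lit 0) (nat_lit 29578815340) (nat_lit 304) (nat_lit 65857717794) (nat_lit 380) (nat_lit 167027890887) (nat_lit 76) (nat_lit 5) (nat_lit 80) (nat_lit 5) (nat_lit 81) (nat_lit 5) (nat_lit 394) (nat_lit 375) (nat_lit 131)) (XT.nd (nat_lit 78) (nat_lit 304) (nat_lit 0) (XT.lf (nat_lit 0) (nat_lit 133228488600) (nat_lit 380) (nat_lit 96733073106) (nat_lit 76) (nat_lit 40186586776) (nat_lit 76) (nat_lit 5) (nat_lit 81)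 (nat_lit 5) (nat_lit 77) (nat_lit 5) (nat_lit 395) (nat_lit 375) (nat_lit 130)) (XT.lf (nat_lit 0) (nat_lit 46640143377) (nat_lit 304) (nat_lit 128077643619) (nat_lit 380) (nat_lit 103407884975) (nat_lit 72) (nat_lit 5) (nat_lit 76) (nat_lit 5) (nat_lit 77) (nat_lit 5) (nat_lit 396) (nat_lit 375) (nat_lit 129))))) (XT.nd (nat_lit 234) (nat_lit 532) (nat_lit 0) (XT.nd (nat_lit 78) (nat_lit 304) (nat_lit 0) (XT.lf (nat_lit 0) (nat_lit 200540288943) (nat_lit 304) (nat_lit 19379411997) (nat_lit 380) (nat_lit 66500463224) (nat_lit 72) (nat_lit 5) (nat_lit 76) (nat_lit 5) (nat_lit 77) (nat_lit 5) (nat_lit 397) (nat_lit 375) (nat_lit 128)) (XT.nd (nat_lit 78) (nat_lit 76) (nat_lit 0) (XT.lf (nat_lit 0) (nat_lit 67693210266) (nat_lit 228) (nat_lit 202224684707) (nat_lit 304) (nat_lit 25084676833) (nat_lit 69) (nat_lit 5) (nat_lit 72) (nat_lit 5) (nat_lit 73) (nat_lit 5) (nat_lit 398) (nat_lit 375)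 (nat_lit 127)) (XT.lf (nat_lit 0) (nat_lit 19608811782) (nat_lit 304) (nat_lit 72643802629) (nat_lit 76) (nat_lit 211657325782) (nat_lit 68) (nat_lit 5) (nat_lit 72) (nat_lit 5) (nat_lit 69) (nat_lit 5) (nat_lit 399) (nat_lit 375) (nat_lit 126)))) (XT.nd (nat_lit 78) (nat_lit 228) (nat_lit 0) (XT.lf (nat_lit 0) (nat_lit 67527792908) (nat_lit 380) (nat_lit 221265095505) (nat_lit 76) (nat_lit 24357536041) (nat_lit 64) (nat_lit 5) (nat_lit 69) (nat_lit 5) (nat_lit 65) (nat_lit 5) (nat_lit 400) (nat_lit 375) (nat_lit 125)) (XT.nd (nat_lit 78) (nat_lit 228) (nat_lit 0) (XT.lf (nat_lit 0) (nat_lit 120605424982) (nat_lit 380) (nat_lit 57161063334) (nat_lit 76) (nat_lit 144948309565) (nat_lit 64) (nat_lit 5) (nat_lit 69) (nat_lit 5) (nat_lit 65) (nat_lit 5) (nat_lit 401) (nat_lit 375) (nat_lit 124)) (XT.lf (nat_lit 0) (nat_lit 118955407225) (nat_lit 228) (nat_lit 59238699513) (nat_lit 304) (nat_lit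 154470424884) (nat_lit 61) (nat_lit 5) (nat_lit 64) (nat_lit 5) (nat_lit 65) (nat_lit 5) (nat_lit 402) (nat_lit 375) (nat_lit 123))))))) (XT.nd (nat_lit 44850) (nat_lit 0) (nat_lit 4104) (XT.nd (nat_lit 468) (nat_lit 760) (nat_lit 0) (XT.nd (nat_lit 234) (nat_lit 456) (nat_lit 0) (XT.nd (nat_lit 78) (nat_lit 304) (nat_lit 0) (XT.lf (nat_lit 0) (nat_lit 240664281000) (nat_lit 304) (nat_lit 38235291716) (nat_lit 76) (nat_lit 64112076455) (nat_lit 61) (nat_lit 5) (nat_lit 65) (nat_lit 5) (nat_lit 62) (nat_lit 5) (nat_lit 403) (nat_lit 375) (nat_lit 122)) (XT.nd (nat_lit 78) (nat_lit 76) (nat_lit 0) (XT.lf (nat_lit 0) (nat_lit 149836741204) (nat_lit 228) (nat_lit 159731665284) (nat_lit 304) (nat_lit 44142194026) (nat_lit 58) (nat_lit 5) (nat_lit 61) (nat_lit 5) (nat_lit 62) (nat_lit 5) (nat_lit 404) (nat_lit 375) (nat_lit 121)) (XT.lf (nat_lit 0) (nat_lit 17088083022) (nat_lit 304) (nat_lit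 16547996377) (nat_lit 76) (nat_lit 331262265380) (nat_lit 57) (nat_lit 5) (nat_lit 61) (nat_lit 5) (nat_lit 58) (nat_lit 5) (nat_lit 405) (nat_lit 375) (nat_lit 120)))) (XT.nd (nat_lit 78) (nat_lit 228) (nat_lit 0) (XT.lf (nat_lit 0) (nat_lit 84391523414) (nat_lit 304) (nat_lit 192712999671) (nat_lit 76) (nat_lit 99280015247) (nat_lit 54) (nat_lit 5) (nat_lit 58) (nat_lit 5) (nat_lit 55) (nat_lit 5) (nat_lit 406) (nat_lit 375) (nat_lit 119)) (XT.nd (nat_lit 78) (nat_lit 0) (nat_lit 0) (XT.lf (nat_lit 0) (nat_lit 5670956409) (nat_lit 228) (nat_lit 150313921622) (nat_lit 304) (nat_lit 232413926458) (nat_lit 51) (nat_lit 5) (nat_lit 54) (nat_lit 5) (nat_lit 55) (nat_lit 5) (nat_lit 407) (nat_lit 375) (nat_lit 118)) (XT.lf (nat_lit 0) (nat_lit 220664597075) (nat_lit 228) (nat_lit 13756941468) (nat_lit 304) (nat_lit 166429063533) (nat_lit 51) (nat_lit 5) (nat_lit 54) (nat_lit 5) (nat_lit 55)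 (nat_lit 5) (nat_lit 408) (nat_lit 375) (nat_lit 117))))) (XT.nd (nat_lit 234) (nat_lit 304) (nat_lit 0) (XT.nd (nat_lit 78) (nat_lit 304) (nat_lit 0) (XT.lf (nat_lit 0) (nat_lit 31466115878) (nat_lit 152) (nat_lit 287828997348) (nat_lit 228) (nat_lit 94504122290) (nat_lit 49) (nat_lit 5) (nat_lit 51) (nat_lit 5) (nat_lit 52) (nat_lit 5) (nat_lit 409) (nat_lit 375) (nat_lit 116)) (XT.nd (nat_lit 78) (nat_lit 304) (nat_lit 0) (XT.lf (nat_lit 0) (nat_lit 259723442766) (nat_lit 152) (nat_lit 151962300663) (nat_lit 228) (nat_lit 15545888391) (nat_lit 49) (nat_lit 5) (nat_lit 51) (nat_lit 5) (nat_lit 52) (nat_lit 5) (nat_lit 410) (nat_lit 375) (nat_lit 115)) (XT.lf (nat_lit 0) (nat_lit 58891120354) (nat_lit 228) (nat_lit 7232598288) (nat_lit 304) (nat_lit 375113374686) (nat_lit 45) (nat_lit 5) (nat_lit 48) (nat_lit 5) (nat_lit 49) (nat_lit 5) (nat_lit 411) (nat_lit 375) (nat_lit 114)))) (XT.nd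 (nat_lit 234) (nat_lit 304) (nat_lit 0) (XT.lf (nat_lit 0) (nat_lit 156497352492) (nat_lit 304) (nat_lit 155936207692) (nat_lit 76) (nat_lit 143239375709) (nat_lit 45) (nat_lit 5) (nat_lit 49) (nat_lit 5) (nat_lit 46) (nat_lit 5) (nat_lit 412) (nat_lit 375) (nat_lit 113)) (XT.nd (nat_lit 43836) (nat_lit 0) (nat_lit 4484) (XT.lf (nat_lit 0) (nat_lit 111042014685) (nat_lit 152) (nat_lit 358574835176) (nat_lit 228) (nat_lit 33141955917) (nat_lit 41) (nat_lit 5) (nat_lit 43) (nat_lit 5) (nat_lit 44) (nat_lit 5) (nat_lit 415) (nat_lit 375) (nat_lit 110)) (XT.lf (nat_lit 0) (nat_lit 9053644303) (nat_lit 836) (nat_lit 37014935739) (nat_lit 836) (nat_lit 37014935739) (nat_lit 100) (nat_lit 3) (nat_lit 111) (nat_lit 3) (nat_lit 111) (nat_lit 5) (nat_lit 376) (nat_lit 376) (nat_lit 148)))))) (XT.nd (nat_lit 468) (nat_lit 380) (nat_lit 0) (XT.nd (nat_lit 234) (nat_lit 0) (nat_lit 152) (XT.nd (nat_lit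 78) (nat_lit 0) (nat_lit 76) (XT.lf (nat_lit 76) (nat_lit 4735018466) (nat_lit 0) (nat_lit 13901170426) (nat_lit 836) (nat_lit 151681205139) (nat_lit 101) (nat_lit 5) (nat_lit 100) (nat_lit 3) (nat_lit 111) (nat_lit 5) (nat_lit 377) (nat_lit 376) (nat_lit 147)) (XT.nd (nat_lit 78) (nat_lit 0) (nat_lit 0) (XT.lf (nat_lit 0) (nat_lit 21531193005) (nat_lit 760) (nat_lit 85690447352) (nat_lit 836) (nat_lit 67336651479) (nat_lit 101) (nat_lit 5) (nat_lit 111) (nat_lit 5) (nat_lit 112) (nat_lit 5) (nat_lit 378) (nat_lit 376) (nat_lit 146)) (XT.lf (nat_lit 0) (nat_lit 24798695515) (nat_lit 760) (nat_lit 2031894806) (nat_lit 836) (nat_lit 152169256947) (nat_lit 101) (nat_lit 5) (nat_lit 111) (nat_lit 5) (nat_lit 112) (nat_lit 5) (nat_lit 379) (nat_lit 376) (nat_lit 145)))) (XT.nd (nat_lit 78) (nat_lit 0) (nat_lit 0) (XT.lf (nat_lit 0) (nat_lit 30535139352) (nat_lit 760) (nat_lit 95869206068) (nat_lit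 836) (nat_lit 57143856883) (nat_lit 102) (nat_lit 5) (nat_lit 112) (nat_lit 5) (nat_lit 113) (nat_lit 5) (nat_lit 380) (nat_lit 376) (nat_lit 144)) (XT.nd (nat_lit 78) (nat_lit 0) (nat_lit 76) (XT.lf (nat_lit 0) (nat_lit 37033099058) (nat_lit 760) (nat_lit 6816775816) (nat_lit 836) (nat_lit 144450365665) (nat_lit 102) (nat_lit 5) (nat_lit 112) (nat_lit 5) (nat_lit 113) (nat_lit 5) (nat_lit 381) (nat_lit 376) (nat_lit 143)) (XT.lf (nat_lit 0) (nat_lit 45945686594) (nat_lit 760) (nat_lit 104357134274) (nat_lit 836) (nat_lit 42882573455) (nat_lit 103) (nat_lit 5) (nat_lit 113) (nat_lit 5) (nat_lit 114) (nat_lit 5) (nat_lit 382) (nat_lit 376) (nat_lit 142))))) (XT.nd (nat_lit 234) (nat_lit 608) (nat_lit 0) (XT.nd (nat_lit 78) (nat_lit 0) (nat_lit 76) (XT.lf (nat_lit 0) (nat_lit 56139975693) (nat_lit 760) (nat_lit 9537652864) (nat_lit 836) (nat_lit 132595373750) (nat_lit 103) (nat_lit 5) (nat_lit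 113) (nat_lit 5) (nat_lit 114) (nat_lit 5) (nat_lit 383) (nat_lit 376) (nat_lit 141)) (XT.nd (nat_lit 78) (nat_lit 0) (nat_lit 0) (XT.lf (nat_lit 0) (nat_lit 68681537726) (nat_lit 760) (nat_lit 110928809857) (nat_lit 836) (nat_lit 23912765298) (nat_lit 104) (nat_lit 5) (nat_lit 114) (nat_lit 5) (nat_lit 115) (nat_lit 5) (nat_lit 384) (nat_lit 376) (nat_lit 140)) (XT.lf (nat_lit 0) (nat_lit 83090926759) (nat_lit 760) (nat_lit 9943088148) (nat_lit 836) (nat_lit 115939676744) (nat_lit 104) (nat_lit 5) (nat_lit 114) (nat_lit 5) (nat_lit 115) (nat_lit 5) (nat_lit 385) (nat_lit 376) (nat_lit 139)))) (XT.nd (nat_lit 78) (nat_lit 684) (nat_lit 0) (XT.lf (nat_lit 76) (nat_lit 99269066386) (nat_lit 0) (nat_lit 501485994) (nat_lit 836) (nat_lit 114848758726) (nat_lit 105) (nat_lit 5) (nat_lit 104) (nat_lit 5) (nat_lit 115) (nat_lit 5) (nat_lit 386) (nat_lit 376) (nat_lit 138)) (XT.nd (nat_lit 78)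 (nat_lit 760) (nat_lit 0) (XT.lf (nat_lit 0) (nat_lit 118964310494) (nat_lit 760) (nat_lit 7763706592) (nat_lit 76) (nat_lit 93735186987) (nat_lit 105) (nat_lit 5) (nat_lit 115) (nat_lit 5) (nat_lit 106) (nat_lit 5) (nat_lit 387) (nat_lit 376) (nat_lit 137)) (XT.lf (nat_lit 0) (nat_lit 108672038191) (nat_lit 760) (nat_lit 32150521705) (nat_lit 836) (nat_lit 85691491720) (nat_lit 95) (nat_lit 5) (nat_lit 105) (nat_lit 5) (nat_lit 106) (nat_lit 5) (nat_lit 388) (nat_lit 376) (nat_lit 136))))))))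
noncomputable def xc247 : XT := (XT.nd (nat_lit 45942) (nat_lit 0) (nat_lit 1824) (XT.nd (nat_lit 936) (nat_lit 1748) (nat_lit 0) (XT.nd (nat_lit 468) (nat_lit 912) (nat_lit 0) (XT.nd (nat_lit 234) (nat_lit 456) (nat_lit 0) (XT.nd (nat_lit 78) (nat_lit 684) (nat_lit 0) (XT.lf (nat_lit 0) (nat_lit 164955760835) (nat_lit 836) (nat_lit 2712491712) (nat_lit 76) (nat_lit 65140087124) (nat_lit 95) (nat_lit 5) (nat_lit 106) (nat_lit 5) (nat_lit 96) (nat_lit 5) (nat_lit 389) (nat_lit 376) (nat_lit 135)) (XT.nd (nat_lit 78) (nat_lit 304) (nat_lit 0) (XT.lf (nat_lit 0) (nat_lit 121536286219) (nat_lit 380) (nat_lit 71183830126) (nat_lit 456) (nat_lit 46576001145) (nat_lit 90) (nat_lit 5) (nat_lit 95) (nat_lit 5) (nat_lit 96) (nat_lit 5) (nat_lit 390) (nat_lit 376) (nat_lit 134)) (XT.lf (nat_lit 0) (nat_lit 5696851078) (nat_lit 304) (nat_lit 216781723132) (nat_lit 380) (nat_lit 23599415843) (nat_lit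 86) (nat_lit 5) (nat_lit 90) (nat_lit 5) (nat_lit 91) (nat_lit 5) (nat_lit 391) (nat_lit 376) (nat_lit 133)))) (XT.nd (nat_lit 78) (nat_lit 380) (nat_lit 0) (XT.lf (nat_lit 0) (nat_lit 3703043812) (nat_lit 380) (nat_lit 114892457980) (nat_lit 76) (nat_lit 134443349893) (nat_lit 85) (nat_lit 5) (nat_lit 90) (nat_lit 5) (nat_lit 86) (nat_lit 5) (nat_lit 392) (nat_lit 376) (nat_lit 132)) (XT.nd (nat_lit 78) (nat_lit 0) (nat_lit 0) (XT.lf (nat_lit 0) (nat_lit 17028724459) (nat_lit 380) (nat_lit 14814595655) (nat_lit 456) (nat_lit 228471803135) (nat_lit 80) (nat_lit 5) (nat_lit 85) (nat_lit 5) (nat_lit 86) (nat_lit 5) (nat_lit 393) (nat_lit 376) (nat_lit 131)) (XT.lf (nat_lit 0) (nat_lit 64838221262) (nat_lit 456) (nat_lit 109825159211) (nat_lit 76) (nat_lit 93119447432) (nat_lit 80) (nat_lit 5) (nat_lit 86) (nat_lit 5) (nat_lit 81) (nat_lit 5) (nat_lit 394) (nat_lit 376) (nat_lit 130))))) (XT.nd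 (nat_lit 234) (nat_lit 304) (nat_lit 0) (XT.nd (nat_lit 78) (nat_lit 304) (nat_lit 0) (XT.lf (nat_lit 0) (nat_lit 31060323645) (nat_lit 304) (nat_lit 69150273309) (nat_lit 380) (nat_lit 175376934431) (nat_lit 76) (nat_lit 5) (nat_lit 80) (nat_lit 5) (nat_lit 81) (nat_lit 5) (nat_lit 395) (nat_lit 376) (nat_lit 129)) (XT.nd (nat_lit 78) (nat_lit 304) (nat_lit 0) (XT.lf (nat_lit 0) (nat_lit 139892048574) (nat_lit 380) (nat_lit 101567177984) (nat_lit 76) (nat_lit 42196220686) (nat_lit 76) (nat_lit 5) (nat_lit 81) (nat_lit 5) (nat_lit 77) (nat_lit 5) (nat_lit 396) (nat_lit 376) (nat_lit 128)) (XT.lf (nat_lit 0) (nat_lit 48974658214) (nat_lit 304) (nat_lit 134481091135) (nat_lit 380) (nat_lit 108576100776) (nat_lit 72) (nat_lit 5) (nat_lit 76) (nat_lit 5) (nat_lit 77) (nat_lit 5) (nat_lit 397) (nat_lit 376) (nat_lit 127)))) (XT.nd (nat_lit 78) (nat_lit 304) (nat_lit 0) (XT.lf (nat_lit 0) (nat_lit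 210569691645) (nat_lit 304) (nat_lit 20347968630) (nat_lit 380) (nat_lit 69823411673) (nat_lit 72) (nat_lit 5) (nat_lit 76) (nat_lit 5) (nat_lit 77) (nat_lit 5) (nat_lit 398) (nat_lit 376) (nat_lit 126)) (XT.nd (nat_lit 78) (nat_lit 76) (nat_lit 0) (XT.lf (nat_lit 0) (nat_lit 71080312959) (nat_lit 228) (nat_lit 212335401322) (nat_lit 304) (nat_lit 26336888260) (nat_lit 69) (nat_lit 5) (nat_lit 72) (nat_lit 5) (nat_lit 73) (nat_lit 5) (nat_lit 399) (nat_lit 376) (nat_lit 125)) (XT.lf (nat_lit 0) (nat_lit 20591116833) (nat_lit 304) (nat_lit 76273603751) (nat_lit 76) (nat_lit 222240621919) (nat_lit 68) (nat_lit 5) (nat_lit 72) (nat_lit 5) (nat_lit 69) (nat_lit 5) (nat_lit 400) (nat_lit 376) (nat_lit 124)))))) (XT.nd (nat_lit 468) (nat_lit 912) (nat_lit 0) (XT.nd (nat_lit 234) (nat_lit 304) (nat_lit 0) (XT.nd (nat_lit 78) (nat_lit 228) (nat_lit 0) (XT.lf (nat_lit 0) (nat_lit 70906003330) (nat_lit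 380) (nat_lit 232325916180) (nat_lit 76) (nat_lit 25575933721) (nat_lit 64) (nat_lit 5) (nat_lit 69) (nat_lit 5) (nat_lit 65) (nat_lit 5) (nat_lit 401) (nat_lit 376) (nat_lit 123)) (XT.nd (nat_lit 78) (nat_lit 228) (nat_lit 0) (XT.lf (nat_lit 0) (nat_lit 126637430304) (nat_lit 380) (nat_lit 60016798310) (nat_lit 76) (nat_lit 152196221118) (nat_lit 64) (nat_lit 5) (nat_lit 69) (nat_lit 5) (nat_lit 65) (nat_lit 5) (nat_lit 402) (nat_lit 376) (nat_lit 122)) (XT.lf (nat_lit 0) (nat_lit 124905458387) (nat_lit 228) (nat_lit 62200040795) (nat_lit 304) (nat_lit 162192173389) (nat_lit 61) (nat_lit 5) (nat_lit 64) (nat_lit 5) (nat_lit 65) (nat_lit 5) (nat_lit 403) (nat_lit 376) (nat_lit 121)))) (XT.nd (nat_lit 78) (nat_lit 304) (nat_lit 0) (XT.lf (nat_lit 0) (nat_lit 252699110647) (nat_lit 304) (nat_lit 40144811385) (nat_lit 76) (nat_lit 67318227603) (nat_lit 61) (nat_lit 5) (nat_lit 65) (nat_lit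 5) (nat_lit 62) (nat_lit 5) (nat_lit 404) (nat_lit 376) (nat_lit 120)) (XT.nd (nat_lit 78) (nat_lit 76) (nat_lit 0) (XT.lf (nat_lit 0) (nat_lit 157330786972) (nat_lit 228) (nat_lit 167717612988) (nat_lit 304) (nat_lit 46347650765) (nat_lit 58) (nat_lit 5) (nat_lit 61) (nat_lit 5) (nat_lit 62) (nat_lit 5) (nat_lit 405) (nat_lit 376) (nat_lit 119)) (XT.lf (nat_lit 0) (nat_lit 17944011037) (nat_lit 304) (nat_lit 17373241229) (nat_lit 76) (nat_lit 347825932509) (nat_lit 57) (nat_lit 5) (nat_lit 61) (nat_lit 5) (nat_lit 58) (nat_lit 5) (nat_lit 406) (nat_lit 376) (nat_lit 118))))) (XT.nd (nat_lit 234) (nat_lit 456) (nat_lit 0) (XT.nd (nat_lit 78) (nat_lit 228) (nat_lit 0) (XT.lf (nat_lit 0) (nat_lit 88612593913) (nat_lit 304) (nat_lit 202346464153) (nat_lit 76) (nat_lit 104244631468) (nat_lit 54) (nat_lit 5) (nat_lit 58) (nat_lit 5) (nat_lit 55) (nat_lit 5) (nat_lit 407) (nat_lit 376) (nat_lit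 117)) (XT.nd (nat_lit 78) (nat_lit 0) (nat_lit 0) (XT.lf (nat_lit 0) (nat_lit 5956654481) (nat_lit 228) (nat_lit 157828924192) (nat_lit 304) (nat_lit 244033092251) (nat_lit 51) (nat_lit 5) (nat_lit 54) (nat_lit 5) (nat_lit 55) (nat_lit 5) (nat_lit 408) (nat_lit 376) (nat_lit 116)) (XT.lf (nat_lit 0) (nat_lit 231699874788) (nat_lit 228) (nat_lit 14444128056) (nat_lit 304) (nat_lit 174749059062) (nat_lit 51) (nat_lit 5) (nat_lit 54) (nat_lit 5) (nat_lit 55) (nat_lit 5) (nat_lit 409) (nat_lit 376) (nat_lit 115)))) (XT.nd (nat_lit 78) (nat_lit 304) (nat_lit 0) (XT.lf (nat_lit 0) (nat_lit 33041495497) (nat_lit 152) (nat_lit 302219736897) (nat_lit 228) (nat_lit 99227895860) (nat_lit 49) (nat_lit 5) (nat_lit 51) (nat_lit 5) (nat_lit 52) (nat_lit 5) (nat_lit 410) (nat_lit 376) (nat_lit 114)) (XT.nd (nat_lit 78) (nat_lit 304) (nat_lit 0) (XT.lf (nat_lit 0) (nat_lit 272711589976) (nat_lit 152) (nat_lit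 159559739202) (nat_lit 228) (nat_lit 16321818482) (nat_lit 49) (nat_lit 5) (nat_lit 51) (nat_lit 5) (nat_lit 52) (nat_lit 5) (nat_lit 411) (nat_lit 376) (nat_lit 113)) (XT.lf (nat_lit 0) (nat_lit 61837663320) (nat_lit 228) (nat_lit 7593530049) (nat_lit 304) (nat_lit 393867689440) (nat_lit 45) (nat_lit 5) (nat_lit 48) (nat_lit 5) (nat_lit 49) (nat_lit 5) (nat_lit 412) (nat_lit 376) (nat_lit 112))))))) (XT.nd (nat_lit 936) (nat_lit 2356) (nat_lit 0) (XT.nd (nat_lit 468) (nat_lit 0) (nat_lit 228) (XT.nd (nat_lit 234) (nat_lit 0) (nat_lit 76) (XT.nd (nat_lit 78) (nat_lit 0) (nat_lit 0) (XT.lf (nat_lit 0) (nat_lit 9508581909) (nat_lit 836) (nat_lit 38864497255) (nat_lit 836) (nat_lit 38864497255) (nat_lit 100) (nat_lit 3) (nat_lit 111) (nat_lit 3) (nat_lit 111) (nat_lit 5) (nat_lit 377) (nat_lit 377) (nat_lit 146)) (XT.nd (nat_lit 78) (nat_lit 0) (nat_lit 76) (XT.lf (nat_lit 76) (nat_lit 4974101697)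 (nat_lit 0) (nat_lit 14598229037) (nat_lit 836) (nat_lit 159260711844) (nat_lit 101) (nat_lit 5) (nat_lit 100) (nat_lit 3) (nat_lit 111) (nat_lit 5) (nat_lit 378) (nat_lit 377) (nat_lit 145)) (XT.lf (nat_lit 0) (nat_lit 22611849007) (nat_lit 760) (nat_lit 89972508112) (nat_lit 836) (nat_lit 70701640172) (nat_lit 101) (nat_lit 5) (nat_lit 111) (nat_lit 5) (nat_lit 112) (nat_lit 5) (nat_lit 379) (nat_lit 377) (nat_lit 144)))) (XT.nd (nat_lit 78) (nat_lit 0) (nat_lit 76) (XT.lf (nat_lit 0) (nat_lit 26042531578) (nat_lit 760) (nat_lit 2131145158) (nat_lit 836) (nat_lit 159775963718) (nat_lit 101) (nat_lit 5) (nat_lit 111) (nat_lit 5) (nat_lit 112) (nat_lit 5) (nat_lit 380) (nat_lit 377) (nat_lit 143)) (XT.nd (nat_lit 78) (nat_lit 0) (nat_lit 0) (XT.lf (nat_lit 0) (nat_lit 32065625284) (nat_lit 760) (nat_lit 100660145742) (nat_lit 836) (nat_lit 59999651026) (nat_lit 102) (nat_lit 5) (nat_lit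 112) (nat_lit 5) (nat_lit 113) (nat_lit 5) (nat_lit 381) (nat_lit 377) (nat_lit 142)) (XT.lf (nat_lit 0) (nat_lit 38888305405) (nat_lit 760) (nat_lit 7155214008) (nat_lit 836) (nat_lit 151671551852) (nat_lit 102) (nat_lit 5) (nat_lit 112) (nat_lit 5) (nat_lit 113) (nat_lit 5) (nat_lit 382) (nat_lit 377) (nat_lit 141))))) (XT.nd (nat_lit 234) (nat_lit 0) (nat_lit 76) (XT.nd (nat_lit 78) (nat_lit 0) (nat_lit 0) (XT.lf (nat_lit 0) (nat_lit 48246373572) (nat_lit 760) (nat_lit 109572438090) (nat_lit 836) (nat_lit 45025678691) (nat_lit 103) (nat_lit 5) (nat_lit 113) (nat_lit 5) (nat_lit 114) (nat_lit 5) (nat_lit 383) (nat_lit 377) (nat_lit 140)) (XT.nd (nat_lit 78) (nat_lit 0) (nat_lit 76) (XT.lf (nat_lit 0) (nat_lit 58950215096) (nat_lit 760) (nat_lit 10012104176) (nat_lit 836) (nat_lit 139224167735) (nat_lit 103) (nat_lit 5) (nat_lit 113) (nat_lit 5) (nat_lit 114) (nat_lit 5) (nat_lit 384)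 (nat_lit 377) (nat_lit 139)) (XT.lf (nat_lit 0) (nat_lit 72118726842) (nat_lit 760) (nat_lit 116472687407) (nat_lit 836) (nat_lit 25107695443) (nat_lit 104) (nat_lit 5) (nat_lit 114) (nat_lit 5) (nat_lit 115) (nat_lit 5) (nat_lit 385) (nat_lit 377) (nat_lit 138)))) (XT.nd (nat_lit 78) (nat_lit 0) (nat_lit 0) (XT.lf (nat_lit 0) (nat_lit 87248437125) (nat_lit 760) (nat_lit 10437801657) (nat_lit 836) (nat_lit 121735986181) (nat_lit 104) (nat_lit 5) (nat_lit 114) (nat_lit 5) (nat_lit 115) (nat_lit 5) (nat_lit 386) (nat_lit 377) (nat_lit 137)) (XT.nd (nat_lit 78) (nat_lit 0) (nat_lit 76) (XT.lf (nat_lit 76) (nat_lit 104234921234) (nat_lit 0) (nat_lit 527019143) (nat_lit 836) (nat_lit 120588190342) (nat_lit 105) (nat_lit 5) (nat_lit 104) (nat_lit 5) (nat_lit 115) (nat_lit 5) (nat_lit 387) (nat_lit 377) (nat_lit 136)) (XT.lf (nat_lit 0) (nat_lit 124915243366) (nat_lit 760) (nat_lit 8149458936)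 (nat_lit 76) (nat_lit 98421523324) (nat_lit 105) (nat_lit 5) (nat_lit 115) (nat_lit 5) (nat_lit 106) (nat_lit 5) (nat_lit 388) (nat_lit 377) (nat_lit 135)))))) (XT.nd (nat_lit 468) (nat_lit 836) (nat_lit 0) (XT.nd (nat_lit 234) (nat_lit 760) (nat_lit 0) (XT.nd (nat_lit 78) (nat_lit 380) (nat_lit 0) (XT.lf (nat_lit 0) (nat_lit 114108033844) (nat_lit 760) (nat_lit 33758279369) (nat_lit 836) (nat_lit 89973307065) (nat_lit 95) (nat_lit 5) (nat_lit 105) (nat_lit 5) (nat_lit 106) (nat_lit 5) (nat_lit 389) (nat_lit 377) (nat_lit 134)) (XT.nd (nat_lit 78) (nat_lit 380) (nat_lit 0) (XT.lf (nat_lit 0) (nat_lit 173206045741) (nat_lit 836) (nat_lit 2845705557) (nat_lit 76) (nat_lit 68396877988) (nat_lit 95) (nat_lit 5) (nat_lit 106) (nat_lit 5) (nat_lit 96) (nat_lit 5) (nat_lit 390) (nat_lit 377) (nat_lit 133)) (XT.lf (nat_lit 0) (nat_lit 127615472387) (nat_lit 380) (nat_lit 74743064772) (nat_lit 456)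 (nat_lit 48902263051) (nat_lit 90) (nat_lit 5) (nat_lit 95) (nat_lit 5) (nat_lit 96) (nat_lit 5) (nat_lit 391) (nat_lit 377) (nat_lit 132)))) (XT.nd (nat_lit 78) (nat_lit 456) (nat_lit 0) (XT.lf (nat_lit 0) (nat_lit 5984149065) (nat_lit 304) (nat_lit 227620691548) (nat_lit 380) (nat_lit 24776929768) (nat_lit 86) (nat_lit 5) (nat_lit 90) (nat_lit 5) (nat_lit 91) (nat_lit 5) (nat_lit 392) (nat_lit 377) (nat_lit 131)) (XT.nd (nat_lit 78) (nat_lit 380) (nat_lit 0) (XT.lf (nat_lit 0) (nat_lit 3890460986) (nat_lit 380) (nat_lit 120634665404) (nat_lit 76) (nat_lit 141165552554) (nat_lit 85) (nat_lit 5) (nat_lit 90) (nat_lit 5) (nat_lit 86) (nat_lit 5) (nat_lit 393) (nat_lit 377) (nat_lit 130)) (XT.lf (nat_lit 0) (nat_lit 17882537198) (nat_lit 380) (nat_lit 15555143152) (nat_lit 456) (nat_lit 239893087371) (nat_lit 80) (nat_lit 5) (nat_lit 85) (nat_lit 5) (nat_lit 86) (nat_lit 5) (nat_lit 394)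 (nat_lit 377) (nat_lit 129))))) (XT.nd (nat_lit 234) (nat_lit 532) (nat_lit 0) (XT.nd (nat_lit 78) (nat_lit 304) (nat_lit 0) (XT.lf (nat_lit 0) (nat_lit 68082224779) (nat_lit 456) (nat_lit 115314050162) (nat_lit 76) (nat_lit 97775587853) (nat_lit 80) (nat_lit 5) (nat_lit 86) (nat_lit 5) (nat_lit 81) (nat_lit 5) (nat_lit 395) (nat_lit 377) (nat_lit 128)) (XT.nd (nat_lit 78) (nat_lit 0) (nat_lit 0) (XT.lf (nat_lit 0) (nat_lit 32615668659) (nat_lit 304) (nat_lit 72607487315) (nat_lit 380) (nat_lit 184143648727) (nat_lit 76) (nat_lit 5) (nat_lit 80) (nat_lit 5) (nat_lit 81) (nat_lit 5) (nat_lit 396) (nat_lit 377) (nat_lit 127)) (XT.lf (nat_lit 0) (nat_lit 146888588003) (nat_lit 380) (nat_lit 106643225067) (nat_lit 76) (nat_lit 44306307976) (nat_lit 76) (nat_lit 5) (nat_lit 81) (nat_lit 5) (nat_lit 77) (nat_lit 5) (nat_lit 397) (nat_lit 377) (nat_lit 126)))) (XT.nd (nat_lit 78) (nat_lit 228)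 (nat_lit 0) (XT.lf (nat_lit 0) (nat_lit 51425665653) (nat_lit 304) (nat_lit 141204751438) (nat_lit 380) (nat_lit 114002929898) (nat_lit 72) (nat_lit 5) (nat_lit 76) (nat_lit 5) (nat_lit 77) (nat_lit 5) (nat_lit 398) (nat_lit 377) (nat_lit 125)) (XT.nd (nat_lit 78) (nat_lit 228) (nat_lit 0) (XT.lf (nat_lit 0) (nat_lit 221100342445) (nat_lit 304) (nat_lit 21364991582) (nat_lit 380) (nat_lit 73312700432) (nat_lit 72) (nat_lit 5) (nat_lit 76) (nat_lit 5) (nat_lit 77) (nat_lit 5) (nat_lit 399) (nat_lit 377) (nat_lit 124)) (XT.lf (nat_lit 0) (nat_lit 74636543736) (nat_lit 228) (nat_lit 222951701891) (nat_lit 304) (nat_lit 27651898283) (nat_lit 69) (nat_lit 5) (nat_lit 72) (nat_lit 5) (nat_lit 73) (nat_lit 5) (nat_lit 400) (nat_lit 377) (nat_lit 123))))))))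
noncomputable def xc248 : XT := (XT.nd (nat_lit 46020) (nat_lit 0) (nat_lit 152) (XT.nd (nat_lit 45084) (nat_lit 0) (nat_lit 3876) (XT.nd (nat_lit 390) (nat_lit 912) (nat_lit 0) (XT.nd (nat_lit 156) (nat_lit 228) (nat_lit 0) (XT.nd (nat_lit 78) (nat_lit 304) (nat_lit 0) (XT.lf (nat_lit 0) (nat_lit 21622363797) (nat_lit 304) (nat_lit 80085117037) (nat_lit 76) (nat_lit 233353042900) (nat_lit 68) (nat_lit 5) (nat_lit 72) (nat_lit 5) (nat_lit 69) (nat_lit 5) (nat_lit 401) (nat_lit 377) (nat_lit 122)) (XT.lf (nat_lit 0) (nat_lit 74452954995) (nat_lit 380) (nat_lit 243940004188) (nat_lit 76) (nat_lit 26855202860) (nat_lit 64) (nat_lit 5) (nat_lit 69) (nat_lit 5) (nat_lit 65) (nat_lit 5) (nat_lit 402) (nat_lit 377) (nat_lit 121))) (XT.nd (nat_lit 78) (nat_lit 228) (nat_lit 0) (XT.lf (nat_lit 0) (nat_lit 132970874675) (nat_lit 380) (nat_lit 63015535558) (nat_lit 76) (nat_lit 159806482129) (nat_lit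 64) (nat_lit 5) (nat_lit 69) (nat_lit 5) (nat_lit 65) (nat_lit 5) (nat_lit 403) (nat_lit 377) (nat_lit 120)) (XT.nd (nat_lit 78) (nat_lit 0) (nat_lit 0) (XT.lf (nat_lit 0) (nat_lit 131152800060) (nat_lit 228) (nat_lit 65309504338) (nat_lit 304) (nat_lit 170300174132) (nat_lit 61) (nat_lit 5) (nat_lit 64) (nat_lit 5) (nat_lit 65) (nat_lit 5) (nat_lit 404) (nat_lit 377) (nat_lit 119)) (XT.lf (nat_lit 0) (nat_lit 265335531574) (nat_lit 304) (nat_lit 42150015748) (nat_lit 76) (nat_lit 70684635422) (nat_lit 61) (nat_lit 5) (nat_lit 65) (nat_lit 5) (nat_lit 62) (nat_lit 5) (nat_lit 405) (nat_lit 377) (nat_lit 118))))) (XT.nd (nat_lit 234) (nat_lit 380) (nat_lit 0) (XT.nd (nat_lit 78) (nat_lit 304) (nat_lit 0) (XT.lf (nat_lit 0) (nat_lit 165199329685) (nat_lit 228) (nat_lit 176102917166) (nat_lit 304) (nat_lit 48663534017) (nat_lit 58) (nat_lit 5) (nat_lit 61) (nat_lit 5) (nat_lit 62) (nat_lit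 5) (nat_lit 406) (nat_lit 377) (nat_lit 117)) (XT.nd (nat_lit 78) (nat_lit 228) (nat_lit 0) (XT.lf (nat_lit 0) (nat_lit 18842593779) (nat_lit 304) (nat_lit 18239948672) (nat_lit 76) (nat_lit 365217731502) (nat_lit 57) (nat_lit 5) (nat_lit 61) (nat_lit 5) (nat_lit 58) (nat_lit 5) (nat_lit 407) (nat_lit 377) (nat_lit 116)) (XT.lf (nat_lit 0) (nat_lit 93044579009) (nat_lit 304) (nat_lit 212461805045) (nat_lit 76) (nat_lit 109457421279) (nat_lit 54) (nat_lit 5) (nat_lit 58) (nat_lit 5) (nat_lit 55) (nat_lit 5) (nat_lit 408) (nat_lit 377) (nat_lit 115)))) (XT.nd (nat_lit 78) (nat_lit 152) (nat_lit 0) (XT.lf (nat_lit 0) (nat_lit 6256437547) (nat_lit 228) (nat_lit 165719741368) (nat_lit 304) (nat_lit 256233358627) (nat_lit 51) (nat_lit 5) (nat_lit 54) (nat_lit 5) (nat_lit 55) (nat_lit 5) (nat_lit 409) (nat_lit 377) (nat_lit 114)) (XT.nd (nat_lit 78) (nat_lit 152) (nat_lit 0) (XT.lf (nat_lit 0)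 (nat_lit 243286725996) (nat_lit 228) (nat_lit 15165735378) (nat_lit 304) (nat_lit 183485189885) (nat_lit 51) (nat_lit 5) (nat_lit 54) (nat_lit 5) (nat_lit 55) (nat_lit 5) (nat_lit 410) (nat_lit 377) (nat_lit 113)) (XT.lf (nat_lit 0) (nat_lit 34695451293) (nat_lit 152) (nat_lit 317330079463) (nat_lit 228) (nat_lit 104187991292) (nat_lit 49) (nat_lit 5) (nat_lit 51) (nat_lit 5) (nat_lit 52) (nat_lit 5) (nat_lit 411) (nat_lit 377) (nat_lit 112)))))) (XT.nd (nat_lit 468) (nat_lit 0) (nat_lit 228) (XT.nd (nat_lit 234) (nat_lit 0) (nat_lit 76) (XT.nd (nat_lit 78) (nat_lit 0) (nat_lit 0) (XT.lf (nat_lit 0) (nat_lit 9986056711) (nat_lit 836) (nat_lit 40806647043) (nat_lit 836) (nat_lit 40806647043) (nat_lit 100) (nat_lit 3) (nat_lit 111) (nat_lit 3) (nat_lit 111) (nat_lit 5) (nat_lit 378) (nat_lit 378) (nat_lit 144)) (XT.nd (nat_lit 78) (nat_lit 0) (nat_lit 76) (XT.lf (nat_lit 76) (nat_lit 5224922252)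 (nat_lit 0) (nat_lit 15329954629) (nat_lit 836) (nat_lit 167219617231) (nat_lit 101) (nat_lit 5) (nat_lit 100) (nat_lit 3) (nat_lit 111) (nat_lit 5) (nat_lit 379) (nat_lit 378) (nat_lit 143)) (XT.lf (nat_lit 0) (nat_lit 23746156970) (nat_lit 760) (nat_lit 94468900766) (nat_lit 836) (nat_lit 74235049727) (nat_lit 101) (nat_lit 5) (nat_lit 111) (nat_lit 5) (nat_lit 112) (nat_lit 5) (nat_lit 380) (nat_lit 378) (nat_lit 142)))) (XT.nd (nat_lit 78) (nat_lit 0) (nat_lit 76) (XT.lf (nat_lit 0) (nat_lit 27348196740) (nat_lit 760) (nat_lit 2235575986) (nat_lit 836) (nat_lit 167763169091) (nat_lit 101) (nat_lit 5) (nat_lit 111) (nat_lit 5) (nat_lit 112) (nat_lit 5) (nat_lit 381) (nat_lit 378) (nat_lit 141)) (XT.nd (nat_lit 78) (nat_lit 0) (nat_lit 0) (XT.lf (nat_lit 0) (nat_lit 33672288829) (nat_lit 760) (nat_lit 105690866744) (nat_lit 836) (nat_lit 62998364915) (nat_lit 102) (nat_lit 5) (nat_lit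 112) (nat_lit 5) (nat_lit 113) (nat_lit 5) (nat_lit 382) (nat_lit 378) (nat_lit 140)) (XT.lf (nat_lit 0) (nat_lit 40835941895) (nat_lit 760) (nat_lit 7510797294) (nat_lit 836) (nat_lit 159253921195) (nat_lit 102) (nat_lit 5) (nat_lit 112) (nat_lit 5) (nat_lit 113) (nat_lit 5) (nat_lit 383) (nat_lit 378) (nat_lit 139))))) (XT.nd (nat_lit 234) (nat_lit 0) (nat_lit 76) (XT.nd (nat_lit 78) (nat_lit 0) (nat_lit 0) (XT.lf (nat_lit 0) (nat_lit 50661778554) (nat_lit 760) (nat_lit 115048744440) (nat_lit 836) (nat_lit 47276034338) (nat_lit 103) (nat_lit 5) (nat_lit 113) (nat_lit 5) (nat_lit 114) (nat_lit 5) (nat_lit 384) (nat_lit 378) (nat_lit 138)) (XT.nd (nat_lit 78) (nat_lit 0) (nat_lit 76) (XT.lf (nat_lit 0) (nat_lit 61900665187) (nat_lit 760) (nat_lit 10510504095) (nat_lit 836) (nat_lit 146184492039) (nat_lit 103) (nat_lit 5) (nat_lit 113) (nat_lit 5) (nat_lit 114) (nat_lit 5) (nat_lit 385)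 (nat_lit 378) (nat_lit 137)) (XT.lf (nat_lit 0) (nat_lit 75727486068) (nat_lit 760) (nat_lit 122293997112) (nat_lit 836) (nat_lit 26362437929) (nat_lit 104) (nat_lit 5) (nat_lit 114) (nat_lit 5) (nat_lit 115) (nat_lit 5) (nat_lit 386) (nat_lit 378) (nat_lit 136)))) (XT.nd (nat_lit 78) (nat_lit 0) (nat_lit 0) (XT.lf (nat_lit 0) (nat_lit 91613547442) (nat_lit 760) (nat_lit 10957477773) (nat_lit 836) (nat_lit 127822173788) (nat_lit 104) (nat_lit 5) (nat_lit 114) (nat_lit 5) (nat_lit 115) (nat_lit 5) (nat_lit 387) (nat_lit 378) (nat_lit 135)) (XT.nd (nat_lit 78) (nat_lit 0) (nat_lit 76) (XT.lf (nat_lit 76) (nat_lit 109448845554) (nat_lit 0) (nat_lit 553786290) (nat_lit 836) (nat_lit 126614873038) (nat_lit 105) (nat_lit 5) (nat_lit 104) (nat_lit 5) (nat_lit 115) (nat_lit 5) (nat_lit 388) (nat_lit 378) (nat_lit 134)) (XT.lf (nat_lit 0) (nat_lit 131163470248) (nat_lit 760) (nat_lit 8554725093)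 (nat_lit 76) (nat_lit 103342215805) (nat_lit 105) (nat_lit 5) (nat_lit 115) (nat_lit 5) (nat_lit 106) (nat_lit 5) (nat_lit 389) (nat_lit 378) (nat_lit 133))))))) (XT.nd (nat_lit 936) (nat_lit 1368) (nat_lit 0) (XT.nd (nat_lit 468) (nat_lit 836) (nat_lit 0) (XT.nd (nat_lit 234) (nat_lit 760) (nat_lit 0) (XT.nd (nat_lit 78) (nat_lit 380) (nat_lit 0) (XT.lf (nat_lit 0) (nat_lit 119815606733) (nat_lit 760) (nat_lit 35446403386) (nat_lit 836) (nat_lit 94469469706) (nat_lit 95) (nat_lit 5) (nat_lit 105) (nat_lit 5) (nat_lit 106) (nat_lit 5) (nat_lit 390) (nat_lit 378) (nat_lit 132)) (XT.nd (nat_lit 78) (nat_lit 380) (nat_lit 0) (XT.lf (nat_lit 0) (nat_lit 181868612757) (nat_lit 836) (nat_lit 2985804223) (nat_lit 76) (nat_lit 71816528244) (nat_lit 95) (nat_lit 5) (nat_lit 106) (nat_lit 5) (nat_lit 96) (nat_lit 5) (nat_lit 391) (nat_lit 378) (nat_lit 131)) (XT.lf (nat_lit 0) (nat_lit 133998397351)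 (nat_lit 380) (nat_lit 78480257139) (nat_lit 456) (nat_lit 51345074025) (nat_lit 90) (nat_lit 5) (nat_lit 95) (nat_lit 5) (nat_lit 96) (nat_lit 5) (nat_lit 392) (nat_lit 378) (nat_lit 130)))) (XT.nd (nat_lit 78) (nat_lit 456) (nat_lit 0) (XT.lf (nat_lit 0) (nat_lit 6285583668) (nat_lit 304) (nat_lit 239001619331) (nat_lit 380) (nat_lit 26013547806) (nat_lit 86) (nat_lit 5) (nat_lit 90) (nat_lit 5) (nat_lit 91) (nat_lit 5) (nat_lit 393) (nat_lit 378) (nat_lit 129)) (XT.nd (nat_lit 78) (nat_lit 380) (nat_lit 0) (XT.lf (nat_lit 0) (nat_lit 4087038441) (nat_lit 380) (nat_lit 126664207767) (nat_lit 76) (nat_lit 148223862078) (nat_lit 85) (nat_lit 5) (nat_lit 90) (nat_lit 5) (nat_lit 86) (nat_lit 5) (nat_lit 394) (nat_lit 378) (nat_lit 128)) (XT.lf (nat_lit 0) (nat_lit 18778819628) (nat_lit 380) (nat_lit 16332734971) (nat_lit 456) (nat_lit 251885650202) (nat_lit 80) (nat_lit 5) (nat_lit 85) (nat_lit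 5) (nat_lit 86) (nat_lit 5) (nat_lit 395) (nat_lit 378) (nat_lit 127))))) (XT.nd (nat_lit 234) (nat_lit 532) (nat_lit 0) (XT.nd (nat_lit 78) (nat_lit 304) (nat_lit 0) (XT.lf (nat_lit 0) (nat_lit 71488233936) (nat_lit 456) (nat_lit 121077605723) (nat_lit 76) (nat_lit 102664519671) (nat_lit 80) (nat_lit 5) (nat_lit 86) (nat_lit 5) (nat_lit 81) (nat_lit 5) (nat_lit 396) (nat_lit 378) (nat_lit 126)) (XT.nd (nat_lit 78) (nat_lit 0) (nat_lit 0) (XT.lf (nat_lit 0) (nat_lit 34248564412) (nat_lit 304) (nat_lit 76237589881) (nat_lit 380) (nat_lit 193348896990) (nat_lit 76) (nat_lit 5) (nat_lit 80) (nat_lit 5) (nat_lit 81) (nat_lit 5) (nat_lit 397) (nat_lit 378) (nat_lit 125)) (XT.lf (nat_lit 0) (nat_lit 154234774321) (nat_lit 380) (nat_lit 111973289435) (nat_lit 76) (nat_lit 46521873947) (nat_lit 76) (nat_lit 5) (nat_lit 81) (nat_lit 5) (nat_lit 77) (nat_lit 5) (nat_lit 398) (nat_lit 378) (nat_lit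 124)))) (XT.nd (nat_lit 78) (nat_lit 228) (nat_lit 0) (XT.lf (nat_lit 0) (nat_lit 53999012000) (nat_lit 304) (nat_lit 148264631410) (nat_lit 380) (nat_lit 119701284179) (nat_lit 72) (nat_lit 5) (nat_lit 76) (nat_lit 5) (nat_lit 77) (nat_lit 5) (nat_lit 399) (nat_lit 378) (nat_lit 123)) (XT.nd (nat_lit 78) (nat_lit 228) (nat_lit 0) (XT.lf (nat_lit 0) (nat_lit 232157324391) (nat_lit 304) (nat_lit 22432900590) (nat_lit 380) (nat_lit 76976628583) (nat_lit 72) (nat_lit 5) (nat_lit 76) (nat_lit 5) (nat_lit 77) (nat_lit 5) (nat_lit 400) (nat_lit 378) (nat_lit 122)) (XT.lf (nat_lit 0) (nat_lit 78370380110) (nat_lit 228) (nat_lit 234098861138) (nat_lit 304) (nat_lit 29032829351) (nat_lit 69) (nat_lit 5) (nat_lit 72) (nat_lit 5) (nat_lit 73) (nat_lit 5) (nat_lit 401) (nat_lit 378) (nat_lit 121)))))) (XT.nd (nat_lit 468) (nat_lit 532) (nat_lit 0) (XT.nd (nat_lit 234) (nat_lit 456) (nat_lit 0) (XT.nd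 (nat_lit 78) (nat_lit 304) (nat_lit 0) (XT.lf (nat_lit 0) (nat_lit 22705015884) (nat_lit 304) (nat_lit 84087407444) (nat_lit 76) (nat_lit 245021048682) (nat_lit 68) (nat_lit 5) (nat_lit 72) (nat_lit 5) (nat_lit 69) (nat_lit 5) (nat_lit 402) (nat_lit 378) (nat_lit 120)) (XT.nd (nat_lit 78) (nat_lit 0) (nat_lit 0) (XT.lf (nat_lit 0) (nat_lit 78177100703) (nat_lit 380) (nat_lit 256135001857) (nat_lit 76) (nat_lit 28198391531) (nat_lit 64) (nat_lit 5) (nat_lit 69) (nat_lit 5) (nat_lit 65) (nat_lit 5) (nat_lit 403) (nat_lit 378) (nat_lit 119)) (XT.lf (nat_lit 0) (nat_lit 139620845035) (nat_lit 380) (nat_lit 66164405154) (nat_lit 76) (nat_lit 167797214357) (nat_lit 64) (nat_lit 5) (nat_lit 69) (nat_lit 5) (nat_lit 65) (nat_lit 5) (nat_lit 404) (nat_lit 378) (nat_lit 118)))) (XT.nd (nat_lit 78) (nat_lit 228) (nat_lit 0) (XT.lf (nat_lit 0) (nat_lit 137712316484) (nat_lit 228) (nat_lit 68574491123)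 (nat_lit 304) (nat_lit 178813724402) (nat_lit 61) (nat_lit 5) (nat_lit 64) (nat_lit 5) (nat_lit 65) (nat_lit 5) (nat_lit 405) (nat_lit 378) (nat_lit 117)) (XT.nd (nat_lit 78) (nat_lit 228) (nat_lit 0) (XT.lf (nat_lit 0) (nat_lit 278603637309) (nat_lit 304) (nat_lit 44255669637) (nat_lit 76) (nat_lit 74219317479) (nat_lit 61) (nat_lit 5) (nat_lit 65) (nat_lit 5) (nat_lit 62) (nat_lit 5) (nat_lit 406) (nat_lit 378) (nat_lit 116)) (XT.lf (nat_lit 0) (nat_lit 173461113279) (nat_lit 228) (nat_lit 184907540148) (nat_lit 304) (nat_lit 51095350821) (nat_lit 58) (nat_lit 5) (nat_lit 61) (nat_lit 5) (nat_lit 62) (nat_lit 5) (nat_lit 407) (nat_lit 378) (nat_lit 115))))) (XT.nd (nat_lit 234) (nat_lit 0) (nat_lit 0) (XT.nd (nat_lit 78) (nat_lit 456) (nat_lit 0) (XT.lf (nat_lit 0) (nat_lit 19785977155) (nat_lit 304) (nat_lit 19150173209) (nat_lit 76) (nat_lit 383479073739) (nat_lit 57) (nat_lit 5) (nat_lit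 61) (nat_lit 5) (nat_lit 58) (nat_lit 5) (nat_lit 408) (nat_lit 378) (nat_lit 114)) (XT.nd (nat_lit 78) (nat_lit 228) (nat_lit 0) (XT.lf (nat_lit 0) (nat_lit 97698037347) (nat_lit 304) (nat_lit 223083097280) (nat_lit 76) (nat_lit 114930798682) (nat_lit 54) (nat_lit 5) (nat_lit 58) (nat_lit 5) (nat_lit 55) (nat_lit 5) (nat_lit 409) (nat_lit 378) (nat_lit 113)) (XT.lf (nat_lit 0) (nat_lit 6571028442) (nat_lit 228) (nat_lit 174005157883) (nat_lit 304) (nat_lit 269043767388) (nat_lit 51) (nat_lit 5) (nat_lit 54) (nat_lit 5) (nat_lit 55) (nat_lit 5) (nat_lit 410) (nat_lit 378) (nat_lit 112)))) (XT.nd (nat_lit 44382) (nat_lit 0) (nat_lit 3724) (XT.lf (nat_lit 0) (nat_lit 255452747074) (nat_lit 228) (nat_lit 15923478763) (nat_lit 304) (nat_lit 192658250169) (nat_lit 51) (nat_lit 5) (nat_lit 54) (nat_lit 5) (nat_lit 55) (nat_lit 5) (nat_lit 411) (nat_lit 378) (nat_lit 111)) (XT.nd (nat_lit 78)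 (nat_lit 0) (nat_lit 0) (XT.lf (nat_lit 0) (nat_lit 10487215062) (nat_lit 836) (nat_lit 42846004270) (nat_lit 836) (nat_lit 42846004270) (nat_lit 100) (nat_lit 3) (nat_lit 111) (nat_lit 3) (nat_lit 111) (nat_lit 5) (nat_lit 379) (nat_lit 379) (nat_lit 142)) (XT.lf (nat_lit 76) (nat_lit 5488087160) (nat_lit 0) (nat_lit 16098097840) (nat_lit 836) (nat_lit 175576851875) (nat_lit 101) (nat_lit 5) (nat_lit 100) (nat_lit 3) (nat_lit 111) (nat_lit 5) (nat_lit 380) (nat_lit 379) (nat_lit 141))))))))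
noncomputable def xc249 : XT := (XT.nd (nat_lit 1794) (nat_lit 1064) (nat_lit 0) (XT.nd (nat_lit 858) (nat_lit 2052) (nat_lit 0) (XT.nd (nat_lit 390) (nat_lit 456) (nat_lit 0) (XT.nd (nat_lit 156) (nat_lit 0) (nat_lit 76) (XT.nd (nat_lit 78) (nat_lit 0) (nat_lit 0) (XT.lf (nat_lit 0) (nat_lit 24936834897) (nat_lit 760) (nat_lit 99190320633) (nat_lit 836) (nat_lit 77945285248) (nat_lit 101) (nat_lit 5) (nat_lit 111) (nat_lit 5) (nat_lit 112) (nat_lit 5) (nat_lit 381) (nat_lit 379) (nat_lit 140)) (XT.lf (nat_lit 0) (nat_lit 28718816176) (nat_lit 760) (nat_lit 2345426051) (nat_lit 836) (nat_lit 176149882817) (nat_lit 101) (nat_lit 5) (nat_lit 111) (nat_lit 5) (nat_lit 112) (nat_lit 5) (nat_lit 382) (nat_lit 379) (nat_lit 139))) (XT.nd (nat_lit 78) (nat_lit 0) (nat_lit 0) (XT.lf (nat_lit 0) (nat_lit 35358971099) (nat_lit 760) (nat_lit 110973336353) (nat_lit 836) (nat_lit 66147132446) (nat_lit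 102) (nat_lit 5) (nat_lit 112) (nat_lit 5) (nat_lit 113) (nat_lit 5) (nat_lit 383) (nat_lit 379) (nat_lit 138)) (XT.nd (nat_lit 78) (nat_lit 0) (nat_lit 76) (XT.lf (nat_lit 0) (nat_lit 42880660731) (nat_lit 760) (nat_lit 7884362180) (nat_lit 836) (nat_lit 167215521336) (nat_lit 102) (nat_lit 5) (nat_lit 112) (nat_lit 5) (nat_lit 113) (nat_lit 5) (nat_lit 384) (nat_lit 379) (nat_lit 137)) (XT.lf (nat_lit 0) (nat_lit 53197666850) (nat_lit 760) (nat_lit 120799081387) (nat_lit 836) (nat_lit 49638994071) (nat_lit 103) (nat_lit 5) (nat_lit 113) (nat_lit 5) (nat_lit 114) (nat_lit 5) (nat_lit 385) (nat_lit 379) (nat_lit 136))))) (XT.nd (nat_lit 234) (nat_lit 608) (nat_lit 0) (XT.nd (nat_lit 78) (nat_lit 0) (nat_lit 76) (XT.lf (nat_lit 0) (nat_lit 64998364511) (nat_lit 760) (nat_lit 11034029037) (nat_lit 836) (nat_lit 153492914752) (nat_lit 103) (nat_lit 5) (nat_lit 113) (nat_lit 5) (nat_lit 114)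 (nat_lit 5) (nat_lit 386) (nat_lit 379) (nat_lit 135)) (XT.nd (nat_lit 78) (nat_lit 0) (nat_lit 0) (XT.lf (nat_lit 0) (nat_lit 79516420810) (nat_lit 760) (nat_lit 128406588428) (nat_lit 836) (nat_lit 27679977253) (nat_lit 104) (nat_lit 5) (nat_lit 114) (nat_lit 5) (nat_lit 115) (nat_lit 5) (nat_lit 387) (nat_lit 379) (nat_lit 134)) (XT.lf (nat_lit 0) (nat_lit 96196663327) (nat_lit 760) (nat_lit 11503343529) (nat_lit 836) (nat_lit 134212727647) (nat_lit 104) (nat_lit 5) (nat_lit 114) (nat_lit 5) (nat_lit 115) (nat_lit 5) (nat_lit 388) (nat_lit 379) (nat_lit 133)))) (XT.nd (nat_lit 78) (nat_lit 684) (nat_lit 0) (XT.lf (nat_lit 76) (nat_lit 114923263575) (nat_lit 0) (nat_lit 581853101) (nat_lit 836) (nat_lit 132943143382) (nat_lit 105) (nat_lit 5) (nat_lit 104) (nat_lit 5) (nat_lit 115) (nat_lit 5) (nat_lit 389) (nat_lit 379) (nat_lit 132)) (XT.nd (nat_lit 78) (nat_lit 760) (nat_lit 0) (XT.lf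 (nat_lit 0) (nat_lit 137723879329) (nat_lit 760) (nat_lit 8980459724) (nat_lit 76) (nat_lit 108508978581) (nat_lit 105) (nat_lit 5) (nat_lit 115) (nat_lit 5) (nat_lit 106) (nat_lit 5) (nat_lit 390) (nat_lit 379) (nat_lit 131)) (XT.lf (nat_lit 0) (nat_lit 125808356409) (nat_lit 760) (nat_lit 37218914076) (nat_lit 836) (nat_lit 99190673158) (nat_lit 95) (nat_lit 5) (nat_lit 105) (nat_lit 5) (nat_lit 106) (nat_lit 5) (nat_lit 391) (nat_lit 379) (nat_lit 130)))))) (XT.nd (nat_lit 468) (nat_lit 912) (nat_lit 0) (XT.nd (nat_lit 234) (nat_lit 456) (nat_lit 0) (XT.nd (nat_lit 78) (nat_lit 684) (nat_lit 0) (XT.lf (nat_lit 0) (nat_lit 190964097571) (nat_lit 836) (nat_lit 3133111112) (nat_lit 76) (nat_lit 75407179016) (nat_lit 95) (nat_lit 5) (nat_lit 106) (nat_lit 5) (nat_lit 96) (nat_lit 5) (nat_lit 392) (nat_lit 379) (nat_lit 129)) (XT.nd (nat_lit 78) (nat_lit 304) (nat_lit 0) (XT.lf (nat_lit 0)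 (nat_lit 140700268552) (nat_lit 380) (nat_lit 82404305487) (nat_lit 456) (nat_lit 53910239582) (nat_lit 90) (nat_lit 5) (nat_lit 95) (nat_lit 5) (nat_lit 96) (nat_lit 5) (nat_lit 393) (nat_lit 379) (nat_lit 128)) (XT.lf (nat_lit 0) (nat_lit 6601882942) (nat_lit 304) (nat_lit 250951603432) (nat_lit 380) (nat_lit 27312203926) (nat_lit 86) (nat_lit 5) (nat_lit 90) (nat_lit 5) (nat_lit 91) (nat_lit 5) (nat_lit 394) (nat_lit 379) (nat_lit 127)))) (XT.nd (nat_lit 78) (nat_lit 380) (nat_lit 0) (XT.lf (nat_lit 0) (nat_lit 4293253770) (nat_lit 380) (nat_lit 132995430938) (nat_lit 76) (nat_lit 155635084113) (nat_lit 85) (nat_lit 5) (nat_lit 90) (nat_lit 5) (nat_lit 86) (nat_lit 5) (nat_lit 395) (nat_lit 379) (nat_lit 126)) (XT.nd (nat_lit 78) (nat_lit 0) (nat_lit 0) (XT.lf (nat_lit 0) (nat_lit 19719715775) (nat_lit 380) (nat_lit 17149221753) (nat_lit 456) (nat_lit 264478035625) (nat_lit 80) (nat_lit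 5) (nat_lit 85) (nat_lit 5) (nat_lit 86) (nat_lit 5) (nat_lit 396) (nat_lit 379) (nat_lit 125)) (XT.lf (nat_lit 0) (nat_lit 75064367099) (nat_lit 456) (nat_lit 127129538664) (nat_lit 76) (nat_lit 107797883908) (nat_lit 80) (nat_lit 5) (nat_lit 86) (nat_lit 5) (nat_lit 81) (nat_lit 5) (nat_lit 397) (nat_lit 379) (nat_lit 124))))) (XT.nd (nat_lit 234) (nat_lit 304) (nat_lit 0) (XT.nd (nat_lit 78) (nat_lit 304) (nat_lit 0) (XT.lf (nat_lit 0) (nat_lit 35962908568) (nat_lit 304) (nat_lit 80049222845) (nat_lit 380) (nat_lit 203014587488) (nat_lit 76) (nat_lit 5) (nat_lit 80) (nat_lit 5) (nat_lit 81) (nat_lit 5) (nat_lit 398) (nat_lit 379) (nat_lit 123)) (XT.nd (nat_lit 78) (nat_lit 304) (nat_lit 0) (XT.lf (nat_lit 0) (nat_lit 161948106613) (nat_lit 380) (nat_lit 117570051970) (nat_lit 76) (nat_lit 48848194921) (nat_lit 76) (nat_lit 5) (nat_lit 81) (nat_lit 5) (nat_lit 77) (nat_lit 5) (nat_lit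 399) (nat_lit 379) (nat_lit 122)) (XT.lf (nat_lit 0) (nat_lit 56700833861) (nat_lit 304) (nat_lit 155677538626) (nat_lit 380) (nat_lit 125684722797) (nat_lit 72) (nat_lit 5) (nat_lit 76) (nat_lit 5) (nat_lit 77) (nat_lit 5) (nat_lit 400) (nat_lit 379) (nat_lit 121)))) (XT.nd (nat_lit 78) (nat_lit 304) (nat_lit 0) (XT.lf (nat_lit 0) (nat_lit 243766972763) (nat_lit 304) (nat_lit 23554236711) (nat_lit 380) (nat_lit 80823911830) (nat_lit 72) (nat_lit 5) (nat_lit 76) (nat_lit 5) (nat_lit 77) (nat_lit 5) (nat_lit 401) (nat_lit 379) (nat_lit 120)) (XT.nd (nat_lit 78) (nat_lit 76) (nat_lit 0) (XT.lf (nat_lit 0) (nat_lit 82290721508) (nat_lit 228) (nat_lit 245803417939) (nat_lit 304) (nat_lit 30482961661) (nat_lit 69) (nat_lit 5) (nat_lit 72) (nat_lit 5) (nat_lit 73) (nat_lit 5) (nat_lit 402) (nat_lit 379) (nat_lit 119)) (XT.lf (nat_lit 0) (nat_lit 23841657969) (nat_lit 304) (nat_lit 88289995101)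 (nat_lit 76) (nat_lit 257272421875) (nat_lit 68) (nat_lit 5) (nat_lit 72) (nat_lit 5) (nat_lit 69) (nat_lit 5) (nat_lit 403) (nat_lit 379) (nat_lit 118))))))) (XT.nd (nat_lit 45396) (nat_lit 0) (nat_lit 2356) (XT.nd (nat_lit 468) (nat_lit 228) (nat_lit 0) (XT.nd (nat_lit 234) (nat_lit 304) (nat_lit 0) (XT.nd (nat_lit 78) (nat_lit 228) (nat_lit 0) (XT.lf (nat_lit 0) (nat_lit 82087314430) (nat_lit 380) (nat_lit 268939935586) (nat_lit 76) (nat_lit 29608699795) (nat_lit 64) (nat_lit 5) (nat_lit 69) (nat_lit 5) (nat_lit 65) (nat_lit 5) (nat_lit 404) (nat_lit 379) (nat_lit 117)) (XT.nd (nat_lit 78) (nat_lit 228) (nat_lit 0) (XT.lf (nat_lit 0) (nat_lit 146603181279) (nat_lit 380) (nat_lit 69470895542) (nat_lit 76) (nat_lit 176187445254) (nat_lit 64) (nat_lit 5) (nat_lit 69) (nat_lit 5) (nat_lit 65) (nat_lit 5) (nat_lit 405) (nat_lit 379) (nat_lit 116)) (XT.lf (nat_lit 0) (nat_lit 144599634277)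 (nat_lit 228) (nat_lit 72002772656) (nat_lit 304) (nat_lit 187753087777) (nat_lit 61) (nat_lit 5) (nat_lit 64) (nat_lit 5) (nat_lit 65) (nat_lit 5) (nat_lit 406) (nat_lit 379) (nat_lit 115)))) (XT.nd (nat_lit 78) (nat_lit 304) (nat_lit 0) (XT.lf (nat_lit 0) (nat_lit 292535024758) (nat_lit 304) (nat_lit 46466777928) (nat_lit 76) (nat_lit 77930691775) (nat_lit 61) (nat_lit 5) (nat_lit 65) (nat_lit 5) (nat_lit 62) (nat_lit 5) (nat_lit 407) (nat_lit 379) (nat_lit 114)) (XT.nd (nat_lit 78) (nat_lit 76) (nat_lit 0) (XT.lf (nat_lit 0) (nat_lit 182135817115) (nat_lit 228) (nat_lit 194152442890) (nat_lit 304) (nat_lit 53648884896) (nat_lit 58) (nat_lit 5) (nat_lit 61) (nat_lit 5) (nat_lit 62) (nat_lit 5) (nat_lit 408) (nat_lit 379) (nat_lit 113)) (XT.lf (nat_lit 0) (nat_lit 20776413144) (nat_lit 304) (nat_lit 20106073800) (nat_lit 76) (nat_lit 402653440725) (nat_lit 57) (nat_lit 5) (nat_lit 61)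 (nat_lit 5) (nat_lit 58) (nat_lit 5) (nat_lit 409) (nat_lit 379) (nat_lit 112))))) (XT.nd (nat_lit 44694) (nat_lit 0) (nat_lit 3572) (XT.nd (nat_lit 44538) (nat_lit 0) (nat_lit 3496) (XT.lf (nat_lit 0) (nat_lit 102584054306) (nat_lit 304) (nat_lit 234235621288) (nat_lit 76) (nat_lit 120677797880) (nat_lit 54) (nat_lit 5) (nat_lit 58) (nat_lit 5) (nat_lit 55) (nat_lit 5) (nat_lit 410) (nat_lit 379) (nat_lit 111)) (XT.nd (nat_lit 78) (nat_lit 0) (nat_lit 0) (XT.lf (nat_lit 0) (nat_lit 11013258823) (nat_lit 836) (nat_lit 44987420016) (nat_lit 836) (nat_lit 44987420016) (nat_lit 100) (nat_lit 3) (nat_lit 111) (nat_lit 3) (nat_lit 111) (nat_lit 5) (nat_lit 380) (nat_lit 380) (nat_lit 140)) (XT.lf (nat_lit 76) (nat_lit 5764231921) (nat_lit 0) (nat_lit 16904495229) (nat_lit 836) (nat_lit 184352296539) (nat_lit 101) (nat_lit 5) (nat_lit 100) (nat_lit 3) (nat_lit 111) (nat_lit 5) (nat_lit 381) (nat_lit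 380) (nat_lit 139)))) (XT.nd (nat_lit 78) (nat_lit 0) (nat_lit 0) (XT.lf (nat_lit 0) (nat_lit 26186733403) (nat_lit 760) (nat_lit 104147999775) (nat_lit 836) (nat_lit 81841173579) (nat_lit 101) (nat_lit 5) (nat_lit 111) (nat_lit 5) (nat_lit 112) (nat_lit 5) (nat_lit 382) (nat_lit 380) (nat_lit 138)) (XT.nd (nat_lit 78) (nat_lit 0) (nat_lit 76) (XT.lf (nat_lit 0) (nat_lit 30157668185) (nat_lit 760) (nat_lit 2460947935) (nat_lit 836) (nat_lit 184956066546) (nat_lit 101) (nat_lit 5) (nat_lit 111) (nat_lit 5) (nat_lit 112) (nat_lit 5) (nat_lit 383) (nat_lit 380) (nat_lit 137)) (XT.lf (nat_lit 0) (nat_lit 37129702264) (nat_lit 760) (nat_lit 116520122238) (nat_lit 836) (nat_lit 69453445336) (nat_lit 102) (nat_lit 5) (nat_lit 112) (nat_lit 5) (nat_lit 113) (nat_lit 5) (nat_lit 384) (nat_lit 380) (nat_lit 136)))))) (XT.nd (nat_lit 468) (nat_lit 1292) (nat_lit 0) (XT.nd (nat_lit 234) (nat_lit 0)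 (nat_lit 152) (XT.nd (nat_lit 78) (nat_lit 0) (nat_lit 76) (XT.lf (nat_lit 0) (nat_lit 45027343873) (nat_lit 760) (nat_lit 8276788924) (nat_lit 836) (nat_lit 175575303372) (nat_lit 102) (nat_lit 5) (nat_lit 112) (nat_lit 5) (nat_lit 113) (nat_lit 5) (nat_lit 385) (nat_lit 380) (nat_lit 135)) (XT.nd (nat_lit 78) (nat_lit 0) (nat_lit 0) (XT.lf (nat_lit 0) (nat_lit 55860089301) (nat_lit 760) (nat_lit 126837130444) (nat_lit 836) (nat_lit 52120180070) (nat_lit 103) (nat_lit 5) (nat_lit 113) (nat_lit 5) (nat_lit 114) (nat_lit 5) (nat_lit 386) (nat_lit 380) (nat_lit 134)) (XT.lf (nat_lit 0) (nat_lit 68250700936) (nat_lit 760) (nat_lit 11583916192) (nat_lit 836) (nat_lit 161166833152) (nat_lit 103) (nat_lit 5) (nat_lit 113) (nat_lit 5) (nat_lit 114) (nat_lit 5) (nat_lit 387) (nat_lit 380) (nat_lit 133)))) (XT.nd (nat_lit 78) (nat_lit 0) (nat_lit 0) (XT.lf (nat_lit 0) (nat_lit 83494564244) (nat_lit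 760) (nat_lit 134825005342) (nat_lit 836) (nat_lit 29063447705) (nat_lit 104) (nat_lit 5) (nat_lit 114) (nat_lit 5) (nat_lit 115) (nat_lit 5) (nat_lit 388) (nat_lit 380) (nat_lit 132)) (XT.nd (nat_lit 78) (nat_lit 0) (nat_lit 0) (XT.lf (nat_lit 0) (nat_lit 101008708297) (nat_lit 760) (nat_lit 12076689270) (nat_lit 836) (nat_lit 140922860781) (nat_lit 104) (nat_lit 5) (nat_lit 114) (nat_lit 5) (nat_lit 115) (nat_lit 5) (nat_lit 389) (nat_lit 380) (nat_lit 131)) (XT.lf (nat_lit 76) (nat_lit 120671218812) (nat_lit 0) (nat_lit 611288157) (nat_lit 836) (nat_lit 139588057189) (nat_lit 105) (nat_lit 5) (nat_lit 104) (nat_lit 5) (nat_lit 115) (nat_lit 5) (nat_lit 390) (nat_lit 380) (nat_lit 130))))) (XT.nd (nat_lit 234) (nat_lit 760) (nat_lit 0) (XT.nd (nat_lit 78) (nat_lit 760) (nat_lit 0) (XT.lf (nat_lit 0) (nat_lit 144612101022) (nat_lit 760) (nat_lit 9427667179) (nat_lit 76) (nat_lit 113934111852)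 (nat_lit 105) (nat_lit 5) (nat_lit 115) (nat_lit 5) (nat_lit 106) (nat_lit 5) (nat_lit 391) (nat_lit 380) (nat_lit 129)) (XT.nd (nat_lit 78) (nat_lit 0) (nat_lit 0) (XT.lf (nat_lit 0) (nat_lit 132100560478) (nat_lit 760) (nat_lit 39080032587) (nat_lit 836) (nat_lit 104148147828) (nat_lit 95) (nat_lit 5) (nat_lit 105) (nat_lit 5) (nat_lit 106) (nat_lit 5) (nat_lit 392) (nat_lit 380) (nat_lit 128)) (XT.lf (nat_lit 0) (nat_lit 200514165648) (nat_lit 836) (nat_lit 3287967736) (nat_lit 76) (nat_lit 79177378656) (nat_lit 95) (nat_lit 5) (nat_lit 106) (nat_lit 5) (nat_lit 96) (nat_lit 5) (nat_lit 393) (nat_lit 380) (nat_lit 127)))) (XT.nd (nat_lit 78) (nat_lit 380) (nat_lit 0) (XT.lf (nat_lit 0) (nat_lit 147737051896) (nat_lit 380) (nat_lit 86524552953) (nat_lit 456) (nat_lit 56603857554) (nat_lit 90) (nat_lit 5) (nat_lit 95) (nat_lit 5) (nat_lit 96) (nat_lit 5) (nat_lit 394) (nat_lit 380) (nat_lit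 126)) (XT.nd (nat_lit 78) (nat_lit 76) (nat_lit 0) (XT.lf (nat_lit 0) (nat_lit 6933809371) (nat_lit 304) (nat_lit 263499095743) (nat_lit 380) (nat_lit 28675980770) (nat_lit 86) (nat_lit 5) (nat_lit 90) (nat_lit 5) (nat_lit 91) (nat_lit 5) (nat_lit 395) (nat_lit 380) (nat_lit 125)) (XT.lf (nat_lit 0) (nat_lit 4509606623) (nat_lit 380) (nat_lit 139643400020) (nat_lit 76) (nat_lit 163416864561) (nat_lit 85) (nat_lit 5) (nat_lit 90) (nat_lit 5) (nat_lit 86) (nat_lit 5) (nat_lit 396) (nat_lit 380) (nat_lit 124))))))))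
noncomputable def xc250 : XT := (XT.nd (nat_lit 46332) (nat_lit 0) (nat_lit 304) (XT.nd (nat_lit 858) (nat_lit 304) (nat_lit 0) (XT.nd (nat_lit 390) (nat_lit 836) (nat_lit 0) (XT.nd (nat_lit 156) (nat_lit 608) (nat_lit 0) (XT.nd (nat_lit 78) (nat_lit 0) (nat_lit 0) (XT.lf (nat_lit 0) (nat_lit 20707474957) (nat_lit 380) (nat_lit 18006546816) (nat_lit 456) (nat_lit 277700216693) (nat_lit 80) (nat_lit 5) (nat_lit 85) (nat_lit 5) (nat_lit 86) (nat_lit 5) (nat_lit 397) (nat_lit 380) (nat_lit 123)) (XT.lf (nat_lit 0) (nat_lit 78819146875) (nat_lit 456) (nat_lit 133484249298) (nat_lit 76) (nat_lit 113187903505) (nat_lit 80) (nat_lit 5) (nat_lit 86) (nat_lit 5) (nat_lit 81) (nat_lit 5) (nat_lit 398) (nat_lit 380) (nat_lit 122))) (XT.nd (nat_lit 78) (nat_lit 304) (nat_lit 0) (XT.lf (nat_lit 0) (nat_lit 37762791807) (nat_lit 304) (nat_lit 84051460376) (nat_lit 380) (nat_lit 213163725613) (nat_lit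 76) (nat_lit 5) (nat_lit 80) (nat_lit 5) (nat_lit 81) (nat_lit 5) (nat_lit 399) (nat_lit 380) (nat_lit 121)) (XT.nd (nat_lit 78) (nat_lit 304) (nat_lit 0) (XT.lf (nat_lit 0) (nat_lit 170046957363) (nat_lit 380) (nat_lit 123446829456) (nat_lit 76) (nat_lit 51290810813) (nat_lit 76) (nat_lit 5) (nat_lit 81) (nat_lit 5) (nat_lit 77) (nat_lit 5) (nat_lit 400) (nat_lit 380) (nat_lit 120)) (XT.lf (nat_lit 0) (nat_lit 59537572842) (nat_lit 304) (nat_lit 163461121359) (nat_lit 380) (nat_lit 131967484477) (nat_lit 72) (nat_lit 5) (nat_lit 76) (nat_lit 5) (nat_lit 77) (nat_lit 5) (nat_lit 401) (nat_lit 380) (nat_lit 119))))) (XT.nd (nat_lit 234) (nat_lit 532) (nat_lit 0) (XT.nd (nat_lit 78) (nat_lit 304) (nat_lit 0) (XT.lf (nat_lit 0) (nat_lit 255956937867) (nat_lit 304) (nat_lit 24731668358) (nat_lit 380) (nat_lit 84863703175) (nat_lit 72) (nat_lit 5) (nat_lit 76) (nat_lit 5) (nat_lit 77) (nat_lit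 5) (nat_lit 402) (nat_lit 380) (nat_lit 118)) (XT.nd (nat_lit 78) (nat_lit 76) (nat_lit 0) (XT.lf (nat_lit 0) (nat_lit 86406910547) (nat_lit 228) (nat_lit 258093238490) (nat_lit 304) (nat_lit 32005740894) (nat_lit 69) (nat_lit 5) (nat_lit 72) (nat_lit 5) (nat_lit 73) (nat_lit 5) (nat_lit 403) (nat_lit 380) (nat_lit 117)) (XT.lf (nat_lit 0) (nat_lit 25035002808) (nat_lit 304) (nat_lit 92702877880) (nat_lit 76) (nat_lit 270136333907) (nat_lit 68) (nat_lit 5) (nat_lit 72) (nat_lit 5) (nat_lit 69) (nat_lit 5) (nat_lit 404) (nat_lit 380) (nat_lit 116)))) (XT.nd (nat_lit 78) (nat_lit 228) (nat_lit 0) (XT.lf (nat_lit 0) (nat_lit 86192912525) (nat_lit 380) (nat_lit 282385284870) (nat_lit 76) (nat_lit 31089487336) (nat_lit 64) (nat_lit 5) (nat_lit 69) (nat_lit 5) (nat_lit 65) (nat_lit 5) (nat_lit 405) (nat_lit 380) (nat_lit 115)) (XT.nd (nat_lit 78) (nat_lit 228) (nat_lit 0) (XT.lf (nat_lit 0) (nat_lit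 153934514032) (nat_lit 380) (nat_lit 72942871276) (nat_lit 76) (nat_lit 184997153280) (nat_lit 64) (nat_lit 5) (nat_lit 69) (nat_lit 5) (nat_lit 65) (nat_lit 5) (nat_lit 406) (nat_lit 380) (nat_lit 114)) (XT.lf (nat_lit 0) (nat_lit 151831159726) (nat_lit 228) (nat_lit 75602509454) (nat_lit 304) (nat_lit 197139542306) (nat_lit 61) (nat_lit 5) (nat_lit 64) (nat_lit 5) (nat_lit 65) (nat_lit 5) (nat_lit 407) (nat_lit 380) (nat_lit 113)))))) (XT.nd (nat_lit 45006) (nat_lit 0) (nat_lit 3344) (XT.nd (nat_lit 44772) (nat_lit 0) (nat_lit 3268) (XT.nd (nat_lit 78) (nat_lit 304) (nat_lit 0) (XT.lf (nat_lit 0) (nat_lit 307162869496) (nat_lit 304) (nat_lit 48788597376) (nat_lit 76) (nat_lit 81827596815) (nat_lit 61) (nat_lit 5) (nat_lit 65) (nat_lit 5) (nat_lit 62) (nat_lit 5) (nat_lit 408) (nat_lit 380) (nat_lit 112)) (XT.nd (nat_lit 78) (nat_lit 76) (nat_lit 0) (XT.lf (nat_lit 0) (nat_lit 191244102912)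 (nat_lit 228) (nat_lit 203859634863) (nat_lit 304) (nat_lit 56330210351) (nat_lit 58) (nat_lit 5) (nat_lit 61) (nat_lit 5) (nat_lit 62) (nat_lit 5) (nat_lit 409) (nat_lit 380) (nat_lit 111)) (XT.lf (nat_lit 0) (nat_lit 21816265212) (nat_lit 304) (nat_lit 21109918923) (nat_lit 76) (nat_lit 422786487635) (nat_lit 57) (nat_lit 5) (nat_lit 61) (nat_lit 5) (nat_lit 58) (nat_lit 5) (nat_lit 410) (nat_lit 380) (nat_lit 110)))) (XT.nd (nat_lit 78) (nat_lit 0) (nat_lit 0) (XT.lf (nat_lit 0) (nat_lit 11565448301) (nat_lit 836) (nat_lit 47235988779) (nat_lit 836) (nat_lit 47235988779) (nat_lit 100) (nat_lit 3) (nat_lit 111) (nat_lit 3) (nat_lit 111) (nat_lit 5) (nat_lit 381) (nat_lit 381) (nat_lit 138)) (XT.nd (nat_lit 78) (nat_lit 0) (nat_lit 76) (XT.lf (nat_lit 76) (nat_lit 6054022114) (nat_lit 0) (nat_lit 17751073730) (nat_lit 836) (nat_lit 193566829343) (nat_lit 101) (nat_lit 5) (nat_lit 100)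 (nat_lit 3) (nat_lit 111) (nat_lit 5) (nat_lit 382) (nat_lit 381) (nat_lit 137)) (XT.lf (nat_lit 0) (nat_lit 27498842645) (nat_lit 760) (nat_lit 109353733651) (nat_lit 836) (nat_lit 85931984247) (nat_lit 101) (nat_lit 5) (nat_lit 111) (nat_lit 5) (nat_lit 112) (nat_lit 5) (nat_lit 383) (nat_lit 381) (nat_lit 136))))) (XT.nd (nat_lit 234) (nat_lit 0) (nat_lit 152) (XT.nd (nat_lit 78) (nat_lit 0) (nat_lit 76) (XT.lf (nat_lit 0) (nat_lit 31668192140) (nat_lit 760) (nat_lit 2582408557) (nat_lit 836) (nat_lit 194202681292) (nat_lit 101) (nat_lit 5) (nat_lit 111) (nat_lit 5) (nat_lit 112) (nat_lit 5) (nat_lit 384) (nat_lit 381) (nat_lit 135)) (XT.nd (nat_lit 78) (nat_lit 0) (nat_lit 0) (XT.lf (nat_lit 0) (nat_lit 38988711288) (nat_lit 760) (nat_lit 122344422289) (nat_lit 836) (nat_lit 72925170907) (nat_lit 102) (nat_lit 5) (nat_lit 112) (nat_lit 5) (nat_lit 113) (nat_lit 5) (nat_lit 385) (nat_lit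 381) (nat_lit 134)) (XT.lf (nat_lit 0) (nat_lit 47281114791) (nat_lit 760) (nat_lit 8689003550) (nat_lit 836) (nat_lit 184353166926) (nat_lit 102) (nat_lit 5) (nat_lit 112) (nat_lit 5) (nat_lit 113) (nat_lit 5) (nat_lit 386) (nat_lit 381) (nat_lit 133)))) (XT.nd (nat_lit 78) (nat_lit 0) (nat_lit 0) (XT.lf (nat_lit 0) (nat_lit 58655396813) (nat_lit 760) (nat_lit 133177259065) (nat_lit 836) (nat_lit 54725496371) (nat_lit 103) (nat_lit 5) (nat_lit 113) (nat_lit 5) (nat_lit 114) (nat_lit 5) (nat_lit 387) (nat_lit 381) (nat_lit 132)) (XT.nd (nat_lit 78) (nat_lit 0) (nat_lit 76) (XT.lf (nat_lit 0) (nat_lit 71665429361) (nat_lit 760) (nat_lit 12161466381) (nat_lit 836) (nat_lit 169224515093) (nat_lit 103) (nat_lit 5) (nat_lit 113) (nat_lit 5) (nat_lit 114) (nat_lit 5) (nat_lit 388) (nat_lit 381) (nat_lit 131)) (XT.lf (nat_lit 0) (nat_lit 87671398935) (nat_lit 760) (nat_lit 141564520908) (nat_lit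 836) (nat_lit 30516140806) (nat_lit 104) (nat_lit 5) (nat_lit 114) (nat_lit 5) (nat_lit 115) (nat_lit 5) (nat_lit 389) (nat_lit 381) (nat_lit 130))))))) (XT.nd (nat_lit 936) (nat_lit 1140) (nat_lit 0) (XT.nd (nat_lit 468) (nat_lit 1064) (nat_lit 0) (XT.nd (nat_lit 234) (nat_lit 1064) (nat_lit 0) (XT.nd (nat_lit 78) (nat_lit 0) (nat_lit 0) (XT.lf (nat_lit 0) (nat_lit 106061149882) (nat_lit 760) (nat_lit 12678871637) (nat_lit 836) (nat_lit 147968547359) (nat_lit 104) (nat_lit 5) (nat_lit 114) (nat_lit 5) (nat_lit 115) (nat_lit 5) (nat_lit 390) (nat_lit 381) (nat_lit 129)) (XT.nd (nat_lit 78) (nat_lit 0) (nat_lit 76) (XT.lf (nat_lit 76) (nat_lit 126706405202) (nat_lit 0) (nat_lit 642163132) (nat_lit 836) (nat_lit 146565425252) (nat_lit 105) (nat_lit 5) (nat_lit 104) (nat_lit 5) (nat_lit 115) (nat_lit 5) (nat_lit 391) (nat_lit 381) (nat_lit 128)) (XT.lf (nat_lit 0) (nat_lit 151844545281) (nat_lit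 760) (nat_lit 9897403798) (nat_lit 76) (nat_lit 119630531133) (nat_lit 105) (nat_lit 5) (nat_lit 115) (nat_lit 5) (nat_lit 106) (nat_lit 5) (nat_lit 392) (nat_lit 381) (nat_lit 127)))) (XT.nd (nat_lit 78) (nat_lit 380) (nat_lit 0) (XT.lf (nat_lit 0) (nat_lit 138707208682) (nat_lit 760) (nat_lit 41034190958) (nat_lit 836) (nat_lit 109353687657) (nat_lit 95) (nat_lit 5) (nat_lit 105) (nat_lit 5) (nat_lit 106) (nat_lit 5) (nat_lit 393) (nat_lit 381) (nat_lit 126)) (XT.nd (nat_lit 78) (nat_lit 380) (nat_lit 0) (XT.lf (nat_lit 0) (nat_lit 210541563906) (nat_lit 836) (nat_lit 3450734439) (nat_lit 76) (nat_lit 83136103088) (nat_lit 95) (nat_lit 5) (nat_lit 106) (nat_lit 5) (nat_lit 96) (nat_lit 5) (nat_lit 394) (nat_lit 381) (nat_lit 125)) (XT.lf (nat_lit 0) (nat_lit 155125509857) (nat_lit 380) (nat_lit 90850809799) (nat_lit 456) (nat_lit 59432332510) (nat_lit 90) (nat_lit 5) (nat_lit 95) (nat_lit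 5) (nat_lit 96) (nat_lit 5) (nat_lit 395) (nat_lit 381) (nat_lit 124))))) (XT.nd (nat_lit 234) (nat_lit 304) (nat_lit 0) (XT.nd (nat_lit 78) (nat_lit 456) (nat_lit 0) (XT.lf (nat_lit 0) (nat_lit 7282161773) (nat_lit 304) (nat_lit 276673970839) (nat_lit 380) (nat_lit 30108116904) (nat_lit 86) (nat_lit 5) (nat_lit 90) (nat_lit 5) (nat_lit 91) (nat_lit 5) (nat_lit 396) (nat_lit 381) (nat_lit 123)) (XT.nd (nat_lit 78) (nat_lit 380) (nat_lit 0) (XT.lf (nat_lit 0) (nat_lit 4736619984) (nat_lit 380) (nat_lit 146623935132) (nat_lit 76) (nat_lit 171587731590) (nat_lit 85) (nat_lit 5) (nat_lit 90) (nat_lit 5) (nat_lit 86) (nat_lit 5) (nat_lit 397) (nat_lit 381) (nat_lit 122)) (XT.lf (nat_lit 0) (nat_lit 21744457225) (nat_lit 380) (nat_lit 18906750779) (nat_lit 456) (nat_lit 291583666790) (nat_lit 80) (nat_lit 5) (nat_lit 85) (nat_lit 5) (nat_lit 86) (nat_lit 5) (nat_lit 398) (nat_lit 381) (nat_lit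 121)))) (XT.nd (nat_lit 78) (nat_lit 304) (nat_lit 0) (XT.lf (nat_lit 0) (nat_lit 82761520474) (nat_lit 456) (nat_lit 140156859678) (nat_lit 76) (nat_lit 118847412422) (nat_lit 80) (nat_lit 5) (nat_lit 86) (nat_lit 5) (nat_lit 81) (nat_lit 5) (nat_lit 399) (nat_lit 381) (nat_lit 120)) (XT.nd (nat_lit 78) (nat_lit 0) (nat_lit 0) (XT.lf (nat_lit 0) (nat_lit 39652507643) (nat_lit 304) (nat_lit 88253830574) (nat_lit 380) (nat_lit 223820468584) (nat_lit 76) (nat_lit 5) (nat_lit 80) (nat_lit 5) (nat_lit 81) (nat_lit 5) (nat_lit 400) (nat_lit 381) (nat_lit 119)) (XT.lf (nat_lit 0) (nat_lit 178550616270) (nat_lit 380) (nat_lit 129617606201) (nat_lit 76) (nat_lit 53855538335) (nat_lit 76) (nat_lit 5) (nat_lit 81) (nat_lit 5) (nat_lit 77) (nat_lit 5) (nat_lit 401) (nat_lit 381) (nat_lit 118)))))) (XT.nd (nat_lit 468) (nat_lit 228) (nat_lit 0) (XT.nd (nat_lit 234) (nat_lit 380) (nat_lit 0) (XT.nd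 (nat_lit 78) (nat_lit 228) (nat_lit 0) (XT.lf (nat_lit 0) (nat_lit 62515990975) (nat_lit 304) (nat_lit 171633910581) (nat_lit 380) (nat_lit 138564521323) (nat_lit 72) (nat_lit 5) (nat_lit 76) (nat_lit 5) (nat_lit 77) (nat_lit 5) (nat_lit 402) (nat_lit 381) (nat_lit 117)) (XT.nd (nat_lit 78) (nat_lit 228) (nat_lit 0) (XT.lf (nat_lit 0) (nat_lit 268756250941) (nat_lit 304) (nat_lit 25967997636) (nat_lit 380) (nat_lit 89105614640) (nat_lit 72) (nat_lit 5) (nat_lit 76) (nat_lit 5) (nat_lit 77) (nat_lit 5) (nat_lit 403) (nat_lit 381) (nat_lit 116)) (XT.lf (nat_lit 0) (nat_lit 90728755361) (nat_lit 228) (nat_lit 270997582641) (nat_lit 304) (nat_lit 33604786351) (nat_lit 69) (nat_lit 5) (nat_lit 72) (nat_lit 5) (nat_lit 73) (nat_lit 5) (nat_lit 404) (nat_lit 381) (nat_lit 115)))) (XT.nd (nat_lit 78) (nat_lit 304) (nat_lit 0) (XT.lf (nat_lit 0) (nat_lit 26287897567) (nat_lit 304) (nat_lit 97336555130)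 (nat_lit 76) (nat_lit 283643414491) (nat_lit 68) (nat_lit 5) (nat_lit 72) (nat_lit 5) (nat_lit 69) (nat_lit 5) (nat_lit 405) (nat_lit 381) (nat_lit 114)) (XT.nd (nat_lit 78) (nat_lit 0) (nat_lit 0) (XT.lf (nat_lit 0) (nat_lit 90503675950) (nat_lit 380) (nat_lit 296503054787) (nat_lit 76) (nat_lit 32644281478) (nat_lit 64) (nat_lit 5) (nat_lit 69) (nat_lit 5) (nat_lit 65) (nat_lit 5) (nat_lit 406) (nat_lit 381) (nat_lit 113)) (XT.lf (nat_lit 0) (nat_lit 161632304305) (nat_lit 380) (nat_lit 76588591671) (nat_lit 76) (nat_lit 194247315491) (nat_lit 64) (nat_lit 5) (nat_lit 69) (nat_lit 5) (nat_lit 65) (nat_lit 5) (nat_lit 407) (nat_lit 381) (nat_lit 112))))) (XT.nd (nat_lit 44928) (nat_lit 0) (nat_lit 2964) (XT.nd (nat_lit 78) (nat_lit 0) (nat_lit 0) (XT.lf (nat_lit 0) (nat_lit 159424117927) (nat_lit 228) (nat_lit 79382270451) (nat_lit 304) (nat_lit 206995431114) (nat_lit 61) (nat_lit 5) (nat_lit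 64) (nat_lit 5) (nat_lit 65) (nat_lit 5) (nat_lit 408) (nat_lit 381) (nat_lit 111)) (XT.nd (nat_lit 44772) (nat_lit 0) (nat_lit 2964) (XT.lf (nat_lit 0) (nat_lit 322522004808) (nat_lit 304) (nat_lit 51226649061) (nat_lit 76) (nat_lit 85919312666) (nat_lit 61) (nat_lit 5) (nat_lit 65) (nat_lit 5) (nat_lit 62) (nat_lit 5) (nat_lit 409) (nat_lit 381) (nat_lit 110)) (XT.lf (nat_lit 0) (nat_lit 12145105331) (nat_lit 836) (nat_lit 49597060565) (nat_lit 836) (nat_lit 49597060565) (nat_lit 100) (nat_lit 3) (nat_lit 111) (nat_lit 3) (nat_lit 111) (nat_lit 5) (nat_lit 382) (nat_lit 382) (nat_lit 136)))) (XT.nd (nat_lit 78) (nat_lit 0) (nat_lit 76) (XT.lf (nat_lit 76) (nat_lit 6358155054) (nat_lit 0) (nat_lit 18639855299) (nat_lit 836) (nat_lit 203242375324) (nat_lit 101) (nat_lit 5) (nat_lit 100) (nat_lit 3) (nat_lit 111) (nat_lit 5) (nat_lit 383) (nat_lit 382) (nat_lit 135)) (XT.nd (nat_lit 78)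 (nat_lit 0) (nat_lit 0) (XT.lf (nat_lit 0) (nat_lit 28876299582) (nat_lit 760) (nat_lit 114819909119) (nat_lit 836) (nat_lit 90227451477) (nat_lit 101) (nat_lit 5) (nat_lit 111) (nat_lit 5) (nat_lit 112) (nat_lit 5) (nat_lit 384) (nat_lit 382) (nat_lit 134)) (XT.lf (nat_lit 0) (nat_lit 33253996799) (nat_lit 760) (nat_lit 2710089734) (nat_lit 836) (nat_lit 203911737278) (nat_lit 101) (nat_lit 5) (nat_lit 111) (nat_lit 5) (nat_lit 112) (nat_lit 5) (nat_lit 385) (nat_lit 382) (nat_lit 133))))))))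
noncomputable def xc251 : XT := (XT.nd (nat_lit 46644) (nat_lit 0) (nat_lit 608) (XT.nd (nat_lit 936) (nat_lit 1900) (nat_lit 0) (XT.nd (nat_lit 468) (nat_lit 1216) (nat_lit 0) (XT.nd (nat_lit 234) (nat_lit 0) (nat_lit 76) (XT.nd (nat_lit 78) (nat_lit 0) (nat_lit 0) (XT.lf (nat_lit 0) (nat_lit 40940436113) (nat_lit 760) (nat_lit 128460095956) (nat_lit 836) (nat_lit 76570570772) (nat_lit 102) (nat_lit 5) (nat_lit 112) (nat_lit 5) (nat_lit 113) (nat_lit 5) (nat_lit 386) (nat_lit 382) (nat_lit 132)) (XT.nd (nat_lit 78) (nat_lit 0) (nat_lit 76) (XT.lf (nat_lit 0) (nat_lit 49647350779) (nat_lit 760) (nat_lit 9121979968) (nat_lit 836) (nat_lit 193570007481) (nat_lit 102) (nat_lit 5) (nat_lit 112) (nat_lit 5) (nat_lit 113) (nat_lit 5) (nat_lit 387) (nat_lit 382) (nat_lit 131)) (XT.lf (nat_lit 0) (nat_lit 61590255585) (nat_lit 760) (nat_lit 139834554760) (nat_lit 836) (nat_lit 57461142889) (nat_lit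 103) (nat_lit 5) (nat_lit 113) (nat_lit 5) (nat_lit 114) (nat_lit 5) (nat_lit 388) (nat_lit 382) (nat_lit 130)))) (XT.nd (nat_lit 78) (nat_lit 0) (nat_lit 76) (XT.lf (nat_lit 0) (nat_lit 75250690287) (nat_lit 760) (nat_lit 12768047074) (nat_lit 836) (nat_lit 177685142465) (nat_lit 103) (nat_lit 5) (nat_lit 113) (nat_lit 5) (nat_lit 114) (nat_lit 5) (nat_lit 389) (nat_lit 382) (nat_lit 129)) (XT.nd (nat_lit 78) (nat_lit 0) (nat_lit 0) (XT.lf (nat_lit 0) (nat_lit 92056879521) (nat_lit 760) (nat_lit 148641173529) (nat_lit 836) (nat_lit 32041513122) (nat_lit 104) (nat_lit 5) (nat_lit 114) (nat_lit 5) (nat_lit 115) (nat_lit 5) (nat_lit 390) (nat_lit 382) (nat_lit 128)) (XT.lf (nat_lit 0) (nat_lit 111366027033) (nat_lit 760) (nat_lit 13311316719) (nat_lit 836) (nat_lit 155366560704) (nat_lit 104) (nat_lit 5) (nat_lit 114) (nat_lit 5) (nat_lit 115) (nat_lit 5) (nat_lit 391) (nat_lit 382) (nat_lit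 127))))) (XT.nd (nat_lit 234) (nat_lit 684) (nat_lit 0) (XT.nd (nat_lit 78) (nat_lit 684) (nat_lit 0) (XT.lf (nat_lit 76) (nat_lit 133043199792) (nat_lit 0) (nat_lit 674552982) (nat_lit 836) (nat_lit 153891850895) (nat_lit 105) (nat_lit 5) (nat_lit 104) (nat_lit 5) (nat_lit 115) (nat_lit 5) (nat_lit 392) (nat_lit 382) (nat_lit 126)) (XT.nd (nat_lit 78) (nat_lit 760) (nat_lit 0) (XT.lf (nat_lit 0) (nat_lit 159438440760) (nat_lit 760) (nat_lit 10390780345) (nat_lit 76) (nat_lit 125611797996) (nat_lit 105) (nat_lit 5) (nat_lit 115) (nat_lit 5) (nat_lit 106) (nat_lit 5) (nat_lit 393) (nat_lit 382) (nat_lit 125)) (XT.lf (nat_lit 0) (nat_lit 145644038668) (nat_lit 760) (nat_lit 43086042675) (nat_lit 836) (nat_lit 114819678106) (nat_lit 95) (nat_lit 5) (nat_lit 105) (nat_lit 5) (nat_lit 106) (nat_lit 5) (nat_lit 394) (nat_lit 382) (nat_lit 124)))) (XT.nd (nat_lit 78) (nat_lit 684) (nat_lit 0)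 (XT.lf (nat_lit 0) (nat_lit 221070174959) (nat_lit 836) (nat_lit 3621791176) (nat_lit 76) (nat_lit 87292777177) (nat_lit 95) (nat_lit 5) (nat_lit 106) (nat_lit 5) (nat_lit 96) (nat_lit 5) (nat_lit 395) (nat_lit 382) (nat_lit 123)) (XT.nd (nat_lit 78) (nat_lit 304) (nat_lit 0) (XT.lf (nat_lit 0) (nat_lit 162883241464) (nat_lit 380) (nat_lit 95393376773) (nat_lit 456) (nat_lit 62402390931) (nat_lit 90) (nat_lit 5) (nat_lit 95) (nat_lit 5) (nat_lit 96) (nat_lit 5) (nat_lit 396) (nat_lit 382) (nat_lit 122)) (XT.lf (nat_lit 0) (nat_lit 7647777284) (nat_lit 304) (nat_lit 290507597098) (nat_lit 380) (nat_lit 31612014446) (nat_lit 86) (nat_lit 5) (nat_lit 90) (nat_lit 5) (nat_lit 91) (nat_lit 5) (nat_lit 397) (nat_lit 382) (nat_lit 121)))))) (XT.nd (nat_lit 468) (nat_lit 836) (nat_lit 0) (XT.nd (nat_lit 234) (nat_lit 608) (nat_lit 0) (XT.nd (nat_lit 78) (nat_lit 380) (nat_lit 0) (XT.lf (nat_lit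 0) (nat_lit 4974841486) (nat_lit 380) (nat_lit 153953648996) (nat_lit 76) (nat_lit 180167139759) (nat_lit 85) (nat_lit 5) (nat_lit 90) (nat_lit 5) (nat_lit 86) (nat_lit 5) (nat_lit 398) (nat_lit 382) (nat_lit 120)) (XT.nd (nat_lit 78) (nat_lit 0) (nat_lit 0) (XT.lf (nat_lit 0) (nat_lit 22833139061) (nat_lit 380) (nat_lit 19851976410) (nat_lit 456) (nat_lit 306161434494) (nat_lit 80) (nat_lit 5) (nat_lit 85) (nat_lit 5) (nat_lit 86) (nat_lit 5) (nat_lit 399) (nat_lit 382) (nat_lit 119)) (XT.lf (nat_lit 0) (nat_lit 86900881083) (nat_lit 456) (nat_lit 147163249523) (nat_lit 76) (nat_lit 124789886211) (nat_lit 80) (nat_lit 5) (nat_lit 86) (nat_lit 5) (nat_lit 81) (nat_lit 5) (nat_lit 400) (nat_lit 382) (nat_lit 118)))) (XT.nd (nat_lit 78) (nat_lit 304) (nat_lit 0) (XT.lf (nat_lit 0) (nat_lit 41636562726) (nat_lit 304) (nat_lit 92666338138) (nat_lit 380) (nat_lit 235010182889) (nat_lit 76) (nat_lit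 5) (nat_lit 80) (nat_lit 5) (nat_lit 81) (nat_lit 5) (nat_lit 401) (nat_lit 382) (nat_lit 117)) (XT.nd (nat_lit 78) (nat_lit 304) (nat_lit 0) (XT.lf (nat_lit 0) (nat_lit 187479336234) (nat_lit 380) (nat_lit 136097067256) (nat_lit 76) (nat_lit 56548484848) (nat_lit 76) (nat_lit 5) (nat_lit 81) (nat_lit 5) (nat_lit 77) (nat_lit 5) (nat_lit 402) (nat_lit 382) (nat_lit 116)) (XT.lf (nat_lit 0) (nat_lit 65643186887) (nat_lit 304) (nat_lit 180215364072) (nat_lit 380) (nat_lit 145491534348) (nat_lit 72) (nat_lit 5) (nat_lit 76) (nat_lit 5) (nat_lit 77) (nat_lit 5) (nat_lit 403) (nat_lit 382) (nat_lit 115))))) (XT.nd (nat_lit 234) (nat_lit 532) (nat_lit 0) (XT.nd (nat_lit 78) (nat_lit 304) (nat_lit 0) (XT.lf (nat_lit 0) (nat_lit 282195393358) (nat_lit 304) (nat_lit 27266167006) (nat_lit 380) (nat_lit 93559740095) (nat_lit 72) (nat_lit 5) (nat_lit 76) (nat_lit 5) (nat_lit 77) (nat_lit 5) (nat_lit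 404) (nat_lit 382) (nat_lit 114)) (XT.nd (nat_lit 78) (nat_lit 76) (nat_lit 0) (XT.lf (nat_lit 0) (nat_lit 95266553026) (nat_lit 228) (nat_lit 284547173542) (nat_lit 304) (nat_lit 35283899512) (nat_lit 69) (nat_lit 5) (nat_lit 72) (nat_lit 5) (nat_lit 73) (nat_lit 5) (nat_lit 405) (nat_lit 382) (nat_lit 113)) (XT.lf (nat_lit 0) (nat_lit 27603330648) (nat_lit 304) (nat_lit 102202052596) (nat_lit 76) (nat_lit 297825824571) (nat_lit 68) (nat_lit 5) (nat_lit 72) (nat_lit 5) (nat_lit 69) (nat_lit 5) (nat_lit 406) (nat_lit 382) (nat_lit 112)))) (XT.nd (nat_lit 78) (nat_lit 228) (nat_lit 0) (XT.lf (nat_lit 0) (nat_lit 95029873625) (nat_lit 380) (nat_lit 311326852128) (nat_lit 76) (nat_lit 34276785596) (nat_lit 64) (nat_lit 5) (nat_lit 69) (nat_lit 5) (nat_lit 65) (nat_lit 5) (nat_lit 407) (nat_lit 382) (nat_lit 111)) (XT.nd (nat_lit 78) (nat_lit 228) (nat_lit 0) (XT.lf (nat_lit 0) (nat_lit 169714885117)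 (nat_lit 380) (nat_lit 80416730399) (nat_lit 76) (nat_lit 203959957498) (nat_lit 64) (nat_lit 5) (nat_lit 69) (nat_lit 5) (nat_lit 65) (nat_lit 5) (nat_lit 408) (nat_lit 382) (nat_lit 110)) (XT.lf (nat_lit 0) (nat_lit 167396593858) (nat_lit 228) (nat_lit 83351053383) (nat_lit 304) (nat_lit 217344215542) (nat_lit 61) (nat_lit 5) (nat_lit 64) (nat_lit 5) (nat_lit 65) (nat_lit 5) (nat_lit 409) (nat_lit 382) (nat_lit 109))))))) (XT.nd (nat_lit 936) (nat_lit 2356) (nat_lit 0) (XT.nd (nat_lit 468) (nat_lit 0) (nat_lit 228) (XT.nd (nat_lit 234) (nat_lit 0) (nat_lit 76) (XT.nd (nat_lit 78) (nat_lit 0) (nat_lit 0) (XT.lf (nat_lit 0) (nat_lit 12753616483) (nat_lit 836) (nat_lit 52076253590) (nat_lit 836) (nat_lit 52076253590) (nat_lit 100) (nat_lit 3) (nat_lit 111) (nat_lit 3) (nat_lit 111) (nat_lit 5) (nat_lit 383) (nat_lit 383) (nat_lit 134)) (XT.nd (nat_lit 78) (nat_lit 0) (nat_lit 76) (XT.lf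 (nat_lit 76) (nat_lit 6677361522) (nat_lit 0) (nat_lit 19572961788) (nat_lit 836) (nat_lit 213401958503) (nat_lit 101) (nat_lit 5) (nat_lit 100) (nat_lit 3) (nat_lit 111) (nat_lit 5) (nat_lit 384) (nat_lit 383) (nat_lit 133)) (XT.lf (nat_lit 0) (nat_lit 30322395563) (nat_lit 760) (nat_lit 120559533860) (nat_lit 836) (nat_lit 94737797309) (nat_lit 101) (nat_lit 5) (nat_lit 111) (nat_lit 5) (nat_lit 112) (nat_lit 5) (nat_lit 385) (nat_lit 383) (nat_lit 132)))) (XT.nd (nat_lit 78) (nat_lit 0) (nat_lit 76) (XT.lf (nat_lit 0) (nat_lit 34918869022) (nat_lit 760) (nat_lit 2844288777) (nat_lit 836) (nat_lit 214106346292) (nat_lit 101) (nat_lit 5) (nat_lit 111) (nat_lit 5) (nat_lit 112) (nat_lit 5) (nat_lit 386) (nat_lit 383) (nat_lit 131)) (XT.nd (nat_lit 78) (nat_lit 0) (nat_lit 0) (XT.lf (nat_lit 0) (nat_lit 42989534345) (nat_lit 760) (nat_lit 134881697173) (nat_lit 836) (nat_lit 80398320462)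 (nat_lit 102) (nat_lit 5) (nat_lit 112) (nat_lit 5) (nat_lit 113) (nat_lit 5) (nat_lit 387) (nat_lit 383) (nat_lit 130)) (XT.lf (nat_lit 0) (nat_lit 52131695867) (nat_lit 760) (nat_lit 9576742223) (nat_lit 836) (nat_lit 203247766094) (nat_lit 102) (nat_lit 5) (nat_lit 112) (nat_lit 5) (nat_lit 113) (nat_lit 5) (nat_lit 388) (nat_lit 383) (nat_lit 129))))) (XT.nd (nat_lit 234) (nat_lit 0) (nat_lit 76) (XT.nd (nat_lit 78) (nat_lit 0) (nat_lit 0) (XT.lf (nat_lit 0) (nat_lit 64671663087) (nat_lit 760) (nat_lit 146824860949) (nat_lit 836) (nat_lit 60333630145) (nat_lit 103) (nat_lit 5) (nat_lit 113) (nat_lit 5) (nat_lit 114) (nat_lit 5) (nat_lit 389) (nat_lit 383) (nat_lit 128)) (XT.nd (nat_lit 78) (nat_lit 0) (nat_lit 76) (XT.lf (nat_lit 0) (nat_lit 79015029299) (nat_lit 760) (nat_lit 13405095571) (nat_lit 836) (nat_lit 186568856838) (nat_lit 103) (nat_lit 5) (nat_lit 113) (nat_lit 5) (nat_lit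 114) (nat_lit 5) (nat_lit 390) (nat_lit 383) (nat_lit 127)) (XT.lf (nat_lit 0) (nat_lit 96661456503) (nat_lit 760) (nat_lit 156071805063) (nat_lit 836) (nat_lit 33643194470) (nat_lit 104) (nat_lit 5) (nat_lit 114) (nat_lit 5) (nat_lit 115) (nat_lit 5) (nat_lit 391) (nat_lit 383) (nat_lit 126)))) (XT.nd (nat_lit 78) (nat_lit 0) (nat_lit 0) (XT.lf (nat_lit 0) (nat_lit 116935978866) (nat_lit 760) (nat_lit 13975523372) (nat_lit 836) (nat_lit 163134513208) (nat_lit 104) (nat_lit 5) (nat_lit 114) (nat_lit 5) (nat_lit 115) (nat_lit 5) (nat_lit 392) (nat_lit 383) (nat_lit 125)) (XT.nd (nat_lit 78) (nat_lit 0) (nat_lit 76) (XT.lf (nat_lit 76) (nat_lit 139696697043) (nat_lit 0) (nat_lit 708536136) (nat_lit 836) (nat_lit 161584769408) (nat_lit 105) (nat_lit 5) (nat_lit 104) (nat_lit 5) (nat_lit 115) (nat_lit 5) (nat_lit 393) (nat_lit 383) (nat_lit 124)) (XT.lf (nat_lit 0) (nat_lit 167411875919) (nat_lit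 760) (nat_lit 10908964585) (nat_lit 76) (nat_lit 131892152347) (nat_lit 105) (nat_lit 5) (nat_lit 115) (nat_lit 5) (nat_lit 106) (nat_lit 5) (nat_lit 394) (nat_lit 383) (nat_lit 123)))))) (XT.nd (nat_lit 468) (nat_lit 836) (nat_lit 0) (XT.nd (nat_lit 234) (nat_lit 760) (nat_lit 0) (XT.nd (nat_lit 78) (nat_lit 380) (nat_lit 0) (XT.lf (nat_lit 0) (nat_lit 152927573527) (nat_lit 760) (nat_lit 45240473760) (nat_lit 836) (nat_lit 120559125563) (nat_lit 95) (nat_lit 5) (nat_lit 105) (nat_lit 5) (nat_lit 106) (nat_lit 5) (nat_lit 395) (nat_lit 383) (nat_lit 122)) (XT.nd (nat_lit 78) (nat_lit 380) (nat_lit 0) (XT.lf (nat_lit 0) (nat_lit 232125074055) (nat_lit 836) (nat_lit 3801538344) (nat_lit 76) (nat_lit 91657297156) (nat_lit 95) (nat_lit 5) (nat_lit 106) (nat_lit 5) (nat_lit 96) (nat_lit 5) (nat_lit 396) (nat_lit 383) (nat_lit 121)) (XT.lf (nat_lit 0) (nat_lit 171028724277) (nat_lit 380) (nat_lit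 100163069634) (nat_lit 456) (nat_lit 65521097140) (nat_lit 90) (nat_lit 5) (nat_lit 95) (nat_lit 5) (nat_lit 96) (nat_lit 5) (nat_lit 397) (nat_lit 383) (nat_lit 120)))) (XT.nd (nat_lit 78) (nat_lit 456) (nat_lit 0) (XT.lf (nat_lit 0) (nat_lit 8031533425) (nat_lit 304) (nat_lit 305032911390) (nat_lit 380) (nat_lit 33191247093) (nat_lit 86) (nat_lit 5) (nat_lit 90) (nat_lit 5) (nat_lit 91) (nat_lit 5) (nat_lit 398) (nat_lit 383) (nat_lit 119)) (XT.nd (nat_lit 78) (nat_lit 380) (nat_lit 0) (XT.lf (nat_lit 0) (nat_lit 5224844787) (nat_lit 380) (nat_lit 161649986419) (nat_lit 76) (nat_lit 189175516329) (nat_lit 85) (nat_lit 5) (nat_lit 90) (nat_lit 5) (nat_lit 86) (nat_lit 5) (nat_lit 399) (nat_lit 383) (nat_lit 118)) (XT.lf (nat_lit 0) (nat_lit 23976119347) (nat_lit 380) (nat_lit 20844473727) (nat_lit 456) (nat_lit 321468222196) (nat_lit 80) (nat_lit 5) (nat_lit 85) (nat_lit 5) (nat_lit 86)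 (nat_lit 5) (nat_lit 400) (nat_lit 383) (nat_lit 117))))) (XT.nd (nat_lit 234) (nat_lit 532) (nat_lit 0) (XT.nd (nat_lit 78) (nat_lit 304) (nat_lit 0) (XT.lf (nat_lit 0) (nat_lit 91247090294) (nat_lit 456) (nat_lit 154520093960) (nat_lit 76) (nat_lit 131029474097) (nat_lit 80) (nat_lit 5) (nat_lit 86) (nat_lit 5) (nat_lit 81) (nat_lit 5) (nat_lit 401) (nat_lit 383) (nat_lit 116)) (XT.nd (nat_lit 78) (nat_lit 0) (nat_lit 0) (XT.lf (nat_lit 0) (nat_lit 43719687643) (nat_lit 304) (nat_lit 97299488183) (nat_lit 380) (nat_lit 246759504619) (nat_lit 76) (nat_lit 5) (nat_lit 80) (nat_lit 5) (nat_lit 81) (nat_lit 5) (nat_lit 402) (nat_lit 383) (nat_lit 115)) (XT.lf (nat_lit 0) (nat_lit 196854381641) (nat_lit 380) (nat_lit 142900633313) (nat_lit 76) (nat_lit 59376062920) (nat_lit 76) (nat_lit 5) (nat_lit 81) (nat_lit 5) (nat_lit 77) (nat_lit 5) (nat_lit 403) (nat_lit 383) (nat_lit 114)))) (XT.nd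 (nat_lit 78) (nat_lit 228) (nat_lit 0) (XT.lf (nat_lit 0) (nat_lit 68926612774) (nat_lit 304) (nat_lit 189225912740) (nat_lit 380) (nat_lit 152765010802) (nat_lit 72) (nat_lit 5) (nat_lit 76) (nat_lit 5) (nat_lit 77) (nat_lit 5) (nat_lit 404) (nat_lit 383) (nat_lit 113)) (XT.nd (nat_lit 78) (nat_lit 228) (nat_lit 0) (XT.lf (nat_lit 0) (nat_lit 296306369257) (nat_lit 304) (nat_lit 28629266275) (nat_lit 380) (nat_lit 98236679229) (nat_lit 72) (nat_lit 5) (nat_lit 76) (nat_lit 5) (nat_lit 77) (nat_lit 5) (nat_lit 405) (nat_lit 383) (nat_lit 112)) (XT.lf (nat_lit 0) (nat_lit 100031114144) (nat_lit 228) (nat_lit 298774270786) (nat_lit 304) (nat_lit 37047073031) (nat_lit 69) (nat_lit 5) (nat_lit 72) (nat_lit 5) (nat_lit 73) (nat_lit 5) (nat_lit 406) (nat_lit 383) (nat_lit 111))))))))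
noncomputable def xc252 : XT := (XT.nd (nat_lit 46722) (nat_lit 0) (nat_lit 380) (XT.nd (nat_lit 45786) (nat_lit 0) (nat_lit 912) (XT.nd (nat_lit 45318) (nat_lit 0) (nat_lit 2812) (XT.nd (nat_lit 45084) (nat_lit 0) (nat_lit 2736) (XT.nd (nat_lit 78) (nat_lit 304) (nat_lit 0) (XT.lf (nat_lit 0) (nat_lit 28984438860) (nat_lit 304) (nat_lit 107310948614) (nat_lit 76) (nat_lit 312717332902) (nat_lit 68) (nat_lit 5) (nat_lit 72) (nat_lit 5) (nat_lit 69) (nat_lit 5) (nat_lit 407) (nat_lit 383) (nat_lit 110)) (XT.lf (nat_lit 0) (nat_lit 99782286922) (nat_lit 380) (nat_lit 326891965348) (nat_lit 76) (nat_lit 35990887955) (nat_lit 64) (nat_lit 5) (nat_lit 69) (nat_lit 5) (nat_lit 65) (nat_lit 5) (nat_lit 408) (nat_lit 383) (nat_lit 109))) (XT.nd (nat_lit 78) (nat_lit 0) (nat_lit 0) (XT.lf (nat_lit 0) (nat_lit 13392436433) (nat_lit 836) (nat_lit 54679467627) (nat_lit 836) (nat_lit 54679467627) (nat_lit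 100) (nat_lit 3) (nat_lit 111) (nat_lit 3) (nat_lit 111) (nat_lit 5) (nat_lit 384) (nat_lit 384) (nat_lit 132)) (XT.nd (nat_lit 78) (nat_lit 0) (nat_lit 76) (XT.lf (nat_lit 76) (nat_lit 7012407571) (nat_lit 0) (nat_lit 20552620059) (nat_lit 836) (nat_lit 224069756575) (nat_lit 101) (nat_lit 5) (nat_lit 100) (nat_lit 3) (nat_lit 111) (nat_lit 5) (nat_lit 385) (nat_lit 384) (nat_lit 131)) (XT.lf (nat_lit 0) (nat_lit 31840584278) (nat_lit 760) (nat_lit 126586267273) (nat_lit 836) (nat_lit 99473755890) (nat_lit 101) (nat_lit 5) (nat_lit 111) (nat_lit 5) (nat_lit 112) (nat_lit 5) (nat_lit 386) (nat_lit 384) (nat_lit 130))))) (XT.nd (nat_lit 234) (nat_lit 0) (nat_lit 152) (XT.nd (nat_lit 78) (nat_lit 0) (nat_lit 76) (XT.lf (nat_lit 0) (nat_lit 36666782888) (nat_lit 760) (nat_lit 2985319140) (nat_lit 836) (nat_lit 224810776669) (nat_lit 101) (nat_lit 5) (nat_lit 111) (nat_lit 5) (nat_lit 112)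 (nat_lit 5) (nat_lit 387) (nat_lit 384) (nat_lit 129)) (XT.nd (nat_lit 78) (nat_lit 0) (nat_lit 0) (XT.lf (nat_lit 0) (nat_lit 45140894443) (nat_lit 760) (nat_lit 141624508943) (nat_lit 836) (nat_lit 84417530046) (nat_lit 102) (nat_lit 5) (nat_lit 112) (nat_lit 5) (nat_lit 113) (nat_lit 5) (nat_lit 388) (nat_lit 384) (nat_lit 128)) (XT.lf (nat_lit 0) (nat_lit 54740074356) (nat_lit 760) (nat_lit 10054366869) (nat_lit 836) (nat_lit 213409481600) (nat_lit 102) (nat_lit 5) (nat_lit 112) (nat_lit 5) (nat_lit 113) (nat_lit 5) (nat_lit 389) (nat_lit 384) (nat_lit 127)))) (XT.nd (nat_lit 78) (nat_lit 0) (nat_lit 0) (XT.lf (nat_lit 0) (nat_lit 67906964811) (nat_lit 760) (nat_lit 154164814609) (nat_lit 836) (nat_lit 63349794747) (nat_lit 103) (nat_lit 5) (nat_lit 113) (nat_lit 5) (nat_lit 114) (nat_lit 5) (nat_lit 390) (nat_lit 384) (nat_lit 126)) (XT.nd (nat_lit 78) (nat_lit 0) (nat_lit 76) (XT.lf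 (nat_lit 0) (nat_lit 82967417497) (nat_lit 760) (nat_lit 14074122362) (nat_lit 836) (nat_lit 195896807390) (nat_lit 103) (nat_lit 5) (nat_lit 113) (nat_lit 5) (nat_lit 114) (nat_lit 5) (nat_lit 391) (nat_lit 384) (nat_lit 125)) (XT.lf (nat_lit 0) (nat_lit 101496101216) (nat_lit 760) (nat_lit 163874100856) (nat_lit 836) (nat_lit 35324996544) (nat_lit 104) (nat_lit 5) (nat_lit 114) (nat_lit 5) (nat_lit 115) (nat_lit 5) (nat_lit 392) (nat_lit 384) (nat_lit 124)))))) (XT.nd (nat_lit 468) (nat_lit 1064) (nat_lit 0) (XT.nd (nat_lit 234) (nat_lit 1064) (nat_lit 0) (XT.nd (nat_lit 78) (nat_lit 0) (nat_lit 0) (XT.lf (nat_lit 0) (nat_lit 122784274845) (nat_lit 760) (nat_lit 14673066721) (nat_lit 836) (nat_lit 171290898250) (nat_lit 104) (nat_lit 5) (nat_lit 114) (nat_lit 5) (nat_lit 115) (nat_lit 5) (nat_lit 393) (nat_lit 384) (nat_lit 123)) (XT.nd (nat_lit 78) (nat_lit 0) (nat_lit 76) (XT.lf (nat_lit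 76) (nat_lit 146682744831) (nat_lit 0) (nat_lit 744194693) (nat_lit 836) (nat_lit 169662489482) (nat_lit 105) (nat_lit 5) (nat_lit 104) (nat_lit 5) (nat_lit 115) (nat_lit 5) (nat_lit 394) (nat_lit 384) (nat_lit 122)) (XT.lf (nat_lit 0) (nat_lit 175783842159) (nat_lit 760) (nat_lit 11453183991) (nat_lit 76) (nat_lit 138486546314) (nat_lit 105) (nat_lit 5) (nat_lit 115) (nat_lit 5) (nat_lit 106) (nat_lit 5) (nat_lit 395) (nat_lit 384) (nat_lit 121)))) (XT.nd (nat_lit 78) (nat_lit 380) (nat_lit 0) (XT.lf (nat_lit 0) (nat_lit 160575161207) (nat_lit 760) (nat_lit 47502614411) (nat_lit 836) (nat_lit 126585688237) (nat_lit 95) (nat_lit 5) (nat_lit 105) (nat_lit 5) (nat_lit 106) (nat_lit 5) (nat_lit 396) (nat_lit 384) (nat_lit 120)) (XT.nd (nat_lit 78) (nat_lit 380) (nat_lit 0) (XT.lf (nat_lit 0) (nat_lit 243732588843) (nat_lit 836) (nat_lit 3990397674) (nat_lit 76) (nat_lit 96240054186) (nat_lit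 95) (nat_lit 5) (nat_lit 106) (nat_lit 5) (nat_lit 96) (nat_lit 5) (nat_lit 397) (nat_lit 384) (nat_lit 119)) (XT.lf (nat_lit 0) (nat_lit 179581358440) (nat_lit 380) (nat_lit 105171244904) (nat_lit 456) (nat_lit 68795870057) (nat_lit 90) (nat_lit 5) (nat_lit 95) (nat_lit 5) (nat_lit 96) (nat_lit 5) (nat_lit 398) (nat_lit 384) (nat_lit 118))))) (XT.nd (nat_lit 234) (nat_lit 304) (nat_lit 0) (XT.nd (nat_lit 78) (nat_lit 456) (nat_lit 0) (XT.lf (nat_lit 0) (nat_lit 8434350257) (nat_lit 304) (nat_lit 320284497493) (nat_lit 380) (nat_lit 34849568563) (nat_lit 86) (nat_lit 5) (nat_lit 90) (nat_lit 5) (nat_lit 91) (nat_lit 5) (nat_lit 399) (nat_lit 384) (nat_lit 117)) (XT.nd (nat_lit 78) (nat_lit 380) (nat_lit 0) (XT.lf (nat_lit 0) (nat_lit 5487230997) (nat_lit 380) (nat_lit 169731265761) (nat_lit 76) (nat_lit 198634309906) (nat_lit 85) (nat_lit 5) (nat_lit 90) (nat_lit 5) (nat_lit 86) (nat_lit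 5) (nat_lit 400) (nat_lit 384) (nat_lit 116)) (XT.lf (nat_lit 0) (nat_lit 25176125616) (nat_lit 380) (nat_lit 21886605347) (nat_lit 456) (nat_lit 337540468660) (nat_lit 80) (nat_lit 5) (nat_lit 85) (nat_lit 5) (nat_lit 86) (nat_lit 5) (nat_lit 401) (nat_lit 384) (nat_lit 115)))) (XT.nd (nat_lit 78) (nat_lit 304) (nat_lit 0) (XT.lf (nat_lit 0) (nat_lit 95810501640) (nat_lit 456) (nat_lit 162244903157) (nat_lit 76) (nat_lit 137581032678) (nat_lit 80) (nat_lit 5) (nat_lit 86) (nat_lit 5) (nat_lit 81) (nat_lit 5) (nat_lit 402) (nat_lit 384) (nat_lit 114)) (XT.nd (nat_lit 78) (nat_lit 0) (nat_lit 0) (XT.lf (nat_lit 0) (nat_lit 45906848244) (nat_lit 304) (nat_lit 102164311244) (nat_lit 380) (nat_lit 259096402830) (nat_lit 76) (nat_lit 5) (nat_lit 80) (nat_lit 5) (nat_lit 81) (nat_lit 5) (nat_lit 403) (nat_lit 384) (nat_lit 113)) (XT.lf (nat_lit 0) (nat_lit 206698079040) (nat_lit 380) (nat_lit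 150044497355) (nat_lit 76) (nat_lit 62345005594) (nat_lit 76) (nat_lit 5) (nat_lit 81) (nat_lit 5) (nat_lit 77) (nat_lit 5) (nat_lit 404) (nat_lit 384) (nat_lit 112))))))) (XT.nd (nat_lit 46020) (nat_lit 0) (nat_lit 532) (XT.nd (nat_lit 45552) (nat_lit 0) (nat_lit 2432) (XT.nd (nat_lit 45318) (nat_lit 0) (nat_lit 2356) (XT.nd (nat_lit 78) (nat_lit 228) (nat_lit 0) (XT.lf (nat_lit 0) (nat_lit 72374092204) (nat_lit 304) (nat_lit 198687009252) (nat_lit 380) (nat_lit 160402263370) (nat_lit 72) (nat_lit 5) (nat_lit 76) (nat_lit 5) (nat_lit 77) (nat_lit 5) (nat_lit 405) (nat_lit 384) (nat_lit 111)) (XT.nd (nat_lit 78) (nat_lit 228) (nat_lit 0) (XT.lf (nat_lit 0) (nat_lit 311122781807) (nat_lit 304) (nat_lit 30060539945) (nat_lit 380) (nat_lit 103147562741) (nat_lit 72) (nat_lit 5) (nat_lit 76) (nat_lit 5) (nat_lit 77) (nat_lit 5) (nat_lit 406) (nat_lit 384) (nat_lit 110)) (XT.lf (nat_lit 0) (nat_lit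 105033788642) (nat_lit 228) (nat_lit 313712747197) (nat_lit 304) (nat_lit 38898500191) (nat_lit 69) (nat_lit 5) (nat_lit 72) (nat_lit 5) (nat_lit 73) (nat_lit 5) (nat_lit 407) (nat_lit 384) (nat_lit 109)))) (XT.nd (nat_lit 78) (nat_lit 0) (nat_lit 0) (XT.lf (nat_lit 0) (nat_lit 14063091476) (nat_lit 836) (nat_lit 57412898022) (nat_lit 836) (nat_lit 57412898022) (nat_lit 100) (nat_lit 3) (nat_lit 111) (nat_lit 3) (nat_lit 111) (nat_lit 5) (nat_lit 385) (nat_lit 385) (nat_lit 130)) (XT.nd (nat_lit 78) (nat_lit 0) (nat_lit 76) (XT.lf (nat_lit 76) (nat_lit 7364096407) (nat_lit 0) (nat_lit 21581167326) (nat_lit 836) (nat_lit 235271158370) (nat_lit 101) (nat_lit 5) (nat_lit 100) (nat_lit 3) (nat_lit 111) (nat_lit 5) (nat_lit 386) (nat_lit 385) (nat_lit 129)) (XT.lf (nat_lit 0) (nat_lit 33434490077) (nat_lit 760) (nat_lit 132914452946) (nat_lit 836) (nat_lit 104446598981) (nat_lit 101) (nat_lit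 5) (nat_lit 111) (nat_lit 5) (nat_lit 112) (nat_lit 5) (nat_lit 387) (nat_lit 385) (nat_lit 128))))) (XT.nd (nat_lit 234) (nat_lit 0) (nat_lit 152) (XT.nd (nat_lit 78) (nat_lit 0) (nat_lit 76) (XT.lf (nat_lit 0) (nat_lit 38501909257) (nat_lit 760) (nat_lit 3133511106) (nat_lit 836) (nat_lit 236050511024) (nat_lit 101) (nat_lit 5) (nat_lit 111) (nat_lit 5) (nat_lit 112) (nat_lit 5) (nat_lit 388) (nat_lit 385) (nat_lit 127)) (XT.nd (nat_lit 78) (nat_lit 0) (nat_lit 0) (XT.lf (nat_lit 0) (nat_lit 47399647447) (nat_lit 760) (nat_lit 148704579661) (nat_lit 836) (nat_lit 88637765787) (nat_lit 102) (nat_lit 5) (nat_lit 112) (nat_lit 5) (nat_lit 113) (nat_lit 5) (nat_lit 389) (nat_lit 385) (nat_lit 126)) (XT.lf (nat_lit 0) (nat_lit 57478705008) (nat_lit 760) (nat_lit 10555985470) (nat_lit 836) (nat_lit 224079345431) (nat_lit 102) (nat_lit 5) (nat_lit 112) (nat_lit 5) (nat_lit 113) (nat_lit 5) (nat_lit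 390) (nat_lit 385) (nat_lit 125)))) (XT.nd (nat_lit 78) (nat_lit 0) (nat_lit 0) (XT.lf (nat_lit 0) (nat_lit 71303871844) (nat_lit 760) (nat_lit 161871885828) (nat_lit 836) (nat_lit 66516815637) (nat_lit 103) (nat_lit 5) (nat_lit 113) (nat_lit 5) (nat_lit 114) (nat_lit 5) (nat_lit 391) (nat_lit 385) (nat_lit 124)) (XT.nd (nat_lit 78) (nat_lit 0) (nat_lit 76) (XT.lf (nat_lit 0) (nat_lit 87117272936) (nat_lit 760) (nat_lit 14776714659) (nat_lit 836) (nat_lit 205691201237) (nat_lit 103) (nat_lit 5) (nat_lit 113) (nat_lit 5) (nat_lit 114) (nat_lit 5) (nat_lit 392) (nat_lit 385) (nat_lit 123)) (XT.lf (nat_lit 0) (nat_lit 106572332024) (nat_lit 760) (nat_lit 172066631785) (nat_lit 836) (nat_lit 37090921974) (nat_lit 104) (nat_lit 5) (nat_lit 114) (nat_lit 5) (nat_lit 115) (nat_lit 5) (nat_lit 393) (nat_lit 385) (nat_lit 122)))))) (XT.nd (nat_lit 468) (nat_lit 1064) (nat_lit 0) (XT.nd (nat_lit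 234) (nat_lit 1064) (nat_lit 0) (XT.nd (nat_lit 78) (nat_lit 0) (nat_lit 0) (XT.lf (nat_lit 0) (nat_lit 128924846443) (nat_lit 760) (nat_lit 15405601853) (nat_lit 836) (nat_lit 179855134212) (nat_lit 104) (nat_lit 5) (nat_lit 114) (nat_lit 5) (nat_lit 115) (nat_lit 5) (nat_lit 394) (nat_lit 385) (nat_lit 121)) (XT.nd (nat_lit 78) (nat_lit 0) (nat_lit 76) (XT.lf (nat_lit 76) (nat_lit 154017982240) (nat_lit 0) (nat_lit 781614632) (nat_lit 836) (nat_lit 178144236726) (nat_lit 105) (nat_lit 5) (nat_lit 104) (nat_lit 5) (nat_lit 115) (nat_lit 5) (nat_lit 395) (nat_lit 385) (nat_lit 120)) (XT.lf (nat_lit 0) (nat_lit 184574279115) (nat_lit 760) (nat_lit 12024728612) (nat_lit 76) (nat_lit 145410679843) (nat_lit 105) (nat_lit 5) (nat_lit 115) (nat_lit 5) (nat_lit 106) (nat_lit 5) (nat_lit 396) (nat_lit 385) (nat_lit 119)))) (XT.nd (nat_lit 78) (nat_lit 380) (nat_lit 0) (XT.lf (nat_lit 0) (nat_lit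 168605015869) (nat_lit 760) (nat_lit 49877851221) (nat_lit 836) (nat_lit 132913708609) (nat_lit 95) (nat_lit 5) (nat_lit 105) (nat_lit 5) (nat_lit 106) (nat_lit 5) (nat_lit 397) (nat_lit 385) (nat_lit 118)) (XT.nd (nat_lit 78) (nat_lit 380) (nat_lit 0) (XT.lf (nat_lit 0) (nat_lit 255920362128) (nat_lit 836) (nat_lit 4188813170) (nat_lit 76) (nat_lit 101051959092) (nat_lit 95) (nat_lit 5) (nat_lit 106) (nat_lit 5) (nat_lit 96) (nat_lit 5) (nat_lit 398) (nat_lit 385) (nat_lit 117)) (XT.lf (nat_lit 0) (nat_lit 188561512937) (nat_lit 380) (nat_lit 110429826912) (nat_lit 456) (nat_lit 72234500804) (nat_lit 90) (nat_lit 5) (nat_lit 95) (nat_lit 5) (nat_lit 96) (nat_lit 5) (nat_lit 399) (nat_lit 385) (nat_lit 116))))) (XT.nd (nat_lit 234) (nat_lit 304) (nat_lit 0) (XT.nd (nat_lit 78) (nat_lit 456) (nat_lit 0) (XT.lf (nat_lit 0) (nat_lit 8857192632) (nat_lit 304) (nat_lit 336298668429) (nat_lit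 380) (nat_lit 36590921472) (nat_lit 86) (nat_lit 5) (nat_lit 90) (nat_lit 5) (nat_lit 91) (nat_lit 5) (nat_lit 400) (nat_lit 385) (nat_lit 115)) (XT.nd (nat_lit 78) (nat_lit 380) (nat_lit 0) (XT.lf (nat_lit 0) (nat_lit 5762630161) (nat_lit 380) (nat_lit 178216722492) (nat_lit 76) (nat_lit 208566041512) (nat_lit 85) (nat_lit 5) (nat_lit 90) (nat_lit 5) (nat_lit 86) (nat_lit 5) (nat_lit 401) (nat_lit 385) (nat_lit 114)) (XT.lf (nat_lit 0) (nat_lit 26436020606) (nat_lit 380) (nat_lit 22980852107) (nat_lit 456) (nat_lit 354416435724) (nat_lit 80) (nat_lit 5) (nat_lit 85) (nat_lit 5) (nat_lit 86) (nat_lit 5) (nat_lit 402) (nat_lit 385) (nat_lit 113)))) (XT.nd (nat_lit 78) (nat_lit 304) (nat_lit 0) (XT.lf (nat_lit 0) (nat_lit 100601985299) (nat_lit 456) (nat_lit 170356063961) (nat_lit 76) (nat_lit 144460161297) (nat_lit 80) (nat_lit 5) (nat_lit 86) (nat_lit 5) (nat_lit 81) (nat_lit 5) (nat_lit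 403) (nat_lit 385) (nat_lit 112)) (XT.nd (nat_lit 78) (nat_lit 0) (nat_lit 0) (XT.lf (nat_lit 0) (nat_lit 48203257521) (nat_lit 304) (nat_lit 107272389529) (nat_lit 380) (nat_lit 272050246082) (nat_lit 76) (nat_lit 5) (nat_lit 80) (nat_lit 5) (nat_lit 81) (nat_lit 5) (nat_lit 404) (nat_lit 385) (nat_lit 111)) (XT.lf (nat_lit 0) (nat_lit 217033870354) (nat_lit 380) (nat_lit 157545663153) (nat_lit 76) (nat_lit 65462382430) (nat_lit 76) (nat_lit 5) (nat_lit 81) (nat_lit 5) (nat_lit 77) (nat_lit 5) (nat_lit 405) (nat_lit 385) (nat_lit 110))))))))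
noncomputable def xc253 : XT := (XT.nd (nat_lit 92274) (nat_lit 0) (nat_lit 608) (XT.nd (nat_lit 46020) (nat_lit 0) (nat_lit 304) (XT.nd (nat_lit 45552) (nat_lit 0) (nat_lit 2204) (XT.nd (nat_lit 45318) (nat_lit 0) (nat_lit 2128) (XT.nd (nat_lit 78) (nat_lit 0) (nat_lit 0) (XT.lf (nat_lit 0) (nat_lit 75993838802) (nat_lit 304) (nat_lit 208621179103) (nat_lit 380) (nat_lit 168421471348) (nat_lit 72) (nat_lit 5) (nat_lit 76) (nat_lit 5) (nat_lit 77) (nat_lit 5) (nat_lit 406) (nat_lit 385) (nat_lit 109)) (XT.lf (nat_lit 0) (nat_lit 326679913267) (nat_lit 304) (nat_lit 31563394931) (nat_lit 380) (nat_lit 108304078792) (nat_lit 72) (nat_lit 5) (nat_lit 76) (nat_lit 5) (nat_lit 77) (nat_lit 5) (nat_lit 407) (nat_lit 385) (nat_lit 108))) (XT.nd (nat_lit 78) (nat_lit 0) (nat_lit 0) (XT.lf (nat_lit 0) (nat_lit 14767183211) (nat_lit 836) (nat_lit 60283050419) (nat_lit 836) (nat_lit 60283050419) (nat_lit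 100) (nat_lit 3) (nat_lit 111) (nat_lit 3) (nat_lit 111) (nat_lit 5) (nat_lit 386) (nat_lit 386) (nat_lit 128)) (XT.nd (nat_lit 78) (nat_lit 0) (nat_lit 76) (XT.lf (nat_lit 76) (nat_lit 7733270349) (nat_lit 0) (nat_lit 22661056771) (nat_lit 836) (nat_lit 247032824194) (nat_lit 101) (nat_lit 5) (nat_lit 100) (nat_lit 3) (nat_lit 111) (nat_lit 5) (nat_lit 387) (nat_lit 386) (nat_lit 127)) (XT.lf (nat_lit 0) (nat_lit 35107916700) (nat_lit 760) (nat_lit 139559152744) (nat_lit 836) (nat_lit 109668162760) (nat_lit 101) (nat_lit 5) (nat_lit 111) (nat_lit 5) (nat_lit 112) (nat_lit 5) (nat_lit 388) (nat_lit 386) (nat_lit 126))))) (XT.nd (nat_lit 234) (nat_lit 0) (nat_lit 152) (XT.nd (nat_lit 78) (nat_lit 0) (nat_lit 76) (XT.lf (nat_lit 0) (nat_lit 40428625786) (nat_lit 760) (nat_lit 3289212519) (nat_lit 836) (nat_lit 247852306889) (nat_lit 101) (nat_lit 5) (nat_lit 111) (nat_lit 5) (nat_lit 112)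 (nat_lit 5) (nat_lit 389) (nat_lit 386) (nat_lit 125)) (XT.nd (nat_lit 78) (nat_lit 0) (nat_lit 0) (XT.lf (nat_lit 0) (nat_lit 49771179281) (nat_lit 760) (nat_lit 156138761270) (nat_lit 836) (nat_lit 93069072887) (nat_lit 102) (nat_lit 5) (nat_lit 112) (nat_lit 5) (nat_lit 113) (nat_lit 5) (nat_lit 390) (nat_lit 386) (nat_lit 124)) (XT.lf (nat_lit 0) (nat_lit 60354115937) (nat_lit 760) (nat_lit 11082787245) (nat_lit 836) (nat_lit 235282759189) (nat_lit 102) (nat_lit 5) (nat_lit 112) (nat_lit 5) (nat_lit 113) (nat_lit 5) (nat_lit 391) (nat_lit 386) (nat_lit 123)))) (XT.nd (nat_lit 78) (nat_lit 0) (nat_lit 0) (XT.lf (nat_lit 0) (nat_lit 74870479307) (nat_lit 760) (nat_lit 169964419338) (nat_lit 836) (nat_lit 69842231159) (nat_lit 103) (nat_lit 5) (nat_lit 113) (nat_lit 5) (nat_lit 114) (nat_lit 5) (nat_lit 392) (nat_lit 386) (nat_lit 122)) (XT.nd (nat_lit 78) (nat_lit 0) (nat_lit 76) (XT.lf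 (nat_lit 0) (nat_lit 91474483127) (nat_lit 760) (nat_lit 15514540123) (nat_lit 836) (nat_lit 215975356290) (nat_lit 103) (nat_lit 5) (nat_lit 113) (nat_lit 5) (nat_lit 114) (nat_lit 5) (nat_lit 393) (nat_lit 386) (nat_lit 121)) (XT.lf (nat_lit 0) (nat_lit 111902241821) (nat_lit 760) (nat_lit 180668898418) (nat_lit 836) (nat_lit 38945173833) (nat_lit 104) (nat_lit 5) (nat_lit 114) (nat_lit 5) (nat_lit 115) (nat_lit 5) (nat_lit 394) (nat_lit 386) (nat_lit 120)))))) (XT.nd (nat_lit 468) (nat_lit 1064) (nat_lit 0) (XT.nd (nat_lit 234) (nat_lit 1064) (nat_lit 0) (XT.nd (nat_lit 78) (nat_lit 0) (nat_lit 0) (XT.lf (nat_lit 0) (nat_lit 135372320380) (nat_lit 760) (nat_lit 16174867702) (nat_lit 836) (nat_lit 188847610695) (nat_lit 104) (nat_lit 5) (nat_lit 114) (nat_lit 5) (nat_lit 115) (nat_lit 5) (nat_lit 395) (nat_lit 386) (nat_lit 119)) (XT.nd (nat_lit 78) (nat_lit 0) (nat_lit 76) (XT.lf (nat_lit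 76) (nat_lit 161719879237) (nat_lit 0) (nat_lit 820886025) (nat_lit 836) (nat_lit 187050199374) (nat_lit 105) (nat_lit 5) (nat_lit 104) (nat_lit 5) (nat_lit 115) (nat_lit 5) (nat_lit 396) (nat_lit 386) (nat_lit 118)) (XT.lf (nat_lit 0) (nat_lit 193804122185) (nat_lit 760) (nat_lit 12624954087) (nat_lit 76) (nat_lit 152681038064) (nat_lit 105) (nat_lit 5) (nat_lit 115) (nat_lit 5) (nat_lit 106) (nat_lit 5) (nat_lit 397) (nat_lit 386) (nat_lit 117)))) (XT.nd (nat_lit 78) (nat_lit 380) (nat_lit 0) (XT.lf (nat_lit 0) (nat_lit 177036261313) (nat_lit 760) (nat_lit 52371840008) (nat_lit 836) (nat_lit 139558247518) (nat_lit 95) (nat_lit 5) (nat_lit 105) (nat_lit 5) (nat_lit 106) (nat_lit 5) (nat_lit 398) (nat_lit 386) (nat_lit 116)) (XT.nd (nat_lit 78) (nat_lit 380) (nat_lit 0) (XT.lf (nat_lit 0) (nat_lit 268717417733) (nat_lit 836) (nat_lit 4397252116) (nat_lit 76) (nat_lit 106104468336) (nat_lit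 95) (nat_lit 5) (nat_lit 106) (nat_lit 5) (nat_lit 96) (nat_lit 5) (nat_lit 399) (nat_lit 386) (nat_lit 115)) (XT.lf (nat_lit 0) (nat_lit 197990574139) (nat_lit 380) (nat_lit 115951336183) (nat_lit 456) (nat_lit 75845171189) (nat_lit 90) (nat_lit 5) (nat_lit 95) (nat_lit 5) (nat_lit 96) (nat_lit 5) (nat_lit 400) (nat_lit 386) (nat_lit 114))))) (XT.nd (nat_lit 234) (nat_lit 304) (nat_lit 0) (XT.nd (nat_lit 78) (nat_lit 456) (nat_lit 0) (XT.lf (nat_lit 0) (nat_lit 9301072546) (nat_lit 304) (nat_lit 353113552927) (nat_lit 380) (nat_lit 38419446667) (nat_lit 86) (nat_lit 5) (nat_lit 90) (nat_lit 5) (nat_lit 91) (nat_lit 5) (nat_lit 401) (nat_lit 386) (nat_lit 113)) (XT.nd (nat_lit 78) (nat_lit 380) (nat_lit 0) (XT.lf (nat_lit 0) (nat_lit 6051702817) (nat_lit 380) (nat_lit 187126554937) (nat_lit 76) (nat_lit 218994358200) (nat_lit 85) (nat_lit 5) (nat_lit 90) (nat_lit 5) (nat_lit 86) (nat_lit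 5) (nat_lit 402) (nat_lit 386) (nat_lit 112)) (XT.lf (nat_lit 0) (nat_lit 27758809128) (nat_lit 380) (nat_lit 24129818969) (nat_lit 456) (nat_lit 372136299352) (nat_lit 80) (nat_lit 5) (nat_lit 85) (nat_lit 5) (nat_lit 86) (nat_lit 5) (nat_lit 403) (nat_lit 386) (nat_lit 111)))) (XT.nd (nat_lit 78) (nat_lit 304) (nat_lit 0) (XT.lf (nat_lit 0) (nat_lit 105632954022) (nat_lit 456) (nat_lit 178872883617) (nat_lit 76) (nat_lit 151683239190) (nat_lit 80) (nat_lit 5) (nat_lit 86) (nat_lit 5) (nat_lit 81) (nat_lit 5) (nat_lit 404) (nat_lit 386) (nat_lit 110)) (XT.nd (nat_lit 78) (nat_lit 0) (nat_lit 0) (XT.lf (nat_lit 0) (nat_lit 50614388075) (nat_lit 304) (nat_lit 112635884490) (nat_lit 380) (nat_lit 285651872319) (nat_lit 76) (nat_lit 5) (nat_lit 80) (nat_lit 5) (nat_lit 81) (nat_lit 5) (nat_lit 405) (nat_lit 386) (nat_lit 109)) (XT.lf (nat_lit 0) (nat_lit 227886368736) (nat_lit 380) (nat_lit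 165421985703) (nat_lit 76) (nat_lit 68735616341) (nat_lit 76) (nat_lit 5) (nat_lit 81) (nat_lit 5) (nat_lit 77) (nat_lit 5) (nat_lit 406) (nat_lit 386) (nat_lit 108))))))) (XT.nd (nat_lit 936) (nat_lit 1520) (nat_lit 0) (XT.nd (nat_lit 468) (nat_lit 0) (nat_lit 228) (XT.nd (nat_lit 234) (nat_lit 0) (nat_lit 76) (XT.nd (nat_lit 78) (nat_lit 0) (nat_lit 0) (XT.lf (nat_lit 0) (nat_lit 15506392404) (nat_lit 836) (nat_lit 63296756224) (nat_lit 836) (nat_lit 63296756224) (nat_lit 100) (nat_lit 3) (nat_lit 111) (nat_lit 3) (nat_lit 111) (nat_lit 5) (nat_lit 387) (nat_lit 387) (nat_lit 126)) (XT.nd (nat_lit 78) (nat_lit 0) (nat_lit 76) (XT.lf (nat_lit 76) (nat_lit 8120812888) (nat_lit 0) (nat_lit 23794863423) (nat_lit 836) (nat_lit 259382749218) (nat_lit 101) (nat_lit 5) (nat_lit 100) (nat_lit 3) (nat_lit 111) (nat_lit 5) (nat_lit 388) (nat_lit 387) (nat_lit 125)) (XT.lf (nat_lit 0) (nat_lit 36864856407)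 (nat_lit 760) (nat_lit 146536182627) (nat_lit 836) (nat_lit 115150875959) (nat_lit 101) (nat_lit 5) (nat_lit 111) (nat_lit 5) (nat_lit 112) (nat_lit 5) (nat_lit 389) (nat_lit 387) (nat_lit 124)))) (XT.nd (nat_lit 78) (nat_lit 0) (nat_lit 76) (XT.lf (nat_lit 0) (nat_lit 42451527429) (nat_lit 760) (nat_lit 3452789570) (nat_lit 836) (nat_lit 260244260386) (nat_lit 101) (nat_lit 5) (nat_lit 111) (nat_lit 5) (nat_lit 112) (nat_lit 5) (nat_lit 390) (nat_lit 387) (nat_lit 123)) (XT.nd (nat_lit 78) (nat_lit 0) (nat_lit 0) (XT.lf (nat_lit 0) (nat_lit 52261143652) (nat_lit 760) (nat_lit 163944749335) (nat_lit 836) (nat_lit 97721999376) (nat_lit 102) (nat_lit 5) (nat_lit 112) (nat_lit 5) (nat_lit 113) (nat_lit 5) (nat_lit 391) (nat_lit 387) (nat_lit 122)) (XT.lf (nat_lit 0) (nat_lit 63373160217) (nat_lit 760) (nat_lit 11636021846) (nat_lit 836) (nat_lit 247046395096) (nat_lit 102) (nat_lit 5) (nat_lit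 112) (nat_lit 5) (nat_lit 113) (nat_lit 5) (nat_lit 392) (nat_lit 387) (nat_lit 121))))) (XT.nd (nat_lit 234) (nat_lit 0) (nat_lit 76) (XT.nd (nat_lit 78) (nat_lit 0) (nat_lit 0) (XT.lf (nat_lit 0) (nat_lit 78615285695) (nat_lit 760) (nat_lit 178461678144) (nat_lit 836) (nat_lit 73333956995) (nat_lit 103) (nat_lit 5) (nat_lit 113) (nat_lit 5) (nat_lit 114) (nat_lit 5) (nat_lit 393) (nat_lit 387) (nat_lit 120)) (XT.nd (nat_lit 78) (nat_lit 0) (nat_lit 76) (XT.lf (nat_lit 0) (nat_lit 96049428638) (nat_lit 760) (nat_lit 16289350786) (nat_lit 836) (nat_lit 226773756750) (nat_lit 103) (nat_lit 5) (nat_lit 113) (nat_lit 5) (nat_lit 114) (nat_lit 5) (nat_lit 394) (nat_lit 387) (nat_lit 119)) (XT.lf (nat_lit 0) (nat_lit 117498526879) (nat_lit 760) (nat_lit 189701377393) (nat_lit 836) (nat_lit 40892165642) (nat_lit 104) (nat_lit 5) (nat_lit 114) (nat_lit 5) (nat_lit 115) (nat_lit 5) (nat_lit 395)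 (nat_lit 387) (nat_lit 118)))) (XT.nd (nat_lit 78) (nat_lit 0) (nat_lit 0) (XT.lf (nat_lit 0) (nat_lit 142142053510) (nat_lit 760) (nat_lit 16982691139) (nat_lit 836) (nat_lit 198289737055) (nat_lit 104) (nat_lit 5) (nat_lit 114) (nat_lit 5) (nat_lit 115) (nat_lit 5) (nat_lit 396) (nat_lit 387) (nat_lit 117)) (XT.nd (nat_lit 78) (nat_lit 0) (nat_lit 76) (XT.lf (nat_lit 76) (nat_lit 169806778310) (nat_lit 0) (nat_lit 862103262) (nat_lit 836) (nat_lit 196401576292) (nat_lit 105) (nat_lit 5) (nat_lit 104) (nat_lit 5) (nat_lit 115) (nat_lit 5) (nat_lit 397) (nat_lit 387) (nat_lit 116)) (XT.lf (nat_lit 0) (nat_lit 203495352434) (nat_lit 760) (nat_lit 13255284825) (nat_lit 76) (nat_lit 160314930538) (nat_lit 105) (nat_lit 5) (nat_lit 115) (nat_lit 5) (nat_lit 106) (nat_lit 5) (nat_lit 398) (nat_lit 387) (nat_lit 115)))))) (XT.nd (nat_lit 468) (nat_lit 0) (nat_lit 0) (XT.nd (nat_lit 234) (nat_lit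 760) (nat_lit 0) (XT.nd (nat_lit 78) (nat_lit 380) (nat_lit 0) (XT.lf (nat_lit 0) (nat_lit 185888976555) (nat_lit 760) (nat_lit 54990519288) (nat_lit 836) (nat_lit 146535119966) (nat_lit 95) (nat_lit 5) (nat_lit 105) (nat_lit 5) (nat_lit 106) (nat_lit 5) (nat_lit 399) (nat_lit 387) (nat_lit 114)) (XT.nd (nat_lit 78) (nat_lit 380) (nat_lit 0) (XT.lf (nat_lit 0) (nat_lit 282154229661) (nat_lit 836) (nat_lit 4616206139) (nat_lit 76) (nat_lit 111409611290) (nat_lit 95) (nat_lit 5) (nat_lit 106) (nat_lit 5) (nat_lit 96) (nat_lit 5) (nat_lit 400) (nat_lit 387) (nat_lit 113)) (XT.lf (nat_lit 0) (nat_lit 207890996774) (nat_lit 380) (nat_lit 121748919251) (nat_lit 456) (nat_lit 79636473146) (nat_lit 90) (nat_lit 5) (nat_lit 95) (nat_lit 5) (nat_lit 96) (nat_lit 5) (nat_lit 401) (nat_lit 387) (nat_lit 112)))) (XT.nd (nat_lit 78) (nat_lit 456) (nat_lit 0) (XT.lf (nat_lit 0) (nat_lit 9767051600) (nat_lit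 304) (nat_lit 370769186198) (nat_lit 380) (nat_lit 40339493033) (nat_lit 86) (nat_lit 5) (nat_lit 90) (nat_lit 5) (nat_lit 91) (nat_lit 5) (nat_lit 402) (nat_lit 387) (nat_lit 111)) (XT.nd (nat_lit 78) (nat_lit 380) (nat_lit 0) (XT.lf (nat_lit 0) (nat_lit 6355141606) (nat_lit 380) (nat_lit 196481972316) (nat_lit 76) (nat_lit 229944089363) (nat_lit 85) (nat_lit 5) (nat_lit 90) (nat_lit 5) (nat_lit 86) (nat_lit 5) (nat_lit 403) (nat_lit 387) (nat_lit 110)) (XT.lf (nat_lit 0) (nat_lit 29147645269) (nat_lit 380) (nat_lit 25336241216) (nat_lit 456) (nat_lit 390742245243) (nat_lit 80) (nat_lit 5) (nat_lit 85) (nat_lit 5) (nat_lit 86) (nat_lit 5) (nat_lit 404) (nat_lit 387) (nat_lit 109))))) (XT.nd (nat_lit 45708) (nat_lit 0) (nat_lit 1596) (XT.nd (nat_lit 45552) (nat_lit 0) (nat_lit 1520) (XT.lf (nat_lit 0) (nat_lit 110915390347) (nat_lit 456) (nat_lit 187815635697) (nat_lit 76) (nat_lit 159267464485)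 (nat_lit 80) (nat_lit 5) (nat_lit 86) (nat_lit 5) (nat_lit 81) (nat_lit 5) (nat_lit 405) (nat_lit 387) (nat_lit 108)) (XT.nd (nat_lit 78) (nat_lit 0) (nat_lit 0) (XT.lf (nat_lit 0) (nat_lit 16282483030) (nat_lit 836) (nat_lit 66461188851) (nat_lit 836) (nat_lit 66461188851) (nat_lit 100) (nat_lit 3) (nat_lit 111) (nat_lit 3) (nat_lit 111) (nat_lit 5) (nat_lit 388) (nat_lit 388) (nat_lit 124)) (XT.lf (nat_lit 76) (nat_lit 8527650831) (nat_lit 0) (nat_lit 24985290324) (nat_lit 836) (nat_lit 272350330048) (nat_lit 101) (nat_lit 5) (nat_lit 100) (nat_lit 3) (nat_lit 111) (nat_lit 5) (nat_lit 389) (nat_lit 388) (nat_lit 123)))) (XT.nd (nat_lit 78) (nat_lit 0) (nat_lit 0) (XT.lf (nat_lit 0) (nat_lit 38709499565) (nat_lit 760) (nat_lit 153862150258) (nat_lit 836) (nat_lit 120907789426) (nat_lit 101) (nat_lit 5) (nat_lit 111) (nat_lit 5) (nat_lit 112) (nat_lit 5) (nat_lit 390) (nat_lit 388) (nat_lit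 122)) (XT.nd (nat_lit 78) (nat_lit 0) (nat_lit 76) (XT.lf (nat_lit 0) (nat_lit 44575437455) (nat_lit 760) (nat_lit 3624627620) (nat_lit 836) (nat_lit 273255873091) (nat_lit 101) (nat_lit 5) (nat_lit 111) (nat_lit 5) (nat_lit 112) (nat_lit 5) (nat_lit 391) (nat_lit 388) (nat_lit 121)) (XT.lf (nat_lit 0) (nat_lit 54875475581) (nat_lit 760) (nat_lit 172141125125) (nat_lit 836) (nat_lit 102607621199) (nat_lit 102) (nat_lit 5) (nat_lit 112) (nat_lit 5) (nat_lit 113) (nat_lit 5) (nat_lit 392) (nat_lit 388) (nat_lit 120))))))))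
noncomputable def xc254 : XT := (XT.nd (nat_lit 47346) (nat_lit 0) (nat_lit 456) (XT.nd (nat_lit 858) (nat_lit 456) (nat_lit 0) (XT.nd (nat_lit 390) (nat_lit 1216) (nat_lit 0) (XT.nd (nat_lit 156) (nat_lit 0) (nat_lit 76) (XT.nd (nat_lit 78) (nat_lit 0) (nat_lit 76) (XT.lf (nat_lit 0) (nat_lit 66543032272) (nat_lit 760) (nat_lit 12217002294) (nat_lit 836) (nat_lit 259398259474) (nat_lit 102) (nat_lit 5) (nat_lit 112) (nat_lit 5) (nat_lit 113) (nat_lit 5) (nat_lit 393) (nat_lit 388) (nat_lit 119)) (XT.lf (nat_lit 0) (nat_lit 82547213175) (nat_lit 760) (nat_lit 187383889343) (nat_lit 836) (nat_lit 77000304983) (nat_lit 103) (nat_lit 5) (nat_lit 113) (nat_lit 5) (nat_lit 114) (nat_lit 5) (nat_lit 394) (nat_lit 388) (nat_lit 118))) (XT.nd (nat_lit 78) (nat_lit 0) (nat_lit 76) (XT.lf (nat_lit 0) (nat_lit 100853007875) (nat_lit 760) (nat_lit 17102987175) (nat_lit 836) (nat_lit 238112111386) (nat_lit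 103) (nat_lit 5) (nat_lit 113) (nat_lit 5) (nat_lit 114) (nat_lit 5) (nat_lit 395) (nat_lit 388) (nat_lit 117)) (XT.nd (nat_lit 78) (nat_lit 0) (nat_lit 0) (XT.lf (nat_lit 0) (nat_lit 123374517138) (nat_lit 760) (nat_lit 199185570121) (nat_lit 836) (nat_lit 42936531853) (nat_lit 104) (nat_lit 5) (nat_lit 114) (nat_lit 5) (nat_lit 115) (nat_lit 5) (nat_lit 396) (nat_lit 388) (nat_lit 116)) (XT.lf (nat_lit 0) (nat_lit 149250169438) (nat_lit 760) (nat_lit 17830991275) (nat_lit 836) (nat_lit 208203993364) (nat_lit 104) (nat_lit 5) (nat_lit 114) (nat_lit 5) (nat_lit 115) (nat_lit 5) (nat_lit 397) (nat_lit 388) (nat_lit 115))))) (XT.nd (nat_lit 234) (nat_lit 684) (nat_lit 0) (XT.nd (nat_lit 78) (nat_lit 684) (nat_lit 0) (XT.lf (nat_lit 76) (nat_lit 178297938188) (nat_lit 0) (nat_lit 905365283) (nat_lit 836) (nat_lit 206220627397) (nat_lit 105) (nat_lit 5) (nat_lit 104) (nat_lit 5) (nat_lit 115)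 (nat_lit 5) (nat_lit 398) (nat_lit 388) (nat_lit 114)) (XT.nd (nat_lit 78) (nat_lit 760) (nat_lit 0) (XT.lf (nat_lit 0) (nat_lit 213671048980) (nat_lit 760) (nat_lit 13917217350) (nat_lit 76) (nat_lit 168330532458) (nat_lit 105) (nat_lit 5) (nat_lit 115) (nat_lit 5) (nat_lit 106) (nat_lit 5) (nat_lit 399) (nat_lit 388) (nat_lit 113)) (XT.lf (nat_lit 0) (nat_lit 195184243684) (nat_lit 760) (nat_lit 57740124417) (nat_lit 836) (nat_lit 153860932718) (nat_lit 95) (nat_lit 5) (nat_lit 105) (nat_lit 5) (nat_lit 106) (nat_lit 5) (nat_lit 400) (nat_lit 388) (nat_lit 112)))) (XT.nd (nat_lit 78) (nat_lit 684) (nat_lit 0) (XT.lf (nat_lit 0) (nat_lit 296262794697) (nat_lit 836) (nat_lit 4846192335) (nat_lit 76) (nat_lit 116980018872) (nat_lit 95) (nat_lit 5) (nat_lit 106) (nat_lit 5) (nat_lit 96) (nat_lit 5) (nat_lit 401) (nat_lit 388) (nat_lit 111)) (XT.nd (nat_lit 78) (nat_lit 304) (nat_lit 0) (XT.lf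 (nat_lit 0) (nat_lit 218286357432) (nat_lit 380) (nat_lit 127836379961) (nat_lit 456) (nat_lit 83617429137) (nat_lit 90) (nat_lit 5) (nat_lit 95) (nat_lit 5) (nat_lit 96) (nat_lit 5) (nat_lit 402) (nat_lit 388) (nat_lit 110)) (XT.lf (nat_lit 0) (nat_lit 10256243570) (nat_lit 304) (nat_lit 389307605258) (nat_lit 380) (nat_lit 42355627805) (nat_lit 86) (nat_lit 5) (nat_lit 90) (nat_lit 5) (nat_lit 91) (nat_lit 5) (nat_lit 403) (nat_lit 388) (nat_lit 109)))))) (XT.nd (nat_lit 46020) (nat_lit 0) (nat_lit 1672) (XT.nd (nat_lit 45786) (nat_lit 0) (nat_lit 1520) (XT.nd (nat_lit 78) (nat_lit 380) (nat_lit 0) (XT.lf (nat_lit 0) (nat_lit 6673672970) (nat_lit 380) (nat_lit 206305245202) (nat_lit 76) (nat_lit 241441305853) (nat_lit 85) (nat_lit 5) (nat_lit 90) (nat_lit 5) (nat_lit 86) (nat_lit 5) (nat_lit 404) (nat_lit 388) (nat_lit 108)) (XT.nd (nat_lit 45630) (nat_lit 0) (nat_lit 1520) (XT.lf (nat_lit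 0) (nat_lit 30605839944) (nat_lit 380) (nat_lit 26602990963) (nat_lit 456) (nat_lit 410278569226) (nat_lit 80) (nat_lit 5) (nat_lit 85) (nat_lit 5) (nat_lit 86) (nat_lit 5) (nat_lit 405) (nat_lit 388) (nat_lit 107)) (XT.lf (nat_lit 0) (nat_lit 17097306506) (nat_lit 836) (nat_lit 69783880779) (nat_lit 836) (nat_lit 69783880779) (nat_lit 100) (nat_lit 3) (nat_lit 111) (nat_lit 3) (nat_lit 111) (nat_lit 5) (nat_lit 389) (nat_lit 389) (nat_lit 122)))) (XT.nd (nat_lit 78) (nat_lit 0) (nat_lit 76) (XT.lf (nat_lit 76) (nat_lit 8954756546) (nat_lit 0) (nat_lit 26235175004) (nat_lit 836) (nat_lit 285966434640) (nat_lit 101) (nat_lit 5) (nat_lit 100) (nat_lit 3) (nat_lit 111) (nat_lit 5) (nat_lit 390) (nat_lit 389) (nat_lit 121)) (XT.nd (nat_lit 78) (nat_lit 0) (nat_lit 0) (XT.lf (nat_lit 0) (nat_lit 40646244690) (nat_lit 760) (nat_lit 161554494506) (nat_lit 836) (nat_lit 126952607170) (nat_lit 101)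 (nat_lit 5) (nat_lit 111) (nat_lit 5) (nat_lit 112) (nat_lit 5) (nat_lit 391) (nat_lit 389) (nat_lit 120)) (XT.lf (nat_lit 0) (nat_lit 46805418992) (nat_lit 760) (nat_lit 3805132081) (nat_lit 836) (nat_lit 286918122243) (nat_lit 101) (nat_lit 5) (nat_lit 111) (nat_lit 5) (nat_lit 112) (nat_lit 5) (nat_lit 392) (nat_lit 389) (nat_lit 119))))) (XT.nd (nat_lit 234) (nat_lit 0) (nat_lit 76) (XT.nd (nat_lit 78) (nat_lit 0) (nat_lit 0) (XT.lf (nat_lit 0) (nat_lit 57620405592) (nat_lit 760) (nat_lit 180747399815) (nat_lit 836) (nat_lit 107737568567) (nat_lit 102) (nat_lit 5) (nat_lit 112) (nat_lit 5) (nat_lit 113) (nat_lit 5) (nat_lit 393) (nat_lit 389) (nat_lit 118)) (XT.nd (nat_lit 78) (nat_lit 0) (nat_lit 76) (XT.lf (nat_lit 0) (nat_lit 69871285059) (nat_lit 760) (nat_lit 12827108060) (nat_lit 836) (nat_lit 272367759407) (nat_lit 102) (nat_lit 5) (nat_lit 112) (nat_lit 5) (nat_lit 113) (nat_lit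 5) (nat_lit 394) (nat_lit 389) (nat_lit 117)) (XT.lf (nat_lit 0) (nat_lit 86675628886) (nat_lit 760) (nat_lit 196752292239) (nat_lit 836) (nat_lit 80850002897) (nat_lit 103) (nat_lit 5) (nat_lit 113) (nat_lit 5) (nat_lit 114) (nat_lit 5) (nat_lit 395) (nat_lit 389) (nat_lit 116)))) (XT.nd (nat_lit 78) (nat_lit 0) (nat_lit 76) (XT.lf (nat_lit 0) (nat_lit 105896663080) (nat_lit 760) (nat_lit 17957382656) (nat_lit 836) (nat_lit 250017414731) (nat_lit 103) (nat_lit 5) (nat_lit 113) (nat_lit 5) (nat_lit 114) (nat_lit 5) (nat_lit 396) (nat_lit 389) (nat_lit 115)) (XT.nd (nat_lit 78) (nat_lit 0) (nat_lit 0) (XT.lf (nat_lit 0) (nat_lit 129544207998) (nat_lit 760) (nat_lit 209144053940) (nat_lit 836) (nat_lit 45083138880) (nat_lit 104) (nat_lit 5) (nat_lit 114) (nat_lit 5) (nat_lit 115) (nat_lit 5) (nat_lit 397) (nat_lit 389) (nat_lit 114)) (XT.lf (nat_lit 0) (nat_lit 156713596960) (nat_lit 760)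 (nat_lit 18721783994) (nat_lit 836) (nat_lit 218613983923) (nat_lit 104) (nat_lit 5) (nat_lit 114) (nat_lit 5) (nat_lit 115) (nat_lit 5) (nat_lit 398) (nat_lit 389) (nat_lit 113))))))) (XT.nd (nat_lit 46644) (nat_lit 0) (nat_lit 684) (XT.nd (nat_lit 46176) (nat_lit 0) (nat_lit 1064) (XT.nd (nat_lit 234) (nat_lit 684) (nat_lit 0) (XT.nd (nat_lit 78) (nat_lit 684) (nat_lit 0) (XT.lf (nat_lit 76) (nat_lit 187213579734) (nat_lit 0) (nat_lit 950775821) (nat_lit 836) (nat_lit 216530726603) (nat_lit 105) (nat_lit 5) (nat_lit 104) (nat_lit 5) (nat_lit 115) (nat_lit 5) (nat_lit 399) (nat_lit 389) (nat_lit 112)) (XT.nd (nat_lit 78) (nat_lit 760) (nat_lit 0) (XT.lf (nat_lit 0) (nat_lit 224355443992) (nat_lit 760) (nat_lit 14612323827) (nat_lit 76) (nat_lit 176746927919) (nat_lit 105) (nat_lit 5) (nat_lit 115) (nat_lit 5) (nat_lit 106) (nat_lit 5) (nat_lit 400) (nat_lit 389) (nat_lit 111)) (XT.lf (nat_lit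 0) (nat_lit 204944198092) (nat_lit 760) (nat_lit 60627202443) (nat_lit 836) (nat_lit 161553123802) (nat_lit 95) (nat_lit 5) (nat_lit 105) (nat_lit 5) (nat_lit 106) (nat_lit 5) (nat_lit 401) (nat_lit 389) (nat_lit 110)))) (XT.nd (nat_lit 78) (nat_lit 684) (nat_lit 0) (XT.lf (nat_lit 0) (nat_lit 311076708629) (nat_lit 836) (nat_lit 5087754458) (nat_lit 76) (nat_lit 122828953619) (nat_lit 95) (nat_lit 5) (nat_lit 106) (nat_lit 5) (nat_lit 96) (nat_lit 5) (nat_lit 402) (nat_lit 389) (nat_lit 109)) (XT.nd (nat_lit 78) (nat_lit 304) (nat_lit 0) (XT.lf (nat_lit 0) (nat_lit 229201410741) (nat_lit 380) (nat_lit 134228212335) (nat_lit 456) (nat_lit 87797513594) (nat_lit 90) (nat_lit 5) (nat_lit 95) (nat_lit 5) (nat_lit 96) (nat_lit 5) (nat_lit 403) (nat_lit 389) (nat_lit 108)) (XT.lf (nat_lit 0) (nat_lit 10769817099) (nat_lit 304) (nat_lit 408772949013) (nat_lit 380) (nat_lit 44472647400) (nat_lit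 86) (nat_lit 5) (nat_lit 90) (nat_lit 5) (nat_lit 91) (nat_lit 5) (nat_lit 404) (nat_lit 389) (nat_lit 107))))) (XT.nd (nat_lit 234) (nat_lit 0) (nat_lit 76) (XT.nd (nat_lit 78) (nat_lit 0) (nat_lit 0) (XT.lf (nat_lit 0) (nat_lit 17952806139) (nat_lit 836) (nat_lit 73272741471) (nat_lit 836) (nat_lit 73272741471) (nat_lit 100) (nat_lit 3) (nat_lit 111) (nat_lit 3) (nat_lit 111) (nat_lit 5) (nat_lit 390) (nat_lit 390) (nat_lit 120)) (XT.nd (nat_lit 78) (nat_lit 0) (nat_lit 76) (XT.lf (nat_lit 76) (nat_lit 9403150313) (nat_lit 0) (nat_lit 27547496261) (nat_lit 836) (nat_lit 300263475728) (nat_lit 101) (nat_lit 5) (nat_lit 100) (nat_lit 3) (nat_lit 111) (nat_lit 5) (nat_lit 391) (nat_lit 390) (nat_lit 119)) (XT.lf (nat_lit 0) (nat_lit 42679708986) (nat_lit 760) (nat_lit 169631526927) (nat_lit 836) (nat_lit 133299718954) (nat_lit 101) (nat_lit 5) (nat_lit 111) (nat_lit 5) (nat_lit 112) (nat_lit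 5) (nat_lit 392) (nat_lit 390) (nat_lit 118)))) (XT.nd (nat_lit 78) (nat_lit 0) (nat_lit 76) (XT.lf (nat_lit 0) (nat_lit 49146787143) (nat_lit 760) (nat_lit 3994729347) (nat_lit 836) (nat_lit 301263534475) (nat_lit 101) (nat_lit 5) (nat_lit 111) (nat_lit 5) (nat_lit 112) (nat_lit 5) (nat_lit 393) (nat_lit 390) (nat_lit 117)) (XT.nd (nat_lit 78) (nat_lit 0) (nat_lit 0) (XT.lf (nat_lit 0) (nat_lit 60502474608) (nat_lit 760) (nat_lit 189784060902) (nat_lit 836) (nat_lit 113124053624) (nat_lit 102) (nat_lit 5) (nat_lit 112) (nat_lit 5) (nat_lit 113) (nat_lit 5) (nat_lit 394) (nat_lit 390) (nat_lit 116)) (XT.lf (nat_lit 0) (nat_lit 73365848109) (nat_lit 760) (nat_lit 13467788317) (nat_lit 836) (nat_lit 285985772738) (nat_lit 102) (nat_lit 5) (nat_lit 112) (nat_lit 5) (nat_lit 113) (nat_lit 5) (nat_lit 395) (nat_lit 390) (nat_lit 115)))))) (XT.nd (nat_lit 468) (nat_lit 608) (nat_lit 0) (XT.nd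 (nat_lit 234) (nat_lit 0) (nat_lit 76) (XT.nd (nat_lit 78) (nat_lit 0) (nat_lit 0) (XT.lf (nat_lit 0) (nat_lit 91010367294) (nat_lit 760) (nat_lit 206589188872) (nat_lit 836) (nat_lit 84892215210) (nat_lit 103) (nat_lit 5) (nat_lit 113) (nat_lit 5) (nat_lit 114) (nat_lit 5) (nat_lit 396) (nat_lit 390) (nat_lit 114)) (XT.nd (nat_lit 78) (nat_lit 0) (nat_lit 76) (XT.lf (nat_lit 0) (nat_lit 111192407628) (nat_lit 760) (nat_lit 18854568000) (nat_lit 836) (nat_lit 262518011342) (nat_lit 103) (nat_lit 5) (nat_lit 113) (nat_lit 5) (nat_lit 114) (nat_lit 5) (nat_lit 397) (nat_lit 390) (nat_lit 113)) (XT.lf (nat_lit 0) (nat_lit 136022293683) (nat_lit 760) (nat_lit 219600535833) (nat_lit 836) (nat_lit 47337096672) (nat_lit 104) (nat_lit 5) (nat_lit 114) (nat_lit 5) (nat_lit 115) (nat_lit 5) (nat_lit 398) (nat_lit 390) (nat_lit 112)))) (XT.nd (nat_lit 78) (nat_lit 0) (nat_lit 0) (XT.lf (nat_lit 0)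 (nat_lit 164550110413) (nat_lit 760) (nat_lit 19657186714) (nat_lit 836) (nat_lit 229544493450) (nat_lit 104) (nat_lit 5) (nat_lit 114) (nat_lit 5) (nat_lit 115) (nat_lit 5) (nat_lit 399) (nat_lit 390) (nat_lit 111)) (XT.nd (nat_lit 78) (nat_lit 0) (nat_lit 76) (XT.lf (nat_lit 76) (nat_lit 196574934129) (nat_lit 0) (nat_lit 998443660) (nat_lit 836) (nat_lit 227356417433) (nat_lit 105) (nat_lit 5) (nat_lit 104) (nat_lit 5) (nat_lit 115) (nat_lit 5) (nat_lit 400) (nat_lit 390) (nat_lit 110)) (XT.lf (nat_lit 0) (nat_lit 235573980420) (nat_lit 760) (nat_lit 15342255763) (nat_lit 76) (nat_lit 185584155346) (nat_lit 105) (nat_lit 5) (nat_lit 115) (nat_lit 5) (nat_lit 106) (nat_lit 5) (nat_lit 401) (nat_lit 390) (nat_lit 109))))) (XT.nd (nat_lit 46098) (nat_lit 0) (nat_lit 380) (XT.nd (nat_lit 78) (nat_lit 0) (nat_lit 0) (XT.lf (nat_lit 0) (nat_lit 215192081214) (nat_lit 760) (nat_lit 63658627695)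 (nat_lit 836) (nat_lit 169630003981) (nat_lit 95) (nat_lit 5) (nat_lit 105) (nat_lit 5) (nat_lit 106) (nat_lit 5) (nat_lit 402) (nat_lit 390) (nat_lit 108)) (XT.nd (nat_lit 45942) (nat_lit 0) (nat_lit 380) (XT.lf (nat_lit 0) (nat_lit 326631246280) (nat_lit 836) (nat_lit 5341464183) (nat_lit 76) (nat_lit 128970341257) (nat_lit 95) (nat_lit 5) (nat_lit 106) (nat_lit 5) (nat_lit 96) (nat_lit 5) (nat_lit 403) (nat_lit 390) (nat_lit 107)) (XT.lf (nat_lit 0) (nat_lit 18851021782) (nat_lit 836) (nat_lit 76936076190) (nat_lit 836) (nat_lit 76936076190) (nat_lit 100) (nat_lit 3) (nat_lit 111) (nat_lit 3) (nat_lit 111) (nat_lit 5) (nat_lit 391) (nat_lit 391) (nat_lit 118)))) (XT.nd (nat_lit 78) (nat_lit 0) (nat_lit 76) (XT.lf (nat_lit 76) (nat_lit 9873902786) (nat_lit 0) (nat_lit 28925381284) (nat_lit 836) (nat_lit 315275487933) (nat_lit 101) (nat_lit 5) (nat_lit 100) (nat_lit 3) (nat_lit 111) (nat_lit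 5) (nat_lit 392) (nat_lit 391) (nat_lit 117)) (XT.nd (nat_lit 78) (nat_lit 0) (nat_lit 0) (XT.lf (nat_lit 0) (nat_lit 44814739389) (nat_lit 760) (nat_lit 178112475332) (nat_lit 836) (nat_lit 139964234539) (nat_lit 101) (nat_lit 5) (nat_lit 111) (nat_lit 5) (nat_lit 112) (nat_lit 5) (nat_lit 393) (nat_lit 391) (nat_lit 116)) (XT.lf (nat_lit 0) (nat_lit 51605121694) (nat_lit 760) (nat_lit 4193867776) (nat_lit 836) (nat_lit 316326263235) (nat_lit 101) (nat_lit 5) (nat_lit 111) (nat_lit 5) (nat_lit 112) (nat_lit 5) (nat_lit 394) (nat_lit 391) (nat_lit 115))))))))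
noncomputable def xc255 : XT := (XT.nd (nat_lit 93912) (nat_lit 0) (nat_lit 380) (XT.nd (nat_lit 46878) (nat_lit 0) (nat_lit 380) (XT.nd (nat_lit 468) (nat_lit 532) (nat_lit 0) (XT.nd (nat_lit 234) (nat_lit 0) (nat_lit 76) (XT.nd (nat_lit 78) (nat_lit 0) (nat_lit 0) (XT.lf (nat_lit 0) (nat_lit 63528549574) (nat_lit 760) (nat_lit 199272620951) (nat_lit 836) (nat_lit 118779899505) (nat_lit 102) (nat_lit 5) (nat_lit 112) (nat_lit 5) (nat_lit 113) (nat_lit 5) (nat_lit 395) (nat_lit 391) (nat_lit 114)) (XT.nd (nat_lit 78) (nat_lit 0) (nat_lit 76) (XT.lf (nat_lit 0) (nat_lit 77035046452) (nat_lit 760) (nat_lit 14140565355) (nat_lit 836) (nat_lit 300284721566) (nat_lit 102) (nat_lit 5) (nat_lit 112) (nat_lit 5) (nat_lit 113) (nat_lit 5) (nat_lit 396) (nat_lit 391) (nat_lit 113)) (XT.lf (nat_lit 0) (nat_lit 95561753653) (nat_lit 760) (nat_lit 216917997087) (nat_lit 836) (nat_lit 89136564898) (nat_lit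 103) (nat_lit 5) (nat_lit 113) (nat_lit 5) (nat_lit 114) (nat_lit 5) (nat_lit 397) (nat_lit 391) (nat_lit 112)))) (XT.nd (nat_lit 78) (nat_lit 0) (nat_lit 76) (XT.lf (nat_lit 0) (nat_lit 116752854671) (nat_lit 760) (nat_lit 19796676183) (nat_lit 836) (nat_lit 275643663269) (nat_lit 103) (nat_lit 5) (nat_lit 113) (nat_lit 5) (nat_lit 114) (nat_lit 5) (nat_lit 398) (nat_lit 391) (nat_lit 111)) (XT.nd (nat_lit 78) (nat_lit 0) (nat_lit 0) (XT.lf (nat_lit 0) (nat_lit 142824202277) (nat_lit 760) (nat_lit 230579908834) (nat_lit 836) (nat_lit 49703770869) (nat_lit 104) (nat_lit 5) (nat_lit 114) (nat_lit 5) (nat_lit 115) (nat_lit 5) (nat_lit 399) (nat_lit 391) (nat_lit 110)) (XT.lf (nat_lit 0) (nat_lit 172778372038) (nat_lit 760) (nat_lit 20639423392) (nat_lit 836) (nat_lit 241021546087) (nat_lit 104) (nat_lit 5) (nat_lit 114) (nat_lit 5) (nat_lit 115) (nat_lit 5) (nat_lit 400) (nat_lit 391) (nat_lit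 109))))) (XT.nd (nat_lit 46176) (nat_lit 0) (nat_lit 380) (XT.nd (nat_lit 78) (nat_lit 684) (nat_lit 0) (XT.lf (nat_lit 76) (nat_lit 206404293450) (nat_lit 0) (nat_lit 1048482892) (nat_lit 836) (nat_lit 238723471412) (nat_lit 105) (nat_lit 5) (nat_lit 104) (nat_lit 5) (nat_lit 115) (nat_lit 5) (nat_lit 401) (nat_lit 391) (nat_lit 108)) (XT.nd (nat_lit 78) (nat_lit 760) (nat_lit 0) (XT.lf (nat_lit 0) (nat_lit 247353372619) (nat_lit 760) (nat_lit 16108747912) (nat_lit 76) (nat_lit 194863255206) (nat_lit 105) (nat_lit 5) (nat_lit 115) (nat_lit 5) (nat_lit 106) (nat_lit 5) (nat_lit 402) (nat_lit 391) (nat_lit 107)) (XT.lf (nat_lit 0) (nat_lit 225952295904) (nat_lit 760) (nat_lit 66841618154) (nat_lit 836) (nat_lit 178110800316) (nat_lit 95) (nat_lit 5) (nat_lit 105) (nat_lit 5) (nat_lit 106) (nat_lit 5) (nat_lit 403) (nat_lit 391) (nat_lit 106)))) (XT.nd (nat_lit 78) (nat_lit 0) (nat_lit 0)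 (XT.lf (nat_lit 0) (nat_lit 19794094717) (nat_lit 836) (nat_lit 80782605755) (nat_lit 836) (nat_lit 80782605755) (nat_lit 100) (nat_lit 3) (nat_lit 111) (nat_lit 3) (nat_lit 111) (nat_lit 5) (nat_lit 392) (nat_lit 392) (nat_lit 116)) (XT.nd (nat_lit 78) (nat_lit 0) (nat_lit 76) (XT.lf (nat_lit 76) (nat_lit 10368137568) (nat_lit 0) (nat_lit 30372113124) (nat_lit 836) (nat_lit 331038208740) (nat_lit 101) (nat_lit 5) (nat_lit 100) (nat_lit 3) (nat_lit 111) (nat_lit 5) (nat_lit 393) (nat_lit 392) (nat_lit 115)) (XT.lf (nat_lit 0) (nat_lit 47056424162) (nat_lit 760) (nat_lit 187017529538) (nat_lit 836) (nat_lit 146962019634) (nat_lit 101) (nat_lit 5) (nat_lit 111) (nat_lit 5) (nat_lit 112) (nat_lit 5) (nat_lit 394) (nat_lit 392) (nat_lit 114)))))) (XT.nd (nat_lit 468) (nat_lit 76) (nat_lit 0) (XT.nd (nat_lit 234) (nat_lit 0) (nat_lit 152) (XT.nd (nat_lit 78) (nat_lit 0) (nat_lit 76) (XT.lf (nat_lit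 0) (nat_lit 54186280448) (nat_lit 760) (nat_lit 4403018726) (nat_lit 836) (nat_lit 332142170080) (nat_lit 101) (nat_lit 5) (nat_lit 111) (nat_lit 5) (nat_lit 112) (nat_lit 5) (nat_lit 395) (nat_lit 392) (nat_lit 113)) (XT.nd (nat_lit 78) (nat_lit 0) (nat_lit 0) (XT.lf (nat_lit 0) (nat_lit 66705839851) (nat_lit 760) (nat_lit 209235668782) (nat_lit 836) (nat_lit 124718570853) (nat_lit 102) (nat_lit 5) (nat_lit 112) (nat_lit 5) (nat_lit 113) (nat_lit 5) (nat_lit 396) (nat_lit 392) (nat_lit 112)) (XT.lf (nat_lit 0) (nat_lit 80887620487) (nat_lit 760) (nat_lit 14847038178) (nat_lit 836) (nat_lit 315298649427) (nat_lit 102) (nat_lit 5) (nat_lit 112) (nat_lit 5) (nat_lit 113) (nat_lit 5) (nat_lit 397) (nat_lit 392) (nat_lit 111)))) (XT.nd (nat_lit 78) (nat_lit 0) (nat_lit 0) (XT.lf (nat_lit 0) (nat_lit 100340628632) (nat_lit 760) (nat_lit 227763306259) (nat_lit 836) (nat_lit 93593156343) (nat_lit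 103) (nat_lit 5) (nat_lit 113) (nat_lit 5) (nat_lit 114) (nat_lit 5) (nat_lit 398) (nat_lit 392) (nat_lit 110)) (XT.nd (nat_lit 78) (nat_lit 0) (nat_lit 76) (XT.lf (nat_lit 0) (nat_lit 122591247210) (nat_lit 760) (nat_lit 20785947436) (nat_lit 836) (nat_lit 289425620909) (nat_lit 103) (nat_lit 5) (nat_lit 113) (nat_lit 5) (nat_lit 114) (nat_lit 5) (nat_lit 399) (nat_lit 392) (nat_lit 109)) (XT.lf (nat_lit 0) (nat_lit 149966132491) (nat_lit 760) (nat_lit 242108311269) (nat_lit 836) (nat_lit 52188795569) (nat_lit 104) (nat_lit 5) (nat_lit 114) (nat_lit 5) (nat_lit 115) (nat_lit 5) (nat_lit 400) (nat_lit 392) (nat_lit 108))))) (XT.nd (nat_lit 46332) (nat_lit 0) (nat_lit 0) (XT.nd (nat_lit 78) (nat_lit 304) (nat_lit 0) (XT.lf (nat_lit 0) (nat_lit 181417976450) (nat_lit 760) (nat_lit 21670829793) (nat_lit 836) (nat_lit 253072467350) (nat_lit 104) (nat_lit 5) (nat_lit 114) (nat_lit 5) (nat_lit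 115) (nat_lit 5) (nat_lit 401) (nat_lit 392) (nat_lit 107)) (XT.nd (nat_lit 46176) (nat_lit 304) (nat_lit 0) (XT.lf (nat_lit 76) (nat_lit 216725063782) (nat_lit 0) (nat_lit 1101013204) (nat_lit 836) (nat_lit 250658949387) (nat_lit 105) (nat_lit 5) (nat_lit 104) (nat_lit 5) (nat_lit 115) (nat_lit 5) (nat_lit 402) (nat_lit 392) (nat_lit 106)) (XT.lf (nat_lit 0) (nat_lit 20784272783) (nat_lit 836) (nat_lit 84821487294) (nat_lit 836) (nat_lit 84821487294) (nat_lit 100) (nat_lit 3) (nat_lit 111) (nat_lit 3) (nat_lit 111) (nat_lit 5) (nat_lit 393) (nat_lit 393) (nat_lit 114)))) (XT.nd (nat_lit 78) (nat_lit 0) (nat_lit 76) (XT.lf (nat_lit 76) (nat_lit 10887033919) (nat_lit 0) (nat_lit 31891138532) (nat_lit 836) (nat_lit 347589163541) (nat_lit 101) (nat_lit 5) (nat_lit 100) (nat_lit 3) (nat_lit 111) (nat_lit 5) (nat_lit 394) (nat_lit 393) (nat_lit 113)) (XT.nd (nat_lit 78) (nat_lit 0) (nat_lit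 0) (XT.lf (nat_lit 0) (nat_lit 49410105055) (nat_lit 760) (nat_lit 196367889407) (nat_lit 836) (nat_lit 154309733648) (nat_lit 101) (nat_lit 5) (nat_lit 111) (nat_lit 5) (nat_lit 112) (nat_lit 5) (nat_lit 395) (nat_lit 393) (nat_lit 112)) (XT.lf (nat_lit 0) (nat_lit 56896413219) (nat_lit 760) (nat_lit 4622677655) (nat_lit 836) (nat_lit 348748910043) (nat_lit 101) (nat_lit 5) (nat_lit 111) (nat_lit 5) (nat_lit 112) (nat_lit 5) (nat_lit 396) (nat_lit 393) (nat_lit 111))))))) (XT.nd (nat_lit 93600) (nat_lit 0) (nat_lit 0) (XT.nd (nat_lit 46722) (nat_lit 0) (nat_lit 0) (XT.nd (nat_lit 234) (nat_lit 152) (nat_lit 0) (XT.nd (nat_lit 78) (nat_lit 0) (nat_lit 0) (XT.lf (nat_lit 0) (nat_lit 70041914427) (nat_lit 760) (nat_lit 219696923226) (nat_lit 836) (nat_lit 130954205856) (nat_lit 102) (nat_lit 5) (nat_lit 112) (nat_lit 5) (nat_lit 113) (nat_lit 5) (nat_lit 397) (nat_lit 393) (nat_lit 110))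 (XT.nd (nat_lit 78) (nat_lit 0) (nat_lit 76) (XT.lf (nat_lit 0) (nat_lit 84932746829) (nat_lit 760) (nat_lit 15588886283) (nat_lit 836) (nat_lit 331063302337) (nat_lit 102) (nat_lit 5) (nat_lit 112) (nat_lit 5) (nat_lit 113) (nat_lit 5) (nat_lit 398) (nat_lit 393) (nat_lit 109)) (XT.lf (nat_lit 0) (nat_lit 105358374164) (nat_lit 760) (nat_lit 239150935805) (nat_lit 836) (nat_lit 98272599375) (nat_lit 103) (nat_lit 5) (nat_lit 113) (nat_lit 5) (nat_lit 114) (nat_lit 5) (nat_lit 399) (nat_lit 393) (nat_lit 108)))) (XT.nd (nat_lit 78) (nat_lit 228) (nat_lit 0) (XT.lf (nat_lit 0) (nat_lit 128721489667) (nat_lit 760) (nat_lit 21824734554) (nat_lit 836) (nat_lit 303896697397) (nat_lit 103) (nat_lit 5) (nat_lit 113) (nat_lit 5) (nat_lit 114) (nat_lit 5) (nat_lit 400) (nat_lit 393) (nat_lit 107)) (XT.nd (nat_lit 46332) (nat_lit 304) (nat_lit 0) (XT.lf (nat_lit 0) (nat_lit 157465092267) (nat_lit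 760) (nat_lit 254213188957) (nat_lit 836) (nat_lit 54798086737) (nat_lit 104) (nat_lit 5) (nat_lit 114) (nat_lit 5) (nat_lit 115) (nat_lit 5) (nat_lit 401) (nat_lit 393) (nat_lit 106)) (XT.lf (nat_lit 0) (nat_lit 21823915747) (nat_lit 836) (nat_lit 89062336037) (nat_lit 836) (nat_lit 89062336037) (nat_lit 100) (nat_lit 3) (nat_lit 111) (nat_lit 3) (nat_lit 111) (nat_lit 5) (nat_lit 394) (nat_lit 394) (nat_lit 112))))) (XT.nd (nat_lit 234) (nat_lit 0) (nat_lit 152) (XT.nd (nat_lit 78) (nat_lit 0) (nat_lit 76) (XT.lf (nat_lit 76) (nat_lit 11431829580) (nat_lit 0) (nat_lit 33486076185) (nat_lit 836) (nat_lit 364967754928) (nat_lit 101) (nat_lit 5) (nat_lit 100) (nat_lit 3) (nat_lit 111) (nat_lit 5) (nat_lit 395) (nat_lit 394) (nat_lit 111)) (XT.nd (nat_lit 78) (nat_lit 0) (nat_lit 0) (XT.lf (nat_lit 0) (nat_lit 51881390068) (nat_lit 760) (nat_lit 206185815299) (nat_lit 836) (nat_lit 162024869339)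 (nat_lit 101) (nat_lit 5) (nat_lit 111) (nat_lit 5) (nat_lit 112) (nat_lit 5) (nat_lit 396) (nat_lit 394) (nat_lit 110)) (XT.lf (nat_lit 0) (nat_lit 59741976509) (nat_lit 760) (nat_lit 4853365272) (nat_lit 836) (nat_lit 366186021267) (nat_lit 101) (nat_lit 5) (nat_lit 111) (nat_lit 5) (nat_lit 112) (nat_lit 5) (nat_lit 397) (nat_lit 394) (nat_lit 109)))) (XT.nd (nat_lit 78) (nat_lit 0) (nat_lit 0) (XT.lf (nat_lit 0) (nat_lit 73544719975) (nat_lit 760) (nat_lit 230681289573) (nat_lit 836) (nat_lit 137501649899) (nat_lit 102) (nat_lit 5) (nat_lit 112) (nat_lit 5) (nat_lit 113) (nat_lit 5) (nat_lit 398) (nat_lit 394) (nat_lit 108)) (XT.nd (nat_lit 78) (nat_lit 0) (nat_lit 76) (XT.lf (nat_lit 0) (nat_lit 89180060196) (nat_lit 760) (nat_lit 16367873631) (nat_lit 836) (nat_lit 347616213883) (nat_lit 102) (nat_lit 5) (nat_lit 112) (nat_lit 5) (nat_lit 113) (nat_lit 5) (nat_lit 399) (nat_lit 394)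 (nat_lit 107)) (XT.lf (nat_lit 0) (nat_lit 110626940583) (nat_lit 760) (nat_lit 251107996639) (nat_lit 836) (nat_lit 103186034528) (nat_lit 103) (nat_lit 5) (nat_lit 113) (nat_lit 5) (nat_lit 114) (nat_lit 5) (nat_lit 400) (nat_lit 394) (nat_lit 106)))))) (XT.nd (nat_lit 46956) (nat_lit 0) (nat_lit 0) (XT.nd (nat_lit 234) (nat_lit 0) (nat_lit 76) (XT.nd (nat_lit 78) (nat_lit 0) (nat_lit 0) (XT.lf (nat_lit 0) (nat_lit 22915500945) (nat_lit 836) (nat_lit 93515248193) (nat_lit 836) (nat_lit 93515248193) (nat_lit 100) (nat_lit 3) (nat_lit 111) (nat_lit 3) (nat_lit 111) (nat_lit 5) (nat_lit 395) (nat_lit 395) (nat_lit 110)) (XT.nd (nat_lit 78) (nat_lit 0) (nat_lit 76) (XT.lf (nat_lit 76) (nat_lit 12003823750) (nat_lit 0) (nat_lit 35160725324) (nat_lit 836) (nat_lit 383215356470) (nat_lit 101) (nat_lit 5) (nat_lit 100) (nat_lit 3) (nat_lit 111) (nat_lit 5) (nat_lit 396) (nat_lit 395) (nat_lit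 109)) (XT.lf (nat_lit 0) (nat_lit 54476166837) (nat_lit 760) (nat_lit 216494681049) (nat_lit 836) (nat_lit 170125794446) (nat_lit 101) (nat_lit 5) (nat_lit 111) (nat_lit 5) (nat_lit 112) (nat_lit 5) (nat_lit 397) (nat_lit 395) (nat_lit 108)))) (XT.nd (nat_lit 78) (nat_lit 0) (nat_lit 76) (XT.lf (nat_lit 0) (nat_lit 62729748921) (nat_lit 760) (nat_lit 5095628759) (nat_lit 836) (nat_lit 384495019131) (nat_lit 101) (nat_lit 5) (nat_lit 111) (nat_lit 5) (nat_lit 112) (nat_lit 5) (nat_lit 398) (nat_lit 395) (nat_lit 107)) (XT.nd (nat_lit 78) (nat_lit 0) (nat_lit 0) (XT.lf (nat_lit 0) (nat_lit 77222599807) (nat_lit 760) (nat_lit 242214918847) (nat_lit 836) (nat_lit 144376490898) (nat_lit 102) (nat_lit 5) (nat_lit 112) (nat_lit 5) (nat_lit 113) (nat_lit 5) (nat_lit 399) (nat_lit 395) (nat_lit 106)) (XT.lf (nat_lit 0) (nat_lit 93639676380) (nat_lit 760) (nat_lit 17185852832) (nat_lit 836) (nat_lit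 364996794580) (nat_lit 102) (nat_lit 5) (nat_lit 112) (nat_lit 5) (nat_lit 113) (nat_lit 5) (nat_lit 400) (nat_lit 395) (nat_lit 105))))) (XT.nd (nat_lit 234) (nat_lit 0) (nat_lit 0) (XT.nd (nat_lit 78) (nat_lit 0) (nat_lit 0) (XT.lf (nat_lit 0) (nat_lit 24061629198) (nat_lit 836) (nat_lit 98190824983) (nat_lit 836) (nat_lit 98190824983) (nat_lit 100) (nat_lit 3) (nat_lit 111) (nat_lit 3) (nat_lit 111) (nat_lit 5) (nat_lit 396) (nat_lit 396) (nat_lit 108)) (XT.nd (nat_lit 78) (nat_lit 0) (nat_lit 76) (XT.lf (nat_lit 76) (nat_lit 12604380189) (nat_lit 0) (nat_lit 36919074815) (nat_lit 836) (nat_lit 402375411183) (nat_lit 101) (nat_lit 5) (nat_lit 100) (nat_lit 3) (nat_lit 111) (nat_lit 5) (nat_lit 397) (nat_lit 396) (nat_lit 107)) (XT.lf (nat_lit 0) (nat_lit 57200616690) (nat_lit 760) (nat_lit 227319029600) (nat_lit 836) (nat_lit 178631795407) (nat_lit 101) (nat_lit 5) (nat_lit 111) (nat_lit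 5) (nat_lit 112) (nat_lit 5) (nat_lit 398) (nat_lit 396) (nat_lit 106)))) (XT.nd (nat_lit 46722) (nat_lit 76) (nat_lit 0) (XT.lf (nat_lit 0) (nat_lit 65866847329) (nat_lit 760) (nat_lit 5350043054) (nat_lit 836) (nat_lit 403719495077) (nat_lit 101) (nat_lit 5) (nat_lit 111) (nat_lit 5) (nat_lit 112) (nat_lit 5) (nat_lit 399) (nat_lit 396) (nat_lit 105)) (XT.nd (nat_lit 78) (nat_lit 0) (nat_lit 0) (XT.lf (nat_lit 0) (nat_lit 25265031027) (nat_lit 836) (nat_lit 103100197870) (nat_lit 836) (nat_lit 103100197870) (nat_lit 100) (nat_lit 3) (nat_lit 111) (nat_lit 3) (nat_lit 111) (nat_lit 5) (nat_lit 397) (nat_lit 397) (nat_lit 106)) (XT.lf (nat_lit 76) (nat_lit 13234930492) (nat_lit 0) (nat_lit 38765312660) (nat_lit 836) (nat_lit 422493534929) (nat_lit 101) (nat_lit 5) (nat_lit 100) (nat_lit 3) (nat_lit 111) (nat_lit 5) (nat_lit 398) (nat_lit 397) (nat_lit 105))))))))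

set_option maxRecDepth 10000000 in
noncomputable def Tp : PT := (PT.nd (nat_lit 7230132) (PT.nd (nat_lit 6715176) (PT.nd (nat_lit 6153576) (PT.nd (nat_lit 5638308) pc0 pc1) (PT.nd (nat_lit 327678) pc2 pc3)) (PT.nd (nat_lit 281502) (PT.nd (nat_lit 141102) pc4 pc5) (PT.nd (nat_lit 139620) pc6 pc7))) (PT.nd (nat_lit 282204) (PT.nd (nat_lit 141804) (PT.nd (nat_lit 93288) pc8 pc9) (PT.nd (nat_lit 92352) pc10 pc11)) (PT.nd (nat_lit 232206) (PT.nd (nat_lit 94146) pc12 pc13) (PT.nd (nat_lit 191178) pc14 pc15))))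

set_option maxRecDepth 10000000 in
noncomputable def Tx : XT := (XT.nd (nat_lit 10862982) (nat_lit 0) (nat_lit 76) XT.nil (XT.nd (nat_lit 7778706) (nat_lit 0) (nat_lit 0) (XT.nd (nat_lit 3694392) (nat_lit 0) (nat_lit 76) (XT.nd (nat_lit 2570334) (nat_lit 0) (nat_lit 0) (XT.nd (nat_lit 1780428) (nat_lit 0) (nat_lit 0) (XT.nd (nat_lit 1263444) (nat_lit 0) (nat_lit 0) (XT.nd (nat_lit 888966) (nat_lit 0) (nat_lit 0) (XT.nd (nat_lit 608868) (nat_lit 0) (nat_lit 0) (XT.nd (nat_lit 421512) (nat_lit 0) (nat_lit 0) (XT.nd (nat_lit 281190) (nat_lit 0) (nat_lit 0) xc0 xc1) (XT.nd (nat_lit 93990) (nat_lit 0) (nat_lit 0) xc2 xc3)) (XT.nd (nat_lit 140712) (nat_lit 0) (nat_lit 0) (XT.nd (nat_lit 92742) (nat_lit 0) (nat_lit 0) xc4 xc5) (XT.nd (nat_lit 91806) (nat_lit 0) (nat_lit 0) xc6 xc7))) (XT.nd (nat_lit 188448) (nat_lit 0) (nat_lit 0) (XT.nd (nat_lit 94536) (nat_lit 0) (nat_lit 0) (XT.nd (nat_lit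 47346) (nat_lit 0) (nat_lit 0) xc8 xc9) (XT.nd (nat_lit 47034) (nat_lit 0) (nat_lit 0) xc10 xc11)) (XT.nd (nat_lit 93288) (nat_lit 0) (nat_lit 0) (XT.nd (nat_lit 46722) (nat_lit 0) (nat_lit 0) xc12 xc13) (XT.nd (nat_lit 46410) (nat_lit 0) (nat_lit 0) xc14 xc15)))) (XT.nd (nat_lit 281658) (nat_lit 0) (nat_lit 0) (XT.nd (nat_lit 141492) (nat_lit 0) (nat_lit 0) (XT.nd (nat_lit 92040) (nat_lit 0) (nat_lit 0) (XT.nd (nat_lit 46098) (nat_lit 0) (nat_lit 0) xc16 xc17) (XT.nd (nat_lit 3666) (nat_lit 0) (nat_lit 0) xc18 xc19)) (XT.nd (nat_lit 91104) (nat_lit 0) (nat_lit 0) (XT.nd (nat_lit 45630) (nat_lit 0) (nat_lit 0) xc20 xc21) (XT.nd (nat_lit 3666) (nat_lit 0) (nat_lit 0) xc22 xc23))) (XT.nd (nat_lit 138684) (nat_lit 0) (nat_lit 0) (XT.nd (nat_lit 90168) (nat_lit 0) (nat_lit 0) (XT.nd (nat_lit 45162) (nat_lit 0) (nat_lit 0) xc24 xc25) (XT.nd (nat_lit 3666) (nat_lit 76) (nat_lit 0) xc26 xc27))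 (XT.nd (nat_lit 48360) (nat_lit 0) (nat_lit 0) (XT.nd (nat_lit 3666) (nat_lit 0) (nat_lit 0) xc28 xc29) (XT.nd (nat_lit 44538) (nat_lit 0) (nat_lit 0) xc30 xc31))))) (XT.nd (nat_lit 420264) (nat_lit 0) (nat_lit 0) (XT.nd (nat_lit 231738) (nat_lit 0) (nat_lit 0) (XT.nd (nat_lit 136500) (nat_lit 0) (nat_lit 0) (XT.nd (nat_lit 88686) (nat_lit 0) (nat_lit 0) (XT.nd (nat_lit 44382) (nat_lit 0) (nat_lit 0) xc32 xc33) (XT.nd (nat_lit 3666) (nat_lit 76) (nat_lit 0) xc34 xc35)) (XT.nd (nat_lit 47658) (nat_lit 0) (nat_lit 0) (XT.nd (nat_lit 3666) (nat_lit 76) (nat_lit 0) xc36 xc37) (XT.nd (nat_lit 3666) (nat_lit 0) (nat_lit 0) xc38 xc39))) (XT.nd (nat_lit 94536) (nat_lit 0) (nat_lit 0) (XT.nd (nat_lit 47346) (nat_lit 0) (nat_lit 0) (XT.nd (nat_lit 43680) (nat_lit 0) (nat_lit 152) xc40 xc41) (XT.nd (nat_lit 43524) (nat_lit 0) (nat_lit 76) xc42 xc43)) (XT.nd (nat_lit 47034) (nat_lit 0) (nat_lit 0)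 (XT.nd (nat_lit 43368) (nat_lit 0) (nat_lit 76) xc44 xc45) (XT.nd (nat_lit 43212) (nat_lit 0) (nat_lit 76) xc46 xc47)))) (XT.nd (nat_lit 186030) (nat_lit 0) (nat_lit 0) (XT.nd (nat_lit 93288) (nat_lit 0) (nat_lit 0) (XT.nd (nat_lit 46722) (nat_lit 0) (nat_lit 0) (XT.nd (nat_lit 43056) (nat_lit 0) (nat_lit 76) xc48 xc49) (XT.nd (nat_lit 42900) (nat_lit 0) (nat_lit 228) xc50 xc51)) (XT.nd (nat_lit 46410) (nat_lit 0) (nat_lit 0) (XT.nd (nat_lit 42744) (nat_lit 0) (nat_lit 228) xc52 xc53) (XT.nd (nat_lit 42588) (nat_lit 0) (nat_lit 304) xc54 xc55))) (XT.nd (nat_lit 92118) (nat_lit 0) (nat_lit 0) (XT.nd (nat_lit 46098) (nat_lit 0) (nat_lit 0) (XT.nd (nat_lit 3666) (nat_lit 0) (nat_lit 0) xc56 xc57) (XT.nd (nat_lit 3666) (nat_lit 76) (nat_lit 0) xc58 xc59)) (XT.nd (nat_lit 45786) (nat_lit 0) (nat_lit 0) (XT.nd (nat_lit 3666) (nat_lit 76) (nat_lit 0) xc60 xc61) (XT.nd (nat_lit 3666) (nat_lit 228)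 (nat_lit 0) xc62 xc63)))))) (XT.nd (nat_lit 566124) (nat_lit 0) (nat_lit 76) (XT.nd (nat_lit 285792) (nat_lit 0) (nat_lit 76) (XT.nd (nat_lit 143598) (nat_lit 0) (nat_lit 76) (XT.nd (nat_lit 52884) (nat_lit 0) (nat_lit 76) (XT.nd (nat_lit 7332) (nat_lit 76) (nat_lit 0) (XT.nd (nat_lit 3666) (nat_lit 380) (nat_lit 0) xc64 xc65) (XT.nd (nat_lit 41886) (nat_lit 0) (nat_lit 76) xc66 xc67)) (XT.nd (nat_lit 45396) (nat_lit 0) (nat_lit 0) (XT.nd (nat_lit 41730) (nat_lit 0) (nat_lit 228) xc68 xc69) (XT.nd (nat_lit 41574) (nat_lit 0) (nat_lit 684) xc70 xc71))) (XT.nd (nat_lit 90012) (nat_lit 0) (nat_lit 0) (XT.nd (nat_lit 45084) (nat_lit 0) (nat_lit 0) (XT.nd (nat_lit 3666) (nat_lit 0) (nat_lit 0) xc72 xc73) (XT.nd (nat_lit 3666) (nat_lit 228) (nat_lit 0) xc74 xc75)) (XT.nd (nat_lit 7332) (nat_lit 0) (nat_lit 0) (XT.nd (nat_lit 3666) (nat_lit 760) (nat_lit 0) xc76 xc77) (XT.nd (nat_lit 41106) (nat_lit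 0) (nat_lit 228) xc78 xc79)))) (XT.nd (nat_lit 140790) (nat_lit 0) (nat_lit 0) (XT.nd (nat_lit 89076) (nat_lit 0) (nat_lit 0) (XT.nd (nat_lit 44616) (nat_lit 0) (nat_lit 0) (XT.nd (nat_lit 40950) (nat_lit 0) (nat_lit 1140) xc80 xc81) (XT.nd (nat_lit 3666) (nat_lit 152) (nat_lit 0) xc82 xc83)) (XT.nd (nat_lit 7332) (nat_lit 0) (nat_lit 0) (XT.nd (nat_lit 3666) (nat_lit 608) (nat_lit 0) xc84 xc85) (XT.nd (nat_lit 40638) (nat_lit 0) (nat_lit 304) xc86 xc87))) (XT.nd (nat_lit 88218) (nat_lit 0) (nat_lit 0) (XT.nd (nat_lit 44148) (nat_lit 0) (nat_lit 0) (XT.nd (nat_lit 40482) (nat_lit 0) (nat_lit 1444) xc88 xc89) (XT.nd (nat_lit 3666) (nat_lit 152) (nat_lit 0) xc90 xc91)) (XT.nd (nat_lit 7332) (nat_lit 0) (nat_lit 0) (XT.nd (nat_lit 3666) (nat_lit 988) (nat_lit 0) xc92 xc93) (XT.nd (nat_lit 40248) (nat_lit 0) (nat_lit 684) xc94 xc95))))) (XT.nd (nat_lit 277446) (nat_lit 0) (nat_lit 0) (XT.nd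 (nat_lit 138450) (nat_lit 0) (nat_lit 0) (XT.nd (nat_lit 87360) (nat_lit 0) (nat_lit 0) (XT.nd (nat_lit 43758) (nat_lit 0) (nat_lit 0) (XT.nd (nat_lit 3666) (nat_lit 0) (nat_lit 0) xc96 xc97) (XT.nd (nat_lit 3666) (nat_lit 532) (nat_lit 0) xc98 xc99)) (XT.nd (nat_lit 7332) (nat_lit 456) (nat_lit 0) (XT.nd (nat_lit 3666) (nat_lit 2128) (nat_lit 0) xc100 xc101) (XT.nd (nat_lit 40014) (nat_lit 0) (nat_lit 2204) xc102 xc103))) (XT.nd (nat_lit 51090) (nat_lit 0) (nat_lit 0) (XT.nd (nat_lit 43758) (nat_lit 0) (nat_lit 228) (XT.nd (nat_lit 3666) (nat_lit 380) (nat_lit 0) xc104 xc105) (XT.nd (nat_lit 3666) (nat_lit 1444) (nat_lit 0) xc106 xc107)) (XT.nd (nat_lit 43836) (nat_lit 0) (nat_lit 0) (XT.nd (nat_lit 40170) (nat_lit 0) (nat_lit 1368) xc108 xc109) (XT.nd (nat_lit 3666) (nat_lit 152) (nat_lit 0) xc110 xc111)))) (XT.nd (nat_lit 139854) (nat_lit 0) (nat_lit 0) (XT.nd (nat_lit 51402) (nat_lit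 0) (nat_lit 0) (XT.nd (nat_lit 7332) (nat_lit 0) (nat_lit 0) (XT.nd (nat_lit 3666) (nat_lit 912) (nat_lit 0) xc112 xc113) (XT.nd (nat_lit 40404) (nat_lit 0) (nat_lit 608) xc114 xc115)) (XT.nd (nat_lit 44148) (nat_lit 0) (nat_lit 0) (XT.nd (nat_lit 40482) (nat_lit 0) (nat_lit 2280) xc116 xc117) (XT.nd (nat_lit 3666) (nat_lit 380) (nat_lit 0) xc118 xc119))) (XT.nd (nat_lit 51714) (nat_lit 0) (nat_lit 0) (XT.nd (nat_lit 7332) (nat_lit 152) (nat_lit 0) (XT.nd (nat_lit 3666) (nat_lit 1292) (nat_lit 0) xc120 xc121) (XT.nd (nat_lit 40638) (nat_lit 0) (nat_lit 912) xc122 xc123)) (XT.nd (nat_lit 44382) (nat_lit 0) (nat_lit 0) (XT.nd (nat_lit 3666) (nat_lit 0) (nat_lit 0) xc124 xc125) (XT.nd (nat_lit 3666) (nat_lit 456) (nat_lit 0) xc126 xc127))))))) (XT.nd (nat_lit 1272180) (nat_lit 0) (nat_lit 456) (XT.nd (nat_lit 570336) (nat_lit 0) (nat_lit 152) (XT.nd (nat_lit 283608) (nat_lit 0) (nat_lit 152)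 (XT.nd (nat_lit 141414) (nat_lit 0) (nat_lit 76) (XT.nd (nat_lit 51870) (nat_lit 0) (nat_lit 0) (XT.nd (nat_lit 7332) (nat_lit 228) (nat_lit 0) (XT.nd (nat_lit 3666) (nat_lit 1368) (nat_lit 0) xc128 xc129) (XT.nd (nat_lit 40872) (nat_lit 0) (nat_lit 912) xc130 xc131)) (XT.nd (nat_lit 44694) (nat_lit 0) (nat_lit 0) (XT.nd (nat_lit 41028) (nat_lit 0) (nat_lit 2432) xc132 xc133) (XT.nd (nat_lit 3666) (nat_lit 456) (nat_lit 0) xc134 xc135))) (XT.nd (nat_lit 52182) (nat_lit 0) (nat_lit 76) (XT.nd (nat_lit 7332) (nat_lit 76) (nat_lit 0) (XT.nd (nat_lit 3666) (nat_lit 1140) (nat_lit 0) xc136 xc137) (XT.nd (nat_lit 41184) (nat_lit 0) (nat_lit 532) xc138 xc139)) (XT.nd (nat_lit 44928) (nat_lit 0) (nat_lit 0) (XT.nd (nat_lit 41262) (nat_lit 0) (nat_lit 1444) xc140 xc141) (XT.nd (nat_lit 3666) (nat_lit 76) (nat_lit 0) xc142 xc143)))) (XT.nd (nat_lit 142896) (nat_lit 0) (nat_lit 0) (XT.nd (nat_lit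 52416) (nat_lit 0) (nat_lit 0) (XT.nd (nat_lit 45084) (nat_lit 0) (nat_lit 76) (XT.nd (nat_lit 3666) (nat_lit 532) (nat_lit 0) xc144 xc145) (XT.nd (nat_lit 3666) (nat_lit 1368) (nat_lit 0) xc146 xc147)) (XT.nd (nat_lit 45162) (nat_lit 0) (nat_lit 0) (XT.nd (nat_lit 41496) (nat_lit 0) (nat_lit 532) xc148 xc149) (XT.nd (nat_lit 41574) (nat_lit 0) (nat_lit 1292) xc150 xc151))) (XT.nd (nat_lit 90870) (nat_lit 0) (nat_lit 0) (XT.nd (nat_lit 45396) (nat_lit 0) (nat_lit 0) (XT.nd (nat_lit 3666) (nat_lit 0) (nat_lit 0) xc152 xc153) (XT.nd (nat_lit 3666) (nat_lit 304) (nat_lit 0) xc154 xc155)) (XT.nd (nat_lit 45552) (nat_lit 0) (nat_lit 76) (XT.nd (nat_lit 3666) (nat_lit 988) (nat_lit 0) xc156 xc157) (XT.nd (nat_lit 3666) (nat_lit 1748) (nat_lit 0) xc158 xc159))))) (XT.nd (nat_lit 367770) (nat_lit 0) (nat_lit 76) (XT.nd (nat_lit 183144) (nat_lit 0) (nat_lit 76) (XT.nd (nat_lit 91338) (nat_lit 0)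 (nat_lit 76) (XT.nd (nat_lit 45630) (nat_lit 0) (nat_lit 0) (XT.nd (nat_lit 41964) (nat_lit 0) (nat_lit 532) xc160 xc161) (XT.nd (nat_lit 42042) (nat_lit 0) (nat_lit 1064) xc162 xc163)) (XT.nd (nat_lit 45786) (nat_lit 0) (nat_lit 0) (XT.nd (nat_lit 42120) (nat_lit 0) (nat_lit 1748) xc164 xc165) (XT.nd (nat_lit 3666) (nat_lit 76) (nat_lit 0) xc166 xc167))) (XT.nd (nat_lit 92118) (nat_lit 0) (nat_lit 0) (XT.nd (nat_lit 46020) (nat_lit 0) (nat_lit 0) (XT.nd (nat_lit 3666) (nat_lit 380) (nat_lit 0) xc168 xc169) (XT.nd (nat_lit 3666) (nat_lit 684) (nat_lit 0) xc170 xc171)) (XT.nd (nat_lit 46176) (nat_lit 0) (nat_lit 0) (XT.nd (nat_lit 3666) (nat_lit 1140) (nat_lit 0) xc172 xc173) (XT.nd (nat_lit 3666) (nat_lit 1672) (nat_lit 0) xc174 xc175)))) (XT.nd (nat_lit 146796) (nat_lit 0) (nat_lit 152) (XT.nd (nat_lit 53664) (nat_lit 0) (nat_lit 76) (XT.nd (nat_lit 7332) (nat_lit 228) (nat_lit 0) (XT.nd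 (nat_lit 3666) (nat_lit 1976) (nat_lit 0) xc176 xc177) (XT.nd (nat_lit 42666) (nat_lit 0) (nat_lit 380) xc178 xc179)) (XT.nd (nat_lit 46488) (nat_lit 0) (nat_lit 76) (XT.nd (nat_lit 42822) (nat_lit 0) (nat_lit 456) xc180 xc181) (XT.nd (nat_lit 42900) (nat_lit 0) (nat_lit 532) xc182 xc183))) (XT.nd (nat_lit 93444) (nat_lit 0) (nat_lit 0) (XT.nd (nat_lit 46644) (nat_lit 0) (nat_lit 0) (XT.nd (nat_lit 42978) (nat_lit 0) (nat_lit 684) xc184 xc185) (XT.nd (nat_lit 43056) (nat_lit 0) (nat_lit 760) xc186 xc187)) (XT.nd (nat_lit 46800) (nat_lit 0) (nat_lit 76) (XT.nd (nat_lit 43134) (nat_lit 0) (nat_lit 836) xc188 xc189) (XT.nd (nat_lit 43290) (nat_lit 0) (nat_lit 760) xc190 xc191)))))) (XT.nd (nat_lit 888732) (nat_lit 0) (nat_lit 760) (XT.nd (nat_lit 419562) (nat_lit 0) (nat_lit 228) (XT.nd (nat_lit 188760) (nat_lit 0) (nat_lit 152) (XT.nd (nat_lit 94146) (nat_lit 0) (nat_lit 0) (XT.nd (nat_lit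 47034) (nat_lit 0) (nat_lit 0) (XT.nd (nat_lit 43368) (nat_lit 0) (nat_lit 684) xc192 xc193) (XT.nd (nat_lit 43446) (nat_lit 0) (nat_lit 608) xc194 xc195)) (XT.nd (nat_lit 47190) (nat_lit 0) (nat_lit 76) (XT.nd (nat_lit 43524) (nat_lit 0) (nat_lit 456) xc196 xc197) (XT.nd (nat_lit 43680) (nat_lit 0) (nat_lit 228) xc198 xc199))) (XT.nd (nat_lit 135174) (nat_lit 0) (nat_lit 76) (XT.nd (nat_lit 87594) (nat_lit 0) (nat_lit 0) (XT.nd (nat_lit 43758) (nat_lit 0) (nat_lit 0) xc200 xc201) (XT.nd (nat_lit 3666) (nat_lit 1824) (nat_lit 0) xc202 xc203)) (XT.nd (nat_lit 47736) (nat_lit 0) (nat_lit 0) (XT.nd (nat_lit 3666) (nat_lit 1216) (nat_lit 0) xc204 xc205) (XT.nd (nat_lit 3666) (nat_lit 684) (nat_lit 0) xc206 xc207)))) (XT.nd (nat_lit 233220) (nat_lit 0) (nat_lit 228) (XT.nd (nat_lit 95862) (nat_lit 0) (nat_lit 152) (XT.nd (nat_lit 47892) (nat_lit 0) (nat_lit 76) (XT.nd (nat_lit 3666) (nat_lit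 228) (nat_lit 0) xc208 xc209) (XT.nd (nat_lit 44304) (nat_lit 0) (nat_lit 1140) xc210 xc211)) (XT.nd (nat_lit 48126) (nat_lit 0) (nat_lit 76) (XT.nd (nat_lit 44460) (nat_lit 0) (nat_lit 304) xc212 xc213) (XT.nd (nat_lit 44538) (nat_lit 0) (nat_lit 0) xc214 xc215))) (XT.nd (nat_lit 97032) (nat_lit 0) (nat_lit 152) (XT.nd (nat_lit 48438) (nat_lit 0) (nat_lit 76) (XT.nd (nat_lit 3666) (nat_lit 760) (nat_lit 0) xc216 xc217) (XT.nd (nat_lit 44850) (nat_lit 0) (nat_lit 1292) xc218 xc219)) (XT.nd (nat_lit 90012) (nat_lit 0) (nat_lit 76) (XT.nd (nat_lit 44928) (nat_lit 0) (nat_lit 76) xc220 xc221) (XT.nd (nat_lit 3666) (nat_lit 1292) (nat_lit 0) xc222 xc223))))) (XT.nd (nat_lit 565188) (nat_lit 0) (nat_lit 912) (XT.nd (nat_lit 280566) (nat_lit 0) (nat_lit 380) (XT.nd (nat_lit 139776) (nat_lit 0) (nat_lit 152) (XT.nd (nat_lit 48906) (nat_lit 0) (nat_lit 0) (XT.nd (nat_lit 45240) (nat_lit 0) (nat_lit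 1064) xc224 xc225) (XT.nd (nat_lit 45396) (nat_lit 0) (nat_lit 152) xc226 xc227)) (XT.nd (nat_lit 49218) (nat_lit 0) (nat_lit 76) (XT.nd (nat_lit 3666) (nat_lit 304) (nat_lit 0) xc228 xc229) (XT.nd (nat_lit 45708) (nat_lit 0) (nat_lit 0) xc230 xc231))) (XT.nd (nat_lit 141804) (nat_lit 0) (nat_lit 304) (XT.nd (nat_lit 49608) (nat_lit 0) (nat_lit 76) (XT.nd (nat_lit 3666) (nat_lit 76) (nat_lit 0) xc232 xc233) (XT.nd (nat_lit 46020) (nat_lit 0) (nat_lit 0) xc234 xc235)) (XT.nd (nat_lit 92586) (nat_lit 0) (nat_lit 76) (XT.nd (nat_lit 46254) (nat_lit 0) (nat_lit 0) xc236 xc237) (XT.nd (nat_lit 3666) (nat_lit 152) (nat_lit 0) xc238 xc239)))) (XT.nd (nat_lit 420810) (nat_lit 0) (nat_lit 1444) (XT.nd (nat_lit 187122) (nat_lit 0) (nat_lit 456) (XT.nd (nat_lit 93288) (nat_lit 0) (nat_lit 152) (XT.nd (nat_lit 46566) (nat_lit 0) (nat_lit 152) xc240 xc241) (XT.nd (nat_lit 46800) (nat_lit 0) (nat_lit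 152) xc242 xc243)) (XT.nd (nat_lit 138294) (nat_lit 0) (nat_lit 380) (XT.nd (nat_lit 47112) (nat_lit 0) (nat_lit 152) xc244 xc245) (XT.nd (nat_lit 47580) (nat_lit 0) (nat_lit 304) xc246 xc247))) (XT.nd (nat_lit 281736) (nat_lit 0) (nat_lit 1140) (XT.nd (nat_lit 140322) (nat_lit 0) (nat_lit 608) (XT.nd (nat_lit 92196) (nat_lit 0) (nat_lit 380) xc248 xc249) (XT.nd (nat_lit 92898) (nat_lit 0) (nat_lit 304) xc250 xc251)) (XT.nd (nat_lit 233298) (nat_lit 0) (nat_lit 1216) (XT.nd (nat_lit 93678) (nat_lit 0) (nat_lit 608) xc252 xc253) (XT.nd (nat_lit 140790) (nat_lit 0) (nat_lit 1140) xc254 xc255)))))))) XT.nil))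

set_option maxRecDepth 10000000 in
noncomputable def Te : XT := XT.nil

set_option maxRecDepth 10000000 in
noncomputable def Tz : ZL := (ZL.cons (nat_lit 76) (nat_lit 3) (nat_lit 126543070708758720211) (ZL.cons (nat_lit 152) (nat_lit 6) (nat_lit 247297744573508585214) (ZL.cons (nat_lit 228) (nat_lit 6) (nat_lit 241800688916877070514) (ZL.cons (nat_lit 304) (nat_lit 3) (nat_lit 120758695426834197874) (ZL.cons (nat_lit 380) (nat_lit 6) (nat_lit 236028780477413980080) (ZL.cons (nat_lit 456) (nat_lit 6) (nat_lit 230818845324801875310) (ZL.cons (nat_lit 532) (nat_lit 3) (nat_lit 115274518822777759196) (ZL.cons (nat_lit 608) (nat_lit 6) (nat_lit 225348413414559165306) (ZL.cons (nat_lit 684) (nat_lit 6) (nat_lit 220414525345779691406) (ZL.cons (nat_lit 760) (nat_lit 3) (nat_lit 110078782825629675741) (ZL.cons (nat_lit 836) (nat_lit 6) (nat_lit 215233942873561243812) (ZL.cons (nat_lit 912) (nat_lit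 6) (nat_lit 210565822170089370610) (ZL.cons (nat_lit 988) (nat_lit 3) (nat_lit 105160549325749285341) (ZL.cons (nat_lit 1064) (nat_lit 6) (nat_lit 205664295431443903746) (ZL.cons (nat_lit 1140) (nat_lit 6) (nat_lit 201252445586682827128) (ZL.cons (nat_lit 1216) (nat_lit 3) (nat_lit 100509687784488651695) (ZL.cons (nat_lit 1292) (nat_lit 6) (nat_lit 196620003249683696682) (ZL.cons (nat_lit 1368) (nat_lit 6) (nat_lit 192455703777564765512) (ZL.cons (nat_lit 1444) (nat_lit 3) (nat_lit 96116866166065466689) (ZL.cons (nat_lit 1520) (nat_lit 6) (nat_lit 188083189331839887782) (ZL.cons (nat_lit 1596) (nat_lit 6) (nat_lit 184158492003571771692) (ZL.cons (nat_lit 1672) (nat_lit 3) (nat_lit 91973545313484061020) (ZL.cons (nat_lit 1748) (nat_lit 6) (nat_lit 180037559808890249798) (ZL.cons (nat_lit 1824) (nat_lit 6) (nat_lit 176345288470896561830) (ZL.cons (nat_lit 1900) (nat_lit 3) (nat_lit 88071976913256066796)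 (ZL.cons (nat_lit 1976) (nat_lit 6) (nat_lit 172861485490753739836) (ZL.cons (nat_lit 2052) (nat_lit 6) (nat_lit 172468403566003189466) (ZL.cons (nat_lit 2128) (nat_lit 6) (nat_lit 169002157717219348504) (ZL.cons (nat_lit 2204) (nat_lit 3) (nat_lit 84405205218426613186) (ZL.cons (nat_lit 2280) (nat_lit 6) (nat_lit 165736963313853982514) (ZL.cons (nat_lit 2356) (nat_lit 6) (nat_lit 165362599575996315494) (ZL.cons (nat_lit 2432) (nat_lit 6) (nat_lit 162116761909954226092) (ZL.cons (nat_lit 2508) (nat_lit 3) (nat_lit 80967072726231340602) (ZL.cons (nat_lit 2584) (nat_lit 6) (nat_lit 159065169253807810334) (ZL.cons (nat_lit 2660) (nat_lit 6) (nat_lit 158708632360610032220) (ZL.cons (nat_lit 2736) (nat_lit 6) (nat_lit 155678380507362528902) (ZL.cons (nat_lit 2812) (nat_lit 3) (nat_lit 77752230035828147838) (ZL.cons (nat_lit 2888) (nat_lit 6) (nat_lit 152836175007355296240) (ZL.cons (nat_lit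 2964) (nat_lit 6) (nat_lit 152496616061452650416) (ZL.cons (nat_lit 3040) (nat_lit 6) (nat_lit 150175248704635936062) (ZL.cons (nat_lit 3116) (nat_lit 6) (nat_lit 149677938796641468720) (ZL.cons (nat_lit 3192) (nat_lit 3) (nat_lit 74756150143222528061) (ZL.cons (nat_lit 3268) (nat_lit 6) (nat_lit 147041717140877962052) (ZL.cons (nat_lit 3344) (nat_lit 6) (nat_lit 146718327668589727936) (ZL.cons (nat_lit 3420) (nat_lit 6) (nat_lit 144581674375934122070) (ZL.cons (nat_lit 3496) (nat_lit 6) (nat_lit 144108045892129867456) (ZL.cons (nat_lit 3572) (nat_lit 3) (nat_lit 71975147465019022969) (ZL.cons (nat_lit 3648) (nat_lit 6) (nat_lit 142291953257131511056) (ZL.cons (nat_lit 3724) (nat_lit 6) (nat_lit 141675240000454855970) (ZL.cons (nat_lit 3800) (nat_lit 6) (nat_lit 141367250026847013954) (ZL.cons (nat_lit 3876) (nat_lit 6) (nat_lit 139414117598584514880) (ZL.cons (nat_lit 3952) (nat_lit 6)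 (nat_lit 138963042852104272392) (ZL.cons (nat_lit 4028) (nat_lit 3) (nat_lit 69406401920294125947) (ZL.cons (nat_lit 4104) (nat_lit 6) (nat_lit 137319295061752486226) (ZL.cons (nat_lit 4180) (nat_lit 6) (nat_lit 136731949103012814718) (ZL.cons (nat_lit 4256) (nat_lit 6) (nat_lit 136438625318624393748) (ZL.cons (nat_lit 4332) (nat_lit 6) (nat_lit 135385784717252027086) (ZL.cons (nat_lit 4408) (nat_lit 6) (nat_lit 134668656651598613652) (ZL.cons (nat_lit 4484) (nat_lit 6) (nat_lit 134239061654950763662) (ZL.cons (nat_lit 4560) (nat_lit 3) (nat_lit 67047988441039181595) (ZL.cons (nat_lit 4636) (nat_lit 6) (nat_lit 132768252896786873480) (ZL.cons (nat_lit 4712) (nat_lit 6) (nat_lit 132208875793225281564) (ZL.cons (nat_lit 4788) (nat_lit 6) (nat_lit 131929519808093452072) (ZL.cons (nat_lit 4864) (nat_lit 6) (nat_lit 131026213067732804344) (ZL.cons (nat_lit 4940) (nat_lit 6) (nat_lit 130343233957586696308)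 (ZL.cons (nat_lit 5016) (nat_lit 6) (nat_lit 129934095865541124890) (ZL.cons (nat_lit 5092) (nat_lit 3) (nat_lit 64898912326640847935) (ZL.cons (nat_lit 5168) (nat_lit 6) (nat_lit 129438389450557706076) (ZL.cons (nat_lit 5244) (nat_lit 6) (nat_lit 128637694143664439834) (ZL.cons (nat_lit 5320) (nat_lit 6) (nat_lit 128104954045034352296) (ZL.cons (nat_lit 5396) (nat_lit 6) (nat_lit 127838900725861181350) (ZL.cons (nat_lit 5472) (nat_lit 6) (nat_lit 127088195542377744862) (ZL.cons (nat_lit 5548) (nat_lit 6) (nat_lit 126437739247000499118) (ZL.cons (nat_lit 5624) (nat_lit 6) (nat_lit 126048083921242812052) (ZL.cons (nat_lit 5700) (nat_lit 3) (nat_lit 62959150907164535063) (ZL.cons (nat_lit 5776) (nat_lit 6) (nat_lit 125691048871342595454) (ZL.cons (nat_lit 5852) (nat_lit 6) (nat_lit 124928481912396627606) (ZL.cons (nat_lit 5928) (nat_lit 6) (nat_lit 124421110389891782334) (ZL.cons (nat_lit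 6004) (nat_lit 6) (nat_lit 124167726276393524288) (ZL.cons (nat_lit 6080) (nat_lit 6) (nat_lit 124442927590866050780) (ZL.cons (nat_lit 6156) (nat_lit 6) (nat_lit 123573588571378442832) (ZL.cons (nat_lit 6232) (nat_lit 6) (nat_lit 122954106385304875456) (ZL.cons (nat_lit 6308) (nat_lit 6) (nat_lit 122583006075059459204) (ZL.cons (nat_lit 6384) (nat_lit 3) (nat_lit 61229702034237471542) (ZL.cons (nat_lit 6460) (nat_lit 6) (nat_lit 123340859983613642870) (ZL.cons (nat_lit 6536) (nat_lit 6) (nat_lit 122369833287419711020) (ZL.cons (nat_lit 6612) (nat_lit 6) (nat_lit 121643579040804503544) (ZL.cons (nat_lit 6688) (nat_lit 6) (nat_lit 121160368066990365188) (ZL.cons (nat_lit 6764) (nat_lit 6) (nat_lit 120919049863658690862) (ZL.cons (nat_lit 6840) (nat_lit 6) (nat_lit 121314349976511006620) (ZL.cons (nat_lit 6916) (nat_lit 6) (nat_lit 120486408053189475242) (ZL.cons (nat_lit 6992) (nat_lit 6)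 (nat_lit 119896425018833696786) (ZL.cons (nat_lit 7068) (nat_lit 6) (nat_lit 119542996151933300356) (ZL.cons (nat_lit 7144) (nat_lit 3) (nat_lit 59712639977593071075) (ZL.cons (nat_lit 7220) (nat_lit 6) (nat_lit 120404625583150166048) (ZL.cons (nat_lit 7296) (nat_lit 6) (nat_lit 119479838253441659524) (ZL.cons (nat_lit 7372) (nat_lit 6) (nat_lit 118788167542379557166) (ZL.cons (nat_lit 7448) (nat_lit 6) (nat_lit 118327966614937520636) (ZL.cons (nat_lit 7524) (nat_lit 6) (nat_lit 118098139754621640326) (ZL.cons (nat_lit 7600) (nat_lit 3) (nat_lit 58954815639000919652) (ZL.cons (nat_lit 7676) (nat_lit 6) (nat_lit 117978457500229926972) (ZL.cons (nat_lit 7752) (nat_lit 6) (nat_lit 118185100038871875900) (ZL.cons (nat_lit 7828) (nat_lit 6) (nat_lit 118530050899972071678) (ZL.cons (nat_lit 7904) (nat_lit 6) (nat_lit 119014131395104562392) (ZL.cons (nat_lit 7980) (nat_lit 6) (nat_lit 119638494096876806356)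 (ZL.cons (nat_lit 8056) (nat_lit 6) (nat_lit 118621473046799752072) (ZL.cons (nat_lit 8132) (nat_lit 6) (nat_lit 117832956929350674568) (ZL.cons (nat_lit 8208) (nat_lit 6) (nat_lit 117271068325202314136) (ZL.cons (nat_lit 8284) (nat_lit 6) (nat_lit 116934469404344793726) (ZL.cons (nat_lit 8360) (nat_lit 3) (nat_lit 58411179370388035811) (ZL.cons (nat_lit 8436) (nat_lit 6) (nat_lit 116493286487343670884) (ZL.cons (nat_lit 8512) (nat_lit 6) (nat_lit 116634380242911250604) (ZL.cons (nat_lit 8588) (nat_lit 6) (nat_lit 116916903691559666186) (ZL.cons (nat_lit 8664) (nat_lit 6) (nat_lit 117341529508166651950) (ZL.cons (nat_lit 8740) (nat_lit 6) (nat_lit 117909268706581272150) (ZL.cons (nat_lit 8816) (nat_lit 6) (nat_lit 117028518868763646886) (ZL.cons (nat_lit 8892) (nat_lit 6) (nat_lit 116369784858228311308) (ZL.cons (nat_lit 8968) (nat_lit 6) (nat_lit 115931498260664466996) (ZL.cons (nat_lit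 9044) (nat_lit 6) (nat_lit 115712615536554104792) (ZL.cons (nat_lit 9120) (nat_lit 3) (nat_lit 57606606454472465742) (ZL.cons (nat_lit 9196) (nat_lit 6) (nat_lit 115285480442284423536) (ZL.cons (nat_lit 9272) (nat_lit 6) (nat_lit 115502455107858469910) (ZL.cons (nat_lit 9348) (nat_lit 6) (nat_lit 115864653512013675478) (ZL.cons (nat_lit 9424) (nat_lit 6) (nat_lit 116372938031902790728) (ZL.cons (nat_lit 9500) (nat_lit 6) (nat_lit 115621970300998907390) (ZL.cons (nat_lit 9576) (nat_lit 6) (nat_lit 115086838297048087932) (ZL.cons (nat_lit 9652) (nat_lit 6) (nat_lit 114766267896231401826) (ZL.cons (nat_lit 9728) (nat_lit 3) (nat_lit 57329747917844880863) (ZL.cons (nat_lit 9804) (nat_lit 6) (nat_lit 114135188970799426062) (ZL.cons (nat_lit 9880) (nat_lit 6) (nat_lit 114283337414145384768) (ZL.cons (nat_lit 9956) (nat_lit 6) (nat_lit 114579987035226221128) (ZL.cons (nat_lit 10032) (nat_lit 6)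 (nat_lit 115025844142663556182) (ZL.cons (nat_lit 10108) (nat_lit 6) (nat_lit 114398478418344188964) (ZL.cons (nat_lit 10184) (nat_lit 6) (nat_lit 113981062611140527712) (ZL.cons (nat_lit 10260) (nat_lit 6) (nat_lit 113772602873892563710) (ZL.cons (nat_lit 10336) (nat_lit 3) (nat_lit 56590383519619218380) (ZL.cons (nat_lit 10412) (nat_lit 6) (nat_lit 113256647949244903414) (ZL.cons (nat_lit 10488) (nat_lit 6) (nat_lit 113484471348097652106) (ZL.cons (nat_lit 10564) (nat_lit 6) (nat_lit 113864779672460617952) (ZL.cons (nat_lit 10640) (nat_lit 6) (nat_lit 113355130144888408940) (ZL.cons (nat_lit 10716) (nat_lit 6) (nat_lit 113049825001253469792) (ZL.cons (nat_lit 10792) (nat_lit 3) (nat_lit 56474068662273572945) (ZL.cons (nat_lit 10868) (nat_lit 6) (nat_lit 112419942214431072318) (ZL.cons (nat_lit 10944) (nat_lit 6) (nat_lit 112575498079944328958) (ZL.cons (nat_lit 11020) (nat_lit 6) (nat_lit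 112886980182079207136) (ZL.cons (nat_lit 11096) (nat_lit 6) (nat_lit 112489441318075720228) (ZL.cons (nat_lit 11172) (nat_lit 6) (nat_lit 112290908234982421180) (ZL.cons (nat_lit 11248) (nat_lit 3) (nat_lit 55885614026596214990) (ZL.cons (nat_lit 11324) (nat_lit 6) (nat_lit 111850903008699219966) (ZL.cons (nat_lit 11400) (nat_lit 6) (nat_lit 112090117577494606092) (ZL.cons (nat_lit 11476) (nat_lit 6) (nat_lit 111799350774032759284) (ZL.cons (nat_lit 11552) (nat_lit 3) (nat_lit 55851252683822892069) (ZL.cons (nat_lit 11628) (nat_lit 6) (nat_lit 111308960908002217728) (ZL.cons (nat_lit 11704) (nat_lit 6) (nat_lit 111472294566791137200) (ZL.cons (nat_lit 11780) (nat_lit 6) (nat_lit 111283215440035614294) (ZL.cons (nat_lit 11856) (nat_lit 3) (nat_lit 55474190719759164689) (ZL.cons (nat_lit 11932) (nat_lit 6) (nat_lit 111032040142800458864) (ZL.cons (nat_lit 12008) (nat_lit 3) (nat_lit 55469903211215955552)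 (ZL.cons (nat_lit 12084) (nat_lit 6) (nat_lit 110768306080703545660) (ZL.cons (nat_lit 12160) (nat_lit 1) (nat_lit 18446744073709551617) ZL.nil))))))))))))))))))))))))))))))))))))))))))))))))))))))))))))))))))))))))))))))))))))))))))))))))))))))))))))))))))))))))))))))))))))))))))))))))))))))))))))))))

noncomputable def vl : XL := ⟨(nat_lit 0), (nat_lit 76), (nat_lit 161852951), (nat_lit 152), (nat_lit 157461008), (nat_lit 152), (nat_lit 157461008), (nat_lit 1), (nat_lit 4), (nat_lit 2), (nat_lit 5), (nat_lit 2), (nat_lit 4), (nat_lit 0), (nat_lit 0), (nat_lit 0)⟩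

noncomputable def cp0 : Nat := (nat_lit 14850912814093934993574721177054683358950616387409127049170608859060185657748366010906007590319145879925031225248341403572724971910757313835253148200658712344014565388755858481283445375468090040838534239944898492790170961172736328753480740887921596332882357388188980253575657809615242819851526314093435421936450633141505197943567747319263254451870916803296859308182501152215400334443005397521648397523451116432130071155000624491739649238986331503735877185094053640490514721948168919499874604319204936879645415376493050053979548317426779061572314109123011869671116929438475206997926844403112338666188678920715360067083774926475517519186753293256615357363271962369213726620519727941943359602308265259085489910964685298978710032288236810276881896669993760527409858503366294739514356628868163179286528498379797449606236434937237776895237047869212999450351578650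15241291325544718098747104822843938070977495396267522695886143111474199793452017246274511901484621026149797756990914176266227344677580539871141977024192316242700035925281238682221986127259161769815312066018509630381793606005614237284475507933441462201625732830786318819657607863537401637915035290395982141381735326173990794560477057496991422453547122074991458423841293498018347807472026851155007163811330588025183308228035785772337188500613814489524318425129173464156040655644030392094842028833884871549830233351426243753169260610977695860508078275558398148096423527434308002227570088780501757970125188853950931398588878538223048615215433699689240175197396859909436039457992797505941492622041494648831033312940373550398100393609564091666934302759902691939392370216854386215537090738834378317871184845534185314115476200234682163953151258528932791878380461987028903456358497015399902298150477593112148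96950816804822981648549639337491473963238294719587655178754404179306680650138975167939362704279104425661897761833556495451776112887323583869728634368493992551675849111923343331946304891386945724071878225845574991679352107382736871057738482997577278470107694982728366564652897320543250581817429799166838362999380889115874679752713887418421722819339132154743783746103258423178971555063253665650965917521506935473262231271405035211329876525207142283940546242134253976948532535253548859513844191027140565974073562127214646420633599353438096877670385170189616188458482361799879720633468105094658767452883456127901788809619590574801395117269730058050596515726129362021109282475273793146150105893574858212408718845542505330438283307527704453947748505954086294100442594499670304695065792993129311266913556237132125006764224140250704765298024143057792568490743585106667902641858316522574015390601483179836539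21843727640674771728499792941915680571089297171932693047118281247320520767121221000488387522972105835347977844385742979853354760962265414221991669314798871859045244093731646767075088679291526700160667876605379852860043155604144361871262510482317996920333510380105807361845070560266528254187735760290775232833448481280249928397668539565145575078479818423681721776618700742862590337771387792622190834579568053513551893022144489981994193028839975081149868208315450704406136451229918034439996196243781627472915901009917688179980554836302165872058564381649899788783086324120542859906446532841688592300291613697679462063676521804687871270027340691527271315760987185428497719017363979481605605455172433803992352586488616477577999249006344141485503455922198748436987363600486508475275601040248787716255255531061799138959242980332735836452254052048425532857990544065687588524153786265634057185119663409610813988707081394858042216461831637990361961826150945298513117826274396249553426800381734150333802690366749926325267309251054796800)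

noncomputable def cp1 : Nat := (nat_lit 17653972461346032194503440412751114146529665413580683552513061241034541385212677075214074767946633738750017708834473315910592433799221101106013176246792718735225293540278239441871732549846752344138706901967377703200980332900535708105203597094268628657764949086215901965156169149025513916949616030270445370117837857101966408293917811366665593828914316566152188119501483873165857489793762571656001964319521592331416458859336499969645022804749317181513815806065493910647089150598266316332767664173038437954400941317391486883610526281095613857115976571840783255484810220196944998727875297863314567950834675866973237770245824932656285492117050106391466084617782790436111123691662272457444102585055828530147176551660608536939660236085162662455331501404534780792497755322160060423581147034322698067931841427716669514232366857605468680160670674013268239314212785682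36607074841516282641005303833834569712490998148208617998889886309295651115931160737967479893215652687013758980740863253466384961297980863120138361384978735704431711084520813253411723505198372893773346656456281148437932056459004055707305737651562874707275157014947325944375462821971291224093874781806765086394458117886964156530934573603232310342966517561184029710297692428067319023497153604264879635861437389516315787327434834145015596711749629558238276042542513824788520323981833873813843808677838593046507113438252237273921783114530230705557285462373869758190839961401156830512037591104930317421655383238162937885144222130111693324326966316987014933858441197831308707126049248155805707811139536206691059746888147958841269789381267020488801952728097124539763440431361213825398712590481831015835972466575069108621925696368896995773286731871275152684823739610621630329739086913973048504640940645938110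49055271523774359753124077189923428500979881374257361347023640464860813772974466195197380352212592110923485344100086827955283040776482276956758443022411038816086198663172898308008221957101494845238973077491631716579456404771415139170831186518759003649258965325730206167900207439296514676209546718105582833086400344270838419837781545096353719889572884219031367814548624953184805339269964701626406536141010296276025083321564482153135795038931482996284516206991299782131580151816652410323957685789225016135951802133181434160430178804456916561667606738741332899299240506891375780572069034410722262156398664831750858699169893049549962064318102771413945049399706562971608599953737935970944322227158513982976350893264027141449777543747647546983669529294900994758038762335756335269963363587038539265346066929470688895602583276777771286685101426234850857653631742707544297409198373105930243726276551053031071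03613115317651698097226223153552866236472372803312306190347763949824175853352874999541947505083523511558353442465873435102286137020723802408019818026484226839582997314357595978323090173120784754183884442581216036661634503982221801964172458822577920552254680992491824087423580401392212338496014098922939378943157280086335775121651291332746913596760819888359511371751277905166725230033850411677381282286611881837622244134747389933956485319077233409599483979039850597027302857366731197302965172082375226588211036226491190899589259556195749965876703139180392796555206081692977577702764152023627826801282333521932161723645762682642285392109765075958398131812097858786931677626240146159424501269407339423481771617344089286166684250306304810031217686635819220847217394575556707085386364966955028056097018396840955431524486349934142758962418333604279844107176610867074908358102502201117809946178017243140433644572535784035942915267236547448718161394532725867333842237946577931908681691724280193130187179146163147630861387648571801600)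

noncomputable def rc0 : Nat := (nat_lit 15016860289028718996987223810889032570075036043915037219900081523149798982767552004685049356289407735866918541969648235347323206658626713377489020247808038921305136610642979336115749206104915360366302229313468608633362326552679390985433853354690714382644176910537743741635520527721447956516611552126432805027992045862291877548767702731184410198359635864568394046485827379919090414910410674122168251223649168877027468742946684125058980161393486259713705959087991398165161320329990701169952359202813702065825632397538574405084577613489865470311047376531577770610604904897137390613778786803695747117438159117166774331020962288742260833424304012703335693698438133024217497503553701646895324455768939902386354075271827751132882922126844714765932860764139271559613954296326525672238804778927735008101647823485464796166183229690994591390853049105061358545160241137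40673676308955093928968697990952225135835426430275414267352276612075375887051856413777868278960883964871751444459934106710354539900704495248110338299656586470875421024940233356644065497755976025007864293776296318620828953643813535538054628268774244960289165006408054087572772477289122653885123727297002873820068076528689856216869430330731916504303263648254381049360126446050559243915410059639309608124141306054087261400128820673834659436186719401228892284848499340222557287955258102071070470733567232136911783198763091031547253843154485680523918668130602694224532512594909954631819994978610148419543377574683417059513370448079541410359120149301271937264944663119901463576447472148495174676660099152806081451502025861210797774233804764532018623208404893265517934085748079002957509493206410046362412099054919197636295268693713260715100466311239014786227819924582967499169659311919664563855207336294118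57215400211299978511179043833117038033114833215158426404656564200232015192685416117220043155501535665232843293056494458481372549286584943488874170315522579642247136960381413483882683743603655372575535324164243451280999785050552779189604066853906761022117090793490085906843003498554952254803314768201054188206308360609392363266705321119343545679346498404877606482585546486172644262854674248294266204660365268020475152300608384130915960454777535877072488486720394034950526349802254996324339286548444231860401034793467191730399655504907316426258144666563828517172179887694462307503745933993091439199165800840460622921701294961587622106397889517556943241114870381962891466878013133119202088751713971686613534437357762675221689169999660441365983312106796220161426854036881541579222364790345195504567547311368043723003204649570867325401248166357150942993096921611199002417234493796970383975293905848720756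08655267081177733111445430971337765253688485215133158173664527901555079344419211879601045222845886598717571254648797397145091373206106777138689915082848614554469111911933370432569447125228652144611898272448434958998043997934390149927234897748981196477911474893184661464710381814315590101171510473910301272062731901130615665294387740307756278360177714897531812223796875624292232741250988711195980331296229795588901100235428883675106154297073893890750485381913306101077918742935654164136585930792179590040428364742810896891784530918205937803371843245446710366702387903307921378764060136045139858097594654315104724957191934693760375208872720908015076556749156393564427774657825806638966493607452567401666306682401846587890550028332005167305884947269512259816094360172010721575245555920389106712908268683024967230005517589924178333443954332754182324821211746048112414319062769760952272267114780834990543602581307450223486694775306353199168977308838661937320230572704561058711089479451065551282896684223829205128858131603461767168)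

noncomputable def rc1 : Nat := (nat_lit 15658853686346832690482472982180338420896146231207802691192585407659189799695031960290681114984787893958280397275600742244480029196609934396411716502596462294508226111038149677091248498780392630358961545444848745459301961188898835838962152333730346134415725632200078435837827616817876447527004787020623835697258395505497305085307442156001897042574999359644711958531682302654675554538495642761035313921255878507414772441511921436068494535728132223569140125285012699760065015037565952435501355091093999932398003914929502859651202069609649894386248848170825723797611773110161365002698008066911372416931062818668326531843677611027445581183280574152330863550860218055709595863826430482137041717280796153517846380623487303637791200405726225576162655257335286582824134028376258559971132120752088753157009593532210855110592026519461629796809641281122862540488884488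15369813476282027918640250182965435426926666249651633423165804962296940986368171717759546472149837932460884118758419455282205638700328201471696177205432544870474736641504646305611357831622148458847795119330692788355099501080183584572778442878623668362264258432556974334816434987993377101400653435078370573016436548997751852681926020451221885613476413845201832765480527695936439758641622691803486966028643519898030173465698593127634310514680980519885121436217113227511853094631603704783719358904796523082030298070685346197741858053622599805559889319319702861102316186176072311417842181677205742838421790205988431230357832096314174933035366036757546554553621924886566234187757006624852205940752909337053309386653230006441043995352196804652352216394802837754564529523134297360997882311890580300464771092221257733125075036037989003754749612574045323533714582161554467986058988488086808838822527088570837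65564975791349871907606014332991917099648768771174692427539541992253378568076355406373261164683114968220348416715090556276763343037860216875824153723548998207919001469040144982343989851280740363141668550988826443456255654803409632544680049840887919631107678952871969648842851814140250539579936827040960369885408251945258736062000633989157202850717322011934929201904533779808934194472864675747302831833603161851341605944133481178907215033765736081522074726956739580296498910165418259437212902636346693145427178900942839260281389137209484137187558259768253592375302878207686956718188663163319769536690354602420974592049197561745360143091015031776096672352610050331805392262008174504123854525892736898092055667534468096352060398674700440329675226742698426176507714853828819542053775320335296687020111965278032476801868223250302533290205923019623133512511943575041458139184199263089080777910838889980242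96809998261686816589348869701873497339501752910831080820923368239801615673257404085146218368035411922033374375797594414228945688748397664535380347526621782796078073939526605676753538827543231796212078255786215055861684915336459577928587804712278370669855600047820016422890483977586689860930371270511681050177629557422016858597213406828639085251782248984801289751315025407613507141437542123330377576506203803944752672205871185617393222099336544716801493372454373354736983557794451039057808349349753323083922243744671956107109027258601077913469820104450297367820613870869666878631307128276712498100271572486014143796830142459960750783388472226655440176967769155056360486803217742608712713144581842212509011970505569496904464731751812107231356869786336962379447058245192629580044492971783839251636530447828145453782849236245129931507303426628941214298931988339327592286504042655487139939465189511255030825850310651018337351090148779138566444716283890522869606056260188141638157062950173916574045920549685732889854645345160527872)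

noncomputable def rc2 : Nat := (nat_lit 16366417701300848948038988400373755221460220500032413743349684890772748639882405979591038362857388527739675589846623435664893488964736086597371766929710228600472752068008320468611982671178798209933829040930229387437753366831039976450386303215457787231593923630703271693244939732030883448538600934962074590597361800317880836044036187588449608429871272635909365273623735167558864957363164761786362161559005689429257248190464603212842250585702308653131375314488191092665897318426892392655866461783536494225549622232817168646417679341899587925876216677763679262056175282708395021940386150772435254851543064594828360019071167329109954790838382758425643164152730785960062606208900814116938623571763729450690892417247118804853323954067257998670206977416611981190512133959992213105837043604183437388495056290764738601381775708493574013274481068889094083947161941911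16664356161168422282132335520810614550014529977765695375602019710186255082294486257538773443617409142166238098938923460013712226751769743149105960368960205867165684659719203634349905432094980924587640695721952856639972266504737465083127442340821411786299024538683897886842763973676146650985211607288241209662400152995391712956554602316176718915005635542578703825772799324667239181363904627661919354142915488981548244532356448126830523080677147229472125160988772718413676553496708461619841153148811728770598275211991398411738296687142022184131953767209802084735703490237179897050371050506945065837511729077865143535159222462060631079157316057908557009440902977652281752419052401048041542084867126643153931258500489001618099684903596471443490222821067860366773121443716162249605895519886608845203725568352332308189471911670203598127835359203200988276970605858739910707353296350707968175530744791324337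27519860814913323954992180174070271253352030140342521047979436595115479179920444625565085964088989355353944199290793032377380280306464647951736037598126341357921783438755889490726685255335089153441197081033882505638990877788066980472327551022518470147902410216843315055584694038606842354994201885602275148886605157216593717295261871524402395440480135200748109906824343056947711791002825755478426381830792568857042947463747598400527796502701945981341849794042196121431721001132621299716094430819093758157572199633572439126957765078438075164840969468794862707180575978358229594328424221018284447428282074363343853423525275726732712548608051659557299356399949137265568693323771518099485537917628621641597300276415226005432031592990150008592406570908881237199516356393368562680184742193460371214380742824332935810472842809622899593747474516702409093530881618272289724005684452007380800243787433809494759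76457180168445243790484177942407587354864469915749023905262237621373627132061026023196261876346666651035336056567551887031087485311718867950551442985324432568637998068955693579534053629108750421232195700571440310704712984469307109175419138763505866756030844910683305971831146761657424158496687142788629166459796764534748615972628576439554754196097489251420287694516680321443055560887661277334509316727731851481751392656875522158358728517231613983134020818797088770442710085893461127325672884444185546007816087013860785462005762959251765915400465787103519598391724681836622513430683903295593325580010188986845485097338420536256944312135046758875454550779005049983835195701305610091298560665547870743095978335963064836013928622768819799379773120787161111139437111121471063627442255752098828552232564237212706820534421854427560177322359189529744442026758367843237023447024223836569558545212525883737734152006487898932817207302504754009056158113659354082643854886401363113827972961800505946207556054705211957443985789981909057536)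

noncomputable def rc3 : Nat := (nat_lit 17125849191990605994370329670855939576449947390924987651876170204912787908931547996398421930416265702922538022263457861823264063721813791676762384268104260123997832442101190098936699588729888634785974109535718873293145908695312114409536968466723144589309425781289722992497045024021574551260083439143720477083315715690106352319126697960146451387096654545292563264312356447022976053905085371361070011767754364810568011596377838539112284344063637474832954849969221230448850001378109932960206496804580980209735527489305935588843457445113174929067279386978270604630705630986383613375138326913745096946178341570854944795530778420077025923580376310029688914415653294188627737769767278980945920615193765391987552926950383719075383085210639972363384007477677323994077101609170748062020002671224396420831538184062182973527036023719137397416115101683962545213641124009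06315998639701542847852652695835930905723516143617594026661191016441670961342934151757656725988228040038941080562311094713649260154547063454862835754432618333198041416367529768004992178543024277850945896908312436844454226184297299142298923013051495518908729176876503890175855850541828290759195649957614589808734160673486029537630554261058106647726217811810329281821567237638945258914047228363142614240818259529742019408283573444101517215540469836320879831978844246436084563185481464999774938827376907949860559643924492455600135077247366931514391835136151974136449760342393573909340080722003393600082661755921680258151189611316207612810253371399611964575365196849063860135443693882735368164048604809616807375051418729781736635143140219977188878004181627382126323661941372222814806598033559731759737655172487268395038267676937965538847701781890401547335078059781940886092574498023011659022037619982994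64960498716323621473938305522617158140511018129887476767516179276764076914792302465071684969275860815104289906830190981301475404679703165903445903097625251865934790553554536089635809027027278198204326044110241585549048472792506895375308975486445105453566793450531936959091792809756344692883001668307020323964760793502780974935756550415988950541100722727026405144885884576956423708081883479995567219810041396646156864023304707682841078069686999691911168227246051130830519343897821979673649318366781307749161496170893572582830045061074598079414125951326273004378723682987840105935295235734333953486367660818319808905253874861100041559113518085365597682494127531474002025329732264311584900802419195481401320667332259218198810488429153802505914106261826559001513302165299932393215487381749178324315435818113681978293071031235548629503920991944641568182337249988029573340333399615418069661727285590696727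11832118486994465720795472630960623120985813143990490226404502469305808275657290326028884291906179509623665543684427824278828697084461590997046191803338038916066945549847190320835567057276660156298281110920628792049530969100424390099190714536864557558564683472566650034167609705672181232432736649629356949843104003315795114751601908940857063703934289884810993229080995567602742148018610691092961377721428363738772897122496822745939201406877638824633816945119925588365722612826995844044986917207645419361985206055725148410556547292891258237774906678055569655307650701846477815523458271739612739412019281982668628604825440715755238460840011892084814359791835001822855976875165537066581605974666769204037213814420912430743651997858505928279529321752568234879287251419853216223668754075405025727380824182805134762258422725747256925849072802858428259627752920127155057594780052628148989933300158874602803323972973160794753844009252723557613487862928616784307937132471259453895847248268031509516097360269027469382846644189573152768)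

noncomputable def rc4 : Nat := (nat_lit 17653972461346032194503440412751114146529665413580683552513061241034541385212677075214074767946633738750017708834473315910592433799221101106013176246792718735225293540278239441871732549846752344138706901967377703200980332900535708105203597094268628657764949086215901965156169149025513916949616030270445370117837857101966408293917811366665593828914316566152188119501483873165857489793762571656001964319521592331416458859336499969645022804749317181513815806065493910647089150598266316332767664173038437954400941317391486883610526281095613857115976571840783255484810220196944998727875297863314567950834675866973237770245824932656285492117050106391466084617782790436111123691662272457444102585055828530147176551660608536939660236085162662455331501404534780792497755322160060423581147034322698067931841427716669514232366857605468680160670674013268239314212785682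36607074841516282641005303833834569712490998148208617998889886309295651115931160737967479893215652687013758980740863253466384961297980863120138361384978735704431711084520813253411723505198372893773346656456281148437932056459004055707305737651562874707275157014947325944375462821971291224093874781806765086394458117886964156530934573603232310342966517561184029710297692428067319023497153604264879635861437389516315787327434834145015596711749629558238276042542513824788520323981833873813843808677838593046507113438252237273921783114530230705557285462373869758190839961401156830512037591104930317421655383238162937885144222130111693324326966316987014933858441197831308707126049248155805707811139536206691059746888147958841269789381267020488801952728097124539763440431361213825398712590481831015835972466575069108621925696368896995773286731871275152684823739610621630329739086913973048504640940645938110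49055271523774359753124077189923428500979881374257361347023640464860813772974466195197380352212592110923485344100086827955283040776482276956758443022411038816086198663172898308008221957101494845238973077491631716579456404771415139170831186518759003649258965325730206167900207439296514676209546718105582833086400344270838419837781545096353719889572884219031367814548624953184805339269964701626406536141010296276025083321564482153135795038931482996284516206991299782131580151816652410323957685789225016135951802133181434160430178804456916561667606738741332899299240506891375780572069034410722262156398664831750858699169893049549962064318102771413945049399706562971608599953737935970944322227158513982976350893264027141449777543747647546983669529294900994758038762335756335269963363587038539265346066929470688895602583276777771286685101426234850857653631742707544297409198373105930243726276551053031071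03613115317651698097226223153552866236472372803312306190347763949824175853352874999541947505083523511558353442465873435102286137020723802408019818026484226839582997314357595978323090173120784754183884442581216036661634503982221801964172458822577920552254680992491824087423580401392212338496014098922939378943157280086335775121651291332746913596760819888359511371751277905166725230033850411677381282286611881837622244134747389933956485319077233409599483979039850597027302857366731197302965172082375226588211036226491190899589259556195749965876703139180392796555206081692977577702764152023627826801282333521932161723645762682642285392109765075958398131812097858786931677626240146159424501269407339423481771617344089286166684250306304810031217686635819220847217394575556707085386364966955028056097018396840955431524486349934142758962418333604279844107176610867074908358102502201117809946178017243140433644572535784035942915267236547448718161394532725867333842237946577931908681691724280193130187179146163147630861387648571801600)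

end Vale.Agent.Lib.P154.PChain.BI.S4
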