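import Vale.Agent.Lib.P154.PChain.BI.R4_0

set_option linter.all false

namespace Vale.Agent.Lib.P154.PChain.BI.S5

open Vale.Agent.Lib.P154.Chain

noncomputable def pc0 : PT := (PT.nd (nat_lit 5216718) (PT.nd (nat_lit 4982406) (PT.nd (nat_lit 4841928) (PT.nd (nat_lit 4795050) (PT.nd (nat_lit 4748250) (PT.nd (nat_lit 4701450) PT.nil (PT.lf (nat_lit 76) (nat_lit 3) (nat_lit 1) (nat_lit 1) (nat_lit 175) (nat_lit 100) (nat_lit 175))) (PT.nd (nat_lit 78) (PT.lf (nat_lit 152) (nat_lit 6) (nat_lit 2) (nat_lit 3) (nat_lit 174) (nat_lit 101) (nat_lit 175)) (PT.lf (nat_lit 152) (nat_lit 6) (nat_lit 2) (nat_lit 1) (nat_lit 175) (nat_lit 101) (nat_lit 174)))) (PT.nd (nat_lit 78) (PT.lf (nat_lit 228) (nat_lit 6) (nat_lit 3) (nat_lit 3) (nat_lit 173) (nat_lit 102) (nat_lit 175)) (PT.nd (nat_lit 78) (PT.lf (nat_lit 304) (nat_lit 3) (nat_lit 4) (nat_lit 1) (nat_lit 174) (nat_lit 102) (nat_lit 174)) (PT.lf (nat_lit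 228) (nat_lit 6) (nat_lit 3) (nat_lit 1) (nat_lit 175) (nat_lit 102) (nat_lit 173))))) (PT.nd (nat_lit 46878) (PT.nd (nat_lit 78) (PT.lf (nat_lit 380) (nat_lit 6) (nat_lit 5) (nat_lit 3) (nat_lit 173) (nat_lit 103) (nat_lit 174)) (PT.nd (nat_lit 46722) (PT.lf (nat_lit 380) (nat_lit 6) (nat_lit 5) (nat_lit 1) (nat_lit 174) (nat_lit 103) (nat_lit 173)) (PT.lf (nat_lit 456) (nat_lit 6) (nat_lit 6) (nat_lit 3) (nat_lit 172) (nat_lit 104) (nat_lit 174)))) (PT.nd (nat_lit 46800) (PT.nd (nat_lit 78) (PT.lf (nat_lit 532) (nat_lit 3) (nat_lit 7) (nat_lit 1) (nat_lit 173) (nat_lit 104) (nat_lit 173)) (PT.lf (nat_lit 456) (nat_lit 6) (nat_lit 6) (nat_lit 1) (nat_lit 174) (nat_lit 104) (nat_lit 172))) (PT.nd (nat_lit 78) (PT.lf (nat_lit 608) (nat_lit 6) (nat_lit 8) (nat_lit 3) (nat_lit 172) (nat_lit 105) (nat_lit 173)) (PT.lf (nat_lit 608) (nat_lit 6) (nat_lit 8) (nat_lit 1) (nat_lit 173) (nat_lit 105)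 (nat_lit 172)))))) (PT.nd (nat_lit 93834) (PT.nd (nat_lit 46878) (PT.nd (nat_lit 78) (PT.lf (nat_lit 684) (nat_lit 6) (nat_lit 9) (nat_lit 3) (nat_lit 171) (nat_lit 106) (nat_lit 173)) (PT.nd (nat_lit 78) (PT.lf (nat_lit 760) (nat_lit 3) (nat_lit 10) (nat_lit 1) (nat_lit 172) (nat_lit 106) (nat_lit 172)) (PT.lf (nat_lit 684) (nat_lit 6) (nat_lit 9) (nat_lit 1) (nat_lit 173) (nat_lit 106) (nat_lit 171)))) (PT.nd (nat_lit 46800) (PT.nd (nat_lit 78) (PT.lf (nat_lit 836) (nat_lit 6) (nat_lit 11) (nat_lit 3) (nat_lit 171) (nat_lit 107) (nat_lit 172)) (PT.lf (nat_lit 836) (nat_lit 6) (nat_lit 11) (nat_lit 1) (nat_lit 172) (nat_lit 107) (nat_lit 171))) (PT.nd (nat_lit 78) (PT.lf (nat_lit 912) (nat_lit 6) (nat_lit 12) (nat_lit 3) (nat_lit 170) (nat_lit 108) (nat_lit 172)) (PT.lf (nat_lit 988) (nat_lit 3) (nat_lit 13) (nat_lit 1) (nat_lit 171) (nat_lit 108) (nat_lit 171))))) (PT.nd (nat_lit 93522) (PT.nd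 (nat_lit 46722) (PT.lf (nat_lit 912) (nat_lit 6) (nat_lit 12) (nat_lit 1) (nat_lit 172) (nat_lit 108) (nat_lit 170)) (PT.nd (nat_lit 78) (PT.lf (nat_lit 1064) (nat_lit 6) (nat_lit 14) (nat_lit 3) (nat_lit 170) (nat_lit 109) (nat_lit 171)) (PT.lf (nat_lit 1064) (nat_lit 6) (nat_lit 14) (nat_lit 1) (nat_lit 171) (nat_lit 109) (nat_lit 170)))) (PT.nd (nat_lit 156) (PT.nd (nat_lit 78) (PT.lf (nat_lit 1140) (nat_lit 6) (nat_lit 15) (nat_lit 3) (nat_lit 169) (nat_lit 110) (nat_lit 171)) (PT.lf (nat_lit 1216) (nat_lit 3) (nat_lit 16) (nat_lit 1) (nat_lit 170) (nat_lit 110) (nat_lit 170))) (PT.nd (nat_lit 46722) (PT.lf (nat_lit 1140) (nat_lit 6) (nat_lit 15) (nat_lit 1) (nat_lit 171) (nat_lit 110) (nat_lit 169)) (PT.lf (nat_lit 1292) (nat_lit 6) (nat_lit 17) (nat_lit 3) (nat_lit 169) (nat_lit 111) (nat_lit 170))))))) (PT.nd (nat_lit 234234) (PT.nd (nat_lit 140400) (PT.nd (nat_lit 46878) (PT.nd (nat_lit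 46722) (PT.lf (nat_lit 1292) (nat_lit 6) (nat_lit 17) (nat_lit 1) (nat_lit 170) (nat_lit 111) (nat_lit 169)) (PT.nd (nat_lit 78) (PT.lf (nat_lit 1368) (nat_lit 6) (nat_lit 18) (nat_lit 3) (nat_lit 168) (nat_lit 112) (nat_lit 170)) (PT.lf (nat_lit 1444) (nat_lit 3) (nat_lit 19) (nat_lit 1) (nat_lit 169) (nat_lit 112) (nat_lit 169)))) (PT.nd (nat_lit 46722) (PT.lf (nat_lit 1368) (nat_lit 6) (nat_lit 18) (nat_lit 1) (nat_lit 170) (nat_lit 112) (nat_lit 168)) (PT.nd (nat_lit 78) (PT.lf (nat_lit 1520) (nat_lit 6) (nat_lit 20) (nat_lit 3) (nat_lit 168) (nat_lit 113) (nat_lit 169)) (PT.lf (nat_lit 1520) (nat_lit 6) (nat_lit 20) (nat_lit 1) (nat_lit 169) (nat_lit 113) (nat_lit 168))))) (PT.nd (nat_lit 46878) (PT.nd (nat_lit 78) (PT.lf (nat_lit 1596) (nat_lit 6) (nat_lit 21) (nat_lit 3) (nat_lit 167) (nat_lit 114) (nat_lit 169)) (PT.nd (nat_lit 78) (PT.lf (nat_lit 1672) (nat_lit 3) (nat_lit 22) (nat_lit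 1) (nat_lit 168) (nat_lit 114) (nat_lit 168)) (PT.lf (nat_lit 1596) (nat_lit 6) (nat_lit 21) (nat_lit 1) (nat_lit 169) (nat_lit 114) (nat_lit 167)))) (PT.nd (nat_lit 46800) (PT.nd (nat_lit 78) (PT.lf (nat_lit 1748) (nat_lit 6) (nat_lit 23) (nat_lit 3) (nat_lit 167) (nat_lit 115) (nat_lit 168)) (PT.lf (nat_lit 1748) (nat_lit 6) (nat_lit 23) (nat_lit 1) (nat_lit 168) (nat_lit 115) (nat_lit 167))) (PT.nd (nat_lit 78) (PT.lf (nat_lit 1824) (nat_lit 6) (nat_lit 24) (nat_lit 3) (nat_lit 166) (nat_lit 116) (nat_lit 168)) (PT.lf (nat_lit 1900) (nat_lit 3) (nat_lit 25) (nat_lit 1) (nat_lit 167) (nat_lit 116) (nat_lit 167)))))) (PT.nd (nat_lit 93678) (PT.nd (nat_lit 46800) (PT.nd (nat_lit 46644) (PT.lf (nat_lit 1824) (nat_lit 6) (nat_lit 24) (nat_lit 1) (nat_lit 168) (nat_lit 116) (nat_lit 166)) (PT.nd (nat_lit 78) (PT.lf (nat_lit 1976) (nat_lit 6) (nat_lit 26) (nat_lit 3) (nat_lit 165) (nat_lit 117)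 (nat_lit 168)) (PT.lf (nat_lit 2052) (nat_lit 6) (nat_lit 27) (nat_lit 3) (nat_lit 166) (nat_lit 117) (nat_lit 167)))) (PT.nd (nat_lit 46722) (PT.nd (nat_lit 78) (PT.lf (nat_lit 2052) (nat_lit 6) (nat_lit 27) (nat_lit 1) (nat_lit 167) (nat_lit 117) (nat_lit 166)) (PT.lf (nat_lit 1976) (nat_lit 6) (nat_lit 26) (nat_lit 1) (nat_lit 168) (nat_lit 117) (nat_lit 165))) (PT.nd (nat_lit 78) (PT.lf (nat_lit 2128) (nat_lit 6) (nat_lit 28) (nat_lit 3) (nat_lit 165) (nat_lit 118) (nat_lit 167)) (PT.lf (nat_lit 2204) (nat_lit 3) (nat_lit 29) (nat_lit 1) (nat_lit 166) (nat_lit 118) (nat_lit 166))))) (PT.nd (nat_lit 46800) (PT.nd (nat_lit 46644) (PT.lf (nat_lit 2128) (nat_lit 6) (nat_lit 28) (nat_lit 1) (nat_lit 167) (nat_lit 118) (nat_lit 165)) (PT.nd (nat_lit 78) (PT.lf (nat_lit 2280) (nat_lit 6) (nat_lit 30) (nat_lit 3) (nat_lit 164) (nat_lit 119) (nat_lit 167)) (PT.lf (nat_lit 2356) (nat_lit 6) (nat_lit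 31) (nat_lit 3) (nat_lit 165) (nat_lit 119) (nat_lit 166)))) (PT.nd (nat_lit 46722) (PT.nd (nat_lit 78) (PT.lf (nat_lit 2356) (nat_lit 6) (nat_lit 31) (nat_lit 1) (nat_lit 166) (nat_lit 119) (nat_lit 165)) (PT.lf (nat_lit 2280) (nat_lit 6) (nat_lit 30) (nat_lit 1) (nat_lit 167) (nat_lit 119) (nat_lit 164))) (PT.nd (nat_lit 78) (PT.lf (nat_lit 2432) (nat_lit 6) (nat_lit 32) (nat_lit 3) (nat_lit 164) (nat_lit 120) (nat_lit 166)) (PT.lf (nat_lit 2508) (nat_lit 3) (nat_lit 33) (nat_lit 1) (nat_lit 165) (nat_lit 120) (nat_lit 165))))))))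
noncomputable def pc1 : PT := (PT.nd (nat_lit 327678) (PT.nd (nat_lit 187200) (PT.nd (nat_lit 93600) (PT.nd (nat_lit 46800) (PT.nd (nat_lit 46644) (PT.lf (nat_lit 2432) (nat_lit 6) (nat_lit 32) (nat_lit 1) (nat_lit 166) (nat_lit 120) (nat_lit 164)) (PT.nd (nat_lit 78) (PT.lf (nat_lit 2584) (nat_lit 6) (nat_lit 34) (nat_lit 3) (nat_lit 163) (nat_lit 121) (nat_lit 166)) (PT.lf (nat_lit 2660) (nat_lit 6) (nat_lit 35) (nat_lit 3) (nat_lit 164) (nat_lit 121) (nat_lit 165)))) (PT.nd (nat_lit 78) (PT.lf (nat_lit 2660) (nat_lit 6) (nat_lit 35) (nat_lit 1) (nat_lit 165) (nat_lit 121) (nat_lit 164)) (PT.nd (nat_lit 46644) (PT.lf (nat_lit 2584) (nat_lit 6) (nat_lit 34) (nat_lit 1) (nat_lit 166) (nat_lit 121) (nat_lit 163)) (PT.lf (nat_lit 2736) (nat_lit 6) (nat_lit 36) (nat_lit 3) (nat_lit 163) (nat_lit 122) (nat_lit 165))))) (PT.nd (nat_lit 46800) (PT.nd (nat_lit 78) (PT.lf (nat_lit 2812) (nat_lit 3)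 (nat_lit 37) (nat_lit 1) (nat_lit 164) (nat_lit 122) (nat_lit 164)) (PT.nd (nat_lit 46644) (PT.lf (nat_lit 2736) (nat_lit 6) (nat_lit 36) (nat_lit 1) (nat_lit 165) (nat_lit 122) (nat_lit 163)) (PT.lf (nat_lit 2888) (nat_lit 6) (nat_lit 38) (nat_lit 3) (nat_lit 162) (nat_lit 123) (nat_lit 165)))) (PT.nd (nat_lit 156) (PT.nd (nat_lit 78) (PT.lf (nat_lit 2964) (nat_lit 6) (nat_lit 39) (nat_lit 3) (nat_lit 163) (nat_lit 123) (nat_lit 164)) (PT.lf (nat_lit 2964) (nat_lit 6) (nat_lit 39) (nat_lit 1) (nat_lit 164) (nat_lit 123) (nat_lit 163))) (PT.nd (nat_lit 46566) (PT.lf (nat_lit 2888) (nat_lit 6) (nat_lit 38) (nat_lit 1) (nat_lit 165) (nat_lit 123) (nat_lit 162)) (PT.lf (nat_lit 3040) (nat_lit 6) (nat_lit 40) (nat_lit 3) (nat_lit 161) (nat_lit 124) (nat_lit 165)))))) (PT.nd (nat_lit 47034) (PT.nd (nat_lit 234) (PT.nd (nat_lit 78) (PT.lf (nat_lit 3116) (nat_lit 6) (nat_lit 41) (nat_lit 3) (nat_lit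 162) (nat_lit 124) (nat_lit 164)) (PT.nd (nat_lit 78) (PT.lf (nat_lit 3192) (nat_lit 3) (nat_lit 42) (nat_lit 1) (nat_lit 163) (nat_lit 124) (nat_lit 163)) (PT.lf (nat_lit 3116) (nat_lit 6) (nat_lit 41) (nat_lit 1) (nat_lit 164) (nat_lit 124) (nat_lit 162)))) (PT.nd (nat_lit 46644) (PT.nd (nat_lit 46566) (PT.lf (nat_lit 3040) (nat_lit 6) (nat_lit 40) (nat_lit 1) (nat_lit 165) (nat_lit 124) (nat_lit 161)) (PT.lf (nat_lit 3268) (nat_lit 6) (nat_lit 43) (nat_lit 3) (nat_lit 161) (nat_lit 125) (nat_lit 164))) (PT.nd (nat_lit 78) (PT.lf (nat_lit 3344) (nat_lit 6) (nat_lit 44) (nat_lit 3) (nat_lit 162) (nat_lit 125) (nat_lit 163)) (PT.lf (nat_lit 3344) (nat_lit 6) (nat_lit 44) (nat_lit 1) (nat_lit 163) (nat_lit 125) (nat_lit 162))))) (PT.nd (nat_lit 46722) (PT.nd (nat_lit 46566) (PT.lf (nat_lit 3268) (nat_lit 6) (nat_lit 43) (nat_lit 1) (nat_lit 164) (nat_lit 125) (nat_lit 161)) (PT.nd (nat_lit 78)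 (PT.lf (nat_lit 3420) (nat_lit 6) (nat_lit 45) (nat_lit 3) (nat_lit 160) (nat_lit 126) (nat_lit 164)) (PT.lf (nat_lit 3496) (nat_lit 6) (nat_lit 46) (nat_lit 3) (nat_lit 161) (nat_lit 126) (nat_lit 163)))) (PT.nd (nat_lit 156) (PT.nd (nat_lit 78) (PT.lf (nat_lit 3572) (nat_lit 3) (nat_lit 47) (nat_lit 1) (nat_lit 162) (nat_lit 126) (nat_lit 162)) (PT.lf (nat_lit 3496) (nat_lit 6) (nat_lit 46) (nat_lit 1) (nat_lit 163) (nat_lit 126) (nat_lit 161))) (PT.nd (nat_lit 46488) (PT.lf (nat_lit 3420) (nat_lit 6) (nat_lit 45) (nat_lit 1) (nat_lit 164) (nat_lit 126) (nat_lit 160)) (PT.lf (nat_lit 3648) (nat_lit 6) (nat_lit 48) (nat_lit 3) (nat_lit 159) (nat_lit 127) (nat_lit 164))))))) (PT.nd (nat_lit 93834) (PT.nd (nat_lit 46878) (PT.nd (nat_lit 234) (PT.nd (nat_lit 78) (PT.lf (nat_lit 3724) (nat_lit 6) (nat_lit 49) (nat_lit 3) (nat_lit 160) (nat_lit 127) (nat_lit 163)) (PT.nd (nat_lit 78) (PT.lf (nat_lit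 3800) (nat_lit 6) (nat_lit 50) (nat_lit 3) (nat_lit 161) (nat_lit 127) (nat_lit 162)) (PT.lf (nat_lit 3800) (nat_lit 6) (nat_lit 50) (nat_lit 1) (nat_lit 162) (nat_lit 127) (nat_lit 161)))) (PT.nd (nat_lit 78) (PT.lf (nat_lit 3724) (nat_lit 6) (nat_lit 49) (nat_lit 1) (nat_lit 163) (nat_lit 127) (nat_lit 160)) (PT.nd (nat_lit 46488) (PT.lf (nat_lit 3648) (nat_lit 6) (nat_lit 48) (nat_lit 1) (nat_lit 164) (nat_lit 127) (nat_lit 159)) (PT.lf (nat_lit 3876) (nat_lit 6) (nat_lit 51) (nat_lit 3) (nat_lit 159) (nat_lit 128) (nat_lit 163))))) (PT.nd (nat_lit 234) (PT.nd (nat_lit 78) (PT.lf (nat_lit 3952) (nat_lit 6) (nat_lit 52) (nat_lit 3) (nat_lit 160) (nat_lit 128) (nat_lit 162)) (PT.nd (nat_lit 78) (PT.lf (nat_lit 4028) (nat_lit 3) (nat_lit 53) (nat_lit 1) (nat_lit 161) (nat_lit 128) (nat_lit 161)) (PT.lf (nat_lit 3952) (nat_lit 6) (nat_lit 52) (nat_lit 1) (nat_lit 162) (nat_lit 128) (nat_lit 160))))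 (PT.nd (nat_lit 46566) (PT.nd (nat_lit 46488) (PT.lf (nat_lit 3876) (nat_lit 6) (nat_lit 51) (nat_lit 1) (nat_lit 163) (nat_lit 128) (nat_lit 159)) (PT.lf (nat_lit 4104) (nat_lit 6) (nat_lit 54) (nat_lit 3) (nat_lit 158) (nat_lit 129) (nat_lit 163))) (PT.nd (nat_lit 78) (PT.lf (nat_lit 4180) (nat_lit 6) (nat_lit 55) (nat_lit 3) (nat_lit 159) (nat_lit 129) (nat_lit 162)) (PT.lf (nat_lit 4256) (nat_lit 6) (nat_lit 56) (nat_lit 3) (nat_lit 160) (nat_lit 129) (nat_lit 161)))))) (PT.nd (nat_lit 46878) (PT.nd (nat_lit 46566) (PT.nd (nat_lit 78) (PT.lf (nat_lit 4256) (nat_lit 6) (nat_lit 56) (nat_lit 1) (nat_lit 161) (nat_lit 129) (nat_lit 160)) (PT.nd (nat_lit 78) (PT.lf (nat_lit 4180) (nat_lit 6) (nat_lit 55) (nat_lit 1) (nat_lit 162) (nat_lit 129) (nat_lit 159)) (PT.lf (nat_lit 4104) (nat_lit 6) (nat_lit 54) (nat_lit 1) (nat_lit 163) (nat_lit 129) (nat_lit 158)))) (PT.nd (nat_lit 156) (PT.nd (nat_lit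 78) (PT.lf (nat_lit 4332) (nat_lit 6) (nat_lit 57) (nat_lit 3) (nat_lit 157) (nat_lit 130) (nat_lit 163)) (PT.lf (nat_lit 4408) (nat_lit 6) (nat_lit 58) (nat_lit 3) (nat_lit 158) (nat_lit 130) (nat_lit 162))) (PT.nd (nat_lit 78) (PT.lf (nat_lit 4484) (nat_lit 6) (nat_lit 59) (nat_lit 3) (nat_lit 159) (nat_lit 130) (nat_lit 161)) (PT.lf (nat_lit 4560) (nat_lit 3) (nat_lit 60) (nat_lit 1) (nat_lit 160) (nat_lit 130) (nat_lit 160))))) (PT.nd (nat_lit 46566) (PT.nd (nat_lit 78) (PT.lf (nat_lit 4484) (nat_lit 6) (nat_lit 59) (nat_lit 1) (nat_lit 161) (nat_lit 130) (nat_lit 159)) (PT.nd (nat_lit 78) (PT.lf (nat_lit 4408) (nat_lit 6) (nat_lit 58) (nat_lit 1) (nat_lit 162) (nat_lit 130) (nat_lit 158)) (PT.lf (nat_lit 4332) (nat_lit 6) (nat_lit 57) (nat_lit 1) (nat_lit 163) (nat_lit 130) (nat_lit 157)))) (PT.nd (nat_lit 156) (PT.nd (nat_lit 78) (PT.lf (nat_lit 4636) (nat_lit 6) (nat_lit 61) (nat_lit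 3) (nat_lit 157) (nat_lit 131) (nat_lit 162)) (PT.lf (nat_lit 4712) (nat_lit 6) (nat_lit 62) (nat_lit 3) (nat_lit 158) (nat_lit 131) (nat_lit 161))) (PT.nd (nat_lit 78) (PT.lf (nat_lit 4788) (nat_lit 6) (nat_lit 63) (nat_lit 3) (nat_lit 159) (nat_lit 131) (nat_lit 160)) (PT.lf (nat_lit 4788) (nat_lit 6) (nat_lit 63) (nat_lit 1) (nat_lit 160) (nat_lit 131) (nat_lit 159))))))))
noncomputable def pc2 : PT := (PT.nd (nat_lit 187200) (PT.nd (nat_lit 93600) (PT.nd (nat_lit 46800) (PT.nd (nat_lit 46566) (PT.nd (nat_lit 78) (PT.lf (nat_lit 4712) (nat_lit 6) (nat_lit 62) (nat_lit 1) (nat_lit 161) (nat_lit 131) (nat_lit 158)) (PT.nd (nat_lit 46410) (PT.lf (nat_lit 4636) (nat_lit 6) (nat_lit 61) (nat_lit 1) (nat_lit 162) (nat_lit 131) (nat_lit 157)) (PT.lf (nat_lit 4864) (nat_lit 6) (nat_lit 64) (nat_lit 3) (nat_lit 156) (nat_lit 132) (nat_lit 162)))) (PT.nd (nat_lit 78) (PT.lf (nat_lit 4940) (nat_lit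 6) (nat_lit 65) (nat_lit 3) (nat_lit 157) (nat_lit 132) (nat_lit 161)) (PT.nd (nat_lit 78) (PT.lf (nat_lit 5016) (nat_lit 6) (nat_lit 66) (nat_lit 3) (nat_lit 158) (nat_lit 132) (nat_lit 160)) (PT.lf (nat_lit 5092) (nat_lit 3) (nat_lit 67) (nat_lit 1) (nat_lit 159) (nat_lit 132) (nat_lit 159))))) (PT.nd (nat_lit 46488) (PT.nd (nat_lit 78) (PT.lf (nat_lit 5016) (nat_lit 6) (nat_lit 66) (nat_lit 1) (nat_lit 160) (nat_lit 132) (nat_lit 158)) (PT.nd (nat_lit 78) (PT.lf (nat_lit 4940) (nat_lit 6) (nat_lit 65) (nat_lit 1) (nat_lit 161) (nat_lit 132) (nat_lit 157)) (PT.lf (nat_lit 4864) (nat_lit 6) (nat_lit 64) (nat_lit 1) (nat_lit 162) (nat_lit 132) (nat_lit 156)))) (PT.nd (nat_lit 156) (PT.nd (nat_lit 78) (PT.lf (nat_lit 5168) (nat_lit 6) (nat_lit 68) (nat_lit 3) (nat_lit 155) (nat_lit 133) (nat_lit 162)) (PT.lf (nat_lit 5244) (nat_lit 6) (nat_lit 69) (nat_lit 3) (nat_lit 156) (nat_lit 133) (nat_lit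 161))) (PT.nd (nat_lit 78) (PT.lf (nat_lit 5320) (nat_lit 6) (nat_lit 70) (nat_lit 3) (nat_lit 157) (nat_lit 133) (nat_lit 160)) (PT.lf (nat_lit 5396) (nat_lit 6) (nat_lit 71) (nat_lit 3) (nat_lit 158) (nat_lit 133) (nat_lit 159)))))) (PT.nd (nat_lit 46800) (PT.nd (nat_lit 234) (PT.nd (nat_lit 78) (PT.lf (nat_lit 5396) (nat_lit 6) (nat_lit 71) (nat_lit 1) (nat_lit 159) (nat_lit 133) (nat_lit 158)) (PT.nd (nat_lit 78) (PT.lf (nat_lit 5320) (nat_lit 6) (nat_lit 70) (nat_lit 1) (nat_lit 160) (nat_lit 133) (nat_lit 157)) (PT.lf (nat_lit 5244) (nat_lit 6) (nat_lit 69) (nat_lit 1) (nat_lit 161) (nat_lit 133) (nat_lit 156)))) (PT.nd (nat_lit 46410) (PT.nd (nat_lit 46332) (PT.lf (nat_lit 5168) (nat_lit 6) (nat_lit 68) (nat_lit 1) (nat_lit 162) (nat_lit 133) (nat_lit 155)) (PT.lf (nat_lit 5472) (nat_lit 6) (nat_lit 72) (nat_lit 3) (nat_lit 155) (nat_lit 134) (nat_lit 161))) (PT.nd (nat_lit 78) (PT.lf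 (nat_lit 5548) (nat_lit 6) (nat_lit 73) (nat_lit 3) (nat_lit 156) (nat_lit 134) (nat_lit 160)) (PT.lf (nat_lit 5624) (nat_lit 6) (nat_lit 74) (nat_lit 3) (nat_lit 157) (nat_lit 134) (nat_lit 159))))) (PT.nd (nat_lit 234) (PT.nd (nat_lit 78) (PT.lf (nat_lit 5700) (nat_lit 3) (nat_lit 75) (nat_lit 1) (nat_lit 158) (nat_lit 134) (nat_lit 158)) (PT.nd (nat_lit 78) (PT.lf (nat_lit 5624) (nat_lit 6) (nat_lit 74) (nat_lit 1) (nat_lit 159) (nat_lit 134) (nat_lit 157)) (PT.lf (nat_lit 5548) (nat_lit 6) (nat_lit 73) (nat_lit 1) (nat_lit 160) (nat_lit 134) (nat_lit 156)))) (PT.nd (nat_lit 46410) (PT.nd (nat_lit 46332) (PT.lf (nat_lit 5472) (nat_lit 6) (nat_lit 72) (nat_lit 1) (nat_lit 161) (nat_lit 134) (nat_lit 155)) (PT.lf (nat_lit 5776) (nat_lit 6) (nat_lit 76) (nat_lit 3) (nat_lit 154) (nat_lit 135) (nat_lit 161))) (PT.nd (nat_lit 78) (PT.lf (nat_lit 5852) (nat_lit 6) (nat_lit 77) (nat_lit 3) (nat_lit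 155) (nat_lit 135) (nat_lit 160)) (PT.lf (nat_lit 5928) (nat_lit 6) (nat_lit 78) (nat_lit 3) (nat_lit 156) (nat_lit 135) (nat_lit 159))))))) (PT.nd (nat_lit 47190) (PT.nd (nat_lit 46644) (PT.nd (nat_lit 234) (PT.nd (nat_lit 78) (PT.lf (nat_lit 6004) (nat_lit 6) (nat_lit 79) (nat_lit 3) (nat_lit 157) (nat_lit 135) (nat_lit 158)) (PT.nd (nat_lit 78) (PT.lf (nat_lit 6004) (nat_lit 6) (nat_lit 79) (nat_lit 1) (nat_lit 158) (nat_lit 135) (nat_lit 157)) (PT.lf (nat_lit 5928) (nat_lit 6) (nat_lit 78) (nat_lit 1) (nat_lit 159) (nat_lit 135) (nat_lit 156)))) (PT.nd (nat_lit 78) (PT.lf (nat_lit 5852) (nat_lit 6) (nat_lit 77) (nat_lit 1) (nat_lit 160) (nat_lit 135) (nat_lit 155)) (PT.nd (nat_lit 46254) (PT.lf (nat_lit 5776) (nat_lit 6) (nat_lit 76) (nat_lit 1) (nat_lit 161) (nat_lit 135) (nat_lit 154)) (PT.lf (nat_lit 6080) (nat_lit 6) (nat_lit 80) (nat_lit 3) (nat_lit 153) (nat_lit 136) (nat_lit 161)))))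 (PT.nd (nat_lit 234) (PT.nd (nat_lit 78) (PT.lf (nat_lit 6156) (nat_lit 6) (nat_lit 81) (nat_lit 3) (nat_lit 154) (nat_lit 136) (nat_lit 160)) (PT.nd (nat_lit 78) (PT.lf (nat_lit 6232) (nat_lit 6) (nat_lit 82) (nat_lit 3) (nat_lit 155) (nat_lit 136) (nat_lit 159)) (PT.lf (nat_lit 6308) (nat_lit 6) (nat_lit 83) (nat_lit 3) (nat_lit 156) (nat_lit 136) (nat_lit 158)))) (PT.nd (nat_lit 156) (PT.nd (nat_lit 78) (PT.lf (nat_lit 6384) (nat_lit 3) (nat_lit 84) (nat_lit 1) (nat_lit 157) (nat_lit 136) (nat_lit 157)) (PT.lf (nat_lit 6308) (nat_lit 6) (nat_lit 83) (nat_lit 1) (nat_lit 158) (nat_lit 136) (nat_lit 156))) (PT.nd (nat_lit 78) (PT.lf (nat_lit 6232) (nat_lit 6) (nat_lit 82) (nat_lit 1) (nat_lit 159) (nat_lit 136) (nat_lit 155)) (PT.lf (nat_lit 6156) (nat_lit 6) (nat_lit 81) (nat_lit 1) (nat_lit 160) (nat_lit 136) (nat_lit 154)))))) (PT.nd (nat_lit 46644) (PT.nd (nat_lit 46332) (PT.nd (nat_lit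 46176) (PT.lf (nat_lit 6080) (nat_lit 6) (nat_lit 80) (nat_lit 1) (nat_lit 161) (nat_lit 136) (nat_lit 153)) (PT.nd (nat_lit 78) (PT.lf (nat_lit 6460) (nat_lit 6) (nat_lit 85) (nat_lit 3) (nat_lit 152) (nat_lit 137) (nat_lit 161)) (PT.lf (nat_lit 6536) (nat_lit 6) (nat_lit 86) (nat_lit 3) (nat_lit 153) (nat_lit 137) (nat_lit 160)))) (PT.nd (nat_lit 156) (PT.nd (nat_lit 78) (PT.lf (nat_lit 6612) (nat_lit 6) (nat_lit 87) (nat_lit 3) (nat_lit 154) (nat_lit 137) (nat_lit 159)) (PT.lf (nat_lit 6688) (nat_lit 6) (nat_lit 88) (nat_lit 3) (nat_lit 155) (nat_lit 137) (nat_lit 158))) (PT.nd (nat_lit 78) (PT.lf (nat_lit 6764) (nat_lit 6) (nat_lit 89) (nat_lit 3) (nat_lit 156) (nat_lit 137) (nat_lit 157)) (PT.lf (nat_lit 6764) (nat_lit 6) (nat_lit 89) (nat_lit 1) (nat_lit 157) (nat_lit 137) (nat_lit 156))))) (PT.nd (nat_lit 234) (PT.nd (nat_lit 78) (PT.lf (nat_lit 6688) (nat_lit 6) (nat_lit 88) (nat_lit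 1) (nat_lit 158) (nat_lit 137) (nat_lit 155)) (PT.nd (nat_lit 78) (PT.lf (nat_lit 6612) (nat_lit 6) (nat_lit 87) (nat_lit 1) (nat_lit 159) (nat_lit 137) (nat_lit 154)) (PT.lf (nat_lit 6536) (nat_lit 6) (nat_lit 86) (nat_lit 1) (nat_lit 160) (nat_lit 137) (nat_lit 153)))) (PT.nd (nat_lit 46254) (PT.nd (nat_lit 46176) (PT.lf (nat_lit 6460) (nat_lit 6) (nat_lit 85) (nat_lit 1) (nat_lit 161) (nat_lit 137) (nat_lit 152)) (PT.lf (nat_lit 6840) (nat_lit 6) (nat_lit 90) (nat_lit 3) (nat_lit 152) (nat_lit 138) (nat_lit 160))) (PT.nd (nat_lit 78) (PT.lf (nat_lit 6916) (nat_lit 6) (nat_lit 91) (nat_lit 3) (nat_lit 153) (nat_lit 138) (nat_lit 159)) (PT.lf (nat_lit 6992) (nat_lit 6) (nat_lit 92) (nat_lit 3) (nat_lit 154) (nat_lit 138) (nat_lit 158))))))))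
noncomputable def pc3 : PT := (PT.nd (nat_lit 140166) (PT.nd (nat_lit 47112) (PT.nd (nat_lit 46566) (PT.nd (nat_lit 234) (PT.nd (nat_lit 78) (PT.lf (nat_lit 7068) (nat_lit 6) (nat_lit 93) (nat_lit 3) (nat_lit 155) (nat_lit 138) (nat_lit 157)) (PT.nd (nat_lit 78) (PT.lf (nat_lit 7144) (nat_lit 3) (nat_lit 94) (nat_lit 1) (nat_lit 156) (nat_lit 138) (nat_lit 156)) (PT.lf (nat_lit 7068) (nat_lit 6) (nat_lit 93) (nat_lit 1) (nat_lit 157) (nat_lit 138) (nat_lit 155)))) (PT.nd (nat_lit 78) (PT.lf (nat_lit 6992) (nat_lit 6) (nat_lit 92) (nat_lit 1) (nat_lit 158) (nat_lit 138) (nat_lit 154)) (PT.nd (nat_lit 78) (PT.lf (nat_lit 6916) (nat_lit 6) (nat_lit 91) (nat_lit 1) (nat_lit 159) (nat_lit 138) (nat_lit 153)) (PT.lf (nat_lit 6840) (nat_lit 6) (nat_lit 90) (nat_lit 1) (nat_lit 160) (nat_lit 138) (nat_lit 152))))) (PT.nd (nat_lit 234) (PT.nd (nat_lit 78) (PT.lf (nat_lit 7220) (nat_lit 6) (nat_lit 95)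 (nat_lit 3) (nat_lit 151) (nat_lit 139) (nat_lit 160)) (PT.nd (nat_lit 78) (PT.lf (nat_lit 7296) (nat_lit 6) (nat_lit 96) (nat_lit 3) (nat_lit 152) (nat_lit 139) (nat_lit 159)) (PT.lf (nat_lit 7372) (nat_lit 6) (nat_lit 97) (nat_lit 3) (nat_lit 153) (nat_lit 139) (nat_lit 158)))) (PT.nd (nat_lit 156) (PT.nd (nat_lit 78) (PT.lf (nat_lit 7448) (nat_lit 6) (nat_lit 98) (nat_lit 3) (nat_lit 154) (nat_lit 139) (nat_lit 157)) (PT.lf (nat_lit 7524) (nat_lit 6) (nat_lit 99) (nat_lit 3) (nat_lit 155) (nat_lit 139) (nat_lit 156))) (PT.nd (nat_lit 78) (PT.lf (nat_lit 7524) (nat_lit 6) (nat_lit 99) (nat_lit 1) (nat_lit 156) (nat_lit 139) (nat_lit 155)) (PT.lf (nat_lit 7448) (nat_lit 6) (nat_lit 98) (nat_lit 1) (nat_lit 157) (nat_lit 139) (nat_lit 154)))))) (PT.nd (nat_lit 46566) (PT.nd (nat_lit 46254) (PT.nd (nat_lit 78) (PT.lf (nat_lit 7372) (nat_lit 6) (nat_lit 97) (nat_lit 1) (nat_lit 158) (nat_lit 139)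 (nat_lit 153)) (PT.nd (nat_lit 78) (PT.lf (nat_lit 7296) (nat_lit 6) (nat_lit 96) (nat_lit 1) (nat_lit 159) (nat_lit 139) (nat_lit 152)) (PT.lf (nat_lit 7220) (nat_lit 6) (nat_lit 95) (nat_lit 1) (nat_lit 160) (nat_lit 139) (nat_lit 151)))) (PT.nd (nat_lit 156) (PT.nd (nat_lit 78) (PT.lf (nat_lit 7980) (nat_lit 6) (nat_lit 105) (nat_lit 3) (nat_lit 150) (nat_lit 140) (nat_lit 160)) (PT.lf (nat_lit 8056) (nat_lit 6) (nat_lit 106) (nat_lit 3) (nat_lit 151) (nat_lit 140) (nat_lit 159))) (PT.nd (nat_lit 78) (PT.lf (nat_lit 8132) (nat_lit 6) (nat_lit 107) (nat_lit 3) (nat_lit 152) (nat_lit 140) (nat_lit 158)) (PT.lf (nat_lit 8208) (nat_lit 6) (nat_lit 108) (nat_lit 3) (nat_lit 153) (nat_lit 140) (nat_lit 157))))) (PT.nd (nat_lit 234) (PT.nd (nat_lit 78) (PT.lf (nat_lit 8284) (nat_lit 6) (nat_lit 109) (nat_lit 3) (nat_lit 154) (nat_lit 140) (nat_lit 156)) (PT.nd (nat_lit 78) (PT.lf (nat_lit 8360)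 (nat_lit 3) (nat_lit 110) (nat_lit 1) (nat_lit 155) (nat_lit 140) (nat_lit 155)) (PT.lf (nat_lit 8284) (nat_lit 6) (nat_lit 109) (nat_lit 1) (nat_lit 156) (nat_lit 140) (nat_lit 154)))) (PT.nd (nat_lit 156) (PT.nd (nat_lit 78) (PT.lf (nat_lit 8208) (nat_lit 6) (nat_lit 108) (nat_lit 1) (nat_lit 157) (nat_lit 140) (nat_lit 153)) (PT.lf (nat_lit 8132) (nat_lit 6) (nat_lit 107) (nat_lit 1) (nat_lit 158) (nat_lit 140) (nat_lit 152))) (PT.nd (nat_lit 78) (PT.lf (nat_lit 8056) (nat_lit 6) (nat_lit 106) (nat_lit 1) (nat_lit 159) (nat_lit 140) (nat_lit 151)) (PT.lf (nat_lit 7980) (nat_lit 6) (nat_lit 105) (nat_lit 1) (nat_lit 160) (nat_lit 140) (nat_lit 150))))))) (PT.nd (nat_lit 46878) (PT.nd (nat_lit 468) (PT.nd (nat_lit 234) (PT.nd (nat_lit 78) (PT.lf (nat_lit 7904) (nat_lit 6) (nat_lit 104) (nat_lit 3) (nat_lit 149) (nat_lit 141) (nat_lit 160)) (PT.nd (nat_lit 78) (PT.lf (nat_lit 8740) (nat_lit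 6) (nat_lit 115) (nat_lit 3) (nat_lit 150) (nat_lit 141) (nat_lit 159)) (PT.lf (nat_lit 8816) (nat_lit 6) (nat_lit 116) (nat_lit 3) (nat_lit 151) (nat_lit 141) (nat_lit 158)))) (PT.nd (nat_lit 78) (PT.lf (nat_lit 8892) (nat_lit 6) (nat_lit 117) (nat_lit 3) (nat_lit 152) (nat_lit 141) (nat_lit 157)) (PT.nd (nat_lit 78) (PT.lf (nat_lit 8968) (nat_lit 6) (nat_lit 118) (nat_lit 3) (nat_lit 153) (nat_lit 141) (nat_lit 156)) (PT.lf (nat_lit 9044) (nat_lit 6) (nat_lit 119) (nat_lit 3) (nat_lit 154) (nat_lit 141) (nat_lit 155))))) (PT.nd (nat_lit 234) (PT.nd (nat_lit 78) (PT.lf (nat_lit 9044) (nat_lit 6) (nat_lit 119) (nat_lit 1) (nat_lit 155) (nat_lit 141) (nat_lit 154)) (PT.nd (nat_lit 78) (PT.lf (nat_lit 8968) (nat_lit 6) (nat_lit 118) (nat_lit 1) (nat_lit 156) (nat_lit 141) (nat_lit 153)) (PT.lf (nat_lit 8892) (nat_lit 6) (nat_lit 117) (nat_lit 1) (nat_lit 157) (nat_lit 141) (nat_lit 152)))) (PT.nd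 (nat_lit 156) (PT.nd (nat_lit 78) (PT.lf (nat_lit 8816) (nat_lit 6) (nat_lit 116) (nat_lit 1) (nat_lit 158) (nat_lit 141) (nat_lit 151)) (PT.lf (nat_lit 8740) (nat_lit 6) (nat_lit 115) (nat_lit 1) (nat_lit 159) (nat_lit 141) (nat_lit 150))) (PT.nd (nat_lit 45942) (PT.lf (nat_lit 7904) (nat_lit 6) (nat_lit 104) (nat_lit 1) (nat_lit 160) (nat_lit 141) (nat_lit 149)) (PT.lf (nat_lit 7828) (nat_lit 6) (nat_lit 103) (nat_lit 3) (nat_lit 148) (nat_lit 142) (nat_lit 160)))))) (PT.nd (nat_lit 546) (PT.nd (nat_lit 234) (PT.nd (nat_lit 78) (PT.lf (nat_lit 8664) (nat_lit 6) (nat_lit 114) (nat_lit 3) (nat_lit 149) (nat_lit 142) (nat_lit 159)) (PT.nd (nat_lit 78) (PT.lf (nat_lit 9424) (nat_lit 6) (nat_lit 124) (nat_lit 3) (nat_lit 150) (nat_lit 142) (nat_lit 158)) (PT.lf (nat_lit 9500) (nat_lit 6) (nat_lit 125) (nat_lit 3) (nat_lit 151) (nat_lit 142) (nat_lit 157)))) (PT.nd (nat_lit 156) (PT.nd (nat_lit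 78) (PT.lf (nat_lit 9576) (nat_lit 6) (nat_lit 126) (nat_lit 3) (nat_lit 152) (nat_lit 142) (nat_lit 156)) (PT.lf (nat_lit 9652) (nat_lit 6) (nat_lit 127) (nat_lit 3) (nat_lit 153) (nat_lit 142) (nat_lit 155))) (PT.nd (nat_lit 78) (PT.lf (nat_lit 9728) (nat_lit 3) (nat_lit 128) (nat_lit 1) (nat_lit 154) (nat_lit 142) (nat_lit 154)) (PT.lf (nat_lit 9652) (nat_lit 6) (nat_lit 127) (nat_lit 1) (nat_lit 155) (nat_lit 142) (nat_lit 153))))) (PT.nd (nat_lit 234) (PT.nd (nat_lit 78) (PT.lf (nat_lit 9576) (nat_lit 6) (nat_lit 126) (nat_lit 1) (nat_lit 156) (nat_lit 142) (nat_lit 152)) (PT.nd (nat_lit 78) (PT.lf (nat_lit 9500) (nat_lit 6) (nat_lit 125) (nat_lit 1) (nat_lit 157) (nat_lit 142) (nat_lit 151)) (PT.lf (nat_lit 9424) (nat_lit 6) (nat_lit 124) (nat_lit 1) (nat_lit 158) (nat_lit 142) (nat_lit 150)))) (PT.nd (nat_lit 45942) (PT.nd (nat_lit 78) (PT.lf (nat_lit 8664) (nat_lit 6) (nat_lit 114) (nat_lit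 1) (nat_lit 159) (nat_lit 142) (nat_lit 149)) (PT.lf (nat_lit 7828) (nat_lit 6) (nat_lit 103) (nat_lit 1) (nat_lit 160) (nat_lit 142) (nat_lit 148))) (PT.nd (nat_lit 78) (PT.lf (nat_lit 7752) (nat_lit 6) (nat_lit 102) (nat_lit 3) (nat_lit 147) (nat_lit 143) (nat_lit 160)) (PT.lf (nat_lit 8588) (nat_lit 6) (nat_lit 113) (nat_lit 3) (nat_lit 148) (nat_lit 143) (nat_lit 159))))))))
noncomputable def pc4 : PT := (PT.nd (nat_lit 93444) (PT.nd (nat_lit 46722) (PT.nd (nat_lit 468) (PT.nd (nat_lit 234) (PT.nd (nat_lit 78) (PT.lf (nat_lit 9348) (nat_lit 6) (nat_lit 123) (nat_lit 3) (nat_lit 149) (nat_lit 143) (nat_lit 158)) (PT.nd (nat_lit 78) (PT.lf (nat_lit 10032) (nat_lit 6) (nat_lit 132) (nat_lit 3) (nat_lit 150) (nat_lit 143) (nat_lit 157)) (PT.lf (nat_lit 10108) (nat_lit 6) (nat_lit 133) (nat_lit 3) (nat_lit 151) (nat_lit 143) (nat_lit 156)))) (PT.nd (nat_lit 78) (PT.lf (nat_lit 10184) (nat_lit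 6) (nat_lit 134) (nat_lit 3) (nat_lit 152) (nat_lit 143) (nat_lit 155)) (PT.nd (nat_lit 78) (PT.lf (nat_lit 10260) (nat_lit 6) (nat_lit 135) (nat_lit 3) (nat_lit 153) (nat_lit 143) (nat_lit 154)) (PT.lf (nat_lit 10260) (nat_lit 6) (nat_lit 135) (nat_lit 1) (nat_lit 154) (nat_lit 143) (nat_lit 153))))) (PT.nd (nat_lit 234) (PT.nd (nat_lit 78) (PT.lf (nat_lit 10184) (nat_lit 6) (nat_lit 134) (nat_lit 1) (nat_lit 155) (nat_lit 143) (nat_lit 152)) (PT.nd (nat_lit 78) (PT.lf (nat_lit 10108) (nat_lit 6) (nat_lit 133) (nat_lit 1) (nat_lit 156) (nat_lit 143) (nat_lit 151)) (PT.lf (nat_lit 10032) (nat_lit 6) (nat_lit 132) (nat_lit 1) (nat_lit 157) (nat_lit 143) (nat_lit 150)))) (PT.nd (nat_lit 156) (PT.nd (nat_lit 78) (PT.lf (nat_lit 9348) (nat_lit 6) (nat_lit 123) (nat_lit 1) (nat_lit 158) (nat_lit 143) (nat_lit 149)) (PT.lf (nat_lit 8588) (nat_lit 6) (nat_lit 113) (nat_lit 1) (nat_lit 159) (nat_lit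 143) (nat_lit 148))) (PT.nd (nat_lit 45786) (PT.lf (nat_lit 7752) (nat_lit 6) (nat_lit 102) (nat_lit 1) (nat_lit 160) (nat_lit 143) (nat_lit 147)) (PT.lf (nat_lit 7676) (nat_lit 6) (nat_lit 101) (nat_lit 3) (nat_lit 146) (nat_lit 144) (nat_lit 160)))))) (PT.nd (nat_lit 546) (PT.nd (nat_lit 234) (PT.nd (nat_lit 78) (PT.lf (nat_lit 8512) (nat_lit 6) (nat_lit 112) (nat_lit 3) (nat_lit 147) (nat_lit 144) (nat_lit 159)) (PT.nd (nat_lit 78) (PT.lf (nat_lit 9272) (nat_lit 6) (nat_lit 122) (nat_lit 3) (nat_lit 148) (nat_lit 144) (nat_lit 158)) (PT.lf (nat_lit 9956) (nat_lit 6) (nat_lit 131) (nat_lit 3) (nat_lit 149) (nat_lit 144) (nat_lit 157)))) (PT.nd (nat_lit 156) (PT.nd (nat_lit 78) (PT.lf (nat_lit 10564) (nat_lit 6) (nat_lit 139) (nat_lit 3) (nat_lit 150) (nat_lit 144) (nat_lit 156)) (PT.lf (nat_lit 10640) (nat_lit 6) (nat_lit 140) (nat_lit 3) (nat_lit 151) (nat_lit 144) (nat_lit 155))) (PT.nd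 (nat_lit 78) (PT.lf (nat_lit 10716) (nat_lit 6) (nat_lit 141) (nat_lit 3) (nat_lit 152) (nat_lit 144) (nat_lit 154)) (PT.lf (nat_lit 10792) (nat_lit 3) (nat_lit 142) (nat_lit 1) (nat_lit 153) (nat_lit 144) (nat_lit 153))))) (PT.nd (nat_lit 234) (PT.nd (nat_lit 78) (PT.lf (nat_lit 10716) (nat_lit 6) (nat_lit 141) (nat_lit 1) (nat_lit 154) (nat_lit 144) (nat_lit 152)) (PT.nd (nat_lit 78) (PT.lf (nat_lit 10640) (nat_lit 6) (nat_lit 140) (nat_lit 1) (nat_lit 155) (nat_lit 144) (nat_lit 151)) (PT.lf (nat_lit 10564) (nat_lit 6) (nat_lit 139) (nat_lit 1) (nat_lit 156) (nat_lit 144) (nat_lit 150)))) (PT.nd (nat_lit 156) (PT.nd (nat_lit 78) (PT.lf (nat_lit 9956) (nat_lit 6) (nat_lit 131) (nat_lit 1) (nat_lit 157) (nat_lit 144) (nat_lit 149)) (PT.lf (nat_lit 9272) (nat_lit 6) (nat_lit 122) (nat_lit 1) (nat_lit 158) (nat_lit 144) (nat_lit 148))) (PT.nd (nat_lit 78) (PT.lf (nat_lit 8512) (nat_lit 6) (nat_lit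 112) (nat_lit 1) (nat_lit 159) (nat_lit 144) (nat_lit 147)) (PT.lf (nat_lit 7676) (nat_lit 6) (nat_lit 101) (nat_lit 1) (nat_lit 160) (nat_lit 144) (nat_lit 146))))))) (PT.nd (nat_lit 1014) (PT.nd (nat_lit 468) (PT.nd (nat_lit 234) (PT.nd (nat_lit 78) (PT.lf (nat_lit 7600) (nat_lit 3) (nat_lit 100) (nat_lit 3) (nat_lit 145) (nat_lit 145) (nat_lit 160)) (PT.nd (nat_lit 78) (PT.lf (nat_lit 8436) (nat_lit 6) (nat_lit 111) (nat_lit 3) (nat_lit 146) (nat_lit 145) (nat_lit 159)) (PT.lf (nat_lit 9196) (nat_lit 6) (nat_lit 121) (nat_lit 3) (nat_lit 147) (nat_lit 145) (nat_lit 158)))) (PT.nd (nat_lit 78) (PT.lf (nat_lit 9880) (nat_lit 6) (nat_lit 130) (nat_lit 3) (nat_lit 148) (nat_lit 145) (nat_lit 157)) (PT.nd (nat_lit 78) (PT.lf (nat_lit 10488) (nat_lit 6) (nat_lit 138) (nat_lit 3) (nat_lit 149) (nat_lit 145) (nat_lit 156)) (PT.lf (nat_lit 11020) (nat_lit 6) (nat_lit 145) (nat_lit 3) (nat_lit 150)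 (nat_lit 145) (nat_lit 155))))) (PT.nd (nat_lit 234) (PT.nd (nat_lit 78) (PT.lf (nat_lit 11096) (nat_lit 6) (nat_lit 146) (nat_lit 3) (nat_lit 151) (nat_lit 145) (nat_lit 154)) (PT.nd (nat_lit 78) (PT.lf (nat_lit 11172) (nat_lit 6) (nat_lit 147) (nat_lit 3) (nat_lit 152) (nat_lit 145) (nat_lit 153)) (PT.lf (nat_lit 11172) (nat_lit 6) (nat_lit 147) (nat_lit 1) (nat_lit 153) (nat_lit 145) (nat_lit 152)))) (PT.nd (nat_lit 156) (PT.nd (nat_lit 78) (PT.lf (nat_lit 11096) (nat_lit 6) (nat_lit 146) (nat_lit 1) (nat_lit 154) (nat_lit 145) (nat_lit 151)) (PT.lf (nat_lit 11020) (nat_lit 6) (nat_lit 145) (nat_lit 1) (nat_lit 155) (nat_lit 145) (nat_lit 150))) (PT.nd (nat_lit 78) (PT.lf (nat_lit 10488) (nat_lit 6) (nat_lit 138) (nat_lit 1) (nat_lit 156) (nat_lit 145) (nat_lit 149)) (PT.lf (nat_lit 9880) (nat_lit 6) (nat_lit 130) (nat_lit 1) (nat_lit 157) (nat_lit 145) (nat_lit 148)))))) (PT.nd (nat_lit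 46098) (PT.nd (nat_lit 45786) (PT.nd (nat_lit 78) (PT.lf (nat_lit 9196) (nat_lit 6) (nat_lit 121) (nat_lit 1) (nat_lit 158) (nat_lit 145) (nat_lit 147)) (PT.nd (nat_lit 78) (PT.lf (nat_lit 8436) (nat_lit 6) (nat_lit 111) (nat_lit 1) (nat_lit 159) (nat_lit 145) (nat_lit 146)) (PT.lf (nat_lit 7600) (nat_lit 3) (nat_lit 100) (nat_lit 0) (nat_lit 160) (nat_lit 145) (nat_lit 145)))) (PT.nd (nat_lit 156) (PT.nd (nat_lit 78) (PT.lf (nat_lit 7676) (nat_lit 6) (nat_lit 101) (nat_lit 5) (nat_lit 144) (nat_lit 146) (nat_lit 160)) (PT.lf (nat_lit 8436) (nat_lit 6) (nat_lit 111) (nat_lit 5) (nat_lit 145) (nat_lit 146) (nat_lit 159))) (PT.nd (nat_lit 78) (PT.lf (nat_lit 9120) (nat_lit 3) (nat_lit 120) (nat_lit 3) (nat_lit 146) (nat_lit 146) (nat_lit 158)) (PT.lf (nat_lit 9804) (nat_lit 6) (nat_lit 129) (nat_lit 3) (nat_lit 147) (nat_lit 146) (nat_lit 157))))) (PT.nd (nat_lit 234) (PT.nd (nat_lit 78) (PT.lf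 (nat_lit 10412) (nat_lit 6) (nat_lit 137) (nat_lit 3) (nat_lit 148) (nat_lit 146) (nat_lit 156)) (PT.nd (nat_lit 78) (PT.lf (nat_lit 10944) (nat_lit 6) (nat_lit 144) (nat_lit 3) (nat_lit 149) (nat_lit 146) (nat_lit 155)) (PT.lf (nat_lit 11400) (nat_lit 6) (nat_lit 150) (nat_lit 3) (nat_lit 150) (nat_lit 146) (nat_lit 154)))) (PT.nd (nat_lit 156) (PT.nd (nat_lit 78) (PT.lf (nat_lit 11476) (nat_lit 6) (nat_lit 151) (nat_lit 3) (nat_lit 151) (nat_lit 146) (nat_lit 153)) (PT.lf (nat_lit 11552) (nat_lit 3) (nat_lit 152) (nat_lit 1) (nat_lit 152) (nat_lit 146) (nat_lit 152))) (PT.nd (nat_lit 78) (PT.lf (nat_lit 11476) (nat_lit 6) (nat_lit 151) (nat_lit 1) (nat_lit 153) (nat_lit 146) (nat_lit 151)) (PT.lf (nat_lit 11400) (nat_lit 6) (nat_lit 150) (nat_lit 1) (nat_lit 154) (nat_lit 146) (nat_lit 150))))))))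
noncomputable def pc5 : PT := (PT.nd (nat_lit 92976) (PT.nd (nat_lit 46488) (PT.nd (nat_lit 45942) (PT.nd (nat_lit 234) (PT.nd (nat_lit 78) (PT.lf (nat_lit 10944) (nat_lit 6) (nat_lit 144) (nat_lit 1) (nat_lit 155) (nat_lit 146) (nat_lit 149)) (PT.nd (nat_lit 78) (PT.lf (nat_lit 10412) (nat_lit 6) (nat_lit 137) (nat_lit 1) (nat_lit 156) (nat_lit 146) (nat_lit 148)) (PT.lf (nat_lit 9804) (nat_lit 6) (nat_lit 129) (nat_lit 1) (nat_lit 157) (nat_lit 146) (nat_lit 147)))) (PT.nd (nat_lit 78) (PT.lf (nat_lit 9120) (nat_lit 3) (nat_lit 120) (nat_lit 0) (nat_lit 158) (nat_lit 146) (nat_lit 146)) (PT.nd (nat_lit 78) (PT.lf (nat_lit 8436) (nat_lit 6) (nat_lit 111) (nat_lit 0) (nat_lit 159) (nat_lit 146) (nat_lit 145)) (PT.lf (nat_lit 7676) (nat_lit 6) (nat_lit 101) (nat_lit 0) (nat_lit 160) (nat_lit 146) (nat_lit 144))))) (PT.nd (nat_lit 234) (PT.nd (nat_lit 78) (PT.lf (nat_lit 7752) (nat_lit 6) (nat_lit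 102) (nat_lit 5) (nat_lit 143) (nat_lit 147) (nat_lit 160)) (PT.nd (nat_lit 78) (PT.lf (nat_lit 8512) (nat_lit 6) (nat_lit 112) (nat_lit 5) (nat_lit 144) (nat_lit 147) (nat_lit 159)) (PT.lf (nat_lit 9196) (nat_lit 6) (nat_lit 121) (nat_lit 5) (nat_lit 145) (nat_lit 147) (nat_lit 158)))) (PT.nd (nat_lit 156) (PT.nd (nat_lit 78) (PT.lf (nat_lit 9804) (nat_lit 6) (nat_lit 129) (nat_lit 5) (nat_lit 146) (nat_lit 147) (nat_lit 157)) (PT.lf (nat_lit 10336) (nat_lit 3) (nat_lit 136) (nat_lit 3) (nat_lit 147) (nat_lit 147) (nat_lit 156))) (PT.nd (nat_lit 78) (PT.lf (nat_lit 10868) (nat_lit 6) (nat_lit 143) (nat_lit 3) (nat_lit 148) (nat_lit 147) (nat_lit 155)) (PT.lf (nat_lit 11324) (nat_lit 6) (nat_lit 149) (nat_lit 3) (nat_lit 149) (nat_lit 147) (nat_lit 154)))))) (PT.nd (nat_lit 546) (PT.nd (nat_lit 234) (PT.nd (nat_lit 78) (PT.lf (nat_lit 11704) (nat_lit 6) (nat_lit 154) (nat_lit 3) (nat_lit 150)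 (nat_lit 147) (nat_lit 153)) (PT.nd (nat_lit 78) (PT.lf (nat_lit 11780) (nat_lit 6) (nat_lit 155) (nat_lit 3) (nat_lit 151) (nat_lit 147) (nat_lit 152)) (PT.lf (nat_lit 11780) (nat_lit 6) (nat_lit 155) (nat_lit 1) (nat_lit 152) (nat_lit 147) (nat_lit 151)))) (PT.nd (nat_lit 156) (PT.nd (nat_lit 78) (PT.lf (nat_lit 11704) (nat_lit 6) (nat_lit 154) (nat_lit 1) (nat_lit 153) (nat_lit 147) (nat_lit 150)) (PT.lf (nat_lit 11324) (nat_lit 6) (nat_lit 149) (nat_lit 1) (nat_lit 154) (nat_lit 147) (nat_lit 149))) (PT.nd (nat_lit 78) (PT.lf (nat_lit 10868) (nat_lit 6) (nat_lit 143) (nat_lit 1) (nat_lit 155) (nat_lit 147) (nat_lit 148)) (PT.lf (nat_lit 10336) (nat_lit 3) (nat_lit 136) (nat_lit 0) (nat_lit 156) (nat_lit 147) (nat_lit 147))))) (PT.nd (nat_lit 234) (PT.nd (nat_lit 78) (PT.lf (nat_lit 9804) (nat_lit 6) (nat_lit 129) (nat_lit 0) (nat_lit 157) (nat_lit 147) (nat_lit 146)) (PT.nd (nat_lit 78)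 (PT.lf (nat_lit 9196) (nat_lit 6) (nat_lit 121) (nat_lit 0) (nat_lit 158) (nat_lit 147) (nat_lit 145)) (PT.lf (nat_lit 8512) (nat_lit 6) (nat_lit 112) (nat_lit 0) (nat_lit 159) (nat_lit 147) (nat_lit 144)))) (PT.nd (nat_lit 45552) (PT.nd (nat_lit 45474) (PT.lf (nat_lit 7752) (nat_lit 6) (nat_lit 102) (nat_lit 0) (nat_lit 160) (nat_lit 147) (nat_lit 143)) (PT.lf (nat_lit 7828) (nat_lit 6) (nat_lit 103) (nat_lit 5) (nat_lit 142) (nat_lit 148) (nat_lit 160))) (PT.nd (nat_lit 78) (PT.lf (nat_lit 8588) (nat_lit 6) (nat_lit 113) (nat_lit 5) (nat_lit 143) (nat_lit 148) (nat_lit 159)) (PT.lf (nat_lit 9272) (nat_lit 6) (nat_lit 122) (nat_lit 5) (nat_lit 144) (nat_lit 148) (nat_lit 158))))))) (PT.nd (nat_lit 1014) (PT.nd (nat_lit 468) (PT.nd (nat_lit 234) (PT.nd (nat_lit 78) (PT.lf (nat_lit 9880) (nat_lit 6) (nat_lit 130) (nat_lit 5) (nat_lit 145) (nat_lit 148) (nat_lit 157)) (PT.nd (nat_lit 78) (PT.lf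 (nat_lit 10412) (nat_lit 6) (nat_lit 137) (nat_lit 5) (nat_lit 146) (nat_lit 148) (nat_lit 156)) (PT.lf (nat_lit 10868) (nat_lit 6) (nat_lit 143) (nat_lit 5) (nat_lit 147) (nat_lit 148) (nat_lit 155)))) (PT.nd (nat_lit 78) (PT.lf (nat_lit 11248) (nat_lit 3) (nat_lit 148) (nat_lit 3) (nat_lit 148) (nat_lit 148) (nat_lit 154)) (PT.nd (nat_lit 78) (PT.lf (nat_lit 11628) (nat_lit 6) (nat_lit 153) (nat_lit 3) (nat_lit 149) (nat_lit 148) (nat_lit 153)) (PT.lf (nat_lit 11932) (nat_lit 6) (nat_lit 157) (nat_lit 3) (nat_lit 150) (nat_lit 148) (nat_lit 152))))) (PT.nd (nat_lit 234) (PT.nd (nat_lit 78) (PT.lf (nat_lit 12008) (nat_lit 3) (nat_lit 158) (nat_lit 1) (nat_lit 151) (nat_lit 148) (nat_lit 151)) (PT.nd (nat_lit 78) (PT.lf (nat_lit 11932) (nat_lit 6) (nat_lit 157) (nat_lit 1) (nat_lit 152) (nat_lit 148) (nat_lit 150)) (PT.lf (nat_lit 11628) (nat_lit 6) (nat_lit 153) (nat_lit 1) (nat_lit 153) (nat_lit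 148) (nat_lit 149)))) (PT.nd (nat_lit 156) (PT.nd (nat_lit 78) (PT.lf (nat_lit 11248) (nat_lit 3) (nat_lit 148) (nat_lit 0) (nat_lit 154) (nat_lit 148) (nat_lit 148)) (PT.lf (nat_lit 10868) (nat_lit 6) (nat_lit 143) (nat_lit 0) (nat_lit 155) (nat_lit 148) (nat_lit 147))) (PT.nd (nat_lit 78) (PT.lf (nat_lit 10412) (nat_lit 6) (nat_lit 137) (nat_lit 0) (nat_lit 156) (nat_lit 148) (nat_lit 146)) (PT.lf (nat_lit 9880) (nat_lit 6) (nat_lit 130) (nat_lit 0) (nat_lit 157) (nat_lit 148) (nat_lit 145)))))) (PT.nd (nat_lit 45864) (PT.nd (nat_lit 45552) (PT.nd (nat_lit 78) (PT.lf (nat_lit 9272) (nat_lit 6) (nat_lit 122) (nat_lit 0) (nat_lit 158) (nat_lit 148) (nat_lit 144)) (PT.nd (nat_lit 78) (PT.lf (nat_lit 8588) (nat_lit 6) (nat_lit 113) (nat_lit 0) (nat_lit 159) (nat_lit 148) (nat_lit 143)) (PT.lf (nat_lit 7828) (nat_lit 6) (nat_lit 103) (nat_lit 0) (nat_lit 160) (nat_lit 148) (nat_lit 142)))) (PT.nd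 (nat_lit 156) (PT.nd (nat_lit 78) (PT.lf (nat_lit 7904) (nat_lit 6) (nat_lit 104) (nat_lit 5) (nat_lit 141) (nat_lit 149) (nat_lit 160)) (PT.lf (nat_lit 8664) (nat_lit 6) (nat_lit 114) (nat_lit 5) (nat_lit 142) (nat_lit 149) (nat_lit 159))) (PT.nd (nat_lit 78) (PT.lf (nat_lit 9348) (nat_lit 6) (nat_lit 123) (nat_lit 5) (nat_lit 143) (nat_lit 149) (nat_lit 158)) (PT.lf (nat_lit 9956) (nat_lit 6) (nat_lit 131) (nat_lit 5) (nat_lit 144) (nat_lit 149) (nat_lit 157))))) (PT.nd (nat_lit 234) (PT.nd (nat_lit 78) (PT.lf (nat_lit 10488) (nat_lit 6) (nat_lit 138) (nat_lit 5) (nat_lit 145) (nat_lit 149) (nat_lit 156)) (PT.nd (nat_lit 78) (PT.lf (nat_lit 10944) (nat_lit 6) (nat_lit 144) (nat_lit 5) (nat_lit 146) (nat_lit 149) (nat_lit 155)) (PT.lf (nat_lit 11324) (nat_lit 6) (nat_lit 149) (nat_lit 5) (nat_lit 147) (nat_lit 149) (nat_lit 154)))) (PT.nd (nat_lit 156) (PT.nd (nat_lit 78) (PT.lf (nat_lit 11628)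 (nat_lit 6) (nat_lit 153) (nat_lit 5) (nat_lit 148) (nat_lit 149) (nat_lit 153)) (PT.lf (nat_lit 11856) (nat_lit 3) (nat_lit 156) (nat_lit 3) (nat_lit 149) (nat_lit 149) (nat_lit 152))) (PT.nd (nat_lit 78) (PT.lf (nat_lit 12084) (nat_lit 6) (nat_lit 159) (nat_lit 3) (nat_lit 150) (nat_lit 149) (nat_lit 151)) (PT.lf (nat_lit 12084) (nat_lit 6) (nat_lit 159) (nat_lit 1) (nat_lit 151) (nat_lit 149) (nat_lit 150))))))))
noncomputable def pc6 : PT := (PT.nd (nat_lit 47346) (PT.nd (nat_lit 46254) (PT.nd (nat_lit 468) (PT.nd (nat_lit 234) (PT.nd (nat_lit 78) (PT.lf (nat_lit 11856) (nat_lit 3) (nat_lit 156) (nat_lit 0) (nat_lit 152) (nat_lit 149) (nat_lit 149)) (PT.nd (nat_lit 78) (PT.lf (nat_lit 11628) (nat_lit 6) (nat_lit 153) (nat_lit 0) (nat_lit 153) (nat_lit 149) (nat_lit 148)) (PT.lf (nat_lit 11324) (nat_lit 6) (nat_lit 149) (nat_lit 0) (nat_lit 154) (nat_lit 149) (nat_lit 147)))) (PT.nd (nat_lit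 78) (PT.lf (nat_lit 10944) (nat_lit 6) (nat_lit 144) (nat_lit 0) (nat_lit 155) (nat_lit 149) (nat_lit 146)) (PT.nd (nat_lit 78) (PT.lf (nat_lit 10488) (nat_lit 6) (nat_lit 138) (nat_lit 0) (nat_lit 156) (nat_lit 149) (nat_lit 145)) (PT.lf (nat_lit 9956) (nat_lit 6) (nat_lit 131) (nat_lit 0) (nat_lit 157) (nat_lit 149) (nat_lit 144))))) (PT.nd (nat_lit 45474) (PT.nd (nat_lit 78) (PT.lf (nat_lit 9348) (nat_lit 6) (nat_lit 123) (nat_lit 0) (nat_lit 158) (nat_lit 149) (nat_lit 143)) (PT.nd (nat_lit 78) (PT.lf (nat_lit 8664) (nat_lit 6) (nat_lit 114) (nat_lit 0) (nat_lit 159) (nat_lit 149) (nat_lit 142)) (PT.lf (nat_lit 7904) (nat_lit 6) (nat_lit 104) (nat_lit 0) (nat_lit 160) (nat_lit 149) (nat_lit 141)))) (PT.nd (nat_lit 156) (PT.nd (nat_lit 78) (PT.lf (nat_lit 7980) (nat_lit 6) (nat_lit 105) (nat_lit 5) (nat_lit 140) (nat_lit 150) (nat_lit 160)) (PT.lf (nat_lit 8740) (nat_lit 6) (nat_lit 115)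 (nat_lit 5) (nat_lit 141) (nat_lit 150) (nat_lit 159))) (PT.nd (nat_lit 78) (PT.lf (nat_lit 9424) (nat_lit 6) (nat_lit 124) (nat_lit 5) (nat_lit 142) (nat_lit 150) (nat_lit 158)) (PT.lf (nat_lit 10032) (nat_lit 6) (nat_lit 132) (nat_lit 5) (nat_lit 143) (nat_lit 150) (nat_lit 157)))))) (PT.nd (nat_lit 546) (PT.nd (nat_lit 234) (PT.nd (nat_lit 78) (PT.lf (nat_lit 10564) (nat_lit 6) (nat_lit 139) (nat_lit 5) (nat_lit 144) (nat_lit 150) (nat_lit 156)) (PT.nd (nat_lit 78) (PT.lf (nat_lit 11020) (nat_lit 6) (nat_lit 145) (nat_lit 5) (nat_lit 145) (nat_lit 150) (nat_lit 155)) (PT.lf (nat_lit 11400) (nat_lit 6) (nat_lit 150) (nat_lit 5) (nat_lit 146) (nat_lit 150) (nat_lit 154)))) (PT.nd (nat_lit 156) (PT.nd (nat_lit 78) (PT.lf (nat_lit 11704) (nat_lit 6) (nat_lit 154) (nat_lit 5) (nat_lit 147) (nat_lit 150) (nat_lit 153)) (PT.lf (nat_lit 11932) (nat_lit 6) (nat_lit 157) (nat_lit 5) (nat_lit 148) (nat_lit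 150) (nat_lit 152))) (PT.nd (nat_lit 78) (PT.lf (nat_lit 12084) (nat_lit 6) (nat_lit 159) (nat_lit 5) (nat_lit 149) (nat_lit 150) (nat_lit 151)) (PT.lf (nat_lit 12160) (nat_lit 1) (nat_lit 160) (nat_lit 0) (nat_lit 150) (nat_lit 150) (nat_lit 150))))) (PT.nd (nat_lit 234) (PT.nd (nat_lit 78) (PT.lf (nat_lit 12084) (nat_lit 6) (nat_lit 159) (nat_lit 0) (nat_lit 151) (nat_lit 150) (nat_lit 149)) (PT.nd (nat_lit 78) (PT.lf (nat_lit 11932) (nat_lit 6) (nat_lit 157) (nat_lit 0) (nat_lit 152) (nat_lit 150) (nat_lit 148)) (PT.lf (nat_lit 11704) (nat_lit 6) (nat_lit 154) (nat_lit 0) (nat_lit 153) (nat_lit 150) (nat_lit 147)))) (PT.nd (nat_lit 156) (PT.nd (nat_lit 78) (PT.lf (nat_lit 11400) (nat_lit 6) (nat_lit 150) (nat_lit 0) (nat_lit 154) (nat_lit 150) (nat_lit 146)) (PT.lf (nat_lit 11020) (nat_lit 6) (nat_lit 145) (nat_lit 0) (nat_lit 155) (nat_lit 150) (nat_lit 145))) (PT.nd (nat_lit 78) (PT.lf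 (nat_lit 10564) (nat_lit 6) (nat_lit 139) (nat_lit 0) (nat_lit 156) (nat_lit 150) (nat_lit 144)) (PT.lf (nat_lit 10032) (nat_lit 6) (nat_lit 132) (nat_lit 0) (nat_lit 157) (nat_lit 150) (nat_lit 143))))))) (PT.nd (nat_lit 46176) (PT.nd (nat_lit 45630) (PT.nd (nat_lit 45396) (PT.nd (nat_lit 78) (PT.lf (nat_lit 9424) (nat_lit 6) (nat_lit 124) (nat_lit 0) (nat_lit 158) (nat_lit 150) (nat_lit 142)) (PT.nd (nat_lit 78) (PT.lf (nat_lit 8740) (nat_lit 6) (nat_lit 115) (nat_lit 0) (nat_lit 159) (nat_lit 150) (nat_lit 141)) (PT.lf (nat_lit 7980) (nat_lit 6) (nat_lit 105) (nat_lit 0) (nat_lit 160) (nat_lit 150) (nat_lit 140)))) (PT.nd (nat_lit 78) (PT.lf (nat_lit 7220) (nat_lit 6) (nat_lit 95) (nat_lit 5) (nat_lit 139) (nat_lit 151) (nat_lit 160)) (PT.nd (nat_lit 78) (PT.lf (nat_lit 8056) (nat_lit 6) (nat_lit 106) (nat_lit 5) (nat_lit 140) (nat_lit 151) (nat_lit 159)) (PT.lf (nat_lit 8816) (nat_lit 6)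 (nat_lit 116) (nat_lit 5) (nat_lit 141) (nat_lit 151) (nat_lit 158))))) (PT.nd (nat_lit 234) (PT.nd (nat_lit 78) (PT.lf (nat_lit 9500) (nat_lit 6) (nat_lit 125) (nat_lit 5) (nat_lit 142) (nat_lit 151) (nat_lit 157)) (PT.nd (nat_lit 78) (PT.lf (nat_lit 10108) (nat_lit 6) (nat_lit 133) (nat_lit 5) (nat_lit 143) (nat_lit 151) (nat_lit 156)) (PT.lf (nat_lit 10640) (nat_lit 6) (nat_lit 140) (nat_lit 5) (nat_lit 144) (nat_lit 151) (nat_lit 155)))) (PT.nd (nat_lit 156) (PT.nd (nat_lit 78) (PT.lf (nat_lit 11096) (nat_lit 6) (nat_lit 146) (nat_lit 5) (nat_lit 145) (nat_lit 151) (nat_lit 154)) (PT.lf (nat_lit 11476) (nat_lit 6) (nat_lit 151) (nat_lit 5) (nat_lit 146) (nat_lit 151) (nat_lit 153))) (PT.nd (nat_lit 78) (PT.lf (nat_lit 11780) (nat_lit 6) (nat_lit 155) (nat_lit 5) (nat_lit 147) (nat_lit 151) (nat_lit 152)) (PT.lf (nat_lit 12008) (nat_lit 3) (nat_lit 158) (nat_lit 4) (nat_lit 148) (nat_lit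 151) (nat_lit 151)))))) (PT.nd (nat_lit 546) (PT.nd (nat_lit 234) (PT.nd (nat_lit 78) (PT.lf (nat_lit 12084) (nat_lit 6) (nat_lit 159) (nat_lit 4) (nat_lit 149) (nat_lit 151) (nat_lit 150)) (PT.nd (nat_lit 78) (PT.lf (nat_lit 12084) (nat_lit 6) (nat_lit 159) (nat_lit 2) (nat_lit 150) (nat_lit 151) (nat_lit 149)) (PT.lf (nat_lit 12008) (nat_lit 3) (nat_lit 158) (nat_lit 0) (nat_lit 151) (nat_lit 151) (nat_lit 148)))) (PT.nd (nat_lit 156) (PT.nd (nat_lit 78) (PT.lf (nat_lit 11780) (nat_lit 6) (nat_lit 155) (nat_lit 0) (nat_lit 152) (nat_lit 151) (nat_lit 147)) (PT.lf (nat_lit 11476) (nat_lit 6) (nat_lit 151) (nat_lit 0) (nat_lit 153) (nat_lit 151) (nat_lit 146))) (PT.nd (nat_lit 78) (PT.lf (nat_lit 11096) (nat_lit 6) (nat_lit 146) (nat_lit 0) (nat_lit 154) (nat_lit 151) (nat_lit 145)) (PT.lf (nat_lit 10640) (nat_lit 6) (nat_lit 140) (nat_lit 0) (nat_lit 155) (nat_lit 151) (nat_lit 144))))) (PT.nd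 (nat_lit 234) (PT.nd (nat_lit 78) (PT.lf (nat_lit 10108) (nat_lit 6) (nat_lit 133) (nat_lit 0) (nat_lit 156) (nat_lit 151) (nat_lit 143)) (PT.nd (nat_lit 78) (PT.lf (nat_lit 9500) (nat_lit 6) (nat_lit 125) (nat_lit 0) (nat_lit 157) (nat_lit 151) (nat_lit 142)) (PT.lf (nat_lit 8816) (nat_lit 6) (nat_lit 116) (nat_lit 0) (nat_lit 158) (nat_lit 151) (nat_lit 141)))) (PT.nd (nat_lit 45162) (PT.nd (nat_lit 78) (PT.lf (nat_lit 8056) (nat_lit 6) (nat_lit 106) (nat_lit 0) (nat_lit 159) (nat_lit 151) (nat_lit 140)) (PT.lf (nat_lit 7220) (nat_lit 6) (nat_lit 95) (nat_lit 0) (nat_lit 160) (nat_lit 151) (nat_lit 139))) (PT.nd (nat_lit 78) (PT.lf (nat_lit 6460) (nat_lit 6) (nat_lit 85) (nat_lit 5) (nat_lit 137) (nat_lit 152) (nat_lit 161)) (PT.lf (nat_lit 6840) (nat_lit 6) (nat_lit 90) (nat_lit 5) (nat_lit 138) (nat_lit 152) (nat_lit 160))))))))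
noncomputable def pc7 : PT := (PT.nd (nat_lit 46956) (PT.nd (nat_lit 1014) (PT.nd (nat_lit 468) (PT.nd (nat_lit 234) (PT.nd (nat_lit 78) (PT.lf (nat_lit 7296) (nat_lit 6) (nat_lit 96) (nat_lit 5) (nat_lit 139) (nat_lit 152) (nat_lit 159)) (PT.nd (nat_lit 78) (PT.lf (nat_lit 8132) (nat_lit 6) (nat_lit 107) (nat_lit 5) (nat_lit 140) (nat_lit 152) (nat_lit 158)) (PT.lf (nat_lit 8892) (nat_lit 6) (nat_lit 117) (nat_lit 5) (nat_lit 141) (nat_lit 152) (nat_lit 157)))) (PT.nd (nat_lit 78) (PT.lf (nat_lit 9576) (nat_lit 6) (nat_lit 126) (nat_lit 5) (nat_lit 142) (nat_lit 152) (nat_lit 156)) (PT.nd (nat_lit 78) (PT.lf (nat_lit 10184) (nat_lit 6) (nat_lit 134) (nat_lit 5) (nat_lit 143) (nat_lit 152) (nat_lit 155)) (PT.lf (nat_lit 10716) (nat_lit 6) (nat_lit 141) (nat_lit 5) (nat_lit 144) (nat_lit 152) (nat_lit 154))))) (PT.nd (nat_lit 234) (PT.nd (nat_lit 78) (PT.lf (nat_lit 11172) (nat_lit 6) (nat_lit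 147) (nat_lit 5) (nat_lit 145) (nat_lit 152) (nat_lit 153)) (PT.nd (nat_lit 78) (PT.lf (nat_lit 11552) (nat_lit 3) (nat_lit 152) (nat_lit 4) (nat_lit 146) (nat_lit 152) (nat_lit 152)) (PT.lf (nat_lit 11780) (nat_lit 6) (nat_lit 155) (nat_lit 4) (nat_lit 147) (nat_lit 152) (nat_lit 151)))) (PT.nd (nat_lit 156) (PT.nd (nat_lit 78) (PT.lf (nat_lit 11932) (nat_lit 6) (nat_lit 157) (nat_lit 4) (nat_lit 148) (nat_lit 152) (nat_lit 150)) (PT.lf (nat_lit 11856) (nat_lit 3) (nat_lit 156) (nat_lit 2) (nat_lit 149) (nat_lit 152) (nat_lit 149))) (PT.nd (nat_lit 78) (PT.lf (nat_lit 11932) (nat_lit 6) (nat_lit 157) (nat_lit 2) (nat_lit 150) (nat_lit 152) (nat_lit 148)) (PT.lf (nat_lit 11780) (nat_lit 6) (nat_lit 155) (nat_lit 2) (nat_lit 151) (nat_lit 152) (nat_lit 147)))))) (PT.nd (nat_lit 546) (PT.nd (nat_lit 234) (PT.nd (nat_lit 78) (PT.lf (nat_lit 11552) (nat_lit 3) (nat_lit 152) (nat_lit 0) (nat_lit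 152) (nat_lit 152) (nat_lit 146)) (PT.nd (nat_lit 78) (PT.lf (nat_lit 11172) (nat_lit 6) (nat_lit 147) (nat_lit 0) (nat_lit 153) (nat_lit 152) (nat_lit 145)) (PT.lf (nat_lit 10716) (nat_lit 6) (nat_lit 141) (nat_lit 0) (nat_lit 154) (nat_lit 152) (nat_lit 144)))) (PT.nd (nat_lit 156) (PT.nd (nat_lit 78) (PT.lf (nat_lit 10184) (nat_lit 6) (nat_lit 134) (nat_lit 0) (nat_lit 155) (nat_lit 152) (nat_lit 143)) (PT.lf (nat_lit 9576) (nat_lit 6) (nat_lit 126) (nat_lit 0) (nat_lit 156) (nat_lit 152) (nat_lit 142))) (PT.nd (nat_lit 78) (PT.lf (nat_lit 8892) (nat_lit 6) (nat_lit 117) (nat_lit 0) (nat_lit 157) (nat_lit 152) (nat_lit 141)) (PT.lf (nat_lit 8132) (nat_lit 6) (nat_lit 107) (nat_lit 0) (nat_lit 158) (nat_lit 152) (nat_lit 140))))) (PT.nd (nat_lit 45084) (PT.nd (nat_lit 78) (PT.lf (nat_lit 7296) (nat_lit 6) (nat_lit 96) (nat_lit 0) (nat_lit 159) (nat_lit 152) (nat_lit 139)) (PT.nd (nat_lit 78)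 (PT.lf (nat_lit 6840) (nat_lit 6) (nat_lit 90) (nat_lit 0) (nat_lit 160) (nat_lit 152) (nat_lit 138)) (PT.lf (nat_lit 6460) (nat_lit 6) (nat_lit 85) (nat_lit 0) (nat_lit 161) (nat_lit 152) (nat_lit 137)))) (PT.nd (nat_lit 156) (PT.nd (nat_lit 78) (PT.lf (nat_lit 6080) (nat_lit 6) (nat_lit 80) (nat_lit 5) (nat_lit 136) (nat_lit 153) (nat_lit 161)) (PT.lf (nat_lit 6536) (nat_lit 6) (nat_lit 86) (nat_lit 5) (nat_lit 137) (nat_lit 153) (nat_lit 160))) (PT.nd (nat_lit 78) (PT.lf (nat_lit 6916) (nat_lit 6) (nat_lit 91) (nat_lit 5) (nat_lit 138) (nat_lit 153) (nat_lit 159)) (PT.lf (nat_lit 7372) (nat_lit 6) (nat_lit 97) (nat_lit 5) (nat_lit 139) (nat_lit 153) (nat_lit 158))))))) (PT.nd (nat_lit 1014) (PT.nd (nat_lit 468) (PT.nd (nat_lit 234) (PT.nd (nat_lit 78) (PT.lf (nat_lit 8208) (nat_lit 6) (nat_lit 108) (nat_lit 5) (nat_lit 140) (nat_lit 153) (nat_lit 157)) (PT.nd (nat_lit 78) (PT.lf (nat_lit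 8968) (nat_lit 6) (nat_lit 118) (nat_lit 5) (nat_lit 141) (nat_lit 153) (nat_lit 156)) (PT.lf (nat_lit 9652) (nat_lit 6) (nat_lit 127) (nat_lit 5) (nat_lit 142) (nat_lit 153) (nat_lit 155)))) (PT.nd (nat_lit 78) (PT.lf (nat_lit 10260) (nat_lit 6) (nat_lit 135) (nat_lit 5) (nat_lit 143) (nat_lit 153) (nat_lit 154)) (PT.nd (nat_lit 78) (PT.lf (nat_lit 10792) (nat_lit 3) (nat_lit 142) (nat_lit 4) (nat_lit 144) (nat_lit 153) (nat_lit 153)) (PT.lf (nat_lit 11172) (nat_lit 6) (nat_lit 147) (nat_lit 4) (nat_lit 145) (nat_lit 153) (nat_lit 152))))) (PT.nd (nat_lit 234) (PT.nd (nat_lit 78) (PT.lf (nat_lit 11476) (nat_lit 6) (nat_lit 151) (nat_lit 4) (nat_lit 146) (nat_lit 153) (nat_lit 151)) (PT.nd (nat_lit 78) (PT.lf (nat_lit 11704) (nat_lit 6) (nat_lit 154) (nat_lit 4) (nat_lit 147) (nat_lit 153) (nat_lit 150)) (PT.lf (nat_lit 11628) (nat_lit 6) (nat_lit 153) (nat_lit 4) (nat_lit 148) (nat_lit 153)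 (nat_lit 149)))) (PT.nd (nat_lit 156) (PT.nd (nat_lit 78) (PT.lf (nat_lit 11628) (nat_lit 6) (nat_lit 153) (nat_lit 2) (nat_lit 149) (nat_lit 153) (nat_lit 148)) (PT.lf (nat_lit 11704) (nat_lit 6) (nat_lit 154) (nat_lit 2) (nat_lit 150) (nat_lit 153) (nat_lit 147))) (PT.nd (nat_lit 78) (PT.lf (nat_lit 11476) (nat_lit 6) (nat_lit 151) (nat_lit 2) (nat_lit 151) (nat_lit 153) (nat_lit 146)) (PT.lf (nat_lit 11172) (nat_lit 6) (nat_lit 147) (nat_lit 2) (nat_lit 152) (nat_lit 153) (nat_lit 145)))))) (PT.nd (nat_lit 546) (PT.nd (nat_lit 234) (PT.nd (nat_lit 78) (PT.lf (nat_lit 10792) (nat_lit 3) (nat_lit 142) (nat_lit 0) (nat_lit 153) (nat_lit 153) (nat_lit 144)) (PT.nd (nat_lit 78) (PT.lf (nat_lit 10260) (nat_lit 6) (nat_lit 135) (nat_lit 0) (nat_lit 154) (nat_lit 153) (nat_lit 143)) (PT.lf (nat_lit 9652) (nat_lit 6) (nat_lit 127) (nat_lit 0) (nat_lit 155) (nat_lit 153) (nat_lit 142)))) (PT.nd (nat_lit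 156) (PT.nd (nat_lit 78) (PT.lf (nat_lit 8968) (nat_lit 6) (nat_lit 118) (nat_lit 0) (nat_lit 156) (nat_lit 153) (nat_lit 141)) (PT.lf (nat_lit 8208) (nat_lit 6) (nat_lit 108) (nat_lit 0) (nat_lit 157) (nat_lit 153) (nat_lit 140))) (PT.nd (nat_lit 78) (PT.lf (nat_lit 7372) (nat_lit 6) (nat_lit 97) (nat_lit 0) (nat_lit 158) (nat_lit 153) (nat_lit 139)) (PT.lf (nat_lit 6916) (nat_lit 6) (nat_lit 91) (nat_lit 0) (nat_lit 159) (nat_lit 153) (nat_lit 138))))) (PT.nd (nat_lit 45006) (PT.nd (nat_lit 78) (PT.lf (nat_lit 6536) (nat_lit 6) (nat_lit 86) (nat_lit 0) (nat_lit 160) (nat_lit 153) (nat_lit 137)) (PT.nd (nat_lit 44850) (PT.lf (nat_lit 6080) (nat_lit 6) (nat_lit 80) (nat_lit 0) (nat_lit 161) (nat_lit 153) (nat_lit 136)) (PT.lf (nat_lit 5776) (nat_lit 6) (nat_lit 76) (nat_lit 5) (nat_lit 135) (nat_lit 154) (nat_lit 161)))) (PT.nd (nat_lit 156) (PT.nd (nat_lit 78) (PT.lf (nat_lit 6156) (nat_lit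 6) (nat_lit 81) (nat_lit 5) (nat_lit 136) (nat_lit 154) (nat_lit 160)) (PT.lf (nat_lit 6612) (nat_lit 6) (nat_lit 87) (nat_lit 5) (nat_lit 137) (nat_lit 154) (nat_lit 159))) (PT.nd (nat_lit 78) (PT.lf (nat_lit 6992) (nat_lit 6) (nat_lit 92) (nat_lit 5) (nat_lit 138) (nat_lit 154) (nat_lit 158)) (PT.lf (nat_lit 7448) (nat_lit 6) (nat_lit 98) (nat_lit 5) (nat_lit 139) (nat_lit 154) (nat_lit 157))))))))
noncomputable def pc8 : PT := (PT.nd (nat_lit 46722) (PT.nd (nat_lit 1014) (PT.nd (nat_lit 468) (PT.nd (nat_lit 234) (PT.nd (nat_lit 78) (PT.lf (nat_lit 8284) (nat_lit 6) (nat_lit 109) (nat_lit 5) (nat_lit 140) (nat_lit 154) (nat_lit 156)) (PT.nd (nat_lit 78) (PT.lf (nat_lit 9044) (nat_lit 6) (nat_lit 119) (nat_lit 5) (nat_lit 141) (nat_lit 154) (nat_lit 155)) (PT.lf (nat_lit 9728) (nat_lit 3) (nat_lit 128) (nat_lit 4) (nat_lit 142) (nat_lit 154) (nat_lit 154)))) (PT.nd (nat_lit 78) (PT.lf (nat_lit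 10260) (nat_lit 6) (nat_lit 135) (nat_lit 4) (nat_lit 143) (nat_lit 154) (nat_lit 153)) (PT.nd (nat_lit 78) (PT.lf (nat_lit 10716) (nat_lit 6) (nat_lit 141) (nat_lit 4) (nat_lit 144) (nat_lit 154) (nat_lit 152)) (PT.lf (nat_lit 11096) (nat_lit 6) (nat_lit 146) (nat_lit 4) (nat_lit 145) (nat_lit 154) (nat_lit 151))))) (PT.nd (nat_lit 234) (PT.nd (nat_lit 78) (PT.lf (nat_lit 11400) (nat_lit 6) (nat_lit 150) (nat_lit 4) (nat_lit 146) (nat_lit 154) (nat_lit 150)) (PT.nd (nat_lit 78) (PT.lf (nat_lit 11324) (nat_lit 6) (nat_lit 149) (nat_lit 4) (nat_lit 147) (nat_lit 154) (nat_lit 149)) (PT.lf (nat_lit 11248) (nat_lit 3) (nat_lit 148) (nat_lit 2) (nat_lit 148) (nat_lit 154) (nat_lit 148)))) (PT.nd (nat_lit 156) (PT.nd (nat_lit 78) (PT.lf (nat_lit 11324) (nat_lit 6) (nat_lit 149) (nat_lit 2) (nat_lit 149) (nat_lit 154) (nat_lit 147)) (PT.lf (nat_lit 11400) (nat_lit 6) (nat_lit 150) (nat_lit 2) (nat_lit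 150) (nat_lit 154) (nat_lit 146))) (PT.nd (nat_lit 78) (PT.lf (nat_lit 11096) (nat_lit 6) (nat_lit 146) (nat_lit 2) (nat_lit 151) (nat_lit 154) (nat_lit 145)) (PT.lf (nat_lit 10716) (nat_lit 6) (nat_lit 141) (nat_lit 2) (nat_lit 152) (nat_lit 154) (nat_lit 144)))))) (PT.nd (nat_lit 546) (PT.nd (nat_lit 234) (PT.nd (nat_lit 78) (PT.lf (nat_lit 10260) (nat_lit 6) (nat_lit 135) (nat_lit 2) (nat_lit 153) (nat_lit 154) (nat_lit 143)) (PT.nd (nat_lit 78) (PT.lf (nat_lit 9728) (nat_lit 3) (nat_lit 128) (nat_lit 0) (nat_lit 154) (nat_lit 154) (nat_lit 142)) (PT.lf (nat_lit 9044) (nat_lit 6) (nat_lit 119) (nat_lit 0) (nat_lit 155) (nat_lit 154) (nat_lit 141)))) (PT.nd (nat_lit 156) (PT.nd (nat_lit 78) (PT.lf (nat_lit 8284) (nat_lit 6) (nat_lit 109) (nat_lit 0) (nat_lit 156) (nat_lit 154) (nat_lit 140)) (PT.lf (nat_lit 7448) (nat_lit 6) (nat_lit 98) (nat_lit 0) (nat_lit 157) (nat_lit 154) (nat_lit 139)))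 (PT.nd (nat_lit 78) (PT.lf (nat_lit 6992) (nat_lit 6) (nat_lit 92) (nat_lit 0) (nat_lit 158) (nat_lit 154) (nat_lit 138)) (PT.lf (nat_lit 6612) (nat_lit 6) (nat_lit 87) (nat_lit 0) (nat_lit 159) (nat_lit 154) (nat_lit 137))))) (PT.nd (nat_lit 44850) (PT.nd (nat_lit 78) (PT.lf (nat_lit 6156) (nat_lit 6) (nat_lit 81) (nat_lit 0) (nat_lit 160) (nat_lit 154) (nat_lit 136)) (PT.nd (nat_lit 44694) (PT.lf (nat_lit 5776) (nat_lit 6) (nat_lit 76) (nat_lit 0) (nat_lit 161) (nat_lit 154) (nat_lit 135)) (PT.lf (nat_lit 5168) (nat_lit 6) (nat_lit 68) (nat_lit 5) (nat_lit 133) (nat_lit 155) (nat_lit 162)))) (PT.nd (nat_lit 156) (PT.nd (nat_lit 78) (PT.lf (nat_lit 5472) (nat_lit 6) (nat_lit 72) (nat_lit 5) (nat_lit 134) (nat_lit 155) (nat_lit 161)) (PT.lf (nat_lit 5852) (nat_lit 6) (nat_lit 77) (nat_lit 5) (nat_lit 135) (nat_lit 155) (nat_lit 160))) (PT.nd (nat_lit 78) (PT.lf (nat_lit 6232) (nat_lit 6) (nat_lit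 82) (nat_lit 5) (nat_lit 136) (nat_lit 155) (nat_lit 159)) (PT.lf (nat_lit 6688) (nat_lit 6) (nat_lit 88) (nat_lit 5) (nat_lit 137) (nat_lit 155) (nat_lit 158))))))) (PT.nd (nat_lit 1014) (PT.nd (nat_lit 468) (PT.nd (nat_lit 234) (PT.nd (nat_lit 78) (PT.lf (nat_lit 7068) (nat_lit 6) (nat_lit 93) (nat_lit 5) (nat_lit 138) (nat_lit 155) (nat_lit 157)) (PT.nd (nat_lit 78) (PT.lf (nat_lit 7524) (nat_lit 6) (nat_lit 99) (nat_lit 5) (nat_lit 139) (nat_lit 155) (nat_lit 156)) (PT.lf (nat_lit 8360) (nat_lit 3) (nat_lit 110) (nat_lit 4) (nat_lit 140) (nat_lit 155) (nat_lit 155)))) (PT.nd (nat_lit 78) (PT.lf (nat_lit 9044) (nat_lit 6) (nat_lit 119) (nat_lit 4) (nat_lit 141) (nat_lit 155) (nat_lit 154)) (PT.nd (nat_lit 78) (PT.lf (nat_lit 9652) (nat_lit 6) (nat_lit 127) (nat_lit 4) (nat_lit 142) (nat_lit 155) (nat_lit 153)) (PT.lf (nat_lit 10184) (nat_lit 6) (nat_lit 134) (nat_lit 4) (nat_lit 143) (nat_lit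 155) (nat_lit 152))))) (PT.nd (nat_lit 234) (PT.nd (nat_lit 78) (PT.lf (nat_lit 10640) (nat_lit 6) (nat_lit 140) (nat_lit 4) (nat_lit 144) (nat_lit 155) (nat_lit 151)) (PT.nd (nat_lit 78) (PT.lf (nat_lit 11020) (nat_lit 6) (nat_lit 145) (nat_lit 4) (nat_lit 145) (nat_lit 155) (nat_lit 150)) (PT.lf (nat_lit 10944) (nat_lit 6) (nat_lit 144) (nat_lit 4) (nat_lit 146) (nat_lit 155) (nat_lit 149)))) (PT.nd (nat_lit 156) (PT.nd (nat_lit 78) (PT.lf (nat_lit 10868) (nat_lit 6) (nat_lit 143) (nat_lit 4) (nat_lit 147) (nat_lit 155) (nat_lit 148)) (PT.lf (nat_lit 10868) (nat_lit 6) (nat_lit 143) (nat_lit 2) (nat_lit 148) (nat_lit 155) (nat_lit 147))) (PT.nd (nat_lit 78) (PT.lf (nat_lit 10944) (nat_lit 6) (nat_lit 144) (nat_lit 2) (nat_lit 149) (nat_lit 155) (nat_lit 146)) (PT.lf (nat_lit 11020) (nat_lit 6) (nat_lit 145) (nat_lit 2) (nat_lit 150) (nat_lit 155) (nat_lit 145)))))) (PT.nd (nat_lit 546) (PT.nd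 (nat_lit 234) (PT.nd (nat_lit 78) (PT.lf (nat_lit 10640) (nat_lit 6) (nat_lit 140) (nat_lit 2) (nat_lit 151) (nat_lit 155) (nat_lit 144)) (PT.nd (nat_lit 78) (PT.lf (nat_lit 10184) (nat_lit 6) (nat_lit 134) (nat_lit 2) (nat_lit 152) (nat_lit 155) (nat_lit 143)) (PT.lf (nat_lit 9652) (nat_lit 6) (nat_lit 127) (nat_lit 2) (nat_lit 153) (nat_lit 155) (nat_lit 142)))) (PT.nd (nat_lit 156) (PT.nd (nat_lit 78) (PT.lf (nat_lit 9044) (nat_lit 6) (nat_lit 119) (nat_lit 2) (nat_lit 154) (nat_lit 155) (nat_lit 141)) (PT.lf (nat_lit 8360) (nat_lit 3) (nat_lit 110) (nat_lit 0) (nat_lit 155) (nat_lit 155) (nat_lit 140))) (PT.nd (nat_lit 78) (PT.lf (nat_lit 7524) (nat_lit 6) (nat_lit 99) (nat_lit 0) (nat_lit 156) (nat_lit 155) (nat_lit 139)) (PT.lf (nat_lit 7068) (nat_lit 6) (nat_lit 93) (nat_lit 0) (nat_lit 157) (nat_lit 155) (nat_lit 138))))) (PT.nd (nat_lit 234) (PT.nd (nat_lit 78) (PT.lf (nat_lit 6688)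 (nat_lit 6) (nat_lit 88) (nat_lit 0) (nat_lit 158) (nat_lit 155) (nat_lit 137)) (PT.nd (nat_lit 78) (PT.lf (nat_lit 6232) (nat_lit 6) (nat_lit 82) (nat_lit 0) (nat_lit 159) (nat_lit 155) (nat_lit 136)) (PT.lf (nat_lit 5852) (nat_lit 6) (nat_lit 77) (nat_lit 0) (nat_lit 160) (nat_lit 155) (nat_lit 135)))) (PT.nd (nat_lit 44616) (PT.nd (nat_lit 78) (PT.lf (nat_lit 5472) (nat_lit 6) (nat_lit 72) (nat_lit 0) (nat_lit 161) (nat_lit 155) (nat_lit 134)) (PT.lf (nat_lit 5168) (nat_lit 6) (nat_lit 68) (nat_lit 0) (nat_lit 162) (nat_lit 155) (nat_lit 133))) (PT.nd (nat_lit 78) (PT.lf (nat_lit 4864) (nat_lit 6) (nat_lit 64) (nat_lit 5) (nat_lit 132) (nat_lit 156) (nat_lit 162)) (PT.lf (nat_lit 5244) (nat_lit 6) (nat_lit 69) (nat_lit 5) (nat_lit 133) (nat_lit 156) (nat_lit 161))))))))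
noncomputable def pc9 : PT := (PT.nd (nat_lit 2106) (PT.nd (nat_lit 1014) (PT.nd (nat_lit 468) (PT.nd (nat_lit 234) (PT.nd (nat_lit 78) (PT.lf (nat_lit 5548) (nat_lit 6) (nat_lit 73) (nat_lit 5) (nat_lit 134) (nat_lit 156) (nat_lit 160)) (PT.nd (nat_lit 78) (PT.lf (nat_lit 5928) (nat_lit 6) (nat_lit 78) (nat_lit 5) (nat_lit 135) (nat_lit 156) (nat_lit 159)) (PT.lf (nat_lit 6308) (nat_lit 6) (nat_lit 83) (nat_lit 5) (nat_lit 136) (nat_lit 156) (nat_lit 158)))) (PT.nd (nat_lit 78) (PT.lf (nat_lit 6764) (nat_lit 6) (nat_lit 89) (nat_lit 5) (nat_lit 137) (nat_lit 156) (nat_lit 157)) (PT.nd (nat_lit 78) (PT.lf (nat_lit 7144) (nat_lit 3) (nat_lit 94) (nat_lit 4) (nat_lit 138) (nat_lit 156) (nat_lit 156)) (PT.lf (nat_lit 7524) (nat_lit 6) (nat_lit 99) (nat_lit 4) (nat_lit 139) (nat_lit 156) (nat_lit 155))))) (PT.nd (nat_lit 234) (PT.nd (nat_lit 78) (PT.lf (nat_lit 8284) (nat_lit 6) (nat_lit 109) (nat_lit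 4) (nat_lit 140) (nat_lit 156) (nat_lit 154)) (PT.nd (nat_lit 78) (PT.lf (nat_lit 8968) (nat_lit 6) (nat_lit 118) (nat_lit 4) (nat_lit 141) (nat_lit 156) (nat_lit 153)) (PT.lf (nat_lit 9576) (nat_lit 6) (nat_lit 126) (nat_lit 4) (nat_lit 142) (nat_lit 156) (nat_lit 152)))) (PT.nd (nat_lit 156) (PT.nd (nat_lit 78) (PT.lf (nat_lit 10108) (nat_lit 6) (nat_lit 133) (nat_lit 4) (nat_lit 143) (nat_lit 156) (nat_lit 151)) (PT.lf (nat_lit 10564) (nat_lit 6) (nat_lit 139) (nat_lit 4) (nat_lit 144) (nat_lit 156) (nat_lit 150))) (PT.nd (nat_lit 78) (PT.lf (nat_lit 10488) (nat_lit 6) (nat_lit 138) (nat_lit 4) (nat_lit 145) (nat_lit 156) (nat_lit 149)) (PT.lf (nat_lit 10412) (nat_lit 6) (nat_lit 137) (nat_lit 4) (nat_lit 146) (nat_lit 156) (nat_lit 148)))))) (PT.nd (nat_lit 546) (PT.nd (nat_lit 234) (PT.nd (nat_lit 78) (PT.lf (nat_lit 10336) (nat_lit 3) (nat_lit 136) (nat_lit 2) (nat_lit 147) (nat_lit 156)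 (nat_lit 147)) (PT.nd (nat_lit 78) (PT.lf (nat_lit 10412) (nat_lit 6) (nat_lit 137) (nat_lit 2) (nat_lit 148) (nat_lit 156) (nat_lit 146)) (PT.lf (nat_lit 10488) (nat_lit 6) (nat_lit 138) (nat_lit 2) (nat_lit 149) (nat_lit 156) (nat_lit 145)))) (PT.nd (nat_lit 156) (PT.nd (nat_lit 78) (PT.lf (nat_lit 10564) (nat_lit 6) (nat_lit 139) (nat_lit 2) (nat_lit 150) (nat_lit 156) (nat_lit 144)) (PT.lf (nat_lit 10108) (nat_lit 6) (nat_lit 133) (nat_lit 2) (nat_lit 151) (nat_lit 156) (nat_lit 143))) (PT.nd (nat_lit 78) (PT.lf (nat_lit 9576) (nat_lit 6) (nat_lit 126) (nat_lit 2) (nat_lit 152) (nat_lit 156) (nat_lit 142)) (PT.lf (nat_lit 8968) (nat_lit 6) (nat_lit 118) (nat_lit 2) (nat_lit 153) (nat_lit 156) (nat_lit 141))))) (PT.nd (nat_lit 234) (PT.nd (nat_lit 78) (PT.lf (nat_lit 8284) (nat_lit 6) (nat_lit 109) (nat_lit 2) (nat_lit 154) (nat_lit 156) (nat_lit 140)) (PT.nd (nat_lit 78) (PT.lf (nat_lit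 7524) (nat_lit 6) (nat_lit 99) (nat_lit 2) (nat_lit 155) (nat_lit 156) (nat_lit 139)) (PT.lf (nat_lit 7144) (nat_lit 3) (nat_lit 94) (nat_lit 0) (nat_lit 156) (nat_lit 156) (nat_lit 138)))) (PT.nd (nat_lit 156) (PT.nd (nat_lit 78) (PT.lf (nat_lit 6764) (nat_lit 6) (nat_lit 89) (nat_lit 0) (nat_lit 157) (nat_lit 156) (nat_lit 137)) (PT.lf (nat_lit 6308) (nat_lit 6) (nat_lit 83) (nat_lit 0) (nat_lit 158) (nat_lit 156) (nat_lit 136))) (PT.nd (nat_lit 78) (PT.lf (nat_lit 5928) (nat_lit 6) (nat_lit 78) (nat_lit 0) (nat_lit 159) (nat_lit 156) (nat_lit 135)) (PT.lf (nat_lit 5548) (nat_lit 6) (nat_lit 73) (nat_lit 0) (nat_lit 160) (nat_lit 156) (nat_lit 134))))))) (PT.nd (nat_lit 45318) (PT.nd (nat_lit 44772) (PT.nd (nat_lit 44538) (PT.nd (nat_lit 78) (PT.lf (nat_lit 5244) (nat_lit 6) (nat_lit 69) (nat_lit 0) (nat_lit 161) (nat_lit 156) (nat_lit 133)) (PT.nd (nat_lit 44382) (PT.lf (nat_lit 4864) (nat_lit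 6) (nat_lit 64) (nat_lit 0) (nat_lit 162) (nat_lit 156) (nat_lit 132)) (PT.lf (nat_lit 4332) (nat_lit 6) (nat_lit 57) (nat_lit 5) (nat_lit 130) (nat_lit 157) (nat_lit 163)))) (PT.nd (nat_lit 78) (PT.lf (nat_lit 4636) (nat_lit 6) (nat_lit 61) (nat_lit 5) (nat_lit 131) (nat_lit 157) (nat_lit 162)) (PT.nd (nat_lit 78) (PT.lf (nat_lit 4940) (nat_lit 6) (nat_lit 65) (nat_lit 5) (nat_lit 132) (nat_lit 157) (nat_lit 161)) (PT.lf (nat_lit 5320) (nat_lit 6) (nat_lit 70) (nat_lit 5) (nat_lit 133) (nat_lit 157) (nat_lit 160))))) (PT.nd (nat_lit 234) (PT.nd (nat_lit 78) (PT.lf (nat_lit 5624) (nat_lit 6) (nat_lit 74) (nat_lit 5) (nat_lit 134) (nat_lit 157) (nat_lit 159)) (PT.nd (nat_lit 78) (PT.lf (nat_lit 6004) (nat_lit 6) (nat_lit 79) (nat_lit 5) (nat_lit 135) (nat_lit 157) (nat_lit 158)) (PT.lf (nat_lit 6384) (nat_lit 3) (nat_lit 84) (nat_lit 4) (nat_lit 136) (nat_lit 157) (nat_lit 157)))) (PT.nd (nat_lit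 156) (PT.nd (nat_lit 78) (PT.lf (nat_lit 6764) (nat_lit 6) (nat_lit 89) (nat_lit 4) (nat_lit 137) (nat_lit 157) (nat_lit 156)) (PT.lf (nat_lit 7068) (nat_lit 6) (nat_lit 93) (nat_lit 4) (nat_lit 138) (nat_lit 157) (nat_lit 155))) (PT.nd (nat_lit 78) (PT.lf (nat_lit 7448) (nat_lit 6) (nat_lit 98) (nat_lit 4) (nat_lit 139) (nat_lit 157) (nat_lit 154)) (PT.lf (nat_lit 8208) (nat_lit 6) (nat_lit 108) (nat_lit 4) (nat_lit 140) (nat_lit 157) (nat_lit 153)))))) (PT.nd (nat_lit 546) (PT.nd (nat_lit 234) (PT.nd (nat_lit 78) (PT.lf (nat_lit 8892) (nat_lit 6) (nat_lit 117) (nat_lit 4) (nat_lit 141) (nat_lit 157) (nat_lit 152)) (PT.nd (nat_lit 78) (PT.lf (nat_lit 9500) (nat_lit 6) (nat_lit 125) (nat_lit 4) (nat_lit 142) (nat_lit 157) (nat_lit 151)) (PT.lf (nat_lit 10032) (nat_lit 6) (nat_lit 132) (nat_lit 4) (nat_lit 143) (nat_lit 157) (nat_lit 150)))) (PT.nd (nat_lit 156) (PT.nd (nat_lit 78) (PT.lf (nat_lit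 9956) (nat_lit 6) (nat_lit 131) (nat_lit 4) (nat_lit 144) (nat_lit 157) (nat_lit 149)) (PT.lf (nat_lit 9880) (nat_lit 6) (nat_lit 130) (nat_lit 4) (nat_lit 145) (nat_lit 157) (nat_lit 148))) (PT.nd (nat_lit 78) (PT.lf (nat_lit 9804) (nat_lit 6) (nat_lit 129) (nat_lit 4) (nat_lit 146) (nat_lit 157) (nat_lit 147)) (PT.lf (nat_lit 9804) (nat_lit 6) (nat_lit 129) (nat_lit 2) (nat_lit 147) (nat_lit 157) (nat_lit 146))))) (PT.nd (nat_lit 234) (PT.nd (nat_lit 78) (PT.lf (nat_lit 9880) (nat_lit 6) (nat_lit 130) (nat_lit 2) (nat_lit 148) (nat_lit 157) (nat_lit 145)) (PT.nd (nat_lit 78) (PT.lf (nat_lit 9956) (nat_lit 6) (nat_lit 131) (nat_lit 2) (nat_lit 149) (nat_lit 157) (nat_lit 144)) (PT.lf (nat_lit 10032) (nat_lit 6) (nat_lit 132) (nat_lit 2) (nat_lit 150) (nat_lit 157) (nat_lit 143)))) (PT.nd (nat_lit 156) (PT.nd (nat_lit 78) (PT.lf (nat_lit 9500) (nat_lit 6) (nat_lit 125) (nat_lit 2) (nat_lit 151)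 (nat_lit 157) (nat_lit 142)) (PT.lf (nat_lit 8892) (nat_lit 6) (nat_lit 117) (nat_lit 2) (nat_lit 152) (nat_lit 157) (nat_lit 141))) (PT.nd (nat_lit 78) (PT.lf (nat_lit 8208) (nat_lit 6) (nat_lit 108) (nat_lit 2) (nat_lit 153) (nat_lit 157) (nat_lit 140)) (PT.lf (nat_lit 7448) (nat_lit 6) (nat_lit 98) (nat_lit 2) (nat_lit 154) (nat_lit 157) (nat_lit 139))))))))
noncomputable def pc10 : PT := (PT.nd (nat_lit 46254) (PT.nd (nat_lit 45162) (PT.nd (nat_lit 468) (PT.nd (nat_lit 234) (PT.nd (nat_lit 78) (PT.lf (nat_lit 7068) (nat_lit 6) (nat_lit 93) (nat_lit 2) (nat_lit 155) (nat_lit 157) (nat_lit 138)) (PT.nd (nat_lit 78) (PT.lf (nat_lit 6764) (nat_lit 6) (nat_lit 89) (nat_lit 2) (nat_lit 156) (nat_lit 157) (nat_lit 137)) (PT.lf (nat_lit 6384) (nat_lit 3) (nat_lit 84) (nat_lit 0) (nat_lit 157) (nat_lit 157) (nat_lit 136)))) (PT.nd (nat_lit 78) (PT.lf (nat_lit 6004) (nat_lit 6) (nat_lit 79) (nat_lit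 0) (nat_lit 158) (nat_lit 157) (nat_lit 135)) (PT.nd (nat_lit 78) (PT.lf (nat_lit 5624) (nat_lit 6) (nat_lit 74) (nat_lit 0) (nat_lit 159) (nat_lit 157) (nat_lit 134)) (PT.lf (nat_lit 5320) (nat_lit 6) (nat_lit 70) (nat_lit 0) (nat_lit 160) (nat_lit 157) (nat_lit 133))))) (PT.nd (nat_lit 44382) (PT.nd (nat_lit 78) (PT.lf (nat_lit 4940) (nat_lit 6) (nat_lit 65) (nat_lit 0) (nat_lit 161) (nat_lit 157) (nat_lit 132)) (PT.nd (nat_lit 78) (PT.lf (nat_lit 4636) (nat_lit 6) (nat_lit 61) (nat_lit 0) (nat_lit 162) (nat_lit 157) (nat_lit 131)) (PT.lf (nat_lit 4332) (nat_lit 6) (nat_lit 57) (nat_lit 0) (nat_lit 163) (nat_lit 157) (nat_lit 130)))) (PT.nd (nat_lit 156) (PT.nd (nat_lit 78) (PT.lf (nat_lit 4104) (nat_lit 6) (nat_lit 54) (nat_lit 5) (nat_lit 129) (nat_lit 158) (nat_lit 163)) (PT.lf (nat_lit 4408) (nat_lit 6) (nat_lit 58) (nat_lit 5) (nat_lit 130) (nat_lit 158) (nat_lit 162))) (PT.nd (nat_lit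 78) (PT.lf (nat_lit 4712) (nat_lit 6) (nat_lit 62) (nat_lit 5) (nat_lit 131) (nat_lit 158) (nat_lit 161)) (PT.lf (nat_lit 5016) (nat_lit 6) (nat_lit 66) (nat_lit 5) (nat_lit 132) (nat_lit 158) (nat_lit 160)))))) (PT.nd (nat_lit 546) (PT.nd (nat_lit 234) (PT.nd (nat_lit 78) (PT.lf (nat_lit 5396) (nat_lit 6) (nat_lit 71) (nat_lit 5) (nat_lit 133) (nat_lit 158) (nat_lit 159)) (PT.nd (nat_lit 78) (PT.lf (nat_lit 5700) (nat_lit 3) (nat_lit 75) (nat_lit 4) (nat_lit 134) (nat_lit 158) (nat_lit 158)) (PT.lf (nat_lit 6004) (nat_lit 6) (nat_lit 79) (nat_lit 4) (nat_lit 135) (nat_lit 158) (nat_lit 157)))) (PT.nd (nat_lit 156) (PT.nd (nat_lit 78) (PT.lf (nat_lit 6308) (nat_lit 6) (nat_lit 83) (nat_lit 4) (nat_lit 136) (nat_lit 158) (nat_lit 156)) (PT.lf (nat_lit 6688) (nat_lit 6) (nat_lit 88) (nat_lit 4) (nat_lit 137) (nat_lit 158) (nat_lit 155))) (PT.nd (nat_lit 78) (PT.lf (nat_lit 6992) (nat_lit 6) (nat_lit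 92) (nat_lit 4) (nat_lit 138) (nat_lit 158) (nat_lit 154)) (PT.lf (nat_lit 7372) (nat_lit 6) (nat_lit 97) (nat_lit 4) (nat_lit 139) (nat_lit 158) (nat_lit 153))))) (PT.nd (nat_lit 234) (PT.nd (nat_lit 78) (PT.lf (nat_lit 8132) (nat_lit 6) (nat_lit 107) (nat_lit 4) (nat_lit 140) (nat_lit 158) (nat_lit 152)) (PT.nd (nat_lit 78) (PT.lf (nat_lit 8816) (nat_lit 6) (nat_lit 116) (nat_lit 4) (nat_lit 141) (nat_lit 158) (nat_lit 151)) (PT.lf (nat_lit 9424) (nat_lit 6) (nat_lit 124) (nat_lit 4) (nat_lit 142) (nat_lit 158) (nat_lit 150)))) (PT.nd (nat_lit 156) (PT.nd (nat_lit 78) (PT.lf (nat_lit 9348) (nat_lit 6) (nat_lit 123) (nat_lit 4) (nat_lit 143) (nat_lit 158) (nat_lit 149)) (PT.lf (nat_lit 9272) (nat_lit 6) (nat_lit 122) (nat_lit 4) (nat_lit 144) (nat_lit 158) (nat_lit 148))) (PT.nd (nat_lit 78) (PT.lf (nat_lit 9196) (nat_lit 6) (nat_lit 121) (nat_lit 4) (nat_lit 145) (nat_lit 158) (nat_lit 147))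 (PT.lf (nat_lit 9120) (nat_lit 3) (nat_lit 120) (nat_lit 2) (nat_lit 146) (nat_lit 158) (nat_lit 146))))))) (PT.nd (nat_lit 1014) (PT.nd (nat_lit 468) (PT.nd (nat_lit 234) (PT.nd (nat_lit 78) (PT.lf (nat_lit 9196) (nat_lit 6) (nat_lit 121) (nat_lit 2) (nat_lit 147) (nat_lit 158) (nat_lit 145)) (PT.nd (nat_lit 78) (PT.lf (nat_lit 9272) (nat_lit 6) (nat_lit 122) (nat_lit 2) (nat_lit 148) (nat_lit 158) (nat_lit 144)) (PT.lf (nat_lit 9348) (nat_lit 6) (nat_lit 123) (nat_lit 2) (nat_lit 149) (nat_lit 158) (nat_lit 143)))) (PT.nd (nat_lit 78) (PT.lf (nat_lit 9424) (nat_lit 6) (nat_lit 124) (nat_lit 2) (nat_lit 150) (nat_lit 158) (nat_lit 142)) (PT.nd (nat_lit 78) (PT.lf (nat_lit 8816) (nat_lit 6) (nat_lit 116) (nat_lit 2) (nat_lit 151) (nat_lit 158) (nat_lit 141)) (PT.lf (nat_lit 8132) (nat_lit 6) (nat_lit 107) (nat_lit 2) (nat_lit 152) (nat_lit 158) (nat_lit 140))))) (PT.nd (nat_lit 234) (PT.nd (nat_lit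 78) (PT.lf (nat_lit 7372) (nat_lit 6) (nat_lit 97) (nat_lit 2) (nat_lit 153) (nat_lit 158) (nat_lit 139)) (PT.nd (nat_lit 78) (PT.lf (nat_lit 6992) (nat_lit 6) (nat_lit 92) (nat_lit 2) (nat_lit 154) (nat_lit 158) (nat_lit 138)) (PT.lf (nat_lit 6688) (nat_lit 6) (nat_lit 88) (nat_lit 2) (nat_lit 155) (nat_lit 158) (nat_lit 137)))) (PT.nd (nat_lit 156) (PT.nd (nat_lit 78) (PT.lf (nat_lit 6308) (nat_lit 6) (nat_lit 83) (nat_lit 2) (nat_lit 156) (nat_lit 158) (nat_lit 136)) (PT.lf (nat_lit 6004) (nat_lit 6) (nat_lit 79) (nat_lit 2) (nat_lit 157) (nat_lit 158) (nat_lit 135))) (PT.nd (nat_lit 78) (PT.lf (nat_lit 5700) (nat_lit 3) (nat_lit 75) (nat_lit 0) (nat_lit 158) (nat_lit 158) (nat_lit 134)) (PT.lf (nat_lit 5396) (nat_lit 6) (nat_lit 71) (nat_lit 0) (nat_lit 159) (nat_lit 158) (nat_lit 133)))))) (PT.nd (nat_lit 44538) (PT.nd (nat_lit 234) (PT.nd (nat_lit 78) (PT.lf (nat_lit 5016) (nat_lit 6)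 (nat_lit 66) (nat_lit 0) (nat_lit 160) (nat_lit 158) (nat_lit 132)) (PT.nd (nat_lit 78) (PT.lf (nat_lit 4712) (nat_lit 6) (nat_lit 62) (nat_lit 0) (nat_lit 161) (nat_lit 158) (nat_lit 131)) (PT.lf (nat_lit 4408) (nat_lit 6) (nat_lit 58) (nat_lit 0) (nat_lit 162) (nat_lit 158) (nat_lit 130)))) (PT.nd (nat_lit 44148) (PT.nd (nat_lit 44070) (PT.lf (nat_lit 4104) (nat_lit 6) (nat_lit 54) (nat_lit 0) (nat_lit 163) (nat_lit 158) (nat_lit 129)) (PT.lf (nat_lit 3648) (nat_lit 6) (nat_lit 48) (nat_lit 5) (nat_lit 127) (nat_lit 159) (nat_lit 164))) (PT.nd (nat_lit 78) (PT.lf (nat_lit 3876) (nat_lit 6) (nat_lit 51) (nat_lit 5) (nat_lit 128) (nat_lit 159) (nat_lit 163)) (PT.lf (nat_lit 4180) (nat_lit 6) (nat_lit 55) (nat_lit 5) (nat_lit 129) (nat_lit 159) (nat_lit 162))))) (PT.nd (nat_lit 234) (PT.nd (nat_lit 78) (PT.lf (nat_lit 4484) (nat_lit 6) (nat_lit 59) (nat_lit 5) (nat_lit 130) (nat_lit 159) (nat_lit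 161)) (PT.nd (nat_lit 78) (PT.lf (nat_lit 4788) (nat_lit 6) (nat_lit 63) (nat_lit 5) (nat_lit 131) (nat_lit 159) (nat_lit 160)) (PT.lf (nat_lit 5092) (nat_lit 3) (nat_lit 67) (nat_lit 4) (nat_lit 132) (nat_lit 159) (nat_lit 159)))) (PT.nd (nat_lit 156) (PT.nd (nat_lit 78) (PT.lf (nat_lit 5396) (nat_lit 6) (nat_lit 71) (nat_lit 4) (nat_lit 133) (nat_lit 159) (nat_lit 158)) (PT.lf (nat_lit 5624) (nat_lit 6) (nat_lit 74) (nat_lit 4) (nat_lit 134) (nat_lit 159) (nat_lit 157))) (PT.nd (nat_lit 78) (PT.lf (nat_lit 5928) (nat_lit 6) (nat_lit 78) (nat_lit 4) (nat_lit 135) (nat_lit 159) (nat_lit 156)) (PT.lf (nat_lit 6232) (nat_lit 6) (nat_lit 82) (nat_lit 4) (nat_lit 136) (nat_lit 159) (nat_lit 155))))))))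
noncomputable def pc11 : PT := (PT.nd (nat_lit 2106) (PT.nd (nat_lit 1014) (PT.nd (nat_lit 468) (PT.nd (nat_lit 234) (PT.nd (nat_lit 78) (PT.lf (nat_lit 6612) (nat_lit 6) (nat_lit 87) (nat_lit 4) (nat_lit 137) (nat_lit 159) (nat_lit 154)) (PT.nd (nat_lit 78) (PT.lf (nat_lit 6916) (nat_lit 6) (nat_lit 91) (nat_lit 4) (nat_lit 138) (nat_lit 159) (nat_lit 153)) (PT.lf (nat_lit 7296) (nat_lit 6) (nat_lit 96) (nat_lit 4) (nat_lit 139) (nat_lit 159) (nat_lit 152)))) (PT.nd (nat_lit 78) (PT.lf (nat_lit 8056) (nat_lit 6) (nat_lit 106) (nat_lit 4) (nat_lit 140) (nat_lit 159) (nat_lit 151)) (PT.nd (nat_lit 78) (PT.lf (nat_lit 8740) (nat_lit 6) (nat_lit 115) (nat_lit 4) (nat_lit 141) (nat_lit 159) (nat_lit 150)) (PT.lf (nat_lit 8664) (nat_lit 6) (nat_lit 114) (nat_lit 4) (nat_lit 142) (nat_lit 159) (nat_lit 149))))) (PT.nd (nat_lit 234) (PT.nd (nat_lit 78) (PT.lf (nat_lit 8588) (nat_lit 6) (nat_lit 113)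 (nat_lit 4) (nat_lit 143) (nat_lit 159) (nat_lit 148)) (PT.nd (nat_lit 78) (PT.lf (nat_lit 8512) (nat_lit 6) (nat_lit 112) (nat_lit 4) (nat_lit 144) (nat_lit 159) (nat_lit 147)) (PT.lf (nat_lit 8436) (nat_lit 6) (nat_lit 111) (nat_lit 4) (nat_lit 145) (nat_lit 159) (nat_lit 146)))) (PT.nd (nat_lit 156) (PT.nd (nat_lit 78) (PT.lf (nat_lit 8436) (nat_lit 6) (nat_lit 111) (nat_lit 2) (nat_lit 146) (nat_lit 159) (nat_lit 145)) (PT.lf (nat_lit 8512) (nat_lit 6) (nat_lit 112) (nat_lit 2) (nat_lit 147) (nat_lit 159) (nat_lit 144))) (PT.nd (nat_lit 78) (PT.lf (nat_lit 8588) (nat_lit 6) (nat_lit 113) (nat_lit 2) (nat_lit 148) (nat_lit 159) (nat_lit 143)) (PT.lf (nat_lit 8664) (nat_lit 6) (nat_lit 114) (nat_lit 2) (nat_lit 149) (nat_lit 159) (nat_lit 142)))))) (PT.nd (nat_lit 546) (PT.nd (nat_lit 234) (PT.nd (nat_lit 78) (PT.lf (nat_lit 8740) (nat_lit 6) (nat_lit 115) (nat_lit 2) (nat_lit 150) (nat_lit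 159) (nat_lit 141)) (PT.nd (nat_lit 78) (PT.lf (nat_lit 8056) (nat_lit 6) (nat_lit 106) (nat_lit 2) (nat_lit 151) (nat_lit 159) (nat_lit 140)) (PT.lf (nat_lit 7296) (nat_lit 6) (nat_lit 96) (nat_lit 2) (nat_lit 152) (nat_lit 159) (nat_lit 139)))) (PT.nd (nat_lit 156) (PT.nd (nat_lit 78) (PT.lf (nat_lit 6916) (nat_lit 6) (nat_lit 91) (nat_lit 2) (nat_lit 153) (nat_lit 159) (nat_lit 138)) (PT.lf (nat_lit 6612) (nat_lit 6) (nat_lit 87) (nat_lit 2) (nat_lit 154) (nat_lit 159) (nat_lit 137))) (PT.nd (nat_lit 78) (PT.lf (nat_lit 6232) (nat_lit 6) (nat_lit 82) (nat_lit 2) (nat_lit 155) (nat_lit 159) (nat_lit 136)) (PT.lf (nat_lit 5928) (nat_lit 6) (nat_lit 78) (nat_lit 2) (nat_lit 156) (nat_lit 159) (nat_lit 135))))) (PT.nd (nat_lit 234) (PT.nd (nat_lit 78) (PT.lf (nat_lit 5624) (nat_lit 6) (nat_lit 74) (nat_lit 2) (nat_lit 157) (nat_lit 159) (nat_lit 134)) (PT.nd (nat_lit 78) (PT.lf (nat_lit 5396)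 (nat_lit 6) (nat_lit 71) (nat_lit 2) (nat_lit 158) (nat_lit 159) (nat_lit 133)) (PT.lf (nat_lit 5092) (nat_lit 3) (nat_lit 67) (nat_lit 0) (nat_lit 159) (nat_lit 159) (nat_lit 132)))) (PT.nd (nat_lit 156) (PT.nd (nat_lit 78) (PT.lf (nat_lit 4788) (nat_lit 6) (nat_lit 63) (nat_lit 0) (nat_lit 160) (nat_lit 159) (nat_lit 131)) (PT.lf (nat_lit 4484) (nat_lit 6) (nat_lit 59) (nat_lit 0) (nat_lit 161) (nat_lit 159) (nat_lit 130))) (PT.nd (nat_lit 78) (PT.lf (nat_lit 4180) (nat_lit 6) (nat_lit 55) (nat_lit 0) (nat_lit 162) (nat_lit 159) (nat_lit 129)) (PT.lf (nat_lit 3876) (nat_lit 6) (nat_lit 51) (nat_lit 0) (nat_lit 163) (nat_lit 159) (nat_lit 128))))))) (PT.nd (nat_lit 44850) (PT.nd (nat_lit 44304) (PT.nd (nat_lit 44070) (PT.nd (nat_lit 43914) (PT.lf (nat_lit 3648) (nat_lit 6) (nat_lit 48) (nat_lit 0) (nat_lit 164) (nat_lit 159) (nat_lit 127)) (PT.nd (nat_lit 78) (PT.lf (nat_lit 3420) (nat_lit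 6) (nat_lit 45) (nat_lit 5) (nat_lit 126) (nat_lit 160) (nat_lit 164)) (PT.lf (nat_lit 3724) (nat_lit 6) (nat_lit 49) (nat_lit 5) (nat_lit 127) (nat_lit 160) (nat_lit 163)))) (PT.nd (nat_lit 78) (PT.lf (nat_lit 3952) (nat_lit 6) (nat_lit 52) (nat_lit 5) (nat_lit 128) (nat_lit 160) (nat_lit 162)) (PT.nd (nat_lit 78) (PT.lf (nat_lit 4256) (nat_lit 6) (nat_lit 56) (nat_lit 5) (nat_lit 129) (nat_lit 160) (nat_lit 161)) (PT.lf (nat_lit 4560) (nat_lit 3) (nat_lit 60) (nat_lit 4) (nat_lit 130) (nat_lit 160) (nat_lit 160))))) (PT.nd (nat_lit 234) (PT.nd (nat_lit 78) (PT.lf (nat_lit 4788) (nat_lit 6) (nat_lit 63) (nat_lit 4) (nat_lit 131) (nat_lit 160) (nat_lit 159)) (PT.nd (nat_lit 78) (PT.lf (nat_lit 5016) (nat_lit 6) (nat_lit 66) (nat_lit 4) (nat_lit 132) (nat_lit 160) (nat_lit 158)) (PT.lf (nat_lit 5320) (nat_lit 6) (nat_lit 70) (nat_lit 4) (nat_lit 133) (nat_lit 160) (nat_lit 157)))) (PT.nd (nat_lit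 156) (PT.nd (nat_lit 78) (PT.lf (nat_lit 5548) (nat_lit 6) (nat_lit 73) (nat_lit 4) (nat_lit 134) (nat_lit 160) (nat_lit 156)) (PT.lf (nat_lit 5852) (nat_lit 6) (nat_lit 77) (nat_lit 4) (nat_lit 135) (nat_lit 160) (nat_lit 155))) (PT.nd (nat_lit 78) (PT.lf (nat_lit 6156) (nat_lit 6) (nat_lit 81) (nat_lit 4) (nat_lit 136) (nat_lit 160) (nat_lit 154)) (PT.lf (nat_lit 6536) (nat_lit 6) (nat_lit 86) (nat_lit 4) (nat_lit 137) (nat_lit 160) (nat_lit 153)))))) (PT.nd (nat_lit 546) (PT.nd (nat_lit 234) (PT.nd (nat_lit 78) (PT.lf (nat_lit 6840) (nat_lit 6) (nat_lit 90) (nat_lit 4) (nat_lit 138) (nat_lit 160) (nat_lit 152)) (PT.nd (nat_lit 78) (PT.lf (nat_lit 7220) (nat_lit 6) (nat_lit 95) (nat_lit 4) (nat_lit 139) (nat_lit 160) (nat_lit 151)) (PT.lf (nat_lit 7980) (nat_lit 6) (nat_lit 105) (nat_lit 4) (nat_lit 140) (nat_lit 160) (nat_lit 150)))) (PT.nd (nat_lit 156) (PT.nd (nat_lit 78) (PT.lf (nat_lit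 7904) (nat_lit 6) (nat_lit 104) (nat_lit 4) (nat_lit 141) (nat_lit 160) (nat_lit 149)) (PT.lf (nat_lit 7828) (nat_lit 6) (nat_lit 103) (nat_lit 4) (nat_lit 142) (nat_lit 160) (nat_lit 148))) (PT.nd (nat_lit 78) (PT.lf (nat_lit 7752) (nat_lit 6) (nat_lit 102) (nat_lit 4) (nat_lit 143) (nat_lit 160) (nat_lit 147)) (PT.lf (nat_lit 7676) (nat_lit 6) (nat_lit 101) (nat_lit 4) (nat_lit 144) (nat_lit 160) (nat_lit 146))))) (PT.nd (nat_lit 234) (PT.nd (nat_lit 78) (PT.lf (nat_lit 7600) (nat_lit 3) (nat_lit 100) (nat_lit 2) (nat_lit 145) (nat_lit 160) (nat_lit 145)) (PT.nd (nat_lit 78) (PT.lf (nat_lit 7676) (nat_lit 6) (nat_lit 101) (nat_lit 2) (nat_lit 146) (nat_lit 160) (nat_lit 144)) (PT.lf (nat_lit 7752) (nat_lit 6) (nat_lit 102) (nat_lit 2) (nat_lit 147) (nat_lit 160) (nat_lit 143)))) (PT.nd (nat_lit 156) (PT.nd (nat_lit 78) (PT.lf (nat_lit 7828) (nat_lit 6) (nat_lit 103) (nat_lit 2) (nat_lit 148)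 (nat_lit 160) (nat_lit 142)) (PT.lf (nat_lit 7904) (nat_lit 6) (nat_lit 104) (nat_lit 2) (nat_lit 149) (nat_lit 160) (nat_lit 141))) (PT.nd (nat_lit 78) (PT.lf (nat_lit 7980) (nat_lit 6) (nat_lit 105) (nat_lit 2) (nat_lit 150) (nat_lit 160) (nat_lit 140)) (PT.lf (nat_lit 7220) (nat_lit 6) (nat_lit 95) (nat_lit 2) (nat_lit 151) (nat_lit 160) (nat_lit 139))))))))
noncomputable def pc12 : PT := (PT.nd (nat_lit 46878) (PT.nd (nat_lit 44694) (PT.nd (nat_lit 468) (PT.nd (nat_lit 234) (PT.nd (nat_lit 78) (PT.lf (nat_lit 6840) (nat_lit 6) (nat_lit 90) (nat_lit 2) (nat_lit 152) (nat_lit 160) (nat_lit 138)) (PT.nd (nat_lit 78) (PT.lf (nat_lit 6536) (nat_lit 6) (nat_lit 86) (nat_lit 2) (nat_lit 153) (nat_lit 160) (nat_lit 137)) (PT.lf (nat_lit 6156) (nat_lit 6) (nat_lit 81) (nat_lit 2) (nat_lit 154) (nat_lit 160) (nat_lit 136)))) (PT.nd (nat_lit 78) (PT.lf (nat_lit 5852) (nat_lit 6) (nat_lit 77) (nat_lit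 2) (nat_lit 155) (nat_lit 160) (nat_lit 135)) (PT.nd (nat_lit 78) (PT.lf (nat_lit 5548) (nat_lit 6) (nat_lit 73) (nat_lit 2) (nat_lit 156) (nat_lit 160) (nat_lit 134)) (PT.lf (nat_lit 5320) (nat_lit 6) (nat_lit 70) (nat_lit 2) (nat_lit 157) (nat_lit 160) (nat_lit 133))))) (PT.nd (nat_lit 234) (PT.nd (nat_lit 78) (PT.lf (nat_lit 5016) (nat_lit 6) (nat_lit 66) (nat_lit 2) (nat_lit 158) (nat_lit 160) (nat_lit 132)) (PT.nd (nat_lit 78) (PT.lf (nat_lit 4788) (nat_lit 6) (nat_lit 63) (nat_lit 2) (nat_lit 159) (nat_lit 160) (nat_lit 131)) (PT.lf (nat_lit 4560) (nat_lit 3) (nat_lit 60) (nat_lit 0) (nat_lit 160) (nat_lit 160) (nat_lit 130)))) (PT.nd (nat_lit 156) (PT.nd (nat_lit 78) (PT.lf (nat_lit 4256) (nat_lit 6) (nat_lit 56) (nat_lit 0) (nat_lit 161) (nat_lit 160) (nat_lit 129)) (PT.lf (nat_lit 3952) (nat_lit 6) (nat_lit 52) (nat_lit 0) (nat_lit 162) (nat_lit 160) (nat_lit 128))) (PT.nd (nat_lit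 78) (PT.lf (nat_lit 3724) (nat_lit 6) (nat_lit 49) (nat_lit 0) (nat_lit 163) (nat_lit 160) (nat_lit 127)) (PT.lf (nat_lit 3420) (nat_lit 6) (nat_lit 45) (nat_lit 0) (nat_lit 164) (nat_lit 160) (nat_lit 126)))))) (PT.nd (nat_lit 546) (PT.nd (nat_lit 234) (PT.nd (nat_lit 78) (PT.lf (nat_lit 3040) (nat_lit 6) (nat_lit 40) (nat_lit 5) (nat_lit 124) (nat_lit 161) (nat_lit 165)) (PT.nd (nat_lit 78) (PT.lf (nat_lit 3268) (nat_lit 6) (nat_lit 43) (nat_lit 5) (nat_lit 125) (nat_lit 161) (nat_lit 164)) (PT.lf (nat_lit 3496) (nat_lit 6) (nat_lit 46) (nat_lit 5) (nat_lit 126) (nat_lit 161) (nat_lit 163)))) (PT.nd (nat_lit 156) (PT.nd (nat_lit 78) (PT.lf (nat_lit 3800) (nat_lit 6) (nat_lit 50) (nat_lit 5) (nat_lit 127) (nat_lit 161) (nat_lit 162)) (PT.lf (nat_lit 4028) (nat_lit 3) (nat_lit 53) (nat_lit 4) (nat_lit 128) (nat_lit 161) (nat_lit 161))) (PT.nd (nat_lit 78) (PT.lf (nat_lit 4256) (nat_lit 6) (nat_lit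 56) (nat_lit 4) (nat_lit 129) (nat_lit 161) (nat_lit 160)) (PT.lf (nat_lit 4484) (nat_lit 6) (nat_lit 59) (nat_lit 4) (nat_lit 130) (nat_lit 161) (nat_lit 159))))) (PT.nd (nat_lit 234) (PT.nd (nat_lit 78) (PT.lf (nat_lit 4712) (nat_lit 6) (nat_lit 62) (nat_lit 4) (nat_lit 131) (nat_lit 161) (nat_lit 158)) (PT.nd (nat_lit 78) (PT.lf (nat_lit 4940) (nat_lit 6) (nat_lit 65) (nat_lit 4) (nat_lit 132) (nat_lit 161) (nat_lit 157)) (PT.lf (nat_lit 5244) (nat_lit 6) (nat_lit 69) (nat_lit 4) (nat_lit 133) (nat_lit 161) (nat_lit 156)))) (PT.nd (nat_lit 156) (PT.nd (nat_lit 78) (PT.lf (nat_lit 5472) (nat_lit 6) (nat_lit 72) (nat_lit 4) (nat_lit 134) (nat_lit 161) (nat_lit 155)) (PT.lf (nat_lit 5776) (nat_lit 6) (nat_lit 76) (nat_lit 4) (nat_lit 135) (nat_lit 161) (nat_lit 154))) (PT.nd (nat_lit 78) (PT.lf (nat_lit 6080) (nat_lit 6) (nat_lit 80) (nat_lit 4) (nat_lit 136) (nat_lit 161) (nat_lit 153)) (PT.lf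 (nat_lit 6460) (nat_lit 6) (nat_lit 85) (nat_lit 4) (nat_lit 137) (nat_lit 161) (nat_lit 152))))))) (PT.nd (nat_lit 1014) (PT.nd (nat_lit 468) (PT.nd (nat_lit 234) (PT.nd (nat_lit 78) (PT.lf (nat_lit 6460) (nat_lit 6) (nat_lit 85) (nat_lit 2) (nat_lit 152) (nat_lit 161) (nat_lit 137)) (PT.nd (nat_lit 78) (PT.lf (nat_lit 6080) (nat_lit 6) (nat_lit 80) (nat_lit 2) (nat_lit 153) (nat_lit 161) (nat_lit 136)) (PT.lf (nat_lit 5776) (nat_lit 6) (nat_lit 76) (nat_lit 2) (nat_lit 154) (nat_lit 161) (nat_lit 135)))) (PT.nd (nat_lit 78) (PT.lf (nat_lit 5472) (nat_lit 6) (nat_lit 72) (nat_lit 2) (nat_lit 155) (nat_lit 161) (nat_lit 134)) (PT.nd (nat_lit 78) (PT.lf (nat_lit 5244) (nat_lit 6) (nat_lit 69) (nat_lit 2) (nat_lit 156) (nat_lit 161) (nat_lit 133)) (PT.lf (nat_lit 4940) (nat_lit 6) (nat_lit 65) (nat_lit 2) (nat_lit 157) (nat_lit 161) (nat_lit 132))))) (PT.nd (nat_lit 234) (PT.nd (nat_lit 78) (PT.lf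 (nat_lit 4712) (nat_lit 6) (nat_lit 62) (nat_lit 2) (nat_lit 158) (nat_lit 161) (nat_lit 131)) (PT.nd (nat_lit 78) (PT.lf (nat_lit 4484) (nat_lit 6) (nat_lit 59) (nat_lit 2) (nat_lit 159) (nat_lit 161) (nat_lit 130)) (PT.lf (nat_lit 4256) (nat_lit 6) (nat_lit 56) (nat_lit 2) (nat_lit 160) (nat_lit 161) (nat_lit 129)))) (PT.nd (nat_lit 156) (PT.nd (nat_lit 78) (PT.lf (nat_lit 4028) (nat_lit 3) (nat_lit 53) (nat_lit 0) (nat_lit 161) (nat_lit 161) (nat_lit 128)) (PT.lf (nat_lit 3800) (nat_lit 6) (nat_lit 50) (nat_lit 0) (nat_lit 162) (nat_lit 161) (nat_lit 127))) (PT.nd (nat_lit 78) (PT.lf (nat_lit 3496) (nat_lit 6) (nat_lit 46) (nat_lit 0) (nat_lit 163) (nat_lit 161) (nat_lit 126)) (PT.lf (nat_lit 3268) (nat_lit 6) (nat_lit 43) (nat_lit 0) (nat_lit 164) (nat_lit 161) (nat_lit 125)))))) (PT.nd (nat_lit 44070) (PT.nd (nat_lit 43758) (PT.nd (nat_lit 43602) (PT.lf (nat_lit 3040) (nat_lit 6) (nat_lit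 40) (nat_lit 0) (nat_lit 165) (nat_lit 161) (nat_lit 124)) (PT.nd (nat_lit 78) (PT.lf (nat_lit 2888) (nat_lit 6) (nat_lit 38) (nat_lit 5) (nat_lit 123) (nat_lit 162) (nat_lit 165)) (PT.lf (nat_lit 3116) (nat_lit 6) (nat_lit 41) (nat_lit 5) (nat_lit 124) (nat_lit 162) (nat_lit 164)))) (PT.nd (nat_lit 156) (PT.nd (nat_lit 78) (PT.lf (nat_lit 3344) (nat_lit 6) (nat_lit 44) (nat_lit 5) (nat_lit 125) (nat_lit 162) (nat_lit 163)) (PT.lf (nat_lit 3572) (nat_lit 3) (nat_lit 47) (nat_lit 4) (nat_lit 126) (nat_lit 162) (nat_lit 162))) (PT.nd (nat_lit 78) (PT.lf (nat_lit 3800) (nat_lit 6) (nat_lit 50) (nat_lit 4) (nat_lit 127) (nat_lit 162) (nat_lit 161)) (PT.lf (nat_lit 3952) (nat_lit 6) (nat_lit 52) (nat_lit 4) (nat_lit 128) (nat_lit 162) (nat_lit 160))))) (PT.nd (nat_lit 234) (PT.nd (nat_lit 78) (PT.lf (nat_lit 4180) (nat_lit 6) (nat_lit 55) (nat_lit 4) (nat_lit 129) (nat_lit 162) (nat_lit 159)) (PT.nd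 (nat_lit 78) (PT.lf (nat_lit 4408) (nat_lit 6) (nat_lit 58) (nat_lit 4) (nat_lit 130) (nat_lit 162) (nat_lit 158)) (PT.lf (nat_lit 4636) (nat_lit 6) (nat_lit 61) (nat_lit 4) (nat_lit 131) (nat_lit 162) (nat_lit 157)))) (PT.nd (nat_lit 1794) (PT.nd (nat_lit 78) (PT.lf (nat_lit 4864) (nat_lit 6) (nat_lit 64) (nat_lit 4) (nat_lit 132) (nat_lit 162) (nat_lit 156)) (PT.lf (nat_lit 5168) (nat_lit 6) (nat_lit 68) (nat_lit 4) (nat_lit 133) (nat_lit 162) (nat_lit 155))) (PT.nd (nat_lit 78) (PT.lf (nat_lit 5168) (nat_lit 6) (nat_lit 68) (nat_lit 2) (nat_lit 155) (nat_lit 162) (nat_lit 133)) (PT.lf (nat_lit 4864) (nat_lit 6) (nat_lit 64) (nat_lit 2) (nat_lit 156) (nat_lit 162) (nat_lit 132))))))))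
noncomputable def pc13 : PT := (PT.nd (nat_lit 47502) (PT.nd (nat_lit 44382) (PT.nd (nat_lit 468) (PT.nd (nat_lit 234) (PT.nd (nat_lit 78) (PT.lf (nat_lit 4636) (nat_lit 6) (nat_lit 61) (nat_lit 2) (nat_lit 157) (nat_lit 162) (nat_lit 131)) (PT.nd (nat_lit 78) (PT.lf (nat_lit 4408) (nat_lit 6) (nat_lit 58) (nat_lit 2) (nat_lit 158) (nat_lit 162) (nat_lit 130)) (PT.lf (nat_lit 4180) (nat_lit 6) (nat_lit 55) (nat_lit 2) (nat_lit 159) (nat_lit 162) (nat_lit 129)))) (PT.nd (nat_lit 78) (PT.lf (nat_lit 3952) (nat_lit 6) (nat_lit 52) (nat_lit 2) (nat_lit 160) (nat_lit 162) (nat_lit 128)) (PT.nd (nat_lit 78) (PT.lf (nat_lit 3800) (nat_lit 6) (nat_lit 50) (nat_lit 2) (nat_lit 161) (nat_lit 162) (nat_lit 127)) (PT.lf (nat_lit 3572) (nat_lit 3) (nat_lit 47) (nat_lit 0) (nat_lit 162) (nat_lit 162) (nat_lit 126))))) (PT.nd (nat_lit 43602) (PT.nd (nat_lit 78) (PT.lf (nat_lit 3344) (nat_lit 6) (nat_lit 44)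 (nat_lit 0) (nat_lit 163) (nat_lit 162) (nat_lit 125)) (PT.nd (nat_lit 78) (PT.lf (nat_lit 3116) (nat_lit 6) (nat_lit 41) (nat_lit 0) (nat_lit 164) (nat_lit 162) (nat_lit 124)) (PT.lf (nat_lit 2888) (nat_lit 6) (nat_lit 38) (nat_lit 0) (nat_lit 165) (nat_lit 162) (nat_lit 123)))) (PT.nd (nat_lit 156) (PT.nd (nat_lit 78) (PT.lf (nat_lit 2584) (nat_lit 6) (nat_lit 34) (nat_lit 5) (nat_lit 121) (nat_lit 163) (nat_lit 166)) (PT.lf (nat_lit 2736) (nat_lit 6) (nat_lit 36) (nat_lit 5) (nat_lit 122) (nat_lit 163) (nat_lit 165))) (PT.nd (nat_lit 78) (PT.lf (nat_lit 2964) (nat_lit 6) (nat_lit 39) (nat_lit 5) (nat_lit 123) (nat_lit 163) (nat_lit 164)) (PT.lf (nat_lit 3192) (nat_lit 3) (nat_lit 42) (nat_lit 4) (nat_lit 124) (nat_lit 163) (nat_lit 163)))))) (PT.nd (nat_lit 2574) (PT.nd (nat_lit 234) (PT.nd (nat_lit 78) (PT.lf (nat_lit 3344) (nat_lit 6) (nat_lit 44) (nat_lit 4) (nat_lit 125) (nat_lit 163)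 (nat_lit 162)) (PT.nd (nat_lit 78) (PT.lf (nat_lit 3496) (nat_lit 6) (nat_lit 46) (nat_lit 4) (nat_lit 126) (nat_lit 163) (nat_lit 161)) (PT.lf (nat_lit 3724) (nat_lit 6) (nat_lit 49) (nat_lit 4) (nat_lit 127) (nat_lit 163) (nat_lit 160)))) (PT.nd (nat_lit 156) (PT.nd (nat_lit 78) (PT.lf (nat_lit 3876) (nat_lit 6) (nat_lit 51) (nat_lit 4) (nat_lit 128) (nat_lit 163) (nat_lit 159)) (PT.lf (nat_lit 4104) (nat_lit 6) (nat_lit 54) (nat_lit 4) (nat_lit 129) (nat_lit 163) (nat_lit 158))) (PT.nd (nat_lit 2106) (PT.lf (nat_lit 4332) (nat_lit 6) (nat_lit 57) (nat_lit 4) (nat_lit 130) (nat_lit 163) (nat_lit 157)) (PT.lf (nat_lit 4332) (nat_lit 6) (nat_lit 57) (nat_lit 2) (nat_lit 157) (nat_lit 163) (nat_lit 130))))) (PT.nd (nat_lit 234) (PT.nd (nat_lit 78) (PT.lf (nat_lit 4104) (nat_lit 6) (nat_lit 54) (nat_lit 2) (nat_lit 158) (nat_lit 163) (nat_lit 129)) (PT.nd (nat_lit 78) (PT.lf (nat_lit 3876) (nat_lit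 6) (nat_lit 51) (nat_lit 2) (nat_lit 159) (nat_lit 163) (nat_lit 128)) (PT.lf (nat_lit 3724) (nat_lit 6) (nat_lit 49) (nat_lit 2) (nat_lit 160) (nat_lit 163) (nat_lit 127)))) (PT.nd (nat_lit 156) (PT.nd (nat_lit 78) (PT.lf (nat_lit 3496) (nat_lit 6) (nat_lit 46) (nat_lit 2) (nat_lit 161) (nat_lit 163) (nat_lit 126)) (PT.lf (nat_lit 3344) (nat_lit 6) (nat_lit 44) (nat_lit 2) (nat_lit 162) (nat_lit 163) (nat_lit 125))) (PT.nd (nat_lit 78) (PT.lf (nat_lit 3192) (nat_lit 3) (nat_lit 42) (nat_lit 0) (nat_lit 163) (nat_lit 163) (nat_lit 124)) (PT.lf (nat_lit 2964) (nat_lit 6) (nat_lit 39) (nat_lit 0) (nat_lit 164) (nat_lit 163) (nat_lit 123))))))) (PT.nd (nat_lit 46566) (PT.nd (nat_lit 43602) (PT.nd (nat_lit 43368) (PT.nd (nat_lit 78) (PT.lf (nat_lit 2736) (nat_lit 6) (nat_lit 36) (nat_lit 0) (nat_lit 165) (nat_lit 163) (nat_lit 122)) (PT.nd (nat_lit 43212) (PT.lf (nat_lit 2584) (nat_lit 6) (nat_lit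 34) (nat_lit 0) (nat_lit 166) (nat_lit 163) (nat_lit 121)) (PT.lf (nat_lit 2280) (nat_lit 6) (nat_lit 30) (nat_lit 5) (nat_lit 119) (nat_lit 164) (nat_lit 167)))) (PT.nd (nat_lit 78) (PT.lf (nat_lit 2432) (nat_lit 6) (nat_lit 32) (nat_lit 5) (nat_lit 120) (nat_lit 164) (nat_lit 166)) (PT.nd (nat_lit 78) (PT.lf (nat_lit 2660) (nat_lit 6) (nat_lit 35) (nat_lit 5) (nat_lit 121) (nat_lit 164) (nat_lit 165)) (PT.lf (nat_lit 2812) (nat_lit 3) (nat_lit 37) (nat_lit 4) (nat_lit 122) (nat_lit 164) (nat_lit 164))))) (PT.nd (nat_lit 234) (PT.nd (nat_lit 78) (PT.lf (nat_lit 2964) (nat_lit 6) (nat_lit 39) (nat_lit 4) (nat_lit 123) (nat_lit 164) (nat_lit 163)) (PT.nd (nat_lit 78) (PT.lf (nat_lit 3116) (nat_lit 6) (nat_lit 41) (nat_lit 4) (nat_lit 124) (nat_lit 164) (nat_lit 162)) (PT.lf (nat_lit 3268) (nat_lit 6) (nat_lit 43) (nat_lit 4) (nat_lit 125) (nat_lit 164) (nat_lit 161)))) (PT.nd (nat_lit 2574) (PT.nd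 (nat_lit 78) (PT.lf (nat_lit 3420) (nat_lit 6) (nat_lit 45) (nat_lit 4) (nat_lit 126) (nat_lit 164) (nat_lit 160)) (PT.lf (nat_lit 3648) (nat_lit 6) (nat_lit 48) (nat_lit 4) (nat_lit 127) (nat_lit 164) (nat_lit 159))) (PT.nd (nat_lit 78) (PT.lf (nat_lit 3648) (nat_lit 6) (nat_lit 48) (nat_lit 2) (nat_lit 159) (nat_lit 164) (nat_lit 127)) (PT.lf (nat_lit 3420) (nat_lit 6) (nat_lit 45) (nat_lit 2) (nat_lit 160) (nat_lit 164) (nat_lit 126)))))) (PT.nd (nat_lit 43446) (PT.nd (nat_lit 234) (PT.nd (nat_lit 78) (PT.lf (nat_lit 3268) (nat_lit 6) (nat_lit 43) (nat_lit 2) (nat_lit 161) (nat_lit 164) (nat_lit 125)) (PT.nd (nat_lit 78) (PT.lf (nat_lit 3116) (nat_lit 6) (nat_lit 41) (nat_lit 2) (nat_lit 162) (nat_lit 164) (nat_lit 124)) (PT.lf (nat_lit 2964) (nat_lit 6) (nat_lit 39) (nat_lit 2) (nat_lit 163) (nat_lit 164) (nat_lit 123)))) (PT.nd (nat_lit 156) (PT.nd (nat_lit 78) (PT.lf (nat_lit 2812) (nat_lit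 3) (nat_lit 37) (nat_lit 0) (nat_lit 164) (nat_lit 164) (nat_lit 122)) (PT.lf (nat_lit 2660) (nat_lit 6) (nat_lit 35) (nat_lit 0) (nat_lit 165) (nat_lit 164) (nat_lit 121))) (PT.nd (nat_lit 78) (PT.lf (nat_lit 2432) (nat_lit 6) (nat_lit 32) (nat_lit 0) (nat_lit 166) (nat_lit 164) (nat_lit 120)) (PT.lf (nat_lit 2280) (nat_lit 6) (nat_lit 30) (nat_lit 0) (nat_lit 167) (nat_lit 164) (nat_lit 119))))) (PT.nd (nat_lit 234) (PT.nd (nat_lit 78) (PT.lf (nat_lit 1976) (nat_lit 6) (nat_lit 26) (nat_lit 5) (nat_lit 117) (nat_lit 165) (nat_lit 168)) (PT.nd (nat_lit 78) (PT.lf (nat_lit 2128) (nat_lit 6) (nat_lit 28) (nat_lit 5) (nat_lit 118) (nat_lit 165) (nat_lit 167)) (PT.lf (nat_lit 2356) (nat_lit 6) (nat_lit 31) (nat_lit 5) (nat_lit 119) (nat_lit 165) (nat_lit 166)))) (PT.nd (nat_lit 156) (PT.nd (nat_lit 78) (PT.lf (nat_lit 2508) (nat_lit 3) (nat_lit 33) (nat_lit 4) (nat_lit 120) (nat_lit 165) (nat_lit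 165)) (PT.lf (nat_lit 2660) (nat_lit 6) (nat_lit 35) (nat_lit 4) (nat_lit 121) (nat_lit 165) (nat_lit 164))) (PT.nd (nat_lit 78) (PT.lf (nat_lit 2736) (nat_lit 6) (nat_lit 36) (nat_lit 4) (nat_lit 122) (nat_lit 165) (nat_lit 163)) (PT.lf (nat_lit 2888) (nat_lit 6) (nat_lit 38) (nat_lit 4) (nat_lit 123) (nat_lit 165) (nat_lit 162))))))))
noncomputable def pc14 : PT := (PT.nd (nat_lit 96876) (PT.nd (nat_lit 46566) (PT.nd (nat_lit 3276) (PT.nd (nat_lit 3042) (PT.nd (nat_lit 2886) (PT.lf (nat_lit 3040) (nat_lit 6) (nat_lit 40) (nat_lit 4) (nat_lit 124) (nat_lit 165) (nat_lit 161)) (PT.nd (nat_lit 78) (PT.lf (nat_lit 3040) (nat_lit 6) (nat_lit 40) (nat_lit 2) (nat_lit 161) (nat_lit 165) (nat_lit 124)) (PT.lf (nat_lit 2888) (nat_lit 6) (nat_lit 38) (nat_lit 2) (nat_lit 162) (nat_lit 165) (nat_lit 123)))) (PT.nd (nat_lit 78) (PT.lf (nat_lit 2736) (nat_lit 6) (nat_lit 36) (nat_lit 2) (nat_lit 163) (nat_lit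 165) (nat_lit 122)) (PT.nd (nat_lit 78) (PT.lf (nat_lit 2660) (nat_lit 6) (nat_lit 35) (nat_lit 2) (nat_lit 164) (nat_lit 165) (nat_lit 121)) (PT.lf (nat_lit 2508) (nat_lit 3) (nat_lit 33) (nat_lit 0) (nat_lit 165) (nat_lit 165) (nat_lit 120))))) (PT.nd (nat_lit 42978) (PT.nd (nat_lit 78) (PT.lf (nat_lit 2356) (nat_lit 6) (nat_lit 31) (nat_lit 0) (nat_lit 166) (nat_lit 165) (nat_lit 119)) (PT.nd (nat_lit 78) (PT.lf (nat_lit 2128) (nat_lit 6) (nat_lit 28) (nat_lit 0) (nat_lit 167) (nat_lit 165) (nat_lit 118)) (PT.lf (nat_lit 1976) (nat_lit 6) (nat_lit 26) (nat_lit 0) (nat_lit 168) (nat_lit 165) (nat_lit 117)))) (PT.nd (nat_lit 156) (PT.nd (nat_lit 78) (PT.lf (nat_lit 1824) (nat_lit 6) (nat_lit 24) (nat_lit 5) (nat_lit 116) (nat_lit 166) (nat_lit 168)) (PT.lf (nat_lit 2052) (nat_lit 6) (nat_lit 27) (nat_lit 5) (nat_lit 117) (nat_lit 166) (nat_lit 167))) (PT.nd (nat_lit 78) (PT.lf (nat_lit 2204)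 (nat_lit 3) (nat_lit 29) (nat_lit 4) (nat_lit 118) (nat_lit 166) (nat_lit 166)) (PT.lf (nat_lit 2356) (nat_lit 6) (nat_lit 31) (nat_lit 4) (nat_lit 119) (nat_lit 166) (nat_lit 165)))))) (PT.nd (nat_lit 3744) (PT.nd (nat_lit 3432) (PT.nd (nat_lit 78) (PT.lf (nat_lit 2432) (nat_lit 6) (nat_lit 32) (nat_lit 4) (nat_lit 120) (nat_lit 166) (nat_lit 164)) (PT.nd (nat_lit 3276) (PT.lf (nat_lit 2584) (nat_lit 6) (nat_lit 34) (nat_lit 4) (nat_lit 121) (nat_lit 166) (nat_lit 163)) (PT.lf (nat_lit 2584) (nat_lit 6) (nat_lit 34) (nat_lit 2) (nat_lit 163) (nat_lit 166) (nat_lit 121)))) (PT.nd (nat_lit 156) (PT.nd (nat_lit 78) (PT.lf (nat_lit 2432) (nat_lit 6) (nat_lit 32) (nat_lit 2) (nat_lit 164) (nat_lit 166) (nat_lit 120)) (PT.lf (nat_lit 2356) (nat_lit 6) (nat_lit 31) (nat_lit 2) (nat_lit 165) (nat_lit 166) (nat_lit 119))) (PT.nd (nat_lit 78) (PT.lf (nat_lit 2204) (nat_lit 3) (nat_lit 29) (nat_lit 0)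 (nat_lit 166) (nat_lit 166) (nat_lit 118)) (PT.lf (nat_lit 2052) (nat_lit 6) (nat_lit 27) (nat_lit 0) (nat_lit 167) (nat_lit 166) (nat_lit 117))))) (PT.nd (nat_lit 42822) (PT.nd (nat_lit 42666) (PT.lf (nat_lit 1824) (nat_lit 6) (nat_lit 24) (nat_lit 0) (nat_lit 168) (nat_lit 166) (nat_lit 116)) (PT.nd (nat_lit 78) (PT.lf (nat_lit 1596) (nat_lit 6) (nat_lit 21) (nat_lit 5) (nat_lit 114) (nat_lit 167) (nat_lit 169)) (PT.lf (nat_lit 1748) (nat_lit 6) (nat_lit 23) (nat_lit 5) (nat_lit 115) (nat_lit 167) (nat_lit 168)))) (PT.nd (nat_lit 156) (PT.nd (nat_lit 78) (PT.lf (nat_lit 1900) (nat_lit 3) (nat_lit 25) (nat_lit 4) (nat_lit 116) (nat_lit 167) (nat_lit 167)) (PT.lf (nat_lit 2052) (nat_lit 6) (nat_lit 27) (nat_lit 4) (nat_lit 117) (nat_lit 167) (nat_lit 166))) (PT.nd (nat_lit 78) (PT.lf (nat_lit 2128) (nat_lit 6) (nat_lit 28) (nat_lit 4) (nat_lit 118) (nat_lit 167) (nat_lit 165)) (PT.lf (nat_lit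 2280) (nat_lit 6) (nat_lit 30) (nat_lit 4) (nat_lit 119) (nat_lit 167) (nat_lit 164))))))) (PT.nd (nat_lit 47034) (PT.nd (nat_lit 42822) (PT.nd (nat_lit 234) (PT.nd (nat_lit 78) (PT.lf (nat_lit 2280) (nat_lit 6) (nat_lit 30) (nat_lit 2) (nat_lit 164) (nat_lit 167) (nat_lit 119)) (PT.nd (nat_lit 78) (PT.lf (nat_lit 2128) (nat_lit 6) (nat_lit 28) (nat_lit 2) (nat_lit 165) (nat_lit 167) (nat_lit 118)) (PT.lf (nat_lit 2052) (nat_lit 6) (nat_lit 27) (nat_lit 2) (nat_lit 166) (nat_lit 167) (nat_lit 117)))) (PT.nd (nat_lit 78) (PT.lf (nat_lit 1900) (nat_lit 3) (nat_lit 25) (nat_lit 0) (nat_lit 167) (nat_lit 167) (nat_lit 116)) (PT.nd (nat_lit 78) (PT.lf (nat_lit 1748) (nat_lit 6) (nat_lit 23) (nat_lit 0) (nat_lit 168) (nat_lit 167) (nat_lit 115)) (PT.lf (nat_lit 1596) (nat_lit 6) (nat_lit 21) (nat_lit 0) (nat_lit 169) (nat_lit 167) (nat_lit 114))))) (PT.nd (nat_lit 234) (PT.nd (nat_lit 78) (PT.lf (nat_lit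 1368) (nat_lit 6) (nat_lit 18) (nat_lit 5) (nat_lit 112) (nat_lit 168) (nat_lit 170)) (PT.nd (nat_lit 78) (PT.lf (nat_lit 1520) (nat_lit 6) (nat_lit 20) (nat_lit 5) (nat_lit 113) (nat_lit 168) (nat_lit 169)) (PT.lf (nat_lit 1672) (nat_lit 3) (nat_lit 22) (nat_lit 4) (nat_lit 114) (nat_lit 168) (nat_lit 168)))) (PT.nd (nat_lit 156) (PT.nd (nat_lit 78) (PT.lf (nat_lit 1748) (nat_lit 6) (nat_lit 23) (nat_lit 4) (nat_lit 115) (nat_lit 168) (nat_lit 167)) (PT.lf (nat_lit 1824) (nat_lit 6) (nat_lit 24) (nat_lit 4) (nat_lit 116) (nat_lit 168) (nat_lit 166))) (PT.nd (nat_lit 3744) (PT.lf (nat_lit 1976) (nat_lit 6) (nat_lit 26) (nat_lit 4) (nat_lit 117) (nat_lit 168) (nat_lit 165)) (PT.lf (nat_lit 1976) (nat_lit 6) (nat_lit 26) (nat_lit 2) (nat_lit 165) (nat_lit 168) (nat_lit 117)))))) (PT.nd (nat_lit 42666) (PT.nd (nat_lit 234) (PT.nd (nat_lit 78) (PT.lf (nat_lit 1824) (nat_lit 6) (nat_lit 24) (nat_lit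 2) (nat_lit 166) (nat_lit 168) (nat_lit 116)) (PT.nd (nat_lit 78) (PT.lf (nat_lit 1748) (nat_lit 6) (nat_lit 23) (nat_lit 2) (nat_lit 167) (nat_lit 168) (nat_lit 115)) (PT.lf (nat_lit 1672) (nat_lit 3) (nat_lit 22) (nat_lit 0) (nat_lit 168) (nat_lit 168) (nat_lit 114)))) (PT.nd (nat_lit 42276) (PT.nd (nat_lit 78) (PT.lf (nat_lit 1520) (nat_lit 6) (nat_lit 20) (nat_lit 0) (nat_lit 169) (nat_lit 168) (nat_lit 113)) (PT.lf (nat_lit 1368) (nat_lit 6) (nat_lit 18) (nat_lit 0) (nat_lit 170) (nat_lit 168) (nat_lit 112))) (PT.nd (nat_lit 78) (PT.lf (nat_lit 1140) (nat_lit 6) (nat_lit 15) (nat_lit 5) (nat_lit 110) (nat_lit 169) (nat_lit 171)) (PT.lf (nat_lit 1292) (nat_lit 6) (nat_lit 17) (nat_lit 5) (nat_lit 111) (nat_lit 169) (nat_lit 170))))) (PT.nd (nat_lit 4290) (PT.nd (nat_lit 78) (PT.lf (nat_lit 1444) (nat_lit 3) (nat_lit 19) (nat_lit 4) (nat_lit 112) (nat_lit 169) (nat_lit 169)) (PT.nd (nat_lit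 78) (PT.lf (nat_lit 1520) (nat_lit 6) (nat_lit 20) (nat_lit 4) (nat_lit 113) (nat_lit 169) (nat_lit 168)) (PT.lf (nat_lit 1596) (nat_lit 6) (nat_lit 21) (nat_lit 4) (nat_lit 114) (nat_lit 169) (nat_lit 167)))) (PT.nd (nat_lit 156) (PT.nd (nat_lit 78) (PT.lf (nat_lit 1596) (nat_lit 6) (nat_lit 21) (nat_lit 2) (nat_lit 167) (nat_lit 169) (nat_lit 114)) (PT.lf (nat_lit 1520) (nat_lit 6) (nat_lit 20) (nat_lit 2) (nat_lit 168) (nat_lit 169) (nat_lit 113))) (PT.nd (nat_lit 78) (PT.lf (nat_lit 1444) (nat_lit 3) (nat_lit 19) (nat_lit 0) (nat_lit 169) (nat_lit 169) (nat_lit 112)) (PT.lf (nat_lit 1292) (nat_lit 6) (nat_lit 17) (nat_lit 0) (nat_lit 170) (nat_lit 169) (nat_lit 111))))))))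
noncomputable def pc15 : PT := (PT.nd (nat_lit 140634) (PT.nd (nat_lit 88842) (PT.nd (nat_lit 46644) (PT.nd (nat_lit 42120) (PT.nd (nat_lit 41964) (PT.lf (nat_lit 1140) (nat_lit 6) (nat_lit 15) (nat_lit 0) (nat_lit 171) (nat_lit 169) (nat_lit 110)) (PT.nd (nat_lit 78) (PT.lf (nat_lit 912) (nat_lit 6) (nat_lit 12) (nat_lit 5) (nat_lit 108) (nat_lit 170) (nat_lit 172)) (PT.lf (nat_lit 1064) (nat_lit 6) (nat_lit 14) (nat_lit 5) (nat_lit 109) (nat_lit 170) (nat_lit 171)))) (PT.nd (nat_lit 78) (PT.lf (nat_lit 1216) (nat_lit 3) (nat_lit 16) (nat_lit 4) (nat_lit 110) (nat_lit 170) (nat_lit 170)) (PT.nd (nat_lit 78) (PT.lf (nat_lit 1292) (nat_lit 6) (nat_lit 17) (nat_lit 4) (nat_lit 111) (nat_lit 170) (nat_lit 169)) (PT.lf (nat_lit 1368) (nat_lit 6) (nat_lit 18) (nat_lit 4) (nat_lit 112) (nat_lit 170) (nat_lit 168))))) (PT.nd (nat_lit 234) (PT.nd (nat_lit 78) (PT.lf (nat_lit 1368) (nat_lit 6) (nat_lit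 18) (nat_lit 2) (nat_lit 168) (nat_lit 170) (nat_lit 112)) (PT.nd (nat_lit 78) (PT.lf (nat_lit 1292) (nat_lit 6) (nat_lit 17) (nat_lit 2) (nat_lit 169) (nat_lit 170) (nat_lit 111)) (PT.lf (nat_lit 1216) (nat_lit 3) (nat_lit 16) (nat_lit 0) (nat_lit 170) (nat_lit 170) (nat_lit 110)))) (PT.nd (nat_lit 41808) (PT.nd (nat_lit 78) (PT.lf (nat_lit 1064) (nat_lit 6) (nat_lit 14) (nat_lit 0) (nat_lit 171) (nat_lit 170) (nat_lit 109)) (PT.lf (nat_lit 912) (nat_lit 6) (nat_lit 12) (nat_lit 0) (nat_lit 172) (nat_lit 170) (nat_lit 108))) (PT.nd (nat_lit 78) (PT.lf (nat_lit 684) (nat_lit 6) (nat_lit 9) (nat_lit 5) (nat_lit 106) (nat_lit 171) (nat_lit 173)) (PT.lf (nat_lit 836) (nat_lit 6) (nat_lit 11) (nat_lit 5) (nat_lit 107) (nat_lit 171) (nat_lit 172)))))) (PT.nd (nat_lit 5070) (PT.nd (nat_lit 4758) (PT.nd (nat_lit 78) (PT.lf (nat_lit 988) (nat_lit 3) (nat_lit 13) (nat_lit 4) (nat_lit 108) (nat_lit 171)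 (nat_lit 171)) (PT.nd (nat_lit 78) (PT.lf (nat_lit 1064) (nat_lit 6) (nat_lit 14) (nat_lit 4) (nat_lit 109) (nat_lit 171) (nat_lit 170)) (PT.lf (nat_lit 1140) (nat_lit 6) (nat_lit 15) (nat_lit 4) (nat_lit 110) (nat_lit 171) (nat_lit 169)))) (PT.nd (nat_lit 156) (PT.nd (nat_lit 78) (PT.lf (nat_lit 1140) (nat_lit 6) (nat_lit 15) (nat_lit 2) (nat_lit 169) (nat_lit 171) (nat_lit 110)) (PT.lf (nat_lit 1064) (nat_lit 6) (nat_lit 14) (nat_lit 2) (nat_lit 170) (nat_lit 171) (nat_lit 109))) (PT.nd (nat_lit 78) (PT.lf (nat_lit 988) (nat_lit 3) (nat_lit 13) (nat_lit 0) (nat_lit 171) (nat_lit 171) (nat_lit 108)) (PT.lf (nat_lit 836) (nat_lit 6) (nat_lit 11) (nat_lit 0) (nat_lit 172) (nat_lit 171) (nat_lit 107))))) (PT.nd (nat_lit 41652) (PT.nd (nat_lit 41496) (PT.lf (nat_lit 684) (nat_lit 6) (nat_lit 9) (nat_lit 0) (nat_lit 173) (nat_lit 171) (nat_lit 106)) (PT.nd (nat_lit 78) (PT.lf (nat_lit 456) (nat_lit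 6) (nat_lit 6) (nat_lit 5) (nat_lit 104) (nat_lit 172) (nat_lit 174)) (PT.lf (nat_lit 608) (nat_lit 6) (nat_lit 8) (nat_lit 5) (nat_lit 105) (nat_lit 172) (nat_lit 173)))) (PT.nd (nat_lit 156) (PT.nd (nat_lit 78) (PT.lf (nat_lit 760) (nat_lit 3) (nat_lit 10) (nat_lit 4) (nat_lit 106) (nat_lit 172) (nat_lit 172)) (PT.lf (nat_lit 836) (nat_lit 6) (nat_lit 11) (nat_lit 4) (nat_lit 107) (nat_lit 172) (nat_lit 171))) (PT.nd (nat_lit 4836) (PT.lf (nat_lit 912) (nat_lit 6) (nat_lit 12) (nat_lit 4) (nat_lit 108) (nat_lit 172) (nat_lit 170)) (PT.lf (nat_lit 912) (nat_lit 6) (nat_lit 12) (nat_lit 2) (nat_lit 170) (nat_lit 172) (nat_lit 108))))))) (PT.nd (nat_lit 88296) (PT.nd (nat_lit 41730) (PT.nd (nat_lit 234) (PT.nd (nat_lit 78) (PT.lf (nat_lit 836) (nat_lit 6) (nat_lit 11) (nat_lit 2) (nat_lit 171) (nat_lit 172) (nat_lit 107)) (PT.nd (nat_lit 78) (PT.lf (nat_lit 760) (nat_lit 3) (nat_lit 10) (nat_lit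 0) (nat_lit 172) (nat_lit 172) (nat_lit 106)) (PT.lf (nat_lit 608) (nat_lit 6) (nat_lit 8) (nat_lit 0) (nat_lit 173) (nat_lit 172) (nat_lit 105)))) (PT.nd (nat_lit 41340) (PT.nd (nat_lit 41262) (PT.lf (nat_lit 456) (nat_lit 6) (nat_lit 6) (nat_lit 0) (nat_lit 174) (nat_lit 172) (nat_lit 104)) (PT.lf (nat_lit 228) (nat_lit 6) (nat_lit 3) (nat_lit 5) (nat_lit 102) (nat_lit 173) (nat_lit 175))) (PT.nd (nat_lit 78) (PT.lf (nat_lit 380) (nat_lit 6) (nat_lit 5) (nat_lit 5) (nat_lit 103) (nat_lit 173) (nat_lit 174)) (PT.lf (nat_lit 532) (nat_lit 3) (nat_lit 7) (nat_lit 4) (nat_lit 104) (nat_lit 173) (nat_lit 173))))) (PT.nd (nat_lit 5226) (PT.nd (nat_lit 78) (PT.lf (nat_lit 608) (nat_lit 6) (nat_lit 8) (nat_lit 4) (nat_lit 105) (nat_lit 173) (nat_lit 172)) (PT.nd (nat_lit 5070) (PT.lf (nat_lit 684) (nat_lit 6) (nat_lit 9) (nat_lit 4) (nat_lit 106) (nat_lit 173) (nat_lit 171)) (PT.lf (nat_lit 684) (nat_lit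 6) (nat_lit 9) (nat_lit 2) (nat_lit 171) (nat_lit 173) (nat_lit 106)))) (PT.nd (nat_lit 156) (PT.nd (nat_lit 78) (PT.lf (nat_lit 608) (nat_lit 6) (nat_lit 8) (nat_lit 2) (nat_lit 172) (nat_lit 173) (nat_lit 105)) (PT.lf (nat_lit 532) (nat_lit 3) (nat_lit 7) (nat_lit 0) (nat_lit 173) (nat_lit 173) (nat_lit 104))) (PT.nd (nat_lit 78) (PT.lf (nat_lit 380) (nat_lit 6) (nat_lit 5) (nat_lit 0) (nat_lit 174) (nat_lit 173) (nat_lit 103)) (PT.lf (nat_lit 228) (nat_lit 6) (nat_lit 3) (nat_lit 0) (nat_lit 175) (nat_lit 173) (nat_lit 102)))))) (PT.nd (nat_lit 5772) (PT.nd (nat_lit 234) (PT.nd (nat_lit 78) (PT.lf (nat_lit 152) (nat_lit 6) (nat_lit 2) (nat_lit 5) (nat_lit 101) (nat_lit 174) (nat_lit 175)) (PT.nd (nat_lit 78) (PT.lf (nat_lit 304) (nat_lit 3) (nat_lit 4) (nat_lit 4) (nat_lit 102) (nat_lit 174) (nat_lit 174)) (PT.lf (nat_lit 380) (nat_lit 6) (nat_lit 5) (nat_lit 4) (nat_lit 103) (nat_lit 174)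 (nat_lit 173)))) (PT.nd (nat_lit 5382) (PT.nd (nat_lit 5304) (PT.lf (nat_lit 456) (nat_lit 6) (nat_lit 6) (nat_lit 4) (nat_lit 104) (nat_lit 174) (nat_lit 172)) (PT.lf (nat_lit 456) (nat_lit 6) (nat_lit 6) (nat_lit 2) (nat_lit 172) (nat_lit 174) (nat_lit 104))) (PT.nd (nat_lit 78) (PT.lf (nat_lit 380) (nat_lit 6) (nat_lit 5) (nat_lit 2) (nat_lit 173) (nat_lit 174) (nat_lit 103)) (PT.lf (nat_lit 304) (nat_lit 3) (nat_lit 4) (nat_lit 0) (nat_lit 174) (nat_lit 174) (nat_lit 102))))) (PT.nd (nat_lit 41184) (PT.nd (nat_lit 41028) (PT.lf (nat_lit 152) (nat_lit 6) (nat_lit 2) (nat_lit 0) (nat_lit 175) (nat_lit 174) (nat_lit 101)) (PT.nd (nat_lit 78) (PT.lf (nat_lit 76) (nat_lit 3) (nat_lit 1) (nat_lit 4) (nat_lit 100) (nat_lit 175) (nat_lit 175)) (PT.lf (nat_lit 152) (nat_lit 6) (nat_lit 2) (nat_lit 4) (nat_lit 101) (nat_lit 175) (nat_lit 174)))) (PT.nd (nat_lit 5616) (PT.nd (nat_lit 5538) (PT.lf (nat_lit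 228) (nat_lit 6) (nat_lit 3) (nat_lit 4) (nat_lit 102) (nat_lit 175) (nat_lit 173)) (PT.lf (nat_lit 228) (nat_lit 6) (nat_lit 3) (nat_lit 2) (nat_lit 173) (nat_lit 175) (nat_lit 102))) (PT.nd (nat_lit 78) (PT.lf (nat_lit 152) (nat_lit 6) (nat_lit 2) (nat_lit 2) (nat_lit 174) (nat_lit 175) (nat_lit 101)) (PT.lf (nat_lit 76) (nat_lit 3) (nat_lit 1) (nat_lit 0) (nat_lit 175) (nat_lit 175) (nat_lit 100))))))))
noncomputable def xc0 : XT := (XT.nd (nat_lit 187200) (nat_lit 0) (nat_lit 0) (XT.nd (nat_lit 140166) (nat_lit 0) (nat_lit 0) (XT.nd (nat_lit 93444) (nat_lit 0) (nat_lit 0) (XT.nd (nat_lit 46800) (nat_lit 0) (nat_lit 0) (XT.nd (nat_lit 46722) (nat_lit 0) (nat_lit 152) (XT.lf (nat_lit 0) (nat_lit 6790858006) (nat_lit 152) (nat_lit 97134153089) (nat_lit 0) (nat_lit 6646188678) (nat_lit 2) (nat_lit 5) (nat_lit 4) (nat_lit 4) (nat_lit 2) (nat_lit 4) (nat_lit 397) (nat_lit 252) (nat_lit 251)) (XT.lf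 (nat_lit 0) (nat_lit 92607042523) (nat_lit 76) (nat_lit 4076730077) (nat_lit 76) (nat_lit 3920270199) (nat_lit 4) (nat_lit 4) (nat_lit 5) (nat_lit 5) (nat_lit 5) (nat_lit 4) (nat_lit 395) (nat_lit 253) (nat_lit 252))) (XT.nd (nat_lit 78) (nat_lit 0) (nat_lit 0) (XT.lf (nat_lit 0) (nat_lit 1357324905) (nat_lit 152) (nat_lit 103050390748) (nat_lit 0) (nat_lit 1060752783) (nat_lit 2) (nat_lit 5) (nat_lit 4) (nat_lit 4) (nat_lit 2) (nat_lit 4) (nat_lit 396) (nat_lit 253) (nat_lit 251)) (XT.nd (nat_lit 46488) (nat_lit 0) (nat_lit 152) (XT.lf (nat_lit 0) (nat_lit 6766967008) (nat_lit 152) (nat_lit 97476903774) (nat_lit 0) (nat_lit 6332614573) (nat_lit 2) (nat_lit 5) (nat_lit 4) (nat_lit 4) (nat_lit 2) (nat_lit 4) (nat_lit 397) (nat_lit 253) (nat_lit 250)) (XT.lf (nat_lit 0) (nat_lit 24632704725) (nat_lit 76) (nat_lit 9528876204) (nat_lit 76) (nat_lit 9528876204) (nat_lit 4) (nat_lit 4) (nat_lit 5)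 (nat_lit 5) (nat_lit 5) (nat_lit 4) (nat_lit 392) (nat_lit 254) (nat_lit 254))))) (XT.nd (nat_lit 234) (nat_lit 152) (nat_lit 0) (XT.nd (nat_lit 78) (nat_lit 0) (nat_lit 0) (XT.lf (nat_lit 0) (nat_lit 63249664756) (nat_lit 76) (nat_lit 14243186425) (nat_lit 76) (nat_lit 14078903553) (nat_lit 4) (nat_lit 4) (nat_lit 5) (nat_lit 5) (nat_lit 5) (nat_lit 4) (nat_lit 393) (nat_lit 254) (nat_lit 253)) (XT.nd (nat_lit 78) (nat_lit 0) (nat_lit 0) (XT.lf (nat_lit 0) (nat_lit 77570336837) (nat_lit 76) (nat_lit 9364077413) (nat_lit 76) (nat_lit 9043334662) (nat_lit 4) (nat_lit 4) (nat_lit 5) (nat_lit 5) (nat_lit 5) (nat_lit 4) (nat_lit 394) (nat_lit 254) (nat_lit 252)) (XT.lf (nat_lit 0) (nat_lit 92261522533) (nat_lit 76) (nat_lit 4408808444) (nat_lit 76) (nat_lit 3939056285) (nat_lit 4) (nat_lit 4) (nat_lit 5) (nat_lit 5) (nat_lit 5) (nat_lit 4) (nat_lit 395) (nat_lit 254) (nat_lit 251)))) (XT.nd (nat_lit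 78) (nat_lit 0) (nat_lit 0) (XT.lf (nat_lit 0) (nat_lit 1246486288) (nat_lit 152) (nat_lit 103577474424) (nat_lit 0) (nat_lit 652635918) (nat_lit 2) (nat_lit 5) (nat_lit 4) (nat_lit 4) (nat_lit 2) (nat_lit 4) (nat_lit 396) (nat_lit 254) (nat_lit 250)) (XT.nd (nat_lit 46332) (nat_lit 0) (nat_lit 152) (XT.lf (nat_lit 0) (nat_lit 6574458801) (nat_lit 152) (nat_lit 98163221218) (nat_lit 0) (nat_lit 5849389086) (nat_lit 2) (nat_lit 5) (nat_lit 4) (nat_lit 4) (nat_lit 2) (nat_lit 4) (nat_lit 397) (nat_lit 254) (nat_lit 249)) (XT.lf (nat_lit 0) (nat_lit 11184400476) (nat_lit 76) (nat_lit 14308362814) (nat_lit 76) (nat_lit 14308362814) (nat_lit 4) (nat_lit 4) (nat_lit 5) (nat_lit 5) (nat_lit 5) (nat_lit 4) (nat_lit 390) (nat_lit 255) (nat_lit 255)))))) (XT.nd (nat_lit 468) (nat_lit 0) (nat_lit 0) (XT.nd (nat_lit 234) (nat_lit 152) (nat_lit 0) (XT.nd (nat_lit 78) (nat_lit 0) (nat_lit 0) (XT.lf (nat_lit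 0) (nat_lit 35584275075) (nat_lit 76) (nat_lit 23991735628) (nat_lit 76) (nat_lit 23819238612) (nat_lit 4) (nat_lit 4) (nat_lit 5) (nat_lit 5) (nat_lit 5) (nat_lit 4) (nat_lit 391) (nat_lit 255) (nat_lit 254)) (XT.nd (nat_lit 78) (nat_lit 0) (nat_lit 0) (XT.lf (nat_lit 0) (nat_lit 49079587114) (nat_lit 76) (nat_lit 19320490659) (nat_lit 76) (nat_lit 18983710771) (nat_lit 4) (nat_lit 4) (nat_lit 5) (nat_lit 5) (nat_lit 5) (nat_lit 4) (nat_lit 392) (nat_lit 255) (nat_lit 253)) (XT.lf (nat_lit 0) (nat_lit 62886868766) (nat_lit 76) (nat_lit 14591868710) (nat_lit 76) (nat_lit 14098628943) (nat_lit 4) (nat_lit 4) (nat_lit 5) (nat_lit 5) (nat_lit 5) (nat_lit 4) (nat_lit 393) (nat_lit 255) (nat_lit 252)))) (XT.nd (nat_lit 78) (nat_lit 152) (nat_lit 0) (XT.lf (nat_lit 0) (nat_lit 77038994511) (nat_lit 76) (nat_lit 9794611158) (nat_lit 76) (nat_lit 9152361983) (nat_lit 4) (nat_lit 4) (nat_lit 5) (nat_lit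 5) (nat_lit 5) (nat_lit 4) (nat_lit 394) (nat_lit 255) (nat_lit 251)) (XT.nd (nat_lit 78) (nat_lit 152) (nat_lit 0) (XT.lf (nat_lit 0) (nat_lit 91569659886) (nat_lit 76) (nat_lit 4917295961) (nat_lit 76) (nat_lit 4133133064) (nat_lit 4) (nat_lit 4) (nat_lit 5) (nat_lit 5) (nat_lit 5) (nat_lit 4) (nat_lit 395) (nat_lit 255) (nat_lit 250)) (XT.lf (nat_lit 0) (nat_lit 962683080) (nat_lit 152) (nat_lit 104457341509) (nat_lit 0) (nat_lit 70140534) (nat_lit 2) (nat_lit 5) (nat_lit 4) (nat_lit 4) (nat_lit 2) (nat_lit 4) (nat_lit 396) (nat_lit 255) (nat_lit 249))))) (XT.nd (nat_lit 46332) (nat_lit 0) (nat_lit 152) (XT.nd (nat_lit 46176) (nat_lit 0) (nat_lit 152) (XT.lf (nat_lit 0) (nat_lit 6212875031) (nat_lit 152) (nat_lit 99194739510) (nat_lit 0) (nat_lit 5195361680) (nat_lit 2) (nat_lit 5) (nat_lit 4) (nat_lit 4) (nat_lit 2) (nat_lit 4) (nat_lit 397) (nat_lit 255) (nat_lit 248)) (XT.nd (nat_lit 78)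 (nat_lit 76) (nat_lit 0) (XT.lf (nat_lit 0) (nat_lit 17370356654) (nat_lit 152) (nat_lit 1540851390) (nat_lit 0) (nat_lit 17370356654) (nat_lit 5) (nat_lit 5) (nat_lit 7) (nat_lit 4) (nat_lit 5) (nat_lit 4) (nat_lit 388) (nat_lit 256) (nat_lit 256)) (XT.lf (nat_lit 0) (nat_lit 9401699333) (nat_lit 76) (nat_lit 33387594411) (nat_lit 76) (nat_lit 33206472544) (nat_lit 4) (nat_lit 4) (nat_lit 5) (nat_lit 5) (nat_lit 5) (nat_lit 4) (nat_lit 389) (nat_lit 256) (nat_lit 255)))) (XT.nd (nat_lit 78) (nat_lit 0) (nat_lit 0) (XT.lf (nat_lit 0) (nat_lit 22173687500) (nat_lit 76) (nat_lit 28892600793) (nat_lit 76) (nat_lit 28538981910) (nat_lit 4) (nat_lit 4) (nat_lit 5) (nat_lit 5) (nat_lit 5) (nat_lit 4) (nat_lit 390) (nat_lit 256) (nat_lit 254)) (XT.nd (nat_lit 78) (nat_lit 0) (nat_lit 0) (XT.lf (nat_lit 0) (nat_lit 35203339286) (nat_lit 76) (nat_lit 24357852027) (nat_lit 76) (nat_lit 23839950272) (nat_lit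 4) (nat_lit 4) (nat_lit 5) (nat_lit 5) (nat_lit 5) (nat_lit 4) (nat_lit 391) (nat_lit 256) (nat_lit 253)) (XT.lf (nat_lit 0) (nat_lit 48521677672) (nat_lit 76) (nat_lit 19772551091) (nat_lit 76) (nat_lit 19098189458) (nat_lit 4) (nat_lit 4) (nat_lit 5) (nat_lit 5) (nat_lit 5) (nat_lit 4) (nat_lit 392) (nat_lit 256) (nat_lit 252))))))) (XT.nd (nat_lit 46878) (nat_lit 0) (nat_lit 0) (XT.nd (nat_lit 46410) (nat_lit 0) (nat_lit 152) (XT.nd (nat_lit 234) (nat_lit 152) (nat_lit 0) (XT.nd (nat_lit 78) (nat_lit 0) (nat_lit 0) (XT.lf (nat_lit 0) (nat_lit 62160412988) (nat_lit 76) (nat_lit 15125780603) (nat_lit 76) (nat_lit 14302409562) (nat_lit 4) (nat_lit 4) (nat_lit 5) (nat_lit 5) (nat_lit 5) (nat_lit 4) (nat_lit 393) (nat_lit 256) (nat_lit 251)) (XT.nd (nat_lit 78) (nat_lit 0) (nat_lit 0) (XT.lf (nat_lit 0) (nat_lit 76152018412) (nat_lit 76) (nat_lit 10406476823) (nat_lit 76) (nat_lit 9441192060)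 (nat_lit 4) (nat_lit 4) (nat_lit 5) (nat_lit 5) (nat_lit 5) (nat_lit 4) (nat_lit 394) (nat_lit 256) (nat_lit 250)) (XT.lf (nat_lit 0) (nat_lit 90529807292) (nat_lit 76) (nat_lit 5603403314) (nat_lit 76) (nat_lit 4502962625) (nat_lit 4) (nat_lit 4) (nat_lit 5) (nat_lit 5) (nat_lit 5) (nat_lit 4) (nat_lit 395) (nat_lit 256) (nat_lit 249)))) (XT.nd (nat_lit 78) (nat_lit 76) (nat_lit 0) (XT.lf (nat_lit 0) (nat_lit 513810593) (nat_lit 152) (nat_lit 186125112) (nat_lit 76) (nat_lit 104809013383) (nat_lit 3) (nat_lit 5) (nat_lit 5) (nat_lit 5) (nat_lit 4) (nat_lit 4) (nat_lit 396) (nat_lit 256) (nat_lit 248)) (XT.nd (nat_lit 46020) (nat_lit 0) (nat_lit 228) (XT.lf (nat_lit 0) (nat_lit 5681354786) (nat_lit 152) (nat_lit 100573914645) (nat_lit 0) (nat_lit 4368975148) (nat_lit 2) (nat_lit 5) (nat_lit 4) (nat_lit 4) (nat_lit 2) (nat_lit 4) (nat_lit 397) (nat_lit 256) (nat_lit 247)) (XT.lf (nat_lit 0) (nat_lit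 9817869555) (nat_lit 152) (nat_lit 13459446392) (nat_lit 0) (nat_lit 9817869555) (nat_lit 5) (nat_lit 5) (nat_lit 7) (nat_lit 4) (nat_lit 5) (nat_lit 4) (nat_lit 386) (nat_lit 257) (nat_lit 257))))) (XT.nd (nat_lit 234) (nat_lit 0) (nat_lit 0) (XT.nd (nat_lit 78) (nat_lit 76) (nat_lit 0) (XT.lf (nat_lit 0) (nat_lit 27149754445) (nat_lit 152) (nat_lit 15188109875) (nat_lit 0) (nat_lit 26959576485) (nat_lit 5) (nat_lit 5) (nat_lit 7) (nat_lit 4) (nat_lit 5) (nat_lit 4) (nat_lit 387) (nat_lit 257) (nat_lit 256)) (XT.nd (nat_lit 78) (nat_lit 76) (nat_lit 0) (XT.lf (nat_lit 0) (nat_lit 34827482432) (nat_lit 152) (nat_lit 3282574172) (nat_lit 0) (nat_lit 34456182605) (nat_lit 5) (nat_lit 5) (nat_lit 7) (nat_lit 4) (nat_lit 5) (nat_lit 4) (nat_lit 388) (nat_lit 257) (nat_lit 255)) (XT.lf (nat_lit 0) (nat_lit 9001716754) (nat_lit 76) (nat_lit 33772016630) (nat_lit 76) (nat_lit 33228219787) (nat_lit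 4) (nat_lit 4) (nat_lit 5) (nat_lit 5) (nat_lit 5) (nat_lit 4) (nat_lit 389) (nat_lit 257) (nat_lit 254)))) (XT.nd (nat_lit 78) (nat_lit 0) (nat_lit 0) (XT.lf (nat_lit 0) (nat_lit 21587882585) (nat_lit 76) (nat_lit 29367264247) (nat_lit 76) (nat_lit 28659184532) (nat_lit 4) (nat_lit 4) (nat_lit 5) (nat_lit 5) (nat_lit 5) (nat_lit 4) (nat_lit 390) (nat_lit 257) (nat_lit 253)) (XT.nd (nat_lit 78) (nat_lit 0) (nat_lit 0) (XT.lf (nat_lit 0) (nat_lit 34440560718) (nat_lit 76) (nat_lit 24918459515) (nat_lit 76) (nat_lit 24053919921) (nat_lit 4) (nat_lit 4) (nat_lit 5) (nat_lit 5) (nat_lit 5) (nat_lit 4) (nat_lit 391) (nat_lit 257) (nat_lit 252)) (XT.lf (nat_lit 0) (nat_lit 47590352768) (nat_lit 76) (nat_lit 20415010040) (nat_lit 76) (nat_lit 19401461038) (nat_lit 4) (nat_lit 4) (nat_lit 5) (nat_lit 5) (nat_lit 5) (nat_lit 4) (nat_lit 392) (nat_lit 257) (nat_lit 251)))))) (XT.nd (nat_lit 46254) (nat_lit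 0) (nat_lit 152) (XT.nd (nat_lit 234) (nat_lit 152) (nat_lit 0) (XT.nd (nat_lit 78) (nat_lit 0) (nat_lit 0) (XT.lf (nat_lit 0) (nat_lit 61068567763) (nat_lit 76) (nat_lit 15846193324) (nat_lit 76) (nat_lit 14690730600) (nat_lit 4) (nat_lit 4) (nat_lit 5) (nat_lit 5) (nat_lit 5) (nat_lit 4) (nat_lit 393) (nat_lit 257) (nat_lit 250)) (XT.nd (nat_lit 78) (nat_lit 0) (nat_lit 0) (XT.lf (nat_lit 0) (nat_lit 74907296692) (nat_lit 76) (nat_lit 11201131231) (nat_lit 76) (nat_lit 9910512582) (nat_lit 4) (nat_lit 4) (nat_lit 5) (nat_lit 5) (nat_lit 5) (nat_lit 4) (nat_lit 394) (nat_lit 257) (nat_lit 249)) (XT.lf (nat_lit 0) (nat_lit 89139488909) (nat_lit 76) (nat_lit 6468764091) (nat_lit 76) (nat_lit 5049425513) (nat_lit 4) (nat_lit 4) (nat_lit 5) (nat_lit 5) (nat_lit 5) (nat_lit 4) (nat_lit 395) (nat_lit 257) (nat_lit 248)))) (XT.nd (nat_lit 78) (nat_lit 152) (nat_lit 0) (XT.lf (nat_lit 0) (nat_lit 103799030586)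 (nat_lit 76) (nat_lit 1637824362) (nat_lit 76) (nat_lit 95895375) (nat_lit 4) (nat_lit 4) (nat_lit 5) (nat_lit 5) (nat_lit 5) (nat_lit 4) (nat_lit 396) (nat_lit 257) (nat_lit 247)) (XT.nd (nat_lit 45864) (nat_lit 0) (nat_lit 228) (XT.lf (nat_lit 0) (nat_lit 4978632539) (nat_lit 152) (nat_lit 102304030374) (nat_lit 0) (nat_lit 3368261901) (nat_lit 2) (nat_lit 5) (nat_lit 4) (nat_lit 4) (nat_lit 2) (nat_lit 4) (nat_lit 397) (nat_lit 257) (nat_lit 246)) (XT.lf (nat_lit 0) (nat_lit 2670663321) (nat_lit 152) (nat_lit 24873055838) (nat_lit 0) (nat_lit 2670663321) (nat_lit 5) (nat_lit 5) (nat_lit 7) (nat_lit 4) (nat_lit 5) (nat_lit 4) (nat_lit 384) (nat_lit 258) (nat_lit 258))))) (XT.nd (nat_lit 234) (nat_lit 76) (nat_lit 0) (XT.nd (nat_lit 78) (nat_lit 0) (nat_lit 0) (XT.lf (nat_lit 0) (nat_lit 12467232773) (nat_lit 152) (nat_lit 38502853335) (nat_lit 0) (nat_lit 12267545915) (nat_lit 5) (nat_lit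 5) (nat_lit 7) (nat_lit 4) (nat_lit 5) (nat_lit 4) (nat_lit 385) (nat_lit 258) (nat_lit 257)) (XT.nd (nat_lit 78) (nat_lit 0) (nat_lit 0) (XT.lf (nat_lit 0) (nat_lit 19726846690) (nat_lit 152) (nat_lit 27129807745) (nat_lit 0) (nat_lit 19336981872) (nat_lit 5) (nat_lit 5) (nat_lit 7) (nat_lit 4) (nat_lit 5) (nat_lit 4) (nat_lit 386) (nat_lit 258) (nat_lit 256)) (XT.lf (nat_lit 0) (nat_lit 27137453189) (nat_lit 152) (nat_lit 15599896227) (nat_lit 0) (nat_lit 26566466504) (nat_lit 5) (nat_lit 5) (nat_lit 7) (nat_lit 4) (nat_lit 5) (nat_lit 4) (nat_lit 387) (nat_lit 258) (nat_lit 255)))) (XT.nd (nat_lit 78) (nat_lit 76) (nat_lit 0) (XT.lf (nat_lit 0) (nat_lit 34716696570) (nat_lit 152) (nat_lit 3885666610) (nat_lit 0) (nat_lit 33973212869) (nat_lit 5) (nat_lit 5) (nat_lit 7) (nat_lit 4) (nat_lit 5) (nat_lit 4) (nat_lit 388) (nat_lit 258) (nat_lit 254)) (XT.nd (nat_lit 78) (nat_lit 0) (nat_lit 0)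 (XT.lf (nat_lit 0) (nat_lit 8200799258) (nat_lit 76) (nat_lit 34360654492) (nat_lit 76) (nat_lit 33452887919) (nat_lit 4) (nat_lit 4) (nat_lit 5) (nat_lit 5) (nat_lit 5) (nat_lit 4) (nat_lit 389) (nat_lit 258) (nat_lit 253)) (XT.lf (nat_lit 0) (nat_lit 20609991436) (nat_lit 76) (nat_lit 30041846143) (nat_lit 76) (nat_lit 28977619692) (nat_lit 4) (nat_lit 4) (nat_lit 5) (nat_lit 5) (nat_lit 5) (nat_lit 4) (nat_lit 390) (nat_lit 258) (nat_lit 252))))))))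
noncomputable def xc1 : XT := (XT.nd (nat_lit 92898) (nat_lit 0) (nat_lit 152) (XT.nd (nat_lit 46488) (nat_lit 0) (nat_lit 0) (XT.nd (nat_lit 390) (nat_lit 152) (nat_lit 0) (XT.nd (nat_lit 156) (nat_lit 0) (nat_lit 0) (XT.nd (nat_lit 78) (nat_lit 0) (nat_lit 0) (XT.lf (nat_lit 0) (nat_lit 33294123232) (nat_lit 76) (nat_lit 25674892871) (nat_lit 76) (nat_lit 24461657012) (nat_lit 4) (nat_lit 4) (nat_lit 5) (nat_lit 5) (nat_lit 5) (nat_lit 4) (nat_lit 391) (nat_lit 258) (nat_lit 251)) (XT.lf (nat_lit 0) (nat_lit 46283394961) (nat_lit 76) (nat_lit 21249397168) (nat_lit 76) (nat_lit 19894247587) (nat_lit 4) (nat_lit 4) (nat_lit 5) (nat_lit 5) (nat_lit 5) (nat_lit 4) (nat_lit 392) (nat_lit 258) (nat_lit 250))) (XT.nd (nat_lit 78) (nat_lit 0) (nat_lit 0) (XT.lf (nat_lit 0) (nat_lit 59608733461) (nat_lit 76) (nat_lit 16754822140) (nat_lit 76) (nat_lit 15264516632) (nat_lit 4) (nat_lit 4) (nat_lit 5)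 (nat_lit 5) (nat_lit 5) (nat_lit 4) (nat_lit 393) (nat_lit 258) (nat_lit 249)) (XT.nd (nat_lit 78) (nat_lit 0) (nat_lit 0) (XT.lf (nat_lit 0) (nat_lit 73301865727) (nat_lit 76) (nat_lit 12180466416) (nat_lit 76) (nat_lit 10561440980) (nat_lit 4) (nat_lit 4) (nat_lit 5) (nat_lit 5) (nat_lit 5) (nat_lit 4) (nat_lit 394) (nat_lit 258) (nat_lit 248)) (XT.lf (nat_lit 0) (nat_lit 87395394456) (nat_lit 76) (nat_lit 7515438675) (nat_lit 76) (nat_lit 5773822830) (nat_lit 4) (nat_lit 4) (nat_lit 5) (nat_lit 5) (nat_lit 5) (nat_lit 4) (nat_lit 395) (nat_lit 258) (nat_lit 247))))) (XT.nd (nat_lit 45864) (nat_lit 0) (nat_lit 228) (XT.nd (nat_lit 78) (nat_lit 152) (nat_lit 0) (XT.lf (nat_lit 0) (nat_lit 101922875668) (nat_lit 76) (nat_lit 2748631707) (nat_lit 76) (nat_lit 890263092) (nat_lit 4) (nat_lit 4) (nat_lit 5) (nat_lit 5) (nat_lit 5) (nat_lit 4) (nat_lit 396) (nat_lit 258) (nat_lit 246)) (XT.nd (nat_lit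 45708) (nat_lit 0) (nat_lit 380) (XT.lf (nat_lit 0) (nat_lit 4103035145) (nat_lit 152) (nat_lit 104389206020) (nat_lit 0) (nat_lit 2190839290) (nat_lit 2) (nat_lit 5) (nat_lit 4) (nat_lit 4) (nat_lit 2) (nat_lit 4) (nat_lit 397) (nat_lit 258) (nat_lit 245)) (XT.lf (nat_lit 0) (nat_lit 19439720355) (nat_lit 76) (nat_lit 4083355843) (nat_lit 76) (nat_lit 4083355843) (nat_lit 7) (nat_lit 4) (nat_lit 8) (nat_lit 5) (nat_lit 8) (nat_lit 4) (nat_lit 382) (nat_lit 259) (nat_lit 259)))) (XT.nd (nat_lit 78) (nat_lit 152) (nat_lit 0) (XT.lf (nat_lit 0) (nat_lit 54663177323) (nat_lit 76) (nat_lit 1655659657) (nat_lit 76) (nat_lit 1439698320) (nat_lit 7) (nat_lit 4) (nat_lit 8) (nat_lit 5) (nat_lit 8) (nat_lit 4) (nat_lit 383) (nat_lit 259) (nat_lit 258)) (XT.nd (nat_lit 78) (nat_lit 0) (nat_lit 0) (XT.lf (nat_lit 0) (nat_lit 5436989602) (nat_lit 152) (nat_lit 49967572386) (nat_lit 0) (nat_lit 5027631543)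 (nat_lit 5) (nat_lit 5) (nat_lit 7) (nat_lit 4) (nat_lit 5) (nat_lit 4) (nat_lit 384) (nat_lit 259) (nat_lit 257)) (XT.lf (nat_lit 0) (nat_lit 12454316454) (nat_lit 152) (nat_lit 38935229004) (nat_lit 0) (nat_lit 11854780435) (nat_lit 5) (nat_lit 5) (nat_lit 7) (nat_lit 4) (nat_lit 5) (nat_lit 4) (nat_lit 385) (nat_lit 259) (nat_lit 256)))))) (XT.nd (nat_lit 468) (nat_lit 152) (nat_lit 0) (XT.nd (nat_lit 234) (nat_lit 76) (nat_lit 0) (XT.nd (nat_lit 78) (nat_lit 0) (nat_lit 0) (XT.lf (nat_lit 0) (nat_lit 19610521535) (nat_lit 152) (nat_lit 27763054805) (nat_lit 0) (nat_lit 18829863649) (nat_lit 5) (nat_lit 5) (nat_lit 7) (nat_lit 4) (nat_lit 5) (nat_lit 4) (nat_lit 386) (nat_lit 259) (nat_lit 255)) (XT.nd (nat_lit 78) (nat_lit 0) (nat_lit 0) (XT.lf (nat_lit 0) (nat_lit 26922643428) (nat_lit 152) (nat_lit 16424449373) (nat_lit 0) (nat_lit 25969488526) (nat_lit 5) (nat_lit 5) (nat_lit 7) (nat_lit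 4) (nat_lit 5) (nat_lit 4) (nat_lit 387) (nat_lit 259) (nat_lit 254)) (XT.lf (nat_lit 0) (nat_lit 34408091946) (nat_lit 152) (nat_lit 4892416029) (nat_lit 0) (nat_lit 33290654172) (nat_lit 5) (nat_lit 5) (nat_lit 7) (nat_lit 4) (nat_lit 5) (nat_lit 4) (nat_lit 388) (nat_lit 259) (nat_lit 253)))) (XT.nd (nat_lit 78) (nat_lit 0) (nat_lit 0) (XT.lf (nat_lit 0) (nat_lit 6997039898) (nat_lit 76) (nat_lit 35154909516) (nat_lit 76) (nat_lit 33881011864) (nat_lit 4) (nat_lit 4) (nat_lit 5) (nat_lit 5) (nat_lit 5) (nat_lit 4) (nat_lit 389) (nat_lit 259) (nat_lit 252)) (XT.nd (nat_lit 78) (nat_lit 0) (nat_lit 0) (XT.lf (nat_lit 0) (nat_lit 19237685739) (nat_lit 76) (nat_lit 30917952628) (nat_lit 76) (nat_lit 29495045567) (nat_lit 4) (nat_lit 4) (nat_lit 5) (nat_lit 5) (nat_lit 5) (nat_lit 4) (nat_lit 390) (nat_lit 259) (nat_lit 251)) (XT.lf (nat_lit 0) (nat_lit 31761297215) (nat_lit 76) (nat_lit 26628953128)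 (nat_lit 76) (nat_lit 25064132345) (nat_lit 4) (nat_lit 4) (nat_lit 5) (nat_lit 5) (nat_lit 5) (nat_lit 4) (nat_lit 391) (nat_lit 259) (nat_lit 250))))) (XT.nd (nat_lit 234) (nat_lit 152) (nat_lit 0) (XT.nd (nat_lit 78) (nat_lit 0) (nat_lit 0) (XT.lf (nat_lit 0) (nat_lit 44597692449) (nat_lit 76) (nat_lit 22277699113) (nat_lit 76) (nat_lit 20577722404) (nat_lit 4) (nat_lit 4) (nat_lit 5) (nat_lit 5) (nat_lit 5) (nat_lit 4) (nat_lit 392) (nat_lit 259) (nat_lit 249)) (XT.nd (nat_lit 78) (nat_lit 0) (nat_lit 0) (XT.lf (nat_lit 0) (nat_lit 57777434285) (nat_lit 76) (nat_lit 17853830453) (nat_lit 76) (nat_lit 16025133816) (nat_lit 4) (nat_lit 4) (nat_lit 5) (nat_lit 5) (nat_lit 5) (nat_lit 4) (nat_lit 393) (nat_lit 259) (nat_lit 248)) (XT.lf (nat_lit 0) (nat_lit 71331903063) (nat_lit 76) (nat_lit 13346814129) (nat_lit 76) (nat_lit 11395527083) (nat_lit 4) (nat_lit 4) (nat_lit 5) (nat_lit 5) (nat_lit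 5) (nat_lit 4) (nat_lit 394) (nat_lit 259) (nat_lit 247)))) (XT.nd (nat_lit 78) (nat_lit 152) (nat_lit 0) (XT.lf (nat_lit 0) (nat_lit 85293371327) (nat_lit 76) (nat_lit 8745919149) (nat_lit 76) (nat_lit 6677879332) (nat_lit 4) (nat_lit 4) (nat_lit 5) (nat_lit 5) (nat_lit 5) (nat_lit 4) (nat_lit 395) (nat_lit 259) (nat_lit 246)) (XT.nd (nat_lit 78) (nat_lit 152) (nat_lit 0) (XT.lf (nat_lit 0) (nat_lit 99695080668) (nat_lit 76) (nat_lit 4040191001) (nat_lit 76) (nat_lit 1860958070) (nat_lit 4) (nat_lit 4) (nat_lit 5) (nat_lit 5) (nat_lit 5) (nat_lit 4) (nat_lit 396) (nat_lit 259) (nat_lit 245)) (XT.lf (nat_lit 0) (nat_lit 3052477846) (nat_lit 152) (nat_lit 106834406288) (nat_lit 0) (nat_lit 833903928) (nat_lit 2) (nat_lit 5) (nat_lit 4) (nat_lit 4) (nat_lit 2) (nat_lit 4) (nat_lit 397) (nat_lit 259) (nat_lit 244))))))) (XT.nd (nat_lit 936) (nat_lit 0) (nat_lit 0) (XT.nd (nat_lit 468) (nat_lit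 76) (nat_lit 0) (XT.nd (nat_lit 234) (nat_lit 152) (nat_lit 0) (XT.nd (nat_lit 78) (nat_lit 0) (nat_lit 0) (XT.lf (nat_lit 0) (nat_lit 4228449238) (nat_lit 76) (nat_lit 10509800470) (nat_lit 76) (nat_lit 10509800470) (nat_lit 7) (nat_lit 4) (nat_lit 8) (nat_lit 5) (nat_lit 8) (nat_lit 4) (nat_lit 380) (nat_lit 260) (nat_lit 260)) (XT.nd (nat_lit 78) (nat_lit 0) (nat_lit 0) (XT.lf (nat_lit 0) (nat_lit 23411496205) (nat_lit 76) (nat_lit 14805223991) (nat_lit 76) (nat_lit 14578464587) (nat_lit 7) (nat_lit 4) (nat_lit 8) (nat_lit 5) (nat_lit 8) (nat_lit 4) (nat_lit 381) (nat_lit 260) (nat_lit 259)) (XT.lf (nat_lit 0) (nat_lit 38656218702) (nat_lit 76) (nat_lit 8501416708) (nat_lit 76) (nat_lit 8058695967) (nat_lit 7) (nat_lit 4) (nat_lit 8) (nat_lit 5) (nat_lit 8) (nat_lit 4) (nat_lit 382) (nat_lit 260) (nat_lit 258)))) (XT.nd (nat_lit 78) (nat_lit 152) (nat_lit 0) (XT.lf (nat_lit 0) (nat_lit 54227362924)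 (nat_lit 76) (nat_lit 2093170026) (nat_lit 76) (nat_lit 1444771821) (nat_lit 7) (nat_lit 4) (nat_lit 8) (nat_lit 5) (nat_lit 8) (nat_lit 4) (nat_lit 383) (nat_lit 260) (nat_lit 257)) (XT.nd (nat_lit 78) (nat_lit 0) (nat_lit 0) (XT.lf (nat_lit 0) (nat_lit 5314848189) (nat_lit 152) (nat_lit 50632481798) (nat_lit 0) (nat_lit 4495157409) (nat_lit 5) (nat_lit 5) (nat_lit 7) (nat_lit 4) (nat_lit 5) (nat_lit 4) (nat_lit 384) (nat_lit 260) (nat_lit 256)) (XT.lf (nat_lit 0) (nat_lit 12228766205) (nat_lit 152) (nat_lit 39801009808) (nat_lit 0) (nat_lit 11227953558) (nat_lit 5) (nat_lit 5) (nat_lit 7) (nat_lit 4) (nat_lit 5) (nat_lit 4) (nat_lit 385) (nat_lit 260) (nat_lit 255))))) (XT.nd (nat_lit 234) (nat_lit 76) (nat_lit 0) (XT.nd (nat_lit 78) (nat_lit 0) (nat_lit 0) (XT.lf (nat_lit 0) (nat_lit 19286486680) (nat_lit 152) (nat_lit 28820141695) (nat_lit 0) (nat_lit 18113177017) (nat_lit 5) (nat_lit 5)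 (nat_lit 7) (nat_lit 4) (nat_lit 5) (nat_lit 4) (nat_lit 386) (nat_lit 260) (nat_lit 254)) (XT.nd (nat_lit 78) (nat_lit 0) (nat_lit 0) (XT.lf (nat_lit 0) (nat_lit 26504813710) (nat_lit 152) (nat_lit 17663732536) (nat_lit 0) (nat_lit 25167221174) (nat_lit 5) (nat_lit 5) (nat_lit 7) (nat_lit 4) (nat_lit 5) (nat_lit 4) (nat_lit 387) (nat_lit 260) (nat_lit 253)) (XT.lf (nat_lit 0) (nat_lit 33900933788) (nat_lit 152) (nat_lit 6305219453) (nat_lit 0) (nat_lit 32406881374) (nat_lit 5) (nat_lit 5) (nat_lit 7) (nat_lit 4) (nat_lit 5) (nat_lit 4) (nat_lit 388) (nat_lit 260) (nat_lit 252)))) (XT.nd (nat_lit 78) (nat_lit 0) (nat_lit 0) (XT.lf (nat_lit 0) (nat_lit 5387572580) (nat_lit 76) (nat_lit 36156672786) (nat_lit 76) (nat_lit 34513610964) (nat_lit 4) (nat_lit 4) (nat_lit 5) (nat_lit 5) (nat_lit 5) (nat_lit 4) (nat_lit 389) (nat_lit 260) (nat_lit 251)) (XT.nd (nat_lit 78) (nat_lit 0) (nat_lit 0) (XT.lf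 (nat_lit 0) (nat_lit 17467698101) (nat_lit 76) (nat_lit 31997669670) (nat_lit 76) (nat_lit 30212694126) (nat_lit 4) (nat_lit 4) (nat_lit 5) (nat_lit 5) (nat_lit 5) (nat_lit 4) (nat_lit 390) (nat_lit 260) (nat_lit 250)) (XT.lf (nat_lit 0) (nat_lit 29838433081) (nat_lit 76) (nat_lit 27782911857) (nat_lit 76) (nat_lit 25862780388) (nat_lit 4) (nat_lit 4) (nat_lit 5) (nat_lit 5) (nat_lit 5) (nat_lit 4) (nat_lit 391) (nat_lit 260) (nat_lit 249)))))) (XT.nd (nat_lit 45864) (nat_lit 0) (nat_lit 76) (XT.nd (nat_lit 234) (nat_lit 0) (nat_lit 0) (XT.nd (nat_lit 78) (nat_lit 0) (nat_lit 0) (XT.lf (nat_lit 0) (nat_lit 42529231652) (nat_lit 76) (nat_lit 23502364211) (nat_lit 76) (nat_lit 21453512812) (nat_lit 4) (nat_lit 4) (nat_lit 5) (nat_lit 5) (nat_lit 5) (nat_lit 4) (nat_lit 392) (nat_lit 260) (nat_lit 248)) (XT.nd (nat_lit 78) (nat_lit 0) (nat_lit 0) (XT.lf (nat_lit 0) (nat_lit 55570310000) (nat_lit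 76) (nat_lit 19145834951) (nat_lit 76) (nat_lit 16974393143) (nat_lit 4) (nat_lit 4) (nat_lit 5) (nat_lit 5) (nat_lit 5) (nat_lit 4) (nat_lit 393) (nat_lit 260) (nat_lit 247)) (XT.lf (nat_lit 0) (nat_lit 68992718313) (nat_lit 76) (nat_lit 14702951388) (nat_lit 76) (nat_lit 12414756810) (nat_lit 4) (nat_lit 4) (nat_lit 5) (nat_lit 5) (nat_lit 5) (nat_lit 4) (nat_lit 394) (nat_lit 260) (nat_lit 246)))) (XT.nd (nat_lit 78) (nat_lit 0) (nat_lit 0) (XT.lf (nat_lit 0) (nat_lit 82828414706) (nat_lit 76) (nat_lit 10163135228) (nat_lit 76) (nat_lit 7763747536) (nat_lit 4) (nat_lit 4) (nat_lit 5) (nat_lit 5) (nat_lit 5) (nat_lit 4) (nat_lit 395) (nat_lit 260) (nat_lit 245)) (XT.nd (nat_lit 45474) (nat_lit 0) (nat_lit 304) (XT.lf (nat_lit 0) (nat_lit 97110341312) (nat_lit 76) (nat_lit 5515577385) (nat_lit 76) (nat_lit 3010291488) (nat_lit 4) (nat_lit 4) (nat_lit 5) (nat_lit 5) (nat_lit 5) (nat_lit 4) (nat_lit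 396) (nat_lit 260) (nat_lit 244)) (XT.lf (nat_lit 0) (nat_lit 6538681223) (nat_lit 152) (nat_lit 10039023330) (nat_lit 0) (nat_lit 6538681223) (nat_lit 8) (nat_lit 5) (nat_lit 10) (nat_lit 4) (nat_lit 8) (nat_lit 4) (nat_lit 378) (nat_lit 261) (nat_lit 261))))) (XT.nd (nat_lit 234) (nat_lit 152) (nat_lit 0) (XT.nd (nat_lit 78) (nat_lit 76) (nat_lit 0) (XT.lf (nat_lit 0) (nat_lit 21214273666) (nat_lit 152) (nat_lit 6121353728) (nat_lit 0) (nat_lit 20976176292) (nat_lit 8) (nat_lit 5) (nat_lit 10) (nat_lit 4) (nat_lit 8) (nat_lit 4) (nat_lit 379) (nat_lit 261) (nat_lit 260)) (XT.nd (nat_lit 78) (nat_lit 0) (nat_lit 0) (XT.lf (nat_lit 0) (nat_lit 8222515367) (nat_lit 76) (nat_lit 21371041211) (nat_lit 76) (nat_lit 20906184433) (nat_lit 7) (nat_lit 4) (nat_lit 8) (nat_lit 5) (nat_lit 8) (nat_lit 4) (nat_lit 380) (nat_lit 261) (nat_lit 259)) (XT.lf (nat_lit 0) (nat_lit 22953891086) (nat_lit 76) (nat_lit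 15264609878) (nat_lit 76) (nat_lit 14583791763) (nat_lit 7) (nat_lit 4) (nat_lit 8) (nat_lit 5) (nat_lit 8) (nat_lit 4) (nat_lit 381) (nat_lit 261) (nat_lit 258)))) (XT.nd (nat_lit 78) (nat_lit 152) (nat_lit 0) (XT.lf (nat_lit 0) (nat_lit 37986021193) (nat_lit 76) (nat_lit 9063607944) (nat_lit 76) (nat_lit 8177112365) (nat_lit 7) (nat_lit 4) (nat_lit 8) (nat_lit 5) (nat_lit 8) (nat_lit 4) (nat_lit 382) (nat_lit 261) (nat_lit 257)) (XT.nd (nat_lit 78) (nat_lit 152) (nat_lit 0) (XT.lf (nat_lit 0) (nat_lit 53354696473) (nat_lit 76) (nat_lit 2753271118) (nat_lit 76) (nat_lit 1670892240) (nat_lit 7) (nat_lit 4) (nat_lit 8) (nat_lit 5) (nat_lit 8) (nat_lit 4) (nat_lit 383) (nat_lit 261) (nat_lit 256)) (XT.lf (nat_lit 0) (nat_lit 4974611591) (nat_lit 152) (nat_lit 51742423033) (nat_lit 0) (nat_lit 3742636445) (nat_lit 5) (nat_lit 5) (nat_lit 7) (nat_lit 4) (nat_lit 5) (nat_lit 4) (nat_lit 384) (nat_lit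 261) (nat_lit 255))))))))
noncomputable def xc2 : XT := (XT.nd (nat_lit 47034) (nat_lit 0) (nat_lit 0) (XT.nd (nat_lit 858) (nat_lit 0) (nat_lit 0) (XT.nd (nat_lit 390) (nat_lit 0) (nat_lit 0) (XT.nd (nat_lit 156) (nat_lit 76) (nat_lit 0) (XT.nd (nat_lit 78) (nat_lit 0) (nat_lit 0) (XT.lf (nat_lit 0) (nat_lit 11790045002) (nat_lit 152) (nat_lit 41102257129) (nat_lit 0) (nat_lit 10385572839) (nat_lit 5) (nat_lit 5) (nat_lit 7) (nat_lit 4) (nat_lit 5) (nat_lit 4) (nat_lit 385) (nat_lit 261) (nat_lit 254)) (XT.lf (nat_lit 0) (nat_lit 18753970614) (nat_lit 152) (nat_lit 30303585290) (nat_lit 0) (nat_lit 17185215579) (nat_lit 5) (nat_lit 5) (nat_lit 7) (nat_lit 4) (nat_lit 5) (nat_lit 4) (nat_lit 386) (nat_lit 261) (nat_lit 253))) (XT.nd (nat_lit 78) (nat_lit 76) (nat_lit 0) (XT.lf (nat_lit 0) (nat_lit 25882969203) (nat_lit 152) (nat_lit 19320696391) (nat_lit 0) (nat_lit 24157754290) (nat_lit 5)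 (nat_lit 5) (nat_lit 7) (nat_lit 4) (nat_lit 5) (nat_lit 4) (nat_lit 387) (nat_lit 261) (nat_lit 252)) (XT.nd (nat_lit 78) (nat_lit 76) (nat_lit 0) (XT.lf (nat_lit 0) (nat_lit 33194014575) (nat_lit 152) (nat_lit 8127440697) (nat_lit 0) (nat_lit 31319790254) (nat_lit 5) (nat_lit 5) (nat_lit 7) (nat_lit 4) (nat_lit 5) (nat_lit 4) (nat_lit 388) (nat_lit 261) (nat_lit 251)) (XT.lf (nat_lit 0) (nat_lit 3368565239) (nat_lit 76) (nat_lit 37368329451) (nat_lit 76) (nat_lit 35352191409) (nat_lit 4) (nat_lit 4) (nat_lit 5) (nat_lit 5) (nat_lit 5) (nat_lit 4) (nat_lit 389) (nat_lit 261) (nat_lit 250))))) (XT.nd (nat_lit 234) (nat_lit 0) (nat_lit 0) (XT.nd (nat_lit 78) (nat_lit 0) (nat_lit 0) (XT.lf (nat_lit 0) (nat_lit 15295814264) (nat_lit 76) (nat_lit 33283568023) (nat_lit 76) (nat_lit 31132274054) (nat_lit 4) (nat_lit 4) (nat_lit 5) (nat_lit 5) (nat_lit 5) (nat_lit 4) (nat_lit 390) (nat_lit 261) (nat_lit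 249)) (XT.nd (nat_lit 78) (nat_lit 0) (nat_lit 0) (XT.lf (nat_lit 0) (nat_lit 27520952582) (nat_lit 76) (nat_lit 29139516580) (nat_lit 76) (nat_lit 26859502682) (nat_lit 4) (nat_lit 4) (nat_lit 5) (nat_lit 5) (nat_lit 5) (nat_lit 4) (nat_lit 391) (nat_lit 261) (nat_lit 248)) (XT.lf (nat_lit 0) (nat_lit 40073087664) (nat_lit 76) (nat_lit 24926308332) (nat_lit 76) (nat_lit 22523704026) (nat_lit 4) (nat_lit 4) (nat_lit 5) (nat_lit 5) (nat_lit 5) (nat_lit 4) (nat_lit 392) (nat_lit 261) (nat_lit 247)))) (XT.nd (nat_lit 78) (nat_lit 0) (nat_lit 0) (XT.lf (nat_lit 0) (nat_lit 52982105548) (nat_lit 76) (nat_lit 20633911833) (nat_lit 76) (nat_lit 18114554757) (nat_lit 4) (nat_lit 4) (nat_lit 5) (nat_lit 5) (nat_lit 5) (nat_lit 4) (nat_lit 393) (nat_lit 261) (nat_lit 246)) (XT.nd (nat_lit 78) (nat_lit 0) (nat_lit 0) (XT.lf (nat_lit 0) (nat_lit 66278741990) (nat_lit 76) (nat_lit 16252107090) (nat_lit 76)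 (nat_lit 13621556899) (nat_lit 4) (nat_lit 4) (nat_lit 5) (nat_lit 5) (nat_lit 5) (nat_lit 4) (nat_lit 394) (nat_lit 261) (nat_lit 245)) (XT.lf (nat_lit 0) (nat_lit 79994655647) (nat_lit 76) (nat_lit 11770461235) (nat_lit 76) (nat_lit 9034012840) (nat_lit 4) (nat_lit 4) (nat_lit 5) (nat_lit 5) (nat_lit 5) (nat_lit 4) (nat_lit 395) (nat_lit 261) (nat_lit 244)))))) (XT.nd (nat_lit 45708) (nat_lit 0) (nat_lit 76) (XT.nd (nat_lit 45474) (nat_lit 0) (nat_lit 228) (XT.nd (nat_lit 45318) (nat_lit 0) (nat_lit 304) (XT.lf (nat_lit 0) (nat_lit 94162503459) (nat_lit 76) (nat_lit 7178303683) (nat_lit 76) (nat_lit 4340999854) (nat_lit 4) (nat_lit 4) (nat_lit 5) (nat_lit 5) (nat_lit 5) (nat_lit 4) (nat_lit 396) (nat_lit 261) (nat_lit 243)) (XT.nd (nat_lit 78) (nat_lit 152) (nat_lit 0) (XT.lf (nat_lit 0) (nat_lit 18812036674) (nat_lit 76) (nat_lit 1189547791) (nat_lit 76) (nat_lit 1189547791) (nat_lit 10)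 (nat_lit 4) (nat_lit 11) (nat_lit 5) (nat_lit 11) (nat_lit 4) (nat_lit 376) (nat_lit 262) (nat_lit 262)) (XT.lf (nat_lit 0) (nat_lit 5334411716) (nat_lit 152) (nat_lit 33841244541) (nat_lit 0) (nat_lit 5084409474) (nat_lit 8) (nat_lit 5) (nat_lit 10) (nat_lit 4) (nat_lit 8) (nat_lit 4) (nat_lit 377) (nat_lit 262) (nat_lit 261)))) (XT.nd (nat_lit 78) (nat_lit 76) (nat_lit 0) (XT.lf (nat_lit 0) (nat_lit 13202638152) (nat_lit 152) (nat_lit 20319346583) (nat_lit 0) (nat_lit 12714538535) (nat_lit 8) (nat_lit 5) (nat_lit 10) (nat_lit 4) (nat_lit 8) (nat_lit 4) (nat_lit 378) (nat_lit 262) (nat_lit 260)) (XT.nd (nat_lit 78) (nat_lit 76) (nat_lit 0) (XT.lf (nat_lit 0) (nat_lit 21220762192) (nat_lit 152) (nat_lit 6592463102) (nat_lit 0) (nat_lit 20505903172) (nat_lit 8) (nat_lit 5) (nat_lit 10) (nat_lit 4) (nat_lit 8) (nat_lit 4) (nat_lit 379) (nat_lit 262) (nat_lit 259)) (XT.lf (nat_lit 0) (nat_lit 7518807982)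 (nat_lit 76) (nat_lit 21961342009) (nat_lit 76) (nat_lit 21030521651) (nat_lit 7) (nat_lit 4) (nat_lit 8) (nat_lit 5) (nat_lit 8) (nat_lit 4) (nat_lit 380) (nat_lit 262) (nat_lit 258))))) (XT.nd (nat_lit 234) (nat_lit 152) (nat_lit 0) (XT.nd (nat_lit 78) (nat_lit 0) (nat_lit 0) (XT.lf (nat_lit 0) (nat_lit 22037591312) (nat_lit 76) (nat_lit 15957716025) (nat_lit 76) (nat_lit 14821218204) (nat_lit 7) (nat_lit 4) (nat_lit 8) (nat_lit 5) (nat_lit 8) (nat_lit 4) (nat_lit 381) (nat_lit 262) (nat_lit 257)) (XT.nd (nat_lit 78) (nat_lit 0) (nat_lit 0) (XT.lf (nat_lit 0) (nat_lit 36867252476) (nat_lit 76) (nat_lit 9854623947) (nat_lit 76) (nat_lit 8522242827) (nat_lit 7) (nat_lit 4) (nat_lit 8) (nat_lit 5) (nat_lit 8) (nat_lit 4) (nat_lit 382) (nat_lit 262) (nat_lit 256)) (XT.lf (nat_lit 0) (nat_lit 52043100191) (nat_lit 76) (nat_lit 3637534603) (nat_lit 76) (nat_lit 2118597960) (nat_lit 7) (nat_lit 4)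 (nat_lit 8) (nat_lit 5) (nat_lit 8) (nat_lit 4) (nat_lit 383) (nat_lit 262) (nat_lit 255)))) (XT.nd (nat_lit 78) (nat_lit 0) (nat_lit 0) (XT.lf (nat_lit 0) (nat_lit 4415469722) (nat_lit 152) (nat_lit 53300038807) (nat_lit 0) (nat_lit 2768276935) (nat_lit 5) (nat_lit 5) (nat_lit 7) (nat_lit 4) (nat_lit 5) (nat_lit 4) (nat_lit 384) (nat_lit 262) (nat_lit 254)) (XT.nd (nat_lit 78) (nat_lit 0) (nat_lit 0) (XT.lf (nat_lit 0) (nat_lit 11137108269) (nat_lit 152) (nat_lit 42842069176) (nat_lit 0) (nat_lit 9325632610) (nat_lit 5) (nat_lit 5) (nat_lit 7) (nat_lit 4) (nat_lit 5) (nat_lit 4) (nat_lit 385) (nat_lit 262) (nat_lit 253)) (XT.lf (nat_lit 0) (nat_lit 18011705440) (nat_lit 152) (nat_lit 32216917597) (nat_lit 0) (nat_lit 16043769903) (nat_lit 5) (nat_lit 5) (nat_lit 7) (nat_lit 4) (nat_lit 5) (nat_lit 4) (nat_lit 386) (nat_lit 262) (nat_lit 252))))))) (XT.nd (nat_lit 46020) (nat_lit 0) (nat_lit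 76) (XT.nd (nat_lit 468) (nat_lit 0) (nat_lit 0) (XT.nd (nat_lit 234) (nat_lit 0) (nat_lit 0) (XT.nd (nat_lit 78) (nat_lit 76) (nat_lit 0) (XT.lf (nat_lit 0) (nat_lit 25055629324) (nat_lit 152) (nat_lit 21399286088) (nat_lit 0) (nat_lit 22938684379) (nat_lit 5) (nat_lit 5) (nat_lit 7) (nat_lit 4) (nat_lit 5) (nat_lit 4) (nat_lit 387) (nat_lit 262) (nat_lit 251)) (XT.nd (nat_lit 78) (nat_lit 76) (nat_lit 0) (XT.lf (nat_lit 0) (nat_lit 32285651167) (nat_lit 152) (nat_lit 10363418386) (nat_lit 0) (nat_lit 30026792500) (nat_lit 5) (nat_lit 5) (nat_lit 7) (nat_lit 4) (nat_lit 5) (nat_lit 4) (nat_lit 388) (nat_lit 262) (nat_lit 250)) (XT.lf (nat_lit 0) (nat_lit 935210715) (nat_lit 76) (nat_lit 38792764410) (nat_lit 76) (nat_lit 36398749817) (nat_lit 4) (nat_lit 4) (nat_lit 5) (nat_lit 5) (nat_lit 5) (nat_lit 4) (nat_lit 389) (nat_lit 262) (nat_lit 249)))) (XT.nd (nat_lit 78) (nat_lit 0) (nat_lit 0)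 (XT.lf (nat_lit 0) (nat_lit 12716863077) (nat_lit 76) (nat_lit 34778709350) (nat_lit 76) (nat_lit 32255974829) (nat_lit 4) (nat_lit 4) (nat_lit 5) (nat_lit 5) (nat_lit 5) (nat_lit 4) (nat_lit 390) (nat_lit 262) (nat_lit 248)) (XT.nd (nat_lit 78) (nat_lit 0) (nat_lit 0) (XT.lf (nat_lit 0) (nat_lit 24803337906) (nat_lit 76) (nat_lit 30701997306) (nat_lit 76) (nat_lit 28056672376) (nat_lit 4) (nat_lit 4) (nat_lit 5) (nat_lit 5) (nat_lit 5) (nat_lit 4) (nat_lit 391) (nat_lit 262) (nat_lit 247)) (XT.lf (nat_lit 0) (nat_lit 37223412524) (nat_lit 76) (nat_lit 26552921820) (nat_lit 76) (nat_lit 23790844120) (nat_lit 4) (nat_lit 4) (nat_lit 5) (nat_lit 5) (nat_lit 5) (nat_lit 4) (nat_lit 392) (nat_lit 262) (nat_lit 246))))) (XT.nd (nat_lit 234) (nat_lit 0) (nat_lit 0) (XT.nd (nat_lit 78) (nat_lit 0) (nat_lit 0) (XT.lf (nat_lit 0) (nat_lit 50006658537) (nat_lit 76) (nat_lit 22321604141) (nat_lit 76) (nat_lit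 19448333326) (nat_lit 4) (nat_lit 4) (nat_lit 5) (nat_lit 5) (nat_lit 5) (nat_lit 4) (nat_lit 393) (nat_lit 262) (nat_lit 245)) (XT.nd (nat_lit 78) (nat_lit 0) (nat_lit 0) (XT.lf (nat_lit 0) (nat_lit 63183512244) (nat_lit 76) (nat_lit 17997969703) (nat_lit 76) (nat_lit 15018800684) (nat_lit 4) (nat_lit 4) (nat_lit 5) (nat_lit 5) (nat_lit 5) (nat_lit 4) (nat_lit 394) (nat_lit 262) (nat_lit 244)) (XT.lf (nat_lit 0) (nat_lit 76785347107) (nat_lit 76) (nat_lit 13571724138) (nat_lit 76) (nat_lit 10491699686) (nat_lit 4) (nat_lit 4) (nat_lit 5) (nat_lit 5) (nat_lit 5) (nat_lit 4) (nat_lit 395) (nat_lit 262) (nat_lit 243)))) (XT.nd (nat_lit 45162) (nat_lit 0) (nat_lit 456) (XT.lf (nat_lit 0) (nat_lit 90844548446) (nat_lit 76) (nat_lit 9032328767) (nat_lit 76) (nat_lit 5856251522) (nat_lit 4) (nat_lit 4) (nat_lit 5) (nat_lit 5) (nat_lit 5) (nat_lit 4) (nat_lit 396) (nat_lit 262) (nat_lit 242)) (XT.nd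 (nat_lit 78) (nat_lit 0) (nat_lit 0) (XT.lf (nat_lit 0) (nat_lit 2460358581) (nat_lit 76) (nat_lit 8494243433) (nat_lit 76) (nat_lit 8494243433) (nat_lit 10) (nat_lit 4) (nat_lit 11) (nat_lit 5) (nat_lit 11) (nat_lit 4) (nat_lit 374) (nat_lit 263) (nat_lit 263)) (XT.lf (nat_lit 0) (nat_lit 20998132290) (nat_lit 76) (nat_lit 9933892202) (nat_lit 76) (nat_lit 9663514777) (nat_lit 10) (nat_lit 4) (nat_lit 11) (nat_lit 5) (nat_lit 11) (nat_lit 4) (nat_lit 375) (nat_lit 263) (nat_lit 262)))))) (XT.nd (nat_lit 468) (nat_lit 152) (nat_lit 0) (XT.nd (nat_lit 234) (nat_lit 76) (nat_lit 0) (XT.nd (nat_lit 78) (nat_lit 152) (nat_lit 0) (XT.lf (nat_lit 0) (nat_lit 37380887799) (nat_lit 76) (nat_lit 2766525585) (nat_lit 76) (nat_lit 2238645850) (nat_lit 10) (nat_lit 4) (nat_lit 11) (nat_lit 5) (nat_lit 11) (nat_lit 4) (nat_lit 376) (nat_lit 263) (nat_lit 261)) (XT.nd (nat_lit 78) (nat_lit 0) (nat_lit 0)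 (XT.lf (nat_lit 0) (nat_lit 5341224669) (nat_lit 152) (nat_lit 34335909385) (nat_lit 0) (nat_lit 4590622697) (nat_lit 8) (nat_lit 5) (nat_lit 10) (nat_lit 4) (nat_lit 8) (nat_lit 4) (nat_lit 377) (nat_lit 263) (nat_lit 260)) (XT.lf (nat_lit 0) (nat_lit 13090663926) (nat_lit 152) (nat_lit 21043820878) (nat_lit 0) (nat_lit 12113302550) (nat_lit 8) (nat_lit 5) (nat_lit 10) (nat_lit 4) (nat_lit 8) (nat_lit 4) (nat_lit 378) (nat_lit 263) (nat_lit 259)))) (XT.nd (nat_lit 78) (nat_lit 76) (nat_lit 0) (XT.lf (nat_lit 0) (nat_lit 20995657320) (nat_lit 152) (nat_lit 7535803541) (nat_lit 0) (nat_lit 19802334607) (nat_lit 8) (nat_lit 5) (nat_lit 10) (nat_lit 4) (nat_lit 8) (nat_lit 4) (nat_lit 379) (nat_lit 263) (nat_lit 258)) (XT.nd (nat_lit 78) (nat_lit 0) (nat_lit 0) (XT.lf (nat_lit 0) (nat_lit 6344100830) (nat_lit 76) (nat_lit 22791908812) (nat_lit 76) (nat_lit 21392908636) (nat_lit 7) (nat_lit 4) (nat_lit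 8) (nat_lit 5) (nat_lit 8) (nat_lit 4) (nat_lit 380) (nat_lit 263) (nat_lit 257)) (XT.lf (nat_lit 0) (nat_lit 20660415217) (nat_lit 76) (nat_lit 16886192685) (nat_lit 76) (nat_lit 15291309209) (nat_lit 7) (nat_lit 4) (nat_lit 8) (nat_lit 5) (nat_lit 8) (nat_lit 4) (nat_lit 381) (nat_lit 263) (nat_lit 256))))) (XT.nd (nat_lit 234) (nat_lit 0) (nat_lit 0) (XT.nd (nat_lit 78) (nat_lit 152) (nat_lit 0) (XT.lf (nat_lit 0) (nat_lit 35297248817) (nat_lit 76) (nat_lit 10876348088) (nat_lit 76) (nat_lit 9094909090) (nat_lit 7) (nat_lit 4) (nat_lit 8) (nat_lit 5) (nat_lit 8) (nat_lit 4) (nat_lit 382) (nat_lit 263) (nat_lit 255)) (XT.nd (nat_lit 78) (nat_lit 152) (nat_lit 0) (XT.lf (nat_lit 0) (nat_lit 50289451232) (nat_lit 76) (nat_lit 4748065870) (nat_lit 76) (nat_lit 2788954946) (nat_lit 7) (nat_lit 4) (nat_lit 8) (nat_lit 5) (nat_lit 8) (nat_lit 4) (nat_lit 383) (nat_lit 263) (nat_lit 254)) (XT.lf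 (nat_lit 0) (nat_lit 3636091290) (nat_lit 152) (nat_lit 55309037730) (nat_lit 0) (nat_lit 1569758976) (nat_lit 5) (nat_lit 5) (nat_lit 7) (nat_lit 4) (nat_lit 5) (nat_lit 4) (nat_lit 384) (nat_lit 263) (nat_lit 253)))) (XT.nd (nat_lit 78) (nat_lit 0) (nat_lit 0) (XT.lf (nat_lit 0) (nat_lit 10268401396) (nat_lit 152) (nat_lit 45024588359) (nat_lit 0) (nat_lit 8045609204) (nat_lit 5) (nat_lit 5) (nat_lit 7) (nat_lit 4) (nat_lit 5) (nat_lit 4) (nat_lit 385) (nat_lit 263) (nat_lit 252)) (XT.nd (nat_lit 78) (nat_lit 0) (nat_lit 0) (XT.lf (nat_lit 0) (nat_lit 17057923862) (nat_lit 152) (nat_lit 34564694169) (nat_lit 0) (nat_lit 14686122262) (nat_lit 5) (nat_lit 5) (nat_lit 7) (nat_lit 4) (nat_lit 5) (nat_lit 4) (nat_lit 386) (nat_lit 263) (nat_lit 251)) (XT.lf (nat_lit 0) (nat_lit 24020824217) (nat_lit 152) (nat_lit 23904450652) (nat_lit 0) (nat_lit 21507108895) (nat_lit 5) (nat_lit 5) (nat_lit 7)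 (nat_lit 4) (nat_lit 5) (nat_lit 4) (nat_lit 387) (nat_lit 263) (nat_lit 250))))))))
noncomputable def xc3 : XT := (XT.nd (nat_lit 46800) (nat_lit 0) (nat_lit 0) (XT.nd (nat_lit 45864) (nat_lit 0) (nat_lit 76) (XT.nd (nat_lit 468) (nat_lit 0) (nat_lit 0) (XT.nd (nat_lit 234) (nat_lit 0) (nat_lit 0) (XT.nd (nat_lit 78) (nat_lit 76) (nat_lit 0) (XT.lf (nat_lit 0) (nat_lit 31173680794) (nat_lit 152) (nat_lit 13018476274) (nat_lit 0) (nat_lit 28524809546) (nat_lit 5) (nat_lit 5) (nat_lit 7) (nat_lit 4) (nat_lit 5) (nat_lit 4) (nat_lit 388) (nat_lit 263) (nat_lit 249)) (XT.nd (nat_lit 78) (nat_lit 76) (nat_lit 0) (XT.lf (nat_lit 0) (nat_lit 38533524206) (nat_lit 152) (nat_lit 1880852049) (nat_lit 0) (nat_lit 35755933029) (nat_lit 5) (nat_lit 5) (nat_lit 7) (nat_lit 4) (nat_lit 5) (nat_lit 4) (nat_lit 389) (nat_lit 263) (nat_lit 248)) (XT.lf (nat_lit 0) (nat_lit 9724704180) (nat_lit 76) (nat_lit 36486653513)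 (nat_lit 76) (nat_lit 33586471927) (nat_lit 4) (nat_lit 4) (nat_lit 5) (nat_lit 5) (nat_lit 5) (nat_lit 4) (nat_lit 390) (nat_lit 263) (nat_lit 247)))) (XT.nd (nat_lit 78) (nat_lit 0) (nat_lit 0) (XT.lf (nat_lit 0) (nat_lit 21679118545) (nat_lit 76) (nat_lit 32474074230) (nat_lit 76) (nat_lit 29457139874) (nat_lit 4) (nat_lit 4) (nat_lit 5) (nat_lit 5) (nat_lit 5) (nat_lit 4) (nat_lit 391) (nat_lit 263) (nat_lit 246)) (XT.nd (nat_lit 78) (nat_lit 0) (nat_lit 0) (XT.lf (nat_lit 0) (nat_lit 33973421291) (nat_lit 76) (nat_lit 28386077564) (nat_lit 76) (nat_lit 25257950093) (nat_lit 4) (nat_lit 4) (nat_lit 5) (nat_lit 5) (nat_lit 5) (nat_lit 4) (nat_lit 392) (nat_lit 263) (nat_lit 245)) (XT.lf (nat_lit 0) (nat_lit 46636884569) (nat_lit 76) (nat_lit 24212930190) (nat_lit 76) (nat_lit 20978904515) (nat_lit 4) (nat_lit 4) (nat_lit 5) (nat_lit 5) (nat_lit 5) (nat_lit 4) (nat_lit 393) (nat_lit 263) (nat_lit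 244))))) (XT.nd (nat_lit 45162) (nat_lit 0) (nat_lit 456) (XT.nd (nat_lit 78) (nat_lit 0) (nat_lit 0) (XT.lf (nat_lit 0) (nat_lit 59699659481) (nat_lit 76) (nat_lit 19944696042) (nat_lit 76) (nat_lit 16609814934) (nat_lit 4) (nat_lit 4) (nat_lit 5) (nat_lit 5) (nat_lit 5) (nat_lit 4) (nat_lit 394) (nat_lit 263) (nat_lit 243)) (XT.nd (nat_lit 78) (nat_lit 0) (nat_lit 0) (XT.lf (nat_lit 0) (nat_lit 73192847873) (nat_lit 76) (nat_lit 15571212658) (nat_lit 76) (nat_lit 12140278758) (nat_lit 4) (nat_lit 4) (nat_lit 5) (nat_lit 5) (nat_lit 5) (nat_lit 4) (nat_lit 395) (nat_lit 263) (nat_lit 242)) (XT.lf (nat_lit 0) (nat_lit 87148576383) (nat_lit 76) (nat_lit 11082066983) (nat_lit 76) (nat_lit 7559654233) (nat_lit 4) (nat_lit 4) (nat_lit 5) (nat_lit 5) (nat_lit 5) (nat_lit 4) (nat_lit 396) (nat_lit 263) (nat_lit 241)))) (XT.nd (nat_lit 78) (nat_lit 76) (nat_lit 0) (XT.lf (nat_lit 0) (nat_lit 2515288053)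 (nat_lit 152) (nat_lit 12845578925) (nat_lit 0) (nat_lit 2515288053) (nat_lit 11) (nat_lit 5) (nat_lit 13) (nat_lit 4) (nat_lit 11) (nat_lit 4) (nat_lit 372) (nat_lit 264) (nat_lit 264)) (XT.nd (nat_lit 78) (nat_lit 76) (nat_lit 0) (XT.lf (nat_lit 0) (nat_lit 13446043239) (nat_lit 152) (nat_lit 10677141102) (nat_lit 0) (nat_lit 13162146942) (nat_lit 11) (nat_lit 5) (nat_lit 13) (nat_lit 4) (nat_lit 11) (nat_lit 4) (nat_lit 373) (nat_lit 264) (nat_lit 263)) (XT.lf (nat_lit 0) (nat_lit 4665372335) (nat_lit 76) (nat_lit 17395288369) (nat_lit 76) (nat_lit 16841014647) (nat_lit 10) (nat_lit 4) (nat_lit 11) (nat_lit 5) (nat_lit 11) (nat_lit 4) (nat_lit 374) (nat_lit 264) (nat_lit 262)))))) (XT.nd (nat_lit 468) (nat_lit 152) (nat_lit 0) (XT.nd (nat_lit 234) (nat_lit 76) (nat_lit 0) (XT.nd (nat_lit 78) (nat_lit 152) (nat_lit 0) (XT.lf (nat_lit 0) (nat_lit 20499601914) (nat_lit 76) (nat_lit 10457746280)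 (nat_lit 76) (nat_lit 9645970248) (nat_lit 10) (nat_lit 4) (nat_lit 11) (nat_lit 5) (nat_lit 11) (nat_lit 4) (nat_lit 375) (nat_lit 264) (nat_lit 261)) (XT.nd (nat_lit 78) (nat_lit 152) (nat_lit 0) (XT.lf (nat_lit 0) (nat_lit 36650752137) (nat_lit 76) (nat_lit 3401858307) (nat_lit 76) (nat_lit 2344841980) (nat_lit 10) (nat_lit 4) (nat_lit 11) (nat_lit 5) (nat_lit 11) (nat_lit 4) (nat_lit 376) (nat_lit 264) (nat_lit 260)) (XT.lf (nat_lit 0) (nat_lit 5104864553) (nat_lit 152) (nat_lit 35326416845) (nat_lit 0) (nat_lit 3851875704) (nat_lit 8) (nat_lit 5) (nat_lit 10) (nat_lit 4) (nat_lit 8) (nat_lit 4) (nat_lit 377) (nat_lit 264) (nat_lit 259)))) (XT.nd (nat_lit 78) (nat_lit 76) (nat_lit 0) (XT.lf (nat_lit 0) (nat_lit 12741173163) (nat_lit 152) (nat_lit 22253194482) (nat_lit 0) (nat_lit 11272222977) (nat_lit 8) (nat_lit 5) (nat_lit 10) (nat_lit 4) (nat_lit 8) (nat_lit 4) (nat_lit 378) (nat_lit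 264) (nat_lit 258)) (XT.nd (nat_lit 78) (nat_lit 76) (nat_lit 0) (XT.lf (nat_lit 0) (nat_lit 20538423084) (nat_lit 152) (nat_lit 8953621091) (nat_lit 0) (nat_lit 18863795435) (nat_lit 8) (nat_lit 5) (nat_lit 10) (nat_lit 4) (nat_lit 8) (nat_lit 4) (nat_lit 379) (nat_lit 264) (nat_lit 257)) (XT.lf (nat_lit 0) (nat_lit 4695596987) (nat_lit 76) (nat_lit 23864719161) (nat_lit 76) (nat_lit 21994208213) (nat_lit 7) (nat_lit 4) (nat_lit 8) (nat_lit 5) (nat_lit 8) (nat_lit 4) (nat_lit 380) (nat_lit 264) (nat_lit 256))))) (XT.nd (nat_lit 234) (nat_lit 152) (nat_lit 0) (XT.nd (nat_lit 78) (nat_lit 0) (nat_lit 0) (XT.lf (nat_lit 0) (nat_lit 18819083810) (nat_lit 76) (nat_lit 18052250515) (nat_lit 76) (nat_lit 15995184044) (nat_lit 7) (nat_lit 4) (nat_lit 8) (nat_lit 5) (nat_lit 8) (nat_lit 4) (nat_lit 381) (nat_lit 264) (nat_lit 255)) (XT.nd (nat_lit 78) (nat_lit 0) (nat_lit 0) (XT.lf (nat_lit 0) (nat_lit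 33272272110) (nat_lit 76) (nat_lit 12131213045) (nat_lit 76) (nat_lit 9896474647) (nat_lit 7) (nat_lit 4) (nat_lit 8) (nat_lit 5) (nat_lit 8) (nat_lit 4) (nat_lit 382) (nat_lit 264) (nat_lit 254)) (XT.lf (nat_lit 0) (nat_lit 48089574240) (nat_lit 76) (nat_lit 6087509041) (nat_lit 76) (nat_lit 3683559285) (nat_lit 7) (nat_lit 4) (nat_lit 8) (nat_lit 5) (nat_lit 8) (nat_lit 4) (nat_lit 383) (nat_lit 264) (nat_lit 253)))) (XT.nd (nat_lit 78) (nat_lit 0) (nat_lit 0) (XT.lf (nat_lit 0) (nat_lit 2634620633) (nat_lit 152) (nat_lit 57774203131) (nat_lit 0) (nat_lit 144228952) (nat_lit 5) (nat_lit 5) (nat_lit 7) (nat_lit 4) (nat_lit 5) (nat_lit 4) (nat_lit 384) (nat_lit 264) (nat_lit 252)) (XT.nd (nat_lit 78) (nat_lit 0) (nat_lit 0) (XT.lf (nat_lit 0) (nat_lit 9181856034) (nat_lit 152) (nat_lit 47655011150) (nat_lit 0) (nat_lit 6542454945) (nat_lit 5) (nat_lit 5) (nat_lit 7) (nat_lit 4) (nat_lit 5) (nat_lit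 4) (nat_lit 385) (nat_lit 264) (nat_lit 251)) (XT.lf (nat_lit 0) (nat_lit 15890354970) (nat_lit 152) (nat_lit 37352504952) (nat_lit 0) (nat_lit 13109040160) (nat_lit 5) (nat_lit 5) (nat_lit 7) (nat_lit 4) (nat_lit 5) (nat_lit 4) (nat_lit 386) (nat_lit 264) (nat_lit 250))))))) (XT.nd (nat_lit 45708) (nat_lit 0) (nat_lit 228) (XT.nd (nat_lit 468) (nat_lit 0) (nat_lit 0) (XT.nd (nat_lit 234) (nat_lit 76) (nat_lit 0) (XT.nd (nat_lit 78) (nat_lit 0) (nat_lit 0) (XT.lf (nat_lit 0) (nat_lit 22776090059) (nat_lit 152) (nat_lit 26842154759) (nat_lit 0) (nat_lit 19859619324) (nat_lit 5) (nat_lit 5) (nat_lit 7) (nat_lit 4) (nat_lit 5) (nat_lit 4) (nat_lit 387) (nat_lit 264) (nat_lit 249)) (XT.nd (nat_lit 78) (nat_lit 0) (nat_lit 0) (XT.lf (nat_lit 0) (nat_lit 29855455908) (nat_lit 152) (nat_lit 16098935928) (nat_lit 0) (nat_lit 26810265243) (nat_lit 5) (nat_lit 5) (nat_lit 7) (nat_lit 4) (nat_lit 5) (nat_lit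 4) (nat_lit 388) (nat_lit 264) (nat_lit 248)) (XT.lf (nat_lit 0) (nat_lit 37145308148) (nat_lit 152) (nat_lit 5097269368) (nat_lit 0) (nat_lit 33977527075) (nat_lit 5) (nat_lit 5) (nat_lit 7) (nat_lit 4) (nat_lit 5) (nat_lit 4) (nat_lit 389) (nat_lit 264) (nat_lit 247)))) (XT.nd (nat_lit 78) (nat_lit 0) (nat_lit 0) (XT.lf (nat_lit 0) (nat_lit 6312213385) (nat_lit 76) (nat_lit 38411467043) (nat_lit 76) (nat_lit 35126933199) (nat_lit 4) (nat_lit 4) (nat_lit 5) (nat_lit 5) (nat_lit 5) (nat_lit 4) (nat_lit 390) (nat_lit 264) (nat_lit 246)) (XT.nd (nat_lit 78) (nat_lit 0) (nat_lit 0) (XT.lf (nat_lit 0) (nat_lit 18140855878) (nat_lit 76) (nat_lit 34459966580) (nat_lit 76) (nat_lit 31064239622) (nat_lit 4) (nat_lit 4) (nat_lit 5) (nat_lit 5) (nat_lit 5) (nat_lit 4) (nat_lit 391) (nat_lit 264) (nat_lit 245)) (XT.lf (nat_lit 0) (nat_lit 30315375890) (nat_lit 76) (nat_lit 30430140219) (nat_lit 76) (nat_lit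 26928515057) (nat_lit 4) (nat_lit 4) (nat_lit 5) (nat_lit 5) (nat_lit 5) (nat_lit 4) (nat_lit 392) (nat_lit 264) (nat_lit 244))))) (XT.nd (nat_lit 234) (nat_lit 0) (nat_lit 0) (XT.nd (nat_lit 78) (nat_lit 0) (nat_lit 0) (XT.lf (nat_lit 0) (nat_lit 42864760373) (nat_lit 76) (nat_lit 26312393136) (nat_lit 76) (nat_lit 22709912540) (nat_lit 4) (nat_lit 4) (nat_lit 5) (nat_lit 5) (nat_lit 5) (nat_lit 4) (nat_lit 393) (nat_lit 264) (nat_lit 243)) (XT.nd (nat_lit 78) (nat_lit 0) (nat_lit 0) (XT.lf (nat_lit 0) (nat_lit 55818888814) (nat_lit 76) (nat_lit 22096921169) (nat_lit 76) (nat_lit 18398387781) (nat_lit 4) (nat_lit 4) (nat_lit 5) (nat_lit 5) (nat_lit 5) (nat_lit 4) (nat_lit 394) (nat_lit 264) (nat_lit 242)) (XT.lf (nat_lit 0) (nat_lit 69208604376) (nat_lit 76) (nat_lit 17773687482) (nat_lit 76) (nat_lit 13983675243) (nat_lit 4) (nat_lit 4) (nat_lit 5) (nat_lit 5) (nat_lit 5) (nat_lit 4) (nat_lit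 395) (nat_lit 264) (nat_lit 241)))) (XT.nd (nat_lit 44850) (nat_lit 0) (nat_lit 684) (XT.lf (nat_lit 0) (nat_lit 83065787333) (nat_lit 76) (nat_lit 13332398661) (nat_lit 76) (nat_lit 9455263707) (nat_lit 4) (nat_lit 4) (nat_lit 5) (nat_lit 5) (nat_lit 5) (nat_lit 4) (nat_lit 396) (nat_lit 264) (nat_lit 240)) (XT.nd (nat_lit 78) (nat_lit 0) (nat_lit 0) (XT.lf (nat_lit 0) (nat_lit 5586146570) (nat_lit 76) (nat_lit 5434133868) (nat_lit 76) (nat_lit 5434133868) (nat_lit 13) (nat_lit 4) (nat_lit 14) (nat_lit 5) (nat_lit 14) (nat_lit 4) (nat_lit 370) (nat_lit 265) (nat_lit 265)) (XT.lf (nat_lit 0) (nat_lit 28154369760) (nat_lit 76) (nat_lit 3224687669) (nat_lit 76) (nat_lit 2917653824) (nat_lit 13) (nat_lit 4) (nat_lit 14) (nat_lit 5) (nat_lit 14) (nat_lit 4) (nat_lit 371) (nat_lit 265) (nat_lit 264)))))) (XT.nd (nat_lit 468) (nat_lit 76) (nat_lit 0) (XT.nd (nat_lit 234) (nat_lit 152) (nat_lit 0)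 (XT.nd (nat_lit 78) (nat_lit 76) (nat_lit 0) (XT.lf (nat_lit 0) (nat_lit 5192182872) (nat_lit 152) (nat_lit 25954038086) (nat_lit 0) (nat_lit 4610195463) (nat_lit 11) (nat_lit 5) (nat_lit 13) (nat_lit 4) (nat_lit 11) (nat_lit 4) (nat_lit 372) (nat_lit 265) (nat_lit 263)) (XT.nd (nat_lit 78) (nat_lit 76) (nat_lit 0) (XT.lf (nat_lit 0) (nat_lit 13477664913) (nat_lit 152) (nat_lit 11190383468) (nat_lit 0) (nat_lit 12625300079) (nat_lit 11) (nat_lit 5) (nat_lit 13) (nat_lit 4) (nat_lit 11) (nat_lit 4) (nat_lit 373) (nat_lit 265) (nat_lit 262)) (XT.lf (nat_lit 0) (nat_lit 3898729890) (nat_lit 76) (nat_lit 18062387727) (nat_lit 76) (nat_lit 16952520583) (nat_lit 10) (nat_lit 4) (nat_lit 11) (nat_lit 5) (nat_lit 11) (nat_lit 4) (nat_lit 374) (nat_lit 265) (nat_lit 261)))) (XT.nd (nat_lit 78) (nat_lit 152) (nat_lit 0) (XT.lf (nat_lit 0) (nat_lit 19501354184) (nat_lit 76) (nat_lit 11236324282) (nat_lit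 76) (nat_lit 9881216843) (nat_lit 10) (nat_lit 4) (nat_lit 11) (nat_lit 5) (nat_lit 11) (nat_lit 4) (nat_lit 375) (nat_lit 265) (nat_lit 260)) (XT.nd (nat_lit 78) (nat_lit 152) (nat_lit 0) (XT.lf (nat_lit 0) (nat_lit 35431927945) (nat_lit 76) (nat_lit 4286606447) (nat_lit 76) (nat_lit 2697936821) (nat_lit 10) (nat_lit 4) (nat_lit 11) (nat_lit 5) (nat_lit 11) (nat_lit 4) (nat_lit 376) (nat_lit 265) (nat_lit 259)) (XT.lf (nat_lit 0) (nat_lit 4624768605) (nat_lit 152) (nat_lit 36815125273) (nat_lit 0) (nat_lit 2866409573) (nat_lit 8) (nat_lit 5) (nat_lit 10) (nat_lit 4) (nat_lit 8) (nat_lit 4) (nat_lit 377) (nat_lit 265) (nat_lit 258))))) (XT.nd (nat_lit 234) (nat_lit 0) (nat_lit 0) (XT.nd (nat_lit 78) (nat_lit 76) (nat_lit 0) (XT.lf (nat_lit 0) (nat_lit 12153333742) (nat_lit 152) (nat_lit 23950346857) (nat_lit 0) (nat_lit 10189297247) (nat_lit 8) (nat_lit 5) (nat_lit 10) (nat_lit 4) (nat_lit 8)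 (nat_lit 4) (nat_lit 378) (nat_lit 265) (nat_lit 257)) (XT.nd (nat_lit 78) (nat_lit 76) (nat_lit 0) (XT.lf (nat_lit 0) (nat_lit 19847970832) (nat_lit 152) (nat_lit 10849291511) (nat_lit 0) (nat_lit 17688051038) (nat_lit 8) (nat_lit 5) (nat_lit 10) (nat_lit 4) (nat_lit 8) (nat_lit 4) (nat_lit 379) (nat_lit 265) (nat_lit 256)) (XT.lf (nat_lit 0) (nat_lit 2569371445) (nat_lit 76) (nat_lit 25182327365) (nat_lit 76) (nat_lit 22835852047) (nat_lit 7) (nat_lit 4) (nat_lit 8) (nat_lit 5) (nat_lit 8) (nat_lit 4) (nat_lit 380) (nat_lit 265) (nat_lit 255)))) (XT.nd (nat_lit 78) (nat_lit 0) (nat_lit 0) (XT.lf (nat_lit 0) (nat_lit 16509212968) (nat_lit 76) (nat_lit 19458665844) (nat_lit 76) (nat_lit 16934518601) (nat_lit 7) (nat_lit 4) (nat_lit 8) (nat_lit 5) (nat_lit 8) (nat_lit 4) (nat_lit 381) (nat_lit 265) (nat_lit 254)) (XT.nd (nat_lit 78) (nat_lit 0) (nat_lit 0) (XT.lf (nat_lit 0) (nat_lit 30787500983)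 (nat_lit 76) (nat_lit 13622206589) (nat_lit 76) (nat_lit 10928847987) (nat_lit 7) (nat_lit 4) (nat_lit 8) (nat_lit 5) (nat_lit 8) (nat_lit 4) (nat_lit 382) (nat_lit 265) (nat_lit 253)) (XT.lf (nat_lit 0) (nat_lit 45438231413) (nat_lit 76) (nat_lit 7659053267) (nat_lit 76) (nat_lit 4804540990) (nat_lit 7) (nat_lit 4) (nat_lit 8) (nat_lit 5) (nat_lit 8) (nat_lit 4) (nat_lit 383) (nat_lit 265) (nat_lit 252))))))))
noncomputable def xc4 : XT := (XT.nd (nat_lit 46410) (nat_lit 0) (nat_lit 0) (XT.nd (nat_lit 858) (nat_lit 0) (nat_lit 0) (XT.nd (nat_lit 390) (nat_lit 76) (nat_lit 0) (XT.nd (nat_lit 156) (nat_lit 0) (nat_lit 0) (XT.nd (nat_lit 78) (nat_lit 76) (nat_lit 0) (XT.lf (nat_lit 0) (nat_lit 1424631120) (nat_lit 152) (nat_lit 115990791) (nat_lit 76) (nat_lit 59057269849) (nat_lit 6) (nat_lit 5) (nat_lit 8) (nat_lit 5) (nat_lit 7) (nat_lit 4) (nat_lit 384) (nat_lit 265) (nat_lit 251)) (XT.lf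 (nat_lit 0) (nat_lit 7874885169) (nat_lit 152) (nat_lit 50739600463) (nat_lit 0) (nat_lit 4812590896) (nat_lit 5) (nat_lit 5) (nat_lit 7) (nat_lit 4) (nat_lit 5) (nat_lit 4) (nat_lit 385) (nat_lit 265) (nat_lit 250))) (XT.nd (nat_lit 78) (nat_lit 0) (nat_lit 0) (XT.lf (nat_lit 0) (nat_lit 14506218840) (nat_lit 152) (nat_lit 40586987589) (nat_lit 0) (nat_lit 11308768641) (nat_lit 5) (nat_lit 5) (nat_lit 7) (nat_lit 4) (nat_lit 5) (nat_lit 4) (nat_lit 386) (nat_lit 265) (nat_lit 249)) (XT.nd (nat_lit 78) (nat_lit 0) (nat_lit 0) (XT.lf (nat_lit 0) (nat_lit 21318463199) (nat_lit 152) (nat_lit 30219392944) (nat_lit 0) (nat_lit 17992293072) (nat_lit 5) (nat_lit 5) (nat_lit 7) (nat_lit 4) (nat_lit 5) (nat_lit 4) (nat_lit 387) (nat_lit 265) (nat_lit 248)) (XT.lf (nat_lit 0) (nat_lit 28327837877) (nat_lit 152) (nat_lit 19612131777) (nat_lit 0) (nat_lit 24879077341) (nat_lit 5) (nat_lit 5) (nat_lit 7)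 (nat_lit 4) (nat_lit 5) (nat_lit 4) (nat_lit 388) (nat_lit 265) (nat_lit 247))))) (XT.nd (nat_lit 234) (nat_lit 0) (nat_lit 0) (XT.nd (nat_lit 78) (nat_lit 76) (nat_lit 0) (XT.lf (nat_lit 0) (nat_lit 35551031860) (nat_lit 152) (nat_lit 8739948706) (nat_lit 0) (nat_lit 31985518553) (nat_lit 5) (nat_lit 5) (nat_lit 7) (nat_lit 4) (nat_lit 5) (nat_lit 4) (nat_lit 389) (nat_lit 265) (nat_lit 246)) (XT.nd (nat_lit 78) (nat_lit 0) (nat_lit 0) (XT.lf (nat_lit 0) (nat_lit 2471265714) (nat_lit 76) (nat_lit 40557732832) (nat_lit 76) (nat_lit 36881026411) (nat_lit 4) (nat_lit 4) (nat_lit 5) (nat_lit 5) (nat_lit 5) (nat_lit 4) (nat_lit 390) (nat_lit 265) (nat_lit 245)) (XT.lf (nat_lit 0) (nat_lit 14180125473) (nat_lit 76) (nat_lit 36664402674) (nat_lit 76) (nat_lit 32881798049) (nat_lit 4) (nat_lit 4) (nat_lit 5) (nat_lit 5) (nat_lit 5) (nat_lit 4) (nat_lit 391) (nat_lit 265) (nat_lit 244)))) (XT.nd (nat_lit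 78) (nat_lit 0) (nat_lit 0) (XT.lf (nat_lit 0) (nat_lit 26240566690) (nat_lit 76) (nat_lit 32689976603) (nat_lit 76) (nat_lit 28806516545) (nat_lit 4) (nat_lit 4) (nat_lit 5) (nat_lit 5) (nat_lit 5) (nat_lit 4) (nat_lit 392) (nat_lit 265) (nat_lit 243)) (XT.nd (nat_lit 78) (nat_lit 0) (nat_lit 0) (XT.lf (nat_lit 0) (nat_lit 38681304701) (nat_lit 76) (nat_lit 28624991700) (nat_lit 76) (nat_lit 24645478850) (nat_lit 4) (nat_lit 4) (nat_lit 5) (nat_lit 5) (nat_lit 5) (nat_lit 4) (nat_lit 393) (nat_lit 265) (nat_lit 242)) (XT.lf (nat_lit 0) (nat_lit 51531960312) (nat_lit 76) (nat_lit 24459769430) (nat_lit 76) (nat_lit 20388777729) (nat_lit 4) (nat_lit 4) (nat_lit 5) (nat_lit 5) (nat_lit 5) (nat_lit 4) (nat_lit 394) (nat_lit 265) (nat_lit 241)))))) (XT.nd (nat_lit 45084) (nat_lit 0) (nat_lit 304) (XT.nd (nat_lit 44850) (nat_lit 0) (nat_lit 684) (XT.nd (nat_lit 78) (nat_lit 0) (nat_lit 0) (XT.lf (nat_lit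 0) (nat_lit 64823130322) (nat_lit 76) (nat_lit 20184392597) (nat_lit 76) (nat_lit 16026278181) (nat_lit 4) (nat_lit 4) (nat_lit 5) (nat_lit 5) (nat_lit 5) (nat_lit 4) (nat_lit 395) (nat_lit 265) (nat_lit 240)) (XT.nd (nat_lit 44694) (nat_lit 0) (nat_lit 760) (XT.lf (nat_lit 0) (nat_lit 78586460373) (nat_lit 76) (nat_lit 15788681732) (nat_lit 76) (nat_lit 11547593302) (nat_lit 4) (nat_lit 4) (nat_lit 5) (nat_lit 5) (nat_lit 5) (nat_lit 4) (nat_lit 396) (nat_lit 265) (nat_lit 239)) (XT.lf (nat_lit 0) (nat_lit 2271495685) (nat_lit 152) (nat_lit 10627969844) (nat_lit 0) (nat_lit 2271495685) (nat_lit 14) (nat_lit 5) (nat_lit 16) (nat_lit 4) (nat_lit 14) (nat_lit 4) (nat_lit 368) (nat_lit 266) (nat_lit 266)))) (XT.nd (nat_lit 78) (nat_lit 76) (nat_lit 0) (XT.lf (nat_lit 0) (nat_lit 13252666892) (nat_lit 152) (nat_lit 5410606554) (nat_lit 0) (nat_lit 12930281354) (nat_lit 14) (nat_lit 5) (nat_lit 16)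 (nat_lit 4) (nat_lit 14) (nat_lit 4) (nat_lit 369) (nat_lit 266) (nat_lit 265)) (XT.nd (nat_lit 78) (nat_lit 0) (nat_lit 0) (XT.lf (nat_lit 0) (nat_lit 10907398592) (nat_lit 76) (nat_lit 11317501789) (nat_lit 76) (nat_lit 10688082407) (nat_lit 13) (nat_lit 4) (nat_lit 14) (nat_lit 5) (nat_lit 14) (nat_lit 4) (nat_lit 370) (nat_lit 266) (nat_lit 264)) (XT.lf (nat_lit 0) (nat_lit 27637194690) (nat_lit 76) (nat_lit 3794729830) (nat_lit 76) (nat_lit 2872897262) (nat_lit 13) (nat_lit 4) (nat_lit 14) (nat_lit 5) (nat_lit 14) (nat_lit 4) (nat_lit 371) (nat_lit 266) (nat_lit 263))))) (XT.nd (nat_lit 234) (nat_lit 152) (nat_lit 0) (XT.nd (nat_lit 78) (nat_lit 76) (nat_lit 0) (XT.lf (nat_lit 0) (nat_lit 5095400539) (nat_lit 152) (nat_lit 26743304700) (nat_lit 0) (nat_lit 3930040037) (nat_lit 11) (nat_lit 5) (nat_lit 13) (nat_lit 4) (nat_lit 11) (nat_lit 4) (nat_lit 372) (nat_lit 266) (nat_lit 262)) (XT.nd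 (nat_lit 78) (nat_lit 76) (nat_lit 0) (XT.lf (nat_lit 0) (nat_lit 13257087256) (nat_lit 152) (nat_lit 12218090205) (nat_lit 0) (nat_lit 11834224444) (nat_lit 11) (nat_lit 5) (nat_lit 13) (nat_lit 4) (nat_lit 11) (nat_lit 4) (nat_lit 373) (nat_lit 266) (nat_lit 261)) (XT.lf (nat_lit 0) (nat_lit 2618964489) (nat_lit 76) (nat_lit 18991373273) (nat_lit 76) (nat_lit 17323270167) (nat_lit 10) (nat_lit 4) (nat_lit 11) (nat_lit 5) (nat_lit 11) (nat_lit 4) (nat_lit 374) (nat_lit 266) (nat_lit 260)))) (XT.nd (nat_lit 78) (nat_lit 152) (nat_lit 0) (XT.lf (nat_lit 0) (nat_lit 18001012320) (nat_lit 76) (nat_lit 12271479966) (nat_lit 76) (nat_lit 10369814673) (nat_lit 10) (nat_lit 4) (nat_lit 11) (nat_lit 5) (nat_lit 11) (nat_lit 4) (nat_lit 375) (nat_lit 266) (nat_lit 259)) (XT.nd (nat_lit 78) (nat_lit 152) (nat_lit 0) (XT.lf (nat_lit 0) (nat_lit 33721513260) (nat_lit 76) (nat_lit 5422876547) (nat_lit 76)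 (nat_lit 3298771077) (nat_lit 10) (nat_lit 4) (nat_lit 11) (nat_lit 5) (nat_lit 11) (nat_lit 4) (nat_lit 376) (nat_lit 266) (nat_lit 258)) (XT.lf (nat_lit 0) (nat_lit 3899793741) (nat_lit 152) (nat_lit 38805579214) (nat_lit 0) (nat_lit 1631877957) (nat_lit 8) (nat_lit 5) (nat_lit 10) (nat_lit 4) (nat_lit 8) (nat_lit 4) (nat_lit 377) (nat_lit 266) (nat_lit 257))))))) (XT.nd (nat_lit 936) (nat_lit 76) (nat_lit 0) (XT.nd (nat_lit 468) (nat_lit 152) (nat_lit 0) (XT.nd (nat_lit 234) (nat_lit 76) (nat_lit 0) (XT.nd (nat_lit 78) (nat_lit 0) (nat_lit 0) (XT.lf (nat_lit 0) (nat_lit 11325746047) (nat_lit 152) (nat_lit 26139318841) (nat_lit 0) (nat_lit 8861946964) (nat_lit 8) (nat_lit 5) (nat_lit 10) (nat_lit 4) (nat_lit 8) (nat_lit 4) (nat_lit 378) (nat_lit 266) (nat_lit 256)) (XT.nd (nat_lit 78) (nat_lit 0) (nat_lit 0) (XT.lf (nat_lit 0) (nat_lit 18922656631) (nat_lit 152) (nat_lit 13227328299) (nat_lit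 0) (nat_lit 16272302025) (nat_lit 8) (nat_lit 5) (nat_lit 10) (nat_lit 4) (nat_lit 8) (nat_lit 4) (nat_lit 379) (nat_lit 266) (nat_lit 255)) (XT.lf (nat_lit 0) (nat_lit 26708613376) (nat_lit 152) (nat_lit 38864752) (nat_lit 0) (nat_lit 23880586843) (nat_lit 8) (nat_lit 5) (nat_lit 10) (nat_lit 4) (nat_lit 8) (nat_lit 4) (nat_lit 380) (nat_lit 266) (nat_lit 254)))) (XT.nd (nat_lit 78) (nat_lit 0) (nat_lit 0) (XT.lf (nat_lit 0) (nat_lit 13725303000) (nat_lit 76) (nat_lit 21108787281) (nat_lit 76) (nat_lit 18111549390) (nat_lit 7) (nat_lit 4) (nat_lit 8) (nat_lit 5) (nat_lit 8) (nat_lit 4) (nat_lit 381) (nat_lit 266) (nat_lit 253)) (XT.nd (nat_lit 78) (nat_lit 0) (nat_lit 0) (XT.lf (nat_lit 0) (nat_lit 27837019315) (nat_lit 76) (nat_lit 15352878706) (nat_lit 76) (nat_lit 12194487141) (nat_lit 7) (nat_lit 4) (nat_lit 8) (nat_lit 5) (nat_lit 8) (nat_lit 4) (nat_lit 382) (nat_lit 266) (nat_lit 252))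 (XT.lf (nat_lit 0) (nat_lit 42329110030) (nat_lit 76) (nat_lit 9466440318) (nat_lit 76) (nat_lit 6154569063) (nat_lit 7) (nat_lit 4) (nat_lit 8) (nat_lit 5) (nat_lit 8) (nat_lit 4) (nat_lit 383) (nat_lit 266) (nat_lit 251))))) (XT.nd (nat_lit 234) (nat_lit 0) (nat_lit 0) (XT.nd (nat_lit 78) (nat_lit 76) (nat_lit 0) (XT.lf (nat_lit 0) (nat_lit 22144875) (nat_lit 152) (nat_lit 3413088292) (nat_lit 76) (nat_lit 57213711630) (nat_lit 6) (nat_lit 5) (nat_lit 8) (nat_lit 5) (nat_lit 7) (nat_lit 4) (nat_lit 384) (nat_lit 266) (nat_lit 250)) (XT.nd (nat_lit 78) (nat_lit 0) (nat_lit 0) (XT.lf (nat_lit 0) (nat_lit 6344376965) (nat_lit 152) (nat_lit 54285700557) (nat_lit 0) (nat_lit 2851898332) (nat_lit 5) (nat_lit 5) (nat_lit 7) (nat_lit 4) (nat_lit 5) (nat_lit 4) (nat_lit 385) (nat_lit 266) (nat_lit 249)) (XT.lf (nat_lit 0) (nat_lit 12902219907) (nat_lit 152) (nat_lit 44275843230) (nat_lit 0) (nat_lit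 9281021344) (nat_lit 5) (nat_lit 5) (nat_lit 7) (nat_lit 4) (nat_lit 5) (nat_lit 4) (nat_lit 386) (nat_lit 266) (nat_lit 248)))) (XT.nd (nat_lit 78) (nat_lit 0) (nat_lit 0) (XT.lf (nat_lit 0) (nat_lit 19644473096) (nat_lit 152) (nat_lit 34044206249) (nat_lit 0) (nat_lit 15900684124) (nat_lit 5) (nat_lit 5) (nat_lit 7) (nat_lit 4) (nat_lit 5) (nat_lit 4) (nat_lit 387) (nat_lit 266) (nat_lit 247)) (XT.nd (nat_lit 78) (nat_lit 0) (nat_lit 0) (XT.lf (nat_lit 0) (nat_lit 26587189516) (nat_lit 152) (nat_lit 23566428572) (nat_lit 0) (nat_lit 22726647774) (nat_lit 5) (nat_lit 5) (nat_lit 7) (nat_lit 4) (nat_lit 5) (nat_lit 4) (nat_lit 388) (nat_lit 266) (nat_lit 246)) (XT.lf (nat_lit 0) (nat_lit 33746899444) (nat_lit 152) (nat_lit 12817563110) (nat_lit 0) (nat_lit 29775164587) (nat_lit 5) (nat_lit 5) (nat_lit 7) (nat_lit 4) (nat_lit 5) (nat_lit 4) (nat_lit 389) (nat_lit 266) (nat_lit 245)))))) (XT.nd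 (nat_lit 468) (nat_lit 0) (nat_lit 0) (XT.nd (nat_lit 234) (nat_lit 0) (nat_lit 0) (XT.nd (nat_lit 78) (nat_lit 76) (nat_lit 0) (XT.lf (nat_lit 0) (nat_lit 41140649808) (nat_lit 152) (nat_lit 1772017326) (nat_lit 0) (nat_lit 37063016747) (nat_lit 5) (nat_lit 5) (nat_lit 7) (nat_lit 4) (nat_lit 5) (nat_lit 4) (nat_lit 390) (nat_lit 266) (nat_lit 244)) (XT.nd (nat_lit 78) (nat_lit 0) (nat_lit 0) (XT.lf (nat_lit 0) (nat_lit 9787497018) (nat_lit 76) (nat_lit 39092631167) (nat_lit 76) (nat_lit 34914142674) (nat_lit 4) (nat_lit 4) (nat_lit 5) (nat_lit 5) (nat_lit 5) (nat_lit 4) (nat_lit 391) (nat_lit 266) (nat_lit 243)) (XT.lf (nat_lit 0) (nat_lit 21739291763) (nat_lit 76) (nat_lit 35170967277) (nat_lit 76) (nat_lit 30896425991) (nat_lit 4) (nat_lit 4) (nat_lit 5) (nat_lit 5) (nat_lit 5) (nat_lit 4) (nat_lit 392) (nat_lit 266) (nat_lit 242)))) (XT.nd (nat_lit 78) (nat_lit 0) (nat_lit 0) (XT.lf (nat_lit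 0) (nat_lit 34076556945) (nat_lit 76) (nat_lit 31156232071) (nat_lit 76) (nat_lit 26790211934) (nat_lit 4) (nat_lit 4) (nat_lit 5) (nat_lit 5) (nat_lit 5) (nat_lit 4) (nat_lit 393) (nat_lit 266) (nat_lit 241)) (XT.nd (nat_lit 78) (nat_lit 0) (nat_lit 0) (XT.lf (nat_lit 0) (nat_lit 46828667004) (nat_lit 76) (nat_lit 27038866655) (nat_lit 76) (nat_lit 22585723804) (nat_lit 4) (nat_lit 4) (nat_lit 5) (nat_lit 5) (nat_lit 5) (nat_lit 4) (nat_lit 394) (nat_lit 266) (nat_lit 240)) (XT.lf (nat_lit 0) (nat_lit 60025984106) (nat_lit 76) (nat_lit 22809067778) (nat_lit 76) (nat_lit 18272950912) (nat_lit 4) (nat_lit 4) (nat_lit 5) (nat_lit 5) (nat_lit 5) (nat_lit 4) (nat_lit 395) (nat_lit 266) (nat_lit 239))))) (XT.nd (nat_lit 44694) (nat_lit 0) (nat_lit 684) (XT.nd (nat_lit 44538) (nat_lit 0) (nat_lit 912) (XT.lf (nat_lit 0) (nat_lit 73699930436) (nat_lit 76) (nat_lit 18456764490) (nat_lit 76) (nat_lit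 13841624754) (nat_lit 4) (nat_lit 4) (nat_lit 5) (nat_lit 5) (nat_lit 5) (nat_lit 4) (nat_lit 396) (nat_lit 266) (nat_lit 238)) (XT.nd (nat_lit 78) (nat_lit 0) (nat_lit 0) (XT.lf (nat_lit 0) (nat_lit 2130324111) (nat_lit 76) (nat_lit 5940167189) (nat_lit 76) (nat_lit 5940167189) (nat_lit 16) (nat_lit 4) (nat_lit 17) (nat_lit 5) (nat_lit 17) (nat_lit 4) (nat_lit 366) (nat_lit 267) (nat_lit 267)) (XT.lf (nat_lit 0) (nat_lit 21508551409) (nat_lit 76) (nat_lit 3996942017) (nat_lit 76) (nat_lit 3648282059) (nat_lit 16) (nat_lit 4) (nat_lit 17) (nat_lit 5) (nat_lit 17) (nat_lit 4) (nat_lit 367) (nat_lit 267) (nat_lit 266)))) (XT.nd (nat_lit 78) (nat_lit 76) (nat_lit 0) (XT.lf (nat_lit 0) (nat_lit 4739221496) (nat_lit 152) (nat_lit 21528651464) (nat_lit 0) (nat_lit 4078331144) (nat_lit 14) (nat_lit 5) (nat_lit 16) (nat_lit 4) (nat_lit 14) (nat_lit 4) (nat_lit 368) (nat_lit 267) (nat_lit 265)) (XT.nd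 (nat_lit 78) (nat_lit 76) (nat_lit 0) (XT.lf (nat_lit 0) (nat_lit 13313397312) (nat_lit 152) (nat_lit 5943043831) (nat_lit 0) (nat_lit 12345473115) (nat_lit 14) (nat_lit 5) (nat_lit 16) (nat_lit 4) (nat_lit 14) (nat_lit 4) (nat_lit 369) (nat_lit 267) (nat_lit 264)) (XT.lf (nat_lit 0) (nat_lit 10112084247) (nat_lit 76) (nat_lit 12036854168) (nat_lit 76) (nat_lit 10776516786) (nat_lit 13) (nat_lit 4) (nat_lit 14) (nat_lit 5) (nat_lit 14) (nat_lit 4) (nat_lit 370) (nat_lit 267) (nat_lit 263))))))))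
noncomputable def xc5 : XT := (XT.nd (nat_lit 1794) (nat_lit 0) (nat_lit 0) (XT.nd (nat_lit 858) (nat_lit 228) (nat_lit 0) (XT.nd (nat_lit 390) (nat_lit 228) (nat_lit 0) (XT.nd (nat_lit 156) (nat_lit 76) (nat_lit 0) (XT.nd (nat_lit 78) (nat_lit 152) (nat_lit 0) (XT.lf (nat_lit 0) (nat_lit 26601613182) (nat_lit 76) (nat_lit 4629137551) (nat_lit 76) (nat_lit 3090311421) (nat_lit 13) (nat_lit 4) (nat_lit 14) (nat_lit 5) (nat_lit 14) (nat_lit 4) (nat_lit 371) (nat_lit 267) (nat_lit 262)) (XT.lf (nat_lit 0) (nat_lit 4739998673) (nat_lit 152) (nat_lit 28060836897) (nat_lit 0) (nat_lit 2988490411) (nat_lit 11) (nat_lit 5) (nat_lit 13) (nat_lit 4) (nat_lit 11) (nat_lit 4) (nat_lit 372) (nat_lit 267) (nat_lit 261))) (XT.nd (nat_lit 78) (nat_lit 76) (nat_lit 0) (XT.lf (nat_lit 0) (nat_lit 12783785080) (nat_lit 152) (nat_lit 13762708234) (nat_lit 0) (nat_lit 10787036523) (nat_lit 11) (nat_lit 5) (nat_lit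 13) (nat_lit 4) (nat_lit 11) (nat_lit 4) (nat_lit 373) (nat_lit 267) (nat_lit 260)) (XT.nd (nat_lit 78) (nat_lit 0) (nat_lit 0) (XT.lf (nat_lit 0) (nat_lit 823029070) (nat_lit 76) (nat_lit 20184456878) (nat_lit 76) (nat_lit 17954146135) (nat_lit 10) (nat_lit 4) (nat_lit 11) (nat_lit 5) (nat_lit 11) (nat_lit 4) (nat_lit 374) (nat_lit 267) (nat_lit 259)) (XT.lf (nat_lit 0) (nat_lit 15995004080) (nat_lit 76) (nat_lit 13565677987) (nat_lit 76) (nat_lit 11112927067) (nat_lit 10) (nat_lit 4) (nat_lit 11) (nat_lit 5) (nat_lit 11) (nat_lit 4) (nat_lit 375) (nat_lit 267) (nat_lit 258))))) (XT.nd (nat_lit 234) (nat_lit 76) (nat_lit 0) (XT.nd (nat_lit 78) (nat_lit 152) (nat_lit 0) (XT.lf (nat_lit 0) (nat_lit 31515435667) (nat_lit 76) (nat_lit 6813374012) (nat_lit 76) (nat_lit 4148775304) (nat_lit 10) (nat_lit 4) (nat_lit 11) (nat_lit 5) (nat_lit 11) (nat_lit 4) (nat_lit 376) (nat_lit 267) (nat_lit 257))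 (XT.nd (nat_lit 78) (nat_lit 0) (nat_lit 0) (XT.lf (nat_lit 0) (nat_lit 2928213830) (nat_lit 152) (nat_lit 41302517842) (nat_lit 0) (nat_lit 145341493) (nat_lit 8) (nat_lit 5) (nat_lit 10) (nat_lit 4) (nat_lit 8) (nat_lit 4) (nat_lit 377) (nat_lit 267) (nat_lit 256)) (XT.lf (nat_lit 0) (nat_lit 10256439630) (nat_lit 152) (nat_lit 28825322274) (nat_lit 0) (nat_lit 7287011771) (nat_lit 8) (nat_lit 5) (nat_lit 10) (nat_lit 4) (nat_lit 8) (nat_lit 4) (nat_lit 378) (nat_lit 267) (nat_lit 255)))) (XT.nd (nat_lit 78) (nat_lit 76) (nat_lit 0) (XT.lf (nat_lit 0) (nat_lit 17760277351) (nat_lit 152) (nat_lit 16093393450) (nat_lit 0) (nat_lit 14613177566) (nat_lit 8) (nat_lit 5) (nat_lit 10) (nat_lit 4) (nat_lit 8) (nat_lit 4) (nat_lit 379) (nat_lit 267) (nat_lit 254)) (XT.nd (nat_lit 78) (nat_lit 76) (nat_lit 0) (XT.lf (nat_lit 0) (nat_lit 25457593274) (nat_lit 152) (nat_lit 3076417253) (nat_lit 0) (nat_lit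 22141282130) (nat_lit 8) (nat_lit 5) (nat_lit 10) (nat_lit 4) (nat_lit 8) (nat_lit 4) (nat_lit 380) (nat_lit 267) (nat_lit 253)) (XT.lf (nat_lit 0) (nat_lit 10460725548) (nat_lit 76) (nat_lit 23006543685) (nat_lit 76) (nat_lit 19529078867) (nat_lit 7) (nat_lit 4) (nat_lit 8) (nat_lit 5) (nat_lit 8) (nat_lit 4) (nat_lit 381) (nat_lit 267) (nat_lit 252)))))) (XT.nd (nat_lit 468) (nat_lit 76) (nat_lit 0) (XT.nd (nat_lit 234) (nat_lit 152) (nat_lit 0) (XT.nd (nat_lit 78) (nat_lit 0) (nat_lit 0) (XT.lf (nat_lit 0) (nat_lit 24413802148) (nat_lit 76) (nat_lit 17327350045) (nat_lit 76) (nat_lit 13696405536) (nat_lit 7) (nat_lit 4) (nat_lit 8) (nat_lit 5) (nat_lit 8) (nat_lit 4) (nat_lit 382) (nat_lit 267) (nat_lit 251)) (XT.nd (nat_lit 78) (nat_lit 0) (nat_lit 0) (XT.lf (nat_lit 0) (nat_lit 38754807421) (nat_lit 76) (nat_lit 11513973499) (nat_lit 76) (nat_lit 7736857856) (nat_lit 7) (nat_lit 4) (nat_lit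 8) (nat_lit 5) (nat_lit 8) (nat_lit 4) (nat_lit 383) (nat_lit 267) (nat_lit 250)) (XT.lf (nat_lit 0) (nat_lit 53517886619) (nat_lit 76) (nat_lit 5552572674) (nat_lit 76) (nat_lit 1636246428) (nat_lit 7) (nat_lit 4) (nat_lit 8) (nat_lit 5) (nat_lit 8) (nat_lit 4) (nat_lit 384) (nat_lit 267) (nat_lit 249)))) (XT.nd (nat_lit 78) (nat_lit 0) (nat_lit 0) (XT.lf (nat_lit 0) (nat_lit 4586687357) (nat_lit 152) (nat_lit 58301754527) (nat_lit 0) (nat_lit 655708937) (nat_lit 5) (nat_lit 5) (nat_lit 7) (nat_lit 4) (nat_lit 5) (nat_lit 4) (nat_lit 385) (nat_lit 267) (nat_lit 248)) (XT.nd (nat_lit 78) (nat_lit 0) (nat_lit 0) (XT.lf (nat_lit 0) (nat_lit 11074539128) (nat_lit 152) (nat_lit 48427854865) (nat_lit 0) (nat_lit 7020970299) (nat_lit 5) (nat_lit 5) (nat_lit 7) (nat_lit 4) (nat_lit 5) (nat_lit 4) (nat_lit 386) (nat_lit 267) (nat_lit 247)) (XT.lf (nat_lit 0) (nat_lit 17750134059) (nat_lit 152) (nat_lit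 38325701373) (nat_lit 0) (nat_lit 13579812460) (nat_lit 5) (nat_lit 5) (nat_lit 7) (nat_lit 4) (nat_lit 5) (nat_lit 4) (nat_lit 387) (nat_lit 267) (nat_lit 246))))) (XT.nd (nat_lit 234) (nat_lit 76) (nat_lit 0) (XT.nd (nat_lit 78) (nat_lit 0) (nat_lit 0) (XT.lf (nat_lit 0) (nat_lit 24629366424) (nat_lit 152) (nat_lit 27971241305) (nat_lit 0) (nat_lit 20347851710) (nat_lit 5) (nat_lit 5) (nat_lit 7) (nat_lit 4) (nat_lit 5) (nat_lit 4) (nat_lit 388) (nat_lit 267) (nat_lit 245)) (XT.nd (nat_lit 78) (nat_lit 0) (nat_lit 0) (XT.lf (nat_lit 0) (nat_lit 31728615347) (nat_lit 152) (nat_lit 17339821185) (nat_lit 0) (nat_lit 27341202429) (nat_lit 5) (nat_lit 5) (nat_lit 7) (nat_lit 4) (nat_lit 5) (nat_lit 4) (nat_lit 389) (nat_lit 267) (nat_lit 244)) (XT.lf (nat_lit 0) (nat_lit 39064783802) (nat_lit 152) (nat_lit 6406128108) (nat_lit 0) (nat_lit 34576515451) (nat_lit 5) (nat_lit 5) (nat_lit 7) (nat_lit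 4) (nat_lit 5) (nat_lit 4) (nat_lit 390) (nat_lit 267) (nat_lit 243)))) (XT.nd (nat_lit 78) (nat_lit 0) (nat_lit 0) (XT.lf (nat_lit 0) (nat_lit 4952511873) (nat_lit 76) (nat_lit 41750433556) (nat_lit 76) (nat_lit 37166112413) (nat_lit 4) (nat_lit 4) (nat_lit 5) (nat_lit 5) (nat_lit 5) (nat_lit 4) (nat_lit 391) (nat_lit 267) (nat_lit 242)) (XT.nd (nat_lit 78) (nat_lit 0) (nat_lit 0) (XT.lf (nat_lit 0) (nat_lit 16800833789) (nat_lit 76) (nat_lit 37879019363) (nat_lit 76) (nat_lit 33203219369) (nat_lit 4) (nat_lit 4) (nat_lit 5) (nat_lit 5) (nat_lit 5) (nat_lit 4) (nat_lit 392) (nat_lit 267) (nat_lit 241)) (XT.lf (nat_lit 0) (nat_lit 29039553419) (nat_lit 76) (nat_lit 33912141011) (nat_lit 76) (nat_lit 29149218302) (nat_lit 4) (nat_lit 4) (nat_lit 5) (nat_lit 5) (nat_lit 5) (nat_lit 4) (nat_lit 393) (nat_lit 267) (nat_lit 240))))))) (XT.nd (nat_lit 45240) (nat_lit 0) (nat_lit 228) (XT.nd (nat_lit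 44772) (nat_lit 0) (nat_lit 532) (XT.nd (nat_lit 44538) (nat_lit 0) (nat_lit 912) (XT.nd (nat_lit 78) (nat_lit 0) (nat_lit 0) (XT.lf (nat_lit 0) (nat_lit 41697810570) (nat_lit 76) (nat_lit 29840353551) (nat_lit 76) (nat_lit 24994456828) (nat_lit 4) (nat_lit 4) (nat_lit 5) (nat_lit 5) (nat_lit 5) (nat_lit 4) (nat_lit 394) (nat_lit 267) (nat_lit 239)) (XT.nd (nat_lit 78) (nat_lit 0) (nat_lit 0) (XT.lf (nat_lit 0) (nat_lit 54805743952) (nat_lit 76) (nat_lit 25653962251) (nat_lit 76) (nat_lit 20729042657) (nat_lit 4) (nat_lit 4) (nat_lit 5) (nat_lit 5) (nat_lit 5) (nat_lit 4) (nat_lit 395) (nat_lit 267) (nat_lit 238)) (XT.lf (nat_lit 0) (nat_lit 68394562929) (nat_lit 76) (nat_lit 21342999512) (nat_lit 76) (nat_lit 16342820042) (nat_lit 4) (nat_lit 4) (nat_lit 5) (nat_lit 5) (nat_lit 5) (nat_lit 4) (nat_lit 396) (nat_lit 267) (nat_lit 237)))) (XT.nd (nat_lit 78) (nat_lit 228) (nat_lit 0) (XT.lf (nat_lit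 0) (nat_lit 11658276787) (nat_lit 76) (nat_lit 652493925) (nat_lit 76) (nat_lit 652493925) (nat_lit 19) (nat_lit 4) (nat_lit 20) (nat_lit 5) (nat_lit 20) (nat_lit 4) (nat_lit 364) (nat_lit 268) (nat_lit 268)) (XT.nd (nat_lit 78) (nat_lit 76) (nat_lit 0) (XT.lf (nat_lit 0) (nat_lit 7429593751) (nat_lit 152) (nat_lit 12454485892) (nat_lit 0) (nat_lit 7063500794) (nat_lit 17) (nat_lit 5) (nat_lit 19) (nat_lit 4) (nat_lit 17) (nat_lit 4) (nat_lit 365) (nat_lit 268) (nat_lit 267)) (XT.lf (nat_lit 0) (nat_lit 3985892242) (nat_lit 76) (nat_lit 12377255015) (nat_lit 76) (nat_lit 11662502099) (nat_lit 16) (nat_lit 4) (nat_lit 17) (nat_lit 5) (nat_lit 17) (nat_lit 4) (nat_lit 366) (nat_lit 268) (nat_lit 266))))) (XT.nd (nat_lit 234) (nat_lit 228) (nat_lit 0) (XT.nd (nat_lit 78) (nat_lit 152) (nat_lit 0) (XT.lf (nat_lit 0) (nat_lit 20972123066) (nat_lit 76) (nat_lit 4618460443) (nat_lit 76) (nat_lit 3571650425)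 (nat_lit 16) (nat_lit 4) (nat_lit 17) (nat_lit 5) (nat_lit 17) (nat_lit 4) (nat_lit 367) (nat_lit 268) (nat_lit 265)) (XT.nd (nat_lit 78) (nat_lit 0) (nat_lit 0) (XT.lf (nat_lit 0) (nat_lit 4667488732) (nat_lit 152) (nat_lit 22347436106) (nat_lit 0) (nat_lit 3344134481) (nat_lit 14) (nat_lit 5) (nat_lit 16) (nat_lit 4) (nat_lit 14) (nat_lit 4) (nat_lit 368) (nat_lit 268) (nat_lit 264)) (XT.lf (nat_lit 0) (nat_lit 13112617210) (nat_lit 152) (nat_lit 7009186093) (nat_lit 0) (nat_lit 11496849773) (nat_lit 14) (nat_lit 5) (nat_lit 16) (nat_lit 4) (nat_lit 14) (nat_lit 4) (nat_lit 369) (nat_lit 268) (nat_lit 263)))) (XT.nd (nat_lit 78) (nat_lit 152) (nat_lit 0) (XT.lf (nat_lit 0) (nat_lit 8784456500) (nat_lit 76) (nat_lit 13028037617) (nat_lit 76) (nat_lit 11133781432) (nat_lit 13) (nat_lit 4) (nat_lit 14) (nat_lit 5) (nat_lit 14) (nat_lit 4) (nat_lit 370) (nat_lit 268) (nat_lit 262)) (XT.nd (nat_lit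 78) (nat_lit 152) (nat_lit 0) (XT.lf (nat_lit 0) (nat_lit 25045159565) (nat_lit 76) (nat_lit 5729897517) (nat_lit 76) (nat_lit 3570413952) (nat_lit 13) (nat_lit 4) (nat_lit 14) (nat_lit 5) (nat_lit 14) (nat_lit 4) (nat_lit 371) (nat_lit 268) (nat_lit 261)) (XT.lf (nat_lit 0) (nat_lit 4125131080) (nat_lit 152) (nat_lit 29909771660) (nat_lit 0) (nat_lit 1783304799) (nat_lit 11) (nat_lit 5) (nat_lit 13) (nat_lit 4) (nat_lit 11) (nat_lit 4) (nat_lit 372) (nat_lit 268) (nat_lit 260)))))) (XT.nd (nat_lit 468) (nat_lit 76) (nat_lit 0) (XT.nd (nat_lit 234) (nat_lit 152) (nat_lit 0) (XT.nd (nat_lit 78) (nat_lit 76) (nat_lit 0) (XT.lf (nat_lit 0) (nat_lit 12056631478) (nat_lit 152) (nat_lit 15827915218) (nat_lit 0) (nat_lit 9481243011) (nat_lit 11) (nat_lit 5) (nat_lit 13) (nat_lit 4) (nat_lit 11) (nat_lit 4) (nat_lit 373) (nat_lit 268) (nat_lit 259)) (XT.nd (nat_lit 78) (nat_lit 76) (nat_lit 0) (XT.lf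 (nat_lit 0) (nat_lit 20165481831) (nat_lit 152) (nat_lit 1464211718) (nat_lit 0) (nat_lit 17367653187) (nat_lit 11) (nat_lit 5) (nat_lit 13) (nat_lit 4) (nat_lit 11) (nat_lit 4) (nat_lit 374) (nat_lit 268) (nat_lit 258)) (XT.lf (nat_lit 0) (nat_lit 13478553254) (nat_lit 76) (nat_lit 15121999770) (nat_lit 76) (nat_lit 12112323338) (nat_lit 10) (nat_lit 4) (nat_lit 11) (nat_lit 5) (nat_lit 11) (nat_lit 4) (nat_lit 375) (nat_lit 268) (nat_lit 257)))) (XT.nd (nat_lit 78) (nat_lit 152) (nat_lit 0) (XT.lf (nat_lit 0) (nat_lit 28808442599) (nat_lit 76) (nat_lit 8461409551) (nat_lit 76) (nat_lit 5249973322) (nat_lit 10) (nat_lit 4) (nat_lit 11) (nat_lit 5) (nat_lit 11) (nat_lit 4) (nat_lit 376) (nat_lit 268) (nat_lit 256)) (XT.nd (nat_lit 78) (nat_lit 0) (nat_lit 0) (XT.lf (nat_lit 0) (nat_lit 94852462) (nat_lit 76) (nat_lit 1628517429) (nat_lit 152) (nat_lit 42699023126) (nat_lit 8) (nat_lit 5) (nat_lit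 9) (nat_lit 5) (nat_lit 10) (nat_lit 4) (nat_lit 377) (nat_lit 268) (nat_lit 255)) (XT.lf (nat_lit 0) (nat_lit 8942868522) (nat_lit 152) (nat_lit 32014752400) (nat_lit 0) (nat_lit 5460741822) (nat_lit 8) (nat_lit 5) (nat_lit 10) (nat_lit 4) (nat_lit 8) (nat_lit 4) (nat_lit 378) (nat_lit 268) (nat_lit 254))))) (XT.nd (nat_lit 234) (nat_lit 0) (nat_lit 0) (XT.nd (nat_lit 78) (nat_lit 76) (nat_lit 0) (XT.lf (nat_lit 0) (nat_lit 16358065422) (nat_lit 152) (nat_lit 19454310927) (nat_lit 0) (nat_lit 12706727363) (nat_lit 8) (nat_lit 5) (nat_lit 10) (nat_lit 4) (nat_lit 8) (nat_lit 4) (nat_lit 379) (nat_lit 268) (nat_lit 253)) (XT.nd (nat_lit 78) (nat_lit 76) (nat_lit 0) (XT.lf (nat_lit 0) (nat_lit 23970961515) (nat_lit 152) (nat_lit 6600656017) (nat_lit 0) (nat_lit 20158469780) (nat_lit 8) (nat_lit 5) (nat_lit 10) (nat_lit 4) (nat_lit 8) (nat_lit 4) (nat_lit 380) (nat_lit 268) (nat_lit 252)) (XT.lf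 (nat_lit 0) (nat_lit 6707707809) (nat_lit 76) (nat_lit 25156453525) (nat_lit 76) (nat_lit 21190482100) (nat_lit 7) (nat_lit 4) (nat_lit 8) (nat_lit 5) (nat_lit 8) (nat_lit 4) (nat_lit 381) (nat_lit 268) (nat_lit 251)))) (XT.nd (nat_lit 78) (nat_lit 0) (nat_lit 0) (XT.lf (nat_lit 0) (nat_lit 20509698966) (nat_lit 76) (nat_lit 19550321727) (nat_lit 76) (nat_lit 15438179169) (nat_lit 7) (nat_lit 4) (nat_lit 8) (nat_lit 5) (nat_lit 8) (nat_lit 4) (nat_lit 382) (nat_lit 268) (nat_lit 250)) (XT.nd (nat_lit 78) (nat_lit 0) (nat_lit 0) (XT.lf (nat_lit 0) (nat_lit 34706813342) (nat_lit 76) (nat_lit 13806527887) (nat_lit 76) (nat_lit 9555174726) (nat_lit 7) (nat_lit 4) (nat_lit 8) (nat_lit 5) (nat_lit 8) (nat_lit 4) (nat_lit 383) (nat_lit 268) (nat_lit 249)) (XT.lf (nat_lit 0) (nat_lit 49332853589) (nat_lit 76) (nat_lit 7911396307) (nat_lit 76) (nat_lit 3527461619) (nat_lit 7) (nat_lit 4) (nat_lit 8)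 (nat_lit 5) (nat_lit 8) (nat_lit 4) (nat_lit 384) (nat_lit 268) (nat_lit 248))))))))
noncomputable def xc6 : XT := (XT.nd (nat_lit 45942) (nat_lit 0) (nat_lit 0) (XT.nd (nat_lit 858) (nat_lit 0) (nat_lit 0) (XT.nd (nat_lit 390) (nat_lit 76) (nat_lit 0) (XT.nd (nat_lit 156) (nat_lit 0) (nat_lit 0) (XT.nd (nat_lit 78) (nat_lit 0) (nat_lit 0) (XT.lf (nat_lit 0) (nat_lit 798438367) (nat_lit 76) (nat_lit 1816655808) (nat_lit 152) (nat_lit 60998131406) (nat_lit 5) (nat_lit 5) (nat_lit 6) (nat_lit 5) (nat_lit 7) (nat_lit 4) (nat_lit 385) (nat_lit 268) (nat_lit 247)) (XT.lf (nat_lit 0) (nat_lit 9018824882) (nat_lit 152) (nat_lit 53052908235) (nat_lit 0) (nat_lit 4523234432) (nat_lit 5) (nat_lit 5) (nat_lit 7) (nat_lit 4) (nat_lit 5) (nat_lit 4) (nat_lit 386) (nat_lit 268) (nat_lit 246))) (XT.nd (nat_lit 78) (nat_lit 0) (nat_lit 0) (XT.lf (nat_lit 0) (nat_lit 15630935757) (nat_lit 152) (nat_lit 43074072352)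 (nat_lit 0) (nat_lit 11024152194) (nat_lit 5) (nat_lit 5) (nat_lit 7) (nat_lit 4) (nat_lit 5) (nat_lit 4) (nat_lit 387) (nat_lit 268) (nat_lit 245)) (XT.nd (nat_lit 78) (nat_lit 0) (nat_lit 0) (XT.lf (nat_lit 0) (nat_lit 22449707117) (nat_lit 152) (nat_lit 32837057626) (nat_lit 0) (nat_lit 17737025349) (nat_lit 5) (nat_lit 5) (nat_lit 7) (nat_lit 4) (nat_lit 5) (nat_lit 4) (nat_lit 388) (nat_lit 268) (nat_lit 244)) (XT.lf (nat_lit 0) (nat_lit 29491374131) (nat_lit 152) (nat_lit 22317490213) (nat_lit 0) (nat_lit 24677836930) (nat_lit 5) (nat_lit 5) (nat_lit 7) (nat_lit 4) (nat_lit 5) (nat_lit 4) (nat_lit 389) (nat_lit 268) (nat_lit 243))))) (XT.nd (nat_lit 234) (nat_lit 0) (nat_lit 0) (XT.nd (nat_lit 78) (nat_lit 76) (nat_lit 0) (XT.lf (nat_lit 0) (nat_lit 36772702672) (nat_lit 152) (nat_lit 11490323523) (nat_lit 0) (nat_lit 31863112678) (nat_lit 5) (nat_lit 5) (nat_lit 7) (nat_lit 4) (nat_lit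 5) (nat_lit 4) (nat_lit 390) (nat_lit 268) (nat_lit 242)) (XT.nd (nat_lit 78) (nat_lit 76) (nat_lit 0) (XT.lf (nat_lit 0) (nat_lit 44311029237) (nat_lit 152) (nat_lit 329778588) (nat_lit 0) (nat_lit 39309960393) (nat_lit 5) (nat_lit 5) (nat_lit 7) (nat_lit 4) (nat_lit 5) (nat_lit 4) (nat_lit 391) (nat_lit 268) (nat_lit 241)) (XT.lf (nat_lit 0) (nat_lit 11413434534) (nat_lit 76) (nat_lit 40820580604) (nat_lit 76) (nat_lit 35732389045) (nat_lit 4) (nat_lit 4) (nat_lit 5) (nat_lit 5) (nat_lit 5) (nat_lit 4) (nat_lit 392) (nat_lit 268) (nat_lit 240)))) (XT.nd (nat_lit 78) (nat_lit 0) (nat_lit 0) (XT.lf (nat_lit 0) (nat_lit 23558301257) (nat_lit 76) (nat_lit 36899280207) (nat_lit 76) (nat_lit 31728114634) (nat_lit 4) (nat_lit 4) (nat_lit 5) (nat_lit 5) (nat_lit 5) (nat_lit 4) (nat_lit 393) (nat_lit 268) (nat_lit 239)) (XT.nd (nat_lit 78) (nat_lit 0) (nat_lit 0) (XT.lf (nat_lit 0) (nat_lit 36127174688)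 (nat_lit 76) (nat_lit 32870900324) (nat_lit 76) (nat_lit 27620711881) (nat_lit 4) (nat_lit 4) (nat_lit 5) (nat_lit 5) (nat_lit 5) (nat_lit 4) (nat_lit 394) (nat_lit 268) (nat_lit 238)) (XT.lf (nat_lit 0) (nat_lit 49149980717) (nat_lit 76) (nat_lit 28725849574) (nat_lit 76) (nat_lit 23400401253) (nat_lit 4) (nat_lit 4) (nat_lit 5) (nat_lit 5) (nat_lit 5) (nat_lit 4) (nat_lit 395) (nat_lit 268) (nat_lit 237)))))) (XT.nd (nat_lit 44616) (nat_lit 0) (nat_lit 532) (XT.nd (nat_lit 44382) (nat_lit 0) (nat_lit 912) (XT.nd (nat_lit 44226) (nat_lit 0) (nat_lit 1140) (XT.lf (nat_lit 0) (nat_lit 62657726024) (nat_lit 76) (nat_lit 24454258787) (nat_lit 76) (nat_lit 19057134394) (nat_lit 4) (nat_lit 4) (nat_lit 5) (nat_lit 5) (nat_lit 5) (nat_lit 4) (nat_lit 396) (nat_lit 268) (nat_lit 236)) (XT.nd (nat_lit 78) (nat_lit 76) (nat_lit 0) (XT.lf (nat_lit 0) (nat_lit 3203055689) (nat_lit 152) (nat_lit 5608772385)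 (nat_lit 0) (nat_lit 3203055689) (nat_lit 20) (nat_lit 5) (nat_lit 22) (nat_lit 4) (nat_lit 20) (nat_lit 4) (nat_lit 362) (nat_lit 269) (nat_lit 269)) (XT.lf (nat_lit 0) (nat_lit 5653000346) (nat_lit 76) (nat_lit 9848715759) (nat_lit 76) (nat_lit 9452786226) (nat_lit 19) (nat_lit 4) (nat_lit 20) (nat_lit 5) (nat_lit 20) (nat_lit 4) (nat_lit 363) (nat_lit 269) (nat_lit 268)))) (XT.nd (nat_lit 78) (nat_lit 228) (nat_lit 0) (XT.lf (nat_lit 0) (nat_lit 23045188965) (nat_lit 76) (nat_lit 1829325005) (nat_lit 76) (nat_lit 1056319727) (nat_lit 19) (nat_lit 4) (nat_lit 20) (nat_lit 5) (nat_lit 20) (nat_lit 4) (nat_lit 364) (nat_lit 269) (nat_lit 267)) (XT.nd (nat_lit 78) (nat_lit 76) (nat_lit 0) (XT.lf (nat_lit 0) (nat_lit 7524352639) (nat_lit 152) (nat_lit 13006744619) (nat_lit 0) (nat_lit 6425202120) (nat_lit 17) (nat_lit 5) (nat_lit 19) (nat_lit 4) (nat_lit 17) (nat_lit 4) (nat_lit 365) (nat_lit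 269) (nat_lit 266)) (XT.lf (nat_lit 0) (nat_lit 3160970121) (nat_lit 76) (nat_lit 13154447152) (nat_lit 76) (nat_lit 11723239529) (nat_lit 16) (nat_lit 4) (nat_lit 17) (nat_lit 5) (nat_lit 17) (nat_lit 4) (nat_lit 366) (nat_lit 269) (nat_lit 265))))) (XT.nd (nat_lit 234) (nat_lit 228) (nat_lit 0) (XT.nd (nat_lit 78) (nat_lit 152) (nat_lit 0) (XT.lf (nat_lit 0) (nat_lit 19897989171) (nat_lit 76) (nat_lit 5514317142) (nat_lit 76) (nat_lit 3766864659) (nat_lit 16) (nat_lit 4) (nat_lit 17) (nat_lit 5) (nat_lit 17) (nat_lit 4) (nat_lit 367) (nat_lit 269) (nat_lit 264)) (XT.nd (nat_lit 78) (nat_lit 0) (nat_lit 0) (XT.lf (nat_lit 0) (nat_lit 4327622288) (nat_lit 152) (nat_lit 23714243101) (nat_lit 0) (nat_lit 2338653293) (nat_lit 14) (nat_lit 5) (nat_lit 16) (nat_lit 4) (nat_lit 14) (nat_lit 4) (nat_lit 368) (nat_lit 269) (nat_lit 263)) (XT.lf (nat_lit 0) (nat_lit 12649848540) (nat_lit 152) (nat_lit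 8611571774) (nat_lit 0) (nat_lit 10382390797) (nat_lit 14) (nat_lit 5) (nat_lit 16) (nat_lit 4) (nat_lit 14) (nat_lit 4) (nat_lit 369) (nat_lit 269) (nat_lit 262)))) (XT.nd (nat_lit 78) (nat_lit 152) (nat_lit 0) (XT.lf (nat_lit 0) (nat_lit 6921354332) (nat_lit 76) (nat_lit 14293412098) (nat_lit 76) (nat_lit 11760726975) (nat_lit 13) (nat_lit 4) (nat_lit 14) (nat_lit 5) (nat_lit 14) (nat_lit 4) (nat_lit 370) (nat_lit 269) (nat_lit 261)) (XT.nd (nat_lit 78) (nat_lit 152) (nat_lit 0) (XT.lf (nat_lit 0) (nat_lit 22964127997) (nat_lit 76) (nat_lit 7099630584) (nat_lit 76) (nat_lit 4314347958) (nat_lit 13) (nat_lit 4) (nat_lit 14) (nat_lit 5) (nat_lit 14) (nat_lit 4) (nat_lit 371) (nat_lit 269) (nat_lit 260)) (XT.lf (nat_lit 0) (nat_lit 3249333788) (nat_lit 152) (nat_lit 32294511214) (nat_lit 0) (nat_lit 311613712) (nat_lit 11) (nat_lit 5) (nat_lit 13) (nat_lit 4) (nat_lit 11) (nat_lit 4) (nat_lit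 372) (nat_lit 269) (nat_lit 259))))))) (XT.nd (nat_lit 936) (nat_lit 228) (nat_lit 0) (XT.nd (nat_lit 468) (nat_lit 76) (nat_lit 0) (XT.nd (nat_lit 234) (nat_lit 152) (nat_lit 0) (XT.nd (nat_lit 78) (nat_lit 76) (nat_lit 0) (XT.lf (nat_lit 0) (nat_lit 11073895130) (nat_lit 152) (nat_lit 18418628315) (nat_lit 0) (nat_lit 7913734877) (nat_lit 11) (nat_lit 5) (nat_lit 13) (nat_lit 4) (nat_lit 11) (nat_lit 4) (nat_lit 373) (nat_lit 269) (nat_lit 258)) (XT.nd (nat_lit 78) (nat_lit 76) (nat_lit 0) (XT.lf (nat_lit 0) (nat_lit 19080898762) (nat_lit 152) (nat_lit 4251090095) (nat_lit 0) (nat_lit 15708890722) (nat_lit 11) (nat_lit 5) (nat_lit 13) (nat_lit 4) (nat_lit 11) (nat_lit 4) (nat_lit 374) (nat_lit 269) (nat_lit 257)) (XT.lf (nat_lit 0) (nat_lit 10445668291) (nat_lit 76) (nat_lit 16944150842) (nat_lit 76) (nat_lit 13370383003) (nat_lit 10) (nat_lit 4) (nat_lit 11) (nat_lit 5) (nat_lit 11) (nat_lit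 4) (nat_lit 375) (nat_lit 269) (nat_lit 256)))) (XT.nd (nat_lit 78) (nat_lit 152) (nat_lit 0) (XT.lf (nat_lit 0) (nat_lit 25594088835) (nat_lit 76) (nat_lit 10370907058) (nat_lit 76) (nat_lit 6604987031) (nat_lit 10) (nat_lit 4) (nat_lit 11) (nat_lit 5) (nat_lit 11) (nat_lit 4) (nat_lit 376) (nat_lit 269) (nat_lit 255)) (XT.nd (nat_lit 78) (nat_lit 76) (nat_lit 0) (XT.lf (nat_lit 0) (nat_lit 303350246) (nat_lit 152) (nat_lit 3333121110) (nat_lit 76) (nat_lit 40839220686) (nat_lit 9) (nat_lit 5) (nat_lit 11) (nat_lit 5) (nat_lit 10) (nat_lit 4) (nat_lit 377) (nat_lit 269) (nat_lit 254)) (XT.lf (nat_lit 0) (nat_lit 7381905175) (nat_lit 152) (nat_lit 35715203101) (nat_lit 0) (nat_lit 3378788855) (nat_lit 8) (nat_lit 5) (nat_lit 10) (nat_lit 4) (nat_lit 8) (nat_lit 4) (nat_lit 378) (nat_lit 269) (nat_lit 253))))) (XT.nd (nat_lit 234) (nat_lit 0) (nat_lit 0) (XT.nd (nat_lit 78) (nat_lit 76) (nat_lit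 0) (XT.lf (nat_lit 0) (nat_lit 14712682245) (nat_lit 152) (nat_lit 23318082914) (nat_lit 0) (nat_lit 10548412249) (nat_lit 8) (nat_lit 5) (nat_lit 10) (nat_lit 4) (nat_lit 8) (nat_lit 4) (nat_lit 379) (nat_lit 269) (nat_lit 252)) (XT.nd (nat_lit 78) (nat_lit 76) (nat_lit 0) (XT.lf (nat_lit 0) (nat_lit 22245178499) (nat_lit 152) (nat_lit 10619972087) (nat_lit 0) (nat_lit 17927428813) (nat_lit 8) (nat_lit 5) (nat_lit 10) (nat_lit 4) (nat_lit 8) (nat_lit 4) (nat_lit 380) (nat_lit 269) (nat_lit 251)) (XT.lf (nat_lit 0) (nat_lit 2457314025) (nat_lit 76) (nat_lit 27563635633) (nat_lit 76) (nat_lit 23099714813) (nat_lit 7) (nat_lit 4) (nat_lit 8) (nat_lit 5) (nat_lit 8) (nat_lit 4) (nat_lit 381) (nat_lit 269) (nat_lit 250)))) (XT.nd (nat_lit 78) (nat_lit 0) (nat_lit 0) (XT.lf (nat_lit 0) (nat_lit 16115414286) (nat_lit 76) (nat_lit 22027086541) (nat_lit 76) (nat_lit 17423955118) (nat_lit 7) (nat_lit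 4) (nat_lit 8) (nat_lit 5) (nat_lit 8) (nat_lit 4) (nat_lit 382) (nat_lit 269) (nat_lit 249)) (XT.nd (nat_lit 78) (nat_lit 0) (nat_lit 0) (XT.lf (nat_lit 0) (nat_lit 30175489712) (nat_lit 76) (nat_lit 16349561946) (nat_lit 76) (nat_lit 11613848996) (nat_lit 7) (nat_lit 4) (nat_lit 8) (nat_lit 5) (nat_lit 8) (nat_lit 4) (nat_lit 383) (nat_lit 269) (nat_lit 248)) (XT.lf (nat_lit 0) (nat_lit 44671016673) (nat_lit 76) (nat_lit 10517543932) (nat_lit 76) (nat_lit 5655562861) (nat_lit 7) (nat_lit 4) (nat_lit 8) (nat_lit 5) (nat_lit 8) (nat_lit 4) (nat_lit 384) (nat_lit 269) (nat_lit 247)))))) (XT.nd (nat_lit 468) (nat_lit 76) (nat_lit 0) (XT.nd (nat_lit 234) (nat_lit 0) (nat_lit 0) (XT.nd (nat_lit 78) (nat_lit 76) (nat_lit 0) (XT.lf (nat_lit 0) (nat_lit 456014106) (nat_lit 152) (nat_lit 4056527787) (nat_lit 76) (nat_lit 59175889374) (nat_lit 6) (nat_lit 5) (nat_lit 8) (nat_lit 5) (nat_lit 7) (nat_lit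 4) (nat_lit 385) (nat_lit 269) (nat_lit 246)) (XT.nd (nat_lit 78) (nat_lit 0) (nat_lit 0) (XT.lf (nat_lit 0) (nat_lit 6730182610) (nat_lit 152) (nat_lit 58162015372) (nat_lit 0) (nat_lit 1781866753) (nat_lit 5) (nat_lit 5) (nat_lit 7) (nat_lit 4) (nat_lit 5) (nat_lit 4) (nat_lit 386) (nat_lit 269) (nat_lit 245)) (XT.lf (nat_lit 0) (nat_lit 13281832481) (nat_lit 152) (nat_lit 48300624831) (nat_lit 0) (nat_lit 8227618420) (nat_lit 5) (nat_lit 5) (nat_lit 7) (nat_lit 4) (nat_lit 5) (nat_lit 4) (nat_lit 387) (nat_lit 269) (nat_lit 244)))) (XT.nd (nat_lit 78) (nat_lit 0) (nat_lit 0) (XT.lf (nat_lit 0) (nat_lit 20043021931) (nat_lit 152) (nat_lit 38175462812) (nat_lit 0) (nat_lit 14887952438) (nat_lit 5) (nat_lit 5) (nat_lit 7) (nat_lit 4) (nat_lit 5) (nat_lit 4) (nat_lit 388) (nat_lit 269) (nat_lit 243)) (XT.nd (nat_lit 78) (nat_lit 0) (nat_lit 0) (XT.lf (nat_lit 0) (nat_lit 27029849031) (nat_lit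 152) (nat_lit 27762421786) (nat_lit 0) (nat_lit 21778726745) (nat_lit 5) (nat_lit 5) (nat_lit 7) (nat_lit 4) (nat_lit 5) (nat_lit 4) (nat_lit 389) (nat_lit 269) (nat_lit 242)) (XT.lf (nat_lit 0) (nat_lit 34258949083) (nat_lit 152) (nat_lit 17036708798) (nat_lit 0) (nat_lit 28916347946) (nat_lit 5) (nat_lit 5) (nat_lit 7) (nat_lit 4) (nat_lit 5) (nat_lit 4) (nat_lit 390) (nat_lit 269) (nat_lit 241))))) (XT.nd (nat_lit 234) (nat_lit 0) (nat_lit 0) (XT.nd (nat_lit 78) (nat_lit 76) (nat_lit 0) (XT.lf (nat_lit 0) (nat_lit 41747534230) (nat_lit 152) (nat_lit 5972786437) (nat_lit 0) (nat_lit 36317810378) (nat_lit 5) (nat_lit 5) (nat_lit 7) (nat_lit 4) (nat_lit 5) (nat_lit 4) (nat_lit 391) (nat_lit 269) (nat_lit 240)) (XT.nd (nat_lit 78) (nat_lit 0) (nat_lit 0) (XT.lf (nat_lit 0) (nat_lit 5564266857) (nat_lit 76) (nat_lit 44002654716) (nat_lit 76) (nat_lit 38489956850) (nat_lit 4) (nat_lit 4) (nat_lit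 5) (nat_lit 5) (nat_lit 5) (nat_lit 4) (nat_lit 392) (nat_lit 269) (nat_lit 239)) (XT.lf (nat_lit 0) (nat_lit 17619749859) (nat_lit 76) (nat_lit 40124761897) (nat_lit 76) (nat_lit 34533041160) (nat_lit 4) (nat_lit 4) (nat_lit 5) (nat_lit 5) (nat_lit 5) (nat_lit 4) (nat_lit 393) (nat_lit 269) (nat_lit 238)))) (XT.nd (nat_lit 78) (nat_lit 0) (nat_lit 0) (XT.lf (nat_lit 0) (nat_lit 30103495937) (nat_lit 76) (nat_lit 36137722563) (nat_lit 76) (nat_lit 30470741950) (nat_lit 4) (nat_lit 4) (nat_lit 5) (nat_lit 5) (nat_lit 5) (nat_lit 4) (nat_lit 394) (nat_lit 269) (nat_lit 237)) (XT.nd (nat_lit 78) (nat_lit 0) (nat_lit 0) (XT.lf (nat_lit 0) (nat_lit 43045228296) (nat_lit 76) (nat_lit 32032043765) (nat_lit 76) (nat_lit 26293387079) (nat_lit 4) (nat_lit 4) (nat_lit 5) (nat_lit 5) (nat_lit 5) (nat_lit 4) (nat_lit 395) (nat_lit 269) (nat_lit 236)) (XT.lf (nat_lit 0) (nat_lit 56475760585) (nat_lit 76)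 (nat_lit 27797950076) (nat_lit 76) (nat_lit 21991030463) (nat_lit 4) (nat_lit 4) (nat_lit 5) (nat_lit 5) (nat_lit 5) (nat_lit 4) (nat_lit 396) (nat_lit 269) (nat_lit 235))))))))
noncomputable def xc7 : XT := (XT.nd (nat_lit 1872) (nat_lit 228) (nat_lit 0) (XT.nd (nat_lit 936) (nat_lit 456) (nat_lit 0) (XT.nd (nat_lit 468) (nat_lit 304) (nat_lit 0) (XT.nd (nat_lit 234) (nat_lit 228) (nat_lit 0) (XT.nd (nat_lit 78) (nat_lit 152) (nat_lit 0) (XT.lf (nat_lit 0) (nat_lit 564322515) (nat_lit 76) (nat_lit 5296894640) (nat_lit 76) (nat_lit 5296894640) (nat_lit 22) (nat_lit 4) (nat_lit 23) (nat_lit 5) (nat_lit 23) (nat_lit 4) (nat_lit 360) (nat_lit 270) (nat_lit 270)) (XT.nd (nat_lit 78) (nat_lit 152) (nat_lit 0) (XT.lf (nat_lit 0) (nat_lit 18629387429) (nat_lit 76) (nat_lit 2476170336) (nat_lit 76) (nat_lit 2047972546) (nat_lit 22) (nat_lit 4) (nat_lit 23) (nat_lit 5) (nat_lit 23) (nat_lit 4) (nat_lit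 361) (nat_lit 270) (nat_lit 269)) (XT.lf (nat_lit 0) (nat_lit 6674471499) (nat_lit 152) (nat_lit 11496917545) (nat_lit 0) (nat_lit 5862815958) (nat_lit 20) (nat_lit 5) (nat_lit 22) (nat_lit 4) (nat_lit 20) (nat_lit 4) (nat_lit 362) (nat_lit 270) (nat_lit 268)))) (XT.nd (nat_lit 78) (nat_lit 152) (nat_lit 0) (XT.lf (nat_lit 0) (nat_lit 5096702898) (nat_lit 76) (nat_lit 10527677392) (nat_lit 76) (nat_lit 9338946105) (nat_lit 19) (nat_lit 4) (nat_lit 20) (nat_lit 5) (nat_lit 20) (nat_lit 4) (nat_lit 363) (nat_lit 270) (nat_lit 267)) (XT.nd (nat_lit 78) (nat_lit 152) (nat_lit 0) (XT.lf (nat_lit 0) (nat_lit 22230449032) (nat_lit 76) (nat_lit 2630579611) (nat_lit 76) (nat_lit 1082728567) (nat_lit 19) (nat_lit 4) (nat_lit 20) (nat_lit 5) (nat_lit 20) (nat_lit 4) (nat_lit 364) (nat_lit 270) (nat_lit 266)) (XT.lf (nat_lit 0) (nat_lit 7348003077) (nat_lit 152) (nat_lit 14112576977) (nat_lit 0) (nat_lit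 5513177970) (nat_lit 17) (nat_lit 5) (nat_lit 19) (nat_lit 4) (nat_lit 17) (nat_lit 4) (nat_lit 365) (nat_lit 270) (nat_lit 265))))) (XT.nd (nat_lit 234) (nat_lit 76) (nat_lit 0) (XT.nd (nat_lit 78) (nat_lit 152) (nat_lit 0) (XT.lf (nat_lit 0) (nat_lit 1783917758) (nat_lit 76) (nat_lit 14213761247) (nat_lit 76) (nat_lit 12062691279) (nat_lit 16) (nat_lit 4) (nat_lit 17) (nat_lit 5) (nat_lit 17) (nat_lit 4) (nat_lit 366) (nat_lit 270) (nat_lit 264)) (XT.nd (nat_lit 78) (nat_lit 152) (nat_lit 0) (XT.lf (nat_lit 0) (nat_lit 18283592262) (nat_lit 76) (nat_lit 6686645106) (nat_lit 76) (nat_lit 4234389557) (nat_lit 16) (nat_lit 4) (nat_lit 17) (nat_lit 5) (nat_lit 17) (nat_lit 4) (nat_lit 367) (nat_lit 270) (nat_lit 263)) (XT.lf (nat_lit 0) (nat_lit 3718812958) (nat_lit 152) (nat_lit 25632326752) (nat_lit 0) (nat_lit 1059493579) (nat_lit 14) (nat_lit 5) (nat_lit 16) (nat_lit 4) (nat_lit 14) (nat_lit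 4) (nat_lit 368) (nat_lit 270) (nat_lit 262)))) (XT.nd (nat_lit 78) (nat_lit 76) (nat_lit 0) (XT.lf (nat_lit 0) (nat_lit 11923989470) (nat_lit 152) (nat_lit 10754016078) (nat_lit 0) (nat_lit 8999442712) (nat_lit 14) (nat_lit 5) (nat_lit 16) (nat_lit 4) (nat_lit 14) (nat_lit 4) (nat_lit 369) (nat_lit 270) (nat_lit 261)) (XT.nd (nat_lit 78) (nat_lit 0) (nat_lit 0) (XT.lf (nat_lit 0) (nat_lit 4518341786) (nat_lit 76) (nat_lit 15835990405) (nat_lit 76) (nat_lit 12658846143) (nat_lit 13) (nat_lit 4) (nat_lit 14) (nat_lit 5) (nat_lit 14) (nat_lit 4) (nat_lit 370) (nat_lit 270) (nat_lit 260)) (XT.lf (nat_lit 0) (nat_lit 20353563641) (nat_lit 76) (nat_lit 8741598023) (nat_lit 76) (nat_lit 5323884709) (nat_lit 13) (nat_lit 4) (nat_lit 14) (nat_lit 5) (nat_lit 14) (nat_lit 4) (nat_lit 371) (nat_lit 270) (nat_lit 259)))))) (XT.nd (nat_lit 468) (nat_lit 228) (nat_lit 0) (XT.nd (nat_lit 234) (nat_lit 76)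 (nat_lit 0) (XT.nd (nat_lit 78) (nat_lit 0) (nat_lit 0) (XT.lf (nat_lit 0) (nat_lit 665993617) (nat_lit 76) (nat_lit 1458548409) (nat_lit 152) (nat_lit 33776205560) (nat_lit 11) (nat_lit 5) (nat_lit 12) (nat_lit 5) (nat_lit 13) (nat_lit 4) (nat_lit 372) (nat_lit 270) (nat_lit 258)) (XT.nd (nat_lit 78) (nat_lit 0) (nat_lit 0) (XT.lf (nat_lit 0) (nat_lit 9833236188) (nat_lit 152) (nat_lit 21541015891) (nat_lit 0) (nat_lit 6080779957) (nat_lit 11) (nat_lit 5) (nat_lit 13) (nat_lit 4) (nat_lit 11) (nat_lit 4) (nat_lit 373) (nat_lit 270) (nat_lit 257)) (XT.lf (nat_lit 0) (nat_lit 17743242944) (nat_lit 152) (nat_lit 7560301747) (nat_lit 0) (nat_lit 13789026916) (nat_lit 11) (nat_lit 5) (nat_lit 13) (nat_lit 4) (nat_lit 11) (nat_lit 4) (nat_lit 374) (nat_lit 270) (nat_lit 256)))) (XT.nd (nat_lit 78) (nat_lit 0) (nat_lit 0) (XT.lf (nat_lit 0) (nat_lit 6889128038) (nat_lit 76) (nat_lit 19036469659) (nat_lit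 76) (nat_lit 14890101442) (nat_lit 10) (nat_lit 4) (nat_lit 11) (nat_lit 5) (nat_lit 11) (nat_lit 4) (nat_lit 375) (nat_lit 270) (nat_lit 255)) (XT.nd (nat_lit 78) (nat_lit 0) (nat_lit 0) (XT.lf (nat_lit 0) (nat_lit 21864721152) (nat_lit 76) (nat_lit 12546412955) (nat_lit 76) (nat_lit 8217042654) (nat_lit 10) (nat_lit 4) (nat_lit 11) (nat_lit 5) (nat_lit 11) (nat_lit 4) (nat_lit 376) (nat_lit 270) (nat_lit 254)) (XT.lf (nat_lit 0) (nat_lit 37251668941) (nat_lit 76) (nat_lit 5894266288) (nat_lit 76) (nat_lit 1390608287) (nat_lit 10) (nat_lit 4) (nat_lit 11) (nat_lit 5) (nat_lit 11) (nat_lit 4) (nat_lit 377) (nat_lit 270) (nat_lit 253))))) (XT.nd (nat_lit 234) (nat_lit 76) (nat_lit 0) (XT.nd (nat_lit 78) (nat_lit 0) (nat_lit 0) (XT.lf (nat_lit 0) (nat_lit 5569833009) (nat_lit 152) (nat_lit 39935484975) (nat_lit 0) (nat_lit 1036195839) (nat_lit 8) (nat_lit 5) (nat_lit 10) (nat_lit 4) (nat_lit 8)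 (nat_lit 4) (nat_lit 378) (nat_lit 270) (nat_lit 252)) (XT.nd (nat_lit 78) (nat_lit 0) (nat_lit 0) (XT.lf (nat_lit 0) (nat_lit 12820210240) (nat_lit 152) (nat_lit 27693908870) (nat_lit 0) (nat_lit 8133093380) (nat_lit 8) (nat_lit 5) (nat_lit 10) (nat_lit 4) (nat_lit 8) (nat_lit 4) (nat_lit 379) (nat_lit 270) (nat_lit 251)) (XT.lf (nat_lit 0) (nat_lit 20276135220) (nat_lit 152) (nat_lit 15143935264) (nat_lit 0) (nat_lit 15442847226) (nat_lit 8) (nat_lit 5) (nat_lit 10) (nat_lit 4) (nat_lit 8) (nat_lit 4) (nat_lit 380) (nat_lit 270) (nat_lit 250)))) (XT.nd (nat_lit 78) (nat_lit 76) (nat_lit 0) (XT.lf (nat_lit 0) (nat_lit 27955360150) (nat_lit 152) (nat_lit 2255683266) (nat_lit 0) (nat_lit 22982861553) (nat_lit 8) (nat_lit 5) (nat_lit 10) (nat_lit 4) (nat_lit 8) (nat_lit 4) (nat_lit 381) (nat_lit 270) (nat_lit 249)) (XT.nd (nat_lit 78) (nat_lit 0) (nat_lit 0) (XT.lf (nat_lit 0) (nat_lit 11220485524)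 (nat_lit 76) (nat_lit 24763541548) (nat_lit 76) (nat_lit 19658461423) (nat_lit 7) (nat_lit 4) (nat_lit 8) (nat_lit 5) (nat_lit 8) (nat_lit 4) (nat_lit 382) (nat_lit 270) (nat_lit 248)) (XT.lf (nat_lit 0) (nat_lit 25150047664) (nat_lit 76) (nat_lit 19149130519) (nat_lit 76) (nat_lit 13917782273) (nat_lit 7) (nat_lit 4) (nat_lit 8) (nat_lit 5) (nat_lit 8) (nat_lit 4) (nat_lit 383) (nat_lit 270) (nat_lit 247))))))) (XT.nd (nat_lit 936) (nat_lit 0) (nat_lit 0) (XT.nd (nat_lit 468) (nat_lit 76) (nat_lit 0) (XT.nd (nat_lit 234) (nat_lit 0) (nat_lit 0) (XT.nd (nat_lit 78) (nat_lit 152) (nat_lit 0) (XT.lf (nat_lit 0) (nat_lit 39521276258) (nat_lit 76) (nat_lit 13377220663) (nat_lit 76) (nat_lit 8025617064) (nat_lit 7) (nat_lit 4) (nat_lit 8) (nat_lit 5) (nat_lit 8) (nat_lit 4) (nat_lit 384) (nat_lit 270) (nat_lit 246)) (XT.nd (nat_lit 78) (nat_lit 152) (nat_lit 0) (XT.lf (nat_lit 0) (nat_lit 54368388517)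 (nat_lit 76) (nat_lit 7434069338) (nat_lit 76) (nat_lit 1967936831) (nat_lit 7) (nat_lit 4) (nat_lit 8) (nat_lit 5) (nat_lit 8) (nat_lit 4) (nat_lit 385) (nat_lit 270) (nat_lit 245)) (XT.lf (nat_lit 0) (nat_lit 2981288169) (nat_lit 76) (nat_lit 1233734405) (nat_lit 152) (nat_lit 62545465821) (nat_lit 5) (nat_lit 5) (nat_lit 6) (nat_lit 5) (nat_lit 7) (nat_lit 4) (nat_lit 386) (nat_lit 270) (nat_lit 244)))) (XT.nd (nat_lit 78) (nat_lit 0) (nat_lit 0) (XT.lf (nat_lit 0) (nat_lit 10697231126) (nat_lit 152) (nat_lit 54017802983) (nat_lit 0) (nat_lit 5183552725) (nat_lit 5) (nat_lit 5) (nat_lit 7) (nat_lit 4) (nat_lit 5) (nat_lit 4) (nat_lit 387) (nat_lit 270) (nat_lit 243)) (XT.nd (nat_lit 78) (nat_lit 0) (nat_lit 0) (XT.lf (nat_lit 0) (nat_lit 17403580663) (nat_lit 152) (nat_lit 43999167351) (nat_lit 0) (nat_lit 11793849469) (nat_lit 5) (nat_lit 5) (nat_lit 7) (nat_lit 4) (nat_lit 5) (nat_lit 4)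 (nat_lit 388) (nat_lit 270) (nat_lit 242)) (XT.lf (nat_lit 0) (nat_lit 24338179274) (nat_lit 152) (nat_lit 33687580027) (nat_lit 0) (nat_lit 18636969229) (nat_lit 5) (nat_lit 5) (nat_lit 7) (nat_lit 4) (nat_lit 5) (nat_lit 4) (nat_lit 389) (nat_lit 270) (nat_lit 241))))) (XT.nd (nat_lit 234) (nat_lit 76) (nat_lit 0) (XT.nd (nat_lit 78) (nat_lit 0) (nat_lit 0) (XT.lf (nat_lit 0) (nat_lit 31517537907) (nat_lit 152) (nat_lit 23058489613) (nat_lit 0) (nat_lit 25729205148) (nat_lit 5) (nat_lit 5) (nat_lit 7) (nat_lit 4) (nat_lit 5) (nat_lit 4) (nat_lit 390) (nat_lit 270) (nat_lit 240)) (XT.nd (nat_lit 78) (nat_lit 0) (nat_lit 0) (XT.lf (nat_lit 0) (nat_lit 38958750275) (nat_lit 152) (nat_lit 12086588750) (nat_lit 0) (nat_lit 33087443502) (nat_lit 5) (nat_lit 5) (nat_lit 7) (nat_lit 4) (nat_lit 5) (nat_lit 4) (nat_lit 391) (nat_lit 270) (nat_lit 239)) (XT.lf (nat_lit 0) (nat_lit 46679533549) (nat_lit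 152) (nat_lit 745753866) (nat_lit 0) (nat_lit 40729203905) (nat_lit 5) (nat_lit 5) (nat_lit 7) (nat_lit 4) (nat_lit 5) (nat_lit 4) (nat_lit 392) (nat_lit 270) (nat_lit 238)))) (XT.nd (nat_lit 78) (nat_lit 0) (nat_lit 0) (XT.lf (nat_lit 0) (nat_lit 11209759818) (nat_lit 76) (nat_lit 43596265797) (nat_lit 76) (nat_lit 37570676277) (nat_lit 4) (nat_lit 4) (nat_lit 5) (nat_lit 5) (nat_lit 5) (nat_lit 4) (nat_lit 393) (nat_lit 270) (nat_lit 237)) (XT.nd (nat_lit 78) (nat_lit 0) (nat_lit 0) (XT.lf (nat_lit 0) (nat_lit 23612432226) (nat_lit 76) (nat_lit 39648598416) (nat_lit 76) (nat_lit 33551332822) (nat_lit 4) (nat_lit 4) (nat_lit 5) (nat_lit 5) (nat_lit 5) (nat_lit 4) (nat_lit 394) (nat_lit 270) (nat_lit 236)) (XT.lf (nat_lit 0) (nat_lit 36476951566) (nat_lit 76) (nat_lit 35580416715) (nat_lit 76) (nat_lit 29414888194) (nat_lit 4) (nat_lit 4) (nat_lit 5) (nat_lit 5) (nat_lit 5) (nat_lit 4) (nat_lit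 395) (nat_lit 270) (nat_lit 235)))))) (XT.nd (nat_lit 44304) (nat_lit 0) (nat_lit 760) (XT.nd (nat_lit 44070) (nat_lit 0) (nat_lit 1216) (XT.nd (nat_lit 43914) (nat_lit 0) (nat_lit 1444) (XT.lf (nat_lit 0) (nat_lit 49833947646) (nat_lit 76) (nat_lit 31382034546) (nat_lit 76) (nat_lit 25151493715) (nat_lit 4) (nat_lit 4) (nat_lit 5) (nat_lit 5) (nat_lit 5) (nat_lit 4) (nat_lit 396) (nat_lit 270) (nat_lit 234)) (XT.nd (nat_lit 78) (nat_lit 152) (nat_lit 0) (XT.lf (nat_lit 0) (nat_lit 4760427234) (nat_lit 76) (nat_lit 2811013858) (nat_lit 76) (nat_lit 2811013858) (nat_lit 25) (nat_lit 4) (nat_lit 26) (nat_lit 5) (nat_lit 26) (nat_lit 4) (nat_lit 358) (nat_lit 271) (nat_lit 271)) (XT.lf (nat_lit 0) (nat_lit 3099206248) (nat_lit 152) (nat_lit 15774114467) (nat_lit 0) (nat_lit 2649598569) (nat_lit 23) (nat_lit 5) (nat_lit 25) (nat_lit 4) (nat_lit 23) (nat_lit 4) (nat_lit 359) (nat_lit 271) (nat_lit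 270)))) (XT.nd (nat_lit 78) (nat_lit 152) (nat_lit 0) (XT.lf (nat_lit 0) (nat_lit 847285190) (nat_lit 76) (nat_lit 11175617938) (nat_lit 76) (nat_lit 10297812470) (nat_lit 22) (nat_lit 4) (nat_lit 23) (nat_lit 5) (nat_lit 23) (nat_lit 4) (nat_lit 360) (nat_lit 271) (nat_lit 269)) (XT.nd (nat_lit 78) (nat_lit 152) (nat_lit 0) (XT.lf (nat_lit 0) (nat_lit 18080065834) (nat_lit 76) (nat_lit 3183923736) (nat_lit 76) (nat_lit 1898310850) (nat_lit 22) (nat_lit 4) (nat_lit 23) (nat_lit 5) (nat_lit 23) (nat_lit 4) (nat_lit 361) (nat_lit 271) (nat_lit 268)) (XT.lf (nat_lit 0) (nat_lit 6668535273) (nat_lit 152) (nat_lit 12335701038) (nat_lit 0) (nat_lit 5043291677) (nat_lit 20) (nat_lit 5) (nat_lit 22) (nat_lit 4) (nat_lit 20) (nat_lit 4) (nat_lit 362) (nat_lit 271) (nat_lit 267))))) (XT.nd (nat_lit 234) (nat_lit 228) (nat_lit 0) (XT.nd (nat_lit 78) (nat_lit 152) (nat_lit 0) (XT.lf (nat_lit 0) (nat_lit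 3982783483) (nat_lit 76) (nat_lit 11491287701) (nat_lit 76) (nat_lit 9506924347) (nat_lit 19) (nat_lit 4) (nat_lit 20) (nat_lit 5) (nat_lit 20) (nat_lit 4) (nat_lit 363) (nat_lit 271) (nat_lit 266)) (XT.nd (nat_lit 78) (nat_lit 152) (nat_lit 0) (XT.lf (nat_lit 0) (nat_lit 20870393917) (nat_lit 76) (nat_lit 3710659418) (nat_lit 76) (nat_lit 1384277247) (nat_lit 19) (nat_lit 4) (nat_lit 20) (nat_lit 5) (nat_lit 20) (nat_lit 4) (nat_lit 364) (nat_lit 271) (nat_lit 265)) (XT.lf (nat_lit 0) (nat_lit 6900125184) (nat_lit 152) (nat_lit 15774615899) (nat_lit 0) (nat_lit 4325256857) (nat_lit 17) (nat_lit 5) (nat_lit 19) (nat_lit 4) (nat_lit 17) (nat_lit 4) (nat_lit 365) (nat_lit 271) (nat_lit 264)))) (XT.nd (nat_lit 78) (nat_lit 228) (nat_lit 0) (XT.lf (nat_lit 0) (nat_lit 15410603826) (nat_lit 152) (nat_lit 145644923) (nat_lit 0) (nat_lit 12534549918) (nat_lit 17) (nat_lit 5) (nat_lit 19) (nat_lit 4)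 (nat_lit 17) (nat_lit 4) (nat_lit 366) (nat_lit 271) (nat_lit 263)) (XT.nd (nat_lit 78) (nat_lit 152) (nat_lit 0) (XT.lf (nat_lit 0) (nat_lit 16125088536) (nat_lit 76) (nat_lit 8138235592) (nat_lit 76) (nat_lit 4975338274) (nat_lit 16) (nat_lit 4) (nat_lit 17) (nat_lit 5) (nat_lit 17) (nat_lit 4) (nat_lit 367) (nat_lit 271) (nat_lit 262)) (XT.lf (nat_lit 0) (nat_lit 2338208347) (nat_lit 76) (nat_lit 506269419) (nat_lit 152) (nat_lit 27604851076) (nat_lit 14) (nat_lit 5) (nat_lit 15) (nat_lit 5) (nat_lit 16) (nat_lit 4) (nat_lit 368) (nat_lit 271) (nat_lit 261))))))))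
noncomputable def xc8 : XT := (XT.nd (nat_lit 1794) (nat_lit 76) (nat_lit 0) (XT.nd (nat_lit 858) (nat_lit 228) (nat_lit 0) (XT.nd (nat_lit 390) (nat_lit 228) (nat_lit 0) (XT.nd (nat_lit 156) (nat_lit 152) (nat_lit 0) (XT.nd (nat_lit 78) (nat_lit 76) (nat_lit 0) (XT.lf (nat_lit 0) (nat_lit 10933311765) (nat_lit 152) (nat_lit 13441620063) (nat_lit 0) (nat_lit 7344712786) (nat_lit 14) (nat_lit 5) (nat_lit 16) (nat_lit 4) (nat_lit 14) (nat_lit 4) (nat_lit 369) (nat_lit 271) (nat_lit 260)) (XT.lf (nat_lit 0) (nat_lit 1569697402) (nat_lit 76) (nat_lit 17659445346) (nat_lit 76) (nat_lit 13830277315) (nat_lit 13) (nat_lit 4) (nat_lit 14) (nat_lit 5) (nat_lit 14) (nat_lit 4) (nat_lit 370) (nat_lit 271) (nat_lit 259))) (XT.nd (nat_lit 78) (nat_lit 152) (nat_lit 0) (XT.lf (nat_lit 0) (nat_lit 17207250868) (nat_lit 76) (nat_lit 10659709279) (nat_lit 76) (nat_lit 6601427865) (nat_lit 13) (nat_lit 4) (nat_lit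 14) (nat_lit 5) (nat_lit 14) (nat_lit 4) (nat_lit 371) (nat_lit 271) (nat_lit 258)) (XT.nd (nat_lit 78) (nat_lit 76) (nat_lit 0) (XT.lf (nat_lit 0) (nat_lit 766439394) (nat_lit 152) (nat_lit 2720612664) (nat_lit 76) (nat_lit 32466579077) (nat_lit 12) (nat_lit 5) (nat_lit 14) (nat_lit 5) (nat_lit 13) (nat_lit 4) (nat_lit 372) (nat_lit 271) (nat_lit 257)) (XT.lf (nat_lit 0) (nat_lit 8331700702) (nat_lit 152) (nat_lit 25202512201) (nat_lit 0) (nat_lit 3978014075) (nat_lit 11) (nat_lit 5) (nat_lit 13) (nat_lit 4) (nat_lit 11) (nat_lit 4) (nat_lit 373) (nat_lit 271) (nat_lit 256))))) (XT.nd (nat_lit 234) (nat_lit 152) (nat_lit 0) (XT.nd (nat_lit 78) (nat_lit 76) (nat_lit 0) (XT.lf (nat_lit 0) (nat_lit 16149329481) (nat_lit 152) (nat_lit 11399725748) (nat_lit 0) (nat_lit 11603490665) (nat_lit 11) (nat_lit 5) (nat_lit 13) (nat_lit 4) (nat_lit 11) (nat_lit 4) (nat_lit 374) (nat_lit 271) (nat_lit 255))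 (XT.nd (nat_lit 78) (nat_lit 0) (nat_lit 0) (XT.lf (nat_lit 0) (nat_lit 2800464541) (nat_lit 76) (nat_lit 21403937932) (nat_lit 76) (nat_lit 16675097031) (nat_lit 10) (nat_lit 4) (nat_lit 11) (nat_lit 5) (nat_lit 11) (nat_lit 4) (nat_lit 375) (nat_lit 271) (nat_lit 254)) (XT.lf (nat_lit 0) (nat_lit 17611460103) (nat_lit 76) (nat_lit 14993107019) (nat_lit 76) (nat_lit 10089978419) (nat_lit 10) (nat_lit 4) (nat_lit 11) (nat_lit 5) (nat_lit 11) (nat_lit 4) (nat_lit 376) (nat_lit 271) (nat_lit 253)))) (XT.nd (nat_lit 78) (nat_lit 152) (nat_lit 0) (XT.lf (nat_lit 0) (nat_lit 32841648318) (nat_lit 76) (nat_lit 8416413486) (nat_lit 76) (nat_lit 3347296601) (nat_lit 10) (nat_lit 4) (nat_lit 11) (nat_lit 5) (nat_lit 11) (nat_lit 4) (nat_lit 377) (nat_lit 271) (nat_lit 252)) (XT.nd (nat_lit 78) (nat_lit 0) (nat_lit 0) (XT.lf (nat_lit 0) (nat_lit 1913842412) (nat_lit 76) (nat_lit 1603912946) (nat_lit 152)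 (nat_lit 43097151157) (nat_lit 8) (nat_lit 5) (nat_lit 9) (nat_lit 5) (nat_lit 10) (nat_lit 4) (nat_lit 378) (nat_lit 271) (nat_lit 251)) (XT.lf (nat_lit 0) (nat_lit 10676143522) (nat_lit 152) (nat_lit 32592207427) (nat_lit 0) (nat_lit 5455019995) (nat_lit 8) (nat_lit 5) (nat_lit 10) (nat_lit 4) (nat_lit 8) (nat_lit 4) (nat_lit 379) (nat_lit 271) (nat_lit 250)))))) (XT.nd (nat_lit 468) (nat_lit 152) (nat_lit 0) (XT.nd (nat_lit 234) (nat_lit 0) (nat_lit 0) (XT.nd (nat_lit 78) (nat_lit 76) (nat_lit 0) (XT.lf (nat_lit 0) (nat_lit 18059143479) (nat_lit 152) (nat_lit 20183316888) (nat_lit 0) (nat_lit 12698809348) (nat_lit 8) (nat_lit 5) (nat_lit 10) (nat_lit 4) (nat_lit 8) (nat_lit 4) (nat_lit 380) (nat_lit 271) (nat_lit 249)) (XT.nd (nat_lit 78) (nat_lit 76) (nat_lit 0) (XT.lf (nat_lit 0) (nat_lit 25668916006) (nat_lit 152) (nat_lit 7429429717) (nat_lit 0) (nat_lit 20176000348) (nat_lit 8) (nat_lit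 5) (nat_lit 10) (nat_lit 4) (nat_lit 8) (nat_lit 4) (nat_lit 381) (nat_lit 271) (nat_lit 248)) (XT.lf (nat_lit 0) (nat_lit 5813258088) (nat_lit 76) (nat_lit 27766202115) (nat_lit 76) (nat_lit 22147018336) (nat_lit 7) (nat_lit 4) (nat_lit 8) (nat_lit 5) (nat_lit 8) (nat_lit 4) (nat_lit 382) (nat_lit 271) (nat_lit 247)))) (XT.nd (nat_lit 78) (nat_lit 0) (nat_lit 0) (XT.lf (nat_lit 0) (nat_lit 19618521860) (nat_lit 76) (nat_lit 22211899245) (nat_lit 76) (nat_lit 16472460113) (nat_lit 7) (nat_lit 4) (nat_lit 8) (nat_lit 5) (nat_lit 8) (nat_lit 4) (nat_lit 383) (nat_lit 271) (nat_lit 246)) (XT.nd (nat_lit 78) (nat_lit 0) (nat_lit 0) (XT.lf (nat_lit 0) (nat_lit 33871371057) (nat_lit 76) (nat_lit 16497235254) (nat_lit 76) (nat_lit 10643267214) (nat_lit 7) (nat_lit 4) (nat_lit 8) (nat_lit 5) (nat_lit 8) (nat_lit 4) (nat_lit 384) (nat_lit 271) (nat_lit 245)) (XT.lf (nat_lit 0) (nat_lit 48605741033) (nat_lit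 76) (nat_lit 10608603801) (nat_lit 76) (nat_lit 4645560610) (nat_lit 7) (nat_lit 4) (nat_lit 8) (nat_lit 5) (nat_lit 8) (nat_lit 4) (nat_lit 385) (nat_lit 271) (nat_lit 244))))) (XT.nd (nat_lit 234) (nat_lit 0) (nat_lit 0) (XT.nd (nat_lit 78) (nat_lit 76) (nat_lit 0) (XT.lf (nat_lit 0) (nat_lit 1504987745) (nat_lit 152) (nat_lit 3011799162) (nat_lit 76) (nat_lit 62336528450) (nat_lit 6) (nat_lit 5) (nat_lit 8) (nat_lit 5) (nat_lit 7) (nat_lit 4) (nat_lit 386) (nat_lit 271) (nat_lit 243)) (XT.nd (nat_lit 78) (nat_lit 0) (nat_lit 0) (XT.lf (nat_lit 0) (nat_lit 7870977881) (nat_lit 152) (nat_lit 60239219136) (nat_lit 0) (nat_lit 1884707334) (nat_lit 5) (nat_lit 5) (nat_lit 7) (nat_lit 4) (nat_lit 5) (nat_lit 4) (nat_lit 387) (nat_lit 271) (nat_lit 242)) (XT.lf (nat_lit 0) (nat_lit 14525098928) (nat_lit 152) (nat_lit 50322037207) (nat_lit 0) (nat_lit 8447349531) (nat_lit 5) (nat_lit 5) (nat_lit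 7) (nat_lit 4) (nat_lit 5) (nat_lit 4) (nat_lit 388) (nat_lit 271) (nat_lit 241)))) (XT.nd (nat_lit 78) (nat_lit 0) (nat_lit 0) (XT.lf (nat_lit 0) (nat_lit 21409956121) (nat_lit 152) (nat_lit 40107072456) (nat_lit 0) (nat_lit 15245084009) (nat_lit 5) (nat_lit 5) (nat_lit 7) (nat_lit 4) (nat_lit 5) (nat_lit 4) (nat_lit 389) (nat_lit 271) (nat_lit 240)) (XT.nd (nat_lit 78) (nat_lit 0) (nat_lit 0) (XT.lf (nat_lit 0) (nat_lit 28541941975) (nat_lit 152) (nat_lit 29570003541) (nat_lit 0) (nat_lit 22294095849) (nat_lit 5) (nat_lit 5) (nat_lit 7) (nat_lit 4) (nat_lit 5) (nat_lit 4) (nat_lit 390) (nat_lit 271) (nat_lit 239)) (XT.lf (nat_lit 0) (nat_lit 35938037410) (nat_lit 152) (nat_lit 18685742201) (nat_lit 0) (nat_lit 29611168413) (nat_lit 5) (nat_lit 5) (nat_lit 7) (nat_lit 4) (nat_lit 5) (nat_lit 4) (nat_lit 391) (nat_lit 271) (nat_lit 238))))))) (XT.nd (nat_lit 44616) (nat_lit 0) (nat_lit 532)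 (XT.nd (nat_lit 44148) (nat_lit 0) (nat_lit 1216) (XT.nd (nat_lit 234) (nat_lit 0) (nat_lit 0) (XT.nd (nat_lit 78) (nat_lit 76) (nat_lit 0) (XT.lf (nat_lit 0) (nat_lit 43615852177) (nat_lit 152) (nat_lit 7428373528) (nat_lit 0) (nat_lit 37213723303) (nat_lit 5) (nat_lit 5) (nat_lit 7) (nat_lit 4) (nat_lit 5) (nat_lit 4) (nat_lit 392) (nat_lit 271) (nat_lit 237)) (XT.nd (nat_lit 78) (nat_lit 0) (nat_lit 0) (XT.lf (nat_lit 0) (nat_lit 4313069251) (nat_lit 76) (nat_lit 47322057395) (nat_lit 76) (nat_lit 40848252448) (nat_lit 4) (nat_lit 4) (nat_lit 5) (nat_lit 5) (nat_lit 5) (nat_lit 4) (nat_lit 393) (nat_lit 271) (nat_lit 236)) (XT.lf (nat_lit 0) (nat_lit 16638528641) (nat_lit 76) (nat_lit 43411887110) (nat_lit 76) (nat_lit 36869819237) (nat_lit 4) (nat_lit 4) (nat_lit 5) (nat_lit 5) (nat_lit 5) (nat_lit 4) (nat_lit 394) (nat_lit 271) (nat_lit 235)))) (XT.nd (nat_lit 78) (nat_lit 0) (nat_lit 0)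 (XT.lf (nat_lit 0) (nat_lit 29429511773) (nat_lit 76) (nat_lit 39379416930) (nat_lit 76) (nat_lit 32772336746) (nat_lit 4) (nat_lit 4) (nat_lit 5) (nat_lit 5) (nat_lit 5) (nat_lit 4) (nat_lit 395) (nat_lit 271) (nat_lit 234)) (XT.nd (nat_lit 43758) (nat_lit 0) (nat_lit 1824) (XT.lf (nat_lit 0) (nat_lit 42716473369) (nat_lit 76) (nat_lit 35215045734) (nat_lit 76) (nat_lit 28546049064) (nat_lit 4) (nat_lit 4) (nat_lit 5) (nat_lit 5) (nat_lit 5) (nat_lit 4) (nat_lit 396) (nat_lit 271) (nat_lit 233)) (XT.lf (nat_lit 0) (nat_lit 7265702157) (nat_lit 152) (nat_lit 1207348071) (nat_lit 152) (nat_lit 1207348071) (nat_lit 28) (nat_lit 4) (nat_lit 30) (nat_lit 5) (nat_lit 30) (nat_lit 4) (nat_lit 356) (nat_lit 272) (nat_lit 272))))) (XT.nd (nat_lit 234) (nat_lit 228) (nat_lit 0) (XT.nd (nat_lit 78) (nat_lit 228) (nat_lit 0) (XT.lf (nat_lit 0) (nat_lit 6404837093) (nat_lit 152) (nat_lit 7722847286) (nat_lit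 0) (nat_lit 5918586389) (nat_lit 26) (nat_lit 5) (nat_lit 28) (nat_lit 4) (nat_lit 26) (nat_lit 4) (nat_lit 357) (nat_lit 272) (nat_lit 271)) (XT.nd (nat_lit 78) (nat_lit 152) (nat_lit 0) (XT.lf (nat_lit 0) (nat_lit 9243083526) (nat_lit 76) (nat_lit 6237819590) (nat_lit 76) (nat_lit 5288472976) (nat_lit 25) (nat_lit 4) (nat_lit 26) (nat_lit 5) (nat_lit 26) (nat_lit 4) (nat_lit 358) (nat_lit 272) (nat_lit 270)) (XT.lf (nat_lit 0) (nat_lit 3271104081) (nat_lit 152) (nat_lit 16339646936) (nat_lit 0) (nat_lit 1921210550) (nat_lit 23) (nat_lit 5) (nat_lit 25) (nat_lit 4) (nat_lit 23) (nat_lit 4) (nat_lit 359) (nat_lit 272) (nat_lit 269)))) (XT.nd (nat_lit 78) (nat_lit 152) (nat_lit 0) (XT.lf (nat_lit 0) (nat_lit 2535762) (nat_lit 76) (nat_lit 12044683752) (nat_lit 76) (nat_lit 10286982802) (nat_lit 22) (nat_lit 4) (nat_lit 23) (nat_lit 5) (nat_lit 23) (nat_lit 4) (nat_lit 360) (nat_lit 272) (nat_lit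 268)) (XT.nd (nat_lit 78) (nat_lit 152) (nat_lit 0) (XT.lf (nat_lit 0) (nat_lit 16980114737) (nat_lit 76) (nat_lit 4172917876) (nat_lit 76) (nat_lit 2026828909) (nat_lit 22) (nat_lit 4) (nat_lit 23) (nat_lit 5) (nat_lit 23) (nat_lit 4) (nat_lit 361) (nat_lit 272) (nat_lit 267)) (XT.lf (nat_lit 0) (nat_lit 6388288566) (nat_lit 152) (nat_lit 13735892356) (nat_lit 0) (nat_lit 3945587287) (nat_lit 20) (nat_lit 5) (nat_lit 22) (nat_lit 4) (nat_lit 20) (nat_lit 4) (nat_lit 362) (nat_lit 272) (nat_lit 266)))))) (XT.nd (nat_lit 468) (nat_lit 304) (nat_lit 0) (XT.nd (nat_lit 234) (nat_lit 152) (nat_lit 0) (XT.nd (nat_lit 78) (nat_lit 152) (nat_lit 0) (XT.lf (nat_lit 0) (nat_lit 2308589913) (nat_lit 76) (nat_lit 12741840996) (nat_lit 76) (nat_lit 9957120901) (nat_lit 19) (nat_lit 4) (nat_lit 20) (nat_lit 5) (nat_lit 20) (nat_lit 4) (nat_lit 363) (nat_lit 272) (nat_lit 265)) (XT.nd (nat_lit 78) (nat_lit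 152) (nat_lit 0) (XT.lf (nat_lit 0) (nat_lit 18961785394) (nat_lit 76) (nat_lit 5072136044) (nat_lit 76) (nat_lit 1961683743) (nat_lit 19) (nat_lit 4) (nat_lit 20) (nat_lit 5) (nat_lit 20) (nat_lit 4) (nat_lit 364) (nat_lit 272) (nat_lit 264)) (XT.lf (nat_lit 0) (nat_lit 6179652583) (nat_lit 152) (nat_lit 17996818619) (nat_lit 0) (nat_lit 2858610399) (nat_lit 17) (nat_lit 5) (nat_lit 19) (nat_lit 4) (nat_lit 17) (nat_lit 4) (nat_lit 365) (nat_lit 272) (nat_lit 263)))) (XT.nd (nat_lit 78) (nat_lit 152) (nat_lit 0) (XT.lf (nat_lit 0) (nat_lit 14573893915) (nat_lit 152) (nat_lit 2589479167) (nat_lit 0) (nat_lit 10966008319) (nat_lit 17) (nat_lit 5) (nat_lit 19) (nat_lit 4) (nat_lit 17) (nat_lit 4) (nat_lit 366) (nat_lit 272) (nat_lit 262)) (XT.nd (nat_lit 78) (nat_lit 76) (nat_lit 0) (XT.lf (nat_lit 0) (nat_lit 13417338699) (nat_lit 76) (nat_lit 9872544769) (nat_lit 76) (nat_lit 5991474973) (nat_lit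 16) (nat_lit 4) (nat_lit 17) (nat_lit 5) (nat_lit 17) (nat_lit 4) (nat_lit 367) (nat_lit 272) (nat_lit 261)) (XT.lf (nat_lit 0) (nat_lit 1717217741) (nat_lit 152) (nat_lit 655293210) (nat_lit 76) (nat_lit 28123746041) (nat_lit 15) (nat_lit 5) (nat_lit 17) (nat_lit 5) (nat_lit 16) (nat_lit 4) (nat_lit 368) (nat_lit 272) (nat_lit 260))))) (XT.nd (nat_lit 234) (nat_lit 152) (nat_lit 0) (XT.nd (nat_lit 78) (nat_lit 76) (nat_lit 0) (XT.lf (nat_lit 0) (nat_lit 9675456669) (nat_lit 152) (nat_lit 16680782786) (nat_lit 0) (nat_lit 5414261185) (nat_lit 14) (nat_lit 5) (nat_lit 16) (nat_lit 4) (nat_lit 14) (nat_lit 4) (nat_lit 369) (nat_lit 272) (nat_lit 259)) (XT.nd (nat_lit 78) (nat_lit 76) (nat_lit 0) (XT.lf (nat_lit 0) (nat_lit 17855086795) (nat_lit 152) (nat_lit 1893906937) (nat_lit 0) (nat_lit 13364777929) (nat_lit 14) (nat_lit 5) (nat_lit 16) (nat_lit 4) (nat_lit 14) (nat_lit 4) (nat_lit 370) (nat_lit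 272) (nat_lit 258)) (XT.lf (nat_lit 0) (nat_lit 13517698456) (nat_lit 76) (nat_lit 12858531283) (nat_lit 76) (nat_lit 8150019195) (nat_lit 13) (nat_lit 4) (nat_lit 14) (nat_lit 5) (nat_lit 14) (nat_lit 4) (nat_lit 371) (nat_lit 272) (nat_lit 257)))) (XT.nd (nat_lit 78) (nat_lit 152) (nat_lit 0) (XT.lf (nat_lit 0) (nat_lit 29371914538) (nat_lit 76) (nat_lit 5779469666) (nat_lit 76) (nat_lit 863144986) (nat_lit 13) (nat_lit 4) (nat_lit 14) (nat_lit 5) (nat_lit 14) (nat_lit 4) (nat_lit 372) (nat_lit 272) (nat_lit 256)) (XT.nd (nat_lit 78) (nat_lit 0) (nat_lit 0) (XT.lf (nat_lit 0) (nat_lit 6565713589) (nat_lit 152) (nat_lit 29411835093) (nat_lit 0) (nat_lit 1600430643) (nat_lit 11) (nat_lit 5) (nat_lit 13) (nat_lit 4) (nat_lit 11) (nat_lit 4) (nat_lit 373) (nat_lit 272) (nat_lit 255)) (XT.lf (nat_lit 0) (nat_lit 14295363341) (nat_lit 152) (nat_lit 15778503585) (nat_lit 0) (nat_lit 9147078311) (nat_lit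 11) (nat_lit 5) (nat_lit 13) (nat_lit 4) (nat_lit 11) (nat_lit 4) (nat_lit 374) (nat_lit 272) (nat_lit 254))))))))
noncomputable def xc9 : XT := (XT.nd (nat_lit 45318) (nat_lit 0) (nat_lit 456) (XT.nd (nat_lit 858) (nat_lit 228) (nat_lit 0) (XT.nd (nat_lit 390) (nat_lit 76) (nat_lit 0) (XT.nd (nat_lit 156) (nat_lit 152) (nat_lit 0) (XT.nd (nat_lit 78) (nat_lit 76) (nat_lit 0) (XT.lf (nat_lit 0) (nat_lit 22239727006) (nat_lit 152) (nat_lit 1794346106) (nat_lit 0) (nat_lit 16917154277) (nat_lit 11) (nat_lit 5) (nat_lit 13) (nat_lit 4) (nat_lit 11) (nat_lit 4) (nat_lit 375) (nat_lit 272) (nat_lit 253)) (XT.lf (nat_lit 0) (nat_lit 12824178876) (nat_lit 76) (nat_lit 17716814711) (nat_lit 76) (nat_lit 12228253697) (nat_lit 10) (nat_lit 4) (nat_lit 11) (nat_lit 5) (nat_lit 11) (nat_lit 4) (nat_lit 376) (nat_lit 272) (nat_lit 252))) (XT.nd (nat_lit 78) (nat_lit 152) (nat_lit 0) (XT.lf (nat_lit 0) (nat_lit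 27905072259) (nat_lit 76) (nat_lit 11211981306) (nat_lit 76) (nat_lit 5565336211) (nat_lit 10) (nat_lit 4) (nat_lit 11) (nat_lit 5) (nat_lit 11) (nat_lit 4) (nat_lit 377) (nat_lit 272) (nat_lit 251)) (XT.nd (nat_lit 78) (nat_lit 76) (nat_lit 0) (XT.lf (nat_lit 0) (nat_lit 1250117007) (nat_lit 152) (nat_lit 3259463838) (nat_lit 76) (nat_lit 42185789187) (nat_lit 9) (nat_lit 5) (nat_lit 11) (nat_lit 5) (nat_lit 10) (nat_lit 4) (nat_lit 378) (nat_lit 272) (nat_lit 250)) (XT.lf (nat_lit 0) (nat_lit 8275377171) (nat_lit 152) (nat_lit 38024641201) (nat_lit 0) (nat_lit 2507815730) (nat_lit 8) (nat_lit 5) (nat_lit 10) (nat_lit 4) (nat_lit 8) (nat_lit 4) (nat_lit 379) (nat_lit 272) (nat_lit 249))))) (XT.nd (nat_lit 234) (nat_lit 76) (nat_lit 0) (XT.nd (nat_lit 78) (nat_lit 0) (nat_lit 0) (XT.lf (nat_lit 0) (nat_lit 15588924724) (nat_lit 152) (nat_lit 25750115489) (nat_lit 0) (nat_lit 9688781756) (nat_lit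 8) (nat_lit 5) (nat_lit 10) (nat_lit 4) (nat_lit 8) (nat_lit 4) (nat_lit 380) (nat_lit 272) (nat_lit 248)) (XT.nd (nat_lit 78) (nat_lit 0) (nat_lit 0) (XT.lf (nat_lit 0) (nat_lit 23132552105) (nat_lit 152) (nat_lit 13124194819) (nat_lit 0) (nat_lit 17106141016) (nat_lit 8) (nat_lit 5) (nat_lit 10) (nat_lit 4) (nat_lit 8) (nat_lit 4) (nat_lit 381) (nat_lit 272) (nat_lit 247)) (XT.lf (nat_lit 0) (nat_lit 30924220332) (nat_lit 152) (nat_lit 116817475) (nat_lit 0) (nat_lit 24777553890) (nat_lit 8) (nat_lit 5) (nat_lit 10) (nat_lit 4) (nat_lit 8) (nat_lit 4) (nat_lit 382) (nat_lit 272) (nat_lit 246)))) (XT.nd (nat_lit 78) (nat_lit 0) (nat_lit 0) (XT.lf (nat_lit 0) (nat_lit 13567742002) (nat_lit 76) (nat_lit 25545160430) (nat_lit 76) (nat_lit 19283965080) (nat_lit 7) (nat_lit 4) (nat_lit 8) (nat_lit 5) (nat_lit 8) (nat_lit 4) (nat_lit 383) (nat_lit 272) (nat_lit 245)) (XT.nd (nat_lit 78) (nat_lit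 0) (nat_lit 0) (XT.lf (nat_lit 0) (nat_lit 27707848915) (nat_lit 76) (nat_lit 19885016311) (nat_lit 76) (nat_lit 13514745811) (nat_lit 7) (nat_lit 4) (nat_lit 8) (nat_lit 5) (nat_lit 8) (nat_lit 4) (nat_lit 384) (nat_lit 272) (nat_lit 244)) (XT.lf (nat_lit 0) (nat_lit 42334845288) (nat_lit 76) (nat_lit 14048308545) (nat_lit 76) (nat_lit 7574156949) (nat_lit 7) (nat_lit 4) (nat_lit 8) (nat_lit 5) (nat_lit 8) (nat_lit 4) (nat_lit 385) (nat_lit 272) (nat_lit 243)))))) (XT.nd (nat_lit 468) (nat_lit 76) (nat_lit 0) (XT.nd (nat_lit 234) (nat_lit 0) (nat_lit 0) (XT.nd (nat_lit 78) (nat_lit 152) (nat_lit 0) (XT.lf (nat_lit 0) (nat_lit 57483557302) (nat_lit 76) (nat_lit 8021140208) (nat_lit 76) (nat_lit 1448054235) (nat_lit 7) (nat_lit 4) (nat_lit 8) (nat_lit 5) (nat_lit 8) (nat_lit 4) (nat_lit 386) (nat_lit 272) (nat_lit 242)) (XT.nd (nat_lit 78) (nat_lit 0) (nat_lit 0) (XT.lf (nat_lit 0) (nat_lit 3102639312)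 (nat_lit 76) (nat_lit 1710143200) (nat_lit 152) (nat_lit 65285981929) (nat_lit 5) (nat_lit 5) (nat_lit 6) (nat_lit 5) (nat_lit 7) (nat_lit 4) (nat_lit 387) (nat_lit 272) (nat_lit 241)) (XT.lf (nat_lit 0) (nat_lit 11400723199) (nat_lit 152) (nat_lit 57159126831) (nat_lit 0) (nat_lit 4840484767) (nat_lit 5) (nat_lit 5) (nat_lit 7) (nat_lit 4) (nat_lit 5) (nat_lit 4) (nat_lit 388) (nat_lit 272) (nat_lit 240)))) (XT.nd (nat_lit 78) (nat_lit 0) (nat_lit 0) (XT.lf (nat_lit 0) (nat_lit 18238207612) (nat_lit 152) (nat_lit 47036183579) (nat_lit 0) (nat_lit 11594995166) (nat_lit 5) (nat_lit 5) (nat_lit 7) (nat_lit 4) (nat_lit 5) (nat_lit 4) (nat_lit 389) (nat_lit 272) (nat_lit 239)) (XT.nd (nat_lit 78) (nat_lit 0) (nat_lit 0) (XT.lf (nat_lit 0) (nat_lit 25325076534) (nat_lit 152) (nat_lit 36586754186) (nat_lit 0) (nat_lit 18602841217) (nat_lit 5) (nat_lit 5) (nat_lit 7) (nat_lit 4) (nat_lit 5) (nat_lit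 4) (nat_lit 390) (nat_lit 272) (nat_lit 238)) (XT.lf (nat_lit 0) (nat_lit 32678203462) (nat_lit 152) (nat_lit 25785959058) (nat_lit 0) (nat_lit 25880708268) (nat_lit 5) (nat_lit 5) (nat_lit 7) (nat_lit 4) (nat_lit 5) (nat_lit 4) (nat_lit 391) (nat_lit 272) (nat_lit 237))))) (XT.nd (nat_lit 234) (nat_lit 0) (nat_lit 0) (XT.nd (nat_lit 78) (nat_lit 76) (nat_lit 0) (XT.lf (nat_lit 0) (nat_lit 40315095840) (nat_lit 152) (nat_lit 14608082015) (nat_lit 0) (nat_lit 33445924574) (nat_lit 5) (nat_lit 5) (nat_lit 7) (nat_lit 4) (nat_lit 5) (nat_lit 4) (nat_lit 392) (nat_lit 272) (nat_lit 236)) (XT.nd (nat_lit 78) (nat_lit 76) (nat_lit 0) (XT.lf (nat_lit 0) (nat_lit 48253936747) (nat_lit 152) (nat_lit 3026509066) (nat_lit 0) (nat_lit 41316502554) (nat_lit 5) (nat_lit 5) (nat_lit 7) (nat_lit 4) (nat_lit 5) (nat_lit 4) (nat_lit 393) (nat_lit 272) (nat_lit 235)) (XT.lf (nat_lit 0) (nat_lit 9165180650) (nat_lit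 76) (nat_lit 47436548858) (nat_lit 76) (nat_lit 40434102353) (nat_lit 4) (nat_lit 4) (nat_lit 5) (nat_lit 5) (nat_lit 5) (nat_lit 4) (nat_lit 394) (nat_lit 272) (nat_lit 234)))) (XT.nd (nat_lit 78) (nat_lit 0) (nat_lit 0) (XT.lf (nat_lit 0) (nat_lit 21886129297) (nat_lit 76) (nat_lit 43438089650) (nat_lit 76) (nat_lit 36373726659) (nat_lit 4) (nat_lit 4) (nat_lit 5) (nat_lit 5) (nat_lit 5) (nat_lit 4) (nat_lit 395) (nat_lit 272) (nat_lit 233)) (XT.nd (nat_lit 43602) (nat_lit 0) (nat_lit 2128) (XT.lf (nat_lit 0) (nat_lit 35106391385) (nat_lit 76) (nat_lit 39306109857) (nat_lit 76) (nat_lit 32182778783) (nat_lit 4) (nat_lit 4) (nat_lit 5) (nat_lit 5) (nat_lit 5) (nat_lit 4) (nat_lit 396) (nat_lit 272) (nat_lit 232)) (XT.lf (nat_lit 0) (nat_lit 8414559252) (nat_lit 152) (nat_lit 314690499) (nat_lit 152) (nat_lit 314690499) (nat_lit 32) (nat_lit 4) (nat_lit 34) (nat_lit 5) (nat_lit 34) (nat_lit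 4) (nat_lit 354) (nat_lit 273) (nat_lit 273))))))) (XT.nd (nat_lit 936) (nat_lit 532) (nat_lit 0) (XT.nd (nat_lit 468) (nat_lit 456) (nat_lit 0) (XT.nd (nat_lit 234) (nat_lit 228) (nat_lit 0) (XT.nd (nat_lit 78) (nat_lit 304) (nat_lit 0) (XT.lf (nat_lit 0) (nat_lit 8203358734) (nat_lit 152) (nat_lit 2828164624) (nat_lit 0) (nat_lit 7677478597) (nat_lit 30) (nat_lit 5) (nat_lit 32) (nat_lit 4) (nat_lit 30) (nat_lit 4) (nat_lit 355) (nat_lit 273) (nat_lit 272)) (XT.nd (nat_lit 78) (nat_lit 152) (nat_lit 0) (XT.lf (nat_lit 0) (nat_lit 14257242292) (nat_lit 152) (nat_lit 3067357481) (nat_lit 152) (nat_lit 2040639118) (nat_lit 28) (nat_lit 4) (nat_lit 30) (nat_lit 5) (nat_lit 30) (nat_lit 4) (nat_lit 356) (nat_lit 273) (nat_lit 271)) (XT.lf (nat_lit 0) (nat_lit 6617003008) (nat_lit 152) (nat_lit 8281166081) (nat_lit 0) (nat_lit 5157093154) (nat_lit 26) (nat_lit 5) (nat_lit 28) (nat_lit 4) (nat_lit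 26) (nat_lit 4) (nat_lit 357) (nat_lit 273) (nat_lit 270)))) (XT.nd (nat_lit 78) (nat_lit 152) (nat_lit 0) (XT.lf (nat_lit 0) (nat_lit 8409109337) (nat_lit 76) (nat_lit 7137314767) (nat_lit 76) (nat_lit 5236361190) (nat_lit 25) (nat_lit 4) (nat_lit 26) (nat_lit 5) (nat_lit 26) (nat_lit 4) (nat_lit 358) (nat_lit 273) (nat_lit 269)) (XT.nd (nat_lit 78) (nat_lit 0) (nat_lit 0) (XT.lf (nat_lit 0) (nat_lit 3165701347) (nat_lit 152) (nat_lit 17472058381) (nat_lit 0) (nat_lit 912307932) (nat_lit 23) (nat_lit 5) (nat_lit 25) (nat_lit 4) (nat_lit 23) (nat_lit 4) (nat_lit 359) (nat_lit 273) (nat_lit 268)) (XT.lf (nat_lit 0) (nat_lit 11808972217) (nat_lit 152) (nat_lit 1380146929) (nat_lit 0) (nat_lit 9167190784) (nat_lit 23) (nat_lit 5) (nat_lit 25) (nat_lit 4) (nat_lit 23) (nat_lit 4) (nat_lit 360) (nat_lit 273) (nat_lit 267))))) (XT.nd (nat_lit 234) (nat_lit 152) (nat_lit 0) (XT.nd (nat_lit 78) (nat_lit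 228) (nat_lit 0) (XT.lf (nat_lit 0) (nat_lit 15326915205) (nat_lit 76) (nat_lit 5445507501) (nat_lit 76) (nat_lit 2433832718) (nat_lit 22) (nat_lit 4) (nat_lit 23) (nat_lit 5) (nat_lit 23) (nat_lit 4) (nat_lit 361) (nat_lit 273) (nat_lit 266)) (XT.nd (nat_lit 78) (nat_lit 76) (nat_lit 0) (XT.lf (nat_lit 0) (nat_lit 5833064123) (nat_lit 152) (nat_lit 15700825287) (nat_lit 0) (nat_lit 2567089207) (nat_lit 20) (nat_lit 5) (nat_lit 22) (nat_lit 4) (nat_lit 20) (nat_lit 4) (nat_lit 362) (nat_lit 273) (nat_lit 265)) (XT.lf (nat_lit 0) (nat_lit 70136012) (nat_lit 76) (nat_lit 14282314785) (nat_lit 76) (nat_lit 10690607663) (nat_lit 19) (nat_lit 4) (nat_lit 20) (nat_lit 5) (nat_lit 20) (nat_lit 4) (nat_lit 363) (nat_lit 273) (nat_lit 264)))) (XT.nd (nat_lit 78) (nat_lit 152) (nat_lit 0) (XT.lf (nat_lit 0) (nat_lit 16500079158) (nat_lit 76) (nat_lit 6718251101) (nat_lit 76) (nat_lit 2816322830) (nat_lit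 19) (nat_lit 4) (nat_lit 20) (nat_lit 5) (nat_lit 20) (nat_lit 4) (nat_lit 364) (nat_lit 273) (nat_lit 263)) (XT.nd (nat_lit 78) (nat_lit 0) (nat_lit 0) (XT.lf (nat_lit 0) (nat_lit 5184869865) (nat_lit 152) (nat_lit 20784476098) (nat_lit 0) (nat_lit 1109746579) (nat_lit 17) (nat_lit 5) (nat_lit 19) (nat_lit 4) (nat_lit 17) (nat_lit 4) (nat_lit 365) (nat_lit 273) (nat_lit 262)) (XT.lf (nat_lit 0) (nat_lit 13468408995) (nat_lit 152) (nat_lit 5588214287) (nat_lit 0) (nat_lit 9120101508) (nat_lit 17) (nat_lit 5) (nat_lit 19) (nat_lit 4) (nat_lit 17) (nat_lit 4) (nat_lit 366) (nat_lit 273) (nat_lit 261)))))) (XT.nd (nat_lit 468) (nat_lit 228) (nat_lit 0) (XT.nd (nat_lit 234) (nat_lit 76) (nat_lit 0) (XT.nd (nat_lit 78) (nat_lit 152) (nat_lit 0) (XT.lf (nat_lit 0) (nat_lit 10153895727) (nat_lit 76) (nat_lit 11893701943) (nat_lit 76) (nat_lit 7285219027) (nat_lit 16) (nat_lit 4) (nat_lit 17) (nat_lit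 5) (nat_lit 17) (nat_lit 4) (nat_lit 367) (nat_lit 273) (nat_lit 260)) (XT.nd (nat_lit 78) (nat_lit 76) (nat_lit 0) (XT.lf (nat_lit 0) (nat_lit 345409270) (nat_lit 152) (nat_lit 4155088220) (nat_lit 76) (nat_lit 26050700171) (nat_lit 15) (nat_lit 5) (nat_lit 17) (nat_lit 5) (nat_lit 16) (nat_lit 4) (nat_lit 368) (nat_lit 273) (nat_lit 259)) (XT.lf (nat_lit 0) (nat_lit 8147429288) (nat_lit 152) (nat_lit 20479216538) (nat_lit 0) (nat_lit 3203491595) (nat_lit 14) (nat_lit 5) (nat_lit 16) (nat_lit 4) (nat_lit 14) (nat_lit 4) (nat_lit 369) (nat_lit 273) (nat_lit 258)))) (XT.nd (nat_lit 78) (nat_lit 76) (nat_lit 0) (XT.lf (nat_lit 0) (nat_lit 16230762304) (nat_lit 152) (nat_lit 5876922755) (nat_lit 0) (nat_lit 11068621390) (nat_lit 14) (nat_lit 5) (nat_lit 16) (nat_lit 4) (nat_lit 14) (nat_lit 4) (nat_lit 370) (nat_lit 273) (nat_lit 257)) (XT.nd (nat_lit 78) (nat_lit 0) (nat_lit 0) (XT.lf (nat_lit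 0) (nat_lit 9276121757) (nat_lit 76) (nat_lit 15343299327) (nat_lit 76) (nat_lit 9973345821) (nat_lit 13) (nat_lit 4) (nat_lit 14) (nat_lit 5) (nat_lit 14) (nat_lit 4) (nat_lit 371) (nat_lit 273) (nat_lit 256)) (XT.lf (nat_lit 0) (nat_lit 24959584452) (nat_lit 76) (nat_lit 8346005393) (nat_lit 76) (nat_lit 2778135133) (nat_lit 13) (nat_lit 4) (nat_lit 14) (nat_lit 5) (nat_lit 14) (nat_lit 4) (nat_lit 372) (nat_lit 273) (nat_lit 255))))) (XT.nd (nat_lit 234) (nat_lit 76) (nat_lit 0) (XT.nd (nat_lit 78) (nat_lit 0) (nat_lit 0) (XT.lf (nat_lit 0) (nat_lit 3462758864) (nat_lit 76) (nat_lit 1078680185) (nat_lit 152) (nat_lit 33110695515) (nat_lit 11) (nat_lit 5) (nat_lit 12) (nat_lit 5) (nat_lit 13) (nat_lit 4) (nat_lit 373) (nat_lit 273) (nat_lit 254)) (XT.nd (nat_lit 78) (nat_lit 0) (nat_lit 0) (XT.lf (nat_lit 0) (nat_lit 12176930319) (nat_lit 152) (nat_lit 20707060918) (nat_lit 0) (nat_lit 6413941254)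 (nat_lit 11) (nat_lit 5) (nat_lit 13) (nat_lit 4) (nat_lit 11) (nat_lit 4) (nat_lit 374) (nat_lit 273) (nat_lit 253)) (XT.lf (nat_lit 0) (nat_lit 20041494414) (nat_lit 152) (nat_lit 6876604069) (nat_lit 0) (nat_lit 14112517064) (nat_lit 11) (nat_lit 5) (nat_lit 13) (nat_lit 4) (nat_lit 11) (nat_lit 4) (nat_lit 375) (nat_lit 273) (nat_lit 252)))) (XT.nd (nat_lit 78) (nat_lit 0) (nat_lit 0) (XT.lf (nat_lit 0) (nat_lit 7491479182) (nat_lit 76) (nat_lit 20724021050) (nat_lit 76) (nat_lit 14636959619) (nat_lit 10) (nat_lit 4) (nat_lit 11) (nat_lit 5) (nat_lit 11) (nat_lit 4) (nat_lit 376) (nat_lit 273) (nat_lit 251)) (XT.nd (nat_lit 78) (nat_lit 0) (nat_lit 0) (XT.lf (nat_lit 0) (nat_lit 22430187011) (nat_lit 76) (nat_lit 14287625862) (nat_lit 76) (nat_lit 8050008164) (nat_lit 10) (nat_lit 4) (nat_lit 11) (nat_lit 5) (nat_lit 11) (nat_lit 4) (nat_lit 377) (nat_lit 273) (nat_lit 250)) (XT.lf (nat_lit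 0) (nat_lit 37838229863) (nat_lit 76) (nat_lit 7663028386) (nat_lit 76) (nat_lit 1282023766) (nat_lit 10) (nat_lit 4) (nat_lit 11) (nat_lit 5) (nat_lit 11) (nat_lit 4) (nat_lit 378) (nat_lit 273) (nat_lit 249))))))))
noncomputable def xc10 : XT := (XT.nd (nat_lit 45162) (nat_lit 0) (nat_lit 304) (XT.nd (nat_lit 858) (nat_lit 76) (nat_lit 0) (XT.nd (nat_lit 390) (nat_lit 152) (nat_lit 0) (XT.nd (nat_lit 156) (nat_lit 76) (nat_lit 0) (XT.nd (nat_lit 78) (nat_lit 0) (nat_lit 0) (XT.lf (nat_lit 0) (nat_lit 4889432990) (nat_lit 76) (nat_lit 729777148) (nat_lit 152) (nat_lit 43281382473) (nat_lit 8) (nat_lit 5) (nat_lit 9) (nat_lit 5) (nat_lit 10) (nat_lit 4) (nat_lit 379) (nat_lit 273) (nat_lit 248)) (XT.lf (nat_lit 0) (nat_lit 12859597482) (nat_lit 152) (nat_lit 31857585347) (nat_lit 0) (nat_lit 6405597717) (nat_lit 8) (nat_lit 5) (nat_lit 10) (nat_lit 4) (nat_lit 8) (nat_lit 4) (nat_lit 380) (nat_lit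 273) (nat_lit 247))) (XT.nd (nat_lit 78) (nat_lit 76) (nat_lit 0) (XT.lf (nat_lit 0) (nat_lit 20340229486) (nat_lit 152) (nat_lit 19353537536) (nat_lit 0) (nat_lit 13765974368) (nat_lit 8) (nat_lit 5) (nat_lit 10) (nat_lit 4) (nat_lit 8) (nat_lit 4) (nat_lit 381) (nat_lit 273) (nat_lit 246)) (XT.nd (nat_lit 78) (nat_lit 76) (nat_lit 0) (XT.lf (nat_lit 0) (nat_lit 28071902116) (nat_lit 152) (nat_lit 6462229581) (nat_lit 0) (nat_lit 21383118091) (nat_lit 8) (nat_lit 5) (nat_lit 10) (nat_lit 4) (nat_lit 8) (nat_lit 4) (nat_lit 382) (nat_lit 273) (nat_lit 245)) (XT.lf (nat_lit 0) (nat_lit 6983301470) (nat_lit 76) (nat_lit 29156850412) (nat_lit 76) (nat_lit 22358991236) (nat_lit 7) (nat_lit 4) (nat_lit 8) (nat_lit 5) (nat_lit 8) (nat_lit 4) (nat_lit 383) (nat_lit 273) (nat_lit 244))))) (XT.nd (nat_lit 234) (nat_lit 152) (nat_lit 0) (XT.nd (nat_lit 78) (nat_lit 0) (nat_lit 0) (XT.lf (nat_lit 0) (nat_lit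 21016034780) (nat_lit 76) (nat_lit 23548629980) (nat_lit 76) (nat_lit 16646889708) (nat_lit 7) (nat_lit 4) (nat_lit 8) (nat_lit 5) (nat_lit 8) (nat_lit 4) (nat_lit 384) (nat_lit 273) (nat_lit 243)) (XT.nd (nat_lit 78) (nat_lit 0) (nat_lit 0) (XT.lf (nat_lit 0) (nat_lit 35540770578) (nat_lit 76) (nat_lit 17761373344) (nat_lit 76) (nat_lit 10760698695) (nat_lit 7) (nat_lit 4) (nat_lit 8) (nat_lit 5) (nat_lit 8) (nat_lit 4) (nat_lit 385) (nat_lit 273) (nat_lit 242)) (XT.lf (nat_lit 0) (nat_lit 50592091569) (nat_lit 76) (nat_lit 11781301321) (nat_lit 76) (nat_lit 4686403457) (nat_lit 7) (nat_lit 4) (nat_lit 8) (nat_lit 5) (nat_lit 8) (nat_lit 4) (nat_lit 386) (nat_lit 273) (nat_lit 241)))) (XT.nd (nat_lit 78) (nat_lit 76) (nat_lit 0) (XT.lf (nat_lit 0) (nat_lit 1559423037) (nat_lit 152) (nat_lit 4019005493) (nat_lit 76) (nat_lit 64630664077) (nat_lit 6) (nat_lit 5) (nat_lit 8) (nat_lit 5) (nat_lit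 7) (nat_lit 4) (nat_lit 387) (nat_lit 273) (nat_lit 240)) (XT.nd (nat_lit 78) (nat_lit 0) (nat_lit 0) (XT.lf (nat_lit 0) (nat_lit 8023014486) (nat_lit 152) (nat_lit 64526715008) (nat_lit 0) (nat_lit 964667404) (nat_lit 5) (nat_lit 5) (nat_lit 7) (nat_lit 4) (nat_lit 5) (nat_lit 4) (nat_lit 388) (nat_lit 273) (nat_lit 239)) (XT.lf (nat_lit 0) (nat_lit 14815381966) (nat_lit 152) (nat_lit 54491411279) (nat_lit 0) (nat_lit 7678012013) (nat_lit 5) (nat_lit 5) (nat_lit 7) (nat_lit 4) (nat_lit 5) (nat_lit 4) (nat_lit 389) (nat_lit 273) (nat_lit 238)))))) (XT.nd (nat_lit 468) (nat_lit 0) (nat_lit 0) (XT.nd (nat_lit 234) (nat_lit 76) (nat_lit 0) (XT.nd (nat_lit 78) (nat_lit 0) (nat_lit 0) (XT.lf (nat_lit 0) (nat_lit 21859282381) (nat_lit 152) (nat_lit 44125448098) (nat_lit 0) (nat_lit 14646652551) (nat_lit 5) (nat_lit 5) (nat_lit 7) (nat_lit 4) (nat_lit 5) (nat_lit 4) (nat_lit 390) (nat_lit 273) (nat_lit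 237)) (XT.nd (nat_lit 78) (nat_lit 0) (nat_lit 0) (XT.lf (nat_lit 0) (nat_lit 29171486920) (nat_lit 152) (nat_lit 33404144600) (nat_lit 0) (nat_lit 21887181018) (nat_lit 5) (nat_lit 5) (nat_lit 7) (nat_lit 4) (nat_lit 5) (nat_lit 4) (nat_lit 391) (nat_lit 273) (nat_lit 236)) (XT.lf (nat_lit 0) (nat_lit 36769405596) (nat_lit 152) (nat_lit 22301973872) (nat_lit 0) (nat_lit 29416836767) (nat_lit 5) (nat_lit 5) (nat_lit 7) (nat_lit 4) (nat_lit 5) (nat_lit 4) (nat_lit 392) (nat_lit 273) (nat_lit 235)))) (XT.nd (nat_lit 78) (nat_lit 76) (nat_lit 0) (XT.lf (nat_lit 0) (nat_lit 44671128691) (nat_lit 152) (nat_lit 10792502175) (nat_lit 0) (nat_lit 37253547550) (nat_lit 5) (nat_lit 5) (nat_lit 7) (nat_lit 4) (nat_lit 5) (nat_lit 4) (nat_lit 393) (nat_lit 273) (nat_lit 234)) (XT.nd (nat_lit 78) (nat_lit 0) (nat_lit 0) (XT.lf (nat_lit 0) (nat_lit 1174594566) (nat_lit 76) (nat_lit 51732166186) (nat_lit 76)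 (nat_lit 44252668559) (nat_lit 4) (nat_lit 4) (nat_lit 5) (nat_lit 5) (nat_lit 5) (nat_lit 4) (nat_lit 394) (nat_lit 273) (nat_lit 233)) (XT.lf (nat_lit 0) (nat_lit 13828843705) (nat_lit 76) (nat_lit 47766098381) (nat_lit 76) (nat_lit 40227632671) (nat_lit 4) (nat_lit 4) (nat_lit 5) (nat_lit 5) (nat_lit 5) (nat_lit 4) (nat_lit 395) (nat_lit 273) (nat_lit 232))))) (XT.nd (nat_lit 43602) (nat_lit 0) (nat_lit 1824) (XT.nd (nat_lit 43446) (nat_lit 0) (nat_lit 2280) (XT.lf (nat_lit 0) (nat_lit 26985582451) (nat_lit 76) (nat_lit 43664967542) (nat_lit 76) (nat_lit 36070341753) (nat_lit 4) (nat_lit 4) (nat_lit 5) (nat_lit 5) (nat_lit 5) (nat_lit 4) (nat_lit 396) (nat_lit 273) (nat_lit 231)) (XT.nd (nat_lit 78) (nat_lit 0) (nat_lit 0) (XT.lf (nat_lit 0) (nat_lit 10891777) (nat_lit 152) (nat_lit 8444289812) (nat_lit 0) (nat_lit 10891777) (nat_lit 34) (nat_lit 5) (nat_lit 36) (nat_lit 4) (nat_lit 34) (nat_lit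 4) (nat_lit 352) (nat_lit 274) (nat_lit 274)) (XT.lf (nat_lit 0) (nat_lit 8799772977) (nat_lit 152) (nat_lit 465255941) (nat_lit 0) (nat_lit 8231033609) (nat_lit 34) (nat_lit 5) (nat_lit 36) (nat_lit 4) (nat_lit 34) (nat_lit 4) (nat_lit 353) (nat_lit 274) (nat_lit 273)))) (XT.nd (nat_lit 78) (nat_lit 304) (nat_lit 0) (XT.lf (nat_lit 0) (nat_lit 16558589859) (nat_lit 152) (nat_lit 1322053493) (nat_lit 152) (nat_lit 211657583) (nat_lit 32) (nat_lit 4) (nat_lit 34) (nat_lit 5) (nat_lit 34) (nat_lit 4) (nat_lit 354) (nat_lit 274) (nat_lit 272)) (XT.nd (nat_lit 78) (nat_lit 152) (nat_lit 0) (XT.lf (nat_lit 0) (nat_lit 8458804794) (nat_lit 152) (nat_lit 3379229497) (nat_lit 0) (nat_lit 6879912287) (nat_lit 30) (nat_lit 5) (nat_lit 32) (nat_lit 4) (nat_lit 30) (nat_lit 4) (nat_lit 355) (nat_lit 274) (nat_lit 271)) (XT.lf (nat_lit 0) (nat_lit 13434103460) (nat_lit 152) (nat_lit 4000177090) (nat_lit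 152) (nat_lit 1944295797) (nat_lit 28) (nat_lit 4) (nat_lit 30) (nat_lit 5) (nat_lit 30) (nat_lit 4) (nat_lit 356) (nat_lit 274) (nat_lit 270))))))) (XT.nd (nat_lit 936) (nat_lit 608) (nat_lit 0) (XT.nd (nat_lit 468) (nat_lit 304) (nat_lit 0) (XT.nd (nat_lit 234) (nat_lit 228) (nat_lit 0) (XT.nd (nat_lit 78) (nat_lit 228) (nat_lit 0) (XT.lf (nat_lit 0) (nat_lit 6555589291) (nat_lit 152) (nat_lit 9399133002) (nat_lit 0) (nat_lit 4118544312) (nat_lit 26) (nat_lit 5) (nat_lit 28) (nat_lit 4) (nat_lit 26) (nat_lit 4) (nat_lit 357) (nat_lit 274) (nat_lit 269)) (XT.nd (nat_lit 78) (nat_lit 152) (nat_lit 0) (XT.lf (nat_lit 0) (nat_lit 7016946249) (nat_lit 76) (nat_lit 8322654901) (nat_lit 76) (nat_lit 5465568282) (nat_lit 25) (nat_lit 4) (nat_lit 26) (nat_lit 5) (nat_lit 26) (nat_lit 4) (nat_lit 358) (nat_lit 274) (nat_lit 268)) (XT.lf (nat_lit 0) (nat_lit 2399403336) (nat_lit 76) (nat_lit 387064453)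 (nat_lit 152) (nat_lit 18790701264) (nat_lit 23) (nat_lit 5) (nat_lit 24) (nat_lit 5) (nat_lit 25) (nat_lit 4) (nat_lit 359) (nat_lit 274) (nat_lit 267)))) (XT.nd (nat_lit 78) (nat_lit 228) (nat_lit 0) (XT.lf (nat_lit 0) (nat_lit 11299522540) (nat_lit 152) (nat_lit 3320440010) (nat_lit 0) (nat_lit 7767370668) (nat_lit 23) (nat_lit 5) (nat_lit 25) (nat_lit 4) (nat_lit 23) (nat_lit 4) (nat_lit 360) (nat_lit 274) (nat_lit 266)) (XT.nd (nat_lit 78) (nat_lit 152) (nat_lit 0) (XT.lf (nat_lit 0) (nat_lit 13116531050) (nat_lit 76) (nat_lit 7004722589) (nat_lit 76) (nat_lit 3120291336) (nat_lit 22) (nat_lit 4) (nat_lit 23) (nat_lit 5) (nat_lit 23) (nat_lit 4) (nat_lit 361) (nat_lit 274) (nat_lit 265)) (XT.lf (nat_lit 0) (nat_lit 5001539983) (nat_lit 152) (nat_lit 18235178242) (nat_lit 0) (nat_lit 904515298) (nat_lit 20) (nat_lit 5) (nat_lit 22) (nat_lit 4) (nat_lit 20) (nat_lit 4) (nat_lit 362) (nat_lit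 274) (nat_lit 264))))) (XT.nd (nat_lit 234) (nat_lit 76) (nat_lit 0) (XT.nd (nat_lit 78) (nat_lit 228) (nat_lit 0) (XT.lf (nat_lit 0) (nat_lit 13404787437) (nat_lit 152) (nat_lit 2684481427) (nat_lit 0) (nat_lit 8997541604) (nat_lit 20) (nat_lit 5) (nat_lit 22) (nat_lit 4) (nat_lit 20) (nat_lit 4) (nat_lit 363) (nat_lit 274) (nat_lit 263)) (XT.nd (nat_lit 78) (nat_lit 152) (nat_lit 0) (XT.lf (nat_lit 0) (nat_lit 13479414003) (nat_lit 76) (nat_lit 8652923911) (nat_lit 76) (nat_lit 3950229364) (nat_lit 19) (nat_lit 4) (nat_lit 20) (nat_lit 5) (nat_lit 20) (nat_lit 4) (nat_lit 364) (nat_lit 274) (nat_lit 262)) (XT.lf (nat_lit 0) (nat_lit 2978564214) (nat_lit 76) (nat_lit 943917799) (nat_lit 152) (nat_lit 23209381332) (nat_lit 17) (nat_lit 5) (nat_lit 18) (nat_lit 5) (nat_lit 19) (nat_lit 4) (nat_lit 365) (nat_lit 274) (nat_lit 261)))) (XT.nd (nat_lit 78) (nat_lit 76) (nat_lit 0) (XT.lf (nat_lit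 0) (nat_lit 12091516961) (nat_lit 152) (nat_lit 9148990129) (nat_lit 0) (nat_lit 6992434470) (nat_lit 17) (nat_lit 5) (nat_lit 19) (nat_lit 4) (nat_lit 17) (nat_lit 4) (nat_lit 366) (nat_lit 274) (nat_lit 260)) (XT.nd (nat_lit 78) (nat_lit 0) (nat_lit 0) (XT.lf (nat_lit 0) (nat_lit 6326989519) (nat_lit 76) (nat_lit 14206519393) (nat_lit 76) (nat_lit 8859650779) (nat_lit 16) (nat_lit 4) (nat_lit 17) (nat_lit 5) (nat_lit 17) (nat_lit 4) (nat_lit 367) (nat_lit 274) (nat_lit 259)) (XT.lf (nat_lit 0) (nat_lit 22386725526) (nat_lit 76) (nat_lit 6905352220) (nat_lit 76) (nat_lit 1322496822) (nat_lit 16) (nat_lit 4) (nat_lit 17) (nat_lit 5) (nat_lit 17) (nat_lit 4) (nat_lit 368) (nat_lit 274) (nat_lit 258)))))) (XT.nd (nat_lit 468) (nat_lit 228) (nat_lit 0) (XT.nd (nat_lit 234) (nat_lit 152) (nat_lit 0) (XT.nd (nat_lit 78) (nat_lit 76) (nat_lit 0) (XT.lf (nat_lit 0) (nat_lit 6345591462) (nat_lit 152)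 (nat_lit 24845965211) (nat_lit 0) (nat_lit 707140281) (nat_lit 14) (nat_lit 5) (nat_lit 16) (nat_lit 4) (nat_lit 14) (nat_lit 4) (nat_lit 369) (nat_lit 274) (nat_lit 257)) (XT.nd (nat_lit 78) (nat_lit 76) (nat_lit 0) (XT.lf (nat_lit 0) (nat_lit 14337212944) (nat_lit 152) (nat_lit 10419463870) (nat_lit 0) (nat_lit 8490949172) (nat_lit 14) (nat_lit 5) (nat_lit 16) (nat_lit 4) (nat_lit 14) (nat_lit 4) (nat_lit 370) (nat_lit 274) (nat_lit 256)) (XT.lf (nat_lit 0) (nat_lit 4472421779) (nat_lit 76) (nat_lit 18119929524) (nat_lit 76) (nat_lit 12075748998) (nat_lit 13) (nat_lit 4) (nat_lit 14) (nat_lit 5) (nat_lit 14) (nat_lit 4) (nat_lit 371) (nat_lit 274) (nat_lit 255)))) (XT.nd (nat_lit 78) (nat_lit 152) (nat_lit 0) (XT.lf (nat_lit 0) (nat_lit 19993262200) (nat_lit 76) (nat_lit 11200509575) (nat_lit 76) (nat_lit 4967836901) (nat_lit 13) (nat_lit 4) (nat_lit 14) (nat_lit 5) (nat_lit 14) (nat_lit 4)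 (nat_lit 372) (nat_lit 274) (nat_lit 254)) (XT.nd (nat_lit 78) (nat_lit 76) (nat_lit 0) (XT.lf (nat_lit 0) (nat_lit 2279660967) (nat_lit 152) (nat_lit 1784477238) (nat_lit 76) (nat_lit 33669962939) (nat_lit 12) (nat_lit 5) (nat_lit 14) (nat_lit 5) (nat_lit 13) (nat_lit 4) (nat_lit 373) (nat_lit 274) (nat_lit 253)) (XT.lf (nat_lit 0) (nat_lit 9788986527) (nat_lit 152) (nat_lit 26197132409) (nat_lit 0) (nat_lit 3397572025) (nat_lit 11) (nat_lit 5) (nat_lit 13) (nat_lit 4) (nat_lit 11) (nat_lit 4) (nat_lit 374) (nat_lit 274) (nat_lit 252))))) (XT.nd (nat_lit 234) (nat_lit 152) (nat_lit 0) (XT.nd (nat_lit 78) (nat_lit 76) (nat_lit 0) (XT.lf (nat_lit 0) (nat_lit 17577551031) (nat_lit 152) (nat_lit 12513057112) (nat_lit 0) (nat_lit 11028052448) (nat_lit 11) (nat_lit 5) (nat_lit 13) (nat_lit 4) (nat_lit 11) (nat_lit 4) (nat_lit 375) (nat_lit 274) (nat_lit 251)) (XT.nd (nat_lit 78) (nat_lit 0) (nat_lit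 0) (XT.lf (nat_lit 0) (nat_lit 1600664118) (nat_lit 76) (nat_lit 24021886051) (nat_lit 76) (nat_lit 17321831200) (nat_lit 10) (nat_lit 4) (nat_lit 11) (nat_lit 5) (nat_lit 11) (nat_lit 4) (nat_lit 376) (nat_lit 274) (nat_lit 250)) (XT.lf (nat_lit 0) (nat_lit 16403957133) (nat_lit 76) (nat_lit 17650670117) (nat_lit 76) (nat_lit 10807228345) (nat_lit 10) (nat_lit 4) (nat_lit 11) (nat_lit 5) (nat_lit 11) (nat_lit 4) (nat_lit 377) (nat_lit 274) (nat_lit 249)))) (XT.nd (nat_lit 78) (nat_lit 152) (nat_lit 0) (XT.lf (nat_lit 0) (nat_lit 31683033496) (nat_lit 76) (nat_lit 11088148121) (nat_lit 76) (nat_lit 4108147376) (nat_lit 10) (nat_lit 4) (nat_lit 11) (nat_lit 5) (nat_lit 11) (nat_lit 4) (nat_lit 378) (nat_lit 274) (nat_lit 248)) (XT.nd (nat_lit 78) (nat_lit 76) (nat_lit 0) (XT.lf (nat_lit 0) (nat_lit 2736892373) (nat_lit 152) (nat_lit 1554165391) (nat_lit 76) (nat_lit 44709742341) (nat_lit 9) (nat_lit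 5) (nat_lit 11) (nat_lit 5) (nat_lit 10) (nat_lit 4) (nat_lit 379) (nat_lit 274) (nat_lit 247)) (XT.lf (nat_lit 0) (nat_lit 9864663355) (nat_lit 152) (nat_lit 38520268058) (nat_lit 0) (nat_lit 2841440128) (nat_lit 8) (nat_lit 5) (nat_lit 10) (nat_lit 4) (nat_lit 8) (nat_lit 4) (nat_lit 380) (nat_lit 274) (nat_lit 246))))))))
noncomputable def xc11 : XT := (XT.nd (nat_lit 45084) (nat_lit 0) (nat_lit 304) (XT.nd (nat_lit 936) (nat_lit 76) (nat_lit 0) (XT.nd (nat_lit 468) (nat_lit 152) (nat_lit 0) (XT.nd (nat_lit 234) (nat_lit 76) (nat_lit 0) (XT.nd (nat_lit 78) (nat_lit 0) (nat_lit 0) (XT.lf (nat_lit 0) (nat_lit 17285299762) (nat_lit 152) (nat_lit 26132289636) (nat_lit 0) (nat_lit 10147547627) (nat_lit 8) (nat_lit 5) (nat_lit 10) (nat_lit 4) (nat_lit 8) (nat_lit 4) (nat_lit 381) (nat_lit 274) (nat_lit 245)) (XT.nd (nat_lit 78) (nat_lit 0) (nat_lit 0) (XT.lf (nat_lit 0) (nat_lit 24959833728) (nat_lit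 152) (nat_lit 13351523957) (nat_lit 0) (nat_lit 17713006443) (nat_lit 8) (nat_lit 5) (nat_lit 10) (nat_lit 4) (nat_lit 8) (nat_lit 4) (nat_lit 382) (nat_lit 274) (nat_lit 244)) (XT.lf (nat_lit 0) (nat_lit 32906537953) (nat_lit 152) (nat_lit 147540626) (nat_lit 0) (nat_lit 25555829572) (nat_lit 8) (nat_lit 5) (nat_lit 10) (nat_lit 4) (nat_lit 8) (nat_lit 4) (nat_lit 383) (nat_lit 274) (nat_lit 243)))) (XT.nd (nat_lit 78) (nat_lit 0) (nat_lit 0) (XT.lf (nat_lit 0) (nat_lit 13779995761) (nat_lit 76) (nat_lit 27496799149) (nat_lit 76) (nat_lit 20047156391) (nat_lit 7) (nat_lit 4) (nat_lit 8) (nat_lit 5) (nat_lit 8) (nat_lit 4) (nat_lit 384) (nat_lit 274) (nat_lit 242)) (XT.nd (nat_lit 78) (nat_lit 0) (nat_lit 0) (XT.lf (nat_lit 0) (nat_lit 28207340536) (nat_lit 76) (nat_lit 21756638828) (nat_lit 76) (nat_lit 14212772854) (nat_lit 7) (nat_lit 4) (nat_lit 8) (nat_lit 5) (nat_lit 8) (nat_lit 4) (nat_lit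 385) (nat_lit 274) (nat_lit 241)) (XT.lf (nat_lit 0) (nat_lit 43165908171) (nat_lit 76) (nat_lit 15821420439) (nat_lit 76) (nat_lit 8187818069) (nat_lit 7) (nat_lit 4) (nat_lit 8) (nat_lit 5) (nat_lit 8) (nat_lit 4) (nat_lit 386) (nat_lit 274) (nat_lit 240))))) (XT.nd (nat_lit 234) (nat_lit 0) (nat_lit 0) (XT.nd (nat_lit 78) (nat_lit 152) (nat_lit 0) (XT.lf (nat_lit 0) (nat_lit 58691314303) (nat_lit 76) (nat_lit 9677012509) (nat_lit 76) (nat_lit 1957946905) (nat_lit 7) (nat_lit 4) (nat_lit 8) (nat_lit 5) (nat_lit 8) (nat_lit 4) (nat_lit 387) (nat_lit 274) (nat_lit 239)) (XT.nd (nat_lit 78) (nat_lit 0) (nat_lit 0) (XT.lf (nat_lit 0) (nat_lit 1162393943) (nat_lit 76) (nat_lit 3252804629) (nat_lit 152) (nat_lit 69220806934) (nat_lit 5) (nat_lit 5) (nat_lit 6) (nat_lit 5) (nat_lit 7) (nat_lit 4) (nat_lit 388) (nat_lit 274) (nat_lit 238)) (XT.lf (nat_lit 0) (nat_lit 11133329598) (nat_lit 152) (nat_lit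 62490506099) (nat_lit 0) (nat_lit 3484808400) (nat_lit 5) (nat_lit 5) (nat_lit 7) (nat_lit 4) (nat_lit 5) (nat_lit 4) (nat_lit 389) (nat_lit 274) (nat_lit 237)))) (XT.nd (nat_lit 78) (nat_lit 0) (nat_lit 0) (XT.lf (nat_lit 0) (nat_lit 18136307625) (nat_lit 152) (nat_lit 52204034548) (nat_lit 0) (nat_lit 10416110354) (nat_lit 5) (nat_lit 5) (nat_lit 7) (nat_lit 4) (nat_lit 5) (nat_lit 4) (nat_lit 390) (nat_lit 274) (nat_lit 236)) (XT.nd (nat_lit 78) (nat_lit 0) (nat_lit 0) (XT.lf (nat_lit 0) (nat_lit 25409538462) (nat_lit 152) (nat_lit 41558437365) (nat_lit 0) (nat_lit 17621078264) (nat_lit 5) (nat_lit 5) (nat_lit 7) (nat_lit 4) (nat_lit 5) (nat_lit 4) (nat_lit 391) (nat_lit 274) (nat_lit 235)) (XT.lf (nat_lit 0) (nat_lit 32970339325) (nat_lit 152) (nat_lit 30528367889) (nat_lit 0) (nat_lit 25116866816) (nat_lit 5) (nat_lit 5) (nat_lit 7) (nat_lit 4) (nat_lit 5) (nat_lit 4) (nat_lit 392) (nat_lit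 274) (nat_lit 234)))))) (XT.nd (nat_lit 43680) (nat_lit 0) (nat_lit 1672) (XT.nd (nat_lit 234) (nat_lit 0) (nat_lit 0) (XT.nd (nat_lit 78) (nat_lit 76) (nat_lit 0) (XT.lf (nat_lit 0) (nat_lit 40836712123) (nat_lit 152) (nat_lit 19087564051) (nat_lit 0) (nat_lit 32921323127) (nat_lit 5) (nat_lit 5) (nat_lit 7) (nat_lit 4) (nat_lit 5) (nat_lit 4) (nat_lit 393) (nat_lit 274) (nat_lit 233)) (XT.nd (nat_lit 78) (nat_lit 76) (nat_lit 0) (XT.lf (nat_lit 0) (nat_lit 49027386313) (nat_lit 152) (nat_lit 7208785840) (nat_lit 0) (nat_lit 41053029235) (nat_lit 5) (nat_lit 5) (nat_lit 7) (nat_lit 4) (nat_lit 5) (nat_lit 4) (nat_lit 394) (nat_lit 274) (nat_lit 232)) (XT.lf (nat_lit 0) (nat_lit 5238470983) (nat_lit 76) (nat_lit 52373747905) (nat_lit 76) (nat_lit 44343230748) (nat_lit 4) (nat_lit 4) (nat_lit 5) (nat_lit 5) (nat_lit 5) (nat_lit 4) (nat_lit 395) (nat_lit 274) (nat_lit 231)))) (XT.nd (nat_lit 43290)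 (nat_lit 0) (nat_lit 2584) (XT.lf (nat_lit 0) (nat_lit 18334711308) (nat_lit 76) (nat_lit 48301997023) (nat_lit 76) (nat_lit 40217994077) (nat_lit 4) (nat_lit 4) (nat_lit 5) (nat_lit 5) (nat_lit 5) (nat_lit 4) (nat_lit 396) (nat_lit 274) (nat_lit 230)) (XT.nd (nat_lit 78) (nat_lit 152) (nat_lit 0) (XT.lf (nat_lit 0) (nat_lit 7720095800) (nat_lit 152) (nat_lit 110308725) (nat_lit 152) (nat_lit 110308725) (nat_lit 40) (nat_lit 4) (nat_lit 42) (nat_lit 5) (nat_lit 42) (nat_lit 4) (nat_lit 350) (nat_lit 275) (nat_lit 275)) (XT.lf (nat_lit 0) (nat_lit 8449850089) (nat_lit 152) (nat_lit 109682363) (nat_lit 0) (nat_lit 7834758462) (nat_lit 38) (nat_lit 5) (nat_lit 40) (nat_lit 4) (nat_lit 38) (nat_lit 4) (nat_lit 351) (nat_lit 275) (nat_lit 274))))) (XT.nd (nat_lit 234) (nat_lit 456) (nat_lit 0) (XT.nd (nat_lit 78) (nat_lit 228) (nat_lit 0) (XT.lf (nat_lit 0) (nat_lit 476892095) (nat_lit 228) (nat_lit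 232802222) (nat_lit 76) (nat_lit 16226738146) (nat_lit 35) (nat_lit 5) (nat_lit 38) (nat_lit 5) (nat_lit 36) (nat_lit 4) (nat_lit 352) (nat_lit 275) (nat_lit 273)) (XT.nd (nat_lit 78) (nat_lit 152) (nat_lit 0) (XT.lf (nat_lit 0) (nat_lit 9101759498) (nat_lit 152) (nat_lit 1009017737) (nat_lit 0) (nat_lit 7394187252) (nat_lit 34) (nat_lit 5) (nat_lit 36) (nat_lit 4) (nat_lit 34) (nat_lit 4) (nat_lit 353) (nat_lit 275) (nat_lit 272)) (XT.lf (nat_lit 0) (nat_lit 15746359808) (nat_lit 152) (nat_lit 2291324287) (nat_lit 152) (nat_lit 67888668) (nat_lit 32) (nat_lit 4) (nat_lit 34) (nat_lit 5) (nat_lit 34) (nat_lit 4) (nat_lit 354) (nat_lit 275) (nat_lit 271)))) (XT.nd (nat_lit 78) (nat_lit 304) (nat_lit 0) (XT.lf (nat_lit 0) (nat_lit 8444424981) (nat_lit 152) (nat_lit 4482671303) (nat_lit 0) (nat_lit 5808760836) (nat_lit 30) (nat_lit 5) (nat_lit 32) (nat_lit 4) (nat_lit 30) (nat_lit 4) (nat_lit 355)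 (nat_lit 275) (nat_lit 270)) (XT.nd (nat_lit 78) (nat_lit 152) (nat_lit 0) (XT.lf (nat_lit 0) (nat_lit 12060027964) (nat_lit 152) (nat_lit 5215375968) (nat_lit 152) (nat_lit 2125436789) (nat_lit 28) (nat_lit 4) (nat_lit 30) (nat_lit 5) (nat_lit 30) (nat_lit 4) (nat_lit 356) (nat_lit 275) (nat_lit 269)) (XT.lf (nat_lit 0) (nat_lit 6220449717) (nat_lit 152) (nat_lit 11079409873) (nat_lit 0) (nat_lit 2800467125) (nat_lit 26) (nat_lit 5) (nat_lit 28) (nat_lit 4) (nat_lit 26) (nat_lit 4) (nat_lit 357) (nat_lit 275) (nat_lit 268))))))) (XT.nd (nat_lit 936) (nat_lit 456) (nat_lit 0) (XT.nd (nat_lit 468) (nat_lit 456) (nat_lit 0) (XT.nd (nat_lit 234) (nat_lit 228) (nat_lit 0) (XT.nd (nat_lit 78) (nat_lit 152) (nat_lit 0) (XT.lf (nat_lit 0) (nat_lit 5063279588) (nat_lit 76) (nat_lit 9796662233) (nat_lit 76) (nat_lit 5976639983) (nat_lit 25) (nat_lit 4) (nat_lit 26) (nat_lit 5) (nat_lit 26) (nat_lit 4)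 (nat_lit 358) (nat_lit 275) (nat_lit 267)) (XT.nd (nat_lit 78) (nat_lit 0) (nat_lit 0) (XT.lf (nat_lit 0) (nat_lit 144241080) (nat_lit 76) (nat_lit 1996277875) (nat_lit 152) (nat_lit 19472570765) (nat_lit 23) (nat_lit 5) (nat_lit 24) (nat_lit 5) (nat_lit 25) (nat_lit 4) (nat_lit 359) (nat_lit 275) (nat_lit 266)) (XT.lf (nat_lit 0) (nat_lit 10517633135) (nat_lit 152) (nat_lit 5823012707) (nat_lit 0) (nat_lit 6086700938) (nat_lit 23) (nat_lit 5) (nat_lit 25) (nat_lit 4) (nat_lit 23) (nat_lit 4) (nat_lit 360) (nat_lit 275) (nat_lit 265)))) (XT.nd (nat_lit 78) (nat_lit 152) (nat_lit 0) (XT.lf (nat_lit 0) (nat_lit 10343699452) (nat_lit 76) (nat_lit 8854275555) (nat_lit 76) (nat_lit 4087839186) (nat_lit 22) (nat_lit 4) (nat_lit 23) (nat_lit 5) (nat_lit 23) (nat_lit 4) (nat_lit 361) (nat_lit 275) (nat_lit 264)) (XT.nd (nat_lit 78) (nat_lit 0) (nat_lit 0) (XT.lf (nat_lit 0) (nat_lit 2835079889) (nat_lit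 76) (nat_lit 1066912249) (nat_lit 152) (nat_lit 20288328959) (nat_lit 20) (nat_lit 5) (nat_lit 21) (nat_lit 5) (nat_lit 22) (nat_lit 4) (nat_lit 362) (nat_lit 275) (nat_lit 263)) (XT.lf (nat_lit 0) (nat_lit 12185017085) (nat_lit 152) (nat_lit 6002760845) (nat_lit 0) (nat_lit 6951739098) (nat_lit 20) (nat_lit 5) (nat_lit 22) (nat_lit 4) (nat_lit 20) (nat_lit 4) (nat_lit 363) (nat_lit 275) (nat_lit 262))))) (XT.nd (nat_lit 234) (nat_lit 228) (nat_lit 0) (XT.nd (nat_lit 78) (nat_lit 152) (nat_lit 0) (XT.lf (nat_lit 0) (nat_lit 9892597868) (nat_lit 76) (nat_lit 10880760836) (nat_lit 76) (nat_lit 5366103122) (nat_lit 19) (nat_lit 4) (nat_lit 20) (nat_lit 5) (nat_lit 20) (nat_lit 4) (nat_lit 364) (nat_lit 275) (nat_lit 261)) (XT.nd (nat_lit 78) (nat_lit 76) (nat_lit 0) (XT.lf (nat_lit 0) (nat_lit 2402991551) (nat_lit 152) (nat_lit 904565556) (nat_lit 76) (nat_lit 23885557300) (nat_lit 18) (nat_lit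 5) (nat_lit 20) (nat_lit 5) (nat_lit 19) (nat_lit 4) (nat_lit 365) (nat_lit 275) (nat_lit 260)) (XT.lf (nat_lit 0) (nat_lit 10439939497) (nat_lit 152) (nat_lit 13280284730) (nat_lit 0) (nat_lit 4577941329) (nat_lit 17) (nat_lit 5) (nat_lit 19) (nat_lit 4) (nat_lit 17) (nat_lit 4) (nat_lit 366) (nat_lit 275) (nat_lit 259)))) (XT.nd (nat_lit 78) (nat_lit 152) (nat_lit 0) (XT.lf (nat_lit 0) (nat_lit 1927508392) (nat_lit 76) (nat_lit 16816503829) (nat_lit 76) (nat_lit 10718518877) (nat_lit 16) (nat_lit 4) (nat_lit 17) (nat_lit 5) (nat_lit 17) (nat_lit 4) (nat_lit 367) (nat_lit 275) (nat_lit 258)) (XT.nd (nat_lit 78) (nat_lit 152) (nat_lit 0) (XT.lf (nat_lit 0) (nat_lit 17810134245) (nat_lit 76) (nat_lit 9599669344) (nat_lit 76) (nat_lit 3276935074) (nat_lit 16) (nat_lit 4) (nat_lit 17) (nat_lit 5) (nat_lit 17) (nat_lit 4) (nat_lit 368) (nat_lit 275) (nat_lit 257)) (XT.lf (nat_lit 0) (nat_lit 2163905290)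 (nat_lit 76) (nat_lit 2122147187) (nat_lit 152) (nat_lit 27689678014) (nat_lit 14) (nat_lit 5) (nat_lit 15) (nat_lit 5) (nat_lit 16) (nat_lit 4) (nat_lit 369) (nat_lit 275) (nat_lit 256)))))) (XT.nd (nat_lit 468) (nat_lit 228) (nat_lit 0) (XT.nd (nat_lit 234) (nat_lit 152) (nat_lit 0) (XT.nd (nat_lit 78) (nat_lit 76) (nat_lit 0) (XT.lf (nat_lit 0) (nat_lit 12169930265) (nat_lit 152) (nat_lit 15532345857) (nat_lit 0) (nat_lit 5625623958) (nat_lit 14) (nat_lit 5) (nat_lit 16) (nat_lit 4) (nat_lit 14) (nat_lit 4) (nat_lit 370) (nat_lit 275) (nat_lit 255)) (XT.nd (nat_lit 78) (nat_lit 76) (nat_lit 0) (XT.lf (nat_lit 0) (nat_lit 20298891907) (nat_lit 152) (nat_lit 887182192) (nat_lit 0) (nat_lit 13566093453) (nat_lit 14) (nat_lit 5) (nat_lit 16) (nat_lit 4) (nat_lit 14) (nat_lit 4) (nat_lit 371) (nat_lit 275) (nat_lit 254)) (XT.lf (nat_lit 0) (nat_lit 14461123207) (nat_lit 76) (nat_lit 14349778650)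 (nat_lit 76) (nat_lit 7437463866) (nat_lit 13) (nat_lit 4) (nat_lit 14) (nat_lit 5) (nat_lit 14) (nat_lit 4) (nat_lit 372) (nat_lit 275) (nat_lit 253)))) (XT.nd (nat_lit 78) (nat_lit 152) (nat_lit 0) (XT.lf (nat_lit 0) (nat_lit 30293001823) (nat_lit 76) (nat_lit 7307061386) (nat_lit 76) (nat_lit 223778669) (nat_lit 13) (nat_lit 4) (nat_lit 14) (nat_lit 5) (nat_lit 14) (nat_lit 4) (nat_lit 373) (nat_lit 275) (nat_lit 252)) (XT.nd (nat_lit 78) (nat_lit 0) (nat_lit 0) (XT.lf (nat_lit 0) (nat_lit 7125846384) (nat_lit 152) (nat_lit 32261789656) (nat_lit 0) (nat_lit 90788791) (nat_lit 11) (nat_lit 5) (nat_lit 13) (nat_lit 4) (nat_lit 11) (nat_lit 4) (nat_lit 374) (nat_lit 275) (nat_lit 251)) (XT.lf (nat_lit 0) (nat_lit 14842030325) (nat_lit 152) (nat_lit 18717125361) (nat_lit 0) (nat_lit 7656416464) (nat_lit 11) (nat_lit 5) (nat_lit 13) (nat_lit 4) (nat_lit 11) (nat_lit 4) (nat_lit 375) (nat_lit 275)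 (nat_lit 250))))) (XT.nd (nat_lit 234) (nat_lit 152) (nat_lit 0) (XT.nd (nat_lit 78) (nat_lit 76) (nat_lit 0) (XT.lf (nat_lit 0) (nat_lit 22802709032) (nat_lit 152) (nat_lit 4767411235) (nat_lit 0) (nat_lit 15473708250) (nat_lit 11) (nat_lit 5) (nat_lit 13) (nat_lit 4) (nat_lit 11) (nat_lit 4) (nat_lit 376) (nat_lit 275) (nat_lit 249)) (XT.nd (nat_lit 78) (nat_lit 0) (nat_lit 0) (XT.lf (nat_lit 0) (nat_lit 9812034458) (nat_lit 76) (nat_lit 21309121320) (nat_lit 76) (nat_lit 13843561565) (nat_lit 10) (nat_lit 4) (nat_lit 11) (nat_lit 5) (nat_lit 11) (nat_lit 4) (nat_lit 377) (nat_lit 275) (nat_lit 248)) (XT.lf (nat_lit 0) (nat_lit 24968285594) (nat_lit 76) (nat_lit 14805718829) (nat_lit 76) (nat_lit 7210102909) (nat_lit 10) (nat_lit 4) (nat_lit 11) (nat_lit 5) (nat_lit 11) (nat_lit 4) (nat_lit 378) (nat_lit 275) (nat_lit 247)))) (XT.nd (nat_lit 78) (nat_lit 152) (nat_lit 0) (XT.lf (nat_lit 0)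 (nat_lit 40642547652) (nat_lit 76) (nat_lit 8092570009) (nat_lit 76) (nat_lit 373091075) (nat_lit 10) (nat_lit 4) (nat_lit 11) (nat_lit 5) (nat_lit 11) (nat_lit 4) (nat_lit 379) (nat_lit 275) (nat_lit 246)) (XT.nd (nat_lit 78) (nat_lit 0) (nat_lit 0) (XT.lf (nat_lit 0) (nat_lit 5574593441) (nat_lit 76) (nat_lit 1032321411) (nat_lit 152) (nat_lit 44731629046) (nat_lit 8) (nat_lit 5) (nat_lit 9) (nat_lit 5) (nat_lit 10) (nat_lit 4) (nat_lit 380) (nat_lit 275) (nat_lit 245)) (XT.lf (nat_lit 0) (nat_lit 13960489290) (nat_lit 152) (nat_lit 33476591005) (nat_lit 0) (nat_lit 6242245490) (nat_lit 8) (nat_lit 5) (nat_lit 10) (nat_lit 4) (nat_lit 8) (nat_lit 4) (nat_lit 381) (nat_lit 275) (nat_lit 244))))))))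
noncomputable def xc12 : XT := (XT.nd (nat_lit 44850) (nat_lit 0) (nat_lit 456) (XT.nd (nat_lit 858) (nat_lit 76) (nat_lit 0) (XT.nd (nat_lit 390) (nat_lit 152) (nat_lit 0) (XT.nd (nat_lit 156) (nat_lit 76) (nat_lit 0) (XT.nd (nat_lit 78) (nat_lit 0) (nat_lit 0) (XT.lf (nat_lit 0) (nat_lit 21580605481) (nat_lit 152) (nat_lit 20801103683) (nat_lit 0) (nat_lit 13758480585) (nat_lit 8) (nat_lit 5) (nat_lit 10) (nat_lit 4) (nat_lit 8) (nat_lit 4) (nat_lit 382) (nat_lit 275) (nat_lit 243)) (XT.lf (nat_lit 0) (nat_lit 29475483253) (nat_lit 152) (nat_lit 7697385455) (nat_lit 0) (nat_lit 21554423981) (nat_lit 8) (nat_lit 5) (nat_lit 10) (nat_lit 4) (nat_lit 8) (nat_lit 4) (nat_lit 383) (nat_lit 275) (nat_lit 242))) (XT.nd (nat_lit 78) (nat_lit 0) (nat_lit 0) (XT.lf (nat_lit 0) (nat_lit 5982503193) (nat_lit 76) (nat_lit 31738924223) (nat_lit 76) (nat_lit 23723641734) (nat_lit 7) (nat_lit 4) (nat_lit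 8) (nat_lit 5) (nat_lit 8) (nat_lit 4) (nat_lit 384) (nat_lit 275) (nat_lit 241)) (XT.nd (nat_lit 78) (nat_lit 0) (nat_lit 0) (XT.lf (nat_lit 0) (nat_lit 20317094612) (nat_lit 76) (nat_lit 26043617535) (nat_lit 76) (nat_lit 17938598650) (nat_lit 7) (nat_lit 4) (nat_lit 8) (nat_lit 5) (nat_lit 8) (nat_lit 4) (nat_lit 385) (nat_lit 275) (nat_lit 240)) (XT.lf (nat_lit 0) (nat_lit 35187325718) (nat_lit 76) (nat_lit 20151116891) (nat_lit 76) (nat_lit 11960634772) (nat_lit 7) (nat_lit 4) (nat_lit 8) (nat_lit 5) (nat_lit 8) (nat_lit 4) (nat_lit 386) (nat_lit 275) (nat_lit 239))))) (XT.nd (nat_lit 234) (nat_lit 0) (nat_lit 0) (XT.nd (nat_lit 78) (nat_lit 152) (nat_lit 0) (XT.lf (nat_lit 0) (nat_lit 50628601823) (nat_lit 76) (nat_lit 14047392529) (nat_lit 76) (nat_lit 5775516854) (nat_lit 7) (nat_lit 4) (nat_lit 8) (nat_lit 5) (nat_lit 8) (nat_lit 4) (nat_lit 387) (nat_lit 275) (nat_lit 238)) (XT.nd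 (nat_lit 78) (nat_lit 76) (nat_lit 0) (XT.lf (nat_lit 0) (nat_lit 619159096) (nat_lit 152) (nat_lit 7092500382) (nat_lit 76) (nat_lit 66052276479) (nat_lit 6) (nat_lit 5) (nat_lit 8) (nat_lit 5) (nat_lit 7) (nat_lit 4) (nat_lit 388) (nat_lit 275) (nat_lit 237)) (XT.lf (nat_lit 0) (nat_lit 6178640721) (nat_lit 76) (nat_lit 1014393970) (nat_lit 152) (nat_lit 70047870506) (nat_lit 5) (nat_lit 5) (nat_lit 6) (nat_lit 5) (nat_lit 7) (nat_lit 4) (nat_lit 389) (nat_lit 275) (nat_lit 236)))) (XT.nd (nat_lit 78) (nat_lit 0) (nat_lit 0) (XT.lf (nat_lit 0) (nat_lit 14147288040) (nat_lit 152) (nat_lit 60841748265) (nat_lit 0) (nat_lit 5901141906) (nat_lit 5) (nat_lit 5) (nat_lit 7) (nat_lit 4) (nat_lit 5) (nat_lit 4) (nat_lit 390) (nat_lit 275) (nat_lit 235)) (XT.nd (nat_lit 78) (nat_lit 0) (nat_lit 0) (XT.lf (nat_lit 0) (nat_lit 21383401065) (nat_lit 152) (nat_lit 50268252334) (nat_lit 0) (nat_lit 13072242619)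 (nat_lit 5) (nat_lit 5) (nat_lit 7) (nat_lit 4) (nat_lit 5) (nat_lit 4) (nat_lit 391) (nat_lit 275) (nat_lit 234)) (XT.lf (nat_lit 0) (nat_lit 28908851631) (nat_lit 152) (nat_lit 39306850717) (nat_lit 0) (nat_lit 20535776699) (nat_lit 5) (nat_lit 5) (nat_lit 7) (nat_lit 4) (nat_lit 5) (nat_lit 4) (nat_lit 392) (nat_lit 275) (nat_lit 233)))))) (XT.nd (nat_lit 43524) (nat_lit 0) (nat_lit 1976) (XT.nd (nat_lit 234) (nat_lit 76) (nat_lit 0) (XT.nd (nat_lit 78) (nat_lit 0) (nat_lit 0) (XT.lf (nat_lit 0) (nat_lit 36741557479) (nat_lit 152) (nat_lit 27931444840) (nat_lit 0) (nat_lit 28309514464) (nat_lit 5) (nat_lit 5) (nat_lit 7) (nat_lit 4) (nat_lit 5) (nat_lit 4) (nat_lit 393) (nat_lit 275) (nat_lit 232)) (XT.nd (nat_lit 78) (nat_lit 0) (nat_lit 0) (XT.lf (nat_lit 0) (nat_lit 44900167907) (nat_lit 152) (nat_lit 16114950402) (nat_lit 0) (nat_lit 36411964814) (nat_lit 5) (nat_lit 5) (nat_lit 7) (nat_lit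 4) (nat_lit 5) (nat_lit 4) (nat_lit 394) (nat_lit 275) (nat_lit 231)) (XT.lf (nat_lit 0) (nat_lit 53404108179) (nat_lit 152) (nat_lit 3829232893) (nat_lit 0) (nat_lit 44862419296) (nat_lit 5) (nat_lit 5) (nat_lit 7) (nat_lit 4) (nat_lit 5) (nat_lit 4) (nat_lit 395) (nat_lit 275) (nat_lit 230)))) (XT.nd (nat_lit 43134) (nat_lit 0) (nat_lit 2888) (XT.lf (nat_lit 0) (nat_lit 9133180644) (nat_lit 76) (nat_lit 53228238847) (nat_lit 76) (nat_lit 44635611117) (nat_lit 4) (nat_lit 4) (nat_lit 5) (nat_lit 5) (nat_lit 5) (nat_lit 4) (nat_lit 396) (nat_lit 275) (nat_lit 229)) (XT.nd (nat_lit 78) (nat_lit 152) (nat_lit 0) (XT.lf (nat_lit 0) (nat_lit 6308417374) (nat_lit 152) (nat_lit 577019749) (nat_lit 152) (nat_lit 577019749) (nat_lit 44) (nat_lit 4) (nat_lit 46) (nat_lit 5) (nat_lit 46) (nat_lit 4) (nat_lit 348) (nat_lit 276) (nat_lit 276)) (XT.lf (nat_lit 0) (nat_lit 7367662441) (nat_lit 152) (nat_lit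 1322059862) (nat_lit 0) (nat_lit 6702440847) (nat_lit 42) (nat_lit 5) (nat_lit 44) (nat_lit 4) (nat_lit 42) (nat_lit 4) (nat_lit 349) (nat_lit 276) (nat_lit 275))))) (XT.nd (nat_lit 234) (nat_lit 380) (nat_lit 0) (XT.nd (nat_lit 78) (nat_lit 304) (nat_lit 0) (XT.lf (nat_lit 0) (nat_lit 289233002) (nat_lit 228) (nat_lit 711622975) (nat_lit 76) (nat_lit 14884868801) (nat_lit 39) (nat_lit 5) (nat_lit 42) (nat_lit 5) (nat_lit 40) (nat_lit 4) (nat_lit 350) (nat_lit 276) (nat_lit 274)) (XT.nd (nat_lit 78) (nat_lit 228) (nat_lit 0) (XT.lf (nat_lit 0) (nat_lit 8801905848) (nat_lit 152) (nat_lit 646082353) (nat_lit 0) (nat_lit 6955166464) (nat_lit 38) (nat_lit 5) (nat_lit 40) (nat_lit 4) (nat_lit 38) (nat_lit 4) (nat_lit 351) (nat_lit 276) (nat_lit 273)) (XT.lf (nat_lit 0) (nat_lit 667746815) (nat_lit 228) (nat_lit 1049119587) (nat_lit 76) (nat_lit 15232722623) (nat_lit 35) (nat_lit 5) (nat_lit 38) (nat_lit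 5) (nat_lit 36) (nat_lit 4) (nat_lit 352) (nat_lit 276) (nat_lit 272)))) (XT.nd (nat_lit 78) (nat_lit 304) (nat_lit 0) (XT.lf (nat_lit 0) (nat_lit 9137712188) (nat_lit 152) (nat_lit 2097836002) (nat_lit 0) (nat_lit 6287241416) (nat_lit 34) (nat_lit 5) (nat_lit 36) (nat_lit 4) (nat_lit 34) (nat_lit 4) (nat_lit 353) (nat_lit 276) (nat_lit 271)) (XT.nd (nat_lit 78) (nat_lit 152) (nat_lit 0) (XT.lf (nat_lit 0) (nat_lit 14390494469) (nat_lit 152) (nat_lit 3539501169) (nat_lit 152) (nat_lit 197731947) (nat_lit 32) (nat_lit 4) (nat_lit 34) (nat_lit 5) (nat_lit 34) (nat_lit 4) (nat_lit 354) (nat_lit 276) (nat_lit 270)) (XT.lf (nat_lit 0) (nat_lit 8160185057) (nat_lit 152) (nat_lit 6141117283) (nat_lit 0) (nat_lit 4461473885) (nat_lit 30) (nat_lit 5) (nat_lit 32) (nat_lit 4) (nat_lit 30) (nat_lit 4) (nat_lit 355) (nat_lit 276) (nat_lit 269))))))) (XT.nd (nat_lit 936) (nat_lit 532) (nat_lit 0) (XT.nd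 (nat_lit 468) (nat_lit 380) (nat_lit 0) (XT.nd (nat_lit 234) (nat_lit 228) (nat_lit 0) (XT.nd (nat_lit 78) (nat_lit 228) (nat_lit 0) (XT.lf (nat_lit 0) (nat_lit 10131744194) (nat_lit 152) (nat_lit 6715847446) (nat_lit 152) (nat_lit 2584493383) (nat_lit 28) (nat_lit 4) (nat_lit 30) (nat_lit 5) (nat_lit 30) (nat_lit 4) (nat_lit 356) (nat_lit 276) (nat_lit 268)) (XT.nd (nat_lit 78) (nat_lit 76) (nat_lit 0) (XT.lf (nat_lit 0) (nat_lit 5610786336) (nat_lit 152) (nat_lit 13325997356) (nat_lit 0) (nat_lit 1199723316) (nat_lit 26) (nat_lit 5) (nat_lit 28) (nat_lit 4) (nat_lit 26) (nat_lit 4) (nat_lit 357) (nat_lit 276) (nat_lit 267)) (XT.lf (nat_lit 0) (nat_lit 2543457768) (nat_lit 76) (nat_lit 11562846303) (nat_lit 76) (nat_lit 6770793132) (nat_lit 25) (nat_lit 4) (nat_lit 26) (nat_lit 5) (nat_lit 26) (nat_lit 4) (nat_lit 358) (nat_lit 276) (nat_lit 266)))) (XT.nd (nat_lit 78) (nat_lit 152) (nat_lit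 0) (XT.lf (nat_lit 0) (nat_lit 1243169411) (nat_lit 152) (nat_lit 2631267028) (nat_lit 76) (nat_lit 17782973170) (nat_lit 24) (nat_lit 5) (nat_lit 26) (nat_lit 5) (nat_lit 25) (nat_lit 4) (nat_lit 359) (nat_lit 276) (nat_lit 265)) (XT.nd (nat_lit 78) (nat_lit 76) (nat_lit 0) (XT.lf (nat_lit 0) (nat_lit 9461442359) (nat_lit 152) (nat_lit 8893823526) (nat_lit 0) (nat_lit 4121179999) (nat_lit 23) (nat_lit 5) (nat_lit 25) (nat_lit 4) (nat_lit 23) (nat_lit 4) (nat_lit 360) (nat_lit 276) (nat_lit 264)) (XT.lf (nat_lit 0) (nat_lit 7001818430) (nat_lit 76) (nat_lit 10998570097) (nat_lit 76) (nat_lit 5338779954) (nat_lit 22) (nat_lit 4) (nat_lit 23) (nat_lit 5) (nat_lit 23) (nat_lit 4) (nat_lit 361) (nat_lit 276) (nat_lit 263))))) (XT.nd (nat_lit 234) (nat_lit 152) (nat_lit 0) (XT.nd (nat_lit 78) (nat_lit 152) (nat_lit 0) (XT.lf (nat_lit 0) (nat_lit 2541157163) (nat_lit 152) (nat_lit 805553275) (nat_lit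 76) (nat_lit 20901367139) (nat_lit 21) (nat_lit 5) (nat_lit 23) (nat_lit 5) (nat_lit 22) (nat_lit 4) (nat_lit 362) (nat_lit 276) (nat_lit 262)) (XT.nd (nat_lit 78) (nat_lit 76) (nat_lit 0) (XT.lf (nat_lit 0) (nat_lit 10689561334) (nat_lit 152) (nat_lit 9893971513) (nat_lit 0) (nat_lit 4617791008) (nat_lit 20) (nat_lit 5) (nat_lit 22) (nat_lit 4) (nat_lit 20) (nat_lit 4) (nat_lit 363) (nat_lit 276) (nat_lit 261)) (XT.lf (nat_lit 0) (nat_lit 5731090716) (nat_lit 76) (nat_lit 13407066251) (nat_lit 76) (nat_lit 7067315233) (nat_lit 19) (nat_lit 4) (nat_lit 20) (nat_lit 5) (nat_lit 20) (nat_lit 4) (nat_lit 364) (nat_lit 276) (nat_lit 260)))) (XT.nd (nat_lit 78) (nat_lit 76) (nat_lit 0) (XT.lf (nat_lit 0) (nat_lit 637248864) (nat_lit 152) (nat_lit 5301355529) (nat_lit 76) (nat_lit 21323953124) (nat_lit 18) (nat_lit 5) (nat_lit 20) (nat_lit 5) (nat_lit 19) (nat_lit 4) (nat_lit 365) (nat_lit 276) (nat_lit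 259)) (XT.nd (nat_lit 78) (nat_lit 0) (nat_lit 0) (XT.lf (nat_lit 0) (nat_lit 8509744276) (nat_lit 152) (nat_lit 17991934506) (nat_lit 0) (nat_lit 1870873293) (nat_lit 17) (nat_lit 5) (nat_lit 19) (nat_lit 4) (nat_lit 17) (nat_lit 4) (nat_lit 366) (nat_lit 276) (nat_lit 258)) (XT.lf (nat_lit 0) (nat_lit 16704213636) (nat_lit 152) (nat_lit 2995408112) (nat_lit 0) (nat_lit 9840593335) (nat_lit 17) (nat_lit 5) (nat_lit 19) (nat_lit 4) (nat_lit 17) (nat_lit 4) (nat_lit 367) (nat_lit 276) (nat_lit 257)))))) (XT.nd (nat_lit 468) (nat_lit 228) (nat_lit 0) (XT.nd (nat_lit 234) (nat_lit 76) (nat_lit 0) (XT.nd (nat_lit 78) (nat_lit 152) (nat_lit 0) (XT.lf (nat_lit 0) (nat_lit 12658926907) (nat_lit 76) (nat_lit 12593351860) (nat_lit 76) (nat_lit 5515684588) (nat_lit 16) (nat_lit 4) (nat_lit 17) (nat_lit 5) (nat_lit 17) (nat_lit 4) (nat_lit 368) (nat_lit 276) (nat_lit 256)) (XT.nd (nat_lit 78) (nat_lit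 76) (nat_lit 0) (XT.lf (nat_lit 0) (nat_lit 1985194837) (nat_lit 152) (nat_lit 3251576008) (nat_lit 76) (nat_lit 26824012017) (nat_lit 15) (nat_lit 5) (nat_lit 17) (nat_lit 5) (nat_lit 16) (nat_lit 4) (nat_lit 369) (nat_lit 276) (nat_lit 255)) (XT.lf (nat_lit 0) (nat_lit 9723754070) (nat_lit 152) (nat_lit 21227742244) (nat_lit 0) (nat_lit 2465823547) (nat_lit 14) (nat_lit 5) (nat_lit 16) (nat_lit 4) (nat_lit 14) (nat_lit 4) (nat_lit 370) (nat_lit 276) (nat_lit 254)))) (XT.nd (nat_lit 78) (nat_lit 76) (nat_lit 0) (XT.lf (nat_lit 0) (nat_lit 17773491841) (nat_lit 152) (nat_lit 6734434701) (nat_lit 0) (nat_lit 10336044987) (nat_lit 14) (nat_lit 5) (nat_lit 16) (nat_lit 4) (nat_lit 14) (nat_lit 4) (nat_lit 371) (nat_lit 276) (nat_lit 253)) (XT.nd (nat_lit 78) (nat_lit 0) (nat_lit 0) (XT.lf (nat_lit 0) (nat_lit 8349995712) (nat_lit 76) (nat_lit 17801310877) (nat_lit 76) (nat_lit 10192896090) (nat_lit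 13) (nat_lit 4) (nat_lit 14) (nat_lit 5) (nat_lit 14) (nat_lit 4) (nat_lit 372) (nat_lit 276) (nat_lit 252)) (XT.lf (nat_lit 0) (nat_lit 24041395094) (nat_lit 76) (nat_lit 10825864089) (nat_lit 76) (nat_lit 3054622699) (nat_lit 13) (nat_lit 4) (nat_lit 14) (nat_lit 5) (nat_lit 14) (nat_lit 4) (nat_lit 373) (nat_lit 276) (nat_lit 251))))) (XT.nd (nat_lit 234) (nat_lit 76) (nat_lit 0) (XT.nd (nat_lit 78) (nat_lit 0) (nat_lit 0) (XT.lf (nat_lit 0) (nat_lit 631399985) (nat_lit 76) (nat_lit 3584222837) (nat_lit 152) (nat_lit 35365703225) (nat_lit 11) (nat_lit 5) (nat_lit 12) (nat_lit 5) (nat_lit 13) (nat_lit 4) (nat_lit 374) (nat_lit 276) (nat_lit 250)) (XT.nd (nat_lit 78) (nat_lit 0) (nat_lit 0) (XT.lf (nat_lit 0) (nat_lit 11828419153) (nat_lit 152) (nat_lit 25503580407) (nat_lit 0) (nat_lit 3989581410) (nat_lit 11) (nat_lit 5) (nat_lit 13) (nat_lit 4) (nat_lit 11) (nat_lit 4) (nat_lit 375) (nat_lit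 276) (nat_lit 249)) (XT.lf (nat_lit 0) (nat_lit 19723446556) (nat_lit 152) (nat_lit 11680316170) (nat_lit 0) (nat_lit 11748049840) (nat_lit 11) (nat_lit 5) (nat_lit 13) (nat_lit 4) (nat_lit 11) (nat_lit 4) (nat_lit 376) (nat_lit 276) (nat_lit 248)))) (XT.nd (nat_lit 78) (nat_lit 0) (nat_lit 0) (XT.lf (nat_lit 0) (nat_lit 2638723933) (nat_lit 76) (nat_lit 25271690068) (nat_lit 76) (nat_lit 17166237188) (nat_lit 10) (nat_lit 4) (nat_lit 11) (nat_lit 5) (nat_lit 11) (nat_lit 4) (nat_lit 377) (nat_lit 276) (nat_lit 247)) (XT.nd (nat_lit 78) (nat_lit 0) (nat_lit 0) (XT.lf (nat_lit 0) (nat_lit 17677998662) (nat_lit 76) (nat_lit 18824591868) (nat_lit 76) (nat_lit 10595275973) (nat_lit 10) (nat_lit 4) (nat_lit 11) (nat_lit 5) (nat_lit 11) (nat_lit 4) (nat_lit 378) (nat_lit 276) (nat_lit 246)) (XT.lf (nat_lit 0) (nat_lit 33240854617) (nat_lit 76) (nat_lit 12165066182) (nat_lit 76) (nat_lit 3817785512)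 (nat_lit 10) (nat_lit 4) (nat_lit 11) (nat_lit 5) (nat_lit 11) (nat_lit 4) (nat_lit 379) (nat_lit 276) (nat_lit 245))))))))
noncomputable def xc13 : XT := (XT.nd (nat_lit 44772) (nat_lit 0) (nat_lit 456) (XT.nd (nat_lit 936) (nat_lit 0) (nat_lit 0) (XT.nd (nat_lit 468) (nat_lit 152) (nat_lit 0) (XT.nd (nat_lit 234) (nat_lit 76) (nat_lit 0) (XT.nd (nat_lit 78) (nat_lit 76) (nat_lit 0) (XT.lf (nat_lit 0) (nat_lit 3120271555) (nat_lit 152) (nat_lit 2125476817) (nat_lit 76) (nat_lit 46212566038) (nat_lit 9) (nat_lit 5) (nat_lit 11) (nat_lit 5) (nat_lit 10) (nat_lit 4) (nat_lit 380) (nat_lit 276) (nat_lit 244)) (XT.nd (nat_lit 78) (nat_lit 0) (nat_lit 0) (XT.lf (nat_lit 0) (nat_lit 10357881855) (nat_lit 152) (nat_lit 41403928076) (nat_lit 0) (nat_lit 2040769619) (nat_lit 8) (nat_lit 5) (nat_lit 10) (nat_lit 4) (nat_lit 8) (nat_lit 4) (nat_lit 381) (nat_lit 276) (nat_lit 243)) (XT.lf (nat_lit 0) (nat_lit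 17926171593) (nat_lit 152) (nat_lit 28828705856) (nat_lit 0) (nat_lit 9510124981) (nat_lit 8) (nat_lit 5) (nat_lit 10) (nat_lit 4) (nat_lit 8) (nat_lit 4) (nat_lit 382) (nat_lit 276) (nat_lit 242)))) (XT.nd (nat_lit 78) (nat_lit 76) (nat_lit 0) (XT.lf (nat_lit 0) (nat_lit 25771690840) (nat_lit 152) (nat_lit 15820478202) (nat_lit 0) (nat_lit 17261421011) (nat_lit 8) (nat_lit 5) (nat_lit 10) (nat_lit 4) (nat_lit 8) (nat_lit 4) (nat_lit 383) (nat_lit 276) (nat_lit 241)) (XT.nd (nat_lit 78) (nat_lit 76) (nat_lit 0) (XT.lf (nat_lit 0) (nat_lit 33913119401) (nat_lit 152) (nat_lit 2348273141) (nat_lit 0) (nat_lit 25313113177) (nat_lit 8) (nat_lit 5) (nat_lit 10) (nat_lit 4) (nat_lit 8) (nat_lit 4) (nat_lit 384) (nat_lit 276) (nat_lit 240)) (XT.lf (nat_lit 0) (nat_lit 11851246508) (nat_lit 76) (nat_lit 30632516556) (nat_lit 76) (nat_lit 21947047096) (nat_lit 7) (nat_lit 4) (nat_lit 8) (nat_lit 5) (nat_lit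 8) (nat_lit 4) (nat_lit 385) (nat_lit 276) (nat_lit 239))))) (XT.nd (nat_lit 234) (nat_lit 152) (nat_lit 0) (XT.nd (nat_lit 78) (nat_lit 0) (nat_lit 0) (XT.lf (nat_lit 0) (nat_lit 26637347586) (nat_lit 76) (nat_lit 24780699480) (nat_lit 76) (nat_lit 16013836464) (nat_lit 7) (nat_lit 4) (nat_lit 8) (nat_lit 5) (nat_lit 8) (nat_lit 4) (nat_lit 386) (nat_lit 276) (nat_lit 238)) (XT.nd (nat_lit 78) (nat_lit 0) (nat_lit 0) (XT.lf (nat_lit 0) (nat_lit 41998499855) (nat_lit 76) (nat_lit 18715721373) (nat_lit 76) (nat_lit 9871340684) (nat_lit 7) (nat_lit 4) (nat_lit 8) (nat_lit 5) (nat_lit 8) (nat_lit 4) (nat_lit 387) (nat_lit 276) (nat_lit 237)) (XT.lf (nat_lit 0) (nat_lit 57971277486) (nat_lit 76) (nat_lit 12423141810) (nat_lit 76) (nat_lit 3504934766) (nat_lit 7) (nat_lit 4) (nat_lit 8) (nat_lit 5) (nat_lit 8) (nat_lit 4) (nat_lit 388) (nat_lit 276) (nat_lit 236)))) (XT.nd (nat_lit 78) (nat_lit 76)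 (nat_lit 0) (XT.lf (nat_lit 0) (nat_lit 3040036707) (nat_lit 152) (nat_lit 2817243342) (nat_lit 76) (nat_lit 71522975785) (nat_lit 6) (nat_lit 5) (nat_lit 8) (nat_lit 5) (nat_lit 7) (nat_lit 4) (nat_lit 389) (nat_lit 276) (nat_lit 235)) (XT.nd (nat_lit 78) (nat_lit 0) (nat_lit 0) (XT.lf (nat_lit 0) (nat_lit 9882725961) (nat_lit 152) (nat_lit 70059155235) (nat_lit 0) (nat_lit 1090997282) (nat_lit 5) (nat_lit 5) (nat_lit 7) (nat_lit 4) (nat_lit 5) (nat_lit 4) (nat_lit 390) (nat_lit 276) (nat_lit 234)) (XT.lf (nat_lit 0) (nat_lit 17083488689) (nat_lit 152) (nat_lit 59554327163) (nat_lit 0) (nat_lit 8229843523) (nat_lit 5) (nat_lit 5) (nat_lit 7) (nat_lit 4) (nat_lit 5) (nat_lit 4) (nat_lit 391) (nat_lit 276) (nat_lit 233)))))) (XT.nd (nat_lit 43368) (nat_lit 0) (nat_lit 2280) (XT.nd (nat_lit 234) (nat_lit 0) (nat_lit 0) (XT.nd (nat_lit 78) (nat_lit 0) (nat_lit 0) (XT.lf (nat_lit 0) (nat_lit 24575272305)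 (nat_lit 152) (nat_lit 48658323507) (nat_lit 0) (nat_lit 15662659057) (nat_lit 5) (nat_lit 5) (nat_lit 7) (nat_lit 4) (nat_lit 5) (nat_lit 4) (nat_lit 392) (nat_lit 276) (nat_lit 232)) (XT.nd (nat_lit 78) (nat_lit 0) (nat_lit 0) (XT.lf (nat_lit 0) (nat_lit 32375914391) (nat_lit 152) (nat_lit 37345201402) (nat_lit 0) (nat_lit 23407141064) (nat_lit 5) (nat_lit 5) (nat_lit 7) (nat_lit 4) (nat_lit 5) (nat_lit 4) (nat_lit 393) (nat_lit 276) (nat_lit 231)) (XT.lf (nat_lit 0) (nat_lit 40503987903) (nat_lit 152) (nat_lit 25588024843) (nat_lit 0) (nat_lit 31481728787) (nat_lit 5) (nat_lit 5) (nat_lit 7) (nat_lit 4) (nat_lit 5) (nat_lit 4) (nat_lit 394) (nat_lit 276) (nat_lit 230)))) (XT.nd (nat_lit 78) (nat_lit 0) (nat_lit 0) (XT.lf (nat_lit 0) (nat_lit 48978845398) (nat_lit 152) (nat_lit 13358800552) (nat_lit 0) (nat_lit 39905647435) (nat_lit 5) (nat_lit 5) (nat_lit 7) (nat_lit 4) (nat_lit 5) (nat_lit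 4) (nat_lit 395) (nat_lit 276) (nat_lit 229)) (XT.nd (nat_lit 42978) (nat_lit 0) (nat_lit 3344) (XT.lf (nat_lit 0) (nat_lit 57820665108) (nat_lit 152) (nat_lit 628411328) (nat_lit 0) (nat_lit 48698953957) (nat_lit 5) (nat_lit 5) (nat_lit 7) (nat_lit 4) (nat_lit 5) (nat_lit 4) (nat_lit 396) (nat_lit 276) (nat_lit 228)) (XT.lf (nat_lit 0) (nat_lit 4416550071) (nat_lit 152) (nat_lit 1305029750) (nat_lit 152) (nat_lit 1305029750) (nat_lit 49) (nat_lit 4) (nat_lit 51) (nat_lit 5) (nat_lit 51) (nat_lit 4) (nat_lit 346) (nat_lit 277) (nat_lit 277))))) (XT.nd (nat_lit 234) (nat_lit 532) (nat_lit 0) (XT.nd (nat_lit 78) (nat_lit 304) (nat_lit 0) (XT.lf (nat_lit 0) (nat_lit 5732004823) (nat_lit 228) (nat_lit 3735004437) (nat_lit 0) (nat_lit 5012567669) (nat_lit 46) (nat_lit 5) (nat_lit 49) (nat_lit 4) (nat_lit 46) (nat_lit 4) (nat_lit 347) (nat_lit 277) (nat_lit 276)) (XT.nd (nat_lit 78) (nat_lit 152)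 (nat_lit 0) (XT.lf (nat_lit 0) (nat_lit 12357402431) (nat_lit 152) (nat_lit 1988247552) (nat_lit 152) (nat_lit 583632155) (nat_lit 44) (nat_lit 4) (nat_lit 46) (nat_lit 5) (nat_lit 46) (nat_lit 4) (nat_lit 348) (nat_lit 277) (nat_lit 275)) (XT.lf (nat_lit 0) (nat_lit 7773606524) (nat_lit 152) (nat_lit 1851029018) (nat_lit 0) (nat_lit 5776357880) (nat_lit 42) (nat_lit 5) (nat_lit 44) (nat_lit 4) (nat_lit 42) (nat_lit 4) (nat_lit 349) (nat_lit 277) (nat_lit 274)))) (XT.nd (nat_lit 78) (nat_lit 304) (nat_lit 0) (XT.lf (nat_lit 0) (nat_lit 533650552) (nat_lit 228) (nat_lit 1517313618) (nat_lit 76) (nat_lit 13847849184) (nat_lit 39) (nat_lit 5) (nat_lit 42) (nat_lit 5) (nat_lit 40) (nat_lit 4) (nat_lit 350) (nat_lit 277) (nat_lit 273)) (XT.nd (nat_lit 78) (nat_lit 228) (nat_lit 0) (XT.lf (nat_lit 0) (nat_lit 8891763967) (nat_lit 152) (nat_lit 1720159477) (nat_lit 0) (nat_lit 5808979827) (nat_lit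 38) (nat_lit 5) (nat_lit 40) (nat_lit 4) (nat_lit 38) (nat_lit 4) (nat_lit 351) (nat_lit 277) (nat_lit 272)) (XT.lf (nat_lit 0) (nat_lit 594167656) (nat_lit 228) (nat_lit 2407963072) (nat_lit 76) (nat_lit 13969536049) (nat_lit 35) (nat_lit 5) (nat_lit 38) (nat_lit 5) (nat_lit 36) (nat_lit 4) (nat_lit 352) (nat_lit 277) (nat_lit 271))))))) (XT.nd (nat_lit 936) (nat_lit 608) (nat_lit 0) (XT.nd (nat_lit 468) (nat_lit 532) (nat_lit 0) (XT.nd (nat_lit 234) (nat_lit 304) (nat_lit 0) (XT.nd (nat_lit 78) (nat_lit 304) (nat_lit 0) (XT.lf (nat_lit 0) (nat_lit 8907716647) (nat_lit 152) (nat_lit 3734303158) (nat_lit 0) (nat_lit 4907560514) (nat_lit 34) (nat_lit 5) (nat_lit 36) (nat_lit 4) (nat_lit 34) (nat_lit 4) (nat_lit 353) (nat_lit 277) (nat_lit 270)) (XT.nd (nat_lit 78) (nat_lit 152) (nat_lit 0) (XT.lf (nat_lit 0) (nat_lit 12487765592) (nat_lit 152) (nat_lit 5069555989) (nat_lit 152) (nat_lit 601496570)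 (nat_lit 32) (nat_lit 4) (nat_lit 34) (nat_lit 5) (nat_lit 34) (nat_lit 4) (nat_lit 354) (nat_lit 277) (nat_lit 269)) (XT.lf (nat_lit 0) (nat_lit 7605408262) (nat_lit 152) (nat_lit 8358516118) (nat_lit 0) (nat_lit 2834843606) (nat_lit 30) (nat_lit 5) (nat_lit 32) (nat_lit 4) (nat_lit 30) (nat_lit 4) (nat_lit 355) (nat_lit 277) (nat_lit 268)))) (XT.nd (nat_lit 78) (nat_lit 152) (nat_lit 0) (XT.lf (nat_lit 0) (nat_lit 7644661000) (nat_lit 152) (nat_lit 8505164076) (nat_lit 152) (nat_lit 3322558571) (nat_lit 28) (nat_lit 4) (nat_lit 30) (nat_lit 5) (nat_lit 30) (nat_lit 4) (nat_lit 356) (nat_lit 277) (nat_lit 267)) (XT.nd (nat_lit 78) (nat_lit 0) (nat_lit 0) (XT.lf (nat_lit 0) (nat_lit 4030706772) (nat_lit 76) (nat_lit 701180976) (nat_lit 152) (nat_lit 15449803670) (nat_lit 26) (nat_lit 5) (nat_lit 27) (nat_lit 5) (nat_lit 28) (nat_lit 4) (nat_lit 357) (nat_lit 277) (nat_lit 266)) (XT.lf (nat_lit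 0) (nat_lit 13082166221) (nat_lit 152) (nat_lit 537815210) (nat_lit 0) (nat_lit 7306672479) (nat_lit 26) (nat_lit 5) (nat_lit 28) (nat_lit 4) (nat_lit 26) (nat_lit 4) (nat_lit 358) (nat_lit 277) (nat_lit 265))))) (XT.nd (nat_lit 234) (nat_lit 228) (nat_lit 0) (XT.nd (nat_lit 78) (nat_lit 152) (nat_lit 0) (XT.lf (nat_lit 0) (nat_lit 73380979) (nat_lit 152) (nat_lit 5972099652) (nat_lit 76) (nat_lit 15665320660) (nat_lit 24) (nat_lit 5) (nat_lit 26) (nat_lit 5) (nat_lit 25) (nat_lit 4) (nat_lit 359) (nat_lit 277) (nat_lit 264)) (XT.nd (nat_lit 78) (nat_lit 76) (nat_lit 0) (XT.lf (nat_lit 0) (nat_lit 8128435473) (nat_lit 152) (nat_lit 12540183922) (nat_lit 0) (nat_lit 1866128039) (nat_lit 23) (nat_lit 5) (nat_lit 25) (nat_lit 4) (nat_lit 23) (nat_lit 4) (nat_lit 360) (nat_lit 277) (nat_lit 263)) (XT.lf (nat_lit 0) (nat_lit 3082931126) (nat_lit 76) (nat_lit 13442711679) (nat_lit 76) (nat_lit 6876092071)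 (nat_lit 22) (nat_lit 4) (nat_lit 23) (nat_lit 5) (nat_lit 23) (nat_lit 4) (nat_lit 361) (nat_lit 277) (nat_lit 262)))) (XT.nd (nat_lit 78) (nat_lit 152) (nat_lit 0) (XT.lf (nat_lit 0) (nat_lit 931889215) (nat_lit 152) (nat_lit 4964705619) (nat_lit 76) (nat_lit 18417562819) (nat_lit 21) (nat_lit 5) (nat_lit 23) (nat_lit 5) (nat_lit 22) (nat_lit 4) (nat_lit 362) (nat_lit 277) (nat_lit 261)) (XT.nd (nat_lit 78) (nat_lit 76) (nat_lit 0) (XT.lf (nat_lit 0) (nat_lit 8914859577) (nat_lit 152) (nat_lit 14367378219) (nat_lit 0) (nat_lit 1990140315) (nat_lit 20) (nat_lit 5) (nat_lit 22) (nat_lit 4) (nat_lit 20) (nat_lit 4) (nat_lit 363) (nat_lit 277) (nat_lit 260)) (XT.lf (nat_lit 0) (nat_lit 984984197) (nat_lit 76) (nat_lit 16237855169) (nat_lit 76) (nat_lit 9057916200) (nat_lit 19) (nat_lit 4) (nat_lit 20) (nat_lit 5) (nat_lit 20) (nat_lit 4) (nat_lit 364) (nat_lit 277) (nat_lit 259)))))) (XT.nd (nat_lit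 468) (nat_lit 228) (nat_lit 0) (XT.nd (nat_lit 234) (nat_lit 228) (nat_lit 0) (XT.nd (nat_lit 78) (nat_lit 152) (nat_lit 0) (XT.lf (nat_lit 0) (nat_lit 17046606387) (nat_lit 76) (nat_lit 8858600974) (nat_lit 76) (nat_lit 1435595618) (nat_lit 19) (nat_lit 4) (nat_lit 20) (nat_lit 5) (nat_lit 20) (nat_lit 4) (nat_lit 365) (nat_lit 277) (nat_lit 258)) (XT.nd (nat_lit 78) (nat_lit 0) (nat_lit 0) (XT.lf (nat_lit 0) (nat_lit 5149657113) (nat_lit 76) (nat_lit 1157808042) (nat_lit 152) (nat_lit 22148479188) (nat_lit 17) (nat_lit 5) (nat_lit 18) (nat_lit 5) (nat_lit 19) (nat_lit 4) (nat_lit 366) (nat_lit 277) (nat_lit 257)) (XT.lf (nat_lit 0) (nat_lit 14404066885) (nat_lit 152) (nat_lit 8464016133) (nat_lit 0) (nat_lit 6758469281) (nat_lit 17) (nat_lit 5) (nat_lit 19) (nat_lit 4) (nat_lit 17) (nat_lit 4) (nat_lit 367) (nat_lit 277) (nat_lit 256)))) (XT.nd (nat_lit 78) (nat_lit 152) (nat_lit 0) (XT.lf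 (nat_lit 0) (nat_lit 6920838733) (nat_lit 76) (nat_lit 15893527581) (nat_lit 76) (nat_lit 8044075721) (nat_lit 16) (nat_lit 4) (nat_lit 17) (nat_lit 5) (nat_lit 17) (nat_lit 4) (nat_lit 368) (nat_lit 277) (nat_lit 255)) (XT.nd (nat_lit 78) (nat_lit 152) (nat_lit 0) (XT.lf (nat_lit 0) (nat_lit 22938170845) (nat_lit 76) (nat_lit 8629842890) (nat_lit 76) (nat_lit 586244118) (nat_lit 16) (nat_lit 4) (nat_lit 17) (nat_lit 5) (nat_lit 17) (nat_lit 4) (nat_lit 369) (nat_lit 277) (nat_lit 254)) (XT.lf (nat_lit 0) (nat_lit 5986827336) (nat_lit 76) (nat_lit 1015797259) (nat_lit 152) (nat_lit 26513180706) (nat_lit 14) (nat_lit 5) (nat_lit 15) (nat_lit 5) (nat_lit 16) (nat_lit 4) (nat_lit 370) (nat_lit 277) (nat_lit 253))))) (XT.nd (nat_lit 234) (nat_lit 152) (nat_lit 0) (XT.nd (nat_lit 78) (nat_lit 76) (nat_lit 0) (XT.lf (nat_lit 0) (nat_lit 14967146595) (nat_lit 152) (nat_lit 13170530834) (nat_lit 0)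 (nat_lit 6807343135) (nat_lit 14) (nat_lit 5) (nat_lit 16) (nat_lit 4) (nat_lit 14) (nat_lit 4) (nat_lit 371) (nat_lit 277) (nat_lit 252)) (XT.nd (nat_lit 78) (nat_lit 0) (nat_lit 0) (XT.lf (nat_lit 0) (nat_lit 1645329412) (nat_lit 76) (nat_lit 21563324191) (nat_lit 76) (nat_lit 13240694128) (nat_lit 13) (nat_lit 4) (nat_lit 14) (nat_lit 5) (nat_lit 14) (nat_lit 4) (nat_lit 372) (nat_lit 277) (nat_lit 251)) (XT.lf (nat_lit 0) (nat_lit 17202939047) (nat_lit 76) (nat_lit 14651944523) (nat_lit 76) (nat_lit 6174241504) (nat_lit 13) (nat_lit 4) (nat_lit 14) (nat_lit 5) (nat_lit 14) (nat_lit 4) (nat_lit 373) (nat_lit 277) (nat_lit 250)))) (XT.nd (nat_lit 78) (nat_lit 76) (nat_lit 0) (XT.lf (nat_lit 0) (nat_lit 1083743628) (nat_lit 152) (nat_lit 6425391982) (nat_lit 76) (nat_lit 32182533296) (nat_lit 12) (nat_lit 5) (nat_lit 14) (nat_lit 5) (nat_lit 13) (nat_lit 4) (nat_lit 374) (nat_lit 277) (nat_lit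 249)) (XT.nd (nat_lit 78) (nat_lit 0) (nat_lit 0) (XT.lf (nat_lit 0) (nat_lit 8529542249) (nat_lit 152) (nat_lit 32888580476) (nat_lit 0) (nat_lit 18816724) (nat_lit 11) (nat_lit 5) (nat_lit 13) (nat_lit 4) (nat_lit 11) (nat_lit 4) (nat_lit 375) (nat_lit 277) (nat_lit 248)) (XT.lf (nat_lit 0) (nat_lit 16362044600) (nat_lit 152) (nat_lit 19185744704) (nat_lit 0) (nat_lit 7721262911) (nat_lit 11) (nat_lit 5) (nat_lit 13) (nat_lit 4) (nat_lit 11) (nat_lit 4) (nat_lit 376) (nat_lit 277) (nat_lit 247))))))))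
noncomputable def xc14 : XT := (XT.nd (nat_lit 44538) (nat_lit 0) (nat_lit 760) (XT.nd (nat_lit 858) (nat_lit 152) (nat_lit 0) (XT.nd (nat_lit 390) (nat_lit 76) (nat_lit 0) (XT.nd (nat_lit 156) (nat_lit 152) (nat_lit 0) (XT.nd (nat_lit 78) (nat_lit 76) (nat_lit 0) (XT.lf (nat_lit 0) (nat_lit 24464099350) (nat_lit 152) (nat_lit 5032889385) (nat_lit 0) (nat_lit 15699454647) (nat_lit 11) (nat_lit 5) (nat_lit 13) (nat_lit 4) (nat_lit 11) (nat_lit 4) (nat_lit 377) (nat_lit 277) (nat_lit 246)) (XT.lf (nat_lit 0) (nat_lit 9794814873) (nat_lit 76) (nat_lit 23154335983) (nat_lit 76) (nat_lit 14271726504) (nat_lit 10) (nat_lit 4) (nat_lit 11) (nat_lit 5) (nat_lit 11) (nat_lit 4) (nat_lit 378) (nat_lit 277) (nat_lit 245))) (XT.nd (nat_lit 78) (nat_lit 152) (nat_lit 0) (XT.lf (nat_lit 0) (nat_lit 25251569779) (nat_lit 76) (nat_lit 16545879948) (nat_lit 76) (nat_lit 7550923065) (nat_lit 10) (nat_lit 4) (nat_lit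 11) (nat_lit 5) (nat_lit 11) (nat_lit 4) (nat_lit 379) (nat_lit 277) (nat_lit 244)) (XT.nd (nat_lit 78) (nat_lit 152) (nat_lit 0) (XT.lf (nat_lit 0) (nat_lit 41274012761) (nat_lit 76) (nat_lit 9706708526) (nat_lit 76) (nat_lit 604754114) (nat_lit 10) (nat_lit 4) (nat_lit 11) (nat_lit 5) (nat_lit 11) (nat_lit 4) (nat_lit 380) (nat_lit 277) (nat_lit 243)) (XT.lf (nat_lit 0) (nat_lit 3977105636) (nat_lit 76) (nat_lit 2515979317) (nat_lit 152) (nat_lit 47441381274) (nat_lit 8) (nat_lit 5) (nat_lit 9) (nat_lit 5) (nat_lit 10) (nat_lit 4) (nat_lit 381) (nat_lit 277) (nat_lit 242))))) (XT.nd (nat_lit 234) (nat_lit 76) (nat_lit 0) (XT.nd (nat_lit 78) (nat_lit 0) (nat_lit 0) (XT.lf (nat_lit 0) (nat_lit 13987831033) (nat_lit 152) (nat_lit 37453443814) (nat_lit 0) (nat_lit 4957824497) (nat_lit 8) (nat_lit 5) (nat_lit 10) (nat_lit 4) (nat_lit 8) (nat_lit 4) (nat_lit 382) (nat_lit 277) (nat_lit 241)) (XT.nd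 (nat_lit 78) (nat_lit 0) (nat_lit 0) (XT.lf (nat_lit 0) (nat_lit 21786342159) (nat_lit 152) (nat_lit 24536159562) (nat_lit 0) (nat_lit 12666599226) (nat_lit 8) (nat_lit 5) (nat_lit 10) (nat_lit 4) (nat_lit 8) (nat_lit 4) (nat_lit 383) (nat_lit 277) (nat_lit 240)) (XT.lf (nat_lit 0) (nat_lit 29883001082) (nat_lit 152) (nat_lit 11150567267) (nat_lit 0) (nat_lit 20677794915) (nat_lit 8) (nat_lit 5) (nat_lit 10) (nat_lit 4) (nat_lit 8) (nat_lit 4) (nat_lit 384) (nat_lit 277) (nat_lit 239)))) (XT.nd (nat_lit 78) (nat_lit 0) (nat_lit 0) (XT.lf (nat_lit 0) (nat_lit 2789639442) (nat_lit 76) (nat_lit 35534261841) (nat_lit 76) (nat_lit 26247662118) (nat_lit 7) (nat_lit 4) (nat_lit 8) (nat_lit 5) (nat_lit 8) (nat_lit 4) (nat_lit 385) (nat_lit 277) (nat_lit 238)) (XT.nd (nat_lit 78) (nat_lit 0) (nat_lit 0) (XT.lf (nat_lit 0) (nat_lit 17495616684) (nat_lit 76) (nat_lit 29721191020) (nat_lit 76) (nat_lit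 20357073624) (nat_lit 7) (nat_lit 4) (nat_lit 8) (nat_lit 5) (nat_lit 8) (nat_lit 4) (nat_lit 386) (nat_lit 277) (nat_lit 237)) (XT.lf (nat_lit 0) (nat_lit 32780460538) (nat_lit 76) (nat_lit 23693114108) (nat_lit 76) (nat_lit 14255170356) (nat_lit 7) (nat_lit 4) (nat_lit 8) (nat_lit 5) (nat_lit 8) (nat_lit 4) (nat_lit 387) (nat_lit 277) (nat_lit 236)))))) (XT.nd (nat_lit 468) (nat_lit 0) (nat_lit 0) (XT.nd (nat_lit 234) (nat_lit 0) (nat_lit 0) (XT.nd (nat_lit 78) (nat_lit 152) (nat_lit 0) (XT.lf (nat_lit 0) (nat_lit 48680563488) (nat_lit 76) (nat_lit 17435678540) (nat_lit 76) (nat_lit 7927423974) (nat_lit 7) (nat_lit 4) (nat_lit 8) (nat_lit 5) (nat_lit 8) (nat_lit 4) (nat_lit 388) (nat_lit 277) (nat_lit 235)) (XT.nd (nat_lit 78) (nat_lit 152) (nat_lit 0) (XT.lf (nat_lit 0) (nat_lit 65233782922) (nat_lit 76) (nat_lit 10933985661) (nat_lit 76) (nat_lit 1358768415) (nat_lit 7) (nat_lit 4) (nat_lit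 8) (nat_lit 5) (nat_lit 8) (nat_lit 4) (nat_lit 389) (nat_lit 277) (nat_lit 234)) (XT.lf (nat_lit 0) (nat_lit 1266038981) (nat_lit 76) (nat_lit 4105897082) (nat_lit 152) (nat_lit 75811772977) (nat_lit 5) (nat_lit 5) (nat_lit 6) (nat_lit 5) (nat_lit 7) (nat_lit 4) (nat_lit 390) (nat_lit 277) (nat_lit 233)))) (XT.nd (nat_lit 78) (nat_lit 0) (nat_lit 0) (XT.lf (nat_lit 0) (nat_lit 12499563446) (nat_lit 152) (nat_lit 69438771554) (nat_lit 0) (nat_lit 3082351453) (nat_lit 5) (nat_lit 5) (nat_lit 7) (nat_lit 4) (nat_lit 5) (nat_lit 4) (nat_lit 391) (nat_lit 277) (nat_lit 232)) (XT.nd (nat_lit 78) (nat_lit 0) (nat_lit 0) (XT.lf (nat_lit 0) (nat_lit 19959283301) (nat_lit 152) (nat_lit 58605051670) (nat_lit 0) (nat_lit 10485911229) (nat_lit 5) (nat_lit 5) (nat_lit 7) (nat_lit 4) (nat_lit 5) (nat_lit 4) (nat_lit 392) (nat_lit 277) (nat_lit 231)) (XT.lf (nat_lit 0) (nat_lit 27729388471) (nat_lit 152) (nat_lit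 47351247444) (nat_lit 0) (nat_lit 18202530610) (nat_lit 5) (nat_lit 5) (nat_lit 7) (nat_lit 4) (nat_lit 5) (nat_lit 4) (nat_lit 393) (nat_lit 277) (nat_lit 230))))) (XT.nd (nat_lit 42978) (nat_lit 0) (nat_lit 3344) (XT.nd (nat_lit 78) (nat_lit 0) (nat_lit 0) (XT.lf (nat_lit 0) (nat_lit 35828379206) (nat_lit 152) (nat_lit 35650564102) (nat_lit 0) (nat_lit 26250582498) (nat_lit 5) (nat_lit 5) (nat_lit 7) (nat_lit 4) (nat_lit 5) (nat_lit 4) (nat_lit 394) (nat_lit 277) (nat_lit 229)) (XT.nd (nat_lit 78) (nat_lit 0) (nat_lit 0) (XT.lf (nat_lit 0) (nat_lit 44275538819) (nat_lit 152) (nat_lit 23475142875) (nat_lit 0) (nat_lit 34649228923) (nat_lit 5) (nat_lit 5) (nat_lit 7) (nat_lit 4) (nat_lit 5) (nat_lit 4) (nat_lit 395) (nat_lit 277) (nat_lit 228)) (XT.lf (nat_lit 0) (nat_lit 53090979592) (nat_lit 152) (nat_lit 10795994665) (nat_lit 0) (nat_lit 43418466660) (nat_lit 5) (nat_lit 5) (nat_lit 7) (nat_lit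 4) (nat_lit 5) (nat_lit 4) (nat_lit 396) (nat_lit 277) (nat_lit 227)))) (XT.nd (nat_lit 78) (nat_lit 380) (nat_lit 0) (XT.lf (nat_lit 0) (nat_lit 2180887331) (nat_lit 152) (nat_lit 2224074600) (nat_lit 152) (nat_lit 2224074600) (nat_lit 54) (nat_lit 4) (nat_lit 56) (nat_lit 5) (nat_lit 56) (nat_lit 4) (nat_lit 344) (nat_lit 278) (nat_lit 278)) (XT.nd (nat_lit 78) (nat_lit 152) (nat_lit 0) (XT.lf (nat_lit 0) (nat_lit 3691864683) (nat_lit 228) (nat_lit 7042007797) (nat_lit 0) (nat_lit 2913793401) (nat_lit 51) (nat_lit 5) (nat_lit 54) (nat_lit 4) (nat_lit 51) (nat_lit 4) (nat_lit 345) (nat_lit 278) (nat_lit 277)) (XT.lf (nat_lit 0) (nat_lit 8577450406) (nat_lit 152) (nat_lit 3499608167) (nat_lit 152) (nat_lit 1980516615) (nat_lit 49) (nat_lit 4) (nat_lit 51) (nat_lit 5) (nat_lit 51) (nat_lit 4) (nat_lit 346) (nat_lit 278) (nat_lit 276))))))) (XT.nd (nat_lit 936) (nat_lit 836) (nat_lit 0) (XT.nd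 (nat_lit 468) (nat_lit 684) (nat_lit 0) (XT.nd (nat_lit 234) (nat_lit 532) (nat_lit 0) (XT.nd (nat_lit 78) (nat_lit 304) (nat_lit 0) (XT.lf (nat_lit 0) (nat_lit 6195970261) (nat_lit 228) (nat_lit 4256462649) (nat_lit 0) (nat_lit 4035945852) (nat_lit 46) (nat_lit 5) (nat_lit 49) (nat_lit 4) (nat_lit 46) (nat_lit 4) (nat_lit 347) (nat_lit 278) (nat_lit 275)) (XT.nd (nat_lit 78) (nat_lit 152) (nat_lit 0) (XT.lf (nat_lit 0) (nat_lit 11578487778) (nat_lit 152) (nat_lit 3088242525) (nat_lit 152) (nat_lit 275667410) (nat_lit 44) (nat_lit 4) (nat_lit 46) (nat_lit 5) (nat_lit 46) (nat_lit 4) (nat_lit 348) (nat_lit 278) (nat_lit 274)) (XT.lf (nat_lit 0) (nat_lit 7921239630) (nat_lit 152) (nat_lit 2910226781) (nat_lit 0) (nat_lit 4587208583) (nat_lit 42) (nat_lit 5) (nat_lit 44) (nat_lit 4) (nat_lit 42) (nat_lit 4) (nat_lit 349) (nat_lit 278) (nat_lit 273)))) (XT.nd (nat_lit 78) (nat_lit 304) (nat_lit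 0) (XT.lf (nat_lit 0) (nat_lit 517522185) (nat_lit 228) (nat_lit 2858104434) (nat_lit 76) (nat_lit 12545160398) (nat_lit 39) (nat_lit 5) (nat_lit 42) (nat_lit 5) (nat_lit 40) (nat_lit 4) (nat_lit 350) (nat_lit 278) (nat_lit 272)) (XT.nd (nat_lit 78) (nat_lit 228) (nat_lit 0) (XT.lf (nat_lit 0) (nat_lit 8719638394) (nat_lit 152) (nat_lit 3334471061) (nat_lit 0) (nat_lit 4393469535) (nat_lit 38) (nat_lit 5) (nat_lit 40) (nat_lit 4) (nat_lit 38) (nat_lit 4) (nat_lit 351) (nat_lit 278) (nat_lit 271)) (XT.lf (nat_lit 0) (nat_lit 255979430) (nat_lit 228) (nat_lit 4312568018) (nat_lit 76) (nat_lit 12434170836) (nat_lit 35) (nat_lit 5) (nat_lit 38) (nat_lit 5) (nat_lit 36) (nat_lit 4) (nat_lit 352) (nat_lit 278) (nat_lit 270))))) (XT.nd (nat_lit 234) (nat_lit 304) (nat_lit 0) (XT.nd (nat_lit 78) (nat_lit 304) (nat_lit 0) (XT.lf (nat_lit 0) (nat_lit 8411225268) (nat_lit 152) (nat_lit 5922315557) (nat_lit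 0) (nat_lit 3251859592) (nat_lit 34) (nat_lit 5) (nat_lit 36) (nat_lit 4) (nat_lit 34) (nat_lit 4) (nat_lit 353) (nat_lit 278) (nat_lit 269)) (XT.nd (nat_lit 78) (nat_lit 152) (nat_lit 0) (XT.lf (nat_lit 0) (nat_lit 10033642871) (nat_lit 152) (nat_lit 6885131733) (nat_lit 152) (nat_lit 1280143880) (nat_lit 32) (nat_lit 4) (nat_lit 34) (nat_lit 5) (nat_lit 34) (nat_lit 4) (nat_lit 354) (nat_lit 278) (nat_lit 268)) (XT.lf (nat_lit 0) (nat_lit 6778773698) (nat_lit 152) (nat_lit 11140147331) (nat_lit 0) (nat_lit 924997070) (nat_lit 30) (nat_lit 5) (nat_lit 32) (nat_lit 4) (nat_lit 30) (nat_lit 4) (nat_lit 355) (nat_lit 278) (nat_lit 267)))) (XT.nd (nat_lit 78) (nat_lit 152) (nat_lit 0) (XT.lf (nat_lit 0) (nat_lit 4592856755) (nat_lit 152) (nat_lit 10587586133) (nat_lit 152) (nat_lit 4341389651) (nat_lit 28) (nat_lit 4) (nat_lit 30) (nat_lit 5) (nat_lit 30) (nat_lit 4) (nat_lit 356) (nat_lit 278)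 (nat_lit 266)) (XT.nd (nat_lit 78) (nat_lit 0) (nat_lit 0) (XT.lf (nat_lit 0) (nat_lit 666795446) (nat_lit 76) (nat_lit 2922724319) (nat_lit 152) (nat_lit 16646232012) (nat_lit 26) (nat_lit 5) (nat_lit 27) (nat_lit 5) (nat_lit 28) (nat_lit 4) (nat_lit 357) (nat_lit 278) (nat_lit 265)) (XT.lf (nat_lit 0) (nat_lit 11809824536) (nat_lit 152) (nat_lit 4137664296) (nat_lit 0) (nat_lit 5037139046) (nat_lit 26) (nat_lit 5) (nat_lit 28) (nat_lit 4) (nat_lit 26) (nat_lit 4) (nat_lit 358) (nat_lit 278) (nat_lit 264)))))) (XT.nd (nat_lit 468) (nat_lit 380) (nat_lit 0) (XT.nd (nat_lit 234) (nat_lit 228) (nat_lit 0) (XT.nd (nat_lit 78) (nat_lit 152) (nat_lit 0) (XT.lf (nat_lit 0) (nat_lit 11870542879) (nat_lit 76) (nat_lit 8502142943) (nat_lit 76) (nat_lit 1400343836) (nat_lit 25) (nat_lit 4) (nat_lit 26) (nat_lit 5) (nat_lit 26) (nat_lit 4) (nat_lit 359) (nat_lit 278) (nat_lit 263)) (XT.nd (nat_lit 78)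 (nat_lit 0) (nat_lit 0) (XT.lf (nat_lit 0) (nat_lit 5824709255) (nat_lit 76) (nat_lit 697433552) (nat_lit 152) (nat_lit 16080046311) (nat_lit 23) (nat_lit 5) (nat_lit 24) (nat_lit 5) (nat_lit 25) (nat_lit 4) (nat_lit 360) (nat_lit 278) (nat_lit 262)) (XT.lf (nat_lit 0) (nat_lit 14783898493) (nat_lit 152) (nat_lit 1394539081) (nat_lit 0) (nat_lit 7294814611) (nat_lit 23) (nat_lit 5) (nat_lit 25) (nat_lit 4) (nat_lit 23) (nat_lit 4) (nat_lit 361) (nat_lit 278) (nat_lit 261)))) (XT.nd (nat_lit 78) (nat_lit 152) (nat_lit 0) (XT.lf (nat_lit 0) (nat_lit 14672270956) (nat_lit 76) (nat_lit 8741043917) (nat_lit 76) (nat_lit 975939922) (nat_lit 22) (nat_lit 4) (nat_lit 23) (nat_lit 5) (nat_lit 23) (nat_lit 4) (nat_lit 362) (nat_lit 278) (nat_lit 260)) (XT.nd (nat_lit 78) (nat_lit 0) (nat_lit 0) (XT.lf (nat_lit 0) (nat_lit 5909750441) (nat_lit 76) (nat_lit 956126767) (nat_lit 152) (nat_lit 18486696039)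 (nat_lit 20) (nat_lit 5) (nat_lit 21) (nat_lit 5) (nat_lit 22) (nat_lit 4) (nat_lit 363) (nat_lit 278) (nat_lit 259)) (XT.lf (nat_lit 0) (nat_lit 15064727979) (nat_lit 152) (nat_lit 4272000752) (nat_lit 0) (nat_lit 7027505968) (nat_lit 20) (nat_lit 5) (nat_lit 22) (nat_lit 4) (nat_lit 20) (nat_lit 4) (nat_lit 364) (nat_lit 278) (nat_lit 258))))) (XT.nd (nat_lit 234) (nat_lit 152) (nat_lit 0) (XT.nd (nat_lit 78) (nat_lit 152) (nat_lit 0) (XT.lf (nat_lit 0) (nat_lit 11538005916) (nat_lit 76) (nat_lit 12079444508) (nat_lit 76) (nat_lit 3810730699) (nat_lit 19) (nat_lit 4) (nat_lit 20) (nat_lit 5) (nat_lit 20) (nat_lit 4) (nat_lit 365) (nat_lit 278) (nat_lit 257)) (XT.nd (nat_lit 78) (nat_lit 76) (nat_lit 0) (XT.lf (nat_lit 0) (nat_lit 3844755299) (nat_lit 152) (nat_lit 684328929) (nat_lit 76) (nat_lit 24018949783) (nat_lit 18) (nat_lit 5) (nat_lit 20) (nat_lit 5) (nat_lit 19) (nat_lit 4) (nat_lit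 366) (nat_lit 278) (nat_lit 256)) (XT.lf (nat_lit 0) (nat_lit 11819567038) (nat_lit 152) (nat_lit 14528948794) (nat_lit 0) (nat_lit 3373788328) (nat_lit 17) (nat_lit 5) (nat_lit 19) (nat_lit 4) (nat_lit 17) (nat_lit 4) (nat_lit 367) (nat_lit 278) (nat_lit 255)))) (XT.nd (nat_lit 78) (nat_lit 76) (nat_lit 0) (XT.lf (nat_lit 0) (nat_lit 582207609) (nat_lit 76) (nat_lit 19508054071) (nat_lit 76) (nat_lit 10868128449) (nat_lit 16) (nat_lit 4) (nat_lit 17) (nat_lit 5) (nat_lit 17) (nat_lit 4) (nat_lit 368) (nat_lit 278) (nat_lit 254)) (XT.nd (nat_lit 78) (nat_lit 76) (nat_lit 0) (XT.lf (nat_lit 0) (nat_lit 16453830758) (nat_lit 76) (nat_lit 12313750091) (nat_lit 76) (nat_lit 3488922649) (nat_lit 16) (nat_lit 4) (nat_lit 17) (nat_lit 5) (nat_lit 17) (nat_lit 4) (nat_lit 369) (nat_lit 278) (nat_lit 253)) (XT.lf (nat_lit 0) (nat_lit 4025618225) (nat_lit 152) (nat_lit 828919416) (nat_lit 76) (nat_lit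 28768286585) (nat_lit 15) (nat_lit 5) (nat_lit 17) (nat_lit 5) (nat_lit 16) (nat_lit 4) (nat_lit 370) (nat_lit 278) (nat_lit 252))))))))
noncomputable def xc15 : XT := (XT.nd (nat_lit 1872) (nat_lit 0) (nat_lit 0) (XT.nd (nat_lit 936) (nat_lit 228) (nat_lit 0) (XT.nd (nat_lit 468) (nat_lit 228) (nat_lit 0) (XT.nd (nat_lit 234) (nat_lit 152) (nat_lit 0) (XT.nd (nat_lit 78) (nat_lit 76) (nat_lit 0) (XT.lf (nat_lit 0) (nat_lit 11873174395) (nat_lit 152) (nat_lit 20210794630) (nat_lit 0) (nat_lit 2971586225) (nat_lit 14) (nat_lit 5) (nat_lit 16) (nat_lit 4) (nat_lit 14) (nat_lit 4) (nat_lit 371) (nat_lit 278) (nat_lit 251)) (XT.nd (nat_lit 78) (nat_lit 76) (nat_lit 0) (XT.lf (nat_lit 0) (nat_lit 20030428932) (nat_lit 152) (nat_lit 5558219713) (nat_lit 0) (nat_lit 10973767806) (nat_lit 14) (nat_lit 5) (nat_lit 16) (nat_lit 4) (nat_lit 14) (nat_lit 4) (nat_lit 372) (nat_lit 278) (nat_lit 250)) (XT.lf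 (nat_lit 0) (nat_lit 9761351643) (nat_lit 76) (nat_lit 18794412403) (nat_lit 76) (nat_lit 9590062748) (nat_lit 13) (nat_lit 4) (nat_lit 14) (nat_lit 5) (nat_lit 14) (nat_lit 4) (nat_lit 373) (nat_lit 278) (nat_lit 249)))) (XT.nd (nat_lit 78) (nat_lit 152) (nat_lit 0) (XT.lf (nat_lit 0) (nat_lit 25714281962) (nat_lit 76) (nat_lit 11720657942) (nat_lit 76) (nat_lit 2375652545) (nat_lit 13) (nat_lit 4) (nat_lit 14) (nat_lit 5) (nat_lit 14) (nat_lit 4) (nat_lit 374) (nat_lit 278) (nat_lit 248)) (XT.nd (nat_lit 78) (nat_lit 0) (nat_lit 0) (XT.lf (nat_lit 0) (nat_lit 629141862) (nat_lit 76) (nat_lit 4350220259) (nat_lit 152) (nat_lit 36581305621) (nat_lit 11) (nat_lit 5) (nat_lit 12) (nat_lit 5) (nat_lit 13) (nat_lit 4) (nat_lit 375) (nat_lit 278) (nat_lit 247)) (XT.lf (nat_lit 0) (nat_lit 12710499827) (nat_lit 152) (nat_lit 27301566907) (nat_lit 0) (nat_lit 3383759875) (nat_lit 11) (nat_lit 5) (nat_lit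 13) (nat_lit 4) (nat_lit 11) (nat_lit 4) (nat_lit 376) (nat_lit 278) (nat_lit 246))))) (XT.nd (nat_lit 234) (nat_lit 152) (nat_lit 0) (XT.nd (nat_lit 78) (nat_lit 76) (nat_lit 0) (XT.lf (nat_lit 0) (nat_lit 20755842512) (nat_lit 152) (nat_lit 13257943755) (nat_lit 0) (nat_lit 11311137785) (nat_lit 11) (nat_lit 5) (nat_lit 13) (nat_lit 4) (nat_lit 11) (nat_lit 4) (nat_lit 377) (nat_lit 278) (nat_lit 245)) (XT.nd (nat_lit 78) (nat_lit 0) (nat_lit 0) (XT.lf (nat_lit 0) (nat_lit 1299964744) (nat_lit 76) (nat_lit 27805260089) (nat_lit 76) (nat_lit 18248207956) (nat_lit 10) (nat_lit 4) (nat_lit 11) (nat_lit 5) (nat_lit 11) (nat_lit 4) (nat_lit 378) (nat_lit 278) (nat_lit 244)) (XT.lf (nat_lit 0) (nat_lit 16655671030) (nat_lit 76) (nat_lit 21245441817) (nat_lit 76) (nat_lit 11581392156) (nat_lit 10) (nat_lit 4) (nat_lit 11) (nat_lit 5) (nat_lit 11) (nat_lit 4) (nat_lit 379) (nat_lit 278) (nat_lit 243))))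 (XT.nd (nat_lit 78) (nat_lit 152) (nat_lit 0) (XT.lf (nat_lit 0) (nat_lit 32581877233) (nat_lit 76) (nat_lit 14452592074) (nat_lit 76) (nat_lit 4686640005) (nat_lit 10) (nat_lit 4) (nat_lit 11) (nat_lit 5) (nat_lit 11) (nat_lit 4) (nat_lit 380) (nat_lit 278) (nat_lit 242)) (XT.nd (nat_lit 78) (nat_lit 76) (nat_lit 0) (XT.lf (nat_lit 0) (nat_lit 2404608155) (nat_lit 152) (nat_lit 4981647426) (nat_lit 76) (nat_lit 46687612907) (nat_lit 9) (nat_lit 5) (nat_lit 11) (nat_lit 5) (nat_lit 10) (nat_lit 4) (nat_lit 381) (nat_lit 278) (nat_lit 241)) (XT.lf (nat_lit 0) (nat_lit 9756206797) (nat_lit 152) (nat_lit 46695852646) (nat_lit 0) (nat_lit 90740322) (nat_lit 8) (nat_lit 5) (nat_lit 10) (nat_lit 4) (nat_lit 8) (nat_lit 4) (nat_lit 382) (nat_lit 278) (nat_lit 240)))))) (XT.nd (nat_lit 468) (nat_lit 152) (nat_lit 0) (XT.nd (nat_lit 234) (nat_lit 76) (nat_lit 0) (XT.nd (nat_lit 78) (nat_lit 0) (nat_lit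 0) (XT.lf (nat_lit 0) (nat_lit 17509948285) (nat_lit 152) (nat_lit 33865181160) (nat_lit 0) (nat_lit 7759018575) (nat_lit 8) (nat_lit 5) (nat_lit 10) (nat_lit 4) (nat_lit 8) (nat_lit 4) (nat_lit 383) (nat_lit 278) (nat_lit 239)) (XT.nd (nat_lit 78) (nat_lit 0) (nat_lit 0) (XT.lf (nat_lit 0) (nat_lit 25563969458) (nat_lit 152) (nat_lit 20562077213) (nat_lit 0) (nat_lit 15731646191) (nat_lit 8) (nat_lit 5) (nat_lit 10) (nat_lit 4) (nat_lit 8) (nat_lit 4) (nat_lit 384) (nat_lit 278) (nat_lit 238)) (XT.lf (nat_lit 0) (nat_lit 33937446556) (nat_lit 152) (nat_lit 6754866747) (nat_lit 0) (nat_lit 24027605617) (nat_lit 8) (nat_lit 5) (nat_lit 10) (nat_lit 4) (nat_lit 8) (nat_lit 4) (nat_lit 385) (nat_lit 278) (nat_lit 237)))) (XT.nd (nat_lit 78) (nat_lit 0) (nat_lit 0) (XT.lf (nat_lit 0) (nat_lit 7740366986) (nat_lit 76) (nat_lit 34984354587) (nat_lit 76) (nat_lit 25000687293) (nat_lit 7) (nat_lit 4)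 (nat_lit 8) (nat_lit 5) (nat_lit 8) (nat_lit 4) (nat_lit 386) (nat_lit 278) (nat_lit 236)) (XT.nd (nat_lit 78) (nat_lit 0) (nat_lit 0) (XT.lf (nat_lit 0) (nat_lit 22952536159) (nat_lit 76) (nat_lit 28991421670) (nat_lit 76) (nat_lit 18937443561) (nat_lit 7) (nat_lit 4) (nat_lit 8) (nat_lit 5) (nat_lit 8) (nat_lit 4) (nat_lit 387) (nat_lit 278) (nat_lit 235)) (XT.lf (nat_lit 0) (nat_lit 38783425127) (nat_lit 76) (nat_lit 22767456574) (nat_lit 76) (nat_lit 12646515785) (nat_lit 7) (nat_lit 4) (nat_lit 8) (nat_lit 5) (nat_lit 8) (nat_lit 4) (nat_lit 388) (nat_lit 278) (nat_lit 234))))) (XT.nd (nat_lit 234) (nat_lit 0) (nat_lit 0) (XT.nd (nat_lit 78) (nat_lit 152) (nat_lit 0) (XT.lf (nat_lit 0) (nat_lit 55270726483) (nat_lit 76) (nat_lit 16297640335) (nat_lit 76) (nat_lit 6112925564) (nat_lit 7) (nat_lit 4) (nat_lit 8) (nat_lit 5) (nat_lit 8) (nat_lit 4) (nat_lit 389) (nat_lit 278) (nat_lit 233))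 (XT.nd (nat_lit 78) (nat_lit 76) (nat_lit 0) (XT.lf (nat_lit 0) (nat_lit 665635809) (nat_lit 152) (nat_lit 8894211201) (nat_lit 76) (nat_lit 71781338281) (nat_lit 6) (nat_lit 5) (nat_lit 8) (nat_lit 5) (nat_lit 7) (nat_lit 4) (nat_lit 390) (nat_lit 278) (nat_lit 232)) (XT.lf (nat_lit 0) (nat_lit 5214163234) (nat_lit 76) (nat_lit 2429905736) (nat_lit 152) (nat_lit 77538571901) (nat_lit 5) (nat_lit 5) (nat_lit 6) (nat_lit 5) (nat_lit 7) (nat_lit 4) (nat_lit 391) (nat_lit 278) (nat_lit 231)))) (XT.nd (nat_lit 78) (nat_lit 0) (nat_lit 0) (XT.lf (nat_lit 0) (nat_lit 15049894169) (nat_lit 152) (nat_lit 69170717892) (nat_lit 0) (nat_lit 4993207626) (nat_lit 5) (nat_lit 5) (nat_lit 7) (nat_lit 4) (nat_lit 5) (nat_lit 4) (nat_lit 392) (nat_lit 278) (nat_lit 230)) (XT.nd (nat_lit 78) (nat_lit 0) (nat_lit 0) (XT.lf (nat_lit 0) (nat_lit 22790916562) (nat_lit 152) (nat_lit 57973406884) (nat_lit 0) (nat_lit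 12683291172) (nat_lit 5) (nat_lit 5) (nat_lit 7) (nat_lit 4) (nat_lit 5) (nat_lit 4) (nat_lit 393) (nat_lit 278) (nat_lit 229)) (XT.lf (nat_lit 0) (nat_lit 30862209415) (nat_lit 152) (nat_lit 46326526606) (nat_lit 0) (nat_lit 20706070836) (nat_lit 5) (nat_lit 5) (nat_lit 7) (nat_lit 4) (nat_lit 5) (nat_lit 4) (nat_lit 394) (nat_lit 278) (nat_lit 228))))))) (XT.nd (nat_lit 43524) (nat_lit 0) (nat_lit 1140) (XT.nd (nat_lit 43056) (nat_lit 0) (nat_lit 2508) (XT.nd (nat_lit 42822) (nat_lit 0) (nat_lit 3496) (XT.nd (nat_lit 78) (nat_lit 0) (nat_lit 0) (XT.lf (nat_lit 0) (nat_lit 39282990091) (nat_lit 152) (nat_lit 34202346393) (nat_lit 0) (nat_lit 29080648477) (nat_lit 5) (nat_lit 5) (nat_lit 7) (nat_lit 4) (nat_lit 5) (nat_lit 4) (nat_lit 395) (nat_lit 278) (nat_lit 227)) (XT.nd (nat_lit 42666) (nat_lit 0) (nat_lit 4256) (XT.lf (nat_lit 0) (nat_lit 48073308068) (nat_lit 152) (nat_lit 21571999149)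 (nat_lit 0) (nat_lit 37826963563) (nat_lit 5) (nat_lit 5) (nat_lit 7) (nat_lit 4) (nat_lit 5) (nat_lit 4) (nat_lit 396) (nat_lit 278) (nat_lit 226)) (XT.lf (nat_lit 0) (nat_lit 2993098104) (nat_lit 228) (nat_lit 279823410) (nat_lit 0) (nat_lit 2993098104) (nat_lit 61) (nat_lit 5) (nat_lit 64) (nat_lit 4) (nat_lit 61) (nat_lit 4) (nat_lit 342) (nat_lit 279) (nat_lit 279)))) (XT.nd (nat_lit 78) (nat_lit 380) (nat_lit 0) (XT.lf (nat_lit 0) (nat_lit 1371081786) (nat_lit 228) (nat_lit 10987960277) (nat_lit 0) (nat_lit 529597694) (nat_lit 56) (nat_lit 5) (nat_lit 59) (nat_lit 4) (nat_lit 56) (nat_lit 4) (nat_lit 343) (nat_lit 279) (nat_lit 278)) (XT.nd (nat_lit 78) (nat_lit 228) (nat_lit 0) (XT.lf (nat_lit 0) (nat_lit 4109959689) (nat_lit 152) (nat_lit 5397678683) (nat_lit 152) (nat_lit 3754781170) (nat_lit 54) (nat_lit 4) (nat_lit 56) (nat_lit 5) (nat_lit 56) (nat_lit 4) (nat_lit 344) (nat_lit 279)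 (nat_lit 277)) (XT.lf (nat_lit 0) (nat_lit 4218324005) (nat_lit 228) (nat_lit 7555863029) (nat_lit 0) (nat_lit 1882257608) (nat_lit 51) (nat_lit 5) (nat_lit 54) (nat_lit 4) (nat_lit 51) (nat_lit 4) (nat_lit 345) (nat_lit 279) (nat_lit 276))))) (XT.nd (nat_lit 234) (nat_lit 456) (nat_lit 0) (XT.nd (nat_lit 78) (nat_lit 380) (nat_lit 0) (XT.lf (nat_lit 0) (nat_lit 7809892509) (nat_lit 152) (nat_lit 4651280589) (nat_lit 152) (nat_lit 1609480601) (nat_lit 49) (nat_lit 4) (nat_lit 51) (nat_lit 5) (nat_lit 51) (nat_lit 4) (nat_lit 346) (nat_lit 279) (nat_lit 275)) (XT.nd (nat_lit 78) (nat_lit 152) (nat_lit 0) (XT.lf (nat_lit 0) (nat_lit 6405568661) (nat_lit 228) (nat_lit 5300620642) (nat_lit 0) (nat_lit 2799814083) (nat_lit 46) (nat_lit 5) (nat_lit 49) (nat_lit 4) (nat_lit 46) (nat_lit 4) (nat_lit 347) (nat_lit 279) (nat_lit 274)) (XT.lf (nat_lit 0) (nat_lit 10278236234) (nat_lit 152) (nat_lit 4456643455)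 (nat_lit 152) (nat_lit 229412013) (nat_lit 44) (nat_lit 4) (nat_lit 46) (nat_lit 5) (nat_lit 46) (nat_lit 4) (nat_lit 348) (nat_lit 279) (nat_lit 273)))) (XT.nd (nat_lit 78) (nat_lit 304) (nat_lit 0) (XT.lf (nat_lit 0) (nat_lit 7810913266) (nat_lit 152) (nat_lit 4502175049) (nat_lit 0) (nat_lit 3132161645) (nat_lit 42) (nat_lit 5) (nat_lit 44) (nat_lit 4) (nat_lit 42) (nat_lit 4) (nat_lit 349) (nat_lit 279) (nat_lit 272)) (XT.nd (nat_lit 78) (nat_lit 76) (nat_lit 0) (XT.lf (nat_lit 0) (nat_lit 240809502) (nat_lit 228) (nat_lit 4737187782) (nat_lit 76) (nat_lit 10973700803) (nat_lit 39) (nat_lit 5) (nat_lit 42) (nat_lit 5) (nat_lit 40) (nat_lit 4) (nat_lit 350) (nat_lit 279) (nat_lit 271)) (XT.lf (nat_lit 0) (nat_lit 8285119306) (nat_lit 152) (nat_lit 5492860703) (nat_lit 0) (nat_lit 2705265327) (nat_lit 38) (nat_lit 5) (nat_lit 40) (nat_lit 4) (nat_lit 38) (nat_lit 4) (nat_lit 351) (nat_lit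 279) (nat_lit 270)))))) (XT.nd (nat_lit 468) (nat_lit 532) (nat_lit 0) (XT.nd (nat_lit 234) (nat_lit 380) (nat_lit 0) (XT.nd (nat_lit 78) (nat_lit 304) (nat_lit 0) (XT.lf (nat_lit 0) (nat_lit 10271837969) (nat_lit 152) (nat_lit 6416335816) (nat_lit 152) (nat_lit 354541453) (nat_lit 36) (nat_lit 4) (nat_lit 38) (nat_lit 5) (nat_lit 38) (nat_lit 4) (nat_lit 352) (nat_lit 279) (nat_lit 269)) (XT.nd (nat_lit 78) (nat_lit 152) (nat_lit 0) (XT.lf (nat_lit 0) (nat_lit 7647055928) (nat_lit 152) (nat_lit 8667082751) (nat_lit 0) (nat_lit 1316196506) (nat_lit 34) (nat_lit 5) (nat_lit 36) (nat_lit 4) (nat_lit 34) (nat_lit 4) (nat_lit 353) (nat_lit 279) (nat_lit 268)) (XT.lf (nat_lit 0) (nat_lit 7022283155) (nat_lit 152) (nat_lit 8990551202) (nat_lit 152) (nat_lit 2235289706) (nat_lit 32) (nat_lit 4) (nat_lit 34) (nat_lit 5) (nat_lit 34) (nat_lit 4) (nat_lit 354) (nat_lit 279) (nat_lit 267)))) (XT.nd (nat_lit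 78) (nat_lit 228) (nat_lit 0) (XT.lf (nat_lit 0) (nat_lit 4392849316) (nat_lit 76) (nat_lit 1297940468) (nat_lit 152) (nat_lit 13207169981) (nat_lit 30) (nat_lit 5) (nat_lit 31) (nat_lit 5) (nat_lit 32) (nat_lit 4) (nat_lit 355) (nat_lit 279) (nat_lit 266)) (XT.nd (nat_lit 78) (nat_lit 76) (nat_lit 0) (XT.lf (nat_lit 0) (nat_lit 969065257) (nat_lit 152) (nat_lit 12968071768) (nat_lit 152) (nat_lit 5643412411) (nat_lit 28) (nat_lit 4) (nat_lit 30) (nat_lit 5) (nat_lit 30) (nat_lit 4) (nat_lit 356) (nat_lit 279) (nat_lit 265)) (XT.lf (nat_lit 0) (nat_lit 2200702137) (nat_lit 228) (nat_lit 3213170393) (nat_lit 76) (nat_lit 14884352078) (nat_lit 27) (nat_lit 5) (nat_lit 30) (nat_lit 5) (nat_lit 28) (nat_lit 4) (nat_lit 357) (nat_lit 279) (nat_lit 264))))) (XT.nd (nat_lit 234) (nat_lit 228) (nat_lit 0) (XT.nd (nat_lit 78) (nat_lit 228) (nat_lit 0) (XT.lf (nat_lit 0) (nat_lit 10261800359) (nat_lit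 152) (nat_lit 8314292580) (nat_lit 0) (nat_lit 2475797680) (nat_lit 26) (nat_lit 5) (nat_lit 28) (nat_lit 4) (nat_lit 26) (nat_lit 4) (nat_lit 358) (nat_lit 279) (nat_lit 263)) (XT.nd (nat_lit 78) (nat_lit 152) (nat_lit 0) (XT.lf (nat_lit 0) (nat_lit 7422785194) (nat_lit 76) (nat_lit 11260601367) (nat_lit 76) (nat_lit 3161157149) (nat_lit 25) (nat_lit 4) (nat_lit 26) (nat_lit 5) (nat_lit 26) (nat_lit 4) (nat_lit 359) (nat_lit 279) (nat_lit 262)) (XT.lf (nat_lit 0) (nat_lit 1048169630) (nat_lit 76) (nat_lit 3605096182) (nat_lit 152) (nat_lit 18025229921) (nat_lit 23) (nat_lit 5) (nat_lit 24) (nat_lit 5) (nat_lit 25) (nat_lit 4) (nat_lit 360) (nat_lit 279) (nat_lit 261)))) (XT.nd (nat_lit 78) (nat_lit 228) (nat_lit 0) (XT.lf (nat_lit 0) (nat_lit 12792678436) (nat_lit 152) (nat_lit 6397263027) (nat_lit 0) (nat_lit 4363299129) (nat_lit 23) (nat_lit 5) (nat_lit 25) (nat_lit 4) (nat_lit 23) (nat_lit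 4) (nat_lit 361) (nat_lit 279) (nat_lit 260)) (XT.nd (nat_lit 78) (nat_lit 152) (nat_lit 0) (XT.lf (nat_lit 0) (nat_lit 9397252459) (nat_lit 76) (nat_lit 11884237720) (nat_lit 76) (nat_lit 3191982115) (nat_lit 22) (nat_lit 4) (nat_lit 23) (nat_lit 5) (nat_lit 23) (nat_lit 4) (nat_lit 362) (nat_lit 279) (nat_lit 259)) (XT.lf (nat_lit 0) (nat_lit 296003776) (nat_lit 76) (nat_lit 4255039455) (nat_lit 152) (nat_lit 20890657744) (nat_lit 20) (nat_lit 5) (nat_lit 21) (nat_lit 5) (nat_lit 22) (nat_lit 4) (nat_lit 363) (nat_lit 279) (nat_lit 258))))))))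
noncomputable def xc16 : XT := (XT.nd (nat_lit 1794) (nat_lit 228) (nat_lit 0) (XT.nd (nat_lit 858) (nat_lit 380) (nat_lit 0) (XT.nd (nat_lit 390) (nat_lit 304) (nat_lit 0) (XT.nd (nat_lit 156) (nat_lit 152) (nat_lit 0) (XT.nd (nat_lit 78) (nat_lit 76) (nat_lit 0) (XT.lf (nat_lit 0) (nat_lit 12632021053) (nat_lit 152) (nat_lit 10106507453) (nat_lit 0) (nat_lit 3718379756) (nat_lit 20) (nat_lit 5) (nat_lit 22) (nat_lit 4) (nat_lit 20) (nat_lit 4) (nat_lit 364) (nat_lit 279) (nat_lit 257)) (XT.lf (nat_lit 0) (nat_lit 5428719825) (nat_lit 76) (nat_lit 15615238637) (nat_lit 76) (nat_lit 6481128961) (nat_lit 19) (nat_lit 4) (nat_lit 20) (nat_lit 5) (nat_lit 20) (nat_lit 4) (nat_lit 365) (nat_lit 279) (nat_lit 256))) (XT.nd (nat_lit 78) (nat_lit 76) (nat_lit 0) (XT.lf (nat_lit 0) (nat_lit 1146065591) (nat_lit 152) (nat_lit 7017566409) (nat_lit 76) (nat_lit 20484498906) (nat_lit 18) (nat_lit 5) (nat_lit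 20) (nat_lit 5) (nat_lit 19) (nat_lit 4) (nat_lit 366) (nat_lit 279) (nat_lit 255)) (XT.nd (nat_lit 78) (nat_lit 0) (nat_lit 0) (XT.lf (nat_lit 0) (nat_lit 8619805632) (nat_lit 76) (nat_lit 327906934) (nat_lit 152) (nat_lit 20879891521) (nat_lit 17) (nat_lit 5) (nat_lit 18) (nat_lit 5) (nat_lit 19) (nat_lit 4) (nat_lit 367) (nat_lit 279) (nat_lit 254)) (XT.lf (nat_lit 0) (nat_lit 17134731024) (nat_lit 152) (nat_lit 6247716632) (nat_lit 0) (nat_lit 7683760390) (nat_lit 17) (nat_lit 5) (nat_lit 19) (nat_lit 4) (nat_lit 17) (nat_lit 4) (nat_lit 368) (nat_lit 279) (nat_lit 253))))) (XT.nd (nat_lit 234) (nat_lit 76) (nat_lit 0) (XT.nd (nat_lit 78) (nat_lit 152) (nat_lit 0) (XT.lf (nat_lit 0) (nat_lit 9360794264) (nat_lit 76) (nat_lit 16317310233) (nat_lit 76) (nat_lit 6690242627) (nat_lit 16) (nat_lit 4) (nat_lit 17) (nat_lit 5) (nat_lit 17) (nat_lit 4) (nat_lit 369) (nat_lit 279) (nat_lit 252))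 (XT.nd (nat_lit 78) (nat_lit 76) (nat_lit 0) (XT.lf (nat_lit 0) (nat_lit 816843240) (nat_lit 152) (nat_lit 8136587228) (nat_lit 76) (nat_lit 24784265087) (nat_lit 15) (nat_lit 5) (nat_lit 17) (nat_lit 5) (nat_lit 16) (nat_lit 4) (nat_lit 370) (nat_lit 279) (nat_lit 251)) (XT.lf (nat_lit 0) (nat_lit 7291930836) (nat_lit 76) (nat_lit 1203849945) (nat_lit 152) (nat_lit 26679710817) (nat_lit 14) (nat_lit 5) (nat_lit 15) (nat_lit 5) (nat_lit 16) (nat_lit 4) (nat_lit 371) (nat_lit 279) (nat_lit 250)))) (XT.nd (nat_lit 78) (nat_lit 76) (nat_lit 0) (XT.lf (nat_lit 0) (nat_lit 16576285502) (nat_lit 152) (nat_lit 13344346111) (nat_lit 0) (nat_lit 6764029836) (nat_lit 14) (nat_lit 5) (nat_lit 16) (nat_lit 4) (nat_lit 14) (nat_lit 4) (nat_lit 372) (nat_lit 279) (nat_lit 249)) (XT.nd (nat_lit 78) (nat_lit 0) (nat_lit 0) (XT.lf (nat_lit 0) (nat_lit 1698914819) (nat_lit 76) (nat_lit 23263130747) (nat_lit 76)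 (nat_lit 13310219339) (nat_lit 13) (nat_lit 4) (nat_lit 14) (nat_lit 5) (nat_lit 14) (nat_lit 4) (nat_lit 373) (nat_lit 279) (nat_lit 248)) (XT.lf (nat_lit 0) (nat_lit 17536272523) (nat_lit 76) (nat_lit 16244719873) (nat_lit 76) (nat_lit 6157850615) (nat_lit 13) (nat_lit 4) (nat_lit 14) (nat_lit 5) (nat_lit 14) (nat_lit 4) (nat_lit 374) (nat_lit 279) (nat_lit 247)))))) (XT.nd (nat_lit 468) (nat_lit 152) (nat_lit 0) (XT.nd (nat_lit 234) (nat_lit 76) (nat_lit 0) (XT.nd (nat_lit 78) (nat_lit 76) (nat_lit 0) (XT.lf (nat_lit 0) (nat_lit 1206986543) (nat_lit 152) (nat_lit 7764265479) (nat_lit 76) (nat_lit 32720681603) (nat_lit 12) (nat_lit 5) (nat_lit 14) (nat_lit 5) (nat_lit 13) (nat_lit 4) (nat_lit 375) (nat_lit 279) (nat_lit 246)) (XT.nd (nat_lit 78) (nat_lit 0) (nat_lit 0) (XT.lf (nat_lit 0) (nat_lit 7472458583) (nat_lit 76) (nat_lit 1300157409) (nat_lit 152) (nat_lit 34759446663) (nat_lit 11)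 (nat_lit 5) (nat_lit 12) (nat_lit 5) (nat_lit 13) (nat_lit 4) (nat_lit 376) (nat_lit 279) (nat_lit 245)) (XT.lf (nat_lit 0) (nat_lit 16751449278) (nat_lit 152) (nat_lit 22107513648) (nat_lit 0) (nat_lit 6604197134) (nat_lit 11) (nat_lit 5) (nat_lit 13) (nat_lit 4) (nat_lit 11) (nat_lit 4) (nat_lit 377) (nat_lit 279) (nat_lit 244)))) (XT.nd (nat_lit 78) (nat_lit 76) (nat_lit 0) (XT.lf (nat_lit 0) (nat_lit 25036896028) (nat_lit 152) (nat_lit 7674048939) (nat_lit 0) (nat_lit 14782646355) (nat_lit 11) (nat_lit 5) (nat_lit 13) (nat_lit 4) (nat_lit 11) (nat_lit 4) (nat_lit 378) (nat_lit 279) (nat_lit 243)) (XT.nd (nat_lit 78) (nat_lit 0) (nat_lit 0) (XT.lf (nat_lit 0) (nat_lit 7432691946) (nat_lit 76) (nat_lit 26274941222) (nat_lit 76) (nat_lit 15918789141) (nat_lit 10) (nat_lit 4) (nat_lit 11) (nat_lit 5) (nat_lit 11) (nat_lit 4) (nat_lit 379) (nat_lit 279) (nat_lit 242)) (XT.lf (nat_lit 0) (nat_lit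 23267244073) (nat_lit 76) (nat_lit 19526207364) (nat_lit 76) (nat_lit 9073005371) (nat_lit 10) (nat_lit 4) (nat_lit 11) (nat_lit 5) (nat_lit 11) (nat_lit 4) (nat_lit 380) (nat_lit 279) (nat_lit 241))))) (XT.nd (nat_lit 234) (nat_lit 0) (nat_lit 0) (XT.nd (nat_lit 78) (nat_lit 152) (nat_lit 0) (XT.lf (nat_lit 0) (nat_lit 39714580133) (nat_lit 76) (nat_lit 12526167826) (nat_lit 76) (nat_lit 1980537345) (nat_lit 10) (nat_lit 4) (nat_lit 11) (nat_lit 5) (nat_lit 11) (nat_lit 4) (nat_lit 381) (nat_lit 279) (nat_lit 240)) (XT.nd (nat_lit 78) (nat_lit 0) (nat_lit 0) (XT.lf (nat_lit 0) (nat_lit 66980330) (nat_lit 76) (nat_lit 5204269887) (nat_lit 152) (nat_lit 51423694826) (nat_lit 8) (nat_lit 5) (nat_lit 9) (nat_lit 5) (nat_lit 10) (nat_lit 4) (nat_lit 382) (nat_lit 279) (nat_lit 239)) (XT.lf (nat_lit 0) (nat_lit 12932327328) (nat_lit 152) (nat_lit 43829754950) (nat_lit 0) (nat_lit 2526994342) (nat_lit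 8) (nat_lit 5) (nat_lit 10) (nat_lit 4) (nat_lit 8) (nat_lit 4) (nat_lit 383) (nat_lit 279) (nat_lit 238)))) (XT.nd (nat_lit 78) (nat_lit 0) (nat_lit 0) (XT.lf (nat_lit 0) (nat_lit 20945741119) (nat_lit 152) (nat_lit 30605211334) (nat_lit 0) (nat_lit 10462890460) (nat_lit 8) (nat_lit 5) (nat_lit 10) (nat_lit 4) (nat_lit 8) (nat_lit 4) (nat_lit 384) (nat_lit 279) (nat_lit 237)) (XT.nd (nat_lit 78) (nat_lit 0) (nat_lit 0) (XT.lf (nat_lit 0) (nat_lit 29280544521) (nat_lit 152) (nat_lit 16872820232) (nat_lit 0) (nat_lit 18723867506) (nat_lit 8) (nat_lit 5) (nat_lit 10) (nat_lit 4) (nat_lit 8) (nat_lit 4) (nat_lit 385) (nat_lit 279) (nat_lit 236)) (XT.lf (nat_lit 0) (nat_lit 37956582303) (nat_lit 152) (nat_lit 2599885473) (nat_lit 0) (nat_lit 27329594475) (nat_lit 8) (nat_lit 5) (nat_lit 10) (nat_lit 4) (nat_lit 8) (nat_lit 4) (nat_lit 386) (nat_lit 279) (nat_lit 235))))))) (XT.nd (nat_lit 43368)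 (nat_lit 0) (nat_lit 2204) (XT.nd (nat_lit 468) (nat_lit 0) (nat_lit 0) (XT.nd (nat_lit 234) (nat_lit 152) (nat_lit 0) (XT.nd (nat_lit 78) (nat_lit 0) (nat_lit 0) (XT.lf (nat_lit 0) (nat_lit 12491326898) (nat_lit 76) (nat_lit 34623259077) (nat_lit 76) (nat_lit 23929308568) (nat_lit 7) (nat_lit 4) (nat_lit 8) (nat_lit 5) (nat_lit 8) (nat_lit 4) (nat_lit 387) (nat_lit 279) (nat_lit 234)) (XT.nd (nat_lit 78) (nat_lit 0) (nat_lit 0) (XT.lf (nat_lit 0) (nat_lit 28256297788) (nat_lit 76) (nat_lit 28431170621) (nat_lit 76) (nat_lit 17673446130) (nat_lit 7) (nat_lit 4) (nat_lit 8) (nat_lit 5) (nat_lit 8) (nat_lit 4) (nat_lit 388) (nat_lit 279) (nat_lit 233)) (XT.lf (nat_lit 0) (nat_lit 44680820022) (nat_lit 76) (nat_lit 21991713086) (nat_lit 76) (nat_lit 11173251470) (nat_lit 7) (nat_lit 4) (nat_lit 8) (nat_lit 5) (nat_lit 8) (nat_lit 4) (nat_lit 389) (nat_lit 279) (nat_lit 232)))) (XT.nd (nat_lit 78)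 (nat_lit 152) (nat_lit 0) (XT.lf (nat_lit 0) (nat_lit 61803999606) (nat_lit 76) (nat_lit 15289554431) (nat_lit 76) (nat_lit 4413247934) (nat_lit 7) (nat_lit 4) (nat_lit 8) (nat_lit 5) (nat_lit 8) (nat_lit 4) (nat_lit 390) (nat_lit 279) (nat_lit 231)) (XT.nd (nat_lit 78) (nat_lit 76) (nat_lit 0) (XT.lf (nat_lit 0) (nat_lit 2571482187) (nat_lit 152) (nat_lit 5711288020) (nat_lit 76) (nat_lit 77069156901) (nat_lit 6) (nat_lit 5) (nat_lit 8) (nat_lit 5) (nat_lit 7) (nat_lit 4) (nat_lit 391) (nat_lit 279) (nat_lit 230)) (XT.lf (nat_lit 0) (nat_lit 8998519745) (nat_lit 76) (nat_lit 845018982) (nat_lit 152) (nat_lit 79543582379) (nat_lit 5) (nat_lit 5) (nat_lit 6) (nat_lit 5) (nat_lit 7) (nat_lit 4) (nat_lit 392) (nat_lit 279) (nat_lit 229))))) (XT.nd (nat_lit 234) (nat_lit 0) (nat_lit 0) (XT.nd (nat_lit 78) (nat_lit 0) (nat_lit 0) (XT.lf (nat_lit 0) (nat_lit 17548740398) (nat_lit 152) (nat_lit 69236970577)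 (nat_lit 0) (nat_lit 6836281703) (nat_lit 5) (nat_lit 5) (nat_lit 7) (nat_lit 4) (nat_lit 5) (nat_lit 4) (nat_lit 393) (nat_lit 279) (nat_lit 228)) (XT.nd (nat_lit 78) (nat_lit 0) (nat_lit 0) (XT.lf (nat_lit 0) (nat_lit 25593654314) (nat_lit 152) (nat_lit 57641331314) (nat_lit 0) (nat_lit 14834992584) (nat_lit 5) (nat_lit 5) (nat_lit 7) (nat_lit 4) (nat_lit 5) (nat_lit 4) (nat_lit 394) (nat_lit 279) (nat_lit 227)) (XT.lf (nat_lit 0) (nat_lit 33989312194) (nat_lit 152) (nat_lit 45565952066) (nat_lit 0) (nat_lit 23186647572) (nat_lit 5) (nat_lit 5) (nat_lit 7) (nat_lit 4) (nat_lit 5) (nat_lit 4) (nat_lit 395) (nat_lit 279) (nat_lit 226)))) (XT.nd (nat_lit 42510) (nat_lit 0) (nat_lit 4484) (XT.lf (nat_lit 0) (nat_lit 42755703698) (nat_lit 152) (nat_lit 32982081931) (nat_lit 0) (nat_lit 31911131561) (nat_lit 5) (nat_lit 5) (nat_lit 7) (nat_lit 4) (nat_lit 5) (nat_lit 4) (nat_lit 396) (nat_lit 279)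 (nat_lit 225)) (XT.nd (nat_lit 78) (nat_lit 228) (nat_lit 0) (XT.lf (nat_lit 0) (nat_lit 1550746843) (nat_lit 228) (nat_lit 2832278893) (nat_lit 0) (nat_lit 1550746843) (nat_lit 67) (nat_lit 5) (nat_lit 70) (nat_lit 4) (nat_lit 67) (nat_lit 4) (nat_lit 340) (nat_lit 280) (nat_lit 280)) (XT.lf (nat_lit 0) (nat_lit 9059413581) (nat_lit 228) (nat_lit 2035882702) (nat_lit 228) (nat_lit 1098515705) (nat_lit 64) (nat_lit 4) (nat_lit 67) (nat_lit 5) (nat_lit 67) (nat_lit 4) (nat_lit 341) (nat_lit 280) (nat_lit 279)))))) (XT.nd (nat_lit 468) (nat_lit 912) (nat_lit 0) (XT.nd (nat_lit 234) (nat_lit 608) (nat_lit 0) (XT.nd (nat_lit 78) (nat_lit 532) (nat_lit 0) (XT.lf (nat_lit 0) (nat_lit 6755185574) (nat_lit 228) (nat_lit 802730131) (nat_lit 0) (nat_lit 4978391914) (nat_lit 61) (nat_lit 5) (nat_lit 64) (nat_lit 4) (nat_lit 61) (nat_lit 4) (nat_lit 342) (nat_lit 280) (nat_lit 278)) (XT.nd (nat_lit 78)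 (nat_lit 152) (nat_lit 0) (XT.lf (nat_lit 0) (nat_lit 1397622660) (nat_lit 152) (nat_lit 572757705) (nat_lit 228) (nat_lit 10926855637) (nat_lit 56) (nat_lit 5) (nat_lit 58) (nat_lit 5) (nat_lit 59) (nat_lit 4) (nat_lit 343) (nat_lit 280) (nat_lit 277)) (XT.lf (nat_lit 0) (nat_lit 3353915211) (nat_lit 152) (nat_lit 6605630402) (nat_lit 152) (nat_lit 3315923716) (nat_lit 54) (nat_lit 4) (nat_lit 56) (nat_lit 5) (nat_lit 56) (nat_lit 4) (nat_lit 344) (nat_lit 280) (nat_lit 276)))) (XT.nd (nat_lit 78) (nat_lit 380) (nat_lit 0) (XT.lf (nat_lit 0) (nat_lit 4494424842) (nat_lit 228) (nat_lit 8584796957) (nat_lit 0) (nat_lit 594801266) (nat_lit 51) (nat_lit 5) (nat_lit 54) (nat_lit 4) (nat_lit 51) (nat_lit 4) (nat_lit 345) (nat_lit 280) (nat_lit 275)) (XT.nd (nat_lit 78) (nat_lit 228) (nat_lit 0) (XT.lf (nat_lit 0) (nat_lit 6528598931) (nat_lit 152) (nat_lit 6067818843) (nat_lit 152) (nat_lit 1496068039)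 (nat_lit 49) (nat_lit 4) (nat_lit 51) (nat_lit 5) (nat_lit 51) (nat_lit 4) (nat_lit 346) (nat_lit 280) (nat_lit 274)) (XT.lf (nat_lit 0) (nat_lit 6361299067) (nat_lit 228) (nat_lit 6869964504) (nat_lit 0) (nat_lit 1301229189) (nat_lit 46) (nat_lit 5) (nat_lit 49) (nat_lit 4) (nat_lit 46) (nat_lit 4) (nat_lit 347) (nat_lit 280) (nat_lit 273))))) (XT.nd (nat_lit 234) (nat_lit 456) (nat_lit 0) (XT.nd (nat_lit 78) (nat_lit 304) (nat_lit 0) (XT.lf (nat_lit 0) (nat_lit 8453551960) (nat_lit 152) (nat_lit 6096708437) (nat_lit 152) (nat_lit 444755833) (nat_lit 44) (nat_lit 4) (nat_lit 46) (nat_lit 5) (nat_lit 46) (nat_lit 4) (nat_lit 348) (nat_lit 280) (nat_lit 272)) (XT.nd (nat_lit 78) (nat_lit 152) (nat_lit 0) (XT.lf (nat_lit 0) (nat_lit 7442364749) (nat_lit 152) (nat_lit 6630664176) (nat_lit 0) (nat_lit 1407752671) (nat_lit 42) (nat_lit 5) (nat_lit 44) (nat_lit 4) (nat_lit 42) (nat_lit 4) (nat_lit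 349) (nat_lit 280) (nat_lit 271)) (XT.lf (nat_lit 0) (nat_lit 8829581895) (nat_lit 152) (nat_lit 6858890736) (nat_lit 152) (nat_lit 303060132) (nat_lit 40) (nat_lit 4) (nat_lit 42) (nat_lit 5) (nat_lit 42) (nat_lit 4) (nat_lit 350) (nat_lit 280) (nat_lit 270)))) (XT.nd (nat_lit 78) (nat_lit 304) (nat_lit 0) (XT.lf (nat_lit 0) (nat_lit 7587172134) (nat_lit 152) (nat_lit 8200467427) (nat_lit 0) (nat_lit 740347668) (nat_lit 38) (nat_lit 5) (nat_lit 40) (nat_lit 4) (nat_lit 38) (nat_lit 4) (nat_lit 351) (nat_lit 280) (nat_lit 269)) (XT.nd (nat_lit 78) (nat_lit 152) (nat_lit 0) (XT.lf (nat_lit 0) (nat_lit 7301248029) (nat_lit 152) (nat_lit 8548134429) (nat_lit 152) (nat_lit 1242319122) (nat_lit 36) (nat_lit 4) (nat_lit 38) (nat_lit 5) (nat_lit 38) (nat_lit 4) (nat_lit 352) (nat_lit 280) (nat_lit 268)) (XT.lf (nat_lit 0) (nat_lit 5700222705) (nat_lit 76) (nat_lit 922029584) (nat_lit 152) (nat_lit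 11061973429) (nat_lit 34) (nat_lit 5) (nat_lit 35) (nat_lit 5) (nat_lit 36) (nat_lit 4) (nat_lit 353) (nat_lit 280) (nat_lit 267))))))))
noncomputable def xc17 : XT := (XT.nd (nat_lit 1794) (nat_lit 532) (nat_lit 0) (XT.nd (nat_lit 858) (nat_lit 608) (nat_lit 0) (XT.nd (nat_lit 390) (nat_lit 456) (nat_lit 0) (XT.nd (nat_lit 156) (nat_lit 304) (nat_lit 0) (XT.nd (nat_lit 78) (nat_lit 152) (nat_lit 0) (XT.lf (nat_lit 0) (nat_lit 3446516541) (nat_lit 152) (nat_lit 11390827299) (nat_lit 152) (nat_lit 3469208204) (nat_lit 32) (nat_lit 4) (nat_lit 34) (nat_lit 5) (nat_lit 34) (nat_lit 4) (nat_lit 354) (nat_lit 280) (nat_lit 266)) (XT.lf (nat_lit 0) (nat_lit 500186517) (nat_lit 76) (nat_lit 3838114370) (nat_lit 152) (nat_lit 14622737723) (nat_lit 30) (nat_lit 5) (nat_lit 31) (nat_lit 5) (nat_lit 32) (nat_lit 4) (nat_lit 355) (nat_lit 280) (nat_lit 265))) (XT.nd (nat_lit 78) (nat_lit 304) (nat_lit 0)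 (XT.lf (nat_lit 0) (nat_lit 12448047317) (nat_lit 152) (nat_lit 3172208399) (nat_lit 0) (nat_lit 4027485421) (nat_lit 30) (nat_lit 5) (nat_lit 32) (nat_lit 4) (nat_lit 30) (nat_lit 4) (nat_lit 356) (nat_lit 280) (nat_lit 264)) (XT.nd (nat_lit 78) (nat_lit 76) (nat_lit 0) (XT.lf (nat_lit 0) (nat_lit 542626736) (nat_lit 228) (nat_lit 7658016647) (nat_lit 76) (nat_lit 12169200317) (nat_lit 27) (nat_lit 5) (nat_lit 30) (nat_lit 5) (nat_lit 28) (nat_lit 4) (nat_lit 357) (nat_lit 280) (nat_lit 263)) (XT.lf (nat_lit 0) (nat_lit 8047085773) (nat_lit 76) (nat_lit 391081458) (nat_lit 152) (nat_lit 12690322271) (nat_lit 26) (nat_lit 5) (nat_lit 27) (nat_lit 5) (nat_lit 28) (nat_lit 4) (nat_lit 358) (nat_lit 280) (nat_lit 262))))) (XT.nd (nat_lit 234) (nat_lit 228) (nat_lit 0) (XT.nd (nat_lit 78) (nat_lit 152) (nat_lit 0) (XT.lf (nat_lit 0) (nat_lit 2385579691) (nat_lit 76) (nat_lit 14328164667) (nat_lit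 76) (nat_lit 5211790946) (nat_lit 25) (nat_lit 4) (nat_lit 26) (nat_lit 5) (nat_lit 26) (nat_lit 4) (nat_lit 359) (nat_lit 280) (nat_lit 261)) (XT.nd (nat_lit 78) (nat_lit 76) (nat_lit 0) (XT.lf (nat_lit 0) (nat_lit 2540658789) (nat_lit 152) (nat_lit 4243137094) (nat_lit 76) (nat_lit 15979353957) (nat_lit 24) (nat_lit 5) (nat_lit 26) (nat_lit 5) (nat_lit 25) (nat_lit 4) (nat_lit 360) (nat_lit 280) (nat_lit 260)) (XT.lf (nat_lit 0) (nat_lit 10517606616) (nat_lit 152) (nat_lit 11997311048) (nat_lit 0) (nat_lit 1127861933) (nat_lit 23) (nat_lit 5) (nat_lit 25) (nat_lit 4) (nat_lit 23) (nat_lit 4) (nat_lit 361) (nat_lit 280) (nat_lit 259)))) (XT.nd (nat_lit 78) (nat_lit 152) (nat_lit 0) (XT.lf (nat_lit 0) (nat_lit 3521247230) (nat_lit 76) (nat_lit 15343070294) (nat_lit 76) (nat_lit 5702967231) (nat_lit 22) (nat_lit 4) (nat_lit 23) (nat_lit 5) (nat_lit 23) (nat_lit 4) (nat_lit 362) (nat_lit 280)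 (nat_lit 258)) (XT.nd (nat_lit 78) (nat_lit 76) (nat_lit 0) (XT.lf (nat_lit 0) (nat_lit 2002333031) (nat_lit 152) (nat_lit 5813803559) (nat_lit 76) (nat_lit 17722712308) (nat_lit 21) (nat_lit 5) (nat_lit 23) (nat_lit 5) (nat_lit 22) (nat_lit 4) (nat_lit 363) (nat_lit 280) (nat_lit 257)) (XT.lf (nat_lit 0) (nat_lit 9909458156) (nat_lit 152) (nat_lit 16551648177) (nat_lit 0) (nat_lit 98174618) (nat_lit 20) (nat_lit 5) (nat_lit 22) (nat_lit 4) (nat_lit 20) (nat_lit 4) (nat_lit 364) (nat_lit 280) (nat_lit 256)))))) (XT.nd (nat_lit 468) (nat_lit 304) (nat_lit 0) (XT.nd (nat_lit 234) (nat_lit 76) (nat_lit 0) (XT.nd (nat_lit 78) (nat_lit 228) (nat_lit 0) (XT.lf (nat_lit 0) (nat_lit 18191060113) (nat_lit 152) (nat_lit 1270512123) (nat_lit 0) (nat_lit 8169806690) (nat_lit 20) (nat_lit 5) (nat_lit 22) (nat_lit 4) (nat_lit 20) (nat_lit 4) (nat_lit 365) (nat_lit 280) (nat_lit 255)) (XT.nd (nat_lit 78) (nat_lit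 152) (nat_lit 0) (XT.lf (nat_lit 0) (nat_lit 14773709436) (nat_lit 76) (nat_lit 12102465599) (nat_lit 76) (nat_lit 1881240858) (nat_lit 19) (nat_lit 4) (nat_lit 20) (nat_lit 5) (nat_lit 20) (nat_lit 4) (nat_lit 366) (nat_lit 280) (nat_lit 254)) (XT.lf (nat_lit 0) (nat_lit 1392195887) (nat_lit 76) (nat_lit 4422518153) (nat_lit 152) (nat_lit 24126997304) (nat_lit 17) (nat_lit 5) (nat_lit 18) (nat_lit 5) (nat_lit 19) (nat_lit 4) (nat_lit 367) (nat_lit 280) (nat_lit 253)))) (XT.nd (nat_lit 78) (nat_lit 76) (nat_lit 0) (XT.lf (nat_lit 0) (nat_lit 13891012964) (nat_lit 152) (nat_lit 13686136256) (nat_lit 0) (nat_lit 3606495007) (nat_lit 17) (nat_lit 5) (nat_lit 19) (nat_lit 4) (nat_lit 17) (nat_lit 4) (nat_lit 368) (nat_lit 280) (nat_lit 252)) (XT.nd (nat_lit 78) (nat_lit 0) (nat_lit 0) (XT.lf (nat_lit 0) (nat_lit 1642173180) (nat_lit 76) (nat_lit 20650055600) (nat_lit 76) (nat_lit 10197826241) (nat_lit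 16) (nat_lit 4) (nat_lit 17) (nat_lit 5) (nat_lit 17) (nat_lit 4) (nat_lit 369) (nat_lit 280) (nat_lit 251)) (XT.lf (nat_lit 0) (nat_lit 17764866879) (nat_lit 76) (nat_lit 13354358019) (nat_lit 76) (nat_lit 2742403515) (nat_lit 16) (nat_lit 4) (nat_lit 17) (nat_lit 5) (nat_lit 17) (nat_lit 4) (nat_lit 370) (nat_lit 280) (nat_lit 250))))) (XT.nd (nat_lit 234) (nat_lit 152) (nat_lit 0) (XT.nd (nat_lit 78) (nat_lit 76) (nat_lit 0) (XT.lf (nat_lit 0) (nat_lit 4856530303) (nat_lit 152) (nat_lit 905317172) (nat_lit 76) (nat_lit 29542379521) (nat_lit 15) (nat_lit 5) (nat_lit 17) (nat_lit 5) (nat_lit 16) (nat_lit 4) (nat_lit 371) (nat_lit 280) (nat_lit 249)) (XT.nd (nat_lit 78) (nat_lit 0) (nat_lit 0) (XT.lf (nat_lit 0) (nat_lit 12822183251) (nat_lit 152) (nat_lit 21763694481) (nat_lit 0) (nat_lit 2230970530) (nat_lit 14) (nat_lit 5) (nat_lit 16) (nat_lit 4) (nat_lit 14) (nat_lit 4) (nat_lit 372) (nat_lit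 280) (nat_lit 248)) (XT.lf (nat_lit 0) (nat_lit 21132494234) (nat_lit 152) (nat_lit 6866902873) (nat_lit 0) (nat_lit 10407323663) (nat_lit 14) (nat_lit 5) (nat_lit 16) (nat_lit 4) (nat_lit 14) (nat_lit 4) (nat_lit 373) (nat_lit 280) (nat_lit 247)))) (XT.nd (nat_lit 78) (nat_lit 76) (nat_lit 0) (XT.lf (nat_lit 0) (nat_lit 8723720843) (nat_lit 76) (nat_lit 21103036666) (nat_lit 76) (nat_lit 10250287190) (nat_lit 13) (nat_lit 4) (nat_lit 14) (nat_lit 5) (nat_lit 14) (nat_lit 4) (nat_lit 374) (nat_lit 280) (nat_lit 246)) (XT.nd (nat_lit 78) (nat_lit 76) (nat_lit 0) (XT.lf (nat_lit 0) (nat_lit 25022476896) (nat_lit 76) (nat_lit 13891955277) (nat_lit 76) (nat_lit 2917702084) (nat_lit 13) (nat_lit 4) (nat_lit 14) (nat_lit 5) (nat_lit 14) (nat_lit 4) (nat_lit 375) (nat_lit 280) (nat_lit 245)) (XT.lf (nat_lit 0) (nat_lit 4580484443) (nat_lit 152) (nat_lit 1791587600) (nat_lit 76) (nat_lit 37304768660)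 (nat_lit 12) (nat_lit 5) (nat_lit 14) (nat_lit 5) (nat_lit 13) (nat_lit 4) (nat_lit 376) (nat_lit 280) (nat_lit 244))))))) (XT.nd (nat_lit 936) (nat_lit 152) (nat_lit 0) (XT.nd (nat_lit 468) (nat_lit 152) (nat_lit 0) (XT.nd (nat_lit 234) (nat_lit 152) (nat_lit 0) (XT.nd (nat_lit 78) (nat_lit 0) (nat_lit 0) (XT.lf (nat_lit 0) (nat_lit 12441385377) (nat_lit 152) (nat_lit 31602669468) (nat_lit 0) (nat_lit 1567425693) (nat_lit 11) (nat_lit 5) (nat_lit 13) (nat_lit 4) (nat_lit 11) (nat_lit 4) (nat_lit 377) (nat_lit 280) (nat_lit 243)) (XT.nd (nat_lit 78) (nat_lit 0) (nat_lit 0) (XT.lf (nat_lit 0) (nat_lit 20677842113) (nat_lit 152) (nat_lit 17263563612) (nat_lit 0) (nat_lit 9701980020) (nat_lit 11) (nat_lit 5) (nat_lit 13) (nat_lit 4) (nat_lit 11) (nat_lit 4) (nat_lit 378) (nat_lit 280) (nat_lit 242)) (XT.lf (nat_lit 0) (nat_lit 29230474516) (nat_lit 152) (nat_lit 2391726893) (nat_lit 0) (nat_lit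 18157562511) (nat_lit 11) (nat_lit 5) (nat_lit 13) (nat_lit 4) (nat_lit 11) (nat_lit 4) (nat_lit 379) (nat_lit 280) (nat_lit 241)))) (XT.nd (nat_lit 78) (nat_lit 76) (nat_lit 0) (XT.lf (nat_lit 0) (nat_lit 13307935582) (nat_lit 76) (nat_lit 24939634431) (nat_lit 76) (nat_lit 13774293938) (nat_lit 10) (nat_lit 4) (nat_lit 11) (nat_lit 5) (nat_lit 11) (nat_lit 4) (nat_lit 380) (nat_lit 280) (nat_lit 240)) (XT.nd (nat_lit 78) (nat_lit 76) (nat_lit 0) (XT.lf (nat_lit 0) (nat_lit 29672138694) (nat_lit 76) (nat_lit 17979609302) (nat_lit 76) (nat_lit 6726241678) (nat_lit 10) (nat_lit 4) (nat_lit 11) (nat_lit 5) (nat_lit 11) (nat_lit 4) (nat_lit 381) (nat_lit 280) (nat_lit 239)) (XT.lf (nat_lit 0) (nat_lit 576032526) (nat_lit 152) (nat_lit 10167856959) (nat_lit 76) (nat_lit 46110395451) (nat_lit 9) (nat_lit 5) (nat_lit 11) (nat_lit 5) (nat_lit 10) (nat_lit 4) (nat_lit 382) (nat_lit 280) (nat_lit 238)))))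 (XT.nd (nat_lit 234) (nat_lit 76) (nat_lit 0) (XT.nd (nat_lit 78) (nat_lit 0) (nat_lit 0) (XT.lf (nat_lit 0) (nat_lit 4969931982) (nat_lit 76) (nat_lit 3102471058) (nat_lit 152) (nat_lit 51380957900) (nat_lit 8) (nat_lit 5) (nat_lit 9) (nat_lit 5) (nat_lit 10) (nat_lit 4) (nat_lit 383) (nat_lit 280) (nat_lit 237)) (XT.nd (nat_lit 78) (nat_lit 0) (nat_lit 0) (XT.lf (nat_lit 0) (nat_lit 16017320285) (nat_lit 152) (nat_lit 41303881856) (nat_lit 0) (nat_lit 4858983065) (nat_lit 8) (nat_lit 5) (nat_lit 10) (nat_lit 4) (nat_lit 8) (nat_lit 4) (nat_lit 384) (nat_lit 280) (nat_lit 236)) (XT.lf (nat_lit 0) (nat_lit 24315291595) (nat_lit 152) (nat_lit 27642747290) (nat_lit 0) (nat_lit 13086643560) (nat_lit 8) (nat_lit 5) (nat_lit 10) (nat_lit 4) (nat_lit 8) (nat_lit 4) (nat_lit 385) (nat_lit 280) (nat_lit 235)))) (XT.nd (nat_lit 78) (nat_lit 76) (nat_lit 0) (XT.lf (nat_lit 0) (nat_lit 32956251194) (nat_lit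 152) (nat_lit 13437675899) (nat_lit 0) (nat_lit 21660640479) (nat_lit 8) (nat_lit 5) (nat_lit 10) (nat_lit 4) (nat_lit 8) (nat_lit 4) (nat_lit 386) (nat_lit 280) (nat_lit 234)) (XT.nd (nat_lit 78) (nat_lit 0) (nat_lit 0) (XT.lf (nat_lit 0) (nat_lit 1371925113) (nat_lit 76) (nat_lit 40602035466) (nat_lit 76) (nat_lit 29242650770) (nat_lit 7) (nat_lit 4) (nat_lit 8) (nat_lit 5) (nat_lit 8) (nat_lit 4) (nat_lit 387) (nat_lit 280) (nat_lit 233)) (XT.lf (nat_lit 0) (nat_lit 17074116882) (nat_lit 76) (nat_lit 34440305715) (nat_lit 76) (nat_lit 23020183893) (nat_lit 7) (nat_lit 4) (nat_lit 8) (nat_lit 5) (nat_lit 8) (nat_lit 4) (nat_lit 388) (nat_lit 280) (nat_lit 232)))))) (XT.nd (nat_lit 468) (nat_lit 0) (nat_lit 0) (XT.nd (nat_lit 234) (nat_lit 152) (nat_lit 0) (XT.nd (nat_lit 78) (nat_lit 0) (nat_lit 0) (XT.lf (nat_lit 0) (nat_lit 33438849476) (nat_lit 76) (nat_lit 28029761232) (nat_lit 76) (nat_lit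 16551794529) (nat_lit 7) (nat_lit 4) (nat_lit 8) (nat_lit 5) (nat_lit 8) (nat_lit 4) (nat_lit 389) (nat_lit 280) (nat_lit 231)) (XT.nd (nat_lit 78) (nat_lit 0) (nat_lit 0) (XT.lf (nat_lit 0) (nat_lit 50505086546) (nat_lit 76) (nat_lit 21355138816) (nat_lit 76) (nat_lit 9822081750) (nat_lit 7) (nat_lit 4) (nat_lit 8) (nat_lit 5) (nat_lit 8) (nat_lit 4) (nat_lit 390) (nat_lit 280) (nat_lit 230)) (XT.lf (nat_lit 0) (nat_lit 68313461990) (nat_lit 76) (nat_lit 14400546510) (nat_lit 76) (nat_lit 2815022432) (nat_lit 7) (nat_lit 4) (nat_lit 8) (nat_lit 5) (nat_lit 8) (nat_lit 4) (nat_lit 391) (nat_lit 280) (nat_lit 229)))) (XT.nd (nat_lit 78) (nat_lit 76) (nat_lit 0) (XT.lf (nat_lit 0) (nat_lit 4398527576) (nat_lit 152) (nat_lit 2706481680) (nat_lit 76) (nat_lit 82463432620) (nat_lit 6) (nat_lit 5) (nat_lit 8) (nat_lit 5) (nat_lit 7) (nat_lit 4) (nat_lit 392) (nat_lit 280) (nat_lit 228)) (XT.nd (nat_lit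 78) (nat_lit 0) (nat_lit 0) (XT.lf (nat_lit 0) (nat_lit 11990378606) (nat_lit 152) (nat_lit 81168756534) (nat_lit 0) (nat_lit 647580753) (nat_lit 5) (nat_lit 5) (nat_lit 7) (nat_lit 4) (nat_lit 5) (nat_lit 4) (nat_lit 393) (nat_lit 280) (nat_lit 227)) (XT.lf (nat_lit 0) (nat_lit 20010169726) (nat_lit 152) (nat_lit 69621918236) (nat_lit 0) (nat_lit 8623368982) (nat_lit 5) (nat_lit 5) (nat_lit 7) (nat_lit 4) (nat_lit 5) (nat_lit 4) (nat_lit 394) (nat_lit 280) (nat_lit 226))))) (XT.nd (nat_lit 42510) (nat_lit 0) (nat_lit 4484) (XT.nd (nat_lit 78) (nat_lit 0) (nat_lit 0) (XT.lf (nat_lit 0) (nat_lit 28381901133) (nat_lit 152) (nat_lit 57593016098) (nat_lit 0) (nat_lit 16953192874) (nat_lit 5) (nat_lit 5) (nat_lit 7) (nat_lit 4) (nat_lit 5) (nat_lit 4) (nat_lit 395) (nat_lit 280) (nat_lit 225)) (XT.nd (nat_lit 42354) (nat_lit 0) (nat_lit 5168) (XT.lf (nat_lit 0) (nat_lit 37125505521) (nat_lit 152)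 (nat_lit 45053409877) (nat_lit 0) (nat_lit 25656885342) (nat_lit 5) (nat_lit 5) (nat_lit 7) (nat_lit 4) (nat_lit 5) (nat_lit 4) (nat_lit 396) (nat_lit 280) (nat_lit 224)) (XT.lf (nat_lit 0) (nat_lit 93411422) (nat_lit 228) (nat_lit 5443304846) (nat_lit 0) (nat_lit 93411422) (nat_lit 73) (nat_lit 5) (nat_lit 76) (nat_lit 4) (nat_lit 73) (nat_lit 4) (nat_lit 338) (nat_lit 281) (nat_lit 281)))) (XT.nd (nat_lit 78) (nat_lit 456) (nat_lit 0) (XT.lf (nat_lit 0) (nat_lit 3216976760) (nat_lit 228) (nat_lit 4677279317) (nat_lit 228) (nat_lit 3663516910) (nat_lit 70) (nat_lit 4) (nat_lit 73) (nat_lit 5) (nat_lit 73) (nat_lit 4) (nat_lit 339) (nat_lit 281) (nat_lit 280)) (XT.nd (nat_lit 78) (nat_lit 228) (nat_lit 0) (XT.lf (nat_lit 0) (nat_lit 3944827764) (nat_lit 228) (nat_lit 5903758068) (nat_lit 0) (nat_lit 2023225421) (nat_lit 67) (nat_lit 5) (nat_lit 70) (nat_lit 4) (nat_lit 67) (nat_lit 4) (nat_lit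 340) (nat_lit 281) (nat_lit 279)) (XT.lf (nat_lit 0) (nat_lit 8583109091) (nat_lit 228) (nat_lit 3216751056) (nat_lit 228) (nat_lit 402418240) (nat_lit 64) (nat_lit 4) (nat_lit 67) (nat_lit 5) (nat_lit 67) (nat_lit 4) (nat_lit 341) (nat_lit 281) (nat_lit 278))))))))
noncomputable def xc18 : XT := (XT.nd (nat_lit 1794) (nat_lit 988) (nat_lit 0) (XT.nd (nat_lit 858) (nat_lit 1216) (nat_lit 0) (XT.nd (nat_lit 390) (nat_lit 988) (nat_lit 0) (XT.nd (nat_lit 156) (nat_lit 532) (nat_lit 0) (XT.nd (nat_lit 78) (nat_lit 380) (nat_lit 0) (XT.lf (nat_lit 0) (nat_lit 7287190941) (nat_lit 228) (nat_lit 1532558834) (nat_lit 0) (nat_lit 3729373160) (nat_lit 61) (nat_lit 5) (nat_lit 64) (nat_lit 4) (nat_lit 61) (nat_lit 4) (nat_lit 342) (nat_lit 281) (nat_lit 277)) (XT.lf (nat_lit 0) (nat_lit 388100074) (nat_lit 152) (nat_lit 1942967048) (nat_lit 228) (nat_lit 10583317436) (nat_lit 56) (nat_lit 5) (nat_lit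 58) (nat_lit 5) (nat_lit 59) (nat_lit 4) (nat_lit 343) (nat_lit 281) (nat_lit 276))) (XT.nd (nat_lit 78) (nat_lit 380) (nat_lit 0) (XT.lf (nat_lit 0) (nat_lit 2091841123) (nat_lit 152) (nat_lit 8074880434) (nat_lit 152) (nat_lit 3130531939) (nat_lit 54) (nat_lit 4) (nat_lit 56) (nat_lit 5) (nat_lit 56) (nat_lit 4) (nat_lit 344) (nat_lit 281) (nat_lit 275)) (XT.nd (nat_lit 78) (nat_lit 152) (nat_lit 0) (XT.lf (nat_lit 0) (nat_lit 3559573874) (nat_lit 152) (nat_lit 970580516) (nat_lit 228) (nat_lit 9170008722) (nat_lit 51) (nat_lit 5) (nat_lit 53) (nat_lit 5) (nat_lit 54) (nat_lit 4) (nat_lit 345) (nat_lit 281) (nat_lit 274)) (XT.lf (nat_lit 0) (nat_lit 4730518974) (nat_lit 152) (nat_lit 7752595640) (nat_lit 152) (nat_lit 1640008898) (nat_lit 49) (nat_lit 4) (nat_lit 51) (nat_lit 5) (nat_lit 51) (nat_lit 4) (nat_lit 346) (nat_lit 281) (nat_lit 273))))) (XT.nd (nat_lit 234) (nat_lit 456) (nat_lit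 0) (XT.nd (nat_lit 78) (nat_lit 304) (nat_lit 0) (XT.lf (nat_lit 0) (nat_lit 5594999992) (nat_lit 152) (nat_lit 472598994) (nat_lit 228) (nat_lit 8500174686) (nat_lit 46) (nat_lit 5) (nat_lit 48) (nat_lit 5) (nat_lit 49) (nat_lit 4) (nat_lit 347) (nat_lit 281) (nat_lit 272)) (XT.nd (nat_lit 78) (nat_lit 152) (nat_lit 0) (XT.lf (nat_lit 0) (nat_lit 6100090471) (nat_lit 152) (nat_lit 8012342389) (nat_lit 152) (nat_lit 922211592) (nat_lit 44) (nat_lit 4) (nat_lit 46) (nat_lit 5) (nat_lit 46) (nat_lit 4) (nat_lit 348) (nat_lit 281) (nat_lit 271)) (XT.lf (nat_lit 0) (nat_lit 6218633414) (nat_lit 76) (nat_lit 601868700) (nat_lit 152) (nat_lit 8704678823) (nat_lit 42) (nat_lit 5) (nat_lit 43) (nat_lit 5) (nat_lit 44) (nat_lit 4) (nat_lit 349) (nat_lit 281) (nat_lit 270)))) (XT.nd (nat_lit 78) (nat_lit 304) (nat_lit 0) (XT.lf (nat_lit 0) (nat_lit 5900144010) (nat_lit 152) (nat_lit 9020710350) (nat_lit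 152) (nat_lit 1119471095) (nat_lit 40) (nat_lit 4) (nat_lit 42) (nat_lit 5) (nat_lit 42) (nat_lit 4) (nat_lit 350) (nat_lit 281) (nat_lit 269)) (XT.nd (nat_lit 78) (nat_lit 152) (nat_lit 0) (XT.lf (nat_lit 0) (nat_lit 5102966021) (nat_lit 76) (nat_lit 1535933409) (nat_lit 152) (nat_lit 9942568837) (nat_lit 38) (nat_lit 5) (nat_lit 39) (nat_lit 5) (nat_lit 40) (nat_lit 4) (nat_lit 351) (nat_lit 281) (nat_lit 268)) (XT.lf (nat_lit 0) (nat_lit 3773892504) (nat_lit 152) (nat_lit 10971603890) (nat_lit 152) (nat_lit 2404372839) (nat_lit 36) (nat_lit 4) (nat_lit 38) (nat_lit 5) (nat_lit 38) (nat_lit 4) (nat_lit 352) (nat_lit 281) (nat_lit 267)))))) (XT.nd (nat_lit 468) (nat_lit 456) (nat_lit 0) (XT.nd (nat_lit 234) (nat_lit 380) (nat_lit 0) (XT.nd (nat_lit 78) (nat_lit 228) (nat_lit 0) (XT.lf (nat_lit 0) (nat_lit 1859159302) (nat_lit 76) (nat_lit 3482076449) (nat_lit 152) (nat_lit 12405758733) (nat_lit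 34) (nat_lit 5) (nat_lit 35) (nat_lit 5) (nat_lit 36) (nat_lit 4) (nat_lit 353) (nat_lit 281) (nat_lit 266)) (XT.nd (nat_lit 78) (nat_lit 228) (nat_lit 0) (XT.lf (nat_lit 0) (nat_lit 13396253960) (nat_lit 152) (nat_lit 688468821) (nat_lit 0) (nat_lit 4289416269) (nat_lit 34) (nat_lit 5) (nat_lit 36) (nat_lit 4) (nat_lit 34) (nat_lit 4) (nat_lit 354) (nat_lit 281) (nat_lit 265)) (XT.lf (nat_lit 0) (nat_lit 2747220113) (nat_lit 228) (nat_lit 3896595328) (nat_lit 76) (nat_lit 12388615383) (nat_lit 31) (nat_lit 5) (nat_lit 34) (nat_lit 5) (nat_lit 32) (nat_lit 4) (nat_lit 355) (nat_lit 281) (nat_lit 264)))) (XT.nd (nat_lit 78) (nat_lit 304) (nat_lit 0) (XT.lf (nat_lit 0) (nat_lit 10693446887) (nat_lit 152) (nat_lit 7873672685) (nat_lit 0) (nat_lit 1156933493) (nat_lit 30) (nat_lit 5) (nat_lit 32) (nat_lit 4) (nat_lit 30) (nat_lit 4) (nat_lit 356) (nat_lit 281) (nat_lit 263)) (XT.nd (nat_lit 78)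 (nat_lit 152) (nat_lit 0) (XT.lf (nat_lit 0) (nat_lit 7745546592) (nat_lit 152) (nat_lit 11282186568) (nat_lit 152) (nat_lit 1422828389) (nat_lit 28) (nat_lit 4) (nat_lit 30) (nat_lit 5) (nat_lit 30) (nat_lit 4) (nat_lit 357) (nat_lit 281) (nat_lit 262)) (XT.lf (nat_lit 0) (nat_lit 2740062494) (nat_lit 76) (nat_lit 3618012332) (nat_lit 152) (nat_lit 14855827331) (nat_lit 26) (nat_lit 5) (nat_lit 27) (nat_lit 5) (nat_lit 28) (nat_lit 4) (nat_lit 358) (nat_lit 281) (nat_lit 261))))) (XT.nd (nat_lit 234) (nat_lit 228) (nat_lit 0) (XT.nd (nat_lit 78) (nat_lit 228) (nat_lit 0) (XT.lf (nat_lit 0) (nat_lit 14490340057) (nat_lit 152) (nat_lit 3189587922) (nat_lit 0) (nat_lit 4335331182) (nat_lit 26) (nat_lit 5) (nat_lit 28) (nat_lit 4) (nat_lit 26) (nat_lit 4) (nat_lit 359) (nat_lit 281) (nat_lit 260)) (XT.nd (nat_lit 78) (nat_lit 76) (nat_lit 0) (XT.lf (nat_lit 0) (nat_lit 153551985) (nat_lit 152)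 (nat_lit 10114060932) (nat_lit 76) (nat_lit 12589512273) (nat_lit 24) (nat_lit 5) (nat_lit 26) (nat_lit 5) (nat_lit 25) (nat_lit 4) (nat_lit 360) (nat_lit 281) (nat_lit 259)) (XT.lf (nat_lit 0) (nat_lit 5509636614) (nat_lit 76) (nat_lit 2467347231) (nat_lit 152) (nat_lit 15764387011) (nat_lit 23) (nat_lit 5) (nat_lit 24) (nat_lit 5) (nat_lit 25) (nat_lit 4) (nat_lit 361) (nat_lit 281) (nat_lit 258)))) (XT.nd (nat_lit 78) (nat_lit 228) (nat_lit 0) (XT.lf (nat_lit 0) (nat_lit 16184588645) (nat_lit 152) (nat_lit 2911784989) (nat_lit 0) (nat_lit 5573685499) (nat_lit 23) (nat_lit 5) (nat_lit 25) (nat_lit 4) (nat_lit 23) (nat_lit 4) (nat_lit 362) (nat_lit 281) (nat_lit 257)) (XT.nd (nat_lit 78) (nat_lit 152) (nat_lit 0) (XT.lf (nat_lit 0) (nat_lit 13105071397) (nat_lit 76) (nat_lit 11689182496) (nat_lit 76) (nat_lit 851196920) (nat_lit 22) (nat_lit 4) (nat_lit 23) (nat_lit 5) (nat_lit 23) (nat_lit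 4) (nat_lit 363) (nat_lit 281) (nat_lit 256)) (XT.lf (nat_lit 0) (nat_lit 3010034087) (nat_lit 76) (nat_lit 3918186919) (nat_lit 152) (nat_lit 19742245589) (nat_lit 20) (nat_lit 5) (nat_lit 21) (nat_lit 5) (nat_lit 22) (nat_lit 4) (nat_lit 364) (nat_lit 281) (nat_lit 255))))))) (XT.nd (nat_lit 936) (nat_lit 380) (nat_lit 0) (XT.nd (nat_lit 468) (nat_lit 304) (nat_lit 0) (XT.nd (nat_lit 234) (nat_lit 152) (nat_lit 0) (XT.nd (nat_lit 78) (nat_lit 152) (nat_lit 0) (XT.lf (nat_lit 0) (nat_lit 15097729166) (nat_lit 152) (nat_lit 8482734679) (nat_lit 0) (nat_lit 4165471870) (nat_lit 20) (nat_lit 5) (nat_lit 22) (nat_lit 4) (nat_lit 20) (nat_lit 4) (nat_lit 365) (nat_lit 281) (nat_lit 254)) (XT.nd (nat_lit 78) (nat_lit 76) (nat_lit 0) (XT.lf (nat_lit 0) (nat_lit 7280891942) (nat_lit 76) (nat_lit 16359041090) (nat_lit 76) (nat_lit 5236334919) (nat_lit 19) (nat_lit 4) (nat_lit 20) (nat_lit 5) (nat_lit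 20) (nat_lit 4) (nat_lit 366) (nat_lit 281) (nat_lit 253)) (XT.lf (nat_lit 0) (nat_lit 2442254307) (nat_lit 152) (nat_lit 6346309808) (nat_lit 76) (nat_lit 21275459229) (nat_lit 18) (nat_lit 5) (nat_lit 20) (nat_lit 5) (nat_lit 19) (nat_lit 4) (nat_lit 367) (nat_lit 281) (nat_lit 252)))) (XT.nd (nat_lit 78) (nat_lit 76) (nat_lit 0) (XT.lf (nat_lit 0) (nat_lit 9540977667) (nat_lit 76) (nat_lit 812621575) (nat_lit 152) (nat_lit 20957312592) (nat_lit 17) (nat_lit 5) (nat_lit 18) (nat_lit 5) (nat_lit 19) (nat_lit 4) (nat_lit 368) (nat_lit 281) (nat_lit 251)) (XT.nd (nat_lit 78) (nat_lit 76) (nat_lit 0) (XT.lf (nat_lit 0) (nat_lit 18666492786) (nat_lit 152) (nat_lit 6589270753) (nat_lit 0) (nat_lit 7364215413) (nat_lit 17) (nat_lit 5) (nat_lit 19) (nat_lit 4) (nat_lit 17) (nat_lit 4) (nat_lit 369) (nat_lit 281) (nat_lit 250)) (XT.lf (nat_lit 0) (nat_lit 9282408412) (nat_lit 76) (nat_lit 18083684356)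 (nat_lit 76) (nat_lit 6629287798) (nat_lit 16) (nat_lit 4) (nat_lit 17) (nat_lit 5) (nat_lit 17) (nat_lit 4) (nat_lit 370) (nat_lit 281) (nat_lit 249))))) (XT.nd (nat_lit 234) (nat_lit 152) (nat_lit 0) (XT.nd (nat_lit 78) (nat_lit 76) (nat_lit 0) (XT.lf (nat_lit 0) (nat_lit 985089902) (nat_lit 152) (nat_lit 9599539470) (nat_lit 76) (nat_lit 24856288628) (nat_lit 15) (nat_lit 5) (nat_lit 17) (nat_lit 5) (nat_lit 16) (nat_lit 4) (nat_lit 371) (nat_lit 281) (nat_lit 248)) (XT.nd (nat_lit 78) (nat_lit 0) (nat_lit 0) (XT.lf (nat_lit 0) (nat_lit 6096360246) (nat_lit 76) (nat_lit 2688668720) (nat_lit 152) (nat_lit 28173487297) (nat_lit 14) (nat_lit 5) (nat_lit 15) (nat_lit 5) (nat_lit 16) (nat_lit 4) (nat_lit 372) (nat_lit 281) (nat_lit 247)) (XT.lf (nat_lit 0) (nat_lit 17013191896) (nat_lit 152) (nat_lit 16047440591) (nat_lit 0) (nat_lit 5490226042) (nat_lit 14) (nat_lit 5) (nat_lit 16) (nat_lit 4)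 (nat_lit 14) (nat_lit 4) (nat_lit 373) (nat_lit 281) (nat_lit 246)))) (XT.nd (nat_lit 78) (nat_lit 152) (nat_lit 0) (XT.lf (nat_lit 0) (nat_lit 25569975595) (nat_lit 152) (nat_lit 729830289) (nat_lit 0) (nat_lit 13925506024) (nat_lit 14) (nat_lit 5) (nat_lit 16) (nat_lit 4) (nat_lit 14) (nat_lit 4) (nat_lit 374) (nat_lit 281) (nat_lit 245)) (XT.nd (nat_lit 78) (nat_lit 76) (nat_lit 0) (XT.lf (nat_lit 0) (nat_lit 15454564739) (nat_lit 76) (nat_lit 19143902223) (nat_lit 76) (nat_lit 7383714824) (nat_lit 13) (nat_lit 4) (nat_lit 14) (nat_lit 5) (nat_lit 14) (nat_lit 4) (nat_lit 375) (nat_lit 281) (nat_lit 244)) (XT.lf (nat_lit 0) (nat_lit 151574025) (nat_lit 152) (nat_lit 11562699581) (nat_lit 76) (nat_lit 32115408357) (nat_lit 12) (nat_lit 5) (nat_lit 14) (nat_lit 5) (nat_lit 13) (nat_lit 4) (nat_lit 376) (nat_lit 281) (nat_lit 243)))))) (XT.nd (nat_lit 468) (nat_lit 228) (nat_lit 0) (XT.nd (nat_lit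 234) (nat_lit 76) (nat_lit 0) (XT.nd (nat_lit 78) (nat_lit 0) (nat_lit 0) (XT.lf (nat_lit 0) (nat_lit 3965734569) (nat_lit 76) (nat_lit 3887018584) (nat_lit 152) (nat_lit 37916364545) (nat_lit 11) (nat_lit 5) (nat_lit 12) (nat_lit 5) (nat_lit 13) (nat_lit 4) (nat_lit 377) (nat_lit 281) (nat_lit 242)) (XT.nd (nat_lit 78) (nat_lit 0) (nat_lit 0) (XT.lf (nat_lit 0) (nat_lit 16005188333) (nat_lit 152) (nat_lit 27516778448) (nat_lit 0) (nat_lit 4281580815) (nat_lit 11) (nat_lit 5) (nat_lit 13) (nat_lit 4) (nat_lit 11) (nat_lit 4) (nat_lit 378) (nat_lit 281) (nat_lit 241)) (XT.lf (nat_lit 0) (nat_lit 24513385349) (nat_lit 152) (nat_lit 12730527990) (nat_lit 0) (nat_lit 12697349343) (nat_lit 11) (nat_lit 5) (nat_lit 13) (nat_lit 4) (nat_lit 11) (nat_lit 4) (nat_lit 379) (nat_lit 281) (nat_lit 240)))) (XT.nd (nat_lit 78) (nat_lit 0) (nat_lit 0) (XT.lf (nat_lit 0) (nat_lit 2680239122) (nat_lit 76) (nat_lit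 30705762389) (nat_lit 76) (nat_lit 18801699252) (nat_lit 10) (nat_lit 4) (nat_lit 11) (nat_lit 5) (nat_lit 11) (nat_lit 4) (nat_lit 380) (nat_lit 281) (nat_lit 239)) (XT.nd (nat_lit 78) (nat_lit 0) (nat_lit 0) (XT.lf (nat_lit 0) (nat_lit 18965267997) (nat_lit 76) (nat_lit 23783846220) (nat_lit 76) (nat_lit 11795947719) (nat_lit 10) (nat_lit 4) (nat_lit 11) (nat_lit 5) (nat_lit 11) (nat_lit 4) (nat_lit 381) (nat_lit 281) (nat_lit 238)) (XT.lf (nat_lit 0) (nat_lit 35909970044) (nat_lit 76) (nat_lit 16590237450) (nat_lit 76) (nat_lit 4522495746) (nat_lit 10) (nat_lit 4) (nat_lit 11) (nat_lit 5) (nat_lit 11) (nat_lit 4) (nat_lit 382) (nat_lit 281) (nat_lit 237))))) (XT.nd (nat_lit 234) (nat_lit 76) (nat_lit 0) (XT.nd (nat_lit 78) (nat_lit 76) (nat_lit 0) (XT.lf (nat_lit 0) (nat_lit 2976731614) (nat_lit 152) (nat_lit 6101017673) (nat_lit 76) (nat_lit 50547899025) (nat_lit 9) (nat_lit 5) (nat_lit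 11) (nat_lit 5) (nat_lit 10) (nat_lit 4) (nat_lit 383) (nat_lit 281) (nat_lit 236)) (XT.nd (nat_lit 78) (nat_lit 0) (nat_lit 0) (XT.lf (nat_lit 0) (nat_lit 9662512606) (nat_lit 76) (nat_lit 1115179805) (nat_lit 152) (nat_lit 51579101789) (nat_lit 8) (nat_lit 5) (nat_lit 9) (nat_lit 5) (nat_lit 10) (nat_lit 4) (nat_lit 384) (nat_lit 281) (nat_lit 235)) (XT.lf (nat_lit 0) (nat_lit 19029865746) (nat_lit 152) (nat_lit 39090290605) (nat_lit 0) (nat_lit 7102511815) (nat_lit 8) (nat_lit 5) (nat_lit 10) (nat_lit 4) (nat_lit 8) (nat_lit 4) (nat_lit 385) (nat_lit 281) (nat_lit 234)))) (XT.nd (nat_lit 78) (nat_lit 76) (nat_lit 0) (XT.lf (nat_lit 0) (nat_lit 27637417552) (nat_lit 152) (nat_lit 24949850993) (nat_lit 0) (nat_lit 15646289639) (nat_lit 8) (nat_lit 5) (nat_lit 10) (nat_lit 4) (nat_lit 8) (nat_lit 4) (nat_lit 386) (nat_lit 281) (nat_lit 233)) (XT.nd (nat_lit 78) (nat_lit 76) (nat_lit 0) (XT.lf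 (nat_lit 0) (nat_lit 36610122209) (nat_lit 152) (nat_lit 10228575255) (nat_lit 0) (nat_lit 24558257171) (nat_lit 8) (nat_lit 5) (nat_lit 10) (nat_lit 4) (nat_lit 8) (nat_lit 4) (nat_lit 387) (nat_lit 281) (nat_lit 232)) (XT.lf (nat_lit 0) (nat_lit 5210258168) (nat_lit 76) (nat_lit 40809169319) (nat_lit 76) (nat_lit 28699459400) (nat_lit 7) (nat_lit 4) (nat_lit 8) (nat_lit 5) (nat_lit 8) (nat_lit 4) (nat_lit 388) (nat_lit 281) (nat_lit 231))))))))
noncomputable def xc19 : XT := (XT.nd (nat_lit 43992) (nat_lit 0) (nat_lit 608) (XT.nd (nat_lit 43056) (nat_lit 0) (nat_lit 2508) (XT.nd (nat_lit 468) (nat_lit 0) (nat_lit 0) (XT.nd (nat_lit 234) (nat_lit 152) (nat_lit 0) (XT.nd (nat_lit 78) (nat_lit 0) (nat_lit 0) (XT.lf (nat_lit 0) (nat_lit 21518048249) (nat_lit 76) (nat_lit 34426161076) (nat_lit 76) (nat_lit 22261360794) (nat_lit 7) (nat_lit 4) (nat_lit 8) (nat_lit 5) (nat_lit 8) (nat_lit 4) (nat_lit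 389) (nat_lit 281) (nat_lit 230)) (XT.nd (nat_lit 78) (nat_lit 0) (nat_lit 0) (XT.lf (nat_lit 0) (nat_lit 38530054353) (nat_lit 76) (nat_lit 27777763651) (nat_lit 76) (nat_lit 15560496357) (nat_lit 7) (nat_lit 4) (nat_lit 8) (nat_lit 5) (nat_lit 8) (nat_lit 4) (nat_lit 390) (nat_lit 281) (nat_lit 229)) (XT.lf (nat_lit 0) (nat_lit 56286781257) (nat_lit 76) (nat_lit 20848147526) (nat_lit 76) (nat_lit 8580911649) (nat_lit 7) (nat_lit 4) (nat_lit 8) (nat_lit 5) (nat_lit 8) (nat_lit 4) (nat_lit 391) (nat_lit 281) (nat_lit 228)))) (XT.nd (nat_lit 78) (nat_lit 152) (nat_lit 0) (XT.lf (nat_lit 0) (nat_lit 74830506883) (nat_lit 76) (nat_lit 13620813616) (nat_lit 76) (nat_lit 1305988612) (nat_lit 7) (nat_lit 4) (nat_lit 8) (nat_lit 5) (nat_lit 8) (nat_lit 4) (nat_lit 392) (nat_lit 281) (nat_lit 227)) (XT.nd (nat_lit 78) (nat_lit 0) (nat_lit 0) (XT.lf (nat_lit 0) (nat_lit 145496655) (nat_lit 76) (nat_lit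 6014919422) (nat_lit 152) (nat_lit 87840073430) (nat_lit 5) (nat_lit 5) (nat_lit 6) (nat_lit 5) (nat_lit 7) (nat_lit 4) (nat_lit 393) (nat_lit 281) (nat_lit 226)) (XT.lf (nat_lit 0) (nat_lit 14098461640) (nat_lit 152) (nat_lit 82296812579) (nat_lit 0) (nat_lit 2056410452) (nat_lit 5) (nat_lit 5) (nat_lit 7) (nat_lit 4) (nat_lit 5) (nat_lit 4) (nat_lit 394) (nat_lit 281) (nat_lit 225))))) (XT.nd (nat_lit 42354) (nat_lit 0) (nat_lit 4940) (XT.nd (nat_lit 78) (nat_lit 0) (nat_lit 0) (XT.lf (nat_lit 0) (nat_lit 22447405930) (nat_lit 152) (nat_lit 70312174355) (nat_lit 0) (nat_lit 10365442823) (nat_lit 5) (nat_lit 5) (nat_lit 7) (nat_lit 4) (nat_lit 5) (nat_lit 4) (nat_lit 395) (nat_lit 281) (nat_lit 224)) (XT.nd (nat_lit 42198) (nat_lit 0) (nat_lit 5928) (XT.lf (nat_lit 0) (nat_lit 31169308301) (nat_lit 152) (nat_lit 57814724244) (nat_lit 0) (nat_lit 19049333842) (nat_lit 5) (nat_lit 5) (nat_lit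 7) (nat_lit 4) (nat_lit 5) (nat_lit 4) (nat_lit 396) (nat_lit 281) (nat_lit 223)) (XT.lf (nat_lit 0) (nat_lit 2679484065) (nat_lit 228) (nat_lit 1335785295) (nat_lit 228) (nat_lit 1335785295) (nat_lit 83) (nat_lit 4) (nat_lit 86) (nat_lit 5) (nat_lit 86) (nat_lit 4) (nat_lit 336) (nat_lit 282) (nat_lit 282)))) (XT.nd (nat_lit 78) (nat_lit 684) (nat_lit 0) (XT.lf (nat_lit 0) (nat_lit 4750245025) (nat_lit 304) (nat_lit 2571529624) (nat_lit 0) (nat_lit 3653860982) (nat_lit 79) (nat_lit 5) (nat_lit 83) (nat_lit 4) (nat_lit 79) (nat_lit 4) (nat_lit 337) (nat_lit 282) (nat_lit 281)) (XT.nd (nat_lit 78) (nat_lit 228) (nat_lit 0) (XT.lf (nat_lit 0) (nat_lit 132896079) (nat_lit 152) (nat_lit 987032690) (nat_lit 228) (nat_lit 10144309192) (nat_lit 73) (nat_lit 5) (nat_lit 75) (nat_lit 5) (nat_lit 76) (nat_lit 4) (nat_lit 338) (nat_lit 282) (nat_lit 280)) (XT.lf (nat_lit 0) (nat_lit 2748549711) (nat_lit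 228) (nat_lit 5930695267) (nat_lit 228) (nat_lit 2886994326) (nat_lit 70) (nat_lit 4) (nat_lit 73) (nat_lit 5) (nat_lit 73) (nat_lit 4) (nat_lit 339) (nat_lit 282) (nat_lit 279)))))) (XT.nd (nat_lit 468) (nat_lit 988) (nat_lit 0) (XT.nd (nat_lit 234) (nat_lit 760) (nat_lit 0) (XT.nd (nat_lit 78) (nat_lit 456) (nat_lit 0) (XT.lf (nat_lit 0) (nat_lit 4555235594) (nat_lit 228) (nat_lit 6621928438) (nat_lit 0) (nat_lit 707455664) (nat_lit 67) (nat_lit 5) (nat_lit 70) (nat_lit 4) (nat_lit 67) (nat_lit 4) (nat_lit 340) (nat_lit 282) (nat_lit 278)) (XT.nd (nat_lit 78) (nat_lit 152) (nat_lit 0) (XT.lf (nat_lit 0) (nat_lit 53012025) (nat_lit 304) (nat_lit 4590385015) (nat_lit 76) (nat_lit 7575818709) (nat_lit 63) (nat_lit 5) (nat_lit 67) (nat_lit 5) (nat_lit 64) (nat_lit 4) (nat_lit 341) (nat_lit 282) (nat_lit 277)) (XT.lf (nat_lit 0) (nat_lit 7583478987) (nat_lit 228) (nat_lit 2750870616) (nat_lit 0)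 (nat_lit 2236166090) (nat_lit 61) (nat_lit 5) (nat_lit 64) (nat_lit 4) (nat_lit 61) (nat_lit 4) (nat_lit 342) (nat_lit 282) (nat_lit 276)))) (XT.nd (nat_lit 78) (nat_lit 532) (nat_lit 0) (XT.lf (nat_lit 0) (nat_lit 2459622348) (nat_lit 228) (nat_lit 1102992295) (nat_lit 76) (nat_lit 9377342964) (nat_lit 58) (nat_lit 5) (nat_lit 61) (nat_lit 5) (nat_lit 59) (nat_lit 4) (nat_lit 343) (nat_lit 282) (nat_lit 275)) (XT.nd (nat_lit 78) (nat_lit 228) (nat_lit 0) (XT.lf (nat_lit 0) (nat_lit 320732485) (nat_lit 152) (nat_lit 9808926993) (nat_lit 152) (nat_lit 3198164432) (nat_lit 54) (nat_lit 4) (nat_lit 56) (nat_lit 5) (nat_lit 56) (nat_lit 4) (nat_lit 344) (nat_lit 282) (nat_lit 274)) (XT.lf (nat_lit 0) (nat_lit 1508956710) (nat_lit 152) (nat_lit 2815695544) (nat_lit 228) (nat_lit 9410303130) (nat_lit 51) (nat_lit 5) (nat_lit 53) (nat_lit 5) (nat_lit 54) (nat_lit 4) (nat_lit 345) (nat_lit 282) (nat_lit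 273))))) (XT.nd (nat_lit 234) (nat_lit 456) (nat_lit 0) (XT.nd (nat_lit 78) (nat_lit 380) (nat_lit 0) (XT.lf (nat_lit 0) (nat_lit 2411371495) (nat_lit 152) (nat_lit 9709622353) (nat_lit 152) (nat_lit 2041645895) (nat_lit 49) (nat_lit 4) (nat_lit 51) (nat_lit 5) (nat_lit 51) (nat_lit 4) (nat_lit 346) (nat_lit 282) (nat_lit 272)) (XT.nd (nat_lit 78) (nat_lit 152) (nat_lit 0) (XT.lf (nat_lit 0) (nat_lit 2986697019) (nat_lit 152) (nat_lit 2547924777) (nat_lit 228) (nat_lit 9076982745) (nat_lit 46) (nat_lit 5) (nat_lit 48) (nat_lit 5) (nat_lit 49) (nat_lit 4) (nat_lit 347) (nat_lit 282) (nat_lit 271)) (XT.lf (nat_lit 0) (nat_lit 3212248286) (nat_lit 152) (nat_lit 10208106345) (nat_lit 152) (nat_lit 1662916090) (nat_lit 44) (nat_lit 4) (nat_lit 46) (nat_lit 5) (nat_lit 46) (nat_lit 4) (nat_lit 348) (nat_lit 282) (nat_lit 270)))) (XT.nd (nat_lit 78) (nat_lit 304) (nat_lit 0) (XT.lf (nat_lit 0) (nat_lit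 3031305671) (nat_lit 76) (nat_lit 2923268949) (nat_lit 152) (nat_lit 9623657178) (nat_lit 42) (nat_lit 5) (nat_lit 43) (nat_lit 5) (nat_lit 44) (nat_lit 4) (nat_lit 349) (nat_lit 282) (nat_lit 269)) (XT.nd (nat_lit 78) (nat_lit 152) (nat_lit 0) (XT.lf (nat_lit 0) (nat_lit 2421653502) (nat_lit 152) (nat_lit 11471035022) (nat_lit 152) (nat_lit 2205574640) (nat_lit 40) (nat_lit 4) (nat_lit 42) (nat_lit 5) (nat_lit 42) (nat_lit 4) (nat_lit 350) (nat_lit 282) (nat_lit 268)) (XT.lf (nat_lit 0) (nat_lit 1313917675) (nat_lit 76) (nat_lit 4119395731) (nat_lit 152) (nat_lit 11210644280) (nat_lit 38) (nat_lit 5) (nat_lit 39) (nat_lit 5) (nat_lit 40) (nat_lit 4) (nat_lit 351) (nat_lit 282) (nat_lit 267))))))) (XT.nd (nat_lit 936) (nat_lit 684) (nat_lit 0) (XT.nd (nat_lit 468) (nat_lit 456) (nat_lit 0) (XT.nd (nat_lit 234) (nat_lit 456) (nat_lit 0) (XT.nd (nat_lit 78) (nat_lit 304) (nat_lit 0) (XT.lf (nat_lit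 0) (nat_lit 13376950130) (nat_lit 152) (nat_lit 312409508) (nat_lit 0) (nat_lit 3527905167) (nat_lit 38) (nat_lit 5) (nat_lit 40) (nat_lit 4) (nat_lit 38) (nat_lit 4) (nat_lit 352) (nat_lit 282) (nat_lit 266)) (XT.nd (nat_lit 78) (nat_lit 76) (nat_lit 0) (XT.lf (nat_lit 0) (nat_lit 3812620227) (nat_lit 228) (nat_lit 2505919448) (nat_lit 76) (nat_lit 11499901339) (nat_lit 35) (nat_lit 5) (nat_lit 38) (nat_lit 5) (nat_lit 36) (nat_lit 4) (nat_lit 353) (nat_lit 282) (nat_lit 265)) (XT.lf (nat_lit 0) (nat_lit 11718100026) (nat_lit 152) (nat_lit 5327626191) (nat_lit 0) (nat_lit 1404360791) (nat_lit 34) (nat_lit 5) (nat_lit 36) (nat_lit 4) (nat_lit 34) (nat_lit 4) (nat_lit 354) (nat_lit 282) (nat_lit 264)))) (XT.nd (nat_lit 78) (nat_lit 228) (nat_lit 0) (XT.lf (nat_lit 0) (nat_lit 885968161) (nat_lit 228) (nat_lit 8864380501) (nat_lit 76) (nat_lit 9362791456) (nat_lit 31) (nat_lit 5) (nat_lit 34)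 (nat_lit 5) (nat_lit 32) (nat_lit 4) (nat_lit 355) (nat_lit 282) (nat_lit 263)) (XT.nd (nat_lit 78) (nat_lit 152) (nat_lit 0) (XT.lf (nat_lit 0) (nat_lit 6624163996) (nat_lit 76) (nat_lit 2055436986) (nat_lit 152) (nat_lit 11129752647) (nat_lit 30) (nat_lit 5) (nat_lit 31) (nat_lit 5) (nat_lit 32) (nat_lit 4) (nat_lit 356) (nat_lit 282) (nat_lit 262)) (XT.lf (nat_lit 0) (nat_lit 2180159686) (nat_lit 152) (nat_lit 14671610426) (nat_lit 152) (nat_lit 3688968328) (nat_lit 28) (nat_lit 4) (nat_lit 30) (nat_lit 5) (nat_lit 30) (nat_lit 4) (nat_lit 357) (nat_lit 282) (nat_lit 261))))) (XT.nd (nat_lit 234) (nat_lit 228) (nat_lit 0) (XT.nd (nat_lit 78) (nat_lit 152) (nat_lit 0) (XT.lf (nat_lit 0) (nat_lit 4022780634) (nat_lit 228) (nat_lit 3109227149) (nat_lit 76) (nat_lit 14176137860) (nat_lit 27) (nat_lit 5) (nat_lit 30) (nat_lit 5) (nat_lit 28) (nat_lit 4) (nat_lit 358) (nat_lit 282) (nat_lit 260))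 (XT.nd (nat_lit 78) (nat_lit 76) (nat_lit 0) (XT.lf (nat_lit 0) (nat_lit 12005377039) (nat_lit 152) (nat_lit 9321072539) (nat_lit 0) (nat_lit 787554416) (nat_lit 26) (nat_lit 5) (nat_lit 28) (nat_lit 4) (nat_lit 26) (nat_lit 4) (nat_lit 359) (nat_lit 282) (nat_lit 259)) (XT.lf (nat_lit 0) (nat_lit 6336428394) (nat_lit 76) (nat_lit 14049734431) (nat_lit 76) (nat_lit 2574042678) (nat_lit 25) (nat_lit 4) (nat_lit 26) (nat_lit 5) (nat_lit 26) (nat_lit 4) (nat_lit 360) (nat_lit 282) (nat_lit 258)))) (XT.nd (nat_lit 78) (nat_lit 152) (nat_lit 0) (XT.lf (nat_lit 0) (nat_lit 5167258269) (nat_lit 152) (nat_lit 1231747113) (nat_lit 76) (nat_lit 17450168814) (nat_lit 24) (nat_lit 5) (nat_lit 26) (nat_lit 5) (nat_lit 25) (nat_lit 4) (nat_lit 361) (nat_lit 282) (nat_lit 257)) (XT.nd (nat_lit 78) (nat_lit 76) (nat_lit 0) (XT.lf (nat_lit 0) (nat_lit 13247216836) (nat_lit 152) (nat_lit 9894234934) (nat_lit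 0) (nat_lit 1640249551) (nat_lit 23) (nat_lit 5) (nat_lit 25) (nat_lit 4) (nat_lit 23) (nat_lit 4) (nat_lit 362) (nat_lit 282) (nat_lit 256)) (XT.lf (nat_lit 0) (nat_lit 5841551167) (nat_lit 76) (nat_lit 15871550266) (nat_lit 76) (nat_lit 4048314000) (nat_lit 22) (nat_lit 4) (nat_lit 23) (nat_lit 5) (nat_lit 23) (nat_lit 4) (nat_lit 363) (nat_lit 282) (nat_lit 255)))))) (XT.nd (nat_lit 468) (nat_lit 304) (nat_lit 0) (XT.nd (nat_lit 234) (nat_lit 228) (nat_lit 0) (XT.nd (nat_lit 78) (nat_lit 76) (nat_lit 0) (XT.lf (nat_lit 0) (nat_lit 3692099871) (nat_lit 152) (nat_lit 4534243985) (nat_lit 76) (nat_lit 18564059410) (nat_lit 21) (nat_lit 5) (nat_lit 23) (nat_lit 5) (nat_lit 22) (nat_lit 4) (nat_lit 364) (nat_lit 282) (nat_lit 254)) (XT.nd (nat_lit 78) (nat_lit 0) (nat_lit 0) (XT.lf (nat_lit 0) (nat_lit 11537877488) (nat_lit 76) (nat_lit 168155296) (nat_lit 152) (nat_lit 16164514794) (nat_lit 20)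 (nat_lit 5) (nat_lit 21) (nat_lit 5) (nat_lit 22) (nat_lit 4) (nat_lit 365) (nat_lit 282) (nat_lit 253)) (XT.lf (nat_lit 0) (nat_lit 20109121840) (nat_lit 152) (nat_lit 837487370) (nat_lit 0) (nat_lit 8058451605) (nat_lit 20) (nat_lit 5) (nat_lit 22) (nat_lit 4) (nat_lit 20) (nat_lit 4) (nat_lit 366) (nat_lit 282) (nat_lit 252)))) (XT.nd (nat_lit 78) (nat_lit 152) (nat_lit 0) (XT.lf (nat_lit 0) (nat_lit 15483013308) (nat_lit 76) (nat_lit 13468076207) (nat_lit 76) (nat_lit 1244663228) (nat_lit 19) (nat_lit 4) (nat_lit 20) (nat_lit 5) (nat_lit 20) (nat_lit 4) (nat_lit 367) (nat_lit 282) (nat_lit 251)) (XT.nd (nat_lit 78) (nat_lit 0) (nat_lit 0) (XT.lf (nat_lit 0) (nat_lit 898205002) (nat_lit 76) (nat_lit 5646689027) (nat_lit 152) (nat_lit 24902495061) (nat_lit 17) (nat_lit 5) (nat_lit 18) (nat_lit 5) (nat_lit 19) (nat_lit 4) (nat_lit 368) (nat_lit 282) (nat_lit 250)) (XT.lf (nat_lit 0) (nat_lit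 14749676431) (nat_lit 152) (nat_lit 15439588589) (nat_lit 0) (nat_lit 2570440860) (nat_lit 17) (nat_lit 5) (nat_lit 19) (nat_lit 4) (nat_lit 17) (nat_lit 4) (nat_lit 369) (nat_lit 282) (nat_lit 249))))) (XT.nd (nat_lit 234) (nat_lit 152) (nat_lit 0) (XT.nd (nat_lit 78) (nat_lit 76) (nat_lit 0) (XT.lf (nat_lit 0) (nat_lit 141785114) (nat_lit 76) (nat_lit 23160918296) (nat_lit 76) (nat_lit 10836807311) (nat_lit 16) (nat_lit 4) (nat_lit 17) (nat_lit 5) (nat_lit 17) (nat_lit 4) (nat_lit 370) (nat_lit 282) (nat_lit 248)) (XT.nd (nat_lit 78) (nat_lit 76) (nat_lit 0) (XT.lf (nat_lit 0) (nat_lit 16601972437) (nat_lit 76) (nat_lit 15723583744) (nat_lit 76) (nat_lit 3261496174) (nat_lit 16) (nat_lit 4) (nat_lit 17) (nat_lit 5) (nat_lit 17) (nat_lit 4) (nat_lit 371) (nat_lit 282) (nat_lit 247)) (XT.lf (nat_lit 0) (nat_lit 4488696973) (nat_lit 152) (nat_lit 3481438985) (nat_lit 76) (nat_lit 29138862204)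 (nat_lit 15) (nat_lit 5) (nat_lit 17) (nat_lit 5) (nat_lit 16) (nat_lit 4) (nat_lit 372) (nat_lit 282) (nat_lit 246)))) (XT.nd (nat_lit 78) (nat_lit 76) (nat_lit 0) (XT.lf (nat_lit 0) (nat_lit 12577999680) (nat_lit 152) (nat_lit 25897708706) (nat_lit 0) (nat_lit 229802912) (nat_lit 14) (nat_lit 5) (nat_lit 16) (nat_lit 4) (nat_lit 14) (nat_lit 4) (nat_lit 373) (nat_lit 282) (nat_lit 245)) (XT.nd (nat_lit 78) (nat_lit 76) (nat_lit 0) (XT.lf (nat_lit 0) (nat_lit 21083714966) (nat_lit 152) (nat_lit 10677986214) (nat_lit 0) (nat_lit 8619800371) (nat_lit 14) (nat_lit 5) (nat_lit 16) (nat_lit 4) (nat_lit 14) (nat_lit 4) (nat_lit 374) (nat_lit 282) (nat_lit 244)) (XT.lf (nat_lit 0) (nat_lit 5213339130) (nat_lit 76) (nat_lit 24751785693) (nat_lit 76) (nat_lit 12177663643) (nat_lit 13) (nat_lit 4) (nat_lit 14) (nat_lit 5) (nat_lit 14) (nat_lit 4) (nat_lit 375) (nat_lit 282) (nat_lit 243))))))))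
noncomputable def xc20 : XT := (XT.nd (nat_lit 43758) (nat_lit 0) (nat_lit 1596) (XT.nd (nat_lit 858) (nat_lit 228) (nat_lit 0) (XT.nd (nat_lit 390) (nat_lit 228) (nat_lit 0) (XT.nd (nat_lit 156) (nat_lit 76) (nat_lit 0) (XT.nd (nat_lit 78) (nat_lit 76) (nat_lit 0) (XT.lf (nat_lit 0) (nat_lit 21936733207) (nat_lit 76) (nat_lit 17367050825) (nat_lit 76) (nat_lit 4687969295) (nat_lit 13) (nat_lit 4) (nat_lit 14) (nat_lit 5) (nat_lit 14) (nat_lit 4) (nat_lit 376) (nat_lit 282) (nat_lit 242)) (XT.lf (nat_lit 0) (nat_lit 3021175033) (nat_lit 152) (nat_lit 6646057622) (nat_lit 76) (nat_lit 36267817779) (nat_lit 12) (nat_lit 5) (nat_lit 14) (nat_lit 5) (nat_lit 13) (nat_lit 4) (nat_lit 377) (nat_lit 282) (nat_lit 241))) (XT.nd (nat_lit 78) (nat_lit 0) (nat_lit 0) (XT.lf (nat_lit 0) (nat_lit 9501291557) (nat_lit 76) (nat_lit 1521139890) (nat_lit 152) (nat_lit 36951588098) (nat_lit 11) (nat_lit 5) (nat_lit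 12) (nat_lit 5) (nat_lit 13) (nat_lit 4) (nat_lit 378) (nat_lit 282) (nat_lit 240)) (XT.nd (nat_lit 78) (nat_lit 0) (nat_lit 0) (XT.lf (nat_lit 0) (nat_lit 19473686921) (nat_lit 152) (nat_lit 23753366129) (nat_lit 0) (nat_lit 6886393496) (nat_lit 11) (nat_lit 5) (nat_lit 13) (nat_lit 4) (nat_lit 11) (nat_lit 4) (nat_lit 379) (nat_lit 282) (nat_lit 239)) (XT.lf (nat_lit 0) (nat_lit 28280234780) (nat_lit 152) (nat_lit 8472529398) (nat_lit 0) (nat_lit 15609105991) (nat_lit 11) (nat_lit 5) (nat_lit 13) (nat_lit 4) (nat_lit 11) (nat_lit 4) (nat_lit 380) (nat_lit 282) (nat_lit 238))))) (XT.nd (nat_lit 234) (nat_lit 152) (nat_lit 0) (XT.nd (nat_lit 78) (nat_lit 0) (nat_lit 0) (XT.lf (nat_lit 0) (nat_lit 7568475493) (nat_lit 76) (nat_lit 29952698191) (nat_lit 76) (nat_lit 17201726199) (nat_lit 10) (nat_lit 4) (nat_lit 11) (nat_lit 5) (nat_lit 11) (nat_lit 4) (nat_lit 381) (nat_lit 282) (nat_lit 237))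 (XT.nd (nat_lit 78) (nat_lit 0) (nat_lit 0) (XT.lf (nat_lit 0) (nat_lit 24441364173) (nat_lit 76) (nat_lit 22793655371) (nat_lit 76) (nat_lit 9966642233) (nat_lit 10) (nat_lit 4) (nat_lit 11) (nat_lit 5) (nat_lit 11) (nat_lit 4) (nat_lit 382) (nat_lit 282) (nat_lit 236)) (XT.lf (nat_lit 0) (nat_lit 42017690238) (nat_lit 76) (nat_lit 15344146313) (nat_lit 76) (nat_lit 2444713036) (nat_lit 10) (nat_lit 4) (nat_lit 11) (nat_lit 5) (nat_lit 11) (nat_lit 4) (nat_lit 383) (nat_lit 282) (nat_lit 235)))) (XT.nd (nat_lit 78) (nat_lit 76) (nat_lit 0) (XT.lf (nat_lit 0) (nat_lit 5276949112) (nat_lit 152) (nat_lit 2256198139) (nat_lit 76) (nat_lit 55009066131) (nat_lit 9) (nat_lit 5) (nat_lit 11) (nat_lit 5) (nat_lit 10) (nat_lit 4) (nat_lit 384) (nat_lit 282) (nat_lit 234)) (XT.nd (nat_lit 78) (nat_lit 0) (nat_lit 0) (XT.lf (nat_lit 0) (nat_lit 13411682629) (nat_lit 152) (nat_lit 51242706233) (nat_lit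 0) (nat_lit 757224339) (nat_lit 8) (nat_lit 5) (nat_lit 10) (nat_lit 4) (nat_lit 8) (nat_lit 4) (nat_lit 385) (nat_lit 282) (nat_lit 233)) (XT.lf (nat_lit 0) (nat_lit 21987417489) (nat_lit 152) (nat_lit 37163820696) (nat_lit 0) (nat_lit 9272222074) (nat_lit 8) (nat_lit 5) (nat_lit 10) (nat_lit 4) (nat_lit 8) (nat_lit 4) (nat_lit 386) (nat_lit 282) (nat_lit 232)))))) (XT.nd (nat_lit 468) (nat_lit 152) (nat_lit 0) (XT.nd (nat_lit 234) (nat_lit 0) (nat_lit 0) (XT.nd (nat_lit 78) (nat_lit 76) (nat_lit 0) (XT.lf (nat_lit 0) (nat_lit 30929820292) (nat_lit 152) (nat_lit 22501167887) (nat_lit 0) (nat_lit 18156779996) (nat_lit 8) (nat_lit 5) (nat_lit 10) (nat_lit 4) (nat_lit 8) (nat_lit 4) (nat_lit 387) (nat_lit 282) (nat_lit 231)) (XT.nd (nat_lit 78) (nat_lit 76) (nat_lit 0) (XT.lf (nat_lit 0) (nat_lit 40260182474) (nat_lit 152) (nat_lit 7219836727) (nat_lit 0) (nat_lit 27432051815) (nat_lit 8) (nat_lit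 5) (nat_lit 10) (nat_lit 4) (nat_lit 8) (nat_lit 4) (nat_lit 388) (nat_lit 282) (nat_lit 230)) (XT.lf (nat_lit 0) (nat_lit 8890033479) (nat_lit 76) (nat_lit 41196142143) (nat_lit 76) (nat_lit 28315544471) (nat_lit 7) (nat_lit 4) (nat_lit 8) (nat_lit 5) (nat_lit 8) (nat_lit 4) (nat_lit 389) (nat_lit 282) (nat_lit 229)))) (XT.nd (nat_lit 78) (nat_lit 0) (nat_lit 0) (XT.lf (nat_lit 0) (nat_lit 25850391045) (nat_lit 76) (nat_lit 34572720899) (nat_lit 76) (nat_lit 21642154644) (nat_lit 7) (nat_lit 4) (nat_lit 8) (nat_lit 5) (nat_lit 8) (nat_lit 4) (nat_lit 390) (nat_lit 282) (nat_lit 228)) (XT.nd (nat_lit 78) (nat_lit 0) (nat_lit 0) (XT.lf (nat_lit 0) (nat_lit 43557928864) (nat_lit 76) (nat_lit 27666891614) (nat_lit 76) (nat_lit 14688736232) (nat_lit 7) (nat_lit 4) (nat_lit 8) (nat_lit 5) (nat_lit 8) (nat_lit 4) (nat_lit 391) (nat_lit 282) (nat_lit 227)) (XT.lf (nat_lit 0) (nat_lit 62054807743) (nat_lit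 76) (nat_lit 20462211836) (nat_lit 76) (nat_lit 7438733477) (nat_lit 7) (nat_lit 4) (nat_lit 8) (nat_lit 5) (nat_lit 8) (nat_lit 4) (nat_lit 392) (nat_lit 282) (nat_lit 226))))) (XT.nd (nat_lit 234) (nat_lit 0) (nat_lit 0) (XT.nd (nat_lit 78) (nat_lit 76) (nat_lit 0) (XT.lf (nat_lit 0) (nat_lit 122674078) (nat_lit 152) (nat_lit 12817614722) (nat_lit 76) (nat_lit 81261155022) (nat_lit 6) (nat_lit 5) (nat_lit 8) (nat_lit 5) (nat_lit 7) (nat_lit 4) (nat_lit 393) (nat_lit 282) (nat_lit 225)) (XT.nd (nat_lit 78) (nat_lit 0) (nat_lit 0) (XT.lf (nat_lit 0) (nat_lit 2913642171) (nat_lit 76) (nat_lit 4978670414) (nat_lit 152) (nat_lit 90765380275) (nat_lit 5) (nat_lit 5) (nat_lit 6) (nat_lit 5) (nat_lit 7) (nat_lit 4) (nat_lit 394) (nat_lit 282) (nat_lit 224)) (XT.lf (nat_lit 0) (nat_lit 16171696833) (nat_lit 152) (nat_lit 83753710549) (nat_lit 0) (nat_lit 3407712299) (nat_lit 5) (nat_lit 5) (nat_lit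 7) (nat_lit 4) (nat_lit 5) (nat_lit 4) (nat_lit 395) (nat_lit 282) (nat_lit 223)))) (XT.nd (nat_lit 42042) (nat_lit 0) (nat_lit 6156) (XT.lf (nat_lit 0) (nat_lit 24872930618) (nat_lit 152) (nat_lit 71296409112) (nat_lit 0) (nat_lit 12072744797) (nat_lit 5) (nat_lit 5) (nat_lit 7) (nat_lit 4) (nat_lit 5) (nat_lit 4) (nat_lit 396) (nat_lit 282) (nat_lit 222)) (XT.nd (nat_lit 78) (nat_lit 608) (nat_lit 0) (XT.lf (nat_lit 0) (nat_lit 2374165849) (nat_lit 304) (nat_lit 347445026) (nat_lit 0) (nat_lit 2374165849) (nat_lit 94) (nat_lit 5) (nat_lit 98) (nat_lit 4) (nat_lit 94) (nat_lit 4) (nat_lit 334) (nat_lit 283) (nat_lit 283)) (XT.lf (nat_lit 0) (nat_lit 1720192780) (nat_lit 304) (nat_lit 8187997711) (nat_lit 0) (nat_lit 534453437) (nat_lit 86) (nat_lit 5) (nat_lit 90) (nat_lit 4) (nat_lit 86) (nat_lit 4) (nat_lit 335) (nat_lit 283) (nat_lit 282))))))) (XT.nd (nat_lit 936) (nat_lit 1672) (nat_lit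 0) (XT.nd (nat_lit 468) (nat_lit 1140) (nat_lit 0) (XT.nd (nat_lit 234) (nat_lit 912) (nat_lit 0) (XT.nd (nat_lit 78) (nat_lit 608) (nat_lit 0) (XT.lf (nat_lit 0) (nat_lit 5138398719) (nat_lit 228) (nat_lit 3941432972) (nat_lit 228) (nat_lit 1626418065) (nat_lit 83) (nat_lit 4) (nat_lit 86) (nat_lit 5) (nat_lit 86) (nat_lit 4) (nat_lit 336) (nat_lit 283) (nat_lit 281)) (XT.nd (nat_lit 78) (nat_lit 304) (nat_lit 0) (XT.lf (nat_lit 0) (nat_lit 5626402789) (nat_lit 304) (nat_lit 3022933175) (nat_lit 0) (nat_lit 2334640222) (nat_lit 79) (nat_lit 5) (nat_lit 83) (nat_lit 4) (nat_lit 79) (nat_lit 4) (nat_lit 337) (nat_lit 283) (nat_lit 280)) (XT.lf (nat_lit 0) (nat_lit 1833903248) (nat_lit 304) (nat_lit 563391620) (nat_lit 76) (nat_lit 8879180871) (nat_lit 75) (nat_lit 5) (nat_lit 79) (nat_lit 5) (nat_lit 76) (nat_lit 4) (nat_lit 338) (nat_lit 283) (nat_lit 279)))) (XT.nd (nat_lit 78) (nat_lit 532)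 (nat_lit 0) (XT.lf (nat_lit 0) (nat_lit 1810580311) (nat_lit 228) (nat_lit 7426749084) (nat_lit 228) (nat_lit 2345862702) (nat_lit 70) (nat_lit 4) (nat_lit 73) (nat_lit 5) (nat_lit 73) (nat_lit 4) (nat_lit 339) (nat_lit 283) (nat_lit 278)) (XT.nd (nat_lit 78) (nat_lit 304) (nat_lit 0) (XT.lf (nat_lit 0) (nat_lit 4076649444) (nat_lit 152) (nat_lit 865844107) (nat_lit 228) (nat_lit 6963257741) (nat_lit 67) (nat_lit 5) (nat_lit 69) (nat_lit 5) (nat_lit 70) (nat_lit 4) (nat_lit 340) (nat_lit 283) (nat_lit 277)) (XT.lf (nat_lit 0) (nat_lit 266718863) (nat_lit 304) (nat_lit 6051412460) (nat_lit 76) (nat_lit 5926501448) (nat_lit 63) (nat_lit 5) (nat_lit 67) (nat_lit 5) (nat_lit 64) (nat_lit 4) (nat_lit 341) (nat_lit 283) (nat_lit 276))))) (XT.nd (nat_lit 234) (nat_lit 608) (nat_lit 0) (XT.nd (nat_lit 78) (nat_lit 380) (nat_lit 0) (XT.lf (nat_lit 0) (nat_lit 7644755160) (nat_lit 228) (nat_lit 4460566220)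 (nat_lit 0) (nat_lit 495215450) (nat_lit 61) (nat_lit 5) (nat_lit 64) (nat_lit 4) (nat_lit 61) (nat_lit 4) (nat_lit 342) (nat_lit 283) (nat_lit 275)) (XT.nd (nat_lit 78) (nat_lit 152) (nat_lit 0) (XT.lf (nat_lit 0) (nat_lit 2354118171) (nat_lit 228) (nat_lit 3083739597) (nat_lit 76) (nat_lit 7536225286) (nat_lit 58) (nat_lit 5) (nat_lit 61) (nat_lit 5) (nat_lit 59) (nat_lit 4) (nat_lit 343) (nat_lit 283) (nat_lit 274)) (XT.lf (nat_lit 0) (nat_lit 9867146724) (nat_lit 228) (nat_lit 1925310179) (nat_lit 0) (nat_lit 1574230185) (nat_lit 56) (nat_lit 5) (nat_lit 59) (nat_lit 4) (nat_lit 56) (nat_lit 4) (nat_lit 344) (nat_lit 283) (nat_lit 273)))) (XT.nd (nat_lit 78) (nat_lit 380) (nat_lit 0) (XT.lf (nat_lit 0) (nat_lit 3881801557) (nat_lit 228) (nat_lit 1040787761) (nat_lit 76) (nat_lit 8855762225) (nat_lit 53) (nat_lit 5) (nat_lit 56) (nat_lit 5) (nat_lit 54) (nat_lit 4) (nat_lit 345) (nat_lit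 283) (nat_lit 272)) (XT.nd (nat_lit 78) (nat_lit 228) (nat_lit 0) (XT.lf (nat_lit 0) (nat_lit 11513368668) (nat_lit 228) (nat_lit 425889254) (nat_lit 0) (nat_lit 2271745408) (nat_lit 51) (nat_lit 5) (nat_lit 54) (nat_lit 4) (nat_lit 51) (nat_lit 4) (nat_lit 346) (nat_lit 283) (nat_lit 271)) (XT.lf (nat_lit 0) (nat_lit 4749835645) (nat_lit 228) (nat_lit 152417633) (nat_lit 76) (nat_lit 9762174335) (nat_lit 48) (nat_lit 5) (nat_lit 51) (nat_lit 5) (nat_lit 49) (nat_lit 4) (nat_lit 347) (nat_lit 283) (nat_lit 270)))))) (XT.nd (nat_lit 468) (nat_lit 684) (nat_lit 0) (XT.nd (nat_lit 234) (nat_lit 532) (nat_lit 0) (XT.nd (nat_lit 78) (nat_lit 304) (nat_lit 0) (XT.lf (nat_lit 0) (nat_lit 12474462403) (nat_lit 228) (nat_lit 212618875) (nat_lit 0) (nat_lit 2453867001) (nat_lit 46) (nat_lit 5) (nat_lit 49) (nat_lit 4) (nat_lit 46) (nat_lit 4) (nat_lit 348) (nat_lit 283) (nat_lit 269)) (XT.nd (nat_lit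 78) (nat_lit 76) (nat_lit 0) (XT.lf (nat_lit 0) (nat_lit 4835498227) (nat_lit 228) (nat_lit 691477384) (nat_lit 76) (nat_lit 10113295546) (nat_lit 43) (nat_lit 5) (nat_lit 46) (nat_lit 5) (nat_lit 44) (nat_lit 4) (nat_lit 349) (nat_lit 283) (nat_lit 268)) (XT.lf (nat_lit 0) (nat_lit 12617043514) (nat_lit 152) (nat_lit 1582673443) (nat_lit 0) (nat_lit 1965301386) (nat_lit 42) (nat_lit 5) (nat_lit 44) (nat_lit 4) (nat_lit 42) (nat_lit 4) (nat_lit 350) (nat_lit 283) (nat_lit 267)))) (XT.nd (nat_lit 78) (nat_lit 304) (nat_lit 0) (XT.lf (nat_lit 0) (nat_lit 3989518904) (nat_lit 228) (nat_lit 2981826522) (nat_lit 76) (nat_lit 9743599586) (nat_lit 39) (nat_lit 5) (nat_lit 42) (nat_lit 5) (nat_lit 40) (nat_lit 4) (nat_lit 351) (nat_lit 283) (nat_lit 266)) (XT.nd (nat_lit 78) (nat_lit 228) (nat_lit 0) (XT.lf (nat_lit 0) (nat_lit 11779218424) (nat_lit 152) (nat_lit 4888758903) (nat_lit 0) (nat_lit 624909442)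 (nat_lit 38) (nat_lit 5) (nat_lit 40) (nat_lit 4) (nat_lit 38) (nat_lit 4) (nat_lit 352) (nat_lit 283) (nat_lit 265)) (XT.lf (nat_lit 0) (nat_lit 2031628806) (nat_lit 228) (nat_lit 7407715407) (nat_lit 76) (nat_lit 8459425326) (nat_lit 35) (nat_lit 5) (nat_lit 38) (nat_lit 5) (nat_lit 36) (nat_lit 4) (nat_lit 353) (nat_lit 283) (nat_lit 264))))) (XT.nd (nat_lit 234) (nat_lit 304) (nat_lit 0) (XT.nd (nat_lit 78) (nat_lit 304) (nat_lit 0) (XT.lf (nat_lit 0) (nat_lit 7968346651) (nat_lit 76) (nat_lit 1814855255) (nat_lit 152) (nat_lit 8751845375) (nat_lit 34) (nat_lit 5) (nat_lit 35) (nat_lit 5) (nat_lit 36) (nat_lit 4) (nat_lit 354) (nat_lit 283) (nat_lit 263)) (XT.nd (nat_lit 78) (nat_lit 152) (nat_lit 0) (XT.lf (nat_lit 0) (nat_lit 4766075443) (nat_lit 152) (nat_lit 13157392930) (nat_lit 152) (nat_lit 1279665500) (nat_lit 32) (nat_lit 4) (nat_lit 34) (nat_lit 5) (nat_lit 34) (nat_lit 4) (nat_lit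 355) (nat_lit 283) (nat_lit 262)) (XT.lf (nat_lit 0) (nat_lit 790033824) (nat_lit 76) (nat_lit 5606250222) (nat_lit 152) (nat_lit 13507724802) (nat_lit 30) (nat_lit 5) (nat_lit 31) (nat_lit 5) (nat_lit 32) (nat_lit 4) (nat_lit 356) (nat_lit 283) (nat_lit 261)))) (XT.nd (nat_lit 78) (nat_lit 304) (nat_lit 0) (XT.lf (nat_lit 0) (nat_lit 14428733916) (nat_lit 152) (nat_lit 3914204770) (nat_lit 0) (nat_lit 2296658750) (nat_lit 30) (nat_lit 5) (nat_lit 32) (nat_lit 4) (nat_lit 30) (nat_lit 4) (nat_lit 357) (nat_lit 283) (nat_lit 260)) (XT.nd (nat_lit 78) (nat_lit 76) (nat_lit 0) (XT.lf (nat_lit 0) (nat_lit 1428451101) (nat_lit 228) (nat_lit 9511204893) (nat_lit 76) (nat_lit 10471736555) (nat_lit 27) (nat_lit 5) (nat_lit 30) (nat_lit 5) (nat_lit 28) (nat_lit 4) (nat_lit 358) (nat_lit 283) (nat_lit 259)) (XT.lf (nat_lit 0) (nat_lit 6121593592) (nat_lit 76) (nat_lit 3138583465) (nat_lit 152) (nat_lit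 12961610702) (nat_lit 26) (nat_lit 5) (nat_lit 27) (nat_lit 5) (nat_lit 28) (nat_lit 4) (nat_lit 359) (nat_lit 283) (nat_lit 258))))))))
noncomputable def xc21 : XT := (XT.nd (nat_lit 1794) (nat_lit 380) (nat_lit 0) (XT.nd (nat_lit 858) (nat_lit 532) (nat_lit 0) (XT.nd (nat_lit 390) (nat_lit 304) (nat_lit 0) (XT.nd (nat_lit 156) (nat_lit 228) (nat_lit 0) (XT.nd (nat_lit 78) (nat_lit 152) (nat_lit 0) (XT.lf (nat_lit 0) (nat_lit 17472689833) (nat_lit 152) (nat_lit 680603144) (nat_lit 0) (nat_lit 4919754714) (nat_lit 26) (nat_lit 5) (nat_lit 28) (nat_lit 4) (nat_lit 26) (nat_lit 4) (nat_lit 360) (nat_lit 283) (nat_lit 257)) (XT.lf (nat_lit 0) (nat_lit 2117641840) (nat_lit 152) (nat_lit 8488017085) (nat_lit 76) (nat_lit 13359710311) (nat_lit 24) (nat_lit 5) (nat_lit 26) (nat_lit 5) (nat_lit 25) (nat_lit 4) (nat_lit 361) (nat_lit 283) (nat_lit 256))) (XT.nd (nat_lit 78) (nat_lit 152) (nat_lit 0)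 (XT.lf (nat_lit 0) (nat_lit 7365603016) (nat_lit 76) (nat_lit 2671436435) (nat_lit 152) (nat_lit 14865682749) (nat_lit 23) (nat_lit 5) (nat_lit 24) (nat_lit 5) (nat_lit 25) (nat_lit 4) (nat_lit 362) (nat_lit 283) (nat_lit 255)) (XT.nd (nat_lit 78) (nat_lit 152) (nat_lit 0) (XT.lf (nat_lit 0) (nat_lit 18350654623) (nat_lit 152) (nat_lit 2022341250) (nat_lit 0) (nat_lit 5514017104) (nat_lit 23) (nat_lit 5) (nat_lit 25) (nat_lit 4) (nat_lit 23) (nat_lit 4) (nat_lit 363) (nat_lit 283) (nat_lit 254)) (XT.lf (nat_lit 0) (nat_lit 183089941) (nat_lit 152) (nat_lit 12661127279) (nat_lit 76) (nat_lit 14075468300) (nat_lit 21) (nat_lit 5) (nat_lit 23) (nat_lit 5) (nat_lit 22) (nat_lit 4) (nat_lit 364) (nat_lit 283) (nat_lit 253))))) (XT.nd (nat_lit 234) (nat_lit 152) (nat_lit 0) (XT.nd (nat_lit 78) (nat_lit 76) (nat_lit 0) (XT.lf (nat_lit 0) (nat_lit 3122712114) (nat_lit 76) (nat_lit 4927698353) (nat_lit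 152) (nat_lit 19953825293) (nat_lit 20) (nat_lit 5) (nat_lit 21) (nat_lit 5) (nat_lit 22) (nat_lit 4) (nat_lit 365) (nat_lit 283) (nat_lit 252)) (XT.nd (nat_lit 78) (nat_lit 76) (nat_lit 0) (XT.lf (nat_lit 0) (nat_lit 16343452635) (nat_lit 152) (nat_lit 9462478703) (nat_lit 0) (nat_lit 3336126264) (nat_lit 20) (nat_lit 5) (nat_lit 22) (nat_lit 4) (nat_lit 20) (nat_lit 4) (nat_lit 366) (nat_lit 283) (nat_lit 251)) (XT.lf (nat_lit 0) (nat_lit 6567972256) (nat_lit 76) (nat_lit 18470517655) (nat_lit 76) (nat_lit 5298674385) (nat_lit 19) (nat_lit 4) (nat_lit 20) (nat_lit 5) (nat_lit 20) (nat_lit 4) (nat_lit 367) (nat_lit 283) (nat_lit 250)))) (XT.nd (nat_lit 78) (nat_lit 76) (nat_lit 0) (XT.lf (nat_lit 0) (nat_lit 2501361019) (nat_lit 152) (nat_lit 8250763161) (nat_lit 76) (nat_lit 20839910797) (nat_lit 18) (nat_lit 5) (nat_lit 20) (nat_lit 5) (nat_lit 19) (nat_lit 4) (nat_lit 368) (nat_lit 283)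 (nat_lit 249)) (XT.nd (nat_lit 78) (nat_lit 0) (nat_lit 0) (XT.lf (nat_lit 0) (nat_lit 7922207779) (nat_lit 76) (nat_lit 2619642214) (nat_lit 152) (nat_lit 22367436614) (nat_lit 17) (nat_lit 5) (nat_lit 18) (nat_lit 5) (nat_lit 19) (nat_lit 4) (nat_lit 369) (nat_lit 283) (nat_lit 248)) (XT.lf (nat_lit 0) (nat_lit 19012420309) (nat_lit 152) (nat_lit 9489898811) (nat_lit 0) (nat_lit 5789251775) (nat_lit 17) (nat_lit 5) (nat_lit 19) (nat_lit 4) (nat_lit 17) (nat_lit 4) (nat_lit 370) (nat_lit 283) (nat_lit 247)))))) (XT.nd (nat_lit 468) (nat_lit 228) (nat_lit 0) (XT.nd (nat_lit 234) (nat_lit 76) (nat_lit 0) (XT.nd (nat_lit 78) (nat_lit 152) (nat_lit 0) (XT.lf (nat_lit 0) (nat_lit 6677868278) (nat_lit 76) (nat_lit 21210121516) (nat_lit 76) (nat_lit 7855546711) (nat_lit 16) (nat_lit 4) (nat_lit 17) (nat_lit 5) (nat_lit 17) (nat_lit 4) (nat_lit 371) (nat_lit 283) (nat_lit 246)) (XT.nd (nat_lit 78)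 (nat_lit 152) (nat_lit 0) (XT.lf (nat_lit 0) (nat_lit 23650160495) (nat_lit 76) (nat_lit 13548960365) (nat_lit 76) (nat_lit 69236730) (nat_lit 16) (nat_lit 4) (nat_lit 17) (nat_lit 5) (nat_lit 17) (nat_lit 4) (nat_lit 372) (nat_lit 283) (nat_lit 245)) (XT.lf (nat_lit 0) (nat_lit 2375494269) (nat_lit 76) (nat_lit 5493671871) (nat_lit 152) (nat_lit 31000296900) (nat_lit 14) (nat_lit 5) (nat_lit 15) (nat_lit 5) (nat_lit 16) (nat_lit 4) (nat_lit 373) (nat_lit 283) (nat_lit 244)))) (XT.nd (nat_lit 78) (nat_lit 76) (nat_lit 0) (XT.lf (nat_lit 0) (nat_lit 16273436308) (nat_lit 152) (nat_lit 21314664230) (nat_lit 0) (nat_lit 2960400701) (nat_lit 14) (nat_lit 5) (nat_lit 16) (nat_lit 4) (nat_lit 14) (nat_lit 4) (nat_lit 374) (nat_lit 283) (nat_lit 243)) (XT.nd (nat_lit 78) (nat_lit 76) (nat_lit 0) (XT.lf (nat_lit 0) (nat_lit 25058411804) (nat_lit 152) (nat_lit 5613857038) (nat_lit 0) (nat_lit 11640416717)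 (nat_lit 14) (nat_lit 5) (nat_lit 16) (nat_lit 4) (nat_lit 14) (nat_lit 4) (nat_lit 375) (nat_lit 283) (nat_lit 242)) (XT.lf (nat_lit 0) (nat_lit 10911568211) (nat_lit 76) (nat_lit 23385521160) (nat_lit 76) (nat_lit 9867564663) (nat_lit 13) (nat_lit 4) (nat_lit 14) (nat_lit 5) (nat_lit 14) (nat_lit 4) (nat_lit 376) (nat_lit 283) (nat_lit 241))))) (XT.nd (nat_lit 234) (nat_lit 76) (nat_lit 0) (XT.nd (nat_lit 78) (nat_lit 152) (nat_lit 0) (XT.lf (nat_lit 0) (nat_lit 28212200461) (nat_lit 76) (nat_lit 15755542588) (nat_lit 76) (nat_lit 2142384748) (nat_lit 13) (nat_lit 4) (nat_lit 14) (nat_lit 5) (nat_lit 14) (nat_lit 4) (nat_lit 377) (nat_lit 283) (nat_lit 240)) (XT.nd (nat_lit 78) (nat_lit 76) (nat_lit 0) (XT.lf (nat_lit 0) (nat_lit 5768172385) (nat_lit 152) (nat_lit 1994435843) (nat_lit 76) (nat_lit 40391085315) (nat_lit 12) (nat_lit 5) (nat_lit 14) (nat_lit 5) (nat_lit 13) (nat_lit 4) (nat_lit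 378) (nat_lit 283) (nat_lit 239)) (XT.lf (nat_lit 0) (nat_lit 14099379951) (nat_lit 152) (nat_lit 35486486164) (nat_lit 0) (nat_lit 710859359) (nat_lit 11) (nat_lit 5) (nat_lit 13) (nat_lit 4) (nat_lit 11) (nat_lit 4) (nat_lit 379) (nat_lit 283) (nat_lit 238)))) (XT.nd (nat_lit 78) (nat_lit 76) (nat_lit 0) (XT.lf (nat_lit 0) (nat_lit 22867542852) (nat_lit 152) (nat_lit 20279582063) (nat_lit 0) (nat_lit 9399179057) (nat_lit 11) (nat_lit 5) (nat_lit 13) (nat_lit 4) (nat_lit 11) (nat_lit 4) (nat_lit 380) (nat_lit 283) (nat_lit 237)) (XT.nd (nat_lit 78) (nat_lit 76) (nat_lit 0) (XT.lf (nat_lit 0) (nat_lit 31999171837) (nat_lit 152) (nat_lit 4456677418) (nat_lit 0) (nat_lit 18454766897) (nat_lit 11) (nat_lit 5) (nat_lit 13) (nat_lit 4) (nat_lit 11) (nat_lit 4) (nat_lit 381) (nat_lit 283) (nat_lit 236)) (XT.lf (nat_lit 0) (nat_lit 12259120960) (nat_lit 76) (nat_lit 29374730092) (nat_lit 76) (nat_lit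 15757905012) (nat_lit 10) (nat_lit 4) (nat_lit 11) (nat_lit 5) (nat_lit 11) (nat_lit 4) (nat_lit 382) (nat_lit 283) (nat_lit 235))))))) (XT.nd (nat_lit 936) (nat_lit 76) (nat_lit 0) (XT.nd (nat_lit 468) (nat_lit 152) (nat_lit 0) (XT.nd (nat_lit 234) (nat_lit 0) (nat_lit 0) (XT.nd (nat_lit 78) (nat_lit 152) (nat_lit 0) (XT.lf (nat_lit 0) (nat_lit 29770310184) (nat_lit 76) (nat_lit 21956573369) (nat_lit 76) (nat_lit 8270776729) (nat_lit 10) (nat_lit 4) (nat_lit 11) (nat_lit 5) (nat_lit 11) (nat_lit 4) (nat_lit 383) (nat_lit 283) (nat_lit 234)) (XT.nd (nat_lit 78) (nat_lit 152) (nat_lit 0) (XT.lf (nat_lit 0) (nat_lit 48029886942) (nat_lit 76) (nat_lit 14228720514) (nat_lit 76) (nat_lit 477236673) (nat_lit 10) (nat_lit 4) (nat_lit 11) (nat_lit 5) (nat_lit 11) (nat_lit 4) (nat_lit 384) (nat_lit 283) (nat_lit 233)) (XT.lf (nat_lit 0) (nat_lit 1422810918) (nat_lit 76) (nat_lit 6083028489) (nat_lit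 152) (nat_lit 58104373797) (nat_lit 8) (nat_lit 5) (nat_lit 9) (nat_lit 5) (nat_lit 10) (nat_lit 4) (nat_lit 385) (nat_lit 283) (nat_lit 232)))) (XT.nd (nat_lit 78) (nat_lit 0) (nat_lit 0) (XT.lf (nat_lit 0) (nat_lit 15992798623) (nat_lit 152) (nat_lit 50108665888) (nat_lit 0) (nat_lit 2523261431) (nat_lit 8) (nat_lit 5) (nat_lit 10) (nat_lit 4) (nat_lit 8) (nat_lit 4) (nat_lit 386) (nat_lit 283) (nat_lit 231)) (XT.nd (nat_lit 78) (nat_lit 0) (nat_lit 0) (XT.lf (nat_lit 0) (nat_lit 24906342518) (nat_lit 152) (nat_lit 35501844440) (nat_lit 0) (nat_lit 11381714963) (nat_lit 8) (nat_lit 5) (nat_lit 10) (nat_lit 4) (nat_lit 8) (nat_lit 4) (nat_lit 387) (nat_lit 283) (nat_lit 230)) (XT.lf (nat_lit 0) (nat_lit 34209220026) (nat_lit 152) (nat_lit 20273686004) (nat_lit 0) (nat_lit 20632125458) (nat_lit 8) (nat_lit 5) (nat_lit 10) (nat_lit 4) (nat_lit 8) (nat_lit 4) (nat_lit 388) (nat_lit 283) (nat_lit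 229))))) (XT.nd (nat_lit 234) (nat_lit 76) (nat_lit 0) (XT.nd (nat_lit 78) (nat_lit 76) (nat_lit 0) (XT.lf (nat_lit 0) (nat_lit 43923580854) (nat_lit 152) (nat_lit 4387933060) (nat_lit 0) (nat_lit 30296517703) (nat_lit 8) (nat_lit 5) (nat_lit 10) (nat_lit 4) (nat_lit 8) (nat_lit 4) (nat_lit 389) (nat_lit 283) (nat_lit 228)) (XT.nd (nat_lit 78) (nat_lit 0) (nat_lit 0) (XT.lf (nat_lit 0) (nat_lit 12435906947) (nat_lit 76) (nat_lit 41756189030) (nat_lit 76) (nat_lit 28081536753) (nat_lit 7) (nat_lit 4) (nat_lit 8) (nat_lit 5) (nat_lit 8) (nat_lit 4) (nat_lit 390) (nat_lit 283) (nat_lit 227)) (XT.lf (nat_lit 0) (nat_lit 30096598020) (nat_lit 76) (nat_lit 34873013878) (nat_lit 76) (nat_lit 21153038622) (nat_lit 7) (nat_lit 4) (nat_lit 8) (nat_lit 5) (nat_lit 8) (nat_lit 4) (nat_lit 391) (nat_lit 283) (nat_lit 226)))) (XT.nd (nat_lit 78) (nat_lit 76) (nat_lit 0) (XT.lf (nat_lit 0) (nat_lit 48548860948)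 (nat_lit 76) (nat_lit 27689909465) (nat_lit 76) (nat_lit 13926769468) (nat_lit 7) (nat_lit 4) (nat_lit 8) (nat_lit 5) (nat_lit 8) (nat_lit 4) (nat_lit 392) (nat_lit 283) (nat_lit 225)) (XT.nd (nat_lit 78) (nat_lit 76) (nat_lit 0) (XT.lf (nat_lit 0) (nat_lit 67836629693) (nat_lit 76) (nat_lit 20189773162) (nat_lit 76) (nat_lit 6385523888) (nat_lit 7) (nat_lit 4) (nat_lit 8) (nat_lit 5) (nat_lit 8) (nat_lit 4) (nat_lit 393) (nat_lit 283) (nat_lit 224)) (XT.lf (nat_lit 0) (nat_lit 1459604473) (nat_lit 152) (nat_lit 10880403885) (nat_lit 76) (nat_lit 86531483895) (nat_lit 6) (nat_lit 5) (nat_lit 8) (nat_lit 5) (nat_lit 7) (nat_lit 4) (nat_lit 394) (nat_lit 283) (nat_lit 223)))))) (XT.nd (nat_lit 42276) (nat_lit 0) (nat_lit 4408) (XT.nd (nat_lit 42042) (nat_lit 0) (nat_lit 6156) (XT.nd (nat_lit 78) (nat_lit 0) (nat_lit 0) (XT.lf (nat_lit 0) (nat_lit 5563515375) (nat_lit 76) (nat_lit 4014910076) (nat_lit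 152) (nat_lit 93973312031) (nat_lit 5) (nat_lit 5) (nat_lit 6) (nat_lit 5) (nat_lit 7) (nat_lit 4) (nat_lit 395) (nat_lit 283) (nat_lit 222)) (XT.nd (nat_lit 41886) (nat_lit 0) (nat_lit 7372) (XT.lf (nat_lit 0) (nat_lit 18221381096) (nat_lit 152) (nat_lit 85530563733) (nat_lit 0) (nat_lit 4710507280) (nat_lit 5) (nat_lit 5) (nat_lit 7) (nat_lit 4) (nat_lit 5) (nat_lit 4) (nat_lit 396) (nat_lit 283) (nat_lit 221)) (XT.lf (nat_lit 0) (nat_lit 838211056) (nat_lit 304) (nat_lit 3185453187) (nat_lit 0) (nat_lit 838211056) (nat_lit 102) (nat_lit 5) (nat_lit 106) (nat_lit 4) (nat_lit 102) (nat_lit 4) (nat_lit 332) (nat_lit 284) (nat_lit 284)))) (XT.nd (nat_lit 78) (nat_lit 912) (nat_lit 0) (XT.lf (nat_lit 0) (nat_lit 6336721562) (nat_lit 304) (nat_lit 2468843209) (nat_lit 304) (nat_lit 1147994797) (nat_lit 98) (nat_lit 4) (nat_lit 102) (nat_lit 5) (nat_lit 102) (nat_lit 4) (nat_lit 333) (nat_lit 284)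 (nat_lit 283)) (XT.nd (nat_lit 78) (nat_lit 608) (nat_lit 0) (XT.lf (nat_lit 0) (nat_lit 5896101504) (nat_lit 304) (nat_lit 907128170) (nat_lit 0) (nat_lit 3392412882) (nat_lit 94) (nat_lit 5) (nat_lit 98) (nat_lit 4) (nat_lit 94) (nat_lit 4) (nat_lit 334) (nat_lit 284) (nat_lit 282)) (XT.lf (nat_lit 0) (nat_lit 1810872632) (nat_lit 228) (nat_lit 887509183) (nat_lit 304) (nat_lit 7752363690) (nat_lit 86) (nat_lit 5) (nat_lit 89) (nat_lit 5) (nat_lit 90) (nat_lit 4) (nat_lit 335) (nat_lit 284) (nat_lit 281))))) (XT.nd (nat_lit 234) (nat_lit 912) (nat_lit 0) (XT.nd (nat_lit 78) (nat_lit 608) (nat_lit 0) (XT.lf (nat_lit 0) (nat_lit 4476165320) (nat_lit 228) (nat_lit 5439028691) (nat_lit 228) (nat_lit 803486936) (nat_lit 83) (nat_lit 4) (nat_lit 86) (nat_lit 5) (nat_lit 86) (nat_lit 4) (nat_lit 336) (nat_lit 284) (nat_lit 280)) (XT.nd (nat_lit 78) (nat_lit 304) (nat_lit 0) (XT.lf (nat_lit 0) (nat_lit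 6284420363) (nat_lit 304) (nat_lit 3926815048) (nat_lit 0) (nat_lit 789441741) (nat_lit 79) (nat_lit 5) (nat_lit 83) (nat_lit 4) (nat_lit 79) (nat_lit 4) (nat_lit 337) (nat_lit 284) (nat_lit 279)) (XT.lf (nat_lit 0) (nat_lit 2328840255) (nat_lit 304) (nat_lit 1714530661) (nat_lit 76) (nat_lit 7253675117) (nat_lit 75) (nat_lit 5) (nat_lit 79) (nat_lit 5) (nat_lit 76) (nat_lit 4) (nat_lit 338) (nat_lit 284) (nat_lit 278)))) (XT.nd (nat_lit 78) (nat_lit 532) (nat_lit 0) (XT.lf (nat_lit 0) (nat_lit 400835299) (nat_lit 228) (nat_lit 9169002801) (nat_lit 228) (nat_lit 2038833629) (nat_lit 70) (nat_lit 4) (nat_lit 73) (nat_lit 5) (nat_lit 73) (nat_lit 4) (nat_lit 339) (nat_lit 284) (nat_lit 277)) (XT.nd (nat_lit 78) (nat_lit 304) (nat_lit 0) (XT.lf (nat_lit 0) (nat_lit 2406085687) (nat_lit 152) (nat_lit 2702426479) (nat_lit 228) (nat_lit 6826714532) (nat_lit 67) (nat_lit 5) (nat_lit 69) (nat_lit 5)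 (nat_lit 70) (nat_lit 4) (nat_lit 340) (nat_lit 284) (nat_lit 276)) (XT.lf (nat_lit 0) (nat_lit 247063727) (nat_lit 304) (nat_lit 8001861976) (nat_lit 76) (nat_lit 4029780311) (nat_lit 63) (nat_lit 5) (nat_lit 67) (nat_lit 5) (nat_lit 64) (nat_lit 4) (nat_lit 341) (nat_lit 284) (nat_lit 275))))))))
noncomputable def xc22 : XT := (XT.nd (nat_lit 1794) (nat_lit 1064) (nat_lit 0) (XT.nd (nat_lit 858) (nat_lit 1216) (nat_lit 0) (XT.nd (nat_lit 390) (nat_lit 988) (nat_lit 0) (XT.nd (nat_lit 156) (nat_lit 532) (nat_lit 0) (XT.nd (nat_lit 78) (nat_lit 228) (nat_lit 0) (XT.lf (nat_lit 0) (nat_lit 5958418412) (nat_lit 152) (nat_lit 1527429531) (nat_lit 228) (nat_lit 5152969405) (nat_lit 61) (nat_lit 5) (nat_lit 63) (nat_lit 5) (nat_lit 64) (nat_lit 4) (nat_lit 342) (nat_lit 284) (nat_lit 274)) (XT.lf (nat_lit 0) (nat_lit 2010572737) (nat_lit 228) (nat_lit 5566431128) (nat_lit 76) (nat_lit 5439950210)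 (nat_lit 58) (nat_lit 5) (nat_lit 61) (nat_lit 5) (nat_lit 59) (nat_lit 4) (nat_lit 343) (nat_lit 284) (nat_lit 273))) (XT.nd (nat_lit 78) (nat_lit 380) (nat_lit 0) (XT.lf (nat_lit 0) (nat_lit 8734265432) (nat_lit 152) (nat_lit 639589471) (nat_lit 228) (nat_lit 4040221760) (nat_lit 56) (nat_lit 5) (nat_lit 58) (nat_lit 5) (nat_lit 59) (nat_lit 4) (nat_lit 344) (nat_lit 284) (nat_lit 272)) (XT.nd (nat_lit 78) (nat_lit 152) (nat_lit 0) (XT.lf (nat_lit 0) (nat_lit 3209880674) (nat_lit 228) (nat_lit 4076784819) (nat_lit 76) (nat_lit 6543509442) (nat_lit 53) (nat_lit 5) (nat_lit 56) (nat_lit 5) (nat_lit 54) (nat_lit 4) (nat_lit 345) (nat_lit 284) (nat_lit 271)) (XT.lf (nat_lit 0) (nat_lit 10526994595) (nat_lit 152) (nat_lit 157432370) (nat_lit 228) (nat_lit 3583133422) (nat_lit 51) (nat_lit 5) (nat_lit 53) (nat_lit 5) (nat_lit 54) (nat_lit 4) (nat_lit 346) (nat_lit 284) (nat_lit 270))))) (XT.nd (nat_lit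 234) (nat_lit 380) (nat_lit 0) (XT.nd (nat_lit 78) (nat_lit 380) (nat_lit 0) (XT.lf (nat_lit 0) (nat_lit 3743787665) (nat_lit 228) (nat_lit 3764014236) (nat_lit 76) (nat_lit 7217594285) (nat_lit 48) (nat_lit 5) (nat_lit 51) (nat_lit 5) (nat_lit 49) (nat_lit 4) (nat_lit 347) (nat_lit 284) (nat_lit 269)) (XT.nd (nat_lit 78) (nat_lit 228) (nat_lit 0) (XT.lf (nat_lit 0) (nat_lit 11091135243) (nat_lit 152) (nat_lit 217529844) (nat_lit 228) (nat_lit 3898064536) (nat_lit 46) (nat_lit 5) (nat_lit 48) (nat_lit 5) (nat_lit 49) (nat_lit 4) (nat_lit 348) (nat_lit 284) (nat_lit 268)) (XT.lf (nat_lit 0) (nat_lit 3488316831) (nat_lit 228) (nat_lit 4902331547) (nat_lit 76) (nat_lit 7319967102) (nat_lit 43) (nat_lit 5) (nat_lit 46) (nat_lit 5) (nat_lit 44) (nat_lit 4) (nat_lit 349) (nat_lit 284) (nat_lit 267)))) (XT.nd (nat_lit 78) (nat_lit 304) (nat_lit 0) (XT.lf (nat_lit 0) (nat_lit 10135041412) (nat_lit 76)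 (nat_lit 978420721) (nat_lit 152) (nat_lit 5126610399) (nat_lit 42) (nat_lit 5) (nat_lit 43) (nat_lit 5) (nat_lit 44) (nat_lit 4) (nat_lit 350) (nat_lit 284) (nat_lit 266)) (XT.nd (nat_lit 78) (nat_lit 76) (nat_lit 0) (XT.lf (nat_lit 0) (nat_lit 2292946097) (nat_lit 228) (nat_lit 7817092938) (nat_lit 76) (nat_lit 6684894194) (nat_lit 39) (nat_lit 5) (nat_lit 42) (nat_lit 5) (nat_lit 40) (nat_lit 4) (nat_lit 351) (nat_lit 284) (nat_lit 265)) (XT.lf (nat_lit 0) (nat_lit 7312318049) (nat_lit 76) (nat_lit 2625136559) (nat_lit 152) (nat_lit 7439791842) (nat_lit 38) (nat_lit 5) (nat_lit 39) (nat_lit 5) (nat_lit 40) (nat_lit 4) (nat_lit 352) (nat_lit 284) (nat_lit 264)))))) (XT.nd (nat_lit 468) (nat_lit 456) (nat_lit 0) (XT.nd (nat_lit 234) (nat_lit 456) (nat_lit 0) (XT.nd (nat_lit 78) (nat_lit 152) (nat_lit 0) (XT.lf (nat_lit 0) (nat_lit 5094288206) (nat_lit 152) (nat_lit 12870087226) (nat_lit 152)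 (nat_lit 24325011) (nat_lit 36) (nat_lit 4) (nat_lit 38) (nat_lit 5) (nat_lit 38) (nat_lit 4) (nat_lit 353) (nat_lit 284) (nat_lit 263)) (XT.nd (nat_lit 78) (nat_lit 0) (nat_lit 0) (XT.lf (nat_lit 0) (nat_lit 2211793089) (nat_lit 76) (nat_lit 5374444022) (nat_lit 152) (nat_lit 11043006514) (nat_lit 34) (nat_lit 5) (nat_lit 35) (nat_lit 5) (nat_lit 36) (nat_lit 4) (nat_lit 354) (nat_lit 284) (nat_lit 262)) (XT.lf (nat_lit 0) (nat_lit 15562281288) (nat_lit 152) (nat_lit 1298546796) (nat_lit 0) (nat_lit 2441441996) (nat_lit 34) (nat_lit 5) (nat_lit 36) (nat_lit 4) (nat_lit 34) (nat_lit 4) (nat_lit 355) (nat_lit 284) (nat_lit 261)))) (XT.nd (nat_lit 78) (nat_lit 228) (nat_lit 0) (XT.lf (nat_lit 0) (nat_lit 3881068926) (nat_lit 228) (nat_lit 5543884001) (nat_lit 76) (nat_lit 10582000883) (nat_lit 31) (nat_lit 5) (nat_lit 34) (nat_lit 5) (nat_lit 32) (nat_lit 4) (nat_lit 356) (nat_lit 284) (nat_lit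 260)) (XT.nd (nat_lit 78) (nat_lit 152) (nat_lit 0) (XT.lf (nat_lit 0) (nat_lit 10156404297) (nat_lit 76) (nat_lit 1600300258) (nat_lit 152) (nat_lit 8990553891) (nat_lit 30) (nat_lit 5) (nat_lit 31) (nat_lit 5) (nat_lit 32) (nat_lit 4) (nat_lit 357) (nat_lit 284) (nat_lit 259)) (XT.lf (nat_lit 0) (nat_lit 4975379663) (nat_lit 152) (nat_lit 15062434945) (nat_lit 152) (nat_lit 1486435614) (nat_lit 28) (nat_lit 4) (nat_lit 30) (nat_lit 5) (nat_lit 30) (nat_lit 4) (nat_lit 358) (nat_lit 284) (nat_lit 258))))) (XT.nd (nat_lit 234) (nat_lit 228) (nat_lit 0) (XT.nd (nat_lit 78) (nat_lit 152) (nat_lit 0) (XT.lf (nat_lit 0) (nat_lit 6240266885) (nat_lit 228) (nat_lit 1161214891) (nat_lit 76) (nat_lit 14937623420) (nat_lit 27) (nat_lit 5) (nat_lit 30) (nat_lit 5) (nat_lit 28) (nat_lit 4) (nat_lit 359) (nat_lit 284) (nat_lit 257)) (XT.nd (nat_lit 78) (nat_lit 76) (nat_lit 0) (XT.lf (nat_lit 0) (nat_lit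 14326787372) (nat_lit 152) (nat_lit 8200646323) (nat_lit 0) (nat_lit 666720946) (nat_lit 26) (nat_lit 5) (nat_lit 28) (nat_lit 4) (nat_lit 26) (nat_lit 4) (nat_lit 360) (nat_lit 284) (nat_lit 256)) (XT.lf (nat_lit 0) (nat_lit 7695416825) (nat_lit 76) (nat_lit 15139432882) (nat_lit 76) (nat_lit 1256609406) (nat_lit 25) (nat_lit 4) (nat_lit 26) (nat_lit 5) (nat_lit 26) (nat_lit 4) (nat_lit 361) (nat_lit 284) (nat_lit 255)))) (XT.nd (nat_lit 78) (nat_lit 152) (nat_lit 0) (XT.lf (nat_lit 0) (nat_lit 6547919730) (nat_lit 152) (nat_lit 802695995) (nat_lit 76) (nat_lit 17682748998) (nat_lit 24) (nat_lit 5) (nat_lit 26) (nat_lit 5) (nat_lit 25) (nat_lit 4) (nat_lit 362) (nat_lit 284) (nat_lit 254)) (XT.nd (nat_lit 78) (nat_lit 76) (nat_lit 0) (XT.lf (nat_lit 0) (nat_lit 14741525060) (nat_lit 152) (nat_lit 10418816041) (nat_lit 0) (nat_lit 860922866) (nat_lit 23) (nat_lit 5) (nat_lit 25) (nat_lit 4)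 (nat_lit 23) (nat_lit 4) (nat_lit 363) (nat_lit 284) (nat_lit 253)) (XT.lf (nat_lit 0) (nat_lit 5574069621) (nat_lit 76) (nat_lit 17775886804) (nat_lit 76) (nat_lit 3708463333) (nat_lit 22) (nat_lit 4) (nat_lit 23) (nat_lit 5) (nat_lit 23) (nat_lit 4) (nat_lit 364) (nat_lit 284) (nat_lit 252))))))) (XT.nd (nat_lit 936) (nat_lit 456) (nat_lit 0) (XT.nd (nat_lit 468) (nat_lit 228) (nat_lit 0) (XT.nd (nat_lit 234) (nat_lit 228) (nat_lit 0) (XT.nd (nat_lit 78) (nat_lit 76) (nat_lit 0) (XT.lf (nat_lit 0) (nat_lit 4138614138) (nat_lit 152) (nat_lit 5843961795) (nat_lit 76) (nat_lit 18164248962) (nat_lit 21) (nat_lit 5) (nat_lit 23) (nat_lit 5) (nat_lit 22) (nat_lit 4) (nat_lit 365) (nat_lit 284) (nat_lit 251)) (XT.nd (nat_lit 78) (nat_lit 0) (nat_lit 0) (XT.lf (nat_lit 0) (nat_lit 10515510454) (nat_lit 76) (nat_lit 1765431100) (nat_lit 152) (nat_lit 17008233479) (nat_lit 20) (nat_lit 5) (nat_lit 21)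 (nat_lit 5) (nat_lit 22) (nat_lit 4) (nat_lit 366) (nat_lit 284) (nat_lit 250)) (XT.lf (nat_lit 0) (nat_lit 20837555374) (nat_lit 152) (nat_lit 2964965305) (nat_lit 0) (nat_lit 6685920281) (nat_lit 20) (nat_lit 5) (nat_lit 22) (nat_lit 4) (nat_lit 20) (nat_lit 4) (nat_lit 367) (nat_lit 284) (nat_lit 249)))) (XT.nd (nat_lit 78) (nat_lit 152) (nat_lit 0) (XT.lf (nat_lit 0) (nat_lit 13667196282) (nat_lit 76) (nat_lit 16190141638) (nat_lit 76) (nat_lit 1889284868) (nat_lit 19) (nat_lit 4) (nat_lit 20) (nat_lit 5) (nat_lit 20) (nat_lit 4) (nat_lit 368) (nat_lit 284) (nat_lit 248)) (XT.nd (nat_lit 78) (nat_lit 76) (nat_lit 0) (XT.lf (nat_lit 0) (nat_lit 6057499503) (nat_lit 152) (nat_lit 2146248658) (nat_lit 76) (nat_lit 24864593974) (nat_lit 18) (nat_lit 5) (nat_lit 20) (nat_lit 5) (nat_lit 19) (nat_lit 4) (nat_lit 369) (nat_lit 284) (nat_lit 247)) (XT.lf (nat_lit 0) (nat_lit 14399892339) (nat_lit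 152) (nat_lit 19808402365) (nat_lit 0) (nat_lit 246182522) (nat_lit 17) (nat_lit 5) (nat_lit 19) (nat_lit 4) (nat_lit 17) (nat_lit 4) (nat_lit 370) (nat_lit 284) (nat_lit 246))))) (XT.nd (nat_lit 234) (nat_lit 76) (nat_lit 0) (XT.nd (nat_lit 78) (nat_lit 152) (nat_lit 0) (XT.lf (nat_lit 0) (nat_lit 23160556115) (nat_lit 152) (nat_lit 3867641637) (nat_lit 0) (nat_lit 8881697468) (nat_lit 17) (nat_lit 5) (nat_lit 19) (nat_lit 4) (nat_lit 17) (nat_lit 4) (nat_lit 371) (nat_lit 284) (nat_lit 245)) (XT.nd (nat_lit 78) (nat_lit 76) (nat_lit 0) (XT.lf (nat_lit 0) (nat_lit 12933751631) (nat_lit 76) (nat_lit 19450815624) (nat_lit 76) (nat_lit 5052767615) (nat_lit 16) (nat_lit 4) (nat_lit 17) (nat_lit 5) (nat_lit 17) (nat_lit 4) (nat_lit 372) (nat_lit 284) (nat_lit 244)) (XT.lf (nat_lit 0) (nat_lit 2912719677) (nat_lit 152) (nat_lit 8598740741) (nat_lit 76) (nat_lit 27530526503) (nat_lit 15) (nat_lit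 5) (nat_lit 17) (nat_lit 5) (nat_lit 16) (nat_lit 4) (nat_lit 373) (nat_lit 284) (nat_lit 243)))) (XT.nd (nat_lit 78) (nat_lit 0) (nat_lit 0) (XT.lf (nat_lit 0) (nat_lit 8030556548) (nat_lit 76) (nat_lit 3127190495) (nat_lit 152) (nat_lit 29568059734) (nat_lit 14) (nat_lit 5) (nat_lit 15) (nat_lit 5) (nat_lit 16) (nat_lit 4) (nat_lit 374) (nat_lit 284) (nat_lit 242)) (XT.nd (nat_lit 78) (nat_lit 0) (nat_lit 0) (XT.lf (nat_lit 0) (nat_lit 19868547256) (nat_lit 152) (nat_lit 17048941740) (nat_lit 0) (nat_lit 5574731524) (nat_lit 14) (nat_lit 5) (nat_lit 16) (nat_lit 4) (nat_lit 14) (nat_lit 4) (nat_lit 375) (nat_lit 284) (nat_lit 241)) (XT.lf (nat_lit 0) (nat_lit 28960322044) (nat_lit 152) (nat_lit 816973031) (nat_lit 0) (nat_lit 14571304970) (nat_lit 14) (nat_lit 5) (nat_lit 16) (nat_lit 4) (nat_lit 14) (nat_lit 4) (nat_lit 376) (nat_lit 284) (nat_lit 240)))))) (XT.nd (nat_lit 468) (nat_lit 228)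 (nat_lit 0) (XT.nd (nat_lit 234) (nat_lit 0) (nat_lit 0) (XT.nd (nat_lit 78) (nat_lit 152) (nat_lit 0) (XT.lf (nat_lit 0) (nat_lit 16389175759) (nat_lit 76) (nat_lit 22193025048) (nat_lit 76) (nat_lit 7713340028) (nat_lit 13) (nat_lit 4) (nat_lit 14) (nat_lit 5) (nat_lit 14) (nat_lit 4) (nat_lit 377) (nat_lit 284) (nat_lit 239)) (XT.nd (nat_lit 78) (nat_lit 76) (nat_lit 0) (XT.lf (nat_lit 0) (nat_lit 266714415) (nat_lit 152) (nat_lit 14024605180) (nat_lit 76) (nat_lit 34050573383) (nat_lit 12) (nat_lit 5) (nat_lit 14) (nat_lit 5) (nat_lit 13) (nat_lit 4) (nat_lit 378) (nat_lit 284) (nat_lit 238)) (XT.lf (nat_lit 0) (nat_lit 2474699245) (nat_lit 76) (nat_lit 5960262916) (nat_lit 152) (nat_lit 42054854869) (nat_lit 11) (nat_lit 5) (nat_lit 12) (nat_lit 5) (nat_lit 13) (nat_lit 4) (nat_lit 379) (nat_lit 284) (nat_lit 237)))) (XT.nd (nat_lit 78) (nat_lit 0) (nat_lit 0) (XT.lf (nat_lit 0) (nat_lit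 17109274267) (nat_lit 152) (nat_lit 32821332021) (nat_lit 0) (nat_lit 2811607933) (nat_lit 11) (nat_lit 5) (nat_lit 13) (nat_lit 4) (nat_lit 11) (nat_lit 4) (nat_lit 380) (nat_lit 284) (nat_lit 236)) (XT.nd (nat_lit 78) (nat_lit 0) (nat_lit 0) (XT.lf (nat_lit 0) (nat_lit 26206086964) (nat_lit 152) (nat_lit 17065486452) (nat_lit 0) (nat_lit 11836000491) (nat_lit 11) (nat_lit 5) (nat_lit 13) (nat_lit 4) (nat_lit 11) (nat_lit 4) (nat_lit 381) (nat_lit 284) (nat_lit 235)) (XT.lf (nat_lit 0) (nat_lit 35689765639) (nat_lit 152) (nat_lit 652773465) (nat_lit 0) (nat_lit 21250707605) (nat_lit 11) (nat_lit 5) (nat_lit 13) (nat_lit 4) (nat_lit 11) (nat_lit 4) (nat_lit 382) (nat_lit 284) (nat_lit 234))))) (XT.nd (nat_lit 234) (nat_lit 76) (nat_lit 0) (XT.nd (nat_lit 78) (nat_lit 76) (nat_lit 0) (XT.lf (nat_lit 0) (nat_lit 16783389200) (nat_lit 76) (nat_lit 28960833481) (nat_lit 76) (nat_lit 14456088247)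 (nat_lit 10) (nat_lit 4) (nat_lit 11) (nat_lit 5) (nat_lit 11) (nat_lit 4) (nat_lit 383) (nat_lit 284) (nat_lit 233)) (XT.nd (nat_lit 78) (nat_lit 76) (nat_lit 0) (XT.lf (nat_lit 0) (nat_lit 34983884924) (nat_lit 76) (nat_lit 21261418119) (nat_lit 76) (nat_lit 6694113646) (nat_lit 10) (nat_lit 4) (nat_lit 11) (nat_lit 5) (nat_lit 11) (nat_lit 4) (nat_lit 384) (nat_lit 284) (nat_lit 232)) (XT.lf (nat_lit 0) (nat_lit 1367123455) (nat_lit 152) (nat_lit 11851624086) (nat_lit 76) (nat_lit 52598128025) (nat_lit 9) (nat_lit 5) (nat_lit 11) (nat_lit 5) (nat_lit 10) (nat_lit 4) (nat_lit 385) (nat_lit 284) (nat_lit 231)))) (XT.nd (nat_lit 78) (nat_lit 0) (nat_lit 0) (XT.lf (nat_lit 0) (nat_lit 4976007583) (nat_lit 76) (nat_lit 4708541854) (nat_lit 152) (nat_lit 59151927160) (nat_lit 8) (nat_lit 5) (nat_lit 9) (nat_lit 5) (nat_lit 10) (nat_lit 4) (nat_lit 386) (nat_lit 284) (nat_lit 230)) (XT.nd (nat_lit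 78) (nat_lit 0) (nat_lit 0) (XT.lf (nat_lit 0) (nat_lit 18525347273) (nat_lit 152) (nat_lit 49261558905) (nat_lit 0) (nat_lit 4216930965) (nat_lit 8) (nat_lit 5) (nat_lit 10) (nat_lit 4) (nat_lit 8) (nat_lit 4) (nat_lit 387) (nat_lit 284) (nat_lit 229)) (XT.lf (nat_lit 0) (nat_lit 27802048900) (nat_lit 152) (nat_lit 34084041159) (nat_lit 0) (nat_lit 13443664009) (nat_lit 8) (nat_lit 5) (nat_lit 10) (nat_lit 4) (nat_lit 8) (nat_lit 4) (nat_lit 388) (nat_lit 284) (nat_lit 228))))))))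
noncomputable def xc23 : XT := (XT.nd (nat_lit 43524) (nat_lit 0) (nat_lit 988) (XT.nd (nat_lit 42588) (nat_lit 0) (nat_lit 3648) (XT.nd (nat_lit 468) (nat_lit 152) (nat_lit 0) (XT.nd (nat_lit 234) (nat_lit 0) (nat_lit 0) (XT.nd (nat_lit 78) (nat_lit 76) (nat_lit 0) (XT.lf (nat_lit 0) (nat_lit 37491480318) (nat_lit 152) (nat_lit 18246517444) (nat_lit 0) (nat_lit 23085506300) (nat_lit 8) (nat_lit 5) (nat_lit 10) (nat_lit 4) (nat_lit 8) (nat_lit 4) (nat_lit 389) (nat_lit 284) (nat_lit 227)) (XT.nd (nat_lit 78) (nat_lit 76) (nat_lit 0) (XT.lf (nat_lit 0) (nat_lit 47616711602) (nat_lit 152) (nat_lit 1711279371) (nat_lit 0) (nat_lit 33165414606) (nat_lit 8) (nat_lit 5) (nat_lit 10) (nat_lit 4) (nat_lit 8) (nat_lit 4) (nat_lit 390) (nat_lit 284) (nat_lit 226)) (XT.lf (nat_lit 0) (nat_lit 15870737936) (nat_lit 76) (nat_lit 42483671752) (nat_lit 76) (nat_lit 27989210015) (nat_lit 7) (nat_lit 4) (nat_lit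 8) (nat_lit 5) (nat_lit 8) (nat_lit 4) (nat_lit 391) (nat_lit 284) (nat_lit 225)))) (XT.nd (nat_lit 78) (nat_lit 0) (nat_lit 0) (XT.lf (nat_lit 0) (nat_lit 34280509483) (nat_lit 76) (nat_lit 35321115305) (nat_lit 76) (nat_lit 20785544291) (nat_lit 7) (nat_lit 4) (nat_lit 8) (nat_lit 5) (nat_lit 8) (nat_lit 4) (nat_lit 392) (nat_lit 284) (nat_lit 224)) (XT.nd (nat_lit 78) (nat_lit 0) (nat_lit 0) (XT.lf (nat_lit 0) (nat_lit 53527810246) (nat_lit 76) (nat_lit 27840548494) (nat_lit 76) (nat_lit 13265825787) (nat_lit 7) (nat_lit 4) (nat_lit 8) (nat_lit 5) (nat_lit 8) (nat_lit 4) (nat_lit 393) (nat_lit 284) (nat_lit 223)) (XT.lf (nat_lit 0) (nat_lit 73658467130) (nat_lit 76) (nat_lit 20024160444) (nat_lit 76) (nat_lit 5412150412) (nat_lit 7) (nat_lit 4) (nat_lit 8) (nat_lit 5) (nat_lit 8) (nat_lit 4) (nat_lit 394) (nat_lit 284) (nat_lit 222))))) (XT.nd (nat_lit 41886) (nat_lit 0) (nat_lit 7068) (XT.nd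 (nat_lit 78) (nat_lit 76) (nat_lit 0) (XT.lf (nat_lit 0) (nat_lit 2739656525) (nat_lit 152) (nat_lit 9086019025) (nat_lit 76) (nat_lit 91953088586) (nat_lit 6) (nat_lit 5) (nat_lit 8) (nat_lit 5) (nat_lit 7) (nat_lit 4) (nat_lit 395) (nat_lit 284) (nat_lit 221)) (XT.nd (nat_lit 41730) (nat_lit 0) (nat_lit 8360) (XT.lf (nat_lit 0) (nat_lit 8113066286) (nat_lit 76) (nat_lit 3115706502) (nat_lit 152) (nat_lit 97465322523) (nat_lit 5) (nat_lit 5) (nat_lit 6) (nat_lit 5) (nat_lit 7) (nat_lit 4) (nat_lit 396) (nat_lit 284) (nat_lit 220)) (XT.lf (nat_lit 0) (nat_lit 3450881077) (nat_lit 304) (nat_lit 598437905) (nat_lit 304) (nat_lit 598437905) (nat_lit 115) (nat_lit 4) (nat_lit 119) (nat_lit 5) (nat_lit 119) (nat_lit 4) (nat_lit 330) (nat_lit 285) (nat_lit 285)))) (XT.nd (nat_lit 78) (nat_lit 608) (nat_lit 0) (XT.lf (nat_lit 0) (nat_lit 345706652) (nat_lit 304) (nat_lit 5294294449) (nat_lit 304) (nat_lit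 3865796891) (nat_lit 106) (nat_lit 4) (nat_lit 110) (nat_lit 5) (nat_lit 110) (nat_lit 4) (nat_lit 331) (nat_lit 285) (nat_lit 284)) (XT.nd (nat_lit 78) (nat_lit 304) (nat_lit 0) (XT.lf (nat_lit 0) (nat_lit 2928291979) (nat_lit 304) (nat_lit 6579011552) (nat_lit 0) (nat_lit 220552734) (nat_lit 102) (nat_lit 5) (nat_lit 106) (nat_lit 4) (nat_lit 102) (nat_lit 4) (nat_lit 332) (nat_lit 285) (nat_lit 283)) (XT.lf (nat_lit 0) (nat_lit 5922334799) (nat_lit 304) (nat_lit 4002525101) (nat_lit 304) (nat_lit 36834988) (nat_lit 98) (nat_lit 4) (nat_lit 102) (nat_lit 5) (nat_lit 102) (nat_lit 4) (nat_lit 333) (nat_lit 285) (nat_lit 282)))))) (XT.nd (nat_lit 468) (nat_lit 1520) (nat_lit 0) (XT.nd (nat_lit 234) (nat_lit 760) (nat_lit 0) (XT.nd (nat_lit 78) (nat_lit 836) (nat_lit 0) (XT.lf (nat_lit 0) (nat_lit 6838455085) (nat_lit 304) (nat_lit 1544347849) (nat_lit 0) (nat_lit 1825116678) (nat_lit 94) (nat_lit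 5) (nat_lit 98) (nat_lit 4) (nat_lit 94) (nat_lit 4) (nat_lit 334) (nat_lit 285) (nat_lit 281)) (XT.nd (nat_lit 78) (nat_lit 228) (nat_lit 0) (XT.lf (nat_lit 0) (nat_lit 923435788) (nat_lit 228) (nat_lit 2546780837) (nat_lit 304) (nat_lit 6996785313) (nat_lit 86) (nat_lit 5) (nat_lit 89) (nat_lit 5) (nat_lit 90) (nat_lit 4) (nat_lit 335) (nat_lit 285) (nat_lit 280)) (XT.lf (nat_lit 0) (nat_lit 3370691186) (nat_lit 228) (nat_lit 7167923451) (nat_lit 228) (nat_lit 200817845) (nat_lit 83) (nat_lit 4) (nat_lit 86) (nat_lit 5) (nat_lit 86) (nat_lit 4) (nat_lit 336) (nat_lit 285) (nat_lit 279)))) (XT.nd (nat_lit 78) (nat_lit 456) (nat_lit 0) (XT.lf (nat_lit 0) (nat_lit 5730500211) (nat_lit 228) (nat_lit 1005025162) (nat_lit 304) (nat_lit 4289963097) (nat_lit 79) (nat_lit 5) (nat_lit 82) (nat_lit 5) (nat_lit 83) (nat_lit 4) (nat_lit 337) (nat_lit 285) (nat_lit 278)) (XT.nd (nat_lit 78) (nat_lit 152)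 (nat_lit 0) (XT.lf (nat_lit 0) (nat_lit 2604640735) (nat_lit 304) (nat_lit 3325855130) (nat_lit 76) (nat_lit 5395540280) (nat_lit 75) (nat_lit 5) (nat_lit 79) (nat_lit 5) (nat_lit 76) (nat_lit 4) (nat_lit 338) (nat_lit 285) (nat_lit 277)) (XT.lf (nat_lit 0) (nat_lit 9691828299) (nat_lit 228) (nat_lit 1455082857) (nat_lit 0) (nat_lit 495399745) (nat_lit 73) (nat_lit 5) (nat_lit 76) (nat_lit 4) (nat_lit 73) (nat_lit 4) (nat_lit 339) (nat_lit 285) (nat_lit 276))))) (XT.nd (nat_lit 234) (nat_lit 608) (nat_lit 0) (XT.nd (nat_lit 78) (nat_lit 456) (nat_lit 0) (XT.lf (nat_lit 0) (nat_lit 254166371) (nat_lit 152) (nat_lit 4792584514) (nat_lit 228) (nat_lit 6926573287) (nat_lit 67) (nat_lit 5) (nat_lit 69) (nat_lit 5) (nat_lit 70) (nat_lit 4) (nat_lit 340) (nat_lit 285) (nat_lit 275)) (XT.nd (nat_lit 78) (nat_lit 228) (nat_lit 0) (XT.lf (nat_lit 0) (nat_lit 1875078527) (nat_lit 228) (nat_lit 10440316723)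 (nat_lit 228) (nat_lit 6119594) (nat_lit 64) (nat_lit 4) (nat_lit 67) (nat_lit 5) (nat_lit 67) (nat_lit 4) (nat_lit 341) (nat_lit 285) (nat_lit 274)) (XT.lf (nat_lit 0) (nat_lit 3277361179) (nat_lit 152) (nat_lit 3821671329) (nat_lit 228) (nat_lit 5586636275) (nat_lit 61) (nat_lit 5) (nat_lit 63) (nat_lit 5) (nat_lit 64) (nat_lit 4) (nat_lit 342) (nat_lit 285) (nat_lit 273)))) (XT.nd (nat_lit 78) (nat_lit 380) (nat_lit 0) (XT.lf (nat_lit 0) (nat_lit 1428168080) (nat_lit 228) (nat_lit 8556978057) (nat_lit 76) (nat_lit 3083526604) (nat_lit 58) (nat_lit 5) (nat_lit 61) (nat_lit 5) (nat_lit 59) (nat_lit 4) (nat_lit 343) (nat_lit 285) (nat_lit 272)) (XT.nd (nat_lit 78) (nat_lit 228) (nat_lit 0) (XT.lf (nat_lit 0) (nat_lit 5502385369) (nat_lit 152) (nat_lit 3155009938) (nat_lit 228) (nat_lit 4812446587) (nat_lit 56) (nat_lit 5) (nat_lit 58) (nat_lit 5) (nat_lit 59) (nat_lit 4) (nat_lit 344) (nat_lit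 285) (nat_lit 271)) (XT.lf (nat_lit 0) (nat_lit 2292784778) (nat_lit 228) (nat_lit 7635708208) (nat_lit 76) (nat_lit 3962491113) (nat_lit 53) (nat_lit 5) (nat_lit 56) (nat_lit 5) (nat_lit 54) (nat_lit 4) (nat_lit 345) (nat_lit 285) (nat_lit 270))))))) (XT.nd (nat_lit 936) (nat_lit 912) (nat_lit 0) (XT.nd (nat_lit 468) (nat_lit 684) (nat_lit 0) (XT.nd (nat_lit 234) (nat_lit 532) (nat_lit 0) (XT.nd (nat_lit 78) (nat_lit 380) (nat_lit 0) (XT.lf (nat_lit 0) (nat_lit 6721393744) (nat_lit 152) (nat_lit 2911061034) (nat_lit 228) (nat_lit 4699983004) (nat_lit 51) (nat_lit 5) (nat_lit 53) (nat_lit 5) (nat_lit 54) (nat_lit 4) (nat_lit 346) (nat_lit 285) (nat_lit 269)) (XT.nd (nat_lit 78) (nat_lit 152) (nat_lit 0) (XT.lf (nat_lit 0) (nat_lit 2485372546) (nat_lit 228) (nat_lit 7914973045) (nat_lit 76) (nat_lit 4395171134) (nat_lit 48) (nat_lit 5) (nat_lit 51) (nat_lit 5) (nat_lit 49) (nat_lit 4) (nat_lit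 347) (nat_lit 285) (nat_lit 268)) (XT.lf (nat_lit 0) (nat_lit 6687565214) (nat_lit 152) (nat_lit 3226480500) (nat_lit 228) (nat_lit 5366909898) (nat_lit 46) (nat_lit 5) (nat_lit 48) (nat_lit 5) (nat_lit 49) (nat_lit 4) (nat_lit 348) (nat_lit 285) (nat_lit 267)))) (XT.nd (nat_lit 78) (nat_lit 304) (nat_lit 0) (XT.lf (nat_lit 0) (nat_lit 1880684092) (nat_lit 228) (nat_lit 9670434350) (nat_lit 76) (nat_lit 4239187971) (nat_lit 43) (nat_lit 5) (nat_lit 46) (nat_lit 5) (nat_lit 44) (nat_lit 4) (nat_lit 349) (nat_lit 285) (nat_lit 266)) (XT.nd (nat_lit 78) (nat_lit 228) (nat_lit 0) (XT.lf (nat_lit 0) (nat_lit 5107767098) (nat_lit 76) (nat_lit 4260031010) (nat_lit 152) (nat_lit 6956123313) (nat_lit 42) (nat_lit 5) (nat_lit 43) (nat_lit 5) (nat_lit 44) (nat_lit 4) (nat_lit 350) (nat_lit 285) (nat_lit 265)) (XT.lf (nat_lit 0) (nat_lit 326925348) (nat_lit 228) (nat_lit 13229033378) (nat_lit 76) (nat_lit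 3328532965) (nat_lit 39) (nat_lit 5) (nat_lit 42) (nat_lit 5) (nat_lit 40) (nat_lit 4) (nat_lit 351) (nat_lit 285) (nat_lit 264))))) (XT.nd (nat_lit 234) (nat_lit 380) (nat_lit 0) (XT.nd (nat_lit 78) (nat_lit 228) (nat_lit 0) (XT.lf (nat_lit 0) (nat_lit 1633981308) (nat_lit 76) (nat_lit 6197099193) (nat_lit 152) (nat_lit 9639949995) (nat_lit 38) (nat_lit 5) (nat_lit 39) (nat_lit 5) (nat_lit 40) (nat_lit 4) (nat_lit 352) (nat_lit 285) (nat_lit 263)) (XT.nd (nat_lit 78) (nat_lit 228) (nat_lit 0) (XT.lf (nat_lit 0) (nat_lit 15690904221) (nat_lit 152) (nat_lit 895890927) (nat_lit 0) (nat_lit 1500716526) (nat_lit 38) (nat_lit 5) (nat_lit 40) (nat_lit 4) (nat_lit 38) (nat_lit 4) (nat_lit 353) (nat_lit 285) (nat_lit 262)) (XT.lf (nat_lit 0) (nat_lit 5148067385) (nat_lit 228) (nat_lit 4065807124) (nat_lit 76) (nat_lit 9518243030) (nat_lit 35) (nat_lit 5) (nat_lit 38) (nat_lit 5) (nat_lit 36) (nat_lit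 4) (nat_lit 354) (nat_lit 285) (nat_lit 261)))) (XT.nd (nat_lit 78) (nat_lit 304) (nat_lit 0) (XT.lf (nat_lit 0) (nat_lit 11523919009) (nat_lit 76) (nat_lit 1456852416) (nat_lit 152) (nat_lit 6428685341) (nat_lit 34) (nat_lit 5) (nat_lit 35) (nat_lit 5) (nat_lit 36) (nat_lit 4) (nat_lit 355) (nat_lit 285) (nat_lit 260)) (XT.nd (nat_lit 78) (nat_lit 76) (nat_lit 0) (XT.lf (nat_lit 0) (nat_lit 1087092445) (nat_lit 228) (nat_lit 12475645612) (nat_lit 76) (nat_lit 6556921802) (nat_lit 31) (nat_lit 5) (nat_lit 34) (nat_lit 5) (nat_lit 32) (nat_lit 4) (nat_lit 356) (nat_lit 285) (nat_lit 259)) (XT.lf (nat_lit 0) (nat_lit 2945803101) (nat_lit 76) (nat_lit 5872827311) (nat_lit 152) (nat_lit 12045668079) (nat_lit 30) (nat_lit 5) (nat_lit 31) (nat_lit 5) (nat_lit 32) (nat_lit 4) (nat_lit 357) (nat_lit 285) (nat_lit 258)))))) (XT.nd (nat_lit 468) (nat_lit 380) (nat_lit 0) (XT.nd (nat_lit 234) (nat_lit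 228) (nat_lit 0) (XT.nd (nat_lit 78) (nat_lit 304) (nat_lit 0) (XT.lf (nat_lit 0) (nat_lit 16937737663) (nat_lit 152) (nat_lit 2544047405) (nat_lit 0) (nat_lit 2164375823) (nat_lit 30) (nat_lit 5) (nat_lit 32) (nat_lit 4) (nat_lit 30) (nat_lit 4) (nat_lit 358) (nat_lit 285) (nat_lit 257)) (XT.nd (nat_lit 78) (nat_lit 76) (nat_lit 0) (XT.lf (nat_lit 0) (nat_lit 2984358820) (nat_lit 228) (nat_lit 8956025182) (nat_lit 76) (nat_lit 10524474551) (nat_lit 27) (nat_lit 5) (nat_lit 30) (nat_lit 5) (nat_lit 28) (nat_lit 4) (nat_lit 359) (nat_lit 285) (nat_lit 256)) (XT.lf (nat_lit 0) (nat_lit 6920808503) (nat_lit 76) (nat_lit 3997675168) (nat_lit 152) (nat_lit 12406005479) (nat_lit 26) (nat_lit 5) (nat_lit 27) (nat_lit 5) (nat_lit 28) (nat_lit 4) (nat_lit 360) (nat_lit 285) (nat_lit 255)))) (XT.nd (nat_lit 78) (nat_lit 228) (nat_lit 0) (XT.lf (nat_lit 0) (nat_lit 19247462292) (nat_lit 152) (nat_lit 744121661)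 (nat_lit 0) (nat_lit 4235591020) (nat_lit 26) (nat_lit 5) (nat_lit 28) (nat_lit 4) (nat_lit 26) (nat_lit 4) (nat_lit 361) (nat_lit 285) (nat_lit 254)) (XT.nd (nat_lit 78) (nat_lit 76) (nat_lit 0) (XT.lf (nat_lit 0) (nat_lit 2824779335) (nat_lit 152) (nat_lit 9479616431) (nat_lit 76) (nat_lit 12867947300) (nat_lit 24) (nat_lit 5) (nat_lit 26) (nat_lit 5) (nat_lit 25) (nat_lit 4) (nat_lit 362) (nat_lit 285) (nat_lit 253)) (XT.lf (nat_lit 0) (nat_lit 6642546068) (nat_lit 76) (nat_lit 4218976329) (nat_lit 152) (nat_lit 15303433566) (nat_lit 23) (nat_lit 5) (nat_lit 24) (nat_lit 5) (nat_lit 25) (nat_lit 4) (nat_lit 363) (nat_lit 285) (nat_lit 252))))) (XT.nd (nat_lit 234) (nat_lit 152) (nat_lit 0) (XT.nd (nat_lit 78) (nat_lit 228) (nat_lit 0) (XT.lf (nat_lit 0) (nat_lit 19314970556) (nat_lit 152) (nat_lit 3712368500) (nat_lit 0) (nat_lit 4179429609) (nat_lit 23) (nat_lit 5) (nat_lit 25) (nat_lit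 4) (nat_lit 23) (nat_lit 4) (nat_lit 364) (nat_lit 285) (nat_lit 251)) (XT.nd (nat_lit 78) (nat_lit 152) (nat_lit 0) (XT.lf (nat_lit 0) (nat_lit 12872989809) (nat_lit 76) (nat_lit 15365632048) (nat_lit 76) (nat_lit 60638695) (nat_lit 22) (nat_lit 4) (nat_lit 23) (nat_lit 5) (nat_lit 23) (nat_lit 4) (nat_lit 365) (nat_lit 285) (nat_lit 250)) (XT.lf (nat_lit 0) (nat_lit 633778246) (nat_lit 76) (nat_lit 7297332513) (nat_lit 152) (nat_lit 21515076784) (nat_lit 20) (nat_lit 5) (nat_lit 21) (nat_lit 5) (nat_lit 22) (nat_lit 4) (nat_lit 366) (nat_lit 285) (nat_lit 249)))) (XT.nd (nat_lit 78) (nat_lit 152) (nat_lit 0) (XT.lf (nat_lit 0) (nat_lit 16379007905) (nat_lit 152) (nat_lit 13055826662) (nat_lit 0) (nat_lit 1213886621) (nat_lit 20) (nat_lit 5) (nat_lit 22) (nat_lit 4) (nat_lit 20) (nat_lit 4) (nat_lit 367) (nat_lit 285) (nat_lit 248)) (XT.nd (nat_lit 78) (nat_lit 76) (nat_lit 0) (XT.lf (nat_lit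 0) (nat_lit 3273232530) (nat_lit 76) (nat_lit 21972748923) (nat_lit 76) (nat_lit 6665511755) (nat_lit 19) (nat_lit 4) (nat_lit 20) (nat_lit 5) (nat_lit 20) (nat_lit 4) (nat_lit 368) (nat_lit 285) (nat_lit 247)) (XT.lf (nat_lit 0) (nat_lit 1322647105) (nat_lit 152) (nat_lit 12757612002) (nat_lit 76) (nat_lit 19155891092) (nat_lit 18) (nat_lit 5) (nat_lit 20) (nat_lit 5) (nat_lit 19) (nat_lit 4) (nat_lit 369) (nat_lit 285) (nat_lit 246))))))))
noncomputable def xc24 : XT := (XT.nd (nat_lit 1794) (nat_lit 76) (nat_lit 0) (XT.nd (nat_lit 858) (nat_lit 304) (nat_lit 0) (XT.nd (nat_lit 390) (nat_lit 304) (nat_lit 0) (XT.nd (nat_lit 156) (nat_lit 152) (nat_lit 0) (XT.nd (nat_lit 78) (nat_lit 0) (nat_lit 0) (XT.lf (nat_lit 0) (nat_lit 3730391151) (nat_lit 76) (nat_lit 5777924155) (nat_lit 152) (nat_lit 25118676936) (nat_lit 17) (nat_lit 5) (nat_lit 18) (nat_lit 5) (nat_lit 19) (nat_lit 4) (nat_lit 370)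 (nat_lit 285) (nat_lit 245)) (XT.lf (nat_lit 0) (nat_lit 18165139138) (nat_lit 152) (nat_lit 14992391897) (nat_lit 0) (nat_lit 2927999366) (nat_lit 17) (nat_lit 5) (nat_lit 19) (nat_lit 4) (nat_lit 17) (nat_lit 4) (nat_lit 371) (nat_lit 285) (nat_lit 244))) (XT.nd (nat_lit 78) (nat_lit 76) (nat_lit 0) (XT.lf (nat_lit 0) (nat_lit 1498144364) (nat_lit 76) (nat_lit 25735080810) (nat_lit 76) (nat_lit 10384427360) (nat_lit 16) (nat_lit 4) (nat_lit 17) (nat_lit 5) (nat_lit 17) (nat_lit 4) (nat_lit 372) (nat_lit 285) (nat_lit 243)) (XT.nd (nat_lit 78) (nat_lit 76) (nat_lit 0) (XT.lf (nat_lit 0) (nat_lit 18951858659) (nat_lit 76) (nat_lit 17865703827) (nat_lit 76) (nat_lit 2406942113) (nat_lit 16) (nat_lit 4) (nat_lit 17) (nat_lit 5) (nat_lit 17) (nat_lit 4) (nat_lit 373) (nat_lit 285) (nat_lit 242)) (XT.lf (nat_lit 0) (nat_lit 5764931292) (nat_lit 152) (nat_lit 3858911441) (nat_lit 76) (nat_lit 31288783658)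 (nat_lit 15) (nat_lit 5) (nat_lit 17) (nat_lit 5) (nat_lit 16) (nat_lit 4) (nat_lit 374) (nat_lit 285) (nat_lit 241))))) (XT.nd (nat_lit 234) (nat_lit 152) (nat_lit 0) (XT.nd (nat_lit 78) (nat_lit 76) (nat_lit 0) (XT.lf (nat_lit 0) (nat_lit 13453660398) (nat_lit 76) (nat_lit 887935536) (nat_lit 152) (nat_lit 28341472235) (nat_lit 14) (nat_lit 5) (nat_lit 15) (nat_lit 5) (nat_lit 16) (nat_lit 4) (nat_lit 375) (nat_lit 285) (nat_lit 240)) (XT.nd (nat_lit 78) (nat_lit 76) (nat_lit 0) (XT.lf (nat_lit 0) (nat_lit 23384821905) (nat_lit 152) (nat_lit 13065601343) (nat_lit 0) (nat_lit 8090484688) (nat_lit 14) (nat_lit 5) (nat_lit 16) (nat_lit 4) (nat_lit 14) (nat_lit 4) (nat_lit 376) (nat_lit 285) (nat_lit 239)) (XT.lf (nat_lit 0) (nat_lit 3822276590) (nat_lit 76) (nat_lit 29025515318) (nat_lit 76) (nat_lit 13644827677) (nat_lit 13) (nat_lit 4) (nat_lit 14) (nat_lit 5) (nat_lit 14) (nat_lit 4) (nat_lit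 377) (nat_lit 285) (nat_lit 238)))) (XT.nd (nat_lit 78) (nat_lit 152) (nat_lit 0) (XT.lf (nat_lit 0) (nat_lit 21682130363) (nat_lit 76) (nat_lit 21160479320) (nat_lit 76) (nat_lit 5697553180) (nat_lit 13) (nat_lit 4) (nat_lit 14) (nat_lit 5) (nat_lit 14) (nat_lit 4) (nat_lit 378) (nat_lit 285) (nat_lit 237)) (XT.nd (nat_lit 78) (nat_lit 76) (nat_lit 0) (XT.lf (nat_lit 0) (nat_lit 2522519502) (nat_lit 152) (nat_lit 10420533930) (nat_lit 76) (nat_lit 37748460349) (nat_lit 12) (nat_lit 5) (nat_lit 14) (nat_lit 5) (nat_lit 13) (nat_lit 4) (nat_lit 379) (nat_lit 285) (nat_lit 236)) (XT.lf (nat_lit 0) (nat_lit 6780325113) (nat_lit 76) (nat_lit 4252269160) (nat_lit 152) (nat_lit 41916246835) (nat_lit 11) (nat_lit 5) (nat_lit 12) (nat_lit 5) (nat_lit 13) (nat_lit 4) (nat_lit 380) (nat_lit 285) (nat_lit 235)))))) (XT.nd (nat_lit 468) (nat_lit 152) (nat_lit 0) (XT.nd (nat_lit 234) (nat_lit 76) (nat_lit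 0) (XT.nd (nat_lit 78) (nat_lit 76) (nat_lit 0) (XT.lf (nat_lit 0) (nat_lit 20055373189) (nat_lit 152) (nat_lit 30435660799) (nat_lit 0) (nat_lit 4825390693) (nat_lit 11) (nat_lit 5) (nat_lit 13) (nat_lit 4) (nat_lit 11) (nat_lit 4) (nat_lit 381) (nat_lit 285) (nat_lit 234)) (XT.nd (nat_lit 78) (nat_lit 76) (nat_lit 0) (XT.lf (nat_lit 0) (nat_lit 29507472464) (nat_lit 152) (nat_lit 14083772371) (nat_lit 0) (nat_lit 14211802767) (nat_lit 11) (nat_lit 5) (nat_lit 13) (nat_lit 4) (nat_lit 11) (nat_lit 4) (nat_lit 382) (nat_lit 285) (nat_lit 233)) (XT.lf (nat_lit 0) (nat_lit 3026006046) (nat_lit 76) (nat_lit 36373603459) (nat_lit 76) (nat_lit 21015374523) (nat_lit 10) (nat_lit 4) (nat_lit 11) (nat_lit 5) (nat_lit 11) (nat_lit 4) (nat_lit 383) (nat_lit 285) (nat_lit 232)))) (XT.nd (nat_lit 78) (nat_lit 76) (nat_lit 0) (XT.lf (nat_lit 0) (nat_lit 21170234118) (nat_lit 76) (nat_lit 28701271423) (nat_lit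 76) (nat_lit 13283462260) (nat_lit 10) (nat_lit 4) (nat_lit 11) (nat_lit 5) (nat_lit 11) (nat_lit 4) (nat_lit 384) (nat_lit 285) (nat_lit 231)) (XT.nd (nat_lit 78) (nat_lit 76) (nat_lit 0) (XT.lf (nat_lit 0) (nat_lit 40111817701) (nat_lit 76) (nat_lit 20698199756) (nat_lit 76) (nat_lit 5223647519) (nat_lit 10) (nat_lit 4) (nat_lit 11) (nat_lit 5) (nat_lit 11) (nat_lit 4) (nat_lit 385) (nat_lit 285) (nat_lit 230)) (XT.lf (nat_lit 0) (nat_lit 3121142870) (nat_lit 152) (nat_lit 9192673232) (nat_lit 76) (nat_lit 56743195510) (nat_lit 9) (nat_lit 5) (nat_lit 11) (nat_lit 5) (nat_lit 10) (nat_lit 4) (nat_lit 386) (nat_lit 285) (nat_lit 229))))) (XT.nd (nat_lit 234) (nat_lit 76) (nat_lit 0) (XT.nd (nat_lit 78) (nat_lit 0) (nat_lit 0) (XT.lf (nat_lit 0) (nat_lit 8383135508) (nat_lit 76) (nat_lit 3421394742) (nat_lit 152) (nat_lit 60424566305) (nat_lit 8) (nat_lit 5) (nat_lit 9) (nat_lit 5) (nat_lit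 10) (nat_lit 4) (nat_lit 387) (nat_lit 285) (nat_lit 228)) (XT.nd (nat_lit 78) (nat_lit 0) (nat_lit 0) (XT.lf (nat_lit 0) (nat_lit 21023413928) (nat_lit 152) (nat_lit 48683783991) (nat_lit 0) (nat_lit 5849552082) (nat_lit 8) (nat_lit 5) (nat_lit 10) (nat_lit 4) (nat_lit 8) (nat_lit 4) (nat_lit 388) (nat_lit 285) (nat_lit 227)) (XT.lf (nat_lit 0) (nat_lit 30689103051) (nat_lit 152) (nat_lit 32892192875) (nat_lit 0) (nat_lit 15469918227) (nat_lit 8) (nat_lit 5) (nat_lit 10) (nat_lit 4) (nat_lit 8) (nat_lit 4) (nat_lit 389) (nat_lit 285) (nat_lit 226)))) (XT.nd (nat_lit 78) (nat_lit 76) (nat_lit 0) (XT.lf (nat_lit 0) (nat_lit 40791722626) (nat_lit 152) (nat_lit 16400700133) (nat_lit 0) (nat_lit 25529373061) (nat_lit 8) (nat_lit 5) (nat_lit 10) (nat_lit 4) (nat_lit 8) (nat_lit 4) (nat_lit 390) (nat_lit 285) (nat_lit 225)) (XT.nd (nat_lit 78) (nat_lit 0) (nat_lit 0) (XT.lf (nat_lit 0) (nat_lit 846477516)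 (nat_lit 76) (nat_lit 50516985851) (nat_lit 76) (nat_lit 35213527009) (nat_lit 7) (nat_lit 4) (nat_lit 8) (nat_lit 5) (nat_lit 8) (nat_lit 4) (nat_lit 391) (nat_lit 285) (nat_lit 224)) (XT.lf (nat_lit 0) (nat_lit 19215781082) (nat_lit 76) (nat_lit 43373998895) (nat_lit 76) (nat_lit 28031388361) (nat_lit 7) (nat_lit 4) (nat_lit 8) (nat_lit 5) (nat_lit 8) (nat_lit 4) (nat_lit 392) (nat_lit 285) (nat_lit 223))))))) (XT.nd (nat_lit 42432) (nat_lit 0) (nat_lit 3192) (XT.nd (nat_lit 41964) (nat_lit 0) (nat_lit 6308) (XT.nd (nat_lit 234) (nat_lit 76) (nat_lit 0) (XT.nd (nat_lit 78) (nat_lit 0) (nat_lit 0) (XT.lf (nat_lit 0) (nat_lit 38424540910) (nat_lit 76) (nat_lit 35912069695) (nat_lit 76) (nat_lit 20532171834) (nat_lit 7) (nat_lit 4) (nat_lit 8) (nat_lit 5) (nat_lit 8) (nat_lit 4) (nat_lit 393) (nat_lit 285) (nat_lit 222)) (XT.nd (nat_lit 78) (nat_lit 0) (nat_lit 0) (XT.lf (nat_lit 0) (nat_lit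 58518492142) (nat_lit 76) (nat_lit 28113431751) (nat_lit 76) (nat_lit 12698022152) (nat_lit 7) (nat_lit 4) (nat_lit 8) (nat_lit 5) (nat_lit 8) (nat_lit 4) (nat_lit 394) (nat_lit 285) (nat_lit 221)) (XT.lf (nat_lit 0) (nat_lit 79545477518) (nat_lit 76) (nat_lit 19959516879) (nat_lit 76) (nat_lit 4510286575) (nat_lit 7) (nat_lit 4) (nat_lit 8) (nat_lit 5) (nat_lit 8) (nat_lit 4) (nat_lit 395) (nat_lit 285) (nat_lit 220)))) (XT.nd (nat_lit 41574) (nat_lit 0) (nat_lit 8588) (XT.lf (nat_lit 0) (nat_lit 3971489082) (nat_lit 152) (nat_lit 7419317659) (nat_lit 76) (nat_lit 97543967955) (nat_lit 6) (nat_lit 5) (nat_lit 8) (nat_lit 5) (nat_lit 7) (nat_lit 4) (nat_lit 396) (nat_lit 285) (nat_lit 219)) (XT.nd (nat_lit 78) (nat_lit 380) (nat_lit 0) (XT.lf (nat_lit 0) (nat_lit 605148905) (nat_lit 380) (nat_lit 1923326541) (nat_lit 380) (nat_lit 1923326541) (nat_lit 124) (nat_lit 4) (nat_lit 129) (nat_lit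 5) (nat_lit 129) (nat_lit 4) (nat_lit 328) (nat_lit 286) (nat_lit 286)) (XT.lf (nat_lit 0) (nat_lit 2748548167) (nat_lit 380) (nat_lit 5143855116) (nat_lit 0) (nat_lit 1203628058) (nat_lit 119) (nat_lit 5) (nat_lit 124) (nat_lit 4) (nat_lit 119) (nat_lit 4) (nat_lit 329) (nat_lit 286) (nat_lit 285))))) (XT.nd (nat_lit 234) (nat_lit 988) (nat_lit 0) (XT.nd (nat_lit 78) (nat_lit 912) (nat_lit 0) (XT.lf (nat_lit 0) (nat_lit 208230962) (nat_lit 380) (nat_lit 2593563738) (nat_lit 76) (nat_lit 6497668882) (nat_lit 114) (nat_lit 5) (nat_lit 119) (nat_lit 5) (nat_lit 115) (nat_lit 4) (nat_lit 330) (nat_lit 286) (nat_lit 284)) (XT.nd (nat_lit 78) (nat_lit 608) (nat_lit 0) (XT.lf (nat_lit 0) (nat_lit 6871902794) (nat_lit 380) (nat_lit 59043090) (nat_lit 0) (nat_lit 2583008937) (nat_lit 110) (nat_lit 5) (nat_lit 115) (nat_lit 4) (nat_lit 110) (nat_lit 4) (nat_lit 331) (nat_lit 286) (nat_lit 283)) (XT.lf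 (nat_lit 0) (nat_lit 2521791186) (nat_lit 228) (nat_lit 1471496714) (nat_lit 304) (nat_lit 5746470785) (nat_lit 102) (nat_lit 5) (nat_lit 105) (nat_lit 5) (nat_lit 106) (nat_lit 4) (nat_lit 332) (nat_lit 286) (nat_lit 282)))) (XT.nd (nat_lit 78) (nat_lit 608) (nat_lit 0) (XT.lf (nat_lit 0) (nat_lit 850358043) (nat_lit 380) (nat_lit 4893747105) (nat_lit 76) (nat_lit 4233629647) (nat_lit 97) (nat_lit 5) (nat_lit 102) (nat_lit 5) (nat_lit 98) (nat_lit 4) (nat_lit 333) (nat_lit 286) (nat_lit 281)) (XT.nd (nat_lit 78) (nat_lit 380) (nat_lit 0) (XT.lf (nat_lit 0) (nat_lit 7577636141) (nat_lit 304) (nat_lit 2608066281) (nat_lit 0) (nat_lit 42711428) (nat_lit 94) (nat_lit 5) (nat_lit 98) (nat_lit 4) (nat_lit 94) (nat_lit 4) (nat_lit 334) (nat_lit 286) (nat_lit 280)) (XT.lf (nat_lit 0) (nat_lit 4036182322) (nat_lit 380) (nat_lit 396489412) (nat_lit 76) (nat_lit 6058820774) (nat_lit 89) (nat_lit 5) (nat_lit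 94) (nat_lit 5) (nat_lit 90) (nat_lit 4) (nat_lit 335) (nat_lit 286) (nat_lit 279)))))) (XT.nd (nat_lit 468) (nat_lit 1444) (nat_lit 0) (XT.nd (nat_lit 234) (nat_lit 608) (nat_lit 0) (XT.nd (nat_lit 78) (nat_lit 532) (nat_lit 0) (XT.lf (nat_lit 0) (nat_lit 179452673) (nat_lit 304) (nat_lit 8950968876) (nat_lit 76) (nat_lit 1638079443) (nat_lit 82) (nat_lit 5) (nat_lit 86) (nat_lit 5) (nat_lit 83) (nat_lit 4) (nat_lit 336) (nat_lit 286) (nat_lit 278)) (XT.nd (nat_lit 78) (nat_lit 304) (nat_lit 0) (XT.lf (nat_lit 0) (nat_lit 3927399714) (nat_lit 228) (nat_lit 3053740837) (nat_lit 304) (nat_lit 4077318200) (nat_lit 79) (nat_lit 5) (nat_lit 82) (nat_lit 5) (nat_lit 83) (nat_lit 4) (nat_lit 337) (nat_lit 286) (nat_lit 277)) (XT.lf (nat_lit 0) (nat_lit 2661961355) (nat_lit 304) (nat_lit 5401201514) (nat_lit 76) (nat_lit 3300352229) (nat_lit 75) (nat_lit 5) (nat_lit 79) (nat_lit 5) (nat_lit 76) (nat_lit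 4) (nat_lit 338) (nat_lit 286) (nat_lit 276)))) (XT.nd (nat_lit 78) (nat_lit 456) (nat_lit 0) (XT.lf (nat_lit 0) (nat_lit 7893891002) (nat_lit 152) (nat_lit 1720400979) (nat_lit 228) (nat_lit 2069576678) (nat_lit 73) (nat_lit 5) (nat_lit 75) (nat_lit 5) (nat_lit 76) (nat_lit 4) (nat_lit 339) (nat_lit 286) (nat_lit 275)) (XT.nd (nat_lit 78) (nat_lit 152) (nat_lit 0) (XT.lf (nat_lit 0) (nat_lit 4779981353) (nat_lit 304) (nat_lit 2337707164) (nat_lit 76) (nat_lit 4901758342) (nat_lit 69) (nat_lit 5) (nat_lit 73) (nat_lit 5) (nat_lit 70) (nat_lit 4) (nat_lit 340) (nat_lit 286) (nat_lit 274)) (XT.lf (nat_lit 0) (nat_lit 11364940403) (nat_lit 152) (nat_lit 520021040) (nat_lit 228) (nat_lit 487615161) (nat_lit 67) (nat_lit 5) (nat_lit 69) (nat_lit 5) (nat_lit 70) (nat_lit 4) (nat_lit 341) (nat_lit 286) (nat_lit 273))))) (XT.nd (nat_lit 234) (nat_lit 608) (nat_lit 0) (XT.nd (nat_lit 78) (nat_lit 380)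 (nat_lit 0) (XT.lf (nat_lit 0) (nat_lit 95416149) (nat_lit 152) (nat_lit 6383116665) (nat_lit 228) (nat_lit 6262815526) (nat_lit 61) (nat_lit 5) (nat_lit 63) (nat_lit 5) (nat_lit 64) (nat_lit 4) (nat_lit 342) (nat_lit 286) (nat_lit 272)) (XT.nd (nat_lit 78) (nat_lit 152) (nat_lit 0) (XT.lf (nat_lit 0) (nat_lit 605517522) (nat_lit 228) (nat_lit 12062500734) (nat_lit 76) (nat_lit 461343934) (nat_lit 58) (nat_lit 5) (nat_lit 61) (nat_lit 5) (nat_lit 59) (nat_lit 4) (nat_lit 343) (nat_lit 286) (nat_lit 271)) (XT.lf (nat_lit 0) (nat_lit 1753938407) (nat_lit 152) (nat_lit 5946690043) (nat_lit 228) (nat_lit 5833950114) (nat_lit 56) (nat_lit 5) (nat_lit 58) (nat_lit 5) (nat_lit 59) (nat_lit 4) (nat_lit 344) (nat_lit 286) (nat_lit 270)))) (XT.nd (nat_lit 78) (nat_lit 380) (nat_lit 0) (XT.lf (nat_lit 0) (nat_lit 1128330306) (nat_lit 228) (nat_lit 11726031555) (nat_lit 76) (nat_lit 1106561955) (nat_lit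 53) (nat_lit 5) (nat_lit 56) (nat_lit 5) (nat_lit 54) (nat_lit 4) (nat_lit 345) (nat_lit 286) (nat_lit 269)) (XT.nd (nat_lit 78) (nat_lit 228) (nat_lit 0) (XT.lf (nat_lit 0) (nat_lit 2382190744) (nat_lit 152) (nat_lit 5950484654) (nat_lit 228) (nat_lit 6073782746) (nat_lit 51) (nat_lit 5) (nat_lit 53) (nat_lit 5) (nat_lit 54) (nat_lit 4) (nat_lit 346) (nat_lit 286) (nat_lit 268)) (XT.lf (nat_lit 0) (nat_lit 971594060) (nat_lit 228) (nat_lit 12615177295) (nat_lit 76) (nat_lit 1288184825) (nat_lit 48) (nat_lit 5) (nat_lit 51) (nat_lit 5) (nat_lit 49) (nat_lit 4) (nat_lit 347) (nat_lit 286) (nat_lit 267))))))))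
noncomputable def xc25 : XT := (XT.nd (nat_lit 1794) (nat_lit 836) (nat_lit 0) (XT.nd (nat_lit 858) (nat_lit 912) (nat_lit 0) (XT.nd (nat_lit 390) (nat_lit 684) (nat_lit 0) (XT.nd (nat_lit 156) (nat_lit 304) (nat_lit 0) (XT.nd (nat_lit 78) (nat_lit 228) (nat_lit 0) (XT.lf (nat_lit 0) (nat_lit 1731913873) (nat_lit 152) (nat_lit 6531312371) (nat_lit 228) (nat_lit 7101298456) (nat_lit 46) (nat_lit 5) (nat_lit 48) (nat_lit 5) (nat_lit 49) (nat_lit 4) (nat_lit 348) (nat_lit 286) (nat_lit 266)) (XT.lf (nat_lit 0) (nat_lit 8772314) (nat_lit 228) (nat_lit 15007138421) (nat_lit 76) (nat_lit 863622965) (nat_lit 43) (nat_lit 5) (nat_lit 46) (nat_lit 5) (nat_lit 44) (nat_lit 4) (nat_lit 349) (nat_lit 286) (nat_lit 265))) (XT.nd (nat_lit 78) (nat_lit 304) (nat_lit 0) (XT.lf (nat_lit 0) (nat_lit 7361353015) (nat_lit 228) (nat_lit 482009126) (nat_lit 76) (nat_lit 8573838771) (nat_lit 43) (nat_lit 5) (nat_lit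 46) (nat_lit 5) (nat_lit 44) (nat_lit 4) (nat_lit 350) (nat_lit 286) (nat_lit 264)) (XT.nd (nat_lit 78) (nat_lit 228) (nat_lit 0) (XT.lf (nat_lit 0) (nat_lit 14757857978) (nat_lit 76) (nat_lit 298765967) (nat_lit 152) (nat_lit 1925907345) (nat_lit 42) (nat_lit 5) (nat_lit 43) (nat_lit 5) (nat_lit 44) (nat_lit 4) (nat_lit 351) (nat_lit 286) (nat_lit 263)) (XT.lf (nat_lit 0) (nat_lit 5493538541) (nat_lit 228) (nat_lit 4547585967) (nat_lit 76) (nat_lit 7532183968) (nat_lit 39) (nat_lit 5) (nat_lit 42) (nat_lit 5) (nat_lit 40) (nat_lit 4) (nat_lit 352) (nat_lit 286) (nat_lit 262))))) (XT.nd (nat_lit 234) (nat_lit 304) (nat_lit 0) (XT.nd (nat_lit 78) (nat_lit 304) (nat_lit 0) (XT.lf (nat_lit 0) (nat_lit 10790767126) (nat_lit 76) (nat_lit 2424118805) (nat_lit 152) (nat_lit 4979071604) (nat_lit 38) (nat_lit 5) (nat_lit 39) (nat_lit 5) (nat_lit 40) (nat_lit 4) (nat_lit 353) (nat_lit 286) (nat_lit 261))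 (XT.nd (nat_lit 78) (nat_lit 76) (nat_lit 0) (XT.lf (nat_lit 0) (nat_lit 2450124883) (nat_lit 228) (nat_lit 10905308889) (nat_lit 76) (nat_lit 5488863066) (nat_lit 35) (nat_lit 5) (nat_lit 38) (nat_lit 5) (nat_lit 36) (nat_lit 4) (nat_lit 354) (nat_lit 286) (nat_lit 260)) (XT.lf (nat_lit 0) (nat_lit 4409306980) (nat_lit 76) (nat_lit 5730712218) (nat_lit 152) (nat_lit 9385913129) (nat_lit 34) (nat_lit 5) (nat_lit 35) (nat_lit 5) (nat_lit 36) (nat_lit 4) (nat_lit 355) (nat_lit 286) (nat_lit 259)))) (XT.nd (nat_lit 78) (nat_lit 152) (nat_lit 0) (XT.lf (nat_lit 0) (nat_lit 185256575) (nat_lit 152) (nat_lit 18017084612) (nat_lit 152) (nat_lit 2039693782) (nat_lit 32) (nat_lit 4) (nat_lit 34) (nat_lit 5) (nat_lit 34) (nat_lit 4) (nat_lit 356) (nat_lit 286) (nat_lit 258)) (XT.nd (nat_lit 78) (nat_lit 76) (nat_lit 0) (XT.lf (nat_lit 0) (nat_lit 5632105333) (nat_lit 228) (nat_lit 4804763060) (nat_lit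 76) (nat_lit 10553390171) (nat_lit 31) (nat_lit 5) (nat_lit 34) (nat_lit 5) (nat_lit 32) (nat_lit 4) (nat_lit 357) (nat_lit 286) (nat_lit 257)) (XT.lf (nat_lit 0) (nat_lit 11149993187) (nat_lit 76) (nat_lit 2463833993) (nat_lit 152) (nat_lit 8162425384) (nat_lit 30) (nat_lit 5) (nat_lit 31) (nat_lit 5) (nat_lit 32) (nat_lit 4) (nat_lit 358) (nat_lit 286) (nat_lit 256)))))) (XT.nd (nat_lit 468) (nat_lit 380) (nat_lit 0) (XT.nd (nat_lit 234) (nat_lit 228) (nat_lit 0) (XT.nd (nat_lit 78) (nat_lit 152) (nat_lit 0) (XT.lf (nat_lit 0) (nat_lit 5194464161) (nat_lit 152) (nat_lit 16820909168) (nat_lit 152) (nat_lit 585570387) (nat_lit 28) (nat_lit 4) (nat_lit 30) (nat_lit 5) (nat_lit 30) (nat_lit 4) (nat_lit 359) (nat_lit 286) (nat_lit 255)) (XT.nd (nat_lit 78) (nat_lit 76) (nat_lit 0) (XT.lf (nat_lit 0) (nat_lit 7228506664) (nat_lit 228) (nat_lit 1779984310) (nat_lit 76) (nat_lit 14456205275) (nat_lit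 27) (nat_lit 5) (nat_lit 30) (nat_lit 5) (nat_lit 28) (nat_lit 4) (nat_lit 360) (nat_lit 286) (nat_lit 254)) (XT.lf (nat_lit 0) (nat_lit 14672155156) (nat_lit 76) (nat_lit 763370274) (nat_lit 152) (nat_lit 8935523857) (nat_lit 26) (nat_lit 5) (nat_lit 27) (nat_lit 5) (nat_lit 28) (nat_lit 4) (nat_lit 361) (nat_lit 286) (nat_lit 253)))) (XT.nd (nat_lit 78) (nat_lit 152) (nat_lit 0) (XT.lf (nat_lit 0) (nat_lit 6480325826) (nat_lit 76) (nat_lit 17605258718) (nat_lit 76) (nat_lit 1236171184) (nat_lit 25) (nat_lit 4) (nat_lit 26) (nat_lit 5) (nat_lit 26) (nat_lit 4) (nat_lit 362) (nat_lit 286) (nat_lit 252)) (XT.nd (nat_lit 78) (nat_lit 76) (nat_lit 0) (XT.lf (nat_lit 0) (nat_lit 6701593983) (nat_lit 152) (nat_lit 2948114524) (nat_lit 76) (nat_lit 16668717019) (nat_lit 24) (nat_lit 5) (nat_lit 26) (nat_lit 5) (nat_lit 25) (nat_lit 4) (nat_lit 363) (nat_lit 286) (nat_lit 251)) (XT.lf (nat_lit 0) (nat_lit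 13779345345) (nat_lit 76) (nat_lit 1248354967) (nat_lit 152) (nat_lit 12336365231) (nat_lit 23) (nat_lit 5) (nat_lit 24) (nat_lit 5) (nat_lit 25) (nat_lit 4) (nat_lit 364) (nat_lit 286) (nat_lit 250))))) (XT.nd (nat_lit 234) (nat_lit 152) (nat_lit 0) (XT.nd (nat_lit 78) (nat_lit 152) (nat_lit 0) (XT.lf (nat_lit 0) (nat_lit 2710356164) (nat_lit 76) (nat_lit 21076116514) (nat_lit 76) (nat_lit 4675037845) (nat_lit 22) (nat_lit 4) (nat_lit 23) (nat_lit 5) (nat_lit 23) (nat_lit 4) (nat_lit 365) (nat_lit 286) (nat_lit 249)) (XT.nd (nat_lit 78) (nat_lit 76) (nat_lit 0) (XT.lf (nat_lit 0) (nat_lit 3346594337) (nat_lit 152) (nat_lit 9761190491) (nat_lit 76) (nat_lit 16503794420) (nat_lit 21) (nat_lit 5) (nat_lit 23) (nat_lit 5) (nat_lit 22) (nat_lit 4) (nat_lit 366) (nat_lit 286) (nat_lit 248)) (XT.lf (nat_lit 0) (nat_lit 6916768516) (nat_lit 76) (nat_lit 4717677233) (nat_lit 152) (nat_lit 19184474438)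 (nat_lit 20) (nat_lit 5) (nat_lit 21) (nat_lit 5) (nat_lit 22) (nat_lit 4) (nat_lit 367) (nat_lit 286) (nat_lit 247)))) (XT.nd (nat_lit 78) (nat_lit 152) (nat_lit 0) (XT.lf (nat_lit 0) (nat_lit 20374228774) (nat_lit 152) (nat_lit 7687119381) (nat_lit 0) (nat_lit 4024165406) (nat_lit 20) (nat_lit 5) (nat_lit 22) (nat_lit 4) (nat_lit 20) (nat_lit 4) (nat_lit 368) (nat_lit 286) (nat_lit 246)) (XT.nd (nat_lit 78) (nat_lit 76) (nat_lit 0) (XT.lf (nat_lit 0) (nat_lit 9285787722) (nat_lit 76) (nat_lit 20303735445) (nat_lit 76) (nat_lit 3824768783) (nat_lit 19) (nat_lit 4) (nat_lit 20) (nat_lit 5) (nat_lit 20) (nat_lit 4) (nat_lit 369) (nat_lit 286) (nat_lit 245)) (XT.lf (nat_lit 0) (nat_lit 4352667104) (nat_lit 152) (nat_lit 7765817482) (nat_lit 76) (nat_lit 22690243373) (nat_lit 18) (nat_lit 5) (nat_lit 20) (nat_lit 5) (nat_lit 19) (nat_lit 4) (nat_lit 370) (nat_lit 286) (nat_lit 244))))))) (XT.nd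 (nat_lit 936) (nat_lit 304) (nat_lit 0) (XT.nd (nat_lit 468) (nat_lit 228) (nat_lit 0) (XT.nd (nat_lit 234) (nat_lit 152) (nat_lit 0) (XT.nd (nat_lit 78) (nat_lit 76) (nat_lit 0) (XT.lf (nat_lit 0) (nat_lit 9385212322) (nat_lit 76) (nat_lit 3473833547) (nat_lit 152) (nat_lit 23412738331) (nat_lit 17) (nat_lit 5) (nat_lit 18) (nat_lit 5) (nat_lit 19) (nat_lit 4) (nat_lit 371) (nat_lit 286) (nat_lit 243)) (XT.nd (nat_lit 78) (nat_lit 76) (nat_lit 0) (XT.lf (nat_lit 0) (nat_lit 21835529593) (nat_lit 152) (nat_lit 10475407786) (nat_lit 0) (nat_lit 5495721528) (nat_lit 17) (nat_lit 5) (nat_lit 19) (nat_lit 4) (nat_lit 17) (nat_lit 4) (nat_lit 372) (nat_lit 286) (nat_lit 242)) (XT.lf (nat_lit 0) (nat_lit 6688689150) (nat_lit 76) (nat_lit 24585975251) (nat_lit 76) (nat_lit 8143206935) (nat_lit 16) (nat_lit 4) (nat_lit 17) (nat_lit 5) (nat_lit 17) (nat_lit 4) (nat_lit 373) (nat_lit 286) (nat_lit 241))))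 (XT.nd (nat_lit 78) (nat_lit 76) (nat_lit 0) (XT.lf (nat_lit 0) (nat_lit 99718374) (nat_lit 152) (nat_lit 16338397399) (nat_lit 76) (nat_lit 24670762036) (nat_lit 15) (nat_lit 5) (nat_lit 17) (nat_lit 5) (nat_lit 16) (nat_lit 4) (nat_lit 374) (nat_lit 286) (nat_lit 240)) (XT.nd (nat_lit 78) (nat_lit 0) (nat_lit 0) (XT.lf (nat_lit 0) (nat_lit 649956441) (nat_lit 76) (nat_lit 7864413077) (nat_lit 152) (nat_lit 34369814250) (nat_lit 14) (nat_lit 5) (nat_lit 15) (nat_lit 5) (nat_lit 16) (nat_lit 4) (nat_lit 375) (nat_lit 286) (nat_lit 239)) (XT.lf (nat_lit 0) (nat_lit 17452425283) (nat_lit 152) (nat_lit 26076404121) (nat_lit 0) (nat_lit 1216352836) (nat_lit 14) (nat_lit 5) (nat_lit 16) (nat_lit 4) (nat_lit 14) (nat_lit 4) (nat_lit 376) (nat_lit 286) (nat_lit 238))))) (XT.nd (nat_lit 234) (nat_lit 152) (nat_lit 0) (XT.nd (nat_lit 78) (nat_lit 76) (nat_lit 0) (XT.lf (nat_lit 0) (nat_lit 26842359858)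 (nat_lit 152) (nat_lit 9332679610) (nat_lit 0) (nat_lit 10524048912) (nat_lit 14) (nat_lit 5) (nat_lit 16) (nat_lit 4) (nat_lit 14) (nat_lit 4) (nat_lit 377) (nat_lit 286) (nat_lit 237)) (XT.nd (nat_lit 78) (nat_lit 0) (nat_lit 0) (XT.lf (nat_lit 0) (nat_lit 8273862625) (nat_lit 76) (nat_lit 28436603484) (nat_lit 76) (nat_lit 12039970158) (nat_lit 13) (nat_lit 4) (nat_lit 14) (nat_lit 5) (nat_lit 14) (nat_lit 4) (nat_lit 378) (nat_lit 286) (nat_lit 236)) (XT.lf (nat_lit 0) (nat_lit 26823829458) (nat_lit 76) (nat_lit 20275467477) (nat_lit 76) (nat_lit 3804241407) (nat_lit 13) (nat_lit 4) (nat_lit 14) (nat_lit 5) (nat_lit 14) (nat_lit 4) (nat_lit 379) (nat_lit 286) (nat_lit 235)))) (XT.nd (nat_lit 78) (nat_lit 76) (nat_lit 0) (XT.lf (nat_lit 0) (nat_lit 4682631297) (nat_lit 152) (nat_lit 7036525243) (nat_lit 76) (nat_lit 41445732161) (nat_lit 12) (nat_lit 5) (nat_lit 14) (nat_lit 5) (nat_lit 13)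 (nat_lit 4) (nat_lit 380) (nat_lit 286) (nat_lit 234)) (XT.nd (nat_lit 78) (nat_lit 0) (nat_lit 0) (XT.lf (nat_lit 0) (nat_lit 10912439697) (nat_lit 76) (nat_lit 2645375224) (nat_lit 152) (nat_lit 41979087949) (nat_lit 11) (nat_lit 5) (nat_lit 12) (nat_lit 5) (nat_lit 13) (nat_lit 4) (nat_lit 381) (nat_lit 286) (nat_lit 233)) (XT.lf (nat_lit 0) (nat_lit 22954409613) (nat_lit 152) (nat_lit 28305073931) (nat_lit 0) (nat_lit 6765709991) (nat_lit 11) (nat_lit 5) (nat_lit 13) (nat_lit 4) (nat_lit 11) (nat_lit 4) (nat_lit 382) (nat_lit 286) (nat_lit 232)))))) (XT.nd (nat_lit 468) (nat_lit 76) (nat_lit 0) (XT.nd (nat_lit 234) (nat_lit 152) (nat_lit 0) (XT.nd (nat_lit 78) (nat_lit 76) (nat_lit 0) (XT.lf (nat_lit 0) (nat_lit 32788815386) (nat_lit 152) (nat_lit 11309513458) (nat_lit 0) (nat_lit 16540535537) (nat_lit 11) (nat_lit 5) (nat_lit 13) (nat_lit 4) (nat_lit 11) (nat_lit 4) (nat_lit 383) (nat_lit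 286) (nat_lit 231)) (XT.nd (nat_lit 78) (nat_lit 0) (nat_lit 0) (XT.lf (nat_lit 0) (nat_lit 6556044879) (nat_lit 76) (nat_lit 36565994363) (nat_lit 76) (nat_lit 20260971440) (nat_lit 10) (nat_lit 4) (nat_lit 11) (nat_lit 5) (nat_lit 11) (nat_lit 4) (nat_lit 384) (nat_lit 286) (nat_lit 230)) (XT.lf (nat_lit 0) (nat_lit 25446592044) (nat_lit 76) (nat_lit 28587488072) (nat_lit 76) (nat_lit 12228424126) (nat_lit 10) (nat_lit 4) (nat_lit 11) (nat_lit 5) (nat_lit 11) (nat_lit 4) (nat_lit 385) (nat_lit 286) (nat_lit 229)))) (XT.nd (nat_lit 78) (nat_lit 152) (nat_lit 0) (XT.lf (nat_lit 0) (nat_lit 45182024034) (nat_lit 76) (nat_lit 20258017437) (nat_lit 76) (nat_lit 3847485850) (nat_lit 10) (nat_lit 4) (nat_lit 11) (nat_lit 5) (nat_lit 11) (nat_lit 4) (nat_lit 386) (nat_lit 286) (nat_lit 228)) (XT.nd (nat_lit 78) (nat_lit 76) (nat_lit 0) (XT.lf (nat_lit 0) (nat_lit 4806146266) (nat_lit 152) (nat_lit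 6703071465) (nat_lit 76) (nat_lit 60954651053) (nat_lit 9) (nat_lit 5) (nat_lit 11) (nat_lit 5) (nat_lit 10) (nat_lit 4) (nat_lit 387) (nat_lit 286) (nat_lit 227)) (XT.lf (nat_lit 0) (nat_lit 11666988469) (nat_lit 76) (nat_lit 2211444793) (nat_lit 152) (nat_lit 61917488758) (nat_lit 8) (nat_lit 5) (nat_lit 9) (nat_lit 5) (nat_lit 10) (nat_lit 4) (nat_lit 388) (nat_lit 286) (nat_lit 226))))) (XT.nd (nat_lit 234) (nat_lit 76) (nat_lit 0) (XT.nd (nat_lit 78) (nat_lit 0) (nat_lit 0) (XT.lf (nat_lit 0) (nat_lit 23500252916) (nat_lit 152) (nat_lit 48359830007) (nat_lit 0) (nat_lit 7431621132) (nat_lit 8) (nat_lit 5) (nat_lit 10) (nat_lit 4) (nat_lit 8) (nat_lit 4) (nat_lit 389) (nat_lit 286) (nat_lit 225)) (XT.nd (nat_lit 78) (nat_lit 0) (nat_lit 0) (XT.lf (nat_lit 0) (nat_lit 33581337529) (nat_lit 152) (nat_lit 31909999487) (nat_lit 0) (nat_lit 17471596468) (nat_lit 8) (nat_lit 5) (nat_lit 10) (nat_lit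 4) (nat_lit 8) (nat_lit 4) (nat_lit 390) (nat_lit 286) (nat_lit 224)) (XT.lf (nat_lit 0) (nat_lit 44124431924) (nat_lit 152) (nat_lit 14719017967) (nat_lit 0) (nat_lit 27975539170) (nat_lit 8) (nat_lit 5) (nat_lit 10) (nat_lit 4) (nat_lit 8) (nat_lit 4) (nat_lit 391) (nat_lit 286) (nat_lit 223)))) (XT.nd (nat_lit 78) (nat_lit 0) (nat_lit 0) (XT.lf (nat_lit 0) (nat_lit 3318807345) (nat_lit 76) (nat_lit 51867733767) (nat_lit 76) (nat_lit 35681553688) (nat_lit 7) (nat_lit 4) (nat_lit 8) (nat_lit 5) (nat_lit 8) (nat_lit 4) (nat_lit 392) (nat_lit 286) (nat_lit 222)) (XT.nd (nat_lit 78) (nat_lit 0) (nat_lit 0) (XT.lf (nat_lit 0) (nat_lit 22490861520) (nat_lit 76) (nat_lit 44423554673) (nat_lit 76) (nat_lit 28201862854) (nat_lit 7) (nat_lit 4) (nat_lit 8) (nat_lit 5) (nat_lit 8) (nat_lit 4) (nat_lit 393) (nat_lit 286) (nat_lit 221)) (XT.lf (nat_lit 0) (nat_lit 42549854987) (nat_lit 76) (nat_lit 36641821592)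 (nat_lit 76) (nat_lit 20386309069) (nat_lit 7) (nat_lit 4) (nat_lit 8) (nat_lit 5) (nat_lit 8) (nat_lit 4) (nat_lit 394) (nat_lit 286) (nat_lit 220))))))))
noncomputable def xc26 : XT := (XT.nd (nat_lit 43134) (nat_lit 0) (nat_lit 912) (XT.nd (nat_lit 42198) (nat_lit 0) (nat_lit 3496) (XT.nd (nat_lit 41730) (nat_lit 0) (nat_lit 6612) (XT.nd (nat_lit 41496) (nat_lit 0) (nat_lit 8892) (XT.nd (nat_lit 78) (nat_lit 0) (nat_lit 0) (XT.lf (nat_lit 0) (nat_lit 63543547255) (nat_lit 76) (nat_lit 28504006588) (nat_lit 76) (nat_lit 12216283872) (nat_lit 7) (nat_lit 4) (nat_lit 8) (nat_lit 5) (nat_lit 8) (nat_lit 4) (nat_lit 395) (nat_lit 286) (nat_lit 219)) (XT.lf (nat_lit 0) (nat_lit 85521923305) (nat_lit 76) (nat_lit 19990733913) (nat_lit 76) (nat_lit 3672334821) (nat_lit 7) (nat_lit 4) (nat_lit 8) (nat_lit 5) (nat_lit 8) (nat_lit 4) (nat_lit 396) (nat_lit 286) (nat_lit 218))) (XT.nd (nat_lit 78) (nat_lit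 1140) (nat_lit 0) (XT.lf (nat_lit 0) (nat_lit 1157063509) (nat_lit 456) (nat_lit 1958994855) (nat_lit 0) (nat_lit 1157063509) (nat_lit 139) (nat_lit 5) (nat_lit 145) (nat_lit 4) (nat_lit 139) (nat_lit 4) (nat_lit 326) (nat_lit 287) (nat_lit 287)) (XT.nd (nat_lit 78) (nat_lit 684) (nat_lit 0) (XT.lf (nat_lit 0) (nat_lit 128668465) (nat_lit 456) (nat_lit 1459759046) (nat_lit 76) (nat_lit 7133727017) (nat_lit 133) (nat_lit 5) (nat_lit 139) (nat_lit 5) (nat_lit 134) (nat_lit 4) (nat_lit 327) (nat_lit 287) (nat_lit 286)) (XT.lf (nat_lit 0) (nat_lit 1020927826) (nat_lit 380) (nat_lit 5574407333) (nat_lit 380) (nat_lit 2312308524) (nat_lit 124) (nat_lit 4) (nat_lit 129) (nat_lit 5) (nat_lit 129) (nat_lit 4) (nat_lit 328) (nat_lit 287) (nat_lit 285))))) (XT.nd (nat_lit 234) (nat_lit 1216) (nat_lit 0) (XT.nd (nat_lit 78) (nat_lit 684) (nat_lit 0) (XT.lf (nat_lit 0) (nat_lit 3565437734) (nat_lit 304)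 (nat_lit 544429064) (nat_lit 380) (nat_lit 4994115645) (nat_lit 119) (nat_lit 5) (nat_lit 123) (nat_lit 5) (nat_lit 124) (nat_lit 4) (nat_lit 329) (nat_lit 287) (nat_lit 284)) (XT.nd (nat_lit 78) (nat_lit 304) (nat_lit 0) (XT.lf (nat_lit 0) (nat_lit 1399360846) (nat_lit 380) (nat_lit 3199024268) (nat_lit 76) (nat_lit 4712770832) (nat_lit 114) (nat_lit 5) (nat_lit 119) (nat_lit 5) (nat_lit 115) (nat_lit 4) (nat_lit 330) (nat_lit 287) (nat_lit 283)) (XT.lf (nat_lit 0) (nat_lit 7916795922) (nat_lit 380) (nat_lit 855998241) (nat_lit 0) (nat_lit 757294113) (nat_lit 110) (nat_lit 5) (nat_lit 115) (nat_lit 4) (nat_lit 110) (nat_lit 4) (nat_lit 331) (nat_lit 287) (nat_lit 282)))) (XT.nd (nat_lit 78) (nat_lit 608) (nat_lit 0) (XT.lf (nat_lit 0) (nat_lit 1480432485) (nat_lit 228) (nat_lit 3383569580) (nat_lit 304) (nat_lit 4895782442) (nat_lit 102) (nat_lit 5) (nat_lit 105) (nat_lit 5) (nat_lit 106) (nat_lit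 4) (nat_lit 332) (nat_lit 287) (nat_lit 281)) (XT.nd (nat_lit 78) (nat_lit 228) (nat_lit 0) (XT.lf (nat_lit 0) (nat_lit 1535940114) (nat_lit 380) (nat_lit 6172061164) (nat_lit 76) (nat_lit 2294015363) (nat_lit 97) (nat_lit 5) (nat_lit 102) (nat_lit 5) (nat_lit 98) (nat_lit 4) (nat_lit 333) (nat_lit 287) (nat_lit 280)) (XT.lf (nat_lit 0) (nat_lit 6136575405) (nat_lit 228) (nat_lit 1998035560) (nat_lit 304) (nat_lit 2121986908) (nat_lit 94) (nat_lit 5) (nat_lit 97) (nat_lit 5) (nat_lit 98) (nat_lit 4) (nat_lit 334) (nat_lit 287) (nat_lit 279)))))) (XT.nd (nat_lit 468) (nat_lit 1216) (nat_lit 0) (XT.nd (nat_lit 234) (nat_lit 760) (nat_lit 0) (XT.nd (nat_lit 78) (nat_lit 760) (nat_lit 0) (XT.lf (nat_lit 0) (nat_lit 4406870251) (nat_lit 380) (nat_lit 2133280716) (nat_lit 76) (nat_lit 3983847246) (nat_lit 89) (nat_lit 5) (nat_lit 94) (nat_lit 5) (nat_lit 90) (nat_lit 4) (nat_lit 335) (nat_lit 287)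 (nat_lit 278)) (XT.nd (nat_lit 78) (nat_lit 456) (nat_lit 0) (XT.lf (nat_lit 0) (nat_lit 349141632) (nat_lit 304) (nat_lit 186633183) (nat_lit 76) (nat_lit 10270028765) (nat_lit 85) (nat_lit 5) (nat_lit 89) (nat_lit 5) (nat_lit 86) (nat_lit 5) (nat_lit 336) (nat_lit 287) (nat_lit 277)) (XT.lf (nat_lit 0) (nat_lit 1668239333) (nat_lit 228) (nat_lit 5345871737) (nat_lit 304) (nat_lit 4085787614) (nat_lit 79) (nat_lit 5) (nat_lit 82) (nat_lit 5) (nat_lit 83) (nat_lit 4) (nat_lit 337) (nat_lit 287) (nat_lit 276)))) (XT.nd (nat_lit 78) (nat_lit 456) (nat_lit 0) (XT.lf (nat_lit 0) (nat_lit 2500938593) (nat_lit 304) (nat_lit 7945511115) (nat_lit 76) (nat_lit 963122422) (nat_lit 75) (nat_lit 5) (nat_lit 79) (nat_lit 5) (nat_lit 76) (nat_lit 4) (nat_lit 338) (nat_lit 287) (nat_lit 275)) (XT.nd (nat_lit 78) (nat_lit 304) (nat_lit 0) (XT.lf (nat_lit 0) (nat_lit 5125906783) (nat_lit 152) (nat_lit 4197986277)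 (nat_lit 228) (nat_lit 2409945436) (nat_lit 73) (nat_lit 5) (nat_lit 75) (nat_lit 5) (nat_lit 76) (nat_lit 4) (nat_lit 339) (nat_lit 287) (nat_lit 274)) (XT.lf (nat_lit 0) (nat_lit 4291775062) (nat_lit 304) (nat_lit 5407766533) (nat_lit 76) (nat_lit 2374636781) (nat_lit 69) (nat_lit 5) (nat_lit 73) (nat_lit 5) (nat_lit 70) (nat_lit 4) (nat_lit 340) (nat_lit 287) (nat_lit 273))))) (XT.nd (nat_lit 234) (nat_lit 608) (nat_lit 0) (XT.nd (nat_lit 78) (nat_lit 456) (nat_lit 0) (XT.lf (nat_lit 0) (nat_lit 8066142666) (nat_lit 152) (nat_lit 3201033135) (nat_lit 228) (nat_lit 1164047458) (nat_lit 67) (nat_lit 5) (nat_lit 69) (nat_lit 5) (nat_lit 70) (nat_lit 4) (nat_lit 341) (nat_lit 287) (nat_lit 272)) (XT.nd (nat_lit 78) (nat_lit 152) (nat_lit 0) (XT.lf (nat_lit 0) (nat_lit 5657428749) (nat_lit 304) (nat_lit 3524841480) (nat_lit 76) (nat_lit 3622681641) (nat_lit 63) (nat_lit 5) (nat_lit 67) (nat_lit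 5) (nat_lit 64) (nat_lit 4) (nat_lit 342) (nat_lit 287) (nat_lit 271)) (XT.lf (nat_lit 0) (nat_lit 10333666396) (nat_lit 152) (nat_lit 2448266294) (nat_lit 228) (nat_lit 415557728) (nat_lit 61) (nat_lit 5) (nat_lit 63) (nat_lit 5) (nat_lit 64) (nat_lit 4) (nat_lit 343) (nat_lit 287) (nat_lit 270)))) (XT.nd (nat_lit 78) (nat_lit 380) (nat_lit 0) (XT.lf (nat_lit 0) (nat_lit 6525500101) (nat_lit 228) (nat_lit 2470826045) (nat_lit 76) (nat_lit 4611387949) (nat_lit 58) (nat_lit 5) (nat_lit 61) (nat_lit 5) (nat_lit 59) (nat_lit 4) (nat_lit 344) (nat_lit 287) (nat_lit 269)) (XT.nd (nat_lit 78) (nat_lit 228) (nat_lit 0) (XT.lf (nat_lit 0) (nat_lit 11744203165) (nat_lit 152) (nat_lit 2045890726) (nat_lit 228) (nat_lit 248723435) (nat_lit 56) (nat_lit 5) (nat_lit 58) (nat_lit 5) (nat_lit 59) (nat_lit 4) (nat_lit 345) (nat_lit 287) (nat_lit 268)) (XT.lf (nat_lit 0) (nat_lit 6806034733) (nat_lit 228) (nat_lit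 2452143379) (nat_lit 76) (nat_lit 5230898384) (nat_lit 53) (nat_lit 5) (nat_lit 56) (nat_lit 5) (nat_lit 54) (nat_lit 4) (nat_lit 346) (nat_lit 287) (nat_lit 267))))))) (XT.nd (nat_lit 936) (nat_lit 836) (nat_lit 0) (XT.nd (nat_lit 468) (nat_lit 684) (nat_lit 0) (XT.nd (nat_lit 234) (nat_lit 532) (nat_lit 0) (XT.nd (nat_lit 78) (nat_lit 380) (nat_lit 0) (XT.lf (nat_lit 0) (nat_lit 12078849675) (nat_lit 152) (nat_lit 2116132291) (nat_lit 228) (nat_lit 767233783) (nat_lit 51) (nat_lit 5) (nat_lit 53) (nat_lit 5) (nat_lit 54) (nat_lit 4) (nat_lit 347) (nat_lit 287) (nat_lit 266)) (XT.nd (nat_lit 78) (nat_lit 152) (nat_lit 0) (XT.lf (nat_lit 0) (nat_lit 6388685054) (nat_lit 228) (nat_lit 3713707881) (nat_lit 76) (nat_lit 5354150659) (nat_lit 48) (nat_lit 5) (nat_lit 51) (nat_lit 5) (nat_lit 49) (nat_lit 4) (nat_lit 348) (nat_lit 287) (nat_lit 265)) (XT.lf (nat_lit 0) (nat_lit 11077498435) (nat_lit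 152) (nat_lit 2800760081) (nat_lit 228) (nat_lit 2097383855) (nat_lit 46) (nat_lit 5) (nat_lit 48) (nat_lit 5) (nat_lit 49) (nat_lit 4) (nat_lit 349) (nat_lit 287) (nat_lit 264)))) (XT.nd (nat_lit 78) (nat_lit 304) (nat_lit 0) (XT.lf (nat_lit 0) (nat_lit 5139339233) (nat_lit 228) (nat_lit 6546117302) (nat_lit 76) (nat_lit 4833176876) (nat_lit 43) (nat_lit 5) (nat_lit 46) (nat_lit 5) (nat_lit 44) (nat_lit 4) (nat_lit 350) (nat_lit 287) (nat_lit 263)) (XT.nd (nat_lit 78) (nat_lit 228) (nat_lit 0) (XT.lf (nat_lit 0) (nat_lit 8431153582) (nat_lit 76) (nat_lit 4265148968) (nat_lit 152) (nat_lit 4391825165) (nat_lit 42) (nat_lit 5) (nat_lit 43) (nat_lit 5) (nat_lit 44) (nat_lit 4) (nat_lit 351) (nat_lit 287) (nat_lit 262)) (XT.lf (nat_lit 0) (nat_lit 2896130556) (nat_lit 228) (nat_lit 11294060960) (nat_lit 76) (nat_lit 3494826368) (nat_lit 39) (nat_lit 5) (nat_lit 42) (nat_lit 5) (nat_lit 40) (nat_lit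 4) (nat_lit 352) (nat_lit 287) (nat_lit 261))))) (XT.nd (nat_lit 234) (nat_lit 380) (nat_lit 0) (XT.nd (nat_lit 78) (nat_lit 228) (nat_lit 0) (XT.lf (nat_lit 0) (nat_lit 3772943327) (nat_lit 76) (nat_lit 6702983903) (nat_lit 152) (nat_lit 7833999179) (nat_lit 38) (nat_lit 5) (nat_lit 39) (nat_lit 5) (nat_lit 40) (nat_lit 4) (nat_lit 353) (nat_lit 287) (nat_lit 260)) (XT.nd (nat_lit 78) (nat_lit 76) (nat_lit 0) (XT.lf (nat_lit 0) (nat_lit 595124440) (nat_lit 152) (nat_lit 17825476381) (nat_lit 152) (nat_lit 545928199) (nat_lit 36) (nat_lit 4) (nat_lit 38) (nat_lit 5) (nat_lit 38) (nat_lit 4) (nat_lit 354) (nat_lit 287) (nat_lit 259)) (XT.lf (nat_lit 0) (nat_lit 7041358259) (nat_lit 228) (nat_lit 3267371476) (nat_lit 76) (nat_lit 9343001432) (nat_lit 35) (nat_lit 5) (nat_lit 38) (nat_lit 5) (nat_lit 36) (nat_lit 4) (nat_lit 355) (nat_lit 287) (nat_lit 258)))) (XT.nd (nat_lit 78) (nat_lit 304)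 (nat_lit 0) (XT.lf (nat_lit 0) (nat_lit 12578405320) (nat_lit 76) (nat_lit 2400952562) (nat_lit 152) (nat_lit 5392216453) (nat_lit 34) (nat_lit 5) (nat_lit 35) (nat_lit 5) (nat_lit 36) (nat_lit 4) (nat_lit 356) (nat_lit 287) (nat_lit 257)) (XT.nd (nat_lit 78) (nat_lit 76) (nat_lit 0) (XT.lf (nat_lit 0) (nat_lit 2176930785) (nat_lit 228) (nat_lit 13139349397) (nat_lit 76) (nat_lit 5809536732) (nat_lit 31) (nat_lit 5) (nat_lit 34) (nat_lit 5) (nat_lit 32) (nat_lit 4) (nat_lit 357) (nat_lit 287) (nat_lit 256)) (XT.lf (nat_lit 0) (nat_lit 2527831398) (nat_lit 76) (nat_lit 7483337687) (nat_lit 152) (nat_lit 11905075895) (nat_lit 30) (nat_lit 5) (nat_lit 31) (nat_lit 5) (nat_lit 32) (nat_lit 4) (nat_lit 358) (nat_lit 287) (nat_lit 255)))))) (XT.nd (nat_lit 468) (nat_lit 304) (nat_lit 0) (XT.nd (nat_lit 234) (nat_lit 228) (nat_lit 0) (XT.nd (nat_lit 78) (nat_lit 304) (nat_lit 0) (XT.lf (nat_lit 0)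 (nat_lit 18251380385) (nat_lit 152) (nat_lit 3738084052) (nat_lit 0) (nat_lit 756320845) (nat_lit 30) (nat_lit 5) (nat_lit 32) (nat_lit 4) (nat_lit 30) (nat_lit 4) (nat_lit 359) (nat_lit 287) (nat_lit 254)) (XT.nd (nat_lit 78) (nat_lit 76) (nat_lit 0) (XT.lf (nat_lit 0) (nat_lit 3297082250) (nat_lit 228) (nat_lit 11010091200) (nat_lit 76) (nat_lit 9306465969) (nat_lit 27) (nat_lit 5) (nat_lit 30) (nat_lit 5) (nat_lit 28) (nat_lit 4) (nat_lit 360) (nat_lit 287) (nat_lit 253)) (XT.lf (nat_lit 0) (nat_lit 5146492634) (nat_lit 76) (nat_lit 6207132733) (nat_lit 152) (nat_lit 13170889376) (nat_lit 26) (nat_lit 5) (nat_lit 27) (nat_lit 5) (nat_lit 28) (nat_lit 4) (nat_lit 361) (nat_lit 287) (nat_lit 252)))) (XT.nd (nat_lit 78) (nat_lit 228) (nat_lit 0) (XT.lf (nat_lit 0) (nat_lit 19831459946) (nat_lit 152) (nat_lit 3380706267) (nat_lit 0) (nat_lit 2268229343) (nat_lit 26) (nat_lit 5) (nat_lit 28) (nat_lit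 4) (nat_lit 26) (nat_lit 4) (nat_lit 362) (nat_lit 287) (nat_lit 251)) (XT.nd (nat_lit 78) (nat_lit 76) (nat_lit 0) (XT.lf (nat_lit 0) (nat_lit 2285039640) (nat_lit 152) (nat_lit 13099136110) (nat_lit 76) (nat_lit 11096866175) (nat_lit 24) (nat_lit 5) (nat_lit 26) (nat_lit 5) (nat_lit 25) (nat_lit 4) (nat_lit 363) (nat_lit 287) (nat_lit 250)) (XT.lf (nat_lit 0) (nat_lit 3323512800) (nat_lit 76) (nat_lit 7133385781) (nat_lit 152) (nat_lit 17074417506) (nat_lit 23) (nat_lit 5) (nat_lit 24) (nat_lit 5) (nat_lit 25) (nat_lit 4) (nat_lit 364) (nat_lit 287) (nat_lit 249))))) (XT.nd (nat_lit 234) (nat_lit 152) (nat_lit 0) (XT.nd (nat_lit 78) (nat_lit 152) (nat_lit 0) (XT.lf (nat_lit 0) (nat_lit 19080485372) (nat_lit 152) (nat_lit 8008066469) (nat_lit 0) (nat_lit 1544271199) (nat_lit 23) (nat_lit 5) (nat_lit 25) (nat_lit 4) (nat_lit 23) (nat_lit 4) (nat_lit 365) (nat_lit 287) (nat_lit 248)) (XT.nd (nat_lit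 78) (nat_lit 76) (nat_lit 0) (XT.lf (nat_lit 0) (nat_lit 8910201114) (nat_lit 76) (nat_lit 19280079691) (nat_lit 76) (nat_lit 1597486159) (nat_lit 22) (nat_lit 4) (nat_lit 23) (nat_lit 5) (nat_lit 23) (nat_lit 4) (nat_lit 366) (nat_lit 287) (nat_lit 247)) (XT.lf (nat_lit 0) (nat_lit 6606007976) (nat_lit 152) (nat_lit 4411806253) (nat_lit 76) (nat_lit 19981225893) (nat_lit 21) (nat_lit 5) (nat_lit 23) (nat_lit 5) (nat_lit 22) (nat_lit 4) (nat_lit 367) (nat_lit 287) (nat_lit 246)))) (XT.nd (nat_lit 78) (nat_lit 76) (nat_lit 0) (XT.lf (nat_lit 0) (nat_lit 12932721551) (nat_lit 76) (nat_lit 2282792926) (nat_lit 152) (nat_lit 17054032686) (nat_lit 20) (nat_lit 5) (nat_lit 21) (nat_lit 5) (nat_lit 22) (nat_lit 4) (nat_lit 368) (nat_lit 287) (nat_lit 245)) (XT.nd (nat_lit 78) (nat_lit 76) (nat_lit 0) (XT.lf (nat_lit 0) (nat_lit 24273911164) (nat_lit 152) (nat_lit 2609798603) (nat_lit 0) (nat_lit 6719327831)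 (nat_lit 20) (nat_lit 5) (nat_lit 22) (nat_lit 4) (nat_lit 20) (nat_lit 4) (nat_lit 369) (nat_lit 287) (nat_lit 244)) (XT.lf (nat_lit 0) (nat_lit 15055195988) (nat_lit 76) (nat_lit 18808581244) (nat_lit 76) (nat_lit 1137078822) (nat_lit 19) (nat_lit 4) (nat_lit 20) (nat_lit 5) (nat_lit 20) (nat_lit 4) (nat_lit 370) (nat_lit 287) (nat_lit 243))))))))
noncomputable def xc27 : XT := (XT.nd (nat_lit 1872) (nat_lit 0) (nat_lit 0) (XT.nd (nat_lit 936) (nat_lit 304) (nat_lit 0) (XT.nd (nat_lit 468) (nat_lit 228) (nat_lit 0) (XT.nd (nat_lit 234) (nat_lit 228) (nat_lit 0) (XT.nd (nat_lit 78) (nat_lit 76) (nat_lit 0) (XT.lf (nat_lit 0) (nat_lit 7258633923) (nat_lit 152) (nat_lit 3047827068) (nat_lit 76) (nat_lit 26161769352) (nat_lit 18) (nat_lit 5) (nat_lit 20) (nat_lit 5) (nat_lit 19) (nat_lit 4) (nat_lit 371) (nat_lit 287) (nat_lit 242)) (XT.nd (nat_lit 78) (nat_lit 0) (nat_lit 0) (XT.lf (nat_lit 0)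 (nat_lit 14814383698) (nat_lit 76) (nat_lit 1295609746) (nat_lit 152) (nat_lit 21896869623) (nat_lit 17) (nat_lit 5) (nat_lit 18) (nat_lit 5) (nat_lit 19) (nat_lit 4) (nat_lit 372) (nat_lit 287) (nat_lit 241)) (XT.lf (nat_lit 0) (nat_lit 25432642578) (nat_lit 152) (nat_lit 6222213363) (nat_lit 0) (nat_lit 7966718211) (nat_lit 17) (nat_lit 5) (nat_lit 19) (nat_lit 4) (nat_lit 17) (nat_lit 4) (nat_lit 373) (nat_lit 287) (nat_lit 240)))) (XT.nd (nat_lit 78) (nat_lit 152) (nat_lit 0) (XT.lf (nat_lit 0) (nat_lit 11663157683) (nat_lit 76) (nat_lit 23605877553) (nat_lit 76) (nat_lit 6046565201) (nat_lit 16) (nat_lit 4) (nat_lit 17) (nat_lit 5) (nat_lit 17) (nat_lit 4) (nat_lit 374) (nat_lit 287) (nat_lit 239)) (XT.nd (nat_lit 78) (nat_lit 76) (nat_lit 0) (XT.lf (nat_lit 0) (nat_lit 2442746086) (nat_lit 152) (nat_lit 12689478732) (nat_lit 76) (nat_lit 27961728778) (nat_lit 15) (nat_lit 5) (nat_lit 17)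 (nat_lit 5) (nat_lit 16) (nat_lit 4) (nat_lit 375) (nat_lit 287) (nat_lit 238)) (XT.lf (nat_lit 0) (nat_lit 5020280436) (nat_lit 76) (nat_lit 6188211868) (nat_lit 152) (nat_lit 33751632477) (nat_lit 14) (nat_lit 5) (nat_lit 15) (nat_lit 5) (nat_lit 16) (nat_lit 4) (nat_lit 376) (nat_lit 287) (nat_lit 237))))) (XT.nd (nat_lit 234) (nat_lit 152) (nat_lit 0) (XT.nd (nat_lit 78) (nat_lit 76) (nat_lit 0) (XT.lf (nat_lit 0) (nat_lit 20504376888) (nat_lit 152) (nat_lit 23202889279) (nat_lit 0) (nat_lit 3209589515) (nat_lit 14) (nat_lit 5) (nat_lit 16) (nat_lit 4) (nat_lit 14) (nat_lit 4) (nat_lit 377) (nat_lit 287) (nat_lit 236)) (XT.nd (nat_lit 78) (nat_lit 76) (nat_lit 0) (XT.lf (nat_lit 0) (nat_lit 30260030557) (nat_lit 152) (nat_lit 5820899259) (nat_lit 0) (nat_lit 12890650440) (nat_lit 14) (nat_lit 5) (nat_lit 16) (nat_lit 4) (nat_lit 14) (nat_lit 4) (nat_lit 378) (nat_lit 287) (nat_lit 235))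 (XT.lf (nat_lit 0) (nat_lit 12551929639) (nat_lit 76) (nat_lit 28007923364) (nat_lit 76) (nat_lit 10567502540) (nat_lit 13) (nat_lit 4) (nat_lit 14) (nat_lit 5) (nat_lit 14) (nat_lit 4) (nat_lit 379) (nat_lit 287) (nat_lit 234)))) (XT.nd (nat_lit 78) (nat_lit 152) (nat_lit 0) (XT.lf (nat_lit 0) (nat_lit 31845377010) (nat_lit 76) (nat_lit 19526850094) (nat_lit 76) (nat_lit 2018771453) (nat_lit 13) (nat_lit 4) (nat_lit 14) (nat_lit 5) (nat_lit 14) (nat_lit 4) (nat_lit 380) (nat_lit 287) (nat_lit 233)) (XT.nd (nat_lit 78) (nat_lit 76) (nat_lit 0) (XT.lf (nat_lit 0) (nat_lit 6761647959) (nat_lit 152) (nat_lit 3846369298) (nat_lit 76) (nat_lit 45159604977) (nat_lit 12) (nat_lit 5) (nat_lit 14) (nat_lit 5) (nat_lit 13) (nat_lit 4) (nat_lit 381) (nat_lit 287) (nat_lit 232)) (XT.lf (nat_lit 0) (nat_lit 14898513680) (nat_lit 76) (nat_lit 1127297143) (nat_lit 152) (nat_lit 42234077514) (nat_lit 11) (nat_lit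 5) (nat_lit 12) (nat_lit 5) (nat_lit 13) (nat_lit 4) (nat_lit 382) (nat_lit 287) (nat_lit 231)))))) (XT.nd (nat_lit 468) (nat_lit 152) (nat_lit 0) (XT.nd (nat_lit 234) (nat_lit 76) (nat_lit 0) (XT.nd (nat_lit 78) (nat_lit 76) (nat_lit 0) (XT.lf (nat_lit 0) (nat_lit 25822100854) (nat_lit 152) (nat_lit 26407520455) (nat_lit 0) (nat_lit 8645083711) (nat_lit 11) (nat_lit 5) (nat_lit 13) (nat_lit 4) (nat_lit 11) (nat_lit 4) (nat_lit 383) (nat_lit 287) (nat_lit 230)) (XT.nd (nat_lit 78) (nat_lit 76) (nat_lit 0) (XT.lf (nat_lit 0) (nat_lit 36066323547) (nat_lit 152) (nat_lit 8719934681) (nat_lit 0) (nat_lit 18835265381) (nat_lit 11) (nat_lit 5) (nat_lit 13) (nat_lit 4) (nat_lit 11) (nat_lit 4) (nat_lit 384) (nat_lit 287) (nat_lit 229)) (XT.lf (nat_lit 0) (nat_lit 9948462571) (nat_lit 76) (nat_lit 36919201774) (nat_lit 76) (nat_lit 19636675968) (nat_lit 10) (nat_lit 4) (nat_lit 11) (nat_lit 5) (nat_lit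 11) (nat_lit 4) (nat_lit 385) (nat_lit 287) (nat_lit 228)))) (XT.nd (nat_lit 78) (nat_lit 76) (nat_lit 0) (XT.lf (nat_lit 0) (nat_lit 29637603025) (nat_lit 76) (nat_lit 28612012659) (nat_lit 76) (nat_lit 11280470052) (nat_lit 10) (nat_lit 4) (nat_lit 11) (nat_lit 5) (nat_lit 11) (nat_lit 4) (nat_lit 386) (nat_lit 287) (nat_lit 227)) (XT.nd (nat_lit 78) (nat_lit 76) (nat_lit 0) (XT.lf (nat_lit 0) (nat_lit 50220821787) (nat_lit 76) (nat_lit 19932966103) (nat_lit 76) (nat_lit 2554740828) (nat_lit 10) (nat_lit 4) (nat_lit 11) (nat_lit 5) (nat_lit 11) (nat_lit 4) (nat_lit 387) (nat_lit 287) (nat_lit 226)) (XT.lf (nat_lit 0) (nat_lit 6433252901) (nat_lit 152) (nat_lit 4363181567) (nat_lit 76) (nat_lit 65248910379) (nat_lit 9) (nat_lit 5) (nat_lit 11) (nat_lit 5) (nat_lit 10) (nat_lit 4) (nat_lit 388) (nat_lit 287) (nat_lit 225))))) (XT.nd (nat_lit 234) (nat_lit 76) (nat_lit 0) (XT.nd (nat_lit 78)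 (nat_lit 0) (nat_lit 0) (XT.lf (nat_lit 0) (nat_lit 14848701781) (nat_lit 76) (nat_lit 1069391467) (nat_lit 152) (nat_lit 63627144727) (nat_lit 8) (nat_lit 5) (nat_lit 9) (nat_lit 5) (nat_lit 10) (nat_lit 4) (nat_lit 389) (nat_lit 287) (nat_lit 224)) (XT.nd (nat_lit 78) (nat_lit 0) (nat_lit 0) (XT.lf (nat_lit 0) (nat_lit 25968388728) (nat_lit 152) (nat_lit 48276104334) (nat_lit 0) (nat_lit 8972899645) (nat_lit 8) (nat_lit 5) (nat_lit 10) (nat_lit 4) (nat_lit 8) (nat_lit 4) (nat_lit 390) (nat_lit 287) (nat_lit 223)) (XT.lf (nat_lit 0) (nat_lit 36491950278) (nat_lit 152) (nat_lit 31122911677) (nat_lit 0) (nat_lit 19459173869) (nat_lit 8) (nat_lit 5) (nat_lit 10) (nat_lit 4) (nat_lit 8) (nat_lit 4) (nat_lit 391) (nat_lit 287) (nat_lit 222)))) (XT.nd (nat_lit 78) (nat_lit 76) (nat_lit 0) (XT.lf (nat_lit 0) (nat_lit 47503554352) (nat_lit 152) (nat_lit 13185837642) (nat_lit 0) (nat_lit 30435266203)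 (nat_lit 8) (nat_lit 5) (nat_lit 10) (nat_lit 4) (nat_lit 8) (nat_lit 4) (nat_lit 392) (nat_lit 287) (nat_lit 221)) (XT.nd (nat_lit 78) (nat_lit 0) (nat_lit 0) (XT.lf (nat_lit 0) (nat_lit 5688834744) (nat_lit 76) (nat_lit 53395268868) (nat_lit 76) (nat_lit 36293160015) (nat_lit 7) (nat_lit 4) (nat_lit 8) (nat_lit 5) (nat_lit 8) (nat_lit 4) (nat_lit 393) (nat_lit 287) (nat_lit 220)) (XT.lf (nat_lit 0) (nat_lit 25714535102) (nat_lit 76) (nat_lit 45629635656) (nat_lit 76) (nat_lit 28495316609) (nat_lit 7) (nat_lit 4) (nat_lit 8) (nat_lit 5) (nat_lit 8) (nat_lit 4) (nat_lit 394) (nat_lit 287) (nat_lit 219))))))) (XT.nd (nat_lit 42120) (nat_lit 0) (nat_lit 3724) (XT.nd (nat_lit 41652) (nat_lit 0) (nat_lit 6840) (XT.nd (nat_lit 41418) (nat_lit 0) (nat_lit 9576) (XT.nd (nat_lit 78) (nat_lit 0) (nat_lit 0) (XT.lf (nat_lit 0) (nat_lit 46676519648) (nat_lit 76) (nat_lit 37507153862) (nat_lit 76) (nat_lit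 20342158439) (nat_lit 7) (nat_lit 4) (nat_lit 8) (nat_lit 5) (nat_lit 8) (nat_lit 4) (nat_lit 395) (nat_lit 287) (nat_lit 218)) (XT.nd (nat_lit 41262) (nat_lit 0) (nat_lit 11400) (XT.lf (nat_lit 0) (nat_lit 68624697866) (nat_lit 76) (nat_lit 29008484242) (nat_lit 76) (nat_lit 11814273224) (nat_lit 7) (nat_lit 4) (nat_lit 8) (nat_lit 5) (nat_lit 8) (nat_lit 4) (nat_lit 396) (nat_lit 287) (nat_lit 217)) (XT.lf (nat_lit 0) (nat_lit 3962735037) (nat_lit 456) (nat_lit 74120298) (nat_lit 456) (nat_lit 74120298) (nat_lit 157) (nat_lit 4) (nat_lit 163) (nat_lit 5) (nat_lit 163) (nat_lit 4) (nat_lit 324) (nat_lit 288) (nat_lit 288)))) (XT.nd (nat_lit 78) (nat_lit 912) (nat_lit 0) (XT.lf (nat_lit 0) (nat_lit 2042066859) (nat_lit 456) (nat_lit 4099982250) (nat_lit 456) (nat_lit 2238768303) (nat_lit 145) (nat_lit 4) (nat_lit 151) (nat_lit 5) (nat_lit 151) (nat_lit 4) (nat_lit 325) (nat_lit 288) (nat_lit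 287)) (XT.nd (nat_lit 78) (nat_lit 456) (nat_lit 0) (XT.lf (nat_lit 0) (nat_lit 3989505544) (nat_lit 456) (nat_lit 4099212988) (nat_lit 0) (nat_lit 461545682) (nat_lit 139) (nat_lit 5) (nat_lit 145) (nat_lit 4) (nat_lit 139) (nat_lit 4) (nat_lit 326) (nat_lit 288) (nat_lit 286)) (XT.lf (nat_lit 0) (nat_lit 1637243615) (nat_lit 456) (nat_lit 1843361065) (nat_lit 76) (nat_lit 5249059693) (nat_lit 133) (nat_lit 5) (nat_lit 139) (nat_lit 5) (nat_lit 134) (nat_lit 4) (nat_lit 327) (nat_lit 288) (nat_lit 285))))) (XT.nd (nat_lit 234) (nat_lit 1292) (nat_lit 0) (XT.nd (nat_lit 78) (nat_lit 760) (nat_lit 0) (XT.lf (nat_lit 0) (nat_lit 452366994) (nat_lit 380) (nat_lit 7499684976) (nat_lit 380) (nat_lit 967720456) (nat_lit 124) (nat_lit 4) (nat_lit 129) (nat_lit 5) (nat_lit 129) (nat_lit 4) (nat_lit 328) (nat_lit 288) (nat_lit 284)) (XT.nd (nat_lit 78) (nat_lit 380) (nat_lit 0) (XT.lf (nat_lit 0) (nat_lit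 2782303103) (nat_lit 304) (nat_lit 2517004456) (nat_lit 380) (nat_lit 3820341550) (nat_lit 119) (nat_lit 5) (nat_lit 123) (nat_lit 5) (nat_lit 124) (nat_lit 4) (nat_lit 329) (nat_lit 288) (nat_lit 283)) (XT.lf (nat_lit 0) (nat_lit 2402705221) (nat_lit 380) (nat_lit 4200069684) (nat_lit 76) (nat_lit 2728188958) (nat_lit 114) (nat_lit 5) (nat_lit 119) (nat_lit 5) (nat_lit 115) (nat_lit 4) (nat_lit 330) (nat_lit 288) (nat_lit 282)))) (XT.nd (nat_lit 78) (nat_lit 988) (nat_lit 0) (XT.lf (nat_lit 0) (nat_lit 7487676225) (nat_lit 304) (nat_lit 1298652398) (nat_lit 380) (nat_lit 767633335) (nat_lit 110) (nat_lit 5) (nat_lit 114) (nat_lit 5) (nat_lit 115) (nat_lit 4) (nat_lit 331) (nat_lit 288) (nat_lit 281)) (XT.nd (nat_lit 78) (nat_lit 380) (nat_lit 0) (XT.lf (nat_lit 0) (nat_lit 24516333) (nat_lit 228) (nat_lit 5515828988) (nat_lit 304) (nat_lit 4247700958) (nat_lit 102) (nat_lit 5) (nat_lit 105)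 (nat_lit 5) (nat_lit 106) (nat_lit 4) (nat_lit 332) (nat_lit 288) (nat_lit 280)) (XT.lf (nat_lit 0) (nat_lit 2022262346) (nat_lit 380) (nat_lit 7876991791) (nat_lit 76) (nat_lit 135354728) (nat_lit 97) (nat_lit 5) (nat_lit 102) (nat_lit 5) (nat_lit 98) (nat_lit 4) (nat_lit 333) (nat_lit 288) (nat_lit 279)))))) (XT.nd (nat_lit 468) (nat_lit 1292) (nat_lit 0) (XT.nd (nat_lit 234) (nat_lit 912) (nat_lit 0) (XT.nd (nat_lit 78) (nat_lit 684) (nat_lit 0) (XT.lf (nat_lit 0) (nat_lit 4225857649) (nat_lit 228) (nat_lit 4268211954) (nat_lit 304) (nat_lit 1798968266) (nat_lit 94) (nat_lit 5) (nat_lit 97) (nat_lit 5) (nat_lit 98) (nat_lit 4) (nat_lit 334) (nat_lit 288) (nat_lit 278)) (XT.nd (nat_lit 78) (nat_lit 304) (nat_lit 0) (XT.lf (nat_lit 0) (nat_lit 4574286375) (nat_lit 380) (nat_lit 4309092900) (nat_lit 76) (nat_lit 1681483472) (nat_lit 89) (nat_lit 5) (nat_lit 94) (nat_lit 5) (nat_lit 90) (nat_lit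 4) (nat_lit 335) (nat_lit 288) (nat_lit 277)) (XT.lf (nat_lit 0) (nat_lit 345958840) (nat_lit 304) (nat_lit 2617269208) (nat_lit 76) (nat_lit 7887257312) (nat_lit 85) (nat_lit 5) (nat_lit 89) (nat_lit 5) (nat_lit 86) (nat_lit 5) (nat_lit 336) (nat_lit 288) (nat_lit 276)))) (XT.nd (nat_lit 78) (nat_lit 684) (nat_lit 0) (XT.lf (nat_lit 0) (nat_lit 6844631360) (nat_lit 304) (nat_lit 1031824554) (nat_lit 76) (nat_lit 3273147548) (nat_lit 82) (nat_lit 5) (nat_lit 86) (nat_lit 5) (nat_lit 83) (nat_lit 4) (nat_lit 337) (nat_lit 288) (nat_lit 275)) (XT.nd (nat_lit 78) (nat_lit 152) (nat_lit 0) (XT.lf (nat_lit 0) (nat_lit 483098955) (nat_lit 228) (nat_lit 1653989261) (nat_lit 304) (nat_lit 9326751708) (nat_lit 75) (nat_lit 5) (nat_lit 78) (nat_lit 5) (nat_lit 79) (nat_lit 5) (nat_lit 338) (nat_lit 288) (nat_lit 274)) (XT.lf (nat_lit 0) (nat_lit 1881687514) (nat_lit 152) (nat_lit 6933395735) (nat_lit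 228) (nat_lit 2977401842) (nat_lit 73) (nat_lit 5) (nat_lit 75) (nat_lit 5) (nat_lit 76) (nat_lit 4) (nat_lit 339) (nat_lit 288) (nat_lit 273))))) (XT.nd (nat_lit 234) (nat_lit 532) (nat_lit 0) (XT.nd (nat_lit 78) (nat_lit 456) (nat_lit 0) (XT.lf (nat_lit 0) (nat_lit 3165310272) (nat_lit 228) (nat_lit 417226780) (nat_lit 304) (nat_lit 8555064961) (nat_lit 69) (nat_lit 5) (nat_lit 72) (nat_lit 5) (nat_lit 73) (nat_lit 5) (nat_lit 340) (nat_lit 288) (nat_lit 272)) (XT.nd (nat_lit 78) (nat_lit 304) (nat_lit 0) (XT.lf (nat_lit 0) (nat_lit 4275111479) (nat_lit 152) (nat_lit 6149165115) (nat_lit 228) (nat_lit 2074406572) (nat_lit 67) (nat_lit 5) (nat_lit 69) (nat_lit 5) (nat_lit 70) (nat_lit 4) (nat_lit 341) (nat_lit 288) (nat_lit 271)) (XT.lf (nat_lit 0) (nat_lit 4605015081) (nat_lit 304) (nat_lit 7650394321) (nat_lit 76) (nat_lit 622083915) (nat_lit 63) (nat_lit 5) (nat_lit 67) (nat_lit 5) (nat_lit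 64) (nat_lit 4) (nat_lit 342) (nat_lit 288) (nat_lit 270)))) (XT.nd (nat_lit 78) (nat_lit 380) (nat_lit 0) (XT.lf (nat_lit 0) (nat_lit 5971428520) (nat_lit 152) (nat_lit 5627322948) (nat_lit 228) (nat_lit 1675226704) (nat_lit 61) (nat_lit 5) (nat_lit 63) (nat_lit 5) (nat_lit 64) (nat_lit 4) (nat_lit 343) (nat_lit 288) (nat_lit 269)) (XT.nd (nat_lit 78) (nat_lit 152) (nat_lit 0) (XT.lf (nat_lit 0) (nat_lit 5126939969) (nat_lit 228) (nat_lit 7186579852) (nat_lit 76) (nat_lit 1375970969) (nat_lit 58) (nat_lit 5) (nat_lit 61) (nat_lit 5) (nat_lit 59) (nat_lit 4) (nat_lit 344) (nat_lit 288) (nat_lit 268)) (XT.lf (nat_lit 0) (nat_lit 6785016643) (nat_lit 152) (nat_lit 5474117791) (nat_lit 228) (nat_lit 1865452065) (nat_lit 56) (nat_lit 5) (nat_lit 58) (nat_lit 5) (nat_lit 59) (nat_lit 4) (nat_lit 345) (nat_lit 288) (nat_lit 267))))))))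
noncomputable def xc28 : XT := (XT.nd (nat_lit 1794) (nat_lit 912) (nat_lit 0) (XT.nd (nat_lit 858) (nat_lit 1064) (nat_lit 0) (XT.nd (nat_lit 390) (nat_lit 684) (nat_lit 0) (XT.nd (nat_lit 156) (nat_lit 608) (nat_lit 0) (XT.nd (nat_lit 78) (nat_lit 152) (nat_lit 0) (XT.lf (nat_lit 0) (nat_lit 5053039521) (nat_lit 228) (nat_lit 7784711503) (nat_lit 76) (nat_lit 1742614273) (nat_lit 53) (nat_lit 5) (nat_lit 56) (nat_lit 5) (nat_lit 54) (nat_lit 4) (nat_lit 346) (nat_lit 288) (nat_lit 266)) (XT.lf (nat_lit 0) (nat_lit 6495482480) (nat_lit 152) (nat_lit 5811966382) (nat_lit 228) (nat_lit 2750109877) (nat_lit 51) (nat_lit 5) (nat_lit 53) (nat_lit 5) (nat_lit 54) (nat_lit 4) (nat_lit 347) (nat_lit 288) (nat_lit 265))) (XT.nd (nat_lit 78) (nat_lit 380) (nat_lit 0) (XT.lf (nat_lit 0) (nat_lit 4271658268) (nat_lit 228) (nat_lit 9691296201) (nat_lit 76) (nat_lit 1594705940) (nat_lit 48) (nat_lit 5) (nat_lit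 51) (nat_lit 5) (nat_lit 49) (nat_lit 4) (nat_lit 348) (nat_lit 288) (nat_lit 264)) (XT.nd (nat_lit 78) (nat_lit 228) (nat_lit 0) (XT.lf (nat_lit 0) (nat_lit 4841085789) (nat_lit 152) (nat_lit 6782966991) (nat_lit 228) (nat_lit 4456837671) (nat_lit 46) (nat_lit 5) (nat_lit 48) (nat_lit 5) (nat_lit 49) (nat_lit 4) (nat_lit 349) (nat_lit 288) (nat_lit 263)) (XT.lf (nat_lit 0) (nat_lit 2647367271) (nat_lit 228) (nat_lit 13198666716) (nat_lit 76) (nat_lit 783899406) (nat_lit 43) (nat_lit 5) (nat_lit 46) (nat_lit 5) (nat_lit 44) (nat_lit 4) (nat_lit 350) (nat_lit 288) (nat_lit 262))))) (XT.nd (nat_lit 234) (nat_lit 380) (nat_lit 0) (XT.nd (nat_lit 78) (nat_lit 228) (nat_lit 0) (XT.lf (nat_lit 0) (nat_lit 1511054365) (nat_lit 76) (nat_lit 8552954607) (nat_lit 152) (nat_lit 7139642373) (nat_lit 42) (nat_lit 5) (nat_lit 43) (nat_lit 5) (nat_lit 44) (nat_lit 4) (nat_lit 351) (nat_lit 288) (nat_lit 261))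 (XT.nd (nat_lit 78) (nat_lit 152) (nat_lit 0) (XT.lf (nat_lit 0) (nat_lit 33651568) (nat_lit 152) (nat_lit 838526603) (nat_lit 76) (nat_lit 16934217146) (nat_lit 41) (nat_lit 5) (nat_lit 43) (nat_lit 5) (nat_lit 42) (nat_lit 5) (nat_lit 352) (nat_lit 288) (nat_lit 260)) (XT.lf (nat_lit 0) (nat_lit 7489931296) (nat_lit 228) (nat_lit 3788016504) (nat_lit 76) (nat_lit 7157073878) (nat_lit 39) (nat_lit 5) (nat_lit 42) (nat_lit 5) (nat_lit 40) (nat_lit 4) (nat_lit 353) (nat_lit 288) (nat_lit 259)))) (XT.nd (nat_lit 78) (nat_lit 304) (nat_lit 0) (XT.lf (nat_lit 0) (nat_lit 11800991640) (nat_lit 76) (nat_lit 3511226415) (nat_lit 152) (nat_lit 3783089579) (nat_lit 38) (nat_lit 5) (nat_lit 39) (nat_lit 5) (nat_lit 40) (nat_lit 4) (nat_lit 354) (nat_lit 288) (nat_lit 258)) (XT.nd (nat_lit 78) (nat_lit 76) (nat_lit 0) (XT.lf (nat_lit 0) (nat_lit 3693891669) (nat_lit 228) (nat_lit 11490938093) (nat_lit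 76) (nat_lit 4601828621) (nat_lit 35) (nat_lit 5) (nat_lit 38) (nat_lit 5) (nat_lit 36) (nat_lit 4) (nat_lit 355) (nat_lit 288) (nat_lit 257)) (XT.lf (nat_lit 0) (nat_lit 4071108153) (nat_lit 76) (nat_lit 7414719240) (nat_lit 152) (nat_lit 9025066414) (nat_lit 34) (nat_lit 5) (nat_lit 35) (nat_lit 5) (nat_lit 36) (nat_lit 4) (nat_lit 356) (nat_lit 288) (nat_lit 256)))))) (XT.nd (nat_lit 468) (nat_lit 456) (nat_lit 0) (XT.nd (nat_lit 234) (nat_lit 304) (nat_lit 0) (XT.nd (nat_lit 78) (nat_lit 304) (nat_lit 0) (XT.lf (nat_lit 0) (nat_lit 19665180605) (nat_lit 152) (nat_lit 861972252) (nat_lit 0) (nat_lit 744273711) (nat_lit 34) (nat_lit 5) (nat_lit 36) (nat_lit 4) (nat_lit 34) (nat_lit 4) (nat_lit 357) (nat_lit 288) (nat_lit 255)) (XT.nd (nat_lit 78) (nat_lit 76) (nat_lit 0) (XT.lf (nat_lit 0) (nat_lit 6164976776) (nat_lit 228) (nat_lit 6631073517) (nat_lit 76) (nat_lit 9269107428) (nat_lit 31)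 (nat_lit 5) (nat_lit 34) (nat_lit 5) (nat_lit 32) (nat_lit 4) (nat_lit 358) (nat_lit 288) (nat_lit 254)) (XT.lf (nat_lit 0) (nat_lit 9614076056) (nat_lit 76) (nat_lit 4659029518) (nat_lit 152) (nat_lit 8625563596) (nat_lit 30) (nat_lit 5) (nat_lit 31) (nat_lit 5) (nat_lit 32) (nat_lit 4) (nat_lit 359) (nat_lit 288) (nat_lit 253)))) (XT.nd (nat_lit 78) (nat_lit 152) (nat_lit 0) (XT.lf (nat_lit 0) (nat_lit 2837520512) (nat_lit 152) (nat_lit 19965251287) (nat_lit 152) (nat_lit 970617390) (nat_lit 28) (nat_lit 4) (nat_lit 30) (nat_lit 5) (nat_lit 30) (nat_lit 4) (nat_lit 360) (nat_lit 288) (nat_lit 252)) (XT.nd (nat_lit 78) (nat_lit 76) (nat_lit 0) (XT.lf (nat_lit 0) (nat_lit 6999290776) (nat_lit 228) (nat_lit 4974834281) (nat_lit 76) (nat_lit 12713594254) (nat_lit 27) (nat_lit 5) (nat_lit 30) (nat_lit 5) (nat_lit 28) (nat_lit 4) (nat_lit 361) (nat_lit 288) (nat_lit 251)) (XT.lf (nat_lit 0) (nat_lit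 11800799213) (nat_lit 76) (nat_lit 3550908090) (nat_lit 152) (nat_lit 10295662635) (nat_lit 26) (nat_lit 5) (nat_lit 27) (nat_lit 5) (nat_lit 28) (nat_lit 4) (nat_lit 362) (nat_lit 288) (nat_lit 250))))) (XT.nd (nat_lit 234) (nat_lit 228) (nat_lit 0) (XT.nd (nat_lit 78) (nat_lit 152) (nat_lit 0) (XT.lf (nat_lit 0) (nat_lit 2665933618) (nat_lit 76) (nat_lit 21476932827) (nat_lit 76) (nat_lit 2511517198) (nat_lit 25) (nat_lit 4) (nat_lit 26) (nat_lit 5) (nat_lit 26) (nat_lit 4) (nat_lit 363) (nat_lit 288) (nat_lit 249)) (XT.nd (nat_lit 78) (nat_lit 76) (nat_lit 0) (XT.lf (nat_lit 0) (nat_lit 5626222347) (nat_lit 152) (nat_lit 7702493538) (nat_lit 76) (nat_lit 14379166436) (nat_lit 24) (nat_lit 5) (nat_lit 26) (nat_lit 5) (nat_lit 25) (nat_lit 4) (nat_lit 364) (nat_lit 288) (nat_lit 248)) (XT.lf (nat_lit 0) (nat_lit 9367819936) (nat_lit 76) (nat_lit 4741695128) (nat_lit 152) (nat_lit 14704089131)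 (nat_lit 23) (nat_lit 5) (nat_lit 24) (nat_lit 5) (nat_lit 25) (nat_lit 4) (nat_lit 365) (nat_lit 288) (nat_lit 247)))) (XT.nd (nat_lit 78) (nat_lit 228) (nat_lit 0) (XT.lf (nat_lit 0) (nat_lit 23040405327) (nat_lit 152) (nat_lit 2745621910) (nat_lit 0) (nat_lit 4187893845) (nat_lit 23) (nat_lit 5) (nat_lit 25) (nat_lit 4) (nat_lit 23) (nat_lit 4) (nat_lit 366) (nat_lit 288) (nat_lit 246)) (XT.nd (nat_lit 78) (nat_lit 76) (nat_lit 0) (XT.lf (nat_lit 0) (nat_lit 1300212708) (nat_lit 152) (nat_lit 16345850077) (nat_lit 76) (nat_lit 13542892347) (nat_lit 21) (nat_lit 5) (nat_lit 23) (nat_lit 5) (nat_lit 22) (nat_lit 4) (nat_lit 367) (nat_lit 288) (nat_lit 245)) (XT.lf (nat_lit 0) (nat_lit 675518811) (nat_lit 76) (nat_lit 9071894331) (nat_lit 152) (nat_lit 22716923329) (nat_lit 20) (nat_lit 5) (nat_lit 21) (nat_lit 5) (nat_lit 22) (nat_lit 4) (nat_lit 368) (nat_lit 288) (nat_lit 244))))))) (XT.nd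 (nat_lit 936) (nat_lit 380) (nat_lit 0) (XT.nd (nat_lit 468) (nat_lit 304) (nat_lit 0) (XT.nd (nat_lit 234) (nat_lit 76) (nat_lit 0) (XT.nd (nat_lit 78) (nat_lit 152) (nat_lit 0) (XT.lf (nat_lit 0) (nat_lit 18697031278) (nat_lit 152) (nat_lit 15079029209) (nat_lit 0) (nat_lit 25034646) (nat_lit 20) (nat_lit 5) (nat_lit 22) (nat_lit 4) (nat_lit 20) (nat_lit 4) (nat_lit 369) (nat_lit 288) (nat_lit 243)) (XT.nd (nat_lit 78) (nat_lit 76) (nat_lit 0) (XT.lf (nat_lit 0) (nat_lit 2257668522) (nat_lit 76) (nat_lit 25864765870) (nat_lit 76) (nat_lit 7081417726) (nat_lit 19) (nat_lit 4) (nat_lit 20) (nat_lit 5) (nat_lit 20) (nat_lit 4) (nat_lit 370) (nat_lit 288) (nat_lit 242)) (XT.lf (nat_lit 0) (nat_lit 1389682749) (nat_lit 152) (nat_lit 16068341221) (nat_lit 76) (nat_lit 19216139178) (nat_lit 18) (nat_lit 5) (nat_lit 20) (nat_lit 5) (nat_lit 19) (nat_lit 4) (nat_lit 371) (nat_lit 288) (nat_lit 241))))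 (XT.nd (nat_lit 78) (nat_lit 0) (nat_lit 0) (XT.lf (nat_lit 0) (nat_lit 1459815489) (nat_lit 76) (nat_lit 8614180469) (nat_lit 152) (nat_lit 28143815388) (nat_lit 17) (nat_lit 5) (nat_lit 18) (nat_lit 5) (nat_lit 19) (nat_lit 4) (nat_lit 372) (nat_lit 288) (nat_lit 240)) (XT.nd (nat_lit 78) (nat_lit 0) (nat_lit 0) (XT.lf (nat_lit 0) (nat_lit 19288450981) (nat_lit 152) (nat_lit 19789536137) (nat_lit 0) (nat_lit 757785028) (nat_lit 17) (nat_lit 5) (nat_lit 19) (nat_lit 4) (nat_lit 17) (nat_lit 4) (nat_lit 373) (nat_lit 288) (nat_lit 239)) (XT.lf (nat_lit 0) (nat_lit 28976688772) (nat_lit 152) (nat_lit 2200476129) (nat_lit 0) (nat_lit 10357081882) (nat_lit 17) (nat_lit 5) (nat_lit 19) (nat_lit 4) (nat_lit 17) (nat_lit 4) (nat_lit 374) (nat_lit 288) (nat_lit 238))))) (XT.nd (nat_lit 234) (nat_lit 76) (nat_lit 0) (XT.nd (nat_lit 78) (nat_lit 152) (nat_lit 0) (XT.lf (nat_lit 0) (nat_lit 16454963254)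 (nat_lit 76) (nat_lit 22782183710) (nat_lit 76) (nat_lit 4077871166) (nat_lit 16) (nat_lit 4) (nat_lit 17) (nat_lit 5) (nat_lit 17) (nat_lit 4) (nat_lit 375) (nat_lit 288) (nat_lit 237)) (XT.nd (nat_lit 78) (nat_lit 76) (nat_lit 0) (XT.lf (nat_lit 0) (nat_lit 4685556219) (nat_lit 152) (nat_lit 9273305469) (nat_lit 76) (nat_lit 31225963644) (nat_lit 15) (nat_lit 5) (nat_lit 17) (nat_lit 5) (nat_lit 16) (nat_lit 4) (nat_lit 376) (nat_lit 288) (nat_lit 236)) (XT.lf (nat_lit 0) (nat_lit 9205830668) (nat_lit 76) (nat_lit 4620595828) (nat_lit 152) (nat_lit 33319783275) (nat_lit 14) (nat_lit 5) (nat_lit 15) (nat_lit 5) (nat_lit 16) (nat_lit 4) (nat_lit 377) (nat_lit 288) (nat_lit 235)))) (XT.nd (nat_lit 78) (nat_lit 76) (nat_lit 0) (XT.lf (nat_lit 0) (nat_lit 23506312595) (nat_lit 152) (nat_lit 20574067714) (nat_lit 0) (nat_lit 5122830023) (nat_lit 14) (nat_lit 5) (nat_lit 16) (nat_lit 4) (nat_lit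 14) (nat_lit 4) (nat_lit 378) (nat_lit 288) (nat_lit 234)) (XT.nd (nat_lit 78) (nat_lit 76) (nat_lit 0) (XT.lf (nat_lit 0) (nat_lit 33655619572) (nat_lit 152) (nat_lit 2503405146) (nat_lit 0) (nat_lit 15204479183) (nat_lit 14) (nat_lit 5) (nat_lit 16) (nat_lit 4) (nat_lit 14) (nat_lit 4) (nat_lit 379) (nat_lit 288) (nat_lit 233)) (XT.lf (nat_lit 0) (nat_lit 16684627149) (nat_lit 76) (nat_lit 27729852144) (nat_lit 76) (nat_lit 9214275739) (nat_lit 13) (nat_lit 4) (nat_lit 14) (nat_lit 5) (nat_lit 14) (nat_lit 4) (nat_lit 380) (nat_lit 288) (nat_lit 232)))))) (XT.nd (nat_lit 468) (nat_lit 152) (nat_lit 0) (XT.nd (nat_lit 234) (nat_lit 76) (nat_lit 0) (XT.nd (nat_lit 78) (nat_lit 152) (nat_lit 0) (XT.lf (nat_lit 0) (nat_lit 36775837316) (nat_lit 76) (nat_lit 18904652230) (nat_lit 76) (nat_lit 327708189) (nat_lit 13) (nat_lit 4) (nat_lit 14) (nat_lit 5) (nat_lit 14) (nat_lit 4) (nat_lit 381) (nat_lit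 288) (nat_lit 231)) (XT.nd (nat_lit 78) (nat_lit 76) (nat_lit 0) (XT.lf (nat_lit 0) (nat_lit 8773095525) (nat_lit 152) (nat_lit 826005490) (nat_lit 76) (nat_lit 48906552308) (nat_lit 12) (nat_lit 5) (nat_lit 14) (nat_lit 5) (nat_lit 13) (nat_lit 4) (nat_lit 382) (nat_lit 288) (nat_lit 230)) (XT.lf (nat_lit 0) (nat_lit 18453790672) (nat_lit 152) (nat_lit 42363010857) (nat_lit 0) (nat_lit 307138575) (nat_lit 11) (nat_lit 5) (nat_lit 13) (nat_lit 4) (nat_lit 11) (nat_lit 4) (nat_lit 383) (nat_lit 288) (nat_lit 229)))) (XT.nd (nat_lit 78) (nat_lit 76) (nat_lit 0) (XT.lf (nat_lit 0) (nat_lit 28673270079) (nat_lit 152) (nat_lit 24723082716) (nat_lit 0) (nat_lit 10475150341) (nat_lit 11) (nat_lit 5) (nat_lit 13) (nat_lit 4) (nat_lit 11) (nat_lit 4) (nat_lit 384) (nat_lit 288) (nat_lit 228)) (XT.nd (nat_lit 78) (nat_lit 76) (nat_lit 0) (XT.lf (nat_lit 0) (nat_lit 39355415135) (nat_lit 152) (nat_lit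 6294204022) (nat_lit 0) (nat_lit 21108278597) (nat_lit 11) (nat_lit 5) (nat_lit 13) (nat_lit 4) (nat_lit 11) (nat_lit 4) (nat_lit 385) (nat_lit 288) (nat_lit 227)) (XT.lf (nat_lit 0) (nat_lit 13225582251) (nat_lit 76) (nat_lit 37427209657) (nat_lit 76) (nat_lit 19133390452) (nat_lit 10) (nat_lit 4) (nat_lit 11) (nat_lit 5) (nat_lit 11) (nat_lit 4) (nat_lit 386) (nat_lit 288) (nat_lit 226))))) (XT.nd (nat_lit 234) (nat_lit 76) (nat_lit 0) (XT.nd (nat_lit 78) (nat_lit 76) (nat_lit 0) (XT.lf (nat_lit 0) (nat_lit 33766813225) (nat_lit 76) (nat_lit 28768373096) (nat_lit 76) (nat_lit 10430094207) (nat_lit 10) (nat_lit 4) (nat_lit 11) (nat_lit 5) (nat_lit 11) (nat_lit 4) (nat_lit 387) (nat_lit 288) (nat_lit 225)) (XT.nd (nat_lit 78) (nat_lit 76) (nat_lit 0) (XT.lf (nat_lit 0) (nat_lit 55253129589) (nat_lit 76) (nat_lit 19716052316) (nat_lit 76) (nat_lit 1335430872) (nat_lit 10) (nat_lit 4) (nat_lit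 11) (nat_lit 5) (nat_lit 11) (nat_lit 4) (nat_lit 388) (nat_lit 288) (nat_lit 224)) (XT.lf (nat_lit 0) (nat_lit 8012783412) (nat_lit 152) (nat_lit 2154997360) (nat_lit 76) (nat_lit 69641992427) (nat_lit 9) (nat_lit 5) (nat_lit 11) (nat_lit 5) (nat_lit 10) (nat_lit 4) (nat_lit 389) (nat_lit 288) (nat_lit 223)))) (XT.nd (nat_lit 78) (nat_lit 0) (nat_lit 0) (XT.lf (nat_lit 0) (nat_lit 17934750156) (nat_lit 152) (nat_lit 65537981593) (nat_lit 0) (nat_lit 13047600) (nat_lit 8) (nat_lit 5) (nat_lit 10) (nat_lit 4) (nat_lit 8) (nat_lit 4) (nat_lit 390) (nat_lit 288) (nat_lit 222)) (XT.nd (nat_lit 78) (nat_lit 0) (nat_lit 0) (XT.lf (nat_lit 0) (nat_lit 28439708997) (nat_lit 152) (nat_lit 48420778328) (nat_lit 0) (nat_lit 10482494701) (nat_lit 8) (nat_lit 5) (nat_lit 10) (nat_lit 4) (nat_lit 8) (nat_lit 4) (nat_lit 391) (nat_lit 288) (nat_lit 221)) (XT.lf (nat_lit 0) (nat_lit 39433596203) (nat_lit 152)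 (nat_lit 30517979906) (nat_lit 0) (nat_lit 21442561204) (nat_lit 8) (nat_lit 5) (nat_lit 10) (nat_lit 4) (nat_lit 8) (nat_lit 4) (nat_lit 392) (nat_lit 288) (nat_lit 220))))))))
noncomputable def xc29 : XT := (XT.nd (nat_lit 42900) (nat_lit 0) (nat_lit 1292) (XT.nd (nat_lit 41964) (nat_lit 0) (nat_lit 4712) (XT.nd (nat_lit 41496) (nat_lit 0) (nat_lit 8512) (XT.nd (nat_lit 234) (nat_lit 0) (nat_lit 0) (XT.nd (nat_lit 78) (nat_lit 76) (nat_lit 0) (XT.lf (nat_lit 0) (nat_lit 50942587699) (nat_lit 152) (nat_lit 11786960615) (nat_lit 0) (nat_lit 32919342505) (nat_lit 8) (nat_lit 5) (nat_lit 10) (nat_lit 4) (nat_lit 8) (nat_lit 4) (nat_lit 393) (nat_lit 288) (nat_lit 219)) (XT.nd (nat_lit 78) (nat_lit 0) (nat_lit 0) (XT.lf (nat_lit 0) (nat_lit 7972448392) (nat_lit 76) (nat_lit 55098273502) (nat_lit 76) (nat_lit 37044351933) (nat_lit 7) (nat_lit 4) (nat_lit 8) (nat_lit 5) (nat_lit 8) (nat_lit 4) (nat_lit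 394) (nat_lit 288) (nat_lit 218)) (XT.lf (nat_lit 0) (nat_lit 28904235106) (nat_lit 76) (nat_lit 46990394763) (nat_lit 76) (nat_lit 28907257598) (nat_lit 7) (nat_lit 4) (nat_lit 8) (nat_lit 5) (nat_lit 8) (nat_lit 4) (nat_lit 395) (nat_lit 288) (nat_lit 217)))) (XT.nd (nat_lit 41106) (nat_lit 0) (nat_lit 11856) (XT.lf (nat_lit 0) (nat_lit 50823653486) (nat_lit 76) (nat_lit 38505632816) (nat_lit 76) (nat_lit 20394671274) (nat_lit 7) (nat_lit 4) (nat_lit 8) (nat_lit 5) (nat_lit 8) (nat_lit 4) (nat_lit 396) (nat_lit 288) (nat_lit 216)) (XT.nd (nat_lit 78) (nat_lit 532) (nat_lit 0) (XT.lf (nat_lit 0) (nat_lit 1649255540) (nat_lit 456) (nat_lit 1157100534) (nat_lit 456) (nat_lit 1157100534) (nat_lit 170) (nat_lit 4) (nat_lit 176) (nat_lit 5) (nat_lit 176) (nat_lit 4) (nat_lit 322) (nat_lit 289) (nat_lit 289)) (XT.lf (nat_lit 0) (nat_lit 3751530555) (nat_lit 532) (nat_lit 2581174184) (nat_lit 0) (nat_lit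 1738627672) (nat_lit 163) (nat_lit 5) (nat_lit 170) (nat_lit 4) (nat_lit 163) (nat_lit 4) (nat_lit 323) (nat_lit 289) (nat_lit 288))))) (XT.nd (nat_lit 234) (nat_lit 1520) (nat_lit 0) (XT.nd (nat_lit 78) (nat_lit 1292) (nat_lit 0) (XT.lf (nat_lit 0) (nat_lit 1697523512) (nat_lit 532) (nat_lit 483980518) (nat_lit 76) (nat_lit 6043909636) (nat_lit 156) (nat_lit 5) (nat_lit 163) (nat_lit 5) (nat_lit 157) (nat_lit 4) (nat_lit 324) (nat_lit 289) (nat_lit 287)) (XT.nd (nat_lit 78) (nat_lit 456) (nat_lit 0) (XT.lf (nat_lit 0) (nat_lit 1690393907) (nat_lit 456) (nat_lit 6143264094) (nat_lit 456) (nat_lit 555190791) (nat_lit 145) (nat_lit 4) (nat_lit 151) (nat_lit 5) (nat_lit 151) (nat_lit 4) (nat_lit 325) (nat_lit 289) (nat_lit 286)) (XT.lf (nat_lit 0) (nat_lit 3903140209) (nat_lit 380) (nat_lit 1603948178) (nat_lit 456) (nat_lit 3054784253) (nat_lit 139) (nat_lit 5) (nat_lit 144) (nat_lit 5) (nat_lit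 145) (nat_lit 4) (nat_lit 326) (nat_lit 289) (nat_lit 285)))) (XT.nd (nat_lit 78) (nat_lit 1064) (nat_lit 0) (XT.lf (nat_lit 0) (nat_lit 2970611783) (nat_lit 456) (nat_lit 2594935559) (nat_lit 76) (nat_lit 3179650890) (nat_lit 133) (nat_lit 5) (nat_lit 139) (nat_lit 5) (nat_lit 134) (nat_lit 4) (nat_lit 327) (nat_lit 289) (nat_lit 284)) (XT.nd (nat_lit 78) (nat_lit 684) (nat_lit 0) (XT.lf (nat_lit 0) (nat_lit 198176277) (nat_lit 380) (nat_lit 495677132) (nat_lit 76) (nat_lit 8245763464) (nat_lit 128) (nat_lit 5) (nat_lit 133) (nat_lit 5) (nat_lit 129) (nat_lit 5) (nat_lit 328) (nat_lit 289) (nat_lit 283)) (XT.lf (nat_lit 0) (nat_lit 1613062011) (nat_lit 304) (nat_lit 4694840165) (nat_lit 380) (nat_lit 2835520471) (nat_lit 119) (nat_lit 5) (nat_lit 123) (nat_lit 5) (nat_lit 124) (nat_lit 4) (nat_lit 329) (nat_lit 289) (nat_lit 282)))))) (XT.nd (nat_lit 468) (nat_lit 1520) (nat_lit 0) (XT.nd (nat_lit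 234) (nat_lit 1216) (nat_lit 0) (XT.nd (nat_lit 78) (nat_lit 684) (nat_lit 0) (XT.lf (nat_lit 0) (nat_lit 3220653001) (nat_lit 380) (nat_lit 5599083427) (nat_lit 76) (nat_lit 539198063) (nat_lit 114) (nat_lit 5) (nat_lit 119) (nat_lit 5) (nat_lit 115) (nat_lit 4) (nat_lit 330) (nat_lit 289) (nat_lit 281)) (XT.nd (nat_lit 78) (nat_lit 380) (nat_lit 0) (XT.lf (nat_lit 0) (nat_lit 5895969066) (nat_lit 304) (nat_lit 3583569562) (nat_lit 380) (nat_lit 106185060) (nat_lit 110) (nat_lit 5) (nat_lit 114) (nat_lit 5) (nat_lit 115) (nat_lit 4) (nat_lit 331) (nat_lit 289) (nat_lit 280)) (XT.lf (nat_lit 0) (nat_lit 6041705801) (nat_lit 380) (nat_lit 1813334817) (nat_lit 76) (nat_lit 1969037338) (nat_lit 105) (nat_lit 5) (nat_lit 110) (nat_lit 5) (nat_lit 106) (nat_lit 4) (nat_lit 332) (nat_lit 289) (nat_lit 279)))) (XT.nd (nat_lit 78) (nat_lit 608) (nat_lit 0) (XT.lf (nat_lit 0) (nat_lit 40295460) (nat_lit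 304) (nat_lit 2292221423) (nat_lit 380) (nat_lit 7742411155) (nat_lit 97) (nat_lit 5) (nat_lit 101) (nat_lit 5) (nat_lit 102) (nat_lit 5) (nat_lit 333) (nat_lit 289) (nat_lit 278)) (XT.nd (nat_lit 78) (nat_lit 380) (nat_lit 0) (XT.lf (nat_lit 0) (nat_lit 1884076275) (nat_lit 228) (nat_lit 6772372896) (nat_lit 304) (nat_lit 1681383992) (nat_lit 94) (nat_lit 5) (nat_lit 97) (nat_lit 5) (nat_lit 98) (nat_lit 4) (nat_lit 334) (nat_lit 289) (nat_lit 277)) (XT.lf (nat_lit 0) (nat_lit 3676455712) (nat_lit 304) (nat_lit 870743710) (nat_lit 380) (nat_lit 6066732879) (nat_lit 89) (nat_lit 5) (nat_lit 93) (nat_lit 5) (nat_lit 94) (nat_lit 5) (nat_lit 335) (nat_lit 289) (nat_lit 276))))) (XT.nd (nat_lit 234) (nat_lit 684) (nat_lit 0) (XT.nd (nat_lit 78) (nat_lit 532) (nat_lit 0) (XT.lf (nat_lit 0) (nat_lit 136206880) (nat_lit 304) (nat_lit 5499411173) (nat_lit 76) (nat_lit 5268045358) (nat_lit 85) (nat_lit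 5) (nat_lit 89) (nat_lit 5) (nat_lit 86) (nat_lit 5) (nat_lit 336) (nat_lit 289) (nat_lit 275)) (XT.nd (nat_lit 78) (nat_lit 304) (nat_lit 0) (XT.lf (nat_lit 0) (nat_lit 6482691918) (nat_lit 304) (nat_lit 4158120804) (nat_lit 76) (nat_lit 566566881) (nat_lit 82) (nat_lit 5) (nat_lit 86) (nat_lit 5) (nat_lit 83) (nat_lit 4) (nat_lit 337) (nat_lit 289) (nat_lit 274)) (XT.lf (nat_lit 0) (nat_lit 1594216777) (nat_lit 304) (nat_lit 2925323465) (nat_lit 76) (nat_lit 7006167261) (nat_lit 78) (nat_lit 5) (nat_lit 82) (nat_lit 5) (nat_lit 79) (nat_lit 5) (nat_lit 338) (nat_lit 289) (nat_lit 273)))) (XT.nd (nat_lit 78) (nat_lit 456) (nat_lit 0) (XT.lf (nat_lit 0) (nat_lit 8104400700) (nat_lit 304) (nat_lit 1810459441) (nat_lit 76) (nat_lit 1944555452) (nat_lit 75) (nat_lit 5) (nat_lit 79) (nat_lit 5) (nat_lit 76) (nat_lit 4) (nat_lit 339) (nat_lit 289) (nat_lit 272)) (XT.nd (nat_lit 78) (nat_lit 228)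 (nat_lit 0) (XT.lf (nat_lit 0) (nat_lit 2680613662) (nat_lit 228) (nat_lit 835764100) (nat_lit 76) (nat_lit 8692589965) (nat_lit 72) (nat_lit 5) (nat_lit 75) (nat_lit 5) (nat_lit 73) (nat_lit 5) (nat_lit 340) (nat_lit 289) (nat_lit 271)) (XT.lf (nat_lit 0) (nat_lit 9354422060) (nat_lit 304) (nat_lit 16844189) (nat_lit 76) (nat_lit 3203845743) (nat_lit 69) (nat_lit 5) (nat_lit 73) (nat_lit 5) (nat_lit 70) (nat_lit 4) (nat_lit 341) (nat_lit 289) (nat_lit 270))))))) (XT.nd (nat_lit 936) (nat_lit 1140) (nat_lit 0) (XT.nd (nat_lit 468) (nat_lit 912) (nat_lit 0) (XT.nd (nat_lit 234) (nat_lit 532) (nat_lit 0) (XT.nd (nat_lit 78) (nat_lit 380) (nat_lit 0) (XT.lf (nat_lit 0) (nat_lit 639469692) (nat_lit 228) (nat_lit 2704395478) (nat_lit 304) (nat_lit 9614527856) (nat_lit 63) (nat_lit 5) (nat_lit 66) (nat_lit 5) (nat_lit 67) (nat_lit 5) (nat_lit 342) (nat_lit 289) (nat_lit 269)) (XT.nd (nat_lit 78) (nat_lit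 228) (nat_lit 0) (XT.lf (nat_lit 0) (nat_lit 1089282740) (nat_lit 152) (nat_lit 9090787525) (nat_lit 228) (nat_lit 3179555724) (nat_lit 61) (nat_lit 5) (nat_lit 63) (nat_lit 5) (nat_lit 64) (nat_lit 4) (nat_lit 343) (nat_lit 289) (nat_lit 268)) (XT.lf (nat_lit 0) (nat_lit 1320193151) (nat_lit 152) (nat_lit 2185574146) (nat_lit 228) (nat_lit 10274211583) (nat_lit 58) (nat_lit 5) (nat_lit 60) (nat_lit 5) (nat_lit 61) (nat_lit 5) (nat_lit 344) (nat_lit 289) (nat_lit 267)))) (XT.nd (nat_lit 78) (nat_lit 380) (nat_lit 0) (XT.lf (nat_lit 0) (nat_lit 1285833714) (nat_lit 152) (nat_lit 9197563567) (nat_lit 228) (nat_lit 3736333766) (nat_lit 56) (nat_lit 5) (nat_lit 58) (nat_lit 5) (nat_lit 59) (nat_lit 4) (nat_lit 345) (nat_lit 289) (nat_lit 266)) (XT.nd (nat_lit 78) (nat_lit 152) (nat_lit 0) (XT.lf (nat_lit 0) (nat_lit 985932696) (nat_lit 152) (nat_lit 2080685011) (nat_lit 228) (nat_lit 11614011145)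 (nat_lit 53) (nat_lit 5) (nat_lit 55) (nat_lit 5) (nat_lit 56) (nat_lit 5) (nat_lit 346) (nat_lit 289) (nat_lit 265)) (XT.lf (nat_lit 0) (nat_lit 350494979) (nat_lit 152) (nat_lit 9814445540) (nat_lit 228) (nat_lit 4997581565) (nat_lit 51) (nat_lit 5) (nat_lit 53) (nat_lit 5) (nat_lit 54) (nat_lit 4) (nat_lit 347) (nat_lit 289) (nat_lit 264))))) (XT.nd (nat_lit 234) (nat_lit 532) (nat_lit 0) (XT.nd (nat_lit 78) (nat_lit 304) (nat_lit 0) (XT.lf (nat_lit 0) (nat_lit 1920497568) (nat_lit 228) (nat_lit 593403517) (nat_lit 76) (nat_lit 13153813044) (nat_lit 50) (nat_lit 5) (nat_lit 53) (nat_lit 5) (nat_lit 51) (nat_lit 5) (nat_lit 348) (nat_lit 289) (nat_lit 263)) (XT.nd (nat_lit 78) (nat_lit 152) (nat_lit 0) (XT.lf (nat_lit 0) (nat_lit 9122763082) (nat_lit 228) (nat_lit 1941563826) (nat_lit 76) (nat_lit 5131136275) (nat_lit 48) (nat_lit 5) (nat_lit 51) (nat_lit 5) (nat_lit 49) (nat_lit 4) (nat_lit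 349) (nat_lit 289) (nat_lit 262)) (XT.lf (nat_lit 0) (nat_lit 13081402787) (nat_lit 152) (nat_lit 3617424350) (nat_lit 228) (nat_lit 50391552) (nat_lit 46) (nat_lit 5) (nat_lit 48) (nat_lit 5) (nat_lit 49) (nat_lit 4) (nat_lit 350) (nat_lit 289) (nat_lit 261)))) (XT.nd (nat_lit 78) (nat_lit 304) (nat_lit 0) (XT.lf (nat_lit 0) (nat_lit 7211333348) (nat_lit 228) (nat_lit 5901465366) (nat_lit 76) (nat_lit 4214842795) (nat_lit 43) (nat_lit 5) (nat_lit 46) (nat_lit 5) (nat_lit 44) (nat_lit 4) (nat_lit 351) (nat_lit 289) (nat_lit 260)) (XT.nd (nat_lit 78) (nat_lit 228) (nat_lit 0) (XT.lf (nat_lit 0) (nat_lit 9315652101) (nat_lit 76) (nat_lit 5546422880) (nat_lit 152) (nat_lit 3072112373) (nat_lit 42) (nat_lit 5) (nat_lit 43) (nat_lit 5) (nat_lit 44) (nat_lit 4) (nat_lit 352) (nat_lit 289) (nat_lit 259)) (XT.lf (nat_lit 0) (nat_lit 4254951030) (nat_lit 228) (nat_lit 11899634950) (nat_lit 76) (nat_lit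 2414800335) (nat_lit 39) (nat_lit 5) (nat_lit 42) (nat_lit 5) (nat_lit 40) (nat_lit 4) (nat_lit 353) (nat_lit 289) (nat_lit 258)))))) (XT.nd (nat_lit 468) (nat_lit 532) (nat_lit 0) (XT.nd (nat_lit 234) (nat_lit 304) (nat_lit 0) (XT.nd (nat_lit 78) (nat_lit 228) (nat_lit 0) (XT.lf (nat_lit 0) (nat_lit 3409520597) (nat_lit 76) (nat_lit 8523050561) (nat_lit 152) (nat_lit 7301452295) (nat_lit 38) (nat_lit 5) (nat_lit 39) (nat_lit 5) (nat_lit 40) (nat_lit 4) (nat_lit 354) (nat_lit 289) (nat_lit 257)) (XT.nd (nat_lit 78) (nat_lit 152) (nat_lit 0) (XT.lf (nat_lit 0) (nat_lit 56214985) (nat_lit 152) (nat_lit 430996761) (nat_lit 76) (nat_lit 19444826510) (nat_lit 37) (nat_lit 5) (nat_lit 39) (nat_lit 5) (nat_lit 38) (nat_lit 5) (nat_lit 355) (nat_lit 289) (nat_lit 256)) (XT.lf (nat_lit 0) (nat_lit 7738840766) (nat_lit 228) (nat_lit 4996526693) (nat_lit 76) (nat_lit 7924195367) (nat_lit 35) (nat_lit 5)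 (nat_lit 38) (nat_lit 5) (nat_lit 36) (nat_lit 4) (nat_lit 356) (nat_lit 289) (nat_lit 255)))) (XT.nd (nat_lit 78) (nat_lit 228) (nat_lit 0) (XT.lf (nat_lit 0) (nat_lit 11140991594) (nat_lit 76) (nat_lit 4661563384) (nat_lit 152) (nat_lit 5621019156) (nat_lit 34) (nat_lit 5) (nat_lit 35) (nat_lit 5) (nat_lit 36) (nat_lit 4) (nat_lit 357) (nat_lit 289) (nat_lit 254)) (XT.nd (nat_lit 78) (nat_lit 0) (nat_lit 0) (XT.lf (nat_lit 0) (nat_lit 2031867135) (nat_lit 228) (nat_lit 16418006275) (nat_lit 76) (nat_lit 3774498697) (nat_lit 31) (nat_lit 5) (nat_lit 34) (nat_lit 5) (nat_lit 32) (nat_lit 4) (nat_lit 358) (nat_lit 289) (nat_lit 253)) (XT.lf (nat_lit 0) (nat_lit 9991773871) (nat_lit 228) (nat_lit 463540255) (nat_lit 76) (nat_lit 12607024350) (nat_lit 31) (nat_lit 5) (nat_lit 34) (nat_lit 5) (nat_lit 32) (nat_lit 4) (nat_lit 359) (nat_lit 289) (nat_lit 252))))) (XT.nd (nat_lit 234) (nat_lit 152)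 (nat_lit 0) (XT.nd (nat_lit 78) (nat_lit 304) (nat_lit 0) (XT.lf (nat_lit 0) (nat_lit 16407571775) (nat_lit 76) (nat_lit 1990869834) (nat_lit 152) (nat_lit 5542314706) (nat_lit 30) (nat_lit 5) (nat_lit 31) (nat_lit 5) (nat_lit 32) (nat_lit 4) (nat_lit 360) (nat_lit 289) (nat_lit 251)) (XT.nd (nat_lit 78) (nat_lit 76) (nat_lit 0) (XT.lf (nat_lit 0) (nat_lit 2369647958) (nat_lit 228) (nat_lit 15700711647) (nat_lit 76) (nat_lit 6790467156) (nat_lit 27) (nat_lit 5) (nat_lit 30) (nat_lit 5) (nat_lit 28) (nat_lit 4) (nat_lit 361) (nat_lit 289) (nat_lit 250)) (XT.lf (nat_lit 0) (nat_lit 764828359) (nat_lit 76) (nat_lit 9800263682) (nat_lit 152) (nat_lit 15260101447) (nat_lit 26) (nat_lit 5) (nat_lit 27) (nat_lit 5) (nat_lit 28) (nat_lit 4) (nat_lit 362) (nat_lit 289) (nat_lit 249)))) (XT.nd (nat_lit 78) (nat_lit 152) (nat_lit 0) (XT.lf (nat_lit 0) (nat_lit 18193090373) (nat_lit 76) (nat_lit 1037676825)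 (nat_lit 152) (nat_lit 7605211110) (nat_lit 26) (nat_lit 5) (nat_lit 27) (nat_lit 5) (nat_lit 28) (nat_lit 4) (nat_lit 363) (nat_lit 289) (nat_lit 248)) (XT.nd (nat_lit 78) (nat_lit 0) (nat_lit 0) (XT.lf (nat_lit 0) (nat_lit 487633482) (nat_lit 152) (nat_lit 19399095197) (nat_lit 76) (nat_lit 8008552055) (nat_lit 24) (nat_lit 5) (nat_lit 26) (nat_lit 5) (nat_lit 25) (nat_lit 4) (nat_lit 364) (nat_lit 289) (nat_lit 247)) (XT.lf (nat_lit 0) (nat_lit 8834454758) (nat_lit 152) (nat_lit 2598639188) (nat_lit 76) (nat_lit 17572008614) (nat_lit 24) (nat_lit 5) (nat_lit 26) (nat_lit 5) (nat_lit 25) (nat_lit 4) (nat_lit 365) (nat_lit 289) (nat_lit 246))))))))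
noncomputable def xc30 : XT := (XT.nd (nat_lit 1794) (nat_lit 228) (nat_lit 0) (XT.nd (nat_lit 858) (nat_lit 456) (nat_lit 0) (XT.nd (nat_lit 390) (nat_lit 304) (nat_lit 0) (XT.nd (nat_lit 156) (nat_lit 152) (nat_lit 0) (XT.nd (nat_lit 78) (nat_lit 76) (nat_lit 0) (XT.lf (nat_lit 0) (nat_lit 15167849478) (nat_lit 76) (nat_lit 2485936399) (nat_lit 152) (nat_lit 12514985877) (nat_lit 23) (nat_lit 5) (nat_lit 24) (nat_lit 5) (nat_lit 25) (nat_lit 4) (nat_lit 366) (nat_lit 289) (nat_lit 245)) (XT.lf (nat_lit 0) (nat_lit 2298315365) (nat_lit 76) (nat_lit 24642639037) (nat_lit 76) (nat_lit 4448874681) (nat_lit 22) (nat_lit 4) (nat_lit 23) (nat_lit 5) (nat_lit 23) (nat_lit 4) (nat_lit 367) (nat_lit 289) (nat_lit 244))) (XT.nd (nat_lit 78) (nat_lit 76) (nat_lit 0) (XT.lf (nat_lit 0) (nat_lit 4036281693) (nat_lit 152) (nat_lit 12120539179) (nat_lit 76) (nat_lit 16511143109) (nat_lit 21) (nat_lit 5) (nat_lit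 23) (nat_lit 5) (nat_lit 22) (nat_lit 4) (nat_lit 368) (nat_lit 289) (nat_lit 243)) (XT.nd (nat_lit 78) (nat_lit 0) (nat_lit 0) (XT.lf (nat_lit 0) (nat_lit 5607352939) (nat_lit 76) (nat_lit 7218379087) (nat_lit 152) (nat_lit 21183800292) (nat_lit 20) (nat_lit 5) (nat_lit 21) (nat_lit 5) (nat_lit 22) (nat_lit 4) (nat_lit 369) (nat_lit 289) (nat_lit 242)) (XT.lf (nat_lit 0) (nat_lit 22120573869) (nat_lit 152) (nat_lit 11114978944) (nat_lit 0) (nat_lit 2180657746) (nat_lit 20) (nat_lit 5) (nat_lit 22) (nat_lit 4) (nat_lit 20) (nat_lit 4) (nat_lit 370) (nat_lit 289) (nat_lit 241))))) (XT.nd (nat_lit 234) (nat_lit 76) (nat_lit 0) (XT.nd (nat_lit 78) (nat_lit 152) (nat_lit 0) (XT.lf (nat_lit 0) (nat_lit 6953313102) (nat_lit 76) (nat_lit 24989477245) (nat_lit 76) (nat_lit 4948562017) (nat_lit 19) (nat_lit 4) (nat_lit 20) (nat_lit 5) (nat_lit 20) (nat_lit 4) (nat_lit 371) (nat_lit 289) (nat_lit 240))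 (XT.nd (nat_lit 78) (nat_lit 76) (nat_lit 0) (XT.lf (nat_lit 0) (nat_lit 3781450410) (nat_lit 152) (nat_lit 12460760517) (nat_lit 76) (nat_lit 22195746535) (nat_lit 18) (nat_lit 5) (nat_lit 20) (nat_lit 5) (nat_lit 19) (nat_lit 4) (nat_lit 372) (nat_lit 289) (nat_lit 239)) (XT.lf (nat_lit 0) (nat_lit 5817363663) (nat_lit 76) (nat_lit 7013216474) (nat_lit 152) (nat_lit 27230301590) (nat_lit 17) (nat_lit 5) (nat_lit 18) (nat_lit 5) (nat_lit 19) (nat_lit 4) (nat_lit 373) (nat_lit 289) (nat_lit 238)))) (XT.nd (nat_lit 78) (nat_lit 76) (nat_lit 0) (XT.lf (nat_lit 0) (nat_lit 22417077401) (nat_lit 152) (nat_lit 16652491132) (nat_lit 0) (nat_lit 2692843576) (nat_lit 17) (nat_lit 5) (nat_lit 19) (nat_lit 4) (nat_lit 17) (nat_lit 4) (nat_lit 374) (nat_lit 289) (nat_lit 237)) (XT.nd (nat_lit 78) (nat_lit 0) (nat_lit 0) (XT.lf (nat_lit 0) (nat_lit 1651752478) (nat_lit 76) (nat_lit 30850794932) (nat_lit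 76) (nat_lit 11045889055) (nat_lit 16) (nat_lit 4) (nat_lit 17) (nat_lit 5) (nat_lit 17) (nat_lit 4) (nat_lit 375) (nat_lit 289) (nat_lit 236)) (XT.lf (nat_lit 0) (nat_lit 21095078934) (nat_lit 76) (nat_lit 22103616959) (nat_lit 76) (nat_lit 2221880557) (nat_lit 16) (nat_lit 4) (nat_lit 17) (nat_lit 5) (nat_lit 17) (nat_lit 4) (nat_lit 376) (nat_lit 289) (nat_lit 235)))))) (XT.nd (nat_lit 468) (nat_lit 152) (nat_lit 0) (XT.nd (nat_lit 234) (nat_lit 152) (nat_lit 0) (XT.nd (nat_lit 78) (nat_lit 76) (nat_lit 0) (XT.lf (nat_lit 0) (nat_lit 6843346800) (nat_lit 152) (nat_lit 6062914326) (nat_lit 76) (nat_lit 34479913460) (nat_lit 15) (nat_lit 5) (nat_lit 17) (nat_lit 5) (nat_lit 16) (nat_lit 4) (nat_lit 377) (nat_lit 289) (nat_lit 234)) (XT.nd (nat_lit 78) (nat_lit 0) (nat_lit 0) (XT.lf (nat_lit 0) (nat_lit 13234862529) (nat_lit 76) (nat_lit 3149107131) (nat_lit 152) (nat_lit 33063386202) (nat_lit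 14) (nat_lit 5) (nat_lit 15) (nat_lit 5) (nat_lit 16) (nat_lit 4) (nat_lit 378) (nat_lit 289) (nat_lit 233)) (XT.lf (nat_lit 0) (nat_lit 26474568690) (nat_lit 152) (nat_lit 18166067218) (nat_lit 0) (nat_lit 6968777448) (nat_lit 14) (nat_lit 5) (nat_lit 16) (nat_lit 4) (nat_lit 14) (nat_lit 4) (nat_lit 379) (nat_lit 289) (nat_lit 232)))) (XT.nd (nat_lit 78) (nat_lit 76) (nat_lit 0) (XT.lf (nat_lit 0) (nat_lit 657302246) (nat_lit 76) (nat_lit 36394979044) (nat_lit 76) (nat_lit 16827820167) (nat_lit 13) (nat_lit 4) (nat_lit 14) (nat_lit 5) (nat_lit 14) (nat_lit 4) (nat_lit 380) (nat_lit 289) (nat_lit 231)) (XT.nd (nat_lit 78) (nat_lit 76) (nat_lit 0) (XT.lf (nat_lit 0) (nat_lit 20698088464) (nat_lit 76) (nat_lit 27593925353) (nat_lit 76) (nat_lit 7968321110) (nat_lit 13) (nat_lit 4) (nat_lit 14) (nat_lit 5) (nat_lit 14) (nat_lit 4) (nat_lit 381) (nat_lit 289) (nat_lit 230)) (XT.lf (nat_lit 0) (nat_lit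 1256302018) (nat_lit 152) (nat_lit 17130973399) (nat_lit 76) (nat_lit 40373479031) (nat_lit 12) (nat_lit 5) (nat_lit 14) (nat_lit 5) (nat_lit 13) (nat_lit 4) (nat_lit 382) (nat_lit 289) (nat_lit 229))))) (XT.nd (nat_lit 234) (nat_lit 76) (nat_lit 0) (XT.nd (nat_lit 78) (nat_lit 0) (nat_lit 0) (XT.lf (nat_lit 0) (nat_lit 2087424941) (nat_lit 76) (nat_lit 8662182500) (nat_lit 152) (nat_lit 50635057623) (nat_lit 11) (nat_lit 5) (nat_lit 12) (nat_lit 5) (nat_lit 13) (nat_lit 4) (nat_lit 383) (nat_lit 289) (nat_lit 228)) (XT.nd (nat_lit 78) (nat_lit 0) (nat_lit 0) (XT.lf (nat_lit 0) (nat_lit 20862255617) (nat_lit 152) (nat_lit 41619434007) (nat_lit 0) (nat_lit 1653745451) (nat_lit 11) (nat_lit 5) (nat_lit 13) (nat_lit 4) (nat_lit 11) (nat_lit 4) (nat_lit 384) (nat_lit 289) (nat_lit 227)) (XT.lf (nat_lit 0) (nat_lit 31521957784) (nat_lit 152) (nat_lit 23233782192) (nat_lit 0) (nat_lit 12266764951)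 (nat_lit 11) (nat_lit 5) (nat_lit 13) (nat_lit 4) (nat_lit 11) (nat_lit 4) (nat_lit 385) (nat_lit 289) (nat_lit 226)))) (XT.nd (nat_lit 78) (nat_lit 76) (nat_lit 0) (XT.lf (nat_lit 0) (nat_lit 42670827989) (nat_lit 152) (nat_lit 4013243119) (nat_lit 0) (nat_lit 23371175473) (nat_lit 11) (nat_lit 5) (nat_lit 13) (nat_lit 4) (nat_lit 11) (nat_lit 4) (nat_lit 386) (nat_lit 289) (nat_lit 225)) (XT.nd (nat_lit 78) (nat_lit 0) (nat_lit 0) (XT.lf (nat_lit 0) (nat_lit 16408128077) (nat_lit 76) (nat_lit 38085008048) (nat_lit 76) (nat_lit 18743012977) (nat_lit 10) (nat_lit 4) (nat_lit 11) (nat_lit 5) (nat_lit 11) (nat_lit 4) (nat_lit 387) (nat_lit 289) (nat_lit 224)) (XT.lf (nat_lit 0) (nat_lit 37856360279) (nat_lit 76) (nat_lit 29051018330) (nat_lit 76) (nat_lit 9668697015) (nat_lit 10) (nat_lit 4) (nat_lit 11) (nat_lit 5) (nat_lit 11) (nat_lit 4) (nat_lit 388) (nat_lit 289) (nat_lit 223))))))) (XT.nd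 (nat_lit 41886) (nat_lit 0) (nat_lit 6004) (XT.nd (nat_lit 468) (nat_lit 76) (nat_lit 0) (XT.nd (nat_lit 234) (nat_lit 0) (nat_lit 0) (XT.nd (nat_lit 78) (nat_lit 152) (nat_lit 0) (XT.lf (nat_lit 0) (nat_lit 60302649300) (nat_lit 76) (nat_lit 19601118341) (nat_lit 76) (nat_lit 180391080) (nat_lit 10) (nat_lit 4) (nat_lit 11) (nat_lit 5) (nat_lit 11) (nat_lit 4) (nat_lit 389) (nat_lit 289) (nat_lit 222)) (XT.nd (nat_lit 78) (nat_lit 76) (nat_lit 0) (XT.lf (nat_lit 0) (nat_lit 9554345816) (nat_lit 152) (nat_lit 61982344) (nat_lit 76) (nat_lit 74149612710) (nat_lit 9) (nat_lit 5) (nat_lit 11) (nat_lit 5) (nat_lit 10) (nat_lit 4) (nat_lit 390) (nat_lit 289) (nat_lit 221)) (XT.lf (nat_lit 0) (nat_lit 19948536075) (nat_lit 152) (nat_lit 66653803317) (nat_lit 0) (nat_lit 1024128622) (nat_lit 8) (nat_lit 5) (nat_lit 10) (nat_lit 4) (nat_lit 8) (nat_lit 4) (nat_lit 391) (nat_lit 289) (nat_lit 220))))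 (XT.nd (nat_lit 78) (nat_lit 0) (nat_lit 0) (XT.lf (nat_lit 0) (nat_lit 30925550076) (nat_lit 152) (nat_lit 48783648335) (nat_lit 0) (nat_lit 11968932429) (nat_lit 8) (nat_lit 5) (nat_lit 10) (nat_lit 4) (nat_lit 8) (nat_lit 4) (nat_lit 392) (nat_lit 289) (nat_lit 219)) (XT.nd (nat_lit 78) (nat_lit 0) (nat_lit 0) (XT.lf (nat_lit 0) (nat_lit 42418471851) (nat_lit 152) (nat_lit 30083718035) (nat_lit 0) (nat_lit 23431177828) (nat_lit 8) (nat_lit 5) (nat_lit 10) (nat_lit 4) (nat_lit 8) (nat_lit 4) (nat_lit 393) (nat_lit 289) (nat_lit 218)) (XT.lf (nat_lit 0) (nat_lit 54454665500) (nat_lit 152) (nat_lit 10509488773) (nat_lit 0) (nat_lit 35438155882) (nat_lit 8) (nat_lit 5) (nat_lit 10) (nat_lit 4) (nat_lit 8) (nat_lit 4) (nat_lit 394) (nat_lit 289) (nat_lit 217))))) (XT.nd (nat_lit 41184) (nat_lit 0) (nat_lit 11324) (XT.nd (nat_lit 41028) (nat_lit 0) (nat_lit 12844) (XT.lf (nat_lit 0) (nat_lit 10184378667)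 (nat_lit 76) (nat_lit 56976308438) (nat_lit 76) (nat_lit 37931974442) (nat_lit 7) (nat_lit 4) (nat_lit 8) (nat_lit 5) (nat_lit 8) (nat_lit 4) (nat_lit 395) (nat_lit 289) (nat_lit 216)) (XT.nd (nat_lit 78) (nat_lit 1064) (nat_lit 0) (XT.lf (nat_lit 0) (nat_lit 1734933384) (nat_lit 608) (nat_lit 361076920) (nat_lit 0) (nat_lit 1734933384) (nat_lit 190) (nat_lit 5) (nat_lit 198) (nat_lit 4) (nat_lit 190) (nat_lit 4) (nat_lit 320) (nat_lit 290) (nat_lit 290)) (XT.lf (nat_lit 0) (nat_lit 1174875119) (nat_lit 456) (nat_lit 508444201) (nat_lit 532) (nat_lit 6108762408) (nat_lit 176) (nat_lit 5) (nat_lit 182) (nat_lit 5) (nat_lit 183) (nat_lit 4) (nat_lit 321) (nat_lit 290) (nat_lit 289)))) (XT.nd (nat_lit 78) (nat_lit 1064) (nat_lit 0) (XT.lf (nat_lit 0) (nat_lit 3136456058) (nat_lit 456) (nat_lit 4522356798) (nat_lit 456) (nat_lit 272112360) (nat_lit 170) (nat_lit 4) (nat_lit 176) (nat_lit 5) (nat_lit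 176) (nat_lit 4) (nat_lit 322) (nat_lit 290) (nat_lit 288)) (XT.nd (nat_lit 78) (nat_lit 532) (nat_lit 0) (XT.lf (nat_lit 0) (nat_lit 5158274904) (nat_lit 456) (nat_lit 449154267) (nat_lit 532) (nat_lit 2471796470) (nat_lit 163) (nat_lit 5) (nat_lit 169) (nat_lit 5) (nat_lit 170) (nat_lit 4) (nat_lit 323) (nat_lit 290) (nat_lit 287)) (XT.lf (nat_lit 0) (nat_lit 3377259800) (nat_lit 532) (nat_lit 1013426133) (nat_lit 76) (nat_lit 3846128131) (nat_lit 156) (nat_lit 5) (nat_lit 163) (nat_lit 5) (nat_lit 157) (nat_lit 4) (nat_lit 324) (nat_lit 290) (nat_lit 286)))))) (XT.nd (nat_lit 468) (nat_lit 2128) (nat_lit 0) (XT.nd (nat_lit 234) (nat_lit 1444) (nat_lit 0) (XT.nd (nat_lit 78) (nat_lit 836) (nat_lit 0) (XT.lf (nat_lit 0) (nat_lit 936128018) (nat_lit 532) (nat_lit 7427897716) (nat_lit 76) (nat_lit 40629611) (nat_lit 144) (nat_lit 5) (nat_lit 151) (nat_lit 5) (nat_lit 145) (nat_lit 4) (nat_lit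 325) (nat_lit 290) (nat_lit 285)) (XT.nd (nat_lit 78) (nat_lit 456) (nat_lit 0) (XT.lf (nat_lit 0) (nat_lit 2992591362) (nat_lit 380) (nat_lit 3868795604) (nat_lit 456) (nat_lit 1719982755) (nat_lit 139) (nat_lit 5) (nat_lit 144) (nat_lit 5) (nat_lit 145) (nat_lit 4) (nat_lit 326) (nat_lit 290) (nat_lit 284)) (XT.lf (nat_lit 0) (nat_lit 4131947653) (nat_lit 456) (nat_lit 3716271992) (nat_lit 76) (nat_lit 920573445) (nat_lit 133) (nat_lit 5) (nat_lit 139) (nat_lit 5) (nat_lit 134) (nat_lit 4) (nat_lit 327) (nat_lit 290) (nat_lit 283)))) (XT.nd (nat_lit 78) (nat_lit 1064) (nat_lit 0) (XT.lf (nat_lit 0) (nat_lit 1189036799) (nat_lit 380) (nat_lit 1833794573) (nat_lit 76) (nat_lit 5943848236) (nat_lit 128) (nat_lit 5) (nat_lit 133) (nat_lit 5) (nat_lit 129) (nat_lit 5) (nat_lit 328) (nat_lit 290) (nat_lit 282)) (XT.nd (nat_lit 78) (nat_lit 380) (nat_lit 0) (XT.lf (nat_lit 0) (nat_lit 54930549) (nat_lit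 304) (nat_lit 7083121514) (nat_lit 380) (nat_lit 2037307596) (nat_lit 119) (nat_lit 5) (nat_lit 123) (nat_lit 5) (nat_lit 124) (nat_lit 4) (nat_lit 329) (nat_lit 290) (nat_lit 281)) (XT.lf (nat_lit 0) (nat_lit 1976961516) (nat_lit 304) (nat_lit 1896419712) (nat_lit 380) (nat_lit 5521206317) (nat_lit 114) (nat_lit 5) (nat_lit 118) (nat_lit 5) (nat_lit 119) (nat_lit 5) (nat_lit 330) (nat_lit 290) (nat_lit 280))))) (XT.nd (nat_lit 234) (nat_lit 1140) (nat_lit 0) (XT.nd (nat_lit 78) (nat_lit 608) (nat_lit 0) (XT.lf (nat_lit 0) (nat_lit 357858086) (nat_lit 380) (nat_lit 5726354270) (nat_lit 76) (nat_lit 3541354215) (nat_lit 109) (nat_lit 5) (nat_lit 114) (nat_lit 5) (nat_lit 110) (nat_lit 5) (nat_lit 331) (nat_lit 290) (nat_lit 279)) (XT.nd (nat_lit 78) (nat_lit 304) (nat_lit 0) (XT.lf (nat_lit 0) (nat_lit 5797844530) (nat_lit 304) (nat_lit 563324445) (nat_lit 380) (nat_lit 3507039602) (nat_lit 105)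 (nat_lit 5) (nat_lit 109) (nat_lit 5) (nat_lit 110) (nat_lit 5) (nat_lit 332) (nat_lit 290) (nat_lit 278)) (XT.lf (nat_lit 0) (nat_lit 2473044589) (nat_lit 304) (nat_lit 2459049351) (nat_lit 76) (nat_lit 5190808154) (nat_lit 101) (nat_lit 5) (nat_lit 105) (nat_lit 5) (nat_lit 102) (nat_lit 5) (nat_lit 333) (nat_lit 290) (nat_lit 277)))) (XT.nd (nat_lit 78) (nat_lit 836) (nat_lit 0) (XT.lf (nat_lit 0) (nat_lit 8630733272) (nat_lit 380) (nat_lit 876892507) (nat_lit 76) (nat_lit 883206723) (nat_lit 97) (nat_lit 5) (nat_lit 102) (nat_lit 5) (nat_lit 98) (nat_lit 4) (nat_lit 334) (nat_lit 290) (nat_lit 276)) (XT.nd (nat_lit 78) (nat_lit 228) (nat_lit 0) (XT.lf (nat_lit 0) (nat_lit 635883428) (nat_lit 304) (nat_lit 3700098795) (nat_lit 380) (nat_lit 6335028367) (nat_lit 89) (nat_lit 5) (nat_lit 93) (nat_lit 5) (nat_lit 94) (nat_lit 5) (nat_lit 335) (nat_lit 290) (nat_lit 275)) (XT.lf (nat_lit 0) (nat_lit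 2122709381) (nat_lit 228) (nat_lit 8556474019) (nat_lit 304) (nat_lit 286198418) (nat_lit 86) (nat_lit 5) (nat_lit 89) (nat_lit 5) (nat_lit 90) (nat_lit 4) (nat_lit 336) (nat_lit 290) (nat_lit 274))))))))
noncomputable def xc31 : XT := (XT.nd (nat_lit 1872) (nat_lit 1444) (nat_lit 0) (XT.nd (nat_lit 936) (nat_lit 1596) (nat_lit 0) (XT.nd (nat_lit 468) (nat_lit 1140) (nat_lit 0) (XT.nd (nat_lit 234) (nat_lit 684) (nat_lit 0) (XT.nd (nat_lit 78) (nat_lit 532) (nat_lit 0) (XT.lf (nat_lit 0) (nat_lit 3499083332) (nat_lit 228) (nat_lit 2435725198) (nat_lit 304) (nat_lit 5338334818) (nat_lit 82) (nat_lit 5) (nat_lit 85) (nat_lit 5) (nat_lit 86) (nat_lit 5) (nat_lit 337) (nat_lit 290) (nat_lit 273)) (XT.nd (nat_lit 78) (nat_lit 228) (nat_lit 0) (XT.lf (nat_lit 0) (nat_lit 842139767) (nat_lit 304) (nat_lit 6799078533) (nat_lit 76) (nat_lit 3954970631) (nat_lit 78) (nat_lit 5) (nat_lit 82) (nat_lit 5)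 (nat_lit 79) (nat_lit 5) (nat_lit 338) (nat_lit 290) (nat_lit 272)) (XT.lf (nat_lit 0) (nat_lit 5973316321) (nat_lit 228) (nat_lit 1233729864) (nat_lit 304) (nat_lit 4727236390) (nat_lit 75) (nat_lit 5) (nat_lit 78) (nat_lit 5) (nat_lit 79) (nat_lit 5) (nat_lit 339) (nat_lit 290) (nat_lit 271)))) (XT.nd (nat_lit 78) (nat_lit 456) (nat_lit 0) (XT.lf (nat_lit 0) (nat_lit 1587617713) (nat_lit 228) (nat_lit 5267465217) (nat_lit 76) (nat_lit 5433249702) (nat_lit 72) (nat_lit 5) (nat_lit 75) (nat_lit 5) (nat_lit 73) (nat_lit 5) (nat_lit 340) (nat_lit 290) (nat_lit 270)) (XT.nd (nat_lit 78) (nat_lit 228) (nat_lit 0) (XT.lf (nat_lit 0) (nat_lit 7930739424) (nat_lit 228) (nat_lit 171823280) (nat_lit 304) (nat_lit 4556704073) (nat_lit 69) (nat_lit 5) (nat_lit 72) (nat_lit 5) (nat_lit 73) (nat_lit 5) (nat_lit 341) (nat_lit 290) (nat_lit 269)) (XT.lf (nat_lit 0) (nat_lit 1896796745) (nat_lit 228) (nat_lit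 4388636439) (nat_lit 76) (nat_lit 6761635817) (nat_lit 66) (nat_lit 5) (nat_lit 69) (nat_lit 5) (nat_lit 67) (nat_lit 5) (nat_lit 342) (nat_lit 290) (nat_lit 268))))) (XT.nd (nat_lit 234) (nat_lit 532) (nat_lit 0) (XT.nd (nat_lit 78) (nat_lit 380) (nat_lit 0) (XT.lf (nat_lit 0) (nat_lit 8564080004) (nat_lit 304) (nat_lit 4240010574) (nat_lit 76) (nat_lit 649300156) (nat_lit 63) (nat_lit 5) (nat_lit 67) (nat_lit 5) (nat_lit 64) (nat_lit 4) (nat_lit 343) (nat_lit 290) (nat_lit 267)) (XT.nd (nat_lit 78) (nat_lit 152) (nat_lit 0) (XT.lf (nat_lit 0) (nat_lit 1695890103) (nat_lit 228) (nat_lit 4332530201) (nat_lit 76) (nat_lit 7849840469) (nat_lit 60) (nat_lit 5) (nat_lit 63) (nat_lit 5) (nat_lit 61) (nat_lit 5) (nat_lit 344) (nat_lit 290) (nat_lit 266)) (XT.lf (nat_lit 0) (nat_lit 8504472412) (nat_lit 228) (nat_lit 4673428522) (nat_lit 76) (nat_lit 1145202033) (nat_lit 58) (nat_lit 5) (nat_lit 61)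 (nat_lit 5) (nat_lit 59) (nat_lit 4) (nat_lit 345) (nat_lit 290) (nat_lit 265)))) (XT.nd (nat_lit 78) (nat_lit 304) (nat_lit 0) (XT.lf (nat_lit 0) (nat_lit 894016926) (nat_lit 228) (nat_lit 5300581917) (nat_lit 76) (nat_lit 8593947723) (nat_lit 55) (nat_lit 5) (nat_lit 58) (nat_lit 5) (nat_lit 56) (nat_lit 5) (nat_lit 346) (nat_lit 290) (nat_lit 264)) (XT.nd (nat_lit 78) (nat_lit 152) (nat_lit 0) (XT.lf (nat_lit 0) (nat_lit 7823595211) (nat_lit 228) (nat_lit 6246427594) (nat_lit 76) (nat_lit 1205495703) (nat_lit 53) (nat_lit 5) (nat_lit 56) (nat_lit 5) (nat_lit 54) (nat_lit 4) (nat_lit 347) (nat_lit 290) (nat_lit 263)) (XT.lf (nat_lit 0) (nat_lit 8247493317) (nat_lit 152) (nat_lit 6905862716) (nat_lit 228) (nat_lit 631903873) (nat_lit 51) (nat_lit 5) (nat_lit 53) (nat_lit 5) (nat_lit 54) (nat_lit 4) (nat_lit 348) (nat_lit 290) (nat_lit 262)))))) (XT.nd (nat_lit 468) (nat_lit 684) (nat_lit 0)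 (XT.nd (nat_lit 234) (nat_lit 304) (nat_lit 0) (XT.nd (nat_lit 78) (nat_lit 380) (nat_lit 0) (XT.lf (nat_lit 0) (nat_lit 6401667512) (nat_lit 228) (nat_lit 9219135486) (nat_lit 76) (nat_lit 697833353) (nat_lit 48) (nat_lit 5) (nat_lit 51) (nat_lit 5) (nat_lit 49) (nat_lit 4) (nat_lit 349) (nat_lit 290) (nat_lit 261)) (XT.nd (nat_lit 78) (nat_lit 228) (nat_lit 0) (XT.lf (nat_lit 0) (nat_lit 5538178065) (nat_lit 152) (nat_lit 8300328597) (nat_lit 228) (nat_lit 3038075676) (nat_lit 46) (nat_lit 5) (nat_lit 48) (nat_lit 5) (nat_lit 49) (nat_lit 4) (nat_lit 350) (nat_lit 290) (nat_lit 260)) (XT.lf (nat_lit 0) (nat_lit 3556090369) (nat_lit 152) (nat_lit 543179309) (nat_lit 228) (nat_lit 13362090162) (nat_lit 43) (nat_lit 5) (nat_lit 45) (nat_lit 5) (nat_lit 46) (nat_lit 5) (nat_lit 351) (nat_lit 290) (nat_lit 259)))) (XT.nd (nat_lit 78) (nat_lit 228) (nat_lit 0) (XT.lf (nat_lit 0) (nat_lit 1041133350)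 (nat_lit 76) (nat_lit 10560364439) (nat_lit 152) (nat_lit 6470875395) (nat_lit 42) (nat_lit 5) (nat_lit 43) (nat_lit 5) (nat_lit 44) (nat_lit 4) (nat_lit 352) (nat_lit 290) (nat_lit 258)) (XT.nd (nat_lit 78) (nat_lit 152) (nat_lit 0) (XT.lf (nat_lit 0) (nat_lit 772079040) (nat_lit 152) (nat_lit 1928966497) (nat_lit 76) (nat_lit 16012030852) (nat_lit 41) (nat_lit 5) (nat_lit 43) (nat_lit 5) (nat_lit 42) (nat_lit 5) (nat_lit 353) (nat_lit 290) (nat_lit 257)) (XT.lf (nat_lit 0) (nat_lit 8310907058) (nat_lit 228) (nat_lit 5522801555) (nat_lit 76) (nat_lit 5548179325) (nat_lit 39) (nat_lit 5) (nat_lit 42) (nat_lit 5) (nat_lit 40) (nat_lit 4) (nat_lit 354) (nat_lit 290) (nat_lit 256))))) (XT.nd (nat_lit 234) (nat_lit 304) (nat_lit 0) (XT.nd (nat_lit 78) (nat_lit 304) (nat_lit 0) (XT.lf (nat_lit 0) (nat_lit 10351966088) (nat_lit 76) (nat_lit 5902528490) (nat_lit 152) (nat_lit 3828831736) (nat_lit 38)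 (nat_lit 5) (nat_lit 39) (nat_lit 5) (nat_lit 40) (nat_lit 4) (nat_lit 355) (nat_lit 290) (nat_lit 255)) (XT.nd (nat_lit 78) (nat_lit 76) (nat_lit 0) (XT.lf (nat_lit 0) (nat_lit 3726060398) (nat_lit 228) (nat_lit 14653023719) (nat_lit 76) (nat_lit 2438953735) (nat_lit 35) (nat_lit 5) (nat_lit 38) (nat_lit 5) (nat_lit 36) (nat_lit 4) (nat_lit 356) (nat_lit 290) (nat_lit 254)) (XT.lf (nat_lit 0) (nat_lit 1188594292) (nat_lit 76) (nat_lit 10449978645) (nat_lit 152) (nat_lit 9948021205) (nat_lit 34) (nat_lit 5) (nat_lit 35) (nat_lit 5) (nat_lit 36) (nat_lit 4) (nat_lit 357) (nat_lit 290) (nat_lit 253)))) (XT.nd (nat_lit 78) (nat_lit 304) (nat_lit 0) (XT.lf (nat_lit 0) (nat_lit 17926003109) (nat_lit 76) (nat_lit 2061179587) (nat_lit 152) (nat_lit 2405198841) (nat_lit 34) (nat_lit 5) (nat_lit 35) (nat_lit 5) (nat_lit 36) (nat_lit 4) (nat_lit 358) (nat_lit 290) (nat_lit 252)) (XT.nd (nat_lit 78) (nat_lit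 76) (nat_lit 0) (XT.lf (nat_lit 0) (nat_lit 5484458830) (nat_lit 228) (nat_lit 11049299980) (nat_lit 76) (nat_lit 6700806061) (nat_lit 31) (nat_lit 5) (nat_lit 34) (nat_lit 5) (nat_lit 32) (nat_lit 4) (nat_lit 359) (nat_lit 290) (nat_lit 251)) (XT.lf (nat_lit 0) (nat_lit 5515778881) (nat_lit 76) (nat_lit 8220031713) (nat_lit 152) (nat_lit 10381839088) (nat_lit 30) (nat_lit 5) (nat_lit 31) (nat_lit 5) (nat_lit 32) (nat_lit 4) (nat_lit 360) (nat_lit 290) (nat_lit 250))))))) (XT.nd (nat_lit 936) (nat_lit 608) (nat_lit 0) (XT.nd (nat_lit 468) (nat_lit 304) (nat_lit 0) (XT.nd (nat_lit 234) (nat_lit 228) (nat_lit 0) (XT.nd (nat_lit 78) (nat_lit 304) (nat_lit 0) (XT.lf (nat_lit 0) (nat_lit 22418058938) (nat_lit 152) (nat_lit 2095871002) (nat_lit 0) (nat_lit 530423546) (nat_lit 30) (nat_lit 5) (nat_lit 32) (nat_lit 4) (nat_lit 30) (nat_lit 4) (nat_lit 361) (nat_lit 290) (nat_lit 249)) (XT.nd (nat_lit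 78) (nat_lit 76) (nat_lit 0) (XT.lf (nat_lit 0) (nat_lit 5543830097) (nat_lit 228) (nat_lit 10796718849) (nat_lit 76) (nat_lit 9671232269) (nat_lit 27) (nat_lit 5) (nat_lit 30) (nat_lit 5) (nat_lit 28) (nat_lit 4) (nat_lit 362) (nat_lit 290) (nat_lit 248)) (XT.lf (nat_lit 0) (nat_lit 6329023300) (nat_lit 76) (nat_lit 7727632418) (nat_lit 152) (nat_lit 12970502085) (nat_lit 26) (nat_lit 5) (nat_lit 27) (nat_lit 5) (nat_lit 28) (nat_lit 4) (nat_lit 363) (nat_lit 290) (nat_lit 247)))) (XT.nd (nat_lit 78) (nat_lit 228) (nat_lit 0) (XT.lf (nat_lit 0) (nat_lit 23027491827) (nat_lit 152) (nat_lit 3740163402) (nat_lit 0) (nat_lit 1324689181) (nat_lit 26) (nat_lit 5) (nat_lit 28) (nat_lit 4) (nat_lit 26) (nat_lit 4) (nat_lit 364) (nat_lit 290) (nat_lit 246)) (XT.nd (nat_lit 78) (nat_lit 76) (nat_lit 0) (XT.lf (nat_lit 0) (nat_lit 3299559244) (nat_lit 152) (nat_lit 15141450884) (nat_lit 76) (nat_lit 10765059521)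 (nat_lit 24) (nat_lit 5) (nat_lit 26) (nat_lit 5) (nat_lit 25) (nat_lit 4) (nat_lit 365) (nat_lit 290) (nat_lit 245)) (XT.lf (nat_lit 0) (nat_lit 2294875930) (nat_lit 76) (nat_lit 9658165210) (nat_lit 152) (nat_lit 18421678449) (nat_lit 23) (nat_lit 5) (nat_lit 24) (nat_lit 5) (nat_lit 25) (nat_lit 4) (nat_lit 366) (nat_lit 290) (nat_lit 244))))) (XT.nd (nat_lit 234) (nat_lit 152) (nat_lit 0) (XT.nd (nat_lit 78) (nat_lit 152) (nat_lit 0) (XT.lf (nat_lit 0) (nat_lit 20762195280) (nat_lit 76) (nat_lit 349150693) (nat_lit 152) (nat_lit 10488301874) (nat_lit 23) (nat_lit 5) (nat_lit 24) (nat_lit 5) (nat_lit 25) (nat_lit 4) (nat_lit 367) (nat_lit 290) (nat_lit 243)) (XT.nd (nat_lit 78) (nat_lit 76) (nat_lit 0) (XT.lf (nat_lit 0) (nat_lit 7164790130) (nat_lit 76) (nat_lit 23641844704) (nat_lit 76) (nat_lit 2076825416) (nat_lit 22) (nat_lit 4) (nat_lit 23) (nat_lit 5) (nat_lit 23) (nat_lit 4) (nat_lit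 368) (nat_lit 290) (nat_lit 242)) (XT.lf (nat_lit 0) (nat_lit 6660824440) (nat_lit 152) (nat_lit 8152776204) (nat_lit 76) (nat_lit 19414801077) (nat_lit 21) (nat_lit 5) (nat_lit 23) (nat_lit 5) (nat_lit 22) (nat_lit 4) (nat_lit 369) (nat_lit 290) (nat_lit 241)))) (XT.nd (nat_lit 78) (nat_lit 76) (nat_lit 0) (XT.lf (nat_lit 0) (nat_lit 10330403749) (nat_lit 76) (nat_lit 5486681297) (nat_lit 152) (nat_lit 19822156561) (nat_lit 20) (nat_lit 5) (nat_lit 21) (nat_lit 5) (nat_lit 22) (nat_lit 4) (nat_lit 370) (nat_lit 290) (nat_lit 240)) (XT.nd (nat_lit 78) (nat_lit 76) (nat_lit 0) (XT.lf (nat_lit 0) (nat_lit 25483918688) (nat_lit 152) (nat_lit 7391361246) (nat_lit 0) (nat_lit 4243768971) (nat_lit 20) (nat_lit 5) (nat_lit 22) (nat_lit 4) (nat_lit 20) (nat_lit 4) (nat_lit 371) (nat_lit 290) (nat_lit 239)) (XT.lf (nat_lit 0) (nat_lit 11457678216) (nat_lit 76) (nat_lit 24272033267) (nat_lit 76) (nat_lit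 2940274385) (nat_lit 19) (nat_lit 4) (nat_lit 20) (nat_lit 5) (nat_lit 20) (nat_lit 4) (nat_lit 372) (nat_lit 290) (nat_lit 238)))))) (XT.nd (nat_lit 468) (nat_lit 304) (nat_lit 0) (XT.nd (nat_lit 234) (nat_lit 152) (nat_lit 0) (XT.nd (nat_lit 78) (nat_lit 76) (nat_lit 0) (XT.lf (nat_lit 0) (nat_lit 6076902544) (nat_lit 152) (nat_lit 9082893541) (nat_lit 76) (nat_lit 25136645334) (nat_lit 18) (nat_lit 5) (nat_lit 20) (nat_lit 5) (nat_lit 19) (nat_lit 4) (nat_lit 373) (nat_lit 290) (nat_lit 237)) (XT.nd (nat_lit 78) (nat_lit 0) (nat_lit 0) (XT.lf (nat_lit 0) (nat_lit 9994451710) (nat_lit 76) (nat_lit 5521089978) (nat_lit 152) (nat_lit 26486869216) (nat_lit 17) (nat_lit 5) (nat_lit 18) (nat_lit 5) (nat_lit 19) (nat_lit 4) (nat_lit 374) (nat_lit 290) (nat_lit 236)) (XT.lf (nat_lit 0) (nat_lit 25500927980) (nat_lit 152) (nat_lit 13742238761) (nat_lit 0) (nat_lit 4548274232) (nat_lit 17) (nat_lit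 5) (nat_lit 19) (nat_lit 4) (nat_lit 17) (nat_lit 4) (nat_lit 375) (nat_lit 290) (nat_lit 235)))) (XT.nd (nat_lit 78) (nat_lit 76) (nat_lit 0) (XT.lf (nat_lit 0) (nat_lit 5369928213) (nat_lit 76) (nat_lit 30662214739) (nat_lit 76) (nat_lit 9636389062) (nat_lit 16) (nat_lit 4) (nat_lit 17) (nat_lit 5) (nat_lit 17) (nat_lit 4) (nat_lit 376) (nat_lit 290) (nat_lit 234)) (XT.nd (nat_lit 78) (nat_lit 76) (nat_lit 0) (XT.lf (nat_lit 0) (nat_lit 25612297748) (nat_lit 76) (nat_lit 21560112151) (nat_lit 76) (nat_lit 464598922) (nat_lit 16) (nat_lit 4) (nat_lit 17) (nat_lit 5) (nat_lit 17) (nat_lit 4) (nat_lit 377) (nat_lit 290) (nat_lit 233)) (XT.lf (nat_lit 0) (nat_lit 8930196925) (nat_lit 152) (nat_lit 3033582566) (nat_lit 76) (nat_lit 37739194062) (nat_lit 15) (nat_lit 5) (nat_lit 17) (nat_lit 5) (nat_lit 16) (nat_lit 4) (nat_lit 378) (nat_lit 290) (nat_lit 232))))) (XT.nd (nat_lit 234) (nat_lit 152)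 (nat_lit 0) (XT.nd (nat_lit 78) (nat_lit 76) (nat_lit 0) (XT.lf (nat_lit 0) (nat_lit 17133558333) (nat_lit 76) (nat_lit 1762328031) (nat_lit 152) (nat_lit 32972894526) (nat_lit 14) (nat_lit 5) (nat_lit 15) (nat_lit 5) (nat_lit 16) (nat_lit 4) (nat_lit 379) (nat_lit 290) (nat_lit 231)) (XT.nd (nat_lit 78) (nat_lit 76) (nat_lit 0) (XT.lf (nat_lit 0) (nat_lit 29424546979) (nat_lit 152) (nat_lit 15957178849) (nat_lit 0) (nat_lit 8759217159) (nat_lit 14) (nat_lit 5) (nat_lit 16) (nat_lit 4) (nat_lit 14) (nat_lit 4) (nat_lit 380) (nat_lit 290) (nat_lit 230)) (XT.lf (nat_lit 0) (nat_lit 3718005412) (nat_lit 76) (nat_lit 36764804759) (nat_lit 76) (nat_lit 16043812685) (nat_lit 13) (nat_lit 4) (nat_lit 14) (nat_lit 5) (nat_lit 14) (nat_lit 4) (nat_lit 381) (nat_lit 290) (nat_lit 229)))) (XT.nd (nat_lit 78) (nat_lit 152) (nat_lit 0) (XT.lf (nat_lit 0) (nat_lit 24616648177) (nat_lit 76) (nat_lit 27592742347)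 (nat_lit 76) (nat_lit 6818738603) (nat_lit 13) (nat_lit 4) (nat_lit 14) (nat_lit 5) (nat_lit 14) (nat_lit 4) (nat_lit 382) (nat_lit 290) (nat_lit 228)) (XT.nd (nat_lit 78) (nat_lit 76) (nat_lit 0) (XT.lf (nat_lit 0) (nat_lit 2764632866) (nat_lit 152) (nat_lit 15212286329) (nat_lit 76) (nat_lit 43678378731) (nat_lit 12) (nat_lit 5) (nat_lit 14) (nat_lit 5) (nat_lit 13) (nat_lit 4) (nat_lit 383) (nat_lit 290) (nat_lit 227)) (XT.lf (nat_lit 0) (nat_lit 4887480353) (nat_lit 76) (nat_lit 7802201690) (nat_lit 152) (nat_lit 51722015809) (nat_lit 11) (nat_lit 5) (nat_lit 12) (nat_lit 5) (nat_lit 13) (nat_lit 4) (nat_lit 384) (nat_lit 290) (nat_lit 226))))))))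
noncomputable def xc32 : XT := (XT.nd (nat_lit 42666) (nat_lit 0) (nat_lit 2356) (XT.nd (nat_lit 41730) (nat_lit 0) (nat_lit 8360) (XT.nd (nat_lit 390) (nat_lit 152) (nat_lit 0) (XT.nd (nat_lit 156) (nat_lit 76) (nat_lit 0) (XT.nd (nat_lit 78) (nat_lit 0) (nat_lit 0) (XT.lf (nat_lit 0) (nat_lit 23253010494) (nat_lit 152) (nat_lit 41104734603) (nat_lit 0) (nat_lit 2943915670) (nat_lit 11) (nat_lit 5) (nat_lit 13) (nat_lit 4) (nat_lit 11) (nat_lit 4) (nat_lit 385) (nat_lit 290) (nat_lit 225)) (XT.lf (nat_lit 0) (nat_lit 34381524337) (nat_lit 152) (nat_lit 21923403583) (nat_lit 0) (nat_lit 14030086956) (nat_lit 11) (nat_lit 5) (nat_lit 13) (nat_lit 4) (nat_lit 11) (nat_lit 4) (nat_lit 386) (nat_lit 290) (nat_lit 224))) (XT.nd (nat_lit 78) (nat_lit 76) (nat_lit 0) (XT.lf (nat_lit 0) (nat_lit 46026720496) (nat_lit 152) (nat_lit 1859555067) (nat_lit 0) (nat_lit 25634956873) (nat_lit 11) (nat_lit 5)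 (nat_lit 13) (nat_lit 4) (nat_lit 11) (nat_lit 4) (nat_lit 387) (nat_lit 290) (nat_lit 223)) (XT.nd (nat_lit 78) (nat_lit 0) (nat_lit 0) (XT.lf (nat_lit 0) (nat_lit 19515397712) (nat_lit 76) (nat_lit 38888521859) (nat_lit 76) (nat_lit 18458352290) (nat_lit 10) (nat_lit 4) (nat_lit 11) (nat_lit 5) (nat_lit 11) (nat_lit 4) (nat_lit 388) (nat_lit 290) (nat_lit 222)) (XT.lf (nat_lit 0) (nat_lit 41927143276) (nat_lit 76) (nat_lit 29455248683) (nat_lit 76) (nat_lit 8988502023) (nat_lit 10) (nat_lit 4) (nat_lit 11) (nat_lit 5) (nat_lit 11) (nat_lit 4) (nat_lit 389) (nat_lit 290) (nat_lit 221))))) (XT.nd (nat_lit 234) (nat_lit 0) (nat_lit 0) (XT.nd (nat_lit 78) (nat_lit 76) (nat_lit 0) (XT.lf (nat_lit 0) (nat_lit 900879004) (nat_lit 152) (nat_lit 18672797605) (nat_lit 76) (nat_lit 64482058014) (nat_lit 9) (nat_lit 5) (nat_lit 11) (nat_lit 5) (nat_lit 10) (nat_lit 4) (nat_lit 390) (nat_lit 290) (nat_lit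 220)) (XT.nd (nat_lit 78) (nat_lit 0) (nat_lit 0) (XT.lf (nat_lit 0) (nat_lit 1969509386) (nat_lit 76) (nat_lit 9116336856) (nat_lit 152) (nat_lit 76836693559) (nat_lit 8) (nat_lit 5) (nat_lit 9) (nat_lit 5) (nat_lit 10) (nat_lit 4) (nat_lit 391) (nat_lit 290) (nat_lit 219)) (XT.lf (nat_lit 0) (nat_lit 21959158716) (nat_lit 152) (nat_lit 68026332617) (nat_lit 0) (nat_lit 1991823617) (nat_lit 8) (nat_lit 5) (nat_lit 10) (nat_lit 4) (nat_lit 8) (nat_lit 4) (nat_lit 392) (nat_lit 290) (nat_lit 218)))) (XT.nd (nat_lit 156) (nat_lit 0) (nat_lit 0) (XT.lf (nat_lit 0) (nat_lit 33436775997) (nat_lit 152) (nat_lit 49356010879) (nat_lit 0) (nat_lit 13440225301) (nat_lit 8) (nat_lit 5) (nat_lit 10) (nat_lit 4) (nat_lit 8) (nat_lit 4) (nat_lit 393) (nat_lit 290) (nat_lit 217)) (XT.nd (nat_lit 40872) (nat_lit 0) (nat_lit 15048) (XT.lf (nat_lit 0) (nat_lit 58052635435) (nat_lit 152) (nat_lit 9341702557) (nat_lit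 0) (nat_lit 38001760956) (nat_lit 8) (nat_lit 5) (nat_lit 10) (nat_lit 4) (nat_lit 8) (nat_lit 4) (nat_lit 395) (nat_lit 290) (nat_lit 215)) (XT.lf (nat_lit 0) (nat_lit 834161937) (nat_lit 608) (nat_lit 2044088620) (nat_lit 0) (nat_lit 834161937) (nat_lit 206) (nat_lit 5) (nat_lit 214) (nat_lit 4) (nat_lit 206) (nat_lit 4) (nat_lit 318) (nat_lit 291) (nat_lit 291)))))) (XT.nd (nat_lit 468) (nat_lit 2888) (nat_lit 0) (XT.nd (nat_lit 234) (nat_lit 1520) (nat_lit 0) (XT.nd (nat_lit 78) (nat_lit 1672) (nat_lit 0) (XT.lf (nat_lit 0) (nat_lit 5029917538) (nat_lit 608) (nat_lit 2468058415) (nat_lit 608) (nat_lit 43050869) (nat_lit 198) (nat_lit 4) (nat_lit 206) (nat_lit 5) (nat_lit 206) (nat_lit 4) (nat_lit 319) (nat_lit 291) (nat_lit 290)) (XT.nd (nat_lit 78) (nat_lit 1064) (nat_lit 0) (XT.lf (nat_lit 0) (nat_lit 5693225450) (nat_lit 608) (nat_lit 876099792) (nat_lit 0) (nat_lit 1096586089) (nat_lit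 190) (nat_lit 5) (nat_lit 198) (nat_lit 4) (nat_lit 190) (nat_lit 4) (nat_lit 320) (nat_lit 291) (nat_lit 289)) (XT.lf (nat_lit 0) (nat_lit 833661071) (nat_lit 456) (nat_lit 2893328633) (nat_lit 532) (nat_lit 4072533073) (nat_lit 176) (nat_lit 5) (nat_lit 182) (nat_lit 5) (nat_lit 183) (nat_lit 4) (nat_lit 321) (nat_lit 291) (nat_lit 288)))) (XT.nd (nat_lit 78) (nat_lit 988) (nat_lit 0) (XT.lf (nat_lit 0) (nat_lit 1577378515) (nat_lit 532) (nat_lit 5308530119) (nat_lit 76) (nat_lit 1056598200) (nat_lit 169) (nat_lit 5) (nat_lit 176) (nat_lit 5) (nat_lit 170) (nat_lit 4) (nat_lit 322) (nat_lit 291) (nat_lit 287)) (XT.nd (nat_lit 78) (nat_lit 532) (nat_lit 0) (XT.lf (nat_lit 0) (nat_lit 4478889170) (nat_lit 456) (nat_lit 2846250138) (nat_lit 532) (nat_lit 769459678) (nat_lit 163) (nat_lit 5) (nat_lit 169) (nat_lit 5) (nat_lit 170) (nat_lit 4) (nat_lit 323) (nat_lit 291) (nat_lit 286)) (XT.lf (nat_lit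 0) (nat_lit 4897860346) (nat_lit 532) (nat_lit 1884653646) (nat_lit 76) (nat_lit 1473708366) (nat_lit 156) (nat_lit 5) (nat_lit 163) (nat_lit 5) (nat_lit 157) (nat_lit 4) (nat_lit 324) (nat_lit 291) (nat_lit 285))))) (XT.nd (nat_lit 234) (nat_lit 1140) (nat_lit 0) (XT.nd (nat_lit 78) (nat_lit 1292) (nat_lit 0) (XT.lf (nat_lit 0) (nat_lit 2274025860) (nat_lit 456) (nat_lit 116243173) (nat_lit 76) (nat_lit 6037446756) (nat_lit 150) (nat_lit 5) (nat_lit 156) (nat_lit 5) (nat_lit 151) (nat_lit 5) (nat_lit 325) (nat_lit 291) (nat_lit 284)) (XT.nd (nat_lit 78) (nat_lit 456) (nat_lit 0) (XT.lf (nat_lit 0) (nat_lit 1721897419) (nat_lit 380) (nat_lit 6329203425) (nat_lit 456) (nat_lit 557836783) (nat_lit 139) (nat_lit 5) (nat_lit 144) (nat_lit 5) (nat_lit 145) (nat_lit 4) (nat_lit 326) (nat_lit 291) (nat_lit 283)) (XT.lf (nat_lit 0) (nat_lit 3574979050) (nat_lit 380) (nat_lit 1564072079) (nat_lit 456)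 (nat_lit 3661002950) (nat_lit 133) (nat_lit 5) (nat_lit 138) (nat_lit 5) (nat_lit 139) (nat_lit 5) (nat_lit 327) (nat_lit 291) (nat_lit 282)))) (XT.nd (nat_lit 78) (nat_lit 760) (nat_lit 0) (XT.lf (nat_lit 0) (nat_lit 2007695314) (nat_lit 380) (nat_lit 3550636040) (nat_lit 76) (nat_lit 3443525044) (nat_lit 128) (nat_lit 5) (nat_lit 133) (nat_lit 5) (nat_lit 129) (nat_lit 5) (nat_lit 328) (nat_lit 291) (nat_lit 281)) (XT.nd (nat_lit 78) (nat_lit 380) (nat_lit 0) (XT.lf (nat_lit 0) (nat_lit 7351600034) (nat_lit 380) (nat_lit 462806111) (nat_lit 456) (nat_lit 1400449873) (nat_lit 123) (nat_lit 5) (nat_lit 128) (nat_lit 5) (nat_lit 129) (nat_lit 5) (nat_lit 329) (nat_lit 291) (nat_lit 280)) (XT.lf (nat_lit 0) (nat_lit 4353594927) (nat_lit 380) (nat_lit 206703766) (nat_lit 76) (nat_lit 4877974690) (nat_lit 118) (nat_lit 5) (nat_lit 123) (nat_lit 5) (nat_lit 119) (nat_lit 5) (nat_lit 330) (nat_lit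 291) (nat_lit 279))))))) (XT.nd (nat_lit 936) (nat_lit 2052) (nat_lit 0) (XT.nd (nat_lit 468) (nat_lit 1748) (nat_lit 0) (XT.nd (nat_lit 234) (nat_lit 912) (nat_lit 0) (XT.nd (nat_lit 78) (nat_lit 608) (nat_lit 0) (XT.lf (nat_lit 0) (nat_lit 634359166) (nat_lit 380) (nat_lit 8176619340) (nat_lit 76) (nat_lit 862736395) (nat_lit 109) (nat_lit 5) (nat_lit 114) (nat_lit 5) (nat_lit 110) (nat_lit 5) (nat_lit 331) (nat_lit 291) (nat_lit 278)) (XT.nd (nat_lit 78) (nat_lit 304) (nat_lit 0) (XT.lf (nat_lit 0) (nat_lit 3151567694) (nat_lit 304) (nat_lit 3363768764) (nat_lit 380) (nat_lit 3404731526) (nat_lit 105) (nat_lit 5) (nat_lit 109) (nat_lit 5) (nat_lit 110) (nat_lit 5) (nat_lit 332) (nat_lit 291) (nat_lit 277)) (XT.lf (nat_lit 0) (nat_lit 2423262528) (nat_lit 304) (nat_lit 5384770117) (nat_lit 76) (nat_lit 2371240139) (nat_lit 101) (nat_lit 5) (nat_lit 105) (nat_lit 5) (nat_lit 102) (nat_lit 5)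 (nat_lit 333) (nat_lit 291) (nat_lit 276)))) (XT.nd (nat_lit 78) (nat_lit 608) (nat_lit 0) (XT.lf (nat_lit 0) (nat_lit 6395705013) (nat_lit 304) (nat_lit 2054660590) (nat_lit 380) (nat_lit 2000791321) (nat_lit 97) (nat_lit 5) (nat_lit 101) (nat_lit 5) (nat_lit 102) (nat_lit 5) (nat_lit 334) (nat_lit 291) (nat_lit 275)) (XT.nd (nat_lit 78) (nat_lit 304) (nat_lit 0) (XT.lf (nat_lit 0) (nat_lit 3951102353) (nat_lit 304) (nat_lit 2800471894) (nat_lit 76) (nat_lit 3984330152) (nat_lit 93) (nat_lit 5) (nat_lit 97) (nat_lit 5) (nat_lit 94) (nat_lit 5) (nat_lit 335) (nat_lit 291) (nat_lit 274)) (XT.lf (nat_lit 0) (nat_lit 9440175063) (nat_lit 304) (nat_lit 694322965) (nat_lit 380) (nat_lit 900603611) (nat_lit 89) (nat_lit 5) (nat_lit 93) (nat_lit 5) (nat_lit 94) (nat_lit 5) (nat_lit 336) (nat_lit 291) (nat_lit 273))))) (XT.nd (nat_lit 234) (nat_lit 684) (nat_lit 0) (XT.nd (nat_lit 78) (nat_lit 760)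 (nat_lit 0) (XT.lf (nat_lit 0) (nat_lit 5189313733) (nat_lit 304) (nat_lit 515074203) (nat_lit 76) (nat_lit 5642974228) (nat_lit 85) (nat_lit 5) (nat_lit 89) (nat_lit 5) (nat_lit 86) (nat_lit 5) (nat_lit 337) (nat_lit 291) (nat_lit 272)) (XT.nd (nat_lit 78) (nat_lit 304) (nat_lit 0) (XT.lf (nat_lit 0) (nat_lit 517506775) (nat_lit 228) (nat_lit 11029971075) (nat_lit 304) (nat_lit 128076549) (nat_lit 79) (nat_lit 5) (nat_lit 82) (nat_lit 5) (nat_lit 83) (nat_lit 4) (nat_lit 338) (nat_lit 291) (nat_lit 271)) (XT.lf (nat_lit 0) (nat_lit 1391302621) (nat_lit 228) (nat_lit 4721269994) (nat_lit 304) (nat_lit 5904940989) (nat_lit 75) (nat_lit 5) (nat_lit 78) (nat_lit 5) (nat_lit 79) (nat_lit 5) (nat_lit 339) (nat_lit 291) (nat_lit 270)))) (XT.nd (nat_lit 78) (nat_lit 456) (nat_lit 0) (XT.lf (nat_lit 0) (nat_lit 270519933) (nat_lit 228) (nat_lit 10202111352) (nat_lit 76) (nat_lit 1904167212) (nat_lit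 72) (nat_lit 5) (nat_lit 75) (nat_lit 5) (nat_lit 73) (nat_lit 5) (nat_lit 340) (nat_lit 291) (nat_lit 269)) (XT.nd (nat_lit 78) (nat_lit 228) (nat_lit 0) (XT.lf (nat_lit 0) (nat_lit 2764569602) (nat_lit 228) (nat_lit 3892511578) (nat_lit 304) (nat_lit 6094525810) (nat_lit 69) (nat_lit 5) (nat_lit 72) (nat_lit 5) (nat_lit 73) (nat_lit 5) (nat_lit 341) (nat_lit 291) (nat_lit 268)) (XT.lf (nat_lit 0) (nat_lit 222414642) (nat_lit 228) (nat_lit 9927566578) (nat_lit 76) (nat_lit 2994889647) (nat_lit 66) (nat_lit 5) (nat_lit 69) (nat_lit 5) (nat_lit 67) (nat_lit 5) (nat_lit 342) (nat_lit 291) (nat_lit 267)))))) (XT.nd (nat_lit 468) (nat_lit 912) (nat_lit 0) (XT.nd (nat_lit 234) (nat_lit 532) (nat_lit 0) (XT.nd (nat_lit 78) (nat_lit 380) (nat_lit 0) (XT.lf (nat_lit 0) (nat_lit 3441644661) (nat_lit 228) (nat_lit 3311153721) (nat_lit 304) (nat_lit 6802521313) (nat_lit 63) (nat_lit 5) (nat_lit 66) (nat_lit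 5) (nat_lit 67) (nat_lit 5) (nat_lit 343) (nat_lit 291) (nat_lit 266)) (XT.nd (nat_lit 78) (nat_lit 228) (nat_lit 0) (XT.lf (nat_lit 0) (nat_lit 3477584060) (nat_lit 152) (nat_lit 10156126517) (nat_lit 228) (nat_lit 351899372) (nat_lit 61) (nat_lit 5) (nat_lit 63) (nat_lit 5) (nat_lit 64) (nat_lit 4) (nat_lit 344) (nat_lit 291) (nat_lit 265)) (XT.lf (nat_lit 0) (nat_lit 3241292751) (nat_lit 152) (nat_lit 3077829690) (nat_lit 228) (nat_lit 8115781708) (nat_lit 58) (nat_lit 5) (nat_lit 60) (nat_lit 5) (nat_lit 61) (nat_lit 5) (nat_lit 345) (nat_lit 291) (nat_lit 264)))) (XT.nd (nat_lit 78) (nat_lit 380) (nat_lit 0) (XT.lf (nat_lit 0) (nat_lit 2754160157) (nat_lit 152) (nat_lit 10597000371) (nat_lit 228) (nat_lit 1554390292) (nat_lit 56) (nat_lit 5) (nat_lit 58) (nat_lit 5) (nat_lit 59) (nat_lit 4) (nat_lit 346) (nat_lit 291) (nat_lit 263)) (XT.nd (nat_lit 78) (nat_lit 152) (nat_lit 0) (XT.lf (nat_lit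 0) (nat_lit 1948417392) (nat_lit 152) (nat_lit 3308905122) (nat_lit 228) (nat_lit 10140110012) (nat_lit 53) (nat_lit 5) (nat_lit 55) (nat_lit 5) (nat_lit 56) (nat_lit 5) (nat_lit 347) (nat_lit 291) (nat_lit 262)) (XT.lf (nat_lit 0) (nat_lit 814979622) (nat_lit 152) (nat_lit 11602321020) (nat_lit 228) (nat_lit 3494981615) (nat_lit 51) (nat_lit 5) (nat_lit 53) (nat_lit 5) (nat_lit 54) (nat_lit 4) (nat_lit 348) (nat_lit 291) (nat_lit 261))))) (XT.nd (nat_lit 234) (nat_lit 456) (nat_lit 0) (XT.nd (nat_lit 78) (nat_lit 380) (nat_lit 0) (XT.lf (nat_lit 0) (nat_lit 3454201597) (nat_lit 228) (nat_lit 678803659) (nat_lit 76) (nat_lit 12317700543) (nat_lit 50) (nat_lit 5) (nat_lit 53) (nat_lit 5) (nat_lit 51) (nat_lit 5) (nat_lit 349) (nat_lit 291) (nat_lit 260)) (XT.nd (nat_lit 78) (nat_lit 228) (nat_lit 0) (XT.lf (nat_lit 0) (nat_lit 10727816670) (nat_lit 228) (nat_lit 2566996755) (nat_lit 76) (nat_lit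 3718748161) (nat_lit 48) (nat_lit 5) (nat_lit 51) (nat_lit 5) (nat_lit 49) (nat_lit 4) (nat_lit 350) (nat_lit 291) (nat_lit 259)) (XT.lf (nat_lit 0) (nat_lit 793187582) (nat_lit 228) (nat_lit 4886663956) (nat_lit 76) (nat_lit 11923089797) (nat_lit 45) (nat_lit 5) (nat_lit 48) (nat_lit 5) (nat_lit 46) (nat_lit 5) (nat_lit 351) (nat_lit 291) (nat_lit 258)))) (XT.nd (nat_lit 78) (nat_lit 304) (nat_lit 0) (XT.lf (nat_lit 0) (nat_lit 8126931449) (nat_lit 228) (nat_lit 7721378387) (nat_lit 76) (nat_lit 2370710887) (nat_lit 43) (nat_lit 5) (nat_lit 46) (nat_lit 5) (nat_lit 44) (nat_lit 4) (nat_lit 352) (nat_lit 291) (nat_lit 257)) (XT.nd (nat_lit 78) (nat_lit 228) (nat_lit 0) (XT.lf (nat_lit 0) (nat_lit 7769829704) (nat_lit 76) (nat_lit 8121809325) (nat_lit 152) (nat_lit 2972359241) (nat_lit 42) (nat_lit 5) (nat_lit 43) (nat_lit 5) (nat_lit 44) (nat_lit 4) (nat_lit 353) (nat_lit 291) (nat_lit 256))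 (XT.lf (nat_lit 0) (nat_lit 4423565622) (nat_lit 228) (nat_lit 15047767612) (nat_lit 76) (nat_lit 68371030) (nat_lit 39) (nat_lit 5) (nat_lit 42) (nat_lit 5) (nat_lit 40) (nat_lit 4) (nat_lit 354) (nat_lit 291) (nat_lit 255))))))))
noncomputable def xc33 : XT := (XT.nd (nat_lit 1794) (nat_lit 608) (nat_lit 0) (XT.nd (nat_lit 858) (nat_lit 684) (nat_lit 0) (XT.nd (nat_lit 390) (nat_lit 456) (nat_lit 0) (XT.nd (nat_lit 156) (nat_lit 532) (nat_lit 0) (XT.nd (nat_lit 78) (nat_lit 0) (nat_lit 0) (XT.lf (nat_lit 0) (nat_lit 535142782) (nat_lit 76) (nat_lit 11682357128) (nat_lit 152) (nat_lit 8028141986) (nat_lit 38) (nat_lit 5) (nat_lit 39) (nat_lit 5) (nat_lit 40) (nat_lit 4) (nat_lit 355) (nat_lit 291) (nat_lit 254)) (XT.lf (nat_lit 0) (nat_lit 17011940320) (nat_lit 76) (nat_lit 3434231243) (nat_lit 152) (nat_lit 539372486) (nat_lit 38) (nat_lit 5) (nat_lit 39) (nat_lit 5) (nat_lit 40) (nat_lit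 4) (nat_lit 356) (nat_lit 291) (nat_lit 253))) (XT.nd (nat_lit 78) (nat_lit 304) (nat_lit 0) (XT.lf (nat_lit 0) (nat_lit 7246996407) (nat_lit 228) (nat_lit 9279242939) (nat_lit 76) (nat_lit 5232125104) (nat_lit 35) (nat_lit 5) (nat_lit 38) (nat_lit 5) (nat_lit 36) (nat_lit 4) (nat_lit 357) (nat_lit 291) (nat_lit 252)) (XT.nd (nat_lit 78) (nat_lit 228) (nat_lit 0) (XT.lf (nat_lit 0) (nat_lit 7179416326) (nat_lit 76) (nat_lit 8273942371) (nat_lit 152) (nat_lit 7115068672) (nat_lit 34) (nat_lit 5) (nat_lit 35) (nat_lit 5) (nat_lit 36) (nat_lit 4) (nat_lit 358) (nat_lit 291) (nat_lit 251)) (XT.lf (nat_lit 0) (nat_lit 648012371) (nat_lit 228) (nat_lit 22356012562) (nat_lit 76) (nat_lit 414505982) (nat_lit 31) (nat_lit 5) (nat_lit 34) (nat_lit 5) (nat_lit 32) (nat_lit 4) (nat_lit 359) (nat_lit 291) (nat_lit 250))))) (XT.nd (nat_lit 234) (nat_lit 152) (nat_lit 0) (XT.nd (nat_lit 78) (nat_lit 304) (nat_lit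 0) (XT.lf (nat_lit 0) (nat_lit 8798136048) (nat_lit 228) (nat_lit 5987609326) (nat_lit 76) (nat_lit 9518914327) (nat_lit 31) (nat_lit 5) (nat_lit 34) (nat_lit 5) (nat_lit 32) (nat_lit 4) (nat_lit 360) (nat_lit 291) (nat_lit 249)) (XT.nd (nat_lit 78) (nat_lit 228) (nat_lit 0) (XT.lf (nat_lit 0) (nat_lit 11244794834) (nat_lit 76) (nat_lit 6124944402) (nat_lit 152) (nat_lit 7864950419) (nat_lit 30) (nat_lit 5) (nat_lit 31) (nat_lit 5) (nat_lit 32) (nat_lit 4) (nat_lit 361) (nat_lit 291) (nat_lit 248)) (XT.lf (nat_lit 0) (nat_lit 184603084) (nat_lit 228) (nat_lit 23096836800) (nat_lit 76) (nat_lit 2928878381) (nat_lit 27) (nat_lit 5) (nat_lit 30) (nat_lit 5) (nat_lit 28) (nat_lit 4) (nat_lit 362) (nat_lit 291) (nat_lit 247)))) (XT.nd (nat_lit 78) (nat_lit 152) (nat_lit 0) (XT.lf (nat_lit 0) (nat_lit 8592631345) (nat_lit 228) (nat_lit 6176438347) (nat_lit 76) (nat_lit 12459775065) (nat_lit 27) (nat_lit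 5) (nat_lit 30) (nat_lit 5) (nat_lit 28) (nat_lit 4) (nat_lit 363) (nat_lit 291) (nat_lit 246)) (XT.nd (nat_lit 78) (nat_lit 76) (nat_lit 0) (XT.lf (nat_lit 0) (nat_lit 11657677208) (nat_lit 76) (nat_lit 5789619982) (nat_lit 152) (nat_lit 10850224980) (nat_lit 26) (nat_lit 5) (nat_lit 27) (nat_lit 5) (nat_lit 28) (nat_lit 4) (nat_lit 364) (nat_lit 291) (nat_lit 245)) (XT.lf (nat_lit 0) (nat_lit 920167804) (nat_lit 76) (nat_lit 25848641147) (nat_lit 76) (nat_lit 2650112248) (nat_lit 25) (nat_lit 4) (nat_lit 26) (nat_lit 5) (nat_lit 26) (nat_lit 4) (nat_lit 365) (nat_lit 291) (nat_lit 244)))))) (XT.nd (nat_lit 468) (nat_lit 304) (nat_lit 0) (XT.nd (nat_lit 234) (nat_lit 228) (nat_lit 0) (XT.nd (nat_lit 78) (nat_lit 76) (nat_lit 0) (XT.lf (nat_lit 0) (nat_lit 5992921867) (nat_lit 152) (nat_lit 11156936967) (nat_lit 76) (nat_lit 13440346387) (nat_lit 24) (nat_lit 5) (nat_lit 26) (nat_lit 5) (nat_lit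 25) (nat_lit 4) (nat_lit 366) (nat_lit 291) (nat_lit 243)) (XT.nd (nat_lit 78) (nat_lit 0) (nat_lit 0) (XT.lf (nat_lit 0) (nat_lit 7015289564) (nat_lit 76) (nat_lit 7987661540) (nat_lit 152) (nat_lit 16816635422) (nat_lit 23) (nat_lit 5) (nat_lit 24) (nat_lit 5) (nat_lit 25) (nat_lit 4) (nat_lit 367) (nat_lit 291) (nat_lit 242)) (XT.lf (nat_lit 0) (nat_lit 24518587133) (nat_lit 152) (nat_lit 6938811640) (nat_lit 0) (nat_lit 1651394292) (nat_lit 23) (nat_lit 5) (nat_lit 25) (nat_lit 4) (nat_lit 23) (nat_lit 4) (nat_lit 368) (nat_lit 291) (nat_lit 241)))) (XT.nd (nat_lit 78) (nat_lit 76) (nat_lit 0) (XT.lf (nat_lit 0) (nat_lit 169246604) (nat_lit 152) (nat_lit 22627651311) (nat_lit 76) (nat_lit 11661878053) (nat_lit 21) (nat_lit 5) (nat_lit 23) (nat_lit 5) (nat_lit 22) (nat_lit 4) (nat_lit 369) (nat_lit 291) (nat_lit 240)) (XT.nd (nat_lit 78) (nat_lit 76) (nat_lit 0) (XT.lf (nat_lit 0) (nat_lit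 9191351977) (nat_lit 152) (nat_lit 4411852717) (nat_lit 76) (nat_lit 22270439826) (nat_lit 21) (nat_lit 5) (nat_lit 23) (nat_lit 5) (nat_lit 22) (nat_lit 4) (nat_lit 370) (nat_lit 291) (nat_lit 239)) (XT.lf (nat_lit 0) (nat_lit 14876568529) (nat_lit 76) (nat_lit 3862950288) (nat_lit 152) (nat_lit 18617496821) (nat_lit 20) (nat_lit 5) (nat_lit 21) (nat_lit 5) (nat_lit 22) (nat_lit 4) (nat_lit 371) (nat_lit 291) (nat_lit 238))))) (XT.nd (nat_lit 234) (nat_lit 152) (nat_lit 0) (XT.nd (nat_lit 78) (nat_lit 152) (nat_lit 0) (XT.lf (nat_lit 0) (nat_lit 28805566890) (nat_lit 152) (nat_lit 3879417613) (nat_lit 0) (nat_lit 6228364075) (nat_lit 20) (nat_lit 5) (nat_lit 22) (nat_lit 4) (nat_lit 20) (nat_lit 4) (nat_lit 372) (nat_lit 291) (nat_lit 237)) (XT.nd (nat_lit 78) (nat_lit 76) (nat_lit 0) (XT.lf (nat_lit 0) (nat_lit 15800811069) (nat_lit 76) (nat_lit 23701582469) (nat_lit 76) (nat_lit 1041287440)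 (nat_lit 19) (nat_lit 4) (nat_lit 20) (nat_lit 5) (nat_lit 20) (nat_lit 4) (nat_lit 373) (nat_lit 291) (nat_lit 236)) (XT.lf (nat_lit 0) (nat_lit 8291296073) (nat_lit 152) (nat_lit 5908099440) (nat_lit 76) (nat_lit 28054349684) (nat_lit 18) (nat_lit 5) (nat_lit 20) (nat_lit 5) (nat_lit 19) (nat_lit 4) (nat_lit 374) (nat_lit 291) (nat_lit 235)))) (XT.nd (nat_lit 78) (nat_lit 76) (nat_lit 0) (XT.lf (nat_lit 0) (nat_lit 14019090272) (nat_lit 76) (nat_lit 4125682057) (nat_lit 152) (nat_lit 25901963286) (nat_lit 17) (nat_lit 5) (nat_lit 18) (nat_lit 5) (nat_lit 19) (nat_lit 4) (nat_lit 375) (nat_lit 291) (nat_lit 234)) (XT.nd (nat_lit 78) (nat_lit 76) (nat_lit 0) (XT.lf (nat_lit 0) (nat_lit 28556470259) (nat_lit 152) (nat_lit 11034450993) (nat_lit 0) (nat_lit 6336493818) (nat_lit 17) (nat_lit 5) (nat_lit 19) (nat_lit 4) (nat_lit 17) (nat_lit 4) (nat_lit 376) (nat_lit 291) (nat_lit 233)) (XT.lf (nat_lit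 0) (nat_lit 8936010212) (nat_lit 76) (nat_lit 30625148660) (nat_lit 76) (nat_lit 8338803122) (nat_lit 16) (nat_lit 4) (nat_lit 17) (nat_lit 5) (nat_lit 17) (nat_lit 4) (nat_lit 377) (nat_lit 291) (nat_lit 232))))))) (XT.nd (nat_lit 936) (nat_lit 152) (nat_lit 0) (XT.nd (nat_lit 468) (nat_lit 228) (nat_lit 0) (XT.nd (nat_lit 234) (nat_lit 76) (nat_lit 0) (XT.nd (nat_lit 78) (nat_lit 76) (nat_lit 0) (XT.lf (nat_lit 0) (nat_lit 1183293081) (nat_lit 152) (nat_lit 19947469245) (nat_lit 76) (nat_lit 28838228318) (nat_lit 15) (nat_lit 5) (nat_lit 17) (nat_lit 5) (nat_lit 16) (nat_lit 4) (nat_lit 378) (nat_lit 291) (nat_lit 231)) (XT.nd (nat_lit 78) (nat_lit 76) (nat_lit 0) (XT.lf (nat_lit 0) (nat_lit 10959185487) (nat_lit 152) (nat_lit 162606388) (nat_lit 76) (nat_lit 41018702453) (nat_lit 15) (nat_lit 5) (nat_lit 17) (nat_lit 5) (nat_lit 16) (nat_lit 4) (nat_lit 379) (nat_lit 291) (nat_lit 230)) (XT.lf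 (nat_lit 0) (nat_lit 20926247749) (nat_lit 76) (nat_lit 449778259) (nat_lit 152) (nat_lit 33039987338) (nat_lit 14) (nat_lit 5) (nat_lit 15) (nat_lit 5) (nat_lit 16) (nat_lit 4) (nat_lit 380) (nat_lit 291) (nat_lit 229)))) (XT.nd (nat_lit 78) (nat_lit 76) (nat_lit 0) (XT.lf (nat_lit 0) (nat_lit 32370830886) (nat_lit 152) (nat_lit 13927653003) (nat_lit 0) (nat_lit 10505115285) (nat_lit 14) (nat_lit 5) (nat_lit 16) (nat_lit 4) (nat_lit 14) (nat_lit 4) (nat_lit 381) (nat_lit 291) (nat_lit 228)) (XT.nd (nat_lit 78) (nat_lit 0) (nat_lit 0) (XT.lf (nat_lit 0) (nat_lit 6650244054) (nat_lit 76) (nat_lit 37287921879) (nat_lit 76) (nat_lit 15371718973) (nat_lit 13) (nat_lit 4) (nat_lit 14) (nat_lit 5) (nat_lit 14) (nat_lit 4) (nat_lit 382) (nat_lit 291) (nat_lit 227)) (XT.lf (nat_lit 0) (nat_lit 28463040939) (nat_lit 76) (nat_lit 27719881257) (nat_lit 76) (nat_lit 5755595204) (nat_lit 13) (nat_lit 4)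 (nat_lit 14) (nat_lit 5) (nat_lit 14) (nat_lit 4) (nat_lit 383) (nat_lit 291) (nat_lit 226))))) (XT.nd (nat_lit 234) (nat_lit 76) (nat_lit 0) (XT.nd (nat_lit 78) (nat_lit 76) (nat_lit 0) (XT.lf (nat_lit 0) (nat_lit 4213989905) (nat_lit 152) (nat_lit 13455680019) (nat_lit 76) (nat_lit 47028942338) (nat_lit 12) (nat_lit 5) (nat_lit 14) (nat_lit 5) (nat_lit 13) (nat_lit 4) (nat_lit 384) (nat_lit 291) (nat_lit 225)) (XT.nd (nat_lit 78) (nat_lit 0) (nat_lit 0) (XT.lf (nat_lit 0) (nat_lit 7576919373) (nat_lit 76) (nat_lit 7019441085) (nat_lit 152) (nat_lit 52997645219) (nat_lit 11) (nat_lit 5) (nat_lit 12) (nat_lit 5) (nat_lit 13) (nat_lit 4) (nat_lit 385) (nat_lit 291) (nat_lit 224)) (XT.lf (nat_lit 0) (nat_lit 25638012127) (nat_lit 152) (nat_lit 40805621126) (nat_lit 0) (nat_lit 4186334079) (nat_lit 11) (nat_lit 5) (nat_lit 13) (nat_lit 4) (nat_lit 11) (nat_lit 4) (nat_lit 386) (nat_lit 291) (nat_lit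 223)))) (XT.nd (nat_lit 78) (nat_lit 76) (nat_lit 0) (XT.lf (nat_lit 0) (nat_lit 37264744466) (nat_lit 152) (nat_lit 20777335469) (nat_lit 0) (nat_lit 15774660472) (nat_lit 11) (nat_lit 5) (nat_lit 13) (nat_lit 4) (nat_lit 11) (nat_lit 4) (nat_lit 387) (nat_lit 291) (nat_lit 222)) (XT.nd (nat_lit 78) (nat_lit 0) (nat_lit 0) (XT.lf (nat_lit 0) (nat_lit 186572929) (nat_lit 76) (nat_lit 49251985532) (nat_lit 76) (nat_lit 27725324447) (nat_lit 10) (nat_lit 4) (nat_lit 11) (nat_lit 5) (nat_lit 11) (nat_lit 4) (nat_lit 388) (nat_lit 291) (nat_lit 221)) (XT.lf (nat_lit 0) (nat_lit 22565419962) (nat_lit 76) (nat_lit 39834547416) (nat_lit 76) (nat_lit 18273051006) (nat_lit 10) (nat_lit 4) (nat_lit 11) (nat_lit 5) (nat_lit 11) (nat_lit 4) (nat_lit 389) (nat_lit 291) (nat_lit 220)))))) (XT.nd (nat_lit 41184) (nat_lit 0) (nat_lit 12236) (XT.nd (nat_lit 234) (nat_lit 0) (nat_lit 0) (XT.nd (nat_lit 78) (nat_lit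 152) (nat_lit 0) (XT.lf (nat_lit 0) (nat_lit 45998978882) (nat_lit 76) (nat_lit 29977153464) (nat_lit 76) (nat_lit 8382480554) (nat_lit 10) (nat_lit 4) (nat_lit 11) (nat_lit 5) (nat_lit 11) (nat_lit 4) (nat_lit 390) (nat_lit 291) (nat_lit 219)) (XT.nd (nat_lit 78) (nat_lit 76) (nat_lit 0) (XT.lf (nat_lit 0) (nat_lit 1931495341) (nat_lit 152) (nat_lit 17705334033) (nat_lit 76) (nat_lit 68592044220) (nat_lit 9) (nat_lit 5) (nat_lit 11) (nat_lit 5) (nat_lit 10) (nat_lit 4) (nat_lit 391) (nat_lit 291) (nat_lit 218)) (XT.lf (nat_lit 0) (nat_lit 3914593559) (nat_lit 76) (nat_lit 8681936095) (nat_lit 152) (nat_lit 79693368651) (nat_lit 8) (nat_lit 5) (nat_lit 9) (nat_lit 5) (nat_lit 10) (nat_lit 4) (nat_lit 392) (nat_lit 291) (nat_lit 217)))) (XT.nd (nat_lit 156) (nat_lit 0) (nat_lit 0) (XT.lf (nat_lit 0) (nat_lit 23976115144) (nat_lit 152) (nat_lit 69649725560) (nat_lit 0) (nat_lit 2922696942) (nat_lit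 8) (nat_lit 5) (nat_lit 10) (nat_lit 4) (nat_lit 8) (nat_lit 4) (nat_lit 393) (nat_lit 291) (nat_lit 216)) (XT.nd (nat_lit 40716) (nat_lit 0) (nat_lit 16264) (XT.lf (nat_lit 0) (nat_lit 48564872356) (nat_lit 152) (nat_lit 29687850066) (nat_lit 0) (nat_lit 27459717217) (nat_lit 8) (nat_lit 5) (nat_lit 10) (nat_lit 4) (nat_lit 8) (nat_lit 4) (nat_lit 395) (nat_lit 291) (nat_lit 214)) (XT.lf (nat_lit 0) (nat_lit 89962042) (nat_lit 1292) (nat_lit 3427779539) (nat_lit 0) (nat_lit 89962042) (nat_lit 222) (nat_lit 5) (nat_lit 239) (nat_lit 4) (nat_lit 222) (nat_lit 4) (nat_lit 316) (nat_lit 292) (nat_lit 292))))) (XT.nd (nat_lit 234) (nat_lit 2128) (nat_lit 0) (XT.nd (nat_lit 78) (nat_lit 1292) (nat_lit 0) (XT.lf (nat_lit 0) (nat_lit 1724548671) (nat_lit 608) (nat_lit 4107791744) (nat_lit 608) (nat_lit 1485146083) (nat_lit 214) (nat_lit 4) (nat_lit 222) (nat_lit 5) (nat_lit 222) (nat_lit 4) (nat_lit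 317) (nat_lit 292) (nat_lit 291)) (XT.nd (nat_lit 78) (nat_lit 684) (nat_lit 0) (XT.lf (nat_lit 0) (nat_lit 3182974266) (nat_lit 532) (nat_lit 907359575) (nat_lit 608) (nat_lit 3338319630) (nat_lit 206) (nat_lit 5) (nat_lit 213) (nat_lit 5) (nat_lit 214) (nat_lit 4) (nat_lit 318) (nat_lit 292) (nat_lit 290)) (XT.lf (nat_lit 0) (nat_lit 2189112481) (nat_lit 684) (nat_lit 2836898127) (nat_lit 76) (nat_lit 2522443310) (nat_lit 197) (nat_lit 5) (nat_lit 206) (nat_lit 5) (nat_lit 198) (nat_lit 4) (nat_lit 319) (nat_lit 292) (nat_lit 289)))) (XT.nd (nat_lit 78) (nat_lit 1520) (nat_lit 0) (XT.lf (nat_lit 0) (nat_lit 106310374) (nat_lit 608) (nat_lit 1353388279) (nat_lit 76) (nat_lit 6217841601) (nat_lit 189) (nat_lit 5) (nat_lit 197) (nat_lit 5) (nat_lit 190) (nat_lit 5) (nat_lit 320) (nat_lit 292) (nat_lit 288)) (XT.nd (nat_lit 78) (nat_lit 532) (nat_lit 0) (XT.lf (nat_lit 0) (nat_lit 172403532) (nat_lit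 456) (nat_lit 5448495662) (nat_lit 532) (nat_lit 2194163676) (nat_lit 176) (nat_lit 5) (nat_lit 182) (nat_lit 5) (nat_lit 183) (nat_lit 4) (nat_lit 321) (nat_lit 292) (nat_lit 287)) (XT.lf (nat_lit 0) (nat_lit 1789925238) (nat_lit 456) (nat_lit 1492310955) (nat_lit 532) (nat_lit 4679450865) (nat_lit 169) (nat_lit 5) (nat_lit 175) (nat_lit 5) (nat_lit 176) (nat_lit 5) (nat_lit 322) (nat_lit 292) (nat_lit 286))))))))
noncomputable def xc34 : XT := (XT.nd (nat_lit 1794) (nat_lit 2812) (nat_lit 0) (XT.nd (nat_lit 858) (nat_lit 3116) (nat_lit 0) (XT.nd (nat_lit 390) (nat_lit 2432) (nat_lit 0) (XT.nd (nat_lit 156) (nat_lit 1748) (nat_lit 0) (XT.nd (nat_lit 78) (nat_lit 456) (nat_lit 0) (XT.lf (nat_lit 0) (nat_lit 758607201) (nat_lit 532) (nat_lit 4657497565) (nat_lit 76) (nat_lit 2701672523) (nat_lit 162) (nat_lit 5) (nat_lit 169) (nat_lit 5) (nat_lit 163) (nat_lit 5) (nat_lit 323) (nat_lit 292) (nat_lit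 285)) (XT.lf (nat_lit 0) (nat_lit 5173051584) (nat_lit 456) (nat_lit 1100472459) (nat_lit 532) (nat_lit 2009843363) (nat_lit 156) (nat_lit 5) (nat_lit 162) (nat_lit 5) (nat_lit 163) (nat_lit 5) (nat_lit 324) (nat_lit 292) (nat_lit 284))) (XT.nd (nat_lit 78) (nat_lit 1292) (nat_lit 0) (XT.lf (nat_lit 0) (nat_lit 3463437073) (nat_lit 456) (nat_lit 1540608432) (nat_lit 76) (nat_lit 3454472180) (nat_lit 150) (nat_lit 5) (nat_lit 156) (nat_lit 5) (nat_lit 151) (nat_lit 5) (nat_lit 325) (nat_lit 292) (nat_lit 283)) (XT.nd (nat_lit 78) (nat_lit 380) (nat_lit 0) (XT.lf (nat_lit 0) (nat_lit 80276056) (nat_lit 380) (nat_lit 349022524) (nat_lit 456) (nat_lit 8215117489) (nat_lit 138) (nat_lit 5) (nat_lit 143) (nat_lit 5) (nat_lit 144) (nat_lit 5) (nat_lit 326) (nat_lit 292) (nat_lit 282)) (XT.lf (nat_lit 0) (nat_lit 1718316717) (nat_lit 380) (nat_lit 4271927489) (nat_lit 456) (nat_lit 2848933700) (nat_lit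 133) (nat_lit 5) (nat_lit 138) (nat_lit 5) (nat_lit 139) (nat_lit 5) (nat_lit 327) (nat_lit 292) (nat_lit 281))))) (XT.nd (nat_lit 234) (nat_lit 1292) (nat_lit 0) (XT.nd (nat_lit 78) (nat_lit 760) (nat_lit 0) (XT.lf (nat_lit 0) (nat_lit 2656101007) (nat_lit 380) (nat_lit 5650289251) (nat_lit 76) (nat_lit 738840737) (nat_lit 128) (nat_lit 5) (nat_lit 133) (nat_lit 5) (nat_lit 129) (nat_lit 5) (nat_lit 328) (nat_lit 292) (nat_lit 280)) (XT.nd (nat_lit 78) (nat_lit 380) (nat_lit 0) (XT.lf (nat_lit 0) (nat_lit 5069448831) (nat_lit 380) (nat_lit 3273313729) (nat_lit 456) (nat_lit 919117568) (nat_lit 123) (nat_lit 5) (nat_lit 128) (nat_lit 5) (nat_lit 129) (nat_lit 5) (nat_lit 329) (nat_lit 292) (nat_lit 279)) (XT.lf (nat_lit 0) (nat_lit 4678013418) (nat_lit 380) (nat_lit 2748548857) (nat_lit 76) (nat_lit 2063066466) (nat_lit 118) (nat_lit 5) (nat_lit 123) (nat_lit 5) (nat_lit 119) (nat_lit 5) (nat_lit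 330) (nat_lit 292) (nat_lit 278)))) (XT.nd (nat_lit 78) (nat_lit 912) (nat_lit 0) (XT.lf (nat_lit 0) (nat_lit 758898515) (nat_lit 380) (nat_lit 1309596681) (nat_lit 76) (nat_lit 7660833247) (nat_lit 113) (nat_lit 5) (nat_lit 118) (nat_lit 5) (nat_lit 114) (nat_lit 5) (nat_lit 331) (nat_lit 292) (nat_lit 277)) (XT.nd (nat_lit 78) (nat_lit 304) (nat_lit 0) (XT.lf (nat_lit 0) (nat_lit 85495388) (nat_lit 304) (nat_lit 6399775639) (nat_lit 380) (nat_lit 3495087754) (nat_lit 105) (nat_lit 5) (nat_lit 109) (nat_lit 5) (nat_lit 110) (nat_lit 5) (nat_lit 332) (nat_lit 292) (nat_lit 276)) (XT.lf (nat_lit 0) (nat_lit 1492668845) (nat_lit 228) (nat_lit 696693020) (nat_lit 304) (nat_lit 8054623166) (nat_lit 101) (nat_lit 5) (nat_lit 104) (nat_lit 5) (nat_lit 105) (nat_lit 5) (nat_lit 333) (nat_lit 292) (nat_lit 275)))))) (XT.nd (nat_lit 468) (nat_lit 1368) (nat_lit 0) (XT.nd (nat_lit 234) (nat_lit 836) (nat_lit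 0) (XT.nd (nat_lit 78) (nat_lit 608) (nat_lit 0) (XT.lf (nat_lit 0) (nat_lit 2832602405) (nat_lit 304) (nat_lit 5255422770) (nat_lit 380) (nat_lit 2431731631) (nat_lit 97) (nat_lit 5) (nat_lit 101) (nat_lit 5) (nat_lit 102) (nat_lit 5) (nat_lit 334) (nat_lit 292) (nat_lit 274)) (XT.nd (nat_lit 78) (nat_lit 304) (nat_lit 0) (XT.lf (nat_lit 0) (nat_lit 3374655145) (nat_lit 304) (nat_lit 6675278276) (nat_lit 76) (nat_lit 759344465) (nat_lit 93) (nat_lit 5) (nat_lit 97) (nat_lit 5) (nat_lit 94) (nat_lit 5) (nat_lit 335) (nat_lit 292) (nat_lit 273)) (XT.lf (nat_lit 0) (nat_lit 5355742373) (nat_lit 304) (nat_lit 4080007371) (nat_lit 380) (nat_lit 1676424745) (nat_lit 89) (nat_lit 5) (nat_lit 93) (nat_lit 5) (nat_lit 94) (nat_lit 5) (nat_lit 336) (nat_lit 292) (nat_lit 272)))) (XT.nd (nat_lit 78) (nat_lit 532) (nat_lit 0) (XT.lf (nat_lit 0) (nat_lit 4272047251) (nat_lit 304) (nat_lit 4929716452) (nat_lit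 76) (nat_lit 2227620619) (nat_lit 85) (nat_lit 5) (nat_lit 89) (nat_lit 5) (nat_lit 86) (nat_lit 5) (nat_lit 337) (nat_lit 292) (nat_lit 271)) (XT.nd (nat_lit 78) (nat_lit 304) (nat_lit 0) (XT.lf (nat_lit 0) (nat_lit 7558449870) (nat_lit 228) (nat_lit 2937097624) (nat_lit 304) (nat_lit 1266095689) (nat_lit 82) (nat_lit 5) (nat_lit 85) (nat_lit 5) (nat_lit 86) (nat_lit 5) (nat_lit 338) (nat_lit 292) (nat_lit 270)) (XT.lf (nat_lit 0) (nat_lit 4834764589) (nat_lit 304) (nat_lit 3616385150) (nat_lit 76) (nat_lit 3657665398) (nat_lit 78) (nat_lit 5) (nat_lit 82) (nat_lit 5) (nat_lit 79) (nat_lit 5) (nat_lit 339) (nat_lit 292) (nat_lit 269))))) (XT.nd (nat_lit 234) (nat_lit 684) (nat_lit 0) (XT.nd (nat_lit 78) (nat_lit 456) (nat_lit 0) (XT.lf (nat_lit 0) (nat_lit 9327004555) (nat_lit 228) (nat_lit 1896925829) (nat_lit 304) (nat_lit 1248804035) (nat_lit 75) (nat_lit 5) (nat_lit 78) (nat_lit 5) (nat_lit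 79) (nat_lit 5) (nat_lit 340) (nat_lit 292) (nat_lit 268)) (XT.nd (nat_lit 78) (nat_lit 228) (nat_lit 0) (XT.lf (nat_lit 0) (nat_lit 5011196261) (nat_lit 228) (nat_lit 2863206091) (nat_lit 76) (nat_lit 4978050325) (nat_lit 72) (nat_lit 5) (nat_lit 75) (nat_lit 5) (nat_lit 73) (nat_lit 5) (nat_lit 341) (nat_lit 292) (nat_lit 267)) (XT.lf (nat_lit 0) (nat_lit 10526818591) (nat_lit 228) (nat_lit 1038451331) (nat_lit 304) (nat_lit 1685351439) (nat_lit 69) (nat_lit 5) (nat_lit 72) (nat_lit 5) (nat_lit 73) (nat_lit 5) (nat_lit 342) (nat_lit 292) (nat_lit 266)))) (XT.nd (nat_lit 78) (nat_lit 456) (nat_lit 0) (XT.lf (nat_lit 0) (nat_lit 4736467380) (nat_lit 228) (nat_lit 2821512489) (nat_lit 76) (nat_lit 6107839056) (nat_lit 66) (nat_lit 5) (nat_lit 69) (nat_lit 5) (nat_lit 67) (nat_lit 5) (nat_lit 343) (nat_lit 292) (nat_lit 265)) (XT.nd (nat_lit 78) (nat_lit 228) (nat_lit 0) (XT.lf (nat_lit 0) (nat_lit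 10998237113) (nat_lit 228) (nat_lit 451692291) (nat_lit 304) (nat_lit 2651221520) (nat_lit 63) (nat_lit 5) (nat_lit 66) (nat_lit 5) (nat_lit 67) (nat_lit 5) (nat_lit 344) (nat_lit 292) (nat_lit 264)) (XT.lf (nat_lit 0) (nat_lit 3930363962) (nat_lit 228) (nat_lit 3670637123) (nat_lit 76) (nat_lit 6954153111) (nat_lit 60) (nat_lit 5) (nat_lit 63) (nat_lit 5) (nat_lit 61) (nat_lit 5) (nat_lit 345) (nat_lit 292) (nat_lit 263))))))) (XT.nd (nat_lit 936) (nat_lit 912) (nat_lit 0) (XT.nd (nat_lit 468) (nat_lit 836) (nat_lit 0) (XT.nd (nat_lit 234) (nat_lit 532) (nat_lit 0) (XT.nd (nat_lit 78) (nat_lit 380) (nat_lit 0) (XT.lf (nat_lit 0) (nat_lit 10551644556) (nat_lit 152) (nat_lit 240384038) (nat_lit 228) (nat_lit 4238899538) (nat_lit 58) (nat_lit 5) (nat_lit 60) (nat_lit 5) (nat_lit 61) (nat_lit 5) (nat_lit 346) (nat_lit 292) (nat_lit 262)) (XT.nd (nat_lit 78) (nat_lit 152) (nat_lit 0) (XT.lf (nat_lit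 0) (nat_lit 2494857925) (nat_lit 228) (nat_lit 5623263964) (nat_lit 76) (nat_lit 7409387149) (nat_lit 55) (nat_lit 5) (nat_lit 58) (nat_lit 5) (nat_lit 56) (nat_lit 5) (nat_lit 347) (nat_lit 292) (nat_lit 261)) (XT.lf (nat_lit 0) (nat_lit 8961752073) (nat_lit 152) (nat_lit 525030266) (nat_lit 228) (nat_lit 6560632185) (nat_lit 53) (nat_lit 5) (nat_lit 55) (nat_lit 5) (nat_lit 56) (nat_lit 5) (nat_lit 348) (nat_lit 292) (nat_lit 260)))) (XT.nd (nat_lit 78) (nat_lit 304) (nat_lit 0) (XT.lf (nat_lit 0) (nat_lit 311167928) (nat_lit 228) (nat_lit 8931679402) (nat_lit 76) (nat_lit 7348004032) (nat_lit 50) (nat_lit 5) (nat_lit 53) (nat_lit 5) (nat_lit 51) (nat_lit 5) (nat_lit 349) (nat_lit 292) (nat_lit 259)) (XT.nd (nat_lit 78) (nat_lit 152) (nat_lit 0) (XT.lf (nat_lit 0) (nat_lit 5960920587) (nat_lit 152) (nat_lit 1446423447) (nat_lit 228) (nat_lit 9751698740) (nat_lit 48) (nat_lit 5) (nat_lit 50)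 (nat_lit 5) (nat_lit 51) (nat_lit 5) (nat_lit 350) (nat_lit 292) (nat_lit 258)) (XT.lf (nat_lit 0) (nat_lit 3831201249) (nat_lit 152) (nat_lit 11103453861) (nat_lit 228) (nat_lit 2818723182) (nat_lit 46) (nat_lit 5) (nat_lit 48) (nat_lit 5) (nat_lit 49) (nat_lit 4) (nat_lit 351) (nat_lit 292) (nat_lit 257))))) (XT.nd (nat_lit 234) (nat_lit 456) (nat_lit 0) (XT.nd (nat_lit 78) (nat_lit 152) (nat_lit 0) (XT.lf (nat_lit 0) (nat_lit 1231349732) (nat_lit 152) (nat_lit 3169722881) (nat_lit 228) (nat_lit 13974277439) (nat_lit 43) (nat_lit 5) (nat_lit 45) (nat_lit 5) (nat_lit 46) (nat_lit 5) (nat_lit 352) (nat_lit 292) (nat_lit 256)) (XT.nd (nat_lit 78) (nat_lit 152) (nat_lit 0) (XT.lf (nat_lit 0) (nat_lit 12005550789) (nat_lit 228) (nat_lit 1872824071) (nat_lit 76) (nat_lit 5146770068) (nat_lit 43) (nat_lit 5) (nat_lit 46) (nat_lit 5) (nat_lit 44) (nat_lit 4) (nat_lit 353) (nat_lit 292) (nat_lit 255))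 (XT.lf (nat_lit 0) (nat_lit 338997108) (nat_lit 152) (nat_lit 5494710012) (nat_lit 76) (nat_lit 13871809888) (nat_lit 41) (nat_lit 5) (nat_lit 43) (nat_lit 5) (nat_lit 42) (nat_lit 5) (nat_lit 354) (nat_lit 292) (nat_lit 254)))) (XT.nd (nat_lit 78) (nat_lit 304) (nat_lit 0) (XT.lf (nat_lit 0) (nat_lit 7964651883) (nat_lit 228) (nat_lit 9777639943) (nat_lit 76) (nat_lit 2674220398) (nat_lit 39) (nat_lit 5) (nat_lit 42) (nat_lit 5) (nat_lit 40) (nat_lit 4) (nat_lit 355) (nat_lit 292) (nat_lit 253)) (XT.nd (nat_lit 78) (nat_lit 228) (nat_lit 0) (XT.lf (nat_lit 0) (nat_lit 6411781757) (nat_lit 76) (nat_lit 9634642916) (nat_lit 152) (nat_lit 5114405430) (nat_lit 38) (nat_lit 5) (nat_lit 39) (nat_lit 5) (nat_lit 40) (nat_lit 4) (nat_lit 356) (nat_lit 292) (nat_lit 252)) (XT.lf (nat_lit 0) (nat_lit 1495784953) (nat_lit 152) (nat_lit 1058973463) (nat_lit 228) (nat_lit 19386413943) (nat_lit 35) (nat_lit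 5) (nat_lit 37) (nat_lit 5) (nat_lit 38) (nat_lit 5) (nat_lit 357) (nat_lit 292) (nat_lit 251)))))) (XT.nd (nat_lit 468) (nat_lit 304) (nat_lit 0) (XT.nd (nat_lit 234) (nat_lit 304) (nat_lit 0) (XT.nd (nat_lit 78) (nat_lit 304) (nat_lit 0) (XT.lf (nat_lit 0) (nat_lit 10633956648) (nat_lit 228) (nat_lit 4204491285) (nat_lit 76) (nat_lit 7916609983) (nat_lit 35) (nat_lit 5) (nat_lit 38) (nat_lit 5) (nat_lit 36) (nat_lit 4) (nat_lit 358) (nat_lit 292) (nat_lit 250)) (XT.nd (nat_lit 78) (nat_lit 228) (nat_lit 0) (XT.lf (nat_lit 0) (nat_lit 12918334825) (nat_lit 76) (nat_lit 6239988509) (nat_lit 152) (nat_lit 4450093223) (nat_lit 34) (nat_lit 5) (nat_lit 35) (nat_lit 5) (nat_lit 36) (nat_lit 4) (nat_lit 359) (nat_lit 292) (nat_lit 249)) (XT.lf (nat_lit 0) (nat_lit 3575131347) (nat_lit 228) (nat_lit 18126998282) (nat_lit 76) (nat_lit 2800057912) (nat_lit 31) (nat_lit 5) (nat_lit 34) (nat_lit 5) (nat_lit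 32) (nat_lit 4) (nat_lit 360) (nat_lit 292) (nat_lit 248)))) (XT.nd (nat_lit 78) (nat_lit 304) (nat_lit 0) (XT.lf (nat_lit 0) (nat_lit 11994917476) (nat_lit 228) (nat_lit 1194785118) (nat_lit 76) (nat_lit 12247075883) (nat_lit 31) (nat_lit 5) (nat_lit 34) (nat_lit 5) (nat_lit 32) (nat_lit 4) (nat_lit 361) (nat_lit 292) (nat_lit 247)) (XT.nd (nat_lit 78) (nat_lit 228) (nat_lit 0) (XT.lf (nat_lit 0) (nat_lit 16753272225) (nat_lit 76) (nat_lit 4158095117) (nat_lit 152) (nat_lit 5504474018) (nat_lit 30) (nat_lit 5) (nat_lit 31) (nat_lit 5) (nat_lit 32) (nat_lit 4) (nat_lit 362) (nat_lit 292) (nat_lit 246)) (XT.lf (nat_lit 0) (nat_lit 2833461565) (nat_lit 228) (nat_lit 19337282026) (nat_lit 76) (nat_lit 5270542474) (nat_lit 27) (nat_lit 5) (nat_lit 30) (nat_lit 5) (nat_lit 28) (nat_lit 4) (nat_lit 363) (nat_lit 292) (nat_lit 245))))) (XT.nd (nat_lit 234) (nat_lit 152) (nat_lit 0) (XT.nd (nat_lit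 78) (nat_lit 152) (nat_lit 0) (XT.lf (nat_lit 0) (nat_lit 11536194651) (nat_lit 228) (nat_lit 1804882537) (nat_lit 76) (nat_lit 15173449699) (nat_lit 27) (nat_lit 5) (nat_lit 30) (nat_lit 5) (nat_lit 28) (nat_lit 4) (nat_lit 364) (nat_lit 292) (nat_lit 244)) (XT.nd (nat_lit 78) (nat_lit 76) (nat_lit 0) (XT.lf (nat_lit 0) (nat_lit 16786776707) (nat_lit 76) (nat_lit 3970807052) (nat_lit 152) (nat_lit 8881351006) (nat_lit 26) (nat_lit 5) (nat_lit 27) (nat_lit 5) (nat_lit 28) (nat_lit 4) (nat_lit 365) (nat_lit 292) (nat_lit 243)) (XT.lf (nat_lit 0) (nat_lit 5433747887) (nat_lit 76) (nat_lit 25057577897) (nat_lit 76) (nat_lit 326708839) (nat_lit 25) (nat_lit 4) (nat_lit 26) (nat_lit 5) (nat_lit 26) (nat_lit 4) (nat_lit 366) (nat_lit 292) (nat_lit 242)))) (XT.nd (nat_lit 78) (nat_lit 76) (nat_lit 0) (XT.lf (nat_lit 0) (nat_lit 8585887381) (nat_lit 152) (nat_lit 7414025121) (nat_lit 76) (nat_lit 16050716441)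 (nat_lit 24) (nat_lit 5) (nat_lit 26) (nat_lit 5) (nat_lit 25) (nat_lit 4) (nat_lit 367) (nat_lit 292) (nat_lit 241)) (XT.nd (nat_lit 78) (nat_lit 0) (nat_lit 0) (XT.lf (nat_lit 0) (nat_lit 11543532352) (nat_lit 76) (nat_lit 6433836518) (nat_lit 152) (nat_lit 15366195583) (nat_lit 23) (nat_lit 5) (nat_lit 24) (nat_lit 5) (nat_lit 25) (nat_lit 4) (nat_lit 368) (nat_lit 292) (nat_lit 240)) (XT.lf (nat_lit 0) (nat_lit 27880750434) (nat_lit 152) (nat_lit 3261271957) (nat_lit 0) (nat_lit 3557863030) (nat_lit 23) (nat_lit 5) (nat_lit 25) (nat_lit 4) (nat_lit 23) (nat_lit 4) (nat_lit 369) (nat_lit 292) (nat_lit 239))))))))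
noncomputable def xc35 : XT := (XT.nd (nat_lit 1950) (nat_lit 0) (nat_lit 0) (XT.nd (nat_lit 936) (nat_lit 456) (nat_lit 0) (XT.nd (nat_lit 468) (nat_lit 304) (nat_lit 0) (XT.nd (nat_lit 234) (nat_lit 152) (nat_lit 0) (XT.nd (nat_lit 78) (nat_lit 76) (nat_lit 0) (XT.lf (nat_lit 0) (nat_lit 2270553044) (nat_lit 152) (nat_lit 19808022164) (nat_lit 76) (nat_lit 14040113570) (nat_lit 21) (nat_lit 5) (nat_lit 23) (nat_lit 5) (nat_lit 22) (nat_lit 4) (nat_lit 370) (nat_lit 292) (nat_lit 238)) (XT.nd (nat_lit 78) (nat_lit 76) (nat_lit 0) (XT.lf (nat_lit 0) (nat_lit 11644104442) (nat_lit 152) (nat_lit 869577055) (nat_lit 76) (nat_lit 25093620498) (nat_lit 21) (nat_lit 5) (nat_lit 23) (nat_lit 5) (nat_lit 22) (nat_lit 4) (nat_lit 371) (nat_lit 292) (nat_lit 237)) (XT.lf (nat_lit 0) (nat_lit 19275403389) (nat_lit 76) (nat_lit 2334496828) (nat_lit 152) (nat_lit 17556745749) (nat_lit 20) (nat_lit 5) (nat_lit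 21) (nat_lit 5) (nat_lit 22) (nat_lit 4) (nat_lit 372) (nat_lit 292) (nat_lit 236)))) (XT.nd (nat_lit 78) (nat_lit 152) (nat_lit 0) (XT.lf (nat_lit 0) (nat_lit 32102944797) (nat_lit 152) (nat_lit 552742965) (nat_lit 0) (nat_lit 8147407363) (nat_lit 20) (nat_lit 5) (nat_lit 22) (nat_lit 4) (nat_lit 20) (nat_lit 4) (nat_lit 373) (nat_lit 292) (nat_lit 235)) (XT.nd (nat_lit 78) (nat_lit 0) (nat_lit 0) (XT.lf (nat_lit 0) (nat_lit 747553325) (nat_lit 152) (nat_lit 22513371269) (nat_lit 76) (nat_lit 19255476405) (nat_lit 18) (nat_lit 5) (nat_lit 20) (nat_lit 5) (nat_lit 19) (nat_lit 4) (nat_lit 374) (nat_lit 292) (nat_lit 234)) (XT.lf (nat_lit 0) (nat_lit 10438784597) (nat_lit 152) (nat_lit 2911949965) (nat_lit 76) (nat_lit 30963527108) (nat_lit 18) (nat_lit 5) (nat_lit 20) (nat_lit 5) (nat_lit 19) (nat_lit 4) (nat_lit 375) (nat_lit 292) (nat_lit 233))))) (XT.nd (nat_lit 234) (nat_lit 152) (nat_lit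 0) (XT.nd (nat_lit 78) (nat_lit 76) (nat_lit 0) (XT.lf (nat_lit 0) (nat_lit 17917247485) (nat_lit 76) (nat_lit 2815900472) (nat_lit 152) (nat_lit 25465315971) (nat_lit 17) (nat_lit 5) (nat_lit 18) (nat_lit 5) (nat_lit 19) (nat_lit 4) (nat_lit 376) (nat_lit 292) (nat_lit 232)) (XT.nd (nat_lit 78) (nat_lit 76) (nat_lit 0) (XT.lf (nat_lit 0) (nat_lit 31599256022) (nat_lit 152) (nat_lit 8506899432) (nat_lit 0) (nat_lit 8069015448) (nat_lit 17) (nat_lit 5) (nat_lit 19) (nat_lit 4) (nat_lit 17) (nat_lit 4) (nat_lit 377) (nat_lit 292) (nat_lit 231)) (XT.lf (nat_lit 0) (nat_lit 12373818059) (nat_lit 76) (nat_lit 30732209434) (nat_lit 76) (nat_lit 7141770133) (nat_lit 16) (nat_lit 4) (nat_lit 17) (nat_lit 5) (nat_lit 17) (nat_lit 4) (nat_lit 378) (nat_lit 292) (nat_lit 230)))) (XT.nd (nat_lit 78) (nat_lit 76) (nat_lit 0) (XT.lf (nat_lit 0) (nat_lit 2749580322) (nat_lit 152) (nat_lit 18066123368) (nat_lit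 76) (nat_lit 31606376580) (nat_lit 15) (nat_lit 5) (nat_lit 17) (nat_lit 5) (nat_lit 16) (nat_lit 4) (nat_lit 379) (nat_lit 292) (nat_lit 229)) (XT.nd (nat_lit 78) (nat_lit 0) (nat_lit 0) (XT.lf (nat_lit 0) (nat_lit 2622066724) (nat_lit 76) (nat_lit 10345637791) (nat_lit 152) (nat_lit 41735858471) (nat_lit 14) (nat_lit 5) (nat_lit 15) (nat_lit 5) (nat_lit 16) (nat_lit 4) (nat_lit 380) (nat_lit 292) (nat_lit 228)) (XT.lf (nat_lit 0) (nat_lit 23845103357) (nat_lit 152) (nat_lit 32466966739) (nat_lit 0) (nat_lit 782603002) (nat_lit 14) (nat_lit 5) (nat_lit 16) (nat_lit 4) (nat_lit 14) (nat_lit 4) (nat_lit 381) (nat_lit 292) (nat_lit 227)))))) (XT.nd (nat_lit 468) (nat_lit 228) (nat_lit 0) (XT.nd (nat_lit 234) (nat_lit 152) (nat_lit 0) (XT.nd (nat_lit 78) (nat_lit 76) (nat_lit 0) (XT.lf (nat_lit 0) (nat_lit 35327292210) (nat_lit 152) (nat_lit 12059514303) (nat_lit 0) (nat_lit 12216708707) (nat_lit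 14) (nat_lit 5) (nat_lit 16) (nat_lit 4) (nat_lit 14) (nat_lit 4) (nat_lit 382) (nat_lit 292) (nat_lit 226)) (XT.nd (nat_lit 78) (nat_lit 0) (nat_lit 0) (XT.lf (nat_lit 0) (nat_lit 9473766117) (nat_lit 76) (nat_lit 37959462538) (nat_lit 76) (nat_lit 14803085561) (nat_lit 13) (nat_lit 4) (nat_lit 14) (nat_lit 5) (nat_lit 14) (nat_lit 4) (nat_lit 383) (nat_lit 292) (nat_lit 225)) (XT.lf (nat_lit 0) (nat_lit 32258583329) (nat_lit 76) (nat_lit 27969822524) (nat_lit 76) (nat_lit 4769832715) (nat_lit 13) (nat_lit 4) (nat_lit 14) (nat_lit 5) (nat_lit 14) (nat_lit 4) (nat_lit 384) (nat_lit 292) (nat_lit 224)))) (XT.nd (nat_lit 78) (nat_lit 76) (nat_lit 0) (XT.lf (nat_lit 0) (nat_lit 5613918783) (nat_lit 152) (nat_lit 11845270708) (nat_lit 76) (nat_lit 50438570561) (nat_lit 12) (nat_lit 5) (nat_lit 14) (nat_lit 5) (nat_lit 13) (nat_lit 4) (nat_lit 385) (nat_lit 292) (nat_lit 223)) (XT.nd (nat_lit 78)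 (nat_lit 0) (nat_lit 0) (XT.lf (nat_lit 0) (nat_lit 10173511375) (nat_lit 76) (nat_lit 6306584850) (nat_lit 152) (nat_lit 54458891308) (nat_lit 11) (nat_lit 5) (nat_lit 12) (nat_lit 5) (nat_lit 13) (nat_lit 4) (nat_lit 386) (nat_lit 292) (nat_lit 222)) (XT.lf (nat_lit 0) (nat_lit 28028621221) (nat_lit 152) (nat_lit 40710437141) (nat_lit 0) (nat_lit 5389049991) (nat_lit 11) (nat_lit 5) (nat_lit 13) (nat_lit 4) (nat_lit 11) (nat_lit 4) (nat_lit 387) (nat_lit 292) (nat_lit 221))))) (XT.nd (nat_lit 234) (nat_lit 152) (nat_lit 0) (XT.nd (nat_lit 78) (nat_lit 76) (nat_lit 0) (XT.lf (nat_lit 0) (nat_lit 40183894535) (nat_lit 152) (nat_lit 19782426013) (nat_lit 0) (nat_lit 17509487979) (nat_lit 11) (nat_lit 5) (nat_lit 13) (nat_lit 4) (nat_lit 11) (nat_lit 4) (nat_lit 388) (nat_lit 292) (nat_lit 220)) (XT.nd (nat_lit 78) (nat_lit 0) (nat_lit 0) (XT.lf (nat_lit 0) (nat_lit 2171380018) (nat_lit 76) (nat_lit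 50763727155) (nat_lit 76) (nat_lit 28056144100) (nat_lit 10) (nat_lit 4) (nat_lit 11) (nat_lit 5) (nat_lit 11) (nat_lit 4) (nat_lit 389) (nat_lit 292) (nat_lit 219)) (XT.lf (nat_lit 0) (nat_lit 25575099001) (nat_lit 76) (nat_lit 40920696069) (nat_lit 76) (nat_lit 18181516347) (nat_lit 10) (nat_lit 4) (nat_lit 11) (nat_lit 5) (nat_lit 11) (nat_lit 4) (nat_lit 390) (nat_lit 292) (nat_lit 218)))) (XT.nd (nat_lit 78) (nat_lit 152) (nat_lit 0) (XT.lf (nat_lit 0) (nat_lit 50090745008) (nat_lit 76) (nat_lit 30613555216) (nat_lit 76) (nat_lit 7844283430) (nat_lit 10) (nat_lit 4) (nat_lit 11) (nat_lit 5) (nat_lit 11) (nat_lit 4) (nat_lit 391) (nat_lit 292) (nat_lit 217)) (XT.nd (nat_lit 78) (nat_lit 76) (nat_lit 0) (XT.lf (nat_lit 0) (nat_lit 2922013316) (nat_lit 152) (nat_lit 16866243861) (nat_lit 76) (nat_lit 72825168703) (nat_lit 9) (nat_lit 5) (nat_lit 11) (nat_lit 5) (nat_lit 10) (nat_lit 4) (nat_lit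 392) (nat_lit 292) (nat_lit 216)) (XT.lf (nat_lit 0) (nat_lit 5785251767) (nat_lit 76) (nat_lit 8308579292) (nat_lit 152) (nat_lit 82784468299) (nat_lit 8) (nat_lit 5) (nat_lit 9) (nat_lit 5) (nat_lit 10) (nat_lit 4) (nat_lit 393) (nat_lit 292) (nat_lit 215))))))) (XT.nd (nat_lit 41418) (nat_lit 0) (nat_lit 6156) (XT.nd (nat_lit 40950) (nat_lit 0) (nat_lit 11248) (XT.nd (nat_lit 40716) (nat_lit 0) (nat_lit 15048) (XT.nd (nat_lit 40560) (nat_lit 0) (nat_lit 18696) (XT.lf (nat_lit 0) (nat_lit 38576909479) (nat_lit 152) (nat_lit 51101240977) (nat_lit 0) (nat_lit 16367223310) (nat_lit 8) (nat_lit 5) (nat_lit 10) (nat_lit 4) (nat_lit 8) (nat_lit 4) (nat_lit 395) (nat_lit 292) (nat_lit 213)) (XT.nd (nat_lit 78) (nat_lit 1140) (nat_lit 0) (XT.lf (nat_lit 0) (nat_lit 2533343746) (nat_lit 988) (nat_lit 491180491) (nat_lit 988) (nat_lit 491180491) (nat_lit 269) (nat_lit 4) (nat_lit 282) (nat_lit 5) (nat_lit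 282) (nat_lit 4) (nat_lit 314) (nat_lit 293) (nat_lit 293)) (XT.lf (nat_lit 0) (nat_lit 4513819583) (nat_lit 1140) (nat_lit 929600712) (nat_lit 0) (nat_lit 1677428301) (nat_lit 254) (nat_lit 5) (nat_lit 269) (nat_lit 4) (nat_lit 254) (nat_lit 4) (nat_lit 315) (nat_lit 293) (nat_lit 292)))) (XT.nd (nat_lit 78) (nat_lit 1216) (nat_lit 0) (XT.lf (nat_lit 0) (nat_lit 194606185) (nat_lit 1216) (nat_lit 2629198000) (nat_lit 1292) (nat_lit 4395009273) (nat_lit 222) (nat_lit 5) (nat_lit 238) (nat_lit 5) (nat_lit 239) (nat_lit 4) (nat_lit 316) (nat_lit 293) (nat_lit 291)) (XT.nd (nat_lit 78) (nat_lit 532) (nat_lit 0) (XT.lf (nat_lit 0) (nat_lit 974376787) (nat_lit 684) (nat_lit 5896196497) (nat_lit 76) (nat_lit 454839489) (nat_lit 213) (nat_lit 5) (nat_lit 222) (nat_lit 5) (nat_lit 214) (nat_lit 4) (nat_lit 317) (nat_lit 293) (nat_lit 290)) (XT.lf (nat_lit 0) (nat_lit 2721207450) (nat_lit 532) (nat_lit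 3670026909) (nat_lit 608) (nat_lit 1048902586) (nat_lit 206) (nat_lit 5) (nat_lit 213) (nat_lit 5) (nat_lit 214) (nat_lit 4) (nat_lit 318) (nat_lit 293) (nat_lit 289))))) (XT.nd (nat_lit 234) (nat_lit 1976) (nat_lit 0) (XT.nd (nat_lit 78) (nat_lit 1140) (nat_lit 0) (XT.lf (nat_lit 0) (nat_lit 4095391364) (nat_lit 608) (nat_lit 185779247) (nat_lit 684) (nat_lit 3282776066) (nat_lit 197) (nat_lit 5) (nat_lit 205) (nat_lit 5) (nat_lit 206) (nat_lit 5) (nat_lit 319) (nat_lit 293) (nat_lit 288)) (XT.nd (nat_lit 78) (nat_lit 532) (nat_lit 0) (XT.lf (nat_lit 0) (nat_lit 2014387898) (nat_lit 608) (nat_lit 2170035173) (nat_lit 76) (nat_lit 3511932377) (nat_lit 189) (nat_lit 5) (nat_lit 197) (nat_lit 5) (nat_lit 190) (nat_lit 5) (nat_lit 320) (nat_lit 293) (nat_lit 287)) (XT.lf (nat_lit 0) (nat_lit 7040480903) (nat_lit 532) (nat_lit 340136546) (nat_lit 608) (nat_lit 457789748) (nat_lit 182) (nat_lit 5)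 (nat_lit 189) (nat_lit 5) (nat_lit 190) (nat_lit 5) (nat_lit 321) (nat_lit 293) (nat_lit 286)))) (XT.nd (nat_lit 78) (nat_lit 988) (nat_lit 0) (XT.lf (nat_lit 0) (nat_lit 607345493) (nat_lit 456) (nat_lit 4242193648) (nat_lit 532) (nat_lit 3139119607) (nat_lit 169) (nat_lit 5) (nat_lit 175) (nat_lit 5) (nat_lit 176) (nat_lit 5) (nat_lit 322) (nat_lit 293) (nat_lit 285)) (XT.nd (nat_lit 78) (nat_lit 456) (nat_lit 0) (XT.lf (nat_lit 0) (nat_lit 2101443696) (nat_lit 456) (nat_lit 17924137) (nat_lit 532) (nat_lit 6029489334) (nat_lit 162) (nat_lit 5) (nat_lit 168) (nat_lit 5) (nat_lit 169) (nat_lit 5) (nat_lit 323) (nat_lit 293) (nat_lit 284)) (XT.lf (nat_lit 0) (nat_lit 3619141159) (nat_lit 456) (nat_lit 3894056746) (nat_lit 532) (nat_lit 804945782) (nat_lit 156) (nat_lit 5) (nat_lit 162) (nat_lit 5) (nat_lit 163) (nat_lit 5) (nat_lit 324) (nat_lit 293) (nat_lit 283)))))) (XT.nd (nat_lit 468) (nat_lit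 2204) (nat_lit 0) (XT.nd (nat_lit 234) (nat_lit 1520) (nat_lit 0) (XT.nd (nat_lit 78) (nat_lit 912) (nat_lit 0) (XT.lf (nat_lit 0) (nat_lit 4497402124) (nat_lit 456) (nat_lit 3318387278) (nat_lit 76) (nat_lit 681638711) (nat_lit 150) (nat_lit 5) (nat_lit 156) (nat_lit 5) (nat_lit 151) (nat_lit 5) (nat_lit 325) (nat_lit 293) (nat_lit 282)) (XT.nd (nat_lit 78) (nat_lit 380) (nat_lit 0) (XT.lf (nat_lit 0) (nat_lit 1284375818) (nat_lit 532) (nat_lit 1919074993) (nat_lit 76) (nat_lit 5483260090) (nat_lit 143) (nat_lit 5) (nat_lit 150) (nat_lit 5) (nat_lit 144) (nat_lit 5) (nat_lit 326) (nat_lit 293) (nat_lit 281)) (XT.lf (nat_lit 0) (nat_lit 6683455639) (nat_lit 456) (nat_lit 502588048) (nat_lit 76) (nat_lit 1700336974) (nat_lit 138) (nat_lit 5) (nat_lit 144) (nat_lit 5) (nat_lit 139) (nat_lit 5) (nat_lit 327) (nat_lit 293) (nat_lit 280)))) (XT.nd (nat_lit 78) (nat_lit 760) (nat_lit 0) (XT.lf (nat_lit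 0) (nat_lit 937173453) (nat_lit 304) (nat_lit 2219963901) (nat_lit 380) (nat_lit 5939129128) (nat_lit 128) (nat_lit 5) (nat_lit 132) (nat_lit 5) (nat_lit 133) (nat_lit 5) (nat_lit 328) (nat_lit 293) (nat_lit 279)) (XT.nd (nat_lit 78) (nat_lit 380) (nat_lit 0) (XT.lf (nat_lit 0) (nat_lit 2398469025) (nat_lit 380) (nat_lit 6304875286) (nat_lit 456) (nat_lit 613830690) (nat_lit 123) (nat_lit 5) (nat_lit 128) (nat_lit 5) (nat_lit 129) (nat_lit 5) (nat_lit 329) (nat_lit 293) (nat_lit 278)) (XT.lf (nat_lit 0) (nat_lit 3846324652) (nat_lit 304) (nat_lit 991612698) (nat_lit 380) (nat_lit 4711122697) (nat_lit 118) (nat_lit 5) (nat_lit 122) (nat_lit 5) (nat_lit 123) (nat_lit 5) (nat_lit 330) (nat_lit 293) (nat_lit 277))))) (XT.nd (nat_lit 234) (nat_lit 1140) (nat_lit 0) (XT.nd (nat_lit 78) (nat_lit 684) (nat_lit 0) (XT.lf (nat_lit 0) (nat_lit 728081559) (nat_lit 380) (nat_lit 4506507228) (nat_lit 76)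 (nat_lit 4558061553) (nat_lit 113) (nat_lit 5) (nat_lit 118) (nat_lit 5) (nat_lit 114) (nat_lit 5) (nat_lit 331) (nat_lit 293) (nat_lit 276)) (XT.nd (nat_lit 78) (nat_lit 380) (nat_lit 0) (XT.lf (nat_lit 0) (nat_lit 6303657731) (nat_lit 380) (nat_lit 3341176593) (nat_lit 76) (nat_lit 403407494) (nat_lit 109) (nat_lit 5) (nat_lit 114) (nat_lit 5) (nat_lit 110) (nat_lit 5) (nat_lit 332) (nat_lit 293) (nat_lit 275)) (XT.lf (nat_lit 0) (nat_lit 1811503999) (nat_lit 380) (nat_lit 2224708819) (nat_lit 76) (nat_lit 6279758545) (nat_lit 104) (nat_lit 5) (nat_lit 109) (nat_lit 5) (nat_lit 105) (nat_lit 5) (nat_lit 333) (nat_lit 293) (nat_lit 274)))) (XT.nd (nat_lit 78) (nat_lit 912) (nat_lit 0) (XT.lf (nat_lit 0) (nat_lit 7545484558) (nat_lit 304) (nat_lit 1152005577) (nat_lit 76) (nat_lit 1899226290) (nat_lit 101) (nat_lit 5) (nat_lit 105) (nat_lit 5) (nat_lit 102) (nat_lit 5) (nat_lit 334) (nat_lit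 293) (nat_lit 273)) (XT.nd (nat_lit 78) (nat_lit 532) (nat_lit 0) (XT.lf (nat_lit 0) (nat_lit 2627205708) (nat_lit 380) (nat_lit 143274077) (nat_lit 76) (nat_lit 8120167837) (nat_lit 96) (nat_lit 5) (nat_lit 101) (nat_lit 5) (nat_lit 97) (nat_lit 5) (nat_lit 335) (nat_lit 293) (nat_lit 272)) (XT.lf (nat_lit 0) (nat_lit 808377925) (nat_lit 304) (nat_lit 7729075459) (nat_lit 380) (nat_lit 2660645135) (nat_lit 89) (nat_lit 5) (nat_lit 93) (nat_lit 5) (nat_lit 94) (nat_lit 5) (nat_lit 336) (nat_lit 293) (nat_lit 271))))))))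
noncomputable def xc36 : XT := (XT.nd (nat_lit 1794) (nat_lit 1520) (nat_lit 0) (XT.nd (nat_lit 858) (nat_lit 1672) (nat_lit 0) (XT.nd (nat_lit 390) (nat_lit 1216) (nat_lit 0) (XT.nd (nat_lit 156) (nat_lit 760) (nat_lit 0) (XT.nd (nat_lit 78) (nat_lit 228) (nat_lit 0) (XT.lf (nat_lit 0) (nat_lit 1682133692) (nat_lit 228) (nat_lit 1479275799) (nat_lit 304) (nat_lit 8358578091) (nat_lit 85) (nat_lit 5) (nat_lit 88) (nat_lit 5) (nat_lit 89) (nat_lit 5) (nat_lit 337) (nat_lit 293) (nat_lit 270)) (XT.lf (nat_lit 0) (nat_lit 2444630026) (nat_lit 228) (nat_lit 6801768039) (nat_lit 304) (nat_lit 2610029165) (nat_lit 82) (nat_lit 5) (nat_lit 85) (nat_lit 5) (nat_lit 86) (nat_lit 5) (nat_lit 338) (nat_lit 293) (nat_lit 269))) (XT.nd (nat_lit 78) (nat_lit 456) (nat_lit 0) (XT.lf (nat_lit 0) (nat_lit 3109769414) (nat_lit 228) (nat_lit 245908947) (nat_lit 304) (nat_lit 8853173238) (nat_lit 78) (nat_lit 5)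 (nat_lit 81) (nat_lit 5) (nat_lit 82) (nat_lit 5) (nat_lit 339) (nat_lit 293) (nat_lit 268)) (XT.nd (nat_lit 78) (nat_lit 228) (nat_lit 0) (XT.lf (nat_lit 0) (nat_lit 3618782639) (nat_lit 228) (nat_lit 5997377579) (nat_lit 304) (nat_lit 2960493582) (nat_lit 75) (nat_lit 5) (nat_lit 78) (nat_lit 5) (nat_lit 79) (nat_lit 5) (nat_lit 340) (nat_lit 293) (nat_lit 267)) (XT.lf (nat_lit 0) (nat_lit 3164541530) (nat_lit 228) (nat_lit 8958775836) (nat_lit 76) (nat_lit 838620010) (nat_lit 72) (nat_lit 5) (nat_lit 75) (nat_lit 5) (nat_lit 73) (nat_lit 5) (nat_lit 341) (nat_lit 293) (nat_lit 266))))) (XT.nd (nat_lit 234) (nat_lit 532) (nat_lit 0) (XT.nd (nat_lit 78) (nat_lit 456) (nat_lit 0) (XT.lf (nat_lit 0) (nat_lit 4194772931) (nat_lit 228) (nat_lit 5394970565) (nat_lit 304) (nat_lit 3774248441) (nat_lit 69) (nat_lit 5) (nat_lit 72) (nat_lit 5) (nat_lit 73) (nat_lit 5) (nat_lit 342) (nat_lit 293) (nat_lit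 265)) (XT.nd (nat_lit 78) (nat_lit 228) (nat_lit 0) (XT.lf (nat_lit 0) (nat_lit 2514621199) (nat_lit 228) (nat_lit 9562724536) (nat_lit 76) (nat_lit 1707675732) (nat_lit 66) (nat_lit 5) (nat_lit 69) (nat_lit 5) (nat_lit 67) (nat_lit 5) (nat_lit 343) (nat_lit 293) (nat_lit 264)) (XT.lf (nat_lit 0) (nat_lit 4011317448) (nat_lit 228) (nat_lit 5084824607) (nat_lit 304) (nat_lit 5128187017) (nat_lit 63) (nat_lit 5) (nat_lit 66) (nat_lit 5) (nat_lit 67) (nat_lit 5) (nat_lit 344) (nat_lit 293) (nat_lit 263)))) (XT.nd (nat_lit 78) (nat_lit 304) (nat_lit 0) (XT.lf (nat_lit 0) (nat_lit 1321958295) (nat_lit 228) (nat_lit 11089634945) (nat_lit 76) (nat_lit 2272862711) (nat_lit 60) (nat_lit 5) (nat_lit 63) (nat_lit 5) (nat_lit 61) (nat_lit 5) (nat_lit 345) (nat_lit 293) (nat_lit 262)) (XT.nd (nat_lit 78) (nat_lit 152) (nat_lit 0) (XT.lf (nat_lit 0) (nat_lit 2877018040) (nat_lit 152) (nat_lit 5171078179)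 (nat_lit 228) (nat_lit 7116214767) (nat_lit 58) (nat_lit 5) (nat_lit 60) (nat_lit 5) (nat_lit 61) (nat_lit 5) (nat_lit 346) (nat_lit 293) (nat_lit 261)) (XT.lf (nat_lit 0) (nat_lit 1908070630) (nat_lit 152) (nat_lit 13236032136) (nat_lit 228) (nat_lit 523079021) (nat_lit 56) (nat_lit 5) (nat_lit 58) (nat_lit 5) (nat_lit 59) (nat_lit 4) (nat_lit 347) (nat_lit 293) (nat_lit 260)))))) (XT.nd (nat_lit 468) (nat_lit 684) (nat_lit 0) (XT.nd (nat_lit 234) (nat_lit 532) (nat_lit 0) (XT.nd (nat_lit 78) (nat_lit 228) (nat_lit 0) (XT.lf (nat_lit 0) (nat_lit 564647742) (nat_lit 152) (nat_lit 5774774824) (nat_lit 228) (nat_lit 9852017923) (nat_lit 53) (nat_lit 5) (nat_lit 55) (nat_lit 5) (nat_lit 56) (nat_lit 5) (nat_lit 348) (nat_lit 293) (nat_lit 259)) (XT.nd (nat_lit 78) (nat_lit 228) (nat_lit 0) (XT.lf (nat_lit 0) (nat_lit 13579354508) (nat_lit 228) (nat_lit 1078680086) (nat_lit 76) (nat_lit 2082394763)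 (nat_lit 53) (nat_lit 5) (nat_lit 56) (nat_lit 5) (nat_lit 54) (nat_lit 4) (nat_lit 349) (nat_lit 293) (nat_lit 258)) (XT.lf (nat_lit 0) (nat_lit 3872566651) (nat_lit 228) (nat_lit 3133172516) (nat_lit 76) (nat_lit 10307531607) (nat_lit 50) (nat_lit 5) (nat_lit 53) (nat_lit 5) (nat_lit 51) (nat_lit 5) (nat_lit 350) (nat_lit 293) (nat_lit 257)))) (XT.nd (nat_lit 78) (nat_lit 380) (nat_lit 0) (XT.lf (nat_lit 0) (nat_lit 11223702379) (nat_lit 228) (nat_lit 5598869855) (nat_lit 76) (nat_lit 1090330616) (nat_lit 48) (nat_lit 5) (nat_lit 51) (nat_lit 5) (nat_lit 49) (nat_lit 4) (nat_lit 351) (nat_lit 293) (nat_lit 256)) (XT.nd (nat_lit 78) (nat_lit 152) (nat_lit 0) (XT.lf (nat_lit 0) (nat_lit 485131572) (nat_lit 228) (nat_lit 8553341726) (nat_lit 76) (nat_lit 9501157641) (nat_lit 45) (nat_lit 5) (nat_lit 48) (nat_lit 5) (nat_lit 46) (nat_lit 5) (nat_lit 352) (nat_lit 293) (nat_lit 255)) (XT.lf (nat_lit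 0) (nat_lit 7156376439) (nat_lit 152) (nat_lit 746862770) (nat_lit 228) (nat_lit 11291787671) (nat_lit 43) (nat_lit 5) (nat_lit 45) (nat_lit 5) (nat_lit 46) (nat_lit 5) (nat_lit 353) (nat_lit 293) (nat_lit 254))))) (XT.nd (nat_lit 234) (nat_lit 380) (nat_lit 0) (XT.nd (nat_lit 78) (nat_lit 228) (nat_lit 0) (XT.lf (nat_lit 0) (nat_lit 3761930603) (nat_lit 76) (nat_lit 12029513460) (nat_lit 152) (nat_lit 4088792224) (nat_lit 42) (nat_lit 5) (nat_lit 43) (nat_lit 5) (nat_lit 44) (nat_lit 4) (nat_lit 354) (nat_lit 293) (nat_lit 253)) (XT.nd (nat_lit 78) (nat_lit 152) (nat_lit 0) (XT.lf (nat_lit 0) (nat_lit 3439006197) (nat_lit 152) (nat_lit 214646201) (nat_lit 76) (nat_lit 16944096289) (nat_lit 41) (nat_lit 5) (nat_lit 43) (nat_lit 5) (nat_lit 42) (nat_lit 5) (nat_lit 355) (nat_lit 293) (nat_lit 252)) (XT.lf (nat_lit 0) (nat_lit 11374138882) (nat_lit 228) (nat_lit 4803922348) (nat_lit 76) (nat_lit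 5168412883) (nat_lit 39) (nat_lit 5) (nat_lit 42) (nat_lit 5) (nat_lit 40) (nat_lit 4) (nat_lit 356) (nat_lit 293) (nat_lit 251)))) (XT.nd (nat_lit 78) (nat_lit 304) (nat_lit 0) (XT.lf (nat_lit 0) (nat_lit 12038386116) (nat_lit 76) (nat_lit 7729225793) (nat_lit 152) (nat_lit 2363192682) (nat_lit 38) (nat_lit 5) (nat_lit 39) (nat_lit 5) (nat_lit 40) (nat_lit 4) (nat_lit 357) (nat_lit 293) (nat_lit 250)) (XT.nd (nat_lit 78) (nat_lit 76) (nat_lit 0) (XT.lf (nat_lit 0) (nat_lit 5552389215) (nat_lit 228) (nat_lit 16182002777) (nat_lit 76) (nat_lit 1217278919) (nat_lit 35) (nat_lit 5) (nat_lit 38) (nat_lit 5) (nat_lit 36) (nat_lit 4) (nat_lit 358) (nat_lit 293) (nat_lit 249)) (XT.lf (nat_lit 0) (nat_lit 621182346) (nat_lit 76) (nat_lit 13293854132) (nat_lit 152) (nat_lit 9894851655) (nat_lit 34) (nat_lit 5) (nat_lit 35) (nat_lit 5) (nat_lit 36) (nat_lit 4) (nat_lit 359) (nat_lit 293) (nat_lit 248)))))))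 (XT.nd (nat_lit 936) (nat_lit 532) (nat_lit 0) (XT.nd (nat_lit 468) (nat_lit 380) (nat_lit 0) (XT.nd (nat_lit 234) (nat_lit 304) (nat_lit 0) (XT.nd (nat_lit 78) (nat_lit 304) (nat_lit 0) (XT.lf (nat_lit 0) (nat_lit 18444022706) (nat_lit 76) (nat_lit 4331896342) (nat_lit 152) (nat_lit 1932707741) (nat_lit 34) (nat_lit 5) (nat_lit 35) (nat_lit 5) (nat_lit 36) (nat_lit 4) (nat_lit 360) (nat_lit 293) (nat_lit 247)) (XT.nd (nat_lit 78) (nat_lit 76) (nat_lit 0) (XT.lf (nat_lit 0) (nat_lit 6379482797) (nat_lit 228) (nat_lit 14183629459) (nat_lit 76) (nat_lit 5085028274) (nat_lit 31) (nat_lit 5) (nat_lit 34) (nat_lit 5) (nat_lit 32) (nat_lit 4) (nat_lit 361) (nat_lit 293) (nat_lit 246)) (XT.lf (nat_lit 0) (nat_lit 3431210654) (nat_lit 76) (nat_lit 11697002146) (nat_lit 152) (nat_lit 11504028077) (nat_lit 30) (nat_lit 5) (nat_lit 31) (nat_lit 5) (nat_lit 32) (nat_lit 4) (nat_lit 362) (nat_lit 293) (nat_lit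 245)))) (XT.nd (nat_lit 78) (nat_lit 304) (nat_lit 0) (XT.lf (nat_lit 0) (nat_lit 22077319192) (nat_lit 76) (nat_lit 2304234335) (nat_lit 152) (nat_lit 3281988947) (nat_lit 30) (nat_lit 5) (nat_lit 31) (nat_lit 5) (nat_lit 32) (nat_lit 4) (nat_lit 363) (nat_lit 293) (nat_lit 244)) (XT.nd (nat_lit 78) (nat_lit 76) (nat_lit 0) (XT.lf (nat_lit 0) (nat_lit 5369355347) (nat_lit 228) (nat_lit 15846643530) (nat_lit 76) (nat_lit 7525199008) (nat_lit 27) (nat_lit 5) (nat_lit 30) (nat_lit 5) (nat_lit 28) (nat_lit 4) (nat_lit 364) (nat_lit 293) (nat_lit 243)) (XT.lf (nat_lit 0) (nat_lit 2396885779) (nat_lit 76) (nat_lit 12019369132) (nat_lit 152) (nat_lit 15454590461) (nat_lit 26) (nat_lit 5) (nat_lit 27) (nat_lit 5) (nat_lit 28) (nat_lit 4) (nat_lit 365) (nat_lit 293) (nat_lit 242))))) (XT.nd (nat_lit 234) (nat_lit 228) (nat_lit 0) (XT.nd (nat_lit 78) (nat_lit 152) (nat_lit 0) (XT.lf (nat_lit 0) (nat_lit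 21749667143) (nat_lit 76) (nat_lit 2257062661) (nat_lit 152) (nat_lit 7047518126) (nat_lit 26) (nat_lit 5) (nat_lit 27) (nat_lit 5) (nat_lit 28) (nat_lit 4) (nat_lit 366) (nat_lit 293) (nat_lit 241)) (XT.nd (nat_lit 78) (nat_lit 0) (nat_lit 0) (XT.lf (nat_lit 0) (nat_lit 1847763481) (nat_lit 152) (nat_lit 22554242860) (nat_lit 76) (nat_lit 7891232234) (nat_lit 24) (nat_lit 5) (nat_lit 26) (nat_lit 5) (nat_lit 25) (nat_lit 4) (nat_lit 367) (nat_lit 293) (nat_lit 240)) (XT.lf (nat_lit 0) (nat_lit 11095290067) (nat_lit 152) (nat_lit 3883811461) (nat_lit 76) (nat_lit 18611395332) (nat_lit 24) (nat_lit 5) (nat_lit 26) (nat_lit 5) (nat_lit 25) (nat_lit 4) (nat_lit 368) (nat_lit 293) (nat_lit 239)))) (XT.nd (nat_lit 78) (nat_lit 152) (nat_lit 0) (XT.lf (nat_lit 0) (nat_lit 15909804943) (nat_lit 76) (nat_lit 4983911020) (nat_lit 152) (nat_lit 14056254469) (nat_lit 23) (nat_lit 5) (nat_lit 24) (nat_lit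 5) (nat_lit 25) (nat_lit 4) (nat_lit 369) (nat_lit 293) (nat_lit 238)) (XT.nd (nat_lit 78) (nat_lit 76) (nat_lit 0) (XT.lf (nat_lit 0) (nat_lit 230484258) (nat_lit 76) (nat_lit 30984146414) (nat_lit 76) (nat_lit 5161817659) (nat_lit 22) (nat_lit 4) (nat_lit 23) (nat_lit 5) (nat_lit 23) (nat_lit 4) (nat_lit 370) (nat_lit 293) (nat_lit 237)) (XT.lf (nat_lit 0) (nat_lit 4282351997) (nat_lit 152) (nat_lit 17214739179) (nat_lit 76) (nat_lit 16370365611) (nat_lit 21) (nat_lit 5) (nat_lit 23) (nat_lit 5) (nat_lit 22) (nat_lit 4) (nat_lit 371) (nat_lit 293) (nat_lit 236)))))) (XT.nd (nat_lit 468) (nat_lit 228) (nat_lit 0) (XT.nd (nat_lit 234) (nat_lit 152) (nat_lit 0) (XT.nd (nat_lit 78) (nat_lit 76) (nat_lit 0) (XT.lf (nat_lit 0) (nat_lit 2549730996) (nat_lit 76) (nat_lit 11508965671) (nat_lit 152) (nat_lit 25373790922) (nat_lit 20) (nat_lit 5) (nat_lit 21) (nat_lit 5) (nat_lit 22) (nat_lit 4) (nat_lit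 372) (nat_lit 293) (nat_lit 235)) (XT.nd (nat_lit 78) (nat_lit 76) (nat_lit 0) (XT.lf (nat_lit 0) (nat_lit 23554372138) (nat_lit 76) (nat_lit 889678835) (nat_lit 152) (nat_lit 16628119624) (nat_lit 20) (nat_lit 5) (nat_lit 21) (nat_lit 5) (nat_lit 22) (nat_lit 4) (nat_lit 373) (nat_lit 293) (nat_lit 234)) (XT.lf (nat_lit 0) (nat_lit 2664951976) (nat_lit 76) (nat_lit 32753201257) (nat_lit 76) (nat_lit 7373606245) (nat_lit 19) (nat_lit 4) (nat_lit 20) (nat_lit 5) (nat_lit 20) (nat_lit 4) (nat_lit 374) (nat_lit 293) (nat_lit 233)))) (XT.nd (nat_lit 78) (nat_lit 76) (nat_lit 0) (XT.lf (nat_lit 0) (nat_lit 2435334535) (nat_lit 152) (nat_lit 20504226073) (nat_lit 76) (nat_lit 21652973977) (nat_lit 18) (nat_lit 5) (nat_lit 20) (nat_lit 5) (nat_lit 19) (nat_lit 4) (nat_lit 375) (nat_lit 293) (nat_lit 232)) (XT.nd (nat_lit 78) (nat_lit 76) (nat_lit 0) (XT.lf (nat_lit 0) (nat_lit 12532536726) (nat_lit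 152) (nat_lit 72010550) (nat_lit 76) (nat_lit 33878107037) (nat_lit 18) (nat_lit 5) (nat_lit 20) (nat_lit 5) (nat_lit 19) (nat_lit 4) (nat_lit 376) (nat_lit 293) (nat_lit 231)) (XT.lf (nat_lit 0) (nat_lit 21713066956) (nat_lit 76) (nat_lit 1581579225) (nat_lit 152) (nat_lit 25167837571) (nat_lit 17) (nat_lit 5) (nat_lit 18) (nat_lit 5) (nat_lit 19) (nat_lit 4) (nat_lit 377) (nat_lit 293) (nat_lit 230))))) (XT.nd (nat_lit 234) (nat_lit 76) (nat_lit 0) (XT.nd (nat_lit 78) (nat_lit 152) (nat_lit 0) (XT.lf (nat_lit 0) (nat_lit 34644037191) (nat_lit 152) (nat_lit 6139252013) (nat_lit 0) (nat_lit 9756545076) (nat_lit 17) (nat_lit 5) (nat_lit 19) (nat_lit 4) (nat_lit 17) (nat_lit 4) (nat_lit 378) (nat_lit 293) (nat_lit 229)) (XT.nd (nat_lit 78) (nat_lit 76) (nat_lit 0) (XT.lf (nat_lit 0) (nat_lit 15705440786) (nat_lit 76) (nat_lit 30977031554) (nat_lit 76) (nat_lit 6034937419) (nat_lit 16) (nat_lit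 4) (nat_lit 17) (nat_lit 5) (nat_lit 17) (nat_lit 4) (nat_lit 379) (nat_lit 293) (nat_lit 228)) (XT.lf (nat_lit 0) (nat_lit 4254063952) (nat_lit 152) (nat_lit 16358346235) (nat_lit 76) (nat_lit 34389631323) (nat_lit 15) (nat_lit 5) (nat_lit 17) (nat_lit 5) (nat_lit 16) (nat_lit 4) (nat_lit 380) (nat_lit 293) (nat_lit 227)))) (XT.nd (nat_lit 78) (nat_lit 0) (nat_lit 0) (XT.lf (nat_lit 0) (nat_lit 5289407183) (nat_lit 76) (nat_lit 9652971577) (nat_lit 152) (nat_lit 42456447387) (nat_lit 14) (nat_lit 5) (nat_lit 15) (nat_lit 5) (nat_lit 16) (nat_lit 4) (nat_lit 381) (nat_lit 293) (nat_lit 226)) (XT.nd (nat_lit 78) (nat_lit 0) (nat_lit 0) (XT.lf (nat_lit 0) (nat_lit 26311567839) (nat_lit 152) (nat_lit 31647913790) (nat_lit 0) (nat_lit 1951578540) (nat_lit 14) (nat_lit 5) (nat_lit 16) (nat_lit 4) (nat_lit 14) (nat_lit 4) (nat_lit 382) (nat_lit 293) (nat_lit 225)) (XT.lf (nat_lit 0) (nat_lit 38307189501)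 (nat_lit 152) (nat_lit 10336393555) (nat_lit 0) (nat_lit 13903587370) (nat_lit 14) (nat_lit 5) (nat_lit 16) (nat_lit 4) (nat_lit 14) (nat_lit 4) (nat_lit 383) (nat_lit 293) (nat_lit 224))))))))
noncomputable def xc37 : XT := (XT.nd (nat_lit 42198) (nat_lit 0) (nat_lit 3800) (XT.nd (nat_lit 41262) (nat_lit 0) (nat_lit 11704) (XT.nd (nat_lit 390) (nat_lit 228) (nat_lit 0) (XT.nd (nat_lit 156) (nat_lit 152) (nat_lit 0) (XT.nd (nat_lit 78) (nat_lit 0) (nat_lit 0) (XT.lf (nat_lit 0) (nat_lit 12206873798) (nat_lit 76) (nat_lit 38775480621) (nat_lit 76) (nat_lit 14330342459) (nat_lit 13) (nat_lit 4) (nat_lit 14) (nat_lit 5) (nat_lit 14) (nat_lit 4) (nat_lit 384) (nat_lit 293) (nat_lit 223)) (XT.lf (nat_lit 0) (nat_lit 36023340472) (nat_lit 76) (nat_lit 28337880275) (nat_lit 76) (nat_lit 3853183990) (nat_lit 13) (nat_lit 4) (nat_lit 14) (nat_lit 5) (nat_lit 14) (nat_lit 4) (nat_lit 385) (nat_lit 293)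 (nat_lit 222))) (XT.nd (nat_lit 78) (nat_lit 76) (nat_lit 0) (XT.lf (nat_lit 0) (nat_lit 6973280829) (nat_lit 152) (nat_lit 10366610605) (nat_lit 76) (nat_lit 53920300546) (nat_lit 12) (nat_lit 5) (nat_lit 14) (nat_lit 5) (nat_lit 13) (nat_lit 4) (nat_lit 386) (nat_lit 293) (nat_lit 221)) (XT.nd (nat_lit 78) (nat_lit 0) (nat_lit 0) (XT.lf (nat_lit 0) (nat_lit 12693747972) (nat_lit 76) (nat_lit 5656990474) (nat_lit 152) (nat_lit 56103707827) (nat_lit 11) (nat_lit 5) (nat_lit 12) (nat_lit 5) (nat_lit 13) (nat_lit 4) (nat_lit 387) (nat_lit 293) (nat_lit 220)) (XT.lf (nat_lit 0) (nat_lit 30435683564) (nat_lit 152) (nat_lit 40809029255) (nat_lit 0) (nat_lit 6559544856) (nat_lit 11) (nat_lit 5) (nat_lit 13) (nat_lit 4) (nat_lit 11) (nat_lit 4) (nat_lit 388) (nat_lit 293) (nat_lit 219))))) (XT.nd (nat_lit 234) (nat_lit 152) (nat_lit 0) (XT.nd (nat_lit 78) (nat_lit 76) (nat_lit 0) (XT.lf (nat_lit 0)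 (nat_lit 43150833339) (nat_lit 152) (nat_lit 18926852321) (nat_lit 0) (nat_lit 19243097964) (nat_lit 11) (nat_lit 5) (nat_lit 13) (nat_lit 4) (nat_lit 11) (nat_lit 4) (nat_lit 389) (nat_lit 293) (nat_lit 218)) (XT.nd (nat_lit 78) (nat_lit 0) (nat_lit 0) (XT.lf (nat_lit 0) (nat_lit 4071766201) (nat_lit 76) (nat_lit 52439457592) (nat_lit 76) (nat_lit 28501630153) (nat_lit 10) (nat_lit 4) (nat_lit 11) (nat_lit 5) (nat_lit 11) (nat_lit 4) (nat_lit 390) (nat_lit 293) (nat_lit 217)) (XT.lf (nat_lit 0) (nat_lit 28560346505) (nat_lit 76) (nat_lit 42145344281) (nat_lit 76) (nat_lit 18178857734) (nat_lit 10) (nat_lit 4) (nat_lit 11) (nat_lit 5) (nat_lit 11) (nat_lit 4) (nat_lit 391) (nat_lit 293) (nat_lit 216)))) (XT.nd (nat_lit 78) (nat_lit 152) (nat_lit 0) (XT.lf (nat_lit 0) (nat_lit 54220513262) (nat_lit 76) (nat_lit 31361960032) (nat_lit 76) (nat_lit 7368179096) (nat_lit 10) (nat_lit 4) (nat_lit 11)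 (nat_lit 5) (nat_lit 11) (nat_lit 4) (nat_lit 392) (nat_lit 293) (nat_lit 215)) (XT.nd (nat_lit 156) (nat_lit 76) (nat_lit 0) (XT.lf (nat_lit 0) (nat_lit 3878946823) (nat_lit 152) (nat_lit 16145513539) (nat_lit 76) (nat_lit 77195245526) (nat_lit 9) (nat_lit 5) (nat_lit 11) (nat_lit 5) (nat_lit 10) (nat_lit 4) (nat_lit 393) (nat_lit 293) (nat_lit 214)) (XT.lf (nat_lit 0) (nat_lit 28064965940) (nat_lit 152) (nat_lit 73632859556) (nat_lit 0) (nat_lit 4697868536) (nat_lit 8) (nat_lit 5) (nat_lit 10) (nat_lit 4) (nat_lit 8) (nat_lit 4) (nat_lit 395) (nat_lit 293) (nat_lit 212)))))) (XT.nd (nat_lit 468) (nat_lit 3876) (nat_lit 0) (XT.nd (nat_lit 234) (nat_lit 4180) (nat_lit 0) (XT.nd (nat_lit 78) (nat_lit 2052) (nat_lit 0) (XT.lf (nat_lit 0) (nat_lit 1610253934) (nat_lit 836) (nat_lit 913186051) (nat_lit 836) (nat_lit 913186051) (nat_lit 295) (nat_lit 4) (nat_lit 306) (nat_lit 5) (nat_lit 306) (nat_lit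 4) (nat_lit 312) (nat_lit 294) (nat_lit 294)) (XT.nd (nat_lit 78) (nat_lit 1064) (nat_lit 0) (XT.lf (nat_lit 0) (nat_lit 3547133137) (nat_lit 988) (nat_lit 2923383938) (nat_lit 0) (nat_lit 479575965) (nat_lit 282) (nat_lit 5) (nat_lit 295) (nat_lit 4) (nat_lit 282) (nat_lit 4) (nat_lit 313) (nat_lit 294) (nat_lit 293)) (XT.lf (nat_lit 0) (nat_lit 1908107361) (nat_lit 1064) (nat_lit 2115582246) (nat_lit 76) (nat_lit 3011328682) (nat_lit 268) (nat_lit 5) (nat_lit 282) (nat_lit 5) (nat_lit 269) (nat_lit 4) (nat_lit 314) (nat_lit 294) (nat_lit 292)))) (XT.nd (nat_lit 78) (nat_lit 3040) (nat_lit 0) (XT.lf (nat_lit 0) (nat_lit 105123052) (nat_lit 1140) (nat_lit 1212164927) (nat_lit 76) (nat_lit 5811442064) (nat_lit 253) (nat_lit 5) (nat_lit 268) (nat_lit 5) (nat_lit 254) (nat_lit 5) (nat_lit 315) (nat_lit 294) (nat_lit 291)) (XT.nd (nat_lit 78) (nat_lit 1900) (nat_lit 0) (XT.lf (nat_lit 0) (nat_lit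 5340330774) (nat_lit 1216) (nat_lit 247746189) (nat_lit 76) (nat_lit 1642312793) (nat_lit 238) (nat_lit 5) (nat_lit 254) (nat_lit 5) (nat_lit 239) (nat_lit 4) (nat_lit 316) (nat_lit 294) (nat_lit 290)) (XT.lf (nat_lit 0) (nat_lit 809778406) (nat_lit 608) (nat_lit 2483878188) (nat_lit 684) (nat_lit 4046810031) (nat_lit 213) (nat_lit 5) (nat_lit 221) (nat_lit 5) (nat_lit 222) (nat_lit 5) (nat_lit 317) (nat_lit 294) (nat_lit 289))))) (XT.nd (nat_lit 234) (nat_lit 2052) (nat_lit 0) (XT.nd (nat_lit 78) (nat_lit 1216) (nat_lit 0) (XT.lf (nat_lit 0) (nat_lit 1078882332) (nat_lit 608) (nat_lit 5503276062) (nat_lit 76) (nat_lit 877317728) (nat_lit 205) (nat_lit 5) (nat_lit 213) (nat_lit 5) (nat_lit 206) (nat_lit 5) (nat_lit 318) (nat_lit 294) (nat_lit 288)) (XT.nd (nat_lit 78) (nat_lit 608) (nat_lit 0) (XT.lf (nat_lit 0) (nat_lit 3155130459) (nat_lit 608) (nat_lit 3108331696) (nat_lit 684) (nat_lit 1323356726)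 (nat_lit 197) (nat_lit 5) (nat_lit 205) (nat_lit 5) (nat_lit 206) (nat_lit 5) (nat_lit 319) (nat_lit 294) (nat_lit 287)) (XT.lf (nat_lit 0) (nat_lit 3783726649) (nat_lit 608) (nat_lit 3298164921) (nat_lit 76) (nat_lit 641404741) (nat_lit 189) (nat_lit 5) (nat_lit 197) (nat_lit 5) (nat_lit 190) (nat_lit 5) (nat_lit 320) (nat_lit 294) (nat_lit 286)))) (XT.nd (nat_lit 78) (nat_lit 1444) (nat_lit 0) (XT.lf (nat_lit 0) (nat_lit 1137199037) (nat_lit 608) (nat_lit 2118544809) (nat_lit 76) (nat_lit 4612976465) (nat_lit 181) (nat_lit 5) (nat_lit 189) (nat_lit 5) (nat_lit 182) (nat_lit 5) (nat_lit 321) (nat_lit 294) (nat_lit 285)) (XT.nd (nat_lit 78) (nat_lit 988) (nat_lit 0) (XT.lf (nat_lit 0) (nat_lit 6281368371) (nat_lit 532) (nat_lit 888231077) (nat_lit 76) (nat_lit 853936189) (nat_lit 175) (nat_lit 5) (nat_lit 182) (nat_lit 5) (nat_lit 176) (nat_lit 5) (nat_lit 322) (nat_lit 294) (nat_lit 284)) (XT.lf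 (nat_lit 0) (nat_lit 377777774) (nat_lit 456) (nat_lit 2981441416) (nat_lit 532) (nat_lit 4828071061) (nat_lit 162) (nat_lit 5) (nat_lit 168) (nat_lit 5) (nat_lit 169) (nat_lit 5) (nat_lit 323) (nat_lit 294) (nat_lit 283))))))) (XT.nd (nat_lit 936) (nat_lit 2888) (nat_lit 0) (XT.nd (nat_lit 468) (nat_lit 2432) (nat_lit 0) (XT.nd (nat_lit 234) (nat_lit 1140) (nat_lit 0) (XT.nd (nat_lit 78) (nat_lit 912) (nat_lit 0) (XT.lf (nat_lit 0) (nat_lit 239550444) (nat_lit 532) (nat_lit 6642396767) (nat_lit 76) (nat_lit 1479049782) (nat_lit 155) (nat_lit 5) (nat_lit 162) (nat_lit 5) (nat_lit 156) (nat_lit 5) (nat_lit 324) (nat_lit 294) (nat_lit 282)) (XT.nd (nat_lit 78) (nat_lit 532) (nat_lit 0) (XT.lf (nat_lit 0) (nat_lit 3067626363) (nat_lit 380) (nat_lit 2333184466) (nat_lit 456) (nat_lit 3143056047) (nat_lit 150) (nat_lit 5) (nat_lit 155) (nat_lit 5) (nat_lit 156) (nat_lit 5) (nat_lit 325) (nat_lit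 294) (nat_lit 281)) (XT.lf (nat_lit 0) (nat_lit 1983509497) (nat_lit 532) (nat_lit 4281879461) (nat_lit 76) (nat_lit 2471798936) (nat_lit 143) (nat_lit 5) (nat_lit 150) (nat_lit 5) (nat_lit 144) (nat_lit 5) (nat_lit 326) (nat_lit 294) (nat_lit 280)))) (XT.nd (nat_lit 78) (nat_lit 760) (nat_lit 0) (XT.lf (nat_lit 0) (nat_lit 5865509019) (nat_lit 380) (nat_lit 1383351510) (nat_lit 456) (nat_lit 1692058467) (nat_lit 138) (nat_lit 5) (nat_lit 143) (nat_lit 5) (nat_lit 144) (nat_lit 5) (nat_lit 327) (nat_lit 294) (nat_lit 279)) (XT.nd (nat_lit 78) (nat_lit 304) (nat_lit 0) (XT.lf (nat_lit 0) (nat_lit 3518398675) (nat_lit 456) (nat_lit 1878184237) (nat_lit 76) (nat_lit 3758309419) (nat_lit 132) (nat_lit 5) (nat_lit 138) (nat_lit 5) (nat_lit 133) (nat_lit 5) (nat_lit 328) (nat_lit 294) (nat_lit 278)) (XT.lf (nat_lit 0) (nat_lit 8724218519) (nat_lit 304) (nat_lit 180949132) (nat_lit 380) (nat_lit 475459910)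 (nat_lit 128) (nat_lit 5) (nat_lit 132) (nat_lit 5) (nat_lit 133) (nat_lit 5) (nat_lit 329) (nat_lit 294) (nat_lit 277))))) (XT.nd (nat_lit 234) (nat_lit 988) (nat_lit 0) (XT.nd (nat_lit 78) (nat_lit 684) (nat_lit 0) (XT.lf (nat_lit 0) (nat_lit 527121244) (nat_lit 304) (nat_lit 4319529553) (nat_lit 380) (nat_lit 4769670908) (nat_lit 118) (nat_lit 5) (nat_lit 122) (nat_lit 5) (nat_lit 123) (nat_lit 5) (nat_lit 330) (nat_lit 294) (nat_lit 276)) (XT.nd (nat_lit 78) (nat_lit 304) (nat_lit 0) (XT.lf (nat_lit 0) (nat_lit 518901980) (nat_lit 380) (nat_lit 8121919554) (nat_lit 76) (nat_lit 1223697813) (nat_lit 113) (nat_lit 5) (nat_lit 118) (nat_lit 5) (nat_lit 114) (nat_lit 5) (nat_lit 331) (nat_lit 294) (nat_lit 275)) (XT.lf (nat_lit 0) (nat_lit 2901215695) (nat_lit 304) (nat_lit 3070537003) (nat_lit 380) (nat_lit 4152075367) (nat_lit 109) (nat_lit 5) (nat_lit 113) (nat_lit 5) (nat_lit 114) (nat_lit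 5) (nat_lit 332) (nat_lit 294) (nat_lit 274)))) (XT.nd (nat_lit 78) (nat_lit 608) (nat_lit 0) (XT.lf (nat_lit 0) (nat_lit 1262303450) (nat_lit 380) (nat_lit 6349110230) (nat_lit 76) (nat_lit 2784784073) (nat_lit 104) (nat_lit 5) (nat_lit 109) (nat_lit 5) (nat_lit 105) (nat_lit 5) (nat_lit 333) (nat_lit 294) (nat_lit 273)) (XT.nd (nat_lit 78) (nat_lit 380) (nat_lit 0) (XT.lf (nat_lit 0) (nat_lit 5138124937) (nat_lit 228) (nat_lit 1720133545) (nat_lit 304) (nat_lit 3822856338) (nat_lit 101) (nat_lit 5) (nat_lit 104) (nat_lit 5) (nat_lit 105) (nat_lit 5) (nat_lit 334) (nat_lit 294) (nat_lit 272)) (XT.lf (nat_lit 0) (nat_lit 1733128255) (nat_lit 380) (nat_lit 4802345554) (nat_lit 76) (nat_lit 4443948920) (nat_lit 96) (nat_lit 5) (nat_lit 101) (nat_lit 5) (nat_lit 97) (nat_lit 5) (nat_lit 335) (nat_lit 294) (nat_lit 271)))))) (XT.nd (nat_lit 468) (nat_lit 1216) (nat_lit 0) (XT.nd (nat_lit 234) (nat_lit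 836) (nat_lit 0) (XT.nd (nat_lit 78) (nat_lit 608) (nat_lit 0) (XT.lf (nat_lit 0) (nat_lit 7158126483) (nat_lit 228) (nat_lit 322943479) (nat_lit 304) (nat_lit 3810700354) (nat_lit 93) (nat_lit 5) (nat_lit 96) (nat_lit 5) (nat_lit 97) (nat_lit 5) (nat_lit 336) (nat_lit 294) (nat_lit 270)) (XT.nd (nat_lit 78) (nat_lit 228) (nat_lit 0) (XT.lf (nat_lit 0) (nat_lit 1900015446) (nat_lit 380) (nat_lit 3571264120) (nat_lit 76) (nat_lit 6146750318) (nat_lit 88) (nat_lit 5) (nat_lit 93) (nat_lit 5) (nat_lit 89) (nat_lit 5) (nat_lit 337) (nat_lit 294) (nat_lit 269)) (XT.lf (nat_lit 0) (nat_lit 7816215155) (nat_lit 304) (nat_lit 3102312310) (nat_lit 76) (nat_lit 1041029960) (nat_lit 85) (nat_lit 5) (nat_lit 89) (nat_lit 5) (nat_lit 86) (nat_lit 5) (nat_lit 338) (nat_lit 294) (nat_lit 268)))) (XT.nd (nat_lit 78) (nat_lit 532) (nat_lit 0) (XT.lf (nat_lit 0) (nat_lit 1721751225) (nat_lit 304) (nat_lit 2761128569)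 (nat_lit 76) (nat_lit 7833482608) (nat_lit 81) (nat_lit 5) (nat_lit 85) (nat_lit 5) (nat_lit 82) (nat_lit 5) (nat_lit 339) (nat_lit 294) (nat_lit 267)) (XT.nd (nat_lit 78) (nat_lit 304) (nat_lit 0) (XT.lf (nat_lit 0) (nat_lit 7811334019) (nat_lit 304) (nat_lit 2555962311) (nat_lit 76) (nat_lit 2322016580) (nat_lit 78) (nat_lit 5) (nat_lit 82) (nat_lit 5) (nat_lit 79) (nat_lit 5) (nat_lit 340) (nat_lit 294) (nat_lit 266)) (XT.lf (nat_lit 0) (nat_lit 1145868376) (nat_lit 304) (nat_lit 2496111849) (nat_lit 76) (nat_lit 9437347096) (nat_lit 74) (nat_lit 5) (nat_lit 78) (nat_lit 5) (nat_lit 75) (nat_lit 5) (nat_lit 341) (nat_lit 294) (nat_lit 265))))) (XT.nd (nat_lit 234) (nat_lit 608) (nat_lit 0) (XT.nd (nat_lit 78) (nat_lit 456) (nat_lit 0) (XT.lf (nat_lit 0) (nat_lit 7406258796) (nat_lit 228) (nat_lit 2626443963) (nat_lit 76) (nat_lit 3453642256) (nat_lit 72) (nat_lit 5) (nat_lit 75) (nat_lit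 5) (nat_lit 73) (nat_lit 5) (nat_lit 342) (nat_lit 294) (nat_lit 264)) (XT.nd (nat_lit 78) (nat_lit 152) (nat_lit 0) (XT.lf (nat_lit 0) (nat_lit 106955146) (nat_lit 304) (nat_lit 2923114467) (nat_lit 76) (nat_lit 10882391961) (nat_lit 68) (nat_lit 5) (nat_lit 72) (nat_lit 5) (nat_lit 69) (nat_lit 5) (nat_lit 343) (nat_lit 294) (nat_lit 263)) (XT.lf (nat_lit 0) (nat_lit 6530154230) (nat_lit 228) (nat_lit 3473593800) (nat_lit 76) (nat_lit 4352787346) (nat_lit 66) (nat_lit 5) (nat_lit 69) (nat_lit 5) (nat_lit 67) (nat_lit 5) (nat_lit 344) (nat_lit 294) (nat_lit 262)))) (XT.nd (nat_lit 78) (nat_lit 380) (nat_lit 0) (XT.lf (nat_lit 0) (nat_lit 10590900894) (nat_lit 228) (nat_lit 2725940588) (nat_lit 304) (nat_lit 1504733840) (nat_lit 63) (nat_lit 5) (nat_lit 66) (nat_lit 5) (nat_lit 67) (nat_lit 5) (nat_lit 345) (nat_lit 294) (nat_lit 261)) (XT.nd (nat_lit 78) (nat_lit 152) (nat_lit 0) (XT.lf (nat_lit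 0) (nat_lit 5096207068) (nat_lit 228) (nat_lit 5286929991) (nat_lit 76) (nat_lit 4923378593) (nat_lit 60) (nat_lit 5) (nat_lit 63) (nat_lit 5) (nat_lit 61) (nat_lit 5) (nat_lit 346) (nat_lit 294) (nat_lit 260)) (XT.lf (nat_lit 0) (nat_lit 9195828162) (nat_lit 152) (nat_lit 2845602599) (nat_lit 228) (nat_lit 3772493053) (nat_lit 58) (nat_lit 5) (nat_lit 60) (nat_lit 5) (nat_lit 61) (nat_lit 5) (nat_lit 347) (nat_lit 294) (nat_lit 259))))))))
noncomputable def xc38 : XT := (XT.nd (nat_lit 1794) (nat_lit 1140) (nat_lit 0) (XT.nd (nat_lit 858) (nat_lit 1064) (nat_lit 0) (XT.nd (nat_lit 390) (nat_lit 836) (nat_lit 0) (XT.nd (nat_lit 156) (nat_lit 380) (nat_lit 0) (XT.nd (nat_lit 78) (nat_lit 152) (nat_lit 0) (XT.lf (nat_lit 0) (nat_lit 2999002642) (nat_lit 228) (nat_lit 8291257062) (nat_lit 76) (nat_lit 5053505113) (nat_lit 55) (nat_lit 5) (nat_lit 58) (nat_lit 5) (nat_lit 56) (nat_lit 5) (nat_lit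 348) (nat_lit 294) (nat_lit 258)) (XT.lf (nat_lit 0) (nat_lit 6567106508) (nat_lit 152) (nat_lit 3515779963) (nat_lit 228) (nat_lit 6814560875) (nat_lit 53) (nat_lit 5) (nat_lit 55) (nat_lit 5) (nat_lit 56) (nat_lit 5) (nat_lit 349) (nat_lit 294) (nat_lit 257))) (XT.nd (nat_lit 78) (nat_lit 152) (nat_lit 0) (XT.lf (nat_lit 0) (nat_lit 111416347) (nat_lit 228) (nat_lit 12753218267) (nat_lit 76) (nat_lit 4612087743) (nat_lit 50) (nat_lit 5) (nat_lit 53) (nat_lit 5) (nat_lit 51) (nat_lit 5) (nat_lit 350) (nat_lit 294) (nat_lit 256)) (XT.nd (nat_lit 78) (nat_lit 0) (nat_lit 0) (XT.lf (nat_lit 0) (nat_lit 2421910557) (nat_lit 152) (nat_lit 4883747014) (nat_lit 228) (nat_lit 10775414456) (nat_lit 48) (nat_lit 5) (nat_lit 50) (nat_lit 5) (nat_lit 51) (nat_lit 5) (nat_lit 351) (nat_lit 294) (nat_lit 255)) (XT.lf (nat_lit 0) (nat_lit 14923744863) (nat_lit 228) (nat_lit 305516894) (nat_lit 76) (nat_lit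 3484474411) (nat_lit 48) (nat_lit 5) (nat_lit 51) (nat_lit 5) (nat_lit 49) (nat_lit 4) (nat_lit 352) (nat_lit 294) (nat_lit 254))))) (XT.nd (nat_lit 234) (nat_lit 380) (nat_lit 0) (XT.nd (nat_lit 78) (nat_lit 228) (nat_lit 0) (XT.lf (nat_lit 0) (nat_lit 3581530826) (nat_lit 228) (nat_lit 3505730705) (nat_lit 76) (nat_lit 12286589260) (nat_lit 45) (nat_lit 5) (nat_lit 48) (nat_lit 5) (nat_lit 46) (nat_lit 5) (nat_lit 353) (nat_lit 294) (nat_lit 253)) (XT.nd (nat_lit 78) (nat_lit 76) (nat_lit 0) (XT.lf (nat_lit 0) (nat_lit 11290342672) (nat_lit 228) (nat_lit 7247342733) (nat_lit 76) (nat_lit 1526765608) (nat_lit 43) (nat_lit 5) (nat_lit 46) (nat_lit 5) (nat_lit 44) (nat_lit 4) (nat_lit 354) (nat_lit 294) (nat_lit 252)) (XT.lf (nat_lit 0) (nat_lit 9181349032) (nat_lit 76) (nat_lit 10306601301) (nat_lit 152) (nat_lit 1298547875) (nat_lit 42) (nat_lit 5) (nat_lit 43) (nat_lit 5) (nat_lit 44) (nat_lit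 4) (nat_lit 355) (nat_lit 294) (nat_lit 251)))) (XT.nd (nat_lit 78) (nat_lit 152) (nat_lit 0) (XT.lf (nat_lit 0) (nat_lit 4908776113) (nat_lit 152) (nat_lit 1545792161) (nat_lit 228) (nat_lit 15087258456) (nat_lit 39) (nat_lit 5) (nat_lit 41) (nat_lit 5) (nat_lit 42) (nat_lit 5) (nat_lit 356) (nat_lit 294) (nat_lit 250)) (XT.nd (nat_lit 78) (nat_lit 152) (nat_lit 0) (XT.lf (nat_lit 0) (nat_lit 14674142338) (nat_lit 228) (nat_lit 89379607) (nat_lit 76) (nat_lit 7567859800) (nat_lit 39) (nat_lit 5) (nat_lit 42) (nat_lit 5) (nat_lit 40) (nat_lit 4) (nat_lit 357) (nat_lit 294) (nat_lit 249)) (XT.lf (nat_lit 0) (nat_lit 241223746) (nat_lit 152) (nat_lit 5706812692) (nat_lit 76) (nat_lit 17209358052) (nat_lit 37) (nat_lit 5) (nat_lit 39) (nat_lit 5) (nat_lit 38) (nat_lit 5) (nat_lit 358) (nat_lit 294) (nat_lit 248)))))) (XT.nd (nat_lit 468) (nat_lit 532) (nat_lit 0) (XT.nd (nat_lit 234) (nat_lit 228)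 (nat_lit 0) (XT.nd (nat_lit 78) (nat_lit 152) (nat_lit 0) (XT.lf (nat_lit 0) (nat_lit 8442780878) (nat_lit 228) (nat_lit 12206553686) (nat_lit 76) (nat_lit 3371116517) (nat_lit 35) (nat_lit 5) (nat_lit 38) (nat_lit 5) (nat_lit 36) (nat_lit 4) (nat_lit 359) (nat_lit 294) (nat_lit 247)) (XT.nd (nat_lit 78) (nat_lit 76) (nat_lit 0) (XT.lf (nat_lit 0) (nat_lit 5299642549) (nat_lit 76) (nat_lit 11844173893) (nat_lit 152) (nat_lit 7780175053) (nat_lit 34) (nat_lit 5) (nat_lit 35) (nat_lit 5) (nat_lit 36) (nat_lit 4) (nat_lit 360) (nat_lit 294) (nat_lit 246)) (XT.lf (nat_lit 0) (nat_lit 446923348) (nat_lit 152) (nat_lit 2083366242) (nat_lit 76) (nat_lit 23340883716) (nat_lit 33) (nat_lit 5) (nat_lit 35) (nat_lit 5) (nat_lit 34) (nat_lit 5) (nat_lit 361) (nat_lit 294) (nat_lit 245)))) (XT.nd (nat_lit 78) (nat_lit 76) (nat_lit 0) (XT.lf (nat_lit 0) (nat_lit 9079948893) (nat_lit 228) (nat_lit 10493973074)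 (nat_lit 76) (nat_lit 7284828409) (nat_lit 31) (nat_lit 5) (nat_lit 34) (nat_lit 5) (nat_lit 32) (nat_lit 4) (nat_lit 362) (nat_lit 294) (nat_lit 244)) (XT.nd (nat_lit 78) (nat_lit 0) (nat_lit 0) (XT.lf (nat_lit 0) (nat_lit 7875517240) (nat_lit 76) (nat_lit 10318266027) (nat_lit 152) (nat_lit 9700459221) (nat_lit 30) (nat_lit 5) (nat_lit 31) (nat_lit 5) (nat_lit 32) (nat_lit 4) (nat_lit 363) (nat_lit 294) (nat_lit 243)) (XT.lf (nat_lit 0) (nat_lit 27250467107) (nat_lit 76) (nat_lit 549363931) (nat_lit 152) (nat_lit 1180592909) (nat_lit 30) (nat_lit 5) (nat_lit 31) (nat_lit 5) (nat_lit 32) (nat_lit 4) (nat_lit 364) (nat_lit 294) (nat_lit 242))))) (XT.nd (nat_lit 234) (nat_lit 228) (nat_lit 0) (XT.nd (nat_lit 78) (nat_lit 76) (nat_lit 0) (XT.lf (nat_lit 0) (nat_lit 7809451871) (nat_lit 228) (nat_lit 12595889450) (nat_lit 76) (nat_lit 9707472029) (nat_lit 27) (nat_lit 5) (nat_lit 30) (nat_lit 5)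 (nat_lit 28) (nat_lit 4) (nat_lit 365) (nat_lit 294) (nat_lit 241)) (XT.nd (nat_lit 78) (nat_lit 0) (nat_lit 0) (XT.lf (nat_lit 0) (nat_lit 6443922068) (nat_lit 76) (nat_lit 10799114023) (nat_lit 152) (nat_lit 14057891004) (nat_lit 26) (nat_lit 5) (nat_lit 27) (nat_lit 5) (nat_lit 28) (nat_lit 4) (nat_lit 366) (nat_lit 294) (nat_lit 240)) (XT.lf (nat_lit 0) (nat_lit 26577333358) (nat_lit 76) (nat_lit 635417161) (nat_lit 152) (nat_lit 5333771194) (nat_lit 26) (nat_lit 5) (nat_lit 27) (nat_lit 5) (nat_lit 28) (nat_lit 4) (nat_lit 367) (nat_lit 294) (nat_lit 239)))) (XT.nd (nat_lit 78) (nat_lit 76) (nat_lit 0) (XT.lf (nat_lit 0) (nat_lit 3921207196) (nat_lit 152) (nat_lit 19966797940) (nat_lit 76) (nat_lit 9960215817) (nat_lit 24) (nat_lit 5) (nat_lit 26) (nat_lit 5) (nat_lit 25) (nat_lit 4) (nat_lit 368) (nat_lit 294) (nat_lit 238)) (XT.nd (nat_lit 78) (nat_lit 76) (nat_lit 0) (XT.lf (nat_lit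 0) (nat_lit 13536774133) (nat_lit 152) (nat_lit 539757213) (nat_lit 76) (nat_lit 21136652691) (nat_lit 24) (nat_lit 5) (nat_lit 26) (nat_lit 5) (nat_lit 25) (nat_lit 4) (nat_lit 369) (nat_lit 294) (nat_lit 237)) (XT.lf (nat_lit 0) (nat_lit 20142116934) (nat_lit 76) (nat_lit 3626197434) (nat_lit 152) (nat_lit 12874032368) (nat_lit 23) (nat_lit 5) (nat_lit 24) (nat_lit 5) (nat_lit 25) (nat_lit 4) (nat_lit 370) (nat_lit 294) (nat_lit 236))))))) (XT.nd (nat_lit 936) (nat_lit 456) (nat_lit 0) (XT.nd (nat_lit 468) (nat_lit 304) (nat_lit 0) (XT.nd (nat_lit 234) (nat_lit 152) (nat_lit 0) (XT.nd (nat_lit 78) (nat_lit 152) (nat_lit 0) (XT.lf (nat_lit 0) (nat_lit 3618852739) (nat_lit 76) (nat_lit 30946454712) (nat_lit 76) (nat_lit 3576050806) (nat_lit 22) (nat_lit 4) (nat_lit 23) (nat_lit 5) (nat_lit 23) (nat_lit 4) (nat_lit 371) (nat_lit 294) (nat_lit 235)) (XT.nd (nat_lit 78) (nat_lit 76) (nat_lit 0)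 (XT.lf (nat_lit 0) (nat_lit 6218257625) (nat_lit 152) (nat_lit 14824969024) (nat_lit 76) (nat_lit 18665751341) (nat_lit 21) (nat_lit 5) (nat_lit 23) (nat_lit 5) (nat_lit 22) (nat_lit 4) (nat_lit 372) (nat_lit 294) (nat_lit 234)) (XT.lf (nat_lit 0) (nat_lit 5834549526) (nat_lit 76) (nat_lit 10597230303) (nat_lit 152) (nat_lit 24922039122) (nat_lit 20) (nat_lit 5) (nat_lit 21) (nat_lit 5) (nat_lit 22) (nat_lit 4) (nat_lit 373) (nat_lit 294) (nat_lit 233)))) (XT.nd (nat_lit 78) (nat_lit 152) (nat_lit 0) (XT.lf (nat_lit 0) (nat_lit 27261506204) (nat_lit 152) (nat_lit 15343442659) (nat_lit 0) (nat_lit 472793094) (nat_lit 20) (nat_lit 5) (nat_lit 22) (nat_lit 4) (nat_lit 20) (nat_lit 4) (nat_lit 374) (nat_lit 294) (nat_lit 232)) (XT.nd (nat_lit 78) (nat_lit 76) (nat_lit 0) (XT.lf (nat_lit 0) (nat_lit 5752288275) (nat_lit 76) (nat_lit 32993009533) (nat_lit 76) (nat_lit 6139191500) (nat_lit 19) (nat_lit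 4) (nat_lit 20) (nat_lit 5) (nat_lit 20) (nat_lit 4) (nat_lit 375) (nat_lit 294) (nat_lit 231)) (XT.lf (nat_lit 0) (nat_lit 4054065927) (nat_lit 152) (nat_lit 18686068888) (nat_lit 76) (nat_lit 24036959413) (nat_lit 18) (nat_lit 5) (nat_lit 20) (nat_lit 5) (nat_lit 19) (nat_lit 4) (nat_lit 376) (nat_lit 294) (nat_lit 230))))) (XT.nd (nat_lit 234) (nat_lit 228) (nat_lit 0) (XT.nd (nat_lit 78) (nat_lit 0) (nat_lit 0) (XT.lf (nat_lit 0) (nat_lit 2684748015) (nat_lit 76) (nat_lit 11925903621) (nat_lit 152) (nat_lit 34152440134) (nat_lit 17) (nat_lit 5) (nat_lit 18) (nat_lit 5) (nat_lit 19) (nat_lit 4) (nat_lit 377) (nat_lit 294) (nat_lit 229)) (XT.nd (nat_lit 78) (nat_lit 0) (nat_lit 0) (XT.lf (nat_lit 0) (nat_lit 25429066878) (nat_lit 76) (nat_lit 413387193) (nat_lit 152) (nat_lit 25001518158) (nat_lit 17) (nat_lit 5) (nat_lit 18) (nat_lit 5) (nat_lit 19) (nat_lit 4) (nat_lit 378) (nat_lit 294)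 (nat_lit 228)) (XT.lf (nat_lit 0) (nat_lit 37704872490) (nat_lit 152) (nat_lit 3912888182) (nat_lit 0) (nat_lit 11409069705) (nat_lit 17) (nat_lit 5) (nat_lit 19) (nat_lit 4) (nat_lit 17) (nat_lit 4) (nat_lit 379) (nat_lit 294) (nat_lit 227)))) (XT.nd (nat_lit 78) (nat_lit 152) (nat_lit 0) (XT.lf (nat_lit 0) (nat_lit 18951421963) (nat_lit 76) (nat_lit 31354193016) (nat_lit 76) (nat_lit 5008864589) (nat_lit 16) (nat_lit 4) (nat_lit 17) (nat_lit 5) (nat_lit 17) (nat_lit 4) (nat_lit 380) (nat_lit 294) (nat_lit 226)) (XT.nd (nat_lit 78) (nat_lit 76) (nat_lit 0) (XT.lf (nat_lit 0) (nat_lit 5706680631) (nat_lit 152) (nat_lit 14807934022) (nat_lit 76) (nat_lit 37200211225) (nat_lit 15) (nat_lit 5) (nat_lit 17) (nat_lit 5) (nat_lit 16) (nat_lit 4) (nat_lit 381) (nat_lit 294) (nat_lit 225)) (XT.lf (nat_lit 0) (nat_lit 7854319376) (nat_lit 76) (nat_lit 9038161558) (nat_lit 152) (nat_lit 43340082448) (nat_lit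 14) (nat_lit 5) (nat_lit 15) (nat_lit 5) (nat_lit 16) (nat_lit 4) (nat_lit 382) (nat_lit 294) (nat_lit 224)))))) (XT.nd (nat_lit 468) (nat_lit 228) (nat_lit 0) (XT.nd (nat_lit 234) (nat_lit 152) (nat_lit 0) (XT.nd (nat_lit 78) (nat_lit 76) (nat_lit 0) (XT.lf (nat_lit 0) (nat_lit 28782891641) (nat_lit 152) (nat_lit 31014979515) (nat_lit 0) (nat_lit 3073960541) (nat_lit 14) (nat_lit 5) (nat_lit 16) (nat_lit 4) (nat_lit 14) (nat_lit 4) (nat_lit 383) (nat_lit 294) (nat_lit 223)) (XT.nd (nat_lit 78) (nat_lit 76) (nat_lit 0) (XT.lf (nat_lit 0) (nat_lit 41323258890) (nat_lit 152) (nat_lit 8743375171) (nat_lit 0) (nat_lit 15574769666) (nat_lit 14) (nat_lit 5) (nat_lit 16) (nat_lit 4) (nat_lit 14) (nat_lit 4) (nat_lit 384) (nat_lit 294) (nat_lit 222)) (XT.lf (nat_lit 0) (nat_lit 14866577465) (nat_lit 76) (nat_lit 39732889533) (nat_lit 76) (nat_lit 13946725905) (nat_lit 13) (nat_lit 4) (nat_lit 14) (nat_lit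 5) (nat_lit 14) (nat_lit 4) (nat_lit 385) (nat_lit 294) (nat_lit 221)))) (XT.nd (nat_lit 78) (nat_lit 152) (nat_lit 0) (XT.lf (nat_lit 0) (nat_lit 39776278902) (nat_lit 76) (nat_lit 28820140843) (nat_lit 76) (nat_lit 2998096829) (nat_lit 13) (nat_lit 4) (nat_lit 14) (nat_lit 5) (nat_lit 14) (nat_lit 4) (nat_lit 386) (nat_lit 294) (nat_lit 220)) (XT.nd (nat_lit 78) (nat_lit 76) (nat_lit 0) (XT.lf (nat_lit 0) (nat_lit 8300326827) (nat_lit 152) (nat_lit 9006552348) (nat_lit 76) (nat_lit 57486883789) (nat_lit 12) (nat_lit 5) (nat_lit 14) (nat_lit 5) (nat_lit 13) (nat_lit 4) (nat_lit 387) (nat_lit 294) (nat_lit 219)) (XT.lf (nat_lit 0) (nat_lit 15152980521) (nat_lit 76) (nat_lit 5064625831) (nat_lit 152) (nat_lit 57930999298) (nat_lit 11) (nat_lit 5) (nat_lit 12) (nat_lit 5) (nat_lit 13) (nat_lit 4) (nat_lit 388) (nat_lit 294) (nat_lit 218))))) (XT.nd (nat_lit 234) (nat_lit 152) (nat_lit 0) (XT.nd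 (nat_lit 78) (nat_lit 76) (nat_lit 0) (XT.lf (nat_lit 0) (nat_lit 32869604959) (nat_lit 152) (nat_lit 41092628344) (nat_lit 0) (nat_lit 7704794085) (nat_lit 11) (nat_lit 5) (nat_lit 13) (nat_lit 4) (nat_lit 11) (nat_lit 4) (nat_lit 389) (nat_lit 294) (nat_lit 217)) (XT.nd (nat_lit 78) (nat_lit 76) (nat_lit 0) (XT.lf (nat_lit 0) (nat_lit 46177077118) (nat_lit 152) (nat_lit 18200002199) (nat_lit 0) (nat_lit 20983607135) (nat_lit 11) (nat_lit 5) (nat_lit 13) (nat_lit 4) (nat_lit 11) (nat_lit 4) (nat_lit 390) (nat_lit 294) (nat_lit 216)) (XT.lf (nat_lit 0) (nat_lit 5900585514) (nat_lit 76) (nat_lit 54279157527) (nat_lit 76) (nat_lit 29058393155) (nat_lit 10) (nat_lit 4) (nat_lit 11) (nat_lit 5) (nat_lit 11) (nat_lit 4) (nat_lit 391) (nat_lit 294) (nat_lit 215)))) (XT.nd (nat_lit 78) (nat_lit 152) (nat_lit 0) (XT.lf (nat_lit 0) (nat_lit 31536202881) (nat_lit 76) (nat_lit 43507589643) (nat_lit 76)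 (nat_lit 18260830616) (nat_lit 10) (nat_lit 4) (nat_lit 11) (nat_lit 5) (nat_lit 11) (nat_lit 4) (nat_lit 392) (nat_lit 294) (nat_lit 214)) (XT.nd (nat_lit 156) (nat_lit 152) (nat_lit 0) (XT.lf (nat_lit 0) (nat_lit 58405671354) (nat_lit 76) (nat_lit 32220513412) (nat_lit 76) (nat_lit 6948997570) (nat_lit 10) (nat_lit 4) (nat_lit 11) (nat_lit 5) (nat_lit 11) (nat_lit 4) (nat_lit 393) (nat_lit 294) (nat_lit 213)) (XT.lf (nat_lit 0) (nat_lit 9351377947) (nat_lit 76) (nat_lit 7726911150) (nat_lit 152) (nat_lit 89683717158) (nat_lit 8) (nat_lit 5) (nat_lit 9) (nat_lit 5) (nat_lit 10) (nat_lit 4) (nat_lit 395) (nat_lit 294) (nat_lit 211))))))))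
noncomputable def xc39 : XT := (XT.nd (nat_lit 1872) (nat_lit 5244) (nat_lit 0) (XT.nd (nat_lit 936) (nat_lit 5548) (nat_lit 0) (XT.nd (nat_lit 468) (nat_lit 5472) (nat_lit 0) (XT.nd (nat_lit 234) (nat_lit 3116) (nat_lit 0) (XT.nd (nat_lit 78) (nat_lit 1748) (nat_lit 0) (XT.lf (nat_lit 0) (nat_lit 1019844423) (nat_lit 684) (nat_lit 1175184882) (nat_lit 684) (nat_lit 1175184882) (nat_lit 317) (nat_lit 4) (nat_lit 326) (nat_lit 5) (nat_lit 326) (nat_lit 4) (nat_lit 310) (nat_lit 295) (nat_lit 295)) (XT.nd (nat_lit 78) (nat_lit 912) (nat_lit 0) (XT.lf (nat_lit 0) (nat_lit 2517081011) (nat_lit 760) (nat_lit 406155926) (nat_lit 836) (nat_lit 3881561899) (nat_lit 306) (nat_lit 5) (nat_lit 316) (nat_lit 5) (nat_lit 317) (nat_lit 4) (nat_lit 311) (nat_lit 295) (nat_lit 294)) (XT.lf (nat_lit 0) (nat_lit 1322789683) (nat_lit 912) (nat_lit 3791883909) (nat_lit 76) (nat_lit 1762455353) (nat_lit 294) (nat_lit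 5) (nat_lit 306) (nat_lit 5) (nat_lit 295) (nat_lit 4) (nat_lit 312) (nat_lit 295) (nat_lit 293)))) (XT.nd (nat_lit 78) (nat_lit 2204) (nat_lit 0) (XT.lf (nat_lit 0) (nat_lit 3750509474) (nat_lit 912) (nat_lit 2770073752) (nat_lit 988) (nat_lit 437183905) (nat_lit 282) (nat_lit 5) (nat_lit 294) (nat_lit 5) (nat_lit 295) (nat_lit 4) (nat_lit 313) (nat_lit 295) (nat_lit 292)) (XT.nd (nat_lit 78) (nat_lit 1140) (nat_lit 0) (XT.lf (nat_lit 0) (nat_lit 4505919279) (nat_lit 988) (nat_lit 152212049) (nat_lit 1064) (nat_lit 2388554715) (nat_lit 268) (nat_lit 5) (nat_lit 281) (nat_lit 5) (nat_lit 282) (nat_lit 5) (nat_lit 314) (nat_lit 295) (nat_lit 291)) (XT.lf (nat_lit 0) (nat_lit 2658148304) (nat_lit 1140) (nat_lit 1806054249) (nat_lit 76) (nat_lit 2679466507) (nat_lit 253) (nat_lit 5) (nat_lit 268) (nat_lit 5) (nat_lit 254) (nat_lit 5) (nat_lit 315) (nat_lit 295) (nat_lit 290))))) (XT.nd (nat_lit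 234) (nat_lit 1824) (nat_lit 0) (XT.nd (nat_lit 78) (nat_lit 2432) (nat_lit 0) (XT.lf (nat_lit 0) (nat_lit 490575847) (nat_lit 1216) (nat_lit 981105125) (nat_lit 76) (nat_lit 5777901336) (nat_lit 237) (nat_lit 5) (nat_lit 253) (nat_lit 5) (nat_lit 238) (nat_lit 5) (nat_lit 316) (nat_lit 295) (nat_lit 289)) (XT.nd (nat_lit 78) (nat_lit 1216) (nat_lit 0) (XT.lf (nat_lit 0) (nat_lit 5490237642) (nat_lit 1292) (nat_lit 100066293) (nat_lit 76) (nat_lit 1773316995) (nat_lit 221) (nat_lit 5) (nat_lit 238) (nat_lit 5) (nat_lit 222) (nat_lit 5) (nat_lit 317) (nat_lit 295) (nat_lit 288)) (XT.lf (nat_lit 0) (nat_lit 866132855) (nat_lit 532) (nat_lit 2208891952) (nat_lit 608) (nat_lit 4411109780) (nat_lit 205) (nat_lit 5) (nat_lit 212) (nat_lit 5) (nat_lit 213) (nat_lit 5) (nat_lit 318) (nat_lit 295) (nat_lit 287)))) (XT.nd (nat_lit 78) (nat_lit 1140) (nat_lit 0) (XT.lf (nat_lit 0) (nat_lit 488390210) (nat_lit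 684) (nat_lit 5708648931) (nat_lit 76) (nat_lit 1420684095) (nat_lit 196) (nat_lit 5) (nat_lit 205) (nat_lit 5) (nat_lit 197) (nat_lit 5) (nat_lit 319) (nat_lit 295) (nat_lit 286)) (XT.nd (nat_lit 78) (nat_lit 608) (nat_lit 0) (XT.lf (nat_lit 0) (nat_lit 2993722331) (nat_lit 532) (nat_lit 2448352065) (nat_lit 608) (nat_lit 2315646539) (nat_lit 189) (nat_lit 5) (nat_lit 196) (nat_lit 5) (nat_lit 197) (nat_lit 5) (nat_lit 320) (nat_lit 295) (nat_lit 285)) (XT.lf (nat_lit 0) (nat_lit 2585507052) (nat_lit 608) (nat_lit 3764649695) (nat_lit 76) (nat_lit 1556906680) (nat_lit 181) (nat_lit 5) (nat_lit 189) (nat_lit 5) (nat_lit 182) (nat_lit 5) (nat_lit 321) (nat_lit 295) (nat_lit 284)))))) (XT.nd (nat_lit 468) (nat_lit 2280) (nat_lit 0) (XT.nd (nat_lit 234) (nat_lit 1748) (nat_lit 0) (XT.nd (nat_lit 78) (nat_lit 1064) (nat_lit 0) (XT.lf (nat_lit 0) (nat_lit 5344315664) (nat_lit 456) (nat_lit 2258853392)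 (nat_lit 532) (nat_lit 462570632) (nat_lit 175) (nat_lit 5) (nat_lit 181) (nat_lit 5) (nat_lit 182) (nat_lit 5) (nat_lit 322) (nat_lit 295) (nat_lit 283)) (XT.nd (nat_lit 78) (nat_lit 532) (nat_lit 0) (XT.lf (nat_lit 0) (nat_lit 4470847983) (nat_lit 532) (nat_lit 1654610421) (nat_lit 76) (nat_lit 2108017601) (nat_lit 168) (nat_lit 5) (nat_lit 175) (nat_lit 5) (nat_lit 169) (nat_lit 5) (nat_lit 323) (nat_lit 295) (nat_lit 282)) (XT.lf (nat_lit 0) (nat_lit 1139744375) (nat_lit 532) (nat_lit 543033160) (nat_lit 76) (nat_lit 6728487900) (nat_lit 161) (nat_lit 5) (nat_lit 168) (nat_lit 5) (nat_lit 162) (nat_lit 5) (nat_lit 324) (nat_lit 295) (nat_lit 281)))) (XT.nd (nat_lit 78) (nat_lit 912) (nat_lit 0) (XT.lf (nat_lit 0) (nat_lit 592856023) (nat_lit 380) (nat_lit 5569154874) (nat_lit 456) (nat_lit 2436347746) (nat_lit 150) (nat_lit 5) (nat_lit 155) (nat_lit 5) (nat_lit 156) (nat_lit 5) (nat_lit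 325) (nat_lit 295) (nat_lit 280)) (XT.nd (nat_lit 78) (nat_lit 380) (nat_lit 0) (XT.lf (nat_lit 0) (nat_lit 1773118289) (nat_lit 456) (nat_lit 761797130) (nat_lit 532) (nat_lit 6260855277) (nat_lit 143) (nat_lit 5) (nat_lit 149) (nat_lit 5) (nat_lit 150) (nat_lit 5) (nat_lit 326) (nat_lit 295) (nat_lit 279)) (XT.lf (nat_lit 0) (nat_lit 2958015292) (nat_lit 380) (nat_lit 4718706845) (nat_lit 456) (nat_lit 1326533109) (nat_lit 138) (nat_lit 5) (nat_lit 143) (nat_lit 5) (nat_lit 144) (nat_lit 5) (nat_lit 327) (nat_lit 295) (nat_lit 278))))) (XT.nd (nat_lit 234) (nat_lit 1064) (nat_lit 0) (XT.nd (nat_lit 78) (nat_lit 760) (nat_lit 0) (XT.lf (nat_lit 0) (nat_lit 3727843109) (nat_lit 456) (nat_lit 5061860416) (nat_lit 76) (nat_lit 431931664) (nat_lit 132) (nat_lit 5) (nat_lit 138) (nat_lit 5) (nat_lit 133) (nat_lit 5) (nat_lit 328) (nat_lit 295) (nat_lit 277)) (XT.nd (nat_lit 78) (nat_lit 456) (nat_lit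 0) (XT.lf (nat_lit 0) (nat_lit 5360264112) (nat_lit 304) (nat_lit 3638694941) (nat_lit 380) (nat_lit 451922450) (nat_lit 128) (nat_lit 5) (nat_lit 132) (nat_lit 5) (nat_lit 133) (nat_lit 5) (nat_lit 329) (nat_lit 295) (nat_lit 276)) (XT.lf (nat_lit 0) (nat_lit 4714743328) (nat_lit 456) (nat_lit 3141086497) (nat_lit 76) (nat_lit 1835426972) (nat_lit 122) (nat_lit 5) (nat_lit 128) (nat_lit 5) (nat_lit 123) (nat_lit 5) (nat_lit 330) (nat_lit 295) (nat_lit 275)))) (XT.nd (nat_lit 78) (nat_lit 684) (nat_lit 0) (XT.lf (nat_lit 0) (nat_lit 175464617) (nat_lit 380) (nat_lit 2199297251) (nat_lit 76) (nat_lit 7569006628) (nat_lit 117) (nat_lit 5) (nat_lit 122) (nat_lit 5) (nat_lit 118) (nat_lit 5) (nat_lit 331) (nat_lit 295) (nat_lit 274)) (XT.nd (nat_lit 78) (nat_lit 380) (nat_lit 0) (XT.lf (nat_lit 0) (nat_lit 5477588795) (nat_lit 380) (nat_lit 1312363038) (nat_lit 76) (nat_lit 3417680964) (nat_lit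 113) (nat_lit 5) (nat_lit 118) (nat_lit 5) (nat_lit 114) (nat_lit 5) (nat_lit 332) (nat_lit 295) (nat_lit 273)) (XT.lf (nat_lit 0) (nat_lit 539785852) (nat_lit 380) (nat_lit 435232251) (nat_lit 76) (nat_lit 9509857111) (nat_lit 108) (nat_lit 5) (nat_lit 113) (nat_lit 5) (nat_lit 109) (nat_lit 5) (nat_lit 333) (nat_lit 295) (nat_lit 272))))))) (XT.nd (nat_lit 936) (nat_lit 1824) (nat_lit 0) (XT.nd (nat_lit 468) (nat_lit 1444) (nat_lit 0) (XT.nd (nat_lit 234) (nat_lit 836) (nat_lit 0) (XT.nd (nat_lit 78) (nat_lit 608) (nat_lit 0) (XT.lf (nat_lit 0) (nat_lit 363193737) (nat_lit 228) (nat_lit 5638848015) (nat_lit 304) (nat_lit 4771791258) (nat_lit 101) (nat_lit 5) (nat_lit 104) (nat_lit 5) (nat_lit 105) (nat_lit 5) (nat_lit 334) (nat_lit 295) (nat_lit 271)) (XT.nd (nat_lit 78) (nat_lit 228) (nat_lit 0) (XT.lf (nat_lit 0) (nat_lit 643037238) (nat_lit 380) (nat_lit 9927458804) (nat_lit 76) (nat_lit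 506736237) (nat_lit 96) (nat_lit 5) (nat_lit 101) (nat_lit 5) (nat_lit 97) (nat_lit 5) (nat_lit 335) (nat_lit 295) (nat_lit 270)) (XT.lf (nat_lit 0) (nat_lit 1820571101) (nat_lit 228) (nat_lit 4448805133) (nat_lit 304) (nat_lit 5123877914) (nat_lit 93) (nat_lit 5) (nat_lit 96) (nat_lit 5) (nat_lit 97) (nat_lit 5) (nat_lit 336) (nat_lit 295) (nat_lit 269)))) (XT.nd (nat_lit 78) (nat_lit 456) (nat_lit 0) (XT.lf (nat_lit 0) (nat_lit 448874956) (nat_lit 380) (nat_lit 9279258322) (nat_lit 76) (nat_lit 1996690988) (nat_lit 88) (nat_lit 5) (nat_lit 93) (nat_lit 5) (nat_lit 89) (nat_lit 5) (nat_lit 337) (nat_lit 295) (nat_lit 268)) (XT.nd (nat_lit 78) (nat_lit 228) (nat_lit 0) (XT.lf (nat_lit 0) (nat_lit 2938893376) (nat_lit 228) (nat_lit 3292244603) (nat_lit 304) (nat_lit 5839255002) (nat_lit 85) (nat_lit 5) (nat_lit 88) (nat_lit 5) (nat_lit 89) (nat_lit 5) (nat_lit 338) (nat_lit 295) (nat_lit 267))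 (XT.lf (nat_lit 0) (nat_lit 3349893935) (nat_lit 228) (nat_lit 8981547155) (nat_lit 304) (nat_lit 100976280) (nat_lit 82) (nat_lit 5) (nat_lit 85) (nat_lit 5) (nat_lit 86) (nat_lit 5) (nat_lit 339) (nat_lit 295) (nat_lit 266))))) (XT.nd (nat_lit 234) (nat_lit 684) (nat_lit 0) (XT.nd (nat_lit 78) (nat_lit 456) (nat_lit 0) (XT.lf (nat_lit 0) (nat_lit 3606487469) (nat_lit 228) (nat_lit 2234934480) (nat_lit 304) (nat_lit 6968470016) (nat_lit 78) (nat_lit 5) (nat_lit 81) (nat_lit 5) (nat_lit 82) (nat_lit 5) (nat_lit 340) (nat_lit 295) (nat_lit 265)) (XT.nd (nat_lit 78) (nat_lit 228) (nat_lit 0) (XT.lf (nat_lit 0) (nat_lit 3734317693) (nat_lit 228) (nat_lit 8394956905) (nat_lit 304) (nat_lit 1075462681) (nat_lit 75) (nat_lit 5) (nat_lit 78) (nat_lit 5) (nat_lit 79) (nat_lit 5) (nat_lit 341) (nat_lit 295) (nat_lit 264)) (XT.lf (nat_lit 0) (nat_lit 3691268410) (nat_lit 152) (nat_lit 1351211263) (nat_lit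 228) (nat_lit 8574506359) (nat_lit 72) (nat_lit 5) (nat_lit 74) (nat_lit 5) (nat_lit 75) (nat_lit 5) (nat_lit 342) (nat_lit 295) (nat_lit 263)))) (XT.nd (nat_lit 78) (nat_lit 456) (nat_lit 0) (XT.lf (nat_lit 0) (nat_lit 3459649424) (nat_lit 228) (nat_lit 8054024555) (nat_lit 304) (nat_lit 2533800821) (nat_lit 69) (nat_lit 5) (nat_lit 72) (nat_lit 5) (nat_lit 73) (nat_lit 5) (nat_lit 343) (nat_lit 295) (nat_lit 262)) (XT.nd (nat_lit 78) (nat_lit 228) (nat_lit 0) (XT.lf (nat_lit 0) (nat_lit 3036672009) (nat_lit 152) (nat_lit 726212962) (nat_lit 228) (nat_lit 10734688787) (nat_lit 66) (nat_lit 5) (nat_lit 68) (nat_lit 5) (nat_lit 69) (nat_lit 5) (nat_lit 344) (nat_lit 295) (nat_lit 261)) (XT.lf (nat_lit 0) (nat_lit 2355393447) (nat_lit 228) (nat_lit 8052075029) (nat_lit 304) (nat_lit 4559423346) (nat_lit 63) (nat_lit 5) (nat_lit 66) (nat_lit 5) (nat_lit 67) (nat_lit 5) (nat_lit 345) (nat_lit 295)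 (nat_lit 260)))))) (XT.nd (nat_lit 468) (nat_lit 836) (nat_lit 0) (XT.nd (nat_lit 234) (nat_lit 608) (nat_lit 0) (XT.nd (nat_lit 78) (nat_lit 152) (nat_lit 0) (XT.lf (nat_lit 0) (nat_lit 1456912194) (nat_lit 152) (nat_lit 458431319) (nat_lit 228) (nat_lit 13542956881) (nat_lit 60) (nat_lit 5) (nat_lit 62) (nat_lit 5) (nat_lit 63) (nat_lit 5) (nat_lit 346) (nat_lit 295) (nat_lit 259)) (XT.nd (nat_lit 78) (nat_lit 0) (nat_lit 0) (XT.lf (nat_lit 0) (nat_lit 219155764) (nat_lit 152) (nat_lit 8497370456) (nat_lit 228) (nat_lit 7253516781) (nat_lit 58) (nat_lit 5) (nat_lit 60) (nat_lit 5) (nat_lit 61) (nat_lit 5) (nat_lit 347) (nat_lit 295) (nat_lit 258)) (XT.lf (nat_lit 0) (nat_lit 15256489611) (nat_lit 152) (nat_lit 644091810) (nat_lit 228) (nat_lit 605532714) (nat_lit 58) (nat_lit 5) (nat_lit 60) (nat_lit 5) (nat_lit 61) (nat_lit 5) (nat_lit 348) (nat_lit 295) (nat_lit 257)))) (XT.nd (nat_lit 78)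 (nat_lit 380) (nat_lit 0) (XT.lf (nat_lit 0) (nat_lit 6357585972) (nat_lit 228) (nat_lit 3127107816) (nat_lit 76) (nat_lit 7579266575) (nat_lit 55) (nat_lit 5) (nat_lit 58) (nat_lit 5) (nat_lit 56) (nat_lit 5) (nat_lit 349) (nat_lit 295) (nat_lit 256)) (XT.nd (nat_lit 78) (nat_lit 228) (nat_lit 0) (XT.lf (nat_lit 0) (nat_lit 12314261271) (nat_lit 152) (nat_lit 1380699480) (nat_lit 228) (nat_lit 3953422303) (nat_lit 53) (nat_lit 5) (nat_lit 55) (nat_lit 5) (nat_lit 56) (nat_lit 5) (nat_lit 350) (nat_lit 295) (nat_lit 255)) (XT.lf (nat_lit 0) (nat_lit 3180017357) (nat_lit 228) (nat_lit 7996134892) (nat_lit 76) (nat_lit 7081869215) (nat_lit 50) (nat_lit 5) (nat_lit 53) (nat_lit 5) (nat_lit 51) (nat_lit 5) (nat_lit 351) (nat_lit 295) (nat_lit 254))))) (XT.nd (nat_lit 234) (nat_lit 304) (nat_lit 0) (XT.nd (nat_lit 78) (nat_lit 380) (nat_lit 0) (XT.lf (nat_lit 0) (nat_lit 7783111110) (nat_lit 152)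 (nat_lit 2855372046) (nat_lit 228) (nat_lit 8257000854) (nat_lit 48) (nat_lit 5) (nat_lit 50) (nat_lit 5) (nat_lit 51) (nat_lit 5) (nat_lit 352) (nat_lit 295) (nat_lit 253)) (XT.nd (nat_lit 78) (nat_lit 228) (nat_lit 0) (XT.lf (nat_lit 0) (nat_lit 4828574312) (nat_lit 152) (nat_lit 13734809162) (nat_lit 228) (nat_lit 998649926) (nat_lit 46) (nat_lit 5) (nat_lit 48) (nat_lit 5) (nat_lit 49) (nat_lit 4) (nat_lit 353) (nat_lit 295) (nat_lit 252)) (XT.lf (nat_lit 0) (nat_lit 1310799830) (nat_lit 152) (nat_lit 5248931715) (nat_lit 228) (nat_lit 13698296189) (nat_lit 43) (nat_lit 5) (nat_lit 45) (nat_lit 5) (nat_lit 46) (nat_lit 5) (nat_lit 354) (nat_lit 295) (nat_lit 251)))) (XT.nd (nat_lit 78) (nat_lit 304) (nat_lit 0) (XT.lf (nat_lit 0) (nat_lit 14575476376) (nat_lit 228) (nat_lit 2724719426) (nat_lit 76) (nat_lit 3685343196) (nat_lit 43) (nat_lit 5) (nat_lit 46) (nat_lit 5) (nat_lit 44) (nat_lit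 4) (nat_lit 355) (nat_lit 295) (nat_lit 250)) (XT.nd (nat_lit 78) (nat_lit 152) (nat_lit 0) (XT.lf (nat_lit 0) (nat_lit 1326393529) (nat_lit 152) (nat_lit 7373855579) (nat_lit 76) (nat_lit 13045592154) (nat_lit 41) (nat_lit 5) (nat_lit 43) (nat_lit 5) (nat_lit 42) (nat_lit 5) (nat_lit 356) (nat_lit 295) (nat_lit 249)) (XT.lf (nat_lit 0) (nat_lit 9362929407) (nat_lit 228) (nat_lit 12730302181) (nat_lit 76) (nat_lit 447663042) (nat_lit 39) (nat_lit 5) (nat_lit 42) (nat_lit 5) (nat_lit 40) (nat_lit 4) (nat_lit 357) (nat_lit 295) (nat_lit 248))))))))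
noncomputable def xc40 : XT := (XT.nd (nat_lit 1794) (nat_lit 608) (nat_lit 0) (XT.nd (nat_lit 858) (nat_lit 684) (nat_lit 0) (XT.nd (nat_lit 390) (nat_lit 380) (nat_lit 0) (XT.nd (nat_lit 156) (nat_lit 456) (nat_lit 0) (XT.nd (nat_lit 78) (nat_lit 76) (nat_lit 0) (XT.lf (nat_lit 0) (nat_lit 4487819131) (nat_lit 76) (nat_lit 13440536437) (nat_lit 152) (nat_lit 5443547266) (nat_lit 38) (nat_lit 5) (nat_lit 39) (nat_lit 5) (nat_lit 40) (nat_lit 4) (nat_lit 358) (nat_lit 295) (nat_lit 247)) (XT.lf (nat_lit 0) (nat_lit 2678823203) (nat_lit 152) (nat_lit 1578208266) (nat_lit 76) (nat_lit 19985066400) (nat_lit 37) (nat_lit 5) (nat_lit 39) (nat_lit 5) (nat_lit 38) (nat_lit 5) (nat_lit 359) (nat_lit 295) (nat_lit 246))) (XT.nd (nat_lit 78) (nat_lit 304) (nat_lit 0) (XT.lf (nat_lit 0) (nat_lit 11234781330) (nat_lit 228) (nat_lit 8477154179) (nat_lit 76) (nat_lit 5438061143) (nat_lit 35) (nat_lit 5) (nat_lit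 38) (nat_lit 5) (nat_lit 36) (nat_lit 4) (nat_lit 360) (nat_lit 295) (nat_lit 245)) (XT.nd (nat_lit 78) (nat_lit 228) (nat_lit 0) (XT.lf (nat_lit 0) (nat_lit 9779954460) (nat_lit 76) (nat_lit 10518583998) (nat_lit 152) (nat_lit 5802363685) (nat_lit 34) (nat_lit 5) (nat_lit 35) (nat_lit 5) (nat_lit 36) (nat_lit 4) (nat_lit 361) (nat_lit 295) (nat_lit 244)) (XT.lf (nat_lit 0) (nat_lit 1908631033) (nat_lit 152) (nat_lit 789113921) (nat_lit 228) (nat_lit 24399797116) (nat_lit 31) (nat_lit 5) (nat_lit 33) (nat_lit 5) (nat_lit 34) (nat_lit 5) (nat_lit 362) (nat_lit 295) (nat_lit 243))))) (XT.nd (nat_lit 234) (nat_lit 76) (nat_lit 0) (XT.nd (nat_lit 78) (nat_lit 304) (nat_lit 0) (XT.lf (nat_lit 0) (nat_lit 11694029746) (nat_lit 228) (nat_lit 7028796121) (nat_lit 76) (nat_lit 9413739873) (nat_lit 31) (nat_lit 5) (nat_lit 34) (nat_lit 5) (nat_lit 32) (nat_lit 4) (nat_lit 363) (nat_lit 295) (nat_lit 242))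 (XT.nd (nat_lit 78) (nat_lit 228) (nat_lit 0) (XT.lf (nat_lit 0) (nat_lit 12144799726) (nat_lit 76) (nat_lit 9053148738) (nat_lit 152) (nat_lit 8027867434) (nat_lit 30) (nat_lit 5) (nat_lit 31) (nat_lit 5) (nat_lit 32) (nat_lit 4) (nat_lit 364) (nat_lit 295) (nat_lit 241)) (XT.lf (nat_lit 0) (nat_lit 829255246) (nat_lit 228) (nat_lit 28414389557) (nat_lit 76) (nat_lit 1124535682) (nat_lit 27) (nat_lit 5) (nat_lit 30) (nat_lit 5) (nat_lit 28) (nat_lit 4) (nat_lit 365) (nat_lit 295) (nat_lit 240)))) (XT.nd (nat_lit 78) (nat_lit 76) (nat_lit 0) (XT.lf (nat_lit 0) (nat_lit 10169655764) (nat_lit 228) (nat_lit 9558485505) (nat_lit 76) (nat_lit 11830952724) (nat_lit 27) (nat_lit 5) (nat_lit 30) (nat_lit 5) (nat_lit 28) (nat_lit 4) (nat_lit 366) (nat_lit 295) (nat_lit 239)) (XT.nd (nat_lit 78) (nat_lit 0) (nat_lit 0) (XT.lf (nat_lit 0) (nat_lit 10328197083) (nat_lit 76) (nat_lit 9687166264) (nat_lit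 152) (nat_lit 12793049517) (nat_lit 26) (nat_lit 5) (nat_lit 27) (nat_lit 5) (nat_lit 28) (nat_lit 4) (nat_lit 367) (nat_lit 295) (nat_lit 238)) (XT.lf (nat_lit 0) (nat_lit 30401312301) (nat_lit 152) (nat_lit 2829081602) (nat_lit 0) (nat_lit 888373005) (nat_lit 26) (nat_lit 5) (nat_lit 28) (nat_lit 4) (nat_lit 26) (nat_lit 4) (nat_lit 368) (nat_lit 295) (nat_lit 237)))))) (XT.nd (nat_lit 468) (nat_lit 228) (nat_lit 0) (XT.nd (nat_lit 234) (nat_lit 228) (nat_lit 0) (XT.nd (nat_lit 78) (nat_lit 76) (nat_lit 0) (XT.lf (nat_lit 0) (nat_lit 5914143329) (nat_lit 152) (nat_lit 17595380864) (nat_lit 76) (nat_lit 11976976695) (nat_lit 24) (nat_lit 5) (nat_lit 26) (nat_lit 5) (nat_lit 25) (nat_lit 4) (nat_lit 369) (nat_lit 295) (nat_lit 236)) (XT.nd (nat_lit 78) (nat_lit 0) (nat_lit 0) (XT.lf (nat_lit 0) (nat_lit 2695139153) (nat_lit 76) (nat_lit 13255691273) (nat_lit 152) (nat_lit 20970682152) (nat_lit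 23) (nat_lit 5) (nat_lit 24) (nat_lit 5) (nat_lit 25) (nat_lit 4) (nat_lit 370) (nat_lit 295) (nat_lit 235)) (XT.lf (nat_lit 0) (nat_lit 24266521415) (nat_lit 76) (nat_lit 2349993349) (nat_lit 152) (nat_lit 11807951834) (nat_lit 23) (nat_lit 5) (nat_lit 24) (nat_lit 5) (nat_lit 25) (nat_lit 4) (nat_lit 371) (nat_lit 295) (nat_lit 234)))) (XT.nd (nat_lit 78) (nat_lit 152) (nat_lit 0) (XT.lf (nat_lit 0) (nat_lit 6862692671) (nat_lit 76) (nat_lit 31054413255) (nat_lit 76) (nat_lit 2082420027) (nat_lit 22) (nat_lit 4) (nat_lit 23) (nat_lit 5) (nat_lit 23) (nat_lit 4) (nat_lit 372) (nat_lit 295) (nat_lit 233)) (XT.nd (nat_lit 78) (nat_lit 76) (nat_lit 0) (XT.lf (nat_lit 0) (nat_lit 8090883004) (nat_lit 152) (nat_lit 12617911704) (nat_lit 76) (nat_lit 20938601220) (nat_lit 21) (nat_lit 5) (nat_lit 23) (nat_lit 5) (nat_lit 22) (nat_lit 4) (nat_lit 373) (nat_lit 295) (nat_lit 232)) (XT.lf (nat_lit 0)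 (nat_lit 8990070182) (nat_lit 76) (nat_lit 9778172407) (nat_lit 152) (nat_lit 24607650062) (nat_lit 20) (nat_lit 5) (nat_lit 21) (nat_lit 5) (nat_lit 22) (nat_lit 4) (nat_lit 374) (nat_lit 295) (nat_lit 231))))) (XT.nd (nat_lit 234) (nat_lit 76) (nat_lit 0) (XT.nd (nat_lit 78) (nat_lit 152) (nat_lit 0) (XT.lf (nat_lit 0) (nat_lit 30079667615) (nat_lit 152) (nat_lit 13352096897) (nat_lit 0) (nat_lit 1756049069) (nat_lit 20) (nat_lit 5) (nat_lit 22) (nat_lit 4) (nat_lit 20) (nat_lit 4) (nat_lit 375) (nat_lit 295) (nat_lit 230)) (XT.nd (nat_lit 78) (nat_lit 76) (nat_lit 0) (XT.lf (nat_lit 0) (nat_lit 8719348222) (nat_lit 76) (nat_lit 33374767233) (nat_lit 76) (nat_lit 4992096602) (nat_lit 19) (nat_lit 4) (nat_lit 20) (nat_lit 5) (nat_lit 20) (nat_lit 4) (nat_lit 376) (nat_lit 295) (nat_lit 229)) (XT.lf (nat_lit 0) (nat_lit 5614560303) (nat_lit 152) (nat_lit 17041353295) (nat_lit 76) (nat_lit 26419158165)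 (nat_lit 18) (nat_lit 5) (nat_lit 20) (nat_lit 5) (nat_lit 19) (nat_lit 4) (nat_lit 377) (nat_lit 295) (nat_lit 228)))) (XT.nd (nat_lit 78) (nat_lit 0) (nat_lit 0) (XT.lf (nat_lit 0) (nat_lit 5324077390) (nat_lit 76) (nat_lit 11334321665) (nat_lit 152) (nat_lit 34503194244) (nat_lit 17) (nat_lit 5) (nat_lit 18) (nat_lit 5) (nat_lit 19) (nat_lit 4) (nat_lit 378) (nat_lit 295) (nat_lit 227)) (XT.nd (nat_lit 78) (nat_lit 0) (nat_lit 0) (XT.lf (nat_lit 0) (nat_lit 28395769538) (nat_lit 152) (nat_lit 24268786363) (nat_lit 0) (nat_lit 683649048) (nat_lit 17) (nat_lit 5) (nat_lit 19) (nat_lit 4) (nat_lit 17) (nat_lit 4) (nat_lit 379) (nat_lit 295) (nat_lit 226)) (XT.lf (nat_lit 0) (nat_lit 40795225811) (nat_lit 152) (nat_lit 1810730839) (nat_lit 0) (nat_lit 13035938043) (nat_lit 17) (nat_lit 5) (nat_lit 19) (nat_lit 4) (nat_lit 17) (nat_lit 4) (nat_lit 380) (nat_lit 295) (nat_lit 225))))))) (XT.nd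 (nat_lit 936) (nat_lit 76) (nat_lit 0) (XT.nd (nat_lit 468) (nat_lit 228) (nat_lit 0) (XT.nd (nat_lit 234) (nat_lit 76) (nat_lit 0) (XT.nd (nat_lit 78) (nat_lit 152) (nat_lit 0) (XT.lf (nat_lit 0) (nat_lit 22130928787) (nat_lit 76) (nat_lit 31859145192) (nat_lit 76) (nat_lit 4054936208) (nat_lit 16) (nat_lit 4) (nat_lit 17) (nat_lit 5) (nat_lit 17) (nat_lit 4) (nat_lit 381) (nat_lit 295) (nat_lit 224)) (XT.nd (nat_lit 78) (nat_lit 76) (nat_lit 0) (XT.lf (nat_lit 0) (nat_lit 7116652741) (nat_lit 152) (nat_lit 13400186029) (nat_lit 76) (nat_lit 40049880140) (nat_lit 15) (nat_lit 5) (nat_lit 17) (nat_lit 5) (nat_lit 16) (nat_lit 4) (nat_lit 382) (nat_lit 295) (nat_lit 223)) (XT.lf (nat_lit 0) (nat_lit 10333603903) (nat_lit 76) (nat_lit 8494642336) (nat_lit 152) (nat_lit 44383107152) (nat_lit 14) (nat_lit 5) (nat_lit 15) (nat_lit 5) (nat_lit 16) (nat_lit 4) (nat_lit 383) (nat_lit 295) (nat_lit 222))))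 (XT.nd (nat_lit 78) (nat_lit 76) (nat_lit 0) (XT.lf (nat_lit 0) (nat_lit 31270331380) (nat_lit 152) (nat_lit 30556358909) (nat_lit 0) (nat_lit 4157185166) (nat_lit 14) (nat_lit 5) (nat_lit 16) (nat_lit 4) (nat_lit 14) (nat_lit 4) (nat_lit 384) (nat_lit 295) (nat_lit 221)) (XT.nd (nat_lit 78) (nat_lit 76) (nat_lit 0) (XT.lf (nat_lit 0) (nat_lit 44387798174) (nat_lit 152) (nat_lit 7266858613) (nat_lit 0) (nat_lit 17238771576) (nat_lit 14) (nat_lit 5) (nat_lit 16) (nat_lit 4) (nat_lit 14) (nat_lit 4) (nat_lit 385) (nat_lit 295) (nat_lit 220)) (XT.lf (nat_lit 0) (nat_lit 17468736249) (nat_lit 76) (nat_lit 40829406918) (nat_lit 76) (nat_lit 13646208524) (nat_lit 13) (nat_lit 4) (nat_lit 14) (nat_lit 5) (nat_lit 14) (nat_lit 4) (nat_lit 386) (nat_lit 295) (nat_lit 219))))) (XT.nd (nat_lit 234) (nat_lit 76) (nat_lit 0) (XT.nd (nat_lit 78) (nat_lit 152) (nat_lit 0) (XT.lf (nat_lit 0) (nat_lit 43535407048)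 (nat_lit 76) (nat_lit 29413407797) (nat_lit 76) (nat_lit 2197664837) (nat_lit 13) (nat_lit 4) (nat_lit 14) (nat_lit 5) (nat_lit 14) (nat_lit 4) (nat_lit 387) (nat_lit 295) (nat_lit 218)) (XT.nd (nat_lit 78) (nat_lit 76) (nat_lit 0) (XT.lf (nat_lit 0) (nat_lit 9602764444) (nat_lit 152) (nat_lit 7753125962) (nat_lit 76) (nat_lit 61150859013) (nat_lit 12) (nat_lit 5) (nat_lit 14) (nat_lit 5) (nat_lit 13) (nat_lit 4) (nat_lit 388) (nat_lit 295) (nat_lit 217)) (XT.lf (nat_lit 0) (nat_lit 17565545784) (nat_lit 76) (nat_lit 4524012073) (nat_lit 152) (nat_lit 59940570650) (nat_lit 11) (nat_lit 5) (nat_lit 12) (nat_lit 5) (nat_lit 13) (nat_lit 4) (nat_lit 389) (nat_lit 295) (nat_lit 216)))) (XT.nd (nat_lit 78) (nat_lit 76) (nat_lit 0) (XT.lf (nat_lit 0) (nat_lit 35340420551) (nat_lit 152) (nat_lit 41553742868) (nat_lit 0) (nat_lit 8831323573) (nat_lit 11) (nat_lit 5) (nat_lit 13) (nat_lit 4) (nat_lit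 11) (nat_lit 4) (nat_lit 390) (nat_lit 295) (nat_lit 215)) (XT.nd (nat_lit 78) (nat_lit 76) (nat_lit 0) (XT.lf (nat_lit 0) (nat_lit 49273869396) (nat_lit 152) (nat_lit 17592367173) (nat_lit 0) (nat_lit 22738777762) (nat_lit 11) (nat_lit 5) (nat_lit 13) (nat_lit 4) (nat_lit 11) (nat_lit 4) (nat_lit 391) (nat_lit 295) (nat_lit 214)) (XT.lf (nat_lit 0) (nat_lit 7669747219) (nat_lit 76) (nat_lit 56283570782) (nat_lit 76) (nat_lit 29723722332) (nat_lit 10) (nat_lit 4) (nat_lit 11) (nat_lit 5) (nat_lit 11) (nat_lit 4) (nat_lit 392) (nat_lit 295) (nat_lit 213)))))) (XT.nd (nat_lit 40560) (nat_lit 0) (nat_lit 16036) (XT.nd (nat_lit 40326) (nat_lit 0) (nat_lit 22572) (XT.nd (nat_lit 156) (nat_lit 76) (nat_lit 0) (XT.lf (nat_lit 0) (nat_lit 34516948672) (nat_lit 76) (nat_lit 45007212343) (nat_lit 76) (nat_lit 18423785975) (nat_lit 10) (nat_lit 4) (nat_lit 11) (nat_lit 5) (nat_lit 11) (nat_lit 4) (nat_lit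 393) (nat_lit 295) (nat_lit 212)) (XT.nd (nat_lit 40092) (nat_lit 0) (nat_lit 24776) (XT.lf (nat_lit 0) (nat_lit 5715834812) (nat_lit 152) (nat_lit 15024122728) (nat_lit 76) (nat_lit 86401471633) (nat_lit 9) (nat_lit 5) (nat_lit 11) (nat_lit 5) (nat_lit 10) (nat_lit 4) (nat_lit 395) (nat_lit 295) (nat_lit 210)) (XT.lf (nat_lit 0) (nat_lit 765860812) (nat_lit 532) (nat_lit 1275166427) (nat_lit 532) (nat_lit 1275166427) (nat_lit 335) (nat_lit 4) (nat_lit 342) (nat_lit 5) (nat_lit 342) (nat_lit 4) (nat_lit 308) (nat_lit 296) (nat_lit 296)))) (XT.nd (nat_lit 78) (nat_lit 1520) (nat_lit 0) (XT.lf (nat_lit 0) (nat_lit 1671608225) (nat_lit 608) (nat_lit 972328242) (nat_lit 684) (nat_lit 4040467416) (nat_lit 326) (nat_lit 5) (nat_lit 334) (nat_lit 5) (nat_lit 335) (nat_lit 4) (nat_lit 309) (nat_lit 296) (nat_lit 295)) (XT.nd (nat_lit 78) (nat_lit 760) (nat_lit 0) (XT.lf (nat_lit 0) (nat_lit 1070897702)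 (nat_lit 760) (nat_lit 4831112109) (nat_lit 76) (nat_lit 842475730) (nat_lit 316) (nat_lit 5) (nat_lit 326) (nat_lit 5) (nat_lit 317) (nat_lit 4) (nat_lit 310) (nat_lit 296) (nat_lit 294)) (XT.lf (nat_lit 0) (nat_lit 2245990762) (nat_lit 760) (nat_lit 3914303133) (nat_lit 836) (nat_lit 652166350) (nat_lit 306) (nat_lit 5) (nat_lit 316) (nat_lit 5) (nat_lit 317) (nat_lit 4) (nat_lit 311) (nat_lit 296) (nat_lit 293))))) (XT.nd (nat_lit 234) (nat_lit 3572) (nat_lit 0) (XT.nd (nat_lit 78) (nat_lit 2052) (nat_lit 0) (XT.lf (nat_lit 0) (nat_lit 2672502582) (nat_lit 836) (nat_lit 1663504437) (nat_lit 912) (nat_lit 2552568607) (nat_lit 294) (nat_lit 5) (nat_lit 305) (nat_lit 5) (nat_lit 306) (nat_lit 5) (nat_lit 312) (nat_lit 296) (nat_lit 292)) (XT.nd (nat_lit 78) (nat_lit 1064) (nat_lit 0) (XT.lf (nat_lit 0) (nat_lit 2365514684) (nat_lit 988) (nat_lit 3778212863) (nat_lit 76) (nat_lit 829330084) (nat_lit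 281) (nat_lit 5) (nat_lit 294) (nat_lit 5) (nat_lit 282) (nat_lit 5) (nat_lit 313) (nat_lit 296) (nat_lit 291)) (XT.lf (nat_lit 0) (nat_lit 251998710) (nat_lit 1064) (nat_lit 3263742351) (nat_lit 76) (nat_lit 3550025802) (nat_lit 267) (nat_lit 5) (nat_lit 281) (nat_lit 5) (nat_lit 268) (nat_lit 5) (nat_lit 314) (nat_lit 296) (nat_lit 290)))) (XT.nd (nat_lit 78) (nat_lit 2508) (nat_lit 0) (XT.lf (nat_lit 0) (nat_lit 4489914131) (nat_lit 1064) (nat_lit 608323140) (nat_lit 1140) (nat_lit 2068538573) (nat_lit 253) (nat_lit 5) (nat_lit 267) (nat_lit 5) (nat_lit 268) (nat_lit 5) (nat_lit 315) (nat_lit 296) (nat_lit 289)) (XT.nd (nat_lit 78) (nat_lit 1292) (nat_lit 0) (XT.lf (nat_lit 0) (nat_lit 2729100340) (nat_lit 1216) (nat_lit 2026693678) (nat_lit 76) (nat_lit 2520228527) (nat_lit 237) (nat_lit 5) (nat_lit 253) (nat_lit 5) (nat_lit 238) (nat_lit 5) (nat_lit 316) (nat_lit 296) (nat_lit 288)) (XT.lf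 (nat_lit 0) (nat_lit 190632149) (nat_lit 1292) (nat_lit 1294591538) (nat_lit 76) (nat_lit 5909068334) (nat_lit 220) (nat_lit 5) (nat_lit 237) (nat_lit 5) (nat_lit 221) (nat_lit 5) (nat_lit 317) (nat_lit 296) (nat_lit 287))))))))
noncomputable def xc41 : XT := (XT.nd (nat_lit 1794) (nat_lit 3800) (nat_lit 0) (XT.nd (nat_lit 858) (nat_lit 3876) (nat_lit 0) (XT.nd (nat_lit 390) (nat_lit 3192) (nat_lit 0) (XT.nd (nat_lit 156) (nat_lit 1672) (nat_lit 0) (XT.nd (nat_lit 78) (nat_lit 1216) (nat_lit 0) (XT.lf (nat_lit 0) (nat_lit 4958799446) (nat_lit 684) (nat_lit 519495174) (nat_lit 76) (nat_lit 2042362052) (nat_lit 212) (nat_lit 5) (nat_lit 221) (nat_lit 5) (nat_lit 213) (nat_lit 5) (nat_lit 318) (nat_lit 296) (nat_lit 286)) (XT.lf (nat_lit 0) (nat_lit 329285095) (nat_lit 608) (nat_lit 1831626984) (nat_lit 684) (nat_lit 5495093934) (nat_lit 196) (nat_lit 5) (nat_lit 204) (nat_lit 5) (nat_lit 205)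 (nat_lit 5) (nat_lit 319) (nat_lit 296) (nat_lit 285))) (XT.nd (nat_lit 78) (nat_lit 1140) (nat_lit 0) (XT.lf (nat_lit 0) (nat_lit 1244702402) (nat_lit 532) (nat_lit 5733126294) (nat_lit 608) (nat_lit 822349115) (nat_lit 189) (nat_lit 5) (nat_lit 196) (nat_lit 5) (nat_lit 197) (nat_lit 5) (nat_lit 320) (nat_lit 296) (nat_lit 284)) (XT.nd (nat_lit 78) (nat_lit 532) (nat_lit 0) (XT.lf (nat_lit 0) (nat_lit 2200919140) (nat_lit 532) (nat_lit 1715083063) (nat_lit 608) (nat_lit 4037163060) (nat_lit 181) (nat_lit 5) (nat_lit 188) (nat_lit 5) (nat_lit 189) (nat_lit 5) (nat_lit 321) (nat_lit 296) (nat_lit 283)) (XT.lf (nat_lit 0) (nat_lit 671457096) (nat_lit 532) (nat_lit 4903495397) (nat_lit 76) (nat_lit 2540742664) (nat_lit 174) (nat_lit 5) (nat_lit 181) (nat_lit 5) (nat_lit 175) (nat_lit 5) (nat_lit 322) (nat_lit 296) (nat_lit 282))))) (XT.nd (nat_lit 234) (nat_lit 1748) (nat_lit 0) (XT.nd (nat_lit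 78) (nat_lit 988) (nat_lit 0) (XT.lf (nat_lit 0) (nat_lit 4256461693) (nat_lit 456) (nat_lit 1202702948) (nat_lit 532) (nat_lit 2828291847) (nat_lit 168) (nat_lit 5) (nat_lit 174) (nat_lit 5) (nat_lit 175) (nat_lit 5) (nat_lit 323) (nat_lit 296) (nat_lit 281)) (XT.nd (nat_lit 78) (nat_lit 456) (nat_lit 0) (XT.lf (nat_lit 0) (nat_lit 1928461565) (nat_lit 532) (nat_lit 3133504800) (nat_lit 76) (nat_lit 3406885221) (nat_lit 161) (nat_lit 5) (nat_lit 168) (nat_lit 5) (nat_lit 162) (nat_lit 5) (nat_lit 324) (nat_lit 296) (nat_lit 280)) (XT.lf (nat_lit 0) (nat_lit 6456691989) (nat_lit 456) (nat_lit 344323219) (nat_lit 532) (nat_lit 1859471932) (nat_lit 155) (nat_lit 5) (nat_lit 161) (nat_lit 5) (nat_lit 162) (nat_lit 5) (nat_lit 325) (nat_lit 296) (nat_lit 279)))) (XT.nd (nat_lit 78) (nat_lit 1292) (nat_lit 0) (XT.lf (nat_lit 0) (nat_lit 2971450084) (nat_lit 456) (nat_lit 1279427790) (nat_lit 76)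 (nat_lit 4610774609) (nat_lit 149) (nat_lit 5) (nat_lit 155) (nat_lit 5) (nat_lit 150) (nat_lit 5) (nat_lit 326) (nat_lit 296) (nat_lit 278)) (XT.nd (nat_lit 78) (nat_lit 836) (nat_lit 0) (XT.lf (nat_lit 0) (nat_lit 7954546392) (nat_lit 532) (nat_lit 322032030) (nat_lit 76) (nat_lit 797364799) (nat_lit 143) (nat_lit 5) (nat_lit 150) (nat_lit 5) (nat_lit 144) (nat_lit 5) (nat_lit 327) (nat_lit 296) (nat_lit 277)) (XT.lf (nat_lit 0) (nat_lit 625697882) (nat_lit 380) (nat_lit 3181848639) (nat_lit 456) (nat_lit 5488460129) (nat_lit 132) (nat_lit 5) (nat_lit 137) (nat_lit 5) (nat_lit 138) (nat_lit 5) (nat_lit 328) (nat_lit 296) (nat_lit 276)))))) (XT.nd (nat_lit 468) (nat_lit 1748) (nat_lit 0) (XT.nd (nat_lit 234) (nat_lit 1064) (nat_lit 0) (XT.nd (nat_lit 78) (nat_lit 760) (nat_lit 0) (XT.lf (nat_lit 0) (nat_lit 1599845795) (nat_lit 304) (nat_lit 7332734172) (nat_lit 380) (nat_lit 597094992) (nat_lit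 128) (nat_lit 5) (nat_lit 132) (nat_lit 5) (nat_lit 133) (nat_lit 5) (nat_lit 329) (nat_lit 296) (nat_lit 275)) (XT.nd (nat_lit 78) (nat_lit 304) (nat_lit 0) (XT.lf (nat_lit 0) (nat_lit 2544742568) (nat_lit 380) (nat_lit 1893600632) (nat_lit 456) (nat_lit 5335807270) (nat_lit 122) (nat_lit 5) (nat_lit 127) (nat_lit 5) (nat_lit 128) (nat_lit 5) (nat_lit 330) (nat_lit 296) (nat_lit 274)) (XT.lf (nat_lit 0) (nat_lit 3486472839) (nat_lit 304) (nat_lit 6225761964) (nat_lit 380) (nat_lit 318538030) (nat_lit 118) (nat_lit 5) (nat_lit 122) (nat_lit 5) (nat_lit 123) (nat_lit 5) (nat_lit 331) (nat_lit 296) (nat_lit 273)))) (XT.nd (nat_lit 78) (nat_lit 684) (nat_lit 0) (XT.lf (nat_lit 0) (nat_lit 4394376238) (nat_lit 304) (nat_lit 445156955) (nat_lit 380) (nat_lit 5459736042) (nat_lit 113) (nat_lit 5) (nat_lit 117) (nat_lit 5) (nat_lit 118) (nat_lit 5) (nat_lit 332) (nat_lit 296) (nat_lit 272)) (XT.nd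 (nat_lit 78) (nat_lit 380) (nat_lit 0) (XT.lf (nat_lit 0) (nat_lit 5269658341) (nat_lit 304) (nat_lit 5006607219) (nat_lit 380) (nat_lit 304072743) (nat_lit 109) (nat_lit 5) (nat_lit 113) (nat_lit 5) (nat_lit 114) (nat_lit 5) (nat_lit 333) (nat_lit 296) (nat_lit 271)) (XT.lf (nat_lit 0) (nat_lit 5003011159) (nat_lit 380) (nat_lit 4777197575) (nat_lit 76) (nat_lit 1094036556) (nat_lit 104) (nat_lit 5) (nat_lit 109) (nat_lit 5) (nat_lit 105) (nat_lit 5) (nat_lit 334) (nat_lit 296) (nat_lit 270))))) (XT.nd (nat_lit 234) (nat_lit 912) (nat_lit 0) (XT.nd (nat_lit 78) (nat_lit 608) (nat_lit 0) (XT.lf (nat_lit 0) (nat_lit 6877895110) (nat_lit 228) (nat_lit 3725365843) (nat_lit 304) (nat_lit 578528665) (nat_lit 101) (nat_lit 5) (nat_lit 104) (nat_lit 5) (nat_lit 105) (nat_lit 5) (nat_lit 335) (nat_lit 296) (nat_lit 269)) (XT.nd (nat_lit 78) (nat_lit 228) (nat_lit 0) (XT.lf (nat_lit 0) (nat_lit 4896228264)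 (nat_lit 380) (nat_lit 3921443140) (nat_lit 76) (nat_lit 2685218008) (nat_lit 96) (nat_lit 5) (nat_lit 101) (nat_lit 5) (nat_lit 97) (nat_lit 5) (nat_lit 336) (nat_lit 296) (nat_lit 268)) (XT.lf (nat_lit 0) (nat_lit 8227598596) (nat_lit 228) (nat_lit 2435996995) (nat_lit 304) (nat_lit 1175400363) (nat_lit 93) (nat_lit 5) (nat_lit 96) (nat_lit 5) (nat_lit 97) (nat_lit 5) (nat_lit 337) (nat_lit 296) (nat_lit 267)))) (XT.nd (nat_lit 78) (nat_lit 532) (nat_lit 0) (XT.lf (nat_lit 0) (nat_lit 4478815200) (nat_lit 380) (nat_lit 3427628565) (nat_lit 76) (nat_lit 4283011351) (nat_lit 88) (nat_lit 5) (nat_lit 93) (nat_lit 5) (nat_lit 89) (nat_lit 5) (nat_lit 338) (nat_lit 296) (nat_lit 266)) (XT.nd (nat_lit 78) (nat_lit 304) (nat_lit 0) (XT.lf (nat_lit 0) (nat_lit 9220395522) (nat_lit 228) (nat_lit 1197931804) (nat_lit 304) (nat_lit 2137996835) (nat_lit 85) (nat_lit 5) (nat_lit 88) (nat_lit 5) (nat_lit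 89) (nat_lit 5) (nat_lit 339) (nat_lit 296) (nat_lit 265)) (XT.lf (nat_lit 0) (nat_lit 3704534692) (nat_lit 304) (nat_lit 3406776233) (nat_lit 76) (nat_lit 5827283104) (nat_lit 81) (nat_lit 5) (nat_lit 85) (nat_lit 5) (nat_lit 82) (nat_lit 5) (nat_lit 340) (nat_lit 296) (nat_lit 264))))))) (XT.nd (nat_lit 936) (nat_lit 1444) (nat_lit 0) (XT.nd (nat_lit 468) (nat_lit 988) (nat_lit 0) (XT.nd (nat_lit 234) (nat_lit 684) (nat_lit 0) (XT.nd (nat_lit 78) (nat_lit 456) (nat_lit 0) (XT.lf (nat_lit 0) (nat_lit 9739983663) (nat_lit 228) (nat_lit 77869060) (nat_lit 304) (nat_lit 3520841088) (nat_lit 78) (nat_lit 5) (nat_lit 81) (nat_lit 5) (nat_lit 82) (nat_lit 5) (nat_lit 341) (nat_lit 296) (nat_lit 263)) (XT.nd (nat_lit 78) (nat_lit 152) (nat_lit 0) (XT.lf (nat_lit 0) (nat_lit 2515499783) (nat_lit 304) (nat_lit 3990080031) (nat_lit 76) (nat_lit 7249964573) (nat_lit 74) (nat_lit 5) (nat_lit 78) (nat_lit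 5) (nat_lit 75) (nat_lit 5) (nat_lit 342) (nat_lit 296) (nat_lit 262)) (XT.lf (nat_lit 0) (nat_lit 8808437914) (nat_lit 228) (nat_lit 4551312672) (nat_lit 76) (nat_lit 831646483) (nat_lit 72) (nat_lit 5) (nat_lit 75) (nat_lit 5) (nat_lit 73) (nat_lit 5) (nat_lit 343) (nat_lit 296) (nat_lit 261)))) (XT.nd (nat_lit 78) (nat_lit 380) (nat_lit 0) (XT.lf (nat_lit 0) (nat_lit 840369390) (nat_lit 304) (nat_lit 5332894006) (nat_lit 76) (nat_lit 8472937910) (nat_lit 68) (nat_lit 5) (nat_lit 72) (nat_lit 5) (nat_lit 69) (nat_lit 5) (nat_lit 344) (nat_lit 296) (nat_lit 260)) (XT.nd (nat_lit 78) (nat_lit 228) (nat_lit 0) (XT.lf (nat_lit 0) (nat_lit 7303856569) (nat_lit 228) (nat_lit 6353564871) (nat_lit 76) (nat_lit 1463545111) (nat_lit 66) (nat_lit 5) (nat_lit 69) (nat_lit 5) (nat_lit 67) (nat_lit 5) (nat_lit 345) (nat_lit 296) (nat_lit 259)) (XT.lf (nat_lit 0) (nat_lit 7983598341) (nat_lit 228) (nat_lit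 6197362941) (nat_lit 304) (nat_lit 1435823384) (nat_lit 63) (nat_lit 5) (nat_lit 66) (nat_lit 5) (nat_lit 67) (nat_lit 5) (nat_lit 346) (nat_lit 296) (nat_lit 258))))) (XT.nd (nat_lit 234) (nat_lit 380) (nat_lit 0) (XT.nd (nat_lit 78) (nat_lit 380) (nat_lit 0) (XT.lf (nat_lit 0) (nat_lit 5209723764) (nat_lit 228) (nat_lit 9205253660) (nat_lit 76) (nat_lit 1719486103) (nat_lit 60) (nat_lit 5) (nat_lit 63) (nat_lit 5) (nat_lit 61) (nat_lit 5) (nat_lit 347) (nat_lit 296) (nat_lit 257)) (XT.nd (nat_lit 78) (nat_lit 228) (nat_lit 0) (XT.lf (nat_lit 0) (nat_lit 5564275496) (nat_lit 152) (nat_lit 6690057151) (nat_lit 228) (nat_lit 4420397390) (nat_lit 58) (nat_lit 5) (nat_lit 60) (nat_lit 5) (nat_lit 61) (nat_lit 5) (nat_lit 348) (nat_lit 296) (nat_lit 256)) (XT.lf (nat_lit 0) (nat_lit 2412946600) (nat_lit 228) (nat_lit 13344225717) (nat_lit 76) (nat_lit 1482641648) (nat_lit 55) (nat_lit 5) (nat_lit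 58) (nat_lit 5) (nat_lit 56) (nat_lit 5) (nat_lit 349) (nat_lit 296) (nat_lit 255)))) (XT.nd (nat_lit 78) (nat_lit 228) (nat_lit 0) (XT.lf (nat_lit 0) (nat_lit 1811950805) (nat_lit 152) (nat_lit 7791256941) (nat_lit 228) (nat_lit 8225452874) (nat_lit 53) (nat_lit 5) (nat_lit 55) (nat_lit 5) (nat_lit 56) (nat_lit 5) (nat_lit 350) (nat_lit 296) (nat_lit 254)) (XT.nd (nat_lit 78) (nat_lit 228) (nat_lit 0) (XT.lf (nat_lit 0) (nat_lit 17204905433) (nat_lit 228) (nat_lit 606826283) (nat_lit 76) (nat_lit 633680794) (nat_lit 53) (nat_lit 5) (nat_lit 56) (nat_lit 5) (nat_lit 54) (nat_lit 4) (nat_lit 351) (nat_lit 296) (nat_lit 253)) (XT.lf (nat_lit 0) (nat_lit 6117276903) (nat_lit 228) (nat_lit 3502749539) (nat_lit 76) (nat_lit 9466962300) (nat_lit 50) (nat_lit 5) (nat_lit 53) (nat_lit 5) (nat_lit 51) (nat_lit 5) (nat_lit 352) (nat_lit 296) (nat_lit 252)))))) (XT.nd (nat_lit 468) (nat_lit 608) (nat_lit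 0) (XT.nd (nat_lit 234) (nat_lit 304) (nat_lit 0) (XT.nd (nat_lit 78) (nat_lit 380) (nat_lit 0) (XT.lf (nat_lit 0) (nat_lit 12925196394) (nat_lit 152) (nat_lit 936859634) (nat_lit 228) (nat_lit 5896894592) (nat_lit 48) (nat_lit 5) (nat_lit 50) (nat_lit 5) (nat_lit 51) (nat_lit 5) (nat_lit 353) (nat_lit 296) (nat_lit 251)) (XT.nd (nat_lit 78) (nat_lit 152) (nat_lit 0) (XT.lf (nat_lit 0) (nat_lit 1625711547) (nat_lit 228) (nat_lit 10730301336) (nat_lit 76) (nat_lit 8104293536) (nat_lit 45) (nat_lit 5) (nat_lit 48) (nat_lit 5) (nat_lit 46) (nat_lit 5) (nat_lit 354) (nat_lit 296) (nat_lit 250)) (XT.lf (nat_lit 0) (nat_lit 5970513547) (nat_lit 152) (nat_lit 3488825966) (nat_lit 228) (nat_lit 11733949472) (nat_lit 43) (nat_lit 5) (nat_lit 45) (nat_lit 5) (nat_lit 46) (nat_lit 5) (nat_lit 355) (nat_lit 296) (nat_lit 249)))) (XT.nd (nat_lit 78) (nat_lit 228) (nat_lit 0) (XT.lf (nat_lit 0) (nat_lit 1601118526)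 (nat_lit 76) (nat_lit 16186202029) (nat_lit 152) (nat_lit 4172535193) (nat_lit 42) (nat_lit 5) (nat_lit 43) (nat_lit 5) (nat_lit 44) (nat_lit 4) (nat_lit 356) (nat_lit 296) (nat_lit 248)) (XT.nd (nat_lit 78) (nat_lit 152) (nat_lit 0) (XT.lf (nat_lit 0) (nat_lit 3808370788) (nat_lit 152) (nat_lit 3390217748) (nat_lit 76) (nat_lit 15561642246) (nat_lit 41) (nat_lit 5) (nat_lit 43) (nat_lit 5) (nat_lit 42) (nat_lit 5) (nat_lit 357) (nat_lit 296) (nat_lit 247)) (XT.lf (nat_lit 0) (nat_lit 12190472497) (nat_lit 228) (nat_lit 9086727573) (nat_lit 76) (nat_lit 2319545188) (nat_lit 39) (nat_lit 5) (nat_lit 42) (nat_lit 5) (nat_lit 40) (nat_lit 4) (nat_lit 358) (nat_lit 296) (nat_lit 246))))) (XT.nd (nat_lit 234) (nat_lit 304) (nat_lit 0) (XT.nd (nat_lit 78) (nat_lit 228) (nat_lit 0) (XT.lf (nat_lit 0) (nat_lit 8869611892) (nat_lit 76) (nat_lit 12242169344) (nat_lit 152) (nat_lit 3359713927) (nat_lit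 38) (nat_lit 5) (nat_lit 39) (nat_lit 5) (nat_lit 40) (nat_lit 4) (nat_lit 359) (nat_lit 296) (nat_lit 245)) (XT.nd (nat_lit 78) (nat_lit 0) (nat_lit 0) (XT.lf (nat_lit 0) (nat_lit 2393158754) (nat_lit 152) (nat_lit 2642644827) (nat_lit 228) (nat_lit 20351345013) (nat_lit 35) (nat_lit 5) (nat_lit 37) (nat_lit 5) (nat_lit 38) (nat_lit 5) (nat_lit 360) (nat_lit 296) (nat_lit 244)) (XT.lf (nat_lit 0) (nat_lit 13946054553) (nat_lit 228) (nat_lit 4964751396) (nat_lit 76) (nat_lit 7431858803) (nat_lit 35) (nat_lit 5) (nat_lit 38) (nat_lit 5) (nat_lit 36) (nat_lit 4) (nat_lit 361) (nat_lit 296) (nat_lit 243)))) (XT.nd (nat_lit 78) (nat_lit 228) (nat_lit 0) (XT.lf (nat_lit 0) (nat_lit 14092380557) (nat_lit 76) (nat_lit 9305013343) (nat_lit 152) (nat_lit 3945706248) (nat_lit 34) (nat_lit 5) (nat_lit 35) (nat_lit 5) (nat_lit 36) (nat_lit 4) (nat_lit 362) (nat_lit 296) (nat_lit 242)) (XT.nd (nat_lit 78)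 (nat_lit 0) (nat_lit 0) (XT.lf (nat_lit 0) (nat_lit 4881889777) (nat_lit 228) (nat_lit 22640510341) (nat_lit 76) (nat_lit 868236895) (nat_lit 31) (nat_lit 5) (nat_lit 34) (nat_lit 5) (nat_lit 32) (nat_lit 4) (nat_lit 363) (nat_lit 296) (nat_lit 241)) (XT.lf (nat_lit 0) (nat_lit 14237990559) (nat_lit 228) (nat_lit 3761301135) (nat_lit 76) (nat_lit 11485034615) (nat_lit 31) (nat_lit 5) (nat_lit 34) (nat_lit 5) (nat_lit 32) (nat_lit 4) (nat_lit 364) (nat_lit 296) (nat_lit 240))))))))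
noncomputable def xc42 : XT := (XT.nd (nat_lit 1794) (nat_lit 228) (nat_lit 0) (XT.nd (nat_lit 858) (nat_lit 532) (nat_lit 0) (XT.nd (nat_lit 390) (nat_lit 380) (nat_lit 0) (XT.nd (nat_lit 156) (nat_lit 152) (nat_lit 0) (XT.nd (nat_lit 78) (nat_lit 228) (nat_lit 0) (XT.lf (nat_lit 0) (nat_lit 16267238465) (nat_lit 76) (nat_lit 7890358927) (nat_lit 152) (nat_lit 6472240627) (nat_lit 30) (nat_lit 5) (nat_lit 31) (nat_lit 5) (nat_lit 32) (nat_lit 4) (nat_lit 365) (nat_lit 296) (nat_lit 239)) (XT.lf (nat_lit 0) (nat_lit 2746652578) (nat_lit 228) (nat_lit 26342539113) (nat_lit 76) (nat_lit 2740864459) (nat_lit 27) (nat_lit 5) (nat_lit 30) (nat_lit 5) (nat_lit 28) (nat_lit 4) (nat_lit 366) (nat_lit 296) (nat_lit 238))) (XT.nd (nat_lit 78) (nat_lit 152) (nat_lit 0) (XT.lf (nat_lit 0) (nat_lit 12464742904) (nat_lit 228) (nat_lit 6710152711) (nat_lit 76) (nat_lit 13908311783) (nat_lit 27) (nat_lit 5)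 (nat_lit 30) (nat_lit 5) (nat_lit 28) (nat_lit 4) (nat_lit 367) (nat_lit 296) (nat_lit 237)) (XT.nd (nat_lit 78) (nat_lit 76) (nat_lit 0) (XT.lf (nat_lit 0) (nat_lit 14075517515) (nat_lit 76) (nat_lit 8673199444) (nat_lit 152) (nat_lit 11647907402) (nat_lit 26) (nat_lit 5) (nat_lit 27) (nat_lit 5) (nat_lit 28) (nat_lit 4) (nat_lit 368) (nat_lit 296) (nat_lit 236)) (XT.lf (nat_lit 0) (nat_lit 145364625) (nat_lit 76) (nat_lit 33441208968) (nat_lit 76) (nat_lit 2187955234) (nat_lit 25) (nat_lit 4) (nat_lit 26) (nat_lit 5) (nat_lit 26) (nat_lit 4) (nat_lit 369) (nat_lit 296) (nat_lit 235))))) (XT.nd (nat_lit 234) (nat_lit 228) (nat_lit 0) (XT.nd (nat_lit 78) (nat_lit 76) (nat_lit 0) (XT.lf (nat_lit 0) (nat_lit 7839669792) (nat_lit 152) (nat_lit 15418680998) (nat_lit 76) (nat_lit 13953376630) (nat_lit 24) (nat_lit 5) (nat_lit 26) (nat_lit 5) (nat_lit 25) (nat_lit 4) (nat_lit 370) (nat_lit 296) (nat_lit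 234)) (XT.nd (nat_lit 78) (nat_lit 0) (nat_lit 0) (XT.lf (nat_lit 0) (nat_lit 5798751953) (nat_lit 76) (nat_lit 12530367307) (nat_lit 152) (nat_lit 20390852304) (nat_lit 23) (nat_lit 5) (nat_lit 24) (nat_lit 5) (nat_lit 25) (nat_lit 4) (nat_lit 371) (nat_lit 296) (nat_lit 233)) (XT.lf (nat_lit 0) (nat_lit 28307329240) (nat_lit 76) (nat_lit 1145484892) (nat_lit 152) (nat_lit 10847526611) (nat_lit 23) (nat_lit 5) (nat_lit 24) (nat_lit 5) (nat_lit 25) (nat_lit 4) (nat_lit 372) (nat_lit 296) (nat_lit 232)))) (XT.nd (nat_lit 78) (nat_lit 152) (nat_lit 0) (XT.lf (nat_lit 0) (nat_lit 9983965442) (nat_lit 76) (nat_lit 31301588164) (nat_lit 76) (nat_lit 669594706) (nat_lit 22) (nat_lit 4) (nat_lit 23) (nat_lit 5) (nat_lit 23) (nat_lit 4) (nat_lit 373) (nat_lit 296) (nat_lit 231)) (XT.nd (nat_lit 78) (nat_lit 76) (nat_lit 0) (XT.lf (nat_lit 0) (nat_lit 9911946426) (nat_lit 152) (nat_lit 10574607042) (nat_lit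 76) (nat_lit 23200553787) (nat_lit 21) (nat_lit 5) (nat_lit 23) (nat_lit 5) (nat_lit 22) (nat_lit 4) (nat_lit 374) (nat_lit 296) (nat_lit 230)) (XT.lf (nat_lit 0) (nat_lit 12037118524) (nat_lit 76) (nat_lit 9043571356) (nat_lit 152) (nat_lit 24422621212) (nat_lit 20) (nat_lit 5) (nat_lit 21) (nat_lit 5) (nat_lit 22) (nat_lit 4) (nat_lit 375) (nat_lit 296) (nat_lit 229)))))) (XT.nd (nat_lit 468) (nat_lit 228) (nat_lit 0) (XT.nd (nat_lit 234) (nat_lit 152) (nat_lit 0) (XT.nd (nat_lit 78) (nat_lit 152) (nat_lit 0) (XT.lf (nat_lit 0) (nat_lit 32903456984) (nat_lit 152) (nat_lit 11517644695) (nat_lit 0) (nat_lit 2986360655) (nat_lit 20) (nat_lit 5) (nat_lit 22) (nat_lit 4) (nat_lit 20) (nat_lit 4) (nat_lit 376) (nat_lit 296) (nat_lit 228)) (XT.nd (nat_lit 78) (nat_lit 76) (nat_lit 0) (XT.lf (nat_lit 0) (nat_lit 11585651717) (nat_lit 76) (nat_lit 33893489471) (nat_lit 76) (nat_lit 3922831161) (nat_lit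 19) (nat_lit 4) (nat_lit 20) (nat_lit 5) (nat_lit 20) (nat_lit 4) (nat_lit 377) (nat_lit 296) (nat_lit 227)) (XT.lf (nat_lit 0) (nat_lit 7126844853) (nat_lit 152) (nat_lit 15554174667) (nat_lit 76) (nat_lit 28810729027) (nat_lit 18) (nat_lit 5) (nat_lit 20) (nat_lit 5) (nat_lit 19) (nat_lit 4) (nat_lit 378) (nat_lit 296) (nat_lit 226)))) (XT.nd (nat_lit 78) (nat_lit 76) (nat_lit 0) (XT.lf (nat_lit 0) (nat_lit 7862473527) (nat_lit 76) (nat_lit 10823598169) (nat_lit 152) (nat_lit 34997634776) (nat_lit 17) (nat_lit 5) (nat_lit 18) (nat_lit 5) (nat_lit 19) (nat_lit 4) (nat_lit 379) (nat_lit 296) (nat_lit 225)) (XT.nd (nat_lit 78) (nat_lit 76) (nat_lit 0) (XT.lf (nat_lit 0) (nat_lit 30963281535) (nat_lit 152) (nat_lit 23293843060) (nat_lit 0) (nat_lit 1723940884) (nat_lit 17) (nat_lit 5) (nat_lit 19) (nat_lit 4) (nat_lit 17) (nat_lit 4) (nat_lit 380) (nat_lit 296) (nat_lit 224)) (XT.lf (nat_lit 0)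 (nat_lit 186546741) (nat_lit 76) (nat_lit 43743303580) (nat_lit 76) (nat_lit 14461180817) (nat_lit 16) (nat_lit 4) (nat_lit 17) (nat_lit 5) (nat_lit 17) (nat_lit 4) (nat_lit 381) (nat_lit 296) (nat_lit 223))))) (XT.nd (nat_lit 234) (nat_lit 76) (nat_lit 0) (XT.nd (nat_lit 78) (nat_lit 152) (nat_lit 0) (XT.lf (nat_lit 0) (nat_lit 25261906724) (nat_lit 76) (nat_lit 32488150094) (nat_lit 76) (nat_lit 3165282464) (nat_lit 16) (nat_lit 4) (nat_lit 17) (nat_lit 5) (nat_lit 17) (nat_lit 4) (nat_lit 382) (nat_lit 296) (nat_lit 222)) (XT.nd (nat_lit 78) (nat_lit 76) (nat_lit 0) (XT.lf (nat_lit 0) (nat_lit 8492565269) (nat_lit 152) (nat_lit 12121764770) (nat_lit 76) (nat_lit 42950023448) (nat_lit 15) (nat_lit 5) (nat_lit 17) (nat_lit 5) (nat_lit 16) (nat_lit 4) (nat_lit 383) (nat_lit 296) (nat_lit 221)) (XT.lf (nat_lit 0) (nat_lit 12742863288) (nat_lit 76) (nat_lit 8016492549) (nat_lit 152) (nat_lit 45582780044)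 (nat_lit 14) (nat_lit 5) (nat_lit 15) (nat_lit 5) (nat_lit 16) (nat_lit 4) (nat_lit 384) (nat_lit 296) (nat_lit 220)))) (XT.nd (nat_lit 78) (nat_lit 76) (nat_lit 0) (XT.lf (nat_lit 0) (nat_lit 33784682558) (nat_lit 152) (nat_lit 30261619410) (nat_lit 0) (nat_lit 5208152449) (nat_lit 14) (nat_lit 5) (nat_lit 16) (nat_lit 4) (nat_lit 14) (nat_lit 4) (nat_lit 385) (nat_lit 296) (nat_lit 219)) (XT.nd (nat_lit 78) (nat_lit 76) (nat_lit 0) (XT.lf (nat_lit 0) (nat_lit 47512744854) (nat_lit 152) (nat_lit 5894432550) (nat_lit 0) (nat_lit 18903670178) (nat_lit 14) (nat_lit 5) (nat_lit 16) (nat_lit 4) (nat_lit 14) (nat_lit 4) (nat_lit 386) (nat_lit 296) (nat_lit 218)) (XT.lf (nat_lit 0) (nat_lit 20028186587) (nat_lit 76) (nat_lit 42063505752) (nat_lit 76) (nat_lit 13423436251) (nat_lit 13) (nat_lit 4) (nat_lit 14) (nat_lit 5) (nat_lit 14) (nat_lit 4) (nat_lit 387) (nat_lit 296) (nat_lit 217))))))) (XT.nd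 (nat_lit 40872) (nat_lit 0) (nat_lit 12464) (XT.nd (nat_lit 546) (nat_lit 0) (nat_lit 0) (XT.nd (nat_lit 234) (nat_lit 76) (nat_lit 0) (XT.nd (nat_lit 78) (nat_lit 152) (nat_lit 0) (XT.lf (nat_lit 0) (nat_lit 47317904567) (nat_lit 76) (nat_lit 30115152938) (nat_lit 76) (nat_lit 1445564555) (nat_lit 13) (nat_lit 4) (nat_lit 14) (nat_lit 5) (nat_lit 14) (nat_lit 4) (nat_lit 388) (nat_lit 296) (nat_lit 216)) (XT.nd (nat_lit 78) (nat_lit 76) (nat_lit 0) (XT.lf (nat_lit 0) (nat_lit 10887819924) (nat_lit 152) (nat_lit 6595427156) (nat_lit 76) (nat_lit 64924620588) (nat_lit 12) (nat_lit 5) (nat_lit 14) (nat_lit 5) (nat_lit 13) (nat_lit 4) (nat_lit 389) (nat_lit 296) (nat_lit 215)) (XT.lf (nat_lit 0) (nat_lit 19944880883) (nat_lit 76) (nat_lit 4030171816) (nat_lit 152) (nat_lit 62133083434) (nat_lit 11) (nat_lit 5) (nat_lit 12) (nat_lit 5) (nat_lit 13) (nat_lit 4) (nat_lit 390) (nat_lit 296) (nat_lit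 214)))) (XT.nd (nat_lit 78) (nat_lit 76) (nat_lit 0) (XT.lf (nat_lit 0) (nat_lit 37857859125) (nat_lit 152) (nat_lit 42186063215) (nat_lit 0) (nat_lit 9945261437) (nat_lit 11) (nat_lit 5) (nat_lit 13) (nat_lit 4) (nat_lit 11) (nat_lit 4) (nat_lit 391) (nat_lit 296) (nat_lit 213)) (XT.nd (nat_lit 78) (nat_lit 76) (nat_lit 0) (XT.lf (nat_lit 0) (nat_lit 52452246243) (nat_lit 152) (nat_lit 17095445726) (nat_lit 0) (nat_lit 24516070637) (nat_lit 11) (nat_lit 5) (nat_lit 13) (nat_lit 4) (nat_lit 11) (nat_lit 4) (nat_lit 392) (nat_lit 296) (nat_lit 212)) (XT.lf (nat_lit 0) (nat_lit 9390316149) (nat_lit 76) (nat_lit 58454171433) (nat_lit 76) (nat_lit 30495540666) (nat_lit 10) (nat_lit 4) (nat_lit 11) (nat_lit 5) (nat_lit 11) (nat_lit 4) (nat_lit 393) (nat_lit 296) (nat_lit 211))))) (XT.nd (nat_lit 40092) (nat_lit 0) (nat_lit 23256) (XT.nd (nat_lit 39936) (nat_lit 0) (nat_lit 25232) (XT.lf (nat_lit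 0) (nat_lit 67008960713) (nat_lit 76) (nat_lit 34263615139) (nat_lit 76) (nat_lit 6263231011) (nat_lit 10) (nat_lit 4) (nat_lit 11) (nat_lit 5) (nat_lit 11) (nat_lit 4) (nat_lit 395) (nat_lit 296) (nat_lit 209)) (XT.nd (nat_lit 78) (nat_lit 532) (nat_lit 0) (XT.lf (nat_lit 0) (nat_lit 852856654) (nat_lit 380) (nat_lit 1210755570) (nat_lit 380) (nat_lit 1210755570) (nat_lit 349) (nat_lit 4) (nat_lit 354) (nat_lit 5) (nat_lit 354) (nat_lit 4) (nat_lit 306) (nat_lit 297) (nat_lit 297)) (XT.lf (nat_lit 0) (nat_lit 1503381456) (nat_lit 456) (nat_lit 1206054139) (nat_lit 532) (nat_lit 3879142113) (nat_lit 342) (nat_lit 5) (nat_lit 348) (nat_lit 5) (nat_lit 349) (nat_lit 4) (nat_lit 307) (nat_lit 297) (nat_lit 296)))) (XT.nd (nat_lit 78) (nat_lit 1368) (nat_lit 0) (XT.lf (nat_lit 0) (nat_lit 1157976963) (nat_lit 608) (nat_lit 5225251516) (nat_lit 76) (nat_lit 253307756) (nat_lit 334) (nat_lit 5) (nat_lit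 342) (nat_lit 5) (nat_lit 335) (nat_lit 4) (nat_lit 308) (nat_lit 297) (nat_lit 295)) (XT.nd (nat_lit 78) (nat_lit 760) (nat_lit 0) (XT.lf (nat_lit 0) (nat_lit 1410943650) (nat_lit 608) (nat_lit 4749889390) (nat_lit 684) (nat_lit 531376073) (nat_lit 326) (nat_lit 5) (nat_lit 334) (nat_lit 5) (nat_lit 335) (nat_lit 4) (nat_lit 309) (nat_lit 297) (nat_lit 294)) (XT.lf (nat_lit 0) (nat_lit 1505308138) (nat_lit 684) (nat_lit 2858977346) (nat_lit 760) (nat_lit 2391541846) (nat_lit 316) (nat_lit 5) (nat_lit 325) (nat_lit 5) (nat_lit 326) (nat_lit 5) (nat_lit 310) (nat_lit 297) (nat_lit 293)))))) (XT.nd (nat_lit 468) (nat_lit 4788) (nat_lit 0) (XT.nd (nat_lit 234) (nat_lit 3344) (nat_lit 0) (XT.nd (nat_lit 78) (nat_lit 1824) (nat_lit 0) (XT.lf (nat_lit 0) (nat_lit 1705179111) (nat_lit 760) (nat_lit 716895068) (nat_lit 836) (nat_lit 4405785796) (nat_lit 305) (nat_lit 5) (nat_lit 315) (nat_lit 5) (nat_lit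 316) (nat_lit 5) (nat_lit 311) (nat_lit 297) (nat_lit 292)) (XT.nd (nat_lit 78) (nat_lit 912) (nat_lit 0) (XT.lf (nat_lit 0) (nat_lit 343753988) (nat_lit 912) (nat_lit 4914706488) (nat_lit 76) (nat_lit 1649507352) (nat_lit 293) (nat_lit 5) (nat_lit 305) (nat_lit 5) (nat_lit 294) (nat_lit 5) (nat_lit 312) (nat_lit 297) (nat_lit 291)) (XT.lf (nat_lit 0) (nat_lit 2357079521) (nat_lit 912) (nat_lit 2716888143) (nat_lit 988) (nat_lit 1921995051) (nat_lit 281) (nat_lit 5) (nat_lit 293) (nat_lit 5) (nat_lit 294) (nat_lit 5) (nat_lit 313) (nat_lit 297) (nat_lit 290)))) (XT.nd (nat_lit 78) (nat_lit 2280) (nat_lit 0) (XT.lf (nat_lit 0) (nat_lit 2731326852) (nat_lit 1064) (nat_lit 4276067650) (nat_lit 76) (nat_lit 85216561) (nat_lit 267) (nat_lit 5) (nat_lit 281) (nat_lit 5) (nat_lit 268) (nat_lit 5) (nat_lit 314) (nat_lit 297) (nat_lit 289)) (XT.nd (nat_lit 78) (nat_lit 1140) (nat_lit 0) (XT.lf (nat_lit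 0) (nat_lit 250658018) (nat_lit 1140) (nat_lit 3851013566) (nat_lit 76) (nat_lit 3095703241) (nat_lit 252) (nat_lit 5) (nat_lit 267) (nat_lit 5) (nat_lit 253) (nat_lit 5) (nat_lit 315) (nat_lit 297) (nat_lit 288)) (XT.lf (nat_lit 0) (nat_lit 3949213979) (nat_lit 1140) (nat_lit 911008846) (nat_lit 1216) (nat_lit 2450320747) (nat_lit 237) (nat_lit 5) (nat_lit 252) (nat_lit 5) (nat_lit 253) (nat_lit 5) (nat_lit 316) (nat_lit 297) (nat_lit 287))))) (XT.nd (nat_lit 234) (nat_lit 2280) (nat_lit 0) (XT.nd (nat_lit 78) (nat_lit 1216) (nat_lit 0) (XT.lf (nat_lit 0) (nat_lit 2116207508) (nat_lit 1292) (nat_lit 2812239462) (nat_lit 76) (nat_lit 2503745586) (nat_lit 220) (nat_lit 5) (nat_lit 237) (nat_lit 5) (nat_lit 221) (nat_lit 5) (nat_lit 317) (nat_lit 297) (nat_lit 286)) (XT.nd (nat_lit 78) (nat_lit 608) (nat_lit 0) (XT.lf (nat_lit 0) (nat_lit 5366824630) (nat_lit 608) (nat_lit 1378625701) (nat_lit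 684) (nat_lit 817351473) (nat_lit 212) (nat_lit 5) (nat_lit 220) (nat_lit 5) (nat_lit 221) (nat_lit 5) (nat_lit 318) (nat_lit 297) (nat_lit 285)) (XT.lf (nat_lit 0) (nat_lit 3737169918) (nat_lit 608) (nat_lit 1542180659) (nat_lit 76) (nat_lit 2422394752) (nat_lit 204) (nat_lit 5) (nat_lit 212) (nat_lit 5) (nat_lit 205) (nat_lit 5) (nat_lit 319) (nat_lit 297) (nat_lit 284)))) (XT.nd (nat_lit 78) (nat_lit 1596) (nat_lit 0) (XT.lf (nat_lit 0) (nat_lit 548228975) (nat_lit 684) (nat_lit 822223785) (nat_lit 76) (nat_lit 6479709505) (nat_lit 195) (nat_lit 5) (nat_lit 204) (nat_lit 5) (nat_lit 196) (nat_lit 5) (nat_lit 320) (nat_lit 297) (nat_lit 283)) (XT.nd (nat_lit 78) (nat_lit 1064) (nat_lit 0) (XT.lf (nat_lit 0) (nat_lit 5133219489) (nat_lit 608) (nat_lit 77999074) (nat_lit 76) (nat_lit 2795876007) (nat_lit 188) (nat_lit 5) (nat_lit 196) (nat_lit 5) (nat_lit 189) (nat_lit 5) (nat_lit 321) (nat_lit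 297) (nat_lit 282)) (XT.lf (nat_lit 0) (nat_lit 736848004) (nat_lit 456) (nat_lit 933178663) (nat_lit 532) (nat_lit 6503580754) (nat_lit 174) (nat_lit 5) (nat_lit 180) (nat_lit 5) (nat_lit 181) (nat_lit 5) (nat_lit 322) (nat_lit 297) (nat_lit 281))))))))
noncomputable def xc43 : XT := (XT.nd (nat_lit 1872) (nat_lit 3116) (nat_lit 0) (XT.nd (nat_lit 936) (nat_lit 2888) (nat_lit 0) (XT.nd (nat_lit 468) (nat_lit 2508) (nat_lit 0) (XT.nd (nat_lit 234) (nat_lit 1368) (nat_lit 0) (XT.nd (nat_lit 78) (nat_lit 988) (nat_lit 0) (XT.lf (nat_lit 0) (nat_lit 1573684935) (nat_lit 456) (nat_lit 4760253526) (nat_lit 532) (nat_lit 2015199277) (nat_lit 168) (nat_lit 5) (nat_lit 174) (nat_lit 5) (nat_lit 175) (nat_lit 5) (nat_lit 323) (nat_lit 297) (nat_lit 280)) (XT.nd (nat_lit 78) (nat_lit 456) (nat_lit 0) (XT.lf (nat_lit 0) (nat_lit 2455746640) (nat_lit 456) (nat_lit 121840179) (nat_lit 532) (nat_lit 5957205527)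 (nat_lit 161) (nat_lit 5) (nat_lit 167) (nat_lit 5) (nat_lit 168) (nat_lit 5) (nat_lit 324) (nat_lit 297) (nat_lit 279)) (XT.lf (nat_lit 0) (nat_lit 3347409977) (nat_lit 456) (nat_lit 3987954820) (nat_lit 532) (nat_lit 1394554908) (nat_lit 155) (nat_lit 5) (nat_lit 161) (nat_lit 5) (nat_lit 162) (nat_lit 5) (nat_lit 325) (nat_lit 297) (nat_lit 278)))) (XT.nd (nat_lit 78) (nat_lit 912) (nat_lit 0) (XT.lf (nat_lit 0) (nat_lit 3278025923) (nat_lit 456) (nat_lit 4668181477) (nat_lit 76) (nat_lit 989266520) (nat_lit 149) (nat_lit 5) (nat_lit 155) (nat_lit 5) (nat_lit 150) (nat_lit 5) (nat_lit 326) (nat_lit 297) (nat_lit 277)) (XT.nd (nat_lit 78) (nat_lit 456) (nat_lit 0) (XT.lf (nat_lit 0) (nat_lit 5199568169) (nat_lit 456) (nat_lit 2940681836) (nat_lit 532) (nat_lit 1011183560) (nat_lit 143) (nat_lit 5) (nat_lit 149) (nat_lit 5) (nat_lit 150) (nat_lit 5) (nat_lit 327) (nat_lit 297) (nat_lit 276))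 (XT.lf (nat_lit 0) (nat_lit 3765375380) (nat_lit 456) (nat_lit 3244508778) (nat_lit 76) (nat_lit 2368069333) (nat_lit 137) (nat_lit 5) (nat_lit 143) (nat_lit 5) (nat_lit 138) (nat_lit 5) (nat_lit 328) (nat_lit 297) (nat_lit 275))))) (XT.nd (nat_lit 234) (nat_lit 1368) (nat_lit 0) (XT.nd (nat_lit 78) (nat_lit 760) (nat_lit 0) (XT.lf (nat_lit 0) (nat_lit 7084077636) (nat_lit 380) (nat_lit 1662440972) (nat_lit 456) (nat_lit 869457533) (nat_lit 132) (nat_lit 5) (nat_lit 137) (nat_lit 5) (nat_lit 138) (nat_lit 5) (nat_lit 329) (nat_lit 297) (nat_lit 274)) (XT.nd (nat_lit 78) (nat_lit 380) (nat_lit 0) (XT.lf (nat_lit 0) (nat_lit 4032084862) (nat_lit 380) (nat_lit 1857748880) (nat_lit 76) (nat_lit 3974907572) (nat_lit 127) (nat_lit 5) (nat_lit 132) (nat_lit 5) (nat_lit 128) (nat_lit 5) (nat_lit 330) (nat_lit 297) (nat_lit 273)) (XT.lf (nat_lit 0) (nat_lit 8949277255) (nat_lit 380) (nat_lit 196848669)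 (nat_lit 456) (nat_lit 980066413) (nat_lit 122) (nat_lit 5) (nat_lit 127) (nat_lit 5) (nat_lit 128) (nat_lit 5) (nat_lit 331) (nat_lit 297) (nat_lit 272)))) (XT.nd (nat_lit 78) (nat_lit 988) (nat_lit 0) (XT.lf (nat_lit 0) (nat_lit 4065446362) (nat_lit 380) (nat_lit 565549204) (nat_lit 76) (nat_lit 5767678607) (nat_lit 117) (nat_lit 5) (nat_lit 122) (nat_lit 5) (nat_lit 118) (nat_lit 5) (nat_lit 332) (nat_lit 297) (nat_lit 271)) (XT.nd (nat_lit 78) (nat_lit 380) (nat_lit 0) (XT.lf (nat_lit 0) (nat_lit 38253819) (nat_lit 304) (nat_lit 9300218434) (nat_lit 380) (nat_lit 1346211368) (nat_lit 109) (nat_lit 5) (nat_lit 113) (nat_lit 5) (nat_lit 114) (nat_lit 5) (nat_lit 333) (nat_lit 297) (nat_lit 270)) (XT.lf (nat_lit 0) (nat_lit 577066491) (nat_lit 304) (nat_lit 3274287253) (nat_lit 380) (nat_lit 7131460021) (nat_lit 104) (nat_lit 5) (nat_lit 108) (nat_lit 5) (nat_lit 109) (nat_lit 5) (nat_lit 334)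 (nat_lit 297) (nat_lit 269)))))) (XT.nd (nat_lit 468) (nat_lit 1140) (nat_lit 0) (XT.nd (nat_lit 234) (nat_lit 912) (nat_lit 0) (XT.nd (nat_lit 78) (nat_lit 608) (nat_lit 0) (XT.lf (nat_lit 0) (nat_lit 1071295725) (nat_lit 228) (nat_lit 8228990970) (nat_lit 304) (nat_lit 1994636605) (nat_lit 101) (nat_lit 5) (nat_lit 104) (nat_lit 5) (nat_lit 105) (nat_lit 5) (nat_lit 335) (nat_lit 297) (nat_lit 268)) (XT.nd (nat_lit 78) (nat_lit 228) (nat_lit 0) (XT.lf (nat_lit 0) (nat_lit 1488286200) (nat_lit 304) (nat_lit 1871798026) (nat_lit 380) (nat_lit 8260801093) (nat_lit 96) (nat_lit 5) (nat_lit 100) (nat_lit 5) (nat_lit 101) (nat_lit 5) (nat_lit 336) (nat_lit 297) (nat_lit 267)) (XT.lf (nat_lit 0) (nat_lit 1815775159) (nat_lit 228) (nat_lit 7171325812) (nat_lit 304) (nat_lit 2974124040) (nat_lit 93) (nat_lit 5) (nat_lit 96) (nat_lit 5) (nat_lit 97) (nat_lit 5) (nat_lit 337) (nat_lit 297) (nat_lit 266))))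 (XT.nd (nat_lit 78) (nat_lit 532) (nat_lit 0) (XT.lf (nat_lit 0) (nat_lit 2064723498) (nat_lit 304) (nat_lit 484377351) (nat_lit 380) (nat_lit 9768105671) (nat_lit 88) (nat_lit 5) (nat_lit 92) (nat_lit 5) (nat_lit 93) (nat_lit 5) (nat_lit 338) (nat_lit 297) (nat_lit 265)) (XT.nd (nat_lit 78) (nat_lit 304) (nat_lit 0) (XT.lf (nat_lit 0) (nat_lit 2171798343) (nat_lit 228) (nat_lit 6186751727) (nat_lit 304) (nat_lit 4329447316) (nat_lit 85) (nat_lit 5) (nat_lit 88) (nat_lit 5) (nat_lit 89) (nat_lit 5) (nat_lit 339) (nat_lit 297) (nat_lit 264)) (XT.lf (nat_lit 0) (nat_lit 1379272027) (nat_lit 304) (nat_lit 10886592417) (nat_lit 76) (nat_lit 810350463) (nat_lit 81) (nat_lit 5) (nat_lit 85) (nat_lit 5) (nat_lit 82) (nat_lit 5) (nat_lit 340) (nat_lit 297) (nat_lit 263))))) (XT.nd (nat_lit 234) (nat_lit 456) (nat_lit 0) (XT.nd (nat_lit 78) (nat_lit 456) (nat_lit 0) (XT.lf (nat_lit 0) (nat_lit 2021380800)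 (nat_lit 228) (nat_lit 5342224849) (nat_lit 304) (nat_lit 6116596124) (nat_lit 78) (nat_lit 5) (nat_lit 81) (nat_lit 5) (nat_lit 82) (nat_lit 5) (nat_lit 341) (nat_lit 297) (nat_lit 262)) (XT.nd (nat_lit 78) (nat_lit 228) (nat_lit 0) (XT.lf (nat_lit 0) (nat_lit 1737270045) (nat_lit 228) (nat_lit 11948993498) (nat_lit 304) (nat_lit 216985478) (nat_lit 75) (nat_lit 5) (nat_lit 78) (nat_lit 5) (nat_lit 79) (nat_lit 5) (nat_lit 342) (nat_lit 297) (nat_lit 261)) (XT.lf (nat_lit 0) (nat_lit 1224797473) (nat_lit 152) (nat_lit 4714146622) (nat_lit 228) (nat_lit 8404472921) (nat_lit 72) (nat_lit 5) (nat_lit 74) (nat_lit 5) (nat_lit 75) (nat_lit 5) (nat_lit 343) (nat_lit 297) (nat_lit 260)))) (XT.nd (nat_lit 78) (nat_lit 228) (nat_lit 0) (XT.lf (nat_lit 0) (nat_lit 544261680) (nat_lit 228) (nat_lit 11909351319) (nat_lit 304) (nat_lit 2350283222) (nat_lit 69) (nat_lit 5) (nat_lit 72) (nat_lit 5) (nat_lit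 73) (nat_lit 5) (nat_lit 344) (nat_lit 297) (nat_lit 259)) (XT.nd (nat_lit 78) (nat_lit 152) (nat_lit 0) (XT.lf (nat_lit 0) (nat_lit 4010682185) (nat_lit 304) (nat_lit 376184173) (nat_lit 76) (nat_lit 10896938018) (nat_lit 68) (nat_lit 5) (nat_lit 72) (nat_lit 5) (nat_lit 69) (nat_lit 5) (nat_lit 345) (nat_lit 297) (nat_lit 258)) (XT.lf (nat_lit 0) (nat_lit 10716811024) (nat_lit 228) (nat_lit 1525617607) (nat_lit 76) (nat_lit 3542336099) (nat_lit 66) (nat_lit 5) (nat_lit 69) (nat_lit 5) (nat_lit 67) (nat_lit 5) (nat_lit 346) (nat_lit 297) (nat_lit 257))))))) (XT.nd (nat_lit 936) (nat_lit 1064) (nat_lit 0) (XT.nd (nat_lit 468) (nat_lit 836) (nat_lit 0) (XT.nd (nat_lit 234) (nat_lit 608) (nat_lit 0) (XT.nd (nat_lit 78) (nat_lit 304) (nat_lit 0) (XT.lf (nat_lit 0) (nat_lit 1502457410) (nat_lit 304) (nat_lit 2942149794) (nat_lit 76) (nat_lit 11863276160) (nat_lit 62) (nat_lit 5) (nat_lit 66) (nat_lit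 5) (nat_lit 63) (nat_lit 5) (nat_lit 347) (nat_lit 297) (nat_lit 256)) (XT.nd (nat_lit 78) (nat_lit 152) (nat_lit 0) (XT.lf (nat_lit 0) (nat_lit 8375643179) (nat_lit 228) (nat_lit 4684494217) (nat_lit 76) (nat_lit 3793166586) (nat_lit 60) (nat_lit 5) (nat_lit 63) (nat_lit 5) (nat_lit 61) (nat_lit 5) (nat_lit 348) (nat_lit 297) (nat_lit 255)) (XT.lf (nat_lit 0) (nat_lit 10680731397) (nat_lit 152) (nat_lit 4999905289) (nat_lit 228) (nat_lit 1742736780) (nat_lit 58) (nat_lit 5) (nat_lit 60) (nat_lit 5) (nat_lit 61) (nat_lit 5) (nat_lit 349) (nat_lit 297) (nat_lit 254)))) (XT.nd (nat_lit 78) (nat_lit 380) (nat_lit 0) (XT.lf (nat_lit 0) (nat_lit 5305331926) (nat_lit 228) (nat_lit 9192335740) (nat_lit 76) (nat_lit 3520351060) (nat_lit 55) (nat_lit 5) (nat_lit 58) (nat_lit 5) (nat_lit 56) (nat_lit 5) (nat_lit 350) (nat_lit 297) (nat_lit 253)) (XT.nd (nat_lit 78) (nat_lit 228) (nat_lit 0) (XT.lf (nat_lit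 0) (nat_lit 6583511038) (nat_lit 152) (nat_lit 6184603846) (nat_lit 228) (nat_lit 5870832749) (nat_lit 53) (nat_lit 5) (nat_lit 55) (nat_lit 5) (nat_lit 56) (nat_lit 5) (nat_lit 351) (nat_lit 297) (nat_lit 252)) (XT.lf (nat_lit 0) (nat_lit 1362536722) (nat_lit 228) (nat_lit 15344953484) (nat_lit 76) (nat_lit 2580820862) (nat_lit 50) (nat_lit 5) (nat_lit 53) (nat_lit 5) (nat_lit 51) (nat_lit 5) (nat_lit 352) (nat_lit 297) (nat_lit 251))))) (XT.nd (nat_lit 234) (nat_lit 456) (nat_lit 0) (XT.nd (nat_lit 78) (nat_lit 228) (nat_lit 0) (XT.lf (nat_lit 0) (nat_lit 775515561) (nat_lit 152) (nat_lit 8175042437) (nat_lit 228) (nat_lit 11014426114) (nat_lit 48) (nat_lit 5) (nat_lit 50) (nat_lit 5) (nat_lit 51) (nat_lit 5) (nat_lit 353) (nat_lit 297) (nat_lit 250)) (XT.nd (nat_lit 78) (nat_lit 228) (nat_lit 0) (XT.lf (nat_lit 0) (nat_lit 17005079757) (nat_lit 228) (nat_lit 2799162382) (nat_lit 76) (nat_lit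 868652145) (nat_lit 48) (nat_lit 5) (nat_lit 51) (nat_lit 5) (nat_lit 49) (nat_lit 4) (nat_lit 354) (nat_lit 297) (nat_lit 249)) (XT.lf (nat_lit 0) (nat_lit 4114101298) (nat_lit 228) (nat_lit 6976792737) (nat_lit 76) (nat_lit 10319746490) (nat_lit 45) (nat_lit 5) (nat_lit 48) (nat_lit 5) (nat_lit 46) (nat_lit 5) (nat_lit 355) (nat_lit 297) (nat_lit 248)))) (XT.nd (nat_lit 78) (nat_lit 304) (nat_lit 0) (XT.lf (nat_lit 0) (nat_lit 10436090222) (nat_lit 152) (nat_lit 1828752675) (nat_lit 228) (nat_lit 9917688645) (nat_lit 43) (nat_lit 5) (nat_lit 45) (nat_lit 5) (nat_lit 46) (nat_lit 5) (nat_lit 356) (nat_lit 297) (nat_lit 247)) (XT.nd (nat_lit 78) (nat_lit 228) (nat_lit 0) (XT.lf (nat_lit 0) (nat_lit 5780052045) (nat_lit 76) (nat_lit 15174293442) (nat_lit 152) (nat_lit 2034748709) (nat_lit 42) (nat_lit 5) (nat_lit 43) (nat_lit 5) (nat_lit 44) (nat_lit 4) (nat_lit 357) (nat_lit 297) (nat_lit 246))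 (XT.lf (nat_lit 0) (nat_lit 395684762) (nat_lit 152) (nat_lit 5797980765) (nat_lit 228) (nat_lit 17638337931) (nat_lit 39) (nat_lit 5) (nat_lit 41) (nat_lit 5) (nat_lit 42) (nat_lit 5) (nat_lit 358) (nat_lit 297) (nat_lit 245)))))) (XT.nd (nat_lit 468) (nat_lit 456) (nat_lit 0) (XT.nd (nat_lit 234) (nat_lit 304) (nat_lit 0) (XT.nd (nat_lit 78) (nat_lit 304) (nat_lit 0) (XT.lf (nat_lit 0) (nat_lit 14940038407) (nat_lit 228) (nat_lit 5658896408) (nat_lit 76) (nat_lit 4113072555) (nat_lit 39) (nat_lit 5) (nat_lit 42) (nat_lit 5) (nat_lit 40) (nat_lit 4) (nat_lit 359) (nat_lit 297) (nat_lit 244)) (XT.nd (nat_lit 78) (nat_lit 228) (nat_lit 0) (XT.lf (nat_lit 0) (nat_lit 13083978477) (nat_lit 76) (nat_lit 11157775393) (nat_lit 152) (nat_lit 1390728465) (nat_lit 38) (nat_lit 5) (nat_lit 39) (nat_lit 5) (nat_lit 40) (nat_lit 4) (nat_lit 360) (nat_lit 297) (nat_lit 243)) (XT.lf (nat_lit 0) (nat_lit 6216451472)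 (nat_lit 152) (nat_lit 1102240228) (nat_lit 228) (nat_lit 19276552140) (nat_lit 35) (nat_lit 5) (nat_lit 37) (nat_lit 5) (nat_lit 38) (nat_lit 5) (nat_lit 361) (nat_lit 297) (nat_lit 242)))) (XT.nd (nat_lit 78) (nat_lit 304) (nat_lit 0) (XT.lf (nat_lit 0) (nat_lit 16593048126) (nat_lit 228) (nat_lit 1642684665) (nat_lit 76) (nat_lit 9365260906) (nat_lit 35) (nat_lit 5) (nat_lit 38) (nat_lit 5) (nat_lit 36) (nat_lit 4) (nat_lit 362) (nat_lit 297) (nat_lit 241)) (XT.nd (nat_lit 78) (nat_lit 228) (nat_lit 0) (XT.lf (nat_lit 0) (nat_lit 18264961830) (nat_lit 76) (nat_lit 8192486365) (nat_lit 152) (nat_lit 2195802789) (nat_lit 34) (nat_lit 5) (nat_lit 35) (nat_lit 5) (nat_lit 36) (nat_lit 4) (nat_lit 363) (nat_lit 297) (nat_lit 240)) (XT.lf (nat_lit 0) (nat_lit 6991945530) (nat_lit 228) (nat_lit 20325931295) (nat_lit 76) (nat_lit 2436037072) (nat_lit 31) (nat_lit 5) (nat_lit 34) (nat_lit 5) (nat_lit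 32) (nat_lit 4) (nat_lit 364) (nat_lit 297) (nat_lit 239))))) (XT.nd (nat_lit 234) (nat_lit 152) (nat_lit 0) (XT.nd (nat_lit 78) (nat_lit 304) (nat_lit 0) (XT.lf (nat_lit 0) (nat_lit 16726996053) (nat_lit 228) (nat_lit 666885656) (nat_lit 76) (nat_lit 13511084757) (nat_lit 31) (nat_lit 5) (nat_lit 34) (nat_lit 5) (nat_lit 32) (nat_lit 4) (nat_lit 365) (nat_lit 297) (nat_lit 238)) (XT.nd (nat_lit 78) (nat_lit 228) (nat_lit 0) (XT.lf (nat_lit 0) (nat_lit 20268989279) (nat_lit 76) (nat_lit 6819618598) (nat_lit 152) (nat_lit 5020777666) (nat_lit 30) (nat_lit 5) (nat_lit 31) (nat_lit 5) (nat_lit 32) (nat_lit 4) (nat_lit 366) (nat_lit 297) (nat_lit 237)) (XT.lf (nat_lit 0) (nat_lit 4585513162) (nat_lit 228) (nat_lit 24491802193) (nat_lit 76) (nat_lit 4292966180) (nat_lit 27) (nat_lit 5) (nat_lit 30) (nat_lit 5) (nat_lit 28) (nat_lit 4) (nat_lit 367) (nat_lit 297) (nat_lit 236)))) (XT.nd (nat_lit 78)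 (nat_lit 152) (nat_lit 0) (XT.lf (nat_lit 0) (nat_lit 14708482863) (nat_lit 228) (nat_lit 4028647132) (nat_lit 76) (nat_lit 15951402131) (nat_lit 27) (nat_lit 5) (nat_lit 30) (nat_lit 5) (nat_lit 28) (nat_lit 4) (nat_lit 368) (nat_lit 297) (nat_lit 235)) (XT.nd (nat_lit 78) (nat_lit 76) (nat_lit 0) (XT.lf (nat_lit 0) (nat_lit 17709824527) (nat_lit 76) (nat_lit 7747834351) (nat_lit 152) (nat_lit 10611441465) (nat_lit 26) (nat_lit 5) (nat_lit 27) (nat_lit 5) (nat_lit 28) (nat_lit 4) (nat_lit 369) (nat_lit 297) (nat_lit 234)) (XT.lf (nat_lit 0) (nat_lit 3032469404) (nat_lit 76) (nat_lit 33770229764) (nat_lit 76) (nat_lit 714252143) (nat_lit 25) (nat_lit 4) (nat_lit 26) (nat_lit 5) (nat_lit 26) (nat_lit 4) (nat_lit 370) (nat_lit 297) (nat_lit 233))))))))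
noncomputable def xc44 : XT := (XT.nd (nat_lit 1872) (nat_lit 76) (nat_lit 0) (XT.nd (nat_lit 858) (nat_lit 456) (nat_lit 0) (XT.nd (nat_lit 390) (nat_lit 304) (nat_lit 0) (XT.nd (nat_lit 156) (nat_lit 152) (nat_lit 0) (XT.nd (nat_lit 78) (nat_lit 76) (nat_lit 0) (XT.lf (nat_lit 0) (nat_lit 9709947427) (nat_lit 152) (nat_lit 13417307647) (nat_lit 76) (nat_lit 15900524916) (nat_lit 24) (nat_lit 5) (nat_lit 26) (nat_lit 5) (nat_lit 25) (nat_lit 4) (nat_lit 371) (nat_lit 297) (nat_lit 232)) (XT.lf (nat_lit 0) (nat_lit 8781529317) (nat_lit 76) (nat_lit 11897830316) (nat_lit 152) (nat_lit 19933420810) (nat_lit 23) (nat_lit 5) (nat_lit 24) (nat_lit 5) (nat_lit 25) (nat_lit 4) (nat_lit 372) (nat_lit 297) (nat_lit 231))) (XT.nd (nat_lit 78) (nat_lit 152) (nat_lit 0) (XT.lf (nat_lit 0) (nat_lit 32287305003) (nat_lit 76) (nat_lit 3658797) (nat_lit 152) (nat_lit 9983260932) (nat_lit 23) (nat_lit 5) (nat_lit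 24) (nat_lit 5) (nat_lit 25) (nat_lit 4) (nat_lit 373) (nat_lit 297) (nat_lit 230)) (XT.nd (nat_lit 78) (nat_lit 0) (nat_lit 0) (XT.lf (nat_lit 0) (nat_lit 659711046) (nat_lit 152) (nat_lit 31016126255) (nat_lit 76) (nat_lit 12336644065) (nat_lit 21) (nat_lit 5) (nat_lit 23) (nat_lit 5) (nat_lit 22) (nat_lit 4) (nat_lit 374) (nat_lit 297) (nat_lit 229)) (XT.lf (nat_lit 0) (nat_lit 11692368484) (nat_lit 152) (nat_lit 8677758939) (nat_lit 76) (nat_lit 25462642705) (nat_lit 21) (nat_lit 5) (nat_lit 23) (nat_lit 5) (nat_lit 22) (nat_lit 4) (nat_lit 375) (nat_lit 297) (nat_lit 228))))) (XT.nd (nat_lit 234) (nat_lit 152) (nat_lit 0) (XT.nd (nat_lit 78) (nat_lit 76) (nat_lit 0) (XT.lf (nat_lit 0) (nat_lit 14995024186) (nat_lit 76) (nat_lit 8385990586) (nat_lit 152) (nat_lit 24359932452) (nat_lit 20) (nat_lit 5) (nat_lit 21) (nat_lit 5) (nat_lit 22) (nat_lit 4) (nat_lit 376) (nat_lit 297) (nat_lit 227))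 (XT.nd (nat_lit 78) (nat_lit 76) (nat_lit 0) (XT.lf (nat_lit 0) (nat_lit 35745732769) (nat_lit 152) (nat_lit 9824087431) (nat_lit 0) (nat_lit 4171968151) (nat_lit 20) (nat_lit 5) (nat_lit 22) (nat_lit 4) (nat_lit 20) (nat_lit 4) (nat_lit 377) (nat_lit 297) (nat_lit 226)) (XT.lf (nat_lit 0) (nat_lit 14369320774) (nat_lit 76) (nat_lit 34545065419) (nat_lit 76) (nat_lit 2922718505) (nat_lit 19) (nat_lit 4) (nat_lit 20) (nat_lit 5) (nat_lit 20) (nat_lit 4) (nat_lit 378) (nat_lit 297) (nat_lit 225)))) (XT.nd (nat_lit 78) (nat_lit 76) (nat_lit 0) (XT.lf (nat_lit 0) (nat_lit 8600245177) (nat_lit 152) (nat_lit 14210118056) (nat_lit 76) (nat_lit 31222342987) (nat_lit 18) (nat_lit 5) (nat_lit 20) (nat_lit 5) (nat_lit 19) (nat_lit 4) (nat_lit 379) (nat_lit 297) (nat_lit 224)) (XT.nd (nat_lit 78) (nat_lit 0) (nat_lit 0) (XT.lf (nat_lit 0) (nat_lit 10316542570) (nat_lit 76) (nat_lit 10387508617) (nat_lit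 152) (nat_lit 35631217938) (nat_lit 17) (nat_lit 5) (nat_lit 18) (nat_lit 5) (nat_lit 19) (nat_lit 4) (nat_lit 380) (nat_lit 297) (nat_lit 223)) (XT.lf (nat_lit 0) (nat_lit 33552464678) (nat_lit 152) (nat_lit 22473607666) (nat_lit 0) (nat_lit 2722708798) (nat_lit 17) (nat_lit 5) (nat_lit 19) (nat_lit 4) (nat_lit 17) (nat_lit 4) (nat_lit 381) (nat_lit 297) (nat_lit 222)))))) (XT.nd (nat_lit 468) (nat_lit 228) (nat_lit 0) (XT.nd (nat_lit 234) (nat_lit 76) (nat_lit 0) (XT.nd (nat_lit 78) (nat_lit 76) (nat_lit 0) (XT.lf (nat_lit 0) (nat_lit 2123904076) (nat_lit 76) (nat_lit 45012418894) (nat_lit 76) (nat_lit 14143858378) (nat_lit 16) (nat_lit 4) (nat_lit 17) (nat_lit 5) (nat_lit 17) (nat_lit 4) (nat_lit 382) (nat_lit 297) (nat_lit 221)) (XT.nd (nat_lit 78) (nat_lit 76) (nat_lit 0) (XT.lf (nat_lit 0) (nat_lit 28361221106) (nat_lit 76) (nat_lit 33238224395) (nat_lit 76) (nat_lit 2332707082) (nat_lit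 16) (nat_lit 4) (nat_lit 17) (nat_lit 5) (nat_lit 17) (nat_lit 4) (nat_lit 383) (nat_lit 297) (nat_lit 220)) (XT.lf (nat_lit 0) (nat_lit 9842436063) (nat_lit 152) (nat_lit 10960569052) (nat_lit 76) (nat_lit 45911718997) (nat_lit 15) (nat_lit 5) (nat_lit 17) (nat_lit 5) (nat_lit 16) (nat_lit 4) (nat_lit 384) (nat_lit 297) (nat_lit 219)))) (XT.nd (nat_lit 78) (nat_lit 0) (nat_lit 0) (XT.lf (nat_lit 0) (nat_lit 15096631569) (nat_lit 76) (nat_lit 7598376674) (nat_lit 152) (nat_lit 46937218397) (nat_lit 14) (nat_lit 5) (nat_lit 15) (nat_lit 5) (nat_lit 16) (nat_lit 4) (nat_lit 385) (nat_lit 297) (nat_lit 218)) (XT.nd (nat_lit 78) (nat_lit 0) (nat_lit 0) (XT.lf (nat_lit 0) (nat_lit 36336351705) (nat_lit 152) (nat_lit 30121587052) (nat_lit 0) (nat_lit 6233283904) (nat_lit 14) (nat_lit 5) (nat_lit 16) (nat_lit 4) (nat_lit 14) (nat_lit 4) (nat_lit 386) (nat_lit 297) (nat_lit 217)) (XT.lf (nat_lit 0)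 (nat_lit 50709748781) (nat_lit 152) (nat_lit 4614760531) (nat_lit 0) (nat_lit 20577162099) (nat_lit 14) (nat_lit 5) (nat_lit 16) (nat_lit 4) (nat_lit 14) (nat_lit 4) (nat_lit 387) (nat_lit 297) (nat_lit 216))))) (XT.nd (nat_lit 234) (nat_lit 76) (nat_lit 0) (XT.nd (nat_lit 78) (nat_lit 76) (nat_lit 0) (XT.lf (nat_lit 0) (nat_lit 22558859884) (nat_lit 76) (nat_lit 43434371278) (nat_lit 76) (nat_lit 13273671375) (nat_lit 13) (nat_lit 4) (nat_lit 14) (nat_lit 5) (nat_lit 14) (nat_lit 4) (nat_lit 388) (nat_lit 297) (nat_lit 215)) (XT.nd (nat_lit 78) (nat_lit 76) (nat_lit 0) (XT.lf (nat_lit 0) (nat_lit 51140241670) (nat_lit 76) (nat_lit 30923472716) (nat_lit 76) (nat_lit 735998318) (nat_lit 13) (nat_lit 4) (nat_lit 14) (nat_lit 5) (nat_lit 14) (nat_lit 4) (nat_lit 389) (nat_lit 297) (nat_lit 214)) (XT.lf (nat_lit 0) (nat_lit 12162294600) (nat_lit 152) (nat_lit 5523515879) (nat_lit 76) (nat_lit 68820483024)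 (nat_lit 12) (nat_lit 5) (nat_lit 14) (nat_lit 5) (nat_lit 13) (nat_lit 4) (nat_lit 390) (nat_lit 297) (nat_lit 213)))) (XT.nd (nat_lit 78) (nat_lit 0) (nat_lit 0) (XT.lf (nat_lit 0) (nat_lit 22303628611) (nat_lit 76) (nat_lit 3578582120) (nat_lit 152) (nat_lit 64510018107) (nat_lit 11) (nat_lit 5) (nat_lit 12) (nat_lit 5) (nat_lit 13) (nat_lit 4) (nat_lit 391) (nat_lit 297) (nat_lit 212)) (XT.nd (nat_lit 78) (nat_lit 0) (nat_lit 0) (XT.lf (nat_lit 0) (nat_lit 40431402916) (nat_lit 152) (nat_lit 42984376085) (nat_lit 0) (nat_lit 11052385449) (nat_lit 11) (nat_lit 5) (nat_lit 13) (nat_lit 4) (nat_lit 11) (nat_lit 4) (nat_lit 392) (nat_lit 297) (nat_lit 211)) (XT.lf (nat_lit 0) (nat_lit 55723097446) (nat_lit 152) (nat_lit 16701655830) (nat_lit 0) (nat_lit 26322694111) (nat_lit 11) (nat_lit 5) (nat_lit 13) (nat_lit 4) (nat_lit 11) (nat_lit 4) (nat_lit 393) (nat_lit 297) (nat_lit 210))))))) (XT.nd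 (nat_lit 40638) (nat_lit 0) (nat_lit 10564) (XT.nd (nat_lit 40170) (nat_lit 0) (nat_lit 19532) (XT.nd (nat_lit 39936) (nat_lit 0) (nat_lit 24624) (XT.nd (nat_lit 39780) (nat_lit 0) (nat_lit 26144) (XT.lf (nat_lit 0) (nat_lit 40547038811) (nat_lit 76) (nat_lit 48420926944) (nat_lit 76) (nat_lit 18980758504) (nat_lit 10) (nat_lit 4) (nat_lit 11) (nat_lit 5) (nat_lit 11) (nat_lit 4) (nat_lit 395) (nat_lit 297) (nat_lit 208)) (XT.nd (nat_lit 78) (nat_lit 380) (nat_lit 0) (XT.lf (nat_lit 0) (nat_lit 1286381687) (nat_lit 228) (nat_lit 979117249) (nat_lit 228) (nat_lit 979117249) (nat_lit 359) (nat_lit 4) (nat_lit 362) (nat_lit 5) (nat_lit 362) (nat_lit 4) (nat_lit 304) (nat_lit 298) (nat_lit 298)) (XT.lf (nat_lit 0) (nat_lit 2022457515) (nat_lit 304) (nat_lit 1103142141) (nat_lit 380) (nat_lit 3391404082) (nat_lit 354) (nat_lit 5) (nat_lit 358) (nat_lit 5) (nat_lit 359) (nat_lit 4) (nat_lit 305) (nat_lit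 298) (nat_lit 297)))) (XT.nd (nat_lit 78) (nat_lit 1064) (nat_lit 0) (XT.lf (nat_lit 0) (nat_lit 1588028150) (nat_lit 380) (nat_lit 2413586) (nat_lit 456) (nat_lit 4962444233) (nat_lit 348) (nat_lit 5) (nat_lit 353) (nat_lit 5) (nat_lit 354) (nat_lit 5) (nat_lit 306) (nat_lit 298) (nat_lit 296)) (XT.nd (nat_lit 78) (nat_lit 608) (nat_lit 0) (XT.lf (nat_lit 0) (nat_lit 1253658132) (nat_lit 456) (nat_lit 5275155991) (nat_lit 532) (nat_lit 67729296) (nat_lit 342) (nat_lit 5) (nat_lit 348) (nat_lit 5) (nat_lit 349) (nat_lit 4) (nat_lit 307) (nat_lit 298) (nat_lit 295)) (XT.lf (nat_lit 0) (nat_lit 1011871439) (nat_lit 532) (nat_lit 3738271025) (nat_lit 608) (nat_lit 1897748918) (nat_lit 334) (nat_lit 5) (nat_lit 341) (nat_lit 5) (nat_lit 342) (nat_lit 5) (nat_lit 308) (nat_lit 298) (nat_lit 294))))) (XT.nd (nat_lit 234) (nat_lit 2888) (nat_lit 0) (XT.nd (nat_lit 78) (nat_lit 1520) (nat_lit 0) (XT.lf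 (nat_lit 0) (nat_lit 877429784) (nat_lit 608) (nat_lit 1956338376) (nat_lit 684) (nat_lit 3873733179) (nat_lit 325) (nat_lit 5) (nat_lit 333) (nat_lit 5) (nat_lit 334) (nat_lit 5) (nat_lit 309) (nat_lit 298) (nat_lit 293)) (XT.nd (nat_lit 78) (nat_lit 760) (nat_lit 0) (XT.lf (nat_lit 0) (nat_lit 774368639) (nat_lit 760) (nat_lit 5926938103) (nat_lit 76) (nat_lit 74164644) (nat_lit 315) (nat_lit 5) (nat_lit 325) (nat_lit 5) (nat_lit 316) (nat_lit 5) (nat_lit 310) (nat_lit 298) (nat_lit 292)) (XT.lf (nat_lit 0) (nat_lit 888963307) (nat_lit 760) (nat_lit 4519807660) (nat_lit 836) (nat_lit 1442135710) (nat_lit 305) (nat_lit 5) (nat_lit 315) (nat_lit 5) (nat_lit 316) (nat_lit 5) (nat_lit 311) (nat_lit 298) (nat_lit 291)))) (XT.nd (nat_lit 78) (nat_lit 1976) (nat_lit 0) (XT.lf (nat_lit 0) (nat_lit 1022392851) (nat_lit 836) (nat_lit 2080517987) (nat_lit 912) (nat_lit 3831756087) (nat_lit 293) (nat_lit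 5) (nat_lit 304) (nat_lit 5) (nat_lit 305) (nat_lit 5) (nat_lit 312) (nat_lit 298) (nat_lit 290)) (XT.nd (nat_lit 78) (nat_lit 988) (nat_lit 0) (XT.lf (nat_lit 0) (nat_lit 646523394) (nat_lit 988) (nat_lit 5776850657) (nat_lit 76) (nat_lit 603596886) (nat_lit 280) (nat_lit 5) (nat_lit 293) (nat_lit 5) (nat_lit 281) (nat_lit 5) (nat_lit 313) (nat_lit 298) (nat_lit 289)) (XT.lf (nat_lit 0) (nat_lit 1535120825) (nat_lit 988) (nat_lit 3601440601) (nat_lit 1064) (nat_lit 1990371359) (nat_lit 267) (nat_lit 5) (nat_lit 280) (nat_lit 5) (nat_lit 281) (nat_lit 5) (nat_lit 314) (nat_lit 298) (nat_lit 288)))))) (XT.nd (nat_lit 468) (nat_lit 3496) (nat_lit 0) (XT.nd (nat_lit 234) (nat_lit 1900) (nat_lit 0) (XT.nd (nat_lit 78) (nat_lit 2432) (nat_lit 0) (XT.lf (nat_lit 0) (nat_lit 1909400784) (nat_lit 1064) (nat_lit 512930001) (nat_lit 1140) (nat_lit 4813358579) (nat_lit 252) (nat_lit 5) (nat_lit 266) (nat_lit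 5) (nat_lit 267) (nat_lit 5) (nat_lit 315) (nat_lit 298) (nat_lit 287)) (XT.nd (nat_lit 78) (nat_lit 1292) (nat_lit 0) (XT.lf (nat_lit 0) (nat_lit 2346973789) (nat_lit 1140) (nat_lit 4559580723) (nat_lit 1216) (nat_lit 446146959) (nat_lit 237) (nat_lit 5) (nat_lit 252) (nat_lit 5) (nat_lit 253) (nat_lit 5) (nat_lit 316) (nat_lit 298) (nat_lit 286)) (XT.lf (nat_lit 0) (nat_lit 2846622036) (nat_lit 1216) (nat_lit 1090789652) (nat_lit 1292) (nat_lit 3540753497) (nat_lit 220) (nat_lit 5) (nat_lit 236) (nat_lit 5) (nat_lit 237) (nat_lit 5) (nat_lit 317) (nat_lit 298) (nat_lit 285)))) (XT.nd (nat_lit 78) (nat_lit 1216) (nat_lit 0) (XT.lf (nat_lit 0) (nat_lit 810568520) (nat_lit 684) (nat_lit 4200613990) (nat_lit 76) (nat_lit 2601245359) (nat_lit 211) (nat_lit 5) (nat_lit 220) (nat_lit 5) (nat_lit 212) (nat_lit 5) (nat_lit 318) (nat_lit 298) (nat_lit 284)) (XT.nd (nat_lit 78) (nat_lit 684) (nat_lit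 0) (XT.lf (nat_lit 0) (nat_lit 4030391136) (nat_lit 532) (nat_lit 1178944354) (nat_lit 608) (nat_lit 2546062033) (nat_lit 204) (nat_lit 5) (nat_lit 211) (nat_lit 5) (nat_lit 212) (nat_lit 5) (nat_lit 319) (nat_lit 298) (nat_lit 283)) (XT.lf (nat_lit 0) (nat_lit 1812382243) (nat_lit 684) (nat_lit 3207824545) (nat_lit 76) (nat_lit 2887061582) (nat_lit 195) (nat_lit 5) (nat_lit 204) (nat_lit 5) (nat_lit 196) (nat_lit 5) (nat_lit 320) (nat_lit 298) (nat_lit 282))))) (XT.nd (nat_lit 234) (nat_lit 1900) (nat_lit 0) (XT.nd (nat_lit 78) (nat_lit 1064) (nat_lit 0) (XT.lf (nat_lit 0) (nat_lit 5424253115) (nat_lit 532) (nat_lit 832088256) (nat_lit 608) (nat_lit 1812149851) (nat_lit 188) (nat_lit 5) (nat_lit 195) (nat_lit 5) (nat_lit 196) (nat_lit 5) (nat_lit 321) (nat_lit 298) (nat_lit 281)) (XT.nd (nat_lit 78) (nat_lit 456) (nat_lit 0) (XT.lf (nat_lit 0) (nat_lit 2582643229) (nat_lit 608) (nat_lit 2060483118)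 (nat_lit 76) (nat_lit 3595478378) (nat_lit 180) (nat_lit 5) (nat_lit 188) (nat_lit 5) (nat_lit 181) (nat_lit 5) (nat_lit 322) (nat_lit 298) (nat_lit 280)) (XT.lf (nat_lit 0) (nat_lit 6991697141) (nat_lit 456) (nat_lit 99830058) (nat_lit 532) (nat_lit 1327311167) (nat_lit 174) (nat_lit 5) (nat_lit 180) (nat_lit 5) (nat_lit 181) (nat_lit 5) (nat_lit 323) (nat_lit 298) (nat_lit 279)))) (XT.nd (nat_lit 78) (nat_lit 1368) (nat_lit 0) (XT.lf (nat_lit 0) (nat_lit 3130794984) (nat_lit 532) (nat_lit 796910236) (nat_lit 76) (nat_lit 4680275620) (nat_lit 167) (nat_lit 5) (nat_lit 174) (nat_lit 5) (nat_lit 168) (nat_lit 5) (nat_lit 324) (nat_lit 298) (nat_lit 278)) (XT.nd (nat_lit 78) (nat_lit 912) (nat_lit 0) (XT.lf (nat_lit 0) (nat_lit 7732191447) (nat_lit 532) (nat_lit 122463475) (nat_lit 76) (nat_lit 953190945) (nat_lit 161) (nat_lit 5) (nat_lit 168) (nat_lit 5) (nat_lit 162) (nat_lit 5) (nat_lit 325)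 (nat_lit 298) (nat_lit 277)) (XT.lf (nat_lit 0) (nat_lit 553268750) (nat_lit 380) (nat_lit 2913061966) (nat_lit 456) (nat_lit 5550751324) (nat_lit 149) (nat_lit 5) (nat_lit 154) (nat_lit 5) (nat_lit 155) (nat_lit 5) (nat_lit 326) (nat_lit 298) (nat_lit 276))))))))
noncomputable def xc45 : XT := (XT.nd (nat_lit 1872) (nat_lit 2584) (nat_lit 0) (XT.nd (nat_lit 936) (nat_lit 2660) (nat_lit 0) (XT.nd (nat_lit 468) (nat_lit 1900) (nat_lit 0) (XT.nd (nat_lit 234) (nat_lit 1140) (nat_lit 0) (XT.nd (nat_lit 78) (nat_lit 836) (nat_lit 0) (XT.lf (nat_lit 0) (nat_lit 1257718782) (nat_lit 456) (nat_lit 6929866006) (nat_lit 532) (nat_lit 1049726702) (nat_lit 143) (nat_lit 5) (nat_lit 149) (nat_lit 5) (nat_lit 150) (nat_lit 5) (nat_lit 327) (nat_lit 298) (nat_lit 275)) (XT.nd (nat_lit 78) (nat_lit 380) (nat_lit 0) (XT.lf (nat_lit 0) (nat_lit 1951933078) (nat_lit 380) (nat_lit 1638845018) (nat_lit 456) (nat_lit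 5877206260) (nat_lit 137) (nat_lit 5) (nat_lit 142) (nat_lit 5) (nat_lit 143) (nat_lit 5) (nat_lit 328) (nat_lit 298) (nat_lit 274)) (XT.lf (nat_lit 0) (nat_lit 2646507815) (nat_lit 380) (nat_lit 5796208179) (nat_lit 456) (nat_lit 1267203017) (nat_lit 132) (nat_lit 5) (nat_lit 137) (nat_lit 5) (nat_lit 138) (nat_lit 5) (nat_lit 329) (nat_lit 298) (nat_lit 273)))) (XT.nd (nat_lit 78) (nat_lit 760) (nat_lit 0) (XT.lf (nat_lit 0) (nat_lit 3333597656) (nat_lit 304) (nat_lit 155201589) (nat_lit 380) (nat_lit 6474631831) (nat_lit 127) (nat_lit 5) (nat_lit 131) (nat_lit 5) (nat_lit 132) (nat_lit 5) (nat_lit 330) (nat_lit 298) (nat_lit 272)) (XT.nd (nat_lit 78) (nat_lit 380) (nat_lit 0) (XT.lf (nat_lit 0) (nat_lit 3988920815) (nat_lit 380) (nat_lit 4497897323) (nat_lit 456) (nat_lit 1741576191) (nat_lit 122) (nat_lit 5) (nat_lit 127) (nat_lit 5) (nat_lit 128) (nat_lit 5) (nat_lit 331) (nat_lit 298)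 (nat_lit 271)) (XT.lf (nat_lit 0) (nat_lit 3160964910) (nat_lit 380) (nat_lit 5878601750) (nat_lit 76) (nat_lit 1466293238) (nat_lit 117) (nat_lit 5) (nat_lit 122) (nat_lit 5) (nat_lit 118) (nat_lit 5) (nat_lit 332) (nat_lit 298) (nat_lit 270))))) (XT.nd (nat_lit 234) (nat_lit 912) (nat_lit 0) (XT.nd (nat_lit 78) (nat_lit 684) (nat_lit 0) (XT.lf (nat_lit 0) (nat_lit 5224910853) (nat_lit 304) (nat_lit 3078962281) (nat_lit 380) (nat_lit 2491927539) (nat_lit 113) (nat_lit 5) (nat_lit 117) (nat_lit 5) (nat_lit 118) (nat_lit 5) (nat_lit 333) (nat_lit 298) (nat_lit 269)) (XT.nd (nat_lit 78) (nat_lit 304) (nat_lit 0) (XT.lf (nat_lit 0) (nat_lit 2574873135) (nat_lit 380) (nat_lit 5318543915) (nat_lit 76) (nat_lit 3205463512) (nat_lit 108) (nat_lit 5) (nat_lit 113) (nat_lit 5) (nat_lit 109) (nat_lit 5) (nat_lit 334) (nat_lit 298) (nat_lit 268)) (XT.lf (nat_lit 0) (nat_lit 6284947375) (nat_lit 304) (nat_lit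 1585766409) (nat_lit 380) (nat_lit 3544893562) (nat_lit 104) (nat_lit 5) (nat_lit 108) (nat_lit 5) (nat_lit 109) (nat_lit 5) (nat_lit 335) (nat_lit 298) (nat_lit 267)))) (XT.nd (nat_lit 78) (nat_lit 608) (nat_lit 0) (XT.lf (nat_lit 0) (nat_lit 1700194875) (nat_lit 304) (nat_lit 5026586718) (nat_lit 76) (nat_lit 5019453970) (nat_lit 100) (nat_lit 5) (nat_lit 104) (nat_lit 5) (nat_lit 101) (nat_lit 5) (nat_lit 336) (nat_lit 298) (nat_lit 266)) (XT.nd (nat_lit 78) (nat_lit 304) (nat_lit 0) (XT.lf (nat_lit 0) (nat_lit 7087742442) (nat_lit 304) (nat_lit 68403355) (nat_lit 380) (nat_lit 4935582988) (nat_lit 96) (nat_lit 5) (nat_lit 100) (nat_lit 5) (nat_lit 101) (nat_lit 5) (nat_lit 337) (nat_lit 298) (nat_lit 265)) (XT.lf (nat_lit 0) (nat_lit 499384315) (nat_lit 304) (nat_lit 5094573379) (nat_lit 76) (nat_lit 6858134155) (nat_lit 92) (nat_lit 5) (nat_lit 96) (nat_lit 5) (nat_lit 93) (nat_lit 5) (nat_lit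 338) (nat_lit 298) (nat_lit 264)))))) (XT.nd (nat_lit 468) (nat_lit 1140) (nat_lit 0) (XT.nd (nat_lit 234) (nat_lit 684) (nat_lit 0) (XT.nd (nat_lit 78) (nat_lit 532) (nat_lit 0) (XT.lf (nat_lit 0) (nat_lit 6133493103) (nat_lit 380) (nat_lit 5304571828) (nat_lit 76) (nat_lit 1390096978) (nat_lit 88) (nat_lit 5) (nat_lit 93) (nat_lit 5) (nat_lit 89) (nat_lit 5) (nat_lit 339) (nat_lit 298) (nat_lit 263)) (XT.nd (nat_lit 78) (nat_lit 304) (nat_lit 0) (XT.lf (nat_lit 0) (nat_lit 7579649660) (nat_lit 228) (nat_lit 4544744941) (nat_lit 304) (nat_lit 1096425315) (nat_lit 85) (nat_lit 5) (nat_lit 88) (nat_lit 5) (nat_lit 89) (nat_lit 5) (nat_lit 340) (nat_lit 298) (nat_lit 262)) (XT.lf (nat_lit 0) (nat_lit 4738153223) (nat_lit 304) (nat_lit 6136587347) (nat_lit 76) (nat_lit 2755533620) (nat_lit 81) (nat_lit 5) (nat_lit 85) (nat_lit 5) (nat_lit 82) (nat_lit 5) (nat_lit 341) (nat_lit 298) (nat_lit 261))))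 (XT.nd (nat_lit 78) (nat_lit 456) (nat_lit 0) (XT.lf (nat_lit 0) (nat_lit 7265023490) (nat_lit 228) (nat_lit 3649450858) (nat_lit 304) (nat_lit 3143253115) (nat_lit 78) (nat_lit 5) (nat_lit 81) (nat_lit 5) (nat_lit 82) (nat_lit 5) (nat_lit 342) (nat_lit 298) (nat_lit 260)) (XT.nd (nat_lit 78) (nat_lit 152) (nat_lit 0) (XT.lf (nat_lit 0) (nat_lit 2906035714) (nat_lit 304) (nat_lit 7638296128) (nat_lit 76) (nat_lit 3959334490) (nat_lit 74) (nat_lit 5) (nat_lit 78) (nat_lit 5) (nat_lit 75) (nat_lit 5) (nat_lit 343) (nat_lit 298) (nat_lit 259)) (XT.lf (nat_lit 0) (nat_lit 6272669948) (nat_lit 152) (nat_lit 2991560286) (nat_lit 228) (nat_lit 5704623554) (nat_lit 72) (nat_lit 5) (nat_lit 74) (nat_lit 5) (nat_lit 75) (nat_lit 5) (nat_lit 344) (nat_lit 298) (nat_lit 258))))) (XT.nd (nat_lit 234) (nat_lit 456) (nat_lit 0) (XT.nd (nat_lit 78) (nat_lit 380) (nat_lit 0) (XT.lf (nat_lit 0) (nat_lit 559686161)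 (nat_lit 304) (nat_lit 9974270925) (nat_lit 76) (nat_lit 4920648468) (nat_lit 68) (nat_lit 5) (nat_lit 72) (nat_lit 5) (nat_lit 69) (nat_lit 5) (nat_lit 345) (nat_lit 298) (nat_lit 257)) (XT.nd (nat_lit 78) (nat_lit 228) (nat_lit 0) (XT.lf (nat_lit 0) (nat_lit 4429172260) (nat_lit 152) (nat_lit 2662075118) (nat_lit 228) (nat_lit 8869567903) (nat_lit 66) (nat_lit 5) (nat_lit 68) (nat_lit 5) (nat_lit 69) (nat_lit 5) (nat_lit 346) (nat_lit 298) (nat_lit 256)) (XT.lf (nat_lit 0) (nat_lit 3126341720) (nat_lit 228) (nat_lit 10920771802) (nat_lit 304) (nat_lit 2442314270) (nat_lit 63) (nat_lit 5) (nat_lit 66) (nat_lit 5) (nat_lit 67) (nat_lit 5) (nat_lit 347) (nat_lit 298) (nat_lit 255)))) (XT.nd (nat_lit 78) (nat_lit 228) (nat_lit 0) (XT.lf (nat_lit 0) (nat_lit 1528509333) (nat_lit 152) (nat_lit 2767304027) (nat_lit 228) (nat_lit 12745231729) (nat_lit 60) (nat_lit 5) (nat_lit 62) (nat_lit 5) (nat_lit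 63) (nat_lit 5) (nat_lit 348) (nat_lit 298) (nat_lit 254)) (XT.nd (nat_lit 78) (nat_lit 228) (nat_lit 0) (XT.lf (nat_lit 0) (nat_lit 11429738922) (nat_lit 228) (nat_lit 400785028) (nat_lit 76) (nat_lit 5785733013) (nat_lit 60) (nat_lit 5) (nat_lit 63) (nat_lit 5) (nat_lit 61) (nat_lit 5) (nat_lit 349) (nat_lit 298) (nat_lit 253)) (XT.lf (nat_lit 0) (nat_lit 783717509) (nat_lit 228) (nat_lit 2621847520) (nat_lit 76) (nat_lit 14811564679) (nat_lit 57) (nat_lit 5) (nat_lit 60) (nat_lit 5) (nat_lit 58) (nat_lit 5) (nat_lit 350) (nat_lit 298) (nat_lit 252))))))) (XT.nd (nat_lit 936) (nat_lit 912) (nat_lit 0) (XT.nd (nat_lit 468) (nat_lit 760) (nat_lit 0) (XT.nd (nat_lit 234) (nat_lit 380) (nat_lit 0) (XT.nd (nat_lit 78) (nat_lit 380) (nat_lit 0) (XT.lf (nat_lit 0) (nat_lit 8084646592) (nat_lit 228) (nat_lit 5280885622) (nat_lit 76) (nat_lit 5477391134) (nat_lit 55) (nat_lit 5) (nat_lit 58) (nat_lit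 5) (nat_lit 56) (nat_lit 5) (nat_lit 351) (nat_lit 298) (nat_lit 251)) (XT.nd (nat_lit 78) (nat_lit 228) (nat_lit 0) (XT.lf (nat_lit 0) (nat_lit 11158457739) (nat_lit 152) (nat_lit 4683207333) (nat_lit 228) (nat_lit 3655628111) (nat_lit 53) (nat_lit 5) (nat_lit 55) (nat_lit 5) (nat_lit 56) (nat_lit 5) (nat_lit 352) (nat_lit 298) (nat_lit 250)) (XT.lf (nat_lit 0) (nat_lit 3830627863) (nat_lit 228) (nat_lit 11885277848) (nat_lit 76) (nat_lit 4464315743) (nat_lit 50) (nat_lit 5) (nat_lit 53) (nat_lit 5) (nat_lit 51) (nat_lit 5) (nat_lit 353) (nat_lit 298) (nat_lit 249)))) (XT.nd (nat_lit 78) (nat_lit 228) (nat_lit 0) (XT.lf (nat_lit 0) (nat_lit 4920050741) (nat_lit 152) (nat_lit 6803182518) (nat_lit 228) (nat_lit 9169763505) (nat_lit 48) (nat_lit 5) (nat_lit 50) (nat_lit 5) (nat_lit 51) (nat_lit 5) (nat_lit 354) (nat_lit 298) (nat_lit 248)) (XT.nd (nat_lit 78) (nat_lit 76) (nat_lit 0) (XT.lf (nat_lit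 0) (nat_lit 1042051411) (nat_lit 152) (nat_lit 19054026497) (nat_lit 228) (nat_lit 1542779594) (nat_lit 46) (nat_lit 5) (nat_lit 48) (nat_lit 5) (nat_lit 49) (nat_lit 4) (nat_lit 355) (nat_lit 298) (nat_lit 247)) (XT.lf (nat_lit 0) (nat_lit 6503120806) (nat_lit 228) (nat_lit 3434454447) (nat_lit 76) (nat_lit 12477673295) (nat_lit 45) (nat_lit 5) (nat_lit 48) (nat_lit 5) (nat_lit 46) (nat_lit 5) (nat_lit 356) (nat_lit 298) (nat_lit 246))))) (XT.nd (nat_lit 234) (nat_lit 304) (nat_lit 0) (XT.nd (nat_lit 78) (nat_lit 304) (nat_lit 0) (XT.lf (nat_lit 0) (nat_lit 14737532827) (nat_lit 152) (nat_lit 256231497) (nat_lit 228) (nat_lit 8234019063) (nat_lit 43) (nat_lit 5) (nat_lit 45) (nat_lit 5) (nat_lit 46) (nat_lit 5) (nat_lit 357) (nat_lit 298) (nat_lit 245)) (XT.nd (nat_lit 78) (nat_lit 228) (nat_lit 0) (XT.lf (nat_lit 0) (nat_lit 9786857452) (nat_lit 76) (nat_lit 14281109078) (nat_lit 152) (nat_lit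 8220165) (nat_lit 42) (nat_lit 5) (nat_lit 43) (nat_lit 5) (nat_lit 44) (nat_lit 4) (nat_lit 358) (nat_lit 298) (nat_lit 244)) (XT.lf (nat_lit 0) (nat_lit 4067404581) (nat_lit 152) (nat_lit 4458416333) (nat_lit 228) (nat_lit 16436752475) (nat_lit 39) (nat_lit 5) (nat_lit 41) (nat_lit 5) (nat_lit 42) (nat_lit 5) (nat_lit 359) (nat_lit 298) (nat_lit 243)))) (XT.nd (nat_lit 78) (nat_lit 304) (nat_lit 0) (XT.lf (nat_lit 0) (nat_lit 17628121765) (nat_lit 228) (nat_lit 2420600825) (nat_lit 76) (nat_lit 5840313582) (nat_lit 39) (nat_lit 5) (nat_lit 42) (nat_lit 5) (nat_lit 40) (nat_lit 4) (nat_lit 360) (nat_lit 298) (nat_lit 242)) (XT.nd (nat_lit 78) (nat_lit 152) (nat_lit 0) (XT.lf (nat_lit 0) (nat_lit 468702841) (nat_lit 152) (nat_lit 9703450639) (nat_lit 76) (nat_lit 16685046334) (nat_lit 37) (nat_lit 5) (nat_lit 39) (nat_lit 5) (nat_lit 38) (nat_lit 5) (nat_lit 361) (nat_lit 298) (nat_lit 241))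 (XT.lf (nat_lit 0) (nat_lit 9530349532) (nat_lit 228) (nat_lit 17986316999) (nat_lit 76) (nat_lit 352669169) (nat_lit 35) (nat_lit 5) (nat_lit 38) (nat_lit 5) (nat_lit 36) (nat_lit 4) (nat_lit 362) (nat_lit 298) (nat_lit 240)))))) (XT.nd (nat_lit 468) (nat_lit 304) (nat_lit 0) (XT.nd (nat_lit 234) (nat_lit 304) (nat_lit 0) (XT.nd (nat_lit 78) (nat_lit 228) (nat_lit 0) (XT.lf (nat_lit 0) (nat_lit 1543675008) (nat_lit 76) (nat_lit 17662291343) (nat_lit 152) (nat_lit 9721294643) (nat_lit 34) (nat_lit 5) (nat_lit 35) (nat_lit 5) (nat_lit 36) (nat_lit 4) (nat_lit 363) (nat_lit 298) (nat_lit 239)) (XT.nd (nat_lit 78) (nat_lit 228) (nat_lit 0) (XT.lf (nat_lit 0) (nat_lit 22323753908) (nat_lit 76) (nat_lit 7171019848) (nat_lit 152) (nat_lit 539435313) (nat_lit 34) (nat_lit 5) (nat_lit 35) (nat_lit 5) (nat_lit 36) (nat_lit 4) (nat_lit 364) (nat_lit 298) (nat_lit 238)) (XT.lf (nat_lit 0) (nat_lit 9034024678)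 (nat_lit 228) (nat_lit 18216055920) (nat_lit 76) (nat_lit 3940504079) (nat_lit 31) (nat_lit 5) (nat_lit 34) (nat_lit 5) (nat_lit 32) (nat_lit 4) (nat_lit 365) (nat_lit 298) (nat_lit 237)))) (XT.nd (nat_lit 78) (nat_lit 228) (nat_lit 0) (XT.lf (nat_lit 0) (nat_lit 2322394960) (nat_lit 76) (nat_lit 16875162672) (nat_lit 152) (nat_lit 13203392271) (nat_lit 30) (nat_lit 5) (nat_lit 31) (nat_lit 5) (nat_lit 32) (nat_lit 4) (nat_lit 366) (nat_lit 298) (nat_lit 236)) (XT.nd (nat_lit 78) (nat_lit 228) (nat_lit 0) (XT.lf (nat_lit 0) (nat_lit 24174401455) (nat_lit 76) (nat_lit 5831567079) (nat_lit 152) (nat_lit 3661771204) (nat_lit 30) (nat_lit 5) (nat_lit 31) (nat_lit 5) (nat_lit 32) (nat_lit 4) (nat_lit 367) (nat_lit 298) (nat_lit 235)) (XT.lf (nat_lit 0) (nat_lit 6358124833) (nat_lit 228) (nat_lit 22843046385) (nat_lit 76) (nat_lit 5791114260) (nat_lit 27) (nat_lit 5) (nat_lit 30) (nat_lit 5) (nat_lit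 28) (nat_lit 4) (nat_lit 368) (nat_lit 298) (nat_lit 234))))) (XT.nd (nat_lit 234) (nat_lit 76) (nat_lit 0) (XT.nd (nat_lit 78) (nat_lit 228) (nat_lit 0) (XT.lf (nat_lit 0) (nat_lit 16913750829) (nat_lit 228) (nat_lit 1493559567) (nat_lit 76) (nat_lit 17971352972) (nat_lit 27) (nat_lit 5) (nat_lit 30) (nat_lit 5) (nat_lit 28) (nat_lit 4) (nat_lit 369) (nat_lit 298) (nat_lit 233)) (XT.nd (nat_lit 78) (nat_lit 152) (nat_lit 0) (XT.lf (nat_lit 0) (nat_lit 21253393882) (nat_lit 76) (nat_lit 6902550273) (nat_lit 152) (nat_lit 9673658611) (nat_lit 26) (nat_lit 5) (nat_lit 27) (nat_lit 5) (nat_lit 28) (nat_lit 4) (nat_lit 370) (nat_lit 298) (nat_lit 232)) (XT.lf (nat_lit 0) (nat_lit 672568949) (nat_lit 152) (nat_lit 33561204120) (nat_lit 76) (nat_lit 5116828938) (nat_lit 24) (nat_lit 5) (nat_lit 26) (nat_lit 5) (nat_lit 25) (nat_lit 4) (nat_lit 371) (nat_lit 298) (nat_lit 231)))) (XT.nd (nat_lit 78)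 (nat_lit 76) (nat_lit 0) (XT.lf (nat_lit 0) (nat_lit 11536301167) (nat_lit 152) (nat_lit 11573608493) (nat_lit 76) (nat_lit 17828865861) (nat_lit 24) (nat_lit 5) (nat_lit 26) (nat_lit 5) (nat_lit 25) (nat_lit 4) (nat_lit 372) (nat_lit 298) (nat_lit 230)) (XT.nd (nat_lit 78) (nat_lit 0) (nat_lit 0) (XT.lf (nat_lit 0) (nat_lit 11663090831) (nat_lit 76) (nat_lit 11350721508) (nat_lit 152) (nat_lit 19590432795) (nat_lit 23) (nat_lit 5) (nat_lit 24) (nat_lit 5) (nat_lit 25) (nat_lit 4) (nat_lit 373) (nat_lit 298) (nat_lit 229)) (XT.lf (nat_lit 0) (nat_lit 35154486805) (nat_lit 152) (nat_lit 8133198527) (nat_lit 0) (nat_lit 1062629212) (nat_lit 23) (nat_lit 5) (nat_lit 25) (nat_lit 4) (nat_lit 23) (nat_lit 4) (nat_lit 374) (nat_lit 298) (nat_lit 228))))))))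
noncomputable def xc46 : XT := (XT.nd (nat_lit 41418) (nat_lit 0) (nat_lit 10032) (XT.nd (nat_lit 858) (nat_lit 380) (nat_lit 0) (XT.nd (nat_lit 390) (nat_lit 304) (nat_lit 0) (XT.nd (nat_lit 156) (nat_lit 152) (nat_lit 0) (XT.nd (nat_lit 78) (nat_lit 0) (nat_lit 0) (XT.lf (nat_lit 0) (nat_lit 1916339204) (nat_lit 152) (nat_lit 30256857848) (nat_lit 76) (nat_lit 14003058391) (nat_lit 21) (nat_lit 5) (nat_lit 23) (nat_lit 5) (nat_lit 22) (nat_lit 4) (nat_lit 375) (nat_lit 298) (nat_lit 227)) (XT.lf (nat_lit 0) (nat_lit 13442360818) (nat_lit 152) (nat_lit 6911575725) (nat_lit 76) (nat_lit 27735376863) (nat_lit 21) (nat_lit 5) (nat_lit 23) (nat_lit 5) (nat_lit 22) (nat_lit 4) (nat_lit 376) (nat_lit 298) (nat_lit 226))) (XT.nd (nat_lit 78) (nat_lit 76) (nat_lit 0) (XT.lf (nat_lit 0) (nat_lit 17881781959) (nat_lit 76) (nat_lit 7798705682) (nat_lit 152) (nat_lit 24413466652) (nat_lit 20) (nat_lit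 5) (nat_lit 21) (nat_lit 5) (nat_lit 22) (nat_lit 4) (nat_lit 377) (nat_lit 298) (nat_lit 225)) (XT.nd (nat_lit 78) (nat_lit 76) (nat_lit 0) (XT.lf (nat_lit 0) (nat_lit 38618827059) (nat_lit 152) (nat_lit 8256843277) (nat_lit 0) (nat_lit 5320511650) (nat_lit 20) (nat_lit 5) (nat_lit 22) (nat_lit 4) (nat_lit 20) (nat_lit 4) (nat_lit 378) (nat_lit 298) (nat_lit 224)) (XT.lf (nat_lit 0) (nat_lit 17087230324) (nat_lit 76) (nat_lit 35326197578) (nat_lit 76) (nat_lit 1983816594) (nat_lit 19) (nat_lit 4) (nat_lit 20) (nat_lit 5) (nat_lit 20) (nat_lit 4) (nat_lit 379) (nat_lit 298) (nat_lit 223))))) (XT.nd (nat_lit 234) (nat_lit 152) (nat_lit 0) (XT.nd (nat_lit 78) (nat_lit 76) (nat_lit 0) (XT.lf (nat_lit 0) (nat_lit 10043462045) (nat_lit 152) (nat_lit 12996120245) (nat_lit 76) (nat_lit 33664256063) (nat_lit 18) (nat_lit 5) (nat_lit 20) (nat_lit 5) (nat_lit 19) (nat_lit 4) (nat_lit 380) (nat_lit 298)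 (nat_lit 222)) (XT.nd (nat_lit 78) (nat_lit 0) (nat_lit 0) (XT.lf (nat_lit 0) (nat_lit 12701707900) (nat_lit 76) (nat_lit 10020471840) (nat_lit 152) (nat_lit 36400263119) (nat_lit 17) (nat_lit 5) (nat_lit 18) (nat_lit 5) (nat_lit 19) (nat_lit 4) (nat_lit 381) (nat_lit 298) (nat_lit 221)) (XT.lf (nat_lit 0) (nat_lit 36174322892) (nat_lit 152) (nat_lit 21796900251) (nat_lit 0) (nat_lit 3686572918) (nat_lit 17) (nat_lit 5) (nat_lit 19) (nat_lit 4) (nat_lit 17) (nat_lit 4) (nat_lit 382) (nat_lit 298) (nat_lit 220)))) (XT.nd (nat_lit 78) (nat_lit 76) (nat_lit 0) (XT.lf (nat_lit 0) (nat_lit 3978879323) (nat_lit 76) (nat_lit 46430341549) (nat_lit 76) (nat_lit 13907394626) (nat_lit 16) (nat_lit 4) (nat_lit 17) (nat_lit 5) (nat_lit 17) (nat_lit 4) (nat_lit 383) (nat_lit 298) (nat_lit 219)) (XT.nd (nat_lit 78) (nat_lit 76) (nat_lit 0) (XT.lf (nat_lit 0) (nat_lit 31444786964) (nat_lit 76) (nat_lit 34107089624)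 (nat_lit 76) (nat_lit 1550621797) (nat_lit 16) (nat_lit 4) (nat_lit 17) (nat_lit 5) (nat_lit 17) (nat_lit 4) (nat_lit 384) (nat_lit 298) (nat_lit 218)) (XT.lf (nat_lit 0) (nat_lit 11173780116) (nat_lit 152) (nat_lit 9905618860) (nat_lit 76) (nat_lit 48945803248) (nat_lit 15) (nat_lit 5) (nat_lit 17) (nat_lit 5) (nat_lit 16) (nat_lit 4) (nat_lit 385) (nat_lit 298) (nat_lit 217)))))) (XT.nd (nat_lit 468) (nat_lit 152) (nat_lit 0) (XT.nd (nat_lit 234) (nat_lit 152) (nat_lit 0) (XT.nd (nat_lit 78) (nat_lit 0) (nat_lit 0) (XT.lf (nat_lit 0) (nat_lit 17408492731) (nat_lit 76) (nat_lit 7235492330) (nat_lit 152) (nat_lit 48445348570) (nat_lit 14) (nat_lit 5) (nat_lit 15) (nat_lit 5) (nat_lit 16) (nat_lit 4) (nat_lit 386) (nat_lit 298) (nat_lit 216)) (XT.nd (nat_lit 78) (nat_lit 0) (nat_lit 0) (XT.lf (nat_lit 0) (nat_lit 38935423276) (nat_lit 152) (nat_lit 30128243885) (nat_lit 0) (nat_lit 7238575158)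 (nat_lit 14) (nat_lit 5) (nat_lit 16) (nat_lit 4) (nat_lit 14) (nat_lit 4) (nat_lit 387) (nat_lit 298) (nat_lit 215)) (XT.lf (nat_lit 0) (nat_lit 53990240017) (nat_lit 152) (nat_lit 3417477110) (nat_lit 0) (nat_lit 22266617403) (nat_lit 14) (nat_lit 5) (nat_lit 16) (nat_lit 4) (nat_lit 14) (nat_lit 4) (nat_lit 388) (nat_lit 298) (nat_lit 214)))) (XT.nd (nat_lit 78) (nat_lit 76) (nat_lit 0) (XT.lf (nat_lit 0) (nat_lit 25073890378) (nat_lit 76) (nat_lit 44941863301) (nat_lit 76) (nat_lit 13192741167) (nat_lit 13) (nat_lit 4) (nat_lit 14) (nat_lit 5) (nat_lit 14) (nat_lit 4) (nat_lit 389) (nat_lit 298) (nat_lit 213)) (XT.nd (nat_lit 78) (nat_lit 76) (nat_lit 0) (XT.lf (nat_lit 0) (nat_lit 55018289467) (nat_lit 76) (nat_lit 31837049647) (nat_lit 76) (nat_lit 63642256) (nat_lit 13) (nat_lit 4) (nat_lit 14) (nat_lit 5) (nat_lit 14) (nat_lit 4) (nat_lit 390) (nat_lit 298) (nat_lit 212)) (XT.lf (nat_lit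 0) (nat_lit 13432616749) (nat_lit 152) (nat_lit 4528324205) (nat_lit 76) (nat_lit 72850742010) (nat_lit 12) (nat_lit 5) (nat_lit 14) (nat_lit 5) (nat_lit 13) (nat_lit 4) (nat_lit 391) (nat_lit 298) (nat_lit 211))))) (XT.nd (nat_lit 39858) (nat_lit 0) (nat_lit 26448) (XT.nd (nat_lit 78) (nat_lit 76) (nat_lit 0) (XT.lf (nat_lit 0) (nat_lit 24653734017) (nat_lit 76) (nat_lit 3165131828) (nat_lit 152) (nat_lit 67073641915) (nat_lit 11) (nat_lit 5) (nat_lit 12) (nat_lit 5) (nat_lit 13) (nat_lit 4) (nat_lit 392) (nat_lit 298) (nat_lit 210)) (XT.nd (nat_lit 156) (nat_lit 76) (nat_lit 0) (XT.lf (nat_lit 0) (nat_lit 43070343434) (nat_lit 152) (nat_lit 43944488049) (nat_lit 0) (nat_lit 12158166571) (nat_lit 11) (nat_lit 5) (nat_lit 13) (nat_lit 4) (nat_lit 11) (nat_lit 4) (nat_lit 393) (nat_lit 298) (nat_lit 209)) (XT.lf (nat_lit 0) (nat_lit 12726254887) (nat_lit 76) (nat_lit 63303319563) (nat_lit 76)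 (nat_lit 32353271172) (nat_lit 10) (nat_lit 4) (nat_lit 11) (nat_lit 5) (nat_lit 11) (nat_lit 4) (nat_lit 395) (nat_lit 298) (nat_lit 207)))) (XT.nd (nat_lit 78) (nat_lit 532) (nat_lit 0) (XT.lf (nat_lit 0) (nat_lit 2073154755) (nat_lit 76) (nat_lit 576869089) (nat_lit 76) (nat_lit 576869089) (nat_lit 365) (nat_lit 4) (nat_lit 366) (nat_lit 5) (nat_lit 366) (nat_lit 4) (nat_lit 302) (nat_lit 299) (nat_lit 299)) (XT.nd (nat_lit 78) (nat_lit 304) (nat_lit 0) (XT.lf (nat_lit 0) (nat_lit 3241062161) (nat_lit 152) (nat_lit 658374536) (nat_lit 228) (nat_lit 2570079320) (nat_lit 362) (nat_lit 5) (nat_lit 364) (nat_lit 5) (nat_lit 365) (nat_lit 4) (nat_lit 303) (nat_lit 299) (nat_lit 298)) (XT.lf (nat_lit 0) (nat_lit 2375656702) (nat_lit 304) (nat_lit 4038561960) (nat_lit 76) (nat_lit 79076171) (nat_lit 358) (nat_lit 5) (nat_lit 362) (nat_lit 5) (nat_lit 359) (nat_lit 4) (nat_lit 304) (nat_lit 299)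 (nat_lit 297))))))) (XT.nd (nat_lit 936) (nat_lit 7144) (nat_lit 0) (XT.nd (nat_lit 468) (nat_lit 6688) (nat_lit 0) (XT.nd (nat_lit 234) (nat_lit 1292) (nat_lit 0) (XT.nd (nat_lit 78) (nat_lit 912) (nat_lit 0) (XT.lf (nat_lit 0) (nat_lit 732228835) (nat_lit 380) (nat_lit 4748090137) (nat_lit 76) (nat_lit 1044613561) (nat_lit 353) (nat_lit 5) (nat_lit 358) (nat_lit 5) (nat_lit 354) (nat_lit 5) (nat_lit 305) (nat_lit 299) (nat_lit 296)) (XT.nd (nat_lit 78) (nat_lit 532) (nat_lit 0) (XT.lf (nat_lit 0) (nat_lit 1201349594) (nat_lit 380) (nat_lit 4300376510) (nat_lit 456) (nat_lit 1062649737) (nat_lit 348) (nat_lit 5) (nat_lit 353) (nat_lit 5) (nat_lit 354) (nat_lit 5) (nat_lit 306) (nat_lit 299) (nat_lit 295)) (XT.lf (nat_lit 0) (nat_lit 728271500) (nat_lit 456) (nat_lit 2872849460) (nat_lit 532) (nat_lit 3010634629) (nat_lit 341) (nat_lit 5) (nat_lit 347) (nat_lit 5) (nat_lit 348) (nat_lit 5) (nat_lit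 307) (nat_lit 299) (nat_lit 294)))) (XT.nd (nat_lit 78) (nat_lit 684) (nat_lit 0) (XT.lf (nat_lit 0) (nat_lit 363499886) (nat_lit 532) (nat_lit 1201110853) (nat_lit 608) (nat_lit 5102771086) (nat_lit 333) (nat_lit 5) (nat_lit 340) (nat_lit 5) (nat_lit 341) (nat_lit 5) (nat_lit 308) (nat_lit 299) (nat_lit 293)) (XT.nd (nat_lit 78) (nat_lit 76) (nat_lit 0) (XT.lf (nat_lit 0) (nat_lit 92560873) (nat_lit 608) (nat_lit 6019530939) (nat_lit 684) (nat_lit 618888205) (nat_lit 325) (nat_lit 5) (nat_lit 333) (nat_lit 5) (nat_lit 334) (nat_lit 5) (nat_lit 309) (nat_lit 299) (nat_lit 292)) (XT.lf (nat_lit 0) (nat_lit 3832767430) (nat_lit 684) (nat_lit 101781880) (nat_lit 76) (nat_lit 2867566031) (nat_lit 324) (nat_lit 5) (nat_lit 333) (nat_lit 5) (nat_lit 325) (nat_lit 5) (nat_lit 310) (nat_lit 299) (nat_lit 291))))) (XT.nd (nat_lit 234) (nat_lit 4256) (nat_lit 0) (XT.nd (nat_lit 78) (nat_lit 1672) (nat_lit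 0) (XT.lf (nat_lit 0) (nat_lit 1406393915) (nat_lit 760) (nat_lit 194961793) (nat_lit 76) (nat_lit 5280409887) (nat_lit 314) (nat_lit 5) (nat_lit 324) (nat_lit 5) (nat_lit 315) (nat_lit 5) (nat_lit 311) (nat_lit 299) (nat_lit 290)) (XT.nd (nat_lit 78) (nat_lit 912) (nat_lit 0) (XT.lf (nat_lit 0) (nat_lit 5780912184) (nat_lit 836) (nat_lit 210448020) (nat_lit 76) (nat_lit 978123461) (nat_lit 304) (nat_lit 5) (nat_lit 315) (nat_lit 5) (nat_lit 305) (nat_lit 5) (nat_lit 312) (nat_lit 299) (nat_lit 289)) (XT.lf (nat_lit 0) (nat_lit 3106220434) (nat_lit 912) (nat_lit 160887786) (nat_lit 76) (nat_lit 3797968902) (nat_lit 292) (nat_lit 5) (nat_lit 304) (nat_lit 5) (nat_lit 293) (nat_lit 5) (nat_lit 313) (nat_lit 299) (nat_lit 288)))) (XT.nd (nat_lit 78) (nat_lit 3268) (nat_lit 0) (XT.lf (nat_lit 0) (nat_lit 268977092) (nat_lit 988) (nat_lit 17208962) (nat_lit 76) (nat_lit 6883430679) (nat_lit 279)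 (nat_lit 5) (nat_lit 292) (nat_lit 5) (nat_lit 280) (nat_lit 5) (nat_lit 314) (nat_lit 299) (nat_lit 287)) (XT.nd (nat_lit 78) (nat_lit 1216) (nat_lit 0) (XT.lf (nat_lit 0) (nat_lit 168262643) (nat_lit 1064) (nat_lit 4350771116) (nat_lit 1140) (nat_lit 2762562884) (nat_lit 252) (nat_lit 5) (nat_lit 266) (nat_lit 5) (nat_lit 267) (nat_lit 5) (nat_lit 315) (nat_lit 299) (nat_lit 286)) (XT.lf (nat_lit 0) (nat_lit 440173975) (nat_lit 1140) (nat_lit 986030360) (nat_lit 1216) (nat_lit 5976432491) (nat_lit 236) (nat_lit 5) (nat_lit 251) (nat_lit 5) (nat_lit 252) (nat_lit 5) (nat_lit 316) (nat_lit 299) (nat_lit 285)))))) (XT.nd (nat_lit 468) (nat_lit 2888) (nat_lit 0) (XT.nd (nat_lit 234) (nat_lit 1824) (nat_lit 0) (XT.nd (nat_lit 78) (nat_lit 1216) (nat_lit 0) (XT.lf (nat_lit 0) (nat_lit 759246135) (nat_lit 1216) (nat_lit 4915100735) (nat_lit 1292) (nat_lit 1857499520) (nat_lit 220) (nat_lit 5) (nat_lit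 236) (nat_lit 5) (nat_lit 237) (nat_lit 5) (nat_lit 317) (nat_lit 299) (nat_lit 284)) (XT.nd (nat_lit 78) (nat_lit 532) (nat_lit 0) (XT.lf (nat_lit 0) (nat_lit 1141714312) (nat_lit 608) (nat_lit 1177264293) (nat_lit 684) (nat_lit 5350972666) (nat_lit 211) (nat_lit 5) (nat_lit 219) (nat_lit 5) (nat_lit 220) (nat_lit 5) (nat_lit 318) (nat_lit 299) (nat_lit 283)) (XT.lf (nat_lit 0) (nat_lit 1571710757) (nat_lit 532) (nat_lit 5020270631) (nat_lit 608) (nat_lit 1224776925) (nat_lit 204) (nat_lit 5) (nat_lit 211) (nat_lit 5) (nat_lit 212) (nat_lit 5) (nat_lit 319) (nat_lit 299) (nat_lit 282)))) (XT.nd (nat_lit 78) (nat_lit 1140) (nat_lit 0) (XT.lf (nat_lit 0) (nat_lit 2050080510) (nat_lit 608) (nat_lit 915456286) (nat_lit 684) (nat_lit 5007041367) (nat_lit 195) (nat_lit 5) (nat_lit 203) (nat_lit 5) (nat_lit 204) (nat_lit 5) (nat_lit 320) (nat_lit 299) (nat_lit 281)) (XT.nd (nat_lit 78) (nat_lit 608)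 (nat_lit 0) (XT.lf (nat_lit 0) (nat_lit 2569293127) (nat_lit 532) (nat_lit 4718938899) (nat_lit 608) (nat_lit 849263672) (nat_lit 188) (nat_lit 5) (nat_lit 195) (nat_lit 5) (nat_lit 196) (nat_lit 5) (nat_lit 321) (nat_lit 299) (nat_lit 280)) (XT.lf (nat_lit 0) (nat_lit 3128594673) (nat_lit 532) (nat_lit 250525679) (nat_lit 608) (nat_lit 4932692254) (nat_lit 180) (nat_lit 5) (nat_lit 187) (nat_lit 5) (nat_lit 188) (nat_lit 5) (nat_lit 322) (nat_lit 299) (nat_lit 279))))) (XT.nd (nat_lit 234) (nat_lit 1444) (nat_lit 0) (XT.nd (nat_lit 78) (nat_lit 988) (nat_lit 0) (XT.lf (nat_lit 0) (nat_lit 3715345867) (nat_lit 456) (nat_lit 4059027428) (nat_lit 532) (nat_lit 721131873) (nat_lit 174) (nat_lit 5) (nat_lit 180) (nat_lit 5) (nat_lit 181) (nat_lit 5) (nat_lit 323) (nat_lit 299) (nat_lit 278)) (XT.nd (nat_lit 78) (nat_lit 456) (nat_lit 0) (XT.lf (nat_lit 0) (nat_lit 3575259690) (nat_lit 532) (nat_lit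 4356873077) (nat_lit 76) (nat_lit 756882863) (nat_lit 167) (nat_lit 5) (nat_lit 174) (nat_lit 5) (nat_lit 168) (nat_lit 5) (nat_lit 324) (nat_lit 299) (nat_lit 277)) (XT.lf (nat_lit 0) (nat_lit 4971804295) (nat_lit 456) (nat_lit 3084831976) (nat_lit 532) (nat_lit 835889004) (nat_lit 161) (nat_lit 5) (nat_lit 167) (nat_lit 5) (nat_lit 168) (nat_lit 5) (nat_lit 325) (nat_lit 299) (nat_lit 276)))) (XT.nd (nat_lit 78) (nat_lit 912) (nat_lit 0) (XT.lf (nat_lit 0) (nat_lit 3554873476) (nat_lit 532) (nat_lit 3482807558) (nat_lit 76) (nat_lit 2068448295) (nat_lit 154) (nat_lit 5) (nat_lit 161) (nat_lit 5) (nat_lit 155) (nat_lit 5) (nat_lit 326) (nat_lit 299) (nat_lit 275)) (XT.nd (nat_lit 78) (nat_lit 532) (nat_lit 0) (XT.lf (nat_lit 0) (nat_lit 6297963368) (nat_lit 380) (nat_lit 1838110311) (nat_lit 456) (nat_lit 1194525482) (nat_lit 149) (nat_lit 5) (nat_lit 154) (nat_lit 5) (nat_lit 155) (nat_lit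 5) (nat_lit 327) (nat_lit 299) (nat_lit 274)) (XT.lf (nat_lit 0) (nat_lit 3312665809) (nat_lit 532) (nat_lit 2603123503) (nat_lit 76) (nat_lit 3649644487) (nat_lit 142) (nat_lit 5) (nat_lit 149) (nat_lit 5) (nat_lit 143) (nat_lit 5) (nat_lit 328) (nat_lit 299) (nat_lit 273))))))))
noncomputable def xc47 : XT := (XT.nd (nat_lit 1872) (nat_lit 2584) (nat_lit 0) (XT.nd (nat_lit 936) (nat_lit 2508) (nat_lit 0) (XT.nd (nat_lit 468) (nat_lit 1824) (nat_lit 0) (XT.nd (nat_lit 234) (nat_lit 1140) (nat_lit 0) (XT.nd (nat_lit 78) (nat_lit 760) (nat_lit 0) (XT.lf (nat_lit 0) (nat_lit 7649135053) (nat_lit 380) (nat_lit 359171351) (nat_lit 456) (nat_lit 1803785107) (nat_lit 137) (nat_lit 5) (nat_lit 142) (nat_lit 5) (nat_lit 143) (nat_lit 5) (nat_lit 329) (nat_lit 299) (nat_lit 272)) (XT.nd (nat_lit 78) (nat_lit 304) (nat_lit 0) (XT.lf (nat_lit 0) (nat_lit 2840039497) (nat_lit 456) (nat_lit 1767348765) (nat_lit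 76) (nat_lit 5462081067) (nat_lit 131) (nat_lit 5) (nat_lit 137) (nat_lit 5) (nat_lit 132) (nat_lit 5) (nat_lit 330) (nat_lit 299) (nat_lit 271)) (XT.lf (nat_lit 0) (nat_lit 7675753754) (nat_lit 380) (nat_lit 1377169150) (nat_lit 76) (nat_lit 1286408880) (nat_lit 127) (nat_lit 5) (nat_lit 132) (nat_lit 5) (nat_lit 128) (nat_lit 5) (nat_lit 331) (nat_lit 299) (nat_lit 270)))) (XT.nd (nat_lit 78) (nat_lit 684) (nat_lit 0) (XT.lf (nat_lit 0) (nat_lit 2122224831) (nat_lit 456) (nat_lit 1031630735) (nat_lit 76) (nat_lit 7467277363) (nat_lit 121) (nat_lit 5) (nat_lit 127) (nat_lit 5) (nat_lit 122) (nat_lit 5) (nat_lit 332) (nat_lit 299) (nat_lit 269)) (XT.nd (nat_lit 78) (nat_lit 380) (nat_lit 0) (XT.lf (nat_lit 0) (nat_lit 7114184026) (nat_lit 380) (nat_lit 727978802) (nat_lit 76) (nat_lit 3073465820) (nat_lit 117) (nat_lit 5) (nat_lit 122) (nat_lit 5) (nat_lit 118) (nat_lit 5) (nat_lit 333) (nat_lit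 299) (nat_lit 268)) (XT.lf (nat_lit 0) (nat_lit 1137667064) (nat_lit 380) (nat_lit 460553719) (nat_lit 76) (nat_lit 9625487141) (nat_lit 112) (nat_lit 5) (nat_lit 117) (nat_lit 5) (nat_lit 113) (nat_lit 5) (nat_lit 334) (nat_lit 299) (nat_lit 267))))) (XT.nd (nat_lit 234) (nat_lit 912) (nat_lit 0) (XT.nd (nat_lit 78) (nat_lit 608) (nat_lit 0) (XT.lf (nat_lit 0) (nat_lit 6296190188) (nat_lit 380) (nat_lit 281414657) (nat_lit 76) (nat_lit 4966972699) (nat_lit 108) (nat_lit 5) (nat_lit 113) (nat_lit 5) (nat_lit 109) (nat_lit 5) (nat_lit 335) (nat_lit 299) (nat_lit 266)) (XT.nd (nat_lit 78) (nat_lit 304) (nat_lit 0) (XT.lf (nat_lit 0) (nat_lit 11735406915) (nat_lit 380) (nat_lit 130761279) (nat_lit 76) (nat_lit 14684944) (nat_lit 104) (nat_lit 5) (nat_lit 109) (nat_lit 5) (nat_lit 105) (nat_lit 5) (nat_lit 336) (nat_lit 299) (nat_lit 265)) (XT.lf (nat_lit 0) (nat_lit 5189916310) (nat_lit 304) (nat_lit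 118650850) (nat_lit 76) (nat_lit 6921544468) (nat_lit 100) (nat_lit 5) (nat_lit 104) (nat_lit 5) (nat_lit 101) (nat_lit 5) (nat_lit 337) (nat_lit 299) (nat_lit 264)))) (XT.nd (nat_lit 78) (nat_lit 608) (nat_lit 0) (XT.lf (nat_lit 0) (nat_lit 10820557311) (nat_lit 380) (nat_lit 158703633) (nat_lit 76) (nat_lit 1616623428) (nat_lit 96) (nat_lit 5) (nat_lit 101) (nat_lit 5) (nat_lit 97) (nat_lit 5) (nat_lit 338) (nat_lit 299) (nat_lit 263)) (XT.nd (nat_lit 78) (nat_lit 304) (nat_lit 0) (XT.lf (nat_lit 0) (nat_lit 3754536653) (nat_lit 304) (nat_lit 335124804) (nat_lit 76) (nat_lit 8886989662) (nat_lit 92) (nat_lit 5) (nat_lit 96) (nat_lit 5) (nat_lit 93) (nat_lit 5) (nat_lit 339) (nat_lit 299) (nat_lit 262)) (XT.lf (nat_lit 0) (nat_lit 9580146125) (nat_lit 380) (nat_lit 621368303) (nat_lit 76) (nat_lit 3172770675) (nat_lit 88) (nat_lit 5) (nat_lit 93) (nat_lit 5) (nat_lit 89) (nat_lit 5) (nat_lit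 340) (nat_lit 299) (nat_lit 261)))))) (XT.nd (nat_lit 468) (nat_lit 988) (nat_lit 0) (XT.nd (nat_lit 234) (nat_lit 760) (nat_lit 0) (XT.nd (nat_lit 78) (nat_lit 456) (nat_lit 0) (XT.lf (nat_lit 0) (nat_lit 1938957440) (nat_lit 304) (nat_lit 1043518210) (nat_lit 76) (nat_lit 10806681337) (nat_lit 84) (nat_lit 5) (nat_lit 88) (nat_lit 5) (nat_lit 85) (nat_lit 5) (nat_lit 341) (nat_lit 299) (nat_lit 260)) (XT.nd (nat_lit 78) (nat_lit 228) (nat_lit 0) (XT.lf (nat_lit 0) (nat_lit 7959113125) (nat_lit 304) (nat_lit 1641299081) (nat_lit 76) (nat_lit 4620898178) (nat_lit 81) (nat_lit 5) (nat_lit 85) (nat_lit 5) (nat_lit 82) (nat_lit 5) (nat_lit 342) (nat_lit 299) (nat_lit 259)) (XT.lf (nat_lit 0) (nat_lit 12292740559) (nat_lit 228) (nat_lit 2054249719) (nat_lit 304) (nat_lit 326109363) (nat_lit 78) (nat_lit 5) (nat_lit 81) (nat_lit 5) (nat_lit 82) (nat_lit 5) (nat_lit 343) (nat_lit 299) (nat_lit 258))))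 (XT.nd (nat_lit 78) (nat_lit 456) (nat_lit 0) (XT.lf (nat_lit 0) (nat_lit 5889817854) (nat_lit 304) (nat_lit 3363710517) (nat_lit 76) (nat_lit 5889325048) (nat_lit 74) (nat_lit 5) (nat_lit 78) (nat_lit 5) (nat_lit 75) (nat_lit 5) (nat_lit 344) (nat_lit 299) (nat_lit 257)) (XT.nd (nat_lit 78) (nat_lit 304) (nat_lit 0) (XT.lf (nat_lit 0) (nat_lit 11109326214) (nat_lit 152) (nat_lit 1364908217) (nat_lit 228) (nat_lit 3159856534) (nat_lit 72) (nat_lit 5) (nat_lit 74) (nat_lit 5) (nat_lit 75) (nat_lit 5) (nat_lit 345) (nat_lit 299) (nat_lit 256)) (XT.lf (nat_lit 0) (nat_lit 3290008726) (nat_lit 304) (nat_lit 5960854435) (nat_lit 76) (nat_lit 6894661207) (nat_lit 68) (nat_lit 5) (nat_lit 72) (nat_lit 5) (nat_lit 69) (nat_lit 5) (nat_lit 346) (nat_lit 299) (nat_lit 255))))) (XT.nd (nat_lit 234) (nat_lit 380) (nat_lit 0) (XT.nd (nat_lit 78) (nat_lit 456) (nat_lit 0) (XT.lf (nat_lit 0) (nat_lit 9033421608)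 (nat_lit 152) (nat_lit 1028173688) (nat_lit 228) (nat_lit 6618081168) (nat_lit 66) (nat_lit 5) (nat_lit 68) (nat_lit 5) (nat_lit 69) (nat_lit 5) (nat_lit 347) (nat_lit 299) (nat_lit 254)) (XT.nd (nat_lit 78) (nat_lit 152) (nat_lit 0) (XT.lf (nat_lit 0) (nat_lit 60411388) (nat_lit 304) (nat_lit 9637122941) (nat_lit 76) (nat_lit 7539207566) (nat_lit 62) (nat_lit 5) (nat_lit 66) (nat_lit 5) (nat_lit 63) (nat_lit 5) (nat_lit 348) (nat_lit 299) (nat_lit 253)) (XT.lf (nat_lit 0) (nat_lit 5849151484) (nat_lit 152) (nat_lit 1154441130) (nat_lit 228) (nat_lit 10814093347) (nat_lit 60) (nat_lit 5) (nat_lit 62) (nat_lit 5) (nat_lit 63) (nat_lit 5) (nat_lit 349) (nat_lit 299) (nat_lit 252)))) (XT.nd (nat_lit 78) (nat_lit 228) (nat_lit 0) (XT.lf (nat_lit 0) (nat_lit 3750255950) (nat_lit 152) (nat_lit 10677326778) (nat_lit 228) (nat_lit 3996104259) (nat_lit 58) (nat_lit 5) (nat_lit 60) (nat_lit 5) (nat_lit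 61) (nat_lit 5) (nat_lit 350) (nat_lit 299) (nat_lit 251)) (XT.nd (nat_lit 78) (nat_lit 0) (nat_lit 0) (XT.lf (nat_lit 0) (nat_lit 1299943035) (nat_lit 152) (nat_lit 1873672708) (nat_lit 228) (nat_lit 15883301581) (nat_lit 55) (nat_lit 5) (nat_lit 57) (nat_lit 5) (nat_lit 58) (nat_lit 5) (nat_lit 351) (nat_lit 299) (nat_lit 250)) (XT.lf (nat_lit 0) (nat_lit 10769194631) (nat_lit 228) (nat_lit 1580243368) (nat_lit 76) (nat_lit 7366700620) (nat_lit 55) (nat_lit 5) (nat_lit 58) (nat_lit 5) (nat_lit 56) (nat_lit 5) (nat_lit 352) (nat_lit 299) (nat_lit 249))))))) (XT.nd (nat_lit 936) (nat_lit 988) (nat_lit 0) (XT.nd (nat_lit 468) (nat_lit 684) (nat_lit 0) (XT.nd (nat_lit 234) (nat_lit 380) (nat_lit 0) (XT.nd (nat_lit 78) (nat_lit 380) (nat_lit 0) (XT.lf (nat_lit 0) (nat_lit 15567420218) (nat_lit 152) (nat_lit 3275075903) (nat_lit 228) (nat_lit 1562902691) (nat_lit 53) (nat_lit 5) (nat_lit 55) (nat_lit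 5) (nat_lit 56) (nat_lit 5) (nat_lit 353) (nat_lit 299) (nat_lit 248)) (XT.nd (nat_lit 78) (nat_lit 152) (nat_lit 0) (XT.lf (nat_lit 0) (nat_lit 6198997628) (nat_lit 228) (nat_lit 8645597694) (nat_lit 76) (nat_lit 6278872880) (nat_lit 50) (nat_lit 5) (nat_lit 53) (nat_lit 5) (nat_lit 51) (nat_lit 5) (nat_lit 354) (nat_lit 299) (nat_lit 247)) (XT.lf (nat_lit 0) (nat_lit 8890098088) (nat_lit 152) (nat_lit 5528274032) (nat_lit 228) (nat_lit 7455567858) (nat_lit 48) (nat_lit 5) (nat_lit 50) (nat_lit 5) (nat_lit 51) (nat_lit 5) (nat_lit 355) (nat_lit 299) (nat_lit 246)))) (XT.nd (nat_lit 78) (nat_lit 152) (nat_lit 0) (XT.lf (nat_lit 0) (nat_lit 491038960) (nat_lit 228) (nat_lit 17905191006) (nat_lit 76) (nat_lit 4262252793) (nat_lit 45) (nat_lit 5) (nat_lit 48) (nat_lit 5) (nat_lit 46) (nat_lit 5) (nat_lit 356) (nat_lit 299) (nat_lit 245)) (XT.nd (nat_lit 78) (nat_lit 152) (nat_lit 0) (XT.lf (nat_lit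 0) (nat_lit 8808607407) (nat_lit 228) (nat_lit 76764082) (nat_lit 76) (nat_lit 14590844470) (nat_lit 45) (nat_lit 5) (nat_lit 48) (nat_lit 5) (nat_lit 46) (nat_lit 5) (nat_lit 357) (nat_lit 299) (nat_lit 244)) (XT.lf (nat_lit 0) (nat_lit 17674357737) (nat_lit 228) (nat_lit 5440505376) (nat_lit 76) (nat_lit 1216015527) (nat_lit 43) (nat_lit 5) (nat_lit 46) (nat_lit 5) (nat_lit 44) (nat_lit 4) (nat_lit 358) (nat_lit 299) (nat_lit 243))))) (XT.nd (nat_lit 234) (nat_lit 304) (nat_lit 0) (XT.nd (nat_lit 78) (nat_lit 228) (nat_lit 0) (XT.lf (nat_lit 0) (nat_lit 1884268176) (nat_lit 152) (nat_lit 11593547819) (nat_lit 76) (nat_lit 11745061474) (nat_lit 41) (nat_lit 5) (nat_lit 43) (nat_lit 5) (nat_lit 42) (nat_lit 5) (nat_lit 359) (nat_lit 299) (nat_lit 242)) (XT.nd (nat_lit 78) (nat_lit 76) (nat_lit 0) (XT.lf (nat_lit 0) (nat_lit 7583188036) (nat_lit 152) (nat_lit 3203365748) (nat_lit 228) (nat_lit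 15368792048) (nat_lit 39) (nat_lit 5) (nat_lit 41) (nat_lit 5) (nat_lit 42) (nat_lit 5) (nat_lit 360) (nat_lit 299) (nat_lit 241)) (XT.lf (nat_lit 0) (nat_lit 665218793) (nat_lit 76) (nat_lit 19611321635) (nat_lit 152) (nat_lit 6853629583) (nat_lit 38) (nat_lit 5) (nat_lit 39) (nat_lit 5) (nat_lit 40) (nat_lit 4) (nat_lit 361) (nat_lit 299) (nat_lit 240)))) (XT.nd (nat_lit 78) (nat_lit 228) (nat_lit 0) (XT.lf (nat_lit 0) (nat_lit 2215922746) (nat_lit 152) (nat_lit 7051714824) (nat_lit 76) (nat_lit 18880424277) (nat_lit 37) (nat_lit 5) (nat_lit 39) (nat_lit 5) (nat_lit 38) (nat_lit 5) (nat_lit 362) (nat_lit 299) (nat_lit 239)) (XT.nd (nat_lit 78) (nat_lit 76) (nat_lit 0) (XT.lf (nat_lit 0) (nat_lit 11691083266) (nat_lit 228) (nat_lit 15801469756) (nat_lit 76) (nat_lit 1719452105) (nat_lit 35) (nat_lit 5) (nat_lit 38) (nat_lit 5) (nat_lit 36) (nat_lit 4) (nat_lit 363) (nat_lit 299) (nat_lit 238))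 (XT.lf (nat_lit 0) (nat_lit 4616614936) (nat_lit 76) (nat_lit 17182462258) (nat_lit 152) (nat_lit 8525304503) (nat_lit 34) (nat_lit 5) (nat_lit 35) (nat_lit 5) (nat_lit 36) (nat_lit 4) (nat_lit 364) (nat_lit 299) (nat_lit 237)))))) (XT.nd (nat_lit 468) (nat_lit 380) (nat_lit 0) (XT.nd (nat_lit 234) (nat_lit 304) (nat_lit 0) (XT.nd (nat_lit 78) (nat_lit 228) (nat_lit 0) (XT.lf (nat_lit 0) (nat_lit 1015342632) (nat_lit 152) (nat_lit 5205933664) (nat_lit 76) (nat_lit 25267447122) (nat_lit 33) (nat_lit 5) (nat_lit 35) (nat_lit 5) (nat_lit 34) (nat_lit 5) (nat_lit 365) (nat_lit 299) (nat_lit 236)) (XT.nd (nat_lit 78) (nat_lit 76) (nat_lit 0) (XT.lf (nat_lit 0) (nat_lit 11020856861) (nat_lit 228) (nat_lit 16291328613) (nat_lit 76) (nat_lit 5391647336) (nat_lit 31) (nat_lit 5) (nat_lit 34) (nat_lit 5) (nat_lit 32) (nat_lit 4) (nat_lit 366) (nat_lit 299) (nat_lit 235)) (XT.lf (nat_lit 0) (nat_lit 5192764911)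 (nat_lit 76) (nat_lit 16453175617) (nat_lit 152) (nat_lit 12330185366) (nat_lit 30) (nat_lit 5) (nat_lit 31) (nat_lit 5) (nat_lit 32) (nat_lit 4) (nat_lit 367) (nat_lit 299) (nat_lit 234)))) (XT.nd (nat_lit 78) (nat_lit 304) (nat_lit 0) (XT.lf (nat_lit 0) (nat_lit 28006216959) (nat_lit 76) (nat_lit 4917673825) (nat_lit 152) (nat_lit 2384501175) (nat_lit 30) (nat_lit 5) (nat_lit 31) (nat_lit 5) (nat_lit 32) (nat_lit 4) (nat_lit 368) (nat_lit 299) (nat_lit 233)) (XT.nd (nat_lit 78) (nat_lit 76) (nat_lit 0) (XT.lf (nat_lit 0) (nat_lit 8075882334) (nat_lit 228) (nat_lit 21378989254) (nat_lit 76) (nat_lit 7244842101) (nat_lit 27) (nat_lit 5) (nat_lit 30) (nat_lit 5) (nat_lit 28) (nat_lit 4) (nat_lit 369) (nat_lit 299) (nat_lit 232)) (XT.lf (nat_lit 0) (nat_lit 932054431) (nat_lit 76) (nat_lit 18169535092) (nat_lit 152) (nat_lit 19055561027) (nat_lit 26) (nat_lit 5) (nat_lit 27) (nat_lit 5) (nat_lit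 28) (nat_lit 4) (nat_lit 370) (nat_lit 299) (nat_lit 231))))) (XT.nd (nat_lit 234) (nat_lit 228) (nat_lit 0) (XT.nd (nat_lit 78) (nat_lit 152) (nat_lit 0) (XT.lf (nat_lit 0) (nat_lit 24727018794) (nat_lit 76) (nat_lit 6129604502) (nat_lit 152) (nat_lit 8825500338) (nat_lit 26) (nat_lit 5) (nat_lit 27) (nat_lit 5) (nat_lit 28) (nat_lit 4) (nat_lit 371) (nat_lit 299) (nat_lit 230)) (XT.nd (nat_lit 78) (nat_lit 0) (nat_lit 0) (XT.lf (nat_lit 0) (nat_lit 1983203462) (nat_lit 152) (nat_lit 32844440958) (nat_lit 76) (nat_lit 6452017717) (nat_lit 24) (nat_lit 5) (nat_lit 26) (nat_lit 5) (nat_lit 25) (nat_lit 4) (nat_lit 372) (nat_lit 299) (nat_lit 229)) (XT.lf (nat_lit 0) (nat_lit 13329312478) (nat_lit 152) (nat_lit 9871504758) (nat_lit 76) (nat_lit 19748258994) (nat_lit 24) (nat_lit 5) (nat_lit 26) (nat_lit 5) (nat_lit 25) (nat_lit 4) (nat_lit 373) (nat_lit 299) (nat_lit 228)))) (XT.nd (nat_lit 78)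 (nat_lit 152) (nat_lit 0) (XT.lf (nat_lit 0) (nat_lit 14461651312) (nat_lit 76) (nat_lit 10882429626) (nat_lit 152) (nat_lit 19354844180) (nat_lit 23) (nat_lit 5) (nat_lit 24) (nat_lit 5) (nat_lit 25) (nat_lit 4) (nat_lit 374) (nat_lit 299) (nat_lit 227)) (XT.nd (nat_lit 78) (nat_lit 152) (nat_lit 0) (XT.lf (nat_lit 0) (nat_lit 38045101616) (nat_lit 152) (nat_lit 6405590644) (nat_lit 0) (nat_lit 2083013266) (nat_lit 23) (nat_lit 5) (nat_lit 25) (nat_lit 4) (nat_lit 23) (nat_lit 4) (nat_lit 375) (nat_lit 299) (nat_lit 226)) (XT.lf (nat_lit 0) (nat_lit 3122036079) (nat_lit 152) (nat_lit 29674394873) (nat_lit 76) (nat_lit 15655213236) (nat_lit 21) (nat_lit 5) (nat_lit 23) (nat_lit 5) (nat_lit 22) (nat_lit 4) (nat_lit 376) (nat_lit 299) (nat_lit 225))))))))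
noncomputable def xc48 : XT := (XT.nd (nat_lit 41262) (nat_lit 0) (nat_lit 9956) (XT.nd (nat_lit 858) (nat_lit 228) (nat_lit 0) (XT.nd (nat_lit 390) (nat_lit 304) (nat_lit 0) (XT.nd (nat_lit 156) (nat_lit 152) (nat_lit 0) (XT.nd (nat_lit 78) (nat_lit 76) (nat_lit 0) (XT.lf (nat_lit 0) (nat_lit 15171507350) (nat_lit 152) (nat_lit 5261625113) (nat_lit 76) (nat_lit 30028814207) (nat_lit 21) (nat_lit 5) (nat_lit 23) (nat_lit 5) (nat_lit 22) (nat_lit 4) (nat_lit 377) (nat_lit 299) (nat_lit 224)) (XT.lf (nat_lit 0) (nat_lit 20714199005) (nat_lit 76) (nat_lit 7275639212) (nat_lit 152) (nat_lit 24577938240) (nat_lit 20) (nat_lit 5) (nat_lit 21) (nat_lit 5) (nat_lit 22) (nat_lit 4) (nat_lit 378) (nat_lit 299) (nat_lit 223))) (XT.nd (nat_lit 78) (nat_lit 152) (nat_lit 0) (XT.lf (nat_lit 0) (nat_lit 41534627961) (nat_lit 152) (nat_lit 6802611949) (nat_lit 0) (nat_lit 6439095139) (nat_lit 20) (nat_lit 5)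 (nat_lit 22) (nat_lit 4) (nat_lit 20) (nat_lit 4) (nat_lit 379) (nat_lit 299) (nat_lit 222)) (XT.nd (nat_lit 78) (nat_lit 76) (nat_lit 0) (XT.lf (nat_lit 0) (nat_lit 19755146046) (nat_lit 76) (nat_lit 36234347719) (nat_lit 76) (nat_lit 1098846122) (nat_lit 19) (nat_lit 4) (nat_lit 20) (nat_lit 5) (nat_lit 20) (nat_lit 4) (nat_lit 380) (nat_lit 299) (nat_lit 221)) (XT.lf (nat_lit 0) (nat_lit 11464641596) (nat_lit 152) (nat_lit 11900344657) (nat_lit 76) (nat_lit 36146376736) (nat_lit 18) (nat_lit 5) (nat_lit 20) (nat_lit 5) (nat_lit 19) (nat_lit 4) (nat_lit 381) (nat_lit 299) (nat_lit 220))))) (XT.nd (nat_lit 234) (nat_lit 152) (nat_lit 0) (XT.nd (nat_lit 78) (nat_lit 76) (nat_lit 0) (XT.lf (nat_lit 0) (nat_lit 15032338149) (nat_lit 76) (nat_lit 9717493428) (nat_lit 152) (nat_lit 37301894674) (nat_lit 17) (nat_lit 5) (nat_lit 18) (nat_lit 5) (nat_lit 19) (nat_lit 4) (nat_lit 382) (nat_lit 299)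 (nat_lit 219)) (XT.nd (nat_lit 78) (nat_lit 76) (nat_lit 0) (XT.lf (nat_lit 0) (nat_lit 38839487998) (nat_lit 152) (nat_lit 21253740458) (nat_lit 0) (nat_lit 4621675876) (nat_lit 17) (nat_lit 5) (nat_lit 19) (nat_lit 4) (nat_lit 17) (nat_lit 4) (nat_lit 383) (nat_lit 299) (nat_lit 218)) (XT.lf (nat_lit 0) (nat_lit 5764018340) (nat_lit 76) (nat_lit 47996576731) (nat_lit 76) (nat_lit 13746839939) (nat_lit 16) (nat_lit 4) (nat_lit 17) (nat_lit 5) (nat_lit 17) (nat_lit 4) (nat_lit 384) (nat_lit 299) (nat_lit 217)))) (XT.nd (nat_lit 78) (nat_lit 152) (nat_lit 0) (XT.lf (nat_lit 0) (nat_lit 34527688265) (nat_lit 76) (nat_lit 35093128015) (nat_lit 76) (nat_lit 812986774) (nat_lit 16) (nat_lit 4) (nat_lit 17) (nat_lit 5) (nat_lit 17) (nat_lit 4) (nat_lit 385) (nat_lit 299) (nat_lit 216)) (XT.nd (nat_lit 78) (nat_lit 76) (nat_lit 0) (XT.lf (nat_lit 0) (nat_lit 12493668442) (nat_lit 152) (nat_lit 8946950919)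 (nat_lit 76) (nat_lit 52062933140) (nat_lit 15) (nat_lit 5) (nat_lit 17) (nat_lit 5) (nat_lit 16) (nat_lit 4) (nat_lit 386) (nat_lit 299) (nat_lit 215)) (XT.lf (nat_lit 0) (nat_lit 19691189099) (nat_lit 76) (nat_lit 6923522569) (nat_lit 152) (nat_lit 50106862486) (nat_lit 14) (nat_lit 5) (nat_lit 15) (nat_lit 5) (nat_lit 16) (nat_lit 4) (nat_lit 387) (nat_lit 299) (nat_lit 214)))))) (XT.nd (nat_lit 546) (nat_lit 0) (nat_lit 0) (XT.nd (nat_lit 234) (nat_lit 152) (nat_lit 0) (XT.nd (nat_lit 78) (nat_lit 76) (nat_lit 0) (XT.lf (nat_lit 0) (nat_lit 41591721865) (nat_lit 152) (nat_lit 30274635653) (nat_lit 0) (nat_lit 8229644105) (nat_lit 14) (nat_lit 5) (nat_lit 16) (nat_lit 4) (nat_lit 14) (nat_lit 4) (nat_lit 388) (nat_lit 299) (nat_lit 213)) (XT.nd (nat_lit 78) (nat_lit 76) (nat_lit 0) (XT.lf (nat_lit 0) (nat_lit 57365492422) (nat_lit 152) (nat_lit 2293093417) (nat_lit 0) (nat_lit 23979129405)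 (nat_lit 14) (nat_lit 5) (nat_lit 16) (nat_lit 4) (nat_lit 14) (nat_lit 4) (nat_lit 389) (nat_lit 299) (nat_lit 212)) (XT.lf (nat_lit 0) (nat_lit 27585714148) (nat_lit 76) (nat_lit 46586483413) (nat_lit 76) (nat_lit 13176991580) (nat_lit 13) (nat_lit 4) (nat_lit 14) (nat_lit 5) (nat_lit 14) (nat_lit 4) (nat_lit 390) (nat_lit 299) (nat_lit 211)))) (XT.nd (nat_lit 78) (nat_lit 76) (nat_lit 0) (XT.lf (nat_lit 0) (nat_lit 565153347) (nat_lit 152) (nat_lit 32284257981) (nat_lit 76) (nat_lit 58396561987) (nat_lit 12) (nat_lit 5) (nat_lit 14) (nat_lit 5) (nat_lit 13) (nat_lit 4) (nat_lit 391) (nat_lit 299) (nat_lit 210)) (XT.nd (nat_lit 78) (nat_lit 76) (nat_lit 0) (XT.lf (nat_lit 0) (nat_lit 14704889237) (nat_lit 152) (nat_lit 3601572643) (nat_lit 76) (nat_lit 77027732476) (nat_lit 12) (nat_lit 5) (nat_lit 14) (nat_lit 5) (nat_lit 13) (nat_lit 4) (nat_lit 392) (nat_lit 299) (nat_lit 209)) (XT.lf (nat_lit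 0) (nat_lit 27006533167) (nat_lit 76) (nat_lit 2786082843) (nat_lit 152) (nat_lit 69826981972) (nat_lit 11) (nat_lit 5) (nat_lit 12) (nat_lit 5) (nat_lit 13) (nat_lit 4) (nat_lit 393) (nat_lit 299) (nat_lit 208))))) (XT.nd (nat_lit 39624) (nat_lit 0) (nat_lit 26296) (XT.nd (nat_lit 39468) (nat_lit 0) (nat_lit 26980) (XT.lf (nat_lit 0) (nat_lit 62585393046) (nat_lit 152) (nat_lit 16197273516) (nat_lit 0) (nat_lit 30051774112) (nat_lit 11) (nat_lit 5) (nat_lit 13) (nat_lit 4) (nat_lit 11) (nat_lit 4) (nat_lit 395) (nat_lit 299) (nat_lit 206)) (XT.nd (nat_lit 78) (nat_lit 76) (nat_lit 0) (XT.lf (nat_lit 0) (nat_lit 1073741823) (nat_lit 0) (nat_lit 0) (nat_lit 0) (nat_lit 0) (nat_lit 367) (nat_lit 0) (nat_lit 1) (nat_lit 0) (nat_lit 1) (nat_lit 0) (nat_lit 300) (nat_lit 300) (nat_lit 300)) (XT.lf (nat_lit 0) (nat_lit 5040562278) (nat_lit 76) (nat_lit 1273466915) (nat_lit 0) (nat_lit 132028226) (nat_lit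 366) (nat_lit 5) (nat_lit 367) (nat_lit 0) (nat_lit 366) (nat_lit 4) (nat_lit 301) (nat_lit 300) (nat_lit 299)))) (XT.nd (nat_lit 78) (nat_lit 532) (nat_lit 0) (XT.lf (nat_lit 0) (nat_lit 3522351792) (nat_lit 152) (nat_lit 2432954249) (nat_lit 76) (nat_lit 502361371) (nat_lit 364) (nat_lit 5) (nat_lit 366) (nat_lit 5) (nat_lit 365) (nat_lit 4) (nat_lit 302) (nat_lit 300) (nat_lit 298)) (XT.nd (nat_lit 78) (nat_lit 304) (nat_lit 0) (XT.lf (nat_lit 0) (nat_lit 1883893658) (nat_lit 228) (nat_lit 3481373997) (nat_lit 76) (nat_lit 1112036257) (nat_lit 361) (nat_lit 5) (nat_lit 364) (nat_lit 5) (nat_lit 362) (nat_lit 5) (nat_lit 303) (nat_lit 300) (nat_lit 297)) (XT.lf (nat_lit 0) (nat_lit 120915852) (nat_lit 304) (nat_lit 4421328882) (nat_lit 76) (nat_lit 1962761237) (nat_lit 357) (nat_lit 5) (nat_lit 361) (nat_lit 5) (nat_lit 358) (nat_lit 5) (nat_lit 304) (nat_lit 300) (nat_lit 296))))))) (XT.nd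 (nat_lit 936) (nat_lit 8284) (nat_lit 0) (XT.nd (nat_lit 468) (nat_lit 5548) (nat_lit 0) (XT.nd (nat_lit 234) (nat_lit 1672) (nat_lit 0) (XT.nd (nat_lit 78) (nat_lit 532) (nat_lit 0) (XT.lf (nat_lit 0) (nat_lit 1267821568) (nat_lit 304) (nat_lit 3466023177) (nat_lit 380) (nat_lit 1806463115) (nat_lit 353) (nat_lit 5) (nat_lit 357) (nat_lit 5) (nat_lit 358) (nat_lit 5) (nat_lit 305) (nat_lit 300) (nat_lit 295)) (XT.nd (nat_lit 78) (nat_lit 76) (nat_lit 0) (XT.lf (nat_lit 0) (nat_lit 561734005) (nat_lit 380) (nat_lit 2148920753) (nat_lit 456) (nat_lit 3873072277) (nat_lit 347) (nat_lit 5) (nat_lit 352) (nat_lit 5) (nat_lit 353) (nat_lit 5) (nat_lit 306) (nat_lit 300) (nat_lit 294)) (XT.lf (nat_lit 0) (nat_lit 553720051) (nat_lit 456) (nat_lit 34374278) (nat_lit 76) (nat_lit 6047281076) (nat_lit 346) (nat_lit 5) (nat_lit 352) (nat_lit 5) (nat_lit 347) (nat_lit 5) (nat_lit 307) (nat_lit 300) (nat_lit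 293)))) (XT.nd (nat_lit 78) (nat_lit 1216) (nat_lit 0) (XT.lf (nat_lit 0) (nat_lit 4933325701) (nat_lit 532) (nat_lit 542727197) (nat_lit 76) (nat_lit 1218312663) (nat_lit 340) (nat_lit 5) (nat_lit 347) (nat_lit 5) (nat_lit 341) (nat_lit 5) (nat_lit 308) (nat_lit 300) (nat_lit 292)) (XT.nd (nat_lit 78) (nat_lit 608) (nat_lit 0) (XT.lf (nat_lit 0) (nat_lit 2532909674) (nat_lit 608) (nat_lit 961410141) (nat_lit 76) (nat_lit 3267078686) (nat_lit 332) (nat_lit 5) (nat_lit 340) (nat_lit 5) (nat_lit 333) (nat_lit 5) (nat_lit 309) (nat_lit 300) (nat_lit 291)) (XT.lf (nat_lit 0) (nat_lit 5556566148) (nat_lit 608) (nat_lit 1266857003) (nat_lit 684) (nat_lit 13514575) (nat_lit 324) (nat_lit 5) (nat_lit 332) (nat_lit 5) (nat_lit 333) (nat_lit 5) (nat_lit 310) (nat_lit 300) (nat_lit 290))))) (XT.nd (nat_lit 234) (nat_lit 3116) (nat_lit 0) (XT.nd (nat_lit 78) (nat_lit 1672) (nat_lit 0) (XT.lf (nat_lit 0)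 (nat_lit 4166123069) (nat_lit 760) (nat_lit 1538430107) (nat_lit 76) (nat_lit 1215437255) (nat_lit 314) (nat_lit 5) (nat_lit 324) (nat_lit 5) (nat_lit 315) (nat_lit 5) (nat_lit 311) (nat_lit 300) (nat_lit 289)) (XT.nd (nat_lit 78) (nat_lit 836) (nat_lit 0) (XT.lf (nat_lit 0) (nat_lit 1368885973) (nat_lit 836) (nat_lit 1714049751) (nat_lit 76) (nat_lit 3928449123) (nat_lit 303) (nat_lit 5) (nat_lit 314) (nat_lit 5) (nat_lit 304) (nat_lit 5) (nat_lit 312) (nat_lit 300) (nat_lit 288)) (XT.lf (nat_lit 0) (nat_lit 5300205808) (nat_lit 836) (nat_lit 191086022) (nat_lit 912) (nat_lit 1619909402) (nat_lit 292) (nat_lit 5) (nat_lit 303) (nat_lit 5) (nat_lit 304) (nat_lit 5) (nat_lit 313) (nat_lit 300) (nat_lit 287)))) (XT.nd (nat_lit 78) (nat_lit 2128) (nat_lit 0) (XT.lf (nat_lit 0) (nat_lit 2440728909) (nat_lit 988) (nat_lit 1857548627) (nat_lit 76) (nat_lit 2920518557) (nat_lit 279) (nat_lit 5) (nat_lit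 292) (nat_lit 5) (nat_lit 280) (nat_lit 5) (nat_lit 314) (nat_lit 300) (nat_lit 286)) (XT.nd (nat_lit 78) (nat_lit 1140) (nat_lit 0) (XT.lf (nat_lit 0) (nat_lit 5511530106) (nat_lit 988) (nat_lit 1031577847) (nat_lit 1064) (nat_lit 792177548) (nat_lit 266) (nat_lit 5) (nat_lit 279) (nat_lit 5) (nat_lit 280) (nat_lit 5) (nat_lit 315) (nat_lit 300) (nat_lit 285)) (XT.lf (nat_lit 0) (nat_lit 3229604625) (nat_lit 1140) (nat_lit 1750064903) (nat_lit 76) (nat_lit 2480017214) (nat_lit 251) (nat_lit 5) (nat_lit 266) (nat_lit 5) (nat_lit 252) (nat_lit 5) (nat_lit 316) (nat_lit 300) (nat_lit 284)))))) (XT.nd (nat_lit 468) (nat_lit 3420) (nat_lit 0) (XT.nd (nat_lit 234) (nat_lit 1748) (nat_lit 0) (XT.nd (nat_lit 78) (nat_lit 1976) (nat_lit 0) (XT.lf (nat_lit 0) (nat_lit 5990102376) (nat_lit 1140) (nat_lit 1345019183) (nat_lit 1216) (nat_lit 258123232) (nat_lit 236) (nat_lit 5) (nat_lit 251) (nat_lit 5)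 (nat_lit 252) (nat_lit 5) (nat_lit 317) (nat_lit 300) (nat_lit 283)) (XT.nd (nat_lit 78) (nat_lit 684) (nat_lit 0) (XT.lf (nat_lit 0) (nat_lit 3757443787) (nat_lit 1292) (nat_lit 1428845905) (nat_lit 76) (nat_lit 2548554264) (nat_lit 219) (nat_lit 5) (nat_lit 236) (nat_lit 5) (nat_lit 220) (nat_lit 5) (nat_lit 318) (nat_lit 300) (nat_lit 282)) (XT.lf (nat_lit 0) (nat_lit 1550948) (nat_lit 684) (nat_lit 1185924384) (nat_lit 76) (nat_lit 6698522594) (nat_lit 210) (nat_lit 5) (nat_lit 219) (nat_lit 5) (nat_lit 211) (nat_lit 5) (nat_lit 319) (nat_lit 300) (nat_lit 281)))) (XT.nd (nat_lit 78) (nat_lit 1216) (nat_lit 0) (XT.lf (nat_lit 0) (nat_lit 4041010761) (nat_lit 608) (nat_lit 930047735) (nat_lit 76) (nat_lit 3074271471) (nat_lit 203) (nat_lit 5) (nat_lit 211) (nat_lit 5) (nat_lit 204) (nat_lit 5) (nat_lit 320) (nat_lit 300) (nat_lit 280)) (XT.nd (nat_lit 78) (nat_lit 532) (nat_lit 0) (XT.lf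 (nat_lit 0) (nat_lit 938587) (nat_lit 684) (nat_lit 608225913) (nat_lit 76) (nat_lit 7605576999) (nat_lit 194) (nat_lit 5) (nat_lit 203) (nat_lit 5) (nat_lit 195) (nat_lit 5) (nat_lit 321) (nat_lit 300) (nat_lit 279)) (XT.lf (nat_lit 0) (nat_lit 4092030215) (nat_lit 608) (nat_lit 289751287) (nat_lit 76) (nat_lit 4010703591) (nat_lit 187) (nat_lit 5) (nat_lit 195) (nat_lit 5) (nat_lit 188) (nat_lit 5) (nat_lit 322) (nat_lit 300) (nat_lit 278))))) (XT.nd (nat_lit 234) (nat_lit 1444) (nat_lit 0) (XT.nd (nat_lit 78) (nat_lit 988) (nat_lit 0) (XT.lf (nat_lit 0) (nat_lit 91801508) (nat_lit 456) (nat_lit 8242137010) (nat_lit 532) (nat_lit 246887086) (nat_lit 174) (nat_lit 5) (nat_lit 180) (nat_lit 5) (nat_lit 181) (nat_lit 5) (nat_lit 323) (nat_lit 300) (nat_lit 277)) (XT.nd (nat_lit 78) (nat_lit 456) (nat_lit 0) (XT.lf (nat_lit 0) (nat_lit 464025289) (nat_lit 456) (nat_lit 3457644755) (nat_lit 532)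 (nat_lit 4856130687) (nat_lit 167) (nat_lit 5) (nat_lit 173) (nat_lit 5) (nat_lit 174) (nat_lit 5) (nat_lit 324) (nat_lit 300) (nat_lit 276)) (XT.lf (nat_lit 0) (nat_lit 882059458) (nat_lit 456) (nat_lit 7377117839) (nat_lit 532) (nat_lit 726491085) (nat_lit 161) (nat_lit 5) (nat_lit 167) (nat_lit 5) (nat_lit 168) (nat_lit 5) (nat_lit 325) (nat_lit 300) (nat_lit 275)))) (XT.nd (nat_lit 78) (nat_lit 912) (nat_lit 0) (XT.lf (nat_lit 0) (nat_lit 1290083105) (nat_lit 456) (nat_lit 2240471890) (nat_lit 532) (nat_lit 5672672109) (nat_lit 154) (nat_lit 5) (nat_lit 160) (nat_lit 5) (nat_lit 161) (nat_lit 5) (nat_lit 326) (nat_lit 300) (nat_lit 274)) (XT.nd (nat_lit 78) (nat_lit 532) (nat_lit 0) (XT.lf (nat_lit 0) (nat_lit 1715063229) (nat_lit 380) (nat_lit 6264012372) (nat_lit 456) (nat_lit 1452638642) (nat_lit 149) (nat_lit 5) (nat_lit 154) (nat_lit 5) (nat_lit 155) (nat_lit 5) (nat_lit 327) (nat_lit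 300) (nat_lit 273)) (XT.lf (nat_lit 0) (nat_lit 2139215938) (nat_lit 456) (nat_lit 772515846) (nat_lit 532) (nat_lit 6759361397) (nat_lit 142) (nat_lit 5) (nat_lit 148) (nat_lit 5) (nat_lit 149) (nat_lit 5) (nat_lit 328) (nat_lit 300) (nat_lit 272))))))))
noncomputable def xc49 : XT := (XT.nd (nat_lit 1794) (nat_lit 2660) (nat_lit 0) (XT.nd (nat_lit 858) (nat_lit 2584) (nat_lit 0) (XT.nd (nat_lit 390) (nat_lit 1900) (nat_lit 0) (XT.nd (nat_lit 156) (nat_lit 1064) (nat_lit 0) (XT.nd (nat_lit 78) (nat_lit 456) (nat_lit 0) (XT.lf (nat_lit 0) (nat_lit 2545280145) (nat_lit 380) (nat_lit 4942402479) (nat_lit 456) (nat_lit 2433691474) (nat_lit 137) (nat_lit 5) (nat_lit 142) (nat_lit 5) (nat_lit 143) (nat_lit 5) (nat_lit 329) (nat_lit 300) (nat_lit 271)) (XT.lf (nat_lit 0) (nat_lit 2064147358) (nat_lit 456) (nat_lit 7229575307) (nat_lit 76) (nat_lit 889989289) (nat_lit 131) (nat_lit 5) (nat_lit 137)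 (nat_lit 5) (nat_lit 132) (nat_lit 5) (nat_lit 330) (nat_lit 300) (nat_lit 270))) (XT.nd (nat_lit 78) (nat_lit 760) (nat_lit 0) (XT.lf (nat_lit 0) (nat_lit 3321518360) (nat_lit 304) (nat_lit 3451760953) (nat_lit 380) (nat_lit 3684121195) (nat_lit 127) (nat_lit 5) (nat_lit 131) (nat_lit 5) (nat_lit 132) (nat_lit 5) (nat_lit 331) (nat_lit 300) (nat_lit 269)) (XT.nd (nat_lit 78) (nat_lit 304) (nat_lit 0) (XT.lf (nat_lit 0) (nat_lit 972259038) (nat_lit 456) (nat_lit 7064278609) (nat_lit 76) (nat_lit 2707464896) (nat_lit 121) (nat_lit 5) (nat_lit 127) (nat_lit 5) (nat_lit 122) (nat_lit 5) (nat_lit 332) (nat_lit 300) (nat_lit 268)) (XT.lf (nat_lit 0) (nat_lit 3985246582) (nat_lit 304) (nat_lit 1832596474) (nat_lit 380) (nat_lit 5225071672) (nat_lit 117) (nat_lit 5) (nat_lit 121) (nat_lit 5) (nat_lit 122) (nat_lit 5) (nat_lit 333) (nat_lit 300) (nat_lit 267))))) (XT.nd (nat_lit 234) (nat_lit 912) (nat_lit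 0) (XT.nd (nat_lit 78) (nat_lit 684) (nat_lit 0) (XT.lf (nat_lit 0) (nat_lit 4257062991) (nat_lit 304) (nat_lit 6696083586) (nat_lit 380) (nat_lit 402251963) (nat_lit 113) (nat_lit 5) (nat_lit 117) (nat_lit 5) (nat_lit 118) (nat_lit 5) (nat_lit 334) (nat_lit 300) (nat_lit 266)) (XT.nd (nat_lit 78) (nat_lit 304) (nat_lit 0) (XT.lf (nat_lit 0) (nat_lit 4468678901) (nat_lit 304) (nat_lit 127678144) (nat_lit 380) (nat_lit 7085082224) (nat_lit 108) (nat_lit 5) (nat_lit 112) (nat_lit 5) (nat_lit 113) (nat_lit 5) (nat_lit 335) (nat_lit 300) (nat_lit 265)) (XT.lf (nat_lit 0) (nat_lit 4604391399) (nat_lit 304) (nat_lit 5309438498) (nat_lit 380) (nat_lit 2107558426) (nat_lit 104) (nat_lit 5) (nat_lit 108) (nat_lit 5) (nat_lit 109) (nat_lit 5) (nat_lit 336) (nat_lit 300) (nat_lit 264)))) (XT.nd (nat_lit 78) (nat_lit 608) (nat_lit 0) (XT.lf (nat_lit 0) (nat_lit 3091484718) (nat_lit 304) (nat_lit 7699900788)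 (nat_lit 76) (nat_lit 1585084909) (nat_lit 100) (nat_lit 5) (nat_lit 104) (nat_lit 5) (nat_lit 101) (nat_lit 5) (nat_lit 337) (nat_lit 300) (nat_lit 263)) (XT.nd (nat_lit 78) (nat_lit 304) (nat_lit 0) (XT.lf (nat_lit 0) (nat_lit 4645676106) (nat_lit 304) (nat_lit 3936566970) (nat_lit 380) (nat_lit 4164215181) (nat_lit 96) (nat_lit 5) (nat_lit 100) (nat_lit 5) (nat_lit 101) (nat_lit 5) (nat_lit 338) (nat_lit 300) (nat_lit 262)) (XT.lf (nat_lit 0) (nat_lit 1246996750) (nat_lit 304) (nat_lit 8602340977) (nat_lit 76) (nat_lit 3283551426) (nat_lit 92) (nat_lit 5) (nat_lit 96) (nat_lit 5) (nat_lit 93) (nat_lit 5) (nat_lit 339) (nat_lit 300) (nat_lit 261)))))) (XT.nd (nat_lit 468) (nat_lit 1064) (nat_lit 0) (XT.nd (nat_lit 234) (nat_lit 684) (nat_lit 0) (XT.nd (nat_lit 78) (nat_lit 532) (nat_lit 0) (XT.lf (nat_lit 0) (nat_lit 4279636651) (nat_lit 304) (nat_lit 2633636633) (nat_lit 380) (nat_lit 6622046238)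 (nat_lit 88) (nat_lit 5) (nat_lit 92) (nat_lit 5) (nat_lit 93) (nat_lit 5) (nat_lit 340) (nat_lit 300) (nat_lit 260)) (XT.nd (nat_lit 78) (nat_lit 304) (nat_lit 0) (XT.lf (nat_lit 0) (nat_lit 3912279752) (nat_lit 228) (nat_lit 9032533845) (nat_lit 304) (nat_lit 1010631328) (nat_lit 85) (nat_lit 5) (nat_lit 88) (nat_lit 5) (nat_lit 89) (nat_lit 5) (nat_lit 341) (nat_lit 300) (nat_lit 259)) (XT.lf (nat_lit 0) (nat_lit 3386390243) (nat_lit 228) (nat_lit 1464596878) (nat_lit 304) (nat_lit 9542264833) (nat_lit 81) (nat_lit 5) (nat_lit 84) (nat_lit 5) (nat_lit 85) (nat_lit 5) (nat_lit 342) (nat_lit 300) (nat_lit 258)))) (XT.nd (nat_lit 78) (nat_lit 456) (nat_lit 0) (XT.lf (nat_lit 0) (nat_lit 2684686112) (nat_lit 228) (nat_lit 8404812860) (nat_lit 304) (nat_lit 3760036951) (nat_lit 78) (nat_lit 5) (nat_lit 81) (nat_lit 5) (nat_lit 82) (nat_lit 5) (nat_lit 343) (nat_lit 300) (nat_lit 257)) (XT.nd (nat_lit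 78) (nat_lit 152) (nat_lit 0) (XT.lf (nat_lit 0) (nat_lit 1823755783) (nat_lit 228) (nat_lit 503182303) (nat_lit 304) (nat_lit 12999233415) (nat_lit 74) (nat_lit 5) (nat_lit 77) (nat_lit 5) (nat_lit 78) (nat_lit 5) (nat_lit 344) (nat_lit 300) (nat_lit 256)) (XT.lf (nat_lit 0) (nat_lit 705453032) (nat_lit 152) (nat_lit 8060222315) (nat_lit 228) (nat_lit 7056116189) (nat_lit 72) (nat_lit 5) (nat_lit 74) (nat_lit 5) (nat_lit 75) (nat_lit 5) (nat_lit 345) (nat_lit 300) (nat_lit 255))))) (XT.nd (nat_lit 234) (nat_lit 608) (nat_lit 0) (XT.nd (nat_lit 78) (nat_lit 456) (nat_lit 0) (XT.lf (nat_lit 0) (nat_lit 15591078551) (nat_lit 228) (nat_lit 574728616) (nat_lit 76) (nat_lit 174467179) (nat_lit 72) (nat_lit 5) (nat_lit 75) (nat_lit 5) (nat_lit 73) (nat_lit 5) (nat_lit 346) (nat_lit 300) (nat_lit 254)) (XT.nd (nat_lit 78) (nat_lit 152) (nat_lit 0) (XT.lf (nat_lit 0) (nat_lit 5905609623) (nat_lit 304)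 (nat_lit 2166262202) (nat_lit 76) (nat_lit 8806723352) (nat_lit 68) (nat_lit 5) (nat_lit 72) (nat_lit 5) (nat_lit 69) (nat_lit 5) (nat_lit 347) (nat_lit 300) (nat_lit 253)) (XT.lf (nat_lit 0) (nat_lit 12942298439) (nat_lit 228) (nat_lit 3986457765) (nat_lit 76) (nat_lit 512935006) (nat_lit 66) (nat_lit 5) (nat_lit 69) (nat_lit 5) (nat_lit 67) (nat_lit 5) (nat_lit 348) (nat_lit 300) (nat_lit 252)))) (XT.nd (nat_lit 78) (nat_lit 304) (nat_lit 0) (XT.lf (nat_lit 0) (nat_lit 2398851556) (nat_lit 304) (nat_lit 6155744107) (nat_lit 76) (nat_lit 9473328620) (nat_lit 62) (nat_lit 5) (nat_lit 66) (nat_lit 5) (nat_lit 63) (nat_lit 5) (nat_lit 349) (nat_lit 300) (nat_lit 251)) (XT.nd (nat_lit 78) (nat_lit 152) (nat_lit 0) (XT.lf (nat_lit 0) (nat_lit 9618603149) (nat_lit 228) (nat_lit 8652547976) (nat_lit 76) (nat_lit 368910284) (nat_lit 60) (nat_lit 5) (nat_lit 63) (nat_lit 5) (nat_lit 61) (nat_lit 5)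 (nat_lit 350) (nat_lit 300) (nat_lit 250)) (XT.lf (nat_lit 0) (nat_lit 7728658053) (nat_lit 152) (nat_lit 9624823167) (nat_lit 228) (nat_lit 1924717467) (nat_lit 58) (nat_lit 5) (nat_lit 60) (nat_lit 5) (nat_lit 61) (nat_lit 5) (nat_lit 351) (nat_lit 300) (nat_lit 249))))))) (XT.nd (nat_lit 936) (nat_lit 1064) (nat_lit 0) (XT.nd (nat_lit 468) (nat_lit 608) (nat_lit 0) (XT.nd (nat_lit 234) (nat_lit 532) (nat_lit 0) (XT.nd (nat_lit 78) (nat_lit 228) (nat_lit 0) (XT.lf (nat_lit 0) (nat_lit 5090719629) (nat_lit 152) (nat_lit 398222676) (nat_lit 228) (nat_lit 14455624917) (nat_lit 55) (nat_lit 5) (nat_lit 57) (nat_lit 5) (nat_lit 58) (nat_lit 5) (nat_lit 352) (nat_lit 300) (nat_lit 248)) (XT.nd (nat_lit 78) (nat_lit 76) (nat_lit 0) (XT.lf (nat_lit 0) (nat_lit 1975378778) (nat_lit 152) (nat_lit 11419577701) (nat_lit 228) (nat_lit 7243897057) (nat_lit 53) (nat_lit 5) (nat_lit 55) (nat_lit 5) (nat_lit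 56) (nat_lit 5) (nat_lit 353) (nat_lit 300) (nat_lit 247)) (XT.lf (nat_lit 0) (nat_lit 414651563) (nat_lit 228) (nat_lit 1530383895) (nat_lit 76) (nat_lit 19419958930) (nat_lit 52) (nat_lit 5) (nat_lit 55) (nat_lit 5) (nat_lit 53) (nat_lit 5) (nat_lit 354) (nat_lit 300) (nat_lit 246)))) (XT.nd (nat_lit 78) (nat_lit 380) (nat_lit 0) (XT.lf (nat_lit 0) (nat_lit 8483404082) (nat_lit 228) (nat_lit 5600377310) (nat_lit 76) (nat_lit 8036210038) (nat_lit 50) (nat_lit 5) (nat_lit 53) (nat_lit 5) (nat_lit 51) (nat_lit 5) (nat_lit 355) (nat_lit 300) (nat_lit 245)) (XT.nd (nat_lit 78) (nat_lit 228) (nat_lit 0) (XT.lf (nat_lit 0) (nat_lit 12712421414) (nat_lit 152) (nat_lit 4339773801) (nat_lit 228) (nat_lit 5857657976) (nat_lit 48) (nat_lit 5) (nat_lit 50) (nat_lit 5) (nat_lit 51) (nat_lit 5) (nat_lit 356) (nat_lit 300) (nat_lit 244)) (XT.lf (nat_lit 0) (nat_lit 2401620014) (nat_lit 228) (nat_lit 15439104760)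 (nat_lit 76) (nat_lit 5893734490) (nat_lit 45) (nat_lit 5) (nat_lit 48) (nat_lit 5) (nat_lit 46) (nat_lit 5) (nat_lit 357) (nat_lit 300) (nat_lit 243))))) (XT.nd (nat_lit 234) (nat_lit 304) (nat_lit 0) (XT.nd (nat_lit 78) (nat_lit 152) (nat_lit 0) (XT.lf (nat_lit 0) (nat_lit 3182787063) (nat_lit 152) (nat_lit 7893063805) (nat_lit 228) (nat_lit 13519022200) (nat_lit 43) (nat_lit 5) (nat_lit 45) (nat_lit 5) (nat_lit 46) (nat_lit 5) (nat_lit 358) (nat_lit 300) (nat_lit 242)) (XT.nd (nat_lit 78) (nat_lit 152) (nat_lit 0) (XT.lf (nat_lit 0) (nat_lit 20311809323) (nat_lit 228) (nat_lit 2563622249) (nat_lit 76) (nat_lit 2619046327) (nat_lit 43) (nat_lit 5) (nat_lit 46) (nat_lit 5) (nat_lit 44) (nat_lit 4) (nat_lit 359) (nat_lit 300) (nat_lit 241)) (XT.lf (nat_lit 0) (nat_lit 3695244329) (nat_lit 152) (nat_lit 9080105103) (nat_lit 76) (nat_lit 13656861434) (nat_lit 41) (nat_lit 5) (nat_lit 43) (nat_lit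 5) (nat_lit 42) (nat_lit 5) (nat_lit 360) (nat_lit 300) (nat_lit 240)))) (XT.nd (nat_lit 78) (nat_lit 152) (nat_lit 0) (XT.lf (nat_lit 0) (nat_lit 10966803878) (nat_lit 152) (nat_lit 2022970405) (nat_lit 228) (nat_lit 14423129109) (nat_lit 39) (nat_lit 5) (nat_lit 41) (nat_lit 5) (nat_lit 42) (nat_lit 5) (nat_lit 361) (nat_lit 300) (nat_lit 239)) (XT.nd (nat_lit 78) (nat_lit 76) (nat_lit 0) (XT.lf (nat_lit 0) (nat_lit 3653067577) (nat_lit 76) (nat_lit 19262633681) (nat_lit 152) (nat_lit 5521938242) (nat_lit 38) (nat_lit 5) (nat_lit 39) (nat_lit 5) (nat_lit 40) (nat_lit 4) (nat_lit 362) (nat_lit 300) (nat_lit 238)) (XT.lf (nat_lit 0) (nat_lit 3890242479) (nat_lit 152) (nat_lit 4559032223) (nat_lit 76) (nat_lit 21059026558) (nat_lit 37) (nat_lit 5) (nat_lit 39) (nat_lit 5) (nat_lit 38) (nat_lit 5) (nat_lit 363) (nat_lit 300) (nat_lit 237)))))) (XT.nd (nat_lit 468) (nat_lit 532) (nat_lit 0) (XT.nd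 (nat_lit 234) (nat_lit 228) (nat_lit 0) (XT.nd (nat_lit 78) (nat_lit 152) (nat_lit 0) (XT.lf (nat_lit 0) (nat_lit 13803271223) (nat_lit 228) (nat_lit 13794116402) (nat_lit 76) (nat_lit 3029143057) (nat_lit 35) (nat_lit 5) (nat_lit 38) (nat_lit 5) (nat_lit 36) (nat_lit 4) (nat_lit 364) (nat_lit 300) (nat_lit 236)) (XT.nd (nat_lit 78) (nat_lit 76) (nat_lit 0) (XT.lf (nat_lit 0) (nat_lit 7564684845) (nat_lit 76) (nat_lit 16805355300) (nat_lit 152) (nat_lit 7425896375) (nat_lit 34) (nat_lit 5) (nat_lit 35) (nat_lit 5) (nat_lit 36) (nat_lit 4) (nat_lit 365) (nat_lit 300) (nat_lit 235)) (XT.lf (nat_lit 0) (nat_lit 2490778307) (nat_lit 152) (nat_lit 2849813472) (nat_lit 76) (nat_lit 27679611397) (nat_lit 33) (nat_lit 5) (nat_lit 35) (nat_lit 5) (nat_lit 34) (nat_lit 5) (nat_lit 366) (nat_lit 300) (nat_lit 234)))) (XT.nd (nat_lit 78) (nat_lit 76) (nat_lit 0) (XT.lf (nat_lit 0) (nat_lit 12964308728)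 (nat_lit 228) (nat_lit 14533985652) (nat_lit 76) (nat_lit 6798751746) (nat_lit 31) (nat_lit 5) (nat_lit 34) (nat_lit 5) (nat_lit 32) (nat_lit 4) (nat_lit 367) (nat_lit 300) (nat_lit 233)) (XT.nd (nat_lit 78) (nat_lit 0) (nat_lit 0) (XT.lf (nat_lit 0) (nat_lit 7950589281) (nat_lit 76) (nat_lit 16127766199) (nat_lit 152) (nat_lit 11555876930) (nat_lit 30) (nat_lit 5) (nat_lit 31) (nat_lit 5) (nat_lit 32) (nat_lit 4) (nat_lit 368) (nat_lit 300) (nat_lit 232)) (XT.lf (nat_lit 0) (nat_lit 31785752688) (nat_lit 76) (nat_lit 4070159231) (nat_lit 152) (nat_lit 1179137944) (nat_lit 30) (nat_lit 5) (nat_lit 31) (nat_lit 5) (nat_lit 32) (nat_lit 4) (nat_lit 369) (nat_lit 300) (nat_lit 231))))) (XT.nd (nat_lit 234) (nat_lit 228) (nat_lit 0) (XT.nd (nat_lit 78) (nat_lit 76) (nat_lit 0) (XT.lf (nat_lit 0) (nat_lit 9749382809) (nat_lit 228) (nat_lit 20084029919) (nat_lit 76) (nat_lit 8663022644) (nat_lit 27)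 (nat_lit 5) (nat_lit 30) (nat_lit 5) (nat_lit 28) (nat_lit 4) (nat_lit 370) (nat_lit 300) (nat_lit 230)) (XT.nd (nat_lit 78) (nat_lit 0) (nat_lit 0) (XT.lf (nat_lit 0) (nat_lit 3274804979) (nat_lit 76) (nat_lit 18013180147) (nat_lit 152) (nat_lit 18739918884) (nat_lit 26) (nat_lit 5) (nat_lit 27) (nat_lit 5) (nat_lit 28) (nat_lit 4) (nat_lit 371) (nat_lit 300) (nat_lit 229)) (XT.lf (nat_lit 0) (nat_lit 28150177188) (nat_lit 76) (nat_lit 5421959300) (nat_lit 152) (nat_lit 8058756123) (nat_lit 26) (nat_lit 5) (nat_lit 27) (nat_lit 5) (nat_lit 28) (nat_lit 4) (nat_lit 372) (nat_lit 300) (nat_lit 228)))) (XT.nd (nat_lit 78) (nat_lit 76) (nat_lit 0) (XT.lf (nat_lit 0) (nat_lit 3240645780) (nat_lit 152) (nat_lit 32314487616) (nat_lit 76) (nat_lit 7753618451) (nat_lit 24) (nat_lit 5) (nat_lit 26) (nat_lit 5) (nat_lit 25) (nat_lit 4) (nat_lit 373) (nat_lit 300) (nat_lit 227)) (XT.nd (nat_lit 78) (nat_lit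 76) (nat_lit 0) (XT.lf (nat_lit 0) (nat_lit 15098903954) (nat_lit 152) (nat_lit 8296341529) (nat_lit 76) (nat_lit 21668052751) (nat_lit 24) (nat_lit 5) (nat_lit 26) (nat_lit 5) (nat_lit 25) (nat_lit 4) (nat_lit 374) (nat_lit 300) (nat_lit 226)) (XT.lf (nat_lit 0) (nat_lit 17194172372) (nat_lit 76) (nat_lit 10487024616) (nat_lit 152) (nat_lit 19220445568) (nat_lit 23) (nat_lit 5) (nat_lit 24) (nat_lit 5) (nat_lit 25) (nat_lit 4) (nat_lit 375) (nat_lit 300) (nat_lit 225))))))))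
noncomputable def xc50 : XT := (XT.nd (nat_lit 41340) (nat_lit 0) (nat_lit 10412) (XT.nd (nat_lit 858) (nat_lit 380) (nat_lit 0) (XT.nd (nat_lit 390) (nat_lit 304) (nat_lit 0) (XT.nd (nat_lit 156) (nat_lit 76) (nat_lit 0) (XT.nd (nat_lit 78) (nat_lit 152) (nat_lit 0) (XT.lf (nat_lit 0) (nat_lit 40974921750) (nat_lit 152) (nat_lit 4790026358) (nat_lit 0) (nat_lit 3064490545) (nat_lit 23) (nat_lit 5) (nat_lit 25) (nat_lit 4) (nat_lit 23) (nat_lit 4) (nat_lit 376) (nat_lit 300) (nat_lit 224)) (XT.lf (nat_lit 0) (nat_lit 4284831683) (nat_lit 152) (nat_lit 29257610428) (nat_lit 76) (nat_lit 17301467709) (nat_lit 21) (nat_lit 5) (nat_lit 23) (nat_lit 5) (nat_lit 22) (nat_lit 4) (nat_lit 377) (nat_lit 300) (nat_lit 223))) (XT.nd (nat_lit 78) (nat_lit 76) (nat_lit 0) (XT.lf (nat_lit 0) (nat_lit 16888838717) (nat_lit 152) (nat_lit 3714702380) (nat_lit 76) (nat_lit 32352629974) (nat_lit 21) (nat_lit 5)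 (nat_lit 23) (nat_lit 5) (nat_lit 22) (nat_lit 4) (nat_lit 378) (nat_lit 300) (nat_lit 222)) (XT.nd (nat_lit 78) (nat_lit 0) (nat_lit 0) (XT.lf (nat_lit 0) (nat_lit 23508029543) (nat_lit 76) (nat_lit 6811301668) (nat_lit 152) (nat_lit 24848829035) (nat_lit 20) (nat_lit 5) (nat_lit 21) (nat_lit 5) (nat_lit 22) (nat_lit 4) (nat_lit 379) (nat_lit 300) (nat_lit 221)) (XT.lf (nat_lit 0) (nat_lit 44504656001) (nat_lit 152) (nat_lit 5449251851) (nat_lit 0) (nat_lit 7534345048) (nat_lit 20) (nat_lit 5) (nat_lit 22) (nat_lit 4) (nat_lit 20) (nat_lit 4) (nat_lit 380) (nat_lit 300) (nat_lit 220))))) (XT.nd (nat_lit 234) (nat_lit 76) (nat_lit 0) (XT.nd (nat_lit 78) (nat_lit 152) (nat_lit 0) (XT.lf (nat_lit 0) (nat_lit 22387850473) (nat_lit 76) (nat_lit 37267688925) (nat_lit 76) (nat_lit 261125115) (nat_lit 19) (nat_lit 4) (nat_lit 20) (nat_lit 5) (nat_lit 20) (nat_lit 4) (nat_lit 381) (nat_lit 300) (nat_lit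 219)) (XT.nd (nat_lit 78) (nat_lit 76) (nat_lit 0) (XT.lf (nat_lit 0) (nat_lit 12871439615) (nat_lit 152) (nat_lit 10912067921) (nat_lit 76) (nat_lit 38678328562) (nat_lit 18) (nat_lit 5) (nat_lit 20) (nat_lit 5) (nat_lit 19) (nat_lit 4) (nat_lit 382) (nat_lit 300) (nat_lit 218)) (XT.lf (nat_lit 0) (nat_lit 17321864221) (nat_lit 76) (nat_lit 9474114582) (nat_lit 152) (nat_lit 38333990223) (nat_lit 17) (nat_lit 5) (nat_lit 18) (nat_lit 5) (nat_lit 19) (nat_lit 4) (nat_lit 383) (nat_lit 300) (nat_lit 217)))) (XT.nd (nat_lit 78) (nat_lit 76) (nat_lit 0) (XT.lf (nat_lit 0) (nat_lit 41558286853) (nat_lit 152) (nat_lit 20835243985) (nat_lit 0) (nat_lit 5533734103) (nat_lit 17) (nat_lit 5) (nat_lit 19) (nat_lit 4) (nat_lit 17) (nat_lit 4) (nat_lit 384) (nat_lit 300) (nat_lit 216)) (XT.nd (nat_lit 78) (nat_lit 0) (nat_lit 0) (XT.lf (nat_lit 0) (nat_lit 7490944926) (nat_lit 76) (nat_lit 49711342624)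 (nat_lit 76) (nat_lit 13657833257) (nat_lit 16) (nat_lit 4) (nat_lit 17) (nat_lit 5) (nat_lit 17) (nat_lit 4) (nat_lit 385) (nat_lit 300) (nat_lit 215)) (XT.lf (nat_lit 0) (nat_lit 37624287601) (nat_lit 76) (nat_lit 36195343517) (nat_lit 76) (nat_lit 114256419) (nat_lit 16) (nat_lit 4) (nat_lit 17) (nat_lit 5) (nat_lit 17) (nat_lit 4) (nat_lit 386) (nat_lit 300) (nat_lit 214)))))) (XT.nd (nat_lit 468) (nat_lit 76) (nat_lit 0) (XT.nd (nat_lit 234) (nat_lit 152) (nat_lit 0) (XT.nd (nat_lit 78) (nat_lit 76) (nat_lit 0) (XT.lf (nat_lit 0) (nat_lit 13808782086) (nat_lit 152) (nat_lit 8075523967) (nat_lit 76) (nat_lit 55273644177) (nat_lit 15) (nat_lit 5) (nat_lit 17) (nat_lit 5) (nat_lit 16) (nat_lit 4) (nat_lit 387) (nat_lit 300) (nat_lit 213)) (XT.nd (nat_lit 78) (nat_lit 0) (nat_lit 0) (XT.lf (nat_lit 0) (nat_lit 21956720645) (nat_lit 76) (nat_lit 6658592685) (nat_lit 152) (nat_lit 51922179749)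 (nat_lit 14) (nat_lit 5) (nat_lit 15) (nat_lit 5) (nat_lit 16) (nat_lit 4) (nat_lit 388) (nat_lit 300) (nat_lit 212)) (XT.lf (nat_lit 0) (nat_lit 44314870248) (nat_lit 152) (nat_lit 30554788818) (nat_lit 0) (nat_lit 9211775008) (nat_lit 14) (nat_lit 5) (nat_lit 16) (nat_lit 4) (nat_lit 14) (nat_lit 4) (nat_lit 389) (nat_lit 300) (nat_lit 211)))) (XT.nd (nat_lit 78) (nat_lit 152) (nat_lit 0) (XT.lf (nat_lit 0) (nat_lit 60846683510) (nat_lit 152) (nat_lit 1232911309) (nat_lit 0) (nat_lit 25721560826) (nat_lit 14) (nat_lit 5) (nat_lit 16) (nat_lit 4) (nat_lit 14) (nat_lit 4) (nat_lit 390) (nat_lit 300) (nat_lit 210)) (XT.nd (nat_lit 78) (nat_lit 76) (nat_lit 0) (XT.lf (nat_lit 0) (nat_lit 30106160174) (nat_lit 76) (nat_lit 48369346765) (nat_lit 76) (nat_lit 13223245563) (nat_lit 13) (nat_lit 4) (nat_lit 14) (nat_lit 5) (nat_lit 14) (nat_lit 4) (nat_lit 391) (nat_lit 300) (nat_lit 209)) (XT.lf (nat_lit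 0) (nat_lit 1165450681) (nat_lit 152) (nat_lit 32800215859) (nat_lit 76) (nat_lit 61825393292) (nat_lit 12) (nat_lit 5) (nat_lit 14) (nat_lit 5) (nat_lit 13) (nat_lit 4) (nat_lit 392) (nat_lit 300) (nat_lit 208))))) (XT.nd (nat_lit 39780) (nat_lit 0) (nat_lit 26220) (XT.nd (nat_lit 156) (nat_lit 76) (nat_lit 0) (XT.lf (nat_lit 0) (nat_lit 15984933381) (nat_lit 152) (nat_lit 2735694112) (nat_lit 76) (nat_lit 81363884057) (nat_lit 12) (nat_lit 5) (nat_lit 14) (nat_lit 5) (nat_lit 13) (nat_lit 4) (nat_lit 393) (nat_lit 300) (nat_lit 207)) (XT.nd (nat_lit 39546) (nat_lit 0) (nat_lit 26752) (XT.lf (nat_lit 0) (nat_lit 48580937551) (nat_lit 152) (nat_lit 46338034229) (nat_lit 0) (nat_lit 14386287077) (nat_lit 11) (nat_lit 5) (nat_lit 13) (nat_lit 4) (nat_lit 11) (nat_lit 4) (nat_lit 395) (nat_lit 300) (nat_lit 205)) (XT.lf (nat_lit 0) (nat_lit 1699440114) (nat_lit 228) (nat_lit 763694267) (nat_lit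 228) (nat_lit 763694267) (nat_lit 363) (nat_lit 3) (nat_lit 366) (nat_lit 3) (nat_lit 366) (nat_lit 5) (nat_lit 301) (nat_lit 301) (nat_lit 298)))) (XT.nd (nat_lit 78) (nat_lit 304) (nat_lit 0) (XT.lf (nat_lit 0) (nat_lit 1638350719) (nat_lit 228) (nat_lit 2809843641) (nat_lit 304) (nat_lit 2021122213) (nat_lit 360) (nat_lit 5) (nat_lit 363) (nat_lit 3) (nat_lit 364) (nat_lit 5) (nat_lit 302) (nat_lit 301) (nat_lit 297)) (XT.nd (nat_lit 78) (nat_lit 304) (nat_lit 0) (XT.lf (nat_lit 76) (nat_lit 2508374979) (nat_lit 0) (nat_lit 3734538447) (nat_lit 304) (nat_lit 250080737) (nat_lit 361) (nat_lit 5) (nat_lit 360) (nat_lit 5) (nat_lit 364) (nat_lit 5) (nat_lit 303) (nat_lit 301) (nat_lit 296)) (XT.lf (nat_lit 76) (nat_lit 1455152219) (nat_lit 0) (nat_lit 2767929558) (nat_lit 380) (nat_lit 2301208193) (nat_lit 357) (nat_lit 5) (nat_lit 356) (nat_lit 5) (nat_lit 361) (nat_lit 5) (nat_lit 304) (nat_lit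 301) (nat_lit 295))))))) (XT.nd (nat_lit 936) (nat_lit 7828) (nat_lit 0) (XT.nd (nat_lit 468) (nat_lit 5472) (nat_lit 0) (XT.nd (nat_lit 234) (nat_lit 1748) (nat_lit 0) (XT.nd (nat_lit 78) (nat_lit 380) (nat_lit 0) (XT.lf (nat_lit 76) (nat_lit 514148424) (nat_lit 0) (nat_lit 1562180109) (nat_lit 456) (nat_lit 4487419309) (nat_lit 352) (nat_lit 5) (nat_lit 351) (nat_lit 5) (nat_lit 357) (nat_lit 5) (nat_lit 305) (nat_lit 301) (nat_lit 294)) (XT.nd (nat_lit 78) (nat_lit 380) (nat_lit 0) (XT.lf (nat_lit 76) (nat_lit 6298983054) (nat_lit 0) (nat_lit 108732261) (nat_lit 456) (nat_lit 203580771) (nat_lit 352) (nat_lit 5) (nat_lit 351) (nat_lit 5) (nat_lit 357) (nat_lit 5) (nat_lit 306) (nat_lit 301) (nat_lit 293)) (XT.lf (nat_lit 0) (nat_lit 4020461523) (nat_lit 456) (nat_lit 1059360776) (nat_lit 76) (nat_lit 1586123687) (nat_lit 346) (nat_lit 5) (nat_lit 352) (nat_lit 5) (nat_lit 347) (nat_lit 5)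 (nat_lit 307) (nat_lit 301) (nat_lit 292)))) (XT.nd (nat_lit 78) (nat_lit 1216) (nat_lit 0) (XT.lf (nat_lit 0) (nat_lit 1497176584) (nat_lit 532) (nat_lit 1705980073) (nat_lit 76) (nat_lit 3525770344) (nat_lit 339) (nat_lit 5) (nat_lit 346) (nat_lit 5) (nat_lit 340) (nat_lit 5) (nat_lit 308) (nat_lit 301) (nat_lit 291)) (XT.nd (nat_lit 78) (nat_lit 684) (nat_lit 0) (XT.lf (nat_lit 0) (nat_lit 4536333940) (nat_lit 532) (nat_lit 1070800191) (nat_lit 608) (nat_lit 1192917208) (nat_lit 332) (nat_lit 5) (nat_lit 339) (nat_lit 5) (nat_lit 340) (nat_lit 5) (nat_lit 309) (nat_lit 301) (nat_lit 290)) (XT.lf (nat_lit 0) (nat_lit 2825875590) (nat_lit 684) (nat_lit 2750889447) (nat_lit 76) (nat_lit 1302172429) (nat_lit 323) (nat_lit 5) (nat_lit 332) (nat_lit 5) (nat_lit 324) (nat_lit 5) (nat_lit 310) (nat_lit 301) (nat_lit 289))))) (XT.nd (nat_lit 234) (nat_lit 3040) (nat_lit 0) (XT.nd (nat_lit 78) (nat_lit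 1748) (nat_lit 0) (XT.lf (nat_lit 0) (nat_lit 3811717080) (nat_lit 684) (nat_lit 3057814854) (nat_lit 760) (nat_lit 96623095) (nat_lit 314) (nat_lit 5) (nat_lit 323) (nat_lit 5) (nat_lit 324) (nat_lit 5) (nat_lit 311) (nat_lit 301) (nat_lit 288)) (XT.nd (nat_lit 78) (nat_lit 912) (nat_lit 0) (XT.lf (nat_lit 0) (nat_lit 3568437230) (nat_lit 760) (nat_lit 257062969) (nat_lit 836) (nat_lit 3235836186) (nat_lit 303) (nat_lit 5) (nat_lit 313) (nat_lit 5) (nat_lit 314) (nat_lit 5) (nat_lit 312) (nat_lit 301) (nat_lit 287)) (XT.lf (nat_lit 0) (nat_lit 648614123) (nat_lit 912) (nat_lit 3765891574) (nat_lit 76) (nat_lit 2750186921) (nat_lit 291) (nat_lit 5) (nat_lit 303) (nat_lit 5) (nat_lit 292) (nat_lit 5) (nat_lit 313) (nat_lit 301) (nat_lit 286)))) (XT.nd (nat_lit 78) (nat_lit 2128) (nat_lit 0) (XT.lf (nat_lit 0) (nat_lit 3298248394) (nat_lit 912) (nat_lit 1232834219) (nat_lit 988) (nat_lit 2745213675)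 (nat_lit 279) (nat_lit 5) (nat_lit 291) (nat_lit 5) (nat_lit 292) (nat_lit 5) (nat_lit 314) (nat_lit 301) (nat_lit 285)) (XT.nd (nat_lit 78) (nat_lit 1064) (nat_lit 0) (XT.lf (nat_lit 0) (nat_lit 1088038487) (nat_lit 1064) (nat_lit 4129956611) (nat_lit 76) (nat_lit 2178358841) (nat_lit 265) (nat_lit 5) (nat_lit 279) (nat_lit 5) (nat_lit 266) (nat_lit 5) (nat_lit 315) (nat_lit 301) (nat_lit 284)) (XT.lf (nat_lit 0) (nat_lit 3291744152) (nat_lit 1064) (nat_lit 1663791414) (nat_lit 1140) (nat_lit 2569225689) (nat_lit 251) (nat_lit 5) (nat_lit 265) (nat_lit 5) (nat_lit 266) (nat_lit 5) (nat_lit 316) (nat_lit 301) (nat_lit 283)))))) (XT.nd (nat_lit 468) (nat_lit 2964) (nat_lit 0) (XT.nd (nat_lit 234) (nat_lit 1748) (nat_lit 0) (XT.nd (nat_lit 78) (nat_lit 1900) (nat_lit 0) (XT.lf (nat_lit 0) (nat_lit 1245667555) (nat_lit 1216) (nat_lit 4283902775) (nat_lit 76) (nat_lit 2132299717) (nat_lit 235) (nat_lit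 5) (nat_lit 251) (nat_lit 5) (nat_lit 236) (nat_lit 5) (nat_lit 317) (nat_lit 301) (nat_lit 282)) (XT.nd (nat_lit 78) (nat_lit 684) (nat_lit 0) (XT.lf (nat_lit 0) (nat_lit 3512198073) (nat_lit 1216) (nat_lit 1607038095) (nat_lit 1292) (nat_lit 2688328846) (nat_lit 219) (nat_lit 5) (nat_lit 235) (nat_lit 5) (nat_lit 236) (nat_lit 5) (nat_lit 318) (nat_lit 301) (nat_lit 281)) (XT.lf (nat_lit 0) (nat_lit 1138402567) (nat_lit 684) (nat_lit 4264535457) (nat_lit 76) (nat_lit 2559277946) (nat_lit 210) (nat_lit 5) (nat_lit 219) (nat_lit 5) (nat_lit 211) (nat_lit 5) (nat_lit 319) (nat_lit 301) (nat_lit 280)))) (XT.nd (nat_lit 78) (nat_lit 1216) (nat_lit 0) (XT.lf (nat_lit 0) (nat_lit 3924064739) (nat_lit 532) (nat_lit 1113410944) (nat_lit 608) (nat_lit 3088337991) (nat_lit 203) (nat_lit 5) (nat_lit 210) (nat_lit 5) (nat_lit 211) (nat_lit 5) (nat_lit 320) (nat_lit 301) (nat_lit 279)) (XT.nd (nat_lit 78)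 (nat_lit 532) (nat_lit 0) (XT.lf (nat_lit 0) (nat_lit 778071492) (nat_lit 684) (nat_lit 4108253581) (nat_lit 76) (nat_lit 3412315201) (nat_lit 194) (nat_lit 5) (nat_lit 203) (nat_lit 5) (nat_lit 195) (nat_lit 5) (nat_lit 321) (nat_lit 301) (nat_lit 278)) (XT.lf (nat_lit 0) (nat_lit 4491973694) (nat_lit 532) (nat_lit 228600800) (nat_lit 608) (nat_lit 3760314643) (nat_lit 187) (nat_lit 5) (nat_lit 194) (nat_lit 5) (nat_lit 195) (nat_lit 5) (nat_lit 322) (nat_lit 301) (nat_lit 277))))) (XT.nd (nat_lit 234) (nat_lit 1444) (nat_lit 0) (XT.nd (nat_lit 78) (nat_lit 912) (nat_lit 0) (XT.lf (nat_lit 0) (nat_lit 171484590) (nat_lit 608) (nat_lit 3852077868) (nat_lit 76) (nat_lit 4649108026) (nat_lit 179) (nat_lit 5) (nat_lit 187) (nat_lit 5) (nat_lit 180) (nat_lit 5) (nat_lit 323) (nat_lit 301) (nat_lit 276)) (XT.nd (nat_lit 78) (nat_lit 456) (nat_lit 0) (XT.lf (nat_lit 0) (nat_lit 4183562853) (nat_lit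 532) (nat_lit 3704450845) (nat_lit 76) (nat_lit 986152479) (nat_lit 173) (nat_lit 5) (nat_lit 180) (nat_lit 5) (nat_lit 174) (nat_lit 5) (nat_lit 324) (nat_lit 301) (nat_lit 275)) (XT.lf (nat_lit 0) (nat_lit 5544514907) (nat_lit 456) (nat_lit 2848267393) (nat_lit 532) (nat_lit 693140090) (nat_lit 167) (nat_lit 5) (nat_lit 173) (nat_lit 5) (nat_lit 174) (nat_lit 5) (nat_lit 325) (nat_lit 301) (nat_lit 274)))) (XT.nd (nat_lit 78) (nat_lit 912) (nat_lit 0) (XT.lf (nat_lit 0) (nat_lit 3422270228) (nat_lit 532) (nat_lit 3384095637) (nat_lit 76) (nat_lit 2501372099) (nat_lit 160) (nat_lit 5) (nat_lit 167) (nat_lit 5) (nat_lit 161) (nat_lit 5) (nat_lit 326) (nat_lit 301) (nat_lit 273)) (XT.nd (nat_lit 78) (nat_lit 456) (nat_lit 0) (XT.lf (nat_lit 0) (nat_lit 6325260215) (nat_lit 456) (nat_lit 1401223285) (nat_lit 532) (nat_lit 1814105984) (nat_lit 154) (nat_lit 5) (nat_lit 160) (nat_lit 5) (nat_lit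 161) (nat_lit 5) (nat_lit 327) (nat_lit 301) (nat_lit 272)) (XT.lf (nat_lit 0) (nat_lit 2429202586) (nat_lit 456) (nat_lit 3069075943) (nat_lit 76) (nat_lit 4285670107) (nat_lit 148) (nat_lit 5) (nat_lit 154) (nat_lit 5) (nat_lit 149) (nat_lit 5) (nat_lit 328) (nat_lit 301) (nat_lit 271))))))))
noncomputable def xc51 : XT := (XT.nd (nat_lit 1872) (nat_lit 2584) (nat_lit 0) (XT.nd (nat_lit 936) (nat_lit 2660) (nat_lit 0) (XT.nd (nat_lit 468) (nat_lit 1900) (nat_lit 0) (XT.nd (nat_lit 234) (nat_lit 1064) (nat_lit 0) (XT.nd (nat_lit 78) (nat_lit 836) (nat_lit 0) (XT.lf (nat_lit 0) (nat_lit 6844679979) (nat_lit 532) (nat_lit 2920776545) (nat_lit 76) (nat_lit 273618196) (nat_lit 142) (nat_lit 5) (nat_lit 149) (nat_lit 5) (nat_lit 143) (nat_lit 5) (nat_lit 329) (nat_lit 301) (nat_lit 270)) (XT.nd (nat_lit 78) (nat_lit 380) (nat_lit 0) (XT.lf (nat_lit 0) (nat_lit 1193493033) (nat_lit 456) (nat_lit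 2807762605) (nat_lit 76) (nat_lit 6304148792) (nat_lit 136) (nat_lit 5) (nat_lit 142) (nat_lit 5) (nat_lit 137) (nat_lit 5) (nat_lit 330) (nat_lit 301) (nat_lit 269)) (XT.lf (nat_lit 0) (nat_lit 5747649370) (nat_lit 456) (nat_lit 2722082856) (nat_lit 76) (nat_lit 2114037294) (nat_lit 131) (nat_lit 5) (nat_lit 137) (nat_lit 5) (nat_lit 132) (nat_lit 5) (nat_lit 331) (nat_lit 301) (nat_lit 268)))) (XT.nd (nat_lit 78) (nat_lit 760) (nat_lit 0) (XT.lf (nat_lit 0) (nat_lit 8216997412) (nat_lit 304) (nat_lit 2350212205) (nat_lit 380) (nat_lit 307765600) (nat_lit 127) (nat_lit 5) (nat_lit 131) (nat_lit 5) (nat_lit 132) (nat_lit 5) (nat_lit 332) (nat_lit 301) (nat_lit 267)) (XT.nd (nat_lit 78) (nat_lit 304) (nat_lit 0) (XT.lf (nat_lit 0) (nat_lit 4402965662) (nat_lit 456) (nat_lit 2664452215) (nat_lit 76) (nat_lit 4110808042) (nat_lit 121) (nat_lit 5) (nat_lit 127) (nat_lit 5) (nat_lit 122) (nat_lit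 5) (nat_lit 333) (nat_lit 301) (nat_lit 266)) (XT.lf (nat_lit 0) (nat_lit 8801304289) (nat_lit 304) (nat_lit 572851975) (nat_lit 380) (nat_lit 2121499722) (nat_lit 117) (nat_lit 5) (nat_lit 121) (nat_lit 5) (nat_lit 122) (nat_lit 5) (nat_lit 334) (nat_lit 301) (nat_lit 265))))) (XT.nd (nat_lit 234) (nat_lit 836) (nat_lit 0) (XT.nd (nat_lit 78) (nat_lit 684) (nat_lit 0) (XT.lf (nat_lit 0) (nat_lit 2784782961) (nat_lit 380) (nat_lit 2815801552) (nat_lit 76) (nat_lit 6225405392) (nat_lit 112) (nat_lit 5) (nat_lit 117) (nat_lit 5) (nat_lit 113) (nat_lit 5) (nat_lit 335) (nat_lit 301) (nat_lit 264)) (XT.nd (nat_lit 78) (nat_lit 380) (nat_lit 0) (XT.lf (nat_lit 0) (nat_lit 7928286186) (nat_lit 380) (nat_lit 2991130148) (nat_lit 76) (nat_lit 1251761852) (nat_lit 108) (nat_lit 5) (nat_lit 113) (nat_lit 5) (nat_lit 109) (nat_lit 5) (nat_lit 336) (nat_lit 301) (nat_lit 263)) (XT.lf (nat_lit 0) (nat_lit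 859510650) (nat_lit 380) (nat_lit 3255445650) (nat_lit 76) (nat_lit 8416087639) (nat_lit 103) (nat_lit 5) (nat_lit 108) (nat_lit 5) (nat_lit 104) (nat_lit 5) (nat_lit 337) (nat_lit 301) (nat_lit 262)))) (XT.nd (nat_lit 78) (nat_lit 608) (nat_lit 0) (XT.lf (nat_lit 0) (nat_lit 6187176925) (nat_lit 304) (nat_lit 3628128564) (nat_lit 76) (nat_lit 3090636789) (nat_lit 100) (nat_lit 5) (nat_lit 104) (nat_lit 5) (nat_lit 101) (nat_lit 5) (nat_lit 338) (nat_lit 301) (nat_lit 261)) (XT.nd (nat_lit 78) (nat_lit 304) (nat_lit 0) (XT.lf (nat_lit 0) (nat_lit 9206974836) (nat_lit 304) (nat_lit 2647058268) (nat_lit 380) (nat_lit 1443402855) (nat_lit 96) (nat_lit 5) (nat_lit 100) (nat_lit 5) (nat_lit 101) (nat_lit 5) (nat_lit 339) (nat_lit 301) (nat_lit 260)) (XT.lf (nat_lit 0) (nat_lit 4099700219) (nat_lit 304) (nat_lit 4701023197) (nat_lit 76) (nat_lit 4904114958) (nat_lit 92) (nat_lit 5) (nat_lit 96) (nat_lit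 5) (nat_lit 93) (nat_lit 5) (nat_lit 340) (nat_lit 301) (nat_lit 259)))))) (XT.nd (nat_lit 468) (nat_lit 1140) (nat_lit 0) (XT.nd (nat_lit 234) (nat_lit 684) (nat_lit 0) (XT.nd (nat_lit 78) (nat_lit 532) (nat_lit 0) (XT.lf (nat_lit 0) (nat_lit 8700893603) (nat_lit 304) (nat_lit 1255965897) (nat_lit 380) (nat_lit 4173350582) (nat_lit 88) (nat_lit 5) (nat_lit 92) (nat_lit 5) (nat_lit 93) (nat_lit 5) (nat_lit 341) (nat_lit 301) (nat_lit 258)) (XT.nd (nat_lit 78) (nat_lit 228) (nat_lit 0) (XT.lf (nat_lit 0) (nat_lit 1609572552) (nat_lit 304) (nat_lit 6329405082) (nat_lit 76) (nat_lit 6634177629) (nat_lit 84) (nat_lit 5) (nat_lit 88) (nat_lit 5) (nat_lit 85) (nat_lit 5) (nat_lit 342) (nat_lit 301) (nat_lit 257)) (XT.lf (nat_lit 0) (nat_lit 7640871502) (nat_lit 228) (nat_lit 15770561) (nat_lit 304) (nat_lit 7378553537) (nat_lit 81) (nat_lit 5) (nat_lit 84) (nat_lit 5) (nat_lit 85) (nat_lit 5) (nat_lit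 343) (nat_lit 301) (nat_lit 256)))) (XT.nd (nat_lit 78) (nat_lit 456) (nat_lit 0) (XT.lf (nat_lit 0) (nat_lit 6848261435) (nat_lit 228) (nat_lit 7289432140) (nat_lit 304) (nat_lit 1378721094) (nat_lit 78) (nat_lit 5) (nat_lit 81) (nat_lit 5) (nat_lit 82) (nat_lit 5) (nat_lit 344) (nat_lit 301) (nat_lit 255)) (XT.nd (nat_lit 78) (nat_lit 152) (nat_lit 0) (XT.lf (nat_lit 0) (nat_lit 4890192302) (nat_lit 304) (nat_lit 10149997625) (nat_lit 76) (nat_lit 978155735) (nat_lit 74) (nat_lit 5) (nat_lit 78) (nat_lit 5) (nat_lit 75) (nat_lit 5) (nat_lit 345) (nat_lit 301) (nat_lit 254)) (XT.lf (nat_lit 0) (nat_lit 4647882809) (nat_lit 152) (nat_lit 6928859101) (nat_lit 228) (nat_lit 4964263152) (nat_lit 72) (nat_lit 5) (nat_lit 74) (nat_lit 5) (nat_lit 75) (nat_lit 5) (nat_lit 346) (nat_lit 301) (nat_lit 253))))) (XT.nd (nat_lit 234) (nat_lit 684) (nat_lit 0) (XT.nd (nat_lit 78) (nat_lit 152) (nat_lit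 0) (XT.lf (nat_lit 0) (nat_lit 1557101388) (nat_lit 304) (nat_lit 13867572771) (nat_lit 76) (nat_lit 1662348188) (nat_lit 68) (nat_lit 5) (nat_lit 72) (nat_lit 5) (nat_lit 69) (nat_lit 5) (nat_lit 347) (nat_lit 301) (nat_lit 252)) (XT.nd (nat_lit 78) (nat_lit 0) (nat_lit 0) (XT.lf (nat_lit 0) (nat_lit 1466175601) (nat_lit 152) (nat_lit 6972028652) (nat_lit 228) (nat_lit 9216591377) (nat_lit 66) (nat_lit 5) (nat_lit 68) (nat_lit 5) (nat_lit 69) (nat_lit 5) (nat_lit 348) (nat_lit 301) (nat_lit 251)) (XT.lf (nat_lit 0) (nat_lit 15755400647) (nat_lit 228) (nat_lit 528880673) (nat_lit 76) (nat_lit 1963933991) (nat_lit 66) (nat_lit 5) (nat_lit 69) (nat_lit 5) (nat_lit 67) (nat_lit 5) (nat_lit 349) (nat_lit 301) (nat_lit 250)))) (XT.nd (nat_lit 78) (nat_lit 380) (nat_lit 0) (XT.lf (nat_lit 0) (nat_lit 4637088554) (nat_lit 304) (nat_lit 2868760354) (nat_lit 76) (nat_lit 11359385686) (nat_lit 62) (nat_lit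 5) (nat_lit 66) (nat_lit 5) (nat_lit 63) (nat_lit 5) (nat_lit 350) (nat_lit 301) (nat_lit 249)) (XT.nd (nat_lit 78) (nat_lit 228) (nat_lit 0) (XT.lf (nat_lit 0) (nat_lit 12164370456) (nat_lit 228) (nat_lit 5545255946) (nat_lit 76) (nat_lit 1799981469) (nat_lit 60) (nat_lit 5) (nat_lit 63) (nat_lit 5) (nat_lit 61) (nat_lit 5) (nat_lit 351) (nat_lit 301) (nat_lit 248)) (XT.lf (nat_lit 0) (nat_lit 38322073) (nat_lit 228) (nat_lit 8628470965) (nat_lit 76) (nat_lit 11514830254) (nat_lit 57) (nat_lit 5) (nat_lit 60) (nat_lit 5) (nat_lit 58) (nat_lit 5) (nat_lit 352) (nat_lit 301) (nat_lit 247))))))) (XT.nd (nat_lit 936) (nat_lit 1064) (nat_lit 0) (XT.nd (nat_lit 468) (nat_lit 608) (nat_lit 0) (XT.nd (nat_lit 234) (nat_lit 380) (nat_lit 0) (XT.nd (nat_lit 78) (nat_lit 380) (nat_lit 0) (XT.lf (nat_lit 0) (nat_lit 7729192509) (nat_lit 228) (nat_lit 12167675320) (nat_lit 76) (nat_lit 985503234) (nat_lit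 55) (nat_lit 5) (nat_lit 58) (nat_lit 5) (nat_lit 56) (nat_lit 5) (nat_lit 353) (nat_lit 301) (nat_lit 246)) (XT.nd (nat_lit 78) (nat_lit 228) (nat_lit 0) (XT.lf (nat_lit 0) (nat_lit 5400820510) (nat_lit 152) (nat_lit 10571883185) (nat_lit 228) (nat_lit 5640423558) (nat_lit 53) (nat_lit 5) (nat_lit 55) (nat_lit 5) (nat_lit 56) (nat_lit 5) (nat_lit 354) (nat_lit 301) (nat_lit 245)) (XT.lf (nat_lit 0) (nat_lit 1630093083) (nat_lit 152) (nat_lit 656494873) (nat_lit 228) (nat_lit 20090723385) (nat_lit 50) (nat_lit 5) (nat_lit 52) (nat_lit 5) (nat_lit 53) (nat_lit 5) (nat_lit 355) (nat_lit 301) (nat_lit 244)))) (XT.nd (nat_lit 78) (nat_lit 380) (nat_lit 0) (XT.lf (nat_lit 0) (nat_lit 10698464601) (nat_lit 228) (nat_lit 2726200921) (nat_lit 76) (nat_lit 9747221006) (nat_lit 50) (nat_lit 5) (nat_lit 53) (nat_lit 5) (nat_lit 51) (nat_lit 5) (nat_lit 356) (nat_lit 301) (nat_lit 243)) (XT.nd (nat_lit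 78) (nat_lit 228) (nat_lit 0) (XT.lf (nat_lit 0) (nat_lit 16411823366) (nat_lit 152) (nat_lit 3228042370) (nat_lit 228) (nat_lit 4363068517) (nat_lit 48) (nat_lit 5) (nat_lit 50) (nat_lit 5) (nat_lit 51) (nat_lit 5) (nat_lit 357) (nat_lit 301) (nat_lit 242)) (XT.lf (nat_lit 0) (nat_lit 4232385010) (nat_lit 228) (nat_lit 13162220273) (nat_lit 76) (nat_lit 7474923761) (nat_lit 45) (nat_lit 5) (nat_lit 48) (nat_lit 5) (nat_lit 46) (nat_lit 5) (nat_lit 358) (nat_lit 301) (nat_lit 241))))) (XT.nd (nat_lit 234) (nat_lit 304) (nat_lit 0) (XT.nd (nat_lit 78) (nat_lit 152) (nat_lit 0) (XT.lf (nat_lit 0) (nat_lit 6303371762) (nat_lit 152) (nat_lit 6983961727) (nat_lit 228) (nat_lit 12487235709) (nat_lit 43) (nat_lit 5) (nat_lit 45) (nat_lit 5) (nat_lit 46) (nat_lit 5) (nat_lit 359) (nat_lit 301) (nat_lit 240)) (XT.nd (nat_lit 78) (nat_lit 76) (nat_lit 0) (XT.lf (nat_lit 0) (nat_lit 167620252) (nat_lit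 76) (nat_lit 22752078967) (nat_lit 152) (nat_lit 3801431856) (nat_lit 42) (nat_lit 5) (nat_lit 43) (nat_lit 5) (nat_lit 44) (nat_lit 4) (nat_lit 360) (nat_lit 301) (nat_lit 239)) (XT.lf (nat_lit 0) (nat_lit 5437160962) (nat_lit 152) (nat_lit 6728559240) (nat_lit 76) (nat_lit 15541107578) (nat_lit 41) (nat_lit 5) (nat_lit 43) (nat_lit 5) (nat_lit 42) (nat_lit 5) (nat_lit 361) (nat_lit 301) (nat_lit 238)))) (XT.nd (nat_lit 78) (nat_lit 152) (nat_lit 0) (XT.lf (nat_lit 0) (nat_lit 14240274630) (nat_lit 152) (nat_lit 908188196) (nat_lit 228) (nat_lit 13589544031) (nat_lit 39) (nat_lit 5) (nat_lit 41) (nat_lit 5) (nat_lit 42) (nat_lit 5) (nat_lit 362) (nat_lit 301) (nat_lit 237)) (XT.nd (nat_lit 78) (nat_lit 76) (nat_lit 0) (XT.lf (nat_lit 0) (nat_lit 6515619227) (nat_lit 76) (nat_lit 19020092770) (nat_lit 152) (nat_lit 4279329649) (nat_lit 38) (nat_lit 5) (nat_lit 39) (nat_lit 5) (nat_lit 40) (nat_lit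 4) (nat_lit 363) (nat_lit 301) (nat_lit 236)) (XT.lf (nat_lit 0) (nat_lit 5502916594) (nat_lit 152) (nat_lit 2206241573) (nat_lit 76) (nat_lit 23231779308) (nat_lit 37) (nat_lit 5) (nat_lit 39) (nat_lit 5) (nat_lit 38) (nat_lit 5) (nat_lit 364) (nat_lit 301) (nat_lit 235)))))) (XT.nd (nat_lit 468) (nat_lit 532) (nat_lit 0) (XT.nd (nat_lit 234) (nat_lit 228) (nat_lit 0) (XT.nd (nat_lit 78) (nat_lit 152) (nat_lit 0) (XT.lf (nat_lit 0) (nat_lit 15879043668) (nat_lit 228) (nat_lit 11946473612) (nat_lit 76) (nat_lit 4290548823) (nat_lit 35) (nat_lit 5) (nat_lit 38) (nat_lit 5) (nat_lit 36) (nat_lit 4) (nat_lit 365) (nat_lit 301) (nat_lit 234)) (XT.nd (nat_lit 78) (nat_lit 76) (nat_lit 0) (XT.lf (nat_lit 0) (nat_lit 10407535109) (nat_lit 76) (nat_lit 16524325949) (nat_lit 152) (nat_lit 6413360488) (nat_lit 34) (nat_lit 5) (nat_lit 35) (nat_lit 5) (nat_lit 36) (nat_lit 4) (nat_lit 366) (nat_lit 301)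 (nat_lit 233)) (XT.lf (nat_lit 0) (nat_lit 3907533589) (nat_lit 152) (nat_lit 619136913) (nat_lit 76) (nat_lit 30105580103) (nat_lit 33) (nat_lit 5) (nat_lit 35) (nat_lit 5) (nat_lit 34) (nat_lit 5) (nat_lit 367) (nat_lit 301) (nat_lit 232)))) (XT.nd (nat_lit 78) (nat_lit 76) (nat_lit 0) (XT.lf (nat_lit 0) (nat_lit 14875480195) (nat_lit 228) (nat_lit 12927887301) (nat_lit 76) (nat_lit 8170455360) (nat_lit 31) (nat_lit 5) (nat_lit 34) (nat_lit 5) (nat_lit 32) (nat_lit 4) (nat_lit 368) (nat_lit 301) (nat_lit 231)) (XT.nd (nat_lit 78) (nat_lit 0) (nat_lit 0) (XT.lf (nat_lit 0) (nat_lit 10614047203) (nat_lit 76) (nat_lit 15892822809) (nat_lit 152) (nat_lit 10872158119) (nat_lit 30) (nat_lit 5) (nat_lit 31) (nat_lit 5) (nat_lit 32) (nat_lit 4) (nat_lit 369) (nat_lit 301) (nat_lit 230)) (XT.lf (nat_lit 0) (nat_lit 35533067425) (nat_lit 76) (nat_lit 3281922717) (nat_lit 152) (nat_lit 36654216) (nat_lit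 30) (nat_lit 5) (nat_lit 31) (nat_lit 5) (nat_lit 32) (nat_lit 4) (nat_lit 370) (nat_lit 301) (nat_lit 229))))) (XT.nd (nat_lit 234) (nat_lit 228) (nat_lit 0) (XT.nd (nat_lit 78) (nat_lit 76) (nat_lit 0) (XT.lf (nat_lit 0) (nat_lit 11388513044) (nat_lit 228) (nat_lit 18944096451) (nat_lit 76) (nat_lit 10053941067) (nat_lit 27) (nat_lit 5) (nat_lit 30) (nat_lit 5) (nat_lit 28) (nat_lit 4) (nat_lit 371) (nat_lit 301) (nat_lit 228)) (XT.nd (nat_lit 78) (nat_lit 0) (nat_lit 0) (XT.lf (nat_lit 0) (nat_lit 5521218994) (nat_lit 76) (nat_lit 17948005414) (nat_lit 152) (nat_lit 18526420321) (nat_lit 26) (nat_lit 5) (nat_lit 27) (nat_lit 5) (nat_lit 28) (nat_lit 4) (nat_lit 372) (nat_lit 301) (nat_lit 227)) (XT.lf (nat_lit 0) (nat_lit 31541184872) (nat_lit 76) (nat_lit 4773215607) (nat_lit 152) (nat_lit 7365984875) (nat_lit 26) (nat_lit 5) (nat_lit 27) (nat_lit 5) (nat_lit 28) (nat_lit 4) (nat_lit 373)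 (nat_lit 301) (nat_lit 226)))) (XT.nd (nat_lit 78) (nat_lit 76) (nat_lit 0) (XT.lf (nat_lit 0) (nat_lit 4453274119) (nat_lit 152) (nat_lit 31959984885) (nat_lit 76) (nat_lit 9029281094) (nat_lit 24) (nat_lit 5) (nat_lit 26) (nat_lit 5) (nat_lit 25) (nat_lit 4) (nat_lit 374) (nat_lit 301) (nat_lit 225)) (XT.nd (nat_lit 78) (nat_lit 76) (nat_lit 0) (XT.lf (nat_lit 0) (nat_lit 16854416818) (nat_lit 152) (nat_lit 6834751832) (nat_lit 76) (nat_lit 23597152266) (nat_lit 24) (nat_lit 5) (nat_lit 26) (nat_lit 5) (nat_lit 25) (nat_lit 4) (nat_lit 375) (nat_lit 301) (nat_lit 224)) (XT.lf (nat_lit 0) (nat_lit 19876500940) (nat_lit 76) (nat_lit 10159197622) (nat_lit 152) (nat_lit 19181793633) (nat_lit 23) (nat_lit 5) (nat_lit 24) (nat_lit 5) (nat_lit 25) (nat_lit 4) (nat_lit 376) (nat_lit 301) (nat_lit 223))))))))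
noncomputable def xc52 : XT := (XT.nd (nat_lit 41496) (nat_lit 0) (nat_lit 9044) (XT.nd (nat_lit 858) (nat_lit 228) (nat_lit 0) (XT.nd (nat_lit 390) (nat_lit 380) (nat_lit 0) (XT.nd (nat_lit 156) (nat_lit 76) (nat_lit 0) (XT.nd (nat_lit 78) (nat_lit 152) (nat_lit 0) (XT.lf (nat_lit 0) (nat_lit 43955699631) (nat_lit 152) (nat_lit 3273660267) (nat_lit 0) (nat_lit 4013476175) (nat_lit 23) (nat_lit 5) (nat_lit 25) (nat_lit 4) (nat_lit 23) (nat_lit 4) (nat_lit 377) (nat_lit 301) (nat_lit 222)) (XT.lf (nat_lit 0) (nat_lit 5412174220) (nat_lit 152) (nat_lit 28996677627) (nat_lit 76) (nat_lit 18949755434) (nat_lit 21) (nat_lit 5) (nat_lit 23) (nat_lit 5) (nat_lit 22) (nat_lit 4) (nat_lit 378) (nat_lit 301) (nat_lit 221))) (XT.nd (nat_lit 78) (nat_lit 76) (nat_lit 0) (XT.lf (nat_lit 0) (nat_lit 18602900608) (nat_lit 152) (nat_lit 2258710524) (nat_lit 76) (nat_lit 34716179892) (nat_lit 21) (nat_lit 5)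 (nat_lit 23) (nat_lit 5) (nat_lit 22) (nat_lit 4) (nat_lit 379) (nat_lit 301) (nat_lit 220)) (XT.nd (nat_lit 78) (nat_lit 0) (nat_lit 0) (XT.lf (nat_lit 0) (nat_lit 26278098220) (nat_lit 76) (nat_lit 6400737948) (nat_lit 152) (nat_lit 25222330698) (nat_lit 20) (nat_lit 5) (nat_lit 21) (nat_lit 5) (nat_lit 22) (nat_lit 4) (nat_lit 380) (nat_lit 301) (nat_lit 219)) (XT.lf (nat_lit 0) (nat_lit 47540135189) (nat_lit 152) (nat_lit 4185668461) (nat_lit 0) (nat_lit 8612463800) (nat_lit 20) (nat_lit 5) (nat_lit 22) (nat_lit 4) (nat_lit 20) (nat_lit 4) (nat_lit 381) (nat_lit 301) (nat_lit 218))))) (XT.nd (nat_lit 234) (nat_lit 152) (nat_lit 0) (XT.nd (nat_lit 78) (nat_lit 76) (nat_lit 0) (XT.lf (nat_lit 0) (nat_lit 525041217) (nat_lit 152) (nat_lit 37894720127) (nat_lit 76) (nat_lit 24468915425) (nat_lit 18) (nat_lit 5) (nat_lit 20) (nat_lit 5) (nat_lit 19) (nat_lit 4) (nat_lit 382) (nat_lit 301) (nat_lit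 217)) (XT.nd (nat_lit 78) (nat_lit 76) (nat_lit 0) (XT.lf (nat_lit 0) (nat_lit 14271080475) (nat_lit 152) (nat_lit 10021577015) (nat_lit 76) (nat_lit 41269508472) (nat_lit 18) (nat_lit 5) (nat_lit 20) (nat_lit 5) (nat_lit 19) (nat_lit 4) (nat_lit 383) (nat_lit 301) (nat_lit 216)) (XT.lf (nat_lit 0) (nat_lit 19582886380) (nat_lit 76) (nat_lit 9286365873) (nat_lit 152) (nat_lit 39495134917) (nat_lit 17) (nat_lit 5) (nat_lit 18) (nat_lit 5) (nat_lit 19) (nat_lit 4) (nat_lit 384) (nat_lit 301) (nat_lit 215)))) (XT.nd (nat_lit 78) (nat_lit 152) (nat_lit 0) (XT.lf (nat_lit 0) (nat_lit 44340803876) (nat_lit 152) (nat_lit 20533529089) (nat_lit 0) (nat_lit 6428084693) (nat_lit 17) (nat_lit 5) (nat_lit 19) (nat_lit 4) (nat_lit 17) (nat_lit 4) (nat_lit 385) (nat_lit 301) (nat_lit 214)) (XT.nd (nat_lit 78) (nat_lit 76) (nat_lit 0) (XT.lf (nat_lit 0) (nat_lit 9170458766) (nat_lit 76) (nat_lit 51575537471)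 (nat_lit 76) (nat_lit 13636553783) (nat_lit 16) (nat_lit 4) (nat_lit 17) (nat_lit 5) (nat_lit 17) (nat_lit 4) (nat_lit 386) (nat_lit 301) (nat_lit 213)) (XT.lf (nat_lit 0) (nat_lit 539924383) (nat_lit 152) (nat_lit 36867951003) (nat_lit 76) (nat_lit 40202950747) (nat_lit 15) (nat_lit 5) (nat_lit 17) (nat_lit 5) (nat_lit 16) (nat_lit 4) (nat_lit 387) (nat_lit 301) (nat_lit 212)))))) (XT.nd (nat_lit 40170) (nat_lit 0) (nat_lit 24776) (XT.nd (nat_lit 234) (nat_lit 152) (nat_lit 0) (XT.nd (nat_lit 78) (nat_lit 76) (nat_lit 0) (XT.lf (nat_lit 0) (nat_lit 15125461754) (nat_lit 152) (nat_lit 7283132820) (nat_lit 76) (nat_lit 58588405189) (nat_lit 15) (nat_lit 5) (nat_lit 17) (nat_lit 5) (nat_lit 16) (nat_lit 4) (nat_lit 388) (nat_lit 301) (nat_lit 211)) (XT.nd (nat_lit 78) (nat_lit 0) (nat_lit 0) (XT.lf (nat_lit 0) (nat_lit 24216436126) (nat_lit 76) (nat_lit 6437231152) (nat_lit 152) (nat_lit 53892414939)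 (nat_lit 14) (nat_lit 5) (nat_lit 15) (nat_lit 5) (nat_lit 16) (nat_lit 4) (nat_lit 389) (nat_lit 301) (nat_lit 210)) (XT.lf (nat_lit 0) (nat_lit 47114343729) (nat_lit 152) (nat_lit 30963636088) (nat_lit 0) (nat_lit 10189958949) (nat_lit 14) (nat_lit 5) (nat_lit 16) (nat_lit 4) (nat_lit 14) (nat_lit 4) (nat_lit 390) (nat_lit 301) (nat_lit 209)))) (XT.nd (nat_lit 78) (nat_lit 152) (nat_lit 0) (XT.lf (nat_lit 0) (nat_lit 64444950989) (nat_lit 152) (nat_lit 228945283) (nat_lit 0) (nat_lit 27500586668) (nat_lit 14) (nat_lit 5) (nat_lit 16) (nat_lit 4) (nat_lit 14) (nat_lit 4) (nat_lit 391) (nat_lit 301) (nat_lit 208)) (XT.nd (nat_lit 78) (nat_lit 76) (nat_lit 0) (XT.lf (nat_lit 0) (nat_lit 32646534231) (nat_lit 76) (nat_lit 50292158031) (nat_lit 76) (nat_lit 13328765576) (nat_lit 13) (nat_lit 4) (nat_lit 14) (nat_lit 5) (nat_lit 14) (nat_lit 4) (nat_lit 392) (nat_lit 301) (nat_lit 207)) (XT.lf (nat_lit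 0) (nat_lit 1742580056) (nat_lit 152) (nat_lit 33444076973) (nat_lit 76) (nat_lit 65378343868) (nat_lit 12) (nat_lit 5) (nat_lit 14) (nat_lit 5) (nat_lit 13) (nat_lit 4) (nat_lit 393) (nat_lit 301) (nat_lit 206))))) (XT.nd (nat_lit 234) (nat_lit 912) (nat_lit 0) (XT.nd (nat_lit 78) (nat_lit 760) (nat_lit 0) (XT.lf (nat_lit 0) (nat_lit 1528636677) (nat_lit 0) (nat_lit 1528636677) (nat_lit 228) (nat_lit 187217201) (nat_lit 360) (nat_lit 5) (nat_lit 360) (nat_lit 3) (nat_lit 363) (nat_lit 3) (nat_lit 302) (nat_lit 302) (nat_lit 296)) (XT.nd (nat_lit 78) (nat_lit 380) (nat_lit 0) (XT.lf (nat_lit 76) (nat_lit 1765738843) (nat_lit 0) (nat_lit 2202308549) (nat_lit 380) (nat_lit 2548241854) (nat_lit 356) (nat_lit 5) (nat_lit 355) (nat_lit 3) (nat_lit 360) (nat_lit 5) (nat_lit 303) (nat_lit 302) (nat_lit 295)) (XT.lf (nat_lit 76) (nat_lit 587713802) (nat_lit 0) (nat_lit 1108706726) (nat_lit 456) (nat_lit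 4855356257) (nat_lit 351) (nat_lit 5) (nat_lit 350) (nat_lit 5) (nat_lit 356) (nat_lit 5) (nat_lit 304) (nat_lit 302) (nat_lit 294)))) (XT.nd (nat_lit 78) (nat_lit 988) (nat_lit 0) (XT.lf (nat_lit 0) (nat_lit 5882577092) (nat_lit 380) (nat_lit 478730129) (nat_lit 456) (nat_lit 233793674) (nat_lit 351) (nat_lit 5) (nat_lit 356) (nat_lit 5) (nat_lit 357) (nat_lit 5) (nat_lit 305) (nat_lit 302) (nat_lit 293)) (XT.nd (nat_lit 78) (nat_lit 532) (nat_lit 0) (XT.lf (nat_lit 0) (nat_lit 3370160685) (nat_lit 456) (nat_lit 1457409503) (nat_lit 532) (nat_lit 1818118386) (nat_lit 345) (nat_lit 5) (nat_lit 351) (nat_lit 5) (nat_lit 352) (nat_lit 5) (nat_lit 306) (nat_lit 302) (nat_lit 292)) (XT.lf (nat_lit 0) (nat_lit 722795617) (nat_lit 532) (nat_lit 2333920115) (nat_lit 608) (nat_lit 3647916988) (nat_lit 338) (nat_lit 5) (nat_lit 345) (nat_lit 5) (nat_lit 346) (nat_lit 5) (nat_lit 307) (nat_lit 302) (nat_lit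 291))))))) (XT.nd (nat_lit 936) (nat_lit 6004) (nat_lit 0) (XT.nd (nat_lit 468) (nat_lit 6156) (nat_lit 0) (XT.nd (nat_lit 234) (nat_lit 2432) (nat_lit 0) (XT.nd (nat_lit 78) (nat_lit 1140) (nat_lit 0) (XT.lf (nat_lit 76) (nat_lit 3641619754) (nat_lit 0) (nat_lit 1022847873) (nat_lit 608) (nat_lit 2106974604) (nat_lit 339) (nat_lit 5) (nat_lit 338) (nat_lit 5) (nat_lit 346) (nat_lit 5) (nat_lit 308) (nat_lit 302) (nat_lit 290)) (XT.nd (nat_lit 78) (nat_lit 608) (nat_lit 0) (XT.lf (nat_lit 0) (nat_lit 1756662154) (nat_lit 608) (nat_lit 3846625502) (nat_lit 76) (nat_lit 1242948865) (nat_lit 331) (nat_lit 5) (nat_lit 339) (nat_lit 5) (nat_lit 332) (nat_lit 5) (nat_lit 309) (nat_lit 302) (nat_lit 289)) (XT.lf (nat_lit 0) (nat_lit 2438166483) (nat_lit 608) (nat_lit 3176712203) (nat_lit 684) (nat_lit 1314116125) (nat_lit 323) (nat_lit 5) (nat_lit 331) (nat_lit 5) (nat_lit 332) (nat_lit 5) (nat_lit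 310) (nat_lit 302) (nat_lit 288)))) (XT.nd (nat_lit 78) (nat_lit 1672) (nat_lit 0) (XT.lf (nat_lit 0) (nat_lit 1960622923) (nat_lit 684) (nat_lit 481708451) (nat_lit 760) (nat_lit 4577661815) (nat_lit 313) (nat_lit 5) (nat_lit 322) (nat_lit 5) (nat_lit 323) (nat_lit 5) (nat_lit 311) (nat_lit 302) (nat_lit 287)) (XT.nd (nat_lit 78) (nat_lit 912) (nat_lit 0) (XT.lf (nat_lit 0) (nat_lit 1551203624) (nat_lit 760) (nat_lit 4687061455) (nat_lit 836) (nat_lit 880696348) (nat_lit 303) (nat_lit 5) (nat_lit 313) (nat_lit 5) (nat_lit 314) (nat_lit 5) (nat_lit 312) (nat_lit 302) (nat_lit 286)) (XT.lf (nat_lit 0) (nat_lit 1209351516) (nat_lit 836) (nat_lit 1602913641) (nat_lit 912) (nat_lit 4413818446) (nat_lit 291) (nat_lit 5) (nat_lit 302) (nat_lit 5) (nat_lit 303) (nat_lit 5) (nat_lit 313) (nat_lit 302) (nat_lit 285))))) (XT.nd (nat_lit 234) (nat_lit 3116) (nat_lit 0) (XT.nd (nat_lit 78) (nat_lit 2128)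 (nat_lit 0) (XT.lf (nat_lit 0) (nat_lit 939463056) (nat_lit 912) (nat_lit 5624033348) (nat_lit 988) (nat_lit 778203386) (nat_lit 279) (nat_lit 5) (nat_lit 291) (nat_lit 5) (nat_lit 292) (nat_lit 5) (nat_lit 314) (nat_lit 302) (nat_lit 284)) (XT.nd (nat_lit 78) (nat_lit 1064) (nat_lit 0) (XT.lf (nat_lit 0) (nat_lit 718166210) (nat_lit 988) (nat_lit 2162039077) (nat_lit 1064) (nat_lit 4585148428) (nat_lit 265) (nat_lit 5) (nat_lit 278) (nat_lit 5) (nat_lit 279) (nat_lit 5) (nat_lit 315) (nat_lit 302) (nat_lit 283)) (XT.lf (nat_lit 0) (nat_lit 564521301) (nat_lit 1064) (nat_lit 6049487144) (nat_lit 1140) (nat_lit 983829802) (nat_lit 251) (nat_lit 5) (nat_lit 265) (nat_lit 5) (nat_lit 266) (nat_lit 5) (nat_lit 316) (nat_lit 302) (nat_lit 282)))) (XT.nd (nat_lit 78) (nat_lit 1900) (nat_lit 0) (XT.lf (nat_lit 0) (nat_lit 449320666) (nat_lit 1140) (nat_lit 2217364355) (nat_lit 1216) (nat_lit 5071869467)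 (nat_lit 235) (nat_lit 5) (nat_lit 250) (nat_lit 5) (nat_lit 251) (nat_lit 5) (nat_lit 317) (nat_lit 302) (nat_lit 281)) (XT.nd (nat_lit 78) (nat_lit 684) (nat_lit 0) (XT.lf (nat_lit 0) (nat_lit 389849137) (nat_lit 1216) (nat_lit 6018244890) (nat_lit 1292) (nat_lit 1480178685) (nat_lit 219) (nat_lit 5) (nat_lit 235) (nat_lit 5) (nat_lit 236) (nat_lit 5) (nat_lit 318) (nat_lit 302) (nat_lit 280)) (XT.lf (nat_lit 0) (nat_lit 366544895) (nat_lit 608) (nat_lit 1820543569) (nat_lit 684) (nat_lit 5859617531) (nat_lit 210) (nat_lit 5) (nat_lit 218) (nat_lit 5) (nat_lit 219) (nat_lit 5) (nat_lit 319) (nat_lit 302) (nat_lit 279)))))) (XT.nd (nat_lit 468) (nat_lit 2736) (nat_lit 0) (XT.nd (nat_lit 234) (nat_lit 1520) (nat_lit 0) (XT.nd (nat_lit 78) (nat_lit 1216) (nat_lit 0) (XT.lf (nat_lit 0) (nat_lit 379852641) (nat_lit 532) (nat_lit 5579242075) (nat_lit 608) (nat_lit 2255072479) (nat_lit 203) (nat_lit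 5) (nat_lit 210) (nat_lit 5) (nat_lit 211) (nat_lit 5) (nat_lit 320) (nat_lit 302) (nat_lit 278)) (XT.nd (nat_lit 78) (nat_lit 532) (nat_lit 0) (XT.lf (nat_lit 0) (nat_lit 434067821) (nat_lit 608) (nat_lit 1017728044) (nat_lit 684) (nat_lit 6939303678) (nat_lit 194) (nat_lit 5) (nat_lit 202) (nat_lit 5) (nat_lit 203) (nat_lit 5) (nat_lit 321) (nat_lit 302) (nat_lit 277)) (XT.lf (nat_lit 0) (nat_lit 498884309) (nat_lit 532) (nat_lit 4776609557) (nat_lit 608) (nat_lit 3301464032) (nat_lit 187) (nat_lit 5) (nat_lit 194) (nat_lit 5) (nat_lit 195) (nat_lit 5) (nat_lit 322) (nat_lit 302) (nat_lit 276)))) (XT.nd (nat_lit 78) (nat_lit 912) (nat_lit 0) (XT.lf (nat_lit 0) (nat_lit 467664522) (nat_lit 608) (nat_lit 8159139730) (nat_lit 76) (nat_lit 146456102) (nat_lit 179) (nat_lit 5) (nat_lit 187) (nat_lit 5) (nat_lit 180) (nat_lit 5) (nat_lit 323) (nat_lit 302) (nat_lit 275)) (XT.nd (nat_lit 78) (nat_lit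 456) (nat_lit 0) (XT.lf (nat_lit 0) (nat_lit 710201498) (nat_lit 456) (nat_lit 3650708020) (nat_lit 532) (nat_lit 4617451455) (nat_lit 173) (nat_lit 5) (nat_lit 179) (nat_lit 5) (nat_lit 180) (nat_lit 5) (nat_lit 324) (nat_lit 302) (nat_lit 274)) (XT.lf (nat_lit 0) (nat_lit 849379583) (nat_lit 456) (nat_lit 7576683316) (nat_lit 532) (nat_lit 768414297) (nat_lit 167) (nat_lit 5) (nat_lit 173) (nat_lit 5) (nat_lit 174) (nat_lit 5) (nat_lit 325) (nat_lit 302) (nat_lit 273))))) (XT.nd (nat_lit 234) (nat_lit 1292) (nat_lit 0) (XT.nd (nat_lit 78) (nat_lit 912) (nat_lit 0) (XT.lf (nat_lit 0) (nat_lit 974847548) (nat_lit 456) (nat_lit 2239135986) (nat_lit 532) (nat_lit 6206400546) (nat_lit 160) (nat_lit 5) (nat_lit 166) (nat_lit 5) (nat_lit 167) (nat_lit 5) (nat_lit 326) (nat_lit 302) (nat_lit 272)) (XT.nd (nat_lit 78) (nat_lit 456) (nat_lit 0) (XT.lf (nat_lit 0) (nat_lit 1109956177) (nat_lit 456) (nat_lit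 6276592003) (nat_lit 532) (nat_lit 2270670366) (nat_lit 154) (nat_lit 5) (nat_lit 160) (nat_lit 5) (nat_lit 161) (nat_lit 5) (nat_lit 327) (nat_lit 302) (nat_lit 271)) (XT.lf (nat_lit 0) (nat_lit 1250428511) (nat_lit 380) (nat_lit 577732578) (nat_lit 456) (nat_lit 8077180825) (nat_lit 148) (nat_lit 5) (nat_lit 153) (nat_lit 5) (nat_lit 154) (nat_lit 5) (nat_lit 328) (nat_lit 302) (nat_lit 270)))) (XT.nd (nat_lit 78) (nat_lit 836) (nat_lit 0) (XT.lf (nat_lit 0) (nat_lit 1356082692) (nat_lit 456) (nat_lit 4767442855) (nat_lit 532) (nat_lit 4040575329) (nat_lit 142) (nat_lit 5) (nat_lit 148) (nat_lit 5) (nat_lit 149) (nat_lit 5) (nat_lit 329) (nat_lit 302) (nat_lit 269)) (XT.nd (nat_lit 78) (nat_lit 380) (nat_lit 0) (XT.lf (nat_lit 0) (nat_lit 203833287) (nat_lit 456) (nat_lit 8958601783) (nat_lit 76) (nat_lit 1273066539) (nat_lit 136) (nat_lit 5) (nat_lit 142) (nat_lit 5) (nat_lit 137) (nat_lit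 5) (nat_lit 330) (nat_lit 302) (nat_lit 268)) (XT.lf (nat_lit 0) (nat_lit 1537703199) (nat_lit 380) (nat_lit 3085351944) (nat_lit 456) (nat_lit 6094885559) (nat_lit 131) (nat_lit 5) (nat_lit 136) (nat_lit 5) (nat_lit 137) (nat_lit 5) (nat_lit 331) (nat_lit 302) (nat_lit 267))))))))
noncomputable def xc53 : XT := (XT.nd (nat_lit 1794) (nat_lit 2432) (nat_lit 0) (XT.nd (nat_lit 858) (nat_lit 2508) (nat_lit 0) (XT.nd (nat_lit 390) (nat_lit 1520) (nat_lit 0) (XT.nd (nat_lit 156) (nat_lit 988) (nat_lit 0) (XT.nd (nat_lit 78) (nat_lit 456) (nat_lit 0) (XT.lf (nat_lit 0) (nat_lit 1589122936) (nat_lit 304) (nat_lit 7708617307) (nat_lit 380) (nat_lit 1715777143) (nat_lit 127) (nat_lit 5) (nat_lit 131) (nat_lit 5) (nat_lit 132) (nat_lit 5) (nat_lit 332) (nat_lit 302) (nat_lit 266)) (XT.lf (nat_lit 0) (nat_lit 1597573830) (nat_lit 380) (nat_lit 1267449575) (nat_lit 456) (nat_lit 8456895774) (nat_lit 121)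 (nat_lit 5) (nat_lit 126) (nat_lit 5) (nat_lit 127) (nat_lit 5) (nat_lit 333) (nat_lit 302) (nat_lit 265))) (XT.nd (nat_lit 78) (nat_lit 684) (nat_lit 0) (XT.lf (nat_lit 0) (nat_lit 1543593936) (nat_lit 304) (nat_lit 6162016638) (nat_lit 380) (nat_lit 3937678554) (nat_lit 117) (nat_lit 5) (nat_lit 121) (nat_lit 5) (nat_lit 122) (nat_lit 5) (nat_lit 334) (nat_lit 302) (nat_lit 264)) (XT.nd (nat_lit 78) (nat_lit 304) (nat_lit 0) (XT.lf (nat_lit 0) (nat_lit 828677604) (nat_lit 380) (nat_lit 10516421723) (nat_lit 76) (nat_lit 634328606) (nat_lit 112) (nat_lit 5) (nat_lit 117) (nat_lit 5) (nat_lit 113) (nat_lit 5) (nat_lit 335) (nat_lit 302) (nat_lit 263)) (XT.lf (nat_lit 0) (nat_lit 1270828810) (nat_lit 304) (nat_lit 4566911023) (nat_lit 380) (nat_lit 6490928790) (nat_lit 108) (nat_lit 5) (nat_lit 112) (nat_lit 5) (nat_lit 113) (nat_lit 5) (nat_lit 336) (nat_lit 302) (nat_lit 262))))) (XT.nd (nat_lit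 234) (nat_lit 608) (nat_lit 0) (XT.nd (nat_lit 78) (nat_lit 608) (nat_lit 0) (XT.lf (nat_lit 0) (nat_lit 1034585323) (nat_lit 304) (nat_lit 10114935499) (nat_lit 380) (nat_lit 1544320001) (nat_lit 104) (nat_lit 5) (nat_lit 108) (nat_lit 5) (nat_lit 109) (nat_lit 5) (nat_lit 337) (nat_lit 302) (nat_lit 261)) (XT.nd (nat_lit 78) (nat_lit 304) (nat_lit 0) (XT.lf (nat_lit 0) (nat_lit 686913222) (nat_lit 228) (nat_lit 2969808315) (nat_lit 304) (nat_lit 9417182663) (nat_lit 100) (nat_lit 5) (nat_lit 103) (nat_lit 5) (nat_lit 104) (nat_lit 5) (nat_lit 338) (nat_lit 302) (nat_lit 260)) (XT.lf (nat_lit 0) (nat_lit 237519148) (nat_lit 304) (nat_lit 8928980502) (nat_lit 380) (nat_lit 4303626659) (nat_lit 96) (nat_lit 5) (nat_lit 100) (nat_lit 5) (nat_lit 101) (nat_lit 5) (nat_lit 339) (nat_lit 302) (nat_lit 259)))) (XT.nd (nat_lit 78) (nat_lit 532) (nat_lit 0) (XT.lf (nat_lit 0) (nat_lit 1118869584) (nat_lit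 380) (nat_lit 301091689) (nat_lit 76) (nat_lit 12463699754) (nat_lit 95) (nat_lit 5) (nat_lit 100) (nat_lit 5) (nat_lit 96) (nat_lit 5) (nat_lit 340) (nat_lit 302) (nat_lit 258)) (XT.nd (nat_lit 78) (nat_lit 304) (nat_lit 0) (XT.lf (nat_lit 0) (nat_lit 6835618229) (nat_lit 304) (nat_lit 1007335283) (nat_lit 76) (nat_lit 6470305705) (nat_lit 92) (nat_lit 5) (nat_lit 96) (nat_lit 5) (nat_lit 93) (nat_lit 5) (nat_lit 341) (nat_lit 302) (nat_lit 257)) (XT.lf (nat_lit 0) (nat_lit 12902280919) (nat_lit 380) (nat_lit 1810879489) (nat_lit 76) (nat_lit 49282266) (nat_lit 88) (nat_lit 5) (nat_lit 93) (nat_lit 5) (nat_lit 89) (nat_lit 5) (nat_lit 342) (nat_lit 302) (nat_lit 256)))))) (XT.nd (nat_lit 468) (nat_lit 988) (nat_lit 0) (XT.nd (nat_lit 234) (nat_lit 684) (nat_lit 0) (XT.nd (nat_lit 78) (nat_lit 532) (nat_lit 0) (XT.lf (nat_lit 0) (nat_lit 4093705001) (nat_lit 304) (nat_lit 2831165310) (nat_lit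 76) (nat_lit 8304046639) (nat_lit 84) (nat_lit 5) (nat_lit 88) (nat_lit 5) (nat_lit 85) (nat_lit 5) (nat_lit 343) (nat_lit 302) (nat_lit 255)) (XT.nd (nat_lit 78) (nat_lit 304) (nat_lit 0) (XT.lf (nat_lit 0) (nat_lit 10377398003) (nat_lit 304) (nat_lit 4001296307) (nat_lit 76) (nat_lit 1337374344) (nat_lit 81) (nat_lit 5) (nat_lit 85) (nat_lit 5) (nat_lit 82) (nat_lit 5) (nat_lit 344) (nat_lit 302) (nat_lit 254)) (XT.lf (nat_lit 0) (nat_lit 865563341) (nat_lit 304) (nat_lit 5386746068) (nat_lit 76) (nat_lit 9971101755) (nat_lit 77) (nat_lit 5) (nat_lit 81) (nat_lit 5) (nat_lit 78) (nat_lit 5) (nat_lit 345) (nat_lit 302) (nat_lit 253)))) (XT.nd (nat_lit 78) (nat_lit 456) (nat_lit 0) (XT.lf (nat_lit 0) (nat_lit 7358725548) (nat_lit 304) (nat_lit 7009007585) (nat_lit 76) (nat_lit 2384149516) (nat_lit 74) (nat_lit 5) (nat_lit 78) (nat_lit 5) (nat_lit 75) (nat_lit 5) (nat_lit 346) (nat_lit 302) (nat_lit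 252)) (XT.nd (nat_lit 78) (nat_lit 304) (nat_lit 0) (XT.lf (nat_lit 0) (nat_lit 8424183640) (nat_lit 152) (nat_lit 5883579308) (nat_lit 228) (nat_lit 2995098670) (nat_lit 72) (nat_lit 5) (nat_lit 74) (nat_lit 5) (nat_lit 75) (nat_lit 5) (nat_lit 347) (nat_lit 302) (nat_lit 251)) (XT.lf (nat_lit 0) (nat_lit 3752309193) (nat_lit 304) (nat_lit 11025579459) (nat_lit 76) (nat_lit 3099383389) (nat_lit 68) (nat_lit 5) (nat_lit 72) (nat_lit 5) (nat_lit 69) (nat_lit 5) (nat_lit 348) (nat_lit 302) (nat_lit 250))))) (XT.nd (nat_lit 234) (nat_lit 380) (nat_lit 0) (XT.nd (nat_lit 78) (nat_lit 456) (nat_lit 0) (XT.lf (nat_lit 0) (nat_lit 4973515604) (nat_lit 152) (nat_lit 5936135286) (nat_lit 228) (nat_lit 7565845248) (nat_lit 66) (nat_lit 5) (nat_lit 68) (nat_lit 5) (nat_lit 69) (nat_lit 5) (nat_lit 349) (nat_lit 302) (nat_lit 249)) (XT.nd (nat_lit 78) (nat_lit 228) (nat_lit 0) (XT.lf (nat_lit 0) (nat_lit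 2816552457) (nat_lit 228) (nat_lit 15718306966) (nat_lit 304) (nat_lit 565489153) (nat_lit 63) (nat_lit 5) (nat_lit 66) (nat_lit 5) (nat_lit 67) (nat_lit 5) (nat_lit 350) (nat_lit 302) (nat_lit 248)) (XT.lf (nat_lit 0) (nat_lit 253307802) (nat_lit 152) (nat_lit 6539425613) (nat_lit 228) (nat_lit 12957562060) (nat_lit 60) (nat_lit 5) (nat_lit 62) (nat_lit 5) (nat_lit 63) (nat_lit 5) (nat_lit 351) (nat_lit 302) (nat_lit 247)))) (XT.nd (nat_lit 78) (nat_lit 380) (nat_lit 0) (XT.lf (nat_lit 0) (nat_lit 14645457143) (nat_lit 228) (nat_lit 2611707469) (nat_lit 76) (nat_lit 3171273667) (nat_lit 60) (nat_lit 5) (nat_lit 63) (nat_lit 5) (nat_lit 61) (nat_lit 5) (nat_lit 352) (nat_lit 302) (nat_lit 246)) (XT.nd (nat_lit 78) (nat_lit 152) (nat_lit 0) (XT.lf (nat_lit 0) (nat_lit 1872291997) (nat_lit 228) (nat_lit 5904230058) (nat_lit 76) (nat_lit 13358791809) (nat_lit 57) (nat_lit 5) (nat_lit 60) (nat_lit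 5) (nat_lit 58) (nat_lit 5) (nat_lit 353) (nat_lit 302) (nat_lit 245)) (XT.lf (nat_lit 0) (nat_lit 9902339160) (nat_lit 228) (nat_lit 9669623444) (nat_lit 76) (nat_lit 2300517850) (nat_lit 55) (nat_lit 5) (nat_lit 58) (nat_lit 5) (nat_lit 56) (nat_lit 5) (nat_lit 354) (nat_lit 302) (nat_lit 244))))))) (XT.nd (nat_lit 936) (nat_lit 912) (nat_lit 0) (XT.nd (nat_lit 468) (nat_lit 608) (nat_lit 0) (XT.nd (nat_lit 234) (nat_lit 532) (nat_lit 0) (XT.nd (nat_lit 78) (nat_lit 228) (nat_lit 0) (XT.lf (nat_lit 0) (nat_lit 8688251823) (nat_lit 152) (nat_lit 9813698749) (nat_lit 228) (nat_lit 4139525597) (nat_lit 53) (nat_lit 5) (nat_lit 55) (nat_lit 5) (nat_lit 56) (nat_lit 5) (nat_lit 355) (nat_lit 302) (nat_lit 243)) (XT.nd (nat_lit 78) (nat_lit 0) (nat_lit 0) (XT.lf (nat_lit 0) (nat_lit 4099901017) (nat_lit 228) (nat_lit 18773957529) (nat_lit 76) (nat_lit 570989078) (nat_lit 50) (nat_lit 5) (nat_lit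 53) (nat_lit 5) (nat_lit 51) (nat_lit 5) (nat_lit 356) (nat_lit 302) (nat_lit 242)) (XT.lf (nat_lit 0) (nat_lit 12857778140) (nat_lit 228) (nat_lit 1562890) (nat_lit 76) (nat_lit 11422065473) (nat_lit 50) (nat_lit 5) (nat_lit 53) (nat_lit 5) (nat_lit 51) (nat_lit 5) (nat_lit 357) (nat_lit 302) (nat_lit 241)))) (XT.nd (nat_lit 78) (nat_lit 380) (nat_lit 0) (XT.lf (nat_lit 0) (nat_lit 20011354109) (nat_lit 152) (nat_lit 2184256171) (nat_lit 228) (nat_lit 2959931823) (nat_lit 48) (nat_lit 5) (nat_lit 50) (nat_lit 5) (nat_lit 51) (nat_lit 5) (nat_lit 358) (nat_lit 302) (nat_lit 240)) (XT.nd (nat_lit 78) (nat_lit 152) (nat_lit 0) (XT.lf (nat_lit 0) (nat_lit 5995645073) (nat_lit 228) (nat_lit 11054943782) (nat_lit 76) (nat_lit 9015565683) (nat_lit 45) (nat_lit 5) (nat_lit 48) (nat_lit 5) (nat_lit 46) (nat_lit 5) (nat_lit 359) (nat_lit 302) (nat_lit 239)) (XT.lf (nat_lit 0) (nat_lit 9304658578) (nat_lit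 152) (nat_lit 6150615352) (nat_lit 228) (nat_lit 11562629149) (nat_lit 43) (nat_lit 5) (nat_lit 45) (nat_lit 5) (nat_lit 46) (nat_lit 5) (nat_lit 360) (nat_lit 302) (nat_lit 238))))) (XT.nd (nat_lit 234) (nat_lit 304) (nat_lit 0) (XT.nd (nat_lit 78) (nat_lit 228) (nat_lit 0) (XT.lf (nat_lit 0) (nat_lit 2818174308) (nat_lit 76) (nat_lit 22715709111) (nat_lit 152) (nat_lit 2478984552) (nat_lit 42) (nat_lit 5) (nat_lit 43) (nat_lit 5) (nat_lit 44) (nat_lit 4) (nat_lit 361) (nat_lit 302) (nat_lit 237)) (XT.nd (nat_lit 78) (nat_lit 152) (nat_lit 0) (XT.lf (nat_lit 0) (nat_lit 7121403968) (nat_lit 152) (nat_lit 4520269636) (nat_lit 76) (nat_lit 17407870959) (nat_lit 41) (nat_lit 5) (nat_lit 43) (nat_lit 5) (nat_lit 42) (nat_lit 5) (nat_lit 362) (nat_lit 302) (nat_lit 236)) (XT.lf (nat_lit 0) (nat_lit 17276209742) (nat_lit 228) (nat_lit 12710972462) (nat_lit 76) (nat_lit 146374275) (nat_lit 39) (nat_lit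 5) (nat_lit 42) (nat_lit 5) (nat_lit 40) (nat_lit 4) (nat_lit 363) (nat_lit 302) (nat_lit 235)))) (XT.nd (nat_lit 78) (nat_lit 228) (nat_lit 0) (XT.lf (nat_lit 0) (nat_lit 9272146920) (nat_lit 76) (nat_lit 18877516824) (nat_lit 152) (nat_lit 3115785470) (nat_lit 38) (nat_lit 5) (nat_lit 39) (nat_lit 5) (nat_lit 40) (nat_lit 4) (nat_lit 364) (nat_lit 302) (nat_lit 234)) (XT.nd (nat_lit 78) (nat_lit 0) (nat_lit 0) (XT.lf (nat_lit 0) (nat_lit 24738389) (nat_lit 152) (nat_lit 7039876566) (nat_lit 228) (nat_lit 25384560584) (nat_lit 35) (nat_lit 5) (nat_lit 37) (nat_lit 5) (nat_lit 38) (nat_lit 5) (nat_lit 365) (nat_lit 302) (nat_lit 233)) (XT.lf (nat_lit 0) (nat_lit 17929783954) (nat_lit 228) (nat_lit 10242347307) (nat_lit 76) (nat_lit 5511832377) (nat_lit 35) (nat_lit 5) (nat_lit 38) (nat_lit 5) (nat_lit 36) (nat_lit 4) (nat_lit 366) (nat_lit 302) (nat_lit 232)))))) (XT.nd (nat_lit 468) (nat_lit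 304) (nat_lit 0) (XT.nd (nat_lit 234) (nat_lit 304) (nat_lit 0) (XT.nd (nat_lit 78) (nat_lit 228) (nat_lit 0) (XT.lf (nat_lit 0) (nat_lit 13163391248) (nat_lit 76) (nat_lit 16333492708) (nat_lit 152) (nat_lit 5478853268) (nat_lit 34) (nat_lit 5) (nat_lit 35) (nat_lit 5) (nat_lit 36) (nat_lit 4) (nat_lit 367) (nat_lit 302) (nat_lit 231)) (XT.nd (nat_lit 78) (nat_lit 0) (nat_lit 0) (XT.lf (nat_lit 0) (nat_lit 1532340358) (nat_lit 152) (nat_lit 3757378040) (nat_lit 228) (nat_lit 31038362497) (nat_lit 31) (nat_lit 5) (nat_lit 33) (nat_lit 5) (nat_lit 34) (nat_lit 5) (nat_lit 368) (nat_lit 302) (nat_lit 230)) (XT.lf (nat_lit 0) (nat_lit 16764792555) (nat_lit 228) (nat_lit 11458365445) (nat_lit 76) (nat_lit 9514820328) (nat_lit 31) (nat_lit 5) (nat_lit 34) (nat_lit 5) (nat_lit 32) (nat_lit 4) (nat_lit 369) (nat_lit 302) (nat_lit 229)))) (XT.nd (nat_lit 78) (nat_lit 228) (nat_lit 0) (XT.lf (nat_lit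 0) (nat_lit 13200013470) (nat_lit 76) (nat_lit 15742945401) (nat_lit 152) (nat_lit 10271536858) (nat_lit 30) (nat_lit 5) (nat_lit 31) (nat_lit 5) (nat_lit 32) (nat_lit 4) (nat_lit 370) (nat_lit 302) (nat_lit 228)) (XT.nd (nat_lit 78) (nat_lit 152) (nat_lit 0) (XT.lf (nat_lit 0) (nat_lit 1030741362) (nat_lit 152) (nat_lit 1505327548) (nat_lit 76) (nat_lit 38225965164) (nat_lit 29) (nat_lit 5) (nat_lit 31) (nat_lit 5) (nat_lit 30) (nat_lit 5) (nat_lit 371) (nat_lit 302) (nat_lit 227)) (XT.lf (nat_lit 0) (nat_lit 13002529259) (nat_lit 228) (nat_lit 17946507655) (nat_lit 76) (nat_lit 11425361287) (nat_lit 27) (nat_lit 5) (nat_lit 30) (nat_lit 5) (nat_lit 28) (nat_lit 4) (nat_lit 372) (nat_lit 302) (nat_lit 226))))) (XT.nd (nat_lit 234) (nat_lit 76) (nat_lit 0) (XT.nd (nat_lit 78) (nat_lit 152) (nat_lit 0) (XT.lf (nat_lit 0) (nat_lit 7686326444) (nat_lit 76) (nat_lit 17969366011) (nat_lit 152) (nat_lit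 18409208905) (nat_lit 26) (nat_lit 5) (nat_lit 27) (nat_lit 5) (nat_lit 28) (nat_lit 4) (nat_lit 373) (nat_lit 302) (nat_lit 225)) (XT.nd (nat_lit 78) (nat_lit 152) (nat_lit 0) (XT.lf (nat_lit 0) (nat_lit 34917336020) (nat_lit 76) (nat_lit 4177552888) (nat_lit 152) (nat_lit 6740443706) (nat_lit 26) (nat_lit 5) (nat_lit 27) (nat_lit 5) (nat_lit 28) (nat_lit 4) (nat_lit 374) (nat_lit 302) (nat_lit 224)) (XT.lf (nat_lit 0) (nat_lit 5628859412) (nat_lit 152) (nat_lit 31770930060) (nat_lit 76) (nat_lit 10286170747) (nat_lit 24) (nat_lit 5) (nat_lit 26) (nat_lit 5) (nat_lit 25) (nat_lit 4) (nat_lit 375) (nat_lit 302) (nat_lit 223)))) (XT.nd (nat_lit 78) (nat_lit 76) (nat_lit 0) (XT.lf (nat_lit 0) (nat_lit 18604682028) (nat_lit 152) (nat_lit 5474533168) (nat_lit 76) (nat_lit 25544081877) (nat_lit 24) (nat_lit 5) (nat_lit 26) (nat_lit 5) (nat_lit 25) (nat_lit 4) (nat_lit 376) (nat_lit 302) (nat_lit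 222)) (XT.nd (nat_lit 78) (nat_lit 0) (nat_lit 0) (XT.lf (nat_lit 0) (nat_lit 22523496009) (nat_lit 76) (nat_lit 9894206733) (nat_lit 152) (nat_lit 19234149334) (nat_lit 23) (nat_lit 5) (nat_lit 24) (nat_lit 5) (nat_lit 25) (nat_lit 4) (nat_lit 377) (nat_lit 302) (nat_lit 221)) (XT.lf (nat_lit 0) (nat_lit 46998864925) (nat_lit 152) (nat_lit 1844719780) (nat_lit 0) (nat_lit 4935928761) (nat_lit 23) (nat_lit 5) (nat_lit 25) (nat_lit 4) (nat_lit 23) (nat_lit 4) (nat_lit 378) (nat_lit 302) (nat_lit 220))))))))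
noncomputable def xc54 : XT := (XT.nd (nat_lit 41574) (nat_lit 0) (nat_lit 8284) (XT.nd (nat_lit 858) (nat_lit 228) (nat_lit 0) (XT.nd (nat_lit 390) (nat_lit 228) (nat_lit 0) (XT.nd (nat_lit 156) (nat_lit 228) (nat_lit 0) (XT.nd (nat_lit 78) (nat_lit 0) (nat_lit 0) (XT.lf (nat_lit 0) (nat_lit 6510992412) (nat_lit 152) (nat_lit 28882962009) (nat_lit 76) (nat_lit 20607641701) (nat_lit 21) (nat_lit 5) (nat_lit 23) (nat_lit 5) (nat_lit 22) (nat_lit 4) (nat_lit 379) (nat_lit 302) (nat_lit 219)) (XT.lf (nat_lit 0) (nat_lit 20321816573) (nat_lit 152) (nat_lit 882551290) (nat_lit 76) (nat_lit 37128558882) (nat_lit 21) (nat_lit 5) (nat_lit 23) (nat_lit 5) (nat_lit 22) (nat_lit 4) (nat_lit 380) (nat_lit 302) (nat_lit 218))) (XT.nd (nat_lit 78) (nat_lit 152) (nat_lit 0) (XT.lf (nat_lit 0) (nat_lit 29038413290) (nat_lit 76) (nat_lit 6039478880) (nat_lit 152) (nat_lit 25695293230) (nat_lit 20) (nat_lit 5)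 (nat_lit 21) (nat_lit 5) (nat_lit 22) (nat_lit 4) (nat_lit 381) (nat_lit 302) (nat_lit 217)) (XT.nd (nat_lit 78) (nat_lit 152) (nat_lit 0) (XT.lf (nat_lit 0) (nat_lit 50652059307) (nat_lit 152) (nat_lit 3001712898) (nat_lit 0) (nat_lit 9679278826) (nat_lit 20) (nat_lit 5) (nat_lit 22) (nat_lit 4) (nat_lit 20) (nat_lit 4) (nat_lit 382) (nat_lit 302) (nat_lit 216)) (XT.lf (nat_lit 0) (nat_lit 1271358877) (nat_lit 152) (nat_lit 38421747274) (nat_lit 76) (nat_lit 26318326417) (nat_lit 18) (nat_lit 5) (nat_lit 20) (nat_lit 5) (nat_lit 19) (nat_lit 4) (nat_lit 383) (nat_lit 302) (nat_lit 215))))) (XT.nd (nat_lit 234) (nat_lit 152) (nat_lit 0) (XT.nd (nat_lit 78) (nat_lit 76) (nat_lit 0) (XT.lf (nat_lit 0) (nat_lit 15670411260) (nat_lit 152) (nat_lit 9220076000) (nat_lit 76) (nat_lit 43929141248) (nat_lit 18) (nat_lit 5) (nat_lit 20) (nat_lit 5) (nat_lit 19) (nat_lit 4) (nat_lit 384) (nat_lit 302)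 (nat_lit 214)) (XT.nd (nat_lit 78) (nat_lit 0) (nat_lit 0) (XT.lf (nat_lit 0) (nat_lit 21827272375) (nat_lit 76) (nat_lit 9150725493) (nat_lit 152) (nat_lit 40784581172) (nat_lit 17) (nat_lit 5) (nat_lit 18) (nat_lit 5) (nat_lit 19) (nat_lit 4) (nat_lit 385) (nat_lit 302) (nat_lit 213)) (XT.lf (nat_lit 0) (nat_lit 47196939472) (nat_lit 152) (nat_lit 20341632215) (nat_lit 0) (nat_lit 7309728279) (nat_lit 17) (nat_lit 5) (nat_lit 19) (nat_lit 4) (nat_lit 17) (nat_lit 4) (nat_lit 386) (nat_lit 302) (nat_lit 212)))) (XT.nd (nat_lit 78) (nat_lit 76) (nat_lit 0) (XT.lf (nat_lit 0) (nat_lit 10812624873) (nat_lit 76) (nat_lit 53590711365) (nat_lit 76) (nat_lit 13679677492) (nat_lit 16) (nat_lit 4) (nat_lit 17) (nat_lit 5) (nat_lit 17) (nat_lit 4) (nat_lit 387) (nat_lit 302) (nat_lit 211)) (XT.nd (nat_lit 78) (nat_lit 0) (nat_lit 0) (XT.lf (nat_lit 0) (nat_lit 1163340187) (nat_lit 152) (nat_lit 37572141558)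 (nat_lit 76) (nat_lit 42737935240) (nat_lit 15) (nat_lit 5) (nat_lit 17) (nat_lit 5) (nat_lit 16) (nat_lit 4) (nat_lit 388) (nat_lit 302) (nat_lit 210)) (XT.lf (nat_lit 0) (nat_lit 16449753494) (nat_lit 152) (nat_lit 6562330418) (nat_lit 76) (nat_lit 62017670167) (nat_lit 15) (nat_lit 5) (nat_lit 17) (nat_lit 5) (nat_lit 16) (nat_lit 4) (nat_lit 389) (nat_lit 302) (nat_lit 209)))))) (XT.nd (nat_lit 40248) (nat_lit 0) (nat_lit 23484) (XT.nd (nat_lit 312) (nat_lit 76) (nat_lit 0) (XT.nd (nat_lit 78) (nat_lit 76) (nat_lit 0) (XT.lf (nat_lit 0) (nat_lit 26481116843) (nat_lit 76) (nat_lit 6256334281) (nat_lit 152) (nat_lit 56019349702) (nat_lit 14) (nat_lit 5) (nat_lit 15) (nat_lit 5) (nat_lit 16) (nat_lit 4) (nat_lit 390) (nat_lit 302) (nat_lit 208)) (XT.nd (nat_lit 78) (nat_lit 76) (nat_lit 0) (XT.lf (nat_lit 0) (nat_lit 49999521204) (nat_lit 152) (nat_lit 31496949711) (nat_lit 0) (nat_lit 11168930992)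 (nat_lit 14) (nat_lit 5) (nat_lit 16) (nat_lit 4) (nat_lit 14) (nat_lit 4) (nat_lit 391) (nat_lit 302) (nat_lit 207)) (XT.lf (nat_lit 0) (nat_lit 740600357) (nat_lit 76) (nat_lit 67437965178) (nat_lit 76) (nat_lit 28589252934) (nat_lit 13) (nat_lit 4) (nat_lit 14) (nat_lit 5) (nat_lit 14) (nat_lit 4) (nat_lit 392) (nat_lit 302) (nat_lit 206)))) (XT.nd (nat_lit 39780) (nat_lit 0) (nat_lit 25688) (XT.lf (nat_lit 0) (nat_lit 2300327508) (nat_lit 152) (nat_lit 34212743698) (nat_lit 76) (nat_lit 69066019258) (nat_lit 12) (nat_lit 5) (nat_lit 14) (nat_lit 5) (nat_lit 13) (nat_lit 4) (nat_lit 394) (nat_lit 302) (nat_lit 204)) (XT.nd (nat_lit 78) (nat_lit 0) (nat_lit 0) (XT.lf (nat_lit 0) (nat_lit 392474769) (nat_lit 0) (nat_lit 392474769) (nat_lit 380) (nat_lit 2488945047) (nat_lit 350) (nat_lit 5) (nat_lit 350) (nat_lit 3) (nat_lit 355) (nat_lit 3) (nat_lit 303) (nat_lit 303) (nat_lit 294)) (XT.lf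 (nat_lit 0) (nat_lit 5620882680) (nat_lit 380) (nat_lit 523397498) (nat_lit 456) (nat_lit 442715876) (nat_lit 350) (nat_lit 5) (nat_lit 355) (nat_lit 3) (nat_lit 356) (nat_lit 5) (nat_lit 304) (nat_lit 303) (nat_lit 293))))) (XT.nd (nat_lit 234) (nat_lit 1216) (nat_lit 0) (XT.nd (nat_lit 78) (nat_lit 532) (nat_lit 0) (XT.lf (nat_lit 0) (nat_lit 2980677491) (nat_lit 456) (nat_lit 1734832032) (nat_lit 532) (nat_lit 1918041496) (nat_lit 344) (nat_lit 5) (nat_lit 350) (nat_lit 5) (nat_lit 351) (nat_lit 5) (nat_lit 305) (nat_lit 303) (nat_lit 292)) (XT.nd (nat_lit 78) (nat_lit 0) (nat_lit 0) (XT.lf (nat_lit 0) (nat_lit 207692118) (nat_lit 532) (nat_lit 2843364435) (nat_lit 608) (nat_lit 3637408193) (nat_lit 337) (nat_lit 5) (nat_lit 344) (nat_lit 5) (nat_lit 345) (nat_lit 5) (nat_lit 306) (nat_lit 303) (nat_lit 291)) (XT.lf (nat_lit 76) (nat_lit 2874041885) (nat_lit 0) (nat_lit 1118877254) (nat_lit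 608) (nat_lit 2758130947) (nat_lit 338) (nat_lit 5) (nat_lit 337) (nat_lit 5) (nat_lit 345) (nat_lit 5) (nat_lit 307) (nat_lit 303) (nat_lit 290)))) (XT.nd (nat_lit 78) (nat_lit 684) (nat_lit 0) (XT.lf (nat_lit 0) (nat_lit 955689872) (nat_lit 608) (nat_lit 4824155373) (nat_lit 684) (nat_lit 1041971907) (nat_lit 330) (nat_lit 5) (nat_lit 338) (nat_lit 5) (nat_lit 339) (nat_lit 5) (nat_lit 308) (nat_lit 303) (nat_lit 289)) (XT.nd (nat_lit 78) (nat_lit 684) (nat_lit 0) (XT.lf (nat_lit 76) (nat_lit 1191735205) (nat_lit 0) (nat_lit 3448966412) (nat_lit 684) (nat_lit 2259524760) (nat_lit 331) (nat_lit 5) (nat_lit 330) (nat_lit 5) (nat_lit 339) (nat_lit 5) (nat_lit 309) (nat_lit 303) (nat_lit 288)) (XT.lf (nat_lit 76) (nat_lit 477849888) (nat_lit 0) (nat_lit 860352056) (nat_lit 760) (nat_lit 5648879969) (nat_lit 322) (nat_lit 5) (nat_lit 321) (nat_lit 5) (nat_lit 331) (nat_lit 5) (nat_lit 310) (nat_lit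 303) (nat_lit 287))))))) (XT.nd (nat_lit 936) (nat_lit 5548) (nat_lit 0) (XT.nd (nat_lit 468) (nat_lit 5320) (nat_lit 0) (XT.nd (nat_lit 234) (nat_lit 2888) (nat_lit 0) (XT.nd (nat_lit 78) (nat_lit 1520) (nat_lit 0) (XT.lf (nat_lit 0) (nat_lit 4942048838) (nat_lit 684) (nat_lit 172246951) (nat_lit 76) (nat_lit 1967299885) (nat_lit 322) (nat_lit 5) (nat_lit 331) (nat_lit 5) (nat_lit 323) (nat_lit 5) (nat_lit 311) (nat_lit 303) (nat_lit 286)) (XT.nd (nat_lit 78) (nat_lit 760) (nat_lit 0) (XT.lf (nat_lit 0) (nat_lit 1389547943) (nat_lit 760) (nat_lit 739684391) (nat_lit 76) (nat_lit 5055086016) (nat_lit 312) (nat_lit 5) (nat_lit 322) (nat_lit 5) (nat_lit 313) (nat_lit 5) (nat_lit 312) (nat_lit 303) (nat_lit 285)) (XT.lf (nat_lit 0) (nat_lit 4933283354) (nat_lit 836) (nat_lit 1246173994) (nat_lit 76) (nat_lit 1115765820) (nat_lit 302) (nat_lit 5) (nat_lit 313) (nat_lit 5) (nat_lit 303) (nat_lit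 5) (nat_lit 313) (nat_lit 303) (nat_lit 284)))) (XT.nd (nat_lit 78) (nat_lit 1976) (nat_lit 0) (XT.lf (nat_lit 0) (nat_lit 1120601435) (nat_lit 912) (nat_lit 1696404995) (nat_lit 76) (nat_lit 4597381935) (nat_lit 290) (nat_lit 5) (nat_lit 302) (nat_lit 5) (nat_lit 291) (nat_lit 5) (nat_lit 314) (nat_lit 303) (nat_lit 283)) (XT.nd (nat_lit 78) (nat_lit 1064) (nat_lit 0) (XT.lf (nat_lit 0) (nat_lit 4626953879) (nat_lit 988) (nat_lit 2092213610) (nat_lit 76) (nat_lit 822822902) (nat_lit 278) (nat_lit 5) (nat_lit 291) (nat_lit 5) (nat_lit 279) (nat_lit 5) (nat_lit 315) (nat_lit 303) (nat_lit 282)) (XT.lf (nat_lit 0) (nat_lit 547860743) (nat_lit 1064) (nat_lit 2439763465) (nat_lit 76) (nat_lit 4690465085) (nat_lit 264) (nat_lit 5) (nat_lit 278) (nat_lit 5) (nat_lit 265) (nat_lit 5) (nat_lit 316) (nat_lit 303) (nat_lit 281))))) (XT.nd (nat_lit 234) (nat_lit 1824) (nat_lit 0) (XT.nd (nat_lit 78) (nat_lit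 2432) (nat_lit 0) (XT.lf (nat_lit 0) (nat_lit 4041814066) (nat_lit 1140) (nat_lit 2747158529) (nat_lit 76) (nat_lit 1033728599) (nat_lit 250) (nat_lit 5) (nat_lit 265) (nat_lit 5) (nat_lit 251) (nat_lit 5) (nat_lit 317) (nat_lit 303) (nat_lit 280)) (XT.nd (nat_lit 78) (nat_lit 1292) (nat_lit 0) (XT.lf (nat_lit 0) (nat_lit 4967023272) (nat_lit 1140) (nat_lit 2690185433) (nat_lit 1216) (nat_lit 319046829) (nat_lit 235) (nat_lit 5) (nat_lit 250) (nat_lit 5) (nat_lit 251) (nat_lit 5) (nat_lit 318) (nat_lit 303) (nat_lit 279)) (XT.lf (nat_lit 0) (nat_lit 3191595770) (nat_lit 1292) (nat_lit 3246601506) (nat_lit 76) (nat_lit 1700227186) (nat_lit 218) (nat_lit 5) (nat_lit 235) (nat_lit 5) (nat_lit 219) (nat_lit 5) (nat_lit 319) (nat_lit 303) (nat_lit 278)))) (XT.nd (nat_lit 78) (nat_lit 1216) (nat_lit 0) (XT.lf (nat_lit 0) (nat_lit 4864479167) (nat_lit 608) (nat_lit 1965934532) (nat_lit 684) (nat_lit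 1479516651) (nat_lit 210) (nat_lit 5) (nat_lit 218) (nat_lit 5) (nat_lit 219) (nat_lit 5) (nat_lit 320) (nat_lit 303) (nat_lit 277)) (XT.nd (nat_lit 78) (nat_lit 608) (nat_lit 0) (XT.lf (nat_lit 0) (nat_lit 2085141000) (nat_lit 608) (nat_lit 3625876306) (nat_lit 76) (nat_lit 2779479384) (nat_lit 202) (nat_lit 5) (nat_lit 210) (nat_lit 5) (nat_lit 203) (nat_lit 5) (nat_lit 321) (nat_lit 303) (nat_lit 276)) (XT.lf (nat_lit 0) (nat_lit 4901954145) (nat_lit 608) (nat_lit 862087408) (nat_lit 684) (nat_lit 2916700597) (nat_lit 194) (nat_lit 5) (nat_lit 202) (nat_lit 5) (nat_lit 203) (nat_lit 5) (nat_lit 322) (nat_lit 303) (nat_lit 275)))))) (XT.nd (nat_lit 468) (nat_lit 2432) (nat_lit 0) (XT.nd (nat_lit 234) (nat_lit 1520) (nat_lit 0) (XT.nd (nat_lit 78) (nat_lit 988) (nat_lit 0) (XT.lf (nat_lit 0) (nat_lit 726436334) (nat_lit 608) (nat_lit 3921041049) (nat_lit 76) (nat_lit 4233050700) (nat_lit 186)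 (nat_lit 5) (nat_lit 194) (nat_lit 5) (nat_lit 187) (nat_lit 5) (nat_lit 323) (nat_lit 303) (nat_lit 274)) (XT.nd (nat_lit 78) (nat_lit 456) (nat_lit 0) (XT.lf (nat_lit 0) (nat_lit 4466308517) (nat_lit 608) (nat_lit 4051835125) (nat_lit 76) (nat_lit 572124273) (nat_lit 179) (nat_lit 5) (nat_lit 187) (nat_lit 5) (nat_lit 180) (nat_lit 5) (nat_lit 324) (nat_lit 303) (nat_lit 273)) (XT.lf (nat_lit 0) (nat_lit 5131544097) (nat_lit 456) (nat_lit 3275532839) (nat_lit 532) (nat_lit 903074967) (nat_lit 173) (nat_lit 5) (nat_lit 179) (nat_lit 5) (nat_lit 180) (nat_lit 5) (nat_lit 325) (nat_lit 303) (nat_lit 272)))) (XT.nd (nat_lit 78) (nat_lit 988) (nat_lit 0) (XT.lf (nat_lit 0) (nat_lit 2940535773) (nat_lit 532) (nat_lit 4309542808) (nat_lit 76) (nat_lit 2290294970) (nat_lit 166) (nat_lit 5) (nat_lit 173) (nat_lit 5) (nat_lit 167) (nat_lit 5) (nat_lit 326) (nat_lit 303) (nat_lit 271)) (XT.nd (nat_lit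 78) (nat_lit 532) (nat_lit 0) (XT.lf (nat_lit 0) (nat_lit 5341227242) (nat_lit 456) (nat_lit 1628889267) (nat_lit 532) (nat_lit 2811412920) (nat_lit 160) (nat_lit 5) (nat_lit 166) (nat_lit 5) (nat_lit 167) (nat_lit 5) (nat_lit 327) (nat_lit 303) (nat_lit 270)) (XT.lf (nat_lit 0) (nat_lit 1170685055) (nat_lit 532) (nat_lit 4586170233) (nat_lit 76) (nat_lit 4276801496) (nat_lit 153) (nat_lit 5) (nat_lit 160) (nat_lit 5) (nat_lit 154) (nat_lit 5) (nat_lit 328) (nat_lit 303) (nat_lit 269))))) (XT.nd (nat_lit 234) (nat_lit 1140) (nat_lit 0) (XT.nd (nat_lit 78) (nat_lit 912) (nat_lit 0) (XT.lf (nat_lit 0) (nat_lit 5304049698) (nat_lit 456) (nat_lit 4746446569) (nat_lit 76) (nat_lit 246807558) (nat_lit 148) (nat_lit 5) (nat_lit 154) (nat_lit 5) (nat_lit 149) (nat_lit 5) (nat_lit 329) (nat_lit 303) (nat_lit 268)) (XT.nd (nat_lit 78) (nat_lit 456) (nat_lit 0) (XT.lf (nat_lit 0) (nat_lit 5634995302) (nat_lit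 456) (nat_lit 4064054605) (nat_lit 532) (nat_lit 873489124) (nat_lit 142) (nat_lit 5) (nat_lit 148) (nat_lit 5) (nat_lit 149) (nat_lit 5) (nat_lit 330) (nat_lit 303) (nat_lit 267)) (XT.lf (nat_lit 0) (nat_lit 3409364109) (nat_lit 456) (nat_lit 5162867294) (nat_lit 76) (nat_lit 2287625755) (nat_lit 136) (nat_lit 5) (nat_lit 142) (nat_lit 5) (nat_lit 137) (nat_lit 5) (nat_lit 331) (nat_lit 303) (nat_lit 266)))) (XT.nd (nat_lit 78) (nat_lit 760) (nat_lit 0) (XT.lf (nat_lit 0) (nat_lit 5736609145) (nat_lit 380) (nat_lit 2200402290) (nat_lit 456) (nat_lit 3222857093) (nat_lit 131) (nat_lit 5) (nat_lit 136) (nat_lit 5) (nat_lit 137) (nat_lit 5) (nat_lit 332) (nat_lit 303) (nat_lit 265)) (XT.nd (nat_lit 78) (nat_lit 380) (nat_lit 0) (XT.lf (nat_lit 0) (nat_lit 1249317167) (nat_lit 380) (nat_lit 5731468081) (nat_lit 76) (nat_lit 4492082507) (nat_lit 126) (nat_lit 5) (nat_lit 131) (nat_lit 5) (nat_lit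 127) (nat_lit 5) (nat_lit 333) (nat_lit 303) (nat_lit 264)) (XT.lf (nat_lit 0) (nat_lit 5705412857) (nat_lit 380) (nat_lit 213702962) (nat_lit 456) (nat_lit 5880266283) (nat_lit 121) (nat_lit 5) (nat_lit 126) (nat_lit 5) (nat_lit 127) (nat_lit 5) (nat_lit 334) (nat_lit 303) (nat_lit 263))))))))
noncomputable def xc55 : XT := (XT.nd (nat_lit 1872) (nat_lit 2128) (nat_lit 0) (XT.nd (nat_lit 936) (nat_lit 2204) (nat_lit 0) (XT.nd (nat_lit 468) (nat_lit 1444) (nat_lit 0) (XT.nd (nat_lit 234) (nat_lit 912) (nat_lit 0) (XT.nd (nat_lit 78) (nat_lit 684) (nat_lit 0) (XT.lf (nat_lit 0) (nat_lit 5608935065) (nat_lit 304) (nat_lit 5302749520) (nat_lit 380) (nat_lit 1227899673) (nat_lit 117) (nat_lit 5) (nat_lit 121) (nat_lit 5) (nat_lit 122) (nat_lit 5) (nat_lit 335) (nat_lit 303) (nat_lit 262)) (XT.nd (nat_lit 78) (nat_lit 304) (nat_lit 0) (XT.lf (nat_lit 0) (nat_lit 3633446476) (nat_lit 380) (nat_lit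 7039745672) (nat_lit 76) (nat_lit 1821155471) (nat_lit 112) (nat_lit 5) (nat_lit 117) (nat_lit 5) (nat_lit 113) (nat_lit 5) (nat_lit 336) (nat_lit 303) (nat_lit 261)) (XT.lf (nat_lit 0) (nat_lit 5222136611) (nat_lit 304) (nat_lit 3576609414) (nat_lit 380) (nat_lit 4065185633) (nat_lit 108) (nat_lit 5) (nat_lit 112) (nat_lit 5) (nat_lit 113) (nat_lit 5) (nat_lit 337) (nat_lit 303) (nat_lit 260)))) (XT.nd (nat_lit 78) (nat_lit 532) (nat_lit 0) (XT.lf (nat_lit 0) (nat_lit 1026898697) (nat_lit 380) (nat_lit 8329748218) (nat_lit 76) (nat_lit 3892835619) (nat_lit 103) (nat_lit 5) (nat_lit 108) (nat_lit 5) (nat_lit 104) (nat_lit 5) (nat_lit 338) (nat_lit 303) (nat_lit 259)) (XT.nd (nat_lit 78) (nat_lit 304) (nat_lit 0) (XT.lf (nat_lit 0) (nat_lit 4506438381) (nat_lit 228) (nat_lit 1861688210) (nat_lit 304) (nat_lit 7282649877) (nat_lit 100) (nat_lit 5) (nat_lit 103) (nat_lit 5) (nat_lit 104) (nat_lit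 5) (nat_lit 339) (nat_lit 303) (nat_lit 258)) (XT.lf (nat_lit 0) (nat_lit 3988960961) (nat_lit 304) (nat_lit 8091475699) (nat_lit 380) (nat_lit 1988607724) (nat_lit 96) (nat_lit 5) (nat_lit 100) (nat_lit 5) (nat_lit 101) (nat_lit 5) (nat_lit 340) (nat_lit 303) (nat_lit 257))))) (XT.nd (nat_lit 234) (nat_lit 532) (nat_lit 0) (XT.nd (nat_lit 78) (nat_lit 608) (nat_lit 0) (XT.lf (nat_lit 0) (nat_lit 3358759276) (nat_lit 228) (nat_lit 211032566) (nat_lit 304) (nat_lit 10935352314) (nat_lit 92) (nat_lit 5) (nat_lit 95) (nat_lit 5) (nat_lit 96) (nat_lit 5) (nat_lit 341) (nat_lit 303) (nat_lit 256)) (XT.nd (nat_lit 78) (nat_lit 304) (nat_lit 0) (XT.lf (nat_lit 0) (nat_lit 2555650043) (nat_lit 304) (nat_lit 6941946407) (nat_lit 380) (nat_lit 5460909754) (nat_lit 88) (nat_lit 5) (nat_lit 92) (nat_lit 5) (nat_lit 93) (nat_lit 5) (nat_lit 342) (nat_lit 303) (nat_lit 255)) (XT.lf (nat_lit 0) (nat_lit 355311675)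 (nat_lit 304) (nat_lit 13788372771) (nat_lit 76) (nat_lit 1288583559) (nat_lit 84) (nat_lit 5) (nat_lit 88) (nat_lit 5) (nat_lit 85) (nat_lit 5) (nat_lit 343) (nat_lit 303) (nat_lit 254)))) (XT.nd (nat_lit 78) (nat_lit 304) (nat_lit 0) (XT.lf (nat_lit 0) (nat_lit 497029708) (nat_lit 228) (nat_lit 5986323168) (nat_lit 304) (nat_lit 9440747700) (nat_lit 81) (nat_lit 5) (nat_lit 84) (nat_lit 5) (nat_lit 85) (nat_lit 5) (nat_lit 344) (nat_lit 303) (nat_lit 253)) (XT.nd (nat_lit 78) (nat_lit 304) (nat_lit 0) (XT.lf (nat_lit 0) (nat_lit 13016978118) (nat_lit 304) (nat_lit 788585776) (nat_lit 76) (nat_lit 2632007511) (nat_lit 81) (nat_lit 5) (nat_lit 85) (nat_lit 5) (nat_lit 82) (nat_lit 5) (nat_lit 345) (nat_lit 303) (nat_lit 252)) (XT.lf (nat_lit 0) (nat_lit 2981378002) (nat_lit 304) (nat_lit 2299258826) (nat_lit 76) (nat_lit 11691140620) (nat_lit 77) (nat_lit 5) (nat_lit 81) (nat_lit 5) (nat_lit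 78) (nat_lit 5) (nat_lit 346) (nat_lit 303) (nat_lit 251)))))) (XT.nd (nat_lit 468) (nat_lit 912) (nat_lit 0) (XT.nd (nat_lit 234) (nat_lit 608) (nat_lit 0) (XT.nd (nat_lit 78) (nat_lit 456) (nat_lit 0) (XT.lf (nat_lit 0) (nat_lit 9743916819) (nat_lit 304) (nat_lit 4050170053) (nat_lit 76) (nat_lit 3734273994) (nat_lit 74) (nat_lit 5) (nat_lit 78) (nat_lit 5) (nat_lit 75) (nat_lit 5) (nat_lit 347) (nat_lit 303) (nat_lit 250)) (XT.nd (nat_lit 78) (nat_lit 304) (nat_lit 0) (XT.lf (nat_lit 0) (nat_lit 12059820660) (nat_lit 152) (nat_lit 4915424716) (nat_lit 228) (nat_lit 1133626720) (nat_lit 72) (nat_lit 5) (nat_lit 74) (nat_lit 5) (nat_lit 75) (nat_lit 5) (nat_lit 348) (nat_lit 303) (nat_lit 249)) (XT.lf (nat_lit 0) (nat_lit 5860426000) (nat_lit 304) (nat_lit 8370171856) (nat_lit 76) (nat_lit 4482395908) (nat_lit 68) (nat_lit 5) (nat_lit 72) (nat_lit 5) (nat_lit 69) (nat_lit 5) (nat_lit 349) (nat_lit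 303) (nat_lit 248)))) (XT.nd (nat_lit 78) (nat_lit 456) (nat_lit 0) (XT.lf (nat_lit 0) (nat_lit 8336958934) (nat_lit 152) (nat_lit 4977164454) (nat_lit 228) (nat_lit 6028876107) (nat_lit 66) (nat_lit 5) (nat_lit 68) (nat_lit 5) (nat_lit 69) (nat_lit 5) (nat_lit 350) (nat_lit 303) (nat_lit 247)) (XT.nd (nat_lit 78) (nat_lit 152) (nat_lit 0) (XT.lf (nat_lit 0) (nat_lit 1247685220) (nat_lit 304) (nat_lit 13986979995) (nat_lit 76) (nat_lit 4765512207) (nat_lit 62) (nat_lit 5) (nat_lit 66) (nat_lit 5) (nat_lit 63) (nat_lit 5) (nat_lit 351) (nat_lit 303) (nat_lit 246)) (XT.lf (nat_lit 0) (nat_lit 3282258750) (nat_lit 152) (nat_lit 5621831779) (nat_lit 228) (nat_lit 11780126258) (nat_lit 60) (nat_lit 5) (nat_lit 62) (nat_lit 5) (nat_lit 63) (nat_lit 5) (nat_lit 352) (nat_lit 303) (nat_lit 245))))) (XT.nd (nat_lit 234) (nat_lit 532) (nat_lit 0) (XT.nd (nat_lit 78) (nat_lit 228) (nat_lit 0) (XT.lf (nat_lit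 0) (nat_lit 173391116) (nat_lit 152) (nat_lit 16904752258) (nat_lit 228) (nat_lit 4320283610) (nat_lit 58) (nat_lit 5) (nat_lit 60) (nat_lit 5) (nat_lit 61) (nat_lit 5) (nat_lit 353) (nat_lit 303) (nat_lit 244)) (XT.nd (nat_lit 78) (nat_lit 152) (nat_lit 0) (XT.lf (nat_lit 0) (nat_lit 3627633417) (nat_lit 228) (nat_lit 3337160876) (nat_lit 76) (nat_lit 15177044363) (nat_lit 57) (nat_lit 5) (nat_lit 60) (nat_lit 5) (nat_lit 58) (nat_lit 5) (nat_lit 354) (nat_lit 303) (nat_lit 243)) (XT.lf (nat_lit 0) (nat_lit 12018033920) (nat_lit 228) (nat_lit 7335475916) (nat_lit 76) (nat_lit 3563606740) (nat_lit 55) (nat_lit 5) (nat_lit 58) (nat_lit 5) (nat_lit 56) (nat_lit 5) (nat_lit 355) (nat_lit 303) (nat_lit 242)))) (XT.nd (nat_lit 78) (nat_lit 380) (nat_lit 0) (XT.lf (nat_lit 0) (nat_lit 11859526354) (nat_lit 152) (nat_lit 9137237568) (nat_lit 228) (nat_lit 2729341659) (nat_lit 53) (nat_lit 5) (nat_lit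 55) (nat_lit 5) (nat_lit 56) (nat_lit 5) (nat_lit 356) (nat_lit 303) (nat_lit 241)) (XT.nd (nat_lit 78) (nat_lit 152) (nat_lit 0) (XT.lf (nat_lit 0) (nat_lit 5851934458) (nat_lit 228) (nat_lit 16987942952) (nat_lit 76) (nat_lit 1730475119) (nat_lit 50) (nat_lit 5) (nat_lit 53) (nat_lit 5) (nat_lit 51) (nat_lit 5) (nat_lit 357) (nat_lit 303) (nat_lit 240)) (XT.lf (nat_lit 0) (nat_lit 2644935423) (nat_lit 152) (nat_lit 12354526256) (nat_lit 228) (nat_lit 10450740524) (nat_lit 48) (nat_lit 5) (nat_lit 50) (nat_lit 5) (nat_lit 51) (nat_lit 5) (nat_lit 358) (nat_lit 303) (nat_lit 239))))))) (XT.nd (nat_lit 936) (nat_lit 836) (nat_lit 0) (XT.nd (nat_lit 468) (nat_lit 608) (nat_lit 0) (XT.nd (nat_lit 234) (nat_lit 304) (nat_lit 0) (XT.nd (nat_lit 78) (nat_lit 380) (nat_lit 0) (XT.lf (nat_lit 0) (nat_lit 23532501927) (nat_lit 152) (nat_lit 1200327648) (nat_lit 228) (nat_lit 1637370482) (nat_lit 48)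 (nat_lit 5) (nat_lit 50) (nat_lit 5) (nat_lit 51) (nat_lit 5) (nat_lit 359) (nat_lit 303) (nat_lit 238)) (XT.nd (nat_lit 78) (nat_lit 152) (nat_lit 0) (XT.lf (nat_lit 0) (nat_lit 7702811283) (nat_lit 228) (nat_lit 9099402984) (nat_lit 76) (nat_lit 10524752796) (nat_lit 45) (nat_lit 5) (nat_lit 48) (nat_lit 5) (nat_lit 46) (nat_lit 5) (nat_lit 360) (nat_lit 303) (nat_lit 237)) (XT.lf (nat_lit 0) (nat_lit 12206279922) (nat_lit 152) (nat_lit 5385543433) (nat_lit 228) (nat_lit 10735800656) (nat_lit 43) (nat_lit 5) (nat_lit 45) (nat_lit 5) (nat_lit 46) (nat_lit 5) (nat_lit 361) (nat_lit 303) (nat_lit 236)))) (XT.nd (nat_lit 78) (nat_lit 228) (nat_lit 0) (XT.lf (nat_lit 0) (nat_lit 5355611860) (nat_lit 76) (nat_lit 22786665719) (nat_lit 152) (nat_lit 1231034552) (nat_lit 42) (nat_lit 5) (nat_lit 43) (nat_lit 5) (nat_lit 44) (nat_lit 4) (nat_lit 362) (nat_lit 303) (nat_lit 235)) (XT.nd (nat_lit 78)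 (nat_lit 152) (nat_lit 0) (XT.lf (nat_lit 0) (nat_lit 8758548958) (nat_lit 152) (nat_lit 2438149270) (nat_lit 76) (nat_lit 19266661788) (nat_lit 41) (nat_lit 5) (nat_lit 43) (nat_lit 5) (nat_lit 42) (nat_lit 5) (nat_lit 363) (nat_lit 303) (nat_lit 234)) (XT.lf (nat_lit 0) (nat_lit 19391258631) (nat_lit 228) (nat_lit 11076698125) (nat_lit 76) (nat_lit 1134521793) (nat_lit 39) (nat_lit 5) (nat_lit 42) (nat_lit 5) (nat_lit 40) (nat_lit 4) (nat_lit 364) (nat_lit 303) (nat_lit 233))))) (XT.nd (nat_lit 234) (nat_lit 304) (nat_lit 0) (XT.nd (nat_lit 78) (nat_lit 228) (nat_lit 0) (XT.lf (nat_lit 0) (nat_lit 11940513206) (nat_lit 76) (nat_lit 18829482838) (nat_lit 152) (nat_lit 2022131965) (nat_lit 38) (nat_lit 5) (nat_lit 39) (nat_lit 5) (nat_lit 40) (nat_lit 4) (nat_lit 365) (nat_lit 303) (nat_lit 232)) (XT.nd (nat_lit 78) (nat_lit 0) (nat_lit 0) (XT.lf (nat_lit 0) (nat_lit 2191413858) (nat_lit 152)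 (nat_lit 6413972744) (nat_lit 228) (nat_lit 25430428984) (nat_lit 35) (nat_lit 5) (nat_lit 37) (nat_lit 5) (nat_lit 38) (nat_lit 5) (nat_lit 366) (nat_lit 303) (nat_lit 231)) (XT.lf (nat_lit 0) (nat_lit 19966217009) (nat_lit 228) (nat_lit 8666981692) (nat_lit 76) (nat_lit 6700581467) (nat_lit 35) (nat_lit 5) (nat_lit 38) (nat_lit 5) (nat_lit 36) (nat_lit 4) (nat_lit 367) (nat_lit 303) (nat_lit 230)))) (XT.nd (nat_lit 78) (nat_lit 228) (nat_lit 0) (XT.lf (nat_lit 0) (nat_lit 15849206510) (nat_lit 76) (nat_lit 16227673431) (nat_lit 152) (nat_lit 4614314985) (nat_lit 34) (nat_lit 5) (nat_lit 35) (nat_lit 5) (nat_lit 36) (nat_lit 4) (nat_lit 368) (nat_lit 303) (nat_lit 229)) (XT.nd (nat_lit 78) (nat_lit 0) (nat_lit 0) (XT.lf (nat_lit 0) (nat_lit 3600224730) (nat_lit 152) (nat_lit 3036230470) (nat_lit 228) (nat_lit 31475400766) (nat_lit 31) (nat_lit 5) (nat_lit 33) (nat_lit 5) (nat_lit 34) (nat_lit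 5) (nat_lit 369) (nat_lit 303) (nat_lit 228)) (XT.lf (nat_lit 0) (nat_lit 18642069236) (nat_lit 228) (nat_lit 10112085331) (nat_lit 76) (nat_lit 10839397808) (nat_lit 31) (nat_lit 5) (nat_lit 34) (nat_lit 5) (nat_lit 32) (nat_lit 4) (nat_lit 370) (nat_lit 303) (nat_lit 227)))))) (XT.nd (nat_lit 468) (nat_lit 304) (nat_lit 0) (XT.nd (nat_lit 234) (nat_lit 228) (nat_lit 0) (XT.nd (nat_lit 78) (nat_lit 228) (nat_lit 0) (XT.lf (nat_lit 0) (nat_lit 15724199094) (nat_lit 76) (nat_lit 15673386505) (nat_lit 152) (nat_lit 9747264116) (nat_lit 30) (nat_lit 5) (nat_lit 31) (nat_lit 5) (nat_lit 32) (nat_lit 4) (nat_lit 371) (nat_lit 303) (nat_lit 226)) (XT.nd (nat_lit 78) (nat_lit 0) (nat_lit 0) (XT.lf (nat_lit 0) (nat_lit 218507373) (nat_lit 152) (nat_lit 1835011865) (nat_lit 228) (nat_lit 40717343913) (nat_lit 27) (nat_lit 5) (nat_lit 29) (nat_lit 5) (nat_lit 30) (nat_lit 5) (nat_lit 372) (nat_lit 303)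 (nat_lit 225)) (XT.lf (nat_lit 0) (nat_lit 14600130156) (nat_lit 228) (nat_lit 17079847896) (nat_lit 76) (nat_lit 12784586871) (nat_lit 27) (nat_lit 5) (nat_lit 30) (nat_lit 5) (nat_lit 28) (nat_lit 4) (nat_lit 373) (nat_lit 303) (nat_lit 224)))) (XT.nd (nat_lit 78) (nat_lit 152) (nat_lit 0) (XT.lf (nat_lit 0) (nat_lit 9784063627) (nat_lit 76) (nat_lit 18073240502) (nat_lit 152) (nat_lit 18383154672) (nat_lit 26) (nat_lit 5) (nat_lit 27) (nat_lit 5) (nat_lit 28) (nat_lit 4) (nat_lit 374) (nat_lit 303) (nat_lit 223)) (XT.nd (nat_lit 78) (nat_lit 152) (nat_lit 0) (XT.lf (nat_lit 0) (nat_lit 38295032213) (nat_lit 76) (nat_lit 3629674524) (nat_lit 152) (nat_lit 6176023341) (nat_lit 26) (nat_lit 5) (nat_lit 27) (nat_lit 5) (nat_lit 28) (nat_lit 4) (nat_lit 375) (nat_lit 303) (nat_lit 222)) (XT.lf (nat_lit 0) (nat_lit 6774630353) (nat_lit 152) (nat_lit 31738565843) (nat_lit 76) (nat_lit 11531024044)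 (nat_lit 24) (nat_lit 5) (nat_lit 26) (nat_lit 5) (nat_lit 25) (nat_lit 4) (nat_lit 376) (nat_lit 303) (nat_lit 221))))) (XT.nd (nat_lit 234) (nat_lit 228) (nat_lit 0) (XT.nd (nat_lit 78) (nat_lit 76) (nat_lit 0) (XT.lf (nat_lit 0) (nat_lit 20358085625) (nat_lit 152) (nat_lit 4204535330) (nat_lit 76) (nat_lit 27517042885) (nat_lit 24) (nat_lit 5) (nat_lit 26) (nat_lit 5) (nat_lit 25) (nat_lit 4) (nat_lit 377) (nat_lit 303) (nat_lit 220)) (XT.nd (nat_lit 78) (nat_lit 0) (nat_lit 0) (XT.lf (nat_lit 0) (nat_lit 25149144752) (nat_lit 76) (nat_lit 9687827936) (nat_lit 152) (nat_lit 19373422351) (nat_lit 23) (nat_lit 5) (nat_lit 24) (nat_lit 5) (nat_lit 25) (nat_lit 4) (nat_lit 378) (nat_lit 303) (nat_lit 219)) (XT.lf (nat_lit 0) (nat_lit 50115593035) (nat_lit 152) (nat_lit 492399306) (nat_lit 0) (nat_lit 5837399827) (nat_lit 23) (nat_lit 5) (nat_lit 25) (nat_lit 4) (nat_lit 23) (nat_lit 4) (nat_lit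 379) (nat_lit 303) (nat_lit 218)))) (XT.nd (nat_lit 78) (nat_lit 76) (nat_lit 0) (XT.lf (nat_lit 0) (nat_lit 7587752446) (nat_lit 152) (nat_lit 28908924622) (nat_lit 76) (nat_lit 22282376162) (nat_lit 21) (nat_lit 5) (nat_lit 23) (nat_lit 5) (nat_lit 22) (nat_lit 4) (nat_lit 380) (nat_lit 303) (nat_lit 217)) (XT.nd (nat_lit 78) (nat_lit 0) (nat_lit 0) (XT.lf (nat_lit 0) (nat_lit 432411903) (nat_lit 76) (nat_lit 21625090594) (nat_lit 152) (nat_lit 39170400460) (nat_lit 20) (nat_lit 5) (nat_lit 21) (nat_lit 5) (nat_lit 22) (nat_lit 4) (nat_lit 381) (nat_lit 303) (nat_lit 216)) (XT.lf (nat_lit 0) (nat_lit 31802270607) (nat_lit 76) (nat_lit 5723497299) (nat_lit 152) (nat_lit 26265178977) (nat_lit 20) (nat_lit 5) (nat_lit 21) (nat_lit 5) (nat_lit 22) (nat_lit 4) (nat_lit 382) (nat_lit 303) (nat_lit 215))))))))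
noncomputable def xc56 : XT := (XT.nd (nat_lit 41652) (nat_lit 0) (nat_lit 6840) (XT.nd (nat_lit 40716) (nat_lit 0) (nat_lit 20140) (XT.nd (nat_lit 390) (nat_lit 304) (nat_lit 0) (XT.nd (nat_lit 156) (nat_lit 76) (nat_lit 0) (XT.nd (nat_lit 78) (nat_lit 152) (nat_lit 0) (XT.lf (nat_lit 0) (nat_lit 53851253981) (nat_lit 152) (nat_lit 1888089711) (nat_lit 0) (nat_lit 10740287517) (nat_lit 20) (nat_lit 5) (nat_lit 22) (nat_lit 4) (nat_lit 20) (nat_lit 4) (nat_lit 383) (nat_lit 303) (nat_lit 214)) (XT.lf (nat_lit 0) (nat_lit 1988047546) (nat_lit 152) (nat_lit 39102282384) (nat_lit 76) (nat_lit 28202011645) (nat_lit 18) (nat_lit 5) (nat_lit 20) (nat_lit 5) (nat_lit 19) (nat_lit 4) (nat_lit 384) (nat_lit 303) (nat_lit 213))) (XT.nd (nat_lit 78) (nat_lit 76) (nat_lit 0) (XT.lf (nat_lit 0) (nat_lit 17075951561) (nat_lit 152) (nat_lit 8499601463) (nat_lit 76) (nat_lit 46666330604) (nat_lit 18) (nat_lit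 5) (nat_lit 20) (nat_lit 5) (nat_lit 19) (nat_lit 4) (nat_lit 385) (nat_lit 303) (nat_lit 212)) (XT.nd (nat_lit 78) (nat_lit 0) (nat_lit 0) (XT.lf (nat_lit 0) (nat_lit 24066247491) (nat_lit 76) (nat_lit 9064081565) (nat_lit 152) (nat_lit 42202213414) (nat_lit 17) (nat_lit 5) (nat_lit 18) (nat_lit 5) (nat_lit 19) (nat_lit 4) (nat_lit 386) (nat_lit 303) (nat_lit 211)) (XT.lf (nat_lit 0) (nat_lit 50136464814) (nat_lit 152) (nat_lit 20253431895) (nat_lit 0) (nat_lit 8183368300) (nat_lit 17) (nat_lit 5) (nat_lit 19) (nat_lit 4) (nat_lit 17) (nat_lit 4) (nat_lit 387) (nat_lit 303) (nat_lit 210))))) (XT.nd (nat_lit 234) (nat_lit 152) (nat_lit 0) (XT.nd (nat_lit 78) (nat_lit 76) (nat_lit 0) (XT.lf (nat_lit 0) (nat_lit 12426855362) (nat_lit 76) (nat_lit 55759042417) (nat_lit 76) (nat_lit 13784338030) (nat_lit 16) (nat_lit 4) (nat_lit 17) (nat_lit 5) (nat_lit 17) (nat_lit 4) (nat_lit 388) (nat_lit 303)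 (nat_lit 209)) (XT.nd (nat_lit 78) (nat_lit 0) (nat_lit 0) (XT.lf (nat_lit 0) (nat_lit 1762477342) (nat_lit 152) (nat_lit 38417454309) (nat_lit 76) (nat_lit 45350874591) (nat_lit 15) (nat_lit 5) (nat_lit 17) (nat_lit 5) (nat_lit 16) (nat_lit 4) (nat_lit 389) (nat_lit 303) (nat_lit 208)) (XT.lf (nat_lit 0) (nat_lit 17787450831) (nat_lit 152) (nat_lit 5906357104) (nat_lit 76) (nat_lit 65571927570) (nat_lit 15) (nat_lit 5) (nat_lit 17) (nat_lit 5) (nat_lit 16) (nat_lit 4) (nat_lit 390) (nat_lit 303) (nat_lit 207)))) (XT.nd (nat_lit 78) (nat_lit 76) (nat_lit 0) (XT.lf (nat_lit 0) (nat_lit 28761053782) (nat_lit 76) (nat_lit 6113134280) (nat_lit 152) (nat_lit 58305409265) (nat_lit 14) (nat_lit 5) (nat_lit 15) (nat_lit 5) (nat_lit 16) (nat_lit 4) (nat_lit 391) (nat_lit 303) (nat_lit 206)) (XT.nd (nat_lit 156) (nat_lit 76) (nat_lit 0) (XT.lf (nat_lit 0) (nat_lit 52979733354) (nat_lit 152) (nat_lit 32151281839)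 (nat_lit 0) (nat_lit 12153204386) (nat_lit 14) (nat_lit 5) (nat_lit 16) (nat_lit 4) (nat_lit 14) (nat_lit 4) (nat_lit 392) (nat_lit 303) (nat_lit 205)) (XT.lf (nat_lit 0) (nat_lit 37830132578) (nat_lit 76) (nat_lit 54567273351) (nat_lit 76) (nat_lit 13708652672) (nat_lit 13) (nat_lit 4) (nat_lit 14) (nat_lit 5) (nat_lit 14) (nat_lit 4) (nat_lit 394) (nat_lit 303) (nat_lit 203)))))) (XT.nd (nat_lit 468) (nat_lit 3192) (nat_lit 0) (XT.nd (nat_lit 234) (nat_lit 1216) (nat_lit 0) (XT.nd (nat_lit 78) (nat_lit 532) (nat_lit 0) (XT.lf (nat_lit 0) (nat_lit 1425482954) (nat_lit 532) (nat_lit 944635518) (nat_lit 532) (nat_lit 944635518) (nat_lit 343) (nat_lit 3) (nat_lit 350) (nat_lit 3) (nat_lit 350) (nat_lit 5) (nat_lit 304) (nat_lit 304) (nat_lit 292)) (XT.nd (nat_lit 78) (nat_lit 532) (nat_lit 0) (XT.lf (nat_lit 76) (nat_lit 3447747670) (nat_lit 0) (nat_lit 3182126779) (nat_lit 532) (nat_lit 50500200)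 (nat_lit 344) (nat_lit 5) (nat_lit 343) (nat_lit 3) (nat_lit 350) (nat_lit 5) (nat_lit 305) (nat_lit 304) (nat_lit 291)) (XT.lf (nat_lit 76) (nat_lit 2235537600) (nat_lit 0) (nat_lit 1355165640) (nat_lit 608) (nat_lit 3148128707) (nat_lit 337) (nat_lit 5) (nat_lit 336) (nat_lit 5) (nat_lit 344) (nat_lit 5) (nat_lit 306) (nat_lit 304) (nat_lit 290)))) (XT.nd (nat_lit 78) (nat_lit 684) (nat_lit 0) (XT.lf (nat_lit 0) (nat_lit 420875262) (nat_lit 608) (nat_lit 5681702025) (nat_lit 684) (nat_lit 703049221) (nat_lit 329) (nat_lit 5) (nat_lit 337) (nat_lit 5) (nat_lit 338) (nat_lit 5) (nat_lit 307) (nat_lit 304) (nat_lit 289)) (XT.nd (nat_lit 78) (nat_lit 684) (nat_lit 0) (XT.lf (nat_lit 76) (nat_lit 73959136) (nat_lit 0) (nat_lit 3870521550) (nat_lit 684) (nat_lit 2935306562) (nat_lit 330) (nat_lit 5) (nat_lit 329) (nat_lit 5) (nat_lit 338) (nat_lit 5) (nat_lit 308) (nat_lit 304) (nat_lit 288)) (XT.lf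 (nat_lit 0) (nat_lit 518702927) (nat_lit 684) (nat_lit 861357604) (nat_lit 760) (nat_lit 5582217066) (nat_lit 320) (nat_lit 5) (nat_lit 329) (nat_lit 5) (nat_lit 330) (nat_lit 5) (nat_lit 309) (nat_lit 304) (nat_lit 287))))) (XT.nd (nat_lit 234) (nat_lit 2508) (nat_lit 0) (XT.nd (nat_lit 78) (nat_lit 760) (nat_lit 0) (XT.lf (nat_lit 0) (nat_lit 3946463296) (nat_lit 684) (nat_lit 1739500237) (nat_lit 760) (nat_lit 1366379869) (nat_lit 321) (nat_lit 5) (nat_lit 330) (nat_lit 5) (nat_lit 331) (nat_lit 5) (nat_lit 310) (nat_lit 304) (nat_lit 286)) (XT.nd (nat_lit 78) (nat_lit 0) (nat_lit 76) (XT.lf (nat_lit 0) (nat_lit 262478561) (nat_lit 760) (nat_lit 2541409848) (nat_lit 836) (nat_lit 4346924626) (nat_lit 311) (nat_lit 5) (nat_lit 321) (nat_lit 5) (nat_lit 322) (nat_lit 5) (nat_lit 311) (nat_lit 304) (nat_lit 285)) (XT.lf (nat_lit 0) (nat_lit 3607237052) (nat_lit 760) (nat_lit 3287669230) (nat_lit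 76) (nat_lit 362365410) (nat_lit 312) (nat_lit 5) (nat_lit 322) (nat_lit 5) (nat_lit 313) (nat_lit 5) (nat_lit 312) (nat_lit 304) (nat_lit 284)))) (XT.nd (nat_lit 78) (nat_lit 1824) (nat_lit 0) (XT.lf (nat_lit 0) (nat_lit 3395208571) (nat_lit 760) (nat_lit 3631419437) (nat_lit 836) (nat_lit 345350644) (nat_lit 302) (nat_lit 5) (nat_lit 312) (nat_lit 5) (nat_lit 313) (nat_lit 5) (nat_lit 313) (nat_lit 304) (nat_lit 283)) (XT.nd (nat_lit 78) (nat_lit 912) (nat_lit 0) (XT.lf (nat_lit 0) (nat_lit 2882125482) (nat_lit 836) (nat_lit 68867296) (nat_lit 912) (nat_lit 4544041336) (nat_lit 290) (nat_lit 5) (nat_lit 301) (nat_lit 5) (nat_lit 302) (nat_lit 5) (nat_lit 314) (nat_lit 304) (nat_lit 282)) (XT.lf (nat_lit 0) (nat_lit 2417064153) (nat_lit 912) (nat_lit 3920828714) (nat_lit 988) (nat_lit 1288390079) (nat_lit 278) (nat_lit 5) (nat_lit 290) (nat_lit 5) (nat_lit 291) (nat_lit 5) (nat_lit 315) (nat_lit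 304) (nat_lit 281))))))) (XT.nd (nat_lit 936) (nat_lit 4788) (nat_lit 0) (XT.nd (nat_lit 468) (nat_lit 2736) (nat_lit 0) (XT.nd (nat_lit 234) (nat_lit 2432) (nat_lit 0) (XT.nd (nat_lit 78) (nat_lit 2280) (nat_lit 0) (XT.lf (nat_lit 0) (nat_lit 1994635734) (nat_lit 1064) (nat_lit 5751118026) (nat_lit 76) (nat_lit 20661360) (nat_lit 264) (nat_lit 5) (nat_lit 278) (nat_lit 5) (nat_lit 265) (nat_lit 5) (nat_lit 316) (nat_lit 304) (nat_lit 280)) (XT.nd (nat_lit 78) (nat_lit 1216) (nat_lit 0) (XT.lf (nat_lit 0) (nat_lit 1641254190) (nat_lit 1064) (nat_lit 3728298048) (nat_lit 1140) (nat_lit 2545101572) (nat_lit 250) (nat_lit 5) (nat_lit 264) (nat_lit 5) (nat_lit 265) (nat_lit 5) (nat_lit 317) (nat_lit 304) (nat_lit 279)) (XT.lf (nat_lit 0) (nat_lit 753950798) (nat_lit 1216) (nat_lit 6740701971) (nat_lit 76) (nat_lit 577689475) (nat_lit 234) (nat_lit 5) (nat_lit 250) (nat_lit 5) (nat_lit 235) (nat_lit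 5) (nat_lit 318) (nat_lit 304) (nat_lit 278)))) (XT.nd (nat_lit 78) (nat_lit 1216) (nat_lit 0) (XT.lf (nat_lit 0) (nat_lit 1032692416) (nat_lit 1216) (nat_lit 3101128696) (nat_lit 1292) (nat_lit 4104383488) (nat_lit 218) (nat_lit 5) (nat_lit 234) (nat_lit 5) (nat_lit 235) (nat_lit 5) (nat_lit 319) (nat_lit 304) (nat_lit 277)) (XT.nd (nat_lit 78) (nat_lit 608) (nat_lit 0) (XT.lf (nat_lit 0) (nat_lit 789516402) (nat_lit 608) (nat_lit 6846305698) (nat_lit 684) (nat_lit 778039598) (nat_lit 210) (nat_lit 5) (nat_lit 218) (nat_lit 5) (nat_lit 219) (nat_lit 5) (nat_lit 320) (nat_lit 304) (nat_lit 276)) (XT.lf (nat_lit 0) (nat_lit 556640557) (nat_lit 532) (nat_lit 2081444071) (nat_lit 608) (nat_lit 5960229655) (nat_lit 202) (nat_lit 5) (nat_lit 209) (nat_lit 5) (nat_lit 210) (nat_lit 5) (nat_lit 321) (nat_lit 304) (nat_lit 275))))) (XT.nd (nat_lit 234) (nat_lit 1520) (nat_lit 0) (XT.nd (nat_lit 78)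 (nat_lit 608) (nat_lit 0) (XT.lf (nat_lit 0) (nat_lit 351519664) (nat_lit 608) (nat_lit 5838320708) (nat_lit 684) (nat_lit 2602574842) (nat_lit 194) (nat_lit 5) (nat_lit 202) (nat_lit 5) (nat_lit 203) (nat_lit 5) (nat_lit 322) (nat_lit 304) (nat_lit 274)) (XT.nd (nat_lit 78) (nat_lit 0) (nat_lit 0) (XT.lf (nat_lit 0) (nat_lit 177735223) (nat_lit 532) (nat_lit 707187183) (nat_lit 608) (nat_lit 8111711479) (nat_lit 186) (nat_lit 5) (nat_lit 193) (nat_lit 5) (nat_lit 194) (nat_lit 5) (nat_lit 323) (nat_lit 304) (nat_lit 273)) (XT.lf (nat_lit 0) (nat_lit 4504553109) (nat_lit 608) (nat_lit 10413971) (nat_lit 76) (nat_lit 4695050099) (nat_lit 186) (nat_lit 5) (nat_lit 194) (nat_lit 5) (nat_lit 187) (nat_lit 5) (nat_lit 324) (nat_lit 304) (nat_lit 272)))) (XT.nd (nat_lit 78) (nat_lit 988) (nat_lit 0) (XT.lf (nat_lit 0) (nat_lit 8295302645) (nat_lit 608) (nat_lit 158951515) (nat_lit 76) (nat_lit 980182066)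 (nat_lit 179) (nat_lit 5) (nat_lit 187) (nat_lit 5) (nat_lit 180) (nat_lit 5) (nat_lit 325) (nat_lit 304) (nat_lit 271)) (XT.nd (nat_lit 78) (nat_lit 456) (nat_lit 0) (XT.lf (nat_lit 0) (nat_lit 2578903250) (nat_lit 532) (nat_lit 328504426) (nat_lit 76) (nat_lit 6761255572) (nat_lit 172) (nat_lit 5) (nat_lit 179) (nat_lit 5) (nat_lit 173) (nat_lit 5) (nat_lit 326) (nat_lit 304) (nat_lit 270)) (XT.lf (nat_lit 0) (nat_lit 6472257826) (nat_lit 532) (nat_lit 493225034) (nat_lit 76) (nat_lit 2948453425) (nat_lit 166) (nat_lit 5) (nat_lit 173) (nat_lit 5) (nat_lit 167) (nat_lit 5) (nat_lit 327) (nat_lit 304) (nat_lit 269)))))) (XT.nd (nat_lit 468) (nat_lit 2128) (nat_lit 0) (XT.nd (nat_lit 234) (nat_lit 1292) (nat_lit 0) (XT.nd (nat_lit 78) (nat_lit 836) (nat_lit 0) (XT.lf (nat_lit 0) (nat_lit 400861766) (nat_lit 532) (nat_lit 650364166) (nat_lit 76) (nat_lit 9119603243) (nat_lit 159) (nat_lit 5)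 (nat_lit 166) (nat_lit 5) (nat_lit 160) (nat_lit 5) (nat_lit 328) (nat_lit 304) (nat_lit 268)) (XT.nd (nat_lit 78) (nat_lit 380) (nat_lit 0) (XT.lf (nat_lit 0) (nat_lit 4411409361) (nat_lit 532) (nat_lit 855808152) (nat_lit 76) (nat_lit 5170969962) (nat_lit 153) (nat_lit 5) (nat_lit 160) (nat_lit 5) (nat_lit 154) (nat_lit 5) (nat_lit 329) (nat_lit 304) (nat_lit 267)) (XT.lf (nat_lit 0) (nat_lit 8644364880) (nat_lit 456) (nat_lit 1051450249) (nat_lit 76) (nat_lit 1022494367) (nat_lit 148) (nat_lit 5) (nat_lit 154) (nat_lit 5) (nat_lit 149) (nat_lit 5) (nat_lit 330) (nat_lit 304) (nat_lit 266)))) (XT.nd (nat_lit 78) (nat_lit 760) (nat_lit 0) (XT.lf (nat_lit 0) (nat_lit 2096988825) (nat_lit 532) (nat_lit 1294888597) (nat_lit 76) (nat_lit 7618180290) (nat_lit 141) (nat_lit 5) (nat_lit 148) (nat_lit 5) (nat_lit 142) (nat_lit 5) (nat_lit 331) (nat_lit 304) (nat_lit 265)) (XT.nd (nat_lit 78) (nat_lit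 380) (nat_lit 0) (XT.lf (nat_lit 0) (nat_lit 6478099123) (nat_lit 456) (nat_lit 1571881789) (nat_lit 76) (nat_lit 3264506715) (nat_lit 136) (nat_lit 5) (nat_lit 142) (nat_lit 5) (nat_lit 137) (nat_lit 5) (nat_lit 332) (nat_lit 304) (nat_lit 264)) (XT.lf (nat_lit 0) (nat_lit 9762233965) (nat_lit 380) (nat_lit 1367821724) (nat_lit 456) (nat_lit 502573422) (nat_lit 131) (nat_lit 5) (nat_lit 136) (nat_lit 5) (nat_lit 137) (nat_lit 5) (nat_lit 333) (nat_lit 304) (nat_lit 263))))) (XT.nd (nat_lit 234) (nat_lit 988) (nat_lit 0) (XT.nd (nat_lit 78) (nat_lit 760) (nat_lit 0) (XT.lf (nat_lit 0) (nat_lit 4047137335) (nat_lit 380) (nat_lit 2256745942) (nat_lit 76) (nat_lit 5659321715) (nat_lit 126) (nat_lit 5) (nat_lit 131) (nat_lit 5) (nat_lit 127) (nat_lit 5) (nat_lit 334) (nat_lit 304) (nat_lit 262)) (XT.nd (nat_lit 78) (nat_lit 380) (nat_lit 0) (XT.lf (nat_lit 0) (nat_lit 8862873545) (nat_lit 456) (nat_lit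 2672379288) (nat_lit 76) (nat_lit 773478104) (nat_lit 121) (nat_lit 5) (nat_lit 127) (nat_lit 5) (nat_lit 122) (nat_lit 5) (nat_lit 335) (nat_lit 304) (nat_lit 261)) (XT.lf (nat_lit 0) (nat_lit 1320846754) (nat_lit 380) (nat_lit 3174865137) (nat_lit 76) (nat_lit 8172577085) (nat_lit 116) (nat_lit 5) (nat_lit 121) (nat_lit 5) (nat_lit 117) (nat_lit 5) (nat_lit 336) (nat_lit 304) (nat_lit 260)))) (XT.nd (nat_lit 78) (nat_lit 684) (nat_lit 0) (XT.lf (nat_lit 0) (nat_lit 6321545096) (nat_lit 380) (nat_lit 3761350065) (nat_lit 76) (nat_lit 2959932458) (nat_lit 112) (nat_lit 5) (nat_lit 117) (nat_lit 5) (nat_lit 113) (nat_lit 5) (nat_lit 337) (nat_lit 304) (nat_lit 259)) (XT.nd (nat_lit 78) (nat_lit 380) (nat_lit 0) (XT.lf (nat_lit 0) (nat_lit 9009562135) (nat_lit 304) (nat_lit 2650090986) (nat_lit 380) (nat_lit 1773851177) (nat_lit 108) (nat_lit 5) (nat_lit 112) (nat_lit 5) (nat_lit 113) (nat_lit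 5) (nat_lit 338) (nat_lit 304) (nat_lit 258)) (XT.lf (nat_lit 0) (nat_lit 3451751742) (nat_lit 380) (nat_lit 5211647999) (nat_lit 76) (nat_lit 5176431797) (nat_lit 103) (nat_lit 5) (nat_lit 108) (nat_lit 5) (nat_lit 104) (nat_lit 5) (nat_lit 339) (nat_lit 304) (nat_lit 257))))))))
noncomputable def xc57 : XT := (XT.nd (nat_lit 1794) (nat_lit 1900) (nat_lit 0) (XT.nd (nat_lit 858) (nat_lit 1900) (nat_lit 0) (XT.nd (nat_lit 390) (nat_lit 1216) (nat_lit 0) (XT.nd (nat_lit 156) (nat_lit 836) (nat_lit 0) (XT.nd (nat_lit 78) (nat_lit 380) (nat_lit 0) (XT.lf (nat_lit 0) (nat_lit 8165029685) (nat_lit 228) (nat_lit 814989836) (nat_lit 304) (nat_lit 5283615098) (nat_lit 100) (nat_lit 5) (nat_lit 103) (nat_lit 5) (nat_lit 104) (nat_lit 5) (nat_lit 340) (nat_lit 304) (nat_lit 256)) (XT.lf (nat_lit 0) (nat_lit 202890205) (nat_lit 380) (nat_lit 7126526515) (nat_lit 76) (nat_lit 7375366479) (nat_lit 95) (nat_lit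 5) (nat_lit 100) (nat_lit 5) (nat_lit 96) (nat_lit 5) (nat_lit 341) (nat_lit 304) (nat_lit 255))) (XT.nd (nat_lit 78) (nat_lit 608) (nat_lit 0) (XT.lf (nat_lit 0) (nat_lit 5932466516) (nat_lit 304) (nat_lit 8307781595) (nat_lit 76) (nat_lit 923856220) (nat_lit 92) (nat_lit 5) (nat_lit 96) (nat_lit 5) (nat_lit 93) (nat_lit 5) (nat_lit 342) (nat_lit 304) (nat_lit 254)) (XT.nd (nat_lit 78) (nat_lit 304) (nat_lit 0) (XT.lf (nat_lit 0) (nat_lit 5979942690) (nat_lit 304) (nat_lit 6106426496) (nat_lit 380) (nat_lit 3555910796) (nat_lit 88) (nat_lit 5) (nat_lit 92) (nat_lit 5) (nat_lit 93) (nat_lit 5) (nat_lit 343) (nat_lit 304) (nat_lit 253)) (XT.lf (nat_lit 0) (nat_lit 2449443803) (nat_lit 304) (nat_lit 11182501462) (nat_lit 76) (nat_lit 2508965768) (nat_lit 84) (nat_lit 5) (nat_lit 88) (nat_lit 5) (nat_lit 85) (nat_lit 5) (nat_lit 344) (nat_lit 304) (nat_lit 252))))) (XT.nd (nat_lit 234) (nat_lit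 456) (nat_lit 0) (XT.nd (nat_lit 78) (nat_lit 532) (nat_lit 0) (XT.lf (nat_lit 0) (nat_lit 3722712317) (nat_lit 228) (nat_lit 5093068497) (nat_lit 304) (nat_lit 7843629958) (nat_lit 81) (nat_lit 5) (nat_lit 84) (nat_lit 5) (nat_lit 85) (nat_lit 5) (nat_lit 345) (nat_lit 304) (nat_lit 251)) (XT.nd (nat_lit 78) (nat_lit 304) (nat_lit 0) (XT.lf (nat_lit 0) (nat_lit 2312599932) (nat_lit 228) (nat_lit 13301003897) (nat_lit 304) (nat_lit 1586856629) (nat_lit 78) (nat_lit 5) (nat_lit 81) (nat_lit 5) (nat_lit 82) (nat_lit 5) (nat_lit 346) (nat_lit 304) (nat_lit 250)) (XT.lf (nat_lit 0) (nat_lit 643065574) (nat_lit 228) (nat_lit 4373414563) (nat_lit 304) (nat_lit 12746735411) (nat_lit 74) (nat_lit 5) (nat_lit 77) (nat_lit 5) (nat_lit 78) (nat_lit 5) (nat_lit 347) (nat_lit 304) (nat_lit 249)))) (XT.nd (nat_lit 78) (nat_lit 456) (nat_lit 0) (XT.lf (nat_lit 0) (nat_lit 12060822404) (nat_lit 304) (nat_lit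 1251056868) (nat_lit 76) (nat_lit 5037465700) (nat_lit 74) (nat_lit 5) (nat_lit 78) (nat_lit 5) (nat_lit 75) (nat_lit 5) (nat_lit 348) (nat_lit 304) (nat_lit 248)) (XT.nd (nat_lit 78) (nat_lit 228) (nat_lit 0) (XT.lf (nat_lit 0) (nat_lit 621563678) (nat_lit 228) (nat_lit 3388381949) (nat_lit 76) (nat_lit 14950552244) (nat_lit 71) (nat_lit 5) (nat_lit 74) (nat_lit 5) (nat_lit 72) (nat_lit 5) (nat_lit 349) (nat_lit 304) (nat_lit 247)) (XT.lf (nat_lit 0) (nat_lit 7895398636) (nat_lit 304) (nat_lit 5880121196) (nat_lit 76) (nat_lit 5820387222) (nat_lit 68) (nat_lit 5) (nat_lit 72) (nat_lit 5) (nat_lit 69) (nat_lit 5) (nat_lit 350) (nat_lit 304) (nat_lit 246)))))) (XT.nd (nat_lit 468) (nat_lit 912) (nat_lit 0) (XT.nd (nat_lit 234) (nat_lit 380) (nat_lit 0) (XT.nd (nat_lit 78) (nat_lit 456) (nat_lit 0) (XT.lf (nat_lit 0) (nat_lit 11578992866) (nat_lit 152) (nat_lit 4086995379) (nat_lit 228) (nat_lit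 4593121360) (nat_lit 66) (nat_lit 5) (nat_lit 68) (nat_lit 5) (nat_lit 69) (nat_lit 5) (nat_lit 351) (nat_lit 304) (nat_lit 245)) (XT.nd (nat_lit 78) (nat_lit 152) (nat_lit 0) (XT.lf (nat_lit 0) (nat_lit 2969808588) (nat_lit 304) (nat_lit 11869731887) (nat_lit 76) (nat_lit 6110432837) (nat_lit 62) (nat_lit 5) (nat_lit 66) (nat_lit 5) (nat_lit 63) (nat_lit 5) (nat_lit 352) (nat_lit 304) (nat_lit 244)) (XT.lf (nat_lit 0) (nat_lit 6182231605) (nat_lit 152) (nat_lit 4774066121) (nat_lit 228) (nat_lit 10713519051) (nat_lit 60) (nat_lit 5) (nat_lit 62) (nat_lit 5) (nat_lit 63) (nat_lit 5) (nat_lit 353) (nat_lit 304) (nat_lit 243)))) (XT.nd (nat_lit 78) (nat_lit 228) (nat_lit 0) (XT.lf (nat_lit 0) (nat_lit 2876174926) (nat_lit 152) (nat_lit 16622586365) (nat_lit 228) (nat_lit 2922204036) (nat_lit 58) (nat_lit 5) (nat_lit 60) (nat_lit 5) (nat_lit 61) (nat_lit 5) (nat_lit 354) (nat_lit 304) (nat_lit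 242)) (XT.nd (nat_lit 78) (nat_lit 152) (nat_lit 0) (XT.lf (nat_lit 0) (nat_lit 5316250299) (nat_lit 228) (nat_lit 907845963) (nat_lit 76) (nat_lit 16979264348) (nat_lit 57) (nat_lit 5) (nat_lit 60) (nat_lit 5) (nat_lit 58) (nat_lit 5) (nat_lit 355) (nat_lit 304) (nat_lit 241)) (XT.lf (nat_lit 0) (nat_lit 14088847454) (nat_lit 228) (nat_lit 5146577421) (nat_lit 76) (nat_lit 4783114058) (nat_lit 55) (nat_lit 5) (nat_lit 58) (nat_lit 5) (nat_lit 56) (nat_lit 5) (nat_lit 356) (nat_lit 304) (nat_lit 240))))) (XT.nd (nat_lit 234) (nat_lit 380) (nat_lit 0) (XT.nd (nat_lit 78) (nat_lit 380) (nat_lit 0) (XT.lf (nat_lit 0) (nat_lit 14934917129) (nat_lit 152) (nat_lit 8535463512) (nat_lit 228) (nat_lit 1398996753) (nat_lit 53) (nat_lit 5) (nat_lit 55) (nat_lit 5) (nat_lit 56) (nat_lit 5) (nat_lit 357) (nat_lit 304) (nat_lit 239)) (XT.nd (nat_lit 78) (nat_lit 152) (nat_lit 0) (XT.lf (nat_lit 0) (nat_lit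 7547740604) (nat_lit 228) (nat_lit 15365945583) (nat_lit 76) (nat_lit 2842791697) (nat_lit 50) (nat_lit 5) (nat_lit 53) (nat_lit 5) (nat_lit 51) (nat_lit 5) (nat_lit 358) (nat_lit 304) (nat_lit 238)) (XT.lf (nat_lit 0) (nat_lit 5177734683) (nat_lit 152) (nat_lit 11931165586) (nat_lit 228) (nat_lit 9572746186) (nat_lit 48) (nat_lit 5) (nat_lit 50) (nat_lit 5) (nat_lit 51) (nat_lit 5) (nat_lit 359) (nat_lit 304) (nat_lit 237)))) (XT.nd (nat_lit 78) (nat_lit 380) (nat_lit 0) (XT.lf (nat_lit 0) (nat_lit 26995367489) (nat_lit 152) (nat_lit 268832618) (nat_lit 228) (nat_lit 385399611) (nat_lit 48) (nat_lit 5) (nat_lit 50) (nat_lit 5) (nat_lit 51) (nat_lit 5) (nat_lit 360) (nat_lit 304) (nat_lit 236)) (XT.nd (nat_lit 78) (nat_lit 152) (nat_lit 0) (XT.lf (nat_lit 0) (nat_lit 9364490584) (nat_lit 228) (nat_lit 7279281989) (nat_lit 76) (nat_lit 12010998444) (nat_lit 45) (nat_lit 5) (nat_lit 48) (nat_lit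 5) (nat_lit 46) (nat_lit 5) (nat_lit 361) (nat_lit 304) (nat_lit 235)) (XT.lf (nat_lit 0) (nat_lit 15026470032) (nat_lit 152) (nat_lit 4681938350) (nat_lit 228) (nat_lit 9998250597) (nat_lit 43) (nat_lit 5) (nat_lit 45) (nat_lit 5) (nat_lit 46) (nat_lit 5) (nat_lit 362) (nat_lit 304) (nat_lit 234))))))) (XT.nd (nat_lit 936) (nat_lit 684) (nat_lit 0) (XT.nd (nat_lit 468) (nat_lit 608) (nat_lit 0) (XT.nd (nat_lit 234) (nat_lit 304) (nat_lit 0) (XT.nd (nat_lit 78) (nat_lit 228) (nat_lit 0) (XT.lf (nat_lit 0) (nat_lit 7797114754) (nat_lit 76) (nat_lit 22960167850) (nat_lit 152) (nat_lit 48233240) (nat_lit 42) (nat_lit 5) (nat_lit 43) (nat_lit 5) (nat_lit 44) (nat_lit 4) (nat_lit 363) (nat_lit 304) (nat_lit 233)) (XT.nd (nat_lit 78) (nat_lit 152) (nat_lit 0) (XT.lf (nat_lit 0) (nat_lit 10358449006) (nat_lit 152) (nat_lit 466511293) (nat_lit 76) (nat_lit 21126500348) (nat_lit 41) (nat_lit 5) (nat_lit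 43) (nat_lit 5) (nat_lit 42) (nat_lit 5) (nat_lit 364) (nat_lit 304) (nat_lit 232)) (XT.lf (nat_lit 0) (nat_lit 21495731678) (nat_lit 228) (nat_lit 9571736696) (nat_lit 76) (nat_lit 2080888521) (nat_lit 39) (nat_lit 5) (nat_lit 42) (nat_lit 5) (nat_lit 40) (nat_lit 4) (nat_lit 365) (nat_lit 304) (nat_lit 231)))) (XT.nd (nat_lit 78) (nat_lit 228) (nat_lit 0) (XT.lf (nat_lit 0) (nat_lit 14537320218) (nat_lit 76) (nat_lit 18871265526) (nat_lit 152) (nat_lit 989957133) (nat_lit 38) (nat_lit 5) (nat_lit 39) (nat_lit 5) (nat_lit 40) (nat_lit 4) (nat_lit 366) (nat_lit 304) (nat_lit 230)) (XT.nd (nat_lit 78) (nat_lit 0) (nat_lit 0) (XT.lf (nat_lit 0) (nat_lit 4265101150) (nat_lit 152) (nat_lit 5847689386) (nat_lit 228) (nat_lit 25592327186) (nat_lit 35) (nat_lit 5) (nat_lit 37) (nat_lit 5) (nat_lit 38) (nat_lit 5) (nat_lit 367) (nat_lit 304) (nat_lit 229)) (XT.lf (nat_lit 0) (nat_lit 21998490542) (nat_lit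 228) (nat_lit 7206922178) (nat_lit 76) (nat_lit 7863871286) (nat_lit 35) (nat_lit 5) (nat_lit 38) (nat_lit 5) (nat_lit 36) (nat_lit 4) (nat_lit 368) (nat_lit 304) (nat_lit 228))))) (XT.nd (nat_lit 234) (nat_lit 304) (nat_lit 0) (XT.nd (nat_lit 78) (nat_lit 228) (nat_lit 0) (XT.lf (nat_lit 0) (nat_lit 18480801258) (nat_lit 76) (nat_lit 16202327931) (nat_lit 152) (nat_lit 3812394955) (nat_lit 34) (nat_lit 5) (nat_lit 35) (nat_lit 5) (nat_lit 36) (nat_lit 4) (nat_lit 369) (nat_lit 304) (nat_lit 227)) (XT.nd (nat_lit 78) (nat_lit 0) (nat_lit 0) (XT.lf (nat_lit 0) (nat_lit 5586374156) (nat_lit 152) (nat_lit 2363537258) (nat_lit 228) (nat_lit 32037941909) (nat_lit 31) (nat_lit 5) (nat_lit 33) (nat_lit 5) (nat_lit 34) (nat_lit 5) (nat_lit 370) (nat_lit 304) (nat_lit 226)) (XT.lf (nat_lit 0) (nat_lit 20516609933) (nat_lit 228) (nat_lit 8876920086) (nat_lit 76) (nat_lit 12151287393) (nat_lit 31) (nat_lit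 5) (nat_lit 34) (nat_lit 5) (nat_lit 32) (nat_lit 4) (nat_lit 371) (nat_lit 304) (nat_lit 225)))) (XT.nd (nat_lit 78) (nat_lit 228) (nat_lit 0) (XT.lf (nat_lit 0) (nat_lit 18201279752) (nat_lit 76) (nat_lit 15679998083) (nat_lit 152) (nat_lit 9293267155) (nat_lit 30) (nat_lit 5) (nat_lit 31) (nat_lit 5) (nat_lit 32) (nat_lit 4) (nat_lit 372) (nat_lit 304) (nat_lit 224)) (XT.nd (nat_lit 78) (nat_lit 0) (nat_lit 0) (XT.lf (nat_lit 0) (nat_lit 1889803008) (nat_lit 152) (nat_lit 1161391582) (nat_lit 228) (nat_lit 41831238923) (nat_lit 27) (nat_lit 5) (nat_lit 29) (nat_lit 5) (nat_lit 30) (nat_lit 5) (nat_lit 373) (nat_lit 304) (nat_lit 223)) (XT.lf (nat_lit 0) (nat_lit 16189523905) (nat_lit 228) (nat_lit 16333853769) (nat_lit 76) (nat_lit 14138516914) (nat_lit 27) (nat_lit 5) (nat_lit 30) (nat_lit 5) (nat_lit 28) (nat_lit 4) (nat_lit 374) (nat_lit 304) (nat_lit 222)))))) (XT.nd (nat_lit 468) (nat_lit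 304) (nat_lit 0) (XT.nd (nat_lit 234) (nat_lit 152) (nat_lit 0) (XT.nd (nat_lit 78) (nat_lit 152) (nat_lit 0) (XT.lf (nat_lit 0) (nat_lit 11827390039) (nat_lit 76) (nat_lit 18256182520) (nat_lit 152) (nat_lit 18443795691) (nat_lit 26) (nat_lit 5) (nat_lit 27) (nat_lit 5) (nat_lit 28) (nat_lit 4) (nat_lit 375) (nat_lit 304) (nat_lit 221)) (XT.nd (nat_lit 78) (nat_lit 152) (nat_lit 0) (XT.lf (nat_lit 0) (nat_lit 41689901186) (nat_lit 76) (nat_lit 3124758243) (nat_lit 152) (nat_lit 5667189542) (nat_lit 26) (nat_lit 5) (nat_lit 27) (nat_lit 5) (nat_lit 28) (nat_lit 4) (nat_lit 376) (nat_lit 304) (nat_lit 220)) (XT.lf (nat_lit 0) (nat_lit 7897332819) (nat_lit 152) (nat_lit 31855280330) (nat_lit 76) (nat_lit 12770200878) (nat_lit 24) (nat_lit 5) (nat_lit 26) (nat_lit 5) (nat_lit 25) (nat_lit 4) (nat_lit 377) (nat_lit 304) (nat_lit 219)))) (XT.nd (nat_lit 78) (nat_lit 152) (nat_lit 0) (XT.lf (nat_lit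 0) (nat_lit 22122628904) (nat_lit 152) (nat_lit 3014558473) (nat_lit 76) (nat_lit 29523967060) (nat_lit 24) (nat_lit 5) (nat_lit 26) (nat_lit 5) (nat_lit 25) (nat_lit 4) (nat_lit 378) (nat_lit 304) (nat_lit 218)) (XT.nd (nat_lit 78) (nat_lit 76) (nat_lit 0) (XT.lf (nat_lit 0) (nat_lit 27766669058) (nat_lit 76) (nat_lit 9536310822) (nat_lit 152) (nat_lit 19596121178) (nat_lit 23) (nat_lit 5) (nat_lit 24) (nat_lit 5) (nat_lit 25) (nat_lit 4) (nat_lit 379) (nat_lit 304) (nat_lit 217)) (XT.lf (nat_lit 0) (nat_lit 809022975) (nat_lit 76) (nat_lit 52515623010) (nat_lit 76) (nat_lit 5921832854) (nat_lit 22) (nat_lit 4) (nat_lit 23) (nat_lit 5) (nat_lit 23) (nat_lit 4) (nat_lit 380) (nat_lit 304) (nat_lit 216))))) (XT.nd (nat_lit 234) (nat_lit 152) (nat_lit 0) (XT.nd (nat_lit 78) (nat_lit 76) (nat_lit 0) (XT.lf (nat_lit 0) (nat_lit 8648510058) (nat_lit 152) (nat_lit 29068034811) (nat_lit 76) (nat_lit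 23980941570) (nat_lit 21) (nat_lit 5) (nat_lit 23) (nat_lit 5) (nat_lit 22) (nat_lit 4) (nat_lit 381) (nat_lit 304) (nat_lit 215)) (XT.nd (nat_lit 78) (nat_lit 0) (nat_lit 0) (XT.lf (nat_lit 0) (nat_lit 1703495976) (nat_lit 76) (nat_lit 22117816053) (nat_lit 152) (nat_lit 40448083421) (nat_lit 20) (nat_lit 5) (nat_lit 21) (nat_lit 5) (nat_lit 22) (nat_lit 4) (nat_lit 382) (nat_lit 304) (nat_lit 214)) (XT.lf (nat_lit 0) (nat_lit 34582349354) (nat_lit 76) (nat_lit 5449168287) (nat_lit 152) (nat_lit 26930021677) (nat_lit 20) (nat_lit 5) (nat_lit 21) (nat_lit 5) (nat_lit 22) (nat_lit 4) (nat_lit 383) (nat_lit 304) (nat_lit 213)))) (XT.nd (nat_lit 78) (nat_lit 152) (nat_lit 0) (XT.lf (nat_lit 0) (nat_lit 57148435009) (nat_lit 152) (nat_lit 836273035) (nat_lit 0) (nat_lit 11800698490) (nat_lit 20) (nat_lit 5) (nat_lit 22) (nat_lit 4) (nat_lit 20) (nat_lit 4) (nat_lit 384) (nat_lit 304) (nat_lit 212))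 (XT.nd (nat_lit 78) (nat_lit 0) (nat_lit 0) (XT.lf (nat_lit 0) (nat_lit 2679849674) (nat_lit 152) (nat_lit 39932179040) (nat_lit 76) (nat_lit 30127095364) (nat_lit 18) (nat_lit 5) (nat_lit 20) (nat_lit 5) (nat_lit 19) (nat_lit 4) (nat_lit 385) (nat_lit 304) (nat_lit 211)) (XT.lf (nat_lit 0) (nat_lit 18493939377) (nat_lit 152) (nat_lit 7852945857) (nat_lit 76) (nat_lit 49490107264) (nat_lit 18) (nat_lit 5) (nat_lit 20) (nat_lit 5) (nat_lit 19) (nat_lit 4) (nat_lit 386) (nat_lit 304) (nat_lit 210))))))))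
noncomputable def xc58 : XT := (XT.nd (nat_lit 41730) (nat_lit 0) (nat_lit 5700) (XT.nd (nat_lit 40794) (nat_lit 0) (nat_lit 15580) (XT.nd (nat_lit 390) (nat_lit 152) (nat_lit 0) (XT.nd (nat_lit 156) (nat_lit 152) (nat_lit 0) (XT.nd (nat_lit 78) (nat_lit 0) (nat_lit 0) (XT.lf (nat_lit 0) (nat_lit 26310477323) (nat_lit 76) (nat_lit 9023698158) (nat_lit 152) (nat_lit 43748517447) (nat_lit 17) (nat_lit 5) (nat_lit 18) (nat_lit 5) (nat_lit 19) (nat_lit 4) (nat_lit 387) (nat_lit 304) (nat_lit 209)) (XT.lf (nat_lit 0) (nat_lit 53169073423) (nat_lit 152) (nat_lit 20263580197) (nat_lit 0) (nat_lit 9053447016) (nat_lit 17) (nat_lit 5) (nat_lit 19) (nat_lit 4) (nat_lit 17) (nat_lit 4) (nat_lit 388) (nat_lit 304) (nat_lit 208))) (XT.nd (nat_lit 78) (nat_lit 76) (nat_lit 0) (XT.lf (nat_lit 0) (nat_lit 14021984295) (nat_lit 76) (nat_lit 58083316972) (nat_lit 76) (nat_lit 13948091587) (nat_lit 16) (nat_lit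 4) (nat_lit 17) (nat_lit 5) (nat_lit 17) (nat_lit 4) (nat_lit 389) (nat_lit 304) (nat_lit 207)) (XT.nd (nat_lit 78) (nat_lit 0) (nat_lit 0) (XT.lf (nat_lit 0) (nat_lit 2341277078) (nat_lit 152) (nat_lit 39401098610) (nat_lit 76) (nat_lit 48050202983) (nat_lit 15) (nat_lit 5) (nat_lit 17) (nat_lit 5) (nat_lit 16) (nat_lit 4) (nat_lit 390) (nat_lit 304) (nat_lit 206)) (XT.lf (nat_lit 0) (nat_lit 19144133724) (nat_lit 152) (nat_lit 5309076469) (nat_lit 76) (nat_lit 69261747436) (nat_lit 15) (nat_lit 5) (nat_lit 17) (nat_lit 5) (nat_lit 16) (nat_lit 4) (nat_lit 391) (nat_lit 304) (nat_lit 205))))) (XT.nd (nat_lit 40170) (nat_lit 0) (nat_lit 23940) (XT.nd (nat_lit 156) (nat_lit 76) (nat_lit 0) (XT.lf (nat_lit 0) (nat_lit 31066118805) (nat_lit 76) (nat_lit 6005170391) (nat_lit 152) (nat_lit 60753643065) (nat_lit 14) (nat_lit 5) (nat_lit 15) (nat_lit 5) (nat_lit 16) (nat_lit 4) (nat_lit 392) (nat_lit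 304) (nat_lit 204)) (XT.nd (nat_lit 39936) (nat_lit 0) (nat_lit 24548) (XT.lf (nat_lit 0) (nat_lit 2566348645) (nat_lit 76) (nat_lit 73512422439) (nat_lit 76) (nat_lit 30580307192) (nat_lit 13) (nat_lit 4) (nat_lit 14) (nat_lit 5) (nat_lit 14) (nat_lit 4) (nat_lit 394) (nat_lit 304) (nat_lit 202)) (XT.lf (nat_lit 0) (nat_lit 864187517) (nat_lit 0) (nat_lit 864187517) (nat_lit 532) (nat_lit 1639006010) (nat_lit 336) (nat_lit 5) (nat_lit 336) (nat_lit 3) (nat_lit 343) (nat_lit 3) (nat_lit 305) (nat_lit 305) (nat_lit 290)))) (XT.nd (nat_lit 78) (nat_lit 0) (nat_lit 0) (XT.lf (nat_lit 0) (nat_lit 150840309) (nat_lit 608) (nat_lit 6417182165) (nat_lit 684) (nat_lit 229606707) (nat_lit 328) (nat_lit 5) (nat_lit 336) (nat_lit 5) (nat_lit 337) (nat_lit 5) (nat_lit 306) (nat_lit 305) (nat_lit 289)) (XT.nd (nat_lit 78) (nat_lit 0) (nat_lit 0) (XT.lf (nat_lit 0) (nat_lit 3533205897) (nat_lit 608) (nat_lit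 895484657) (nat_lit 684) (nat_lit 2438678776) (nat_lit 328) (nat_lit 5) (nat_lit 336) (nat_lit 5) (nat_lit 337) (nat_lit 5) (nat_lit 307) (nat_lit 305) (nat_lit 288)) (XT.lf (nat_lit 76) (nat_lit 4879814057) (nat_lit 0) (nat_lit 2042015132) (nat_lit 684) (nat_lit 23842945) (nat_lit 329) (nat_lit 5) (nat_lit 328) (nat_lit 5) (nat_lit 337) (nat_lit 5) (nat_lit 308) (nat_lit 305) (nat_lit 287)))))) (XT.nd (nat_lit 468) (nat_lit 6232) (nat_lit 0) (XT.nd (nat_lit 234) (nat_lit 760) (nat_lit 0) (XT.nd (nat_lit 78) (nat_lit 760) (nat_lit 0) (XT.lf (nat_lit 0) (nat_lit 3234047783) (nat_lit 684) (nat_lit 3179383318) (nat_lit 760) (nat_lit 618156568) (nat_lit 320) (nat_lit 5) (nat_lit 329) (nat_lit 5) (nat_lit 330) (nat_lit 5) (nat_lit 309) (nat_lit 305) (nat_lit 286)) (XT.nd (nat_lit 78) (nat_lit 760) (nat_lit 0) (XT.lf (nat_lit 76) (nat_lit 2901827662) (nat_lit 0) (nat_lit 3628778220) (nat_lit 760)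 (nat_lit 595065204) (nat_lit 321) (nat_lit 5) (nat_lit 320) (nat_lit 5) (nat_lit 330) (nat_lit 5) (nat_lit 310) (nat_lit 305) (nat_lit 285)) (XT.lf (nat_lit 76) (nat_lit 2020248184) (nat_lit 0) (nat_lit 558125644) (nat_lit 836) (nat_lit 4649495963) (nat_lit 311) (nat_lit 5) (nat_lit 310) (nat_lit 5) (nat_lit 321) (nat_lit 5) (nat_lit 311) (nat_lit 305) (nat_lit 284)))) (XT.nd (nat_lit 78) (nat_lit 836) (nat_lit 0) (XT.lf (nat_lit 76) (nat_lit 1197303557) (nat_lit 0) (nat_lit 4602788676) (nat_lit 836) (nat_lit 1537999226) (nat_lit 312) (nat_lit 5) (nat_lit 311) (nat_lit 5) (nat_lit 322) (nat_lit 5) (nat_lit 312) (nat_lit 305) (nat_lit 283)) (XT.nd (nat_lit 78) (nat_lit 0) (nat_lit 76) (XT.lf (nat_lit 76) (nat_lit 439938513) (nat_lit 0) (nat_lit 1145675826) (nat_lit 912) (nat_lit 5871138885) (nat_lit 301) (nat_lit 5) (nat_lit 300) (nat_lit 5) (nat_lit 312) (nat_lit 5) (nat_lit 313) (nat_lit 305)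 (nat_lit 282)) (XT.lf (nat_lit 0) (nat_lit 4755438692) (nat_lit 836) (nat_lit 268381591) (nat_lit 76) (nat_lit 2559545448) (nat_lit 301) (nat_lit 5) (nat_lit 312) (nat_lit 5) (nat_lit 302) (nat_lit 5) (nat_lit 314) (nat_lit 305) (nat_lit 281))))) (XT.nd (nat_lit 234) (nat_lit 3496) (nat_lit 0) (XT.nd (nat_lit 78) (nat_lit 1900) (nat_lit 0) (XT.lf (nat_lit 0) (nat_lit 278189078) (nat_lit 912) (nat_lit 903521431) (nat_lit 76) (nat_lit 6537074839) (nat_lit 289) (nat_lit 5) (nat_lit 301) (nat_lit 5) (nat_lit 290) (nat_lit 5) (nat_lit 315) (nat_lit 305) (nat_lit 280)) (XT.nd (nat_lit 78) (nat_lit 988) (nat_lit 0) (XT.lf (nat_lit 0) (nat_lit 3420897491) (nat_lit 988) (nat_lit 1518557624) (nat_lit 76) (nat_lit 2922601837) (nat_lit 277) (nat_lit 5) (nat_lit 290) (nat_lit 5) (nat_lit 278) (nat_lit 5) (nat_lit 316) (nat_lit 305) (nat_lit 279)) (XT.lf (nat_lit 0) (nat_lit 5941513731) (nat_lit 988) (nat_lit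 710658135) (nat_lit 1064) (nat_lit 1362486074) (nat_lit 264) (nat_lit 5) (nat_lit 277) (nat_lit 5) (nat_lit 278) (nat_lit 5) (nat_lit 317) (nat_lit 305) (nat_lit 278)))) (XT.nd (nat_lit 78) (nat_lit 2356) (nat_lit 0) (XT.lf (nat_lit 0) (nat_lit 1797544048) (nat_lit 1140) (nat_lit 2611873431) (nat_lit 76) (nat_lit 3766115248) (nat_lit 249) (nat_lit 5) (nat_lit 264) (nat_lit 5) (nat_lit 250) (nat_lit 5) (nat_lit 318) (nat_lit 305) (nat_lit 277)) (XT.nd (nat_lit 78) (nat_lit 1216) (nat_lit 0) (XT.lf (nat_lit 0) (nat_lit 5031987740) (nat_lit 1216) (nat_lit 3107247044) (nat_lit 76) (nat_lit 206569799) (nat_lit 234) (nat_lit 5) (nat_lit 250) (nat_lit 5) (nat_lit 235) (nat_lit 5) (nat_lit 319) (nat_lit 305) (nat_lit 276)) (XT.lf (nat_lit 0) (nat_lit 4941003763) (nat_lit 1216) (nat_lit 3474999618) (nat_lit 1292) (nat_lit 109042340) (nat_lit 218) (nat_lit 5) (nat_lit 234) (nat_lit 5) (nat_lit 235) (nat_lit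 5) (nat_lit 320) (nat_lit 305) (nat_lit 275))))))) (XT.nd (nat_lit 936) (nat_lit 3648) (nat_lit 0) (XT.nd (nat_lit 468) (nat_lit 2736) (nat_lit 0) (XT.nd (nat_lit 234) (nat_lit 1596) (nat_lit 0) (XT.nd (nat_lit 78) (nat_lit 1216) (nat_lit 0) (XT.lf (nat_lit 0) (nat_lit 3157011427) (nat_lit 684) (nat_lit 4046691412) (nat_lit 76) (nat_lit 1509754146) (nat_lit 209) (nat_lit 5) (nat_lit 218) (nat_lit 5) (nat_lit 210) (nat_lit 5) (nat_lit 321) (nat_lit 305) (nat_lit 274)) (XT.nd (nat_lit 78) (nat_lit 684) (nat_lit 0) (XT.lf (nat_lit 0) (nat_lit 4422235648) (nat_lit 532) (nat_lit 2154178930) (nat_lit 608) (nat_lit 2335153085) (nat_lit 202) (nat_lit 5) (nat_lit 209) (nat_lit 5) (nat_lit 210) (nat_lit 5) (nat_lit 322) (nat_lit 305) (nat_lit 273)) (XT.lf (nat_lit 0) (nat_lit 1021562671) (nat_lit 684) (nat_lit 4919952471) (nat_lit 76) (nat_lit 3177997184) (nat_lit 193) (nat_lit 5) (nat_lit 202) (nat_lit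 5) (nat_lit 194) (nat_lit 5) (nat_lit 323) (nat_lit 305) (nat_lit 272)))) (XT.nd (nat_lit 78) (nat_lit 1064) (nat_lit 0) (XT.lf (nat_lit 0) (nat_lit 3991069446) (nat_lit 532) (nat_lit 499375821) (nat_lit 608) (nat_lit 4847007288) (nat_lit 186) (nat_lit 5) (nat_lit 193) (nat_lit 5) (nat_lit 194) (nat_lit 5) (nat_lit 324) (nat_lit 305) (nat_lit 271)) (XT.nd (nat_lit 78) (nat_lit 532) (nat_lit 0) (XT.lf (nat_lit 0) (nat_lit 3787859135) (nat_lit 532) (nat_lit 4372251177) (nat_lit 608) (nat_lit 1405426674) (nat_lit 179) (nat_lit 5) (nat_lit 186) (nat_lit 5) (nat_lit 187) (nat_lit 5) (nat_lit 325) (nat_lit 305) (nat_lit 270)) (XT.lf (nat_lit 0) (nat_lit 2167148358) (nat_lit 532) (nat_lit 6207848545) (nat_lit 76) (nat_lit 1429394018) (nat_lit 172) (nat_lit 5) (nat_lit 179) (nat_lit 5) (nat_lit 173) (nat_lit 5) (nat_lit 326) (nat_lit 305) (nat_lit 269))))) (XT.nd (nat_lit 234) (nat_lit 1292) (nat_lit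 0) (XT.nd (nat_lit 78) (nat_lit 988) (nat_lit 0) (XT.lf (nat_lit 0) (nat_lit 3394709105) (nat_lit 456) (nat_lit 2528200905) (nat_lit 532) (nat_lit 4130910662) (nat_lit 166) (nat_lit 5) (nat_lit 172) (nat_lit 5) (nat_lit 173) (nat_lit 5) (nat_lit 327) (nat_lit 305) (nat_lit 268)) (XT.nd (nat_lit 78) (nat_lit 532) (nat_lit 0) (XT.lf (nat_lit 0) (nat_lit 3201544212) (nat_lit 456) (nat_lit 6695120087) (nat_lit 532) (nat_lit 418207953) (nat_lit 160) (nat_lit 5) (nat_lit 166) (nat_lit 5) (nat_lit 167) (nat_lit 5) (nat_lit 328) (nat_lit 305) (nat_lit 267)) (XT.lf (nat_lit 0) (nat_lit 2988658763) (nat_lit 456) (nat_lit 449856088) (nat_lit 532) (nat_lit 7148721344) (nat_lit 153) (nat_lit 5) (nat_lit 159) (nat_lit 5) (nat_lit 160) (nat_lit 5) (nat_lit 329) (nat_lit 305) (nat_lit 266)))) (XT.nd (nat_lit 78) (nat_lit 912) (nat_lit 0) (XT.lf (nat_lit 0) (nat_lit 2746534167) (nat_lit 380) (nat_lit 4798187214)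 (nat_lit 456) (nat_lit 3326463565) (nat_lit 148) (nat_lit 5) (nat_lit 153) (nat_lit 5) (nat_lit 154) (nat_lit 5) (nat_lit 330) (nat_lit 305) (nat_lit 265)) (XT.nd (nat_lit 78) (nat_lit 380) (nat_lit 0) (XT.lf (nat_lit 0) (nat_lit 707497289) (nat_lit 532) (nat_lit 8663584690) (nat_lit 76) (nat_lit 1797077227) (nat_lit 141) (nat_lit 5) (nat_lit 148) (nat_lit 5) (nat_lit 142) (nat_lit 5) (nat_lit 331) (nat_lit 305) (nat_lit 264)) (XT.lf (nat_lit 0) (nat_lit 2203284786) (nat_lit 380) (nat_lit 2737424629) (nat_lit 456) (nat_lit 6536338015) (nat_lit 136) (nat_lit 5) (nat_lit 141) (nat_lit 5) (nat_lit 142) (nat_lit 5) (nat_lit 332) (nat_lit 305) (nat_lit 263)))))) (XT.nd (nat_lit 468) (nat_lit 1824) (nat_lit 0) (XT.nd (nat_lit 234) (nat_lit 684) (nat_lit 0) (XT.nd (nat_lit 78) (nat_lit 760) (nat_lit 0) (XT.lf (nat_lit 0) (nat_lit 1877432951) (nat_lit 380) (nat_lit 7571431593) (nat_lit 456) (nat_lit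 2350658761) (nat_lit 131) (nat_lit 5) (nat_lit 136) (nat_lit 5) (nat_lit 137) (nat_lit 5) (nat_lit 333) (nat_lit 305) (nat_lit 262)) (XT.nd (nat_lit 78) (nat_lit 380) (nat_lit 0) (XT.lf (nat_lit 0) (nat_lit 1514085419) (nat_lit 304) (nat_lit 545603412) (nat_lit 380) (nat_lit 10076224895) (nat_lit 126) (nat_lit 5) (nat_lit 130) (nat_lit 5) (nat_lit 131) (nat_lit 5) (nat_lit 334) (nat_lit 305) (nat_lit 261)) (XT.lf (nat_lit 0) (nat_lit 1062760991) (nat_lit 380) (nat_lit 5677996112) (nat_lit 456) (nat_lit 5744740526) (nat_lit 121) (nat_lit 5) (nat_lit 126) (nat_lit 5) (nat_lit 127) (nat_lit 5) (nat_lit 335) (nat_lit 305) (nat_lit 260)))) (XT.nd (nat_lit 78) (nat_lit 380) (nat_lit 0) (XT.lf (nat_lit 0) (nat_lit 583280673) (nat_lit 304) (nat_lit 11131934229) (nat_lit 380) (nat_lit 1135600723) (nat_lit 117) (nat_lit 5) (nat_lit 121) (nat_lit 5) (nat_lit 122) (nat_lit 5) (nat_lit 336) (nat_lit 305)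 (nat_lit 259)) (XT.nd (nat_lit 78) (nat_lit 304) (nat_lit 0) (XT.lf (nat_lit 0) (nat_lit 3731544537) (nat_lit 380) (nat_lit 4880024) (nat_lit 76) (nat_lit 9493944351) (nat_lit 116) (nat_lit 5) (nat_lit 121) (nat_lit 5) (nat_lit 117) (nat_lit 5) (nat_lit 337) (nat_lit 305) (nat_lit 258)) (XT.lf (nat_lit 0) (nat_lit 8911024887) (nat_lit 380) (nat_lit 656553268) (nat_lit 76) (nat_lit 4058241294) (nat_lit 112) (nat_lit 5) (nat_lit 117) (nat_lit 5) (nat_lit 113) (nat_lit 5) (nat_lit 338) (nat_lit 305) (nat_lit 257))))) (XT.nd (nat_lit 234) (nat_lit 912) (nat_lit 0) (XT.nd (nat_lit 78) (nat_lit 532) (nat_lit 0) (XT.lf (nat_lit 0) (nat_lit 392318415) (nat_lit 380) (nat_lit 1383731438) (nat_lit 76) (nat_lit 12262235186) (nat_lit 107) (nat_lit 5) (nat_lit 112) (nat_lit 5) (nat_lit 108) (nat_lit 5) (nat_lit 339) (nat_lit 305) (nat_lit 256)) (XT.nd (nat_lit 78) (nat_lit 228) (nat_lit 0) (XT.lf (nat_lit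 0) (nat_lit 5777181152) (nat_lit 380) (nat_lit 2266255225) (nat_lit 76) (nat_lit 6422967127) (nat_lit 103) (nat_lit 5) (nat_lit 108) (nat_lit 5) (nat_lit 104) (nat_lit 5) (nat_lit 340) (nat_lit 305) (nat_lit 255)) (XT.lf (nat_lit 0) (nat_lit 11510992239) (nat_lit 304) (nat_lit 3227968005) (nat_lit 76) (nat_lit 174602328) (nat_lit 100) (nat_lit 5) (nat_lit 104) (nat_lit 5) (nat_lit 101) (nat_lit 5) (nat_lit 341) (nat_lit 305) (nat_lit 254)))) (XT.nd (nat_lit 78) (nat_lit 532) (nat_lit 0) (XT.lf (nat_lit 0) (nat_lit 2254017184) (nat_lit 380) (nat_lit 4364948459) (nat_lit 76) (nat_lit 8759092497) (nat_lit 95) (nat_lit 5) (nat_lit 100) (nat_lit 5) (nat_lit 96) (nat_lit 5) (nat_lit 342) (nat_lit 305) (nat_lit 253)) (XT.nd (nat_lit 78) (nat_lit 304) (nat_lit 0) (XT.lf (nat_lit 0) (nat_lit 8212142072) (nat_lit 304) (nat_lit 5644900809) (nat_lit 76) (nat_lit 2005075343) (nat_lit 92) (nat_lit 5) (nat_lit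 96) (nat_lit 5) (nat_lit 93) (nat_lit 5) (nat_lit 343) (nat_lit 305) (nat_lit 252)) (XT.lf (nat_lit 0) (nat_lit 9268971703) (nat_lit 304) (nat_lit 5339079130) (nat_lit 380) (nat_lit 1758155818) (nat_lit 88) (nat_lit 5) (nat_lit 92) (nat_lit 5) (nat_lit 93) (nat_lit 5) (nat_lit 344) (nat_lit 305) (nat_lit 251))))))))
noncomputable def xc59 : XT := (XT.nd (nat_lit 1872) (nat_lit 1520) (nat_lit 0) (XT.nd (nat_lit 936) (nat_lit 1520) (nat_lit 0) (XT.nd (nat_lit 468) (nat_lit 1216) (nat_lit 0) (XT.nd (nat_lit 234) (nat_lit 456) (nat_lit 0) (XT.nd (nat_lit 78) (nat_lit 532) (nat_lit 0) (XT.lf (nat_lit 0) (nat_lit 4455241657) (nat_lit 304) (nat_lit 8752701412) (nat_lit 76) (nat_lit 3682897532) (nat_lit 84) (nat_lit 5) (nat_lit 88) (nat_lit 5) (nat_lit 85) (nat_lit 5) (nat_lit 345) (nat_lit 305) (nat_lit 250)) (XT.nd (nat_lit 78) (nat_lit 304) (nat_lit 0) (XT.lf (nat_lit 0) (nat_lit 6812096116) (nat_lit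 228) (nat_lit 4266025025) (nat_lit 304) (nat_lit 6359026760) (nat_lit 81) (nat_lit 5) (nat_lit 84) (nat_lit 5) (nat_lit 85) (nat_lit 5) (nat_lit 346) (nat_lit 305) (nat_lit 249)) (XT.lf (nat_lit 0) (nat_lit 156649040) (nat_lit 304) (nat_lit 12716485770) (nat_lit 76) (nat_lit 5133576474) (nat_lit 77) (nat_lit 5) (nat_lit 81) (nat_lit 5) (nat_lit 78) (nat_lit 5) (nat_lit 347) (nat_lit 305) (nat_lit 248)))) (XT.nd (nat_lit 78) (nat_lit 228) (nat_lit 0) (XT.lf (nat_lit 0) (nat_lit 3491849319) (nat_lit 228) (nat_lit 3507610902) (nat_lit 304) (nat_lit 11599434617) (nat_lit 74) (nat_lit 5) (nat_lit 77) (nat_lit 5) (nat_lit 78) (nat_lit 5) (nat_lit 348) (nat_lit 305) (nat_lit 247)) (XT.nd (nat_lit 78) (nat_lit 76) (nat_lit 0) (XT.lf (nat_lit 0) (nat_lit 1436990502) (nat_lit 152) (nat_lit 12900286929) (nat_lit 228) (nat_lit 4878840178) (nat_lit 72) (nat_lit 5) (nat_lit 74) (nat_lit 5) (nat_lit 75) (nat_lit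 5) (nat_lit 349) (nat_lit 305) (nat_lit 246)) (XT.lf (nat_lit 0) (nat_lit 2274995184) (nat_lit 228) (nat_lit 880540194) (nat_lit 76) (nat_lit 16703861683) (nat_lit 71) (nat_lit 5) (nat_lit 74) (nat_lit 5) (nat_lit 72) (nat_lit 5) (nat_lit 350) (nat_lit 305) (nat_lit 245))))) (XT.nd (nat_lit 234) (nat_lit 532) (nat_lit 0) (XT.nd (nat_lit 78) (nat_lit 456) (nat_lit 0) (XT.lf (nat_lit 0) (nat_lit 9870169779) (nat_lit 304) (nat_lit 3535978274) (nat_lit 76) (nat_lit 7121720886) (nat_lit 68) (nat_lit 5) (nat_lit 72) (nat_lit 5) (nat_lit 69) (nat_lit 5) (nat_lit 351) (nat_lit 305) (nat_lit 244)) (XT.nd (nat_lit 78) (nat_lit 304) (nat_lit 0) (XT.lf (nat_lit 0) (nat_lit 14720469481) (nat_lit 152) (nat_lit 3258213812) (nat_lit 228) (nat_lit 3247087132) (nat_lit 66) (nat_lit 5) (nat_lit 68) (nat_lit 5) (nat_lit 69) (nat_lit 5) (nat_lit 352) (nat_lit 305) (nat_lit 243)) (XT.lf (nat_lit 0) (nat_lit 4623731314)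 (nat_lit 304) (nat_lit 9908481876) (nat_lit 76) (nat_lit 7419714135) (nat_lit 62) (nat_lit 5) (nat_lit 66) (nat_lit 5) (nat_lit 63) (nat_lit 5) (nat_lit 353) (nat_lit 305) (nat_lit 242)))) (XT.nd (nat_lit 78) (nat_lit 380) (nat_lit 0) (XT.lf (nat_lit 0) (nat_lit 8972848779) (nat_lit 152) (nat_lit 3988862627) (nat_lit 228) (nat_lit 9747504736) (nat_lit 60) (nat_lit 5) (nat_lit 62) (nat_lit 5) (nat_lit 63) (nat_lit 5) (nat_lit 354) (nat_lit 305) (nat_lit 241)) (XT.nd (nat_lit 78) (nat_lit 228) (nat_lit 0) (XT.lf (nat_lit 0) (nat_lit 5463624719) (nat_lit 152) (nat_lit 16431127469) (nat_lit 228) (nat_lit 1604283621) (nat_lit 58) (nat_lit 5) (nat_lit 60) (nat_lit 5) (nat_lit 61) (nat_lit 5) (nat_lit 355) (nat_lit 305) (nat_lit 240)) (XT.lf (nat_lit 0) (nat_lit 1429461075) (nat_lit 152) (nat_lit 5533449361) (nat_lit 228) (nat_lit 17358872666) (nat_lit 55) (nat_lit 5) (nat_lit 57) (nat_lit 5) (nat_lit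 58) (nat_lit 5) (nat_lit 356) (nat_lit 305) (nat_lit 239)))))) (XT.nd (nat_lit 468) (nat_lit 760) (nat_lit 0) (XT.nd (nat_lit 234) (nat_lit 380) (nat_lit 0) (XT.nd (nat_lit 78) (nat_lit 380) (nat_lit 0) (XT.lf (nat_lit 0) (nat_lit 16126543194) (nat_lit 228) (nat_lit 3085836187) (nat_lit 76) (nat_lit 5966784030) (nat_lit 55) (nat_lit 5) (nat_lit 58) (nat_lit 5) (nat_lit 56) (nat_lit 5) (nat_lit 357) (nat_lit 305) (nat_lit 238)) (XT.nd (nat_lit 78) (nat_lit 228) (nat_lit 0) (XT.lf (nat_lit 0) (nat_lit 17933286076) (nat_lit 152) (nat_lit 8002022687) (nat_lit 228) (nat_lit 138504878) (nat_lit 53) (nat_lit 5) (nat_lit 55) (nat_lit 5) (nat_lit 56) (nat_lit 5) (nat_lit 358) (nat_lit 305) (nat_lit 237)) (XT.lf (nat_lit 0) (nat_lit 9197879946) (nat_lit 228) (nat_lit 13892615183) (nat_lit 76) (nat_lit 3915355611) (nat_lit 50) (nat_lit 5) (nat_lit 53) (nat_lit 5) (nat_lit 51) (nat_lit 5) (nat_lit 359)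 (nat_lit 305) (nat_lit 236)))) (XT.nd (nat_lit 78) (nat_lit 228) (nat_lit 0) (XT.lf (nat_lit 0) (nat_lit 7613993289) (nat_lit 152) (nat_lit 11583427282) (nat_lit 228) (nat_lit 8781060263) (nat_lit 48) (nat_lit 5) (nat_lit 50) (nat_lit 5) (nat_lit 51) (nat_lit 5) (nat_lit 360) (nat_lit 305) (nat_lit 235)) (XT.nd (nat_lit 78) (nat_lit 0) (nat_lit 0) (XT.lf (nat_lit 0) (nat_lit 809463329) (nat_lit 228) (nat_lit 27559473643) (nat_lit 76) (nat_lit 626835922) (nat_lit 45) (nat_lit 5) (nat_lit 48) (nat_lit 5) (nat_lit 46) (nat_lit 5) (nat_lit 361) (nat_lit 305) (nat_lit 234)) (XT.lf (nat_lit 0) (nat_lit 10990573377) (nat_lit 228) (nat_lit 5579671354) (nat_lit 76) (nat_lit 13482303929) (nat_lit 45) (nat_lit 5) (nat_lit 48) (nat_lit 5) (nat_lit 46) (nat_lit 5) (nat_lit 362) (nat_lit 305) (nat_lit 233))))) (XT.nd (nat_lit 234) (nat_lit 304) (nat_lit 0) (XT.nd (nat_lit 78) (nat_lit 304) (nat_lit 0) (XT.lf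 (nat_lit 0) (nat_lit 17782216312) (nat_lit 152) (nat_lit 4033602383) (nat_lit 228) (nat_lit 9342299098) (nat_lit 43) (nat_lit 5) (nat_lit 45) (nat_lit 5) (nat_lit 46) (nat_lit 5) (nat_lit 363) (nat_lit 305) (nat_lit 232)) (XT.nd (nat_lit 78) (nat_lit 152) (nat_lit 0) (XT.lf (nat_lit 0) (nat_lit 1056983933) (nat_lit 152) (nat_lit 22164481515) (nat_lit 76) (nat_lit 9090943298) (nat_lit 41) (nat_lit 5) (nat_lit 43) (nat_lit 5) (nat_lit 42) (nat_lit 5) (nat_lit 364) (nat_lit 305) (nat_lit 231)) (XT.lf (nat_lit 0) (nat_lit 1437113837) (nat_lit 152) (nat_lit 10507015438) (nat_lit 228) (nat_lit 21572682834) (nat_lit 39) (nat_lit 5) (nat_lit 41) (nat_lit 5) (nat_lit 42) (nat_lit 5) (nat_lit 365) (nat_lit 305) (nat_lit 230)))) (XT.nd (nat_lit 78) (nat_lit 304) (nat_lit 0) (XT.lf (nat_lit 0) (nat_lit 23599915192) (nat_lit 228) (nat_lit 8182934565) (nat_lit 76) (nat_lit 2991863232) (nat_lit 39) (nat_lit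 5) (nat_lit 42) (nat_lit 5) (nat_lit 40) (nat_lit 4) (nat_lit 366) (nat_lit 305) (nat_lit 229)) (XT.nd (nat_lit 78) (nat_lit 228) (nat_lit 0) (XT.lf (nat_lit 0) (nat_lit 17078046866) (nat_lit 76) (nat_lit 18998782133) (nat_lit 152) (nat_lit 11535324) (nat_lit 38) (nat_lit 5) (nat_lit 39) (nat_lit 5) (nat_lit 40) (nat_lit 4) (nat_lit 367) (nat_lit 305) (nat_lit 228)) (XT.lf (nat_lit 0) (nat_lit 6259867862) (nat_lit 152) (nat_lit 5335555038) (nat_lit 228) (nat_lit 25865482551) (nat_lit 35) (nat_lit 5) (nat_lit 37) (nat_lit 5) (nat_lit 38) (nat_lit 5) (nat_lit 368) (nat_lit 305) (nat_lit 227))))))) (XT.nd (nat_lit 936) (nat_lit 608) (nat_lit 0) (XT.nd (nat_lit 468) (nat_lit 304) (nat_lit 0) (XT.nd (nat_lit 234) (nat_lit 304) (nat_lit 0) (XT.nd (nat_lit 78) (nat_lit 304) (nat_lit 0) (XT.lf (nat_lit 0) (nat_lit 24036249702) (nat_lit 228) (nat_lit 5849890873) (nat_lit 76) (nat_lit 9008321762) (nat_lit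 35) (nat_lit 5) (nat_lit 38) (nat_lit 5) (nat_lit 36) (nat_lit 4) (nat_lit 369) (nat_lit 305) (nat_lit 226)) (XT.nd (nat_lit 78) (nat_lit 228) (nat_lit 0) (XT.lf (nat_lit 0) (nat_lit 21072990456) (nat_lit 76) (nat_lit 16253506303) (nat_lit 152) (nat_lit 3066383611) (nat_lit 34) (nat_lit 5) (nat_lit 35) (nat_lit 5) (nat_lit 36) (nat_lit 4) (nat_lit 370) (nat_lit 305) (nat_lit 225)) (XT.lf (nat_lit 0) (nat_lit 7503913444) (nat_lit 152) (nat_lit 1733864020) (nat_lit 228) (nat_lit 32722624588) (nat_lit 31) (nat_lit 5) (nat_lit 33) (nat_lit 5) (nat_lit 34) (nat_lit 5) (nat_lit 371) (nat_lit 305) (nat_lit 224)))) (XT.nd (nat_lit 78) (nat_lit 304) (nat_lit 0) (XT.lf (nat_lit 0) (nat_lit 22397258784) (nat_lit 228) (nat_lit 7741836828) (nat_lit 76) (nat_lit 13457191621) (nat_lit 31) (nat_lit 5) (nat_lit 34) (nat_lit 5) (nat_lit 32) (nat_lit 4) (nat_lit 372) (nat_lit 305) (nat_lit 223)) (XT.nd (nat_lit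 78) (nat_lit 228) (nat_lit 0) (XT.lf (nat_lit 0) (nat_lit 20645013311) (nat_lit 76) (nat_lit 15759183704) (nat_lit 152) (nat_lit 8904089091) (nat_lit 30) (nat_lit 5) (nat_lit 31) (nat_lit 5) (nat_lit 32) (nat_lit 4) (nat_lit 373) (nat_lit 305) (nat_lit 222)) (XT.lf (nat_lit 0) (nat_lit 3490297936) (nat_lit 152) (nat_lit 525247215) (nat_lit 228) (nat_lit 43086544919) (nat_lit 27) (nat_lit 5) (nat_lit 29) (nat_lit 5) (nat_lit 30) (nat_lit 5) (nat_lit 374) (nat_lit 305) (nat_lit 221))))) (XT.nd (nat_lit 234) (nat_lit 228) (nat_lit 0) (XT.nd (nat_lit 78) (nat_lit 76) (nat_lit 0) (XT.lf (nat_lit 0) (nat_lit 17778489661) (nat_lit 228) (nat_lit 15699311516) (nat_lit 76) (nat_lit 15493697361) (nat_lit 27) (nat_lit 5) (nat_lit 30) (nat_lit 5) (nat_lit 28) (nat_lit 4) (nat_lit 375) (nat_lit 305) (nat_lit 220)) (XT.nd (nat_lit 78) (nat_lit 0) (nat_lit 0) (XT.lf (nat_lit 0) (nat_lit 13828395124) (nat_lit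 76) (nat_lit 18515277353) (nat_lit 152) (nat_lit 18587285507) (nat_lit 26) (nat_lit 5) (nat_lit 27) (nat_lit 5) (nat_lit 28) (nat_lit 4) (nat_lit 376) (nat_lit 305) (nat_lit 219)) (XT.lf (nat_lit 0) (nat_lit 45116906324) (nat_lit 76) (nat_lit 2658411114) (nat_lit 152) (nat_lit 5208930001) (nat_lit 26) (nat_lit 5) (nat_lit 27) (nat_lit 5) (nat_lit 28) (nat_lit 4) (nat_lit 377) (nat_lit 305) (nat_lit 218)))) (XT.nd (nat_lit 78) (nat_lit 76) (nat_lit 0) (XT.lf (nat_lit 0) (nat_lit 9003284220) (nat_lit 152) (nat_lit 32114517085) (nat_lit 76) (nat_lit 14009731904) (nat_lit 24) (nat_lit 5) (nat_lit 26) (nat_lit 5) (nat_lit 25) (nat_lit 4) (nat_lit 378) (nat_lit 305) (nat_lit 217)) (XT.nd (nat_lit 78) (nat_lit 76) (nat_lit 0) (XT.lf (nat_lit 0) (nat_lit 23905983931) (nat_lit 152) (nat_lit 1895260433) (nat_lit 76) (nat_lit 31572566348) (nat_lit 24) (nat_lit 5) (nat_lit 26) (nat_lit 5) (nat_lit 25) (nat_lit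 4) (nat_lit 379) (nat_lit 305) (nat_lit 216)) (XT.lf (nat_lit 0) (nat_lit 30388623435) (nat_lit 76) (nat_lit 9436338597) (nat_lit 152) (nat_lit 19899308380) (nat_lit 23) (nat_lit 5) (nat_lit 24) (nat_lit 5) (nat_lit 25) (nat_lit 4) (nat_lit 380) (nat_lit 305) (nat_lit 215)))))) (XT.nd (nat_lit 468) (nat_lit 228) (nat_lit 0) (XT.nd (nat_lit 234) (nat_lit 152) (nat_lit 0) (XT.nd (nat_lit 78) (nat_lit 152) (nat_lit 0) (XT.lf (nat_lit 0) (nat_lit 2061566590) (nat_lit 76) (nat_lit 54571798872) (nat_lit 76) (nat_lit 5556085841) (nat_lit 22) (nat_lit 4) (nat_lit 23) (nat_lit 5) (nat_lit 23) (nat_lit 4) (nat_lit 381) (nat_lit 305) (nat_lit 214)) (XT.nd (nat_lit 78) (nat_lit 76) (nat_lit 0) (XT.lf (nat_lit 0) (nat_lit 9698958227) (nat_lit 152) (nat_lit 29354691842) (nat_lit 76) (nat_lit 25710098943) (nat_lit 21) (nat_lit 5) (nat_lit 23) (nat_lit 5) (nat_lit 22) (nat_lit 4) (nat_lit 382) (nat_lit 305)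 (nat_lit 213)) (XT.lf (nat_lit 0) (nat_lit 2921970982) (nat_lit 76) (nat_lit 22689893639) (nat_lit 152) (nat_lit 41852948307) (nat_lit 20) (nat_lit 5) (nat_lit 21) (nat_lit 5) (nat_lit 22) (nat_lit 4) (nat_lit 383) (nat_lit 305) (nat_lit 212)))) (XT.nd (nat_lit 78) (nat_lit 152) (nat_lit 0) (XT.lf (nat_lit 0) (nat_lit 37390800352) (nat_lit 76) (nat_lit 5213233162) (nat_lit 152) (nat_lit 27688390108) (nat_lit 20) (nat_lit 5) (nat_lit 21) (nat_lit 5) (nat_lit 22) (nat_lit 4) (nat_lit 384) (nat_lit 305) (nat_lit 211)) (XT.nd (nat_lit 78) (nat_lit 76) (nat_lit 0) (XT.lf (nat_lit 0) (nat_lit 164785249) (nat_lit 76) (nat_lit 60391062175) (nat_lit 76) (nat_lit 12702268325) (nat_lit 19) (nat_lit 4) (nat_lit 20) (nat_lit 5) (nat_lit 20) (nat_lit 4) (nat_lit 385) (nat_lit 305) (nat_lit 210)) (XT.lf (nat_lit 0) (nat_lit 3351166195) (nat_lit 152) (nat_lit 40908182583) (nat_lit 76) (nat_lit 32100555017)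 (nat_lit 18) (nat_lit 5) (nat_lit 20) (nat_lit 5) (nat_lit 19) (nat_lit 4) (nat_lit 386) (nat_lit 305) (nat_lit 209))))) (XT.nd (nat_lit 234) (nat_lit 152) (nat_lit 0) (XT.nd (nat_lit 78) (nat_lit 76) (nat_lit 0) (XT.lf (nat_lit 0) (nat_lit 19930373524) (nat_lit 152) (nat_lit 7273587999) (nat_lit 76) (nat_lit 52409474423) (nat_lit 18) (nat_lit 5) (nat_lit 20) (nat_lit 5) (nat_lit 19) (nat_lit 4) (nat_lit 387) (nat_lit 305) (nat_lit 208)) (XT.nd (nat_lit 78) (nat_lit 0) (nat_lit 0) (XT.lf (nat_lit 0) (nat_lit 28570144008) (nat_lit 76) (nat_lit 9027184666) (nat_lit 152) (nat_lit 45424554080) (nat_lit 17) (nat_lit 5) (nat_lit 18) (nat_lit 5) (nat_lit 19) (nat_lit 4) (nat_lit 388) (nat_lit 305) (nat_lit 207)) (XT.lf (nat_lit 0) (nat_lit 56304429923) (nat_lit 152) (nat_lit 20367441027) (nat_lit 0) (nat_lit 9924178597) (nat_lit 17) (nat_lit 5) (nat_lit 19) (nat_lit 4) (nat_lit 17) (nat_lit 4) (nat_lit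 389) (nat_lit 305) (nat_lit 206)))) (XT.nd (nat_lit 78) (nat_lit 76) (nat_lit 0) (XT.lf (nat_lit 0) (nat_lit 15606336266) (nat_lit 76) (nat_lit 60566913600) (nat_lit 76) (nat_lit 14168885423) (nat_lit 16) (nat_lit 4) (nat_lit 17) (nat_lit 5) (nat_lit 17) (nat_lit 4) (nat_lit 390) (nat_lit 305) (nat_lit 205)) (XT.nd (nat_lit 78) (nat_lit 0) (nat_lit 0) (XT.lf (nat_lit 0) (nat_lit 2903398409) (nat_lit 152) (nat_lit 40521059740) (nat_lit 76) (nat_lit 50844354548) (nat_lit 15) (nat_lit 5) (nat_lit 17) (nat_lit 5) (nat_lit 16) (nat_lit 4) (nat_lit 391) (nat_lit 305) (nat_lit 204)) (XT.lf (nat_lit 0) (nat_lit 20525204674) (nat_lit 152) (nat_lit 4764917150) (nat_lit 76) (nat_lit 73097826633) (nat_lit 15) (nat_lit 5) (nat_lit 17) (nat_lit 5) (nat_lit 16) (nat_lit 4) (nat_lit 392) (nat_lit 305) (nat_lit 203))))))))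
noncomputable def xc60 : XT := (XT.nd (nat_lit 41730) (nat_lit 0) (nat_lit 4104) (XT.nd (nat_lit 40794) (nat_lit 0) (nat_lit 12008) (XT.nd (nat_lit 40326) (nat_lit 0) (nat_lit 20900) (XT.nd (nat_lit 40092) (nat_lit 0) (nat_lit 23104) (XT.nd (nat_lit 40014) (nat_lit 0) (nat_lit 23788) (XT.lf (nat_lit 0) (nat_lit 59262615147) (nat_lit 152) (nat_lit 33812796671) (nat_lit 0) (nat_lit 14154786010) (nat_lit 14) (nat_lit 5) (nat_lit 16) (nat_lit 4) (nat_lit 14) (nat_lit 4) (nat_lit 394) (nat_lit 305) (nat_lit 201)) (XT.lf (nat_lit 0) (nat_lit 1698235761) (nat_lit 684) (nat_lit 866688582) (nat_lit 684) (nat_lit 866688582) (nat_lit 327) (nat_lit 3) (nat_lit 336) (nat_lit 3) (nat_lit 336) (nat_lit 5) (nat_lit 306) (nat_lit 306) (nat_lit 288))) (XT.nd (nat_lit 78) (nat_lit 684) (nat_lit 0) (XT.lf (nat_lit 76) (nat_lit 3792100218) (nat_lit 0) (nat_lit 2845288131) (nat_lit 684) (nat_lit 299913714) (nat_lit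 328) (nat_lit 5) (nat_lit 327) (nat_lit 3) (nat_lit 336) (nat_lit 5) (nat_lit 307) (nat_lit 306) (nat_lit 287)) (XT.nd (nat_lit 78) (nat_lit 0) (nat_lit 76) (XT.lf (nat_lit 76) (nat_lit 2526376100) (nat_lit 0) (nat_lit 279300397) (nat_lit 760) (nat_lit 4213525447) (nat_lit 319) (nat_lit 5) (nat_lit 318) (nat_lit 5) (nat_lit 328) (nat_lit 5) (nat_lit 308) (nat_lit 306) (nat_lit 286)) (XT.lf (nat_lit 76) (nat_lit 1329510740) (nat_lit 0) (nat_lit 4606206739) (nat_lit 760) (nat_lit 1173296204) (nat_lit 320) (nat_lit 5) (nat_lit 319) (nat_lit 5) (nat_lit 329) (nat_lit 5) (nat_lit 309) (nat_lit 306) (nat_lit 285))))) (XT.nd (nat_lit 234) (nat_lit 760) (nat_lit 0) (XT.nd (nat_lit 78) (nat_lit 760) (nat_lit 0) (XT.lf (nat_lit 76) (nat_lit 202644723) (nat_lit 0) (nat_lit 1641165922) (nat_lit 836) (nat_lit 5363149820) (nat_lit 310) (nat_lit 5) (nat_lit 309) (nat_lit 5) (nat_lit 320) (nat_lit 5) (nat_lit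 310) (nat_lit 306) (nat_lit 284)) (XT.nd (nat_lit 78) (nat_lit 836) (nat_lit 0) (XT.lf (nat_lit 0) (nat_lit 4883274723) (nat_lit 760) (nat_lit 846412530) (nat_lit 836) (nat_lit 1583043015) (nat_lit 310) (nat_lit 5) (nat_lit 320) (nat_lit 5) (nat_lit 321) (nat_lit 5) (nat_lit 311) (nat_lit 306) (nat_lit 283)) (XT.lf (nat_lit 0) (nat_lit 537319053) (nat_lit 836) (nat_lit 1831007380) (nat_lit 912) (nat_lit 5058437606) (nat_lit 299) (nat_lit 5) (nat_lit 310) (nat_lit 5) (nat_lit 311) (nat_lit 5) (nat_lit 312) (nat_lit 306) (nat_lit 282)))) (XT.nd (nat_lit 78) (nat_lit 836) (nat_lit 0) (XT.lf (nat_lit 0) (nat_lit 3505091722) (nat_lit 836) (nat_lit 2772495735) (nat_lit 912) (nat_lit 1271232926) (nat_lit 300) (nat_lit 5) (nat_lit 311) (nat_lit 5) (nat_lit 312) (nat_lit 5) (nat_lit 313) (nat_lit 306) (nat_lit 281)) (XT.nd (nat_lit 78) (nat_lit 836) (nat_lit 0) (XT.lf (nat_lit 76) (nat_lit 4016835936)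 (nat_lit 0) (nat_lit 2528400913) (nat_lit 912) (nat_lit 1134146642) (nat_lit 301) (nat_lit 5) (nat_lit 300) (nat_lit 5) (nat_lit 312) (nat_lit 5) (nat_lit 314) (nat_lit 306) (nat_lit 280)) (XT.lf (nat_lit 0) (nat_lit 1806141399) (nat_lit 912) (nat_lit 4512723725) (nat_lit 76) (nat_lit 1499488510) (nat_lit 289) (nat_lit 5) (nat_lit 301) (nat_lit 5) (nat_lit 290) (nat_lit 5) (nat_lit 315) (nat_lit 306) (nat_lit 279)))))) (XT.nd (nat_lit 468) (nat_lit 3420) (nat_lit 0) (XT.nd (nat_lit 234) (nat_lit 2432) (nat_lit 0) (XT.nd (nat_lit 78) (nat_lit 2128) (nat_lit 0) (XT.lf (nat_lit 0) (nat_lit 2634843427) (nat_lit 912) (nat_lit 2178118739) (nat_lit 988) (nat_lit 3152792736) (nat_lit 277) (nat_lit 5) (nat_lit 289) (nat_lit 5) (nat_lit 290) (nat_lit 5) (nat_lit 316) (nat_lit 306) (nat_lit 278)) (XT.nd (nat_lit 78) (nat_lit 1140) (nat_lit 0) (XT.lf (nat_lit 0) (nat_lit 2016859879) (nat_lit 988) (nat_lit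 5900418881) (nat_lit 1064) (nat_lit 204936371) (nat_lit 264) (nat_lit 5) (nat_lit 277) (nat_lit 5) (nat_lit 278) (nat_lit 5) (nat_lit 317) (nat_lit 306) (nat_lit 277)) (XT.lf (nat_lit 0) (nat_lit 1420363953) (nat_lit 1064) (nat_lit 1368758223) (nat_lit 1140) (nat_lit 5497982141) (nat_lit 249) (nat_lit 5) (nat_lit 263) (nat_lit 5) (nat_lit 264) (nat_lit 5) (nat_lit 318) (nat_lit 306) (nat_lit 276)))) (XT.nd (nat_lit 78) (nat_lit 1292) (nat_lit 0) (XT.lf (nat_lit 0) (nat_lit 856567657) (nat_lit 1140) (nat_lit 5046120004) (nat_lit 1216) (nat_lit 2558359336) (nat_lit 234) (nat_lit 5) (nat_lit 249) (nat_lit 5) (nat_lit 250) (nat_lit 5) (nat_lit 319) (nat_lit 306) (nat_lit 275)) (XT.nd (nat_lit 78) (nat_lit 0) (nat_lit 0) (XT.lf (nat_lit 0) (nat_lit 339258692) (nat_lit 1216) (nat_lit 140649111) (nat_lit 1292) (nat_lit 8164851851) (nat_lit 217) (nat_lit 5) (nat_lit 233) (nat_lit 5) (nat_lit 234) (nat_lit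 5) (nat_lit 320) (nat_lit 306) (nat_lit 274)) (XT.lf (nat_lit 0) (nat_lit 3623424333) (nat_lit 1292) (nat_lit 187206975) (nat_lit 76) (nat_lit 5026159616) (nat_lit 217) (nat_lit 5) (nat_lit 234) (nat_lit 5) (nat_lit 218) (nat_lit 5) (nat_lit 321) (nat_lit 306) (nat_lit 273))))) (XT.nd (nat_lit 234) (nat_lit 1596) (nat_lit 0) (XT.nd (nat_lit 78) (nat_lit 1216) (nat_lit 0) (XT.lf (nat_lit 0) (nat_lit 6904895134) (nat_lit 684) (nat_lit 665335999) (nat_lit 76) (nat_lit 1468845743) (nat_lit 209) (nat_lit 5) (nat_lit 218) (nat_lit 5) (nat_lit 210) (nat_lit 5) (nat_lit 322) (nat_lit 306) (nat_lit 272)) (XT.nd (nat_lit 78) (nat_lit 608) (nat_lit 0) (XT.lf (nat_lit 0) (nat_lit 1084855028) (nat_lit 608) (nat_lit 1137654044) (nat_lit 76) (nat_lit 7028501723) (nat_lit 201) (nat_lit 5) (nat_lit 209) (nat_lit 5) (nat_lit 202) (nat_lit 5) (nat_lit 323) (nat_lit 306) (nat_lit 271)) (XT.lf (nat_lit 0) (nat_lit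 4429503722) (nat_lit 684) (nat_lit 1613370106) (nat_lit 76) (nat_lit 3429837062) (nat_lit 193) (nat_lit 5) (nat_lit 202) (nat_lit 5) (nat_lit 194) (nat_lit 5) (nat_lit 324) (nat_lit 306) (nat_lit 270)))) (XT.nd (nat_lit 78) (nat_lit 1064) (nat_lit 0) (XT.lf (nat_lit 0) (nat_lit 7641368915) (nat_lit 532) (nat_lit 303781599) (nat_lit 608) (nat_lit 1760296640) (nat_lit 186) (nat_lit 5) (nat_lit 193) (nat_lit 5) (nat_lit 194) (nat_lit 5) (nat_lit 325) (nat_lit 306) (nat_lit 269)) (XT.nd (nat_lit 78) (nat_lit 456) (nat_lit 0) (XT.lf (nat_lit 0) (nat_lit 1697254384) (nat_lit 608) (nat_lit 2542162313) (nat_lit 76) (nat_lit 5708674119) (nat_lit 178) (nat_lit 5) (nat_lit 186) (nat_lit 5) (nat_lit 179) (nat_lit 5) (nat_lit 326) (nat_lit 306) (nat_lit 268)) (XT.lf (nat_lit 0) (nat_lit 5306391087) (nat_lit 532) (nat_lit 3019768827) (nat_lit 76) (nat_lit 1875786953) (nat_lit 172) (nat_lit 5) (nat_lit 179)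 (nat_lit 5) (nat_lit 173) (nat_lit 5) (nat_lit 327) (nat_lit 306) (nat_lit 267))))))) (XT.nd (nat_lit 936) (nat_lit 3040) (nat_lit 0) (XT.nd (nat_lit 468) (nat_lit 2128) (nat_lit 0) (XT.nd (nat_lit 234) (nat_lit 1292) (nat_lit 0) (XT.nd (nat_lit 78) (nat_lit 988) (nat_lit 0) (XT.lf (nat_lit 0) (nat_lit 6962633704) (nat_lit 456) (nat_lit 2175644719) (nat_lit 532) (nat_lit 1329002271) (nat_lit 166) (nat_lit 5) (nat_lit 172) (nat_lit 5) (nat_lit 173) (nat_lit 5) (nat_lit 328) (nat_lit 306) (nat_lit 266)) (XT.nd (nat_lit 78) (nat_lit 456) (nat_lit 0) (XT.lf (nat_lit 0) (nat_lit 2416003934) (nat_lit 532) (nat_lit 4023609901) (nat_lit 76) (nat_lit 4304202401) (nat_lit 159) (nat_lit 5) (nat_lit 166) (nat_lit 5) (nat_lit 160) (nat_lit 5) (nat_lit 329) (nat_lit 306) (nat_lit 265)) (XT.lf (nat_lit 0) (nat_lit 6354795501) (nat_lit 532) (nat_lit 4553453462) (nat_lit 76) (nat_lit 124561579) (nat_lit 153)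 (nat_lit 5) (nat_lit 160) (nat_lit 5) (nat_lit 154) (nat_lit 5) (nat_lit 330) (nat_lit 306) (nat_lit 264)))) (XT.nd (nat_lit 78) (nat_lit 912) (nat_lit 0) (XT.lf (nat_lit 0) (nat_lit 6206324912) (nat_lit 380) (nat_lit 4365565727) (nat_lit 456) (nat_lit 761968115) (nat_lit 148) (nat_lit 5) (nat_lit 153) (nat_lit 5) (nat_lit 154) (nat_lit 5) (nat_lit 331) (nat_lit 306) (nat_lit 263)) (XT.nd (nat_lit 78) (nat_lit 380) (nat_lit 0) (XT.lf (nat_lit 0) (nat_lit 3331150086) (nat_lit 532) (nat_lit 5744455551) (nat_lit 76) (nat_lit 2572030304) (nat_lit 141) (nat_lit 5) (nat_lit 148) (nat_lit 5) (nat_lit 142) (nat_lit 5) (nat_lit 332) (nat_lit 306) (nat_lit 262)) (XT.lf (nat_lit 0) (nat_lit 5569664153) (nat_lit 380) (nat_lit 2114408067) (nat_lit 456) (nat_lit 4290715964) (nat_lit 136) (nat_lit 5) (nat_lit 141) (nat_lit 5) (nat_lit 142) (nat_lit 5) (nat_lit 333) (nat_lit 306) (nat_lit 261))))) (XT.nd (nat_lit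 234) (nat_lit 988) (nat_lit 0) (XT.nd (nat_lit 78) (nat_lit 684) (nat_lit 0) (XT.lf (nat_lit 0) (nat_lit 20485174) (nat_lit 456) (nat_lit 7115057229) (nat_lit 76) (nat_lit 5180323708) (nat_lit 130) (nat_lit 5) (nat_lit 136) (nat_lit 5) (nat_lit 131) (nat_lit 5) (nat_lit 334) (nat_lit 306) (nat_lit 260)) (XT.nd (nat_lit 78) (nat_lit 380) (nat_lit 0) (XT.lf (nat_lit 0) (nat_lit 4520068264) (nat_lit 380) (nat_lit 7898264306) (nat_lit 76) (nat_lit 252579064) (nat_lit 126) (nat_lit 5) (nat_lit 131) (nat_lit 5) (nat_lit 127) (nat_lit 5) (nat_lit 335) (nat_lit 306) (nat_lit 259)) (XT.lf (nat_lit 0) (nat_lit 4271911360) (nat_lit 380) (nat_lit 5086603879) (nat_lit 456) (nat_lit 3681810968) (nat_lit 121) (nat_lit 5) (nat_lit 126) (nat_lit 5) (nat_lit 127) (nat_lit 5) (nat_lit 336) (nat_lit 306) (nat_lit 258)))) (XT.nd (nat_lit 78) (nat_lit 608) (nat_lit 0) (XT.lf (nat_lit 0) (nat_lit 1063892069) (nat_lit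 380) (nat_lit 9699232313) (nat_lit 76) (nat_lit 2662638250) (nat_lit 116) (nat_lit 5) (nat_lit 121) (nat_lit 5) (nat_lit 117) (nat_lit 5) (nat_lit 337) (nat_lit 306) (nat_lit 257)) (XT.nd (nat_lit 78) (nat_lit 304) (nat_lit 0) (XT.lf (nat_lit 0) (nat_lit 3074117842) (nat_lit 304) (nat_lit 3000225829) (nat_lit 380) (nat_lit 7751954673) (nat_lit 112) (nat_lit 5) (nat_lit 116) (nat_lit 5) (nat_lit 117) (nat_lit 5) (nat_lit 338) (nat_lit 306) (nat_lit 256)) (XT.lf (nat_lit 0) (nat_lit 2343065708) (nat_lit 304) (nat_lit 9098076520) (nat_lit 380) (nat_lit 2802571822) (nat_lit 108) (nat_lit 5) (nat_lit 112) (nat_lit 5) (nat_lit 113) (nat_lit 5) (nat_lit 339) (nat_lit 306) (nat_lit 255)))))) (XT.nd (nat_lit 468) (nat_lit 1520) (nat_lit 0) (XT.nd (nat_lit 234) (nat_lit 912) (nat_lit 0) (XT.nd (nat_lit 78) (nat_lit 228) (nat_lit 0) (XT.lf (nat_lit 0) (nat_lit 1518670391) (nat_lit 304) (nat_lit 920122846)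 (nat_lit 380) (nat_lit 12239805661) (nat_lit 103) (nat_lit 5) (nat_lit 107) (nat_lit 5) (nat_lit 108) (nat_lit 5) (nat_lit 340) (nat_lit 306) (nat_lit 254)) (XT.nd (nat_lit 78) (nat_lit 0) (nat_lit 0) (XT.lf (nat_lit 0) (nat_lit 538861125) (nat_lit 228) (nat_lit 7485049943) (nat_lit 304) (nat_lit 7106319699) (nat_lit 100) (nat_lit 5) (nat_lit 103) (nat_lit 5) (nat_lit 104) (nat_lit 5) (nat_lit 341) (nat_lit 306) (nat_lit 253)) (XT.lf (nat_lit 0) (nat_lit 13982412719) (nat_lit 304) (nat_lit 516494490) (nat_lit 76) (nat_lit 1102736616) (nat_lit 100) (nat_lit 5) (nat_lit 104) (nat_lit 5) (nat_lit 101) (nat_lit 5) (nat_lit 342) (nat_lit 306) (nat_lit 252)))) (XT.nd (nat_lit 78) (nat_lit 532) (nat_lit 0) (XT.lf (nat_lit 0) (nat_lit 4217949308) (nat_lit 380) (nat_lit 1755164696) (nat_lit 76) (nat_lit 10117643670) (nat_lit 95) (nat_lit 5) (nat_lit 100) (nat_lit 5) (nat_lit 96) (nat_lit 5) (nat_lit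 343) (nat_lit 306) (nat_lit 251)) (XT.nd (nat_lit 78) (nat_lit 304) (nat_lit 0) (XT.lf (nat_lit 0) (nat_lit 10421436006) (nat_lit 304) (nat_lit 3135064339) (nat_lit 76) (nat_lit 3044128486) (nat_lit 92) (nat_lit 5) (nat_lit 96) (nat_lit 5) (nat_lit 93) (nat_lit 5) (nat_lit 344) (nat_lit 306) (nat_lit 250)) (XT.lf (nat_lit 0) (nat_lit 12444467343) (nat_lit 304) (nat_lit 4633090964) (nat_lit 380) (nat_lit 54181053) (nat_lit 88) (nat_lit 5) (nat_lit 92) (nat_lit 5) (nat_lit 93) (nat_lit 5) (nat_lit 345) (nat_lit 306) (nat_lit 249))))) (XT.nd (nat_lit 234) (nat_lit 684) (nat_lit 0) (XT.nd (nat_lit 78) (nat_lit 532) (nat_lit 0) (XT.lf (nat_lit 0) (nat_lit 6386235635) (nat_lit 304) (nat_lit 6479293287) (nat_lit 76) (nat_lit 4818047829) (nat_lit 84) (nat_lit 5) (nat_lit 88) (nat_lit 5) (nat_lit 85) (nat_lit 5) (nat_lit 346) (nat_lit 306) (nat_lit 248)) (XT.nd (nat_lit 78) (nat_lit 304) (nat_lit 0)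 (XT.lf (nat_lit 0) (nat_lit 9786032608) (nat_lit 228) (nat_lit 3498195304) (nat_lit 304) (nat_lit 4974679055) (nat_lit 81) (nat_lit 5) (nat_lit 84) (nat_lit 5) (nat_lit 85) (nat_lit 5) (nat_lit 347) (nat_lit 306) (nat_lit 247)) (XT.lf (nat_lit 0) (nat_lit 1788368066) (nat_lit 304) (nat_lit 10722150191) (nat_lit 76) (nat_lit 6347319800) (nat_lit 77) (nat_lit 5) (nat_lit 81) (nat_lit 5) (nat_lit 78) (nat_lit 5) (nat_lit 348) (nat_lit 306) (nat_lit 246)))) (XT.nd (nat_lit 78) (nat_lit 456) (nat_lit 0) (XT.lf (nat_lit 0) (nat_lit 6221208648) (nat_lit 228) (nat_lit 2699341209) (nat_lit 304) (nat_lit 10560687468) (nat_lit 74) (nat_lit 5) (nat_lit 77) (nat_lit 5) (nat_lit 78) (nat_lit 5) (nat_lit 349) (nat_lit 306) (nat_lit 245)) (XT.nd (nat_lit 78) (nat_lit 304) (nat_lit 0) (XT.lf (nat_lit 0) (nat_lit 4027428348) (nat_lit 152) (nat_lit 12556229902) (nat_lit 228) (nat_lit 3546933297) (nat_lit 72) (nat_lit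 5) (nat_lit 74) (nat_lit 5) (nat_lit 75) (nat_lit 5) (nat_lit 350) (nat_lit 306) (nat_lit 244)) (XT.lf (nat_lit 0) (nat_lit 1533715625) (nat_lit 228) (nat_lit 2341294618) (nat_lit 304) (nat_lit 16932355920) (nat_lit 68) (nat_lit 5) (nat_lit 71) (nat_lit 5) (nat_lit 72) (nat_lit 5) (nat_lit 351) (nat_lit 306) (nat_lit 243))))))))
noncomputable def xc61 : XT := (XT.nd (nat_lit 1872) (nat_lit 988) (nat_lit 0) (XT.nd (nat_lit 936) (nat_lit 1368) (nat_lit 0) (XT.nd (nat_lit 468) (nat_lit 760) (nat_lit 0) (XT.nd (nat_lit 234) (nat_lit 532) (nat_lit 0) (XT.nd (nat_lit 78) (nat_lit 456) (nat_lit 0) (XT.lf (nat_lit 0) (nat_lit 11796785943) (nat_lit 304) (nat_lit 1319898292) (nat_lit 76) (nat_lit 8394191785) (nat_lit 68) (nat_lit 5) (nat_lit 72) (nat_lit 5) (nat_lit 69) (nat_lit 5) (nat_lit 352) (nat_lit 306) (nat_lit 242)) (XT.nd (nat_lit 78) (nat_lit 304) (nat_lit 0) (XT.lf (nat_lit 0) (nat_lit 17780780457)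 (nat_lit 152) (nat_lit 2484043926) (nat_lit 228) (nat_lit 1980243940) (nat_lit 66) (nat_lit 5) (nat_lit 68) (nat_lit 5) (nat_lit 69) (nat_lit 5) (nat_lit 353) (nat_lit 306) (nat_lit 241)) (XT.lf (nat_lit 0) (nat_lit 6220389350) (nat_lit 304) (nat_lit 8086684558) (nat_lit 76) (nat_lit 8701139439) (nat_lit 62) (nat_lit 5) (nat_lit 66) (nat_lit 5) (nat_lit 63) (nat_lit 5) (nat_lit 354) (nat_lit 306) (nat_lit 240)))) (XT.nd (nat_lit 78) (nat_lit 380) (nat_lit 0) (XT.lf (nat_lit 0) (nat_lit 11672289943) (nat_lit 152) (nat_lit 3259592108) (nat_lit 228) (nat_lit 8872802633) (nat_lit 60) (nat_lit 5) (nat_lit 62) (nat_lit 5) (nat_lit 63) (nat_lit 5) (nat_lit 355) (nat_lit 306) (nat_lit 239)) (XT.nd (nat_lit 78) (nat_lit 228) (nat_lit 0) (XT.lf (nat_lit 0) (nat_lit 7953260419) (nat_lit 152) (nat_lit 16325166187) (nat_lit 228) (nat_lit 356578875) (nat_lit 58) (nat_lit 5) (nat_lit 60) (nat_lit 5) (nat_lit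 61) (nat_lit 5) (nat_lit 356) (nat_lit 306) (nat_lit 238)) (XT.lf (nat_lit 0) (nat_lit 3679320204) (nat_lit 152) (nat_lit 4892681872) (nat_lit 228) (nat_lit 16927751448) (nat_lit 55) (nat_lit 5) (nat_lit 57) (nat_lit 5) (nat_lit 58) (nat_lit 5) (nat_lit 357) (nat_lit 306) (nat_lit 237))))) (XT.nd (nat_lit 234) (nat_lit 380) (nat_lit 0) (XT.nd (nat_lit 78) (nat_lit 380) (nat_lit 0) (XT.lf (nat_lit 0) (nat_lit 18142170461) (nat_lit 228) (nat_lit 1137570078) (nat_lit 76) (nat_lit 7121825516) (nat_lit 55) (nat_lit 5) (nat_lit 58) (nat_lit 5) (nat_lit 56) (nat_lit 5) (nat_lit 358) (nat_lit 306) (nat_lit 236)) (XT.nd (nat_lit 78) (nat_lit 152) (nat_lit 0) (XT.lf (nat_lit 0) (nat_lit 1040609560) (nat_lit 228) (nat_lit 6480063742) (nat_lit 76) (nat_lit 19821121221) (nat_lit 52) (nat_lit 5) (nat_lit 55) (nat_lit 5) (nat_lit 53) (nat_lit 5) (nat_lit 359) (nat_lit 306) (nat_lit 235)) (XT.lf (nat_lit 0)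 (nat_lit 10812197808) (nat_lit 228) (nat_lit 12554023557) (nat_lit 76) (nat_lit 4955045685) (nat_lit 50) (nat_lit 5) (nat_lit 53) (nat_lit 5) (nat_lit 51) (nat_lit 5) (nat_lit 360) (nat_lit 306) (nat_lit 234)))) (XT.nd (nat_lit 78) (nat_lit 228) (nat_lit 0) (XT.lf (nat_lit 0) (nat_lit 9969633427) (nat_lit 152) (nat_lit 11306093810) (nat_lit 228) (nat_lit 8067892657) (nat_lit 48) (nat_lit 5) (nat_lit 50) (nat_lit 5) (nat_lit 51) (nat_lit 5) (nat_lit 361) (nat_lit 306) (nat_lit 233)) (XT.nd (nat_lit 78) (nat_lit 0) (nat_lit 0) (XT.lf (nat_lit 0) (nat_lit 1952658652) (nat_lit 228) (nat_lit 26972138055) (nat_lit 76) (nat_lit 1487468731) (nat_lit 45) (nat_lit 5) (nat_lit 48) (nat_lit 5) (nat_lit 46) (nat_lit 5) (nat_lit 362) (nat_lit 306) (nat_lit 232)) (XT.lf (nat_lit 0) (nat_lit 12590313624) (nat_lit 228) (nat_lit 3986931807) (nat_lit 76) (nat_lit 14946220090) (nat_lit 45) (nat_lit 5) (nat_lit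 48) (nat_lit 5) (nat_lit 46) (nat_lit 5) (nat_lit 363) (nat_lit 306) (nat_lit 231)))))) (XT.nd (nat_lit 468) (nat_lit 608) (nat_lit 0) (XT.nd (nat_lit 234) (nat_lit 304) (nat_lit 0) (XT.nd (nat_lit 78) (nat_lit 304) (nat_lit 0) (XT.lf (nat_lit 0) (nat_lit 20489397676) (nat_lit 152) (nat_lit 3434889863) (nat_lit 228) (nat_lit 8761011306) (nat_lit 43) (nat_lit 5) (nat_lit 45) (nat_lit 5) (nat_lit 46) (nat_lit 5) (nat_lit 364) (nat_lit 306) (nat_lit 230)) (XT.nd (nat_lit 78) (nat_lit 152) (nat_lit 0) (XT.lf (nat_lit 0) (nat_lit 2113588751) (nat_lit 152) (nat_lit 21464222326) (nat_lit 76) (nat_lit 10319925595) (nat_lit 41) (nat_lit 5) (nat_lit 43) (nat_lit 5) (nat_lit 42) (nat_lit 5) (nat_lit 365) (nat_lit 306) (nat_lit 229)) (XT.lf (nat_lit 0) (nat_lit 3265612984) (nat_lit 152) (nat_lit 10248566420) (nat_lit 228) (nat_lit 21649116721) (nat_lit 39) (nat_lit 5) (nat_lit 41) (nat_lit 5) (nat_lit 42)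 (nat_lit 5) (nat_lit 366) (nat_lit 306) (nat_lit 228)))) (XT.nd (nat_lit 78) (nat_lit 304) (nat_lit 0) (XT.lf (nat_lit 0) (nat_lit 25713604312) (nat_lit 228) (nat_lit 6898304453) (nat_lit 76) (nat_lit 3873365949) (nat_lit 39) (nat_lit 5) (nat_lit 42) (nat_lit 5) (nat_lit 40) (nat_lit 4) (nat_lit 367) (nat_lit 306) (nat_lit 227)) (XT.nd (nat_lit 78) (nat_lit 152) (nat_lit 0) (XT.lf (nat_lit 0) (nat_lit 902284123) (nat_lit 152) (nat_lit 18297147430) (nat_lit 76) (nat_lit 18665778852) (nat_lit 37) (nat_lit 5) (nat_lit 39) (nat_lit 5) (nat_lit 38) (nat_lit 5) (nat_lit 368) (nat_lit 306) (nat_lit 226)) (XT.lf (nat_lit 0) (nat_lit 8188744842) (nat_lit 152) (nat_lit 4872610507) (nat_lit 228) (nat_lit 26245866888) (nat_lit 35) (nat_lit 5) (nat_lit 37) (nat_lit 5) (nat_lit 38) (nat_lit 5) (nat_lit 369) (nat_lit 306) (nat_lit 225))))) (XT.nd (nat_lit 234) (nat_lit 304) (nat_lit 0) (XT.nd (nat_lit 78)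 (nat_lit 304) (nat_lit 0) (XT.lf (nat_lit 0) (nat_lit 26088705845) (nat_lit 228) (nat_lit 4584673476) (nat_lit 76) (nat_lit 10140150015) (nat_lit 35) (nat_lit 5) (nat_lit 38) (nat_lit 5) (nat_lit 36) (nat_lit 4) (nat_lit 370) (nat_lit 306) (nat_lit 224)) (XT.nd (nat_lit 78) (nat_lit 228) (nat_lit 0) (XT.lf (nat_lit 0) (nat_lit 23639700419) (nat_lit 76) (nat_lit 16377802457) (nat_lit 152) (nat_lit 2370150780) (nat_lit 34) (nat_lit 5) (nat_lit 35) (nat_lit 5) (nat_lit 36) (nat_lit 4) (nat_lit 371) (nat_lit 306) (nat_lit 223)) (XT.lf (nat_lit 0) (nat_lit 9365023475) (nat_lit 152) (nat_lit 1142235134) (nat_lit 228) (nat_lit 33526815303) (nat_lit 31) (nat_lit 5) (nat_lit 33) (nat_lit 5) (nat_lit 34) (nat_lit 5) (nat_lit 372) (nat_lit 306) (nat_lit 222)))) (XT.nd (nat_lit 78) (nat_lit 304) (nat_lit 0) (XT.lf (nat_lit 0) (nat_lit 24292467169) (nat_lit 228) (nat_lit 6696793284) (nat_lit 76) (nat_lit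 14763466040) (nat_lit 31) (nat_lit 5) (nat_lit 34) (nat_lit 5) (nat_lit 32) (nat_lit 4) (nat_lit 373) (nat_lit 306) (nat_lit 221)) (XT.nd (nat_lit 78) (nat_lit 228) (nat_lit 0) (XT.lf (nat_lit 0) (nat_lit 23068347489) (nat_lit 76) (nat_lit 15907855557) (nat_lit 152) (nat_lit 8574834206) (nat_lit 30) (nat_lit 5) (nat_lit 31) (nat_lit 5) (nat_lit 32) (nat_lit 4) (nat_lit 374) (nat_lit 306) (nat_lit 220)) (XT.lf (nat_lit 0) (nat_lit 4953391971) (nat_lit 228) (nat_lit 44404951778) (nat_lit 76) (nat_lit 76637697) (nat_lit 27) (nat_lit 5) (nat_lit 30) (nat_lit 5) (nat_lit 28) (nat_lit 4) (nat_lit 375) (nat_lit 306) (nat_lit 219))))))) (XT.nd (nat_lit 936) (nat_lit 304) (nat_lit 0) (XT.nd (nat_lit 468) (nat_lit 380) (nat_lit 0) (XT.nd (nat_lit 234) (nat_lit 228) (nat_lit 0) (XT.nd (nat_lit 78) (nat_lit 76) (nat_lit 0) (XT.lf (nat_lit 0) (nat_lit 19374434154) (nat_lit 228) (nat_lit 15167964220) (nat_lit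 76) (nat_lit 16856368263) (nat_lit 27) (nat_lit 5) (nat_lit 30) (nat_lit 5) (nat_lit 28) (nat_lit 4) (nat_lit 376) (nat_lit 306) (nat_lit 218)) (XT.nd (nat_lit 78) (nat_lit 0) (nat_lit 0) (XT.lf (nat_lit 0) (nat_lit 15798395908) (nat_lit 76) (nat_lit 18848103086) (nat_lit 152) (nat_lit 18810345956) (nat_lit 26) (nat_lit 5) (nat_lit 27) (nat_lit 5) (nat_lit 28) (nat_lit 4) (nat_lit 377) (nat_lit 306) (nat_lit 217)) (XT.lf (nat_lit 0) (nat_lit 48590447857) (nat_lit 76) (nat_lit 2226628685) (nat_lit 152) (nat_lit 4796706191) (nat_lit 26) (nat_lit 5) (nat_lit 27) (nat_lit 5) (nat_lit 28) (nat_lit 4) (nat_lit 378) (nat_lit 306) (nat_lit 216)))) (XT.nd (nat_lit 78) (nat_lit 76) (nat_lit 0) (XT.lf (nat_lit 0) (nat_lit 10098423270) (nat_lit 152) (nat_lit 32510694403) (nat_lit 76) (nat_lit 15255362247) (nat_lit 24) (nat_lit 5) (nat_lit 26) (nat_lit 5) (nat_lit 25) (nat_lit 4) (nat_lit 379) (nat_lit 306)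 (nat_lit 215)) (XT.nd (nat_lit 78) (nat_lit 76) (nat_lit 0) (XT.lf (nat_lit 0) (nat_lit 25715544879) (nat_lit 152) (nat_lit 838072468) (nat_lit 76) (nat_lit 33670379187) (nat_lit 24) (nat_lit 5) (nat_lit 26) (nat_lit 5) (nat_lit 25) (nat_lit 4) (nat_lit 380) (nat_lit 306) (nat_lit 214)) (XT.lf (nat_lit 0) (nat_lit 33026985150) (nat_lit 76) (nat_lit 9384992021) (nat_lit 152) (nat_lit 20280560550) (nat_lit 23) (nat_lit 5) (nat_lit 24) (nat_lit 5) (nat_lit 25) (nat_lit 4) (nat_lit 381) (nat_lit 306) (nat_lit 213))))) (XT.nd (nat_lit 234) (nat_lit 152) (nat_lit 0) (XT.nd (nat_lit 78) (nat_lit 152) (nat_lit 0) (XT.lf (nat_lit 0) (nat_lit 3264048518) (nat_lit 76) (nat_lit 56783740029) (nat_lit 76) (nat_lit 5233582962) (nat_lit 22) (nat_lit 4) (nat_lit 23) (nat_lit 5) (nat_lit 23) (nat_lit 4) (nat_lit 382) (nat_lit 306) (nat_lit 212)) (XT.nd (nat_lit 78) (nat_lit 76) (nat_lit 0) (XT.lf (nat_lit 0)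 (nat_lit 10744470915) (nat_lit 152) (nat_lit 29764154589) (nat_lit 76) (nat_lit 27476429554) (nat_lit 21) (nat_lit 5) (nat_lit 23) (nat_lit 5) (nat_lit 22) (nat_lit 4) (nat_lit 383) (nat_lit 306) (nat_lit 211)) (XT.lf (nat_lit 0) (nat_lit 4096006227) (nat_lit 76) (nat_lit 23340203998) (nat_lit 152) (nat_lit 43385469387) (nat_lit 20) (nat_lit 5) (nat_lit 21) (nat_lit 5) (nat_lit 22) (nat_lit 4) (nat_lit 384) (nat_lit 306) (nat_lit 210)))) (XT.nd (nat_lit 78) (nat_lit 152) (nat_lit 0) (XT.lf (nat_lit 0) (nat_lit 40239327699) (nat_lit 76) (nat_lit 5012766893) (nat_lit 152) (nat_lit 28539355961) (nat_lit 20) (nat_lit 5) (nat_lit 21) (nat_lit 5) (nat_lit 22) (nat_lit 4) (nat_lit 385) (nat_lit 306) (nat_lit 209)) (XT.nd (nat_lit 78) (nat_lit 76) (nat_lit 0) (XT.lf (nat_lit 0) (nat_lit 1134791027) (nat_lit 76) (nat_lit 62955514852) (nat_lit 76) (nat_lit 12815459990) (nat_lit 19) (nat_lit 4) (nat_lit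 20) (nat_lit 5) (nat_lit 20) (nat_lit 4) (nat_lit 386) (nat_lit 306) (nat_lit 208)) (XT.lf (nat_lit 0) (nat_lit 4006093245) (nat_lit 152) (nat_lit 42027872520) (nat_lit 76) (nat_lit 34129260669) (nat_lit 18) (nat_lit 5) (nat_lit 20) (nat_lit 5) (nat_lit 19) (nat_lit 4) (nat_lit 387) (nat_lit 306) (nat_lit 207)))))) (XT.nd (nat_lit 40560) (nat_lit 0) (nat_lit 21584) (XT.nd (nat_lit 234) (nat_lit 228) (nat_lit 0) (XT.nd (nat_lit 78) (nat_lit 76) (nat_lit 0) (XT.lf (nat_lit 0) (nat_lit 21391052906) (nat_lit 152) (nat_lit 6755630073) (nat_lit 76) (nat_lit 55433450906) (nat_lit 18) (nat_lit 5) (nat_lit 20) (nat_lit 5) (nat_lit 19) (nat_lit 4) (nat_lit 388) (nat_lit 306) (nat_lit 206)) (XT.nd (nat_lit 78) (nat_lit 0) (nat_lit 0) (XT.lf (nat_lit 0) (nat_lit 30855016577) (nat_lit 76) (nat_lit 9072468253) (nat_lit 152) (nat_lit 47231936668) (nat_lit 17) (nat_lit 5) (nat_lit 18) (nat_lit 5) (nat_lit 19)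 (nat_lit 4) (nat_lit 389) (nat_lit 306) (nat_lit 205)) (XT.lf (nat_lit 0) (nat_lit 59552216343) (nat_lit 152) (nat_lit 20561034684) (nat_lit 0) (nat_lit 10799579572) (nat_lit 17) (nat_lit 5) (nat_lit 19) (nat_lit 4) (nat_lit 17) (nat_lit 4) (nat_lit 390) (nat_lit 306) (nat_lit 204)))) (XT.nd (nat_lit 78) (nat_lit 152) (nat_lit 0) (XT.lf (nat_lit 0) (nat_lit 17187789367) (nat_lit 76) (nat_lit 63213790599) (nat_lit 76) (nat_lit 14445029700) (nat_lit 16) (nat_lit 4) (nat_lit 17) (nat_lit 5) (nat_lit 17) (nat_lit 4) (nat_lit 391) (nat_lit 306) (nat_lit 203)) (XT.nd (nat_lit 156) (nat_lit 76) (nat_lit 0) (XT.lf (nat_lit 0) (nat_lit 3452248580) (nat_lit 152) (nat_lit 41776052591) (nat_lit 76) (nat_lit 53741802585) (nat_lit 15) (nat_lit 5) (nat_lit 17) (nat_lit 5) (nat_lit 16) (nat_lit 4) (nat_lit 392) (nat_lit 306) (nat_lit 202)) (XT.lf (nat_lit 0) (nat_lit 35789415207) (nat_lit 76) (nat_lit 5886489278)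 (nat_lit 152) (nat_lit 66151862437) (nat_lit 14) (nat_lit 5) (nat_lit 15) (nat_lit 5) (nat_lit 16) (nat_lit 4) (nat_lit 394) (nat_lit 306) (nat_lit 200))))) (XT.nd (nat_lit 234) (nat_lit 760) (nat_lit 0) (XT.nd (nat_lit 78) (nat_lit 760) (nat_lit 0) (XT.lf (nat_lit 0) (nat_lit 666257240) (nat_lit 0) (nat_lit 666257240) (nat_lit 684) (nat_lit 2174993395) (nat_lit 318) (nat_lit 5) (nat_lit 318) (nat_lit 3) (nat_lit 327) (nat_lit 3) (nat_lit 307) (nat_lit 307) (nat_lit 286)) (XT.nd (nat_lit 78) (nat_lit 760) (nat_lit 0) (XT.lf (nat_lit 0) (nat_lit 5633427061) (nat_lit 684) (nat_lit 101024196) (nat_lit 760) (nat_lit 1366399624) (nat_lit 318) (nat_lit 5) (nat_lit 327) (nat_lit 3) (nat_lit 328) (nat_lit 5) (nat_lit 308) (nat_lit 307) (nat_lit 285)) (XT.lf (nat_lit 0) (nat_lit 1412352757) (nat_lit 760) (nat_lit 1449015550) (nat_lit 836) (nat_lit 4332808995) (nat_lit 308) (nat_lit 5) (nat_lit 318) (nat_lit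 5) (nat_lit 319) (nat_lit 5) (nat_lit 309) (nat_lit 307) (nat_lit 284)))) (XT.nd (nat_lit 78) (nat_lit 836) (nat_lit 0) (XT.lf (nat_lit 0) (nat_lit 4275790503) (nat_lit 760) (nat_lit 2730648099) (nat_lit 836) (nat_lit 289342154) (nat_lit 309) (nat_lit 5) (nat_lit 319) (nat_lit 5) (nat_lit 320) (nat_lit 5) (nat_lit 310) (nat_lit 307) (nat_lit 283)) (XT.nd (nat_lit 78) (nat_lit 836) (nat_lit 0) (XT.lf (nat_lit 76) (nat_lit 3443425820) (nat_lit 0) (nat_lit 3746212733) (nat_lit 836) (nat_lit 215748876) (nat_lit 310) (nat_lit 5) (nat_lit 309) (nat_lit 5) (nat_lit 320) (nat_lit 5) (nat_lit 311) (nat_lit 307) (nat_lit 282)) (XT.lf (nat_lit 76) (nat_lit 2380130470) (nat_lit 0) (nat_lit 182170787) (nat_lit 912) (nat_lit 4960910605) (nat_lit 299) (nat_lit 5) (nat_lit 298) (nat_lit 5) (nat_lit 310) (nat_lit 5) (nat_lit 312) (nat_lit 307) (nat_lit 281))))))))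
noncomputable def xc62 : XT := (XT.nd (nat_lit 1794) (nat_lit 5852) (nat_lit 0) (XT.nd (nat_lit 858) (nat_lit 5396) (nat_lit 0) (XT.nd (nat_lit 390) (nat_lit 5700) (nat_lit 0) (XT.nd (nat_lit 156) (nat_lit 836) (nat_lit 0) (XT.nd (nat_lit 78) (nat_lit 912) (nat_lit 0) (XT.lf (nat_lit 76) (nat_lit 1360282699) (nat_lit 0) (nat_lit 4046025777) (nat_lit 912) (nat_lit 2242732919) (nat_lit 300) (nat_lit 5) (nat_lit 299) (nat_lit 5) (nat_lit 311) (nat_lit 5) (nat_lit 313) (nat_lit 307) (nat_lit 280)) (XT.lf (nat_lit 76) (nat_lit 410505258) (nat_lit 0) (nat_lit 96042561) (nat_lit 988) (nat_lit 7277338724) (nat_lit 288) (nat_lit 5) (nat_lit 287) (nat_lit 5) (nat_lit 300) (nat_lit 5) (nat_lit 314) (nat_lit 307) (nat_lit 279))) (XT.nd (nat_lit 78) (nat_lit 912) (nat_lit 0) (XT.lf (nat_lit 0) (nat_lit 3306202518) (nat_lit 912) (nat_lit 517446605) (nat_lit 988) (nat_lit 4102488595) (nat_lit 288) (nat_lit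 5) (nat_lit 300) (nat_lit 5) (nat_lit 301) (nat_lit 5) (nat_lit 315) (nat_lit 307) (nat_lit 278)) (XT.nd (nat_lit 78) (nat_lit 988) (nat_lit 0) (XT.lf (nat_lit 0) (nat_lit 6177911237) (nat_lit 912) (nat_lit 1374430726) (nat_lit 76) (nat_lit 525300893) (nat_lit 289) (nat_lit 5) (nat_lit 301) (nat_lit 5) (nat_lit 290) (nat_lit 5) (nat_lit 316) (nat_lit 307) (nat_lit 277)) (XT.lf (nat_lit 0) (nat_lit 906815754) (nat_lit 988) (nat_lit 2212541855) (nat_lit 76) (nat_lit 5118115613) (nat_lit 276) (nat_lit 5) (nat_lit 289) (nat_lit 5) (nat_lit 277) (nat_lit 5) (nat_lit 317) (nat_lit 307) (nat_lit 276))))) (XT.nd (nat_lit 234) (nat_lit 2432) (nat_lit 0) (XT.nd (nat_lit 78) (nat_lit 2280) (nat_lit 0) (XT.lf (nat_lit 0) (nat_lit 3768218463) (nat_lit 1064) (nat_lit 3022176396) (nat_lit 76) (nat_lit 1615812631) (nat_lit 263) (nat_lit 5) (nat_lit 277) (nat_lit 5) (nat_lit 264) (nat_lit 5) (nat_lit 318) (nat_lit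 307) (nat_lit 275)) (XT.nd (nat_lit 78) (nat_lit 1216) (nat_lit 0) (XT.lf (nat_lit 0) (nat_lit 4780690448) (nat_lit 1064) (nat_lit 1969223494) (nat_lit 1140) (nat_lit 1834234689) (nat_lit 249) (nat_lit 5) (nat_lit 263) (nat_lit 5) (nat_lit 264) (nat_lit 5) (nat_lit 319) (nat_lit 307) (nat_lit 274)) (XT.lf (nat_lit 0) (nat_lit 1071288411) (nat_lit 1216) (nat_lit 4568735200) (nat_lit 76) (nat_lit 3131226435) (nat_lit 233) (nat_lit 5) (nat_lit 249) (nat_lit 5) (nat_lit 234) (nat_lit 5) (nat_lit 320) (nat_lit 307) (nat_lit 273)))) (XT.nd (nat_lit 78) (nat_lit 1216) (nat_lit 0) (XT.lf (nat_lit 0) (nat_lit 3649189740) (nat_lit 1216) (nat_lit 415078687) (nat_lit 1292) (nat_lit 4903566289) (nat_lit 217) (nat_lit 5) (nat_lit 233) (nat_lit 5) (nat_lit 234) (nat_lit 5) (nat_lit 321) (nat_lit 307) (nat_lit 272)) (XT.nd (nat_lit 78) (nat_lit 608) (nat_lit 0) (XT.lf (nat_lit 0) (nat_lit 3106626937) (nat_lit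 608) (nat_lit 4116207457) (nat_lit 684) (nat_lit 1951008945) (nat_lit 209) (nat_lit 5) (nat_lit 217) (nat_lit 5) (nat_lit 218) (nat_lit 5) (nat_lit 322) (nat_lit 307) (nat_lit 271)) (XT.lf (nat_lit 0) (nat_lit 1118701265) (nat_lit 608) (nat_lit 6798728878) (nat_lit 76) (nat_lit 1472699709) (nat_lit 201) (nat_lit 5) (nat_lit 209) (nat_lit 5) (nat_lit 202) (nat_lit 5) (nat_lit 323) (nat_lit 307) (nat_lit 270)))))) (XT.nd (nat_lit 468) (nat_lit 2660) (nat_lit 0) (XT.nd (nat_lit 234) (nat_lit 988) (nat_lit 0) (XT.nd (nat_lit 78) (nat_lit 1140) (nat_lit 0) (XT.lf (nat_lit 0) (nat_lit 2068110056) (nat_lit 608) (nat_lit 2255421094) (nat_lit 684) (nat_lit 5292524645) (nat_lit 193) (nat_lit 5) (nat_lit 201) (nat_lit 5) (nat_lit 202) (nat_lit 5) (nat_lit 324) (nat_lit 307) (nat_lit 269)) (XT.nd (nat_lit 78) (nat_lit 608) (nat_lit 0) (XT.lf (nat_lit 0) (nat_lit 1558671457) (nat_lit 532) (nat_lit 6152063976)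 (nat_lit 608) (nat_lit 2141939698) (nat_lit 186) (nat_lit 5) (nat_lit 193) (nat_lit 5) (nat_lit 194) (nat_lit 5) (nat_lit 325) (nat_lit 307) (nat_lit 268)) (XT.lf (nat_lit 0) (nat_lit 1061792142) (nat_lit 532) (nat_lit 96804245) (nat_lit 608) (nat_lit 8941793878) (nat_lit 178) (nat_lit 5) (nat_lit 185) (nat_lit 5) (nat_lit 186) (nat_lit 5) (nat_lit 326) (nat_lit 307) (nat_lit 267)))) (XT.nd (nat_lit 78) (nat_lit 532) (nat_lit 0) (XT.lf (nat_lit 0) (nat_lit 524838746) (nat_lit 456) (nat_lit 4114165796) (nat_lit 532) (nat_lit 5719129870) (nat_lit 172) (nat_lit 5) (nat_lit 178) (nat_lit 5) (nat_lit 179) (nat_lit 5) (nat_lit 327) (nat_lit 307) (nat_lit 266)) (XT.nd (nat_lit 78) (nat_lit 76) (nat_lit 0) (XT.lf (nat_lit 0) (nat_lit 2509056) (nat_lit 456) (nat_lit 8318328027) (nat_lit 532) (nat_lit 2307157788) (nat_lit 166) (nat_lit 5) (nat_lit 172) (nat_lit 5) (nat_lit 173) (nat_lit 5) (nat_lit 328)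 (nat_lit 307) (nat_lit 265)) (XT.lf (nat_lit 0) (nat_lit 1307286444) (nat_lit 532) (nat_lit 529502991) (nat_lit 76) (nat_lit 9072535641) (nat_lit 165) (nat_lit 5) (nat_lit 172) (nat_lit 5) (nat_lit 166) (nat_lit 5) (nat_lit 329) (nat_lit 307) (nat_lit 264))))) (XT.nd (nat_lit 234) (nat_lit 1292) (nat_lit 0) (XT.nd (nat_lit 78) (nat_lit 912) (nat_lit 0) (XT.lf (nat_lit 0) (nat_lit 5118712071) (nat_lit 532) (nat_lit 1103553691) (nat_lit 76) (nat_lit 4979896604) (nat_lit 159) (nat_lit 5) (nat_lit 166) (nat_lit 5) (nat_lit 160) (nat_lit 5) (nat_lit 330) (nat_lit 307) (nat_lit 263)) (XT.nd (nat_lit 78) (nat_lit 456) (nat_lit 0) (XT.lf (nat_lit 0) (nat_lit 9165864450) (nat_lit 532) (nat_lit 1678620614) (nat_lit 76) (nat_lit 663844754) (nat_lit 153) (nat_lit 5) (nat_lit 160) (nat_lit 5) (nat_lit 154) (nat_lit 5) (nat_lit 331) (nat_lit 307) (nat_lit 262)) (XT.lf (nat_lit 0) (nat_lit 1644144770) (nat_lit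 456) (nat_lit 2313091301) (nat_lit 76) (nat_lit 7869466571) (nat_lit 147) (nat_lit 5) (nat_lit 153) (nat_lit 5) (nat_lit 148) (nat_lit 5) (nat_lit 332) (nat_lit 307) (nat_lit 261)))) (XT.nd (nat_lit 78) (nat_lit 836) (nat_lit 0) (XT.lf (nat_lit 0) (nat_lit 5845351973) (nat_lit 532) (nat_lit 2991035812) (nat_lit 76) (nat_lit 3322037004) (nat_lit 141) (nat_lit 5) (nat_lit 148) (nat_lit 5) (nat_lit 142) (nat_lit 5) (nat_lit 333) (nat_lit 307) (nat_lit 260)) (XT.nd (nat_lit 78) (nat_lit 456) (nat_lit 0) (XT.lf (nat_lit 0) (nat_lit 8801630470) (nat_lit 380) (nat_lit 1530887841) (nat_lit 456) (nat_lit 2171973801) (nat_lit 136) (nat_lit 5) (nat_lit 141) (nat_lit 5) (nat_lit 142) (nat_lit 5) (nat_lit 334) (nat_lit 307) (nat_lit 259)) (XT.lf (nat_lit 0) (nat_lit 2235127179) (nat_lit 456) (nat_lit 4496286848) (nat_lit 76) (nat_lit 6132812164) (nat_lit 130) (nat_lit 5) (nat_lit 136) (nat_lit 5) (nat_lit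 131) (nat_lit 5) (nat_lit 335) (nat_lit 307) (nat_lit 258))))))) (XT.nd (nat_lit 936) (nat_lit 2356) (nat_lit 0) (XT.nd (nat_lit 468) (nat_lit 1444) (nat_lit 0) (XT.nd (nat_lit 234) (nat_lit 988) (nat_lit 0) (XT.nd (nat_lit 78) (nat_lit 760) (nat_lit 0) (XT.lf (nat_lit 0) (nat_lit 6889293354) (nat_lit 380) (nat_lit 5346104042) (nat_lit 76) (nat_lit 1003787270) (nat_lit 126) (nat_lit 5) (nat_lit 131) (nat_lit 5) (nat_lit 127) (nat_lit 5) (nat_lit 336) (nat_lit 307) (nat_lit 257)) (XT.nd (nat_lit 78) (nat_lit 380) (nat_lit 0) (XT.lf (nat_lit 0) (nat_lit 7348103137) (nat_lit 380) (nat_lit 4547018391) (nat_lit 456) (nat_lit 1734231146) (nat_lit 121) (nat_lit 5) (nat_lit 126) (nat_lit 5) (nat_lit 127) (nat_lit 5) (nat_lit 337) (nat_lit 307) (nat_lit 256)) (XT.lf (nat_lit 0) (nat_lit 3142488202) (nat_lit 380) (nat_lit 7308713208) (nat_lit 76) (nat_lit 3584227920) (nat_lit 116) (nat_lit 5) (nat_lit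 121) (nat_lit 5) (nat_lit 117) (nat_lit 5) (nat_lit 338) (nat_lit 307) (nat_lit 255)))) (XT.nd (nat_lit 78) (nat_lit 684) (nat_lit 0) (XT.lf (nat_lit 0) (nat_lit 6020879377) (nat_lit 304) (nat_lit 2312983874) (nat_lit 380) (nat_lit 6124257473) (nat_lit 112) (nat_lit 5) (nat_lit 116) (nat_lit 5) (nat_lit 117) (nat_lit 5) (nat_lit 339) (nat_lit 307) (nat_lit 254)) (XT.nd (nat_lit 78) (nat_lit 380) (nat_lit 0) (XT.lf (nat_lit 0) (nat_lit 5223181961) (nat_lit 304) (nat_lit 8686910561) (nat_lit 380) (nat_lit 988120945) (nat_lit 108) (nat_lit 5) (nat_lit 112) (nat_lit 5) (nat_lit 113) (nat_lit 5) (nat_lit 340) (nat_lit 307) (nat_lit 253)) (XT.lf (nat_lit 0) (nat_lit 4316149778) (nat_lit 304) (nat_lit 95923887) (nat_lit 380) (nat_lit 10944194206) (nat_lit 103) (nat_lit 5) (nat_lit 107) (nat_lit 5) (nat_lit 108) (nat_lit 5) (nat_lit 341) (nat_lit 307) (nat_lit 252))))) (XT.nd (nat_lit 234) (nat_lit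 608) (nat_lit 0) (XT.nd (nat_lit 78) (nat_lit 608) (nat_lit 0) (XT.lf (nat_lit 0) (nat_lit 3255860581) (nat_lit 228) (nat_lit 6966252804) (nat_lit 304) (nat_lit 5610032290) (nat_lit 100) (nat_lit 5) (nat_lit 103) (nat_lit 5) (nat_lit 104) (nat_lit 5) (nat_lit 342) (nat_lit 307) (nat_lit 251)) (XT.nd (nat_lit 78) (nat_lit 228) (nat_lit 0) (XT.lf (nat_lit 0) (nat_lit 90692117) (nat_lit 380) (nat_lit 14225238986) (nat_lit 76) (nat_lit 2012919276) (nat_lit 95) (nat_lit 5) (nat_lit 100) (nat_lit 5) (nat_lit 96) (nat_lit 5) (nat_lit 343) (nat_lit 307) (nat_lit 250)) (XT.lf (nat_lit 0) (nat_lit 736557611) (nat_lit 228) (nat_lit 5378490733) (nat_lit 304) (nat_lit 10729056692) (nat_lit 92) (nat_lit 5) (nat_lit 95) (nat_lit 5) (nat_lit 96) (nat_lit 5) (nat_lit 344) (nat_lit 307) (nat_lit 249)))) (XT.nd (nat_lit 78) (nat_lit 608) (nat_lit 0) (XT.lf (nat_lit 0) (nat_lit 12573969784) (nat_lit 304) (nat_lit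 759317319) (nat_lit 76) (nat_lit 4047853619) (nat_lit 92) (nat_lit 5) (nat_lit 96) (nat_lit 5) (nat_lit 93) (nat_lit 5) (nat_lit 345) (nat_lit 307) (nat_lit 248)) (XT.nd (nat_lit 78) (nat_lit 228) (nat_lit 0) (XT.lf (nat_lit 0) (nat_lit 1537795056) (nat_lit 380) (nat_lit 2428934554) (nat_lit 76) (nat_lit 13973273564) (nat_lit 87) (nat_lit 5) (nat_lit 92) (nat_lit 5) (nat_lit 88) (nat_lit 5) (nat_lit 346) (nat_lit 307) (nat_lit 247)) (XT.lf (nat_lit 0) (nat_lit 8254964101) (nat_lit 304) (nat_lit 4344261856) (nat_lit 76) (nat_lit 5921540170) (nat_lit 84) (nat_lit 5) (nat_lit 88) (nat_lit 5) (nat_lit 85) (nat_lit 5) (nat_lit 347) (nat_lit 307) (nat_lit 246)))))) (XT.nd (nat_lit 468) (nat_lit 988) (nat_lit 0) (XT.nd (nat_lit 234) (nat_lit 608) (nat_lit 0) (XT.nd (nat_lit 78) (nat_lit 532) (nat_lit 0) (XT.lf (nat_lit 0) (nat_lit 12663843705) (nat_lit 228) (nat_lit 2783190355) (nat_lit 304) (nat_lit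 3679377594) (nat_lit 81) (nat_lit 5) (nat_lit 84) (nat_lit 5) (nat_lit 85) (nat_lit 5) (nat_lit 348) (nat_lit 307) (nat_lit 245)) (XT.nd (nat_lit 78) (nat_lit 228) (nat_lit 0) (XT.lf (nat_lit 0) (nat_lit 3350699462) (nat_lit 304) (nat_lit 8872625168) (nat_lit 76) (nat_lit 7532771505) (nat_lit 77) (nat_lit 5) (nat_lit 81) (nat_lit 5) (nat_lit 78) (nat_lit 5) (nat_lit 349) (nat_lit 307) (nat_lit 244)) (XT.lf (nat_lit 0) (nat_lit 8849517936) (nat_lit 228) (nat_lit 1942108506) (nat_lit 304) (nat_lit 9620496101) (nat_lit 74) (nat_lit 5) (nat_lit 77) (nat_lit 5) (nat_lit 78) (nat_lit 5) (nat_lit 350) (nat_lit 307) (nat_lit 243)))) (XT.nd (nat_lit 78) (nat_lit 456) (nat_lit 0) (XT.lf (nat_lit 0) (nat_lit 6513233616) (nat_lit 152) (nat_lit 12286924505) (nat_lit 228) (nat_lit 2294938565) (nat_lit 72) (nat_lit 5) (nat_lit 74) (nat_lit 5) (nat_lit 75) (nat_lit 5) (nat_lit 351) (nat_lit 307) (nat_lit 242))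 (XT.nd (nat_lit 78) (nat_lit 152) (nat_lit 0) (XT.lf (nat_lit 0) (nat_lit 3856826378) (nat_lit 228) (nat_lit 1568242482) (nat_lit 304) (nat_lit 16381601954) (nat_lit 68) (nat_lit 5) (nat_lit 71) (nat_lit 5) (nat_lit 72) (nat_lit 5) (nat_lit 352) (nat_lit 307) (nat_lit 241)) (XT.lf (nat_lit 0) (nat_lit 800131945) (nat_lit 152) (nat_lit 12894055559) (nat_lit 228) (nat_lit 8852648863) (nat_lit 66) (nat_lit 5) (nat_lit 68) (nat_lit 5) (nat_lit 69) (nat_lit 5) (nat_lit 353) (nat_lit 307) (nat_lit 240))))) (XT.nd (nat_lit 234) (nat_lit 532) (nat_lit 0) (XT.nd (nat_lit 78) (nat_lit 456) (nat_lit 0) (XT.lf (nat_lit 0) (nat_lit 20778016761) (nat_lit 152) (nat_lit 1758286416) (nat_lit 228) (nat_lit 782931831) (nat_lit 66) (nat_lit 5) (nat_lit 68) (nat_lit 5) (nat_lit 69) (nat_lit 5) (nat_lit 354) (nat_lit 307) (nat_lit 239)) (XT.nd (nat_lit 78) (nat_lit 152) (nat_lit 0) (XT.lf (nat_lit 0) (nat_lit 7769931694)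 (nat_lit 304) (nat_lit 6389230658) (nat_lit 76) (nat_lit 9961991963) (nat_lit 62) (nat_lit 5) (nat_lit 66) (nat_lit 5) (nat_lit 63) (nat_lit 5) (nat_lit 355) (nat_lit 307) (nat_lit 238)) (XT.lf (nat_lit 0) (nat_lit 14297445233) (nat_lit 152) (nat_lit 2580201055) (nat_lit 228) (nat_lit 8080998466) (nat_lit 60) (nat_lit 5) (nat_lit 62) (nat_lit 5) (nat_lit 63) (nat_lit 5) (nat_lit 356) (nat_lit 307) (nat_lit 237)))) (XT.nd (nat_lit 78) (nat_lit 304) (nat_lit 0) (XT.lf (nat_lit 0) (nat_lit 813856452) (nat_lit 228) (nat_lit 15478063835) (nat_lit 76) (nat_lit 9539238169) (nat_lit 57) (nat_lit 5) (nat_lit 60) (nat_lit 5) (nat_lit 58) (nat_lit 5) (nat_lit 357) (nat_lit 307) (nat_lit 236)) (XT.nd (nat_lit 78) (nat_lit 152) (nat_lit 0) (XT.lf (nat_lit 0) (nat_lit 5839146600) (nat_lit 152) (nat_lit 4305170879) (nat_lit 228) (nat_lit 16595848906) (nat_lit 55) (nat_lit 5) (nat_lit 57) (nat_lit 5) (nat_lit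 58) (nat_lit 5) (nat_lit 358) (nat_lit 307) (nat_lit 235)) (XT.lf (nat_lit 0) (nat_lit 726816231) (nat_lit 152) (nat_lit 19426320199) (nat_lit 228) (nat_lit 7535141389) (nat_lit 53) (nat_lit 5) (nat_lit 55) (nat_lit 5) (nat_lit 56) (nat_lit 5) (nat_lit 359) (nat_lit 307) (nat_lit 234))))))))
noncomputable def xc63 : XT := (XT.nd (nat_lit 1872) (nat_lit 532) (nat_lit 0) (XT.nd (nat_lit 936) (nat_lit 988) (nat_lit 0) (XT.nd (nat_lit 468) (nat_lit 608) (nat_lit 0) (XT.nd (nat_lit 234) (nat_lit 380) (nat_lit 0) (XT.nd (nat_lit 78) (nat_lit 304) (nat_lit 0) (XT.lf (nat_lit 0) (nat_lit 2165838965) (nat_lit 228) (nat_lit 4930060363) (nat_lit 76) (nat_lit 21580557039) (nat_lit 52) (nat_lit 5) (nat_lit 55) (nat_lit 5) (nat_lit 53) (nat_lit 5) (nat_lit 360) (nat_lit 307) (nat_lit 233)) (XT.nd (nat_lit 78) (nat_lit 152) (nat_lit 0) (XT.lf (nat_lit 0) (nat_lit 12399904175) (nat_lit 228) (nat_lit 11337532096)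 (nat_lit 76) (nat_lit 5968260368) (nat_lit 50) (nat_lit 5) (nat_lit 53) (nat_lit 5) (nat_lit 51) (nat_lit 5) (nat_lit 361) (nat_lit 307) (nat_lit 232)) (XT.lf (nat_lit 0) (nat_lit 12259444326) (nat_lit 152) (nat_lit 11094523365) (nat_lit 228) (nat_lit 7426189222) (nat_lit 48) (nat_lit 5) (nat_lit 50) (nat_lit 5) (nat_lit 51) (nat_lit 5) (nat_lit 362) (nat_lit 307) (nat_lit 231)))) (XT.nd (nat_lit 78) (nat_lit 152) (nat_lit 0) (XT.lf (nat_lit 0) (nat_lit 3050493087) (nat_lit 228) (nat_lit 26538151515) (nat_lit 76) (nat_lit 2314033562) (nat_lit 45) (nat_lit 5) (nat_lit 48) (nat_lit 5) (nat_lit 46) (nat_lit 5) (nat_lit 363) (nat_lit 307) (nat_lit 230)) (XT.nd (nat_lit 78) (nat_lit 152) (nat_lit 0) (XT.lf (nat_lit 0) (nat_lit 14172402164) (nat_lit 228) (nat_lit 2488570356) (nat_lit 76) (nat_lit 16409903851) (nat_lit 45) (nat_lit 5) (nat_lit 48) (nat_lit 5) (nat_lit 46) (nat_lit 5) (nat_lit 364)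 (nat_lit 307) (nat_lit 229)) (XT.lf (nat_lit 0) (nat_lit 23162911140) (nat_lit 152) (nat_lit 2880654639) (nat_lit 228) (nat_lit 8248129675) (nat_lit 43) (nat_lit 5) (nat_lit 45) (nat_lit 5) (nat_lit 46) (nat_lit 5) (nat_lit 365) (nat_lit 307) (nat_lit 228))))) (XT.nd (nat_lit 234) (nat_lit 304) (nat_lit 0) (XT.nd (nat_lit 78) (nat_lit 152) (nat_lit 0) (XT.lf (nat_lit 0) (nat_lit 3129704125) (nat_lit 152) (nat_lit 20897085809) (nat_lit 76) (nat_lit 11538357369) (nat_lit 41) (nat_lit 5) (nat_lit 43) (nat_lit 5) (nat_lit 42) (nat_lit 5) (nat_lit 366) (nat_lit 307) (nat_lit 227)) (XT.nd (nat_lit 78) (nat_lit 0) (nat_lit 0) (XT.lf (nat_lit 0) (nat_lit 5022221031) (nat_lit 152) (nat_lit 10050065226) (nat_lit 228) (nat_lit 21822547382) (nat_lit 39) (nat_lit 5) (nat_lit 41) (nat_lit 5) (nat_lit 42) (nat_lit 5) (nat_lit 367) (nat_lit 307) (nat_lit 226)) (XT.lf (nat_lit 0) (nat_lit 27846171929) (nat_lit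 228) (nat_lit 5706914152) (nat_lit 76) (nat_lit 4730897789) (nat_lit 39) (nat_lit 5) (nat_lit 42) (nat_lit 5) (nat_lit 40) (nat_lit 4) (nat_lit 368) (nat_lit 307) (nat_lit 225)))) (XT.nd (nat_lit 78) (nat_lit 152) (nat_lit 0) (XT.lf (nat_lit 0) (nat_lit 1776568274) (nat_lit 152) (nat_lit 17703098251) (nat_lit 76) (nat_lit 20253792494) (nat_lit 37) (nat_lit 5) (nat_lit 39) (nat_lit 5) (nat_lit 38) (nat_lit 5) (nat_lit 369) (nat_lit 307) (nat_lit 224)) (XT.nd (nat_lit 78) (nat_lit 0) (nat_lit 0) (XT.lf (nat_lit 0) (nat_lit 10063836131) (nat_lit 152) (nat_lit 4454361410) (nat_lit 228) (nat_lit 26730142281) (nat_lit 35) (nat_lit 5) (nat_lit 37) (nat_lit 5) (nat_lit 38) (nat_lit 5) (nat_lit 370) (nat_lit 307) (nat_lit 223)) (XT.lf (nat_lit 0) (nat_lit 28164700010) (nat_lit 228) (nat_lit 3401016501) (nat_lit 76) (nat_lit 11265218436) (nat_lit 35) (nat_lit 5) (nat_lit 38) (nat_lit 5) (nat_lit 36) (nat_lit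 4) (nat_lit 371) (nat_lit 307) (nat_lit 222)))))) (XT.nd (nat_lit 468) (nat_lit 380) (nat_lit 0) (XT.nd (nat_lit 234) (nat_lit 304) (nat_lit 0) (XT.nd (nat_lit 78) (nat_lit 228) (nat_lit 0) (XT.lf (nat_lit 0) (nat_lit 26194075861) (nat_lit 76) (nat_lit 16572312389) (nat_lit 152) (nat_lit 1718089602) (nat_lit 34) (nat_lit 5) (nat_lit 35) (nat_lit 5) (nat_lit 36) (nat_lit 4) (nat_lit 372) (nat_lit 307) (nat_lit 221)) (XT.nd (nat_lit 78) (nat_lit 0) (nat_lit 0) (XT.lf (nat_lit 0) (nat_lit 11181042775) (nat_lit 152) (nat_lit 584088762) (nat_lit 228) (nat_lit 34448561497) (nat_lit 31) (nat_lit 5) (nat_lit 33) (nat_lit 5) (nat_lit 34) (nat_lit 5) (nat_lit 373) (nat_lit 307) (nat_lit 220)) (XT.lf (nat_lit 0) (nat_lit 26210351703) (nat_lit 228) (nat_lit 5732643937) (nat_lit 76) (nat_lit 16076165272) (nat_lit 31) (nat_lit 5) (nat_lit 34) (nat_lit 5) (nat_lit 32) (nat_lit 4) (nat_lit 374) (nat_lit 307)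 (nat_lit 219)))) (XT.nd (nat_lit 78) (nat_lit 228) (nat_lit 0) (XT.lf (nat_lit 0) (nat_lit 25483518615) (nat_lit 76) (nat_lit 16123395880) (nat_lit 152) (nat_lit 8301118465) (nat_lit 30) (nat_lit 5) (nat_lit 31) (nat_lit 5) (nat_lit 32) (nat_lit 4) (nat_lit 375) (nat_lit 307) (nat_lit 218)) (XT.nd (nat_lit 78) (nat_lit 0) (nat_lit 0) (XT.lf (nat_lit 0) (nat_lit 5874413961) (nat_lit 228) (nat_lit 45371568060) (nat_lit 76) (nat_lit 640456281) (nat_lit 27) (nat_lit 5) (nat_lit 30) (nat_lit 5) (nat_lit 28) (nat_lit 4) (nat_lit 376) (nat_lit 307) (nat_lit 217)) (XT.lf (nat_lit 0) (nat_lit 20984443853) (nat_lit 228) (nat_lit 14732427853) (nat_lit 76) (nat_lit 18232507342) (nat_lit 27) (nat_lit 5) (nat_lit 30) (nat_lit 5) (nat_lit 28) (nat_lit 4) (nat_lit 377) (nat_lit 307) (nat_lit 216))))) (XT.nd (nat_lit 234) (nat_lit 152) (nat_lit 0) (XT.nd (nat_lit 78) (nat_lit 152) (nat_lit 0) (XT.lf (nat_lit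 0) (nat_lit 17748026386) (nat_lit 76) (nat_lit 19252695874) (nat_lit 152) (nat_lit 19110224863) (nat_lit 26) (nat_lit 5) (nat_lit 27) (nat_lit 5) (nat_lit 28) (nat_lit 4) (nat_lit 378) (nat_lit 307) (nat_lit 215)) (XT.nd (nat_lit 78) (nat_lit 152) (nat_lit 0) (XT.lf (nat_lit 0) (nat_lit 52124456614) (nat_lit 76) (nat_lit 1825757866) (nat_lit 152) (nat_lit 4426409700) (nat_lit 26) (nat_lit 5) (nat_lit 27) (nat_lit 5) (nat_lit 28) (nat_lit 4) (nat_lit 379) (nat_lit 307) (nat_lit 214)) (XT.lf (nat_lit 0) (nat_lit 11188355626) (nat_lit 152) (nat_lit 33039132946) (nat_lit 76) (nat_lit 16512591808) (nat_lit 24) (nat_lit 5) (nat_lit 26) (nat_lit 5) (nat_lit 25) (nat_lit 4) (nat_lit 380) (nat_lit 307) (nat_lit 213)))) (XT.nd (nat_lit 78) (nat_lit 76) (nat_lit 0) (XT.lf (nat_lit 0) (nat_lit 168158794) (nat_lit 76) (nat_lit 27391933290) (nat_lit 152) (nat_lit 35658271463) (nat_lit 23) (nat_lit 5) (nat_lit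 24) (nat_lit 5) (nat_lit 25) (nat_lit 4) (nat_lit 381) (nat_lit 307) (nat_lit 212)) (XT.nd (nat_lit 78) (nat_lit 76) (nat_lit 0) (XT.lf (nat_lit 0) (nat_lit 35693237394) (nat_lit 76) (nat_lit 9379716900) (nat_lit 152) (nat_lit 20737932569) (nat_lit 23) (nat_lit 5) (nat_lit 24) (nat_lit 5) (nat_lit 25) (nat_lit 4) (nat_lit 382) (nat_lit 307) (nat_lit 211)) (XT.lf (nat_lit 0) (nat_lit 4424442416) (nat_lit 76) (nat_lit 59154311351) (nat_lit 76) (nat_lit 4950765811) (nat_lit 22) (nat_lit 4) (nat_lit 23) (nat_lit 5) (nat_lit 23) (nat_lit 4) (nat_lit 383) (nat_lit 307) (nat_lit 210))))))) (XT.nd (nat_lit 41106) (nat_lit 0) (nat_lit 16568) (XT.nd (nat_lit 468) (nat_lit 228) (nat_lit 0) (XT.nd (nat_lit 234) (nat_lit 152) (nat_lit 0) (XT.nd (nat_lit 78) (nat_lit 76) (nat_lit 0) (XT.lf (nat_lit 0) (nat_lit 11790143238) (nat_lit 152) (nat_lit 30292478558) (nat_lit 76) (nat_lit 29286374083) (nat_lit 21)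 (nat_lit 5) (nat_lit 23) (nat_lit 5) (nat_lit 22) (nat_lit 4) (nat_lit 384) (nat_lit 307) (nat_lit 209)) (XT.nd (nat_lit 78) (nat_lit 0) (nat_lit 0) (XT.lf (nat_lit 0) (nat_lit 5233175423) (nat_lit 76) (nat_lit 24068044744) (nat_lit 152) (nat_lit 45046691759) (nat_lit 20) (nat_lit 5) (nat_lit 21) (nat_lit 5) (nat_lit 22) (nat_lit 4) (nat_lit 385) (nat_lit 307) (nat_lit 208)) (XT.lf (nat_lit 0) (nat_lit 43139264450) (nat_lit 76) (nat_lit 4845148614) (nat_lit 152) (nat_lit 29482465571) (nat_lit 20) (nat_lit 5) (nat_lit 21) (nat_lit 5) (nat_lit 22) (nat_lit 4) (nat_lit 386) (nat_lit 307) (nat_lit 207)))) (XT.nd (nat_lit 78) (nat_lit 76) (nat_lit 0) (XT.lf (nat_lit 0) (nat_lit 2063881160) (nat_lit 76) (nat_lit 65690501088) (nat_lit 76) (nat_lit 12982834576) (nat_lit 19) (nat_lit 4) (nat_lit 20) (nat_lit 5) (nat_lit 20) (nat_lit 4) (nat_lit 387) (nat_lit 307) (nat_lit 206)) (XT.nd (nat_lit 78) (nat_lit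 0) (nat_lit 0) (XT.lf (nat_lit 0) (nat_lit 4648455722) (nat_lit 152) (nat_lit 43289611551) (nat_lit 76) (nat_lit 36220012048) (nat_lit 18) (nat_lit 5) (nat_lit 20) (nat_lit 5) (nat_lit 19) (nat_lit 4) (nat_lit 388) (nat_lit 307) (nat_lit 205)) (XT.lf (nat_lit 0) (nat_lit 22881612994) (nat_lit 152) (nat_lit 6293740533) (nat_lit 76) (nat_lit 58571112352) (nat_lit 18) (nat_lit 5) (nat_lit 20) (nat_lit 5) (nat_lit 19) (nat_lit 4) (nat_lit 389) (nat_lit 307) (nat_lit 204))))) (XT.nd (nat_lit 312) (nat_lit 76) (nat_lit 0) (XT.nd (nat_lit 78) (nat_lit 76) (nat_lit 0) (XT.lf (nat_lit 0) (nat_lit 33174516039) (nat_lit 76) (nat_lit 9157769085) (nat_lit 152) (nat_lit 49172812309) (nat_lit 17) (nat_lit 5) (nat_lit 18) (nat_lit 5) (nat_lit 19) (nat_lit 4) (nat_lit 390) (nat_lit 307) (nat_lit 203)) (XT.nd (nat_lit 78) (nat_lit 76) (nat_lit 0) (XT.lf (nat_lit 0) (nat_lit 62922176298) (nat_lit 152) (nat_lit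 20840988101) (nat_lit 0) (nat_lit 11683496914) (nat_lit 17) (nat_lit 5) (nat_lit 19) (nat_lit 4) (nat_lit 17) (nat_lit 4) (nat_lit 391) (nat_lit 307) (nat_lit 202)) (XT.lf (nat_lit 0) (nat_lit 18773833064) (nat_lit 76) (nat_lit 66028476791) (nat_lit 76) (nat_lit 14775172347) (nat_lit 16) (nat_lit 4) (nat_lit 17) (nat_lit 5) (nat_lit 17) (nat_lit 4) (nat_lit 392) (nat_lit 307) (nat_lit 201)))) (XT.nd (nat_lit 40170) (nat_lit 0) (nat_lit 22192) (XT.lf (nat_lit 0) (nat_lit 23381432583) (nat_lit 152) (nat_lit 3816190285) (nat_lit 76) (nat_lit 81252445471) (nat_lit 15) (nat_lit 5) (nat_lit 17) (nat_lit 5) (nat_lit 16) (nat_lit 4) (nat_lit 394) (nat_lit 307) (nat_lit 199)) (XT.nd (nat_lit 78) (nat_lit 0) (nat_lit 0) (XT.lf (nat_lit 0) (nat_lit 634653421) (nat_lit 836) (nat_lit 1480148251) (nat_lit 836) (nat_lit 1480148251) (nat_lit 307) (nat_lit 3) (nat_lit 318) (nat_lit 3) (nat_lit 318) (nat_lit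 5) (nat_lit 308) (nat_lit 308) (nat_lit 284)) (XT.lf (nat_lit 76) (nat_lit 2798914237) (nat_lit 0) (nat_lit 1177023483) (nat_lit 836) (nat_lit 3311272513) (nat_lit 308) (nat_lit 5) (nat_lit 307) (nat_lit 3) (nat_lit 318) (nat_lit 5) (nat_lit 309) (nat_lit 308) (nat_lit 283)))))) (XT.nd (nat_lit 468) (nat_lit 4104) (nat_lit 0) (XT.nd (nat_lit 234) (nat_lit 760) (nat_lit 0) (XT.nd (nat_lit 78) (nat_lit 836) (nat_lit 0) (XT.lf (nat_lit 76) (nat_lit 1432494466) (nat_lit 0) (nat_lit 5279867137) (nat_lit 836) (nat_lit 680330890) (nat_lit 309) (nat_lit 5) (nat_lit 308) (nat_lit 5) (nat_lit 319) (nat_lit 5) (nat_lit 310) (nat_lit 308) (nat_lit 282)) (XT.nd (nat_lit 78) (nat_lit 0) (nat_lit 76) (XT.lf (nat_lit 76) (nat_lit 115143325) (nat_lit 0) (nat_lit 1821899515) (nat_lit 912) (nat_lit 5569069746) (nat_lit 298) (nat_lit 5) (nat_lit 297) (nat_lit 5) (nat_lit 309) (nat_lit 5) (nat_lit 311) (nat_lit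 308) (nat_lit 281)) (XT.lf (nat_lit 0) (nat_lit 4594103160) (nat_lit 836) (nat_lit 1127938992) (nat_lit 912) (nat_lit 1905396267) (nat_lit 298) (nat_lit 5) (nat_lit 309) (nat_lit 5) (nat_lit 310) (nat_lit 5) (nat_lit 312) (nat_lit 308) (nat_lit 280)))) (XT.nd (nat_lit 78) (nat_lit 836) (nat_lit 0) (XT.lf (nat_lit 76) (nat_lit 5442227375) (nat_lit 0) (nat_lit 1863354912) (nat_lit 912) (nat_lit 451718864) (nat_lit 299) (nat_lit 5) (nat_lit 298) (nat_lit 5) (nat_lit 310) (nat_lit 5) (nat_lit 313) (nat_lit 308) (nat_lit 279)) (XT.nd (nat_lit 78) (nat_lit 0) (nat_lit 0) (XT.lf (nat_lit 0) (nat_lit 2147158211) (nat_lit 912) (nat_lit 3476193305) (nat_lit 988) (nat_lit 2271794963) (nat_lit 287) (nat_lit 5) (nat_lit 299) (nat_lit 5) (nat_lit 300) (nat_lit 5) (nat_lit 314) (nat_lit 308) (nat_lit 278)) (XT.lf (nat_lit 76) (nat_lit 3446411346) (nat_lit 0) (nat_lit 1358331253) (nat_lit 988) (nat_lit 3236967673)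 (nat_lit 288) (nat_lit 5) (nat_lit 287) (nat_lit 5) (nat_lit 300) (nat_lit 5) (nat_lit 315) (nat_lit 308) (nat_lit 277))))) (XT.nd (nat_lit 234) (nat_lit 2280) (nat_lit 0) (XT.nd (nat_lit 78) (nat_lit 1900) (nat_lit 0) (XT.lf (nat_lit 76) (nat_lit 2514159615) (nat_lit 0) (nat_lit 5039406059) (nat_lit 988) (nat_lit 643384410) (nat_lit 289) (nat_lit 5) (nat_lit 288) (nat_lit 5) (nat_lit 301) (nat_lit 5) (nat_lit 316) (nat_lit 308) (nat_lit 276)) (XT.nd (nat_lit 78) (nat_lit 912) (nat_lit 0) (XT.lf (nat_lit 76) (nat_lit 1616306750) (nat_lit 0) (nat_lit 372091769) (nat_lit 1064) (nat_lit 6372571564) (nat_lit 276) (nat_lit 5) (nat_lit 275) (nat_lit 5) (nat_lit 289) (nat_lit 5) (nat_lit 317) (nat_lit 308) (nat_lit 275)) (XT.lf (nat_lit 0) (nat_lit 732478812) (nat_lit 988) (nat_lit 3993294427) (nat_lit 1064) (nat_lit 3807694311) (nat_lit 263) (nat_lit 5) (nat_lit 276) (nat_lit 5) (nat_lit 277) (nat_lit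 5) (nat_lit 318) (nat_lit 308) (nat_lit 274)))) (XT.nd (nat_lit 78) (nat_lit 2280) (nat_lit 0) (XT.lf (nat_lit 0) (nat_lit 7565883494) (nat_lit 1064) (nat_lit 101740411) (nat_lit 76) (nat_lit 1048072687) (nat_lit 263) (nat_lit 5) (nat_lit 277) (nat_lit 5) (nat_lit 264) (nat_lit 5) (nat_lit 319) (nat_lit 308) (nat_lit 273)) (XT.nd (nat_lit 78) (nat_lit 1140) (nat_lit 0) (XT.lf (nat_lit 0) (nat_lit 1614392532) (nat_lit 1140) (nat_lit 919554435) (nat_lit 76) (nat_lit 6372529829) (nat_lit 248) (nat_lit 5) (nat_lit 263) (nat_lit 5) (nat_lit 249) (nat_lit 5) (nat_lit 320) (nat_lit 308) (nat_lit 272)) (XT.lf (nat_lit 0) (nat_lit 4485530174) (nat_lit 1216) (nat_lit 1722209632) (nat_lit 76) (nat_lit 2899012457) (nat_lit 233) (nat_lit 5) (nat_lit 249) (nat_lit 5) (nat_lit 234) (nat_lit 5) (nat_lit 321) (nat_lit 308) (nat_lit 271))))))))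
noncomputable def xc64 : XT := (XT.nd (nat_lit 1794) (nat_lit 4256) (nat_lit 0) (XT.nd (nat_lit 858) (nat_lit 4028) (nat_lit 0) (XT.nd (nat_lit 390) (nat_lit 2812) (nat_lit 0) (XT.nd (nat_lit 156) (nat_lit 1748) (nat_lit 0) (XT.nd (nat_lit 78) (nat_lit 684) (nat_lit 0) (XT.lf (nat_lit 0) (nat_lit 6818468377) (nat_lit 1216) (nat_lit 678369691) (nat_lit 1292) (nat_lit 1820374395) (nat_lit 217) (nat_lit 5) (nat_lit 233) (nat_lit 5) (nat_lit 234) (nat_lit 5) (nat_lit 322) (nat_lit 308) (nat_lit 270)) (XT.lf (nat_lit 0) (nat_lit 1126313574) (nat_lit 684) (nat_lit 3286879122) (nat_lit 76) (nat_lit 5123914085) (nat_lit 208) (nat_lit 5) (nat_lit 217) (nat_lit 5) (nat_lit 209) (nat_lit 5) (nat_lit 323) (nat_lit 308) (nat_lit 269))) (XT.nd (nat_lit 78) (nat_lit 1216) (nat_lit 0) (XT.lf (nat_lit 0) (nat_lit 4188496739) (nat_lit 608) (nat_lit 4069817201) (nat_lit 76) (nat_lit 1509027984) (nat_lit 201) (nat_lit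 5) (nat_lit 209) (nat_lit 5) (nat_lit 202) (nat_lit 5) (nat_lit 324) (nat_lit 308) (nat_lit 268)) (XT.nd (nat_lit 78) (nat_lit 608) (nat_lit 0) (XT.lf (nat_lit 0) (nat_lit 5152395764) (nat_lit 608) (nat_lit 2286309236) (nat_lit 684) (nat_lit 2569394515) (nat_lit 193) (nat_lit 5) (nat_lit 201) (nat_lit 5) (nat_lit 202) (nat_lit 5) (nat_lit 325) (nat_lit 308) (nat_lit 267)) (XT.lf (nat_lit 0) (nat_lit 614501600) (nat_lit 608) (nat_lit 5648429689) (nat_lit 76) (nat_lit 3996782303) (nat_lit 185) (nat_lit 5) (nat_lit 193) (nat_lit 5) (nat_lit 186) (nat_lit 5) (nat_lit 326) (nat_lit 308) (nat_lit 266))))) (XT.nd (nat_lit 234) (nat_lit 1292) (nat_lit 0) (XT.nd (nat_lit 78) (nat_lit 988) (nat_lit 0) (XT.lf (nat_lit 0) (nat_lit 3931589488) (nat_lit 608) (nat_lit 6457296027) (nat_lit 76) (nat_lit 133496819) (nat_lit 178) (nat_lit 5) (nat_lit 186) (nat_lit 5) (nat_lit 179) (nat_lit 5) (nat_lit 327) (nat_lit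 308) (nat_lit 265)) (XT.nd (nat_lit 78) (nat_lit 532) (nat_lit 0) (XT.lf (nat_lit 0) (nat_lit 3496416638) (nat_lit 456) (nat_lit 3989555596) (nat_lit 532) (nat_lit 3310117853) (nat_lit 172) (nat_lit 5) (nat_lit 178) (nat_lit 5) (nat_lit 179) (nat_lit 5) (nat_lit 328) (nat_lit 308) (nat_lit 264)) (XT.lf (nat_lit 0) (nat_lit 172859688) (nat_lit 532) (nat_lit 8145890158) (nat_lit 76) (nat_lit 2763512826) (nat_lit 165) (nat_lit 5) (nat_lit 172) (nat_lit 5) (nat_lit 166) (nat_lit 5) (nat_lit 329) (nat_lit 308) (nat_lit 263)))) (XT.nd (nat_lit 78) (nat_lit 836) (nat_lit 0) (XT.lf (nat_lit 0) (nat_lit 2334901574) (nat_lit 456) (nat_lit 1486958798) (nat_lit 532) (nat_lit 7558133295) (nat_lit 159) (nat_lit 5) (nat_lit 165) (nat_lit 5) (nat_lit 166) (nat_lit 5) (nat_lit 330) (nat_lit 308) (nat_lit 262)) (XT.nd (nat_lit 78) (nat_lit 380) (nat_lit 0) (XT.lf (nat_lit 0) (nat_lit 1705604818) (nat_lit 456)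 (nat_lit 6027304787) (nat_lit 532) (nat_lit 3957354570) (nat_lit 153) (nat_lit 5) (nat_lit 159) (nat_lit 5) (nat_lit 160) (nat_lit 5) (nat_lit 331) (nat_lit 308) (nat_lit 261)) (XT.lf (nat_lit 0) (nat_lit 1072439475) (nat_lit 380) (nat_lit 10823550202) (nat_lit 456) (nat_lit 118403147) (nat_lit 148) (nat_lit 5) (nat_lit 153) (nat_lit 5) (nat_lit 154) (nat_lit 5) (nat_lit 332) (nat_lit 308) (nat_lit 260)))))) (XT.nd (nat_lit 468) (nat_lit 1900) (nat_lit 0) (XT.nd (nat_lit 234) (nat_lit 1216) (nat_lit 0) (XT.nd (nat_lit 78) (nat_lit 380) (nat_lit 0) (XT.lf (nat_lit 0) (nat_lit 356559748) (nat_lit 456) (nat_lit 3576030717) (nat_lit 532) (nat_lit 8418151949) (nat_lit 141) (nat_lit 5) (nat_lit 147) (nat_lit 5) (nat_lit 148) (nat_lit 5) (nat_lit 333) (nat_lit 308) (nat_lit 259)) (XT.nd (nat_lit 78) (nat_lit 380) (nat_lit 0) (XT.lf (nat_lit 0) (nat_lit 8267002232) (nat_lit 532) (nat_lit 382635207)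 (nat_lit 76) (nat_lit 4051771675) (nat_lit 141) (nat_lit 5) (nat_lit 148) (nat_lit 5) (nat_lit 142) (nat_lit 5) (nat_lit 334) (nat_lit 308) (nat_lit 258)) (XT.lf (nat_lit 0) (nat_lit 11920608237) (nat_lit 380) (nat_lit 982270665) (nat_lit 456) (nat_lit 164220599) (nat_lit 136) (nat_lit 5) (nat_lit 141) (nat_lit 5) (nat_lit 142) (nat_lit 5) (nat_lit 335) (nat_lit 308) (nat_lit 257)))) (XT.nd (nat_lit 78) (nat_lit 760) (nat_lit 0) (XT.lf (nat_lit 0) (nat_lit 4354700087) (nat_lit 456) (nat_lit 2023120925) (nat_lit 76) (nat_lit 7068452564) (nat_lit 130) (nat_lit 5) (nat_lit 136) (nat_lit 5) (nat_lit 131) (nat_lit 5) (nat_lit 336) (nat_lit 308) (nat_lit 256)) (XT.nd (nat_lit 78) (nat_lit 456) (nat_lit 0) (XT.lf (nat_lit 0) (nat_lit 9177723261) (nat_lit 380) (nat_lit 2940326724) (nat_lit 76) (nat_lit 1723889788) (nat_lit 126) (nat_lit 5) (nat_lit 131) (nat_lit 5) (nat_lit 127) (nat_lit 5) (nat_lit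 337) (nat_lit 308) (nat_lit 255)) (XT.lf (nat_lit 0) (nat_lit 110348999) (nat_lit 456) (nat_lit 3942801075) (nat_lit 76) (nat_lit 10200504132) (nat_lit 120) (nat_lit 5) (nat_lit 126) (nat_lit 5) (nat_lit 121) (nat_lit 5) (nat_lit 338) (nat_lit 308) (nat_lit 254))))) (XT.nd (nat_lit 234) (nat_lit 912) (nat_lit 0) (XT.nd (nat_lit 78) (nat_lit 684) (nat_lit 0) (XT.lf (nat_lit 0) (nat_lit 5136711505) (nat_lit 380) (nat_lit 5066003090) (nat_lit 76) (nat_lit 4478593745) (nat_lit 116) (nat_lit 5) (nat_lit 121) (nat_lit 5) (nat_lit 117) (nat_lit 5) (nat_lit 339) (nat_lit 308) (nat_lit 253)) (XT.nd (nat_lit 78) (nat_lit 380) (nat_lit 0) (XT.lf (nat_lit 0) (nat_lit 8855307149) (nat_lit 304) (nat_lit 1669219693) (nat_lit 380) (nat_lit 4602538434) (nat_lit 112) (nat_lit 5) (nat_lit 116) (nat_lit 5) (nat_lit 117) (nat_lit 5) (nat_lit 340) (nat_lit 308) (nat_lit 252)) (XT.lf (nat_lit 0) (nat_lit 720985184)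 (nat_lit 380) (nat_lit 7607439543) (nat_lit 76) (nat_lit 7262164198) (nat_lit 107) (nat_lit 5) (nat_lit 112) (nat_lit 5) (nat_lit 108) (nat_lit 5) (nat_lit 341) (nat_lit 308) (nat_lit 251)))) (XT.nd (nat_lit 78) (nat_lit 608) (nat_lit 0) (XT.lf (nat_lit 0) (nat_lit 6318517066) (nat_lit 380) (nat_lit 9079190377) (nat_lit 76) (nat_lit 675144889) (nat_lit 103) (nat_lit 5) (nat_lit 108) (nat_lit 5) (nat_lit 104) (nat_lit 5) (nat_lit 342) (nat_lit 308) (nat_lit 250)) (XT.nd (nat_lit 78) (nat_lit 380) (nat_lit 0) (XT.lf (nat_lit 0) (nat_lit 5858614063) (nat_lit 228) (nat_lit 6504543098) (nat_lit 304) (nat_lit 4211075043) (nat_lit 100) (nat_lit 5) (nat_lit 103) (nat_lit 5) (nat_lit 104) (nat_lit 5) (nat_lit 343) (nat_lit 308) (nat_lit 249)) (XT.lf (nat_lit 0) (nat_lit 1694389893) (nat_lit 380) (nat_lit 12493541267) (nat_lit 76) (nat_lit 2908811151) (nat_lit 95) (nat_lit 5) (nat_lit 100) (nat_lit 5)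 (nat_lit 96) (nat_lit 5) (nat_lit 344) (nat_lit 308) (nat_lit 248))))))) (XT.nd (nat_lit 936) (nat_lit 1748) (nat_lit 0) (XT.nd (nat_lit 468) (nat_lit 1140) (nat_lit 0) (XT.nd (nat_lit 234) (nat_lit 760) (nat_lit 0) (XT.nd (nat_lit 78) (nat_lit 380) (nat_lit 0) (XT.lf (nat_lit 0) (nat_lit 3146318211) (nat_lit 228) (nat_lit 4820305174) (nat_lit 304) (nat_lit 9672763946) (nat_lit 92) (nat_lit 5) (nat_lit 95) (nat_lit 5) (nat_lit 96) (nat_lit 5) (nat_lit 345) (nat_lit 308) (nat_lit 247)) (XT.nd (nat_lit 78) (nat_lit 76) (nat_lit 0) (XT.lf (nat_lit 0) (nat_lit 1529617530) (nat_lit 304) (nat_lit 13167538468) (nat_lit 380) (nat_lit 3507684958) (nat_lit 88) (nat_lit 5) (nat_lit 92) (nat_lit 5) (nat_lit 93) (nat_lit 5) (nat_lit 346) (nat_lit 308) (nat_lit 246)) (XT.lf (nat_lit 0) (nat_lit 3060104339) (nat_lit 380) (nat_lit 289923956) (nat_lit 76) (nat_lit 15443129633) (nat_lit 87) (nat_lit 5) (nat_lit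 92) (nat_lit 5) (nat_lit 88) (nat_lit 5) (nat_lit 347) (nat_lit 308) (nat_lit 245)))) (XT.nd (nat_lit 78) (nat_lit 532) (nat_lit 0) (XT.lf (nat_lit 0) (nat_lit 10073078914) (nat_lit 304) (nat_lit 2331093003) (nat_lit 76) (nat_lit 7000011691) (nat_lit 84) (nat_lit 5) (nat_lit 88) (nat_lit 5) (nat_lit 85) (nat_lit 5) (nat_lit 348) (nat_lit 308) (nat_lit 244)) (XT.nd (nat_lit 78) (nat_lit 304) (nat_lit 0) (XT.lf (nat_lit 0) (nat_lit 15463484385) (nat_lit 228) (nat_lit 2115170994) (nat_lit 304) (nat_lit 2462860838) (nat_lit 81) (nat_lit 5) (nat_lit 84) (nat_lit 5) (nat_lit 85) (nat_lit 5) (nat_lit 349) (nat_lit 308) (nat_lit 243)) (XT.lf (nat_lit 0) (nat_lit 4854209938) (nat_lit 304) (nat_lit 7152417394) (nat_lit 76) (nat_lit 8696789415) (nat_lit 77) (nat_lit 5) (nat_lit 81) (nat_lit 5) (nat_lit 78) (nat_lit 5) (nat_lit 350) (nat_lit 308) (nat_lit 242))))) (XT.nd (nat_lit 234) (nat_lit 456) (nat_lit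 0) (XT.nd (nat_lit 78) (nat_lit 456) (nat_lit 0) (XT.lf (nat_lit 0) (nat_lit 11393806854) (nat_lit 228) (nat_lit 1229962445) (nat_lit 304) (nat_lit 8769796878) (nat_lit 74) (nat_lit 5) (nat_lit 77) (nat_lit 5) (nat_lit 78) (nat_lit 5) (nat_lit 351) (nat_lit 308) (nat_lit 241)) (XT.nd (nat_lit 78) (nat_lit 304) (nat_lit 0) (XT.lf (nat_lit 0) (nat_lit 8910944141) (nat_lit 152) (nat_lit 12087559263) (nat_lit 228) (nat_lit 1113230712) (nat_lit 72) (nat_lit 5) (nat_lit 74) (nat_lit 5) (nat_lit 75) (nat_lit 5) (nat_lit 352) (nat_lit 308) (nat_lit 240)) (XT.lf (nat_lit 0) (nat_lit 6087241367) (nat_lit 228) (nat_lit 839292369) (nat_lit 304) (nat_lit 15933224671) (nat_lit 68) (nat_lit 5) (nat_lit 71) (nat_lit 5) (nat_lit 72) (nat_lit 5) (nat_lit 353) (nat_lit 308) (nat_lit 239)))) (XT.nd (nat_lit 78) (nat_lit 304) (nat_lit 0) (XT.lf (nat_lit 0) (nat_lit 2847945476) (nat_lit 152) (nat_lit 12729272902)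 (nat_lit 228) (nat_lit 8060686729) (nat_lit 66) (nat_lit 5) (nat_lit 68) (nat_lit 5) (nat_lit 69) (nat_lit 5) (nat_lit 354) (nat_lit 308) (nat_lit 238)) (XT.nd (nat_lit 78) (nat_lit 228) (nat_lit 0) (XT.lf (nat_lit 0) (nat_lit 346823469) (nat_lit 228) (nat_lit 724936520) (nat_lit 76) (nat_lit 23378788972) (nat_lit 65) (nat_lit 5) (nat_lit 68) (nat_lit 5) (nat_lit 66) (nat_lit 5) (nat_lit 355) (nat_lit 308) (nat_lit 237)) (XT.lf (nat_lit 0) (nat_lit 9281805036) (nat_lit 304) (nat_lit 4802308402) (nat_lit 76) (nat_lit 11209112471) (nat_lit 62) (nat_lit 5) (nat_lit 66) (nat_lit 5) (nat_lit 63) (nat_lit 5) (nat_lit 356) (nat_lit 308) (nat_lit 236)))))) (XT.nd (nat_lit 468) (nat_lit 836) (nat_lit 0) (XT.nd (nat_lit 234) (nat_lit 380) (nat_lit 0) (XT.nd (nat_lit 78) (nat_lit 380) (nat_lit 0) (XT.lf (nat_lit 0) (nat_lit 16864055176) (nat_lit 152) (nat_lit 1945156089) (nat_lit 228) (nat_lit 7364463991)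 (nat_lit 60) (nat_lit 5) (nat_lit 62) (nat_lit 5) (nat_lit 63) (nat_lit 5) (nat_lit 357) (nat_lit 308) (nat_lit 235)) (XT.nd (nat_lit 78) (nat_lit 152) (nat_lit 0) (XT.lf (nat_lit 0) (nat_lit 1925713200) (nat_lit 228) (nat_lit 14406915376) (nat_lit 76) (nat_lit 10757702071) (nat_lit 57) (nat_lit 5) (nat_lit 60) (nat_lit 5) (nat_lit 58) (nat_lit 5) (nat_lit 358) (nat_lit 308) (nat_lit 234)) (XT.lf (nat_lit 0) (nat_lit 7923267545) (nat_lit 152) (nat_lit 3765649300) (nat_lit 228) (nat_lit 16356897484) (nat_lit 55) (nat_lit 5) (nat_lit 57) (nat_lit 5) (nat_lit 58) (nat_lit 5) (nat_lit 359) (nat_lit 308) (nat_lit 233)))) (XT.nd (nat_lit 78) (nat_lit 228) (nat_lit 0) (XT.lf (nat_lit 0) (nat_lit 2527362652) (nat_lit 152) (nat_lit 19645283415) (nat_lit 228) (nat_lit 6869462563) (nat_lit 53) (nat_lit 5) (nat_lit 55) (nat_lit 5) (nat_lit 56) (nat_lit 5) (nat_lit 360) (nat_lit 308) (nat_lit 232)) (XT.nd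 (nat_lit 78) (nat_lit 152) (nat_lit 0) (XT.lf (nat_lit 0) (nat_lit 3247553976) (nat_lit 228) (nat_lit 3476784183) (nat_lit 76) (nat_lit 23356527982) (nat_lit 52) (nat_lit 5) (nat_lit 55) (nat_lit 5) (nat_lit 53) (nat_lit 5) (nat_lit 361) (nat_lit 308) (nat_lit 231)) (XT.lf (nat_lit 0) (nat_lit 13969646755) (nat_lit 228) (nat_lit 10231671613) (nat_lit 76) (nat_lit 6960970346) (nat_lit 50) (nat_lit 5) (nat_lit 53) (nat_lit 5) (nat_lit 51) (nat_lit 5) (nat_lit 362) (nat_lit 308) (nat_lit 230))))) (XT.nd (nat_lit 234) (nat_lit 456) (nat_lit 0) (XT.nd (nat_lit 78) (nat_lit 228) (nat_lit 0) (XT.lf (nat_lit 0) (nat_lit 14497204957) (nat_lit 152) (nat_lit 10944600884) (nat_lit 228) (nat_lit 6849563928) (nat_lit 48) (nat_lit 5) (nat_lit 50) (nat_lit 5) (nat_lit 51) (nat_lit 5) (nat_lit 363) (nat_lit 308) (nat_lit 229)) (XT.nd (nat_lit 78) (nat_lit 0) (nat_lit 0) (XT.lf (nat_lit 0) (nat_lit 4110229988)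 (nat_lit 228) (nat_lit 26248194290) (nat_lit 76) (nat_lit 3111995008) (nat_lit 45) (nat_lit 5) (nat_lit 48) (nat_lit 5) (nat_lit 46) (nat_lit 5) (nat_lit 364) (nat_lit 308) (nat_lit 228)) (XT.lf (nat_lit 0) (nat_lit 15745033936) (nat_lit 228) (nat_lit 1073127635) (nat_lit 76) (nat_lit 17880170251) (nat_lit 45) (nat_lit 5) (nat_lit 48) (nat_lit 5) (nat_lit 46) (nat_lit 5) (nat_lit 365) (nat_lit 308) (nat_lit 227)))) (XT.nd (nat_lit 78) (nat_lit 304) (nat_lit 0) (XT.lf (nat_lit 0) (nat_lit 25816787836) (nat_lit 152) (nat_lit 2366202366) (nat_lit 228) (nat_lit 7798012624) (nat_lit 43) (nat_lit 5) (nat_lit 45) (nat_lit 5) (nat_lit 46) (nat_lit 5) (nat_lit 366) (nat_lit 308) (nat_lit 226)) (XT.nd (nat_lit 78) (nat_lit 152) (nat_lit 0) (XT.lf (nat_lit 0) (nat_lit 4111981565) (nat_lit 152) (nat_lit 20454096442) (nat_lit 76) (nat_lit 12752404938) (nat_lit 41) (nat_lit 5) (nat_lit 43) (nat_lit 5) (nat_lit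 42) (nat_lit 5) (nat_lit 367) (nat_lit 308) (nat_lit 225)) (XT.lf (nat_lit 0) (nat_lit 6718527001) (nat_lit 152) (nat_lit 9907734460) (nat_lit 228) (nat_lit 22089162121) (nat_lit 39) (nat_lit 5) (nat_lit 41) (nat_lit 5) (nat_lit 42) (nat_lit 5) (nat_lit 368) (nat_lit 308) (nat_lit 224))))))))
noncomputable def xc65 : XT := (XT.nd (nat_lit 1794) (nat_lit 152) (nat_lit 0) (XT.nd (nat_lit 858) (nat_lit 684) (nat_lit 0) (XT.nd (nat_lit 390) (nat_lit 608) (nat_lit 0) (XT.nd (nat_lit 156) (nat_lit 228) (nat_lit 0) (XT.nd (nat_lit 78) (nat_lit 152) (nat_lit 0) (XT.lf (nat_lit 0) (nat_lit 30006632364) (nat_lit 228) (nat_lit 4598785461) (nat_lit 76) (nat_lit 5569586481) (nat_lit 39) (nat_lit 5) (nat_lit 42) (nat_lit 5) (nat_lit 40) (nat_lit 4) (nat_lit 369) (nat_lit 308) (nat_lit 223)) (XT.lf (nat_lit 0) (nat_lit 2617478271) (nat_lit 152) (nat_lit 17219630442) (nat_lit 76) (nat_lit 21860336721) (nat_lit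 37) (nat_lit 5) (nat_lit 39) (nat_lit 5) (nat_lit 38) (nat_lit 5) (nat_lit 370) (nat_lit 308) (nat_lit 222))) (XT.nd (nat_lit 78) (nat_lit 76) (nat_lit 0) (XT.lf (nat_lit 0) (nat_lit 11896419363) (nat_lit 152) (nat_lit 4076735152) (nat_lit 228) (nat_lit 27315612705) (nat_lit 35) (nat_lit 5) (nat_lit 37) (nat_lit 5) (nat_lit 38) (nat_lit 5) (nat_lit 371) (nat_lit 308) (nat_lit 221)) (XT.nd (nat_lit 78) (nat_lit 76) (nat_lit 0) (XT.lf (nat_lit 0) (nat_lit 30272761653) (nat_lit 228) (nat_lit 2289533858) (nat_lit 76) (nat_lit 12389078832) (nat_lit 35) (nat_lit 5) (nat_lit 38) (nat_lit 5) (nat_lit 36) (nat_lit 4) (nat_lit 372) (nat_lit 308) (nat_lit 220)) (XT.lf (nat_lit 0) (nat_lit 28748578223) (nat_lit 76) (nat_lit 16834596769) (nat_lit 152) (nat_lit 1105065540) (nat_lit 34) (nat_lit 5) (nat_lit 35) (nat_lit 5) (nat_lit 36) (nat_lit 4) (nat_lit 373) (nat_lit 308) (nat_lit 219))))) (XT.nd (nat_lit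 234) (nat_lit 304) (nat_lit 0) (XT.nd (nat_lit 78) (nat_lit 76) (nat_lit 0) (XT.lf (nat_lit 0) (nat_lit 12962560333) (nat_lit 152) (nat_lit 55235940) (nat_lit 228) (nat_lit 35486550052) (nat_lit 31) (nat_lit 5) (nat_lit 33) (nat_lit 5) (nat_lit 34) (nat_lit 5) (nat_lit 374) (nat_lit 308) (nat_lit 218)) (XT.nd (nat_lit 78) (nat_lit 76) (nat_lit 0) (XT.lf (nat_lit 0) (nat_lit 28158747906) (nat_lit 228) (nat_lit 4841054808) (nat_lit 76) (nat_lit 17401085491) (nat_lit 31) (nat_lit 5) (nat_lit 34) (nat_lit 5) (nat_lit 32) (nat_lit 4) (nat_lit 375) (nat_lit 308) (nat_lit 217)) (XT.lf (nat_lit 0) (nat_lit 27902142394) (nat_lit 76) (nat_lit 16403622404) (nat_lit 152) (nat_lit 8079024773) (nat_lit 30) (nat_lit 5) (nat_lit 31) (nat_lit 5) (nat_lit 32) (nat_lit 4) (nat_lit 376) (nat_lit 308) (nat_lit 216)))) (XT.nd (nat_lit 78) (nat_lit 76) (nat_lit 0) (XT.lf (nat_lit 0) (nat_lit 6778885126) (nat_lit 228)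 (nat_lit 46503065913) (nat_lit 76) (nat_lit 1180403538) (nat_lit 27) (nat_lit 5) (nat_lit 30) (nat_lit 5) (nat_lit 28) (nat_lit 4) (nat_lit 377) (nat_lit 308) (nat_lit 215)) (XT.nd (nat_lit 78) (nat_lit 76) (nat_lit 0) (XT.lf (nat_lit 0) (nat_lit 22615333157) (nat_lit 228) (nat_lit 14386115388) (nat_lit 76) (nat_lit 19627870274) (nat_lit 27) (nat_lit 5) (nat_lit 30) (nat_lit 5) (nat_lit 28) (nat_lit 4) (nat_lit 378) (nat_lit 308) (nat_lit 214)) (XT.lf (nat_lit 0) (nat_lit 19687319481) (nat_lit 76) (nat_lit 19727518997) (nat_lit 152) (nat_lit 19484658201) (nat_lit 26) (nat_lit 5) (nat_lit 27) (nat_lit 5) (nat_lit 28) (nat_lit 4) (nat_lit 379) (nat_lit 308) (nat_lit 213)))))) (XT.nd (nat_lit 468) (nat_lit 304) (nat_lit 0) (XT.nd (nat_lit 234) (nat_lit 152) (nat_lit 0) (XT.nd (nat_lit 78) (nat_lit 228) (nat_lit 0) (XT.lf (nat_lit 0) (nat_lit 55732481136) (nat_lit 76) (nat_lit 1452463216) (nat_lit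 152) (nat_lit 4094322656) (nat_lit 26) (nat_lit 5) (nat_lit 27) (nat_lit 5) (nat_lit 28) (nat_lit 4) (nat_lit 380) (nat_lit 308) (nat_lit 212)) (XT.nd (nat_lit 78) (nat_lit 76) (nat_lit 0) (XT.lf (nat_lit 0) (nat_lit 12278395804) (nat_lit 152) (nat_lit 33695991019) (nat_lit 76) (nat_lit 17786712509) (nat_lit 24) (nat_lit 5) (nat_lit 26) (nat_lit 5) (nat_lit 25) (nat_lit 4) (nat_lit 381) (nat_lit 308) (nat_lit 211)) (XT.lf (nat_lit 0) (nat_lit 1143141007) (nat_lit 76) (nat_lit 28309601648) (nat_lit 152) (nat_lit 36911036457) (nat_lit 23) (nat_lit 5) (nat_lit 24) (nat_lit 5) (nat_lit 25) (nat_lit 4) (nat_lit 382) (nat_lit 308) (nat_lit 210)))) (XT.nd (nat_lit 78) (nat_lit 152) (nat_lit 0) (XT.lf (nat_lit 0) (nat_lit 38398446191) (nat_lit 76) (nat_lit 9418294834) (nat_lit 152) (nat_lit 21269925789) (nat_lit 23) (nat_lit 5) (nat_lit 24) (nat_lit 5) (nat_lit 25) (nat_lit 4) (nat_lit 383) (nat_lit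 308) (nat_lit 209)) (XT.nd (nat_lit 78) (nat_lit 76) (nat_lit 0) (XT.lf (nat_lit 0) (nat_lit 5550146597) (nat_lit 76) (nat_lit 61686978683) (nat_lit 76) (nat_lit 4704429906) (nat_lit 22) (nat_lit 4) (nat_lit 23) (nat_lit 5) (nat_lit 23) (nat_lit 4) (nat_lit 384) (nat_lit 308) (nat_lit 208)) (XT.lf (nat_lit 0) (nat_lit 12840828429) (nat_lit 152) (nat_lit 30936459620) (nat_lit 76) (nat_lit 31146269250) (nat_lit 21) (nat_lit 5) (nat_lit 23) (nat_lit 5) (nat_lit 22) (nat_lit 4) (nat_lit 385) (nat_lit 308) (nat_lit 207))))) (XT.nd (nat_lit 234) (nat_lit 152) (nat_lit 0) (XT.nd (nat_lit 78) (nat_lit 76) (nat_lit 0) (XT.lf (nat_lit 0) (nat_lit 6340520257) (nat_lit 76) (nat_lit 24873107340) (nat_lit 152) (nat_lit 46838209025) (nat_lit 20) (nat_lit 5) (nat_lit 21) (nat_lit 5) (nat_lit 22) (nat_lit 4) (nat_lit 386) (nat_lit 308) (nat_lit 206)) (XT.nd (nat_lit 78) (nat_lit 76) (nat_lit 0) (XT.lf (nat_lit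 0) (nat_lit 46101642971) (nat_lit 76) (nat_lit 4708034958) (nat_lit 152) (nat_lit 30517715209) (nat_lit 20) (nat_lit 5) (nat_lit 21) (nat_lit 5) (nat_lit 22) (nat_lit 4) (nat_lit 387) (nat_lit 308) (nat_lit 205)) (XT.lf (nat_lit 0) (nat_lit 2958322910) (nat_lit 76) (nat_lit 68600613891) (nat_lit 76) (nat_lit 13202589989) (nat_lit 19) (nat_lit 4) (nat_lit 20) (nat_lit 5) (nat_lit 20) (nat_lit 4) (nat_lit 388) (nat_lit 308) (nat_lit 204)))) (XT.nd (nat_lit 78) (nat_lit 76) (nat_lit 0) (XT.lf (nat_lit 0) (nat_lit 5281837977) (nat_lit 152) (nat_lit 44692500658) (nat_lit 76) (nat_lit 38379573508) (nat_lit 18) (nat_lit 5) (nat_lit 20) (nat_lit 5) (nat_lit 19) (nat_lit 4) (nat_lit 389) (nat_lit 308) (nat_lit 203)) (XT.nd (nat_lit 78) (nat_lit 76) (nat_lit 0) (XT.lf (nat_lit 0) (nat_lit 24407559805) (nat_lit 152) (nat_lit 5883102350) (nat_lit 76) (nat_lit 61831630691) (nat_lit 18) (nat_lit 5) (nat_lit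 20) (nat_lit 5) (nat_lit 19) (nat_lit 4) (nat_lit 390) (nat_lit 308) (nat_lit 202)) (XT.lf (nat_lit 0) (nat_lit 35537775750) (nat_lit 76) (nat_lit 9281578100) (nat_lit 152) (nat_lit 51249846400) (nat_lit 17) (nat_lit 5) (nat_lit 18) (nat_lit 5) (nat_lit 19) (nat_lit 4) (nat_lit 391) (nat_lit 308) (nat_lit 201))))))) (XT.nd (nat_lit 41184) (nat_lit 0) (nat_lit 11400) (XT.nd (nat_lit 40716) (nat_lit 0) (nat_lit 19684) (XT.nd (nat_lit 40482) (nat_lit 0) (nat_lit 21356) (XT.nd (nat_lit 156) (nat_lit 152) (nat_lit 0) (XT.lf (nat_lit 0) (nat_lit 66424157346) (nat_lit 152) (nat_lit 21204490280) (nat_lit 0) (nat_lit 12579633994) (nat_lit 17) (nat_lit 5) (nat_lit 19) (nat_lit 4) (nat_lit 17) (nat_lit 4) (nat_lit 392) (nat_lit 308) (nat_lit 200)) (XT.nd (nat_lit 40248) (nat_lit 0) (nat_lit 22192) (XT.lf (nat_lit 0) (nat_lit 4522670184) (nat_lit 152) (nat_lit 44689401913) (nat_lit 76) (nat_lit 59880900786)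 (nat_lit 15) (nat_lit 5) (nat_lit 17) (nat_lit 5) (nat_lit 16) (nat_lit 4) (nat_lit 394) (nat_lit 308) (nat_lit 198)) (XT.lf (nat_lit 0) (nat_lit 3273036826) (nat_lit 836) (nat_lit 210652551) (nat_lit 836) (nat_lit 210652551) (nat_lit 307) (nat_lit 3) (nat_lit 318) (nat_lit 3) (nat_lit 318) (nat_lit 5) (nat_lit 309) (nat_lit 309) (nat_lit 282)))) (XT.nd (nat_lit 78) (nat_lit 0) (nat_lit 76) (XT.lf (nat_lit 0) (nat_lit 1634581011) (nat_lit 836) (nat_lit 1964941628) (nat_lit 912) (nat_lit 3897756604) (nat_lit 296) (nat_lit 5) (nat_lit 307) (nat_lit 3) (nat_lit 308) (nat_lit 5) (nat_lit 310) (nat_lit 309) (nat_lit 281)) (XT.nd (nat_lit 78) (nat_lit 0) (nat_lit 0) (XT.lf (nat_lit 0) (nat_lit 4107264779) (nat_lit 836) (nat_lit 3445067410) (nat_lit 912) (nat_lit 62173607) (nat_lit 297) (nat_lit 5) (nat_lit 308) (nat_lit 5) (nat_lit 309) (nat_lit 5) (nat_lit 311) (nat_lit 309) (nat_lit 280)) (XT.lf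 (nat_lit 76) (nat_lit 2846732991) (nat_lit 0) (nat_lit 3792100288) (nat_lit 912) (nat_lit 1100820462) (nat_lit 298) (nat_lit 5) (nat_lit 297) (nat_lit 5) (nat_lit 309) (nat_lit 5) (nat_lit 312) (nat_lit 309) (nat_lit 279))))) (XT.nd (nat_lit 234) (nat_lit 912) (nat_lit 0) (XT.nd (nat_lit 78) (nat_lit 0) (nat_lit 0) (XT.lf (nat_lit 0) (nat_lit 1307714584) (nat_lit 912) (nat_lit 6291636732) (nat_lit 988) (nat_lit 274116733) (nat_lit 286) (nat_lit 5) (nat_lit 298) (nat_lit 5) (nat_lit 299) (nat_lit 5) (nat_lit 313) (nat_lit 309) (nat_lit 278)) (XT.nd (nat_lit 78) (nat_lit 0) (nat_lit 76) (XT.lf (nat_lit 76) (nat_lit 337165773) (nat_lit 0) (nat_lit 3431779996) (nat_lit 988) (nat_lit 4246152788) (nat_lit 287) (nat_lit 5) (nat_lit 286) (nat_lit 5) (nat_lit 299) (nat_lit 5) (nat_lit 314) (nat_lit 309) (nat_lit 277)) (XT.lf (nat_lit 0) (nat_lit 6296308222) (nat_lit 912) (nat_lit 834250699) (nat_lit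 988) (nat_lit 1035058191) (nat_lit 287) (nat_lit 5) (nat_lit 299) (nat_lit 5) (nat_lit 300) (nat_lit 5) (nat_lit 315) (nat_lit 309) (nat_lit 276)))) (XT.nd (nat_lit 78) (nat_lit 0) (nat_lit 76) (XT.lf (nat_lit 0) (nat_lit 584328347) (nat_lit 988) (nat_lit 1976596280) (nat_lit 1064) (nat_lit 5763542294) (nat_lit 274) (nat_lit 5) (nat_lit 287) (nat_lit 5) (nat_lit 288) (nat_lit 5) (nat_lit 316) (nat_lit 309) (nat_lit 275)) (XT.nd (nat_lit 78) (nat_lit 0) (nat_lit 0) (XT.lf (nat_lit 0) (nat_lit 3084406666) (nat_lit 988) (nat_lit 3100166114) (nat_lit 1064) (nat_lit 2307345457) (nat_lit 275) (nat_lit 5) (nat_lit 288) (nat_lit 5) (nat_lit 289) (nat_lit 5) (nat_lit 317) (nat_lit 309) (nat_lit 274)) (XT.lf (nat_lit 76) (nat_lit 4475403065) (nat_lit 0) (nat_lit 1207481738) (nat_lit 1064) (nat_lit 2985738144) (nat_lit 276) (nat_lit 5) (nat_lit 275) (nat_lit 5) (nat_lit 289) (nat_lit 5) (nat_lit 318) (nat_lit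 309) (nat_lit 273)))))) (XT.nd (nat_lit 468) (nat_lit 3268) (nat_lit 0) (XT.nd (nat_lit 234) (nat_lit 1900) (nat_lit 0) (XT.nd (nat_lit 78) (nat_lit 2280) (nat_lit 0) (XT.lf (nat_lit 0) (nat_lit 3582602415) (nat_lit 988) (nat_lit 4822899725) (nat_lit 1064) (nat_lit 448913058) (nat_lit 263) (nat_lit 5) (nat_lit 276) (nat_lit 5) (nat_lit 277) (nat_lit 5) (nat_lit 319) (nat_lit 309) (nat_lit 272)) (XT.nd (nat_lit 78) (nat_lit 1140) (nat_lit 0) (XT.lf (nat_lit 0) (nat_lit 2151156255) (nat_lit 1140) (nat_lit 6338790369) (nat_lit 76) (nat_lit 559595958) (nat_lit 248) (nat_lit 5) (nat_lit 263) (nat_lit 5) (nat_lit 249) (nat_lit 5) (nat_lit 320) (nat_lit 309) (nat_lit 271)) (XT.lf (nat_lit 0) (nat_lit 1841895834) (nat_lit 1140) (nat_lit 3048025432) (nat_lit 1216) (nat_lit 4363901796) (nat_lit 233) (nat_lit 5) (nat_lit 248) (nat_lit 5) (nat_lit 249) (nat_lit 5) (nat_lit 321) (nat_lit 309) (nat_lit 270))))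 (XT.nd (nat_lit 78) (nat_lit 684) (nat_lit 0) (XT.lf (nat_lit 0) (nat_lit 1000280436) (nat_lit 1216) (nat_lit 6767374970) (nat_lit 1292) (nat_lit 1700667293) (nat_lit 217) (nat_lit 5) (nat_lit 233) (nat_lit 5) (nat_lit 234) (nat_lit 5) (nat_lit 322) (nat_lit 309) (nat_lit 269)) (XT.nd (nat_lit 78) (nat_lit 0) (nat_lit 0) (XT.lf (nat_lit 0) (nat_lit 167890150) (nat_lit 608) (nat_lit 919648458) (nat_lit 684) (nat_lit 8605358068) (nat_lit 208) (nat_lit 5) (nat_lit 216) (nat_lit 5) (nat_lit 217) (nat_lit 5) (nat_lit 323) (nat_lit 309) (nat_lit 268)) (XT.lf (nat_lit 0) (nat_lit 4026074329) (nat_lit 684) (nat_lit 672079227) (nat_lit 76) (nat_lit 5228716062) (nat_lit 208) (nat_lit 5) (nat_lit 217) (nat_lit 5) (nat_lit 209) (nat_lit 5) (nat_lit 324) (nat_lit 309) (nat_lit 267))))) (XT.nd (nat_lit 234) (nat_lit 1520) (nat_lit 0) (XT.nd (nat_lit 78) (nat_lit 1216) (nat_lit 0) (XT.lf (nat_lit 0) (nat_lit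 7131581812) (nat_lit 608) (nat_lit 1489772350) (nat_lit 76) (nat_lit 1550641096) (nat_lit 201) (nat_lit 5) (nat_lit 209) (nat_lit 5) (nat_lit 202) (nat_lit 5) (nat_lit 325) (nat_lit 309) (nat_lit 266)) (XT.nd (nat_lit 78) (nat_lit 532) (nat_lit 0) (XT.lf (nat_lit 0) (nat_lit 11882370) (nat_lit 684) (nat_lit 2314352123) (nat_lit 76) (nat_lit 8101759411) (nat_lit 192) (nat_lit 5) (nat_lit 201) (nat_lit 5) (nat_lit 193) (nat_lit 5) (nat_lit 326) (nat_lit 309) (nat_lit 265)) (XT.lf (nat_lit 0) (nat_lit 3202733688) (nat_lit 608) (nat_lit 3174701467) (nat_lit 76) (nat_lit 4317038386) (nat_lit 185) (nat_lit 5) (nat_lit 193) (nat_lit 5) (nat_lit 186) (nat_lit 5) (nat_lit 327) (nat_lit 309) (nat_lit 264)))) (XT.nd (nat_lit 78) (nat_lit 988) (nat_lit 0) (XT.lf (nat_lit 0) (nat_lit 6591697624) (nat_lit 608) (nat_lit 4029816217) (nat_lit 76) (nat_lit 351652683) (nat_lit 178) (nat_lit 5) (nat_lit 186) (nat_lit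 5) (nat_lit 179) (nat_lit 5) (nat_lit 328) (nat_lit 309) (nat_lit 263)) (XT.nd (nat_lit 78) (nat_lit 532) (nat_lit 0) (XT.lf (nat_lit 0) (nat_lit 6342744006) (nat_lit 456) (nat_lit 3889424768) (nat_lit 532) (nat_lit 1031207864) (nat_lit 172) (nat_lit 5) (nat_lit 178) (nat_lit 5) (nat_lit 179) (nat_lit 5) (nat_lit 329) (nat_lit 309) (nat_lit 262)) (XT.lf (nat_lit 0) (nat_lit 2492707533) (nat_lit 532) (nat_lit 5843358593) (nat_lit 76) (nat_lit 3229715081) (nat_lit 165) (nat_lit 5) (nat_lit 172) (nat_lit 5) (nat_lit 166) (nat_lit 5) (nat_lit 330) (nat_lit 309) (nat_lit 261))))))))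
noncomputable def xc66 : XT := (XT.nd (nat_lit 1794) (nat_lit 3116) (nat_lit 0) (XT.nd (nat_lit 858) (nat_lit 3116) (nat_lit 0) (XT.nd (nat_lit 390) (nat_lit 1824) (nat_lit 0) (XT.nd (nat_lit 156) (nat_lit 1292) (nat_lit 0) (XT.nd (nat_lit 78) (nat_lit 456) (nat_lit 0) (XT.lf (nat_lit 0) (nat_lit 5083796105) (nat_lit 456) (nat_lit 1155606603) (nat_lit 532) (nat_lit 5641598637) (nat_lit 159) (nat_lit 5) (nat_lit 165) (nat_lit 5) (nat_lit 166) (nat_lit 5) (nat_lit 331) (nat_lit 309) (nat_lit 260)) (XT.lf (nat_lit 0) (nat_lit 4409839454) (nat_lit 456) (nat_lit 5859032675) (nat_lit 532) (nat_lit 1940284289) (nat_lit 153) (nat_lit 5) (nat_lit 159) (nat_lit 5) (nat_lit 160) (nat_lit 5) (nat_lit 332) (nat_lit 309) (nat_lit 259))) (XT.nd (nat_lit 78) (nat_lit 836) (nat_lit 0) (XT.lf (nat_lit 0) (nat_lit 1976017915) (nat_lit 456) (nat_lit 8841810374) (nat_lit 76) (nat_lit 1733327136) (nat_lit 147) (nat_lit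 5) (nat_lit 153) (nat_lit 5) (nat_lit 148) (nat_lit 5) (nat_lit 333) (nat_lit 309) (nat_lit 258)) (XT.nd (nat_lit 78) (nat_lit 380) (nat_lit 0) (XT.lf (nat_lit 0) (nat_lit 2944584942) (nat_lit 456) (nat_lit 3207355854) (nat_lit 532) (nat_lit 6754651938) (nat_lit 141) (nat_lit 5) (nat_lit 147) (nat_lit 5) (nat_lit 148) (nat_lit 5) (nat_lit 334) (nat_lit 309) (nat_lit 257)) (XT.lf (nat_lit 0) (nat_lit 2141566837) (nat_lit 380) (nat_lit 8490784400) (nat_lit 456) (nat_lit 2644611055) (nat_lit 136) (nat_lit 5) (nat_lit 141) (nat_lit 5) (nat_lit 142) (nat_lit 5) (nat_lit 335) (nat_lit 309) (nat_lit 256))))) (XT.nd (nat_lit 234) (nat_lit 1064) (nat_lit 0) (XT.nd (nat_lit 78) (nat_lit 304) (nat_lit 0) (XT.lf (nat_lit 0) (nat_lit 1291219244) (nat_lit 380) (nat_lit 434261245) (nat_lit 456) (nat_lit 11937302122) (nat_lit 130) (nat_lit 5) (nat_lit 135) (nat_lit 5) (nat_lit 136) (nat_lit 5) (nat_lit 336)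 (nat_lit 309) (nat_lit 255)) (XT.nd (nat_lit 78) (nat_lit 0) (nat_lit 0) (XT.lf (nat_lit 0) (nat_lit 329296420) (nat_lit 304) (nat_lit 6067452867) (nat_lit 380) (nat_lit 7666265523) (nat_lit 126) (nat_lit 5) (nat_lit 130) (nat_lit 5) (nat_lit 131) (nat_lit 5) (nat_lit 337) (nat_lit 309) (nat_lit 254)) (XT.lf (nat_lit 0) (nat_lit 11399843201) (nat_lit 380) (nat_lit 662778416) (nat_lit 76) (nat_lit 2417715256) (nat_lit 126) (nat_lit 5) (nat_lit 131) (nat_lit 5) (nat_lit 127) (nat_lit 5) (nat_lit 338) (nat_lit 309) (nat_lit 253)))) (XT.nd (nat_lit 78) (nat_lit 608) (nat_lit 0) (XT.lf (nat_lit 0) (nat_lit 1835375340) (nat_lit 456) (nat_lit 1749912174) (nat_lit 76) (nat_lit 11328721765) (nat_lit 120) (nat_lit 5) (nat_lit 126) (nat_lit 5) (nat_lit 121) (nat_lit 5) (nat_lit 339) (nat_lit 309) (nat_lit 252)) (XT.nd (nat_lit 78) (nat_lit 304) (nat_lit 0) (XT.lf (nat_lit 0) (nat_lit 7059849931) (nat_lit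 380) (nat_lit 2953638139) (nat_lit 76) (nat_lit 5351189581) (nat_lit 116) (nat_lit 5) (nat_lit 121) (nat_lit 5) (nat_lit 117) (nat_lit 5) (nat_lit 340) (nat_lit 309) (nat_lit 251)) (XT.lf (nat_lit 0) (nat_lit 11595926296) (nat_lit 304) (nat_lit 1063870360) (nat_lit 380) (nat_lit 3174677227) (nat_lit 112) (nat_lit 5) (nat_lit 116) (nat_lit 5) (nat_lit 117) (nat_lit 5) (nat_lit 341) (nat_lit 309) (nat_lit 250)))))) (XT.nd (nat_lit 468) (nat_lit 1292) (nat_lit 0) (XT.nd (nat_lit 234) (nat_lit 912) (nat_lit 0) (XT.nd (nat_lit 78) (nat_lit 532) (nat_lit 0) (XT.lf (nat_lit 0) (nat_lit 2333693208) (nat_lit 380) (nat_lit 5682713837) (nat_lit 76) (nat_lit 8305788952) (nat_lit 107) (nat_lit 5) (nat_lit 112) (nat_lit 5) (nat_lit 108) (nat_lit 5) (nat_lit 342) (nat_lit 309) (nat_lit 249)) (XT.nd (nat_lit 78) (nat_lit 228) (nat_lit 0) (XT.lf (nat_lit 0) (nat_lit 8164427410) (nat_lit 380) (nat_lit 7254723194)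 (nat_lit 76) (nat_lit 1410851847) (nat_lit 103) (nat_lit 5) (nat_lit 108) (nat_lit 5) (nat_lit 104) (nat_lit 5) (nat_lit 343) (nat_lit 309) (nat_lit 248)) (XT.lf (nat_lit 0) (nat_lit 8364660823) (nat_lit 228) (nat_lit 6095056107) (nat_lit 304) (nat_lit 2898310101) (nat_lit 100) (nat_lit 5) (nat_lit 103) (nat_lit 5) (nat_lit 104) (nat_lit 5) (nat_lit 344) (nat_lit 309) (nat_lit 247)))) (XT.nd (nat_lit 78) (nat_lit 532) (nat_lit 0) (XT.lf (nat_lit 0) (nat_lit 3229597524) (nat_lit 380) (nat_lit 10902381897) (nat_lit 76) (nat_lit 3775563193) (nat_lit 95) (nat_lit 5) (nat_lit 100) (nat_lit 5) (nat_lit 96) (nat_lit 5) (nat_lit 345) (nat_lit 309) (nat_lit 246)) (XT.nd (nat_lit 78) (nat_lit 304) (nat_lit 0) (XT.lf (nat_lit 0) (nat_lit 5455954048) (nat_lit 228) (nat_lit 4311107194) (nat_lit 304) (nat_lit 8711734951) (nat_lit 92) (nat_lit 5) (nat_lit 95) (nat_lit 5) (nat_lit 96) (nat_lit 5) (nat_lit 346)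 (nat_lit 309) (nat_lit 245)) (XT.lf (nat_lit 0) (nat_lit 3731058239) (nat_lit 304) (nat_lit 13063589780) (nat_lit 380) (nat_lit 2279082337) (nat_lit 88) (nat_lit 5) (nat_lit 92) (nat_lit 5) (nat_lit 93) (nat_lit 5) (nat_lit 347) (nat_lit 309) (nat_lit 244))))) (XT.nd (nat_lit 234) (nat_lit 760) (nat_lit 0) (XT.nd (nat_lit 78) (nat_lit 228) (nat_lit 0) (XT.lf (nat_lit 0) (nat_lit 1780627735) (nat_lit 228) (nat_lit 2760636426) (nat_lit 304) (nat_lit 15151269094) (nat_lit 84) (nat_lit 5) (nat_lit 87) (nat_lit 5) (nat_lit 88) (nat_lit 5) (nat_lit 348) (nat_lit 309) (nat_lit 243)) (XT.nd (nat_lit 78) (nat_lit 228) (nat_lit 0) (XT.lf (nat_lit 0) (nat_lit 11851441800) (nat_lit 304) (nat_lit 424625480) (nat_lit 76) (nat_lit 8059667163) (nat_lit 84) (nat_lit 5) (nat_lit 88) (nat_lit 5) (nat_lit 85) (nat_lit 5) (nat_lit 349) (nat_lit 309) (nat_lit 242)) (XT.lf (nat_lit 0) (nat_lit 18201691253) (nat_lit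 228) (nat_lit 1488794506) (nat_lit 304) (nat_lit 1315722123) (nat_lit 81) (nat_lit 5) (nat_lit 84) (nat_lit 5) (nat_lit 85) (nat_lit 5) (nat_lit 350) (nat_lit 309) (nat_lit 241)))) (XT.nd (nat_lit 78) (nat_lit 456) (nat_lit 0) (XT.lf (nat_lit 0) (nat_lit 6308689599) (nat_lit 304) (nat_lit 5547372475) (nat_lit 76) (nat_lit 9845805153) (nat_lit 77) (nat_lit 5) (nat_lit 81) (nat_lit 5) (nat_lit 78) (nat_lit 5) (nat_lit 351) (nat_lit 309) (nat_lit 240)) (XT.nd (nat_lit 78) (nat_lit 228) (nat_lit 0) (XT.lf (nat_lit 0) (nat_lit 13869903564) (nat_lit 228) (nat_lit 557445614) (nat_lit 304) (nat_lit 8000373771) (nat_lit 74) (nat_lit 5) (nat_lit 77) (nat_lit 5) (nat_lit 78) (nat_lit 5) (nat_lit 352) (nat_lit 309) (nat_lit 239)) (XT.lf (nat_lit 0) (nat_lit 6893267) (nat_lit 228) (nat_lit 11946914063) (nat_lit 76) (nat_lit 11228937855) (nat_lit 71) (nat_lit 5) (nat_lit 74) (nat_lit 5) (nat_lit 72) (nat_lit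 5) (nat_lit 353) (nat_lit 309) (nat_lit 238))))))) (XT.nd (nat_lit 936) (nat_lit 1140) (nat_lit 0) (XT.nd (nat_lit 468) (nat_lit 912) (nat_lit 0) (XT.nd (nat_lit 234) (nat_lit 380) (nat_lit 0) (XT.nd (nat_lit 78) (nat_lit 456) (nat_lit 0) (XT.lf (nat_lit 0) (nat_lit 8239742819) (nat_lit 228) (nat_lit 148955638) (nat_lit 304) (nat_lit 15580264698) (nat_lit 68) (nat_lit 5) (nat_lit 71) (nat_lit 5) (nat_lit 72) (nat_lit 5) (nat_lit 354) (nat_lit 309) (nat_lit 237)) (XT.nd (nat_lit 78) (nat_lit 304) (nat_lit 0) (XT.lf (nat_lit 0) (nat_lit 4811482827) (nat_lit 152) (nat_lit 12631509396) (nat_lit 228) (nat_lit 7343907389) (nat_lit 66) (nat_lit 5) (nat_lit 68) (nat_lit 5) (nat_lit 69) (nat_lit 5) (nat_lit 355) (nat_lit 309) (nat_lit 236)) (XT.lf (nat_lit 0) (nat_lit 1014106955) (nat_lit 228) (nat_lit 405484074) (nat_lit 304) (nat_lit 24221551334) (nat_lit 62) (nat_lit 5) (nat_lit 65) (nat_lit 5) (nat_lit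 66) (nat_lit 5) (nat_lit 356) (nat_lit 309) (nat_lit 235)))) (XT.nd (nat_lit 78) (nat_lit 380) (nat_lit 0) (XT.lf (nat_lit 0) (nat_lit 10764831123) (nat_lit 304) (nat_lit 3313277527) (nat_lit 76) (nat_lit 12448952140) (nat_lit 62) (nat_lit 5) (nat_lit 66) (nat_lit 5) (nat_lit 63) (nat_lit 5) (nat_lit 357) (nat_lit 309) (nat_lit 234)) (XT.nd (nat_lit 78) (nat_lit 228) (nat_lit 0) (XT.lf (nat_lit 0) (nat_lit 19386838598) (nat_lit 152) (nat_lit 1349393469) (nat_lit 228) (nat_lit 6716284108) (nat_lit 60) (nat_lit 5) (nat_lit 62) (nat_lit 5) (nat_lit 63) (nat_lit 5) (nat_lit 358) (nat_lit 309) (nat_lit 233)) (XT.lf (nat_lit 0) (nat_lit 2993576116) (nat_lit 228) (nat_lit 13453744909) (nat_lit 76) (nat_lit 11968151340) (nat_lit 57) (nat_lit 5) (nat_lit 60) (nat_lit 5) (nat_lit 58) (nat_lit 5) (nat_lit 359) (nat_lit 309) (nat_lit 232))))) (XT.nd (nat_lit 234) (nat_lit 532) (nat_lit 0) (XT.nd (nat_lit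 78) (nat_lit 228) (nat_lit 0) (XT.lf (nat_lit 0) (nat_lit 9944976151) (nat_lit 152) (nat_lit 3269323944) (nat_lit 228) (nat_lit 16205360165) (nat_lit 55) (nat_lit 5) (nat_lit 57) (nat_lit 5) (nat_lit 58) (nat_lit 5) (nat_lit 360) (nat_lit 309) (nat_lit 231)) (XT.nd (nat_lit 78) (nat_lit 76) (nat_lit 0) (XT.lf (nat_lit 0) (nat_lit 4253917277) (nat_lit 152) (nat_lit 19945141423) (nat_lit 228) (nat_lit 6267415605) (nat_lit 53) (nat_lit 5) (nat_lit 55) (nat_lit 5) (nat_lit 56) (nat_lit 5) (nat_lit 361) (nat_lit 309) (nat_lit 230)) (XT.lf (nat_lit 0) (nat_lit 4292855088) (nat_lit 228) (nat_lit 2108873553) (nat_lit 76) (nat_lit 25156502309) (nat_lit 52) (nat_lit 5) (nat_lit 55) (nat_lit 5) (nat_lit 53) (nat_lit 5) (nat_lit 362) (nat_lit 309) (nat_lit 229)))) (XT.nd (nat_lit 78) (nat_lit 380) (nat_lit 0) (XT.lf (nat_lit 0) (nat_lit 15529577955) (nat_lit 228) (nat_lit 9226033345) (nat_lit 76) (nat_lit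 7938766672) (nat_lit 50) (nat_lit 5) (nat_lit 53) (nat_lit 5) (nat_lit 51) (nat_lit 5) (nat_lit 363) (nat_lit 309) (nat_lit 228)) (XT.nd (nat_lit 78) (nat_lit 228) (nat_lit 0) (XT.lf (nat_lit 0) (nat_lit 16695796193) (nat_lit 152) (nat_lit 10852693831) (nat_lit 228) (nat_lit 6332237358) (nat_lit 48) (nat_lit 5) (nat_lit 50) (nat_lit 5) (nat_lit 51) (nat_lit 5) (nat_lit 364) (nat_lit 309) (nat_lit 227)) (XT.lf (nat_lit 0) (nat_lit 5138609739) (nat_lit 228) (nat_lit 26094059967) (nat_lit 76) (nat_lit 3886424480) (nat_lit 45) (nat_lit 5) (nat_lit 48) (nat_lit 5) (nat_lit 46) (nat_lit 5) (nat_lit 365) (nat_lit 309) (nat_lit 226)))))) (XT.nd (nat_lit 468) (nat_lit 532) (nat_lit 0) (XT.nd (nat_lit 234) (nat_lit 304) (nat_lit 0) (XT.nd (nat_lit 78) (nat_lit 152) (nat_lit 0) (XT.lf (nat_lit 0) (nat_lit 275296617) (nat_lit 152) (nat_lit 17043319384) (nat_lit 228) (nat_lit 19090890105) (nat_lit 43) (nat_lit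 5) (nat_lit 45) (nat_lit 5) (nat_lit 46) (nat_lit 5) (nat_lit 366) (nat_lit 309) (nat_lit 225)) (XT.nd (nat_lit 78) (nat_lit 152) (nat_lit 0) (XT.lf (nat_lit 0) (nat_lit 28464299463) (nat_lit 152) (nat_lit 1887247174) (nat_lit 228) (nat_lit 7405578984) (nat_lit 43) (nat_lit 5) (nat_lit 45) (nat_lit 5) (nat_lit 46) (nat_lit 5) (nat_lit 367) (nat_lit 309) (nat_lit 224)) (XT.lf (nat_lit 0) (nat_lit 5066598541) (nat_lit 152) (nat_lit 20127283207) (nat_lit 76) (nat_lit 13967920604) (nat_lit 41) (nat_lit 5) (nat_lit 43) (nat_lit 5) (nat_lit 42) (nat_lit 5) (nat_lit 368) (nat_lit 309) (nat_lit 223)))) (XT.nd (nat_lit 78) (nat_lit 152) (nat_lit 0) (XT.lf (nat_lit 0) (nat_lit 8365287744) (nat_lit 152) (nat_lit 9818237712) (nat_lit 228) (nat_lit 22445762966) (nat_lit 39) (nat_lit 5) (nat_lit 41) (nat_lit 5) (nat_lit 42) (nat_lit 5) (nat_lit 369) (nat_lit 309) (nat_lit 222)) (XT.nd (nat_lit 78) (nat_lit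 152) (nat_lit 0) (XT.lf (nat_lit 0) (nat_lit 32203700343) (nat_lit 228) (nat_lit 3564802378) (nat_lit 76) (nat_lit 6394227984) (nat_lit 39) (nat_lit 5) (nat_lit 42) (nat_lit 5) (nat_lit 40) (nat_lit 4) (nat_lit 370) (nat_lit 309) (nat_lit 221)) (XT.lf (nat_lit 0) (nat_lit 3430512350) (nat_lit 152) (nat_lit 16839230811) (nat_lit 76) (nat_lit 23491997187) (nat_lit 37) (nat_lit 5) (nat_lit 39) (nat_lit 5) (nat_lit 38) (nat_lit 5) (nat_lit 371) (nat_lit 309) (nat_lit 220))))) (XT.nd (nat_lit 234) (nat_lit 304) (nat_lit 0) (XT.nd (nat_lit 78) (nat_lit 76) (nat_lit 0) (XT.lf (nat_lit 0) (nat_lit 13697037543) (nat_lit 152) (nat_lit 3736041907) (nat_lit 228) (nat_lit 28000180922) (nat_lit 35) (nat_lit 5) (nat_lit 37) (nat_lit 5) (nat_lit 38) (nat_lit 5) (nat_lit 372) (nat_lit 309) (nat_lit 219)) (XT.nd (nat_lit 78) (nat_lit 76) (nat_lit 0) (XT.lf (nat_lit 0) (nat_lit 32421163130) (nat_lit 228) (nat_lit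 1241621918) (nat_lit 76) (nat_lit 13517013022) (nat_lit 35) (nat_lit 5) (nat_lit 38) (nat_lit 5) (nat_lit 36) (nat_lit 4) (nat_lit 373) (nat_lit 309) (nat_lit 218)) (XT.lf (nat_lit 0) (nat_lit 31315076131) (nat_lit 76) (nat_lit 17162647479) (nat_lit 152) (nat_lit 526370026) (nat_lit 34) (nat_lit 5) (nat_lit 35) (nat_lit 5) (nat_lit 36) (nat_lit 4) (nat_lit 374) (nat_lit 309) (nat_lit 217)))) (XT.nd (nat_lit 78) (nat_lit 76) (nat_lit 0) (XT.lf (nat_lit 0) (nat_lit 14275632023) (nat_lit 228) (nat_lit 36196202234) (nat_lit 76) (nat_lit 439431106) (nat_lit 31) (nat_lit 5) (nat_lit 34) (nat_lit 5) (nat_lit 32) (nat_lit 4) (nat_lit 375) (nat_lit 309) (nat_lit 216)) (XT.nd (nat_lit 78) (nat_lit 76) (nat_lit 0) (XT.lf (nat_lit 0) (nat_lit 30145260011) (nat_lit 228) (nat_lit 4014426074) (nat_lit 76) (nat_lit 18743803670) (nat_lit 31) (nat_lit 5) (nat_lit 34) (nat_lit 5) (nat_lit 32) (nat_lit 4) (nat_lit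 376) (nat_lit 309) (nat_lit 215)) (XT.lf (nat_lit 0) (nat_lit 30335297448) (nat_lit 76) (nat_lit 16746757474) (nat_lit 152) (nat_lit 7905062528) (nat_lit 30) (nat_lit 5) (nat_lit 31) (nat_lit 5) (nat_lit 32) (nat_lit 4) (nat_lit 377) (nat_lit 309) (nat_lit 214))))))))
noncomputable def xc67 : XT := (XT.nd (nat_lit 42198) (nat_lit 0) (nat_lit 7600) (XT.nd (nat_lit 936) (nat_lit 228) (nat_lit 0) (XT.nd (nat_lit 468) (nat_lit 304) (nat_lit 0) (XT.nd (nat_lit 234) (nat_lit 228) (nat_lit 0) (XT.nd (nat_lit 78) (nat_lit 76) (nat_lit 0) (XT.lf (nat_lit 0) (nat_lit 7671798061) (nat_lit 228) (nat_lit 47796853630) (nat_lit 76) (nat_lit 1700126158) (nat_lit 27) (nat_lit 5) (nat_lit 30) (nat_lit 5) (nat_lit 28) (nat_lit 4) (nat_lit 378) (nat_lit 309) (nat_lit 213)) (XT.nd (nat_lit 78) (nat_lit 76) (nat_lit 0) (XT.lf (nat_lit 0) (nat_lit 24273689032) (nat_lit 228) (nat_lit 14123168226) (nat_lit 76) (nat_lit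 21048028019) (nat_lit 27) (nat_lit 5) (nat_lit 30) (nat_lit 5) (nat_lit 28) (nat_lit 4) (nat_lit 379) (nat_lit 309) (nat_lit 212)) (XT.lf (nat_lit 0) (nat_lit 21625782304) (nat_lit 76) (nat_lit 20271435382) (nat_lit 152) (nat_lit 19931836321) (nat_lit 26) (nat_lit 5) (nat_lit 27) (nat_lit 5) (nat_lit 28) (nat_lit 4) (nat_lit 380) (nat_lit 309) (nat_lit 211)))) (XT.nd (nat_lit 78) (nat_lit 228) (nat_lit 0) (XT.lf (nat_lit 0) (nat_lit 59427768858) (nat_lit 76) (nat_lit 1103696315) (nat_lit 152) (nat_lit 3797081846) (nat_lit 26) (nat_lit 5) (nat_lit 27) (nat_lit 5) (nat_lit 28) (nat_lit 4) (nat_lit 381) (nat_lit 309) (nat_lit 210)) (XT.nd (nat_lit 78) (nat_lit 76) (nat_lit 0) (XT.lf (nat_lit 0) (nat_lit 13373605749) (nat_lit 152) (nat_lit 34478206829) (nat_lit 76) (nat_lit 19082842792) (nat_lit 24) (nat_lit 5) (nat_lit 26) (nat_lit 5) (nat_lit 25) (nat_lit 4) (nat_lit 382) (nat_lit 309) (nat_lit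 209)) (XT.lf (nat_lit 0) (nat_lit 2077009416) (nat_lit 76) (nat_lit 29315169434) (nat_lit 152) (nat_lit 38275727890) (nat_lit 23) (nat_lit 5) (nat_lit 24) (nat_lit 5) (nat_lit 25) (nat_lit 4) (nat_lit 383) (nat_lit 309) (nat_lit 208))))) (XT.nd (nat_lit 234) (nat_lit 152) (nat_lit 0) (XT.nd (nat_lit 78) (nat_lit 152) (nat_lit 0) (XT.lf (nat_lit 0) (nat_lit 41153331699) (nat_lit 76) (nat_lit 9498816912) (nat_lit 152) (nat_lit 21875459803) (nat_lit 23) (nat_lit 5) (nat_lit 24) (nat_lit 5) (nat_lit 25) (nat_lit 4) (nat_lit 384) (nat_lit 309) (nat_lit 207)) (XT.nd (nat_lit 78) (nat_lit 76) (nat_lit 0) (XT.lf (nat_lit 0) (nat_lit 6648045819) (nat_lit 76) (nat_lit 64385796337) (nat_lit 76) (nat_lit 4491692948) (nat_lit 22) (nat_lit 4) (nat_lit 23) (nat_lit 5) (nat_lit 23) (nat_lit 4) (nat_lit 385) (nat_lit 309) (nat_lit 206)) (XT.lf (nat_lit 0) (nat_lit 13901171918) (nat_lit 152) (nat_lit 31693583856)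 (nat_lit 76) (nat_lit 33062382226) (nat_lit 21) (nat_lit 5) (nat_lit 23) (nat_lit 5) (nat_lit 22) (nat_lit 4) (nat_lit 386) (nat_lit 309) (nat_lit 205)))) (XT.nd (nat_lit 78) (nat_lit 76) (nat_lit 0) (XT.lf (nat_lit 0) (nat_lit 7424608459) (nat_lit 76) (nat_lit 25755456910) (nat_lit 152) (nat_lit 48762144580) (nat_lit 20) (nat_lit 5) (nat_lit 21) (nat_lit 5) (nat_lit 22) (nat_lit 4) (nat_lit 387) (nat_lit 309) (nat_lit 204)) (XT.nd (nat_lit 78) (nat_lit 76) (nat_lit 0) (XT.lf (nat_lit 0) (nat_lit 49137260538) (nat_lit 76) (nat_lit 4599335947) (nat_lit 152) (nat_lit 31645529640) (nat_lit 20) (nat_lit 5) (nat_lit 21) (nat_lit 5) (nat_lit 22) (nat_lit 4) (nat_lit 388) (nat_lit 309) (nat_lit 203)) (XT.lf (nat_lit 0) (nat_lit 3823924038) (nat_lit 76) (nat_lit 71691041636) (nat_lit 76) (nat_lit 13473253442) (nat_lit 19) (nat_lit 4) (nat_lit 20) (nat_lit 5) (nat_lit 20) (nat_lit 4) (nat_lit 389) (nat_lit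 309) (nat_lit 202)))))) (XT.nd (nat_lit 40794) (nat_lit 0) (nat_lit 19532) (XT.nd (nat_lit 312) (nat_lit 76) (nat_lit 0) (XT.nd (nat_lit 78) (nat_lit 76) (nat_lit 0) (XT.lf (nat_lit 0) (nat_lit 5909611935) (nat_lit 152) (nat_lit 46236339777) (nat_lit 76) (nat_lit 40614707156) (nat_lit 18) (nat_lit 5) (nat_lit 20) (nat_lit 5) (nat_lit 19) (nat_lit 4) (nat_lit 390) (nat_lit 309) (nat_lit 201)) (XT.nd (nat_lit 78) (nat_lit 76) (nat_lit 0) (XT.lf (nat_lit 0) (nat_lit 25974301660) (nat_lit 152) (nat_lit 5519366121) (nat_lit 76) (nat_lit 65224312199) (nat_lit 18) (nat_lit 5) (nat_lit 20) (nat_lit 5) (nat_lit 19) (nat_lit 4) (nat_lit 391) (nat_lit 309) (nat_lit 200)) (XT.lf (nat_lit 0) (nat_lit 37953697560) (nat_lit 76) (nat_lit 9442637106) (nat_lit 152) (nat_lit 53466210353) (nat_lit 17) (nat_lit 5) (nat_lit 18) (nat_lit 5) (nat_lit 19) (nat_lit 4) (nat_lit 392) (nat_lit 309) (nat_lit 199)))) (XT.nd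 (nat_lit 40326) (nat_lit 0) (nat_lit 21280) (XT.lf (nat_lit 0) (nat_lit 21988022832) (nat_lit 76) (nat_lit 72182210869) (nat_lit 76) (nat_lit 15593601613) (nat_lit 16) (nat_lit 4) (nat_lit 17) (nat_lit 5) (nat_lit 17) (nat_lit 4) (nat_lit 394) (nat_lit 309) (nat_lit 197)) (XT.nd (nat_lit 78) (nat_lit 0) (nat_lit 0) (XT.lf (nat_lit 0) (nat_lit 987633202) (nat_lit 0) (nat_lit 987633202) (nat_lit 836) (nat_lit 1829751485) (nat_lit 296) (nat_lit 5) (nat_lit 296) (nat_lit 3) (nat_lit 307) (nat_lit 3) (nat_lit 310) (nat_lit 310) (nat_lit 280)) (XT.lf (nat_lit 76) (nat_lit 406741656) (nat_lit 0) (nat_lit 5888146333) (nat_lit 912) (nat_lit 1436281556) (nat_lit 297) (nat_lit 5) (nat_lit 296) (nat_lit 5) (nat_lit 308) (nat_lit 5) (nat_lit 311) (nat_lit 310) (nat_lit 279))))) (XT.nd (nat_lit 234) (nat_lit 836) (nat_lit 0) (XT.nd (nat_lit 78) (nat_lit 0) (nat_lit 76) (XT.lf (nat_lit 0) (nat_lit 815167373)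 (nat_lit 912) (nat_lit 1098413214) (nat_lit 988) (nat_lit 5946591390) (nat_lit 284) (nat_lit 5) (nat_lit 296) (nat_lit 5) (nat_lit 297) (nat_lit 5) (nat_lit 312) (nat_lit 310) (nat_lit 278)) (XT.nd (nat_lit 78) (nat_lit 0) (nat_lit 0) (XT.lf (nat_lit 0) (nat_lit 3088079024) (nat_lit 912) (nat_lit 2566847086) (nat_lit 988) (nat_lit 2342217503) (nat_lit 285) (nat_lit 5) (nat_lit 297) (nat_lit 5) (nat_lit 298) (nat_lit 5) (nat_lit 313) (nat_lit 310) (nat_lit 277)) (XT.lf (nat_lit 76) (nat_lit 4150067508) (nat_lit 0) (nat_lit 1264477391) (nat_lit 988) (nat_lit 2728320285) (nat_lit 286) (nat_lit 5) (nat_lit 285) (nat_lit 5) (nat_lit 298) (nat_lit 5) (nat_lit 314) (nat_lit 310) (nat_lit 276)))) (XT.nd (nat_lit 78) (nat_lit 988) (nat_lit 0) (XT.lf (nat_lit 76) (nat_lit 2904338280) (nat_lit 0) (nat_lit 4914988677) (nat_lit 988) (nat_lit 477780007) (nat_lit 287) (nat_lit 5) (nat_lit 286) (nat_lit 5)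 (nat_lit 299) (nat_lit 5) (nat_lit 315) (nat_lit 310) (nat_lit 275)) (XT.nd (nat_lit 78) (nat_lit 0) (nat_lit 76) (XT.lf (nat_lit 76) (nat_lit 1692205691) (nat_lit 0) (nat_lit 105972502) (nat_lit 1064) (nat_lit 6661935412) (nat_lit 274) (nat_lit 5) (nat_lit 273) (nat_lit 5) (nat_lit 287) (nat_lit 5) (nat_lit 316) (nat_lit 310) (nat_lit 274)) (XT.lf (nat_lit 76) (nat_lit 488108727) (nat_lit 0) (nat_lit 3682800383) (nat_lit 1064) (nat_lit 4460516578) (nat_lit 275) (nat_lit 5) (nat_lit 274) (nat_lit 5) (nat_lit 288) (nat_lit 5) (nat_lit 317) (nat_lit 310) (nat_lit 273))))))) (XT.nd (nat_lit 936) (nat_lit 4712) (nat_lit 0) (XT.nd (nat_lit 468) (nat_lit 2888) (nat_lit 0) (XT.nd (nat_lit 234) (nat_lit 3420) (nat_lit 0) (XT.nd (nat_lit 78) (nat_lit 1064) (nat_lit 0) (XT.lf (nat_lit 0) (nat_lit 6637064925) (nat_lit 988) (nat_lit 660825174) (nat_lit 1064) (nat_lit 1514248390) (nat_lit 275) (nat_lit 5)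 (nat_lit 288) (nat_lit 5) (nat_lit 289) (nat_lit 5) (nat_lit 318) (nat_lit 310) (nat_lit 272)) (XT.nd (nat_lit 78) (nat_lit 0) (nat_lit 76) (XT.lf (nat_lit 0) (nat_lit 221529343) (nat_lit 1064) (nat_lit 1784937887) (nat_lit 1140) (nat_lit 6995389609) (nat_lit 261) (nat_lit 5) (nat_lit 275) (nat_lit 5) (nat_lit 276) (nat_lit 5) (nat_lit 319) (nat_lit 310) (nat_lit 271)) (XT.lf (nat_lit 0) (nat_lit 2694219202) (nat_lit 1064) (nat_lit 2913993851) (nat_lit 76) (nat_lit 3592234134) (nat_lit 262) (nat_lit 5) (nat_lit 276) (nat_lit 5) (nat_lit 263) (nat_lit 5) (nat_lit 320) (nat_lit 310) (nat_lit 270)))) (XT.nd (nat_lit 78) (nat_lit 2432) (nat_lit 0) (XT.lf (nat_lit 0) (nat_lit 5284527095) (nat_lit 1140) (nat_lit 4016219440) (nat_lit 76) (nat_lit 108467071) (nat_lit 248) (nat_lit 5) (nat_lit 263) (nat_lit 5) (nat_lit 249) (nat_lit 5) (nat_lit 321) (nat_lit 310) (nat_lit 269)) (XT.nd (nat_lit 78) (nat_lit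 1292) (nat_lit 0) (XT.lf (nat_lit 0) (nat_lit 4497840037) (nat_lit 1140) (nat_lit 3542949274) (nat_lit 1216) (nat_lit 1586598779) (nat_lit 233) (nat_lit 5) (nat_lit 248) (nat_lit 5) (nat_lit 249) (nat_lit 5) (nat_lit 322) (nat_lit 310) (nat_lit 268)) (XT.lf (nat_lit 0) (nat_lit 1068211172) (nat_lit 1292) (nat_lit 6236258348) (nat_lit 76) (nat_lit 2551423130) (nat_lit 216) (nat_lit 5) (nat_lit 233) (nat_lit 5) (nat_lit 217) (nat_lit 5) (nat_lit 323) (nat_lit 310) (nat_lit 267))))) (XT.nd (nat_lit 234) (nat_lit 1140) (nat_lit 0) (XT.nd (nat_lit 78) (nat_lit 1140) (nat_lit 0) (XT.lf (nat_lit 0) (nat_lit 2738687103) (nat_lit 608) (nat_lit 1112684939) (nat_lit 684) (nat_lit 6243181821) (nat_lit 208) (nat_lit 5) (nat_lit 216) (nat_lit 5) (nat_lit 217) (nat_lit 5) (nat_lit 324) (nat_lit 310) (nat_lit 266)) (XT.nd (nat_lit 78) (nat_lit 608) (nat_lit 0) (XT.lf (nat_lit 0) (nat_lit 1851205902) (nat_lit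 532) (nat_lit 4973055570) (nat_lit 608) (nat_lit 3519422311) (nat_lit 201) (nat_lit 5) (nat_lit 208) (nat_lit 5) (nat_lit 209) (nat_lit 5) (nat_lit 325) (nat_lit 310) (nat_lit 265)) (XT.lf (nat_lit 0) (nat_lit 979603569) (nat_lit 608) (nat_lit 8997484301) (nat_lit 684) (nat_lit 627293807) (nat_lit 193) (nat_lit 5) (nat_lit 201) (nat_lit 5) (nat_lit 202) (nat_lit 5) (nat_lit 326) (nat_lit 310) (nat_lit 264)))) (XT.nd (nat_lit 78) (nat_lit 532) (nat_lit 0) (XT.lf (nat_lit 0) (nat_lit 73128976) (nat_lit 532) (nat_lit 2350119918) (nat_lit 608) (nat_lit 8452392466) (nat_lit 185) (nat_lit 5) (nat_lit 192) (nat_lit 5) (nat_lit 193) (nat_lit 5) (nat_lit 327) (nat_lit 310) (nat_lit 263)) (XT.nd (nat_lit 78) (nat_lit 532) (nat_lit 0) (XT.lf (nat_lit 0) (nat_lit 5682604621) (nat_lit 608) (nat_lit 833527509) (nat_lit 76) (nat_lit 4642112045) (nat_lit 185) (nat_lit 5) (nat_lit 193) (nat_lit 5) (nat_lit 186)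 (nat_lit 5) (nat_lit 328) (nat_lit 310) (nat_lit 262)) (XT.lf (nat_lit 0) (nat_lit 9155775622) (nat_lit 608) (nat_lit 1736663389) (nat_lit 76) (nat_lit 561054840) (nat_lit 178) (nat_lit 5) (nat_lit 186) (nat_lit 5) (nat_lit 179) (nat_lit 5) (nat_lit 329) (nat_lit 310) (nat_lit 261)))))) (XT.nd (nat_lit 468) (nat_lit 1900) (nat_lit 0) (XT.nd (nat_lit 234) (nat_lit 1368) (nat_lit 0) (XT.nd (nat_lit 78) (nat_lit 912) (nat_lit 0) (XT.lf (nat_lit 0) (nat_lit 1112252989) (nat_lit 532) (nat_lit 2688657604) (nat_lit 76) (nat_lit 7959531822) (nat_lit 171) (nat_lit 5) (nat_lit 178) (nat_lit 5) (nat_lit 172) (nat_lit 5) (nat_lit 330) (nat_lit 310) (nat_lit 260)) (XT.nd (nat_lit 78) (nat_lit 456) (nat_lit 0) (XT.lf (nat_lit 0) (nat_lit 4713673849) (nat_lit 532) (nat_lit 3677634394) (nat_lit 76) (nat_lit 3688730643) (nat_lit 165) (nat_lit 5) (nat_lit 172) (nat_lit 5) (nat_lit 166) (nat_lit 5) (nat_lit 331)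 (nat_lit 310) (nat_lit 259)) (XT.lf (nat_lit 0) (nat_lit 7725423056) (nat_lit 456) (nat_lit 845404951) (nat_lit 532) (nat_lit 3842552653) (nat_lit 159) (nat_lit 5) (nat_lit 165) (nat_lit 5) (nat_lit 166) (nat_lit 5) (nat_lit 332) (nat_lit 310) (nat_lit 258)))) (XT.nd (nat_lit 78) (nat_lit 912) (nat_lit 0) (XT.lf (nat_lit 0) (nat_lit 7005800266) (nat_lit 456) (nat_lit 5726009388) (nat_lit 532) (nat_lit 28284436) (nat_lit 153) (nat_lit 5) (nat_lit 159) (nat_lit 5) (nat_lit 160) (nat_lit 5) (nat_lit 333) (nat_lit 310) (nat_lit 257)) (XT.nd (nat_lit 78) (nat_lit 456) (nat_lit 0) (XT.lf (nat_lit 0) (nat_lit 3977689764) (nat_lit 456) (nat_lit 6883859558) (nat_lit 76) (nat_lit 2259120436) (nat_lit 147) (nat_lit 5) (nat_lit 153) (nat_lit 5) (nat_lit 148) (nat_lit 5) (nat_lit 334) (nat_lit 310) (nat_lit 256)) (XT.lf (nat_lit 0) (nat_lit 5423058821) (nat_lit 456) (nat_lit 2871146414) (nat_lit 532) (nat_lit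 5201765389) (nat_lit 141) (nat_lit 5) (nat_lit 147) (nat_lit 5) (nat_lit 148) (nat_lit 5) (nat_lit 335) (nat_lit 310) (nat_lit 255))))) (XT.nd (nat_lit 234) (nat_lit 760) (nat_lit 0) (XT.nd (nat_lit 78) (nat_lit 760) (nat_lit 0) (XT.lf (nat_lit 0) (nat_lit 4562776477) (nat_lit 380) (nat_lit 8375285552) (nat_lit 456) (nat_lit 948657272) (nat_lit 136) (nat_lit 5) (nat_lit 141) (nat_lit 5) (nat_lit 142) (nat_lit 5) (nat_lit 336) (nat_lit 310) (nat_lit 254)) (XT.nd (nat_lit 78) (nat_lit 304) (nat_lit 0) (XT.lf (nat_lit 0) (nat_lit 3541798837) (nat_lit 456) (nat_lit 10655141639) (nat_lit 76) (nat_lit 96277062) (nat_lit 130) (nat_lit 5) (nat_lit 136) (nat_lit 5) (nat_lit 131) (nat_lit 5) (nat_lit 337) (nat_lit 310) (nat_lit 253)) (XT.lf (nat_lit 0) (nat_lit 2609571372) (nat_lit 304) (nat_lit 5780612152) (nat_lit 380) (nat_lit 6325009481) (nat_lit 126) (nat_lit 5) (nat_lit 130) (nat_lit 5) (nat_lit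 131) (nat_lit 5) (nat_lit 338) (nat_lit 310) (nat_lit 252)))) (XT.nd (nat_lit 78) (nat_lit 380) (nat_lit 0) (XT.lf (nat_lit 0) (nat_lit 1533151576) (nat_lit 380) (nat_lit 12050726389) (nat_lit 456) (nat_lit 1571326243) (nat_lit 121) (nat_lit 5) (nat_lit 126) (nat_lit 5) (nat_lit 127) (nat_lit 5) (nat_lit 339) (nat_lit 310) (nat_lit 251)) (XT.nd (nat_lit 78) (nat_lit 0) (nat_lit 0) (XT.lf (nat_lit 0) (nat_lit 336994918) (nat_lit 304) (nat_lit 3153033843) (nat_lit 380) (nat_lit 12122121089) (nat_lit 116) (nat_lit 5) (nat_lit 120) (nat_lit 5) (nat_lit 121) (nat_lit 5) (nat_lit 340) (nat_lit 310) (nat_lit 250)) (XT.lf (nat_lit 0) (nat_lit 8924228233) (nat_lit 380) (nat_lit 955592060) (nat_lit 76) (nat_lit 6207108378) (nat_lit 116) (nat_lit 5) (nat_lit 121) (nat_lit 5) (nat_lit 117) (nat_lit 5) (nat_lit 341) (nat_lit 310) (nat_lit 249))))))))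
noncomputable def xc68 : XT := (XT.nd (nat_lit 1794) (nat_lit 2280) (nat_lit 0) (XT.nd (nat_lit 858) (nat_lit 2052) (nat_lit 0) (XT.nd (nat_lit 390) (nat_lit 1368) (nat_lit 0) (XT.nd (nat_lit 156) (nat_lit 912) (nat_lit 0) (XT.nd (nat_lit 78) (nat_lit 380) (nat_lit 0) (XT.lf (nat_lit 0) (nat_lit 14259943735) (nat_lit 304) (nat_lit 492292615) (nat_lit 380) (nat_lit 1829566980) (nat_lit 112) (nat_lit 5) (nat_lit 116) (nat_lit 5) (nat_lit 117) (nat_lit 5) (nat_lit 342) (nat_lit 310) (nat_lit 248)) (XT.lf (nat_lit 0) (nat_lit 3880453846) (nat_lit 380) (nat_lit 3876057980) (nat_lit 76) (nat_lit 9338326966) (nat_lit 107) (nat_lit 5) (nat_lit 112) (nat_lit 5) (nat_lit 108) (nat_lit 5) (nat_lit 343) (nat_lit 310) (nat_lit 247))) (XT.nd (nat_lit 78) (nat_lit 608) (nat_lit 0) (XT.lf (nat_lit 0) (nat_lit 9960389815) (nat_lit 380) (nat_lit 5550859172) (nat_lit 76) (nat_lit 2118083523) (nat_lit 103) (nat_lit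 5) (nat_lit 108) (nat_lit 5) (nat_lit 104) (nat_lit 5) (nat_lit 344) (nat_lit 310) (nat_lit 246)) (XT.nd (nat_lit 78) (nat_lit 380) (nat_lit 0) (XT.lf (nat_lit 0) (nat_lit 10790255368) (nat_lit 228) (nat_lit 5733401524) (nat_lit 304) (nat_lit 1661530645) (nat_lit 100) (nat_lit 5) (nat_lit 103) (nat_lit 5) (nat_lit 104) (nat_lit 5) (nat_lit 345) (nat_lit 310) (nat_lit 245)) (XT.lf (nat_lit 0) (nat_lit 4706712897) (nat_lit 380) (nat_lit 9437672028) (nat_lit 76) (nat_lit 4618592132) (nat_lit 95) (nat_lit 5) (nat_lit 100) (nat_lit 5) (nat_lit 96) (nat_lit 5) (nat_lit 346) (nat_lit 310) (nat_lit 244))))) (XT.nd (nat_lit 234) (nat_lit 532) (nat_lit 0) (XT.nd (nat_lit 78) (nat_lit 608) (nat_lit 0) (XT.lf (nat_lit 0) (nat_lit 7680969371) (nat_lit 228) (nat_lit 3846197031) (nat_lit 304) (nat_lit 7836965969) (nat_lit 92) (nat_lit 5) (nat_lit 95) (nat_lit 5) (nat_lit 96) (nat_lit 5) (nat_lit 347) (nat_lit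 310) (nat_lit 243)) (XT.nd (nat_lit 78) (nat_lit 304) (nat_lit 0) (XT.lf (nat_lit 0) (nat_lit 5845012359) (nat_lit 304) (nat_lit 13025317466) (nat_lit 380) (nat_lit 1119578976) (nat_lit 88) (nat_lit 5) (nat_lit 92) (nat_lit 5) (nat_lit 93) (nat_lit 5) (nat_lit 348) (nat_lit 310) (nat_lit 242)) (XT.lf (nat_lit 0) (nat_lit 3766354312) (nat_lit 228) (nat_lit 2209355476) (nat_lit 304) (nat_lit 14664831440) (nat_lit 84) (nat_lit 5) (nat_lit 87) (nat_lit 5) (nat_lit 88) (nat_lit 5) (nat_lit 349) (nat_lit 310) (nat_lit 241)))) (XT.nd (nat_lit 78) (nat_lit 304) (nat_lit 0) (XT.lf (nat_lit 0) (nat_lit 1416729486) (nat_lit 228) (nat_lit 12197101460) (nat_lit 304) (nat_lit 7703217406) (nat_lit 81) (nat_lit 5) (nat_lit 84) (nat_lit 5) (nat_lit 85) (nat_lit 5) (nat_lit 350) (nat_lit 310) (nat_lit 240)) (XT.nd (nat_lit 78) (nat_lit 304) (nat_lit 0) (XT.lf (nat_lit 0) (nat_lit 20894118354) (nat_lit 228) (nat_lit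 899166170) (nat_lit 304) (nat_lit 229325231) (nat_lit 81) (nat_lit 5) (nat_lit 84) (nat_lit 5) (nat_lit 85) (nat_lit 5) (nat_lit 351) (nat_lit 310) (nat_lit 239)) (XT.lf (nat_lit 0) (nat_lit 7723234432) (nat_lit 304) (nat_lit 4044545372) (nat_lit 76) (nat_lit 10985874337) (nat_lit 77) (nat_lit 5) (nat_lit 81) (nat_lit 5) (nat_lit 78) (nat_lit 5) (nat_lit 352) (nat_lit 310) (nat_lit 238)))))) (XT.nd (nat_lit 468) (nat_lit 912) (nat_lit 0) (XT.nd (nat_lit 234) (nat_lit 456) (nat_lit 0) (XT.nd (nat_lit 78) (nat_lit 456) (nat_lit 0) (XT.lf (nat_lit 0) (nat_lit 16212883597) (nat_lit 304) (nat_lit 7225097887) (nat_lit 76) (nat_lit 78885332) (nat_lit 74) (nat_lit 5) (nat_lit 78) (nat_lit 5) (nat_lit 75) (nat_lit 5) (nat_lit 353) (nat_lit 310) (nat_lit 237)) (XT.nd (nat_lit 78) (nat_lit 228) (nat_lit 0) (XT.lf (nat_lit 0) (nat_lit 1053021347) (nat_lit 228) (nat_lit 10818473550) (nat_lit 76) (nat_lit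 12438720681) (nat_lit 71) (nat_lit 5) (nat_lit 74) (nat_lit 5) (nat_lit 72) (nat_lit 5) (nat_lit 354) (nat_lit 310) (nat_lit 236)) (XT.lf (nat_lit 0) (nat_lit 9825112803) (nat_lit 304) (nat_lit 14813603552) (nat_lit 76) (nat_lit 497906181) (nat_lit 68) (nat_lit 5) (nat_lit 72) (nat_lit 5) (nat_lit 69) (nat_lit 5) (nat_lit 355) (nat_lit 310) (nat_lit 235)))) (XT.nd (nat_lit 78) (nat_lit 304) (nat_lit 0) (XT.lf (nat_lit 0) (nat_lit 6703884702) (nat_lit 152) (nat_lit 12597119195) (nat_lit 228) (nat_lit 6695398744) (nat_lit 66) (nat_lit 5) (nat_lit 68) (nat_lit 5) (nat_lit 69) (nat_lit 5) (nat_lit 356) (nat_lit 310) (nat_lit 234)) (XT.nd (nat_lit 78) (nat_lit 0) (nat_lit 0) (XT.lf (nat_lit 0) (nat_lit 2456893012) (nat_lit 304) (nat_lit 24207488535) (nat_lit 76) (nat_lit 229582223) (nat_lit 62) (nat_lit 5) (nat_lit 66) (nat_lit 5) (nat_lit 63) (nat_lit 5) (nat_lit 357) (nat_lit 310) (nat_lit 233))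 (XT.lf (nat_lit 0) (nat_lit 12227277519) (nat_lit 304) (nat_lit 1910554742) (nat_lit 76) (nat_lit 13687621103) (nat_lit 62) (nat_lit 5) (nat_lit 66) (nat_lit 5) (nat_lit 63) (nat_lit 5) (nat_lit 358) (nat_lit 310) (nat_lit 232))))) (XT.nd (nat_lit 234) (nat_lit 380) (nat_lit 0) (XT.nd (nat_lit 78) (nat_lit 380) (nat_lit 0) (XT.lf (nat_lit 0) (nat_lit 21879609700) (nat_lit 152) (nat_lit 788273187) (nat_lit 228) (nat_lit 6130190756) (nat_lit 60) (nat_lit 5) (nat_lit 62) (nat_lit 5) (nat_lit 63) (nat_lit 5) (nat_lit 359) (nat_lit 310) (nat_lit 231)) (XT.nd (nat_lit 78) (nat_lit 152) (nat_lit 0) (XT.lf (nat_lit 0) (nat_lit 4024504133) (nat_lit 228) (nat_lit 12608503596) (nat_lit 76) (nat_lit 13176594431) (nat_lit 57) (nat_lit 5) (nat_lit 60) (nat_lit 5) (nat_lit 58) (nat_lit 5) (nat_lit 360) (nat_lit 310) (nat_lit 230)) (XT.lf (nat_lit 0) (nat_lit 11916642400) (nat_lit 152) (nat_lit 2811830666)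 (nat_lit 228) (nat_lit 16136369948) (nat_lit 55) (nat_lit 5) (nat_lit 57) (nat_lit 5) (nat_lit 58) (nat_lit 5) (nat_lit 361) (nat_lit 310) (nat_lit 229)))) (XT.nd (nat_lit 78) (nat_lit 228) (nat_lit 0) (XT.lf (nat_lit 0) (nat_lit 5918029461) (nat_lit 152) (nat_lit 20323435988) (nat_lit 228) (nat_lit 5723171795) (nat_lit 53) (nat_lit 5) (nat_lit 55) (nat_lit 5) (nat_lit 56) (nat_lit 5) (nat_lit 362) (nat_lit 310) (nat_lit 228)) (XT.nd (nat_lit 78) (nat_lit 152) (nat_lit 0) (XT.lf (nat_lit 0) (nat_lit 5308335405) (nat_lit 228) (nat_lit 815904678) (nat_lit 76) (nat_lit 26987704229) (nat_lit 52) (nat_lit 5) (nat_lit 55) (nat_lit 5) (nat_lit 53) (nat_lit 5) (nat_lit 363) (nat_lit 310) (nat_lit 227)) (XT.lf (nat_lit 0) (nat_lit 17087416366) (nat_lit 228) (nat_lit 8311170071) (nat_lit 76) (nat_lit 8906904833) (nat_lit 50) (nat_lit 5) (nat_lit 53) (nat_lit 5) (nat_lit 51) (nat_lit 5) (nat_lit 364) (nat_lit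 310) (nat_lit 226))))))) (XT.nd (nat_lit 936) (nat_lit 836) (nat_lit 0) (XT.nd (nat_lit 468) (nat_lit 608) (nat_lit 0) (XT.nd (nat_lit 234) (nat_lit 304) (nat_lit 0) (XT.nd (nat_lit 78) (nat_lit 380) (nat_lit 0) (XT.lf (nat_lit 0) (nat_lit 18867303453) (nat_lit 152) (nat_lit 10815612336) (nat_lit 228) (nat_lit 5868980957) (nat_lit 48) (nat_lit 5) (nat_lit 50) (nat_lit 5) (nat_lit 51) (nat_lit 5) (nat_lit 365) (nat_lit 310) (nat_lit 225)) (XT.nd (nat_lit 78) (nat_lit 152) (nat_lit 0) (XT.lf (nat_lit 0) (nat_lit 6141905987) (nat_lit 228) (nat_lit 26068564293) (nat_lit 76) (nat_lit 4642042504) (nat_lit 45) (nat_lit 5) (nat_lit 48) (nat_lit 5) (nat_lit 46) (nat_lit 5) (nat_lit 366) (nat_lit 310) (nat_lit 224)) (XT.lf (nat_lit 0) (nat_lit 1581130243) (nat_lit 152) (nat_lit 17326661248) (nat_lit 228) (nat_lit 19300354352) (nat_lit 43) (nat_lit 5) (nat_lit 45) (nat_lit 5) (nat_lit 46) (nat_lit 5) (nat_lit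 367) (nat_lit 310) (nat_lit 223)))) (XT.nd (nat_lit 78) (nat_lit 304) (nat_lit 0) (XT.lf (nat_lit 0) (nat_lit 31118056145) (nat_lit 152) (nat_lit 1439872289) (nat_lit 228) (nat_lit 7066257687) (nat_lit 43) (nat_lit 5) (nat_lit 45) (nat_lit 5) (nat_lit 46) (nat_lit 5) (nat_lit 368) (nat_lit 310) (nat_lit 222)) (XT.nd (nat_lit 78) (nat_lit 152) (nat_lit 0) (XT.lf (nat_lit 0) (nat_lit 5999309782) (nat_lit 152) (nat_lit 19909594708) (nat_lit 76) (nat_lit 15190484815) (nat_lit 41) (nat_lit 5) (nat_lit 43) (nat_lit 5) (nat_lit 42) (nat_lit 5) (nat_lit 369) (nat_lit 310) (nat_lit 221)) (XT.lf (nat_lit 0) (nat_lit 9972517567) (nat_lit 152) (nat_lit 9778643048) (nat_lit 228) (nat_lit 22889722534) (nat_lit 39) (nat_lit 5) (nat_lit 41) (nat_lit 5) (nat_lit 42) (nat_lit 5) (nat_lit 370) (nat_lit 310) (nat_lit 220))))) (XT.nd (nat_lit 234) (nat_lit 304) (nat_lit 0) (XT.nd (nat_lit 78) (nat_lit 304) (nat_lit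 0) (XT.lf (nat_lit 0) (nat_lit 34445845779) (nat_lit 228) (nat_lit 2596627661) (nat_lit 76) (nat_lit 7209324580) (nat_lit 39) (nat_lit 5) (nat_lit 42) (nat_lit 5) (nat_lit 40) (nat_lit 4) (nat_lit 371) (nat_lit 310) (nat_lit 219)) (XT.nd (nat_lit 78) (nat_lit 152) (nat_lit 0) (XT.lf (nat_lit 0) (nat_lit 4220777346) (nat_lit 152) (nat_lit 16555223052) (nat_lit 76) (nat_lit 25155162697) (nat_lit 37) (nat_lit 5) (nat_lit 39) (nat_lit 5) (nat_lit 38) (nat_lit 5) (nat_lit 372) (nat_lit 310) (nat_lit 218)) (XT.lf (nat_lit 0) (nat_lit 15475583036) (nat_lit 152) (nat_lit 3428939238) (nat_lit 228) (nat_lit 28782310225) (nat_lit 35) (nat_lit 5) (nat_lit 37) (nat_lit 5) (nat_lit 38) (nat_lit 5) (nat_lit 373) (nat_lit 310) (nat_lit 217)))) (XT.nd (nat_lit 78) (nat_lit 304) (nat_lit 0) (XT.lf (nat_lit 0) (nat_lit 34617970397) (nat_lit 228) (nat_lit 249382258) (nat_lit 76) (nat_lit 14654070248) (nat_lit 35)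 (nat_lit 5) (nat_lit 38) (nat_lit 5) (nat_lit 36) (nat_lit 4) (nat_lit 374) (nat_lit 310) (nat_lit 216)) (XT.nd (nat_lit 78) (nat_lit 152) (nat_lit 0) (XT.lf (nat_lit 0) (nat_lit 21886136) (nat_lit 152) (nat_lit 17532750598) (nat_lit 76) (nat_lit 33882821657) (nat_lit 33) (nat_lit 5) (nat_lit 35) (nat_lit 5) (nat_lit 34) (nat_lit 5) (nat_lit 375) (nat_lit 310) (nat_lit 215)) (XT.lf (nat_lit 0) (nat_lit 15540437157) (nat_lit 228) (nat_lit 36988220465) (nat_lit 76) (nat_lit 911558761) (nat_lit 31) (nat_lit 5) (nat_lit 34) (nat_lit 5) (nat_lit 32) (nat_lit 4) (nat_lit 376) (nat_lit 310) (nat_lit 214)))))) (XT.nd (nat_lit 468) (nat_lit 456) (nat_lit 0) (XT.nd (nat_lit 234) (nat_lit 76) (nat_lit 0) (XT.nd (nat_lit 78) (nat_lit 304) (nat_lit 0) (XT.lf (nat_lit 0) (nat_lit 32177307328) (nat_lit 228) (nat_lit 3245821778) (nat_lit 76) (nat_lit 20109713948) (nat_lit 31) (nat_lit 5) (nat_lit 34) (nat_lit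 5) (nat_lit 32) (nat_lit 4) (nat_lit 377) (nat_lit 310) (nat_lit 213)) (XT.nd (nat_lit 78) (nat_lit 228) (nat_lit 0) (XT.lf (nat_lit 0) (nat_lit 32793602397) (nat_lit 76) (nat_lit 17151400518) (nat_lit 152) (nat_lit 7776131090) (nat_lit 30) (nat_lit 5) (nat_lit 31) (nat_lit 5) (nat_lit 32) (nat_lit 4) (nat_lit 378) (nat_lit 310) (nat_lit 212)) (XT.lf (nat_lit 0) (nat_lit 8557853885) (nat_lit 228) (nat_lit 49251217329) (nat_lit 76) (nat_lit 2203003162) (nat_lit 27) (nat_lit 5) (nat_lit 30) (nat_lit 5) (nat_lit 28) (nat_lit 4) (nat_lit 379) (nat_lit 310) (nat_lit 211)))) (XT.nd (nat_lit 78) (nat_lit 76) (nat_lit 0) (XT.lf (nat_lit 0) (nat_lit 25965912457) (nat_lit 228) (nat_lit 13938394273) (nat_lit 76) (nat_lit 22498401512) (nat_lit 27) (nat_lit 5) (nat_lit 30) (nat_lit 5) (nat_lit 28) (nat_lit 4) (nat_lit 380) (nat_lit 310) (nat_lit 210)) (XT.nd (nat_lit 78) (nat_lit 0) (nat_lit 0) (XT.lf (nat_lit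 0) (nat_lit 23572465386) (nat_lit 76) (nat_lit 20883683283) (nat_lit 152) (nat_lit 20450373906) (nat_lit 26) (nat_lit 5) (nat_lit 27) (nat_lit 5) (nat_lit 28) (nat_lit 4) (nat_lit 381) (nat_lit 310) (nat_lit 209)) (XT.lf (nat_lit 0) (nat_lit 63223342032) (nat_lit 76) (nat_lit 776667922) (nat_lit 152) (nat_lit 3531646194) (nat_lit 26) (nat_lit 5) (nat_lit 27) (nat_lit 5) (nat_lit 28) (nat_lit 4) (nat_lit 382) (nat_lit 310) (nat_lit 208))))) (XT.nd (nat_lit 234) (nat_lit 228) (nat_lit 0) (XT.nd (nat_lit 78) (nat_lit 76) (nat_lit 0) (XT.lf (nat_lit 0) (nat_lit 14478830395) (nat_lit 152) (nat_lit 35383447111) (nat_lit 76) (nat_lit 20405959678) (nat_lit 24) (nat_lit 5) (nat_lit 26) (nat_lit 5) (nat_lit 25) (nat_lit 4) (nat_lit 383) (nat_lit 310) (nat_lit 207)) (XT.nd (nat_lit 78) (nat_lit 0) (nat_lit 0) (XT.lf (nat_lit 0) (nat_lit 2976062933) (nat_lit 76) (nat_lit 30409125369) (nat_lit 152) (nat_lit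 39753359737) (nat_lit 23) (nat_lit 5) (nat_lit 24) (nat_lit 5) (nat_lit 25) (nat_lit 4) (nat_lit 384) (nat_lit 310) (nat_lit 206)) (XT.lf (nat_lit 0) (nat_lit 43968334519) (nat_lit 76) (nat_lit 9619660104) (nat_lit 152) (nat_lit 22553847509) (nat_lit 23) (nat_lit 5) (nat_lit 24) (nat_lit 5) (nat_lit 25) (nat_lit 4) (nat_lit 385) (nat_lit 310) (nat_lit 205)))) (XT.nd (nat_lit 78) (nat_lit 152) (nat_lit 0) (XT.lf (nat_lit 0) (nat_lit 7724567740) (nat_lit 76) (nat_lit 67255397919) (nat_lit 76) (nat_lit 4309966073) (nat_lit 22) (nat_lit 4) (nat_lit 23) (nat_lit 5) (nat_lit 23) (nat_lit 4) (nat_lit 386) (nat_lit 310) (nat_lit 204)) (XT.nd (nat_lit 78) (nat_lit 76) (nat_lit 0) (XT.lf (nat_lit 0) (nat_lit 14975642819) (nat_lit 152) (nat_lit 32561983008) (nat_lit 76) (nat_lit 35040943073) (nat_lit 21) (nat_lit 5) (nat_lit 23) (nat_lit 5) (nat_lit 22) (nat_lit 4) (nat_lit 387) (nat_lit 310) (nat_lit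 203)) (XT.lf (nat_lit 0) (nat_lit 8491586900) (nat_lit 76) (nat_lit 26715514747) (nat_lit 152) (nat_lit 50821136258) (nat_lit 20) (nat_lit 5) (nat_lit 21) (nat_lit 5) (nat_lit 22) (nat_lit 4) (nat_lit 388) (nat_lit 310) (nat_lit 202))))))))
noncomputable def xc69 : XT := (XT.nd (nat_lit 42198) (nat_lit 0) (nat_lit 4560) (XT.nd (nat_lit 41262) (nat_lit 0) (nat_lit 12768) (XT.nd (nat_lit 40794) (nat_lit 0) (nat_lit 19380) (XT.nd (nat_lit 156) (nat_lit 152) (nat_lit 0) (XT.nd (nat_lit 78) (nat_lit 76) (nat_lit 0) (XT.lf (nat_lit 0) (nat_lit 52256740724) (nat_lit 76) (nat_lit 4517193213) (nat_lit 152) (nat_lit 32866743692) (nat_lit 20) (nat_lit 5) (nat_lit 21) (nat_lit 5) (nat_lit 22) (nat_lit 4) (nat_lit 389) (nat_lit 310) (nat_lit 201)) (XT.lf (nat_lit 0) (nat_lit 4666081674) (nat_lit 76) (nat_lit 74967563833) (nat_lit 76) (nat_lit 13793658929) (nat_lit 19) (nat_lit 4) (nat_lit 20) (nat_lit 5)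 (nat_lit 20) (nat_lit 4) (nat_lit 390) (nat_lit 310) (nat_lit 200))) (XT.nd (nat_lit 78) (nat_lit 76) (nat_lit 0) (XT.lf (nat_lit 0) (nat_lit 6534962879) (nat_lit 152) (nat_lit 47921593579) (nat_lit 76) (nat_lit 42932204393) (nat_lit 18) (nat_lit 5) (nat_lit 20) (nat_lit 5) (nat_lit 19) (nat_lit 4) (nat_lit 391) (nat_lit 310) (nat_lit 199)) (XT.nd (nat_lit 156) (nat_lit 76) (nat_lit 0) (XT.lf (nat_lit 0) (nat_lit 27587178979) (nat_lit 152) (nat_lit 5198607582) (nat_lit 76) (nat_lit 68758634362) (nat_lit 18) (nat_lit 5) (nat_lit 20) (nat_lit 5) (nat_lit 19) (nat_lit 4) (nat_lit 392) (nat_lit 310) (nat_lit 198)) (XT.lf (nat_lit 0) (nat_lit 73864336378) (nat_lit 152) (nat_lit 22173472599) (nat_lit 0) (nat_lit 14422805469) (nat_lit 17) (nat_lit 5) (nat_lit 19) (nat_lit 4) (nat_lit 17) (nat_lit 4) (nat_lit 394) (nat_lit 310) (nat_lit 196))))) (XT.nd (nat_lit 234) (nat_lit 836) (nat_lit 0) (XT.nd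 (nat_lit 78) (nat_lit 0) (nat_lit 0) (XT.lf (nat_lit 0) (nat_lit 328546361) (nat_lit 988) (nat_lit 1799617854) (nat_lit 988) (nat_lit 1799617854) (nat_lit 283) (nat_lit 3) (nat_lit 296) (nat_lit 3) (nat_lit 296) (nat_lit 5) (nat_lit 311) (nat_lit 311) (nat_lit 278)) (XT.nd (nat_lit 78) (nat_lit 0) (nat_lit 76) (XT.lf (nat_lit 76) (nat_lit 2676375969) (nat_lit 0) (nat_lit 61313732) (nat_lit 988) (nat_lit 5250797937) (nat_lit 284) (nat_lit 5) (nat_lit 283) (nat_lit 3) (nat_lit 296) (nat_lit 5) (nat_lit 312) (nat_lit 311) (nat_lit 277)) (XT.lf (nat_lit 76) (nat_lit 1120561128) (nat_lit 0) (nat_lit 3761152869) (nat_lit 988) (nat_lit 3247660002) (nat_lit 285) (nat_lit 5) (nat_lit 284) (nat_lit 5) (nat_lit 297) (nat_lit 5) (nat_lit 313) (nat_lit 311) (nat_lit 276)))) (XT.nd (nat_lit 78) (nat_lit 988) (nat_lit 0) (XT.lf (nat_lit 0) (nat_lit 7071404055) (nat_lit 912) (nat_lit 373548755) (nat_lit 988)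 (nat_lit 834291848) (nat_lit 285) (nat_lit 5) (nat_lit 297) (nat_lit 5) (nat_lit 298) (nat_lit 5) (nat_lit 314) (nat_lit 311) (nat_lit 275)) (XT.nd (nat_lit 78) (nat_lit 0) (nat_lit 76) (XT.lf (nat_lit 0) (nat_lit 898450613) (nat_lit 988) (nat_lit 1833355558) (nat_lit 1064) (nat_lit 5705139001) (nat_lit 272) (nat_lit 5) (nat_lit 285) (nat_lit 5) (nat_lit 286) (nat_lit 5) (nat_lit 315) (nat_lit 311) (nat_lit 274)) (XT.lf (nat_lit 0) (nat_lit 3048259145) (nat_lit 988) (nat_lit 3271375242) (nat_lit 1064) (nat_lit 2283724783) (nat_lit 273) (nat_lit 5) (nat_lit 286) (nat_lit 5) (nat_lit 287) (nat_lit 5) (nat_lit 316) (nat_lit 311) (nat_lit 273)))))) (XT.nd (nat_lit 468) (nat_lit 4788) (nat_lit 0) (XT.nd (nat_lit 234) (nat_lit 988) (nat_lit 0) (XT.nd (nat_lit 78) (nat_lit 912) (nat_lit 0) (XT.lf (nat_lit 76) (nat_lit 4094625285) (nat_lit 0) (nat_lit 1187302764) (nat_lit 1064) (nat_lit 3496953485)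 (nat_lit 274) (nat_lit 5) (nat_lit 273) (nat_lit 5) (nat_lit 287) (nat_lit 5) (nat_lit 317) (nat_lit 311) (nat_lit 272)) (XT.nd (nat_lit 78) (nat_lit 988) (nat_lit 0) (XT.lf (nat_lit 76) (nat_lit 2875180713) (nat_lit 0) (nat_lit 4749363794) (nat_lit 1064) (nat_lit 1338792602) (nat_lit 275) (nat_lit 5) (nat_lit 274) (nat_lit 5) (nat_lit 288) (nat_lit 5) (nat_lit 318) (nat_lit 311) (nat_lit 271)) (XT.lf (nat_lit 0) (nat_lit 892324453) (nat_lit 1064) (nat_lit 7474026035) (nat_lit 1140) (nat_lit 790972650) (nat_lit 261) (nat_lit 5) (nat_lit 275) (nat_lit 5) (nat_lit 276) (nat_lit 5) (nat_lit 319) (nat_lit 311) (nat_lit 270)))) (XT.nd (nat_lit 78) (nat_lit 988) (nat_lit 0) (XT.lf (nat_lit 76) (nat_lit 482446919) (nat_lit 0) (nat_lit 2743802148) (nat_lit 1140) (nat_lit 6133859602) (nat_lit 262) (nat_lit 5) (nat_lit 261) (nat_lit 5) (nat_lit 276) (nat_lit 5) (nat_lit 320) (nat_lit 311) (nat_lit 269))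 (XT.nd (nat_lit 78) (nat_lit 1064) (nat_lit 0) (XT.lf (nat_lit 0) (nat_lit 5691859873) (nat_lit 1064) (nat_lit 686107527) (nat_lit 76) (nat_lit 3194679288) (nat_lit 262) (nat_lit 5) (nat_lit 276) (nat_lit 5) (nat_lit 263) (nat_lit 5) (nat_lit 321) (nat_lit 311) (nat_lit 268)) (XT.lf (nat_lit 0) (nat_lit 7969341594) (nat_lit 1064) (nat_lit 327057342) (nat_lit 1140) (nat_lit 1499003160) (nat_lit 248) (nat_lit 5) (nat_lit 262) (nat_lit 5) (nat_lit 263) (nat_lit 5) (nat_lit 322) (nat_lit 311) (nat_lit 267))))) (XT.nd (nat_lit 234) (nat_lit 1748) (nat_lit 0) (XT.nd (nat_lit 78) (nat_lit 1824) (nat_lit 0) (XT.lf (nat_lit 0) (nat_lit 1030566081) (nat_lit 1216) (nat_lit 2989802027) (nat_lit 76) (nat_lit 6007246254) (nat_lit 232) (nat_lit 5) (nat_lit 248) (nat_lit 5) (nat_lit 233) (nat_lit 5) (nat_lit 323) (nat_lit 311) (nat_lit 266)) (XT.nd (nat_lit 78) (nat_lit 608) (nat_lit 0) (XT.lf (nat_lit 0) (nat_lit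 3678598038) (nat_lit 1292) (nat_lit 4155308652) (nat_lit 76) (nat_lit 2436448491) (nat_lit 216) (nat_lit 5) (nat_lit 233) (nat_lit 5) (nat_lit 217) (nat_lit 5) (nat_lit 324) (nat_lit 311) (nat_lit 265)) (XT.lf (nat_lit 0) (nat_lit 5199796011) (nat_lit 608) (nat_lit 1301701550) (nat_lit 684) (nat_lit 4022511750) (nat_lit 208) (nat_lit 5) (nat_lit 216) (nat_lit 5) (nat_lit 217) (nat_lit 5) (nat_lit 325) (nat_lit 311) (nat_lit 264)))) (XT.nd (nat_lit 78) (nat_lit 1216) (nat_lit 0) (XT.lf (nat_lit 0) (nat_lit 4275678734) (nat_lit 532) (nat_lit 5251520882) (nat_lit 608) (nat_lit 1261344666) (nat_lit 201) (nat_lit 5) (nat_lit 208) (nat_lit 5) (nat_lit 209) (nat_lit 5) (nat_lit 326) (nat_lit 311) (nat_lit 263)) (XT.nd (nat_lit 78) (nat_lit 532) (nat_lit 0) (XT.lf (nat_lit 0) (nat_lit 1649498535) (nat_lit 684) (nat_lit 7717045875) (nat_lit 76) (nat_lit 1698026151) (nat_lit 192) (nat_lit 5) (nat_lit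 201) (nat_lit 5) (nat_lit 193) (nat_lit 5) (nat_lit 327) (nat_lit 311) (nat_lit 262)) (XT.lf (nat_lit 0) (nat_lit 2391127247) (nat_lit 532) (nat_lit 2361534994) (nat_lit 608) (nat_lit 6599217455) (nat_lit 185) (nat_lit 5) (nat_lit 192) (nat_lit 5) (nat_lit 193) (nat_lit 5) (nat_lit 328) (nat_lit 311) (nat_lit 261))))))) (XT.nd (nat_lit 936) (nat_lit 3344) (nat_lit 0) (XT.nd (nat_lit 468) (nat_lit 2356) (nat_lit 0) (XT.nd (nat_lit 234) (nat_lit 1444) (nat_lit 0) (XT.nd (nat_lit 78) (nat_lit 532) (nat_lit 0) (XT.lf (nat_lit 0) (nat_lit 1419996546) (nat_lit 532) (nat_lit 6664455526) (nat_lit 608) (nat_lit 3566938314) (nat_lit 178) (nat_lit 5) (nat_lit 185) (nat_lit 5) (nat_lit 186) (nat_lit 5) (nat_lit 329) (nat_lit 311) (nat_lit 260)) (XT.nd (nat_lit 78) (nat_lit 76) (nat_lit 0) (XT.lf (nat_lit 0) (nat_lit 447960073) (nat_lit 456) (nat_lit 11196661523) (nat_lit 532) (nat_lit 319439536) (nat_lit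 172) (nat_lit 5) (nat_lit 178) (nat_lit 5) (nat_lit 179) (nat_lit 5) (nat_lit 330) (nat_lit 311) (nat_lit 259)) (XT.lf (nat_lit 0) (nat_lit 3139650254) (nat_lit 532) (nat_lit 584905968) (nat_lit 76) (nat_lit 8563667678) (nat_lit 171) (nat_lit 5) (nat_lit 178) (nat_lit 5) (nat_lit 172) (nat_lit 5) (nat_lit 331) (nat_lit 311) (nat_lit 258)))) (XT.nd (nat_lit 78) (nat_lit 988) (nat_lit 0) (XT.lf (nat_lit 0) (nat_lit 6850791501) (nat_lit 532) (nat_lit 1632135497) (nat_lit 76) (nat_lit 4143035482) (nat_lit 165) (nat_lit 5) (nat_lit 172) (nat_lit 5) (nat_lit 166) (nat_lit 5) (nat_lit 332) (nat_lit 311) (nat_lit 257)) (XT.nd (nat_lit 78) (nat_lit 532) (nat_lit 0) (XT.lf (nat_lit 0) (nat_lit 10277170077) (nat_lit 456) (nat_lit 553904694) (nat_lit 532) (nat_lit 2147037731) (nat_lit 159) (nat_lit 5) (nat_lit 165) (nat_lit 5) (nat_lit 166) (nat_lit 5) (nat_lit 333) (nat_lit 311) (nat_lit 256)) (XT.lf (nat_lit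 0) (nat_lit 1757557482) (nat_lit 532) (nat_lit 3850632680) (nat_lit 76) (nat_lit 7735405174) (nat_lit 152) (nat_lit 5) (nat_lit 159) (nat_lit 5) (nat_lit 153) (nat_lit 5) (nat_lit 334) (nat_lit 311) (nat_lit 255))))) (XT.nd (nat_lit 234) (nat_lit 1064) (nat_lit 0) (XT.nd (nat_lit 78) (nat_lit 912) (nat_lit 0) (XT.lf (nat_lit 0) (nat_lit 5902534299) (nat_lit 456) (nat_lit 5051144295) (nat_lit 76) (nat_lit 2770377540) (nat_lit 147) (nat_lit 5) (nat_lit 153) (nat_lit 5) (nat_lit 148) (nat_lit 5) (nat_lit 335) (nat_lit 311) (nat_lit 254)) (XT.nd (nat_lit 78) (nat_lit 456) (nat_lit 0) (XT.lf (nat_lit 0) (nat_lit 7808719364) (nat_lit 456) (nat_lit 2564293547) (nat_lit 532) (nat_lit 3747006361) (nat_lit 141) (nat_lit 5) (nat_lit 147) (nat_lit 5) (nat_lit 148) (nat_lit 5) (nat_lit 336) (nat_lit 311) (nat_lit 253)) (XT.lf (nat_lit 0) (nat_lit 649206467) (nat_lit 456) (nat_lit 7648457203) (nat_lit 76)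 (nat_lit 6234138425) (nat_lit 135) (nat_lit 5) (nat_lit 141) (nat_lit 5) (nat_lit 136) (nat_lit 5) (nat_lit 337) (nat_lit 311) (nat_lit 252)))) (XT.nd (nat_lit 78) (nat_lit 684) (nat_lit 0) (XT.lf (nat_lit 0) (nat_lit 5292065582) (nat_lit 456) (nat_lit 9073960586) (nat_lit 76) (nat_lit 593928711) (nat_lit 130) (nat_lit 5) (nat_lit 136) (nat_lit 5) (nat_lit 131) (nat_lit 5) (nat_lit 338) (nat_lit 311) (nat_lit 251)) (XT.nd (nat_lit 78) (nat_lit 380) (nat_lit 0) (XT.lf (nat_lit 0) (nat_lit 4793392463) (nat_lit 304) (nat_lit 5534301844) (nat_lit 380) (nat_lit 5077024746) (nat_lit 126) (nat_lit 5) (nat_lit 130) (nat_lit 5) (nat_lit 131) (nat_lit 5) (nat_lit 339) (nat_lit 311) (nat_lit 250)) (XT.lf (nat_lit 0) (nat_lit 3644202836) (nat_lit 380) (nat_lit 12089041655) (nat_lit 456) (nat_lit 134954221) (nat_lit 121) (nat_lit 5) (nat_lit 126) (nat_lit 5) (nat_lit 127) (nat_lit 5) (nat_lit 340) (nat_lit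 311) (nat_lit 249)))))) (XT.nd (nat_lit 468) (nat_lit 1748) (nat_lit 0) (XT.nd (nat_lit 234) (nat_lit 912) (nat_lit 0) (XT.nd (nat_lit 78) (nat_lit 304) (nat_lit 0) (XT.lf (nat_lit 0) (nat_lit 2359260283) (nat_lit 304) (nat_lit 2739191418) (nat_lit 380) (nat_lit 11250677246) (nat_lit 116) (nat_lit 5) (nat_lit 120) (nat_lit 5) (nat_lit 121) (nat_lit 5) (nat_lit 341) (nat_lit 311) (nat_lit 248)) (XT.nd (nat_lit 78) (nat_lit 0) (nat_lit 0) (XT.lf (nat_lit 0) (nat_lit 961631772) (nat_lit 304) (nat_lit 9788923144) (nat_lit 380) (nat_lit 6098735063) (nat_lit 112) (nat_lit 5) (nat_lit 116) (nat_lit 5) (nat_lit 117) (nat_lit 5) (nat_lit 342) (nat_lit 311) (nat_lit 247)) (XT.lf (nat_lit 0) (nat_lit 16814090718) (nat_lit 380) (nat_lit 507714188) (nat_lit 76) (nat_lit 48807345) (nat_lit 112) (nat_lit 5) (nat_lit 117) (nat_lit 5) (nat_lit 113) (nat_lit 5) (nat_lit 343) (nat_lit 311) (nat_lit 246)))) (XT.nd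 (nat_lit 78) (nat_lit 532) (nat_lit 0) (XT.lf (nat_lit 0) (nat_lit 5371597606) (nat_lit 380) (nat_lit 2173451311) (nat_lit 76) (nat_lit 10365105960) (nat_lit 107) (nat_lit 5) (nat_lit 112) (nat_lit 5) (nat_lit 108) (nat_lit 5) (nat_lit 344) (nat_lit 311) (nat_lit 245)) (XT.nd (nat_lit 78) (nat_lit 228) (nat_lit 0) (XT.lf (nat_lit 0) (nat_lit 11717131332) (nat_lit 380) (nat_lit 3953934844) (nat_lit 76) (nat_lit 2801483466) (nat_lit 103) (nat_lit 5) (nat_lit 108) (nat_lit 5) (nat_lit 104) (nat_lit 5) (nat_lit 345) (nat_lit 311) (nat_lit 244)) (XT.lf (nat_lit 0) (nat_lit 13150504194) (nat_lit 228) (nat_lit 5415620454) (nat_lit 304) (nat_lit 491369117) (nat_lit 100) (nat_lit 5) (nat_lit 103) (nat_lit 5) (nat_lit 104) (nat_lit 5) (nat_lit 346) (nat_lit 311) (nat_lit 243))))) (XT.nd (nat_lit 234) (nat_lit 836) (nat_lit 0) (XT.nd (nat_lit 78) (nat_lit 532) (nat_lit 0) (XT.lf (nat_lit 0) (nat_lit 6135368721)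 (nat_lit 380) (nat_lit 8086581512) (nat_lit 76) (nat_lit 5442946482) (nat_lit 95) (nat_lit 5) (nat_lit 100) (nat_lit 5) (nat_lit 96) (nat_lit 5) (nat_lit 347) (nat_lit 311) (nat_lit 242)) (XT.nd (nat_lit 78) (nat_lit 304) (nat_lit 0) (XT.lf (nat_lit 0) (nat_lit 9835736770) (nat_lit 228) (nat_lit 3421304595) (nat_lit 304) (nat_lit 7040282992) (nat_lit 92) (nat_lit 5) (nat_lit 95) (nat_lit 5) (nat_lit 96) (nat_lit 5) (nat_lit 348) (nat_lit 311) (nat_lit 241)) (XT.lf (nat_lit 0) (nat_lit 7885472690) (nat_lit 304) (nat_lit 13049416172) (nat_lit 380) (nat_lit 20494452) (nat_lit 88) (nat_lit 5) (nat_lit 92) (nat_lit 5) (nat_lit 93) (nat_lit 5) (nat_lit 349) (nat_lit 311) (nat_lit 240)))) (XT.nd (nat_lit 78) (nat_lit 532) (nat_lit 0) (XT.lf (nat_lit 0) (nat_lit 5675030478) (nat_lit 228) (nat_lit 1694596246) (nat_lit 304) (nat_lit 14269727336) (nat_lit 84) (nat_lit 5) (nat_lit 87) (nat_lit 5) (nat_lit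 88) (nat_lit 5) (nat_lit 350) (nat_lit 311) (nat_lit 239)) (XT.nd (nat_lit 78) (nat_lit 304) (nat_lit 0) (XT.lf (nat_lit 0) (nat_lit 3185035045) (nat_lit 228) (nat_lit 12174510760) (nat_lit 304) (nat_lit 6991061135) (nat_lit 81) (nat_lit 5) (nat_lit 84) (nat_lit 5) (nat_lit 85) (nat_lit 5) (nat_lit 351) (nat_lit 311) (nat_lit 238)) (XT.lf (nat_lit 0) (nat_lit 463796459) (nat_lit 228) (nat_lit 329240034) (nat_lit 304) (nat_lit 22299582039) (nat_lit 77) (nat_lit 5) (nat_lit 80) (nat_lit 5) (nat_lit 81) (nat_lit 5) (nat_lit 352) (nat_lit 311) (nat_lit 237))))))))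
noncomputable def xc70 : XT := (XT.nd (nat_lit 1794) (nat_lit 1216) (nat_lit 0) (XT.nd (nat_lit 858) (nat_lit 1444) (nat_lit 0) (XT.nd (nat_lit 390) (nat_lit 988) (nat_lit 0) (XT.nd (nat_lit 156) (nat_lit 608) (nat_lit 0) (XT.nd (nat_lit 78) (nat_lit 228) (nat_lit 0) (XT.lf (nat_lit 0) (nat_lit 9106321644) (nat_lit 304) (nat_lit 2632082639) (nat_lit 76) (nat_lit 12122722636) (nat_lit 77) (nat_lit 5) (nat_lit 81) (nat_lit 5) (nat_lit 78) (nat_lit 5) (nat_lit 353) (nat_lit 311) (nat_lit 236)) (XT.lf (nat_lit 0) (nat_lit 17993861920) (nat_lit 304) (nat_lit 5994528714) (nat_lit 76) (nat_lit 674921722) (nat_lit 74) (nat_lit 5) (nat_lit 78) (nat_lit 5) (nat_lit 75) (nat_lit 5) (nat_lit 354) (nat_lit 311) (nat_lit 235))) (XT.nd (nat_lit 78) (nat_lit 380) (nat_lit 0) (XT.lf (nat_lit 0) (nat_lit 2054228801) (nat_lit 228) (nat_lit 9794058256) (nat_lit 76) (nat_lit 13648716519) (nat_lit 71) (nat_lit 5)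 (nat_lit 74) (nat_lit 5) (nat_lit 72) (nat_lit 5) (nat_lit 355) (nat_lit 311) (nat_lit 234)) (XT.nd (nat_lit 78) (nat_lit 152) (nat_lit 0) (XT.lf (nat_lit 0) (nat_lit 11240162429) (nat_lit 304) (nat_lit 14011812658) (nat_lit 76) (nat_lit 1113511338) (nat_lit 68) (nat_lit 5) (nat_lit 72) (nat_lit 5) (nat_lit 69) (nat_lit 5) (nat_lit 356) (nat_lit 311) (nat_lit 233)) (XT.lf (nat_lit 0) (nat_lit 8537335385) (nat_lit 152) (nat_lit 12622924659) (nat_lit 228) (nat_lit 6108895199) (nat_lit 66) (nat_lit 5) (nat_lit 68) (nat_lit 5) (nat_lit 69) (nat_lit 5) (nat_lit 357) (nat_lit 311) (nat_lit 232))))) (XT.nd (nat_lit 234) (nat_lit 532) (nat_lit 0) (XT.nd (nat_lit 78) (nat_lit 152) (nat_lit 0) (XT.lf (nat_lit 0) (nat_lit 3459932747) (nat_lit 304) (nat_lit 23924161379) (nat_lit 76) (nat_lit 827938816) (nat_lit 62) (nat_lit 5) (nat_lit 66) (nat_lit 5) (nat_lit 63) (nat_lit 5) (nat_lit 358) (nat_lit 311)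 (nat_lit 231)) (XT.nd (nat_lit 78) (nat_lit 152) (nat_lit 0) (XT.lf (nat_lit 0) (nat_lit 13676922428) (nat_lit 304) (nat_lit 583509544) (nat_lit 76) (nat_lit 14930933093) (nat_lit 62) (nat_lit 5) (nat_lit 66) (nat_lit 5) (nat_lit 63) (nat_lit 5) (nat_lit 359) (nat_lit 311) (nat_lit 230)) (XT.lf (nat_lit 0) (nat_lit 24355385354) (nat_lit 152) (nat_lit 257537228) (nat_lit 228) (nat_lit 5600502962) (nat_lit 60) (nat_lit 5) (nat_lit 62) (nat_lit 5) (nat_lit 63) (nat_lit 5) (nat_lit 360) (nat_lit 311) (nat_lit 229)))) (XT.nd (nat_lit 78) (nat_lit 304) (nat_lit 0) (XT.lf (nat_lit 0) (nat_lit 5025048353) (nat_lit 228) (nat_lit 11862122827) (nat_lit 76) (nat_lit 14388744357) (nat_lit 57) (nat_lit 5) (nat_lit 60) (nat_lit 5) (nat_lit 58) (nat_lit 5) (nat_lit 361) (nat_lit 311) (nat_lit 228)) (XT.nd (nat_lit 78) (nat_lit 152) (nat_lit 0) (XT.lf (nat_lit 0) (nat_lit 13849814603) (nat_lit 152) (nat_lit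 2389193650) (nat_lit 228) (nat_lit 16145675316) (nat_lit 55) (nat_lit 5) (nat_lit 57) (nat_lit 5) (nat_lit 58) (nat_lit 5) (nat_lit 362) (nat_lit 311) (nat_lit 227)) (XT.lf (nat_lit 0) (nat_lit 7530408322) (nat_lit 152) (nat_lit 20778190549) (nat_lit 228) (nat_lit 5231448670) (nat_lit 53) (nat_lit 5) (nat_lit 55) (nat_lit 5) (nat_lit 56) (nat_lit 5) (nat_lit 363) (nat_lit 311) (nat_lit 226)))))) (XT.nd (nat_lit 468) (nat_lit 684) (nat_lit 0) (XT.nd (nat_lit 234) (nat_lit 380) (nat_lit 0) (XT.nd (nat_lit 78) (nat_lit 152) (nat_lit 0) (XT.lf (nat_lit 0) (nat_lit 419895163) (nat_lit 152) (nat_lit 5884276578) (nat_lit 228) (nat_lit 28441300231) (nat_lit 50) (nat_lit 5) (nat_lit 52) (nat_lit 5) (nat_lit 53) (nat_lit 5) (nat_lit 364) (nat_lit 311) (nat_lit 225)) (XT.nd (nat_lit 78) (nat_lit 152) (nat_lit 0) (XT.lf (nat_lit 0) (nat_lit 18650503295) (nat_lit 228) (nat_lit 7478506405) (nat_lit 76) (nat_lit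 9870345156) (nat_lit 50) (nat_lit 5) (nat_lit 53) (nat_lit 5) (nat_lit 51) (nat_lit 5) (nat_lit 365) (nat_lit 311) (nat_lit 224)) (XT.lf (nat_lit 0) (nat_lit 21023110757) (nat_lit 152) (nat_lit 10830573281) (nat_lit 228) (nat_lit 5455066496) (nat_lit 48) (nat_lit 5) (nat_lit 50) (nat_lit 5) (nat_lit 51) (nat_lit 5) (nat_lit 366) (nat_lit 311) (nat_lit 223)))) (XT.nd (nat_lit 78) (nat_lit 152) (nat_lit 0) (XT.lf (nat_lit 0) (nat_lit 7125977033) (nat_lit 228) (nat_lit 26165463099) (nat_lit 76) (nat_lit 5383257373) (nat_lit 45) (nat_lit 5) (nat_lit 48) (nat_lit 5) (nat_lit 46) (nat_lit 5) (nat_lit 367) (nat_lit 311) (nat_lit 222)) (XT.nd (nat_lit 78) (nat_lit 0) (nat_lit 0) (XT.lf (nat_lit 0) (nat_lit 2832131241) (nat_lit 152) (nat_lit 17677054079) (nat_lit 228) (nat_lit 19589562311) (nat_lit 43) (nat_lit 5) (nat_lit 45) (nat_lit 5) (nat_lit 46) (nat_lit 5) (nat_lit 368) (nat_lit 311) (nat_lit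 221)) (XT.lf (nat_lit 0) (nat_lit 33790096558) (nat_lit 152) (nat_lit 1020494255) (nat_lit 228) (nat_lit 6775942230) (nat_lit 43) (nat_lit 5) (nat_lit 45) (nat_lit 5) (nat_lit 46) (nat_lit 5) (nat_lit 369) (nat_lit 311) (nat_lit 220))))) (XT.nd (nat_lit 234) (nat_lit 380) (nat_lit 0) (XT.nd (nat_lit 78) (nat_lit 152) (nat_lit 0) (XT.lf (nat_lit 0) (nat_lit 6915494150) (nat_lit 152) (nat_lit 19794822598) (nat_lit 76) (nat_lit 16425445048) (nat_lit 41) (nat_lit 5) (nat_lit 43) (nat_lit 5) (nat_lit 42) (nat_lit 5) (nat_lit 370) (nat_lit 311) (nat_lit 219)) (XT.nd (nat_lit 78) (nat_lit 0) (nat_lit 0) (XT.lf (nat_lit 0) (nat_lit 11549570144) (nat_lit 152) (nat_lit 9786390121) (nat_lit 228) (nat_lit 23418944641) (nat_lit 39) (nat_lit 5) (nat_lit 41) (nat_lit 5) (nat_lit 42) (nat_lit 5) (nat_lit 371) (nat_lit 311) (nat_lit 218)) (XT.lf (nat_lit 0) (nat_lit 36741344797) (nat_lit 228) (nat_lit 1686626993)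 (nat_lit 76) (nat_lit 8019119785) (nat_lit 39) (nat_lit 5) (nat_lit 42) (nat_lit 5) (nat_lit 40) (nat_lit 4) (nat_lit 372) (nat_lit 311) (nat_lit 217)))) (XT.nd (nat_lit 78) (nat_lit 228) (nat_lit 0) (XT.lf (nat_lit 0) (nat_lit 4993031070) (nat_lit 152) (nat_lit 16361696858) (nat_lit 76) (nat_lit 26856064280) (nat_lit 37) (nat_lit 5) (nat_lit 39) (nat_lit 5) (nat_lit 38) (nat_lit 5) (nat_lit 373) (nat_lit 311) (nat_lit 216)) (XT.nd (nat_lit 78) (nat_lit 76) (nat_lit 0) (XT.lf (nat_lit 0) (nat_lit 17241374538) (nat_lit 152) (nat_lit 3152400019) (nat_lit 228) (nat_lit 29660990594) (nat_lit 35) (nat_lit 5) (nat_lit 37) (nat_lit 5) (nat_lit 38) (nat_lit 5) (nat_lit 374) (nat_lit 311) (nat_lit 215)) (XT.lf (nat_lit 0) (nat_lit 708269523) (nat_lit 76) (nat_lit 36169629129) (nat_lit 152) (nat_lit 15103640517) (nat_lit 34) (nat_lit 5) (nat_lit 35) (nat_lit 5) (nat_lit 36) (nat_lit 4) (nat_lit 375) (nat_lit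 311) (nat_lit 214))))))) (XT.nd (nat_lit 936) (nat_lit 304) (nat_lit 0) (XT.nd (nat_lit 468) (nat_lit 380) (nat_lit 0) (XT.nd (nat_lit 234) (nat_lit 304) (nat_lit 0) (XT.nd (nat_lit 78) (nat_lit 152) (nat_lit 0) (XT.lf (nat_lit 0) (nat_lit 534354339) (nat_lit 152) (nat_lit 17470245268) (nat_lit 76) (nat_lit 35989312828) (nat_lit 33) (nat_lit 5) (nat_lit 35) (nat_lit 5) (nat_lit 34) (nat_lit 5) (nat_lit 376) (nat_lit 311) (nat_lit 213)) (XT.nd (nat_lit 78) (nat_lit 0) (nat_lit 0) (XT.lf (nat_lit 0) (nat_lit 16817253603) (nat_lit 228) (nat_lit 37914464250) (nat_lit 76) (nat_lit 1365441552) (nat_lit 31) (nat_lit 5) (nat_lit 34) (nat_lit 5) (nat_lit 32) (nat_lit 4) (nat_lit 377) (nat_lit 311) (nat_lit 212)) (XT.lf (nat_lit 0) (nat_lit 34262167540) (nat_lit 228) (nat_lit 2528905973) (nat_lit 76) (nat_lit 21504061409) (nat_lit 31) (nat_lit 5) (nat_lit 34) (nat_lit 5) (nat_lit 32) (nat_lit 4) (nat_lit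 378) (nat_lit 311) (nat_lit 211)))) (XT.nd (nat_lit 78) (nat_lit 228) (nat_lit 0) (XT.lf (nat_lit 0) (nat_lit 35287287122) (nat_lit 76) (nat_lit 17616503578) (nat_lit 152) (nat_lit 7689486791) (nat_lit 30) (nat_lit 5) (nat_lit 31) (nat_lit 5) (nat_lit 32) (nat_lit 4) (nat_lit 379) (nat_lit 311) (nat_lit 210)) (XT.nd (nat_lit 78) (nat_lit 0) (nat_lit 0) (XT.lf (nat_lit 0) (nat_lit 9441497981) (nat_lit 228) (nat_lit 50865271182) (nat_lit 76) (nat_lit 2692174360) (nat_lit 27) (nat_lit 5) (nat_lit 30) (nat_lit 5) (nat_lit 28) (nat_lit 4) (nat_lit 380) (nat_lit 311) (nat_lit 209)) (XT.lf (nat_lit 0) (nat_lit 27698257034) (nat_lit 228) (nat_lit 13827212069) (nat_lit 76) (nat_lit 23984294006) (nat_lit 27) (nat_lit 5) (nat_lit 30) (nat_lit 5) (nat_lit 28) (nat_lit 4) (nat_lit 381) (nat_lit 311) (nat_lit 208))))) (XT.nd (nat_lit 234) (nat_lit 152) (nat_lit 0) (XT.nd (nat_lit 78) (nat_lit 152) (nat_lit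 0) (XT.lf (nat_lit 0) (nat_lit 25536026494) (nat_lit 76) (nat_lit 21563854868) (nat_lit 152) (nat_lit 21039283322) (nat_lit 26) (nat_lit 5) (nat_lit 27) (nat_lit 5) (nat_lit 28) (nat_lit 4) (nat_lit 382) (nat_lit 311) (nat_lit 207)) (XT.nd (nat_lit 78) (nat_lit 152) (nat_lit 0) (XT.lf (nat_lit 0) (nat_lit 67132068980) (nat_lit 76) (nat_lit 468822672) (nat_lit 152) (nat_lit 3295267285) (nat_lit 26) (nat_lit 5) (nat_lit 27) (nat_lit 5) (nat_lit 28) (nat_lit 4) (nat_lit 383) (nat_lit 311) (nat_lit 206)) (XT.lf (nat_lit 0) (nat_lit 15598730517) (nat_lit 152) (nat_lit 36410061590) (nat_lit 76) (nat_lit 21760928634) (nat_lit 24) (nat_lit 5) (nat_lit 26) (nat_lit 5) (nat_lit 25) (nat_lit 4) (nat_lit 384) (nat_lit 311) (nat_lit 205)))) (XT.nd (nat_lit 78) (nat_lit 76) (nat_lit 0) (XT.lf (nat_lit 0) (nat_lit 3846138685) (nat_lit 76) (nat_lit 31592345777) (nat_lit 152) (nat_lit 41345422691) (nat_lit 23)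 (nat_lit 5) (nat_lit 24) (nat_lit 5) (nat_lit 25) (nat_lit 4) (nat_lit 385) (nat_lit 311) (nat_lit 204)) (XT.nd (nat_lit 78) (nat_lit 76) (nat_lit 0) (XT.lf (nat_lit 0) (nat_lit 46853677535) (nat_lit 76) (nat_lit 9779466099) (nat_lit 152) (nat_lit 23304773187) (nat_lit 23) (nat_lit 5) (nat_lit 24) (nat_lit 5) (nat_lit 25) (nat_lit 4) (nat_lit 386) (nat_lit 311) (nat_lit 203)) (XT.lf (nat_lit 0) (nat_lit 8785734567) (nat_lit 76) (nat_lit 70300990277) (nat_lit 76) (nat_lit 4156927849) (nat_lit 22) (nat_lit 4) (nat_lit 23) (nat_lit 5) (nat_lit 23) (nat_lit 4) (nat_lit 387) (nat_lit 311) (nat_lit 202)))))) (XT.nd (nat_lit 41028) (nat_lit 0) (nat_lit 19228) (XT.nd (nat_lit 234) (nat_lit 152) (nat_lit 0) (XT.nd (nat_lit 78) (nat_lit 76) (nat_lit 0) (XT.lf (nat_lit 0) (nat_lit 16068563106) (nat_lit 152) (nat_lit 33540395046) (nat_lit 76) (nat_lit 37088175475) (nat_lit 21) (nat_lit 5) (nat_lit 23) (nat_lit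 5) (nat_lit 22) (nat_lit 4) (nat_lit 388) (nat_lit 311) (nat_lit 201)) (XT.nd (nat_lit 78) (nat_lit 0) (nat_lit 0) (XT.lf (nat_lit 0) (nat_lit 9547230206) (nat_lit 76) (nat_lit 27754043311) (nat_lit 152) (nat_lit 53018324090) (nat_lit 20) (nat_lit 5) (nat_lit 21) (nat_lit 5) (nat_lit 22) (nat_lit 4) (nat_lit 389) (nat_lit 311) (nat_lit 200)) (XT.lf (nat_lit 0) (nat_lit 55470591057) (nat_lit 76) (nat_lit 4459960328) (nat_lit 152) (nat_lit 34182586609) (nat_lit 20) (nat_lit 5) (nat_lit 21) (nat_lit 5) (nat_lit 22) (nat_lit 4) (nat_lit 390) (nat_lit 311) (nat_lit 199)))) (XT.nd (nat_lit 78) (nat_lit 76) (nat_lit 0) (XT.lf (nat_lit 0) (nat_lit 5489826969) (nat_lit 76) (nat_lit 78436549838) (nat_lit 76) (nat_lit 14162927195) (nat_lit 19) (nat_lit 4) (nat_lit 20) (nat_lit 5) (nat_lit 20) (nat_lit 4) (nat_lit 391) (nat_lit 311) (nat_lit 198)) (XT.nd (nat_lit 40638) (nat_lit 0) (nat_lit 20140) (XT.lf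 (nat_lit 0) (nat_lit 7160913152) (nat_lit 152) (nat_lit 49749361977) (nat_lit 76) (nat_lit 45338916091) (nat_lit 18) (nat_lit 5) (nat_lit 20) (nat_lit 5) (nat_lit 19) (nat_lit 4) (nat_lit 392) (nat_lit 311) (nat_lit 197)) (XT.lf (nat_lit 0) (nat_lit 2351590574) (nat_lit 988) (nat_lit 855432814) (nat_lit 988) (nat_lit 855432814) (nat_lit 283) (nat_lit 3) (nat_lit 296) (nat_lit 3) (nat_lit 296) (nat_lit 5) (nat_lit 312) (nat_lit 312) (nat_lit 276))))) (XT.nd (nat_lit 234) (nat_lit 0) (nat_lit 76) (XT.nd (nat_lit 78) (nat_lit 912) (nat_lit 0) (XT.lf (nat_lit 76) (nat_lit 4819238317) (nat_lit 0) (nat_lit 1896775445) (nat_lit 988) (nat_lit 1553766567) (nat_lit 284) (nat_lit 5) (nat_lit 283) (nat_lit 3) (nat_lit 296) (nat_lit 5) (nat_lit 313) (nat_lit 312) (nat_lit 275)) (XT.nd (nat_lit 78) (nat_lit 0) (nat_lit 0) (XT.lf (nat_lit 0) (nat_lit 357216170) (nat_lit 988) (nat_lit 5166842345) (nat_lit 1064)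 (nat_lit 2899075227) (nat_lit 271) (nat_lit 5) (nat_lit 284) (nat_lit 5) (nat_lit 285) (nat_lit 5) (nat_lit 314) (nat_lit 312) (nat_lit 274)) (XT.lf (nat_lit 76) (nat_lit 1718973677) (nat_lit 0) (nat_lit 569884305) (nat_lit 1064) (nat_lit 6296200705) (nat_lit 272) (nat_lit 5) (nat_lit 271) (nat_lit 5) (nat_lit 285) (nat_lit 5) (nat_lit 315) (nat_lit 312) (nat_lit 273)))) (XT.nd (nat_lit 78) (nat_lit 0) (nat_lit 76) (XT.lf (nat_lit 76) (nat_lit 193532688) (nat_lit 0) (nat_lit 4114318125) (nat_lit 1064) (nat_lit 4447584765) (nat_lit 273) (nat_lit 5) (nat_lit 272) (nat_lit 5) (nat_lit 286) (nat_lit 5) (nat_lit 316) (nat_lit 312) (nat_lit 272)) (XT.nd (nat_lit 78) (nat_lit 0) (nat_lit 0) (XT.lf (nat_lit 0) (nat_lit 6411682336) (nat_lit 988) (nat_lit 1270581621) (nat_lit 1064) (nat_lit 1252625700) (nat_lit 273) (nat_lit 5) (nat_lit 286) (nat_lit 5) (nat_lit 287) (nat_lit 5) (nat_lit 317) (nat_lit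 312) (nat_lit 271)) (XT.lf (nat_lit 76) (nat_lit 6401677920) (nat_lit 0) (nat_lit 2222660317) (nat_lit 1064) (nat_lit 498940662) (nat_lit 274) (nat_lit 5) (nat_lit 273) (nat_lit 5) (nat_lit 287) (nat_lit 5) (nat_lit 318) (nat_lit 312) (nat_lit 270))))))))
noncomputable def xc71 : XT := (XT.nd (nat_lit 1872) (nat_lit 5016) (nat_lit 0) (XT.nd (nat_lit 936) (nat_lit 4712) (nat_lit 0) (XT.nd (nat_lit 468) (nat_lit 4104) (nat_lit 0) (XT.nd (nat_lit 234) (nat_lit 2128) (nat_lit 0) (XT.nd (nat_lit 78) (nat_lit 0) (nat_lit 76) (XT.lf (nat_lit 0) (nat_lit 1596285231) (nat_lit 1064) (nat_lit 4174811430) (nat_lit 1140) (nat_lit 3549543374) (nat_lit 260) (nat_lit 5) (nat_lit 274) (nat_lit 5) (nat_lit 275) (nat_lit 5) (nat_lit 319) (nat_lit 312) (nat_lit 269)) (XT.nd (nat_lit 78) (nat_lit 0) (nat_lit 0) (XT.lf (nat_lit 0) (nat_lit 3783612754) (nat_lit 1064) (nat_lit 5612282171) (nat_lit 1140) (nat_lit 131959242)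 (nat_lit 261) (nat_lit 5) (nat_lit 275) (nat_lit 5) (nat_lit 276) (nat_lit 5) (nat_lit 320) (nat_lit 312) (nat_lit 268)) (XT.lf (nat_lit 76) (nat_lit 2677935844) (nat_lit 0) (nat_lit 3441614445) (nat_lit 1140) (nat_lit 3624761325) (nat_lit 262) (nat_lit 5) (nat_lit 261) (nat_lit 5) (nat_lit 276) (nat_lit 5) (nat_lit 321) (nat_lit 312) (nat_lit 267)))) (XT.nd (nat_lit 78) (nat_lit 1216) (nat_lit 0) (XT.lf (nat_lit 0) (nat_lit 1461009133) (nat_lit 1064) (nat_lit 7126249491) (nat_lit 1140) (nat_lit 1383941155) (nat_lit 248) (nat_lit 5) (nat_lit 262) (nat_lit 5) (nat_lit 263) (nat_lit 5) (nat_lit 322) (nat_lit 312) (nat_lit 266)) (XT.nd (nat_lit 78) (nat_lit 0) (nat_lit 0) (XT.lf (nat_lit 0) (nat_lit 245523449) (nat_lit 1140) (nat_lit 733129178) (nat_lit 1216) (nat_lit 9229693880) (nat_lit 232) (nat_lit 5) (nat_lit 247) (nat_lit 5) (nat_lit 248) (nat_lit 5) (nat_lit 323) (nat_lit 312) (nat_lit 265))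 (XT.lf (nat_lit 0) (nat_lit 3498408699) (nat_lit 1216) (nat_lit 980371945) (nat_lit 76) (nat_lit 5976179472) (nat_lit 232) (nat_lit 5) (nat_lit 248) (nat_lit 5) (nat_lit 233) (nat_lit 5) (nat_lit 324) (nat_lit 312) (nat_lit 264))))) (XT.nd (nat_lit 234) (nat_lit 1672) (nat_lit 0) (XT.nd (nat_lit 78) (nat_lit 1216) (nat_lit 0) (XT.lf (nat_lit 0) (nat_lit 6181780826) (nat_lit 1292) (nat_lit 2192767859) (nat_lit 76) (nat_lit 2338274729) (nat_lit 216) (nat_lit 5) (nat_lit 233) (nat_lit 5) (nat_lit 217) (nat_lit 5) (nat_lit 325) (nat_lit 312) (nat_lit 263)) (XT.nd (nat_lit 78) (nat_lit 608) (nat_lit 0) (XT.lf (nat_lit 0) (nat_lit 7567880645) (nat_lit 608) (nat_lit 1487768365) (nat_lit 684) (nat_lit 1926286624) (nat_lit 208) (nat_lit 5) (nat_lit 216) (nat_lit 5) (nat_lit 217) (nat_lit 5) (nat_lit 326) (nat_lit 312) (nat_lit 262)) (XT.lf (nat_lit 0) (nat_lit 866104893) (nat_lit 608) (nat_lit 4666286919)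 (nat_lit 76) (nat_lit 5729725228) (nat_lit 200) (nat_lit 5) (nat_lit 208) (nat_lit 5) (nat_lit 201) (nat_lit 5) (nat_lit 327) (nat_lit 312) (nat_lit 261)))) (XT.nd (nat_lit 78) (nat_lit 1064) (nat_lit 0) (XT.lf (nat_lit 0) (nat_lit 3813882064) (nat_lit 684) (nat_lit 5941773714) (nat_lit 76) (nat_lit 1798451571) (nat_lit 192) (nat_lit 5) (nat_lit 201) (nat_lit 5) (nat_lit 193) (nat_lit 5) (nat_lit 328) (nat_lit 312) (nat_lit 260)) (XT.nd (nat_lit 78) (nat_lit 532) (nat_lit 0) (XT.lf (nat_lit 0) (nat_lit 4609859865) (nat_lit 532) (nat_lit 2383384151) (nat_lit 608) (nat_lit 4864965507) (nat_lit 185) (nat_lit 5) (nat_lit 192) (nat_lit 5) (nat_lit 193) (nat_lit 5) (nat_lit 329) (nat_lit 312) (nat_lit 259)) (XT.lf (nat_lit 0) (nat_lit 3588609712) (nat_lit 532) (nat_lit 6828679614) (nat_lit 608) (nat_lit 1757692429) (nat_lit 178) (nat_lit 5) (nat_lit 185) (nat_lit 5) (nat_lit 186) (nat_lit 5) (nat_lit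 330) (nat_lit 312) (nat_lit 258)))))) (XT.nd (nat_lit 468) (nat_lit 2356) (nat_lit 0) (XT.nd (nat_lit 234) (nat_lit 912) (nat_lit 0) (XT.nd (nat_lit 78) (nat_lit 912) (nat_lit 0) (XT.lf (nat_lit 0) (nat_lit 1549023683) (nat_lit 532) (nat_lit 9957077630) (nat_lit 76) (nat_lit 998887566) (nat_lit 171) (nat_lit 5) (nat_lit 178) (nat_lit 5) (nat_lit 172) (nat_lit 5) (nat_lit 331) (nat_lit 312) (nat_lit 257)) (XT.nd (nat_lit 78) (nat_lit 456) (nat_lit 0) (XT.lf (nat_lit 0) (nat_lit 1444128210) (nat_lit 456) (nat_lit 3654853171) (nat_lit 532) (nat_lit 7748597225) (nat_lit 165) (nat_lit 5) (nat_lit 171) (nat_lit 5) (nat_lit 172) (nat_lit 5) (nat_lit 332) (nat_lit 312) (nat_lit 256)) (XT.lf (nat_lit 0) (nat_lit 314508866) (nat_lit 456) (nat_lit 8606502114) (nat_lit 532) (nat_lit 4283480152) (nat_lit 159) (nat_lit 5) (nat_lit 165) (nat_lit 5) (nat_lit 166) (nat_lit 5) (nat_lit 333) (nat_lit 312) (nat_lit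 255)))) (XT.nd (nat_lit 78) (nat_lit 912) (nat_lit 0) (XT.lf (nat_lit 0) (nat_lit 12755179028) (nat_lit 456) (nat_lit 278860241) (nat_lit 532) (nat_lit 542242175) (nat_lit 159) (nat_lit 5) (nat_lit 165) (nat_lit 5) (nat_lit 166) (nat_lit 5) (nat_lit 334) (nat_lit 312) (nat_lit 254)) (XT.nd (nat_lit 78) (nat_lit 380) (nat_lit 0) (XT.lf (nat_lit 0) (nat_lit 3466003713) (nat_lit 532) (nat_lit 2055780772) (nat_lit 76) (nat_lit 8439546606) (nat_lit 152) (nat_lit 5) (nat_lit 159) (nat_lit 5) (nat_lit 153) (nat_lit 5) (nat_lit 335) (nat_lit 312) (nat_lit 253)) (XT.lf (nat_lit 0) (nat_lit 7763157656) (nat_lit 456) (nat_lit 3329181564) (nat_lit 76) (nat_lit 3270167240) (nat_lit 147) (nat_lit 5) (nat_lit 153) (nat_lit 5) (nat_lit 148) (nat_lit 5) (nat_lit 336) (nat_lit 312) (nat_lit 252))))) (XT.nd (nat_lit 234) (nat_lit 1064) (nat_lit 0) (XT.nd (nat_lit 78) (nat_lit 836) (nat_lit 0) (XT.lf (nat_lit 0)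 (nat_lit 10117076060) (nat_lit 456) (nat_lit 2283972906) (nat_lit 532) (nat_lit 2378939629) (nat_lit 141) (nat_lit 5) (nat_lit 147) (nat_lit 5) (nat_lit 148) (nat_lit 5) (nat_lit 337) (nat_lit 312) (nat_lit 251)) (XT.nd (nat_lit 78) (nat_lit 380) (nat_lit 0) (XT.lf (nat_lit 0) (nat_lit 2156369100) (nat_lit 456) (nat_lit 6096995496) (nat_lit 76) (nat_lit 6960092980) (nat_lit 135) (nat_lit 5) (nat_lit 141) (nat_lit 5) (nat_lit 136) (nat_lit 5) (nat_lit 338) (nat_lit 312) (nat_lit 250)) (XT.lf (nat_lit 0) (nat_lit 6983586597) (nat_lit 456) (nat_lit 7610254412) (nat_lit 76) (nat_lit 1070643555) (nat_lit 130) (nat_lit 5) (nat_lit 136) (nat_lit 5) (nat_lit 131) (nat_lit 5) (nat_lit 339) (nat_lit 312) (nat_lit 249)))) (XT.nd (nat_lit 78) (nat_lit 760) (nat_lit 0) (XT.lf (nat_lit 0) (nat_lit 6895504283) (nat_lit 304) (nat_lit 5325446946) (nat_lit 380) (nat_lit 3912068538) (nat_lit 126) (nat_lit 5) (nat_lit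 130) (nat_lit 5) (nat_lit 131) (nat_lit 5) (nat_lit 340) (nat_lit 312) (nat_lit 248)) (XT.nd (nat_lit 78) (nat_lit 304) (nat_lit 0) (XT.lf (nat_lit 0) (nat_lit 1208343392) (nat_lit 456) (nat_lit 10961183320) (nat_lit 76) (nat_lit 4451122726) (nat_lit 120) (nat_lit 5) (nat_lit 126) (nat_lit 5) (nat_lit 121) (nat_lit 5) (nat_lit 341) (nat_lit 312) (nat_lit 247)) (XT.lf (nat_lit 0) (nat_lit 4296194379) (nat_lit 304) (nat_lit 2357788979) (nat_lit 380) (nat_lit 10473029795) (nat_lit 116) (nat_lit 5) (nat_lit 120) (nat_lit 5) (nat_lit 121) (nat_lit 5) (nat_lit 342) (nat_lit 312) (nat_lit 246))))))) (XT.nd (nat_lit 936) (nat_lit 2052) (nat_lit 0) (XT.nd (nat_lit 468) (nat_lit 1368) (nat_lit 0) (XT.nd (nat_lit 234) (nat_lit 912) (nat_lit 0) (XT.nd (nat_lit 78) (nat_lit 380) (nat_lit 0) (XT.lf (nat_lit 0) (nat_lit 2810141932) (nat_lit 304) (nat_lit 9738668393) (nat_lit 380) (nat_lit 5104594733) (nat_lit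 112) (nat_lit 5) (nat_lit 116) (nat_lit 5) (nat_lit 117) (nat_lit 5) (nat_lit 343) (nat_lit 312) (nat_lit 245)) (XT.nd (nat_lit 78) (nat_lit 0) (nat_lit 0) (XT.lf (nat_lit 0) (nat_lit 657130296) (nat_lit 380) (nat_lit 16971236086) (nat_lit 76) (nat_lit 573554908) (nat_lit 107) (nat_lit 5) (nat_lit 112) (nat_lit 5) (nat_lit 108) (nat_lit 5) (nat_lit 344) (nat_lit 312) (nat_lit 244)) (XT.lf (nat_lit 0) (nat_lit 6816704532) (nat_lit 380) (nat_lit 562024495) (nat_lit 76) (nat_lit 11391173181) (nat_lit 107) (nat_lit 5) (nat_lit 112) (nat_lit 5) (nat_lit 108) (nat_lit 5) (nat_lit 345) (nat_lit 312) (nat_lit 243)))) (XT.nd (nat_lit 78) (nat_lit 608) (nat_lit 0) (XT.lf (nat_lit 0) (nat_lit 13444685882) (nat_lit 380) (nat_lit 2451434502) (nat_lit 76) (nat_lit 3465363324) (nat_lit 103) (nat_lit 5) (nat_lit 108) (nat_lit 5) (nat_lit 104) (nat_lit 5) (nat_lit 346) (nat_lit 312) (nat_lit 242)) (XT.nd (nat_lit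 78) (nat_lit 304) (nat_lit 0) (XT.lf (nat_lit 0) (nat_lit 608672513) (nat_lit 304) (nat_lit 4523327557) (nat_lit 76) (nat_lit 14844671767) (nat_lit 99) (nat_lit 5) (nat_lit 103) (nat_lit 5) (nat_lit 100) (nat_lit 5) (nat_lit 347) (nat_lit 312) (nat_lit 241)) (XT.lf (nat_lit 0) (nat_lit 7524513737) (nat_lit 380) (nat_lit 6837419325) (nat_lit 76) (nat_lit 6253347541) (nat_lit 95) (nat_lit 5) (nat_lit 100) (nat_lit 5) (nat_lit 96) (nat_lit 5) (nat_lit 348) (nat_lit 312) (nat_lit 240))))) (XT.nd (nat_lit 234) (nat_lit 532) (nat_lit 0) (XT.nd (nat_lit 78) (nat_lit 608) (nat_lit 0) (XT.lf (nat_lit 0) (nat_lit 11933617876) (nat_lit 228) (nat_lit 3032549155) (nat_lit 304) (nat_lit 6314264240) (nat_lit 92) (nat_lit 5) (nat_lit 95) (nat_lit 5) (nat_lit 96) (nat_lit 5) (nat_lit 349) (nat_lit 312) (nat_lit 239)) (XT.nd (nat_lit 78) (nat_lit 228) (nat_lit 0) (XT.lf (nat_lit 0) (nat_lit 1006133415) (nat_lit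 380) (nat_lit 12116734482) (nat_lit 76) (nat_lit 8849130678) (nat_lit 87) (nat_lit 5) (nat_lit 92) (nat_lit 5) (nat_lit 88) (nat_lit 5) (nat_lit 350) (nat_lit 312) (nat_lit 238)) (XT.lf (nat_lit 0) (nat_lit 7519197829) (nat_lit 228) (nat_lit 1212226735) (nat_lit 304) (nat_lit 13959770913) (nat_lit 84) (nat_lit 5) (nat_lit 87) (nat_lit 5) (nat_lit 88) (nat_lit 5) (nat_lit 351) (nat_lit 312) (nat_lit 237)))) (XT.nd (nat_lit 78) (nat_lit 304) (nat_lit 0) (XT.lf (nat_lit 0) (nat_lit 4883941295) (nat_lit 228) (nat_lit 12209589339) (nat_lit 304) (nat_lit 6345315197) (nat_lit 81) (nat_lit 5) (nat_lit 84) (nat_lit 5) (nat_lit 85) (nat_lit 5) (nat_lit 352) (nat_lit 312) (nat_lit 236)) (XT.nd (nat_lit 78) (nat_lit 0) (nat_lit 0) (XT.lf (nat_lit 0) (nat_lit 1778818067) (nat_lit 304) (nat_lit 22219140075) (nat_lit 76) (nat_lit 220619648) (nat_lit 77) (nat_lit 5) (nat_lit 81) (nat_lit 5) (nat_lit 78) (nat_lit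 5) (nat_lit 353) (nat_lit 312) (nat_lit 235)) (XT.lf (nat_lit 0) (nat_lit 10465878534) (nat_lit 304) (nat_lit 1299115341) (nat_lit 76) (nat_lit 13261788094) (nat_lit 77) (nat_lit 5) (nat_lit 81) (nat_lit 5) (nat_lit 78) (nat_lit 5) (nat_lit 354) (nat_lit 312) (nat_lit 234)))))) (XT.nd (nat_lit 468) (nat_lit 760) (nat_lit 0) (XT.nd (nat_lit 234) (nat_lit 608) (nat_lit 0) (XT.nd (nat_lit 78) (nat_lit 456) (nat_lit 0) (XT.lf (nat_lit 0) (nat_lit 19773676688) (nat_lit 304) (nat_lit 4850423796) (nat_lit 76) (nat_lit 1245712819) (nat_lit 74) (nat_lit 5) (nat_lit 78) (nat_lit 5) (nat_lit 75) (nat_lit 5) (nat_lit 355) (nat_lit 312) (nat_lit 233)) (XT.nd (nat_lit 78) (nat_lit 228) (nat_lit 0) (XT.lf (nat_lit 0) (nat_lit 3017308847) (nat_lit 228) (nat_lit 8863952577) (nat_lit 76) (nat_lit 14864539922) (nat_lit 71) (nat_lit 5) (nat_lit 74) (nat_lit 5) (nat_lit 72) (nat_lit 5) (nat_lit 356) (nat_lit 312)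 (nat_lit 232)) (XT.lf (nat_lit 0) (nat_lit 12640078927) (nat_lit 304) (nat_lit 13313336559) (nat_lit 76) (nat_lit 1704978150) (nat_lit 68) (nat_lit 5) (nat_lit 72) (nat_lit 5) (nat_lit 69) (nat_lit 5) (nat_lit 357) (nat_lit 312) (nat_lit 231)))) (XT.nd (nat_lit 78) (nat_lit 456) (nat_lit 0) (XT.lf (nat_lit 0) (nat_lit 10323164918) (nat_lit 152) (nat_lit 12706179287) (nat_lit 228) (nat_lit 5578717753) (nat_lit 66) (nat_lit 5) (nat_lit 68) (nat_lit 5) (nat_lit 69) (nat_lit 5) (nat_lit 358) (nat_lit 312) (nat_lit 230)) (XT.nd (nat_lit 78) (nat_lit 152) (nat_lit 0) (XT.lf (nat_lit 0) (nat_lit 4431292274) (nat_lit 304) (nat_lit 23765538081) (nat_lit 76) (nat_lit 1401650933) (nat_lit 62) (nat_lit 5) (nat_lit 66) (nat_lit 5) (nat_lit 63) (nat_lit 5) (nat_lit 359) (nat_lit 312) (nat_lit 229)) (XT.lf (nat_lit 0) (nat_lit 691116743) (nat_lit 152) (nat_lit 14436640851) (nat_lit 228) (nat_lit 15499973275)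 (nat_lit 60) (nat_lit 5) (nat_lit 62) (nat_lit 5) (nat_lit 63) (nat_lit 5) (nat_lit 360) (nat_lit 312) (nat_lit 228))))) (XT.nd (nat_lit 234) (nat_lit 380) (nat_lit 0) (XT.nd (nat_lit 78) (nat_lit 380) (nat_lit 0) (XT.lf (nat_lit 0) (nat_lit 26582126855) (nat_lit 228) (nat_lit 4877715763) (nat_lit 76) (nat_lit 241913861) (nat_lit 60) (nat_lit 5) (nat_lit 63) (nat_lit 5) (nat_lit 61) (nat_lit 5) (nat_lit 361) (nat_lit 312) (nat_lit 227)) (XT.nd (nat_lit 78) (nat_lit 152) (nat_lit 0) (XT.lf (nat_lit 0) (nat_lit 6001306678) (nat_lit 228) (nat_lit 11206425386) (nat_lit 76) (nat_lit 15610059310) (nat_lit 57) (nat_lit 5) (nat_lit 60) (nat_lit 5) (nat_lit 58) (nat_lit 5) (nat_lit 362) (nat_lit 312) (nat_lit 226)) (XT.lf (nat_lit 0) (nat_lit 15755312211) (nat_lit 152) (nat_lit 1997788436) (nat_lit 228) (nat_lit 16229591164) (nat_lit 55) (nat_lit 5) (nat_lit 57) (nat_lit 5) (nat_lit 58) (nat_lit 5) (nat_lit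 363) (nat_lit 312) (nat_lit 225)))) (XT.nd (nat_lit 78) (nat_lit 228) (nat_lit 0) (XT.lf (nat_lit 0) (nat_lit 9101012537) (nat_lit 152) (nat_lit 21307878091) (nat_lit 228) (nat_lit 4787459457) (nat_lit 53) (nat_lit 5) (nat_lit 55) (nat_lit 5) (nat_lit 56) (nat_lit 5) (nat_lit 364) (nat_lit 312) (nat_lit 224)) (XT.nd (nat_lit 78) (nat_lit 0) (nat_lit 0) (XT.lf (nat_lit 0) (nat_lit 1614264146) (nat_lit 152) (nat_lit 5675246418) (nat_lit 228) (nat_lit 29172988725) (nat_lit 50) (nat_lit 5) (nat_lit 52) (nat_lit 5) (nat_lit 53) (nat_lit 5) (nat_lit 365) (nat_lit 312) (nat_lit 223)) (XT.lf (nat_lit 0) (nat_lit 20225854865) (nat_lit 228) (nat_lit 6720257422) (nat_lit 76) (nat_lit 10833789925) (nat_lit 50) (nat_lit 5) (nat_lit 53) (nat_lit 5) (nat_lit 51) (nat_lit 5) (nat_lit 366) (nat_lit 312) (nat_lit 222))))))))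
noncomputable def xc72 : XT := (XT.nd (nat_lit 1794) (nat_lit 76) (nat_lit 0) (XT.nd (nat_lit 858) (nat_lit 912) (nat_lit 0) (XT.nd (nat_lit 390) (nat_lit 608) (nat_lit 0) (XT.nd (nat_lit 156) (nat_lit 304) (nat_lit 0) (XT.nd (nat_lit 78) (nat_lit 228) (nat_lit 0) (XT.lf (nat_lit 0) (nat_lit 23173987049) (nat_lit 152) (nat_lit 10895168003) (nat_lit 228) (nat_lit 5086220266) (nat_lit 48) (nat_lit 5) (nat_lit 50) (nat_lit 5) (nat_lit 51) (nat_lit 5) (nat_lit 367) (nat_lit 312) (nat_lit 221)) (XT.lf (nat_lit 0) (nat_lit 8096312843) (nat_lit 228) (nat_lit 26379378513) (nat_lit 76) (nat_lit 6114200507) (nat_lit 45) (nat_lit 5) (nat_lit 48) (nat_lit 5) (nat_lit 46) (nat_lit 5) (nat_lit 368) (nat_lit 312) (nat_lit 220))) (XT.nd (nat_lit 78) (nat_lit 152) (nat_lit 0) (XT.lf (nat_lit 0) (nat_lit 4036725998) (nat_lit 152) (nat_lit 18092933784) (nat_lit 228) (nat_lit 19956061054) (nat_lit 43) (nat_lit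 5) (nat_lit 45) (nat_lit 5) (nat_lit 46) (nat_lit 5) (nat_lit 369) (nat_lit 312) (nat_lit 219)) (XT.nd (nat_lit 78) (nat_lit 152) (nat_lit 0) (XT.lf (nat_lit 0) (nat_lit 36491971095) (nat_lit 152) (nat_lit 625830397) (nat_lit 228) (nat_lit 6530949462) (nat_lit 43) (nat_lit 5) (nat_lit 45) (nat_lit 5) (nat_lit 46) (nat_lit 5) (nat_lit 370) (nat_lit 312) (nat_lit 218)) (XT.lf (nat_lit 0) (nat_lit 7820197546) (nat_lit 152) (nat_lit 19777532575) (nat_lit 76) (nat_lit 17677951760) (nat_lit 41) (nat_lit 5) (nat_lit 43) (nat_lit 5) (nat_lit 42) (nat_lit 5) (nat_lit 371) (nat_lit 312) (nat_lit 217))))) (XT.nd (nat_lit 234) (nat_lit 304) (nat_lit 0) (XT.nd (nat_lit 78) (nat_lit 152) (nat_lit 0) (XT.lf (nat_lit 0) (nat_lit 13105213458) (nat_lit 152) (nat_lit 9839260576) (nat_lit 228) (nat_lit 24031829270) (nat_lit 39) (nat_lit 5) (nat_lit 41) (nat_lit 5) (nat_lit 42) (nat_lit 5) (nat_lit 372) (nat_lit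 312) (nat_lit 216)) (XT.nd (nat_lit 78) (nat_lit 152) (nat_lit 0) (XT.lf (nat_lit 0) (nat_lit 39098327437) (nat_lit 228) (nat_lit 827800020) (nat_lit 76) (nat_lit 8827630401) (nat_lit 39) (nat_lit 5) (nat_lit 42) (nat_lit 5) (nat_lit 40) (nat_lit 4) (nat_lit 373) (nat_lit 312) (nat_lit 215)) (XT.lf (nat_lit 0) (nat_lit 5751721042) (nat_lit 152) (nat_lit 16253443971) (nat_lit 76) (nat_lit 28600811664) (nat_lit 37) (nat_lit 5) (nat_lit 39) (nat_lit 5) (nat_lit 38) (nat_lit 5) (nat_lit 374) (nat_lit 312) (nat_lit 214)))) (XT.nd (nat_lit 78) (nat_lit 152) (nat_lit 0) (XT.lf (nat_lit 0) (nat_lit 19003227709) (nat_lit 152) (nat_lit 2903683348) (nat_lit 228) (nat_lit 30635708930) (nat_lit 35) (nat_lit 5) (nat_lit 37) (nat_lit 5) (nat_lit 38) (nat_lit 5) (nat_lit 375) (nat_lit 312) (nat_lit 213)) (XT.nd (nat_lit 78) (nat_lit 76) (nat_lit 0) (XT.lf (nat_lit 0) (nat_lit 1628338101) (nat_lit 76) (nat_lit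 37575629547) (nat_lit 152) (nat_lit 15362107077) (nat_lit 34) (nat_lit 5) (nat_lit 35) (nat_lit 5) (nat_lit 36) (nat_lit 4) (nat_lit 376) (nat_lit 312) (nat_lit 212)) (XT.lf (nat_lit 0) (nat_lit 1024903254) (nat_lit 152) (nat_lit 17491927273) (nat_lit 76) (nat_lit 38162792154) (nat_lit 33) (nat_lit 5) (nat_lit 35) (nat_lit 5) (nat_lit 34) (nat_lit 5) (nat_lit 377) (nat_lit 312) (nat_lit 211)))))) (XT.nd (nat_lit 468) (nat_lit 380) (nat_lit 0) (XT.nd (nat_lit 234) (nat_lit 304) (nat_lit 0) (XT.nd (nat_lit 78) (nat_lit 76) (nat_lit 0) (XT.lf (nat_lit 0) (nat_lit 18111444707) (nat_lit 228) (nat_lit 38972847564) (nat_lit 76) (nat_lit 1804058166) (nat_lit 31) (nat_lit 5) (nat_lit 34) (nat_lit 5) (nat_lit 32) (nat_lit 4) (nat_lit 378) (nat_lit 312) (nat_lit 210)) (XT.nd (nat_lit 78) (nat_lit 76) (nat_lit 0) (XT.lf (nat_lit 0) (nat_lit 36407017274) (nat_lit 228) (nat_lit 1857884701) (nat_lit 76) (nat_lit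 22931973563) (nat_lit 31) (nat_lit 5) (nat_lit 34) (nat_lit 5) (nat_lit 32) (nat_lit 4) (nat_lit 379) (nat_lit 312) (nat_lit 209)) (XT.lf (nat_lit 0) (nat_lit 37826258829) (nat_lit 76) (nat_lit 18141349650) (nat_lit 152) (nat_lit 7642713192) (nat_lit 30) (nat_lit 5) (nat_lit 31) (nat_lit 5) (nat_lit 32) (nat_lit 4) (nat_lit 380) (nat_lit 312) (nat_lit 208)))) (XT.nd (nat_lit 78) (nat_lit 76) (nat_lit 0) (XT.lf (nat_lit 0) (nat_lit 10326952837) (nat_lit 228) (nat_lit 52638913867) (nat_lit 76) (nat_lit 3170566334) (nat_lit 27) (nat_lit 5) (nat_lit 30) (nat_lit 5) (nat_lit 28) (nat_lit 4) (nat_lit 381) (nat_lit 312) (nat_lit 207)) (XT.nd (nat_lit 78) (nat_lit 76) (nat_lit 0) (XT.lf (nat_lit 0) (nat_lit 29476865083) (nat_lit 228) (nat_lit 13785600411) (nat_lit 76) (nat_lit 25510921331) (nat_lit 27) (nat_lit 5) (nat_lit 30) (nat_lit 5) (nat_lit 28) (nat_lit 4) (nat_lit 382) (nat_lit 312) (nat_lit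 206)) (XT.lf (nat_lit 0) (nat_lit 27524789577) (nat_lit 76) (nat_lit 22311877472) (nat_lit 152) (nat_lit 21697951089) (nat_lit 26) (nat_lit 5) (nat_lit 27) (nat_lit 5) (nat_lit 28) (nat_lit 4) (nat_lit 383) (nat_lit 312) (nat_lit 205))))) (XT.nd (nat_lit 234) (nat_lit 152) (nat_lit 0) (XT.nd (nat_lit 78) (nat_lit 228) (nat_lit 0) (XT.lf (nat_lit 0) (nat_lit 71166731246) (nat_lit 76) (nat_lit 177816053) (nat_lit 152) (nat_lit 3085462651) (nat_lit 26) (nat_lit 5) (nat_lit 27) (nat_lit 5) (nat_lit 28) (nat_lit 4) (nat_lit 384) (nat_lit 312) (nat_lit 204)) (XT.nd (nat_lit 78) (nat_lit 76) (nat_lit 0) (XT.lf (nat_lit 0) (nat_lit 16737813167) (nat_lit 152) (nat_lit 37557042785) (nat_lit 76) (nat_lit 23152531502) (nat_lit 24) (nat_lit 5) (nat_lit 26) (nat_lit 5) (nat_lit 25) (nat_lit 4) (nat_lit 385) (nat_lit 312) (nat_lit 203)) (XT.lf (nat_lit 0) (nat_lit 4692661133) (nat_lit 76) (nat_lit 32866080199)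 (nat_lit 152) (nat_lit 43053868400) (nat_lit 23) (nat_lit 5) (nat_lit 24) (nat_lit 5) (nat_lit 25) (nat_lit 4) (nat_lit 386) (nat_lit 312) (nat_lit 202)))) (XT.nd (nat_lit 78) (nat_lit 152) (nat_lit 0) (XT.lf (nat_lit 0) (nat_lit 49819423807) (nat_lit 76) (nat_lit 9977122388) (nat_lit 152) (nat_lit 24128273346) (nat_lit 23) (nat_lit 5) (nat_lit 24) (nat_lit 5) (nat_lit 25) (nat_lit 4) (nat_lit 387) (nat_lit 312) (nat_lit 201)) (XT.nd (nat_lit 78) (nat_lit 76) (nat_lit 0) (XT.lf (nat_lit 0) (nat_lit 9837210356) (nat_lit 76) (nat_lit 73528350414) (nat_lit 76) (nat_lit 4030500746) (nat_lit 22) (nat_lit 4) (nat_lit 23) (nat_lit 5) (nat_lit 23) (nat_lit 4) (nat_lit 388) (nat_lit 312) (nat_lit 200)) (XT.lf (nat_lit 0) (nat_lit 17184134705) (nat_lit 152) (nat_lit 34628129436) (nat_lit 76) (nat_lit 39210325970) (nat_lit 21) (nat_lit 5) (nat_lit 23) (nat_lit 5) (nat_lit 22) (nat_lit 4) (nat_lit 389)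 (nat_lit 312) (nat_lit 199))))))) (XT.nd (nat_lit 41652) (nat_lit 0) (nat_lit 10564) (XT.nd (nat_lit 41184) (nat_lit 0) (nat_lit 18164) (XT.nd (nat_lit 40950) (nat_lit 0) (nat_lit 19000) (XT.nd (nat_lit 78) (nat_lit 0) (nat_lit 0) (XT.lf (nat_lit 0) (nat_lit 10596985332) (nat_lit 76) (nat_lit 28872133528) (nat_lit 152) (nat_lit 55357340992) (nat_lit 20) (nat_lit 5) (nat_lit 21) (nat_lit 5) (nat_lit 22) (nat_lit 4) (nat_lit 390) (nat_lit 312) (nat_lit 198)) (XT.nd (nat_lit 40794) (nat_lit 0) (nat_lit 19000) (XT.lf (nat_lit 0) (nat_lit 58789257386) (nat_lit 76) (nat_lit 4426185060) (nat_lit 152) (nat_lit 35594668985) (nat_lit 20) (nat_lit 5) (nat_lit 21) (nat_lit 5) (nat_lit 22) (nat_lit 4) (nat_lit 391) (nat_lit 312) (nat_lit 197)) (XT.lf (nat_lit 0) (nat_lit 39424193) (nat_lit 0) (nat_lit 39424193) (nat_lit 988) (nat_lit 4130707169) (nat_lit 270) (nat_lit 5) (nat_lit 270) (nat_lit 3) (nat_lit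 283) (nat_lit 3) (nat_lit 313) (nat_lit 313) (nat_lit 274)))) (XT.nd (nat_lit 78) (nat_lit 0) (nat_lit 76) (XT.lf (nat_lit 0) (nat_lit 1921746442) (nat_lit 988) (nat_lit 1712499116) (nat_lit 1064) (nat_lit 4941309642) (nat_lit 270) (nat_lit 5) (nat_lit 283) (nat_lit 3) (nat_lit 284) (nat_lit 5) (nat_lit 314) (nat_lit 313) (nat_lit 273)) (XT.nd (nat_lit 78) (nat_lit 0) (nat_lit 0) (XT.lf (nat_lit 0) (nat_lit 3731736345) (nat_lit 988) (nat_lit 3466334802) (nat_lit 1064) (nat_lit 1543096979) (nat_lit 271) (nat_lit 5) (nat_lit 284) (nat_lit 5) (nat_lit 285) (nat_lit 5) (nat_lit 315) (nat_lit 313) (nat_lit 272)) (XT.lf (nat_lit 76) (nat_lit 3707621989) (nat_lit 0) (nat_lit 1910787249) (nat_lit 1064) (nat_lit 3297141968) (nat_lit 272) (nat_lit 5) (nat_lit 271) (nat_lit 5) (nat_lit 285) (nat_lit 5) (nat_lit 316) (nat_lit 313) (nat_lit 271))))) (XT.nd (nat_lit 234) (nat_lit 0) (nat_lit 76) (XT.nd (nat_lit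 78) (nat_lit 988) (nat_lit 0) (XT.lf (nat_lit 76) (nat_lit 2159551966) (nat_lit 0) (nat_lit 5432489980) (nat_lit 1064) (nat_lit 1506904154) (nat_lit 273) (nat_lit 5) (nat_lit 272) (nat_lit 5) (nat_lit 286) (nat_lit 5) (nat_lit 317) (nat_lit 313) (nat_lit 270)) (XT.nd (nat_lit 78) (nat_lit 0) (nat_lit 0) (XT.lf (nat_lit 0) (nat_lit 351928249) (nat_lit 1064) (nat_lit 8653883607) (nat_lit 1140) (nat_lit 286066672) (nat_lit 259) (nat_lit 5) (nat_lit 273) (nat_lit 5) (nat_lit 274) (nat_lit 5) (nat_lit 318) (nat_lit 313) (nat_lit 269)) (XT.lf (nat_lit 0) (nat_lit 2308055476) (nat_lit 1064) (nat_lit 887684911) (nat_lit 1140) (nat_lit 6297266960) (nat_lit 259) (nat_lit 5) (nat_lit 273) (nat_lit 5) (nat_lit 274) (nat_lit 5) (nat_lit 319) (nat_lit 313) (nat_lit 268)))) (XT.nd (nat_lit 78) (nat_lit 0) (nat_lit 0) (XT.lf (nat_lit 0) (nat_lit 4374137194) (nat_lit 1064) (nat_lit 2384241318) (nat_lit 1140)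 (nat_lit 2945509569) (nat_lit 260) (nat_lit 5) (nat_lit 274) (nat_lit 5) (nat_lit 275) (nat_lit 5) (nat_lit 320) (nat_lit 313) (nat_lit 267)) (XT.nd (nat_lit 78) (nat_lit 0) (nat_lit 76) (XT.lf (nat_lit 76) (nat_lit 6054750596) (nat_lit 0) (nat_lit 504911806) (nat_lit 1140) (nat_lit 3365223331) (nat_lit 261) (nat_lit 5) (nat_lit 260) (nat_lit 5) (nat_lit 275) (nat_lit 5) (nat_lit 321) (nat_lit 313) (nat_lit 266)) (XT.lf (nat_lit 76) (nat_lit 4781326132) (nat_lit 0) (nat_lit 4122196019) (nat_lit 1140) (nat_lit 1251993716) (nat_lit 262) (nat_lit 5) (nat_lit 261) (nat_lit 5) (nat_lit 276) (nat_lit 5) (nat_lit 322) (nat_lit 313) (nat_lit 265)))))) (XT.nd (nat_lit 468) (nat_lit 3116) (nat_lit 0) (XT.nd (nat_lit 234) (nat_lit 1216) (nat_lit 0) (XT.nd (nat_lit 78) (nat_lit 2356) (nat_lit 0) (XT.lf (nat_lit 0) (nat_lit 974772344) (nat_lit 1140) (nat_lit 6880811603) (nat_lit 76) (nat_lit 2541062701)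 (nat_lit 247) (nat_lit 5) (nat_lit 262) (nat_lit 5) (nat_lit 248) (nat_lit 5) (nat_lit 323) (nat_lit 313) (nat_lit 264)) (XT.nd (nat_lit 78) (nat_lit 1216) (nat_lit 0) (XT.lf (nat_lit 0) (nat_lit 2240217179) (nat_lit 1140) (nat_lit 1091714384) (nat_lit 1216) (nat_lit 7316229944) (nat_lit 232) (nat_lit 5) (nat_lit 247) (nat_lit 5) (nat_lit 248) (nat_lit 5) (nat_lit 324) (nat_lit 313) (nat_lit 263)) (XT.lf (nat_lit 0) (nat_lit 947298919) (nat_lit 1216) (nat_lit 4926804542) (nat_lit 1292) (nat_lit 5036179584) (nat_lit 216) (nat_lit 5) (nat_lit 232) (nat_lit 5) (nat_lit 233) (nat_lit 5) (nat_lit 325) (nat_lit 313) (nat_lit 262)))) (XT.nd (nat_lit 78) (nat_lit 1216) (nat_lit 0) (XT.lf (nat_lit 0) (nat_lit 8594500604) (nat_lit 1292) (nat_lit 333874528) (nat_lit 76) (nat_lit 2255645439) (nat_lit 216) (nat_lit 5) (nat_lit 233) (nat_lit 5) (nat_lit 217) (nat_lit 5) (nat_lit 326) (nat_lit 313) (nat_lit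 261)) (XT.nd (nat_lit 78) (nat_lit 532) (nat_lit 0) (XT.lf (nat_lit 0) (nat_lit 59970336) (nat_lit 684) (nat_lit 1611314866) (nat_lit 76) (nat_lit 9797802916) (nat_lit 207) (nat_lit 5) (nat_lit 216) (nat_lit 5) (nat_lit 208) (nat_lit 5) (nat_lit 327) (nat_lit 313) (nat_lit 260)) (XT.lf (nat_lit 0) (nat_lit 2872832130) (nat_lit 608) (nat_lit 2940879406) (nat_lit 76) (nat_lit 5951433000) (nat_lit 200) (nat_lit 5) (nat_lit 208) (nat_lit 5) (nat_lit 201) (nat_lit 5) (nat_lit 328) (nat_lit 313) (nat_lit 259))))) (XT.nd (nat_lit 234) (nat_lit 1444) (nat_lit 0) (XT.nd (nat_lit 78) (nat_lit 1064) (nat_lit 0) (XT.lf (nat_lit 0) (nat_lit 5892928641) (nat_lit 684) (nat_lit 4278658813) (nat_lit 76) (nat_lit 1902454978) (nat_lit 192) (nat_lit 5) (nat_lit 201) (nat_lit 5) (nat_lit 193) (nat_lit 5) (nat_lit 329) (nat_lit 313) (nat_lit 258)) (XT.nd (nat_lit 78) (nat_lit 532) (nat_lit 0) (XT.lf (nat_lit 0) (nat_lit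 6744367603) (nat_lit 532) (nat_lit 2415272096) (nat_lit 608) (nat_lit 3235911904) (nat_lit 185) (nat_lit 5) (nat_lit 192) (nat_lit 5) (nat_lit 193) (nat_lit 5) (nat_lit 330) (nat_lit 313) (nat_lit 257)) (XT.lf (nat_lit 0) (nat_lit 5670637329) (nat_lit 532) (nat_lit 7016826802) (nat_lit 608) (nat_lit 42771790) (nat_lit 178) (nat_lit 5) (nat_lit 185) (nat_lit 5) (nat_lit 186) (nat_lit 5) (nat_lit 331) (nat_lit 313) (nat_lit 256)))) (XT.nd (nat_lit 78) (nat_lit 912) (nat_lit 0) (XT.lf (nat_lit 0) (nat_lit 3329776554) (nat_lit 532) (nat_lit 8521503574) (nat_lit 76) (nat_lit 1226920068) (nat_lit 171) (nat_lit 5) (nat_lit 178) (nat_lit 5) (nat_lit 172) (nat_lit 5) (nat_lit 332) (nat_lit 313) (nat_lit 255)) (XT.nd (nat_lit 78) (nat_lit 456) (nat_lit 0) (XT.lf (nat_lit 0) (nat_lit 3394341235) (nat_lit 456) (nat_lit 3599833846) (nat_lit 532) (nat_lit 6445680757) (nat_lit 165) (nat_lit 5) (nat_lit 171)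 (nat_lit 5) (nat_lit 172) (nat_lit 5) (nat_lit 333) (nat_lit 313) (nat_lit 254)) (XT.lf (nat_lit 0) (nat_lit 2200853783) (nat_lit 456) (nat_lit 8748503708) (nat_lit 532) (nat_lit 2867037548) (nat_lit 159) (nat_lit 5) (nat_lit 165) (nat_lit 5) (nat_lit 166) (nat_lit 5) (nat_lit 334) (nat_lit 313) (nat_lit 253))))))))
noncomputable def xc73 : XT := (XT.nd (nat_lit 1794) (nat_lit 3116) (nat_lit 0) (XT.nd (nat_lit 858) (nat_lit 2736) (nat_lit 0) (XT.nd (nat_lit 390) (nat_lit 2128) (nat_lit 0) (XT.nd (nat_lit 156) (nat_lit 1292) (nat_lit 0) (XT.nd (nat_lit 78) (nat_lit 0) (nat_lit 0) (XT.lf (nat_lit 0) (nat_lit 973803486) (nat_lit 532) (nat_lit 13233547754) (nat_lit 76) (nat_lit 1159457) (nat_lit 152) (nat_lit 5) (nat_lit 159) (nat_lit 5) (nat_lit 153) (nat_lit 5) (nat_lit 335) (nat_lit 313) (nat_lit 252)) (XT.lf (nat_lit 0) (nat_lit 5109207171) (nat_lit 532) (nat_lit 355954353) (nat_lit 76) (nat_lit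 9149388945) (nat_lit 152) (nat_lit 5) (nat_lit 159) (nat_lit 5) (nat_lit 153) (nat_lit 5) (nat_lit 336) (nat_lit 313) (nat_lit 251))) (XT.nd (nat_lit 78) (nat_lit 912) (nat_lit 0) (XT.lf (nat_lit 0) (nat_lit 9571267141) (nat_lit 456) (nat_lit 1704692846) (nat_lit 76) (nat_lit 3761358888) (nat_lit 147) (nat_lit 5) (nat_lit 153) (nat_lit 5) (nat_lit 148) (nat_lit 5) (nat_lit 337) (nat_lit 313) (nat_lit 250)) (XT.nd (nat_lit 78) (nat_lit 456) (nat_lit 0) (XT.lf (nat_lit 0) (nat_lit 12362540501) (nat_lit 456) (nat_lit 2027617975) (nat_lit 532) (nat_lit 1087077494) (nat_lit 141) (nat_lit 5) (nat_lit 147) (nat_lit 5) (nat_lit 148) (nat_lit 5) (nat_lit 338) (nat_lit 313) (nat_lit 249)) (XT.lf (nat_lit 0) (nat_lit 3601786023) (nat_lit 456) (nat_lit 4647754961) (nat_lit 76) (nat_lit 7683832444) (nat_lit 135) (nat_lit 5) (nat_lit 141) (nat_lit 5) (nat_lit 136) (nat_lit 5) (nat_lit 339) (nat_lit 313) (nat_lit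 248))))) (XT.nd (nat_lit 234) (nat_lit 988) (nat_lit 0) (XT.nd (nat_lit 78) (nat_lit 760) (nat_lit 0) (XT.lf (nat_lit 0) (nat_lit 8627022377) (nat_lit 456) (nat_lit 6251624997) (nat_lit 76) (nat_lit 1529634607) (nat_lit 130) (nat_lit 5) (nat_lit 136) (nat_lit 5) (nat_lit 131) (nat_lit 5) (nat_lit 340) (nat_lit 313) (nat_lit 247)) (XT.nd (nat_lit 78) (nat_lit 456) (nat_lit 0) (XT.lf (nat_lit 0) (nat_lit 8929569472) (nat_lit 304) (nat_lit 5151292997) (nat_lit 380) (nat_lit 2820771787) (nat_lit 126) (nat_lit 5) (nat_lit 130) (nat_lit 5) (nat_lit 131) (nat_lit 5) (nat_lit 341) (nat_lit 313) (nat_lit 246)) (XT.lf (nat_lit 0) (nat_lit 2490783427) (nat_lit 456) (nat_lit 9810693529) (nat_lit 76) (nat_lit 5113016678) (nat_lit 120) (nat_lit 5) (nat_lit 126) (nat_lit 5) (nat_lit 121) (nat_lit 5) (nat_lit 342) (nat_lit 313) (nat_lit 245)))) (XT.nd (nat_lit 78) (nat_lit 684) (nat_lit 0) (XT.lf (nat_lit 0)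 (nat_lit 6160864490) (nat_lit 304) (nat_lit 2005508804) (nat_lit 380) (nat_lit 9781097328) (nat_lit 116) (nat_lit 5) (nat_lit 120) (nat_lit 5) (nat_lit 121) (nat_lit 5) (nat_lit 343) (nat_lit 313) (nat_lit 244)) (XT.nd (nat_lit 78) (nat_lit 380) (nat_lit 0) (XT.lf (nat_lit 0) (nat_lit 4583690816) (nat_lit 304) (nat_lit 9736077180) (nat_lit 380) (nat_lit 4181523261) (nat_lit 112) (nat_lit 5) (nat_lit 116) (nat_lit 5) (nat_lit 117) (nat_lit 5) (nat_lit 344) (nat_lit 313) (nat_lit 243)) (XT.lf (nat_lit 0) (nat_lit 1810488760) (nat_lit 380) (nat_lit 16181608003) (nat_lit 76) (nat_lit 1085863056) (nat_lit 107) (nat_lit 5) (nat_lit 112) (nat_lit 5) (nat_lit 108) (nat_lit 5) (nat_lit 345) (nat_lit 313) (nat_lit 242)))))) (XT.nd (nat_lit 468) (nat_lit 1216) (nat_lit 0) (XT.nd (nat_lit 234) (nat_lit 912) (nat_lit 0) (XT.nd (nat_lit 78) (nat_lit 304) (nat_lit 0) (XT.lf (nat_lit 0) (nat_lit 989361123)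 (nat_lit 304) (nat_lit 7244833693) (nat_lit 380) (nat_lit 11441481445) (nat_lit 103) (nat_lit 5) (nat_lit 107) (nat_lit 5) (nat_lit 108) (nat_lit 5) (nat_lit 346) (nat_lit 313) (nat_lit 241)) (XT.nd (nat_lit 78) (nat_lit 304) (nat_lit 0) (XT.lf (nat_lit 0) (nat_lit 15152473903) (nat_lit 380) (nat_lit 1031877352) (nat_lit 76) (nat_lit 4113738687) (nat_lit 103) (nat_lit 5) (nat_lit 108) (nat_lit 5) (nat_lit 104) (nat_lit 5) (nat_lit 347) (nat_lit 313) (nat_lit 240)) (XT.lf (nat_lit 0) (nat_lit 1650028848) (nat_lit 304) (nat_lit 3231079434) (nat_lit 76) (nat_lit 16063698369) (nat_lit 99) (nat_lit 5) (nat_lit 103) (nat_lit 5) (nat_lit 100) (nat_lit 5) (nat_lit 348) (nat_lit 313) (nat_lit 239)))) (XT.nd (nat_lit 78) (nat_lit 608) (nat_lit 0) (XT.lf (nat_lit 0) (nat_lit 8882486888) (nat_lit 380) (nat_lit 5679524973) (nat_lit 76) (nat_lit 7054226923) (nat_lit 95) (nat_lit 5) (nat_lit 100) (nat_lit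 5) (nat_lit 96) (nat_lit 5) (nat_lit 349) (nat_lit 313) (nat_lit 238)) (XT.nd (nat_lit 78) (nat_lit 380) (nat_lit 0) (XT.lf (nat_lit 0) (nat_lit 13987073616) (nat_lit 228) (nat_lit 2676402763) (nat_lit 304) (nat_lit 5652169831) (nat_lit 92) (nat_lit 5) (nat_lit 95) (nat_lit 5) (nat_lit 96) (nat_lit 5) (nat_lit 350) (nat_lit 313) (nat_lit 237)) (XT.lf (nat_lit 0) (nat_lit 1988170403) (nat_lit 380) (nat_lit 11265460259) (nat_lit 76) (nat_lit 9788704703) (nat_lit 87) (nat_lit 5) (nat_lit 92) (nat_lit 5) (nat_lit 88) (nat_lit 5) (nat_lit 351) (nat_lit 313) (nat_lit 236))))) (XT.nd (nat_lit 234) (nat_lit 456) (nat_lit 0) (XT.nd (nat_lit 78) (nat_lit 532) (nat_lit 0) (XT.lf (nat_lit 0) (nat_lit 9310500875) (nat_lit 228) (nat_lit 758462268) (nat_lit 304) (nat_lit 13729466678) (nat_lit 84) (nat_lit 5) (nat_lit 87) (nat_lit 5) (nat_lit 88) (nat_lit 5) (nat_lit 352) (nat_lit 313) (nat_lit 235)) (XT.nd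 (nat_lit 78) (nat_lit 304) (nat_lit 0) (XT.lf (nat_lit 0) (nat_lit 6524650377) (nat_lit 228) (nat_lit 12299754104) (nat_lit 304) (nat_lit 5759815429) (nat_lit 81) (nat_lit 5) (nat_lit 84) (nat_lit 5) (nat_lit 85) (nat_lit 5) (nat_lit 353) (nat_lit 313) (nat_lit 234)) (XT.lf (nat_lit 0) (nat_lit 2728940691) (nat_lit 304) (nat_lit 21935267146) (nat_lit 76) (nat_lit 739202370) (nat_lit 77) (nat_lit 5) (nat_lit 81) (nat_lit 5) (nat_lit 78) (nat_lit 5) (nat_lit 354) (nat_lit 313) (nat_lit 233)))) (XT.nd (nat_lit 78) (nat_lit 456) (nat_lit 0) (XT.lf (nat_lit 0) (nat_lit 11809345528) (nat_lit 304) (nat_lit 35661647) (nat_lit 76) (nat_lit 14408260108) (nat_lit 77) (nat_lit 5) (nat_lit 81) (nat_lit 5) (nat_lit 78) (nat_lit 5) (nat_lit 355) (nat_lit 313) (nat_lit 232)) (XT.nd (nat_lit 78) (nat_lit 228) (nat_lit 0) (XT.lf (nat_lit 0) (nat_lit 21560656823) (nat_lit 304) (nat_lit 3783347386) (nat_lit 76)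 (nat_lit 1795114116) (nat_lit 74) (nat_lit 5) (nat_lit 78) (nat_lit 5) (nat_lit 75) (nat_lit 5) (nat_lit 356) (nat_lit 313) (nat_lit 231)) (XT.lf (nat_lit 0) (nat_lit 3948553976) (nat_lit 228) (nat_lit 8019341960) (nat_lit 76) (nat_lit 16091565174) (nat_lit 71) (nat_lit 5) (nat_lit 74) (nat_lit 5) (nat_lit 72) (nat_lit 5) (nat_lit 357) (nat_lit 313) (nat_lit 230))))))) (XT.nd (nat_lit 936) (nat_lit 1140) (nat_lit 0) (XT.nd (nat_lit 468) (nat_lit 912) (nat_lit 0) (XT.nd (nat_lit 234) (nat_lit 380) (nat_lit 0) (XT.nd (nat_lit 78) (nat_lit 456) (nat_lit 0) (XT.lf (nat_lit 0) (nat_lit 14032090471) (nat_lit 304) (nat_lit 12710008620) (nat_lit 76) (nat_lit 2276205512) (nat_lit 68) (nat_lit 5) (nat_lit 72) (nat_lit 5) (nat_lit 69) (nat_lit 5) (nat_lit 358) (nat_lit 313) (nat_lit 229)) (XT.nd (nat_lit 78) (nat_lit 304) (nat_lit 0) (XT.lf (nat_lit 0) (nat_lit 12071942452) (nat_lit 152) (nat_lit 12844534414)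 (nat_lit 228) (nat_lit 5099719666) (nat_lit 66) (nat_lit 5) (nat_lit 68) (nat_lit 5) (nat_lit 69) (nat_lit 5) (nat_lit 359) (nat_lit 313) (nat_lit 228)) (XT.lf (nat_lit 0) (nat_lit 5376995562) (nat_lit 304) (nat_lit 23724942996) (nat_lit 76) (nat_lit 1954559037) (nat_lit 62) (nat_lit 5) (nat_lit 66) (nat_lit 5) (nat_lit 63) (nat_lit 5) (nat_lit 360) (nat_lit 313) (nat_lit 227)))) (XT.nd (nat_lit 78) (nat_lit 228) (nat_lit 0) (XT.lf (nat_lit 0) (nat_lit 1919319200) (nat_lit 152) (nat_lit 14665956216) (nat_lit 228) (nat_lit 15552633245) (nat_lit 60) (nat_lit 5) (nat_lit 62) (nat_lit 5) (nat_lit 63) (nat_lit 5) (nat_lit 361) (nat_lit 313) (nat_lit 226)) (XT.nd (nat_lit 78) (nat_lit 228) (nat_lit 0) (XT.lf (nat_lit 0) (nat_lit 28583484925) (nat_lit 228) (nat_lit 3969105361) (nat_lit 76) (nat_lit 713919938) (nat_lit 60) (nat_lit 5) (nat_lit 63) (nat_lit 5) (nat_lit 61) (nat_lit 5) (nat_lit 362) (nat_lit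 313) (nat_lit 225)) (XT.lf (nat_lit 0) (nat_lit 6958973742) (nat_lit 228) (nat_lit 10634044994) (nat_lit 76) (nat_lit 16845780176) (nat_lit 57) (nat_lit 5) (nat_lit 60) (nat_lit 5) (nat_lit 58) (nat_lit 5) (nat_lit 363) (nat_lit 313) (nat_lit 224))))) (XT.nd (nat_lit 234) (nat_lit 380) (nat_lit 0) (XT.nd (nat_lit 78) (nat_lit 380) (nat_lit 0) (XT.lf (nat_lit 0) (nat_lit 17643310817) (nat_lit 152) (nat_lit 1634308337) (nat_lit 228) (nat_lit 16384954697) (nat_lit 55) (nat_lit 5) (nat_lit 57) (nat_lit 5) (nat_lit 58) (nat_lit 5) (nat_lit 364) (nat_lit 313) (nat_lit 223)) (XT.nd (nat_lit 78) (nat_lit 228) (nat_lit 0) (XT.lf (nat_lit 0) (nat_lit 10639132369) (nat_lit 152) (nat_lit 21911392644) (nat_lit 228) (nat_lit 4386867218) (nat_lit 53) (nat_lit 5) (nat_lit 55) (nat_lit 5) (nat_lit 56) (nat_lit 5) (nat_lit 365) (nat_lit 313) (nat_lit 222)) (XT.lf (nat_lit 0) (nat_lit 2759262366) (nat_lit 152)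 (nat_lit 5502551605) (nat_lit 228) (nat_lit 30005446308) (nat_lit 50) (nat_lit 5) (nat_lit 52) (nat_lit 5) (nat_lit 53) (nat_lit 5) (nat_lit 366) (nat_lit 313) (nat_lit 221)))) (XT.nd (nat_lit 78) (nat_lit 380) (nat_lit 0) (XT.lf (nat_lit 0) (nat_lit 21820210106) (nat_lit 228) (nat_lit 6029354825) (nat_lit 76) (nat_lit 11801717527) (nat_lit 50) (nat_lit 5) (nat_lit 53) (nat_lit 5) (nat_lit 51) (nat_lit 5) (nat_lit 367) (nat_lit 313) (nat_lit 220)) (XT.nd (nat_lit 78) (nat_lit 228) (nat_lit 0) (XT.lf (nat_lit 0) (nat_lit 25330165544) (nat_lit 152) (nat_lit 11007333259) (nat_lit 228) (nat_lit 4758581569) (nat_lit 48) (nat_lit 5) (nat_lit 50) (nat_lit 5) (nat_lit 51) (nat_lit 5) (nat_lit 368) (nat_lit 313) (nat_lit 219)) (XT.lf (nat_lit 0) (nat_lit 9058078108) (nat_lit 228) (nat_lit 26705732709) (nat_lit 76) (nat_lit 6838758847) (nat_lit 45) (nat_lit 5) (nat_lit 48) (nat_lit 5) (nat_lit 46) (nat_lit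 5) (nat_lit 369) (nat_lit 313) (nat_lit 218)))))) (XT.nd (nat_lit 468) (nat_lit 532) (nat_lit 0) (XT.nd (nat_lit 234) (nat_lit 304) (nat_lit 0) (XT.nd (nat_lit 78) (nat_lit 152) (nat_lit 0) (XT.lf (nat_lit 0) (nat_lit 5202723926) (nat_lit 152) (nat_lit 18573115168) (nat_lit 228) (nat_lit 20397873746) (nat_lit 43) (nat_lit 5) (nat_lit 45) (nat_lit 5) (nat_lit 46) (nat_lit 5) (nat_lit 370) (nat_lit 313) (nat_lit 217)) (XT.nd (nat_lit 78) (nat_lit 152) (nat_lit 0) (XT.lf (nat_lit 0) (nat_lit 39234818820) (nat_lit 152) (nat_lit 252869245) (nat_lit 228) (nat_lit 6327982306) (nat_lit 43) (nat_lit 5) (nat_lit 45) (nat_lit 5) (nat_lit 46) (nat_lit 5) (nat_lit 371) (nat_lit 313) (nat_lit 216)) (XT.lf (nat_lit 0) (nat_lit 8718172220) (nat_lit 152) (nat_lit 19853002263) (nat_lit 76) (nat_lit 18952991715) (nat_lit 41) (nat_lit 5) (nat_lit 43) (nat_lit 5) (nat_lit 42) (nat_lit 5) (nat_lit 372) (nat_lit 313)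 (nat_lit 215)))) (XT.nd (nat_lit 78) (nat_lit 152) (nat_lit 0) (XT.lf (nat_lit 0) (nat_lit 14647698445) (nat_lit 152) (nat_lit 9935351449) (nat_lit 228) (nat_lit 24727241503) (nat_lit 39) (nat_lit 5) (nat_lit 41) (nat_lit 5) (nat_lit 42) (nat_lit 5) (nat_lit 373) (nat_lit 313) (nat_lit 214)) (XT.nd (nat_lit 78) (nat_lit 152) (nat_lit 0) (XT.lf (nat_lit 0) (nat_lit 41524822403) (nat_lit 228) (nat_lit 13717619) (nat_lit 76) (nat_lit 9638675982) (nat_lit 39) (nat_lit 5) (nat_lit 42) (nat_lit 5) (nat_lit 40) (nat_lit 4) (nat_lit 374) (nat_lit 313) (nat_lit 213)) (XT.lf (nat_lit 0) (nat_lit 6501019946) (nat_lit 152) (nat_lit 16225900542) (nat_lit 76) (nat_lit 30395427458) (nat_lit 37) (nat_lit 5) (nat_lit 39) (nat_lit 5) (nat_lit 38) (nat_lit 5) (nat_lit 375) (nat_lit 313) (nat_lit 212))))) (XT.nd (nat_lit 234) (nat_lit 228) (nat_lit 0) (XT.nd (nat_lit 78) (nat_lit 152) (nat_lit 0) (XT.lf (nat_lit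 0) (nat_lit 20769520110) (nat_lit 152) (nat_lit 2680308175) (nat_lit 228) (nat_lit 31706422998) (nat_lit 35) (nat_lit 5) (nat_lit 37) (nat_lit 5) (nat_lit 38) (nat_lit 5) (nat_lit 376) (nat_lit 313) (nat_lit 211)) (XT.nd (nat_lit 78) (nat_lit 76) (nat_lit 0) (XT.lf (nat_lit 0) (nat_lit 2512163263) (nat_lit 76) (nat_lit 39089348858) (nat_lit 152) (nat_lit 15679676860) (nat_lit 34) (nat_lit 5) (nat_lit 35) (nat_lit 5) (nat_lit 36) (nat_lit 4) (nat_lit 377) (nat_lit 313) (nat_lit 210)) (XT.lf (nat_lit 0) (nat_lit 1496856986) (nat_lit 152) (nat_lit 17593888481) (nat_lit 76) (nat_lit 40410173200) (nat_lit 33) (nat_lit 5) (nat_lit 35) (nat_lit 5) (nat_lit 34) (nat_lit 5) (nat_lit 378) (nat_lit 313) (nat_lit 209)))) (XT.nd (nat_lit 78) (nat_lit 76) (nat_lit 0) (XT.lf (nat_lit 0) (nat_lit 19428199187) (nat_lit 228) (nat_lit 40161997970) (nat_lit 76) (nat_lit 2230174487) (nat_lit 31) (nat_lit 5) (nat_lit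 34) (nat_lit 5) (nat_lit 32) (nat_lit 4) (nat_lit 379) (nat_lit 313) (nat_lit 208)) (XT.nd (nat_lit 78) (nat_lit 76) (nat_lit 0) (XT.lf (nat_lit 0) (nat_lit 38618970275) (nat_lit 228) (nat_lit 1227453249) (nat_lit 76) (nat_lit 24398489777) (nat_lit 31) (nat_lit 5) (nat_lit 34) (nat_lit 5) (nat_lit 32) (nat_lit 4) (nat_lit 380) (nat_lit 313) (nat_lit 207)) (XT.lf (nat_lit 0) (nat_lit 40420163472) (nat_lit 76) (nat_lit 18725533588) (nat_lit 152) (nat_lit 7633694258) (nat_lit 30) (nat_lit 5) (nat_lit 31) (nat_lit 5) (nat_lit 32) (nat_lit 4) (nat_lit 381) (nat_lit 313) (nat_lit 206))))))))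
noncomputable def xc74 : XT := (XT.nd (nat_lit 42588) (nat_lit 0) (nat_lit 5700) (XT.nd (nat_lit 41652) (nat_lit 0) (nat_lit 14896) (XT.nd (nat_lit 390) (nat_lit 304) (nat_lit 0) (XT.nd (nat_lit 156) (nat_lit 228) (nat_lit 0) (XT.nd (nat_lit 78) (nat_lit 0) (nat_lit 0) (XT.lf (nat_lit 0) (nat_lit 11218248286) (nat_lit 228) (nat_lit 54572790740) (nat_lit 76) (nat_lit 3640916198) (nat_lit 27) (nat_lit 5) (nat_lit 30) (nat_lit 5) (nat_lit 28) (nat_lit 4) (nat_lit 382) (nat_lit 313) (nat_lit 205)) (XT.lf (nat_lit 0) (nat_lit 31307801486) (nat_lit 228) (nat_lit 13810052984) (nat_lit 76) (nat_lit 27083440300) (nat_lit 27) (nat_lit 5) (nat_lit 30) (nat_lit 5) (nat_lit 28) (nat_lit 4) (nat_lit 383) (nat_lit 313) (nat_lit 204))) (XT.nd (nat_lit 78) (nat_lit 152) (nat_lit 0) (XT.lf (nat_lit 0) (nat_lit 29546799358) (nat_lit 76) (nat_lit 23127997296) (nat_lit 152) (nat_lit 22426117216) (nat_lit 26) (nat_lit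 5) (nat_lit 27) (nat_lit 5) (nat_lit 28) (nat_lit 4) (nat_lit 384) (nat_lit 313) (nat_lit 203)) (XT.nd (nat_lit 78) (nat_lit 152) (nat_lit 0) (XT.lf (nat_lit 0) (nat_lit 75242527525) (nat_lit 152) (nat_lit 2802431947) (nat_lit 0) (nat_lit 96584306) (nat_lit 26) (nat_lit 5) (nat_lit 28) (nat_lit 4) (nat_lit 26) (nat_lit 4) (nat_lit 385) (nat_lit 313) (nat_lit 202)) (XT.lf (nat_lit 0) (nat_lit 17900459947) (nat_lit 152) (nat_lit 38823990721) (nat_lit 76) (nat_lit 24585492714) (nat_lit 24) (nat_lit 5) (nat_lit 26) (nat_lit 5) (nat_lit 25) (nat_lit 4) (nat_lit 386) (nat_lit 313) (nat_lit 201))))) (XT.nd (nat_lit 234) (nat_lit 152) (nat_lit 0) (XT.nd (nat_lit 78) (nat_lit 76) (nat_lit 0) (XT.lf (nat_lit 0) (nat_lit 5520686947) (nat_lit 76) (nat_lit 34231939432) (nat_lit 152) (nat_lit 44881096581) (nat_lit 23) (nat_lit 5) (nat_lit 24) (nat_lit 5) (nat_lit 25) (nat_lit 4) (nat_lit 387) (nat_lit 313)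 (nat_lit 200)) (XT.nd (nat_lit 78) (nat_lit 76) (nat_lit 0) (XT.lf (nat_lit 0) (nat_lit 52875530956) (nat_lit 76) (nat_lit 10211745386) (nat_lit 152) (nat_lit 25024720118) (nat_lit 23) (nat_lit 5) (nat_lit 24) (nat_lit 5) (nat_lit 25) (nat_lit 4) (nat_lit 388) (nat_lit 313) (nat_lit 199)) (XT.lf (nat_lit 0) (nat_lit 10884344399) (nat_lit 76) (nat_lit 76943825190) (nat_lit 76) (nat_lit 3928829870) (nat_lit 22) (nat_lit 4) (nat_lit 23) (nat_lit 5) (nat_lit 23) (nat_lit 4) (nat_lit 389) (nat_lit 313) (nat_lit 198)))) (XT.nd (nat_lit 78) (nat_lit 76) (nat_lit 0) (XT.lf (nat_lit 0) (nat_lit 18326464744) (nat_lit 152) (nat_lit 35825036713) (nat_lit 76) (nat_lit 41413691902) (nat_lit 21) (nat_lit 5) (nat_lit 23) (nat_lit 5) (nat_lit 22) (nat_lit 4) (nat_lit 390) (nat_lit 313) (nat_lit 197)) (XT.nd (nat_lit 40872) (nat_lit 0) (nat_lit 19000) (XT.lf (nat_lit 0) (nat_lit 11646012481) (nat_lit 76) (nat_lit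 30071194219) (nat_lit 152) (nat_lit 57842306180) (nat_lit 20) (nat_lit 5) (nat_lit 21) (nat_lit 5) (nat_lit 22) (nat_lit 4) (nat_lit 391) (nat_lit 313) (nat_lit 196)) (XT.lf (nat_lit 0) (nat_lit 883864992) (nat_lit 0) (nat_lit 883864992) (nat_lit 988) (nat_lit 2600543911) (nat_lit 270) (nat_lit 5) (nat_lit 270) (nat_lit 3) (nat_lit 283) (nat_lit 3) (nat_lit 314) (nat_lit 314) (nat_lit 272)))))) (XT.nd (nat_lit 468) (nat_lit 3192) (nat_lit 0) (XT.nd (nat_lit 234) (nat_lit 912) (nat_lit 0) (XT.nd (nat_lit 78) (nat_lit 0) (nat_lit 76) (XT.lf (nat_lit 0) (nat_lit 5211816328) (nat_lit 988) (nat_lit 79405291) (nat_lit 1064) (nat_lit 3614984698) (nat_lit 270) (nat_lit 5) (nat_lit 283) (nat_lit 3) (nat_lit 284) (nat_lit 5) (nat_lit 315) (nat_lit 314) (nat_lit 271)) (XT.nd (nat_lit 78) (nat_lit 0) (nat_lit 0) (XT.lf (nat_lit 0) (nat_lit 6962912156) (nat_lit 988) (nat_lit 1862917155) (nat_lit 1064) (nat_lit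 258862250) (nat_lit 271) (nat_lit 5) (nat_lit 284) (nat_lit 5) (nat_lit 285) (nat_lit 5) (nat_lit 316) (nat_lit 314) (nat_lit 270)) (XT.lf (nat_lit 76) (nat_lit 5618807740) (nat_lit 0) (nat_lit 3196720016) (nat_lit 1064) (nat_lit 456222403) (nat_lit 272) (nat_lit 5) (nat_lit 271) (nat_lit 5) (nat_lit 285) (nat_lit 5) (nat_lit 317) (nat_lit 314) (nat_lit 269)))) (XT.nd (nat_lit 78) (nat_lit 0) (nat_lit 0) (XT.lf (nat_lit 0) (nat_lit 1261630247) (nat_lit 1064) (nat_lit 5438774578) (nat_lit 1140) (nat_lit 2767619772) (nat_lit 258) (nat_lit 5) (nat_lit 272) (nat_lit 5) (nat_lit 273) (nat_lit 5) (nat_lit 318) (nat_lit 314) (nat_lit 268)) (XT.nd (nat_lit 78) (nat_lit 0) (nat_lit 76) (XT.lf (nat_lit 76) (nat_lit 2452782733) (nat_lit 0) (nat_lit 609957823) (nat_lit 1140) (nat_lit 6611092597) (nat_lit 259) (nat_lit 5) (nat_lit 258) (nat_lit 5) (nat_lit 273) (nat_lit 5) (nat_lit 319) (nat_lit 314) (nat_lit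 267)) (XT.lf (nat_lit 76) (nat_lit 867128456) (nat_lit 0) (nat_lit 4124048597) (nat_lit 1140) (nat_lit 4897694026) (nat_lit 260) (nat_lit 5) (nat_lit 259) (nat_lit 5) (nat_lit 274) (nat_lit 5) (nat_lit 320) (nat_lit 314) (nat_lit 266))))) (XT.nd (nat_lit 234) (nat_lit 2280) (nat_lit 0) (XT.nd (nat_lit 78) (nat_lit 1064) (nat_lit 0) (XT.lf (nat_lit 0) (nat_lit 7040043783) (nat_lit 1064) (nat_lit 690019658) (nat_lit 1140) (nat_lit 2383931556) (nat_lit 260) (nat_lit 5) (nat_lit 274) (nat_lit 5) (nat_lit 275) (nat_lit 5) (nat_lit 321) (nat_lit 314) (nat_lit 265)) (XT.nd (nat_lit 78) (nat_lit 1064) (nat_lit 0) (XT.lf (nat_lit 76) (nat_lit 8118940138) (nat_lit 0) (nat_lit 1116303947) (nat_lit 1140) (nat_lit 1113866076) (nat_lit 261) (nat_lit 5) (nat_lit 260) (nat_lit 5) (nat_lit 275) (nat_lit 5) (nat_lit 322) (nat_lit 314) (nat_lit 264)) (XT.lf (nat_lit 0) (nat_lit 982413087) (nat_lit 1140) (nat_lit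 3797197550) (nat_lit 1216) (nat_lit 5814447564) (nat_lit 246) (nat_lit 5) (nat_lit 261) (nat_lit 5) (nat_lit 262) (nat_lit 5) (nat_lit 323) (nat_lit 314) (nat_lit 263)))) (XT.nd (nat_lit 78) (nat_lit 2356) (nat_lit 0) (XT.lf (nat_lit 0) (nat_lit 3199977716) (nat_lit 1140) (nat_lit 5373677469) (nat_lit 76) (nat_lit 2276127946) (nat_lit 247) (nat_lit 5) (nat_lit 262) (nat_lit 5) (nat_lit 248) (nat_lit 5) (nat_lit 324) (nat_lit 314) (nat_lit 262)) (XT.nd (nat_lit 78) (nat_lit 1216) (nat_lit 0) (XT.lf (nat_lit 0) (nat_lit 4150339200) (nat_lit 1140) (nat_lit 1438298966) (nat_lit 1216) (nat_lit 5527893023) (nat_lit 232) (nat_lit 5) (nat_lit 247) (nat_lit 5) (nat_lit 248) (nat_lit 5) (nat_lit 325) (nat_lit 314) (nat_lit 261)) (XT.lf (nat_lit 0) (nat_lit 2806161690) (nat_lit 1216) (nat_lit 5366967935) (nat_lit 1292) (nat_lit 3221236427) (nat_lit 216) (nat_lit 5) (nat_lit 232) (nat_lit 5) (nat_lit 233)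 (nat_lit 5) (nat_lit 326) (nat_lit 314) (nat_lit 260))))))) (XT.nd (nat_lit 936) (nat_lit 3952) (nat_lit 0) (XT.nd (nat_lit 468) (nat_lit 2280) (nat_lit 0) (XT.nd (nat_lit 234) (nat_lit 1748) (nat_lit 0) (XT.nd (nat_lit 78) (nat_lit 608) (nat_lit 0) (XT.lf (nat_lit 0) (nat_lit 1463506327) (nat_lit 608) (nat_lit 9482842514) (nat_lit 684) (nat_lit 737998095) (nat_lit 208) (nat_lit 5) (nat_lit 216) (nat_lit 5) (nat_lit 217) (nat_lit 5) (nat_lit 327) (nat_lit 314) (nat_lit 259)) (XT.nd (nat_lit 78) (nat_lit 0) (nat_lit 0) (XT.lf (nat_lit 0) (nat_lit 82056569) (nat_lit 532) (nat_lit 1834855766) (nat_lit 608) (nat_lit 10068892172) (nat_lit 200) (nat_lit 5) (nat_lit 207) (nat_lit 5) (nat_lit 208) (nat_lit 5) (nat_lit 328) (nat_lit 314) (nat_lit 258)) (XT.lf (nat_lit 0) (nat_lit 4797355362) (nat_lit 608) (nat_lit 1311304910) (nat_lit 76) (nat_lit 6190248650) (nat_lit 200) (nat_lit 5) (nat_lit 208) (nat_lit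 5) (nat_lit 201) (nat_lit 5) (nat_lit 329) (nat_lit 314) (nat_lit 257)))) (XT.nd (nat_lit 78) (nat_lit 1140) (nat_lit 0) (XT.lf (nat_lit 0) (nat_lit 7900366432) (nat_lit 684) (nat_lit 2714629317) (nat_lit 76) (nat_lit 2010349452) (nat_lit 192) (nat_lit 5) (nat_lit 201) (nat_lit 5) (nat_lit 193) (nat_lit 5) (nat_lit 330) (nat_lit 314) (nat_lit 256)) (XT.nd (nat_lit 78) (nat_lit 608) (nat_lit 0) (XT.lf (nat_lit 0) (nat_lit 8808583484) (nat_lit 532) (nat_lit 2456869023) (nat_lit 608) (nat_lit 1699474504) (nat_lit 185) (nat_lit 5) (nat_lit 192) (nat_lit 5) (nat_lit 193) (nat_lit 5) (nat_lit 331) (nat_lit 314) (nat_lit 255)) (XT.lf (nat_lit 0) (nat_lit 1559254905) (nat_lit 608) (nat_lit 5653632180) (nat_lit 76) (nat_lit 6104880557) (nat_lit 177) (nat_lit 5) (nat_lit 185) (nat_lit 5) (nat_lit 178) (nat_lit 5) (nat_lit 332) (nat_lit 314) (nat_lit 254))))) (XT.nd (nat_lit 234) (nat_lit 912) (nat_lit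 0) (XT.nd (nat_lit 78) (nat_lit 912) (nat_lit 0) (XT.lf (nat_lit 0) (nat_lit 5041210222) (nat_lit 532) (nat_lit 7193902618) (nat_lit 76) (nat_lit 1449797250) (nat_lit 171) (nat_lit 5) (nat_lit 178) (nat_lit 5) (nat_lit 172) (nat_lit 5) (nat_lit 333) (nat_lit 314) (nat_lit 253)) (XT.nd (nat_lit 78) (nat_lit 456) (nat_lit 0) (XT.lf (nat_lit 0) (nat_lit 5267465656) (nat_lit 456) (nat_lit 3564168411) (nat_lit 532) (nat_lit 5234770846) (nat_lit 165) (nat_lit 5) (nat_lit 171) (nat_lit 5) (nat_lit 172) (nat_lit 5) (nat_lit 334) (nat_lit 314) (nat_lit 252)) (XT.lf (nat_lit 0) (nat_lit 4007603478) (nat_lit 456) (nat_lit 8924410969) (nat_lit 532) (nat_lit 1531372091) (nat_lit 159) (nat_lit 5) (nat_lit 165) (nat_lit 5) (nat_lit 166) (nat_lit 5) (nat_lit 335) (nat_lit 314) (nat_lit 251)))) (XT.nd (nat_lit 78) (nat_lit 380) (nat_lit 0) (XT.lf (nat_lit 0) (nat_lit 2422401538) (nat_lit 532) (nat_lit 12178448515)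 (nat_lit 76) (nat_lit 275374581) (nat_lit 152) (nat_lit 5) (nat_lit 159) (nat_lit 5) (nat_lit 153) (nat_lit 5) (nat_lit 336) (nat_lit 314) (nat_lit 250)) (XT.nd (nat_lit 78) (nat_lit 0) (nat_lit 0) (XT.lf (nat_lit 0) (nat_lit 1286375098) (nat_lit 380) (nat_lit 5423903453) (nat_lit 456) (nat_lit 8593950768) (nat_lit 147) (nat_lit 5) (nat_lit 152) (nat_lit 5) (nat_lit 153) (nat_lit 5) (nat_lit 337) (nat_lit 314) (nat_lit 249)) (XT.lf (nat_lit 0) (nat_lit 11337768460) (nat_lit 456) (nat_lit 165485042) (nat_lit 76) (nat_lit 4246645232) (nat_lit 147) (nat_lit 5) (nat_lit 153) (nat_lit 5) (nat_lit 148) (nat_lit 5) (nat_lit 338) (nat_lit 314) (nat_lit 248)))))) (XT.nd (nat_lit 468) (nat_lit 1596) (nat_lit 0) (XT.nd (nat_lit 234) (nat_lit 1064) (nat_lit 0) (XT.nd (nat_lit 78) (nat_lit 760) (nat_lit 0) (XT.lf (nat_lit 0) (nat_lit 135517032) (nat_lit 532) (nat_lit 1656010368) (nat_lit 76) (nat_lit 14421660166)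 (nat_lit 140) (nat_lit 5) (nat_lit 147) (nat_lit 5) (nat_lit 141) (nat_lit 5) (nat_lit 339) (nat_lit 314) (nat_lit 247)) (XT.nd (nat_lit 78) (nat_lit 380) (nat_lit 0) (XT.lf (nat_lit 0) (nat_lit 4995116564) (nat_lit 456) (nat_lit 3289131090) (nat_lit 76) (nat_lit 8408826620) (nat_lit 135) (nat_lit 5) (nat_lit 141) (nat_lit 5) (nat_lit 136) (nat_lit 5) (nat_lit 340) (nat_lit 314) (nat_lit 246)) (XT.lf (nat_lit 0) (nat_lit 10232302249) (nat_lit 456) (nat_lit 4986753064) (nat_lit 76) (nat_lit 1973879488) (nat_lit 130) (nat_lit 5) (nat_lit 136) (nat_lit 5) (nat_lit 131) (nat_lit 5) (nat_lit 341) (nat_lit 314) (nat_lit 245)))) (XT.nd (nat_lit 78) (nat_lit 760) (nat_lit 0) (XT.lf (nat_lit 0) (nat_lit 10908283751) (nat_lit 304) (nat_lit 5009378014) (nat_lit 380) (nat_lit 1794553980) (nat_lit 126) (nat_lit 5) (nat_lit 130) (nat_lit 5) (nat_lit 131) (nat_lit 5) (nat_lit 342) (nat_lit 314) (nat_lit 244))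 (XT.nd (nat_lit 78) (nat_lit 304) (nat_lit 0) (XT.lf (nat_lit 0) (nat_lit 3723733361) (nat_lit 456) (nat_lit 8760594230) (nat_lit 76) (nat_lit 5767159862) (nat_lit 120) (nat_lit 5) (nat_lit 126) (nat_lit 5) (nat_lit 121) (nat_lit 5) (nat_lit 343) (nat_lit 314) (nat_lit 243)) (XT.lf (nat_lit 0) (nat_lit 7965379726) (nat_lit 304) (nat_lit 1679326535) (nat_lit 380) (nat_lit 9167581711) (nat_lit 116) (nat_lit 5) (nat_lit 120) (nat_lit 5) (nat_lit 121) (nat_lit 5) (nat_lit 344) (nat_lit 314) (nat_lit 242))))) (XT.nd (nat_lit 234) (nat_lit 608) (nat_lit 0) (XT.nd (nat_lit 78) (nat_lit 684) (nat_lit 0) (XT.lf (nat_lit 0) (nat_lit 6294092398) (nat_lit 304) (nat_lit 9778867767) (nat_lit 380) (nat_lit 3321845493) (nat_lit 112) (nat_lit 5) (nat_lit 116) (nat_lit 5) (nat_lit 117) (nat_lit 5) (nat_lit 345) (nat_lit 314) (nat_lit 241)) (XT.nd (nat_lit 78) (nat_lit 304) (nat_lit 0) (XT.lf (nat_lit 0) (nat_lit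 2917341495) (nat_lit 380) (nat_lit 15504801884) (nat_lit 76) (nat_lit 1578823241) (nat_lit 107) (nat_lit 5) (nat_lit 112) (nat_lit 5) (nat_lit 108) (nat_lit 5) (nat_lit 346) (nat_lit 314) (nat_lit 240)) (XT.lf (nat_lit 0) (nat_lit 2482123059) (nat_lit 304) (nat_lit 7145587033) (nat_lit 380) (nat_lit 11001913586) (nat_lit 103) (nat_lit 5) (nat_lit 107) (nat_lit 5) (nat_lit 108) (nat_lit 5) (nat_lit 347) (nat_lit 314) (nat_lit 239)))) (XT.nd (nat_lit 78) (nat_lit 380) (nat_lit 0) (XT.lf (nat_lit 0) (nat_lit 321559921) (nat_lit 228) (nat_lit 16530906464) (nat_lit 304) (nat_lit 4431892963) (nat_lit 100) (nat_lit 5) (nat_lit 103) (nat_lit 5) (nat_lit 104) (nat_lit 5) (nat_lit 348) (nat_lit 314) (nat_lit 238)) (XT.nd (nat_lit 78) (nat_lit 304) (nat_lit 0) (XT.lf (nat_lit 0) (nat_lit 2649466989) (nat_lit 304) (nat_lit 2015386694) (nat_lit 76) (nat_lit 17299348607) (nat_lit 99) (nat_lit 5) (nat_lit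 103) (nat_lit 5) (nat_lit 100) (nat_lit 5) (nat_lit 349) (nat_lit 314) (nat_lit 237)) (XT.lf (nat_lit 0) (nat_lit 10217085124) (nat_lit 380) (nat_lit 4603169868) (nat_lit 76) (nat_lit 7849760949) (nat_lit 95) (nat_lit 5) (nat_lit 100) (nat_lit 5) (nat_lit 96) (nat_lit 5) (nat_lit 350) (nat_lit 314) (nat_lit 236))))))))
noncomputable def xc75 : XT := (XT.nd (nat_lit 1872) (nat_lit 1368) (nat_lit 0) (XT.nd (nat_lit 936) (nat_lit 1596) (nat_lit 0) (XT.nd (nat_lit 468) (nat_lit 1064) (nat_lit 0) (XT.nd (nat_lit 234) (nat_lit 760) (nat_lit 0) (XT.nd (nat_lit 78) (nat_lit 608) (nat_lit 0) (XT.lf (nat_lit 0) (nat_lit 16007765026) (nat_lit 228) (nat_lit 2349657051) (nat_lit 304) (nat_lit 5047877986) (nat_lit 92) (nat_lit 5) (nat_lit 95) (nat_lit 5) (nat_lit 96) (nat_lit 5) (nat_lit 351) (nat_lit 314) (nat_lit 235)) (XT.nd (nat_lit 78) (nat_lit 228) (nat_lit 0) (XT.lf (nat_lit 0) (nat_lit 2932685786)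 (nat_lit 380) (nat_lit 10507090690) (nat_lit 76) (nat_lit 10729040157) (nat_lit 87) (nat_lit 5) (nat_lit 92) (nat_lit 5) (nat_lit 88) (nat_lit 5) (nat_lit 352) (nat_lit 314) (nat_lit 234)) (XT.lf (nat_lit 0) (nat_lit 11059783882) (nat_lit 228) (nat_lit 329831365) (nat_lit 304) (nat_lit 13573951095) (nat_lit 84) (nat_lit 5) (nat_lit 87) (nat_lit 5) (nat_lit 88) (nat_lit 5) (nat_lit 353) (nat_lit 314) (nat_lit 233)))) (XT.nd (nat_lit 78) (nat_lit 532) (nat_lit 0) (XT.lf (nat_lit 0) (nat_lit 8117560462) (nat_lit 228) (nat_lit 12442801036) (nat_lit 304) (nat_lit 5228971255) (nat_lit 81) (nat_lit 5) (nat_lit 84) (nat_lit 5) (nat_lit 85) (nat_lit 5) (nat_lit 354) (nat_lit 314) (nat_lit 232)) (XT.nd (nat_lit 78) (nat_lit 228) (nat_lit 0) (XT.lf (nat_lit 0) (nat_lit 3646504933) (nat_lit 304) (nat_lit 21766878636) (nat_lit 76) (nat_lit 1236526877) (nat_lit 77) (nat_lit 5) (nat_lit 81) (nat_lit 5) (nat_lit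 78) (nat_lit 5) (nat_lit 355) (nat_lit 314) (nat_lit 231)) (XT.lf (nat_lit 0) (nat_lit 1190696589) (nat_lit 228) (nat_lit 11964483070) (nat_lit 304) (nat_lit 14387864504) (nat_lit 74) (nat_lit 5) (nat_lit 77) (nat_lit 5) (nat_lit 78) (nat_lit 5) (nat_lit 356) (nat_lit 314) (nat_lit 230))))) (XT.nd (nat_lit 234) (nat_lit 608) (nat_lit 0) (XT.nd (nat_lit 78) (nat_lit 456) (nat_lit 0) (XT.lf (nat_lit 0) (nat_lit 23362767942) (nat_lit 304) (nat_lit 2784671127) (nat_lit 76) (nat_lit 2326698082) (nat_lit 74) (nat_lit 5) (nat_lit 78) (nat_lit 5) (nat_lit 75) (nat_lit 5) (nat_lit 357) (nat_lit 314) (nat_lit 229)) (XT.nd (nat_lit 78) (nat_lit 228) (nat_lit 0) (XT.lf (nat_lit 0) (nat_lit 4853809056) (nat_lit 228) (nat_lit 7252229016) (nat_lit 76) (nat_lit 17334962712) (nat_lit 71) (nat_lit 5) (nat_lit 74) (nat_lit 5) (nat_lit 72) (nat_lit 5) (nat_lit 358) (nat_lit 314) (nat_lit 228)) (XT.lf (nat_lit 0)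 (nat_lit 15423044289) (nat_lit 304) (nat_lit 12194493388) (nat_lit 76) (nat_lit 2830812571) (nat_lit 68) (nat_lit 5) (nat_lit 72) (nat_lit 5) (nat_lit 69) (nat_lit 5) (nat_lit 359) (nat_lit 314) (nat_lit 227)))) (XT.nd (nat_lit 78) (nat_lit 456) (nat_lit 0) (XT.lf (nat_lit 0) (nat_lit 13793561604) (nat_lit 152) (nat_lit 13036009355) (nat_lit 228) (nat_lit 4667237192) (nat_lit 66) (nat_lit 5) (nat_lit 68) (nat_lit 5) (nat_lit 69) (nat_lit 5) (nat_lit 360) (nat_lit 314) (nat_lit 226)) (XT.nd (nat_lit 78) (nat_lit 152) (nat_lit 0) (XT.lf (nat_lit 0) (nat_lit 6302660464) (nat_lit 304) (nat_lit 23796567027) (nat_lit 76) (nat_lit 2490224001) (nat_lit 62) (nat_lit 5) (nat_lit 66) (nat_lit 5) (nat_lit 63) (nat_lit 5) (nat_lit 361) (nat_lit 314) (nat_lit 225)) (XT.lf (nat_lit 0) (nat_lit 3097957831) (nat_lit 152) (nat_lit 14952526881) (nat_lit 228) (nat_lit 15675082417) (nat_lit 60) (nat_lit 5) (nat_lit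 62) (nat_lit 5) (nat_lit 63) (nat_lit 5) (nat_lit 362) (nat_lit 314) (nat_lit 224)))))) (XT.nd (nat_lit 468) (nat_lit 836) (nat_lit 0) (XT.nd (nat_lit 234) (nat_lit 380) (nat_lit 0) (XT.nd (nat_lit 78) (nat_lit 380) (nat_lit 0) (XT.lf (nat_lit 0) (nat_lit 30622411304) (nat_lit 228) (nat_lit 3122212610) (nat_lit 76) (nat_lit 1166768211) (nat_lit 60) (nat_lit 5) (nat_lit 63) (nat_lit 5) (nat_lit 61) (nat_lit 5) (nat_lit 363) (nat_lit 314) (nat_lit 223)) (XT.nd (nat_lit 78) (nat_lit 152) (nat_lit 0) (XT.lf (nat_lit 0) (nat_lit 7903386584) (nat_lit 228) (nat_lit 10138353447) (nat_lit 76) (nat_lit 18100965241) (nat_lit 57) (nat_lit 5) (nat_lit 60) (nat_lit 5) (nat_lit 58) (nat_lit 5) (nat_lit 364) (nat_lit 314) (nat_lit 222)) (XT.lf (nat_lit 0) (nat_lit 19523420118) (nat_lit 152) (nat_lit 1295733938) (nat_lit 228) (nat_lit 16609085856) (nat_lit 55) (nat_lit 5) (nat_lit 57) (nat_lit 5) (nat_lit 58)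 (nat_lit 5) (nat_lit 365) (nat_lit 314) (nat_lit 221)))) (XT.nd (nat_lit 78) (nat_lit 228) (nat_lit 0) (XT.lf (nat_lit 0) (nat_lit 12153464683) (nat_lit 152) (nat_lit 22588024089) (nat_lit 228) (nat_lit 4025743266) (nat_lit 53) (nat_lit 5) (nat_lit 55) (nat_lit 5) (nat_lit 56) (nat_lit 5) (nat_lit 366) (nat_lit 314) (nat_lit 220)) (XT.nd (nat_lit 78) (nat_lit 0) (nat_lit 0) (XT.lf (nat_lit 0) (nat_lit 3862563363) (nat_lit 152) (nat_lit 5363659110) (nat_lit 228) (nat_lit 30937744154) (nat_lit 50) (nat_lit 5) (nat_lit 52) (nat_lit 5) (nat_lit 53) (nat_lit 5) (nat_lit 367) (nat_lit 314) (nat_lit 219)) (XT.lf (nat_lit 0) (nat_lit 23440075486) (nat_lit 228) (nat_lit 5399379965) (nat_lit 76) (nat_lit 12778413929) (nat_lit 50) (nat_lit 5) (nat_lit 53) (nat_lit 5) (nat_lit 51) (nat_lit 5) (nat_lit 368) (nat_lit 314) (nat_lit 218))))) (XT.nd (nat_lit 234) (nat_lit 304) (nat_lit 0) (XT.nd (nat_lit 78)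 (nat_lit 380) (nat_lit 0) (XT.lf (nat_lit 0) (nat_lit 27501416807) (nat_lit 152) (nat_lit 11165325187) (nat_lit 228) (nat_lit 4468665106) (nat_lit 48) (nat_lit 5) (nat_lit 50) (nat_lit 5) (nat_lit 51) (nat_lit 5) (nat_lit 369) (nat_lit 314) (nat_lit 217)) (XT.nd (nat_lit 78) (nat_lit 152) (nat_lit 0) (XT.lf (nat_lit 0) (nat_lit 10016151739) (nat_lit 228) (nat_lit 27140688523) (nat_lit 76) (nat_lit 7560604557) (nat_lit 45) (nat_lit 5) (nat_lit 48) (nat_lit 5) (nat_lit 46) (nat_lit 5) (nat_lit 370) (nat_lit 314) (nat_lit 216)) (XT.lf (nat_lit 0) (nat_lit 6337383142) (nat_lit 152) (nat_lit 19116768382) (nat_lit 228) (nat_lit 20913467786) (nat_lit 43) (nat_lit 5) (nat_lit 45) (nat_lit 5) (nat_lit 46) (nat_lit 5) (nat_lit 371) (nat_lit 314) (nat_lit 215)))) (XT.nd (nat_lit 78) (nat_lit 304) (nat_lit 0) (XT.lf (nat_lit 0) (nat_lit 41929254822) (nat_lit 228) (nat_lit 6063912038) (nat_lit 76) (nat_lit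 99182456) (nat_lit 43) (nat_lit 5) (nat_lit 46) (nat_lit 5) (nat_lit 44) (nat_lit 4) (nat_lit 372) (nat_lit 314) (nat_lit 214)) (XT.nd (nat_lit 78) (nat_lit 152) (nat_lit 0) (XT.lf (nat_lit 0) (nat_lit 9613912846) (nat_lit 152) (nat_lit 20017165355) (nat_lit 76) (nat_lit 20255418958) (nat_lit 41) (nat_lit 5) (nat_lit 43) (nat_lit 5) (nat_lit 42) (nat_lit 5) (nat_lit 373) (nat_lit 314) (nat_lit 213)) (XT.lf (nat_lit 0) (nat_lit 16184821974) (nat_lit 152) (nat_lit 10073051307) (nat_lit 228) (nat_lit 25504484094) (nat_lit 39) (nat_lit 5) (nat_lit 41) (nat_lit 5) (nat_lit 42) (nat_lit 5) (nat_lit 374) (nat_lit 314) (nat_lit 212))))))) (XT.nd (nat_lit 936) (nat_lit 380) (nat_lit 0) (XT.nd (nat_lit 468) (nat_lit 380) (nat_lit 0) (XT.nd (nat_lit 234) (nat_lit 304) (nat_lit 0) (XT.nd (nat_lit 78) (nat_lit 228) (nat_lit 0) (XT.lf (nat_lit 0) (nat_lit 776691228) (nat_lit 76) (nat_lit 43259574012) (nat_lit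 152) (nat_lit 9686680784) (nat_lit 38) (nat_lit 5) (nat_lit 39) (nat_lit 5) (nat_lit 40) (nat_lit 4) (nat_lit 375) (nat_lit 314) (nat_lit 211)) (XT.nd (nat_lit 78) (nat_lit 152) (nat_lit 0) (XT.lf (nat_lit 0) (nat_lit 7244858110) (nat_lit 152) (nat_lit 16275095227) (nat_lit 76) (nat_lit 32245879295) (nat_lit 37) (nat_lit 5) (nat_lit 39) (nat_lit 5) (nat_lit 38) (nat_lit 5) (nat_lit 376) (nat_lit 314) (nat_lit 210)) (XT.lf (nat_lit 0) (nat_lit 22548251005) (nat_lit 152) (nat_lit 2480029398) (nat_lit 228) (nat_lit 32873538816) (nat_lit 35) (nat_lit 5) (nat_lit 37) (nat_lit 5) (nat_lit 38) (nat_lit 5) (nat_lit 377) (nat_lit 314) (nat_lit 209)))) (XT.nd (nat_lit 78) (nat_lit 228) (nat_lit 0) (XT.lf (nat_lit 0) (nat_lit 3365579368) (nat_lit 76) (nat_lit 40712694155) (nat_lit 152) (nat_lit 16055011660) (nat_lit 34) (nat_lit 5) (nat_lit 35) (nat_lit 5) (nat_lit 36) (nat_lit 4) (nat_lit 378) (nat_lit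 314) (nat_lit 208)) (XT.nd (nat_lit 78) (nat_lit 152) (nat_lit 0) (XT.lf (nat_lit 0) (nat_lit 1953294910) (nat_lit 152) (nat_lit 17772780044) (nat_lit 76) (nat_lit 42738383845) (nat_lit 33) (nat_lit 5) (nat_lit 35) (nat_lit 5) (nat_lit 34) (nat_lit 5) (nat_lit 379) (nat_lit 314) (nat_lit 207)) (XT.lf (nat_lit 0) (nat_lit 20772563563) (nat_lit 228) (nat_lit 41481216262) (nat_lit 76) (nat_lit 2646366579) (nat_lit 31) (nat_lit 5) (nat_lit 34) (nat_lit 5) (nat_lit 32) (nat_lit 4) (nat_lit 380) (nat_lit 314) (nat_lit 206))))) (XT.nd (nat_lit 234) (nat_lit 76) (nat_lit 0) (XT.nd (nat_lit 78) (nat_lit 304) (nat_lit 0) (XT.lf (nat_lit 0) (nat_lit 40905113471) (nat_lit 228) (nat_lit 632748190) (nat_lit 76) (nat_lit 25908588901) (nat_lit 31) (nat_lit 5) (nat_lit 34) (nat_lit 5) (nat_lit 32) (nat_lit 4) (nat_lit 381) (nat_lit 314) (nat_lit 205)) (XT.nd (nat_lit 78) (nat_lit 228) (nat_lit 0) (XT.lf (nat_lit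 0) (nat_lit 43078443031) (nat_lit 76) (nat_lit 19368945375) (nat_lit 152) (nat_lit 7660590224) (nat_lit 30) (nat_lit 5) (nat_lit 31) (nat_lit 5) (nat_lit 32) (nat_lit 4) (nat_lit 382) (nat_lit 314) (nat_lit 204)) (XT.lf (nat_lit 0) (nat_lit 12119249414) (nat_lit 228) (nat_lit 56668261279) (nat_lit 76) (nat_lit 4105793344) (nat_lit 27) (nat_lit 5) (nat_lit 30) (nat_lit 5) (nat_lit 28) (nat_lit 4) (nat_lit 383) (nat_lit 314) (nat_lit 203)))) (XT.nd (nat_lit 78) (nat_lit 76) (nat_lit 0) (XT.lf (nat_lit 0) (nat_lit 33197085573) (nat_lit 228) (nat_lit 13897537540) (nat_lit 76) (nat_lit 28706975492) (nat_lit 27) (nat_lit 5) (nat_lit 30) (nat_lit 5) (nat_lit 28) (nat_lit 4) (nat_lit 384) (nat_lit 314) (nat_lit 202)) (XT.nd (nat_lit 78) (nat_lit 0) (nat_lit 0) (XT.lf (nat_lit 0) (nat_lit 31609872027) (nat_lit 76) (nat_lit 24012765369) (nat_lit 152) (nat_lit 23223857156) (nat_lit 26) (nat_lit 5) (nat_lit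 27) (nat_lit 5) (nat_lit 28) (nat_lit 4) (nat_lit 385) (nat_lit 314) (nat_lit 201)) (XT.lf (nat_lit 0) (nat_lit 79306284378) (nat_lit 152) (nat_lit 2378185334) (nat_lit 0) (nat_lit 355062357) (nat_lit 26) (nat_lit 5) (nat_lit 28) (nat_lit 4) (nat_lit 26) (nat_lit 4) (nat_lit 386) (nat_lit 314) (nat_lit 200)))))) (XT.nd (nat_lit 41340) (nat_lit 0) (nat_lit 17860) (XT.nd (nat_lit 234) (nat_lit 152) (nat_lit 0) (XT.nd (nat_lit 78) (nat_lit 76) (nat_lit 0) (XT.lf (nat_lit 0) (nat_lit 19090953350) (nat_lit 152) (nat_lit 40211082136) (nat_lit 76) (nat_lit 26064503982) (nat_lit 24) (nat_lit 5) (nat_lit 26) (nat_lit 5) (nat_lit 25) (nat_lit 4) (nat_lit 387) (nat_lit 314) (nat_lit 199)) (XT.nd (nat_lit 78) (nat_lit 0) (nat_lit 0) (XT.lf (nat_lit 0) (nat_lit 6334946017) (nat_lit 76) (nat_lit 35691885812) (nat_lit 152) (nat_lit 46829944843) (nat_lit 23) (nat_lit 5) (nat_lit 24) (nat_lit 5) (nat_lit 25)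 (nat_lit 4) (nat_lit 388) (nat_lit 314) (nat_lit 198)) (XT.lf (nat_lit 0) (nat_lit 56031902478) (nat_lit 76) (nat_lit 10482665426) (nat_lit 152) (nat_lit 25994807014) (nat_lit 23) (nat_lit 5) (nat_lit 24) (nat_lit 5) (nat_lit 25) (nat_lit 4) (nat_lit 389) (nat_lit 314) (nat_lit 197)))) (XT.nd (nat_lit 78) (nat_lit 76) (nat_lit 0) (XT.lf (nat_lit 0) (nat_lit 11932211074) (nat_lit 76) (nat_lit 80554333687) (nat_lit 76) (nat_lit 3850263732) (nat_lit 22) (nat_lit 4) (nat_lit 23) (nat_lit 5) (nat_lit 23) (nat_lit 4) (nat_lit 390) (nat_lit 314) (nat_lit 196)) (XT.nd (nat_lit 40950) (nat_lit 0) (nat_lit 18924) (XT.lf (nat_lit 0) (nat_lit 19499589164) (nat_lit 152) (nat_lit 37131482023) (nat_lit 76) (nat_lit 43704648274) (nat_lit 21) (nat_lit 5) (nat_lit 23) (nat_lit 5) (nat_lit 22) (nat_lit 4) (nat_lit 391) (nat_lit 314) (nat_lit 195)) (XT.lf (nat_lit 0) (nat_lit 1692202995) (nat_lit 0) (nat_lit 1692202995)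 (nat_lit 988) (nat_lit 1155334267) (nat_lit 270) (nat_lit 5) (nat_lit 270) (nat_lit 3) (nat_lit 283) (nat_lit 3) (nat_lit 315) (nat_lit 315) (nat_lit 270))))) (XT.nd (nat_lit 234) (nat_lit 0) (nat_lit 152) (XT.nd (nat_lit 78) (nat_lit 1064) (nat_lit 0) (XT.lf (nat_lit 76) (nat_lit 1504919440) (nat_lit 0) (nat_lit 6878990249) (nat_lit 1064) (nat_lit 878169201) (nat_lit 271) (nat_lit 5) (nat_lit 270) (nat_lit 5) (nat_lit 284) (nat_lit 5) (nat_lit 316) (nat_lit 315) (nat_lit 269)) (XT.nd (nat_lit 78) (nat_lit 0) (nat_lit 76) (XT.lf (nat_lit 0) (nat_lit 615968155) (nat_lit 1064) (nat_lit 359992778) (nat_lit 1140) (nat_lit 8477661826) (nat_lit 256) (nat_lit 5) (nat_lit 270) (nat_lit 5) (nat_lit 271) (nat_lit 5) (nat_lit 317) (nat_lit 315) (nat_lit 268)) (XT.lf (nat_lit 0) (nat_lit 2203441706) (nat_lit 1064) (nat_lit 2210585778) (nat_lit 1140) (nat_lit 5239411674) (nat_lit 257) (nat_lit 5) (nat_lit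 271) (nat_lit 5) (nat_lit 272) (nat_lit 5) (nat_lit 318) (nat_lit 315) (nat_lit 267)))) (XT.nd (nat_lit 78) (nat_lit 0) (nat_lit 0) (XT.lf (nat_lit 0) (nat_lit 3876189516) (nat_lit 1064) (nat_lit 4048690891) (nat_lit 1140) (nat_lit 1938246017) (nat_lit 258) (nat_lit 5) (nat_lit 272) (nat_lit 5) (nat_lit 273) (nat_lit 5) (nat_lit 319) (nat_lit 315) (nat_lit 266)) (XT.nd (nat_lit 78) (nat_lit 0) (nat_lit 76) (XT.lf (nat_lit 76) (nat_lit 4189802746) (nat_lit 0) (nat_lit 1471572068) (nat_lit 1140) (nat_lit 4421113582) (nat_lit 259) (nat_lit 5) (nat_lit 258) (nat_lit 5) (nat_lit 273) (nat_lit 5) (nat_lit 320) (nat_lit 315) (nat_lit 265)) (XT.lf (nat_lit 76) (nat_lit 2559235552) (nat_lit 0) (nat_lit 5018785376) (nat_lit 1140) (nat_lit 2733583253) (nat_lit 260) (nat_lit 5) (nat_lit 259) (nat_lit 5) (nat_lit 274) (nat_lit 5) (nat_lit 321) (nat_lit 315) (nat_lit 264))))))))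
noncomputable def xc76 : XT := (XT.nd (nat_lit 1794) (nat_lit 5320) (nat_lit 0) (XT.nd (nat_lit 858) (nat_lit 4940) (nat_lit 0) (XT.nd (nat_lit 390) (nat_lit 3572) (nat_lit 0) (XT.nd (nat_lit 156) (nat_lit 988) (nat_lit 0) (XT.nd (nat_lit 78) (nat_lit 1140) (nat_lit 0) (XT.lf (nat_lit 76) (nat_lit 938633322) (nat_lit 0) (nat_lit 8682117661) (nat_lit 1140) (nat_lit 930566516) (nat_lit 261) (nat_lit 5) (nat_lit 260) (nat_lit 5) (nat_lit 275) (nat_lit 5) (nat_lit 322) (nat_lit 315) (nat_lit 263)) (XT.lf (nat_lit 0) (nat_lit 1005102347) (nat_lit 1140) (nat_lit 688519434) (nat_lit 1216) (nat_lit 9107324135) (nat_lit 245) (nat_lit 5) (nat_lit 260) (nat_lit 5) (nat_lit 261) (nat_lit 5) (nat_lit 323) (nat_lit 315) (nat_lit 262))) (XT.nd (nat_lit 78) (nat_lit 1064) (nat_lit 0) (XT.lf (nat_lit 0) (nat_lit 3091718808) (nat_lit 1140) (nat_lit 2324413440) (nat_lit 1216) (nat_lit 5644488219) (nat_lit 246)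 (nat_lit 5) (nat_lit 261) (nat_lit 5) (nat_lit 262) (nat_lit 5) (nat_lit 324) (nat_lit 315) (nat_lit 261)) (XT.nd (nat_lit 78) (nat_lit 1140) (nat_lit 0) (XT.lf (nat_lit 0) (nat_lit 5334096108) (nat_lit 1140) (nat_lit 3963291307) (nat_lit 76) (nat_lit 2034389772) (nat_lit 247) (nat_lit 5) (nat_lit 262) (nat_lit 5) (nat_lit 248) (nat_lit 5) (nat_lit 325) (nat_lit 315) (nat_lit 260)) (XT.lf (nat_lit 0) (nat_lit 5988795990) (nat_lit 1140) (nat_lit 1775065490) (nat_lit 1216) (nat_lit 3850411558) (nat_lit 232) (nat_lit 5) (nat_lit 247) (nat_lit 5) (nat_lit 248) (nat_lit 5) (nat_lit 326) (nat_lit 315) (nat_lit 259))))) (XT.nd (nat_lit 234) (nat_lit 1140) (nat_lit 0) (XT.nd (nat_lit 78) (nat_lit 1216) (nat_lit 0) (XT.lf (nat_lit 0) (nat_lit 4589551702) (nat_lit 1216) (nat_lit 5811119656) (nat_lit 1292) (nat_lit 1507693136) (nat_lit 216) (nat_lit 5) (nat_lit 232) (nat_lit 5) (nat_lit 233) (nat_lit 5)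 (nat_lit 327) (nat_lit 315) (nat_lit 258)) (XT.nd (nat_lit 78) (nat_lit 532) (nat_lit 0) (XT.lf (nat_lit 0) (nat_lit 1005132293) (nat_lit 684) (nat_lit 9036494838) (nat_lit 76) (nat_lit 2173146947) (nat_lit 207) (nat_lit 5) (nat_lit 216) (nat_lit 5) (nat_lit 208) (nat_lit 5) (nat_lit 328) (nat_lit 315) (nat_lit 257)) (XT.lf (nat_lit 0) (nat_lit 1725713974) (nat_lit 532) (nat_lit 1983670325) (nat_lit 608) (nat_lit 8823796032) (nat_lit 200) (nat_lit 5) (nat_lit 207) (nat_lit 5) (nat_lit 208) (nat_lit 5) (nat_lit 329) (nat_lit 315) (nat_lit 256)))) (XT.nd (nat_lit 78) (nat_lit 532) (nat_lit 0) (XT.lf (nat_lit 0) (nat_lit 239243670) (nat_lit 608) (nat_lit 6415591348) (nat_lit 684) (nat_lit 6209523745) (nat_lit 192) (nat_lit 5) (nat_lit 200) (nat_lit 5) (nat_lit 201) (nat_lit 5) (nat_lit 330) (nat_lit 315) (nat_lit 255)) (XT.nd (nat_lit 78) (nat_lit 532) (nat_lit 0) (XT.lf (nat_lit 0) (nat_lit 9848937007)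 (nat_lit 684) (nat_lit 1237696441) (nat_lit 76) (nat_lit 2122451257) (nat_lit 192) (nat_lit 5) (nat_lit 201) (nat_lit 5) (nat_lit 193) (nat_lit 5) (nat_lit 331) (nat_lit 315) (nat_lit 254)) (XT.lf (nat_lit 0) (nat_lit 10815450300) (nat_lit 532) (nat_lit 2507905963) (nat_lit 608) (nat_lit 244100841) (nat_lit 185) (nat_lit 5) (nat_lit 192) (nat_lit 5) (nat_lit 193) (nat_lit 5) (nat_lit 332) (nat_lit 315) (nat_lit 253)))))) (XT.nd (nat_lit 468) (nat_lit 2052) (nat_lit 0) (XT.nd (nat_lit 234) (nat_lit 1368) (nat_lit 0) (XT.nd (nat_lit 78) (nat_lit 912) (nat_lit 0) (XT.lf (nat_lit 0) (nat_lit 3091447965) (nat_lit 608) (nat_lit 4341289176) (nat_lit 76) (nat_lit 6506480765) (nat_lit 177) (nat_lit 5) (nat_lit 185) (nat_lit 5) (nat_lit 178) (nat_lit 5) (nat_lit 333) (nat_lit 315) (nat_lit 252)) (XT.nd (nat_lit 78) (nat_lit 456) (nat_lit 0) (XT.lf (nat_lit 0) (nat_lit 6694581247) (nat_lit 532) (nat_lit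 5962961800) (nat_lit 76) (nat_lit 1668800653) (nat_lit 171) (nat_lit 5) (nat_lit 178) (nat_lit 5) (nat_lit 172) (nat_lit 5) (nat_lit 334) (nat_lit 315) (nat_lit 251)) (XT.lf (nat_lit 0) (nat_lit 7075879628) (nat_lit 456) (nat_lit 3546769460) (nat_lit 532) (nat_lit 4105857281) (nat_lit 165) (nat_lit 5) (nat_lit 171) (nat_lit 5) (nat_lit 172) (nat_lit 5) (nat_lit 335) (nat_lit 315) (nat_lit 250)))) (XT.nd (nat_lit 78) (nat_lit 912) (nat_lit 0) (XT.lf (nat_lit 0) (nat_lit 5746946922) (nat_lit 456) (nat_lit 9133427051) (nat_lit 532) (nat_lit 266428374) (nat_lit 159) (nat_lit 5) (nat_lit 165) (nat_lit 5) (nat_lit 166) (nat_lit 5) (nat_lit 336) (nat_lit 315) (nat_lit 249)) (XT.nd (nat_lit 78) (nat_lit 380) (nat_lit 0) (XT.lf (nat_lit 0) (nat_lit 3813279327) (nat_lit 532) (nat_lit 11230203934) (nat_lit 76) (nat_lit 537811929) (nat_lit 152) (nat_lit 5) (nat_lit 159) (nat_lit 5) (nat_lit 153) (nat_lit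 5) (nat_lit 337) (nat_lit 315) (nat_lit 248)) (XT.lf (nat_lit 0) (nat_lit 2863224981) (nat_lit 380) (nat_lit 5406399932) (nat_lit 456) (nat_lit 7762483809) (nat_lit 147) (nat_lit 5) (nat_lit 152) (nat_lit 5) (nat_lit 153) (nat_lit 5) (nat_lit 338) (nat_lit 315) (nat_lit 247))))) (XT.nd (nat_lit 234) (nat_lit 1140) (nat_lit 0) (XT.nd (nat_lit 78) (nat_lit 456) (nat_lit 0) (XT.lf (nat_lit 0) (nat_lit 1325523629) (nat_lit 456) (nat_lit 11760072694) (nat_lit 532) (nat_lit 3415781459) (nat_lit 141) (nat_lit 5) (nat_lit 147) (nat_lit 5) (nat_lit 148) (nat_lit 5) (nat_lit 339) (nat_lit 315) (nat_lit 246)) (XT.nd (nat_lit 78) (nat_lit 380) (nat_lit 0) (XT.lf (nat_lit 0) (nat_lit 1280320062) (nat_lit 532) (nat_lit 284436520) (nat_lit 76) (nat_lit 15424406130) (nat_lit 140) (nat_lit 5) (nat_lit 147) (nat_lit 5) (nat_lit 141) (nat_lit 5) (nat_lit 340) (nat_lit 315) (nat_lit 245)) (XT.lf (nat_lit 0) (nat_lit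 6345317961) (nat_lit 456) (nat_lit 2010493205) (nat_lit 76) (nat_lit 9138385914) (nat_lit 135) (nat_lit 5) (nat_lit 141) (nat_lit 5) (nat_lit 136) (nat_lit 5) (nat_lit 341) (nat_lit 315) (nat_lit 244)))) (XT.nd (nat_lit 78) (nat_lit 760) (nat_lit 0) (XT.lf (nat_lit 0) (nat_lit 11808705346) (nat_lit 456) (nat_lit 3805294178) (nat_lit 76) (nat_lit 2406145482) (nat_lit 130) (nat_lit 5) (nat_lit 136) (nat_lit 5) (nat_lit 131) (nat_lit 5) (nat_lit 342) (nat_lit 315) (nat_lit 243)) (XT.nd (nat_lit 78) (nat_lit 456) (nat_lit 0) (XT.lf (nat_lit 0) (nat_lit 12843480981) (nat_lit 304) (nat_lit 4897507111) (nat_lit 380) (nat_lit 825545718) (nat_lit 126) (nat_lit 5) (nat_lit 130) (nat_lit 5) (nat_lit 131) (nat_lit 5) (nat_lit 343) (nat_lit 315) (nat_lit 242)) (XT.lf (nat_lit 0) (nat_lit 4915281265) (nat_lit 456) (nat_lit 7801223511) (nat_lit 76) (nat_lit 6416962163) (nat_lit 120) (nat_lit 5) (nat_lit 126)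 (nat_lit 5) (nat_lit 121) (nat_lit 5) (nat_lit 344) (nat_lit 315) (nat_lit 241))))))) (XT.nd (nat_lit 936) (nat_lit 2052) (nat_lit 0) (XT.nd (nat_lit 468) (nat_lit 1672) (nat_lit 0) (XT.nd (nat_lit 234) (nat_lit 608) (nat_lit 0) (XT.nd (nat_lit 78) (nat_lit 684) (nat_lit 0) (XT.lf (nat_lit 0) (nat_lit 9720992940) (nat_lit 304) (nat_lit 1376483148) (nat_lit 380) (nat_lit 8625896866) (nat_lit 116) (nat_lit 5) (nat_lit 120) (nat_lit 5) (nat_lit 121) (nat_lit 5) (nat_lit 345) (nat_lit 315) (nat_lit 240)) (XT.nd (nat_lit 78) (nat_lit 380) (nat_lit 0) (XT.lf (nat_lit 0) (nat_lit 7952304538) (nat_lit 304) (nat_lit 9865078029) (nat_lit 380) (nat_lit 2518546447) (nat_lit 112) (nat_lit 5) (nat_lit 116) (nat_lit 5) (nat_lit 117) (nat_lit 5) (nat_lit 346) (nat_lit 315) (nat_lit 239)) (XT.lf (nat_lit 0) (nat_lit 3985048296) (nat_lit 380) (nat_lit 14932299104) (nat_lit 76) (nat_lit 2055648333) (nat_lit 107)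 (nat_lit 5) (nat_lit 112) (nat_lit 5) (nat_lit 108) (nat_lit 5) (nat_lit 347) (nat_lit 315) (nat_lit 238)))) (XT.nd (nat_lit 78) (nat_lit 304) (nat_lit 0) (XT.lf (nat_lit 0) (nat_lit 3915339307) (nat_lit 304) (nat_lit 7084282853) (nat_lit 380) (nat_lit 10634420213) (nat_lit 103) (nat_lit 5) (nat_lit 107) (nat_lit 5) (nat_lit 108) (nat_lit 5) (nat_lit 348) (nat_lit 315) (nat_lit 237)) (XT.nd (nat_lit 78) (nat_lit 76) (nat_lit 0) (XT.lf (nat_lit 0) (nat_lit 1631601040) (nat_lit 228) (nat_lit 16927879643) (nat_lit 304) (nat_lit 3762834720) (nat_lit 100) (nat_lit 5) (nat_lit 103) (nat_lit 5) (nat_lit 104) (nat_lit 5) (nat_lit 349) (nat_lit 315) (nat_lit 236)) (XT.lf (nat_lit 0) (nat_lit 3613628953) (nat_lit 304) (nat_lit 866952662) (nat_lit 76) (nat_lit 18556574829) (nat_lit 99) (nat_lit 5) (nat_lit 103) (nat_lit 5) (nat_lit 100) (nat_lit 5) (nat_lit 350) (nat_lit 315) (nat_lit 235))))) (XT.nd (nat_lit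 234) (nat_lit 760) (nat_lit 0) (XT.nd (nat_lit 78) (nat_lit 608) (nat_lit 0) (XT.lf (nat_lit 0) (nat_lit 11535625449) (nat_lit 380) (nat_lit 3599467722) (nat_lit 76) (nat_lit 8643902221) (nat_lit 95) (nat_lit 5) (nat_lit 100) (nat_lit 5) (nat_lit 96) (nat_lit 5) (nat_lit 351) (nat_lit 315) (nat_lit 234)) (XT.nd (nat_lit 78) (nat_lit 380) (nat_lit 0) (XT.lf (nat_lit 0) (nat_lit 18006645549) (nat_lit 228) (nat_lit 2049393101) (nat_lit 304) (nat_lit 4495827136) (nat_lit 92) (nat_lit 5) (nat_lit 95) (nat_lit 5) (nat_lit 96) (nat_lit 5) (nat_lit 352) (nat_lit 315) (nat_lit 233)) (XT.lf (nat_lit 0) (nat_lit 3845856913) (nat_lit 380) (nat_lit 9833676442) (nat_lit 76) (nat_lit 11674471955) (nat_lit 87) (nat_lit 5) (nat_lit 92) (nat_lit 5) (nat_lit 88) (nat_lit 5) (nat_lit 353) (nat_lit 315) (nat_lit 232)))) (XT.nd (nat_lit 78) (nat_lit 532) (nat_lit 0) (XT.lf (nat_lit 0) (nat_lit 12701062859) (nat_lit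 304) (nat_lit 13412823350) (nat_lit 76) (nat_lit 75355588) (nat_lit 84) (nat_lit 5) (nat_lit 88) (nat_lit 5) (nat_lit 85) (nat_lit 5) (nat_lit 354) (nat_lit 315) (nat_lit 231)) (XT.nd (nat_lit 78) (nat_lit 304) (nat_lit 0) (XT.lf (nat_lit 0) (nat_lit 9672352377) (nat_lit 228) (nat_lit 12636876894) (nat_lit 304) (nat_lit 4747712383) (nat_lit 81) (nat_lit 5) (nat_lit 84) (nat_lit 5) (nat_lit 85) (nat_lit 5) (nat_lit 355) (nat_lit 315) (nat_lit 230)) (XT.lf (nat_lit 0) (nat_lit 4537326513) (nat_lit 304) (nat_lit 21707692530) (nat_lit 76) (nat_lit 1715917293) (nat_lit 77) (nat_lit 5) (nat_lit 81) (nat_lit 5) (nat_lit 78) (nat_lit 5) (nat_lit 356) (nat_lit 315) (nat_lit 229)))))) (XT.nd (nat_lit 468) (nat_lit 912) (nat_lit 0) (XT.nd (nat_lit 234) (nat_lit 684) (nat_lit 0) (XT.nd (nat_lit 78) (nat_lit 228) (nat_lit 0) (XT.lf (nat_lit 0) (nat_lit 2364867738) (nat_lit 228) (nat_lit 12133543882) (nat_lit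 304) (nat_lit 14401016044) (nat_lit 74) (nat_lit 5) (nat_lit 77) (nat_lit 5) (nat_lit 78) (nat_lit 5) (nat_lit 357) (nat_lit 315) (nat_lit 228)) (XT.nd (nat_lit 78) (nat_lit 228) (nat_lit 0) (XT.lf (nat_lit 0) (nat_lit 25187666681) (nat_lit 304) (nat_lit 1846495497) (nat_lit 76) (nat_lit 2843784241) (nat_lit 74) (nat_lit 5) (nat_lit 78) (nat_lit 5) (nat_lit 75) (nat_lit 5) (nat_lit 358) (nat_lit 315) (nat_lit 227)) (XT.lf (nat_lit 0) (nat_lit 5738519808) (nat_lit 228) (nat_lit 6555357436) (nat_lit 76) (nat_lit 18599732870) (nat_lit 71) (nat_lit 5) (nat_lit 74) (nat_lit 5) (nat_lit 72) (nat_lit 5) (nat_lit 359) (nat_lit 315) (nat_lit 226)))) (XT.nd (nat_lit 78) (nat_lit 456) (nat_lit 0) (XT.lf (nat_lit 0) (nat_lit 16819456635) (nat_lit 304) (nat_lit 11760212922) (nat_lit 76) (nat_lit 3372168876) (nat_lit 68) (nat_lit 5) (nat_lit 72) (nat_lit 5) (nat_lit 69) (nat_lit 5) (nat_lit 360) (nat_lit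 315) (nat_lit 225)) (XT.nd (nat_lit 78) (nat_lit 304) (nat_lit 0) (XT.lf (nat_lit 0) (nat_lit 15497318622) (nat_lit 152) (nat_lit 13278964672) (nat_lit 228) (nat_lit 4277044896) (nat_lit 66) (nat_lit 5) (nat_lit 68) (nat_lit 5) (nat_lit 69) (nat_lit 5) (nat_lit 361) (nat_lit 315) (nat_lit 224)) (XT.lf (nat_lit 0) (nat_lit 7213544167) (nat_lit 304) (nat_lit 23975399352) (nat_lit 76) (nat_lit 3011956982) (nat_lit 62) (nat_lit 5) (nat_lit 66) (nat_lit 5) (nat_lit 63) (nat_lit 5) (nat_lit 362) (nat_lit 315) (nat_lit 223))))) (XT.nd (nat_lit 234) (nat_lit 532) (nat_lit 0) (XT.nd (nat_lit 78) (nat_lit 228) (nat_lit 0) (XT.lf (nat_lit 0) (nat_lit 4234871750) (nat_lit 152) (nat_lit 15294958536) (nat_lit 228) (nat_lit 15864566707) (nat_lit 60) (nat_lit 5) (nat_lit 62) (nat_lit 5) (nat_lit 63) (nat_lit 5) (nat_lit 363) (nat_lit 315) (nat_lit 222)) (XT.nd (nat_lit 78) (nat_lit 228) (nat_lit 0) (XT.lf (nat_lit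 0) (nat_lit 32706595029) (nat_lit 228) (nat_lit 2330161772) (nat_lit 76) (nat_lit 1603476033) (nat_lit 60) (nat_lit 5) (nat_lit 63) (nat_lit 5) (nat_lit 61) (nat_lit 5) (nat_lit 364) (nat_lit 315) (nat_lit 221)) (XT.lf (nat_lit 0) (nat_lit 8839566484) (nat_lit 228) (nat_lit 9713394659) (nat_lit 76) (nat_lit 19380522396) (nat_lit 57) (nat_lit 5) (nat_lit 60) (nat_lit 5) (nat_lit 58) (nat_lit 5) (nat_lit 365) (nat_lit 315) (nat_lit 220)))) (XT.nd (nat_lit 78) (nat_lit 380) (nat_lit 0) (XT.lf (nat_lit 0) (nat_lit 21404755533) (nat_lit 152) (nat_lit 979305383) (nat_lit 228) (nat_lit 16899751871) (nat_lit 55) (nat_lit 5) (nat_lit 57) (nat_lit 5) (nat_lit 58) (nat_lit 5) (nat_lit 366) (nat_lit 315) (nat_lit 219)) (XT.nd (nat_lit 78) (nat_lit 228) (nat_lit 0) (XT.lf (nat_lit 0) (nat_lit 13652181633) (nat_lit 152) (nat_lit 23337436007) (nat_lit 228) (nat_lit 3700529466) (nat_lit 53) (nat_lit 5) (nat_lit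 55) (nat_lit 5) (nat_lit 56) (nat_lit 5) (nat_lit 367) (nat_lit 315) (nat_lit 218)) (XT.lf (nat_lit 0) (nat_lit 4931281444) (nat_lit 152) (nat_lit 5256313652) (nat_lit 228) (nat_lit 31969461775) (nat_lit 50) (nat_lit 5) (nat_lit 52) (nat_lit 5) (nat_lit 53) (nat_lit 5) (nat_lit 368) (nat_lit 315) (nat_lit 217))))))))
noncomputable def xc77 : XT := (XT.nd (nat_lit 42822) (nat_lit 0) (nat_lit 9044) (XT.nd (nat_lit 936) (nat_lit 836) (nat_lit 0) (XT.nd (nat_lit 468) (nat_lit 608) (nat_lit 0) (XT.nd (nat_lit 234) (nat_lit 304) (nat_lit 0) (XT.nd (nat_lit 78) (nat_lit 380) (nat_lit 0) (XT.lf (nat_lit 0) (nat_lit 25091766220) (nat_lit 228) (nat_lit 4824503067) (nat_lit 76) (nat_lit 13768001770) (nat_lit 50) (nat_lit 5) (nat_lit 53) (nat_lit 5) (nat_lit 51) (nat_lit 5) (nat_lit 369) (nat_lit 315) (nat_lit 216)) (XT.nd (nat_lit 78) (nat_lit 228) (nat_lit 0) (XT.lf (nat_lit 0) (nat_lit 29697116206) (nat_lit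 152) (nat_lit 11367695996) (nat_lit 228) (nat_lit 4213326895) (nat_lit 48) (nat_lit 5) (nat_lit 50) (nat_lit 5) (nat_lit 51) (nat_lit 5) (nat_lit 370) (nat_lit 315) (nat_lit 215)) (XT.lf (nat_lit 0) (nat_lit 10975163158) (nat_lit 228) (nat_lit 27681096354) (nat_lit 76) (nat_lit 8283222329) (nat_lit 45) (nat_lit 5) (nat_lit 48) (nat_lit 5) (nat_lit 46) (nat_lit 5) (nat_lit 371) (nat_lit 315) (nat_lit 214)))) (XT.nd (nat_lit 78) (nat_lit 152) (nat_lit 0) (XT.lf (nat_lit 0) (nat_lit 7447470456) (nat_lit 152) (nat_lit 19723398144) (nat_lit 228) (nat_lit 21501726530) (nat_lit 43) (nat_lit 5) (nat_lit 45) (nat_lit 5) (nat_lit 46) (nat_lit 5) (nat_lit 372) (nat_lit 315) (nat_lit 213)) (XT.nd (nat_lit 78) (nat_lit 152) (nat_lit 0) (XT.lf (nat_lit 0) (nat_lit 44451780713) (nat_lit 228) (nat_lit 5602091930) (nat_lit 76) (nat_lit 430231425) (nat_lit 43) (nat_lit 5) (nat_lit 46) (nat_lit 5) (nat_lit 44)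 (nat_lit 4) (nat_lit 373) (nat_lit 315) (nat_lit 212)) (XT.lf (nat_lit 0) (nat_lit 10511689681) (nat_lit 152) (nat_lit 20266561472) (nat_lit 76) (nat_lit 21589983699) (nat_lit 41) (nat_lit 5) (nat_lit 43) (nat_lit 5) (nat_lit 42) (nat_lit 5) (nat_lit 374) (nat_lit 315) (nat_lit 211))))) (XT.nd (nat_lit 234) (nat_lit 304) (nat_lit 0) (XT.nd (nat_lit 78) (nat_lit 152) (nat_lit 0) (XT.lf (nat_lit 0) (nat_lit 17723984712) (nat_lit 152) (nat_lit 10251018870) (nat_lit 228) (nat_lit 26363273392) (nat_lit 39) (nat_lit 5) (nat_lit 41) (nat_lit 5) (nat_lit 42) (nat_lit 5) (nat_lit 375) (nat_lit 315) (nat_lit 210)) (XT.nd (nat_lit 78) (nat_lit 76) (nat_lit 0) (XT.lf (nat_lit 0) (nat_lit 1533332037) (nat_lit 76) (nat_lit 45099615335) (nat_lit 152) (nat_lit 9764232107) (nat_lit 38) (nat_lit 5) (nat_lit 39) (nat_lit 5) (nat_lit 40) (nat_lit 4) (nat_lit 376) (nat_lit 315) (nat_lit 209)) (XT.lf (nat_lit 0)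 (nat_lit 7986953321) (nat_lit 152) (nat_lit 16397602512) (nat_lit 76) (nat_lit 34158110188) (nat_lit 37) (nat_lit 5) (nat_lit 39) (nat_lit 5) (nat_lit 38) (nat_lit 5) (nat_lit 377) (nat_lit 315) (nat_lit 208)))) (XT.nd (nat_lit 78) (nat_lit 152) (nat_lit 0) (XT.lf (nat_lit 0) (nat_lit 24347096561) (nat_lit 152) (nat_lit 2300816187) (nat_lit 228) (nat_lit 34137891193) (nat_lit 35) (nat_lit 5) (nat_lit 37) (nat_lit 5) (nat_lit 38) (nat_lit 5) (nat_lit 378) (nat_lit 315) (nat_lit 207)) (XT.nd (nat_lit 78) (nat_lit 76) (nat_lit 0) (XT.lf (nat_lit 0) (nat_lit 4194001595) (nat_lit 76) (nat_lit 42447991315) (nat_lit 152) (nat_lit 16487105515) (nat_lit 34) (nat_lit 5) (nat_lit 35) (nat_lit 5) (nat_lit 36) (nat_lit 4) (nat_lit 379) (nat_lit 315) (nat_lit 206)) (XT.lf (nat_lit 0) (nat_lit 2397077637) (nat_lit 152) (nat_lit 18025770192) (nat_lit 76) (nat_lit 45154397807) (nat_lit 33) (nat_lit 5) (nat_lit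 35) (nat_lit 5) (nat_lit 34) (nat_lit 5) (nat_lit 380) (nat_lit 315) (nat_lit 205)))))) (XT.nd (nat_lit 468) (nat_lit 304) (nat_lit 0) (XT.nd (nat_lit 234) (nat_lit 304) (nat_lit 0) (XT.nd (nat_lit 78) (nat_lit 76) (nat_lit 0) (XT.lf (nat_lit 0) (nat_lit 22149472391) (nat_lit 228) (nat_lit 42930441150) (nat_lit 76) (nat_lit 3055041703) (nat_lit 31) (nat_lit 5) (nat_lit 34) (nat_lit 5) (nat_lit 32) (nat_lit 4) (nat_lit 381) (nat_lit 315) (nat_lit 204)) (XT.nd (nat_lit 78) (nat_lit 76) (nat_lit 0) (XT.lf (nat_lit 0) (nat_lit 43272541192) (nat_lit 228) (nat_lit 69303766) (nat_lit 76) (nat_lit 27467215294) (nat_lit 31) (nat_lit 5) (nat_lit 34) (nat_lit 5) (nat_lit 32) (nat_lit 4) (nat_lit 382) (nat_lit 315) (nat_lit 203)) (XT.lf (nat_lit 0) (nat_lit 45810389114) (nat_lit 76) (nat_lit 20071755553) (nat_lit 152) (nat_lit 7721815883) (nat_lit 30) (nat_lit 5) (nat_lit 31) (nat_lit 5) (nat_lit 32) (nat_lit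 4) (nat_lit 383) (nat_lit 315) (nat_lit 202)))) (XT.nd (nat_lit 78) (nat_lit 76) (nat_lit 0) (XT.lf (nat_lit 0) (nat_lit 13033682373) (nat_lit 228) (nat_lit 58927371397) (nat_lit 76) (nat_lit 4567619370) (nat_lit 27) (nat_lit 5) (nat_lit 30) (nat_lit 5) (nat_lit 28) (nat_lit 4) (nat_lit 384) (nat_lit 315) (nat_lit 201)) (XT.nd (nat_lit 78) (nat_lit 76) (nat_lit 0) (XT.lf (nat_lit 0) (nat_lit 35150721270) (nat_lit 228) (nat_lit 14045459231) (nat_lit 76) (nat_lit 30386644609) (nat_lit 27) (nat_lit 5) (nat_lit 30) (nat_lit 5) (nat_lit 28) (nat_lit 4) (nat_lit 385) (nat_lit 315) (nat_lit 200)) (XT.lf (nat_lit 0) (nat_lit 33721642454) (nat_lit 76) (nat_lit 24967025596) (nat_lit 152) (nat_lit 24091566186) (nat_lit 26) (nat_lit 5) (nat_lit 27) (nat_lit 5) (nat_lit 28) (nat_lit 4) (nat_lit 386) (nat_lit 315) (nat_lit 199))))) (XT.nd (nat_lit 234) (nat_lit 76) (nat_lit 0) (XT.nd (nat_lit 78) (nat_lit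 228) (nat_lit 0) (XT.lf (nat_lit 0) (nat_lit 83545186331) (nat_lit 152) (nat_lit 1985195998) (nat_lit 0) (nat_lit 602882445) (nat_lit 26) (nat_lit 5) (nat_lit 28) (nat_lit 4) (nat_lit 26) (nat_lit 4) (nat_lit 387) (nat_lit 315) (nat_lit 198)) (XT.nd (nat_lit 78) (nat_lit 76) (nat_lit 0) (XT.lf (nat_lit 0) (nat_lit 20313501385) (nat_lit 152) (nat_lit 41719043843) (nat_lit 76) (nat_lit 27594247668) (nat_lit 24) (nat_lit 5) (nat_lit 26) (nat_lit 5) (nat_lit 25) (nat_lit 4) (nat_lit 388) (nat_lit 315) (nat_lit 197)) (XT.lf (nat_lit 0) (nat_lit 7139879008) (nat_lit 76) (nat_lit 37248225598) (nat_lit 152) (nat_lit 48903681028) (nat_lit 23) (nat_lit 5) (nat_lit 24) (nat_lit 5) (nat_lit 25) (nat_lit 4) (nat_lit 389) (nat_lit 315) (nat_lit 196)))) (XT.nd (nat_lit 78) (nat_lit 76) (nat_lit 0) (XT.lf (nat_lit 0) (nat_lit 59298436354) (nat_lit 76) (nat_lit 10789413454) (nat_lit 152) (nat_lit 27039536833)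 (nat_lit 23) (nat_lit 5) (nat_lit 24) (nat_lit 5) (nat_lit 25) (nat_lit 4) (nat_lit 390) (nat_lit 315) (nat_lit 195)) (XT.nd (nat_lit 41028) (nat_lit 0) (nat_lit 17708) (XT.lf (nat_lit 0) (nat_lit 12985646531) (nat_lit 76) (nat_lit 84367372129) (nat_lit 76) (nat_lit 3793336890) (nat_lit 22) (nat_lit 4) (nat_lit 23) (nat_lit 5) (nat_lit 23) (nat_lit 4) (nat_lit 391) (nat_lit 315) (nat_lit 194)) (XT.lf (nat_lit 0) (nat_lit 211476472) (nat_lit 1140) (nat_lit 2256302991) (nat_lit 1140) (nat_lit 2256302991) (nat_lit 255) (nat_lit 3) (nat_lit 270) (nat_lit 3) (nat_lit 270) (nat_lit 5) (nat_lit 316) (nat_lit 316) (nat_lit 268))))))) (XT.nd (nat_lit 936) (nat_lit 5624) (nat_lit 0) (XT.nd (nat_lit 468) (nat_lit 3116) (nat_lit 0) (XT.nd (nat_lit 234) (nat_lit 0) (nat_lit 152) (XT.nd (nat_lit 78) (nat_lit 0) (nat_lit 0) (XT.lf (nat_lit 0) (nat_lit 1765490573) (nat_lit 1064) (nat_lit 6639045793) (nat_lit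 1140) (nat_lit 1238982297) (nat_lit 256) (nat_lit 5) (nat_lit 270) (nat_lit 5) (nat_lit 271) (nat_lit 5) (nat_lit 317) (nat_lit 316) (nat_lit 267)) (XT.nd (nat_lit 78) (nat_lit 0) (nat_lit 76) (XT.lf (nat_lit 76) (nat_lit 1068678547) (nat_lit 0) (nat_lit 2130813359) (nat_lit 1140) (nat_lit 6648475158) (nat_lit 257) (nat_lit 5) (nat_lit 256) (nat_lit 5) (nat_lit 271) (nat_lit 5) (nat_lit 318) (nat_lit 316) (nat_lit 266)) (XT.lf (nat_lit 0) (nat_lit 4738219288) (nat_lit 1064) (nat_lit 851365409) (nat_lit 1140) (nat_lit 4472116757) (nat_lit 257) (nat_lit 5) (nat_lit 271) (nat_lit 5) (nat_lit 272) (nat_lit 5) (nat_lit 319) (nat_lit 316) (nat_lit 265)))) (XT.nd (nat_lit 78) (nat_lit 0) (nat_lit 0) (XT.lf (nat_lit 0) (nat_lit 6384264530) (nat_lit 1064) (nat_lit 2743622111) (nat_lit 1140) (nat_lit 1157376237) (nat_lit 258) (nat_lit 5) (nat_lit 272) (nat_lit 5) (nat_lit 273) (nat_lit 5) (nat_lit 320)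 (nat_lit 316) (nat_lit 264)) (XT.nd (nat_lit 78) (nat_lit 0) (nat_lit 76) (XT.lf (nat_lit 76) (nat_lit 5863583929) (nat_lit 0) (nat_lit 2298997705) (nat_lit 1140) (nat_lit 2355970943) (nat_lit 259) (nat_lit 5) (nat_lit 258) (nat_lit 5) (nat_lit 273) (nat_lit 5) (nat_lit 321) (nat_lit 316) (nat_lit 263)) (XT.lf (nat_lit 76) (nat_lit 4182662793) (nat_lit 0) (nat_lit 5894245595) (nat_lit 1140) (nat_lit 685232507) (nat_lit 260) (nat_lit 5) (nat_lit 259) (nat_lit 5) (nat_lit 274) (nat_lit 5) (nat_lit 322) (nat_lit 316) (nat_lit 262))))) (XT.nd (nat_lit 234) (nat_lit 2280) (nat_lit 0) (XT.nd (nat_lit 78) (nat_lit 0) (nat_lit 0) (XT.lf (nat_lit 0) (nat_lit 1091342665) (nat_lit 1140) (nat_lit 8520195886) (nat_lit 1216) (nat_lit 1404810378) (nat_lit 245) (nat_lit 5) (nat_lit 260) (nat_lit 5) (nat_lit 261) (nat_lit 5) (nat_lit 323) (nat_lit 316) (nat_lit 261)) (XT.nd (nat_lit 78) (nat_lit 0) (nat_lit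 76) (XT.lf (nat_lit 76) (nat_lit 781572621) (nat_lit 0) (nat_lit 2233079576) (nat_lit 1216) (nat_lit 8266290657) (nat_lit 246) (nat_lit 5) (nat_lit 245) (nat_lit 5) (nat_lit 261) (nat_lit 5) (nat_lit 324) (nat_lit 316) (nat_lit 260)) (XT.lf (nat_lit 0) (nat_lit 5114953336) (nat_lit 1140) (nat_lit 932567003) (nat_lit 1216) (nat_lit 5508860726) (nat_lit 246) (nat_lit 5) (nat_lit 261) (nat_lit 5) (nat_lit 262) (nat_lit 5) (nat_lit 325) (nat_lit 316) (nat_lit 259)))) (XT.nd (nat_lit 78) (nat_lit 2432) (nat_lit 0) (XT.lf (nat_lit 0) (nat_lit 7391385499) (nat_lit 1140) (nat_lit 2638489853) (nat_lit 76) (nat_lit 1813619853) (nat_lit 247) (nat_lit 5) (nat_lit 262) (nat_lit 5) (nat_lit 248) (nat_lit 5) (nat_lit 326) (nat_lit 316) (nat_lit 258)) (XT.nd (nat_lit 78) (nat_lit 1292) (nat_lit 0) (XT.lf (nat_lit 0) (nat_lit 7767546293) (nat_lit 1140) (nat_lit 2104046952) (nat_lit 1216) (nat_lit 2270708901)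 (nat_lit 232) (nat_lit 5) (nat_lit 247) (nat_lit 5) (nat_lit 248) (nat_lit 5) (nat_lit 327) (nat_lit 316) (nat_lit 257)) (XT.lf (nat_lit 0) (nat_lit 114956445) (nat_lit 1292) (nat_lit 6145017157) (nat_lit 76) (nat_lit 6193235751) (nat_lit 215) (nat_lit 5) (nat_lit 232) (nat_lit 5) (nat_lit 216) (nat_lit 5) (nat_lit 328) (nat_lit 316) (nat_lit 256)))))) (XT.nd (nat_lit 468) (nat_lit 2736) (nat_lit 0) (XT.nd (nat_lit 234) (nat_lit 1140) (nat_lit 0) (XT.nd (nat_lit 78) (nat_lit 1140) (nat_lit 0) (XT.lf (nat_lit 0) (nat_lit 2656213618) (nat_lit 684) (nat_lit 7957309140) (nat_lit 76) (nat_lit 2162998034) (nat_lit 207) (nat_lit 5) (nat_lit 216) (nat_lit 5) (nat_lit 208) (nat_lit 5) (nat_lit 329) (nat_lit 316) (nat_lit 255)) (XT.nd (nat_lit 78) (nat_lit 608) (nat_lit 0) (XT.lf (nat_lit 0) (nat_lit 3299124005) (nat_lit 532) (nat_lit 2134619620) (nat_lit 608) (nat_lit 7679007830) (nat_lit 200) (nat_lit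 5) (nat_lit 207) (nat_lit 5) (nat_lit 208) (nat_lit 5) (nat_lit 330) (nat_lit 316) (nat_lit 254)) (XT.lf (nat_lit 0) (nat_lit 1741923533) (nat_lit 608) (nat_lit 6725118646) (nat_lit 684) (nat_lit 4995273236) (nat_lit 192) (nat_lit 5) (nat_lit 200) (nat_lit 5) (nat_lit 201) (nat_lit 5) (nat_lit 331) (nat_lit 316) (nat_lit 253)))) (XT.nd (nat_lit 78) (nat_lit 608) (nat_lit 0) (XT.lf (nat_lit 0) (nat_lit 166399894) (nat_lit 532) (nat_lit 11585701191) (nat_lit 608) (nat_lit 2074280793) (nat_lit 185) (nat_lit 5) (nat_lit 192) (nat_lit 5) (nat_lit 193) (nat_lit 5) (nat_lit 332) (nat_lit 316) (nat_lit 252)) (XT.nd (nat_lit 78) (nat_lit 532) (nat_lit 0) (XT.lf (nat_lit 0) (nat_lit 1118572812) (nat_lit 608) (nat_lit 1438302434) (nat_lit 76) (nat_lit 11647159728) (nat_lit 184) (nat_lit 5) (nat_lit 192) (nat_lit 5) (nat_lit 185) (nat_lit 5) (nat_lit 333) (nat_lit 316) (nat_lit 251)) (XT.lf (nat_lit 0)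 (nat_lit 4565050128) (nat_lit 608) (nat_lit 3111619292) (nat_lit 76) (nat_lit 6919202698) (nat_lit 177) (nat_lit 5) (nat_lit 185) (nat_lit 5) (nat_lit 178) (nat_lit 5) (nat_lit 334) (nat_lit 316) (nat_lit 250))))) (XT.nd (nat_lit 234) (nat_lit 1292) (nat_lit 0) (XT.nd (nat_lit 78) (nat_lit 988) (nat_lit 0) (XT.lf (nat_lit 0) (nat_lit 8300340253) (nat_lit 532) (nat_lit 4818356195) (nat_lit 76) (nat_lit 1885132785) (nat_lit 171) (nat_lit 5) (nat_lit 178) (nat_lit 5) (nat_lit 172) (nat_lit 5) (nat_lit 335) (nat_lit 316) (nat_lit 249)) (XT.nd (nat_lit 78) (nat_lit 532) (nat_lit 0) (XT.lf (nat_lit 0) (nat_lit 8831071060) (nat_lit 456) (nat_lit 3546686281) (nat_lit 532) (nat_lit 3049787689) (nat_lit 165) (nat_lit 5) (nat_lit 171) (nat_lit 5) (nat_lit 172) (nat_lit 5) (nat_lit 336) (nat_lit 316) (nat_lit 248)) (XT.lf (nat_lit 0) (nat_lit 918756374) (nat_lit 532) (nat_lit 8446912947) (nat_lit 76) (nat_lit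 6502145309) (nat_lit 158) (nat_lit 5) (nat_lit 165) (nat_lit 5) (nat_lit 159) (nat_lit 5) (nat_lit 337) (nat_lit 316) (nat_lit 247)))) (XT.nd (nat_lit 78) (nat_lit 836) (nat_lit 0) (XT.lf (nat_lit 0) (nat_lit 5155650969) (nat_lit 532) (nat_lit 10379317751) (nat_lit 76) (nat_lit 790252293) (nat_lit 152) (nat_lit 5) (nat_lit 159) (nat_lit 5) (nat_lit 153) (nat_lit 5) (nat_lit 338) (nat_lit 316) (nat_lit 246)) (XT.nd (nat_lit 78) (nat_lit 456) (nat_lit 0) (XT.lf (nat_lit 0) (nat_lit 4378296550) (nat_lit 380) (nat_lit 5414861702) (nat_lit 456) (nat_lit 7006694622) (nat_lit 147) (nat_lit 5) (nat_lit 152) (nat_lit 5) (nat_lit 153) (nat_lit 5) (nat_lit 339) (nat_lit 316) (nat_lit 245)) (XT.lf (nat_lit 0) (nat_lit 2754830265) (nat_lit 456) (nat_lit 12057737906) (nat_lit 532) (nat_lit 2481164673) (nat_lit 141) (nat_lit 5) (nat_lit 147) (nat_lit 5) (nat_lit 148) (nat_lit 5) (nat_lit 340) (nat_lit 316)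 (nat_lit 244))))))))
noncomputable def xc78 : XT := (XT.nd (nat_lit 1794) (nat_lit 2736) (nat_lit 0) (XT.nd (nat_lit 858) (nat_lit 2508) (nat_lit 0) (XT.nd (nat_lit 390) (nat_lit 1900) (nat_lit 0) (XT.nd (nat_lit 156) (nat_lit 1140) (nat_lit 0) (XT.nd (nat_lit 78) (nat_lit 0) (nat_lit 0) (XT.lf (nat_lit 0) (nat_lit 1040812068) (nat_lit 380) (nat_lit 1345753118) (nat_lit 456) (nat_lit 15420295893) (nat_lit 135) (nat_lit 5) (nat_lit 140) (nat_lit 5) (nat_lit 141) (nat_lit 5) (nat_lit 341) (nat_lit 316) (nat_lit 243)) (XT.lf (nat_lit 0) (nat_lit 7660720430) (nat_lit 456) (nat_lit 802088669) (nat_lit 76) (nat_lit 9875684314) (nat_lit 135) (nat_lit 5) (nat_lit 141) (nat_lit 5) (nat_lit 136) (nat_lit 5) (nat_lit 342) (nat_lit 316) (nat_lit 242))) (XT.nd (nat_lit 78) (nat_lit 760) (nat_lit 0) (XT.lf (nat_lit 0) (nat_lit 13364934703) (nat_lit 456) (nat_lit 2697784249) (nat_lit 76) (nat_lit 2829012410)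 (nat_lit 130) (nat_lit 5) (nat_lit 136) (nat_lit 5) (nat_lit 131) (nat_lit 5) (nat_lit 343) (nat_lit 316) (nat_lit 241)) (XT.nd (nat_lit 78) (nat_lit 380) (nat_lit 0) (XT.lf (nat_lit 0) (nat_lit 91657557) (nat_lit 380) (nat_lit 4721146465) (nat_lit 76) (nat_lit 14653646100) (nat_lit 125) (nat_lit 5) (nat_lit 130) (nat_lit 5) (nat_lit 126) (nat_lit 5) (nat_lit 344) (nat_lit 316) (nat_lit 240)) (XT.lf (nat_lit 0) (nat_lit 6072937606) (nat_lit 456) (nat_lit 6923801303) (nat_lit 76) (nat_lit 7065650914) (nat_lit 120) (nat_lit 5) (nat_lit 126) (nat_lit 5) (nat_lit 121) (nat_lit 5) (nat_lit 345) (nat_lit 316) (nat_lit 239))))) (XT.nd (nat_lit 234) (nat_lit 912) (nat_lit 0) (XT.nd (nat_lit 78) (nat_lit 684) (nat_lit 0) (XT.lf (nat_lit 0) (nat_lit 11438193814) (nat_lit 304) (nat_lit 1094459493) (nat_lit 380) (nat_lit 8150104245) (nat_lit 116) (nat_lit 5) (nat_lit 120) (nat_lit 5) (nat_lit 121) (nat_lit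 5) (nat_lit 346) (nat_lit 316) (nat_lit 238)) (XT.nd (nat_lit 78) (nat_lit 380) (nat_lit 0) (XT.lf (nat_lit 0) (nat_lit 9568520690) (nat_lit 304) (nat_lit 9993041112) (nat_lit 380) (nat_lit 1765207265) (nat_lit 112) (nat_lit 5) (nat_lit 116) (nat_lit 5) (nat_lit 117) (nat_lit 5) (nat_lit 347) (nat_lit 316) (nat_lit 237)) (XT.lf (nat_lit 0) (nat_lit 5020436517) (nat_lit 380) (nat_lit 14456471543) (nat_lit 76) (nat_lit 2519323202) (nat_lit 107) (nat_lit 5) (nat_lit 112) (nat_lit 5) (nat_lit 108) (nat_lit 5) (nat_lit 348) (nat_lit 316) (nat_lit 236)))) (XT.nd (nat_lit 78) (nat_lit 608) (nat_lit 0) (XT.lf (nat_lit 0) (nat_lit 5298507720) (nat_lit 304) (nat_lit 7058829393) (nat_lit 380) (nat_lit 10333860904) (nat_lit 103) (nat_lit 5) (nat_lit 107) (nat_lit 5) (nat_lit 108) (nat_lit 5) (nat_lit 349) (nat_lit 316) (nat_lit 235)) (XT.nd (nat_lit 78) (nat_lit 380) (nat_lit 0) (XT.lf (nat_lit 0) (nat_lit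 2886843788) (nat_lit 228) (nat_lit 17384639027) (nat_lit 304) (nat_lit 3143128029) (nat_lit 100) (nat_lit 5) (nat_lit 103) (nat_lit 5) (nat_lit 104) (nat_lit 5) (nat_lit 350) (nat_lit 316) (nat_lit 234)) (XT.lf (nat_lit 0) (nat_lit 227197423) (nat_lit 304) (nat_lit 4323663028) (nat_lit 380) (nat_lit 19615180396) (nat_lit 95) (nat_lit 5) (nat_lit 99) (nat_lit 5) (nat_lit 100) (nat_lit 5) (nat_lit 351) (nat_lit 316) (nat_lit 233)))))) (XT.nd (nat_lit 468) (nat_lit 1140) (nat_lit 0) (XT.nd (nat_lit 234) (nat_lit 760) (nat_lit 0) (XT.nd (nat_lit 78) (nat_lit 608) (nat_lit 0) (XT.lf (nat_lit 0) (nat_lit 12845001795) (nat_lit 380) (nat_lit 2660293137) (nat_lit 76) (nat_lit 9440408647) (nat_lit 95) (nat_lit 5) (nat_lit 100) (nat_lit 5) (nat_lit 96) (nat_lit 5) (nat_lit 352) (nat_lit 316) (nat_lit 232)) (XT.nd (nat_lit 78) (nat_lit 380) (nat_lit 0) (XT.lf (nat_lit 0) (nat_lit 19994045646) (nat_lit 228)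 (nat_lit 1772954091) (nat_lit 304) (nat_lit 3990963391) (nat_lit 92) (nat_lit 5) (nat_lit 95) (nat_lit 5) (nat_lit 96) (nat_lit 5) (nat_lit 353) (nat_lit 316) (nat_lit 231)) (XT.lf (nat_lit 0) (nat_lit 4733421267) (nat_lit 380) (nat_lit 9238041641) (nat_lit 76) (nat_lit 12629152278) (nat_lit 87) (nat_lit 5) (nat_lit 92) (nat_lit 5) (nat_lit 88) (nat_lit 5) (nat_lit 354) (nat_lit 316) (nat_lit 230)))) (XT.nd (nat_lit 78) (nat_lit 532) (nat_lit 0) (XT.lf (nat_lit 0) (nat_lit 14012121369) (nat_lit 304) (nat_lit 13010612666) (nat_lit 76) (nat_lit 455468506) (nat_lit 84) (nat_lit 5) (nat_lit 88) (nat_lit 5) (nat_lit 85) (nat_lit 5) (nat_lit 355) (nat_lit 316) (nat_lit 229)) (XT.nd (nat_lit 78) (nat_lit 304) (nat_lit 0) (XT.lf (nat_lit 0) (nat_lit 11198068764) (nat_lit 228) (nat_lit 12880453897) (nat_lit 304) (nat_lit 4311440466) (nat_lit 81) (nat_lit 5) (nat_lit 84) (nat_lit 5) (nat_lit 85) (nat_lit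 5) (nat_lit 356) (nat_lit 316) (nat_lit 228)) (XT.lf (nat_lit 0) (nat_lit 5406819899) (nat_lit 304) (nat_lit 21752233584) (nat_lit 76) (nat_lit 2180456081) (nat_lit 77) (nat_lit 5) (nat_lit 81) (nat_lit 5) (nat_lit 78) (nat_lit 5) (nat_lit 357) (nat_lit 316) (nat_lit 227))))) (XT.nd (nat_lit 234) (nat_lit 684) (nat_lit 0) (XT.nd (nat_lit 78) (nat_lit 228) (nat_lit 0) (XT.lf (nat_lit 0) (nat_lit 3494119125) (nat_lit 228) (nat_lit 12350957275) (nat_lit 304) (nat_lit 14480484819) (nat_lit 74) (nat_lit 5) (nat_lit 77) (nat_lit 5) (nat_lit 78) (nat_lit 5) (nat_lit 358) (nat_lit 316) (nat_lit 226)) (XT.nd (nat_lit 78) (nat_lit 228) (nat_lit 0) (XT.lf (nat_lit 0) (nat_lit 27042751006) (nat_lit 304) (nat_lit 961578380) (nat_lit 76) (nat_lit 3349466656) (nat_lit 74) (nat_lit 5) (nat_lit 78) (nat_lit 5) (nat_lit 75) (nat_lit 5) (nat_lit 359) (nat_lit 316) (nat_lit 225)) (XT.lf (nat_lit 0) (nat_lit 6607777136)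 (nat_lit 228) (nat_lit 5922142967) (nat_lit 76) (nat_lit 19890737220) (nat_lit 71) (nat_lit 5) (nat_lit 74) (nat_lit 5) (nat_lit 72) (nat_lit 5) (nat_lit 360) (nat_lit 316) (nat_lit 224)))) (XT.nd (nat_lit 78) (nat_lit 456) (nat_lit 0) (XT.lf (nat_lit 0) (nat_lit 18227558838) (nat_lit 304) (nat_lit 11401280134) (nat_lit 76) (nat_lit 3903421925) (nat_lit 68) (nat_lit 5) (nat_lit 72) (nat_lit 5) (nat_lit 69) (nat_lit 5) (nat_lit 361) (nat_lit 316) (nat_lit 223)) (XT.nd (nat_lit 78) (nat_lit 304) (nat_lit 0) (XT.lf (nat_lit 0) (nat_lit 17191984044) (nat_lit 152) (nat_lit 13572078301) (nat_lit 228) (nat_lit 3925315140) (nat_lit 66) (nat_lit 5) (nat_lit 68) (nat_lit 5) (nat_lit 69) (nat_lit 5) (nat_lit 362) (nat_lit 316) (nat_lit 222)) (XT.lf (nat_lit 0) (nat_lit 8114584804) (nat_lit 304) (nat_lit 24257166122) (nat_lit 76) (nat_lit 3522846695) (nat_lit 62) (nat_lit 5) (nat_lit 66) (nat_lit 5) (nat_lit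 63) (nat_lit 5) (nat_lit 363) (nat_lit 316) (nat_lit 221))))))) (XT.nd (nat_lit 936) (nat_lit 1140) (nat_lit 0) (XT.nd (nat_lit 468) (nat_lit 684) (nat_lit 0) (XT.nd (nat_lit 234) (nat_lit 532) (nat_lit 0) (XT.nd (nat_lit 78) (nat_lit 228) (nat_lit 0) (XT.lf (nat_lit 0) (nat_lit 5337332824) (nat_lit 152) (nat_lit 15692182935) (nat_lit 228) (nat_lit 16118774787) (nat_lit 60) (nat_lit 5) (nat_lit 62) (nat_lit 5) (nat_lit 63) (nat_lit 5) (nat_lit 364) (nat_lit 316) (nat_lit 220)) (XT.nd (nat_lit 78) (nat_lit 228) (nat_lit 0) (XT.lf (nat_lit 0) (nat_lit 34843569370) (nat_lit 228) (nat_lit 1586659458) (nat_lit 76) (nat_lit 2026842044) (nat_lit 60) (nat_lit 5) (nat_lit 63) (nat_lit 5) (nat_lit 61) (nat_lit 5) (nat_lit 365) (nat_lit 316) (nat_lit 219)) (XT.lf (nat_lit 0) (nat_lit 9772257344) (nat_lit 228) (nat_lit 9353824972) (nat_lit 76) (nat_lit 20689239122) (nat_lit 57) (nat_lit 5) (nat_lit 60)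 (nat_lit 5) (nat_lit 58) (nat_lit 5) (nat_lit 366) (nat_lit 316) (nat_lit 218)))) (XT.nd (nat_lit 78) (nat_lit 380) (nat_lit 0) (XT.lf (nat_lit 0) (nat_lit 23296004111) (nat_lit 152) (nat_lit 682497182) (nat_lit 228) (nat_lit 17255135584) (nat_lit 55) (nat_lit 5) (nat_lit 57) (nat_lit 5) (nat_lit 58) (nat_lit 5) (nat_lit 367) (nat_lit 316) (nat_lit 217)) (XT.nd (nat_lit 78) (nat_lit 228) (nat_lit 0) (XT.lf (nat_lit 0) (nat_lit 15142993631) (nat_lit 152) (nat_lit 24159646324) (nat_lit 228) (nat_lit 3408004045) (nat_lit 53) (nat_lit 5) (nat_lit 55) (nat_lit 5) (nat_lit 56) (nat_lit 5) (nat_lit 368) (nat_lit 316) (nat_lit 216)) (XT.lf (nat_lit 0) (nat_lit 5972031379) (nat_lit 152) (nat_lit 5178513994) (nat_lit 228) (nat_lit 33100660861) (nat_lit 50) (nat_lit 5) (nat_lit 52) (nat_lit 5) (nat_lit 53) (nat_lit 5) (nat_lit 369) (nat_lit 316) (nat_lit 215))))) (XT.nd (nat_lit 234) (nat_lit 304) (nat_lit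 0) (XT.nd (nat_lit 78) (nat_lit 380) (nat_lit 0) (XT.lf (nat_lit 0) (nat_lit 26781444745) (nat_lit 228) (nat_lit 4299428087) (nat_lit 76) (nat_lit 14774467296) (nat_lit 50) (nat_lit 5) (nat_lit 53) (nat_lit 5) (nat_lit 51) (nat_lit 5) (nat_lit 370) (nat_lit 316) (nat_lit 214)) (XT.nd (nat_lit 78) (nat_lit 228) (nat_lit 0) (XT.lf (nat_lit 0) (nat_lit 31926306310) (nat_lit 152) (nat_lit 11613273131) (nat_lit 228) (nat_lit 3989733407) (nat_lit 48) (nat_lit 5) (nat_lit 50) (nat_lit 5) (nat_lit 51) (nat_lit 5) (nat_lit 371) (nat_lit 316) (nat_lit 213)) (XT.lf (nat_lit 0) (nat_lit 11939525699) (nat_lit 228) (nat_lit 28324446777) (nat_lit 76) (nat_lit 9009934507) (nat_lit 45) (nat_lit 5) (nat_lit 48) (nat_lit 5) (nat_lit 46) (nat_lit 5) (nat_lit 372) (nat_lit 316) (nat_lit 212)))) (XT.nd (nat_lit 78) (nat_lit 152) (nat_lit 0) (XT.lf (nat_lit 0) (nat_lit 8539316231) (nat_lit 152) (nat_lit 20392825505)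 (nat_lit 228) (nat_lit 22161924289) (nat_lit 43) (nat_lit 5) (nat_lit 45) (nat_lit 5) (nat_lit 46) (nat_lit 5) (nat_lit 373) (nat_lit 316) (nat_lit 211)) (XT.nd (nat_lit 78) (nat_lit 152) (nat_lit 0) (XT.lf (nat_lit 0) (nat_lit 47060821586) (nat_lit 228) (nat_lit 5188304726) (nat_lit 76) (nat_lit 747516100) (nat_lit 43) (nat_lit 5) (nat_lit 46) (nat_lit 5) (nat_lit 44) (nat_lit 4) (nat_lit 374) (nat_lit 316) (nat_lit 210)) (XT.lf (nat_lit 0) (nat_lit 11415579102) (nat_lit 152) (nat_lit 20598291223) (nat_lit 76) (nat_lit 22961359341) (nat_lit 41) (nat_lit 5) (nat_lit 43) (nat_lit 5) (nat_lit 42) (nat_lit 5) (nat_lit 375) (nat_lit 316) (nat_lit 209)))))) (XT.nd (nat_lit 468) (nat_lit 532) (nat_lit 0) (XT.nd (nat_lit 234) (nat_lit 304) (nat_lit 0) (XT.nd (nat_lit 78) (nat_lit 152) (nat_lit 0) (XT.lf (nat_lit 0) (nat_lit 19272244391) (nat_lit 152) (nat_lit 10468163916) (nat_lit 228) (nat_lit 27303718326)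 (nat_lit 39) (nat_lit 5) (nat_lit 41) (nat_lit 5) (nat_lit 42) (nat_lit 5) (nat_lit 376) (nat_lit 316) (nat_lit 208)) (XT.nd (nat_lit 78) (nat_lit 76) (nat_lit 0) (XT.lf (nat_lit 0) (nat_lit 2261070064) (nat_lit 76) (nat_lit 47061682381) (nat_lit 152) (nat_lit 9883479797) (nat_lit 38) (nat_lit 5) (nat_lit 39) (nat_lit 5) (nat_lit 40) (nat_lit 4) (nat_lit 377) (nat_lit 316) (nat_lit 207)) (XT.lf (nat_lit 0) (nat_lit 8730838225) (nat_lit 152) (nat_lit 16590500799) (nat_lit 76) (nat_lit 36138067333) (nat_lit 37) (nat_lit 5) (nat_lit 39) (nat_lit 5) (nat_lit 38) (nat_lit 5) (nat_lit 378) (nat_lit 316) (nat_lit 206)))) (XT.nd (nat_lit 78) (nat_lit 152) (nat_lit 0) (XT.lf (nat_lit 0) (nat_lit 26173460918) (nat_lit 152) (nat_lit 2140832343) (nat_lit 228) (nat_lit 35500727192) (nat_lit 35) (nat_lit 5) (nat_lit 37) (nat_lit 5) (nat_lit 38) (nat_lit 5) (nat_lit 379) (nat_lit 316) (nat_lit 205)) (XT.nd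 (nat_lit 78) (nat_lit 76) (nat_lit 0) (XT.lf (nat_lit 0) (nat_lit 5002471070) (nat_lit 76) (nat_lit 44297975872) (nat_lit 152) (nat_lit 16975264212) (nat_lit 34) (nat_lit 5) (nat_lit 35) (nat_lit 5) (nat_lit 36) (nat_lit 4) (nat_lit 380) (nat_lit 316) (nat_lit 204)) (XT.lf (nat_lit 0) (nat_lit 2830870731) (nat_lit 152) (nat_lit 18350506453) (nat_lit 76) (nat_lit 47665264882) (nat_lit 33) (nat_lit 5) (nat_lit 35) (nat_lit 5) (nat_lit 34) (nat_lit 5) (nat_lit 381) (nat_lit 316) (nat_lit 203))))) (XT.nd (nat_lit 234) (nat_lit 304) (nat_lit 0) (XT.nd (nat_lit 78) (nat_lit 76) (nat_lit 0) (XT.lf (nat_lit 0) (nat_lit 23563776532) (nat_lit 228) (nat_lit 44510218605) (nat_lit 76) (nat_lit 3458457549) (nat_lit 31) (nat_lit 5) (nat_lit 34) (nat_lit 5) (nat_lit 32) (nat_lit 4) (nat_lit 382) (nat_lit 316) (nat_lit 202)) (XT.nd (nat_lit 78) (nat_lit 0) (nat_lit 0) (XT.lf (nat_lit 0) (nat_lit 476281782) (nat_lit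 76) (nat_lit 45256684325) (nat_lit 152) (nat_lit 28607599979) (nat_lit 30) (nat_lit 5) (nat_lit 31) (nat_lit 5) (nat_lit 32) (nat_lit 4) (nat_lit 383) (nat_lit 316) (nat_lit 201)) (XT.lf (nat_lit 0) (nat_lit 48625193315) (nat_lit 76) (nat_lit 20834402659) (nat_lit 152) (nat_lit 7816021098) (nat_lit 30) (nat_lit 5) (nat_lit 31) (nat_lit 5) (nat_lit 32) (nat_lit 4) (nat_lit 384) (nat_lit 316) (nat_lit 200)))) (XT.nd (nat_lit 78) (nat_lit 76) (nat_lit 0) (XT.lf (nat_lit 0) (nat_lit 13965158318) (nat_lit 228) (nat_lit 61352830266) (nat_lit 76) (nat_lit 5028686378) (nat_lit 27) (nat_lit 5) (nat_lit 30) (nat_lit 5) (nat_lit 28) (nat_lit 4) (nat_lit 385) (nat_lit 316) (nat_lit 199)) (XT.nd (nat_lit 78) (nat_lit 76) (nat_lit 0) (XT.lf (nat_lit 0) (nat_lit 37174725739) (nat_lit 228) (nat_lit 14251627714) (nat_lit 76) (nat_lit 32127582591) (nat_lit 27) (nat_lit 5) (nat_lit 30) (nat_lit 5) (nat_lit 28)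 (nat_lit 4) (nat_lit 386) (nat_lit 316) (nat_lit 198)) (XT.lf (nat_lit 0) (nat_lit 35889608319) (nat_lit 76) (nat_lit 25991904729) (nat_lit 152) (nat_lit 25029946011) (nat_lit 26) (nat_lit 5) (nat_lit 27) (nat_lit 5) (nat_lit 28) (nat_lit 4) (nat_lit 387) (nat_lit 316) (nat_lit 197))))))))
noncomputable def xc79 : XT := (XT.nd (nat_lit 42900) (nat_lit 0) (nat_lit 3876) (XT.nd (nat_lit 41964) (nat_lit 0) (nat_lit 11248) (XT.nd (nat_lit 41496) (nat_lit 0) (nat_lit 16796) (XT.nd (nat_lit 234) (nat_lit 0) (nat_lit 0) (XT.nd (nat_lit 78) (nat_lit 228) (nat_lit 0) (XT.lf (nat_lit 0) (nat_lit 87970597787) (nat_lit 152) (nat_lit 1620148674) (nat_lit 0) (nat_lit 841704091) (nat_lit 26) (nat_lit 5) (nat_lit 28) (nat_lit 4) (nat_lit 26) (nat_lit 4) (nat_lit 388) (nat_lit 316) (nat_lit 196)) (XT.nd (nat_lit 78) (nat_lit 76) (nat_lit 0) (XT.lf (nat_lit 0) (nat_lit 21572260688) (nat_lit 152) (nat_lit 43349129913)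 (nat_lit 76) (nat_lit 29179418997) (nat_lit 24) (nat_lit 5) (nat_lit 26) (nat_lit 5) (nat_lit 25) (nat_lit 4) (nat_lit 389) (nat_lit 316) (nat_lit 195)) (XT.lf (nat_lit 0) (nat_lit 7939671769) (nat_lit 76) (nat_lit 38903603313) (nat_lit 152) (nat_lit 51105997907) (nat_lit 23) (nat_lit 5) (nat_lit 24) (nat_lit 5) (nat_lit 25) (nat_lit 4) (nat_lit 390) (nat_lit 316) (nat_lit 194)))) (XT.nd (nat_lit 41106) (nat_lit 0) (nat_lit 17632) (XT.lf (nat_lit 0) (nat_lit 62685071325) (nat_lit 76) (nat_lit 11131709304) (nat_lit 152) (nat_lit 28160211606) (nat_lit 23) (nat_lit 5) (nat_lit 24) (nat_lit 5) (nat_lit 25) (nat_lit 4) (nat_lit 391) (nat_lit 316) (nat_lit 193)) (XT.nd (nat_lit 78) (nat_lit 0) (nat_lit 76) (XT.lf (nat_lit 0) (nat_lit 1492712866) (nat_lit 1140) (nat_lit 1714288149) (nat_lit 1140) (nat_lit 1714288149) (nat_lit 255) (nat_lit 3) (nat_lit 270) (nat_lit 3) (nat_lit 270) (nat_lit 5) (nat_lit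 317) (nat_lit 317) (nat_lit 266)) (XT.lf (nat_lit 0) (nat_lit 4275148484) (nat_lit 1064) (nat_lit 5613076942) (nat_lit 1140) (nat_lit 163156170) (nat_lit 256) (nat_lit 5) (nat_lit 270) (nat_lit 5) (nat_lit 271) (nat_lit 5) (nat_lit 318) (nat_lit 317) (nat_lit 265))))) (XT.nd (nat_lit 234) (nat_lit 912) (nat_lit 0) (XT.nd (nat_lit 78) (nat_lit 0) (nat_lit 76) (XT.lf (nat_lit 76) (nat_lit 2441109077) (nat_lit 0) (nat_lit 3237115838) (nat_lit 1140) (nat_lit 4590985848) (nat_lit 257) (nat_lit 5) (nat_lit 256) (nat_lit 5) (nat_lit 271) (nat_lit 5) (nat_lit 319) (nat_lit 317) (nat_lit 264)) (XT.nd (nat_lit 78) (nat_lit 0) (nat_lit 76) (XT.lf (nat_lit 76) (nat_lit 447912981) (nat_lit 0) (nat_lit 6730711543) (nat_lit 1140) (nat_lit 3318541077) (nat_lit 258) (nat_lit 5) (nat_lit 257) (nat_lit 5) (nat_lit 272) (nat_lit 5) (nat_lit 320) (nat_lit 317) (nat_lit 263)) (XT.lf (nat_lit 0) (nat_lit 8802584820)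 (nat_lit 1064) (nat_lit 1513453261) (nat_lit 1140) (nat_lit 419070825) (nat_lit 258) (nat_lit 5) (nat_lit 272) (nat_lit 5) (nat_lit 273) (nat_lit 5) (nat_lit 321) (nat_lit 317) (nat_lit 262)))) (XT.nd (nat_lit 78) (nat_lit 1064) (nat_lit 0) (XT.lf (nat_lit 76) (nat_lit 7484918268) (nat_lit 0) (nat_lit 3097709072) (nat_lit 1140) (nat_lit 400120222) (nat_lit 259) (nat_lit 5) (nat_lit 258) (nat_lit 5) (nat_lit 273) (nat_lit 5) (nat_lit 322) (nat_lit 317) (nat_lit 261)) (XT.nd (nat_lit 78) (nat_lit 0) (nat_lit 76) (XT.lf (nat_lit 0) (nat_lit 1237758583) (nat_lit 1140) (nat_lit 5505159270) (nat_lit 1216) (nat_lit 4497969675) (nat_lit 244) (nat_lit 5) (nat_lit 259) (nat_lit 5) (nat_lit 260) (nat_lit 5) (nat_lit 323) (nat_lit 317) (nat_lit 260)) (XT.lf (nat_lit 0) (nat_lit 3004749587) (nat_lit 1140) (nat_lit 7527856413) (nat_lit 1216) (nat_lit 977584214) (nat_lit 245) (nat_lit 5) (nat_lit 260) (nat_lit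 5) (nat_lit 261) (nat_lit 5) (nat_lit 324) (nat_lit 317) (nat_lit 259)))))) (XT.nd (nat_lit 468) (nat_lit 2736) (nat_lit 0) (XT.nd (nat_lit 234) (nat_lit 2888) (nat_lit 0) (XT.nd (nat_lit 78) (nat_lit 0) (nat_lit 76) (XT.lf (nat_lit 76) (nat_lit 2198343822) (nat_lit 0) (nat_lit 2750607818) (nat_lit 1216) (nat_lit 6841378050) (nat_lit 246) (nat_lit 5) (nat_lit 245) (nat_lit 5) (nat_lit 261) (nat_lit 5) (nat_lit 325) (nat_lit 317) (nat_lit 258)) (XT.nd (nat_lit 78) (nat_lit 0) (nat_lit 76) (XT.lf (nat_lit 76) (nat_lit 396401184) (nat_lit 0) (nat_lit 6673029623) (nat_lit 1216) (nat_lit 5012709034) (nat_lit 247) (nat_lit 5) (nat_lit 246) (nat_lit 5) (nat_lit 262) (nat_lit 5) (nat_lit 326) (nat_lit 317) (nat_lit 257)) (XT.lf (nat_lit 0) (nat_lit 9385067776) (nat_lit 1140) (nat_lit 1389039273) (nat_lit 76) (nat_lit 1611793447) (nat_lit 247) (nat_lit 5) (nat_lit 262) (nat_lit 5) (nat_lit 248) (nat_lit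 5) (nat_lit 327) (nat_lit 317) (nat_lit 256)))) (XT.nd (nat_lit 78) (nat_lit 1900) (nat_lit 0) (XT.lf (nat_lit 0) (nat_lit 9497701842) (nat_lit 1140) (nat_lit 2427143347) (nat_lit 1216) (nat_lit 776785630) (nat_lit 232) (nat_lit 5) (nat_lit 247) (nat_lit 5) (nat_lit 248) (nat_lit 5) (nat_lit 328) (nat_lit 317) (nat_lit 255)) (XT.nd (nat_lit 78) (nat_lit 608) (nat_lit 0) (XT.lf (nat_lit 0) (nat_lit 1632851831) (nat_lit 1292) (nat_lit 5069484556) (nat_lit 76) (nat_lit 6327247818) (nat_lit 215) (nat_lit 5) (nat_lit 232) (nat_lit 5) (nat_lit 216) (nat_lit 5) (nat_lit 329) (nat_lit 317) (nat_lit 254)) (XT.lf (nat_lit 0) (nat_lit 4241019501) (nat_lit 684) (nat_lit 6966502997) (nat_lit 76) (nat_lit 2163387155) (nat_lit 207) (nat_lit 5) (nat_lit 216) (nat_lit 5) (nat_lit 208) (nat_lit 5) (nat_lit 330) (nat_lit 317) (nat_lit 253))))) (XT.nd (nat_lit 234) (nat_lit 1064) (nat_lit 0) (XT.nd (nat_lit 78)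 (nat_lit 1140) (nat_lit 0) (XT.lf (nat_lit 0) (nat_lit 4812945813) (nat_lit 532) (nat_lit 2288303688) (nat_lit 608) (nat_lit 6624429420) (nat_lit 200) (nat_lit 5) (nat_lit 207) (nat_lit 5) (nat_lit 208) (nat_lit 5) (nat_lit 331) (nat_lit 317) (nat_lit 252)) (XT.nd (nat_lit 78) (nat_lit 532) (nat_lit 0) (XT.lf (nat_lit 0) (nat_lit 3181144590) (nat_lit 608) (nat_lit 7051168439) (nat_lit 684) (nat_lit 3862064837) (nat_lit 192) (nat_lit 5) (nat_lit 200) (nat_lit 5) (nat_lit 201) (nat_lit 5) (nat_lit 332) (nat_lit 317) (nat_lit 251)) (XT.lf (nat_lit 0) (nat_lit 1527867620) (nat_lit 532) (nat_lit 12102957086) (nat_lit 608) (nat_lit 847384843) (nat_lit 185) (nat_lit 5) (nat_lit 192) (nat_lit 5) (nat_lit 193) (nat_lit 5) (nat_lit 333) (nat_lit 317) (nat_lit 250)))) (XT.nd (nat_lit 78) (nat_lit 988) (nat_lit 0) (XT.lf (nat_lit 0) (nat_lit 2417020496) (nat_lit 608) (nat_lit 196076113) (nat_lit 76) (nat_lit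 12263163790) (nat_lit 184) (nat_lit 5) (nat_lit 192) (nat_lit 5) (nat_lit 185) (nat_lit 5) (nat_lit 334) (nat_lit 317) (nat_lit 249)) (XT.nd (nat_lit 78) (nat_lit 456) (nat_lit 0) (XT.lf (nat_lit 0) (nat_lit 5989701513) (nat_lit 608) (nat_lit 1954969560) (nat_lit 76) (nat_lit 7344435300) (nat_lit 177) (nat_lit 5) (nat_lit 185) (nat_lit 5) (nat_lit 178) (nat_lit 5) (nat_lit 335) (nat_lit 317) (nat_lit 248)) (XT.lf (nat_lit 0) (nat_lit 9868218893) (nat_lit 532) (nat_lit 3750653873) (nat_lit 76) (nat_lit 2099926477) (nat_lit 171) (nat_lit 5) (nat_lit 178) (nat_lit 5) (nat_lit 172) (nat_lit 5) (nat_lit 336) (nat_lit 317) (nat_lit 247))))))) (XT.nd (nat_lit 936) (nat_lit 2888) (nat_lit 0) (XT.nd (nat_lit 468) (nat_lit 1748) (nat_lit 0) (XT.nd (nat_lit 234) (nat_lit 1292) (nat_lit 0) (XT.nd (nat_lit 78) (nat_lit 988) (nat_lit 0) (XT.lf (nat_lit 0) (nat_lit 10543733412) (nat_lit 456) (nat_lit 3563093926)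 (nat_lit 532) (nat_lit 2058184143) (nat_lit 165) (nat_lit 5) (nat_lit 171) (nat_lit 5) (nat_lit 172) (nat_lit 5) (nat_lit 337) (nat_lit 317) (nat_lit 246)) (XT.nd (nat_lit 78) (nat_lit 456) (nat_lit 0) (XT.lf (nat_lit 0) (nat_lit 2046823211) (nat_lit 532) (nat_lit 7581053494) (nat_lit 76) (nat_lit 7000305067) (nat_lit 158) (nat_lit 5) (nat_lit 165) (nat_lit 5) (nat_lit 159) (nat_lit 5) (nat_lit 338) (nat_lit 317) (nat_lit 245)) (XT.lf (nat_lit 0) (nat_lit 6458066330) (nat_lit 532) (nat_lit 9617198488) (nat_lit 76) (nat_lit 1034345195) (nat_lit 152) (nat_lit 5) (nat_lit 159) (nat_lit 5) (nat_lit 153) (nat_lit 5) (nat_lit 339) (nat_lit 317) (nat_lit 244)))) (XT.nd (nat_lit 78) (nat_lit 912) (nat_lit 0) (XT.lf (nat_lit 0) (nat_lit 5841574480) (nat_lit 380) (nat_lit 5448091657) (nat_lit 456) (nat_lit 6319466200) (nat_lit 147) (nat_lit 5) (nat_lit 152) (nat_lit 5) (nat_lit 153) (nat_lit 5) (nat_lit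 340) (nat_lit 317) (nat_lit 243)) (XT.nd (nat_lit 78) (nat_lit 456) (nat_lit 0) (XT.lf (nat_lit 0) (nat_lit 4128880580) (nat_lit 456) (nat_lit 12397279292) (nat_lit 532) (nat_lit 1602587208) (nat_lit 141) (nat_lit 5) (nat_lit 147) (nat_lit 5) (nat_lit 148) (nat_lit 5) (nat_lit 341) (nat_lit 317) (nat_lit 242)) (XT.lf (nat_lit 0) (nat_lit 2313183104) (nat_lit 380) (nat_lit 1140698680) (nat_lit 456) (nat_lit 15214435628) (nat_lit 135) (nat_lit 5) (nat_lit 140) (nat_lit 5) (nat_lit 141) (nat_lit 5) (nat_lit 342) (nat_lit 317) (nat_lit 241))))) (XT.nd (nat_lit 234) (nat_lit 988) (nat_lit 0) (XT.nd (nat_lit 78) (nat_lit 380) (nat_lit 0) (XT.lf (nat_lit 0) (nat_lit 351911320) (nat_lit 380) (nat_lit 8600567211) (nat_lit 456) (nat_lit 10275252109) (nat_lit 130) (nat_lit 5) (nat_lit 135) (nat_lit 5) (nat_lit 136) (nat_lit 5) (nat_lit 343) (nat_lit 317) (nat_lit 240)) (XT.nd (nat_lit 78) (nat_lit 380)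 (nat_lit 0) (XT.lf (nat_lit 0) (nat_lit 14909185148) (nat_lit 456) (nat_lit 1655553609) (nat_lit 76) (nat_lit 3244893556) (nat_lit 130) (nat_lit 5) (nat_lit 136) (nat_lit 5) (nat_lit 131) (nat_lit 5) (nat_lit 344) (nat_lit 317) (nat_lit 239)) (XT.lf (nat_lit 0) (nat_lit 950268300) (nat_lit 380) (nat_lit 3796454062) (nat_lit 76) (nat_lit 15667054481) (nat_lit 125) (nat_lit 5) (nat_lit 130) (nat_lit 5) (nat_lit 126) (nat_lit 5) (nat_lit 345) (nat_lit 317) (nat_lit 238)))) (XT.nd (nat_lit 78) (nat_lit 608) (nat_lit 0) (XT.lf (nat_lit 0) (nat_lit 7203697664) (nat_lit 456) (nat_lit 6120346576) (nat_lit 76) (nat_lit 7716294586) (nat_lit 120) (nat_lit 5) (nat_lit 126) (nat_lit 5) (nat_lit 121) (nat_lit 5) (nat_lit 346) (nat_lit 317) (nat_lit 237)) (XT.nd (nat_lit 78) (nat_lit 304) (nat_lit 0) (XT.lf (nat_lit 0) (nat_lit 13126793960) (nat_lit 304) (nat_lit 830953160) (nat_lit 380) (nat_lit 7734854386)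 (nat_lit 116) (nat_lit 5) (nat_lit 120) (nat_lit 5) (nat_lit 121) (nat_lit 5) (nat_lit 347) (nat_lit 317) (nat_lit 236)) (XT.lf (nat_lit 0) (nat_lit 11152253687) (nat_lit 304) (nat_lit 10161363628) (nat_lit 380) (nat_lit 1055946990) (nat_lit 112) (nat_lit 5) (nat_lit 116) (nat_lit 5) (nat_lit 117) (nat_lit 5) (nat_lit 348) (nat_lit 317) (nat_lit 235)))))) (XT.nd (nat_lit 468) (nat_lit 1368) (nat_lit 0) (XT.nd (nat_lit 234) (nat_lit 608) (nat_lit 0) (XT.nd (nat_lit 78) (nat_lit 532) (nat_lit 0) (XT.lf (nat_lit 0) (nat_lit 6029858166) (nat_lit 380) (nat_lit 14070503722) (nat_lit 76) (nat_lit 2972629456) (nat_lit 107) (nat_lit 5) (nat_lit 112) (nat_lit 5) (nat_lit 108) (nat_lit 5) (nat_lit 349) (nat_lit 317) (nat_lit 234)) (XT.nd (nat_lit 78) (nat_lit 228) (nat_lit 0) (XT.lf (nat_lit 0) (nat_lit 6640441221) (nat_lit 304) (nat_lit 7067401154) (nat_lit 380) (nat_lit 10095651165) (nat_lit 103) (nat_lit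 5) (nat_lit 107) (nat_lit 5) (nat_lit 108) (nat_lit 5) (nat_lit 350) (nat_lit 317) (nat_lit 233)) (XT.lf (nat_lit 0) (nat_lit 4095732642) (nat_lit 228) (nat_lit 17900460912) (nat_lit 304) (nat_lit 2567542092) (nat_lit 100) (nat_lit 5) (nat_lit 103) (nat_lit 5) (nat_lit 104) (nat_lit 5) (nat_lit 351) (nat_lit 317) (nat_lit 232)))) (XT.nd (nat_lit 78) (nat_lit 228) (nat_lit 0) (XT.lf (nat_lit 0) (nat_lit 1286733693) (nat_lit 304) (nat_lit 4185977775) (nat_lit 380) (nat_lit 19880551010) (nat_lit 95) (nat_lit 5) (nat_lit 99) (nat_lit 5) (nat_lit 100) (nat_lit 5) (nat_lit 352) (nat_lit 317) (nat_lit 231)) (XT.nd (nat_lit 78) (nat_lit 228) (nat_lit 0) (XT.lf (nat_lit 0) (nat_lit 14151737212) (nat_lit 380) (nat_lit 1778207593) (nat_lit 76) (nat_lit 10242870181) (nat_lit 95) (nat_lit 5) (nat_lit 100) (nat_lit 5) (nat_lit 96) (nat_lit 5) (nat_lit 353) (nat_lit 317) (nat_lit 230)) (XT.lf (nat_lit 0) (nat_lit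 21979750485) (nat_lit 228) (nat_lit 1517920467) (nat_lit 304) (nat_lit 3528692874) (nat_lit 92) (nat_lit 5) (nat_lit 95) (nat_lit 5) (nat_lit 96) (nat_lit 5) (nat_lit 354) (nat_lit 317) (nat_lit 229))))) (XT.nd (nat_lit 234) (nat_lit 532) (nat_lit 0) (XT.nd (nat_lit 78) (nat_lit 456) (nat_lit 0) (XT.lf (nat_lit 0) (nat_lit 5600724083) (nat_lit 380) (nat_lit 8713713680) (nat_lit 76) (nat_lit 13597078578) (nat_lit 87) (nat_lit 5) (nat_lit 92) (nat_lit 5) (nat_lit 88) (nat_lit 5) (nat_lit 355) (nat_lit 317) (nat_lit 228)) (XT.nd (nat_lit 78) (nat_lit 228) (nat_lit 0) (XT.lf (nat_lit 0) (nat_lit 15325884233) (nat_lit 304) (nat_lit 12688035044) (nat_lit 76) (nat_lit 819598065) (nat_lit 84) (nat_lit 5) (nat_lit 88) (nat_lit 5) (nat_lit 85) (nat_lit 5) (nat_lit 356) (nat_lit 317) (nat_lit 227)) (XT.lf (nat_lit 0) (nat_lit 12703186505) (nat_lit 228) (nat_lit 13172307120) (nat_lit 304) (nat_lit 3915985245)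 (nat_lit 81) (nat_lit 5) (nat_lit 84) (nat_lit 5) (nat_lit 85) (nat_lit 5) (nat_lit 357) (nat_lit 317) (nat_lit 226)))) (XT.nd (nat_lit 78) (nat_lit 228) (nat_lit 0) (XT.lf (nat_lit 0) (nat_lit 6260042581) (nat_lit 304) (nat_lit 21895769461) (nat_lit 76) (nat_lit 2633009880) (nat_lit 77) (nat_lit 5) (nat_lit 81) (nat_lit 5) (nat_lit 78) (nat_lit 5) (nat_lit 358) (nat_lit 317) (nat_lit 225)) (XT.nd (nat_lit 78) (nat_lit 0) (nat_lit 0) (XT.lf (nat_lit 0) (nat_lit 4585839140) (nat_lit 228) (nat_lit 12615431396) (nat_lit 304) (nat_lit 14623482277) (nat_lit 74) (nat_lit 5) (nat_lit 77) (nat_lit 5) (nat_lit 78) (nat_lit 5) (nat_lit 359) (nat_lit 317) (nat_lit 224)) (XT.lf (nat_lit 0) (nat_lit 28935206915) (nat_lit 304) (nat_lit 123270095) (nat_lit 76) (nat_lit 3846639038) (nat_lit 74) (nat_lit 5) (nat_lit 78) (nat_lit 5) (nat_lit 75) (nat_lit 5) (nat_lit 360) (nat_lit 317) (nat_lit 223))))))))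
noncomputable def xc80 : XT := (XT.nd (nat_lit 1794) (nat_lit 608) (nat_lit 0) (XT.nd (nat_lit 858) (nat_lit 1444) (nat_lit 0) (XT.nd (nat_lit 390) (nat_lit 760) (nat_lit 0) (XT.nd (nat_lit 156) (nat_lit 608) (nat_lit 0) (XT.nd (nat_lit 78) (nat_lit 228) (nat_lit 0) (XT.lf (nat_lit 0) (nat_lit 7466357683) (nat_lit 228) (nat_lit 5346610804) (nat_lit 76) (nat_lit 21212727784) (nat_lit 71) (nat_lit 5) (nat_lit 74) (nat_lit 5) (nat_lit 72) (nat_lit 5) (nat_lit 361) (nat_lit 317) (nat_lit 222)) (XT.lf (nat_lit 0) (nat_lit 19653339837) (nat_lit 304) (nat_lit 11112438532) (nat_lit 76) (nat_lit 4427522368) (nat_lit 68) (nat_lit 5) (nat_lit 72) (nat_lit 5) (nat_lit 69) (nat_lit 5) (nat_lit 362) (nat_lit 317) (nat_lit 221))) (XT.nd (nat_lit 78) (nat_lit 456) (nat_lit 0) (XT.lf (nat_lit 0) (nat_lit 18885868498) (nat_lit 152) (nat_lit 13914324298) (nat_lit 228) (nat_lit 3608581349) (nat_lit 66) (nat_lit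 5) (nat_lit 68) (nat_lit 5) (nat_lit 69) (nat_lit 5) (nat_lit 363) (nat_lit 317) (nat_lit 220)) (XT.nd (nat_lit 78) (nat_lit 152) (nat_lit 0) (XT.lf (nat_lit 0) (nat_lit 9010439602) (nat_lit 304) (nat_lit 24638275495) (nat_lit 76) (nat_lit 4025784372) (nat_lit 62) (nat_lit 5) (nat_lit 66) (nat_lit 5) (nat_lit 63) (nat_lit 5) (nat_lit 364) (nat_lit 317) (nat_lit 219)) (XT.lf (nat_lit 0) (nat_lit 6412106482) (nat_lit 152) (nat_lit 16143437407) (nat_lit 228) (nat_lit 16435806265) (nat_lit 60) (nat_lit 5) (nat_lit 62) (nat_lit 5) (nat_lit 63) (nat_lit 5) (nat_lit 365) (nat_lit 317) (nat_lit 218))))) (XT.nd (nat_lit 234) (nat_lit 380) (nat_lit 0) (XT.nd (nat_lit 78) (nat_lit 380) (nat_lit 0) (XT.lf (nat_lit 0) (nat_lit 37040754269) (nat_lit 228) (nat_lit 885937644) (nat_lit 76) (nat_lit 2439469597) (nat_lit 60) (nat_lit 5) (nat_lit 63) (nat_lit 5) (nat_lit 61) (nat_lit 5) (nat_lit 366) (nat_lit 317)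 (nat_lit 217)) (XT.nd (nat_lit 78) (nat_lit 152) (nat_lit 0) (XT.lf (nat_lit 0) (nat_lit 10705960947) (nat_lit 228) (nat_lit 9054859151) (nat_lit 76) (nat_lit 22031810472) (nat_lit 57) (nat_lit 5) (nat_lit 60) (nat_lit 5) (nat_lit 58) (nat_lit 5) (nat_lit 367) (nat_lit 317) (nat_lit 216)) (XT.lf (nat_lit 0) (nat_lit 25205485315) (nat_lit 152) (nat_lit 402995310) (nat_lit 228) (nat_lit 17673807212) (nat_lit 55) (nat_lit 5) (nat_lit 57) (nat_lit 5) (nat_lit 58) (nat_lit 5) (nat_lit 368) (nat_lit 317) (nat_lit 215)))) (XT.nd (nat_lit 78) (nat_lit 228) (nat_lit 0) (XT.lf (nat_lit 0) (nat_lit 16633207183) (nat_lit 152) (nat_lit 25055010514) (nat_lit 228) (nat_lit 3145250601) (nat_lit 53) (nat_lit 5) (nat_lit 55) (nat_lit 5) (nat_lit 56) (nat_lit 5) (nat_lit 369) (nat_lit 317) (nat_lit 214)) (XT.nd (nat_lit 78) (nat_lit 0) (nat_lit 0) (XT.lf (nat_lit 0) (nat_lit 6990982936) (nat_lit 152) (nat_lit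 5128491538) (nat_lit 228) (nat_lit 34331862610) (nat_lit 50) (nat_lit 5) (nat_lit 52) (nat_lit 5) (nat_lit 53) (nat_lit 5) (nat_lit 370) (nat_lit 317) (nat_lit 213)) (XT.lf (nat_lit 0) (nat_lit 28515156632) (nat_lit 228) (nat_lit 3819342681) (nat_lit 76) (nat_lit 15801685388) (nat_lit 50) (nat_lit 5) (nat_lit 53) (nat_lit 5) (nat_lit 51) (nat_lit 5) (nat_lit 371) (nat_lit 317) (nat_lit 212)))))) (XT.nd (nat_lit 468) (nat_lit 608) (nat_lit 0) (XT.nd (nat_lit 234) (nat_lit 304) (nat_lit 0) (XT.nd (nat_lit 78) (nat_lit 380) (nat_lit 0) (XT.lf (nat_lit 0) (nat_lit 34197754772) (nat_lit 152) (nat_lit 11901140719) (nat_lit 228) (nat_lit 3795333607) (nat_lit 48) (nat_lit 5) (nat_lit 50) (nat_lit 5) (nat_lit 51) (nat_lit 5) (nat_lit 372) (nat_lit 317) (nat_lit 211)) (XT.nd (nat_lit 78) (nat_lit 152) (nat_lit 0) (XT.lf (nat_lit 0) (nat_lit 12913467411) (nat_lit 228) (nat_lit 29068828395) (nat_lit 76)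 (nat_lit 9743924258) (nat_lit 45) (nat_lit 5) (nat_lit 48) (nat_lit 5) (nat_lit 46) (nat_lit 5) (nat_lit 373) (nat_lit 317) (nat_lit 210)) (XT.lf (nat_lit 0) (nat_lit 9618864584) (nat_lit 152) (nat_lit 21125171953) (nat_lit 228) (nat_lit 22893704342) (nat_lit 43) (nat_lit 5) (nat_lit 45) (nat_lit 5) (nat_lit 46) (nat_lit 5) (nat_lit 374) (nat_lit 317) (nat_lit 209)))) (XT.nd (nat_lit 78) (nat_lit 304) (nat_lit 0) (XT.lf (nat_lit 0) (nat_lit 49764385873) (nat_lit 228) (nat_lit 4818339644) (nat_lit 76) (nat_lit 1053166828) (nat_lit 43) (nat_lit 5) (nat_lit 46) (nat_lit 5) (nat_lit 44) (nat_lit 4) (nat_lit 375) (nat_lit 317) (nat_lit 208)) (XT.nd (nat_lit 78) (nat_lit 152) (nat_lit 0) (XT.lf (nat_lit 0) (nat_lit 12329491787) (nat_lit 152) (nat_lit 21009976013) (nat_lit 76) (nat_lit 24374167858) (nat_lit 41) (nat_lit 5) (nat_lit 43) (nat_lit 5) (nat_lit 42) (nat_lit 5) (nat_lit 376) (nat_lit 317)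 (nat_lit 207)) (XT.lf (nat_lit 0) (nat_lit 20836364949) (nat_lit 152) (nat_lit 10723630255) (nat_lit 228) (nat_lit 28326302214) (nat_lit 39) (nat_lit 5) (nat_lit 41) (nat_lit 5) (nat_lit 42) (nat_lit 5) (nat_lit 377) (nat_lit 317) (nat_lit 206))))) (XT.nd (nat_lit 234) (nat_lit 304) (nat_lit 0) (XT.nd (nat_lit 78) (nat_lit 228) (nat_lit 0) (XT.lf (nat_lit 0) (nat_lit 2964664544) (nat_lit 76) (nat_lit 49149085120) (nat_lit 152) (nat_lit 10042992639) (nat_lit 38) (nat_lit 5) (nat_lit 39) (nat_lit 5) (nat_lit 40) (nat_lit 4) (nat_lit 378) (nat_lit 317) (nat_lit 205)) (XT.nd (nat_lit 78) (nat_lit 152) (nat_lit 0) (XT.lf (nat_lit 0) (nat_lit 9479885568) (nat_lit 152) (nat_lit 16851334830) (nat_lit 76) (nat_lit 38191729553) (nat_lit 37) (nat_lit 5) (nat_lit 39) (nat_lit 5) (nat_lit 38) (nat_lit 5) (nat_lit 379) (nat_lit 317) (nat_lit 204)) (XT.lf (nat_lit 0) (nat_lit 28034523560) (nat_lit 152) (nat_lit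 1998418492) (nat_lit 228) (nat_lit 36963692294) (nat_lit 35) (nat_lit 5) (nat_lit 37) (nat_lit 5) (nat_lit 38) (nat_lit 5) (nat_lit 380) (nat_lit 317) (nat_lit 203)))) (XT.nd (nat_lit 78) (nat_lit 228) (nat_lit 0) (XT.lf (nat_lit 0) (nat_lit 5795696115) (nat_lit 76) (nat_lit 46265786221) (nat_lit 152) (nat_lit 17519087215) (nat_lit 34) (nat_lit 5) (nat_lit 35) (nat_lit 5) (nat_lit 36) (nat_lit 4) (nat_lit 381) (nat_lit 317) (nat_lit 202)) (XT.nd (nat_lit 78) (nat_lit 152) (nat_lit 0) (XT.lf (nat_lit 0) (nat_lit 3257166388) (nat_lit 152) (nat_lit 18745081890) (nat_lit 76) (nat_lit 50278140084) (nat_lit 33) (nat_lit 5) (nat_lit 35) (nat_lit 5) (nat_lit 34) (nat_lit 5) (nat_lit 382) (nat_lit 317) (nat_lit 201)) (XT.lf (nat_lit 0) (nat_lit 25020269686) (nat_lit 228) (nat_lit 46221675473) (nat_lit 76) (nat_lit 3858739846) (nat_lit 31) (nat_lit 5) (nat_lit 34) (nat_lit 5) (nat_lit 32) (nat_lit 4)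 (nat_lit 383) (nat_lit 317) (nat_lit 200))))))) (XT.nd (nat_lit 42042) (nat_lit 0) (nat_lit 12844) (XT.nd (nat_lit 468) (nat_lit 228) (nat_lit 0) (XT.nd (nat_lit 234) (nat_lit 76) (nat_lit 0) (XT.nd (nat_lit 78) (nat_lit 228) (nat_lit 0) (XT.lf (nat_lit 0) (nat_lit 999414676) (nat_lit 76) (nat_lit 47290051235) (nat_lit 152) (nat_lit 29759993711) (nat_lit 30) (nat_lit 5) (nat_lit 31) (nat_lit 5) (nat_lit 32) (nat_lit 4) (nat_lit 384) (nat_lit 317) (nat_lit 199)) (XT.nd (nat_lit 78) (nat_lit 228) (nat_lit 0) (XT.lf (nat_lit 0) (nat_lit 51531994700) (nat_lit 76) (nat_lit 21657582500) (nat_lit 152) (nat_lit 7942073327) (nat_lit 30) (nat_lit 5) (nat_lit 31) (nat_lit 5) (nat_lit 32) (nat_lit 4) (nat_lit 385) (nat_lit 317) (nat_lit 198)) (XT.lf (nat_lit 0) (nat_lit 14917195668) (nat_lit 228) (nat_lit 63947991324) (nat_lit 76) (nat_lit 5491173794) (nat_lit 27) (nat_lit 5) (nat_lit 30) (nat_lit 5) (nat_lit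 28) (nat_lit 4) (nat_lit 386) (nat_lit 317) (nat_lit 197)))) (XT.nd (nat_lit 78) (nat_lit 76) (nat_lit 0) (XT.lf (nat_lit 0) (nat_lit 39275156725) (nat_lit 228) (nat_lit 14514227715) (nat_lit 76) (nat_lit 33934964671) (nat_lit 27) (nat_lit 5) (nat_lit 30) (nat_lit 5) (nat_lit 28) (nat_lit 4) (nat_lit 387) (nat_lit 317) (nat_lit 196)) (XT.nd (nat_lit 78) (nat_lit 0) (nat_lit 0) (XT.lf (nat_lit 0) (nat_lit 38121171494) (nat_lit 76) (nat_lit 27088804141) (nat_lit 152) (nat_lit 26039993440) (nat_lit 26) (nat_lit 5) (nat_lit 27) (nat_lit 5) (nat_lit 28) (nat_lit 4) (nat_lit 388) (nat_lit 317) (nat_lit 195)) (XT.lf (nat_lit 0) (nat_lit 92594208982) (nat_lit 152) (nat_lit 1280015860) (nat_lit 0) (nat_lit 1073065961) (nat_lit 26) (nat_lit 5) (nat_lit 28) (nat_lit 4) (nat_lit 26) (nat_lit 4) (nat_lit 389) (nat_lit 317) (nat_lit 194))))) (XT.nd (nat_lit 41340) (nat_lit 0) (nat_lit 17632) (XT.nd (nat_lit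 78) (nat_lit 76) (nat_lit 0) (XT.lf (nat_lit 0) (nat_lit 22871358288) (nat_lit 152) (nat_lit 45103102398) (nat_lit 76) (nat_lit 30824747266) (nat_lit 24) (nat_lit 5) (nat_lit 26) (nat_lit 5) (nat_lit 25) (nat_lit 4) (nat_lit 390) (nat_lit 317) (nat_lit 193)) (XT.nd (nat_lit 41184) (nat_lit 0) (nat_lit 17632) (XT.lf (nat_lit 0) (nat_lit 8738286933) (nat_lit 76) (nat_lit 40660997933) (nat_lit 152) (nat_lit 53441010117) (nat_lit 23) (nat_lit 5) (nat_lit 24) (nat_lit 5) (nat_lit 25) (nat_lit 4) (nat_lit 391) (nat_lit 317) (nat_lit 192)) (XT.lf (nat_lit 0) (nat_lit 2719876917) (nat_lit 1140) (nat_lit 1206052450) (nat_lit 1140) (nat_lit 1206052450) (nat_lit 255) (nat_lit 3) (nat_lit 270) (nat_lit 3) (nat_lit 270) (nat_lit 5) (nat_lit 318) (nat_lit 318) (nat_lit 264)))) (XT.nd (nat_lit 78) (nat_lit 0) (nat_lit 76) (XT.lf (nat_lit 76) (nat_lit 5815799114) (nat_lit 0) (nat_lit 877810957) (nat_lit 1140)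 (nat_lit 3792683385) (nat_lit 256) (nat_lit 5) (nat_lit 255) (nat_lit 3) (nat_lit 270) (nat_lit 5) (nat_lit 319) (nat_lit 318) (nat_lit 263)) (XT.nd (nat_lit 78) (nat_lit 0) (nat_lit 76) (XT.lf (nat_lit 76) (nat_lit 3759533332) (nat_lit 0) (nat_lit 4305785064) (nat_lit 1140) (nat_lit 2652813536) (nat_lit 257) (nat_lit 5) (nat_lit 256) (nat_lit 5) (nat_lit 271) (nat_lit 5) (nat_lit 320) (nat_lit 318) (nat_lit 262)) (XT.lf (nat_lit 76) (nat_lit 1703540099) (nat_lit 0) (nat_lit 7840599169) (nat_lit 1140) (nat_lit 1416311963) (nat_lit 258) (nat_lit 5) (nat_lit 257) (nat_lit 5) (nat_lit 272) (nat_lit 5) (nat_lit 321) (nat_lit 318) (nat_lit 261)))))) (XT.nd (nat_lit 468) (nat_lit 3876) (nat_lit 0) (XT.nd (nat_lit 234) (nat_lit 0) (nat_lit 152) (XT.nd (nat_lit 78) (nat_lit 1064) (nat_lit 0) (XT.lf (nat_lit 76) (nat_lit 10861687973) (nat_lit 0) (nat_lit 287744045) (nat_lit 1140) (nat_lit 63921134) (nat_lit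 258) (nat_lit 5) (nat_lit 257) (nat_lit 5) (nat_lit 272) (nat_lit 5) (nat_lit 322) (nat_lit 318) (nat_lit 260)) (XT.nd (nat_lit 78) (nat_lit 0) (nat_lit 76) (XT.lf (nat_lit 0) (nat_lit 1432230583) (nat_lit 1140) (nat_lit 2426093042) (nat_lit 1216) (nat_lit 7617146744) (nat_lit 243) (nat_lit 5) (nat_lit 258) (nat_lit 5) (nat_lit 259) (nat_lit 5) (nat_lit 323) (nat_lit 318) (nat_lit 259)) (XT.lf (nat_lit 0) (nat_lit 3062197799) (nat_lit 1140) (nat_lit 4513862566) (nat_lit 1216) (nat_lit 4172841697) (nat_lit 244) (nat_lit 5) (nat_lit 259) (nat_lit 5) (nat_lit 260) (nat_lit 5) (nat_lit 324) (nat_lit 318) (nat_lit 258)))) (XT.nd (nat_lit 78) (nat_lit 0) (nat_lit 0) (XT.lf (nat_lit 0) (nat_lit 4841009551) (nat_lit 1140) (nat_lit 6617764638) (nat_lit 1216) (nat_lit 575246478) (nat_lit 245) (nat_lit 5) (nat_lit 260) (nat_lit 5) (nat_lit 261) (nat_lit 5) (nat_lit 325) (nat_lit 318) (nat_lit 257)) (XT.nd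 (nat_lit 78) (nat_lit 0) (nat_lit 76) (XT.lf (nat_lit 76) (nat_lit 3557868786) (nat_lit 0) (nat_lit 3256278129) (nat_lit 1216) (nat_lit 5516120748) (nat_lit 246) (nat_lit 5) (nat_lit 245) (nat_lit 5) (nat_lit 261) (nat_lit 5) (nat_lit 326) (nat_lit 318) (nat_lit 256)) (XT.lf (nat_lit 76) (nat_lit 1681603960) (nat_lit 0) (nat_lit 7290803837) (nat_lit 1216) (nat_lit 3666357607) (nat_lit 247) (nat_lit 5) (nat_lit 246) (nat_lit 5) (nat_lit 262) (nat_lit 5) (nat_lit 327) (nat_lit 318) (nat_lit 255))))) (XT.nd (nat_lit 234) (nat_lit 1748) (nat_lit 0) (XT.nd (nat_lit 78) (nat_lit 2432) (nat_lit 0) (XT.lf (nat_lit 0) (nat_lit 11327439535) (nat_lit 1140) (nat_lit 205543324) (nat_lit 76) (nat_lit 1427070286) (nat_lit 247) (nat_lit 5) (nat_lit 262) (nat_lit 5) (nat_lit 248) (nat_lit 5) (nat_lit 328) (nat_lit 318) (nat_lit 254)) (XT.nd (nat_lit 78) (nat_lit 1216) (nat_lit 0) (XT.lf (nat_lit 0) (nat_lit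 629852234) (nat_lit 1216) (nat_lit 2109924331) (nat_lit 76) (nat_lit 10553406840) (nat_lit 231) (nat_lit 5) (nat_lit 247) (nat_lit 5) (nat_lit 232) (nat_lit 5) (nat_lit 329) (nat_lit 318) (nat_lit 253)) (XT.lf (nat_lit 0) (nat_lit 3086056839) (nat_lit 1292) (nat_lit 4068733424) (nat_lit 76) (nat_lit 6484290734) (nat_lit 215) (nat_lit 5) (nat_lit 232) (nat_lit 5) (nat_lit 216) (nat_lit 5) (nat_lit 330) (nat_lit 318) (nat_lit 252)))) (XT.nd (nat_lit 78) (nat_lit 1140) (nat_lit 0) (XT.lf (nat_lit 0) (nat_lit 5770072927) (nat_lit 684) (nat_lit 6055262069) (nat_lit 76) (nat_lit 2173814308) (nat_lit 207) (nat_lit 5) (nat_lit 216) (nat_lit 5) (nat_lit 208) (nat_lit 5) (nat_lit 331) (nat_lit 318) (nat_lit 251)) (XT.nd (nat_lit 78) (nat_lit 608) (nat_lit 0) (XT.lf (nat_lit 0) (nat_lit 6277053973) (nat_lit 532) (nat_lit 2445306707) (nat_lit 608) (nat_lit 5650862863) (nat_lit 200) (nat_lit 5) (nat_lit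 207) (nat_lit 5) (nat_lit 208) (nat_lit 5) (nat_lit 332) (nat_lit 318) (nat_lit 250)) (XT.lf (nat_lit 0) (nat_lit 4566618944) (nat_lit 608) (nat_lit 7394469591) (nat_lit 684) (nat_lit 2800771653) (nat_lit 192) (nat_lit 5) (nat_lit 200) (nat_lit 5) (nat_lit 201) (nat_lit 5) (nat_lit 333) (nat_lit 318) (nat_lit 249))))))))
noncomputable def xc81 : XT := (XT.nd (nat_lit 1794) (nat_lit 3800) (nat_lit 0) (XT.nd (nat_lit 858) (nat_lit 3268) (nat_lit 0) (XT.nd (nat_lit 390) (nat_lit 2660) (nat_lit 0) (XT.nd (nat_lit 156) (nat_lit 912) (nat_lit 0) (XT.nd (nat_lit 78) (nat_lit 532) (nat_lit 0) (XT.lf (nat_lit 0) (nat_lit 310959690) (nat_lit 608) (nat_lit 12337742887) (nat_lit 76) (nat_lit 2517506108) (nat_lit 184) (nat_lit 5) (nat_lit 192) (nat_lit 5) (nat_lit 185) (nat_lit 5) (nat_lit 334) (nat_lit 318) (nat_lit 248)) (XT.lf (nat_lit 0) (nat_lit 1005710136) (nat_lit 532) (nat_lit 2668830286) (nat_lit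 608) (nat_lit 11910797327) (nat_lit 177) (nat_lit 5) (nat_lit 184) (nat_lit 5) (nat_lit 185) (nat_lit 5) (nat_lit 335) (nat_lit 318) (nat_lit 247))) (XT.nd (nat_lit 78) (nat_lit 912) (nat_lit 0) (XT.lf (nat_lit 0) (nat_lit 7374355640) (nat_lit 608) (nat_lit 862486113) (nat_lit 76) (nat_lit 7783559530) (nat_lit 177) (nat_lit 5) (nat_lit 185) (nat_lit 5) (nat_lit 178) (nat_lit 5) (nat_lit 336) (nat_lit 318) (nat_lit 246)) (XT.nd (nat_lit 78) (nat_lit 456) (nat_lit 0) (XT.lf (nat_lit 0) (nat_lit 11407309318) (nat_lit 532) (nat_lit 2751229530) (nat_lit 76) (nat_lit 2314253460) (nat_lit 171) (nat_lit 5) (nat_lit 178) (nat_lit 5) (nat_lit 172) (nat_lit 5) (nat_lit 337) (nat_lit 318) (nat_lit 245)) (XT.lf (nat_lit 0) (nat_lit 12223853233) (nat_lit 456) (nat_lit 3595283390) (nat_lit 532) (nat_lit 1123367336) (nat_lit 165) (nat_lit 5) (nat_lit 171) (nat_lit 5) (nat_lit 172) (nat_lit 5) (nat_lit 338)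 (nat_lit 318) (nat_lit 244))))) (XT.nd (nat_lit 234) (nat_lit 1292) (nat_lit 0) (XT.nd (nat_lit 78) (nat_lit 836) (nat_lit 0) (XT.lf (nat_lit 0) (nat_lit 3130687290) (nat_lit 532) (nat_lit 6791666169) (nat_lit 76) (nat_lit 7507284032) (nat_lit 158) (nat_lit 5) (nat_lit 165) (nat_lit 5) (nat_lit 159) (nat_lit 5) (nat_lit 339) (nat_lit 318) (nat_lit 243)) (XT.nd (nat_lit 78) (nat_lit 380) (nat_lit 0) (XT.lf (nat_lit 0) (nat_lit 7728482401) (nat_lit 532) (nat_lit 8936076416) (nat_lit 76) (nat_lit 1271622807) (nat_lit 152) (nat_lit 5) (nat_lit 159) (nat_lit 5) (nat_lit 153) (nat_lit 5) (nat_lit 340) (nat_lit 318) (nat_lit 242)) (XT.lf (nat_lit 0) (nat_lit 7262327219) (nat_lit 380) (nat_lit 5505064830) (nat_lit 456) (nat_lit 5694339144) (nat_lit 147) (nat_lit 5) (nat_lit 152) (nat_lit 5) (nat_lit 153) (nat_lit 5) (nat_lit 341) (nat_lit 318) (nat_lit 241)))) (XT.nd (nat_lit 78) (nat_lit 836) (nat_lit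 0) (XT.lf (nat_lit 0) (nat_lit 5456693137) (nat_lit 456) (nat_lit 12778281118) (nat_lit 532) (nat_lit 773296433) (nat_lit 141) (nat_lit 5) (nat_lit 147) (nat_lit 5) (nat_lit 148) (nat_lit 5) (nat_lit 342) (nat_lit 318) (nat_lit 240)) (XT.nd (nat_lit 78) (nat_lit 380) (nat_lit 0) (XT.lf (nat_lit 0) (nat_lit 3535717935) (nat_lit 380) (nat_lit 950711307) (nat_lit 456) (nat_lit 15089102933) (nat_lit 135) (nat_lit 5) (nat_lit 140) (nat_lit 5) (nat_lit 141) (nat_lit 5) (nat_lit 343) (nat_lit 318) (nat_lit 239)) (XT.lf (nat_lit 0) (nat_lit 1467797787) (nat_lit 380) (nat_lit 8764031542) (nat_lit 456) (nat_lit 9931949840) (nat_lit 130) (nat_lit 5) (nat_lit 135) (nat_lit 5) (nat_lit 136) (nat_lit 5) (nat_lit 344) (nat_lit 318) (nat_lit 238)))))) (XT.nd (nat_lit 468) (nat_lit 1520) (nat_lit 0) (XT.nd (nat_lit 234) (nat_lit 988) (nat_lit 0) (XT.nd (nat_lit 78) (nat_lit 760) (nat_lit 0) (XT.lf (nat_lit 0)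 (nat_lit 16449205593) (nat_lit 456) (nat_lit 670648883) (nat_lit 76) (nat_lit 3656054811) (nat_lit 130) (nat_lit 5) (nat_lit 136) (nat_lit 5) (nat_lit 131) (nat_lit 5) (nat_lit 345) (nat_lit 318) (nat_lit 237)) (XT.nd (nat_lit 78) (nat_lit 380) (nat_lit 0) (XT.lf (nat_lit 0) (nat_lit 1772410165) (nat_lit 380) (nat_lit 2933442547) (nat_lit 76) (nat_lit 16705034031) (nat_lit 125) (nat_lit 5) (nat_lit 130) (nat_lit 5) (nat_lit 126) (nat_lit 5) (nat_lit 346) (nat_lit 318) (nat_lit 236)) (XT.lf (nat_lit 0) (nat_lit 8314098580) (nat_lit 456) (nat_lit 5383602188) (nat_lit 76) (nat_lit 8371824623) (nat_lit 120) (nat_lit 5) (nat_lit 126) (nat_lit 5) (nat_lit 121) (nat_lit 5) (nat_lit 347) (nat_lit 318) (nat_lit 235)))) (XT.nd (nat_lit 78) (nat_lit 684) (nat_lit 0) (XT.lf (nat_lit 0) (nat_lit 14796004820) (nat_lit 304) (nat_lit 583857454) (nat_lit 380) (nat_lit 7375334003) (nat_lit 116) (nat_lit 5) (nat_lit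 120) (nat_lit 5) (nat_lit 121) (nat_lit 5) (nat_lit 348) (nat_lit 318) (nat_lit 234)) (XT.nd (nat_lit 78) (nat_lit 380) (nat_lit 0) (XT.lf (nat_lit 0) (nat_lit 12712412368) (nat_lit 304) (nat_lit 10368906149) (nat_lit 380) (nat_lit 385369610) (nat_lit 112) (nat_lit 5) (nat_lit 116) (nat_lit 5) (nat_lit 117) (nat_lit 5) (nat_lit 349) (nat_lit 318) (nat_lit 233)) (XT.lf (nat_lit 0) (nat_lit 7019242072) (nat_lit 380) (nat_lit 13768322424) (nat_lit 76) (nat_lit 3418168043) (nat_lit 107) (nat_lit 5) (nat_lit 112) (nat_lit 5) (nat_lit 108) (nat_lit 5) (nat_lit 350) (nat_lit 318) (nat_lit 232))))) (XT.nd (nat_lit 234) (nat_lit 608) (nat_lit 0) (XT.nd (nat_lit 78) (nat_lit 608) (nat_lit 0) (XT.lf (nat_lit 0) (nat_lit 7949341391) (nat_lit 304) (nat_lit 7108417735) (nat_lit 380) (nat_lit 9915714644) (nat_lit 103) (nat_lit 5) (nat_lit 107) (nat_lit 5) (nat_lit 108) (nat_lit 5) (nat_lit 351) (nat_lit 318)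 (nat_lit 231)) (XT.nd (nat_lit 78) (nat_lit 380) (nat_lit 0) (XT.lf (nat_lit 0) (nat_lit 5266094479) (nat_lit 228) (nat_lit 18474930609) (nat_lit 304) (nat_lit 2031300296) (nat_lit 100) (nat_lit 5) (nat_lit 103) (nat_lit 5) (nat_lit 104) (nat_lit 5) (nat_lit 352) (nat_lit 318) (nat_lit 230)) (XT.lf (nat_lit 0) (nat_lit 2301797269) (nat_lit 304) (nat_lit 4074307590) (nat_lit 380) (nat_lit 20225700187) (nat_lit 95) (nat_lit 5) (nat_lit 99) (nat_lit 5) (nat_lit 100) (nat_lit 5) (nat_lit 353) (nat_lit 318) (nat_lit 229)))) (XT.nd (nat_lit 78) (nat_lit 608) (nat_lit 0) (XT.lf (nat_lit 0) (nat_lit 15462031853) (nat_lit 380) (nat_lit 946392167) (nat_lit 76) (nat_lit 11054733511) (nat_lit 95) (nat_lit 5) (nat_lit 100) (nat_lit 5) (nat_lit 96) (nat_lit 5) (nat_lit 354) (nat_lit 318) (nat_lit 228)) (XT.nd (nat_lit 78) (nat_lit 380) (nat_lit 0) (XT.lf (nat_lit 0) (nat_lit 23973071395) (nat_lit 228) (nat_lit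 1282087394) (nat_lit 304) (nat_lit 3104838460) (nat_lit 92) (nat_lit 5) (nat_lit 95) (nat_lit 5) (nat_lit 96) (nat_lit 5) (nat_lit 355) (nat_lit 318) (nat_lit 227)) (XT.lf (nat_lit 0) (nat_lit 6452761878) (nat_lit 380) (nat_lit 8254859641) (nat_lit 76) (nat_lit 14582119523) (nat_lit 87) (nat_lit 5) (nat_lit 92) (nat_lit 5) (nat_lit 88) (nat_lit 5) (nat_lit 356) (nat_lit 318) (nat_lit 226))))))) (XT.nd (nat_lit 936) (nat_lit 1520) (nat_lit 0) (XT.nd (nat_lit 468) (nat_lit 1064) (nat_lit 0) (XT.nd (nat_lit 234) (nat_lit 456) (nat_lit 0) (XT.nd (nat_lit 78) (nat_lit 532) (nat_lit 0) (XT.lf (nat_lit 0) (nat_lit 16648329733) (nat_lit 304) (nat_lit 12439798923) (nat_lit 76) (nat_lit 1170198045) (nat_lit 84) (nat_lit 5) (nat_lit 88) (nat_lit 5) (nat_lit 85) (nat_lit 5) (nat_lit 357) (nat_lit 318) (nat_lit 225)) (XT.nd (nat_lit 78) (nat_lit 304) (nat_lit 0) (XT.lf (nat_lit 0) (nat_lit 14195683065) (nat_lit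 228) (nat_lit 13511494385) (nat_lit 304) (nat_lit 3557564785) (nat_lit 81) (nat_lit 5) (nat_lit 84) (nat_lit 5) (nat_lit 85) (nat_lit 5) (nat_lit 358) (nat_lit 318) (nat_lit 224)) (XT.lf (nat_lit 0) (nat_lit 7101735582) (nat_lit 304) (nat_lit 22134253352) (nat_lit 76) (nat_lit 3076253114) (nat_lit 77) (nat_lit 5) (nat_lit 81) (nat_lit 5) (nat_lit 78) (nat_lit 5) (nat_lit 359) (nat_lit 318) (nat_lit 223)))) (XT.nd (nat_lit 78) (nat_lit 228) (nat_lit 0) (XT.lf (nat_lit 0) (nat_lit 5646889881) (nat_lit 228) (nat_lit 12925954673) (nat_lit 304) (nat_lit 14827647972) (nat_lit 74) (nat_lit 5) (nat_lit 77) (nat_lit 5) (nat_lit 78) (nat_lit 5) (nat_lit 360) (nat_lit 318) (nat_lit 222)) (XT.nd (nat_lit 78) (nat_lit 76) (nat_lit 0) (XT.lf (nat_lit 0) (nat_lit 687970505) (nat_lit 152) (nat_lit 30190694628) (nat_lit 228) (nat_lit 3656660435) (nat_lit 72) (nat_lit 5) (nat_lit 74) (nat_lit 5) (nat_lit 75)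 (nat_lit 5) (nat_lit 361) (nat_lit 318) (nat_lit 221)) (XT.lf (nat_lit 0) (nat_lit 8318761000) (nat_lit 228) (nat_lit 4823338794) (nat_lit 76) (nat_lit 22570374335) (nat_lit 71) (nat_lit 5) (nat_lit 74) (nat_lit 5) (nat_lit 72) (nat_lit 5) (nat_lit 362) (nat_lit 318) (nat_lit 220))))) (XT.nd (nat_lit 234) (nat_lit 380) (nat_lit 0) (XT.nd (nat_lit 78) (nat_lit 456) (nat_lit 0) (XT.lf (nat_lit 0) (nat_lit 21102585566) (nat_lit 304) (nat_lit 10889007752) (nat_lit 76) (nat_lit 4947247100) (nat_lit 68) (nat_lit 5) (nat_lit 72) (nat_lit 5) (nat_lit 69) (nat_lit 5) (nat_lit 363) (nat_lit 318) (nat_lit 219)) (XT.nd (nat_lit 78) (nat_lit 304) (nat_lit 0) (XT.lf (nat_lit 0) (nat_lit 20586883240) (nat_lit 152) (nat_lit 14304953966) (nat_lit 228) (nat_lit 3323704705) (nat_lit 66) (nat_lit 5) (nat_lit 68) (nat_lit 5) (nat_lit 69) (nat_lit 5) (nat_lit 364) (nat_lit 318) (nat_lit 218)) (XT.lf (nat_lit 0) (nat_lit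 9905519912) (nat_lit 304) (nat_lit 25115768469) (nat_lit 76) (nat_lit 4523486599) (nat_lit 62) (nat_lit 5) (nat_lit 66) (nat_lit 5) (nat_lit 63) (nat_lit 5) (nat_lit 365) (nat_lit 318) (nat_lit 217)))) (XT.nd (nat_lit 78) (nat_lit 228) (nat_lit 0) (XT.lf (nat_lit 0) (nat_lit 7465507285) (nat_lit 152) (nat_lit 16648246762) (nat_lit 228) (nat_lit 16814143280) (nat_lit 60) (nat_lit 5) (nat_lit 62) (nat_lit 5) (nat_lit 63) (nat_lit 5) (nat_lit 366) (nat_lit 318) (nat_lit 216)) (XT.nd (nat_lit 78) (nat_lit 228) (nat_lit 0) (XT.lf (nat_lit 0) (nat_lit 39305496227) (nat_lit 228) (nat_lit 222701840) (nat_lit 76) (nat_lit 2843788157) (nat_lit 60) (nat_lit 5) (nat_lit 63) (nat_lit 5) (nat_lit 61) (nat_lit 5) (nat_lit 367) (nat_lit 318) (nat_lit 215)) (XT.lf (nat_lit 0) (nat_lit 11644969412) (nat_lit 228) (nat_lit 8812221546) (nat_lit 76) (nat_lit 23412865298) (nat_lit 57) (nat_lit 5) (nat_lit 60) (nat_lit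 5) (nat_lit 58) (nat_lit 5) (nat_lit 368) (nat_lit 318) (nat_lit 214)))))) (XT.nd (nat_lit 468) (nat_lit 608) (nat_lit 0) (XT.nd (nat_lit 234) (nat_lit 380) (nat_lit 0) (XT.nd (nat_lit 78) (nat_lit 380) (nat_lit 0) (XT.lf (nat_lit 0) (nat_lit 27141207199) (nat_lit 152) (nat_lit 138676385) (nat_lit 228) (nat_lit 18154699248) (nat_lit 55) (nat_lit 5) (nat_lit 57) (nat_lit 5) (nat_lit 58) (nat_lit 5) (nat_lit 369) (nat_lit 318) (nat_lit 213)) (XT.nd (nat_lit 78) (nat_lit 228) (nat_lit 0) (XT.lf (nat_lit 0) (nat_lit 18129778081) (nat_lit 152) (nat_lit 26024207185) (nat_lit 228) (nat_lit 2909630006) (nat_lit 53) (nat_lit 5) (nat_lit 55) (nat_lit 5) (nat_lit 56) (nat_lit 5) (nat_lit 370) (nat_lit 318) (nat_lit 212)) (XT.lf (nat_lit 0) (nat_lit 7993910757) (nat_lit 152) (nat_lit 5104691031) (nat_lit 228) (nat_lit 35664028263) (nat_lit 50) (nat_lit 5) (nat_lit 52) (nat_lit 5) (nat_lit 53) (nat_lit 5)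 (nat_lit 371) (nat_lit 318) (nat_lit 211)))) (XT.nd (nat_lit 78) (nat_lit 380) (nat_lit 0) (XT.lf (nat_lit 0) (nat_lit 30298864259) (nat_lit 228) (nat_lit 3379872799) (nat_lit 76) (nat_lit 16853442879) (nat_lit 50) (nat_lit 5) (nat_lit 53) (nat_lit 5) (nat_lit 51) (nat_lit 5) (nat_lit 372) (nat_lit 318) (nat_lit 210)) (XT.nd (nat_lit 78) (nat_lit 228) (nat_lit 0) (XT.lf (nat_lit 0) (nat_lit 36520008176) (nat_lit 152) (nat_lit 12230623090) (nat_lit 228) (nat_lit 3627833648) (nat_lit 48) (nat_lit 5) (nat_lit 50) (nat_lit 5) (nat_lit 51) (nat_lit 5) (nat_lit 373) (nat_lit 318) (nat_lit 209)) (XT.lf (nat_lit 0) (nat_lit 13901059537) (nat_lit 228) (nat_lit 29912890476) (nat_lit 76) (nat_lit 10488257002) (nat_lit 45) (nat_lit 5) (nat_lit 48) (nat_lit 5) (nat_lit 46) (nat_lit 5) (nat_lit 374) (nat_lit 318) (nat_lit 208))))) (XT.nd (nat_lit 234) (nat_lit 304) (nat_lit 0) (XT.nd (nat_lit 78) (nat_lit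 152) (nat_lit 0) (XT.lf (nat_lit 0) (nat_lit 10691719416) (nat_lit 152) (nat_lit 21920845675) (nat_lit 228) (nat_lit 23697059708) (nat_lit 43) (nat_lit 5) (nat_lit 45) (nat_lit 5) (nat_lit 46) (nat_lit 5) (nat_lit 375) (nat_lit 318) (nat_lit 207)) (XT.nd (nat_lit 78) (nat_lit 152) (nat_lit 0) (XT.lf (nat_lit 0) (nat_lit 52570540050) (nat_lit 228) (nat_lit 4488390125) (nat_lit 76) (nat_lit 1349158433) (nat_lit 43) (nat_lit 5) (nat_lit 46) (nat_lit 5) (nat_lit 44) (nat_lit 4) (nat_lit 376) (nat_lit 318) (nat_lit 206)) (XT.lf (nat_lit 0) (nat_lit 13257198784) (nat_lit 152) (nat_lit 21499722187) (nat_lit 76) (nat_lit 25833003734) (nat_lit 41) (nat_lit 5) (nat_lit 43) (nat_lit 5) (nat_lit 42) (nat_lit 5) (nat_lit 377) (nat_lit 318) (nat_lit 205)))) (XT.nd (nat_lit 78) (nat_lit 152) (nat_lit 0) (XT.lf (nat_lit 0) (nat_lit 22422861962) (nat_lit 152) (nat_lit 11016780604) (nat_lit 228) (nat_lit 29431867186)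 (nat_lit 39) (nat_lit 5) (nat_lit 41) (nat_lit 5) (nat_lit 42) (nat_lit 5) (nat_lit 378) (nat_lit 318) (nat_lit 204)) (XT.nd (nat_lit 78) (nat_lit 76) (nat_lit 0) (XT.lf (nat_lit 0) (nat_lit 3648535844) (nat_lit 76) (nat_lit 51365558532) (nat_lit 152) (nat_lit 10241594745) (nat_lit 38) (nat_lit 5) (nat_lit 39) (nat_lit 5) (nat_lit 40) (nat_lit 4) (nat_lit 379) (nat_lit 318) (nat_lit 203)) (XT.lf (nat_lit 0) (nat_lit 10237331485) (nat_lit 152) (nat_lit 17178082062) (nat_lit 76) (nat_lit 40325133585) (nat_lit 37) (nat_lit 5) (nat_lit 39) (nat_lit 5) (nat_lit 38) (nat_lit 5) (nat_lit 380) (nat_lit 318) (nat_lit 202))))))))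
noncomputable def xc82 : XT := (XT.nd (nat_lit 42978) (nat_lit 0) (nat_lit 5396) (XT.nd (nat_lit 42042) (nat_lit 0) (nat_lit 15732) (XT.nd (nat_lit 390) (nat_lit 456) (nat_lit 0) (XT.nd (nat_lit 156) (nat_lit 304) (nat_lit 0) (XT.nd (nat_lit 78) (nat_lit 76) (nat_lit 0) (XT.lf (nat_lit 0) (nat_lit 29937283385) (nat_lit 152) (nat_lit 1872075953) (nat_lit 228) (nat_lit 38528819079) (nat_lit 35) (nat_lit 5) (nat_lit 37) (nat_lit 5) (nat_lit 38) (nat_lit 5) (nat_lit 381) (nat_lit 318) (nat_lit 201)) (XT.lf (nat_lit 0) (nat_lit 6578089984) (nat_lit 76) (nat_lit 48354959030) (nat_lit 152) (nat_lit 18118451818) (nat_lit 34) (nat_lit 5) (nat_lit 35) (nat_lit 5) (nat_lit 36) (nat_lit 4) (nat_lit 382) (nat_lit 318) (nat_lit 200))) (XT.nd (nat_lit 78) (nat_lit 228) (nat_lit 0) (XT.lf (nat_lit 0) (nat_lit 3678303274) (nat_lit 152) (nat_lit 19208005023) (nat_lit 76) (nat_lit 53000311903) (nat_lit 33) (nat_lit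 5) (nat_lit 35) (nat_lit 5) (nat_lit 34) (nat_lit 5) (nat_lit 383) (nat_lit 318) (nat_lit 199)) (XT.nd (nat_lit 78) (nat_lit 76) (nat_lit 0) (XT.lf (nat_lit 0) (nat_lit 26523713400) (nat_lit 228) (nat_lit 48066497060) (nat_lit 76) (nat_lit 4257898534) (nat_lit 31) (nat_lit 5) (nat_lit 34) (nat_lit 5) (nat_lit 32) (nat_lit 4) (nat_lit 384) (nat_lit 318) (nat_lit 198)) (XT.lf (nat_lit 0) (nat_lit 1502282286) (nat_lit 76) (nat_lit 49446420185) (nat_lit 152) (nat_lit 30995851658) (nat_lit 30) (nat_lit 5) (nat_lit 31) (nat_lit 5) (nat_lit 32) (nat_lit 4) (nat_lit 385) (nat_lit 318) (nat_lit 197))))) (XT.nd (nat_lit 234) (nat_lit 228) (nat_lit 0) (XT.nd (nat_lit 78) (nat_lit 228) (nat_lit 0) (XT.lf (nat_lit 0) (nat_lit 54539924793) (nat_lit 76) (nat_lit 22542239138) (nat_lit 152) (nat_lit 8099042005) (nat_lit 30) (nat_lit 5) (nat_lit 31) (nat_lit 5) (nat_lit 32) (nat_lit 4) (nat_lit 386) (nat_lit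 318) (nat_lit 196)) (XT.nd (nat_lit 78) (nat_lit 0) (nat_lit 0) (XT.lf (nat_lit 0) (nat_lit 15893240879) (nat_lit 228) (nat_lit 66716837190) (nat_lit 76) (nat_lit 5957163865) (nat_lit 27) (nat_lit 5) (nat_lit 30) (nat_lit 5) (nat_lit 28) (nat_lit 4) (nat_lit 387) (nat_lit 318) (nat_lit 195)) (XT.lf (nat_lit 0) (nat_lit 41458138779) (nat_lit 228) (nat_lit 14831792719) (nat_lit 76) (nat_lit 35814028505) (nat_lit 27) (nat_lit 5) (nat_lit 30) (nat_lit 5) (nat_lit 28) (nat_lit 4) (nat_lit 388) (nat_lit 318) (nat_lit 194)))) (XT.nd (nat_lit 78) (nat_lit 152) (nat_lit 0) (XT.lf (nat_lit 0) (nat_lit 40423677016) (nat_lit 76) (nat_lit 28259393260) (nat_lit 152) (nat_lit 27122990961) (nat_lit 26) (nat_lit 5) (nat_lit 27) (nat_lit 5) (nat_lit 28) (nat_lit 4) (nat_lit 389) (nat_lit 318) (nat_lit 193)) (XT.nd (nat_lit 78) (nat_lit 152) (nat_lit 0) (XT.lf (nat_lit 0) (nat_lit 97428074810) (nat_lit 152) (nat_lit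 962030034) (nat_lit 0) (nat_lit 1298398775) (nat_lit 26) (nat_lit 5) (nat_lit 28) (nat_lit 4) (nat_lit 26) (nat_lit 4) (nat_lit 390) (nat_lit 318) (nat_lit 192)) (XT.lf (nat_lit 0) (nat_lit 24214912203) (nat_lit 152) (nat_lit 46983215331) (nat_lit 76) (nat_lit 32535016212) (nat_lit 24) (nat_lit 5) (nat_lit 26) (nat_lit 5) (nat_lit 25) (nat_lit 4) (nat_lit 391) (nat_lit 318) (nat_lit 191)))))) (XT.nd (nat_lit 468) (nat_lit 836) (nat_lit 0) (XT.nd (nat_lit 234) (nat_lit 988) (nat_lit 0) (XT.nd (nat_lit 78) (nat_lit 0) (nat_lit 0) (XT.lf (nat_lit 0) (nat_lit 3901248004) (nat_lit 1140) (nat_lit 727624818) (nat_lit 1140) (nat_lit 727624818) (nat_lit 255) (nat_lit 3) (nat_lit 270) (nat_lit 3) (nat_lit 270) (nat_lit 5) (nat_lit 319) (nat_lit 319) (nat_lit 262)) (XT.nd (nat_lit 78) (nat_lit 0) (nat_lit 76) (XT.lf (nat_lit 76) (nat_lit 7153164390) (nat_lit 0) (nat_lit 1876381252) (nat_lit 1140) (nat_lit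 1919649690) (nat_lit 256) (nat_lit 5) (nat_lit 255) (nat_lit 3) (nat_lit 270) (nat_lit 5) (nat_lit 320) (nat_lit 319) (nat_lit 261)) (XT.lf (nat_lit 76) (nat_lit 5032651768) (nat_lit 0) (nat_lit 5343580834) (nat_lit 1140) (nat_lit 819266817) (nat_lit 257) (nat_lit 5) (nat_lit 256) (nat_lit 5) (nat_lit 271) (nat_lit 5) (nat_lit 321) (nat_lit 319) (nat_lit 260)))) (XT.nd (nat_lit 78) (nat_lit 0) (nat_lit 0) (XT.lf (nat_lit 0) (nat_lit 381165115) (nat_lit 1140) (nat_lit 8549068097) (nat_lit 1216) (nat_lit 2522280265) (nat_lit 242) (nat_lit 5) (nat_lit 257) (nat_lit 5) (nat_lit 258) (nat_lit 5) (nat_lit 322) (nat_lit 319) (nat_lit 259)) (XT.nd (nat_lit 78) (nat_lit 0) (nat_lit 76) (XT.lf (nat_lit 76) (nat_lit 747306431) (nat_lit 0) (nat_lit 945758653) (nat_lit 1216) (nat_lit 10027055601) (nat_lit 243) (nat_lit 5) (nat_lit 242) (nat_lit 5) (nat_lit 258) (nat_lit 5) (nat_lit 323) (nat_lit 319) (nat_lit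 258)) (XT.lf (nat_lit 0) (nat_lit 3176548362) (nat_lit 1140) (nat_lit 1420332654) (nat_lit 1216) (nat_lit 7401083301) (nat_lit 243) (nat_lit 5) (nat_lit 258) (nat_lit 5) (nat_lit 259) (nat_lit 5) (nat_lit 324) (nat_lit 319) (nat_lit 257))))) (XT.nd (nat_lit 234) (nat_lit 988) (nat_lit 0) (XT.nd (nat_lit 78) (nat_lit 0) (nat_lit 76) (XT.lf (nat_lit 0) (nat_lit 4813993663) (nat_lit 1140) (nat_lit 3590753275) (nat_lit 1216) (nat_lit 3882593568) (nat_lit 244) (nat_lit 5) (nat_lit 259) (nat_lit 5) (nat_lit 260) (nat_lit 5) (nat_lit 325) (nat_lit 319) (nat_lit 256)) (XT.nd (nat_lit 78) (nat_lit 0) (nat_lit 0) (XT.lf (nat_lit 0) (nat_lit 6612332124) (nat_lit 1140) (nat_lit 5781773418) (nat_lit 1216) (nat_lit 194741730) (nat_lit 245) (nat_lit 5) (nat_lit 260) (nat_lit 5) (nat_lit 261) (nat_lit 5) (nat_lit 326) (nat_lit 319) (nat_lit 255)) (XT.lf (nat_lit 76) (nat_lit 4869193312) (nat_lit 0) (nat_lit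 3753005796) (nat_lit 1216) (nat_lit 4279612768) (nat_lit 246) (nat_lit 5) (nat_lit 245) (nat_lit 5) (nat_lit 261) (nat_lit 5) (nat_lit 327) (nat_lit 319) (nat_lit 254)))) (XT.nd (nat_lit 78) (nat_lit 1140) (nat_lit 0) (XT.lf (nat_lit 76) (nat_lit 2913423584) (nat_lit 0) (nat_lit 7913051723) (nat_lit 1216) (nat_lit 2401161311) (nat_lit 247) (nat_lit 5) (nat_lit 246) (nat_lit 5) (nat_lit 262) (nat_lit 5) (nat_lit 328) (nat_lit 319) (nat_lit 253)) (XT.nd (nat_lit 78) (nat_lit 76) (nat_lit 0) (XT.lf (nat_lit 0) (nat_lit 938962746) (nat_lit 1140) (nat_lit 12300036437) (nat_lit 1216) (nat_lit 327840378) (nat_lit 232) (nat_lit 5) (nat_lit 247) (nat_lit 5) (nat_lit 248) (nat_lit 5) (nat_lit 329) (nat_lit 319) (nat_lit 252)) (XT.lf (nat_lit 0) (nat_lit 1957999147) (nat_lit 1216) (nat_lit 1084934553) (nat_lit 76) (nat_lit 10875213489) (nat_lit 231) (nat_lit 5) (nat_lit 247) (nat_lit 5) (nat_lit 232) (nat_lit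 5) (nat_lit 330) (nat_lit 319) (nat_lit 251))))))) (XT.nd (nat_lit 936) (nat_lit 3952) (nat_lit 0) (XT.nd (nat_lit 468) (nat_lit 2280) (nat_lit 0) (XT.nd (nat_lit 234) (nat_lit 1748) (nat_lit 0) (XT.nd (nat_lit 78) (nat_lit 1140) (nat_lit 0) (XT.lf (nat_lit 0) (nat_lit 4484407224) (nat_lit 1292) (nat_lit 3134550721) (nat_lit 76) (nat_lit 6663997811) (nat_lit 215) (nat_lit 5) (nat_lit 232) (nat_lit 5) (nat_lit 216) (nat_lit 5) (nat_lit 331) (nat_lit 319) (nat_lit 250)) (XT.nd (nat_lit 78) (nat_lit 532) (nat_lit 0) (XT.lf (nat_lit 0) (nat_lit 7253136620) (nat_lit 684) (nat_lit 5215561610) (nat_lit 76) (nat_lit 2193849962) (nat_lit 207) (nat_lit 5) (nat_lit 216) (nat_lit 5) (nat_lit 208) (nat_lit 5) (nat_lit 332) (nat_lit 319) (nat_lit 249)) (XT.lf (nat_lit 0) (nat_lit 7700621745) (nat_lit 532) (nat_lit 2606200463) (nat_lit 608) (nat_lit 4749924801) (nat_lit 200) (nat_lit 5) (nat_lit 207) (nat_lit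 5) (nat_lit 208) (nat_lit 5) (nat_lit 333) (nat_lit 319) (nat_lit 248)))) (XT.nd (nat_lit 78) (nat_lit 1140) (nat_lit 0) (XT.lf (nat_lit 0) (nat_lit 5907346377) (nat_lit 608) (nat_lit 7755796454) (nat_lit 684) (nat_lit 1803035699) (nat_lit 192) (nat_lit 5) (nat_lit 200) (nat_lit 5) (nat_lit 201) (nat_lit 5) (nat_lit 334) (nat_lit 319) (nat_lit 247)) (XT.nd (nat_lit 78) (nat_lit 532) (nat_lit 0) (XT.lf (nat_lit 0) (nat_lit 1399842341) (nat_lit 608) (nat_lit 11819425242) (nat_lit 76) (nat_lit 2672446159) (nat_lit 184) (nat_lit 5) (nat_lit 192) (nat_lit 5) (nat_lit 185) (nat_lit 5) (nat_lit 335) (nat_lit 319) (nat_lit 246)) (XT.lf (nat_lit 0) (nat_lit 2158660014) (nat_lit 532) (nat_lit 2732430405) (nat_lit 608) (nat_lit 11441953016) (nat_lit 177) (nat_lit 5) (nat_lit 184) (nat_lit 5) (nat_lit 185) (nat_lit 5) (nat_lit 336) (nat_lit 319) (nat_lit 245))))) (XT.nd (nat_lit 234) (nat_lit 1368) (nat_lit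 0) (XT.nd (nat_lit 78) (nat_lit 456) (nat_lit 0) (XT.lf (nat_lit 0) (nat_lit 177427267) (nat_lit 456) (nat_lit 8551632013) (nat_lit 532) (nat_lit 8062233433) (nat_lit 171) (nat_lit 5) (nat_lit 177) (nat_lit 5) (nat_lit 178) (nat_lit 5) (nat_lit 337) (nat_lit 319) (nat_lit 244)) (XT.nd (nat_lit 78) (nat_lit 456) (nat_lit 0) (XT.lf (nat_lit 0) (nat_lit 12926136897) (nat_lit 532) (nat_lit 1812185986) (nat_lit 76) (nat_lit 2529132264) (nat_lit 171) (nat_lit 5) (nat_lit 178) (nat_lit 5) (nat_lit 172) (nat_lit 5) (nat_lit 338) (nat_lit 319) (nat_lit 243)) (XT.lf (nat_lit 0) (nat_lit 13880790249) (nat_lit 456) (nat_lit 3642652791) (nat_lit 532) (nat_lit 238287617) (nat_lit 165) (nat_lit 5) (nat_lit 171) (nat_lit 5) (nat_lit 172) (nat_lit 5) (nat_lit 339) (nat_lit 319) (nat_lit 242)))) (XT.nd (nat_lit 78) (nat_lit 836) (nat_lit 0) (XT.lf (nat_lit 0) (nat_lit 4177491875) (nat_lit 532) (nat_lit 6071439953)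 (nat_lit 76) (nat_lit 8025018947) (nat_lit 158) (nat_lit 5) (nat_lit 165) (nat_lit 5) (nat_lit 159) (nat_lit 5) (nat_lit 340) (nat_lit 319) (nat_lit 241)) (XT.nd (nat_lit 78) (nat_lit 380) (nat_lit 0) (XT.lf (nat_lit 0) (nat_lit 8974328521) (nat_lit 532) (nat_lit 8328928313) (nat_lit 76) (nat_lit 1503512656) (nat_lit 152) (nat_lit 5) (nat_lit 159) (nat_lit 5) (nat_lit 153) (nat_lit 5) (nat_lit 341) (nat_lit 319) (nat_lit 240)) (XT.lf (nat_lit 0) (nat_lit 8649184184) (nat_lit 380) (nat_lit 5584915431) (nat_lit 456) (nat_lit 5125450327) (nat_lit 147) (nat_lit 5) (nat_lit 152) (nat_lit 5) (nat_lit 153) (nat_lit 5) (nat_lit 342) (nat_lit 319) (nat_lit 239)))))) (XT.nd (nat_lit 468) (nat_lit 1900) (nat_lit 0) (XT.nd (nat_lit 234) (nat_lit 760) (nat_lit 0) (XT.nd (nat_lit 78) (nat_lit 760) (nat_lit 0) (XT.lf (nat_lit 0) (nat_lit 12657702) (nat_lit 532) (nat_lit 13187754652) (nat_lit 76) (nat_lit 6733856584)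 (nat_lit 140) (nat_lit 5) (nat_lit 147) (nat_lit 5) (nat_lit 141) (nat_lit 5) (nat_lit 343) (nat_lit 319) (nat_lit 238)) (XT.nd (nat_lit 78) (nat_lit 380) (nat_lit 0) (XT.lf (nat_lit 0) (nat_lit 4716472699) (nat_lit 380) (nat_lit 774190358) (nat_lit 456) (nat_lit 15039880550) (nat_lit 135) (nat_lit 5) (nat_lit 140) (nat_lit 5) (nat_lit 141) (nat_lit 5) (nat_lit 344) (nat_lit 319) (nat_lit 237)) (XT.lf (nat_lit 0) (nat_lit 2537369899) (nat_lit 380) (nat_lit 8960451687) (nat_lit 456) (nat_lit 9651164227) (nat_lit 130) (nat_lit 5) (nat_lit 135) (nat_lit 5) (nat_lit 136) (nat_lit 5) (nat_lit 345) (nat_lit 319) (nat_lit 236)))) (XT.nd (nat_lit 78) (nat_lit 456) (nat_lit 0) (XT.lf (nat_lit 0) (nat_lit 269496944) (nat_lit 304) (nat_lit 17725449918) (nat_lit 380) (nat_lit 3797725848) (nat_lit 126) (nat_lit 5) (nat_lit 130) (nat_lit 5) (nat_lit 131) (nat_lit 5) (nat_lit 346) (nat_lit 319) (nat_lit 235))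 (XT.nd (nat_lit 78) (nat_lit 380) (nat_lit 0) (XT.lf (nat_lit 0) (nat_lit 2563641513) (nat_lit 380) (nat_lit 2125163002) (nat_lit 76) (nat_lit 17771239770) (nat_lit 125) (nat_lit 5) (nat_lit 130) (nat_lit 5) (nat_lit 126) (nat_lit 5) (nat_lit 347) (nat_lit 319) (nat_lit 234)) (XT.lf (nat_lit 0) (nat_lit 9410271567) (nat_lit 456) (nat_lit 4706966682) (nat_lit 76) (nat_lit 9035055590) (nat_lit 120) (nat_lit 5) (nat_lit 126) (nat_lit 5) (nat_lit 121) (nat_lit 5) (nat_lit 348) (nat_lit 319) (nat_lit 233))))) (XT.nd (nat_lit 234) (nat_lit 912) (nat_lit 0) (XT.nd (nat_lit 78) (nat_lit 684) (nat_lit 0) (XT.lf (nat_lit 0) (nat_lit 16454509062) (nat_lit 304) (nat_lit 351242287) (nat_lit 380) (nat_lit 7067218071) (nat_lit 116) (nat_lit 5) (nat_lit 120) (nat_lit 5) (nat_lit 121) (nat_lit 5) (nat_lit 349) (nat_lit 319) (nat_lit 232)) (XT.nd (nat_lit 78) (nat_lit 304) (nat_lit 0) (XT.lf (nat_lit 0) (nat_lit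 246576751) (nat_lit 380) (nat_lit 10365699131) (nat_lit 76) (nat_lit 14008305067) (nat_lit 111) (nat_lit 5) (nat_lit 116) (nat_lit 5) (nat_lit 112) (nat_lit 5) (nat_lit 350) (nat_lit 319) (nat_lit 231)) (XT.lf (nat_lit 0) (nat_lit 7994141587) (nat_lit 380) (nat_lit 13544533118) (nat_lit 76) (nat_lit 3858379950) (nat_lit 107) (nat_lit 5) (nat_lit 112) (nat_lit 5) (nat_lit 108) (nat_lit 5) (nat_lit 351) (nat_lit 319) (nat_lit 230)))) (XT.nd (nat_lit 78) (nat_lit 608) (nat_lit 0) (XT.lf (nat_lit 0) (nat_lit 9232865703) (nat_lit 304) (nat_lit 7180524811) (nat_lit 380) (nat_lit 9790439987) (nat_lit 103) (nat_lit 5) (nat_lit 107) (nat_lit 5) (nat_lit 108) (nat_lit 5) (nat_lit 352) (nat_lit 319) (nat_lit 229)) (XT.nd (nat_lit 78) (nat_lit 380) (nat_lit 0) (XT.lf (nat_lit 0) (nat_lit 6405204377) (nat_lit 228) (nat_lit 19107925803) (nat_lit 304) (nat_lit 1530036376) (nat_lit 100) (nat_lit 5) (nat_lit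 103) (nat_lit 5) (nat_lit 104) (nat_lit 5) (nat_lit 353) (nat_lit 319) (nat_lit 228)) (XT.lf (nat_lit 0) (nat_lit 3279224450) (nat_lit 304) (nat_lit 3986894558) (nat_lit 380) (nat_lit 20648433384) (nat_lit 95) (nat_lit 5) (nat_lit 99) (nat_lit 5) (nat_lit 100) (nat_lit 5) (nat_lit 354) (nat_lit 319) (nat_lit 227))))))))
noncomputable def xc83 : XT := (XT.nd (nat_lit 1872) (nat_lit 1140) (nat_lit 0) (XT.nd (nat_lit 936) (nat_lit 1596) (nat_lit 0) (XT.nd (nat_lit 468) (nat_lit 1140) (nat_lit 0) (XT.nd (nat_lit 234) (nat_lit 760) (nat_lit 0) (XT.nd (nat_lit 78) (nat_lit 608) (nat_lit 0) (XT.lf (nat_lit 0) (nat_lit 16781807169) (nat_lit 380) (nat_lit 158586327) (nat_lit 76) (nat_lit 11879324899) (nat_lit 95) (nat_lit 5) (nat_lit 100) (nat_lit 5) (nat_lit 96) (nat_lit 5) (nat_lit 355) (nat_lit 319) (nat_lit 226)) (XT.nd (nat_lit 78) (nat_lit 380) (nat_lit 0) (XT.lf (nat_lit 0) (nat_lit 25982911709)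 (nat_lit 228) (nat_lit 1063444285) (nat_lit 304) (nat_lit 2715600512) (nat_lit 92) (nat_lit 5) (nat_lit 95) (nat_lit 5) (nat_lit 96) (nat_lit 5) (nat_lit 356) (nat_lit 319) (nat_lit 225)) (XT.lf (nat_lit 0) (nat_lit 7294222276) (nat_lit 380) (nat_lit 7856228726) (nat_lit 76) (nat_lit 15588039119) (nat_lit 87) (nat_lit 5) (nat_lit 92) (nat_lit 5) (nat_lit 88) (nat_lit 5) (nat_lit 357) (nat_lit 319) (nat_lit 224)))) (XT.nd (nat_lit 78) (nat_lit 532) (nat_lit 0) (XT.lf (nat_lit 0) (nat_lit 17985191833) (nat_lit 304) (nat_lit 12261210300) (nat_lit 76) (nat_lit 1509542483) (nat_lit 84) (nat_lit 5) (nat_lit 88) (nat_lit 5) (nat_lit 85) (nat_lit 5) (nat_lit 358) (nat_lit 319) (nat_lit 223)) (XT.nd (nat_lit 78) (nat_lit 304) (nat_lit 0) (XT.lf (nat_lit 0) (nat_lit 15683097364) (nat_lit 228) (nat_lit 13897338408) (nat_lit 304) (nat_lit 3232749399) (nat_lit 81) (nat_lit 5) (nat_lit 84) (nat_lit 5) (nat_lit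 85) (nat_lit 5) (nat_lit 359) (nat_lit 319) (nat_lit 222)) (XT.lf (nat_lit 0) (nat_lit 7936360568) (nat_lit 304) (nat_lit 22464272520) (nat_lit 76) (nat_lit 3512689569) (nat_lit 77) (nat_lit 5) (nat_lit 81) (nat_lit 5) (nat_lit 78) (nat_lit 5) (nat_lit 360) (nat_lit 319) (nat_lit 221))))) (XT.nd (nat_lit 234) (nat_lit 684) (nat_lit 0) (XT.nd (nat_lit 78) (nat_lit 228) (nat_lit 0) (XT.lf (nat_lit 0) (nat_lit 6683664110) (nat_lit 228) (nat_lit 13281777765) (nat_lit 304) (nat_lit 15091018199) (nat_lit 74) (nat_lit 5) (nat_lit 77) (nat_lit 5) (nat_lit 78) (nat_lit 5) (nat_lit 361) (nat_lit 319) (nat_lit 220)) (XT.nd (nat_lit 78) (nat_lit 76) (nat_lit 0) (XT.lf (nat_lit 0) (nat_lit 1466115142) (nat_lit 152) (nat_lit 31408153842) (nat_lit 228) (nat_lit 3374140912) (nat_lit 72) (nat_lit 5) (nat_lit 74) (nat_lit 5) (nat_lit 75) (nat_lit 5) (nat_lit 362) (nat_lit 319) (nat_lit 219)) (XT.lf (nat_lit 0)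 (nat_lit 9169243660) (nat_lit 228) (nat_lit 4347405915) (nat_lit 76) (nat_lit 23968290023) (nat_lit 71) (nat_lit 5) (nat_lit 74) (nat_lit 5) (nat_lit 72) (nat_lit 5) (nat_lit 363) (nat_lit 319) (nat_lit 218)))) (XT.nd (nat_lit 78) (nat_lit 456) (nat_lit 0) (XT.lf (nat_lit 0) (nat_lit 22580915513) (nat_lit 304) (nat_lit 10726834369) (nat_lit 76) (nat_lit 5465220443) (nat_lit 68) (nat_lit 5) (nat_lit 72) (nat_lit 5) (nat_lit 69) (nat_lit 5) (nat_lit 364) (nat_lit 319) (nat_lit 217)) (XT.nd (nat_lit 78) (nat_lit 304) (nat_lit 0) (XT.lf (nat_lit 0) (nat_lit 22302595944) (nat_lit 152) (nat_lit 14743479172) (nat_lit 228) (nat_lit 3067843943) (nat_lit 66) (nat_lit 5) (nat_lit 68) (nat_lit 5) (nat_lit 69) (nat_lit 5) (nat_lit 365) (nat_lit 319) (nat_lit 216)) (XT.lf (nat_lit 0) (nat_lit 10804023418) (nat_lit 304) (nat_lit 25687274987) (nat_lit 76) (nat_lit 5018516265) (nat_lit 62) (nat_lit 5) (nat_lit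 66) (nat_lit 5) (nat_lit 63) (nat_lit 5) (nat_lit 366) (nat_lit 319) (nat_lit 215)))))) (XT.nd (nat_lit 468) (nat_lit 684) (nat_lit 0) (XT.nd (nat_lit 234) (nat_lit 532) (nat_lit 0) (XT.nd (nat_lit 78) (nat_lit 228) (nat_lit 0) (XT.lf (nat_lit 0) (nat_lit 8503449752) (nat_lit 152) (nat_lit 17206407385) (nat_lit 228) (nat_lit 17252625230) (nat_lit 60) (nat_lit 5) (nat_lit 62) (nat_lit 5) (nat_lit 63) (nat_lit 5) (nat_lit 367) (nat_lit 319) (nat_lit 214)) (XT.nd (nat_lit 78) (nat_lit 76) (nat_lit 0) (XT.lf (nat_lit 0) (nat_lit 416034400) (nat_lit 152) (nat_lit 41233070732) (nat_lit 228) (nat_lit 2830037653) (nat_lit 58) (nat_lit 5) (nat_lit 60) (nat_lit 5) (nat_lit 61) (nat_lit 5) (nat_lit 368) (nat_lit 319) (nat_lit 213)) (XT.lf (nat_lit 0) (nat_lit 12593395132) (nat_lit 228) (nat_lit 8622101955) (nat_lit 76) (nat_lit 24836990924) (nat_lit 57) (nat_lit 5) (nat_lit 60) (nat_lit 5) (nat_lit 58)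 (nat_lit 5) (nat_lit 369) (nat_lit 319) (nat_lit 212)))) (XT.nd (nat_lit 78) (nat_lit 380) (nat_lit 0) (XT.lf (nat_lit 0) (nat_lit 28999587743) (nat_lit 228) (nat_lit 18585753540) (nat_lit 76) (nat_lit 110217733) (nat_lit 55) (nat_lit 5) (nat_lit 58) (nat_lit 5) (nat_lit 56) (nat_lit 5) (nat_lit 370) (nat_lit 319) (nat_lit 211)) (XT.nd (nat_lit 78) (nat_lit 228) (nat_lit 0) (XT.lf (nat_lit 0) (nat_lit 19639360445) (nat_lit 152) (nat_lit 27068225838) (nat_lit 228) (nat_lit 2698754930) (nat_lit 53) (nat_lit 5) (nat_lit 55) (nat_lit 5) (nat_lit 56) (nat_lit 5) (nat_lit 371) (nat_lit 319) (nat_lit 210)) (XT.lf (nat_lit 0) (nat_lit 8986240013) (nat_lit 152) (nat_lit 5105753171) (nat_lit 228) (nat_lit 37098542621) (nat_lit 50) (nat_lit 5) (nat_lit 52) (nat_lit 5) (nat_lit 53) (nat_lit 5) (nat_lit 372) (nat_lit 319) (nat_lit 209))))) (XT.nd (nat_lit 234) (nat_lit 304) (nat_lit 0) (XT.nd (nat_lit 78)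 (nat_lit 380) (nat_lit 0) (XT.lf (nat_lit 0) (nat_lit 32138478488) (nat_lit 228) (nat_lit 2977041481) (nat_lit 76) (nat_lit 17933460349) (nat_lit 50) (nat_lit 5) (nat_lit 53) (nat_lit 5) (nat_lit 51) (nat_lit 5) (nat_lit 373) (nat_lit 319) (nat_lit 208)) (XT.nd (nat_lit 78) (nat_lit 228) (nat_lit 0) (XT.lf (nat_lit 0) (nat_lit 38901442295) (nat_lit 152) (nat_lit 12601270195) (nat_lit 228) (nat_lit 3485173956) (nat_lit 48) (nat_lit 5) (nat_lit 50) (nat_lit 5) (nat_lit 51) (nat_lit 5) (nat_lit 374) (nat_lit 319) (nat_lit 207)) (XT.lf (nat_lit 0) (nat_lit 14906242903) (nat_lit 228) (nat_lit 30855809976) (nat_lit 76) (nat_lit 11245900266) (nat_lit 45) (nat_lit 5) (nat_lit 48) (nat_lit 5) (nat_lit 46) (nat_lit 5) (nat_lit 375) (nat_lit 319) (nat_lit 206)))) (XT.nd (nat_lit 78) (nat_lit 152) (nat_lit 0) (XT.lf (nat_lit 0) (nat_lit 11763186658) (nat_lit 152) (nat_lit 22780529794) (nat_lit 228) (nat_lit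 24572316456) (nat_lit 43) (nat_lit 5) (nat_lit 45) (nat_lit 5) (nat_lit 46) (nat_lit 5) (nat_lit 376) (nat_lit 319) (nat_lit 205)) (XT.nd (nat_lit 78) (nat_lit 152) (nat_lit 0) (XT.lf (nat_lit 0) (nat_lit 55487443363) (nat_lit 228) (nat_lit 4195016886) (nat_lit 76) (nat_lit 1637326798) (nat_lit 43) (nat_lit 5) (nat_lit 46) (nat_lit 5) (nat_lit 44) (nat_lit 4) (nat_lit 377) (nat_lit 319) (nat_lit 204)) (XT.lf (nat_lit 0) (nat_lit 14202355692) (nat_lit 152) (nat_lit 22066089134) (nat_lit 76) (nat_lit 27342456627) (nat_lit 41) (nat_lit 5) (nat_lit 43) (nat_lit 5) (nat_lit 42) (nat_lit 5) (nat_lit 378) (nat_lit 319) (nat_lit 203))))))) (XT.nd (nat_lit 936) (nat_lit 0) (nat_lit 0) (XT.nd (nat_lit 468) (nat_lit 532) (nat_lit 0) (XT.nd (nat_lit 234) (nat_lit 304) (nat_lit 0) (XT.nd (nat_lit 78) (nat_lit 152) (nat_lit 0) (XT.lf (nat_lit 0) (nat_lit 24038044757) (nat_lit 152) (nat_lit 11347183205) (nat_lit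 228) (nat_lit 30621601009) (nat_lit 39) (nat_lit 5) (nat_lit 41) (nat_lit 5) (nat_lit 42) (nat_lit 5) (nat_lit 379) (nat_lit 319) (nat_lit 202)) (XT.nd (nat_lit 78) (nat_lit 76) (nat_lit 0) (XT.lf (nat_lit 0) (nat_lit 4316802159) (nat_lit 76) (nat_lit 53715259730) (nat_lit 152) (nat_lit 10478347928) (nat_lit 38) (nat_lit 5) (nat_lit 39) (nat_lit 5) (nat_lit 40) (nat_lit 4) (nat_lit 380) (nat_lit 319) (nat_lit 201)) (XT.lf (nat_lit 0) (nat_lit 11006297052) (nat_lit 152) (nat_lit 17569122664) (nat_lit 76) (nat_lit 42544399383) (nat_lit 37) (nat_lit 5) (nat_lit 39) (nat_lit 5) (nat_lit 38) (nat_lit 5) (nat_lit 381) (nat_lit 319) (nat_lit 200)))) (XT.nd (nat_lit 78) (nat_lit 152) (nat_lit 0) (XT.lf (nat_lit 0) (nat_lit 31888599842) (nat_lit 152) (nat_lit 1760452119) (nat_lit 228) (nat_lit 40198518237) (nat_lit 35) (nat_lit 5) (nat_lit 37) (nat_lit 5) (nat_lit 38) (nat_lit 5) (nat_lit 382) (nat_lit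 319) (nat_lit 199)) (XT.nd (nat_lit 78) (nat_lit 76) (nat_lit 0) (XT.lf (nat_lit 0) (nat_lit 7353805425) (nat_lit 76) (nat_lit 50569426708) (nat_lit 152) (nat_lit 18773499345) (nat_lit 34) (nat_lit 5) (nat_lit 35) (nat_lit 5) (nat_lit 36) (nat_lit 4) (nat_lit 383) (nat_lit 319) (nat_lit 198)) (XT.lf (nat_lit 0) (nat_lit 4096484712) (nat_lit 152) (nat_lit 19738173109) (nat_lit 76) (nat_lit 55839229825) (nat_lit 33) (nat_lit 5) (nat_lit 35) (nat_lit 5) (nat_lit 34) (nat_lit 5) (nat_lit 384) (nat_lit 319) (nat_lit 197))))) (XT.nd (nat_lit 234) (nat_lit 304) (nat_lit 0) (XT.nd (nat_lit 78) (nat_lit 76) (nat_lit 0) (XT.lf (nat_lit 0) (nat_lit 28078860729) (nat_lit 228) (nat_lit 50046908364) (nat_lit 76) (nat_lit 4657842618) (nat_lit 31) (nat_lit 5) (nat_lit 34) (nat_lit 5) (nat_lit 32) (nat_lit 4) (nat_lit 385) (nat_lit 319) (nat_lit 196)) (XT.nd (nat_lit 78) (nat_lit 0) (nat_lit 0) (XT.lf (nat_lit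 0) (nat_lit 1988187217) (nat_lit 76) (nat_lit 51729957874) (nat_lit 152) (nat_lit 32316944252) (nat_lit 30) (nat_lit 5) (nat_lit 31) (nat_lit 5) (nat_lit 32) (nat_lit 4) (nat_lit 386) (nat_lit 319) (nat_lit 195)) (XT.lf (nat_lit 0) (nat_lit 57658150382) (nat_lit 76) (nat_lit 23489557456) (nat_lit 152) (nat_lit 8286184591) (nat_lit 30) (nat_lit 5) (nat_lit 31) (nat_lit 5) (nat_lit 32) (nat_lit 4) (nat_lit 387) (nat_lit 319) (nat_lit 194)))) (XT.nd (nat_lit 78) (nat_lit 76) (nat_lit 0) (XT.lf (nat_lit 0) (nat_lit 16896687892) (nat_lit 228) (nat_lit 69663968210) (nat_lit 76) (nat_lit 6428655964) (nat_lit 27) (nat_lit 5) (nat_lit 30) (nat_lit 5) (nat_lit 28) (nat_lit 4) (nat_lit 388) (nat_lit 319) (nat_lit 193)) (XT.nd (nat_lit 78) (nat_lit 76) (nat_lit 0) (XT.lf (nat_lit 0) (nat_lit 43729888545) (nat_lit 228) (nat_lit 15203181555) (nat_lit 76) (nat_lit 37770095554) (nat_lit 27) (nat_lit 5) (nat_lit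 30) (nat_lit 5) (nat_lit 28) (nat_lit 4) (nat_lit 389) (nat_lit 319) (nat_lit 192)) (XT.lf (nat_lit 0) (nat_lit 42804449935) (nat_lit 76) (nat_lit 29505604566) (nat_lit 152) (nat_lit 28280499102) (nat_lit 26) (nat_lit 5) (nat_lit 27) (nat_lit 5) (nat_lit 28) (nat_lit 4) (nat_lit 390) (nat_lit 319) (nat_lit 191)))))) (XT.nd (nat_lit 41730) (nat_lit 0) (nat_lit 15580) (XT.nd (nat_lit 41496) (nat_lit 0) (nat_lit 16340) (XT.nd (nat_lit 41340) (nat_lit 0) (nat_lit 17404) (XT.lf (nat_lit 0) (nat_lit 102484653498) (nat_lit 152) (nat_lit 663658411) (nat_lit 0) (nat_lit 1519037095) (nat_lit 26) (nat_lit 5) (nat_lit 28) (nat_lit 4) (nat_lit 26) (nat_lit 4) (nat_lit 391) (nat_lit 319) (nat_lit 190)) (XT.nd (nat_lit 78) (nat_lit 0) (nat_lit 0) (XT.lf (nat_lit 0) (nat_lit 5044498378) (nat_lit 1140) (nat_lit 275361838) (nat_lit 1140) (nat_lit 275361838) (nat_lit 255) (nat_lit 3) (nat_lit 270) (nat_lit 3)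 (nat_lit 270) (nat_lit 5) (nat_lit 320) (nat_lit 320) (nat_lit 260)) (XT.lf (nat_lit 76) (nat_lit 8460097276) (nat_lit 0) (nat_lit 2836122988) (nat_lit 1140) (nat_lit 144731618) (nat_lit 256) (nat_lit 5) (nat_lit 255) (nat_lit 3) (nat_lit 270) (nat_lit 5) (nat_lit 321) (nat_lit 320) (nat_lit 259)))) (XT.nd (nat_lit 78) (nat_lit 0) (nat_lit 76) (XT.lf (nat_lit 0) (nat_lit 905145597) (nat_lit 1140) (nat_lit 5442511739) (nat_lit 1216) (nat_lit 5354254137) (nat_lit 241) (nat_lit 5) (nat_lit 256) (nat_lit 5) (nat_lit 257) (nat_lit 5) (nat_lit 322) (nat_lit 320) (nat_lit 258)) (XT.nd (nat_lit 78) (nat_lit 0) (nat_lit 0) (XT.lf (nat_lit 0) (nat_lit 2068498620) (nat_lit 1140) (nat_lit 7927638588) (nat_lit 1216) (nat_lit 1977855302) (nat_lit 242) (nat_lit 5) (nat_lit 257) (nat_lit 5) (nat_lit 258) (nat_lit 5) (nat_lit 323) (nat_lit 320) (nat_lit 257)) (XT.lf (nat_lit 76) (nat_lit 1803488648) (nat_lit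 0) (nat_lit 1572856752) (nat_lit 1216) (nat_lit 8880776428) (nat_lit 243) (nat_lit 5) (nat_lit 242) (nat_lit 5) (nat_lit 258) (nat_lit 5) (nat_lit 324) (nat_lit 320) (nat_lit 256))))) (XT.nd (nat_lit 234) (nat_lit 912) (nat_lit 0) (XT.nd (nat_lit 78) (nat_lit 0) (nat_lit 76) (XT.lf (nat_lit 0) (nat_lit 4852569658) (nat_lit 1140) (nat_lit 469068071) (nat_lit 1216) (nat_lit 7229712721) (nat_lit 243) (nat_lit 5) (nat_lit 258) (nat_lit 5) (nat_lit 259) (nat_lit 5) (nat_lit 325) (nat_lit 320) (nat_lit 255)) (XT.nd (nat_lit 78) (nat_lit 0) (nat_lit 0) (XT.lf (nat_lit 0) (nat_lit 6504748652) (nat_lit 1140) (nat_lit 2728293280) (nat_lit 1216) (nat_lit 3624215116) (nat_lit 244) (nat_lit 5) (nat_lit 259) (nat_lit 5) (nat_lit 260) (nat_lit 5) (nat_lit 326) (nat_lit 320) (nat_lit 254)) (XT.lf (nat_lit 76) (nat_lit 8161621387) (nat_lit 0) (nat_lit 170056904) (nat_lit 1216) (nat_lit 4844045814) (nat_lit 245)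 (nat_lit 5) (nat_lit 244) (nat_lit 5) (nat_lit 260) (nat_lit 5) (nat_lit 327) (nat_lit 320) (nat_lit 253)))) (XT.nd (nat_lit 78) (nat_lit 1064) (nat_lit 0) (XT.lf (nat_lit 76) (nat_lit 6140708386) (nat_lit 0) (nat_lit 4243525710) (nat_lit 1216) (nat_lit 3121880012) (nat_lit 246) (nat_lit 5) (nat_lit 245) (nat_lit 5) (nat_lit 261) (nat_lit 5) (nat_lit 328) (nat_lit 320) (nat_lit 252)) (XT.nd (nat_lit 78) (nat_lit 1140) (nat_lit 0) (XT.lf (nat_lit 76) (nat_lit 4100128256) (nat_lit 0) (nat_lit 8542452784) (nat_lit 1216) (nat_lit 1207374318) (nat_lit 247) (nat_lit 5) (nat_lit 246) (nat_lit 5) (nat_lit 262) (nat_lit 5) (nat_lit 329) (nat_lit 320) (nat_lit 251)) (XT.lf (nat_lit 0) (nat_lit 897393674) (nat_lit 1216) (nat_lit 12179308355) (nat_lit 76) (nat_lit 1130773648) (nat_lit 231) (nat_lit 5) (nat_lit 247) (nat_lit 5) (nat_lit 232) (nat_lit 5) (nat_lit 330) (nat_lit 320) (nat_lit 250))))))))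
noncomputable def xc84 : XT := (XT.nd (nat_lit 1794) (nat_lit 4560) (nat_lit 0) (XT.nd (nat_lit 858) (nat_lit 4180) (nat_lit 0) (XT.nd (nat_lit 390) (nat_lit 2584) (nat_lit 0) (XT.nd (nat_lit 156) (nat_lit 1748) (nat_lit 0) (XT.nd (nat_lit 78) (nat_lit 1216) (nat_lit 0) (XT.lf (nat_lit 0) (nat_lit 3232002778) (nat_lit 1216) (nat_lit 113797158) (nat_lit 76) (nat_lit 11232249725) (nat_lit 231) (nat_lit 5) (nat_lit 247) (nat_lit 5) (nat_lit 232) (nat_lit 5) (nat_lit 331) (nat_lit 320) (nat_lit 249)) (XT.lf (nat_lit 0) (nat_lit 5837015379) (nat_lit 1292) (nat_lit 2259423950) (nat_lit 76) (nat_lit 6866125175) (nat_lit 215) (nat_lit 5) (nat_lit 232) (nat_lit 5) (nat_lit 216) (nat_lit 5) (nat_lit 332) (nat_lit 320) (nat_lit 248))) (XT.nd (nat_lit 78) (nat_lit 1140) (nat_lit 0) (XT.lf (nat_lit 0) (nat_lit 8699294626) (nat_lit 684) (nat_lit 4440091562) (nat_lit 76) (nat_lit 2223129706) (nat_lit 207)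 (nat_lit 5) (nat_lit 216) (nat_lit 5) (nat_lit 208) (nat_lit 5) (nat_lit 333) (nat_lit 320) (nat_lit 247)) (XT.nd (nat_lit 78) (nat_lit 608) (nat_lit 0) (XT.lf (nat_lit 0) (nat_lit 9092197117) (nat_lit 532) (nat_lit 2771547603) (nat_lit 608) (nat_lit 3913968701) (nat_lit 200) (nat_lit 5) (nat_lit 207) (nat_lit 5) (nat_lit 208) (nat_lit 5) (nat_lit 334) (nat_lit 320) (nat_lit 246)) (XT.lf (nat_lit 0) (nat_lit 7211690099) (nat_lit 608) (nat_lit 8135970298) (nat_lit 684) (nat_lit 861192440) (nat_lit 192) (nat_lit 5) (nat_lit 200) (nat_lit 5) (nat_lit 201) (nat_lit 5) (nat_lit 335) (nat_lit 320) (nat_lit 245))))) (XT.nd (nat_lit 234) (nat_lit 988) (nat_lit 0) (XT.nd (nat_lit 78) (nat_lit 988) (nat_lit 0) (XT.lf (nat_lit 0) (nat_lit 2443380641) (nat_lit 608) (nat_lit 11380732297) (nat_lit 76) (nat_lit 2832431048) (nat_lit 184) (nat_lit 5) (nat_lit 192) (nat_lit 5) (nat_lit 185) (nat_lit 5) (nat_lit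 336) (nat_lit 320) (nat_lit 244)) (XT.nd (nat_lit 78) (nat_lit 456) (nat_lit 0) (XT.lf (nat_lit 0) (nat_lit 3266742104) (nat_lit 532) (nat_lit 2805703722) (nat_lit 608) (nat_lit 11048622842) (nat_lit 177) (nat_lit 5) (nat_lit 184) (nat_lit 5) (nat_lit 185) (nat_lit 5) (nat_lit 337) (nat_lit 320) (nat_lit 243)) (XT.lf (nat_lit 0) (nat_lit 1184993514) (nat_lit 456) (nat_lit 8882890060) (nat_lit 532) (nat_lit 7535404623) (nat_lit 171) (nat_lit 5) (nat_lit 177) (nat_lit 5) (nat_lit 178) (nat_lit 5) (nat_lit 338) (nat_lit 320) (nat_lit 242)))) (XT.nd (nat_lit 78) (nat_lit 988) (nat_lit 0) (XT.lf (nat_lit 0) (nat_lit 14432726839) (nat_lit 532) (nat_lit 926282794) (nat_lit 76) (nat_lit 2745535482) (nat_lit 171) (nat_lit 5) (nat_lit 178) (nat_lit 5) (nat_lit 172) (nat_lit 5) (nat_lit 339) (nat_lit 320) (nat_lit 241)) (XT.nd (nat_lit 78) (nat_lit 456) (nat_lit 0) (XT.lf (nat_lit 0) (nat_lit 591760566)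 (nat_lit 532) (nat_lit 3106963285) (nat_lit 76) (nat_lit 14925614530) (nat_lit 164) (nat_lit 5) (nat_lit 171) (nat_lit 5) (nat_lit 165) (nat_lit 5) (nat_lit 340) (nat_lit 320) (nat_lit 240)) (XT.lf (nat_lit 0) (nat_lit 5193867803) (nat_lit 532) (nat_lit 5413733470) (nat_lit 76) (nat_lit 8555404329) (nat_lit 158) (nat_lit 5) (nat_lit 165) (nat_lit 5) (nat_lit 159) (nat_lit 5) (nat_lit 341) (nat_lit 320) (nat_lit 239)))))) (XT.nd (nat_lit 468) (nat_lit 1748) (nat_lit 0) (XT.nd (nat_lit 234) (nat_lit 1064) (nat_lit 0) (XT.nd (nat_lit 78) (nat_lit 912) (nat_lit 0) (XT.lf (nat_lit 0) (nat_lit 10202566036) (nat_lit 532) (nat_lit 7789409265) (nat_lit 76) (nat_lit 1731349250) (nat_lit 152) (nat_lit 5) (nat_lit 159) (nat_lit 5) (nat_lit 153) (nat_lit 5) (nat_lit 342) (nat_lit 320) (nat_lit 238)) (XT.nd (nat_lit 78) (nat_lit 532) (nat_lit 0) (XT.lf (nat_lit 0) (nat_lit 10010206299) (nat_lit 380) (nat_lit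 5686925248) (nat_lit 456) (nat_lit 4607477243) (nat_lit 147) (nat_lit 5) (nat_lit 152) (nat_lit 5) (nat_lit 153) (nat_lit 5) (nat_lit 343) (nat_lit 320) (nat_lit 237)) (XT.lf (nat_lit 0) (nat_lit 746873053) (nat_lit 532) (nat_lit 12909639700) (nat_lit 76) (nat_lit 7252111865) (nat_lit 140) (nat_lit 5) (nat_lit 147) (nat_lit 5) (nat_lit 141) (nat_lit 5) (nat_lit 344) (nat_lit 320) (nat_lit 236)))) (XT.nd (nat_lit 78) (nat_lit 684) (nat_lit 0) (XT.lf (nat_lit 0) (nat_lit 5862925692) (nat_lit 380) (nat_lit 609674013) (nat_lit 456) (nat_lit 15062915367) (nat_lit 135) (nat_lit 5) (nat_lit 140) (nat_lit 5) (nat_lit 141) (nat_lit 5) (nat_lit 345) (nat_lit 320) (nat_lit 235)) (XT.nd (nat_lit 78) (nat_lit 304) (nat_lit 0) (XT.lf (nat_lit 0) (nat_lit 3567805036) (nat_lit 380) (nat_lit 9189171384) (nat_lit 456) (nat_lit 9428613046) (nat_lit 130) (nat_lit 5) (nat_lit 135) (nat_lit 5) (nat_lit 136) (nat_lit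 5) (nat_lit 346) (nat_lit 320) (nat_lit 234)) (XT.lf (nat_lit 0) (nat_lit 1178838333) (nat_lit 304) (nat_lit 18378154946) (nat_lit 380) (nat_lit 3305141500) (nat_lit 126) (nat_lit 5) (nat_lit 130) (nat_lit 5) (nat_lit 131) (nat_lit 5) (nat_lit 347) (nat_lit 320) (nat_lit 233))))) (XT.nd (nat_lit 234) (nat_lit 988) (nat_lit 0) (XT.nd (nat_lit 78) (nat_lit 684) (nat_lit 0) (XT.lf (nat_lit 0) (nat_lit 3329112331) (nat_lit 380) (nat_lit 1365251835) (nat_lit 76) (nat_lit 18869283878) (nat_lit 125) (nat_lit 5) (nat_lit 130) (nat_lit 5) (nat_lit 126) (nat_lit 5) (nat_lit 348) (nat_lit 320) (nat_lit 232)) (XT.nd (nat_lit 78) (nat_lit 304) (nat_lit 0) (XT.lf (nat_lit 0) (nat_lit 10497989733) (nat_lit 456) (nat_lit 4084432371) (nat_lit 76) (nat_lit 9708703820) (nat_lit 120) (nat_lit 5) (nat_lit 126) (nat_lit 5) (nat_lit 121) (nat_lit 5) (nat_lit 349) (nat_lit 320) (nat_lit 231)) (XT.lf (nat_lit 0) (nat_lit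 18110526126) (nat_lit 304) (nat_lit 131336792) (nat_lit 380) (nat_lit 6806626474) (nat_lit 116) (nat_lit 5) (nat_lit 120) (nat_lit 5) (nat_lit 121) (nat_lit 5) (nat_lit 350) (nat_lit 320) (nat_lit 230)))) (XT.nd (nat_lit 78) (nat_lit 608) (nat_lit 0) (XT.lf (nat_lit 0) (nat_lit 842414790) (nat_lit 380) (nat_lit 10047339383) (nat_lit 76) (nat_lit 14944115892) (nat_lit 111) (nat_lit 5) (nat_lit 116) (nat_lit 5) (nat_lit 112) (nat_lit 5) (nat_lit 351) (nat_lit 320) (nat_lit 229)) (XT.nd (nat_lit 78) (nat_lit 304) (nat_lit 0) (XT.lf (nat_lit 0) (nat_lit 8959778292) (nat_lit 380) (nat_lit 13394362561) (nat_lit 76) (nat_lit 4295565165) (nat_lit 107) (nat_lit 5) (nat_lit 112) (nat_lit 5) (nat_lit 108) (nat_lit 5) (nat_lit 352) (nat_lit 320) (nat_lit 228)) (XT.lf (nat_lit 0) (nat_lit 10498189026) (nat_lit 304) (nat_lit 7282577074) (nat_lit 380) (nat_lit 9716641906) (nat_lit 103) (nat_lit 5) (nat_lit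 107) (nat_lit 5) (nat_lit 108) (nat_lit 5) (nat_lit 353) (nat_lit 320) (nat_lit 227))))))) (XT.nd (nat_lit 936) (nat_lit 1900) (nat_lit 0) (XT.nd (nat_lit 468) (nat_lit 1216) (nat_lit 0) (XT.nd (nat_lit 234) (nat_lit 608) (nat_lit 0) (XT.nd (nat_lit 78) (nat_lit 608) (nat_lit 0) (XT.lf (nat_lit 0) (nat_lit 7519845707) (nat_lit 228) (nat_lit 19799602061) (nat_lit 304) (nat_lit 1059754581) (nat_lit 100) (nat_lit 5) (nat_lit 103) (nat_lit 5) (nat_lit 104) (nat_lit 5) (nat_lit 354) (nat_lit 320) (nat_lit 226)) (XT.nd (nat_lit 78) (nat_lit 228) (nat_lit 0) (XT.lf (nat_lit 0) (nat_lit 4225351039) (nat_lit 304) (nat_lit 3922177234) (nat_lit 380) (nat_lit 21147021210) (nat_lit 95) (nat_lit 5) (nat_lit 99) (nat_lit 5) (nat_lit 100) (nat_lit 5) (nat_lit 355) (nat_lit 320) (nat_lit 225)) (XT.lf (nat_lit 0) (nat_lit 602729171) (nat_lit 228) (nat_lit 17519811339) (nat_lit 304) (nat_lit 12122936011) (nat_lit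 92) (nat_lit 5) (nat_lit 95) (nat_lit 5) (nat_lit 96) (nat_lit 5) (nat_lit 356) (nat_lit 320) (nat_lit 224)))) (XT.nd (nat_lit 78) (nat_lit 608) (nat_lit 0) (XT.lf (nat_lit 0) (nat_lit 28017827584) (nat_lit 228) (nat_lit 860156200) (nat_lit 304) (nat_lit 2357521244) (nat_lit 92) (nat_lit 5) (nat_lit 95) (nat_lit 5) (nat_lit 96) (nat_lit 5) (nat_lit 357) (nat_lit 320) (nat_lit 223)) (XT.nd (nat_lit 78) (nat_lit 228) (nat_lit 0) (XT.lf (nat_lit 0) (nat_lit 8129520513) (nat_lit 380) (nat_lit 7513100119) (nat_lit 76) (nat_lit 16618519189) (nat_lit 87) (nat_lit 5) (nat_lit 92) (nat_lit 5) (nat_lit 88) (nat_lit 5) (nat_lit 358) (nat_lit 320) (nat_lit 222)) (XT.lf (nat_lit 0) (nat_lit 19341998467) (nat_lit 304) (nat_lit 12148122452) (nat_lit 76) (nat_lit 1839744811) (nat_lit 84) (nat_lit 5) (nat_lit 88) (nat_lit 5) (nat_lit 85) (nat_lit 5) (nat_lit 359) (nat_lit 320) (nat_lit 221))))) (XT.nd (nat_lit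 234) (nat_lit 456) (nat_lit 0) (XT.nd (nat_lit 78) (nat_lit 532) (nat_lit 0) (XT.lf (nat_lit 0) (nat_lit 17172585698) (nat_lit 228) (nat_lit 14329411047) (nat_lit 304) (nat_lit 2938428931) (nat_lit 81) (nat_lit 5) (nat_lit 84) (nat_lit 5) (nat_lit 85) (nat_lit 5) (nat_lit 360) (nat_lit 320) (nat_lit 220)) (XT.nd (nat_lit 78) (nat_lit 228) (nat_lit 0) (XT.lf (nat_lit 0) (nat_lit 8768133885) (nat_lit 304) (nat_lit 22883002247) (nat_lit 76) (nat_lit 3944672166) (nat_lit 77) (nat_lit 5) (nat_lit 81) (nat_lit 5) (nat_lit 78) (nat_lit 5) (nat_lit 361) (nat_lit 320) (nat_lit 219)) (XT.lf (nat_lit 0) (nat_lit 7702137326) (nat_lit 228) (nat_lit 13682397590) (nat_lit 304) (nat_lit 15411997978) (nat_lit 74) (nat_lit 5) (nat_lit 77) (nat_lit 5) (nat_lit 78) (nat_lit 5) (nat_lit 362) (nat_lit 320) (nat_lit 218)))) (XT.nd (nat_lit 78) (nat_lit 304) (nat_lit 0) (XT.lf (nat_lit 0) (nat_lit 2214020547) (nat_lit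 152) (nat_lit 32713640429) (nat_lit 228) (nat_lit 3120759481) (nat_lit 72) (nat_lit 5) (nat_lit 74) (nat_lit 5) (nat_lit 75) (nat_lit 5) (nat_lit 363) (nat_lit 320) (nat_lit 217)) (XT.nd (nat_lit 78) (nat_lit 228) (nat_lit 0) (XT.lf (nat_lit 0) (nat_lit 10021850614) (nat_lit 228) (nat_lit 3914345536) (nat_lit 76) (nat_lit 25411055519) (nat_lit 71) (nat_lit 5) (nat_lit 74) (nat_lit 5) (nat_lit 72) (nat_lit 5) (nat_lit 364) (nat_lit 320) (nat_lit 216)) (XT.lf (nat_lit 0) (nat_lit 24093816770) (nat_lit 304) (nat_lit 10622247498) (nat_lit 76) (nat_lit 5983933608) (nat_lit 68) (nat_lit 5) (nat_lit 72) (nat_lit 5) (nat_lit 69) (nat_lit 5) (nat_lit 365) (nat_lit 320) (nat_lit 215)))))) (XT.nd (nat_lit 468) (nat_lit 912) (nat_lit 0) (XT.nd (nat_lit 234) (nat_lit 380) (nat_lit 0) (XT.nd (nat_lit 78) (nat_lit 456) (nat_lit 0) (XT.lf (nat_lit 0) (nat_lit 24040282241) (nat_lit 152) (nat_lit 15229657674)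 (nat_lit 228) (nat_lit 2838427979) (nat_lit 66) (nat_lit 5) (nat_lit 68) (nat_lit 5) (nat_lit 69) (nat_lit 5) (nat_lit 366) (nat_lit 320) (nat_lit 214)) (XT.nd (nat_lit 78) (nat_lit 152) (nat_lit 0) (XT.lf (nat_lit 0) (nat_lit 11709963827) (nat_lit 304) (nat_lit 26350974877) (nat_lit 76) (nat_lit 5513301794) (nat_lit 62) (nat_lit 5) (nat_lit 66) (nat_lit 5) (nat_lit 63) (nat_lit 5) (nat_lit 367) (nat_lit 320) (nat_lit 213)) (XT.lf (nat_lit 0) (nat_lit 9531494894) (nat_lit 152) (nat_lit 17817973364) (nat_lit 228) (nat_lit 17750426366) (nat_lit 60) (nat_lit 5) (nat_lit 62) (nat_lit 5) (nat_lit 63) (nat_lit 5) (nat_lit 368) (nat_lit 320) (nat_lit 212)))) (XT.nd (nat_lit 78) (nat_lit 228) (nat_lit 0) (XT.lf (nat_lit 0) (nat_lit 1030509722) (nat_lit 152) (nat_lit 43046290224) (nat_lit 228) (nat_lit 2615858683) (nat_lit 58) (nat_lit 5) (nat_lit 60) (nat_lit 5) (nat_lit 61) (nat_lit 5) (nat_lit 369)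 (nat_lit 320) (nat_lit 211)) (XT.nd (nat_lit 78) (nat_lit 152) (nat_lit 0) (XT.lf (nat_lit 0) (nat_lit 13555198448) (nat_lit 228) (nat_lit 8481115743) (nat_lit 76) (nat_lit 26308756443) (nat_lit 57) (nat_lit 5) (nat_lit 60) (nat_lit 5) (nat_lit 58) (nat_lit 5) (nat_lit 370) (nat_lit 320) (nat_lit 210)) (XT.lf (nat_lit 0) (nat_lit 30773476131) (nat_lit 228) (nat_lit 18951874613) (nat_lit 76) (nat_lit 345194887) (nat_lit 55) (nat_lit 5) (nat_lit 58) (nat_lit 5) (nat_lit 56) (nat_lit 5) (nat_lit 371) (nat_lit 320) (nat_lit 209))))) (XT.nd (nat_lit 234) (nat_lit 532) (nat_lit 0) (XT.nd (nat_lit 78) (nat_lit 228) (nat_lit 0) (XT.lf (nat_lit 0) (nat_lit 21168352014) (nat_lit 152) (nat_lit 28188356671) (nat_lit 228) (nat_lit 2510466757) (nat_lit 53) (nat_lit 5) (nat_lit 55) (nat_lit 5) (nat_lit 56) (nat_lit 5) (nat_lit 372) (nat_lit 320) (nat_lit 208)) (XT.nd (nat_lit 78) (nat_lit 0) (nat_lit 0) (XT.lf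 (nat_lit 0) (nat_lit 9973088266) (nat_lit 152) (nat_lit 5130498960) (nat_lit 228) (nat_lit 38637200315) (nat_lit 50) (nat_lit 5) (nat_lit 52) (nat_lit 5) (nat_lit 53) (nat_lit 5) (nat_lit 373) (nat_lit 320) (nat_lit 207)) (XT.lf (nat_lit 0) (nat_lit 34039888595) (nat_lit 228) (nat_lit 2607231462) (nat_lit 76) (nat_lit 19045412574) (nat_lit 50) (nat_lit 5) (nat_lit 53) (nat_lit 5) (nat_lit 51) (nat_lit 5) (nat_lit 374) (nat_lit 320) (nat_lit 206)))) (XT.nd (nat_lit 78) (nat_lit 380) (nat_lit 0) (XT.lf (nat_lit 0) (nat_lit 41350309158) (nat_lit 152) (nat_lit 13012844770) (nat_lit 228) (nat_lit 3365508506) (nat_lit 48) (nat_lit 5) (nat_lit 50) (nat_lit 5) (nat_lit 51) (nat_lit 5) (nat_lit 375) (nat_lit 320) (nat_lit 205)) (XT.nd (nat_lit 78) (nat_lit 152) (nat_lit 0) (XT.lf (nat_lit 0) (nat_lit 15932852454) (nat_lit 228) (nat_lit 31897262585) (nat_lit 76) (nat_lit 12019742140) (nat_lit 45) (nat_lit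 5) (nat_lit 48) (nat_lit 5) (nat_lit 46) (nat_lit 5) (nat_lit 376) (nat_lit 320) (nat_lit 204)) (XT.lf (nat_lit 0) (nat_lit 12838313131) (nat_lit 152) (nat_lit 23705172460) (nat_lit 228) (nat_lit 25520119366) (nat_lit 43) (nat_lit 5) (nat_lit 45) (nat_lit 5) (nat_lit 46) (nat_lit 5) (nat_lit 377) (nat_lit 320) (nat_lit 203))))))))
noncomputable def xc85 : XT := (XT.nd (nat_lit 43212) (nat_lit 0) (nat_lit 5776) (XT.nd (nat_lit 858) (nat_lit 228) (nat_lit 0) (XT.nd (nat_lit 390) (nat_lit 532) (nat_lit 0) (XT.nd (nat_lit 156) (nat_lit 304) (nat_lit 0) (XT.nd (nat_lit 78) (nat_lit 152) (nat_lit 0) (XT.lf (nat_lit 0) (nat_lit 58523381346) (nat_lit 228) (nat_lit 3935114447) (nat_lit 76) (nat_lit 1919384017) (nat_lit 43) (nat_lit 5) (nat_lit 46) (nat_lit 5) (nat_lit 44) (nat_lit 4) (nat_lit 378) (nat_lit 320) (nat_lit 202)) (XT.lf (nat_lit 0) (nat_lit 15168525148) (nat_lit 152) (nat_lit 22708061017)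 (nat_lit 76) (nat_lit 28907132933) (nat_lit 41) (nat_lit 5) (nat_lit 43) (nat_lit 5) (nat_lit 42) (nat_lit 5) (nat_lit 379) (nat_lit 320) (nat_lit 201))) (XT.nd (nat_lit 78) (nat_lit 152) (nat_lit 0) (XT.lf (nat_lit 0) (nat_lit 25688055563) (nat_lit 152) (nat_lit 11714600027) (nat_lit 228) (nat_lit 31897026151) (nat_lit 39) (nat_lit 5) (nat_lit 41) (nat_lit 5) (nat_lit 42) (nat_lit 5) (nat_lit 380) (nat_lit 320) (nat_lit 200)) (XT.nd (nat_lit 78) (nat_lit 76) (nat_lit 0) (XT.lf (nat_lit 0) (nat_lit 4973313035) (nat_lit 76) (nat_lit 56202767181) (nat_lit 152) (nat_lit 10752536023) (nat_lit 38) (nat_lit 5) (nat_lit 39) (nat_lit 5) (nat_lit 40) (nat_lit 4) (nat_lit 381) (nat_lit 320) (nat_lit 199)) (XT.lf (nat_lit 0) (nat_lit 11789808269) (nat_lit 152) (nat_lit 18023212810) (nat_lit 76) (nat_lit 44855754608) (nat_lit 37) (nat_lit 5) (nat_lit 39) (nat_lit 5) (nat_lit 38) (nat_lit 5) (nat_lit 382)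 (nat_lit 320) (nat_lit 198))))) (XT.nd (nat_lit 234) (nat_lit 228) (nat_lit 0) (XT.nd (nat_lit 78) (nat_lit 152) (nat_lit 0) (XT.lf (nat_lit 0) (nat_lit 33895231455) (nat_lit 152) (nat_lit 1662327214) (nat_lit 228) (nat_lit 41975571772) (nat_lit 35) (nat_lit 5) (nat_lit 37) (nat_lit 5) (nat_lit 38) (nat_lit 5) (nat_lit 383) (nat_lit 320) (nat_lit 197)) (XT.nd (nat_lit 78) (nat_lit 76) (nat_lit 0) (XT.lf (nat_lit 0) (nat_lit 8126766392) (nat_lit 76) (nat_lit 52913516842) (nat_lit 152) (nat_lit 19484623234) (nat_lit 34) (nat_lit 5) (nat_lit 35) (nat_lit 5) (nat_lit 36) (nat_lit 4) (nat_lit 384) (nat_lit 320) (nat_lit 196)) (XT.lf (nat_lit 0) (nat_lit 4513795363) (nat_lit 152) (nat_lit 20334848509) (nat_lit 76) (nat_lit 58802531295) (nat_lit 33) (nat_lit 5) (nat_lit 35) (nat_lit 5) (nat_lit 34) (nat_lit 5) (nat_lit 385) (nat_lit 320) (nat_lit 195)))) (XT.nd (nat_lit 78) (nat_lit 76) (nat_lit 0)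 (XT.lf (nat_lit 0) (nat_lit 29690478740) (nat_lit 228) (nat_lit 52165658727) (nat_lit 76) (nat_lit 5060393849) (nat_lit 31) (nat_lit 5) (nat_lit 34) (nat_lit 5) (nat_lit 32) (nat_lit 4) (nat_lit 386) (nat_lit 320) (nat_lit 194)) (XT.nd (nat_lit 78) (nat_lit 0) (nat_lit 0) (XT.lf (nat_lit 0) (nat_lit 2460195958) (nat_lit 76) (nat_lit 54145223730) (nat_lit 152) (nat_lit 33725353832) (nat_lit 30) (nat_lit 5) (nat_lit 31) (nat_lit 5) (nat_lit 32) (nat_lit 4) (nat_lit 387) (nat_lit 320) (nat_lit 193)) (XT.lf (nat_lit 0) (nat_lit 60895914454) (nat_lit 76) (nat_lit 24500957198) (nat_lit 152) (nat_lit 8502934171) (nat_lit 30) (nat_lit 5) (nat_lit 31) (nat_lit 5) (nat_lit 32) (nat_lit 4) (nat_lit 388) (nat_lit 320) (nat_lit 192)))))) (XT.nd (nat_lit 41886) (nat_lit 0) (nat_lit 16340) (XT.nd (nat_lit 41652) (nat_lit 0) (nat_lit 16188) (XT.nd (nat_lit 78) (nat_lit 0) (nat_lit 0) (XT.lf (nat_lit 0) (nat_lit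 17930896408) (nat_lit 228) (nat_lit 72794594431) (nat_lit 76) (nat_lit 6907579833) (nat_lit 27) (nat_lit 5) (nat_lit 30) (nat_lit 5) (nat_lit 28) (nat_lit 4) (nat_lit 389) (nat_lit 320) (nat_lit 191)) (XT.nd (nat_lit 41496) (nat_lit 0) (nat_lit 16188) (XT.lf (nat_lit 0) (nat_lit 46096739278) (nat_lit 228) (nat_lit 15627557595) (nat_lit 76) (nat_lit 39808591828) (nat_lit 27) (nat_lit 5) (nat_lit 30) (nat_lit 5) (nat_lit 28) (nat_lit 4) (nat_lit 390) (nat_lit 320) (nat_lit 190)) (XT.lf (nat_lit 0) (nat_lit 152574148) (nat_lit 0) (nat_lit 152574148) (nat_lit 1140) (nat_lit 5543261239) (nat_lit 240) (nat_lit 5) (nat_lit 240) (nat_lit 3) (nat_lit 255) (nat_lit 3) (nat_lit 321) (nat_lit 321) (nat_lit 258)))) (XT.nd (nat_lit 78) (nat_lit 0) (nat_lit 76) (XT.lf (nat_lit 0) (nat_lit 1514845363) (nat_lit 1140) (nat_lit 2233204196) (nat_lit 1216) (nat_lit 8213979914) (nat_lit 240) (nat_lit 5) (nat_lit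 255) (nat_lit 3) (nat_lit 256) (nat_lit 5) (nat_lit 322) (nat_lit 321) (nat_lit 257)) (XT.nd (nat_lit 78) (nat_lit 0) (nat_lit 76) (XT.lf (nat_lit 0) (nat_lit 2536425160) (nat_lit 1140) (nat_lit 4789277474) (nat_lit 1216) (nat_lit 4912677664) (nat_lit 241) (nat_lit 5) (nat_lit 256) (nat_lit 5) (nat_lit 257) (nat_lit 5) (nat_lit 323) (nat_lit 321) (nat_lit 256)) (XT.lf (nat_lit 0) (nat_lit 3685098380) (nat_lit 1140) (nat_lit 7372652796) (nat_lit 1216) (nat_lit 1468549449) (nat_lit 242) (nat_lit 5) (nat_lit 257) (nat_lit 5) (nat_lit 258) (nat_lit 5) (nat_lit 324) (nat_lit 321) (nat_lit 255))))) (XT.nd (nat_lit 234) (nat_lit 0) (nat_lit 152) (XT.nd (nat_lit 78) (nat_lit 0) (nat_lit 76) (XT.lf (nat_lit 76) (nat_lit 2817760038) (nat_lit 0) (nat_lit 2177404503) (nat_lit 1216) (nat_lit 7830364498) (nat_lit 243) (nat_lit 5) (nat_lit 242) (nat_lit 5) (nat_lit 258) (nat_lit 5) (nat_lit 325) (nat_lit 321)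 (nat_lit 254)) (XT.nd (nat_lit 78) (nat_lit 0) (nat_lit 76) (XT.lf (nat_lit 76) (nat_lit 443369458) (nat_lit 0) (nat_lit 6032230193) (nat_lit 1216) (nat_lit 6661002634) (nat_lit 244) (nat_lit 5) (nat_lit 243) (nat_lit 5) (nat_lit 259) (nat_lit 5) (nat_lit 326) (nat_lit 321) (nat_lit 253)) (XT.lf (nat_lit 0) (nat_lit 8145228992) (nat_lit 1140) (nat_lit 1919585351) (nat_lit 1216) (nat_lit 3394987658) (nat_lit 244) (nat_lit 5) (nat_lit 259) (nat_lit 5) (nat_lit 260) (nat_lit 5) (nat_lit 327) (nat_lit 321) (nat_lit 252)))) (XT.nd (nat_lit 78) (nat_lit 0) (nat_lit 76) (XT.lf (nat_lit 76) (nat_lit 9487733300) (nat_lit 0) (nat_lit 521965873) (nat_lit 1216) (nat_lit 3786148398) (nat_lit 245) (nat_lit 5) (nat_lit 244) (nat_lit 5) (nat_lit 260) (nat_lit 5) (nat_lit 328) (nat_lit 321) (nat_lit 251)) (XT.nd (nat_lit 78) (nat_lit 0) (nat_lit 76) (XT.lf (nat_lit 76) (nat_lit 7380220365) (nat_lit 0) (nat_lit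 4730413673) (nat_lit 1216) (nat_lit 2033789528) (nat_lit 246) (nat_lit 5) (nat_lit 245) (nat_lit 5) (nat_lit 261) (nat_lit 5) (nat_lit 329) (nat_lit 321) (nat_lit 250)) (XT.lf (nat_lit 76) (nat_lit 5249382735) (nat_lit 0) (nat_lit 9181592181) (nat_lit 1216) (nat_lit 76046836) (nat_lit 247) (nat_lit 5) (nat_lit 246) (nat_lit 5) (nat_lit 262) (nat_lit 5) (nat_lit 330) (nat_lit 321) (nat_lit 249))))))) (XT.nd (nat_lit 936) (nat_lit 4180) (nat_lit 0) (XT.nd (nat_lit 468) (nat_lit 2508) (nat_lit 0) (XT.nd (nat_lit 234) (nat_lit 1824) (nat_lit 0) (XT.nd (nat_lit 78) (nat_lit 1216) (nat_lit 0) (XT.lf (nat_lit 0) (nat_lit 2062362095) (nat_lit 1216) (nat_lit 11811717465) (nat_lit 76) (nat_lit 1009479533) (nat_lit 231) (nat_lit 5) (nat_lit 247) (nat_lit 5) (nat_lit 232) (nat_lit 5) (nat_lit 331) (nat_lit 321) (nat_lit 248)) (XT.nd (nat_lit 78) (nat_lit 0) (nat_lit 0) (XT.lf (nat_lit 0) (nat_lit 826698474)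 (nat_lit 1216) (nat_lit 3641611877) (nat_lit 1292) (nat_lit 10805745899) (nat_lit 215) (nat_lit 5) (nat_lit 231) (nat_lit 5) (nat_lit 232) (nat_lit 5) (nat_lit 332) (nat_lit 321) (nat_lit 247)) (XT.lf (nat_lit 0) (nat_lit 7152347140) (nat_lit 1292) (nat_lit 1436472874) (nat_lit 76) (nat_lit 7090544789) (nat_lit 215) (nat_lit 5) (nat_lit 232) (nat_lit 5) (nat_lit 216) (nat_lit 5) (nat_lit 333) (nat_lit 321) (nat_lit 246)))) (XT.nd (nat_lit 78) (nat_lit 1216) (nat_lit 0) (XT.lf (nat_lit 0) (nat_lit 10117026864) (nat_lit 684) (nat_lit 3722188540) (nat_lit 76) (nat_lit 2261349454) (nat_lit 207) (nat_lit 5) (nat_lit 216) (nat_lit 5) (nat_lit 208) (nat_lit 5) (nat_lit 334) (nat_lit 321) (nat_lit 245)) (XT.nd (nat_lit 78) (nat_lit 684) (nat_lit 0) (XT.lf (nat_lit 0) (nat_lit 10459772310) (nat_lit 532) (nat_lit 2941904680) (nat_lit 608) (nat_lit 3136014220) (nat_lit 200) (nat_lit 5) (nat_lit 207) (nat_lit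 5) (nat_lit 208) (nat_lit 5) (nat_lit 335) (nat_lit 321) (nat_lit 244)) (XT.lf (nat_lit 0) (nat_lit 31177373) (nat_lit 684) (nat_lit 8504368691) (nat_lit 76) (nat_lit 8455953741) (nat_lit 191) (nat_lit 5) (nat_lit 200) (nat_lit 5) (nat_lit 192) (nat_lit 5) (nat_lit 336) (nat_lit 321) (nat_lit 243))))) (XT.nd (nat_lit 234) (nat_lit 988) (nat_lit 0) (XT.nd (nat_lit 78) (nat_lit 988) (nat_lit 0) (XT.lf (nat_lit 0) (nat_lit 3448584760) (nat_lit 608) (nat_lit 11015833123) (nat_lit 76) (nat_lit 2997964238) (nat_lit 184) (nat_lit 5) (nat_lit 192) (nat_lit 5) (nat_lit 185) (nat_lit 5) (nat_lit 337) (nat_lit 321) (nat_lit 242)) (XT.nd (nat_lit 78) (nat_lit 456) (nat_lit 0) (XT.lf (nat_lit 0) (nat_lit 4337243917) (nat_lit 532) (nat_lit 2888530219) (nat_lit 608) (nat_lit 10725382487) (nat_lit 177) (nat_lit 5) (nat_lit 184) (nat_lit 5) (nat_lit 185) (nat_lit 5) (nat_lit 338) (nat_lit 321) (nat_lit 241))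 (XT.lf (nat_lit 0) (nat_lit 2150088890) (nat_lit 456) (nat_lit 9239666260) (nat_lit 532) (nat_lit 7068691423) (nat_lit 171) (nat_lit 5) (nat_lit 177) (nat_lit 5) (nat_lit 178) (nat_lit 5) (nat_lit 339) (nat_lit 321) (nat_lit 240)))) (XT.nd (nat_lit 78) (nat_lit 988) (nat_lit 0) (XT.lf (nat_lit 0) (nat_lit 15934665309) (nat_lit 532) (nat_lit 86871319) (nat_lit 76) (nat_lit 2964396478) (nat_lit 171) (nat_lit 5) (nat_lit 178) (nat_lit 5) (nat_lit 172) (nat_lit 5) (nat_lit 340) (nat_lit 321) (nat_lit 239)) (XT.nd (nat_lit 78) (nat_lit 456) (nat_lit 0) (XT.lf (nat_lit 0) (nat_lit 1380605031) (nat_lit 532) (nat_lit 2386466507) (nat_lit 76) (nat_lit 15765308286) (nat_lit 164) (nat_lit 5) (nat_lit 171) (nat_lit 5) (nat_lit 165) (nat_lit 5) (nat_lit 341) (nat_lit 321) (nat_lit 238)) (XT.lf (nat_lit 0) (nat_lit 6185988707) (nat_lit 532) (nat_lit 4812512226) (nat_lit 76) (nat_lit 9100303284) (nat_lit 158)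 (nat_lit 5) (nat_lit 165) (nat_lit 5) (nat_lit 159) (nat_lit 5) (nat_lit 342) (nat_lit 321) (nat_lit 237)))))) (XT.nd (nat_lit 468) (nat_lit 1748) (nat_lit 0) (XT.nd (nat_lit 234) (nat_lit 1064) (nat_lit 0) (XT.nd (nat_lit 78) (nat_lit 912) (nat_lit 0) (XT.lf (nat_lit 0) (nat_lit 11419742944) (nat_lit 532) (nat_lit 7311790872) (nat_lit 76) (nat_lit 1956384703) (nat_lit 152) (nat_lit 5) (nat_lit 159) (nat_lit 5) (nat_lit 153) (nat_lit 5) (nat_lit 343) (nat_lit 321) (nat_lit 236)) (XT.nd (nat_lit 78) (nat_lit 532) (nat_lit 0) (XT.lf (nat_lit 0) (nat_lit 11352950543) (nat_lit 380) (nat_lit 5810513275) (nat_lit 456) (nat_lit 4135587523) (nat_lit 147) (nat_lit 5) (nat_lit 152) (nat_lit 5) (nat_lit 153) (nat_lit 5) (nat_lit 344) (nat_lit 321) (nat_lit 235)) (XT.lf (nat_lit 0) (nat_lit 1449597628) (nat_lit 532) (nat_lit 12704779115) (nat_lit 76) (nat_lit 7779399955) (nat_lit 140) (nat_lit 5) (nat_lit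 147) (nat_lit 5) (nat_lit 141) (nat_lit 5) (nat_lit 345) (nat_lit 321) (nat_lit 234)))) (XT.nd (nat_lit 78) (nat_lit 684) (nat_lit 0) (XT.lf (nat_lit 0) (nat_lit 6982039648) (nat_lit 380) (nat_lit 455825865) (nat_lit 456) (nat_lit 15154873643) (nat_lit 135) (nat_lit 5) (nat_lit 140) (nat_lit 5) (nat_lit 141) (nat_lit 5) (nat_lit 346) (nat_lit 321) (nat_lit 233)) (XT.nd (nat_lit 78) (nat_lit 304) (nat_lit 0) (XT.lf (nat_lit 0) (nat_lit 4565756868) (nat_lit 380) (nat_lit 9449715770) (nat_lit 456) (nat_lit 9260488694) (nat_lit 130) (nat_lit 5) (nat_lit 135) (nat_lit 5) (nat_lit 136) (nat_lit 5) (nat_lit 347) (nat_lit 321) (nat_lit 232)) (XT.lf (nat_lit 0) (nat_lit 2050357611) (nat_lit 304) (nat_lit 19085210114) (nat_lit 380) (nat_lit 2851377587) (nat_lit 126) (nat_lit 5) (nat_lit 130) (nat_lit 5) (nat_lit 131) (nat_lit 5) (nat_lit 348) (nat_lit 321) (nat_lit 231))))) (XT.nd (nat_lit 234) (nat_lit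 988) (nat_lit 0) (XT.nd (nat_lit 78) (nat_lit 684) (nat_lit 0) (XT.lf (nat_lit 0) (nat_lit 4073607624) (nat_lit 380) (nat_lit 647873323) (nat_lit 76) (nat_lit 20002754530) (nat_lit 125) (nat_lit 5) (nat_lit 130) (nat_lit 5) (nat_lit 126) (nat_lit 5) (nat_lit 349) (nat_lit 321) (nat_lit 230)) (XT.nd (nat_lit 78) (nat_lit 304) (nat_lit 0) (XT.lf (nat_lit 0) (nat_lit 11582711974) (nat_lit 456) (nat_lit 3510529142) (nat_lit 76) (nat_lit 10395404727) (nat_lit 120) (nat_lit 5) (nat_lit 126) (nat_lit 5) (nat_lit 121) (nat_lit 5) (nat_lit 350) (nat_lit 321) (nat_lit 229)) (XT.lf (nat_lit 0) (nat_lit 19695130845) (nat_lit 380) (nat_lit 6513343138) (nat_lit 76) (nat_lit 75974449) (nat_lit 116) (nat_lit 5) (nat_lit 121) (nat_lit 5) (nat_lit 117) (nat_lit 5) (nat_lit 351) (nat_lit 321) (nat_lit 228)))) (XT.nd (nat_lit 78) (nat_lit 608) (nat_lit 0) (XT.lf (nat_lit 0) (nat_lit 1413795578) (nat_lit 380) (nat_lit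 9790844941) (nat_lit 76) (nat_lit 15904832409) (nat_lit 111) (nat_lit 5) (nat_lit 116) (nat_lit 5) (nat_lit 112) (nat_lit 5) (nat_lit 352) (nat_lit 321) (nat_lit 227)) (XT.nd (nat_lit 78) (nat_lit 304) (nat_lit 0) (XT.lf (nat_lit 0) (nat_lit 9921082059) (nat_lit 380) (nat_lit 13313607027) (nat_lit 76) (nat_lit 4731900083) (nat_lit 107) (nat_lit 5) (nat_lit 112) (nat_lit 5) (nat_lit 108) (nat_lit 5) (nat_lit 353) (nat_lit 321) (nat_lit 226)) (XT.lf (nat_lit 0) (nat_lit 11752059963) (nat_lit 304) (nat_lit 7413622954) (nat_lit 380) (nat_lit 9691526082) (nat_lit 103) (nat_lit 5) (nat_lit 107) (nat_lit 5) (nat_lit 108) (nat_lit 5) (nat_lit 354) (nat_lit 321) (nat_lit 225))))))))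
noncomputable def xc86 : XT := (XT.nd (nat_lit 1794) (nat_lit 1368) (nat_lit 0) (XT.nd (nat_lit 858) (nat_lit 1976) (nat_lit 0) (XT.nd (nat_lit 390) (nat_lit 1216) (nat_lit 0) (XT.nd (nat_lit 156) (nat_lit 608) (nat_lit 0) (XT.nd (nat_lit 78) (nat_lit 380) (nat_lit 0) (XT.lf (nat_lit 0) (nat_lit 8616365077) (nat_lit 228) (nat_lit 20550380320) (nat_lit 304) (nat_lit 616793453) (nat_lit 100) (nat_lit 5) (nat_lit 103) (nat_lit 5) (nat_lit 104) (nat_lit 5) (nat_lit 355) (nat_lit 321) (nat_lit 224)) (XT.lf (nat_lit 0) (nat_lit 5146065636) (nat_lit 304) (nat_lit 3878774031) (nat_lit 380) (nat_lit 21720169237) (nat_lit 95) (nat_lit 5) (nat_lit 99) (nat_lit 5) (nat_lit 100) (nat_lit 5) (nat_lit 356) (nat_lit 321) (nat_lit 223))) (XT.nd (nat_lit 78) (nat_lit 380) (nat_lit 0) (XT.lf (nat_lit 0) (nat_lit 1333599239) (nat_lit 228) (nat_lit 18151554003) (nat_lit 304) (nat_lit 12258740628) (nat_lit 92) (nat_lit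 5) (nat_lit 95) (nat_lit 5) (nat_lit 96) (nat_lit 5) (nat_lit 357) (nat_lit 321) (nat_lit 222)) (XT.nd (nat_lit 78) (nat_lit 380) (nat_lit 0) (XT.lf (nat_lit 0) (nat_lit 30086084305) (nat_lit 228) (nat_lit 670546959) (nat_lit 304) (nat_lit 2027452368) (nat_lit 92) (nat_lit 5) (nat_lit 95) (nat_lit 5) (nat_lit 96) (nat_lit 5) (nat_lit 358) (nat_lit 321) (nat_lit 221)) (XT.lf (nat_lit 0) (nat_lit 8962832933) (nat_lit 380) (nat_lit 7221235811) (nat_lit 76) (nat_lit 17677180399) (nat_lit 87) (nat_lit 5) (nat_lit 92) (nat_lit 5) (nat_lit 88) (nat_lit 5) (nat_lit 359) (nat_lit 321) (nat_lit 220))))) (XT.nd (nat_lit 234) (nat_lit 456) (nat_lit 0) (XT.nd (nat_lit 78) (nat_lit 532) (nat_lit 0) (XT.lf (nat_lit 0) (nat_lit 20724107044) (nat_lit 304) (nat_lit 12096890604) (nat_lit 76) (nat_lit 2162775319) (nat_lit 84) (nat_lit 5) (nat_lit 88) (nat_lit 5) (nat_lit 85) (nat_lit 5) (nat_lit 360) (nat_lit 321)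 (nat_lit 219)) (XT.nd (nat_lit 78) (nat_lit 304) (nat_lit 0) (XT.lf (nat_lit 0) (nat_lit 18670973229) (nat_lit 228) (nat_lit 14807519439) (nat_lit 304) (nat_lit 2671783088) (nat_lit 81) (nat_lit 5) (nat_lit 84) (nat_lit 5) (nat_lit 85) (nat_lit 5) (nat_lit 361) (nat_lit 321) (nat_lit 218)) (XT.lf (nat_lit 0) (nat_lit 9601057849) (nat_lit 304) (nat_lit 23388164696) (nat_lit 76) (nat_lit 4374421074) (nat_lit 77) (nat_lit 5) (nat_lit 81) (nat_lit 5) (nat_lit 78) (nat_lit 5) (nat_lit 362) (nat_lit 321) (nat_lit 217)))) (XT.nd (nat_lit 78) (nat_lit 228) (nat_lit 0) (XT.lf (nat_lit 0) (nat_lit 8707915403) (nat_lit 228) (nat_lit 14127543263) (nat_lit 304) (nat_lit 15789336080) (nat_lit 74) (nat_lit 5) (nat_lit 77) (nat_lit 5) (nat_lit 78) (nat_lit 5) (nat_lit 363) (nat_lit 321) (nat_lit 216)) (XT.nd (nat_lit 78) (nat_lit 76) (nat_lit 0) (XT.lf (nat_lit 0) (nat_lit 2936603342) (nat_lit 152) (nat_lit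 34109031199) (nat_lit 228) (nat_lit 2893950765) (nat_lit 72) (nat_lit 5) (nat_lit 74) (nat_lit 5) (nat_lit 75) (nat_lit 5) (nat_lit 364) (nat_lit 321) (nat_lit 215)) (XT.lf (nat_lit 0) (nat_lit 10880444071) (nat_lit 228) (nat_lit 3520103017) (nat_lit 76) (nat_lit 26903241850) (nat_lit 71) (nat_lit 5) (nat_lit 74) (nat_lit 5) (nat_lit 72) (nat_lit 5) (nat_lit 365) (nat_lit 321) (nat_lit 214)))))) (XT.nd (nat_lit 468) (nat_lit 912) (nat_lit 0) (XT.nd (nat_lit 234) (nat_lit 380) (nat_lit 0) (XT.nd (nat_lit 78) (nat_lit 456) (nat_lit 0) (XT.lf (nat_lit 0) (nat_lit 25646675846) (nat_lit 304) (nat_lit 10572018748) (nat_lit 76) (nat_lit 6505762617) (nat_lit 68) (nat_lit 5) (nat_lit 72) (nat_lit 5) (nat_lit 69) (nat_lit 5) (nat_lit 366) (nat_lit 321) (nat_lit 213)) (XT.nd (nat_lit 78) (nat_lit 304) (nat_lit 0) (XT.lf (nat_lit 0) (nat_lit 25806973451) (nat_lit 152) (nat_lit 15763480279) (nat_lit 228)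 (nat_lit 2633131092) (nat_lit 66) (nat_lit 5) (nat_lit 68) (nat_lit 5) (nat_lit 69) (nat_lit 5) (nat_lit 367) (nat_lit 321) (nat_lit 212)) (XT.lf (nat_lit 0) (nat_lit 12627198289) (nat_lit 304) (nat_lit 27105563204) (nat_lit 76) (nat_lit 6010154835) (nat_lit 62) (nat_lit 5) (nat_lit 66) (nat_lit 5) (nat_lit 63) (nat_lit 5) (nat_lit 368) (nat_lit 321) (nat_lit 211)))) (XT.nd (nat_lit 78) (nat_lit 228) (nat_lit 0) (XT.lf (nat_lit 0) (nat_lit 10554892908) (nat_lit 152) (nat_lit 18483244467) (nat_lit 228) (nat_lit 18307036005) (nat_lit 60) (nat_lit 5) (nat_lit 62) (nat_lit 5) (nat_lit 63) (nat_lit 5) (nat_lit 369) (nat_lit 321) (nat_lit 210)) (XT.nd (nat_lit 78) (nat_lit 76) (nat_lit 0) (XT.lf (nat_lit 0) (nat_lit 1620514666) (nat_lit 152) (nat_lit 44973267733) (nat_lit 228) (nat_lit 2424038599) (nat_lit 58) (nat_lit 5) (nat_lit 60) (nat_lit 5) (nat_lit 61) (nat_lit 5) (nat_lit 370) (nat_lit 321)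 (nat_lit 209)) (XT.lf (nat_lit 0) (nat_lit 14534213300) (nat_lit 228) (nat_lit 8386267848) (nat_lit 76) (nat_lit 27832734831) (nat_lit 57) (nat_lit 5) (nat_lit 60) (nat_lit 5) (nat_lit 58) (nat_lit 5) (nat_lit 371) (nat_lit 321) (nat_lit 208))))) (XT.nd (nat_lit 234) (nat_lit 380) (nat_lit 0) (XT.nd (nat_lit 78) (nat_lit 380) (nat_lit 0) (XT.lf (nat_lit 0) (nat_lit 32605944950) (nat_lit 228) (nat_lit 19388659633) (nat_lit 76) (nat_lit 570587300) (nat_lit 55) (nat_lit 5) (nat_lit 58) (nat_lit 5) (nat_lit 56) (nat_lit 5) (nat_lit 372) (nat_lit 321) (nat_lit 207)) (XT.nd (nat_lit 78) (nat_lit 228) (nat_lit 0) (XT.lf (nat_lit 0) (nat_lit 22722936096) (nat_lit 152) (nat_lit 29386182252) (nat_lit 228) (nat_lit 2342814657) (nat_lit 53) (nat_lit 5) (nat_lit 55) (nat_lit 5) (nat_lit 56) (nat_lit 5) (nat_lit 373) (nat_lit 321) (nat_lit 206)) (XT.lf (nat_lit 0) (nat_lit 10959303906) (nat_lit 152) (nat_lit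 5177915636) (nat_lit 228) (nat_lit 40282194628) (nat_lit 50) (nat_lit 5) (nat_lit 52) (nat_lit 5) (nat_lit 53) (nat_lit 5) (nat_lit 374) (nat_lit 321) (nat_lit 205)))) (XT.nd (nat_lit 78) (nat_lit 380) (nat_lit 0) (XT.lf (nat_lit 0) (nat_lit 36008990674) (nat_lit 228) (nat_lit 2267151228) (nat_lit 76) (nat_lit 20192947790) (nat_lit 50) (nat_lit 5) (nat_lit 53) (nat_lit 5) (nat_lit 51) (nat_lit 5) (nat_lit 375) (nat_lit 321) (nat_lit 204)) (XT.nd (nat_lit 78) (nat_lit 228) (nat_lit 0) (XT.lf (nat_lit 0) (nat_lit 43874781304) (nat_lit 152) (nat_lit 13465311105) (nat_lit 228) (nat_lit 3267186064) (nat_lit 48) (nat_lit 5) (nat_lit 50) (nat_lit 5) (nat_lit 51) (nat_lit 5) (nat_lit 376) (nat_lit 321) (nat_lit 203)) (XT.lf (nat_lit 0) (nat_lit 16984640116) (nat_lit 228) (nat_lit 33037397470) (nat_lit 76) (nat_lit 12812608485) (nat_lit 45) (nat_lit 5) (nat_lit 48) (nat_lit 5) (nat_lit 46) (nat_lit 5)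 (nat_lit 377) (nat_lit 321) (nat_lit 202))))))) (XT.nd (nat_lit 936) (nat_lit 228) (nat_lit 0) (XT.nd (nat_lit 468) (nat_lit 532) (nat_lit 0) (XT.nd (nat_lit 234) (nat_lit 304) (nat_lit 0) (XT.nd (nat_lit 78) (nat_lit 152) (nat_lit 0) (XT.lf (nat_lit 0) (nat_lit 13921922339) (nat_lit 152) (nat_lit 24695978636) (nat_lit 228) (nat_lit 26541419744) (nat_lit 43) (nat_lit 5) (nat_lit 45) (nat_lit 5) (nat_lit 46) (nat_lit 5) (nat_lit 378) (nat_lit 321) (nat_lit 201)) (XT.nd (nat_lit 78) (nat_lit 152) (nat_lit 0) (XT.lf (nat_lit 0) (nat_lit 61686798318) (nat_lit 228) (nat_lit 3705880796) (nat_lit 76) (nat_lit 2196932246) (nat_lit 43) (nat_lit 5) (nat_lit 46) (nat_lit 5) (nat_lit 44) (nat_lit 4) (nat_lit 379) (nat_lit 321) (nat_lit 200)) (XT.lf (nat_lit 0) (nat_lit 16159197820) (nat_lit 152) (nat_lit 23425021824) (nat_lit 76) (nat_lit 30531676404) (nat_lit 41) (nat_lit 5) (nat_lit 43) (nat_lit 5) (nat_lit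 42) (nat_lit 5) (nat_lit 380) (nat_lit 321) (nat_lit 199)))) (XT.nd (nat_lit 78) (nat_lit 152) (nat_lit 0) (XT.lf (nat_lit 0) (nat_lit 27378906022) (nat_lit 152) (nat_lit 12118976432) (nat_lit 228) (nat_lit 33259990921) (nat_lit 39) (nat_lit 5) (nat_lit 41) (nat_lit 5) (nat_lit 42) (nat_lit 5) (nat_lit 381) (nat_lit 321) (nat_lit 198)) (XT.nd (nat_lit 78) (nat_lit 76) (nat_lit 0) (XT.lf (nat_lit 0) (nat_lit 5621680065) (nat_lit 76) (nat_lit 58833081924) (nat_lit 152) (nat_lit 11063650987) (nat_lit 38) (nat_lit 5) (nat_lit 39) (nat_lit 5) (nat_lit 40) (nat_lit 4) (nat_lit 382) (nat_lit 321) (nat_lit 197)) (XT.lf (nat_lit 0) (nat_lit 12590814659) (nat_lit 152) (nat_lit 18539460991) (nat_lit 76) (nat_lit 47265558443) (nat_lit 37) (nat_lit 5) (nat_lit 39) (nat_lit 5) (nat_lit 38) (nat_lit 5) (nat_lit 383) (nat_lit 321) (nat_lit 196))))) (XT.nd (nat_lit 234) (nat_lit 228) (nat_lit 0) (XT.nd (nat_lit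 78) (nat_lit 152) (nat_lit 0) (XT.lf (nat_lit 0) (nat_lit 35963872050) (nat_lit 152) (nat_lit 1576602295) (nat_lit 228) (nat_lit 43863128250) (nat_lit 35) (nat_lit 5) (nat_lit 37) (nat_lit 5) (nat_lit 38) (nat_lit 5) (nat_lit 384) (nat_lit 321) (nat_lit 195)) (XT.nd (nat_lit 78) (nat_lit 76) (nat_lit 0) (XT.lf (nat_lit 0) (nat_lit 8900697179) (nat_lit 76) (nat_lit 55391953500) (nat_lit 152) (nat_lit 20252458860) (nat_lit 34) (nat_lit 5) (nat_lit 35) (nat_lit 5) (nat_lit 36) (nat_lit 4) (nat_lit 385) (nat_lit 321) (nat_lit 194)) (XT.lf (nat_lit 0) (nat_lit 4932216575) (nat_lit 152) (nat_lit 20997637867) (nat_lit 76) (nat_lit 61898068271) (nat_lit 33) (nat_lit 5) (nat_lit 35) (nat_lit 5) (nat_lit 34) (nat_lit 5) (nat_lit 386) (nat_lit 321) (nat_lit 193)))) (XT.nd (nat_lit 78) (nat_lit 76) (nat_lit 0) (XT.lf (nat_lit 0) (nat_lit 31363370000) (nat_lit 228) (nat_lit 54426009640) (nat_lit 76) (nat_lit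 5467299346) (nat_lit 31) (nat_lit 5) (nat_lit 34) (nat_lit 5) (nat_lit 32) (nat_lit 4) (nat_lit 387) (nat_lit 321) (nat_lit 192)) (XT.nd (nat_lit 78) (nat_lit 0) (nat_lit 0) (XT.lf (nat_lit 0) (nat_lit 2921164377) (nat_lit 76) (nat_lit 56697172411) (nat_lit 152) (nat_lit 35223469476) (nat_lit 30) (nat_lit 5) (nat_lit 31) (nat_lit 5) (nat_lit 32) (nat_lit 4) (nat_lit 388) (nat_lit 321) (nat_lit 191)) (XT.lf (nat_lit 0) (nat_lit 64262575530) (nat_lit 76) (nat_lit 25578088386) (nat_lit 152) (nat_lit 8748888453) (nat_lit 30) (nat_lit 5) (nat_lit 31) (nat_lit 5) (nat_lit 32) (nat_lit 4) (nat_lit 389) (nat_lit 321) (nat_lit 190)))))) (XT.nd (nat_lit 41964) (nat_lit 0) (nat_lit 15428) (XT.nd (nat_lit 41730) (nat_lit 0) (nat_lit 16264) (XT.nd (nat_lit 41574) (nat_lit 0) (nat_lit 16188) (XT.lf (nat_lit 0) (nat_lit 18999209139) (nat_lit 228) (nat_lit 76114530783) (nat_lit 76) (nat_lit 7395807868) (nat_lit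 27) (nat_lit 5) (nat_lit 30) (nat_lit 5) (nat_lit 28) (nat_lit 4) (nat_lit 390) (nat_lit 321) (nat_lit 189)) (XT.nd (nat_lit 78) (nat_lit 0) (nat_lit 0) (XT.lf (nat_lit 0) (nat_lit 558270403) (nat_lit 0) (nat_lit 558270403) (nat_lit 1140) (nat_lit 4999882113) (nat_lit 240) (nat_lit 5) (nat_lit 240) (nat_lit 3) (nat_lit 255) (nat_lit 3) (nat_lit 322) (nat_lit 322) (nat_lit 256)) (XT.lf (nat_lit 0) (nat_lit 3099746920) (nat_lit 1140) (nat_lit 1532862294) (nat_lit 1216) (nat_lit 7881250689) (nat_lit 240) (nat_lit 5) (nat_lit 255) (nat_lit 3) (nat_lit 256) (nat_lit 5) (nat_lit 323) (nat_lit 322) (nat_lit 255)))) (XT.nd (nat_lit 78) (nat_lit 0) (nat_lit 76) (XT.lf (nat_lit 0) (nat_lit 4101815383) (nat_lit 1140) (nat_lit 4189412684) (nat_lit 1216) (nat_lit 4514965353) (nat_lit 241) (nat_lit 5) (nat_lit 256) (nat_lit 5) (nat_lit 257) (nat_lit 5) (nat_lit 324) (nat_lit 322) (nat_lit 254)) (XT.nd (nat_lit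 78) (nat_lit 0) (nat_lit 0) (XT.lf (nat_lit 0) (nat_lit 5241847475) (nat_lit 1140) (nat_lit 6878366867) (nat_lit 1216) (nat_lit 990322846) (nat_lit 242) (nat_lit 5) (nat_lit 257) (nat_lit 5) (nat_lit 258) (nat_lit 5) (nat_lit 325) (nat_lit 322) (nat_lit 253)) (XT.lf (nat_lit 76) (nat_lit 3796831221) (nat_lit 0) (nat_lit 2763285986) (nat_lit 1216) (nat_lit 6866371838) (nat_lit 243) (nat_lit 5) (nat_lit 242) (nat_lit 5) (nat_lit 258) (nat_lit 5) (nat_lit 326) (nat_lit 322) (nat_lit 252))))) (XT.nd (nat_lit 234) (nat_lit 988) (nat_lit 0) (XT.nd (nat_lit 78) (nat_lit 0) (nat_lit 76) (XT.lf (nat_lit 76) (nat_lit 1323309429) (nat_lit 0) (nat_lit 6732514787) (nat_lit 1216) (nat_lit 5699095215) (nat_lit 244) (nat_lit 5) (nat_lit 243) (nat_lit 5) (nat_lit 259) (nat_lit 5) (nat_lit 327) (nat_lit 322) (nat_lit 251)) (XT.nd (nat_lit 78) (nat_lit 0) (nat_lit 0) (XT.lf (nat_lit 0) (nat_lit 9745454530) (nat_lit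 1140) (nat_lit 1158310566) (nat_lit 1216) (nat_lit 3192457482) (nat_lit 244) (nat_lit 5) (nat_lit 259) (nat_lit 5) (nat_lit 260) (nat_lit 5) (nat_lit 328) (nat_lit 322) (nat_lit 250)) (XT.lf (nat_lit 76) (nat_lit 10794801003) (nat_lit 0) (nat_lit 859543643) (nat_lit 1216) (nat_lit 2796227059) (nat_lit 245) (nat_lit 5) (nat_lit 244) (nat_lit 5) (nat_lit 260) (nat_lit 5) (nat_lit 329) (nat_lit 322) (nat_lit 249)))) (XT.nd (nat_lit 78) (nat_lit 1140) (nat_lit 0) (XT.lf (nat_lit 76) (nat_lit 8595015111) (nat_lit 0) (nat_lit 5216105946) (nat_lit 1216) (nat_lit 1006966999) (nat_lit 246) (nat_lit 5) (nat_lit 245) (nat_lit 5) (nat_lit 261) (nat_lit 5) (nat_lit 330) (nat_lit 322) (nat_lit 248)) (XT.nd (nat_lit 78) (nat_lit 0) (nat_lit 76) (XT.lf (nat_lit 0) (nat_lit 981520225) (nat_lit 1216) (nat_lit 8841545585) (nat_lit 1292) (nat_lit 5376881048) (nat_lit 230) (nat_lit 5) (nat_lit 246) (nat_lit 5) (nat_lit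 247) (nat_lit 5) (nat_lit 331) (nat_lit 322) (nat_lit 247)) (XT.lf (nat_lit 0) (nat_lit 3181442774) (nat_lit 1216) (nat_lit 11516537981) (nat_lit 76) (nat_lit 898653919) (nat_lit 231) (nat_lit 5) (nat_lit 247) (nat_lit 5) (nat_lit 232) (nat_lit 5) (nat_lit 332) (nat_lit 322) (nat_lit 246))))))))
noncomputable def xc87 : XT := (XT.nd (nat_lit 1872) (nat_lit 4332) (nat_lit 0) (XT.nd (nat_lit 936) (nat_lit 3952) (nat_lit 0) (XT.nd (nat_lit 468) (nat_lit 2432) (nat_lit 0) (XT.nd (nat_lit 234) (nat_lit 1748) (nat_lit 0) (XT.nd (nat_lit 78) (nat_lit 608) (nat_lit 0) (XT.lf (nat_lit 0) (nat_lit 1728408469) (nat_lit 1216) (nat_lit 3939171254) (nat_lit 1292) (nat_lit 10340309917) (nat_lit 215) (nat_lit 5) (nat_lit 231) (nat_lit 5) (nat_lit 232) (nat_lit 5) (nat_lit 333) (nat_lit 322) (nat_lit 245)) (XT.nd (nat_lit 78) (nat_lit 608) (nat_lit 0) (XT.lf (nat_lit 0) (nat_lit 8438291928) (nat_lit 1292) (nat_lit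 659387425) (nat_lit 76) (nat_lit 7337238337) (nat_lit 215) (nat_lit 5) (nat_lit 232) (nat_lit 5) (nat_lit 216) (nat_lit 5) (nat_lit 334) (nat_lit 322) (nat_lit 244)) (XT.lf (nat_lit 0) (nat_lit 11514277306) (nat_lit 684) (nat_lit 3055774067) (nat_lit 76) (nat_lit 2308261155) (nat_lit 207) (nat_lit 5) (nat_lit 216) (nat_lit 5) (nat_lit 208) (nat_lit 5) (nat_lit 335) (nat_lit 322) (nat_lit 243)))) (XT.nd (nat_lit 78) (nat_lit 1216) (nat_lit 0) (XT.lf (nat_lit 0) (nat_lit 11810847399) (nat_lit 532) (nat_lit 3117825037) (nat_lit 608) (nat_lit 2409683034) (nat_lit 200) (nat_lit 5) (nat_lit 207) (nat_lit 5) (nat_lit 208) (nat_lit 5) (nat_lit 336) (nat_lit 322) (nat_lit 242)) (XT.nd (nat_lit 78) (nat_lit 532) (nat_lit 0) (XT.lf (nat_lit 0) (nat_lit 865193586) (nat_lit 684) (nat_lit 8082457911) (nat_lit 76) (nat_lit 8867975282) (nat_lit 191) (nat_lit 5) (nat_lit 200) (nat_lit 5) (nat_lit 192) (nat_lit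 5) (nat_lit 337) (nat_lit 322) (nat_lit 241)) (XT.lf (nat_lit 0) (nat_lit 4421952852) (nat_lit 608) (nat_lit 10719517487) (nat_lit 76) (nat_lit 3169551010) (nat_lit 184) (nat_lit 5) (nat_lit 192) (nat_lit 5) (nat_lit 185) (nat_lit 5) (nat_lit 338) (nat_lit 322) (nat_lit 240))))) (XT.nd (nat_lit 234) (nat_lit 988) (nat_lit 0) (XT.nd (nat_lit 78) (nat_lit 912) (nat_lit 0) (XT.lf (nat_lit 0) (nat_lit 5376931244) (nat_lit 532) (nat_lit 2980840006) (nat_lit 608) (nat_lit 10467391751) (nat_lit 177) (nat_lit 5) (nat_lit 184) (nat_lit 5) (nat_lit 185) (nat_lit 5) (nat_lit 339) (nat_lit 322) (nat_lit 239)) (XT.nd (nat_lit 78) (nat_lit 456) (nat_lit 0) (XT.lf (nat_lit 0) (nat_lit 3079222087) (nat_lit 456) (nat_lit 9622403947) (nat_lit 532) (nat_lit 6657061658) (nat_lit 171) (nat_lit 5) (nat_lit 177) (nat_lit 5) (nat_lit 178) (nat_lit 5) (nat_lit 340) (nat_lit 322) (nat_lit 238)) (XT.lf (nat_lit 0) (nat_lit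 726337824) (nat_lit 456) (nat_lit 16719799786) (nat_lit 532) (nat_lit 2467259774) (nat_lit 165) (nat_lit 5) (nat_lit 171) (nat_lit 5) (nat_lit 172) (nat_lit 5) (nat_lit 341) (nat_lit 322) (nat_lit 237)))) (XT.nd (nat_lit 78) (nat_lit 912) (nat_lit 0) (XT.lf (nat_lit 0) (nat_lit 2138303254) (nat_lit 532) (nat_lit 1711372650) (nat_lit 76) (nat_lit 16638302072) (nat_lit 164) (nat_lit 5) (nat_lit 171) (nat_lit 5) (nat_lit 165) (nat_lit 5) (nat_lit 342) (nat_lit 322) (nat_lit 236)) (XT.nd (nat_lit 78) (nat_lit 456) (nat_lit 0) (XT.lf (nat_lit 0) (nat_lit 7159621488) (nat_lit 532) (nat_lit 4262291653) (nat_lit 76) (nat_lit 9661557667) (nat_lit 158) (nat_lit 5) (nat_lit 165) (nat_lit 5) (nat_lit 159) (nat_lit 5) (nat_lit 343) (nat_lit 322) (nat_lit 235)) (XT.lf (nat_lit 0) (nat_lit 12632044019) (nat_lit 532) (nat_lit 6890905262) (nat_lit 76) (nat_lit 2179798489) (nat_lit 152) (nat_lit 5) (nat_lit 159)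 (nat_lit 5) (nat_lit 153) (nat_lit 5) (nat_lit 344) (nat_lit 322) (nat_lit 234)))))) (XT.nd (nat_lit 468) (nat_lit 1520) (nat_lit 0) (XT.nd (nat_lit 234) (nat_lit 1140) (nat_lit 0) (XT.nd (nat_lit 78) (nat_lit 912) (nat_lit 0) (XT.lf (nat_lit 0) (nat_lit 12684529070) (nat_lit 380) (nat_lit 5955226480) (nat_lit 456) (nat_lit 3705393127) (nat_lit 147) (nat_lit 5) (nat_lit 152) (nat_lit 5) (nat_lit 153) (nat_lit 5) (nat_lit 345) (nat_lit 322) (nat_lit 233)) (XT.nd (nat_lit 78) (nat_lit 380) (nat_lit 0) (XT.lf (nat_lit 0) (nat_lit 2125597620) (nat_lit 532) (nat_lit 12568732292) (nat_lit 76) (nat_lit 8317741831) (nat_lit 140) (nat_lit 5) (nat_lit 147) (nat_lit 5) (nat_lit 141) (nat_lit 5) (nat_lit 346) (nat_lit 322) (nat_lit 232)) (XT.lf (nat_lit 0) (nat_lit 8080318656) (nat_lit 380) (nat_lit 311422737) (nat_lit 456) (nat_lit 15312900779) (nat_lit 135) (nat_lit 5) (nat_lit 140) (nat_lit 5) (nat_lit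 141) (nat_lit 5) (nat_lit 347) (nat_lit 322) (nat_lit 231)))) (XT.nd (nat_lit 78) (nat_lit 760) (nat_lit 0) (XT.lf (nat_lit 0) (nat_lit 5537411223) (nat_lit 380) (nat_lit 9741780531) (nat_lit 456) (nat_lit 9143417886) (nat_lit 130) (nat_lit 5) (nat_lit 135) (nat_lit 5) (nat_lit 136) (nat_lit 5) (nat_lit 348) (nat_lit 322) (nat_lit 230)) (XT.nd (nat_lit 78) (nat_lit 456) (nat_lit 0) (XT.lf (nat_lit 0) (nat_lit 2889907112) (nat_lit 304) (nat_lit 19847314086) (nat_lit 380) (nat_lit 2432476181) (nat_lit 126) (nat_lit 5) (nat_lit 130) (nat_lit 5) (nat_lit 131) (nat_lit 5) (nat_lit 349) (nat_lit 322) (nat_lit 229)) (XT.lf (nat_lit 0) (nat_lit 32976134) (nat_lit 380) (nat_lit 4768927883) (nat_lit 456) (nat_lit 21142574568) (nat_lit 120) (nat_lit 5) (nat_lit 125) (nat_lit 5) (nat_lit 126) (nat_lit 5) (nat_lit 350) (nat_lit 322) (nat_lit 228))))) (XT.nd (nat_lit 234) (nat_lit 836) (nat_lit 0) (XT.nd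 (nat_lit 78) (nat_lit 684) (nat_lit 0) (XT.lf (nat_lit 0) (nat_lit 12669623315) (nat_lit 456) (nat_lit 2980273424) (nat_lit 76) (nat_lit 11097728900) (nat_lit 120) (nat_lit 5) (nat_lit 126) (nat_lit 5) (nat_lit 121) (nat_lit 5) (nat_lit 351) (nat_lit 322) (nat_lit 227)) (XT.nd (nat_lit 78) (nat_lit 380) (nat_lit 0) (XT.lf (nat_lit 0) (nat_lit 21171951238) (nat_lit 380) (nat_lit 6140422833) (nat_lit 76) (nat_lit 271326083) (nat_lit 116) (nat_lit 5) (nat_lit 121) (nat_lit 5) (nat_lit 117) (nat_lit 5) (nat_lit 352) (nat_lit 322) (nat_lit 226)) (XT.lf (nat_lit 0) (nat_lit 1964539821) (nat_lit 380) (nat_lit 9592077518) (nat_lit 76) (nat_lit 16893734549) (nat_lit 111) (nat_lit 5) (nat_lit 116) (nat_lit 5) (nat_lit 112) (nat_lit 5) (nat_lit 353) (nat_lit 322) (nat_lit 225)))) (XT.nd (nat_lit 78) (nat_lit 532) (nat_lit 0) (XT.lf (nat_lit 0) (nat_lit 10882727866) (nat_lit 380) (nat_lit 13298585643) (nat_lit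 76) (nat_lit 5169453509) (nat_lit 107) (nat_lit 5) (nat_lit 112) (nat_lit 5) (nat_lit 108) (nat_lit 5) (nat_lit 354) (nat_lit 322) (nat_lit 224)) (XT.nd (nat_lit 78) (nat_lit 228) (nat_lit 0) (XT.lf (nat_lit 0) (nat_lit 13000852517) (nat_lit 304) (nat_lit 7572890974) (nat_lit 380) (nat_lit 9712657562) (nat_lit 103) (nat_lit 5) (nat_lit 107) (nat_lit 5) (nat_lit 108) (nat_lit 5) (nat_lit 355) (nat_lit 322) (nat_lit 223)) (XT.lf (nat_lit 0) (nat_lit 9700722637) (nat_lit 228) (nat_lit 21360936212) (nat_lit 304) (nat_lit 197792893) (nat_lit 100) (nat_lit 5) (nat_lit 103) (nat_lit 5) (nat_lit 104) (nat_lit 5) (nat_lit 356) (nat_lit 322) (nat_lit 222))))))) (XT.nd (nat_lit 936) (nat_lit 1748) (nat_lit 0) (XT.nd (nat_lit 468) (nat_lit 1140) (nat_lit 0) (XT.nd (nat_lit 234) (nat_lit 836) (nat_lit 0) (XT.nd (nat_lit 78) (nat_lit 228) (nat_lit 0) (XT.lf (nat_lit 0) (nat_lit 6046858301) (nat_lit 304) (nat_lit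 3855468229) (nat_lit 380) (nat_lit 22366991275) (nat_lit 95) (nat_lit 5) (nat_lit 99) (nat_lit 5) (nat_lit 100) (nat_lit 5) (nat_lit 357) (nat_lit 322) (nat_lit 221)) (XT.nd (nat_lit 78) (nat_lit 0) (nat_lit 0) (XT.lf (nat_lit 0) (nat_lit 2035865241) (nat_lit 228) (nat_lit 18837591654) (nat_lit 304) (nat_lit 12445063433) (nat_lit 92) (nat_lit 5) (nat_lit 95) (nat_lit 5) (nat_lit 96) (nat_lit 5) (nat_lit 358) (nat_lit 322) (nat_lit 220)) (XT.lf (nat_lit 0) (nat_lit 32195708559) (nat_lit 228) (nat_lit 493083784) (nat_lit 304) (nat_lit 1722525724) (nat_lit 92) (nat_lit 5) (nat_lit 95) (nat_lit 5) (nat_lit 96) (nat_lit 5) (nat_lit 359) (nat_lit 322) (nat_lit 219)))) (XT.nd (nat_lit 78) (nat_lit 456) (nat_lit 0) (XT.lf (nat_lit 0) (nat_lit 9798127771) (nat_lit 380) (nat_lit 6976837907) (nat_lit 76) (nat_lit 18767602004) (nat_lit 87) (nat_lit 5) (nat_lit 92) (nat_lit 5) (nat_lit 88) (nat_lit 5) (nat_lit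 360) (nat_lit 322) (nat_lit 218)) (XT.nd (nat_lit 78) (nat_lit 228) (nat_lit 0) (XT.lf (nat_lit 0) (nat_lit 22136737480) (nat_lit 304) (nat_lit 12104331080) (nat_lit 76) (nat_lit 2480477140) (nat_lit 84) (nat_lit 5) (nat_lit 88) (nat_lit 5) (nat_lit 85) (nat_lit 5) (nat_lit 361) (nat_lit 322) (nat_lit 217)) (XT.lf (nat_lit 0) (nat_lit 20184801478) (nat_lit 228) (nat_lit 15331693905) (nat_lit 304) (nat_lit 2430254519) (nat_lit 81) (nat_lit 5) (nat_lit 84) (nat_lit 5) (nat_lit 85) (nat_lit 5) (nat_lit 362) (nat_lit 322) (nat_lit 216))))) (XT.nd (nat_lit 234) (nat_lit 456) (nat_lit 0) (XT.nd (nat_lit 78) (nat_lit 380) (nat_lit 0) (XT.lf (nat_lit 0) (nat_lit 10438949534) (nat_lit 304) (nat_lit 23977992283) (nat_lit 76) (nat_lit 4804040359) (nat_lit 77) (nat_lit 5) (nat_lit 81) (nat_lit 5) (nat_lit 78) (nat_lit 5) (nat_lit 363) (nat_lit 322) (nat_lit 215)) (XT.nd (nat_lit 78) (nat_lit 152) (nat_lit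 0) (XT.lf (nat_lit 0) (nat_lit 9706278257) (nat_lit 228) (nat_lit 14617163776) (nat_lit 304) (nat_lit 16222102842) (nat_lit 74) (nat_lit 5) (nat_lit 77) (nat_lit 5) (nat_lit 78) (nat_lit 5) (nat_lit 364) (nat_lit 322) (nat_lit 214)) (XT.lf (nat_lit 0) (nat_lit 3638428309) (nat_lit 152) (nat_lit 35596531510) (nat_lit 228) (nat_lit 2691395069) (nat_lit 72) (nat_lit 5) (nat_lit 74) (nat_lit 5) (nat_lit 75) (nat_lit 5) (nat_lit 365) (nat_lit 322) (nat_lit 213)))) (XT.nd (nat_lit 78) (nat_lit 380) (nat_lit 0) (XT.lf (nat_lit 0) (nat_lit 11748730153) (nat_lit 228) (nat_lit 3160997242) (nat_lit 76) (nat_lit 28449432111) (nat_lit 71) (nat_lit 5) (nat_lit 74) (nat_lit 5) (nat_lit 72) (nat_lit 5) (nat_lit 366) (nat_lit 322) (nat_lit 212)) (XT.nd (nat_lit 78) (nat_lit 152) (nat_lit 0) (XT.lf (nat_lit 0) (nat_lit 27244808493) (nat_lit 304) (nat_lit 10573326149) (nat_lit 76) (nat_lit 7032984834) (nat_lit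 68) (nat_lit 5) (nat_lit 72) (nat_lit 5) (nat_lit 69) (nat_lit 5) (nat_lit 367) (nat_lit 322) (nat_lit 211)) (XT.lf (nat_lit 0) (nat_lit 27609500897) (nat_lit 152) (nat_lit 16345159709) (nat_lit 228) (nat_lit 2449850425) (nat_lit 66) (nat_lit 5) (nat_lit 68) (nat_lit 5) (nat_lit 69) (nat_lit 5) (nat_lit 368) (nat_lit 322) (nat_lit 210)))))) (XT.nd (nat_lit 468) (nat_lit 760) (nat_lit 0) (XT.nd (nat_lit 234) (nat_lit 380) (nat_lit 0) (XT.nd (nat_lit 78) (nat_lit 304) (nat_lit 0) (XT.lf (nat_lit 0) (nat_lit 13559452779) (nat_lit 304) (nat_lit 27950219671) (nat_lit 76) (nat_lit 6511286568) (nat_lit 62) (nat_lit 5) (nat_lit 66) (nat_lit 5) (nat_lit 63) (nat_lit 5) (nat_lit 369) (nat_lit 322) (nat_lit 209)) (XT.nd (nat_lit 78) (nat_lit 152) (nat_lit 0) (XT.lf (nat_lit 0) (nat_lit 11578622379) (nat_lit 152) (nat_lit 19202755838) (nat_lit 228) (nat_lit 18922241158) (nat_lit 60) (nat_lit 5) (nat_lit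 62) (nat_lit 5) (nat_lit 63) (nat_lit 5) (nat_lit 370) (nat_lit 322) (nat_lit 208)) (XT.lf (nat_lit 0) (nat_lit 2189957142) (nat_lit 152) (nat_lit 47017543816) (nat_lit 228) (nat_lit 2252621012) (nat_lit 58) (nat_lit 5) (nat_lit 60) (nat_lit 5) (nat_lit 61) (nat_lit 5) (nat_lit 371) (nat_lit 322) (nat_lit 207)))) (XT.nd (nat_lit 78) (nat_lit 304) (nat_lit 0) (XT.lf (nat_lit 0) (nat_lit 15534171067) (nat_lit 228) (nat_lit 8334920304) (nat_lit 76) (nat_lit 29413524013) (nat_lit 57) (nat_lit 5) (nat_lit 60) (nat_lit 5) (nat_lit 58) (nat_lit 5) (nat_lit 372) (nat_lit 322) (nat_lit 206)) (XT.nd (nat_lit 78) (nat_lit 152) (nat_lit 0) (XT.lf (nat_lit 0) (nat_lit 34502722934) (nat_lit 228) (nat_lit 19894774056) (nat_lit 76) (nat_lit 787899130) (nat_lit 55) (nat_lit 5) (nat_lit 58) (nat_lit 5) (nat_lit 56) (nat_lit 5) (nat_lit 373) (nat_lit 322) (nat_lit 205)) (XT.lf (nat_lit 0) (nat_lit 24309120527)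 (nat_lit 152) (nat_lit 30663570954) (nat_lit 228) (nat_lit 2194036626) (nat_lit 53) (nat_lit 5) (nat_lit 55) (nat_lit 5) (nat_lit 56) (nat_lit 5) (nat_lit 374) (nat_lit 322) (nat_lit 204))))) (XT.nd (nat_lit 234) (nat_lit 380) (nat_lit 0) (XT.nd (nat_lit 78) (nat_lit 152) (nat_lit 0) (XT.lf (nat_lit 0) (nat_lit 11949501506) (nat_lit 152) (nat_lit 5247144050) (nat_lit 228) (nat_lit 42036108711) (nat_lit 50) (nat_lit 5) (nat_lit 52) (nat_lit 5) (nat_lit 53) (nat_lit 5) (nat_lit 375) (nat_lit 322) (nat_lit 203)) (XT.nd (nat_lit 78) (nat_lit 152) (nat_lit 0) (XT.lf (nat_lit 0) (nat_lit 38051714719) (nat_lit 228) (nat_lit 1953804201) (nat_lit 76) (nat_lit 21379705917) (nat_lit 50) (nat_lit 5) (nat_lit 53) (nat_lit 5) (nat_lit 51) (nat_lit 5) (nat_lit 376) (nat_lit 322) (nat_lit 202)) (XT.lf (nat_lit 0) (nat_lit 46482993556) (nat_lit 152) (nat_lit 13958825273) (nat_lit 228) (nat_lit 3188733243) (nat_lit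 48) (nat_lit 5) (nat_lit 50) (nat_lit 5) (nat_lit 51) (nat_lit 5) (nat_lit 377) (nat_lit 322) (nat_lit 201)))) (XT.nd (nat_lit 78) (nat_lit 152) (nat_lit 0) (XT.lf (nat_lit 0) (nat_lit 18065296193) (nat_lit 228) (nat_lit 34276815420) (nat_lit 76) (nat_lit 13627279035) (nat_lit 45) (nat_lit 5) (nat_lit 48) (nat_lit 5) (nat_lit 46) (nat_lit 5) (nat_lit 378) (nat_lit 322) (nat_lit 200)) (XT.nd (nat_lit 78) (nat_lit 0) (nat_lit 0) (XT.lf (nat_lit 0) (nat_lit 15018647527) (nat_lit 152) (nat_lit 25754403467) (nat_lit 228) (nat_lit 27637465252) (nat_lit 43) (nat_lit 5) (nat_lit 45) (nat_lit 5) (nat_lit 46) (nat_lit 5) (nat_lit 379) (nat_lit 322) (nat_lit 199)) (XT.lf (nat_lit 0) (nat_lit 64986329077) (nat_lit 228) (nat_lit 3504789917) (nat_lit 76) (nat_lit 2471476389) (nat_lit 43) (nat_lit 5) (nat_lit 46) (nat_lit 5) (nat_lit 44) (nat_lit 4) (nat_lit 380) (nat_lit 322) (nat_lit 198))))))))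
noncomputable def xc88 : XT := (XT.nd (nat_lit 43368) (nat_lit 0) (nat_lit 4712) (XT.nd (nat_lit 42432) (nat_lit 0) (nat_lit 13452) (XT.nd (nat_lit 390) (nat_lit 380) (nat_lit 0) (XT.nd (nat_lit 156) (nat_lit 304) (nat_lit 0) (XT.nd (nat_lit 78) (nat_lit 152) (nat_lit 0) (XT.lf (nat_lit 0) (nat_lit 17177812056) (nat_lit 152) (nat_lit 24216733465) (nat_lit 76) (nat_lit 32220787957) (nat_lit 41) (nat_lit 5) (nat_lit 43) (nat_lit 5) (nat_lit 42) (nat_lit 5) (nat_lit 381) (nat_lit 322) (nat_lit 197)) (XT.lf (nat_lit 0) (nat_lit 29116511351) (nat_lit 152) (nat_lit 12560432197) (nat_lit 228) (nat_lit 34712662541) (nat_lit 39) (nat_lit 5) (nat_lit 41) (nat_lit 5) (nat_lit 42) (nat_lit 5) (nat_lit 382) (nat_lit 322) (nat_lit 196))) (XT.nd (nat_lit 78) (nat_lit 228) (nat_lit 0) (XT.lf (nat_lit 0) (nat_lit 6265305000) (nat_lit 76) (nat_lit 61611630700) (nat_lit 152) (nat_lit 11411380622) (nat_lit 38)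 (nat_lit 5) (nat_lit 39) (nat_lit 5) (nat_lit 40) (nat_lit 4) (nat_lit 383) (nat_lit 322) (nat_lit 195)) (XT.nd (nat_lit 78) (nat_lit 152) (nat_lit 0) (XT.lf (nat_lit 0) (nat_lit 13412206619) (nat_lit 152) (nat_lit 19117307092) (nat_lit 76) (nat_lit 49780324896) (nat_lit 37) (nat_lit 5) (nat_lit 39) (nat_lit 5) (nat_lit 38) (nat_lit 5) (nat_lit 384) (nat_lit 322) (nat_lit 194)) (XT.lf (nat_lit 0) (nat_lit 38101184946) (nat_lit 152) (nat_lit 1502288391) (nat_lit 228) (nat_lit 45864699981) (nat_lit 35) (nat_lit 5) (nat_lit 37) (nat_lit 5) (nat_lit 38) (nat_lit 5) (nat_lit 385) (nat_lit 322) (nat_lit 193))))) (XT.nd (nat_lit 234) (nat_lit 76) (nat_lit 0) (XT.nd (nat_lit 78) (nat_lit 228) (nat_lit 0) (XT.lf (nat_lit 0) (nat_lit 9679149242) (nat_lit 76) (nat_lit 58009860304) (nat_lit 152) (nat_lit 21077874968) (nat_lit 34) (nat_lit 5) (nat_lit 35) (nat_lit 5) (nat_lit 36) (nat_lit 4) (nat_lit 386)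 (nat_lit 322) (nat_lit 192)) (XT.nd (nat_lit 78) (nat_lit 152) (nat_lit 0) (XT.lf (nat_lit 0) (nat_lit 5353640504) (nat_lit 152) (nat_lit 21726473895) (nat_lit 76) (nat_lit 65133933509) (nat_lit 33) (nat_lit 5) (nat_lit 35) (nat_lit 5) (nat_lit 34) (nat_lit 5) (nat_lit 387) (nat_lit 322) (nat_lit 191)) (XT.lf (nat_lit 0) (nat_lit 33102393216) (nat_lit 228) (nat_lit 56831725520) (nat_lit 76) (nat_lit 5880243274) (nat_lit 31) (nat_lit 5) (nat_lit 34) (nat_lit 5) (nat_lit 32) (nat_lit 4) (nat_lit 388) (nat_lit 322) (nat_lit 190)))) (XT.nd (nat_lit 78) (nat_lit 0) (nat_lit 0) (XT.lf (nat_lit 0) (nat_lit 3373761028) (nat_lit 76) (nat_lit 59391158011) (nat_lit 152) (nat_lit 36813983497) (nat_lit 30) (nat_lit 5) (nat_lit 31) (nat_lit 5) (nat_lit 32) (nat_lit 4) (nat_lit 389) (nat_lit 322) (nat_lit 189)) (XT.nd (nat_lit 41652) (nat_lit 0) (nat_lit 15960) (XT.lf (nat_lit 0) (nat_lit 67767645671) (nat_lit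 76) (nat_lit 26722828024) (nat_lit 152) (nat_lit 9023800063) (nat_lit 30) (nat_lit 5) (nat_lit 31) (nat_lit 5) (nat_lit 32) (nat_lit 4) (nat_lit 390) (nat_lit 322) (nat_lit 188)) (XT.lf (nat_lit 0) (nat_lit 947242924) (nat_lit 0) (nat_lit 947242924) (nat_lit 1140) (nat_lit 4505620266) (nat_lit 240) (nat_lit 5) (nat_lit 240) (nat_lit 3) (nat_lit 255) (nat_lit 3) (nat_lit 323) (nat_lit 323) (nat_lit 254)))))) (XT.nd (nat_lit 468) (nat_lit 2508) (nat_lit 0) (XT.nd (nat_lit 234) (nat_lit 0) (nat_lit 152) (XT.nd (nat_lit 78) (nat_lit 0) (nat_lit 76) (XT.lf (nat_lit 0) (nat_lit 4623586229) (nat_lit 1140) (nat_lit 872995556) (nat_lit 1216) (nat_lit 7601001911) (nat_lit 240) (nat_lit 5) (nat_lit 255) (nat_lit 3) (nat_lit 256) (nat_lit 5) (nat_lit 324) (nat_lit 323) (nat_lit 253)) (XT.nd (nat_lit 78) (nat_lit 0) (nat_lit 76) (XT.lf (nat_lit 0) (nat_lit 5611730609) (nat_lit 1140) (nat_lit 3637587478)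 (nat_lit 1216) (nat_lit 4157179658) (nat_lit 241) (nat_lit 5) (nat_lit 256) (nat_lit 5) (nat_lit 257) (nat_lit 5) (nat_lit 325) (nat_lit 323) (nat_lit 252)) (XT.lf (nat_lit 0) (nat_lit 6748832525) (nat_lit 1140) (nat_lit 6439592631) (nat_lit 1216) (nat_lit 539472480) (nat_lit 242) (nat_lit 5) (nat_lit 257) (nat_lit 5) (nat_lit 258) (nat_lit 5) (nat_lit 326) (nat_lit 323) (nat_lit 251)))) (XT.nd (nat_lit 78) (nat_lit 0) (nat_lit 76) (XT.lf (nat_lit 76) (nat_lit 4746929636) (nat_lit 0) (nat_lit 3334113559) (nat_lit 1216) (nat_lit 5980202098) (nat_lit 243) (nat_lit 5) (nat_lit 242) (nat_lit 5) (nat_lit 258) (nat_lit 5) (nat_lit 327) (nat_lit 323) (nat_lit 250)) (XT.nd (nat_lit 78) (nat_lit 0) (nat_lit 76) (XT.lf (nat_lit 76) (nat_lit 2167498934) (nat_lit 0) (nat_lit 7430748767) (nat_lit 1216) (nat_lit 4809485304) (nat_lit 244) (nat_lit 5) (nat_lit 243) (nat_lit 5) (nat_lit 259) (nat_lit 5) (nat_lit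 328) (nat_lit 323) (nat_lit 249)) (XT.lf (nat_lit 0) (nat_lit 11314780851) (nat_lit 1140) (nat_lit 438671398) (nat_lit 1216) (nat_lit 3014411822) (nat_lit 244) (nat_lit 5) (nat_lit 259) (nat_lit 5) (nat_lit 260) (nat_lit 5) (nat_lit 329) (nat_lit 323) (nat_lit 248))))) (XT.nd (nat_lit 234) (nat_lit 1748) (nat_lit 0) (XT.nd (nat_lit 78) (nat_lit 1064) (nat_lit 0) (XT.lf (nat_lit 76) (nat_lit 12089807300) (nat_lit 0) (nat_lit 1185041893) (nat_lit 1216) (nat_lit 1866443166) (nat_lit 245) (nat_lit 5) (nat_lit 244) (nat_lit 5) (nat_lit 260) (nat_lit 5) (nat_lit 330) (nat_lit 323) (nat_lit 247)) (XT.nd (nat_lit 78) (nat_lit 1140) (nat_lit 0) (XT.lf (nat_lit 76) (nat_lit 9791916641) (nat_lit 0) (nat_lit 5702917219) (nat_lit 1216) (nat_lit 33721695) (nat_lit 246) (nat_lit 5) (nat_lit 245) (nat_lit 5) (nat_lit 261) (nat_lit 5) (nat_lit 331) (nat_lit 323) (nat_lit 246)) (XT.lf (nat_lit 0) (nat_lit 1991876289)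 (nat_lit 1216) (nat_lit 8487062479) (nat_lit 1292) (nat_lit 5451573224) (nat_lit 230) (nat_lit 5) (nat_lit 246) (nat_lit 5) (nat_lit 247) (nat_lit 5) (nat_lit 332) (nat_lit 323) (nat_lit 245)))) (XT.nd (nat_lit 78) (nat_lit 1824) (nat_lit 0) (XT.lf (nat_lit 0) (nat_lit 4262022916) (nat_lit 1216) (nat_lit 11288949589) (nat_lit 76) (nat_lit 797283132) (nat_lit 231) (nat_lit 5) (nat_lit 247) (nat_lit 5) (nat_lit 232) (nat_lit 5) (nat_lit 333) (nat_lit 323) (nat_lit 244)) (XT.nd (nat_lit 78) (nat_lit 608) (nat_lit 0) (XT.lf (nat_lit 0) (nat_lit 2595214445) (nat_lit 1216) (nat_lit 4240872477) (nat_lit 1292) (nat_lit 9945104753) (nat_lit 215) (nat_lit 5) (nat_lit 231) (nat_lit 5) (nat_lit 232) (nat_lit 5) (nat_lit 334) (nat_lit 323) (nat_lit 243)) (XT.lf (nat_lit 0) (nat_lit 79173739) (nat_lit 608) (nat_lit 9623814197) (nat_lit 684) (nat_lit 7527879244) (nat_lit 207) (nat_lit 5) (nat_lit 215) (nat_lit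 5) (nat_lit 216) (nat_lit 5) (nat_lit 335) (nat_lit 323) (nat_lit 242))))))) (XT.nd (nat_lit 936) (nat_lit 3648) (nat_lit 0) (XT.nd (nat_lit 468) (nat_lit 2356) (nat_lit 0) (XT.nd (nat_lit 234) (nat_lit 1520) (nat_lit 0) (XT.nd (nat_lit 78) (nat_lit 1216) (nat_lit 0) (XT.lf (nat_lit 0) (nat_lit 12898516431) (nat_lit 684) (nat_lit 2435298461) (nat_lit 76) (nat_lit 2363668978) (nat_lit 207) (nat_lit 5) (nat_lit 216) (nat_lit 5) (nat_lit 208) (nat_lit 5) (nat_lit 336) (nat_lit 323) (nat_lit 241)) (XT.nd (nat_lit 78) (nat_lit 684) (nat_lit 0) (XT.lf (nat_lit 0) (nat_lit 13152488612) (nat_lit 532) (nat_lit 3299861524) (nat_lit 608) (nat_lit 1729140522) (nat_lit 200) (nat_lit 5) (nat_lit 207) (nat_lit 5) (nat_lit 208) (nat_lit 5) (nat_lit 337) (nat_lit 323) (nat_lit 240)) (XT.lf (nat_lit 0) (nat_lit 1663516615) (nat_lit 684) (nat_lit 7718209636) (nat_lit 76) (nat_lit 9301599764) (nat_lit 191) (nat_lit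 5) (nat_lit 200) (nat_lit 5) (nat_lit 192) (nat_lit 5) (nat_lit 338) (nat_lit 323) (nat_lit 239)))) (XT.nd (nat_lit 78) (nat_lit 988) (nat_lit 0) (XT.lf (nat_lit 0) (nat_lit 5369525645) (nat_lit 608) (nat_lit 10487142077) (nat_lit 76) (nat_lit 3347700724) (nat_lit 184) (nat_lit 5) (nat_lit 192) (nat_lit 5) (nat_lit 185) (nat_lit 5) (nat_lit 339) (nat_lit 323) (nat_lit 238)) (XT.nd (nat_lit 78) (nat_lit 456) (nat_lit 0) (XT.lf (nat_lit 0) (nat_lit 6392104455) (nat_lit 532) (nat_lit 3082610601) (nat_lit 608) (nat_lit 10270344231) (nat_lit 177) (nat_lit 5) (nat_lit 184) (nat_lit 5) (nat_lit 185) (nat_lit 5) (nat_lit 340) (nat_lit 323) (nat_lit 237)) (XT.lf (nat_lit 0) (nat_lit 3978424691) (nat_lit 456) (nat_lit 10031646025) (nat_lit 532) (nat_lit 6295978835) (nat_lit 171) (nat_lit 5) (nat_lit 177) (nat_lit 5) (nat_lit 178) (nat_lit 5) (nat_lit 341) (nat_lit 323) (nat_lit 236))))) (XT.nd (nat_lit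 234) (nat_lit 1368) (nat_lit 0) (XT.nd (nat_lit 78) (nat_lit 532) (nat_lit 0) (XT.lf (nat_lit 0) (nat_lit 1505845704) (nat_lit 456) (nat_lit 17461699285) (nat_lit 532) (nat_lit 1921695321) (nat_lit 165) (nat_lit 5) (nat_lit 171) (nat_lit 5) (nat_lit 172) (nat_lit 5) (nat_lit 342) (nat_lit 323) (nat_lit 235)) (XT.nd (nat_lit 78) (nat_lit 456) (nat_lit 0) (XT.lf (nat_lit 0) (nat_lit 2869860566) (nat_lit 532) (nat_lit 1076381481) (nat_lit 76) (nat_lit 17547068306) (nat_lit 164) (nat_lit 5) (nat_lit 171) (nat_lit 5) (nat_lit 165) (nat_lit 5) (nat_lit 343) (nat_lit 323) (nat_lit 234)) (XT.lf (nat_lit 0) (nat_lit 8120172491) (nat_lit 532) (nat_lit 3758085433) (nat_lit 76) (nat_lit 10240997654) (nat_lit 158) (nat_lit 5) (nat_lit 165) (nat_lit 5) (nat_lit 159) (nat_lit 5) (nat_lit 344) (nat_lit 323) (nat_lit 233)))) (XT.nd (nat_lit 78) (nat_lit 912) (nat_lit 0) (XT.lf (nat_lit 0) (nat_lit 13845336858)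 (nat_lit 532) (nat_lit 6522094377) (nat_lit 76) (nat_lit 2402706372) (nat_lit 152) (nat_lit 5) (nat_lit 159) (nat_lit 5) (nat_lit 153) (nat_lit 5) (nat_lit 345) (nat_lit 323) (nat_lit 232)) (XT.nd (nat_lit 78) (nat_lit 532) (nat_lit 0) (XT.lf (nat_lit 0) (nat_lit 14011663461) (nat_lit 380) (nat_lit 6120731606) (nat_lit 456) (nat_lit 3312908796) (nat_lit 147) (nat_lit 5) (nat_lit 152) (nat_lit 5) (nat_lit 153) (nat_lit 5) (nat_lit 346) (nat_lit 323) (nat_lit 231)) (XT.lf (nat_lit 0) (nat_lit 2779288032) (nat_lit 532) (nat_lit 12497589970) (nat_lit 76) (nat_lit 8869113620) (nat_lit 140) (nat_lit 5) (nat_lit 147) (nat_lit 5) (nat_lit 141) (nat_lit 5) (nat_lit 347) (nat_lit 323) (nat_lit 230)))))) (XT.nd (nat_lit 468) (nat_lit 1824) (nat_lit 0) (XT.nd (nat_lit 234) (nat_lit 760) (nat_lit 0) (XT.nd (nat_lit 78) (nat_lit 684) (nat_lit 0) (XT.lf (nat_lit 0) (nat_lit 9163860237) (nat_lit 380) (nat_lit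 175343606) (nat_lit 456) (nat_lit 15534585232) (nat_lit 135) (nat_lit 5) (nat_lit 140) (nat_lit 5) (nat_lit 141) (nat_lit 5) (nat_lit 348) (nat_lit 323) (nat_lit 229)) (XT.nd (nat_lit 78) (nat_lit 304) (nat_lit 0) (XT.lf (nat_lit 0) (nat_lit 6488537125) (nat_lit 380) (nat_lit 10065222367) (nat_lit 456) (nat_lit 9074425295) (nat_lit 130) (nat_lit 5) (nat_lit 135) (nat_lit 5) (nat_lit 136) (nat_lit 5) (nat_lit 349) (nat_lit 323) (nat_lit 228)) (XT.lf (nat_lit 0) (nat_lit 3702911874) (nat_lit 304) (nat_lit 20665388150) (nat_lit 380) (nat_lit 2044829891) (nat_lit 126) (nat_lit 5) (nat_lit 130) (nat_lit 5) (nat_lit 131) (nat_lit 5) (nat_lit 350) (nat_lit 323) (nat_lit 227)))) (XT.nd (nat_lit 78) (nat_lit 304) (nat_lit 0) (XT.lf (nat_lit 0) (nat_lit 693837431) (nat_lit 380) (nat_lit 4830053212) (nat_lit 456) (nat_lit 21703146343) (nat_lit 120) (nat_lit 5) (nat_lit 125) (nat_lit 5) (nat_lit 126) (nat_lit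 5) (nat_lit 351) (nat_lit 323) (nat_lit 226)) (XT.nd (nat_lit 78) (nat_lit 304) (nat_lit 0) (XT.lf (nat_lit 0) (nat_lit 13763672046) (nat_lit 456) (nat_lit 2489121857) (nat_lit 76) (nat_lit 11818197147) (nat_lit 120) (nat_lit 5) (nat_lit 126) (nat_lit 5) (nat_lit 121) (nat_lit 5) (nat_lit 352) (nat_lit 323) (nat_lit 225)) (XT.lf (nat_lit 0) (nat_lit 22676865217) (nat_lit 380) (nat_lit 5813804553) (nat_lit 76) (nat_lit 458636524) (nat_lit 116) (nat_lit 5) (nat_lit 121) (nat_lit 5) (nat_lit 117) (nat_lit 5) (nat_lit 353) (nat_lit 323) (nat_lit 224))))) (XT.nd (nat_lit 234) (nat_lit 836) (nat_lit 0) (XT.nd (nat_lit 78) (nat_lit 608) (nat_lit 0) (XT.lf (nat_lit 0) (nat_lit 2498190363) (nat_lit 380) (nat_lit 9447364234) (nat_lit 76) (nat_lit 17914077076) (nat_lit 111) (nat_lit 5) (nat_lit 116) (nat_lit 5) (nat_lit 112) (nat_lit 5) (nat_lit 354) (nat_lit 323) (nat_lit 223)) (XT.nd (nat_lit 78) (nat_lit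 304) (nat_lit 0) (XT.lf (nat_lit 0) (nat_lit 11849169659) (nat_lit 380) (nat_lit 13346098386) (nat_lit 76) (nat_lit 5610201397) (nat_lit 107) (nat_lit 5) (nat_lit 112) (nat_lit 5) (nat_lit 108) (nat_lit 5) (nat_lit 355) (nat_lit 323) (nat_lit 222)) (XT.lf (nat_lit 0) (nat_lit 14250613561) (nat_lit 304) (nat_lit 7759777584) (nat_lit 380) (nat_lit 9777932322) (nat_lit 103) (nat_lit 5) (nat_lit 107) (nat_lit 5) (nat_lit 108) (nat_lit 5) (nat_lit 356) (nat_lit 323) (nat_lit 221)))) (XT.nd (nat_lit 78) (nat_lit 532) (nat_lit 0) (XT.lf (nat_lit 0) (nat_lit 196426540) (nat_lit 304) (nat_lit 22033781011) (nat_lit 76) (nat_lit 10580128122) (nat_lit 99) (nat_lit 5) (nat_lit 103) (nat_lit 5) (nat_lit 100) (nat_lit 5) (nat_lit 357) (nat_lit 323) (nat_lit 220)) (XT.nd (nat_lit 78) (nat_lit 228) (nat_lit 0) (XT.lf (nat_lit 0) (nat_lit 6932865056) (nat_lit 304) (nat_lit 3851194472) (nat_lit 380) (nat_lit 23086985806)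 (nat_lit 95) (nat_lit 5) (nat_lit 99) (nat_lit 5) (nat_lit 100) (nat_lit 5) (nat_lit 358) (nat_lit 323) (nat_lit 219)) (XT.lf (nat_lit 0) (nat_lit 2714153777) (nat_lit 228) (nat_lit 19578527882) (nat_lit 304) (nat_lit 12680364926) (nat_lit 92) (nat_lit 5) (nat_lit 95) (nat_lit 5) (nat_lit 96) (nat_lit 5) (nat_lit 359) (nat_lit 323) (nat_lit 218))))))))
noncomputable def xc89 : XT := (XT.nd (nat_lit 1794) (nat_lit 836) (nat_lit 0) (XT.nd (nat_lit 858) (nat_lit 1596) (nat_lit 0) (XT.nd (nat_lit 390) (nat_lit 1140) (nat_lit 0) (XT.nd (nat_lit 156) (nat_lit 760) (nat_lit 0) (XT.nd (nat_lit 78) (nat_lit 380) (nat_lit 0) (XT.lf (nat_lit 0) (nat_lit 34354537105) (nat_lit 228) (nat_lit 326363350) (nat_lit 304) (nat_lit 1440126601) (nat_lit 92) (nat_lit 5) (nat_lit 95) (nat_lit 5) (nat_lit 96) (nat_lit 5) (nat_lit 360) (nat_lit 323) (nat_lit 217)) (XT.lf (nat_lit 0) (nat_lit 10639193516) (nat_lit 380)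 (nat_lit 6776510011) (nat_lit 76) (nat_lit 19893340459) (nat_lit 87) (nat_lit 5) (nat_lit 92) (nat_lit 5) (nat_lit 88) (nat_lit 5) (nat_lit 361) (nat_lit 323) (nat_lit 216))) (XT.nd (nat_lit 78) (nat_lit 532) (nat_lit 0) (XT.lf (nat_lit 0) (nat_lit 23585003001) (nat_lit 304) (nat_lit 12167684545) (nat_lit 76) (nat_lit 2794580866) (nat_lit 84) (nat_lit 5) (nat_lit 88) (nat_lit 5) (nat_lit 85) (nat_lit 5) (nat_lit 362) (nat_lit 323) (nat_lit 215)) (XT.nd (nat_lit 78) (nat_lit 304) (nat_lit 0) (XT.lf (nat_lit 0) (nat_lit 21720372243) (nat_lit 228) (nat_lit 15902177462) (nat_lit 304) (nat_lit 2211524412) (nat_lit 81) (nat_lit 5) (nat_lit 84) (nat_lit 5) (nat_lit 85) (nat_lit 5) (nat_lit 363) (nat_lit 323) (nat_lit 214)) (XT.lf (nat_lit 0) (nat_lit 11285467344) (nat_lit 304) (nat_lit 24651195165) (nat_lit 76) (nat_lit 5235533289) (nat_lit 77) (nat_lit 5) (nat_lit 81) (nat_lit 5) (nat_lit 78) (nat_lit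 5) (nat_lit 364) (nat_lit 323) (nat_lit 213))))) (XT.nd (nat_lit 234) (nat_lit 684) (nat_lit 0) (XT.nd (nat_lit 78) (nat_lit 228) (nat_lit 0) (XT.lf (nat_lit 0) (nat_lit 10702219911) (nat_lit 228) (nat_lit 15151417293) (nat_lit 304) (nat_lit 16709670531) (nat_lit 74) (nat_lit 5) (nat_lit 77) (nat_lit 5) (nat_lit 78) (nat_lit 5) (nat_lit 365) (nat_lit 323) (nat_lit 212)) (XT.nd (nat_lit 78) (nat_lit 76) (nat_lit 0) (XT.lf (nat_lit 0) (nat_lit 4323746368) (nat_lit 152) (nat_lit 37178669878) (nat_lit 228) (nat_lit 2510995903) (nat_lit 72) (nat_lit 5) (nat_lit 74) (nat_lit 5) (nat_lit 75) (nat_lit 5) (nat_lit 366) (nat_lit 323) (nat_lit 211)) (XT.lf (nat_lit 0) (nat_lit 12630283558) (nat_lit 228) (nat_lit 2833685720) (nat_lit 76) (nat_lit 30054242191) (nat_lit 71) (nat_lit 5) (nat_lit 74) (nat_lit 5) (nat_lit 72) (nat_lit 5) (nat_lit 367) (nat_lit 323) (nat_lit 210)))) (XT.nd (nat_lit 78) (nat_lit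 456) (nat_lit 0) (XT.lf (nat_lit 0) (nat_lit 28893487788) (nat_lit 304) (nat_lit 10623721675) (nat_lit 76) (nat_lit 7567794244) (nat_lit 68) (nat_lit 5) (nat_lit 72) (nat_lit 5) (nat_lit 69) (nat_lit 5) (nat_lit 368) (nat_lit 323) (nat_lit 209)) (XT.nd (nat_lit 78) (nat_lit 304) (nat_lit 0) (XT.lf (nat_lit 0) (nat_lit 29454537188) (nat_lit 152) (nat_lit 16975121020) (nat_lit 228) (nat_lit 2286685603) (nat_lit 66) (nat_lit 5) (nat_lit 68) (nat_lit 5) (nat_lit 69) (nat_lit 5) (nat_lit 369) (nat_lit 323) (nat_lit 208)) (XT.lf (nat_lit 0) (nat_lit 14510345669) (nat_lit 304) (nat_lit 28884581726) (nat_lit 76) (nat_lit 7018822771) (nat_lit 62) (nat_lit 5) (nat_lit 66) (nat_lit 5) (nat_lit 63) (nat_lit 5) (nat_lit 370) (nat_lit 323) (nat_lit 207)))))) (XT.nd (nat_lit 468) (nat_lit 684) (nat_lit 0) (XT.nd (nat_lit 234) (nat_lit 532) (nat_lit 0) (XT.nd (nat_lit 78) (nat_lit 228) (nat_lit 0) (XT.lf (nat_lit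 0) (nat_lit 12607426355) (nat_lit 152) (nat_lit 19977269274) (nat_lit 228) (nat_lit 19596111359) (nat_lit 60) (nat_lit 5) (nat_lit 62) (nat_lit 5) (nat_lit 63) (nat_lit 5) (nat_lit 371) (nat_lit 323) (nat_lit 206)) (XT.nd (nat_lit 78) (nat_lit 76) (nat_lit 0) (XT.lf (nat_lit 0) (nat_lit 2742463381) (nat_lit 152) (nat_lit 49183035698) (nat_lit 228) (nat_lit 2099837534) (nat_lit 58) (nat_lit 5) (nat_lit 60) (nat_lit 5) (nat_lit 61) (nat_lit 5) (nat_lit 372) (nat_lit 323) (nat_lit 205)) (XT.lf (nat_lit 0) (nat_lit 16558722796) (nat_lit 228) (nat_lit 8324762976) (nat_lit 76) (nat_lit 31055767053) (nat_lit 57) (nat_lit 5) (nat_lit 60) (nat_lit 5) (nat_lit 58) (nat_lit 5) (nat_lit 373) (nat_lit 323) (nat_lit 204)))) (XT.nd (nat_lit 78) (nat_lit 380) (nat_lit 0) (XT.lf (nat_lit 0) (nat_lit 36469564964) (nat_lit 228) (nat_lit 20469269168) (nat_lit 76) (nat_lit 998525348) (nat_lit 55) (nat_lit 5) (nat_lit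 58) (nat_lit 5) (nat_lit 56) (nat_lit 5) (nat_lit 374) (nat_lit 323) (nat_lit 203)) (XT.nd (nat_lit 78) (nat_lit 228) (nat_lit 0) (XT.lf (nat_lit 0) (nat_lit 25932773946) (nat_lit 152) (nat_lit 32022672032) (nat_lit 228) (nat_lit 2062542300) (nat_lit 53) (nat_lit 5) (nat_lit 55) (nat_lit 5) (nat_lit 56) (nat_lit 5) (nat_lit 375) (nat_lit 323) (nat_lit 202)) (XT.lf (nat_lit 0) (nat_lit 12948094409) (nat_lit 152) (nat_lit 5337467360) (nat_lit 228) (nat_lit 43901909023) (nat_lit 50) (nat_lit 5) (nat_lit 52) (nat_lit 5) (nat_lit 53) (nat_lit 5) (nat_lit 376) (nat_lit 323) (nat_lit 201))))) (XT.nd (nat_lit 234) (nat_lit 304) (nat_lit 0) (XT.nd (nat_lit 78) (nat_lit 380) (nat_lit 0) (XT.lf (nat_lit 0) (nat_lit 40174050578) (nat_lit 228) (nat_lit 1664460772) (nat_lit 76) (nat_lit 22609335871) (nat_lit 50) (nat_lit 5) (nat_lit 53) (nat_lit 5) (nat_lit 51) (nat_lit 5) (nat_lit 377) (nat_lit 323) (nat_lit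 200)) (XT.nd (nat_lit 78) (nat_lit 228) (nat_lit 0) (XT.lf (nat_lit 0) (nat_lit 49183082632) (nat_lit 152) (nat_lit 14493726731) (nat_lit 228) (nat_lit 3128839180) (nat_lit 48) (nat_lit 5) (nat_lit 50) (nat_lit 5) (nat_lit 51) (nat_lit 5) (nat_lit 378) (nat_lit 323) (nat_lit 199)) (XT.lf (nat_lit 0) (nat_lit 19178469458) (nat_lit 228) (nat_lit 35616550139) (nat_lit 76) (nat_lit 14466502511) (nat_lit 45) (nat_lit 5) (nat_lit 48) (nat_lit 5) (nat_lit 46) (nat_lit 5) (nat_lit 379) (nat_lit 323) (nat_lit 198)))) (XT.nd (nat_lit 78) (nat_lit 152) (nat_lit 0) (XT.lf (nat_lit 0) (nat_lit 16132962281) (nat_lit 152) (nat_lit 26882147131) (nat_lit 228) (nat_lit 28809791595) (nat_lit 43) (nat_lit 5) (nat_lit 45) (nat_lit 5) (nat_lit 46) (nat_lit 5) (nat_lit 380) (nat_lit 323) (nat_lit 197)) (XT.nd (nat_lit 78) (nat_lit 152) (nat_lit 0) (XT.lf (nat_lit 0) (nat_lit 68430829969) (nat_lit 228) (nat_lit 3329566902)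 (nat_lit 76) (nat_lit 2744435724) (nat_lit 43) (nat_lit 5) (nat_lit 46) (nat_lit 5) (nat_lit 44) (nat_lit 4) (nat_lit 381) (nat_lit 323) (nat_lit 196)) (XT.lf (nat_lit 0) (nat_lit 18227772359) (nat_lit 152) (nat_lit 25083316668) (nat_lit 76) (nat_lit 33979244799) (nat_lit 41) (nat_lit 5) (nat_lit 43) (nat_lit 5) (nat_lit 42) (nat_lit 5) (nat_lit 382) (nat_lit 323) (nat_lit 195))))))) (XT.nd (nat_lit 42588) (nat_lit 0) (nat_lit 12236) (XT.nd (nat_lit 468) (nat_lit 228) (nat_lit 0) (XT.nd (nat_lit 234) (nat_lit 304) (nat_lit 0) (XT.nd (nat_lit 78) (nat_lit 152) (nat_lit 0) (XT.lf (nat_lit 0) (nat_lit 30906722432) (nat_lit 152) (nat_lit 13039253754) (nat_lit 228) (nat_lit 36257522039) (nat_lit 39) (nat_lit 5) (nat_lit 41) (nat_lit 5) (nat_lit 42) (nat_lit 5) (nat_lit 383) (nat_lit 323) (nat_lit 194)) (XT.nd (nat_lit 78) (nat_lit 76) (nat_lit 0) (XT.lf (nat_lit 0) (nat_lit 6907405562) (nat_lit 76)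 (nat_lit 64544270901) (nat_lit 152) (nat_lit 11795597804) (nat_lit 38) (nat_lit 5) (nat_lit 39) (nat_lit 5) (nat_lit 40) (nat_lit 4) (nat_lit 384) (nat_lit 323) (nat_lit 193)) (XT.lf (nat_lit 0) (nat_lit 14256831668) (nat_lit 152) (nat_lit 19756504014) (nat_lit 76) (nat_lit 52406745704) (nat_lit 37) (nat_lit 5) (nat_lit 39) (nat_lit 5) (nat_lit 38) (nat_lit 5) (nat_lit 385) (nat_lit 323) (nat_lit 192)))) (XT.nd (nat_lit 78) (nat_lit 152) (nat_lit 0) (XT.lf (nat_lit 0) (nat_lit 40313835390) (nat_lit 152) (nat_lit 1438496672) (nat_lit 228) (nat_lit 47984162027) (nat_lit 35) (nat_lit 5) (nat_lit 37) (nat_lit 5) (nat_lit 38) (nat_lit 5) (nat_lit 386) (nat_lit 323) (nat_lit 191)) (XT.nd (nat_lit 78) (nat_lit 76) (nat_lit 0) (XT.lf (nat_lit 0) (nat_lit 10465525937) (nat_lit 76) (nat_lit 60772765228) (nat_lit 152) (nat_lit 21961966599) (nat_lit 34) (nat_lit 5) (nat_lit 35) (nat_lit 5) (nat_lit 36)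 (nat_lit 4) (nat_lit 387) (nat_lit 323) (nat_lit 190)) (XT.lf (nat_lit 0) (nat_lit 5779883165) (nat_lit 152) (nat_lit 22521599526) (nat_lit 76) (nat_lit 68518486715) (nat_lit 33) (nat_lit 5) (nat_lit 35) (nat_lit 5) (nat_lit 34) (nat_lit 5) (nat_lit 388) (nat_lit 323) (nat_lit 189))))) (XT.nd (nat_lit 41886) (nat_lit 0) (nat_lit 15960) (XT.nd (nat_lit 78) (nat_lit 76) (nat_lit 0) (XT.lf (nat_lit 0) (nat_lit 34912483140) (nat_lit 228) (nat_lit 59387067260) (nat_lit 76) (nat_lit 6300857670) (nat_lit 31) (nat_lit 5) (nat_lit 34) (nat_lit 5) (nat_lit 32) (nat_lit 4) (nat_lit 389) (nat_lit 323) (nat_lit 188)) (XT.nd (nat_lit 41730) (nat_lit 0) (nat_lit 15960) (XT.lf (nat_lit 0) (nat_lit 3820488474) (nat_lit 76) (nat_lit 62232939929) (nat_lit 152) (nat_lit 38499889517) (nat_lit 30) (nat_lit 5) (nat_lit 31) (nat_lit 5) (nat_lit 32) (nat_lit 4) (nat_lit 390) (nat_lit 323) (nat_lit 187)) (XT.lf (nat_lit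 0) (nat_lit 1322096227) (nat_lit 0) (nat_lit 1322096227) (nat_lit 1140) (nat_lit 4055839190) (nat_lit 240) (nat_lit 5) (nat_lit 240) (nat_lit 3) (nat_lit 255) (nat_lit 3) (nat_lit 324) (nat_lit 324) (nat_lit 252)))) (XT.nd (nat_lit 78) (nat_lit 0) (nat_lit 76) (XT.lf (nat_lit 0) (nat_lit 6096354622) (nat_lit 1140) (nat_lit 248609186) (nat_lit 1216) (nat_lit 7369431769) (nat_lit 240) (nat_lit 5) (nat_lit 255) (nat_lit 3) (nat_lit 256) (nat_lit 5) (nat_lit 325) (nat_lit 324) (nat_lit 251)) (XT.nd (nat_lit 78) (nat_lit 0) (nat_lit 76) (XT.lf (nat_lit 0) (nat_lit 7075831387) (nat_lit 1140) (nat_lit 3128949083) (nat_lit 1216) (nat_lit 3835756135) (nat_lit 241) (nat_lit 5) (nat_lit 256) (nat_lit 5) (nat_lit 257) (nat_lit 5) (nat_lit 326) (nat_lit 324) (nat_lit 250)) (XT.lf (nat_lit 0) (nat_lit 8215428507) (nat_lit 1140) (nat_lit 6051647020) (nat_lit 1216) (nat_lit 112598931) (nat_lit 242) (nat_lit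 5) (nat_lit 257) (nat_lit 5) (nat_lit 258) (nat_lit 5) (nat_lit 327) (nat_lit 324) (nat_lit 249)))))) (XT.nd (nat_lit 468) (nat_lit 2888) (nat_lit 0) (XT.nd (nat_lit 234) (nat_lit 988) (nat_lit 0) (XT.nd (nat_lit 78) (nat_lit 0) (nat_lit 76) (XT.lf (nat_lit 76) (nat_lit 5673851495) (nat_lit 0) (nat_lit 3893257580) (nat_lit 1216) (nat_lit 5164030043) (nat_lit 243) (nat_lit 5) (nat_lit 242) (nat_lit 5) (nat_lit 258) (nat_lit 5) (nat_lit 328) (nat_lit 324) (nat_lit 248)) (XT.nd (nat_lit 78) (nat_lit 0) (nat_lit 76) (XT.lf (nat_lit 76) (nat_lit 2981564615) (nat_lit 0) (nat_lit 8130275539) (nat_lit 1216) (nat_lit 3984594788) (nat_lit 244) (nat_lit 5) (nat_lit 243) (nat_lit 5) (nat_lit 259) (nat_lit 5) (nat_lit 329) (nat_lit 324) (nat_lit 247)) (XT.lf (nat_lit 76) (nat_lit 249529277) (nat_lit 0) (nat_lit 12614843753) (nat_lit 1216) (nat_lit 2611726450) (nat_lit 245) (nat_lit 5) (nat_lit 244) (nat_lit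 5) (nat_lit 260) (nat_lit 5) (nat_lit 330) (nat_lit 324) (nat_lit 246)))) (XT.nd (nat_lit 78) (nat_lit 1140) (nat_lit 0) (XT.lf (nat_lit 76) (nat_lit 13379346415) (nat_lit 0) (nat_lit 1500548924) (nat_lit 1216) (nat_lit 989610907) (nat_lit 245) (nat_lit 5) (nat_lit 244) (nat_lit 5) (nat_lit 260) (nat_lit 5) (nat_lit 331) (nat_lit 324) (nat_lit 245)) (XT.nd (nat_lit 78) (nat_lit 0) (nat_lit 76) (XT.lf (nat_lit 0) (nat_lit 875595766) (nat_lit 1216) (nat_lit 5308619597) (nat_lit 1292) (nat_lit 10092903272) (nat_lit 229) (nat_lit 5) (nat_lit 245) (nat_lit 5) (nat_lit 246) (nat_lit 5) (nat_lit 332) (nat_lit 324) (nat_lit 244)) (XT.lf (nat_lit 0) (nat_lit 2963379449) (nat_lit 1216) (nat_lit 8188911852) (nat_lit 1292) (nat_lit 5548050411) (nat_lit 230) (nat_lit 5) (nat_lit 246) (nat_lit 5) (nat_lit 247) (nat_lit 5) (nat_lit 333) (nat_lit 324) (nat_lit 243))))) (XT.nd (nat_lit 234) (nat_lit 1216) (nat_lit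 0) (XT.nd (nat_lit 78) (nat_lit 1824) (nat_lit 0) (XT.lf (nat_lit 0) (nat_lit 5310958985) (nat_lit 1216) (nat_lit 11124675717) (nat_lit 76) (nat_lit 704445717) (nat_lit 231) (nat_lit 5) (nat_lit 247) (nat_lit 5) (nat_lit 232) (nat_lit 5) (nat_lit 334) (nat_lit 324) (nat_lit 242)) (XT.nd (nat_lit 78) (nat_lit 608) (nat_lit 0) (XT.lf (nat_lit 0) (nat_lit 3432807868) (nat_lit 1216) (nat_lit 4547920782) (nat_lit 1292) (nat_lit 9614948962) (nat_lit 215) (nat_lit 5) (nat_lit 231) (nat_lit 5) (nat_lit 232) (nat_lit 5) (nat_lit 335) (nat_lit 324) (nat_lit 241)) (XT.lf (nat_lit 0) (nat_lit 795431558) (nat_lit 608) (nat_lit 10163290104) (nat_lit 684) (nat_lit 7110106083) (nat_lit 207) (nat_lit 5) (nat_lit 215) (nat_lit 5) (nat_lit 216) (nat_lit 5) (nat_lit 336) (nat_lit 324) (nat_lit 240)))) (XT.nd (nat_lit 78) (nat_lit 1216) (nat_lit 0) (XT.lf (nat_lit 0) (nat_lit 14276798497) (nat_lit 684) (nat_lit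 1855689862) (nat_lit 76) (nat_lit 2427425909) (nat_lit 207) (nat_lit 5) (nat_lit 216) (nat_lit 5) (nat_lit 208) (nat_lit 5) (nat_lit 337) (nat_lit 324) (nat_lit 239)) (XT.nd (nat_lit 78) (nat_lit 684) (nat_lit 0) (XT.lf (nat_lit 0) (nat_lit 14491381834) (nat_lit 532) (nat_lit 3488569100) (nat_lit 608) (nat_lit 1089042751) (nat_lit 200) (nat_lit 5) (nat_lit 207) (nat_lit 5) (nat_lit 208) (nat_lit 5) (nat_lit 338) (nat_lit 324) (nat_lit 238)) (XT.lf (nat_lit 0) (nat_lit 2431557163) (nat_lit 684) (nat_lit 7407184817) (nat_lit 76) (nat_lit 9757814190) (nat_lit 191) (nat_lit 5) (nat_lit 200) (nat_lit 5) (nat_lit 192) (nat_lit 5) (nat_lit 339) (nat_lit 324) (nat_lit 237))))))))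
noncomputable def xc90 : XT := (XT.nd (nat_lit 1794) (nat_lit 3800) (nat_lit 0) (XT.nd (nat_lit 858) (nat_lit 3268) (nat_lit 0) (XT.nd (nat_lit 390) (nat_lit 2584) (nat_lit 0) (XT.nd (nat_lit 156) (nat_lit 988) (nat_lit 0) (XT.nd (nat_lit 78) (nat_lit 532) (nat_lit 0) (XT.lf (nat_lit 0) (nat_lit 6296936305) (nat_lit 608) (nat_lit 10314581916) (nat_lit 76) (nat_lit 3532928993) (nat_lit 184) (nat_lit 5) (nat_lit 192) (nat_lit 5) (nat_lit 185) (nat_lit 5) (nat_lit 340) (nat_lit 324) (nat_lit 236)) (XT.lf (nat_lit 0) (nat_lit 7388649950) (nat_lit 532) (nat_lit 3193864573) (nat_lit 608) (nat_lit 10130421890) (nat_lit 177) (nat_lit 5) (nat_lit 184) (nat_lit 5) (nat_lit 185) (nat_lit 5) (nat_lit 341) (nat_lit 324) (nat_lit 235))) (XT.nd (nat_lit 78) (nat_lit 532) (nat_lit 0) (XT.lf (nat_lit 0) (nat_lit 4853301933) (nat_lit 456) (nat_lit 10468032754) (nat_lit 532) (nat_lit 5981357454) (nat_lit 171)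 (nat_lit 5) (nat_lit 177) (nat_lit 5) (nat_lit 178) (nat_lit 5) (nat_lit 342) (nat_lit 324) (nat_lit 234)) (XT.nd (nat_lit 78) (nat_lit 76) (nat_lit 0) (XT.lf (nat_lit 0) (nat_lit 2255234124) (nat_lit 456) (nat_lit 18249441400) (nat_lit 532) (nat_lit 1411043179) (nat_lit 165) (nat_lit 5) (nat_lit 171) (nat_lit 5) (nat_lit 172) (nat_lit 5) (nat_lit 343) (nat_lit 324) (nat_lit 233)) (XT.lf (nat_lit 0) (nat_lit 3579922438) (nat_lit 532) (nat_lit 476631574) (nat_lit 76) (nat_lit 18494127963) (nat_lit 164) (nat_lit 5) (nat_lit 171) (nat_lit 5) (nat_lit 165) (nat_lit 5) (nat_lit 344) (nat_lit 324) (nat_lit 232))))) (XT.nd (nat_lit 234) (nat_lit 1292) (nat_lit 0) (XT.nd (nat_lit 78) (nat_lit 836) (nat_lit 0) (XT.lf (nat_lit 0) (nat_lit 9072729803) (nat_lit 532) (nat_lit 3295358592) (nat_lit 76) (nat_lit 10840450805) (nat_lit 158) (nat_lit 5) (nat_lit 165) (nat_lit 5) (nat_lit 159) (nat_lit 5) (nat_lit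 345) (nat_lit 324) (nat_lit 231)) (XT.nd (nat_lit 78) (nat_lit 380) (nat_lit 0) (XT.lf (nat_lit 0) (nat_lit 15065214258) (nat_lit 532) (nat_lit 6201164041) (nat_lit 76) (nat_lit 2626168638) (nat_lit 152) (nat_lit 5) (nat_lit 159) (nat_lit 5) (nat_lit 153) (nat_lit 5) (nat_lit 346) (nat_lit 324) (nat_lit 230)) (XT.lf (nat_lit 0) (nat_lit 15340734559) (nat_lit 380) (nat_lit 6306807916) (nat_lit 456) (nat_lit 2954514338) (nat_lit 147) (nat_lit 5) (nat_lit 152) (nat_lit 5) (nat_lit 153) (nat_lit 5) (nat_lit 347) (nat_lit 324) (nat_lit 229)))) (XT.nd (nat_lit 78) (nat_lit 760) (nat_lit 0) (XT.lf (nat_lit 0) (nat_lit 3414769922) (nat_lit 532) (nat_lit 12487930750) (nat_lit 76) (nat_lit 9435457915) (nat_lit 140) (nat_lit 5) (nat_lit 147) (nat_lit 5) (nat_lit 141) (nat_lit 5) (nat_lit 348) (nat_lit 324) (nat_lit 228)) (XT.nd (nat_lit 78) (nat_lit 380) (nat_lit 0) (XT.lf (nat_lit 0) (nat_lit 10238403042)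 (nat_lit 380) (nat_lit 46559522) (nat_lit 456) (nat_lit 15817926207) (nat_lit 135) (nat_lit 5) (nat_lit 140) (nat_lit 5) (nat_lit 141) (nat_lit 5) (nat_lit 349) (nat_lit 324) (nat_lit 227)) (XT.lf (nat_lit 0) (nat_lit 7424533450) (nat_lit 380) (nat_lit 10420050659) (nat_lit 456) (nat_lit 9050900769) (nat_lit 130) (nat_lit 5) (nat_lit 135) (nat_lit 5) (nat_lit 136) (nat_lit 5) (nat_lit 350) (nat_lit 324) (nat_lit 226)))))) (XT.nd (nat_lit 468) (nat_lit 1520) (nat_lit 0) (XT.nd (nat_lit 234) (nat_lit 988) (nat_lit 0) (XT.nd (nat_lit 78) (nat_lit 456) (nat_lit 0) (XT.lf (nat_lit 0) (nat_lit 4494415205) (nat_lit 304) (nat_lit 21540569901) (nat_lit 380) (nat_lit 1685148392) (nat_lit 126) (nat_lit 5) (nat_lit 130) (nat_lit 5) (nat_lit 131) (nat_lit 5) (nat_lit 351) (nat_lit 324) (nat_lit 225)) (XT.nd (nat_lit 78) (nat_lit 0) (nat_lit 0) (XT.lf (nat_lit 0) (nat_lit 1326454465) (nat_lit 380) (nat_lit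 4910720440) (nat_lit 456) (nat_lit 22337911865) (nat_lit 120) (nat_lit 5) (nat_lit 125) (nat_lit 5) (nat_lit 126) (nat_lit 5) (nat_lit 352) (nat_lit 324) (nat_lit 224)) (XT.lf (nat_lit 0) (nat_lit 14869604008) (nat_lit 456) (nat_lit 2032929208) (nat_lit 76) (nat_lit 12559294580) (nat_lit 120) (nat_lit 5) (nat_lit 126) (nat_lit 5) (nat_lit 121) (nat_lit 5) (nat_lit 353) (nat_lit 324) (nat_lit 223)))) (XT.nd (nat_lit 78) (nat_lit 684) (nat_lit 0) (XT.lf (nat_lit 0) (nat_lit 24215530626) (nat_lit 380) (nat_lit 5529765146) (nat_lit 76) (nat_lit 639159405) (nat_lit 116) (nat_lit 5) (nat_lit 121) (nat_lit 5) (nat_lit 117) (nat_lit 5) (nat_lit 354) (nat_lit 324) (nat_lit 222)) (XT.nd (nat_lit 78) (nat_lit 304) (nat_lit 0) (XT.lf (nat_lit 0) (nat_lit 3018041878) (nat_lit 380) (nat_lit 9353458377) (nat_lit 76) (nat_lit 18969105919) (nat_lit 111) (nat_lit 5) (nat_lit 116) (nat_lit 5) (nat_lit 112) (nat_lit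 5) (nat_lit 355) (nat_lit 324) (nat_lit 221)) (XT.lf (nat_lit 0) (nat_lit 12824671588) (nat_lit 380) (nat_lit 13453388304) (nat_lit 76) (nat_lit 6056040458) (nat_lit 107) (nat_lit 5) (nat_lit 112) (nat_lit 5) (nat_lit 108) (nat_lit 5) (nat_lit 356) (nat_lit 324) (nat_lit 220))))) (XT.nd (nat_lit 234) (nat_lit 608) (nat_lit 0) (XT.nd (nat_lit 78) (nat_lit 608) (nat_lit 0) (XT.lf (nat_lit 0) (nat_lit 15507106524) (nat_lit 304) (nat_lit 7973836360) (nat_lit 380) (nat_lit 9885551734) (nat_lit 103) (nat_lit 5) (nat_lit 107) (nat_lit 5) (nat_lit 108) (nat_lit 5) (nat_lit 357) (nat_lit 324) (nat_lit 219)) (XT.nd (nat_lit 78) (nat_lit 304) (nat_lit 0) (XT.lf (nat_lit 0) (nat_lit 569110854) (nat_lit 304) (nat_lit 22590446771) (nat_lit 76) (nat_lit 11280275740) (nat_lit 99) (nat_lit 5) (nat_lit 103) (nat_lit 5) (nat_lit 100) (nat_lit 5) (nat_lit 358) (nat_lit 324) (nat_lit 218)) (XT.lf (nat_lit 0) (nat_lit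 7808908617) (nat_lit 304) (nat_lit 3865026605) (nat_lit 380) (nat_lit 23880015338) (nat_lit 95) (nat_lit 5) (nat_lit 99) (nat_lit 5) (nat_lit 100) (nat_lit 5) (nat_lit 359) (nat_lit 324) (nat_lit 217)))) (XT.nd (nat_lit 78) (nat_lit 380) (nat_lit 0) (XT.lf (nat_lit 0) (nat_lit 3372759674) (nat_lit 228) (nat_lit 20375192730) (nat_lit 304) (nat_lit 12963406592) (nat_lit 92) (nat_lit 5) (nat_lit 95) (nat_lit 5) (nat_lit 96) (nat_lit 5) (nat_lit 360) (nat_lit 324) (nat_lit 216)) (XT.nd (nat_lit 78) (nat_lit 380) (nat_lit 0) (XT.lf (nat_lit 0) (nat_lit 36570262254) (nat_lit 228) (nat_lit 169099092) (nat_lit 304) (nat_lit 1177869522) (nat_lit 92) (nat_lit 5) (nat_lit 95) (nat_lit 5) (nat_lit 96) (nat_lit 5) (nat_lit 361) (nat_lit 324) (nat_lit 215)) (XT.lf (nat_lit 0) (nat_lit 11489665081) (nat_lit 380) (nat_lit 6617222322) (nat_lit 76) (nat_lit 21057947032) (nat_lit 87) (nat_lit 5) (nat_lit 92) (nat_lit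 5) (nat_lit 88) (nat_lit 5) (nat_lit 362) (nat_lit 324) (nat_lit 214))))))) (XT.nd (nat_lit 936) (nat_lit 1520) (nat_lit 0) (XT.nd (nat_lit 468) (nat_lit 1064) (nat_lit 0) (XT.nd (nat_lit 234) (nat_lit 456) (nat_lit 0) (XT.nd (nat_lit 78) (nat_lit 532) (nat_lit 0) (XT.lf (nat_lit 0) (nat_lit 25073938999) (nat_lit 304) (nat_lit 12284582978) (nat_lit 76) (nat_lit 3106717953) (nat_lit 84) (nat_lit 5) (nat_lit 88) (nat_lit 5) (nat_lit 85) (nat_lit 5) (nat_lit 363) (nat_lit 324) (nat_lit 213)) (XT.nd (nat_lit 78) (nat_lit 304) (nat_lit 0) (XT.lf (nat_lit 0) (nat_lit 23283788308) (nat_lit 228) (nat_lit 16519416821) (nat_lit 304) (nat_lit 2013490353) (nat_lit 81) (nat_lit 5) (nat_lit 84) (nat_lit 5) (nat_lit 85) (nat_lit 5) (nat_lit 364) (nat_lit 324) (nat_lit 212)) (XT.lf (nat_lit 0) (nat_lit 12144135572) (nat_lit 304) (nat_lit 25406932491) (nat_lit 76) (nat_lit 5670816450) (nat_lit 77) (nat_lit 5)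 (nat_lit 81) (nat_lit 5) (nat_lit 78) (nat_lit 5) (nat_lit 365) (nat_lit 324) (nat_lit 211)))) (XT.nd (nat_lit 78) (nat_lit 228) (nat_lit 0) (XT.lf (nat_lit 0) (nat_lit 11700485320) (nat_lit 228) (nat_lit 15730661926) (nat_lit 304) (nat_lit 17251696050) (nat_lit 74) (nat_lit 5) (nat_lit 77) (nat_lit 5) (nat_lit 78) (nat_lit 5) (nat_lit 366) (nat_lit 324) (nat_lit 210)) (XT.nd (nat_lit 78) (nat_lit 76) (nat_lit 0) (XT.lf (nat_lit 0) (nat_lit 4996529282) (nat_lit 152) (nat_lit 38858294341) (nat_lit 228) (nat_lit 2350859604) (nat_lit 72) (nat_lit 5) (nat_lit 74) (nat_lit 5) (nat_lit 75) (nat_lit 5) (nat_lit 367) (nat_lit 324) (nat_lit 209)) (XT.lf (nat_lit 0) (nat_lit 13528570431) (nat_lit 228) (nat_lit 2535132923) (nat_lit 76) (nat_lit 31722340671) (nat_lit 71) (nat_lit 5) (nat_lit 74) (nat_lit 5) (nat_lit 72) (nat_lit 5) (nat_lit 368) (nat_lit 324) (nat_lit 208))))) (XT.nd (nat_lit 234) (nat_lit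 380) (nat_lit 0) (XT.nd (nat_lit 78) (nat_lit 456) (nat_lit 0) (XT.lf (nat_lit 0) (nat_lit 30597970677) (nat_lit 304) (nat_lit 10721102061) (nat_lit 76) (nat_lit 8112315628) (nat_lit 68) (nat_lit 5) (nat_lit 72) (nat_lit 5) (nat_lit 69) (nat_lit 5) (nat_lit 369) (nat_lit 324) (nat_lit 207)) (XT.nd (nat_lit 78) (nat_lit 304) (nat_lit 0) (XT.lf (nat_lit 0) (nat_lit 31348634792) (nat_lit 152) (nat_lit 17653993466) (nat_lit 228) (nat_lit 2141920252) (nat_lit 66) (nat_lit 5) (nat_lit 68) (nat_lit 5) (nat_lit 69) (nat_lit 5) (nat_lit 370) (nat_lit 324) (nat_lit 206)) (XT.lf (nat_lit 0) (nat_lit 15483409665) (nat_lit 304) (nat_lit 29908721081) (nat_lit 76) (nat_lit 7534817764) (nat_lit 62) (nat_lit 5) (nat_lit 66) (nat_lit 5) (nat_lit 63) (nat_lit 5) (nat_lit 371) (nat_lit 324) (nat_lit 205)))) (XT.nd (nat_lit 78) (nat_lit 228) (nat_lit 0) (XT.lf (nat_lit 0) (nat_lit 13645845616) (nat_lit 152) (nat_lit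 20807765975) (nat_lit 228) (nat_lit 20328985537) (nat_lit 60) (nat_lit 5) (nat_lit 62) (nat_lit 5) (nat_lit 63) (nat_lit 5) (nat_lit 372) (nat_lit 324) (nat_lit 204)) (XT.nd (nat_lit 78) (nat_lit 76) (nat_lit 0) (XT.lf (nat_lit 0) (nat_lit 3281408213) (nat_lit 152) (nat_lit 51474037542) (nat_lit 228) (nat_lit 1964090610) (nat_lit 58) (nat_lit 5) (nat_lit 60) (nat_lit 5) (nat_lit 61) (nat_lit 5) (nat_lit 373) (nat_lit 324) (nat_lit 203)) (XT.lf (nat_lit 0) (nat_lit 17611460003) (nat_lit 228) (nat_lit 8353787208) (nat_lit 76) (nat_lit 32764171586) (nat_lit 57) (nat_lit 5) (nat_lit 60) (nat_lit 5) (nat_lit 58) (nat_lit 5) (nat_lit 374) (nat_lit 324) (nat_lit 202)))))) (XT.nd (nat_lit 468) (nat_lit 608) (nat_lit 0) (XT.nd (nat_lit 234) (nat_lit 380) (nat_lit 0) (XT.nd (nat_lit 78) (nat_lit 380) (nat_lit 0) (XT.lf (nat_lit 0) (nat_lit 38512277573) (nat_lit 228) (nat_lit 21111559301) (nat_lit 76)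 (nat_lit 1203763417) (nat_lit 55) (nat_lit 5) (nat_lit 58) (nat_lit 5) (nat_lit 56) (nat_lit 5) (nat_lit 375) (nat_lit 324) (nat_lit 201)) (XT.nd (nat_lit 78) (nat_lit 228) (nat_lit 0) (XT.lf (nat_lit 0) (nat_lit 27599659711) (nat_lit 152) (nat_lit 33465912236) (nat_lit 228) (nat_lit 1946897389) (nat_lit 53) (nat_lit 5) (nat_lit 55) (nat_lit 5) (nat_lit 56) (nat_lit 5) (nat_lit 376) (nat_lit 324) (nat_lit 200)) (XT.lf (nat_lit 0) (nat_lit 13959324824) (nat_lit 152) (nat_lit 5448300916) (nat_lit 228) (nat_lit 45882940870) (nat_lit 50) (nat_lit 5) (nat_lit 52) (nat_lit 5) (nat_lit 53) (nat_lit 5) (nat_lit 377) (nat_lit 324) (nat_lit 199)))) (XT.nd (nat_lit 78) (nat_lit 380) (nat_lit 0) (XT.lf (nat_lit 0) (nat_lit 42382072947) (nat_lit 228) (nat_lit 1396632890) (nat_lit 76) (nat_lit 23885512106) (nat_lit 50) (nat_lit 5) (nat_lit 53) (nat_lit 5) (nat_lit 51) (nat_lit 5) (nat_lit 378) (nat_lit 324)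 (nat_lit 198)) (XT.nd (nat_lit 78) (nat_lit 228) (nat_lit 0) (XT.lf (nat_lit 0) (nat_lit 51983224880) (nat_lit 152) (nat_lit 15070531156) (nat_lit 228) (nat_lit 3086341705) (nat_lit 48) (nat_lit 5) (nat_lit 50) (nat_lit 5) (nat_lit 51) (nat_lit 5) (nat_lit 379) (nat_lit 324) (nat_lit 197)) (XT.lf (nat_lit 0) (nat_lit 20327786088) (nat_lit 228) (nat_lit 37058052428) (nat_lit 76) (nat_lit 15333010879) (nat_lit 45) (nat_lit 5) (nat_lit 48) (nat_lit 5) (nat_lit 46) (nat_lit 5) (nat_lit 380) (nat_lit 324) (nat_lit 196))))) (XT.nd (nat_lit 234) (nat_lit 304) (nat_lit 0) (XT.nd (nat_lit 78) (nat_lit 152) (nat_lit 0) (XT.lf (nat_lit 0) (nat_lit 17269208923) (nat_lit 152) (nat_lit 28081151077) (nat_lit 228) (nat_lit 30060215942) (nat_lit 43) (nat_lit 5) (nat_lit 45) (nat_lit 5) (nat_lit 46) (nat_lit 5) (nat_lit 381) (nat_lit 324) (nat_lit 195)) (XT.nd (nat_lit 78) (nat_lit 152) (nat_lit 0) (XT.lf (nat_lit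 0) (nat_lit 72029409507) (nat_lit 228) (nat_lit 3178165418) (nat_lit 76) (nat_lit 3017154577) (nat_lit 43) (nat_lit 5) (nat_lit 46) (nat_lit 5) (nat_lit 44) (nat_lit 4) (nat_lit 382) (nat_lit 324) (nat_lit 194)) (XT.lf (nat_lit 0) (nat_lit 19312466827) (nat_lit 152) (nat_lit 26025234457) (nat_lit 76) (nat_lit 35811919007) (nat_lit 41) (nat_lit 5) (nat_lit 43) (nat_lit 5) (nat_lit 42) (nat_lit 5) (nat_lit 383) (nat_lit 324) (nat_lit 193)))) (XT.nd (nat_lit 78) (nat_lit 152) (nat_lit 0) (XT.lf (nat_lit 0) (nat_lit 32755356071) (nat_lit 152) (nat_lit 13555887597) (nat_lit 228) (nat_lit 37897360836) (nat_lit 39) (nat_lit 5) (nat_lit 41) (nat_lit 5) (nat_lit 42) (nat_lit 5) (nat_lit 384) (nat_lit 324) (nat_lit 192)) (XT.nd (nat_lit 78) (nat_lit 76) (nat_lit 0) (XT.lf (nat_lit 0) (nat_lit 7551039162) (nat_lit 76) (nat_lit 67637297296) (nat_lit 152) (nat_lit 12216351073) (nat_lit 38) (nat_lit 5) (nat_lit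 39) (nat_lit 5) (nat_lit 40) (nat_lit 4) (nat_lit 385) (nat_lit 324) (nat_lit 191)) (XT.lf (nat_lit 0) (nat_lit 15127509730) (nat_lit 152) (nat_lit 20457101610) (nat_lit 76) (nat_lit 55151712978) (nat_lit 37) (nat_lit 5) (nat_lit 39) (nat_lit 5) (nat_lit 38) (nat_lit 5) (nat_lit 386) (nat_lit 324) (nat_lit 190))))))))
noncomputable def xc91 : XT := (XT.nd (nat_lit 43602) (nat_lit 0) (nat_lit 3116) (XT.nd (nat_lit 42666) (nat_lit 0) (nat_lit 10184) (XT.nd (nat_lit 42198) (nat_lit 0) (nat_lit 15960) (XT.nd (nat_lit 234) (nat_lit 152) (nat_lit 0) (XT.nd (nat_lit 78) (nat_lit 152) (nat_lit 0) (XT.lf (nat_lit 0) (nat_lit 42608521442) (nat_lit 152) (nat_lit 1384429543) (nat_lit 228) (nat_lit 50225752937) (nat_lit 35) (nat_lit 5) (nat_lit 37) (nat_lit 5) (nat_lit 38) (nat_lit 5) (nat_lit 387) (nat_lit 324) (nat_lit 189)) (XT.nd (nat_lit 78) (nat_lit 76) (nat_lit 0) (XT.lf (nat_lit 0) (nat_lit 11263105393)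 (nat_lit 76) (nat_lit 63686607035) (nat_lit 152) (nat_lit 22906049402) (nat_lit 34) (nat_lit 5) (nat_lit 35) (nat_lit 5) (nat_lit 36) (nat_lit 4) (nat_lit 388) (nat_lit 324) (nat_lit 188)) (XT.lf (nat_lit 0) (nat_lit 6212696493) (nat_lit 152) (nat_lit 23383554274) (nat_lit 76) (nat_lit 72060380692) (nat_lit 33) (nat_lit 5) (nat_lit 35) (nat_lit 5) (nat_lit 34) (nat_lit 5) (nat_lit 389) (nat_lit 324) (nat_lit 187)))) (XT.nd (nat_lit 41808) (nat_lit 0) (nat_lit 15884) (XT.lf (nat_lit 0) (nat_lit 36798669894) (nat_lit 228) (nat_lit 62096788390) (nat_lit 76) (nat_lit 6730732510) (nat_lit 31) (nat_lit 5) (nat_lit 34) (nat_lit 5) (nat_lit 32) (nat_lit 4) (nat_lit 390) (nat_lit 324) (nat_lit 186)) (XT.nd (nat_lit 78) (nat_lit 0) (nat_lit 0) (XT.lf (nat_lit 0) (nat_lit 1685245171) (nat_lit 0) (nat_lit 1685245171) (nat_lit 1140) (nat_lit 3646329935) (nat_lit 240) (nat_lit 5) (nat_lit 240) (nat_lit 3)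 (nat_lit 255) (nat_lit 3) (nat_lit 325) (nat_lit 325) (nat_lit 250)) (XT.lf (nat_lit 76) (nat_lit 351752796) (nat_lit 0) (nat_lit 7178958717) (nat_lit 1216) (nat_lit 6834774239) (nat_lit 241) (nat_lit 5) (nat_lit 240) (nat_lit 5) (nat_lit 256) (nat_lit 5) (nat_lit 326) (nat_lit 325) (nat_lit 249))))) (XT.nd (nat_lit 234) (nat_lit 0) (nat_lit 152) (XT.nd (nat_lit 78) (nat_lit 0) (nat_lit 0) (XT.lf (nat_lit 0) (nat_lit 8503105267) (nat_lit 1140) (nat_lit 2659076565) (nat_lit 1216) (nat_lit 3547469106) (nat_lit 241) (nat_lit 5) (nat_lit 256) (nat_lit 5) (nat_lit 257) (nat_lit 5) (nat_lit 327) (nat_lit 325) (nat_lit 248)) (XT.nd (nat_lit 78) (nat_lit 0) (nat_lit 76) (XT.lf (nat_lit 76) (nat_lit 9353989326) (nat_lit 0) (nat_lit 299263596) (nat_lit 1216) (nat_lit 5413919357) (nat_lit 242) (nat_lit 5) (nat_lit 241) (nat_lit 5) (nat_lit 257) (nat_lit 5) (nat_lit 328) (nat_lit 325) (nat_lit 247)) (XT.lf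 (nat_lit 76) (nat_lit 6583009265) (nat_lit 0) (nat_lit 4443873605) (nat_lit 1216) (nat_lit 4410728453) (nat_lit 243) (nat_lit 5) (nat_lit 242) (nat_lit 5) (nat_lit 258) (nat_lit 5) (nat_lit 329) (nat_lit 325) (nat_lit 246)))) (XT.nd (nat_lit 78) (nat_lit 0) (nat_lit 76) (XT.lf (nat_lit 76) (nat_lit 3770725144) (nat_lit 0) (nat_lit 8834285310) (nat_lit 1216) (nat_lit 3217507265) (nat_lit 244) (nat_lit 5) (nat_lit 243) (nat_lit 5) (nat_lit 259) (nat_lit 5) (nat_lit 330) (nat_lit 325) (nat_lit 245)) (XT.nd (nat_lit 78) (nat_lit 0) (nat_lit 0) (XT.lf (nat_lit 76) (nat_lit 914433122) (nat_lit 0) (nat_lit 13489638261) (nat_lit 1216) (nat_lit 1818356184) (nat_lit 245) (nat_lit 5) (nat_lit 244) (nat_lit 5) (nat_lit 260) (nat_lit 5) (nat_lit 331) (nat_lit 325) (nat_lit 244)) (XT.lf (nat_lit 76) (nat_lit 14669673147) (nat_lit 0) (nat_lit 1808007151) (nat_lit 1216) (nat_lit 159132796) (nat_lit 245) (nat_lit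 5) (nat_lit 244) (nat_lit 5) (nat_lit 260) (nat_lit 5) (nat_lit 332) (nat_lit 325) (nat_lit 243)))))) (XT.nd (nat_lit 468) (nat_lit 3192) (nat_lit 0) (XT.nd (nat_lit 234) (nat_lit 1672) (nat_lit 0) (XT.nd (nat_lit 78) (nat_lit 0) (nat_lit 76) (XT.lf (nat_lit 0) (nat_lit 1745055929) (nat_lit 1216) (nat_lit 4925968125) (nat_lit 1292) (nat_lit 10394667149) (nat_lit 229) (nat_lit 5) (nat_lit 245) (nat_lit 5) (nat_lit 246) (nat_lit 5) (nat_lit 333) (nat_lit 325) (nat_lit 242)) (XT.nd (nat_lit 78) (nat_lit 0) (nat_lit 76) (XT.lf (nat_lit 0) (nat_lit 3902395900) (nat_lit 1216) (nat_lit 7943025244) (nat_lit 1292) (nat_lit 5665723702) (nat_lit 230) (nat_lit 5) (nat_lit 246) (nat_lit 5) (nat_lit 247) (nat_lit 5) (nat_lit 334) (nat_lit 325) (nat_lit 241)) (XT.lf (nat_lit 0) (nat_lit 6334633849) (nat_lit 1216) (nat_lit 11019937755) (nat_lit 76) (nat_lit 619303765) (nat_lit 231) (nat_lit 5) (nat_lit 247)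 (nat_lit 5) (nat_lit 232) (nat_lit 5) (nat_lit 335) (nat_lit 325) (nat_lit 240)))) (XT.nd (nat_lit 78) (nat_lit 608) (nat_lit 0) (XT.lf (nat_lit 0) (nat_lit 4246473387) (nat_lit 1216) (nat_lit 4861488867) (nat_lit 1292) (nat_lit 9345210216) (nat_lit 215) (nat_lit 5) (nat_lit 231) (nat_lit 5) (nat_lit 232) (nat_lit 5) (nat_lit 336) (nat_lit 325) (nat_lit 239)) (XT.nd (nat_lit 78) (nat_lit 0) (nat_lit 0) (XT.lf (nat_lit 0) (nat_lit 1481279447) (nat_lit 608) (nat_lit 10724321001) (nat_lit 684) (nat_lit 6745278396) (nat_lit 207) (nat_lit 5) (nat_lit 215) (nat_lit 5) (nat_lit 216) (nat_lit 5) (nat_lit 337) (nat_lit 325) (nat_lit 238)) (XT.lf (nat_lit 0) (nat_lit 15655814153) (nat_lit 684) (nat_lit 1312307895) (nat_lit 76) (nat_lit 2499430750) (nat_lit 207) (nat_lit 5) (nat_lit 216) (nat_lit 5) (nat_lit 208) (nat_lit 5) (nat_lit 338) (nat_lit 325) (nat_lit 237))))) (XT.nd (nat_lit 234) (nat_lit 1444)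 (nat_lit 0) (XT.nd (nat_lit 78) (nat_lit 1216) (nat_lit 0) (XT.lf (nat_lit 0) (nat_lit 15833881802) (nat_lit 532) (nat_lit 3684507305) (nat_lit 608) (nat_lit 484488270) (nat_lit 200) (nat_lit 5) (nat_lit 207) (nat_lit 5) (nat_lit 208) (nat_lit 5) (nat_lit 339) (nat_lit 325) (nat_lit 236)) (XT.nd (nat_lit 78) (nat_lit 532) (nat_lit 0) (XT.lf (nat_lit 0) (nat_lit 3174327508) (nat_lit 684) (nat_lit 7145403194) (nat_lit 76) (nat_lit 10237663573) (nat_lit 191) (nat_lit 5) (nat_lit 200) (nat_lit 5) (nat_lit 192) (nat_lit 5) (nat_lit 340) (nat_lit 325) (nat_lit 235)) (XT.lf (nat_lit 0) (nat_lit 7209456024) (nat_lit 608) (nat_lit 10198186508) (nat_lit 76) (nat_lit 3725759780) (nat_lit 184) (nat_lit 5) (nat_lit 192) (nat_lit 5) (nat_lit 185) (nat_lit 5) (nat_lit 341) (nat_lit 325) (nat_lit 234)))) (XT.nd (nat_lit 78) (nat_lit 912) (nat_lit 0) (XT.lf (nat_lit 0) (nat_lit 8372087229) (nat_lit 532) (nat_lit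 3314667500) (nat_lit 608) (nat_lit 10044254047) (nat_lit 177) (nat_lit 5) (nat_lit 184) (nat_lit 5) (nat_lit 185) (nat_lit 5) (nat_lit 342) (nat_lit 325) (nat_lit 233)) (XT.nd (nat_lit 78) (nat_lit 456) (nat_lit 0) (XT.lf (nat_lit 0) (nat_lit 5709079056) (nat_lit 456) (nat_lit 10932300085) (nat_lit 532) (nat_lit 5709522539) (nat_lit 171) (nat_lit 5) (nat_lit 177) (nat_lit 5) (nat_lit 178) (nat_lit 5) (nat_lit 343) (nat_lit 325) (nat_lit 232)) (XT.lf (nat_lit 0) (nat_lit 2979420896) (nat_lit 456) (nat_lit 19084504991) (nat_lit 532) (nat_lit 931267077) (nat_lit 165) (nat_lit 5) (nat_lit 171) (nat_lit 5) (nat_lit 172) (nat_lit 5) (nat_lit 344) (nat_lit 325) (nat_lit 231))))))) (XT.nd (nat_lit 936) (nat_lit 2964) (nat_lit 0) (XT.nd (nat_lit 468) (nat_lit 1824) (nat_lit 0) (XT.nd (nat_lit 234) (nat_lit 1292) (nat_lit 0) (XT.nd (nat_lit 78) (nat_lit 456) (nat_lit 0) (XT.lf (nat_lit 0) (nat_lit 94180989)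 (nat_lit 456) (nat_lit 4179537539) (nat_lit 532) (nat_lit 19388784312) (nat_lit 158) (nat_lit 5) (nat_lit 164) (nat_lit 5) (nat_lit 165) (nat_lit 5) (nat_lit 345) (nat_lit 325) (nat_lit 230)) (XT.nd (nat_lit 78) (nat_lit 456) (nat_lit 0) (XT.lf (nat_lit 0) (nat_lit 10022102065) (nat_lit 532) (nat_lit 2869984922) (nat_lit 76) (nat_lit 11461750686) (nat_lit 158) (nat_lit 5) (nat_lit 165) (nat_lit 5) (nat_lit 159) (nat_lit 5) (nat_lit 346) (nat_lit 325) (nat_lit 229)) (XT.lf (nat_lit 0) (nat_lit 16297033298) (nat_lit 532) (nat_lit 5924342375) (nat_lit 76) (nat_lit 2851197657) (nat_lit 152) (nat_lit 5) (nat_lit 159) (nat_lit 5) (nat_lit 153) (nat_lit 5) (nat_lit 347) (nat_lit 325) (nat_lit 228)))) (XT.nd (nat_lit 78) (nat_lit 912) (nat_lit 0) (XT.lf (nat_lit 0) (nat_lit 16677828362) (nat_lit 380) (nat_lit 6513340810) (nat_lit 456) (nat_lit 2626920419) (nat_lit 147) (nat_lit 5) (nat_lit 152) (nat_lit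 5) (nat_lit 153) (nat_lit 5) (nat_lit 348) (nat_lit 325) (nat_lit 227)) (XT.nd (nat_lit 78) (nat_lit 380) (nat_lit 0) (XT.lf (nat_lit 0) (nat_lit 4035864417) (nat_lit 532) (nat_lit 12536781964) (nat_lit 76) (nat_lit 10018694406) (nat_lit 140) (nat_lit 5) (nat_lit 147) (nat_lit 5) (nat_lit 141) (nat_lit 5) (nat_lit 349) (nat_lit 325) (nat_lit 226)) (XT.lf (nat_lit 0) (nat_lit 11234224436) (nat_lit 456) (nat_lit 16086158607) (nat_lit 76) (nat_lit 74394946) (nat_lit 135) (nat_lit 5) (nat_lit 141) (nat_lit 5) (nat_lit 136) (nat_lit 5) (nat_lit 350) (nat_lit 325) (nat_lit 225))))) (XT.nd (nat_lit 234) (nat_lit 684) (nat_lit 0) (XT.nd (nat_lit 78) (nat_lit 760) (nat_lit 0) (XT.lf (nat_lit 0) (nat_lit 8350471660) (nat_lit 380) (nat_lit 10806420243) (nat_lit 456) (nat_lit 9070569806) (nat_lit 130) (nat_lit 5) (nat_lit 135) (nat_lit 5) (nat_lit 136) (nat_lit 5) (nat_lit 351) (nat_lit 325) (nat_lit 224))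 (XT.nd (nat_lit 78) (nat_lit 456) (nat_lit 0) (XT.lf (nat_lit 0) (nat_lit 5269120309) (nat_lit 304) (nat_lit 22474208232) (nat_lit 380) (nat_lit 1350428041) (nat_lit 126) (nat_lit 5) (nat_lit 130) (nat_lit 5) (nat_lit 131) (nat_lit 5) (nat_lit 352) (nat_lit 325) (nat_lit 223)) (XT.lf (nat_lit 0) (nat_lit 1935112935) (nat_lit 380) (nat_lit 5010373983) (nat_lit 456) (nat_lit 23046288824) (nat_lit 120) (nat_lit 5) (nat_lit 125) (nat_lit 5) (nat_lit 126) (nat_lit 5) (nat_lit 353) (nat_lit 325) (nat_lit 222)))) (XT.nd (nat_lit 78) (nat_lit 684) (nat_lit 0) (XT.lf (nat_lit 0) (nat_lit 15991994285) (nat_lit 456) (nat_lit 1607910143) (nat_lit 76) (nat_lit 13323483868) (nat_lit 120) (nat_lit 5) (nat_lit 126) (nat_lit 5) (nat_lit 121) (nat_lit 5) (nat_lit 354) (nat_lit 325) (nat_lit 221)) (XT.nd (nat_lit 78) (nat_lit 380) (nat_lit 0) (XT.lf (nat_lit 0) (nat_lit 25793492778) (nat_lit 380) (nat_lit 5284956683)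 (nat_lit 76) (nat_lit 814057107) (nat_lit 116) (nat_lit 5) (nat_lit 121) (nat_lit 5) (nat_lit 117) (nat_lit 5) (nat_lit 355) (nat_lit 325) (nat_lit 220)) (XT.lf (nat_lit 0) (nat_lit 3527168005) (nat_lit 380) (nat_lit 9307504022) (nat_lit 76) (nat_lit 20062073676) (nat_lit 111) (nat_lit 5) (nat_lit 116) (nat_lit 5) (nat_lit 112) (nat_lit 5) (nat_lit 356) (nat_lit 325) (nat_lit 219)))))) (XT.nd (nat_lit 468) (nat_lit 1520) (nat_lit 0) (XT.nd (nat_lit 234) (nat_lit 532) (nat_lit 0) (XT.nd (nat_lit 78) (nat_lit 608) (nat_lit 0) (XT.lf (nat_lit 0) (nat_lit 13813336866) (nat_lit 380) (nat_lit 13618107604) (nat_lit 76) (nat_lit 6508800749) (nat_lit 107) (nat_lit 5) (nat_lit 112) (nat_lit 5) (nat_lit 108) (nat_lit 5) (nat_lit 357) (nat_lit 325) (nat_lit 218)) (XT.nd (nat_lit 78) (nat_lit 304) (nat_lit 0) (XT.lf (nat_lit 0) (nat_lit 16775851677) (nat_lit 304) (nat_lit 8214768447) (nat_lit 380) (nat_lit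 10033999657) (nat_lit 103) (nat_lit 5) (nat_lit 107) (nat_lit 5) (nat_lit 108) (nat_lit 5) (nat_lit 358) (nat_lit 325) (nat_lit 217)) (XT.lf (nat_lit 0) (nat_lit 926693824) (nat_lit 304) (nat_lit 23225616917) (nat_lit 76) (nat_lit 11999519651) (nat_lit 99) (nat_lit 5) (nat_lit 103) (nat_lit 5) (nat_lit 100) (nat_lit 5) (nat_lit 359) (nat_lit 325) (nat_lit 216)))) (XT.nd (nat_lit 78) (nat_lit 228) (nat_lit 0) (XT.lf (nat_lit 0) (nat_lit 8679535733) (nat_lit 304) (nat_lit 3896166743) (nat_lit 380) (nat_lit 24746288433) (nat_lit 95) (nat_lit 5) (nat_lit 99) (nat_lit 5) (nat_lit 100) (nat_lit 5) (nat_lit 360) (nat_lit 325) (nat_lit 215)) (XT.nd (nat_lit 78) (nat_lit 0) (nat_lit 0) (XT.lf (nat_lit 0) (nat_lit 4015681747) (nat_lit 228) (nat_lit 21228635771) (nat_lit 304) (nat_lit 13293230818) (nat_lit 92) (nat_lit 5) (nat_lit 95) (nat_lit 5) (nat_lit 96) (nat_lit 5) (nat_lit 361) (nat_lit 325) (nat_lit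 214)) (XT.lf (nat_lit 0) (nat_lit 38850474499) (nat_lit 228) (nat_lit 20109670) (nat_lit 304) (nat_lit 933576233) (nat_lit 92) (nat_lit 5) (nat_lit 95) (nat_lit 5) (nat_lit 96) (nat_lit 5) (nat_lit 362) (nat_lit 325) (nat_lit 213))))) (XT.nd (nat_lit 234) (nat_lit 684) (nat_lit 0) (XT.nd (nat_lit 78) (nat_lit 456) (nat_lit 0) (XT.lf (nat_lit 0) (nat_lit 12353048007) (nat_lit 380) (nat_lit 6496280092) (nat_lit 76) (nat_lit 22264984565) (nat_lit 87) (nat_lit 5) (nat_lit 92) (nat_lit 5) (nat_lit 88) (nat_lit 5) (nat_lit 363) (nat_lit 325) (nat_lit 212)) (XT.nd (nat_lit 78) (nat_lit 228) (nat_lit 0) (XT.lf (nat_lit 0) (nat_lit 26608530142) (nat_lit 304) (nat_lit 12453020023) (nat_lit 76) (nat_lit 3418433029) (nat_lit 84) (nat_lit 5) (nat_lit 88) (nat_lit 5) (nat_lit 85) (nat_lit 5) (nat_lit 364) (nat_lit 325) (nat_lit 211)) (XT.lf (nat_lit 0) (nat_lit 24880991286) (nat_lit 228) (nat_lit 17184054769)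 (nat_lit 304) (nat_lit 1834246250) (nat_lit 81) (nat_lit 5) (nat_lit 84) (nat_lit 5) (nat_lit 85) (nat_lit 5) (nat_lit 365) (nat_lit 325) (nat_lit 210)))) (XT.nd (nat_lit 78) (nat_lit 380) (nat_lit 0) (XT.lf (nat_lit 0) (nat_lit 13018367167) (nat_lit 304) (nat_lit 26244787113) (nat_lit 76) (nat_lit 6111732780) (nat_lit 77) (nat_lit 5) (nat_lit 81) (nat_lit 5) (nat_lit 78) (nat_lit 5) (nat_lit 366) (nat_lit 325) (nat_lit 209)) (XT.nd (nat_lit 78) (nat_lit 152) (nat_lit 0) (XT.lf (nat_lit 0) (nat_lit 12705604293) (nat_lit 228) (nat_lit 16355447872) (nat_lit 304) (nat_lit 17848105789) (nat_lit 74) (nat_lit 5) (nat_lit 77) (nat_lit 5) (nat_lit 78) (nat_lit 5) (nat_lit 367) (nat_lit 325) (nat_lit 208)) (XT.lf (nat_lit 0) (nat_lit 5660501410) (nat_lit 152) (nat_lit 40638570480) (nat_lit 228) (nat_lit 2209276874) (nat_lit 72) (nat_lit 5) (nat_lit 74) (nat_lit 5) (nat_lit 75) (nat_lit 5) (nat_lit 368)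 (nat_lit 325) (nat_lit 207))))))))
noncomputable def xc92 : XT := (XT.nd (nat_lit 43602) (nat_lit 0) (nat_lit 8132) (XT.nd (nat_lit 858) (nat_lit 1292) (nat_lit 0) (XT.nd (nat_lit 390) (nat_lit 760) (nat_lit 0) (XT.nd (nat_lit 156) (nat_lit 608) (nat_lit 0) (XT.nd (nat_lit 78) (nat_lit 228) (nat_lit 0) (XT.lf (nat_lit 0) (nat_lit 14446969652) (nat_lit 228) (nat_lit 2262581558) (nat_lit 76) (nat_lit 33458468019) (nat_lit 71) (nat_lit 5) (nat_lit 74) (nat_lit 5) (nat_lit 72) (nat_lit 5) (nat_lit 369) (nat_lit 325) (nat_lit 206)) (XT.lf (nat_lit 0) (nat_lit 32363523179) (nat_lit 304) (nat_lit 10863682608) (nat_lit 76) (nat_lit 8668617733) (nat_lit 68) (nat_lit 5) (nat_lit 72) (nat_lit 5) (nat_lit 69) (nat_lit 5) (nat_lit 370) (nat_lit 325) (nat_lit 205))) (XT.nd (nat_lit 78) (nat_lit 456) (nat_lit 0) (XT.lf (nat_lit 0) (nat_lit 33298262218) (nat_lit 152) (nat_lit 18382603701) (nat_lit 228) (nat_lit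 2014005261) (nat_lit 66) (nat_lit 5) (nat_lit 68) (nat_lit 5) (nat_lit 69) (nat_lit 5) (nat_lit 371) (nat_lit 325) (nat_lit 204)) (XT.nd (nat_lit 78) (nat_lit 152) (nat_lit 0) (XT.lf (nat_lit 0) (nat_lit 16482112314) (nat_lit 304) (nat_lit 31023123366) (nat_lit 76) (nat_lit 8061267363) (nat_lit 62) (nat_lit 5) (nat_lit 66) (nat_lit 5) (nat_lit 63) (nat_lit 5) (nat_lit 372) (nat_lit 325) (nat_lit 203)) (XT.lf (nat_lit 0) (nat_lit 14698249410) (nat_lit 152) (nat_lit 21695440657) (nat_lit 228) (nat_lit 21121460765) (nat_lit 60) (nat_lit 5) (nat_lit 62) (nat_lit 5) (nat_lit 63) (nat_lit 5) (nat_lit 373) (nat_lit 325) (nat_lit 202))))) (XT.nd (nat_lit 234) (nat_lit 380) (nat_lit 0) (XT.nd (nat_lit 78) (nat_lit 228) (nat_lit 0) (XT.lf (nat_lit 0) (nat_lit 3809942716) (nat_lit 152) (nat_lit 53895222467) (nat_lit 228) (nat_lit 1843937951) (nat_lit 58) (nat_lit 5) (nat_lit 60) (nat_lit 5) (nat_lit 61)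 (nat_lit 5) (nat_lit 374) (nat_lit 325) (nat_lit 201)) (XT.nd (nat_lit 78) (nat_lit 152) (nat_lit 0) (XT.lf (nat_lit 0) (nat_lit 18695934197) (nat_lit 228) (nat_lit 8420262131) (nat_lit 76) (nat_lit 34543528629) (nat_lit 57) (nat_lit 5) (nat_lit 60) (nat_lit 5) (nat_lit 58) (nat_lit 5) (nat_lit 375) (nat_lit 325) (nat_lit 200)) (XT.lf (nat_lit 0) (nat_lit 40636743481) (nat_lit 228) (nat_lit 21821401824) (nat_lit 76) (nat_lit 1404823971) (nat_lit 55) (nat_lit 5) (nat_lit 58) (nat_lit 5) (nat_lit 56) (nat_lit 5) (nat_lit 376) (nat_lit 325) (nat_lit 199)))) (XT.nd (nat_lit 78) (nat_lit 228) (nat_lit 0) (XT.lf (nat_lit 0) (nat_lit 29315467702) (nat_lit 152) (nat_lit 34995993883) (nat_lit 228) (nat_lit 1845809583) (nat_lit 53) (nat_lit 5) (nat_lit 55) (nat_lit 5) (nat_lit 56) (nat_lit 5) (nat_lit 377) (nat_lit 325) (nat_lit 198)) (XT.nd (nat_lit 78) (nat_lit 0) (nat_lit 0) (XT.lf (nat_lit 0) (nat_lit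 14987291695) (nat_lit 152) (nat_lit 5579183252) (nat_lit 228) (nat_lit 47982925914) (nat_lit 50) (nat_lit 5) (nat_lit 52) (nat_lit 5) (nat_lit 53) (nat_lit 5) (nat_lit 378) (nat_lit 325) (nat_lit 197)) (XT.lf (nat_lit 0) (nat_lit 44681965565) (nat_lit 228) (nat_lit 1148051001) (nat_lit 76) (nat_lit 25211950470) (nat_lit 50) (nat_lit 5) (nat_lit 53) (nat_lit 5) (nat_lit 51) (nat_lit 5) (nat_lit 379) (nat_lit 325) (nat_lit 196)))))) (XT.nd (nat_lit 468) (nat_lit 456) (nat_lit 0) (XT.nd (nat_lit 234) (nat_lit 304) (nat_lit 0) (XT.nd (nat_lit 78) (nat_lit 380) (nat_lit 0) (XT.lf (nat_lit 0) (nat_lit 54891672397) (nat_lit 152) (nat_lit 15689924462) (nat_lit 228) (nat_lit 3060214860) (nat_lit 48) (nat_lit 5) (nat_lit 50) (nat_lit 5) (nat_lit 51) (nat_lit 5) (nat_lit 380) (nat_lit 325) (nat_lit 195)) (XT.nd (nat_lit 78) (nat_lit 152) (nat_lit 0) (XT.lf (nat_lit 0) (nat_lit 21516867598) (nat_lit 228)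 (nat_lit 38603177074) (nat_lit 76) (nat_lit 16229532845) (nat_lit 45) (nat_lit 5) (nat_lit 48) (nat_lit 5) (nat_lit 46) (nat_lit 5) (nat_lit 381) (nat_lit 325) (nat_lit 194)) (XT.lf (nat_lit 0) (nat_lit 18431624951) (nat_lit 152) (nat_lit 29353595561) (nat_lit 228) (nat_lit 31390831970) (nat_lit 43) (nat_lit 5) (nat_lit 45) (nat_lit 5) (nat_lit 46) (nat_lit 5) (nat_lit 382) (nat_lit 325) (nat_lit 193)))) (XT.nd (nat_lit 78) (nat_lit 304) (nat_lit 0) (XT.lf (nat_lit 0) (nat_lit 75791458703) (nat_lit 228) (nat_lit 3048747314) (nat_lit 76) (nat_lit 3290912139) (nat_lit 43) (nat_lit 5) (nat_lit 46) (nat_lit 5) (nat_lit 44) (nat_lit 4) (nat_lit 383) (nat_lit 325) (nat_lit 192)) (XT.nd (nat_lit 78) (nat_lit 152) (nat_lit 0) (XT.lf (nat_lit 0) (nat_lit 20435283683) (nat_lit 152) (nat_lit 27043277998) (nat_lit 76) (nat_lit 37723795654) (nat_lit 41) (nat_lit 5) (nat_lit 43) (nat_lit 5) (nat_lit 42) (nat_lit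 5) (nat_lit 384) (nat_lit 325) (nat_lit 191)) (XT.lf (nat_lit 0) (nat_lit 34668223664) (nat_lit 152) (nat_lit 14110934725) (nat_lit 228) (nat_lit 39635278942) (nat_lit 39) (nat_lit 5) (nat_lit 41) (nat_lit 5) (nat_lit 42) (nat_lit 5) (nat_lit 385) (nat_lit 325) (nat_lit 190))))) (XT.nd (nat_lit 234) (nat_lit 152) (nat_lit 0) (XT.nd (nat_lit 78) (nat_lit 228) (nat_lit 0) (XT.lf (nat_lit 0) (nat_lit 8199124746) (nat_lit 76) (nat_lit 70897450459) (nat_lit 152) (nat_lit 12673856499) (nat_lit 38) (nat_lit 5) (nat_lit 39) (nat_lit 5) (nat_lit 40) (nat_lit 4) (nat_lit 386) (nat_lit 325) (nat_lit 189)) (XT.nd (nat_lit 78) (nat_lit 152) (nat_lit 0) (XT.lf (nat_lit 0) (nat_lit 16027047555) (nat_lit 152) (nat_lit 21219432787) (nat_lit 76) (nat_lit 58022341700) (nat_lit 37) (nat_lit 5) (nat_lit 39) (nat_lit 5) (nat_lit 38) (nat_lit 5) (nat_lit 387) (nat_lit 325) (nat_lit 188)) (XT.lf (nat_lit 0) (nat_lit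 44992003553) (nat_lit 152) (nat_lit 1339372595) (nat_lit 228) (nat_lit 52594077146) (nat_lit 35) (nat_lit 5) (nat_lit 37) (nat_lit 5) (nat_lit 38) (nat_lit 5) (nat_lit 388) (nat_lit 325) (nat_lit 187)))) (XT.nd (nat_lit 78) (nat_lit 76) (nat_lit 0) (XT.lf (nat_lit 0) (nat_lit 12075061714) (nat_lit 76) (nat_lit 66757743324) (nat_lit 152) (nat_lit 23911655250) (nat_lit 34) (nat_lit 5) (nat_lit 35) (nat_lit 5) (nat_lit 36) (nat_lit 4) (nat_lit 389) (nat_lit 325) (nat_lit 186)) (XT.nd (nat_lit 41886) (nat_lit 0) (nat_lit 15732) (XT.lf (nat_lit 0) (nat_lit 6653779545) (nat_lit 152) (nat_lit 24313162620) (nat_lit 76) (nat_lit 75768587610) (nat_lit 33) (nat_lit 5) (nat_lit 35) (nat_lit 5) (nat_lit 34) (nat_lit 5) (nat_lit 390) (nat_lit 325) (nat_lit 185)) (XT.lf (nat_lit 0) (nat_lit 2038935215) (nat_lit 0) (nat_lit 2038935215) (nat_lit 1140) (nat_lit 3273271181) (nat_lit 240) (nat_lit 5) (nat_lit 240)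 (nat_lit 3) (nat_lit 255) (nat_lit 3) (nat_lit 326) (nat_lit 326) (nat_lit 248))))))) (XT.nd (nat_lit 936) (nat_lit 5092) (nat_lit 0) (XT.nd (nat_lit 468) (nat_lit 2508) (nat_lit 0) (XT.nd (nat_lit 234) (nat_lit 0) (nat_lit 152) (XT.nd (nat_lit 78) (nat_lit 0) (nat_lit 76) (XT.lf (nat_lit 76) (nat_lit 929873446) (nat_lit 0) (nat_lit 8004220240) (nat_lit 1216) (nat_lit 6118186645) (nat_lit 241) (nat_lit 5) (nat_lit 240) (nat_lit 5) (nat_lit 256) (nat_lit 5) (nat_lit 327) (nat_lit 326) (nat_lit 247)) (XT.nd (nat_lit 78) (nat_lit 0) (nat_lit 0) (XT.lf (nat_lit 0) (nat_lit 9901940630) (nat_lit 1140) (nat_lit 2223939716) (nat_lit 1216) (nat_lit 3289400534) (nat_lit 241) (nat_lit 5) (nat_lit 256) (nat_lit 5) (nat_lit 257) (nat_lit 5) (nat_lit 328) (nat_lit 326) (nat_lit 246)) (XT.lf (nat_lit 76) (nat_lit 10373495265) (nat_lit 0) (nat_lit 695038986) (nat_lit 1216) (nat_lit 4723406461) (nat_lit 242)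 (nat_lit 5) (nat_lit 241) (nat_lit 5) (nat_lit 257) (nat_lit 5) (nat_lit 329) (nat_lit 326) (nat_lit 245)))) (XT.nd (nat_lit 78) (nat_lit 0) (nat_lit 76) (XT.lf (nat_lit 76) (nat_lit 7479475098) (nat_lit 0) (nat_lit 4988927281) (nat_lit 1216) (nat_lit 3713801753) (nat_lit 243) (nat_lit 5) (nat_lit 242) (nat_lit 5) (nat_lit 258) (nat_lit 5) (nat_lit 330) (nat_lit 326) (nat_lit 244)) (XT.nd (nat_lit 78) (nat_lit 0) (nat_lit 76) (XT.lf (nat_lit 76) (nat_lit 4539834915) (nat_lit 0) (nat_lit 9545837212) (nat_lit 1216) (nat_lit 2501904386) (nat_lit 244) (nat_lit 5) (nat_lit 243) (nat_lit 5) (nat_lit 259) (nat_lit 5) (nat_lit 331) (nat_lit 326) (nat_lit 243)) (XT.lf (nat_lit 76) (nat_lit 1551925645) (nat_lit 0) (nat_lit 14385482823) (nat_lit 1216) (nat_lit 1071218130) (nat_lit 245) (nat_lit 5) (nat_lit 244) (nat_lit 5) (nat_lit 260) (nat_lit 5) (nat_lit 332) (nat_lit 326) (nat_lit 242))))) (XT.nd (nat_lit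 234) (nat_lit 1596) (nat_lit 0) (XT.nd (nat_lit 78) (nat_lit 0) (nat_lit 76) (XT.lf (nat_lit 0) (nat_lit 618744770) (nat_lit 1216) (nat_lit 1484236200) (nat_lit 1292) (nat_lit 15341755227) (nat_lit 228) (nat_lit 5) (nat_lit 244) (nat_lit 5) (nat_lit 245) (nat_lit 5) (nat_lit 333) (nat_lit 326) (nat_lit 241)) (XT.nd (nat_lit 78) (nat_lit 0) (nat_lit 76) (XT.lf (nat_lit 0) (nat_lit 2581225165) (nat_lit 1216) (nat_lit 4584436644) (nat_lit 1292) (nat_lit 10730381198) (nat_lit 229) (nat_lit 5) (nat_lit 245) (nat_lit 5) (nat_lit 246) (nat_lit 5) (nat_lit 334) (nat_lit 326) (nat_lit 240)) (XT.lf (nat_lit 0) (nat_lit 4814837671) (nat_lit 1216) (nat_lit 7745770882) (nat_lit 1292) (nat_lit 5804130768) (nat_lit 230) (nat_lit 5) (nat_lit 246) (nat_lit 5) (nat_lit 247) (nat_lit 5) (nat_lit 335) (nat_lit 326) (nat_lit 239)))) (XT.nd (nat_lit 78) (nat_lit 1824) (nat_lit 0) (XT.lf (nat_lit 0) (nat_lit 7339009002)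 (nat_lit 1216) (nat_lit 10971413783) (nat_lit 76) (nat_lit 541095042) (nat_lit 231) (nat_lit 5) (nat_lit 247) (nat_lit 5) (nat_lit 232) (nat_lit 5) (nat_lit 336) (nat_lit 326) (nat_lit 238)) (XT.nd (nat_lit 78) (nat_lit 608) (nat_lit 0) (XT.lf (nat_lit 0) (nat_lit 5041132771) (nat_lit 1216) (nat_lit 5182723896) (nat_lit 1292) (nat_lit 9131757625) (nat_lit 215) (nat_lit 5) (nat_lit 231) (nat_lit 5) (nat_lit 232) (nat_lit 5) (nat_lit 337) (nat_lit 326) (nat_lit 237)) (XT.lf (nat_lit 0) (nat_lit 2141353679) (nat_lit 608) (nat_lit 11308488427) (nat_lit 684) (nat_lit 6429179059) (nat_lit 207) (nat_lit 5) (nat_lit 215) (nat_lit 5) (nat_lit 216) (nat_lit 5) (nat_lit 338) (nat_lit 326) (nat_lit 236)))))) (XT.nd (nat_lit 468) (nat_lit 2356) (nat_lit 0) (XT.nd (nat_lit 234) (nat_lit 1520) (nat_lit 0) (XT.nd (nat_lit 78) (nat_lit 1216) (nat_lit 0) (XT.lf (nat_lit 0) (nat_lit 17041938858) (nat_lit 684)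 (nat_lit 800901557) (nat_lit 76) (nat_lit 2579625457) (nat_lit 207) (nat_lit 5) (nat_lit 216) (nat_lit 5) (nat_lit 208) (nat_lit 5) (nat_lit 339) (nat_lit 326) (nat_lit 235)) (XT.nd (nat_lit 78) (nat_lit 608) (nat_lit 0) (XT.lf (nat_lit 0) (nat_lit 87288532) (nat_lit 608) (nat_lit 3800072672) (nat_lit 76) (nat_lit 17097887437) (nat_lit 199) (nat_lit 5) (nat_lit 207) (nat_lit 5) (nat_lit 200) (nat_lit 5) (nat_lit 340) (nat_lit 326) (nat_lit 234)) (XT.lf (nat_lit 0) (nat_lit 3896483780) (nat_lit 684) (nat_lit 6929302957) (nat_lit 76) (nat_lit 10742253032) (nat_lit 191) (nat_lit 5) (nat_lit 200) (nat_lit 5) (nat_lit 192) (nat_lit 5) (nat_lit 341) (nat_lit 326) (nat_lit 233)))) (XT.nd (nat_lit 78) (nat_lit 988) (nat_lit 0) (XT.lf (nat_lit 0) (nat_lit 8112035768) (nat_lit 608) (nat_lit 10134740274) (nat_lit 76) (nat_lit 3926727440) (nat_lit 184) (nat_lit 5) (nat_lit 192) (nat_lit 5) (nat_lit 185)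 (nat_lit 5) (nat_lit 342) (nat_lit 326) (nat_lit 232)) (XT.nd (nat_lit 78) (nat_lit 456) (nat_lit 0) (XT.lf (nat_lit 0) (nat_lit 9347612027) (nat_lit 532) (nat_lit 3445126225) (nat_lit 608) (nat_lit 10008880412) (nat_lit 177) (nat_lit 5) (nat_lit 184) (nat_lit 5) (nat_lit 185) (nat_lit 5) (nat_lit 343) (nat_lit 326) (nat_lit 231)) (XT.lf (nat_lit 0) (nat_lit 6550643689) (nat_lit 456) (nat_lit 11425278531) (nat_lit 532) (nat_lit 5477173009) (nat_lit 171) (nat_lit 5) (nat_lit 177) (nat_lit 5) (nat_lit 178) (nat_lit 5) (nat_lit 344) (nat_lit 326) (nat_lit 230))))) (XT.nd (nat_lit 234) (nat_lit 1368) (nat_lit 0) (XT.nd (nat_lit 78) (nat_lit 532) (nat_lit 0) (XT.lf (nat_lit 0) (nat_lit 3682972499) (nat_lit 456) (nat_lit 19968518468) (nat_lit 532) (nat_lit 478666475) (nat_lit 165) (nat_lit 5) (nat_lit 171) (nat_lit 5) (nat_lit 172) (nat_lit 5) (nat_lit 345) (nat_lit 326) (nat_lit 229)) (XT.nd (nat_lit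 78) (nat_lit 0) (nat_lit 0) (XT.lf (nat_lit 0) (nat_lit 647283998) (nat_lit 456) (nat_lit 4311509544) (nat_lit 532) (nat_lit 19872448563) (nat_lit 158) (nat_lit 5) (nat_lit 164) (nat_lit 5) (nat_lit 165) (nat_lit 5) (nat_lit 346) (nat_lit 326) (nat_lit 228)) (XT.lf (nat_lit 0) (nat_lit 10972854126) (nat_lit 532) (nat_lit 2478208341) (nat_lit 76) (nat_lit 12106745105) (nat_lit 158) (nat_lit 5) (nat_lit 165) (nat_lit 5) (nat_lit 159) (nat_lit 5) (nat_lit 347) (nat_lit 326) (nat_lit 227)))) (XT.nd (nat_lit 78) (nat_lit 912) (nat_lit 0) (XT.lf (nat_lit 0) (nat_lit 17545951473) (nat_lit 532) (nat_lit 5688242153) (nat_lit 76) (nat_lit 3078764875) (nat_lit 152) (nat_lit 5) (nat_lit 159) (nat_lit 5) (nat_lit 153) (nat_lit 5) (nat_lit 348) (nat_lit 326) (nat_lit 226)) (XT.nd (nat_lit 78) (nat_lit 532) (nat_lit 0) (XT.lf (nat_lit 0) (nat_lit 18028778351) (nat_lit 380) (nat_lit 6740316239) (nat_lit 456)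 (nat_lit 2327137519) (nat_lit 147) (nat_lit 5) (nat_lit 152) (nat_lit 5) (nat_lit 153) (nat_lit 5) (nat_lit 349) (nat_lit 326) (nat_lit 225)) (XT.lf (nat_lit 0) (nat_lit 4646143804) (nat_lit 532) (nat_lit 12641584488) (nat_lit 76) (nat_lit 10620729894) (nat_lit 140) (nat_lit 5) (nat_lit 147) (nat_lit 5) (nat_lit 141) (nat_lit 5) (nat_lit 350) (nat_lit 326) (nat_lit 224))))))))
noncomputable def xc93 : XT := (XT.nd (nat_lit 1872) (nat_lit 1900) (nat_lit 0) (XT.nd (nat_lit 936) (nat_lit 2432) (nat_lit 0) (XT.nd (nat_lit 468) (nat_lit 1824) (nat_lit 0) (XT.nd (nat_lit 234) (nat_lit 760) (nat_lit 0) (XT.nd (nat_lit 78) (nat_lit 684) (nat_lit 0) (XT.lf (nat_lit 0) (nat_lit 12190932193) (nat_lit 456) (nat_lit 16372478807) (nat_lit 76) (nat_lit 189070226) (nat_lit 135) (nat_lit 5) (nat_lit 141) (nat_lit 5) (nat_lit 136) (nat_lit 5) (nat_lit 351) (nat_lit 326) (nat_lit 223)) (XT.nd (nat_lit 78) (nat_lit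 304) (nat_lit 0) (XT.lf (nat_lit 0) (nat_lit 9271134959) (nat_lit 380) (nat_lit 11224625202) (nat_lit 456) (nat_lit 9131467003) (nat_lit 130) (nat_lit 5) (nat_lit 135) (nat_lit 5) (nat_lit 136) (nat_lit 5) (nat_lit 352) (nat_lit 326) (nat_lit 222)) (XT.lf (nat_lit 0) (nat_lit 6031428336) (nat_lit 304) (nat_lit 23467859538) (nat_lit 380) (nat_lit 1037924254) (nat_lit 126) (nat_lit 5) (nat_lit 130) (nat_lit 5) (nat_lit 131) (nat_lit 5) (nat_lit 353) (nat_lit 326) (nat_lit 221)))) (XT.nd (nat_lit 78) (nat_lit 304) (nat_lit 0) (XT.lf (nat_lit 0) (nat_lit 2523783092) (nat_lit 380) (nat_lit 5128572974) (nat_lit 456) (nat_lit 23828064821) (nat_lit 120) (nat_lit 5) (nat_lit 125) (nat_lit 5) (nat_lit 126) (nat_lit 5) (nat_lit 354) (nat_lit 326) (nat_lit 220)) (XT.nd (nat_lit 78) (nat_lit 304) (nat_lit 0) (XT.lf (nat_lit 0) (nat_lit 17135276608) (nat_lit 456) (nat_lit 1210604493) (nat_lit 76) (nat_lit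 14113217751) (nat_lit 120) (nat_lit 5) (nat_lit 126) (nat_lit 5) (nat_lit 121) (nat_lit 5) (nat_lit 355) (nat_lit 326) (nat_lit 219)) (XT.lf (nat_lit 0) (nat_lit 27416215600) (nat_lit 380) (nat_lit 5076373025) (nat_lit 76) (nat_lit 984410513) (nat_lit 116) (nat_lit 5) (nat_lit 121) (nat_lit 5) (nat_lit 117) (nat_lit 5) (nat_lit 356) (nat_lit 326) (nat_lit 218))))) (XT.nd (nat_lit 234) (nat_lit 836) (nat_lit 0) (XT.nd (nat_lit 78) (nat_lit 608) (nat_lit 0) (XT.lf (nat_lit 0) (nat_lit 4028446163) (nat_lit 380) (nat_lit 9307004146) (nat_lit 76) (nat_lit 21196254422) (nat_lit 111) (nat_lit 5) (nat_lit 116) (nat_lit 5) (nat_lit 112) (nat_lit 5) (nat_lit 357) (nat_lit 326) (nat_lit 217)) (XT.nd (nat_lit 78) (nat_lit 304) (nat_lit 0) (XT.lf (nat_lit 0) (nat_lit 14819134500) (nat_lit 380) (nat_lit 13838287256) (nat_lit 76) (nat_lit 6970257357) (nat_lit 107) (nat_lit 5) (nat_lit 112) (nat_lit 5) (nat_lit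 108) (nat_lit 5) (nat_lit 358) (nat_lit 326) (nat_lit 216)) (XT.lf (nat_lit 0) (nat_lit 18062163378) (nat_lit 304) (nat_lit 8482414142) (nat_lit 380) (nat_lit 10222021941) (nat_lit 103) (nat_lit 5) (nat_lit 107) (nat_lit 5) (nat_lit 108) (nat_lit 5) (nat_lit 359) (nat_lit 326) (nat_lit 215)))) (XT.nd (nat_lit 78) (nat_lit 532) (nat_lit 0) (XT.lf (nat_lit 0) (nat_lit 1271556793) (nat_lit 304) (nat_lit 23938505753) (nat_lit 76) (nat_lit 12740293932) (nat_lit 99) (nat_lit 5) (nat_lit 103) (nat_lit 5) (nat_lit 100) (nat_lit 5) (nat_lit 360) (nat_lit 326) (nat_lit 214)) (XT.nd (nat_lit 78) (nat_lit 228) (nat_lit 0) (XT.lf (nat_lit 0) (nat_lit 9549051463) (nat_lit 304) (nat_lit 3943935449) (nat_lit 380) (nat_lit 25686344196) (nat_lit 95) (nat_lit 5) (nat_lit 99) (nat_lit 5) (nat_lit 100) (nat_lit 5) (nat_lit 361) (nat_lit 326) (nat_lit 213)) (XT.lf (nat_lit 0) (nat_lit 4646655484) (nat_lit 228) (nat_lit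 22140120534) (nat_lit 304) (nat_lit 13669143058) (nat_lit 92) (nat_lit 5) (nat_lit 95) (nat_lit 5) (nat_lit 96) (nat_lit 5) (nat_lit 362) (nat_lit 326) (nat_lit 212)))))) (XT.nd (nat_lit 468) (nat_lit 1064) (nat_lit 0) (XT.nd (nat_lit 234) (nat_lit 760) (nat_lit 0) (XT.nd (nat_lit 78) (nat_lit 608) (nat_lit 0) (XT.lf (nat_lit 0) (nat_lit 41082180889) (nat_lit 304) (nat_lit 584733948) (nat_lit 76) (nat_lit 119316896) (nat_lit 92) (nat_lit 5) (nat_lit 96) (nat_lit 5) (nat_lit 93) (nat_lit 5) (nat_lit 363) (nat_lit 326) (nat_lit 211)) (XT.nd (nat_lit 78) (nat_lit 228) (nat_lit 0) (XT.lf (nat_lit 0) (nat_lit 13232740927) (nat_lit 380) (nat_lit 6411295143) (nat_lit 76) (nat_lit 23518043482) (nat_lit 87) (nat_lit 5) (nat_lit 92) (nat_lit 5) (nat_lit 88) (nat_lit 5) (nat_lit 364) (nat_lit 326) (nat_lit 210)) (XT.lf (nat_lit 0) (nat_lit 28193735962) (nat_lit 304) (nat_lit 12671324445) (nat_lit 76) (nat_lit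 3731195205) (nat_lit 84) (nat_lit 5) (nat_lit 88) (nat_lit 5) (nat_lit 85) (nat_lit 5) (nat_lit 365) (nat_lit 326) (nat_lit 209)))) (XT.nd (nat_lit 78) (nat_lit 532) (nat_lit 0) (XT.lf (nat_lit 0) (nat_lit 26517796917) (nat_lit 228) (nat_lit 17896923819) (nat_lit 304) (nat_lit 1672064122) (nat_lit 81) (nat_lit 5) (nat_lit 84) (nat_lit 5) (nat_lit 85) (nat_lit 5) (nat_lit 366) (nat_lit 326) (nat_lit 208)) (XT.nd (nat_lit 78) (nat_lit 228) (nat_lit 0) (XT.lf (nat_lit 0) (nat_lit 13911484906) (nat_lit 304) (nat_lit 27164743473) (nat_lit 76) (nat_lit 6560063643) (nat_lit 77) (nat_lit 5) (nat_lit 81) (nat_lit 5) (nat_lit 78) (nat_lit 5) (nat_lit 367) (nat_lit 326) (nat_lit 207)) (XT.lf (nat_lit 0) (nat_lit 13721922789) (nat_lit 228) (nat_lit 17026510833) (nat_lit 304) (nat_lit 18499082449) (nat_lit 74) (nat_lit 5) (nat_lit 77) (nat_lit 5) (nat_lit 78) (nat_lit 5) (nat_lit 368) (nat_lit 326) (nat_lit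 206))))) (XT.nd (nat_lit 234) (nat_lit 608) (nat_lit 0) (XT.nd (nat_lit 78) (nat_lit 304) (nat_lit 0) (XT.lf (nat_lit 0) (nat_lit 6319168807) (nat_lit 152) (nat_lit 42522981020) (nat_lit 228) (nat_lit 2084706060) (nat_lit 72) (nat_lit 5) (nat_lit 74) (nat_lit 5) (nat_lit 75) (nat_lit 5) (nat_lit 369) (nat_lit 326) (nat_lit 205)) (XT.nd (nat_lit 78) (nat_lit 228) (nat_lit 0) (XT.lf (nat_lit 0) (nat_lit 15388792691) (nat_lit 228) (nat_lit 2013526498) (nat_lit 76) (nat_lit 35267455197) (nat_lit 71) (nat_lit 5) (nat_lit 74) (nat_lit 5) (nat_lit 72) (nat_lit 5) (nat_lit 370) (nat_lit 326) (nat_lit 204)) (XT.lf (nat_lit 0) (nat_lit 34195444433) (nat_lit 304) (nat_lit 11049973717) (nat_lit 76) (nat_lit 9238725557) (nat_lit 68) (nat_lit 5) (nat_lit 72) (nat_lit 5) (nat_lit 69) (nat_lit 5) (nat_lit 371) (nat_lit 326) (nat_lit 203)))) (XT.nd (nat_lit 78) (nat_lit 456) (nat_lit 0) (XT.lf (nat_lit 0) (nat_lit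 35309838083) (nat_lit 152) (nat_lit 19161970224) (nat_lit 228) (nat_lit 1901543616) (nat_lit 66) (nat_lit 5) (nat_lit 68) (nat_lit 5) (nat_lit 69) (nat_lit 5) (nat_lit 372) (nat_lit 326) (nat_lit 202)) (XT.nd (nat_lit 78) (nat_lit 152) (nat_lit 0) (XT.lf (nat_lit 0) (nat_lit 17509875222) (nat_lit 304) (nat_lit 32228670673) (nat_lit 76) (nat_lit 8600120946) (nat_lit 62) (nat_lit 5) (nat_lit 66) (nat_lit 5) (nat_lit 63) (nat_lit 5) (nat_lit 373) (nat_lit 326) (nat_lit 201)) (XT.lf (nat_lit 0) (nat_lit 15768863933) (nat_lit 152) (nat_lit 22641696938) (nat_lit 228) (nat_lit 21974382738) (nat_lit 60) (nat_lit 5) (nat_lit 62) (nat_lit 5) (nat_lit 63) (nat_lit 5) (nat_lit 374) (nat_lit 326) (nat_lit 200))))))) (XT.nd (nat_lit 936) (nat_lit 304) (nat_lit 0) (XT.nd (nat_lit 468) (nat_lit 836) (nat_lit 0) (XT.nd (nat_lit 234) (nat_lit 380) (nat_lit 0) (XT.nd (nat_lit 78) (nat_lit 228) (nat_lit 0) (XT.lf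 (nat_lit 0) (nat_lit 4331019528) (nat_lit 152) (nat_lit 56451646218) (nat_lit 228) (nat_lit 1738078442) (nat_lit 58) (nat_lit 5) (nat_lit 60) (nat_lit 5) (nat_lit 61) (nat_lit 5) (nat_lit 375) (nat_lit 326) (nat_lit 199)) (XT.nd (nat_lit 78) (nat_lit 152) (nat_lit 0) (XT.lf (nat_lit 0) (nat_lit 19815675301) (nat_lit 228) (nat_lit 8522713390) (nat_lit 76) (nat_lit 36398730877) (nat_lit 57) (nat_lit 5) (nat_lit 60) (nat_lit 5) (nat_lit 58) (nat_lit 5) (nat_lit 376) (nat_lit 326) (nat_lit 198)) (XT.lf (nat_lit 0) (nat_lit 42848945306) (nat_lit 228) (nat_lit 22598879678) (nat_lit 76) (nat_lit 1602840573) (nat_lit 55) (nat_lit 5) (nat_lit 58) (nat_lit 5) (nat_lit 56) (nat_lit 5) (nat_lit 377) (nat_lit 326) (nat_lit 197)))) (XT.nd (nat_lit 78) (nat_lit 228) (nat_lit 0) (XT.lf (nat_lit 0) (nat_lit 31085844266) (nat_lit 152) (nat_lit 36615894288) (nat_lit 228) (nat_lit 1758115776) (nat_lit 53) (nat_lit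 5) (nat_lit 55) (nat_lit 5) (nat_lit 56) (nat_lit 5) (nat_lit 378) (nat_lit 326) (nat_lit 196)) (XT.nd (nat_lit 78) (nat_lit 0) (nat_lit 0) (XT.lf (nat_lit 0) (nat_lit 16035976578) (nat_lit 152) (nat_lit 5729768075) (nat_lit 228) (nat_lit 50205961553) (nat_lit 50) (nat_lit 5) (nat_lit 52) (nat_lit 5) (nat_lit 53) (nat_lit 5) (nat_lit 379) (nat_lit 326) (nat_lit 195)) (XT.lf (nat_lit 0) (nat_lit 47080044769) (nat_lit 228) (nat_lit 916643091) (nat_lit 76) (nat_lit 26592423512) (nat_lit 50) (nat_lit 5) (nat_lit 53) (nat_lit 5) (nat_lit 51) (nat_lit 5) (nat_lit 380) (nat_lit 326) (nat_lit 194))))) (XT.nd (nat_lit 234) (nat_lit 304) (nat_lit 0) (XT.nd (nat_lit 78) (nat_lit 380) (nat_lit 0) (XT.lf (nat_lit 0) (nat_lit 57916787784) (nat_lit 152) (nat_lit 16352757871) (nat_lit 228) (nat_lit 3049557639) (nat_lit 48) (nat_lit 5) (nat_lit 50) (nat_lit 5) (nat_lit 51) (nat_lit 5) (nat_lit 381) (nat_lit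 326) (nat_lit 193)) (XT.nd (nat_lit 78) (nat_lit 152) (nat_lit 0) (XT.lf (nat_lit 0) (nat_lit 22749347899) (nat_lit 228) (nat_lit 40254172232) (nat_lit 76) (nat_lit 17158806695) (nat_lit 45) (nat_lit 5) (nat_lit 48) (nat_lit 5) (nat_lit 46) (nat_lit 5) (nat_lit 382) (nat_lit 326) (nat_lit 192)) (XT.lf (nat_lit 0) (nat_lit 19624367723) (nat_lit 152) (nat_lit 30701898405) (nat_lit 228) (nat_lit 32804006430) (nat_lit 43) (nat_lit 5) (nat_lit 45) (nat_lit 5) (nat_lit 46) (nat_lit 5) (nat_lit 383) (nat_lit 326) (nat_lit 191)))) (XT.nd (nat_lit 78) (nat_lit 304) (nat_lit 0) (XT.lf (nat_lit 0) (nat_lit 79726681271) (nat_lit 228) (nat_lit 2939664158) (nat_lit 76) (nat_lit 3566931518) (nat_lit 43) (nat_lit 5) (nat_lit 46) (nat_lit 5) (nat_lit 44) (nat_lit 4) (nat_lit 384) (nat_lit 326) (nat_lit 190)) (XT.nd (nat_lit 78) (nat_lit 152) (nat_lit 0) (XT.lf (nat_lit 0) (nat_lit 21599627019) (nat_lit 152)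 (nat_lit 28138554659) (nat_lit 76) (nat_lit 39719990603) (nat_lit 41) (nat_lit 5) (nat_lit 43) (nat_lit 5) (nat_lit 42) (nat_lit 5) (nat_lit 385) (nat_lit 326) (nat_lit 189)) (XT.lf (nat_lit 0) (nat_lit 36651158465) (nat_lit 152) (nat_lit 14705146085) (nat_lit 228) (nat_lit 41474684670) (nat_lit 39) (nat_lit 5) (nat_lit 41) (nat_lit 5) (nat_lit 42) (nat_lit 5) (nat_lit 386) (nat_lit 326) (nat_lit 188)))))) (XT.nd (nat_lit 42432) (nat_lit 0) (nat_lit 14668) (XT.nd (nat_lit 42198) (nat_lit 0) (nat_lit 15580) (XT.nd (nat_lit 78) (nat_lit 228) (nat_lit 0) (XT.lf (nat_lit 0) (nat_lit 8854462956) (nat_lit 76) (nat_lit 74331926881) (nat_lit 152) (nat_lit 13168490705) (nat_lit 38) (nat_lit 5) (nat_lit 39) (nat_lit 5) (nat_lit 40) (nat_lit 4) (nat_lit 387) (nat_lit 326) (nat_lit 187)) (XT.nd (nat_lit 78) (nat_lit 152) (nat_lit 0) (XT.lf (nat_lit 0) (nat_lit 16958252394) (nat_lit 152) (nat_lit 22044101566)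 (nat_lit 76) (nat_lit 61025992186) (nat_lit 37) (nat_lit 5) (nat_lit 39) (nat_lit 5) (nat_lit 38) (nat_lit 5) (nat_lit 388) (nat_lit 326) (nat_lit 186)) (XT.lf (nat_lit 0) (nat_lit 47471133017) (nat_lit 152) (nat_lit 1302687326) (nat_lit 228) (nat_lit 55094108950) (nat_lit 35) (nat_lit 5) (nat_lit 37) (nat_lit 5) (nat_lit 38) (nat_lit 5) (nat_lit 389) (nat_lit 326) (nat_lit 185)))) (XT.nd (nat_lit 78) (nat_lit 0) (nat_lit 0) (XT.lf (nat_lit 0) (nat_lit 2385260919) (nat_lit 0) (nat_lit 2385260919) (nat_lit 1140) (nat_lit 2933193016) (nat_lit 240) (nat_lit 5) (nat_lit 240) (nat_lit 3) (nat_lit 255) (nat_lit 3) (nat_lit 327) (nat_lit 327) (nat_lit 246)) (XT.nd (nat_lit 78) (nat_lit 0) (nat_lit 76) (XT.lf (nat_lit 76) (nat_lit 1484787082) (nat_lit 0) (nat_lit 8827391421) (nat_lit 1216) (nat_lit 5464162819) (nat_lit 241) (nat_lit 5) (nat_lit 240) (nat_lit 5) (nat_lit 256) (nat_lit 5) (nat_lit 328)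 (nat_lit 327) (nat_lit 245)) (XT.lf (nat_lit 0) (nat_lit 11280194215) (nat_lit 1140) (nat_lit 1819861711) (nat_lit 1216) (nat_lit 3058911805) (nat_lit 241) (nat_lit 5) (nat_lit 256) (nat_lit 5) (nat_lit 257) (nat_lit 5) (nat_lit 329) (nat_lit 327) (nat_lit 244))))) (XT.nd (nat_lit 234) (nat_lit 988) (nat_lit 0) (XT.nd (nat_lit 78) (nat_lit 0) (nat_lit 76) (XT.lf (nat_lit 76) (nat_lit 11392674765) (nat_lit 0) (nat_lit 1075198836) (nat_lit 1216) (nat_lit 4087732010) (nat_lit 242) (nat_lit 5) (nat_lit 241) (nat_lit 5) (nat_lit 257) (nat_lit 5) (nat_lit 330) (nat_lit 327) (nat_lit 243)) (XT.nd (nat_lit 78) (nat_lit 0) (nat_lit 76) (XT.lf (nat_lit 76) (nat_lit 8368020616) (nat_lit 0) (nat_lit 5531217179) (nat_lit 1216) (nat_lit 3067325742) (nat_lit 243) (nat_lit 5) (nat_lit 242) (nat_lit 5) (nat_lit 258) (nat_lit 5) (nat_lit 331) (nat_lit 327) (nat_lit 242)) (XT.lf (nat_lit 76) (nat_lit 5293423951)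 (nat_lit 0) (nat_lit 10267879763) (nat_lit 1216) (nat_lit 1832008002) (nat_lit 244) (nat_lit 5) (nat_lit 243) (nat_lit 5) (nat_lit 259) (nat_lit 5) (nat_lit 332) (nat_lit 327) (nat_lit 241)))) (XT.nd (nat_lit 78) (nat_lit 1216) (nat_lit 0) (XT.lf (nat_lit 76) (nat_lit 2166275548) (nat_lit 0) (nat_lit 15305539412) (nat_lit 1216) (nat_lit 364637664) (nat_lit 245) (nat_lit 5) (nat_lit 244) (nat_lit 5) (nat_lit 260) (nat_lit 5) (nat_lit 333) (nat_lit 327) (nat_lit 240)) (XT.nd (nat_lit 78) (nat_lit 0) (nat_lit 76) (XT.lf (nat_lit 0) (nat_lit 1359499414) (nat_lit 1216) (nat_lit 1032684219) (nat_lit 1292) (nat_lit 15903051743) (nat_lit 228) (nat_lit 5) (nat_lit 244) (nat_lit 5) (nat_lit 245) (nat_lit 5) (nat_lit 334) (nat_lit 327) (nat_lit 239)) (XT.lf (nat_lit 0) (nat_lit 3389575711) (nat_lit 1216) (nat_lit 4280479440) (nat_lit 1292) (nat_lit 11099989321) (nat_lit 229) (nat_lit 5) (nat_lit 245) (nat_lit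 5) (nat_lit 246) (nat_lit 5) (nat_lit 335) (nat_lit 327) (nat_lit 238))))))))
noncomputable def xc94 : XT := (XT.nd (nat_lit 1794) (nat_lit 4788) (nat_lit 0) (XT.nd (nat_lit 858) (nat_lit 4104) (nat_lit 0) (XT.nd (nat_lit 390) (nat_lit 3192) (nat_lit 0) (XT.nd (nat_lit 156) (nat_lit 1748) (nat_lit 0) (XT.nd (nat_lit 78) (nat_lit 0) (nat_lit 76) (XT.lf (nat_lit 0) (nat_lit 5706211733) (nat_lit 1216) (nat_lit 7593916003) (nat_lit 1292) (nat_lit 5962927675) (nat_lit 230) (nat_lit 5) (nat_lit 246) (nat_lit 5) (nat_lit 247) (nat_lit 5) (nat_lit 336) (nat_lit 327) (nat_lit 237)) (XT.lf (nat_lit 0) (nat_lit 8329672341) (nat_lit 1216) (nat_lit 10976201379) (nat_lit 76) (nat_lit 469125838) (nat_lit 231) (nat_lit 5) (nat_lit 247) (nat_lit 5) (nat_lit 232) (nat_lit 5) (nat_lit 337) (nat_lit 327) (nat_lit 236))) (XT.nd (nat_lit 78) (nat_lit 608) (nat_lit 0) (XT.lf (nat_lit 0) (nat_lit 5821385069) (nat_lit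 1216) (nat_lit 5512754046) (nat_lit 1292) (nat_lit 8970918657) (nat_lit 215) (nat_lit 5) (nat_lit 231) (nat_lit 5) (nat_lit 232) (nat_lit 5) (nat_lit 338) (nat_lit 327) (nat_lit 235)) (XT.nd (nat_lit 78) (nat_lit 0) (nat_lit 0) (XT.lf (nat_lit 0) (nat_lit 2779949943) (nat_lit 608) (nat_lit 11917406160) (nat_lit 684) (nat_lit 6158018277) (nat_lit 207) (nat_lit 5) (nat_lit 215) (nat_lit 5) (nat_lit 216) (nat_lit 5) (nat_lit 339) (nat_lit 327) (nat_lit 234)) (XT.lf (nat_lit 0) (nat_lit 18441277522) (nat_lit 684) (nat_lit 317570913) (nat_lit 76) (nat_lit 2667992825) (nat_lit 207) (nat_lit 5) (nat_lit 216) (nat_lit 5) (nat_lit 208) (nat_lit 5) (nat_lit 340) (nat_lit 327) (nat_lit 233))))) (XT.nd (nat_lit 234) (nat_lit 1444) (nat_lit 0) (XT.nd (nat_lit 78) (nat_lit 1140) (nat_lit 0) (XT.lf (nat_lit 0) (nat_lit 623239716) (nat_lit 608) (nat_lit 3470817690) (nat_lit 76) (nat_lit 17924200329) (nat_lit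 199) (nat_lit 5) (nat_lit 207) (nat_lit 5) (nat_lit 200) (nat_lit 5) (nat_lit 341) (nat_lit 327) (nat_lit 232)) (XT.nd (nat_lit 78) (nat_lit 532) (nat_lit 0) (XT.lf (nat_lit 0) (nat_lit 4602364566) (nat_lit 684) (nat_lit 6755704252) (nat_lit 76) (nat_lit 11272750064) (nat_lit 191) (nat_lit 5) (nat_lit 200) (nat_lit 5) (nat_lit 192) (nat_lit 5) (nat_lit 342) (nat_lit 327) (nat_lit 231)) (XT.lf (nat_lit 0) (nat_lit 9009344535) (nat_lit 608) (nat_lit 10121426895) (nat_lit 76) (nat_lit 4136378707) (nat_lit 184) (nat_lit 5) (nat_lit 192) (nat_lit 5) (nat_lit 185) (nat_lit 5) (nat_lit 343) (nat_lit 327) (nat_lit 230)))) (XT.nd (nat_lit 78) (nat_lit 912) (nat_lit 0) (XT.lf (nat_lit 0) (nat_lit 10320135882) (nat_lit 532) (nat_lit 3585387388) (nat_lit 608) (nat_lit 10021717777) (nat_lit 177) (nat_lit 5) (nat_lit 184) (nat_lit 5) (nat_lit 185) (nat_lit 5) (nat_lit 344) (nat_lit 327) (nat_lit 229)) (XT.nd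 (nat_lit 78) (nat_lit 456) (nat_lit 0) (XT.lf (nat_lit 0) (nat_lit 7382584655) (nat_lit 456) (nat_lit 11947892517) (nat_lit 532) (nat_lit 5281348524) (nat_lit 171) (nat_lit 5) (nat_lit 177) (nat_lit 5) (nat_lit 178) (nat_lit 5) (nat_lit 345) (nat_lit 327) (nat_lit 228)) (XT.lf (nat_lit 0) (nat_lit 4370142039) (nat_lit 456) (nat_lit 20903260244) (nat_lit 532) (nat_lit 49843376) (nat_lit 165) (nat_lit 5) (nat_lit 171) (nat_lit 5) (nat_lit 172) (nat_lit 5) (nat_lit 346) (nat_lit 327) (nat_lit 227)))))) (XT.nd (nat_lit 468) (nat_lit 1824) (nat_lit 0) (XT.nd (nat_lit 234) (nat_lit 1292) (nat_lit 0) (XT.nd (nat_lit 78) (nat_lit 456) (nat_lit 0) (XT.lf (nat_lit 0) (nat_lit 1177057685) (nat_lit 456) (nat_lit 4457239333) (nat_lit 532) (nat_lit 20425458779) (nat_lit 158) (nat_lit 5) (nat_lit 164) (nat_lit 5) (nat_lit 165) (nat_lit 5) (nat_lit 347) (nat_lit 327) (nat_lit 226)) (XT.nd (nat_lit 78) (nat_lit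 456) (nat_lit 0) (XT.lf (nat_lit 0) (nat_lit 11929339878) (nat_lit 532) (nat_lit 2116607804) (nat_lit 76) (nat_lit 12777304025) (nat_lit 158) (nat_lit 5) (nat_lit 165) (nat_lit 5) (nat_lit 159) (nat_lit 5) (nat_lit 348) (nat_lit 327) (nat_lit 225)) (XT.lf (nat_lit 0) (nat_lit 18816960167) (nat_lit 532) (nat_lit 5489826741) (nat_lit 76) (nat_lit 3309807278) (nat_lit 152) (nat_lit 5) (nat_lit 159) (nat_lit 5) (nat_lit 153) (nat_lit 5) (nat_lit 349) (nat_lit 327) (nat_lit 224)))) (XT.nd (nat_lit 78) (nat_lit 912) (nat_lit 0) (XT.lf (nat_lit 0) (nat_lit 19399204635) (nat_lit 380) (nat_lit 6987815850) (nat_lit 456) (nat_lit 2052447755) (nat_lit 147) (nat_lit 5) (nat_lit 152) (nat_lit 5) (nat_lit 153) (nat_lit 5) (nat_lit 350) (nat_lit 327) (nat_lit 223)) (XT.nd (nat_lit 78) (nat_lit 380) (nat_lit 0) (XT.lf (nat_lit 0) (nat_lit 5248959989) (nat_lit 532) (nat_lit 12800161151) (nat_lit 76) (nat_lit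 11243467765) (nat_lit 140) (nat_lit 5) (nat_lit 147) (nat_lit 5) (nat_lit 141) (nat_lit 5) (nat_lit 351) (nat_lit 327) (nat_lit 222)) (XT.lf (nat_lit 0) (nat_lit 13158752303) (nat_lit 456) (nat_lit 16721272606) (nat_lit 76) (nat_lit 299163676) (nat_lit 135) (nat_lit 5) (nat_lit 141) (nat_lit 5) (nat_lit 136) (nat_lit 5) (nat_lit 352) (nat_lit 327) (nat_lit 221))))) (XT.nd (nat_lit 234) (nat_lit 684) (nat_lit 0) (XT.nd (nat_lit 78) (nat_lit 760) (nat_lit 0) (XT.lf (nat_lit 0) (nat_lit 10191054261) (nat_lit 380) (nat_lit 11675093602) (nat_lit 456) (nat_lit 9231912195) (nat_lit 130) (nat_lit 5) (nat_lit 135) (nat_lit 5) (nat_lit 136) (nat_lit 5) (nat_lit 353) (nat_lit 327) (nat_lit 220)) (XT.nd (nat_lit 78) (nat_lit 456) (nat_lit 0) (XT.lf (nat_lit 0) (nat_lit 6785473233) (nat_lit 304) (nat_lit 24523285072) (nat_lit 380) (nat_lit 745126417) (nat_lit 126) (nat_lit 5) (nat_lit 130) (nat_lit 5) (nat_lit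 131) (nat_lit 5) (nat_lit 354) (nat_lit 327) (nat_lit 219)) (XT.lf (nat_lit 0) (nat_lit 3096153208) (nat_lit 380) (nat_lit 5264983746) (nat_lit 456) (nat_lit 24683378770) (nat_lit 120) (nat_lit 5) (nat_lit 125) (nat_lit 5) (nat_lit 126) (nat_lit 5) (nat_lit 355) (nat_lit 327) (nat_lit 218)))) (XT.nd (nat_lit 78) (nat_lit 684) (nat_lit 0) (XT.lf (nat_lit 0) (nat_lit 18303770696) (nat_lit 456) (nat_lit 837845686) (nat_lit 76) (nat_lit 14930950920) (nat_lit 120) (nat_lit 5) (nat_lit 126) (nat_lit 5) (nat_lit 121) (nat_lit 5) (nat_lit 356) (nat_lit 327) (nat_lit 217)) (XT.nd (nat_lit 78) (nat_lit 380) (nat_lit 0) (XT.lf (nat_lit 0) (nat_lit 29089110899) (nat_lit 380) (nat_lit 4901319574) (nat_lit 76) (nat_lit 1151227910) (nat_lit 116) (nat_lit 5) (nat_lit 121) (nat_lit 5) (nat_lit 117) (nat_lit 5) (nat_lit 357) (nat_lit 327) (nat_lit 216)) (XT.lf (nat_lit 0) (nat_lit 4524580269) (nat_lit 380) (nat_lit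 9349791924) (nat_lit 76) (nat_lit 22374957903) (nat_lit 111) (nat_lit 5) (nat_lit 116) (nat_lit 5) (nat_lit 112) (nat_lit 5) (nat_lit 358) (nat_lit 327) (nat_lit 215))))))) (XT.nd (nat_lit 936) (nat_lit 1824) (nat_lit 0) (XT.nd (nat_lit 468) (nat_lit 1520) (nat_lit 0) (XT.nd (nat_lit 234) (nat_lit 532) (nat_lit 0) (XT.nd (nat_lit 78) (nat_lit 608) (nat_lit 0) (XT.lf (nat_lit 0) (nat_lit 15845924143) (nat_lit 380) (nat_lit 14112309802) (nat_lit 76) (nat_lit 7442141263) (nat_lit 107) (nat_lit 5) (nat_lit 112) (nat_lit 5) (nat_lit 108) (nat_lit 5) (nat_lit 359) (nat_lit 327) (nat_lit 214)) (XT.nd (nat_lit 78) (nat_lit 304) (nat_lit 0) (XT.lf (nat_lit 0) (nat_lit 19371184578) (nat_lit 304) (nat_lit 8776745528) (nat_lit 380) (nat_lit 10448608118) (nat_lit 103) (nat_lit 5) (nat_lit 107) (nat_lit 5) (nat_lit 108) (nat_lit 5) (nat_lit 360) (nat_lit 327) (nat_lit 213)) (XT.lf (nat_lit 0) (nat_lit 1605908581)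 (nat_lit 304) (nat_lit 24728726269) (nat_lit 76) (nat_lit 13505016836) (nat_lit 99) (nat_lit 5) (nat_lit 103) (nat_lit 5) (nat_lit 100) (nat_lit 5) (nat_lit 361) (nat_lit 327) (nat_lit 212)))) (XT.nd (nat_lit 78) (nat_lit 228) (nat_lit 0) (XT.lf (nat_lit 0) (nat_lit 10421550697) (nat_lit 304) (nat_lit 4007762941) (nat_lit 380) (nat_lit 26701039039) (nat_lit 95) (nat_lit 5) (nat_lit 99) (nat_lit 5) (nat_lit 100) (nat_lit 5) (nat_lit 362) (nat_lit 327) (nat_lit 211)) (XT.nd (nat_lit 78) (nat_lit 0) (nat_lit 0) (XT.lf (nat_lit 0) (nat_lit 5269182952) (nat_lit 228) (nat_lit 23111120189) (nat_lit 304) (nat_lit 14090696083) (nat_lit 92) (nat_lit 5) (nat_lit 95) (nat_lit 5) (nat_lit 96) (nat_lit 5) (nat_lit 363) (nat_lit 327) (nat_lit 210)) (XT.lf (nat_lit 0) (nat_lit 43379619170) (nat_lit 304) (nat_lit 236253385) (nat_lit 76) (nat_lit 252285024) (nat_lit 92) (nat_lit 5) (nat_lit 96) (nat_lit 5) (nat_lit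 93) (nat_lit 5) (nat_lit 364) (nat_lit 327) (nat_lit 209))))) (XT.nd (nat_lit 234) (nat_lit 684) (nat_lit 0) (XT.nd (nat_lit 78) (nat_lit 456) (nat_lit 0) (XT.lf (nat_lit 0) (nat_lit 14132056449) (nat_lit 380) (nat_lit 6360160169) (nat_lit 76) (nat_lit 24820757165) (nat_lit 87) (nat_lit 5) (nat_lit 92) (nat_lit 5) (nat_lit 88) (nat_lit 5) (nat_lit 365) (nat_lit 327) (nat_lit 208)) (XT.nd (nat_lit 78) (nat_lit 228) (nat_lit 0) (XT.lf (nat_lit 0) (nat_lit 29834515108) (nat_lit 304) (nat_lit 12938136400) (nat_lit 76) (nat_lit 4046408502) (nat_lit 84) (nat_lit 5) (nat_lit 88) (nat_lit 5) (nat_lit 85) (nat_lit 5) (nat_lit 366) (nat_lit 327) (nat_lit 207)) (XT.lf (nat_lit 0) (nat_lit 28199928092) (nat_lit 228) (nat_lit 18659041040) (nat_lit 304) (nat_lit 1525377586) (nat_lit 81) (nat_lit 5) (nat_lit 84) (nat_lit 5) (nat_lit 85) (nat_lit 5) (nat_lit 367) (nat_lit 327) (nat_lit 206)))) (XT.nd (nat_lit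 78) (nat_lit 380) (nat_lit 0) (XT.lf (nat_lit 0) (nat_lit 14826741129) (nat_lit 304) (nat_lit 28167168405) (nat_lit 76) (nat_lit 7017540045) (nat_lit 77) (nat_lit 5) (nat_lit 81) (nat_lit 5) (nat_lit 78) (nat_lit 5) (nat_lit 368) (nat_lit 327) (nat_lit 205)) (XT.nd (nat_lit 78) (nat_lit 152) (nat_lit 0) (XT.lf (nat_lit 0) (nat_lit 14753631883) (nat_lit 228) (nat_lit 17744766594) (nat_lit 304) (nat_lit 19205053688) (nat_lit 74) (nat_lit 5) (nat_lit 77) (nat_lit 5) (nat_lit 78) (nat_lit 5) (nat_lit 369) (nat_lit 327) (nat_lit 204)) (XT.lf (nat_lit 0) (nat_lit 6975845911) (nat_lit 152) (nat_lit 44515326911) (nat_lit 228) (nat_lit 1975758001) (nat_lit 72) (nat_lit 5) (nat_lit 74) (nat_lit 5) (nat_lit 75) (nat_lit 5) (nat_lit 370) (nat_lit 327) (nat_lit 203)))))) (XT.nd (nat_lit 468) (nat_lit 760) (nat_lit 0) (XT.nd (nat_lit 234) (nat_lit 608) (nat_lit 0) (XT.nd (nat_lit 78) (nat_lit 380) (nat_lit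 0) (XT.lf (nat_lit 0) (nat_lit 16357302218) (nat_lit 228) (nat_lit 1785691134) (nat_lit 76) (nat_lit 37154241814) (nat_lit 71) (nat_lit 5) (nat_lit 74) (nat_lit 5) (nat_lit 72) (nat_lit 5) (nat_lit 371) (nat_lit 327) (nat_lit 202)) (XT.nd (nat_lit 78) (nat_lit 152) (nat_lit 0) (XT.lf (nat_lit 0) (nat_lit 36099089757) (nat_lit 304) (nat_lit 11278759912) (nat_lit 76) (nat_lit 9824631846) (nat_lit 68) (nat_lit 5) (nat_lit 72) (nat_lit 5) (nat_lit 69) (nat_lit 5) (nat_lit 372) (nat_lit 327) (nat_lit 201)) (XT.lf (nat_lit 0) (nat_lit 37389763325) (nat_lit 152) (nat_lit 19993298973) (nat_lit 228) (nat_lit 1803276663) (nat_lit 66) (nat_lit 5) (nat_lit 68) (nat_lit 5) (nat_lit 69) (nat_lit 5) (nat_lit 373) (nat_lit 327) (nat_lit 200)))) (XT.nd (nat_lit 78) (nat_lit 304) (nat_lit 0) (XT.lf (nat_lit 0) (nat_lit 18570092152) (nat_lit 304) (nat_lit 33526626782) (nat_lit 76) (nat_lit 9153292721) (nat_lit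 62) (nat_lit 5) (nat_lit 66) (nat_lit 5) (nat_lit 63) (nat_lit 5) (nat_lit 374) (nat_lit 327) (nat_lit 199)) (XT.nd (nat_lit 78) (nat_lit 152) (nat_lit 0) (XT.lf (nat_lit 0) (nat_lit 16861798787) (nat_lit 152) (nat_lit 23648143914) (nat_lit 228) (nat_lit 22888837870) (nat_lit 60) (nat_lit 5) (nat_lit 62) (nat_lit 5) (nat_lit 63) (nat_lit 5) (nat_lit 375) (nat_lit 327) (nat_lit 198)) (XT.lf (nat_lit 0) (nat_lit 4847416015) (nat_lit 152) (nat_lit 59148752455) (nat_lit 228) (nat_lit 1645339364) (nat_lit 58) (nat_lit 5) (nat_lit 60) (nat_lit 5) (nat_lit 61) (nat_lit 5) (nat_lit 376) (nat_lit 327) (nat_lit 197))))) (XT.nd (nat_lit 234) (nat_lit 380) (nat_lit 0) (XT.nd (nat_lit 78) (nat_lit 304) (nat_lit 0) (XT.lf (nat_lit 0) (nat_lit 20974209083) (nat_lit 228) (nat_lit 8659904073) (nat_lit 76) (nat_lit 38334790611) (nat_lit 57) (nat_lit 5) (nat_lit 60) (nat_lit 5) (nat_lit 58) (nat_lit 5) (nat_lit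 377) (nat_lit 327) (nat_lit 196)) (XT.nd (nat_lit 78) (nat_lit 152) (nat_lit 0) (XT.lf (nat_lit 0) (nat_lit 45154988628) (nat_lit 228) (nat_lit 23444386258) (nat_lit 76) (nat_lit 1798878659) (nat_lit 55) (nat_lit 5) (nat_lit 58) (nat_lit 5) (nat_lit 56) (nat_lit 5) (nat_lit 378) (nat_lit 327) (nat_lit 195)) (XT.lf (nat_lit 0) (nat_lit 32916420542) (nat_lit 152) (nat_lit 38328866519) (nat_lit 228) (nat_lit 1682770511) (nat_lit 53) (nat_lit 5) (nat_lit 55) (nat_lit 5) (nat_lit 56) (nat_lit 5) (nat_lit 379) (nat_lit 327) (nat_lit 194)))) (XT.nd (nat_lit 78) (nat_lit 152) (nat_lit 0) (XT.lf (nat_lit 0) (nat_lit 17109267742) (nat_lit 152) (nat_lit 5899817168) (nat_lit 228) (nat_lit 52556522073) (nat_lit 50) (nat_lit 5) (nat_lit 52) (nat_lit 5) (nat_lit 53) (nat_lit 5) (nat_lit 380) (nat_lit 327) (nat_lit 193)) (XT.nd (nat_lit 78) (nat_lit 152) (nat_lit 0) (XT.lf (nat_lit 0) (nat_lit 49582782541)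 (nat_lit 228) (nat_lit 700515643) (nat_lit 76) (nat_lit 28030775316) (nat_lit 50) (nat_lit 5) (nat_lit 53) (nat_lit 5) (nat_lit 51) (nat_lit 5) (nat_lit 381) (nat_lit 327) (nat_lit 192)) (XT.lf (nat_lit 0) (nat_lit 61067077755) (nat_lit 152) (nat_lit 17060044006) (nat_lit 228) (nat_lit 3053583853) (nat_lit 48) (nat_lit 5) (nat_lit 50) (nat_lit 5) (nat_lit 51) (nat_lit 5) (nat_lit 382) (nat_lit 327) (nat_lit 191))))))))
noncomputable def xc95 : XT := (XT.nd (nat_lit 43914) (nat_lit 0) (nat_lit 3344) (XT.nd (nat_lit 42978) (nat_lit 0) (nat_lit 11172) (XT.nd (nat_lit 468) (nat_lit 76) (nat_lit 0) (XT.nd (nat_lit 234) (nat_lit 380) (nat_lit 0) (XT.nd (nat_lit 78) (nat_lit 152) (nat_lit 0) (XT.lf (nat_lit 0) (nat_lit 24028889598) (nat_lit 228) (nat_lit 42013671142) (nat_lit 76) (nat_lit 18123592569) (nat_lit 45) (nat_lit 5) (nat_lit 48) (nat_lit 5) (nat_lit 46) (nat_lit 5) (nat_lit 383) (nat_lit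 327) (nat_lit 190)) (XT.nd (nat_lit 78) (nat_lit 0) (nat_lit 0) (XT.lf (nat_lit 0) (nat_lit 20851537606) (nat_lit 152) (nat_lit 32128714926) (nat_lit 228) (nat_lit 34302377149) (nat_lit 43) (nat_lit 5) (nat_lit 45) (nat_lit 5) (nat_lit 46) (nat_lit 5) (nat_lit 384) (nat_lit 327) (nat_lit 189)) (XT.lf (nat_lit 0) (nat_lit 83845123845) (nat_lit 228) (nat_lit 2849440543) (nat_lit 76) (nat_lit 3846388091) (nat_lit 43) (nat_lit 5) (nat_lit 46) (nat_lit 5) (nat_lit 44) (nat_lit 4) (nat_lit 385) (nat_lit 327) (nat_lit 188)))) (XT.nd (nat_lit 78) (nat_lit 228) (nat_lit 0) (XT.lf (nat_lit 0) (nat_lit 22808931864) (nat_lit 152) (nat_lit 29312478093) (nat_lit 76) (nat_lit 41805768063) (nat_lit 41) (nat_lit 5) (nat_lit 43) (nat_lit 5) (nat_lit 42) (nat_lit 5) (nat_lit 386) (nat_lit 327) (nat_lit 187)) (XT.nd (nat_lit 78) (nat_lit 76) (nat_lit 0) (XT.lf (nat_lit 0) (nat_lit 38710041666) (nat_lit 152) (nat_lit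 15339418921) (nat_lit 228) (nat_lit 43419295802) (nat_lit 39) (nat_lit 5) (nat_lit 41) (nat_lit 5) (nat_lit 42) (nat_lit 5) (nat_lit 387) (nat_lit 327) (nat_lit 186)) (XT.lf (nat_lit 0) (nat_lit 9519754787) (nat_lit 76) (nat_lit 77948390707) (nat_lit 152) (nat_lit 13700784973) (nat_lit 38) (nat_lit 5) (nat_lit 39) (nat_lit 5) (nat_lit 40) (nat_lit 4) (nat_lit 388) (nat_lit 327) (nat_lit 185))))) (XT.nd (nat_lit 42276) (nat_lit 0) (nat_lit 15504) (XT.nd (nat_lit 42120) (nat_lit 0) (nat_lit 15428) (XT.lf (nat_lit 0) (nat_lit 17923945025) (nat_lit 152) (nat_lit 22931972984) (nat_lit 76) (nat_lit 64170292612) (nat_lit 37) (nat_lit 5) (nat_lit 39) (nat_lit 5) (nat_lit 38) (nat_lit 5) (nat_lit 389) (nat_lit 327) (nat_lit 184)) (XT.nd (nat_lit 78) (nat_lit 0) (nat_lit 0) (XT.lf (nat_lit 0) (nat_lit 2726182870) (nat_lit 0) (nat_lit 2726182870) (nat_lit 1140) (nat_lit 2622944073) (nat_lit 240) (nat_lit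 5) (nat_lit 240) (nat_lit 3) (nat_lit 255) (nat_lit 3) (nat_lit 328) (nat_lit 328) (nat_lit 244)) (XT.lf (nat_lit 76) (nat_lit 2020178331) (nat_lit 0) (nat_lit 9652398334) (nat_lit 1216) (nat_lit 4866683288) (nat_lit 241) (nat_lit 5) (nat_lit 240) (nat_lit 5) (nat_lit 256) (nat_lit 5) (nat_lit 329) (nat_lit 328) (nat_lit 243)))) (XT.nd (nat_lit 78) (nat_lit 0) (nat_lit 0) (XT.lf (nat_lit 0) (nat_lit 12645252954) (nat_lit 1140) (nat_lit 1443485190) (nat_lit 1216) (nat_lit 2853618162) (nat_lit 241) (nat_lit 5) (nat_lit 256) (nat_lit 5) (nat_lit 257) (nat_lit 5) (nat_lit 330) (nat_lit 328) (nat_lit 242)) (XT.nd (nat_lit 78) (nat_lit 0) (nat_lit 76) (XT.lf (nat_lit 76) (nat_lit 12416281053) (nat_lit 0) (nat_lit 1442253926) (nat_lit 1216) (nat_lit 3501329699) (nat_lit 242) (nat_lit 5) (nat_lit 241) (nat_lit 5) (nat_lit 257) (nat_lit 5) (nat_lit 331) (nat_lit 328) (nat_lit 241)) (XT.lf (nat_lit 76)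 (nat_lit 9253153406) (nat_lit 0) (nat_lit 6073395756) (nat_lit 1216) (nat_lit 2465892848) (nat_lit 243) (nat_lit 5) (nat_lit 242) (nat_lit 5) (nat_lit 258) (nat_lit 5) (nat_lit 332) (nat_lit 328) (nat_lit 240)))))) (XT.nd (nat_lit 468) (nat_lit 3344) (nat_lit 0) (XT.nd (nat_lit 234) (nat_lit 0) (nat_lit 76) (XT.nd (nat_lit 78) (nat_lit 1140) (nat_lit 0) (XT.lf (nat_lit 76) (nat_lit 6035734415) (nat_lit 0) (nat_lit 11003269842) (nat_lit 1216) (nat_lit 1202527584) (nat_lit 244) (nat_lit 5) (nat_lit 243) (nat_lit 5) (nat_lit 259) (nat_lit 5) (nat_lit 333) (nat_lit 328) (nat_lit 239)) (XT.nd (nat_lit 78) (nat_lit 0) (nat_lit 0) (XT.lf (nat_lit 0) (nat_lit 300618192) (nat_lit 1216) (nat_lit 15949278134) (nat_lit 1292) (nat_lit 2457786836) (nat_lit 228) (nat_lit 5) (nat_lit 244) (nat_lit 5) (nat_lit 245) (nat_lit 5) (nat_lit 334) (nat_lit 328) (nat_lit 238)) (XT.lf (nat_lit 0) (nat_lit 2071299696)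 (nat_lit 1216) (nat_lit 607435173) (nat_lit 1292) (nat_lit 16511545605) (nat_lit 228) (nat_lit 5) (nat_lit 244) (nat_lit 5) (nat_lit 245) (nat_lit 5) (nat_lit 335) (nat_lit 328) (nat_lit 237)))) (XT.nd (nat_lit 78) (nat_lit 0) (nat_lit 76) (XT.lf (nat_lit 0) (nat_lit 4175189904) (nat_lit 1216) (nat_lit 4010894308) (nat_lit 1292) (nat_lit 11503595646) (nat_lit 229) (nat_lit 5) (nat_lit 245) (nat_lit 5) (nat_lit 246) (nat_lit 5) (nat_lit 336) (nat_lit 328) (nat_lit 236)) (XT.nd (nat_lit 78) (nat_lit 0) (nat_lit 76) (XT.lf (nat_lit 0) (nat_lit 6581664884) (nat_lit 1216) (nat_lit 7484592825) (nat_lit 1292) (nat_lit 6141881649) (nat_lit 230) (nat_lit 5) (nat_lit 246) (nat_lit 5) (nat_lit 247) (nat_lit 5) (nat_lit 337) (nat_lit 328) (nat_lit 235)) (XT.lf (nat_lit 0) (nat_lit 9311881935) (nat_lit 1216) (nat_lit 11031784153) (nat_lit 76) (nat_lit 402764482) (nat_lit 231) (nat_lit 5) (nat_lit 247) (nat_lit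 5) (nat_lit 232) (nat_lit 5) (nat_lit 338) (nat_lit 328) (nat_lit 234))))) (XT.nd (nat_lit 234) (nat_lit 1216) (nat_lit 0) (XT.nd (nat_lit 78) (nat_lit 1140) (nat_lit 0) (XT.lf (nat_lit 0) (nat_lit 6591543356) (nat_lit 1216) (nat_lit 5852694656) (nat_lit 1292) (nat_lit 8859440236) (nat_lit 215) (nat_lit 5) (nat_lit 231) (nat_lit 5) (nat_lit 232) (nat_lit 5) (nat_lit 339) (nat_lit 328) (nat_lit 233)) (XT.nd (nat_lit 78) (nat_lit 532) (nat_lit 0) (XT.lf (nat_lit 0) (nat_lit 3401059530) (nat_lit 608) (nat_lit 12552726183) (nat_lit 684) (nat_lit 5928395622) (nat_lit 207) (nat_lit 5) (nat_lit 215) (nat_lit 5) (nat_lit 216) (nat_lit 5) (nat_lit 340) (nat_lit 328) (nat_lit 232)) (XT.lf (nat_lit 0) (nat_lit 144079253) (nat_lit 532) (nat_lit 19717011495) (nat_lit 608) (nat_lit 2621860182) (nat_lit 200) (nat_lit 5) (nat_lit 207) (nat_lit 5) (nat_lit 208) (nat_lit 5) (nat_lit 341) (nat_lit 328) (nat_lit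 231)))) (XT.nd (nat_lit 78) (nat_lit 1140) (nat_lit 0) (XT.lf (nat_lit 0) (nat_lit 1136566561) (nat_lit 608) (nat_lit 3173375702) (nat_lit 76) (nat_lit 18794486101) (nat_lit 199) (nat_lit 5) (nat_lit 207) (nat_lit 5) (nat_lit 200) (nat_lit 5) (nat_lit 342) (nat_lit 328) (nat_lit 230)) (XT.nd (nat_lit 78) (nat_lit 532) (nat_lit 0) (XT.lf (nat_lit 0) (nat_lit 5296026192) (nat_lit 684) (nat_lit 6621776220) (nat_lit 76) (nat_lit 11830387006) (nat_lit 191) (nat_lit 5) (nat_lit 200) (nat_lit 5) (nat_lit 192) (nat_lit 5) (nat_lit 343) (nat_lit 328) (nat_lit 229)) (XT.lf (nat_lit 0) (nat_lit 9905804485) (nat_lit 608) (nat_lit 10155797202) (nat_lit 76) (nat_lit 4355274644) (nat_lit 184) (nat_lit 5) (nat_lit 192) (nat_lit 5) (nat_lit 185) (nat_lit 5) (nat_lit 344) (nat_lit 328) (nat_lit 228))))))) (XT.nd (nat_lit 936) (nat_lit 2964) (nat_lit 0) (XT.nd (nat_lit 468) (nat_lit 2432) (nat_lit 0) (XT.nd (nat_lit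 234) (nat_lit 912) (nat_lit 0) (XT.nd (nat_lit 78) (nat_lit 988) (nat_lit 0) (XT.lf (nat_lit 0) (nat_lit 11294322498) (nat_lit 532) (nat_lit 3735636216) (nat_lit 608) (nat_lit 10080530056) (nat_lit 177) (nat_lit 5) (nat_lit 184) (nat_lit 5) (nat_lit 185) (nat_lit 5) (nat_lit 345) (nat_lit 328) (nat_lit 227)) (XT.nd (nat_lit 78) (nat_lit 532) (nat_lit 0) (XT.lf (nat_lit 0) (nat_lit 8209227521) (nat_lit 456) (nat_lit 12501160213) (nat_lit 532) (nat_lit 5119399500) (nat_lit 171) (nat_lit 5) (nat_lit 177) (nat_lit 5) (nat_lit 178) (nat_lit 5) (nat_lit 346) (nat_lit 328) (nat_lit 226)) (XT.lf (nat_lit 0) (nat_lit 351335609) (nat_lit 532) (nat_lit 21535776448) (nat_lit 76) (nat_lit 4690020529) (nat_lit 164) (nat_lit 5) (nat_lit 171) (nat_lit 5) (nat_lit 165) (nat_lit 5) (nat_lit 347) (nat_lit 328) (nat_lit 225)))) (XT.nd (nat_lit 78) (nat_lit 456) (nat_lit 0) (XT.lf (nat_lit 0) (nat_lit 1687075637)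 (nat_lit 456) (nat_lit 4616749201) (nat_lit 532) (nat_lit 21047083452) (nat_lit 158) (nat_lit 5) (nat_lit 164) (nat_lit 5) (nat_lit 165) (nat_lit 5) (nat_lit 348) (nat_lit 328) (nat_lit 224)) (XT.nd (nat_lit 78) (nat_lit 456) (nat_lit 0) (XT.lf (nat_lit 0) (nat_lit 12895732537) (nat_lit 532) (nat_lit 1782065447) (nat_lit 76) (nat_lit 13475327198) (nat_lit 158) (nat_lit 5) (nat_lit 165) (nat_lit 5) (nat_lit 159) (nat_lit 5) (nat_lit 349) (nat_lit 328) (nat_lit 223)) (XT.lf (nat_lit 0) (nat_lit 20114915768) (nat_lit 532) (nat_lit 5326379284) (nat_lit 76) (nat_lit 3545233387) (nat_lit 152) (nat_lit 5) (nat_lit 159) (nat_lit 5) (nat_lit 153) (nat_lit 5) (nat_lit 350) (nat_lit 328) (nat_lit 222))))) (XT.nd (nat_lit 234) (nat_lit 1140) (nat_lit 0) (XT.nd (nat_lit 78) (nat_lit 912) (nat_lit 0) (XT.lf (nat_lit 0) (nat_lit 20794550232) (nat_lit 380) (nat_lit 7256012810) (nat_lit 456) (nat_lit 1800379312)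 (nat_lit 147) (nat_lit 5) (nat_lit 152) (nat_lit 5) (nat_lit 153) (nat_lit 5) (nat_lit 351) (nat_lit 328) (nat_lit 221)) (XT.nd (nat_lit 78) (nat_lit 380) (nat_lit 0) (XT.lf (nat_lit 0) (nat_lit 5847470569) (nat_lit 532) (nat_lit 13010688427) (nat_lit 76) (nat_lit 11888817004) (nat_lit 140) (nat_lit 5) (nat_lit 147) (nat_lit 5) (nat_lit 141) (nat_lit 5) (nat_lit 352) (nat_lit 328) (nat_lit 220)) (XT.lf (nat_lit 0) (nat_lit 14141654545) (nat_lit 456) (nat_lit 17131186449) (nat_lit 76) (nat_lit 405405251) (nat_lit 135) (nat_lit 5) (nat_lit 141) (nat_lit 5) (nat_lit 136) (nat_lit 5) (nat_lit 353) (nat_lit 328) (nat_lit 219)))) (XT.nd (nat_lit 78) (nat_lit 760) (nat_lit 0) (XT.lf (nat_lit 0) (nat_lit 11114541264) (nat_lit 380) (nat_lit 12158383103) (nat_lit 456) (nat_lit 9370489068) (nat_lit 130) (nat_lit 5) (nat_lit 135) (nat_lit 5) (nat_lit 136) (nat_lit 5) (nat_lit 354) (nat_lit 328) (nat_lit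 218)) (XT.nd (nat_lit 78) (nat_lit 456) (nat_lit 0) (XT.lf (nat_lit 0) (nat_lit 7535153679) (nat_lit 304) (nat_lit 25642449377) (nat_lit 380) (nat_lit 469735074) (nat_lit 126) (nat_lit 5) (nat_lit 130) (nat_lit 5) (nat_lit 131) (nat_lit 5) (nat_lit 355) (nat_lit 328) (nat_lit 217)) (XT.lf (nat_lit 0) (nat_lit 3655660154) (nat_lit 380) (nat_lit 5419373181) (nat_lit 456) (nat_lit 25612704814) (nat_lit 120) (nat_lit 5) (nat_lit 125) (nat_lit 5) (nat_lit 126) (nat_lit 5) (nat_lit 356) (nat_lit 328) (nat_lit 216)))))) (XT.nd (nat_lit 468) (nat_lit 1368) (nat_lit 0) (XT.nd (nat_lit 234) (nat_lit 912) (nat_lit 0) (XT.nd (nat_lit 78) (nat_lit 684) (nat_lit 0) (XT.lf (nat_lit 0) (nat_lit 19501707763) (nat_lit 456) (nat_lit 486732046) (nat_lit 76) (nat_lit 15779151329) (nat_lit 120) (nat_lit 5) (nat_lit 126) (nat_lit 5) (nat_lit 121) (nat_lit 5) (nat_lit 357) (nat_lit 328) (nat_lit 215)) (XT.nd (nat_lit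 78) (nat_lit 380) (nat_lit 0) (XT.lf (nat_lit 0) (nat_lit 30817566008) (nat_lit 380) (nat_lit 4757385914) (nat_lit 76) (nat_lit 1315453134) (nat_lit 116) (nat_lit 5) (nat_lit 121) (nat_lit 5) (nat_lit 117) (nat_lit 5) (nat_lit 358) (nat_lit 328) (nat_lit 214)) (XT.lf (nat_lit 0) (nat_lit 5018121571) (nat_lit 380) (nat_lit 9434004941) (nat_lit 76) (nat_lit 23601543222) (nat_lit 111) (nat_lit 5) (nat_lit 116) (nat_lit 5) (nat_lit 112) (nat_lit 5) (nat_lit 359) (nat_lit 328) (nat_lit 213)))) (XT.nd (nat_lit 78) (nat_lit 608) (nat_lit 0) (XT.lf (nat_lit 0) (nat_lit 16897479232) (nat_lit 380) (nat_lit 14438885096) (nat_lit 76) (nat_lit 7926149495) (nat_lit 107) (nat_lit 5) (nat_lit 112) (nat_lit 5) (nat_lit 108) (nat_lit 5) (nat_lit 360) (nat_lit 328) (nat_lit 212)) (XT.nd (nat_lit 78) (nat_lit 304) (nat_lit 0) (XT.lf (nat_lit 0) (nat_lit 20707918893) (nat_lit 304) (nat_lit 9097860065) (nat_lit 380)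 (nat_lit 10712975104) (nat_lit 103) (nat_lit 5) (nat_lit 107) (nat_lit 5) (nat_lit 108) (nat_lit 5) (nat_lit 361) (nat_lit 328) (nat_lit 211)) (XT.lf (nat_lit 0) (nat_lit 1931803963) (nat_lit 304) (nat_lit 25596269366) (nat_lit 76) (nat_lit 14296102786) (nat_lit 99) (nat_lit 5) (nat_lit 103) (nat_lit 5) (nat_lit 100) (nat_lit 5) (nat_lit 362) (nat_lit 328) (nat_lit 210))))) (XT.nd (nat_lit 234) (nat_lit 532) (nat_lit 0) (XT.nd (nat_lit 78) (nat_lit 532) (nat_lit 0) (XT.lf (nat_lit 0) (nat_lit 11300947198) (nat_lit 304) (nat_lit 4087181220) (nat_lit 380) (nat_lit 27791535557) (nat_lit 95) (nat_lit 5) (nat_lit 99) (nat_lit 5) (nat_lit 100) (nat_lit 5) (nat_lit 363) (nat_lit 328) (nat_lit 209)) (XT.nd (nat_lit 78) (nat_lit 304) (nat_lit 0) (XT.lf (nat_lit 0) (nat_lit 5886560189) (nat_lit 228) (nat_lit 24143314410) (nat_lit 304) (nat_lit 14557676123) (nat_lit 92) (nat_lit 5) (nat_lit 95) (nat_lit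 5) (nat_lit 96) (nat_lit 5) (nat_lit 364) (nat_lit 328) (nat_lit 208)) (XT.lf (nat_lit 0) (nat_lit 96416059) (nat_lit 304) (nat_lit 45673817669) (nat_lit 380) (nat_lit 284604841) (nat_lit 88) (nat_lit 5) (nat_lit 92) (nat_lit 5) (nat_lit 93) (nat_lit 5) (nat_lit 365) (nat_lit 328) (nat_lit 207)))) (XT.nd (nat_lit 78) (nat_lit 456) (nat_lit 0) (XT.lf (nat_lit 0) (nat_lit 15054240655) (nat_lit 380) (nat_lit 6341025564) (nat_lit 76) (nat_lit 26176816800) (nat_lit 87) (nat_lit 5) (nat_lit 92) (nat_lit 5) (nat_lit 88) (nat_lit 5) (nat_lit 366) (nat_lit 328) (nat_lit 206)) (XT.nd (nat_lit 78) (nat_lit 228) (nat_lit 0) (XT.lf (nat_lit 0) (nat_lit 31535848435) (nat_lit 304) (nat_lit 13252386289) (nat_lit 76) (nat_lit 4365421478) (nat_lit 84) (nat_lit 5) (nat_lit 88) (nat_lit 5) (nat_lit 85) (nat_lit 5) (nat_lit 367) (nat_lit 328) (nat_lit 205)) (XT.lf (nat_lit 0) (nat_lit 29933045884) (nat_lit 228)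 (nat_lit 19471604003) (nat_lit 304) (nat_lit 1392766881) (nat_lit 81) (nat_lit 5) (nat_lit 84) (nat_lit 5) (nat_lit 85) (nat_lit 5) (nat_lit 368) (nat_lit 328) (nat_lit 204))))))))
noncomputable def xc96 : XT := (XT.nd (nat_lit 43914) (nat_lit 0) (nat_lit 7372) (XT.nd (nat_lit 858) (nat_lit 1292) (nat_lit 0) (XT.nd (nat_lit 390) (nat_lit 988) (nat_lit 0) (XT.nd (nat_lit 156) (nat_lit 456) (nat_lit 0) (XT.nd (nat_lit 78) (nat_lit 228) (nat_lit 0) (XT.lf (nat_lit 0) (nat_lit 15767336214) (nat_lit 304) (nat_lit 29252794634) (nat_lit 76) (nat_lit 7485853073) (nat_lit 77) (nat_lit 5) (nat_lit 81) (nat_lit 5) (nat_lit 78) (nat_lit 5) (nat_lit 369) (nat_lit 328) (nat_lit 203)) (XT.lf (nat_lit 0) (nat_lit 15804794615) (nat_lit 228) (nat_lit 18511306711) (nat_lit 304) (nat_lit 19966682442) (nat_lit 74) (nat_lit 5) (nat_lit 77) (nat_lit 5) (nat_lit 78) (nat_lit 5) (nat_lit 370) (nat_lit 328) (nat_lit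 202))) (XT.nd (nat_lit 78) (nat_lit 304) (nat_lit 0) (XT.lf (nat_lit 0) (nat_lit 7633680078) (nat_lit 152) (nat_lit 46619729846) (nat_lit 228) (nat_lit 1881182307) (nat_lit 72) (nat_lit 5) (nat_lit 74) (nat_lit 5) (nat_lit 75) (nat_lit 5) (nat_lit 371) (nat_lit 328) (nat_lit 201)) (XT.nd (nat_lit 78) (nat_lit 228) (nat_lit 0) (XT.lf (nat_lit 0) (nat_lit 17355729590) (nat_lit 228) (nat_lit 1577005904) (nat_lit 76) (nat_lit 39123893910) (nat_lit 71) (nat_lit 5) (nat_lit 74) (nat_lit 5) (nat_lit 72) (nat_lit 5) (nat_lit 372) (nat_lit 328) (nat_lit 200)) (XT.lf (nat_lit 0) (nat_lit 38079892864) (nat_lit 304) (nat_lit 11549081136) (nat_lit 76) (nat_lit 10428307893) (nat_lit 68) (nat_lit 5) (nat_lit 72) (nat_lit 5) (nat_lit 69) (nat_lit 5) (nat_lit 373) (nat_lit 328) (nat_lit 199))))) (XT.nd (nat_lit 234) (nat_lit 380) (nat_lit 0) (XT.nd (nat_lit 78) (nat_lit 456) (nat_lit 0) (XT.lf (nat_lit 0) (nat_lit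 39544451797) (nat_lit 152) (nat_lit 20877980011) (nat_lit 228) (nat_lit 1718071667) (nat_lit 66) (nat_lit 5) (nat_lit 68) (nat_lit 5) (nat_lit 69) (nat_lit 5) (nat_lit 374) (nat_lit 328) (nat_lit 198)) (XT.nd (nat_lit 78) (nat_lit 152) (nat_lit 0) (XT.lf (nat_lit 0) (nat_lit 19666146119) (nat_lit 304) (nat_lit 34918624855) (nat_lit 76) (nat_lit 9722672302) (nat_lit 62) (nat_lit 5) (nat_lit 66) (nat_lit 5) (nat_lit 63) (nat_lit 5) (nat_lit 375) (nat_lit 328) (nat_lit 197)) (XT.lf (nat_lit 0) (nat_lit 17981071636) (nat_lit 152) (nat_lit 24716593857) (nat_lit 228) (nat_lit 23866146879) (nat_lit 60) (nat_lit 5) (nat_lit 62) (nat_lit 5) (nat_lit 63) (nat_lit 5) (nat_lit 376) (nat_lit 328) (nat_lit 196)))) (XT.nd (nat_lit 78) (nat_lit 228) (nat_lit 0) (XT.lf (nat_lit 0) (nat_lit 5361755534) (nat_lit 152) (nat_lit 61992379579) (nat_lit 228) (nat_lit 1564664835) (nat_lit 58) (nat_lit 5) (nat_lit 60)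 (nat_lit 5) (nat_lit 61) (nat_lit 5) (nat_lit 377) (nat_lit 328) (nat_lit 195)) (XT.nd (nat_lit 78) (nat_lit 152) (nat_lit 0) (XT.lf (nat_lit 0) (nat_lit 22175073748) (nat_lit 228) (nat_lit 8830817656) (nat_lit 76) (nat_lit 40356857298) (nat_lit 57) (nat_lit 5) (nat_lit 60) (nat_lit 5) (nat_lit 58) (nat_lit 5) (nat_lit 378) (nat_lit 328) (nat_lit 194)) (XT.lf (nat_lit 0) (nat_lit 47561124504) (nat_lit 228) (nat_lit 24358612461) (nat_lit 76) (nat_lit 1993943733) (nat_lit 55) (nat_lit 5) (nat_lit 58) (nat_lit 5) (nat_lit 56) (nat_lit 5) (nat_lit 379) (nat_lit 328) (nat_lit 193)))))) (XT.nd (nat_lit 468) (nat_lit 380) (nat_lit 0) (XT.nd (nat_lit 234) (nat_lit 532) (nat_lit 0) (XT.nd (nat_lit 78) (nat_lit 228) (nat_lit 0) (XT.lf (nat_lit 0) (nat_lit 34812839359) (nat_lit 152) (nat_lit 40138441379) (nat_lit 228) (nat_lit 1618835518) (nat_lit 53) (nat_lit 5) (nat_lit 55) (nat_lit 5) (nat_lit 56) (nat_lit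 5) (nat_lit 380) (nat_lit 328) (nat_lit 192)) (XT.nd (nat_lit 78) (nat_lit 0) (nat_lit 0) (XT.lf (nat_lit 0) (nat_lit 18210982680) (nat_lit 152) (nat_lit 6089194140) (nat_lit 228) (nat_lit 55039461503) (nat_lit 50) (nat_lit 5) (nat_lit 52) (nat_lit 5) (nat_lit 53) (nat_lit 5) (nat_lit 381) (nat_lit 328) (nat_lit 191)) (XT.lf (nat_lit 0) (nat_lit 52196829181) (nat_lit 228) (nat_lit 497936345) (nat_lit 76) (nat_lit 29530935967) (nat_lit 50) (nat_lit 5) (nat_lit 53) (nat_lit 5) (nat_lit 51) (nat_lit 5) (nat_lit 382) (nat_lit 328) (nat_lit 190)))) (XT.nd (nat_lit 78) (nat_lit 380) (nat_lit 0) (XT.lf (nat_lit 0) (nat_lit 64351225822) (nat_lit 152) (nat_lit 17812953908) (nat_lit 228) (nat_lit 3071613007) (nat_lit 48) (nat_lit 5) (nat_lit 50) (nat_lit 5) (nat_lit 51) (nat_lit 5) (nat_lit 383) (nat_lit 328) (nat_lit 189)) (XT.nd (nat_lit 78) (nat_lit 152) (nat_lit 0) (XT.lf (nat_lit 0) (nat_lit 25359199661)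 (nat_lit 228) (nat_lit 43884686035) (nat_lit 76) (nat_lit 19126684252) (nat_lit 45) (nat_lit 5) (nat_lit 48) (nat_lit 5) (nat_lit 46) (nat_lit 5) (nat_lit 384) (nat_lit 328) (nat_lit 188)) (XT.lf (nat_lit 0) (nat_lit 22117199744) (nat_lit 152) (nat_lit 33636938973) (nat_lit 228) (nat_lit 35888852375) (nat_lit 43) (nat_lit 5) (nat_lit 45) (nat_lit 5) (nat_lit 46) (nat_lit 5) (nat_lit 385) (nat_lit 328) (nat_lit 187))))) (XT.nd (nat_lit 234) (nat_lit 76) (nat_lit 0) (XT.nd (nat_lit 78) (nat_lit 304) (nat_lit 0) (XT.lf (nat_lit 0) (nat_lit 88157206351) (nat_lit 228) (nat_lit 2776758990) (nat_lit 76) (nat_lit 4130417244) (nat_lit 43) (nat_lit 5) (nat_lit 46) (nat_lit 5) (nat_lit 44) (nat_lit 4) (nat_lit 386) (nat_lit 328) (nat_lit 186)) (XT.nd (nat_lit 78) (nat_lit 152) (nat_lit 0) (XT.lf (nat_lit 0) (nat_lit 24066678679) (nat_lit 152) (nat_lit 30566760230) (nat_lit 76) (nat_lit 43986557989) (nat_lit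 41) (nat_lit 5) (nat_lit 43) (nat_lit 5) (nat_lit 42) (nat_lit 5) (nat_lit 387) (nat_lit 328) (nat_lit 185)) (XT.lf (nat_lit 0) (nat_lit 40850827447) (nat_lit 152) (nat_lit 16014793978) (nat_lit 228) (nat_lit 45473142133) (nat_lit 39) (nat_lit 5) (nat_lit 41) (nat_lit 5) (nat_lit 42) (nat_lit 5) (nat_lit 388) (nat_lit 328) (nat_lit 184)))) (XT.nd (nat_lit 42198) (nat_lit 0) (nat_lit 15352) (XT.lf (nat_lit 0) (nat_lit 10197618883) (nat_lit 76) (nat_lit 81754987097) (nat_lit 152) (nat_lit 14271420352) (nat_lit 38) (nat_lit 5) (nat_lit 39) (nat_lit 5) (nat_lit 40) (nat_lit 4) (nat_lit 389) (nat_lit 328) (nat_lit 183)) (XT.nd (nat_lit 78) (nat_lit 0) (nat_lit 0) (XT.lf (nat_lit 0) (nat_lit 3063543175) (nat_lit 0) (nat_lit 3063543175) (nat_lit 1140) (nat_lit 2339661714) (nat_lit 240) (nat_lit 5) (nat_lit 240) (nat_lit 3) (nat_lit 255) (nat_lit 3) (nat_lit 329) (nat_lit 329) (nat_lit 242)) (XT.lf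 (nat_lit 76) (nat_lit 2539465609) (nat_lit 0) (nat_lit 10482988629) (nat_lit 1216) (nat_lit 4320278068) (nat_lit 241) (nat_lit 5) (nat_lit 240) (nat_lit 5) (nat_lit 256) (nat_lit 5) (nat_lit 330) (nat_lit 329) (nat_lit 241))))))) (XT.nd (nat_lit 936) (nat_lit 4940) (nat_lit 0) (XT.nd (nat_lit 468) (nat_lit 2128) (nat_lit 0) (XT.nd (nat_lit 234) (nat_lit 988) (nat_lit 0) (XT.nd (nat_lit 78) (nat_lit 0) (nat_lit 0) (XT.lf (nat_lit 0) (nat_lit 14004090684) (nat_lit 1140) (nat_lit 1091741439) (nat_lit 1216) (nat_lit 2671365524) (nat_lit 241) (nat_lit 5) (nat_lit 256) (nat_lit 5) (nat_lit 257) (nat_lit 5) (nat_lit 331) (nat_lit 329) (nat_lit 240)) (XT.nd (nat_lit 78) (nat_lit 0) (nat_lit 76) (XT.lf (nat_lit 76) (nat_lit 13448861592) (nat_lit 0) (nat_lit 1798534557) (nat_lit 1216) (nat_lit 2959127331) (nat_lit 242) (nat_lit 5) (nat_lit 241) (nat_lit 5) (nat_lit 257) (nat_lit 5) (nat_lit 332) (nat_lit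 329) (nat_lit 239)) (XT.lf (nat_lit 76) (nat_lit 10139150540) (nat_lit 0) (nat_lit 6617988644) (nat_lit 1216) (nat_lit 1904562382) (nat_lit 243) (nat_lit 5) (nat_lit 242) (nat_lit 5) (nat_lit 258) (nat_lit 5) (nat_lit 333) (nat_lit 329) (nat_lit 238)))) (XT.nd (nat_lit 78) (nat_lit 1140) (nat_lit 0) (XT.lf (nat_lit 76) (nat_lit 6770754030) (nat_lit 0) (nat_lit 11754790333) (nat_lit 1216) (nat_lit 608612403) (nat_lit 244) (nat_lit 5) (nat_lit 243) (nat_lit 5) (nat_lit 259) (nat_lit 5) (nat_lit 334) (nat_lit 329) (nat_lit 237)) (XT.nd (nat_lit 78) (nat_lit 0) (nat_lit 0) (XT.lf (nat_lit 0) (nat_lit 928816065) (nat_lit 1216) (nat_lit 16292567511) (nat_lit 1292) (nat_lit 2402905963) (nat_lit 228) (nat_lit 5) (nat_lit 244) (nat_lit 5) (nat_lit 245) (nat_lit 5) (nat_lit 335) (nat_lit 329) (nat_lit 236)) (XT.lf (nat_lit 0) (nat_lit 2758833218) (nat_lit 1216) (nat_lit 205259760) (nat_lit 1292) (nat_lit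 17167817919) (nat_lit 228) (nat_lit 5) (nat_lit 244) (nat_lit 5) (nat_lit 245) (nat_lit 5) (nat_lit 336) (nat_lit 329) (nat_lit 235))))) (XT.nd (nat_lit 234) (nat_lit 2204) (nat_lit 0) (XT.nd (nat_lit 78) (nat_lit 0) (nat_lit 76) (XT.lf (nat_lit 0) (nat_lit 4942802378) (nat_lit 1216) (nat_lit 3772791311) (nat_lit 1292) (nat_lit 11941457388) (nat_lit 229) (nat_lit 5) (nat_lit 245) (nat_lit 5) (nat_lit 246) (nat_lit 5) (nat_lit 337) (nat_lit 329) (nat_lit 234)) (XT.nd (nat_lit 78) (nat_lit 0) (nat_lit 76) (XT.lf (nat_lit 0) (nat_lit 7446024831) (nat_lit 1216) (nat_lit 7415267838) (nat_lit 1292) (nat_lit 6340864702) (nat_lit 230) (nat_lit 5) (nat_lit 246) (nat_lit 5) (nat_lit 247) (nat_lit 5) (nat_lit 338) (nat_lit 329) (nat_lit 233)) (XT.lf (nat_lit 0) (nat_lit 10290606169) (nat_lit 1216) (nat_lit 11136001665) (nat_lit 76) (nat_lit 341435453) (nat_lit 231) (nat_lit 5) (nat_lit 247) (nat_lit 5)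 (nat_lit 232) (nat_lit 5) (nat_lit 339) (nat_lit 329) (nat_lit 232)))) (XT.nd (nat_lit 78) (nat_lit 1140) (nat_lit 0) (XT.lf (nat_lit 0) (nat_lit 7355668400) (nat_lit 1216) (nat_lit 6203654022) (nat_lit 1292) (nat_lit 8794453651) (nat_lit 215) (nat_lit 5) (nat_lit 231) (nat_lit 5) (nat_lit 232) (nat_lit 5) (nat_lit 340) (nat_lit 329) (nat_lit 231)) (XT.nd (nat_lit 78) (nat_lit 532) (nat_lit 0) (XT.lf (nat_lit 0) (nat_lit 4008402385) (nat_lit 608) (nat_lit 13216144547) (nat_lit 684) (nat_lit 5737265681) (nat_lit 207) (nat_lit 5) (nat_lit 215) (nat_lit 5) (nat_lit 216) (nat_lit 5) (nat_lit 341) (nat_lit 329) (nat_lit 230)) (XT.lf (nat_lit 0) (nat_lit 590435153) (nat_lit 532) (nat_lit 20718148648) (nat_lit 608) (nat_lit 2284609490) (nat_lit 200) (nat_lit 5) (nat_lit 207) (nat_lit 5) (nat_lit 208) (nat_lit 5) (nat_lit 342) (nat_lit 329) (nat_lit 229)))))) (XT.nd (nat_lit 468) (nat_lit 2204) (nat_lit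 0) (XT.nd (nat_lit 234) (nat_lit 1520) (nat_lit 0) (XT.nd (nat_lit 78) (nat_lit 1140) (nat_lit 0) (XT.lf (nat_lit 0) (nat_lit 1630732630) (nat_lit 608) (nat_lit 2904849138) (nat_lit 76) (nat_lit 19710696352) (nat_lit 199) (nat_lit 5) (nat_lit 207) (nat_lit 5) (nat_lit 200) (nat_lit 5) (nat_lit 343) (nat_lit 329) (nat_lit 228)) (XT.nd (nat_lit 78) (nat_lit 532) (nat_lit 0) (XT.lf (nat_lit 0) (nat_lit 5981275028) (nat_lit 684) (nat_lit 6525007212) (nat_lit 76) (nat_lit 12416463670) (nat_lit 191) (nat_lit 5) (nat_lit 200) (nat_lit 5) (nat_lit 192) (nat_lit 5) (nat_lit 344) (nat_lit 329) (nat_lit 227)) (XT.lf (nat_lit 0) (nat_lit 10805623257) (nat_lit 608) (nat_lit 10235740317) (nat_lit 76) (nat_lit 4583992573) (nat_lit 184) (nat_lit 5) (nat_lit 192) (nat_lit 5) (nat_lit 185) (nat_lit 5) (nat_lit 345) (nat_lit 329) (nat_lit 226)))) (XT.nd (nat_lit 78) (nat_lit 988) (nat_lit 0) (XT.lf (nat_lit 0)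 (nat_lit 12274621227) (nat_lit 532) (nat_lit 3896095539) (nat_lit 608) (nat_lit 10183401356) (nat_lit 177) (nat_lit 5) (nat_lit 184) (nat_lit 5) (nat_lit 185) (nat_lit 5) (nat_lit 346) (nat_lit 329) (nat_lit 225)) (XT.nd (nat_lit 78) (nat_lit 532) (nat_lit 0) (XT.lf (nat_lit 0) (nat_lit 9034667249) (nat_lit 456) (nat_lit 13086193797) (nat_lit 532) (nat_lit 4988959997) (nat_lit 171) (nat_lit 5) (nat_lit 177) (nat_lit 5) (nat_lit 178) (nat_lit 5) (nat_lit 347) (nat_lit 329) (nat_lit 224)) (XT.lf (nat_lit 0) (nat_lit 734117717) (nat_lit 532) (nat_lit 22191268877) (nat_lit 76) (nat_lit 4969454820) (nat_lit 164) (nat_lit 5) (nat_lit 171) (nat_lit 5) (nat_lit 165) (nat_lit 5) (nat_lit 348) (nat_lit 329) (nat_lit 223))))) (XT.nd (nat_lit 234) (nat_lit 1292) (nat_lit 0) (XT.nd (nat_lit 78) (nat_lit 456) (nat_lit 0) (XT.lf (nat_lit 0) (nat_lit 2180649435) (nat_lit 456) (nat_lit 4790124440) (nat_lit 532)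 (nat_lit 21736944867) (nat_lit 158) (nat_lit 5) (nat_lit 164) (nat_lit 5) (nat_lit 165) (nat_lit 5) (nat_lit 349) (nat_lit 329) (nat_lit 222)) (XT.nd (nat_lit 78) (nat_lit 456) (nat_lit 0) (XT.lf (nat_lit 0) (nat_lit 13876052647) (nat_lit 532) (nat_lit 1471737656) (nat_lit 76) (nat_lit 14202751583) (nat_lit 158) (nat_lit 5) (nat_lit 165) (nat_lit 5) (nat_lit 159) (nat_lit 5) (nat_lit 350) (nat_lit 329) (nat_lit 221)) (XT.lf (nat_lit 0) (nat_lit 21444568669) (nat_lit 532) (nat_lit 5195474853) (nat_lit 76) (nat_lit 3785928839) (nat_lit 152) (nat_lit 5) (nat_lit 159) (nat_lit 5) (nat_lit 153) (nat_lit 5) (nat_lit 351) (nat_lit 329) (nat_lit 220)))) (XT.nd (nat_lit 78) (nat_lit 912) (nat_lit 0) (XT.lf (nat_lit 0) (nat_lit 22220114811) (nat_lit 380) (nat_lit 7545168250) (nat_lit 456) (nat_lit 1568683239) (nat_lit 147) (nat_lit 5) (nat_lit 152) (nat_lit 5) (nat_lit 153) (nat_lit 5) (nat_lit 352) (nat_lit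 329) (nat_lit 219)) (XT.nd (nat_lit 78) (nat_lit 380) (nat_lit 0) (XT.lf (nat_lit 0) (nat_lit 6444662764) (nat_lit 532) (nat_lit 13271671119) (nat_lit 76) (nat_lit 12558700803) (nat_lit 140) (nat_lit 5) (nat_lit 147) (nat_lit 5) (nat_lit 141) (nat_lit 5) (nat_lit 353) (nat_lit 329) (nat_lit 218)) (XT.lf (nat_lit 0) (nat_lit 15143489769) (nat_lit 456) (nat_lit 17601215352) (nat_lit 76) (nat_lit 508472240) (nat_lit 135) (nat_lit 5) (nat_lit 141) (nat_lit 5) (nat_lit 136) (nat_lit 5) (nat_lit 354) (nat_lit 329) (nat_lit 217))))))))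
noncomputable def xc97 : XT := (XT.nd (nat_lit 1794) (nat_lit 1596) (nat_lit 0) (XT.nd (nat_lit 858) (nat_lit 2432) (nat_lit 0) (XT.nd (nat_lit 390) (nat_lit 1824) (nat_lit 0) (XT.nd (nat_lit 156) (nat_lit 760) (nat_lit 0) (XT.nd (nat_lit 78) (nat_lit 304) (nat_lit 0) (XT.lf (nat_lit 0) (nat_lit 12045718930) (nat_lit 380) (nat_lit 12675177379) (nat_lit 456) (nat_lit 9546026005) (nat_lit 130) (nat_lit 5) (nat_lit 135) (nat_lit 5) (nat_lit 136) (nat_lit 5) (nat_lit 355) (nat_lit 329) (nat_lit 216)) (XT.lf (nat_lit 0) (nat_lit 8284162415) (nat_lit 304) (nat_lit 26827519739) (nat_lit 380) (nat_lit 209641181) (nat_lit 126) (nat_lit 5) (nat_lit 130) (nat_lit 5) (nat_lit 131) (nat_lit 5) (nat_lit 356) (nat_lit 329) (nat_lit 215))) (XT.nd (nat_lit 78) (nat_lit 304) (nat_lit 0) (XT.lf (nat_lit 0) (nat_lit 4205517343) (nat_lit 380) (nat_lit 5591602836) (nat_lit 456) (nat_lit 26616838562) (nat_lit 120)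 (nat_lit 5) (nat_lit 125) (nat_lit 5) (nat_lit 126) (nat_lit 5) (nat_lit 357) (nat_lit 329) (nat_lit 214)) (XT.nd (nat_lit 78) (nat_lit 304) (nat_lit 0) (XT.lf (nat_lit 0) (nat_lit 20733254406) (nat_lit 456) (nat_lit 154600690) (nat_lit 76) (nat_lit 16660311039) (nat_lit 120) (nat_lit 5) (nat_lit 126) (nat_lit 5) (nat_lit 121) (nat_lit 5) (nat_lit 358) (nat_lit 329) (nat_lit 213)) (XT.lf (nat_lit 0) (nat_lit 32606969990) (nat_lit 380) (nat_lit 4642421070) (nat_lit 76) (nat_lit 1477973027) (nat_lit 116) (nat_lit 5) (nat_lit 121) (nat_lit 5) (nat_lit 117) (nat_lit 5) (nat_lit 359) (nat_lit 329) (nat_lit 212))))) (XT.nd (nat_lit 234) (nat_lit 836) (nat_lit 0) (XT.nd (nat_lit 78) (nat_lit 608) (nat_lit 0) (XT.lf (nat_lit 0) (nat_lit 5511487776) (nat_lit 380) (nat_lit 9558062033) (nat_lit 76) (nat_lit 24879432105) (nat_lit 111) (nat_lit 5) (nat_lit 116) (nat_lit 5) (nat_lit 112) (nat_lit 5) (nat_lit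 360) (nat_lit 329) (nat_lit 211)) (XT.nd (nat_lit 78) (nat_lit 304) (nat_lit 0) (XT.lf (nat_lit 0) (nat_lit 17977508642) (nat_lit 380) (nat_lit 14817028719) (nat_lit 76) (nat_lit 8423954629) (nat_lit 107) (nat_lit 5) (nat_lit 112) (nat_lit 5) (nat_lit 108) (nat_lit 5) (nat_lit 361) (nat_lit 329) (nat_lit 210)) (XT.lf (nat_lit 0) (nat_lit 22077260493) (nat_lit 304) (nat_lit 9445975072) (nat_lit 380) (nat_lit 11014552731) (nat_lit 103) (nat_lit 5) (nat_lit 107) (nat_lit 5) (nat_lit 108) (nat_lit 5) (nat_lit 362) (nat_lit 329) (nat_lit 209)))) (XT.nd (nat_lit 78) (nat_lit 532) (nat_lit 0) (XT.lf (nat_lit 0) (nat_lit 2251160559) (nat_lit 304) (nat_lit 26541485812) (nat_lit 76) (nat_lit 15115973784) (nat_lit 99) (nat_lit 5) (nat_lit 103) (nat_lit 5) (nat_lit 100) (nat_lit 5) (nat_lit 363) (nat_lit 329) (nat_lit 208)) (XT.nd (nat_lit 78) (nat_lit 228) (nat_lit 0) (XT.lf (nat_lit 0) (nat_lit 12191000424)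 (nat_lit 304) (nat_lit 4181817044) (nat_lit 380) (nat_lit 28959293346) (nat_lit 95) (nat_lit 5) (nat_lit 99) (nat_lit 5) (nat_lit 100) (nat_lit 5) (nat_lit 364) (nat_lit 329) (nat_lit 207)) (XT.lf (nat_lit 0) (nat_lit 6501902339) (nat_lit 228) (nat_lit 25238587351) (nat_lit 304) (nat_lit 15070090756) (nat_lit 92) (nat_lit 5) (nat_lit 95) (nat_lit 5) (nat_lit 96) (nat_lit 5) (nat_lit 365) (nat_lit 329) (nat_lit 206)))))) (XT.nd (nat_lit 468) (nat_lit 1064) (nat_lit 0) (XT.nd (nat_lit 234) (nat_lit 760) (nat_lit 0) (XT.nd (nat_lit 78) (nat_lit 304) (nat_lit 0) (XT.lf (nat_lit 0) (nat_lit 418170300) (nat_lit 304) (nat_lit 47843809238) (nat_lit 380) (nat_lit 89433297) (nat_lit 88) (nat_lit 5) (nat_lit 92) (nat_lit 5) (nat_lit 93) (nat_lit 5) (nat_lit 366) (nat_lit 329) (nat_lit 205)) (XT.nd (nat_lit 78) (nat_lit 228) (nat_lit 0) (XT.lf (nat_lit 0) (nat_lit 16002491357) (nat_lit 380) (nat_lit 6352278554)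 (nat_lit 76) (nat_lit 27589985782) (nat_lit 87) (nat_lit 5) (nat_lit 92) (nat_lit 5) (nat_lit 88) (nat_lit 5) (nat_lit 367) (nat_lit 329) (nat_lit 204)) (XT.lf (nat_lit 0) (nat_lit 33302761103) (nat_lit 304) (nat_lit 13613275960) (nat_lit 76) (nat_lit 4689536135) (nat_lit 84) (nat_lit 5) (nat_lit 88) (nat_lit 5) (nat_lit 85) (nat_lit 5) (nat_lit 368) (nat_lit 329) (nat_lit 203)))) (XT.nd (nat_lit 78) (nat_lit 532) (nat_lit 0) (XT.lf (nat_lit 0) (nat_lit 31722778802) (nat_lit 228) (nat_lit 20335987752) (nat_lit 304) (nat_lit 1272945284) (nat_lit 81) (nat_lit 5) (nat_lit 84) (nat_lit 5) (nat_lit 85) (nat_lit 5) (nat_lit 369) (nat_lit 329) (nat_lit 202)) (XT.nd (nat_lit 78) (nat_lit 228) (nat_lit 0) (XT.lf (nat_lit 0) (nat_lit 16736435932) (nat_lit 304) (nat_lit 30422706755) (nat_lit 76) (nat_lit 7966663665) (nat_lit 77) (nat_lit 5) (nat_lit 81) (nat_lit 5) (nat_lit 78) (nat_lit 5) (nat_lit 370)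 (nat_lit 329) (nat_lit 201)) (XT.lf (nat_lit 0) (nat_lit 16879370979) (nat_lit 228) (nat_lit 19327395209) (nat_lit 304) (nat_lit 20784858804) (nat_lit 74) (nat_lit 5) (nat_lit 77) (nat_lit 5) (nat_lit 78) (nat_lit 5) (nat_lit 371) (nat_lit 329) (nat_lit 200))))) (XT.nd (nat_lit 234) (nat_lit 608) (nat_lit 0) (XT.nd (nat_lit 78) (nat_lit 304) (nat_lit 0) (XT.lf (nat_lit 0) (nat_lit 8295674169) (nat_lit 152) (nat_lit 48840636148) (nat_lit 228) (nat_lit 1799854942) (nat_lit 72) (nat_lit 5) (nat_lit 74) (nat_lit 5) (nat_lit 75) (nat_lit 5) (nat_lit 372) (nat_lit 329) (nat_lit 199)) (XT.nd (nat_lit 78) (nat_lit 228) (nat_lit 0) (XT.lf (nat_lit 0) (nat_lit 18387291363) (nat_lit 228) (nat_lit 1385588819) (nat_lit 76) (nat_lit 41181621491) (nat_lit 71) (nat_lit 5) (nat_lit 74) (nat_lit 5) (nat_lit 72) (nat_lit 5) (nat_lit 373) (nat_lit 329) (nat_lit 198)) (XT.lf (nat_lit 0) (nat_lit 40143387388) (nat_lit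 304) (nat_lit 11860216126) (nat_lit 76) (nat_lit 11051713723) (nat_lit 68) (nat_lit 5) (nat_lit 72) (nat_lit 5) (nat_lit 69) (nat_lit 5) (nat_lit 374) (nat_lit 329) (nat_lit 197)))) (XT.nd (nat_lit 78) (nat_lit 456) (nat_lit 0) (XT.lf (nat_lit 0) (nat_lit 41780359472) (nat_lit 152) (nat_lit 21817585215) (nat_lit 228) (nat_lit 1644910553) (nat_lit 66) (nat_lit 5) (nat_lit 68) (nat_lit 5) (nat_lit 69) (nat_lit 5) (nat_lit 375) (nat_lit 329) (nat_lit 196)) (XT.nd (nat_lit 78) (nat_lit 152) (nat_lit 0) (XT.lf (nat_lit 0) (nat_lit 20801425632) (nat_lit 304) (nat_lit 36406657445) (nat_lit 76) (nat_lit 10310134666) (nat_lit 62) (nat_lit 5) (nat_lit 66) (nat_lit 5) (nat_lit 63) (nat_lit 5) (nat_lit 376) (nat_lit 329) (nat_lit 195)) (XT.lf (nat_lit 0) (nat_lit 19130631258) (nat_lit 152) (nat_lit 25849060963) (nat_lit 228) (nat_lit 24907859770) (nat_lit 60) (nat_lit 5) (nat_lit 62) (nat_lit 5) (nat_lit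 63) (nat_lit 5) (nat_lit 377) (nat_lit 329) (nat_lit 194))))))) (XT.nd (nat_lit 43134) (nat_lit 0) (nat_lit 13376) (XT.nd (nat_lit 468) (nat_lit 836) (nat_lit 0) (XT.nd (nat_lit 234) (nat_lit 380) (nat_lit 0) (XT.nd (nat_lit 78) (nat_lit 228) (nat_lit 0) (XT.lf (nat_lit 0) (nat_lit 5876526954) (nat_lit 152) (nat_lit 64988769081) (nat_lit 228) (nat_lit 1495105336) (nat_lit 58) (nat_lit 5) (nat_lit 60) (nat_lit 5) (nat_lit 61) (nat_lit 5) (nat_lit 378) (nat_lit 329) (nat_lit 193)) (XT.nd (nat_lit 78) (nat_lit 152) (nat_lit 0) (XT.lf (nat_lit 0) (nat_lit 23421835790) (nat_lit 228) (nat_lit 9034642783) (nat_lit 76) (nat_lit 42470234999) (nat_lit 57) (nat_lit 5) (nat_lit 60) (nat_lit 5) (nat_lit 58) (nat_lit 5) (nat_lit 379) (nat_lit 329) (nat_lit 192)) (XT.lf (nat_lit 0) (nat_lit 50073771610) (nat_lit 228) (nat_lit 25342535728) (nat_lit 76) (nat_lit 2188988893) (nat_lit 55) (nat_lit 5) (nat_lit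 58) (nat_lit 5) (nat_lit 56) (nat_lit 5) (nat_lit 380) (nat_lit 329) (nat_lit 191)))) (XT.nd (nat_lit 78) (nat_lit 228) (nat_lit 0) (XT.lf (nat_lit 0) (nat_lit 36780780909) (nat_lit 152) (nat_lit 42048430599) (nat_lit 228) (nat_lit 1565470249) (nat_lit 53) (nat_lit 5) (nat_lit 55) (nat_lit 5) (nat_lit 56) (nat_lit 5) (nat_lit 381) (nat_lit 329) (nat_lit 190)) (XT.nd (nat_lit 78) (nat_lit 0) (nat_lit 0) (XT.lf (nat_lit 0) (nat_lit 19344889229) (nat_lit 152) (nat_lit 6297858938) (nat_lit 228) (nat_lit 57660018095) (nat_lit 50) (nat_lit 5) (nat_lit 52) (nat_lit 5) (nat_lit 53) (nat_lit 5) (nat_lit 382) (nat_lit 329) (nat_lit 189)) (XT.lf (nat_lit 0) (nat_lit 54929035732) (nat_lit 228) (nat_lit 307318349) (nat_lit 76) (nat_lit 31096935723) (nat_lit 50) (nat_lit 5) (nat_lit 53) (nat_lit 5) (nat_lit 51) (nat_lit 5) (nat_lit 383) (nat_lit 329) (nat_lit 188))))) (XT.nd (nat_lit 234) (nat_lit 304) (nat_lit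 0) (XT.nd (nat_lit 78) (nat_lit 380) (nat_lit 0) (XT.lf (nat_lit 0) (nat_lit 67778124237) (nat_lit 152) (nat_lit 18612814938) (nat_lit 228) (nat_lit 3103062103) (nat_lit 48) (nat_lit 5) (nat_lit 50) (nat_lit 5) (nat_lit 51) (nat_lit 5) (nat_lit 384) (nat_lit 329) (nat_lit 187)) (XT.nd (nat_lit 78) (nat_lit 152) (nat_lit 0) (XT.lf (nat_lit 0) (nat_lit 26744044526) (nat_lit 228) (nat_lit 45870604088) (nat_lit 76) (nat_lit 20170920555) (nat_lit 45) (nat_lit 5) (nat_lit 48) (nat_lit 5) (nat_lit 46) (nat_lit 5) (nat_lit 385) (nat_lit 329) (nat_lit 186)) (XT.lf (nat_lit 0) (nat_lit 23425404636) (nat_lit 152) (nat_lit 35229705016) (nat_lit 228) (nat_lit 37566611428) (nat_lit 43) (nat_lit 5) (nat_lit 45) (nat_lit 5) (nat_lit 46) (nat_lit 5) (nat_lit 386) (nat_lit 329) (nat_lit 185)))) (XT.nd (nat_lit 78) (nat_lit 304) (nat_lit 0) (XT.lf (nat_lit 0) (nat_lit 92673752667) (nat_lit 228) (nat_lit 2720446299)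 (nat_lit 76) (nat_lit 4420121551) (nat_lit 43) (nat_lit 5) (nat_lit 46) (nat_lit 5) (nat_lit 44) (nat_lit 4) (nat_lit 387) (nat_lit 329) (nat_lit 184)) (XT.nd (nat_lit 78) (nat_lit 152) (nat_lit 0) (XT.lf (nat_lit 0) (nat_lit 25376407371) (nat_lit 152) (nat_lit 31903405029) (nat_lit 76) (nat_lit 46267973437) (nat_lit 41) (nat_lit 5) (nat_lit 43) (nat_lit 5) (nat_lit 42) (nat_lit 5) (nat_lit 388) (nat_lit 329) (nat_lit 183)) (XT.lf (nat_lit 0) (nat_lit 43079567185) (nat_lit 152) (nat_lit 16732453505) (nat_lit 228) (nat_lit 47640569345) (nat_lit 39) (nat_lit 5) (nat_lit 41) (nat_lit 5) (nat_lit 42) (nat_lit 5) (nat_lit 389) (nat_lit 329) (nat_lit 182)))))) (XT.nd (nat_lit 468) (nat_lit 1900) (nat_lit 0) (XT.nd (nat_lit 234) (nat_lit 0) (nat_lit 76) (XT.nd (nat_lit 78) (nat_lit 0) (nat_lit 0) (XT.lf (nat_lit 0) (nat_lit 3399079664) (nat_lit 0) (nat_lit 3399079664) (nat_lit 1140) (nat_lit 2080744969)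 (nat_lit 240) (nat_lit 5) (nat_lit 240) (nat_lit 3) (nat_lit 255) (nat_lit 3) (nat_lit 330) (nat_lit 330) (nat_lit 240)) (XT.nd (nat_lit 78) (nat_lit 0) (nat_lit 76) (XT.lf (nat_lit 76) (nat_lit 3045829695) (nat_lit 0) (nat_lit 11322757451) (nat_lit 1216) (nat_lit 3819975069) (nat_lit 241) (nat_lit 5) (nat_lit 240) (nat_lit 5) (nat_lit 256) (nat_lit 5) (nat_lit 331) (nat_lit 330) (nat_lit 239)) (XT.lf (nat_lit 0) (nat_lit 15363320236) (nat_lit 1140) (nat_lit 761822380) (nat_lit 1216) (nat_lit 2510209496) (nat_lit 241) (nat_lit 5) (nat_lit 256) (nat_lit 5) (nat_lit 257) (nat_lit 5) (nat_lit 332) (nat_lit 330) (nat_lit 238)))) (XT.nd (nat_lit 78) (nat_lit 0) (nat_lit 76) (XT.lf (nat_lit 76) (nat_lit 14494789012) (nat_lit 0) (nat_lit 2146209978) (nat_lit 1216) (nat_lit 2456499703) (nat_lit 242) (nat_lit 5) (nat_lit 241) (nat_lit 5) (nat_lit 257) (nat_lit 5) (nat_lit 333) (nat_lit 330) (nat_lit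 237)) (XT.nd (nat_lit 78) (nat_lit 0) (nat_lit 76) (XT.lf (nat_lit 76) (nat_lit 11030089440) (nat_lit 0) (nat_lit 7167412430) (nat_lit 1216) (nat_lit 1378815346) (nat_lit 243) (nat_lit 5) (nat_lit 242) (nat_lit 5) (nat_lit 258) (nat_lit 5) (nat_lit 334) (nat_lit 330) (nat_lit 236)) (XT.lf (nat_lit 76) (nat_lit 7502246738) (nat_lit 0) (nat_lit 12525166583) (nat_lit 1216) (nat_lit 45808049) (nat_lit 244) (nat_lit 5) (nat_lit 243) (nat_lit 5) (nat_lit 259) (nat_lit 5) (nat_lit 335) (nat_lit 330) (nat_lit 235))))) (XT.nd (nat_lit 234) (nat_lit 988) (nat_lit 0) (XT.nd (nat_lit 78) (nat_lit 0) (nat_lit 0) (XT.lf (nat_lit 0) (nat_lit 1531417379) (nat_lit 1216) (nat_lit 16695246199) (nat_lit 1292) (nat_lit 2361808435) (nat_lit 228) (nat_lit 5) (nat_lit 244) (nat_lit 5) (nat_lit 245) (nat_lit 5) (nat_lit 336) (nat_lit 330) (nat_lit 234)) (XT.nd (nat_lit 78) (nat_lit 0) (nat_lit 76) (XT.lf (nat_lit 76)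 (nat_lit 180329158) (nat_lit 0) (nat_lit 3247855831) (nat_lit 1292) (nat_lit 17694048495) (nat_lit 229) (nat_lit 5) (nat_lit 228) (nat_lit 5) (nat_lit 245) (nat_lit 5) (nat_lit 337) (nat_lit 330) (nat_lit 233)) (XT.lf (nat_lit 0) (nat_lit 5696838622) (nat_lit 1216) (nat_lit 3563564471) (nat_lit 1292) (nat_lit 12413978746) (nat_lit 229) (nat_lit 5) (nat_lit 245) (nat_lit 5) (nat_lit 246) (nat_lit 5) (nat_lit 338) (nat_lit 330) (nat_lit 232)))) (XT.nd (nat_lit 78) (nat_lit 1140) (nat_lit 0) (XT.lf (nat_lit 0) (nat_lit 8303837822) (nat_lit 1216) (nat_lit 7383714107) (nat_lit 1292) (nat_lit 6559848046) (nat_lit 230) (nat_lit 5) (nat_lit 246) (nat_lit 5) (nat_lit 247) (nat_lit 5) (nat_lit 339) (nat_lit 330) (nat_lit 231)) (XT.nd (nat_lit 78) (nat_lit 1216) (nat_lit 0) (XT.lf (nat_lit 0) (nat_lit 11270560638) (nat_lit 1216) (nat_lit 11287022432) (nat_lit 76) (nat_lit 284614025) (nat_lit 231) (nat_lit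 5) (nat_lit 247) (nat_lit 5) (nat_lit 232) (nat_lit 5) (nat_lit 340) (nat_lit 330) (nat_lit 230)) (XT.lf (nat_lit 0) (nat_lit 8117599554) (nat_lit 1216) (nat_lit 6566738884) (nat_lit 1292) (nat_lit 8773442913) (nat_lit 215) (nat_lit 5) (nat_lit 231) (nat_lit 5) (nat_lit 232) (nat_lit 5) (nat_lit 341) (nat_lit 330) (nat_lit 229))))))))
noncomputable def xc98 : XT := (XT.nd (nat_lit 1794) (nat_lit 4256) (nat_lit 0) (XT.nd (nat_lit 858) (nat_lit 4028) (nat_lit 0) (XT.nd (nat_lit 390) (nat_lit 2432) (nat_lit 0) (XT.nd (nat_lit 156) (nat_lit 1216) (nat_lit 0) (XT.nd (nat_lit 78) (nat_lit 532) (nat_lit 0) (XT.lf (nat_lit 0) (nat_lit 4605457314) (nat_lit 608) (nat_lit 13909407153) (nat_lit 684) (nat_lit 5581906995) (nat_lit 207) (nat_lit 5) (nat_lit 215) (nat_lit 5) (nat_lit 216) (nat_lit 5) (nat_lit 342) (nat_lit 330) (nat_lit 228)) (XT.lf (nat_lit 0) (nat_lit 1018280663) (nat_lit 532) (nat_lit 21767921457)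 (nat_lit 608) (nat_lit 1974038423) (nat_lit 200) (nat_lit 5) (nat_lit 207) (nat_lit 5) (nat_lit 208) (nat_lit 5) (nat_lit 343) (nat_lit 330) (nat_lit 227))) (XT.nd (nat_lit 78) (nat_lit 1140) (nat_lit 0) (XT.lf (nat_lit 0) (nat_lit 2108947485) (nat_lit 608) (nat_lit 2662612821) (nat_lit 76) (nat_lit 20674903229) (nat_lit 199) (nat_lit 5) (nat_lit 207) (nat_lit 5) (nat_lit 200) (nat_lit 5) (nat_lit 344) (nat_lit 330) (nat_lit 226)) (XT.nd (nat_lit 78) (nat_lit 532) (nat_lit 0) (XT.lf (nat_lit 0) (nat_lit 6661697080) (nat_lit 684) (nat_lit 6463177919) (nat_lit 76) (nat_lit 13032350177) (nat_lit 191) (nat_lit 5) (nat_lit 200) (nat_lit 5) (nat_lit 192) (nat_lit 5) (nat_lit 345) (nat_lit 330) (nat_lit 225)) (XT.lf (nat_lit 0) (nat_lit 11712823737) (nat_lit 608) (nat_lit 10359457722) (nat_lit 76) (nat_lit 4823127981) (nat_lit 184) (nat_lit 5) (nat_lit 192) (nat_lit 5) (nat_lit 185) (nat_lit 5) (nat_lit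 346) (nat_lit 330) (nat_lit 224))))) (XT.nd (nat_lit 234) (nat_lit 912) (nat_lit 0) (XT.nd (nat_lit 78) (nat_lit 988) (nat_lit 0) (XT.lf (nat_lit 0) (nat_lit 13265297962) (nat_lit 532) (nat_lit 4067025044) (nat_lit 608) (nat_lit 10328711831) (nat_lit 177) (nat_lit 5) (nat_lit 184) (nat_lit 5) (nat_lit 185) (nat_lit 5) (nat_lit 347) (nat_lit 330) (nat_lit 223)) (XT.nd (nat_lit 78) (nat_lit 532) (nat_lit 0) (XT.lf (nat_lit 0) (nat_lit 9862798210) (nat_lit 456) (nat_lit 13704200153) (nat_lit 532) (nat_lit 4887923209) (nat_lit 171) (nat_lit 5) (nat_lit 177) (nat_lit 5) (nat_lit 178) (nat_lit 5) (nat_lit 348) (nat_lit 330) (nat_lit 222)) (XT.lf (nat_lit 0) (nat_lit 1102084672) (nat_lit 532) (nat_lit 22918704074) (nat_lit 76) (nat_lit 5258683356) (nat_lit 164) (nat_lit 5) (nat_lit 171) (nat_lit 5) (nat_lit 165) (nat_lit 5) (nat_lit 349) (nat_lit 330) (nat_lit 221)))) (XT.nd (nat_lit 78) (nat_lit 456)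 (nat_lit 0) (XT.lf (nat_lit 0) (nat_lit 2660856525) (nat_lit 456) (nat_lit 4977510734) (nat_lit 532) (nat_lit 22495000493) (nat_lit 158) (nat_lit 5) (nat_lit 164) (nat_lit 5) (nat_lit 165) (nat_lit 5) (nat_lit 350) (nat_lit 330) (nat_lit 220)) (XT.nd (nat_lit 78) (nat_lit 456) (nat_lit 0) (XT.lf (nat_lit 0) (nat_lit 14874194040) (nat_lit 532) (nat_lit 1183028789) (nat_lit 76) (nat_lit 14961558572) (nat_lit 158) (nat_lit 5) (nat_lit 165) (nat_lit 5) (nat_lit 159) (nat_lit 5) (nat_lit 351) (nat_lit 330) (nat_lit 219)) (XT.lf (nat_lit 0) (nat_lit 22810590403) (nat_lit 532) (nat_lit 5094955266) (nat_lit 76) (nat_lit 4032761591) (nat_lit 152) (nat_lit 5) (nat_lit 159) (nat_lit 5) (nat_lit 153) (nat_lit 5) (nat_lit 352) (nat_lit 330) (nat_lit 218)))))) (XT.nd (nat_lit 468) (nat_lit 1596) (nat_lit 0) (XT.nd (nat_lit 234) (nat_lit 1140) (nat_lit 0) (XT.nd (nat_lit 78) (nat_lit 912) (nat_lit 0) (XT.lf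 (nat_lit 0) (nat_lit 23681086145) (nat_lit 380) (nat_lit 7855628296) (nat_lit 456) (nat_lit 1355312377) (nat_lit 147) (nat_lit 5) (nat_lit 152) (nat_lit 5) (nat_lit 153) (nat_lit 5) (nat_lit 353) (nat_lit 330) (nat_lit 217)) (XT.nd (nat_lit 78) (nat_lit 380) (nat_lit 0) (XT.lf (nat_lit 0) (nat_lit 7043375419) (nat_lit 532) (nat_lit 13581919774) (nat_lit 76) (nat_lit 13255064822) (nat_lit 140) (nat_lit 5) (nat_lit 147) (nat_lit 5) (nat_lit 141) (nat_lit 5) (nat_lit 354) (nat_lit 330) (nat_lit 216)) (XT.lf (nat_lit 0) (nat_lit 16168013460) (nat_lit 456) (nat_lit 18130681634) (nat_lit 76) (nat_lit 608994924) (nat_lit 135) (nat_lit 5) (nat_lit 141) (nat_lit 5) (nat_lit 136) (nat_lit 5) (nat_lit 355) (nat_lit 330) (nat_lit 215)))) (XT.nd (nat_lit 78) (nat_lit 760) (nat_lit 0) (XT.lf (nat_lit 0) (nat_lit 12988549641) (nat_lit 380) (nat_lit 13226283296) (nat_lit 456) (nat_lit 9757578991) (nat_lit 130)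 (nat_lit 5) (nat_lit 135) (nat_lit 5) (nat_lit 136) (nat_lit 5) (nat_lit 356) (nat_lit 330) (nat_lit 214)) (XT.nd (nat_lit 78) (nat_lit 380) (nat_lit 0) (XT.lf (nat_lit 0) (nat_lit 36368953) (nat_lit 380) (nat_lit 28044130395) (nat_lit 76) (nat_lit 8999277005) (nat_lit 125) (nat_lit 5) (nat_lit 130) (nat_lit 5) (nat_lit 126) (nat_lit 5) (nat_lit 357) (nat_lit 330) (nat_lit 213)) (XT.lf (nat_lit 0) (nat_lit 4748740313) (nat_lit 380) (nat_lit 5781623791) (nat_lit 456) (nat_lit 27696885486) (nat_lit 120) (nat_lit 5) (nat_lit 125) (nat_lit 5) (nat_lit 126) (nat_lit 5) (nat_lit 358) (nat_lit 330) (nat_lit 212))))) (XT.nd (nat_lit 234) (nat_lit 912) (nat_lit 0) (XT.nd (nat_lit 78) (nat_lit 380) (nat_lit 0) (XT.lf (nat_lit 0) (nat_lit 164200361) (nat_lit 304) (nat_lit 21839913077) (nat_lit 380) (nat_lit 17414334685) (nat_lit 116) (nat_lit 5) (nat_lit 120) (nat_lit 5) (nat_lit 121) (nat_lit 5) (nat_lit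 359) (nat_lit 330) (nat_lit 211)) (XT.nd (nat_lit 78) (nat_lit 380) (nat_lit 0) (XT.lf (nat_lit 0) (nat_lit 34462738609) (nat_lit 380) (nat_lit 4554511158) (nat_lit 76) (nat_lit 1639624275) (nat_lit 116) (nat_lit 5) (nat_lit 121) (nat_lit 5) (nat_lit 117) (nat_lit 5) (nat_lit 360) (nat_lit 330) (nat_lit 210)) (XT.lf (nat_lit 0) (nat_lit 6006980646) (nat_lit 380) (nat_lit 9720642544) (nat_lit 76) (nat_lit 26212121825) (nat_lit 111) (nat_lit 5) (nat_lit 116) (nat_lit 5) (nat_lit 112) (nat_lit 5) (nat_lit 361) (nat_lit 330) (nat_lit 209)))) (XT.nd (nat_lit 78) (nat_lit 608) (nat_lit 0) (XT.lf (nat_lit 0) (nat_lit 19089676998) (nat_lit 380) (nat_lit 15246042847) (nat_lit 76) (nat_lit 8937213729) (nat_lit 107) (nat_lit 5) (nat_lit 112) (nat_lit 5) (nat_lit 108) (nat_lit 5) (nat_lit 362) (nat_lit 330) (nat_lit 208)) (XT.nd (nat_lit 78) (nat_lit 304) (nat_lit 0) (XT.lf (nat_lit 0) (nat_lit 23484022072)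 (nat_lit 304) (nat_lit 9821423036) (nat_lit 380) (nat_lit 11352970953) (nat_lit 103) (nat_lit 5) (nat_lit 107) (nat_lit 5) (nat_lit 108) (nat_lit 5) (nat_lit 363) (nat_lit 330) (nat_lit 207)) (XT.lf (nat_lit 0) (nat_lit 2565774276) (nat_lit 304) (nat_lit 27565070741) (nat_lit 76) (nat_lit 15967070303) (nat_lit 99) (nat_lit 5) (nat_lit 103) (nat_lit 5) (nat_lit 100) (nat_lit 5) (nat_lit 364) (nat_lit 330) (nat_lit 206))))))) (XT.nd (nat_lit 936) (nat_lit 1748) (nat_lit 0) (XT.nd (nat_lit 468) (nat_lit 1140) (nat_lit 0) (XT.nd (nat_lit 234) (nat_lit 456) (nat_lit 0) (XT.nd (nat_lit 78) (nat_lit 608) (nat_lit 0) (XT.lf (nat_lit 0) (nat_lit 13095340346) (nat_lit 304) (nat_lit 4291385687) (nat_lit 380) (nat_lit 30206061652) (nat_lit 95) (nat_lit 5) (nat_lit 99) (nat_lit 5) (nat_lit 100) (nat_lit 5) (nat_lit 365) (nat_lit 330) (nat_lit 205)) (XT.nd (nat_lit 78) (nat_lit 380) (nat_lit 0) (XT.lf (nat_lit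 0) (nat_lit 7118166744) (nat_lit 228) (nat_lit 26399026670) (nat_lit 304) (nat_lit 15628158401) (nat_lit 92) (nat_lit 5) (nat_lit 95) (nat_lit 5) (nat_lit 96) (nat_lit 5) (nat_lit 366) (nat_lit 330) (nat_lit 204)) (XT.lf (nat_lit 0) (nat_lit 94154766) (nat_lit 380) (nat_lit 50037765525) (nat_lit 76) (nat_lit 631441240) (nat_lit 87) (nat_lit 5) (nat_lit 92) (nat_lit 5) (nat_lit 88) (nat_lit 5) (nat_lit 367) (nat_lit 330) (nat_lit 203)))) (XT.nd (nat_lit 78) (nat_lit 456) (nat_lit 0) (XT.lf (nat_lit 0) (nat_lit 16979975263) (nat_lit 380) (nat_lit 6392524419) (nat_lit 76) (nat_lit 29064113771) (nat_lit 87) (nat_lit 5) (nat_lit 92) (nat_lit 5) (nat_lit 88) (nat_lit 5) (nat_lit 368) (nat_lit 330) (nat_lit 202)) (XT.nd (nat_lit 78) (nat_lit 228) (nat_lit 0) (XT.lf (nat_lit 0) (nat_lit 35140343826) (nat_lit 304) (nat_lit 14020262077) (nat_lit 76) (nat_lit 5020016192) (nat_lit 84) (nat_lit 5) (nat_lit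 88) (nat_lit 5) (nat_lit 85) (nat_lit 5) (nat_lit 369) (nat_lit 330) (nat_lit 201)) (XT.lf (nat_lit 0) (nat_lit 33574750507) (nat_lit 228) (nat_lit 21253742738) (nat_lit 304) (nat_lit 1164746797) (nat_lit 81) (nat_lit 5) (nat_lit 84) (nat_lit 5) (nat_lit 85) (nat_lit 5) (nat_lit 370) (nat_lit 330) (nat_lit 200))))) (XT.nd (nat_lit 234) (nat_lit 456) (nat_lit 0) (XT.nd (nat_lit 78) (nat_lit 380) (nat_lit 0) (XT.lf (nat_lit 0) (nat_lit 17737187802) (nat_lit 304) (nat_lit 31678329520) (nat_lit 76) (nat_lit 8461611758) (nat_lit 77) (nat_lit 5) (nat_lit 81) (nat_lit 5) (nat_lit 78) (nat_lit 5) (nat_lit 371) (nat_lit 330) (nat_lit 199)) (XT.nd (nat_lit 78) (nat_lit 152) (nat_lit 0) (XT.lf (nat_lit 0) (nat_lit 17981241236) (nat_lit 228) (nat_lit 20194466250) (nat_lit 304) (nat_lit 21660693345) (nat_lit 74) (nat_lit 5) (nat_lit 77) (nat_lit 5) (nat_lit 78) (nat_lit 5) (nat_lit 372) (nat_lit 330) (nat_lit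 198)) (XT.lf (nat_lit 0) (nat_lit 8964707390) (nat_lit 152) (nat_lit 51182821977) (nat_lit 228) (nat_lit 1730766982) (nat_lit 72) (nat_lit 5) (nat_lit 74) (nat_lit 5) (nat_lit 75) (nat_lit 5) (nat_lit 373) (nat_lit 330) (nat_lit 197)))) (XT.nd (nat_lit 78) (nat_lit 380) (nat_lit 0) (XT.lf (nat_lit 0) (nat_lit 19455204951) (nat_lit 228) (nat_lit 1209727780) (nat_lit 76) (nat_lit 43332795886) (nat_lit 71) (nat_lit 5) (nat_lit 74) (nat_lit 5) (nat_lit 72) (nat_lit 5) (nat_lit 374) (nat_lit 330) (nat_lit 196)) (XT.nd (nat_lit 78) (nat_lit 152) (nat_lit 0) (XT.lf (nat_lit 0) (nat_lit 42295227852) (nat_lit 304) (nat_lit 12211667687) (nat_lit 76) (nat_lit 11696807741) (nat_lit 68) (nat_lit 5) (nat_lit 72) (nat_lit 5) (nat_lit 69) (nat_lit 5) (nat_lit 375) (nat_lit 330) (nat_lit 195)) (XT.lf (nat_lit 0) (nat_lit 44104012443) (nat_lit 152) (nat_lit 22813866927) (nat_lit 228) (nat_lit 1582879711) (nat_lit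 66) (nat_lit 5) (nat_lit 68) (nat_lit 5) (nat_lit 69) (nat_lit 5) (nat_lit 376) (nat_lit 330) (nat_lit 194)))))) (XT.nd (nat_lit 468) (nat_lit 760) (nat_lit 0) (XT.nd (nat_lit 234) (nat_lit 380) (nat_lit 0) (XT.nd (nat_lit 78) (nat_lit 304) (nat_lit 0) (XT.lf (nat_lit 0) (nat_lit 21979340186) (nat_lit 304) (nat_lit 37993068636) (nat_lit 76) (nat_lit 10917549562) (nat_lit 62) (nat_lit 5) (nat_lit 66) (nat_lit 5) (nat_lit 63) (nat_lit 5) (nat_lit 377) (nat_lit 330) (nat_lit 193)) (XT.nd (nat_lit 78) (nat_lit 152) (nat_lit 0) (XT.lf (nat_lit 0) (nat_lit 20314379184) (nat_lit 152) (nat_lit 27047761098) (nat_lit 228) (nat_lit 26015752121) (nat_lit 60) (nat_lit 5) (nat_lit 62) (nat_lit 5) (nat_lit 63) (nat_lit 5) (nat_lit 378) (nat_lit 330) (nat_lit 192)) (XT.lf (nat_lit 0) (nat_lit 6394102639) (nat_lit 152) (nat_lit 68144575357) (nat_lit 228) (nat_lit 1435808231) (nat_lit 58) (nat_lit 5) (nat_lit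 60) (nat_lit 5) (nat_lit 61) (nat_lit 5) (nat_lit 379) (nat_lit 330) (nat_lit 191)))) (XT.nd (nat_lit 78) (nat_lit 304) (nat_lit 0) (XT.lf (nat_lit 0) (nat_lit 24718105225) (nat_lit 228) (nat_lit 9270759725) (nat_lit 76) (nat_lit 44680399661) (nat_lit 57) (nat_lit 5) (nat_lit 60) (nat_lit 5) (nat_lit 58) (nat_lit 5) (nat_lit 380) (nat_lit 330) (nat_lit 190)) (XT.nd (nat_lit 78) (nat_lit 152) (nat_lit 0) (XT.lf (nat_lit 0) (nat_lit 52699538086) (nat_lit 228) (nat_lit 26397410944) (nat_lit 76) (nat_lit 2384921761) (nat_lit 55) (nat_lit 5) (nat_lit 58) (nat_lit 5) (nat_lit 56) (nat_lit 5) (nat_lit 381) (nat_lit 330) (nat_lit 189)) (XT.lf (nat_lit 0) (nat_lit 38825987376) (nat_lit 152) (nat_lit 44062931178) (nat_lit 228) (nat_lit 1521923311) (nat_lit 53) (nat_lit 5) (nat_lit 55) (nat_lit 5) (nat_lit 56) (nat_lit 5) (nat_lit 382) (nat_lit 330) (nat_lit 188))))) (XT.nd (nat_lit 234) (nat_lit 380)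 (nat_lit 0) (XT.nd (nat_lit 78) (nat_lit 152) (nat_lit 0) (XT.lf (nat_lit 0) (nat_lit 20514725451) (nat_lit 152) (nat_lit 6525863079) (nat_lit 228) (nat_lit 60423820375) (nat_lit 50) (nat_lit 5) (nat_lit 52) (nat_lit 5) (nat_lit 53) (nat_lit 5) (nat_lit 383) (nat_lit 330) (nat_lit 187)) (XT.nd (nat_lit 78) (nat_lit 152) (nat_lit 0) (XT.lf (nat_lit 0) (nat_lit 57786476264) (nat_lit 228) (nat_lit 127205979) (nat_lit 76) (nat_lit 32732918978) (nat_lit 50) (nat_lit 5) (nat_lit 53) (nat_lit 5) (nat_lit 51) (nat_lit 5) (nat_lit 384) (nat_lit 330) (nat_lit 186)) (XT.lf (nat_lit 0) (nat_lit 71356905391) (nat_lit 152) (nat_lit 19461109504) (nat_lit 228) (nat_lit 3147438287) (nat_lit 48) (nat_lit 5) (nat_lit 50) (nat_lit 5) (nat_lit 51) (nat_lit 5) (nat_lit 385) (nat_lit 330) (nat_lit 185)))) (XT.nd (nat_lit 78) (nat_lit 152) (nat_lit 0) (XT.lf (nat_lit 0) (nat_lit 28187264786) (nat_lit 228) (nat_lit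 47975185315) (nat_lit 76) (nat_lit 21259196369) (nat_lit 45) (nat_lit 5) (nat_lit 48) (nat_lit 5) (nat_lit 46) (nat_lit 5) (nat_lit 386) (nat_lit 330) (nat_lit 184)) (XT.nd (nat_lit 78) (nat_lit 0) (nat_lit 0) (XT.lf (nat_lit 0) (nat_lit 24780207662) (nat_lit 152) (nat_lit 36910391258) (nat_lit 228) (nat_lit 39339106566) (nat_lit 43) (nat_lit 5) (nat_lit 45) (nat_lit 5) (nat_lit 46) (nat_lit 5) (nat_lit 387) (nat_lit 330) (nat_lit 183)) (XT.lf (nat_lit 0) (nat_lit 97406021706) (nat_lit 228) (nat_lit 2679461231) (nat_lit 76) (nat_lit 4716577465) (nat_lit 43) (nat_lit 5) (nat_lit 46) (nat_lit 5) (nat_lit 44) (nat_lit 4) (nat_lit 388) (nat_lit 330) (nat_lit 182))))))))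
noncomputable def xc99 : XT := (XT.nd (nat_lit 44148) (nat_lit 0) (nat_lit 1900) (XT.nd (nat_lit 43212) (nat_lit 0) (nat_lit 8436) (XT.nd (nat_lit 42744) (nat_lit 0) (nat_lit 14136) (XT.nd (nat_lit 42510) (nat_lit 0) (nat_lit 15200) (XT.nd (nat_lit 42354) (nat_lit 0) (nat_lit 15124) (XT.lf (nat_lit 0) (nat_lit 26741730922) (nat_lit 152) (nat_lit 33324703885) (nat_lit 76) (nat_lit 48655827936) (nat_lit 41) (nat_lit 5) (nat_lit 43) (nat_lit 5) (nat_lit 42) (nat_lit 5) (nat_lit 389) (nat_lit 330) (nat_lit 181)) (XT.nd (nat_lit 78) (nat_lit 0) (nat_lit 0) (XT.lf (nat_lit 0) (nat_lit 3734438936) (nat_lit 0) (nat_lit 3734438936) (nat_lit 1140) (nat_lit 1843829990) (nat_lit 240) (nat_lit 5) (nat_lit 240) (nat_lit 3) (nat_lit 255) (nat_lit 3) (nat_lit 331) (nat_lit 331) (nat_lit 238)) (XT.lf (nat_lit 76) (nat_lit 3542239823) (nat_lit 0) (nat_lit 12175171414) (nat_lit 1216) (nat_lit 3361253277) (nat_lit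 241) (nat_lit 5) (nat_lit 240) (nat_lit 5) (nat_lit 256) (nat_lit 5) (nat_lit 332) (nat_lit 331) (nat_lit 237)))) (XT.nd (nat_lit 78) (nat_lit 0) (nat_lit 0) (XT.lf (nat_lit 0) (nat_lit 16729241366) (nat_lit 1140) (nat_lit 451155103) (nat_lit 1216) (nat_lit 2368396339) (nat_lit 241) (nat_lit 5) (nat_lit 256) (nat_lit 5) (nat_lit 257) (nat_lit 5) (nat_lit 333) (nat_lit 331) (nat_lit 236)) (XT.nd (nat_lit 78) (nat_lit 0) (nat_lit 76) (XT.lf (nat_lit 76) (nat_lit 15558289769) (nat_lit 0) (nat_lit 2487306140) (nat_lit 1216) (nat_lit 1989225827) (nat_lit 242) (nat_lit 5) (nat_lit 241) (nat_lit 5) (nat_lit 257) (nat_lit 5) (nat_lit 334) (nat_lit 331) (nat_lit 235)) (XT.lf (nat_lit 76) (nat_lit 11929876336) (nat_lit 0) (nat_lit 7723991082) (nat_lit 1216) (nat_lit 884513343) (nat_lit 243) (nat_lit 5) (nat_lit 242) (nat_lit 5) (nat_lit 258) (nat_lit 5) (nat_lit 335) (nat_lit 331) (nat_lit 234))))) (XT.nd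 (nat_lit 234) (nat_lit 0) (nat_lit 152) (XT.nd (nat_lit 78) (nat_lit 0) (nat_lit 76) (XT.lf (nat_lit 0) (nat_lit 480421820) (nat_lit 1216) (nat_lit 12831808675) (nat_lit 1292) (nat_lit 7748507710) (nat_lit 227) (nat_lit 5) (nat_lit 243) (nat_lit 5) (nat_lit 244) (nat_lit 5) (nat_lit 336) (nat_lit 331) (nat_lit 233)) (XT.nd (nat_lit 78) (nat_lit 0) (nat_lit 0) (XT.lf (nat_lit 0) (nat_lit 2112442226) (nat_lit 1216) (nat_lit 17156357999) (nat_lit 1292) (nat_lit 2333646862) (nat_lit 228) (nat_lit 5) (nat_lit 244) (nat_lit 5) (nat_lit 245) (nat_lit 5) (nat_lit 337) (nat_lit 331) (nat_lit 232)) (XT.lf (nat_lit 76) (nat_lit 552285509) (nat_lit 0) (nat_lit 3531229890) (nat_lit 1292) (nat_lit 18080012212) (nat_lit 229) (nat_lit 5) (nat_lit 228) (nat_lit 5) (nat_lit 245) (nat_lit 5) (nat_lit 338) (nat_lit 331) (nat_lit 231)))) (XT.nd (nat_lit 78) (nat_lit 0) (nat_lit 76) (XT.lf (nat_lit 0) (nat_lit 6441450281)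 (nat_lit 1216) (nat_lit 3380866135) (nat_lit 1292) (nat_lit 12921705791) (nat_lit 229) (nat_lit 5) (nat_lit 245) (nat_lit 5) (nat_lit 246) (nat_lit 5) (nat_lit 339) (nat_lit 331) (nat_lit 230)) (XT.nd (nat_lit 78) (nat_lit 0) (nat_lit 76) (XT.lf (nat_lit 0) (nat_lit 9159403181) (nat_lit 1216) (nat_lit 7387986322) (nat_lit 1292) (nat_lit 6798897237) (nat_lit 230) (nat_lit 5) (nat_lit 246) (nat_lit 5) (nat_lit 247) (nat_lit 5) (nat_lit 340) (nat_lit 331) (nat_lit 229)) (XT.lf (nat_lit 0) (nat_lit 12256242104) (nat_lit 1216) (nat_lit 11483319752) (nat_lit 76) (nat_lit 231821415) (nat_lit 231) (nat_lit 5) (nat_lit 247) (nat_lit 5) (nat_lit 232) (nat_lit 5) (nat_lit 341) (nat_lit 331) (nat_lit 228)))))) (XT.nd (nat_lit 468) (nat_lit 2432) (nat_lit 0) (XT.nd (nat_lit 234) (nat_lit 1216) (nat_lit 0) (XT.nd (nat_lit 78) (nat_lit 1140) (nat_lit 0) (XT.lf (nat_lit 0) (nat_lit 8880983145) (nat_lit 1216)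 (nat_lit 6943059648) (nat_lit 1292) (nat_lit 8794216263) (nat_lit 215) (nat_lit 5) (nat_lit 231) (nat_lit 5) (nat_lit 232) (nat_lit 5) (nat_lit 342) (nat_lit 331) (nat_lit 227)) (XT.nd (nat_lit 78) (nat_lit 532) (nat_lit 0) (XT.lf (nat_lit 0) (nat_lit 5195489645) (nat_lit 608) (nat_lit 14634315496) (nat_lit 684) (nat_lit 5459893982) (nat_lit 207) (nat_lit 5) (nat_lit 215) (nat_lit 5) (nat_lit 216) (nat_lit 5) (nat_lit 343) (nat_lit 331) (nat_lit 226)) (XT.lf (nat_lit 0) (nat_lit 1430486082) (nat_lit 532) (nat_lit 22868893836) (nat_lit 608) (nat_lit 1687432823) (nat_lit 200) (nat_lit 5) (nat_lit 207) (nat_lit 5) (nat_lit 208) (nat_lit 5) (nat_lit 344) (nat_lit 331) (nat_lit 225)))) (XT.nd (nat_lit 78) (nat_lit 1140) (nat_lit 0) (XT.lf (nat_lit 0) (nat_lit 2574193700) (nat_lit 608) (nat_lit 2444288791) (nat_lit 76) (nat_lit 21689303320) (nat_lit 199) (nat_lit 5) (nat_lit 207) (nat_lit 5) (nat_lit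 200) (nat_lit 5) (nat_lit 345) (nat_lit 331) (nat_lit 224)) (XT.nd (nat_lit 78) (nat_lit 532) (nat_lit 0) (XT.lf (nat_lit 0) (nat_lit 7340685155) (nat_lit 684) (nat_lit 6434337128) (nat_lit 76) (nat_lit 13679489974) (nat_lit 191) (nat_lit 5) (nat_lit 200) (nat_lit 5) (nat_lit 192) (nat_lit 5) (nat_lit 346) (nat_lit 331) (nat_lit 223)) (XT.lf (nat_lit 0) (nat_lit 12631271561) (nat_lit 608) (nat_lit 10525440031) (nat_lit 76) (nat_lit 5073296425) (nat_lit 184) (nat_lit 5) (nat_lit 192) (nat_lit 5) (nat_lit 185) (nat_lit 5) (nat_lit 347) (nat_lit 331) (nat_lit 222))))) (XT.nd (nat_lit 234) (nat_lit 912) (nat_lit 0) (XT.nd (nat_lit 78) (nat_lit 988) (nat_lit 0) (XT.lf (nat_lit 0) (nat_lit 14270463697) (nat_lit 532) (nat_lit 4248720721) (nat_lit 608) (nat_lit 10515116045) (nat_lit 177) (nat_lit 5) (nat_lit 184) (nat_lit 5) (nat_lit 185) (nat_lit 5) (nat_lit 348) (nat_lit 331) (nat_lit 221)) (XT.nd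 (nat_lit 78) (nat_lit 532) (nat_lit 0) (XT.lf (nat_lit 0) (nat_lit 10697341838) (nat_lit 456) (nat_lit 14356481966) (nat_lit 532) (nat_lit 4814419336) (nat_lit 171) (nat_lit 5) (nat_lit 177) (nat_lit 5) (nat_lit 178) (nat_lit 5) (nat_lit 349) (nat_lit 331) (nat_lit 220)) (XT.lf (nat_lit 0) (nat_lit 1457652460) (nat_lit 532) (nat_lit 23718037693) (nat_lit 76) (nat_lit 5558584232) (nat_lit 164) (nat_lit 5) (nat_lit 171) (nat_lit 5) (nat_lit 165) (nat_lit 5) (nat_lit 350) (nat_lit 331) (nat_lit 219)))) (XT.nd (nat_lit 78) (nat_lit 456) (nat_lit 0) (XT.lf (nat_lit 0) (nat_lit 3130565671) (nat_lit 456) (nat_lit 5179111960) (nat_lit 532) (nat_lit 23321526829) (nat_lit 158) (nat_lit 5) (nat_lit 164) (nat_lit 5) (nat_lit 165) (nat_lit 5) (nat_lit 351) (nat_lit 331) (nat_lit 218)) (XT.nd (nat_lit 78) (nat_lit 456) (nat_lit 0) (XT.lf (nat_lit 0) (nat_lit 15893947969) (nat_lit 532) (nat_lit 913567304)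 (nat_lit 76) (nat_lit 15753781090) (nat_lit 158) (nat_lit 5) (nat_lit 165) (nat_lit 5) (nat_lit 159) (nat_lit 5) (nat_lit 352) (nat_lit 331) (nat_lit 217)) (XT.lf (nat_lit 0) (nat_lit 24217599106) (nat_lit 532) (nat_lit 5022906359) (nat_lit 76) (nat_lit 4286586800) (nat_lit 152) (nat_lit 5) (nat_lit 159) (nat_lit 5) (nat_lit 153) (nat_lit 5) (nat_lit 353) (nat_lit 331) (nat_lit 216))))))) (XT.nd (nat_lit 936) (nat_lit 2508) (nat_lit 0) (XT.nd (nat_lit 468) (nat_lit 1596) (nat_lit 0) (XT.nd (nat_lit 234) (nat_lit 1140) (nat_lit 0) (XT.nd (nat_lit 78) (nat_lit 912) (nat_lit 0) (XT.lf (nat_lit 0) (nat_lit 25182569562) (nat_lit 380) (nat_lit 8187821622) (nat_lit 456) (nat_lit 1158402238) (nat_lit 147) (nat_lit 5) (nat_lit 152) (nat_lit 5) (nat_lit 153) (nat_lit 5) (nat_lit 354) (nat_lit 331) (nat_lit 215)) (XT.nd (nat_lit 78) (nat_lit 380) (nat_lit 0) (XT.lf (nat_lit 0) (nat_lit 7646319261) (nat_lit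 532) (nat_lit 13940530591) (nat_lit 76) (nat_lit 13979885164) (nat_lit 140) (nat_lit 5) (nat_lit 147) (nat_lit 5) (nat_lit 141) (nat_lit 5) (nat_lit 355) (nat_lit 331) (nat_lit 214)) (XT.lf (nat_lit 0) (nat_lit 17218907740) (nat_lit 456) (nat_lit 18719216183) (nat_lit 76) (nat_lit 707561742) (nat_lit 135) (nat_lit 5) (nat_lit 141) (nat_lit 5) (nat_lit 136) (nat_lit 5) (nat_lit 356) (nat_lit 331) (nat_lit 213)))) (XT.nd (nat_lit 78) (nat_lit 760) (nat_lit 0) (XT.lf (nat_lit 0) (nat_lit 13946861263) (nat_lit 380) (nat_lit 13812628798) (nat_lit 456) (nat_lit 10004416385) (nat_lit 130) (nat_lit 5) (nat_lit 135) (nat_lit 5) (nat_lit 136) (nat_lit 5) (nat_lit 357) (nat_lit 331) (nat_lit 212)) (XT.nd (nat_lit 78) (nat_lit 380) (nat_lit 0) (XT.lf (nat_lit 0) (nat_lit 266937329) (nat_lit 380) (nat_lit 29135432052) (nat_lit 76) (nat_lit 9524432862) (nat_lit 125) (nat_lit 5) (nat_lit 130) (nat_lit 5) (nat_lit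 126) (nat_lit 5) (nat_lit 358) (nat_lit 331) (nat_lit 211)) (XT.lf (nat_lit 0) (nat_lit 5288170166) (nat_lit 380) (nat_lit 5989472158) (nat_lit 456) (nat_lit 28854251299) (nat_lit 120) (nat_lit 5) (nat_lit 125) (nat_lit 5) (nat_lit 126) (nat_lit 5) (nat_lit 359) (nat_lit 331) (nat_lit 210))))) (XT.nd (nat_lit 234) (nat_lit 912) (nat_lit 0) (XT.nd (nat_lit 78) (nat_lit 380) (nat_lit 0) (XT.lf (nat_lit 0) (nat_lit 471514040) (nat_lit 304) (nat_lit 22846671545) (nat_lit 380) (nat_lit 18064677857) (nat_lit 116) (nat_lit 5) (nat_lit 120) (nat_lit 5) (nat_lit 121) (nat_lit 5) (nat_lit 360) (nat_lit 331) (nat_lit 209)) (XT.nd (nat_lit 78) (nat_lit 380) (nat_lit 0) (XT.lf (nat_lit 0) (nat_lit 36390338232) (nat_lit 380) (nat_lit 4491959196) (nat_lit 76) (nat_lit 1801199680) (nat_lit 116) (nat_lit 5) (nat_lit 121) (nat_lit 5) (nat_lit 117) (nat_lit 5) (nat_lit 361) (nat_lit 331) (nat_lit 208)) (XT.lf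 (nat_lit 0) (nat_lit 6506802224) (nat_lit 380) (nat_lit 9920667786) (nat_lit 76) (nat_lit 27603197863) (nat_lit 111) (nat_lit 5) (nat_lit 116) (nat_lit 5) (nat_lit 112) (nat_lit 5) (nat_lit 362) (nat_lit 331) (nat_lit 207)))) (XT.nd (nat_lit 78) (nat_lit 608) (nat_lit 0) (XT.lf (nat_lit 0) (nat_lit 20237623817) (nat_lit 380) (nat_lit 15725499359) (nat_lit 76) (nat_lit 9467576790) (nat_lit 107) (nat_lit 5) (nat_lit 112) (nat_lit 5) (nat_lit 108) (nat_lit 5) (nat_lit 363) (nat_lit 331) (nat_lit 206)) (XT.nd (nat_lit 78) (nat_lit 304) (nat_lit 0) (XT.lf (nat_lit 0) (nat_lit 24932961093) (nat_lit 304) (nat_lit 10224647667) (nat_lit 380) (nat_lit 11728048604) (nat_lit 103) (nat_lit 5) (nat_lit 107) (nat_lit 5) (nat_lit 108) (nat_lit 5) (nat_lit 364) (nat_lit 331) (nat_lit 205)) (XT.lf (nat_lit 0) (nat_lit 2877333456) (nat_lit 304) (nat_lit 28668050480) (nat_lit 76) (nat_lit 16851861760) (nat_lit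 99) (nat_lit 5) (nat_lit 103) (nat_lit 5) (nat_lit 100) (nat_lit 5) (nat_lit 365) (nat_lit 331) (nat_lit 204)))))) (XT.nd (nat_lit 468) (nat_lit 1140) (nat_lit 0) (XT.nd (nat_lit 234) (nat_lit 456) (nat_lit 0) (XT.nd (nat_lit 78) (nat_lit 608) (nat_lit 0) (XT.lf (nat_lit 0) (nat_lit 14017490493) (nat_lit 304) (nat_lit 4415685393) (nat_lit 380) (nat_lit 31533873704) (nat_lit 95) (nat_lit 5) (nat_lit 99) (nat_lit 5) (nat_lit 100) (nat_lit 5) (nat_lit 366) (nat_lit 331) (nat_lit 203)) (XT.nd (nat_lit 78) (nat_lit 380) (nat_lit 0) (XT.lf (nat_lit 0) (nat_lit 7738174208) (nat_lit 228) (nat_lit 27626923537) (nat_lit 304) (nat_lit 16232299298) (nat_lit 92) (nat_lit 5) (nat_lit 95) (nat_lit 5) (nat_lit 96) (nat_lit 5) (nat_lit 367) (nat_lit 331) (nat_lit 202)) (XT.lf (nat_lit 0) (nat_lit 267776159) (nat_lit 380) (nat_lit 52275493741) (nat_lit 76) (nat_lit 753135874) (nat_lit 87) (nat_lit 5) (nat_lit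 92) (nat_lit 5) (nat_lit 88) (nat_lit 5) (nat_lit 368) (nat_lit 331) (nat_lit 201)))) (XT.nd (nat_lit 78) (nat_lit 456) (nat_lit 0) (XT.lf (nat_lit 0) (nat_lit 17989844174) (nat_lit 380) (nat_lit 6460569631) (nat_lit 76) (nat_lit 30603150481) (nat_lit 87) (nat_lit 5) (nat_lit 92) (nat_lit 5) (nat_lit 88) (nat_lit 5) (nat_lit 369) (nat_lit 331) (nat_lit 200)) (XT.nd (nat_lit 78) (nat_lit 228) (nat_lit 0) (XT.lf (nat_lit 0) (nat_lit 37053773414) (nat_lit 304) (nat_lit 14473041457) (nat_lit 76) (nat_lit 5358094779) (nat_lit 84) (nat_lit 5) (nat_lit 88) (nat_lit 5) (nat_lit 85) (nat_lit 5) (nat_lit 370) (nat_lit 331) (nat_lit 199)) (XT.lf (nat_lit 0) (nat_lit 35494606187) (nat_lit 228) (nat_lit 22226593684) (nat_lit 304) (nat_lit 1067114975) (nat_lit 81) (nat_lit 5) (nat_lit 84) (nat_lit 5) (nat_lit 85) (nat_lit 5) (nat_lit 371) (nat_lit 331) (nat_lit 198))))) (XT.nd (nat_lit 234) (nat_lit 456)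 (nat_lit 0) (XT.nd (nat_lit 78) (nat_lit 380) (nat_lit 0) (XT.lf (nat_lit 0) (nat_lit 18772736602) (nat_lit 304) (nat_lit 33021418266) (nat_lit 76) (nat_lit 8972324917) (nat_lit 77) (nat_lit 5) (nat_lit 81) (nat_lit 5) (nat_lit 78) (nat_lit 5) (nat_lit 372) (nat_lit 331) (nat_lit 197)) (XT.nd (nat_lit 78) (nat_lit 152) (nat_lit 0) (XT.lf (nat_lit 0) (nat_lit 19114227750) (nat_lit 228) (nat_lit 21114122697) (nat_lit 304) (nat_lit 22595511777) (nat_lit 74) (nat_lit 5) (nat_lit 77) (nat_lit 5) (nat_lit 78) (nat_lit 5) (nat_lit 373) (nat_lit 331) (nat_lit 196)) (XT.lf (nat_lit 0) (nat_lit 9643554563) (nat_lit 152) (nat_lit 53651399830) (nat_lit 228) (nat_lit 1673014440) (nat_lit 72) (nat_lit 5) (nat_lit 74) (nat_lit 5) (nat_lit 75) (nat_lit 5) (nat_lit 374) (nat_lit 331) (nat_lit 195)))) (XT.nd (nat_lit 78) (nat_lit 380) (nat_lit 0) (XT.lf (nat_lit 0) (nat_lit 20562703537) (nat_lit 228) (nat_lit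 1047864527) (nat_lit 76) (nat_lit 45582967036) (nat_lit 71) (nat_lit 5) (nat_lit 74) (nat_lit 5) (nat_lit 72) (nat_lit 5) (nat_lit 375) (nat_lit 331) (nat_lit 194)) (XT.nd (nat_lit 78) (nat_lit 152) (nat_lit 0) (XT.lf (nat_lit 0) (nat_lit 44541210191) (nat_lit 304) (nat_lit 12603149716) (nat_lit 76) (nat_lit 12365555911) (nat_lit 68) (nat_lit 5) (nat_lit 72) (nat_lit 5) (nat_lit 69) (nat_lit 5) (nat_lit 376) (nat_lit 331) (nat_lit 193)) (XT.lf (nat_lit 0) (nat_lit 46522033924) (nat_lit 152) (nat_lit 23868757509) (nat_lit 228) (nat_lit 1531160776) (nat_lit 66) (nat_lit 5) (nat_lit 68) (nat_lit 5) (nat_lit 69) (nat_lit 5) (nat_lit 377) (nat_lit 331) (nat_lit 192))))))))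
noncomputable def xc100 : XT := (XT.nd (nat_lit 44148) (nat_lit 0) (nat_lit 4256) (XT.nd (nat_lit 858) (nat_lit 0) (nat_lit 0) (XT.nd (nat_lit 390) (nat_lit 912) (nat_lit 0) (XT.nd (nat_lit 156) (nat_lit 380) (nat_lit 0) (XT.nd (nat_lit 78) (nat_lit 152) (nat_lit 0) (XT.lf (nat_lit 0) (nat_lit 23203335107) (nat_lit 304) (nat_lit 39680548207) (nat_lit 76) (nat_lit 11546790452) (nat_lit 62) (nat_lit 5) (nat_lit 66) (nat_lit 5) (nat_lit 63) (nat_lit 5) (nat_lit 378) (nat_lit 331) (nat_lit 191)) (XT.lf (nat_lit 0) (nat_lit 21536190083) (nat_lit 152) (nat_lit 28315112497) (nat_lit 228) (nat_lit 27191822596) (nat_lit 60) (nat_lit 5) (nat_lit 62) (nat_lit 5) (nat_lit 63) (nat_lit 5) (nat_lit 379) (nat_lit 331) (nat_lit 190))) (XT.nd (nat_lit 78) (nat_lit 228) (nat_lit 0) (XT.lf (nat_lit 0) (nat_lit 6916755016) (nat_lit 152) (nat_lit 71466876978) (nat_lit 228) (nat_lit 1386009189) (nat_lit 58) (nat_lit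 5) (nat_lit 60) (nat_lit 5) (nat_lit 61) (nat_lit 5) (nat_lit 380) (nat_lit 331) (nat_lit 189)) (XT.nd (nat_lit 78) (nat_lit 152) (nat_lit 0) (XT.lf (nat_lit 0) (nat_lit 26067550300) (nat_lit 228) (nat_lit 9538728371) (nat_lit 76) (nat_lit 46993016390) (nat_lit 57) (nat_lit 5) (nat_lit 60) (nat_lit 5) (nat_lit 58) (nat_lit 5) (nat_lit 381) (nat_lit 331) (nat_lit 188)) (XT.lf (nat_lit 0) (nat_lit 55445243241) (nat_lit 228) (nat_lit 27524763060) (nat_lit 76) (nat_lit 2582610862) (nat_lit 55) (nat_lit 5) (nat_lit 58) (nat_lit 5) (nat_lit 56) (nat_lit 5) (nat_lit 382) (nat_lit 331) (nat_lit 187))))) (XT.nd (nat_lit 234) (nat_lit 380) (nat_lit 0) (XT.nd (nat_lit 78) (nat_lit 380) (nat_lit 0) (XT.lf (nat_lit 0) (nat_lit 40954286673) (nat_lit 152) (nat_lit 46186330842) (nat_lit 228) (nat_lit 1487524738) (nat_lit 53) (nat_lit 5) (nat_lit 55) (nat_lit 5) (nat_lit 56) (nat_lit 5) (nat_lit 383) (nat_lit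 331) (nat_lit 186)) (XT.nd (nat_lit 78) (nat_lit 152) (nat_lit 0) (XT.lf (nat_lit 0) (nat_lit 21724218422) (nat_lit 152) (nat_lit 6773345524) (nat_lit 228) (nat_lit 63336894727) (nat_lit 50) (nat_lit 5) (nat_lit 52) (nat_lit 5) (nat_lit 53) (nat_lit 5) (nat_lit 384) (nat_lit 331) (nat_lit 185)) (XT.lf (nat_lit 0) (nat_lit 44608769) (nat_lit 152) (nat_lit 60732290178) (nat_lit 228) (nat_lit 34398978134) (nat_lit 48) (nat_lit 5) (nat_lit 50) (nat_lit 5) (nat_lit 51) (nat_lit 5) (nat_lit 385) (nat_lit 331) (nat_lit 184)))) (XT.nd (nat_lit 78) (nat_lit 380) (nat_lit 0) (XT.lf (nat_lit 0) (nat_lit 75096972830) (nat_lit 152) (nat_lit 20359474565) (nat_lit 228) (nat_lit 3204332270) (nat_lit 48) (nat_lit 5) (nat_lit 50) (nat_lit 5) (nat_lit 51) (nat_lit 5) (nat_lit 386) (nat_lit 331) (nat_lit 183)) (XT.nd (nat_lit 78) (nat_lit 152) (nat_lit 0) (XT.lf (nat_lit 0) (nat_lit 29692789508) (nat_lit 228) (nat_lit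 50202562287) (nat_lit 76) (nat_lit 22394473455) (nat_lit 45) (nat_lit 5) (nat_lit 48) (nat_lit 5) (nat_lit 46) (nat_lit 5) (nat_lit 387) (nat_lit 331) (nat_lit 182)) (XT.lf (nat_lit 0) (nat_lit 26185687699) (nat_lit 152) (nat_lit 38682623739) (nat_lit 228) (nat_lit 41210066036) (nat_lit 43) (nat_lit 5) (nat_lit 45) (nat_lit 5) (nat_lit 46) (nat_lit 5) (nat_lit 388) (nat_lit 331) (nat_lit 181)))))) (XT.nd (nat_lit 42822) (nat_lit 0) (nat_lit 13984) (XT.nd (nat_lit 42588) (nat_lit 0) (nat_lit 15048) (XT.nd (nat_lit 42432) (nat_lit 0) (nat_lit 14972) (XT.lf (nat_lit 0) (nat_lit 102365739031) (nat_lit 228) (nat_lit 2652883378) (nat_lit 76) (nat_lit 5020841564) (nat_lit 43) (nat_lit 5) (nat_lit 46) (nat_lit 5) (nat_lit 44) (nat_lit 4) (nat_lit 389) (nat_lit 331) (nat_lit 180)) (XT.nd (nat_lit 78) (nat_lit 0) (nat_lit 0) (XT.lf (nat_lit 0) (nat_lit 4071188355) (nat_lit 0) (nat_lit 4071188355) (nat_lit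 1140) (nat_lit 1626767768) (nat_lit 240) (nat_lit 5) (nat_lit 240) (nat_lit 3) (nat_lit 255) (nat_lit 3) (nat_lit 332) (nat_lit 332) (nat_lit 236)) (XT.lf (nat_lit 76) (nat_lit 4031477568) (nat_lit 0) (nat_lit 13043590839) (nat_lit 1216) (nat_lit 2940000252) (nat_lit 241) (nat_lit 5) (nat_lit 240) (nat_lit 5) (nat_lit 256) (nat_lit 5) (nat_lit 333) (nat_lit 332) (nat_lit 235)))) (XT.nd (nat_lit 78) (nat_lit 0) (nat_lit 0) (XT.lf (nat_lit 0) (nat_lit 18107884947) (nat_lit 1140) (nat_lit 157378712) (nat_lit 1216) (nat_lit 2244345742) (nat_lit 241) (nat_lit 5) (nat_lit 256) (nat_lit 5) (nat_lit 257) (nat_lit 5) (nat_lit 334) (nat_lit 332) (nat_lit 234)) (XT.nd (nat_lit 78) (nat_lit 0) (nat_lit 76) (XT.lf (nat_lit 76) (nat_lit 16643470749) (nat_lit 0) (nat_lit 2823721935) (nat_lit 1216) (nat_lit 1553450057) (nat_lit 242) (nat_lit 5) (nat_lit 241) (nat_lit 5) (nat_lit 257) (nat_lit 5) (nat_lit 335)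 (nat_lit 332) (nat_lit 233)) (XT.lf (nat_lit 76) (nat_lit 12842272578) (nat_lit 0) (nat_lit 8289971163) (nat_lit 1216) (nat_lit 417861214) (nat_lit 243) (nat_lit 5) (nat_lit 242) (nat_lit 5) (nat_lit 258) (nat_lit 5) (nat_lit 336) (nat_lit 332) (nat_lit 232))))) (XT.nd (nat_lit 234) (nat_lit 0) (nat_lit 152) (XT.nd (nat_lit 78) (nat_lit 0) (nat_lit 76) (XT.lf (nat_lit 0) (nat_lit 982975065) (nat_lit 1216) (nat_lit 13140290411) (nat_lit 1292) (nat_lit 7975853762) (nat_lit 227) (nat_lit 5) (nat_lit 243) (nat_lit 5) (nat_lit 244) (nat_lit 5) (nat_lit 337) (nat_lit 332) (nat_lit 231)) (XT.nd (nat_lit 78) (nat_lit 0) (nat_lit 0) (XT.lf (nat_lit 0) (nat_lit 2675618966) (nat_lit 1216) (nat_lit 17675263871) (nat_lit 1292) (nat_lit 2317674333) (nat_lit 228) (nat_lit 5) (nat_lit 244) (nat_lit 5) (nat_lit 245) (nat_lit 5) (nat_lit 338) (nat_lit 332) (nat_lit 230)) (XT.lf (nat_lit 76) (nat_lit 909096966)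 (nat_lit 0) (nat_lit 3817524960) (nat_lit 1292) (nat_lit 18531642113) (nat_lit 229) (nat_lit 5) (nat_lit 228) (nat_lit 5) (nat_lit 245) (nat_lit 5) (nat_lit 339) (nat_lit 332) (nat_lit 229)))) (XT.nd (nat_lit 78) (nat_lit 0) (nat_lit 76) (XT.lf (nat_lit 0) (nat_lit 7180547491) (nat_lit 1216) (nat_lit 3222583765) (nat_lit 1292) (nat_lit 13465322244) (nat_lit 229) (nat_lit 5) (nat_lit 245) (nat_lit 5) (nat_lit 246) (nat_lit 5) (nat_lit 340) (nat_lit 332) (nat_lit 228)) (XT.nd (nat_lit 78) (nat_lit 0) (nat_lit 76) (XT.lf (nat_lit 0) (nat_lit 10016805057) (nat_lit 1216) (nat_lit 7426398345) (nat_lit 1292) (nat_lit 7058167984) (nat_lit 230) (nat_lit 5) (nat_lit 246) (nat_lit 5) (nat_lit 247) (nat_lit 5) (nat_lit 341) (nat_lit 332) (nat_lit 227)) (XT.lf (nat_lit 0) (nat_lit 13251959818) (nat_lit 1216) (nat_lit 11723650092) (nat_lit 76) (nat_lit 182620367) (nat_lit 231) (nat_lit 5) (nat_lit 247) (nat_lit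 5) (nat_lit 232) (nat_lit 5) (nat_lit 342) (nat_lit 332) (nat_lit 226))))))) (XT.nd (nat_lit 936) (nat_lit 4028) (nat_lit 0) (XT.nd (nat_lit 468) (nat_lit 2432) (nat_lit 0) (XT.nd (nat_lit 234) (nat_lit 1216) (nat_lit 0) (XT.nd (nat_lit 78) (nat_lit 1140) (nat_lit 0) (XT.lf (nat_lit 0) (nat_lit 9649298618) (nat_lit 1216) (nat_lit 7333735369) (nat_lit 1292) (nat_lit 8854880551) (nat_lit 215) (nat_lit 5) (nat_lit 231) (nat_lit 5) (nat_lit 232) (nat_lit 5) (nat_lit 343) (nat_lit 332) (nat_lit 225)) (XT.nd (nat_lit 78) (nat_lit 532) (nat_lit 0) (XT.lf (nat_lit 0) (nat_lit 5781576567) (nat_lit 608) (nat_lit 15392732391) (nat_lit 684) (nat_lit 5369071572) (nat_lit 207) (nat_lit 5) (nat_lit 215) (nat_lit 5) (nat_lit 216) (nat_lit 5) (nat_lit 344) (nat_lit 332) (nat_lit 224)) (XT.lf (nat_lit 0) (nat_lit 1829712323) (nat_lit 532) (nat_lit 24023745607) (nat_lit 608) (nat_lit 1422319184) (nat_lit 200)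 (nat_lit 5) (nat_lit 207) (nat_lit 5) (nat_lit 208) (nat_lit 5) (nat_lit 345) (nat_lit 332) (nat_lit 223)))) (XT.nd (nat_lit 78) (nat_lit 1140) (nat_lit 0) (XT.lf (nat_lit 0) (nat_lit 3029251541) (nat_lit 608) (nat_lit 2247723484) (nat_lit 76) (nat_lit 22756221937) (nat_lit 199) (nat_lit 5) (nat_lit 207) (nat_lit 5) (nat_lit 200) (nat_lit 5) (nat_lit 346) (nat_lit 332) (nat_lit 222)) (XT.nd (nat_lit 78) (nat_lit 532) (nat_lit 0) (XT.lf (nat_lit 0) (nat_lit 8021463830) (nat_lit 684) (nat_lit 6436779893) (nat_lit 76) (nat_lit 14359403057) (nat_lit 191) (nat_lit 5) (nat_lit 200) (nat_lit 5) (nat_lit 192) (nat_lit 5) (nat_lit 347) (nat_lit 332) (nat_lit 221)) (XT.lf (nat_lit 0) (nat_lit 13564700569) (nat_lit 608) (nat_lit 10732446204) (nat_lit 76) (nat_lit 5335135437) (nat_lit 184) (nat_lit 5) (nat_lit 192) (nat_lit 5) (nat_lit 185) (nat_lit 5) (nat_lit 348) (nat_lit 332) (nat_lit 220))))) (XT.nd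 (nat_lit 234) (nat_lit 912) (nat_lit 0) (XT.nd (nat_lit 78) (nat_lit 988) (nat_lit 0) (XT.lf (nat_lit 0) (nat_lit 15294101020) (nat_lit 532) (nat_lit 4441514512) (nat_lit 608) (nat_lit 10741523659) (nat_lit 177) (nat_lit 5) (nat_lit 184) (nat_lit 5) (nat_lit 185) (nat_lit 5) (nat_lit 349) (nat_lit 332) (nat_lit 219)) (XT.nd (nat_lit 78) (nat_lit 532) (nat_lit 0) (XT.lf (nat_lit 0) (nat_lit 11541872166) (nat_lit 456) (nat_lit 15044439221) (nat_lit 532) (nat_lit 4766795601) (nat_lit 171) (nat_lit 5) (nat_lit 177) (nat_lit 5) (nat_lit 178) (nat_lit 5) (nat_lit 350) (nat_lit 332) (nat_lit 218)) (XT.lf (nat_lit 0) (nat_lit 1803064384) (nat_lit 532) (nat_lit 24589561723) (nat_lit 76) (nat_lit 5870043337) (nat_lit 164) (nat_lit 5) (nat_lit 171) (nat_lit 5) (nat_lit 165) (nat_lit 5) (nat_lit 351) (nat_lit 332) (nat_lit 217)))) (XT.nd (nat_lit 78) (nat_lit 456) (nat_lit 0) (XT.lf (nat_lit 0) (nat_lit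 3592460231) (nat_lit 456) (nat_lit 5395188364) (nat_lit 532) (nat_lit 24217105493) (nat_lit 158) (nat_lit 5) (nat_lit 164) (nat_lit 5) (nat_lit 165) (nat_lit 5) (nat_lit 352) (nat_lit 332) (nat_lit 216)) (XT.nd (nat_lit 78) (nat_lit 456) (nat_lit 0) (XT.lf (nat_lit 0) (nat_lit 16939025618) (nat_lit 532) (nat_lit 661184060) (nat_lit 76) (nat_lit 16581510589) (nat_lit 158) (nat_lit 5) (nat_lit 165) (nat_lit 5) (nat_lit 159) (nat_lit 5) (nat_lit 353) (nat_lit 332) (nat_lit 215)) (XT.lf (nat_lit 0) (nat_lit 25670183537) (nat_lit 532) (nat_lit 4977637463) (nat_lit 76) (nat_lit 4548251405) (nat_lit 152) (nat_lit 5) (nat_lit 159) (nat_lit 5) (nat_lit 153) (nat_lit 5) (nat_lit 354) (nat_lit 332) (nat_lit 214)))))) (XT.nd (nat_lit 468) (nat_lit 1596) (nat_lit 0) (XT.nd (nat_lit 234) (nat_lit 1140) (nat_lit 0) (XT.nd (nat_lit 78) (nat_lit 912) (nat_lit 0) (XT.lf (nat_lit 0) (nat_lit 26729615600) (nat_lit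 380) (nat_lit 8542257521) (nat_lit 456) (nat_lit 976253634) (nat_lit 147) (nat_lit 5) (nat_lit 152) (nat_lit 5) (nat_lit 153) (nat_lit 5) (nat_lit 355) (nat_lit 332) (nat_lit 213)) (XT.nd (nat_lit 78) (nat_lit 380) (nat_lit 0) (XT.lf (nat_lit 0) (nat_lit 8256095607) (nat_lit 532) (nat_lit 14346867622) (nat_lit 76) (nat_lit 14735176112) (nat_lit 140) (nat_lit 5) (nat_lit 147) (nat_lit 5) (nat_lit 141) (nat_lit 5) (nat_lit 356) (nat_lit 332) (nat_lit 212)) (XT.lf (nat_lit 0) (nat_lit 18299801978) (nat_lit 456) (nat_lit 19366742042) (nat_lit 76) (nat_lit 804724021) (nat_lit 135) (nat_lit 5) (nat_lit 141) (nat_lit 5) (nat_lit 136) (nat_lit 5) (nat_lit 357) (nat_lit 332) (nat_lit 211)))) (XT.nd (nat_lit 78) (nat_lit 760) (nat_lit 0) (XT.lf (nat_lit 0) (nat_lit 14924371347) (nat_lit 380) (nat_lit 14435261450) (nat_lit 456) (nat_lit 10286005409) (nat_lit 130) (nat_lit 5) (nat_lit 135) (nat_lit 5) (nat_lit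 136) (nat_lit 5) (nat_lit 358) (nat_lit 332) (nat_lit 210)) (XT.nd (nat_lit 78) (nat_lit 380) (nat_lit 0) (XT.lf (nat_lit 0) (nat_lit 487767123) (nat_lit 380) (nat_lit 30310203779) (nat_lit 76) (nat_lit 10068855873) (nat_lit 125) (nat_lit 5) (nat_lit 130) (nat_lit 5) (nat_lit 126) (nat_lit 5) (nat_lit 359) (nat_lit 332) (nat_lit 209)) (XT.lf (nat_lit 0) (nat_lit 5826495080) (nat_lit 380) (nat_lit 6215265200) (nat_lit 456) (nat_lit 30090634193) (nat_lit 120) (nat_lit 5) (nat_lit 125) (nat_lit 5) (nat_lit 126) (nat_lit 5) (nat_lit 360) (nat_lit 332) (nat_lit 208))))) (XT.nd (nat_lit 234) (nat_lit 912) (nat_lit 0) (XT.nd (nat_lit 78) (nat_lit 380) (nat_lit 0) (XT.lf (nat_lit 0) (nat_lit 766385580) (nat_lit 304) (nat_lit 23911692483) (nat_lit 380) (nat_lit 18768026433) (nat_lit 116) (nat_lit 5) (nat_lit 120) (nat_lit 5) (nat_lit 121) (nat_lit 5) (nat_lit 361) (nat_lit 332) (nat_lit 207)) (XT.nd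 (nat_lit 78) (nat_lit 380) (nat_lit 0) (XT.lf (nat_lit 0) (nat_lit 38395308834) (nat_lit 380) (nat_lit 4453266888) (nat_lit 76) (nat_lit 1963453941) (nat_lit 116) (nat_lit 5) (nat_lit 121) (nat_lit 5) (nat_lit 117) (nat_lit 5) (nat_lit 362) (nat_lit 332) (nat_lit 206)) (XT.lf (nat_lit 0) (nat_lit 7013069814) (nat_lit 380) (nat_lit 10157284500) (nat_lit 76) (nat_lit 29056346369) (nat_lit 111) (nat_lit 5) (nat_lit 116) (nat_lit 5) (nat_lit 112) (nat_lit 5) (nat_lit 363) (nat_lit 332) (nat_lit 205)))) (XT.nd (nat_lit 78) (nat_lit 608) (nat_lit 0) (XT.lf (nat_lit 0) (nat_lit 21424981625) (nat_lit 380) (nat_lit 16255225002) (nat_lit 76) (nat_lit 10016694745) (nat_lit 107) (nat_lit 5) (nat_lit 112) (nat_lit 5) (nat_lit 108) (nat_lit 5) (nat_lit 364) (nat_lit 332) (nat_lit 204)) (XT.nd (nat_lit 78) (nat_lit 304) (nat_lit 0) (XT.lf (nat_lit 0) (nat_lit 26428804537) (nat_lit 304) (nat_lit 10656200665)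 (nat_lit 380) (nat_lit 12139783554) (nat_lit 103) (nat_lit 5) (nat_lit 107) (nat_lit 5) (nat_lit 108) (nat_lit 5) (nat_lit 365) (nat_lit 332) (nat_lit 203)) (XT.lf (nat_lit 0) (nat_lit 3187431844) (nat_lit 304) (nat_lit 29851771554) (nat_lit 76) (nat_lit 17772856609) (nat_lit 99) (nat_lit 5) (nat_lit 103) (nat_lit 5) (nat_lit 100) (nat_lit 5) (nat_lit 366) (nat_lit 332) (nat_lit 202))))))))
noncomputable def xc101 : XT := (XT.nd (nat_lit 44304) (nat_lit 0) (nat_lit 7220) (XT.nd (nat_lit 858) (nat_lit 1748) (nat_lit 0) (XT.nd (nat_lit 390) (nat_lit 1216) (nat_lit 0) (XT.nd (nat_lit 156) (nat_lit 608) (nat_lit 0) (XT.nd (nat_lit 78) (nat_lit 228) (nat_lit 0) (XT.lf (nat_lit 0) (nat_lit 14960889398) (nat_lit 304) (nat_lit 4554592494) (nat_lit 380) (nat_lit 32945042645) (nat_lit 95) (nat_lit 5) (nat_lit 99) (nat_lit 5) (nat_lit 100) (nat_lit 5) (nat_lit 367) (nat_lit 332) (nat_lit 201)) (XT.lf (nat_lit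 0) (nat_lit 8364628613) (nat_lit 228) (nat_lit 28924773600) (nat_lit 304) (nat_lit 16883127848) (nat_lit 92) (nat_lit 5) (nat_lit 95) (nat_lit 5) (nat_lit 96) (nat_lit 5) (nat_lit 368) (nat_lit 332) (nat_lit 200))) (XT.nd (nat_lit 78) (nat_lit 228) (nat_lit 0) (XT.lf (nat_lit 0) (nat_lit 434374632) (nat_lit 380) (nat_lit 54649667468) (nat_lit 76) (nat_lit 872536497) (nat_lit 87) (nat_lit 5) (nat_lit 92) (nat_lit 5) (nat_lit 88) (nat_lit 5) (nat_lit 369) (nat_lit 332) (nat_lit 199)) (XT.nd (nat_lit 78) (nat_lit 228) (nat_lit 0) (XT.lf (nat_lit 0) (nat_lit 19035250348) (nat_lit 380) (nat_lit 6555406721) (nat_lit 76) (nat_lit 32211159271) (nat_lit 87) (nat_lit 5) (nat_lit 92) (nat_lit 5) (nat_lit 88) (nat_lit 5) (nat_lit 370) (nat_lit 332) (nat_lit 198)) (XT.lf (nat_lit 0) (nat_lit 39048332740) (nat_lit 304) (nat_lit 14971538225) (nat_lit 76) (nat_lit 5704981630) (nat_lit 84) (nat_lit 5) (nat_lit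 88) (nat_lit 5) (nat_lit 85) (nat_lit 5) (nat_lit 371) (nat_lit 332) (nat_lit 197))))) (XT.nd (nat_lit 234) (nat_lit 456) (nat_lit 0) (XT.nd (nat_lit 78) (nat_lit 532) (nat_lit 0) (XT.lf (nat_lit 0) (nat_lit 37488037770) (nat_lit 228) (nat_lit 23256439294) (nat_lit 304) (nat_lit 979092799) (nat_lit 81) (nat_lit 5) (nat_lit 84) (nat_lit 5) (nat_lit 85) (nat_lit 5) (nat_lit 372) (nat_lit 332) (nat_lit 196)) (XT.nd (nat_lit 78) (nat_lit 228) (nat_lit 0) (XT.lf (nat_lit 0) (nat_lit 19846239110) (nat_lit 304) (nat_lit 34454051329) (nat_lit 76) (nat_lit 9500426488) (nat_lit 77) (nat_lit 5) (nat_lit 81) (nat_lit 5) (nat_lit 78) (nat_lit 5) (nat_lit 373) (nat_lit 332) (nat_lit 195)) (XT.lf (nat_lit 0) (nat_lit 20282115510) (nat_lit 228) (nat_lit 22088135531) (nat_lit 304) (nat_lit 23590850872) (nat_lit 74) (nat_lit 5) (nat_lit 77) (nat_lit 5) (nat_lit 78) (nat_lit 5) (nat_lit 374) (nat_lit 332) (nat_lit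 194)))) (XT.nd (nat_lit 78) (nat_lit 304) (nat_lit 0) (XT.lf (nat_lit 0) (nat_lit 10334903994) (nat_lit 152) (nat_lit 56251826288) (nat_lit 228) (nat_lit 1625789070) (nat_lit 72) (nat_lit 5) (nat_lit 74) (nat_lit 5) (nat_lit 75) (nat_lit 5) (nat_lit 375) (nat_lit 332) (nat_lit 193)) (XT.nd (nat_lit 78) (nat_lit 228) (nat_lit 0) (XT.lf (nat_lit 0) (nat_lit 21713050360) (nat_lit 228) (nat_lit 898580073) (nat_lit 76) (nat_lit 47937880790) (nat_lit 71) (nat_lit 5) (nat_lit 74) (nat_lit 5) (nat_lit 72) (nat_lit 5) (nat_lit 376) (nat_lit 332) (nat_lit 192)) (XT.lf (nat_lit 0) (nat_lit 46887291968) (nat_lit 304) (nat_lit 13034575813) (nat_lit 76) (nat_lit 13059940540) (nat_lit 68) (nat_lit 5) (nat_lit 72) (nat_lit 5) (nat_lit 69) (nat_lit 5) (nat_lit 377) (nat_lit 332) (nat_lit 191)))))) (XT.nd (nat_lit 468) (nat_lit 760) (nat_lit 0) (XT.nd (nat_lit 234) (nat_lit 380) (nat_lit 0) (XT.nd (nat_lit 78)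 (nat_lit 456) (nat_lit 0) (XT.lf (nat_lit 0) (nat_lit 49041170414) (nat_lit 152) (nat_lit 24984369748) (nat_lit 228) (nat_lit 1489022288) (nat_lit 66) (nat_lit 5) (nat_lit 68) (nat_lit 5) (nat_lit 69) (nat_lit 5) (nat_lit 378) (nat_lit 332) (nat_lit 190)) (XT.nd (nat_lit 78) (nat_lit 152) (nat_lit 0) (XT.lf (nat_lit 0) (nat_lit 24476905863) (nat_lit 304) (nat_lit 41472127672) (nat_lit 76) (nat_lit 12199743047) (nat_lit 62) (nat_lit 5) (nat_lit 66) (nat_lit 5) (nat_lit 63) (nat_lit 5) (nat_lit 379) (nat_lit 332) (nat_lit 189)) (XT.lf (nat_lit 0) (nat_lit 22799931051) (nat_lit 152) (nat_lit 29653737367) (nat_lit 228) (nat_lit 28438291611) (nat_lit 60) (nat_lit 5) (nat_lit 62) (nat_lit 5) (nat_lit 63) (nat_lit 5) (nat_lit 380) (nat_lit 332) (nat_lit 188)))) (XT.nd (nat_lit 78) (nat_lit 228) (nat_lit 0) (XT.lf (nat_lit 0) (nat_lit 7446671900) (nat_lit 152) (nat_lit 74963189402) (nat_lit 228) (nat_lit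 1345024430) (nat_lit 58) (nat_lit 5) (nat_lit 60) (nat_lit 5) (nat_lit 61) (nat_lit 5) (nat_lit 381) (nat_lit 332) (nat_lit 187)) (XT.nd (nat_lit 78) (nat_lit 152) (nat_lit 0) (XT.lf (nat_lit 0) (nat_lit 27473911774) (nat_lit 228) (nat_lit 9838277632) (nat_lit 76) (nat_lit 49413956775) (nat_lit 57) (nat_lit 5) (nat_lit 60) (nat_lit 5) (nat_lit 58) (nat_lit 5) (nat_lit 382) (nat_lit 332) (nat_lit 186)) (XT.lf (nat_lit 0) (nat_lit 58317939190) (nat_lit 228) (nat_lit 28726381321) (nat_lit 76) (nat_lit 2782891531) (nat_lit 55) (nat_lit 5) (nat_lit 58) (nat_lit 5) (nat_lit 56) (nat_lit 5) (nat_lit 383) (nat_lit 332) (nat_lit 185))))) (XT.nd (nat_lit 234) (nat_lit 228) (nat_lit 0) (XT.nd (nat_lit 78) (nat_lit 380) (nat_lit 0) (XT.lf (nat_lit 0) (nat_lit 43171615455) (nat_lit 152) (nat_lit 48423314600) (nat_lit 228) (nat_lit 1461678989) (nat_lit 53) (nat_lit 5) (nat_lit 55) (nat_lit 5) (nat_lit 56)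 (nat_lit 5) (nat_lit 384) (nat_lit 332) (nat_lit 184)) (XT.nd (nat_lit 78) (nat_lit 152) (nat_lit 0) (XT.lf (nat_lit 0) (nat_lit 22977102085) (nat_lit 152) (nat_lit 7040529165) (nat_lit 228) (nat_lit 66405674460) (nat_lit 50) (nat_lit 5) (nat_lit 52) (nat_lit 5) (nat_lit 53) (nat_lit 5) (nat_lit 385) (nat_lit 332) (nat_lit 183)) (XT.lf (nat_lit 0) (nat_lit 210860322) (nat_lit 152) (nat_lit 63697770959) (nat_lit 228) (nat_lit 36023233772) (nat_lit 48) (nat_lit 5) (nat_lit 50) (nat_lit 5) (nat_lit 51) (nat_lit 5) (nat_lit 386) (nat_lit 332) (nat_lit 182)))) (XT.nd (nat_lit 78) (nat_lit 228) (nat_lit 0) (XT.lf (nat_lit 0) (nat_lit 79008032057) (nat_lit 152) (nat_lit 21309701886) (nat_lit 228) (nat_lit 3273412437) (nat_lit 48) (nat_lit 5) (nat_lit 50) (nat_lit 5) (nat_lit 51) (nat_lit 5) (nat_lit 387) (nat_lit 332) (nat_lit 181)) (XT.nd (nat_lit 42588) (nat_lit 0) (nat_lit 14820) (XT.lf (nat_lit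 0) (nat_lit 31264650282) (nat_lit 228) (nat_lit 52557241610) (nat_lit 76) (nat_lit 23579791020) (nat_lit 45) (nat_lit 5) (nat_lit 48) (nat_lit 5) (nat_lit 46) (nat_lit 5) (nat_lit 388) (nat_lit 332) (nat_lit 180)) (XT.lf (nat_lit 0) (nat_lit 4410827112) (nat_lit 0) (nat_lit 4410827112) (nat_lit 1140) (nat_lit 1427603916) (nat_lit 240) (nat_lit 5) (nat_lit 240) (nat_lit 3) (nat_lit 255) (nat_lit 3) (nat_lit 333) (nat_lit 333) (nat_lit 234))))))) (XT.nd (nat_lit 936) (nat_lit 5092) (nat_lit 0) (XT.nd (nat_lit 468) (nat_lit 1444) (nat_lit 0) (XT.nd (nat_lit 234) (nat_lit 1064) (nat_lit 0) (XT.nd (nat_lit 78) (nat_lit 0) (nat_lit 76) (XT.lf (nat_lit 76) (nat_lit 4516158707) (nat_lit 0) (nat_lit 13931290430) (nat_lit 1216) (nat_lit 2552473564) (nat_lit 241) (nat_lit 5) (nat_lit 240) (nat_lit 5) (nat_lit 256) (nat_lit 5) (nat_lit 334) (nat_lit 333) (nat_lit 233)) (XT.nd (nat_lit 78) (nat_lit 0) (nat_lit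 0) (XT.lf (nat_lit 76) (nat_lit 124098353) (nat_lit 0) (nat_lit 19382148365) (nat_lit 1216) (nat_lit 2013729771) (nat_lit 242) (nat_lit 5) (nat_lit 241) (nat_lit 5) (nat_lit 257) (nat_lit 5) (nat_lit 335) (nat_lit 333) (nat_lit 232)) (XT.lf (nat_lit 76) (nat_lit 17754344052) (nat_lit 0) (nat_lit 3157244075) (nat_lit 1216) (nat_lit 1145646766) (nat_lit 242) (nat_lit 5) (nat_lit 241) (nat_lit 5) (nat_lit 257) (nat_lit 5) (nat_lit 336) (nat_lit 333) (nat_lit 231)))) (XT.nd (nat_lit 78) (nat_lit 0) (nat_lit 76) (XT.lf (nat_lit 0) (nat_lit 24146386) (nat_lit 1216) (nat_lit 8843145741) (nat_lit 1292) (nat_lit 13746528803) (nat_lit 226) (nat_lit 5) (nat_lit 242) (nat_lit 5) (nat_lit 243) (nat_lit 5) (nat_lit 337) (nat_lit 333) (nat_lit 230)) (XT.nd (nat_lit 78) (nat_lit 0) (nat_lit 76) (XT.lf (nat_lit 0) (nat_lit 1466166588) (nat_lit 1216) (nat_lit 13495165524) (nat_lit 1292) (nat_lit 8229449776) (nat_lit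 227) (nat_lit 5) (nat_lit 243) (nat_lit 5) (nat_lit 244) (nat_lit 5) (nat_lit 338) (nat_lit 333) (nat_lit 229)) (XT.lf (nat_lit 0) (nat_lit 3224415451) (nat_lit 1216) (nat_lit 18251623866) (nat_lit 1292) (nat_lit 2313236171) (nat_lit 228) (nat_lit 5) (nat_lit 244) (nat_lit 5) (nat_lit 245) (nat_lit 5) (nat_lit 339) (nat_lit 333) (nat_lit 228))))) (XT.nd (nat_lit 234) (nat_lit 1596) (nat_lit 0) (XT.nd (nat_lit 78) (nat_lit 0) (nat_lit 76) (XT.lf (nat_lit 76) (nat_lit 1253143363) (nat_lit 0) (nat_lit 4107932796) (nat_lit 1292) (nat_lit 19047910649) (nat_lit 229) (nat_lit 5) (nat_lit 228) (nat_lit 5) (nat_lit 245) (nat_lit 5) (nat_lit 340) (nat_lit 333) (nat_lit 227)) (XT.nd (nat_lit 78) (nat_lit 0) (nat_lit 76) (XT.lf (nat_lit 0) (nat_lit 7917828559) (nat_lit 1216) (nat_lit 3086818915) (nat_lit 1292) (nat_lit 14045646101) (nat_lit 229) (nat_lit 5) (nat_lit 245) (nat_lit 5) (nat_lit 246) (nat_lit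 5) (nat_lit 341) (nat_lit 333) (nat_lit 226)) (XT.lf (nat_lit 0) (nat_lit 10879941652) (nat_lit 1216) (nat_lit 7497503030) (nat_lit 1292) (nat_lit 7337902583) (nat_lit 230) (nat_lit 5) (nat_lit 246) (nat_lit 5) (nat_lit 247) (nat_lit 5) (nat_lit 342) (nat_lit 333) (nat_lit 225)))) (XT.nd (nat_lit 78) (nat_lit 1824) (nat_lit 0) (XT.lf (nat_lit 0) (nat_lit 14261864484) (nat_lit 1216) (nat_lit 12007033823) (nat_lit 76) (nat_lit 136611141) (nat_lit 231) (nat_lit 5) (nat_lit 247) (nat_lit 5) (nat_lit 232) (nat_lit 5) (nat_lit 343) (nat_lit 333) (nat_lit 224)) (XT.nd (nat_lit 78) (nat_lit 608) (nat_lit 0) (XT.lf (nat_lit 0) (nat_lit 10425882656) (nat_lit 1216) (nat_lit 7739898545) (nat_lit 1292) (nat_lit 8953818206) (nat_lit 215) (nat_lit 5) (nat_lit 231) (nat_lit 5) (nat_lit 232) (nat_lit 5) (nat_lit 344) (nat_lit 333) (nat_lit 223)) (XT.lf (nat_lit 0) (nat_lit 6366630397) (nat_lit 608) (nat_lit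 16186587714) (nat_lit 684) (nat_lit 5307532308) (nat_lit 207) (nat_lit 5) (nat_lit 215) (nat_lit 5) (nat_lit 216) (nat_lit 5) (nat_lit 345) (nat_lit 333) (nat_lit 222)))))) (XT.nd (nat_lit 468) (nat_lit 2356) (nat_lit 0) (XT.nd (nat_lit 234) (nat_lit 1520) (nat_lit 0) (XT.nd (nat_lit 78) (nat_lit 684) (nat_lit 0) (XT.lf (nat_lit 0) (nat_lit 2218433256) (nat_lit 532) (nat_lit 25235279445) (nat_lit 608) (nat_lit 1176441692) (nat_lit 200) (nat_lit 5) (nat_lit 207) (nat_lit 5) (nat_lit 208) (nat_lit 5) (nat_lit 346) (nat_lit 333) (nat_lit 221)) (XT.nd (nat_lit 78) (nat_lit 608) (nat_lit 0) (XT.lf (nat_lit 0) (nat_lit 3476721516) (nat_lit 608) (nat_lit 2070967031) (nat_lit 76) (nat_lit 23878117796) (nat_lit 199) (nat_lit 5) (nat_lit 207) (nat_lit 5) (nat_lit 200) (nat_lit 5) (nat_lit 347) (nat_lit 333) (nat_lit 220)) (XT.lf (nat_lit 0) (nat_lit 8707112457) (nat_lit 684) (nat_lit 6469027875) (nat_lit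 76) (nat_lit 15073689386) (nat_lit 191) (nat_lit 5) (nat_lit 200) (nat_lit 5) (nat_lit 192) (nat_lit 5) (nat_lit 348) (nat_lit 333) (nat_lit 219)))) (XT.nd (nat_lit 78) (nat_lit 988) (nat_lit 0) (XT.lf (nat_lit 0) (nat_lit 14516736442) (nat_lit 608) (nat_lit 10979484996) (nat_lit 76) (nat_lit 5609306440) (nat_lit 184) (nat_lit 5) (nat_lit 192) (nat_lit 5) (nat_lit 185) (nat_lit 5) (nat_lit 349) (nat_lit 333) (nat_lit 218)) (XT.nd (nat_lit 78) (nat_lit 456) (nat_lit 0) (XT.lf (nat_lit 0) (nat_lit 16340088736) (nat_lit 532) (nat_lit 4645774142) (nat_lit 608) (nat_lit 11007082211) (nat_lit 177) (nat_lit 5) (nat_lit 184) (nat_lit 5) (nat_lit 185) (nat_lit 5) (nat_lit 350) (nat_lit 333) (nat_lit 217)) (XT.lf (nat_lit 0) (nat_lit 12399839457) (nat_lit 456) (nat_lit 15769571075) (nat_lit 532) (nat_lit 4743598236) (nat_lit 171) (nat_lit 5) (nat_lit 177) (nat_lit 5) (nat_lit 178) (nat_lit 5) (nat_lit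 351) (nat_lit 333) (nat_lit 216))))) (XT.nd (nat_lit 234) (nat_lit 1368) (nat_lit 0) (XT.nd (nat_lit 78) (nat_lit 456) (nat_lit 0) (XT.lf (nat_lit 0) (nat_lit 2140409713) (nat_lit 532) (nat_lit 25533889827) (nat_lit 76) (nat_lit 6193958106) (nat_lit 164) (nat_lit 5) (nat_lit 171) (nat_lit 5) (nat_lit 165) (nat_lit 5) (nat_lit 352) (nat_lit 333) (nat_lit 215)) (XT.nd (nat_lit 78) (nat_lit 0) (nat_lit 0) (XT.lf (nat_lit 0) (nat_lit 4049059457) (nat_lit 456) (nat_lit 5626055089) (nat_lit 532) (nat_lit 25182611401) (nat_lit 158) (nat_lit 5) (nat_lit 164) (nat_lit 5) (nat_lit 165) (nat_lit 5) (nat_lit 353) (nat_lit 333) (nat_lit 214)) (XT.lf (nat_lit 0) (nat_lit 18013079168) (nat_lit 532) (nat_lit 423892597) (nat_lit 76) (nat_lit 17446903982) (nat_lit 158) (nat_lit 5) (nat_lit 165) (nat_lit 5) (nat_lit 159) (nat_lit 5) (nat_lit 354) (nat_lit 333) (nat_lit 213)))) (XT.nd (nat_lit 78) (nat_lit 912)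 (nat_lit 0) (XT.lf (nat_lit 0) (nat_lit 27172925797) (nat_lit 532) (nat_lit 4957662906) (nat_lit 76) (nat_lit 4818598456) (nat_lit 152) (nat_lit 5) (nat_lit 159) (nat_lit 5) (nat_lit 153) (nat_lit 5) (nat_lit 355) (nat_lit 333) (nat_lit 212)) (XT.nd (nat_lit 78) (nat_lit 532) (nat_lit 0) (XT.lf (nat_lit 0) (nat_lit 28327246094) (nat_lit 380) (nat_lit 8919524427) (nat_lit 456) (nat_lit 807316914) (nat_lit 147) (nat_lit 5) (nat_lit 152) (nat_lit 5) (nat_lit 153) (nat_lit 5) (nat_lit 356) (nat_lit 333) (nat_lit 211)) (XT.lf (nat_lit 0) (nat_lit 8875213659) (nat_lit 532) (nat_lit 14800547059) (nat_lit 76) (nat_lit 15522997675) (nat_lit 140) (nat_lit 5) (nat_lit 147) (nat_lit 5) (nat_lit 141) (nat_lit 5) (nat_lit 357) (nat_lit 333) (nat_lit 210))))))))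
noncomputable def xc102 : XT := (XT.nd (nat_lit 1794) (nat_lit 1064) (nat_lit 0) (XT.nd (nat_lit 858) (nat_lit 2508) (nat_lit 0) (XT.nd (nat_lit 390) (nat_lit 1596) (nat_lit 0) (XT.nd (nat_lit 156) (nat_lit 1064) (nat_lit 0) (XT.nd (nat_lit 78) (nat_lit 380) (nat_lit 0) (XT.lf (nat_lit 0) (nat_lit 19414292168) (nat_lit 456) (nat_lit 20073460141) (nat_lit 76) (nat_lit 901000306) (nat_lit 135) (nat_lit 5) (nat_lit 141) (nat_lit 5) (nat_lit 136) (nat_lit 5) (nat_lit 358) (nat_lit 333) (nat_lit 209)) (XT.lf (nat_lit 0) (nat_lit 15924709660) (nat_lit 380) (nat_lit 15095347617) (nat_lit 456) (nat_lit 10602000195) (nat_lit 130) (nat_lit 5) (nat_lit 135) (nat_lit 5) (nat_lit 136) (nat_lit 5) (nat_lit 359) (nat_lit 333) (nat_lit 208))) (XT.nd (nat_lit 78) (nat_lit 684) (nat_lit 0) (XT.lf (nat_lit 0) (nat_lit 700348611) (nat_lit 380) (nat_lit 31569931768) (nat_lit 76) (nat_lit 10634159317) (nat_lit 125)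 (nat_lit 5) (nat_lit 130) (nat_lit 5) (nat_lit 126) (nat_lit 5) (nat_lit 360) (nat_lit 333) (nat_lit 207)) (XT.nd (nat_lit 78) (nat_lit 304) (nat_lit 0) (XT.lf (nat_lit 0) (nat_lit 6366270089) (nat_lit 380) (nat_lit 6459198016) (nat_lit 456) (nat_lit 31408018810) (nat_lit 120) (nat_lit 5) (nat_lit 125) (nat_lit 5) (nat_lit 126) (nat_lit 5) (nat_lit 361) (nat_lit 333) (nat_lit 206)) (XT.lf (nat_lit 0) (nat_lit 1050778182) (nat_lit 304) (nat_lit 25037152264) (nat_lit 380) (nat_lit 19525125879) (nat_lit 116) (nat_lit 5) (nat_lit 120) (nat_lit 5) (nat_lit 121) (nat_lit 5) (nat_lit 362) (nat_lit 333) (nat_lit 205))))) (XT.nd (nat_lit 234) (nat_lit 912) (nat_lit 0) (XT.nd (nat_lit 78) (nat_lit 684) (nat_lit 0) (XT.lf (nat_lit 0) (nat_lit 40483286240) (nat_lit 380) (nat_lit 4437118199) (nat_lit 76) (nat_lit 2127108977) (nat_lit 116) (nat_lit 5) (nat_lit 121) (nat_lit 5) (nat_lit 117) (nat_lit 5) (nat_lit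 363) (nat_lit 333) (nat_lit 204)) (XT.nd (nat_lit 78) (nat_lit 304) (nat_lit 0) (XT.lf (nat_lit 0) (nat_lit 7527829862) (nat_lit 380) (nat_lit 10429850154) (nat_lit 76) (nat_lit 30575366511) (nat_lit 111) (nat_lit 5) (nat_lit 116) (nat_lit 5) (nat_lit 112) (nat_lit 5) (nat_lit 364) (nat_lit 333) (nat_lit 203)) (XT.lf (nat_lit 0) (nat_lit 22655393170) (nat_lit 380) (nat_lit 16835288452) (nat_lit 76) (nat_lit 10586227093) (nat_lit 107) (nat_lit 5) (nat_lit 112) (nat_lit 5) (nat_lit 108) (nat_lit 5) (nat_lit 365) (nat_lit 333) (nat_lit 202)))) (XT.nd (nat_lit 78) (nat_lit 608) (nat_lit 0) (XT.lf (nat_lit 0) (nat_lit 27976272328) (nat_lit 304) (nat_lit 11116739148) (nat_lit 380) (nat_lit 12588344178) (nat_lit 103) (nat_lit 5) (nat_lit 107) (nat_lit 5) (nat_lit 108) (nat_lit 5) (nat_lit 366) (nat_lit 333) (nat_lit 201)) (XT.nd (nat_lit 78) (nat_lit 304) (nat_lit 0) (XT.lf (nat_lit 0) (nat_lit 3497580503)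 (nat_lit 304) (nat_lit 31117891697) (nat_lit 76) (nat_lit 18732612148) (nat_lit 99) (nat_lit 5) (nat_lit 103) (nat_lit 5) (nat_lit 100) (nat_lit 5) (nat_lit 367) (nat_lit 333) (nat_lit 200)) (XT.lf (nat_lit 0) (nat_lit 15928910631) (nat_lit 304) (nat_lit 4708057113) (nat_lit 380) (nat_lit 34442158955) (nat_lit 95) (nat_lit 5) (nat_lit 99) (nat_lit 5) (nat_lit 100) (nat_lit 5) (nat_lit 368) (nat_lit 333) (nat_lit 199)))))) (XT.nd (nat_lit 468) (nat_lit 1140) (nat_lit 0) (XT.nd (nat_lit 234) (nat_lit 760) (nat_lit 0) (XT.nd (nat_lit 78) (nat_lit 380) (nat_lit 0) (XT.lf (nat_lit 0) (nat_lit 9000135049) (nat_lit 228) (nat_lit 30295278843) (nat_lit 304) (nat_lit 17581446223) (nat_lit 92) (nat_lit 5) (nat_lit 95) (nat_lit 5) (nat_lit 96) (nat_lit 5) (nat_lit 369) (nat_lit 333) (nat_lit 198)) (XT.nd (nat_lit 78) (nat_lit 0) (nat_lit 0) (XT.lf (nat_lit 0) (nat_lit 595059045) (nat_lit 380) (nat_lit 57164825707)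 (nat_lit 76) (nat_lit 990307385) (nat_lit 87) (nat_lit 5) (nat_lit 92) (nat_lit 5) (nat_lit 88) (nat_lit 5) (nat_lit 370) (nat_lit 333) (nat_lit 197)) (XT.lf (nat_lit 0) (nat_lit 20119361134) (nat_lit 380) (nat_lit 6676200739) (nat_lit 76) (nat_lit 33892330628) (nat_lit 87) (nat_lit 5) (nat_lit 92) (nat_lit 5) (nat_lit 88) (nat_lit 5) (nat_lit 371) (nat_lit 333) (nat_lit 196)))) (XT.nd (nat_lit 78) (nat_lit 532) (nat_lit 0) (XT.lf (nat_lit 0) (nat_lit 41129430243) (nat_lit 304) (nat_lit 15515892637) (nat_lit 76) (nat_lit 6061869814) (nat_lit 84) (nat_lit 5) (nat_lit 88) (nat_lit 5) (nat_lit 85) (nat_lit 5) (nat_lit 372) (nat_lit 333) (nat_lit 195)) (XT.nd (nat_lit 78) (nat_lit 304) (nat_lit 0) (XT.lf (nat_lit 0) (nat_lit 39560808160) (nat_lit 228) (nat_lit 24345352802) (nat_lit 304) (nat_lit 899813494) (nat_lit 81) (nat_lit 5) (nat_lit 84) (nat_lit 5) (nat_lit 85) (nat_lit 5) (nat_lit 373) (nat_lit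 333) (nat_lit 194)) (XT.lf (nat_lit 0) (nat_lit 20960878211) (nat_lit 304) (nat_lit 35978624326) (nat_lit 76) (nat_lit 10047543346) (nat_lit 77) (nat_lit 5) (nat_lit 81) (nat_lit 5) (nat_lit 78) (nat_lit 5) (nat_lit 374) (nat_lit 333) (nat_lit 193))))) (XT.nd (nat_lit 234) (nat_lit 684) (nat_lit 0) (XT.nd (nat_lit 78) (nat_lit 228) (nat_lit 0) (XT.lf (nat_lit 0) (nat_lit 21488671511) (nat_lit 228) (nat_lit 23118444074) (nat_lit 304) (nat_lit 24648455552) (nat_lit 74) (nat_lit 5) (nat_lit 77) (nat_lit 5) (nat_lit 78) (nat_lit 5) (nat_lit 375) (nat_lit 333) (nat_lit 192)) (XT.nd (nat_lit 78) (nat_lit 76) (nat_lit 0) (XT.lf (nat_lit 0) (nat_lit 11041374094) (nat_lit 152) (nat_lit 58989910997) (nat_lit 228) (nat_lit 1588370050) (nat_lit 72) (nat_lit 5) (nat_lit 74) (nat_lit 5) (nat_lit 75) (nat_lit 5) (nat_lit 376) (nat_lit 333) (nat_lit 191)) (XT.lf (nat_lit 0) (nat_lit 22909552443) (nat_lit 228)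 (nat_lit 760581476) (nat_lit 76) (nat_lit 50403496283) (nat_lit 71) (nat_lit 5) (nat_lit 74) (nat_lit 5) (nat_lit 72) (nat_lit 5) (nat_lit 377) (nat_lit 333) (nat_lit 190)))) (XT.nd (nat_lit 78) (nat_lit 456) (nat_lit 0) (XT.lf (nat_lit 0) (nat_lit 49339612364) (nat_lit 304) (nat_lit 13506049377) (nat_lit 76) (nat_lit 13781968708) (nat_lit 68) (nat_lit 5) (nat_lit 72) (nat_lit 5) (nat_lit 69) (nat_lit 5) (nat_lit 378) (nat_lit 333) (nat_lit 189)) (XT.nd (nat_lit 78) (nat_lit 304) (nat_lit 0) (XT.lf (nat_lit 0) (nat_lit 51668317182) (nat_lit 152) (nat_lit 26162998088) (nat_lit 228) (nat_lit 1455812154) (nat_lit 66) (nat_lit 5) (nat_lit 68) (nat_lit 5) (nat_lit 69) (nat_lit 5) (nat_lit 379) (nat_lit 333) (nat_lit 188)) (XT.lf (nat_lit 0) (nat_lit 25803611929) (nat_lit 304) (nat_lit 43371178095) (nat_lit 76) (nat_lit 12878313485) (nat_lit 62) (nat_lit 5) (nat_lit 66) (nat_lit 5) (nat_lit 63) (nat_lit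 5) (nat_lit 380) (nat_lit 333) (nat_lit 187))))))) (XT.nd (nat_lit 43524) (nat_lit 0) (nat_lit 10868) (XT.nd (nat_lit 468) (nat_lit 152) (nat_lit 0) (XT.nd (nat_lit 234) (nat_lit 532) (nat_lit 0) (XT.nd (nat_lit 78) (nat_lit 228) (nat_lit 0) (XT.lf (nat_lit 0) (nat_lit 24109479952) (nat_lit 152) (nat_lit 31066464368) (nat_lit 228) (nat_lit 29757601099) (nat_lit 60) (nat_lit 5) (nat_lit 62) (nat_lit 5) (nat_lit 63) (nat_lit 5) (nat_lit 381) (nat_lit 333) (nat_lit 186)) (XT.nd (nat_lit 78) (nat_lit 76) (nat_lit 0) (XT.lf (nat_lit 0) (nat_lit 7985970695) (nat_lit 152) (nat_lit 78641479099) (nat_lit 228) (nat_lit 1312243707) (nat_lit 58) (nat_lit 5) (nat_lit 60) (nat_lit 5) (nat_lit 61) (nat_lit 5) (nat_lit 382) (nat_lit 333) (nat_lit 185)) (XT.lf (nat_lit 0) (nat_lit 28941016850) (nat_lit 228) (nat_lit 10169296134) (nat_lit 76) (nat_lit 51949316351) (nat_lit 57) (nat_lit 5) (nat_lit 60) (nat_lit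 5) (nat_lit 58) (nat_lit 5) (nat_lit 383) (nat_lit 333) (nat_lit 184)))) (XT.nd (nat_lit 78) (nat_lit 380) (nat_lit 0) (XT.lf (nat_lit 0) (nat_lit 61324932555) (nat_lit 228) (nat_lit 30004314997) (nat_lit 76) (nat_lit 2986571369) (nat_lit 55) (nat_lit 5) (nat_lit 58) (nat_lit 5) (nat_lit 56) (nat_lit 5) (nat_lit 384) (nat_lit 333) (nat_lit 183)) (XT.nd (nat_lit 78) (nat_lit 228) (nat_lit 0) (XT.lf (nat_lit 0) (nat_lit 45484041532) (nat_lit 152) (nat_lit 50778872362) (nat_lit 228) (nat_lit 1443858644) (nat_lit 53) (nat_lit 5) (nat_lit 55) (nat_lit 5) (nat_lit 56) (nat_lit 5) (nat_lit 385) (nat_lit 333) (nat_lit 182)) (XT.lf (nat_lit 0) (nat_lit 24277134280) (nat_lit 152) (nat_lit 7327717858) (nat_lit 228) (nat_lit 69637010334) (nat_lit 50) (nat_lit 5) (nat_lit 52) (nat_lit 5) (nat_lit 53) (nat_lit 5) (nat_lit 386) (nat_lit 333) (nat_lit 181))))) (XT.nd (nat_lit 42822) (nat_lit 0) (nat_lit 14592)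 (XT.nd (nat_lit 78) (nat_lit 0) (nat_lit 0) (XT.lf (nat_lit 0) (nat_lit 370175323) (nat_lit 152) (nat_lit 66818139119) (nat_lit 228) (nat_lit 37737598845) (nat_lit 48) (nat_lit 5) (nat_lit 50) (nat_lit 5) (nat_lit 51) (nat_lit 5) (nat_lit 387) (nat_lit 333) (nat_lit 180)) (XT.nd (nat_lit 42666) (nat_lit 0) (nat_lit 14592) (XT.lf (nat_lit 0) (nat_lit 83100121265) (nat_lit 152) (nat_lit 22313738992) (nat_lit 228) (nat_lit 3354419615) (nat_lit 48) (nat_lit 5) (nat_lit 50) (nat_lit 5) (nat_lit 51) (nat_lit 5) (nat_lit 388) (nat_lit 333) (nat_lit 179)) (XT.lf (nat_lit 0) (nat_lit 4754796441) (nat_lit 0) (nat_lit 4754796441) (nat_lit 1140) (nat_lit 1244560310) (nat_lit 240) (nat_lit 5) (nat_lit 240) (nat_lit 3) (nat_lit 255) (nat_lit 3) (nat_lit 334) (nat_lit 334) (nat_lit 232)))) (XT.nd (nat_lit 78) (nat_lit 0) (nat_lit 76) (XT.lf (nat_lit 76) (nat_lit 4998753272) (nat_lit 0) (nat_lit 14841478578)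 (nat_lit 1216) (nat_lit 2195265767) (nat_lit 241) (nat_lit 5) (nat_lit 240) (nat_lit 5) (nat_lit 256) (nat_lit 5) (nat_lit 335) (nat_lit 334) (nat_lit 231)) (XT.nd (nat_lit 78) (nat_lit 0) (nat_lit 0) (XT.lf (nat_lit 76) (nat_lit 395731619) (nat_lit 0) (nat_lit 20534432968) (nat_lit 1216) (nat_lit 1652058361) (nat_lit 242) (nat_lit 5) (nat_lit 241) (nat_lit 5) (nat_lit 257) (nat_lit 5) (nat_lit 336) (nat_lit 334) (nat_lit 230)) (XT.lf (nat_lit 76) (nat_lit 18894850157) (nat_lit 0) (nat_lit 3489560740) (nat_lit 1216) (nat_lit 762588249) (nat_lit 242) (nat_lit 5) (nat_lit 241) (nat_lit 5) (nat_lit 257) (nat_lit 5) (nat_lit 337) (nat_lit 334) (nat_lit 229)))))) (XT.nd (nat_lit 468) (nat_lit 2660) (nat_lit 0) (XT.nd (nat_lit 234) (nat_lit 0) (nat_lit 152) (XT.nd (nat_lit 78) (nat_lit 0) (nat_lit 76) (XT.lf (nat_lit 0) (nat_lit 437452557) (nat_lit 1216) (nat_lit 9016948670) (nat_lit 1292) (nat_lit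 14277488707) (nat_lit 226) (nat_lit 5) (nat_lit 242) (nat_lit 5) (nat_lit 243) (nat_lit 5) (nat_lit 338) (nat_lit 334) (nat_lit 228)) (XT.nd (nat_lit 78) (nat_lit 0) (nat_lit 76) (XT.lf (nat_lit 0) (nat_lit 1933164504) (nat_lit 1216) (nat_lit 13895874451) (nat_lit 1292) (nat_lit 8509224601) (nat_lit 227) (nat_lit 5) (nat_lit 243) (nat_lit 5) (nat_lit 244) (nat_lit 5) (nat_lit 339) (nat_lit 334) (nat_lit 227)) (XT.lf (nat_lit 0) (nat_lit 3762067549) (nat_lit 1216) (nat_lit 18885381295) (nat_lit 1292) (nat_lit 2319762489) (nat_lit 228) (nat_lit 5) (nat_lit 244) (nat_lit 5) (nat_lit 245) (nat_lit 5) (nat_lit 340) (nat_lit 334) (nat_lit 226)))) (XT.nd (nat_lit 78) (nat_lit 0) (nat_lit 76) (XT.lf (nat_lit 76) (nat_lit 1586631868) (nat_lit 0) (nat_lit 4403607520) (nat_lit 1292) (nat_lit 19628139679) (nat_lit 229) (nat_lit 5) (nat_lit 228) (nat_lit 5) (nat_lit 245) (nat_lit 5) (nat_lit 341) (nat_lit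 334) (nat_lit 225)) (XT.nd (nat_lit 78) (nat_lit 0) (nat_lit 76) (XT.lf (nat_lit 0) (nat_lit 8656807237) (nat_lit 1216) (nat_lit 2971868217) (nat_lit 1292) (nat_lit 14663627041) (nat_lit 229) (nat_lit 5) (nat_lit 245) (nat_lit 5) (nat_lit 246) (nat_lit 5) (nat_lit 342) (nat_lit 334) (nat_lit 224)) (XT.lf (nat_lit 0) (nat_lit 11752552197) (nat_lit 1216) (nat_lit 7600074117) (nat_lit 1292) (nat_lit 7638426919) (nat_lit 230) (nat_lit 5) (nat_lit 246) (nat_lit 5) (nat_lit 247) (nat_lit 5) (nat_lit 343) (nat_lit 334) (nat_lit 223))))) (XT.nd (nat_lit 234) (nat_lit 1216) (nat_lit 0) (XT.nd (nat_lit 78) (nat_lit 1824) (nat_lit 0) (XT.lf (nat_lit 0) (nat_lit 15289975100) (nat_lit 1216) (nat_lit 12332738101) (nat_lit 76) (nat_lit 93427871) (nat_lit 231) (nat_lit 5) (nat_lit 247) (nat_lit 5) (nat_lit 232) (nat_lit 5) (nat_lit 344) (nat_lit 334) (nat_lit 222)) (XT.nd (nat_lit 78) (nat_lit 608) (nat_lit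 0) (XT.lf (nat_lit 0) (nat_lit 11213951490) (nat_lit 1216) (nat_lit 8162699737) (nat_lit 1292) (nat_lit 9089666601) (nat_lit 215) (nat_lit 5) (nat_lit 231) (nat_lit 5) (nat_lit 232) (nat_lit 5) (nat_lit 345) (nat_lit 334) (nat_lit 221)) (XT.lf (nat_lit 0) (nat_lit 6953419969) (nat_lit 608) (nat_lit 17017884177) (nat_lit 684) (nat_lit 5273595687) (nat_lit 207) (nat_lit 5) (nat_lit 215) (nat_lit 5) (nat_lit 216) (nat_lit 5) (nat_lit 346) (nat_lit 334) (nat_lit 220)))) (XT.nd (nat_lit 78) (nat_lit 684) (nat_lit 0) (XT.lf (nat_lit 0) (nat_lit 2598956114) (nat_lit 532) (nat_lit 26506428050) (nat_lit 608) (nat_lit 947741371) (nat_lit 200) (nat_lit 5) (nat_lit 207) (nat_lit 5) (nat_lit 208) (nat_lit 5) (nat_lit 347) (nat_lit 334) (nat_lit 219)) (XT.nd (nat_lit 78) (nat_lit 608) (nat_lit 0) (XT.lf (nat_lit 0) (nat_lit 3919045027) (nat_lit 608) (nat_lit 1912254496) (nat_lit 76) (nat_lit 25057588096)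 (nat_lit 199) (nat_lit 5) (nat_lit 207) (nat_lit 5) (nat_lit 200) (nat_lit 5) (nat_lit 348) (nat_lit 334) (nat_lit 218)) (XT.lf (nat_lit 0) (nat_lit 9400586389) (nat_lit 684) (nat_lit 6529811683) (nat_lit 76) (nat_lit 15824032518) (nat_lit 191) (nat_lit 5) (nat_lit 200) (nat_lit 5) (nat_lit 192) (nat_lit 5) (nat_lit 349) (nat_lit 334) (nat_lit 217))))))))
noncomputable def xc103 : XT := (XT.nd (nat_lit 1872) (nat_lit 2736) (nat_lit 0) (XT.nd (nat_lit 936) (nat_lit 3116) (nat_lit 0) (XT.nd (nat_lit 468) (nat_lit 2508) (nat_lit 0) (XT.nd (nat_lit 234) (nat_lit 988) (nat_lit 0) (XT.nd (nat_lit 78) (nat_lit 988) (nat_lit 0) (XT.lf (nat_lit 0) (nat_lit 15490918700) (nat_lit 608) (nat_lit 11265798458) (nat_lit 76) (nat_lit 5896496689) (nat_lit 184) (nat_lit 5) (nat_lit 192) (nat_lit 5) (nat_lit 185) (nat_lit 5) (nat_lit 350) (nat_lit 334) (nat_lit 216)) (XT.nd (nat_lit 78) (nat_lit 456) (nat_lit 0)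 (XT.lf (nat_lit 0) (nat_lit 17412224842) (nat_lit 532) (nat_lit 4861903126) (nat_lit 608) (nat_lit 11311161826) (nat_lit 177) (nat_lit 5) (nat_lit 184) (nat_lit 5) (nat_lit 185) (nat_lit 5) (nat_lit 351) (nat_lit 334) (nat_lit 215)) (XT.lf (nat_lit 0) (nat_lit 13274592140) (nat_lit 456) (nat_lit 16533478104) (nat_lit 532) (nat_lit 4743556248) (nat_lit 171) (nat_lit 5) (nat_lit 177) (nat_lit 5) (nat_lit 178) (nat_lit 5) (nat_lit 352) (nat_lit 334) (nat_lit 214)))) (XT.nd (nat_lit 78) (nat_lit 456) (nat_lit 0) (XT.lf (nat_lit 0) (nat_lit 2471640729) (nat_lit 532) (nat_lit 26551944880) (nat_lit 76) (nat_lit 6531241138) (nat_lit 164) (nat_lit 5) (nat_lit 171) (nat_lit 5) (nat_lit 165) (nat_lit 5) (nat_lit 353) (nat_lit 334) (nat_lit 213)) (XT.nd (nat_lit 78) (nat_lit 0) (nat_lit 0) (XT.lf (nat_lit 0) (nat_lit 4502738022) (nat_lit 456) (nat_lit 5872081025) (nat_lit 532) (nat_lit 26219202863) (nat_lit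 158) (nat_lit 5) (nat_lit 164) (nat_lit 5) (nat_lit 165) (nat_lit 5) (nat_lit 354) (nat_lit 334) (nat_lit 212)) (XT.lf (nat_lit 0) (nat_lit 19119721579) (nat_lit 532) (nat_lit 199871203) (nat_lit 76) (nat_lit 18352190554) (nat_lit 158) (nat_lit 5) (nat_lit 165) (nat_lit 5) (nat_lit 159) (nat_lit 5) (nat_lit 355) (nat_lit 334) (nat_lit 211))))) (XT.nd (nat_lit 234) (nat_lit 1140) (nat_lit 0) (XT.nd (nat_lit 78) (nat_lit 912) (nat_lit 0) (XT.lf (nat_lit 0) (nat_lit 28730422957) (nat_lit 532) (nat_lit 4961685344) (nat_lit 76) (nat_lit 5098471219) (nat_lit 152) (nat_lit 5) (nat_lit 159) (nat_lit 5) (nat_lit 153) (nat_lit 5) (nat_lit 356) (nat_lit 334) (nat_lit 210)) (XT.nd (nat_lit 78) (nat_lit 532) (nat_lit 0) (XT.lf (nat_lit 0) (nat_lit 29980478887) (nat_lit 380) (nat_lit 9320288884) (nat_lit 456) (nat_lit 650177634) (nat_lit 147) (nat_lit 5) (nat_lit 152) (nat_lit 5) (nat_lit 153) (nat_lit 5)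 (nat_lit 357) (nat_lit 334) (nat_lit 209)) (XT.lf (nat_lit 0) (nat_lit 9506106562) (nat_lit 532) (nat_lit 15301423443) (nat_lit 76) (nat_lit 16345462985) (nat_lit 140) (nat_lit 5) (nat_lit 147) (nat_lit 5) (nat_lit 141) (nat_lit 5) (nat_lit 358) (nat_lit 334) (nat_lit 208)))) (XT.nd (nat_lit 78) (nat_lit 760) (nat_lit 0) (XT.lf (nat_lit 0) (nat_lit 20565959240) (nat_lit 456) (nat_lit 20839837001) (nat_lit 76) (nat_lit 996880329) (nat_lit 135) (nat_lit 5) (nat_lit 141) (nat_lit 5) (nat_lit 136) (nat_lit 5) (nat_lit 359) (nat_lit 334) (nat_lit 207)) (XT.nd (nat_lit 78) (nat_lit 380) (nat_lit 0) (XT.lf (nat_lit 0) (nat_lit 16951439245) (nat_lit 380) (nat_lit 15794172227) (nat_lit 456) (nat_lit 10952231286) (nat_lit 130) (nat_lit 5) (nat_lit 135) (nat_lit 5) (nat_lit 136) (nat_lit 5) (nat_lit 360) (nat_lit 334) (nat_lit 206)) (XT.lf (nat_lit 0) (nat_lit 906062761) (nat_lit 380) (nat_lit 32916426361)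 (nat_lit 76) (nat_lit 11221976717) (nat_lit 125) (nat_lit 5) (nat_lit 130) (nat_lit 5) (nat_lit 126) (nat_lit 5) (nat_lit 361) (nat_lit 334) (nat_lit 205)))))) (XT.nd (nat_lit 468) (nat_lit 1444) (nat_lit 0) (XT.nd (nat_lit 234) (nat_lit 988) (nat_lit 0) (XT.nd (nat_lit 78) (nat_lit 304) (nat_lit 0) (XT.lf (nat_lit 0) (nat_lit 6909935299) (nat_lit 380) (nat_lit 6721540734) (nat_lit 456) (nat_lit 32808671820) (nat_lit 120) (nat_lit 5) (nat_lit 125) (nat_lit 5) (nat_lit 126) (nat_lit 5) (nat_lit 362) (nat_lit 334) (nat_lit 204)) (XT.nd (nat_lit 78) (nat_lit 0) (nat_lit 0) (XT.lf (nat_lit 0) (nat_lit 1326512848) (nat_lit 304) (nat_lit 26225404577) (nat_lit 380) (nat_lit 20336936028) (nat_lit 116) (nat_lit 5) (nat_lit 120) (nat_lit 5) (nat_lit 121) (nat_lit 5) (nat_lit 363) (nat_lit 334) (nat_lit 203)) (XT.lf (nat_lit 0) (nat_lit 42660023761) (nat_lit 380) (nat_lit 4442364554) (nat_lit 76) (nat_lit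 2292858836) (nat_lit 116) (nat_lit 5) (nat_lit 121) (nat_lit 5) (nat_lit 117) (nat_lit 5) (nat_lit 364) (nat_lit 334) (nat_lit 202)))) (XT.nd (nat_lit 78) (nat_lit 608) (nat_lit 0) (XT.lf (nat_lit 0) (nat_lit 8053070840) (nat_lit 380) (nat_lit 10737919920) (nat_lit 76) (nat_lit 32164182749) (nat_lit 111) (nat_lit 5) (nat_lit 116) (nat_lit 5) (nat_lit 112) (nat_lit 5) (nat_lit 365) (nat_lit 334) (nat_lit 201)) (XT.nd (nat_lit 78) (nat_lit 304) (nat_lit 0) (XT.lf (nat_lit 0) (nat_lit 23932527875) (nat_lit 380) (nat_lit 17465989111) (nat_lit 76) (nat_lit 11177849206) (nat_lit 107) (nat_lit 5) (nat_lit 112) (nat_lit 5) (nat_lit 108) (nat_lit 5) (nat_lit 366) (nat_lit 334) (nat_lit 200)) (XT.lf (nat_lit 0) (nat_lit 29580099609) (nat_lit 304) (nat_lit 11607023679) (nat_lit 380) (nat_lit 13074062019) (nat_lit 103) (nat_lit 5) (nat_lit 107) (nat_lit 5) (nat_lit 108) (nat_lit 5) (nat_lit 367) (nat_lit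 334) (nat_lit 199))))) (XT.nd (nat_lit 234) (nat_lit 608) (nat_lit 0) (XT.nd (nat_lit 78) (nat_lit 532) (nat_lit 0) (XT.lf (nat_lit 0) (nat_lit 3809218772) (nat_lit 304) (nat_lit 32468372735) (nat_lit 76) (nat_lit 19733744078) (nat_lit 99) (nat_lit 5) (nat_lit 103) (nat_lit 5) (nat_lit 100) (nat_lit 5) (nat_lit 368) (nat_lit 334) (nat_lit 198)) (XT.nd (nat_lit 78) (nat_lit 228) (nat_lit 0) (XT.lf (nat_lit 0) (nat_lit 16924881571) (nat_lit 304) (nat_lit 4876099420) (nat_lit 380) (nat_lit 36028089286) (nat_lit 95) (nat_lit 5) (nat_lit 99) (nat_lit 5) (nat_lit 100) (nat_lit 5) (nat_lit 369) (nat_lit 334) (nat_lit 197)) (XT.lf (nat_lit 0) (nat_lit 9647216637) (nat_lit 228) (nat_lit 31741350325) (nat_lit 304) (nat_lit 18328239152) (nat_lit 92) (nat_lit 5) (nat_lit 95) (nat_lit 5) (nat_lit 96) (nat_lit 5) (nat_lit 370) (nat_lit 334) (nat_lit 196)))) (XT.nd (nat_lit 78) (nat_lit 228) (nat_lit 0) (XT.lf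 (nat_lit 0) (nat_lit 750857968) (nat_lit 380) (nat_lit 59825946688) (nat_lit 76) (nat_lit 1107073605) (nat_lit 87) (nat_lit 5) (nat_lit 92) (nat_lit 5) (nat_lit 88) (nat_lit 5) (nat_lit 371) (nat_lit 334) (nat_lit 195)) (XT.nd (nat_lit 78) (nat_lit 228) (nat_lit 0) (XT.lf (nat_lit 0) (nat_lit 21245372972) (nat_lit 380) (nat_lit 6822277153) (nat_lit 76) (nat_lit 35650995588) (nat_lit 87) (nat_lit 5) (nat_lit 92) (nat_lit 5) (nat_lit 88) (nat_lit 5) (nat_lit 372) (nat_lit 334) (nat_lit 194)) (XT.lf (nat_lit 0) (nat_lit 43302619094) (nat_lit 304) (nat_lit 16106451442) (nat_lit 76) (nat_lit 6429942084) (nat_lit 84) (nat_lit 5) (nat_lit 88) (nat_lit 5) (nat_lit 85) (nat_lit 5) (nat_lit 373) (nat_lit 334) (nat_lit 193))))))) (XT.nd (nat_lit 936) (nat_lit 532) (nat_lit 0) (XT.nd (nat_lit 468) (nat_lit 988) (nat_lit 0) (XT.nd (nat_lit 234) (nat_lit 456) (nat_lit 0) (XT.nd (nat_lit 78) (nat_lit 532)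 (nat_lit 0) (XT.lf (nat_lit 0) (nat_lit 41718774648) (nat_lit 228) (nat_lit 25495583293) (nat_lit 304) (nat_lit 828492200) (nat_lit 81) (nat_lit 5) (nat_lit 84) (nat_lit 5) (nat_lit 85) (nat_lit 5) (nat_lit 374) (nat_lit 334) (nat_lit 192)) (XT.nd (nat_lit 78) (nat_lit 228) (nat_lit 0) (XT.lf (nat_lit 0) (nat_lit 22119876448) (nat_lit 304) (nat_lit 37597846182) (nat_lit 76) (nat_lit 10615313287) (nat_lit 77) (nat_lit 5) (nat_lit 81) (nat_lit 5) (nat_lit 78) (nat_lit 5) (nat_lit 375) (nat_lit 334) (nat_lit 191)) (XT.lf (nat_lit 0) (nat_lit 22737663114) (nat_lit 228) (nat_lit 24207156996) (nat_lit 304) (nat_lit 25770277093) (nat_lit 74) (nat_lit 5) (nat_lit 77) (nat_lit 5) (nat_lit 78) (nat_lit 5) (nat_lit 376) (nat_lit 334) (nat_lit 190)))) (XT.nd (nat_lit 78) (nat_lit 304) (nat_lit 0) (XT.lf (nat_lit 0) (nat_lit 11765528877) (nat_lit 152) (nat_lit 61871826858) (nat_lit 228) (nat_lit 1560116468)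 (nat_lit 72) (nat_lit 5) (nat_lit 74) (nat_lit 5) (nat_lit 75) (nat_lit 5) (nat_lit 377) (nat_lit 334) (nat_lit 189)) (XT.nd (nat_lit 78) (nat_lit 228) (nat_lit 0) (XT.lf (nat_lit 0) (nat_lit 24155573888) (nat_lit 228) (nat_lit 632689823) (nat_lit 76) (nat_lit 52986003481) (nat_lit 71) (nat_lit 5) (nat_lit 74) (nat_lit 5) (nat_lit 72) (nat_lit 5) (nat_lit 378) (nat_lit 334) (nat_lit 188)) (XT.lf (nat_lit 0) (nat_lit 51904512073) (nat_lit 304) (nat_lit 14017855040) (nat_lit 76) (nat_lit 14533680423) (nat_lit 68) (nat_lit 5) (nat_lit 72) (nat_lit 5) (nat_lit 69) (nat_lit 5) (nat_lit 379) (nat_lit 334) (nat_lit 187))))) (XT.nd (nat_lit 234) (nat_lit 380) (nat_lit 0) (XT.nd (nat_lit 78) (nat_lit 456) (nat_lit 0) (XT.lf (nat_lit 0) (nat_lit 54410543243) (nat_lit 152) (nat_lit 27407120649) (nat_lit 228) (nat_lit 1430950836) (nat_lit 66) (nat_lit 5) (nat_lit 68) (nat_lit 5) (nat_lit 69) (nat_lit 5)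 (nat_lit 380) (nat_lit 334) (nat_lit 186)) (XT.nd (nat_lit 78) (nat_lit 152) (nat_lit 0) (XT.lf (nat_lit 0) (nat_lit 27187090278) (nat_lit 304) (nat_lit 45381409598) (nat_lit 76) (nat_lit 13584436221) (nat_lit 62) (nat_lit 5) (nat_lit 66) (nat_lit 5) (nat_lit 63) (nat_lit 5) (nat_lit 381) (nat_lit 334) (nat_lit 185)) (XT.lf (nat_lit 0) (nat_lit 25468742928) (nat_lit 152) (nat_lit 32556331925) (nat_lit 228) (nat_lit 31152415310) (nat_lit 60) (nat_lit 5) (nat_lit 62) (nat_lit 5) (nat_lit 63) (nat_lit 5) (nat_lit 382) (nat_lit 334) (nat_lit 184)))) (XT.nd (nat_lit 78) (nat_lit 228) (nat_lit 0) (XT.lf (nat_lit 0) (nat_lit 8536711588) (nat_lit 152) (nat_lit 82510179110) (nat_lit 228) (nat_lit 1287123970) (nat_lit 58) (nat_lit 5) (nat_lit 60) (nat_lit 5) (nat_lit 61) (nat_lit 5) (nat_lit 383) (nat_lit 334) (nat_lit 183)) (XT.nd (nat_lit 78) (nat_lit 152) (nat_lit 0) (XT.lf (nat_lit 0) (nat_lit 30472792850)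 (nat_lit 228) (nat_lit 10531824087) (nat_lit 76) (nat_lit 54605432271) (nat_lit 57) (nat_lit 5) (nat_lit 60) (nat_lit 5) (nat_lit 58) (nat_lit 5) (nat_lit 384) (nat_lit 334) (nat_lit 182)) (XT.lf (nat_lit 0) (nat_lit 64473806308) (nat_lit 228) (nat_lit 31360870530) (nat_lit 76) (nat_lit 3194435323) (nat_lit 55) (nat_lit 5) (nat_lit 58) (nat_lit 5) (nat_lit 56) (nat_lit 5) (nat_lit 385) (nat_lit 334) (nat_lit 181)))))) (XT.nd (nat_lit 43134) (nat_lit 0) (nat_lit 13528) (XT.nd (nat_lit 42900) (nat_lit 0) (nat_lit 14592) (XT.nd (nat_lit 78) (nat_lit 380) (nat_lit 0) (XT.lf (nat_lit 0) (nat_lit 47897785835) (nat_lit 152) (nat_lit 53258307619) (nat_lit 228) (nat_lit 1433598700) (nat_lit 53) (nat_lit 5) (nat_lit 55) (nat_lit 5) (nat_lit 56) (nat_lit 5) (nat_lit 386) (nat_lit 334) (nat_lit 180)) (XT.nd (nat_lit 78) (nat_lit 152) (nat_lit 0) (XT.lf (nat_lit 0) (nat_lit 25628113072) (nat_lit 152) (nat_lit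 7635293987) (nat_lit 228) (nat_lit 73038182530) (nat_lit 50) (nat_lit 5) (nat_lit 52) (nat_lit 5) (nat_lit 53) (nat_lit 5) (nat_lit 387) (nat_lit 334) (nat_lit 179)) (XT.lf (nat_lit 0) (nat_lit 523624666) (nat_lit 152) (nat_lit 70100524182) (nat_lit 228) (nat_lit 39545751698) (nat_lit 48) (nat_lit 5) (nat_lit 50) (nat_lit 5) (nat_lit 51) (nat_lit 5) (nat_lit 388) (nat_lit 334) (nat_lit 178)))) (XT.nd (nat_lit 78) (nat_lit 0) (nat_lit 0) (XT.lf (nat_lit 0) (nat_lit 5104489072) (nat_lit 0) (nat_lit 5104489072) (nat_lit 1140) (nat_lit 1076018437) (nat_lit 240) (nat_lit 5) (nat_lit 240) (nat_lit 3) (nat_lit 255) (nat_lit 3) (nat_lit 335) (nat_lit 335) (nat_lit 230)) (XT.nd (nat_lit 78) (nat_lit 0) (nat_lit 76) (XT.lf (nat_lit 76) (nat_lit 5481603979) (nat_lit 0) (nat_lit 15777315434) (nat_lit 1216) (nat_lit 1865272615) (nat_lit 241) (nat_lit 5) (nat_lit 240) (nat_lit 5) (nat_lit 256) (nat_lit 5)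 (nat_lit 336) (nat_lit 335) (nat_lit 229)) (XT.lf (nat_lit 76) (nat_lit 656269536) (nat_lit 0) (nat_lit 21727301722) (nat_lit 1216) (nat_lit 1315289036) (nat_lit 242) (nat_lit 5) (nat_lit 241) (nat_lit 5) (nat_lit 257) (nat_lit 5) (nat_lit 337) (nat_lit 335) (nat_lit 228))))) (XT.nd (nat_lit 234) (nat_lit 0) (nat_lit 152) (XT.nd (nat_lit 78) (nat_lit 1140) (nat_lit 0) (XT.lf (nat_lit 76) (nat_lit 20068879652) (nat_lit 0) (nat_lit 3822274116) (nat_lit 1216) (nat_lit 401315525) (nat_lit 242) (nat_lit 5) (nat_lit 241) (nat_lit 5) (nat_lit 257) (nat_lit 5) (nat_lit 338) (nat_lit 335) (nat_lit 227)) (XT.nd (nat_lit 78) (nat_lit 0) (nat_lit 76) (XT.lf (nat_lit 0) (nat_lit 833110992) (nat_lit 1216) (nat_lit 9224390789) (nat_lit 1292) (nat_lit 14849534086) (nat_lit 226) (nat_lit 5) (nat_lit 242) (nat_lit 5) (nat_lit 243) (nat_lit 5) (nat_lit 339) (nat_lit 335) (nat_lit 226)) (XT.lf (nat_lit 0) (nat_lit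 2386910790) (nat_lit 1216) (nat_lit 14342097335) (nat_lit 1292) (nat_lit 8815232167) (nat_lit 227) (nat_lit 5) (nat_lit 243) (nat_lit 5) (nat_lit 244) (nat_lit 5) (nat_lit 340) (nat_lit 335) (nat_lit 225)))) (XT.nd (nat_lit 78) (nat_lit 0) (nat_lit 0) (XT.lf (nat_lit 0) (nat_lit 4291605235) (nat_lit 1216) (nat_lit 19576748987) (nat_lit 1292) (nat_lit 2336761506) (nat_lit 228) (nat_lit 5) (nat_lit 244) (nat_lit 5) (nat_lit 245) (nat_lit 5) (nat_lit 341) (nat_lit 335) (nat_lit 224)) (XT.nd (nat_lit 78) (nat_lit 0) (nat_lit 76) (XT.lf (nat_lit 76) (nat_lit 1911615467) (nat_lit 0) (nat_lit 4705672780) (nat_lit 1292) (nat_lit 20271980674) (nat_lit 229) (nat_lit 5) (nat_lit 228) (nat_lit 5) (nat_lit 245) (nat_lit 5) (nat_lit 342) (nat_lit 335) (nat_lit 223)) (XT.lf (nat_lit 0) (nat_lit 9400837848) (nat_lit 1216) (nat_lit 2876206168) (nat_lit 1292) (nat_lit 15320344570) (nat_lit 229) (nat_lit 5) (nat_lit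 245) (nat_lit 5) (nat_lit 246) (nat_lit 5) (nat_lit 343) (nat_lit 335) (nat_lit 222))))))))
noncomputable def xc104 : XT := (XT.nd (nat_lit 1794) (nat_lit 4636) (nat_lit 0) (XT.nd (nat_lit 858) (nat_lit 4028) (nat_lit 0) (XT.nd (nat_lit 390) (nat_lit 2736) (nat_lit 0) (XT.nd (nat_lit 156) (nat_lit 2280) (nat_lit 0) (XT.nd (nat_lit 78) (nat_lit 0) (nat_lit 76) (XT.lf (nat_lit 0) (nat_lit 12638241904) (nat_lit 1216) (nat_lit 7733090008) (nat_lit 1292) (nat_lit 7960147998) (nat_lit 230) (nat_lit 5) (nat_lit 246) (nat_lit 5) (nat_lit 247) (nat_lit 5) (nat_lit 344) (nat_lit 335) (nat_lit 221)) (XT.lf (nat_lit 0) (nat_lit 16340203916) (nat_lit 1216) (nat_lit 12700261705) (nat_lit 76) (nat_lit 52735249) (nat_lit 231) (nat_lit 5) (nat_lit 247) (nat_lit 5) (nat_lit 232) (nat_lit 5) (nat_lit 345) (nat_lit 335) (nat_lit 220))) (XT.nd (nat_lit 78) (nat_lit 1140) (nat_lit 0) (XT.lf (nat_lit 0) (nat_lit 12016621582)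 (nat_lit 1216) (nat_lit 8603312062) (nat_lit 1292) (nat_lit 9261299577) (nat_lit 215) (nat_lit 5) (nat_lit 231) (nat_lit 5) (nat_lit 232) (nat_lit 5) (nat_lit 346) (nat_lit 335) (nat_lit 219)) (XT.nd (nat_lit 78) (nat_lit 532) (nat_lit 0) (XT.lf (nat_lit 0) (nat_lit 7544590334) (nat_lit 608) (nat_lit 17888703173) (nat_lit 684) (nat_lit 5265789543) (nat_lit 207) (nat_lit 5) (nat_lit 215) (nat_lit 5) (nat_lit 216) (nat_lit 5) (nat_lit 347) (nat_lit 335) (nat_lit 218)) (XT.lf (nat_lit 0) (nat_lit 2973440150) (nat_lit 532) (nat_lit 27840261591) (nat_lit 608) (nat_lit 734337143) (nat_lit 200) (nat_lit 5) (nat_lit 207) (nat_lit 5) (nat_lit 208) (nat_lit 5) (nat_lit 348) (nat_lit 335) (nat_lit 217))))) (XT.nd (nat_lit 234) (nat_lit 1520) (nat_lit 0) (XT.nd (nat_lit 78) (nat_lit 1140) (nat_lit 0) (XT.lf (nat_lit 0) (nat_lit 4358523297) (nat_lit 608) (nat_lit 1769988866) (nat_lit 76) (nat_lit 26297373996)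 (nat_lit 199) (nat_lit 5) (nat_lit 207) (nat_lit 5) (nat_lit 200) (nat_lit 5) (nat_lit 349) (nat_lit 335) (nat_lit 216)) (XT.nd (nat_lit 78) (nat_lit 532) (nat_lit 0) (XT.lf (nat_lit 0) (nat_lit 10104736624) (nat_lit 684) (nat_lit 6618055024) (nat_lit 76) (nat_lit 16612203452) (nat_lit 191) (nat_lit 5) (nat_lit 200) (nat_lit 5) (nat_lit 192) (nat_lit 5) (nat_lit 350) (nat_lit 335) (nat_lit 215)) (XT.lf (nat_lit 0) (nat_lit 16490721267) (nat_lit 608) (nat_lit 11590847304) (nat_lit 76) (nat_lit 6197421230) (nat_lit 184) (nat_lit 5) (nat_lit 192) (nat_lit 5) (nat_lit 185) (nat_lit 5) (nat_lit 351) (nat_lit 335) (nat_lit 214)))) (XT.nd (nat_lit 78) (nat_lit 988) (nat_lit 0) (XT.lf (nat_lit 0) (nat_lit 18514248029) (nat_lit 532) (nat_lit 5090340936) (nat_lit 608) (nat_lit 11653341690) (nat_lit 177) (nat_lit 5) (nat_lit 184) (nat_lit 5) (nat_lit 185) (nat_lit 5) (nat_lit 352) (nat_lit 335) (nat_lit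 213)) (XT.nd (nat_lit 78) (nat_lit 532) (nat_lit 0) (XT.lf (nat_lit 0) (nat_lit 14169397222) (nat_lit 456) (nat_lit 17337864911) (nat_lit 532) (nat_lit 4765566804) (nat_lit 171) (nat_lit 5) (nat_lit 177) (nat_lit 5) (nat_lit 178) (nat_lit 5) (nat_lit 353) (nat_lit 335) (nat_lit 212)) (XT.lf (nat_lit 0) (nat_lit 2798588326) (nat_lit 532) (nat_lit 27644948528) (nat_lit 76) (nat_lit 6882823718) (nat_lit 164) (nat_lit 5) (nat_lit 171) (nat_lit 5) (nat_lit 165) (nat_lit 5) (nat_lit 354) (nat_lit 335) (nat_lit 211)))))) (XT.nd (nat_lit 468) (nat_lit 1824) (nat_lit 0) (XT.nd (nat_lit 234) (nat_lit 1292) (nat_lit 0) (XT.nd (nat_lit 78) (nat_lit 456) (nat_lit 0) (XT.lf (nat_lit 0) (nat_lit 4955743940) (nat_lit 456) (nat_lit 6133687961) (nat_lit 532) (nat_lit 27328313475) (nat_lit 158) (nat_lit 5) (nat_lit 164) (nat_lit 5) (nat_lit 165) (nat_lit 5) (nat_lit 355) (nat_lit 335) (nat_lit 210)) (XT.nd (nat_lit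 78) (nat_lit 0) (nat_lit 0) (XT.lf (nat_lit 0) (nat_lit 12803235) (nat_lit 456) (nat_lit 20249865093) (nat_lit 532) (nat_lit 19286998714) (nat_lit 152) (nat_lit 5) (nat_lit 158) (nat_lit 5) (nat_lit 159) (nat_lit 5) (nat_lit 356) (nat_lit 335) (nat_lit 209)) (XT.lf (nat_lit 0) (nat_lit 30347307705) (nat_lit 532) (nat_lit 4988580762) (nat_lit 76) (nat_lit 5388717083) (nat_lit 152) (nat_lit 5) (nat_lit 159) (nat_lit 5) (nat_lit 153) (nat_lit 5) (nat_lit 357) (nat_lit 335) (nat_lit 208)))) (XT.nd (nat_lit 78) (nat_lit 912) (nat_lit 0) (XT.lf (nat_lit 0) (nat_lit 31694351348) (nat_lit 380) (nat_lit 9745294926) (nat_lit 456) (nat_lit 503543544) (nat_lit 147) (nat_lit 5) (nat_lit 152) (nat_lit 5) (nat_lit 153) (nat_lit 5) (nat_lit 358) (nat_lit 335) (nat_lit 207)) (XT.nd (nat_lit 78) (nat_lit 380) (nat_lit 0) (XT.lf (nat_lit 0) (nat_lit 10151146329) (nat_lit 532) (nat_lit 15849577636) (nat_lit 76)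 (nat_lit 17204745592) (nat_lit 140) (nat_lit 5) (nat_lit 147) (nat_lit 5) (nat_lit 141) (nat_lit 5) (nat_lit 359) (nat_lit 335) (nat_lit 206)) (XT.lf (nat_lit 0) (nat_lit 21758386421) (nat_lit 456) (nat_lit 21666594250) (nat_lit 76) (nat_lit 1092828661) (nat_lit 135) (nat_lit 5) (nat_lit 141) (nat_lit 5) (nat_lit 136) (nat_lit 5) (nat_lit 360) (nat_lit 335) (nat_lit 205))))) (XT.nd (nat_lit 234) (nat_lit 684) (nat_lit 0) (XT.nd (nat_lit 78) (nat_lit 760) (nat_lit 0) (XT.lf (nat_lit 0) (nat_lit 18008076151) (nat_lit 380) (nat_lit 16533139096) (nat_lit 456) (nat_lit 11336696438) (nat_lit 130) (nat_lit 5) (nat_lit 135) (nat_lit 5) (nat_lit 136) (nat_lit 5) (nat_lit 361) (nat_lit 335) (nat_lit 204)) (XT.nd (nat_lit 78) (nat_lit 380) (nat_lit 0) (XT.lf (nat_lit 0) (nat_lit 1106192854) (nat_lit 380) (nat_lit 34351815030) (nat_lit 76) (nat_lit 11833968463) (nat_lit 125) (nat_lit 5) (nat_lit 130) (nat_lit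 5) (nat_lit 126) (nat_lit 5) (nat_lit 362) (nat_lit 335) (nat_lit 203)) (XT.lf (nat_lit 0) (nat_lit 7459832703) (nat_lit 380) (nat_lit 7002636198) (nat_lit 456) (nat_lit 34295139034) (nat_lit 120) (nat_lit 5) (nat_lit 125) (nat_lit 5) (nat_lit 126) (nat_lit 5) (nat_lit 363) (nat_lit 335) (nat_lit 202)))) (XT.nd (nat_lit 78) (nat_lit 380) (nat_lit 0) (XT.lf (nat_lit 0) (nat_lit 1595283622) (nat_lit 304) (nat_lit 27478982924) (nat_lit 380) (nat_lit 21204625327) (nat_lit 116) (nat_lit 5) (nat_lit 120) (nat_lit 5) (nat_lit 121) (nat_lit 5) (nat_lit 364) (nat_lit 335) (nat_lit 201)) (XT.nd (nat_lit 78) (nat_lit 380) (nat_lit 0) (XT.lf (nat_lit 0) (nat_lit 44931413348) (nat_lit 380) (nat_lit 4468011531) (nat_lit 76) (nat_lit 2461374260) (nat_lit 116) (nat_lit 5) (nat_lit 121) (nat_lit 5) (nat_lit 117) (nat_lit 5) (nat_lit 365) (nat_lit 335) (nat_lit 200)) (XT.lf (nat_lit 0) (nat_lit 8590735252) (nat_lit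 380) (nat_lit 11081235199) (nat_lit 76) (nat_lit 33826857113) (nat_lit 111) (nat_lit 5) (nat_lit 116) (nat_lit 5) (nat_lit 112) (nat_lit 5) (nat_lit 366) (nat_lit 335) (nat_lit 199))))))) (XT.nd (nat_lit 936) (nat_lit 1672) (nat_lit 0) (XT.nd (nat_lit 468) (nat_lit 1140) (nat_lit 0) (XT.nd (nat_lit 234) (nat_lit 912) (nat_lit 0) (XT.nd (nat_lit 78) (nat_lit 608) (nat_lit 0) (XT.lf (nat_lit 0) (nat_lit 25260097621) (nat_lit 380) (nat_lit 18147847510) (nat_lit 76) (nat_lit 11793259360) (nat_lit 107) (nat_lit 5) (nat_lit 112) (nat_lit 5) (nat_lit 108) (nat_lit 5) (nat_lit 367) (nat_lit 335) (nat_lit 198)) (XT.nd (nat_lit 78) (nat_lit 304) (nat_lit 0) (XT.lf (nat_lit 0) (nat_lit 31245058026) (nat_lit 304) (nat_lit 12127916880) (nat_lit 380) (nat_lit 13597425557) (nat_lit 103) (nat_lit 5) (nat_lit 107) (nat_lit 5) (nat_lit 108) (nat_lit 5) (nat_lit 368) (nat_lit 335) (nat_lit 197)) (XT.lf (nat_lit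 0) (nat_lit 4123724376) (nat_lit 304) (nat_lit 33905475230) (nat_lit 76) (nat_lit 20778935883) (nat_lit 99) (nat_lit 5) (nat_lit 103) (nat_lit 5) (nat_lit 100) (nat_lit 5) (nat_lit 369) (nat_lit 335) (nat_lit 196)))) (XT.nd (nat_lit 78) (nat_lit 608) (nat_lit 0) (XT.lf (nat_lit 0) (nat_lit 17952101077) (nat_lit 304) (nat_lit 5058806387) (nat_lit 380) (nat_lit 37705976638) (nat_lit 95) (nat_lit 5) (nat_lit 99) (nat_lit 5) (nat_lit 100) (nat_lit 5) (nat_lit 370) (nat_lit 335) (nat_lit 195)) (XT.nd (nat_lit 78) (nat_lit 380) (nat_lit 0) (XT.lf (nat_lit 0) (nat_lit 10308330154) (nat_lit 228) (nat_lit 33266111755) (nat_lit 304) (nat_lit 19124669811) (nat_lit 92) (nat_lit 5) (nat_lit 95) (nat_lit 5) (nat_lit 96) (nat_lit 5) (nat_lit 371) (nat_lit 335) (nat_lit 194)) (XT.lf (nat_lit 0) (nat_lit 902728277) (nat_lit 380) (nat_lit 62638450097) (nat_lit 76) (nat_lit 1223425789) (nat_lit 87) (nat_lit 5)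 (nat_lit 92) (nat_lit 5) (nat_lit 88) (nat_lit 5) (nat_lit 372) (nat_lit 335) (nat_lit 193))))) (XT.nd (nat_lit 234) (nat_lit 684) (nat_lit 0) (XT.nd (nat_lit 78) (nat_lit 456) (nat_lit 0) (XT.lf (nat_lit 0) (nat_lit 22416524869) (nat_lit 380) (nat_lit 6993111081) (nat_lit 76) (nat_lit 37491639181) (nat_lit 87) (nat_lit 5) (nat_lit 92) (nat_lit 5) (nat_lit 88) (nat_lit 5) (nat_lit 373) (nat_lit 335) (nat_lit 192)) (XT.nd (nat_lit 78) (nat_lit 228) (nat_lit 0) (XT.lf (nat_lit 0) (nat_lit 45573616116) (nat_lit 304) (nat_lit 16743759658) (nat_lit 76) (nat_lit 6810376855) (nat_lit 84) (nat_lit 5) (nat_lit 88) (nat_lit 5) (nat_lit 85) (nat_lit 5) (nat_lit 374) (nat_lit 335) (nat_lit 191)) (XT.lf (nat_lit 0) (nat_lit 43967911638) (nat_lit 228) (nat_lit 26709557788) (nat_lit 304) (nat_lit 764418426) (nat_lit 81) (nat_lit 5) (nat_lit 84) (nat_lit 5) (nat_lit 85) (nat_lit 5) (nat_lit 375) (nat_lit 335)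 (nat_lit 190)))) (XT.nd (nat_lit 78) (nat_lit 380) (nat_lit 0) (XT.lf (nat_lit 0) (nat_lit 23326509115) (nat_lit 304) (nat_lit 39314736804) (nat_lit 76) (nat_lit 11205392125) (nat_lit 77) (nat_lit 5) (nat_lit 81) (nat_lit 5) (nat_lit 78) (nat_lit 5) (nat_lit 376) (nat_lit 335) (nat_lit 189)) (XT.nd (nat_lit 78) (nat_lit 152) (nat_lit 0) (XT.lf (nat_lit 0) (nat_lit 24032875546) (nat_lit 228) (nat_lit 25356554047) (nat_lit 304) (nat_lit 26958472365) (nat_lit 74) (nat_lit 5) (nat_lit 77) (nat_lit 5) (nat_lit 78) (nat_lit 5) (nat_lit 377) (nat_lit 335) (nat_lit 188)) (XT.lf (nat_lit 0) (nat_lit 12509892466) (nat_lit 152) (nat_lit 64904121432) (nat_lit 228) (nat_lit 1540460537) (nat_lit 72) (nat_lit 5) (nat_lit 74) (nat_lit 5) (nat_lit 75) (nat_lit 5) (nat_lit 378) (nat_lit 335) (nat_lit 187)))))) (XT.nd (nat_lit 468) (nat_lit 608) (nat_lit 0) (XT.nd (nat_lit 234) (nat_lit 608) (nat_lit 0) (XT.nd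 (nat_lit 78) (nat_lit 380) (nat_lit 0) (XT.lf (nat_lit 0) (nat_lit 25454548794) (nat_lit 228) (nat_lit 513829324) (nat_lit 76) (nat_lit 55691840965) (nat_lit 71) (nat_lit 5) (nat_lit 74) (nat_lit 5) (nat_lit 72) (nat_lit 5) (nat_lit 379) (nat_lit 335) (nat_lit 186)) (XT.nd (nat_lit 78) (nat_lit 152) (nat_lit 0) (XT.lf (nat_lit 0) (nat_lit 54588553179) (nat_lit 304) (nat_lit 14570451370) (nat_lit 76) (nat_lit 15317156535) (nat_lit 68) (nat_lit 5) (nat_lit 72) (nat_lit 5) (nat_lit 69) (nat_lit 5) (nat_lit 380) (nat_lit 335) (nat_lit 185)) (XT.lf (nat_lit 0) (nat_lit 57275115940) (nat_lit 152) (nat_lit 28719401993) (nat_lit 228) (nat_lit 1413925202) (nat_lit 66) (nat_lit 5) (nat_lit 68) (nat_lit 5) (nat_lit 69) (nat_lit 5) (nat_lit 381) (nat_lit 335) (nat_lit 184)))) (XT.nd (nat_lit 78) (nat_lit 304) (nat_lit 0) (XT.lf (nat_lit 0) (nat_lit 28631068603) (nat_lit 304) (nat_lit 47506872458) (nat_lit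 76) (nat_lit 14320081671) (nat_lit 62) (nat_lit 5) (nat_lit 66) (nat_lit 5) (nat_lit 63) (nat_lit 5) (nat_lit 382) (nat_lit 335) (nat_lit 183)) (XT.nd (nat_lit 78) (nat_lit 152) (nat_lit 0) (XT.lf (nat_lit 0) (nat_lit 26881671211) (nat_lit 152) (nat_lit 34126592365) (nat_lit 228) (nat_lit 32625622612) (nat_lit 60) (nat_lit 5) (nat_lit 62) (nat_lit 5) (nat_lit 63) (nat_lit 5) (nat_lit 383) (nat_lit 335) (nat_lit 182)) (XT.lf (nat_lit 0) (nat_lit 9100909851) (nat_lit 152) (nat_lit 86578206030) (nat_lit 228) (nat_lit 1269183641) (nat_lit 58) (nat_lit 5) (nat_lit 60) (nat_lit 5) (nat_lit 61) (nat_lit 5) (nat_lit 384) (nat_lit 335) (nat_lit 181))))) (XT.nd (nat_lit 234) (nat_lit 228) (nat_lit 0) (XT.nd (nat_lit 78) (nat_lit 304) (nat_lit 0) (XT.lf (nat_lit 0) (nat_lit 32073280708) (nat_lit 228) (nat_lit 10926046264) (nat_lit 76) (nat_lit 57388901256) (nat_lit 57) (nat_lit 5) (nat_lit 60) (nat_lit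 5) (nat_lit 58) (nat_lit 5) (nat_lit 385) (nat_lit 335) (nat_lit 180)) (XT.nd (nat_lit 78) (nat_lit 152) (nat_lit 0) (XT.lf (nat_lit 0) (nat_lit 67772441861) (nat_lit 228) (nat_lit 32798610005) (nat_lit 76) (nat_lit 3407250408) (nat_lit 55) (nat_lit 5) (nat_lit 58) (nat_lit 5) (nat_lit 56) (nat_lit 5) (nat_lit 386) (nat_lit 335) (nat_lit 179)) (XT.lf (nat_lit 0) (nat_lit 50419244039) (nat_lit 152) (nat_lit 55867247163) (nat_lit 228) (nat_lit 1430491447) (nat_lit 53) (nat_lit 5) (nat_lit 55) (nat_lit 5) (nat_lit 56) (nat_lit 5) (nat_lit 387) (nat_lit 335) (nat_lit 178)))) (XT.nd (nat_lit 42822) (nat_lit 0) (nat_lit 14440) (XT.lf (nat_lit 0) (nat_lit 27033892492) (nat_lit 152) (nat_lit 7963716496) (nat_lit 228) (nat_lit 76616914041) (nat_lit 50) (nat_lit 5) (nat_lit 52) (nat_lit 5) (nat_lit 53) (nat_lit 5) (nat_lit 388) (nat_lit 335) (nat_lit 177)) (XT.nd (nat_lit 78) (nat_lit 0) (nat_lit 0) (XT.lf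 (nat_lit 0) (nat_lit 5461258025) (nat_lit 0) (nat_lit 5461258025) (nat_lit 1140) (nat_lit 920504268) (nat_lit 240) (nat_lit 5) (nat_lit 240) (nat_lit 3) (nat_lit 255) (nat_lit 3) (nat_lit 336) (nat_lit 336) (nat_lit 228)) (XT.lf (nat_lit 76) (nat_lit 5966943174) (nat_lit 0) (nat_lit 16741929892) (nat_lit 1216) (nat_lit 1559664192) (nat_lit 241) (nat_lit 5) (nat_lit 240) (nat_lit 5) (nat_lit 256) (nat_lit 5) (nat_lit 337) (nat_lit 336) (nat_lit 227))))))))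
noncomputable def xc105 : XT := (XT.nd (nat_lit 1794) (nat_lit 6080) (nat_lit 0) (XT.nd (nat_lit 858) (nat_lit 5092) (nat_lit 0) (XT.nd (nat_lit 390) (nat_lit 1444) (nat_lit 0) (XT.nd (nat_lit 156) (nat_lit 1140) (nat_lit 0) (XT.nd (nat_lit 78) (nat_lit 0) (nat_lit 0) (XT.lf (nat_lit 76) (nat_lit 907451571) (nat_lit 0) (nat_lit 22964367131) (nat_lit 1216) (nat_lit 1000670500) (nat_lit 242) (nat_lit 5) (nat_lit 241) (nat_lit 5) (nat_lit 257) (nat_lit 5) (nat_lit 338) (nat_lit 336) (nat_lit 226)) (XT.lf (nat_lit 76) (nat_lit 21280293690) (nat_lit 0) (nat_lit 4156911939) (nat_lit 1216) (nat_lit 59111789) (nat_lit 242) (nat_lit 5) (nat_lit 241) (nat_lit 5) (nat_lit 257) (nat_lit 5) (nat_lit 339) (nat_lit 336) (nat_lit 225))) (XT.nd (nat_lit 78) (nat_lit 0) (nat_lit 76) (XT.lf (nat_lit 0) (nat_lit 1213801288) (nat_lit 1216) (nat_lit 9464834534) (nat_lit 1292) (nat_lit 15463367655) (nat_lit 226) (nat_lit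 5) (nat_lit 242) (nat_lit 5) (nat_lit 243) (nat_lit 5) (nat_lit 340) (nat_lit 336) (nat_lit 224)) (XT.nd (nat_lit 78) (nat_lit 0) (nat_lit 76) (XT.lf (nat_lit 0) (nat_lit 2830145727) (nat_lit 1216) (nat_lit 14833741123) (nat_lit 1292) (nat_lit 9147645782) (nat_lit 227) (nat_lit 5) (nat_lit 243) (nat_lit 5) (nat_lit 244) (nat_lit 5) (nat_lit 341) (nat_lit 336) (nat_lit 223)) (XT.lf (nat_lit 0) (nat_lit 4815876480) (nat_lit 1216) (nat_lit 20326197436) (nat_lit 1292) (nat_lit 2363813543) (nat_lit 228) (nat_lit 5) (nat_lit 244) (nat_lit 5) (nat_lit 245) (nat_lit 5) (nat_lit 342) (nat_lit 336) (nat_lit 222))))) (XT.nd (nat_lit 234) (nat_lit 1596) (nat_lit 0) (XT.nd (nat_lit 78) (nat_lit 0) (nat_lit 76) (XT.lf (nat_lit 76) (nat_lit 2230009851) (nat_lit 0) (nat_lit 5015228422) (nat_lit 1292) (nat_lit 20979397405) (nat_lit 229) (nat_lit 5) (nat_lit 228) (nat_lit 5) (nat_lit 245) (nat_lit 5) (nat_lit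 343) (nat_lit 336) (nat_lit 221)) (XT.nd (nat_lit 78) (nat_lit 0) (nat_lit 76) (XT.lf (nat_lit 0) (nat_lit 10153138470) (nat_lit 1216) (nat_lit 2798469574) (nat_lit 1292) (nat_lit 16017006856) (nat_lit 229) (nat_lit 5) (nat_lit 245) (nat_lit 5) (nat_lit 246) (nat_lit 5) (nat_lit 344) (nat_lit 336) (nat_lit 220)) (XT.lf (nat_lit 0) (nat_lit 13540505108) (nat_lit 1216) (nat_lit 7895719281) (nat_lit 1292) (nat_lit 8303551982) (nat_lit 230) (nat_lit 5) (nat_lit 246) (nat_lit 5) (nat_lit 247) (nat_lit 5) (nat_lit 345) (nat_lit 336) (nat_lit 219)))) (XT.nd (nat_lit 78) (nat_lit 1824) (nat_lit 0) (XT.lf (nat_lit 0) (nat_lit 17416379700) (nat_lit 1216) (nat_lit 13109321684) (nat_lit 76) (nat_lit 14225513) (nat_lit 231) (nat_lit 5) (nat_lit 247) (nat_lit 5) (nat_lit 232) (nat_lit 5) (nat_lit 346) (nat_lit 336) (nat_lit 218)) (XT.nd (nat_lit 78) (nat_lit 608) (nat_lit 0) (XT.lf (nat_lit 0) (nat_lit 12836928867)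 (nat_lit 1216) (nat_lit 9062935568) (nat_lit 1292) (nat_lit 9467810947) (nat_lit 215) (nat_lit 5) (nat_lit 231) (nat_lit 5) (nat_lit 232) (nat_lit 5) (nat_lit 347) (nat_lit 336) (nat_lit 217)) (XT.lf (nat_lit 0) (nat_lit 8142680954) (nat_lit 608) (nat_lit 18801210701) (nat_lit 684) (nat_lit 5282833280) (nat_lit 207) (nat_lit 5) (nat_lit 215) (nat_lit 5) (nat_lit 216) (nat_lit 5) (nat_lit 348) (nat_lit 336) (nat_lit 216)))))) (XT.nd (nat_lit 468) (nat_lit 2356) (nat_lit 0) (XT.nd (nat_lit 234) (nat_lit 1520) (nat_lit 0) (XT.nd (nat_lit 78) (nat_lit 684) (nat_lit 0) (XT.lf (nat_lit 0) (nat_lit 3343913728) (nat_lit 532) (nat_lit 29239995432) (nat_lit 608) (nat_lit 534508606) (nat_lit 200) (nat_lit 5) (nat_lit 207) (nat_lit 5) (nat_lit 208) (nat_lit 5) (nat_lit 349) (nat_lit 336) (nat_lit 215)) (XT.nd (nat_lit 78) (nat_lit 608) (nat_lit 0) (XT.lf (nat_lit 0) (nat_lit 4797334739) (nat_lit 608) (nat_lit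 1642725629) (nat_lit 76) (nat_lit 27600366501) (nat_lit 199) (nat_lit 5) (nat_lit 207) (nat_lit 5) (nat_lit 200) (nat_lit 5) (nat_lit 350) (nat_lit 336) (nat_lit 214)) (XT.lf (nat_lit 0) (nat_lit 10822328027) (nat_lit 684) (nat_lit 6732860503) (nat_lit 76) (nat_lit 17440064699) (nat_lit 191) (nat_lit 5) (nat_lit 200) (nat_lit 5) (nat_lit 192) (nat_lit 5) (nat_lit 351) (nat_lit 336) (nat_lit 213)))) (XT.nd (nat_lit 78) (nat_lit 988) (nat_lit 0) (XT.lf (nat_lit 0) (nat_lit 17519571736) (nat_lit 608) (nat_lit 11954297989) (nat_lit 76) (nat_lit 6512824905) (nat_lit 184) (nat_lit 5) (nat_lit 192) (nat_lit 5) (nat_lit 185) (nat_lit 5) (nat_lit 352) (nat_lit 336) (nat_lit 212)) (XT.nd (nat_lit 78) (nat_lit 456) (nat_lit 0) (XT.lf (nat_lit 0) (nat_lit 19649857886) (nat_lit 532) (nat_lit 5331563338) (nat_lit 608) (nat_lit 12033398138) (nat_lit 177) (nat_lit 5) (nat_lit 184) (nat_lit 5) (nat_lit 185)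 (nat_lit 5) (nat_lit 353) (nat_lit 336) (nat_lit 211)) (XT.lf (nat_lit 0) (nat_lit 15087459350) (nat_lit 456) (nat_lit 18184543101) (nat_lit 532) (nat_lit 4808682100) (nat_lit 171) (nat_lit 5) (nat_lit 177) (nat_lit 5) (nat_lit 178) (nat_lit 5) (nat_lit 354) (nat_lit 336) (nat_lit 210))))) (XT.nd (nat_lit 234) (nat_lit 912) (nat_lit 0) (XT.nd (nat_lit 78) (nat_lit 912) (nat_lit 0) (XT.lf (nat_lit 0) (nat_lit 3122976301) (nat_lit 532) (nat_lit 28814412648) (nat_lit 76) (nat_lit 7249659256) (nat_lit 164) (nat_lit 5) (nat_lit 171) (nat_lit 5) (nat_lit 165) (nat_lit 5) (nat_lit 355) (nat_lit 336) (nat_lit 209)) (XT.nd (nat_lit 78) (nat_lit 456) (nat_lit 0) (XT.lf (nat_lit 0) (nat_lit 5410215053) (nat_lit 456) (nat_lit 6411350033) (nat_lit 532) (nat_lit 28511645673) (nat_lit 158) (nat_lit 5) (nat_lit 164) (nat_lit 5) (nat_lit 165) (nat_lit 5) (nat_lit 356) (nat_lit 336) (nat_lit 208)) (XT.lf (nat_lit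 0) (nat_lit 219198245) (nat_lit 456) (nat_lit 21228048551) (nat_lit 532) (nat_lit 20074672592) (nat_lit 152) (nat_lit 5) (nat_lit 158) (nat_lit 5) (nat_lit 159) (nat_lit 5) (nat_lit 357) (nat_lit 336) (nat_lit 207)))) (XT.nd (nat_lit 78) (nat_lit 912) (nat_lit 0) (XT.lf (nat_lit 0) (nat_lit 32028268193) (nat_lit 532) (nat_lit 5037384992) (nat_lit 76) (nat_lit 5690191308) (nat_lit 152) (nat_lit 5) (nat_lit 159) (nat_lit 5) (nat_lit 153) (nat_lit 5) (nat_lit 358) (nat_lit 336) (nat_lit 206)) (XT.nd (nat_lit 78) (nat_lit 532) (nat_lit 0) (XT.lf (nat_lit 0) (nat_lit 33473942853) (nat_lit 380) (nat_lit 10195363841) (nat_lit 456) (nat_lit 366232765) (nat_lit 147) (nat_lit 5) (nat_lit 152) (nat_lit 5) (nat_lit 153) (nat_lit 5) (nat_lit 359) (nat_lit 336) (nat_lit 205)) (XT.lf (nat_lit 0) (nat_lit 10812657786) (nat_lit 532) (nat_lit 16445306423) (nat_lit 76) (nat_lit 18103086687) (nat_lit 140) (nat_lit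 5) (nat_lit 147) (nat_lit 5) (nat_lit 141) (nat_lit 5) (nat_lit 360) (nat_lit 336) (nat_lit 204))))))) (XT.nd (nat_lit 936) (nat_lit 2432) (nat_lit 0) (XT.nd (nat_lit 468) (nat_lit 1824) (nat_lit 0) (XT.nd (nat_lit 234) (nat_lit 684) (nat_lit 0) (XT.nd (nat_lit 78) (nat_lit 760) (nat_lit 0) (XT.lf (nat_lit 0) (nat_lit 22995175782) (nat_lit 456) (nat_lit 22554699835) (nat_lit 76) (nat_lit 1189288067) (nat_lit 135) (nat_lit 5) (nat_lit 141) (nat_lit 5) (nat_lit 136) (nat_lit 5) (nat_lit 361) (nat_lit 336) (nat_lit 203)) (XT.nd (nat_lit 78) (nat_lit 380) (nat_lit 0) (XT.lf (nat_lit 0) (nat_lit 19098108026) (nat_lit 380) (nat_lit 17313771794) (nat_lit 456) (nat_lit 11755552654) (nat_lit 130) (nat_lit 5) (nat_lit 135) (nat_lit 5) (nat_lit 136) (nat_lit 5) (nat_lit 362) (nat_lit 336) (nat_lit 202)) (XT.lf (nat_lit 0) (nat_lit 1301935110) (nat_lit 380) (nat_lit 35878537165) (nat_lit 76) (nat_lit 12471828256)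 (nat_lit 125) (nat_lit 5) (nat_lit 130) (nat_lit 5) (nat_lit 126) (nat_lit 5) (nat_lit 363) (nat_lit 336) (nat_lit 201)))) (XT.nd (nat_lit 78) (nat_lit 304) (nat_lit 0) (XT.lf (nat_lit 0) (nat_lit 8018221744) (nat_lit 380) (nat_lit 7302898102) (nat_lit 456) (nat_lit 35870243943) (nat_lit 120) (nat_lit 5) (nat_lit 125) (nat_lit 5) (nat_lit 126) (nat_lit 5) (nat_lit 364) (nat_lit 336) (nat_lit 200)) (XT.nd (nat_lit 78) (nat_lit 0) (nat_lit 0) (XT.lf (nat_lit 0) (nat_lit 1858671505) (nat_lit 304) (nat_lit 28800603832) (nat_lit 380) (nat_lit 22129566343) (nat_lit 116) (nat_lit 5) (nat_lit 120) (nat_lit 5) (nat_lit 121) (nat_lit 5) (nat_lit 365) (nat_lit 336) (nat_lit 199)) (XT.lf (nat_lit 0) (nat_lit 47303506373) (nat_lit 380) (nat_lit 4513206890) (nat_lit 76) (nat_lit 2633306902) (nat_lit 116) (nat_lit 5) (nat_lit 121) (nat_lit 5) (nat_lit 117) (nat_lit 5) (nat_lit 366) (nat_lit 336) (nat_lit 198)))))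 (XT.nd (nat_lit 234) (nat_lit 836) (nat_lit 0) (XT.nd (nat_lit 78) (nat_lit 608) (nat_lit 0) (XT.lf (nat_lit 0) (nat_lit 9142730855) (nat_lit 380) (nat_lit 11459713542) (nat_lit 76) (nat_lit 35567601535) (nat_lit 111) (nat_lit 5) (nat_lit 116) (nat_lit 5) (nat_lit 112) (nat_lit 5) (nat_lit 367) (nat_lit 336) (nat_lit 197)) (XT.nd (nat_lit 78) (nat_lit 304) (nat_lit 0) (XT.lf (nat_lit 0) (nat_lit 26641871983) (nat_lit 380) (nat_lit 18881597204) (nat_lit 76) (nat_lit 12434185543) (nat_lit 107) (nat_lit 5) (nat_lit 112) (nat_lit 5) (nat_lit 108) (nat_lit 5) (nat_lit 368) (nat_lit 336) (nat_lit 196)) (XT.lf (nat_lit 0) (nat_lit 32975976176) (nat_lit 304) (nat_lit 12680382580) (nat_lit 380) (nat_lit 14159075009) (nat_lit 103) (nat_lit 5) (nat_lit 107) (nat_lit 5) (nat_lit 108) (nat_lit 5) (nat_lit 369) (nat_lit 336) (nat_lit 195)))) (XT.nd (nat_lit 78) (nat_lit 532) (nat_lit 0) (XT.lf (nat_lit 0)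 (nat_lit 4442422763) (nat_lit 304) (nat_lit 35431754759) (nat_lit 76) (nat_lit 21870948075) (nat_lit 99) (nat_lit 5) (nat_lit 103) (nat_lit 5) (nat_lit 100) (nat_lit 5) (nat_lit 370) (nat_lit 336) (nat_lit 194)) (XT.nd (nat_lit 78) (nat_lit 228) (nat_lit 0) (XT.lf (nat_lit 0) (nat_lit 19013856178) (nat_lit 304) (nat_lit 5256329016) (nat_lit 380) (nat_lit 39479241807) (nat_lit 95) (nat_lit 5) (nat_lit 99) (nat_lit 5) (nat_lit 100) (nat_lit 5) (nat_lit 371) (nat_lit 336) (nat_lit 193)) (XT.lf (nat_lit 0) (nat_lit 10985880616) (nat_lit 228) (nat_lit 34872903886) (nat_lit 304) (nat_lit 19972076727) (nat_lit 92) (nat_lit 5) (nat_lit 95) (nat_lit 5) (nat_lit 96) (nat_lit 5) (nat_lit 372) (nat_lit 336) (nat_lit 192)))))) (XT.nd (nat_lit 468) (nat_lit 1064) (nat_lit 0) (XT.nd (nat_lit 234) (nat_lit 760) (nat_lit 0) (XT.nd (nat_lit 78) (nat_lit 228) (nat_lit 0) (XT.lf (nat_lit 0) (nat_lit 1051563022)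 (nat_lit 380) (nat_lit 65608201240) (nat_lit 76) (nat_lit 1339924520) (nat_lit 87) (nat_lit 5) (nat_lit 92) (nat_lit 5) (nat_lit 88) (nat_lit 5) (nat_lit 373) (nat_lit 336) (nat_lit 191)) (XT.nd (nat_lit 78) (nat_lit 228) (nat_lit 0) (XT.lf (nat_lit 0) (nat_lit 23636111428) (nat_lit 380) (nat_lit 7188317720) (nat_lit 76) (nat_lit 39418913941) (nat_lit 87) (nat_lit 5) (nat_lit 92) (nat_lit 5) (nat_lit 88) (nat_lit 5) (nat_lit 374) (nat_lit 336) (nat_lit 190)) (XT.lf (nat_lit 0) (nat_lit 47948320566) (nat_lit 304) (nat_lit 17428553668) (nat_lit 76) (nat_lit 7204353900) (nat_lit 84) (nat_lit 5) (nat_lit 88) (nat_lit 5) (nat_lit 85) (nat_lit 5) (nat_lit 375) (nat_lit 336) (nat_lit 189)))) (XT.nd (nat_lit 78) (nat_lit 532) (nat_lit 0) (XT.lf (nat_lit 0) (nat_lit 46314332850) (nat_lit 228) (nat_lit 27989884048) (nat_lit 304) (nat_lit 706949203) (nat_lit 81) (nat_lit 5) (nat_lit 84) (nat_lit 5) (nat_lit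 85) (nat_lit 5) (nat_lit 376) (nat_lit 336) (nat_lit 188)) (XT.nd (nat_lit 78) (nat_lit 228) (nat_lit 0) (XT.lf (nat_lit 0) (nat_lit 24584116970) (nat_lit 304) (nat_lit 41132626309) (nat_lit 76) (nat_lit 11819460528) (nat_lit 77) (nat_lit 5) (nat_lit 81) (nat_lit 5) (nat_lit 78) (nat_lit 5) (nat_lit 377) (nat_lit 336) (nat_lit 187)) (XT.lf (nat_lit 0) (nat_lit 25378128645) (nat_lit 228) (nat_lit 26569088507) (nat_lit 304) (nat_lit 28215404073) (nat_lit 74) (nat_lit 5) (nat_lit 77) (nat_lit 5) (nat_lit 78) (nat_lit 5) (nat_lit 378) (nat_lit 336) (nat_lit 186))))) (XT.nd (nat_lit 234) (nat_lit 608) (nat_lit 0) (XT.nd (nat_lit 78) (nat_lit 304) (nat_lit 0) (XT.lf (nat_lit 0) (nat_lit 13276962732) (nat_lit 152) (nat_lit 68093729527) (nat_lit 228) (nat_lit 1528901473) (nat_lit 72) (nat_lit 5) (nat_lit 74) (nat_lit 5) (nat_lit 75) (nat_lit 5) (nat_lit 379) (nat_lit 336) (nat_lit 185)) (XT.nd (nat_lit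 78) (nat_lit 228) (nat_lit 0) (XT.lf (nat_lit 0) (nat_lit 26809993886) (nat_lit 228) (nat_lit 403017398) (nat_lit 76) (nat_lit 58527714020) (nat_lit 71) (nat_lit 5) (nat_lit 74) (nat_lit 5) (nat_lit 72) (nat_lit 5) (nat_lit 380) (nat_lit 336) (nat_lit 184)) (XT.lf (nat_lit 0) (nat_lit 57398539116) (nat_lit 304) (nat_lit 15164464713) (nat_lit 76) (nat_lit 16134526462) (nat_lit 68) (nat_lit 5) (nat_lit 72) (nat_lit 5) (nat_lit 69) (nat_lit 5) (nat_lit 381) (nat_lit 336) (nat_lit 183)))) (XT.nd (nat_lit 78) (nat_lit 456) (nat_lit 0) (XT.lf (nat_lit 0) (nat_lit 60269525283) (nat_lit 152) (nat_lit 30102696638) (nat_lit 228) (nat_lit 1404282981) (nat_lit 66) (nat_lit 5) (nat_lit 68) (nat_lit 5) (nat_lit 69) (nat_lit 5) (nat_lit 382) (nat_lit 336) (nat_lit 182)) (XT.nd (nat_lit 78) (nat_lit 152) (nat_lit 0) (XT.lf (nat_lit 0) (nat_lit 30139378325) (nat_lit 304) (nat_lit 49751959736) (nat_lit 76) (nat_lit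 15087263658) (nat_lit 62) (nat_lit 5) (nat_lit 66) (nat_lit 5) (nat_lit 63) (nat_lit 5) (nat_lit 383) (nat_lit 336) (nat_lit 181)) (XT.lf (nat_lit 0) (nat_lit 28352277345) (nat_lit 152) (nat_lit 35780716853) (nat_lit 228) (nat_lit 34180338243) (nat_lit 60) (nat_lit 5) (nat_lit 62) (nat_lit 5) (nat_lit 63) (nat_lit 5) (nat_lit 384) (nat_lit 336) (nat_lit 180))))))))
noncomputable def xc106 : XT := (XT.nd (nat_lit 44616) (nat_lit 0) (nat_lit 1596) (XT.nd (nat_lit 43680) (nat_lit 0) (nat_lit 8968) (XT.nd (nat_lit 43212) (nat_lit 0) (nat_lit 13072) (XT.nd (nat_lit 156) (nat_lit 304) (nat_lit 0) (XT.nd (nat_lit 78) (nat_lit 76) (nat_lit 0) (XT.lf (nat_lit 0) (nat_lit 9680547347) (nat_lit 152) (nat_lit 90854978431) (nat_lit 228) (nat_lit 1257997446) (nat_lit 58) (nat_lit 5) (nat_lit 60) (nat_lit 5) (nat_lit 61) (nat_lit 5) (nat_lit 385) (nat_lit 336) (nat_lit 179)) (XT.lf (nat_lit 0) (nat_lit 33746648340)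 (nat_lit 228) (nat_lit 11352285967) (nat_lit 76) (nat_lit 60306597902) (nat_lit 57) (nat_lit 5) (nat_lit 60) (nat_lit 5) (nat_lit 58) (nat_lit 5) (nat_lit 386) (nat_lit 336) (nat_lit 178))) (XT.nd (nat_lit 78) (nat_lit 152) (nat_lit 0) (XT.lf (nat_lit 0) (nat_lit 71229041495) (nat_lit 228) (nat_lit 34320350889) (nat_lit 76) (nat_lit 3625770134) (nat_lit 55) (nat_lit 5) (nat_lit 58) (nat_lit 5) (nat_lit 56) (nat_lit 5) (nat_lit 387) (nat_lit 336) (nat_lit 177)) (XT.nd (nat_lit 42900) (nat_lit 0) (nat_lit 14212) (XT.lf (nat_lit 0) (nat_lit 53055007976) (nat_lit 152) (nat_lit 58611651846) (nat_lit 228) (nat_lit 1434181835) (nat_lit 53) (nat_lit 5) (nat_lit 55) (nat_lit 5) (nat_lit 56) (nat_lit 5) (nat_lit 388) (nat_lit 336) (nat_lit 176)) (XT.lf (nat_lit 0) (nat_lit 5826424780) (nat_lit 0) (nat_lit 5826424780) (nat_lit 1140) (nat_lit 776674523) (nat_lit 240) (nat_lit 5) (nat_lit 240) (nat_lit 3)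 (nat_lit 255) (nat_lit 3) (nat_lit 337) (nat_lit 337) (nat_lit 226))))) (XT.nd (nat_lit 234) (nat_lit 0) (nat_lit 76) (XT.nd (nat_lit 78) (nat_lit 1140) (nat_lit 0) (XT.lf (nat_lit 76) (nat_lit 6456908470) (nat_lit 0) (nat_lit 17738435626) (nat_lit 1216) (nat_lit 1275858690) (nat_lit 241) (nat_lit 5) (nat_lit 240) (nat_lit 5) (nat_lit 256) (nat_lit 5) (nat_lit 338) (nat_lit 337) (nat_lit 225)) (XT.nd (nat_lit 78) (nat_lit 1216) (nat_lit 0) (XT.lf (nat_lit 76) (nat_lit 1150890870) (nat_lit 0) (nat_lit 24249275123) (nat_lit 1216) (nat_lit 705685443) (nat_lit 242) (nat_lit 5) (nat_lit 241) (nat_lit 5) (nat_lit 257) (nat_lit 5) (nat_lit 339) (nat_lit 337) (nat_lit 224)) (XT.lf (nat_lit 0) (nat_lit 261320947) (nat_lit 1216) (nat_lit 4230978364) (nat_lit 1292) (nat_lit 22268983569) (nat_lit 225) (nat_lit 5) (nat_lit 241) (nat_lit 5) (nat_lit 242) (nat_lit 5) (nat_lit 340) (nat_lit 337) (nat_lit 223))))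 (XT.nd (nat_lit 78) (nat_lit 0) (nat_lit 76) (XT.lf (nat_lit 0) (nat_lit 1582005861) (nat_lit 1216) (nat_lit 9737826106) (nat_lit 1292) (nat_lit 16119852921) (nat_lit 226) (nat_lit 5) (nat_lit 242) (nat_lit 5) (nat_lit 243) (nat_lit 5) (nat_lit 341) (nat_lit 337) (nat_lit 222)) (XT.nd (nat_lit 78) (nat_lit 0) (nat_lit 76) (XT.lf (nat_lit 0) (nat_lit 3265430244) (nat_lit 1216) (nat_lit 15370928336) (nat_lit 1292) (nat_lit 9506753246) (nat_lit 227) (nat_lit 5) (nat_lit 243) (nat_lit 5) (nat_lit 244) (nat_lit 5) (nat_lit 342) (nat_lit 337) (nat_lit 221)) (XT.lf (nat_lit 0) (nat_lit 5337569155) (nat_lit 1216) (nat_lit 21134444723) (nat_lit 1292) (nat_lit 2400565636) (nat_lit 228) (nat_lit 5) (nat_lit 244) (nat_lit 5) (nat_lit 245) (nat_lit 5) (nat_lit 343) (nat_lit 337) (nat_lit 220)))))) (XT.nd (nat_lit 468) (nat_lit 2736) (nat_lit 0) (XT.nd (nat_lit 234) (nat_lit 1596) (nat_lit 0) (XT.nd (nat_lit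 78) (nat_lit 0) (nat_lit 76) (XT.lf (nat_lit 76) (nat_lit 2543608857) (nat_lit 0) (nat_lit 5333356740) (nat_lit 1292) (nat_lit 21750650900) (nat_lit 229) (nat_lit 5) (nat_lit 228) (nat_lit 5) (nat_lit 245) (nat_lit 5) (nat_lit 344) (nat_lit 337) (nat_lit 219)) (XT.nd (nat_lit 78) (nat_lit 0) (nat_lit 76) (XT.lf (nat_lit 0) (nat_lit 10916812382) (nat_lit 1216) (nat_lit 2737443481) (nat_lit 1292) (nat_lit 16754950222) (nat_lit 229) (nat_lit 5) (nat_lit 245) (nat_lit 5) (nat_lit 246) (nat_lit 5) (nat_lit 345) (nat_lit 337) (nat_lit 218)) (XT.lf (nat_lit 0) (nat_lit 14462746789) (nat_lit 1216) (nat_lit 8087307759) (nat_lit 1292) (nat_lit 8669202673) (nat_lit 230) (nat_lit 5) (nat_lit 246) (nat_lit 5) (nat_lit 247) (nat_lit 5) (nat_lit 346) (nat_lit 337) (nat_lit 217)))) (XT.nd (nat_lit 78) (nat_lit 1748) (nat_lit 0) (XT.lf (nat_lit 76) (nat_lit 18499659177) (nat_lit 0) (nat_lit 22829790) (nat_lit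 1292) (nat_lit 13537231303) (nat_lit 231) (nat_lit 5) (nat_lit 230) (nat_lit 5) (nat_lit 247) (nat_lit 5) (nat_lit 347) (nat_lit 337) (nat_lit 216)) (XT.nd (nat_lit 78) (nat_lit 608) (nat_lit 0) (XT.lf (nat_lit 0) (nat_lit 13677846700) (nat_lit 1216) (nat_lit 9542801533) (nat_lit 1292) (nat_lit 9708499809) (nat_lit 215) (nat_lit 5) (nat_lit 231) (nat_lit 5) (nat_lit 232) (nat_lit 5) (nat_lit 348) (nat_lit 337) (nat_lit 215)) (XT.lf (nat_lit 0) (nat_lit 8750142534) (nat_lit 608) (nat_lit 19757663408) (nat_lit 684) (nat_lit 5323622799) (nat_lit 207) (nat_lit 5) (nat_lit 215) (nat_lit 5) (nat_lit 216) (nat_lit 5) (nat_lit 349) (nat_lit 337) (nat_lit 214))))) (XT.nd (nat_lit 234) (nat_lit 1520) (nat_lit 0) (XT.nd (nat_lit 78) (nat_lit 684) (nat_lit 0) (XT.lf (nat_lit 0) (nat_lit 3712289977) (nat_lit 532) (nat_lit 30708998161) (nat_lit 608) (nat_lit 346680391) (nat_lit 200) (nat_lit 5) (nat_lit 207)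 (nat_lit 5) (nat_lit 208) (nat_lit 5) (nat_lit 350) (nat_lit 337) (nat_lit 213)) (XT.nd (nat_lit 78) (nat_lit 608) (nat_lit 0) (XT.lf (nat_lit 0) (nat_lit 5237550934) (nat_lit 608) (nat_lit 1529158799) (nat_lit 76) (nat_lit 28969612766) (nat_lit 199) (nat_lit 5) (nat_lit 207) (nat_lit 5) (nat_lit 200) (nat_lit 5) (nat_lit 351) (nat_lit 337) (nat_lit 212)) (XT.lf (nat_lit 0) (nat_lit 11556056284) (nat_lit 684) (nat_lit 6873496932) (nat_lit 76) (nat_lit 18309574576) (nat_lit 191) (nat_lit 5) (nat_lit 200) (nat_lit 5) (nat_lit 192) (nat_lit 5) (nat_lit 352) (nat_lit 337) (nat_lit 211)))) (XT.nd (nat_lit 78) (nat_lit 988) (nat_lit 0) (XT.lf (nat_lit 0) (nat_lit 18580869511) (nat_lit 608) (nat_lit 12356011364) (nat_lit 76) (nat_lit 6843484394) (nat_lit 184) (nat_lit 5) (nat_lit 192) (nat_lit 5) (nat_lit 185) (nat_lit 5) (nat_lit 353) (nat_lit 337) (nat_lit 210)) (XT.nd (nat_lit 78) (nat_lit 456)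 (nat_lit 0) (XT.lf (nat_lit 0) (nat_lit 20822733960) (nat_lit 532) (nat_lit 5586082870) (nat_lit 608) (nat_lit 12451294225) (nat_lit 177) (nat_lit 5) (nat_lit 184) (nat_lit 5) (nat_lit 185) (nat_lit 5) (nat_lit 354) (nat_lit 337) (nat_lit 209)) (XT.lf (nat_lit 0) (nat_lit 16031938682) (nat_lit 456) (nat_lit 19075434605) (nat_lit 532) (nat_lit 4872097571) (nat_lit 171) (nat_lit 5) (nat_lit 177) (nat_lit 5) (nat_lit 178) (nat_lit 5) (nat_lit 355) (nat_lit 337) (nat_lit 208))))))) (XT.nd (nat_lit 936) (nat_lit 3192) (nat_lit 0) (XT.nd (nat_lit 468) (nat_lit 1824) (nat_lit 0) (XT.nd (nat_lit 234) (nat_lit 912) (nat_lit 0) (XT.nd (nat_lit 78) (nat_lit 912) (nat_lit 0) (XT.lf (nat_lit 0) (nat_lit 3446434466) (nat_lit 532) (nat_lit 30062132549) (nat_lit 76) (nat_lit 7632726665) (nat_lit 164) (nat_lit 5) (nat_lit 171) (nat_lit 5) (nat_lit 165) (nat_lit 5) (nat_lit 356) (nat_lit 337) (nat_lit 207)) (XT.nd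 (nat_lit 78) (nat_lit 456) (nat_lit 0) (XT.lf (nat_lit 0) (nat_lit 5868194210) (nat_lit 456) (nat_lit 6705593429) (nat_lit 532) (nat_lit 29771165848) (nat_lit 158) (nat_lit 5) (nat_lit 164) (nat_lit 5) (nat_lit 165) (nat_lit 5) (nat_lit 357) (nat_lit 337) (nat_lit 206)) (XT.lf (nat_lit 0) (nat_lit 416783869) (nat_lit 456) (nat_lit 22258330981) (nat_lit 532) (nat_lit 20918155829) (nat_lit 152) (nat_lit 5) (nat_lit 158) (nat_lit 5) (nat_lit 159) (nat_lit 5) (nat_lit 358) (nat_lit 337) (nat_lit 205)))) (XT.nd (nat_lit 78) (nat_lit 912) (nat_lit 0) (XT.lf (nat_lit 0) (nat_lit 33778067184) (nat_lit 532) (nat_lit 5107281628) (nat_lit 76) (nat_lit 6003760620) (nat_lit 152) (nat_lit 5) (nat_lit 159) (nat_lit 5) (nat_lit 153) (nat_lit 5) (nat_lit 359) (nat_lit 337) (nat_lit 204)) (XT.nd (nat_lit 78) (nat_lit 532) (nat_lit 0) (XT.lf (nat_lit 0) (nat_lit 35324396401) (nat_lit 380) (nat_lit 10671394319)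 (nat_lit 456) (nat_lit 237163037) (nat_lit 147) (nat_lit 5) (nat_lit 152) (nat_lit 5) (nat_lit 153) (nat_lit 5) (nat_lit 360) (nat_lit 337) (nat_lit 203)) (XT.lf (nat_lit 0) (nat_lit 11492931618) (nat_lit 532) (nat_lit 17089113609) (nat_lit 76) (nat_lit 19042802306) (nat_lit 140) (nat_lit 5) (nat_lit 147) (nat_lit 5) (nat_lit 141) (nat_lit 5) (nat_lit 361) (nat_lit 337) (nat_lit 202))))) (XT.nd (nat_lit 234) (nat_lit 684) (nat_lit 0) (XT.nd (nat_lit 78) (nat_lit 760) (nat_lit 0) (XT.lf (nat_lit 0) (nat_lit 24279964086) (nat_lit 456) (nat_lit 23505360788) (nat_lit 76) (nat_lit 1286682605) (nat_lit 135) (nat_lit 5) (nat_lit 141) (nat_lit 5) (nat_lit 136) (nat_lit 5) (nat_lit 362) (nat_lit 337) (nat_lit 201)) (XT.nd (nat_lit 78) (nat_lit 380) (nat_lit 0) (XT.lf (nat_lit 0) (nat_lit 20225011675) (nat_lit 380) (nat_lit 18137715027) (nat_lit 456) (nat_lit 12209109330) (nat_lit 130) (nat_lit 5) (nat_lit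 135) (nat_lit 5) (nat_lit 136) (nat_lit 5) (nat_lit 363) (nat_lit 337) (nat_lit 200)) (XT.lf (nat_lit 0) (nat_lit 1494408385) (nat_lit 380) (nat_lit 37499340563) (nat_lit 76) (nat_lit 13137289392) (nat_lit 125) (nat_lit 5) (nat_lit 130) (nat_lit 5) (nat_lit 126) (nat_lit 5) (nat_lit 364) (nat_lit 337) (nat_lit 199)))) (XT.nd (nat_lit 78) (nat_lit 304) (nat_lit 0) (XT.lf (nat_lit 0) (nat_lit 8587293743) (nat_lit 380) (nat_lit 7622809531) (nat_lit 456) (nat_lit 37537087621) (nat_lit 120) (nat_lit 5) (nat_lit 125) (nat_lit 5) (nat_lit 126) (nat_lit 5) (nat_lit 365) (nat_lit 337) (nat_lit 198)) (XT.nd (nat_lit 78) (nat_lit 0) (nat_lit 0) (XT.lf (nat_lit 0) (nat_lit 2118157190) (nat_lit 304) (nat_lit 30193170770) (nat_lit 380) (nat_lit 23113332415) (nat_lit 116) (nat_lit 5) (nat_lit 120) (nat_lit 5) (nat_lit 121) (nat_lit 5) (nat_lit 366) (nat_lit 337) (nat_lit 197)) (XT.lf (nat_lit 0) (nat_lit 49782534170)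 (nat_lit 380) (nat_lit 4577229850) (nat_lit 76) (nat_lit 2809293271) (nat_lit 116) (nat_lit 5) (nat_lit 121) (nat_lit 5) (nat_lit 117) (nat_lit 5) (nat_lit 367) (nat_lit 337) (nat_lit 196)))))) (XT.nd (nat_lit 468) (nat_lit 1368) (nat_lit 0) (XT.nd (nat_lit 234) (nat_lit 836) (nat_lit 0) (XT.nd (nat_lit 78) (nat_lit 608) (nat_lit 0) (XT.lf (nat_lit 0) (nat_lit 9710941175) (nat_lit 380) (nat_lit 11873439884) (nat_lit 76) (nat_lit 37390790289) (nat_lit 111) (nat_lit 5) (nat_lit 116) (nat_lit 5) (nat_lit 112) (nat_lit 5) (nat_lit 368) (nat_lit 337) (nat_lit 195)) (XT.nd (nat_lit 78) (nat_lit 304) (nat_lit 0) (XT.lf (nat_lit 0) (nat_lit 28081693003) (nat_lit 380) (nat_lit 19668178034) (nat_lit 76) (nat_lit 13102392067) (nat_lit 107) (nat_lit 5) (nat_lit 112) (nat_lit 5) (nat_lit 108) (nat_lit 5) (nat_lit 369) (nat_lit 337) (nat_lit 194)) (XT.lf (nat_lit 0) (nat_lit 34777759338) (nat_lit 304) (nat_lit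 13265485479) (nat_lit 380) (nat_lit 14759798078) (nat_lit 103) (nat_lit 5) (nat_lit 107) (nat_lit 5) (nat_lit 108) (nat_lit 5) (nat_lit 370) (nat_lit 337) (nat_lit 193)))) (XT.nd (nat_lit 78) (nat_lit 532) (nat_lit 0) (XT.lf (nat_lit 0) (nat_lit 4766595755) (nat_lit 304) (nat_lit 37050059746) (nat_lit 76) (nat_lit 23012627359) (nat_lit 99) (nat_lit 5) (nat_lit 103) (nat_lit 5) (nat_lit 100) (nat_lit 5) (nat_lit 371) (nat_lit 337) (nat_lit 192)) (XT.nd (nat_lit 78) (nat_lit 228) (nat_lit 0) (XT.lf (nat_lit 0) (nat_lit 20113437918) (nat_lit 304) (nat_lit 5468879988) (nat_lit 380) (nat_lit 41351586064) (nat_lit 95) (nat_lit 5) (nat_lit 99) (nat_lit 5) (nat_lit 100) (nat_lit 5) (nat_lit 372) (nat_lit 337) (nat_lit 191)) (XT.lf (nat_lit 0) (nat_lit 11682234923) (nat_lit 228) (nat_lit 36565289709) (nat_lit 304) (nat_lit 20871971652) (nat_lit 92) (nat_lit 5) (nat_lit 95) (nat_lit 5) (nat_lit 96) (nat_lit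 5) (nat_lit 373) (nat_lit 337) (nat_lit 190))))) (XT.nd (nat_lit 234) (nat_lit 760) (nat_lit 0) (XT.nd (nat_lit 78) (nat_lit 228) (nat_lit 0) (XT.lf (nat_lit 0) (nat_lit 1198198617) (nat_lit 380) (nat_lit 68741517097) (nat_lit 76) (nat_lit 1457104366) (nat_lit 87) (nat_lit 5) (nat_lit 92) (nat_lit 5) (nat_lit 88) (nat_lit 5) (nat_lit 374) (nat_lit 337) (nat_lit 189)) (XT.nd (nat_lit 78) (nat_lit 228) (nat_lit 0) (XT.lf (nat_lit 0) (nat_lit 24907495517) (nat_lit 380) (nat_lit 7407643886) (nat_lit 76) (nat_lit 41437653562) (nat_lit 87) (nat_lit 5) (nat_lit 92) (nat_lit 5) (nat_lit 88) (nat_lit 5) (nat_lit 375) (nat_lit 337) (nat_lit 188)) (XT.lf (nat_lit 0) (nat_lit 50432832869) (nat_lit 304) (nat_lit 18161755525) (nat_lit 76) (nat_lit 7613059760) (nat_lit 84) (nat_lit 5) (nat_lit 88) (nat_lit 5) (nat_lit 85) (nat_lit 5) (nat_lit 376) (nat_lit 337) (nat_lit 187)))) (XT.nd (nat_lit 78) (nat_lit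 532) (nat_lit 0) (XT.lf (nat_lit 0) (nat_lit 48764313103) (nat_lit 228) (nat_lit 29339354098) (nat_lit 304) (nat_lit 655502881) (nat_lit 81) (nat_lit 5) (nat_lit 84) (nat_lit 5) (nat_lit 85) (nat_lit 5) (nat_lit 377) (nat_lit 337) (nat_lit 186)) (XT.nd (nat_lit 78) (nat_lit 228) (nat_lit 0) (XT.lf (nat_lit 0) (nat_lit 25896118646) (nat_lit 304) (nat_lit 43055155733) (nat_lit 76) (nat_lit 12459230649) (nat_lit 77) (nat_lit 5) (nat_lit 81) (nat_lit 5) (nat_lit 78) (nat_lit 5) (nat_lit 378) (nat_lit 337) (nat_lit 185)) (XT.lf (nat_lit 0) (nat_lit 26777292965) (nat_lit 228) (nat_lit 27847390331) (nat_lit 304) (nat_lit 29543641931) (nat_lit 74) (nat_lit 5) (nat_lit 77) (nat_lit 5) (nat_lit 78) (nat_lit 5) (nat_lit 379) (nat_lit 337) (nat_lit 184))))))))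
noncomputable def xc107 : XT := (XT.nd (nat_lit 44850) (nat_lit 0) (nat_lit 2052) (XT.nd (nat_lit 43914) (nat_lit 0) (nat_lit 10184) (XT.nd (nat_lit 468) (nat_lit 228) (nat_lit 0) (XT.nd (nat_lit 234) (nat_lit 608) (nat_lit 0) (XT.nd (nat_lit 78) (nat_lit 304) (nat_lit 0) (XT.lf (nat_lit 0) (nat_lit 14069224149) (nat_lit 152) (nat_lit 71447986999) (nat_lit 228) (nat_lit 1524999979) (nat_lit 72) (nat_lit 5) (nat_lit 74) (nat_lit 5) (nat_lit 75) (nat_lit 5) (nat_lit 380) (nat_lit 337) (nat_lit 183)) (XT.nd (nat_lit 78) (nat_lit 228) (nat_lit 0) (XT.lf (nat_lit 0) (nat_lit 28225520929) (nat_lit 228) (nat_lit 299355667) (nat_lit 76) (nat_lit 61500613106) (nat_lit 71) (nat_lit 5) (nat_lit 74) (nat_lit 5) (nat_lit 72) (nat_lit 5) (nat_lit 381) (nat_lit 337) (nat_lit 182)) (XT.lf (nat_lit 0) (nat_lit 60341534805) (nat_lit 304) (nat_lit 15800684115) (nat_lit 76) (nat_lit 16987975779) (nat_lit 68) (nat_lit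 5) (nat_lit 72) (nat_lit 5) (nat_lit 69) (nat_lit 5) (nat_lit 382) (nat_lit 337) (nat_lit 181)))) (XT.nd (nat_lit 78) (nat_lit 456) (nat_lit 0) (XT.lf (nat_lit 0) (nat_lit 63401508165) (nat_lit 152) (nat_lit 31560053280) (nat_lit 228) (nat_lit 1401627759) (nat_lit 66) (nat_lit 5) (nat_lit 68) (nat_lit 5) (nat_lit 69) (nat_lit 5) (nat_lit 383) (nat_lit 337) (nat_lit 180)) (XT.nd (nat_lit 78) (nat_lit 152) (nat_lit 0) (XT.lf (nat_lit 0) (nat_lit 31715967461) (nat_lit 304) (nat_lit 52121411378) (nat_lit 76) (nat_lit 15888046709) (nat_lit 62) (nat_lit 5) (nat_lit 66) (nat_lit 5) (nat_lit 63) (nat_lit 5) (nat_lit 384) (nat_lit 337) (nat_lit 179)) (XT.lf (nat_lit 0) (nat_lit 29884650916) (nat_lit 152) (nat_lit 37522401103) (nat_lit 228) (nat_lit 35819907989) (nat_lit 60) (nat_lit 5) (nat_lit 62) (nat_lit 5) (nat_lit 63) (nat_lit 5) (nat_lit 385) (nat_lit 337) (nat_lit 178))))) (XT.nd (nat_lit 43212)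 (nat_lit 0) (nat_lit 12768) (XT.nd (nat_lit 78) (nat_lit 76) (nat_lit 0) (XT.lf (nat_lit 0) (nat_lit 10277583334) (nat_lit 152) (nat_lit 95350436740) (nat_lit 228) (nat_lit 1253191761) (nat_lit 58) (nat_lit 5) (nat_lit 60) (nat_lit 5) (nat_lit 61) (nat_lit 5) (nat_lit 386) (nat_lit 337) (nat_lit 177)) (XT.nd (nat_lit 43056) (nat_lit 0) (nat_lit 13908) (XT.lf (nat_lit 0) (nat_lit 35497203975) (nat_lit 228) (nat_lit 11810999939) (nat_lit 76) (nat_lit 63365693407) (nat_lit 57) (nat_lit 5) (nat_lit 60) (nat_lit 5) (nat_lit 58) (nat_lit 5) (nat_lit 387) (nat_lit 337) (nat_lit 176)) (XT.lf (nat_lit 0) (nat_lit 6201286929) (nat_lit 0) (nat_lit 6201286929) (nat_lit 1140) (nat_lit 643304206) (nat_lit 240) (nat_lit 5) (nat_lit 240) (nat_lit 3) (nat_lit 255) (nat_lit 3) (nat_lit 338) (nat_lit 338) (nat_lit 224)))) (XT.nd (nat_lit 78) (nat_lit 1140) (nat_lit 0) (XT.lf (nat_lit 76) (nat_lit 6953557193) (nat_lit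 0) (nat_lit 18769946287) (nat_lit 1216) (nat_lit 1011498598) (nat_lit 241) (nat_lit 5) (nat_lit 240) (nat_lit 5) (nat_lit 256) (nat_lit 5) (nat_lit 339) (nat_lit 338) (nat_lit 223)) (XT.nd (nat_lit 78) (nat_lit 1216) (nat_lit 0) (XT.lf (nat_lit 76) (nat_lit 1388087767) (nat_lit 0) (nat_lit 25585720407) (nat_lit 1216) (nat_lit 428027690) (nat_lit 242) (nat_lit 5) (nat_lit 241) (nat_lit 5) (nat_lit 257) (nat_lit 5) (nat_lit 340) (nat_lit 338) (nat_lit 222)) (XT.lf (nat_lit 0) (nat_lit 566611184) (nat_lit 1216) (nat_lit 4265429848) (nat_lit 1292) (nat_lit 23258355147) (nat_lit 225) (nat_lit 5) (nat_lit 241) (nat_lit 5) (nat_lit 242) (nat_lit 5) (nat_lit 341) (nat_lit 338) (nat_lit 221)))))) (XT.nd (nat_lit 468) (nat_lit 2660) (nat_lit 0) (XT.nd (nat_lit 234) (nat_lit 0) (nat_lit 152) (XT.nd (nat_lit 78) (nat_lit 0) (nat_lit 76) (XT.lf (nat_lit 0) (nat_lit 1940030878) (nat_lit 1216) (nat_lit 10043084619)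 (nat_lit 1292) (nat_lit 16820010541) (nat_lit 226) (nat_lit 5) (nat_lit 242) (nat_lit 5) (nat_lit 243) (nat_lit 5) (nat_lit 342) (nat_lit 338) (nat_lit 220)) (XT.nd (nat_lit 78) (nat_lit 0) (nat_lit 76) (XT.lf (nat_lit 0) (nat_lit 3695166365) (nat_lit 1216) (nat_lit 15953987365) (nat_lit 1292) (nat_lit 9892952746) (nat_lit 227) (nat_lit 5) (nat_lit 243) (nat_lit 5) (nat_lit 244) (nat_lit 5) (nat_lit 343) (nat_lit 338) (nat_lit 219)) (XT.lf (nat_lit 0) (nat_lit 5859231150) (nat_lit 1216) (nat_lit 22002448060) (nat_lit 1292) (nat_lit 2446726722) (nat_lit 228) (nat_lit 5) (nat_lit 244) (nat_lit 5) (nat_lit 245) (nat_lit 5) (nat_lit 344) (nat_lit 338) (nat_lit 218)))) (XT.nd (nat_lit 78) (nat_lit 0) (nat_lit 76) (XT.lf (nat_lit 76) (nat_lit 2854098609) (nat_lit 0) (nat_lit 5661128338) (nat_lit 1292) (nat_lit 22586286507) (nat_lit 229) (nat_lit 5) (nat_lit 228) (nat_lit 5) (nat_lit 245) (nat_lit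 5) (nat_lit 345) (nat_lit 338) (nat_lit 217)) (XT.nd (nat_lit 78) (nat_lit 0) (nat_lit 76) (XT.lf (nat_lit 0) (nat_lit 11694867957) (nat_lit 1216) (nat_lit 2692048470) (nat_lit 1292) (nat_lit 17535639251) (nat_lit 229) (nat_lit 5) (nat_lit 245) (nat_lit 5) (nat_lit 246) (nat_lit 5) (nat_lit 346) (nat_lit 338) (nat_lit 216)) (XT.lf (nat_lit 0) (nat_lit 15408302654) (nat_lit 1216) (nat_lit 8307367037) (nat_lit 1292) (nat_lit 9057740441) (nat_lit 230) (nat_lit 5) (nat_lit 246) (nat_lit 5) (nat_lit 247) (nat_lit 5) (nat_lit 347) (nat_lit 338) (nat_lit 215))))) (XT.nd (nat_lit 234) (nat_lit 1216) (nat_lit 0) (XT.nd (nat_lit 78) (nat_lit 1748) (nat_lit 0) (XT.lf (nat_lit 76) (nat_lit 19603665148) (nat_lit 0) (nat_lit 58496313) (nat_lit 1292) (nat_lit 13994007530) (nat_lit 231) (nat_lit 5) (nat_lit 230) (nat_lit 5) (nat_lit 247) (nat_lit 5) (nat_lit 348) (nat_lit 338) (nat_lit 214)) (XT.nd (nat_lit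 78) (nat_lit 608) (nat_lit 0) (XT.lf (nat_lit 0) (nat_lit 14542302653) (nat_lit 1216) (nat_lit 10044176699) (nat_lit 1292) (nat_lit 9982857511) (nat_lit 215) (nat_lit 5) (nat_lit 231) (nat_lit 5) (nat_lit 232) (nat_lit 5) (nat_lit 349) (nat_lit 338) (nat_lit 213)) (XT.lf (nat_lit 0) (nat_lit 9369352637) (nat_lit 608) (nat_lit 20760414761) (nat_lit 684) (nat_lit 5387216959) (nat_lit 207) (nat_lit 5) (nat_lit 215) (nat_lit 5) (nat_lit 216) (nat_lit 5) (nat_lit 350) (nat_lit 338) (nat_lit 212)))) (XT.nd (nat_lit 78) (nat_lit 684) (nat_lit 0) (XT.lf (nat_lit 0) (nat_lit 4080381176) (nat_lit 532) (nat_lit 32250799958) (nat_lit 608) (nat_lit 169407930) (nat_lit 200) (nat_lit 5) (nat_lit 207) (nat_lit 5) (nat_lit 208) (nat_lit 5) (nat_lit 351) (nat_lit 338) (nat_lit 211)) (XT.nd (nat_lit 78) (nat_lit 608) (nat_lit 0) (XT.lf (nat_lit 0) (nat_lit 5681151345) (nat_lit 608) (nat_lit 1428108248) (nat_lit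 76) (nat_lit 30408322830) (nat_lit 199) (nat_lit 5) (nat_lit 207) (nat_lit 5) (nat_lit 200) (nat_lit 5) (nat_lit 352) (nat_lit 338) (nat_lit 210)) (XT.lf (nat_lit 0) (nat_lit 12308563730) (nat_lit 684) (nat_lit 7039388017) (nat_lit 76) (nat_lit 19222791757) (nat_lit 191) (nat_lit 5) (nat_lit 200) (nat_lit 5) (nat_lit 192) (nat_lit 5) (nat_lit 353) (nat_lit 338) (nat_lit 209))))))) (XT.nd (nat_lit 936) (nat_lit 3116) (nat_lit 0) (XT.nd (nat_lit 468) (nat_lit 2052) (nat_lit 0) (XT.nd (nat_lit 234) (nat_lit 1444) (nat_lit 0) (XT.nd (nat_lit 78) (nat_lit 988) (nat_lit 0) (XT.lf (nat_lit 0) (nat_lit 19678002954) (nat_lit 608) (nat_lit 12796032773) (nat_lit 76) (nat_lit 7190210309) (nat_lit 184) (nat_lit 5) (nat_lit 192) (nat_lit 5) (nat_lit 185) (nat_lit 5) (nat_lit 354) (nat_lit 338) (nat_lit 208)) (XT.nd (nat_lit 78) (nat_lit 456) (nat_lit 0) (XT.lf (nat_lit 0) (nat_lit 22036553814) (nat_lit 532)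 (nat_lit 5854449477) (nat_lit 608) (nat_lit 12907170664) (nat_lit 177) (nat_lit 5) (nat_lit 184) (nat_lit 5) (nat_lit 185) (nat_lit 5) (nat_lit 355) (nat_lit 338) (nat_lit 207)) (XT.lf (nat_lit 0) (nat_lit 17005967692) (nat_lit 456) (nat_lit 20012575360) (nat_lit 532) (nat_lit 4955141330) (nat_lit 171) (nat_lit 5) (nat_lit 177) (nat_lit 5) (nat_lit 178) (nat_lit 5) (nat_lit 356) (nat_lit 338) (nat_lit 206)))) (XT.nd (nat_lit 78) (nat_lit 912) (nat_lit 0) (XT.lf (nat_lit 0) (nat_lit 3770510701) (nat_lit 532) (nat_lit 31390181823) (nat_lit 76) (nat_lit 8033033697) (nat_lit 164) (nat_lit 5) (nat_lit 171) (nat_lit 5) (nat_lit 165) (nat_lit 5) (nat_lit 357) (nat_lit 338) (nat_lit 205)) (XT.nd (nat_lit 78) (nat_lit 456) (nat_lit 0) (XT.lf (nat_lit 0) (nat_lit 6331643290) (nat_lit 456) (nat_lit 7016996361) (nat_lit 532) (nat_lit 31109100912) (nat_lit 158) (nat_lit 5) (nat_lit 164) (nat_lit 5) (nat_lit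 165) (nat_lit 5) (nat_lit 358) (nat_lit 338) (nat_lit 204)) (XT.lf (nat_lit 0) (nat_lit 606898085) (nat_lit 456) (nat_lit 23343020776) (nat_lit 532) (nat_lit 21818711791) (nat_lit 152) (nat_lit 5) (nat_lit 158) (nat_lit 5) (nat_lit 159) (nat_lit 5) (nat_lit 359) (nat_lit 338) (nat_lit 203))))) (XT.nd (nat_lit 234) (nat_lit 1140) (nat_lit 0) (XT.nd (nat_lit 78) (nat_lit 912) (nat_lit 0) (XT.lf (nat_lit 0) (nat_lit 35601560639) (nat_lit 532) (nat_lit 5197591184) (nat_lit 76) (nat_lit 6330306698) (nat_lit 152) (nat_lit 5) (nat_lit 159) (nat_lit 5) (nat_lit 153) (nat_lit 5) (nat_lit 360) (nat_lit 338) (nat_lit 202)) (XT.nd (nat_lit 78) (nat_lit 532) (nat_lit 0) (XT.lf (nat_lit 0) (nat_lit 37250939492) (nat_lit 380) (nat_lit 11174362933) (nat_lit 456) (nat_lit 115341946) (nat_lit 147) (nat_lit 5) (nat_lit 152) (nat_lit 5) (nat_lit 153) (nat_lit 5) (nat_lit 361) (nat_lit 338) (nat_lit 201)) (XT.lf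 (nat_lit 0) (nat_lit 12194236651) (nat_lit 532) (nat_lit 17781702500) (nat_lit 76) (nat_lit 20026290525) (nat_lit 140) (nat_lit 5) (nat_lit 147) (nat_lit 5) (nat_lit 141) (nat_lit 5) (nat_lit 362) (nat_lit 338) (nat_lit 200)))) (XT.nd (nat_lit 78) (nat_lit 760) (nat_lit 0) (XT.lf (nat_lit 0) (nat_lit 25616438040) (nat_lit 456) (nat_lit 24520017454) (nat_lit 76) (nat_lit 1385420485) (nat_lit 135) (nat_lit 5) (nat_lit 141) (nat_lit 5) (nat_lit 136) (nat_lit 5) (nat_lit 363) (nat_lit 338) (nat_lit 199)) (XT.nd (nat_lit 78) (nat_lit 380) (nat_lit 0) (XT.lf (nat_lit 0) (nat_lit 21392269739) (nat_lit 380) (nat_lit 19006736509) (nat_lit 456) (nat_lit 12697822432) (nat_lit 130) (nat_lit 5) (nat_lit 135) (nat_lit 5) (nat_lit 136) (nat_lit 5) (nat_lit 364) (nat_lit 338) (nat_lit 198)) (XT.lf (nat_lit 0) (nat_lit 1684663062) (nat_lit 380) (nat_lit 39217279508) (nat_lit 76) (nat_lit 13832130935) (nat_lit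 125) (nat_lit 5) (nat_lit 130) (nat_lit 5) (nat_lit 126) (nat_lit 5) (nat_lit 365) (nat_lit 338) (nat_lit 197)))))) (XT.nd (nat_lit 468) (nat_lit 1444) (nat_lit 0) (XT.nd (nat_lit 234) (nat_lit 988) (nat_lit 0) (XT.nd (nat_lit 78) (nat_lit 304) (nat_lit 0) (XT.lf (nat_lit 0) (nat_lit 9169185334) (nat_lit 380) (nat_lit 7962921912) (nat_lit 456) (nat_lit 39299049921) (nat_lit 120) (nat_lit 5) (nat_lit 125) (nat_lit 5) (nat_lit 126) (nat_lit 5) (nat_lit 366) (nat_lit 338) (nat_lit 196)) (XT.nd (nat_lit 78) (nat_lit 0) (nat_lit 0) (XT.lf (nat_lit 0) (nat_lit 2375132724) (nat_lit 304) (nat_lit 31659778738) (nat_lit 380) (nat_lit 24157695411) (nat_lit 116) (nat_lit 5) (nat_lit 120) (nat_lit 5) (nat_lit 121) (nat_lit 5) (nat_lit 367) (nat_lit 338) (nat_lit 195)) (XT.lf (nat_lit 0) (nat_lit 52374928432) (nat_lit 380) (nat_lit 4659481470) (nat_lit 76) (nat_lit 2989958410) (nat_lit 116) (nat_lit 5) (nat_lit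 121) (nat_lit 5) (nat_lit 117) (nat_lit 5) (nat_lit 368) (nat_lit 338) (nat_lit 194)))) (XT.nd (nat_lit 78) (nat_lit 608) (nat_lit 0) (XT.lf (nat_lit 0) (nat_lit 10297235424) (nat_lit 380) (nat_lit 12322658966) (nat_lit 76) (nat_lit 39300972594) (nat_lit 111) (nat_lit 5) (nat_lit 116) (nat_lit 5) (nat_lit 112) (nat_lit 5) (nat_lit 369) (nat_lit 338) (nat_lit 193)) (XT.nd (nat_lit 78) (nat_lit 304) (nat_lit 0) (XT.lf (nat_lit 0) (nat_lit 29583489599) (nat_lit 380) (nat_lit 20508730672) (nat_lit 76) (nat_lit 13799686044) (nat_lit 107) (nat_lit 5) (nat_lit 112) (nat_lit 5) (nat_lit 108) (nat_lit 5) (nat_lit 370) (nat_lit 338) (nat_lit 192)) (XT.lf (nat_lit 0) (nat_lit 36655408622) (nat_lit 304) (nat_lit 13884391290) (nat_lit 380) (nat_lit 15400526593) (nat_lit 103) (nat_lit 5) (nat_lit 107) (nat_lit 5) (nat_lit 108) (nat_lit 5) (nat_lit 371) (nat_lit 338) (nat_lit 191))))) (XT.nd (nat_lit 234)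 (nat_lit 608) (nat_lit 0) (XT.nd (nat_lit 78) (nat_lit 532) (nat_lit 0) (XT.lf (nat_lit 0) (nat_lit 5097489582) (nat_lit 304) (nat_lit 38763530760) (nat_lit 76) (nat_lit 24206915762) (nat_lit 99) (nat_lit 5) (nat_lit 103) (nat_lit 5) (nat_lit 100) (nat_lit 5) (nat_lit 372) (nat_lit 338) (nat_lit 190)) (XT.nd (nat_lit 78) (nat_lit 228) (nat_lit 0) (XT.lf (nat_lit 0) (nat_lit 21254156464) (nat_lit 304) (nat_lit 5696731716) (nat_lit 380) (nat_lit 43326994996) (nat_lit 95) (nat_lit 5) (nat_lit 99) (nat_lit 5) (nat_lit 100) (nat_lit 5) (nat_lit 373) (nat_lit 338) (nat_lit 189)) (XT.lf (nat_lit 0) (nat_lit 12399734675) (nat_lit 228) (nat_lit 38347060434) (nat_lit 304) (nat_lit 21826038343) (nat_lit 92) (nat_lit 5) (nat_lit 95) (nat_lit 5) (nat_lit 96) (nat_lit 5) (nat_lit 374) (nat_lit 338) (nat_lit 188)))) (XT.nd (nat_lit 78) (nat_lit 228) (nat_lit 0) (XT.lf (nat_lit 0) (nat_lit 1343421421) (nat_lit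 380) (nat_lit 72045174171) (nat_lit 76) (nat_lit 1575477607) (nat_lit 87) (nat_lit 5) (nat_lit 92) (nat_lit 5) (nat_lit 88) (nat_lit 5) (nat_lit 375) (nat_lit 338) (nat_lit 187)) (XT.nd (nat_lit 78) (nat_lit 228) (nat_lit 0) (XT.lf (nat_lit 0) (nat_lit 26234120649) (nat_lit 380) (nat_lit 7650960575) (nat_lit 76) (nat_lit 43552886738) (nat_lit 87) (nat_lit 5) (nat_lit 92) (nat_lit 5) (nat_lit 88) (nat_lit 5) (nat_lit 376) (nat_lit 338) (nat_lit 186)) (XT.lf (nat_lit 0) (nat_lit 53033473402) (nat_lit 304) (nat_lit 18944468403) (nat_lit 76) (nat_lit 8037692943) (nat_lit 84) (nat_lit 5) (nat_lit 88) (nat_lit 5) (nat_lit 85) (nat_lit 5) (nat_lit 377) (nat_lit 338) (nat_lit 185))))))))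
noncomputable def xc108 : XT := (XT.nd (nat_lit 44850) (nat_lit 0) (nat_lit 2584) (XT.nd (nat_lit 43914) (nat_lit 0) (nat_lit 11324) (XT.nd (nat_lit 390) (nat_lit 988) (nat_lit 0) (XT.nd (nat_lit 156) (nat_lit 456) (nat_lit 0) (XT.nd (nat_lit 78) (nat_lit 304) (nat_lit 0) (XT.lf (nat_lit 0) (nat_lit 51324309811) (nat_lit 228) (nat_lit 30760948422) (nat_lit 304) (nat_lit 609553506) (nat_lit 81) (nat_lit 5) (nat_lit 84) (nat_lit 5) (nat_lit 85) (nat_lit 5) (nat_lit 378) (nat_lit 338) (nat_lit 184)) (XT.lf (nat_lit 0) (nat_lit 27266022834) (nat_lit 304) (nat_lit 45086279151) (nat_lit 76) (nat_lit 13126452584) (nat_lit 77) (nat_lit 5) (nat_lit 81) (nat_lit 5) (nat_lit 78) (nat_lit 5) (nat_lit 379) (nat_lit 338) (nat_lit 183))) (XT.nd (nat_lit 78) (nat_lit 228) (nat_lit 0) (XT.lf (nat_lit 0) (nat_lit 28234305357) (nat_lit 228) (nat_lit 29194269961) (nat_lit 304) (nat_lit 30945964757) (nat_lit 74)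 (nat_lit 5) (nat_lit 77) (nat_lit 5) (nat_lit 78) (nat_lit 5) (nat_lit 380) (nat_lit 338) (nat_lit 182)) (XT.nd (nat_lit 78) (nat_lit 76) (nat_lit 0) (XT.lf (nat_lit 0) (nat_lit 14889159988) (nat_lit 152) (nat_lit 74974645756) (nat_lit 228) (nat_lit 1528373273) (nat_lit 72) (nat_lit 5) (nat_lit 74) (nat_lit 5) (nat_lit 75) (nat_lit 5) (nat_lit 381) (nat_lit 338) (nat_lit 181)) (XT.lf (nat_lit 0) (nat_lit 29704848993) (nat_lit 228) (nat_lit 202021772) (nat_lit 76) (nat_lit 64617832772) (nat_lit 71) (nat_lit 5) (nat_lit 74) (nat_lit 5) (nat_lit 72) (nat_lit 5) (nat_lit 382) (nat_lit 338) (nat_lit 180))))) (XT.nd (nat_lit 234) (nat_lit 304) (nat_lit 0) (XT.nd (nat_lit 78) (nat_lit 456) (nat_lit 0) (XT.lf (nat_lit 0) (nat_lit 63424887041) (nat_lit 304) (nat_lit 16480057248) (nat_lit 76) (nat_lit 17879753700) (nat_lit 68) (nat_lit 5) (nat_lit 72) (nat_lit 5) (nat_lit 69) (nat_lit 5) (nat_lit 383)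 (nat_lit 338) (nat_lit 179)) (XT.nd (nat_lit 78) (nat_lit 304) (nat_lit 0) (XT.lf (nat_lit 0) (nat_lit 66679072569) (nat_lit 152) (nat_lit 33094719717) (nat_lit 228) (nat_lit 1405614480) (nat_lit 66) (nat_lit 5) (nat_lit 68) (nat_lit 5) (nat_lit 69) (nat_lit 5) (nat_lit 384) (nat_lit 338) (nat_lit 178)) (XT.lf (nat_lit 0) (nat_lit 33364913425) (nat_lit 304) (nat_lit 54620319730) (nat_lit 76) (nat_lit 16724553232) (nat_lit 62) (nat_lit 5) (nat_lit 66) (nat_lit 5) (nat_lit 63) (nat_lit 5) (nat_lit 385) (nat_lit 338) (nat_lit 177)))) (XT.nd (nat_lit 78) (nat_lit 152) (nat_lit 0) (XT.lf (nat_lit 0) (nat_lit 31482973895) (nat_lit 152) (nat_lit 39355571869) (nat_lit 228) (nat_lit 37547912762) (nat_lit 60) (nat_lit 5) (nat_lit 62) (nat_lit 5) (nat_lit 63) (nat_lit 5) (nat_lit 386) (nat_lit 338) (nat_lit 176)) (XT.nd (nat_lit 43134) (nat_lit 0) (nat_lit 13832) (XT.lf (nat_lit 0) (nat_lit 10893964650)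 (nat_lit 152) (nat_lit 100075064597) (nat_lit 228) (nat_lit 1254440412) (nat_lit 58) (nat_lit 5) (nat_lit 60) (nat_lit 5) (nat_lit 61) (nat_lit 5) (nat_lit 387) (nat_lit 338) (nat_lit 175)) (XT.lf (nat_lit 0) (nat_lit 6587125344) (nat_lit 0) (nat_lit 6587125344) (nat_lit 1140) (nat_lit 519275273) (nat_lit 240) (nat_lit 5) (nat_lit 240) (nat_lit 3) (nat_lit 255) (nat_lit 3) (nat_lit 339) (nat_lit 339) (nat_lit 222)))))) (XT.nd (nat_lit 468) (nat_lit 1368) (nat_lit 0) (XT.nd (nat_lit 234) (nat_lit 0) (nat_lit 76) (XT.nd (nat_lit 78) (nat_lit 1140) (nat_lit 0) (XT.lf (nat_lit 76) (nat_lit 7458879768) (nat_lit 0) (nat_lit 19839589977) (nat_lit 1216) (nat_lit 764429060) (nat_lit 241) (nat_lit 5) (nat_lit 240) (nat_lit 5) (nat_lit 256) (nat_lit 5) (nat_lit 340) (nat_lit 339) (nat_lit 221)) (XT.nd (nat_lit 78) (nat_lit 1216) (nat_lit 0) (XT.lf (nat_lit 76) (nat_lit 1620442136) (nat_lit 0) (nat_lit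 26977461329) (nat_lit 1216) (nat_lit 165581433) (nat_lit 242) (nat_lit 5) (nat_lit 241) (nat_lit 5) (nat_lit 257) (nat_lit 5) (nat_lit 341) (nat_lit 339) (nat_lit 220)) (XT.lf (nat_lit 0) (nat_lit 859997697) (nat_lit 1216) (nat_lit 4318068746) (nat_lit 1292) (nat_lit 24308730862) (nat_lit 225) (nat_lit 5) (nat_lit 241) (nat_lit 5) (nat_lit 242) (nat_lit 5) (nat_lit 342) (nat_lit 339) (nat_lit 219)))) (XT.nd (nat_lit 78) (nat_lit 0) (nat_lit 76) (XT.lf (nat_lit 0) (nat_lit 2290025369) (nat_lit 1216) (nat_lit 10380492552) (nat_lit 1292) (nat_lit 17565015580) (nat_lit 226) (nat_lit 5) (nat_lit 242) (nat_lit 5) (nat_lit 243) (nat_lit 5) (nat_lit 343) (nat_lit 339) (nat_lit 218)) (XT.nd (nat_lit 78) (nat_lit 0) (nat_lit 76) (XT.lf (nat_lit 0) (nat_lit 4121615939) (nat_lit 1216) (nat_lit 16583444206) (nat_lit 1292) (nat_lit 10306749442) (nat_lit 227) (nat_lit 5) (nat_lit 243) (nat_lit 5) (nat_lit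 244) (nat_lit 5) (nat_lit 344) (nat_lit 339) (nat_lit 217)) (XT.lf (nat_lit 0) (nat_lit 6383288888) (nat_lit 1216) (nat_lit 22931396860) (nat_lit 1292) (nat_lit 2502063334) (nat_lit 228) (nat_lit 5) (nat_lit 244) (nat_lit 5) (nat_lit 245) (nat_lit 5) (nat_lit 345) (nat_lit 339) (nat_lit 216))))) (XT.nd (nat_lit 234) (nat_lit 1596) (nat_lit 0) (XT.nd (nat_lit 78) (nat_lit 0) (nat_lit 76) (XT.lf (nat_lit 76) (nat_lit 3163070486) (nat_lit 0) (nat_lit 5999607667) (nat_lit 1292) (nat_lit 23487122884) (nat_lit 229) (nat_lit 5) (nat_lit 228) (nat_lit 5) (nat_lit 245) (nat_lit 5) (nat_lit 346) (nat_lit 339) (nat_lit 215)) (XT.nd (nat_lit 78) (nat_lit 0) (nat_lit 76) (XT.lf (nat_lit 0) (nat_lit 12490237165) (nat_lit 1216) (nat_lit 2661329184) (nat_lit 1292) (nat_lit 18360667488) (nat_lit 229) (nat_lit 5) (nat_lit 245) (nat_lit 5) (nat_lit 246) (nat_lit 5) (nat_lit 347) (nat_lit 339) (nat_lit 214)) (XT.lf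 (nat_lit 0) (nat_lit 16380457947) (nat_lit 1216) (nat_lit 8555564314) (nat_lit 1292) (nat_lit 9469881553) (nat_lit 230) (nat_lit 5) (nat_lit 246) (nat_lit 5) (nat_lit 247) (nat_lit 5) (nat_lit 348) (nat_lit 339) (nat_lit 213)))) (XT.nd (nat_lit 78) (nat_lit 1748) (nat_lit 0) (XT.lf (nat_lit 76) (nat_lit 20746227555) (nat_lit 0) (nat_lit 92736353) (nat_lit 1292) (nat_lit 14494084016) (nat_lit 231) (nat_lit 5) (nat_lit 230) (nat_lit 5) (nat_lit 247) (nat_lit 5) (nat_lit 349) (nat_lit 339) (nat_lit 212)) (XT.nd (nat_lit 78) (nat_lit 608) (nat_lit 0) (XT.lf (nat_lit 0) (nat_lit 15433194310) (nat_lit 1216) (nat_lit 10568367474) (nat_lit 1292) (nat_lit 10290556133) (nat_lit 215) (nat_lit 5) (nat_lit 231) (nat_lit 5) (nat_lit 232) (nat_lit 5) (nat_lit 350) (nat_lit 339) (nat_lit 211)) (XT.lf (nat_lit 0) (nat_lit 10002630225) (nat_lit 608) (nat_lit 21811921380) (nat_lit 684) (nat_lit 5472825444) (nat_lit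 207) (nat_lit 5) (nat_lit 215) (nat_lit 5) (nat_lit 216) (nat_lit 5) (nat_lit 351) (nat_lit 339) (nat_lit 210))))))) (XT.nd (nat_lit 936) (nat_lit 3648) (nat_lit 0) (XT.nd (nat_lit 468) (nat_lit 2356) (nat_lit 0) (XT.nd (nat_lit 234) (nat_lit 1520) (nat_lit 0) (XT.nd (nat_lit 78) (nat_lit 684) (nat_lit 0) (XT.lf (nat_lit 0) (nat_lit 4449911981) (nat_lit 532) (nat_lit 33869101306) (nat_lit 608) (nat_lit 1364511) (nat_lit 200) (nat_lit 5) (nat_lit 207) (nat_lit 5) (nat_lit 208) (nat_lit 5) (nat_lit 352) (nat_lit 339) (nat_lit 209)) (XT.nd (nat_lit 78) (nat_lit 608) (nat_lit 0) (XT.lf (nat_lit 0) (nat_lit 6130036907) (nat_lit 608) (nat_lit 1338508226) (nat_lit 76) (nat_lit 31919876771) (nat_lit 199) (nat_lit 5) (nat_lit 207) (nat_lit 5) (nat_lit 200) (nat_lit 5) (nat_lit 353) (nat_lit 339) (nat_lit 208)) (XT.lf (nat_lit 0) (nat_lit 13082454167) (nat_lit 684) (nat_lit 7230102306) (nat_lit 76) (nat_lit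 20181880054) (nat_lit 191) (nat_lit 5) (nat_lit 200) (nat_lit 5) (nat_lit 192) (nat_lit 5) (nat_lit 354) (nat_lit 339) (nat_lit 207)))) (XT.nd (nat_lit 78) (nat_lit 988) (nat_lit 0) (XT.lf (nat_lit 0) (nat_lit 20814365657) (nat_lit 608) (nat_lit 13274583472) (nat_lit 76) (nat_lit 7553849346) (nat_lit 184) (nat_lit 5) (nat_lit 192) (nat_lit 5) (nat_lit 185) (nat_lit 5) (nat_lit 355) (nat_lit 339) (nat_lit 206)) (XT.nd (nat_lit 78) (nat_lit 456) (nat_lit 0) (XT.lf (nat_lit 0) (nat_lit 23295010217) (nat_lit 532) (nat_lit 6137251282) (nat_lit 608) (nat_lit 13401338020) (nat_lit 177) (nat_lit 5) (nat_lit 184) (nat_lit 5) (nat_lit 185) (nat_lit 5) (nat_lit 356) (nat_lit 339) (nat_lit 205)) (XT.lf (nat_lit 0) (nat_lit 18012667054) (nat_lit 456) (nat_lit 20998119343) (nat_lit 532) (nat_lit 5057264728) (nat_lit 171) (nat_lit 5) (nat_lit 177) (nat_lit 5) (nat_lit 178) (nat_lit 5) (nat_lit 357) (nat_lit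 339) (nat_lit 204))))) (XT.nd (nat_lit 234) (nat_lit 912) (nat_lit 0) (XT.nd (nat_lit 78) (nat_lit 912) (nat_lit 0) (XT.lf (nat_lit 0) (nat_lit 4096682053) (nat_lit 532) (nat_lit 32800908735) (nat_lit 76) (nat_lit 8451620257) (nat_lit 164) (nat_lit 5) (nat_lit 171) (nat_lit 5) (nat_lit 165) (nat_lit 5) (nat_lit 358) (nat_lit 339) (nat_lit 203)) (XT.nd (nat_lit 78) (nat_lit 456) (nat_lit 0) (XT.lf (nat_lit 0) (nat_lit 6802456175) (nat_lit 456) (nat_lit 7346189272) (nat_lit 532) (nat_lit 32527936250) (nat_lit 158) (nat_lit 5) (nat_lit 164) (nat_lit 5) (nat_lit 165) (nat_lit 5) (nat_lit 359) (nat_lit 339) (nat_lit 202)) (XT.lf (nat_lit 0) (nat_lit 790780425) (nat_lit 456) (nat_lit 24484569316) (nat_lit 532) (nat_lit 22777808986) (nat_lit 152) (nat_lit 5) (nat_lit 158) (nat_lit 5) (nat_lit 159) (nat_lit 5) (nat_lit 360) (nat_lit 339) (nat_lit 201)))) (XT.nd (nat_lit 78) (nat_lit 912) (nat_lit 0)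 (XT.lf (nat_lit 0) (nat_lit 37503715855) (nat_lit 532) (nat_lit 5307761423) (nat_lit 76) (nat_lit 6670729558) (nat_lit 152) (nat_lit 5) (nat_lit 159) (nat_lit 5) (nat_lit 153) (nat_lit 5) (nat_lit 361) (nat_lit 339) (nat_lit 200)) (XT.nd (nat_lit 78) (nat_lit 456) (nat_lit 0) (XT.lf (nat_lit 0) (nat_lit 139200) (nat_lit 456) (nat_lit 11705184372) (nat_lit 76) (nat_lit 39258763793) (nat_lit 146) (nat_lit 5) (nat_lit 152) (nat_lit 5) (nat_lit 147) (nat_lit 5) (nat_lit 362) (nat_lit 339) (nat_lit 199)) (XT.lf (nat_lit 0) (nat_lit 12918831434) (nat_lit 532) (nat_lit 18523969675) (nat_lit 76) (nat_lit 21056038705) (nat_lit 140) (nat_lit 5) (nat_lit 147) (nat_lit 5) (nat_lit 141) (nat_lit 5) (nat_lit 363) (nat_lit 339) (nat_lit 198)))))) (XT.nd (nat_lit 468) (nat_lit 1824) (nat_lit 0) (XT.nd (nat_lit 234) (nat_lit 684) (nat_lit 0) (XT.nd (nat_lit 78) (nat_lit 760) (nat_lit 0) (XT.lf (nat_lit 0) (nat_lit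 27008349058) (nat_lit 456) (nat_lit 25600339077) (nat_lit 76) (nat_lit 1485896725) (nat_lit 135) (nat_lit 5) (nat_lit 141) (nat_lit 5) (nat_lit 136) (nat_lit 5) (nat_lit 364) (nat_lit 339) (nat_lit 197)) (XT.nd (nat_lit 78) (nat_lit 380) (nat_lit 0) (XT.lf (nat_lit 0) (nat_lit 22603386609) (nat_lit 380) (nat_lit 19922729326) (nat_lit 456) (nat_lit 13222289640) (nat_lit 130) (nat_lit 5) (nat_lit 135) (nat_lit 5) (nat_lit 136) (nat_lit 5) (nat_lit 365) (nat_lit 339) (nat_lit 196)) (XT.lf (nat_lit 0) (nat_lit 1873689193) (nat_lit 380) (nat_lit 41035714384) (nat_lit 76) (nat_lit 14558183807) (nat_lit 125) (nat_lit 5) (nat_lit 130) (nat_lit 5) (nat_lit 126) (nat_lit 5) (nat_lit 366) (nat_lit 339) (nat_lit 195)))) (XT.nd (nat_lit 78) (nat_lit 304) (nat_lit 0) (XT.lf (nat_lit 0) (nat_lit 9765990999) (nat_lit 380) (nat_lit 8323854316) (nat_lit 456) (nat_lit 41159791912) (nat_lit 120) (nat_lit 5) (nat_lit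 125) (nat_lit 5) (nat_lit 126) (nat_lit 5) (nat_lit 367) (nat_lit 339) (nat_lit 194)) (XT.nd (nat_lit 78) (nat_lit 0) (nat_lit 0) (XT.lf (nat_lit 0) (nat_lit 2630912194) (nat_lit 304) (nat_lit 33203719538) (nat_lit 380) (nat_lit 25264624514) (nat_lit 116) (nat_lit 5) (nat_lit 120) (nat_lit 5) (nat_lit 121) (nat_lit 5) (nat_lit 368) (nat_lit 339) (nat_lit 193)) (XT.lf (nat_lit 0) (nat_lit 55087341570) (nat_lit 380) (nat_lit 4759476067) (nat_lit 76) (nat_lit 3175919346) (nat_lit 116) (nat_lit 5) (nat_lit 121) (nat_lit 5) (nat_lit 117) (nat_lit 5) (nat_lit 369) (nat_lit 339) (nat_lit 192))))) (XT.nd (nat_lit 234) (nat_lit 836) (nat_lit 0) (XT.nd (nat_lit 78) (nat_lit 608) (nat_lit 0) (XT.lf (nat_lit 0) (nat_lit 10903477866) (nat_lit 380) (nat_lit 12807768865) (nat_lit 76) (nat_lit 41302885433) (nat_lit 111) (nat_lit 5) (nat_lit 116) (nat_lit 5) (nat_lit 112) (nat_lit 5) (nat_lit 370) (nat_lit 339)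 (nat_lit 191)) (XT.nd (nat_lit 78) (nat_lit 304) (nat_lit 0) (XT.lf (nat_lit 0) (nat_lit 31151291695) (nat_lit 380) (nat_lit 21404592363) (nat_lit 76) (nat_lit 14527923747) (nat_lit 107) (nat_lit 5) (nat_lit 112) (nat_lit 5) (nat_lit 108) (nat_lit 5) (nat_lit 371) (nat_lit 339) (nat_lit 190)) (XT.lf (nat_lit 0) (nat_lit 38614039659) (nat_lit 304) (nat_lit 14538367351) (nat_lit 380) (nat_lit 16082333976) (nat_lit 103) (nat_lit 5) (nat_lit 107) (nat_lit 5) (nat_lit 108) (nat_lit 5) (nat_lit 372) (nat_lit 339) (nat_lit 189)))) (XT.nd (nat_lit 78) (nat_lit 532) (nat_lit 0) (XT.lf (nat_lit 0) (nat_lit 5436322373) (nat_lit 304) (nat_lit 40575601199) (nat_lit 76) (nat_lit 25456859767) (nat_lit 99) (nat_lit 5) (nat_lit 103) (nat_lit 5) (nat_lit 100) (nat_lit 5) (nat_lit 373) (nat_lit 339) (nat_lit 188)) (XT.nd (nat_lit 78) (nat_lit 228) (nat_lit 0) (XT.lf (nat_lit 0) (nat_lit 22439355580) (nat_lit 304)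 (nat_lit 5940214768) (nat_lit 380) (nat_lit 45409743502) (nat_lit 95) (nat_lit 5) (nat_lit 99) (nat_lit 5) (nat_lit 100) (nat_lit 5) (nat_lit 374) (nat_lit 339) (nat_lit 187)) (XT.lf (nat_lit 0) (nat_lit 13140708262) (nat_lit 228) (nat_lit 40222242244) (nat_lit 304) (nat_lit 22836132194) (nat_lit 92) (nat_lit 5) (nat_lit 95) (nat_lit 5) (nat_lit 96) (nat_lit 5) (nat_lit 375) (nat_lit 339) (nat_lit 186))))))))
noncomputable def xc109 : XT := (XT.nd (nat_lit 45006) (nat_lit 0) (nat_lit 2660) (XT.nd (nat_lit 44070) (nat_lit 0) (nat_lit 11780) (XT.nd (nat_lit 468) (nat_lit 1064) (nat_lit 0) (XT.nd (nat_lit 234) (nat_lit 760) (nat_lit 0) (XT.nd (nat_lit 78) (nat_lit 228) (nat_lit 0) (XT.lf (nat_lit 0) (nat_lit 1487973784) (nat_lit 380) (nat_lit 75526418113) (nat_lit 76) (nat_lit 1695537676) (nat_lit 87) (nat_lit 5) (nat_lit 92) (nat_lit 5) (nat_lit 88) (nat_lit 5) (nat_lit 376) (nat_lit 339) (nat_lit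 185)) (XT.nd (nat_lit 78) (nat_lit 228) (nat_lit 0) (XT.lf (nat_lit 0) (nat_lit 27619523150) (nat_lit 380) (nat_lit 7918256445) (nat_lit 76) (nat_lit 45769851255) (nat_lit 87) (nat_lit 5) (nat_lit 92) (nat_lit 5) (nat_lit 88) (nat_lit 5) (nat_lit 377) (nat_lit 339) (nat_lit 184)) (XT.lf (nat_lit 0) (nat_lit 55756801393) (nat_lit 304) (nat_lit 19777973094) (nat_lit 76) (nat_lit 8479468924) (nat_lit 84) (nat_lit 5) (nat_lit 88) (nat_lit 5) (nat_lit 85) (nat_lit 5) (nat_lit 378) (nat_lit 339) (nat_lit 183)))) (XT.nd (nat_lit 78) (nat_lit 532) (nat_lit 0) (XT.lf (nat_lit 0) (nat_lit 54000984306) (nat_lit 228) (nat_lit 32257840849) (nat_lit 304) (nat_lit 568625723) (nat_lit 81) (nat_lit 5) (nat_lit 84) (nat_lit 5) (nat_lit 85) (nat_lit 5) (nat_lit 379) (nat_lit 339) (nat_lit 182)) (XT.nd (nat_lit 78) (nat_lit 228) (nat_lit 0) (XT.lf (nat_lit 0) (nat_lit 28697440307) (nat_lit 304) (nat_lit 47230267150)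 (nat_lit 76) (nat_lit 13822920704) (nat_lit 77) (nat_lit 5) (nat_lit 81) (nat_lit 5) (nat_lit 78) (nat_lit 5) (nat_lit 380) (nat_lit 339) (nat_lit 181)) (XT.lf (nat_lit 0) (nat_lit 29753184112) (nat_lit 228) (nat_lit 30612722790) (nat_lit 304) (nat_lit 32425363429) (nat_lit 74) (nat_lit 5) (nat_lit 77) (nat_lit 5) (nat_lit 78) (nat_lit 5) (nat_lit 381) (nat_lit 339) (nat_lit 180))))) (XT.nd (nat_lit 234) (nat_lit 608) (nat_lit 0) (XT.nd (nat_lit 78) (nat_lit 304) (nat_lit 0) (XT.lf (nat_lit 0) (nat_lit 15739263911) (nat_lit 152) (nat_lit 78681889978) (nat_lit 228) (nat_lit 1538690617) (nat_lit 72) (nat_lit 5) (nat_lit 74) (nat_lit 5) (nat_lit 75) (nat_lit 5) (nat_lit 382) (nat_lit 339) (nat_lit 179)) (XT.nd (nat_lit 78) (nat_lit 228) (nat_lit 0) (XT.lf (nat_lit 0) (nat_lit 31251816628) (nat_lit 228) (nat_lit 110261927) (nat_lit 76) (nat_lit 67886991087) (nat_lit 71) (nat_lit 5) (nat_lit 74)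 (nat_lit 5) (nat_lit 72) (nat_lit 5) (nat_lit 383) (nat_lit 339) (nat_lit 178)) (XT.lf (nat_lit 0) (nat_lit 66656245220) (nat_lit 304) (nat_lit 17203687255) (nat_lit 76) (nat_lit 18812180507) (nat_lit 68) (nat_lit 5) (nat_lit 72) (nat_lit 5) (nat_lit 69) (nat_lit 5) (nat_lit 384) (nat_lit 339) (nat_lit 177)))) (XT.nd (nat_lit 78) (nat_lit 456) (nat_lit 0) (XT.lf (nat_lit 0) (nat_lit 70110521886) (nat_lit 152) (nat_lit 34710148468) (nat_lit 228) (nat_lit 1415945393) (nat_lit 66) (nat_lit 5) (nat_lit 68) (nat_lit 5) (nat_lit 69) (nat_lit 5) (nat_lit 385) (nat_lit 339) (nat_lit 176)) (XT.nd (nat_lit 78) (nat_lit 152) (nat_lit 0) (XT.lf (nat_lit 0) (nat_lit 35090435823) (nat_lit 304) (nat_lit 57254136426) (nat_lit 76) (nat_lit 17598970633) (nat_lit 62) (nat_lit 5) (nat_lit 66) (nat_lit 5) (nat_lit 63) (nat_lit 5) (nat_lit 386) (nat_lit 339) (nat_lit 175)) (XT.lf (nat_lit 0) (nat_lit 33151535682)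 (nat_lit 152) (nat_lit 41284394190) (nat_lit 228) (nat_lit 39368174046) (nat_lit 60) (nat_lit 5) (nat_lit 62) (nat_lit 5) (nat_lit 63) (nat_lit 5) (nat_lit 387) (nat_lit 339) (nat_lit 174)))))) (XT.nd (nat_lit 468) (nat_lit 760) (nat_lit 0) (XT.nd (nat_lit 234) (nat_lit 0) (nat_lit 0) (XT.nd (nat_lit 78) (nat_lit 1140) (nat_lit 0) (XT.lf (nat_lit 0) (nat_lit 6985210924) (nat_lit 0) (nat_lit 6985210924) (nat_lit 1140) (nat_lit 403566343) (nat_lit 240) (nat_lit 5) (nat_lit 240) (nat_lit 3) (nat_lit 255) (nat_lit 3) (nat_lit 340) (nat_lit 340) (nat_lit 220)) (XT.nd (nat_lit 78) (nat_lit 1140) (nat_lit 0) (XT.lf (nat_lit 76) (nat_lit 7974812161) (nat_lit 0) (nat_lit 20950523105) (nat_lit 1216) (nat_lit 532678206) (nat_lit 241) (nat_lit 5) (nat_lit 240) (nat_lit 5) (nat_lit 256) (nat_lit 5) (nat_lit 341) (nat_lit 340) (nat_lit 219)) (XT.lf (nat_lit 0) (nat_lit 81966381) (nat_lit 1216) (nat_lit 28345540224)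 (nat_lit 1292) (nat_lit 1766470598) (nat_lit 225) (nat_lit 5) (nat_lit 241) (nat_lit 5) (nat_lit 242) (nat_lit 5) (nat_lit 342) (nat_lit 340) (nat_lit 218)))) (XT.nd (nat_lit 78) (nat_lit 0) (nat_lit 76) (XT.lf (nat_lit 0) (nat_lit 1143411146) (nat_lit 1216) (nat_lit 4388273686) (nat_lit 1292) (nat_lit 25422088456) (nat_lit 225) (nat_lit 5) (nat_lit 241) (nat_lit 5) (nat_lit 242) (nat_lit 5) (nat_lit 343) (nat_lit 340) (nat_lit 217)) (XT.nd (nat_lit 78) (nat_lit 0) (nat_lit 76) (XT.lf (nat_lit 0) (nat_lit 2633998699) (nat_lit 1216) (nat_lit 10750087432) (nat_lit 1292) (nat_lit 18356195621) (nat_lit 226) (nat_lit 5) (nat_lit 242) (nat_lit 5) (nat_lit 243) (nat_lit 5) (nat_lit 344) (nat_lit 340) (nat_lit 216)) (XT.lf (nat_lit 0) (nat_lit 4546917829) (nat_lit 1216) (nat_lit 17260015484) (nat_lit 1292) (nat_lit 10748752727) (nat_lit 227) (nat_lit 5) (nat_lit 243) (nat_lit 5) (nat_lit 244) (nat_lit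 5) (nat_lit 345) (nat_lit 340) (nat_lit 215))))) (XT.nd (nat_lit 234) (nat_lit 988) (nat_lit 0) (XT.nd (nat_lit 78) (nat_lit 0) (nat_lit 0) (XT.lf (nat_lit 0) (nat_lit 6912064379) (nat_lit 1216) (nat_lit 23922707198) (nat_lit 1292) (nat_lit 2566395775) (nat_lit 228) (nat_lit 5) (nat_lit 244) (nat_lit 5) (nat_lit 245) (nat_lit 5) (nat_lit 346) (nat_lit 340) (nat_lit 214)) (XT.nd (nat_lit 78) (nat_lit 0) (nat_lit 76) (XT.lf (nat_lit 76) (nat_lit 3472033032) (nat_lit 0) (nat_lit 6349858266) (nat_lit 1292) (nat_lit 24454242794) (nat_lit 229) (nat_lit 5) (nat_lit 228) (nat_lit 5) (nat_lit 245) (nat_lit 5) (nat_lit 347) (nat_lit 340) (nat_lit 213)) (XT.lf (nat_lit 0) (nat_lit 13305792841) (nat_lit 1216) (nat_lit 2644443979) (nat_lit 1292) (nat_lit 19231758708) (nat_lit 229) (nat_lit 5) (nat_lit 245) (nat_lit 5) (nat_lit 246) (nat_lit 5) (nat_lit 348) (nat_lit 340) (nat_lit 212)))) (XT.nd (nat_lit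 78) (nat_lit 1140) (nat_lit 0) (XT.lf (nat_lit 0) (nat_lit 17382465116) (nat_lit 1216) (nat_lit 8831713437) (nat_lit 1292) (nat_lit 9906417889) (nat_lit 230) (nat_lit 5) (nat_lit 246) (nat_lit 5) (nat_lit 247) (nat_lit 5) (nat_lit 349) (nat_lit 340) (nat_lit 211)) (XT.nd (nat_lit 78) (nat_lit 1140) (nat_lit 0) (XT.lf (nat_lit 76) (nat_lit 21930821608) (nat_lit 0) (nat_lit 125777002) (nat_lit 1292) (nat_lit 15037723464) (nat_lit 231) (nat_lit 5) (nat_lit 230) (nat_lit 5) (nat_lit 247) (nat_lit 5) (nat_lit 350) (nat_lit 340) (nat_lit 210)) (XT.lf (nat_lit 0) (nat_lit 16353404161) (nat_lit 1216) (nat_lit 11116724116) (nat_lit 1292) (nat_lit 10631438359) (nat_lit 215) (nat_lit 5) (nat_lit 231) (nat_lit 5) (nat_lit 232) (nat_lit 5) (nat_lit 351) (nat_lit 340) (nat_lit 209))))))) (XT.nd (nat_lit 936) (nat_lit 3876) (nat_lit 0) (XT.nd (nat_lit 468) (nat_lit 2356) (nat_lit 0) (XT.nd (nat_lit 234) (nat_lit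 1672) (nat_lit 0) (XT.nd (nat_lit 78) (nat_lit 608) (nat_lit 0) (XT.lf (nat_lit 0) (nat_lit 10652249225) (nat_lit 608) (nat_lit 22914749539) (nat_lit 684) (nat_lit 5579797907) (nat_lit 207) (nat_lit 5) (nat_lit 215) (nat_lit 5) (nat_lit 216) (nat_lit 5) (nat_lit 352) (nat_lit 340) (nat_lit 208)) (XT.nd (nat_lit 78) (nat_lit 0) (nat_lit 0) (XT.lf (nat_lit 0) (nat_lit 155574263) (nat_lit 608) (nat_lit 35410636828) (nat_lit 76) (nat_lit 4665386355) (nat_lit 199) (nat_lit 5) (nat_lit 207) (nat_lit 5) (nat_lit 200) (nat_lit 5) (nat_lit 353) (nat_lit 340) (nat_lit 207)) (XT.lf (nat_lit 0) (nat_lit 6586042603) (nat_lit 608) (nat_lit 1259396962) (nat_lit 76) (nat_lit 33507832334) (nat_lit 199) (nat_lit 5) (nat_lit 207) (nat_lit 5) (nat_lit 200) (nat_lit 5) (nat_lit 354) (nat_lit 340) (nat_lit 206)))) (XT.nd (nat_lit 78) (nat_lit 1064) (nat_lit 0) (XT.lf (nat_lit 0) (nat_lit 13880306808) (nat_lit 684)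 (nat_lit 7445344281) (nat_lit 76) (nat_lit 21189113475) (nat_lit 191) (nat_lit 5) (nat_lit 200) (nat_lit 5) (nat_lit 192) (nat_lit 5) (nat_lit 355) (nat_lit 340) (nat_lit 205)) (XT.nd (nat_lit 78) (nat_lit 532) (nat_lit 0) (XT.lf (nat_lit 0) (nat_lit 21993371971) (nat_lit 608) (nat_lit 13792053291) (nat_lit 76) (nat_lit 7935286504) (nat_lit 184) (nat_lit 5) (nat_lit 192) (nat_lit 5) (nat_lit 185) (nat_lit 5) (nat_lit 356) (nat_lit 340) (nat_lit 204)) (XT.lf (nat_lit 0) (nat_lit 24601827588) (nat_lit 532) (nat_lit 6435115507) (nat_lit 608) (nat_lit 13934270067) (nat_lit 177) (nat_lit 5) (nat_lit 184) (nat_lit 5) (nat_lit 185) (nat_lit 5) (nat_lit 357) (nat_lit 340) (nat_lit 203))))) (XT.nd (nat_lit 234) (nat_lit 912) (nat_lit 0) (XT.nd (nat_lit 78) (nat_lit 988) (nat_lit 0) (XT.lf (nat_lit 0) (nat_lit 19055160703) (nat_lit 456) (nat_lit 22034342965) (nat_lit 532) (nat_lit 5178033934) (nat_lit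 171) (nat_lit 5) (nat_lit 177) (nat_lit 5) (nat_lit 178) (nat_lit 5) (nat_lit 358) (nat_lit 340) (nat_lit 202)) (XT.nd (nat_lit 78) (nat_lit 456) (nat_lit 0) (XT.lf (nat_lit 0) (nat_lit 4426364968) (nat_lit 532) (nat_lit 34296934054) (nat_lit 76) (nat_lit 8889561700) (nat_lit 164) (nat_lit 5) (nat_lit 171) (nat_lit 5) (nat_lit 165) (nat_lit 5) (nat_lit 359) (nat_lit 340) (nat_lit 201)) (XT.lf (nat_lit 0) (nat_lit 7282470793) (nat_lit 456) (nat_lit 7693855283) (nat_lit 532) (nat_lit 34030414960) (nat_lit 158) (nat_lit 5) (nat_lit 164) (nat_lit 5) (nat_lit 165) (nat_lit 5) (nat_lit 360) (nat_lit 340) (nat_lit 200)))) (XT.nd (nat_lit 78) (nat_lit 456) (nat_lit 0) (XT.lf (nat_lit 0) (nat_lit 969582426) (nat_lit 456) (nat_lit 25685575561) (nat_lit 532) (nat_lit 23797118125) (nat_lit 152) (nat_lit 5) (nat_lit 158) (nat_lit 5) (nat_lit 159) (nat_lit 5) (nat_lit 361) (nat_lit 340) (nat_lit 199)) (XT.nd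 (nat_lit 78) (nat_lit 456) (nat_lit 0) (XT.lf (nat_lit 0) (nat_lit 39489629252) (nat_lit 532) (nat_lit 5437358727) (nat_lit 76) (nat_lit 7025950867) (nat_lit 152) (nat_lit 5) (nat_lit 159) (nat_lit 5) (nat_lit 153) (nat_lit 5) (nat_lit 362) (nat_lit 340) (nat_lit 198)) (XT.lf (nat_lit 0) (nat_lit 107978333) (nat_lit 456) (nat_lit 12156346922) (nat_lit 76) (nat_lit 41244679268) (nat_lit 146) (nat_lit 5) (nat_lit 152) (nat_lit 5) (nat_lit 147) (nat_lit 5) (nat_lit 363) (nat_lit 340) (nat_lit 197)))))) (XT.nd (nat_lit 468) (nat_lit 1596) (nat_lit 0) (XT.nd (nat_lit 234) (nat_lit 1064) (nat_lit 0) (XT.nd (nat_lit 78) (nat_lit 760) (nat_lit 0) (XT.lf (nat_lit 0) (nat_lit 13668975227) (nat_lit 532) (nat_lit 19316999950) (nat_lit 76) (nat_lit 22134630802) (nat_lit 140) (nat_lit 5) (nat_lit 147) (nat_lit 5) (nat_lit 141) (nat_lit 5) (nat_lit 364) (nat_lit 340) (nat_lit 196)) (XT.nd (nat_lit 78) (nat_lit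 380) (nat_lit 0) (XT.lf (nat_lit 0) (nat_lit 28459527613) (nat_lit 456) (nat_lit 26748220656) (nat_lit 76) (nat_lit 1588495612) (nat_lit 135) (nat_lit 5) (nat_lit 141) (nat_lit 5) (nat_lit 136) (nat_lit 5) (nat_lit 365) (nat_lit 340) (nat_lit 195)) (XT.lf (nat_lit 0) (nat_lit 23861903680) (nat_lit 380) (nat_lit 20887714764) (nat_lit 456) (nat_lit 13783246377) (nat_lit 130) (nat_lit 5) (nat_lit 135) (nat_lit 5) (nat_lit 136) (nat_lit 5) (nat_lit 366) (nat_lit 340) (nat_lit 194)))) (XT.nd (nat_lit 78) (nat_lit 684) (nat_lit 0) (XT.lf (nat_lit 0) (nat_lit 2062423973) (nat_lit 380) (nat_lit 42958312711) (nat_lit 76) (nat_lit 15317336830) (nat_lit 125) (nat_lit 5) (nat_lit 130) (nat_lit 5) (nat_lit 126) (nat_lit 5) (nat_lit 367) (nat_lit 340) (nat_lit 193)) (XT.nd (nat_lit 78) (nat_lit 304) (nat_lit 0) (XT.lf (nat_lit 0) (nat_lit 10379774811) (nat_lit 380) (nat_lit 8706293116) (nat_lit 456) (nat_lit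 43123259509) (nat_lit 120) (nat_lit 5) (nat_lit 125) (nat_lit 5) (nat_lit 126) (nat_lit 5) (nat_lit 368) (nat_lit 340) (nat_lit 192)) (XT.lf (nat_lit 0) (nat_lit 2886741553) (nat_lit 304) (nat_lit 34828487704) (nat_lit 380) (nat_lit 26436285972) (nat_lit 116) (nat_lit 5) (nat_lit 120) (nat_lit 5) (nat_lit 121) (nat_lit 5) (nat_lit 369) (nat_lit 340) (nat_lit 191))))) (XT.nd (nat_lit 234) (nat_lit 912) (nat_lit 0) (XT.nd (nat_lit 78) (nat_lit 684) (nat_lit 0) (XT.lf (nat_lit 0) (nat_lit 57926667120) (nat_lit 380) (nat_lit 4876833565) (nat_lit 76) (nat_lit 3367788344) (nat_lit 116) (nat_lit 5) (nat_lit 121) (nat_lit 5) (nat_lit 117) (nat_lit 5) (nat_lit 370) (nat_lit 340) (nat_lit 190)) (XT.nd (nat_lit 78) (nat_lit 304) (nat_lit 0) (XT.lf (nat_lit 0) (nat_lit 11531536722) (nat_lit 380) (nat_lit 13329315541) (nat_lit 76) (nat_lit 43401466629) (nat_lit 111) (nat_lit 5) (nat_lit 116) (nat_lit 5)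 (nat_lit 112) (nat_lit 5) (nat_lit 371) (nat_lit 340) (nat_lit 189)) (XT.lf (nat_lit 0) (nat_lit 32789244139) (nat_lit 380) (nat_lit 22357293780) (nat_lit 76) (nat_lit 15289016895) (nat_lit 107) (nat_lit 5) (nat_lit 112) (nat_lit 5) (nat_lit 108) (nat_lit 5) (nat_lit 372) (nat_lit 340) (nat_lit 188)))) (XT.nd (nat_lit 78) (nat_lit 608) (nat_lit 0) (XT.lf (nat_lit 0) (nat_lit 40658900921) (nat_lit 304) (nat_lit 15228783674) (nat_lit 380) (nat_lit 16806433490) (nat_lit 103) (nat_lit 5) (nat_lit 107) (nat_lit 5) (nat_lit 108) (nat_lit 5) (nat_lit 373) (nat_lit 340) (nat_lit 187)) (XT.nd (nat_lit 78) (nat_lit 304) (nat_lit 0) (XT.lf (nat_lit 0) (nat_lit 5784291156) (nat_lit 304) (nat_lit 42489999310) (nat_lit 76) (nat_lit 26765619505) (nat_lit 99) (nat_lit 5) (nat_lit 103) (nat_lit 5) (nat_lit 100) (nat_lit 5) (nat_lit 374) (nat_lit 340) (nat_lit 186)) (XT.lf (nat_lit 0) (nat_lit 23672426572) (nat_lit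 304) (nat_lit 6199716632) (nat_lit 380) (nat_lit 47604401884) (nat_lit 95) (nat_lit 5) (nat_lit 99) (nat_lit 5) (nat_lit 100) (nat_lit 5) (nat_lit 375) (nat_lit 340) (nat_lit 185))))))))
noncomputable def xc110 : XT := (XT.nd (nat_lit 45006) (nat_lit 0) (nat_lit 2812) (XT.nd (nat_lit 858) (nat_lit 304) (nat_lit 0) (XT.nd (nat_lit 390) (nat_lit 1140) (nat_lit 0) (XT.nd (nat_lit 156) (nat_lit 456) (nat_lit 0) (XT.nd (nat_lit 78) (nat_lit 380) (nat_lit 0) (XT.lf (nat_lit 0) (nat_lit 13907482318) (nat_lit 228) (nat_lit 42195103824) (nat_lit 304) (nat_lit 23904280695) (nat_lit 92) (nat_lit 5) (nat_lit 95) (nat_lit 5) (nat_lit 96) (nat_lit 5) (nat_lit 376) (nat_lit 340) (nat_lit 184)) (XT.lf (nat_lit 0) (nat_lit 1632559586) (nat_lit 380) (nat_lit 79192975058) (nat_lit 76) (nat_lit 1817762350) (nat_lit 87) (nat_lit 5) (nat_lit 92) (nat_lit 5) (nat_lit 88) (nat_lit 5) (nat_lit 377) (nat_lit 340) (nat_lit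 183))) (XT.nd (nat_lit 78) (nat_lit 456) (nat_lit 0) (XT.lf (nat_lit 0) (nat_lit 29067344177) (nat_lit 380) (nat_lit 8209632162) (nat_lit 76) (nat_lit 48094008380) (nat_lit 87) (nat_lit 5) (nat_lit 92) (nat_lit 5) (nat_lit 88) (nat_lit 5) (nat_lit 378) (nat_lit 340) (nat_lit 182)) (XT.nd (nat_lit 78) (nat_lit 228) (nat_lit 0) (XT.lf (nat_lit 0) (nat_lit 58609634045) (nat_lit 304) (nat_lit 20663725509) (nat_lit 76) (nat_lit 8939624985) (nat_lit 84) (nat_lit 5) (nat_lit 88) (nat_lit 5) (nat_lit 85) (nat_lit 5) (nat_lit 379) (nat_lit 340) (nat_lit 181)) (XT.lf (nat_lit 0) (nat_lit 56801223095) (nat_lit 228) (nat_lit 33833404098) (nat_lit 304) (nat_lit 532290153) (nat_lit 81) (nat_lit 5) (nat_lit 84) (nat_lit 5) (nat_lit 85) (nat_lit 5) (nat_lit 380) (nat_lit 340) (nat_lit 180))))) (XT.nd (nat_lit 234) (nat_lit 456) (nat_lit 0) (XT.nd (nat_lit 78) (nat_lit 380) (nat_lit 0) (XT.lf (nat_lit 0) (nat_lit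 30194095843) (nat_lit 304) (nat_lit 49491711612) (nat_lit 76) (nat_lit 14550479883) (nat_lit 77) (nat_lit 5) (nat_lit 81) (nat_lit 5) (nat_lit 78) (nat_lit 5) (nat_lit 381) (nat_lit 340) (nat_lit 179)) (XT.nd (nat_lit 78) (nat_lit 152) (nat_lit 0) (XT.lf (nat_lit 0) (nat_lit 31338043758) (nat_lit 228) (nat_lit 32105934287) (nat_lit 304) (nat_lit 33985044694) (nat_lit 74) (nat_lit 5) (nat_lit 77) (nat_lit 5) (nat_lit 78) (nat_lit 5) (nat_lit 382) (nat_lit 340) (nat_lit 178)) (XT.lf (nat_lit 0) (nat_lit 16622051074) (nat_lit 152) (nat_lit 82578353578) (nat_lit 228) (nat_lit 1555669303) (nat_lit 72) (nat_lit 5) (nat_lit 74) (nat_lit 5) (nat_lit 75) (nat_lit 5) (nat_lit 383) (nat_lit 340) (nat_lit 177)))) (XT.nd (nat_lit 78) (nat_lit 380) (nat_lit 0) (XT.lf (nat_lit 0) (nat_lit 32870394023) (nat_lit 228) (nat_lit 23384155) (nat_lit 76) (nat_lit 71316049645) (nat_lit 71) (nat_lit 5) (nat_lit 74)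 (nat_lit 5) (nat_lit 72) (nat_lit 5) (nat_lit 384) (nat_lit 340) (nat_lit 176)) (XT.nd (nat_lit 78) (nat_lit 152) (nat_lit 0) (XT.lf (nat_lit 0) (nat_lit 70043582495) (nat_lit 304) (nat_lit 17972830479) (nat_lit 76) (nat_lit 19787654950) (nat_lit 68) (nat_lit 5) (nat_lit 72) (nat_lit 5) (nat_lit 69) (nat_lit 5) (nat_lit 385) (nat_lit 340) (nat_lit 175)) (XT.lf (nat_lit 0) (nat_lit 73704479443) (nat_lit 152) (nat_lit 36410003070) (nat_lit 228) (nat_lit 1432366416) (nat_lit 66) (nat_lit 5) (nat_lit 68) (nat_lit 5) (nat_lit 69) (nat_lit 5) (nat_lit 386) (nat_lit 340) (nat_lit 174)))))) (XT.nd (nat_lit 43680) (nat_lit 0) (nat_lit 12540) (XT.nd (nat_lit 43446) (nat_lit 0) (nat_lit 12388) (XT.nd (nat_lit 43290) (nat_lit 0) (nat_lit 13528) (XT.lf (nat_lit 0) (nat_lit 36896909294) (nat_lit 304) (nat_lit 60028680626) (nat_lit 76) (nat_lit 18513558385) (nat_lit 62) (nat_lit 5) (nat_lit 66) (nat_lit 5)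 (nat_lit 63) (nat_lit 5) (nat_lit 387) (nat_lit 340) (nat_lit 173)) (XT.nd (nat_lit 78) (nat_lit 0) (nat_lit 0) (XT.lf (nat_lit 0) (nat_lit 7396810984) (nat_lit 0) (nat_lit 7396810984) (nat_lit 1140) (nat_lit 295243352) (nat_lit 240) (nat_lit 5) (nat_lit 240) (nat_lit 3) (nat_lit 255) (nat_lit 3) (nat_lit 341) (nat_lit 341) (nat_lit 218)) (XT.lf (nat_lit 76) (nat_lit 8503247467) (nat_lit 0) (nat_lit 22105943708) (nat_lit 1216) (nat_lit 314439276) (nat_lit 241) (nat_lit 5) (nat_lit 240) (nat_lit 5) (nat_lit 256) (nat_lit 5) (nat_lit 342) (nat_lit 341) (nat_lit 217)))) (XT.nd (nat_lit 78) (nat_lit 0) (nat_lit 0) (XT.lf (nat_lit 0) (nat_lit 315029999) (nat_lit 1216) (nat_lit 29624056762) (nat_lit 1292) (nat_lit 1757576080) (nat_lit 225) (nat_lit 5) (nat_lit 241) (nat_lit 5) (nat_lit 242) (nat_lit 5) (nat_lit 343) (nat_lit 341) (nat_lit 216)) (XT.nd (nat_lit 78) (nat_lit 0) (nat_lit 76) (XT.lf (nat_lit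 0) (nat_lit 1418643893) (nat_lit 1216) (nat_lit 4475534538) (nat_lit 1292) (nat_lit 26600604263) (nat_lit 225) (nat_lit 5) (nat_lit 241) (nat_lit 5) (nat_lit 242) (nat_lit 5) (nat_lit 344) (nat_lit 341) (nat_lit 215)) (XT.lf (nat_lit 0) (nat_lit 2973836557) (nat_lit 1216) (nat_lit 11152054617) (nat_lit 1292) (nat_lit 19195029676) (nat_lit 226) (nat_lit 5) (nat_lit 242) (nat_lit 5) (nat_lit 243) (nat_lit 5) (nat_lit 345) (nat_lit 341) (nat_lit 214))))) (XT.nd (nat_lit 234) (nat_lit 0) (nat_lit 152) (XT.nd (nat_lit 78) (nat_lit 0) (nat_lit 76) (XT.lf (nat_lit 0) (nat_lit 4973103714) (nat_lit 1216) (nat_lit 17984602714) (nat_lit 1292) (nat_lit 11219674093) (nat_lit 227) (nat_lit 5) (nat_lit 243) (nat_lit 5) (nat_lit 244) (nat_lit 5) (nat_lit 346) (nat_lit 341) (nat_lit 213)) (XT.nd (nat_lit 78) (nat_lit 0) (nat_lit 0) (XT.lf (nat_lit 0) (nat_lit 7447790997) (nat_lit 1216) (nat_lit 24978017610)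 (nat_lit 1292) (nat_lit 2639594725) (nat_lit 228) (nat_lit 5) (nat_lit 244) (nat_lit 5) (nat_lit 245) (nat_lit 5) (nat_lit 347) (nat_lit 341) (nat_lit 212)) (XT.lf (nat_lit 76) (nat_lit 3782422913) (nat_lit 0) (nat_lit 6712947746) (nat_lit 1292) (nat_lit 25488985559) (nat_lit 229) (nat_lit 5) (nat_lit 228) (nat_lit 5) (nat_lit 245) (nat_lit 5) (nat_lit 348) (nat_lit 341) (nat_lit 211)))) (XT.nd (nat_lit 78) (nat_lit 0) (nat_lit 76) (XT.lf (nat_lit 0) (nat_lit 14144364858) (nat_lit 1216) (nat_lit 2640655599) (nat_lit 1292) (nat_lit 20150768725) (nat_lit 229) (nat_lit 5) (nat_lit 245) (nat_lit 5) (nat_lit 246) (nat_lit 5) (nat_lit 349) (nat_lit 341) (nat_lit 210)) (XT.nd (nat_lit 78) (nat_lit 0) (nat_lit 0) (XT.lf (nat_lit 0) (nat_lit 18417560501) (nat_lit 1216) (nat_lit 9135767053) (nat_lit 1292) (nat_lit 10368217022) (nat_lit 230) (nat_lit 5) (nat_lit 246) (nat_lit 5) (nat_lit 247) (nat_lit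 5) (nat_lit 350) (nat_lit 341) (nat_lit 209)) (XT.lf (nat_lit 76) (nat_lit 23160952416) (nat_lit 0) (nat_lit 157828964) (nat_lit 1292) (nat_lit 15625378569) (nat_lit 231) (nat_lit 5) (nat_lit 230) (nat_lit 5) (nat_lit 247) (nat_lit 5) (nat_lit 351) (nat_lit 341) (nat_lit 208))))))) (XT.nd (nat_lit 936) (nat_lit 4028) (nat_lit 0) (XT.nd (nat_lit 468) (nat_lit 2432) (nat_lit 0) (XT.nd (nat_lit 234) (nat_lit 1140) (nat_lit 0) (XT.nd (nat_lit 78) (nat_lit 1216) (nat_lit 0) (XT.lf (nat_lit 0) (nat_lit 17305813721) (nat_lit 1216) (nat_lit 11690644919) (nat_lit 1292) (nat_lit 11005508616) (nat_lit 215) (nat_lit 5) (nat_lit 231) (nat_lit 5) (nat_lit 232) (nat_lit 5) (nat_lit 352) (nat_lit 341) (nat_lit 207)) (XT.nd (nat_lit 78) (nat_lit 608) (nat_lit 0) (XT.lf (nat_lit 0) (nat_lit 11320451245) (nat_lit 608) (nat_lit 24071581883) (nat_lit 684) (nat_lit 5707614278) (nat_lit 207) (nat_lit 5) (nat_lit 215)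 (nat_lit 5) (nat_lit 216) (nat_lit 5) (nat_lit 353) (nat_lit 341) (nat_lit 206)) (XT.lf (nat_lit 0) (nat_lit 305737595) (nat_lit 608) (nat_lit 37042086121) (nat_lit 76) (nat_lit 4891000172) (nat_lit 199) (nat_lit 5) (nat_lit 207) (nat_lit 5) (nat_lit 200) (nat_lit 5) (nat_lit 354) (nat_lit 341) (nat_lit 205)))) (XT.nd (nat_lit 78) (nat_lit 1140) (nat_lit 0) (XT.lf (nat_lit 0) (nat_lit 7050949133) (nat_lit 608) (nat_lit 1189907241) (nat_lit 76) (nat_lit 35175932997) (nat_lit 199) (nat_lit 5) (nat_lit 207) (nat_lit 5) (nat_lit 200) (nat_lit 5) (nat_lit 355) (nat_lit 341) (nat_lit 204)) (XT.nd (nat_lit 78) (nat_lit 532) (nat_lit 0) (XT.lf (nat_lit 0) (nat_lit 14704689435) (nat_lit 684) (nat_lit 7684946516) (nat_lit 76) (nat_lit 22246881546) (nat_lit 191) (nat_lit 5) (nat_lit 200) (nat_lit 5) (nat_lit 192) (nat_lit 5) (nat_lit 356) (nat_lit 341) (nat_lit 203)) (XT.lf (nat_lit 0) (nat_lit 23218471891)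 (nat_lit 608) (nat_lit 14348994409) (nat_lit 76) (nat_lit 8335447374) (nat_lit 184) (nat_lit 5) (nat_lit 192) (nat_lit 5) (nat_lit 185) (nat_lit 5) (nat_lit 357) (nat_lit 341) (nat_lit 202))))) (XT.nd (nat_lit 234) (nat_lit 912) (nat_lit 0) (XT.nd (nat_lit 78) (nat_lit 988) (nat_lit 0) (XT.lf (nat_lit 0) (nat_lit 25960777797) (nat_lit 532) (nat_lit 6748709524) (nat_lit 608) (nat_lit 14506598215) (nat_lit 177) (nat_lit 5) (nat_lit 184) (nat_lit 5) (nat_lit 185) (nat_lit 5) (nat_lit 358) (nat_lit 341) (nat_lit 201)) (XT.nd (nat_lit 78) (nat_lit 532) (nat_lit 0) (XT.lf (nat_lit 0) (nat_lit 20136590208) (nat_lit 456) (nat_lit 23123649823) (nat_lit 532) (nat_lit 5317122452) (nat_lit 171) (nat_lit 5) (nat_lit 177) (nat_lit 5) (nat_lit 178) (nat_lit 5) (nat_lit 359) (nat_lit 341) (nat_lit 200)) (XT.lf (nat_lit 0) (nat_lit 4760924770) (nat_lit 532) (nat_lit 35881150265) (nat_lit 76) (nat_lit 9347972149)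 (nat_lit 164) (nat_lit 5) (nat_lit 171) (nat_lit 5) (nat_lit 165) (nat_lit 5) (nat_lit 360) (nat_lit 341) (nat_lit 199)))) (XT.nd (nat_lit 78) (nat_lit 456) (nat_lit 0) (XT.lf (nat_lit 0) (nat_lit 7773480328) (nat_lit 456) (nat_lit 8060730857) (nat_lit 532) (nat_lit 35619538336) (nat_lit 158) (nat_lit 5) (nat_lit 164) (nat_lit 5) (nat_lit 165) (nat_lit 5) (nat_lit 361) (nat_lit 341) (nat_lit 198)) (XT.nd (nat_lit 78) (nat_lit 0) (nat_lit 0) (XT.lf (nat_lit 0) (nat_lit 1144377175) (nat_lit 456) (nat_lit 26948791100) (nat_lit 532) (nat_lit 24878510258) (nat_lit 152) (nat_lit 5) (nat_lit 158) (nat_lit 5) (nat_lit 159) (nat_lit 5) (nat_lit 362) (nat_lit 341) (nat_lit 197)) (XT.lf (nat_lit 0) (nat_lit 41564543917) (nat_lit 532) (nat_lit 5586060435) (nat_lit 76) (nat_lit 7396917190) (nat_lit 152) (nat_lit 5) (nat_lit 159) (nat_lit 5) (nat_lit 153) (nat_lit 5) (nat_lit 363) (nat_lit 341) (nat_lit 196))))))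 (XT.nd (nat_lit 468) (nat_lit 1596) (nat_lit 0) (XT.nd (nat_lit 234) (nat_lit 1140) (nat_lit 0) (XT.nd (nat_lit 78) (nat_lit 836) (nat_lit 0) (XT.lf (nat_lit 0) (nat_lit 211184210) (nat_lit 456) (nat_lit 12642534637) (nat_lit 76) (nat_lit 43327754306) (nat_lit 146) (nat_lit 5) (nat_lit 152) (nat_lit 5) (nat_lit 147) (nat_lit 5) (nat_lit 364) (nat_lit 341) (nat_lit 195)) (XT.nd (nat_lit 78) (nat_lit 380) (nat_lit 0) (XT.lf (nat_lit 0) (nat_lit 14446938476) (nat_lit 532) (nat_lit 20162062457) (nat_lit 76) (nat_lit 23264754780) (nat_lit 140) (nat_lit 5) (nat_lit 147) (nat_lit 5) (nat_lit 141) (nat_lit 5) (nat_lit 365) (nat_lit 341) (nat_lit 194)) (XT.lf (nat_lit 0) (nat_lit 29973897285) (nat_lit 456) (nat_lit 27965781010) (nat_lit 76) (nat_lit 1693593000) (nat_lit 135) (nat_lit 5) (nat_lit 141) (nat_lit 5) (nat_lit 136) (nat_lit 5) (nat_lit 366) (nat_lit 341) (nat_lit 193)))) (XT.nd (nat_lit 78)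 (nat_lit 760) (nat_lit 0) (XT.lf (nat_lit 0) (nat_lit 25171414048) (nat_lit 380) (nat_lit 21903845601) (nat_lit 456) (nat_lit 14381562669) (nat_lit 130) (nat_lit 5) (nat_lit 135) (nat_lit 5) (nat_lit 136) (nat_lit 5) (nat_lit 367) (nat_lit 341) (nat_lit 192)) (XT.nd (nat_lit 78) (nat_lit 380) (nat_lit 0) (XT.lf (nat_lit 0) (nat_lit 2251758613) (nat_lit 380) (nat_lit 44989051573) (nat_lit 76) (nat_lit 16111542748) (nat_lit 125) (nat_lit 5) (nat_lit 130) (nat_lit 5) (nat_lit 126) (nat_lit 5) (nat_lit 368) (nat_lit 341) (nat_lit 191)) (XT.lf (nat_lit 0) (nat_lit 11012581475) (nat_lit 380) (nat_lit 9110991975) (nat_lit 456) (nat_lit 45193688244) (nat_lit 120) (nat_lit 5) (nat_lit 125) (nat_lit 5) (nat_lit 126) (nat_lit 5) (nat_lit 369) (nat_lit 341) (nat_lit 190))))) (XT.nd (nat_lit 234) (nat_lit 912) (nat_lit 0) (XT.nd (nat_lit 78) (nat_lit 380) (nat_lit 0) (XT.lf (nat_lit 0) (nat_lit 3143807655)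 (nat_lit 304) (nat_lit 36537787090) (nat_lit 380) (nat_lit 27675043793) (nat_lit 116) (nat_lit 5) (nat_lit 120) (nat_lit 5) (nat_lit 121) (nat_lit 5) (nat_lit 370) (nat_lit 341) (nat_lit 189)) (XT.nd (nat_lit 78) (nat_lit 380) (nat_lit 0) (XT.lf (nat_lit 0) (nat_lit 60900060315) (nat_lit 380) (nat_lit 5011272699) (nat_lit 76) (nat_lit 3566175975) (nat_lit 116) (nat_lit 5) (nat_lit 121) (nat_lit 5) (nat_lit 117) (nat_lit 5) (nat_lit 371) (nat_lit 341) (nat_lit 188)) (XT.lf (nat_lit 0) (nat_lit 12183292663) (nat_lit 380) (nat_lit 13887988331) (nat_lit 76) (nat_lit 45601868237) (nat_lit 111) (nat_lit 5) (nat_lit 116) (nat_lit 5) (nat_lit 112) (nat_lit 5) (nat_lit 372) (nat_lit 341) (nat_lit 187)))) (XT.nd (nat_lit 78) (nat_lit 608) (nat_lit 0) (XT.lf (nat_lit 0) (nat_lit 34501620505) (nat_lit 380) (nat_lit 23368556925) (nat_lit 76) (nat_lit 16084938907) (nat_lit 107) (nat_lit 5) (nat_lit 112) (nat_lit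 5) (nat_lit 108) (nat_lit 5) (nat_lit 373) (nat_lit 341) (nat_lit 186)) (XT.nd (nat_lit 78) (nat_lit 304) (nat_lit 0) (XT.lf (nat_lit 0) (nat_lit 42795391798) (nat_lit 304) (nat_lit 15957114428) (nat_lit 380) (nat_lit 17574177218) (nat_lit 103) (nat_lit 5) (nat_lit 107) (nat_lit 5) (nat_lit 108) (nat_lit 5) (nat_lit 374) (nat_lit 341) (nat_lit 185)) (XT.lf (nat_lit 0) (nat_lit 6142578425) (nat_lit 304) (nat_lit 44510751476) (nat_lit 76) (nat_lit 28136478032) (nat_lit 99) (nat_lit 5) (nat_lit 103) (nat_lit 5) (nat_lit 100) (nat_lit 5) (nat_lit 375) (nat_lit 341) (nat_lit 184))))))))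
noncomputable def xc111 : XT := (XT.nd (nat_lit 45162) (nat_lit 0) (nat_lit 2204) (XT.nd (nat_lit 44226) (nat_lit 0) (nat_lit 11324) (XT.nd (nat_lit 468) (nat_lit 1140) (nat_lit 0) (XT.nd (nat_lit 234) (nat_lit 456) (nat_lit 0) (XT.nd (nat_lit 78) (nat_lit 608) (nat_lit 0) (XT.lf (nat_lit 0) (nat_lit 24956821790) (nat_lit 304) (nat_lit 6475680809) (nat_lit 380) (nat_lit 49915843028) (nat_lit 95) (nat_lit 5) (nat_lit 99) (nat_lit 5) (nat_lit 100) (nat_lit 5) (nat_lit 376) (nat_lit 341) (nat_lit 183)) (XT.nd (nat_lit 78) (nat_lit 380) (nat_lit 0) (XT.lf (nat_lit 0) (nat_lit 14702392618) (nat_lit 228) (nat_lit 44270164655) (nat_lit 304) (nat_lit 25032684653) (nat_lit 92) (nat_lit 5) (nat_lit 95) (nat_lit 5) (nat_lit 96) (nat_lit 5) (nat_lit 377) (nat_lit 341) (nat_lit 182)) (XT.lf (nat_lit 0) (nat_lit 1777849345) (nat_lit 380) (nat_lit 83053064662) (nat_lit 76) (nat_lit 1942616717) (nat_lit 87)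 (nat_lit 5) (nat_lit 92) (nat_lit 5) (nat_lit 88) (nat_lit 5) (nat_lit 378) (nat_lit 341) (nat_lit 181)))) (XT.nd (nat_lit 78) (nat_lit 456) (nat_lit 0) (XT.lf (nat_lit 0) (nat_lit 30581341652) (nat_lit 380) (nat_lit 8525295534) (nat_lit 76) (nat_lit 50531057608) (nat_lit 87) (nat_lit 5) (nat_lit 92) (nat_lit 5) (nat_lit 88) (nat_lit 5) (nat_lit 379) (nat_lit 341) (nat_lit 180)) (XT.nd (nat_lit 78) (nat_lit 228) (nat_lit 0) (XT.lf (nat_lit 0) (nat_lit 61599065935) (nat_lit 304) (nat_lit 21603355104) (nat_lit 76) (nat_lit 9419424933) (nat_lit 84) (nat_lit 5) (nat_lit 88) (nat_lit 5) (nat_lit 85) (nat_lit 5) (nat_lit 380) (nat_lit 341) (nat_lit 179)) (XT.lf (nat_lit 0) (nat_lit 59732159146) (nat_lit 228) (nat_lit 35491215987) (nat_lit 304) (nat_lit 500159212) (nat_lit 81) (nat_lit 5) (nat_lit 84) (nat_lit 5) (nat_lit 85) (nat_lit 5) (nat_lit 381) (nat_lit 341) (nat_lit 178))))) (XT.nd (nat_lit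 234) (nat_lit 456) (nat_lit 0) (XT.nd (nat_lit 78) (nat_lit 380) (nat_lit 0) (XT.lf (nat_lit 0) (nat_lit 31759840110) (nat_lit 304) (nat_lit 51875531754) (nat_lit 76) (nat_lit 15311031671) (nat_lit 77) (nat_lit 5) (nat_lit 81) (nat_lit 5) (nat_lit 78) (nat_lit 5) (nat_lit 382) (nat_lit 341) (nat_lit 177)) (XT.nd (nat_lit 78) (nat_lit 152) (nat_lit 0) (XT.lf (nat_lit 0) (nat_lit 32993109612) (nat_lit 228) (nat_lit 33677285747) (nat_lit 304) (nat_lit 35628435788) (nat_lit 74) (nat_lit 5) (nat_lit 77) (nat_lit 5) (nat_lit 78) (nat_lit 5) (nat_lit 383) (nat_lit 341) (nat_lit 176)) (XT.lf (nat_lit 0) (nat_lit 17540068790) (nat_lit 152) (nat_lit 86673138922) (nat_lit 228) (nat_lit 1579071048) (nat_lit 72) (nat_lit 5) (nat_lit 74) (nat_lit 5) (nat_lit 75) (nat_lit 5) (nat_lit 384) (nat_lit 341) (nat_lit 175)))) (XT.nd (nat_lit 78) (nat_lit 152) (nat_lit 0) (XT.lf (nat_lit 0) (nat_lit 60427027) (nat_lit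 228) (nat_lit 34504849021) (nat_lit 304) (nat_lit 74853488051) (nat_lit 68) (nat_lit 5) (nat_lit 71) (nat_lit 5) (nat_lit 72) (nat_lit 5) (nat_lit 385) (nat_lit 341) (nat_lit 174)) (XT.nd (nat_lit 78) (nat_lit 152) (nat_lit 0) (XT.lf (nat_lit 0) (nat_lit 73595217415) (nat_lit 304) (nat_lit 18788895006) (nat_lit 76) (nat_lit 20808661658) (nat_lit 68) (nat_lit 5) (nat_lit 72) (nat_lit 5) (nat_lit 69) (nat_lit 5) (nat_lit 386) (nat_lit 341) (nat_lit 173)) (XT.lf (nat_lit 0) (nat_lit 77469913359) (nat_lit 152) (nat_lit 38198165064) (nat_lit 228) (nat_lit 1454663878) (nat_lit 66) (nat_lit 5) (nat_lit 68) (nat_lit 5) (nat_lit 69) (nat_lit 5) (nat_lit 387) (nat_lit 341) (nat_lit 172)))))) (XT.nd (nat_lit 468) (nat_lit 760) (nat_lit 0) (XT.nd (nat_lit 234) (nat_lit 0) (nat_lit 0) (XT.nd (nat_lit 78) (nat_lit 1140) (nat_lit 0) (XT.lf (nat_lit 0) (nat_lit 7823195310) (nat_lit 0) (nat_lit 7823195310) (nat_lit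 1140) (nat_lit 193451045) (nat_lit 240) (nat_lit 5) (nat_lit 240) (nat_lit 3) (nat_lit 255) (nat_lit 3) (nat_lit 342) (nat_lit 342) (nat_lit 216)) (XT.nd (nat_lit 78) (nat_lit 1140) (nat_lit 0) (XT.lf (nat_lit 76) (nat_lit 9046046754) (nat_lit 0) (nat_lit 23309104339) (nat_lit 1216) (nat_lit 108054354) (nat_lit 241) (nat_lit 5) (nat_lit 240) (nat_lit 5) (nat_lit 256) (nat_lit 5) (nat_lit 343) (nat_lit 342) (nat_lit 215)) (XT.lf (nat_lit 0) (nat_lit 538459775) (nat_lit 1216) (nat_lit 30979399759) (nat_lit 1292) (nat_lit 1757275250) (nat_lit 225) (nat_lit 5) (nat_lit 241) (nat_lit 5) (nat_lit 242) (nat_lit 5) (nat_lit 344) (nat_lit 342) (nat_lit 214)))) (XT.nd (nat_lit 78) (nat_lit 0) (nat_lit 76) (XT.lf (nat_lit 0) (nat_lit 1687364921) (nat_lit 1216) (nat_lit 4579444750) (nat_lit 1292) (nat_lit 27846653872) (nat_lit 225) (nat_lit 5) (nat_lit 241) (nat_lit 5) (nat_lit 242) (nat_lit 5) (nat_lit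 345) (nat_lit 342) (nat_lit 213)) (XT.nd (nat_lit 78) (nat_lit 0) (nat_lit 76) (XT.lf (nat_lit 0) (nat_lit 3311315618) (nat_lit 1216) (nat_lit 11586721124) (nat_lit 1292) (nat_lit 20083147849) (nat_lit 226) (nat_lit 5) (nat_lit 242) (nat_lit 5) (nat_lit 243) (nat_lit 5) (nat_lit 346) (nat_lit 342) (nat_lit 212)) (XT.lf (nat_lit 0) (nat_lit 5402112636) (nat_lit 1216) (nat_lit 18758287685) (nat_lit 1292) (nat_lit 11720325581) (nat_lit 227) (nat_lit 5) (nat_lit 243) (nat_lit 5) (nat_lit 244) (nat_lit 5) (nat_lit 347) (nat_lit 342) (nat_lit 211))))) (XT.nd (nat_lit 234) (nat_lit 988) (nat_lit 0) (XT.nd (nat_lit 78) (nat_lit 0) (nat_lit 0) (XT.lf (nat_lit 0) (nat_lit 7992628075) (nat_lit 1216) (nat_lit 26099186112) (nat_lit 1292) (nat_lit 2721578235) (nat_lit 228) (nat_lit 5) (nat_lit 244) (nat_lit 5) (nat_lit 245) (nat_lit 5) (nat_lit 348) (nat_lit 342) (nat_lit 210)) (XT.nd (nat_lit 78) (nat_lit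 0) (nat_lit 76) (XT.lf (nat_lit 76) (nat_lit 4095615014) (nat_lit 0) (nat_lit 7089952564) (nat_lit 1292) (nat_lit 26592941074) (nat_lit 229) (nat_lit 5) (nat_lit 228) (nat_lit 5) (nat_lit 245) (nat_lit 5) (nat_lit 349) (nat_lit 342) (nat_lit 209)) (XT.lf (nat_lit 0) (nat_lit 15008755324) (nat_lit 1216) (nat_lit 2649322773) (nat_lit 1292) (nat_lit 21119687735) (nat_lit 229) (nat_lit 5) (nat_lit 245) (nat_lit 5) (nat_lit 246) (nat_lit 5) (nat_lit 350) (nat_lit 342) (nat_lit 208)))) (XT.nd (nat_lit 78) (nat_lit 1140) (nat_lit 0) (XT.lf (nat_lit 0) (nat_lit 19488980139) (nat_lit 1216) (nat_lit 9467809775) (nat_lit 1292) (nat_lit 10856222648) (nat_lit 230) (nat_lit 5) (nat_lit 246) (nat_lit 5) (nat_lit 247) (nat_lit 5) (nat_lit 351) (nat_lit 342) (nat_lit 207)) (XT.nd (nat_lit 78) (nat_lit 1140) (nat_lit 0) (XT.lf (nat_lit 76) (nat_lit 24440169858) (nat_lit 0) (nat_lit 189088315) (nat_lit 1292) (nat_lit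 16257685077) (nat_lit 231) (nat_lit 5) (nat_lit 230) (nat_lit 5) (nat_lit 247) (nat_lit 5) (nat_lit 352) (nat_lit 342) (nat_lit 206)) (XT.lf (nat_lit 0) (nat_lit 18293316971) (nat_lit 1216) (nat_lit 12291580428) (nat_lit 1292) (nat_lit 11412925398) (nat_lit 215) (nat_lit 5) (nat_lit 231) (nat_lit 5) (nat_lit 232) (nat_lit 5) (nat_lit 353) (nat_lit 342) (nat_lit 205))))))) (XT.nd (nat_lit 936) (nat_lit 3876) (nat_lit 0) (XT.nd (nat_lit 468) (nat_lit 2356) (nat_lit 0) (XT.nd (nat_lit 234) (nat_lit 1672) (nat_lit 0) (XT.nd (nat_lit 78) (nat_lit 608) (nat_lit 0) (XT.lf (nat_lit 0) (nat_lit 12009457534) (nat_lit 608) (nat_lit 25285224349) (nat_lit 684) (nat_lit 5855876150) (nat_lit 207) (nat_lit 5) (nat_lit 215) (nat_lit 5) (nat_lit 216) (nat_lit 5) (nat_lit 354) (nat_lit 342) (nat_lit 204)) (XT.nd (nat_lit 78) (nat_lit 0) (nat_lit 0) (XT.lf (nat_lit 0) (nat_lit 450171522) (nat_lit 608) (nat_lit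 38768038457) (nat_lit 76) (nat_lit 5128606415) (nat_lit 199) (nat_lit 5) (nat_lit 207) (nat_lit 5) (nat_lit 200) (nat_lit 5) (nat_lit 355) (nat_lit 342) (nat_lit 203)) (XT.lf (nat_lit 0) (nat_lit 7526493777) (nat_lit 608) (nat_lit 1129257870) (nat_lit 76) (nat_lit 36928116537) (nat_lit 199) (nat_lit 5) (nat_lit 207) (nat_lit 5) (nat_lit 200) (nat_lit 5) (nat_lit 356) (nat_lit 342) (nat_lit 202)))) (XT.nd (nat_lit 78) (nat_lit 1064) (nat_lit 0) (XT.lf (nat_lit 0) (nat_lit 15558170878) (nat_lit 684) (nat_lit 7948862794) (nat_lit 76) (nat_lit 23357694918) (nat_lit 191) (nat_lit 5) (nat_lit 200) (nat_lit 5) (nat_lit 192) (nat_lit 5) (nat_lit 357) (nat_lit 342) (nat_lit 201)) (XT.nd (nat_lit 78) (nat_lit 532) (nat_lit 0) (XT.lf (nat_lit 0) (nat_lit 24493165392) (nat_lit 608) (nat_lit 14946116197) (nat_lit 76) (nat_lit 8755300509) (nat_lit 184) (nat_lit 5) (nat_lit 192) (nat_lit 5) (nat_lit 185) (nat_lit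 5) (nat_lit 358) (nat_lit 342) (nat_lit 200)) (XT.lf (nat_lit 0) (nat_lit 27375695444) (nat_lit 532) (nat_lit 7078742045) (nat_lit 608) (nat_lit 15119106942) (nat_lit 177) (nat_lit 5) (nat_lit 184) (nat_lit 5) (nat_lit 185) (nat_lit 5) (nat_lit 359) (nat_lit 342) (nat_lit 199))))) (XT.nd (nat_lit 234) (nat_lit 912) (nat_lit 0) (XT.nd (nat_lit 78) (nat_lit 988) (nat_lit 0) (XT.lf (nat_lit 0) (nat_lit 21260128536) (nat_lit 456) (nat_lit 24268575815) (nat_lit 532) (nat_lit 5474304489) (nat_lit 171) (nat_lit 5) (nat_lit 177) (nat_lit 5) (nat_lit 178) (nat_lit 5) (nat_lit 360) (nat_lit 342) (nat_lit 198)) (XT.nd (nat_lit 78) (nat_lit 456) (nat_lit 0) (XT.lf (nat_lit 0) (nat_lit 5101684436) (nat_lit 532) (nat_lit 37556722071) (nat_lit 76) (nat_lit 9828007821) (nat_lit 164) (nat_lit 5) (nat_lit 171) (nat_lit 5) (nat_lit 165) (nat_lit 5) (nat_lit 361) (nat_lit 342) (nat_lit 197)) (XT.lf (nat_lit 0)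 (nat_lit 8277243683) (nat_lit 456) (nat_lit 8447606682) (nat_lit 532) (nat_lit 37298567523) (nat_lit 158) (nat_lit 5) (nat_lit 164) (nat_lit 5) (nat_lit 165) (nat_lit 5) (nat_lit 362) (nat_lit 342) (nat_lit 196)))) (XT.nd (nat_lit 78) (nat_lit 456) (nat_lit 0) (XT.lf (nat_lit 0) (nat_lit 1316168032) (nat_lit 456) (nat_lit 28277125676) (nat_lit 532) (nat_lit 26024055932) (nat_lit 152) (nat_lit 5) (nat_lit 158) (nat_lit 5) (nat_lit 159) (nat_lit 5) (nat_lit 363) (nat_lit 342) (nat_lit 195)) (XT.nd (nat_lit 78) (nat_lit 456) (nat_lit 0) (XT.lf (nat_lit 0) (nat_lit 43733866987) (nat_lit 532) (nat_lit 5753648058) (nat_lit 76) (nat_lit 7784603213) (nat_lit 152) (nat_lit 5) (nat_lit 159) (nat_lit 5) (nat_lit 153) (nat_lit 5) (nat_lit 364) (nat_lit 342) (nat_lit 194)) (XT.lf (nat_lit 0) (nat_lit 310457215) (nat_lit 456) (nat_lit 13164339708) (nat_lit 76) (nat_lit 45513045491) (nat_lit 146) (nat_lit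 5) (nat_lit 152) (nat_lit 5) (nat_lit 147) (nat_lit 5) (nat_lit 365) (nat_lit 342) (nat_lit 193)))))) (XT.nd (nat_lit 468) (nat_lit 1596) (nat_lit 0) (XT.nd (nat_lit 234) (nat_lit 1064) (nat_lit 0) (XT.nd (nat_lit 78) (nat_lit 760) (nat_lit 0) (XT.lf (nat_lit 0) (nat_lit 15255012826) (nat_lit 532) (nat_lit 21060607766) (nat_lit 76) (nat_lit 24449210150) (nat_lit 140) (nat_lit 5) (nat_lit 147) (nat_lit 5) (nat_lit 141) (nat_lit 5) (nat_lit 366) (nat_lit 342) (nat_lit 192)) (XT.nd (nat_lit 78) (nat_lit 380) (nat_lit 0) (XT.lf (nat_lit 0) (nat_lit 31555488557) (nat_lit 456) (nat_lit 29255361961) (nat_lit 76) (nat_lit 1801558463) (nat_lit 135) (nat_lit 5) (nat_lit 141) (nat_lit 5) (nat_lit 136) (nat_lit 5) (nat_lit 367) (nat_lit 342) (nat_lit 191)) (XT.lf (nat_lit 0) (nat_lit 26535576753) (nat_lit 380) (nat_lit 22973409853) (nat_lit 456) (nat_lit 15018240778) (nat_lit 130) (nat_lit 5) (nat_lit 135)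 (nat_lit 5) (nat_lit 136) (nat_lit 5) (nat_lit 368) (nat_lit 342) (nat_lit 190)))) (XT.nd (nat_lit 78) (nat_lit 684) (nat_lit 0) (XT.lf (nat_lit 0) (nat_lit 2442544678) (nat_lit 380) (nat_lit 47132221365) (nat_lit 76) (nat_lit 16942824264) (nat_lit 125) (nat_lit 5) (nat_lit 130) (nat_lit 5) (nat_lit 126) (nat_lit 5) (nat_lit 369) (nat_lit 342) (nat_lit 189)) (XT.nd (nat_lit 78) (nat_lit 304) (nat_lit 0) (XT.lf (nat_lit 0) (nat_lit 11666446762) (nat_lit 380) (nat_lit 9538772144) (nat_lit 456) (nat_lit 47375609174) (nat_lit 120) (nat_lit 5) (nat_lit 125) (nat_lit 5) (nat_lit 126) (nat_lit 5) (nat_lit 370) (nat_lit 342) (nat_lit 188)) (XT.lf (nat_lit 0) (nat_lit 3403246585) (nat_lit 304) (nat_lit 38335538124) (nat_lit 380) (nat_lit 28983461309) (nat_lit 116) (nat_lit 5) (nat_lit 120) (nat_lit 5) (nat_lit 121) (nat_lit 5) (nat_lit 371) (nat_lit 342) (nat_lit 187))))) (XT.nd (nat_lit 234) (nat_lit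 912) (nat_lit 0) (XT.nd (nat_lit 78) (nat_lit 684) (nat_lit 0) (XT.lf (nat_lit 0) (nat_lit 64014958876) (nat_lit 380) (nat_lit 5162605002) (nat_lit 76) (nat_lit 3771694038) (nat_lit 116) (nat_lit 5) (nat_lit 121) (nat_lit 5) (nat_lit 117) (nat_lit 5) (nat_lit 372) (nat_lit 342) (nat_lit 186)) (XT.nd (nat_lit 78) (nat_lit 304) (nat_lit 0) (XT.lf (nat_lit 0) (nat_lit 12860646960) (nat_lit 380) (nat_lit 14484616331) (nat_lit 76) (nat_lit 47909470290) (nat_lit 111) (nat_lit 5) (nat_lit 116) (nat_lit 5) (nat_lit 112) (nat_lit 5) (nat_lit 373) (nat_lit 342) (nat_lit 185)) (XT.lf (nat_lit 0) (nat_lit 36292836821) (nat_lit 380) (nat_lit 24440294029) (nat_lit 76) (nat_lit 16917731129) (nat_lit 107) (nat_lit 5) (nat_lit 112) (nat_lit 5) (nat_lit 108) (nat_lit 5) (nat_lit 374) (nat_lit 342) (nat_lit 184)))) (XT.nd (nat_lit 78) (nat_lit 608) (nat_lit 0) (XT.lf (nat_lit 0) (nat_lit 45029080510) (nat_lit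 304) (nat_lit 16724939828) (nat_lit 380) (nat_lit 18387055743) (nat_lit 103) (nat_lit 5) (nat_lit 107) (nat_lit 5) (nat_lit 108) (nat_lit 5) (nat_lit 375) (nat_lit 342) (nat_lit 183)) (XT.nd (nat_lit 78) (nat_lit 304) (nat_lit 0) (XT.lf (nat_lit 0) (nat_lit 6512358332) (nat_lit 304) (nat_lit 46642186738) (nat_lit 76) (nat_lit 29572850732) (nat_lit 99) (nat_lit 5) (nat_lit 103) (nat_lit 5) (nat_lit 100) (nat_lit 5) (nat_lit 376) (nat_lit 342) (nat_lit 182)) (XT.lf (nat_lit 0) (nat_lit 26296067769) (nat_lit 304) (nat_lit 6768606206) (nat_lit 380) (nat_lit 52349250644) (nat_lit 95) (nat_lit 5) (nat_lit 99) (nat_lit 5) (nat_lit 100) (nat_lit 5) (nat_lit 377) (nat_lit 342) (nat_lit 181))))))))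
noncomputable def xc112 : XT := (XT.nd (nat_lit 45240) (nat_lit 0) (nat_lit 1444) (XT.nd (nat_lit 44304) (nat_lit 0) (nat_lit 9956) (XT.nd (nat_lit 390) (nat_lit 988) (nat_lit 0) (XT.nd (nat_lit 156) (nat_lit 456) (nat_lit 0) (XT.nd (nat_lit 78) (nat_lit 380) (nat_lit 0) (XT.lf (nat_lit 0) (nat_lit 15527794501) (nat_lit 228) (nat_lit 46452204081) (nat_lit 304) (nat_lit 26223720177) (nat_lit 92) (nat_lit 5) (nat_lit 95) (nat_lit 5) (nat_lit 96) (nat_lit 5) (nat_lit 378) (nat_lit 342) (nat_lit 180)) (XT.lf (nat_lit 0) (nat_lit 1924484924) (nat_lit 380) (nat_lit 87115414813) (nat_lit 76) (nat_lit 2070555943) (nat_lit 87) (nat_lit 5) (nat_lit 92) (nat_lit 5) (nat_lit 88) (nat_lit 5) (nat_lit 379) (nat_lit 342) (nat_lit 179))) (XT.nd (nat_lit 78) (nat_lit 456) (nat_lit 0) (XT.lf (nat_lit 0) (nat_lit 32165402174) (nat_lit 380) (nat_lit 8865557375) (nat_lit 76) (nat_lit 53086951811) (nat_lit 87) (nat_lit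 5) (nat_lit 92) (nat_lit 5) (nat_lit 88) (nat_lit 5) (nat_lit 380) (nat_lit 342) (nat_lit 178)) (XT.nd (nat_lit 78) (nat_lit 228) (nat_lit 0) (XT.lf (nat_lit 0) (nat_lit 64732488789) (nat_lit 304) (nat_lit 22598664193) (nat_lit 76) (nat_lit 9920163707) (nat_lit 84) (nat_lit 5) (nat_lit 88) (nat_lit 5) (nat_lit 85) (nat_lit 5) (nat_lit 381) (nat_lit 342) (nat_lit 177)) (XT.lf (nat_lit 0) (nat_lit 62801193313) (nat_lit 228) (nat_lit 37235066296) (nat_lit 304) (nat_lit 471883320) (nat_lit 81) (nat_lit 5) (nat_lit 84) (nat_lit 5) (nat_lit 85) (nat_lit 5) (nat_lit 382) (nat_lit 342) (nat_lit 176))))) (XT.nd (nat_lit 234) (nat_lit 304) (nat_lit 0) (XT.nd (nat_lit 78) (nat_lit 380) (nat_lit 0) (XT.lf (nat_lit 0) (nat_lit 33398661571) (nat_lit 304) (nat_lit 54386981413) (nat_lit 76) (nat_lit 16106540438) (nat_lit 77) (nat_lit 5) (nat_lit 81) (nat_lit 5) (nat_lit 78) (nat_lit 5) (nat_lit 383) (nat_lit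 342) (nat_lit 175)) (XT.nd (nat_lit 78) (nat_lit 152) (nat_lit 0) (XT.lf (nat_lit 0) (nat_lit 34722732136) (nat_lit 228) (nat_lit 35330360688) (nat_lit 304) (nat_lit 37359189877) (nat_lit 74) (nat_lit 5) (nat_lit 77) (nat_lit 5) (nat_lit 78) (nat_lit 5) (nat_lit 384) (nat_lit 342) (nat_lit 174)) (XT.lf (nat_lit 0) (nat_lit 18495906845) (nat_lit 152) (nat_lit 90975836834) (nat_lit 228) (nat_lit 1608698778) (nat_lit 72) (nat_lit 5) (nat_lit 74) (nat_lit 5) (nat_lit 75) (nat_lit 5) (nat_lit 385) (nat_lit 342) (nat_lit 173)))) (XT.nd (nat_lit 43524) (nat_lit 0) (nat_lit 11856) (XT.lf (nat_lit 0) (nat_lit 140971327) (nat_lit 228) (nat_lit 36199374005) (nat_lit 304) (nat_lit 78547939887) (nat_lit 68) (nat_lit 5) (nat_lit 71) (nat_lit 5) (nat_lit 72) (nat_lit 5) (nat_lit 386) (nat_lit 342) (nat_lit 172)) (XT.nd (nat_lit 78) (nat_lit 1216) (nat_lit 0) (XT.lf (nat_lit 0) (nat_lit 8265641947) (nat_lit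 0) (nat_lit 8265641947) (nat_lit 1140) (nat_lit 97405252) (nat_lit 240) (nat_lit 5) (nat_lit 240) (nat_lit 3) (nat_lit 255) (nat_lit 3) (nat_lit 343) (nat_lit 343) (nat_lit 214)) (XT.lf (nat_lit 0) (nat_lit 86283214) (nat_lit 1216) (nat_lit 24476170079) (nat_lit 1292) (nat_lit 9517894735) (nat_lit 224) (nat_lit 5) (nat_lit 240) (nat_lit 5) (nat_lit 241) (nat_lit 5) (nat_lit 344) (nat_lit 343) (nat_lit 213)))))) (XT.nd (nat_lit 468) (nat_lit 1976) (nat_lit 0) (XT.nd (nat_lit 234) (nat_lit 0) (nat_lit 152) (XT.nd (nat_lit 78) (nat_lit 0) (nat_lit 0) (XT.lf (nat_lit 0) (nat_lit 753753082) (nat_lit 1216) (nat_lit 32414211162) (nat_lit 1292) (nat_lit 1765157485) (nat_lit 225) (nat_lit 5) (nat_lit 241) (nat_lit 5) (nat_lit 242) (nat_lit 5) (nat_lit 345) (nat_lit 343) (nat_lit 212)) (XT.nd (nat_lit 78) (nat_lit 0) (nat_lit 76) (XT.lf (nat_lit 0) (nat_lit 1951133470) (nat_lit 1216) (nat_lit 4699694526)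 (nat_lit 1292) (nat_lit 29162813682) (nat_lit 225) (nat_lit 5) (nat_lit 241) (nat_lit 5) (nat_lit 242) (nat_lit 5) (nat_lit 346) (nat_lit 343) (nat_lit 211)) (XT.lf (nat_lit 0) (nat_lit 3648116984) (nat_lit 1216) (nat_lit 12054550402) (nat_lit 1292) (nat_lit 21022331716) (nat_lit 226) (nat_lit 5) (nat_lit 242) (nat_lit 5) (nat_lit 243) (nat_lit 5) (nat_lit 347) (nat_lit 343) (nat_lit 210)))) (XT.nd (nat_lit 78) (nat_lit 0) (nat_lit 76) (XT.lf (nat_lit 0) (nat_lit 5835804422) (nat_lit 1216) (nat_lit 19582328905) (nat_lit 1292) (nat_lit 12251618760) (nat_lit 227) (nat_lit 5) (nat_lit 243) (nat_lit 5) (nat_lit 244) (nat_lit 5) (nat_lit 348) (nat_lit 343) (nat_lit 209)) (XT.nd (nat_lit 78) (nat_lit 0) (nat_lit 0) (XT.lf (nat_lit 0) (nat_lit 8548674469) (nat_lit 1216) (nat_lit 27288288385) (nat_lit 1292) (nat_lit 2812309096) (nat_lit 228) (nat_lit 5) (nat_lit 244) (nat_lit 5) (nat_lit 245) (nat_lit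 5) (nat_lit 349) (nat_lit 343) (nat_lit 208)) (XT.lf (nat_lit 76) (nat_lit 4412931779) (nat_lit 0) (nat_lit 7481962601) (nat_lit 1292) (nat_lit 27767945259) (nat_lit 229) (nat_lit 5) (nat_lit 228) (nat_lit 5) (nat_lit 245) (nat_lit 5) (nat_lit 350) (nat_lit 343) (nat_lit 207))))) (XT.nd (nat_lit 234) (nat_lit 2280) (nat_lit 0) (XT.nd (nat_lit 78) (nat_lit 0) (nat_lit 76) (XT.lf (nat_lit 0) (nat_lit 15901752929) (nat_lit 1216) (nat_lit 2669892672) (nat_lit 1292) (nat_lit 22140643163) (nat_lit 229) (nat_lit 5) (nat_lit 245) (nat_lit 5) (nat_lit 246) (nat_lit 5) (nat_lit 351) (nat_lit 343) (nat_lit 206)) (XT.nd (nat_lit 78) (nat_lit 0) (nat_lit 0) (XT.lf (nat_lit 0) (nat_lit 20599974827) (nat_lit 1216) (nat_lit 9828052301) (nat_lit 1292) (nat_lit 11371455345) (nat_lit 230) (nat_lit 5) (nat_lit 246) (nat_lit 5) (nat_lit 247) (nat_lit 5) (nat_lit 352) (nat_lit 343) (nat_lit 205)) (XT.lf (nat_lit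 76) (nat_lit 25772082951) (nat_lit 0) (nat_lit 219738107) (nat_lit 1292) (nat_lit 16935456025) (nat_lit 231) (nat_lit 5) (nat_lit 230) (nat_lit 5) (nat_lit 247) (nat_lit 5) (nat_lit 353) (nat_lit 343) (nat_lit 204)))) (XT.nd (nat_lit 78) (nat_lit 1216) (nat_lit 0) (XT.lf (nat_lit 0) (nat_lit 19318833218) (nat_lit 1216) (nat_lit 12921037692) (nat_lit 1292) (nat_lit 11853994662) (nat_lit 215) (nat_lit 5) (nat_lit 231) (nat_lit 5) (nat_lit 232) (nat_lit 5) (nat_lit 354) (nat_lit 343) (nat_lit 203)) (XT.nd (nat_lit 78) (nat_lit 608) (nat_lit 0) (XT.lf (nat_lit 0) (nat_lit 12721480276) (nat_lit 608) (nat_lit 26558613341) (nat_lit 684) (nat_lit 6024299126) (nat_lit 207) (nat_lit 5) (nat_lit 215) (nat_lit 5) (nat_lit 216) (nat_lit 5) (nat_lit 355) (nat_lit 343) (nat_lit 202)) (XT.lf (nat_lit 0) (nat_lit 589820277) (nat_lit 608) (nat_lit 40592016824) (nat_lit 76) (nat_lit 5378738536) (nat_lit 199) (nat_lit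 5) (nat_lit 207) (nat_lit 5) (nat_lit 200) (nat_lit 5) (nat_lit 356) (nat_lit 343) (nat_lit 201))))))) (XT.nd (nat_lit 936) (nat_lit 3648) (nat_lit 0) (XT.nd (nat_lit 468) (nat_lit 2204) (nat_lit 0) (XT.nd (nat_lit 234) (nat_lit 1520) (nat_lit 0) (XT.nd (nat_lit 78) (nat_lit 1140) (nat_lit 0) (XT.lf (nat_lit 0) (nat_lit 8014380541) (nat_lit 608) (nat_lit 1076745948) (nat_lit 76) (nat_lit 38768524078) (nat_lit 199) (nat_lit 5) (nat_lit 207) (nat_lit 5) (nat_lit 200) (nat_lit 5) (nat_lit 357) (nat_lit 343) (nat_lit 200)) (XT.nd (nat_lit 78) (nat_lit 532) (nat_lit 0) (XT.lf (nat_lit 0) (nat_lit 16443332911) (nat_lit 684) (nat_lit 8237162127) (nat_lit 76) (nat_lit 24524191270) (nat_lit 191) (nat_lit 5) (nat_lit 200) (nat_lit 5) (nat_lit 192) (nat_lit 5) (nat_lit 358) (nat_lit 343) (nat_lit 199)) (XT.lf (nat_lit 0) (nat_lit 25821016320) (nat_lit 608) (nat_lit 15584281024) (nat_lit 76) (nat_lit 9195859881)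 (nat_lit 184) (nat_lit 5) (nat_lit 192) (nat_lit 5) (nat_lit 185) (nat_lit 5) (nat_lit 359) (nat_lit 343) (nat_lit 198)))) (XT.nd (nat_lit 78) (nat_lit 988) (nat_lit 0) (XT.lf (nat_lit 0) (nat_lit 28850492695) (nat_lit 532) (nat_lit 7425964448) (nat_lit 608) (nat_lit 15772730150) (nat_lit 177) (nat_lit 5) (nat_lit 184) (nat_lit 5) (nat_lit 185) (nat_lit 5) (nat_lit 360) (nat_lit 343) (nat_lit 197)) (XT.nd (nat_lit 78) (nat_lit 532) (nat_lit 0) (XT.lf (nat_lit 0) (nat_lit 22428993300) (nat_lit 456) (nat_lit 25471794629) (nat_lit 532) (nat_lit 5649449114) (nat_lit 171) (nat_lit 5) (nat_lit 177) (nat_lit 5) (nat_lit 178) (nat_lit 5) (nat_lit 361) (nat_lit 343) (nat_lit 196)) (XT.lf (nat_lit 0) (nat_lit 5449932764) (nat_lit 532) (nat_lit 39327088145) (nat_lit 76) (nat_lit 10330870402) (nat_lit 164) (nat_lit 5) (nat_lit 171) (nat_lit 5) (nat_lit 165) (nat_lit 5) (nat_lit 362) (nat_lit 343) (nat_lit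 195))))) (XT.nd (nat_lit 234) (nat_lit 1292) (nat_lit 0) (XT.nd (nat_lit 78) (nat_lit 456) (nat_lit 0) (XT.lf (nat_lit 0) (nat_lit 8795495289) (nat_lit 456) (nat_lit 8855328769) (nat_lit 532) (nat_lit 39071026303) (nat_lit 158) (nat_lit 5) (nat_lit 164) (nat_lit 5) (nat_lit 165) (nat_lit 5) (nat_lit 363) (nat_lit 343) (nat_lit 194)) (XT.nd (nat_lit 78) (nat_lit 0) (nat_lit 0) (XT.lf (nat_lit 0) (nat_lit 1485896614) (nat_lit 456) (nat_lit 29673653181) (nat_lit 532) (nat_lit 27236025313) (nat_lit 152) (nat_lit 5) (nat_lit 158) (nat_lit 5) (nat_lit 159) (nat_lit 5) (nat_lit 364) (nat_lit 343) (nat_lit 193)) (XT.lf (nat_lit 0) (nat_lit 46003186980) (nat_lit 532) (nat_lit 5940001300) (nat_lit 76) (nat_lit 8190014928) (nat_lit 152) (nat_lit 5) (nat_lit 159) (nat_lit 5) (nat_lit 153) (nat_lit 5) (nat_lit 365) (nat_lit 343) (nat_lit 192)))) (XT.nd (nat_lit 78) (nat_lit 836) (nat_lit 0) (XT.lf (nat_lit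 0) (nat_lit 406446104) (nat_lit 456) (nat_lit 13722491695) (nat_lit 76) (nat_lit 47805843769) (nat_lit 146) (nat_lit 5) (nat_lit 152) (nat_lit 5) (nat_lit 147) (nat_lit 5) (nat_lit 366) (nat_lit 343) (nat_lit 191)) (XT.nd (nat_lit 78) (nat_lit 380) (nat_lit 0) (XT.lf (nat_lit 0) (nat_lit 16095520769) (nat_lit 532) (nat_lit 22014265986) (nat_lit 76) (nat_lit 25690915673) (nat_lit 140) (nat_lit 5) (nat_lit 147) (nat_lit 5) (nat_lit 141) (nat_lit 5) (nat_lit 367) (nat_lit 343) (nat_lit 190)) (XT.lf (nat_lit 0) (nat_lit 33208452472) (nat_lit 456) (nat_lit 30619528608) (nat_lit 76) (nat_lit 1912757304) (nat_lit 135) (nat_lit 5) (nat_lit 141) (nat_lit 5) (nat_lit 136) (nat_lit 5) (nat_lit 368) (nat_lit 343) (nat_lit 189)))))) (XT.nd (nat_lit 468) (nat_lit 1824) (nat_lit 0) (XT.nd (nat_lit 234) (nat_lit 684) (nat_lit 0) (XT.nd (nat_lit 78) (nat_lit 760) (nat_lit 0) (XT.lf (nat_lit 0) (nat_lit 27958130651)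 (nat_lit 380) (nat_lit 24098834969) (nat_lit 456) (nat_lit 15694413566) (nat_lit 130) (nat_lit 5) (nat_lit 135) (nat_lit 5) (nat_lit 136) (nat_lit 5) (nat_lit 369) (nat_lit 343) (nat_lit 188)) (XT.nd (nat_lit 78) (nat_lit 380) (nat_lit 0) (XT.lf (nat_lit 0) (nat_lit 2635599924) (nat_lit 380) (nat_lit 49392430812) (nat_lit 76) (nat_lit 17813280105) (nat_lit 125) (nat_lit 5) (nat_lit 130) (nat_lit 5) (nat_lit 126) (nat_lit 5) (nat_lit 370) (nat_lit 343) (nat_lit 187)) (XT.lf (nat_lit 0) (nat_lit 12343407388) (nat_lit 380) (nat_lit 9990523059) (nat_lit 456) (nat_lit 49673855861) (nat_lit 120) (nat_lit 5) (nat_lit 125) (nat_lit 5) (nat_lit 126) (nat_lit 5) (nat_lit 371) (nat_lit 343) (nat_lit 186)))) (XT.nd (nat_lit 78) (nat_lit 380) (nat_lit 0) (XT.lf (nat_lit 0) (nat_lit 3666151362) (nat_lit 304) (nat_lit 40225885714) (nat_lit 380) (nat_lit 30364303604) (nat_lit 116) (nat_lit 5) (nat_lit 120)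 (nat_lit 5) (nat_lit 121) (nat_lit 5) (nat_lit 372) (nat_lit 343) (nat_lit 185)) (XT.nd (nat_lit 78) (nat_lit 380) (nat_lit 0) (XT.lf (nat_lit 0) (nat_lit 67279104140) (nat_lit 380) (nat_lit 5330729508) (nat_lit 76) (nat_lit 3984958344) (nat_lit 116) (nat_lit 5) (nat_lit 121) (nat_lit 5) (nat_lit 117) (nat_lit 5) (nat_lit 373) (nat_lit 343) (nat_lit 184)) (XT.lf (nat_lit 0) (nat_lit 13565529344) (nat_lit 380) (nat_lit 15120165590) (nat_lit 76) (nat_lit 50329894952) (nat_lit 111) (nat_lit 5) (nat_lit 116) (nat_lit 5) (nat_lit 112) (nat_lit 5) (nat_lit 374) (nat_lit 343) (nat_lit 183))))) (XT.nd (nat_lit 234) (nat_lit 912) (nat_lit 0) (XT.nd (nat_lit 78) (nat_lit 608) (nat_lit 0) (XT.lf (nat_lit 0) (nat_lit 38167465321) (nat_lit 380) (nat_lit 25574607377) (nat_lit 76) (nat_lit 17789509092) (nat_lit 107) (nat_lit 5) (nat_lit 112) (nat_lit 5) (nat_lit 108) (nat_lit 5) (nat_lit 375) (nat_lit 343)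 (nat_lit 182)) (XT.nd (nat_lit 78) (nat_lit 304) (nat_lit 0) (XT.lf (nat_lit 0) (nat_lit 47365721948) (nat_lit 304) (nat_lit 17533948432) (nat_lit 380) (nat_lit 19246698475) (nat_lit 103) (nat_lit 5) (nat_lit 107) (nat_lit 5) (nat_lit 108) (nat_lit 5) (nat_lit 376) (nat_lit 343) (nat_lit 181)) (XT.lf (nat_lit 0) (nat_lit 6894802539) (nat_lit 304) (nat_lit 48888942503) (nat_lit 76) (nat_lit 31078294901) (nat_lit 99) (nat_lit 5) (nat_lit 103) (nat_lit 5) (nat_lit 100) (nat_lit 5) (nat_lit 377) (nat_lit 343) (nat_lit 180)))) (XT.nd (nat_lit 78) (nat_lit 608) (nat_lit 0) (XT.lf (nat_lit 0) (nat_lit 27693778085) (nat_lit 304) (nat_lit 7079046817) (nat_lit 380) (nat_lit 54910128564) (nat_lit 95) (nat_lit 5) (nat_lit 99) (nat_lit 5) (nat_lit 100) (nat_lit 5) (nat_lit 378) (nat_lit 343) (nat_lit 179)) (XT.nd (nat_lit 78) (nat_lit 380) (nat_lit 0) (XT.lf (nat_lit 0) (nat_lit 16386072891) (nat_lit 228)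 (nat_lit 48746271149) (nat_lit 304) (nat_lit 27479941371) (nat_lit 92) (nat_lit 5) (nat_lit 95) (nat_lit 5) (nat_lit 96) (nat_lit 5) (nat_lit 379) (nat_lit 343) (nat_lit 178)) (XT.lf (nat_lit 0) (nat_lit 2073083874) (nat_lit 380) (nat_lit 91389277996) (nat_lit 76) (nat_lit 2202027857) (nat_lit 87) (nat_lit 5) (nat_lit 92) (nat_lit 5) (nat_lit 88) (nat_lit 5) (nat_lit 380) (nat_lit 343) (nat_lit 177))))))))
noncomputable def xc113 : XT := (XT.nd (nat_lit 45318) (nat_lit 0) (nat_lit 684) (XT.nd (nat_lit 44382) (nat_lit 0) (nat_lit 8512) (XT.nd (nat_lit 390) (nat_lit 152) (nat_lit 0) (XT.nd (nat_lit 156) (nat_lit 760) (nat_lit 0) (XT.nd (nat_lit 78) (nat_lit 228) (nat_lit 0) (XT.lf (nat_lit 0) (nat_lit 33823552953) (nat_lit 380) (nat_lit 9230828046) (nat_lit 76) (nat_lit 55767912847) (nat_lit 87) (nat_lit 5) (nat_lit 92) (nat_lit 5) (nat_lit 88) (nat_lit 5) (nat_lit 381) (nat_lit 343) (nat_lit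 176)) (XT.lf (nat_lit 0) (nat_lit 68017611694) (nat_lit 304) (nat_lit 23651628091) (nat_lit 76) (nat_lit 10443171917) (nat_lit 84) (nat_lit 5) (nat_lit 88) (nat_lit 5) (nat_lit 85) (nat_lit 5) (nat_lit 382) (nat_lit 343) (nat_lit 175))) (XT.nd (nat_lit 78) (nat_lit 532) (nat_lit 0) (XT.lf (nat_lit 0) (nat_lit 66016015981) (nat_lit 228) (nat_lit 39068964291) (nat_lit 304) (nat_lit 447147461) (nat_lit 81) (nat_lit 5) (nat_lit 84) (nat_lit 5) (nat_lit 85) (nat_lit 5) (nat_lit 383) (nat_lit 343) (nat_lit 174)) (XT.nd (nat_lit 78) (nat_lit 228) (nat_lit 0) (XT.lf (nat_lit 0) (nat_lit 35114698464) (nat_lit 304) (nat_lit 57031657533) (nat_lit 76) (nat_lit 16939039508) (nat_lit 77) (nat_lit 5) (nat_lit 81) (nat_lit 5) (nat_lit 78) (nat_lit 5) (nat_lit 384) (nat_lit 343) (nat_lit 173)) (XT.lf (nat_lit 0) (nat_lit 36531401209) (nat_lit 228) (nat_lit 37068951878) (nat_lit 304) (nat_lit 39181192272) (nat_lit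 74) (nat_lit 5) (nat_lit 77) (nat_lit 5) (nat_lit 78) (nat_lit 5) (nat_lit 385) (nat_lit 343) (nat_lit 172))))) (XT.nd (nat_lit 43758) (nat_lit 0) (nat_lit 11628) (XT.nd (nat_lit 43602) (nat_lit 0) (nat_lit 11552) (XT.lf (nat_lit 0) (nat_lit 19492207507) (nat_lit 152) (nat_lit 95496547919) (nat_lit 228) (nat_lit 1644393742) (nat_lit 72) (nat_lit 5) (nat_lit 74) (nat_lit 5) (nat_lit 75) (nat_lit 5) (nat_lit 386) (nat_lit 343) (nat_lit 171)) (XT.nd (nat_lit 78) (nat_lit 1216) (nat_lit 0) (XT.lf (nat_lit 0) (nat_lit 8725442750) (nat_lit 0) (nat_lit 8725442750) (nat_lit 1140) (nat_lit 6385860) (nat_lit 240) (nat_lit 5) (nat_lit 240) (nat_lit 3) (nat_lit 255) (nat_lit 3) (nat_lit 344) (nat_lit 344) (nat_lit 212)) (XT.lf (nat_lit 0) (nat_lit 269759579) (nat_lit 1216) (nat_lit 25599519690) (nat_lit 1292) (nat_lit 9909598260) (nat_lit 224) (nat_lit 5) (nat_lit 240) (nat_lit 5) (nat_lit 241) (nat_lit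 5) (nat_lit 345) (nat_lit 344) (nat_lit 211)))) (XT.nd (nat_lit 78) (nat_lit 0) (nat_lit 0) (XT.lf (nat_lit 0) (nat_lit 962298167) (nat_lit 1216) (nat_lit 33931376518) (nat_lit 1292) (nat_lit 1780869755) (nat_lit 225) (nat_lit 5) (nat_lit 241) (nat_lit 5) (nat_lit 242) (nat_lit 5) (nat_lit 346) (nat_lit 344) (nat_lit 210)) (XT.nd (nat_lit 78) (nat_lit 0) (nat_lit 76) (XT.lf (nat_lit 0) (nat_lit 2211411507) (nat_lit 1216) (nat_lit 4836064774) (nat_lit 1292) (nat_lit 30551863315) (nat_lit 225) (nat_lit 5) (nat_lit 241) (nat_lit 5) (nat_lit 242) (nat_lit 5) (nat_lit 347) (nat_lit 344) (nat_lit 209)) (XT.lf (nat_lit 0) (nat_lit 3985838556) (nat_lit 1216) (nat_lit 12556137986) (nat_lit 1292) (nat_lit 22014515399) (nat_lit 226) (nat_lit 5) (nat_lit 242) (nat_lit 5) (nat_lit 243) (nat_lit 5) (nat_lit 348) (nat_lit 344) (nat_lit 208)))))) (XT.nd (nat_lit 468) (nat_lit 3268) (nat_lit 0) (XT.nd (nat_lit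 234) (nat_lit 0) (nat_lit 152) (XT.nd (nat_lit 78) (nat_lit 0) (nat_lit 76) (XT.lf (nat_lit 0) (nat_lit 6275972108) (nat_lit 1216) (nat_lit 20458159032) (nat_lit 1292) (nat_lit 12814564234) (nat_lit 227) (nat_lit 5) (nat_lit 243) (nat_lit 5) (nat_lit 244) (nat_lit 5) (nat_lit 349) (nat_lit 344) (nat_lit 207)) (XT.nd (nat_lit 78) (nat_lit 0) (nat_lit 0) (XT.lf (nat_lit 0) (nat_lit 9117981200) (nat_lit 1216) (nat_lit 28547617060) (nat_lit 1292) (nat_lit 2911792533) (nat_lit 228) (nat_lit 5) (nat_lit 244) (nat_lit 5) (nat_lit 245) (nat_lit 5) (nat_lit 350) (nat_lit 344) (nat_lit 206)) (XT.lf (nat_lit 76) (nat_lit 4735651850) (nat_lit 0) (nat_lit 7890085592) (nat_lit 1292) (nat_lit 29016076881) (nat_lit 229) (nat_lit 5) (nat_lit 228) (nat_lit 5) (nat_lit 245) (nat_lit 5) (nat_lit 351) (nat_lit 344) (nat_lit 205)))) (XT.nd (nat_lit 78) (nat_lit 0) (nat_lit 76) (XT.lf (nat_lit 0) (nat_lit 16826146551)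 (nat_lit 1216) (nat_lit 2701894117) (nat_lit 1292) (nat_lit 23215903023) (nat_lit 229) (nat_lit 5) (nat_lit 245) (nat_lit 5) (nat_lit 246) (nat_lit 5) (nat_lit 352) (nat_lit 344) (nat_lit 204)) (XT.nd (nat_lit 78) (nat_lit 0) (nat_lit 0) (XT.lf (nat_lit 0) (nat_lit 21753824526) (nat_lit 1216) (nat_lit 10216826378) (nat_lit 1292) (nat_lit 11915013658) (nat_lit 230) (nat_lit 5) (nat_lit 246) (nat_lit 5) (nat_lit 247) (nat_lit 5) (nat_lit 353) (nat_lit 344) (nat_lit 203)) (XT.lf (nat_lit 76) (nat_lit 27160373810) (nat_lit 0) (nat_lit 249949843) (nat_lit 1292) (nat_lit 17659677074) (nat_lit 231) (nat_lit 5) (nat_lit 230) (nat_lit 5) (nat_lit 247) (nat_lit 5) (nat_lit 354) (nat_lit 344) (nat_lit 202))))) (XT.nd (nat_lit 234) (nat_lit 1140) (nat_lit 0) (XT.nd (nat_lit 78) (nat_lit 1216) (nat_lit 0) (XT.lf (nat_lit 0) (nat_lit 20385319458) (nat_lit 1216) (nat_lit 13580584581) (nat_lit 1292) (nat_lit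 12329164231) (nat_lit 215) (nat_lit 5) (nat_lit 231) (nat_lit 5) (nat_lit 232) (nat_lit 5) (nat_lit 355) (nat_lit 344) (nat_lit 201)) (XT.nd (nat_lit 78) (nat_lit 608) (nat_lit 0) (XT.lf (nat_lit 0) (nat_lit 13458733306) (nat_lit 608) (nat_lit 27894823169) (nat_lit 684) (nat_lit 6212706071) (nat_lit 207) (nat_lit 5) (nat_lit 215) (nat_lit 5) (nat_lit 216) (nat_lit 5) (nat_lit 356) (nat_lit 344) (nat_lit 200)) (XT.lf (nat_lit 0) (nat_lit 725560886) (nat_lit 608) (nat_lit 42517832127) (nat_lit 76) (nat_lit 5641962810) (nat_lit 199) (nat_lit 5) (nat_lit 207) (nat_lit 5) (nat_lit 200) (nat_lit 5) (nat_lit 357) (nat_lit 344) (nat_lit 199)))) (XT.nd (nat_lit 78) (nat_lit 1140) (nat_lit 0) (XT.lf (nat_lit 0) (nat_lit 8516289659) (nat_lit 608) (nat_lit 1031739875) (nat_lit 76) (nat_lit 40701509660) (nat_lit 199) (nat_lit 5) (nat_lit 207) (nat_lit 5) (nat_lit 200) (nat_lit 5) (nat_lit 358) (nat_lit 344)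 (nat_lit 198)) (XT.nd (nat_lit 78) (nat_lit 532) (nat_lit 0) (XT.lf (nat_lit 0) (nat_lit 17362781632) (nat_lit 684) (nat_lit 8550023583) (nat_lit 76) (nat_lit 25749141518) (nat_lit 191) (nat_lit 5) (nat_lit 200) (nat_lit 5) (nat_lit 192) (nat_lit 5) (nat_lit 359) (nat_lit 344) (nat_lit 197)) (XT.lf (nat_lit 0) (nat_lit 27205665919) (nat_lit 608) (nat_lit 16264500987) (nat_lit 76) (nat_lit 9658187429) (nat_lit 184) (nat_lit 5) (nat_lit 192) (nat_lit 5) (nat_lit 185) (nat_lit 5) (nat_lit 360) (nat_lit 344) (nat_lit 196))))))) (XT.nd (nat_lit 936) (nat_lit 2964) (nat_lit 0) (XT.nd (nat_lit 468) (nat_lit 2432) (nat_lit 0) (XT.nd (nat_lit 234) (nat_lit 912) (nat_lit 0) (XT.nd (nat_lit 78) (nat_lit 988) (nat_lit 0) (XT.lf (nat_lit 0) (nat_lit 30389173772) (nat_lit 532) (nat_lit 7791172241) (nat_lit 608) (nat_lit 16468548390) (nat_lit 177) (nat_lit 5) (nat_lit 184) (nat_lit 5) (nat_lit 185) (nat_lit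 5) (nat_lit 361) (nat_lit 344) (nat_lit 195)) (XT.nd (nat_lit 78) (nat_lit 532) (nat_lit 0) (XT.lf (nat_lit 0) (nat_lit 23646459597) (nat_lit 456) (nat_lit 26736123611) (nat_lit 532) (nat_lit 5842515130) (nat_lit 171) (nat_lit 5) (nat_lit 177) (nat_lit 5) (nat_lit 178) (nat_lit 5) (nat_lit 362) (nat_lit 344) (nat_lit 194)) (XT.lf (nat_lit 0) (nat_lit 5806931993) (nat_lit 532) (nat_lit 41195964068) (nat_lit 76) (nat_lit 10857810466) (nat_lit 164) (nat_lit 5) (nat_lit 171) (nat_lit 5) (nat_lit 165) (nat_lit 5) (nat_lit 363) (nat_lit 344) (nat_lit 193)))) (XT.nd (nat_lit 78) (nat_lit 456) (nat_lit 0) (XT.lf (nat_lit 0) (nat_lit 9329954337) (nat_lit 456) (nat_lit 9284799746) (nat_lit 532) (nat_lit 40940704969) (nat_lit 158) (nat_lit 5) (nat_lit 164) (nat_lit 5) (nat_lit 165) (nat_lit 5) (nat_lit 364) (nat_lit 344) (nat_lit 192)) (XT.nd (nat_lit 78) (nat_lit 0) (nat_lit 0) (XT.lf (nat_lit 0) (nat_lit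 1654450111) (nat_lit 456) (nat_lit 31141618127) (nat_lit 532) (nat_lit 28516889241) (nat_lit 152) (nat_lit 5) (nat_lit 158) (nat_lit 5) (nat_lit 159) (nat_lit 5) (nat_lit 365) (nat_lit 344) (nat_lit 191)) (XT.lf (nat_lit 0) (nat_lit 48378291131) (nat_lit 532) (nat_lit 6145092829) (nat_lit 76) (nat_lit 8614192821) (nat_lit 152) (nat_lit 5) (nat_lit 159) (nat_lit 5) (nat_lit 153) (nat_lit 5) (nat_lit 366) (nat_lit 344) (nat_lit 190))))) (XT.nd (nat_lit 234) (nat_lit 1140) (nat_lit 0) (XT.nd (nat_lit 78) (nat_lit 836) (nat_lit 0) (XT.lf (nat_lit 0) (nat_lit 499753468) (nat_lit 456) (nat_lit 14317854376) (nat_lit 76) (nat_lit 50211687889) (nat_lit 146) (nat_lit 5) (nat_lit 152) (nat_lit 5) (nat_lit 147) (nat_lit 5) (nat_lit 367) (nat_lit 344) (nat_lit 189)) (XT.nd (nat_lit 78) (nat_lit 380) (nat_lit 0) (XT.lf (nat_lit 0) (nat_lit 16970824973) (nat_lit 532) (nat_lit 23024845800) (nat_lit 76) (nat_lit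 26992917254) (nat_lit 140) (nat_lit 5) (nat_lit 147) (nat_lit 5) (nat_lit 141) (nat_lit 5) (nat_lit 368) (nat_lit 344) (nat_lit 188)) (XT.lf (nat_lit 0) (nat_lit 34937074176) (nat_lit 456) (nat_lit 32061070616) (nat_lit 76) (nat_lit 2027552465) (nat_lit 135) (nat_lit 5) (nat_lit 141) (nat_lit 5) (nat_lit 136) (nat_lit 5) (nat_lit 369) (nat_lit 344) (nat_lit 187)))) (XT.nd (nat_lit 78) (nat_lit 760) (nat_lit 0) (XT.lf (nat_lit 0) (nat_lit 29442907986) (nat_lit 380) (nat_lit 25282692476) (nat_lit 456) (nat_lit 16411343540) (nat_lit 130) (nat_lit 5) (nat_lit 135) (nat_lit 5) (nat_lit 136) (nat_lit 5) (nat_lit 370) (nat_lit 344) (nat_lit 186)) (XT.nd (nat_lit 78) (nat_lit 380) (nat_lit 0) (XT.lf (nat_lit 0) (nat_lit 2831713718) (nat_lit 380) (nat_lit 51774613240) (nat_lit 76) (nat_lit 18725091166) (nat_lit 125) (nat_lit 5) (nat_lit 130) (nat_lit 5) (nat_lit 126) (nat_lit 5) (nat_lit 371) (nat_lit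 344) (nat_lit 185)) (XT.lf (nat_lit 0) (nat_lit 13045510445) (nat_lit 380) (nat_lit 10467203234) (nat_lit 456) (nat_lit 52093572444) (nat_lit 120) (nat_lit 5) (nat_lit 125) (nat_lit 5) (nat_lit 126) (nat_lit 5) (nat_lit 372) (nat_lit 344) (nat_lit 184)))))) (XT.nd (nat_lit 468) (nat_lit 1368) (nat_lit 0) (XT.nd (nat_lit 234) (nat_lit 912) (nat_lit 0) (XT.nd (nat_lit 78) (nat_lit 380) (nat_lit 0) (XT.lf (nat_lit 0) (nat_lit 3933579063) (nat_lit 304) (nat_lit 42213207831) (nat_lit 380) (nat_lit 31820540762) (nat_lit 116) (nat_lit 5) (nat_lit 120) (nat_lit 5) (nat_lit 121) (nat_lit 5) (nat_lit 373) (nat_lit 344) (nat_lit 183)) (XT.nd (nat_lit 78) (nat_lit 380) (nat_lit 0) (XT.lf (nat_lit 0) (nat_lit 70700562585) (nat_lit 380) (nat_lit 5515628120) (nat_lit 76) (nat_lit 4206591390) (nat_lit 116) (nat_lit 5) (nat_lit 121) (nat_lit 5) (nat_lit 117) (nat_lit 5) (nat_lit 374) (nat_lit 344) (nat_lit 182))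 (XT.lf (nat_lit 0) (nat_lit 14299905616) (nat_lit 380) (nat_lit 15795737083) (nat_lit 76) (nat_lit 52869021127) (nat_lit 111) (nat_lit 5) (nat_lit 116) (nat_lit 5) (nat_lit 112) (nat_lit 5) (nat_lit 375) (nat_lit 344) (nat_lit 181)))) (XT.nd (nat_lit 78) (nat_lit 608) (nat_lit 0) (XT.lf (nat_lit 0) (nat_lit 40130248255) (nat_lit 380) (nat_lit 26773790033) (nat_lit 76) (nat_lit 18702468816) (nat_lit 107) (nat_lit 5) (nat_lit 112) (nat_lit 5) (nat_lit 108) (nat_lit 5) (nat_lit 376) (nat_lit 344) (nat_lit 180)) (XT.nd (nat_lit 78) (nat_lit 304) (nat_lit 0) (XT.lf (nat_lit 0) (nat_lit 49811275539) (nat_lit 304) (nat_lit 18385939833) (nat_lit 380) (nat_lit 20154874618) (nat_lit 103) (nat_lit 5) (nat_lit 107) (nat_lit 5) (nat_lit 108) (nat_lit 5) (nat_lit 377) (nat_lit 344) (nat_lit 179)) (XT.lf (nat_lit 0) (nat_lit 7291085787) (nat_lit 304) (nat_lit 51255971423) (nat_lit 76) (nat_lit 32656519516)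 (nat_lit 99) (nat_lit 5) (nat_lit 103) (nat_lit 5) (nat_lit 100) (nat_lit 5) (nat_lit 378) (nat_lit 344) (nat_lit 178))))) (XT.nd (nat_lit 234) (nat_lit 456) (nat_lit 0) (XT.nd (nat_lit 78) (nat_lit 608) (nat_lit 0) (XT.lf (nat_lit 0) (nat_lit 29153666018) (nat_lit 304) (nat_lit 7407611675) (nat_lit 380) (nat_lit 57604311081) (nat_lit 95) (nat_lit 5) (nat_lit 99) (nat_lit 5) (nat_lit 100) (nat_lit 5) (nat_lit 379) (nat_lit 344) (nat_lit 177)) (XT.nd (nat_lit 78) (nat_lit 380) (nat_lit 0) (XT.lf (nat_lit 0) (nat_lit 17279651968) (nat_lit 228) (nat_lit 51157695241) (nat_lit 304) (nat_lit 28804083731) (nat_lit 92) (nat_lit 5) (nat_lit 95) (nat_lit 5) (nat_lit 96) (nat_lit 5) (nat_lit 380) (nat_lit 344) (nat_lit 176)) (XT.lf (nat_lit 0) (nat_lit 2224243468) (nat_lit 380) (nat_lit 95884449327) (nat_lit 76) (nat_lit 2337475389) (nat_lit 87) (nat_lit 5) (nat_lit 92) (nat_lit 5) (nat_lit 88) (nat_lit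 5) (nat_lit 381) (nat_lit 344) (nat_lit 175)))) (XT.nd (nat_lit 78) (nat_lit 456) (nat_lit 0) (XT.lf (nat_lit 0) (nat_lit 35559973840) (nat_lit 380) (nat_lit 9621614621) (nat_lit 76) (nat_lit 58580447669) (nat_lit 87) (nat_lit 5) (nat_lit 92) (nat_lit 5) (nat_lit 88) (nat_lit 5) (nat_lit 382) (nat_lit 344) (nat_lit 174)) (XT.nd (nat_lit 78) (nat_lit 228) (nat_lit 0) (XT.lf (nat_lit 0) (nat_lit 71462481816) (nat_lit 304) (nat_lit 24764396060) (nat_lit 76) (nat_lit 10989820331) (nat_lit 84) (nat_lit 5) (nat_lit 88) (nat_lit 5) (nat_lit 85) (nat_lit 5) (nat_lit 383) (nat_lit 344) (nat_lit 173)) (XT.lf (nat_lit 0) (nat_lit 69384629027) (nat_lit 228) (nat_lit 40997146909) (nat_lit 304) (nat_lit 425668076) (nat_lit 81) (nat_lit 5) (nat_lit 84) (nat_lit 5) (nat_lit 85) (nat_lit 5) (nat_lit 384) (nat_lit 344) (nat_lit 172))))))))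
noncomputable def xc114 : XT := (XT.nd (nat_lit 45396) (nat_lit 0) (nat_lit 228) (XT.nd (nat_lit 44460) (nat_lit 0) (nat_lit 6384) (XT.nd (nat_lit 43992) (nat_lit 0) (nat_lit 11476) (XT.nd (nat_lit 43758) (nat_lit 0) (nat_lit 11324) (XT.nd (nat_lit 78) (nat_lit 228) (nat_lit 0) (XT.lf (nat_lit 0) (nat_lit 36912250906) (nat_lit 304) (nat_lit 59815509841) (nat_lit 76) (nat_lit 17810637332) (nat_lit 77) (nat_lit 5) (nat_lit 81) (nat_lit 5) (nat_lit 78) (nat_lit 5) (nat_lit 385) (nat_lit 344) (nat_lit 171)) (XT.lf (nat_lit 0) (nat_lit 38423760354) (nat_lit 228) (nat_lit 38897069000) (nat_lit 304) (nat_lit 41098567443) (nat_lit 74) (nat_lit 5) (nat_lit 77) (nat_lit 5) (nat_lit 78) (nat_lit 5) (nat_lit 386) (nat_lit 344) (nat_lit 170))) (XT.nd (nat_lit 78) (nat_lit 0) (nat_lit 76) (XT.lf (nat_lit 0) (nat_lit 78703241) (nat_lit 1292) (nat_lit 9124410734) (nat_lit 1292) (nat_lit 9124410734) (nat_lit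 223) (nat_lit 3) (nat_lit 240) (nat_lit 3) (nat_lit 240) (nat_lit 5) (nat_lit 345) (nat_lit 345) (nat_lit 210)) (XT.nd (nat_lit 78) (nat_lit 0) (nat_lit 76) (XT.lf (nat_lit 0) (nat_lit 445752959) (nat_lit 1216) (nat_lit 26788376497) (nat_lit 1292) (nat_lit 10328714263) (nat_lit 224) (nat_lit 5) (nat_lit 240) (nat_lit 5) (nat_lit 241) (nat_lit 5) (nat_lit 346) (nat_lit 345) (nat_lit 209)) (XT.lf (nat_lit 0) (nat_lit 1165385802) (nat_lit 1216) (nat_lit 35534026793) (nat_lit 1292) (nat_lit 1804112242) (nat_lit 225) (nat_lit 5) (nat_lit 241) (nat_lit 5) (nat_lit 242) (nat_lit 5) (nat_lit 347) (nat_lit 345) (nat_lit 208))))) (XT.nd (nat_lit 234) (nat_lit 0) (nat_lit 228) (XT.nd (nat_lit 78) (nat_lit 0) (nat_lit 76) (XT.lf (nat_lit 0) (nat_lit 2469575155) (nat_lit 1216) (nat_lit 4988421774) (nat_lit 1292) (nat_lit 32016788860) (nat_lit 225) (nat_lit 5) (nat_lit 241) (nat_lit 5) (nat_lit 242) (nat_lit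 5) (nat_lit 348) (nat_lit 345) (nat_lit 207)) (XT.nd (nat_lit 78) (nat_lit 0) (nat_lit 76) (XT.lf (nat_lit 0) (nat_lit 4326006424) (nat_lit 1216) (nat_lit 13092207983) (nat_lit 1292) (nat_lit 23061787289) (nat_lit 226) (nat_lit 5) (nat_lit 242) (nat_lit 5) (nat_lit 243) (nat_lit 5) (nat_lit 349) (nat_lit 345) (nat_lit 206)) (XT.lf (nat_lit 0) (nat_lit 6724353448) (nat_lit 1216) (nat_lit 21387383249) (nat_lit 1292) (nat_lit 13410271616) (nat_lit 227) (nat_lit 5) (nat_lit 243) (nat_lit 5) (nat_lit 244) (nat_lit 5) (nat_lit 350) (nat_lit 345) (nat_lit 205)))) (XT.nd (nat_lit 78) (nat_lit 0) (nat_lit 0) (XT.lf (nat_lit 0) (nat_lit 9702563260) (nat_lit 1216) (nat_lit 29879682045) (nat_lit 1292) (nat_lit 3020074206) (nat_lit 228) (nat_lit 5) (nat_lit 244) (nat_lit 5) (nat_lit 245) (nat_lit 5) (nat_lit 351) (nat_lit 345) (nat_lit 204)) (XT.nd (nat_lit 78) (nat_lit 0) (nat_lit 76) (XT.lf (nat_lit 76)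 (nat_lit 5065018100) (nat_lit 0) (nat_lit 8315451423) (nat_lit 1292) (nat_lit 30339655655) (nat_lit 229) (nat_lit 5) (nat_lit 228) (nat_lit 5) (nat_lit 245) (nat_lit 5) (nat_lit 352) (nat_lit 345) (nat_lit 203)) (XT.lf (nat_lit 0) (nat_lit 17784738211) (nat_lit 1216) (nat_lit 2744931508) (nat_lit 1292) (nat_lit 24347879763) (nat_lit 229) (nat_lit 5) (nat_lit 245) (nat_lit 5) (nat_lit 246) (nat_lit 5) (nat_lit 353) (nat_lit 345) (nat_lit 202)))))) (XT.nd (nat_lit 468) (nat_lit 3116) (nat_lit 0) (XT.nd (nat_lit 234) (nat_lit 1216) (nat_lit 0) (XT.nd (nat_lit 78) (nat_lit 1140) (nat_lit 0) (XT.lf (nat_lit 0) (nat_lit 22953852222) (nat_lit 1216) (nat_lit 10634580587) (nat_lit 1292) (nat_lit 12488075494) (nat_lit 230) (nat_lit 5) (nat_lit 246) (nat_lit 5) (nat_lit 247) (nat_lit 5) (nat_lit 354) (nat_lit 345) (nat_lit 201)) (XT.nd (nat_lit 78) (nat_lit 1140) (nat_lit 0) (XT.lf (nat_lit 76) (nat_lit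 28608811287) (nat_lit 0) (nat_lit 279884824) (nat_lit 1292) (nat_lit 18431502876) (nat_lit 231) (nat_lit 5) (nat_lit 230) (nat_lit 5) (nat_lit 247) (nat_lit 5) (nat_lit 355) (nat_lit 345) (nat_lit 200)) (XT.lf (nat_lit 0) (nat_lit 21495782328) (nat_lit 1216) (nat_lit 14271854177) (nat_lit 1292) (nat_lit 12839019119) (nat_lit 215) (nat_lit 5) (nat_lit 231) (nat_lit 5) (nat_lit 232) (nat_lit 5) (nat_lit 356) (nat_lit 345) (nat_lit 199)))) (XT.nd (nat_lit 78) (nat_lit 608) (nat_lit 0) (XT.lf (nat_lit 0) (nat_lit 14223442322) (nat_lit 608) (nat_lit 29297073770) (nat_lit 684) (nat_lit 6421021184) (nat_lit 207) (nat_lit 5) (nat_lit 215) (nat_lit 5) (nat_lit 216) (nat_lit 5) (nat_lit 357) (nat_lit 345) (nat_lit 198)) (XT.nd (nat_lit 78) (nat_lit 0) (nat_lit 0) (XT.lf (nat_lit 0) (nat_lit 858210445) (nat_lit 608) (nat_lit 44549587190) (nat_lit 76) (nat_lit 5918879406) (nat_lit 199) (nat_lit 5) (nat_lit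 207) (nat_lit 5) (nat_lit 200) (nat_lit 5) (nat_lit 358) (nat_lit 345) (nat_lit 197)) (XT.lf (nat_lit 0) (nat_lit 9033886537) (nat_lit 608) (nat_lit 993673019) (nat_lit 76) (nat_lit 42731650339) (nat_lit 199) (nat_lit 5) (nat_lit 207) (nat_lit 5) (nat_lit 200) (nat_lit 5) (nat_lit 359) (nat_lit 345) (nat_lit 196))))) (XT.nd (nat_lit 234) (nat_lit 1444) (nat_lit 0) (XT.nd (nat_lit 78) (nat_lit 1064) (nat_lit 0) (XT.lf (nat_lit 0) (nat_lit 18319158424) (nat_lit 684) (nat_lit 8887731882) (nat_lit 76) (nat_lit 27035456359) (nat_lit 191) (nat_lit 5) (nat_lit 200) (nat_lit 5) (nat_lit 192) (nat_lit 5) (nat_lit 360) (nat_lit 345) (nat_lit 195)) (XT.nd (nat_lit 78) (nat_lit 532) (nat_lit 0) (XT.lf (nat_lit 0) (nat_lit 28650846071) (nat_lit 608) (nat_lit 16987935480) (nat_lit 76) (nat_lit 10143395715) (nat_lit 184) (nat_lit 5) (nat_lit 192) (nat_lit 5) (nat_lit 185) (nat_lit 5) (nat_lit 361) (nat_lit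 345) (nat_lit 194)) (XT.lf (nat_lit 0) (nat_lit 31995849189) (nat_lit 532) (nat_lit 8175206653) (nat_lit 608) (nat_lit 17207786905) (nat_lit 177) (nat_lit 5) (nat_lit 184) (nat_lit 5) (nat_lit 185) (nat_lit 5) (nat_lit 362) (nat_lit 345) (nat_lit 193)))) (XT.nd (nat_lit 78) (nat_lit 988) (nat_lit 0) (XT.lf (nat_lit 0) (nat_lit 24915872493) (nat_lit 456) (nat_lit 28064530019) (nat_lit 532) (nat_lit 6053546611) (nat_lit 171) (nat_lit 5) (nat_lit 177) (nat_lit 5) (nat_lit 178) (nat_lit 5) (nat_lit 363) (nat_lit 345) (nat_lit 192)) (XT.nd (nat_lit 78) (nat_lit 456) (nat_lit 0) (XT.lf (nat_lit 0) (nat_lit 6173924934) (nat_lit 532) (nat_lit 43167346412) (nat_lit 76) (nat_lit 11410130961) (nat_lit 164) (nat_lit 5) (nat_lit 171) (nat_lit 5) (nat_lit 165) (nat_lit 5) (nat_lit 364) (nat_lit 345) (nat_lit 191)) (XT.lf (nat_lit 0) (nat_lit 9882333490) (nat_lit 456) (nat_lit 9736980357) (nat_lit 532) (nat_lit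 42911665252) (nat_lit 158) (nat_lit 5) (nat_lit 164) (nat_lit 5) (nat_lit 165) (nat_lit 5) (nat_lit 365) (nat_lit 345) (nat_lit 190))))))) (XT.nd (nat_lit 936) (nat_lit 2280) (nat_lit 0) (XT.nd (nat_lit 468) (nat_lit 1748) (nat_lit 0) (XT.nd (nat_lit 234) (nat_lit 1216) (nat_lit 0) (XT.nd (nat_lit 78) (nat_lit 456) (nat_lit 0) (XT.lf (nat_lit 0) (nat_lit 1822668006) (nat_lit 456) (nat_lit 32684442604) (nat_lit 532) (nat_lit 29869321152) (nat_lit 152) (nat_lit 5) (nat_lit 158) (nat_lit 5) (nat_lit 159) (nat_lit 5) (nat_lit 366) (nat_lit 345) (nat_lit 189)) (XT.nd (nat_lit 78) (nat_lit 456) (nat_lit 0) (XT.lf (nat_lit 0) (nat_lit 50865182831) (nat_lit 532) (nat_lit 6368983719) (nat_lit 76) (nat_lit 9058215067) (nat_lit 152) (nat_lit 5) (nat_lit 159) (nat_lit 5) (nat_lit 153) (nat_lit 5) (nat_lit 367) (nat_lit 345) (nat_lit 188)) (XT.lf (nat_lit 0) (nat_lit 590940742) (nat_lit 456) (nat_lit 14951423373)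 (nat_lit 76) (nat_lit 52736378343) (nat_lit 146) (nat_lit 5) (nat_lit 152) (nat_lit 5) (nat_lit 147) (nat_lit 5) (nat_lit 368) (nat_lit 345) (nat_lit 187)))) (XT.nd (nat_lit 78) (nat_lit 760) (nat_lit 0) (XT.lf (nat_lit 0) (nat_lit 17883337347) (nat_lit 532) (nat_lit 24094334362) (nat_lit 76) (nat_lit 28358396039) (nat_lit 140) (nat_lit 5) (nat_lit 147) (nat_lit 5) (nat_lit 141) (nat_lit 5) (nat_lit 369) (nat_lit 345) (nat_lit 186)) (XT.nd (nat_lit 78) (nat_lit 380) (nat_lit 0) (XT.lf (nat_lit 0) (nat_lit 36745786461) (nat_lit 456) (nat_lit 33583004490) (nat_lit 76) (nat_lit 2146306320) (nat_lit 135) (nat_lit 5) (nat_lit 141) (nat_lit 5) (nat_lit 136) (nat_lit 5) (nat_lit 370) (nat_lit 345) (nat_lit 185)) (XT.lf (nat_lit 0) (nat_lit 30993847764) (nat_lit 380) (nat_lit 26527703070) (nat_lit 456) (nat_lit 17170422550) (nat_lit 130) (nat_lit 5) (nat_lit 135) (nat_lit 5) (nat_lit 136) (nat_lit 5)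 (nat_lit 371) (nat_lit 345) (nat_lit 184))))) (XT.nd (nat_lit 234) (nat_lit 684) (nat_lit 0) (XT.nd (nat_lit 78) (nat_lit 684) (nat_lit 0) (XT.lf (nat_lit 0) (nat_lit 3031652055) (nat_lit 380) (nat_lit 54284034050) (nat_lit 76) (nat_lit 19680526727) (nat_lit 125) (nat_lit 5) (nat_lit 130) (nat_lit 5) (nat_lit 126) (nat_lit 5) (nat_lit 372) (nat_lit 345) (nat_lit 183)) (XT.nd (nat_lit 78) (nat_lit 304) (nat_lit 0) (XT.lf (nat_lit 0) (nat_lit 13774822418) (nat_lit 380) (nat_lit 10969841419) (nat_lit 456) (nat_lit 54640222758) (nat_lit 120) (nat_lit 5) (nat_lit 125) (nat_lit 5) (nat_lit 126) (nat_lit 5) (nat_lit 373) (nat_lit 345) (nat_lit 182)) (XT.lf (nat_lit 0) (nat_lit 4206557458) (nat_lit 304) (nat_lit 44302124759) (nat_lit 380) (nat_lit 33355351906) (nat_lit 116) (nat_lit 5) (nat_lit 120) (nat_lit 5) (nat_lit 121) (nat_lit 5) (nat_lit 374) (nat_lit 345) (nat_lit 181)))) (XT.nd (nat_lit 78)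 (nat_lit 684) (nat_lit 0) (XT.lf (nat_lit 0) (nat_lit 74287747847) (nat_lit 380) (nat_lit 5717361578) (nat_lit 76) (nat_lit 4437224932) (nat_lit 116) (nat_lit 5) (nat_lit 121) (nat_lit 5) (nat_lit 117) (nat_lit 5) (nat_lit 375) (nat_lit 345) (nat_lit 180)) (XT.nd (nat_lit 78) (nat_lit 304) (nat_lit 0) (XT.lf (nat_lit 0) (nat_lit 15065785074) (nat_lit 380) (nat_lit 16512565401) (nat_lit 76) (nat_lit 55532999554) (nat_lit 111) (nat_lit 5) (nat_lit 116) (nat_lit 5) (nat_lit 112) (nat_lit 5) (nat_lit 376) (nat_lit 345) (nat_lit 179)) (XT.lf (nat_lit 0) (nat_lit 42186111840) (nat_lit 380) (nat_lit 28040327414) (nat_lit 76) (nat_lit 19658893181) (nat_lit 107) (nat_lit 5) (nat_lit 112) (nat_lit 5) (nat_lit 108) (nat_lit 5) (nat_lit 377) (nat_lit 345) (nat_lit 178)))))) (XT.nd (nat_lit 468) (nat_lit 760) (nat_lit 0) (XT.nd (nat_lit 234) (nat_lit 608) (nat_lit 0) (XT.nd (nat_lit 78) (nat_lit 608) (nat_lit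 0) (XT.lf (nat_lit 0) (nat_lit 52371923210) (nat_lit 304) (nat_lit 19282827736) (nat_lit 380) (nat_lit 21113494738) (nat_lit 103) (nat_lit 5) (nat_lit 107) (nat_lit 5) (nat_lit 108) (nat_lit 5) (nat_lit 378) (nat_lit 345) (nat_lit 177)) (XT.nd (nat_lit 78) (nat_lit 304) (nat_lit 0) (XT.lf (nat_lit 0) (nat_lit 7702391206) (nat_lit 304) (nat_lit 53748549400) (nat_lit 76) (nat_lit 34311395261) (nat_lit 99) (nat_lit 5) (nat_lit 103) (nat_lit 5) (nat_lit 100) (nat_lit 5) (nat_lit 379) (nat_lit 345) (nat_lit 176)) (XT.lf (nat_lit 0) (nat_lit 30679557054) (nat_lit 304) (nat_lit 7754965064) (nat_lit 380) (nat_lit 60437974334) (nat_lit 95) (nat_lit 5) (nat_lit 99) (nat_lit 5) (nat_lit 100) (nat_lit 5) (nat_lit 380) (nat_lit 345) (nat_lit 175)))) (XT.nd (nat_lit 78) (nat_lit 380) (nat_lit 0) (XT.lf (nat_lit 0) (nat_lit 18211004574) (nat_lit 228) (nat_lit 53692097494) (nat_lit 304) (nat_lit 30199068228)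 (nat_lit 92) (nat_lit 5) (nat_lit 95) (nat_lit 5) (nat_lit 96) (nat_lit 5) (nat_lit 381) (nat_lit 345) (nat_lit 174)) (XT.nd (nat_lit 78) (nat_lit 0) (nat_lit 0) (XT.lf (nat_lit 0) (nat_lit 2378544440) (nat_lit 380) (nat_lit 100611286243) (nat_lit 76) (nat_lit 2477338853) (nat_lit 87) (nat_lit 5) (nat_lit 92) (nat_lit 5) (nat_lit 88) (nat_lit 5) (nat_lit 382) (nat_lit 345) (nat_lit 173)) (XT.lf (nat_lit 0) (nat_lit 37379009483) (nat_lit 380) (nat_lit 10038518637) (nat_lit 76) (nat_lit 61531365000) (nat_lit 87) (nat_lit 5) (nat_lit 92) (nat_lit 5) (nat_lit 88) (nat_lit 5) (nat_lit 383) (nat_lit 345) (nat_lit 172))))) (XT.nd (nat_lit 43914) (nat_lit 0) (nat_lit 11096) (XT.nd (nat_lit 78) (nat_lit 532) (nat_lit 0) (XT.lf (nat_lit 0) (nat_lit 75075505714) (nat_lit 304) (nat_lit 25939293020) (nat_lit 76) (nat_lit 11561524335) (nat_lit 84) (nat_lit 5) (nat_lit 88) (nat_lit 5) (nat_lit 85) (nat_lit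 5) (nat_lit 384) (nat_lit 345) (nat_lit 171)) (XT.nd (nat_lit 78) (nat_lit 304) (nat_lit 0) (XT.lf (nat_lit 0) (nat_lit 72915368186) (nat_lit 228) (nat_lit 43024087614) (nat_lit 304) (nat_lit 407190248) (nat_lit 81) (nat_lit 5) (nat_lit 84) (nat_lit 5) (nat_lit 85) (nat_lit 5) (nat_lit 385) (nat_lit 345) (nat_lit 170)) (XT.lf (nat_lit 0) (nat_lit 38795793174) (nat_lit 304) (nat_lit 62744851712) (nat_lit 76) (nat_lit 18723523710) (nat_lit 77) (nat_lit 5) (nat_lit 81) (nat_lit 5) (nat_lit 78) (nat_lit 5) (nat_lit 386) (nat_lit 345) (nat_lit 169)))) (XT.nd (nat_lit 78) (nat_lit 0) (nat_lit 76) (XT.lf (nat_lit 0) (nat_lit 159987658) (nat_lit 1292) (nat_lit 9540771994) (nat_lit 1292) (nat_lit 9540771994) (nat_lit 223) (nat_lit 3) (nat_lit 240) (nat_lit 3) (nat_lit 240) (nat_lit 5) (nat_lit 346) (nat_lit 346) (nat_lit 208)) (XT.nd (nat_lit 78) (nat_lit 0) (nat_lit 76) (XT.lf (nat_lit 0) (nat_lit 615437796)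 (nat_lit 1216) (nat_lit 28045147541) (nat_lit 1292) (nat_lit 10775885658) (nat_lit 224) (nat_lit 5) (nat_lit 240) (nat_lit 5) (nat_lit 241) (nat_lit 5) (nat_lit 347) (nat_lit 346) (nat_lit 207)) (XT.lf (nat_lit 0) (nat_lit 1364219924) (nat_lit 1216) (nat_lit 37225541239) (nat_lit 1292) (nat_lit 1834634407) (nat_lit 225) (nat_lit 5) (nat_lit 241) (nat_lit 5) (nat_lit 242) (nat_lit 5) (nat_lit 348) (nat_lit 346) (nat_lit 206))))))))
noncomputable def xc115 : XT := (XT.nd (nat_lit 1872) (nat_lit 3496) (nat_lit 0) (XT.nd (nat_lit 936) (nat_lit 5244) (nat_lit 0) (XT.nd (nat_lit 468) (nat_lit 1976) (nat_lit 0) (XT.nd (nat_lit 234) (nat_lit 0) (nat_lit 228) (XT.nd (nat_lit 78) (nat_lit 0) (nat_lit 76) (XT.lf (nat_lit 0) (nat_lit 2726925181) (nat_lit 1216) (nat_lit 5156712487) (nat_lit 1292) (nat_lit 33560786925) (nat_lit 225) (nat_lit 5) (nat_lit 241) (nat_lit 5) (nat_lit 242) (nat_lit 5) (nat_lit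 349) (nat_lit 346) (nat_lit 205)) (XT.nd (nat_lit 78) (nat_lit 0) (nat_lit 76) (XT.lf (nat_lit 0) (nat_lit 4670085375) (nat_lit 1216) (nat_lit 13663610307) (nat_lit 1292) (nat_lit 24166392409) (nat_lit 226) (nat_lit 5) (nat_lit 242) (nat_lit 5) (nat_lit 243) (nat_lit 5) (nat_lit 350) (nat_lit 346) (nat_lit 204)) (XT.lf (nat_lit 0) (nat_lit 7182641628) (nat_lit 1216) (nat_lit 22371778502) (nat_lit 1292) (nat_lit 14039949978) (nat_lit 227) (nat_lit 5) (nat_lit 243) (nat_lit 5) (nat_lit 244) (nat_lit 5) (nat_lit 351) (nat_lit 346) (nat_lit 203)))) (XT.nd (nat_lit 78) (nat_lit 0) (nat_lit 0) (XT.lf (nat_lit 0) (nat_lit 10304410698) (nat_lit 1216) (nat_lit 31287211846) (nat_lit 1292) (nat_lit 3137238502) (nat_lit 228) (nat_lit 5) (nat_lit 244) (nat_lit 5) (nat_lit 245) (nat_lit 5) (nat_lit 352) (nat_lit 346) (nat_lit 202)) (XT.nd (nat_lit 78) (nat_lit 0) (nat_lit 76) (XT.lf (nat_lit 76) (nat_lit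 5402245112) (nat_lit 0) (nat_lit 8759216331) (nat_lit 1292) (nat_lit 31741241548) (nat_lit 229) (nat_lit 5) (nat_lit 228) (nat_lit 5) (nat_lit 245) (nat_lit 5) (nat_lit 353) (nat_lit 346) (nat_lit 201)) (XT.lf (nat_lit 0) (nat_lit 18780355468) (nat_lit 1216) (nat_lit 2798679386) (nat_lit 1292) (nat_lit 25539134603) (nat_lit 229) (nat_lit 5) (nat_lit 245) (nat_lit 5) (nat_lit 246) (nat_lit 5) (nat_lit 354) (nat_lit 346) (nat_lit 200))))) (XT.nd (nat_lit 234) (nat_lit 1216) (nat_lit 0) (XT.nd (nat_lit 78) (nat_lit 1140) (nat_lit 0) (XT.lf (nat_lit 0) (nat_lit 24203437323) (nat_lit 1216) (nat_lit 11081876864) (nat_lit 1292) (nat_lit 13091899815) (nat_lit 230) (nat_lit 5) (nat_lit 246) (nat_lit 5) (nat_lit 247) (nat_lit 5) (nat_lit 355) (nat_lit 346) (nat_lit 199)) (XT.nd (nat_lit 78) (nat_lit 1140) (nat_lit 0) (XT.lf (nat_lit 76) (nat_lit 30121264356) (nat_lit 0) (nat_lit 309695381) (nat_lit 1292)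 (nat_lit 19252254391) (nat_lit 231) (nat_lit 5) (nat_lit 230) (nat_lit 5) (nat_lit 247) (nat_lit 5) (nat_lit 356) (nat_lit 346) (nat_lit 198)) (XT.lf (nat_lit 0) (nat_lit 22653289718) (nat_lit 1216) (nat_lit 14996549260) (nat_lit 1292) (nat_lit 13384277718) (nat_lit 215) (nat_lit 5) (nat_lit 231) (nat_lit 5) (nat_lit 232) (nat_lit 5) (nat_lit 357) (nat_lit 346) (nat_lit 197)))) (XT.nd (nat_lit 78) (nat_lit 608) (nat_lit 0) (XT.lf (nat_lit 0) (nat_lit 15017854665) (nat_lit 608) (nat_lit 30768738744) (nat_lit 684) (nat_lit 6649264813) (nat_lit 207) (nat_lit 5) (nat_lit 215) (nat_lit 5) (nat_lit 216) (nat_lit 5) (nat_lit 358) (nat_lit 346) (nat_lit 196)) (XT.nd (nat_lit 78) (nat_lit 0) (nat_lit 0) (XT.lf (nat_lit 0) (nat_lit 988532772) (nat_lit 608) (nat_lit 46691681930) (nat_lit 76) (nat_lit 6210123562) (nat_lit 199) (nat_lit 5) (nat_lit 207) (nat_lit 5) (nat_lit 200) (nat_lit 5) (nat_lit 359)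 (nat_lit 346) (nat_lit 195)) (XT.lf (nat_lit 0) (nat_lit 9568830202) (nat_lit 608) (nat_lit 962037985) (nat_lit 76) (nat_lit 44863756842) (nat_lit 199) (nat_lit 5) (nat_lit 207) (nat_lit 5) (nat_lit 200) (nat_lit 5) (nat_lit 360) (nat_lit 346) (nat_lit 194)))))) (XT.nd (nat_lit 468) (nat_lit 2128) (nat_lit 0) (XT.nd (nat_lit 234) (nat_lit 1444) (nat_lit 0) (XT.nd (nat_lit 78) (nat_lit 1064) (nat_lit 0) (XT.lf (nat_lit 0) (nat_lit 19315150550) (nat_lit 684) (nat_lit 9250673687) (nat_lit 76) (nat_lit 28386193135) (nat_lit 191) (nat_lit 5) (nat_lit 200) (nat_lit 5) (nat_lit 192) (nat_lit 5) (nat_lit 361) (nat_lit 346) (nat_lit 193)) (XT.nd (nat_lit 78) (nat_lit 532) (nat_lit 0) (XT.lf (nat_lit 0) (nat_lit 30160392325) (nat_lit 608) (nat_lit 17755889572) (nat_lit 76) (nat_lit 10652650685) (nat_lit 184) (nat_lit 5) (nat_lit 192) (nat_lit 5) (nat_lit 185) (nat_lit 5) (nat_lit 362) (nat_lit 346) (nat_lit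 192)) (XT.lf (nat_lit 0) (nat_lit 33674749792) (nat_lit 532) (nat_lit 8578956374) (nat_lit 608) (nat_lit 17991814432) (nat_lit 177) (nat_lit 5) (nat_lit 184) (nat_lit 5) (nat_lit 185) (nat_lit 5) (nat_lit 363) (nat_lit 346) (nat_lit 191)))) (XT.nd (nat_lit 78) (nat_lit 988) (nat_lit 0) (XT.lf (nat_lit 0) (nat_lit 26240659239) (nat_lit 456) (nat_lit 29460137678) (nat_lit 532) (nat_lit 6282669043) (nat_lit 171) (nat_lit 5) (nat_lit 177) (nat_lit 5) (nat_lit 178) (nat_lit 5) (nat_lit 364) (nat_lit 346) (nat_lit 190)) (XT.nd (nat_lit 78) (nat_lit 456) (nat_lit 0) (XT.lf (nat_lit 0) (nat_lit 6552141671) (nat_lit 532) (nat_lit 45245517943) (nat_lit 76) (nat_lit 11989190772) (nat_lit 164) (nat_lit 5) (nat_lit 171) (nat_lit 5) (nat_lit 165) (nat_lit 5) (nat_lit 365) (nat_lit 346) (nat_lit 189)) (XT.lf (nat_lit 0) (nat_lit 10454347158) (nat_lit 456) (nat_lit 10212891166) (nat_lit 532) (nat_lit 44988246278)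 (nat_lit 158) (nat_lit 5) (nat_lit 164) (nat_lit 5) (nat_lit 165) (nat_lit 5) (nat_lit 366) (nat_lit 346) (nat_lit 188))))) (XT.nd (nat_lit 234) (nat_lit 1216) (nat_lit 0) (XT.nd (nat_lit 78) (nat_lit 456) (nat_lit 0) (XT.lf (nat_lit 0) (nat_lit 1991348244) (nat_lit 456) (nat_lit 34305733733) (nat_lit 532) (nat_lit 31296199862) (nat_lit 152) (nat_lit 5) (nat_lit 158) (nat_lit 5) (nat_lit 159) (nat_lit 5) (nat_lit 367) (nat_lit 346) (nat_lit 187)) (XT.nd (nat_lit 78) (nat_lit 456) (nat_lit 0) (XT.lf (nat_lit 0) (nat_lit 53470099247) (nat_lit 532) (nat_lit 6611819525) (nat_lit 76) (nat_lit 9523200746) (nat_lit 152) (nat_lit 5) (nat_lit 159) (nat_lit 5) (nat_lit 153) (nat_lit 5) (nat_lit 368) (nat_lit 346) (nat_lit 186)) (XT.lf (nat_lit 0) (nat_lit 680532768) (nat_lit 456) (nat_lit 15624324499) (nat_lit 76) (nat_lit 55385991872) (nat_lit 146) (nat_lit 5) (nat_lit 152) (nat_lit 5) (nat_lit 147)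 (nat_lit 5) (nat_lit 369) (nat_lit 346) (nat_lit 185)))) (XT.nd (nat_lit 78) (nat_lit 760) (nat_lit 0) (XT.lf (nat_lit 0) (nat_lit 18835527911) (nat_lit 532) (nat_lit 25224898039) (nat_lit 76) (nat_lit 29790676769) (nat_lit 140) (nat_lit 5) (nat_lit 147) (nat_lit 5) (nat_lit 141) (nat_lit 5) (nat_lit 370) (nat_lit 346) (nat_lit 184)) (XT.nd (nat_lit 78) (nat_lit 380) (nat_lit 0) (XT.lf (nat_lit 0) (nat_lit 38639183336) (nat_lit 456) (nat_lit 35188576794) (nat_lit 76) (nat_lit 2269382390) (nat_lit 135) (nat_lit 5) (nat_lit 141) (nat_lit 5) (nat_lit 136) (nat_lit 5) (nat_lit 371) (nat_lit 346) (nat_lit 183)) (XT.lf (nat_lit 0) (nat_lit 32615008977) (nat_lit 380) (nat_lit 27836742166) (nat_lit 456) (nat_lit 17973172098) (nat_lit 130) (nat_lit 5) (nat_lit 135) (nat_lit 5) (nat_lit 136) (nat_lit 5) (nat_lit 372) (nat_lit 346) (nat_lit 182))))))) (XT.nd (nat_lit 936) (nat_lit 228) (nat_lit 0) (XT.nd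 (nat_lit 468) (nat_lit 1520) (nat_lit 0) (XT.nd (nat_lit 234) (nat_lit 684) (nat_lit 0) (XT.nd (nat_lit 78) (nat_lit 684) (nat_lit 0) (XT.lf (nat_lit 0) (nat_lit 3236162233) (nat_lit 380) (nat_lit 56926299378) (nat_lit 76) (nat_lit 20681950798) (nat_lit 125) (nat_lit 5) (nat_lit 130) (nat_lit 5) (nat_lit 126) (nat_lit 5) (nat_lit 373) (nat_lit 346) (nat_lit 181)) (XT.nd (nat_lit 78) (nat_lit 304) (nat_lit 0) (XT.lf (nat_lit 0) (nat_lit 14533437872) (nat_lit 380) (nat_lit 11499538047) (nat_lit 456) (nat_lit 57319600510) (nat_lit 120) (nat_lit 5) (nat_lit 125) (nat_lit 5) (nat_lit 126) (nat_lit 5) (nat_lit 374) (nat_lit 346) (nat_lit 180)) (XT.lf (nat_lit 0) (nat_lit 4486091172) (nat_lit 304) (nat_lit 46497509035) (nat_lit 380) (nat_lit 34972130029) (nat_lit 116) (nat_lit 5) (nat_lit 120) (nat_lit 5) (nat_lit 121) (nat_lit 5) (nat_lit 375) (nat_lit 346) (nat_lit 179)))) (XT.nd (nat_lit 78) (nat_lit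 684) (nat_lit 0) (XT.lf (nat_lit 0) (nat_lit 78049443296) (nat_lit 380) (nat_lit 5936065985) (nat_lit 76) (nat_lit 4677502479) (nat_lit 116) (nat_lit 5) (nat_lit 121) (nat_lit 5) (nat_lit 117) (nat_lit 5) (nat_lit 376) (nat_lit 346) (nat_lit 178)) (XT.nd (nat_lit 78) (nat_lit 304) (nat_lit 0) (XT.lf (nat_lit 0) (nat_lit 15865227777) (nat_lit 380) (nat_lit 17272018128) (nat_lit 76) (nat_lit 58328268463) (nat_lit 111) (nat_lit 5) (nat_lit 116) (nat_lit 5) (nat_lit 112) (nat_lit 5) (nat_lit 377) (nat_lit 346) (nat_lit 177)) (XT.lf (nat_lit 0) (nat_lit 44340180400) (nat_lit 380) (nat_lit 29376899684) (nat_lit 76) (nat_lit 20661158407) (nat_lit 107) (nat_lit 5) (nat_lit 112) (nat_lit 5) (nat_lit 108) (nat_lit 5) (nat_lit 378) (nat_lit 346) (nat_lit 176))))) (XT.nd (nat_lit 234) (nat_lit 608) (nat_lit 0) (XT.nd (nat_lit 78) (nat_lit 608) (nat_lit 0) (XT.lf (nat_lit 0) (nat_lit 55054087529) (nat_lit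 304) (nat_lit 20226643419) (nat_lit 380) (nat_lit 22124612912) (nat_lit 103) (nat_lit 5) (nat_lit 107) (nat_lit 5) (nat_lit 108) (nat_lit 5) (nat_lit 379) (nat_lit 346) (nat_lit 175)) (XT.nd (nat_lit 78) (nat_lit 304) (nat_lit 0) (XT.lf (nat_lit 0) (nat_lit 8129915419) (nat_lit 304) (nat_lit 56372284721) (nat_lit 76) (nat_lit 36046964814) (nat_lit 99) (nat_lit 5) (nat_lit 103) (nat_lit 5) (nat_lit 100) (nat_lit 5) (nat_lit 380) (nat_lit 346) (nat_lit 174)) (XT.lf (nat_lit 0) (nat_lit 32275401333) (nat_lit 304) (nat_lit 8121826972) (nat_lit 380) (nat_lit 63417648742) (nat_lit 95) (nat_lit 5) (nat_lit 99) (nat_lit 5) (nat_lit 100) (nat_lit 5) (nat_lit 381) (nat_lit 346) (nat_lit 173)))) (XT.nd (nat_lit 78) (nat_lit 380) (nat_lit 0) (XT.lf (nat_lit 0) (nat_lit 19182661385) (nat_lit 228) (nat_lit 56355403041) (nat_lit 304) (nat_lit 31668006048) (nat_lit 92) (nat_lit 5) (nat_lit 95) (nat_lit 5) (nat_lit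 96) (nat_lit 5) (nat_lit 382) (nat_lit 346) (nat_lit 172)) (XT.nd (nat_lit 78) (nat_lit 0) (nat_lit 0) (XT.lf (nat_lit 0) (nat_lit 2536554473) (nat_lit 380) (nat_lit 105580729875) (nat_lit 76) (nat_lit 2622058126) (nat_lit 87) (nat_lit 5) (nat_lit 92) (nat_lit 5) (nat_lit 88) (nat_lit 5) (nat_lit 383) (nat_lit 346) (nat_lit 171)) (XT.lf (nat_lit 0) (nat_lit 39285181681) (nat_lit 380) (nat_lit 10482234397) (nat_lit 76) (nat_lit 64627792612) (nat_lit 87) (nat_lit 5) (nat_lit 92) (nat_lit 5) (nat_lit 88) (nat_lit 5) (nat_lit 384) (nat_lit 346) (nat_lit 170)))))) (XT.nd (nat_lit 44304) (nat_lit 0) (nat_lit 10868) (XT.nd (nat_lit 44070) (nat_lit 0) (nat_lit 10716) (XT.nd (nat_lit 43914) (nat_lit 0) (nat_lit 10564) (XT.lf (nat_lit 0) (nat_lit 78865471301) (nat_lit 304) (nat_lit 27178821985) (nat_lit 76) (nat_lit 12159748386) (nat_lit 84) (nat_lit 5) (nat_lit 88) (nat_lit 5) (nat_lit 85) (nat_lit 5)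 (nat_lit 385) (nat_lit 346) (nat_lit 169)) (XT.nd (nat_lit 78) (nat_lit 0) (nat_lit 76) (XT.lf (nat_lit 0) (nat_lit 238145095) (nat_lit 1292) (nat_lit 9981657054) (nat_lit 1292) (nat_lit 9981657054) (nat_lit 223) (nat_lit 3) (nat_lit 240) (nat_lit 3) (nat_lit 240) (nat_lit 5) (nat_lit 347) (nat_lit 347) (nat_lit 206)) (XT.lf (nat_lit 0) (nat_lit 779903282) (nat_lit 1216) (nat_lit 29372440946) (nat_lit 1292) (nat_lit 11251855163) (nat_lit 224) (nat_lit 5) (nat_lit 240) (nat_lit 5) (nat_lit 241) (nat_lit 5) (nat_lit 348) (nat_lit 347) (nat_lit 205)))) (XT.nd (nat_lit 78) (nat_lit 0) (nat_lit 0) (XT.lf (nat_lit 0) (nat_lit 1559927366) (nat_lit 1216) (nat_lit 39009551277) (nat_lit 1292) (nat_lit 1872231481) (nat_lit 225) (nat_lit 5) (nat_lit 241) (nat_lit 5) (nat_lit 242) (nat_lit 5) (nat_lit 349) (nat_lit 347) (nat_lit 204)) (XT.nd (nat_lit 78) (nat_lit 0) (nat_lit 76) (XT.lf (nat_lit 0) (nat_lit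 2984696627) (nat_lit 1216) (nat_lit 5340960470) (nat_lit 1292) (nat_lit 35187269465) (nat_lit 225) (nat_lit 5) (nat_lit 241) (nat_lit 5) (nat_lit 242) (nat_lit 5) (nat_lit 350) (nat_lit 347) (nat_lit 203)) (XT.lf (nat_lit 0) (nat_lit 5019488628) (nat_lit 1216) (nat_lit 14271318645) (nat_lit 1292) (nat_lit 25330735390) (nat_lit 226) (nat_lit 5) (nat_lit 242) (nat_lit 5) (nat_lit 243) (nat_lit 5) (nat_lit 351) (nat_lit 347) (nat_lit 202))))) (XT.nd (nat_lit 234) (nat_lit 0) (nat_lit 152) (XT.nd (nat_lit 78) (nat_lit 0) (nat_lit 76) (XT.lf (nat_lit 0) (nat_lit 7652495259) (nat_lit 1216) (nat_lit 23413293587) (nat_lit 1292) (nat_lit 14704908729) (nat_lit 227) (nat_lit 5) (nat_lit 243) (nat_lit 5) (nat_lit 244) (nat_lit 5) (nat_lit 352) (nat_lit 347) (nat_lit 201)) (XT.nd (nat_lit 78) (nat_lit 0) (nat_lit 0) (XT.lf (nat_lit 0) (nat_lit 10925499055) (nat_lit 1216) (nat_lit 32773155838) (nat_lit 1292)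 (nat_lit 3263407082) (nat_lit 228) (nat_lit 5) (nat_lit 244) (nat_lit 5) (nat_lit 245) (nat_lit 5) (nat_lit 353) (nat_lit 347) (nat_lit 200)) (XT.lf (nat_lit 76) (nat_lit 5748526172) (nat_lit 0) (nat_lit 9222567022) (nat_lit 1292) (nat_lit 33223635244) (nat_lit 229) (nat_lit 5) (nat_lit 228) (nat_lit 5) (nat_lit 245) (nat_lit 5) (nat_lit 354) (nat_lit 347) (nat_lit 199)))) (XT.nd (nat_lit 78) (nat_lit 0) (nat_lit 76) (XT.lf (nat_lit 0) (nat_lit 19815863352) (nat_lit 1216) (nat_lit 2862877576) (nat_lit 1292) (nat_lit 26792382356) (nat_lit 229) (nat_lit 5) (nat_lit 245) (nat_lit 5) (nat_lit 246) (nat_lit 5) (nat_lit 355) (nat_lit 347) (nat_lit 198)) (XT.nd (nat_lit 78) (nat_lit 0) (nat_lit 0) (XT.lf (nat_lit 0) (nat_lit 25506028681) (nat_lit 1216) (nat_lit 11559387712) (nat_lit 1292) (nat_lit 13727828635) (nat_lit 230) (nat_lit 5) (nat_lit 246) (nat_lit 5) (nat_lit 247) (nat_lit 5) (nat_lit 356)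 (nat_lit 347) (nat_lit 197)) (XT.lf (nat_lit 76) (nat_lit 31701715333) (nat_lit 0) (nat_lit 339526015) (nat_lit 1292) (nat_lit 20123417106) (nat_lit 231) (nat_lit 5) (nat_lit 230) (nat_lit 5) (nat_lit 247) (nat_lit 5) (nat_lit 357) (nat_lit 347) (nat_lit 196))))))))
noncomputable def xc116 : XT := (XT.nd (nat_lit 1794) (nat_lit 1216) (nat_lit 0) (XT.nd (nat_lit 858) (nat_lit 3724) (nat_lit 0) (XT.nd (nat_lit 390) (nat_lit 2964) (nat_lit 0) (XT.nd (nat_lit 156) (nat_lit 1216) (nat_lit 0) (XT.nd (nat_lit 78) (nat_lit 608) (nat_lit 0) (XT.lf (nat_lit 0) (nat_lit 23860982117) (nat_lit 1216) (nat_lit 15756446903) (nat_lit 1292) (nat_lit 13965788786) (nat_lit 215) (nat_lit 5) (nat_lit 231) (nat_lit 5) (nat_lit 232) (nat_lit 5) (nat_lit 358) (nat_lit 347) (nat_lit 195)) (XT.lf (nat_lit 0) (nat_lit 15844248738) (nat_lit 608) (nat_lit 32313353719) (nat_lit 684) (nat_lit 6897548979) (nat_lit 207) (nat_lit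 5) (nat_lit 215) (nat_lit 5) (nat_lit 216) (nat_lit 5) (nat_lit 359) (nat_lit 347) (nat_lit 194))) (XT.nd (nat_lit 78) (nat_lit 608) (nat_lit 0) (XT.lf (nat_lit 0) (nat_lit 1117244495) (nat_lit 608) (nat_lit 48948819660) (nat_lit 76) (nat_lit 6516366871) (nat_lit 199) (nat_lit 5) (nat_lit 207) (nat_lit 5) (nat_lit 200) (nat_lit 5) (nat_lit 360) (nat_lit 347) (nat_lit 193)) (XT.nd (nat_lit 78) (nat_lit 608) (nat_lit 0) (XT.lf (nat_lit 0) (nat_lit 10122781315) (nat_lit 608) (nat_lit 936381440) (nat_lit 76) (nat_lit 47102884809) (nat_lit 199) (nat_lit 5) (nat_lit 207) (nat_lit 5) (nat_lit 200) (nat_lit 5) (nat_lit 361) (nat_lit 347) (nat_lit 192)) (XT.lf (nat_lit 0) (nat_lit 20353501461) (nat_lit 684) (nat_lit 9639334546) (nat_lit 76) (nat_lit 29804563072) (nat_lit 191) (nat_lit 5) (nat_lit 200) (nat_lit 5) (nat_lit 192) (nat_lit 5) (nat_lit 362) (nat_lit 347) (nat_lit 191))))) (XT.nd (nat_lit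 234) (nat_lit 1444) (nat_lit 0) (XT.nd (nat_lit 78) (nat_lit 988) (nat_lit 0) (XT.lf (nat_lit 0) (nat_lit 31738256794) (nat_lit 608) (nat_lit 18569813138) (nat_lit 76) (nat_lit 11187174543) (nat_lit 184) (nat_lit 5) (nat_lit 192) (nat_lit 5) (nat_lit 185) (nat_lit 5) (nat_lit 363) (nat_lit 347) (nat_lit 190)) (XT.nd (nat_lit 78) (nat_lit 456) (nat_lit 0) (XT.lf (nat_lit 0) (nat_lit 35430240700) (nat_lit 532) (nat_lit 9003359420) (nat_lit 608) (nat_lit 18822142734) (nat_lit 177) (nat_lit 5) (nat_lit 184) (nat_lit 5) (nat_lit 185) (nat_lit 5) (nat_lit 364) (nat_lit 347) (nat_lit 189)) (XT.lf (nat_lit 0) (nat_lit 27624341290) (nat_lit 456) (nat_lit 30926234048) (nat_lit 532) (nat_lit 6530086033) (nat_lit 171) (nat_lit 5) (nat_lit 177) (nat_lit 5) (nat_lit 178) (nat_lit 5) (nat_lit 365) (nat_lit 347) (nat_lit 188)))) (XT.nd (nat_lit 78) (nat_lit 912) (nat_lit 0) (XT.lf (nat_lit 0) (nat_lit 6942805889)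 (nat_lit 532) (nat_lit 47435053894) (nat_lit 76) (nat_lit 12596408371) (nat_lit 164) (nat_lit 5) (nat_lit 171) (nat_lit 5) (nat_lit 165) (nat_lit 5) (nat_lit 366) (nat_lit 347) (nat_lit 187)) (XT.nd (nat_lit 78) (nat_lit 456) (nat_lit 0) (XT.lf (nat_lit 0) (nat_lit 11047719386) (nat_lit 456) (nat_lit 10713614445) (nat_lit 532) (nat_lit 47175071530) (nat_lit 158) (nat_lit 5) (nat_lit 164) (nat_lit 5) (nat_lit 165) (nat_lit 5) (nat_lit 367) (nat_lit 347) (nat_lit 186)) (XT.lf (nat_lit 0) (nat_lit 2161252925) (nat_lit 456) (nat_lit 36009291620) (nat_lit 532) (nat_lit 32800613168) (nat_lit 152) (nat_lit 5) (nat_lit 158) (nat_lit 5) (nat_lit 159) (nat_lit 5) (nat_lit 368) (nat_lit 347) (nat_lit 185)))))) (XT.nd (nat_lit 468) (nat_lit 1672) (nat_lit 0) (XT.nd (nat_lit 234) (nat_lit 1140) (nat_lit 0) (XT.nd (nat_lit 78) (nat_lit 912) (nat_lit 0) (XT.lf (nat_lit 0) (nat_lit 56199529174) (nat_lit 532)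 (nat_lit 6873826937) (nat_lit 76) (nat_lit 10010313096) (nat_lit 152) (nat_lit 5) (nat_lit 159) (nat_lit 5) (nat_lit 153) (nat_lit 5) (nat_lit 369) (nat_lit 347) (nat_lit 184)) (XT.nd (nat_lit 78) (nat_lit 456) (nat_lit 0) (XT.lf (nat_lit 0) (nat_lit 769021981) (nat_lit 456) (nat_lit 16337812794) (nat_lit 76) (nat_lit 58166896556) (nat_lit 146) (nat_lit 5) (nat_lit 152) (nat_lit 5) (nat_lit 147) (nat_lit 5) (nat_lit 370) (nat_lit 347) (nat_lit 183)) (XT.lf (nat_lit 0) (nat_lit 19829933509) (nat_lit 532) (nat_lit 26418883947) (nat_lit 76) (nat_lit 31293236392) (nat_lit 140) (nat_lit 5) (nat_lit 147) (nat_lit 5) (nat_lit 141) (nat_lit 5) (nat_lit 371) (nat_lit 347) (nat_lit 182)))) (XT.nd (nat_lit 78) (nat_lit 760) (nat_lit 0) (XT.lf (nat_lit 0) (nat_lit 40622033707) (nat_lit 456) (nat_lit 36881268291) (nat_lit 76) (nat_lit 2397146978) (nat_lit 135) (nat_lit 5) (nat_lit 141) (nat_lit 5) (nat_lit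 136) (nat_lit 5) (nat_lit 372) (nat_lit 347) (nat_lit 181)) (XT.nd (nat_lit 78) (nat_lit 380) (nat_lit 0) (XT.lf (nat_lit 0) (nat_lit 34310583756) (nat_lit 380) (nat_lit 29212845888) (nat_lit 456) (nat_lit 18821244235) (nat_lit 130) (nat_lit 5) (nat_lit 135) (nat_lit 5) (nat_lit 136) (nat_lit 5) (nat_lit 373) (nat_lit 347) (nat_lit 180)) (XT.lf (nat_lit 0) (nat_lit 3445977215) (nat_lit 380) (nat_lit 59707365936) (nat_lit 76) (nat_lit 21731828597) (nat_lit 125) (nat_lit 5) (nat_lit 130) (nat_lit 5) (nat_lit 126) (nat_lit 5) (nat_lit 374) (nat_lit 347) (nat_lit 179))))) (XT.nd (nat_lit 234) (nat_lit 988) (nat_lit 0) (XT.nd (nat_lit 78) (nat_lit 304) (nat_lit 0) (XT.lf (nat_lit 0) (nat_lit 15323487844) (nat_lit 380) (nat_lit 12057466928) (nat_lit 456) (nat_lit 60137840503) (nat_lit 120) (nat_lit 5) (nat_lit 125) (nat_lit 5) (nat_lit 126) (nat_lit 5) (nat_lit 375) (nat_lit 347) (nat_lit 178)) (XT.nd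 (nat_lit 78) (nat_lit 0) (nat_lit 0) (XT.lf (nat_lit 0) (nat_lit 4773167470) (nat_lit 304) (nat_lit 48804496085) (nat_lit 380) (nat_lit 36674487576) (nat_lit 116) (nat_lit 5) (nat_lit 120) (nat_lit 5) (nat_lit 121) (nat_lit 5) (nat_lit 376) (nat_lit 347) (nat_lit 177)) (XT.lf (nat_lit 0) (nat_lit 81994825262) (nat_lit 380) (nat_lit 6171949854) (nat_lit 76) (nat_lit 4928081731) (nat_lit 116) (nat_lit 5) (nat_lit 121) (nat_lit 5) (nat_lit 117) (nat_lit 5) (nat_lit 377) (nat_lit 347) (nat_lit 176)))) (XT.nd (nat_lit 78) (nat_lit 608) (nat_lit 0) (XT.lf (nat_lit 0) (nat_lit 16700351704) (nat_lit 380) (nat_lit 18075595866) (nat_lit 76) (nat_lit 61261569805) (nat_lit 111) (nat_lit 5) (nat_lit 116) (nat_lit 5) (nat_lit 112) (nat_lit 5) (nat_lit 378) (nat_lit 347) (nat_lit 175)) (XT.nd (nat_lit 78) (nat_lit 304) (nat_lit 0) (XT.lf (nat_lit 0) (nat_lit 46597790752) (nat_lit 380) (nat_lit 30786384940)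 (nat_lit 76) (nat_lit 21711740651) (nat_lit 107) (nat_lit 5) (nat_lit 112) (nat_lit 5) (nat_lit 108) (nat_lit 5) (nat_lit 379) (nat_lit 347) (nat_lit 174)) (XT.lf (nat_lit 0) (nat_lit 57864450099) (nat_lit 304) (nat_lit 21219539577) (nat_lit 380) (nat_lit 23190429442) (nat_lit 103) (nat_lit 5) (nat_lit 107) (nat_lit 5) (nat_lit 108) (nat_lit 5) (nat_lit 380) (nat_lit 347) (nat_lit 173))))))) (XT.nd (nat_lit 44850) (nat_lit 0) (nat_lit 6384) (XT.nd (nat_lit 44382) (nat_lit 0) (nat_lit 10412) (XT.nd (nat_lit 234) (nat_lit 380) (nat_lit 0) (XT.nd (nat_lit 78) (nat_lit 532) (nat_lit 0) (XT.lf (nat_lit 0) (nat_lit 8574873461) (nat_lit 304) (nat_lit 59133128301) (nat_lit 76) (nat_lit 37867453454) (nat_lit 99) (nat_lit 5) (nat_lit 103) (nat_lit 5) (nat_lit 100) (nat_lit 5) (nat_lit 381) (nat_lit 347) (nat_lit 172)) (XT.nd (nat_lit 78) (nat_lit 228) (nat_lit 0) (XT.lf (nat_lit 0) (nat_lit 33945286072)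 (nat_lit 304) (nat_lit 8508973790) (nat_lit 380) (nat_lit 66550232486) (nat_lit 95) (nat_lit 5) (nat_lit 99) (nat_lit 5) (nat_lit 100) (nat_lit 5) (nat_lit 382) (nat_lit 347) (nat_lit 171)) (XT.lf (nat_lit 0) (nat_lit 20197219925) (nat_lit 228) (nat_lit 59153854075) (nat_lit 304) (nat_lit 33214204000) (nat_lit 92) (nat_lit 5) (nat_lit 95) (nat_lit 5) (nat_lit 96) (nat_lit 5) (nat_lit 383) (nat_lit 347) (nat_lit 170)))) (XT.nd (nat_lit 78) (nat_lit 0) (nat_lit 0) (XT.lf (nat_lit 0) (nat_lit 2698831458) (nat_lit 380) (nat_lit 110804328110) (nat_lit 76) (nat_lit 2772074711) (nat_lit 87) (nat_lit 5) (nat_lit 92) (nat_lit 5) (nat_lit 88) (nat_lit 5) (nat_lit 384) (nat_lit 347) (nat_lit 169)) (XT.nd (nat_lit 43992) (nat_lit 0) (nat_lit 10336) (XT.lf (nat_lit 0) (nat_lit 41283201966) (nat_lit 380) (nat_lit 10953547775) (nat_lit 76) (nat_lit 67877195270) (nat_lit 87) (nat_lit 5) (nat_lit 92) (nat_lit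 5) (nat_lit 88) (nat_lit 5) (nat_lit 385) (nat_lit 347) (nat_lit 168)) (XT.lf (nat_lit 0) (nat_lit 313687773) (nat_lit 1292) (nat_lit 10447947581) (nat_lit 1292) (nat_lit 10447947581) (nat_lit 223) (nat_lit 3) (nat_lit 240) (nat_lit 3) (nat_lit 240) (nat_lit 5) (nat_lit 348) (nat_lit 348) (nat_lit 204))))) (XT.nd (nat_lit 234) (nat_lit 0) (nat_lit 152) (XT.nd (nat_lit 78) (nat_lit 0) (nat_lit 76) (XT.lf (nat_lit 0) (nat_lit 940162478) (nat_lit 1216) (nat_lit 30773068460) (nat_lit 1292) (nat_lit 11757463995) (nat_lit 224) (nat_lit 5) (nat_lit 240) (nat_lit 5) (nat_lit 241) (nat_lit 5) (nat_lit 349) (nat_lit 348) (nat_lit 203)) (XT.nd (nat_lit 78) (nat_lit 0) (nat_lit 0) (XT.lf (nat_lit 0) (nat_lit 1753566769) (nat_lit 1216) (nat_lit 40889945372) (nat_lit 1292) (nat_lit 1916741335) (nat_lit 225) (nat_lit 5) (nat_lit 241) (nat_lit 5) (nat_lit 242) (nat_lit 5) (nat_lit 350) (nat_lit 348) (nat_lit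 202)) (XT.lf (nat_lit 0) (nat_lit 3244067682) (nat_lit 1216) (nat_lit 5541262333) (nat_lit 1292) (nat_lit 36899869395) (nat_lit 225) (nat_lit 5) (nat_lit 241) (nat_lit 5) (nat_lit 242) (nat_lit 5) (nat_lit 351) (nat_lit 348) (nat_lit 201)))) (XT.nd (nat_lit 78) (nat_lit 0) (nat_lit 76) (XT.lf (nat_lit 0) (nat_lit 5375586854) (nat_lit 1216) (nat_lit 14916429088) (nat_lit 1292) (nat_lit 26557384051) (nat_lit 226) (nat_lit 5) (nat_lit 242) (nat_lit 5) (nat_lit 243) (nat_lit 5) (nat_lit 352) (nat_lit 348) (nat_lit 200)) (XT.nd (nat_lit 78) (nat_lit 0) (nat_lit 76) (XT.lf (nat_lit 0) (nat_lit 8135547730) (nat_lit 1216) (nat_lit 24514050021) (nat_lit 1292) (nat_lit 15406558929) (nat_lit 227) (nat_lit 5) (nat_lit 243) (nat_lit 5) (nat_lit 244) (nat_lit 5) (nat_lit 353) (nat_lit 348) (nat_lit 199)) (XT.lf (nat_lit 0) (nat_lit 11567799244) (nat_lit 1216) (nat_lit 34340687462) (nat_lit 1292) (nat_lit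 3398737667) (nat_lit 228) (nat_lit 5) (nat_lit 244) (nat_lit 5) (nat_lit 245) (nat_lit 5) (nat_lit 354) (nat_lit 348) (nat_lit 198)))))) (XT.nd (nat_lit 468) (nat_lit 2736) (nat_lit 0) (XT.nd (nat_lit 234) (nat_lit 1596) (nat_lit 0) (XT.nd (nat_lit 78) (nat_lit 0) (nat_lit 76) (XT.lf (nat_lit 76) (nat_lit 6105039831) (nat_lit 0) (nat_lit 9706724738) (nat_lit 1292) (nat_lit 34789879700) (nat_lit 229) (nat_lit 5) (nat_lit 228) (nat_lit 5) (nat_lit 245) (nat_lit 5) (nat_lit 355) (nat_lit 348) (nat_lit 197)) (XT.nd (nat_lit 78) (nat_lit 0) (nat_lit 76) (XT.lf (nat_lit 0) (nat_lit 20894175894) (nat_lit 1216) (nat_lit 2937326870) (nat_lit 1292) (nat_lit 28110496732) (nat_lit 229) (nat_lit 5) (nat_lit 245) (nat_lit 5) (nat_lit 246) (nat_lit 5) (nat_lit 356) (nat_lit 348) (nat_lit 196)) (XT.lf (nat_lit 0) (nat_lit 26865157318) (nat_lit 1216) (nat_lit 12067894063) (nat_lit 1292) (nat_lit 14397289300)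 (nat_lit 230) (nat_lit 5) (nat_lit 246) (nat_lit 5) (nat_lit 247) (nat_lit 5) (nat_lit 357) (nat_lit 348) (nat_lit 195)))) (XT.nd (nat_lit 78) (nat_lit 1748) (nat_lit 0) (XT.lf (nat_lit 76) (nat_lit 33354272990) (nat_lit 0) (nat_lit 369514438) (nat_lit 1292) (nat_lit 21046640112) (nat_lit 231) (nat_lit 5) (nat_lit 230) (nat_lit 5) (nat_lit 247) (nat_lit 5) (nat_lit 358) (nat_lit 348) (nat_lit 194)) (XT.nd (nat_lit 78) (nat_lit 608) (nat_lit 0) (XT.lf (nat_lit 0) (nat_lit 25122083751) (nat_lit 1216) (nat_lit 16553403199) (nat_lit 1292) (nat_lit 14584529184) (nat_lit 215) (nat_lit 5) (nat_lit 231) (nat_lit 5) (nat_lit 232) (nat_lit 5) (nat_lit 359) (nat_lit 348) (nat_lit 193)) (XT.lf (nat_lit 0) (nat_lit 16704943116) (nat_lit 608) (nat_lit 33934625066) (nat_lit 684) (nat_lit 7166073526) (nat_lit 207) (nat_lit 5) (nat_lit 215) (nat_lit 5) (nat_lit 216) (nat_lit 5) (nat_lit 360) (nat_lit 348) (nat_lit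 192))))) (XT.nd (nat_lit 234) (nat_lit 1520) (nat_lit 0) (XT.nd (nat_lit 78) (nat_lit 608) (nat_lit 0) (XT.lf (nat_lit 0) (nat_lit 1245020628) (nat_lit 608) (nat_lit 51326014506) (nat_lit 76) (nat_lit 6838318666) (nat_lit 199) (nat_lit 5) (nat_lit 207) (nat_lit 5) (nat_lit 200) (nat_lit 5) (nat_lit 361) (nat_lit 348) (nat_lit 191)) (XT.nd (nat_lit 78) (nat_lit 608) (nat_lit 0) (XT.lf (nat_lit 0) (nat_lit 10697409817) (nat_lit 608) (nat_lit 916299428) (nat_lit 76) (nat_lit 49454346622) (nat_lit 199) (nat_lit 5) (nat_lit 207) (nat_lit 5) (nat_lit 200) (nat_lit 5) (nat_lit 362) (nat_lit 348) (nat_lit 190)) (XT.lf (nat_lit 0) (nat_lit 21437020872) (nat_lit 684) (nat_lit 10054296444) (nat_lit 76) (nat_lit 31293938872) (nat_lit 191) (nat_lit 5) (nat_lit 200) (nat_lit 5) (nat_lit 192) (nat_lit 5) (nat_lit 363) (nat_lit 348) (nat_lit 189)))) (XT.nd (nat_lit 78) (nat_lit 988) (nat_lit 0) (XT.lf (nat_lit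 0) (nat_lit 33388520975) (nat_lit 608) (nat_lit 19431300699) (nat_lit 76) (nat_lit 11748248756) (nat_lit 184) (nat_lit 5) (nat_lit 192) (nat_lit 5) (nat_lit 185) (nat_lit 5) (nat_lit 364) (nat_lit 348) (nat_lit 188)) (XT.nd (nat_lit 78) (nat_lit 456) (nat_lit 0) (XT.lf (nat_lit 0) (nat_lit 37266835200) (nat_lit 532) (nat_lit 9449405149) (nat_lit 608) (nat_lit 19700426814) (nat_lit 177) (nat_lit 5) (nat_lit 184) (nat_lit 5) (nat_lit 185) (nat_lit 5) (nat_lit 365) (nat_lit 348) (nat_lit 187)) (XT.lf (nat_lit 0) (nat_lit 29070546191) (nat_lit 456) (nat_lit 32466277711) (nat_lit 532) (nat_lit 6796076538) (nat_lit 171) (nat_lit 5) (nat_lit 177) (nat_lit 5) (nat_lit 178) (nat_lit 5) (nat_lit 366) (nat_lit 348) (nat_lit 186))))))))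
noncomputable def xc117 : XT := (XT.nd (nat_lit 45864) (nat_lit 0) (nat_lit 2508) (XT.nd (nat_lit 936) (nat_lit 2204) (nat_lit 0) (XT.nd (nat_lit 468) (nat_lit 1824) (nat_lit 0) (XT.nd (nat_lit 234) (nat_lit 912) (nat_lit 0) (XT.nd (nat_lit 78) (nat_lit 912) (nat_lit 0) (XT.lf (nat_lit 0) (nat_lit 7347140863) (nat_lit 532) (nat_lit 49740829313) (nat_lit 76) (nat_lit 13233265580) (nat_lit 164) (nat_lit 5) (nat_lit 171) (nat_lit 5) (nat_lit 165) (nat_lit 5) (nat_lit 367) (nat_lit 348) (nat_lit 185)) (XT.nd (nat_lit 78) (nat_lit 456) (nat_lit 0) (XT.lf (nat_lit 0) (nat_lit 11664191405) (nat_lit 456) (nat_lit 11240296276) (nat_lit 532) (nat_lit 49477056796) (nat_lit 158) (nat_lit 5) (nat_lit 164) (nat_lit 5) (nat_lit 165) (nat_lit 5) (nat_lit 368) (nat_lit 348) (nat_lit 184)) (XT.lf (nat_lit 0) (nat_lit 2333113547) (nat_lit 456) (nat_lit 37799117834) (nat_lit 532) (nat_lit 34385862250) (nat_lit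 152) (nat_lit 5) (nat_lit 158) (nat_lit 5) (nat_lit 159) (nat_lit 5) (nat_lit 369) (nat_lit 348) (nat_lit 183)))) (XT.nd (nat_lit 78) (nat_lit 912) (nat_lit 0) (XT.lf (nat_lit 0) (nat_lit 59060231224) (nat_lit 532) (nat_lit 7155310969) (nat_lit 76) (nat_lit 10520762821) (nat_lit 152) (nat_lit 5) (nat_lit 159) (nat_lit 5) (nat_lit 153) (nat_lit 5) (nat_lit 370) (nat_lit 348) (nat_lit 182)) (XT.nd (nat_lit 78) (nat_lit 456) (nat_lit 0) (XT.lf (nat_lit 0) (nat_lit 856872241) (nat_lit 456) (nat_lit 17093272204) (nat_lit 76) (nat_lit 61085767543) (nat_lit 146) (nat_lit 5) (nat_lit 152) (nat_lit 5) (nat_lit 147) (nat_lit 5) (nat_lit 371) (nat_lit 348) (nat_lit 181)) (XT.lf (nat_lit 0) (nat_lit 20869166423) (nat_lit 532) (nat_lit 27678822254) (nat_lit 76) (nat_lit 32869712982) (nat_lit 140) (nat_lit 5) (nat_lit 147) (nat_lit 5) (nat_lit 141) (nat_lit 5) (nat_lit 372) (nat_lit 348) (nat_lit 180)))))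 (XT.nd (nat_lit 234) (nat_lit 684) (nat_lit 0) (XT.nd (nat_lit 78) (nat_lit 760) (nat_lit 0) (XT.lf (nat_lit 0) (nat_lit 42699295214) (nat_lit 456) (nat_lit 38664798968) (nat_lit 76) (nat_lit 2529970739) (nat_lit 135) (nat_lit 5) (nat_lit 141) (nat_lit 5) (nat_lit 136) (nat_lit 5) (nat_lit 373) (nat_lit 348) (nat_lit 179)) (XT.nd (nat_lit 78) (nat_lit 380) (nat_lit 0) (XT.lf (nat_lit 0) (nat_lit 36084910522) (nat_lit 380) (nat_lit 30659217538) (nat_lit 456) (nat_lit 19716423030) (nat_lit 130) (nat_lit 5) (nat_lit 135) (nat_lit 5) (nat_lit 136) (nat_lit 5) (nat_lit 374) (nat_lit 348) (nat_lit 178)) (XT.lf (nat_lit 0) (nat_lit 3661819722) (nat_lit 380) (nat_lit 62633552000) (nat_lit 76) (nat_lit 22832733186) (nat_lit 125) (nat_lit 5) (nat_lit 130) (nat_lit 5) (nat_lit 126) (nat_lit 5) (nat_lit 375) (nat_lit 348) (nat_lit 177)))) (XT.nd (nat_lit 78) (nat_lit 304) (nat_lit 0) (XT.lf (nat_lit 0)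 (nat_lit 16147148023) (nat_lit 380) (nat_lit 12644877217) (nat_lit 456) (nat_lit 63101430911) (nat_lit 120) (nat_lit 5) (nat_lit 125) (nat_lit 5) (nat_lit 126) (nat_lit 5) (nat_lit 376) (nat_lit 348) (nat_lit 176)) (XT.nd (nat_lit 78) (nat_lit 0) (nat_lit 0) (XT.lf (nat_lit 0) (nat_lit 5068761661) (nat_lit 304) (nat_lit 51228495582) (nat_lit 380) (nat_lit 38466262789) (nat_lit 116) (nat_lit 5) (nat_lit 120) (nat_lit 5) (nat_lit 121) (nat_lit 5) (nat_lit 377) (nat_lit 348) (nat_lit 175)) (XT.lf (nat_lit 0) (nat_lit 86133486980) (nat_lit 380) (nat_lit 6425291627) (nat_lit 76) (nat_lit 5189636954) (nat_lit 116) (nat_lit 5) (nat_lit 121) (nat_lit 5) (nat_lit 117) (nat_lit 5) (nat_lit 378) (nat_lit 348) (nat_lit 174)))))) (XT.nd (nat_lit 468) (nat_lit 380) (nat_lit 0) (XT.nd (nat_lit 234) (nat_lit 836) (nat_lit 0) (XT.nd (nat_lit 78) (nat_lit 608) (nat_lit 0) (XT.lf (nat_lit 0) (nat_lit 17573339846)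 (nat_lit 380) (nat_lit 18924932876) (nat_lit 76) (nat_lit 64339966135) (nat_lit 111) (nat_lit 5) (nat_lit 116) (nat_lit 5) (nat_lit 112) (nat_lit 5) (nat_lit 379) (nat_lit 348) (nat_lit 173)) (XT.nd (nat_lit 78) (nat_lit 304) (nat_lit 0) (XT.lf (nat_lit 0) (nat_lit 48964506894) (nat_lit 380) (nat_lit 32271863164) (nat_lit 76) (nat_lit 22813222761) (nat_lit 107) (nat_lit 5) (nat_lit 112) (nat_lit 5) (nat_lit 108) (nat_lit 5) (nat_lit 380) (nat_lit 348) (nat_lit 172)) (XT.lf (nat_lit 0) (nat_lit 60809970285) (nat_lit 304) (nat_lit 22263794549) (nat_lit 380) (nat_lit 24313294120) (nat_lit 103) (nat_lit 5) (nat_lit 107) (nat_lit 5) (nat_lit 108) (nat_lit 5) (nat_lit 381) (nat_lit 348) (nat_lit 171)))) (XT.nd (nat_lit 78) (nat_lit 532) (nat_lit 0) (XT.lf (nat_lit 0) (nat_lit 9038503547) (nat_lit 304) (nat_lit 62037385027) (nat_lit 76) (nat_lit 39777280004) (nat_lit 99) (nat_lit 5) (nat_lit 103) (nat_lit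 5) (nat_lit 100) (nat_lit 5) (nat_lit 382) (nat_lit 348) (nat_lit 170)) (XT.nd (nat_lit 78) (nat_lit 228) (nat_lit 0) (XT.lf (nat_lit 0) (nat_lit 35693448038) (nat_lit 304) (nat_lit 8917239233) (nat_lit 380) (nat_lit 69843006067) (nat_lit 95) (nat_lit 5) (nat_lit 99) (nat_lit 5) (nat_lit 100) (nat_lit 5) (nat_lit 383) (nat_lit 348) (nat_lit 169)) (XT.lf (nat_lit 0) (nat_lit 21257353458) (nat_lit 228) (nat_lit 62094023770) (nat_lit 304) (nat_lit 34841170572) (nat_lit 92) (nat_lit 5) (nat_lit 95) (nat_lit 5) (nat_lit 96) (nat_lit 5) (nat_lit 384) (nat_lit 348) (nat_lit 168))))) (XT.nd (nat_lit 44226) (nat_lit 0) (nat_lit 10488) (XT.nd (nat_lit 44070) (nat_lit 0) (nat_lit 10336) (XT.lf (nat_lit 0) (nat_lit 2865926556) (nat_lit 380) (nat_lit 116294260380) (nat_lit 76) (nat_lit 2927833711) (nat_lit 87) (nat_lit 5) (nat_lit 92) (nat_lit 5) (nat_lit 88) (nat_lit 5) (nat_lit 385) (nat_lit 348) (nat_lit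 167)) (XT.nd (nat_lit 78) (nat_lit 0) (nat_lit 76) (XT.lf (nat_lit 0) (nat_lit 387091366) (nat_lit 1292) (nat_lit 10940601354) (nat_lit 1292) (nat_lit 10940601354) (nat_lit 223) (nat_lit 3) (nat_lit 240) (nat_lit 3) (nat_lit 240) (nat_lit 5) (nat_lit 349) (nat_lit 349) (nat_lit 202)) (XT.lf (nat_lit 0) (nat_lit 1097160654) (nat_lit 1216) (nat_lit 32250048836) (nat_lit 1292) (nat_lit 12293651094) (nat_lit 224) (nat_lit 5) (nat_lit 240) (nat_lit 5) (nat_lit 241) (nat_lit 5) (nat_lit 350) (nat_lit 349) (nat_lit 201)))) (XT.nd (nat_lit 78) (nat_lit 0) (nat_lit 0) (XT.lf (nat_lit 0) (nat_lit 1946136749) (nat_lit 1216) (nat_lit 42870874869) (nat_lit 1292) (nat_lit 1968041694) (nat_lit 225) (nat_lit 5) (nat_lit 241) (nat_lit 5) (nat_lit 242) (nat_lit 5) (nat_lit 351) (nat_lit 349) (nat_lit 200)) (XT.nd (nat_lit 78) (nat_lit 0) (nat_lit 76) (XT.lf (nat_lit 0) (nat_lit 3506167868) (nat_lit 1216) (nat_lit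 5757784714) (nat_lit 1292) (nat_lit 38702446953) (nat_lit 225) (nat_lit 5) (nat_lit 241) (nat_lit 5) (nat_lit 242) (nat_lit 5) (nat_lit 352) (nat_lit 349) (nat_lit 199)) (XT.lf (nat_lit 0) (nat_lit 5739716578) (nat_lit 1216) (nat_lit 15600159396) (nat_lit 1292) (nat_lit 27849073564) (nat_lit 226) (nat_lit 5) (nat_lit 242) (nat_lit 5) (nat_lit 243) (nat_lit 5) (nat_lit 353) (nat_lit 349) (nat_lit 198))))))) (XT.nd (nat_lit 936) (nat_lit 4864) (nat_lit 0) (XT.nd (nat_lit 468) (nat_lit 3268) (nat_lit 0) (XT.nd (nat_lit 234) (nat_lit 0) (nat_lit 152) (XT.nd (nat_lit 78) (nat_lit 0) (nat_lit 76) (XT.lf (nat_lit 0) (nat_lit 8633416009) (nat_lit 1216) (nat_lit 25676343683) (nat_lit 1292) (nat_lit 16146415006) (nat_lit 227) (nat_lit 5) (nat_lit 243) (nat_lit 5) (nat_lit 244) (nat_lit 5) (nat_lit 354) (nat_lit 349) (nat_lit 197)) (XT.nd (nat_lit 78) (nat_lit 0) (nat_lit 0) (XT.lf (nat_lit 0) (nat_lit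 12233286926) (nat_lit 1216) (nat_lit 35993208304) (nat_lit 1292) (nat_lit 3543423058) (nat_lit 228) (nat_lit 5) (nat_lit 244) (nat_lit 5) (nat_lit 245) (nat_lit 5) (nat_lit 355) (nat_lit 349) (nat_lit 196)) (XT.lf (nat_lit 76) (nat_lit 6472956086) (nat_lit 0) (nat_lit 10212949288) (nat_lit 1292) (nat_lit 36443262749) (nat_lit 229) (nat_lit 5) (nat_lit 228) (nat_lit 5) (nat_lit 245) (nat_lit 5) (nat_lit 356) (nat_lit 349) (nat_lit 195)))) (XT.nd (nat_lit 78) (nat_lit 0) (nat_lit 76) (XT.lf (nat_lit 0) (nat_lit 22018267341) (nat_lit 1216) (nat_lit 3021885199) (nat_lit 1292) (nat_lit 29496516133) (nat_lit 229) (nat_lit 5) (nat_lit 245) (nat_lit 5) (nat_lit 246) (nat_lit 5) (nat_lit 357) (nat_lit 349) (nat_lit 194)) (XT.nd (nat_lit 78) (nat_lit 0) (nat_lit 0) (XT.lf (nat_lit 0) (nat_lit 28284448928) (nat_lit 1216) (nat_lit 12608283746) (nat_lit 1292) (nat_lit 15101797060) (nat_lit 230) (nat_lit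 5) (nat_lit 246) (nat_lit 5) (nat_lit 247) (nat_lit 5) (nat_lit 358) (nat_lit 349) (nat_lit 193)) (XT.lf (nat_lit 76) (nat_lit 35083185633) (nat_lit 0) (nat_lit 399792539) (nat_lit 1292) (nat_lit 22023735973) (nat_lit 231) (nat_lit 5) (nat_lit 230) (nat_lit 5) (nat_lit 247) (nat_lit 5) (nat_lit 359) (nat_lit 349) (nat_lit 192))))) (XT.nd (nat_lit 234) (nat_lit 1140) (nat_lit 0) (XT.nd (nat_lit 78) (nat_lit 1216) (nat_lit 0) (XT.lf (nat_lit 0) (nat_lit 26439913588) (nat_lit 1216) (nat_lit 17389358121) (nat_lit 1292) (nat_lit 15241602317) (nat_lit 215) (nat_lit 5) (nat_lit 231) (nat_lit 5) (nat_lit 232) (nat_lit 5) (nat_lit 360) (nat_lit 349) (nat_lit 191)) (XT.nd (nat_lit 78) (nat_lit 608) (nat_lit 0) (XT.lf (nat_lit 0) (nat_lit 17602305410) (nat_lit 608) (nat_lit 35636439006) (nat_lit 684) (nat_lit 7455122870) (nat_lit 207) (nat_lit 5) (nat_lit 215) (nat_lit 5) (nat_lit 216) (nat_lit 5) (nat_lit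 361) (nat_lit 349) (nat_lit 190)) (XT.lf (nat_lit 0) (nat_lit 1372499694) (nat_lit 608) (nat_lit 53828599914) (nat_lit 76) (nat_lit 7176727526) (nat_lit 199) (nat_lit 5) (nat_lit 207) (nat_lit 5) (nat_lit 200) (nat_lit 5) (nat_lit 362) (nat_lit 349) (nat_lit 189)))) (XT.nd (nat_lit 78) (nat_lit 1140) (nat_lit 0) (XT.lf (nat_lit 0) (nat_lit 11294402246) (nat_lit 608) (nat_lit 901433145) (nat_lit 76) (nat_lit 51923723883) (nat_lit 199) (nat_lit 5) (nat_lit 207) (nat_lit 5) (nat_lit 200) (nat_lit 5) (nat_lit 363) (nat_lit 349) (nat_lit 188)) (XT.nd (nat_lit 78) (nat_lit 532) (nat_lit 0) (XT.lf (nat_lit 0) (nat_lit 22568594671) (nat_lit 684) (nat_lit 10496235910) (nat_lit 76) (nat_lit 32857862705) (nat_lit 191) (nat_lit 5) (nat_lit 200) (nat_lit 5) (nat_lit 192) (nat_lit 5) (nat_lit 364) (nat_lit 349) (nat_lit 187)) (XT.lf (nat_lit 0) (nat_lit 35115408557) (nat_lit 608) (nat_lit 20342091951) (nat_lit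 76) (nat_lit 12337217190) (nat_lit 184) (nat_lit 5) (nat_lit 192) (nat_lit 5) (nat_lit 185) (nat_lit 5) (nat_lit 365) (nat_lit 349) (nat_lit 186)))))) (XT.nd (nat_lit 468) (nat_lit 2432) (nat_lit 0) (XT.nd (nat_lit 234) (nat_lit 912) (nat_lit 0) (XT.nd (nat_lit 78) (nat_lit 988) (nat_lit 0) (XT.lf (nat_lit 0) (nat_lit 39189208675) (nat_lit 532) (nat_lit 9918136410) (nat_lit 608) (nat_lit 20628465790) (nat_lit 177) (nat_lit 5) (nat_lit 184) (nat_lit 5) (nat_lit 185) (nat_lit 5) (nat_lit 366) (nat_lit 349) (nat_lit 185)) (XT.nd (nat_lit 78) (nat_lit 532) (nat_lit 0) (XT.lf (nat_lit 0) (nat_lit 30583019383) (nat_lit 456) (nat_lit 34083906300) (nat_lit 532) (nat_lit 7080992567) (nat_lit 171) (nat_lit 5) (nat_lit 177) (nat_lit 5) (nat_lit 178) (nat_lit 5) (nat_lit 367) (nat_lit 349) (nat_lit 184)) (XT.lf (nat_lit 0) (nat_lit 7766375167) (nat_lit 532) (nat_lit 52168027446) (nat_lit 76) (nat_lit 13901311436)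 (nat_lit 164) (nat_lit 5) (nat_lit 171) (nat_lit 5) (nat_lit 165) (nat_lit 5) (nat_lit 368) (nat_lit 349) (nat_lit 183)))) (XT.nd (nat_lit 78) (nat_lit 456) (nat_lit 0) (XT.lf (nat_lit 0) (nat_lit 12305528912) (nat_lit 456) (nat_lit 11794148829) (nat_lit 532) (nat_lit 51899419105) (nat_lit 158) (nat_lit 5) (nat_lit 164) (nat_lit 5) (nat_lit 165) (nat_lit 5) (nat_lit 369) (nat_lit 349) (nat_lit 182)) (XT.nd (nat_lit 78) (nat_lit 0) (nat_lit 0) (XT.lf (nat_lit 0) (nat_lit 2507635869) (nat_lit 456) (nat_lit 39679424413) (nat_lit 532) (nat_lit 36055466858) (nat_lit 152) (nat_lit 5) (nat_lit 158) (nat_lit 5) (nat_lit 159) (nat_lit 5) (nat_lit 370) (nat_lit 349) (nat_lit 181)) (XT.lf (nat_lit 0) (nat_lit 62059252392) (nat_lit 532) (nat_lit 7456652649) (nat_lit 76) (nat_lit 11055811457) (nat_lit 152) (nat_lit 5) (nat_lit 159) (nat_lit 5) (nat_lit 153) (nat_lit 5) (nat_lit 371) (nat_lit 349) (nat_lit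 180))))) (XT.nd (nat_lit 234) (nat_lit 1140) (nat_lit 0) (XT.nd (nat_lit 78) (nat_lit 836) (nat_lit 0) (XT.lf (nat_lit 0) (nat_lit 944522348) (nat_lit 456) (nat_lit 17892215879) (nat_lit 76) (nat_lit 64149603457) (nat_lit 146) (nat_lit 5) (nat_lit 152) (nat_lit 5) (nat_lit 147) (nat_lit 5) (nat_lit 372) (nat_lit 349) (nat_lit 179)) (XT.nd (nat_lit 78) (nat_lit 380) (nat_lit 0) (XT.lf (nat_lit 0) (nat_lit 21955922920) (nat_lit 532) (nat_lit 29007429225) (nat_lit 76) (nat_lit 34523914976) (nat_lit 140) (nat_lit 5) (nat_lit 147) (nat_lit 5) (nat_lit 141) (nat_lit 5) (nat_lit 373) (nat_lit 349) (nat_lit 178)) (XT.lf (nat_lit 0) (nat_lit 44876128295) (nat_lit 456) (nat_lit 40543133939) (nat_lit 76) (nat_lit 2668230193) (nat_lit 135) (nat_lit 5) (nat_lit 141) (nat_lit 5) (nat_lit 136) (nat_lit 5) (nat_lit 374) (nat_lit 349) (nat_lit 177)))) (XT.nd (nat_lit 78) (nat_lit 760) (nat_lit 0) (XT.lf (nat_lit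 0) (nat_lit 37942487186) (nat_lit 380) (nat_lit 32179234519) (nat_lit 456) (nat_lit 20660626570) (nat_lit 130) (nat_lit 5) (nat_lit 135) (nat_lit 5) (nat_lit 136) (nat_lit 5) (nat_lit 375) (nat_lit 349) (nat_lit 176)) (XT.nd (nat_lit 78) (nat_lit 380) (nat_lit 0) (XT.lf (nat_lit 0) (nat_lit 3884406080) (nat_lit 380) (nat_lit 65711549570) (nat_lit 76) (nat_lit 23987352303) (nat_lit 125) (nat_lit 5) (nat_lit 130) (nat_lit 5) (nat_lit 126) (nat_lit 5) (nat_lit 376) (nat_lit 349) (nat_lit 175)) (XT.lf (nat_lit 0) (nat_lit 17006646726) (nat_lit 380) (nat_lit 13263095628) (nat_lit 456) (nat_lit 66217226614) (nat_lit 120) (nat_lit 5) (nat_lit 125) (nat_lit 5) (nat_lit 126) (nat_lit 5) (nat_lit 377) (nat_lit 349) (nat_lit 174))))))))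
noncomputable def xc118 : XT := (XT.nd (nat_lit 45864) (nat_lit 0) (nat_lit 532) (XT.nd (nat_lit 44928) (nat_lit 0) (nat_lit 8132) (XT.nd (nat_lit 390) (nat_lit 836) (nat_lit 0) (XT.nd (nat_lit 156) (nat_lit 988) (nat_lit 0) (XT.nd (nat_lit 78) (nat_lit 0) (nat_lit 0) (XT.lf (nat_lit 0) (nat_lit 5373842209) (nat_lit 304) (nat_lit 53775203529) (nat_lit 380) (nat_lit 40351526799) (nat_lit 116) (nat_lit 5) (nat_lit 120) (nat_lit 5) (nat_lit 121) (nat_lit 5) (nat_lit 378) (nat_lit 349) (nat_lit 173)) (XT.lf (nat_lit 0) (nat_lit 90475463329) (nat_lit 380) (nat_lit 6696437643) (nat_lit 76) (nat_lit 5462861329) (nat_lit 116) (nat_lit 5) (nat_lit 121) (nat_lit 5) (nat_lit 117) (nat_lit 5) (nat_lit 379) (nat_lit 349) (nat_lit 172))) (XT.nd (nat_lit 78) (nat_lit 608) (nat_lit 0) (XT.lf (nat_lit 0) (nat_lit 18486447252) (nat_lit 380) (nat_lit 19821798310) (nat_lit 76) (nat_lit 67570858175) (nat_lit 111)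 (nat_lit 5) (nat_lit 116) (nat_lit 5) (nat_lit 112) (nat_lit 5) (nat_lit 380) (nat_lit 349) (nat_lit 171)) (XT.nd (nat_lit 78) (nat_lit 304) (nat_lit 0) (XT.lf (nat_lit 0) (nat_lit 51446135055) (nat_lit 380) (nat_lit 33836620927) (nat_lit 76) (nat_lit 23968301203) (nat_lit 107) (nat_lit 5) (nat_lit 112) (nat_lit 5) (nat_lit 108) (nat_lit 5) (nat_lit 381) (nat_lit 349) (nat_lit 170)) (XT.lf (nat_lit 0) (nat_lit 63897904338) (nat_lit 304) (nat_lit 23361816924) (nat_lit 380) (nat_lit 25495710032) (nat_lit 103) (nat_lit 5) (nat_lit 107) (nat_lit 5) (nat_lit 108) (nat_lit 5) (nat_lit 382) (nat_lit 349) (nat_lit 169))))) (XT.nd (nat_lit 44304) (nat_lit 0) (nat_lit 9956) (XT.nd (nat_lit 78) (nat_lit 532) (nat_lit 0) (XT.lf (nat_lit 0) (nat_lit 9522071729) (nat_lit 304) (nat_lit 65091726216) (nat_lit 76) (nat_lit 41781068156) (nat_lit 99) (nat_lit 5) (nat_lit 103) (nat_lit 5) (nat_lit 100) (nat_lit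 5) (nat_lit 383) (nat_lit 349) (nat_lit 168)) (XT.nd (nat_lit 78) (nat_lit 228) (nat_lit 0) (XT.lf (nat_lit 0) (nat_lit 37524286119) (nat_lit 304) (nat_lit 9347515482) (nat_lit 380) (nat_lit 73303647941) (nat_lit 95) (nat_lit 5) (nat_lit 99) (nat_lit 5) (nat_lit 100) (nat_lit 5) (nat_lit 384) (nat_lit 349) (nat_lit 167)) (XT.lf (nat_lit 0) (nat_lit 22365819804) (nat_lit 228) (nat_lit 65182831072) (nat_lit 304) (nat_lit 36552622635) (nat_lit 92) (nat_lit 5) (nat_lit 95) (nat_lit 5) (nat_lit 96) (nat_lit 5) (nat_lit 385) (nat_lit 349) (nat_lit 166)))) (XT.nd (nat_lit 78) (nat_lit 0) (nat_lit 76) (XT.lf (nat_lit 0) (nat_lit 458798955) (nat_lit 1292) (nat_lit 11460653094) (nat_lit 1292) (nat_lit 11460653094) (nat_lit 223) (nat_lit 3) (nat_lit 240) (nat_lit 3) (nat_lit 240) (nat_lit 5) (nat_lit 350) (nat_lit 350) (nat_lit 200)) (XT.nd (nat_lit 78) (nat_lit 0) (nat_lit 76) (XT.lf (nat_lit 0) (nat_lit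 1251782907) (nat_lit 1216) (nat_lit 33806612007) (nat_lit 1292) (nat_lit 12861452832) (nat_lit 224) (nat_lit 5) (nat_lit 240) (nat_lit 5) (nat_lit 241) (nat_lit 5) (nat_lit 351) (nat_lit 350) (nat_lit 199)) (XT.lf (nat_lit 0) (nat_lit 2138583398) (nat_lit 1216) (nat_lit 44956760769) (nat_lit 1292) (nat_lit 2026047672) (nat_lit 225) (nat_lit 5) (nat_lit 241) (nat_lit 5) (nat_lit 242) (nat_lit 5) (nat_lit 352) (nat_lit 350) (nat_lit 198)))))) (XT.nd (nat_lit 468) (nat_lit 1976) (nat_lit 0) (XT.nd (nat_lit 234) (nat_lit 0) (nat_lit 228) (XT.nd (nat_lit 78) (nat_lit 0) (nat_lit 76) (XT.lf (nat_lit 0) (nat_lit 3772085605) (nat_lit 1216) (nat_lit 5990761719) (nat_lit 1292) (nat_lit 40599096819) (nat_lit 225) (nat_lit 5) (nat_lit 241) (nat_lit 5) (nat_lit 242) (nat_lit 5) (nat_lit 353) (nat_lit 350) (nat_lit 197)) (XT.nd (nat_lit 78) (nat_lit 0) (nat_lit 76) (XT.lf (nat_lit 0) (nat_lit 6113188014)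 (nat_lit 1216) (nat_lit 16323848865) (nat_lit 1292) (nat_lit 29208711197) (nat_lit 226) (nat_lit 5) (nat_lit 242) (nat_lit 5) (nat_lit 243) (nat_lit 5) (nat_lit 354) (nat_lit 350) (nat_lit 196)) (XT.lf (nat_lit 0) (nat_lit 9147708934) (nat_lit 1216) (nat_lit 26902647181) (nat_lit 1292) (nat_lit 16926096873) (nat_lit 227) (nat_lit 5) (nat_lit 243) (nat_lit 5) (nat_lit 244) (nat_lit 5) (nat_lit 355) (nat_lit 350) (nat_lit 195)))) (XT.nd (nat_lit 78) (nat_lit 0) (nat_lit 0) (XT.lf (nat_lit 0) (nat_lit 12923951471) (nat_lit 1216) (nat_lit 37734353045) (nat_lit 1292) (nat_lit 3697690364) (nat_lit 228) (nat_lit 5) (nat_lit 244) (nat_lit 5) (nat_lit 245) (nat_lit 5) (nat_lit 356) (nat_lit 350) (nat_lit 194)) (XT.nd (nat_lit 78) (nat_lit 0) (nat_lit 76) (XT.lf (nat_lit 76) (nat_lit 6853442225) (nat_lit 0) (nat_lit 10742543068) (nat_lit 1292) (nat_lit 38187320729) (nat_lit 229) (nat_lit 5) (nat_lit 228)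 (nat_lit 5) (nat_lit 245) (nat_lit 5) (nat_lit 357) (nat_lit 350) (nat_lit 193)) (XT.lf (nat_lit 0) (nat_lit 23191183114) (nat_lit 1216) (nat_lit 3116464254) (nat_lit 1292) (nat_lit 30953649936) (nat_lit 229) (nat_lit 5) (nat_lit 245) (nat_lit 5) (nat_lit 246) (nat_lit 5) (nat_lit 358) (nat_lit 350) (nat_lit 192))))) (XT.nd (nat_lit 234) (nat_lit 1216) (nat_lit 0) (XT.nd (nat_lit 78) (nat_lit 1140) (nat_lit 0) (XT.lf (nat_lit 0) (nat_lit 29767636223) (nat_lit 1216) (nat_lit 13181550523) (nat_lit 1292) (nat_lit 15842957929) (nat_lit 230) (nat_lit 5) (nat_lit 246) (nat_lit 5) (nat_lit 247) (nat_lit 5) (nat_lit 359) (nat_lit 350) (nat_lit 191)) (XT.nd (nat_lit 78) (nat_lit 1140) (nat_lit 0) (XT.lf (nat_lit 76) (nat_lit 36892854206) (nat_lit 0) (nat_lit 430487271) (nat_lit 1292) (nat_lit 23056681370) (nat_lit 231) (nat_lit 5) (nat_lit 230) (nat_lit 5) (nat_lit 247) (nat_lit 5) (nat_lit 360) (nat_lit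 350) (nat_lit 190)) (XT.lf (nat_lit 0) (nat_lit 27817896251) (nat_lit 1216) (nat_lit 18266340550) (nat_lit 1292) (nat_lit 15938237240) (nat_lit 215) (nat_lit 5) (nat_lit 231) (nat_lit 5) (nat_lit 232) (nat_lit 5) (nat_lit 361) (nat_lit 350) (nat_lit 189)))) (XT.nd (nat_lit 78) (nat_lit 608) (nat_lit 0) (XT.lf (nat_lit 0) (nat_lit 18538760943) (nat_lit 608) (nat_lit 37422871103) (nat_lit 684) (nat_lit 7765063292) (nat_lit 207) (nat_lit 5) (nat_lit 215) (nat_lit 5) (nat_lit 216) (nat_lit 5) (nat_lit 362) (nat_lit 350) (nat_lit 188)) (XT.nd (nat_lit 78) (nat_lit 0) (nat_lit 0) (XT.lf (nat_lit 0) (nat_lit 1500288429) (nat_lit 608) (nat_lit 56462238238) (nat_lit 76) (nat_lit 7532382883) (nat_lit 199) (nat_lit 5) (nat_lit 207) (nat_lit 5) (nat_lit 200) (nat_lit 5) (nat_lit 363) (nat_lit 350) (nat_lit 187)) (XT.lf (nat_lit 0) (nat_lit 11915468787) (nat_lit 608) (nat_lit 891465115) (nat_lit 76) (nat_lit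 54516880536) (nat_lit 199) (nat_lit 5) (nat_lit 207) (nat_lit 5) (nat_lit 200) (nat_lit 5) (nat_lit 364) (nat_lit 350) (nat_lit 186))))))) (XT.nd (nat_lit 936) (nat_lit 2356) (nat_lit 0) (XT.nd (nat_lit 468) (nat_lit 2128) (nat_lit 0) (XT.nd (nat_lit 234) (nat_lit 1444) (nat_lit 0) (XT.nd (nat_lit 78) (nat_lit 1064) (nat_lit 0) (XT.lf (nat_lit 0) (nat_lit 23751194705) (nat_lit 684) (nat_lit 10965922666) (nat_lit 76) (nat_lit 34500054607) (nat_lit 191) (nat_lit 5) (nat_lit 200) (nat_lit 5) (nat_lit 192) (nat_lit 5) (nat_lit 365) (nat_lit 350) (nat_lit 185)) (XT.nd (nat_lit 78) (nat_lit 532) (nat_lit 0) (XT.lf (nat_lit 0) (nat_lit 36923298290) (nat_lit 608) (nat_lit 21304072936) (nat_lit 76) (nat_lit 12955489384) (nat_lit 184) (nat_lit 5) (nat_lit 192) (nat_lit 5) (nat_lit 185) (nat_lit 5) (nat_lit 366) (nat_lit 350) (nat_lit 184)) (XT.lf (nat_lit 0) (nat_lit 41202212614) (nat_lit 532) (nat_lit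 10410651852) (nat_lit 608) (nat_lit 21608204396) (nat_lit 177) (nat_lit 5) (nat_lit 184) (nat_lit 5) (nat_lit 185) (nat_lit 5) (nat_lit 367) (nat_lit 350) (nat_lit 183)))) (XT.nd (nat_lit 78) (nat_lit 988) (nat_lit 0) (XT.lf (nat_lit 0) (nat_lit 32165636006) (nat_lit 456) (nat_lit 35782944883) (nat_lit 532) (nat_lit 7385257344) (nat_lit 171) (nat_lit 5) (nat_lit 177) (nat_lit 5) (nat_lit 178) (nat_lit 5) (nat_lit 368) (nat_lit 350) (nat_lit 182)) (XT.nd (nat_lit 78) (nat_lit 456) (nat_lit 0) (XT.lf (nat_lit 0) (nat_lit 8201748130) (nat_lit 532) (nat_lit 54722149150) (nat_lit 76) (nat_lit 14602166192) (nat_lit 164) (nat_lit 5) (nat_lit 171) (nat_lit 5) (nat_lit 165) (nat_lit 5) (nat_lit 369) (nat_lit 350) (nat_lit 181)) (XT.lf (nat_lit 0) (nat_lit 12973529110) (nat_lit 456) (nat_lit 12376452860) (nat_lit 532) (nat_lit 54447686630) (nat_lit 158) (nat_lit 5) (nat_lit 164) (nat_lit 5) (nat_lit 165)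 (nat_lit 5) (nat_lit 370) (nat_lit 350) (nat_lit 180))))) (XT.nd (nat_lit 234) (nat_lit 1216) (nat_lit 0) (XT.nd (nat_lit 78) (nat_lit 456) (nat_lit 0) (XT.lf (nat_lit 0) (nat_lit 2685504414) (nat_lit 456) (nat_lit 41654643423) (nat_lit 532) (nat_lit 37813171263) (nat_lit 152) (nat_lit 5) (nat_lit 158) (nat_lit 5) (nat_lit 159) (nat_lit 5) (nat_lit 371) (nat_lit 350) (nat_lit 179)) (XT.nd (nat_lit 78) (nat_lit 456) (nat_lit 0) (XT.lf (nat_lit 0) (nat_lit 65203947081) (nat_lit 532) (nat_lit 7778307170) (nat_lit 76) (nat_lit 11616774814) (nat_lit 152) (nat_lit 5) (nat_lit 159) (nat_lit 5) (nat_lit 153) (nat_lit 5) (nat_lit 372) (nat_lit 350) (nat_lit 178)) (XT.lf (nat_lit 0) (nat_lit 1032389277) (nat_lit 456) (nat_lit 18736287049) (nat_lit 76) (nat_lit 67365743527) (nat_lit 146) (nat_lit 5) (nat_lit 152) (nat_lit 5) (nat_lit 147) (nat_lit 5) (nat_lit 373) (nat_lit 350) (nat_lit 177)))) (XT.nd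 (nat_lit 78) (nat_lit 760) (nat_lit 0) (XT.lf (nat_lit 0) (nat_lit 23092991787) (nat_lit 532) (nat_lit 30407610989) (nat_lit 76) (nat_lit 36259830766) (nat_lit 140) (nat_lit 5) (nat_lit 147) (nat_lit 5) (nat_lit 141) (nat_lit 5) (nat_lit 374) (nat_lit 350) (nat_lit 176)) (XT.nd (nat_lit 78) (nat_lit 380) (nat_lit 0) (XT.lf (nat_lit 0) (nat_lit 47157910509) (nat_lit 456) (nat_lit 42520490203) (nat_lit 76) (nat_lit 2812309202) (nat_lit 135) (nat_lit 5) (nat_lit 141) (nat_lit 5) (nat_lit 136) (nat_lit 5) (nat_lit 375) (nat_lit 350) (nat_lit 175)) (XT.lf (nat_lit 0) (nat_lit 39887984458) (nat_lit 380) (nat_lit 33776455750) (nat_lit 456) (nat_lit 21655909498) (nat_lit 130) (nat_lit 5) (nat_lit 135) (nat_lit 5) (nat_lit 136) (nat_lit 5) (nat_lit 376) (nat_lit 350) (nat_lit 174)))))) (XT.nd (nat_lit 468) (nat_lit 608) (nat_lit 0) (XT.nd (nat_lit 234) (nat_lit 684) (nat_lit 0) (XT.nd (nat_lit 78) (nat_lit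 684) (nat_lit 0) (XT.lf (nat_lit 0) (nat_lit 4114449850) (nat_lit 380) (nat_lit 68948437679) (nat_lit 76) (nat_lit 25198495390) (nat_lit 125) (nat_lit 5) (nat_lit 130) (nat_lit 5) (nat_lit 126) (nat_lit 5) (nat_lit 377) (nat_lit 350) (nat_lit 173)) (XT.nd (nat_lit 78) (nat_lit 304) (nat_lit 0) (XT.lf (nat_lit 0) (nat_lit 17904272761) (nat_lit 380) (nat_lit 13913528914) (nat_lit 456) (nat_lit 69492463597) (nat_lit 120) (nat_lit 5) (nat_lit 125) (nat_lit 5) (nat_lit 126) (nat_lit 5) (nat_lit 378) (nat_lit 350) (nat_lit 172)) (XT.lf (nat_lit 0) (nat_lit 5689375557) (nat_lit 304) (nat_lit 56450615105) (nat_lit 380) (nat_lit 42334591457) (nat_lit 116) (nat_lit 5) (nat_lit 120) (nat_lit 5) (nat_lit 121) (nat_lit 5) (nat_lit 379) (nat_lit 350) (nat_lit 171)))) (XT.nd (nat_lit 78) (nat_lit 684) (nat_lit 0) (XT.lf (nat_lit 0) (nat_lit 95031256450) (nat_lit 380) (nat_lit 6985800508) (nat_lit 76) (nat_lit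 5748469273) (nat_lit 116) (nat_lit 5) (nat_lit 121) (nat_lit 5) (nat_lit 117) (nat_lit 5) (nat_lit 380) (nat_lit 350) (nat_lit 170)) (XT.nd (nat_lit 78) (nat_lit 304) (nat_lit 0) (XT.lf (nat_lit 0) (nat_lit 19442008086) (nat_lit 380) (nat_lit 20768098013) (nat_lit 76) (nat_lit 70962003109) (nat_lit 111) (nat_lit 5) (nat_lit 116) (nat_lit 5) (nat_lit 112) (nat_lit 5) (nat_lit 381) (nat_lit 350) (nat_lit 169)) (XT.lf (nat_lit 0) (nat_lit 54048739147) (nat_lit 380) (nat_lit 35484156830) (nat_lit 76) (nat_lit 25179793184) (nat_lit 107) (nat_lit 5) (nat_lit 112) (nat_lit 5) (nat_lit 108) (nat_lit 5) (nat_lit 382) (nat_lit 350) (nat_lit 168))))) (XT.nd (nat_lit 44460) (nat_lit 0) (nat_lit 9500) (XT.nd (nat_lit 78) (nat_lit 304) (nat_lit 0) (XT.lf (nat_lit 0) (nat_lit 67135824987) (nat_lit 304) (nat_lit 24516150533) (nat_lit 380) (nat_lit 26740337898) (nat_lit 103) (nat_lit 5) (nat_lit 107) (nat_lit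 5) (nat_lit 108) (nat_lit 5) (nat_lit 383) (nat_lit 350) (nat_lit 167)) (XT.nd (nat_lit 44304) (nat_lit 0) (nat_lit 9424) (XT.lf (nat_lit 0) (nat_lit 10026876454) (nat_lit 304) (nat_lit 68303203173) (nat_lit 76) (nat_lit 43883658209) (nat_lit 99) (nat_lit 5) (nat_lit 103) (nat_lit 5) (nat_lit 100) (nat_lit 5) (nat_lit 384) (nat_lit 350) (nat_lit 166)) (XT.lf (nat_lit 0) (nat_lit 529224635) (nat_lit 1292) (nat_lit 12009215611) (nat_lit 1292) (nat_lit 12009215611) (nat_lit 223) (nat_lit 3) (nat_lit 240) (nat_lit 3) (nat_lit 240) (nat_lit 5) (nat_lit 351) (nat_lit 351) (nat_lit 198)))) (XT.nd (nat_lit 78) (nat_lit 0) (nat_lit 76) (XT.lf (nat_lit 0) (nat_lit 1404861140) (nat_lit 1216) (nat_lit 35446204040) (nat_lit 1292) (nat_lit 13462003191) (nat_lit 224) (nat_lit 5) (nat_lit 240) (nat_lit 5) (nat_lit 241) (nat_lit 5) (nat_lit 352) (nat_lit 351) (nat_lit 197)) (XT.nd (nat_lit 78) (nat_lit 0) (nat_lit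 0) (XT.lf (nat_lit 0) (nat_lit 2331807181) (nat_lit 1216) (nat_lit 47152301445) (nat_lit 1292) (nat_lit 2090709596) (nat_lit 225) (nat_lit 5) (nat_lit 241) (nat_lit 5) (nat_lit 242) (nat_lit 5) (nat_lit 353) (nat_lit 351) (nat_lit 196)) (XT.lf (nat_lit 0) (nat_lit 4042875231) (nat_lit 1216) (nat_lit 6240492792) (nat_lit 1292) (nat_lit 42594155984) (nat_lit 225) (nat_lit 5) (nat_lit 241) (nat_lit 5) (nat_lit 242) (nat_lit 5) (nat_lit 354) (nat_lit 351) (nat_lit 195))))))))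
noncomputable def xc119 : XT := (XT.nd (nat_lit 1872) (nat_lit 1672) (nat_lit 0) (XT.nd (nat_lit 936) (nat_lit 5016) (nat_lit 0) (XT.nd (nat_lit 468) (nat_lit 2660) (nat_lit 0) (XT.nd (nat_lit 234) (nat_lit 0) (nat_lit 152) (XT.nd (nat_lit 78) (nat_lit 0) (nat_lit 76) (XT.lf (nat_lit 0) (nat_lit 6497292409) (nat_lit 1216) (nat_lit 17088958768) (nat_lit 1292) (nat_lit 30639381636) (nat_lit 226) (nat_lit 5) (nat_lit 242) (nat_lit 5) (nat_lit 243) (nat_lit 5) (nat_lit 355) (nat_lit 351) (nat_lit 194)) (XT.nd (nat_lit 78) (nat_lit 0) (nat_lit 76) (XT.lf (nat_lit 0) (nat_lit 9680035083) (nat_lit 1216) (nat_lit 28195612931) (nat_lit 1292) (nat_lit 17747332434) (nat_lit 227) (nat_lit 5) (nat_lit 243) (nat_lit 5) (nat_lit 244) (nat_lit 5) (nat_lit 356) (nat_lit 351) (nat_lit 193)) (XT.lf (nat_lit 0) (nat_lit 13641804555) (nat_lit 1216) (nat_lit 39567995255) (nat_lit 1292) (nat_lit 3861800418) (nat_lit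 228) (nat_lit 5) (nat_lit 244) (nat_lit 5) (nat_lit 245) (nat_lit 5) (nat_lit 357) (nat_lit 351) (nat_lit 192)))) (XT.nd (nat_lit 78) (nat_lit 0) (nat_lit 76) (XT.lf (nat_lit 76) (nat_lit 7247668381) (nat_lit 0) (nat_lit 11296855088) (nat_lit 1292) (nat_lit 40025843085) (nat_lit 229) (nat_lit 5) (nat_lit 228) (nat_lit 5) (nat_lit 245) (nat_lit 5) (nat_lit 358) (nat_lit 351) (nat_lit 191)) (XT.nd (nat_lit 78) (nat_lit 0) (nat_lit 76) (XT.lf (nat_lit 0) (nat_lit 24416050575) (nat_lit 1216) (nat_lit 3221026510) (nat_lit 1292) (nat_lit 32485285263) (nat_lit 229) (nat_lit 5) (nat_lit 245) (nat_lit 5) (nat_lit 246) (nat_lit 5) (nat_lit 359) (nat_lit 351) (nat_lit 190)) (XT.lf (nat_lit 0) (nat_lit 31318571183) (nat_lit 1216) (nat_lit 13788793664) (nat_lit 1292) (nat_lit 16622471826) (nat_lit 230) (nat_lit 5) (nat_lit 246) (nat_lit 5) (nat_lit 247) (nat_lit 5) (nat_lit 360) (nat_lit 351) (nat_lit 189)))))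 (XT.nd (nat_lit 234) (nat_lit 1216) (nat_lit 0) (XT.nd (nat_lit 78) (nat_lit 1748) (nat_lit 0) (XT.lf (nat_lit 76) (nat_lit 38787845480) (nat_lit 0) (nat_lit 461721481) (nat_lit 1292) (nat_lit 24147618476) (nat_lit 231) (nat_lit 5) (nat_lit 230) (nat_lit 5) (nat_lit 247) (nat_lit 5) (nat_lit 361) (nat_lit 351) (nat_lit 188)) (XT.nd (nat_lit 78) (nat_lit 608) (nat_lit 0) (XT.lf (nat_lit 0) (nat_lit 29259572909) (nat_lit 1216) (nat_lit 19186473472) (nat_lit 1292) (nat_lit 16675788383) (nat_lit 215) (nat_lit 5) (nat_lit 231) (nat_lit 5) (nat_lit 232) (nat_lit 5) (nat_lit 362) (nat_lit 351) (nat_lit 187)) (XT.lf (nat_lit 0) (nat_lit 19516801269) (nat_lit 608) (nat_lit 39298196197) (nat_lit 684) (nat_lit 8096340745) (nat_lit 207) (nat_lit 5) (nat_lit 215) (nat_lit 5) (nat_lit 216) (nat_lit 5) (nat_lit 363) (nat_lit 351) (nat_lit 186)))) (XT.nd (nat_lit 78) (nat_lit 608) (nat_lit 0) (XT.lf (nat_lit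 0) (nat_lit 1628966116) (nat_lit 608) (nat_lit 59232931400) (nat_lit 76) (nat_lit 7906116749) (nat_lit 199) (nat_lit 5) (nat_lit 207) (nat_lit 5) (nat_lit 200) (nat_lit 5) (nat_lit 364) (nat_lit 351) (nat_lit 185)) (XT.nd (nat_lit 78) (nat_lit 608) (nat_lit 0) (XT.lf (nat_lit 0) (nat_lit 12562350099) (nat_lit 608) (nat_lit 886115753) (nat_lit 76) (nat_lit 57239976679) (nat_lit 199) (nat_lit 5) (nat_lit 207) (nat_lit 5) (nat_lit 200) (nat_lit 5) (nat_lit 365) (nat_lit 351) (nat_lit 184)) (XT.lf (nat_lit 0) (nat_lit 24987888499) (nat_lit 684) (nat_lit 11464218764) (nat_lit 76) (nat_lit 36224421298) (nat_lit 191) (nat_lit 5) (nat_lit 200) (nat_lit 5) (nat_lit 192) (nat_lit 5) (nat_lit 366) (nat_lit 351) (nat_lit 183)))))) (XT.nd (nat_lit 468) (nat_lit 2052) (nat_lit 0) (XT.nd (nat_lit 234) (nat_lit 1444) (nat_lit 0) (XT.nd (nat_lit 78) (nat_lit 988) (nat_lit 0) (XT.lf (nat_lit 0) (nat_lit 38816736950)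 (nat_lit 608) (nat_lit 22319277841) (nat_lit 76) (nat_lit 13604543975) (nat_lit 184) (nat_lit 5) (nat_lit 192) (nat_lit 5) (nat_lit 185) (nat_lit 5) (nat_lit 367) (nat_lit 351) (nat_lit 182)) (XT.nd (nat_lit 78) (nat_lit 456) (nat_lit 0) (XT.lf (nat_lit 0) (nat_lit 43310888782) (nat_lit 532) (nat_lit 10928108363) (nat_lit 608) (nat_lit 22641735083) (nat_lit 177) (nat_lit 5) (nat_lit 184) (nat_lit 5) (nat_lit 185) (nat_lit 5) (nat_lit 368) (nat_lit 351) (nat_lit 181)) (XT.lf (nat_lit 0) (nat_lit 33822412731) (nat_lit 456) (nat_lit 37567414819) (nat_lit 532) (nat_lit 7709363884) (nat_lit 171) (nat_lit 5) (nat_lit 177) (nat_lit 5) (nat_lit 178) (nat_lit 5) (nat_lit 369) (nat_lit 351) (nat_lit 180)))) (XT.nd (nat_lit 78) (nat_lit 912) (nat_lit 0) (XT.lf (nat_lit 0) (nat_lit 8654515087) (nat_lit 532) (nat_lit 57409023349) (nat_lit 76) (nat_lit 15337525463) (nat_lit 164) (nat_lit 5) (nat_lit 171)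 (nat_lit 5) (nat_lit 165) (nat_lit 5) (nat_lit 370) (nat_lit 351) (nat_lit 179)) (XT.nd (nat_lit 78) (nat_lit 456) (nat_lit 0) (XT.lf (nat_lit 0) (nat_lit 13670027562) (nat_lit 456) (nat_lit 12988560391) (nat_lit 532) (nat_lit 57127709574) (nat_lit 158) (nat_lit 5) (nat_lit 164) (nat_lit 5) (nat_lit 165) (nat_lit 5) (nat_lit 371) (nat_lit 351) (nat_lit 178)) (XT.lf (nat_lit 0) (nat_lit 2867386667) (nat_lit 456) (nat_lit 43729437080) (nat_lit 532) (nat_lit 39662950971) (nat_lit 152) (nat_lit 5) (nat_lit 158) (nat_lit 5) (nat_lit 159) (nat_lit 5) (nat_lit 372) (nat_lit 351) (nat_lit 177))))) (XT.nd (nat_lit 234) (nat_lit 1140) (nat_lit 0) (XT.nd (nat_lit 78) (nat_lit 912) (nat_lit 0) (XT.lf (nat_lit 0) (nat_lit 68501996653) (nat_lit 532) (nat_lit 8120802472) (nat_lit 76) (nat_lit 12205026512) (nat_lit 152) (nat_lit 5) (nat_lit 159) (nat_lit 5) (nat_lit 153) (nat_lit 5) (nat_lit 373) (nat_lit 351)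 (nat_lit 176)) (XT.nd (nat_lit 78) (nat_lit 456) (nat_lit 0) (XT.lf (nat_lit 0) (nat_lit 1120871155) (nat_lit 456) (nat_lit 19627260473) (nat_lit 76) (nat_lit 70741885485) (nat_lit 146) (nat_lit 5) (nat_lit 152) (nat_lit 5) (nat_lit 147) (nat_lit 5) (nat_lit 374) (nat_lit 351) (nat_lit 175)) (XT.lf (nat_lit 0) (nat_lit 24283262893) (nat_lit 532) (nat_lit 31882468004) (nat_lit 76) (nat_lit 38081638668) (nat_lit 140) (nat_lit 5) (nat_lit 147) (nat_lit 5) (nat_lit 141) (nat_lit 5) (nat_lit 375) (nat_lit 351) (nat_lit 174)))) (XT.nd (nat_lit 78) (nat_lit 760) (nat_lit 0) (XT.lf (nat_lit 0) (nat_lit 49550251205) (nat_lit 456) (nat_lit 44601344253) (nat_lit 76) (nat_lit 2962600398) (nat_lit 135) (nat_lit 5) (nat_lit 141) (nat_lit 5) (nat_lit 136) (nat_lit 5) (nat_lit 376) (nat_lit 351) (nat_lit 173)) (XT.nd (nat_lit 78) (nat_lit 380) (nat_lit 0) (XT.lf (nat_lit 0) (nat_lit 41926259340) (nat_lit 380)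 (nat_lit 35454629563) (nat_lit 456) (nat_lit 22704466061) (nat_lit 130) (nat_lit 5) (nat_lit 135) (nat_lit 5) (nat_lit 136) (nat_lit 5) (nat_lit 377) (nat_lit 351) (nat_lit 172)) (XT.lf (nat_lit 0) (nat_lit 4352665282) (nat_lit 380) (nat_lit 72351696869) (nat_lit 76) (nat_lit 26469100860) (nat_lit 125) (nat_lit 5) (nat_lit 130) (nat_lit 5) (nat_lit 126) (nat_lit 5) (nat_lit 378) (nat_lit 351) (nat_lit 171))))))) (XT.nd (nat_lit 45240) (nat_lit 0) (nat_lit 5624) (XT.nd (nat_lit 44772) (nat_lit 0) (nat_lit 9120) (XT.nd (nat_lit 234) (nat_lit 988) (nat_lit 0) (XT.nd (nat_lit 78) (nat_lit 304) (nat_lit 0) (XT.lf (nat_lit 0) (nat_lit 18842383178) (nat_lit 380) (nat_lit 14597666588) (nat_lit 456) (nat_lit 72934774443) (nat_lit 120) (nat_lit 5) (nat_lit 125) (nat_lit 5) (nat_lit 126) (nat_lit 5) (nat_lit 379) (nat_lit 351) (nat_lit 170)) (XT.nd (nat_lit 78) (nat_lit 0) (nat_lit 0) (XT.lf (nat_lit 0)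 (nat_lit 6016330719) (nat_lit 304) (nat_lit 59261038286) (nat_lit 380) (nat_lit 44420017917) (nat_lit 116) (nat_lit 5) (nat_lit 120) (nat_lit 5) (nat_lit 121) (nat_lit 5) (nat_lit 380) (nat_lit 351) (nat_lit 169)) (XT.lf (nat_lit 0) (nat_lit 99811862316) (nat_lit 380) (nat_lit 7293857865) (nat_lit 76) (nat_lit 6047198747) (nat_lit 116) (nat_lit 5) (nat_lit 121) (nat_lit 5) (nat_lit 117) (nat_lit 5) (nat_lit 381) (nat_lit 351) (nat_lit 168)))) (XT.nd (nat_lit 78) (nat_lit 608) (nat_lit 0) (XT.lf (nat_lit 0) (nat_lit 20442442704) (nat_lit 380) (nat_lit 21765876871) (nat_lit 76) (nat_lit 74521533673) (nat_lit 111) (nat_lit 5) (nat_lit 116) (nat_lit 5) (nat_lit 112) (nat_lit 5) (nat_lit 382) (nat_lit 351) (nat_lit 167)) (XT.nd (nat_lit 78) (nat_lit 304) (nat_lit 0) (XT.lf (nat_lit 0) (nat_lit 56778656684) (nat_lit 380) (nat_lit 37218187671) (nat_lit 76) (nat_lit 26450643995) (nat_lit 107) (nat_lit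 5) (nat_lit 112) (nat_lit 5) (nat_lit 108) (nat_lit 5) (nat_lit 383) (nat_lit 351) (nat_lit 166)) (XT.lf (nat_lit 0) (nat_lit 70531641571) (nat_lit 304) (nat_lit 25729479841) (nat_lit 380) (nat_lit 28050000929) (nat_lit 103) (nat_lit 5) (nat_lit 107) (nat_lit 5) (nat_lit 108) (nat_lit 5) (nat_lit 384) (nat_lit 351) (nat_lit 165))))) (XT.nd (nat_lit 234) (nat_lit 0) (nat_lit 152) (XT.nd (nat_lit 78) (nat_lit 0) (nat_lit 76) (XT.lf (nat_lit 0) (nat_lit 598756826) (nat_lit 1292) (nat_lit 12587481255) (nat_lit 1292) (nat_lit 12587481255) (nat_lit 223) (nat_lit 3) (nat_lit 240) (nat_lit 3) (nat_lit 240) (nat_lit 5) (nat_lit 352) (nat_lit 352) (nat_lit 196)) (XT.nd (nat_lit 78) (nat_lit 0) (nat_lit 76) (XT.lf (nat_lit 0) (nat_lit 1557180467) (nat_lit 1216) (nat_lit 37172492866) (nat_lit 1292) (nat_lit 14096534387) (nat_lit 224) (nat_lit 5) (nat_lit 240) (nat_lit 5) (nat_lit 241) (nat_lit 5) (nat_lit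 353) (nat_lit 352) (nat_lit 195)) (XT.lf (nat_lit 0) (nat_lit 2526669297) (nat_lit 1216) (nat_lit 49462481267) (nat_lit 1292) (nat_lit 2162011099) (nat_lit 225) (nat_lit 5) (nat_lit 241) (nat_lit 5) (nat_lit 242) (nat_lit 5) (nat_lit 354) (nat_lit 352) (nat_lit 194)))) (XT.nd (nat_lit 78) (nat_lit 0) (nat_lit 76) (XT.lf (nat_lit 0) (nat_lit 4319563524) (nat_lit 1216) (nat_lit 6507341003) (nat_lit 1292) (nat_lit 44692212377) (nat_lit 225) (nat_lit 5) (nat_lit 241) (nat_lit 5) (nat_lit 242) (nat_lit 5) (nat_lit 355) (nat_lit 352) (nat_lit 193)) (XT.nd (nat_lit 78) (nat_lit 0) (nat_lit 76) (XT.lf (nat_lit 0) (nat_lit 6893308952) (nat_lit 1216) (nat_lit 17897073337) (nat_lit 1292) (nat_lit 32144352876) (nat_lit 226) (nat_lit 5) (nat_lit 242) (nat_lit 5) (nat_lit 243) (nat_lit 5) (nat_lit 356) (nat_lit 352) (nat_lit 192)) (XT.lf (nat_lit 0) (nat_lit 10232010263) (nat_lit 1216) (nat_lit 29558076925)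 (nat_lit 1292) (nat_lit 18611960477) (nat_lit 227) (nat_lit 5) (nat_lit 243) (nat_lit 5) (nat_lit 244) (nat_lit 5) (nat_lit 357) (nat_lit 352) (nat_lit 191)))))) (XT.nd (nat_lit 468) (nat_lit 2888) (nat_lit 0) (XT.nd (nat_lit 234) (nat_lit 988) (nat_lit 0) (XT.nd (nat_lit 78) (nat_lit 0) (nat_lit 0) (XT.lf (nat_lit 0) (nat_lit 14388888442) (nat_lit 1216) (nat_lit 41498254028) (nat_lit 1292) (nat_lit 4036047387) (nat_lit 228) (nat_lit 5) (nat_lit 244) (nat_lit 5) (nat_lit 245) (nat_lit 5) (nat_lit 358) (nat_lit 352) (nat_lit 190)) (XT.nd (nat_lit 78) (nat_lit 0) (nat_lit 76) (XT.lf (nat_lit 76) (nat_lit 7656812838) (nat_lit 0) (nat_lit 11877285023) (nat_lit 1292) (nat_lit 41962877933) (nat_lit 229) (nat_lit 5) (nat_lit 228) (nat_lit 5) (nat_lit 245) (nat_lit 5) (nat_lit 359) (nat_lit 352) (nat_lit 189)) (XT.lf (nat_lit 0) (nat_lit 25696089661) (nat_lit 1216) (nat_lit 3335582636) (nat_lit 1292)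 (nat_lit 34094994270) (nat_lit 229) (nat_lit 5) (nat_lit 245) (nat_lit 5) (nat_lit 246) (nat_lit 5) (nat_lit 360) (nat_lit 352) (nat_lit 188)))) (XT.nd (nat_lit 78) (nat_lit 1140) (nat_lit 0) (XT.lf (nat_lit 0) (nat_lit 32941237293) (nat_lit 1216) (nat_lit 14431218031) (nat_lit 1292) (nat_lit 17442136008) (nat_lit 230) (nat_lit 5) (nat_lit 246) (nat_lit 5) (nat_lit 247) (nat_lit 5) (nat_lit 361) (nat_lit 352) (nat_lit 187)) (XT.nd (nat_lit 78) (nat_lit 1140) (nat_lit 0) (XT.lf (nat_lit 76) (nat_lit 40772905385) (nat_lit 0) (nat_lit 493614671) (nat_lit 1292) (nat_lit 25298857031) (nat_lit 231) (nat_lit 5) (nat_lit 230) (nat_lit 5) (nat_lit 247) (nat_lit 5) (nat_lit 362) (nat_lit 352) (nat_lit 186)) (XT.lf (nat_lit 0) (nat_lit 30768612184) (nat_lit 1216) (nat_lit 20151979363) (nat_lit 1292) (nat_lit 17455735879) (nat_lit 215) (nat_lit 5) (nat_lit 231) (nat_lit 5) (nat_lit 232) (nat_lit 5) (nat_lit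 363) (nat_lit 352) (nat_lit 185))))) (XT.nd (nat_lit 234) (nat_lit 1672) (nat_lit 0) (XT.nd (nat_lit 78) (nat_lit 608) (nat_lit 0) (XT.lf (nat_lit 0) (nat_lit 20538992606) (nat_lit 608) (nat_lit 41266898785) (nat_lit 684) (nat_lit 8449479133) (nat_lit 207) (nat_lit 5) (nat_lit 215) (nat_lit 5) (nat_lit 216) (nat_lit 5) (nat_lit 364) (nat_lit 352) (nat_lit 184)) (XT.nd (nat_lit 78) (nat_lit 0) (nat_lit 0) (XT.lf (nat_lit 0) (nat_lit 1759088586) (nat_lit 608) (nat_lit 62147032620) (nat_lit 76) (nat_lit 8298805555) (nat_lit 199) (nat_lit 5) (nat_lit 207) (nat_lit 5) (nat_lit 200) (nat_lit 5) (nat_lit 365) (nat_lit 352) (nat_lit 183)) (XT.lf (nat_lit 0) (nat_lit 13236823950) (nat_lit 608) (nat_lit 885140254) (nat_lit 76) (nat_lit 60099483101) (nat_lit 199) (nat_lit 5) (nat_lit 207) (nat_lit 5) (nat_lit 200) (nat_lit 5) (nat_lit 366) (nat_lit 352) (nat_lit 182)))) (XT.nd (nat_lit 78) (nat_lit 1064)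 (nat_lit 0) (XT.lf (nat_lit 0) (nat_lit 26281848964) (nat_lit 684) (nat_lit 11992078196) (nat_lit 76) (nat_lit 38035065456) (nat_lit 191) (nat_lit 5) (nat_lit 200) (nat_lit 5) (nat_lit 192) (nat_lit 5) (nat_lit 367) (nat_lit 352) (nat_lit 181)) (XT.nd (nat_lit 78) (nat_lit 532) (nat_lit 0) (XT.lf (nat_lit 0) (nat_lit 40800452479) (nat_lit 608) (nat_lit 23389891401) (nat_lit 76) (nat_lit 14285932283) (nat_lit 184) (nat_lit 5) (nat_lit 192) (nat_lit 5) (nat_lit 185) (nat_lit 5) (nat_lit 368) (nat_lit 352) (nat_lit 180)) (XT.lf (nat_lit 0) (nat_lit 45520483596) (nat_lit 532) (nat_lit 11471723685) (nat_lit 608) (nat_lit 23731300720) (nat_lit 177) (nat_lit 5) (nat_lit 184) (nat_lit 5) (nat_lit 185) (nat_lit 5) (nat_lit 369) (nat_lit 352) (nat_lit 179))))))))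
noncomputable def xc120 : XT := (XT.nd (nat_lit 46176) (nat_lit 0) (nat_lit 304) (XT.nd (nat_lit 858) (nat_lit 988) (nat_lit 0) (XT.nd (nat_lit 390) (nat_lit 2432) (nat_lit 0) (XT.nd (nat_lit 156) (nat_lit 912) (nat_lit 0) (XT.nd (nat_lit 78) (nat_lit 532) (nat_lit 0) (XT.lf (nat_lit 0) (nat_lit 35557519693) (nat_lit 456) (nat_lit 39441543104) (nat_lit 532) (nat_lit 8053873958) (nat_lit 171) (nat_lit 5) (nat_lit 177) (nat_lit 5) (nat_lit 178) (nat_lit 5) (nat_lit 370) (nat_lit 352) (nat_lit 178)) (XT.lf (nat_lit 0) (nat_lit 9125952452) (nat_lit 532) (nat_lit 60234818500) (nat_lit 76) (nat_lit 16109164513) (nat_lit 164) (nat_lit 5) (nat_lit 171) (nat_lit 5) (nat_lit 165) (nat_lit 5) (nat_lit 371) (nat_lit 352) (nat_lit 177))) (XT.nd (nat_lit 78) (nat_lit 456) (nat_lit 0) (XT.lf (nat_lit 0) (nat_lit 14396904902) (nat_lit 456) (nat_lit 13631897606) (nat_lit 532) (nat_lit 59945672026) (nat_lit 158)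 (nat_lit 5) (nat_lit 164) (nat_lit 5) (nat_lit 165) (nat_lit 5) (nat_lit 372) (nat_lit 352) (nat_lit 176)) (XT.nd (nat_lit 78) (nat_lit 0) (nat_lit 0) (XT.lf (nat_lit 0) (nat_lit 3053936981) (nat_lit 456) (nat_lit 45908708469) (nat_lit 532) (nat_lit 41609020193) (nat_lit 152) (nat_lit 5) (nat_lit 158) (nat_lit 5) (nat_lit 159) (nat_lit 5) (nat_lit 373) (nat_lit 352) (nat_lit 175)) (XT.lf (nat_lit 0) (nat_lit 71961429563) (nat_lit 532) (nat_lit 8484738237) (nat_lit 76) (nat_lit 12822001607) (nat_lit 152) (nat_lit 5) (nat_lit 159) (nat_lit 5) (nat_lit 153) (nat_lit 5) (nat_lit 374) (nat_lit 352) (nat_lit 174))))) (XT.nd (nat_lit 234) (nat_lit 1140) (nat_lit 0) (XT.nd (nat_lit 78) (nat_lit 836) (nat_lit 0) (XT.lf (nat_lit 0) (nat_lit 1210350010) (nat_lit 456) (nat_lit 20567044423) (nat_lit 76) (nat_lit 74286104278) (nat_lit 146) (nat_lit 5) (nat_lit 152) (nat_lit 5) (nat_lit 147) (nat_lit 5) (nat_lit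 375) (nat_lit 352) (nat_lit 173)) (XT.nd (nat_lit 78) (nat_lit 380) (nat_lit 0) (XT.lf (nat_lit 0) (nat_lit 25529735803) (nat_lit 532) (nat_lit 33435300216) (nat_lit 76) (nat_lit 39993717303) (nat_lit 140) (nat_lit 5) (nat_lit 147) (nat_lit 5) (nat_lit 141) (nat_lit 5) (nat_lit 376) (nat_lit 352) (nat_lit 172)) (XT.lf (nat_lit 0) (nat_lit 52059006550) (nat_lit 456) (nat_lit 46790440526) (nat_lit 76) (nat_lit 3119506595) (nat_lit 135) (nat_lit 5) (nat_lit 141) (nat_lit 5) (nat_lit 136) (nat_lit 5) (nat_lit 377) (nat_lit 352) (nat_lit 171)))) (XT.nd (nat_lit 78) (nat_lit 760) (nat_lit 0) (XT.lf (nat_lit 0) (nat_lit 44062368822) (nat_lit 380) (nat_lit 37217702106) (nat_lit 456) (nat_lit 23808633661) (nat_lit 130) (nat_lit 5) (nat_lit 135) (nat_lit 5) (nat_lit 136) (nat_lit 5) (nat_lit 378) (nat_lit 352) (nat_lit 170)) (XT.nd (nat_lit 78) (nat_lit 380) (nat_lit 0) (XT.lf (nat_lit 0) (nat_lit 4599770600)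 (nat_lit 380) (nat_lit 75929224848) (nat_lit 76) (nat_lit 27802243612) (nat_lit 125) (nat_lit 5) (nat_lit 130) (nat_lit 5) (nat_lit 126) (nat_lit 5) (nat_lit 379) (nat_lit 352) (nat_lit 169)) (XT.lf (nat_lit 0) (nat_lit 19823410980) (nat_lit 380) (nat_lit 15317083911) (nat_lit 456) (nat_lit 76552204927) (nat_lit 120) (nat_lit 5) (nat_lit 125) (nat_lit 5) (nat_lit 126) (nat_lit 5) (nat_lit 380) (nat_lit 352) (nat_lit 168)))))) (XT.nd (nat_lit 44850) (nat_lit 0) (nat_lit 8968) (XT.nd (nat_lit 234) (nat_lit 304) (nat_lit 0) (XT.nd (nat_lit 78) (nat_lit 380) (nat_lit 0) (XT.lf (nat_lit 0) (nat_lit 6355683657) (nat_lit 304) (nat_lit 62213108274) (nat_lit 380) (nat_lit 46612625966) (nat_lit 116) (nat_lit 5) (nat_lit 120) (nat_lit 5) (nat_lit 121) (nat_lit 5) (nat_lit 381) (nat_lit 352) (nat_lit 167)) (XT.nd (nat_lit 78) (nat_lit 380) (nat_lit 0) (XT.lf (nat_lit 0) (nat_lit 104828798327) (nat_lit 380)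 (nat_lit 7621151513) (nat_lit 76) (nat_lit 6359813570) (nat_lit 116) (nat_lit 5) (nat_lit 121) (nat_lit 5) (nat_lit 117) (nat_lit 5) (nat_lit 382) (nat_lit 352) (nat_lit 166)) (XT.lf (nat_lit 0) (nat_lit 21490264806) (nat_lit 380) (nat_lit 22817321696) (nat_lit 76) (nat_lit 78257978074) (nat_lit 111) (nat_lit 5) (nat_lit 116) (nat_lit 5) (nat_lit 112) (nat_lit 5) (nat_lit 383) (nat_lit 352) (nat_lit 165)))) (XT.nd (nat_lit 44460) (nat_lit 0) (nat_lit 8816) (XT.lf (nat_lit 0) (nat_lit 59642515214) (nat_lit 380) (nat_lit 39042655331) (nat_lit 76) (nat_lit 27783934609) (nat_lit 107) (nat_lit 5) (nat_lit 112) (nat_lit 5) (nat_lit 108) (nat_lit 5) (nat_lit 384) (nat_lit 352) (nat_lit 164)) (XT.nd (nat_lit 78) (nat_lit 0) (nat_lit 76) (XT.lf (nat_lit 0) (nat_lit 667761297) (nat_lit 1292) (nat_lit 13196723674) (nat_lit 1292) (nat_lit 13196723674) (nat_lit 223) (nat_lit 3) (nat_lit 240) (nat_lit 3)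 (nat_lit 240) (nat_lit 5) (nat_lit 353) (nat_lit 353) (nat_lit 194)) (XT.lf (nat_lit 0) (nat_lit 1709485087) (nat_lit 1216) (nat_lit 38989374764) (nat_lit 1292) (nat_lit 14766377919) (nat_lit 224) (nat_lit 5) (nat_lit 240) (nat_lit 5) (nat_lit 241) (nat_lit 5) (nat_lit 354) (nat_lit 353) (nat_lit 193))))) (XT.nd (nat_lit 234) (nat_lit 0) (nat_lit 152) (XT.nd (nat_lit 78) (nat_lit 0) (nat_lit 0) (XT.lf (nat_lit 0) (nat_lit 2723997554) (nat_lit 1216) (nat_lit 51892580160) (nat_lit 1292) (nat_lit 2239967458) (nat_lit 225) (nat_lit 5) (nat_lit 241) (nat_lit 5) (nat_lit 242) (nat_lit 5) (nat_lit 355) (nat_lit 353) (nat_lit 192)) (XT.nd (nat_lit 78) (nat_lit 0) (nat_lit 76) (XT.lf (nat_lit 0) (nat_lit 4603155787) (nat_lit 1216) (nat_lit 6791731701) (nat_lit 1292) (nat_lit 46898114237) (nat_lit 225) (nat_lit 5) (nat_lit 241) (nat_lit 5) (nat_lit 242) (nat_lit 5) (nat_lit 356) (nat_lit 353) (nat_lit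 191)) (XT.lf (nat_lit 0) (nat_lit 7302511290) (nat_lit 1216) (nat_lit 18749901272) (nat_lit 1292) (nat_lit 33727082682) (nat_lit 226) (nat_lit 5) (nat_lit 242) (nat_lit 5) (nat_lit 243) (nat_lit 5) (nat_lit 357) (nat_lit 353) (nat_lit 190)))) (XT.nd (nat_lit 78) (nat_lit 0) (nat_lit 76) (XT.lf (nat_lit 0) (nat_lit 10805264678) (nat_lit 1216) (nat_lit 30993063173) (nat_lit 1292) (nat_lit 19521933940) (nat_lit 227) (nat_lit 5) (nat_lit 243) (nat_lit 5) (nat_lit 244) (nat_lit 5) (nat_lit 358) (nat_lit 353) (nat_lit 189)) (XT.nd (nat_lit 78) (nat_lit 0) (nat_lit 0) (XT.lf (nat_lit 0) (nat_lit 15167284029) (nat_lit 1216) (nat_lit 43529501432) (nat_lit 1292) (nat_lit 4220758553) (nat_lit 228) (nat_lit 5) (nat_lit 244) (nat_lit 5) (nat_lit 245) (nat_lit 5) (nat_lit 359) (nat_lit 353) (nat_lit 188)) (XT.lf (nat_lit 76) (nat_lit 8082067121) (nat_lit 0) (nat_lit 12485287306) (nat_lit 1292) (nat_lit 44002738559)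 (nat_lit 229) (nat_lit 5) (nat_lit 228) (nat_lit 5) (nat_lit 245) (nat_lit 5) (nat_lit 360) (nat_lit 353) (nat_lit 187))))))) (XT.nd (nat_lit 936) (nat_lit 4028) (nat_lit 0) (XT.nd (nat_lit 468) (nat_lit 2660) (nat_lit 0) (XT.nd (nat_lit 234) (nat_lit 2280) (nat_lit 0) (XT.nd (nat_lit 78) (nat_lit 0) (nat_lit 76) (XT.lf (nat_lit 0) (nat_lit 27034623448) (nat_lit 1216) (nat_lit 3460189252) (nat_lit 1292) (nat_lit 35786541938) (nat_lit 229) (nat_lit 5) (nat_lit 245) (nat_lit 5) (nat_lit 246) (nat_lit 5) (nat_lit 361) (nat_lit 353) (nat_lit 186)) (XT.nd (nat_lit 78) (nat_lit 0) (nat_lit 0) (XT.lf (nat_lit 0) (nat_lit 34639761789) (nat_lit 1216) (nat_lit 15110134655) (nat_lit 1292) (nat_lit 18303848786) (nat_lit 230) (nat_lit 5) (nat_lit 246) (nat_lit 5) (nat_lit 247) (nat_lit 5) (nat_lit 362) (nat_lit 353) (nat_lit 185)) (XT.lf (nat_lit 76) (nat_lit 42852972543) (nat_lit 0) (nat_lit 526283719)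 (nat_lit 1292) (nat_lit 26512877098) (nat_lit 231) (nat_lit 5) (nat_lit 230) (nat_lit 5) (nat_lit 247) (nat_lit 5) (nat_lit 363) (nat_lit 353) (nat_lit 184)))) (XT.nd (nat_lit 78) (nat_lit 1216) (nat_lit 0) (XT.lf (nat_lit 0) (nat_lit 32348821143) (nat_lit 1216) (nat_lit 21165185785) (nat_lit 1292) (nat_lit 18279686463) (nat_lit 215) (nat_lit 5) (nat_lit 231) (nat_lit 5) (nat_lit 232) (nat_lit 5) (nat_lit 364) (nat_lit 353) (nat_lit 183)) (XT.nd (nat_lit 78) (nat_lit 608) (nat_lit 0) (XT.lf (nat_lit 0) (nat_lit 21607984207) (nat_lit 608) (nat_lit 43333683887) (nat_lit 684) (nat_lit 8825079031) (nat_lit 207) (nat_lit 5) (nat_lit 215) (nat_lit 5) (nat_lit 216) (nat_lit 5) (nat_lit 365) (nat_lit 353) (nat_lit 182)) (XT.lf (nat_lit 0) (nat_lit 1891191916) (nat_lit 608) (nat_lit 65211259216) (nat_lit 76) (nat_lit 8711372107) (nat_lit 199) (nat_lit 5) (nat_lit 207) (nat_lit 5) (nat_lit 200) (nat_lit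 5) (nat_lit 366) (nat_lit 353) (nat_lit 181))))) (XT.nd (nat_lit 234) (nat_lit 1520) (nat_lit 0) (XT.nd (nat_lit 78) (nat_lit 1140) (nat_lit 0) (XT.lf (nat_lit 0) (nat_lit 13940711720) (nat_lit 608) (nat_lit 888325805) (nat_lit 76) (nat_lit 63102196566) (nat_lit 199) (nat_lit 5) (nat_lit 207) (nat_lit 5) (nat_lit 200) (nat_lit 5) (nat_lit 367) (nat_lit 353) (nat_lit 180)) (XT.nd (nat_lit 78) (nat_lit 532) (nat_lit 0) (XT.lf (nat_lit 0) (nat_lit 27636364124) (nat_lit 684) (nat_lit 12550546953) (nat_lit 76) (nat_lit 39936295458) (nat_lit 191) (nat_lit 5) (nat_lit 200) (nat_lit 5) (nat_lit 192) (nat_lit 5) (nat_lit 368) (nat_lit 353) (nat_lit 179)) (XT.lf (nat_lit 0) (nat_lit 42879367330) (nat_lit 608) (nat_lit 24518251883) (nat_lit 76) (nat_lit 15001282056) (nat_lit 184) (nat_lit 5) (nat_lit 192) (nat_lit 5) (nat_lit 185) (nat_lit 5) (nat_lit 369) (nat_lit 353) (nat_lit 178)))) (XT.nd (nat_lit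 78) (nat_lit 988) (nat_lit 0) (XT.lf (nat_lit 0) (nat_lit 47836462764) (nat_lit 532) (nat_lit 12042779170) (nat_lit 608) (nat_lit 24879297849) (nat_lit 177) (nat_lit 5) (nat_lit 184) (nat_lit 5) (nat_lit 185) (nat_lit 5) (nat_lit 370) (nat_lit 353) (nat_lit 177)) (XT.nd (nat_lit 78) (nat_lit 532) (nat_lit 0) (XT.lf (nat_lit 0) (nat_lit 37375292571) (nat_lit 456) (nat_lit 41409772226) (nat_lit 532) (nat_lit 8419417434) (nat_lit 171) (nat_lit 5) (nat_lit 177) (nat_lit 5) (nat_lit 178) (nat_lit 5) (nat_lit 371) (nat_lit 353) (nat_lit 176)) (XT.lf (nat_lit 0) (nat_lit 9617362647) (nat_lit 532) (nat_lit 63206055101) (nat_lit 76) (nat_lit 16918942717) (nat_lit 164) (nat_lit 5) (nat_lit 171) (nat_lit 5) (nat_lit 165) (nat_lit 5) (nat_lit 372) (nat_lit 353) (nat_lit 175)))))) (XT.nd (nat_lit 468) (nat_lit 1824) (nat_lit 0) (XT.nd (nat_lit 234) (nat_lit 1292) (nat_lit 0) (XT.nd (nat_lit 78) (nat_lit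 456) (nat_lit 0) (XT.lf (nat_lit 0) (nat_lit 15156093422) (nat_lit 456) (nat_lit 14307967947) (nat_lit 532) (nat_lit 62908104809) (nat_lit 158) (nat_lit 5) (nat_lit 164) (nat_lit 5) (nat_lit 165) (nat_lit 5) (nat_lit 373) (nat_lit 353) (nat_lit 174)) (XT.nd (nat_lit 78) (nat_lit 0) (nat_lit 0) (XT.lf (nat_lit 0) (nat_lit 3245800253) (nat_lit 456) (nat_lit 48197612858) (nat_lit 532) (nat_lit 43655840067) (nat_lit 152) (nat_lit 5) (nat_lit 158) (nat_lit 5) (nat_lit 159) (nat_lit 5) (nat_lit 374) (nat_lit 353) (nat_lit 173)) (XT.lf (nat_lit 0) (nat_lit 75590642154) (nat_lit 532) (nat_lit 8870785254) (nat_lit 76) (nat_lit 13469200345) (nat_lit 152) (nat_lit 5) (nat_lit 159) (nat_lit 5) (nat_lit 153) (nat_lit 5) (nat_lit 375) (nat_lit 353) (nat_lit 172)))) (XT.nd (nat_lit 78) (nat_lit 836) (nat_lit 0) (XT.lf (nat_lit 0) (nat_lit 1301194310) (nat_lit 456) (nat_lit 21557683198) (nat_lit 76) (nat_lit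 78006871641) (nat_lit 146) (nat_lit 5) (nat_lit 152) (nat_lit 5) (nat_lit 147) (nat_lit 5) (nat_lit 376) (nat_lit 353) (nat_lit 171)) (XT.nd (nat_lit 78) (nat_lit 380) (nat_lit 0) (XT.lf (nat_lit 0) (nat_lit 26835528502) (nat_lit 532) (nat_lit 35069612902) (nat_lit 76) (nat_lit 42000656413) (nat_lit 140) (nat_lit 5) (nat_lit 147) (nat_lit 5) (nat_lit 141) (nat_lit 5) (nat_lit 377) (nat_lit 353) (nat_lit 170)) (XT.lf (nat_lit 0) (nat_lit 54690295004) (nat_lit 456) (nat_lit 49092800703) (nat_lit 76) (nat_lit 3283442177) (nat_lit 135) (nat_lit 5) (nat_lit 141) (nat_lit 5) (nat_lit 136) (nat_lit 5) (nat_lit 378) (nat_lit 353) (nat_lit 169))))) (XT.nd (nat_lit 234) (nat_lit 684) (nat_lit 0) (XT.nd (nat_lit 78) (nat_lit 760) (nat_lit 0) (XT.lf (nat_lit 0) (nat_lit 46301583876) (nat_lit 380) (nat_lit 39069826274) (nat_lit 456) (nat_lit 24970896907) (nat_lit 130) (nat_lit 5) (nat_lit 135) (nat_lit 5)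 (nat_lit 136) (nat_lit 5) (nat_lit 379) (nat_lit 353) (nat_lit 168)) (XT.nd (nat_lit 78) (nat_lit 380) (nat_lit 0) (XT.lf (nat_lit 0) (nat_lit 4856491152) (nat_lit 380) (nat_lit 79689353334) (nat_lit 76) (nat_lit 29201142831) (nat_lit 125) (nat_lit 5) (nat_lit 130) (nat_lit 5) (nat_lit 126) (nat_lit 5) (nat_lit 380) (nat_lit 353) (nat_lit 167)) (XT.lf (nat_lit 0) (nat_lit 20849872814) (nat_lit 380) (nat_lit 16073445131) (nat_lit 456) (nat_lit 80353231737) (nat_lit 120) (nat_lit 5) (nat_lit 125) (nat_lit 5) (nat_lit 126) (nat_lit 5) (nat_lit 381) (nat_lit 353) (nat_lit 166)))) (XT.nd (nat_lit 78) (nat_lit 380) (nat_lit 0) (XT.lf (nat_lit 0) (nat_lit 6708421493) (nat_lit 304) (nat_lit 65313802757) (nat_lit 380) (nat_lit 48917504116) (nat_lit 116) (nat_lit 5) (nat_lit 120) (nat_lit 5) (nat_lit 121) (nat_lit 5) (nat_lit 382) (nat_lit 353) (nat_lit 165)) (XT.nd (nat_lit 78) (nat_lit 380) (nat_lit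 0) (XT.lf (nat_lit 0) (nat_lit 110094132027) (nat_lit 380) (nat_lit 7968286870) (nat_lit 76) (nat_lit 6687105732) (nat_lit 116) (nat_lit 5) (nat_lit 121) (nat_lit 5) (nat_lit 117) (nat_lit 5) (nat_lit 383) (nat_lit 353) (nat_lit 164)) (XT.lf (nat_lit 0) (nat_lit 22588088674) (nat_lit 380) (nat_lit 23924764635) (nat_lit 76) (nat_lit 82180280803) (nat_lit 111) (nat_lit 5) (nat_lit 116) (nat_lit 5) (nat_lit 112) (nat_lit 5) (nat_lit 384) (nat_lit 353) (nat_lit 163))))))))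
noncomputable def xc121 : XT := (XT.nd (nat_lit 1794) (nat_lit 2736) (nat_lit 0) (XT.nd (nat_lit 858) (nat_lit 5396) (nat_lit 0) (XT.nd (nat_lit 390) (nat_lit 0) (nat_lit 304) (XT.nd (nat_lit 156) (nat_lit 0) (nat_lit 152) (XT.nd (nat_lit 78) (nat_lit 0) (nat_lit 76) (XT.lf (nat_lit 0) (nat_lit 736583947) (nat_lit 1292) (nat_lit 13838299864) (nat_lit 1292) (nat_lit 13838299864) (nat_lit 223) (nat_lit 3) (nat_lit 240) (nat_lit 3) (nat_lit 240) (nat_lit 5) (nat_lit 354) (nat_lit 354) (nat_lit 192)) (XT.lf (nat_lit 0) (nat_lit 1862483693) (nat_lit 1216) (nat_lit 40900981602) (nat_lit 1292) (nat_lit 15472966032) (nat_lit 224) (nat_lit 5) (nat_lit 240) (nat_lit 5) (nat_lit 241) (nat_lit 5) (nat_lit 355) (nat_lit 354) (nat_lit 191))) (XT.nd (nat_lit 78) (nat_lit 0) (nat_lit 0) (XT.lf (nat_lit 0) (nat_lit 2924591801) (nat_lit 1216) (nat_lit 54448184070) (nat_lit 1292) (nat_lit 2324624155) (nat_lit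 225) (nat_lit 5) (nat_lit 241) (nat_lit 5) (nat_lit 242) (nat_lit 5) (nat_lit 356) (nat_lit 354) (nat_lit 190)) (XT.nd (nat_lit 78) (nat_lit 0) (nat_lit 76) (XT.lf (nat_lit 0) (nat_lit 4894641547) (nat_lit 1216) (nat_lit 7094151526) (nat_lit 1292) (nat_lit 49216980258) (nat_lit 225) (nat_lit 5) (nat_lit 241) (nat_lit 5) (nat_lit 242) (nat_lit 5) (nat_lit 357) (nat_lit 354) (nat_lit 189)) (XT.lf (nat_lit 0) (nat_lit 7726173717) (nat_lit 1216) (nat_lit 19649277757) (nat_lit 1292) (nat_lit 35391225625) (nat_lit 226) (nat_lit 5) (nat_lit 242) (nat_lit 5) (nat_lit 243) (nat_lit 5) (nat_lit 358) (nat_lit 354) (nat_lit 188))))) (XT.nd (nat_lit 234) (nat_lit 0) (nat_lit 152) (XT.nd (nat_lit 78) (nat_lit 0) (nat_lit 76) (XT.lf (nat_lit 0) (nat_lit 11401449818) (nat_lit 1216) (nat_lit 32503788805) (nat_lit 1292) (nat_lit 20479323553) (nat_lit 227) (nat_lit 5) (nat_lit 243) (nat_lit 5) (nat_lit 244) (nat_lit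 5) (nat_lit 359) (nat_lit 354) (nat_lit 187)) (XT.nd (nat_lit 78) (nat_lit 0) (nat_lit 0) (XT.lf (nat_lit 0) (nat_lit 15979118675) (nat_lit 1216) (nat_lit 45666370792) (nat_lit 1292) (nat_lit 4416294256) (nat_lit 228) (nat_lit 5) (nat_lit 244) (nat_lit 5) (nat_lit 245) (nat_lit 5) (nat_lit 360) (nat_lit 354) (nat_lit 186)) (XT.lf (nat_lit 76) (nat_lit 8524640899) (nat_lit 0) (nat_lit 13122375283) (nat_lit 1292) (nat_lit 46150010842) (nat_lit 229) (nat_lit 5) (nat_lit 228) (nat_lit 5) (nat_lit 245) (nat_lit 5) (nat_lit 361) (nat_lit 354) (nat_lit 185)))) (XT.nd (nat_lit 78) (nat_lit 0) (nat_lit 76) (XT.lf (nat_lit 0) (nat_lit 28435088683) (nat_lit 1216) (nat_lit 3594946999) (nat_lit 1292) (nat_lit 37563894390) (nat_lit 229) (nat_lit 5) (nat_lit 245) (nat_lit 5) (nat_lit 246) (nat_lit 5) (nat_lit 362) (nat_lit 354) (nat_lit 184)) (XT.nd (nat_lit 78) (nat_lit 0) (nat_lit 0) (XT.lf (nat_lit 0) (nat_lit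 36418428002) (nat_lit 1216) (nat_lit 15826961771) (nat_lit 1292) (nat_lit 19209613540) (nat_lit 230) (nat_lit 5) (nat_lit 246) (nat_lit 5) (nat_lit 247) (nat_lit 5) (nat_lit 363) (nat_lit 354) (nat_lit 183)) (XT.lf (nat_lit 76) (nat_lit 45033192043) (nat_lit 0) (nat_lit 559843542) (nat_lit 1292) (nat_lit 27792332487) (nat_lit 231) (nat_lit 5) (nat_lit 230) (nat_lit 5) (nat_lit 247) (nat_lit 5) (nat_lit 364) (nat_lit 354) (nat_lit 182)))))) (XT.nd (nat_lit 468) (nat_lit 2432) (nat_lit 0) (XT.nd (nat_lit 234) (nat_lit 1140) (nat_lit 0) (XT.nd (nat_lit 78) (nat_lit 1216) (nat_lit 0) (XT.lf (nat_lit 0) (nat_lit 34004156394) (nat_lit 1216) (nat_lit 22228531199) (nat_lit 1292) (nat_lit 19149374903) (nat_lit 215) (nat_lit 5) (nat_lit 231) (nat_lit 5) (nat_lit 232) (nat_lit 5) (nat_lit 365) (nat_lit 354) (nat_lit 181)) (XT.nd (nat_lit 78) (nat_lit 608) (nat_lit 0) (XT.lf (nat_lit 0) (nat_lit 22726516725)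 (nat_lit 608) (nat_lit 45503488410) (nat_lit 684) (nat_lit 9223816830) (nat_lit 207) (nat_lit 5) (nat_lit 215) (nat_lit 5) (nat_lit 216) (nat_lit 5) (nat_lit 366) (nat_lit 354) (nat_lit 180)) (XT.lf (nat_lit 0) (nat_lit 2025795867) (nat_lit 608) (nat_lit 68432706499) (nat_lit 76) (nat_lit 9144787674) (nat_lit 199) (nat_lit 5) (nat_lit 207) (nat_lit 5) (nat_lit 200) (nat_lit 5) (nat_lit 367) (nat_lit 354) (nat_lit 179)))) (XT.nd (nat_lit 78) (nat_lit 1140) (nat_lit 0) (XT.lf (nat_lit 0) (nat_lit 14675884787) (nat_lit 608) (nat_lit 895489068) (nat_lit 76) (nat_lit 66255255881) (nat_lit 199) (nat_lit 5) (nat_lit 207) (nat_lit 5) (nat_lit 200) (nat_lit 5) (nat_lit 368) (nat_lit 354) (nat_lit 178)) (XT.nd (nat_lit 78) (nat_lit 532) (nat_lit 0) (XT.lf (nat_lit 0) (nat_lit 29054846922) (nat_lit 684) (nat_lit 13140763504) (nat_lit 76) (nat_lit 41932635608) (nat_lit 191) (nat_lit 5) (nat_lit 200) (nat_lit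 5) (nat_lit 192) (nat_lit 5) (nat_lit 369) (nat_lit 354) (nat_lit 177)) (XT.lf (nat_lit 0) (nat_lit 45058612094) (nat_lit 608) (nat_lit 25706854646) (nat_lit 76) (nat_lit 15752301406) (nat_lit 184) (nat_lit 5) (nat_lit 192) (nat_lit 5) (nat_lit 185) (nat_lit 5) (nat_lit 370) (nat_lit 354) (nat_lit 176))))) (XT.nd (nat_lit 234) (nat_lit 912) (nat_lit 0) (XT.nd (nat_lit 78) (nat_lit 988) (nat_lit 0) (XT.lf (nat_lit 0) (nat_lit 50264526254) (nat_lit 532) (nat_lit 12642622710) (nat_lit 608) (nat_lit 26088280512) (nat_lit 177) (nat_lit 5) (nat_lit 184) (nat_lit 5) (nat_lit 185) (nat_lit 5) (nat_lit 371) (nat_lit 354) (nat_lit 175)) (XT.nd (nat_lit 78) (nat_lit 532) (nat_lit 0) (XT.lf (nat_lit 0) (nat_lit 39280244859) (nat_lit 456) (nat_lit 43476770559) (nat_lit 532) (nat_lit 8806691959) (nat_lit 171) (nat_lit 5) (nat_lit 177) (nat_lit 5) (nat_lit 178) (nat_lit 5) (nat_lit 372) (nat_lit 354) (nat_lit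 174)) (XT.lf (nat_lit 0) (nat_lit 10130078917) (nat_lit 532) (nat_lit 66329619241) (nat_lit 76) (nat_lit 17768808201) (nat_lit 164) (nat_lit 5) (nat_lit 171) (nat_lit 5) (nat_lit 165) (nat_lit 5) (nat_lit 373) (nat_lit 354) (nat_lit 173)))) (XT.nd (nat_lit 78) (nat_lit 456) (nat_lit 0) (XT.lf (nat_lit 0) (nat_lit 15949583604) (nat_lit 456) (nat_lit 15018355425) (nat_lit 532) (nat_lit 66021899330) (nat_lit 158) (nat_lit 5) (nat_lit 164) (nat_lit 5) (nat_lit 165) (nat_lit 5) (nat_lit 374) (nat_lit 354) (nat_lit 172)) (XT.nd (nat_lit 78) (nat_lit 0) (nat_lit 0) (XT.lf (nat_lit 0) (nat_lit 3443615366) (nat_lit 456) (nat_lit 50601569660) (nat_lit 532) (nat_lit 45808127639) (nat_lit 152) (nat_lit 5) (nat_lit 158) (nat_lit 5) (nat_lit 159) (nat_lit 5) (nat_lit 375) (nat_lit 354) (nat_lit 171)) (XT.lf (nat_lit 0) (nat_lit 79398420169) (nat_lit 532) (nat_lit 9279685156) (nat_lit 76) (nat_lit 14148192025)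 (nat_lit 152) (nat_lit 5) (nat_lit 159) (nat_lit 5) (nat_lit 153) (nat_lit 5) (nat_lit 376) (nat_lit 354) (nat_lit 170))))))) (XT.nd (nat_lit 45552) (nat_lit 0) (nat_lit 5168) (XT.nd (nat_lit 468) (nat_lit 304) (nat_lit 0) (XT.nd (nat_lit 234) (nat_lit 1140) (nat_lit 0) (XT.nd (nat_lit 78) (nat_lit 836) (nat_lit 0) (XT.lf (nat_lit 0) (nat_lit 1393761327) (nat_lit 456) (nat_lit 22601360151) (nat_lit 76) (nat_lit 81913076582) (nat_lit 146) (nat_lit 5) (nat_lit 152) (nat_lit 5) (nat_lit 147) (nat_lit 5) (nat_lit 377) (nat_lit 354) (nat_lit 169)) (XT.nd (nat_lit 78) (nat_lit 380) (nat_lit 0) (XT.lf (nat_lit 0) (nat_lit 28203886251) (nat_lit 532) (nat_lit 36789123184) (nat_lit 76) (nat_lit 44107268139) (nat_lit 140) (nat_lit 5) (nat_lit 147) (nat_lit 5) (nat_lit 141) (nat_lit 5) (nat_lit 378) (nat_lit 354) (nat_lit 168)) (XT.lf (nat_lit 0) (nat_lit 57450513270) (nat_lit 456) (nat_lit 51513733845)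 (nat_lit 76) (nat_lit 3454834469) (nat_lit 135) (nat_lit 5) (nat_lit 141) (nat_lit 5) (nat_lit 136) (nat_lit 5) (nat_lit 379) (nat_lit 354) (nat_lit 167)))) (XT.nd (nat_lit 78) (nat_lit 760) (nat_lit 0) (XT.lf (nat_lit 0) (nat_lit 48649403762) (nat_lit 380) (nat_lit 41015371158) (nat_lit 456) (nat_lit 26193892148) (nat_lit 130) (nat_lit 5) (nat_lit 135) (nat_lit 5) (nat_lit 136) (nat_lit 5) (nat_lit 380) (nat_lit 354) (nat_lit 166)) (XT.nd (nat_lit 78) (nat_lit 380) (nat_lit 0) (XT.lf (nat_lit 0) (nat_lit 5123562441) (nat_lit 380) (nat_lit 83640866118) (nat_lit 76) (nat_lit 30669170076) (nat_lit 125) (nat_lit 5) (nat_lit 130) (nat_lit 5) (nat_lit 126) (nat_lit 5) (nat_lit 381) (nat_lit 354) (nat_lit 165)) (XT.lf (nat_lit 0) (nat_lit 21924376692) (nat_lit 380) (nat_lit 16868506978) (nat_lit 456) (nat_lit 84346781363) (nat_lit 120) (nat_lit 5) (nat_lit 125) (nat_lit 5) (nat_lit 126) (nat_lit 5)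 (nat_lit 382) (nat_lit 354) (nat_lit 164))))) (XT.nd (nat_lit 44850) (nat_lit 0) (nat_lit 8284) (XT.nd (nat_lit 44694) (nat_lit 0) (nat_lit 8132) (XT.lf (nat_lit 0) (nat_lit 7075546561) (nat_lit 304) (nat_lit 68570458036) (nat_lit 380) (nat_lit 51340020457) (nat_lit 116) (nat_lit 5) (nat_lit 120) (nat_lit 5) (nat_lit 121) (nat_lit 5) (nat_lit 383) (nat_lit 354) (nat_lit 163)) (XT.nd (nat_lit 78) (nat_lit 0) (nat_lit 76) (XT.lf (nat_lit 0) (nat_lit 805553357) (nat_lit 1292) (nat_lit 14513652504) (nat_lit 1292) (nat_lit 14513652504) (nat_lit 223) (nat_lit 3) (nat_lit 240) (nat_lit 3) (nat_lit 240) (nat_lit 5) (nat_lit 355) (nat_lit 355) (nat_lit 190)) (XT.lf (nat_lit 0) (nat_lit 2016854454) (nat_lit 1216) (nat_lit 42911688822) (nat_lit 1292) (nat_lit 16217833579) (nat_lit 224) (nat_lit 5) (nat_lit 240) (nat_lit 5) (nat_lit 241) (nat_lit 5) (nat_lit 356) (nat_lit 355) (nat_lit 189)))) (XT.nd (nat_lit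 78) (nat_lit 0) (nat_lit 0) (XT.lf (nat_lit 0) (nat_lit 3129228982) (nat_lit 1216) (nat_lit 57135196360) (nat_lit 1292) (nat_lit 2416055658) (nat_lit 225) (nat_lit 5) (nat_lit 241) (nat_lit 5) (nat_lit 242) (nat_lit 5) (nat_lit 357) (nat_lit 355) (nat_lit 188)) (XT.nd (nat_lit 78) (nat_lit 0) (nat_lit 76) (XT.lf (nat_lit 0) (nat_lit 5194999902) (nat_lit 1216) (nat_lit 7415147756) (nat_lit 1292) (nat_lit 51654210504) (nat_lit 225) (nat_lit 5) (nat_lit 241) (nat_lit 5) (nat_lit 242) (nat_lit 5) (nat_lit 358) (nat_lit 355) (nat_lit 187)) (XT.lf (nat_lit 0) (nat_lit 8165577063) (nat_lit 1216) (nat_lit 20597166971) (nat_lit 1292) (nat_lit 37140640701) (nat_lit 226) (nat_lit 5) (nat_lit 242) (nat_lit 5) (nat_lit 243) (nat_lit 5) (nat_lit 359) (nat_lit 355) (nat_lit 186)))))) (XT.nd (nat_lit 468) (nat_lit 3268) (nat_lit 0) (XT.nd (nat_lit 234) (nat_lit 0) (nat_lit 152) (XT.nd (nat_lit 78) (nat_lit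 0) (nat_lit 76) (XT.lf (nat_lit 0) (nat_lit 12022245126) (nat_lit 1216) (nat_lit 34093669831) (nat_lit 1292) (nat_lit 21486321854) (nat_lit 227) (nat_lit 5) (nat_lit 243) (nat_lit 5) (nat_lit 244) (nat_lit 5) (nat_lit 360) (nat_lit 355) (nat_lit 185)) (XT.nd (nat_lit 78) (nat_lit 0) (nat_lit 0) (XT.lf (nat_lit 0) (nat_lit 16826573878) (nat_lit 1216) (nat_lit 47913765784) (nat_lit 1292) (nat_lit 4623047993) (nat_lit 228) (nat_lit 5) (nat_lit 244) (nat_lit 5) (nat_lit 245) (nat_lit 5) (nat_lit 361) (nat_lit 355) (nat_lit 184)) (XT.lf (nat_lit 76) (nat_lit 8985766750) (nat_lit 0) (nat_lit 13790125442) (nat_lit 1292) (nat_lit 48409561593) (nat_lit 229) (nat_lit 5) (nat_lit 228) (nat_lit 5) (nat_lit 245) (nat_lit 5) (nat_lit 362) (nat_lit 355) (nat_lit 183)))) (XT.nd (nat_lit 78) (nat_lit 0) (nat_lit 76) (XT.lf (nat_lit 0) (nat_lit 29901046349) (nat_lit 1216) (nat_lit 3739998916) (nat_lit 1292) (nat_lit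 39431227753) (nat_lit 229) (nat_lit 5) (nat_lit 245) (nat_lit 5) (nat_lit 246) (nat_lit 5) (nat_lit 363) (nat_lit 355) (nat_lit 182)) (XT.nd (nat_lit 78) (nat_lit 0) (nat_lit 0) (XT.lf (nat_lit 0) (nat_lit 38281687836) (nat_lit 1216) (nat_lit 16583226307) (nat_lit 1292) (nat_lit 20161543029) (nat_lit 230) (nat_lit 5) (nat_lit 246) (nat_lit 5) (nat_lit 247) (nat_lit 5) (nat_lit 364) (nat_lit 355) (nat_lit 181)) (XT.lf (nat_lit 76) (nat_lit 47318929535) (nat_lit 0) (nat_lit 594407725) (nat_lit 1292) (nat_lit 29140054811) (nat_lit 231) (nat_lit 5) (nat_lit 230) (nat_lit 5) (nat_lit 247) (nat_lit 5) (nat_lit 365) (nat_lit 355) (nat_lit 180))))) (XT.nd (nat_lit 234) (nat_lit 1140) (nat_lit 0) (XT.nd (nat_lit 78) (nat_lit 1216) (nat_lit 0) (XT.lf (nat_lit 0) (nat_lit 35738735365) (nat_lit 1216) (nat_lit 23344571025) (nat_lit 1292) (nat_lit 20066665977) (nat_lit 215) (nat_lit 5) (nat_lit 231) (nat_lit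 5) (nat_lit 232) (nat_lit 5) (nat_lit 366) (nat_lit 355) (nat_lit 179)) (XT.nd (nat_lit 78) (nat_lit 608) (nat_lit 0) (XT.lf (nat_lit 0) (nat_lit 23897430595) (nat_lit 608) (nat_lit 47781493060) (nat_lit 684) (nat_lit 9646444267) (nat_lit 207) (nat_lit 5) (nat_lit 215) (nat_lit 5) (nat_lit 216) (nat_lit 5) (nat_lit 367) (nat_lit 355) (nat_lit 178)) (XT.lf (nat_lit 0) (nat_lit 2163407071) (nat_lit 608) (nat_lit 71818862751) (nat_lit 76) (nat_lit 9600074188) (nat_lit 199) (nat_lit 5) (nat_lit 207) (nat_lit 5) (nat_lit 200) (nat_lit 5) (nat_lit 368) (nat_lit 355) (nat_lit 177)))) (XT.nd (nat_lit 78) (nat_lit 1140) (nat_lit 0) (XT.lf (nat_lit 0) (nat_lit 15444270846) (nat_lit 608) (nat_lit 906473929) (nat_lit 76) (nat_lit 69566158799) (nat_lit 199) (nat_lit 5) (nat_lit 207) (nat_lit 5) (nat_lit 200) (nat_lit 5) (nat_lit 369) (nat_lit 355) (nat_lit 176)) (XT.nd (nat_lit 78) (nat_lit 532) (nat_lit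 0) (XT.lf (nat_lit 0) (nat_lit 30540845133) (nat_lit 684) (nat_lit 13763959687) (nat_lit 76) (nat_lit 44028836892) (nat_lit 191) (nat_lit 5) (nat_lit 200) (nat_lit 5) (nat_lit 192) (nat_lit 5) (nat_lit 370) (nat_lit 355) (nat_lit 175)) (XT.lf (nat_lit 0) (nat_lit 47343539430) (nat_lit 608) (nat_lit 26958356262) (nat_lit 76) (nat_lit 16540782913) (nat_lit 184) (nat_lit 5) (nat_lit 192) (nat_lit 5) (nat_lit 185) (nat_lit 5) (nat_lit 371) (nat_lit 355) (nat_lit 174))))))))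
noncomputable def xc122 : XT := (XT.nd (nat_lit 46488) (nat_lit 0) (nat_lit 380) (XT.nd (nat_lit 858) (nat_lit 380) (nat_lit 0) (XT.nd (nat_lit 390) (nat_lit 2052) (nat_lit 0) (XT.nd (nat_lit 156) (nat_lit 1444) (nat_lit 0) (XT.nd (nat_lit 78) (nat_lit 456) (nat_lit 0) (XT.lf (nat_lit 0) (nat_lit 52810623634) (nat_lit 532) (nat_lit 13272671833) (nat_lit 608) (nat_lit 27360964625) (nat_lit 177) (nat_lit 5) (nat_lit 184) (nat_lit 5) (nat_lit 185) (nat_lit 5) (nat_lit 372) (nat_lit 355) (nat_lit 173)) (XT.lf (nat_lit 0) (nat_lit 41277080375) (nat_lit 456) (nat_lit 45647443301) (nat_lit 532) (nat_lit 9216462978) (nat_lit 171) (nat_lit 5) (nat_lit 177) (nat_lit 5) (nat_lit 178) (nat_lit 5) (nat_lit 373) (nat_lit 355) (nat_lit 172))) (XT.nd (nat_lit 78) (nat_lit 912) (nat_lit 0) (XT.lf (nat_lit 0) (nat_lit 10665470062) (nat_lit 532) (nat_lit 69612777195) (nat_lit 76) (nat_lit 18660802669) (nat_lit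 164) (nat_lit 5) (nat_lit 171) (nat_lit 5) (nat_lit 165) (nat_lit 5) (nat_lit 374) (nat_lit 355) (nat_lit 171)) (XT.nd (nat_lit 78) (nat_lit 456) (nat_lit 0) (XT.lf (nat_lit 0) (nat_lit 16779430594) (nat_lit 456) (nat_lit 15764728144) (nat_lit 532) (nat_lit 69294322442) (nat_lit 158) (nat_lit 5) (nat_lit 164) (nat_lit 5) (nat_lit 165) (nat_lit 5) (nat_lit 375) (nat_lit 355) (nat_lit 170)) (XT.lf (nat_lit 0) (nat_lit 3648018447) (nat_lit 456) (nat_lit 53126275045) (nat_lit 532) (nat_lit 48070865602) (nat_lit 152) (nat_lit 5) (nat_lit 158) (nat_lit 5) (nat_lit 159) (nat_lit 5) (nat_lit 376) (nat_lit 355) (nat_lit 169))))) (XT.nd (nat_lit 234) (nat_lit 1140) (nat_lit 0) (XT.nd (nat_lit 78) (nat_lit 912) (nat_lit 0) (XT.lf (nat_lit 0) (nat_lit 83393961048) (nat_lit 532) (nat_lit 9712250492) (nat_lit 76) (nat_lit 14860619007) (nat_lit 152) (nat_lit 5) (nat_lit 159) (nat_lit 5) (nat_lit 153) (nat_lit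 5) (nat_lit 377) (nat_lit 355) (nat_lit 168)) (XT.nd (nat_lit 78) (nat_lit 456) (nat_lit 0) (XT.lf (nat_lit 0) (nat_lit 1488399326) (nat_lit 456) (nat_lit 23700401214) (nat_lit 76) (nat_lit 86014046837) (nat_lit 146) (nat_lit 5) (nat_lit 152) (nat_lit 5) (nat_lit 147) (nat_lit 5) (nat_lit 378) (nat_lit 355) (nat_lit 167)) (XT.lf (nat_lit 0) (nat_lit 29638190608) (nat_lit 532) (nat_lit 38597767223) (nat_lit 76) (nat_lit 46318598808) (nat_lit 140) (nat_lit 5) (nat_lit 147) (nat_lit 5) (nat_lit 141) (nat_lit 5) (nat_lit 379) (nat_lit 355) (nat_lit 166)))) (XT.nd (nat_lit 78) (nat_lit 760) (nat_lit 0) (XT.lf (nat_lit 0) (nat_lit 60346352780) (nat_lit 456) (nat_lit 54058847391) (nat_lit 76) (nat_lit 3634125112) (nat_lit 135) (nat_lit 5) (nat_lit 141) (nat_lit 5) (nat_lit 136) (nat_lit 5) (nat_lit 380) (nat_lit 355) (nat_lit 165)) (XT.nd (nat_lit 78) (nat_lit 380) (nat_lit 0) (XT.lf (nat_lit 0) (nat_lit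 51111570723) (nat_lit 380) (nat_lit 43058932071) (nat_lit 456) (nat_lit 27480412512) (nat_lit 130) (nat_lit 5) (nat_lit 135) (nat_lit 5) (nat_lit 136) (nat_lit 5) (nat_lit 381) (nat_lit 355) (nat_lit 164)) (XT.lf (nat_lit 0) (nat_lit 5401733064) (nat_lit 380) (nat_lit 87793018375) (nat_lit 76) (nat_lit 32209857698) (nat_lit 125) (nat_lit 5) (nat_lit 130) (nat_lit 5) (nat_lit 126) (nat_lit 5) (nat_lit 382) (nat_lit 355) (nat_lit 163)))))) (XT.nd (nat_lit 45162) (nat_lit 0) (nat_lit 8132) (XT.nd (nat_lit 44928) (nat_lit 0) (nat_lit 7980) (XT.nd (nat_lit 44772) (nat_lit 0) (nat_lit 7828) (XT.lf (nat_lit 0) (nat_lit 23049629755) (nat_lit 380) (nat_lit 17704122432) (nat_lit 456) (nat_lit 88542250172) (nat_lit 120) (nat_lit 5) (nat_lit 125) (nat_lit 5) (nat_lit 126) (nat_lit 5) (nat_lit 383) (nat_lit 355) (nat_lit 162)) (XT.nd (nat_lit 78) (nat_lit 0) (nat_lit 76) (XT.lf (nat_lit 0) (nat_lit 874983145)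 (nat_lit 1292) (nat_lit 15224312587) (nat_lit 1292) (nat_lit 15224312587) (nat_lit 223) (nat_lit 3) (nat_lit 240) (nat_lit 3) (nat_lit 240) (nat_lit 5) (nat_lit 356) (nat_lit 356) (nat_lit 188)) (XT.lf (nat_lit 0) (nat_lit 2173249627) (nat_lit 1216) (nat_lit 45026124184) (nat_lit 1292) (nat_lit 17002620265) (nat_lit 224) (nat_lit 5) (nat_lit 240) (nat_lit 5) (nat_lit 241) (nat_lit 5) (nat_lit 357) (nat_lit 356) (nat_lit 187)))) (XT.nd (nat_lit 78) (nat_lit 0) (nat_lit 0) (XT.lf (nat_lit 0) (nat_lit 3338667838) (nat_lit 1216) (nat_lit 59959850133) (nat_lit 1292) (nat_lit 2514364377) (nat_lit 225) (nat_lit 5) (nat_lit 241) (nat_lit 5) (nat_lit 242) (nat_lit 5) (nat_lit 358) (nat_lit 356) (nat_lit 186)) (XT.nd (nat_lit 78) (nat_lit 0) (nat_lit 76) (XT.lf (nat_lit 0) (nat_lit 5505204570) (nat_lit 1216) (nat_lit 7755327958) (nat_lit 1292) (nat_lit 54215498111) (nat_lit 225) (nat_lit 5) (nat_lit 241)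 (nat_lit 5) (nat_lit 242) (nat_lit 5) (nat_lit 359) (nat_lit 356) (nat_lit 185)) (XT.lf (nat_lit 0) (nat_lit 8622014338) (nat_lit 1216) (nat_lit 21595665071) (nat_lit 1292) (nat_lit 38979399534) (nat_lit 226) (nat_lit 5) (nat_lit 242) (nat_lit 5) (nat_lit 243) (nat_lit 5) (nat_lit 360) (nat_lit 356) (nat_lit 184))))) (XT.nd (nat_lit 234) (nat_lit 0) (nat_lit 152) (XT.nd (nat_lit 78) (nat_lit 0) (nat_lit 76) (XT.lf (nat_lit 0) (nat_lit 12669364473) (nat_lit 1216) (nat_lit 35766327550) (nat_lit 1292) (nat_lit 22545247582) (nat_lit 227) (nat_lit 5) (nat_lit 243) (nat_lit 5) (nat_lit 244) (nat_lit 5) (nat_lit 361) (nat_lit 356) (nat_lit 183)) (XT.nd (nat_lit 78) (nat_lit 0) (nat_lit 0) (XT.lf (nat_lit 0) (nat_lit 17711892839) (nat_lit 1216) (nat_lit 50276870356) (nat_lit 1292) (nat_lit 4841446674) (nat_lit 228) (nat_lit 5) (nat_lit 244) (nat_lit 5) (nat_lit 245) (nat_lit 5) (nat_lit 362) (nat_lit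 356) (nat_lit 182)) (XT.lf (nat_lit 76) (nat_lit 9466704799) (nat_lit 0) (nat_lit 14490181731) (nat_lit 1292) (nat_lit 50786547799) (nat_lit 229) (nat_lit 5) (nat_lit 228) (nat_lit 5) (nat_lit 245) (nat_lit 5) (nat_lit 363) (nat_lit 356) (nat_lit 181)))) (XT.nd (nat_lit 78) (nat_lit 0) (nat_lit 76) (XT.lf (nat_lit 0) (nat_lit 31436192300) (nat_lit 1216) (nat_lit 3895529081) (nat_lit 1292) (nat_lit 41392937571) (nat_lit 229) (nat_lit 5) (nat_lit 245) (nat_lit 5) (nat_lit 246) (nat_lit 5) (nat_lit 364) (nat_lit 356) (nat_lit 180)) (XT.nd (nat_lit 78) (nat_lit 0) (nat_lit 0) (XT.lf (nat_lit 0) (nat_lit 40234174436) (nat_lit 1216) (nat_lit 17380565806) (nat_lit 1292) (nat_lit 21161864001) (nat_lit 230) (nat_lit 5) (nat_lit 246) (nat_lit 5) (nat_lit 247) (nat_lit 5) (nat_lit 365) (nat_lit 356) (nat_lit 179)) (XT.lf (nat_lit 76) (nat_lit 49715785662) (nat_lit 0) (nat_lit 630089115) (nat_lit 1292)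 (nat_lit 30559058185) (nat_lit 231) (nat_lit 5) (nat_lit 230) (nat_lit 5) (nat_lit 247) (nat_lit 5) (nat_lit 366) (nat_lit 356) (nat_lit 178))))))) (XT.nd (nat_lit 936) (nat_lit 2052) (nat_lit 0) (XT.nd (nat_lit 468) (nat_lit 2432) (nat_lit 0) (XT.nd (nat_lit 234) (nat_lit 1140) (nat_lit 0) (XT.nd (nat_lit 78) (nat_lit 1216) (nat_lit 0) (XT.lf (nat_lit 0) (nat_lit 37556847781) (nat_lit 1216) (nat_lit 24515983944) (nat_lit 1292) (nat_lit 21033556943) (nat_lit 215) (nat_lit 5) (nat_lit 231) (nat_lit 5) (nat_lit 232) (nat_lit 5) (nat_lit 367) (nat_lit 356) (nat_lit 177)) (XT.nd (nat_lit 78) (nat_lit 608) (nat_lit 0) (XT.lf (nat_lit 0) (nat_lit 25123674490) (nat_lit 608) (nat_lit 50173134815) (nat_lit 684) (nat_lit 10093788337) (nat_lit 207) (nat_lit 5) (nat_lit 215) (nat_lit 5) (nat_lit 216) (nat_lit 5) (nat_lit 368) (nat_lit 356) (nat_lit 176)) (XT.lf (nat_lit 0) (nat_lit 2304522014) (nat_lit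 608) (nat_lit 75377625323) (nat_lit 76) (nat_lit 10078306587) (nat_lit 199) (nat_lit 5) (nat_lit 207) (nat_lit 5) (nat_lit 200) (nat_lit 5) (nat_lit 369) (nat_lit 356) (nat_lit 175)))) (XT.nd (nat_lit 78) (nat_lit 1140) (nat_lit 0) (XT.lf (nat_lit 0) (nat_lit 16247860188) (nat_lit 608) (nat_lit 921149468) (nat_lit 76) (nat_lit 73042779777) (nat_lit 199) (nat_lit 5) (nat_lit 207) (nat_lit 5) (nat_lit 200) (nat_lit 5) (nat_lit 370) (nat_lit 356) (nat_lit 174)) (XT.nd (nat_lit 78) (nat_lit 532) (nat_lit 0) (XT.lf (nat_lit 0) (nat_lit 32098051440) (nat_lit 684) (nat_lit 14421461987) (nat_lit 76) (nat_lit 46229888263) (nat_lit 191) (nat_lit 5) (nat_lit 200) (nat_lit 5) (nat_lit 192) (nat_lit 5) (nat_lit 371) (nat_lit 356) (nat_lit 173)) (XT.lf (nat_lit 0) (nat_lit 49739738381) (nat_lit 608) (nat_lit 28275579185) (nat_lit 76) (nat_lit 17368607943) (nat_lit 184) (nat_lit 5) (nat_lit 192) (nat_lit 5)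 (nat_lit 185) (nat_lit 5) (nat_lit 372) (nat_lit 356) (nat_lit 172))))) (XT.nd (nat_lit 234) (nat_lit 912) (nat_lit 0) (XT.nd (nat_lit 78) (nat_lit 988) (nat_lit 0) (XT.lf (nat_lit 0) (nat_lit 55480969843) (nat_lit 532) (nat_lit 13934416977) (nat_lit 608) (nat_lit 28700232890) (nat_lit 177) (nat_lit 5) (nat_lit 184) (nat_lit 5) (nat_lit 185) (nat_lit 5) (nat_lit 373) (nat_lit 356) (nat_lit 171)) (XT.nd (nat_lit 78) (nat_lit 532) (nat_lit 0) (XT.lf (nat_lit 0) (nat_lit 43370706071) (nat_lit 456) (nat_lit 47926944004) (nat_lit 532) (nat_lit 9649564059) (nat_lit 171) (nat_lit 5) (nat_lit 177) (nat_lit 5) (nat_lit 178) (nat_lit 5) (nat_lit 374) (nat_lit 356) (nat_lit 170)) (XT.lf (nat_lit 0) (nat_lit 11224945107) (nat_lit 532) (nat_lit 73063191105) (nat_lit 76) (nat_lit 19597066437) (nat_lit 164) (nat_lit 5) (nat_lit 171) (nat_lit 5) (nat_lit 165) (nat_lit 5) (nat_lit 375) (nat_lit 356) (nat_lit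 169)))) (XT.nd (nat_lit 78) (nat_lit 456) (nat_lit 0) (XT.lf (nat_lit 0) (nat_lit 17647760682) (nat_lit 456) (nat_lit 16548842055) (nat_lit 532) (nat_lit 72733032347) (nat_lit 158) (nat_lit 5) (nat_lit 164) (nat_lit 5) (nat_lit 165) (nat_lit 5) (nat_lit 376) (nat_lit 356) (nat_lit 168)) (XT.nd (nat_lit 78) (nat_lit 0) (nat_lit 0) (XT.lf (nat_lit 0) (nat_lit 3859645958) (nat_lit 456) (nat_lit 55777715239) (nat_lit 532) (nat_lit 50449312811) (nat_lit 152) (nat_lit 5) (nat_lit 158) (nat_lit 5) (nat_lit 159) (nat_lit 5) (nat_lit 377) (nat_lit 356) (nat_lit 167)) (XT.lf (nat_lit 0) (nat_lit 87586897079) (nat_lit 532) (nat_lit 10169365129) (nat_lit 76) (nat_lit 15608200869) (nat_lit 152) (nat_lit 5) (nat_lit 159) (nat_lit 5) (nat_lit 153) (nat_lit 5) (nat_lit 378) (nat_lit 356) (nat_lit 166)))))) (XT.nd (nat_lit 45240) (nat_lit 0) (nat_lit 7524) (XT.nd (nat_lit 234) (nat_lit 760) (nat_lit 0) (XT.nd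 (nat_lit 78) (nat_lit 836) (nat_lit 0) (XT.lf (nat_lit 0) (nat_lit 1585449617) (nat_lit 456) (nat_lit 24857278921) (nat_lit 76) (nat_lit 90319571334) (nat_lit 146) (nat_lit 5) (nat_lit 152) (nat_lit 5) (nat_lit 147) (nat_lit 5) (nat_lit 379) (nat_lit 356) (nat_lit 165)) (XT.nd (nat_lit 78) (nat_lit 380) (nat_lit 0) (XT.lf (nat_lit 0) (nat_lit 31141968660) (nat_lit 532) (nat_lit 40499708083) (nat_lit 76) (nat_lit 48639941231) (nat_lit 140) (nat_lit 5) (nat_lit 147) (nat_lit 5) (nat_lit 141) (nat_lit 5) (nat_lit 380) (nat_lit 356) (nat_lit 164)) (XT.lf (nat_lit 0) (nat_lit 63384816766) (nat_lit 456) (nat_lit 56734059016) (nat_lit 76) (nat_lit 3821771430) (nat_lit 135) (nat_lit 5) (nat_lit 141) (nat_lit 5) (nat_lit 136) (nat_lit 5) (nat_lit 381) (nat_lit 356) (nat_lit 163)))) (XT.nd (nat_lit 78) (nat_lit 380) (nat_lit 0) (XT.lf (nat_lit 0) (nat_lit 53694085107) (nat_lit 380) (nat_lit 45205341128)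 (nat_lit 456) (nat_lit 28833413416) (nat_lit 130) (nat_lit 5) (nat_lit 135) (nat_lit 5) (nat_lit 136) (nat_lit 5) (nat_lit 382) (nat_lit 356) (nat_lit 162)) (XT.nd (nat_lit 44850) (nat_lit 0) (nat_lit 7448) (XT.lf (nat_lit 0) (nat_lit 5691767564) (nat_lit 380) (nat_lit 92155557231) (nat_lit 76) (nat_lit 33826907606) (nat_lit 125) (nat_lit 5) (nat_lit 130) (nat_lit 5) (nat_lit 126) (nat_lit 5) (nat_lit 383) (nat_lit 356) (nat_lit 161)) (XT.lf (nat_lit 0) (nat_lit 945174135) (nat_lit 1292) (nat_lit 15971902328) (nat_lit 1292) (nat_lit 15971902328) (nat_lit 223) (nat_lit 3) (nat_lit 240) (nat_lit 3) (nat_lit 240) (nat_lit 5) (nat_lit 357) (nat_lit 357) (nat_lit 186))))) (XT.nd (nat_lit 234) (nat_lit 0) (nat_lit 152) (XT.nd (nat_lit 78) (nat_lit 0) (nat_lit 76) (XT.lf (nat_lit 0) (nat_lit 2332299818) (nat_lit 1216) (nat_lit 47249177260) (nat_lit 1292) (nat_lit 17829073280) (nat_lit 224) (nat_lit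 5) (nat_lit 240) (nat_lit 5) (nat_lit 241) (nat_lit 5) (nat_lit 358) (nat_lit 357) (nat_lit 185)) (XT.nd (nat_lit 78) (nat_lit 0) (nat_lit 0) (XT.lf (nat_lit 0) (nat_lit 3553653299) (nat_lit 1216) (nat_lit 62928721511) (nat_lit 1292) (nat_lit 2619679817) (nat_lit 225) (nat_lit 5) (nat_lit 241) (nat_lit 5) (nat_lit 242) (nat_lit 5) (nat_lit 359) (nat_lit 357) (nat_lit 184)) (XT.lf (nat_lit 0) (nat_lit 5826228674) (nat_lit 1216) (nat_lit 8115359948) (nat_lit 1292) (nat_lit 56906841799) (nat_lit 225) (nat_lit 5) (nat_lit 241) (nat_lit 5) (nat_lit 242) (nat_lit 5) (nat_lit 360) (nat_lit 357) (nat_lit 183)))) (XT.nd (nat_lit 78) (nat_lit 0) (nat_lit 76) (XT.lf (nat_lit 0) (nat_lit 9096796163) (nat_lit 1216) (nat_lit 22647003655) (nat_lit 1292) (nat_lit 40911795178) (nat_lit 226) (nat_lit 5) (nat_lit 242) (nat_lit 5) (nat_lit 243) (nat_lit 5) (nat_lit 361) (nat_lit 357) (nat_lit 182)) (XT.nd (nat_lit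 78) (nat_lit 0) (nat_lit 76) (XT.lf (nat_lit 0) (nat_lit 13344562483) (nat_lit 1216) (nat_lit 37525595607) (nat_lit 1292) (nat_lit 23658550446) (nat_lit 227) (nat_lit 5) (nat_lit 243) (nat_lit 5) (nat_lit 244) (nat_lit 5) (nat_lit 362) (nat_lit 357) (nat_lit 181)) (XT.lf (nat_lit 0) (nat_lit 18637387950) (nat_lit 1216) (nat_lit 52761159482) (nat_lit 1292) (nat_lit 5071951008) (nat_lit 228) (nat_lit 5) (nat_lit 244) (nat_lit 5) (nat_lit 245) (nat_lit 5) (nat_lit 363) (nat_lit 357) (nat_lit 180))))))))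
noncomputable def xc123 : XT := (XT.nd (nat_lit 46800) (nat_lit 0) (nat_lit 380) (XT.nd (nat_lit 936) (nat_lit 2736) (nat_lit 0) (XT.nd (nat_lit 468) (nat_lit 2736) (nat_lit 0) (XT.nd (nat_lit 234) (nat_lit 1596) (nat_lit 0) (XT.nd (nat_lit 78) (nat_lit 0) (nat_lit 76) (XT.lf (nat_lit 76) (nat_lit 9968747260) (nat_lit 0) (nat_lit 15224259995) (nat_lit 1292) (nat_lit 53286426777) (nat_lit 229) (nat_lit 5) (nat_lit 228) (nat_lit 5) (nat_lit 245) (nat_lit 5) (nat_lit 364) (nat_lit 357) (nat_lit 179)) (XT.nd (nat_lit 78) (nat_lit 0) (nat_lit 76) (XT.lf (nat_lit 0) (nat_lit 33044368023) (nat_lit 1216) (nat_lit 4061761516) (nat_lit 1292) (nat_lit 43453648785) (nat_lit 229) (nat_lit 5) (nat_lit 245) (nat_lit 5) (nat_lit 246) (nat_lit 5) (nat_lit 365) (nat_lit 357) (nat_lit 178)) (XT.lf (nat_lit 0) (nat_lit 42280715092) (nat_lit 1216) (nat_lit 18220730771) (nat_lit 1292) (nat_lit 22212922118) (nat_lit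 230) (nat_lit 5) (nat_lit 246) (nat_lit 5) (nat_lit 247) (nat_lit 5) (nat_lit 366) (nat_lit 357) (nat_lit 177)))) (XT.nd (nat_lit 78) (nat_lit 1748) (nat_lit 0) (XT.lf (nat_lit 76) (nat_lit 52229610909) (nat_lit 0) (nat_lit 667000376) (nat_lit 1292) (nat_lit 32052544550) (nat_lit 231) (nat_lit 5) (nat_lit 230) (nat_lit 5) (nat_lit 247) (nat_lit 5) (nat_lit 367) (nat_lit 357) (nat_lit 176)) (XT.nd (nat_lit 78) (nat_lit 608) (nat_lit 0) (XT.lf (nat_lit 0) (nat_lit 39462967402) (nat_lit 1216) (nat_lit 25745578486) (nat_lit 1292) (nat_lit 22052180520) (nat_lit 215) (nat_lit 5) (nat_lit 231) (nat_lit 5) (nat_lit 232) (nat_lit 5) (nat_lit 368) (nat_lit 357) (nat_lit 175)) (XT.lf (nat_lit 0) (nat_lit 26408313876) (nat_lit 608) (nat_lit 52684119993) (nat_lit 684) (nat_lit 10566751546) (nat_lit 207) (nat_lit 5) (nat_lit 215) (nat_lit 5) (nat_lit 216) (nat_lit 5) (nat_lit 369) (nat_lit 357) (nat_lit 174)))))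 (XT.nd (nat_lit 234) (nat_lit 1520) (nat_lit 0) (XT.nd (nat_lit 78) (nat_lit 608) (nat_lit 0) (XT.lf (nat_lit 0) (nat_lit 2449629829) (nat_lit 608) (nat_lit 79117317868) (nat_lit 76) (nat_lit 10580615286) (nat_lit 199) (nat_lit 5) (nat_lit 207) (nat_lit 5) (nat_lit 200) (nat_lit 5) (nat_lit 370) (nat_lit 357) (nat_lit 173)) (XT.nd (nat_lit 78) (nat_lit 608) (nat_lit 0) (XT.lf (nat_lit 0) (nat_lit 17088711973) (nat_lit 608) (nat_lit 939408159) (nat_lit 76) (nat_lit 76693388641) (nat_lit 199) (nat_lit 5) (nat_lit 207) (nat_lit 5) (nat_lit 200) (nat_lit 5) (nat_lit 371) (nat_lit 357) (nat_lit 172)) (XT.lf (nat_lit 0) (nat_lit 33730313694) (nat_lit 684) (nat_lit 15114693196) (nat_lit 76) (nat_lit 48541028506) (nat_lit 191) (nat_lit 5) (nat_lit 200) (nat_lit 5) (nat_lit 192) (nat_lit 5) (nat_lit 372) (nat_lit 357) (nat_lit 171)))) (XT.nd (nat_lit 78) (nat_lit 988) (nat_lit 0) (XT.lf (nat_lit 0) (nat_lit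 52253049091) (nat_lit 608) (nat_lit 29661516974) (nat_lit 76) (nat_lit 18237751160) (nat_lit 184) (nat_lit 5) (nat_lit 192) (nat_lit 5) (nat_lit 185) (nat_lit 5) (nat_lit 373) (nat_lit 357) (nat_lit 170)) (XT.nd (nat_lit 78) (nat_lit 456) (nat_lit 0) (XT.lf (nat_lit 0) (nat_lit 58282061444) (nat_lit 532) (nat_lit 14629424949) (nat_lit 608) (nat_lit 30109140257) (nat_lit 177) (nat_lit 5) (nat_lit 184) (nat_lit 5) (nat_lit 185) (nat_lit 5) (nat_lit 374) (nat_lit 357) (nat_lit 169)) (XT.lf (nat_lit 0) (nat_lit 45566245163) (nat_lit 456) (nat_lit 50320686705) (nat_lit 532) (nat_lit 10106897529) (nat_lit 171) (nat_lit 5) (nat_lit 177) (nat_lit 5) (nat_lit 178) (nat_lit 5) (nat_lit 375) (nat_lit 357) (nat_lit 168)))))) (XT.nd (nat_lit 468) (nat_lit 380) (nat_lit 0) (XT.nd (nat_lit 234) (nat_lit 912) (nat_lit 0) (XT.nd (nat_lit 78) (nat_lit 912) (nat_lit 0) (XT.lf (nat_lit 0) (nat_lit 11809957933)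 (nat_lit 532) (nat_lit 76688935740) (nat_lit 76) (nat_lit 20579843690) (nat_lit 164) (nat_lit 5) (nat_lit 171) (nat_lit 5) (nat_lit 165) (nat_lit 5) (nat_lit 376) (nat_lit 357) (nat_lit 167)) (XT.nd (nat_lit 78) (nat_lit 456) (nat_lit 0) (XT.lf (nat_lit 0) (nat_lit 18556777793) (nat_lit 456) (nat_lit 17372544933) (nat_lit 532) (nat_lit 76346095559) (nat_lit 158) (nat_lit 5) (nat_lit 164) (nat_lit 5) (nat_lit 165) (nat_lit 5) (nat_lit 377) (nat_lit 357) (nat_lit 166)) (XT.lf (nat_lit 0) (nat_lit 4079137632) (nat_lit 456) (nat_lit 58562180539) (nat_lit 532) (nat_lit 52949015575) (nat_lit 152) (nat_lit 5) (nat_lit 158) (nat_lit 5) (nat_lit 159) (nat_lit 5) (nat_lit 378) (nat_lit 357) (nat_lit 165)))) (XT.nd (nat_lit 78) (nat_lit 912) (nat_lit 0) (XT.lf (nat_lit 0) (nat_lit 91987319464) (nat_lit 532) (nat_lit 10651984962) (nat_lit 76) (nat_lit 16392738724) (nat_lit 152) (nat_lit 5) (nat_lit 159)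 (nat_lit 5) (nat_lit 153) (nat_lit 5) (nat_lit 379) (nat_lit 357) (nat_lit 164)) (XT.nd (nat_lit 78) (nat_lit 456) (nat_lit 0) (XT.lf (nat_lit 0) (nat_lit 1685248470) (nat_lit 456) (nat_lit 26074616922) (nat_lit 76) (nat_lit 94839923737) (nat_lit 146) (nat_lit 5) (nat_lit 152) (nat_lit 5) (nat_lit 147) (nat_lit 5) (nat_lit 380) (nat_lit 357) (nat_lit 163)) (XT.lf (nat_lit 0) (nat_lit 32718902486) (nat_lit 532) (nat_lit 42499344280) (nat_lit 76) (nat_lit 51076847574) (nat_lit 140) (nat_lit 5) (nat_lit 147) (nat_lit 5) (nat_lit 141) (nat_lit 5) (nat_lit 381) (nat_lit 357) (nat_lit 162))))) (XT.nd (nat_lit 45162) (nat_lit 0) (nat_lit 6840) (XT.nd (nat_lit 45006) (nat_lit 0) (nat_lit 6688) (XT.lf (nat_lit 0) (nat_lit 66573237964) (nat_lit 456) (nat_lit 59545609365) (nat_lit 76) (nat_lit 4018247813) (nat_lit 135) (nat_lit 5) (nat_lit 141) (nat_lit 5) (nat_lit 136) (nat_lit 5) (nat_lit 382) (nat_lit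 357) (nat_lit 161)) (XT.nd (nat_lit 78) (nat_lit 0) (nat_lit 76) (XT.lf (nat_lit 0) (nat_lit 1016416364) (nat_lit 1292) (nat_lit 16758138361) (nat_lit 1292) (nat_lit 16758138361) (nat_lit 223) (nat_lit 3) (nat_lit 240) (nat_lit 3) (nat_lit 240) (nat_lit 5) (nat_lit 358) (nat_lit 358) (nat_lit 184)) (XT.lf (nat_lit 0) (nat_lit 2494617948) (nat_lit 1216) (nat_lit 49586009699) (nat_lit 1292) (nat_lit 18699050302) (nat_lit 224) (nat_lit 5) (nat_lit 240) (nat_lit 5) (nat_lit 241) (nat_lit 5) (nat_lit 359) (nat_lit 358) (nat_lit 183)))) (XT.nd (nat_lit 78) (nat_lit 0) (nat_lit 0) (XT.lf (nat_lit 0) (nat_lit 3774920608) (nat_lit 1216) (nat_lit 66048743865) (nat_lit 1292) (nat_lit 2732157886) (nat_lit 225) (nat_lit 5) (nat_lit 241) (nat_lit 5) (nat_lit 242) (nat_lit 5) (nat_lit 360) (nat_lit 358) (nat_lit 182)) (XT.nd (nat_lit 78) (nat_lit 0) (nat_lit 76) (XT.lf (nat_lit 0) (nat_lit 6159049292) (nat_lit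 1216) (nat_lit 8495972019) (nat_lit 1292) (nat_lit 59734559202) (nat_lit 225) (nat_lit 5) (nat_lit 241) (nat_lit 5) (nat_lit 242) (nat_lit 5) (nat_lit 361) (nat_lit 358) (nat_lit 181)) (XT.lf (nat_lit 0) (nat_lit 9591256024) (nat_lit 1216) (nat_lit 23753553684) (nat_lit 1292) (nat_lit 42942351528) (nat_lit 226) (nat_lit 5) (nat_lit 242) (nat_lit 5) (nat_lit 243) (nat_lit 5) (nat_lit 362) (nat_lit 358) (nat_lit 180))))))) (XT.nd (nat_lit 936) (nat_lit 3344) (nat_lit 0) (XT.nd (nat_lit 468) (nat_lit 3268) (nat_lit 0) (XT.nd (nat_lit 234) (nat_lit 0) (nat_lit 152) (XT.nd (nat_lit 78) (nat_lit 0) (nat_lit 76) (XT.lf (nat_lit 0) (nat_lit 14049640755) (nat_lit 1216) (nat_lit 39375527705) (nat_lit 1292) (nat_lit 24828816277) (nat_lit 227) (nat_lit 5) (nat_lit 243) (nat_lit 5) (nat_lit 244) (nat_lit 5) (nat_lit 363) (nat_lit 358) (nat_lit 179)) (XT.nd (nat_lit 78) (nat_lit 0) (nat_lit 0) (XT.lf (nat_lit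 0) (nat_lit 19605448249) (nat_lit 1216) (nat_lit 55372410751) (nat_lit 1292) (nat_lit 5315056042) (nat_lit 228) (nat_lit 5) (nat_lit 244) (nat_lit 5) (nat_lit 245) (nat_lit 5) (nat_lit 364) (nat_lit 358) (nat_lit 178)) (XT.lf (nat_lit 76) (nat_lit 10493222919) (nat_lit 0) (nat_lit 15994152520) (nat_lit 1292) (nat_lit 55914967243) (nat_lit 229) (nat_lit 5) (nat_lit 228) (nat_lit 5) (nat_lit 245) (nat_lit 5) (nat_lit 365) (nat_lit 358) (nat_lit 177)))) (XT.nd (nat_lit 78) (nat_lit 0) (nat_lit 76) (XT.lf (nat_lit 0) (nat_lit 34729571556) (nat_lit 1216) (nat_lit 4238959325) (nat_lit 1292) (nat_lit 45618226313) (nat_lit 229) (nat_lit 5) (nat_lit 245) (nat_lit 5) (nat_lit 246) (nat_lit 5) (nat_lit 366) (nat_lit 358) (nat_lit 176)) (XT.nd (nat_lit 78) (nat_lit 0) (nat_lit 0) (XT.lf (nat_lit 0) (nat_lit 44426344438) (nat_lit 1216) (nat_lit 19105587423) (nat_lit 1292) (nat_lit 23317187196) (nat_lit 230)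 (nat_lit 5) (nat_lit 246) (nat_lit 5) (nat_lit 247) (nat_lit 5) (nat_lit 367) (nat_lit 358) (nat_lit 175)) (XT.lf (nat_lit 76) (nat_lit 54866520901) (nat_lit 0) (nat_lit 705254527) (nat_lit 1292) (nat_lit 33623909605) (nat_lit 231) (nat_lit 5) (nat_lit 230) (nat_lit 5) (nat_lit 247) (nat_lit 5) (nat_lit 368) (nat_lit 358) (nat_lit 174))))) (XT.nd (nat_lit 234) (nat_lit 1140) (nat_lit 0) (XT.nd (nat_lit 78) (nat_lit 1216) (nat_lit 0) (XT.lf (nat_lit 0) (nat_lit 41461764054) (nat_lit 1216) (nat_lit 27036299900) (nat_lit 1292) (nat_lit 23124808349) (nat_lit 215) (nat_lit 5) (nat_lit 231) (nat_lit 5) (nat_lit 232) (nat_lit 5) (nat_lit 369) (nat_lit 358) (nat_lit 173)) (XT.nd (nat_lit 78) (nat_lit 608) (nat_lit 0) (XT.lf (nat_lit 0) (nat_lit 27754539693) (nat_lit 608) (nat_lit 55320437954) (nat_lit 684) (nat_lit 11066312517) (nat_lit 207) (nat_lit 5) (nat_lit 215) (nat_lit 5) (nat_lit 216) (nat_lit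 5) (nat_lit 370) (nat_lit 358) (nat_lit 172)) (XT.lf (nat_lit 0) (nat_lit 2599214917) (nat_lit 608) (nat_lit 83046708731) (nat_lit 76) (nat_lit 11108188788) (nat_lit 199) (nat_lit 5) (nat_lit 207) (nat_lit 5) (nat_lit 200) (nat_lit 5) (nat_lit 371) (nat_lit 358) (nat_lit 171)))) (XT.nd (nat_lit 78) (nat_lit 1140) (nat_lit 0) (XT.lf (nat_lit 0) (nat_lit 17968960520) (nat_lit 608) (nat_lit 961164253) (nat_lit 76) (nat_lit 80526670205) (nat_lit 199) (nat_lit 5) (nat_lit 207) (nat_lit 5) (nat_lit 200) (nat_lit 5) (nat_lit 372) (nat_lit 358) (nat_lit 170)) (XT.nd (nat_lit 78) (nat_lit 532) (nat_lit 0) (XT.lf (nat_lit 0) (nat_lit 35441645418) (nat_lit 684) (nat_lit 15845174440) (nat_lit 76) (nat_lit 50967758688) (nat_lit 191) (nat_lit 5) (nat_lit 200) (nat_lit 5) (nat_lit 192) (nat_lit 5) (nat_lit 373) (nat_lit 358) (nat_lit 169)) (XT.lf (nat_lit 0) (nat_lit 54889577999) (nat_lit 608) (nat_lit 31119340061)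 (nat_lit 76) (nat_lit 19150285267) (nat_lit 184) (nat_lit 5) (nat_lit 192) (nat_lit 5) (nat_lit 185) (nat_lit 5) (nat_lit 374) (nat_lit 358) (nat_lit 168)))))) (XT.nd (nat_lit 468) (nat_lit 912) (nat_lit 0) (XT.nd (nat_lit 234) (nat_lit 912) (nat_lit 0) (XT.nd (nat_lit 78) (nat_lit 988) (nat_lit 0) (XT.lf (nat_lit 0) (nat_lit 61220693413) (nat_lit 532) (nat_lit 15359342567) (nat_lit 608) (nat_lit 31590919921) (nat_lit 177) (nat_lit 5) (nat_lit 184) (nat_lit 5) (nat_lit 185) (nat_lit 5) (nat_lit 375) (nat_lit 358) (nat_lit 167)) (XT.nd (nat_lit 78) (nat_lit 532) (nat_lit 0) (XT.lf (nat_lit 0) (nat_lit 47869050653) (nat_lit 456) (nat_lit 52834358681) (nat_lit 532) (nat_lit 10589435392) (nat_lit 171) (nat_lit 5) (nat_lit 177) (nat_lit 5) (nat_lit 178) (nat_lit 5) (nat_lit 376) (nat_lit 358) (nat_lit 166)) (XT.lf (nat_lit 0) (nat_lit 12422011903) (nat_lit 532) (nat_lit 80498516386) (nat_lit 76)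 (nat_lit 21611487967) (nat_lit 164) (nat_lit 5) (nat_lit 171) (nat_lit 5) (nat_lit 165) (nat_lit 5) (nat_lit 377) (nat_lit 358) (nat_lit 165)))) (XT.nd (nat_lit 78) (nat_lit 456) (nat_lit 0) (XT.lf (nat_lit 0) (nat_lit 19508770041) (nat_lit 456) (nat_lit 18237780592) (nat_lit 532) (nat_lit 80142004958) (nat_lit 158) (nat_lit 5) (nat_lit 164) (nat_lit 5) (nat_lit 165) (nat_lit 5) (nat_lit 378) (nat_lit 358) (nat_lit 164)) (XT.nd (nat_lit 78) (nat_lit 0) (nat_lit 0) (XT.lf (nat_lit 0) (nat_lit 4307139300) (nat_lit 456) (nat_lit 61486280078) (nat_lit 532) (nat_lit 55575819754) (nat_lit 152) (nat_lit 5) (nat_lit 158) (nat_lit 5) (nat_lit 159) (nat_lit 5) (nat_lit 379) (nat_lit 358) (nat_lit 163)) (XT.lf (nat_lit 0) (nat_lit 96605803379) (nat_lit 532) (nat_lit 11161138927) (nat_lit 76) (nat_lit 17216119707) (nat_lit 152) (nat_lit 5) (nat_lit 159) (nat_lit 5) (nat_lit 153) (nat_lit 5) (nat_lit 380)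 (nat_lit 358) (nat_lit 162))))) (XT.nd (nat_lit 45240) (nat_lit 0) (nat_lit 6384) (XT.nd (nat_lit 78) (nat_lit 456) (nat_lit 0) (XT.lf (nat_lit 0) (nat_lit 1788128917) (nat_lit 456) (nat_lit 27355194984) (nat_lit 76) (nat_lit 99585887122) (nat_lit 146) (nat_lit 5) (nat_lit 152) (nat_lit 5) (nat_lit 147) (nat_lit 5) (nat_lit 381) (nat_lit 358) (nat_lit 161)) (XT.nd (nat_lit 45084) (nat_lit 0) (nat_lit 6308) (XT.lf (nat_lit 0) (nat_lit 34372838896) (nat_lit 532) (nat_lit 44601319015) (nat_lit 76) (nat_lit 53635142816) (nat_lit 140) (nat_lit 5) (nat_lit 147) (nat_lit 5) (nat_lit 141) (nat_lit 5) (nat_lit 382) (nat_lit 358) (nat_lit 160)) (XT.lf (nat_lit 0) (nat_lit 1088990943) (nat_lit 1292) (nat_lit 17584835227) (nat_lit 1292) (nat_lit 17584835227) (nat_lit 223) (nat_lit 3) (nat_lit 240) (nat_lit 3) (nat_lit 240) (nat_lit 5) (nat_lit 359) (nat_lit 359) (nat_lit 182)))) (XT.nd (nat_lit 78) (nat_lit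 0) (nat_lit 76) (XT.lf (nat_lit 0) (nat_lit 2660802939) (nat_lit 1216) (nat_lit 52042066261) (nat_lit 1292) (nat_lit 19614522870) (nat_lit 224) (nat_lit 5) (nat_lit 240) (nat_lit 5) (nat_lit 241) (nat_lit 5) (nat_lit 360) (nat_lit 359) (nat_lit 181)) (XT.nd (nat_lit 78) (nat_lit 0) (nat_lit 0) (XT.lf (nat_lit 0) (nat_lit 4003199194) (nat_lit 1216) (nat_lit 69327223033) (nat_lit 1292) (nat_lit 2851980364) (nat_lit 225) (nat_lit 5) (nat_lit 241) (nat_lit 5) (nat_lit 242) (nat_lit 5) (nat_lit 361) (nat_lit 359) (nat_lit 180)) (XT.lf (nat_lit 0) (nat_lit 6504651811) (nat_lit 1216) (nat_lit 8897953454) (nat_lit 1292) (nat_lit 62705301051) (nat_lit 225) (nat_lit 5) (nat_lit 241) (nat_lit 5) (nat_lit 242) (nat_lit 5) (nat_lit 362) (nat_lit 359) (nat_lit 179))))))))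
noncomputable def xc124 : XT := (XT.nd (nat_lit 46956) (nat_lit 0) (nat_lit 0) (XT.nd (nat_lit 858) (nat_lit 3572) (nat_lit 0) (XT.nd (nat_lit 390) (nat_lit 2052) (nat_lit 0) (XT.nd (nat_lit 156) (nat_lit 0) (nat_lit 152) (XT.nd (nat_lit 78) (nat_lit 0) (nat_lit 76) (XT.lf (nat_lit 0) (nat_lit 10106755382) (nat_lit 1216) (nat_lit 24917829868) (nat_lit 1292) (nat_lit 45075833360) (nat_lit 226) (nat_lit 5) (nat_lit 242) (nat_lit 5) (nat_lit 243) (nat_lit 5) (nat_lit 363) (nat_lit 359) (nat_lit 178)) (XT.lf (nat_lit 0) (nat_lit 14786453992) (nat_lit 1216) (nat_lit 41320405966) (nat_lit 1292) (nat_lit 26058772564) (nat_lit 227) (nat_lit 5) (nat_lit 243) (nat_lit 5) (nat_lit 244) (nat_lit 5) (nat_lit 364) (nat_lit 359) (nat_lit 177))) (XT.nd (nat_lit 78) (nat_lit 0) (nat_lit 0) (XT.lf (nat_lit 0) (nat_lit 20618546876) (nat_lit 1216) (nat_lit 58116716818) (nat_lit 1292) (nat_lit 5571291823) (nat_lit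 228) (nat_lit 5) (nat_lit 244) (nat_lit 5) (nat_lit 245) (nat_lit 5) (nat_lit 365) (nat_lit 359) (nat_lit 176)) (XT.nd (nat_lit 78) (nat_lit 0) (nat_lit 76) (XT.lf (nat_lit 76) (nat_lit 11041501567) (nat_lit 0) (nat_lit 16801732731) (nat_lit 1292) (nat_lit 58678261299) (nat_lit 229) (nat_lit 5) (nat_lit 228) (nat_lit 5) (nat_lit 245) (nat_lit 5) (nat_lit 366) (nat_lit 359) (nat_lit 175)) (XT.lf (nat_lit 0) (nat_lit 36495968620) (nat_lit 1216) (nat_lit 4427424056) (nat_lit 1292) (nat_lit 47891786236) (nat_lit 229) (nat_lit 5) (nat_lit 245) (nat_lit 5) (nat_lit 246) (nat_lit 5) (nat_lit 367) (nat_lit 359) (nat_lit 174))))) (XT.nd (nat_lit 234) (nat_lit 1216) (nat_lit 0) (XT.nd (nat_lit 78) (nat_lit 1140) (nat_lit 0) (XT.lf (nat_lit 0) (nat_lit 46676317979) (nat_lit 1216) (nat_lit 20037120865) (nat_lit 1292) (nat_lit 24477258775) (nat_lit 230) (nat_lit 5) (nat_lit 246) (nat_lit 5) (nat_lit 247)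 (nat_lit 5) (nat_lit 368) (nat_lit 359) (nat_lit 173)) (XT.nd (nat_lit 78) (nat_lit 1140) (nat_lit 0) (XT.lf (nat_lit 76) (nat_lit 57632912203) (nat_lit 0) (nat_lit 744965446) (nat_lit 1292) (nat_lit 35276749374) (nat_lit 231) (nat_lit 5) (nat_lit 230) (nat_lit 5) (nat_lit 247) (nat_lit 5) (nat_lit 369) (nat_lit 359) (nat_lit 172)) (XT.lf (nat_lit 0) (nat_lit 43558116005) (nat_lit 1216) (nat_lit 28391237335) (nat_lit 1292) (nat_lit 24253854937) (nat_lit 215) (nat_lit 5) (nat_lit 231) (nat_lit 5) (nat_lit 232) (nat_lit 5) (nat_lit 370) (nat_lit 359) (nat_lit 171)))) (XT.nd (nat_lit 78) (nat_lit 608) (nat_lit 0) (XT.lf (nat_lit 0) (nat_lit 29165677220) (nat_lit 608) (nat_lit 58088375463) (nat_lit 684) (nat_lit 11593526913) (nat_lit 207) (nat_lit 5) (nat_lit 215) (nat_lit 5) (nat_lit 216) (nat_lit 5) (nat_lit 371) (nat_lit 359) (nat_lit 170)) (XT.nd (nat_lit 78) (nat_lit 0) (nat_lit 0) (XT.lf (nat_lit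 0) (nat_lit 2753759423) (nat_lit 608) (nat_lit 87175030535) (nat_lit 76) (nat_lit 11662276449) (nat_lit 199) (nat_lit 5) (nat_lit 207) (nat_lit 5) (nat_lit 200) (nat_lit 5) (nat_lit 372) (nat_lit 359) (nat_lit 169)) (XT.lf (nat_lit 0) (nat_lit 18890821651) (nat_lit 608) (nat_lit 986352338) (nat_lit 76) (nat_lit 84551744878) (nat_lit 199) (nat_lit 5) (nat_lit 207) (nat_lit 5) (nat_lit 200) (nat_lit 5) (nat_lit 373) (nat_lit 359) (nat_lit 168)))))) (XT.nd (nat_lit 468) (nat_lit 456) (nat_lit 0) (XT.nd (nat_lit 234) (nat_lit 1444) (nat_lit 0) (XT.nd (nat_lit 78) (nat_lit 1064) (nat_lit 0) (XT.lf (nat_lit 0) (nat_lit 37236236567) (nat_lit 684) (nat_lit 16614527570) (nat_lit 76) (nat_lit 53515855245) (nat_lit 191) (nat_lit 5) (nat_lit 200) (nat_lit 5) (nat_lit 192) (nat_lit 5) (nat_lit 374) (nat_lit 359) (nat_lit 167)) (XT.nd (nat_lit 78) (nat_lit 532) (nat_lit 0) (XT.lf (nat_lit 0) (nat_lit 57655713547)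 (nat_lit 608) (nat_lit 32652402064) (nat_lit 76) (nat_lit 20108385969) (nat_lit 184) (nat_lit 5) (nat_lit 192) (nat_lit 5) (nat_lit 185) (nat_lit 5) (nat_lit 375) (nat_lit 359) (nat_lit 166)) (XT.lf (nat_lit 0) (nat_lit 64303976516) (nat_lit 532) (nat_lit 16125900507) (nat_lit 608) (nat_lit 33148989863) (nat_lit 177) (nat_lit 5) (nat_lit 184) (nat_lit 5) (nat_lit 185) (nat_lit 5) (nat_lit 376) (nat_lit 359) (nat_lit 165)))) (XT.nd (nat_lit 78) (nat_lit 988) (nat_lit 0) (XT.lf (nat_lit 0) (nat_lit 50284719269) (nat_lit 456) (nat_lit 55473933887) (nat_lit 532) (nat_lit 11098220528) (nat_lit 171) (nat_lit 5) (nat_lit 177) (nat_lit 5) (nat_lit 178) (nat_lit 5) (nat_lit 377) (nat_lit 359) (nat_lit 164)) (XT.nd (nat_lit 78) (nat_lit 456) (nat_lit 0) (XT.lf (nat_lit 0) (nat_lit 13062664492) (nat_lit 532) (nat_lit 84500887882) (nat_lit 76) (nat_lit 22694467891) (nat_lit 164) (nat_lit 5) (nat_lit 171)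 (nat_lit 5) (nat_lit 165) (nat_lit 5) (nat_lit 378) (nat_lit 359) (nat_lit 163)) (XT.lf (nat_lit 0) (nat_lit 20506116351) (nat_lit 456) (nat_lit 19146593351) (nat_lit 532) (nat_lit 84129698966) (nat_lit 158) (nat_lit 5) (nat_lit 164) (nat_lit 5) (nat_lit 165) (nat_lit 5) (nat_lit 379) (nat_lit 359) (nat_lit 162))))) (XT.nd (nat_lit 45396) (nat_lit 0) (nat_lit 5472) (XT.nd (nat_lit 78) (nat_lit 0) (nat_lit 0) (XT.lf (nat_lit 0) (nat_lit 4544305595) (nat_lit 456) (nat_lit 64556957357) (nat_lit 532) (nat_lit 58335883667) (nat_lit 152) (nat_lit 5) (nat_lit 158) (nat_lit 5) (nat_lit 159) (nat_lit 5) (nat_lit 380) (nat_lit 359) (nat_lit 161)) (XT.nd (nat_lit 45240) (nat_lit 0) (nat_lit 5396) (XT.lf (nat_lit 0) (nat_lit 101453434085) (nat_lit 532) (nat_lit 11697930311) (nat_lit 76) (nat_lit 18080321653) (nat_lit 152) (nat_lit 5) (nat_lit 159) (nat_lit 5) (nat_lit 153) (nat_lit 5) (nat_lit 381) (nat_lit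 359) (nat_lit 160)) (XT.lf (nat_lit 0) (nat_lit 1163171793) (nat_lit 1292) (nat_lit 18453909141) (nat_lit 1292) (nat_lit 18453909141) (nat_lit 223) (nat_lit 3) (nat_lit 240) (nat_lit 3) (nat_lit 240) (nat_lit 5) (nat_lit 360) (nat_lit 360) (nat_lit 180)))) (XT.nd (nat_lit 78) (nat_lit 0) (nat_lit 76) (XT.lf (nat_lit 0) (nat_lit 2831443171) (nat_lit 1216) (nat_lit 54623086651) (nat_lit 1292) (nat_lit 20577580126) (nat_lit 224) (nat_lit 5) (nat_lit 240) (nat_lit 5) (nat_lit 241) (nat_lit 5) (nat_lit 361) (nat_lit 360) (nat_lit 179)) (XT.nd (nat_lit 78) (nat_lit 0) (nat_lit 0) (XT.lf (nat_lit 0) (nat_lit 4239216348) (nat_lit 1216) (nat_lit 72771853550) (nat_lit 1292) (nat_lit 2979354515) (nat_lit 225) (nat_lit 5) (nat_lit 241) (nat_lit 5) (nat_lit 242) (nat_lit 5) (nat_lit 362) (nat_lit 360) (nat_lit 178)) (XT.lf (nat_lit 0) (nat_lit 6864034110) (nat_lit 1216) (nat_lit 9322155284) (nat_lit 1292)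 (nat_lit 65826066229) (nat_lit 225) (nat_lit 5) (nat_lit 241) (nat_lit 5) (nat_lit 242) (nat_lit 5) (nat_lit 363) (nat_lit 360) (nat_lit 177))))))) (XT.nd (nat_lit 936) (nat_lit 2964) (nat_lit 0) (XT.nd (nat_lit 468) (nat_lit 2660) (nat_lit 0) (XT.nd (nat_lit 234) (nat_lit 0) (nat_lit 152) (XT.nd (nat_lit 78) (nat_lit 0) (nat_lit 76) (XT.lf (nat_lit 0) (nat_lit 10644688666) (nat_lit 1216) (nat_lit 26142495511) (nat_lit 1292) (nat_lit 47317257006) (nat_lit 226) (nat_lit 5) (nat_lit 242) (nat_lit 5) (nat_lit 243) (nat_lit 5) (nat_lit 364) (nat_lit 360) (nat_lit 176)) (XT.nd (nat_lit 78) (nat_lit 0) (nat_lit 76) (XT.lf (nat_lit 0) (nat_lit 15556916101) (nat_lit 1216) (nat_lit 43364749961) (nat_lit 1292) (nat_lit 27351294388) (nat_lit 227) (nat_lit 5) (nat_lit 243) (nat_lit 5) (nat_lit 244) (nat_lit 5) (nat_lit 365) (nat_lit 360) (nat_lit 175)) (XT.lf (nat_lit 0) (nat_lit 21679248564) (nat_lit 1216)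 (nat_lit 61000498716) (nat_lit 1292) (nat_lit 5841224195) (nat_lit 228) (nat_lit 5) (nat_lit 244) (nat_lit 5) (nat_lit 245) (nat_lit 5) (nat_lit 366) (nat_lit 360) (nat_lit 174)))) (XT.nd (nat_lit 78) (nat_lit 0) (nat_lit 76) (XT.lf (nat_lit 76) (nat_lit 11614998416) (nat_lit 0) (nat_lit 17648960035) (nat_lit 1292) (nat_lit 61582737352) (nat_lit 229) (nat_lit 5) (nat_lit 228) (nat_lit 5) (nat_lit 245) (nat_lit 5) (nat_lit 367) (nat_lit 360) (nat_lit 173)) (XT.nd (nat_lit 78) (nat_lit 0) (nat_lit 76) (XT.lf (nat_lit 0) (nat_lit 38347904001) (nat_lit 1216) (nat_lit 4627495273) (nat_lit 1292) (nat_lit 50279707617) (nat_lit 229) (nat_lit 5) (nat_lit 245) (nat_lit 5) (nat_lit 246) (nat_lit 5) (nat_lit 368) (nat_lit 360) (nat_lit 172)) (XT.lf (nat_lit 0) (nat_lit 49036126003) (nat_lit 1216) (nat_lit 21017438650) (nat_lit 1292) (nat_lit 25695872026) (nat_lit 230) (nat_lit 5) (nat_lit 246) (nat_lit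 5) (nat_lit 247) (nat_lit 5) (nat_lit 369) (nat_lit 360) (nat_lit 171))))) (XT.nd (nat_lit 234) (nat_lit 1216) (nat_lit 0) (XT.nd (nat_lit 78) (nat_lit 1748) (nat_lit 0) (XT.lf (nat_lit 76) (nat_lit 60535478681) (nat_lit 0) (nat_lit 786248359) (nat_lit 1292) (nat_lit 37014867376) (nat_lit 231) (nat_lit 5) (nat_lit 230) (nat_lit 5) (nat_lit 247) (nat_lit 5) (nat_lit 370) (nat_lit 360) (nat_lit 170)) (XT.nd (nat_lit 78) (nat_lit 608) (nat_lit 0) (XT.lf (nat_lit 0) (nat_lit 45757122710) (nat_lit 1216) (nat_lit 29813631347) (nat_lit 1292) (nat_lit 25441882079) (nat_lit 215) (nat_lit 5) (nat_lit 231) (nat_lit 5) (nat_lit 232) (nat_lit 5) (nat_lit 371) (nat_lit 360) (nat_lit 169)) (XT.lf (nat_lit 0) (nat_lit 30645195134) (nat_lit 608) (nat_lit 60994531752) (nat_lit 684) (nat_lit 12149528674) (nat_lit 207) (nat_lit 5) (nat_lit 215) (nat_lit 5) (nat_lit 216) (nat_lit 5) (nat_lit 372) (nat_lit 360) (nat_lit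 168)))) (XT.nd (nat_lit 78) (nat_lit 608) (nat_lit 0) (XT.lf (nat_lit 0) (nat_lit 2913745589) (nat_lit 608) (nat_lit 91512000989) (nat_lit 76) (nat_lit 12244191379) (nat_lit 199) (nat_lit 5) (nat_lit 207) (nat_lit 5) (nat_lit 200) (nat_lit 5) (nat_lit 373) (nat_lit 360) (nat_lit 167)) (XT.nd (nat_lit 78) (nat_lit 608) (nat_lit 0) (XT.lf (nat_lit 0) (nat_lit 19856599110) (nat_lit 608) (nat_lit 1014926076) (nat_lit 76) (nat_lit 88778190320) (nat_lit 199) (nat_lit 5) (nat_lit 207) (nat_lit 5) (nat_lit 200) (nat_lit 5) (nat_lit 374) (nat_lit 360) (nat_lit 166)) (XT.lf (nat_lit 0) (nat_lit 39118464612) (nat_lit 684) (nat_lit 17424477901) (nat_lit 76) (nat_lit 56191383720) (nat_lit 191) (nat_lit 5) (nat_lit 200) (nat_lit 5) (nat_lit 192) (nat_lit 5) (nat_lit 375) (nat_lit 360) (nat_lit 165)))))) (XT.nd (nat_lit 45708) (nat_lit 0) (nat_lit 5396) (XT.nd (nat_lit 234) (nat_lit 1444) (nat_lit 0) (XT.nd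 (nat_lit 78) (nat_lit 988) (nat_lit 0) (XT.lf (nat_lit 0) (nat_lit 60558142442) (nat_lit 608) (nat_lit 34264246658) (nat_lit 76) (nat_lit 21114337184) (nat_lit 184) (nat_lit 5) (nat_lit 192) (nat_lit 5) (nat_lit 185) (nat_lit 5) (nat_lit 376) (nat_lit 360) (nat_lit 164)) (XT.nd (nat_lit 78) (nat_lit 456) (nat_lit 0) (XT.lf (nat_lit 0) (nat_lit 67539355326) (nat_lit 532) (nat_lit 16930917357) (nat_lit 608) (nat_lit 34786959942) (nat_lit 177) (nat_lit 5) (nat_lit 184) (nat_lit 5) (nat_lit 185) (nat_lit 5) (nat_lit 377) (nat_lit 360) (nat_lit 163)) (XT.lf (nat_lit 0) (nat_lit 52819105875) (nat_lit 456) (nat_lit 58245687063) (nat_lit 532) (nat_lit 11634368167) (nat_lit 171) (nat_lit 5) (nat_lit 177) (nat_lit 5) (nat_lit 178) (nat_lit 5) (nat_lit 378) (nat_lit 360) (nat_lit 162)))) (XT.nd (nat_lit 78) (nat_lit 912) (nat_lit 0) (XT.lf (nat_lit 0) (nat_lit 13733531952) (nat_lit 532) (nat_lit 88705474840)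 (nat_lit 76) (nat_lit 23831373169) (nat_lit 164) (nat_lit 5) (nat_lit 171) (nat_lit 5) (nat_lit 165) (nat_lit 5) (nat_lit 379) (nat_lit 360) (nat_lit 161)) (XT.nd (nat_lit 78) (nat_lit 456) (nat_lit 0) (XT.lf (nat_lit 0) (nat_lit 21551293196) (nat_lit 456) (nat_lit 20101132751) (nat_lit 532) (nat_lit 88318581883) (nat_lit 158) (nat_lit 5) (nat_lit 164) (nat_lit 5) (nat_lit 165) (nat_lit 5) (nat_lit 380) (nat_lit 360) (nat_lit 160)) (XT.lf (nat_lit 0) (nat_lit 4791302579) (nat_lit 456) (nat_lit 67781506609) (nat_lit 532) (nat_lit 61235691842) (nat_lit 152) (nat_lit 5) (nat_lit 158) (nat_lit 5) (nat_lit 159) (nat_lit 5) (nat_lit 381) (nat_lit 360) (nat_lit 159))))) (XT.nd (nat_lit 234) (nat_lit 0) (nat_lit 152) (XT.nd (nat_lit 78) (nat_lit 0) (nat_lit 76) (XT.lf (nat_lit 0) (nat_lit 1239227256) (nat_lit 1292) (nat_lit 19367382060) (nat_lit 1292) (nat_lit 19367382060) (nat_lit 223) (nat_lit 3)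 (nat_lit 240) (nat_lit 3) (nat_lit 240) (nat_lit 5) (nat_lit 361) (nat_lit 361) (nat_lit 178)) (XT.nd (nat_lit 78) (nat_lit 0) (nat_lit 76) (XT.lf (nat_lit 0) (nat_lit 3007119715) (nat_lit 1216) (nat_lit 57335118151) (nat_lit 1292) (nat_lit 21590432931) (nat_lit 224) (nat_lit 5) (nat_lit 240) (nat_lit 5) (nat_lit 241) (nat_lit 5) (nat_lit 362) (nat_lit 361) (nat_lit 177)) (XT.lf (nat_lit 0) (nat_lit 4483700698) (nat_lit 1216) (nat_lit 76390735902) (nat_lit 1292) (nat_lit 3114512836) (nat_lit 225) (nat_lit 5) (nat_lit 241) (nat_lit 5) (nat_lit 242) (nat_lit 5) (nat_lit 363) (nat_lit 361) (nat_lit 176)))) (XT.nd (nat_lit 78) (nat_lit 0) (nat_lit 76) (XT.lf (nat_lit 0) (nat_lit 7238210608) (nat_lit 1216) (nat_lit 9769491309) (nat_lit 1292) (nat_lit 69104217727) (nat_lit 225) (nat_lit 5) (nat_lit 241) (nat_lit 5) (nat_lit 242) (nat_lit 5) (nat_lit 364) (nat_lit 361) (nat_lit 175)) (XT.nd (nat_lit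 78) (nat_lit 0) (nat_lit 76) (XT.lf (nat_lit 0) (nat_lit 11206488193) (nat_lit 1216) (nat_lit 27430367814) (nat_lit 1292) (nat_lit 49671901695) (nat_lit 226) (nat_lit 5) (nat_lit 242) (nat_lit 5) (nat_lit 243) (nat_lit 5) (nat_lit 365) (nat_lit 361) (nat_lit 174)) (XT.lf (nat_lit 0) (nat_lit 16363006269) (nat_lit 1216) (nat_lit 45513326413) (nat_lit 1292) (nat_lit 28709410758) (nat_lit 227) (nat_lit 5) (nat_lit 243) (nat_lit 5) (nat_lit 244) (nat_lit 5) (nat_lit 366) (nat_lit 361) (nat_lit 173))))))))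
noncomputable def xc125 : XT := (XT.nd (nat_lit 47190) (nat_lit 0) (nat_lit 988) (XT.nd (nat_lit 936) (nat_lit 1444) (nat_lit 0) (XT.nd (nat_lit 468) (nat_lit 2888) (nat_lit 0) (XT.nd (nat_lit 234) (nat_lit 988) (nat_lit 0) (XT.nd (nat_lit 78) (nat_lit 0) (nat_lit 0) (XT.lf (nat_lit 0) (nat_lit 22790217200) (nat_lit 1216) (nat_lit 64030520076) (nat_lit 1292) (nat_lit 6125455728) (nat_lit 228) (nat_lit 5) (nat_lit 244) (nat_lit 5) (nat_lit 245) (nat_lit 5) (nat_lit 367) (nat_lit 361) (nat_lit 172)) (XT.nd (nat_lit 78) (nat_lit 0) (nat_lit 76) (XT.lf (nat_lit 76) (nat_lit 12215178514) (nat_lit 0) (nat_lit 18537884832) (nat_lit 1292) (nat_lit 64635173982) (nat_lit 229) (nat_lit 5) (nat_lit 228) (nat_lit 5) (nat_lit 245) (nat_lit 5) (nat_lit 368) (nat_lit 361) (nat_lit 171)) (XT.lf (nat_lit 0) (nat_lit 40289913214) (nat_lit 1216) (nat_lit 4839550321) (nat_lit 1292) (nat_lit 52787644989) (nat_lit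 229) (nat_lit 5) (nat_lit 245) (nat_lit 5) (nat_lit 246) (nat_lit 5) (nat_lit 369) (nat_lit 361) (nat_lit 170)))) (XT.nd (nat_lit 78) (nat_lit 1140) (nat_lit 0) (XT.lf (nat_lit 0) (nat_lit 51511507928) (nat_lit 1216) (nat_lit 22048774748) (nat_lit 1292) (nat_lit 26975904006) (nat_lit 230) (nat_lit 5) (nat_lit 246) (nat_lit 5) (nat_lit 247) (nat_lit 5) (nat_lit 370) (nat_lit 361) (nat_lit 169)) (XT.nd (nat_lit 78) (nat_lit 1140) (nat_lit 0) (XT.lf (nat_lit 76) (nat_lit 63581228459) (nat_lit 0) (nat_lit 829220316) (nat_lit 1292) (nat_lit 38842282431) (nat_lit 231) (nat_lit 5) (nat_lit 230) (nat_lit 5) (nat_lit 247) (nat_lit 5) (nat_lit 371) (nat_lit 361) (nat_lit 168)) (XT.lf (nat_lit 0) (nat_lit 48064117989) (nat_lit 1216) (nat_lit 31306881753) (nat_lit 1292) (nat_lit 26691603752) (nat_lit 215) (nat_lit 5) (nat_lit 231) (nat_lit 5) (nat_lit 232) (nat_lit 5) (nat_lit 372) (nat_lit 361) (nat_lit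 167))))) (XT.nd (nat_lit 234) (nat_lit 1672) (nat_lit 0) (XT.nd (nat_lit 78) (nat_lit 608) (nat_lit 0) (XT.lf (nat_lit 0) (nat_lit 32196714802) (nat_lit 608) (nat_lit 64045834317) (nat_lit 684) (nat_lit 12735531562) (nat_lit 207) (nat_lit 5) (nat_lit 215) (nat_lit 5) (nat_lit 216) (nat_lit 5) (nat_lit 373) (nat_lit 361) (nat_lit 166)) (XT.nd (nat_lit 78) (nat_lit 0) (nat_lit 0) (XT.lf (nat_lit 0) (nat_lit 3079657989) (nat_lit 608) (nat_lit 96067844963) (nat_lit 76) (nat_lit 12855313517) (nat_lit 199) (nat_lit 5) (nat_lit 207) (nat_lit 5) (nat_lit 200) (nat_lit 5) (nat_lit 374) (nat_lit 361) (nat_lit 165)) (XT.lf (nat_lit 0) (nat_lit 20868691085) (nat_lit 608) (nat_lit 1046857070) (nat_lit 76) (nat_lit 93216064187) (nat_lit 199) (nat_lit 5) (nat_lit 207) (nat_lit 5) (nat_lit 200) (nat_lit 5) (nat_lit 375) (nat_lit 361) (nat_lit 164)))) (XT.nd (nat_lit 78) (nat_lit 1064) (nat_lit 0) (XT.lf (nat_lit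 0) (nat_lit 41092905953) (nat_lit 684) (nat_lit 18276857308) (nat_lit 76) (nat_lit 59000713189) (nat_lit 191) (nat_lit 5) (nat_lit 200) (nat_lit 5) (nat_lit 192) (nat_lit 5) (nat_lit 376) (nat_lit 361) (nat_lit 163)) (XT.nd (nat_lit 78) (nat_lit 532) (nat_lit 0) (XT.lf (nat_lit 0) (nat_lit 63603866542) (nat_lit 608) (nat_lit 35958614991) (nat_lit 76) (nat_lit 22170536508) (nat_lit 184) (nat_lit 5) (nat_lit 192) (nat_lit 5) (nat_lit 185) (nat_lit 5) (nat_lit 377) (nat_lit 361) (nat_lit 162)) (XT.lf (nat_lit 0) (nat_lit 70934626933) (nat_lit 532) (nat_lit 17776303883) (nat_lit 608) (nat_lit 36508639537) (nat_lit 177) (nat_lit 5) (nat_lit 184) (nat_lit 5) (nat_lit 185) (nat_lit 5) (nat_lit 378) (nat_lit 361) (nat_lit 161)))))) (XT.nd (nat_lit 45786) (nat_lit 0) (nat_lit 5092) (XT.nd (nat_lit 45552) (nat_lit 0) (nat_lit 4940) (XT.nd (nat_lit 78) (nat_lit 988) (nat_lit 0) (XT.lf (nat_lit 0) (nat_lit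 55478338395) (nat_lit 456) (nat_lit 61156208588) (nat_lit 532) (nat_lit 12199067631) (nat_lit 171) (nat_lit 5) (nat_lit 177) (nat_lit 5) (nat_lit 178) (nat_lit 5) (nat_lit 379) (nat_lit 361) (nat_lit 160)) (XT.nd (nat_lit 78) (nat_lit 456) (nat_lit 0) (XT.lf (nat_lit 0) (nat_lit 14436294023) (nat_lit 532) (nat_lit 93122193085) (nat_lit 76) (nat_lit 25024920859) (nat_lit 164) (nat_lit 5) (nat_lit 171) (nat_lit 5) (nat_lit 165) (nat_lit 5) (nat_lit 380) (nat_lit 361) (nat_lit 159)) (XT.lf (nat_lit 0) (nat_lit 22646881464) (nat_lit 456) (nat_lit 21103658534) (nat_lit 532) (nat_lit 92718545416) (nat_lit 158) (nat_lit 5) (nat_lit 164) (nat_lit 5) (nat_lit 165) (nat_lit 5) (nat_lit 381) (nat_lit 361) (nat_lit 158)))) (XT.nd (nat_lit 78) (nat_lit 0) (nat_lit 76) (XT.lf (nat_lit 0) (nat_lit 1317421610) (nat_lit 1292) (nat_lit 20327386049) (nat_lit 1292) (nat_lit 20327386049) (nat_lit 223) (nat_lit 3)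 (nat_lit 240) (nat_lit 3) (nat_lit 240) (nat_lit 5) (nat_lit 362) (nat_lit 362) (nat_lit 176)) (XT.nd (nat_lit 78) (nat_lit 0) (nat_lit 76) (XT.lf (nat_lit 0) (nat_lit 3188409384) (nat_lit 1216) (nat_lit 60184529086) (nat_lit 1292) (nat_lit 22655418341) (nat_lit 224) (nat_lit 5) (nat_lit 240) (nat_lit 5) (nat_lit 241) (nat_lit 5) (nat_lit 363) (nat_lit 362) (nat_lit 175)) (XT.lf (nat_lit 0) (nat_lit 4737385535) (nat_lit 1216) (nat_lit 80192394850) (nat_lit 1292) (nat_lit 3257712942) (nat_lit 225) (nat_lit 5) (nat_lit 241) (nat_lit 5) (nat_lit 242) (nat_lit 5) (nat_lit 364) (nat_lit 362) (nat_lit 174))))) (XT.nd (nat_lit 234) (nat_lit 0) (nat_lit 228) (XT.nd (nat_lit 78) (nat_lit 0) (nat_lit 76) (XT.lf (nat_lit 0) (nat_lit 7628216188) (nat_lit 1216) (nat_lit 10240939354) (nat_lit 1292) (nat_lit 72547499532) (nat_lit 225) (nat_lit 5) (nat_lit 241) (nat_lit 5) (nat_lit 242) (nat_lit 5) (nat_lit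 365) (nat_lit 362) (nat_lit 173)) (XT.nd (nat_lit 78) (nat_lit 0) (nat_lit 76) (XT.lf (nat_lit 0) (nat_lit 11793629014) (nat_lit 1216) (nat_lit 28784423645) (nat_lit 1292) (nat_lit 52145321577) (nat_lit 226) (nat_lit 5) (nat_lit 242) (nat_lit 5) (nat_lit 243) (nat_lit 5) (nat_lit 366) (nat_lit 362) (nat_lit 172)) (XT.lf (nat_lit 0) (nat_lit 17206775052) (nat_lit 1216) (nat_lit 47771159585) (nat_lit 1292) (nat_lit 30136311365) (nat_lit 227) (nat_lit 5) (nat_lit 243) (nat_lit 5) (nat_lit 244) (nat_lit 5) (nat_lit 367) (nat_lit 362) (nat_lit 171)))) (XT.nd (nat_lit 78) (nat_lit 0) (nat_lit 0) (XT.lf (nat_lit 0) (nat_lit 23954223487) (nat_lit 1216) (nat_lit 67213902247) (nat_lit 1292) (nat_lit 6424626766) (nat_lit 228) (nat_lit 5) (nat_lit 244) (nat_lit 5) (nat_lit 245) (nat_lit 5) (nat_lit 368) (nat_lit 362) (nat_lit 170)) (XT.nd (nat_lit 78) (nat_lit 0) (nat_lit 76) (XT.lf (nat_lit 76) (nat_lit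 12843561183) (nat_lit 0) (nat_lit 19470653718) (nat_lit 1292) (nat_lit 67842714778) (nat_lit 229) (nat_lit 5) (nat_lit 228) (nat_lit 5) (nat_lit 245) (nat_lit 5) (nat_lit 369) (nat_lit 362) (nat_lit 169)) (XT.lf (nat_lit 0) (nat_lit 42326734510) (nat_lit 1216) (nat_lit 5064004285) (nat_lit 1292) (nat_lit 55421541515) (nat_lit 229) (nat_lit 5) (nat_lit 245) (nat_lit 5) (nat_lit 246) (nat_lit 5) (nat_lit 370) (nat_lit 362) (nat_lit 168))))))) (XT.nd (nat_lit 46410) (nat_lit 0) (nat_lit 2128) (XT.nd (nat_lit 468) (nat_lit 2128) (nat_lit 0) (XT.nd (nat_lit 234) (nat_lit 1216) (nat_lit 0) (XT.nd (nat_lit 78) (nat_lit 1140) (nat_lit 0) (XT.lf (nat_lit 0) (nat_lit 54108467110) (nat_lit 1216) (nat_lit 23133493907) (nat_lit 1292) (nat_lit 28320380276) (nat_lit 230) (nat_lit 5) (nat_lit 246) (nat_lit 5) (nat_lit 247) (nat_lit 5) (nat_lit 371) (nat_lit 362) (nat_lit 167)) (XT.nd (nat_lit 78) (nat_lit 1140)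 (nat_lit 0) (XT.lf (nat_lit 76) (nat_lit 66777501532) (nat_lit 0) (nat_lit 874000642) (nat_lit 1292) (nat_lit 40763237084) (nat_lit 231) (nat_lit 5) (nat_lit 230) (nat_lit 5) (nat_lit 247) (nat_lit 5) (nat_lit 372) (nat_lit 362) (nat_lit 166)) (XT.lf (nat_lit 0) (nat_lit 50484683656) (nat_lit 1216) (nat_lit 32874555853) (nat_lit 1292) (nat_lit 28005891486) (nat_lit 215) (nat_lit 5) (nat_lit 231) (nat_lit 5) (nat_lit 232) (nat_lit 5) (nat_lit 373) (nat_lit 362) (nat_lit 165)))) (XT.nd (nat_lit 78) (nat_lit 608) (nat_lit 0) (XT.lf (nat_lit 0) (nat_lit 33824019849) (nat_lit 608) (nat_lit 67249555492) (nat_lit 684) (nat_lit 13352831000) (nat_lit 207) (nat_lit 5) (nat_lit 215) (nat_lit 5) (nat_lit 216) (nat_lit 5) (nat_lit 374) (nat_lit 362) (nat_lit 164)) (XT.nd (nat_lit 78) (nat_lit 0) (nat_lit 0) (XT.lf (nat_lit 0) (nat_lit 3251985669) (nat_lit 608) (nat_lit 100853317868) (nat_lit 76) (nat_lit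 13497092861) (nat_lit 199) (nat_lit 5) (nat_lit 207) (nat_lit 5) (nat_lit 200) (nat_lit 5) (nat_lit 375) (nat_lit 362) (nat_lit 163)) (XT.lf (nat_lit 0) (nat_lit 21929596859) (nat_lit 608) (nat_lit 1082133883) (nat_lit 76) (nat_lit 97875928033) (nat_lit 199) (nat_lit 5) (nat_lit 207) (nat_lit 5) (nat_lit 200) (nat_lit 5) (nat_lit 376) (nat_lit 362) (nat_lit 162))))) (XT.nd (nat_lit 234) (nat_lit 456) (nat_lit 0) (XT.nd (nat_lit 78) (nat_lit 1064) (nat_lit 0) (XT.lf (nat_lit 0) (nat_lit 43164347722) (nat_lit 684) (nat_lit 19173607668) (nat_lit 76) (nat_lit 61950531419) (nat_lit 191) (nat_lit 5) (nat_lit 200) (nat_lit 5) (nat_lit 192) (nat_lit 5) (nat_lit 377) (nat_lit 362) (nat_lit 161)) (XT.nd (nat_lit 78) (nat_lit 532) (nat_lit 0) (XT.lf (nat_lit 0) (nat_lit 66800220393) (nat_lit 608) (nat_lit 37739453677) (nat_lit 76) (nat_lit 23279500943) (nat_lit 184) (nat_lit 5) (nat_lit 192) (nat_lit 5)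 (nat_lit 185) (nat_lit 5) (nat_lit 378) (nat_lit 362) (nat_lit 160)) (XT.lf (nat_lit 0) (nat_lit 74497960402) (nat_lit 532) (nat_lit 18664067519) (nat_lit 608) (nat_lit 38318045752) (nat_lit 177) (nat_lit 5) (nat_lit 184) (nat_lit 5) (nat_lit 185) (nat_lit 5) (nat_lit 379) (nat_lit 362) (nat_lit 159)))) (XT.nd (nat_lit 45552) (nat_lit 0) (nat_lit 3952) (XT.lf (nat_lit 0) (nat_lit 58268833299) (nat_lit 456) (nat_lit 64212420081) (nat_lit 532) (nat_lit 12793584328) (nat_lit 171) (nat_lit 5) (nat_lit 177) (nat_lit 5) (nat_lit 178) (nat_lit 5) (nat_lit 380) (nat_lit 362) (nat_lit 158)) (XT.nd (nat_lit 78) (nat_lit 0) (nat_lit 76) (XT.lf (nat_lit 0) (nat_lit 1398016493) (nat_lit 1292) (nat_lit 21336167947) (nat_lit 1292) (nat_lit 21336167947) (nat_lit 223) (nat_lit 3) (nat_lit 240) (nat_lit 3) (nat_lit 240) (nat_lit 5) (nat_lit 363) (nat_lit 363) (nat_lit 174)) (XT.lf (nat_lit 0) (nat_lit 3375887616)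 (nat_lit 1216) (nat_lit 63178023139) (nat_lit 1292) (nat_lit 23775004463) (nat_lit 224) (nat_lit 5) (nat_lit 240) (nat_lit 5) (nat_lit 241) (nat_lit 5) (nat_lit 364) (nat_lit 363) (nat_lit 173)))))) (XT.nd (nat_lit 468) (nat_lit 1976) (nat_lit 0) (XT.nd (nat_lit 234) (nat_lit 0) (nat_lit 152) (XT.nd (nat_lit 78) (nat_lit 0) (nat_lit 0) (XT.lf (nat_lit 0) (nat_lit 5001012002) (nat_lit 1216) (nat_lit 84185798858) (nat_lit 1292) (nat_lit 3409237558) (nat_lit 225) (nat_lit 5) (nat_lit 241) (nat_lit 5) (nat_lit 242) (nat_lit 5) (nat_lit 365) (nat_lit 363) (nat_lit 172)) (XT.nd (nat_lit 78) (nat_lit 0) (nat_lit 76) (XT.lf (nat_lit 0) (nat_lit 8035110036) (nat_lit 1216) (nat_lit 10737542765) (nat_lit 1292) (nat_lit 76164054479) (nat_lit 225) (nat_lit 5) (nat_lit 241) (nat_lit 5) (nat_lit 242) (nat_lit 5) (nat_lit 366) (nat_lit 363) (nat_lit 171)) (XT.lf (nat_lit 0) (nat_lit 12407633740) (nat_lit 1216)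 (nat_lit 30207805771) (nat_lit 1292) (nat_lit 54743358447) (nat_lit 226) (nat_lit 5) (nat_lit 242) (nat_lit 5) (nat_lit 243) (nat_lit 5) (nat_lit 367) (nat_lit 363) (nat_lit 170)))) (XT.nd (nat_lit 78) (nat_lit 0) (nat_lit 76) (XT.lf (nat_lit 0) (nat_lit 18090350511) (nat_lit 1216) (nat_lit 50143542373) (nat_lit 1292) (nat_lit 31635353753) (nat_lit 227) (nat_lit 5) (nat_lit 243) (nat_lit 5) (nat_lit 244) (nat_lit 5) (nat_lit 368) (nat_lit 363) (nat_lit 169)) (XT.nd (nat_lit 78) (nat_lit 0) (nat_lit 0) (XT.lf (nat_lit 0) (nat_lit 25174152735) (nat_lit 1216) (nat_lit 70558140368) (nat_lit 1292) (nat_lit 6739416610) (nat_lit 228) (nat_lit 5) (nat_lit 244) (nat_lit 5) (nat_lit 245) (nat_lit 5) (nat_lit 369) (nat_lit 363) (nat_lit 168)) (XT.lf (nat_lit 76) (nat_lit 13501724498) (nat_lit 0) (nat_lit 20449514880) (nat_lit 1292) (nat_lit 71212884165) (nat_lit 229) (nat_lit 5) (nat_lit 228) (nat_lit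 5) (nat_lit 245) (nat_lit 5) (nat_lit 370) (nat_lit 363) (nat_lit 167))))) (XT.nd (nat_lit 234) (nat_lit 2280) (nat_lit 0) (XT.nd (nat_lit 78) (nat_lit 0) (nat_lit 76) (XT.lf (nat_lit 0) (nat_lit 44463321246) (nat_lit 1216) (nat_lit 5301310122) (nat_lit 1292) (nat_lit 58187642879) (nat_lit 229) (nat_lit 5) (nat_lit 245) (nat_lit 5) (nat_lit 246) (nat_lit 5) (nat_lit 371) (nat_lit 363) (nat_lit 166)) (XT.nd (nat_lit 78) (nat_lit 0) (nat_lit 0) (XT.lf (nat_lit 0) (nat_lit 56833286190) (nat_lit 1216) (nat_lit 24274096423) (nat_lit 1292) (nat_lit 29732481892) (nat_lit 230) (nat_lit 5) (nat_lit 246) (nat_lit 5) (nat_lit 247) (nat_lit 5) (nat_lit 372) (nat_lit 363) (nat_lit 165)) (XT.lf (nat_lit 76) (nat_lit 70131988082) (nat_lit 0) (nat_lit 920711386) (nat_lit 1292) (nat_lit 42782206676) (nat_lit 231) (nat_lit 5) (nat_lit 230) (nat_lit 5) (nat_lit 247) (nat_lit 5) (nat_lit 373) (nat_lit 363) (nat_lit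 164)))) (XT.nd (nat_lit 78) (nat_lit 1216) (nat_lit 0) (XT.lf (nat_lit 0) (nat_lit 53024663659) (nat_lit 1216) (nat_lit 34520397036) (nat_lit 1292) (nat_lit 29387780206) (nat_lit 215) (nat_lit 5) (nat_lit 231) (nat_lit 5) (nat_lit 232) (nat_lit 5) (nat_lit 374) (nat_lit 363) (nat_lit 163)) (XT.nd (nat_lit 78) (nat_lit 608) (nat_lit 0) (XT.lf (nat_lit 0) (nat_lit 35531066018) (nat_lit 608) (nat_lit 70613329827) (nat_lit 684) (nat_lit 14002806211) (nat_lit 207) (nat_lit 5) (nat_lit 215) (nat_lit 5) (nat_lit 216) (nat_lit 5) (nat_lit 375) (nat_lit 363) (nat_lit 162)) (XT.lf (nat_lit 0) (nat_lit 3431224209) (nat_lit 608) (nat_lit 105879730389) (nat_lit 76) (nat_lit 14171052872) (nat_lit 199) (nat_lit 5) (nat_lit 207) (nat_lit 5) (nat_lit 200) (nat_lit 5) (nat_lit 376) (nat_lit 363) (nat_lit 161))))))))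
noncomputable def xc126 : XT := (XT.nd (nat_lit 93054) (nat_lit 0) (nat_lit 1672) (XT.nd (nat_lit 46410) (nat_lit 0) (nat_lit 1064) (XT.nd (nat_lit 45942) (nat_lit 0) (nat_lit 3572) (XT.nd (nat_lit 156) (nat_lit 1064) (nat_lit 0) (XT.nd (nat_lit 78) (nat_lit 608) (nat_lit 0) (XT.lf (nat_lit 0) (nat_lit 23041923613) (nat_lit 608) (nat_lit 1120761175) (nat_lit 76) (nat_lit 102768872404) (nat_lit 199) (nat_lit 5) (nat_lit 207) (nat_lit 5) (nat_lit 200) (nat_lit 5) (nat_lit 377) (nat_lit 363) (nat_lit 160)) (XT.lf (nat_lit 0) (nat_lit 45337800003) (nat_lit 684) (nat_lit 20116784645) (nat_lit 76) (nat_lit 65047860774) (nat_lit 191) (nat_lit 5) (nat_lit 200) (nat_lit 5) (nat_lit 192) (nat_lit 5) (nat_lit 378) (nat_lit 363) (nat_lit 159))) (XT.nd (nat_lit 78) (nat_lit 532) (nat_lit 0) (XT.lf (nat_lit 0) (nat_lit 70154889484) (nat_lit 608) (nat_lit 39610923355) (nat_lit 76) (nat_lit 24443872915) (nat_lit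 184) (nat_lit 5) (nat_lit 192) (nat_lit 5) (nat_lit 185) (nat_lit 5) (nat_lit 379) (nat_lit 363) (nat_lit 158)) (XT.nd (nat_lit 45630) (nat_lit 0) (nat_lit 3496) (XT.lf (nat_lit 0) (nat_lit 78237917037) (nat_lit 532) (nat_lit 19596317101) (nat_lit 608) (nat_lit 40219412201) (nat_lit 177) (nat_lit 5) (nat_lit 184) (nat_lit 5) (nat_lit 185) (nat_lit 5) (nat_lit 380) (nat_lit 363) (nat_lit 157)) (XT.lf (nat_lit 0) (nat_lit 1481272240) (nat_lit 1292) (nat_lit 22396094345) (nat_lit 1292) (nat_lit 22396094345) (nat_lit 223) (nat_lit 3) (nat_lit 240) (nat_lit 3) (nat_lit 240) (nat_lit 5) (nat_lit 364) (nat_lit 364) (nat_lit 172))))) (XT.nd (nat_lit 234) (nat_lit 0) (nat_lit 152) (XT.nd (nat_lit 78) (nat_lit 0) (nat_lit 76) (XT.lf (nat_lit 0) (nat_lit 3570131214) (nat_lit 1216) (nat_lit 66322654544) (nat_lit 1292) (nat_lit 24951795688) (nat_lit 224) (nat_lit 5) (nat_lit 240) (nat_lit 5) (nat_lit 241)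 (nat_lit 5) (nat_lit 365) (nat_lit 364) (nat_lit 171)) (XT.nd (nat_lit 78) (nat_lit 0) (nat_lit 0) (XT.lf (nat_lit 0) (nat_lit 5275332163) (nat_lit 1216) (nat_lit 88380380652) (nat_lit 1292) (nat_lit 3569394647) (nat_lit 225) (nat_lit 5) (nat_lit 241) (nat_lit 5) (nat_lit 242) (nat_lit 5) (nat_lit 366) (nat_lit 364) (nat_lit 170)) (XT.lf (nat_lit 0) (nat_lit 8459979405) (nat_lit 1216) (nat_lit 11260412143) (nat_lit 1292) (nat_lit 79962443117) (nat_lit 225) (nat_lit 5) (nat_lit 241) (nat_lit 5) (nat_lit 242) (nat_lit 5) (nat_lit 367) (nat_lit 364) (nat_lit 169)))) (XT.nd (nat_lit 78) (nat_lit 0) (nat_lit 76) (XT.lf (nat_lit 0) (nat_lit 13050077355) (nat_lit 1216) (nat_lit 31703829569) (nat_lit 1292) (nat_lit 57472155205) (nat_lit 226) (nat_lit 5) (nat_lit 242) (nat_lit 5) (nat_lit 243) (nat_lit 5) (nat_lit 368) (nat_lit 364) (nat_lit 168)) (XT.nd (nat_lit 78) (nat_lit 0) (nat_lit 76) (XT.lf (nat_lit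 0) (nat_lit 19015944415) (nat_lit 1216) (nat_lit 52636048116) (nat_lit 1292) (nat_lit 33210070938) (nat_lit 227) (nat_lit 5) (nat_lit 243) (nat_lit 5) (nat_lit 244) (nat_lit 5) (nat_lit 369) (nat_lit 364) (nat_lit 167)) (XT.lf (nat_lit 0) (nat_lit 26453012820) (nat_lit 1216) (nat_lit 74071120411) (nat_lit 1292) (nat_lit 7070544814) (nat_lit 228) (nat_lit 5) (nat_lit 244) (nat_lit 5) (nat_lit 245) (nat_lit 5) (nat_lit 370) (nat_lit 364) (nat_lit 166)))))) (XT.nd (nat_lit 468) (nat_lit 1216) (nat_lit 0) (XT.nd (nat_lit 234) (nat_lit 1596) (nat_lit 0) (XT.nd (nat_lit 78) (nat_lit 0) (nat_lit 76) (XT.lf (nat_lit 76) (nat_lit 14191309820) (nat_lit 0) (nat_lit 21476823708) (nat_lit 1292) (nat_lit 74753604245) (nat_lit 229) (nat_lit 5) (nat_lit 228) (nat_lit 5) (nat_lit 245) (nat_lit 5) (nat_lit 371) (nat_lit 364) (nat_lit 165)) (XT.nd (nat_lit 78) (nat_lit 0) (nat_lit 76) (XT.lf (nat_lit 0) (nat_lit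 46704854664) (nat_lit 1216) (nat_lit 5551958958) (nat_lit 1292) (nat_lit 61092511905) (nat_lit 229) (nat_lit 5) (nat_lit 245) (nat_lit 5) (nat_lit 246) (nat_lit 5) (nat_lit 372) (nat_lit 364) (nat_lit 164)) (XT.lf (nat_lit 0) (nat_lit 59692542994) (nat_lit 1216) (nat_lit 25473223303) (nat_lit 1292) (nat_lit 31215552791) (nat_lit 230) (nat_lit 5) (nat_lit 246) (nat_lit 5) (nat_lit 247) (nat_lit 5) (nat_lit 373) (nat_lit 364) (nat_lit 163)))) (XT.nd (nat_lit 78) (nat_lit 1748) (nat_lit 0) (XT.lf (nat_lit 76) (nat_lit 73652747554) (nat_lit 0) (nat_lit 969477759) (nat_lit 1292) (nat_lit 44903909063) (nat_lit 231) (nat_lit 5) (nat_lit 230) (nat_lit 5) (nat_lit 247) (nat_lit 5) (nat_lit 374) (nat_lit 364) (nat_lit 162)) (XT.nd (nat_lit 78) (nat_lit 608) (nat_lit 0) (XT.lf (nat_lit 0) (nat_lit 55690178765) (nat_lit 1216) (nat_lit 36248333795) (nat_lit 1292) (nat_lit 30840474564) (nat_lit 215) (nat_lit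 5) (nat_lit 231) (nat_lit 5) (nat_lit 232) (nat_lit 5) (nat_lit 375) (nat_lit 364) (nat_lit 161)) (XT.lf (nat_lit 0) (nat_lit 37321991362) (nat_lit 608) (nat_lit 74145172338) (nat_lit 684) (nat_lit 14686922630) (nat_lit 207) (nat_lit 5) (nat_lit 215) (nat_lit 5) (nat_lit 216) (nat_lit 5) (nat_lit 376) (nat_lit 364) (nat_lit 160))))) (XT.nd (nat_lit 45942) (nat_lit 0) (nat_lit 2432) (XT.nd (nat_lit 78) (nat_lit 608) (nat_lit 0) (XT.lf (nat_lit 0) (nat_lit 3617877716) (nat_lit 608) (nat_lit 111158974621) (nat_lit 76) (nat_lit 14878794058) (nat_lit 199) (nat_lit 5) (nat_lit 207) (nat_lit 5) (nat_lit 200) (nat_lit 5) (nat_lit 377) (nat_lit 364) (nat_lit 159)) (XT.nd (nat_lit 78) (nat_lit 608) (nat_lit 0) (XT.lf (nat_lit 0) (nat_lit 24208393409) (nat_lit 608) (nat_lit 1162758960) (nat_lit 76) (nat_lit 107906543207) (nat_lit 199) (nat_lit 5) (nat_lit 207) (nat_lit 5) (nat_lit 200) (nat_lit 5) (nat_lit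 378) (nat_lit 364) (nat_lit 158)) (XT.lf (nat_lit 0) (nat_lit 47618508502) (nat_lit 684) (nat_lit 21108561830) (nat_lit 76) (nat_lit 68300074933) (nat_lit 191) (nat_lit 5) (nat_lit 200) (nat_lit 5) (nat_lit 192) (nat_lit 5) (nat_lit 379) (nat_lit 364) (nat_lit 157)))) (XT.nd (nat_lit 78) (nat_lit 0) (nat_lit 76) (XT.lf (nat_lit 0) (nat_lit 1567449160) (nat_lit 1292) (nat_lit 23509656885) (nat_lit 1292) (nat_lit 23509656885) (nat_lit 223) (nat_lit 3) (nat_lit 240) (nat_lit 3) (nat_lit 240) (nat_lit 5) (nat_lit 365) (nat_lit 365) (nat_lit 170)) (XT.nd (nat_lit 78) (nat_lit 0) (nat_lit 76) (XT.lf (nat_lit 0) (nat_lit 3771720966) (nat_lit 1216) (nat_lit 69625844185) (nat_lit 1292) (nat_lit 26188538308) (nat_lit 224) (nat_lit 5) (nat_lit 240) (nat_lit 5) (nat_lit 241) (nat_lit 5) (nat_lit 366) (nat_lit 365) (nat_lit 169)) (XT.lf (nat_lit 0) (nat_lit 5561111978) (nat_lit 1216) (nat_lit 92786058961)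 (nat_lit 1292) (nat_lit 3738517631) (nat_lit 225) (nat_lit 5) (nat_lit 241) (nat_lit 5) (nat_lit 242) (nat_lit 5) (nat_lit 367) (nat_lit 365) (nat_lit 168))))))) (XT.nd (nat_lit 46722) (nat_lit 0) (nat_lit 1216) (XT.nd (nat_lit 468) (nat_lit 1976) (nat_lit 0) (XT.nd (nat_lit 234) (nat_lit 0) (nat_lit 228) (XT.nd (nat_lit 78) (nat_lit 0) (nat_lit 76) (XT.lf (nat_lit 0) (nat_lit 8903943334) (nat_lit 1216) (nat_lit 11810727298) (nat_lit 1292) (nat_lit 83951663608) (nat_lit 225) (nat_lit 5) (nat_lit 241) (nat_lit 5) (nat_lit 242) (nat_lit 5) (nat_lit 368) (nat_lit 365) (nat_lit 167)) (XT.nd (nat_lit 78) (nat_lit 0) (nat_lit 76) (XT.lf (nat_lit 0) (nat_lit 13722592042) (nat_lit 1216) (nat_lit 33275990216) (nat_lit 1292) (nat_lit 60338170073) (nat_lit 226) (nat_lit 5) (nat_lit 242) (nat_lit 5) (nat_lit 243) (nat_lit 5) (nat_lit 369) (nat_lit 365) (nat_lit 166)) (XT.lf (nat_lit 0) (nat_lit 19985858532)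 (nat_lit 1216) (nat_lit 55254543152) (nat_lit 1292) (nat_lit 34864179470) (nat_lit 227) (nat_lit 5) (nat_lit 243) (nat_lit 5) (nat_lit 244) (nat_lit 5) (nat_lit 370) (nat_lit 365) (nat_lit 165)))) (XT.nd (nat_lit 78) (nat_lit 0) (nat_lit 0) (XT.lf (nat_lit 0) (nat_lit 27793942325) (nat_lit 1216) (nat_lit 77761137224) (nat_lit 1292) (nat_lit 7418772622) (nat_lit 228) (nat_lit 5) (nat_lit 244) (nat_lit 5) (nat_lit 245) (nat_lit 5) (nat_lit 371) (nat_lit 365) (nat_lit 164)) (XT.nd (nat_lit 78) (nat_lit 0) (nat_lit 76) (XT.lf (nat_lit 76) (nat_lit 14914026420) (nat_lit 0) (nat_lit 22555048644) (nat_lit 1292) (nat_lit 78473212685) (nat_lit 229) (nat_lit 5) (nat_lit 228) (nat_lit 5) (nat_lit 245) (nat_lit 5) (nat_lit 372) (nat_lit 365) (nat_lit 163)) (XT.lf (nat_lit 0) (nat_lit 49056757130) (nat_lit 1216) (nat_lit 5816480562) (nat_lit 1292) (nat_lit 64143043969) (nat_lit 229) (nat_lit 5) (nat_lit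 245) (nat_lit 5) (nat_lit 246) (nat_lit 5) (nat_lit 373) (nat_lit 365) (nat_lit 162))))) (XT.nd (nat_lit 234) (nat_lit 1216) (nat_lit 0) (XT.nd (nat_lit 78) (nat_lit 1140) (nat_lit 0) (XT.lf (nat_lit 0) (nat_lit 62693127054) (nat_lit 1216) (nat_lit 26733661846) (nat_lit 1292) (nat_lit 32773107578) (nat_lit 230) (nat_lit 5) (nat_lit 246) (nat_lit 5) (nat_lit 247) (nat_lit 5) (nat_lit 374) (nat_lit 365) (nat_lit 161)) (XT.nd (nat_lit 78) (nat_lit 1140) (nat_lit 0) (XT.lf (nat_lit 76) (nat_lit 77348228529) (nat_lit 0) (nat_lit 1020428567) (nat_lit 1292) (nat_lit 47133314995) (nat_lit 231) (nat_lit 5) (nat_lit 230) (nat_lit 5) (nat_lit 247) (nat_lit 5) (nat_lit 375) (nat_lit 365) (nat_lit 160)) (XT.lf (nat_lit 0) (nat_lit 58487641829) (nat_lit 1216) (nat_lit 38062489176) (nat_lit 1292) (nat_lit 32367355750) (nat_lit 215) (nat_lit 5) (nat_lit 231) (nat_lit 5) (nat_lit 232) (nat_lit 5) (nat_lit 376)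 (nat_lit 365) (nat_lit 159)))) (XT.nd (nat_lit 78) (nat_lit 608) (nat_lit 0) (XT.lf (nat_lit 0) (nat_lit 39201126796) (nat_lit 608) (nat_lit 77853497638) (nat_lit 684) (nat_lit 15406734620) (nat_lit 207) (nat_lit 5) (nat_lit 215) (nat_lit 5) (nat_lit 216) (nat_lit 5) (nat_lit 377) (nat_lit 365) (nat_lit 158)) (XT.nd (nat_lit 78) (nat_lit 0) (nat_lit 0) (XT.lf (nat_lit 0) (nat_lit 3812460759) (nat_lit 608) (nat_lit 116703551663) (nat_lit 76) (nat_lit 15621997745) (nat_lit 199) (nat_lit 5) (nat_lit 207) (nat_lit 5) (nat_lit 200) (nat_lit 5) (nat_lit 378) (nat_lit 365) (nat_lit 157)) (XT.lf (nat_lit 0) (nat_lit 25431850373) (nat_lit 608) (nat_lit 1208161966) (nat_lit 76) (nat_lit 113301169400) (nat_lit 199) (nat_lit 5) (nat_lit 207) (nat_lit 5) (nat_lit 200) (nat_lit 5) (nat_lit 379) (nat_lit 365) (nat_lit 156)))))) (XT.nd (nat_lit 468) (nat_lit 608) (nat_lit 0) (XT.nd (nat_lit 234) (nat_lit 0)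 (nat_lit 152) (XT.nd (nat_lit 78) (nat_lit 0) (nat_lit 76) (XT.lf (nat_lit 0) (nat_lit 1656808746) (nat_lit 1292) (nat_lit 24679477891) (nat_lit 1292) (nat_lit 24679477891) (nat_lit 223) (nat_lit 3) (nat_lit 240) (nat_lit 3) (nat_lit 240) (nat_lit 5) (nat_lit 366) (nat_lit 366) (nat_lit 168)) (XT.nd (nat_lit 78) (nat_lit 0) (nat_lit 76) (XT.lf (nat_lit 0) (nat_lit 3981244148) (nat_lit 1216) (nat_lit 73095396634) (nat_lit 1292) (nat_lit 27488126527) (nat_lit 224) (nat_lit 5) (nat_lit 240) (nat_lit 5) (nat_lit 241) (nat_lit 5) (nat_lit 367) (nat_lit 366) (nat_lit 167)) (XT.lf (nat_lit 0) (nat_lit 5859134204) (nat_lit 1216) (nat_lit 97413261478) (nat_lit 1292) (nat_lit 3916965736) (nat_lit 225) (nat_lit 5) (nat_lit 241) (nat_lit 5) (nat_lit 242) (nat_lit 5) (nat_lit 368) (nat_lit 366) (nat_lit 166)))) (XT.nd (nat_lit 78) (nat_lit 0) (nat_lit 76) (XT.lf (nat_lit 0) (nat_lit 9368156336) (nat_lit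 1216) (nat_lit 12389739443) (nat_lit 1292) (nat_lit 88141172717) (nat_lit 225) (nat_lit 5) (nat_lit 241) (nat_lit 5) (nat_lit 242) (nat_lit 5) (nat_lit 369) (nat_lit 366) (nat_lit 165)) (XT.nd (nat_lit 78) (nat_lit 0) (nat_lit 76) (XT.lf (nat_lit 0) (nat_lit 14426872046) (nat_lit 1216) (nat_lit 34927970379) (nat_lit 1292) (nat_lit 63348191599) (nat_lit 226) (nat_lit 5) (nat_lit 242) (nat_lit 5) (nat_lit 243) (nat_lit 5) (nat_lit 370) (nat_lit 366) (nat_lit 164)) (XT.lf (nat_lit 0) (nat_lit 21002491048) (nat_lit 1216) (nat_lit 58005200132) (nat_lit 1292) (nat_lit 36601587977) (nat_lit 227) (nat_lit 5) (nat_lit 243) (nat_lit 5) (nat_lit 244) (nat_lit 5) (nat_lit 371) (nat_lit 366) (nat_lit 163))))) (XT.nd (nat_lit 234) (nat_lit 988) (nat_lit 0) (XT.nd (nat_lit 78) (nat_lit 0) (nat_lit 0) (XT.lf (nat_lit 0) (nat_lit 29200218911) (nat_lit 1216) (nat_lit 81636913625) (nat_lit 1292) (nat_lit 7784904510)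 (nat_lit 228) (nat_lit 5) (nat_lit 244) (nat_lit 5) (nat_lit 245) (nat_lit 5) (nat_lit 372) (nat_lit 366) (nat_lit 162)) (XT.nd (nat_lit 78) (nat_lit 0) (nat_lit 76) (XT.lf (nat_lit 76) (nat_lit 15671656184) (nat_lit 0) (nat_lit 23686777267) (nat_lit 1292) (nat_lit 82380481689) (nat_lit 229) (nat_lit 5) (nat_lit 228) (nat_lit 5) (nat_lit 245) (nat_lit 5) (nat_lit 373) (nat_lit 366) (nat_lit 161)) (XT.lf (nat_lit 0) (nat_lit 51524705855) (nat_lit 1216) (nat_lit 6095443961) (nat_lit 1292) (nat_lit 67346483215) (nat_lit 229) (nat_lit 5) (nat_lit 245) (nat_lit 5) (nat_lit 246) (nat_lit 5) (nat_lit 374) (nat_lit 366) (nat_lit 160)))) (XT.nd (nat_lit 78) (nat_lit 1140) (nat_lit 0) (XT.lf (nat_lit 0) (nat_lit 65842256795) (nat_lit 1216) (nat_lit 28058351631) (nat_lit 1292) (nat_lit 34408839734) (nat_lit 230) (nat_lit 5) (nat_lit 246) (nat_lit 5) (nat_lit 247) (nat_lit 5) (nat_lit 375) (nat_lit 366)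 (nat_lit 159)) (XT.nd (nat_lit 78) (nat_lit 1140) (nat_lit 0) (XT.lf (nat_lit 76) (nat_lit 81227289478) (nat_lit 0) (nat_lit 1073696635) (nat_lit 1292) (nat_lit 49475659184) (nat_lit 231) (nat_lit 5) (nat_lit 230) (nat_lit 5) (nat_lit 247) (nat_lit 5) (nat_lit 376) (nat_lit 366) (nat_lit 158)) (XT.lf (nat_lit 0) (nat_lit 61423773694) (nat_lit 1216) (nat_lit 39967190679) (nat_lit 1292) (nat_lit 33971988806) (nat_lit 215) (nat_lit 5) (nat_lit 231) (nat_lit 5) (nat_lit 232) (nat_lit 5) (nat_lit 377) (nat_lit 366) (nat_lit 157))))))))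
noncomputable def xc127 : XT := (XT.nd (nat_lit 140010) (nat_lit 0) (nat_lit 1216) (XT.nd (nat_lit 46878) (nat_lit 0) (nat_lit 608) (XT.nd (nat_lit 46410) (nat_lit 0) (nat_lit 1520) (XT.nd (nat_lit 46176) (nat_lit 0) (nat_lit 1368) (XT.nd (nat_lit 46020) (nat_lit 0) (nat_lit 1216) (XT.lf (nat_lit 0) (nat_lit 41173007051) (nat_lit 608) (nat_lit 81747140034) (nat_lit 684) (nat_lit 16163888457) (nat_lit 207) (nat_lit 5) (nat_lit 215) (nat_lit 5) (nat_lit 216) (nat_lit 5) (nat_lit 378) (nat_lit 366) (nat_lit 156)) (XT.nd (nat_lit 78) (nat_lit 0) (nat_lit 76) (XT.lf (nat_lit 0) (nat_lit 1749614832) (nat_lit 1292) (nat_lit 25908316332) (nat_lit 1292) (nat_lit 25908316332) (nat_lit 223) (nat_lit 3) (nat_lit 240) (nat_lit 3) (nat_lit 240) (nat_lit 5) (nat_lit 367) (nat_lit 367) (nat_lit 166)) (XT.lf (nat_lit 0) (nat_lit 4199296954) (nat_lit 1216) (nat_lit 76739518157) (nat_lit 1292) (nat_lit 28853608864)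 (nat_lit 224) (nat_lit 5) (nat_lit 240) (nat_lit 5) (nat_lit 241) (nat_lit 5) (nat_lit 368) (nat_lit 367) (nat_lit 165)))) (XT.nd (nat_lit 78) (nat_lit 0) (nat_lit 0) (XT.lf (nat_lit 0) (nat_lit 6170201234) (nat_lit 1216) (nat_lit 102272949105) (nat_lit 1292) (nat_lit 4105124430) (nat_lit 225) (nat_lit 5) (nat_lit 241) (nat_lit 5) (nat_lit 242) (nat_lit 5) (nat_lit 369) (nat_lit 367) (nat_lit 164)) (XT.nd (nat_lit 78) (nat_lit 0) (nat_lit 76) (XT.lf (nat_lit 0) (nat_lit 9853812076) (nat_lit 1216) (nat_lit 12998773609) (nat_lit 1292) (nat_lit 92540907931) (nat_lit 225) (nat_lit 5) (nat_lit 241) (nat_lit 5) (nat_lit 242) (nat_lit 5) (nat_lit 370) (nat_lit 367) (nat_lit 163)) (XT.lf (nat_lit 0) (nat_lit 15164678599) (nat_lit 1216) (nat_lit 36663648401) (nat_lit 1292) (nat_lit 66509354487) (nat_lit 226) (nat_lit 5) (nat_lit 242) (nat_lit 5) (nat_lit 243) (nat_lit 5) (nat_lit 371) (nat_lit 367) (nat_lit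 162))))) (XT.nd (nat_lit 234) (nat_lit 0) (nat_lit 152) (XT.nd (nat_lit 78) (nat_lit 0) (nat_lit 76) (XT.lf (nat_lit 0) (nat_lit 22068343118) (nat_lit 1216) (nat_lit 60894512133) (nat_lit 1292) (nat_lit 38426406182) (nat_lit 227) (nat_lit 5) (nat_lit 243) (nat_lit 5) (nat_lit 244) (nat_lit 5) (nat_lit 372) (nat_lit 367) (nat_lit 161)) (XT.nd (nat_lit 78) (nat_lit 0) (nat_lit 0) (XT.lf (nat_lit 0) (nat_lit 30675267923) (nat_lit 1216) (nat_lit 85707620566) (nat_lit 1292) (nat_lit 8169789878) (nat_lit 228) (nat_lit 5) (nat_lit 244) (nat_lit 5) (nat_lit 245) (nat_lit 5) (nat_lit 373) (nat_lit 367) (nat_lit 160)) (XT.lf (nat_lit 76) (nat_lit 16466058443) (nat_lit 0) (nat_lit 24874722652) (nat_lit 1292) (nat_lit 86484638082) (nat_lit 229) (nat_lit 5) (nat_lit 228) (nat_lit 5) (nat_lit 245) (nat_lit 5) (nat_lit 374) (nat_lit 367) (nat_lit 159)))) (XT.nd (nat_lit 78) (nat_lit 0) (nat_lit 76) (XT.lf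 (nat_lit 0) (nat_lit 54114647151) (nat_lit 1216) (nat_lit 6389458219) (nat_lit 1292) (nat_lit 70710439618) (nat_lit 229) (nat_lit 5) (nat_lit 245) (nat_lit 5) (nat_lit 246) (nat_lit 5) (nat_lit 375) (nat_lit 367) (nat_lit 158)) (XT.nd (nat_lit 78) (nat_lit 0) (nat_lit 0) (XT.lf (nat_lit 0) (nat_lit 69147497424) (nat_lit 1216) (nat_lit 29450390928) (nat_lit 1292) (nat_lit 36126630272) (nat_lit 230) (nat_lit 5) (nat_lit 246) (nat_lit 5) (nat_lit 247) (nat_lit 5) (nat_lit 376) (nat_lit 367) (nat_lit 157)) (XT.lf (nat_lit 76) (nat_lit 85299220412) (nat_lit 0) (nat_lit 1129419235) (nat_lit 1292) (nat_lit 51936452065) (nat_lit 231) (nat_lit 5) (nat_lit 230) (nat_lit 5) (nat_lit 247) (nat_lit 5) (nat_lit 377) (nat_lit 367) (nat_lit 156)))))) (XT.nd (nat_lit 46488) (nat_lit 0) (nat_lit 608) (XT.nd (nat_lit 46254) (nat_lit 0) (nat_lit 760) (XT.nd (nat_lit 46098) (nat_lit 0) (nat_lit 608) (XT.lf (nat_lit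 0) (nat_lit 64505619770) (nat_lit 1216) (nat_lit 41966980639) (nat_lit 1292) (nat_lit 35658130440) (nat_lit 215) (nat_lit 5) (nat_lit 231) (nat_lit 5) (nat_lit 232) (nat_lit 5) (nat_lit 378) (nat_lit 367) (nat_lit 155)) (XT.nd (nat_lit 78) (nat_lit 0) (nat_lit 76) (XT.lf (nat_lit 0) (nat_lit 1846134710) (nat_lit 1292) (nat_lit 27199074140) (nat_lit 1292) (nat_lit 27199074140) (nat_lit 223) (nat_lit 3) (nat_lit 240) (nat_lit 3) (nat_lit 240) (nat_lit 5) (nat_lit 368) (nat_lit 368) (nat_lit 164)) (XT.lf (nat_lit 0) (nat_lit 4426486834) (nat_lit 1216) (nat_lit 80566835735) (nat_lit 1292) (nat_lit 30288194987) (nat_lit 224) (nat_lit 5) (nat_lit 240) (nat_lit 5) (nat_lit 241) (nat_lit 5) (nat_lit 369) (nat_lit 368) (nat_lit 163)))) (XT.nd (nat_lit 78) (nat_lit 0) (nat_lit 0) (XT.lf (nat_lit 0) (nat_lit 6495137889) (nat_lit 1216) (nat_lit 107376641506) (nat_lit 1292) (nat_lit 4303405965) (nat_lit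 225) (nat_lit 5) (nat_lit 241) (nat_lit 5) (nat_lit 242) (nat_lit 5) (nat_lit 370) (nat_lit 368) (nat_lit 162)) (XT.nd (nat_lit 78) (nat_lit 0) (nat_lit 76) (XT.lf (nat_lit 0) (nat_lit 10362147055) (nat_lit 1216) (nat_lit 13639231285) (nat_lit 1292) (nat_lit 97161310768) (nat_lit 225) (nat_lit 5) (nat_lit 241) (nat_lit 5) (nat_lit 242) (nat_lit 5) (nat_lit 371) (nat_lit 368) (nat_lit 161)) (XT.lf (nat_lit 0) (nat_lit 15937844910) (nat_lit 1216) (nat_lit 38487107014) (nat_lit 1292) (nat_lit 69829156278) (nat_lit 226) (nat_lit 5) (nat_lit 242) (nat_lit 5) (nat_lit 243) (nat_lit 5) (nat_lit 372) (nat_lit 368) (nat_lit 160))))) (XT.nd (nat_lit 234) (nat_lit 304) (nat_lit 0) (XT.nd (nat_lit 78) (nat_lit 0) (nat_lit 76) (XT.lf (nat_lit 0) (nat_lit 23186025596) (nat_lit 1216) (nat_lit 63929307575) (nat_lit 1292) (nat_lit 40342954433) (nat_lit 227) (nat_lit 5) (nat_lit 243) (nat_lit 5) (nat_lit 244)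 (nat_lit 5) (nat_lit 373) (nat_lit 368) (nat_lit 159)) (XT.nd (nat_lit 78) (nat_lit 0) (nat_lit 0) (XT.lf (nat_lit 0) (nat_lit 32222671290) (nat_lit 1216) (nat_lit 89982898430) (nat_lit 1292) (nat_lit 8574324853) (nat_lit 228) (nat_lit 5) (nat_lit 244) (nat_lit 5) (nat_lit 245) (nat_lit 5) (nat_lit 374) (nat_lit 368) (nat_lit 158)) (XT.lf (nat_lit 76) (nat_lit 17299174925) (nat_lit 0) (nat_lit 26121730007) (nat_lit 1292) (nat_lit 90795384552) (nat_lit 229) (nat_lit 5) (nat_lit 228) (nat_lit 5) (nat_lit 245) (nat_lit 5) (nat_lit 375) (nat_lit 368) (nat_lit 157)))) (XT.nd (nat_lit 78) (nat_lit 456) (nat_lit 0) (XT.lf (nat_lit 0) (nat_lit 56832811258) (nat_lit 1216) (nat_lit 6699173360) (nat_lit 1292) (nat_lit 74242906943) (nat_lit 229) (nat_lit 5) (nat_lit 245) (nat_lit 5) (nat_lit 246) (nat_lit 5) (nat_lit 376) (nat_lit 368) (nat_lit 156)) (XT.nd (nat_lit 46254) (nat_lit 532) (nat_lit 0) (XT.lf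 (nat_lit 0) (nat_lit 72616779588) (nat_lit 1216) (nat_lit 30913043551) (nat_lit 1292) (nat_lit 37930556843) (nat_lit 230) (nat_lit 5) (nat_lit 246) (nat_lit 5) (nat_lit 247) (nat_lit 5) (nat_lit 377) (nat_lit 368) (nat_lit 155)) (XT.lf (nat_lit 0) (nat_lit 1946640210) (nat_lit 1292) (nat_lit 28554802897) (nat_lit 1292) (nat_lit 28554802897) (nat_lit 223) (nat_lit 3) (nat_lit 240) (nat_lit 3) (nat_lit 240) (nat_lit 5) (nat_lit 369) (nat_lit 369) (nat_lit 162))))))) (XT.nd (nat_lit 47190) (nat_lit 0) (nat_lit 0) (XT.nd (nat_lit 468) (nat_lit 76) (nat_lit 0) (XT.nd (nat_lit 234) (nat_lit 0) (nat_lit 152) (XT.nd (nat_lit 78) (nat_lit 0) (nat_lit 76) (XT.lf (nat_lit 0) (nat_lit 4663434787) (nat_lit 1216) (nat_lit 84586417132) (nat_lit 1292) (nat_lit 31795262949) (nat_lit 224) (nat_lit 5) (nat_lit 240) (nat_lit 5) (nat_lit 241) (nat_lit 5) (nat_lit 370) (nat_lit 369) (nat_lit 161)) (XT.nd (nat_lit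 78) (nat_lit 0) (nat_lit 0) (XT.lf (nat_lit 0) (nat_lit 6834794189) (nat_lit 1216) (nat_lit 112736444054) (nat_lit 1292) (nat_lit 4512250016) (nat_lit 225) (nat_lit 5) (nat_lit 241) (nat_lit 5) (nat_lit 242) (nat_lit 5) (nat_lit 371) (nat_lit 369) (nat_lit 160)) (XT.lf (nat_lit 0) (nat_lit 10894444317) (nat_lit 1216) (nat_lit 14312593299) (nat_lit 1292) (nat_lit 102013351309) (nat_lit 225) (nat_lit 5) (nat_lit 241) (nat_lit 5) (nat_lit 242) (nat_lit 5) (nat_lit 372) (nat_lit 369) (nat_lit 159)))) (XT.nd (nat_lit 78) (nat_lit 0) (nat_lit 76) (XT.lf (nat_lit 0) (nat_lit 16748281266) (nat_lit 1216) (nat_lit 40402642586) (nat_lit 1292) (nat_lit 73315474923) (nat_lit 226) (nat_lit 5) (nat_lit 242) (nat_lit 5) (nat_lit 243) (nat_lit 5) (nat_lit 373) (nat_lit 369) (nat_lit 158)) (XT.nd (nat_lit 78) (nat_lit 0) (nat_lit 76) (XT.lf (nat_lit 0) (nat_lit 24358265944) (nat_lit 1216) (nat_lit 67116766002)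 (nat_lit 1292) (nat_lit 42355773757) (nat_lit 227) (nat_lit 5) (nat_lit 243) (nat_lit 5) (nat_lit 244) (nat_lit 5) (nat_lit 374) (nat_lit 369) (nat_lit 157)) (XT.lf (nat_lit 0) (nat_lit 33846176709) (nat_lit 1216) (nat_lit 94472879483) (nat_lit 1292) (nat_lit 8999454231) (nat_lit 228) (nat_lit 5) (nat_lit 244) (nat_lit 5) (nat_lit 245) (nat_lit 5) (nat_lit 375) (nat_lit 369) (nat_lit 156))))) (XT.nd (nat_lit 46488) (nat_lit 0) (nat_lit 76) (XT.nd (nat_lit 78) (nat_lit 380) (nat_lit 0) (XT.lf (nat_lit 76) (nat_lit 18173034859) (nat_lit 0) (nat_lit 27430783602) (nat_lit 1292) (nat_lit 95322922093) (nat_lit 229) (nat_lit 5) (nat_lit 228) (nat_lit 5) (nat_lit 245) (nat_lit 5) (nat_lit 376) (nat_lit 369) (nat_lit 155)) (XT.nd (nat_lit 46332) (nat_lit 456) (nat_lit 0) (XT.lf (nat_lit 0) (nat_lit 59685727784) (nat_lit 1216) (nat_lit 7025281444) (nat_lit 1292) (nat_lit 77952281627) (nat_lit 229) (nat_lit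 5) (nat_lit 245) (nat_lit 5) (nat_lit 246) (nat_lit 5) (nat_lit 377) (nat_lit 369) (nat_lit 154)) (XT.lf (nat_lit 0) (nat_lit 2051408741) (nat_lit 1292) (nat_lit 29978710886) (nat_lit 1292) (nat_lit 29978710886) (nat_lit 223) (nat_lit 3) (nat_lit 240) (nat_lit 3) (nat_lit 240) (nat_lit 5) (nat_lit 370) (nat_lit 370) (nat_lit 160)))) (XT.nd (nat_lit 78) (nat_lit 0) (nat_lit 76) (XT.lf (nat_lit 0) (nat_lit 4910777603) (nat_lit 1216) (nat_lit 88807792057) (nat_lit 1292) (nat_lit 33378366879) (nat_lit 224) (nat_lit 5) (nat_lit 240) (nat_lit 5) (nat_lit 241) (nat_lit 5) (nat_lit 371) (nat_lit 370) (nat_lit 159)) (XT.nd (nat_lit 78) (nat_lit 0) (nat_lit 0) (XT.lf (nat_lit 0) (nat_lit 7190048098) (nat_lit 1216) (nat_lit 118365076209) (nat_lit 1292) (nat_lit 4732124424) (nat_lit 225) (nat_lit 5) (nat_lit 241) (nat_lit 5) (nat_lit 242) (nat_lit 5) (nat_lit 372) (nat_lit 370) (nat_lit 158)) (XT.lf (nat_lit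 0) (nat_lit 11452037199) (nat_lit 1216) (nat_lit 15020422919) (nat_lit 1292) (nat_lit 107108554025) (nat_lit 225) (nat_lit 5) (nat_lit 241) (nat_lit 5) (nat_lit 242) (nat_lit 5) (nat_lit 373) (nat_lit 370) (nat_lit 157)))))) (XT.nd (nat_lit 46878) (nat_lit 0) (nat_lit 0) (XT.nd (nat_lit 46644) (nat_lit 228) (nat_lit 0) (XT.nd (nat_lit 78) (nat_lit 0) (nat_lit 76) (XT.lf (nat_lit 0) (nat_lit 17597980236) (nat_lit 1216) (nat_lit 42414774915) (nat_lit 1292) (nat_lit 76976587292) (nat_lit 226) (nat_lit 5) (nat_lit 242) (nat_lit 5) (nat_lit 243) (nat_lit 5) (nat_lit 374) (nat_lit 370) (nat_lit 156)) (XT.nd (nat_lit 78) (nat_lit 0) (nat_lit 76) (XT.lf (nat_lit 0) (nat_lit 25587915357) (nat_lit 1216) (nat_lit 70464434731) (nat_lit 1292) (nat_lit 44469636460) (nat_lit 227) (nat_lit 5) (nat_lit 243) (nat_lit 5) (nat_lit 244) (nat_lit 5) (nat_lit 375) (nat_lit 370) (nat_lit 155)) (XT.lf (nat_lit 0) (nat_lit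 35549707182) (nat_lit 1216) (nat_lit 99188211558) (nat_lit 1292) (nat_lit 9446173550) (nat_lit 228) (nat_lit 5) (nat_lit 244) (nat_lit 5) (nat_lit 245) (nat_lit 5) (nat_lit 376) (nat_lit 370) (nat_lit 154)))) (XT.nd (nat_lit 78) (nat_lit 0) (nat_lit 76) (XT.lf (nat_lit 0) (nat_lit 2160724321) (nat_lit 1292) (nat_lit 31474170553) (nat_lit 1292) (nat_lit 31474170553) (nat_lit 223) (nat_lit 3) (nat_lit 240) (nat_lit 3) (nat_lit 240) (nat_lit 5) (nat_lit 371) (nat_lit 371) (nat_lit 158)) (XT.nd (nat_lit 78) (nat_lit 0) (nat_lit 76) (XT.lf (nat_lit 0) (nat_lit 5169170068) (nat_lit 1216) (nat_lit 93240974465) (nat_lit 1292) (nat_lit 35041245116) (nat_lit 224) (nat_lit 5) (nat_lit 240) (nat_lit 5) (nat_lit 241) (nat_lit 5) (nat_lit 372) (nat_lit 371) (nat_lit 157)) (XT.lf (nat_lit 0) (nat_lit 7561808280) (nat_lit 1216) (nat_lit 124275901405) (nat_lit 1292) (nat_lit 4963526026) (nat_lit 225) (nat_lit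 5) (nat_lit 241) (nat_lit 5) (nat_lit 242) (nat_lit 5) (nat_lit 373) (nat_lit 371) (nat_lit 156))))) (XT.nd (nat_lit 46800) (nat_lit 0) (nat_lit 76) (XT.nd (nat_lit 78) (nat_lit 152) (nat_lit 0) (XT.lf (nat_lit 0) (nat_lit 12036313133) (nat_lit 1216) (nat_lit 15764369194) (nat_lit 1292) (nat_lit 112459024946) (nat_lit 225) (nat_lit 5) (nat_lit 241) (nat_lit 5) (nat_lit 242) (nat_lit 5) (nat_lit 374) (nat_lit 371) (nat_lit 155)) (XT.nd (nat_lit 46644) (nat_lit 228) (nat_lit 0) (XT.lf (nat_lit 0) (nat_lit 18489022020) (nat_lit 1216) (nat_lit 44528257607) (nat_lit 1292) (nat_lit 80821188649) (nat_lit 226) (nat_lit 5) (nat_lit 242) (nat_lit 5) (nat_lit 243) (nat_lit 5) (nat_lit 375) (nat_lit 371) (nat_lit 154)) (XT.lf (nat_lit 0) (nat_lit 2274878581) (nat_lit 1292) (nat_lit 33044726358) (nat_lit 1292) (nat_lit 33044726358) (nat_lit 223) (nat_lit 3) (nat_lit 240) (nat_lit 3) (nat_lit 240) (nat_lit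 5) (nat_lit 372) (nat_lit 372) (nat_lit 156)))) (XT.nd (nat_lit 78) (nat_lit 0) (nat_lit 0) (XT.lf (nat_lit 0) (nat_lit 5439287151) (nat_lit 1216) (nat_lit 97896486051) (nat_lit 1292) (nat_lit 36787828817) (nat_lit 224) (nat_lit 5) (nat_lit 240) (nat_lit 5) (nat_lit 241) (nat_lit 5) (nat_lit 373) (nat_lit 372) (nat_lit 155)) (XT.nd (nat_lit 46878) (nat_lit 76) (nat_lit 0) (XT.lf (nat_lit 0) (nat_lit 7951016859) (nat_lit 1216) (nat_lit 130482958503) (nat_lit 1292) (nat_lit 5206981585) (nat_lit 225) (nat_lit 5) (nat_lit 241) (nat_lit 5) (nat_lit 242) (nat_lit 5) (nat_lit 374) (nat_lit 372) (nat_lit 154)) (XT.lf (nat_lit 0) (nat_lit 5721826184) (nat_lit 1216) (nat_lit 102785380976) (nat_lit 1292) (nat_lit 38622251047) (nat_lit 224) (nat_lit 5) (nat_lit 240) (nat_lit 5) (nat_lit 241) (nat_lit 5) (nat_lit 374) (nat_lit 373) (nat_lit 153))))))))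

set_option maxRecDepth 10000000 in
noncomputable def Tp : PT := (PT.nd (nat_lit 7230132) (PT.nd (nat_lit 6715176) (PT.nd (nat_lit 6153576) (PT.nd (nat_lit 5638308) pc0 pc1) (PT.nd (nat_lit 327678) pc2 pc3)) (PT.nd (nat_lit 281502) (PT.nd (nat_lit 141102) pc4 pc5) (PT.nd (nat_lit 139620) pc6 pc7))) (PT.nd (nat_lit 282204) (PT.nd (nat_lit 141804) (PT.nd (nat_lit 93288) pc8 pc9) (PT.nd (nat_lit 92352) pc10 pc11)) (PT.nd (nat_lit 232206) (PT.nd (nat_lit 94146) pc12 pc13) (PT.nd (nat_lit 191178) pc14 pc15))))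

set_option maxRecDepth 10000000 in
noncomputable def Tx : XT := (XT.nd (nat_lit 11844222) (nat_lit 0) (nat_lit 152) XT.nil (XT.nd (nat_lit 5670522) (nat_lit 0) (nat_lit 0) (XT.nd (nat_lit 2619318) (nat_lit 0) (nat_lit 988) (XT.nd (nat_lit 1780428) (nat_lit 0) (nat_lit 456) (XT.nd (nat_lit 1263132) (nat_lit 0) (nat_lit 228) (XT.nd (nat_lit 888498) (nat_lit 0) (nat_lit 152) (XT.nd (nat_lit 608400) (nat_lit 0) (nat_lit 152) (XT.nd (nat_lit 420966) (nat_lit 0) (nat_lit 152) (XT.nd (nat_lit 280800) (nat_lit 0) (nat_lit 0) xc0 xc1) (XT.nd (nat_lit 93990) (nat_lit 0) (nat_lit 0) xc2 xc3)) (XT.nd (nat_lit 140712) (nat_lit 0) (nat_lit 0) (XT.nd (nat_lit 92742) (nat_lit 0) (nat_lit 0) xc4 xc5) (XT.nd (nat_lit 91806) (nat_lit 0) (nat_lit 0) xc6 xc7))) (XT.nd (nat_lit 188526) (nat_lit 0) (nat_lit 0) (XT.nd (nat_lit 94536) (nat_lit 0) (nat_lit 0) (XT.nd (nat_lit 47346) (nat_lit 0) (nat_lit 0) xc8 xc9) (XT.nd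 (nat_lit 47034) (nat_lit 0) (nat_lit 0) xc10 xc11)) (XT.nd (nat_lit 93366) (nat_lit 0) (nat_lit 76) (XT.nd (nat_lit 46722) (nat_lit 0) (nat_lit 76) xc12 xc13) (XT.nd (nat_lit 46410) (nat_lit 0) (nat_lit 0) xc14 xc15)))) (XT.nd (nat_lit 281736) (nat_lit 0) (nat_lit 76) (XT.nd (nat_lit 141570) (nat_lit 0) (nat_lit 0) (XT.nd (nat_lit 92040) (nat_lit 0) (nat_lit 0) (XT.nd (nat_lit 46098) (nat_lit 0) (nat_lit 0) xc16 xc17) (XT.nd (nat_lit 3666) (nat_lit 152) (nat_lit 0) xc18 xc19)) (XT.nd (nat_lit 91104) (nat_lit 0) (nat_lit 0) (XT.nd (nat_lit 45630) (nat_lit 0) (nat_lit 0) xc20 xc21) (XT.nd (nat_lit 3666) (nat_lit 228) (nat_lit 0) xc22 xc23))) (XT.nd (nat_lit 138762) (nat_lit 0) (nat_lit 76) (XT.nd (nat_lit 48828) (nat_lit 0) (nat_lit 76) (XT.nd (nat_lit 45162) (nat_lit 0) (nat_lit 76) xc24 xc25) (XT.nd (nat_lit 45006) (nat_lit 0) (nat_lit 0) xc26 xc27)) (XT.nd (nat_lit 48438) (nat_lit 0) (nat_lit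 0) (XT.nd (nat_lit 3666) (nat_lit 76) (nat_lit 0) xc28 xc29) (XT.nd (nat_lit 44616) (nat_lit 0) (nat_lit 304) xc30 xc31))))) (XT.nd (nat_lit 421278) (nat_lit 0) (nat_lit 228) (XT.nd (nat_lit 232284) (nat_lit 0) (nat_lit 76) (XT.nd (nat_lit 136890) (nat_lit 0) (nat_lit 0) (XT.nd (nat_lit 88920) (nat_lit 0) (nat_lit 0) (XT.nd (nat_lit 44538) (nat_lit 0) (nat_lit 0) xc32 xc33) (XT.nd (nat_lit 3666) (nat_lit 1140) (nat_lit 0) xc34 xc35)) (XT.nd (nat_lit 47736) (nat_lit 0) (nat_lit 0) (XT.nd (nat_lit 3666) (nat_lit 456) (nat_lit 0) xc36 xc37) (XT.nd (nat_lit 43914) (nat_lit 0) (nat_lit 2356) xc38 xc39))) (XT.nd (nat_lit 94770) (nat_lit 0) (nat_lit 76) (XT.nd (nat_lit 47424) (nat_lit 0) (nat_lit 76) (XT.nd (nat_lit 43758) (nat_lit 0) (nat_lit 1672) xc40 xc41) (XT.nd (nat_lit 43602) (nat_lit 0) (nat_lit 1140) xc42 xc43)) (XT.nd (nat_lit 47190) (nat_lit 0) (nat_lit 0) (XT.nd (nat_lit 43446) (nat_lit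 0) (nat_lit 988) xc44 xc45) (XT.nd (nat_lit 43290) (nat_lit 0) (nat_lit 836) xc46 xc47)))) (XT.nd (nat_lit 187980) (nat_lit 0) (nat_lit 152) (XT.nd (nat_lit 93756) (nat_lit 0) (nat_lit 76) (XT.nd (nat_lit 46800) (nat_lit 0) (nat_lit 0) (XT.nd (nat_lit 43134) (nat_lit 0) (nat_lit 912) xc48 xc49) (XT.nd (nat_lit 43212) (nat_lit 0) (nat_lit 912) xc50 xc51)) (XT.nd (nat_lit 47034) (nat_lit 0) (nat_lit 0) (XT.nd (nat_lit 43368) (nat_lit 0) (nat_lit 836) xc52 xc53) (XT.nd (nat_lit 43446) (nat_lit 0) (nat_lit 608) xc54 xc55))) (XT.nd (nat_lit 94614) (nat_lit 0) (nat_lit 76) (XT.nd (nat_lit 47190) (nat_lit 0) (nat_lit 0) (XT.nd (nat_lit 43524) (nat_lit 0) (nat_lit 380) xc56 xc57) (XT.nd (nat_lit 43602) (nat_lit 0) (nat_lit 152) xc58 xc59)) (XT.nd (nat_lit 87438) (nat_lit 0) (nat_lit 76) (XT.nd (nat_lit 43602) (nat_lit 0) (nat_lit 0) xc60 xc61) (XT.nd (nat_lit 3666) (nat_lit 2888) (nat_lit 0) xc62 xc63))))))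 (XT.nd (nat_lit 941226) (nat_lit 0) (nat_lit 1748) (XT.nd (nat_lit 424944) (nat_lit 0) (nat_lit 608) (XT.nd (nat_lit 191022) (nat_lit 0) (nat_lit 380) (XT.nd (nat_lit 95316) (nat_lit 0) (nat_lit 152) (XT.nd (nat_lit 47580) (nat_lit 0) (nat_lit 76) (XT.nd (nat_lit 3666) (nat_lit 1824) (nat_lit 0) xc64 xc65) (XT.nd (nat_lit 3666) (nat_lit 1064) (nat_lit 0) xc66 xc67)) (XT.nd (nat_lit 47736) (nat_lit 0) (nat_lit 76) (XT.nd (nat_lit 3666) (nat_lit 228) (nat_lit 0) xc68 xc69) (XT.nd (nat_lit 44226) (nat_lit 0) (nat_lit 2432) xc70 xc71))) (XT.nd (nat_lit 137124) (nat_lit 0) (nat_lit 152) (XT.nd (nat_lit 48048) (nat_lit 0) (nat_lit 0) (XT.nd (nat_lit 44382) (nat_lit 0) (nat_lit 760) xc72 xc73) (XT.nd (nat_lit 44460) (nat_lit 0) (nat_lit 76) xc74 xc75)) (XT.nd (nat_lit 48360) (nat_lit 0) (nat_lit 76) (XT.nd (nat_lit 3666) (nat_lit 2128) (nat_lit 0) xc76 xc77) (XT.nd (nat_lit 3666) (nat_lit 228) (nat_lit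 0) xc78 xc79)))) (XT.nd (nat_lit 235950) (nat_lit 0) (nat_lit 532) (XT.nd (nat_lit 138294) (nat_lit 0) (nat_lit 304) (XT.nd (nat_lit 48438) (nat_lit 0) (nat_lit 76) (XT.nd (nat_lit 44772) (nat_lit 0) (nat_lit 1064) xc80 xc81) (XT.nd (nat_lit 44850) (nat_lit 0) (nat_lit 152) xc82 xc83)) (XT.nd (nat_lit 48750) (nat_lit 0) (nat_lit 0) (XT.nd (nat_lit 3666) (nat_lit 1216) (nat_lit 0) xc84 xc85) (XT.nd (nat_lit 45162) (nat_lit 0) (nat_lit 1216) xc86 xc87))) (XT.nd (nat_lit 139698) (nat_lit 0) (nat_lit 228) (XT.nd (nat_lit 90558) (nat_lit 0) (nat_lit 76) (XT.nd (nat_lit 45240) (nat_lit 0) (nat_lit 0) xc88 xc89) (XT.nd (nat_lit 3666) (nat_lit 456) (nat_lit 0) xc90 xc91)) (XT.nd (nat_lit 91182) (nat_lit 0) (nat_lit 304) (XT.nd (nat_lit 45474) (nat_lit 0) (nat_lit 152) xc92 xc93) (XT.nd (nat_lit 3666) (nat_lit 836) (nat_lit 0) xc94 xc95))))) (XT.nd (nat_lit 656994) (nat_lit 0) (nat_lit 2280) (XT.nd (nat_lit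 326196) (nat_lit 0) (nat_lit 912) (XT.nd (nat_lit 141336) (nat_lit 0) (nat_lit 380) (XT.nd (nat_lit 91650) (nat_lit 0) (nat_lit 228) (XT.nd (nat_lit 45786) (nat_lit 0) (nat_lit 76) xc96 xc97) (XT.nd (nat_lit 3666) (nat_lit 152) (nat_lit 0) xc98 xc99)) (XT.nd (nat_lit 92196) (nat_lit 0) (nat_lit 380) (XT.nd (nat_lit 46020) (nat_lit 0) (nat_lit 152) xc100 xc101) (XT.nd (nat_lit 46254) (nat_lit 0) (nat_lit 0) xc102 xc103))) (XT.nd (nat_lit 143286) (nat_lit 0) (nat_lit 608) (XT.nd (nat_lit 50076) (nat_lit 0) (nat_lit 228) (XT.nd (nat_lit 46410) (nat_lit 0) (nat_lit 760) xc104 xc105) (XT.nd (nat_lit 46488) (nat_lit 0) (nat_lit 304) xc106 xc107)) (XT.nd (nat_lit 93600) (nat_lit 0) (nat_lit 304) (XT.nd (nat_lit 46722) (nat_lit 0) (nat_lit 152) xc108 xc109) (XT.nd (nat_lit 46878) (nat_lit 0) (nat_lit 304) xc110 xc111)))) (XT.nd (nat_lit 468156) (nat_lit 0) (nat_lit 2964) (XT.nd (nat_lit 232830) (nat_lit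 0) (nat_lit 1444) (XT.nd (nat_lit 94302) (nat_lit 0) (nat_lit 456) (XT.nd (nat_lit 47112) (nat_lit 0) (nat_lit 304) xc112 xc113) (XT.nd (nat_lit 90948) (nat_lit 0) (nat_lit 760) xc114 xc115)) (XT.nd (nat_lit 95316) (nat_lit 0) (nat_lit 380) (XT.nd (nat_lit 47580) (nat_lit 0) (nat_lit 0) xc116 xc117) (XT.nd (nat_lit 91962) (nat_lit 0) (nat_lit 836) xc118 xc119))) (XT.nd (nat_lit 327600) (nat_lit 0) (nat_lit 3420) (XT.nd (nat_lit 140790) (nat_lit 0) (nat_lit 988) (XT.nd (nat_lit 92508) (nat_lit 0) (nat_lit 684) xc120 xc121) (XT.nd (nat_lit 93132) (nat_lit 0) (nat_lit 1140) xc122 xc123)) (XT.nd (nat_lit 188604) (nat_lit 0) (nat_lit 1900) (XT.nd (nat_lit 94068) (nat_lit 0) (nat_lit 456) xc124 xc125) (XT.nd (nat_lit 140712) (nat_lit 0) (nat_lit 2280) xc126 xc127))))))) XT.nil))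

set_option maxRecDepth 10000000 in
noncomputable def Te : XT := XT.nil

set_option maxRecDepth 10000000 in
noncomputable def Tz : ZL := (ZL.cons (nat_lit 76) (nat_lit 3) (nat_lit 126543070708758720211) (ZL.cons (nat_lit 152) (nat_lit 6) (nat_lit 247297744573508585214) (ZL.cons (nat_lit 228) (nat_lit 6) (nat_lit 241800688916877070514) (ZL.cons (nat_lit 304) (nat_lit 3) (nat_lit 120758695426834197874) (ZL.cons (nat_lit 380) (nat_lit 6) (nat_lit 236028780477413980080) (ZL.cons (nat_lit 456) (nat_lit 6) (nat_lit 230818845324801875310) (ZL.cons (nat_lit 532) (nat_lit 3) (nat_lit 115274518822777759196) (ZL.cons (nat_lit 608) (nat_lit 6) (nat_lit 225348413414559165306) (ZL.cons (nat_lit 684) (nat_lit 6) (nat_lit 220414525345779691406) (ZL.cons (nat_lit 760) (nat_lit 3) (nat_lit 110078782825629675741) (ZL.cons (nat_lit 836) (nat_lit 6) (nat_lit 215233942873561243812) (ZL.cons (nat_lit 912) (nat_lit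 6) (nat_lit 210565822170089370610) (ZL.cons (nat_lit 988) (nat_lit 3) (nat_lit 105160549325749285341) (ZL.cons (nat_lit 1064) (nat_lit 6) (nat_lit 205664295431443903746) (ZL.cons (nat_lit 1140) (nat_lit 6) (nat_lit 201252445586682827128) (ZL.cons (nat_lit 1216) (nat_lit 3) (nat_lit 100509687784488651695) (ZL.cons (nat_lit 1292) (nat_lit 6) (nat_lit 196620003249683696682) (ZL.cons (nat_lit 1368) (nat_lit 6) (nat_lit 192455703777564765512) (ZL.cons (nat_lit 1444) (nat_lit 3) (nat_lit 96116866166065466689) (ZL.cons (nat_lit 1520) (nat_lit 6) (nat_lit 188083189331839887782) (ZL.cons (nat_lit 1596) (nat_lit 6) (nat_lit 184158492003571771692) (ZL.cons (nat_lit 1672) (nat_lit 3) (nat_lit 91973545313484061020) (ZL.cons (nat_lit 1748) (nat_lit 6) (nat_lit 180037559808890249798) (ZL.cons (nat_lit 1824) (nat_lit 6) (nat_lit 176345288470896561830) (ZL.cons (nat_lit 1900) (nat_lit 3) (nat_lit 88071976913256066796)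 (ZL.cons (nat_lit 1976) (nat_lit 6) (nat_lit 172861485490753739836) (ZL.cons (nat_lit 2052) (nat_lit 6) (nat_lit 172468403566003189466) (ZL.cons (nat_lit 2128) (nat_lit 6) (nat_lit 169002157717219348504) (ZL.cons (nat_lit 2204) (nat_lit 3) (nat_lit 84405205218426613186) (ZL.cons (nat_lit 2280) (nat_lit 6) (nat_lit 165736963313853982514) (ZL.cons (nat_lit 2356) (nat_lit 6) (nat_lit 165362599575996315494) (ZL.cons (nat_lit 2432) (nat_lit 6) (nat_lit 162116761909954226092) (ZL.cons (nat_lit 2508) (nat_lit 3) (nat_lit 80967072726231340602) (ZL.cons (nat_lit 2584) (nat_lit 6) (nat_lit 159065169253807810334) (ZL.cons (nat_lit 2660) (nat_lit 6) (nat_lit 158708632360610032220) (ZL.cons (nat_lit 2736) (nat_lit 6) (nat_lit 155678380507362528902) (ZL.cons (nat_lit 2812) (nat_lit 3) (nat_lit 77752230035828147838) (ZL.cons (nat_lit 2888) (nat_lit 6) (nat_lit 152836175007355296240) (ZL.cons (nat_lit 2964)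 (nat_lit 6) (nat_lit 152496616061452650416) (ZL.cons (nat_lit 3040) (nat_lit 6) (nat_lit 150175248704635936062) (ZL.cons (nat_lit 3116) (nat_lit 6) (nat_lit 149677938796641468720) (ZL.cons (nat_lit 3192) (nat_lit 3) (nat_lit 74756150143222528061) (ZL.cons (nat_lit 3268) (nat_lit 6) (nat_lit 147041717140877962052) (ZL.cons (nat_lit 3344) (nat_lit 6) (nat_lit 146718327668589727936) (ZL.cons (nat_lit 3420) (nat_lit 6) (nat_lit 144581674375934122070) (ZL.cons (nat_lit 3496) (nat_lit 6) (nat_lit 144108045892129867456) (ZL.cons (nat_lit 3572) (nat_lit 3) (nat_lit 71975147465019022969) (ZL.cons (nat_lit 3648) (nat_lit 6) (nat_lit 142291953257131511056) (ZL.cons (nat_lit 3724) (nat_lit 6) (nat_lit 141675240000454855970) (ZL.cons (nat_lit 3800) (nat_lit 6) (nat_lit 141367250026847013954) (ZL.cons (nat_lit 3876) (nat_lit 6) (nat_lit 139414117598584514880) (ZL.cons (nat_lit 3952) (nat_lit 6) (nat_lit 138963042852104272392)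 (ZL.cons (nat_lit 4028) (nat_lit 3) (nat_lit 69406401920294125947) (ZL.cons (nat_lit 4104) (nat_lit 6) (nat_lit 137319295061752486226) (ZL.cons (nat_lit 4180) (nat_lit 6) (nat_lit 136731949103012814718) (ZL.cons (nat_lit 4256) (nat_lit 6) (nat_lit 136438625318624393748) (ZL.cons (nat_lit 4332) (nat_lit 6) (nat_lit 135385784717252027086) (ZL.cons (nat_lit 4408) (nat_lit 6) (nat_lit 134668656651598613652) (ZL.cons (nat_lit 4484) (nat_lit 6) (nat_lit 134239061654950763662) (ZL.cons (nat_lit 4560) (nat_lit 3) (nat_lit 67047988441039181595) (ZL.cons (nat_lit 4636) (nat_lit 6) (nat_lit 132768252896786873480) (ZL.cons (nat_lit 4712) (nat_lit 6) (nat_lit 132208875793225281564) (ZL.cons (nat_lit 4788) (nat_lit 6) (nat_lit 131929519808093452072) (ZL.cons (nat_lit 4864) (nat_lit 6) (nat_lit 131026213067732804344) (ZL.cons (nat_lit 4940) (nat_lit 6) (nat_lit 130343233957586696308) (ZL.cons (nat_lit 5016)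 (nat_lit 6) (nat_lit 129934095865541124890) (ZL.cons (nat_lit 5092) (nat_lit 3) (nat_lit 64898912326640847935) (ZL.cons (nat_lit 5168) (nat_lit 6) (nat_lit 129438389450557706076) (ZL.cons (nat_lit 5244) (nat_lit 6) (nat_lit 128637694143664439834) (ZL.cons (nat_lit 5320) (nat_lit 6) (nat_lit 128104954045034352296) (ZL.cons (nat_lit 5396) (nat_lit 6) (nat_lit 127838900725861181350) (ZL.cons (nat_lit 5472) (nat_lit 6) (nat_lit 127088195542377744862) (ZL.cons (nat_lit 5548) (nat_lit 6) (nat_lit 126437739247000499118) (ZL.cons (nat_lit 5624) (nat_lit 6) (nat_lit 126048083921242812052) (ZL.cons (nat_lit 5700) (nat_lit 3) (nat_lit 62959150907164535063) (ZL.cons (nat_lit 5776) (nat_lit 6) (nat_lit 125691048871342595454) (ZL.cons (nat_lit 5852) (nat_lit 6) (nat_lit 124928481912396627606) (ZL.cons (nat_lit 5928) (nat_lit 6) (nat_lit 124421110389891782334) (ZL.cons (nat_lit 6004) (nat_lit 6) (nat_lit 124167726276393524288)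 (ZL.cons (nat_lit 6080) (nat_lit 6) (nat_lit 124442927590866050780) (ZL.cons (nat_lit 6156) (nat_lit 6) (nat_lit 123573588571378442832) (ZL.cons (nat_lit 6232) (nat_lit 6) (nat_lit 122954106385304875456) (ZL.cons (nat_lit 6308) (nat_lit 6) (nat_lit 122583006075059459204) (ZL.cons (nat_lit 6384) (nat_lit 3) (nat_lit 61229702034237471542) (ZL.cons (nat_lit 6460) (nat_lit 6) (nat_lit 123340859983613642870) (ZL.cons (nat_lit 6536) (nat_lit 6) (nat_lit 122369833287419711020) (ZL.cons (nat_lit 6612) (nat_lit 6) (nat_lit 121643579040804503544) (ZL.cons (nat_lit 6688) (nat_lit 6) (nat_lit 121160368066990365188) (ZL.cons (nat_lit 6764) (nat_lit 6) (nat_lit 120919049863658690862) (ZL.cons (nat_lit 6840) (nat_lit 6) (nat_lit 121314349976511006620) (ZL.cons (nat_lit 6916) (nat_lit 6) (nat_lit 120486408053189475242) (ZL.cons (nat_lit 6992) (nat_lit 6) (nat_lit 119896425018833696786) (ZL.cons (nat_lit 7068)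 (nat_lit 6) (nat_lit 119542996151933300356) (ZL.cons (nat_lit 7144) (nat_lit 3) (nat_lit 59712639977593071075) (ZL.cons (nat_lit 7220) (nat_lit 6) (nat_lit 120404625583150166048) (ZL.cons (nat_lit 7296) (nat_lit 6) (nat_lit 119479838253441659524) (ZL.cons (nat_lit 7372) (nat_lit 6) (nat_lit 118788167542379557166) (ZL.cons (nat_lit 7448) (nat_lit 6) (nat_lit 118327966614937520636) (ZL.cons (nat_lit 7524) (nat_lit 6) (nat_lit 118098139754621640326) (ZL.cons (nat_lit 7600) (nat_lit 3) (nat_lit 58954815639000919652) (ZL.cons (nat_lit 7676) (nat_lit 6) (nat_lit 117978457500229926972) (ZL.cons (nat_lit 7752) (nat_lit 6) (nat_lit 118185100038871875900) (ZL.cons (nat_lit 7828) (nat_lit 6) (nat_lit 118530050899972071678) (ZL.cons (nat_lit 7904) (nat_lit 6) (nat_lit 119014131395104562392) (ZL.cons (nat_lit 7980) (nat_lit 6) (nat_lit 119638494096876806356) (ZL.cons (nat_lit 8056) (nat_lit 6) (nat_lit 118621473046799752072)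 (ZL.cons (nat_lit 8132) (nat_lit 6) (nat_lit 117832956929350674568) (ZL.cons (nat_lit 8208) (nat_lit 6) (nat_lit 117271068325202314136) (ZL.cons (nat_lit 8284) (nat_lit 6) (nat_lit 116934469404344793726) (ZL.cons (nat_lit 8360) (nat_lit 3) (nat_lit 58411179370388035811) (ZL.cons (nat_lit 8436) (nat_lit 6) (nat_lit 116493286487343670884) (ZL.cons (nat_lit 8512) (nat_lit 6) (nat_lit 116634380242911250604) (ZL.cons (nat_lit 8588) (nat_lit 6) (nat_lit 116916903691559666186) (ZL.cons (nat_lit 8664) (nat_lit 6) (nat_lit 117341529508166651950) (ZL.cons (nat_lit 8740) (nat_lit 6) (nat_lit 117909268706581272150) (ZL.cons (nat_lit 8816) (nat_lit 6) (nat_lit 117028518868763646886) (ZL.cons (nat_lit 8892) (nat_lit 6) (nat_lit 116369784858228311308) (ZL.cons (nat_lit 8968) (nat_lit 6) (nat_lit 115931498260664466996) (ZL.cons (nat_lit 9044) (nat_lit 6) (nat_lit 115712615536554104792) (ZL.cons (nat_lit 9120)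 (nat_lit 3) (nat_lit 57606606454472465742) (ZL.cons (nat_lit 9196) (nat_lit 6) (nat_lit 115285480442284423536) (ZL.cons (nat_lit 9272) (nat_lit 6) (nat_lit 115502455107858469910) (ZL.cons (nat_lit 9348) (nat_lit 6) (nat_lit 115864653512013675478) (ZL.cons (nat_lit 9424) (nat_lit 6) (nat_lit 116372938031902790728) (ZL.cons (nat_lit 9500) (nat_lit 6) (nat_lit 115621970300998907390) (ZL.cons (nat_lit 9576) (nat_lit 6) (nat_lit 115086838297048087932) (ZL.cons (nat_lit 9652) (nat_lit 6) (nat_lit 114766267896231401826) (ZL.cons (nat_lit 9728) (nat_lit 3) (nat_lit 57329747917844880863) (ZL.cons (nat_lit 9804) (nat_lit 6) (nat_lit 114135188970799426062) (ZL.cons (nat_lit 9880) (nat_lit 6) (nat_lit 114283337414145384768) (ZL.cons (nat_lit 9956) (nat_lit 6) (nat_lit 114579987035226221128) (ZL.cons (nat_lit 10032) (nat_lit 6) (nat_lit 115025844142663556182) (ZL.cons (nat_lit 10108) (nat_lit 6) (nat_lit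 114398478418344188964) (ZL.cons (nat_lit 10184) (nat_lit 6) (nat_lit 113981062611140527712) (ZL.cons (nat_lit 10260) (nat_lit 6) (nat_lit 113772602873892563710) (ZL.cons (nat_lit 10336) (nat_lit 3) (nat_lit 56590383519619218380) (ZL.cons (nat_lit 10412) (nat_lit 6) (nat_lit 113256647949244903414) (ZL.cons (nat_lit 10488) (nat_lit 6) (nat_lit 113484471348097652106) (ZL.cons (nat_lit 10564) (nat_lit 6) (nat_lit 113864779672460617952) (ZL.cons (nat_lit 10640) (nat_lit 6) (nat_lit 113355130144888408940) (ZL.cons (nat_lit 10716) (nat_lit 6) (nat_lit 113049825001253469792) (ZL.cons (nat_lit 10792) (nat_lit 3) (nat_lit 56474068662273572945) (ZL.cons (nat_lit 10868) (nat_lit 6) (nat_lit 112419942214431072318) (ZL.cons (nat_lit 10944) (nat_lit 6) (nat_lit 112575498079944328958) (ZL.cons (nat_lit 11020) (nat_lit 6) (nat_lit 112886980182079207136) (ZL.cons (nat_lit 11096) (nat_lit 6) (nat_lit 112489441318075720228)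 (ZL.cons (nat_lit 11172) (nat_lit 6) (nat_lit 112290908234982421180) (ZL.cons (nat_lit 11248) (nat_lit 3) (nat_lit 55885614026596214990) (ZL.cons (nat_lit 11324) (nat_lit 6) (nat_lit 111850903008699219966) (ZL.cons (nat_lit 11400) (nat_lit 6) (nat_lit 112090117577494606092) (ZL.cons (nat_lit 11476) (nat_lit 6) (nat_lit 111799350774032759284) (ZL.cons (nat_lit 11552) (nat_lit 3) (nat_lit 55851252683822892069) (ZL.cons (nat_lit 11628) (nat_lit 6) (nat_lit 111308960908002217728) (ZL.cons (nat_lit 11704) (nat_lit 6) (nat_lit 111472294566791137200) (ZL.cons (nat_lit 11780) (nat_lit 6) (nat_lit 111283215440035614294) (ZL.cons (nat_lit 11856) (nat_lit 3) (nat_lit 55474190719759164689) (ZL.cons (nat_lit 11932) (nat_lit 6) (nat_lit 111032040142800458864) (ZL.cons (nat_lit 12008) (nat_lit 3) (nat_lit 55469903211215955552) (ZL.cons (nat_lit 12084) (nat_lit 6) (nat_lit 110768306080703545660) (ZL.cons (nat_lit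 12160) (nat_lit 1) (nat_lit 18446744073709551617) ZL.nil))))))))))))))))))))))))))))))))))))))))))))))))))))))))))))))))))))))))))))))))))))))))))))))))))))))))))))))))))))))))))))))))))))))))))))))))))))))))))))))))

noncomputable def vl : XL := ⟨(nat_lit 0), (nat_lit 76), (nat_lit 210188212), (nat_lit 152), (nat_lit 133333613), (nat_lit 152), (nat_lit 133333613), (nat_lit 1), (nat_lit 4), (nat_lit 2), (nat_lit 5), (nat_lit 2), (nat_lit 4), (nat_lit 0), (nat_lit 0), (nat_lit 0)⟩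

noncomputable def cp0 : Nat := (nat_lit 1765397246134603219450344041275111414652966541358068355251306124103454138521267707521407476794663373875001770883447331591059243379922110110601317624679271873522529354027823944187173254984675234413870690196737770320098033290053570810520359709426862865776494908621590196515616914902551391694961603027044537011783785710196640829391781136666559382891431656615218811950148387316585748979376257165600196431952159233141645885933649996964502280474931718151381580606549391064708915059826631633276766417303843795440094131739148688361052628109561385711597657184078325548481022019694499872787529786331456795083467586697323777024582493265628549211705010639146608461778279043611112369166227245744410258505582853014717655166060853693966023608516266245533150140453478079249775532216006042358114703432269806793184142771666951423236685760546868016067067401326823931421278568236607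0748415162826410053038338345697124909981482086179988898863092956511159311607379674798932156526870137589807408632534663849612979808631201383613849787357044317110845208132534117235051983728937733466564562811484379320564590040557073057376515628747072751570149473259443754628219712912240938747818067650863944581178869641565309345736032323103429665175611840297102976924280673190234971536042648796358614373895163157873274348341450155967117496295582382760425425138247885203239818338738138438086778385930465071134382522372739217831145302307055572854623738697581908399614011568305120375911049303174216553832381629378851442221301116933243269663169870149338584411978313087071260492481558057078111395362066910597468881479588412697893812670204888019527280971245397634404313612138253987125904818310158359724665750691086219256963688969957732867318712751526848237396106216303297390869139730485046409406459381104905527152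3774359753124077189923428500979881374257361347023640464860813772974466195197380352212592110923485344100086827955283040776482276956758443022411038816086198663172898308008221957101494845238973077491631716579456404771415139170831186518759003649258965325730206167900207439296514676209546718105582833086400344270838419837781545096353719889572884219031367814548624953184805339269964701626406536141010296276025083321564482153135795038931482996284516206991299782131580151816652410323957685789225016135951802133181434160430178804456916561667606738741332899299240506891375780572069034410722262156398664831750858699169893049549962064318102771413945049399706562971608599953737935970944322227158513982976350893264027141449777543747647546983669529294900994758038762335756335269963363587038539265346066929470688895602583276777771286685101426234850857653631742707544297409198373105930243726276551053031071036131153176516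98097226223153552866236472372803312306190347763949824175853352874999541947505083523511558353442465873435102286137020723802408019818026484226839582997314357595978323090173120784754183884442581216036661634503982221801964172458822577920552254680992491824087423580401392212338496014098922939378943157280086335775121651291332746913596760819888359511371751277905166725230033850411677381282286611881837622244134747389933956485319077233409599483979039850597027302857366731197302965172082375226588211036226491190899589259556195749965876703139180392796555206081692977577702764152023627826801282333521932161723645762682642285392109765075958398131812097858786931677626240146159424501269407339423481771617344089286166684250306304810031217686635819220847217394575556707085386364966955028056097018396840955431524486349934142758962418333604279844107176610867074908358102502201117809946178017243140433644572535784035942915267236547448718161394532725867333842237946577931908681691724280193130187179146163147630861387648571801600)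

noncomputable def cp1 : Nat := (nat_lit 9903352581814308620626389587470006822160225607594342075326822998724758075653682347725203350609797664526529935746334662953847424958243648649174996573872355163470829977641852731789288660162968270234987948940426000215442705123766307703581588189518468507094657944041614818898098338286975480899236452481463865777973647715192613861439823953221782591449927895414258821678308156250306392110912184168503590814041098127674747948346605393850573934348580524963190974551472526609905781299113597664354335283644994565652105286157465095586123828047921052449919096626364711338756048168664431711083216366198006260283298036119240061652682182886245498038913118386234911228000862274010843197449944698482250478181094845076814599467310783379312378083203165124610794371135416500094857112412545484203587405244148670490288794609216707024143179331696123679579053329066499103640763970903497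0109472369294868836569008300528159363328088039334782049482280074818697511316526671847554864794941811667372596966478690792591433808414688945061748018507783383991031263026048923647999073121291989758712329736884078993979388412318496051561377067674096890563426702259086318761028868356001270000190722351735814973957602209118468787428893025768786508849262860861363533176620401642466454745134346032370277171044447454687813662572401308133867359987124639324888040160718796524834671806652813812500778225630238745803860962057073961538004206138297049979704439116534689811327087457343452650240108952242218673808514817624513109162902335294924924442077417955188431018665697625381737648271727585419036955587069905169039564370003917791987292977032004572411856918516894452079929359123281112074576509404739880529412056749602322348782092945888837019707722343612484622523467130442829796053353825559330577788360879368970831921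3959962828455942690222155785309864433730410687051655730898888334411673634023369914583461280321289241509552994342178869484233776776287049274851413373077474244248917660335574747610620717783994295454172959940134203695039381685082355724494556065557124399556621971882512680078159655144378010436115477133764466301087434964525835903415504802173226638559213490197657806026147477247174777181636537950648390393343450293874758121312264023916270703940308108053252387757115717814755048919048190453231958417013983074246493590923843941869045002254849060849412553598314085732087091975119439858862560743496381186391049904383303557176843334154918667350379482625061484165817469306454217101807427249956970736076674898153264055641483673586026353526210899448277546478778679951919855335918758534565413021181076054068926326729197064886107707130552770582187551821698730002083375215599426926791024866617354494784655525297794861179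0292427136211166612617708439094331031314774161360044631223209045847647873730479764184414969563368819129981902424518934403634989608384293406898629893750056994524482357598380756654393399857787797221729604918765003469862192454036614547483842501990399671750084637091741381970987051176290138095640132378009052717482809118892412578526054691024331855592043065061698741882088660084245111243774683863603902897754900488161366082148238175121041678972454149419630435313984758936855570290229496514394666215821952135377774437621983384492354421306122198204029187863696487054306235854266325451675294642174830967070700659054286084603828591130245023088584997001294851886445485999525067844343104937274592999257449223419143786702643696574888827350858813965593353692147912184843778177186469087886784011026218871564743628713184599684588404968973054127145187955285947106361129443670586315942841569156455303527745882396031298777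2588091043780797767833863527450805931056754924028460896696306100038075119062718267058168586941354635980491763336155365497463983995521838484062971756132642269132615168651395013783795047439135066310790802208028922440688552228714650551936925109640752138271382510195487093505914848999247872959454662704384798472917481689465626667640273215931016151097883311729556896408281254938250878219527434097510380131076083735896498636447595512415290236893560804032452878366136312189995206955022622462924760803903299646087194312033511640781745205121038062173484213906005183589266817010650847062145373761376482750359898488505670232015492305677313200750396512238757533871843215089342406915009508351980140795702025518299348311084432210934989100990844318940141821100914343056345349000689172245213354616283241769660214585984851862165716837996340735576803327976347383719312510886382297464585054024823709994144940846421655931345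7100920548565722263657717692740450138390869240686259046656525187077794315014236929968003315813287670623900909825378384457286394208466312810739849544931950548481709762006317449185350171528125989180497873161570868039733763447918318421320858105161324268839484056526527352313572751288840075151415162780585955413847094802114549023711771130535001074586740636076050224460524843496846781281300210627208997539393611518454110874668782592543702143217779425049696935228197028567191314593624576481826222860763781052274132557444943379401469068154781444234930135449364362047158407181161418440379615064922924487931915166299027469123519254256787025403057711520443689806757068118310028947641518120342139277402832321304391445916044560478595303661714694000658924682236537096269574017063610612747663242849246928009432338817524864344375467653855152882183570338627382275706437709129762710194456620539615157226469303584304481184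9343386227991729753936723735206317547412945410042678599869060088872449475430647054954143448382002174550730969509412715806986306336985801077929424307853712827424299494031012857945790720825673193422150957748565402826474440127566936115761092033468712572810393421934649754063783239357458554206915005999321924393928984912934718648474876039918347043611863794449750576535866252263890757167243049806905357658704545205017871726673774842030563130622685530809543169390010964200317768203158326779751220159090610876625707159462278340495037130225282449932199165371683838276284572375348324767411608776440418780134982615555130219733953474268579405981990321239403891892576590369400454096699859838805581181546397859209676566199954702714357771030747102535088053197844898327561976489187530301871407387465122920069021752388830926447129500321217567583922974100885183867667949166173373359409796697644982043437271366419055630704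8186877908264549198602190605663866452736903653718935876887932243571035283774645111215938952577098474072937902950675625512125701886058988555593496799700080018796440789246403629405057183683674162767464571482509135879690243481111095823700077369597898920751524952572864220737313657309123135403118841572741937190408038379771882842842814650722812642258831448714841088934719798496096552528849683520986366538222465657038305336459298319193746173505968311061454596487796654893311113897043833280959493478199009526496462646735429310674918196609432496866536370676486675333481737969353748127437039288524226112219378896403951120248108204953631267130648027997428705021994051440492549408239647521200321846335930542936854504666744490247134579285058961359002678536475303351463214045287812972342110188084737150023526416775546709319177304710382829295525124674582841633789030966711661486716024358594279625511304749403262052941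9544997732233816991786935502721337100241794139447553771358797552891597560481675971633708262547829861155756876220243291433325865912859900066601000811048223387305845434883433297451970658357260106808393116776660675738686560056180853010535690863317022638232131745731833161863976731360785948438500386275432195818278789778229963644128663325347080874258735658049131143778744507723714923940935255515732484461173693300262317064847470468419757423247020221318128415546907801671931994094202459658059858322516942820518972948996380150077142821826277729795300740267413507273569903284988206188221322577253227493269023304085345237514022538764099888207800249387619473965202693258300346821542699526915144418510209972553480833260309671914386557506532841135381123403975402480622011829363764320210388845250191914388547188200353760308943149860097776645431370882921409739171287047517524458285640126380750479043296699313822217501796268220532070785542235103141361653216039170862449186464675218213538008299253534029276068566917292004097310226485451363337123790309715420488856013350542982156232539045391847329257502992504845574804116990378887066657543122666658877891874446217814446112363056534497866330172263392263931094302727595698387514143669105983488)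

noncomputable def rc0 : Nat := (nat_lit 9903352581814308620626389587470006822160225607594342075326822998724758075653682347725203350609797664526529935746334662953847424958243648649174996573872355163470829977641852731789288660162968270234987948940426000215442705123766307703581588189518468507094657944041614818898098338286975480899236452481463865777973647715192613861439823953221782591449927895414258821678308156250306392110912184168503590814041098127674747948346605393850573934348580524963190974551472526609905781299113597664354335283644994565652105286157465095586123828047921052449919096626364711338756048168664431711083216366198006260283298036119240061652682182886245498038913118386234911228000862274010843197449944698482250478181094845076814599467310783379312378083203165124610794371135416500094857112412545484203587405244148670490288794609216707024143179331696123679579053329066499103640763970903497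0109472369294868836569008300528159363328088039334782049482280074818697511316526671847554864794941811667372596966478690792591433808414688945061748018507783383991031263026048923647999073121291989758712329736884078993979388412318496051561377067674096890563426702259086318761028868356001270000190722351735814973957602209118468787428893025768786508849262860861363533176620401642466454745134346032370277171044447454687813662572401308133867359987124639324888040160718796524834671806652813812500778225630238745803860962057073961538004206138297049979704439116534689811327087457343452650240108952242218673808514817624513109162902335294924924442077417955188431018665697625381737648271727585419036955587069905169039564370003917791987292977032004572411856918516894452079929359123281112074576509404739880529412056749602322348782092945888837019707722343612484622523467130442829796053353825559330577788360879368970831921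3959962828455942690222155785309864433730410687051655730898888334411673634023369914583461280321289241509552994342178869484233776776287049274851413373077474244248917660335574747610620717783994295454172959940134203695039381685082355724494556065557124399556621971882512680078159655144378010436115477133764466301087434964525835903415504802173226638559213490197657806026147477247174777181636537950648390393343450293874758121312264023916270703940308108053252387757115717814755048919048190453231958417013983074246493590923843941869045002254849060849412553598314085732087091975119439858862560743496381186391049904383303557176843334154918667350379482625061484165817469306454217101807427249956970736076674898153264055641483673586026353526210899448277546478778679951919855335918758534565413021181076054068926326729197064886107707130552770582187551821698730002083375215599426926791024866617354494784655525297794861179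0292427136211166612617708439094331031314774161360044631223209045847647873730479764184414969563368819129981902424518934403634989608384293406898629893750056994524482357598380756654393399857787797221729604918765003469862192454036614547483842501990399671750084637091741381970987051176290138095640132378009052717482809118892412578526054691024331855592043065061698741882088660084245111243774683863603902897754900488161366082148238175121041678972454149419630435313984758936855570290229496514394666215821952135377774437621983384492354421306122198204029187863696487054306235854266325451675294642174830967070700659054286084603828591130245023088584997001294851886445485999525067844343104937274592999257449223419143786702643696574888827350858813965593353692147912184843778177186469087886784011026218871564743628713184599684588404968973054127145187955285947106361129443670586315942841569156455303527745882396031298777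2588091043780797767833863527450805931056754924028460896696306100038075119062718267058168586941354635980491763336155365497463983995521838484062971756132642269132615168651395013783795047439135066310790802208028922440688552228714650551936925109640752138271382510195487093505914848999247872959454662704384798472917481689465626667640273215931016151097883311729556896408281254938250878219527434097510380131076083735896498636447595512415290236893560804032452878366136312189995206955022622462924760803903299646087194312033511640781745205121038062173484213906005183589266817010650847062145373761376482750359898488505670232015492305677313200750396512238757533871843215089342406915009508351980140795702025518299348311084432210934989100990844318940141821100914343056345349000689172245213354616283241769660214585984851862165716837996340735576803327976347383719312510886382297464585054024823709994144940846421655931345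7100920548565722263657717692740450138390869240686259046656525187077794315014236929968003315813287670623900909825378384457286394208466312810739849544931950548481709762006317449185350171528125989180497873161570868039733763447918318421320858105161324268839484056526527352313572751288840075151415162780585955413847094802114549023711771130535001074586740636076050224460524843496846781281300210627208997539393611518454110874668782592543702143217779425049696935228197028567191314593624576481826222860763781052274132557444943379401469068154781444234930135449364362047158407181161418440379615064922924487931915166299027469123519254256787025403057711520443689806757068118310028947641518120342139277402832321304391445916044560478595303661714694000658924682236537096269574017063610612747663242849246928009432338817524864344375467653855152882183570338627382275706437709129762710194456620539615157226469303584304481184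9343386227991729753936723735206317547412945410042678599869060088872449475430647054954143448382002174550730969509412715806986306336985801077929424307853712827424299494031012857945790720825673193422150957748565402826474440127566936115761092033468712572810393421934649754063783239357458554206915005999321924393928984912934718648474876039918347043611863794449750576535866252263890757167243049806905357658704545205017871726673774842030563130622685530809543169390010964200317768203158326779751220159090610876625707159462278340495037130225282449932199165371683838276284572375348324767411608776440418780134982615555130219733953474268579405981990321239403891892576590369400454096699859838805581181546397859209676566199954702714357771030747102535088053197844898327561976489187530301871407387465122920069021752388830926447129500321217567583922974100885183867667949166173373359409796697644982043437271366419055630704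8186877908264549198602190605663866452736903653718935876887932243571035283774645111215938952577098474072937902950675625512125701886058988555593496799700080018796440789246403629405057183683674162767464571482509135879690243481111095823700077369597898920751524952572864220737313657309123135403118841572741937190408038379771882842842814650722812642258831448714841088934719798496096552528849683520986366538222465657038305336459298319193746173505968311061454596487796654893311113897043833280959493478199009526496462646735429310674918196609432496866536370676486675333481737969353748127437039288524226112219378896403951120248108204953631267130648027997428705021994051440492549408239647521200321846335930542936854504666744490247134579285058961359002678536475303351463214045287812972342110188084737150023526416775546709319177304710382829295525124674582841633789030966711661486716024358594279625511304749403262052941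9544997732233816991786935502721337100241794139447553771358797552891597560481675971633708262547829861155756876220243291433325865912859900066601000811048223387305845434883433297451970658357260106808393116776660675738686560056180853010535690863317022638232131745731833161863976731360785948438500386275432195818278789778229963644128663325347080874258735658049131143778744507723714923940935255515732484461173693300262317064847470468419757423247020221318128415546907801671931994094202459658059858322516942820518972948996380150077142821826277729795300740267413507273569903284988206188221322577253227493269023304085345237514022538764099888207800249387619473965202693258300346821542699526915144418510209972553480833260309671914386557506532841135381123403975402480622011829363764320210388845250191914388547188200353760308943149860097776645431370882921409739171287047517524458285640126380750479043296699313822217501796268220532070785542235103141361653216039170862449186464675218213538008299253534029276068566917292004097310226485451363337123790309715420488856013350542982156232539045391847329257502992504845574804116990378887066657543122666658877891874446217814446112363056534497866330172263392263931094302727595698387514143669105983488)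

end Vale.Agent.Lib.P154.PChain.BI.S5
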