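import Vale.Agent.Lib.P154.PChain.BI.R5_0

set_option linter.all false

namespace Vale.Agent.Lib.P154.PChain.BI.S6

open Vale.Agent.Lib.P154.Chain

noncomputable def pc0 : PT := (PT.nd (nat_lit 3858270) (PT.nd (nat_lit 3530514) (PT.nd (nat_lit 3389958) (PT.nd (nat_lit 3296280) (PT.nd (nat_lit 3249402) (PT.nd (nat_lit 3202602) PT.nil (PT.lf (nat_lit 76) (nat_lit 3) (nat_lit 1) (nat_lit 1) (nat_lit 191) (nat_lit 68) (nat_lit 191))) (PT.nd (nat_lit 78) (PT.lf (nat_lit 152) (nat_lit 6) (nat_lit 2) (nat_lit 3) (nat_lit 190) (nat_lit 69) (nat_lit 191)) (PT.lf (nat_lit 152) (nat_lit 6) (nat_lit 2) (nat_lit 1) (nat_lit 191) (nat_lit 69) (nat_lit 190)))) (PT.nd (nat_lit 46878) (PT.nd (nat_lit 46800) (PT.lf (nat_lit 304) (nat_lit 3) (nat_lit 4) (nat_lit 1) (nat_lit 190) (nat_lit 70) (nat_lit 190)) (PT.lf (nat_lit 380) (nat_lit 6) (nat_lit 5) (nat_lit 3) (nat_lit 189) (nat_lit 71) (nat_lit 190))) (PT.nd (nat_lit 46722)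 (PT.lf (nat_lit 380) (nat_lit 6) (nat_lit 5) (nat_lit 1) (nat_lit 190) (nat_lit 71) (nat_lit 189)) (PT.lf (nat_lit 456) (nat_lit 6) (nat_lit 6) (nat_lit 3) (nat_lit 188) (nat_lit 72) (nat_lit 190))))) (PT.nd (nat_lit 93600) (PT.nd (nat_lit 46800) (PT.nd (nat_lit 78) (PT.lf (nat_lit 532) (nat_lit 3) (nat_lit 7) (nat_lit 1) (nat_lit 189) (nat_lit 72) (nat_lit 189)) (PT.lf (nat_lit 456) (nat_lit 6) (nat_lit 6) (nat_lit 1) (nat_lit 190) (nat_lit 72) (nat_lit 188))) (PT.nd (nat_lit 78) (PT.lf (nat_lit 608) (nat_lit 6) (nat_lit 8) (nat_lit 3) (nat_lit 188) (nat_lit 73) (nat_lit 189)) (PT.lf (nat_lit 608) (nat_lit 6) (nat_lit 8) (nat_lit 1) (nat_lit 189) (nat_lit 73) (nat_lit 188)))) (PT.nd (nat_lit 156) (PT.nd (nat_lit 78) (PT.lf (nat_lit 684) (nat_lit 6) (nat_lit 9) (nat_lit 3) (nat_lit 187) (nat_lit 74) (nat_lit 189)) (PT.lf (nat_lit 760) (nat_lit 3) (nat_lit 10) (nat_lit 1) (nat_lit 188) (nat_lit 74) (nat_lit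 188))) (PT.nd (nat_lit 46722) (PT.lf (nat_lit 684) (nat_lit 6) (nat_lit 9) (nat_lit 1) (nat_lit 189) (nat_lit 74) (nat_lit 187)) (PT.lf (nat_lit 836) (nat_lit 6) (nat_lit 11) (nat_lit 3) (nat_lit 187) (nat_lit 75) (nat_lit 188)))))) (PT.nd (nat_lit 140556) (PT.nd (nat_lit 93600) (PT.nd (nat_lit 46800) (PT.nd (nat_lit 46722) (PT.lf (nat_lit 836) (nat_lit 6) (nat_lit 11) (nat_lit 1) (nat_lit 188) (nat_lit 75) (nat_lit 187)) (PT.lf (nat_lit 912) (nat_lit 6) (nat_lit 12) (nat_lit 3) (nat_lit 186) (nat_lit 76) (nat_lit 188))) (PT.nd (nat_lit 78) (PT.lf (nat_lit 988) (nat_lit 3) (nat_lit 13) (nat_lit 1) (nat_lit 187) (nat_lit 76) (nat_lit 187)) (PT.lf (nat_lit 912) (nat_lit 6) (nat_lit 12) (nat_lit 1) (nat_lit 188) (nat_lit 76) (nat_lit 186)))) (PT.nd (nat_lit 46800) (PT.nd (nat_lit 78) (PT.lf (nat_lit 1064) (nat_lit 6) (nat_lit 14) (nat_lit 3) (nat_lit 186) (nat_lit 77) (nat_lit 187)) (PT.lf (nat_lit 1064) (nat_lit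 6) (nat_lit 14) (nat_lit 1) (nat_lit 187) (nat_lit 77) (nat_lit 186))) (PT.nd (nat_lit 78) (PT.lf (nat_lit 1140) (nat_lit 6) (nat_lit 15) (nat_lit 3) (nat_lit 185) (nat_lit 78) (nat_lit 187)) (PT.lf (nat_lit 1216) (nat_lit 3) (nat_lit 16) (nat_lit 1) (nat_lit 186) (nat_lit 78) (nat_lit 186))))) (PT.nd (nat_lit 93600) (PT.nd (nat_lit 46800) (PT.nd (nat_lit 46722) (PT.lf (nat_lit 1140) (nat_lit 6) (nat_lit 15) (nat_lit 1) (nat_lit 187) (nat_lit 78) (nat_lit 185)) (PT.lf (nat_lit 1292) (nat_lit 6) (nat_lit 17) (nat_lit 3) (nat_lit 185) (nat_lit 79) (nat_lit 186))) (PT.nd (nat_lit 46722) (PT.lf (nat_lit 1292) (nat_lit 6) (nat_lit 17) (nat_lit 1) (nat_lit 186) (nat_lit 79) (nat_lit 185)) (PT.lf (nat_lit 1368) (nat_lit 6) (nat_lit 18) (nat_lit 3) (nat_lit 184) (nat_lit 80) (nat_lit 186)))) (PT.nd (nat_lit 46800) (PT.nd (nat_lit 78) (PT.lf (nat_lit 1444) (nat_lit 3) (nat_lit 19) (nat_lit 1) (nat_lit 185) (nat_lit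 80) (nat_lit 185)) (PT.lf (nat_lit 1368) (nat_lit 6) (nat_lit 18) (nat_lit 1) (nat_lit 186) (nat_lit 80) (nat_lit 184))) (PT.nd (nat_lit 78) (PT.lf (nat_lit 1520) (nat_lit 6) (nat_lit 20) (nat_lit 3) (nat_lit 184) (nat_lit 81) (nat_lit 185)) (PT.lf (nat_lit 1520) (nat_lit 6) (nat_lit 20) (nat_lit 1) (nat_lit 185) (nat_lit 81) (nat_lit 184))))))) (PT.nd (nat_lit 234390) (PT.nd (nat_lit 140556) (PT.nd (nat_lit 46956) (PT.nd (nat_lit 156) (PT.nd (nat_lit 78) (PT.lf (nat_lit 1596) (nat_lit 6) (nat_lit 21) (nat_lit 3) (nat_lit 183) (nat_lit 82) (nat_lit 185)) (PT.lf (nat_lit 1672) (nat_lit 3) (nat_lit 22) (nat_lit 1) (nat_lit 184) (nat_lit 82) (nat_lit 184))) (PT.nd (nat_lit 46722) (PT.lf (nat_lit 1596) (nat_lit 6) (nat_lit 21) (nat_lit 1) (nat_lit 185) (nat_lit 82) (nat_lit 183)) (PT.lf (nat_lit 1748) (nat_lit 6) (nat_lit 23) (nat_lit 3) (nat_lit 183) (nat_lit 83) (nat_lit 184)))) (PT.nd (nat_lit 46800) (PT.nd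 (nat_lit 46722) (PT.lf (nat_lit 1748) (nat_lit 6) (nat_lit 23) (nat_lit 1) (nat_lit 184) (nat_lit 83) (nat_lit 183)) (PT.lf (nat_lit 1824) (nat_lit 6) (nat_lit 24) (nat_lit 3) (nat_lit 182) (nat_lit 84) (nat_lit 184))) (PT.nd (nat_lit 78) (PT.lf (nat_lit 1900) (nat_lit 3) (nat_lit 25) (nat_lit 1) (nat_lit 183) (nat_lit 84) (nat_lit 183)) (PT.lf (nat_lit 1824) (nat_lit 6) (nat_lit 24) (nat_lit 1) (nat_lit 184) (nat_lit 84) (nat_lit 182))))) (PT.nd (nat_lit 46956) (PT.nd (nat_lit 46800) (PT.nd (nat_lit 78) (PT.lf (nat_lit 1976) (nat_lit 6) (nat_lit 26) (nat_lit 3) (nat_lit 182) (nat_lit 85) (nat_lit 183)) (PT.lf (nat_lit 1976) (nat_lit 6) (nat_lit 26) (nat_lit 1) (nat_lit 183) (nat_lit 85) (nat_lit 182))) (PT.nd (nat_lit 78) (PT.lf (nat_lit 2052) (nat_lit 6) (nat_lit 27) (nat_lit 3) (nat_lit 181) (nat_lit 86) (nat_lit 183)) (PT.lf (nat_lit 2128) (nat_lit 3) (nat_lit 28) (nat_lit 1) (nat_lit 182) (nat_lit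 86) (nat_lit 182)))) (PT.nd (nat_lit 46722) (PT.nd (nat_lit 46644) (PT.lf (nat_lit 2052) (nat_lit 6) (nat_lit 27) (nat_lit 1) (nat_lit 183) (nat_lit 86) (nat_lit 181)) (PT.lf (nat_lit 2204) (nat_lit 6) (nat_lit 29) (nat_lit 3) (nat_lit 180) (nat_lit 87) (nat_lit 183))) (PT.nd (nat_lit 78) (PT.lf (nat_lit 2280) (nat_lit 6) (nat_lit 30) (nat_lit 3) (nat_lit 181) (nat_lit 87) (nat_lit 182)) (PT.lf (nat_lit 2280) (nat_lit 6) (nat_lit 30) (nat_lit 1) (nat_lit 182) (nat_lit 87) (nat_lit 181)))))) (PT.nd (nat_lit 140322) (PT.nd (nat_lit 93444) (PT.nd (nat_lit 46722) (PT.nd (nat_lit 46644) (PT.lf (nat_lit 2204) (nat_lit 6) (nat_lit 29) (nat_lit 1) (nat_lit 183) (nat_lit 87) (nat_lit 180)) (PT.lf (nat_lit 2356) (nat_lit 6) (nat_lit 31) (nat_lit 3) (nat_lit 180) (nat_lit 88) (nat_lit 182))) (PT.nd (nat_lit 78) (PT.lf (nat_lit 2432) (nat_lit 3) (nat_lit 32) (nat_lit 1) (nat_lit 181) (nat_lit 88) (nat_lit 181)) (PT.lf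 (nat_lit 2356) (nat_lit 6) (nat_lit 31) (nat_lit 1) (nat_lit 182) (nat_lit 88) (nat_lit 180)))) (PT.nd (nat_lit 156) (PT.nd (nat_lit 78) (PT.lf (nat_lit 2508) (nat_lit 6) (nat_lit 33) (nat_lit 3) (nat_lit 179) (nat_lit 89) (nat_lit 182)) (PT.lf (nat_lit 2584) (nat_lit 6) (nat_lit 34) (nat_lit 3) (nat_lit 180) (nat_lit 89) (nat_lit 181))) (PT.nd (nat_lit 78) (PT.lf (nat_lit 2584) (nat_lit 6) (nat_lit 34) (nat_lit 1) (nat_lit 181) (nat_lit 89) (nat_lit 180)) (PT.lf (nat_lit 2508) (nat_lit 6) (nat_lit 33) (nat_lit 1) (nat_lit 182) (nat_lit 89) (nat_lit 179))))) (PT.nd (nat_lit 46878) (PT.nd (nat_lit 156) (PT.nd (nat_lit 78) (PT.lf (nat_lit 2660) (nat_lit 6) (nat_lit 35) (nat_lit 3) (nat_lit 179) (nat_lit 90) (nat_lit 181)) (PT.lf (nat_lit 2736) (nat_lit 3) (nat_lit 36) (nat_lit 1) (nat_lit 180) (nat_lit 90) (nat_lit 180))) (PT.nd (nat_lit 46644) (PT.lf (nat_lit 2660) (nat_lit 6) (nat_lit 35) (nat_lit 1) (nat_lit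 181) (nat_lit 90) (nat_lit 179)) (PT.lf (nat_lit 2812) (nat_lit 6) (nat_lit 37) (nat_lit 3) (nat_lit 178) (nat_lit 91) (nat_lit 181)))) (PT.nd (nat_lit 156) (PT.nd (nat_lit 78) (PT.lf (nat_lit 2888) (nat_lit 6) (nat_lit 38) (nat_lit 3) (nat_lit 179) (nat_lit 91) (nat_lit 180)) (PT.lf (nat_lit 2888) (nat_lit 6) (nat_lit 38) (nat_lit 1) (nat_lit 180) (nat_lit 91) (nat_lit 179))) (PT.nd (nat_lit 46644) (PT.lf (nat_lit 2812) (nat_lit 6) (nat_lit 37) (nat_lit 1) (nat_lit 181) (nat_lit 91) (nat_lit 178)) (PT.lf (nat_lit 2964) (nat_lit 6) (nat_lit 39) (nat_lit 3) (nat_lit 178) (nat_lit 92) (nat_lit 180))))))))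
noncomputable def pc1 : PT := (PT.nd (nat_lit 374634) (PT.nd (nat_lit 187434) (PT.nd (nat_lit 93756) (PT.nd (nat_lit 46878) (PT.nd (nat_lit 46722) (PT.nd (nat_lit 78) (PT.lf (nat_lit 3040) (nat_lit 3) (nat_lit 40) (nat_lit 1) (nat_lit 179) (nat_lit 92) (nat_lit 179)) (PT.lf (nat_lit 2964) (nat_lit 6) (nat_lit 39) (nat_lit 1) (nat_lit 180) (nat_lit 92) (nat_lit 178))) (PT.nd (nat_lit 78) (PT.lf (nat_lit 3116) (nat_lit 6) (nat_lit 41) (nat_lit 3) (nat_lit 177) (nat_lit 93) (nat_lit 180)) (PT.lf (nat_lit 3192) (nat_lit 6) (nat_lit 42) (nat_lit 3) (nat_lit 178) (nat_lit 93) (nat_lit 179)))) (PT.nd (nat_lit 46722) (PT.nd (nat_lit 78) (PT.lf (nat_lit 3192) (nat_lit 6) (nat_lit 42) (nat_lit 1) (nat_lit 179) (nat_lit 93) (nat_lit 178)) (PT.lf (nat_lit 3116) (nat_lit 6) (nat_lit 41) (nat_lit 1) (nat_lit 180) (nat_lit 93) (nat_lit 177))) (PT.nd (nat_lit 78) (PT.lf (nat_lit 3268) (nat_lit 6) (nat_lit 43) (nat_lit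 3) (nat_lit 177) (nat_lit 94) (nat_lit 179)) (PT.lf (nat_lit 3344) (nat_lit 3) (nat_lit 44) (nat_lit 1) (nat_lit 178) (nat_lit 94) (nat_lit 178))))) (PT.nd (nat_lit 46878) (PT.nd (nat_lit 46722) (PT.nd (nat_lit 46644) (PT.lf (nat_lit 3268) (nat_lit 6) (nat_lit 43) (nat_lit 1) (nat_lit 179) (nat_lit 94) (nat_lit 177)) (PT.lf (nat_lit 3420) (nat_lit 6) (nat_lit 45) (nat_lit 3) (nat_lit 176) (nat_lit 95) (nat_lit 179))) (PT.nd (nat_lit 78) (PT.lf (nat_lit 3496) (nat_lit 6) (nat_lit 46) (nat_lit 3) (nat_lit 177) (nat_lit 95) (nat_lit 178)) (PT.lf (nat_lit 3496) (nat_lit 6) (nat_lit 46) (nat_lit 1) (nat_lit 178) (nat_lit 95) (nat_lit 177)))) (PT.nd (nat_lit 46644) (PT.nd (nat_lit 46566) (PT.lf (nat_lit 3420) (nat_lit 6) (nat_lit 45) (nat_lit 1) (nat_lit 179) (nat_lit 95) (nat_lit 176)) (PT.lf (nat_lit 3572) (nat_lit 6) (nat_lit 47) (nat_lit 3) (nat_lit 175) (nat_lit 96) (nat_lit 179))) (PT.nd (nat_lit 78) (PT.lf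 (nat_lit 3648) (nat_lit 6) (nat_lit 48) (nat_lit 3) (nat_lit 176) (nat_lit 96) (nat_lit 178)) (PT.lf (nat_lit 3724) (nat_lit 3) (nat_lit 49) (nat_lit 1) (nat_lit 177) (nat_lit 96) (nat_lit 177)))))) (PT.nd (nat_lit 93600) (PT.nd (nat_lit 46800) (PT.nd (nat_lit 46644) (PT.nd (nat_lit 78) (PT.lf (nat_lit 3648) (nat_lit 6) (nat_lit 48) (nat_lit 1) (nat_lit 178) (nat_lit 96) (nat_lit 176)) (PT.lf (nat_lit 3572) (nat_lit 6) (nat_lit 47) (nat_lit 1) (nat_lit 179) (nat_lit 96) (nat_lit 175))) (PT.nd (nat_lit 78) (PT.lf (nat_lit 3800) (nat_lit 6) (nat_lit 50) (nat_lit 3) (nat_lit 175) (nat_lit 97) (nat_lit 178)) (PT.lf (nat_lit 3876) (nat_lit 6) (nat_lit 51) (nat_lit 3) (nat_lit 176) (nat_lit 97) (nat_lit 177)))) (PT.nd (nat_lit 46644) (PT.nd (nat_lit 78) (PT.lf (nat_lit 3876) (nat_lit 6) (nat_lit 51) (nat_lit 1) (nat_lit 177) (nat_lit 97) (nat_lit 176)) (PT.lf (nat_lit 3800) (nat_lit 6) (nat_lit 50) (nat_lit 1)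 (nat_lit 178) (nat_lit 97) (nat_lit 175))) (PT.nd (nat_lit 78) (PT.lf (nat_lit 3952) (nat_lit 6) (nat_lit 52) (nat_lit 3) (nat_lit 174) (nat_lit 98) (nat_lit 178)) (PT.lf (nat_lit 4028) (nat_lit 6) (nat_lit 53) (nat_lit 3) (nat_lit 175) (nat_lit 98) (nat_lit 177))))) (PT.nd (nat_lit 46800) (PT.nd (nat_lit 156) (PT.nd (nat_lit 78) (PT.lf (nat_lit 4104) (nat_lit 3) (nat_lit 54) (nat_lit 1) (nat_lit 176) (nat_lit 98) (nat_lit 176)) (PT.lf (nat_lit 4028) (nat_lit 6) (nat_lit 53) (nat_lit 1) (nat_lit 177) (nat_lit 98) (nat_lit 175))) (PT.nd (nat_lit 46566) (PT.lf (nat_lit 3952) (nat_lit 6) (nat_lit 52) (nat_lit 1) (nat_lit 178) (nat_lit 98) (nat_lit 174)) (PT.lf (nat_lit 4180) (nat_lit 6) (nat_lit 55) (nat_lit 3) (nat_lit 174) (nat_lit 99) (nat_lit 177)))) (PT.nd (nat_lit 156) (PT.nd (nat_lit 78) (PT.lf (nat_lit 4256) (nat_lit 6) (nat_lit 56) (nat_lit 3) (nat_lit 175) (nat_lit 99) (nat_lit 176)) (PT.lf (nat_lit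 4256) (nat_lit 6) (nat_lit 56) (nat_lit 1) (nat_lit 176) (nat_lit 99) (nat_lit 175))) (PT.nd (nat_lit 46566) (PT.lf (nat_lit 4180) (nat_lit 6) (nat_lit 55) (nat_lit 1) (nat_lit 177) (nat_lit 99) (nat_lit 174)) (PT.lf (nat_lit 4332) (nat_lit 6) (nat_lit 57) (nat_lit 3) (nat_lit 173) (nat_lit 100) (nat_lit 177))))))) (PT.nd (nat_lit 140634) (PT.nd (nat_lit 93600) (PT.nd (nat_lit 46800) (PT.nd (nat_lit 156) (PT.nd (nat_lit 78) (PT.lf (nat_lit 4408) (nat_lit 6) (nat_lit 58) (nat_lit 3) (nat_lit 174) (nat_lit 100) (nat_lit 176)) (PT.lf (nat_lit 4484) (nat_lit 3) (nat_lit 59) (nat_lit 1) (nat_lit 175) (nat_lit 100) (nat_lit 175))) (PT.nd (nat_lit 78) (PT.lf (nat_lit 4408) (nat_lit 6) (nat_lit 58) (nat_lit 1) (nat_lit 176) (nat_lit 100) (nat_lit 174)) (PT.lf (nat_lit 4332) (nat_lit 6) (nat_lit 57) (nat_lit 1) (nat_lit 177) (nat_lit 100) (nat_lit 173)))) (PT.nd (nat_lit 156) (PT.nd (nat_lit 78) (PT.lf (nat_lit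 4560) (nat_lit 6) (nat_lit 60) (nat_lit 3) (nat_lit 173) (nat_lit 101) (nat_lit 176)) (PT.lf (nat_lit 4636) (nat_lit 6) (nat_lit 61) (nat_lit 3) (nat_lit 174) (nat_lit 101) (nat_lit 175))) (PT.nd (nat_lit 78) (PT.lf (nat_lit 4636) (nat_lit 6) (nat_lit 61) (nat_lit 1) (nat_lit 175) (nat_lit 101) (nat_lit 174)) (PT.lf (nat_lit 4560) (nat_lit 6) (nat_lit 60) (nat_lit 1) (nat_lit 176) (nat_lit 101) (nat_lit 173))))) (PT.nd (nat_lit 312) (PT.nd (nat_lit 156) (PT.nd (nat_lit 78) (PT.lf (nat_lit 4712) (nat_lit 6) (nat_lit 62) (nat_lit 3) (nat_lit 172) (nat_lit 102) (nat_lit 176)) (PT.lf (nat_lit 4788) (nat_lit 6) (nat_lit 63) (nat_lit 3) (nat_lit 173) (nat_lit 102) (nat_lit 175))) (PT.nd (nat_lit 78) (PT.lf (nat_lit 4864) (nat_lit 3) (nat_lit 64) (nat_lit 1) (nat_lit 174) (nat_lit 102) (nat_lit 174)) (PT.lf (nat_lit 4788) (nat_lit 6) (nat_lit 63) (nat_lit 1) (nat_lit 175) (nat_lit 102) (nat_lit 173)))) (PT.nd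 (nat_lit 46566) (PT.nd (nat_lit 46488) (PT.lf (nat_lit 4712) (nat_lit 6) (nat_lit 62) (nat_lit 1) (nat_lit 176) (nat_lit 102) (nat_lit 172)) (PT.lf (nat_lit 4940) (nat_lit 6) (nat_lit 65) (nat_lit 3) (nat_lit 171) (nat_lit 103) (nat_lit 176))) (PT.nd (nat_lit 78) (PT.lf (nat_lit 5016) (nat_lit 6) (nat_lit 66) (nat_lit 3) (nat_lit 172) (nat_lit 103) (nat_lit 175)) (PT.lf (nat_lit 5092) (nat_lit 6) (nat_lit 67) (nat_lit 3) (nat_lit 173) (nat_lit 103) (nat_lit 174)))))) (PT.nd (nat_lit 93444) (PT.nd (nat_lit 46722) (PT.nd (nat_lit 156) (PT.nd (nat_lit 78) (PT.lf (nat_lit 5092) (nat_lit 6) (nat_lit 67) (nat_lit 1) (nat_lit 174) (nat_lit 103) (nat_lit 173)) (PT.lf (nat_lit 5016) (nat_lit 6) (nat_lit 66) (nat_lit 1) (nat_lit 175) (nat_lit 103) (nat_lit 172))) (PT.nd (nat_lit 46488) (PT.lf (nat_lit 4940) (nat_lit 6) (nat_lit 65) (nat_lit 1) (nat_lit 176) (nat_lit 103) (nat_lit 171)) (PT.lf (nat_lit 5168) (nat_lit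 6) (nat_lit 68) (nat_lit 3) (nat_lit 171) (nat_lit 104) (nat_lit 175)))) (PT.nd (nat_lit 156) (PT.nd (nat_lit 78) (PT.lf (nat_lit 5244) (nat_lit 6) (nat_lit 69) (nat_lit 3) (nat_lit 172) (nat_lit 104) (nat_lit 174)) (PT.lf (nat_lit 5320) (nat_lit 3) (nat_lit 70) (nat_lit 1) (nat_lit 173) (nat_lit 104) (nat_lit 173))) (PT.nd (nat_lit 78) (PT.lf (nat_lit 5244) (nat_lit 6) (nat_lit 69) (nat_lit 1) (nat_lit 174) (nat_lit 104) (nat_lit 172)) (PT.lf (nat_lit 5168) (nat_lit 6) (nat_lit 68) (nat_lit 1) (nat_lit 175) (nat_lit 104) (nat_lit 171))))) (PT.nd (nat_lit 312) (PT.nd (nat_lit 156) (PT.nd (nat_lit 78) (PT.lf (nat_lit 5396) (nat_lit 6) (nat_lit 71) (nat_lit 3) (nat_lit 170) (nat_lit 105) (nat_lit 175)) (PT.lf (nat_lit 5472) (nat_lit 6) (nat_lit 72) (nat_lit 3) (nat_lit 171) (nat_lit 105) (nat_lit 174))) (PT.nd (nat_lit 78) (PT.lf (nat_lit 5548) (nat_lit 6) (nat_lit 73) (nat_lit 3) (nat_lit 172) (nat_lit 105)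 (nat_lit 173)) (PT.lf (nat_lit 5548) (nat_lit 6) (nat_lit 73) (nat_lit 1) (nat_lit 173) (nat_lit 105) (nat_lit 172)))) (PT.nd (nat_lit 46566) (PT.nd (nat_lit 78) (PT.lf (nat_lit 5472) (nat_lit 6) (nat_lit 72) (nat_lit 1) (nat_lit 174) (nat_lit 105) (nat_lit 171)) (PT.lf (nat_lit 5396) (nat_lit 6) (nat_lit 71) (nat_lit 1) (nat_lit 175) (nat_lit 105) (nat_lit 170))) (PT.nd (nat_lit 78) (PT.lf (nat_lit 5624) (nat_lit 6) (nat_lit 74) (nat_lit 3) (nat_lit 170) (nat_lit 106) (nat_lit 174)) (PT.lf (nat_lit 5700) (nat_lit 6) (nat_lit 75) (nat_lit 3) (nat_lit 171) (nat_lit 106) (nat_lit 173))))))))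
noncomputable def pc2 : PT := (PT.nd (nat_lit 234156) (PT.nd (nat_lit 93912) (PT.nd (nat_lit 46956) (PT.nd (nat_lit 46644) (PT.nd (nat_lit 78) (PT.lf (nat_lit 5776) (nat_lit 3) (nat_lit 76) (nat_lit 1) (nat_lit 172) (nat_lit 106) (nat_lit 172)) (PT.nd (nat_lit 78) (PT.lf (nat_lit 5700) (nat_lit 6) (nat_lit 75) (nat_lit 1) (nat_lit 173) (nat_lit 106) (nat_lit 171)) (PT.lf (nat_lit 5624) (nat_lit 6) (nat_lit 74) (nat_lit 1) (nat_lit 174) (nat_lit 106) (nat_lit 170)))) (PT.nd (nat_lit 156) (PT.nd (nat_lit 78) (PT.lf (nat_lit 5852) (nat_lit 6) (nat_lit 77) (nat_lit 3) (nat_lit 169) (nat_lit 107) (nat_lit 174)) (PT.lf (nat_lit 5928) (nat_lit 6) (nat_lit 78) (nat_lit 3) (nat_lit 170) (nat_lit 107) (nat_lit 173))) (PT.nd (nat_lit 78) (PT.lf (nat_lit 6004) (nat_lit 6) (nat_lit 79) (nat_lit 3) (nat_lit 171) (nat_lit 107) (nat_lit 172)) (PT.lf (nat_lit 6004) (nat_lit 6) (nat_lit 79) (nat_lit 1) (nat_lit 172) (nat_lit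 107) (nat_lit 171))))) (PT.nd (nat_lit 46644) (PT.nd (nat_lit 46488) (PT.nd (nat_lit 78) (PT.lf (nat_lit 5928) (nat_lit 6) (nat_lit 78) (nat_lit 1) (nat_lit 173) (nat_lit 107) (nat_lit 170)) (PT.lf (nat_lit 5852) (nat_lit 6) (nat_lit 77) (nat_lit 1) (nat_lit 174) (nat_lit 107) (nat_lit 169))) (PT.nd (nat_lit 78) (PT.lf (nat_lit 6080) (nat_lit 6) (nat_lit 80) (nat_lit 3) (nat_lit 168) (nat_lit 108) (nat_lit 174)) (PT.lf (nat_lit 6156) (nat_lit 6) (nat_lit 81) (nat_lit 3) (nat_lit 169) (nat_lit 108) (nat_lit 173)))) (PT.nd (nat_lit 156) (PT.nd (nat_lit 78) (PT.lf (nat_lit 6232) (nat_lit 6) (nat_lit 82) (nat_lit 3) (nat_lit 170) (nat_lit 108) (nat_lit 172)) (PT.lf (nat_lit 6308) (nat_lit 3) (nat_lit 83) (nat_lit 1) (nat_lit 171) (nat_lit 108) (nat_lit 171))) (PT.nd (nat_lit 78) (PT.lf (nat_lit 6232) (nat_lit 6) (nat_lit 82) (nat_lit 1) (nat_lit 172) (nat_lit 108) (nat_lit 170)) (PT.lf (nat_lit 6156) (nat_lit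 6) (nat_lit 81) (nat_lit 1) (nat_lit 173) (nat_lit 108) (nat_lit 169)))))) (PT.nd (nat_lit 93288) (PT.nd (nat_lit 46644) (PT.nd (nat_lit 46488) (PT.nd (nat_lit 46410) (PT.lf (nat_lit 6080) (nat_lit 6) (nat_lit 80) (nat_lit 1) (nat_lit 174) (nat_lit 108) (nat_lit 168)) (PT.lf (nat_lit 6384) (nat_lit 6) (nat_lit 84) (nat_lit 3) (nat_lit 168) (nat_lit 109) (nat_lit 173))) (PT.nd (nat_lit 78) (PT.lf (nat_lit 6460) (nat_lit 6) (nat_lit 85) (nat_lit 3) (nat_lit 169) (nat_lit 109) (nat_lit 172)) (PT.lf (nat_lit 6536) (nat_lit 6) (nat_lit 86) (nat_lit 3) (nat_lit 170) (nat_lit 109) (nat_lit 171)))) (PT.nd (nat_lit 156) (PT.nd (nat_lit 78) (PT.lf (nat_lit 6536) (nat_lit 6) (nat_lit 86) (nat_lit 1) (nat_lit 171) (nat_lit 109) (nat_lit 170)) (PT.lf (nat_lit 6460) (nat_lit 6) (nat_lit 85) (nat_lit 1) (nat_lit 172) (nat_lit 109) (nat_lit 169))) (PT.nd (nat_lit 46410) (PT.lf (nat_lit 6384) (nat_lit 6) (nat_lit 84) (nat_lit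 1) (nat_lit 173) (nat_lit 109) (nat_lit 168)) (PT.lf (nat_lit 6612) (nat_lit 6) (nat_lit 87) (nat_lit 3) (nat_lit 167) (nat_lit 110) (nat_lit 173))))) (PT.nd (nat_lit 312) (PT.nd (nat_lit 156) (PT.nd (nat_lit 78) (PT.lf (nat_lit 6688) (nat_lit 6) (nat_lit 88) (nat_lit 3) (nat_lit 168) (nat_lit 110) (nat_lit 172)) (PT.lf (nat_lit 6764) (nat_lit 6) (nat_lit 89) (nat_lit 3) (nat_lit 169) (nat_lit 110) (nat_lit 171))) (PT.nd (nat_lit 78) (PT.lf (nat_lit 6840) (nat_lit 3) (nat_lit 90) (nat_lit 1) (nat_lit 170) (nat_lit 110) (nat_lit 170)) (PT.lf (nat_lit 6764) (nat_lit 6) (nat_lit 89) (nat_lit 1) (nat_lit 171) (nat_lit 110) (nat_lit 169)))) (PT.nd (nat_lit 46488) (PT.nd (nat_lit 78) (PT.lf (nat_lit 6688) (nat_lit 6) (nat_lit 88) (nat_lit 1) (nat_lit 172) (nat_lit 110) (nat_lit 168)) (PT.lf (nat_lit 6612) (nat_lit 6) (nat_lit 87) (nat_lit 1) (nat_lit 173) (nat_lit 110) (nat_lit 167))) (PT.nd (nat_lit 78) (PT.lf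 (nat_lit 6992) (nat_lit 6) (nat_lit 92) (nat_lit 3) (nat_lit 167) (nat_lit 111) (nat_lit 172)) (PT.lf (nat_lit 7068) (nat_lit 6) (nat_lit 93) (nat_lit 3) (nat_lit 168) (nat_lit 111) (nat_lit 171))))))) (PT.nd (nat_lit 93834) (PT.nd (nat_lit 46956) (PT.nd (nat_lit 46644) (PT.nd (nat_lit 156) (PT.nd (nat_lit 78) (PT.lf (nat_lit 7144) (nat_lit 6) (nat_lit 94) (nat_lit 3) (nat_lit 169) (nat_lit 111) (nat_lit 170)) (PT.lf (nat_lit 7144) (nat_lit 6) (nat_lit 94) (nat_lit 1) (nat_lit 170) (nat_lit 111) (nat_lit 169))) (PT.nd (nat_lit 78) (PT.lf (nat_lit 7068) (nat_lit 6) (nat_lit 93) (nat_lit 1) (nat_lit 171) (nat_lit 111) (nat_lit 168)) (PT.lf (nat_lit 6992) (nat_lit 6) (nat_lit 92) (nat_lit 1) (nat_lit 172) (nat_lit 111) (nat_lit 167)))) (PT.nd (nat_lit 156) (PT.nd (nat_lit 78) (PT.lf (nat_lit 7220) (nat_lit 6) (nat_lit 95) (nat_lit 3) (nat_lit 166) (nat_lit 112) (nat_lit 172)) (PT.lf (nat_lit 7296) (nat_lit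 6) (nat_lit 96) (nat_lit 3) (nat_lit 167) (nat_lit 112) (nat_lit 171))) (PT.nd (nat_lit 78) (PT.lf (nat_lit 7372) (nat_lit 6) (nat_lit 97) (nat_lit 3) (nat_lit 168) (nat_lit 112) (nat_lit 170)) (PT.lf (nat_lit 7448) (nat_lit 3) (nat_lit 98) (nat_lit 1) (nat_lit 169) (nat_lit 112) (nat_lit 169))))) (PT.nd (nat_lit 46566) (PT.nd (nat_lit 156) (PT.nd (nat_lit 78) (PT.lf (nat_lit 7372) (nat_lit 6) (nat_lit 97) (nat_lit 1) (nat_lit 170) (nat_lit 112) (nat_lit 168)) (PT.lf (nat_lit 7296) (nat_lit 6) (nat_lit 96) (nat_lit 1) (nat_lit 171) (nat_lit 112) (nat_lit 167))) (PT.nd (nat_lit 46332) (PT.lf (nat_lit 7220) (nat_lit 6) (nat_lit 95) (nat_lit 1) (nat_lit 172) (nat_lit 112) (nat_lit 166)) (PT.lf (nat_lit 7524) (nat_lit 6) (nat_lit 99) (nat_lit 3) (nat_lit 165) (nat_lit 113) (nat_lit 172)))) (PT.nd (nat_lit 156) (PT.nd (nat_lit 78) (PT.lf (nat_lit 7600) (nat_lit 6) (nat_lit 100) (nat_lit 3) (nat_lit 166) (nat_lit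 113) (nat_lit 171)) (PT.lf (nat_lit 7676) (nat_lit 6) (nat_lit 101) (nat_lit 3) (nat_lit 167) (nat_lit 113) (nat_lit 170))) (PT.nd (nat_lit 78) (PT.lf (nat_lit 7752) (nat_lit 6) (nat_lit 102) (nat_lit 3) (nat_lit 168) (nat_lit 113) (nat_lit 169)) (PT.lf (nat_lit 7752) (nat_lit 6) (nat_lit 102) (nat_lit 1) (nat_lit 169) (nat_lit 113) (nat_lit 168)))))) (PT.nd (nat_lit 46878) (PT.nd (nat_lit 46566) (PT.nd (nat_lit 156) (PT.nd (nat_lit 78) (PT.lf (nat_lit 7676) (nat_lit 6) (nat_lit 101) (nat_lit 1) (nat_lit 170) (nat_lit 113) (nat_lit 167)) (PT.lf (nat_lit 7600) (nat_lit 6) (nat_lit 100) (nat_lit 1) (nat_lit 171) (nat_lit 113) (nat_lit 166))) (PT.nd (nat_lit 46332) (PT.lf (nat_lit 7524) (nat_lit 6) (nat_lit 99) (nat_lit 1) (nat_lit 172) (nat_lit 113) (nat_lit 165)) (PT.lf (nat_lit 7828) (nat_lit 6) (nat_lit 103) (nat_lit 3) (nat_lit 165) (nat_lit 114) (nat_lit 171)))) (PT.nd (nat_lit 156) (PT.nd (nat_lit 78)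 (PT.lf (nat_lit 7904) (nat_lit 6) (nat_lit 104) (nat_lit 3) (nat_lit 166) (nat_lit 114) (nat_lit 170)) (PT.lf (nat_lit 7980) (nat_lit 6) (nat_lit 105) (nat_lit 3) (nat_lit 167) (nat_lit 114) (nat_lit 169))) (PT.nd (nat_lit 78) (PT.lf (nat_lit 8056) (nat_lit 3) (nat_lit 106) (nat_lit 1) (nat_lit 168) (nat_lit 114) (nat_lit 168)) (PT.lf (nat_lit 7980) (nat_lit 6) (nat_lit 105) (nat_lit 1) (nat_lit 169) (nat_lit 114) (nat_lit 167))))) (PT.nd (nat_lit 46566) (PT.nd (nat_lit 46410) (PT.nd (nat_lit 78) (PT.lf (nat_lit 7904) (nat_lit 6) (nat_lit 104) (nat_lit 1) (nat_lit 170) (nat_lit 114) (nat_lit 166)) (PT.lf (nat_lit 7828) (nat_lit 6) (nat_lit 103) (nat_lit 1) (nat_lit 171) (nat_lit 114) (nat_lit 165))) (PT.nd (nat_lit 78) (PT.lf (nat_lit 8132) (nat_lit 6) (nat_lit 107) (nat_lit 3) (nat_lit 164) (nat_lit 115) (nat_lit 171)) (PT.lf (nat_lit 8208) (nat_lit 6) (nat_lit 108) (nat_lit 3) (nat_lit 165) (nat_lit 115)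 (nat_lit 170)))) (PT.nd (nat_lit 156) (PT.nd (nat_lit 78) (PT.lf (nat_lit 8284) (nat_lit 6) (nat_lit 109) (nat_lit 3) (nat_lit 166) (nat_lit 115) (nat_lit 169)) (PT.lf (nat_lit 8360) (nat_lit 6) (nat_lit 110) (nat_lit 3) (nat_lit 167) (nat_lit 115) (nat_lit 168))) (PT.nd (nat_lit 78) (PT.lf (nat_lit 8360) (nat_lit 6) (nat_lit 110) (nat_lit 1) (nat_lit 168) (nat_lit 115) (nat_lit 167)) (PT.lf (nat_lit 8284) (nat_lit 6) (nat_lit 109) (nat_lit 1) (nat_lit 169) (nat_lit 115) (nat_lit 166))))))))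
noncomputable def pc3 : PT := (PT.nd (nat_lit 187122) (PT.nd (nat_lit 93600) (PT.nd (nat_lit 46800) (PT.nd (nat_lit 46488) (PT.nd (nat_lit 46332) (PT.nd (nat_lit 78) (PT.lf (nat_lit 8208) (nat_lit 6) (nat_lit 108) (nat_lit 1) (nat_lit 170) (nat_lit 115) (nat_lit 165)) (PT.lf (nat_lit 8132) (nat_lit 6) (nat_lit 107) (nat_lit 1) (nat_lit 171) (nat_lit 115) (nat_lit 164))) (PT.nd (nat_lit 78) (PT.lf (nat_lit 8436) (nat_lit 6) (nat_lit 111) (nat_lit 3) (nat_lit 163) (nat_lit 116) (nat_lit 171)) (PT.lf (nat_lit 8512) (nat_lit 6) (nat_lit 112) (nat_lit 3) (nat_lit 164) (nat_lit 116) (nat_lit 170)))) (PT.nd (nat_lit 156) (PT.nd (nat_lit 78) (PT.lf (nat_lit 8588) (nat_lit 6) (nat_lit 113) (nat_lit 3) (nat_lit 165) (nat_lit 116) (nat_lit 169)) (PT.lf (nat_lit 8664) (nat_lit 6) (nat_lit 114) (nat_lit 3) (nat_lit 166) (nat_lit 116) (nat_lit 168))) (PT.nd (nat_lit 78) (PT.lf (nat_lit 8740) (nat_lit 3) (nat_lit 115)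 (nat_lit 1) (nat_lit 167) (nat_lit 116) (nat_lit 167)) (PT.lf (nat_lit 8664) (nat_lit 6) (nat_lit 114) (nat_lit 1) (nat_lit 168) (nat_lit 116) (nat_lit 166))))) (PT.nd (nat_lit 46488) (PT.nd (nat_lit 156) (PT.nd (nat_lit 78) (PT.lf (nat_lit 8588) (nat_lit 6) (nat_lit 113) (nat_lit 1) (nat_lit 169) (nat_lit 116) (nat_lit 165)) (PT.lf (nat_lit 8512) (nat_lit 6) (nat_lit 112) (nat_lit 1) (nat_lit 170) (nat_lit 116) (nat_lit 164))) (PT.nd (nat_lit 46254) (PT.lf (nat_lit 8436) (nat_lit 6) (nat_lit 111) (nat_lit 1) (nat_lit 171) (nat_lit 116) (nat_lit 163)) (PT.lf (nat_lit 8816) (nat_lit 6) (nat_lit 116) (nat_lit 3) (nat_lit 163) (nat_lit 117) (nat_lit 170)))) (PT.nd (nat_lit 156) (PT.nd (nat_lit 78) (PT.lf (nat_lit 8892) (nat_lit 6) (nat_lit 117) (nat_lit 3) (nat_lit 164) (nat_lit 117) (nat_lit 169)) (PT.lf (nat_lit 8968) (nat_lit 6) (nat_lit 118) (nat_lit 3) (nat_lit 165) (nat_lit 117) (nat_lit 168))) (PT.nd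 (nat_lit 78) (PT.lf (nat_lit 9044) (nat_lit 6) (nat_lit 119) (nat_lit 3) (nat_lit 166) (nat_lit 117) (nat_lit 167)) (PT.lf (nat_lit 9044) (nat_lit 6) (nat_lit 119) (nat_lit 1) (nat_lit 167) (nat_lit 117) (nat_lit 166)))))) (PT.nd (nat_lit 46800) (PT.nd (nat_lit 46488) (PT.nd (nat_lit 156) (PT.nd (nat_lit 78) (PT.lf (nat_lit 8968) (nat_lit 6) (nat_lit 118) (nat_lit 1) (nat_lit 168) (nat_lit 117) (nat_lit 165)) (PT.lf (nat_lit 8892) (nat_lit 6) (nat_lit 117) (nat_lit 1) (nat_lit 169) (nat_lit 117) (nat_lit 164))) (PT.nd (nat_lit 46254) (PT.lf (nat_lit 8816) (nat_lit 6) (nat_lit 116) (nat_lit 1) (nat_lit 170) (nat_lit 117) (nat_lit 163)) (PT.lf (nat_lit 9120) (nat_lit 6) (nat_lit 120) (nat_lit 3) (nat_lit 162) (nat_lit 118) (nat_lit 170)))) (PT.nd (nat_lit 156) (PT.nd (nat_lit 78) (PT.lf (nat_lit 9196) (nat_lit 6) (nat_lit 121) (nat_lit 3) (nat_lit 163) (nat_lit 118) (nat_lit 169)) (PT.lf (nat_lit 9272) (nat_lit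 6) (nat_lit 122) (nat_lit 3) (nat_lit 164) (nat_lit 118) (nat_lit 168))) (PT.nd (nat_lit 78) (PT.lf (nat_lit 9348) (nat_lit 6) (nat_lit 123) (nat_lit 3) (nat_lit 165) (nat_lit 118) (nat_lit 167)) (PT.lf (nat_lit 9424) (nat_lit 3) (nat_lit 124) (nat_lit 1) (nat_lit 166) (nat_lit 118) (nat_lit 166))))) (PT.nd (nat_lit 46410) (PT.nd (nat_lit 156) (PT.nd (nat_lit 78) (PT.lf (nat_lit 9348) (nat_lit 6) (nat_lit 123) (nat_lit 1) (nat_lit 167) (nat_lit 118) (nat_lit 165)) (PT.lf (nat_lit 9272) (nat_lit 6) (nat_lit 122) (nat_lit 1) (nat_lit 168) (nat_lit 118) (nat_lit 164))) (PT.nd (nat_lit 78) (PT.lf (nat_lit 9196) (nat_lit 6) (nat_lit 121) (nat_lit 1) (nat_lit 169) (nat_lit 118) (nat_lit 163)) (PT.lf (nat_lit 9120) (nat_lit 6) (nat_lit 120) (nat_lit 1) (nat_lit 170) (nat_lit 118) (nat_lit 162)))) (PT.nd (nat_lit 156) (PT.nd (nat_lit 78) (PT.lf (nat_lit 9500) (nat_lit 6) (nat_lit 125) (nat_lit 3) (nat_lit 161)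 (nat_lit 119) (nat_lit 170)) (PT.lf (nat_lit 9576) (nat_lit 6) (nat_lit 126) (nat_lit 3) (nat_lit 162) (nat_lit 119) (nat_lit 169))) (PT.nd (nat_lit 78) (PT.lf (nat_lit 9652) (nat_lit 6) (nat_lit 127) (nat_lit 3) (nat_lit 163) (nat_lit 119) (nat_lit 168)) (PT.lf (nat_lit 9728) (nat_lit 6) (nat_lit 128) (nat_lit 3) (nat_lit 164) (nat_lit 119) (nat_lit 167))))))) (PT.nd (nat_lit 93444) (PT.nd (nat_lit 46722) (PT.nd (nat_lit 312) (PT.nd (nat_lit 156) (PT.nd (nat_lit 78) (PT.lf (nat_lit 9804) (nat_lit 6) (nat_lit 129) (nat_lit 3) (nat_lit 165) (nat_lit 119) (nat_lit 166)) (PT.lf (nat_lit 9804) (nat_lit 6) (nat_lit 129) (nat_lit 1) (nat_lit 166) (nat_lit 119) (nat_lit 165))) (PT.nd (nat_lit 78) (PT.lf (nat_lit 9728) (nat_lit 6) (nat_lit 128) (nat_lit 1) (nat_lit 167) (nat_lit 119) (nat_lit 164)) (PT.lf (nat_lit 9652) (nat_lit 6) (nat_lit 127) (nat_lit 1) (nat_lit 168) (nat_lit 119) (nat_lit 163)))) (PT.nd (nat_lit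 46254) (PT.nd (nat_lit 78) (PT.lf (nat_lit 9576) (nat_lit 6) (nat_lit 126) (nat_lit 1) (nat_lit 169) (nat_lit 119) (nat_lit 162)) (PT.lf (nat_lit 9500) (nat_lit 6) (nat_lit 125) (nat_lit 1) (nat_lit 170) (nat_lit 119) (nat_lit 161))) (PT.nd (nat_lit 78) (PT.lf (nat_lit 9880) (nat_lit 6) (nat_lit 130) (nat_lit 3) (nat_lit 161) (nat_lit 120) (nat_lit 169)) (PT.lf (nat_lit 9956) (nat_lit 6) (nat_lit 131) (nat_lit 3) (nat_lit 162) (nat_lit 120) (nat_lit 168))))) (PT.nd (nat_lit 312) (PT.nd (nat_lit 156) (PT.nd (nat_lit 78) (PT.lf (nat_lit 10032) (nat_lit 6) (nat_lit 132) (nat_lit 3) (nat_lit 163) (nat_lit 120) (nat_lit 167)) (PT.lf (nat_lit 10108) (nat_lit 6) (nat_lit 133) (nat_lit 3) (nat_lit 164) (nat_lit 120) (nat_lit 166))) (PT.nd (nat_lit 78) (PT.lf (nat_lit 10184) (nat_lit 3) (nat_lit 134) (nat_lit 1) (nat_lit 165) (nat_lit 120) (nat_lit 165)) (PT.lf (nat_lit 10108) (nat_lit 6) (nat_lit 133) (nat_lit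 1) (nat_lit 166) (nat_lit 120) (nat_lit 164)))) (PT.nd (nat_lit 156) (PT.nd (nat_lit 78) (PT.lf (nat_lit 10032) (nat_lit 6) (nat_lit 132) (nat_lit 1) (nat_lit 167) (nat_lit 120) (nat_lit 163)) (PT.lf (nat_lit 9956) (nat_lit 6) (nat_lit 131) (nat_lit 1) (nat_lit 168) (nat_lit 120) (nat_lit 162))) (PT.nd (nat_lit 46176) (PT.lf (nat_lit 9880) (nat_lit 6) (nat_lit 130) (nat_lit 1) (nat_lit 169) (nat_lit 120) (nat_lit 161)) (PT.lf (nat_lit 10260) (nat_lit 6) (nat_lit 135) (nat_lit 3) (nat_lit 160) (nat_lit 121) (nat_lit 169)))))) (PT.nd (nat_lit 624) (PT.nd (nat_lit 312) (PT.nd (nat_lit 156) (PT.nd (nat_lit 78) (PT.lf (nat_lit 10336) (nat_lit 6) (nat_lit 136) (nat_lit 3) (nat_lit 161) (nat_lit 121) (nat_lit 168)) (PT.lf (nat_lit 10412) (nat_lit 6) (nat_lit 137) (nat_lit 3) (nat_lit 162) (nat_lit 121) (nat_lit 167))) (PT.nd (nat_lit 78) (PT.lf (nat_lit 10488) (nat_lit 6) (nat_lit 138) (nat_lit 3) (nat_lit 163)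 (nat_lit 121) (nat_lit 166)) (PT.lf (nat_lit 10564) (nat_lit 6) (nat_lit 139) (nat_lit 3) (nat_lit 164) (nat_lit 121) (nat_lit 165)))) (PT.nd (nat_lit 156) (PT.nd (nat_lit 78) (PT.lf (nat_lit 10564) (nat_lit 6) (nat_lit 139) (nat_lit 1) (nat_lit 165) (nat_lit 121) (nat_lit 164)) (PT.lf (nat_lit 10488) (nat_lit 6) (nat_lit 138) (nat_lit 1) (nat_lit 166) (nat_lit 121) (nat_lit 163))) (PT.nd (nat_lit 78) (PT.lf (nat_lit 10412) (nat_lit 6) (nat_lit 137) (nat_lit 1) (nat_lit 167) (nat_lit 121) (nat_lit 162)) (PT.lf (nat_lit 10336) (nat_lit 6) (nat_lit 136) (nat_lit 1) (nat_lit 168) (nat_lit 121) (nat_lit 161))))) (PT.nd (nat_lit 46332) (PT.nd (nat_lit 46176) (PT.nd (nat_lit 46098) (PT.lf (nat_lit 10260) (nat_lit 6) (nat_lit 135) (nat_lit 1) (nat_lit 169) (nat_lit 121) (nat_lit 160)) (PT.lf (nat_lit 10640) (nat_lit 6) (nat_lit 140) (nat_lit 3) (nat_lit 159) (nat_lit 122) (nat_lit 169))) (PT.nd (nat_lit 78) (PT.lf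 (nat_lit 10716) (nat_lit 6) (nat_lit 141) (nat_lit 3) (nat_lit 160) (nat_lit 122) (nat_lit 168)) (PT.lf (nat_lit 10792) (nat_lit 6) (nat_lit 142) (nat_lit 3) (nat_lit 161) (nat_lit 122) (nat_lit 167)))) (PT.nd (nat_lit 156) (PT.nd (nat_lit 78) (PT.lf (nat_lit 10868) (nat_lit 6) (nat_lit 143) (nat_lit 3) (nat_lit 162) (nat_lit 122) (nat_lit 166)) (PT.lf (nat_lit 10944) (nat_lit 6) (nat_lit 144) (nat_lit 3) (nat_lit 163) (nat_lit 122) (nat_lit 165))) (PT.nd (nat_lit 78) (PT.lf (nat_lit 11020) (nat_lit 3) (nat_lit 145) (nat_lit 1) (nat_lit 164) (nat_lit 122) (nat_lit 164)) (PT.lf (nat_lit 10944) (nat_lit 6) (nat_lit 144) (nat_lit 1) (nat_lit 165) (nat_lit 122) (nat_lit 163))))))))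
noncomputable def pc4 : PT := (PT.nd (nat_lit 140244) (PT.nd (nat_lit 47112) (PT.nd (nat_lit 46488) (PT.nd (nat_lit 234) (PT.nd (nat_lit 78) (PT.lf (nat_lit 10868) (nat_lit 6) (nat_lit 143) (nat_lit 1) (nat_lit 166) (nat_lit 122) (nat_lit 162)) (PT.nd (nat_lit 78) (PT.lf (nat_lit 10792) (nat_lit 6) (nat_lit 142) (nat_lit 1) (nat_lit 167) (nat_lit 122) (nat_lit 161)) (PT.lf (nat_lit 10716) (nat_lit 6) (nat_lit 141) (nat_lit 1) (nat_lit 168) (nat_lit 122) (nat_lit 160)))) (PT.nd (nat_lit 46098) (PT.nd (nat_lit 46020) (PT.lf (nat_lit 10640) (nat_lit 6) (nat_lit 140) (nat_lit 1) (nat_lit 169) (nat_lit 122) (nat_lit 159)) (PT.lf (nat_lit 11096) (nat_lit 6) (nat_lit 146) (nat_lit 3) (nat_lit 158) (nat_lit 123) (nat_lit 169))) (PT.nd (nat_lit 78) (PT.lf (nat_lit 11172) (nat_lit 6) (nat_lit 147) (nat_lit 3) (nat_lit 159) (nat_lit 123) (nat_lit 168)) (PT.lf (nat_lit 11248) (nat_lit 6) (nat_lit 148) (nat_lit 3) (nat_lit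 160) (nat_lit 123) (nat_lit 167))))) (PT.nd (nat_lit 312) (PT.nd (nat_lit 156) (PT.nd (nat_lit 78) (PT.lf (nat_lit 11324) (nat_lit 6) (nat_lit 149) (nat_lit 3) (nat_lit 161) (nat_lit 123) (nat_lit 166)) (PT.lf (nat_lit 11400) (nat_lit 6) (nat_lit 150) (nat_lit 3) (nat_lit 162) (nat_lit 123) (nat_lit 165))) (PT.nd (nat_lit 78) (PT.lf (nat_lit 11476) (nat_lit 6) (nat_lit 151) (nat_lit 3) (nat_lit 163) (nat_lit 123) (nat_lit 164)) (PT.lf (nat_lit 11476) (nat_lit 6) (nat_lit 151) (nat_lit 1) (nat_lit 164) (nat_lit 123) (nat_lit 163)))) (PT.nd (nat_lit 156) (PT.nd (nat_lit 78) (PT.lf (nat_lit 11400) (nat_lit 6) (nat_lit 150) (nat_lit 1) (nat_lit 165) (nat_lit 123) (nat_lit 162)) (PT.lf (nat_lit 11324) (nat_lit 6) (nat_lit 149) (nat_lit 1) (nat_lit 166) (nat_lit 123) (nat_lit 161))) (PT.nd (nat_lit 78) (PT.lf (nat_lit 11248) (nat_lit 6) (nat_lit 148) (nat_lit 1) (nat_lit 167) (nat_lit 123) (nat_lit 160)) (PT.lf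 (nat_lit 11172) (nat_lit 6) (nat_lit 147) (nat_lit 1) (nat_lit 168) (nat_lit 123) (nat_lit 159)))))) (PT.nd (nat_lit 46566) (PT.nd (nat_lit 46254) (PT.nd (nat_lit 46098) (PT.nd (nat_lit 46020) (PT.lf (nat_lit 11096) (nat_lit 6) (nat_lit 146) (nat_lit 1) (nat_lit 169) (nat_lit 123) (nat_lit 158)) (PT.lf (nat_lit 11552) (nat_lit 6) (nat_lit 152) (nat_lit 3) (nat_lit 158) (nat_lit 124) (nat_lit 168))) (PT.nd (nat_lit 78) (PT.lf (nat_lit 11628) (nat_lit 6) (nat_lit 153) (nat_lit 3) (nat_lit 159) (nat_lit 124) (nat_lit 167)) (PT.lf (nat_lit 11704) (nat_lit 6) (nat_lit 154) (nat_lit 3) (nat_lit 160) (nat_lit 124) (nat_lit 166)))) (PT.nd (nat_lit 156) (PT.nd (nat_lit 78) (PT.lf (nat_lit 11780) (nat_lit 6) (nat_lit 155) (nat_lit 3) (nat_lit 161) (nat_lit 124) (nat_lit 165)) (PT.lf (nat_lit 11856) (nat_lit 6) (nat_lit 156) (nat_lit 3) (nat_lit 162) (nat_lit 124) (nat_lit 164))) (PT.nd (nat_lit 78) (PT.lf (nat_lit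 11932) (nat_lit 3) (nat_lit 157) (nat_lit 1) (nat_lit 163) (nat_lit 124) (nat_lit 163)) (PT.lf (nat_lit 11856) (nat_lit 6) (nat_lit 156) (nat_lit 1) (nat_lit 164) (nat_lit 124) (nat_lit 162))))) (PT.nd (nat_lit 46254) (PT.nd (nat_lit 156) (PT.nd (nat_lit 78) (PT.lf (nat_lit 11780) (nat_lit 6) (nat_lit 155) (nat_lit 1) (nat_lit 165) (nat_lit 124) (nat_lit 161)) (PT.lf (nat_lit 11704) (nat_lit 6) (nat_lit 154) (nat_lit 1) (nat_lit 166) (nat_lit 124) (nat_lit 160))) (PT.nd (nat_lit 78) (PT.lf (nat_lit 11628) (nat_lit 6) (nat_lit 153) (nat_lit 1) (nat_lit 167) (nat_lit 124) (nat_lit 159)) (PT.lf (nat_lit 11552) (nat_lit 6) (nat_lit 152) (nat_lit 1) (nat_lit 168) (nat_lit 124) (nat_lit 158)))) (PT.nd (nat_lit 156) (PT.nd (nat_lit 78) (PT.lf (nat_lit 12008) (nat_lit 6) (nat_lit 158) (nat_lit 3) (nat_lit 157) (nat_lit 125) (nat_lit 168)) (PT.lf (nat_lit 12084) (nat_lit 6) (nat_lit 159) (nat_lit 3) (nat_lit 158)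 (nat_lit 125) (nat_lit 167))) (PT.nd (nat_lit 78) (PT.lf (nat_lit 12160) (nat_lit 6) (nat_lit 160) (nat_lit 3) (nat_lit 159) (nat_lit 125) (nat_lit 166)) (PT.lf (nat_lit 12236) (nat_lit 6) (nat_lit 161) (nat_lit 3) (nat_lit 160) (nat_lit 125) (nat_lit 165))))))) (PT.nd (nat_lit 47112) (PT.nd (nat_lit 46488) (PT.nd (nat_lit 312) (PT.nd (nat_lit 156) (PT.nd (nat_lit 78) (PT.lf (nat_lit 12312) (nat_lit 6) (nat_lit 162) (nat_lit 3) (nat_lit 161) (nat_lit 125) (nat_lit 164)) (PT.lf (nat_lit 12388) (nat_lit 6) (nat_lit 163) (nat_lit 3) (nat_lit 162) (nat_lit 125) (nat_lit 163))) (PT.nd (nat_lit 78) (PT.lf (nat_lit 12388) (nat_lit 6) (nat_lit 163) (nat_lit 1) (nat_lit 163) (nat_lit 125) (nat_lit 162)) (PT.lf (nat_lit 12312) (nat_lit 6) (nat_lit 162) (nat_lit 1) (nat_lit 164) (nat_lit 125) (nat_lit 161)))) (PT.nd (nat_lit 156) (PT.nd (nat_lit 78) (PT.lf (nat_lit 12236) (nat_lit 6) (nat_lit 161) (nat_lit 1) (nat_lit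 165) (nat_lit 125) (nat_lit 160)) (PT.lf (nat_lit 12160) (nat_lit 6) (nat_lit 160) (nat_lit 1) (nat_lit 166) (nat_lit 125) (nat_lit 159))) (PT.nd (nat_lit 78) (PT.lf (nat_lit 12084) (nat_lit 6) (nat_lit 159) (nat_lit 1) (nat_lit 167) (nat_lit 125) (nat_lit 158)) (PT.lf (nat_lit 12008) (nat_lit 6) (nat_lit 158) (nat_lit 1) (nat_lit 168) (nat_lit 125) (nat_lit 157))))) (PT.nd (nat_lit 312) (PT.nd (nat_lit 156) (PT.nd (nat_lit 78) (PT.lf (nat_lit 12464) (nat_lit 6) (nat_lit 164) (nat_lit 3) (nat_lit 156) (nat_lit 126) (nat_lit 168)) (PT.lf (nat_lit 12540) (nat_lit 6) (nat_lit 165) (nat_lit 3) (nat_lit 157) (nat_lit 126) (nat_lit 167))) (PT.nd (nat_lit 78) (PT.lf (nat_lit 12616) (nat_lit 6) (nat_lit 166) (nat_lit 3) (nat_lit 158) (nat_lit 126) (nat_lit 166)) (PT.lf (nat_lit 12692) (nat_lit 6) (nat_lit 167) (nat_lit 3) (nat_lit 159) (nat_lit 126) (nat_lit 165)))) (PT.nd (nat_lit 156) (PT.nd (nat_lit 78) (PT.lf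 (nat_lit 12768) (nat_lit 6) (nat_lit 168) (nat_lit 3) (nat_lit 160) (nat_lit 126) (nat_lit 164)) (PT.lf (nat_lit 12844) (nat_lit 6) (nat_lit 169) (nat_lit 3) (nat_lit 161) (nat_lit 126) (nat_lit 163))) (PT.nd (nat_lit 78) (PT.lf (nat_lit 12920) (nat_lit 3) (nat_lit 170) (nat_lit 1) (nat_lit 162) (nat_lit 126) (nat_lit 162)) (PT.lf (nat_lit 12844) (nat_lit 6) (nat_lit 169) (nat_lit 1) (nat_lit 163) (nat_lit 126) (nat_lit 161)))))) (PT.nd (nat_lit 46488) (PT.nd (nat_lit 312) (PT.nd (nat_lit 156) (PT.nd (nat_lit 78) (PT.lf (nat_lit 12768) (nat_lit 6) (nat_lit 168) (nat_lit 1) (nat_lit 164) (nat_lit 126) (nat_lit 160)) (PT.lf (nat_lit 12692) (nat_lit 6) (nat_lit 167) (nat_lit 1) (nat_lit 165) (nat_lit 126) (nat_lit 159))) (PT.nd (nat_lit 78) (PT.lf (nat_lit 12616) (nat_lit 6) (nat_lit 166) (nat_lit 1) (nat_lit 166) (nat_lit 126) (nat_lit 158)) (PT.lf (nat_lit 12540) (nat_lit 6) (nat_lit 165) (nat_lit 1) (nat_lit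 167) (nat_lit 126) (nat_lit 157)))) (PT.nd (nat_lit 46020) (PT.nd (nat_lit 45942) (PT.lf (nat_lit 12464) (nat_lit 6) (nat_lit 164) (nat_lit 1) (nat_lit 168) (nat_lit 126) (nat_lit 156)) (PT.lf (nat_lit 12996) (nat_lit 6) (nat_lit 171) (nat_lit 3) (nat_lit 156) (nat_lit 127) (nat_lit 167))) (PT.nd (nat_lit 78) (PT.lf (nat_lit 13072) (nat_lit 6) (nat_lit 172) (nat_lit 3) (nat_lit 157) (nat_lit 127) (nat_lit 166)) (PT.lf (nat_lit 13148) (nat_lit 6) (nat_lit 173) (nat_lit 3) (nat_lit 158) (nat_lit 127) (nat_lit 165))))) (PT.nd (nat_lit 312) (PT.nd (nat_lit 156) (PT.nd (nat_lit 78) (PT.lf (nat_lit 13224) (nat_lit 6) (nat_lit 174) (nat_lit 3) (nat_lit 159) (nat_lit 127) (nat_lit 164)) (PT.lf (nat_lit 13300) (nat_lit 6) (nat_lit 175) (nat_lit 3) (nat_lit 160) (nat_lit 127) (nat_lit 163))) (PT.nd (nat_lit 78) (PT.lf (nat_lit 13376) (nat_lit 6) (nat_lit 176) (nat_lit 3) (nat_lit 161) (nat_lit 127) (nat_lit 162))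 (PT.lf (nat_lit 13376) (nat_lit 6) (nat_lit 176) (nat_lit 1) (nat_lit 162) (nat_lit 127) (nat_lit 161)))) (PT.nd (nat_lit 156) (PT.nd (nat_lit 78) (PT.lf (nat_lit 13300) (nat_lit 6) (nat_lit 175) (nat_lit 1) (nat_lit 163) (nat_lit 127) (nat_lit 160)) (PT.lf (nat_lit 13224) (nat_lit 6) (nat_lit 174) (nat_lit 1) (nat_lit 164) (nat_lit 127) (nat_lit 159))) (PT.nd (nat_lit 78) (PT.lf (nat_lit 13148) (nat_lit 6) (nat_lit 173) (nat_lit 1) (nat_lit 165) (nat_lit 127) (nat_lit 158)) (PT.lf (nat_lit 13072) (nat_lit 6) (nat_lit 172) (nat_lit 1) (nat_lit 166) (nat_lit 127) (nat_lit 157))))))))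
noncomputable def pc5 : PT := (PT.nd (nat_lit 139854) (PT.nd (nat_lit 92898) (PT.nd (nat_lit 46488) (PT.nd (nat_lit 46176) (PT.nd (nat_lit 46020) (PT.nd (nat_lit 45942) (PT.lf (nat_lit 12996) (nat_lit 6) (nat_lit 171) (nat_lit 1) (nat_lit 167) (nat_lit 127) (nat_lit 156)) (PT.lf (nat_lit 13452) (nat_lit 6) (nat_lit 177) (nat_lit 3) (nat_lit 155) (nat_lit 128) (nat_lit 167))) (PT.nd (nat_lit 78) (PT.lf (nat_lit 13528) (nat_lit 6) (nat_lit 178) (nat_lit 3) (nat_lit 156) (nat_lit 128) (nat_lit 166)) (PT.lf (nat_lit 13604) (nat_lit 6) (nat_lit 179) (nat_lit 3) (nat_lit 157) (nat_lit 128) (nat_lit 165)))) (PT.nd (nat_lit 156) (PT.nd (nat_lit 78) (PT.lf (nat_lit 13680) (nat_lit 6) (nat_lit 180) (nat_lit 3) (nat_lit 158) (nat_lit 128) (nat_lit 164)) (PT.lf (nat_lit 13756) (nat_lit 6) (nat_lit 181) (nat_lit 3) (nat_lit 159) (nat_lit 128) (nat_lit 163))) (PT.nd (nat_lit 78) (PT.lf (nat_lit 13832) (nat_lit 6) (nat_lit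 182) (nat_lit 3) (nat_lit 160) (nat_lit 128) (nat_lit 162)) (PT.lf (nat_lit 13908) (nat_lit 3) (nat_lit 183) (nat_lit 1) (nat_lit 161) (nat_lit 128) (nat_lit 161))))) (PT.nd (nat_lit 312) (PT.nd (nat_lit 156) (PT.nd (nat_lit 78) (PT.lf (nat_lit 13832) (nat_lit 6) (nat_lit 182) (nat_lit 1) (nat_lit 162) (nat_lit 128) (nat_lit 160)) (PT.lf (nat_lit 13756) (nat_lit 6) (nat_lit 181) (nat_lit 1) (nat_lit 163) (nat_lit 128) (nat_lit 159))) (PT.nd (nat_lit 78) (PT.lf (nat_lit 13680) (nat_lit 6) (nat_lit 180) (nat_lit 1) (nat_lit 164) (nat_lit 128) (nat_lit 158)) (PT.lf (nat_lit 13604) (nat_lit 6) (nat_lit 179) (nat_lit 1) (nat_lit 165) (nat_lit 128) (nat_lit 157)))) (PT.nd (nat_lit 45942) (PT.nd (nat_lit 78) (PT.lf (nat_lit 13528) (nat_lit 6) (nat_lit 178) (nat_lit 1) (nat_lit 166) (nat_lit 128) (nat_lit 156)) (PT.lf (nat_lit 13452) (nat_lit 6) (nat_lit 177) (nat_lit 1) (nat_lit 167) (nat_lit 128) (nat_lit 155)))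 (PT.nd (nat_lit 78) (PT.lf (nat_lit 13984) (nat_lit 6) (nat_lit 184) (nat_lit 3) (nat_lit 154) (nat_lit 129) (nat_lit 167)) (PT.lf (nat_lit 14060) (nat_lit 6) (nat_lit 185) (nat_lit 3) (nat_lit 155) (nat_lit 129) (nat_lit 166)))))) (PT.nd (nat_lit 624) (PT.nd (nat_lit 312) (PT.nd (nat_lit 156) (PT.nd (nat_lit 78) (PT.lf (nat_lit 14136) (nat_lit 6) (nat_lit 186) (nat_lit 3) (nat_lit 156) (nat_lit 129) (nat_lit 165)) (PT.lf (nat_lit 14212) (nat_lit 6) (nat_lit 187) (nat_lit 3) (nat_lit 157) (nat_lit 129) (nat_lit 164))) (PT.nd (nat_lit 78) (PT.lf (nat_lit 14288) (nat_lit 6) (nat_lit 188) (nat_lit 3) (nat_lit 158) (nat_lit 129) (nat_lit 163)) (PT.lf (nat_lit 14364) (nat_lit 6) (nat_lit 189) (nat_lit 3) (nat_lit 159) (nat_lit 129) (nat_lit 162)))) (PT.nd (nat_lit 156) (PT.nd (nat_lit 78) (PT.lf (nat_lit 14440) (nat_lit 6) (nat_lit 190) (nat_lit 3) (nat_lit 160) (nat_lit 129) (nat_lit 161)) (PT.lf (nat_lit 14440)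 (nat_lit 6) (nat_lit 190) (nat_lit 1) (nat_lit 161) (nat_lit 129) (nat_lit 160))) (PT.nd (nat_lit 78) (PT.lf (nat_lit 14364) (nat_lit 6) (nat_lit 189) (nat_lit 1) (nat_lit 162) (nat_lit 129) (nat_lit 159)) (PT.lf (nat_lit 14288) (nat_lit 6) (nat_lit 188) (nat_lit 1) (nat_lit 163) (nat_lit 129) (nat_lit 158))))) (PT.nd (nat_lit 46020) (PT.nd (nat_lit 156) (PT.nd (nat_lit 78) (PT.lf (nat_lit 14212) (nat_lit 6) (nat_lit 187) (nat_lit 1) (nat_lit 164) (nat_lit 129) (nat_lit 157)) (PT.lf (nat_lit 14136) (nat_lit 6) (nat_lit 186) (nat_lit 1) (nat_lit 165) (nat_lit 129) (nat_lit 156))) (PT.nd (nat_lit 78) (PT.lf (nat_lit 14060) (nat_lit 6) (nat_lit 185) (nat_lit 1) (nat_lit 166) (nat_lit 129) (nat_lit 155)) (PT.lf (nat_lit 13984) (nat_lit 6) (nat_lit 184) (nat_lit 1) (nat_lit 167) (nat_lit 129) (nat_lit 154)))) (PT.nd (nat_lit 156) (PT.nd (nat_lit 78) (PT.lf (nat_lit 14516) (nat_lit 6) (nat_lit 191) (nat_lit 3)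 (nat_lit 153) (nat_lit 130) (nat_lit 167)) (PT.lf (nat_lit 14592) (nat_lit 6) (nat_lit 192) (nat_lit 3) (nat_lit 154) (nat_lit 130) (nat_lit 166))) (PT.nd (nat_lit 78) (PT.lf (nat_lit 14668) (nat_lit 6) (nat_lit 193) (nat_lit 3) (nat_lit 155) (nat_lit 130) (nat_lit 165)) (PT.lf (nat_lit 14744) (nat_lit 6) (nat_lit 194) (nat_lit 3) (nat_lit 156) (nat_lit 130) (nat_lit 164))))))) (PT.nd (nat_lit 46878) (PT.nd (nat_lit 624) (PT.nd (nat_lit 312) (PT.nd (nat_lit 156) (PT.nd (nat_lit 78) (PT.lf (nat_lit 14820) (nat_lit 6) (nat_lit 195) (nat_lit 3) (nat_lit 157) (nat_lit 130) (nat_lit 163)) (PT.lf (nat_lit 14896) (nat_lit 6) (nat_lit 196) (nat_lit 3) (nat_lit 158) (nat_lit 130) (nat_lit 162))) (PT.nd (nat_lit 78) (PT.lf (nat_lit 14972) (nat_lit 6) (nat_lit 197) (nat_lit 3) (nat_lit 159) (nat_lit 130) (nat_lit 161)) (PT.lf (nat_lit 15048) (nat_lit 3) (nat_lit 198) (nat_lit 1) (nat_lit 160) (nat_lit 130) (nat_lit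 160)))) (PT.nd (nat_lit 156) (PT.nd (nat_lit 78) (PT.lf (nat_lit 14972) (nat_lit 6) (nat_lit 197) (nat_lit 1) (nat_lit 161) (nat_lit 130) (nat_lit 159)) (PT.lf (nat_lit 14896) (nat_lit 6) (nat_lit 196) (nat_lit 1) (nat_lit 162) (nat_lit 130) (nat_lit 158))) (PT.nd (nat_lit 78) (PT.lf (nat_lit 14820) (nat_lit 6) (nat_lit 195) (nat_lit 1) (nat_lit 163) (nat_lit 130) (nat_lit 157)) (PT.lf (nat_lit 14744) (nat_lit 6) (nat_lit 194) (nat_lit 1) (nat_lit 164) (nat_lit 130) (nat_lit 156))))) (PT.nd (nat_lit 45942) (PT.nd (nat_lit 156) (PT.nd (nat_lit 78) (PT.lf (nat_lit 14668) (nat_lit 6) (nat_lit 193) (nat_lit 1) (nat_lit 165) (nat_lit 130) (nat_lit 155)) (PT.lf (nat_lit 14592) (nat_lit 6) (nat_lit 192) (nat_lit 1) (nat_lit 166) (nat_lit 130) (nat_lit 154))) (PT.nd (nat_lit 45708) (PT.lf (nat_lit 14516) (nat_lit 6) (nat_lit 191) (nat_lit 1) (nat_lit 167) (nat_lit 130) (nat_lit 153)) (PT.lf (nat_lit 15124) (nat_lit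 6) (nat_lit 199) (nat_lit 3) (nat_lit 152) (nat_lit 131) (nat_lit 167)))) (PT.nd (nat_lit 156) (PT.nd (nat_lit 78) (PT.lf (nat_lit 15200) (nat_lit 6) (nat_lit 200) (nat_lit 3) (nat_lit 153) (nat_lit 131) (nat_lit 166)) (PT.lf (nat_lit 15276) (nat_lit 6) (nat_lit 201) (nat_lit 3) (nat_lit 154) (nat_lit 131) (nat_lit 165))) (PT.nd (nat_lit 78) (PT.lf (nat_lit 15352) (nat_lit 6) (nat_lit 202) (nat_lit 3) (nat_lit 155) (nat_lit 131) (nat_lit 164)) (PT.lf (nat_lit 15428) (nat_lit 6) (nat_lit 203) (nat_lit 3) (nat_lit 156) (nat_lit 131) (nat_lit 163)))))) (PT.nd (nat_lit 624) (PT.nd (nat_lit 312) (PT.nd (nat_lit 156) (PT.nd (nat_lit 78) (PT.lf (nat_lit 15504) (nat_lit 6) (nat_lit 204) (nat_lit 3) (nat_lit 157) (nat_lit 131) (nat_lit 162)) (PT.lf (nat_lit 15580) (nat_lit 6) (nat_lit 205) (nat_lit 3) (nat_lit 158) (nat_lit 131) (nat_lit 161))) (PT.nd (nat_lit 78) (PT.lf (nat_lit 15656) (nat_lit 6) (nat_lit 206)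 (nat_lit 3) (nat_lit 159) (nat_lit 131) (nat_lit 160)) (PT.lf (nat_lit 15656) (nat_lit 6) (nat_lit 206) (nat_lit 1) (nat_lit 160) (nat_lit 131) (nat_lit 159)))) (PT.nd (nat_lit 156) (PT.nd (nat_lit 78) (PT.lf (nat_lit 15580) (nat_lit 6) (nat_lit 205) (nat_lit 1) (nat_lit 161) (nat_lit 131) (nat_lit 158)) (PT.lf (nat_lit 15504) (nat_lit 6) (nat_lit 204) (nat_lit 1) (nat_lit 162) (nat_lit 131) (nat_lit 157))) (PT.nd (nat_lit 78) (PT.lf (nat_lit 15428) (nat_lit 6) (nat_lit 203) (nat_lit 1) (nat_lit 163) (nat_lit 131) (nat_lit 156)) (PT.lf (nat_lit 15352) (nat_lit 6) (nat_lit 202) (nat_lit 1) (nat_lit 164) (nat_lit 131) (nat_lit 155))))) (PT.nd (nat_lit 45942) (PT.nd (nat_lit 156) (PT.nd (nat_lit 78) (PT.lf (nat_lit 15276) (nat_lit 6) (nat_lit 201) (nat_lit 1) (nat_lit 165) (nat_lit 131) (nat_lit 154)) (PT.lf (nat_lit 15200) (nat_lit 6) (nat_lit 200) (nat_lit 1) (nat_lit 166) (nat_lit 131) (nat_lit 153))) (PT.nd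 (nat_lit 45708) (PT.lf (nat_lit 15124) (nat_lit 6) (nat_lit 199) (nat_lit 1) (nat_lit 167) (nat_lit 131) (nat_lit 152)) (PT.lf (nat_lit 15732) (nat_lit 6) (nat_lit 207) (nat_lit 3) (nat_lit 152) (nat_lit 132) (nat_lit 166)))) (PT.nd (nat_lit 156) (PT.nd (nat_lit 78) (PT.lf (nat_lit 15808) (nat_lit 6) (nat_lit 208) (nat_lit 3) (nat_lit 153) (nat_lit 132) (nat_lit 165)) (PT.lf (nat_lit 15884) (nat_lit 6) (nat_lit 209) (nat_lit 3) (nat_lit 154) (nat_lit 132) (nat_lit 164))) (PT.nd (nat_lit 78) (PT.lf (nat_lit 15960) (nat_lit 6) (nat_lit 210) (nat_lit 3) (nat_lit 155) (nat_lit 132) (nat_lit 163)) (PT.lf (nat_lit 16036) (nat_lit 6) (nat_lit 211) (nat_lit 3) (nat_lit 156) (nat_lit 132) (nat_lit 162))))))))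
noncomputable def pc6 : PT := (PT.nd (nat_lit 93678) (PT.nd (nat_lit 46878) (PT.nd (nat_lit 624) (PT.nd (nat_lit 312) (PT.nd (nat_lit 156) (PT.nd (nat_lit 78) (PT.lf (nat_lit 16112) (nat_lit 6) (nat_lit 212) (nat_lit 3) (nat_lit 157) (nat_lit 132) (nat_lit 161)) (PT.lf (nat_lit 16188) (nat_lit 6) (nat_lit 213) (nat_lit 3) (nat_lit 158) (nat_lit 132) (nat_lit 160))) (PT.nd (nat_lit 78) (PT.lf (nat_lit 16264) (nat_lit 3) (nat_lit 214) (nat_lit 1) (nat_lit 159) (nat_lit 132) (nat_lit 159)) (PT.lf (nat_lit 16188) (nat_lit 6) (nat_lit 213) (nat_lit 1) (nat_lit 160) (nat_lit 132) (nat_lit 158)))) (PT.nd (nat_lit 156) (PT.nd (nat_lit 78) (PT.lf (nat_lit 16112) (nat_lit 6) (nat_lit 212) (nat_lit 1) (nat_lit 161) (nat_lit 132) (nat_lit 157)) (PT.lf (nat_lit 16036) (nat_lit 6) (nat_lit 211) (nat_lit 1) (nat_lit 162) (nat_lit 132) (nat_lit 156))) (PT.nd (nat_lit 78) (PT.lf (nat_lit 15960) (nat_lit 6) (nat_lit 210)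 (nat_lit 1) (nat_lit 163) (nat_lit 132) (nat_lit 155)) (PT.lf (nat_lit 15884) (nat_lit 6) (nat_lit 209) (nat_lit 1) (nat_lit 164) (nat_lit 132) (nat_lit 154))))) (PT.nd (nat_lit 45942) (PT.nd (nat_lit 45786) (PT.nd (nat_lit 78) (PT.lf (nat_lit 15808) (nat_lit 6) (nat_lit 208) (nat_lit 1) (nat_lit 165) (nat_lit 132) (nat_lit 153)) (PT.lf (nat_lit 15732) (nat_lit 6) (nat_lit 207) (nat_lit 1) (nat_lit 166) (nat_lit 132) (nat_lit 152))) (PT.nd (nat_lit 78) (PT.lf (nat_lit 16340) (nat_lit 6) (nat_lit 215) (nat_lit 3) (nat_lit 151) (nat_lit 133) (nat_lit 166)) (PT.lf (nat_lit 16416) (nat_lit 6) (nat_lit 216) (nat_lit 3) (nat_lit 152) (nat_lit 133) (nat_lit 165)))) (PT.nd (nat_lit 156) (PT.nd (nat_lit 78) (PT.lf (nat_lit 16492) (nat_lit 6) (nat_lit 217) (nat_lit 3) (nat_lit 153) (nat_lit 133) (nat_lit 164)) (PT.lf (nat_lit 16568) (nat_lit 6) (nat_lit 218) (nat_lit 3) (nat_lit 154) (nat_lit 133) (nat_lit 163)))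 (PT.nd (nat_lit 78) (PT.lf (nat_lit 16644) (nat_lit 6) (nat_lit 219) (nat_lit 3) (nat_lit 155) (nat_lit 133) (nat_lit 162)) (PT.lf (nat_lit 16720) (nat_lit 6) (nat_lit 220) (nat_lit 3) (nat_lit 156) (nat_lit 133) (nat_lit 161)))))) (PT.nd (nat_lit 624) (PT.nd (nat_lit 312) (PT.nd (nat_lit 156) (PT.nd (nat_lit 78) (PT.lf (nat_lit 16796) (nat_lit 6) (nat_lit 221) (nat_lit 3) (nat_lit 157) (nat_lit 133) (nat_lit 160)) (PT.lf (nat_lit 16872) (nat_lit 6) (nat_lit 222) (nat_lit 3) (nat_lit 158) (nat_lit 133) (nat_lit 159))) (PT.nd (nat_lit 78) (PT.lf (nat_lit 16872) (nat_lit 6) (nat_lit 222) (nat_lit 1) (nat_lit 159) (nat_lit 133) (nat_lit 158)) (PT.lf (nat_lit 16796) (nat_lit 6) (nat_lit 221) (nat_lit 1) (nat_lit 160) (nat_lit 133) (nat_lit 157)))) (PT.nd (nat_lit 156) (PT.nd (nat_lit 78) (PT.lf (nat_lit 16720) (nat_lit 6) (nat_lit 220) (nat_lit 1) (nat_lit 161) (nat_lit 133) (nat_lit 156)) (PT.lf (nat_lit 16644)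 (nat_lit 6) (nat_lit 219) (nat_lit 1) (nat_lit 162) (nat_lit 133) (nat_lit 155))) (PT.nd (nat_lit 78) (PT.lf (nat_lit 16568) (nat_lit 6) (nat_lit 218) (nat_lit 1) (nat_lit 163) (nat_lit 133) (nat_lit 154)) (PT.lf (nat_lit 16492) (nat_lit 6) (nat_lit 217) (nat_lit 1) (nat_lit 164) (nat_lit 133) (nat_lit 153))))) (PT.nd (nat_lit 45864) (PT.nd (nat_lit 45708) (PT.nd (nat_lit 78) (PT.lf (nat_lit 16416) (nat_lit 6) (nat_lit 216) (nat_lit 1) (nat_lit 165) (nat_lit 133) (nat_lit 152)) (PT.lf (nat_lit 16340) (nat_lit 6) (nat_lit 215) (nat_lit 1) (nat_lit 166) (nat_lit 133) (nat_lit 151))) (PT.nd (nat_lit 78) (PT.lf (nat_lit 17556) (nat_lit 6) (nat_lit 231) (nat_lit 3) (nat_lit 150) (nat_lit 134) (nat_lit 166)) (PT.lf (nat_lit 17632) (nat_lit 6) (nat_lit 232) (nat_lit 3) (nat_lit 151) (nat_lit 134) (nat_lit 165)))) (PT.nd (nat_lit 156) (PT.nd (nat_lit 78) (PT.lf (nat_lit 17708) (nat_lit 6) (nat_lit 233) (nat_lit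 3) (nat_lit 152) (nat_lit 134) (nat_lit 164)) (PT.lf (nat_lit 17784) (nat_lit 6) (nat_lit 234) (nat_lit 3) (nat_lit 153) (nat_lit 134) (nat_lit 163))) (PT.nd (nat_lit 78) (PT.lf (nat_lit 17860) (nat_lit 6) (nat_lit 235) (nat_lit 3) (nat_lit 154) (nat_lit 134) (nat_lit 162)) (PT.lf (nat_lit 17936) (nat_lit 6) (nat_lit 236) (nat_lit 3) (nat_lit 155) (nat_lit 134) (nat_lit 161))))))) (PT.nd (nat_lit 46722) (PT.nd (nat_lit 624) (PT.nd (nat_lit 312) (PT.nd (nat_lit 156) (PT.nd (nat_lit 78) (PT.lf (nat_lit 18012) (nat_lit 6) (nat_lit 237) (nat_lit 3) (nat_lit 156) (nat_lit 134) (nat_lit 160)) (PT.lf (nat_lit 18088) (nat_lit 6) (nat_lit 238) (nat_lit 3) (nat_lit 157) (nat_lit 134) (nat_lit 159))) (PT.nd (nat_lit 78) (PT.lf (nat_lit 18164) (nat_lit 3) (nat_lit 239) (nat_lit 1) (nat_lit 158) (nat_lit 134) (nat_lit 158)) (PT.lf (nat_lit 18088) (nat_lit 6) (nat_lit 238) (nat_lit 1) (nat_lit 159) (nat_lit 134) (nat_lit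 157)))) (PT.nd (nat_lit 156) (PT.nd (nat_lit 78) (PT.lf (nat_lit 18012) (nat_lit 6) (nat_lit 237) (nat_lit 1) (nat_lit 160) (nat_lit 134) (nat_lit 156)) (PT.lf (nat_lit 17936) (nat_lit 6) (nat_lit 236) (nat_lit 1) (nat_lit 161) (nat_lit 134) (nat_lit 155))) (PT.nd (nat_lit 78) (PT.lf (nat_lit 17860) (nat_lit 6) (nat_lit 235) (nat_lit 1) (nat_lit 162) (nat_lit 134) (nat_lit 154)) (PT.lf (nat_lit 17784) (nat_lit 6) (nat_lit 234) (nat_lit 1) (nat_lit 163) (nat_lit 134) (nat_lit 153))))) (PT.nd (nat_lit 45786) (PT.nd (nat_lit 156) (PT.nd (nat_lit 78) (PT.lf (nat_lit 17708) (nat_lit 6) (nat_lit 233) (nat_lit 1) (nat_lit 164) (nat_lit 134) (nat_lit 152)) (PT.lf (nat_lit 17632) (nat_lit 6) (nat_lit 232) (nat_lit 1) (nat_lit 165) (nat_lit 134) (nat_lit 151))) (PT.nd (nat_lit 45552) (PT.lf (nat_lit 17556) (nat_lit 6) (nat_lit 231) (nat_lit 1) (nat_lit 166) (nat_lit 134) (nat_lit 150)) (PT.lf (nat_lit 17480) (nat_lit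 6) (nat_lit 230) (nat_lit 3) (nat_lit 149) (nat_lit 135) (nat_lit 166)))) (PT.nd (nat_lit 156) (PT.nd (nat_lit 78) (PT.lf (nat_lit 18772) (nat_lit 6) (nat_lit 247) (nat_lit 3) (nat_lit 150) (nat_lit 135) (nat_lit 165)) (PT.lf (nat_lit 18848) (nat_lit 6) (nat_lit 248) (nat_lit 3) (nat_lit 151) (nat_lit 135) (nat_lit 164))) (PT.nd (nat_lit 78) (PT.lf (nat_lit 18924) (nat_lit 6) (nat_lit 249) (nat_lit 3) (nat_lit 152) (nat_lit 135) (nat_lit 163)) (PT.lf (nat_lit 19000) (nat_lit 6) (nat_lit 250) (nat_lit 3) (nat_lit 153) (nat_lit 135) (nat_lit 162)))))) (PT.nd (nat_lit 624) (PT.nd (nat_lit 312) (PT.nd (nat_lit 156) (PT.nd (nat_lit 78) (PT.lf (nat_lit 19076) (nat_lit 6) (nat_lit 251) (nat_lit 3) (nat_lit 154) (nat_lit 135) (nat_lit 161)) (PT.lf (nat_lit 19152) (nat_lit 6) (nat_lit 252) (nat_lit 3) (nat_lit 155) (nat_lit 135) (nat_lit 160))) (PT.nd (nat_lit 78) (PT.lf (nat_lit 19228) (nat_lit 6) (nat_lit 253)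 (nat_lit 3) (nat_lit 156) (nat_lit 135) (nat_lit 159)) (PT.lf (nat_lit 19304) (nat_lit 6) (nat_lit 254) (nat_lit 3) (nat_lit 157) (nat_lit 135) (nat_lit 158)))) (PT.nd (nat_lit 156) (PT.nd (nat_lit 78) (PT.lf (nat_lit 19304) (nat_lit 6) (nat_lit 254) (nat_lit 1) (nat_lit 158) (nat_lit 135) (nat_lit 157)) (PT.lf (nat_lit 19228) (nat_lit 6) (nat_lit 253) (nat_lit 1) (nat_lit 159) (nat_lit 135) (nat_lit 156))) (PT.nd (nat_lit 78) (PT.lf (nat_lit 19152) (nat_lit 6) (nat_lit 252) (nat_lit 1) (nat_lit 160) (nat_lit 135) (nat_lit 155)) (PT.lf (nat_lit 19076) (nat_lit 6) (nat_lit 251) (nat_lit 1) (nat_lit 161) (nat_lit 135) (nat_lit 154))))) (PT.nd (nat_lit 312) (PT.nd (nat_lit 156) (PT.nd (nat_lit 78) (PT.lf (nat_lit 19000) (nat_lit 6) (nat_lit 250) (nat_lit 1) (nat_lit 162) (nat_lit 135) (nat_lit 153)) (PT.lf (nat_lit 18924) (nat_lit 6) (nat_lit 249) (nat_lit 1) (nat_lit 163) (nat_lit 135) (nat_lit 152))) (PT.nd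 (nat_lit 78) (PT.lf (nat_lit 18848) (nat_lit 6) (nat_lit 248) (nat_lit 1) (nat_lit 164) (nat_lit 135) (nat_lit 151)) (PT.lf (nat_lit 18772) (nat_lit 6) (nat_lit 247) (nat_lit 1) (nat_lit 165) (nat_lit 135) (nat_lit 150)))) (PT.nd (nat_lit 45552) (PT.nd (nat_lit 45474) (PT.lf (nat_lit 17480) (nat_lit 6) (nat_lit 230) (nat_lit 1) (nat_lit 166) (nat_lit 135) (nat_lit 149)) (PT.lf (nat_lit 17404) (nat_lit 6) (nat_lit 229) (nat_lit 3) (nat_lit 148) (nat_lit 136) (nat_lit 166))) (PT.nd (nat_lit 78) (PT.lf (nat_lit 18696) (nat_lit 6) (nat_lit 246) (nat_lit 3) (nat_lit 149) (nat_lit 136) (nat_lit 165)) (PT.lf (nat_lit 19912) (nat_lit 6) (nat_lit 262) (nat_lit 3) (nat_lit 150) (nat_lit 136) (nat_lit 164))))))))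
noncomputable def pc7 : PT := (PT.nd (nat_lit 47814) (PT.nd (nat_lit 46566) (PT.nd (nat_lit 624) (PT.nd (nat_lit 312) (PT.nd (nat_lit 156) (PT.nd (nat_lit 78) (PT.lf (nat_lit 19988) (nat_lit 6) (nat_lit 263) (nat_lit 3) (nat_lit 151) (nat_lit 136) (nat_lit 163)) (PT.lf (nat_lit 20064) (nat_lit 6) (nat_lit 264) (nat_lit 3) (nat_lit 152) (nat_lit 136) (nat_lit 162))) (PT.nd (nat_lit 78) (PT.lf (nat_lit 20140) (nat_lit 6) (nat_lit 265) (nat_lit 3) (nat_lit 153) (nat_lit 136) (nat_lit 161)) (PT.lf (nat_lit 20216) (nat_lit 6) (nat_lit 266) (nat_lit 3) (nat_lit 154) (nat_lit 136) (nat_lit 160)))) (PT.nd (nat_lit 156) (PT.nd (nat_lit 78) (PT.lf (nat_lit 20292) (nat_lit 6) (nat_lit 267) (nat_lit 3) (nat_lit 155) (nat_lit 136) (nat_lit 159)) (PT.lf (nat_lit 20368) (nat_lit 6) (nat_lit 268) (nat_lit 3) (nat_lit 156) (nat_lit 136) (nat_lit 158))) (PT.nd (nat_lit 78) (PT.lf (nat_lit 20444) (nat_lit 3) (nat_lit 269)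 (nat_lit 1) (nat_lit 157) (nat_lit 136) (nat_lit 157)) (PT.lf (nat_lit 20368) (nat_lit 6) (nat_lit 268) (nat_lit 1) (nat_lit 158) (nat_lit 136) (nat_lit 156))))) (PT.nd (nat_lit 312) (PT.nd (nat_lit 156) (PT.nd (nat_lit 78) (PT.lf (nat_lit 20292) (nat_lit 6) (nat_lit 267) (nat_lit 1) (nat_lit 159) (nat_lit 136) (nat_lit 155)) (PT.lf (nat_lit 20216) (nat_lit 6) (nat_lit 266) (nat_lit 1) (nat_lit 160) (nat_lit 136) (nat_lit 154))) (PT.nd (nat_lit 78) (PT.lf (nat_lit 20140) (nat_lit 6) (nat_lit 265) (nat_lit 1) (nat_lit 161) (nat_lit 136) (nat_lit 153)) (PT.lf (nat_lit 20064) (nat_lit 6) (nat_lit 264) (nat_lit 1) (nat_lit 162) (nat_lit 136) (nat_lit 152)))) (PT.nd (nat_lit 156) (PT.nd (nat_lit 78) (PT.lf (nat_lit 19988) (nat_lit 6) (nat_lit 263) (nat_lit 1) (nat_lit 163) (nat_lit 136) (nat_lit 151)) (PT.lf (nat_lit 19912) (nat_lit 6) (nat_lit 262) (nat_lit 1) (nat_lit 164) (nat_lit 136) (nat_lit 150))) (PT.nd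 (nat_lit 78) (PT.lf (nat_lit 18696) (nat_lit 6) (nat_lit 246) (nat_lit 1) (nat_lit 165) (nat_lit 136) (nat_lit 149)) (PT.lf (nat_lit 17404) (nat_lit 6) (nat_lit 229) (nat_lit 1) (nat_lit 166) (nat_lit 136) (nat_lit 148)))))) (PT.nd (nat_lit 624) (PT.nd (nat_lit 312) (PT.nd (nat_lit 156) (PT.nd (nat_lit 78) (PT.lf (nat_lit 17328) (nat_lit 6) (nat_lit 228) (nat_lit 3) (nat_lit 147) (nat_lit 137) (nat_lit 166)) (PT.lf (nat_lit 18620) (nat_lit 6) (nat_lit 245) (nat_lit 3) (nat_lit 148) (nat_lit 137) (nat_lit 165))) (PT.nd (nat_lit 78) (PT.lf (nat_lit 19836) (nat_lit 6) (nat_lit 261) (nat_lit 3) (nat_lit 149) (nat_lit 137) (nat_lit 164)) (PT.lf (nat_lit 20976) (nat_lit 6) (nat_lit 276) (nat_lit 3) (nat_lit 150) (nat_lit 137) (nat_lit 163)))) (PT.nd (nat_lit 156) (PT.nd (nat_lit 78) (PT.lf (nat_lit 21052) (nat_lit 6) (nat_lit 277) (nat_lit 3) (nat_lit 151) (nat_lit 137) (nat_lit 162)) (PT.lf (nat_lit 21128) (nat_lit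 6) (nat_lit 278) (nat_lit 3) (nat_lit 152) (nat_lit 137) (nat_lit 161))) (PT.nd (nat_lit 78) (PT.lf (nat_lit 21204) (nat_lit 6) (nat_lit 279) (nat_lit 3) (nat_lit 153) (nat_lit 137) (nat_lit 160)) (PT.lf (nat_lit 21280) (nat_lit 6) (nat_lit 280) (nat_lit 3) (nat_lit 154) (nat_lit 137) (nat_lit 159))))) (PT.nd (nat_lit 312) (PT.nd (nat_lit 156) (PT.nd (nat_lit 78) (PT.lf (nat_lit 21356) (nat_lit 6) (nat_lit 281) (nat_lit 3) (nat_lit 155) (nat_lit 137) (nat_lit 158)) (PT.lf (nat_lit 21432) (nat_lit 6) (nat_lit 282) (nat_lit 3) (nat_lit 156) (nat_lit 137) (nat_lit 157))) (PT.nd (nat_lit 78) (PT.lf (nat_lit 21432) (nat_lit 6) (nat_lit 282) (nat_lit 1) (nat_lit 157) (nat_lit 137) (nat_lit 156)) (PT.lf (nat_lit 21356) (nat_lit 6) (nat_lit 281) (nat_lit 1) (nat_lit 158) (nat_lit 137) (nat_lit 155)))) (PT.nd (nat_lit 156) (PT.nd (nat_lit 78) (PT.lf (nat_lit 21280) (nat_lit 6) (nat_lit 280) (nat_lit 1) (nat_lit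 159) (nat_lit 137) (nat_lit 154)) (PT.lf (nat_lit 21204) (nat_lit 6) (nat_lit 279) (nat_lit 1) (nat_lit 160) (nat_lit 137) (nat_lit 153))) (PT.nd (nat_lit 78) (PT.lf (nat_lit 21128) (nat_lit 6) (nat_lit 278) (nat_lit 1) (nat_lit 161) (nat_lit 137) (nat_lit 152)) (PT.lf (nat_lit 21052) (nat_lit 6) (nat_lit 277) (nat_lit 1) (nat_lit 162) (nat_lit 137) (nat_lit 151))))))) (PT.nd (nat_lit 46488) (PT.nd (nat_lit 45864) (PT.nd (nat_lit 45552) (PT.nd (nat_lit 156) (PT.nd (nat_lit 78) (PT.lf (nat_lit 20976) (nat_lit 6) (nat_lit 276) (nat_lit 1) (nat_lit 163) (nat_lit 137) (nat_lit 150)) (PT.lf (nat_lit 19836) (nat_lit 6) (nat_lit 261) (nat_lit 1) (nat_lit 164) (nat_lit 137) (nat_lit 149))) (PT.nd (nat_lit 78) (PT.lf (nat_lit 18620) (nat_lit 6) (nat_lit 245) (nat_lit 1) (nat_lit 165) (nat_lit 137) (nat_lit 148)) (PT.lf (nat_lit 17328) (nat_lit 6) (nat_lit 228) (nat_lit 1) (nat_lit 166) (nat_lit 137) (nat_lit 147))))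 (PT.nd (nat_lit 156) (PT.nd (nat_lit 78) (PT.lf (nat_lit 17252) (nat_lit 6) (nat_lit 227) (nat_lit 3) (nat_lit 146) (nat_lit 138) (nat_lit 166)) (PT.lf (nat_lit 18544) (nat_lit 6) (nat_lit 244) (nat_lit 3) (nat_lit 147) (nat_lit 138) (nat_lit 165))) (PT.nd (nat_lit 78) (PT.lf (nat_lit 19760) (nat_lit 6) (nat_lit 260) (nat_lit 3) (nat_lit 148) (nat_lit 138) (nat_lit 164)) (PT.lf (nat_lit 20900) (nat_lit 6) (nat_lit 275) (nat_lit 3) (nat_lit 149) (nat_lit 138) (nat_lit 163))))) (PT.nd (nat_lit 312) (PT.nd (nat_lit 156) (PT.nd (nat_lit 78) (PT.lf (nat_lit 21964) (nat_lit 6) (nat_lit 289) (nat_lit 3) (nat_lit 150) (nat_lit 138) (nat_lit 162)) (PT.lf (nat_lit 22040) (nat_lit 6) (nat_lit 290) (nat_lit 3) (nat_lit 151) (nat_lit 138) (nat_lit 161))) (PT.nd (nat_lit 78) (PT.lf (nat_lit 22116) (nat_lit 6) (nat_lit 291) (nat_lit 3) (nat_lit 152) (nat_lit 138) (nat_lit 160)) (PT.lf (nat_lit 22192) (nat_lit 6) (nat_lit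 292) (nat_lit 3) (nat_lit 153) (nat_lit 138) (nat_lit 159)))) (PT.nd (nat_lit 156) (PT.nd (nat_lit 78) (PT.lf (nat_lit 22268) (nat_lit 6) (nat_lit 293) (nat_lit 3) (nat_lit 154) (nat_lit 138) (nat_lit 158)) (PT.lf (nat_lit 22344) (nat_lit 6) (nat_lit 294) (nat_lit 3) (nat_lit 155) (nat_lit 138) (nat_lit 157))) (PT.nd (nat_lit 78) (PT.lf (nat_lit 22420) (nat_lit 3) (nat_lit 295) (nat_lit 1) (nat_lit 156) (nat_lit 138) (nat_lit 156)) (PT.lf (nat_lit 22344) (nat_lit 6) (nat_lit 294) (nat_lit 1) (nat_lit 157) (nat_lit 138) (nat_lit 155)))))) (PT.nd (nat_lit 624) (PT.nd (nat_lit 312) (PT.nd (nat_lit 156) (PT.nd (nat_lit 78) (PT.lf (nat_lit 22268) (nat_lit 6) (nat_lit 293) (nat_lit 1) (nat_lit 158) (nat_lit 138) (nat_lit 154)) (PT.lf (nat_lit 22192) (nat_lit 6) (nat_lit 292) (nat_lit 1) (nat_lit 159) (nat_lit 138) (nat_lit 153))) (PT.nd (nat_lit 78) (PT.lf (nat_lit 22116) (nat_lit 6) (nat_lit 291) (nat_lit 1)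 (nat_lit 160) (nat_lit 138) (nat_lit 152)) (PT.lf (nat_lit 22040) (nat_lit 6) (nat_lit 290) (nat_lit 1) (nat_lit 161) (nat_lit 138) (nat_lit 151)))) (PT.nd (nat_lit 156) (PT.nd (nat_lit 78) (PT.lf (nat_lit 21964) (nat_lit 6) (nat_lit 289) (nat_lit 1) (nat_lit 162) (nat_lit 138) (nat_lit 150)) (PT.lf (nat_lit 20900) (nat_lit 6) (nat_lit 275) (nat_lit 1) (nat_lit 163) (nat_lit 138) (nat_lit 149))) (PT.nd (nat_lit 78) (PT.lf (nat_lit 19760) (nat_lit 6) (nat_lit 260) (nat_lit 1) (nat_lit 164) (nat_lit 138) (nat_lit 148)) (PT.lf (nat_lit 18544) (nat_lit 6) (nat_lit 244) (nat_lit 1) (nat_lit 165) (nat_lit 138) (nat_lit 147))))) (PT.nd (nat_lit 45474) (PT.nd (nat_lit 45318) (PT.nd (nat_lit 45240) (PT.lf (nat_lit 17252) (nat_lit 6) (nat_lit 227) (nat_lit 1) (nat_lit 166) (nat_lit 138) (nat_lit 146)) (PT.lf (nat_lit 17176) (nat_lit 6) (nat_lit 226) (nat_lit 3) (nat_lit 145) (nat_lit 139) (nat_lit 166))) (PT.nd (nat_lit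 78) (PT.lf (nat_lit 18468) (nat_lit 6) (nat_lit 243) (nat_lit 3) (nat_lit 146) (nat_lit 139) (nat_lit 165)) (PT.lf (nat_lit 19684) (nat_lit 6) (nat_lit 259) (nat_lit 3) (nat_lit 147) (nat_lit 139) (nat_lit 164)))) (PT.nd (nat_lit 156) (PT.nd (nat_lit 78) (PT.lf (nat_lit 20824) (nat_lit 6) (nat_lit 274) (nat_lit 3) (nat_lit 148) (nat_lit 139) (nat_lit 163)) (PT.lf (nat_lit 21888) (nat_lit 6) (nat_lit 288) (nat_lit 3) (nat_lit 149) (nat_lit 139) (nat_lit 162))) (PT.nd (nat_lit 78) (PT.lf (nat_lit 22876) (nat_lit 6) (nat_lit 301) (nat_lit 3) (nat_lit 150) (nat_lit 139) (nat_lit 161)) (PT.lf (nat_lit 22952) (nat_lit 6) (nat_lit 302) (nat_lit 3) (nat_lit 151) (nat_lit 139) (nat_lit 160))))))))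
noncomputable def pc8 : PT := (PT.nd (nat_lit 47502) (PT.nd (nat_lit 46254) (PT.nd (nat_lit 546) (PT.nd (nat_lit 234) (PT.nd (nat_lit 78) (PT.lf (nat_lit 23028) (nat_lit 6) (nat_lit 303) (nat_lit 3) (nat_lit 152) (nat_lit 139) (nat_lit 159)) (PT.nd (nat_lit 78) (PT.lf (nat_lit 23104) (nat_lit 6) (nat_lit 304) (nat_lit 3) (nat_lit 153) (nat_lit 139) (nat_lit 158)) (PT.lf (nat_lit 23180) (nat_lit 6) (nat_lit 305) (nat_lit 3) (nat_lit 154) (nat_lit 139) (nat_lit 157)))) (PT.nd (nat_lit 156) (PT.nd (nat_lit 78) (PT.lf (nat_lit 23256) (nat_lit 6) (nat_lit 306) (nat_lit 3) (nat_lit 155) (nat_lit 139) (nat_lit 156)) (PT.lf (nat_lit 23256) (nat_lit 6) (nat_lit 306) (nat_lit 1) (nat_lit 156) (nat_lit 139) (nat_lit 155))) (PT.nd (nat_lit 78) (PT.lf (nat_lit 23180) (nat_lit 6) (nat_lit 305) (nat_lit 1) (nat_lit 157) (nat_lit 139) (nat_lit 154)) (PT.lf (nat_lit 23104) (nat_lit 6) (nat_lit 304) (nat_lit 1) (nat_lit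 158) (nat_lit 139) (nat_lit 153))))) (PT.nd (nat_lit 312) (PT.nd (nat_lit 156) (PT.nd (nat_lit 78) (PT.lf (nat_lit 23028) (nat_lit 6) (nat_lit 303) (nat_lit 1) (nat_lit 159) (nat_lit 139) (nat_lit 152)) (PT.lf (nat_lit 22952) (nat_lit 6) (nat_lit 302) (nat_lit 1) (nat_lit 160) (nat_lit 139) (nat_lit 151))) (PT.nd (nat_lit 78) (PT.lf (nat_lit 22876) (nat_lit 6) (nat_lit 301) (nat_lit 1) (nat_lit 161) (nat_lit 139) (nat_lit 150)) (PT.lf (nat_lit 21888) (nat_lit 6) (nat_lit 288) (nat_lit 1) (nat_lit 162) (nat_lit 139) (nat_lit 149)))) (PT.nd (nat_lit 156) (PT.nd (nat_lit 78) (PT.lf (nat_lit 20824) (nat_lit 6) (nat_lit 274) (nat_lit 1) (nat_lit 163) (nat_lit 139) (nat_lit 148)) (PT.lf (nat_lit 19684) (nat_lit 6) (nat_lit 259) (nat_lit 1) (nat_lit 164) (nat_lit 139) (nat_lit 147))) (PT.nd (nat_lit 78) (PT.lf (nat_lit 18468) (nat_lit 6) (nat_lit 243) (nat_lit 1) (nat_lit 165) (nat_lit 139) (nat_lit 146)) (PT.lf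 (nat_lit 17176) (nat_lit 6) (nat_lit 226) (nat_lit 1) (nat_lit 166) (nat_lit 139) (nat_lit 145)))))) (PT.nd (nat_lit 624) (PT.nd (nat_lit 312) (PT.nd (nat_lit 156) (PT.nd (nat_lit 78) (PT.lf (nat_lit 17100) (nat_lit 6) (nat_lit 225) (nat_lit 3) (nat_lit 144) (nat_lit 140) (nat_lit 166)) (PT.lf (nat_lit 18392) (nat_lit 6) (nat_lit 242) (nat_lit 3) (nat_lit 145) (nat_lit 140) (nat_lit 165))) (PT.nd (nat_lit 78) (PT.lf (nat_lit 19608) (nat_lit 6) (nat_lit 258) (nat_lit 3) (nat_lit 146) (nat_lit 140) (nat_lit 164)) (PT.lf (nat_lit 20748) (nat_lit 6) (nat_lit 273) (nat_lit 3) (nat_lit 147) (nat_lit 140) (nat_lit 163)))) (PT.nd (nat_lit 156) (PT.nd (nat_lit 78) (PT.lf (nat_lit 21812) (nat_lit 6) (nat_lit 287) (nat_lit 3) (nat_lit 148) (nat_lit 140) (nat_lit 162)) (PT.lf (nat_lit 22800) (nat_lit 6) (nat_lit 300) (nat_lit 3) (nat_lit 149) (nat_lit 140) (nat_lit 161))) (PT.nd (nat_lit 78) (PT.lf (nat_lit 23712)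 (nat_lit 6) (nat_lit 312) (nat_lit 3) (nat_lit 150) (nat_lit 140) (nat_lit 160)) (PT.lf (nat_lit 23788) (nat_lit 6) (nat_lit 313) (nat_lit 3) (nat_lit 151) (nat_lit 140) (nat_lit 159))))) (PT.nd (nat_lit 312) (PT.nd (nat_lit 156) (PT.nd (nat_lit 78) (PT.lf (nat_lit 23864) (nat_lit 6) (nat_lit 314) (nat_lit 3) (nat_lit 152) (nat_lit 140) (nat_lit 158)) (PT.lf (nat_lit 23940) (nat_lit 6) (nat_lit 315) (nat_lit 3) (nat_lit 153) (nat_lit 140) (nat_lit 157))) (PT.nd (nat_lit 78) (PT.lf (nat_lit 24016) (nat_lit 6) (nat_lit 316) (nat_lit 3) (nat_lit 154) (nat_lit 140) (nat_lit 156)) (PT.lf (nat_lit 24092) (nat_lit 3) (nat_lit 317) (nat_lit 1) (nat_lit 155) (nat_lit 140) (nat_lit 155)))) (PT.nd (nat_lit 156) (PT.nd (nat_lit 78) (PT.lf (nat_lit 24016) (nat_lit 6) (nat_lit 316) (nat_lit 1) (nat_lit 156) (nat_lit 140) (nat_lit 154)) (PT.lf (nat_lit 23940) (nat_lit 6) (nat_lit 315) (nat_lit 1) (nat_lit 157) (nat_lit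 140) (nat_lit 153))) (PT.nd (nat_lit 78) (PT.lf (nat_lit 23864) (nat_lit 6) (nat_lit 314) (nat_lit 1) (nat_lit 158) (nat_lit 140) (nat_lit 152)) (PT.lf (nat_lit 23788) (nat_lit 6) (nat_lit 313) (nat_lit 1) (nat_lit 159) (nat_lit 140) (nat_lit 151))))))) (PT.nd (nat_lit 46254) (PT.nd (nat_lit 45630) (PT.nd (nat_lit 312) (PT.nd (nat_lit 156) (PT.nd (nat_lit 78) (PT.lf (nat_lit 23712) (nat_lit 6) (nat_lit 312) (nat_lit 1) (nat_lit 160) (nat_lit 140) (nat_lit 150)) (PT.lf (nat_lit 22800) (nat_lit 6) (nat_lit 300) (nat_lit 1) (nat_lit 161) (nat_lit 140) (nat_lit 149))) (PT.nd (nat_lit 78) (PT.lf (nat_lit 21812) (nat_lit 6) (nat_lit 287) (nat_lit 1) (nat_lit 162) (nat_lit 140) (nat_lit 148)) (PT.lf (nat_lit 20748) (nat_lit 6) (nat_lit 273) (nat_lit 1) (nat_lit 163) (nat_lit 140) (nat_lit 147)))) (PT.nd (nat_lit 156) (PT.nd (nat_lit 78) (PT.lf (nat_lit 19608) (nat_lit 6) (nat_lit 258) (nat_lit 1) (nat_lit 164)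 (nat_lit 140) (nat_lit 146)) (PT.lf (nat_lit 18392) (nat_lit 6) (nat_lit 242) (nat_lit 1) (nat_lit 165) (nat_lit 140) (nat_lit 145))) (PT.nd (nat_lit 45084) (PT.lf (nat_lit 17100) (nat_lit 6) (nat_lit 225) (nat_lit 1) (nat_lit 166) (nat_lit 140) (nat_lit 144)) (PT.lf (nat_lit 17024) (nat_lit 6) (nat_lit 224) (nat_lit 3) (nat_lit 143) (nat_lit 141) (nat_lit 166))))) (PT.nd (nat_lit 312) (PT.nd (nat_lit 156) (PT.nd (nat_lit 78) (PT.lf (nat_lit 18316) (nat_lit 6) (nat_lit 241) (nat_lit 3) (nat_lit 144) (nat_lit 141) (nat_lit 165)) (PT.lf (nat_lit 19532) (nat_lit 6) (nat_lit 257) (nat_lit 3) (nat_lit 145) (nat_lit 141) (nat_lit 164))) (PT.nd (nat_lit 78) (PT.lf (nat_lit 20672) (nat_lit 6) (nat_lit 272) (nat_lit 3) (nat_lit 146) (nat_lit 141) (nat_lit 163)) (PT.lf (nat_lit 21736) (nat_lit 6) (nat_lit 286) (nat_lit 3) (nat_lit 147) (nat_lit 141) (nat_lit 162)))) (PT.nd (nat_lit 156) (PT.nd (nat_lit 78) (PT.lf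 (nat_lit 22724) (nat_lit 6) (nat_lit 299) (nat_lit 3) (nat_lit 148) (nat_lit 141) (nat_lit 161)) (PT.lf (nat_lit 23636) (nat_lit 6) (nat_lit 311) (nat_lit 3) (nat_lit 149) (nat_lit 141) (nat_lit 160))) (PT.nd (nat_lit 78) (PT.lf (nat_lit 24472) (nat_lit 6) (nat_lit 322) (nat_lit 3) (nat_lit 150) (nat_lit 141) (nat_lit 159)) (PT.lf (nat_lit 24548) (nat_lit 6) (nat_lit 323) (nat_lit 3) (nat_lit 151) (nat_lit 141) (nat_lit 158)))))) (PT.nd (nat_lit 624) (PT.nd (nat_lit 312) (PT.nd (nat_lit 156) (PT.nd (nat_lit 78) (PT.lf (nat_lit 24624) (nat_lit 6) (nat_lit 324) (nat_lit 3) (nat_lit 152) (nat_lit 141) (nat_lit 157)) (PT.lf (nat_lit 24700) (nat_lit 6) (nat_lit 325) (nat_lit 3) (nat_lit 153) (nat_lit 141) (nat_lit 156))) (PT.nd (nat_lit 78) (PT.lf (nat_lit 24776) (nat_lit 6) (nat_lit 326) (nat_lit 3) (nat_lit 154) (nat_lit 141) (nat_lit 155)) (PT.lf (nat_lit 24776) (nat_lit 6) (nat_lit 326) (nat_lit 1) (nat_lit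 155) (nat_lit 141) (nat_lit 154)))) (PT.nd (nat_lit 156) (PT.nd (nat_lit 78) (PT.lf (nat_lit 24700) (nat_lit 6) (nat_lit 325) (nat_lit 1) (nat_lit 156) (nat_lit 141) (nat_lit 153)) (PT.lf (nat_lit 24624) (nat_lit 6) (nat_lit 324) (nat_lit 1) (nat_lit 157) (nat_lit 141) (nat_lit 152))) (PT.nd (nat_lit 78) (PT.lf (nat_lit 24548) (nat_lit 6) (nat_lit 323) (nat_lit 1) (nat_lit 158) (nat_lit 141) (nat_lit 151)) (PT.lf (nat_lit 24472) (nat_lit 6) (nat_lit 322) (nat_lit 1) (nat_lit 159) (nat_lit 141) (nat_lit 150))))) (PT.nd (nat_lit 312) (PT.nd (nat_lit 156) (PT.nd (nat_lit 78) (PT.lf (nat_lit 23636) (nat_lit 6) (nat_lit 311) (nat_lit 1) (nat_lit 160) (nat_lit 141) (nat_lit 149)) (PT.lf (nat_lit 22724) (nat_lit 6) (nat_lit 299) (nat_lit 1) (nat_lit 161) (nat_lit 141) (nat_lit 148))) (PT.nd (nat_lit 78) (PT.lf (nat_lit 21736) (nat_lit 6) (nat_lit 286) (nat_lit 1) (nat_lit 162) (nat_lit 141) (nat_lit 147)) (PT.lf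 (nat_lit 20672) (nat_lit 6) (nat_lit 272) (nat_lit 1) (nat_lit 163) (nat_lit 141) (nat_lit 146)))) (PT.nd (nat_lit 156) (PT.nd (nat_lit 78) (PT.lf (nat_lit 19532) (nat_lit 6) (nat_lit 257) (nat_lit 1) (nat_lit 164) (nat_lit 141) (nat_lit 145)) (PT.lf (nat_lit 18316) (nat_lit 6) (nat_lit 241) (nat_lit 1) (nat_lit 165) (nat_lit 141) (nat_lit 144))) (PT.nd (nat_lit 45006) (PT.lf (nat_lit 17024) (nat_lit 6) (nat_lit 224) (nat_lit 1) (nat_lit 166) (nat_lit 141) (nat_lit 143)) (PT.lf (nat_lit 16948) (nat_lit 3) (nat_lit 223) (nat_lit 3) (nat_lit 142) (nat_lit 142) (nat_lit 166))))))))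
noncomputable def pc9 : PT := (PT.nd (nat_lit 47346) (PT.nd (nat_lit 1248) (PT.nd (nat_lit 624) (PT.nd (nat_lit 312) (PT.nd (nat_lit 156) (PT.nd (nat_lit 78) (PT.lf (nat_lit 18240) (nat_lit 6) (nat_lit 240) (nat_lit 3) (nat_lit 143) (nat_lit 142) (nat_lit 165)) (PT.lf (nat_lit 19456) (nat_lit 6) (nat_lit 256) (nat_lit 3) (nat_lit 144) (nat_lit 142) (nat_lit 164))) (PT.nd (nat_lit 78) (PT.lf (nat_lit 20596) (nat_lit 6) (nat_lit 271) (nat_lit 3) (nat_lit 145) (nat_lit 142) (nat_lit 163)) (PT.lf (nat_lit 21660) (nat_lit 6) (nat_lit 285) (nat_lit 3) (nat_lit 146) (nat_lit 142) (nat_lit 162)))) (PT.nd (nat_lit 156) (PT.nd (nat_lit 78) (PT.lf (nat_lit 22648) (nat_lit 6) (nat_lit 298) (nat_lit 3) (nat_lit 147) (nat_lit 142) (nat_lit 161)) (PT.lf (nat_lit 23560) (nat_lit 6) (nat_lit 310) (nat_lit 3) (nat_lit 148) (nat_lit 142) (nat_lit 160))) (PT.nd (nat_lit 78) (PT.lf (nat_lit 24396) (nat_lit 6) (nat_lit 321)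 (nat_lit 3) (nat_lit 149) (nat_lit 142) (nat_lit 159)) (PT.lf (nat_lit 25156) (nat_lit 6) (nat_lit 331) (nat_lit 3) (nat_lit 150) (nat_lit 142) (nat_lit 158))))) (PT.nd (nat_lit 312) (PT.nd (nat_lit 156) (PT.nd (nat_lit 78) (PT.lf (nat_lit 25232) (nat_lit 6) (nat_lit 332) (nat_lit 3) (nat_lit 151) (nat_lit 142) (nat_lit 157)) (PT.lf (nat_lit 25308) (nat_lit 6) (nat_lit 333) (nat_lit 3) (nat_lit 152) (nat_lit 142) (nat_lit 156))) (PT.nd (nat_lit 78) (PT.lf (nat_lit 25384) (nat_lit 6) (nat_lit 334) (nat_lit 3) (nat_lit 153) (nat_lit 142) (nat_lit 155)) (PT.lf (nat_lit 25460) (nat_lit 3) (nat_lit 335) (nat_lit 1) (nat_lit 154) (nat_lit 142) (nat_lit 154)))) (PT.nd (nat_lit 156) (PT.nd (nat_lit 78) (PT.lf (nat_lit 25384) (nat_lit 6) (nat_lit 334) (nat_lit 1) (nat_lit 155) (nat_lit 142) (nat_lit 153)) (PT.lf (nat_lit 25308) (nat_lit 6) (nat_lit 333) (nat_lit 1) (nat_lit 156) (nat_lit 142) (nat_lit 152))) (PT.nd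 (nat_lit 78) (PT.lf (nat_lit 25232) (nat_lit 6) (nat_lit 332) (nat_lit 1) (nat_lit 157) (nat_lit 142) (nat_lit 151)) (PT.lf (nat_lit 25156) (nat_lit 6) (nat_lit 331) (nat_lit 1) (nat_lit 158) (nat_lit 142) (nat_lit 150)))))) (PT.nd (nat_lit 45474) (PT.nd (nat_lit 312) (PT.nd (nat_lit 156) (PT.nd (nat_lit 78) (PT.lf (nat_lit 24396) (nat_lit 6) (nat_lit 321) (nat_lit 1) (nat_lit 159) (nat_lit 142) (nat_lit 149)) (PT.lf (nat_lit 23560) (nat_lit 6) (nat_lit 310) (nat_lit 1) (nat_lit 160) (nat_lit 142) (nat_lit 148))) (PT.nd (nat_lit 78) (PT.lf (nat_lit 22648) (nat_lit 6) (nat_lit 298) (nat_lit 1) (nat_lit 161) (nat_lit 142) (nat_lit 147)) (PT.lf (nat_lit 21660) (nat_lit 6) (nat_lit 285) (nat_lit 1) (nat_lit 162) (nat_lit 142) (nat_lit 146)))) (PT.nd (nat_lit 156) (PT.nd (nat_lit 78) (PT.lf (nat_lit 20596) (nat_lit 6) (nat_lit 271) (nat_lit 1) (nat_lit 163) (nat_lit 142) (nat_lit 145)) (PT.lf (nat_lit 19456)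 (nat_lit 6) (nat_lit 256) (nat_lit 1) (nat_lit 164) (nat_lit 142) (nat_lit 144))) (PT.nd (nat_lit 78) (PT.lf (nat_lit 18240) (nat_lit 6) (nat_lit 240) (nat_lit 1) (nat_lit 165) (nat_lit 142) (nat_lit 143)) (PT.lf (nat_lit 16948) (nat_lit 3) (nat_lit 223) (nat_lit 0) (nat_lit 166) (nat_lit 142) (nat_lit 142))))) (PT.nd (nat_lit 312) (PT.nd (nat_lit 156) (PT.nd (nat_lit 78) (PT.lf (nat_lit 17024) (nat_lit 6) (nat_lit 224) (nat_lit 5) (nat_lit 141) (nat_lit 143) (nat_lit 166)) (PT.lf (nat_lit 18240) (nat_lit 6) (nat_lit 240) (nat_lit 5) (nat_lit 142) (nat_lit 143) (nat_lit 165))) (PT.nd (nat_lit 78) (PT.lf (nat_lit 19380) (nat_lit 3) (nat_lit 255) (nat_lit 3) (nat_lit 143) (nat_lit 143) (nat_lit 164)) (PT.lf (nat_lit 20520) (nat_lit 6) (nat_lit 270) (nat_lit 3) (nat_lit 144) (nat_lit 143) (nat_lit 163)))) (PT.nd (nat_lit 156) (PT.nd (nat_lit 78) (PT.lf (nat_lit 21584) (nat_lit 6) (nat_lit 284) (nat_lit 3)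 (nat_lit 145) (nat_lit 143) (nat_lit 162)) (PT.lf (nat_lit 22572) (nat_lit 6) (nat_lit 297) (nat_lit 3) (nat_lit 146) (nat_lit 143) (nat_lit 161))) (PT.nd (nat_lit 78) (PT.lf (nat_lit 23484) (nat_lit 6) (nat_lit 309) (nat_lit 3) (nat_lit 147) (nat_lit 143) (nat_lit 160)) (PT.lf (nat_lit 24320) (nat_lit 6) (nat_lit 320) (nat_lit 3) (nat_lit 148) (nat_lit 143) (nat_lit 159))))))) (PT.nd (nat_lit 1248) (PT.nd (nat_lit 624) (PT.nd (nat_lit 312) (PT.nd (nat_lit 156) (PT.nd (nat_lit 78) (PT.lf (nat_lit 25080) (nat_lit 6) (nat_lit 330) (nat_lit 3) (nat_lit 149) (nat_lit 143) (nat_lit 158)) (PT.lf (nat_lit 25764) (nat_lit 6) (nat_lit 339) (nat_lit 3) (nat_lit 150) (nat_lit 143) (nat_lit 157))) (PT.nd (nat_lit 78) (PT.lf (nat_lit 25840) (nat_lit 6) (nat_lit 340) (nat_lit 3) (nat_lit 151) (nat_lit 143) (nat_lit 156)) (PT.lf (nat_lit 25916) (nat_lit 6) (nat_lit 341) (nat_lit 3) (nat_lit 152) (nat_lit 143) (nat_lit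 155)))) (PT.nd (nat_lit 156) (PT.nd (nat_lit 78) (PT.lf (nat_lit 25992) (nat_lit 6) (nat_lit 342) (nat_lit 3) (nat_lit 153) (nat_lit 143) (nat_lit 154)) (PT.lf (nat_lit 25992) (nat_lit 6) (nat_lit 342) (nat_lit 1) (nat_lit 154) (nat_lit 143) (nat_lit 153))) (PT.nd (nat_lit 78) (PT.lf (nat_lit 25916) (nat_lit 6) (nat_lit 341) (nat_lit 1) (nat_lit 155) (nat_lit 143) (nat_lit 152)) (PT.lf (nat_lit 25840) (nat_lit 6) (nat_lit 340) (nat_lit 1) (nat_lit 156) (nat_lit 143) (nat_lit 151))))) (PT.nd (nat_lit 312) (PT.nd (nat_lit 156) (PT.nd (nat_lit 78) (PT.lf (nat_lit 25764) (nat_lit 6) (nat_lit 339) (nat_lit 1) (nat_lit 157) (nat_lit 143) (nat_lit 150)) (PT.lf (nat_lit 25080) (nat_lit 6) (nat_lit 330) (nat_lit 1) (nat_lit 158) (nat_lit 143) (nat_lit 149))) (PT.nd (nat_lit 78) (PT.lf (nat_lit 24320) (nat_lit 6) (nat_lit 320) (nat_lit 1) (nat_lit 159) (nat_lit 143) (nat_lit 148)) (PT.lf (nat_lit 23484) (nat_lit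 6) (nat_lit 309) (nat_lit 1) (nat_lit 160) (nat_lit 143) (nat_lit 147)))) (PT.nd (nat_lit 156) (PT.nd (nat_lit 78) (PT.lf (nat_lit 22572) (nat_lit 6) (nat_lit 297) (nat_lit 1) (nat_lit 161) (nat_lit 143) (nat_lit 146)) (PT.lf (nat_lit 21584) (nat_lit 6) (nat_lit 284) (nat_lit 1) (nat_lit 162) (nat_lit 143) (nat_lit 145))) (PT.nd (nat_lit 78) (PT.lf (nat_lit 20520) (nat_lit 6) (nat_lit 270) (nat_lit 1) (nat_lit 163) (nat_lit 143) (nat_lit 144)) (PT.lf (nat_lit 19380) (nat_lit 3) (nat_lit 255) (nat_lit 0) (nat_lit 164) (nat_lit 143) (nat_lit 143)))))) (PT.nd (nat_lit 45396) (PT.nd (nat_lit 45084) (PT.nd (nat_lit 44928) (PT.nd (nat_lit 78) (PT.lf (nat_lit 18240) (nat_lit 6) (nat_lit 240) (nat_lit 0) (nat_lit 165) (nat_lit 143) (nat_lit 142)) (PT.lf (nat_lit 17024) (nat_lit 6) (nat_lit 224) (nat_lit 0) (nat_lit 166) (nat_lit 143) (nat_lit 141))) (PT.nd (nat_lit 78) (PT.lf (nat_lit 17100) (nat_lit 6) (nat_lit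 225) (nat_lit 5) (nat_lit 140) (nat_lit 144) (nat_lit 166)) (PT.lf (nat_lit 18316) (nat_lit 6) (nat_lit 241) (nat_lit 5) (nat_lit 141) (nat_lit 144) (nat_lit 165)))) (PT.nd (nat_lit 156) (PT.nd (nat_lit 78) (PT.lf (nat_lit 19456) (nat_lit 6) (nat_lit 256) (nat_lit 5) (nat_lit 142) (nat_lit 144) (nat_lit 164)) (PT.lf (nat_lit 20520) (nat_lit 6) (nat_lit 270) (nat_lit 5) (nat_lit 143) (nat_lit 144) (nat_lit 163))) (PT.nd (nat_lit 78) (PT.lf (nat_lit 21508) (nat_lit 3) (nat_lit 283) (nat_lit 3) (nat_lit 144) (nat_lit 144) (nat_lit 162)) (PT.lf (nat_lit 22496) (nat_lit 6) (nat_lit 296) (nat_lit 3) (nat_lit 145) (nat_lit 144) (nat_lit 161))))) (PT.nd (nat_lit 312) (PT.nd (nat_lit 156) (PT.nd (nat_lit 78) (PT.lf (nat_lit 23408) (nat_lit 6) (nat_lit 308) (nat_lit 3) (nat_lit 146) (nat_lit 144) (nat_lit 160)) (PT.lf (nat_lit 24244) (nat_lit 6) (nat_lit 319) (nat_lit 3) (nat_lit 147) (nat_lit 144) (nat_lit 159)))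 (PT.nd (nat_lit 78) (PT.lf (nat_lit 25004) (nat_lit 6) (nat_lit 329) (nat_lit 3) (nat_lit 148) (nat_lit 144) (nat_lit 158)) (PT.lf (nat_lit 25688) (nat_lit 6) (nat_lit 338) (nat_lit 3) (nat_lit 149) (nat_lit 144) (nat_lit 157)))) (PT.nd (nat_lit 156) (PT.nd (nat_lit 78) (PT.lf (nat_lit 26296) (nat_lit 6) (nat_lit 346) (nat_lit 3) (nat_lit 150) (nat_lit 144) (nat_lit 156)) (PT.lf (nat_lit 26372) (nat_lit 6) (nat_lit 347) (nat_lit 3) (nat_lit 151) (nat_lit 144) (nat_lit 155))) (PT.nd (nat_lit 78) (PT.lf (nat_lit 26448) (nat_lit 6) (nat_lit 348) (nat_lit 3) (nat_lit 152) (nat_lit 144) (nat_lit 154)) (PT.lf (nat_lit 26524) (nat_lit 3) (nat_lit 349) (nat_lit 1) (nat_lit 153) (nat_lit 144) (nat_lit 153))))))))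
noncomputable def pc10 : PT := (PT.nd (nat_lit 47190) (PT.nd (nat_lit 45942) (PT.nd (nat_lit 624) (PT.nd (nat_lit 312) (PT.nd (nat_lit 156) (PT.nd (nat_lit 78) (PT.lf (nat_lit 26448) (nat_lit 6) (nat_lit 348) (nat_lit 1) (nat_lit 154) (nat_lit 144) (nat_lit 152)) (PT.lf (nat_lit 26372) (nat_lit 6) (nat_lit 347) (nat_lit 1) (nat_lit 155) (nat_lit 144) (nat_lit 151))) (PT.nd (nat_lit 78) (PT.lf (nat_lit 26296) (nat_lit 6) (nat_lit 346) (nat_lit 1) (nat_lit 156) (nat_lit 144) (nat_lit 150)) (PT.lf (nat_lit 25688) (nat_lit 6) (nat_lit 338) (nat_lit 1) (nat_lit 157) (nat_lit 144) (nat_lit 149)))) (PT.nd (nat_lit 156) (PT.nd (nat_lit 78) (PT.lf (nat_lit 25004) (nat_lit 6) (nat_lit 329) (nat_lit 1) (nat_lit 158) (nat_lit 144) (nat_lit 148)) (PT.lf (nat_lit 24244) (nat_lit 6) (nat_lit 319) (nat_lit 1) (nat_lit 159) (nat_lit 144) (nat_lit 147))) (PT.nd (nat_lit 78) (PT.lf (nat_lit 23408) (nat_lit 6) (nat_lit 308)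 (nat_lit 1) (nat_lit 160) (nat_lit 144) (nat_lit 146)) (PT.lf (nat_lit 22496) (nat_lit 6) (nat_lit 296) (nat_lit 1) (nat_lit 161) (nat_lit 144) (nat_lit 145))))) (PT.nd (nat_lit 312) (PT.nd (nat_lit 156) (PT.nd (nat_lit 78) (PT.lf (nat_lit 21508) (nat_lit 3) (nat_lit 283) (nat_lit 0) (nat_lit 162) (nat_lit 144) (nat_lit 144)) (PT.lf (nat_lit 20520) (nat_lit 6) (nat_lit 270) (nat_lit 0) (nat_lit 163) (nat_lit 144) (nat_lit 143))) (PT.nd (nat_lit 78) (PT.lf (nat_lit 19456) (nat_lit 6) (nat_lit 256) (nat_lit 0) (nat_lit 164) (nat_lit 144) (nat_lit 142)) (PT.lf (nat_lit 18316) (nat_lit 6) (nat_lit 241) (nat_lit 0) (nat_lit 165) (nat_lit 144) (nat_lit 141)))) (PT.nd (nat_lit 44850) (PT.nd (nat_lit 44772) (PT.lf (nat_lit 17100) (nat_lit 6) (nat_lit 225) (nat_lit 0) (nat_lit 166) (nat_lit 144) (nat_lit 140)) (PT.lf (nat_lit 17176) (nat_lit 6) (nat_lit 226) (nat_lit 5) (nat_lit 139) (nat_lit 145) (nat_lit 166)))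 (PT.nd (nat_lit 78) (PT.lf (nat_lit 18392) (nat_lit 6) (nat_lit 242) (nat_lit 5) (nat_lit 140) (nat_lit 145) (nat_lit 165)) (PT.lf (nat_lit 19532) (nat_lit 6) (nat_lit 257) (nat_lit 5) (nat_lit 141) (nat_lit 145) (nat_lit 164)))))) (PT.nd (nat_lit 624) (PT.nd (nat_lit 312) (PT.nd (nat_lit 156) (PT.nd (nat_lit 78) (PT.lf (nat_lit 20596) (nat_lit 6) (nat_lit 271) (nat_lit 5) (nat_lit 142) (nat_lit 145) (nat_lit 163)) (PT.lf (nat_lit 21584) (nat_lit 6) (nat_lit 284) (nat_lit 5) (nat_lit 143) (nat_lit 145) (nat_lit 162))) (PT.nd (nat_lit 78) (PT.lf (nat_lit 22496) (nat_lit 6) (nat_lit 296) (nat_lit 5) (nat_lit 144) (nat_lit 145) (nat_lit 161)) (PT.lf (nat_lit 23332) (nat_lit 3) (nat_lit 307) (nat_lit 3) (nat_lit 145) (nat_lit 145) (nat_lit 160)))) (PT.nd (nat_lit 156) (PT.nd (nat_lit 78) (PT.lf (nat_lit 24168) (nat_lit 6) (nat_lit 318) (nat_lit 3) (nat_lit 146) (nat_lit 145) (nat_lit 159)) (PT.lf (nat_lit 24928)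 (nat_lit 6) (nat_lit 328) (nat_lit 3) (nat_lit 147) (nat_lit 145) (nat_lit 158))) (PT.nd (nat_lit 78) (PT.lf (nat_lit 25612) (nat_lit 6) (nat_lit 337) (nat_lit 3) (nat_lit 148) (nat_lit 145) (nat_lit 157)) (PT.lf (nat_lit 26220) (nat_lit 6) (nat_lit 345) (nat_lit 3) (nat_lit 149) (nat_lit 145) (nat_lit 156))))) (PT.nd (nat_lit 312) (PT.nd (nat_lit 156) (PT.nd (nat_lit 78) (PT.lf (nat_lit 26752) (nat_lit 6) (nat_lit 352) (nat_lit 3) (nat_lit 150) (nat_lit 145) (nat_lit 155)) (PT.lf (nat_lit 26828) (nat_lit 6) (nat_lit 353) (nat_lit 3) (nat_lit 151) (nat_lit 145) (nat_lit 154))) (PT.nd (nat_lit 78) (PT.lf (nat_lit 26904) (nat_lit 6) (nat_lit 354) (nat_lit 3) (nat_lit 152) (nat_lit 145) (nat_lit 153)) (PT.lf (nat_lit 26904) (nat_lit 6) (nat_lit 354) (nat_lit 1) (nat_lit 153) (nat_lit 145) (nat_lit 152)))) (PT.nd (nat_lit 156) (PT.nd (nat_lit 78) (PT.lf (nat_lit 26828) (nat_lit 6) (nat_lit 353) (nat_lit 1)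 (nat_lit 154) (nat_lit 145) (nat_lit 151)) (PT.lf (nat_lit 26752) (nat_lit 6) (nat_lit 352) (nat_lit 1) (nat_lit 155) (nat_lit 145) (nat_lit 150))) (PT.nd (nat_lit 78) (PT.lf (nat_lit 26220) (nat_lit 6) (nat_lit 345) (nat_lit 1) (nat_lit 156) (nat_lit 145) (nat_lit 149)) (PT.lf (nat_lit 25612) (nat_lit 6) (nat_lit 337) (nat_lit 1) (nat_lit 157) (nat_lit 145) (nat_lit 148))))))) (PT.nd (nat_lit 45864) (PT.nd (nat_lit 624) (PT.nd (nat_lit 312) (PT.nd (nat_lit 156) (PT.nd (nat_lit 78) (PT.lf (nat_lit 24928) (nat_lit 6) (nat_lit 328) (nat_lit 1) (nat_lit 158) (nat_lit 145) (nat_lit 147)) (PT.lf (nat_lit 24168) (nat_lit 6) (nat_lit 318) (nat_lit 1) (nat_lit 159) (nat_lit 145) (nat_lit 146))) (PT.nd (nat_lit 78) (PT.lf (nat_lit 23332) (nat_lit 3) (nat_lit 307) (nat_lit 0) (nat_lit 160) (nat_lit 145) (nat_lit 145)) (PT.lf (nat_lit 22496) (nat_lit 6) (nat_lit 296) (nat_lit 0) (nat_lit 161) (nat_lit 145) (nat_lit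 144)))) (PT.nd (nat_lit 156) (PT.nd (nat_lit 78) (PT.lf (nat_lit 21584) (nat_lit 6) (nat_lit 284) (nat_lit 0) (nat_lit 162) (nat_lit 145) (nat_lit 143)) (PT.lf (nat_lit 20596) (nat_lit 6) (nat_lit 271) (nat_lit 0) (nat_lit 163) (nat_lit 145) (nat_lit 142))) (PT.nd (nat_lit 78) (PT.lf (nat_lit 19532) (nat_lit 6) (nat_lit 257) (nat_lit 0) (nat_lit 164) (nat_lit 145) (nat_lit 141)) (PT.lf (nat_lit 18392) (nat_lit 6) (nat_lit 242) (nat_lit 0) (nat_lit 165) (nat_lit 145) (nat_lit 140))))) (PT.nd (nat_lit 44928) (PT.nd (nat_lit 44772) (PT.nd (nat_lit 44694) (PT.lf (nat_lit 17176) (nat_lit 6) (nat_lit 226) (nat_lit 0) (nat_lit 166) (nat_lit 145) (nat_lit 139)) (PT.lf (nat_lit 17252) (nat_lit 6) (nat_lit 227) (nat_lit 5) (nat_lit 138) (nat_lit 146) (nat_lit 166))) (PT.nd (nat_lit 78) (PT.lf (nat_lit 18468) (nat_lit 6) (nat_lit 243) (nat_lit 5) (nat_lit 139) (nat_lit 146) (nat_lit 165)) (PT.lf (nat_lit 19608) (nat_lit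 6) (nat_lit 258) (nat_lit 5) (nat_lit 140) (nat_lit 146) (nat_lit 164)))) (PT.nd (nat_lit 156) (PT.nd (nat_lit 78) (PT.lf (nat_lit 20672) (nat_lit 6) (nat_lit 272) (nat_lit 5) (nat_lit 141) (nat_lit 146) (nat_lit 163)) (PT.lf (nat_lit 21660) (nat_lit 6) (nat_lit 285) (nat_lit 5) (nat_lit 142) (nat_lit 146) (nat_lit 162))) (PT.nd (nat_lit 78) (PT.lf (nat_lit 22572) (nat_lit 6) (nat_lit 297) (nat_lit 5) (nat_lit 143) (nat_lit 146) (nat_lit 161)) (PT.lf (nat_lit 23408) (nat_lit 6) (nat_lit 308) (nat_lit 5) (nat_lit 144) (nat_lit 146) (nat_lit 160)))))) (PT.nd (nat_lit 624) (PT.nd (nat_lit 312) (PT.nd (nat_lit 156) (PT.nd (nat_lit 78) (PT.lf (nat_lit 24168) (nat_lit 6) (nat_lit 318) (nat_lit 5) (nat_lit 145) (nat_lit 146) (nat_lit 159)) (PT.lf (nat_lit 24852) (nat_lit 3) (nat_lit 327) (nat_lit 3) (nat_lit 146) (nat_lit 146) (nat_lit 158))) (PT.nd (nat_lit 78) (PT.lf (nat_lit 25536) (nat_lit 6) (nat_lit 336)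 (nat_lit 3) (nat_lit 147) (nat_lit 146) (nat_lit 157)) (PT.lf (nat_lit 26144) (nat_lit 6) (nat_lit 344) (nat_lit 3) (nat_lit 148) (nat_lit 146) (nat_lit 156)))) (PT.nd (nat_lit 156) (PT.nd (nat_lit 78) (PT.lf (nat_lit 26676) (nat_lit 6) (nat_lit 351) (nat_lit 3) (nat_lit 149) (nat_lit 146) (nat_lit 155)) (PT.lf (nat_lit 27132) (nat_lit 6) (nat_lit 357) (nat_lit 3) (nat_lit 150) (nat_lit 146) (nat_lit 154))) (PT.nd (nat_lit 78) (PT.lf (nat_lit 27208) (nat_lit 6) (nat_lit 358) (nat_lit 3) (nat_lit 151) (nat_lit 146) (nat_lit 153)) (PT.lf (nat_lit 27284) (nat_lit 3) (nat_lit 359) (nat_lit 1) (nat_lit 152) (nat_lit 146) (nat_lit 152))))) (PT.nd (nat_lit 312) (PT.nd (nat_lit 156) (PT.nd (nat_lit 78) (PT.lf (nat_lit 27208) (nat_lit 6) (nat_lit 358) (nat_lit 1) (nat_lit 153) (nat_lit 146) (nat_lit 151)) (PT.lf (nat_lit 27132) (nat_lit 6) (nat_lit 357) (nat_lit 1) (nat_lit 154) (nat_lit 146) (nat_lit 150))) (PT.nd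 (nat_lit 78) (PT.lf (nat_lit 26676) (nat_lit 6) (nat_lit 351) (nat_lit 1) (nat_lit 155) (nat_lit 146) (nat_lit 149)) (PT.lf (nat_lit 26144) (nat_lit 6) (nat_lit 344) (nat_lit 1) (nat_lit 156) (nat_lit 146) (nat_lit 148)))) (PT.nd (nat_lit 156) (PT.nd (nat_lit 78) (PT.lf (nat_lit 25536) (nat_lit 6) (nat_lit 336) (nat_lit 1) (nat_lit 157) (nat_lit 146) (nat_lit 147)) (PT.lf (nat_lit 24852) (nat_lit 3) (nat_lit 327) (nat_lit 0) (nat_lit 158) (nat_lit 146) (nat_lit 146))) (PT.nd (nat_lit 78) (PT.lf (nat_lit 24168) (nat_lit 6) (nat_lit 318) (nat_lit 0) (nat_lit 159) (nat_lit 146) (nat_lit 145)) (PT.lf (nat_lit 23408) (nat_lit 6) (nat_lit 308) (nat_lit 0) (nat_lit 160) (nat_lit 146) (nat_lit 144))))))))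
noncomputable def pc11 : PT := (PT.nd (nat_lit 47034) (PT.nd (nat_lit 45786) (PT.nd (nat_lit 45162) (PT.nd (nat_lit 312) (PT.nd (nat_lit 156) (PT.nd (nat_lit 78) (PT.lf (nat_lit 22572) (nat_lit 6) (nat_lit 297) (nat_lit 0) (nat_lit 161) (nat_lit 146) (nat_lit 143)) (PT.lf (nat_lit 21660) (nat_lit 6) (nat_lit 285) (nat_lit 0) (nat_lit 162) (nat_lit 146) (nat_lit 142))) (PT.nd (nat_lit 78) (PT.lf (nat_lit 20672) (nat_lit 6) (nat_lit 272) (nat_lit 0) (nat_lit 163) (nat_lit 146) (nat_lit 141)) (PT.lf (nat_lit 19608) (nat_lit 6) (nat_lit 258) (nat_lit 0) (nat_lit 164) (nat_lit 146) (nat_lit 140)))) (PT.nd (nat_lit 44694) (PT.nd (nat_lit 78) (PT.lf (nat_lit 18468) (nat_lit 6) (nat_lit 243) (nat_lit 0) (nat_lit 165) (nat_lit 146) (nat_lit 139)) (PT.lf (nat_lit 17252) (nat_lit 6) (nat_lit 227) (nat_lit 0) (nat_lit 166) (nat_lit 146) (nat_lit 138))) (PT.nd (nat_lit 78) (PT.lf (nat_lit 17328) (nat_lit 6) (nat_lit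 228) (nat_lit 5) (nat_lit 137) (nat_lit 147) (nat_lit 166)) (PT.lf (nat_lit 18544) (nat_lit 6) (nat_lit 244) (nat_lit 5) (nat_lit 138) (nat_lit 147) (nat_lit 165))))) (PT.nd (nat_lit 312) (PT.nd (nat_lit 156) (PT.nd (nat_lit 78) (PT.lf (nat_lit 19684) (nat_lit 6) (nat_lit 259) (nat_lit 5) (nat_lit 139) (nat_lit 147) (nat_lit 164)) (PT.lf (nat_lit 20748) (nat_lit 6) (nat_lit 273) (nat_lit 5) (nat_lit 140) (nat_lit 147) (nat_lit 163))) (PT.nd (nat_lit 78) (PT.lf (nat_lit 21736) (nat_lit 6) (nat_lit 286) (nat_lit 5) (nat_lit 141) (nat_lit 147) (nat_lit 162)) (PT.lf (nat_lit 22648) (nat_lit 6) (nat_lit 298) (nat_lit 5) (nat_lit 142) (nat_lit 147) (nat_lit 161)))) (PT.nd (nat_lit 156) (PT.nd (nat_lit 78) (PT.lf (nat_lit 23484) (nat_lit 6) (nat_lit 309) (nat_lit 5) (nat_lit 143) (nat_lit 147) (nat_lit 160)) (PT.lf (nat_lit 24244) (nat_lit 6) (nat_lit 319) (nat_lit 5) (nat_lit 144) (nat_lit 147) (nat_lit 159)))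 (PT.nd (nat_lit 78) (PT.lf (nat_lit 24928) (nat_lit 6) (nat_lit 328) (nat_lit 5) (nat_lit 145) (nat_lit 147) (nat_lit 158)) (PT.lf (nat_lit 25536) (nat_lit 6) (nat_lit 336) (nat_lit 5) (nat_lit 146) (nat_lit 147) (nat_lit 157)))))) (PT.nd (nat_lit 624) (PT.nd (nat_lit 312) (PT.nd (nat_lit 156) (PT.nd (nat_lit 78) (PT.lf (nat_lit 26068) (nat_lit 3) (nat_lit 343) (nat_lit 3) (nat_lit 147) (nat_lit 147) (nat_lit 156)) (PT.lf (nat_lit 26600) (nat_lit 6) (nat_lit 350) (nat_lit 3) (nat_lit 148) (nat_lit 147) (nat_lit 155))) (PT.nd (nat_lit 78) (PT.lf (nat_lit 27056) (nat_lit 6) (nat_lit 356) (nat_lit 3) (nat_lit 149) (nat_lit 147) (nat_lit 154)) (PT.lf (nat_lit 27436) (nat_lit 6) (nat_lit 361) (nat_lit 3) (nat_lit 150) (nat_lit 147) (nat_lit 153)))) (PT.nd (nat_lit 156) (PT.nd (nat_lit 78) (PT.lf (nat_lit 27512) (nat_lit 6) (nat_lit 362) (nat_lit 3) (nat_lit 151) (nat_lit 147) (nat_lit 152)) (PT.lf (nat_lit 27512)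 (nat_lit 6) (nat_lit 362) (nat_lit 1) (nat_lit 152) (nat_lit 147) (nat_lit 151))) (PT.nd (nat_lit 78) (PT.lf (nat_lit 27436) (nat_lit 6) (nat_lit 361) (nat_lit 1) (nat_lit 153) (nat_lit 147) (nat_lit 150)) (PT.lf (nat_lit 27056) (nat_lit 6) (nat_lit 356) (nat_lit 1) (nat_lit 154) (nat_lit 147) (nat_lit 149))))) (PT.nd (nat_lit 312) (PT.nd (nat_lit 156) (PT.nd (nat_lit 78) (PT.lf (nat_lit 26600) (nat_lit 6) (nat_lit 350) (nat_lit 1) (nat_lit 155) (nat_lit 147) (nat_lit 148)) (PT.lf (nat_lit 26068) (nat_lit 3) (nat_lit 343) (nat_lit 0) (nat_lit 156) (nat_lit 147) (nat_lit 147))) (PT.nd (nat_lit 78) (PT.lf (nat_lit 25536) (nat_lit 6) (nat_lit 336) (nat_lit 0) (nat_lit 157) (nat_lit 147) (nat_lit 146)) (PT.lf (nat_lit 24928) (nat_lit 6) (nat_lit 328) (nat_lit 0) (nat_lit 158) (nat_lit 147) (nat_lit 145)))) (PT.nd (nat_lit 156) (PT.nd (nat_lit 78) (PT.lf (nat_lit 24244) (nat_lit 6) (nat_lit 319) (nat_lit 0)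 (nat_lit 159) (nat_lit 147) (nat_lit 144)) (PT.lf (nat_lit 23484) (nat_lit 6) (nat_lit 309) (nat_lit 0) (nat_lit 160) (nat_lit 147) (nat_lit 143))) (PT.nd (nat_lit 78) (PT.lf (nat_lit 22648) (nat_lit 6) (nat_lit 298) (nat_lit 0) (nat_lit 161) (nat_lit 147) (nat_lit 142)) (PT.lf (nat_lit 21736) (nat_lit 6) (nat_lit 286) (nat_lit 0) (nat_lit 162) (nat_lit 147) (nat_lit 141))))))) (PT.nd (nat_lit 45708) (PT.nd (nat_lit 45084) (PT.nd (nat_lit 44772) (PT.nd (nat_lit 156) (PT.nd (nat_lit 78) (PT.lf (nat_lit 20748) (nat_lit 6) (nat_lit 273) (nat_lit 0) (nat_lit 163) (nat_lit 147) (nat_lit 140)) (PT.lf (nat_lit 19684) (nat_lit 6) (nat_lit 259) (nat_lit 0) (nat_lit 164) (nat_lit 147) (nat_lit 139))) (PT.nd (nat_lit 78) (PT.lf (nat_lit 18544) (nat_lit 6) (nat_lit 244) (nat_lit 0) (nat_lit 165) (nat_lit 147) (nat_lit 138)) (PT.lf (nat_lit 17328) (nat_lit 6) (nat_lit 228) (nat_lit 0) (nat_lit 166) (nat_lit 147) (nat_lit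 137)))) (PT.nd (nat_lit 156) (PT.nd (nat_lit 78) (PT.lf (nat_lit 17404) (nat_lit 6) (nat_lit 229) (nat_lit 5) (nat_lit 136) (nat_lit 148) (nat_lit 166)) (PT.lf (nat_lit 18620) (nat_lit 6) (nat_lit 245) (nat_lit 5) (nat_lit 137) (nat_lit 148) (nat_lit 165))) (PT.nd (nat_lit 78) (PT.lf (nat_lit 19760) (nat_lit 6) (nat_lit 260) (nat_lit 5) (nat_lit 138) (nat_lit 148) (nat_lit 164)) (PT.lf (nat_lit 20824) (nat_lit 6) (nat_lit 274) (nat_lit 5) (nat_lit 139) (nat_lit 148) (nat_lit 163))))) (PT.nd (nat_lit 312) (PT.nd (nat_lit 156) (PT.nd (nat_lit 78) (PT.lf (nat_lit 21812) (nat_lit 6) (nat_lit 287) (nat_lit 5) (nat_lit 140) (nat_lit 148) (nat_lit 162)) (PT.lf (nat_lit 22724) (nat_lit 6) (nat_lit 299) (nat_lit 5) (nat_lit 141) (nat_lit 148) (nat_lit 161))) (PT.nd (nat_lit 78) (PT.lf (nat_lit 23560) (nat_lit 6) (nat_lit 310) (nat_lit 5) (nat_lit 142) (nat_lit 148) (nat_lit 160)) (PT.lf (nat_lit 24320) (nat_lit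 6) (nat_lit 320) (nat_lit 5) (nat_lit 143) (nat_lit 148) (nat_lit 159)))) (PT.nd (nat_lit 156) (PT.nd (nat_lit 78) (PT.lf (nat_lit 25004) (nat_lit 6) (nat_lit 329) (nat_lit 5) (nat_lit 144) (nat_lit 148) (nat_lit 158)) (PT.lf (nat_lit 25612) (nat_lit 6) (nat_lit 337) (nat_lit 5) (nat_lit 145) (nat_lit 148) (nat_lit 157))) (PT.nd (nat_lit 78) (PT.lf (nat_lit 26144) (nat_lit 6) (nat_lit 344) (nat_lit 5) (nat_lit 146) (nat_lit 148) (nat_lit 156)) (PT.lf (nat_lit 26600) (nat_lit 6) (nat_lit 350) (nat_lit 5) (nat_lit 147) (nat_lit 148) (nat_lit 155)))))) (PT.nd (nat_lit 624) (PT.nd (nat_lit 312) (PT.nd (nat_lit 156) (PT.nd (nat_lit 78) (PT.lf (nat_lit 26980) (nat_lit 3) (nat_lit 355) (nat_lit 3) (nat_lit 148) (nat_lit 148) (nat_lit 154)) (PT.lf (nat_lit 27360) (nat_lit 6) (nat_lit 360) (nat_lit 3) (nat_lit 149) (nat_lit 148) (nat_lit 153))) (PT.nd (nat_lit 78) (PT.lf (nat_lit 27664) (nat_lit 6) (nat_lit 364)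 (nat_lit 3) (nat_lit 150) (nat_lit 148) (nat_lit 152)) (PT.lf (nat_lit 27740) (nat_lit 3) (nat_lit 365) (nat_lit 1) (nat_lit 151) (nat_lit 148) (nat_lit 151)))) (PT.nd (nat_lit 156) (PT.nd (nat_lit 78) (PT.lf (nat_lit 27664) (nat_lit 6) (nat_lit 364) (nat_lit 1) (nat_lit 152) (nat_lit 148) (nat_lit 150)) (PT.lf (nat_lit 27360) (nat_lit 6) (nat_lit 360) (nat_lit 1) (nat_lit 153) (nat_lit 148) (nat_lit 149))) (PT.nd (nat_lit 78) (PT.lf (nat_lit 26980) (nat_lit 3) (nat_lit 355) (nat_lit 0) (nat_lit 154) (nat_lit 148) (nat_lit 148)) (PT.lf (nat_lit 26600) (nat_lit 6) (nat_lit 350) (nat_lit 0) (nat_lit 155) (nat_lit 148) (nat_lit 147))))) (PT.nd (nat_lit 312) (PT.nd (nat_lit 156) (PT.nd (nat_lit 78) (PT.lf (nat_lit 26144) (nat_lit 6) (nat_lit 344) (nat_lit 0) (nat_lit 156) (nat_lit 148) (nat_lit 146)) (PT.lf (nat_lit 25612) (nat_lit 6) (nat_lit 337) (nat_lit 0) (nat_lit 157) (nat_lit 148) (nat_lit 145))) (PT.nd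 (nat_lit 78) (PT.lf (nat_lit 25004) (nat_lit 6) (nat_lit 329) (nat_lit 0) (nat_lit 158) (nat_lit 148) (nat_lit 144)) (PT.lf (nat_lit 24320) (nat_lit 6) (nat_lit 320) (nat_lit 0) (nat_lit 159) (nat_lit 148) (nat_lit 143)))) (PT.nd (nat_lit 156) (PT.nd (nat_lit 78) (PT.lf (nat_lit 23560) (nat_lit 6) (nat_lit 310) (nat_lit 0) (nat_lit 160) (nat_lit 148) (nat_lit 142)) (PT.lf (nat_lit 22724) (nat_lit 6) (nat_lit 299) (nat_lit 0) (nat_lit 161) (nat_lit 148) (nat_lit 141))) (PT.nd (nat_lit 78) (PT.lf (nat_lit 21812) (nat_lit 6) (nat_lit 287) (nat_lit 0) (nat_lit 162) (nat_lit 148) (nat_lit 140)) (PT.lf (nat_lit 20824) (nat_lit 6) (nat_lit 274) (nat_lit 0) (nat_lit 163) (nat_lit 148) (nat_lit 139))))))))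
noncomputable def pc12 : PT := (PT.nd (nat_lit 46800) (PT.nd (nat_lit 45552) (PT.nd (nat_lit 44928) (PT.nd (nat_lit 44616) (PT.nd (nat_lit 78) (PT.lf (nat_lit 19760) (nat_lit 6) (nat_lit 260) (nat_lit 0) (nat_lit 164) (nat_lit 148) (nat_lit 138)) (PT.nd (nat_lit 78) (PT.lf (nat_lit 18620) (nat_lit 6) (nat_lit 245) (nat_lit 0) (nat_lit 165) (nat_lit 148) (nat_lit 137)) (PT.lf (nat_lit 17404) (nat_lit 6) (nat_lit 229) (nat_lit 0) (nat_lit 166) (nat_lit 148) (nat_lit 136)))) (PT.nd (nat_lit 156) (PT.nd (nat_lit 78) (PT.lf (nat_lit 17480) (nat_lit 6) (nat_lit 230) (nat_lit 5) (nat_lit 135) (nat_lit 149) (nat_lit 166)) (PT.lf (nat_lit 18696) (nat_lit 6) (nat_lit 246) (nat_lit 5) (nat_lit 136) (nat_lit 149) (nat_lit 165))) (PT.nd (nat_lit 78) (PT.lf (nat_lit 19836) (nat_lit 6) (nat_lit 261) (nat_lit 5) (nat_lit 137) (nat_lit 149) (nat_lit 164)) (PT.lf (nat_lit 20900) (nat_lit 6) (nat_lit 275) (nat_lit 5) (nat_lit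 138) (nat_lit 149) (nat_lit 163))))) (PT.nd (nat_lit 312) (PT.nd (nat_lit 156) (PT.nd (nat_lit 78) (PT.lf (nat_lit 21888) (nat_lit 6) (nat_lit 288) (nat_lit 5) (nat_lit 139) (nat_lit 149) (nat_lit 162)) (PT.lf (nat_lit 22800) (nat_lit 6) (nat_lit 300) (nat_lit 5) (nat_lit 140) (nat_lit 149) (nat_lit 161))) (PT.nd (nat_lit 78) (PT.lf (nat_lit 23636) (nat_lit 6) (nat_lit 311) (nat_lit 5) (nat_lit 141) (nat_lit 149) (nat_lit 160)) (PT.lf (nat_lit 24396) (nat_lit 6) (nat_lit 321) (nat_lit 5) (nat_lit 142) (nat_lit 149) (nat_lit 159)))) (PT.nd (nat_lit 156) (PT.nd (nat_lit 78) (PT.lf (nat_lit 25080) (nat_lit 6) (nat_lit 330) (nat_lit 5) (nat_lit 143) (nat_lit 149) (nat_lit 158)) (PT.lf (nat_lit 25688) (nat_lit 6) (nat_lit 338) (nat_lit 5) (nat_lit 144) (nat_lit 149) (nat_lit 157))) (PT.nd (nat_lit 78) (PT.lf (nat_lit 26220) (nat_lit 6) (nat_lit 345) (nat_lit 5) (nat_lit 145) (nat_lit 149) (nat_lit 156)) (PT.lf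 (nat_lit 26676) (nat_lit 6) (nat_lit 351) (nat_lit 5) (nat_lit 146) (nat_lit 149) (nat_lit 155)))))) (PT.nd (nat_lit 624) (PT.nd (nat_lit 312) (PT.nd (nat_lit 156) (PT.nd (nat_lit 78) (PT.lf (nat_lit 27056) (nat_lit 6) (nat_lit 356) (nat_lit 5) (nat_lit 147) (nat_lit 149) (nat_lit 154)) (PT.lf (nat_lit 27360) (nat_lit 6) (nat_lit 360) (nat_lit 5) (nat_lit 148) (nat_lit 149) (nat_lit 153))) (PT.nd (nat_lit 78) (PT.lf (nat_lit 27588) (nat_lit 3) (nat_lit 363) (nat_lit 3) (nat_lit 149) (nat_lit 149) (nat_lit 152)) (PT.lf (nat_lit 27816) (nat_lit 6) (nat_lit 366) (nat_lit 3) (nat_lit 150) (nat_lit 149) (nat_lit 151)))) (PT.nd (nat_lit 156) (PT.nd (nat_lit 78) (PT.lf (nat_lit 27816) (nat_lit 6) (nat_lit 366) (nat_lit 1) (nat_lit 151) (nat_lit 149) (nat_lit 150)) (PT.lf (nat_lit 27588) (nat_lit 3) (nat_lit 363) (nat_lit 0) (nat_lit 152) (nat_lit 149) (nat_lit 149))) (PT.nd (nat_lit 78) (PT.lf (nat_lit 27360)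 (nat_lit 6) (nat_lit 360) (nat_lit 0) (nat_lit 153) (nat_lit 149) (nat_lit 148)) (PT.lf (nat_lit 27056) (nat_lit 6) (nat_lit 356) (nat_lit 0) (nat_lit 154) (nat_lit 149) (nat_lit 147))))) (PT.nd (nat_lit 312) (PT.nd (nat_lit 156) (PT.nd (nat_lit 78) (PT.lf (nat_lit 26676) (nat_lit 6) (nat_lit 351) (nat_lit 0) (nat_lit 155) (nat_lit 149) (nat_lit 146)) (PT.lf (nat_lit 26220) (nat_lit 6) (nat_lit 345) (nat_lit 0) (nat_lit 156) (nat_lit 149) (nat_lit 145))) (PT.nd (nat_lit 78) (PT.lf (nat_lit 25688) (nat_lit 6) (nat_lit 338) (nat_lit 0) (nat_lit 157) (nat_lit 149) (nat_lit 144)) (PT.lf (nat_lit 25080) (nat_lit 6) (nat_lit 330) (nat_lit 0) (nat_lit 158) (nat_lit 149) (nat_lit 143)))) (PT.nd (nat_lit 156) (PT.nd (nat_lit 78) (PT.lf (nat_lit 24396) (nat_lit 6) (nat_lit 321) (nat_lit 0) (nat_lit 159) (nat_lit 149) (nat_lit 142)) (PT.lf (nat_lit 23636) (nat_lit 6) (nat_lit 311) (nat_lit 0) (nat_lit 160) (nat_lit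 149) (nat_lit 141))) (PT.nd (nat_lit 78) (PT.lf (nat_lit 22800) (nat_lit 6) (nat_lit 300) (nat_lit 0) (nat_lit 161) (nat_lit 149) (nat_lit 140)) (PT.lf (nat_lit 21888) (nat_lit 6) (nat_lit 288) (nat_lit 0) (nat_lit 162) (nat_lit 149) (nat_lit 139))))))) (PT.nd (nat_lit 45552) (PT.nd (nat_lit 44928) (PT.nd (nat_lit 44616) (PT.nd (nat_lit 156) (PT.nd (nat_lit 78) (PT.lf (nat_lit 20900) (nat_lit 6) (nat_lit 275) (nat_lit 0) (nat_lit 163) (nat_lit 149) (nat_lit 138)) (PT.lf (nat_lit 19836) (nat_lit 6) (nat_lit 261) (nat_lit 0) (nat_lit 164) (nat_lit 149) (nat_lit 137))) (PT.nd (nat_lit 78) (PT.lf (nat_lit 18696) (nat_lit 6) (nat_lit 246) (nat_lit 0) (nat_lit 165) (nat_lit 149) (nat_lit 136)) (PT.lf (nat_lit 17480) (nat_lit 6) (nat_lit 230) (nat_lit 0) (nat_lit 166) (nat_lit 149) (nat_lit 135)))) (PT.nd (nat_lit 156) (PT.nd (nat_lit 78) (PT.lf (nat_lit 17556) (nat_lit 6) (nat_lit 231) (nat_lit 5) (nat_lit 134)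 (nat_lit 150) (nat_lit 166)) (PT.lf (nat_lit 18772) (nat_lit 6) (nat_lit 247) (nat_lit 5) (nat_lit 135) (nat_lit 150) (nat_lit 165))) (PT.nd (nat_lit 78) (PT.lf (nat_lit 19912) (nat_lit 6) (nat_lit 262) (nat_lit 5) (nat_lit 136) (nat_lit 150) (nat_lit 164)) (PT.lf (nat_lit 20976) (nat_lit 6) (nat_lit 276) (nat_lit 5) (nat_lit 137) (nat_lit 150) (nat_lit 163))))) (PT.nd (nat_lit 312) (PT.nd (nat_lit 156) (PT.nd (nat_lit 78) (PT.lf (nat_lit 21964) (nat_lit 6) (nat_lit 289) (nat_lit 5) (nat_lit 138) (nat_lit 150) (nat_lit 162)) (PT.lf (nat_lit 22876) (nat_lit 6) (nat_lit 301) (nat_lit 5) (nat_lit 139) (nat_lit 150) (nat_lit 161))) (PT.nd (nat_lit 78) (PT.lf (nat_lit 23712) (nat_lit 6) (nat_lit 312) (nat_lit 5) (nat_lit 140) (nat_lit 150) (nat_lit 160)) (PT.lf (nat_lit 24472) (nat_lit 6) (nat_lit 322) (nat_lit 5) (nat_lit 141) (nat_lit 150) (nat_lit 159)))) (PT.nd (nat_lit 156) (PT.nd (nat_lit 78) (PT.lf (nat_lit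 25156) (nat_lit 6) (nat_lit 331) (nat_lit 5) (nat_lit 142) (nat_lit 150) (nat_lit 158)) (PT.lf (nat_lit 25764) (nat_lit 6) (nat_lit 339) (nat_lit 5) (nat_lit 143) (nat_lit 150) (nat_lit 157))) (PT.nd (nat_lit 78) (PT.lf (nat_lit 26296) (nat_lit 6) (nat_lit 346) (nat_lit 5) (nat_lit 144) (nat_lit 150) (nat_lit 156)) (PT.lf (nat_lit 26752) (nat_lit 6) (nat_lit 352) (nat_lit 5) (nat_lit 145) (nat_lit 150) (nat_lit 155)))))) (PT.nd (nat_lit 624) (PT.nd (nat_lit 312) (PT.nd (nat_lit 156) (PT.nd (nat_lit 78) (PT.lf (nat_lit 27132) (nat_lit 6) (nat_lit 357) (nat_lit 5) (nat_lit 146) (nat_lit 150) (nat_lit 154)) (PT.lf (nat_lit 27436) (nat_lit 6) (nat_lit 361) (nat_lit 5) (nat_lit 147) (nat_lit 150) (nat_lit 153))) (PT.nd (nat_lit 78) (PT.lf (nat_lit 27664) (nat_lit 6) (nat_lit 364) (nat_lit 5) (nat_lit 148) (nat_lit 150) (nat_lit 152)) (PT.lf (nat_lit 27816) (nat_lit 6) (nat_lit 366) (nat_lit 5) (nat_lit 149)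 (nat_lit 150) (nat_lit 151)))) (PT.nd (nat_lit 156) (PT.nd (nat_lit 78) (PT.lf (nat_lit 27892) (nat_lit 1) (nat_lit 367) (nat_lit 0) (nat_lit 150) (nat_lit 150) (nat_lit 150)) (PT.lf (nat_lit 27816) (nat_lit 6) (nat_lit 366) (nat_lit 0) (nat_lit 151) (nat_lit 150) (nat_lit 149))) (PT.nd (nat_lit 78) (PT.lf (nat_lit 27664) (nat_lit 6) (nat_lit 364) (nat_lit 0) (nat_lit 152) (nat_lit 150) (nat_lit 148)) (PT.lf (nat_lit 27436) (nat_lit 6) (nat_lit 361) (nat_lit 0) (nat_lit 153) (nat_lit 150) (nat_lit 147))))) (PT.nd (nat_lit 312) (PT.nd (nat_lit 156) (PT.nd (nat_lit 78) (PT.lf (nat_lit 27132) (nat_lit 6) (nat_lit 357) (nat_lit 0) (nat_lit 154) (nat_lit 150) (nat_lit 146)) (PT.lf (nat_lit 26752) (nat_lit 6) (nat_lit 352) (nat_lit 0) (nat_lit 155) (nat_lit 150) (nat_lit 145))) (PT.nd (nat_lit 78) (PT.lf (nat_lit 26296) (nat_lit 6) (nat_lit 346) (nat_lit 0) (nat_lit 156) (nat_lit 150) (nat_lit 144)) (PT.lf (nat_lit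 25764) (nat_lit 6) (nat_lit 339) (nat_lit 0) (nat_lit 157) (nat_lit 150) (nat_lit 143)))) (PT.nd (nat_lit 156) (PT.nd (nat_lit 78) (PT.lf (nat_lit 25156) (nat_lit 6) (nat_lit 331) (nat_lit 0) (nat_lit 158) (nat_lit 150) (nat_lit 142)) (PT.lf (nat_lit 24472) (nat_lit 6) (nat_lit 322) (nat_lit 0) (nat_lit 159) (nat_lit 150) (nat_lit 141))) (PT.nd (nat_lit 78) (PT.lf (nat_lit 23712) (nat_lit 6) (nat_lit 312) (nat_lit 0) (nat_lit 160) (nat_lit 150) (nat_lit 140)) (PT.lf (nat_lit 22876) (nat_lit 6) (nat_lit 301) (nat_lit 0) (nat_lit 161) (nat_lit 150) (nat_lit 139))))))))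
noncomputable def pc13 : PT := (PT.nd (nat_lit 46722) (PT.nd (nat_lit 45474) (PT.nd (nat_lit 44850) (PT.nd (nat_lit 312) (PT.nd (nat_lit 156) (PT.nd (nat_lit 78) (PT.lf (nat_lit 21964) (nat_lit 6) (nat_lit 289) (nat_lit 0) (nat_lit 162) (nat_lit 150) (nat_lit 138)) (PT.lf (nat_lit 20976) (nat_lit 6) (nat_lit 276) (nat_lit 0) (nat_lit 163) (nat_lit 150) (nat_lit 137))) (PT.nd (nat_lit 78) (PT.lf (nat_lit 19912) (nat_lit 6) (nat_lit 262) (nat_lit 0) (nat_lit 164) (nat_lit 150) (nat_lit 136)) (PT.lf (nat_lit 18772) (nat_lit 6) (nat_lit 247) (nat_lit 0) (nat_lit 165) (nat_lit 150) (nat_lit 135)))) (PT.nd (nat_lit 44382) (PT.nd (nat_lit 44304) (PT.lf (nat_lit 17556) (nat_lit 6) (nat_lit 231) (nat_lit 0) (nat_lit 166) (nat_lit 150) (nat_lit 134)) (PT.lf (nat_lit 16340) (nat_lit 6) (nat_lit 215) (nat_lit 5) (nat_lit 133) (nat_lit 151) (nat_lit 166))) (PT.nd (nat_lit 78) (PT.lf (nat_lit 17632) (nat_lit 6) (nat_lit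 232) (nat_lit 5) (nat_lit 134) (nat_lit 151) (nat_lit 165)) (PT.lf (nat_lit 18848) (nat_lit 6) (nat_lit 248) (nat_lit 5) (nat_lit 135) (nat_lit 151) (nat_lit 164))))) (PT.nd (nat_lit 312) (PT.nd (nat_lit 156) (PT.nd (nat_lit 78) (PT.lf (nat_lit 19988) (nat_lit 6) (nat_lit 263) (nat_lit 5) (nat_lit 136) (nat_lit 151) (nat_lit 163)) (PT.lf (nat_lit 21052) (nat_lit 6) (nat_lit 277) (nat_lit 5) (nat_lit 137) (nat_lit 151) (nat_lit 162))) (PT.nd (nat_lit 78) (PT.lf (nat_lit 22040) (nat_lit 6) (nat_lit 290) (nat_lit 5) (nat_lit 138) (nat_lit 151) (nat_lit 161)) (PT.lf (nat_lit 22952) (nat_lit 6) (nat_lit 302) (nat_lit 5) (nat_lit 139) (nat_lit 151) (nat_lit 160)))) (PT.nd (nat_lit 156) (PT.nd (nat_lit 78) (PT.lf (nat_lit 23788) (nat_lit 6) (nat_lit 313) (nat_lit 5) (nat_lit 140) (nat_lit 151) (nat_lit 159)) (PT.lf (nat_lit 24548) (nat_lit 6) (nat_lit 323) (nat_lit 5) (nat_lit 141) (nat_lit 151) (nat_lit 158)))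 (PT.nd (nat_lit 78) (PT.lf (nat_lit 25232) (nat_lit 6) (nat_lit 332) (nat_lit 5) (nat_lit 142) (nat_lit 151) (nat_lit 157)) (PT.lf (nat_lit 25840) (nat_lit 6) (nat_lit 340) (nat_lit 5) (nat_lit 143) (nat_lit 151) (nat_lit 156)))))) (PT.nd (nat_lit 624) (PT.nd (nat_lit 312) (PT.nd (nat_lit 156) (PT.nd (nat_lit 78) (PT.lf (nat_lit 26372) (nat_lit 6) (nat_lit 347) (nat_lit 5) (nat_lit 144) (nat_lit 151) (nat_lit 155)) (PT.lf (nat_lit 26828) (nat_lit 6) (nat_lit 353) (nat_lit 5) (nat_lit 145) (nat_lit 151) (nat_lit 154))) (PT.nd (nat_lit 78) (PT.lf (nat_lit 27208) (nat_lit 6) (nat_lit 358) (nat_lit 5) (nat_lit 146) (nat_lit 151) (nat_lit 153)) (PT.lf (nat_lit 27512) (nat_lit 6) (nat_lit 362) (nat_lit 5) (nat_lit 147) (nat_lit 151) (nat_lit 152)))) (PT.nd (nat_lit 156) (PT.nd (nat_lit 78) (PT.lf (nat_lit 27740) (nat_lit 3) (nat_lit 365) (nat_lit 4) (nat_lit 148) (nat_lit 151) (nat_lit 151)) (PT.lf (nat_lit 27816)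 (nat_lit 6) (nat_lit 366) (nat_lit 4) (nat_lit 149) (nat_lit 151) (nat_lit 150))) (PT.nd (nat_lit 78) (PT.lf (nat_lit 27816) (nat_lit 6) (nat_lit 366) (nat_lit 2) (nat_lit 150) (nat_lit 151) (nat_lit 149)) (PT.lf (nat_lit 27740) (nat_lit 3) (nat_lit 365) (nat_lit 0) (nat_lit 151) (nat_lit 151) (nat_lit 148))))) (PT.nd (nat_lit 312) (PT.nd (nat_lit 156) (PT.nd (nat_lit 78) (PT.lf (nat_lit 27512) (nat_lit 6) (nat_lit 362) (nat_lit 0) (nat_lit 152) (nat_lit 151) (nat_lit 147)) (PT.lf (nat_lit 27208) (nat_lit 6) (nat_lit 358) (nat_lit 0) (nat_lit 153) (nat_lit 151) (nat_lit 146))) (PT.nd (nat_lit 78) (PT.lf (nat_lit 26828) (nat_lit 6) (nat_lit 353) (nat_lit 0) (nat_lit 154) (nat_lit 151) (nat_lit 145)) (PT.lf (nat_lit 26372) (nat_lit 6) (nat_lit 347) (nat_lit 0) (nat_lit 155) (nat_lit 151) (nat_lit 144)))) (PT.nd (nat_lit 156) (PT.nd (nat_lit 78) (PT.lf (nat_lit 25840) (nat_lit 6) (nat_lit 340) (nat_lit 0)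 (nat_lit 156) (nat_lit 151) (nat_lit 143)) (PT.lf (nat_lit 25232) (nat_lit 6) (nat_lit 332) (nat_lit 0) (nat_lit 157) (nat_lit 151) (nat_lit 142))) (PT.nd (nat_lit 78) (PT.lf (nat_lit 24548) (nat_lit 6) (nat_lit 323) (nat_lit 0) (nat_lit 158) (nat_lit 151) (nat_lit 141)) (PT.lf (nat_lit 23788) (nat_lit 6) (nat_lit 313) (nat_lit 0) (nat_lit 159) (nat_lit 151) (nat_lit 140))))))) (PT.nd (nat_lit 45318) (PT.nd (nat_lit 44694) (PT.nd (nat_lit 312) (PT.nd (nat_lit 156) (PT.nd (nat_lit 78) (PT.lf (nat_lit 22952) (nat_lit 6) (nat_lit 302) (nat_lit 0) (nat_lit 160) (nat_lit 151) (nat_lit 139)) (PT.lf (nat_lit 22040) (nat_lit 6) (nat_lit 290) (nat_lit 0) (nat_lit 161) (nat_lit 151) (nat_lit 138))) (PT.nd (nat_lit 78) (PT.lf (nat_lit 21052) (nat_lit 6) (nat_lit 277) (nat_lit 0) (nat_lit 162) (nat_lit 151) (nat_lit 137)) (PT.lf (nat_lit 19988) (nat_lit 6) (nat_lit 263) (nat_lit 0) (nat_lit 163) (nat_lit 151) (nat_lit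 136)))) (PT.nd (nat_lit 156) (PT.nd (nat_lit 78) (PT.lf (nat_lit 18848) (nat_lit 6) (nat_lit 248) (nat_lit 0) (nat_lit 164) (nat_lit 151) (nat_lit 135)) (PT.lf (nat_lit 17632) (nat_lit 6) (nat_lit 232) (nat_lit 0) (nat_lit 165) (nat_lit 151) (nat_lit 134))) (PT.nd (nat_lit 44148) (PT.lf (nat_lit 16340) (nat_lit 6) (nat_lit 215) (nat_lit 0) (nat_lit 166) (nat_lit 151) (nat_lit 133)) (PT.lf (nat_lit 15124) (nat_lit 6) (nat_lit 199) (nat_lit 5) (nat_lit 131) (nat_lit 152) (nat_lit 167))))) (PT.nd (nat_lit 312) (PT.nd (nat_lit 156) (PT.nd (nat_lit 78) (PT.lf (nat_lit 15732) (nat_lit 6) (nat_lit 207) (nat_lit 5) (nat_lit 132) (nat_lit 152) (nat_lit 166)) (PT.lf (nat_lit 16416) (nat_lit 6) (nat_lit 216) (nat_lit 5) (nat_lit 133) (nat_lit 152) (nat_lit 165))) (PT.nd (nat_lit 78) (PT.lf (nat_lit 17708) (nat_lit 6) (nat_lit 233) (nat_lit 5) (nat_lit 134) (nat_lit 152) (nat_lit 164)) (PT.lf (nat_lit 18924) (nat_lit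 6) (nat_lit 249) (nat_lit 5) (nat_lit 135) (nat_lit 152) (nat_lit 163)))) (PT.nd (nat_lit 156) (PT.nd (nat_lit 78) (PT.lf (nat_lit 20064) (nat_lit 6) (nat_lit 264) (nat_lit 5) (nat_lit 136) (nat_lit 152) (nat_lit 162)) (PT.lf (nat_lit 21128) (nat_lit 6) (nat_lit 278) (nat_lit 5) (nat_lit 137) (nat_lit 152) (nat_lit 161))) (PT.nd (nat_lit 78) (PT.lf (nat_lit 22116) (nat_lit 6) (nat_lit 291) (nat_lit 5) (nat_lit 138) (nat_lit 152) (nat_lit 160)) (PT.lf (nat_lit 23028) (nat_lit 6) (nat_lit 303) (nat_lit 5) (nat_lit 139) (nat_lit 152) (nat_lit 159)))))) (PT.nd (nat_lit 624) (PT.nd (nat_lit 312) (PT.nd (nat_lit 156) (PT.nd (nat_lit 78) (PT.lf (nat_lit 23864) (nat_lit 6) (nat_lit 314) (nat_lit 5) (nat_lit 140) (nat_lit 152) (nat_lit 158)) (PT.lf (nat_lit 24624) (nat_lit 6) (nat_lit 324) (nat_lit 5) (nat_lit 141) (nat_lit 152) (nat_lit 157))) (PT.nd (nat_lit 78) (PT.lf (nat_lit 25308) (nat_lit 6) (nat_lit 333)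 (nat_lit 5) (nat_lit 142) (nat_lit 152) (nat_lit 156)) (PT.lf (nat_lit 25916) (nat_lit 6) (nat_lit 341) (nat_lit 5) (nat_lit 143) (nat_lit 152) (nat_lit 155)))) (PT.nd (nat_lit 156) (PT.nd (nat_lit 78) (PT.lf (nat_lit 26448) (nat_lit 6) (nat_lit 348) (nat_lit 5) (nat_lit 144) (nat_lit 152) (nat_lit 154)) (PT.lf (nat_lit 26904) (nat_lit 6) (nat_lit 354) (nat_lit 5) (nat_lit 145) (nat_lit 152) (nat_lit 153))) (PT.nd (nat_lit 78) (PT.lf (nat_lit 27284) (nat_lit 3) (nat_lit 359) (nat_lit 4) (nat_lit 146) (nat_lit 152) (nat_lit 152)) (PT.lf (nat_lit 27512) (nat_lit 6) (nat_lit 362) (nat_lit 4) (nat_lit 147) (nat_lit 152) (nat_lit 151))))) (PT.nd (nat_lit 312) (PT.nd (nat_lit 156) (PT.nd (nat_lit 78) (PT.lf (nat_lit 27664) (nat_lit 6) (nat_lit 364) (nat_lit 4) (nat_lit 148) (nat_lit 152) (nat_lit 150)) (PT.lf (nat_lit 27588) (nat_lit 3) (nat_lit 363) (nat_lit 2) (nat_lit 149) (nat_lit 152) (nat_lit 149))) (PT.nd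 (nat_lit 78) (PT.lf (nat_lit 27664) (nat_lit 6) (nat_lit 364) (nat_lit 2) (nat_lit 150) (nat_lit 152) (nat_lit 148)) (PT.lf (nat_lit 27512) (nat_lit 6) (nat_lit 362) (nat_lit 2) (nat_lit 151) (nat_lit 152) (nat_lit 147)))) (PT.nd (nat_lit 156) (PT.nd (nat_lit 78) (PT.lf (nat_lit 27284) (nat_lit 3) (nat_lit 359) (nat_lit 0) (nat_lit 152) (nat_lit 152) (nat_lit 146)) (PT.lf (nat_lit 26904) (nat_lit 6) (nat_lit 354) (nat_lit 0) (nat_lit 153) (nat_lit 152) (nat_lit 145))) (PT.nd (nat_lit 78) (PT.lf (nat_lit 26448) (nat_lit 6) (nat_lit 348) (nat_lit 0) (nat_lit 154) (nat_lit 152) (nat_lit 144)) (PT.lf (nat_lit 25916) (nat_lit 6) (nat_lit 341) (nat_lit 0) (nat_lit 155) (nat_lit 152) (nat_lit 143))))))))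
noncomputable def pc14 : PT := (PT.nd (nat_lit 46410) (PT.nd (nat_lit 45162) (PT.nd (nat_lit 624) (PT.nd (nat_lit 312) (PT.nd (nat_lit 156) (PT.nd (nat_lit 78) (PT.lf (nat_lit 25308) (nat_lit 6) (nat_lit 333) (nat_lit 0) (nat_lit 156) (nat_lit 152) (nat_lit 142)) (PT.lf (nat_lit 24624) (nat_lit 6) (nat_lit 324) (nat_lit 0) (nat_lit 157) (nat_lit 152) (nat_lit 141))) (PT.nd (nat_lit 78) (PT.lf (nat_lit 23864) (nat_lit 6) (nat_lit 314) (nat_lit 0) (nat_lit 158) (nat_lit 152) (nat_lit 140)) (PT.lf (nat_lit 23028) (nat_lit 6) (nat_lit 303) (nat_lit 0) (nat_lit 159) (nat_lit 152) (nat_lit 139)))) (PT.nd (nat_lit 156) (PT.nd (nat_lit 78) (PT.lf (nat_lit 22116) (nat_lit 6) (nat_lit 291) (nat_lit 0) (nat_lit 160) (nat_lit 152) (nat_lit 138)) (PT.lf (nat_lit 21128) (nat_lit 6) (nat_lit 278) (nat_lit 0) (nat_lit 161) (nat_lit 152) (nat_lit 137))) (PT.nd (nat_lit 78) (PT.lf (nat_lit 20064) (nat_lit 6) (nat_lit 264)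 (nat_lit 0) (nat_lit 162) (nat_lit 152) (nat_lit 136)) (PT.lf (nat_lit 18924) (nat_lit 6) (nat_lit 249) (nat_lit 0) (nat_lit 163) (nat_lit 152) (nat_lit 135))))) (PT.nd (nat_lit 44226) (PT.nd (nat_lit 156) (PT.nd (nat_lit 78) (PT.lf (nat_lit 17708) (nat_lit 6) (nat_lit 233) (nat_lit 0) (nat_lit 164) (nat_lit 152) (nat_lit 134)) (PT.lf (nat_lit 16416) (nat_lit 6) (nat_lit 216) (nat_lit 0) (nat_lit 165) (nat_lit 152) (nat_lit 133))) (PT.nd (nat_lit 78) (PT.lf (nat_lit 15732) (nat_lit 6) (nat_lit 207) (nat_lit 0) (nat_lit 166) (nat_lit 152) (nat_lit 132)) (PT.lf (nat_lit 15124) (nat_lit 6) (nat_lit 199) (nat_lit 0) (nat_lit 167) (nat_lit 152) (nat_lit 131)))) (PT.nd (nat_lit 156) (PT.nd (nat_lit 78) (PT.lf (nat_lit 14516) (nat_lit 6) (nat_lit 191) (nat_lit 5) (nat_lit 130) (nat_lit 153) (nat_lit 167)) (PT.lf (nat_lit 15200) (nat_lit 6) (nat_lit 200) (nat_lit 5) (nat_lit 131) (nat_lit 153) (nat_lit 166))) (PT.nd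 (nat_lit 78) (PT.lf (nat_lit 15808) (nat_lit 6) (nat_lit 208) (nat_lit 5) (nat_lit 132) (nat_lit 153) (nat_lit 165)) (PT.lf (nat_lit 16492) (nat_lit 6) (nat_lit 217) (nat_lit 5) (nat_lit 133) (nat_lit 153) (nat_lit 164)))))) (PT.nd (nat_lit 624) (PT.nd (nat_lit 312) (PT.nd (nat_lit 156) (PT.nd (nat_lit 78) (PT.lf (nat_lit 17784) (nat_lit 6) (nat_lit 234) (nat_lit 5) (nat_lit 134) (nat_lit 153) (nat_lit 163)) (PT.lf (nat_lit 19000) (nat_lit 6) (nat_lit 250) (nat_lit 5) (nat_lit 135) (nat_lit 153) (nat_lit 162))) (PT.nd (nat_lit 78) (PT.lf (nat_lit 20140) (nat_lit 6) (nat_lit 265) (nat_lit 5) (nat_lit 136) (nat_lit 153) (nat_lit 161)) (PT.lf (nat_lit 21204) (nat_lit 6) (nat_lit 279) (nat_lit 5) (nat_lit 137) (nat_lit 153) (nat_lit 160)))) (PT.nd (nat_lit 156) (PT.nd (nat_lit 78) (PT.lf (nat_lit 22192) (nat_lit 6) (nat_lit 292) (nat_lit 5) (nat_lit 138) (nat_lit 153) (nat_lit 159)) (PT.lf (nat_lit 23104) (nat_lit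 6) (nat_lit 304) (nat_lit 5) (nat_lit 139) (nat_lit 153) (nat_lit 158))) (PT.nd (nat_lit 78) (PT.lf (nat_lit 23940) (nat_lit 6) (nat_lit 315) (nat_lit 5) (nat_lit 140) (nat_lit 153) (nat_lit 157)) (PT.lf (nat_lit 24700) (nat_lit 6) (nat_lit 325) (nat_lit 5) (nat_lit 141) (nat_lit 153) (nat_lit 156))))) (PT.nd (nat_lit 312) (PT.nd (nat_lit 156) (PT.nd (nat_lit 78) (PT.lf (nat_lit 25384) (nat_lit 6) (nat_lit 334) (nat_lit 5) (nat_lit 142) (nat_lit 153) (nat_lit 155)) (PT.lf (nat_lit 25992) (nat_lit 6) (nat_lit 342) (nat_lit 5) (nat_lit 143) (nat_lit 153) (nat_lit 154))) (PT.nd (nat_lit 78) (PT.lf (nat_lit 26524) (nat_lit 3) (nat_lit 349) (nat_lit 4) (nat_lit 144) (nat_lit 153) (nat_lit 153)) (PT.lf (nat_lit 26904) (nat_lit 6) (nat_lit 354) (nat_lit 4) (nat_lit 145) (nat_lit 153) (nat_lit 152)))) (PT.nd (nat_lit 156) (PT.nd (nat_lit 78) (PT.lf (nat_lit 27208) (nat_lit 6) (nat_lit 358) (nat_lit 4) (nat_lit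 146) (nat_lit 153) (nat_lit 151)) (PT.lf (nat_lit 27436) (nat_lit 6) (nat_lit 361) (nat_lit 4) (nat_lit 147) (nat_lit 153) (nat_lit 150))) (PT.nd (nat_lit 78) (PT.lf (nat_lit 27360) (nat_lit 6) (nat_lit 360) (nat_lit 4) (nat_lit 148) (nat_lit 153) (nat_lit 149)) (PT.lf (nat_lit 27360) (nat_lit 6) (nat_lit 360) (nat_lit 2) (nat_lit 149) (nat_lit 153) (nat_lit 148))))))) (PT.nd (nat_lit 1248) (PT.nd (nat_lit 624) (PT.nd (nat_lit 312) (PT.nd (nat_lit 156) (PT.nd (nat_lit 78) (PT.lf (nat_lit 27436) (nat_lit 6) (nat_lit 361) (nat_lit 2) (nat_lit 150) (nat_lit 153) (nat_lit 147)) (PT.lf (nat_lit 27208) (nat_lit 6) (nat_lit 358) (nat_lit 2) (nat_lit 151) (nat_lit 153) (nat_lit 146))) (PT.nd (nat_lit 78) (PT.lf (nat_lit 26904) (nat_lit 6) (nat_lit 354) (nat_lit 2) (nat_lit 152) (nat_lit 153) (nat_lit 145)) (PT.lf (nat_lit 26524) (nat_lit 3) (nat_lit 349) (nat_lit 0) (nat_lit 153) (nat_lit 153) (nat_lit 144))))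 (PT.nd (nat_lit 156) (PT.nd (nat_lit 78) (PT.lf (nat_lit 25992) (nat_lit 6) (nat_lit 342) (nat_lit 0) (nat_lit 154) (nat_lit 153) (nat_lit 143)) (PT.lf (nat_lit 25384) (nat_lit 6) (nat_lit 334) (nat_lit 0) (nat_lit 155) (nat_lit 153) (nat_lit 142))) (PT.nd (nat_lit 78) (PT.lf (nat_lit 24700) (nat_lit 6) (nat_lit 325) (nat_lit 0) (nat_lit 156) (nat_lit 153) (nat_lit 141)) (PT.lf (nat_lit 23940) (nat_lit 6) (nat_lit 315) (nat_lit 0) (nat_lit 157) (nat_lit 153) (nat_lit 140))))) (PT.nd (nat_lit 312) (PT.nd (nat_lit 156) (PT.nd (nat_lit 78) (PT.lf (nat_lit 23104) (nat_lit 6) (nat_lit 304) (nat_lit 0) (nat_lit 158) (nat_lit 153) (nat_lit 139)) (PT.lf (nat_lit 22192) (nat_lit 6) (nat_lit 292) (nat_lit 0) (nat_lit 159) (nat_lit 153) (nat_lit 138))) (PT.nd (nat_lit 78) (PT.lf (nat_lit 21204) (nat_lit 6) (nat_lit 279) (nat_lit 0) (nat_lit 160) (nat_lit 153) (nat_lit 137)) (PT.lf (nat_lit 20140) (nat_lit 6) (nat_lit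 265) (nat_lit 0) (nat_lit 161) (nat_lit 153) (nat_lit 136)))) (PT.nd (nat_lit 156) (PT.nd (nat_lit 78) (PT.lf (nat_lit 19000) (nat_lit 6) (nat_lit 250) (nat_lit 0) (nat_lit 162) (nat_lit 153) (nat_lit 135)) (PT.lf (nat_lit 17784) (nat_lit 6) (nat_lit 234) (nat_lit 0) (nat_lit 163) (nat_lit 153) (nat_lit 134))) (PT.nd (nat_lit 78) (PT.lf (nat_lit 16492) (nat_lit 6) (nat_lit 217) (nat_lit 0) (nat_lit 164) (nat_lit 153) (nat_lit 133)) (PT.lf (nat_lit 15808) (nat_lit 6) (nat_lit 208) (nat_lit 0) (nat_lit 165) (nat_lit 153) (nat_lit 132)))))) (PT.nd (nat_lit 44460) (PT.nd (nat_lit 44148) (PT.nd (nat_lit 43992) (PT.nd (nat_lit 78) (PT.lf (nat_lit 15200) (nat_lit 6) (nat_lit 200) (nat_lit 0) (nat_lit 166) (nat_lit 153) (nat_lit 131)) (PT.lf (nat_lit 14516) (nat_lit 6) (nat_lit 191) (nat_lit 0) (nat_lit 167) (nat_lit 153) (nat_lit 130))) (PT.nd (nat_lit 78) (PT.lf (nat_lit 13984) (nat_lit 6) (nat_lit 184) (nat_lit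 5) (nat_lit 129) (nat_lit 154) (nat_lit 167)) (PT.lf (nat_lit 14592) (nat_lit 6) (nat_lit 192) (nat_lit 5) (nat_lit 130) (nat_lit 154) (nat_lit 166)))) (PT.nd (nat_lit 156) (PT.nd (nat_lit 78) (PT.lf (nat_lit 15276) (nat_lit 6) (nat_lit 201) (nat_lit 5) (nat_lit 131) (nat_lit 154) (nat_lit 165)) (PT.lf (nat_lit 15884) (nat_lit 6) (nat_lit 209) (nat_lit 5) (nat_lit 132) (nat_lit 154) (nat_lit 164))) (PT.nd (nat_lit 78) (PT.lf (nat_lit 16568) (nat_lit 6) (nat_lit 218) (nat_lit 5) (nat_lit 133) (nat_lit 154) (nat_lit 163)) (PT.lf (nat_lit 17860) (nat_lit 6) (nat_lit 235) (nat_lit 5) (nat_lit 134) (nat_lit 154) (nat_lit 162))))) (PT.nd (nat_lit 312) (PT.nd (nat_lit 156) (PT.nd (nat_lit 78) (PT.lf (nat_lit 19076) (nat_lit 6) (nat_lit 251) (nat_lit 5) (nat_lit 135) (nat_lit 154) (nat_lit 161)) (PT.lf (nat_lit 20216) (nat_lit 6) (nat_lit 266) (nat_lit 5) (nat_lit 136) (nat_lit 154) (nat_lit 160))) (PT.nd (nat_lit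 78) (PT.lf (nat_lit 21280) (nat_lit 6) (nat_lit 280) (nat_lit 5) (nat_lit 137) (nat_lit 154) (nat_lit 159)) (PT.lf (nat_lit 22268) (nat_lit 6) (nat_lit 293) (nat_lit 5) (nat_lit 138) (nat_lit 154) (nat_lit 158)))) (PT.nd (nat_lit 156) (PT.nd (nat_lit 78) (PT.lf (nat_lit 23180) (nat_lit 6) (nat_lit 305) (nat_lit 5) (nat_lit 139) (nat_lit 154) (nat_lit 157)) (PT.lf (nat_lit 24016) (nat_lit 6) (nat_lit 316) (nat_lit 5) (nat_lit 140) (nat_lit 154) (nat_lit 156))) (PT.nd (nat_lit 78) (PT.lf (nat_lit 24776) (nat_lit 6) (nat_lit 326) (nat_lit 5) (nat_lit 141) (nat_lit 154) (nat_lit 155)) (PT.lf (nat_lit 25460) (nat_lit 3) (nat_lit 335) (nat_lit 4) (nat_lit 142) (nat_lit 154) (nat_lit 154))))))))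
noncomputable def pc15 : PT := (PT.nd (nat_lit 46254) (PT.nd (nat_lit 1248) (PT.nd (nat_lit 624) (PT.nd (nat_lit 312) (PT.nd (nat_lit 156) (PT.nd (nat_lit 78) (PT.lf (nat_lit 25992) (nat_lit 6) (nat_lit 342) (nat_lit 4) (nat_lit 143) (nat_lit 154) (nat_lit 153)) (PT.lf (nat_lit 26448) (nat_lit 6) (nat_lit 348) (nat_lit 4) (nat_lit 144) (nat_lit 154) (nat_lit 152))) (PT.nd (nat_lit 78) (PT.lf (nat_lit 26828) (nat_lit 6) (nat_lit 353) (nat_lit 4) (nat_lit 145) (nat_lit 154) (nat_lit 151)) (PT.lf (nat_lit 27132) (nat_lit 6) (nat_lit 357) (nat_lit 4) (nat_lit 146) (nat_lit 154) (nat_lit 150)))) (PT.nd (nat_lit 156) (PT.nd (nat_lit 78) (PT.lf (nat_lit 27056) (nat_lit 6) (nat_lit 356) (nat_lit 4) (nat_lit 147) (nat_lit 154) (nat_lit 149)) (PT.lf (nat_lit 26980) (nat_lit 3) (nat_lit 355) (nat_lit 2) (nat_lit 148) (nat_lit 154) (nat_lit 148))) (PT.nd (nat_lit 78) (PT.lf (nat_lit 27056) (nat_lit 6) (nat_lit 356)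 (nat_lit 2) (nat_lit 149) (nat_lit 154) (nat_lit 147)) (PT.lf (nat_lit 27132) (nat_lit 6) (nat_lit 357) (nat_lit 2) (nat_lit 150) (nat_lit 154) (nat_lit 146))))) (PT.nd (nat_lit 312) (PT.nd (nat_lit 156) (PT.nd (nat_lit 78) (PT.lf (nat_lit 26828) (nat_lit 6) (nat_lit 353) (nat_lit 2) (nat_lit 151) (nat_lit 154) (nat_lit 145)) (PT.lf (nat_lit 26448) (nat_lit 6) (nat_lit 348) (nat_lit 2) (nat_lit 152) (nat_lit 154) (nat_lit 144))) (PT.nd (nat_lit 78) (PT.lf (nat_lit 25992) (nat_lit 6) (nat_lit 342) (nat_lit 2) (nat_lit 153) (nat_lit 154) (nat_lit 143)) (PT.lf (nat_lit 25460) (nat_lit 3) (nat_lit 335) (nat_lit 0) (nat_lit 154) (nat_lit 154) (nat_lit 142)))) (PT.nd (nat_lit 156) (PT.nd (nat_lit 78) (PT.lf (nat_lit 24776) (nat_lit 6) (nat_lit 326) (nat_lit 0) (nat_lit 155) (nat_lit 154) (nat_lit 141)) (PT.lf (nat_lit 24016) (nat_lit 6) (nat_lit 316) (nat_lit 0) (nat_lit 156) (nat_lit 154) (nat_lit 140))) (PT.nd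 (nat_lit 78) (PT.lf (nat_lit 23180) (nat_lit 6) (nat_lit 305) (nat_lit 0) (nat_lit 157) (nat_lit 154) (nat_lit 139)) (PT.lf (nat_lit 22268) (nat_lit 6) (nat_lit 293) (nat_lit 0) (nat_lit 158) (nat_lit 154) (nat_lit 138)))))) (PT.nd (nat_lit 624) (PT.nd (nat_lit 312) (PT.nd (nat_lit 156) (PT.nd (nat_lit 78) (PT.lf (nat_lit 21280) (nat_lit 6) (nat_lit 280) (nat_lit 0) (nat_lit 159) (nat_lit 154) (nat_lit 137)) (PT.lf (nat_lit 20216) (nat_lit 6) (nat_lit 266) (nat_lit 0) (nat_lit 160) (nat_lit 154) (nat_lit 136))) (PT.nd (nat_lit 78) (PT.lf (nat_lit 19076) (nat_lit 6) (nat_lit 251) (nat_lit 0) (nat_lit 161) (nat_lit 154) (nat_lit 135)) (PT.lf (nat_lit 17860) (nat_lit 6) (nat_lit 235) (nat_lit 0) (nat_lit 162) (nat_lit 154) (nat_lit 134)))) (PT.nd (nat_lit 156) (PT.nd (nat_lit 78) (PT.lf (nat_lit 16568) (nat_lit 6) (nat_lit 218) (nat_lit 0) (nat_lit 163) (nat_lit 154) (nat_lit 133)) (PT.lf (nat_lit 15884) (nat_lit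 6) (nat_lit 209) (nat_lit 0) (nat_lit 164) (nat_lit 154) (nat_lit 132))) (PT.nd (nat_lit 78) (PT.lf (nat_lit 15276) (nat_lit 6) (nat_lit 201) (nat_lit 0) (nat_lit 165) (nat_lit 154) (nat_lit 131)) (PT.lf (nat_lit 14592) (nat_lit 6) (nat_lit 192) (nat_lit 0) (nat_lit 166) (nat_lit 154) (nat_lit 130))))) (PT.nd (nat_lit 44070) (PT.nd (nat_lit 43914) (PT.nd (nat_lit 43836) (PT.lf (nat_lit 13984) (nat_lit 6) (nat_lit 184) (nat_lit 0) (nat_lit 167) (nat_lit 154) (nat_lit 129)) (PT.lf (nat_lit 13452) (nat_lit 6) (nat_lit 177) (nat_lit 5) (nat_lit 128) (nat_lit 155) (nat_lit 167))) (PT.nd (nat_lit 78) (PT.lf (nat_lit 14060) (nat_lit 6) (nat_lit 185) (nat_lit 5) (nat_lit 129) (nat_lit 155) (nat_lit 166)) (PT.lf (nat_lit 14668) (nat_lit 6) (nat_lit 193) (nat_lit 5) (nat_lit 130) (nat_lit 155) (nat_lit 165)))) (PT.nd (nat_lit 156) (PT.nd (nat_lit 78) (PT.lf (nat_lit 15352) (nat_lit 6) (nat_lit 202) (nat_lit 5) (nat_lit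 131) (nat_lit 155) (nat_lit 164)) (PT.lf (nat_lit 15960) (nat_lit 6) (nat_lit 210) (nat_lit 5) (nat_lit 132) (nat_lit 155) (nat_lit 163))) (PT.nd (nat_lit 78) (PT.lf (nat_lit 16644) (nat_lit 6) (nat_lit 219) (nat_lit 5) (nat_lit 133) (nat_lit 155) (nat_lit 162)) (PT.lf (nat_lit 17936) (nat_lit 6) (nat_lit 236) (nat_lit 5) (nat_lit 134) (nat_lit 155) (nat_lit 161))))))) (PT.nd (nat_lit 1248) (PT.nd (nat_lit 624) (PT.nd (nat_lit 312) (PT.nd (nat_lit 156) (PT.nd (nat_lit 78) (PT.lf (nat_lit 19152) (nat_lit 6) (nat_lit 252) (nat_lit 5) (nat_lit 135) (nat_lit 155) (nat_lit 160)) (PT.lf (nat_lit 20292) (nat_lit 6) (nat_lit 267) (nat_lit 5) (nat_lit 136) (nat_lit 155) (nat_lit 159))) (PT.nd (nat_lit 78) (PT.lf (nat_lit 21356) (nat_lit 6) (nat_lit 281) (nat_lit 5) (nat_lit 137) (nat_lit 155) (nat_lit 158)) (PT.lf (nat_lit 22344) (nat_lit 6) (nat_lit 294) (nat_lit 5) (nat_lit 138) (nat_lit 155) (nat_lit 157))))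 (PT.nd (nat_lit 156) (PT.nd (nat_lit 78) (PT.lf (nat_lit 23256) (nat_lit 6) (nat_lit 306) (nat_lit 5) (nat_lit 139) (nat_lit 155) (nat_lit 156)) (PT.lf (nat_lit 24092) (nat_lit 3) (nat_lit 317) (nat_lit 4) (nat_lit 140) (nat_lit 155) (nat_lit 155))) (PT.nd (nat_lit 78) (PT.lf (nat_lit 24776) (nat_lit 6) (nat_lit 326) (nat_lit 4) (nat_lit 141) (nat_lit 155) (nat_lit 154)) (PT.lf (nat_lit 25384) (nat_lit 6) (nat_lit 334) (nat_lit 4) (nat_lit 142) (nat_lit 155) (nat_lit 153))))) (PT.nd (nat_lit 312) (PT.nd (nat_lit 156) (PT.nd (nat_lit 78) (PT.lf (nat_lit 25916) (nat_lit 6) (nat_lit 341) (nat_lit 4) (nat_lit 143) (nat_lit 155) (nat_lit 152)) (PT.lf (nat_lit 26372) (nat_lit 6) (nat_lit 347) (nat_lit 4) (nat_lit 144) (nat_lit 155) (nat_lit 151))) (PT.nd (nat_lit 78) (PT.lf (nat_lit 26752) (nat_lit 6) (nat_lit 352) (nat_lit 4) (nat_lit 145) (nat_lit 155) (nat_lit 150)) (PT.lf (nat_lit 26676) (nat_lit 6) (nat_lit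 351) (nat_lit 4) (nat_lit 146) (nat_lit 155) (nat_lit 149)))) (PT.nd (nat_lit 156) (PT.nd (nat_lit 78) (PT.lf (nat_lit 26600) (nat_lit 6) (nat_lit 350) (nat_lit 4) (nat_lit 147) (nat_lit 155) (nat_lit 148)) (PT.lf (nat_lit 26600) (nat_lit 6) (nat_lit 350) (nat_lit 2) (nat_lit 148) (nat_lit 155) (nat_lit 147))) (PT.nd (nat_lit 78) (PT.lf (nat_lit 26676) (nat_lit 6) (nat_lit 351) (nat_lit 2) (nat_lit 149) (nat_lit 155) (nat_lit 146)) (PT.lf (nat_lit 26752) (nat_lit 6) (nat_lit 352) (nat_lit 2) (nat_lit 150) (nat_lit 155) (nat_lit 145)))))) (PT.nd (nat_lit 624) (PT.nd (nat_lit 312) (PT.nd (nat_lit 156) (PT.nd (nat_lit 78) (PT.lf (nat_lit 26372) (nat_lit 6) (nat_lit 347) (nat_lit 2) (nat_lit 151) (nat_lit 155) (nat_lit 144)) (PT.lf (nat_lit 25916) (nat_lit 6) (nat_lit 341) (nat_lit 2) (nat_lit 152) (nat_lit 155) (nat_lit 143))) (PT.nd (nat_lit 78) (PT.lf (nat_lit 25384) (nat_lit 6) (nat_lit 334) (nat_lit 2)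 (nat_lit 153) (nat_lit 155) (nat_lit 142)) (PT.lf (nat_lit 24776) (nat_lit 6) (nat_lit 326) (nat_lit 2) (nat_lit 154) (nat_lit 155) (nat_lit 141)))) (PT.nd (nat_lit 156) (PT.nd (nat_lit 78) (PT.lf (nat_lit 24092) (nat_lit 3) (nat_lit 317) (nat_lit 0) (nat_lit 155) (nat_lit 155) (nat_lit 140)) (PT.lf (nat_lit 23256) (nat_lit 6) (nat_lit 306) (nat_lit 0) (nat_lit 156) (nat_lit 155) (nat_lit 139))) (PT.nd (nat_lit 78) (PT.lf (nat_lit 22344) (nat_lit 6) (nat_lit 294) (nat_lit 0) (nat_lit 157) (nat_lit 155) (nat_lit 138)) (PT.lf (nat_lit 21356) (nat_lit 6) (nat_lit 281) (nat_lit 0) (nat_lit 158) (nat_lit 155) (nat_lit 137))))) (PT.nd (nat_lit 312) (PT.nd (nat_lit 156) (PT.nd (nat_lit 78) (PT.lf (nat_lit 20292) (nat_lit 6) (nat_lit 267) (nat_lit 0) (nat_lit 159) (nat_lit 155) (nat_lit 136)) (PT.lf (nat_lit 19152) (nat_lit 6) (nat_lit 252) (nat_lit 0) (nat_lit 160) (nat_lit 155) (nat_lit 135))) (PT.nd (nat_lit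 78) (PT.lf (nat_lit 17936) (nat_lit 6) (nat_lit 236) (nat_lit 0) (nat_lit 161) (nat_lit 155) (nat_lit 134)) (PT.lf (nat_lit 16644) (nat_lit 6) (nat_lit 219) (nat_lit 0) (nat_lit 162) (nat_lit 155) (nat_lit 133)))) (PT.nd (nat_lit 156) (PT.nd (nat_lit 78) (PT.lf (nat_lit 15960) (nat_lit 6) (nat_lit 210) (nat_lit 0) (nat_lit 163) (nat_lit 155) (nat_lit 132)) (PT.lf (nat_lit 15352) (nat_lit 6) (nat_lit 202) (nat_lit 0) (nat_lit 164) (nat_lit 155) (nat_lit 131))) (PT.nd (nat_lit 78) (PT.lf (nat_lit 14668) (nat_lit 6) (nat_lit 193) (nat_lit 0) (nat_lit 165) (nat_lit 155) (nat_lit 130)) (PT.lf (nat_lit 14060) (nat_lit 6) (nat_lit 185) (nat_lit 0) (nat_lit 166) (nat_lit 155) (nat_lit 129))))))))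
noncomputable def pc16 : PT := (PT.nd (nat_lit 46020) (PT.nd (nat_lit 44772) (PT.nd (nat_lit 44148) (PT.nd (nat_lit 43836) (PT.nd (nat_lit 43680) (PT.lf (nat_lit 13452) (nat_lit 6) (nat_lit 177) (nat_lit 0) (nat_lit 167) (nat_lit 155) (nat_lit 128)) (PT.nd (nat_lit 78) (PT.lf (nat_lit 12464) (nat_lit 6) (nat_lit 164) (nat_lit 5) (nat_lit 126) (nat_lit 156) (nat_lit 168)) (PT.lf (nat_lit 12996) (nat_lit 6) (nat_lit 171) (nat_lit 5) (nat_lit 127) (nat_lit 156) (nat_lit 167)))) (PT.nd (nat_lit 156) (PT.nd (nat_lit 78) (PT.lf (nat_lit 13528) (nat_lit 6) (nat_lit 178) (nat_lit 5) (nat_lit 128) (nat_lit 156) (nat_lit 166)) (PT.lf (nat_lit 14136) (nat_lit 6) (nat_lit 186) (nat_lit 5) (nat_lit 129) (nat_lit 156) (nat_lit 165))) (PT.nd (nat_lit 78) (PT.lf (nat_lit 14744) (nat_lit 6) (nat_lit 194) (nat_lit 5) (nat_lit 130) (nat_lit 156) (nat_lit 164)) (PT.lf (nat_lit 15428) (nat_lit 6) (nat_lit 203) (nat_lit 5) (nat_lit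 131) (nat_lit 156) (nat_lit 163))))) (PT.nd (nat_lit 312) (PT.nd (nat_lit 156) (PT.nd (nat_lit 78) (PT.lf (nat_lit 16036) (nat_lit 6) (nat_lit 211) (nat_lit 5) (nat_lit 132) (nat_lit 156) (nat_lit 162)) (PT.lf (nat_lit 16720) (nat_lit 6) (nat_lit 220) (nat_lit 5) (nat_lit 133) (nat_lit 156) (nat_lit 161))) (PT.nd (nat_lit 78) (PT.lf (nat_lit 18012) (nat_lit 6) (nat_lit 237) (nat_lit 5) (nat_lit 134) (nat_lit 156) (nat_lit 160)) (PT.lf (nat_lit 19228) (nat_lit 6) (nat_lit 253) (nat_lit 5) (nat_lit 135) (nat_lit 156) (nat_lit 159)))) (PT.nd (nat_lit 156) (PT.nd (nat_lit 78) (PT.lf (nat_lit 20368) (nat_lit 6) (nat_lit 268) (nat_lit 5) (nat_lit 136) (nat_lit 156) (nat_lit 158)) (PT.lf (nat_lit 21432) (nat_lit 6) (nat_lit 282) (nat_lit 5) (nat_lit 137) (nat_lit 156) (nat_lit 157))) (PT.nd (nat_lit 78) (PT.lf (nat_lit 22420) (nat_lit 3) (nat_lit 295) (nat_lit 4) (nat_lit 138) (nat_lit 156) (nat_lit 156)) (PT.lf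 (nat_lit 23256) (nat_lit 6) (nat_lit 306) (nat_lit 4) (nat_lit 139) (nat_lit 156) (nat_lit 155)))))) (PT.nd (nat_lit 624) (PT.nd (nat_lit 312) (PT.nd (nat_lit 156) (PT.nd (nat_lit 78) (PT.lf (nat_lit 24016) (nat_lit 6) (nat_lit 316) (nat_lit 4) (nat_lit 140) (nat_lit 156) (nat_lit 154)) (PT.lf (nat_lit 24700) (nat_lit 6) (nat_lit 325) (nat_lit 4) (nat_lit 141) (nat_lit 156) (nat_lit 153))) (PT.nd (nat_lit 78) (PT.lf (nat_lit 25308) (nat_lit 6) (nat_lit 333) (nat_lit 4) (nat_lit 142) (nat_lit 156) (nat_lit 152)) (PT.lf (nat_lit 25840) (nat_lit 6) (nat_lit 340) (nat_lit 4) (nat_lit 143) (nat_lit 156) (nat_lit 151)))) (PT.nd (nat_lit 156) (PT.nd (nat_lit 78) (PT.lf (nat_lit 26296) (nat_lit 6) (nat_lit 346) (nat_lit 4) (nat_lit 144) (nat_lit 156) (nat_lit 150)) (PT.lf (nat_lit 26220) (nat_lit 6) (nat_lit 345) (nat_lit 4) (nat_lit 145) (nat_lit 156) (nat_lit 149))) (PT.nd (nat_lit 78) (PT.lf (nat_lit 26144)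 (nat_lit 6) (nat_lit 344) (nat_lit 4) (nat_lit 146) (nat_lit 156) (nat_lit 148)) (PT.lf (nat_lit 26068) (nat_lit 3) (nat_lit 343) (nat_lit 2) (nat_lit 147) (nat_lit 156) (nat_lit 147))))) (PT.nd (nat_lit 312) (PT.nd (nat_lit 156) (PT.nd (nat_lit 78) (PT.lf (nat_lit 26144) (nat_lit 6) (nat_lit 344) (nat_lit 2) (nat_lit 148) (nat_lit 156) (nat_lit 146)) (PT.lf (nat_lit 26220) (nat_lit 6) (nat_lit 345) (nat_lit 2) (nat_lit 149) (nat_lit 156) (nat_lit 145))) (PT.nd (nat_lit 78) (PT.lf (nat_lit 26296) (nat_lit 6) (nat_lit 346) (nat_lit 2) (nat_lit 150) (nat_lit 156) (nat_lit 144)) (PT.lf (nat_lit 25840) (nat_lit 6) (nat_lit 340) (nat_lit 2) (nat_lit 151) (nat_lit 156) (nat_lit 143)))) (PT.nd (nat_lit 156) (PT.nd (nat_lit 78) (PT.lf (nat_lit 25308) (nat_lit 6) (nat_lit 333) (nat_lit 2) (nat_lit 152) (nat_lit 156) (nat_lit 142)) (PT.lf (nat_lit 24700) (nat_lit 6) (nat_lit 325) (nat_lit 2) (nat_lit 153) (nat_lit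 156) (nat_lit 141))) (PT.nd (nat_lit 78) (PT.lf (nat_lit 24016) (nat_lit 6) (nat_lit 316) (nat_lit 2) (nat_lit 154) (nat_lit 156) (nat_lit 140)) (PT.lf (nat_lit 23256) (nat_lit 6) (nat_lit 306) (nat_lit 2) (nat_lit 155) (nat_lit 156) (nat_lit 139))))))) (PT.nd (nat_lit 44694) (PT.nd (nat_lit 624) (PT.nd (nat_lit 312) (PT.nd (nat_lit 156) (PT.nd (nat_lit 78) (PT.lf (nat_lit 22420) (nat_lit 3) (nat_lit 295) (nat_lit 0) (nat_lit 156) (nat_lit 156) (nat_lit 138)) (PT.lf (nat_lit 21432) (nat_lit 6) (nat_lit 282) (nat_lit 0) (nat_lit 157) (nat_lit 156) (nat_lit 137))) (PT.nd (nat_lit 78) (PT.lf (nat_lit 20368) (nat_lit 6) (nat_lit 268) (nat_lit 0) (nat_lit 158) (nat_lit 156) (nat_lit 136)) (PT.lf (nat_lit 19228) (nat_lit 6) (nat_lit 253) (nat_lit 0) (nat_lit 159) (nat_lit 156) (nat_lit 135)))) (PT.nd (nat_lit 156) (PT.nd (nat_lit 78) (PT.lf (nat_lit 18012) (nat_lit 6) (nat_lit 237) (nat_lit 0) (nat_lit 160) (nat_lit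 156) (nat_lit 134)) (PT.lf (nat_lit 16720) (nat_lit 6) (nat_lit 220) (nat_lit 0) (nat_lit 161) (nat_lit 156) (nat_lit 133))) (PT.nd (nat_lit 78) (PT.lf (nat_lit 16036) (nat_lit 6) (nat_lit 211) (nat_lit 0) (nat_lit 162) (nat_lit 156) (nat_lit 132)) (PT.lf (nat_lit 15428) (nat_lit 6) (nat_lit 203) (nat_lit 0) (nat_lit 163) (nat_lit 156) (nat_lit 131))))) (PT.nd (nat_lit 312) (PT.nd (nat_lit 156) (PT.nd (nat_lit 78) (PT.lf (nat_lit 14744) (nat_lit 6) (nat_lit 194) (nat_lit 0) (nat_lit 164) (nat_lit 156) (nat_lit 130)) (PT.lf (nat_lit 14136) (nat_lit 6) (nat_lit 186) (nat_lit 0) (nat_lit 165) (nat_lit 156) (nat_lit 129))) (PT.nd (nat_lit 78) (PT.lf (nat_lit 13528) (nat_lit 6) (nat_lit 178) (nat_lit 0) (nat_lit 166) (nat_lit 156) (nat_lit 128)) (PT.lf (nat_lit 12996) (nat_lit 6) (nat_lit 171) (nat_lit 0) (nat_lit 167) (nat_lit 156) (nat_lit 127)))) (PT.nd (nat_lit 43602) (PT.nd (nat_lit 43524) (PT.lf (nat_lit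 12464) (nat_lit 6) (nat_lit 164) (nat_lit 0) (nat_lit 168) (nat_lit 156) (nat_lit 126)) (PT.lf (nat_lit 12008) (nat_lit 6) (nat_lit 158) (nat_lit 5) (nat_lit 125) (nat_lit 157) (nat_lit 168))) (PT.nd (nat_lit 78) (PT.lf (nat_lit 12540) (nat_lit 6) (nat_lit 165) (nat_lit 5) (nat_lit 126) (nat_lit 157) (nat_lit 167)) (PT.lf (nat_lit 13072) (nat_lit 6) (nat_lit 172) (nat_lit 5) (nat_lit 127) (nat_lit 157) (nat_lit 166)))))) (PT.nd (nat_lit 624) (PT.nd (nat_lit 312) (PT.nd (nat_lit 156) (PT.nd (nat_lit 78) (PT.lf (nat_lit 13604) (nat_lit 6) (nat_lit 179) (nat_lit 5) (nat_lit 128) (nat_lit 157) (nat_lit 165)) (PT.lf (nat_lit 14212) (nat_lit 6) (nat_lit 187) (nat_lit 5) (nat_lit 129) (nat_lit 157) (nat_lit 164))) (PT.nd (nat_lit 78) (PT.lf (nat_lit 14820) (nat_lit 6) (nat_lit 195) (nat_lit 5) (nat_lit 130) (nat_lit 157) (nat_lit 163)) (PT.lf (nat_lit 15504) (nat_lit 6) (nat_lit 204) (nat_lit 5) (nat_lit 131)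 (nat_lit 157) (nat_lit 162)))) (PT.nd (nat_lit 156) (PT.nd (nat_lit 78) (PT.lf (nat_lit 16112) (nat_lit 6) (nat_lit 212) (nat_lit 5) (nat_lit 132) (nat_lit 157) (nat_lit 161)) (PT.lf (nat_lit 16796) (nat_lit 6) (nat_lit 221) (nat_lit 5) (nat_lit 133) (nat_lit 157) (nat_lit 160))) (PT.nd (nat_lit 78) (PT.lf (nat_lit 18088) (nat_lit 6) (nat_lit 238) (nat_lit 5) (nat_lit 134) (nat_lit 157) (nat_lit 159)) (PT.lf (nat_lit 19304) (nat_lit 6) (nat_lit 254) (nat_lit 5) (nat_lit 135) (nat_lit 157) (nat_lit 158))))) (PT.nd (nat_lit 312) (PT.nd (nat_lit 156) (PT.nd (nat_lit 78) (PT.lf (nat_lit 20444) (nat_lit 3) (nat_lit 269) (nat_lit 4) (nat_lit 136) (nat_lit 157) (nat_lit 157)) (PT.lf (nat_lit 21432) (nat_lit 6) (nat_lit 282) (nat_lit 4) (nat_lit 137) (nat_lit 157) (nat_lit 156))) (PT.nd (nat_lit 78) (PT.lf (nat_lit 22344) (nat_lit 6) (nat_lit 294) (nat_lit 4) (nat_lit 138) (nat_lit 157) (nat_lit 155)) (PT.lf (nat_lit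 23180) (nat_lit 6) (nat_lit 305) (nat_lit 4) (nat_lit 139) (nat_lit 157) (nat_lit 154)))) (PT.nd (nat_lit 156) (PT.nd (nat_lit 78) (PT.lf (nat_lit 23940) (nat_lit 6) (nat_lit 315) (nat_lit 4) (nat_lit 140) (nat_lit 157) (nat_lit 153)) (PT.lf (nat_lit 24624) (nat_lit 6) (nat_lit 324) (nat_lit 4) (nat_lit 141) (nat_lit 157) (nat_lit 152))) (PT.nd (nat_lit 78) (PT.lf (nat_lit 25232) (nat_lit 6) (nat_lit 332) (nat_lit 4) (nat_lit 142) (nat_lit 157) (nat_lit 151)) (PT.lf (nat_lit 25764) (nat_lit 6) (nat_lit 339) (nat_lit 4) (nat_lit 143) (nat_lit 157) (nat_lit 150))))))))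
noncomputable def pc17 : PT := (PT.nd (nat_lit 45786) (PT.nd (nat_lit 1248) (PT.nd (nat_lit 624) (PT.nd (nat_lit 312) (PT.nd (nat_lit 156) (PT.nd (nat_lit 78) (PT.lf (nat_lit 25688) (nat_lit 6) (nat_lit 338) (nat_lit 4) (nat_lit 144) (nat_lit 157) (nat_lit 149)) (PT.lf (nat_lit 25612) (nat_lit 6) (nat_lit 337) (nat_lit 4) (nat_lit 145) (nat_lit 157) (nat_lit 148))) (PT.nd (nat_lit 78) (PT.lf (nat_lit 25536) (nat_lit 6) (nat_lit 336) (nat_lit 4) (nat_lit 146) (nat_lit 157) (nat_lit 147)) (PT.lf (nat_lit 25536) (nat_lit 6) (nat_lit 336) (nat_lit 2) (nat_lit 147) (nat_lit 157) (nat_lit 146)))) (PT.nd (nat_lit 156) (PT.nd (nat_lit 78) (PT.lf (nat_lit 25612) (nat_lit 6) (nat_lit 337) (nat_lit 2) (nat_lit 148) (nat_lit 157) (nat_lit 145)) (PT.lf (nat_lit 25688) (nat_lit 6) (nat_lit 338) (nat_lit 2) (nat_lit 149) (nat_lit 157) (nat_lit 144))) (PT.nd (nat_lit 78) (PT.lf (nat_lit 25764) (nat_lit 6) (nat_lit 339)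 (nat_lit 2) (nat_lit 150) (nat_lit 157) (nat_lit 143)) (PT.lf (nat_lit 25232) (nat_lit 6) (nat_lit 332) (nat_lit 2) (nat_lit 151) (nat_lit 157) (nat_lit 142))))) (PT.nd (nat_lit 312) (PT.nd (nat_lit 156) (PT.nd (nat_lit 78) (PT.lf (nat_lit 24624) (nat_lit 6) (nat_lit 324) (nat_lit 2) (nat_lit 152) (nat_lit 157) (nat_lit 141)) (PT.lf (nat_lit 23940) (nat_lit 6) (nat_lit 315) (nat_lit 2) (nat_lit 153) (nat_lit 157) (nat_lit 140))) (PT.nd (nat_lit 78) (PT.lf (nat_lit 23180) (nat_lit 6) (nat_lit 305) (nat_lit 2) (nat_lit 154) (nat_lit 157) (nat_lit 139)) (PT.lf (nat_lit 22344) (nat_lit 6) (nat_lit 294) (nat_lit 2) (nat_lit 155) (nat_lit 157) (nat_lit 138)))) (PT.nd (nat_lit 156) (PT.nd (nat_lit 78) (PT.lf (nat_lit 21432) (nat_lit 6) (nat_lit 282) (nat_lit 2) (nat_lit 156) (nat_lit 157) (nat_lit 137)) (PT.lf (nat_lit 20444) (nat_lit 3) (nat_lit 269) (nat_lit 0) (nat_lit 157) (nat_lit 157) (nat_lit 136))) (PT.nd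 (nat_lit 78) (PT.lf (nat_lit 19304) (nat_lit 6) (nat_lit 254) (nat_lit 0) (nat_lit 158) (nat_lit 157) (nat_lit 135)) (PT.lf (nat_lit 18088) (nat_lit 6) (nat_lit 238) (nat_lit 0) (nat_lit 159) (nat_lit 157) (nat_lit 134)))))) (PT.nd (nat_lit 624) (PT.nd (nat_lit 312) (PT.nd (nat_lit 156) (PT.nd (nat_lit 78) (PT.lf (nat_lit 16796) (nat_lit 6) (nat_lit 221) (nat_lit 0) (nat_lit 160) (nat_lit 157) (nat_lit 133)) (PT.lf (nat_lit 16112) (nat_lit 6) (nat_lit 212) (nat_lit 0) (nat_lit 161) (nat_lit 157) (nat_lit 132))) (PT.nd (nat_lit 78) (PT.lf (nat_lit 15504) (nat_lit 6) (nat_lit 204) (nat_lit 0) (nat_lit 162) (nat_lit 157) (nat_lit 131)) (PT.lf (nat_lit 14820) (nat_lit 6) (nat_lit 195) (nat_lit 0) (nat_lit 163) (nat_lit 157) (nat_lit 130)))) (PT.nd (nat_lit 156) (PT.nd (nat_lit 78) (PT.lf (nat_lit 14212) (nat_lit 6) (nat_lit 187) (nat_lit 0) (nat_lit 164) (nat_lit 157) (nat_lit 129)) (PT.lf (nat_lit 13604) (nat_lit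 6) (nat_lit 179) (nat_lit 0) (nat_lit 165) (nat_lit 157) (nat_lit 128))) (PT.nd (nat_lit 78) (PT.lf (nat_lit 13072) (nat_lit 6) (nat_lit 172) (nat_lit 0) (nat_lit 166) (nat_lit 157) (nat_lit 127)) (PT.lf (nat_lit 12540) (nat_lit 6) (nat_lit 165) (nat_lit 0) (nat_lit 167) (nat_lit 157) (nat_lit 126))))) (PT.nd (nat_lit 43602) (PT.nd (nat_lit 43446) (PT.nd (nat_lit 43368) (PT.lf (nat_lit 12008) (nat_lit 6) (nat_lit 158) (nat_lit 0) (nat_lit 168) (nat_lit 157) (nat_lit 125)) (PT.lf (nat_lit 11096) (nat_lit 6) (nat_lit 146) (nat_lit 5) (nat_lit 123) (nat_lit 158) (nat_lit 169))) (PT.nd (nat_lit 78) (PT.lf (nat_lit 11552) (nat_lit 6) (nat_lit 152) (nat_lit 5) (nat_lit 124) (nat_lit 158) (nat_lit 168)) (PT.lf (nat_lit 12084) (nat_lit 6) (nat_lit 159) (nat_lit 5) (nat_lit 125) (nat_lit 158) (nat_lit 167)))) (PT.nd (nat_lit 156) (PT.nd (nat_lit 78) (PT.lf (nat_lit 12616) (nat_lit 6) (nat_lit 166) (nat_lit 5) (nat_lit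 126) (nat_lit 158) (nat_lit 166)) (PT.lf (nat_lit 13148) (nat_lit 6) (nat_lit 173) (nat_lit 5) (nat_lit 127) (nat_lit 158) (nat_lit 165))) (PT.nd (nat_lit 78) (PT.lf (nat_lit 13680) (nat_lit 6) (nat_lit 180) (nat_lit 5) (nat_lit 128) (nat_lit 158) (nat_lit 164)) (PT.lf (nat_lit 14288) (nat_lit 6) (nat_lit 188) (nat_lit 5) (nat_lit 129) (nat_lit 158) (nat_lit 163))))))) (PT.nd (nat_lit 1248) (PT.nd (nat_lit 624) (PT.nd (nat_lit 312) (PT.nd (nat_lit 156) (PT.nd (nat_lit 78) (PT.lf (nat_lit 14896) (nat_lit 6) (nat_lit 196) (nat_lit 5) (nat_lit 130) (nat_lit 158) (nat_lit 162)) (PT.lf (nat_lit 15580) (nat_lit 6) (nat_lit 205) (nat_lit 5) (nat_lit 131) (nat_lit 158) (nat_lit 161))) (PT.nd (nat_lit 78) (PT.lf (nat_lit 16188) (nat_lit 6) (nat_lit 213) (nat_lit 5) (nat_lit 132) (nat_lit 158) (nat_lit 160)) (PT.lf (nat_lit 16872) (nat_lit 6) (nat_lit 222) (nat_lit 5) (nat_lit 133) (nat_lit 158) (nat_lit 159))))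 (PT.nd (nat_lit 156) (PT.nd (nat_lit 78) (PT.lf (nat_lit 18164) (nat_lit 3) (nat_lit 239) (nat_lit 4) (nat_lit 134) (nat_lit 158) (nat_lit 158)) (PT.lf (nat_lit 19304) (nat_lit 6) (nat_lit 254) (nat_lit 4) (nat_lit 135) (nat_lit 158) (nat_lit 157))) (PT.nd (nat_lit 78) (PT.lf (nat_lit 20368) (nat_lit 6) (nat_lit 268) (nat_lit 4) (nat_lit 136) (nat_lit 158) (nat_lit 156)) (PT.lf (nat_lit 21356) (nat_lit 6) (nat_lit 281) (nat_lit 4) (nat_lit 137) (nat_lit 158) (nat_lit 155))))) (PT.nd (nat_lit 312) (PT.nd (nat_lit 156) (PT.nd (nat_lit 78) (PT.lf (nat_lit 22268) (nat_lit 6) (nat_lit 293) (nat_lit 4) (nat_lit 138) (nat_lit 158) (nat_lit 154)) (PT.lf (nat_lit 23104) (nat_lit 6) (nat_lit 304) (nat_lit 4) (nat_lit 139) (nat_lit 158) (nat_lit 153))) (PT.nd (nat_lit 78) (PT.lf (nat_lit 23864) (nat_lit 6) (nat_lit 314) (nat_lit 4) (nat_lit 140) (nat_lit 158) (nat_lit 152)) (PT.lf (nat_lit 24548) (nat_lit 6) (nat_lit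 323) (nat_lit 4) (nat_lit 141) (nat_lit 158) (nat_lit 151)))) (PT.nd (nat_lit 156) (PT.nd (nat_lit 78) (PT.lf (nat_lit 25156) (nat_lit 6) (nat_lit 331) (nat_lit 4) (nat_lit 142) (nat_lit 158) (nat_lit 150)) (PT.lf (nat_lit 25080) (nat_lit 6) (nat_lit 330) (nat_lit 4) (nat_lit 143) (nat_lit 158) (nat_lit 149))) (PT.nd (nat_lit 78) (PT.lf (nat_lit 25004) (nat_lit 6) (nat_lit 329) (nat_lit 4) (nat_lit 144) (nat_lit 158) (nat_lit 148)) (PT.lf (nat_lit 24928) (nat_lit 6) (nat_lit 328) (nat_lit 4) (nat_lit 145) (nat_lit 158) (nat_lit 147)))))) (PT.nd (nat_lit 624) (PT.nd (nat_lit 312) (PT.nd (nat_lit 156) (PT.nd (nat_lit 78) (PT.lf (nat_lit 24852) (nat_lit 3) (nat_lit 327) (nat_lit 2) (nat_lit 146) (nat_lit 158) (nat_lit 146)) (PT.lf (nat_lit 24928) (nat_lit 6) (nat_lit 328) (nat_lit 2) (nat_lit 147) (nat_lit 158) (nat_lit 145))) (PT.nd (nat_lit 78) (PT.lf (nat_lit 25004) (nat_lit 6) (nat_lit 329) (nat_lit 2)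 (nat_lit 148) (nat_lit 158) (nat_lit 144)) (PT.lf (nat_lit 25080) (nat_lit 6) (nat_lit 330) (nat_lit 2) (nat_lit 149) (nat_lit 158) (nat_lit 143)))) (PT.nd (nat_lit 156) (PT.nd (nat_lit 78) (PT.lf (nat_lit 25156) (nat_lit 6) (nat_lit 331) (nat_lit 2) (nat_lit 150) (nat_lit 158) (nat_lit 142)) (PT.lf (nat_lit 24548) (nat_lit 6) (nat_lit 323) (nat_lit 2) (nat_lit 151) (nat_lit 158) (nat_lit 141))) (PT.nd (nat_lit 78) (PT.lf (nat_lit 23864) (nat_lit 6) (nat_lit 314) (nat_lit 2) (nat_lit 152) (nat_lit 158) (nat_lit 140)) (PT.lf (nat_lit 23104) (nat_lit 6) (nat_lit 304) (nat_lit 2) (nat_lit 153) (nat_lit 158) (nat_lit 139))))) (PT.nd (nat_lit 312) (PT.nd (nat_lit 156) (PT.nd (nat_lit 78) (PT.lf (nat_lit 22268) (nat_lit 6) (nat_lit 293) (nat_lit 2) (nat_lit 154) (nat_lit 158) (nat_lit 138)) (PT.lf (nat_lit 21356) (nat_lit 6) (nat_lit 281) (nat_lit 2) (nat_lit 155) (nat_lit 158) (nat_lit 137))) (PT.nd (nat_lit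 78) (PT.lf (nat_lit 20368) (nat_lit 6) (nat_lit 268) (nat_lit 2) (nat_lit 156) (nat_lit 158) (nat_lit 136)) (PT.lf (nat_lit 19304) (nat_lit 6) (nat_lit 254) (nat_lit 2) (nat_lit 157) (nat_lit 158) (nat_lit 135)))) (PT.nd (nat_lit 156) (PT.nd (nat_lit 78) (PT.lf (nat_lit 18164) (nat_lit 3) (nat_lit 239) (nat_lit 0) (nat_lit 158) (nat_lit 158) (nat_lit 134)) (PT.lf (nat_lit 16872) (nat_lit 6) (nat_lit 222) (nat_lit 0) (nat_lit 159) (nat_lit 158) (nat_lit 133))) (PT.nd (nat_lit 78) (PT.lf (nat_lit 16188) (nat_lit 6) (nat_lit 213) (nat_lit 0) (nat_lit 160) (nat_lit 158) (nat_lit 132)) (PT.lf (nat_lit 15580) (nat_lit 6) (nat_lit 205) (nat_lit 0) (nat_lit 161) (nat_lit 158) (nat_lit 131))))))))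
noncomputable def pc18 : PT := (PT.nd (nat_lit 45552) (PT.nd (nat_lit 44304) (PT.nd (nat_lit 546) (PT.nd (nat_lit 234) (PT.nd (nat_lit 78) (PT.lf (nat_lit 14896) (nat_lit 6) (nat_lit 196) (nat_lit 0) (nat_lit 162) (nat_lit 158) (nat_lit 130)) (PT.nd (nat_lit 78) (PT.lf (nat_lit 14288) (nat_lit 6) (nat_lit 188) (nat_lit 0) (nat_lit 163) (nat_lit 158) (nat_lit 129)) (PT.lf (nat_lit 13680) (nat_lit 6) (nat_lit 180) (nat_lit 0) (nat_lit 164) (nat_lit 158) (nat_lit 128)))) (PT.nd (nat_lit 156) (PT.nd (nat_lit 78) (PT.lf (nat_lit 13148) (nat_lit 6) (nat_lit 173) (nat_lit 0) (nat_lit 165) (nat_lit 158) (nat_lit 127)) (PT.lf (nat_lit 12616) (nat_lit 6) (nat_lit 166) (nat_lit 0) (nat_lit 166) (nat_lit 158) (nat_lit 126))) (PT.nd (nat_lit 78) (PT.lf (nat_lit 12084) (nat_lit 6) (nat_lit 159) (nat_lit 0) (nat_lit 167) (nat_lit 158) (nat_lit 125)) (PT.lf (nat_lit 11552) (nat_lit 6) (nat_lit 152) (nat_lit 0) (nat_lit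 168) (nat_lit 158) (nat_lit 124))))) (PT.nd (nat_lit 43446) (PT.nd (nat_lit 43290) (PT.nd (nat_lit 43212) (PT.lf (nat_lit 11096) (nat_lit 6) (nat_lit 146) (nat_lit 0) (nat_lit 169) (nat_lit 158) (nat_lit 123)) (PT.lf (nat_lit 10640) (nat_lit 6) (nat_lit 140) (nat_lit 5) (nat_lit 122) (nat_lit 159) (nat_lit 169))) (PT.nd (nat_lit 78) (PT.lf (nat_lit 11172) (nat_lit 6) (nat_lit 147) (nat_lit 5) (nat_lit 123) (nat_lit 159) (nat_lit 168)) (PT.lf (nat_lit 11628) (nat_lit 6) (nat_lit 153) (nat_lit 5) (nat_lit 124) (nat_lit 159) (nat_lit 167)))) (PT.nd (nat_lit 156) (PT.nd (nat_lit 78) (PT.lf (nat_lit 12160) (nat_lit 6) (nat_lit 160) (nat_lit 5) (nat_lit 125) (nat_lit 159) (nat_lit 166)) (PT.lf (nat_lit 12692) (nat_lit 6) (nat_lit 167) (nat_lit 5) (nat_lit 126) (nat_lit 159) (nat_lit 165))) (PT.nd (nat_lit 78) (PT.lf (nat_lit 13224) (nat_lit 6) (nat_lit 174) (nat_lit 5) (nat_lit 127) (nat_lit 159) (nat_lit 164))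 (PT.lf (nat_lit 13756) (nat_lit 6) (nat_lit 181) (nat_lit 5) (nat_lit 128) (nat_lit 159) (nat_lit 163)))))) (PT.nd (nat_lit 624) (PT.nd (nat_lit 312) (PT.nd (nat_lit 156) (PT.nd (nat_lit 78) (PT.lf (nat_lit 14364) (nat_lit 6) (nat_lit 189) (nat_lit 5) (nat_lit 129) (nat_lit 159) (nat_lit 162)) (PT.lf (nat_lit 14972) (nat_lit 6) (nat_lit 197) (nat_lit 5) (nat_lit 130) (nat_lit 159) (nat_lit 161))) (PT.nd (nat_lit 78) (PT.lf (nat_lit 15656) (nat_lit 6) (nat_lit 206) (nat_lit 5) (nat_lit 131) (nat_lit 159) (nat_lit 160)) (PT.lf (nat_lit 16264) (nat_lit 3) (nat_lit 214) (nat_lit 4) (nat_lit 132) (nat_lit 159) (nat_lit 159)))) (PT.nd (nat_lit 156) (PT.nd (nat_lit 78) (PT.lf (nat_lit 16872) (nat_lit 6) (nat_lit 222) (nat_lit 4) (nat_lit 133) (nat_lit 159) (nat_lit 158)) (PT.lf (nat_lit 18088) (nat_lit 6) (nat_lit 238) (nat_lit 4) (nat_lit 134) (nat_lit 159) (nat_lit 157))) (PT.nd (nat_lit 78) (PT.lf (nat_lit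 19228) (nat_lit 6) (nat_lit 253) (nat_lit 4) (nat_lit 135) (nat_lit 159) (nat_lit 156)) (PT.lf (nat_lit 20292) (nat_lit 6) (nat_lit 267) (nat_lit 4) (nat_lit 136) (nat_lit 159) (nat_lit 155))))) (PT.nd (nat_lit 312) (PT.nd (nat_lit 156) (PT.nd (nat_lit 78) (PT.lf (nat_lit 21280) (nat_lit 6) (nat_lit 280) (nat_lit 4) (nat_lit 137) (nat_lit 159) (nat_lit 154)) (PT.lf (nat_lit 22192) (nat_lit 6) (nat_lit 292) (nat_lit 4) (nat_lit 138) (nat_lit 159) (nat_lit 153))) (PT.nd (nat_lit 78) (PT.lf (nat_lit 23028) (nat_lit 6) (nat_lit 303) (nat_lit 4) (nat_lit 139) (nat_lit 159) (nat_lit 152)) (PT.lf (nat_lit 23788) (nat_lit 6) (nat_lit 313) (nat_lit 4) (nat_lit 140) (nat_lit 159) (nat_lit 151)))) (PT.nd (nat_lit 156) (PT.nd (nat_lit 78) (PT.lf (nat_lit 24472) (nat_lit 6) (nat_lit 322) (nat_lit 4) (nat_lit 141) (nat_lit 159) (nat_lit 150)) (PT.lf (nat_lit 24396) (nat_lit 6) (nat_lit 321) (nat_lit 4) (nat_lit 142)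 (nat_lit 159) (nat_lit 149))) (PT.nd (nat_lit 78) (PT.lf (nat_lit 24320) (nat_lit 6) (nat_lit 320) (nat_lit 4) (nat_lit 143) (nat_lit 159) (nat_lit 148)) (PT.lf (nat_lit 24244) (nat_lit 6) (nat_lit 319) (nat_lit 4) (nat_lit 144) (nat_lit 159) (nat_lit 147))))))) (PT.nd (nat_lit 1248) (PT.nd (nat_lit 624) (PT.nd (nat_lit 312) (PT.nd (nat_lit 156) (PT.nd (nat_lit 78) (PT.lf (nat_lit 24168) (nat_lit 6) (nat_lit 318) (nat_lit 4) (nat_lit 145) (nat_lit 159) (nat_lit 146)) (PT.lf (nat_lit 24168) (nat_lit 6) (nat_lit 318) (nat_lit 2) (nat_lit 146) (nat_lit 159) (nat_lit 145))) (PT.nd (nat_lit 78) (PT.lf (nat_lit 24244) (nat_lit 6) (nat_lit 319) (nat_lit 2) (nat_lit 147) (nat_lit 159) (nat_lit 144)) (PT.lf (nat_lit 24320) (nat_lit 6) (nat_lit 320) (nat_lit 2) (nat_lit 148) (nat_lit 159) (nat_lit 143)))) (PT.nd (nat_lit 156) (PT.nd (nat_lit 78) (PT.lf (nat_lit 24396) (nat_lit 6) (nat_lit 321) (nat_lit 2) (nat_lit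 149) (nat_lit 159) (nat_lit 142)) (PT.lf (nat_lit 24472) (nat_lit 6) (nat_lit 322) (nat_lit 2) (nat_lit 150) (nat_lit 159) (nat_lit 141))) (PT.nd (nat_lit 78) (PT.lf (nat_lit 23788) (nat_lit 6) (nat_lit 313) (nat_lit 2) (nat_lit 151) (nat_lit 159) (nat_lit 140)) (PT.lf (nat_lit 23028) (nat_lit 6) (nat_lit 303) (nat_lit 2) (nat_lit 152) (nat_lit 159) (nat_lit 139))))) (PT.nd (nat_lit 312) (PT.nd (nat_lit 156) (PT.nd (nat_lit 78) (PT.lf (nat_lit 22192) (nat_lit 6) (nat_lit 292) (nat_lit 2) (nat_lit 153) (nat_lit 159) (nat_lit 138)) (PT.lf (nat_lit 21280) (nat_lit 6) (nat_lit 280) (nat_lit 2) (nat_lit 154) (nat_lit 159) (nat_lit 137))) (PT.nd (nat_lit 78) (PT.lf (nat_lit 20292) (nat_lit 6) (nat_lit 267) (nat_lit 2) (nat_lit 155) (nat_lit 159) (nat_lit 136)) (PT.lf (nat_lit 19228) (nat_lit 6) (nat_lit 253) (nat_lit 2) (nat_lit 156) (nat_lit 159) (nat_lit 135)))) (PT.nd (nat_lit 156) (PT.nd (nat_lit 78) (PT.lf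 (nat_lit 18088) (nat_lit 6) (nat_lit 238) (nat_lit 2) (nat_lit 157) (nat_lit 159) (nat_lit 134)) (PT.lf (nat_lit 16872) (nat_lit 6) (nat_lit 222) (nat_lit 2) (nat_lit 158) (nat_lit 159) (nat_lit 133))) (PT.nd (nat_lit 78) (PT.lf (nat_lit 16264) (nat_lit 3) (nat_lit 214) (nat_lit 0) (nat_lit 159) (nat_lit 159) (nat_lit 132)) (PT.lf (nat_lit 15656) (nat_lit 6) (nat_lit 206) (nat_lit 0) (nat_lit 160) (nat_lit 159) (nat_lit 131)))))) (PT.nd (nat_lit 624) (PT.nd (nat_lit 312) (PT.nd (nat_lit 156) (PT.nd (nat_lit 78) (PT.lf (nat_lit 14972) (nat_lit 6) (nat_lit 197) (nat_lit 0) (nat_lit 161) (nat_lit 159) (nat_lit 130)) (PT.lf (nat_lit 14364) (nat_lit 6) (nat_lit 189) (nat_lit 0) (nat_lit 162) (nat_lit 159) (nat_lit 129))) (PT.nd (nat_lit 78) (PT.lf (nat_lit 13756) (nat_lit 6) (nat_lit 181) (nat_lit 0) (nat_lit 163) (nat_lit 159) (nat_lit 128)) (PT.lf (nat_lit 13224) (nat_lit 6) (nat_lit 174) (nat_lit 0) (nat_lit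 164) (nat_lit 159) (nat_lit 127)))) (PT.nd (nat_lit 156) (PT.nd (nat_lit 78) (PT.lf (nat_lit 12692) (nat_lit 6) (nat_lit 167) (nat_lit 0) (nat_lit 165) (nat_lit 159) (nat_lit 126)) (PT.lf (nat_lit 12160) (nat_lit 6) (nat_lit 160) (nat_lit 0) (nat_lit 166) (nat_lit 159) (nat_lit 125))) (PT.nd (nat_lit 78) (PT.lf (nat_lit 11628) (nat_lit 6) (nat_lit 153) (nat_lit 0) (nat_lit 167) (nat_lit 159) (nat_lit 124)) (PT.lf (nat_lit 11172) (nat_lit 6) (nat_lit 147) (nat_lit 0) (nat_lit 168) (nat_lit 159) (nat_lit 123))))) (PT.nd (nat_lit 43368) (PT.nd (nat_lit 43212) (PT.nd (nat_lit 43134) (PT.lf (nat_lit 10640) (nat_lit 6) (nat_lit 140) (nat_lit 0) (nat_lit 169) (nat_lit 159) (nat_lit 122)) (PT.lf (nat_lit 10260) (nat_lit 6) (nat_lit 135) (nat_lit 5) (nat_lit 121) (nat_lit 160) (nat_lit 169))) (PT.nd (nat_lit 78) (PT.lf (nat_lit 10716) (nat_lit 6) (nat_lit 141) (nat_lit 5) (nat_lit 122) (nat_lit 160) (nat_lit 168))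 (PT.lf (nat_lit 11248) (nat_lit 6) (nat_lit 148) (nat_lit 5) (nat_lit 123) (nat_lit 160) (nat_lit 167)))) (PT.nd (nat_lit 156) (PT.nd (nat_lit 78) (PT.lf (nat_lit 11704) (nat_lit 6) (nat_lit 154) (nat_lit 5) (nat_lit 124) (nat_lit 160) (nat_lit 166)) (PT.lf (nat_lit 12236) (nat_lit 6) (nat_lit 161) (nat_lit 5) (nat_lit 125) (nat_lit 160) (nat_lit 165))) (PT.nd (nat_lit 78) (PT.lf (nat_lit 12768) (nat_lit 6) (nat_lit 168) (nat_lit 5) (nat_lit 126) (nat_lit 160) (nat_lit 164)) (PT.lf (nat_lit 13300) (nat_lit 6) (nat_lit 175) (nat_lit 5) (nat_lit 127) (nat_lit 160) (nat_lit 163))))))))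
noncomputable def pc19 : PT := (PT.nd (nat_lit 2496) (PT.nd (nat_lit 1248) (PT.nd (nat_lit 624) (PT.nd (nat_lit 312) (PT.nd (nat_lit 156) (PT.nd (nat_lit 78) (PT.lf (nat_lit 13832) (nat_lit 6) (nat_lit 182) (nat_lit 5) (nat_lit 128) (nat_lit 160) (nat_lit 162)) (PT.lf (nat_lit 14440) (nat_lit 6) (nat_lit 190) (nat_lit 5) (nat_lit 129) (nat_lit 160) (nat_lit 161))) (PT.nd (nat_lit 78) (PT.lf (nat_lit 15048) (nat_lit 3) (nat_lit 198) (nat_lit 4) (nat_lit 130) (nat_lit 160) (nat_lit 160)) (PT.lf (nat_lit 15656) (nat_lit 6) (nat_lit 206) (nat_lit 4) (nat_lit 131) (nat_lit 160) (nat_lit 159)))) (PT.nd (nat_lit 156) (PT.nd (nat_lit 78) (PT.lf (nat_lit 16188) (nat_lit 6) (nat_lit 213) (nat_lit 4) (nat_lit 132) (nat_lit 160) (nat_lit 158)) (PT.lf (nat_lit 16796) (nat_lit 6) (nat_lit 221) (nat_lit 4) (nat_lit 133) (nat_lit 160) (nat_lit 157))) (PT.nd (nat_lit 78) (PT.lf (nat_lit 18012) (nat_lit 6) (nat_lit 237)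 (nat_lit 4) (nat_lit 134) (nat_lit 160) (nat_lit 156)) (PT.lf (nat_lit 19152) (nat_lit 6) (nat_lit 252) (nat_lit 4) (nat_lit 135) (nat_lit 160) (nat_lit 155))))) (PT.nd (nat_lit 312) (PT.nd (nat_lit 156) (PT.nd (nat_lit 78) (PT.lf (nat_lit 20216) (nat_lit 6) (nat_lit 266) (nat_lit 4) (nat_lit 136) (nat_lit 160) (nat_lit 154)) (PT.lf (nat_lit 21204) (nat_lit 6) (nat_lit 279) (nat_lit 4) (nat_lit 137) (nat_lit 160) (nat_lit 153))) (PT.nd (nat_lit 78) (PT.lf (nat_lit 22116) (nat_lit 6) (nat_lit 291) (nat_lit 4) (nat_lit 138) (nat_lit 160) (nat_lit 152)) (PT.lf (nat_lit 22952) (nat_lit 6) (nat_lit 302) (nat_lit 4) (nat_lit 139) (nat_lit 160) (nat_lit 151)))) (PT.nd (nat_lit 156) (PT.nd (nat_lit 78) (PT.lf (nat_lit 23712) (nat_lit 6) (nat_lit 312) (nat_lit 4) (nat_lit 140) (nat_lit 160) (nat_lit 150)) (PT.lf (nat_lit 23636) (nat_lit 6) (nat_lit 311) (nat_lit 4) (nat_lit 141) (nat_lit 160) (nat_lit 149))) (PT.nd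 (nat_lit 78) (PT.lf (nat_lit 23560) (nat_lit 6) (nat_lit 310) (nat_lit 4) (nat_lit 142) (nat_lit 160) (nat_lit 148)) (PT.lf (nat_lit 23484) (nat_lit 6) (nat_lit 309) (nat_lit 4) (nat_lit 143) (nat_lit 160) (nat_lit 147)))))) (PT.nd (nat_lit 624) (PT.nd (nat_lit 312) (PT.nd (nat_lit 156) (PT.nd (nat_lit 78) (PT.lf (nat_lit 23408) (nat_lit 6) (nat_lit 308) (nat_lit 4) (nat_lit 144) (nat_lit 160) (nat_lit 146)) (PT.lf (nat_lit 23332) (nat_lit 3) (nat_lit 307) (nat_lit 2) (nat_lit 145) (nat_lit 160) (nat_lit 145))) (PT.nd (nat_lit 78) (PT.lf (nat_lit 23408) (nat_lit 6) (nat_lit 308) (nat_lit 2) (nat_lit 146) (nat_lit 160) (nat_lit 144)) (PT.lf (nat_lit 23484) (nat_lit 6) (nat_lit 309) (nat_lit 2) (nat_lit 147) (nat_lit 160) (nat_lit 143)))) (PT.nd (nat_lit 156) (PT.nd (nat_lit 78) (PT.lf (nat_lit 23560) (nat_lit 6) (nat_lit 310) (nat_lit 2) (nat_lit 148) (nat_lit 160) (nat_lit 142)) (PT.lf (nat_lit 23636) (nat_lit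 6) (nat_lit 311) (nat_lit 2) (nat_lit 149) (nat_lit 160) (nat_lit 141))) (PT.nd (nat_lit 78) (PT.lf (nat_lit 23712) (nat_lit 6) (nat_lit 312) (nat_lit 2) (nat_lit 150) (nat_lit 160) (nat_lit 140)) (PT.lf (nat_lit 22952) (nat_lit 6) (nat_lit 302) (nat_lit 2) (nat_lit 151) (nat_lit 160) (nat_lit 139))))) (PT.nd (nat_lit 312) (PT.nd (nat_lit 156) (PT.nd (nat_lit 78) (PT.lf (nat_lit 22116) (nat_lit 6) (nat_lit 291) (nat_lit 2) (nat_lit 152) (nat_lit 160) (nat_lit 138)) (PT.lf (nat_lit 21204) (nat_lit 6) (nat_lit 279) (nat_lit 2) (nat_lit 153) (nat_lit 160) (nat_lit 137))) (PT.nd (nat_lit 78) (PT.lf (nat_lit 20216) (nat_lit 6) (nat_lit 266) (nat_lit 2) (nat_lit 154) (nat_lit 160) (nat_lit 136)) (PT.lf (nat_lit 19152) (nat_lit 6) (nat_lit 252) (nat_lit 2) (nat_lit 155) (nat_lit 160) (nat_lit 135)))) (PT.nd (nat_lit 156) (PT.nd (nat_lit 78) (PT.lf (nat_lit 18012) (nat_lit 6) (nat_lit 237) (nat_lit 2) (nat_lit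 156) (nat_lit 160) (nat_lit 134)) (PT.lf (nat_lit 16796) (nat_lit 6) (nat_lit 221) (nat_lit 2) (nat_lit 157) (nat_lit 160) (nat_lit 133))) (PT.nd (nat_lit 78) (PT.lf (nat_lit 16188) (nat_lit 6) (nat_lit 213) (nat_lit 2) (nat_lit 158) (nat_lit 160) (nat_lit 132)) (PT.lf (nat_lit 15656) (nat_lit 6) (nat_lit 206) (nat_lit 2) (nat_lit 159) (nat_lit 160) (nat_lit 131))))))) (PT.nd (nat_lit 44148) (PT.nd (nat_lit 624) (PT.nd (nat_lit 312) (PT.nd (nat_lit 156) (PT.nd (nat_lit 78) (PT.lf (nat_lit 15048) (nat_lit 3) (nat_lit 198) (nat_lit 0) (nat_lit 160) (nat_lit 160) (nat_lit 130)) (PT.lf (nat_lit 14440) (nat_lit 6) (nat_lit 190) (nat_lit 0) (nat_lit 161) (nat_lit 160) (nat_lit 129))) (PT.nd (nat_lit 78) (PT.lf (nat_lit 13832) (nat_lit 6) (nat_lit 182) (nat_lit 0) (nat_lit 162) (nat_lit 160) (nat_lit 128)) (PT.lf (nat_lit 13300) (nat_lit 6) (nat_lit 175) (nat_lit 0) (nat_lit 163) (nat_lit 160) (nat_lit 127))))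 (PT.nd (nat_lit 156) (PT.nd (nat_lit 78) (PT.lf (nat_lit 12768) (nat_lit 6) (nat_lit 168) (nat_lit 0) (nat_lit 164) (nat_lit 160) (nat_lit 126)) (PT.lf (nat_lit 12236) (nat_lit 6) (nat_lit 161) (nat_lit 0) (nat_lit 165) (nat_lit 160) (nat_lit 125))) (PT.nd (nat_lit 78) (PT.lf (nat_lit 11704) (nat_lit 6) (nat_lit 154) (nat_lit 0) (nat_lit 166) (nat_lit 160) (nat_lit 124)) (PT.lf (nat_lit 11248) (nat_lit 6) (nat_lit 148) (nat_lit 0) (nat_lit 167) (nat_lit 160) (nat_lit 123))))) (PT.nd (nat_lit 43212) (PT.nd (nat_lit 43056) (PT.nd (nat_lit 78) (PT.lf (nat_lit 10716) (nat_lit 6) (nat_lit 141) (nat_lit 0) (nat_lit 168) (nat_lit 160) (nat_lit 122)) (PT.lf (nat_lit 10260) (nat_lit 6) (nat_lit 135) (nat_lit 0) (nat_lit 169) (nat_lit 160) (nat_lit 121))) (PT.nd (nat_lit 78) (PT.lf (nat_lit 9500) (nat_lit 6) (nat_lit 125) (nat_lit 5) (nat_lit 119) (nat_lit 161) (nat_lit 170)) (PT.lf (nat_lit 9880) (nat_lit 6) (nat_lit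 130) (nat_lit 5) (nat_lit 120) (nat_lit 161) (nat_lit 169)))) (PT.nd (nat_lit 156) (PT.nd (nat_lit 78) (PT.lf (nat_lit 10336) (nat_lit 6) (nat_lit 136) (nat_lit 5) (nat_lit 121) (nat_lit 161) (nat_lit 168)) (PT.lf (nat_lit 10792) (nat_lit 6) (nat_lit 142) (nat_lit 5) (nat_lit 122) (nat_lit 161) (nat_lit 167))) (PT.nd (nat_lit 78) (PT.lf (nat_lit 11324) (nat_lit 6) (nat_lit 149) (nat_lit 5) (nat_lit 123) (nat_lit 161) (nat_lit 166)) (PT.lf (nat_lit 11780) (nat_lit 6) (nat_lit 155) (nat_lit 5) (nat_lit 124) (nat_lit 161) (nat_lit 165)))))) (PT.nd (nat_lit 624) (PT.nd (nat_lit 312) (PT.nd (nat_lit 156) (PT.nd (nat_lit 78) (PT.lf (nat_lit 12312) (nat_lit 6) (nat_lit 162) (nat_lit 5) (nat_lit 125) (nat_lit 161) (nat_lit 164)) (PT.lf (nat_lit 12844) (nat_lit 6) (nat_lit 169) (nat_lit 5) (nat_lit 126) (nat_lit 161) (nat_lit 163))) (PT.nd (nat_lit 78) (PT.lf (nat_lit 13376) (nat_lit 6) (nat_lit 176) (nat_lit 5)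 (nat_lit 127) (nat_lit 161) (nat_lit 162)) (PT.lf (nat_lit 13908) (nat_lit 3) (nat_lit 183) (nat_lit 4) (nat_lit 128) (nat_lit 161) (nat_lit 161)))) (PT.nd (nat_lit 156) (PT.nd (nat_lit 78) (PT.lf (nat_lit 14440) (nat_lit 6) (nat_lit 190) (nat_lit 4) (nat_lit 129) (nat_lit 161) (nat_lit 160)) (PT.lf (nat_lit 14972) (nat_lit 6) (nat_lit 197) (nat_lit 4) (nat_lit 130) (nat_lit 161) (nat_lit 159))) (PT.nd (nat_lit 78) (PT.lf (nat_lit 15580) (nat_lit 6) (nat_lit 205) (nat_lit 4) (nat_lit 131) (nat_lit 161) (nat_lit 158)) (PT.lf (nat_lit 16112) (nat_lit 6) (nat_lit 212) (nat_lit 4) (nat_lit 132) (nat_lit 161) (nat_lit 157))))) (PT.nd (nat_lit 312) (PT.nd (nat_lit 156) (PT.nd (nat_lit 78) (PT.lf (nat_lit 16720) (nat_lit 6) (nat_lit 220) (nat_lit 4) (nat_lit 133) (nat_lit 161) (nat_lit 156)) (PT.lf (nat_lit 17936) (nat_lit 6) (nat_lit 236) (nat_lit 4) (nat_lit 134) (nat_lit 161) (nat_lit 155))) (PT.nd (nat_lit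 78) (PT.lf (nat_lit 19076) (nat_lit 6) (nat_lit 251) (nat_lit 4) (nat_lit 135) (nat_lit 161) (nat_lit 154)) (PT.lf (nat_lit 20140) (nat_lit 6) (nat_lit 265) (nat_lit 4) (nat_lit 136) (nat_lit 161) (nat_lit 153)))) (PT.nd (nat_lit 156) (PT.nd (nat_lit 78) (PT.lf (nat_lit 21128) (nat_lit 6) (nat_lit 278) (nat_lit 4) (nat_lit 137) (nat_lit 161) (nat_lit 152)) (PT.lf (nat_lit 22040) (nat_lit 6) (nat_lit 290) (nat_lit 4) (nat_lit 138) (nat_lit 161) (nat_lit 151))) (PT.nd (nat_lit 78) (PT.lf (nat_lit 22876) (nat_lit 6) (nat_lit 301) (nat_lit 4) (nat_lit 139) (nat_lit 161) (nat_lit 150)) (PT.lf (nat_lit 22800) (nat_lit 6) (nat_lit 300) (nat_lit 4) (nat_lit 140) (nat_lit 161) (nat_lit 149))))))))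
noncomputable def pc20 : PT := (PT.nd (nat_lit 45162) (PT.nd (nat_lit 1170) (PT.nd (nat_lit 546) (PT.nd (nat_lit 234) (PT.nd (nat_lit 78) (PT.lf (nat_lit 22724) (nat_lit 6) (nat_lit 299) (nat_lit 4) (nat_lit 141) (nat_lit 161) (nat_lit 148)) (PT.nd (nat_lit 78) (PT.lf (nat_lit 22648) (nat_lit 6) (nat_lit 298) (nat_lit 4) (nat_lit 142) (nat_lit 161) (nat_lit 147)) (PT.lf (nat_lit 22572) (nat_lit 6) (nat_lit 297) (nat_lit 4) (nat_lit 143) (nat_lit 161) (nat_lit 146)))) (PT.nd (nat_lit 156) (PT.nd (nat_lit 78) (PT.lf (nat_lit 22496) (nat_lit 6) (nat_lit 296) (nat_lit 4) (nat_lit 144) (nat_lit 161) (nat_lit 145)) (PT.lf (nat_lit 22496) (nat_lit 6) (nat_lit 296) (nat_lit 2) (nat_lit 145) (nat_lit 161) (nat_lit 144))) (PT.nd (nat_lit 78) (PT.lf (nat_lit 22572) (nat_lit 6) (nat_lit 297) (nat_lit 2) (nat_lit 146) (nat_lit 161) (nat_lit 143)) (PT.lf (nat_lit 22648) (nat_lit 6) (nat_lit 298) (nat_lit 2) (nat_lit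 147) (nat_lit 161) (nat_lit 142))))) (PT.nd (nat_lit 312) (PT.nd (nat_lit 156) (PT.nd (nat_lit 78) (PT.lf (nat_lit 22724) (nat_lit 6) (nat_lit 299) (nat_lit 2) (nat_lit 148) (nat_lit 161) (nat_lit 141)) (PT.lf (nat_lit 22800) (nat_lit 6) (nat_lit 300) (nat_lit 2) (nat_lit 149) (nat_lit 161) (nat_lit 140))) (PT.nd (nat_lit 78) (PT.lf (nat_lit 22876) (nat_lit 6) (nat_lit 301) (nat_lit 2) (nat_lit 150) (nat_lit 161) (nat_lit 139)) (PT.lf (nat_lit 22040) (nat_lit 6) (nat_lit 290) (nat_lit 2) (nat_lit 151) (nat_lit 161) (nat_lit 138)))) (PT.nd (nat_lit 156) (PT.nd (nat_lit 78) (PT.lf (nat_lit 21128) (nat_lit 6) (nat_lit 278) (nat_lit 2) (nat_lit 152) (nat_lit 161) (nat_lit 137)) (PT.lf (nat_lit 20140) (nat_lit 6) (nat_lit 265) (nat_lit 2) (nat_lit 153) (nat_lit 161) (nat_lit 136))) (PT.nd (nat_lit 78) (PT.lf (nat_lit 19076) (nat_lit 6) (nat_lit 251) (nat_lit 2) (nat_lit 154) (nat_lit 161) (nat_lit 135)) (PT.lf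 (nat_lit 17936) (nat_lit 6) (nat_lit 236) (nat_lit 2) (nat_lit 155) (nat_lit 161) (nat_lit 134)))))) (PT.nd (nat_lit 624) (PT.nd (nat_lit 312) (PT.nd (nat_lit 156) (PT.nd (nat_lit 78) (PT.lf (nat_lit 16720) (nat_lit 6) (nat_lit 220) (nat_lit 2) (nat_lit 156) (nat_lit 161) (nat_lit 133)) (PT.lf (nat_lit 16112) (nat_lit 6) (nat_lit 212) (nat_lit 2) (nat_lit 157) (nat_lit 161) (nat_lit 132))) (PT.nd (nat_lit 78) (PT.lf (nat_lit 15580) (nat_lit 6) (nat_lit 205) (nat_lit 2) (nat_lit 158) (nat_lit 161) (nat_lit 131)) (PT.lf (nat_lit 14972) (nat_lit 6) (nat_lit 197) (nat_lit 2) (nat_lit 159) (nat_lit 161) (nat_lit 130)))) (PT.nd (nat_lit 156) (PT.nd (nat_lit 78) (PT.lf (nat_lit 14440) (nat_lit 6) (nat_lit 190) (nat_lit 2) (nat_lit 160) (nat_lit 161) (nat_lit 129)) (PT.lf (nat_lit 13908) (nat_lit 3) (nat_lit 183) (nat_lit 0) (nat_lit 161) (nat_lit 161) (nat_lit 128))) (PT.nd (nat_lit 78) (PT.lf (nat_lit 13376)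 (nat_lit 6) (nat_lit 176) (nat_lit 0) (nat_lit 162) (nat_lit 161) (nat_lit 127)) (PT.lf (nat_lit 12844) (nat_lit 6) (nat_lit 169) (nat_lit 0) (nat_lit 163) (nat_lit 161) (nat_lit 126))))) (PT.nd (nat_lit 312) (PT.nd (nat_lit 156) (PT.nd (nat_lit 78) (PT.lf (nat_lit 12312) (nat_lit 6) (nat_lit 162) (nat_lit 0) (nat_lit 164) (nat_lit 161) (nat_lit 125)) (PT.lf (nat_lit 11780) (nat_lit 6) (nat_lit 155) (nat_lit 0) (nat_lit 165) (nat_lit 161) (nat_lit 124))) (PT.nd (nat_lit 78) (PT.lf (nat_lit 11324) (nat_lit 6) (nat_lit 149) (nat_lit 0) (nat_lit 166) (nat_lit 161) (nat_lit 123)) (PT.lf (nat_lit 10792) (nat_lit 6) (nat_lit 142) (nat_lit 0) (nat_lit 167) (nat_lit 161) (nat_lit 122)))) (PT.nd (nat_lit 156) (PT.nd (nat_lit 78) (PT.lf (nat_lit 10336) (nat_lit 6) (nat_lit 136) (nat_lit 0) (nat_lit 168) (nat_lit 161) (nat_lit 121)) (PT.lf (nat_lit 9880) (nat_lit 6) (nat_lit 130) (nat_lit 0) (nat_lit 169) (nat_lit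 161) (nat_lit 120))) (PT.nd (nat_lit 42822) (PT.lf (nat_lit 9500) (nat_lit 6) (nat_lit 125) (nat_lit 0) (nat_lit 170) (nat_lit 161) (nat_lit 119)) (PT.lf (nat_lit 9120) (nat_lit 6) (nat_lit 120) (nat_lit 5) (nat_lit 118) (nat_lit 162) (nat_lit 170))))))) (PT.nd (nat_lit 1248) (PT.nd (nat_lit 624) (PT.nd (nat_lit 312) (PT.nd (nat_lit 156) (PT.nd (nat_lit 78) (PT.lf (nat_lit 9576) (nat_lit 6) (nat_lit 126) (nat_lit 5) (nat_lit 119) (nat_lit 162) (nat_lit 169)) (PT.lf (nat_lit 9956) (nat_lit 6) (nat_lit 131) (nat_lit 5) (nat_lit 120) (nat_lit 162) (nat_lit 168))) (PT.nd (nat_lit 78) (PT.lf (nat_lit 10412) (nat_lit 6) (nat_lit 137) (nat_lit 5) (nat_lit 121) (nat_lit 162) (nat_lit 167)) (PT.lf (nat_lit 10868) (nat_lit 6) (nat_lit 143) (nat_lit 5) (nat_lit 122) (nat_lit 162) (nat_lit 166)))) (PT.nd (nat_lit 156) (PT.nd (nat_lit 78) (PT.lf (nat_lit 11400) (nat_lit 6) (nat_lit 150) (nat_lit 5) (nat_lit 123) (nat_lit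 162) (nat_lit 165)) (PT.lf (nat_lit 11856) (nat_lit 6) (nat_lit 156) (nat_lit 5) (nat_lit 124) (nat_lit 162) (nat_lit 164))) (PT.nd (nat_lit 78) (PT.lf (nat_lit 12388) (nat_lit 6) (nat_lit 163) (nat_lit 5) (nat_lit 125) (nat_lit 162) (nat_lit 163)) (PT.lf (nat_lit 12920) (nat_lit 3) (nat_lit 170) (nat_lit 4) (nat_lit 126) (nat_lit 162) (nat_lit 162))))) (PT.nd (nat_lit 312) (PT.nd (nat_lit 156) (PT.nd (nat_lit 78) (PT.lf (nat_lit 13376) (nat_lit 6) (nat_lit 176) (nat_lit 4) (nat_lit 127) (nat_lit 162) (nat_lit 161)) (PT.lf (nat_lit 13832) (nat_lit 6) (nat_lit 182) (nat_lit 4) (nat_lit 128) (nat_lit 162) (nat_lit 160))) (PT.nd (nat_lit 78) (PT.lf (nat_lit 14364) (nat_lit 6) (nat_lit 189) (nat_lit 4) (nat_lit 129) (nat_lit 162) (nat_lit 159)) (PT.lf (nat_lit 14896) (nat_lit 6) (nat_lit 196) (nat_lit 4) (nat_lit 130) (nat_lit 162) (nat_lit 158)))) (PT.nd (nat_lit 156) (PT.nd (nat_lit 78) (PT.lf (nat_lit 15504)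 (nat_lit 6) (nat_lit 204) (nat_lit 4) (nat_lit 131) (nat_lit 162) (nat_lit 157)) (PT.lf (nat_lit 16036) (nat_lit 6) (nat_lit 211) (nat_lit 4) (nat_lit 132) (nat_lit 162) (nat_lit 156))) (PT.nd (nat_lit 78) (PT.lf (nat_lit 16644) (nat_lit 6) (nat_lit 219) (nat_lit 4) (nat_lit 133) (nat_lit 162) (nat_lit 155)) (PT.lf (nat_lit 17860) (nat_lit 6) (nat_lit 235) (nat_lit 4) (nat_lit 134) (nat_lit 162) (nat_lit 154)))))) (PT.nd (nat_lit 624) (PT.nd (nat_lit 312) (PT.nd (nat_lit 156) (PT.nd (nat_lit 78) (PT.lf (nat_lit 19000) (nat_lit 6) (nat_lit 250) (nat_lit 4) (nat_lit 135) (nat_lit 162) (nat_lit 153)) (PT.lf (nat_lit 20064) (nat_lit 6) (nat_lit 264) (nat_lit 4) (nat_lit 136) (nat_lit 162) (nat_lit 152))) (PT.nd (nat_lit 78) (PT.lf (nat_lit 21052) (nat_lit 6) (nat_lit 277) (nat_lit 4) (nat_lit 137) (nat_lit 162) (nat_lit 151)) (PT.lf (nat_lit 21964) (nat_lit 6) (nat_lit 289) (nat_lit 4) (nat_lit 138) (nat_lit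 162) (nat_lit 150)))) (PT.nd (nat_lit 156) (PT.nd (nat_lit 78) (PT.lf (nat_lit 21888) (nat_lit 6) (nat_lit 288) (nat_lit 4) (nat_lit 139) (nat_lit 162) (nat_lit 149)) (PT.lf (nat_lit 21812) (nat_lit 6) (nat_lit 287) (nat_lit 4) (nat_lit 140) (nat_lit 162) (nat_lit 148))) (PT.nd (nat_lit 78) (PT.lf (nat_lit 21736) (nat_lit 6) (nat_lit 286) (nat_lit 4) (nat_lit 141) (nat_lit 162) (nat_lit 147)) (PT.lf (nat_lit 21660) (nat_lit 6) (nat_lit 285) (nat_lit 4) (nat_lit 142) (nat_lit 162) (nat_lit 146))))) (PT.nd (nat_lit 312) (PT.nd (nat_lit 156) (PT.nd (nat_lit 78) (PT.lf (nat_lit 21584) (nat_lit 6) (nat_lit 284) (nat_lit 4) (nat_lit 143) (nat_lit 162) (nat_lit 145)) (PT.lf (nat_lit 21508) (nat_lit 3) (nat_lit 283) (nat_lit 2) (nat_lit 144) (nat_lit 162) (nat_lit 144))) (PT.nd (nat_lit 78) (PT.lf (nat_lit 21584) (nat_lit 6) (nat_lit 284) (nat_lit 2) (nat_lit 145) (nat_lit 162) (nat_lit 143)) (PT.lf (nat_lit 21660)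 (nat_lit 6) (nat_lit 285) (nat_lit 2) (nat_lit 146) (nat_lit 162) (nat_lit 142)))) (PT.nd (nat_lit 156) (PT.nd (nat_lit 78) (PT.lf (nat_lit 21736) (nat_lit 6) (nat_lit 286) (nat_lit 2) (nat_lit 147) (nat_lit 162) (nat_lit 141)) (PT.lf (nat_lit 21812) (nat_lit 6) (nat_lit 287) (nat_lit 2) (nat_lit 148) (nat_lit 162) (nat_lit 140))) (PT.nd (nat_lit 78) (PT.lf (nat_lit 21888) (nat_lit 6) (nat_lit 288) (nat_lit 2) (nat_lit 149) (nat_lit 162) (nat_lit 139)) (PT.lf (nat_lit 21964) (nat_lit 6) (nat_lit 289) (nat_lit 2) (nat_lit 150) (nat_lit 162) (nat_lit 138))))))))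
noncomputable def pc21 : PT := (PT.nd (nat_lit 45084) (PT.nd (nat_lit 1248) (PT.nd (nat_lit 624) (PT.nd (nat_lit 312) (PT.nd (nat_lit 156) (PT.nd (nat_lit 78) (PT.lf (nat_lit 21052) (nat_lit 6) (nat_lit 277) (nat_lit 2) (nat_lit 151) (nat_lit 162) (nat_lit 137)) (PT.lf (nat_lit 20064) (nat_lit 6) (nat_lit 264) (nat_lit 2) (nat_lit 152) (nat_lit 162) (nat_lit 136))) (PT.nd (nat_lit 78) (PT.lf (nat_lit 19000) (nat_lit 6) (nat_lit 250) (nat_lit 2) (nat_lit 153) (nat_lit 162) (nat_lit 135)) (PT.lf (nat_lit 17860) (nat_lit 6) (nat_lit 235) (nat_lit 2) (nat_lit 154) (nat_lit 162) (nat_lit 134)))) (PT.nd (nat_lit 156) (PT.nd (nat_lit 78) (PT.lf (nat_lit 16644) (nat_lit 6) (nat_lit 219) (nat_lit 2) (nat_lit 155) (nat_lit 162) (nat_lit 133)) (PT.lf (nat_lit 16036) (nat_lit 6) (nat_lit 211) (nat_lit 2) (nat_lit 156) (nat_lit 162) (nat_lit 132))) (PT.nd (nat_lit 78) (PT.lf (nat_lit 15504) (nat_lit 6) (nat_lit 204)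 (nat_lit 2) (nat_lit 157) (nat_lit 162) (nat_lit 131)) (PT.lf (nat_lit 14896) (nat_lit 6) (nat_lit 196) (nat_lit 2) (nat_lit 158) (nat_lit 162) (nat_lit 130))))) (PT.nd (nat_lit 312) (PT.nd (nat_lit 156) (PT.nd (nat_lit 78) (PT.lf (nat_lit 14364) (nat_lit 6) (nat_lit 189) (nat_lit 2) (nat_lit 159) (nat_lit 162) (nat_lit 129)) (PT.lf (nat_lit 13832) (nat_lit 6) (nat_lit 182) (nat_lit 2) (nat_lit 160) (nat_lit 162) (nat_lit 128))) (PT.nd (nat_lit 78) (PT.lf (nat_lit 13376) (nat_lit 6) (nat_lit 176) (nat_lit 2) (nat_lit 161) (nat_lit 162) (nat_lit 127)) (PT.lf (nat_lit 12920) (nat_lit 3) (nat_lit 170) (nat_lit 0) (nat_lit 162) (nat_lit 162) (nat_lit 126)))) (PT.nd (nat_lit 156) (PT.nd (nat_lit 78) (PT.lf (nat_lit 12388) (nat_lit 6) (nat_lit 163) (nat_lit 0) (nat_lit 163) (nat_lit 162) (nat_lit 125)) (PT.lf (nat_lit 11856) (nat_lit 6) (nat_lit 156) (nat_lit 0) (nat_lit 164) (nat_lit 162) (nat_lit 124))) (PT.nd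 (nat_lit 78) (PT.lf (nat_lit 11400) (nat_lit 6) (nat_lit 150) (nat_lit 0) (nat_lit 165) (nat_lit 162) (nat_lit 123)) (PT.lf (nat_lit 10868) (nat_lit 6) (nat_lit 143) (nat_lit 0) (nat_lit 166) (nat_lit 162) (nat_lit 122)))))) (PT.nd (nat_lit 43212) (PT.nd (nat_lit 42900) (PT.nd (nat_lit 156) (PT.nd (nat_lit 78) (PT.lf (nat_lit 10412) (nat_lit 6) (nat_lit 137) (nat_lit 0) (nat_lit 167) (nat_lit 162) (nat_lit 121)) (PT.lf (nat_lit 9956) (nat_lit 6) (nat_lit 131) (nat_lit 0) (nat_lit 168) (nat_lit 162) (nat_lit 120))) (PT.nd (nat_lit 78) (PT.lf (nat_lit 9576) (nat_lit 6) (nat_lit 126) (nat_lit 0) (nat_lit 169) (nat_lit 162) (nat_lit 119)) (PT.lf (nat_lit 9120) (nat_lit 6) (nat_lit 120) (nat_lit 0) (nat_lit 170) (nat_lit 162) (nat_lit 118)))) (PT.nd (nat_lit 156) (PT.nd (nat_lit 78) (PT.lf (nat_lit 8436) (nat_lit 6) (nat_lit 111) (nat_lit 5) (nat_lit 116) (nat_lit 163) (nat_lit 171)) (PT.lf (nat_lit 8816) (nat_lit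 6) (nat_lit 116) (nat_lit 5) (nat_lit 117) (nat_lit 163) (nat_lit 170))) (PT.nd (nat_lit 78) (PT.lf (nat_lit 9196) (nat_lit 6) (nat_lit 121) (nat_lit 5) (nat_lit 118) (nat_lit 163) (nat_lit 169)) (PT.lf (nat_lit 9652) (nat_lit 6) (nat_lit 127) (nat_lit 5) (nat_lit 119) (nat_lit 163) (nat_lit 168))))) (PT.nd (nat_lit 312) (PT.nd (nat_lit 156) (PT.nd (nat_lit 78) (PT.lf (nat_lit 10032) (nat_lit 6) (nat_lit 132) (nat_lit 5) (nat_lit 120) (nat_lit 163) (nat_lit 167)) (PT.lf (nat_lit 10488) (nat_lit 6) (nat_lit 138) (nat_lit 5) (nat_lit 121) (nat_lit 163) (nat_lit 166))) (PT.nd (nat_lit 78) (PT.lf (nat_lit 10944) (nat_lit 6) (nat_lit 144) (nat_lit 5) (nat_lit 122) (nat_lit 163) (nat_lit 165)) (PT.lf (nat_lit 11476) (nat_lit 6) (nat_lit 151) (nat_lit 5) (nat_lit 123) (nat_lit 163) (nat_lit 164)))) (PT.nd (nat_lit 156) (PT.nd (nat_lit 78) (PT.lf (nat_lit 11932) (nat_lit 3) (nat_lit 157) (nat_lit 4) (nat_lit 124)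 (nat_lit 163) (nat_lit 163)) (PT.lf (nat_lit 12388) (nat_lit 6) (nat_lit 163) (nat_lit 4) (nat_lit 125) (nat_lit 163) (nat_lit 162))) (PT.nd (nat_lit 78) (PT.lf (nat_lit 12844) (nat_lit 6) (nat_lit 169) (nat_lit 4) (nat_lit 126) (nat_lit 163) (nat_lit 161)) (PT.lf (nat_lit 13300) (nat_lit 6) (nat_lit 175) (nat_lit 4) (nat_lit 127) (nat_lit 163) (nat_lit 160))))))) (PT.nd (nat_lit 1248) (PT.nd (nat_lit 624) (PT.nd (nat_lit 312) (PT.nd (nat_lit 156) (PT.nd (nat_lit 78) (PT.lf (nat_lit 13756) (nat_lit 6) (nat_lit 181) (nat_lit 4) (nat_lit 128) (nat_lit 163) (nat_lit 159)) (PT.lf (nat_lit 14288) (nat_lit 6) (nat_lit 188) (nat_lit 4) (nat_lit 129) (nat_lit 163) (nat_lit 158))) (PT.nd (nat_lit 78) (PT.lf (nat_lit 14820) (nat_lit 6) (nat_lit 195) (nat_lit 4) (nat_lit 130) (nat_lit 163) (nat_lit 157)) (PT.lf (nat_lit 15428) (nat_lit 6) (nat_lit 203) (nat_lit 4) (nat_lit 131) (nat_lit 163) (nat_lit 156)))) (PT.nd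 (nat_lit 156) (PT.nd (nat_lit 78) (PT.lf (nat_lit 15960) (nat_lit 6) (nat_lit 210) (nat_lit 4) (nat_lit 132) (nat_lit 163) (nat_lit 155)) (PT.lf (nat_lit 16568) (nat_lit 6) (nat_lit 218) (nat_lit 4) (nat_lit 133) (nat_lit 163) (nat_lit 154))) (PT.nd (nat_lit 78) (PT.lf (nat_lit 17784) (nat_lit 6) (nat_lit 234) (nat_lit 4) (nat_lit 134) (nat_lit 163) (nat_lit 153)) (PT.lf (nat_lit 18924) (nat_lit 6) (nat_lit 249) (nat_lit 4) (nat_lit 135) (nat_lit 163) (nat_lit 152))))) (PT.nd (nat_lit 312) (PT.nd (nat_lit 156) (PT.nd (nat_lit 78) (PT.lf (nat_lit 19988) (nat_lit 6) (nat_lit 263) (nat_lit 4) (nat_lit 136) (nat_lit 163) (nat_lit 151)) (PT.lf (nat_lit 20976) (nat_lit 6) (nat_lit 276) (nat_lit 4) (nat_lit 137) (nat_lit 163) (nat_lit 150))) (PT.nd (nat_lit 78) (PT.lf (nat_lit 20900) (nat_lit 6) (nat_lit 275) (nat_lit 4) (nat_lit 138) (nat_lit 163) (nat_lit 149)) (PT.lf (nat_lit 20824) (nat_lit 6) (nat_lit 274)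 (nat_lit 4) (nat_lit 139) (nat_lit 163) (nat_lit 148)))) (PT.nd (nat_lit 156) (PT.nd (nat_lit 78) (PT.lf (nat_lit 20748) (nat_lit 6) (nat_lit 273) (nat_lit 4) (nat_lit 140) (nat_lit 163) (nat_lit 147)) (PT.lf (nat_lit 20672) (nat_lit 6) (nat_lit 272) (nat_lit 4) (nat_lit 141) (nat_lit 163) (nat_lit 146))) (PT.nd (nat_lit 78) (PT.lf (nat_lit 20596) (nat_lit 6) (nat_lit 271) (nat_lit 4) (nat_lit 142) (nat_lit 163) (nat_lit 145)) (PT.lf (nat_lit 20520) (nat_lit 6) (nat_lit 270) (nat_lit 4) (nat_lit 143) (nat_lit 163) (nat_lit 144)))))) (PT.nd (nat_lit 624) (PT.nd (nat_lit 312) (PT.nd (nat_lit 156) (PT.nd (nat_lit 78) (PT.lf (nat_lit 20520) (nat_lit 6) (nat_lit 270) (nat_lit 2) (nat_lit 144) (nat_lit 163) (nat_lit 143)) (PT.lf (nat_lit 20596) (nat_lit 6) (nat_lit 271) (nat_lit 2) (nat_lit 145) (nat_lit 163) (nat_lit 142))) (PT.nd (nat_lit 78) (PT.lf (nat_lit 20672) (nat_lit 6) (nat_lit 272) (nat_lit 2) (nat_lit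 146) (nat_lit 163) (nat_lit 141)) (PT.lf (nat_lit 20748) (nat_lit 6) (nat_lit 273) (nat_lit 2) (nat_lit 147) (nat_lit 163) (nat_lit 140)))) (PT.nd (nat_lit 156) (PT.nd (nat_lit 78) (PT.lf (nat_lit 20824) (nat_lit 6) (nat_lit 274) (nat_lit 2) (nat_lit 148) (nat_lit 163) (nat_lit 139)) (PT.lf (nat_lit 20900) (nat_lit 6) (nat_lit 275) (nat_lit 2) (nat_lit 149) (nat_lit 163) (nat_lit 138))) (PT.nd (nat_lit 78) (PT.lf (nat_lit 20976) (nat_lit 6) (nat_lit 276) (nat_lit 2) (nat_lit 150) (nat_lit 163) (nat_lit 137)) (PT.lf (nat_lit 19988) (nat_lit 6) (nat_lit 263) (nat_lit 2) (nat_lit 151) (nat_lit 163) (nat_lit 136))))) (PT.nd (nat_lit 312) (PT.nd (nat_lit 156) (PT.nd (nat_lit 78) (PT.lf (nat_lit 18924) (nat_lit 6) (nat_lit 249) (nat_lit 2) (nat_lit 152) (nat_lit 163) (nat_lit 135)) (PT.lf (nat_lit 17784) (nat_lit 6) (nat_lit 234) (nat_lit 2) (nat_lit 153) (nat_lit 163) (nat_lit 134))) (PT.nd (nat_lit 78) (PT.lf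 (nat_lit 16568) (nat_lit 6) (nat_lit 218) (nat_lit 2) (nat_lit 154) (nat_lit 163) (nat_lit 133)) (PT.lf (nat_lit 15960) (nat_lit 6) (nat_lit 210) (nat_lit 2) (nat_lit 155) (nat_lit 163) (nat_lit 132)))) (PT.nd (nat_lit 156) (PT.nd (nat_lit 78) (PT.lf (nat_lit 15428) (nat_lit 6) (nat_lit 203) (nat_lit 2) (nat_lit 156) (nat_lit 163) (nat_lit 131)) (PT.lf (nat_lit 14820) (nat_lit 6) (nat_lit 195) (nat_lit 2) (nat_lit 157) (nat_lit 163) (nat_lit 130))) (PT.nd (nat_lit 78) (PT.lf (nat_lit 14288) (nat_lit 6) (nat_lit 188) (nat_lit 2) (nat_lit 158) (nat_lit 163) (nat_lit 129)) (PT.lf (nat_lit 13756) (nat_lit 6) (nat_lit 181) (nat_lit 2) (nat_lit 159) (nat_lit 163) (nat_lit 128))))))))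
noncomputable def pc22 : PT := (PT.nd (nat_lit 44928) (PT.nd (nat_lit 43680) (PT.nd (nat_lit 624) (PT.nd (nat_lit 312) (PT.nd (nat_lit 156) (PT.nd (nat_lit 78) (PT.lf (nat_lit 13300) (nat_lit 6) (nat_lit 175) (nat_lit 2) (nat_lit 160) (nat_lit 163) (nat_lit 127)) (PT.lf (nat_lit 12844) (nat_lit 6) (nat_lit 169) (nat_lit 2) (nat_lit 161) (nat_lit 163) (nat_lit 126))) (PT.nd (nat_lit 78) (PT.lf (nat_lit 12388) (nat_lit 6) (nat_lit 163) (nat_lit 2) (nat_lit 162) (nat_lit 163) (nat_lit 125)) (PT.lf (nat_lit 11932) (nat_lit 3) (nat_lit 157) (nat_lit 0) (nat_lit 163) (nat_lit 163) (nat_lit 124)))) (PT.nd (nat_lit 156) (PT.nd (nat_lit 78) (PT.lf (nat_lit 11476) (nat_lit 6) (nat_lit 151) (nat_lit 0) (nat_lit 164) (nat_lit 163) (nat_lit 123)) (PT.lf (nat_lit 10944) (nat_lit 6) (nat_lit 144) (nat_lit 0) (nat_lit 165) (nat_lit 163) (nat_lit 122))) (PT.nd (nat_lit 78) (PT.lf (nat_lit 10488) (nat_lit 6) (nat_lit 138)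 (nat_lit 0) (nat_lit 166) (nat_lit 163) (nat_lit 121)) (PT.lf (nat_lit 10032) (nat_lit 6) (nat_lit 132) (nat_lit 0) (nat_lit 167) (nat_lit 163) (nat_lit 120))))) (PT.nd (nat_lit 42744) (PT.nd (nat_lit 156) (PT.nd (nat_lit 78) (PT.lf (nat_lit 9652) (nat_lit 6) (nat_lit 127) (nat_lit 0) (nat_lit 168) (nat_lit 163) (nat_lit 119)) (PT.lf (nat_lit 9196) (nat_lit 6) (nat_lit 121) (nat_lit 0) (nat_lit 169) (nat_lit 163) (nat_lit 118))) (PT.nd (nat_lit 78) (PT.lf (nat_lit 8816) (nat_lit 6) (nat_lit 116) (nat_lit 0) (nat_lit 170) (nat_lit 163) (nat_lit 117)) (PT.lf (nat_lit 8436) (nat_lit 6) (nat_lit 111) (nat_lit 0) (nat_lit 171) (nat_lit 163) (nat_lit 116)))) (PT.nd (nat_lit 156) (PT.nd (nat_lit 78) (PT.lf (nat_lit 8132) (nat_lit 6) (nat_lit 107) (nat_lit 5) (nat_lit 115) (nat_lit 164) (nat_lit 171)) (PT.lf (nat_lit 8512) (nat_lit 6) (nat_lit 112) (nat_lit 5) (nat_lit 116) (nat_lit 164) (nat_lit 170))) (PT.nd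 (nat_lit 78) (PT.lf (nat_lit 8892) (nat_lit 6) (nat_lit 117) (nat_lit 5) (nat_lit 117) (nat_lit 164) (nat_lit 169)) (PT.lf (nat_lit 9272) (nat_lit 6) (nat_lit 122) (nat_lit 5) (nat_lit 118) (nat_lit 164) (nat_lit 168)))))) (PT.nd (nat_lit 624) (PT.nd (nat_lit 312) (PT.nd (nat_lit 156) (PT.nd (nat_lit 78) (PT.lf (nat_lit 9728) (nat_lit 6) (nat_lit 128) (nat_lit 5) (nat_lit 119) (nat_lit 164) (nat_lit 167)) (PT.lf (nat_lit 10108) (nat_lit 6) (nat_lit 133) (nat_lit 5) (nat_lit 120) (nat_lit 164) (nat_lit 166))) (PT.nd (nat_lit 78) (PT.lf (nat_lit 10564) (nat_lit 6) (nat_lit 139) (nat_lit 5) (nat_lit 121) (nat_lit 164) (nat_lit 165)) (PT.lf (nat_lit 11020) (nat_lit 3) (nat_lit 145) (nat_lit 4) (nat_lit 122) (nat_lit 164) (nat_lit 164)))) (PT.nd (nat_lit 156) (PT.nd (nat_lit 78) (PT.lf (nat_lit 11476) (nat_lit 6) (nat_lit 151) (nat_lit 4) (nat_lit 123) (nat_lit 164) (nat_lit 163)) (PT.lf (nat_lit 11856) (nat_lit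 6) (nat_lit 156) (nat_lit 4) (nat_lit 124) (nat_lit 164) (nat_lit 162))) (PT.nd (nat_lit 78) (PT.lf (nat_lit 12312) (nat_lit 6) (nat_lit 162) (nat_lit 4) (nat_lit 125) (nat_lit 164) (nat_lit 161)) (PT.lf (nat_lit 12768) (nat_lit 6) (nat_lit 168) (nat_lit 4) (nat_lit 126) (nat_lit 164) (nat_lit 160))))) (PT.nd (nat_lit 312) (PT.nd (nat_lit 156) (PT.nd (nat_lit 78) (PT.lf (nat_lit 13224) (nat_lit 6) (nat_lit 174) (nat_lit 4) (nat_lit 127) (nat_lit 164) (nat_lit 159)) (PT.lf (nat_lit 13680) (nat_lit 6) (nat_lit 180) (nat_lit 4) (nat_lit 128) (nat_lit 164) (nat_lit 158))) (PT.nd (nat_lit 78) (PT.lf (nat_lit 14212) (nat_lit 6) (nat_lit 187) (nat_lit 4) (nat_lit 129) (nat_lit 164) (nat_lit 157)) (PT.lf (nat_lit 14744) (nat_lit 6) (nat_lit 194) (nat_lit 4) (nat_lit 130) (nat_lit 164) (nat_lit 156)))) (PT.nd (nat_lit 156) (PT.nd (nat_lit 78) (PT.lf (nat_lit 15352) (nat_lit 6) (nat_lit 202) (nat_lit 4) (nat_lit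 131) (nat_lit 164) (nat_lit 155)) (PT.lf (nat_lit 15884) (nat_lit 6) (nat_lit 209) (nat_lit 4) (nat_lit 132) (nat_lit 164) (nat_lit 154))) (PT.nd (nat_lit 78) (PT.lf (nat_lit 16492) (nat_lit 6) (nat_lit 217) (nat_lit 4) (nat_lit 133) (nat_lit 164) (nat_lit 153)) (PT.lf (nat_lit 17708) (nat_lit 6) (nat_lit 233) (nat_lit 4) (nat_lit 134) (nat_lit 164) (nat_lit 152))))))) (PT.nd (nat_lit 1248) (PT.nd (nat_lit 624) (PT.nd (nat_lit 312) (PT.nd (nat_lit 156) (PT.nd (nat_lit 78) (PT.lf (nat_lit 18848) (nat_lit 6) (nat_lit 248) (nat_lit 4) (nat_lit 135) (nat_lit 164) (nat_lit 151)) (PT.lf (nat_lit 19912) (nat_lit 6) (nat_lit 262) (nat_lit 4) (nat_lit 136) (nat_lit 164) (nat_lit 150))) (PT.nd (nat_lit 78) (PT.lf (nat_lit 19836) (nat_lit 6) (nat_lit 261) (nat_lit 4) (nat_lit 137) (nat_lit 164) (nat_lit 149)) (PT.lf (nat_lit 19760) (nat_lit 6) (nat_lit 260) (nat_lit 4) (nat_lit 138) (nat_lit 164) (nat_lit 148))))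 (PT.nd (nat_lit 156) (PT.nd (nat_lit 78) (PT.lf (nat_lit 19684) (nat_lit 6) (nat_lit 259) (nat_lit 4) (nat_lit 139) (nat_lit 164) (nat_lit 147)) (PT.lf (nat_lit 19608) (nat_lit 6) (nat_lit 258) (nat_lit 4) (nat_lit 140) (nat_lit 164) (nat_lit 146))) (PT.nd (nat_lit 78) (PT.lf (nat_lit 19532) (nat_lit 6) (nat_lit 257) (nat_lit 4) (nat_lit 141) (nat_lit 164) (nat_lit 145)) (PT.lf (nat_lit 19456) (nat_lit 6) (nat_lit 256) (nat_lit 4) (nat_lit 142) (nat_lit 164) (nat_lit 144))))) (PT.nd (nat_lit 312) (PT.nd (nat_lit 156) (PT.nd (nat_lit 78) (PT.lf (nat_lit 19380) (nat_lit 3) (nat_lit 255) (nat_lit 2) (nat_lit 143) (nat_lit 164) (nat_lit 143)) (PT.lf (nat_lit 19456) (nat_lit 6) (nat_lit 256) (nat_lit 2) (nat_lit 144) (nat_lit 164) (nat_lit 142))) (PT.nd (nat_lit 78) (PT.lf (nat_lit 19532) (nat_lit 6) (nat_lit 257) (nat_lit 2) (nat_lit 145) (nat_lit 164) (nat_lit 141)) (PT.lf (nat_lit 19608) (nat_lit 6) (nat_lit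 258) (nat_lit 2) (nat_lit 146) (nat_lit 164) (nat_lit 140)))) (PT.nd (nat_lit 156) (PT.nd (nat_lit 78) (PT.lf (nat_lit 19684) (nat_lit 6) (nat_lit 259) (nat_lit 2) (nat_lit 147) (nat_lit 164) (nat_lit 139)) (PT.lf (nat_lit 19760) (nat_lit 6) (nat_lit 260) (nat_lit 2) (nat_lit 148) (nat_lit 164) (nat_lit 138))) (PT.nd (nat_lit 78) (PT.lf (nat_lit 19836) (nat_lit 6) (nat_lit 261) (nat_lit 2) (nat_lit 149) (nat_lit 164) (nat_lit 137)) (PT.lf (nat_lit 19912) (nat_lit 6) (nat_lit 262) (nat_lit 2) (nat_lit 150) (nat_lit 164) (nat_lit 136)))))) (PT.nd (nat_lit 624) (PT.nd (nat_lit 312) (PT.nd (nat_lit 156) (PT.nd (nat_lit 78) (PT.lf (nat_lit 18848) (nat_lit 6) (nat_lit 248) (nat_lit 2) (nat_lit 151) (nat_lit 164) (nat_lit 135)) (PT.lf (nat_lit 17708) (nat_lit 6) (nat_lit 233) (nat_lit 2) (nat_lit 152) (nat_lit 164) (nat_lit 134))) (PT.nd (nat_lit 78) (PT.lf (nat_lit 16492) (nat_lit 6) (nat_lit 217) (nat_lit 2)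 (nat_lit 153) (nat_lit 164) (nat_lit 133)) (PT.lf (nat_lit 15884) (nat_lit 6) (nat_lit 209) (nat_lit 2) (nat_lit 154) (nat_lit 164) (nat_lit 132)))) (PT.nd (nat_lit 156) (PT.nd (nat_lit 78) (PT.lf (nat_lit 15352) (nat_lit 6) (nat_lit 202) (nat_lit 2) (nat_lit 155) (nat_lit 164) (nat_lit 131)) (PT.lf (nat_lit 14744) (nat_lit 6) (nat_lit 194) (nat_lit 2) (nat_lit 156) (nat_lit 164) (nat_lit 130))) (PT.nd (nat_lit 78) (PT.lf (nat_lit 14212) (nat_lit 6) (nat_lit 187) (nat_lit 2) (nat_lit 157) (nat_lit 164) (nat_lit 129)) (PT.lf (nat_lit 13680) (nat_lit 6) (nat_lit 180) (nat_lit 2) (nat_lit 158) (nat_lit 164) (nat_lit 128))))) (PT.nd (nat_lit 312) (PT.nd (nat_lit 156) (PT.nd (nat_lit 78) (PT.lf (nat_lit 13224) (nat_lit 6) (nat_lit 174) (nat_lit 2) (nat_lit 159) (nat_lit 164) (nat_lit 127)) (PT.lf (nat_lit 12768) (nat_lit 6) (nat_lit 168) (nat_lit 2) (nat_lit 160) (nat_lit 164) (nat_lit 126))) (PT.nd (nat_lit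 78) (PT.lf (nat_lit 12312) (nat_lit 6) (nat_lit 162) (nat_lit 2) (nat_lit 161) (nat_lit 164) (nat_lit 125)) (PT.lf (nat_lit 11856) (nat_lit 6) (nat_lit 156) (nat_lit 2) (nat_lit 162) (nat_lit 164) (nat_lit 124)))) (PT.nd (nat_lit 156) (PT.nd (nat_lit 78) (PT.lf (nat_lit 11476) (nat_lit 6) (nat_lit 151) (nat_lit 2) (nat_lit 163) (nat_lit 164) (nat_lit 123)) (PT.lf (nat_lit 11020) (nat_lit 3) (nat_lit 145) (nat_lit 0) (nat_lit 164) (nat_lit 164) (nat_lit 122))) (PT.nd (nat_lit 78) (PT.lf (nat_lit 10564) (nat_lit 6) (nat_lit 139) (nat_lit 0) (nat_lit 165) (nat_lit 164) (nat_lit 121)) (PT.lf (nat_lit 10108) (nat_lit 6) (nat_lit 133) (nat_lit 0) (nat_lit 166) (nat_lit 164) (nat_lit 120))))))))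
noncomputable def pc23 : PT := (PT.nd (nat_lit 44772) (PT.nd (nat_lit 43524) (PT.nd (nat_lit 42900) (PT.nd (nat_lit 312) (PT.nd (nat_lit 156) (PT.nd (nat_lit 78) (PT.lf (nat_lit 9728) (nat_lit 6) (nat_lit 128) (nat_lit 0) (nat_lit 167) (nat_lit 164) (nat_lit 119)) (PT.lf (nat_lit 9272) (nat_lit 6) (nat_lit 122) (nat_lit 0) (nat_lit 168) (nat_lit 164) (nat_lit 118))) (PT.nd (nat_lit 78) (PT.lf (nat_lit 8892) (nat_lit 6) (nat_lit 117) (nat_lit 0) (nat_lit 169) (nat_lit 164) (nat_lit 117)) (PT.lf (nat_lit 8512) (nat_lit 6) (nat_lit 112) (nat_lit 0) (nat_lit 170) (nat_lit 164) (nat_lit 116)))) (PT.nd (nat_lit 42432) (PT.nd (nat_lit 42354) (PT.lf (nat_lit 8132) (nat_lit 6) (nat_lit 107) (nat_lit 0) (nat_lit 171) (nat_lit 164) (nat_lit 115)) (PT.lf (nat_lit 7524) (nat_lit 6) (nat_lit 99) (nat_lit 5) (nat_lit 113) (nat_lit 165) (nat_lit 172))) (PT.nd (nat_lit 78) (PT.lf (nat_lit 7828) (nat_lit 6) (nat_lit 103)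 (nat_lit 5) (nat_lit 114) (nat_lit 165) (nat_lit 171)) (PT.lf (nat_lit 8208) (nat_lit 6) (nat_lit 108) (nat_lit 5) (nat_lit 115) (nat_lit 165) (nat_lit 170))))) (PT.nd (nat_lit 312) (PT.nd (nat_lit 156) (PT.nd (nat_lit 78) (PT.lf (nat_lit 8588) (nat_lit 6) (nat_lit 113) (nat_lit 5) (nat_lit 116) (nat_lit 165) (nat_lit 169)) (PT.lf (nat_lit 8968) (nat_lit 6) (nat_lit 118) (nat_lit 5) (nat_lit 117) (nat_lit 165) (nat_lit 168))) (PT.nd (nat_lit 78) (PT.lf (nat_lit 9348) (nat_lit 6) (nat_lit 123) (nat_lit 5) (nat_lit 118) (nat_lit 165) (nat_lit 167)) (PT.lf (nat_lit 9804) (nat_lit 6) (nat_lit 129) (nat_lit 5) (nat_lit 119) (nat_lit 165) (nat_lit 166)))) (PT.nd (nat_lit 156) (PT.nd (nat_lit 78) (PT.lf (nat_lit 10184) (nat_lit 3) (nat_lit 134) (nat_lit 4) (nat_lit 120) (nat_lit 165) (nat_lit 165)) (PT.lf (nat_lit 10564) (nat_lit 6) (nat_lit 139) (nat_lit 4) (nat_lit 121) (nat_lit 165) (nat_lit 164))) (PT.nd (nat_lit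 78) (PT.lf (nat_lit 10944) (nat_lit 6) (nat_lit 144) (nat_lit 4) (nat_lit 122) (nat_lit 165) (nat_lit 163)) (PT.lf (nat_lit 11400) (nat_lit 6) (nat_lit 150) (nat_lit 4) (nat_lit 123) (nat_lit 165) (nat_lit 162)))))) (PT.nd (nat_lit 624) (PT.nd (nat_lit 312) (PT.nd (nat_lit 156) (PT.nd (nat_lit 78) (PT.lf (nat_lit 11780) (nat_lit 6) (nat_lit 155) (nat_lit 4) (nat_lit 124) (nat_lit 165) (nat_lit 161)) (PT.lf (nat_lit 12236) (nat_lit 6) (nat_lit 161) (nat_lit 4) (nat_lit 125) (nat_lit 165) (nat_lit 160))) (PT.nd (nat_lit 78) (PT.lf (nat_lit 12692) (nat_lit 6) (nat_lit 167) (nat_lit 4) (nat_lit 126) (nat_lit 165) (nat_lit 159)) (PT.lf (nat_lit 13148) (nat_lit 6) (nat_lit 173) (nat_lit 4) (nat_lit 127) (nat_lit 165) (nat_lit 158)))) (PT.nd (nat_lit 156) (PT.nd (nat_lit 78) (PT.lf (nat_lit 13604) (nat_lit 6) (nat_lit 179) (nat_lit 4) (nat_lit 128) (nat_lit 165) (nat_lit 157)) (PT.lf (nat_lit 14136) (nat_lit 6)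 (nat_lit 186) (nat_lit 4) (nat_lit 129) (nat_lit 165) (nat_lit 156))) (PT.nd (nat_lit 78) (PT.lf (nat_lit 14668) (nat_lit 6) (nat_lit 193) (nat_lit 4) (nat_lit 130) (nat_lit 165) (nat_lit 155)) (PT.lf (nat_lit 15276) (nat_lit 6) (nat_lit 201) (nat_lit 4) (nat_lit 131) (nat_lit 165) (nat_lit 154))))) (PT.nd (nat_lit 312) (PT.nd (nat_lit 156) (PT.nd (nat_lit 78) (PT.lf (nat_lit 15808) (nat_lit 6) (nat_lit 208) (nat_lit 4) (nat_lit 132) (nat_lit 165) (nat_lit 153)) (PT.lf (nat_lit 16416) (nat_lit 6) (nat_lit 216) (nat_lit 4) (nat_lit 133) (nat_lit 165) (nat_lit 152))) (PT.nd (nat_lit 78) (PT.lf (nat_lit 17632) (nat_lit 6) (nat_lit 232) (nat_lit 4) (nat_lit 134) (nat_lit 165) (nat_lit 151)) (PT.lf (nat_lit 18772) (nat_lit 6) (nat_lit 247) (nat_lit 4) (nat_lit 135) (nat_lit 165) (nat_lit 150)))) (PT.nd (nat_lit 156) (PT.nd (nat_lit 78) (PT.lf (nat_lit 18696) (nat_lit 6) (nat_lit 246) (nat_lit 4) (nat_lit 136)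 (nat_lit 165) (nat_lit 149)) (PT.lf (nat_lit 18620) (nat_lit 6) (nat_lit 245) (nat_lit 4) (nat_lit 137) (nat_lit 165) (nat_lit 148))) (PT.nd (nat_lit 78) (PT.lf (nat_lit 18544) (nat_lit 6) (nat_lit 244) (nat_lit 4) (nat_lit 138) (nat_lit 165) (nat_lit 147)) (PT.lf (nat_lit 18468) (nat_lit 6) (nat_lit 243) (nat_lit 4) (nat_lit 139) (nat_lit 165) (nat_lit 146))))))) (PT.nd (nat_lit 1248) (PT.nd (nat_lit 624) (PT.nd (nat_lit 312) (PT.nd (nat_lit 156) (PT.nd (nat_lit 78) (PT.lf (nat_lit 18392) (nat_lit 6) (nat_lit 242) (nat_lit 4) (nat_lit 140) (nat_lit 165) (nat_lit 145)) (PT.lf (nat_lit 18316) (nat_lit 6) (nat_lit 241) (nat_lit 4) (nat_lit 141) (nat_lit 165) (nat_lit 144))) (PT.nd (nat_lit 78) (PT.lf (nat_lit 18240) (nat_lit 6) (nat_lit 240) (nat_lit 4) (nat_lit 142) (nat_lit 165) (nat_lit 143)) (PT.lf (nat_lit 18240) (nat_lit 6) (nat_lit 240) (nat_lit 2) (nat_lit 143) (nat_lit 165) (nat_lit 142)))) (PT.nd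 (nat_lit 156) (PT.nd (nat_lit 78) (PT.lf (nat_lit 18316) (nat_lit 6) (nat_lit 241) (nat_lit 2) (nat_lit 144) (nat_lit 165) (nat_lit 141)) (PT.lf (nat_lit 18392) (nat_lit 6) (nat_lit 242) (nat_lit 2) (nat_lit 145) (nat_lit 165) (nat_lit 140))) (PT.nd (nat_lit 78) (PT.lf (nat_lit 18468) (nat_lit 6) (nat_lit 243) (nat_lit 2) (nat_lit 146) (nat_lit 165) (nat_lit 139)) (PT.lf (nat_lit 18544) (nat_lit 6) (nat_lit 244) (nat_lit 2) (nat_lit 147) (nat_lit 165) (nat_lit 138))))) (PT.nd (nat_lit 312) (PT.nd (nat_lit 156) (PT.nd (nat_lit 78) (PT.lf (nat_lit 18620) (nat_lit 6) (nat_lit 245) (nat_lit 2) (nat_lit 148) (nat_lit 165) (nat_lit 137)) (PT.lf (nat_lit 18696) (nat_lit 6) (nat_lit 246) (nat_lit 2) (nat_lit 149) (nat_lit 165) (nat_lit 136))) (PT.nd (nat_lit 78) (PT.lf (nat_lit 18772) (nat_lit 6) (nat_lit 247) (nat_lit 2) (nat_lit 150) (nat_lit 165) (nat_lit 135)) (PT.lf (nat_lit 17632) (nat_lit 6) (nat_lit 232)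 (nat_lit 2) (nat_lit 151) (nat_lit 165) (nat_lit 134)))) (PT.nd (nat_lit 156) (PT.nd (nat_lit 78) (PT.lf (nat_lit 16416) (nat_lit 6) (nat_lit 216) (nat_lit 2) (nat_lit 152) (nat_lit 165) (nat_lit 133)) (PT.lf (nat_lit 15808) (nat_lit 6) (nat_lit 208) (nat_lit 2) (nat_lit 153) (nat_lit 165) (nat_lit 132))) (PT.nd (nat_lit 78) (PT.lf (nat_lit 15276) (nat_lit 6) (nat_lit 201) (nat_lit 2) (nat_lit 154) (nat_lit 165) (nat_lit 131)) (PT.lf (nat_lit 14668) (nat_lit 6) (nat_lit 193) (nat_lit 2) (nat_lit 155) (nat_lit 165) (nat_lit 130)))))) (PT.nd (nat_lit 624) (PT.nd (nat_lit 312) (PT.nd (nat_lit 156) (PT.nd (nat_lit 78) (PT.lf (nat_lit 14136) (nat_lit 6) (nat_lit 186) (nat_lit 2) (nat_lit 156) (nat_lit 165) (nat_lit 129)) (PT.lf (nat_lit 13604) (nat_lit 6) (nat_lit 179) (nat_lit 2) (nat_lit 157) (nat_lit 165) (nat_lit 128))) (PT.nd (nat_lit 78) (PT.lf (nat_lit 13148) (nat_lit 6) (nat_lit 173) (nat_lit 2) (nat_lit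 158) (nat_lit 165) (nat_lit 127)) (PT.lf (nat_lit 12692) (nat_lit 6) (nat_lit 167) (nat_lit 2) (nat_lit 159) (nat_lit 165) (nat_lit 126)))) (PT.nd (nat_lit 156) (PT.nd (nat_lit 78) (PT.lf (nat_lit 12236) (nat_lit 6) (nat_lit 161) (nat_lit 2) (nat_lit 160) (nat_lit 165) (nat_lit 125)) (PT.lf (nat_lit 11780) (nat_lit 6) (nat_lit 155) (nat_lit 2) (nat_lit 161) (nat_lit 165) (nat_lit 124))) (PT.nd (nat_lit 78) (PT.lf (nat_lit 11400) (nat_lit 6) (nat_lit 150) (nat_lit 2) (nat_lit 162) (nat_lit 165) (nat_lit 123)) (PT.lf (nat_lit 10944) (nat_lit 6) (nat_lit 144) (nat_lit 2) (nat_lit 163) (nat_lit 165) (nat_lit 122))))) (PT.nd (nat_lit 312) (PT.nd (nat_lit 156) (PT.nd (nat_lit 78) (PT.lf (nat_lit 10564) (nat_lit 6) (nat_lit 139) (nat_lit 2) (nat_lit 164) (nat_lit 165) (nat_lit 121)) (PT.lf (nat_lit 10184) (nat_lit 3) (nat_lit 134) (nat_lit 0) (nat_lit 165) (nat_lit 165) (nat_lit 120))) (PT.nd (nat_lit 78) (PT.lf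 (nat_lit 9804) (nat_lit 6) (nat_lit 129) (nat_lit 0) (nat_lit 166) (nat_lit 165) (nat_lit 119)) (PT.lf (nat_lit 9348) (nat_lit 6) (nat_lit 123) (nat_lit 0) (nat_lit 167) (nat_lit 165) (nat_lit 118)))) (PT.nd (nat_lit 156) (PT.nd (nat_lit 78) (PT.lf (nat_lit 8968) (nat_lit 6) (nat_lit 118) (nat_lit 0) (nat_lit 168) (nat_lit 165) (nat_lit 117)) (PT.lf (nat_lit 8588) (nat_lit 6) (nat_lit 113) (nat_lit 0) (nat_lit 169) (nat_lit 165) (nat_lit 116))) (PT.nd (nat_lit 78) (PT.lf (nat_lit 8208) (nat_lit 6) (nat_lit 108) (nat_lit 0) (nat_lit 170) (nat_lit 165) (nat_lit 115)) (PT.lf (nat_lit 7828) (nat_lit 6) (nat_lit 103) (nat_lit 0) (nat_lit 171) (nat_lit 165) (nat_lit 114))))))))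
noncomputable def pc24 : PT := (PT.nd (nat_lit 44538) (PT.nd (nat_lit 43290) (PT.nd (nat_lit 42666) (PT.nd (nat_lit 42354) (PT.nd (nat_lit 42198) (PT.lf (nat_lit 7524) (nat_lit 6) (nat_lit 99) (nat_lit 0) (nat_lit 172) (nat_lit 165) (nat_lit 113)) (PT.nd (nat_lit 78) (PT.lf (nat_lit 7220) (nat_lit 6) (nat_lit 95) (nat_lit 5) (nat_lit 112) (nat_lit 166) (nat_lit 172)) (PT.lf (nat_lit 7600) (nat_lit 6) (nat_lit 100) (nat_lit 5) (nat_lit 113) (nat_lit 166) (nat_lit 171)))) (PT.nd (nat_lit 156) (PT.nd (nat_lit 78) (PT.lf (nat_lit 7904) (nat_lit 6) (nat_lit 104) (nat_lit 5) (nat_lit 114) (nat_lit 166) (nat_lit 170)) (PT.lf (nat_lit 8284) (nat_lit 6) (nat_lit 109) (nat_lit 5) (nat_lit 115) (nat_lit 166) (nat_lit 169))) (PT.nd (nat_lit 78) (PT.lf (nat_lit 8664) (nat_lit 6) (nat_lit 114) (nat_lit 5) (nat_lit 116) (nat_lit 166) (nat_lit 168)) (PT.lf (nat_lit 9044) (nat_lit 6) (nat_lit 119) (nat_lit 5) (nat_lit 117)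 (nat_lit 166) (nat_lit 167))))) (PT.nd (nat_lit 312) (PT.nd (nat_lit 156) (PT.nd (nat_lit 78) (PT.lf (nat_lit 9424) (nat_lit 3) (nat_lit 124) (nat_lit 4) (nat_lit 118) (nat_lit 166) (nat_lit 166)) (PT.lf (nat_lit 9804) (nat_lit 6) (nat_lit 129) (nat_lit 4) (nat_lit 119) (nat_lit 166) (nat_lit 165))) (PT.nd (nat_lit 78) (PT.lf (nat_lit 10108) (nat_lit 6) (nat_lit 133) (nat_lit 4) (nat_lit 120) (nat_lit 166) (nat_lit 164)) (PT.lf (nat_lit 10488) (nat_lit 6) (nat_lit 138) (nat_lit 4) (nat_lit 121) (nat_lit 166) (nat_lit 163)))) (PT.nd (nat_lit 156) (PT.nd (nat_lit 78) (PT.lf (nat_lit 10868) (nat_lit 6) (nat_lit 143) (nat_lit 4) (nat_lit 122) (nat_lit 166) (nat_lit 162)) (PT.lf (nat_lit 11324) (nat_lit 6) (nat_lit 149) (nat_lit 4) (nat_lit 123) (nat_lit 166) (nat_lit 161))) (PT.nd (nat_lit 78) (PT.lf (nat_lit 11704) (nat_lit 6) (nat_lit 154) (nat_lit 4) (nat_lit 124) (nat_lit 166) (nat_lit 160)) (PT.lf (nat_lit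 12160) (nat_lit 6) (nat_lit 160) (nat_lit 4) (nat_lit 125) (nat_lit 166) (nat_lit 159)))))) (PT.nd (nat_lit 624) (PT.nd (nat_lit 312) (PT.nd (nat_lit 156) (PT.nd (nat_lit 78) (PT.lf (nat_lit 12616) (nat_lit 6) (nat_lit 166) (nat_lit 4) (nat_lit 126) (nat_lit 166) (nat_lit 158)) (PT.lf (nat_lit 13072) (nat_lit 6) (nat_lit 172) (nat_lit 4) (nat_lit 127) (nat_lit 166) (nat_lit 157))) (PT.nd (nat_lit 78) (PT.lf (nat_lit 13528) (nat_lit 6) (nat_lit 178) (nat_lit 4) (nat_lit 128) (nat_lit 166) (nat_lit 156)) (PT.lf (nat_lit 14060) (nat_lit 6) (nat_lit 185) (nat_lit 4) (nat_lit 129) (nat_lit 166) (nat_lit 155)))) (PT.nd (nat_lit 156) (PT.nd (nat_lit 78) (PT.lf (nat_lit 14592) (nat_lit 6) (nat_lit 192) (nat_lit 4) (nat_lit 130) (nat_lit 166) (nat_lit 154)) (PT.lf (nat_lit 15200) (nat_lit 6) (nat_lit 200) (nat_lit 4) (nat_lit 131) (nat_lit 166) (nat_lit 153))) (PT.nd (nat_lit 78) (PT.lf (nat_lit 15732) (nat_lit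 6) (nat_lit 207) (nat_lit 4) (nat_lit 132) (nat_lit 166) (nat_lit 152)) (PT.lf (nat_lit 16340) (nat_lit 6) (nat_lit 215) (nat_lit 4) (nat_lit 133) (nat_lit 166) (nat_lit 151))))) (PT.nd (nat_lit 312) (PT.nd (nat_lit 156) (PT.nd (nat_lit 78) (PT.lf (nat_lit 17556) (nat_lit 6) (nat_lit 231) (nat_lit 4) (nat_lit 134) (nat_lit 166) (nat_lit 150)) (PT.lf (nat_lit 17480) (nat_lit 6) (nat_lit 230) (nat_lit 4) (nat_lit 135) (nat_lit 166) (nat_lit 149))) (PT.nd (nat_lit 78) (PT.lf (nat_lit 17404) (nat_lit 6) (nat_lit 229) (nat_lit 4) (nat_lit 136) (nat_lit 166) (nat_lit 148)) (PT.lf (nat_lit 17328) (nat_lit 6) (nat_lit 228) (nat_lit 4) (nat_lit 137) (nat_lit 166) (nat_lit 147)))) (PT.nd (nat_lit 156) (PT.nd (nat_lit 78) (PT.lf (nat_lit 17252) (nat_lit 6) (nat_lit 227) (nat_lit 4) (nat_lit 138) (nat_lit 166) (nat_lit 146)) (PT.lf (nat_lit 17176) (nat_lit 6) (nat_lit 226) (nat_lit 4) (nat_lit 139) (nat_lit 166) (nat_lit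 145))) (PT.nd (nat_lit 78) (PT.lf (nat_lit 17100) (nat_lit 6) (nat_lit 225) (nat_lit 4) (nat_lit 140) (nat_lit 166) (nat_lit 144)) (PT.lf (nat_lit 17024) (nat_lit 6) (nat_lit 224) (nat_lit 4) (nat_lit 141) (nat_lit 166) (nat_lit 143))))))) (PT.nd (nat_lit 1248) (PT.nd (nat_lit 624) (PT.nd (nat_lit 312) (PT.nd (nat_lit 156) (PT.nd (nat_lit 78) (PT.lf (nat_lit 16948) (nat_lit 3) (nat_lit 223) (nat_lit 2) (nat_lit 142) (nat_lit 166) (nat_lit 142)) (PT.lf (nat_lit 17024) (nat_lit 6) (nat_lit 224) (nat_lit 2) (nat_lit 143) (nat_lit 166) (nat_lit 141))) (PT.nd (nat_lit 78) (PT.lf (nat_lit 17100) (nat_lit 6) (nat_lit 225) (nat_lit 2) (nat_lit 144) (nat_lit 166) (nat_lit 140)) (PT.lf (nat_lit 17176) (nat_lit 6) (nat_lit 226) (nat_lit 2) (nat_lit 145) (nat_lit 166) (nat_lit 139)))) (PT.nd (nat_lit 156) (PT.nd (nat_lit 78) (PT.lf (nat_lit 17252) (nat_lit 6) (nat_lit 227) (nat_lit 2) (nat_lit 146) (nat_lit 166) (nat_lit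 138)) (PT.lf (nat_lit 17328) (nat_lit 6) (nat_lit 228) (nat_lit 2) (nat_lit 147) (nat_lit 166) (nat_lit 137))) (PT.nd (nat_lit 78) (PT.lf (nat_lit 17404) (nat_lit 6) (nat_lit 229) (nat_lit 2) (nat_lit 148) (nat_lit 166) (nat_lit 136)) (PT.lf (nat_lit 17480) (nat_lit 6) (nat_lit 230) (nat_lit 2) (nat_lit 149) (nat_lit 166) (nat_lit 135))))) (PT.nd (nat_lit 312) (PT.nd (nat_lit 156) (PT.nd (nat_lit 78) (PT.lf (nat_lit 17556) (nat_lit 6) (nat_lit 231) (nat_lit 2) (nat_lit 150) (nat_lit 166) (nat_lit 134)) (PT.lf (nat_lit 16340) (nat_lit 6) (nat_lit 215) (nat_lit 2) (nat_lit 151) (nat_lit 166) (nat_lit 133))) (PT.nd (nat_lit 78) (PT.lf (nat_lit 15732) (nat_lit 6) (nat_lit 207) (nat_lit 2) (nat_lit 152) (nat_lit 166) (nat_lit 132)) (PT.lf (nat_lit 15200) (nat_lit 6) (nat_lit 200) (nat_lit 2) (nat_lit 153) (nat_lit 166) (nat_lit 131)))) (PT.nd (nat_lit 156) (PT.nd (nat_lit 78) (PT.lf (nat_lit 14592) (nat_lit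 6) (nat_lit 192) (nat_lit 2) (nat_lit 154) (nat_lit 166) (nat_lit 130)) (PT.lf (nat_lit 14060) (nat_lit 6) (nat_lit 185) (nat_lit 2) (nat_lit 155) (nat_lit 166) (nat_lit 129))) (PT.nd (nat_lit 78) (PT.lf (nat_lit 13528) (nat_lit 6) (nat_lit 178) (nat_lit 2) (nat_lit 156) (nat_lit 166) (nat_lit 128)) (PT.lf (nat_lit 13072) (nat_lit 6) (nat_lit 172) (nat_lit 2) (nat_lit 157) (nat_lit 166) (nat_lit 127)))))) (PT.nd (nat_lit 624) (PT.nd (nat_lit 312) (PT.nd (nat_lit 156) (PT.nd (nat_lit 78) (PT.lf (nat_lit 12616) (nat_lit 6) (nat_lit 166) (nat_lit 2) (nat_lit 158) (nat_lit 166) (nat_lit 126)) (PT.lf (nat_lit 12160) (nat_lit 6) (nat_lit 160) (nat_lit 2) (nat_lit 159) (nat_lit 166) (nat_lit 125))) (PT.nd (nat_lit 78) (PT.lf (nat_lit 11704) (nat_lit 6) (nat_lit 154) (nat_lit 2) (nat_lit 160) (nat_lit 166) (nat_lit 124)) (PT.lf (nat_lit 11324) (nat_lit 6) (nat_lit 149) (nat_lit 2) (nat_lit 161) (nat_lit 166) (nat_lit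 123)))) (PT.nd (nat_lit 156) (PT.nd (nat_lit 78) (PT.lf (nat_lit 10868) (nat_lit 6) (nat_lit 143) (nat_lit 2) (nat_lit 162) (nat_lit 166) (nat_lit 122)) (PT.lf (nat_lit 10488) (nat_lit 6) (nat_lit 138) (nat_lit 2) (nat_lit 163) (nat_lit 166) (nat_lit 121))) (PT.nd (nat_lit 78) (PT.lf (nat_lit 10108) (nat_lit 6) (nat_lit 133) (nat_lit 2) (nat_lit 164) (nat_lit 166) (nat_lit 120)) (PT.lf (nat_lit 9804) (nat_lit 6) (nat_lit 129) (nat_lit 2) (nat_lit 165) (nat_lit 166) (nat_lit 119))))) (PT.nd (nat_lit 312) (PT.nd (nat_lit 156) (PT.nd (nat_lit 78) (PT.lf (nat_lit 9424) (nat_lit 3) (nat_lit 124) (nat_lit 0) (nat_lit 166) (nat_lit 166) (nat_lit 118)) (PT.lf (nat_lit 9044) (nat_lit 6) (nat_lit 119) (nat_lit 0) (nat_lit 167) (nat_lit 166) (nat_lit 117))) (PT.nd (nat_lit 78) (PT.lf (nat_lit 8664) (nat_lit 6) (nat_lit 114) (nat_lit 0) (nat_lit 168) (nat_lit 166) (nat_lit 116)) (PT.lf (nat_lit 8284) (nat_lit 6) (nat_lit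 109) (nat_lit 0) (nat_lit 169) (nat_lit 166) (nat_lit 115)))) (PT.nd (nat_lit 156) (PT.nd (nat_lit 78) (PT.lf (nat_lit 7904) (nat_lit 6) (nat_lit 104) (nat_lit 0) (nat_lit 170) (nat_lit 166) (nat_lit 114)) (PT.lf (nat_lit 7600) (nat_lit 6) (nat_lit 100) (nat_lit 0) (nat_lit 171) (nat_lit 166) (nat_lit 113))) (PT.nd (nat_lit 42042) (PT.lf (nat_lit 7220) (nat_lit 6) (nat_lit 95) (nat_lit 0) (nat_lit 172) (nat_lit 166) (nat_lit 112)) (PT.lf (nat_lit 6612) (nat_lit 6) (nat_lit 87) (nat_lit 5) (nat_lit 110) (nat_lit 167) (nat_lit 173))))))))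
noncomputable def pc25 : PT := (PT.nd (nat_lit 4056) (PT.nd (nat_lit 1248) (PT.nd (nat_lit 624) (PT.nd (nat_lit 312) (PT.nd (nat_lit 156) (PT.nd (nat_lit 78) (PT.lf (nat_lit 6992) (nat_lit 6) (nat_lit 92) (nat_lit 5) (nat_lit 111) (nat_lit 167) (nat_lit 172)) (PT.lf (nat_lit 7296) (nat_lit 6) (nat_lit 96) (nat_lit 5) (nat_lit 112) (nat_lit 167) (nat_lit 171))) (PT.nd (nat_lit 78) (PT.lf (nat_lit 7676) (nat_lit 6) (nat_lit 101) (nat_lit 5) (nat_lit 113) (nat_lit 167) (nat_lit 170)) (PT.lf (nat_lit 7980) (nat_lit 6) (nat_lit 105) (nat_lit 5) (nat_lit 114) (nat_lit 167) (nat_lit 169)))) (PT.nd (nat_lit 156) (PT.nd (nat_lit 78) (PT.lf (nat_lit 8360) (nat_lit 6) (nat_lit 110) (nat_lit 5) (nat_lit 115) (nat_lit 167) (nat_lit 168)) (PT.lf (nat_lit 8740) (nat_lit 3) (nat_lit 115) (nat_lit 4) (nat_lit 116) (nat_lit 167) (nat_lit 167))) (PT.nd (nat_lit 78) (PT.lf (nat_lit 9044) (nat_lit 6) (nat_lit 119) (nat_lit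 4) (nat_lit 117) (nat_lit 167) (nat_lit 166)) (PT.lf (nat_lit 9348) (nat_lit 6) (nat_lit 123) (nat_lit 4) (nat_lit 118) (nat_lit 167) (nat_lit 165))))) (PT.nd (nat_lit 312) (PT.nd (nat_lit 156) (PT.nd (nat_lit 78) (PT.lf (nat_lit 9728) (nat_lit 6) (nat_lit 128) (nat_lit 4) (nat_lit 119) (nat_lit 167) (nat_lit 164)) (PT.lf (nat_lit 10032) (nat_lit 6) (nat_lit 132) (nat_lit 4) (nat_lit 120) (nat_lit 167) (nat_lit 163))) (PT.nd (nat_lit 78) (PT.lf (nat_lit 10412) (nat_lit 6) (nat_lit 137) (nat_lit 4) (nat_lit 121) (nat_lit 167) (nat_lit 162)) (PT.lf (nat_lit 10792) (nat_lit 6) (nat_lit 142) (nat_lit 4) (nat_lit 122) (nat_lit 167) (nat_lit 161)))) (PT.nd (nat_lit 156) (PT.nd (nat_lit 78) (PT.lf (nat_lit 11248) (nat_lit 6) (nat_lit 148) (nat_lit 4) (nat_lit 123) (nat_lit 167) (nat_lit 160)) (PT.lf (nat_lit 11628) (nat_lit 6) (nat_lit 153) (nat_lit 4) (nat_lit 124) (nat_lit 167) (nat_lit 159))) (PT.nd (nat_lit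 78) (PT.lf (nat_lit 12084) (nat_lit 6) (nat_lit 159) (nat_lit 4) (nat_lit 125) (nat_lit 167) (nat_lit 158)) (PT.lf (nat_lit 12540) (nat_lit 6) (nat_lit 165) (nat_lit 4) (nat_lit 126) (nat_lit 167) (nat_lit 157)))))) (PT.nd (nat_lit 2184) (PT.nd (nat_lit 312) (PT.nd (nat_lit 156) (PT.nd (nat_lit 78) (PT.lf (nat_lit 12996) (nat_lit 6) (nat_lit 171) (nat_lit 4) (nat_lit 127) (nat_lit 167) (nat_lit 156)) (PT.lf (nat_lit 13452) (nat_lit 6) (nat_lit 177) (nat_lit 4) (nat_lit 128) (nat_lit 167) (nat_lit 155))) (PT.nd (nat_lit 78) (PT.lf (nat_lit 13984) (nat_lit 6) (nat_lit 184) (nat_lit 4) (nat_lit 129) (nat_lit 167) (nat_lit 154)) (PT.lf (nat_lit 14516) (nat_lit 6) (nat_lit 191) (nat_lit 4) (nat_lit 130) (nat_lit 167) (nat_lit 153)))) (PT.nd (nat_lit 1716) (PT.nd (nat_lit 1638) (PT.lf (nat_lit 15124) (nat_lit 6) (nat_lit 199) (nat_lit 4) (nat_lit 131) (nat_lit 167) (nat_lit 152)) (PT.lf (nat_lit 15124) (nat_lit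 6) (nat_lit 199) (nat_lit 2) (nat_lit 152) (nat_lit 167) (nat_lit 131))) (PT.nd (nat_lit 78) (PT.lf (nat_lit 14516) (nat_lit 6) (nat_lit 191) (nat_lit 2) (nat_lit 153) (nat_lit 167) (nat_lit 130)) (PT.lf (nat_lit 13984) (nat_lit 6) (nat_lit 184) (nat_lit 2) (nat_lit 154) (nat_lit 167) (nat_lit 129))))) (PT.nd (nat_lit 312) (PT.nd (nat_lit 156) (PT.nd (nat_lit 78) (PT.lf (nat_lit 13452) (nat_lit 6) (nat_lit 177) (nat_lit 2) (nat_lit 155) (nat_lit 167) (nat_lit 128)) (PT.lf (nat_lit 12996) (nat_lit 6) (nat_lit 171) (nat_lit 2) (nat_lit 156) (nat_lit 167) (nat_lit 127))) (PT.nd (nat_lit 78) (PT.lf (nat_lit 12540) (nat_lit 6) (nat_lit 165) (nat_lit 2) (nat_lit 157) (nat_lit 167) (nat_lit 126)) (PT.lf (nat_lit 12084) (nat_lit 6) (nat_lit 159) (nat_lit 2) (nat_lit 158) (nat_lit 167) (nat_lit 125)))) (PT.nd (nat_lit 156) (PT.nd (nat_lit 78) (PT.lf (nat_lit 11628) (nat_lit 6) (nat_lit 153) (nat_lit 2) (nat_lit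 159) (nat_lit 167) (nat_lit 124)) (PT.lf (nat_lit 11248) (nat_lit 6) (nat_lit 148) (nat_lit 2) (nat_lit 160) (nat_lit 167) (nat_lit 123))) (PT.nd (nat_lit 78) (PT.lf (nat_lit 10792) (nat_lit 6) (nat_lit 142) (nat_lit 2) (nat_lit 161) (nat_lit 167) (nat_lit 122)) (PT.lf (nat_lit 10412) (nat_lit 6) (nat_lit 137) (nat_lit 2) (nat_lit 162) (nat_lit 167) (nat_lit 121))))))) (PT.nd (nat_lit 42978) (PT.nd (nat_lit 624) (PT.nd (nat_lit 312) (PT.nd (nat_lit 156) (PT.nd (nat_lit 78) (PT.lf (nat_lit 10032) (nat_lit 6) (nat_lit 132) (nat_lit 2) (nat_lit 163) (nat_lit 167) (nat_lit 120)) (PT.lf (nat_lit 9728) (nat_lit 6) (nat_lit 128) (nat_lit 2) (nat_lit 164) (nat_lit 167) (nat_lit 119))) (PT.nd (nat_lit 78) (PT.lf (nat_lit 9348) (nat_lit 6) (nat_lit 123) (nat_lit 2) (nat_lit 165) (nat_lit 167) (nat_lit 118)) (PT.lf (nat_lit 9044) (nat_lit 6) (nat_lit 119) (nat_lit 2) (nat_lit 166) (nat_lit 167) (nat_lit 117)))) (PT.nd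 (nat_lit 156) (PT.nd (nat_lit 78) (PT.lf (nat_lit 8740) (nat_lit 3) (nat_lit 115) (nat_lit 0) (nat_lit 167) (nat_lit 167) (nat_lit 116)) (PT.lf (nat_lit 8360) (nat_lit 6) (nat_lit 110) (nat_lit 0) (nat_lit 168) (nat_lit 167) (nat_lit 115))) (PT.nd (nat_lit 78) (PT.lf (nat_lit 7980) (nat_lit 6) (nat_lit 105) (nat_lit 0) (nat_lit 169) (nat_lit 167) (nat_lit 114)) (PT.lf (nat_lit 7676) (nat_lit 6) (nat_lit 101) (nat_lit 0) (nat_lit 170) (nat_lit 167) (nat_lit 113))))) (PT.nd (nat_lit 42042) (PT.nd (nat_lit 156) (PT.nd (nat_lit 78) (PT.lf (nat_lit 7296) (nat_lit 6) (nat_lit 96) (nat_lit 0) (nat_lit 171) (nat_lit 167) (nat_lit 112)) (PT.lf (nat_lit 6992) (nat_lit 6) (nat_lit 92) (nat_lit 0) (nat_lit 172) (nat_lit 167) (nat_lit 111))) (PT.nd (nat_lit 41808) (PT.lf (nat_lit 6612) (nat_lit 6) (nat_lit 87) (nat_lit 0) (nat_lit 173) (nat_lit 167) (nat_lit 110)) (PT.lf (nat_lit 6080) (nat_lit 6) (nat_lit 80) (nat_lit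 5) (nat_lit 108) (nat_lit 168) (nat_lit 174)))) (PT.nd (nat_lit 156) (PT.nd (nat_lit 78) (PT.lf (nat_lit 6384) (nat_lit 6) (nat_lit 84) (nat_lit 5) (nat_lit 109) (nat_lit 168) (nat_lit 173)) (PT.lf (nat_lit 6688) (nat_lit 6) (nat_lit 88) (nat_lit 5) (nat_lit 110) (nat_lit 168) (nat_lit 172))) (PT.nd (nat_lit 78) (PT.lf (nat_lit 7068) (nat_lit 6) (nat_lit 93) (nat_lit 5) (nat_lit 111) (nat_lit 168) (nat_lit 171)) (PT.lf (nat_lit 7372) (nat_lit 6) (nat_lit 97) (nat_lit 5) (nat_lit 112) (nat_lit 168) (nat_lit 170)))))) (PT.nd (nat_lit 624) (PT.nd (nat_lit 312) (PT.nd (nat_lit 156) (PT.nd (nat_lit 78) (PT.lf (nat_lit 7752) (nat_lit 6) (nat_lit 102) (nat_lit 5) (nat_lit 113) (nat_lit 168) (nat_lit 169)) (PT.lf (nat_lit 8056) (nat_lit 3) (nat_lit 106) (nat_lit 4) (nat_lit 114) (nat_lit 168) (nat_lit 168))) (PT.nd (nat_lit 78) (PT.lf (nat_lit 8360) (nat_lit 6) (nat_lit 110) (nat_lit 4) (nat_lit 115) (nat_lit 168)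 (nat_lit 167)) (PT.lf (nat_lit 8664) (nat_lit 6) (nat_lit 114) (nat_lit 4) (nat_lit 116) (nat_lit 168) (nat_lit 166)))) (PT.nd (nat_lit 156) (PT.nd (nat_lit 78) (PT.lf (nat_lit 8968) (nat_lit 6) (nat_lit 118) (nat_lit 4) (nat_lit 117) (nat_lit 168) (nat_lit 165)) (PT.lf (nat_lit 9272) (nat_lit 6) (nat_lit 122) (nat_lit 4) (nat_lit 118) (nat_lit 168) (nat_lit 164))) (PT.nd (nat_lit 78) (PT.lf (nat_lit 9652) (nat_lit 6) (nat_lit 127) (nat_lit 4) (nat_lit 119) (nat_lit 168) (nat_lit 163)) (PT.lf (nat_lit 9956) (nat_lit 6) (nat_lit 131) (nat_lit 4) (nat_lit 120) (nat_lit 168) (nat_lit 162))))) (PT.nd (nat_lit 312) (PT.nd (nat_lit 156) (PT.nd (nat_lit 78) (PT.lf (nat_lit 10336) (nat_lit 6) (nat_lit 136) (nat_lit 4) (nat_lit 121) (nat_lit 168) (nat_lit 161)) (PT.lf (nat_lit 10716) (nat_lit 6) (nat_lit 141) (nat_lit 4) (nat_lit 122) (nat_lit 168) (nat_lit 160))) (PT.nd (nat_lit 78) (PT.lf (nat_lit 11172) (nat_lit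 6) (nat_lit 147) (nat_lit 4) (nat_lit 123) (nat_lit 168) (nat_lit 159)) (PT.lf (nat_lit 11552) (nat_lit 6) (nat_lit 152) (nat_lit 4) (nat_lit 124) (nat_lit 168) (nat_lit 158)))) (PT.nd (nat_lit 2418) (PT.nd (nat_lit 78) (PT.lf (nat_lit 12008) (nat_lit 6) (nat_lit 158) (nat_lit 4) (nat_lit 125) (nat_lit 168) (nat_lit 157)) (PT.lf (nat_lit 12464) (nat_lit 6) (nat_lit 164) (nat_lit 4) (nat_lit 126) (nat_lit 168) (nat_lit 156))) (PT.nd (nat_lit 78) (PT.lf (nat_lit 12464) (nat_lit 6) (nat_lit 164) (nat_lit 2) (nat_lit 156) (nat_lit 168) (nat_lit 126)) (PT.lf (nat_lit 12008) (nat_lit 6) (nat_lit 158) (nat_lit 2) (nat_lit 157) (nat_lit 168) (nat_lit 125))))))))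
noncomputable def pc26 : PT := (PT.nd (nat_lit 44070) (PT.nd (nat_lit 1248) (PT.nd (nat_lit 624) (PT.nd (nat_lit 312) (PT.nd (nat_lit 156) (PT.nd (nat_lit 78) (PT.lf (nat_lit 11552) (nat_lit 6) (nat_lit 152) (nat_lit 2) (nat_lit 158) (nat_lit 168) (nat_lit 124)) (PT.lf (nat_lit 11172) (nat_lit 6) (nat_lit 147) (nat_lit 2) (nat_lit 159) (nat_lit 168) (nat_lit 123))) (PT.nd (nat_lit 78) (PT.lf (nat_lit 10716) (nat_lit 6) (nat_lit 141) (nat_lit 2) (nat_lit 160) (nat_lit 168) (nat_lit 122)) (PT.lf (nat_lit 10336) (nat_lit 6) (nat_lit 136) (nat_lit 2) (nat_lit 161) (nat_lit 168) (nat_lit 121)))) (PT.nd (nat_lit 156) (PT.nd (nat_lit 78) (PT.lf (nat_lit 9956) (nat_lit 6) (nat_lit 131) (nat_lit 2) (nat_lit 162) (nat_lit 168) (nat_lit 120)) (PT.lf (nat_lit 9652) (nat_lit 6) (nat_lit 127) (nat_lit 2) (nat_lit 163) (nat_lit 168) (nat_lit 119))) (PT.nd (nat_lit 78) (PT.lf (nat_lit 9272) (nat_lit 6) (nat_lit 122) (nat_lit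 2) (nat_lit 164) (nat_lit 168) (nat_lit 118)) (PT.lf (nat_lit 8968) (nat_lit 6) (nat_lit 118) (nat_lit 2) (nat_lit 165) (nat_lit 168) (nat_lit 117))))) (PT.nd (nat_lit 312) (PT.nd (nat_lit 156) (PT.nd (nat_lit 78) (PT.lf (nat_lit 8664) (nat_lit 6) (nat_lit 114) (nat_lit 2) (nat_lit 166) (nat_lit 168) (nat_lit 116)) (PT.lf (nat_lit 8360) (nat_lit 6) (nat_lit 110) (nat_lit 2) (nat_lit 167) (nat_lit 168) (nat_lit 115))) (PT.nd (nat_lit 78) (PT.lf (nat_lit 8056) (nat_lit 3) (nat_lit 106) (nat_lit 0) (nat_lit 168) (nat_lit 168) (nat_lit 114)) (PT.lf (nat_lit 7752) (nat_lit 6) (nat_lit 102) (nat_lit 0) (nat_lit 169) (nat_lit 168) (nat_lit 113)))) (PT.nd (nat_lit 156) (PT.nd (nat_lit 78) (PT.lf (nat_lit 7372) (nat_lit 6) (nat_lit 97) (nat_lit 0) (nat_lit 170) (nat_lit 168) (nat_lit 112)) (PT.lf (nat_lit 7068) (nat_lit 6) (nat_lit 93) (nat_lit 0) (nat_lit 171) (nat_lit 168) (nat_lit 111))) (PT.nd (nat_lit 78) (PT.lf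 (nat_lit 6688) (nat_lit 6) (nat_lit 88) (nat_lit 0) (nat_lit 172) (nat_lit 168) (nat_lit 110)) (PT.lf (nat_lit 6384) (nat_lit 6) (nat_lit 84) (nat_lit 0) (nat_lit 173) (nat_lit 168) (nat_lit 109)))))) (PT.nd (nat_lit 42198) (PT.nd (nat_lit 41886) (PT.nd (nat_lit 41730) (PT.nd (nat_lit 41652) (PT.lf (nat_lit 6080) (nat_lit 6) (nat_lit 80) (nat_lit 0) (nat_lit 174) (nat_lit 168) (nat_lit 108)) (PT.lf (nat_lit 5852) (nat_lit 6) (nat_lit 77) (nat_lit 5) (nat_lit 107) (nat_lit 169) (nat_lit 174))) (PT.nd (nat_lit 78) (PT.lf (nat_lit 6156) (nat_lit 6) (nat_lit 81) (nat_lit 5) (nat_lit 108) (nat_lit 169) (nat_lit 173)) (PT.lf (nat_lit 6460) (nat_lit 6) (nat_lit 85) (nat_lit 5) (nat_lit 109) (nat_lit 169) (nat_lit 172)))) (PT.nd (nat_lit 156) (PT.nd (nat_lit 78) (PT.lf (nat_lit 6764) (nat_lit 6) (nat_lit 89) (nat_lit 5) (nat_lit 110) (nat_lit 169) (nat_lit 171)) (PT.lf (nat_lit 7144) (nat_lit 6) (nat_lit 94) (nat_lit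 5) (nat_lit 111) (nat_lit 169) (nat_lit 170))) (PT.nd (nat_lit 78) (PT.lf (nat_lit 7448) (nat_lit 3) (nat_lit 98) (nat_lit 4) (nat_lit 112) (nat_lit 169) (nat_lit 169)) (PT.lf (nat_lit 7752) (nat_lit 6) (nat_lit 102) (nat_lit 4) (nat_lit 113) (nat_lit 169) (nat_lit 168))))) (PT.nd (nat_lit 312) (PT.nd (nat_lit 156) (PT.nd (nat_lit 78) (PT.lf (nat_lit 7980) (nat_lit 6) (nat_lit 105) (nat_lit 4) (nat_lit 114) (nat_lit 169) (nat_lit 167)) (PT.lf (nat_lit 8284) (nat_lit 6) (nat_lit 109) (nat_lit 4) (nat_lit 115) (nat_lit 169) (nat_lit 166))) (PT.nd (nat_lit 78) (PT.lf (nat_lit 8588) (nat_lit 6) (nat_lit 113) (nat_lit 4) (nat_lit 116) (nat_lit 169) (nat_lit 165)) (PT.lf (nat_lit 8892) (nat_lit 6) (nat_lit 117) (nat_lit 4) (nat_lit 117) (nat_lit 169) (nat_lit 164)))) (PT.nd (nat_lit 156) (PT.nd (nat_lit 78) (PT.lf (nat_lit 9196) (nat_lit 6) (nat_lit 121) (nat_lit 4) (nat_lit 118) (nat_lit 169) (nat_lit 163))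 (PT.lf (nat_lit 9576) (nat_lit 6) (nat_lit 126) (nat_lit 4) (nat_lit 119) (nat_lit 169) (nat_lit 162))) (PT.nd (nat_lit 78) (PT.lf (nat_lit 9880) (nat_lit 6) (nat_lit 130) (nat_lit 4) (nat_lit 120) (nat_lit 169) (nat_lit 161)) (PT.lf (nat_lit 10260) (nat_lit 6) (nat_lit 135) (nat_lit 4) (nat_lit 121) (nat_lit 169) (nat_lit 160))))))) (PT.nd (nat_lit 3900) (PT.nd (nat_lit 3276) (PT.nd (nat_lit 2964) (PT.nd (nat_lit 2808) (PT.nd (nat_lit 78) (PT.lf (nat_lit 10640) (nat_lit 6) (nat_lit 140) (nat_lit 4) (nat_lit 122) (nat_lit 169) (nat_lit 159)) (PT.lf (nat_lit 11096) (nat_lit 6) (nat_lit 146) (nat_lit 4) (nat_lit 123) (nat_lit 169) (nat_lit 158))) (PT.nd (nat_lit 78) (PT.lf (nat_lit 11096) (nat_lit 6) (nat_lit 146) (nat_lit 2) (nat_lit 158) (nat_lit 169) (nat_lit 123)) (PT.lf (nat_lit 10640) (nat_lit 6) (nat_lit 140) (nat_lit 2) (nat_lit 159) (nat_lit 169) (nat_lit 122)))) (PT.nd (nat_lit 156) (PT.nd (nat_lit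 78) (PT.lf (nat_lit 10260) (nat_lit 6) (nat_lit 135) (nat_lit 2) (nat_lit 160) (nat_lit 169) (nat_lit 121)) (PT.lf (nat_lit 9880) (nat_lit 6) (nat_lit 130) (nat_lit 2) (nat_lit 161) (nat_lit 169) (nat_lit 120))) (PT.nd (nat_lit 78) (PT.lf (nat_lit 9576) (nat_lit 6) (nat_lit 126) (nat_lit 2) (nat_lit 162) (nat_lit 169) (nat_lit 119)) (PT.lf (nat_lit 9196) (nat_lit 6) (nat_lit 121) (nat_lit 2) (nat_lit 163) (nat_lit 169) (nat_lit 118))))) (PT.nd (nat_lit 312) (PT.nd (nat_lit 156) (PT.nd (nat_lit 78) (PT.lf (nat_lit 8892) (nat_lit 6) (nat_lit 117) (nat_lit 2) (nat_lit 164) (nat_lit 169) (nat_lit 117)) (PT.lf (nat_lit 8588) (nat_lit 6) (nat_lit 113) (nat_lit 2) (nat_lit 165) (nat_lit 169) (nat_lit 116))) (PT.nd (nat_lit 78) (PT.lf (nat_lit 8284) (nat_lit 6) (nat_lit 109) (nat_lit 2) (nat_lit 166) (nat_lit 169) (nat_lit 115)) (PT.lf (nat_lit 7980) (nat_lit 6) (nat_lit 105) (nat_lit 2) (nat_lit 167) (nat_lit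 169) (nat_lit 114)))) (PT.nd (nat_lit 156) (PT.nd (nat_lit 78) (PT.lf (nat_lit 7752) (nat_lit 6) (nat_lit 102) (nat_lit 2) (nat_lit 168) (nat_lit 169) (nat_lit 113)) (PT.lf (nat_lit 7448) (nat_lit 3) (nat_lit 98) (nat_lit 0) (nat_lit 169) (nat_lit 169) (nat_lit 112))) (PT.nd (nat_lit 78) (PT.lf (nat_lit 7144) (nat_lit 6) (nat_lit 94) (nat_lit 0) (nat_lit 170) (nat_lit 169) (nat_lit 111)) (PT.lf (nat_lit 6764) (nat_lit 6) (nat_lit 89) (nat_lit 0) (nat_lit 171) (nat_lit 169) (nat_lit 110)))))) (PT.nd (nat_lit 42042) (PT.nd (nat_lit 41730) (PT.nd (nat_lit 156) (PT.nd (nat_lit 78) (PT.lf (nat_lit 6460) (nat_lit 6) (nat_lit 85) (nat_lit 0) (nat_lit 172) (nat_lit 169) (nat_lit 109)) (PT.lf (nat_lit 6156) (nat_lit 6) (nat_lit 81) (nat_lit 0) (nat_lit 173) (nat_lit 169) (nat_lit 108))) (PT.nd (nat_lit 41496) (PT.lf (nat_lit 5852) (nat_lit 6) (nat_lit 77) (nat_lit 0) (nat_lit 174) (nat_lit 169) (nat_lit 107)) (PT.lf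 (nat_lit 5396) (nat_lit 6) (nat_lit 71) (nat_lit 5) (nat_lit 105) (nat_lit 170) (nat_lit 175)))) (PT.nd (nat_lit 156) (PT.nd (nat_lit 78) (PT.lf (nat_lit 5624) (nat_lit 6) (nat_lit 74) (nat_lit 5) (nat_lit 106) (nat_lit 170) (nat_lit 174)) (PT.lf (nat_lit 5928) (nat_lit 6) (nat_lit 78) (nat_lit 5) (nat_lit 107) (nat_lit 170) (nat_lit 173))) (PT.nd (nat_lit 78) (PT.lf (nat_lit 6232) (nat_lit 6) (nat_lit 82) (nat_lit 5) (nat_lit 108) (nat_lit 170) (nat_lit 172)) (PT.lf (nat_lit 6536) (nat_lit 6) (nat_lit 86) (nat_lit 5) (nat_lit 109) (nat_lit 170) (nat_lit 171))))) (PT.nd (nat_lit 312) (PT.nd (nat_lit 156) (PT.nd (nat_lit 78) (PT.lf (nat_lit 6840) (nat_lit 3) (nat_lit 90) (nat_lit 4) (nat_lit 110) (nat_lit 170) (nat_lit 170)) (PT.lf (nat_lit 7144) (nat_lit 6) (nat_lit 94) (nat_lit 4) (nat_lit 111) (nat_lit 170) (nat_lit 169))) (PT.nd (nat_lit 78) (PT.lf (nat_lit 7372) (nat_lit 6) (nat_lit 97) (nat_lit 4)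 (nat_lit 112) (nat_lit 170) (nat_lit 168)) (PT.lf (nat_lit 7676) (nat_lit 6) (nat_lit 101) (nat_lit 4) (nat_lit 113) (nat_lit 170) (nat_lit 167)))) (PT.nd (nat_lit 156) (PT.nd (nat_lit 78) (PT.lf (nat_lit 7904) (nat_lit 6) (nat_lit 104) (nat_lit 4) (nat_lit 114) (nat_lit 170) (nat_lit 166)) (PT.lf (nat_lit 8208) (nat_lit 6) (nat_lit 108) (nat_lit 4) (nat_lit 115) (nat_lit 170) (nat_lit 165))) (PT.nd (nat_lit 78) (PT.lf (nat_lit 8512) (nat_lit 6) (nat_lit 112) (nat_lit 4) (nat_lit 116) (nat_lit 170) (nat_lit 164)) (PT.lf (nat_lit 8816) (nat_lit 6) (nat_lit 116) (nat_lit 4) (nat_lit 117) (nat_lit 170) (nat_lit 163))))))))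
noncomputable def pc27 : PT := (PT.nd (nat_lit 50466) (PT.nd (nat_lit 4446) (PT.nd (nat_lit 3822) (PT.nd (nat_lit 3510) (PT.nd (nat_lit 3354) (PT.nd (nat_lit 78) (PT.lf (nat_lit 9120) (nat_lit 6) (nat_lit 120) (nat_lit 4) (nat_lit 118) (nat_lit 170) (nat_lit 162)) (PT.lf (nat_lit 9500) (nat_lit 6) (nat_lit 125) (nat_lit 4) (nat_lit 119) (nat_lit 170) (nat_lit 161))) (PT.nd (nat_lit 78) (PT.lf (nat_lit 9500) (nat_lit 6) (nat_lit 125) (nat_lit 2) (nat_lit 161) (nat_lit 170) (nat_lit 119)) (PT.lf (nat_lit 9120) (nat_lit 6) (nat_lit 120) (nat_lit 2) (nat_lit 162) (nat_lit 170) (nat_lit 118)))) (PT.nd (nat_lit 156) (PT.nd (nat_lit 78) (PT.lf (nat_lit 8816) (nat_lit 6) (nat_lit 116) (nat_lit 2) (nat_lit 163) (nat_lit 170) (nat_lit 117)) (PT.lf (nat_lit 8512) (nat_lit 6) (nat_lit 112) (nat_lit 2) (nat_lit 164) (nat_lit 170) (nat_lit 116))) (PT.nd (nat_lit 78) (PT.lf (nat_lit 8208) (nat_lit 6) (nat_lit 108) (nat_lit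 2) (nat_lit 165) (nat_lit 170) (nat_lit 115)) (PT.lf (nat_lit 7904) (nat_lit 6) (nat_lit 104) (nat_lit 2) (nat_lit 166) (nat_lit 170) (nat_lit 114))))) (PT.nd (nat_lit 312) (PT.nd (nat_lit 156) (PT.nd (nat_lit 78) (PT.lf (nat_lit 7676) (nat_lit 6) (nat_lit 101) (nat_lit 2) (nat_lit 167) (nat_lit 170) (nat_lit 113)) (PT.lf (nat_lit 7372) (nat_lit 6) (nat_lit 97) (nat_lit 2) (nat_lit 168) (nat_lit 170) (nat_lit 112))) (PT.nd (nat_lit 78) (PT.lf (nat_lit 7144) (nat_lit 6) (nat_lit 94) (nat_lit 2) (nat_lit 169) (nat_lit 170) (nat_lit 111)) (PT.lf (nat_lit 6840) (nat_lit 3) (nat_lit 90) (nat_lit 0) (nat_lit 170) (nat_lit 170) (nat_lit 110)))) (PT.nd (nat_lit 156) (PT.nd (nat_lit 78) (PT.lf (nat_lit 6536) (nat_lit 6) (nat_lit 86) (nat_lit 0) (nat_lit 171) (nat_lit 170) (nat_lit 109)) (PT.lf (nat_lit 6232) (nat_lit 6) (nat_lit 82) (nat_lit 0) (nat_lit 172) (nat_lit 170) (nat_lit 108))) (PT.nd (nat_lit 78) (PT.lf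 (nat_lit 5928) (nat_lit 6) (nat_lit 78) (nat_lit 0) (nat_lit 173) (nat_lit 170) (nat_lit 107)) (PT.lf (nat_lit 5624) (nat_lit 6) (nat_lit 74) (nat_lit 0) (nat_lit 174) (nat_lit 170) (nat_lit 106)))))) (PT.nd (nat_lit 41808) (PT.nd (nat_lit 41496) (PT.nd (nat_lit 41340) (PT.nd (nat_lit 41262) (PT.lf (nat_lit 5396) (nat_lit 6) (nat_lit 71) (nat_lit 0) (nat_lit 175) (nat_lit 170) (nat_lit 105)) (PT.lf (nat_lit 4940) (nat_lit 6) (nat_lit 65) (nat_lit 5) (nat_lit 103) (nat_lit 171) (nat_lit 176))) (PT.nd (nat_lit 78) (PT.lf (nat_lit 5168) (nat_lit 6) (nat_lit 68) (nat_lit 5) (nat_lit 104) (nat_lit 171) (nat_lit 175)) (PT.lf (nat_lit 5472) (nat_lit 6) (nat_lit 72) (nat_lit 5) (nat_lit 105) (nat_lit 171) (nat_lit 174)))) (PT.nd (nat_lit 156) (PT.nd (nat_lit 78) (PT.lf (nat_lit 5700) (nat_lit 6) (nat_lit 75) (nat_lit 5) (nat_lit 106) (nat_lit 171) (nat_lit 173)) (PT.lf (nat_lit 6004) (nat_lit 6) (nat_lit 79) (nat_lit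 5) (nat_lit 107) (nat_lit 171) (nat_lit 172))) (PT.nd (nat_lit 78) (PT.lf (nat_lit 6308) (nat_lit 3) (nat_lit 83) (nat_lit 4) (nat_lit 108) (nat_lit 171) (nat_lit 171)) (PT.lf (nat_lit 6536) (nat_lit 6) (nat_lit 86) (nat_lit 4) (nat_lit 109) (nat_lit 171) (nat_lit 170))))) (PT.nd (nat_lit 312) (PT.nd (nat_lit 156) (PT.nd (nat_lit 78) (PT.lf (nat_lit 6764) (nat_lit 6) (nat_lit 89) (nat_lit 4) (nat_lit 110) (nat_lit 171) (nat_lit 169)) (PT.lf (nat_lit 7068) (nat_lit 6) (nat_lit 93) (nat_lit 4) (nat_lit 111) (nat_lit 171) (nat_lit 168))) (PT.nd (nat_lit 78) (PT.lf (nat_lit 7296) (nat_lit 6) (nat_lit 96) (nat_lit 4) (nat_lit 112) (nat_lit 171) (nat_lit 167)) (PT.lf (nat_lit 7600) (nat_lit 6) (nat_lit 100) (nat_lit 4) (nat_lit 113) (nat_lit 171) (nat_lit 166)))) (PT.nd (nat_lit 156) (PT.nd (nat_lit 78) (PT.lf (nat_lit 7828) (nat_lit 6) (nat_lit 103) (nat_lit 4) (nat_lit 114) (nat_lit 171) (nat_lit 165)) (PT.lf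 (nat_lit 8132) (nat_lit 6) (nat_lit 107) (nat_lit 4) (nat_lit 115) (nat_lit 171) (nat_lit 164))) (PT.nd (nat_lit 3666) (PT.lf (nat_lit 8436) (nat_lit 6) (nat_lit 111) (nat_lit 4) (nat_lit 116) (nat_lit 171) (nat_lit 163)) (PT.lf (nat_lit 8436) (nat_lit 6) (nat_lit 111) (nat_lit 2) (nat_lit 163) (nat_lit 171) (nat_lit 116))))))) (PT.nd (nat_lit 42276) (PT.nd (nat_lit 624) (PT.nd (nat_lit 312) (PT.nd (nat_lit 156) (PT.nd (nat_lit 78) (PT.lf (nat_lit 8132) (nat_lit 6) (nat_lit 107) (nat_lit 2) (nat_lit 164) (nat_lit 171) (nat_lit 115)) (PT.lf (nat_lit 7828) (nat_lit 6) (nat_lit 103) (nat_lit 2) (nat_lit 165) (nat_lit 171) (nat_lit 114))) (PT.nd (nat_lit 78) (PT.lf (nat_lit 7600) (nat_lit 6) (nat_lit 100) (nat_lit 2) (nat_lit 166) (nat_lit 171) (nat_lit 113)) (PT.lf (nat_lit 7296) (nat_lit 6) (nat_lit 96) (nat_lit 2) (nat_lit 167) (nat_lit 171) (nat_lit 112)))) (PT.nd (nat_lit 156) (PT.nd (nat_lit 78) (PT.lf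 (nat_lit 7068) (nat_lit 6) (nat_lit 93) (nat_lit 2) (nat_lit 168) (nat_lit 171) (nat_lit 111)) (PT.lf (nat_lit 6764) (nat_lit 6) (nat_lit 89) (nat_lit 2) (nat_lit 169) (nat_lit 171) (nat_lit 110))) (PT.nd (nat_lit 78) (PT.lf (nat_lit 6536) (nat_lit 6) (nat_lit 86) (nat_lit 2) (nat_lit 170) (nat_lit 171) (nat_lit 109)) (PT.lf (nat_lit 6308) (nat_lit 3) (nat_lit 83) (nat_lit 0) (nat_lit 171) (nat_lit 171) (nat_lit 108))))) (PT.nd (nat_lit 312) (PT.nd (nat_lit 156) (PT.nd (nat_lit 78) (PT.lf (nat_lit 6004) (nat_lit 6) (nat_lit 79) (nat_lit 0) (nat_lit 172) (nat_lit 171) (nat_lit 107)) (PT.lf (nat_lit 5700) (nat_lit 6) (nat_lit 75) (nat_lit 0) (nat_lit 173) (nat_lit 171) (nat_lit 106))) (PT.nd (nat_lit 78) (PT.lf (nat_lit 5472) (nat_lit 6) (nat_lit 72) (nat_lit 0) (nat_lit 174) (nat_lit 171) (nat_lit 105)) (PT.lf (nat_lit 5168) (nat_lit 6) (nat_lit 68) (nat_lit 0) (nat_lit 175) (nat_lit 171) (nat_lit 104))))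 (PT.nd (nat_lit 41184) (PT.nd (nat_lit 41106) (PT.lf (nat_lit 4940) (nat_lit 6) (nat_lit 65) (nat_lit 0) (nat_lit 176) (nat_lit 171) (nat_lit 103)) (PT.lf (nat_lit 4712) (nat_lit 6) (nat_lit 62) (nat_lit 5) (nat_lit 102) (nat_lit 172) (nat_lit 176))) (PT.nd (nat_lit 78) (PT.lf (nat_lit 5016) (nat_lit 6) (nat_lit 66) (nat_lit 5) (nat_lit 103) (nat_lit 172) (nat_lit 175)) (PT.lf (nat_lit 5244) (nat_lit 6) (nat_lit 69) (nat_lit 5) (nat_lit 104) (nat_lit 172) (nat_lit 174)))))) (PT.nd (nat_lit 624) (PT.nd (nat_lit 312) (PT.nd (nat_lit 156) (PT.nd (nat_lit 78) (PT.lf (nat_lit 5548) (nat_lit 6) (nat_lit 73) (nat_lit 5) (nat_lit 105) (nat_lit 172) (nat_lit 173)) (PT.lf (nat_lit 5776) (nat_lit 3) (nat_lit 76) (nat_lit 4) (nat_lit 106) (nat_lit 172) (nat_lit 172))) (PT.nd (nat_lit 78) (PT.lf (nat_lit 6004) (nat_lit 6) (nat_lit 79) (nat_lit 4) (nat_lit 107) (nat_lit 172) (nat_lit 171)) (PT.lf (nat_lit 6232) (nat_lit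 6) (nat_lit 82) (nat_lit 4) (nat_lit 108) (nat_lit 172) (nat_lit 170)))) (PT.nd (nat_lit 156) (PT.nd (nat_lit 78) (PT.lf (nat_lit 6460) (nat_lit 6) (nat_lit 85) (nat_lit 4) (nat_lit 109) (nat_lit 172) (nat_lit 169)) (PT.lf (nat_lit 6688) (nat_lit 6) (nat_lit 88) (nat_lit 4) (nat_lit 110) (nat_lit 172) (nat_lit 168))) (PT.nd (nat_lit 78) (PT.lf (nat_lit 6992) (nat_lit 6) (nat_lit 92) (nat_lit 4) (nat_lit 111) (nat_lit 172) (nat_lit 167)) (PT.lf (nat_lit 7220) (nat_lit 6) (nat_lit 95) (nat_lit 4) (nat_lit 112) (nat_lit 172) (nat_lit 166))))) (PT.nd (nat_lit 4290) (PT.nd (nat_lit 4134) (PT.nd (nat_lit 4056) (PT.lf (nat_lit 7524) (nat_lit 6) (nat_lit 99) (nat_lit 4) (nat_lit 113) (nat_lit 172) (nat_lit 165)) (PT.lf (nat_lit 7524) (nat_lit 6) (nat_lit 99) (nat_lit 2) (nat_lit 165) (nat_lit 172) (nat_lit 113))) (PT.nd (nat_lit 78) (PT.lf (nat_lit 7220) (nat_lit 6) (nat_lit 95) (nat_lit 2) (nat_lit 166) (nat_lit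 172) (nat_lit 112)) (PT.lf (nat_lit 6992) (nat_lit 6) (nat_lit 92) (nat_lit 2) (nat_lit 167) (nat_lit 172) (nat_lit 111)))) (PT.nd (nat_lit 156) (PT.nd (nat_lit 78) (PT.lf (nat_lit 6688) (nat_lit 6) (nat_lit 88) (nat_lit 2) (nat_lit 168) (nat_lit 172) (nat_lit 110)) (PT.lf (nat_lit 6460) (nat_lit 6) (nat_lit 85) (nat_lit 2) (nat_lit 169) (nat_lit 172) (nat_lit 109))) (PT.nd (nat_lit 78) (PT.lf (nat_lit 6232) (nat_lit 6) (nat_lit 82) (nat_lit 2) (nat_lit 170) (nat_lit 172) (nat_lit 108)) (PT.lf (nat_lit 6004) (nat_lit 6) (nat_lit 79) (nat_lit 2) (nat_lit 171) (nat_lit 172) (nat_lit 107))))))))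
noncomputable def pc28 : PT := (PT.nd (nat_lit 88296) (PT.nd (nat_lit 42042) (PT.nd (nat_lit 41418) (PT.nd (nat_lit 234) (PT.nd (nat_lit 78) (PT.lf (nat_lit 5776) (nat_lit 3) (nat_lit 76) (nat_lit 0) (nat_lit 172) (nat_lit 172) (nat_lit 106)) (PT.nd (nat_lit 78) (PT.lf (nat_lit 5548) (nat_lit 6) (nat_lit 73) (nat_lit 0) (nat_lit 173) (nat_lit 172) (nat_lit 105)) (PT.lf (nat_lit 5244) (nat_lit 6) (nat_lit 69) (nat_lit 0) (nat_lit 174) (nat_lit 172) (nat_lit 104)))) (PT.nd (nat_lit 41028) (PT.nd (nat_lit 78) (PT.lf (nat_lit 5016) (nat_lit 6) (nat_lit 66) (nat_lit 0) (nat_lit 175) (nat_lit 172) (nat_lit 103)) (PT.lf (nat_lit 4712) (nat_lit 6) (nat_lit 62) (nat_lit 0) (nat_lit 176) (nat_lit 172) (nat_lit 102))) (PT.nd (nat_lit 78) (PT.lf (nat_lit 4332) (nat_lit 6) (nat_lit 57) (nat_lit 5) (nat_lit 100) (nat_lit 173) (nat_lit 177)) (PT.lf (nat_lit 4560) (nat_lit 6) (nat_lit 60) (nat_lit 5) (nat_lit 101) (nat_lit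 173) (nat_lit 176))))) (PT.nd (nat_lit 312) (PT.nd (nat_lit 156) (PT.nd (nat_lit 78) (PT.lf (nat_lit 4788) (nat_lit 6) (nat_lit 63) (nat_lit 5) (nat_lit 102) (nat_lit 173) (nat_lit 175)) (PT.lf (nat_lit 5092) (nat_lit 6) (nat_lit 67) (nat_lit 5) (nat_lit 103) (nat_lit 173) (nat_lit 174))) (PT.nd (nat_lit 78) (PT.lf (nat_lit 5320) (nat_lit 3) (nat_lit 70) (nat_lit 4) (nat_lit 104) (nat_lit 173) (nat_lit 173)) (PT.lf (nat_lit 5548) (nat_lit 6) (nat_lit 73) (nat_lit 4) (nat_lit 105) (nat_lit 173) (nat_lit 172)))) (PT.nd (nat_lit 156) (PT.nd (nat_lit 78) (PT.lf (nat_lit 5700) (nat_lit 6) (nat_lit 75) (nat_lit 4) (nat_lit 106) (nat_lit 173) (nat_lit 171)) (PT.lf (nat_lit 5928) (nat_lit 6) (nat_lit 78) (nat_lit 4) (nat_lit 107) (nat_lit 173) (nat_lit 170))) (PT.nd (nat_lit 78) (PT.lf (nat_lit 6156) (nat_lit 6) (nat_lit 81) (nat_lit 4) (nat_lit 108) (nat_lit 173) (nat_lit 169)) (PT.lf (nat_lit 6384) (nat_lit 6)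 (nat_lit 84) (nat_lit 4) (nat_lit 109) (nat_lit 173) (nat_lit 168)))))) (PT.nd (nat_lit 4992) (PT.nd (nat_lit 4680) (PT.nd (nat_lit 4524) (PT.nd (nat_lit 4446) (PT.lf (nat_lit 6612) (nat_lit 6) (nat_lit 87) (nat_lit 4) (nat_lit 110) (nat_lit 173) (nat_lit 167)) (PT.lf (nat_lit 6612) (nat_lit 6) (nat_lit 87) (nat_lit 2) (nat_lit 167) (nat_lit 173) (nat_lit 110))) (PT.nd (nat_lit 78) (PT.lf (nat_lit 6384) (nat_lit 6) (nat_lit 84) (nat_lit 2) (nat_lit 168) (nat_lit 173) (nat_lit 109)) (PT.lf (nat_lit 6156) (nat_lit 6) (nat_lit 81) (nat_lit 2) (nat_lit 169) (nat_lit 173) (nat_lit 108)))) (PT.nd (nat_lit 156) (PT.nd (nat_lit 78) (PT.lf (nat_lit 5928) (nat_lit 6) (nat_lit 78) (nat_lit 2) (nat_lit 170) (nat_lit 173) (nat_lit 107)) (PT.lf (nat_lit 5700) (nat_lit 6) (nat_lit 75) (nat_lit 2) (nat_lit 171) (nat_lit 173) (nat_lit 106))) (PT.nd (nat_lit 78) (PT.lf (nat_lit 5548) (nat_lit 6) (nat_lit 73) (nat_lit 2)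 (nat_lit 172) (nat_lit 173) (nat_lit 105)) (PT.lf (nat_lit 5320) (nat_lit 3) (nat_lit 70) (nat_lit 0) (nat_lit 173) (nat_lit 173) (nat_lit 104))))) (PT.nd (nat_lit 40950) (PT.nd (nat_lit 156) (PT.nd (nat_lit 78) (PT.lf (nat_lit 5092) (nat_lit 6) (nat_lit 67) (nat_lit 0) (nat_lit 174) (nat_lit 173) (nat_lit 103)) (PT.lf (nat_lit 4788) (nat_lit 6) (nat_lit 63) (nat_lit 0) (nat_lit 175) (nat_lit 173) (nat_lit 102))) (PT.nd (nat_lit 78) (PT.lf (nat_lit 4560) (nat_lit 6) (nat_lit 60) (nat_lit 0) (nat_lit 176) (nat_lit 173) (nat_lit 101)) (PT.lf (nat_lit 4332) (nat_lit 6) (nat_lit 57) (nat_lit 0) (nat_lit 177) (nat_lit 173) (nat_lit 100)))) (PT.nd (nat_lit 156) (PT.nd (nat_lit 78) (PT.lf (nat_lit 3952) (nat_lit 6) (nat_lit 52) (nat_lit 5) (nat_lit 98) (nat_lit 174) (nat_lit 178)) (PT.lf (nat_lit 4180) (nat_lit 6) (nat_lit 55) (nat_lit 5) (nat_lit 99) (nat_lit 174) (nat_lit 177))) (PT.nd (nat_lit 78) (PT.lf (nat_lit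 4408) (nat_lit 6) (nat_lit 58) (nat_lit 5) (nat_lit 100) (nat_lit 174) (nat_lit 176)) (PT.lf (nat_lit 4636) (nat_lit 6) (nat_lit 61) (nat_lit 5) (nat_lit 101) (nat_lit 174) (nat_lit 175))))))) (PT.nd (nat_lit 5850) (PT.nd (nat_lit 5226) (PT.nd (nat_lit 312) (PT.nd (nat_lit 156) (PT.nd (nat_lit 78) (PT.lf (nat_lit 4864) (nat_lit 3) (nat_lit 64) (nat_lit 4) (nat_lit 102) (nat_lit 174) (nat_lit 174)) (PT.lf (nat_lit 5092) (nat_lit 6) (nat_lit 67) (nat_lit 4) (nat_lit 103) (nat_lit 174) (nat_lit 173))) (PT.nd (nat_lit 78) (PT.lf (nat_lit 5244) (nat_lit 6) (nat_lit 69) (nat_lit 4) (nat_lit 104) (nat_lit 174) (nat_lit 172)) (PT.lf (nat_lit 5472) (nat_lit 6) (nat_lit 72) (nat_lit 4) (nat_lit 105) (nat_lit 174) (nat_lit 171)))) (PT.nd (nat_lit 156) (PT.nd (nat_lit 78) (PT.lf (nat_lit 5624) (nat_lit 6) (nat_lit 74) (nat_lit 4) (nat_lit 106) (nat_lit 174) (nat_lit 170)) (PT.lf (nat_lit 5852) (nat_lit 6) (nat_lit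 77) (nat_lit 4) (nat_lit 107) (nat_lit 174) (nat_lit 169))) (PT.nd (nat_lit 4680) (PT.lf (nat_lit 6080) (nat_lit 6) (nat_lit 80) (nat_lit 4) (nat_lit 108) (nat_lit 174) (nat_lit 168)) (PT.lf (nat_lit 6080) (nat_lit 6) (nat_lit 80) (nat_lit 2) (nat_lit 168) (nat_lit 174) (nat_lit 108))))) (PT.nd (nat_lit 312) (PT.nd (nat_lit 156) (PT.nd (nat_lit 78) (PT.lf (nat_lit 5852) (nat_lit 6) (nat_lit 77) (nat_lit 2) (nat_lit 169) (nat_lit 174) (nat_lit 107)) (PT.lf (nat_lit 5624) (nat_lit 6) (nat_lit 74) (nat_lit 2) (nat_lit 170) (nat_lit 174) (nat_lit 106))) (PT.nd (nat_lit 78) (PT.lf (nat_lit 5472) (nat_lit 6) (nat_lit 72) (nat_lit 2) (nat_lit 171) (nat_lit 174) (nat_lit 105)) (PT.lf (nat_lit 5244) (nat_lit 6) (nat_lit 69) (nat_lit 2) (nat_lit 172) (nat_lit 174) (nat_lit 104)))) (PT.nd (nat_lit 156) (PT.nd (nat_lit 78) (PT.lf (nat_lit 5092) (nat_lit 6) (nat_lit 67) (nat_lit 2) (nat_lit 173) (nat_lit 174) (nat_lit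 103)) (PT.lf (nat_lit 4864) (nat_lit 3) (nat_lit 64) (nat_lit 0) (nat_lit 174) (nat_lit 174) (nat_lit 102))) (PT.nd (nat_lit 78) (PT.lf (nat_lit 4636) (nat_lit 6) (nat_lit 61) (nat_lit 0) (nat_lit 175) (nat_lit 174) (nat_lit 101)) (PT.lf (nat_lit 4408) (nat_lit 6) (nat_lit 58) (nat_lit 0) (nat_lit 176) (nat_lit 174) (nat_lit 100)))))) (PT.nd (nat_lit 41028) (PT.nd (nat_lit 40716) (PT.nd (nat_lit 40560) (PT.nd (nat_lit 78) (PT.lf (nat_lit 4180) (nat_lit 6) (nat_lit 55) (nat_lit 0) (nat_lit 177) (nat_lit 174) (nat_lit 99)) (PT.lf (nat_lit 3952) (nat_lit 6) (nat_lit 52) (nat_lit 0) (nat_lit 178) (nat_lit 174) (nat_lit 98))) (PT.nd (nat_lit 78) (PT.lf (nat_lit 3572) (nat_lit 6) (nat_lit 47) (nat_lit 5) (nat_lit 96) (nat_lit 175) (nat_lit 179)) (PT.lf (nat_lit 3800) (nat_lit 6) (nat_lit 50) (nat_lit 5) (nat_lit 97) (nat_lit 175) (nat_lit 178)))) (PT.nd (nat_lit 156) (PT.nd (nat_lit 78) (PT.lf (nat_lit 4028)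 (nat_lit 6) (nat_lit 53) (nat_lit 5) (nat_lit 98) (nat_lit 175) (nat_lit 177)) (PT.lf (nat_lit 4256) (nat_lit 6) (nat_lit 56) (nat_lit 5) (nat_lit 99) (nat_lit 175) (nat_lit 176))) (PT.nd (nat_lit 78) (PT.lf (nat_lit 4484) (nat_lit 3) (nat_lit 59) (nat_lit 4) (nat_lit 100) (nat_lit 175) (nat_lit 175)) (PT.lf (nat_lit 4636) (nat_lit 6) (nat_lit 61) (nat_lit 4) (nat_lit 101) (nat_lit 175) (nat_lit 174))))) (PT.nd (nat_lit 5304) (PT.nd (nat_lit 156) (PT.nd (nat_lit 78) (PT.lf (nat_lit 4788) (nat_lit 6) (nat_lit 63) (nat_lit 4) (nat_lit 102) (nat_lit 175) (nat_lit 173)) (PT.lf (nat_lit 5016) (nat_lit 6) (nat_lit 66) (nat_lit 4) (nat_lit 103) (nat_lit 175) (nat_lit 172))) (PT.nd (nat_lit 78) (PT.lf (nat_lit 5168) (nat_lit 6) (nat_lit 68) (nat_lit 4) (nat_lit 104) (nat_lit 175) (nat_lit 171)) (PT.lf (nat_lit 5396) (nat_lit 6) (nat_lit 71) (nat_lit 4) (nat_lit 105) (nat_lit 175) (nat_lit 170)))) (PT.nd (nat_lit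 156) (PT.nd (nat_lit 78) (PT.lf (nat_lit 5396) (nat_lit 6) (nat_lit 71) (nat_lit 2) (nat_lit 170) (nat_lit 175) (nat_lit 105)) (PT.lf (nat_lit 5168) (nat_lit 6) (nat_lit 68) (nat_lit 2) (nat_lit 171) (nat_lit 175) (nat_lit 104))) (PT.nd (nat_lit 78) (PT.lf (nat_lit 5016) (nat_lit 6) (nat_lit 66) (nat_lit 2) (nat_lit 172) (nat_lit 175) (nat_lit 103)) (PT.lf (nat_lit 4788) (nat_lit 6) (nat_lit 63) (nat_lit 2) (nat_lit 173) (nat_lit 175) (nat_lit 102))))))))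
noncomputable def pc29 : PT := (PT.nd (nat_lit 93678) (PT.nd (nat_lit 46722) (PT.nd (nat_lit 40872) (PT.nd (nat_lit 312) (PT.nd (nat_lit 156) (PT.nd (nat_lit 78) (PT.lf (nat_lit 4636) (nat_lit 6) (nat_lit 61) (nat_lit 2) (nat_lit 174) (nat_lit 175) (nat_lit 101)) (PT.lf (nat_lit 4484) (nat_lit 3) (nat_lit 59) (nat_lit 0) (nat_lit 175) (nat_lit 175) (nat_lit 100))) (PT.nd (nat_lit 78) (PT.lf (nat_lit 4256) (nat_lit 6) (nat_lit 56) (nat_lit 0) (nat_lit 176) (nat_lit 175) (nat_lit 99)) (PT.lf (nat_lit 4028) (nat_lit 6) (nat_lit 53) (nat_lit 0) (nat_lit 177) (nat_lit 175) (nat_lit 98)))) (PT.nd (nat_lit 40404) (PT.nd (nat_lit 78) (PT.lf (nat_lit 3800) (nat_lit 6) (nat_lit 50) (nat_lit 0) (nat_lit 178) (nat_lit 175) (nat_lit 97)) (PT.lf (nat_lit 3572) (nat_lit 6) (nat_lit 47) (nat_lit 0) (nat_lit 179) (nat_lit 175) (nat_lit 96))) (PT.nd (nat_lit 78) (PT.lf (nat_lit 3420) (nat_lit 6) (nat_lit 45) (nat_lit 5)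 (nat_lit 95) (nat_lit 176) (nat_lit 179)) (PT.lf (nat_lit 3648) (nat_lit 6) (nat_lit 48) (nat_lit 5) (nat_lit 96) (nat_lit 176) (nat_lit 178))))) (PT.nd (nat_lit 312) (PT.nd (nat_lit 156) (PT.nd (nat_lit 78) (PT.lf (nat_lit 3876) (nat_lit 6) (nat_lit 51) (nat_lit 5) (nat_lit 97) (nat_lit 176) (nat_lit 177)) (PT.lf (nat_lit 4104) (nat_lit 3) (nat_lit 54) (nat_lit 4) (nat_lit 98) (nat_lit 176) (nat_lit 176))) (PT.nd (nat_lit 78) (PT.lf (nat_lit 4256) (nat_lit 6) (nat_lit 56) (nat_lit 4) (nat_lit 99) (nat_lit 176) (nat_lit 175)) (PT.lf (nat_lit 4408) (nat_lit 6) (nat_lit 58) (nat_lit 4) (nat_lit 100) (nat_lit 176) (nat_lit 174)))) (PT.nd (nat_lit 156) (PT.nd (nat_lit 78) (PT.lf (nat_lit 4560) (nat_lit 6) (nat_lit 60) (nat_lit 4) (nat_lit 101) (nat_lit 176) (nat_lit 173)) (PT.lf (nat_lit 4712) (nat_lit 6) (nat_lit 62) (nat_lit 4) (nat_lit 102) (nat_lit 176) (nat_lit 172))) (PT.nd (nat_lit 5304) (PT.lf (nat_lit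 4940) (nat_lit 6) (nat_lit 65) (nat_lit 4) (nat_lit 103) (nat_lit 176) (nat_lit 171)) (PT.lf (nat_lit 4940) (nat_lit 6) (nat_lit 65) (nat_lit 2) (nat_lit 171) (nat_lit 176) (nat_lit 103)))))) (PT.nd (nat_lit 40716) (PT.nd (nat_lit 312) (PT.nd (nat_lit 156) (PT.nd (nat_lit 78) (PT.lf (nat_lit 4712) (nat_lit 6) (nat_lit 62) (nat_lit 2) (nat_lit 172) (nat_lit 176) (nat_lit 102)) (PT.lf (nat_lit 4560) (nat_lit 6) (nat_lit 60) (nat_lit 2) (nat_lit 173) (nat_lit 176) (nat_lit 101))) (PT.nd (nat_lit 78) (PT.lf (nat_lit 4408) (nat_lit 6) (nat_lit 58) (nat_lit 2) (nat_lit 174) (nat_lit 176) (nat_lit 100)) (PT.lf (nat_lit 4256) (nat_lit 6) (nat_lit 56) (nat_lit 2) (nat_lit 175) (nat_lit 176) (nat_lit 99)))) (PT.nd (nat_lit 156) (PT.nd (nat_lit 78) (PT.lf (nat_lit 4104) (nat_lit 3) (nat_lit 54) (nat_lit 0) (nat_lit 176) (nat_lit 176) (nat_lit 98)) (PT.lf (nat_lit 3876) (nat_lit 6) (nat_lit 51) (nat_lit 0) (nat_lit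 177) (nat_lit 176) (nat_lit 97))) (PT.nd (nat_lit 78) (PT.lf (nat_lit 3648) (nat_lit 6) (nat_lit 48) (nat_lit 0) (nat_lit 178) (nat_lit 176) (nat_lit 96)) (PT.lf (nat_lit 3420) (nat_lit 6) (nat_lit 45) (nat_lit 0) (nat_lit 179) (nat_lit 176) (nat_lit 95))))) (PT.nd (nat_lit 312) (PT.nd (nat_lit 156) (PT.nd (nat_lit 78) (PT.lf (nat_lit 3116) (nat_lit 6) (nat_lit 41) (nat_lit 5) (nat_lit 93) (nat_lit 177) (nat_lit 180)) (PT.lf (nat_lit 3268) (nat_lit 6) (nat_lit 43) (nat_lit 5) (nat_lit 94) (nat_lit 177) (nat_lit 179))) (PT.nd (nat_lit 78) (PT.lf (nat_lit 3496) (nat_lit 6) (nat_lit 46) (nat_lit 5) (nat_lit 95) (nat_lit 177) (nat_lit 178)) (PT.lf (nat_lit 3724) (nat_lit 3) (nat_lit 49) (nat_lit 4) (nat_lit 96) (nat_lit 177) (nat_lit 177)))) (PT.nd (nat_lit 156) (PT.nd (nat_lit 78) (PT.lf (nat_lit 3876) (nat_lit 6) (nat_lit 51) (nat_lit 4) (nat_lit 97) (nat_lit 177) (nat_lit 176)) (PT.lf (nat_lit 4028) (nat_lit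 6) (nat_lit 53) (nat_lit 4) (nat_lit 98) (nat_lit 177) (nat_lit 175))) (PT.nd (nat_lit 78) (PT.lf (nat_lit 4180) (nat_lit 6) (nat_lit 55) (nat_lit 4) (nat_lit 99) (nat_lit 177) (nat_lit 174)) (PT.lf (nat_lit 4332) (nat_lit 6) (nat_lit 57) (nat_lit 4) (nat_lit 100) (nat_lit 177) (nat_lit 173))))))) (PT.nd (nat_lit 46956) (PT.nd (nat_lit 40482) (PT.nd (nat_lit 312) (PT.nd (nat_lit 156) (PT.nd (nat_lit 78) (PT.lf (nat_lit 4332) (nat_lit 6) (nat_lit 57) (nat_lit 2) (nat_lit 173) (nat_lit 177) (nat_lit 100)) (PT.lf (nat_lit 4180) (nat_lit 6) (nat_lit 55) (nat_lit 2) (nat_lit 174) (nat_lit 177) (nat_lit 99))) (PT.nd (nat_lit 78) (PT.lf (nat_lit 4028) (nat_lit 6) (nat_lit 53) (nat_lit 2) (nat_lit 175) (nat_lit 177) (nat_lit 98)) (PT.lf (nat_lit 3876) (nat_lit 6) (nat_lit 51) (nat_lit 2) (nat_lit 176) (nat_lit 177) (nat_lit 97)))) (PT.nd (nat_lit 156) (PT.nd (nat_lit 78) (PT.lf (nat_lit 3724) (nat_lit 3) (nat_lit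 49) (nat_lit 0) (nat_lit 177) (nat_lit 177) (nat_lit 96)) (PT.lf (nat_lit 3496) (nat_lit 6) (nat_lit 46) (nat_lit 0) (nat_lit 178) (nat_lit 177) (nat_lit 95))) (PT.nd (nat_lit 78) (PT.lf (nat_lit 3268) (nat_lit 6) (nat_lit 43) (nat_lit 0) (nat_lit 179) (nat_lit 177) (nat_lit 94)) (PT.lf (nat_lit 3116) (nat_lit 6) (nat_lit 41) (nat_lit 0) (nat_lit 180) (nat_lit 177) (nat_lit 93))))) (PT.nd (nat_lit 312) (PT.nd (nat_lit 156) (PT.nd (nat_lit 78) (PT.lf (nat_lit 2812) (nat_lit 6) (nat_lit 37) (nat_lit 5) (nat_lit 91) (nat_lit 178) (nat_lit 181)) (PT.lf (nat_lit 2964) (nat_lit 6) (nat_lit 39) (nat_lit 5) (nat_lit 92) (nat_lit 178) (nat_lit 180))) (PT.nd (nat_lit 78) (PT.lf (nat_lit 3192) (nat_lit 6) (nat_lit 42) (nat_lit 5) (nat_lit 93) (nat_lit 178) (nat_lit 179)) (PT.lf (nat_lit 3344) (nat_lit 3) (nat_lit 44) (nat_lit 4) (nat_lit 94) (nat_lit 178) (nat_lit 178)))) (PT.nd (nat_lit 156) (PT.nd (nat_lit 78) (PT.lf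 (nat_lit 3496) (nat_lit 6) (nat_lit 46) (nat_lit 4) (nat_lit 95) (nat_lit 178) (nat_lit 177)) (PT.lf (nat_lit 3648) (nat_lit 6) (nat_lit 48) (nat_lit 4) (nat_lit 96) (nat_lit 178) (nat_lit 176))) (PT.nd (nat_lit 78) (PT.lf (nat_lit 3800) (nat_lit 6) (nat_lit 50) (nat_lit 4) (nat_lit 97) (nat_lit 178) (nat_lit 175)) (PT.lf (nat_lit 3952) (nat_lit 6) (nat_lit 52) (nat_lit 4) (nat_lit 98) (nat_lit 178) (nat_lit 174)))))) (PT.nd (nat_lit 40248) (PT.nd (nat_lit 312) (PT.nd (nat_lit 156) (PT.nd (nat_lit 78) (PT.lf (nat_lit 3952) (nat_lit 6) (nat_lit 52) (nat_lit 2) (nat_lit 174) (nat_lit 178) (nat_lit 98)) (PT.lf (nat_lit 3800) (nat_lit 6) (nat_lit 50) (nat_lit 2) (nat_lit 175) (nat_lit 178) (nat_lit 97))) (PT.nd (nat_lit 78) (PT.lf (nat_lit 3648) (nat_lit 6) (nat_lit 48) (nat_lit 2) (nat_lit 176) (nat_lit 178) (nat_lit 96)) (PT.lf (nat_lit 3496) (nat_lit 6) (nat_lit 46) (nat_lit 2) (nat_lit 177) (nat_lit 178)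 (nat_lit 95)))) (PT.nd (nat_lit 156) (PT.nd (nat_lit 78) (PT.lf (nat_lit 3344) (nat_lit 3) (nat_lit 44) (nat_lit 0) (nat_lit 178) (nat_lit 178) (nat_lit 94)) (PT.lf (nat_lit 3192) (nat_lit 6) (nat_lit 42) (nat_lit 0) (nat_lit 179) (nat_lit 178) (nat_lit 93))) (PT.nd (nat_lit 78) (PT.lf (nat_lit 2964) (nat_lit 6) (nat_lit 39) (nat_lit 0) (nat_lit 180) (nat_lit 178) (nat_lit 92)) (PT.lf (nat_lit 2812) (nat_lit 6) (nat_lit 37) (nat_lit 0) (nat_lit 181) (nat_lit 178) (nat_lit 91))))) (PT.nd (nat_lit 312) (PT.nd (nat_lit 156) (PT.nd (nat_lit 78) (PT.lf (nat_lit 2508) (nat_lit 6) (nat_lit 33) (nat_lit 5) (nat_lit 89) (nat_lit 179) (nat_lit 182)) (PT.lf (nat_lit 2660) (nat_lit 6) (nat_lit 35) (nat_lit 5) (nat_lit 90) (nat_lit 179) (nat_lit 181))) (PT.nd (nat_lit 78) (PT.lf (nat_lit 2888) (nat_lit 6) (nat_lit 38) (nat_lit 5) (nat_lit 91) (nat_lit 179) (nat_lit 180)) (PT.lf (nat_lit 3040) (nat_lit 3) (nat_lit 40)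 (nat_lit 4) (nat_lit 92) (nat_lit 179) (nat_lit 179)))) (PT.nd (nat_lit 156) (PT.nd (nat_lit 78) (PT.lf (nat_lit 3192) (nat_lit 6) (nat_lit 42) (nat_lit 4) (nat_lit 93) (nat_lit 179) (nat_lit 178)) (PT.lf (nat_lit 3268) (nat_lit 6) (nat_lit 43) (nat_lit 4) (nat_lit 94) (nat_lit 179) (nat_lit 177))) (PT.nd (nat_lit 78) (PT.lf (nat_lit 3420) (nat_lit 6) (nat_lit 45) (nat_lit 4) (nat_lit 95) (nat_lit 179) (nat_lit 176)) (PT.lf (nat_lit 3572) (nat_lit 6) (nat_lit 47) (nat_lit 4) (nat_lit 96) (nat_lit 179) (nat_lit 175))))))))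
noncomputable def pc30 : PT := (PT.nd (nat_lit 94302) (PT.nd (nat_lit 47112) (PT.nd (nat_lit 40014) (PT.nd (nat_lit 312) (PT.nd (nat_lit 156) (PT.nd (nat_lit 78) (PT.lf (nat_lit 3572) (nat_lit 6) (nat_lit 47) (nat_lit 2) (nat_lit 175) (nat_lit 179) (nat_lit 96)) (PT.lf (nat_lit 3420) (nat_lit 6) (nat_lit 45) (nat_lit 2) (nat_lit 176) (nat_lit 179) (nat_lit 95))) (PT.nd (nat_lit 78) (PT.lf (nat_lit 3268) (nat_lit 6) (nat_lit 43) (nat_lit 2) (nat_lit 177) (nat_lit 179) (nat_lit 94)) (PT.lf (nat_lit 3192) (nat_lit 6) (nat_lit 42) (nat_lit 2) (nat_lit 178) (nat_lit 179) (nat_lit 93)))) (PT.nd (nat_lit 156) (PT.nd (nat_lit 78) (PT.lf (nat_lit 3040) (nat_lit 3) (nat_lit 40) (nat_lit 0) (nat_lit 179) (nat_lit 179) (nat_lit 92)) (PT.lf (nat_lit 2888) (nat_lit 6) (nat_lit 38) (nat_lit 0) (nat_lit 180) (nat_lit 179) (nat_lit 91))) (PT.nd (nat_lit 78) (PT.lf (nat_lit 2660) (nat_lit 6) (nat_lit 35) (nat_lit 0) (nat_lit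 181) (nat_lit 179) (nat_lit 90)) (PT.lf (nat_lit 2508) (nat_lit 6) (nat_lit 33) (nat_lit 0) (nat_lit 182) (nat_lit 179) (nat_lit 89))))) (PT.nd (nat_lit 312) (PT.nd (nat_lit 156) (PT.nd (nat_lit 78) (PT.lf (nat_lit 2204) (nat_lit 6) (nat_lit 29) (nat_lit 5) (nat_lit 87) (nat_lit 180) (nat_lit 183)) (PT.lf (nat_lit 2356) (nat_lit 6) (nat_lit 31) (nat_lit 5) (nat_lit 88) (nat_lit 180) (nat_lit 182))) (PT.nd (nat_lit 78) (PT.lf (nat_lit 2584) (nat_lit 6) (nat_lit 34) (nat_lit 5) (nat_lit 89) (nat_lit 180) (nat_lit 181)) (PT.lf (nat_lit 2736) (nat_lit 3) (nat_lit 36) (nat_lit 4) (nat_lit 90) (nat_lit 180) (nat_lit 180)))) (PT.nd (nat_lit 156) (PT.nd (nat_lit 78) (PT.lf (nat_lit 2888) (nat_lit 6) (nat_lit 38) (nat_lit 4) (nat_lit 91) (nat_lit 180) (nat_lit 179)) (PT.lf (nat_lit 2964) (nat_lit 6) (nat_lit 39) (nat_lit 4) (nat_lit 92) (nat_lit 180) (nat_lit 178))) (PT.nd (nat_lit 6552) (PT.lf (nat_lit 3116) (nat_lit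 6) (nat_lit 41) (nat_lit 4) (nat_lit 93) (nat_lit 180) (nat_lit 177)) (PT.lf (nat_lit 3116) (nat_lit 6) (nat_lit 41) (nat_lit 2) (nat_lit 177) (nat_lit 180) (nat_lit 93)))))) (PT.nd (nat_lit 39858) (PT.nd (nat_lit 312) (PT.nd (nat_lit 156) (PT.nd (nat_lit 78) (PT.lf (nat_lit 2964) (nat_lit 6) (nat_lit 39) (nat_lit 2) (nat_lit 178) (nat_lit 180) (nat_lit 92)) (PT.lf (nat_lit 2888) (nat_lit 6) (nat_lit 38) (nat_lit 2) (nat_lit 179) (nat_lit 180) (nat_lit 91))) (PT.nd (nat_lit 78) (PT.lf (nat_lit 2736) (nat_lit 3) (nat_lit 36) (nat_lit 0) (nat_lit 180) (nat_lit 180) (nat_lit 90)) (PT.lf (nat_lit 2584) (nat_lit 6) (nat_lit 34) (nat_lit 0) (nat_lit 181) (nat_lit 180) (nat_lit 89)))) (PT.nd (nat_lit 39390) (PT.nd (nat_lit 78) (PT.lf (nat_lit 2356) (nat_lit 6) (nat_lit 31) (nat_lit 0) (nat_lit 182) (nat_lit 180) (nat_lit 88)) (PT.lf (nat_lit 2204) (nat_lit 6) (nat_lit 29) (nat_lit 0) (nat_lit 183) (nat_lit 180)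 (nat_lit 87))) (PT.nd (nat_lit 78) (PT.lf (nat_lit 2052) (nat_lit 6) (nat_lit 27) (nat_lit 5) (nat_lit 86) (nat_lit 181) (nat_lit 183)) (PT.lf (nat_lit 2280) (nat_lit 6) (nat_lit 30) (nat_lit 5) (nat_lit 87) (nat_lit 181) (nat_lit 182))))) (PT.nd (nat_lit 7020) (PT.nd (nat_lit 156) (PT.nd (nat_lit 78) (PT.lf (nat_lit 2432) (nat_lit 3) (nat_lit 32) (nat_lit 4) (nat_lit 88) (nat_lit 181) (nat_lit 181)) (PT.lf (nat_lit 2584) (nat_lit 6) (nat_lit 34) (nat_lit 4) (nat_lit 89) (nat_lit 181) (nat_lit 180))) (PT.nd (nat_lit 78) (PT.lf (nat_lit 2660) (nat_lit 6) (nat_lit 35) (nat_lit 4) (nat_lit 90) (nat_lit 181) (nat_lit 179)) (PT.lf (nat_lit 2812) (nat_lit 6) (nat_lit 37) (nat_lit 4) (nat_lit 91) (nat_lit 181) (nat_lit 178)))) (PT.nd (nat_lit 156) (PT.nd (nat_lit 78) (PT.lf (nat_lit 2812) (nat_lit 6) (nat_lit 37) (nat_lit 2) (nat_lit 178) (nat_lit 181) (nat_lit 91)) (PT.lf (nat_lit 2660) (nat_lit 6) (nat_lit 35)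 (nat_lit 2) (nat_lit 179) (nat_lit 181) (nat_lit 90))) (PT.nd (nat_lit 78) (PT.lf (nat_lit 2584) (nat_lit 6) (nat_lit 34) (nat_lit 2) (nat_lit 180) (nat_lit 181) (nat_lit 89)) (PT.lf (nat_lit 2432) (nat_lit 3) (nat_lit 32) (nat_lit 0) (nat_lit 181) (nat_lit 181) (nat_lit 88))))))) (PT.nd (nat_lit 86112) (PT.nd (nat_lit 46644) (PT.nd (nat_lit 39390) (PT.nd (nat_lit 39234) (PT.nd (nat_lit 78) (PT.lf (nat_lit 2280) (nat_lit 6) (nat_lit 30) (nat_lit 0) (nat_lit 182) (nat_lit 181) (nat_lit 87)) (PT.lf (nat_lit 2052) (nat_lit 6) (nat_lit 27) (nat_lit 0) (nat_lit 183) (nat_lit 181) (nat_lit 86))) (PT.nd (nat_lit 78) (PT.lf (nat_lit 1824) (nat_lit 6) (nat_lit 24) (nat_lit 5) (nat_lit 84) (nat_lit 182) (nat_lit 184)) (PT.lf (nat_lit 1976) (nat_lit 6) (nat_lit 26) (nat_lit 5) (nat_lit 85) (nat_lit 182) (nat_lit 183)))) (PT.nd (nat_lit 156) (PT.nd (nat_lit 78) (PT.lf (nat_lit 2128) (nat_lit 3) (nat_lit 28) (nat_lit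 4) (nat_lit 86) (nat_lit 182) (nat_lit 182)) (PT.lf (nat_lit 2280) (nat_lit 6) (nat_lit 30) (nat_lit 4) (nat_lit 87) (nat_lit 182) (nat_lit 181))) (PT.nd (nat_lit 78) (PT.lf (nat_lit 2356) (nat_lit 6) (nat_lit 31) (nat_lit 4) (nat_lit 88) (nat_lit 182) (nat_lit 180)) (PT.lf (nat_lit 2508) (nat_lit 6) (nat_lit 33) (nat_lit 4) (nat_lit 89) (nat_lit 182) (nat_lit 179))))) (PT.nd (nat_lit 312) (PT.nd (nat_lit 156) (PT.nd (nat_lit 78) (PT.lf (nat_lit 2508) (nat_lit 6) (nat_lit 33) (nat_lit 2) (nat_lit 179) (nat_lit 182) (nat_lit 89)) (PT.lf (nat_lit 2356) (nat_lit 6) (nat_lit 31) (nat_lit 2) (nat_lit 180) (nat_lit 182) (nat_lit 88))) (PT.nd (nat_lit 78) (PT.lf (nat_lit 2280) (nat_lit 6) (nat_lit 30) (nat_lit 2) (nat_lit 181) (nat_lit 182) (nat_lit 87)) (PT.lf (nat_lit 2128) (nat_lit 3) (nat_lit 28) (nat_lit 0) (nat_lit 182) (nat_lit 182) (nat_lit 86)))) (PT.nd (nat_lit 39000) (PT.nd (nat_lit 78) (PT.lf (nat_lit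 1976) (nat_lit 6) (nat_lit 26) (nat_lit 0) (nat_lit 183) (nat_lit 182) (nat_lit 85)) (PT.lf (nat_lit 1824) (nat_lit 6) (nat_lit 24) (nat_lit 0) (nat_lit 184) (nat_lit 182) (nat_lit 84))) (PT.nd (nat_lit 78) (PT.lf (nat_lit 1596) (nat_lit 6) (nat_lit 21) (nat_lit 5) (nat_lit 82) (nat_lit 183) (nat_lit 185)) (PT.lf (nat_lit 1748) (nat_lit 6) (nat_lit 23) (nat_lit 5) (nat_lit 83) (nat_lit 183) (nat_lit 184)))))) (PT.nd (nat_lit 7800) (PT.nd (nat_lit 7488) (PT.nd (nat_lit 156) (PT.nd (nat_lit 78) (PT.lf (nat_lit 1900) (nat_lit 3) (nat_lit 25) (nat_lit 4) (nat_lit 84) (nat_lit 183) (nat_lit 183)) (PT.lf (nat_lit 1976) (nat_lit 6) (nat_lit 26) (nat_lit 4) (nat_lit 85) (nat_lit 183) (nat_lit 182))) (PT.nd (nat_lit 78) (PT.lf (nat_lit 2052) (nat_lit 6) (nat_lit 27) (nat_lit 4) (nat_lit 86) (nat_lit 183) (nat_lit 181)) (PT.lf (nat_lit 2204) (nat_lit 6) (nat_lit 29) (nat_lit 4) (nat_lit 87) (nat_lit 183) (nat_lit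 180)))) (PT.nd (nat_lit 156) (PT.nd (nat_lit 78) (PT.lf (nat_lit 2204) (nat_lit 6) (nat_lit 29) (nat_lit 2) (nat_lit 180) (nat_lit 183) (nat_lit 87)) (PT.lf (nat_lit 2052) (nat_lit 6) (nat_lit 27) (nat_lit 2) (nat_lit 181) (nat_lit 183) (nat_lit 86))) (PT.nd (nat_lit 78) (PT.lf (nat_lit 1976) (nat_lit 6) (nat_lit 26) (nat_lit 2) (nat_lit 182) (nat_lit 183) (nat_lit 85)) (PT.lf (nat_lit 1900) (nat_lit 3) (nat_lit 25) (nat_lit 0) (nat_lit 183) (nat_lit 183) (nat_lit 84))))) (PT.nd (nat_lit 38922) (PT.nd (nat_lit 38766) (PT.nd (nat_lit 78) (PT.lf (nat_lit 1748) (nat_lit 6) (nat_lit 23) (nat_lit 0) (nat_lit 184) (nat_lit 183) (nat_lit 83)) (PT.lf (nat_lit 1596) (nat_lit 6) (nat_lit 21) (nat_lit 0) (nat_lit 185) (nat_lit 183) (nat_lit 82))) (PT.nd (nat_lit 78) (PT.lf (nat_lit 1368) (nat_lit 6) (nat_lit 18) (nat_lit 5) (nat_lit 80) (nat_lit 184) (nat_lit 186)) (PT.lf (nat_lit 1520) (nat_lit 6) (nat_lit 20) (nat_lit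 5) (nat_lit 81) (nat_lit 184) (nat_lit 185)))) (PT.nd (nat_lit 156) (PT.nd (nat_lit 78) (PT.lf (nat_lit 1672) (nat_lit 3) (nat_lit 22) (nat_lit 4) (nat_lit 82) (nat_lit 184) (nat_lit 184)) (PT.lf (nat_lit 1748) (nat_lit 6) (nat_lit 23) (nat_lit 4) (nat_lit 83) (nat_lit 184) (nat_lit 183))) (PT.nd (nat_lit 7644) (PT.lf (nat_lit 1824) (nat_lit 6) (nat_lit 24) (nat_lit 4) (nat_lit 84) (nat_lit 184) (nat_lit 182)) (PT.lf (nat_lit 1824) (nat_lit 6) (nat_lit 24) (nat_lit 2) (nat_lit 182) (nat_lit 184) (nat_lit 84))))))))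
noncomputable def pc31 : PT := (PT.nd (nat_lit 141024) (PT.nd (nat_lit 85566) (PT.nd (nat_lit 39000) (PT.nd (nat_lit 38688) (PT.nd (nat_lit 156) (PT.nd (nat_lit 78) (PT.lf (nat_lit 1748) (nat_lit 6) (nat_lit 23) (nat_lit 2) (nat_lit 183) (nat_lit 184) (nat_lit 83)) (PT.lf (nat_lit 1672) (nat_lit 3) (nat_lit 22) (nat_lit 0) (nat_lit 184) (nat_lit 184) (nat_lit 82))) (PT.nd (nat_lit 78) (PT.lf (nat_lit 1520) (nat_lit 6) (nat_lit 20) (nat_lit 0) (nat_lit 185) (nat_lit 184) (nat_lit 81)) (PT.lf (nat_lit 1368) (nat_lit 6) (nat_lit 18) (nat_lit 0) (nat_lit 186) (nat_lit 184) (nat_lit 80)))) (PT.nd (nat_lit 156) (PT.nd (nat_lit 78) (PT.lf (nat_lit 1140) (nat_lit 6) (nat_lit 15) (nat_lit 5) (nat_lit 78) (nat_lit 185) (nat_lit 187)) (PT.lf (nat_lit 1292) (nat_lit 6) (nat_lit 17) (nat_lit 5) (nat_lit 79) (nat_lit 185) (nat_lit 186))) (PT.nd (nat_lit 78) (PT.lf (nat_lit 1444) (nat_lit 3) (nat_lit 19) (nat_lit 4) (nat_lit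 80) (nat_lit 185) (nat_lit 185)) (PT.lf (nat_lit 1520) (nat_lit 6) (nat_lit 20) (nat_lit 4) (nat_lit 81) (nat_lit 185) (nat_lit 184))))) (PT.nd (nat_lit 8112) (PT.nd (nat_lit 7956) (PT.nd (nat_lit 7878) (PT.lf (nat_lit 1596) (nat_lit 6) (nat_lit 21) (nat_lit 4) (nat_lit 82) (nat_lit 185) (nat_lit 183)) (PT.lf (nat_lit 1596) (nat_lit 6) (nat_lit 21) (nat_lit 2) (nat_lit 183) (nat_lit 185) (nat_lit 82))) (PT.nd (nat_lit 78) (PT.lf (nat_lit 1520) (nat_lit 6) (nat_lit 20) (nat_lit 2) (nat_lit 184) (nat_lit 185) (nat_lit 81)) (PT.lf (nat_lit 1444) (nat_lit 3) (nat_lit 19) (nat_lit 0) (nat_lit 185) (nat_lit 185) (nat_lit 80)))) (PT.nd (nat_lit 38298) (PT.nd (nat_lit 78) (PT.lf (nat_lit 1292) (nat_lit 6) (nat_lit 17) (nat_lit 0) (nat_lit 186) (nat_lit 185) (nat_lit 79)) (PT.lf (nat_lit 1140) (nat_lit 6) (nat_lit 15) (nat_lit 0) (nat_lit 187) (nat_lit 185) (nat_lit 78))) (PT.nd (nat_lit 78) (PT.lf (nat_lit 912)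 (nat_lit 6) (nat_lit 12) (nat_lit 5) (nat_lit 76) (nat_lit 186) (nat_lit 188)) (PT.lf (nat_lit 1064) (nat_lit 6) (nat_lit 14) (nat_lit 5) (nat_lit 77) (nat_lit 186) (nat_lit 187)))))) (PT.nd (nat_lit 46566) (PT.nd (nat_lit 8346) (PT.nd (nat_lit 156) (PT.nd (nat_lit 78) (PT.lf (nat_lit 1216) (nat_lit 3) (nat_lit 16) (nat_lit 4) (nat_lit 78) (nat_lit 186) (nat_lit 186)) (PT.lf (nat_lit 1292) (nat_lit 6) (nat_lit 17) (nat_lit 4) (nat_lit 79) (nat_lit 186) (nat_lit 185))) (PT.nd (nat_lit 8112) (PT.lf (nat_lit 1368) (nat_lit 6) (nat_lit 18) (nat_lit 4) (nat_lit 80) (nat_lit 186) (nat_lit 184)) (PT.lf (nat_lit 1368) (nat_lit 6) (nat_lit 18) (nat_lit 2) (nat_lit 184) (nat_lit 186) (nat_lit 80)))) (PT.nd (nat_lit 156) (PT.nd (nat_lit 78) (PT.lf (nat_lit 1292) (nat_lit 6) (nat_lit 17) (nat_lit 2) (nat_lit 185) (nat_lit 186) (nat_lit 79)) (PT.lf (nat_lit 1216) (nat_lit 3) (nat_lit 16) (nat_lit 0) (nat_lit 186) (nat_lit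 186) (nat_lit 78))) (PT.nd (nat_lit 78) (PT.lf (nat_lit 1064) (nat_lit 6) (nat_lit 14) (nat_lit 0) (nat_lit 187) (nat_lit 186) (nat_lit 77)) (PT.lf (nat_lit 912) (nat_lit 6) (nat_lit 12) (nat_lit 0) (nat_lit 188) (nat_lit 186) (nat_lit 76))))) (PT.nd (nat_lit 312) (PT.nd (nat_lit 156) (PT.nd (nat_lit 78) (PT.lf (nat_lit 684) (nat_lit 6) (nat_lit 9) (nat_lit 5) (nat_lit 74) (nat_lit 187) (nat_lit 189)) (PT.lf (nat_lit 836) (nat_lit 6) (nat_lit 11) (nat_lit 5) (nat_lit 75) (nat_lit 187) (nat_lit 188))) (PT.nd (nat_lit 78) (PT.lf (nat_lit 988) (nat_lit 3) (nat_lit 13) (nat_lit 4) (nat_lit 76) (nat_lit 187) (nat_lit 187)) (PT.lf (nat_lit 1064) (nat_lit 6) (nat_lit 14) (nat_lit 4) (nat_lit 77) (nat_lit 187) (nat_lit 186)))) (PT.nd (nat_lit 8424) (PT.nd (nat_lit 8346) (PT.lf (nat_lit 1140) (nat_lit 6) (nat_lit 15) (nat_lit 4) (nat_lit 78) (nat_lit 187) (nat_lit 185)) (PT.lf (nat_lit 1140) (nat_lit 6) (nat_lit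 15) (nat_lit 2) (nat_lit 185) (nat_lit 187) (nat_lit 78))) (PT.nd (nat_lit 78) (PT.lf (nat_lit 1064) (nat_lit 6) (nat_lit 14) (nat_lit 2) (nat_lit 186) (nat_lit 187) (nat_lit 77)) (PT.lf (nat_lit 988) (nat_lit 3) (nat_lit 13) (nat_lit 0) (nat_lit 187) (nat_lit 187) (nat_lit 76))))))) (PT.nd (nat_lit 93678) (PT.nd (nat_lit 46800) (PT.nd (nat_lit 37986) (PT.nd (nat_lit 37830) (PT.nd (nat_lit 78) (PT.lf (nat_lit 836) (nat_lit 6) (nat_lit 11) (nat_lit 0) (nat_lit 188) (nat_lit 187) (nat_lit 75)) (PT.lf (nat_lit 684) (nat_lit 6) (nat_lit 9) (nat_lit 0) (nat_lit 189) (nat_lit 187) (nat_lit 74))) (PT.nd (nat_lit 78) (PT.lf (nat_lit 456) (nat_lit 6) (nat_lit 6) (nat_lit 5) (nat_lit 72) (nat_lit 188) (nat_lit 190)) (PT.lf (nat_lit 608) (nat_lit 6) (nat_lit 8) (nat_lit 5) (nat_lit 73) (nat_lit 188) (nat_lit 189)))) (PT.nd (nat_lit 156) (PT.nd (nat_lit 78) (PT.lf (nat_lit 760) (nat_lit 3) (nat_lit 10) (nat_lit 4)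 (nat_lit 74) (nat_lit 188) (nat_lit 188)) (PT.lf (nat_lit 836) (nat_lit 6) (nat_lit 11) (nat_lit 4) (nat_lit 75) (nat_lit 188) (nat_lit 187))) (PT.nd (nat_lit 8580) (PT.lf (nat_lit 912) (nat_lit 6) (nat_lit 12) (nat_lit 4) (nat_lit 76) (nat_lit 188) (nat_lit 186)) (PT.lf (nat_lit 912) (nat_lit 6) (nat_lit 12) (nat_lit 2) (nat_lit 186) (nat_lit 188) (nat_lit 76))))) (PT.nd (nat_lit 37830) (PT.nd (nat_lit 156) (PT.nd (nat_lit 78) (PT.lf (nat_lit 836) (nat_lit 6) (nat_lit 11) (nat_lit 2) (nat_lit 187) (nat_lit 188) (nat_lit 75)) (PT.lf (nat_lit 760) (nat_lit 3) (nat_lit 10) (nat_lit 0) (nat_lit 188) (nat_lit 188) (nat_lit 74))) (PT.nd (nat_lit 78) (PT.lf (nat_lit 608) (nat_lit 6) (nat_lit 8) (nat_lit 0) (nat_lit 189) (nat_lit 188) (nat_lit 73)) (PT.lf (nat_lit 456) (nat_lit 6) (nat_lit 6) (nat_lit 0) (nat_lit 190) (nat_lit 188) (nat_lit 72)))) (PT.nd (nat_lit 156) (PT.nd (nat_lit 78) (PT.lf (nat_lit 380) (nat_lit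 6) (nat_lit 5) (nat_lit 5) (nat_lit 71) (nat_lit 189) (nat_lit 190)) (PT.lf (nat_lit 532) (nat_lit 3) (nat_lit 7) (nat_lit 4) (nat_lit 72) (nat_lit 189) (nat_lit 189))) (PT.nd (nat_lit 78) (PT.lf (nat_lit 608) (nat_lit 6) (nat_lit 8) (nat_lit 4) (nat_lit 73) (nat_lit 189) (nat_lit 188)) (PT.lf (nat_lit 684) (nat_lit 6) (nat_lit 9) (nat_lit 4) (nat_lit 74) (nat_lit 189) (nat_lit 187)))))) (PT.nd (nat_lit 46956) (PT.nd (nat_lit 37674) (PT.nd (nat_lit 156) (PT.nd (nat_lit 78) (PT.lf (nat_lit 684) (nat_lit 6) (nat_lit 9) (nat_lit 2) (nat_lit 187) (nat_lit 189) (nat_lit 74)) (PT.lf (nat_lit 608) (nat_lit 6) (nat_lit 8) (nat_lit 2) (nat_lit 188) (nat_lit 189) (nat_lit 73))) (PT.nd (nat_lit 78) (PT.lf (nat_lit 532) (nat_lit 3) (nat_lit 7) (nat_lit 0) (nat_lit 189) (nat_lit 189) (nat_lit 72)) (PT.lf (nat_lit 380) (nat_lit 6) (nat_lit 5) (nat_lit 0) (nat_lit 190) (nat_lit 189) (nat_lit 71)))) (PT.nd (nat_lit 156)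 (PT.nd (nat_lit 78) (PT.lf (nat_lit 152) (nat_lit 6) (nat_lit 2) (nat_lit 5) (nat_lit 69) (nat_lit 190) (nat_lit 191)) (PT.lf (nat_lit 304) (nat_lit 3) (nat_lit 4) (nat_lit 4) (nat_lit 70) (nat_lit 190) (nat_lit 190))) (PT.nd (nat_lit 78) (PT.lf (nat_lit 380) (nat_lit 6) (nat_lit 5) (nat_lit 4) (nat_lit 71) (nat_lit 190) (nat_lit 189)) (PT.lf (nat_lit 456) (nat_lit 6) (nat_lit 6) (nat_lit 4) (nat_lit 72) (nat_lit 190) (nat_lit 188))))) (PT.nd (nat_lit 37518) (PT.nd (nat_lit 156) (PT.nd (nat_lit 78) (PT.lf (nat_lit 456) (nat_lit 6) (nat_lit 6) (nat_lit 2) (nat_lit 188) (nat_lit 190) (nat_lit 72)) (PT.lf (nat_lit 380) (nat_lit 6) (nat_lit 5) (nat_lit 2) (nat_lit 189) (nat_lit 190) (nat_lit 71))) (PT.nd (nat_lit 78) (PT.lf (nat_lit 304) (nat_lit 3) (nat_lit 4) (nat_lit 0) (nat_lit 190) (nat_lit 190) (nat_lit 70)) (PT.lf (nat_lit 152) (nat_lit 6) (nat_lit 2) (nat_lit 0) (nat_lit 191) (nat_lit 190) (nat_lit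 69)))) (PT.nd (nat_lit 9516) (PT.nd (nat_lit 78) (PT.lf (nat_lit 76) (nat_lit 3) (nat_lit 1) (nat_lit 4) (nat_lit 68) (nat_lit 191) (nat_lit 191)) (PT.lf (nat_lit 152) (nat_lit 6) (nat_lit 2) (nat_lit 4) (nat_lit 69) (nat_lit 191) (nat_lit 190))) (PT.nd (nat_lit 78) (PT.lf (nat_lit 152) (nat_lit 6) (nat_lit 2) (nat_lit 2) (nat_lit 190) (nat_lit 191) (nat_lit 69)) (PT.lf (nat_lit 76) (nat_lit 3) (nat_lit 1) (nat_lit 0) (nat_lit 191) (nat_lit 191) (nat_lit 68))))))))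
noncomputable def xc0 : XT := (XT.nd (nat_lit 187434) (nat_lit 0) (nat_lit 0) (XT.nd (nat_lit 140322) (nat_lit 0) (nat_lit 0) (XT.nd (nat_lit 93522) (nat_lit 0) (nat_lit 0) (XT.nd (nat_lit 46878) (nat_lit 0) (nat_lit 0) (XT.nd (nat_lit 46722) (nat_lit 0) (nat_lit 0) (XT.lf (nat_lit 0) (nat_lit 42126257303) (nat_lit 76) (nat_lit 21632474070) (nat_lit 76) (nat_lit 21529195191) (nat_lit 4) (nat_lit 4) (nat_lit 5) (nat_lit 5) (nat_lit 5) (nat_lit 4) (nat_lit 451) (nat_lit 225) (nat_lit 224)) (XT.nd (nat_lit 78) (nat_lit 0) (nat_lit 0) (XT.lf (nat_lit 0) (nat_lit 25889767517) (nat_lit 76) (nat_lit 27411199897) (nat_lit 76) (nat_lit 27304822651) (nat_lit 4) (nat_lit 4) (nat_lit 5) (nat_lit 5) (nat_lit 5) (nat_lit 4) (nat_lit 449) (nat_lit 226) (nat_lit 225)) (XT.lf (nat_lit 0) (nat_lit 33888038347) (nat_lit 76) (nat_lit 24616939512) (nat_lit 76) (nat_lit 24407283387) (nat_lit 4) (nat_lit 4) (nat_lit 5) (nat_lit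 5) (nat_lit 5) (nat_lit 4) (nat_lit 450) (nat_lit 226) (nat_lit 224)))) (XT.nd (nat_lit 46488) (nat_lit 0) (nat_lit 0) (XT.lf (nat_lit 0) (nat_lit 41988114835) (nat_lit 76) (nat_lit 21805937691) (nat_lit 76) (nat_lit 21496010809) (nat_lit 4) (nat_lit 4) (nat_lit 5) (nat_lit 5) (nat_lit 5) (nat_lit 4) (nat_lit 451) (nat_lit 226) (nat_lit 223)) (XT.nd (nat_lit 78) (nat_lit 0) (nat_lit 0) (XT.lf (nat_lit 0) (nat_lit 1255334988) (nat_lit 76) (nat_lit 17895672320) (nat_lit 76) (nat_lit 17895672320) (nat_lit 4) (nat_lit 4) (nat_lit 5) (nat_lit 5) (nat_lit 5) (nat_lit 4) (nat_lit 446) (nat_lit 227) (nat_lit 227)) (XT.lf (nat_lit 0) (nat_lit 10170770557) (nat_lit 76) (nat_lit 33068818771) (nat_lit 76) (nat_lit 32959250208) (nat_lit 4) (nat_lit 4) (nat_lit 5) (nat_lit 5) (nat_lit 5) (nat_lit 4) (nat_lit 447) (nat_lit 227) (nat_lit 226))))) (XT.nd (nat_lit 234) (nat_lit 0) (nat_lit 0) (XT.nd (nat_lit 78) (nat_lit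 0) (nat_lit 0) (XT.lf (nat_lit 0) (nat_lit 17914118813) (nat_lit 76) (nat_lit 30335789061) (nat_lit 76) (nat_lit 30119843252) (nat_lit 4) (nat_lit 4) (nat_lit 5) (nat_lit 5) (nat_lit 5) (nat_lit 4) (nat_lit 448) (nat_lit 227) (nat_lit 225)) (XT.nd (nat_lit 78) (nat_lit 0) (nat_lit 0) (XT.lf (nat_lit 0) (nat_lit 25747480776) (nat_lit 76) (nat_lit 27589867426) (nat_lit 76) (nat_lit 27270642738) (nat_lit 4) (nat_lit 4) (nat_lit 5) (nat_lit 5) (nat_lit 5) (nat_lit 4) (nat_lit 449) (nat_lit 227) (nat_lit 224)) (XT.lf (nat_lit 0) (nat_lit 33677701130) (nat_lit 76) (nat_lit 24828654517) (nat_lit 76) (nat_lit 24409159072) (nat_lit 4) (nat_lit 4) (nat_lit 5) (nat_lit 5) (nat_lit 5) (nat_lit 4) (nat_lit 450) (nat_lit 227) (nat_lit 223)))) (XT.nd (nat_lit 46410) (nat_lit 0) (nat_lit 0) (XT.nd (nat_lit 46332) (nat_lit 0) (nat_lit 76) (XT.lf (nat_lit 0) (nat_lit 41711709194) (nat_lit 76) (nat_lit 22049737623) (nat_lit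 76) (nat_lit 21532891929) (nat_lit 4) (nat_lit 4) (nat_lit 5) (nat_lit 5) (nat_lit 5) (nat_lit 4) (nat_lit 451) (nat_lit 227) (nat_lit 222)) (XT.lf (nat_lit 0) (nat_lit 14450201793) (nat_lit 152) (nat_lit 6132894881) (nat_lit 0) (nat_lit 14450201793) (nat_lit 5) (nat_lit 5) (nat_lit 7) (nat_lit 4) (nat_lit 5) (nat_lit 4) (nat_lit 444) (nat_lit 228) (nat_lit 228))) (XT.nd (nat_lit 78) (nat_lit 76) (nat_lit 0) (XT.lf (nat_lit 0) (nat_lit 33594488560) (nat_lit 152) (nat_lit 4973886136) (nat_lit 0) (nat_lit 33481632940) (nat_lit 5) (nat_lit 5) (nat_lit 7) (nat_lit 4) (nat_lit 5) (nat_lit 4) (nat_lit 445) (nat_lit 228) (nat_lit 227)) (XT.lf (nat_lit 0) (nat_lit 2436309383) (nat_lit 76) (nat_lit 35940312128) (nat_lit 76) (nat_lit 35717887945) (nat_lit 4) (nat_lit 4) (nat_lit 5) (nat_lit 5) (nat_lit 5) (nat_lit 4) (nat_lit 446) (nat_lit 228) (nat_lit 226)))))) (XT.nd (nat_lit 46566) (nat_lit 0) (nat_lit 0) (XT.nd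 (nat_lit 234) (nat_lit 0) (nat_lit 0) (XT.nd (nat_lit 78) (nat_lit 0) (nat_lit 0) (XT.lf (nat_lit 0) (nat_lit 10024215214) (nat_lit 76) (nat_lit 33252846326) (nat_lit 76) (nat_lit 32924044897) (nat_lit 4) (nat_lit 4) (nat_lit 5) (nat_lit 5) (nat_lit 5) (nat_lit 4) (nat_lit 447) (nat_lit 228) (nat_lit 225)) (XT.nd (nat_lit 78) (nat_lit 0) (nat_lit 0) (XT.lf (nat_lit 0) (nat_lit 17697471479) (nat_lit 76) (nat_lit 30553855516) (nat_lit 76) (nat_lit 30121775208) (nat_lit 4) (nat_lit 4) (nat_lit 5) (nat_lit 5) (nat_lit 5) (nat_lit 4) (nat_lit 448) (nat_lit 228) (nat_lit 224)) (XT.lf (nat_lit 0) (nat_lit 25462782965) (nat_lit 76) (nat_lit 27840981356) (nat_lit 76) (nat_lit 27308630291) (nat_lit 4) (nat_lit 4) (nat_lit 5) (nat_lit 5) (nat_lit 5) (nat_lit 4) (nat_lit 449) (nat_lit 228) (nat_lit 223)))) (XT.nd (nat_lit 78) (nat_lit 0) (nat_lit 0) (XT.lf (nat_lit 0) (nat_lit 33326934895) (nat_lit 76) (nat_lit 25111853374)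 (nat_lit 76) (nat_lit 24482152060) (nat_lit 4) (nat_lit 4) (nat_lit 5) (nat_lit 5) (nat_lit 5) (nat_lit 4) (nat_lit 450) (nat_lit 228) (nat_lit 222)) (XT.nd (nat_lit 46176) (nat_lit 0) (nat_lit 76) (XT.lf (nat_lit 0) (nat_lit 41296798859) (nat_lit 76) (nat_lit 22364086895) (nat_lit 76) (nat_lit 21639870776) (nat_lit 4) (nat_lit 4) (nat_lit 5) (nat_lit 5) (nat_lit 5) (nat_lit 4) (nat_lit 451) (nat_lit 228) (nat_lit 221)) (XT.lf (nat_lit 0) (nat_lit 9922913545) (nat_lit 152) (nat_lit 13292712558) (nat_lit 0) (nat_lit 9922913545) (nat_lit 5) (nat_lit 5) (nat_lit 7) (nat_lit 4) (nat_lit 5) (nat_lit 4) (nat_lit 442) (nat_lit 229) (nat_lit 229))))) (XT.nd (nat_lit 234) (nat_lit 76) (nat_lit 0) (XT.nd (nat_lit 78) (nat_lit 0) (nat_lit 0) (XT.lf (nat_lit 0) (nat_lit 24383086955) (nat_lit 152) (nat_lit 19493314232) (nat_lit 0) (nat_lit 24266845666) (nat_lit 5) (nat_lit 5) (nat_lit 7) (nat_lit 4) (nat_lit 5) (nat_lit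 4) (nat_lit 443) (nat_lit 229) (nat_lit 228)) (XT.nd (nat_lit 78) (nat_lit 0) (nat_lit 0) (XT.lf (nat_lit 0) (nat_lit 28977984932) (nat_lit 152) (nat_lit 12340886599) (nat_lit 0) (nat_lit 28748888023) (nat_lit 5) (nat_lit 5) (nat_lit 7) (nat_lit 4) (nat_lit 5) (nat_lit 4) (nat_lit 444) (nat_lit 229) (nat_lit 227)) (XT.lf (nat_lit 0) (nat_lit 33634535981) (nat_lit 152) (nat_lit 5121892523) (nat_lit 0) (nat_lit 33295870509) (nat_lit 5) (nat_lit 5) (nat_lit 7) (nat_lit 4) (nat_lit 5) (nat_lit 4) (nat_lit 445) (nat_lit 229) (nat_lit 226)))) (XT.nd (nat_lit 156) (nat_lit 0) (nat_lit 0) (XT.nd (nat_lit 78) (nat_lit 0) (nat_lit 0) (XT.lf (nat_lit 0) (nat_lit 2213162628) (nat_lit 76) (nat_lit 36164920576) (nat_lit 76) (nat_lit 35719877859) (nat_lit 4) (nat_lit 4) (nat_lit 5) (nat_lit 5) (nat_lit 5) (nat_lit 4) (nat_lit 446) (nat_lit 229) (nat_lit 225)) (XT.lf (nat_lit 0) (nat_lit 9730976469) (nat_lit 76) (nat_lit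 33511493674) (nat_lit 76) (nat_lit 32963172077) (nat_lit 4) (nat_lit 4) (nat_lit 5) (nat_lit 5) (nat_lit 5) (nat_lit 4) (nat_lit 447) (nat_lit 229) (nat_lit 224))) (XT.nd (nat_lit 78) (nat_lit 0) (nat_lit 0) (XT.lf (nat_lit 0) (nat_lit 17336182258) (nat_lit 76) (nat_lit 30845550339) (nat_lit 76) (nat_lit 30196957986) (nat_lit 4) (nat_lit 4) (nat_lit 5) (nat_lit 5) (nat_lit 5) (nat_lit 4) (nat_lit 448) (nat_lit 229) (nat_lit 223)) (XT.lf (nat_lit 0) (nat_lit 25035425320) (nat_lit 76) (nat_lit 28164761106) (nat_lit 76) (nat_lit 27418818504) (nat_lit 4) (nat_lit 4) (nat_lit 5) (nat_lit 5) (nat_lit 5) (nat_lit 4) (nat_lit 449) (nat_lit 229) (nat_lit 222))))))) (XT.nd (nat_lit 92898) (nat_lit 0) (nat_lit 0) (XT.nd (nat_lit 46488) (nat_lit 0) (nat_lit 0) (XT.nd (nat_lit 46254) (nat_lit 0) (nat_lit 76) (XT.nd (nat_lit 46098) (nat_lit 0) (nat_lit 76) (XT.lf (nat_lit 0) (nat_lit 32835433150) (nat_lit 76) (nat_lit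 25466783539) (nat_lit 76) (nat_lit 24626326132) (nat_lit 4) (nat_lit 4) (nat_lit 5) (nat_lit 5) (nat_lit 5) (nat_lit 4) (nat_lit 450) (nat_lit 229) (nat_lit 221)) (XT.nd (nat_lit 78) (nat_lit 0) (nat_lit 0) (XT.lf (nat_lit 0) (nat_lit 5544576536) (nat_lit 152) (nat_lit 20266883539) (nat_lit 0) (nat_lit 5544576536) (nat_lit 5) (nat_lit 5) (nat_lit 7) (nat_lit 4) (nat_lit 5) (nat_lit 4) (nat_lit 440) (nat_lit 230) (nat_lit 230)) (XT.lf (nat_lit 0) (nat_lit 15481969268) (nat_lit 152) (nat_lit 33623416244) (nat_lit 0) (nat_lit 15362240741) (nat_lit 5) (nat_lit 5) (nat_lit 7) (nat_lit 4) (nat_lit 5) (nat_lit 4) (nat_lit 441) (nat_lit 230) (nat_lit 229)))) (XT.nd (nat_lit 78) (nat_lit 0) (nat_lit 0) (XT.lf (nat_lit 0) (nat_lit 19925735876) (nat_lit 152) (nat_lit 26662774859) (nat_lit 0) (nat_lit 19689766060) (nat_lit 5) (nat_lit 5) (nat_lit 7) (nat_lit 4) (nat_lit 5) (nat_lit 4) (nat_lit 442) (nat_lit 230) (nat_lit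 228)) (XT.nd (nat_lit 78) (nat_lit 0) (nat_lit 0) (XT.lf (nat_lit 0) (nat_lit 24424335798) (nat_lit 152) (nat_lit 19645760810) (nat_lit 0) (nat_lit 24075510363) (nat_lit 5) (nat_lit 5) (nat_lit 7) (nat_lit 4) (nat_lit 5) (nat_lit 4) (nat_lit 443) (nat_lit 230) (nat_lit 227)) (XT.lf (nat_lit 0) (nat_lit 28981699850) (nat_lit 152) (nat_lit 12566242727) (nat_lit 0) (nat_lit 28523305852) (nat_lit 5) (nat_lit 5) (nat_lit 7) (nat_lit 4) (nat_lit 5) (nat_lit 4) (nat_lit 444) (nat_lit 230) (nat_lit 226))))) (XT.nd (nat_lit 234) (nat_lit 0) (nat_lit 0) (XT.nd (nat_lit 78) (nat_lit 76) (nat_lit 0) (XT.lf (nat_lit 0) (nat_lit 33601810195) (nat_lit 152) (nat_lit 5418034621) (nat_lit 0) (nat_lit 33037038951) (nat_lit 5) (nat_lit 5) (nat_lit 7) (nat_lit 4) (nat_lit 5) (nat_lit 4) (nat_lit 445) (nat_lit 230) (nat_lit 225)) (XT.nd (nat_lit 78) (nat_lit 0) (nat_lit 0) (XT.lf (nat_lit 0) (nat_lit 1841034730) (nat_lit 76)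 (nat_lit 36465366244) (nat_lit 76) (nat_lit 35797316121) (nat_lit 4) (nat_lit 4) (nat_lit 5) (nat_lit 5) (nat_lit 5) (nat_lit 4) (nat_lit 446) (nat_lit 230) (nat_lit 224)) (XT.lf (nat_lit 0) (nat_lit 9290798095) (nat_lit 76) (nat_lit 33844986817) (nat_lit 76) (nat_lit 33076665936) (nat_lit 4) (nat_lit 4) (nat_lit 5) (nat_lit 5) (nat_lit 5) (nat_lit 4) (nat_lit 447) (nat_lit 230) (nat_lit 223)))) (XT.nd (nat_lit 156) (nat_lit 0) (nat_lit 0) (XT.nd (nat_lit 78) (nat_lit 0) (nat_lit 0) (XT.lf (nat_lit 0) (nat_lit 16829935460) (nat_lit 76) (nat_lit 31211128409) (nat_lit 76) (nat_lit 30345457280) (nat_lit 4) (nat_lit 4) (nat_lit 5) (nat_lit 5) (nat_lit 5) (nat_lit 4) (nat_lit 448) (nat_lit 230) (nat_lit 222)) (XT.lf (nat_lit 0) (nat_lit 24465034421) (nat_lit 76) (nat_lit 28561489591) (nat_lit 76) (nat_lit 27601303657) (nat_lit 4) (nat_lit 4) (nat_lit 5) (nat_lit 5) (nat_lit 5) (nat_lit 4) (nat_lit 449) (nat_lit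 230) (nat_lit 221))) (XT.nd (nat_lit 45942) (nat_lit 0) (nat_lit 76) (XT.lf (nat_lit 0) (nat_lit 32202766425) (nat_lit 76) (nat_lit 25893755146) (nat_lit 76) (nat_lit 24841807265) (nat_lit 4) (nat_lit 4) (nat_lit 5) (nat_lit 5) (nat_lit 5) (nat_lit 4) (nat_lit 450) (nat_lit 230) (nat_lit 220)) (XT.lf (nat_lit 0) (nat_lit 1303312347) (nat_lit 152) (nat_lit 27072825387) (nat_lit 0) (nat_lit 1303312347) (nat_lit 5) (nat_lit 5) (nat_lit 7) (nat_lit 4) (nat_lit 5) (nat_lit 4) (nat_lit 438) (nat_lit 231) (nat_lit 231)))))) (XT.nd (nat_lit 546) (nat_lit 76) (nat_lit 0) (XT.nd (nat_lit 234) (nat_lit 0) (nat_lit 0) (XT.nd (nat_lit 78) (nat_lit 0) (nat_lit 0) (XT.lf (nat_lit 0) (nat_lit 6866769288) (nat_lit 152) (nat_lit 47399865536) (nat_lit 0) (nat_lit 6743448905) (nat_lit 5) (nat_lit 5) (nat_lit 7) (nat_lit 4) (nat_lit 5) (nat_lit 4) (nat_lit 439) (nat_lit 231) (nat_lit 230)) (XT.nd (nat_lit 78) (nat_lit 0) (nat_lit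 0) (XT.lf (nat_lit 0) (nat_lit 11171459122) (nat_lit 152) (nat_lit 40613437313) (nat_lit 0) (nat_lit 10928410212) (nat_lit 5) (nat_lit 5) (nat_lit 7) (nat_lit 4) (nat_lit 5) (nat_lit 4) (nat_lit 440) (nat_lit 231) (nat_lit 229)) (XT.lf (nat_lit 0) (nat_lit 15524455577) (nat_lit 152) (nat_lit 33780436219) (nat_lit 0) (nat_lit 15165165378) (nat_lit 5) (nat_lit 5) (nat_lit 7) (nat_lit 4) (nat_lit 5) (nat_lit 4) (nat_lit 441) (nat_lit 231) (nat_lit 228)))) (XT.nd (nat_lit 156) (nat_lit 0) (nat_lit 0) (XT.nd (nat_lit 78) (nat_lit 0) (nat_lit 0) (XT.lf (nat_lit 0) (nat_lit 19929562242) (nat_lit 152) (nat_lit 26894891671) (nat_lit 0) (nat_lit 19457416423) (nat_lit 5) (nat_lit 5) (nat_lit 7) (nat_lit 4) (nat_lit 5) (nat_lit 4) (nat_lit 442) (nat_lit 231) (nat_lit 227)) (XT.lf (nat_lit 0) (nat_lit 24390628239) (nat_lit 152) (nat_lit 19950787172) (nat_lit 0) (nat_lit 23808913858) (nat_lit 5) (nat_lit 5) (nat_lit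 7) (nat_lit 4) (nat_lit 5) (nat_lit 4) (nat_lit 443) (nat_lit 231) (nat_lit 226))) (XT.nd (nat_lit 78) (nat_lit 0) (nat_lit 0) (XT.lf (nat_lit 0) (nat_lit 28911551588) (nat_lit 152) (nat_lit 12942055059) (nat_lit 0) (nat_lit 28223459960) (nat_lit 5) (nat_lit 5) (nat_lit 7) (nat_lit 4) (nat_lit 5) (nat_lit 4) (nat_lit 444) (nat_lit 231) (nat_lit 225)) (XT.lf (nat_lit 0) (nat_lit 33496282609) (nat_lit 152) (nat_lit 5862571198) (nat_lit 0) (nat_lit 32704912102) (nat_lit 5) (nat_lit 5) (nat_lit 7) (nat_lit 4) (nat_lit 5) (nat_lit 4) (nat_lit 445) (nat_lit 231) (nat_lit 224))))) (XT.nd (nat_lit 234) (nat_lit 0) (nat_lit 0) (XT.nd (nat_lit 78) (nat_lit 0) (nat_lit 0) (XT.lf (nat_lit 0) (nat_lit 1319600528) (nat_lit 76) (nat_lit 36841911657) (nat_lit 76) (nat_lit 35950270393) (nat_lit 4) (nat_lit 4) (nat_lit 5) (nat_lit 5) (nat_lit 5) (nat_lit 4) (nat_lit 446) (nat_lit 231) (nat_lit 223)) (XT.nd (nat_lit 78) (nat_lit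 0) (nat_lit 0) (XT.lf (nat_lit 0) (nat_lit 8703295469) (nat_lit 76) (nat_lit 34253617156) (nat_lit 76) (nat_lit 33264625644) (nat_lit 4) (nat_lit 4) (nat_lit 5) (nat_lit 5) (nat_lit 5) (nat_lit 4) (nat_lit 447) (nat_lit 231) (nat_lit 222)) (XT.lf (nat_lit 0) (nat_lit 16178288733) (nat_lit 76) (nat_lit 31650909164) (nat_lit 76) (nat_lit 30567402847) (nat_lit 4) (nat_lit 4) (nat_lit 5) (nat_lit 5) (nat_lit 5) (nat_lit 4) (nat_lit 448) (nat_lit 231) (nat_lit 221)))) (XT.nd (nat_lit 45864) (nat_lit 0) (nat_lit 228) (XT.nd (nat_lit 78) (nat_lit 0) (nat_lit 0) (XT.lf (nat_lit 0) (nat_lit 23751111869) (nat_lit 76) (nat_lit 29031513468) (nat_lit 76) (nat_lit 27856245204) (nat_lit 4) (nat_lit 4) (nat_lit 5) (nat_lit 5) (nat_lit 5) (nat_lit 4) (nat_lit 449) (nat_lit 231) (nat_lit 220)) (XT.lf (nat_lit 0) (nat_lit 31428381905) (nat_lit 76) (nat_lit 26393141276) (nat_lit 76) (nat_lit 25128783744) (nat_lit 4) (nat_lit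 4) (nat_lit 5) (nat_lit 5) (nat_lit 5) (nat_lit 4) (nat_lit 450) (nat_lit 231) (nat_lit 219))) (XT.nd (nat_lit 78) (nat_lit 0) (nat_lit 0) (XT.lf (nat_lit 0) (nat_lit 22530337440) (nat_lit 76) (nat_lit 2784605063) (nat_lit 76) (nat_lit 2784605063) (nat_lit 7) (nat_lit 4) (nat_lit 8) (nat_lit 5) (nat_lit 8) (nat_lit 4) (nat_lit 436) (nat_lit 232) (nat_lit 232)) (XT.lf (nat_lit 0) (nat_lit 54688519136) (nat_lit 76) (nat_lit 1599414303) (nat_lit 76) (nat_lit 1468583708) (nat_lit 7) (nat_lit 4) (nat_lit 8) (nat_lit 5) (nat_lit 8) (nat_lit 4) (nat_lit 437) (nat_lit 232) (nat_lit 231))))))))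
noncomputable def xc1 : XT := (XT.nd (nat_lit 47580) (nat_lit 0) (nat_lit 0) (XT.nd (nat_lit 46566) (nat_lit 0) (nat_lit 76) (XT.nd (nat_lit 468) (nat_lit 76) (nat_lit 0) (XT.nd (nat_lit 234) (nat_lit 0) (nat_lit 0) (XT.nd (nat_lit 78) (nat_lit 0) (nat_lit 0) (XT.lf (nat_lit 0) (nat_lit 2691399926) (nat_lit 152) (nat_lit 54227711116) (nat_lit 0) (nat_lit 2441059549) (nat_lit 5) (nat_lit 5) (nat_lit 7) (nat_lit 4) (nat_lit 5) (nat_lit 4) (nat_lit 438) (nat_lit 232) (nat_lit 230)) (XT.nd (nat_lit 78) (nat_lit 0) (nat_lit 0) (XT.lf (nat_lit 0) (nat_lit 6910530186) (nat_lit 152) (nat_lit 47561596110) (nat_lit 0) (nat_lit 6540461281) (nat_lit 5) (nat_lit 5) (nat_lit 7) (nat_lit 4) (nat_lit 5) (nat_lit 4) (nat_lit 439) (nat_lit 232) (nat_lit 229)) (XT.lf (nat_lit 0) (nat_lit 11175400279) (nat_lit 152) (nat_lit 40852517629) (nat_lit 0) (nat_lit 10689090086) (nat_lit 5) (nat_lit 5) (nat_lit 7) (nat_lit 4) (nat_lit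 5) (nat_lit 4) (nat_lit 440) (nat_lit 232) (nat_lit 228)))) (XT.nd (nat_lit 78) (nat_lit 0) (nat_lit 0) (XT.lf (nat_lit 0) (nat_lit 15489736791) (nat_lit 152) (nat_lit 34094613372) (nat_lit 0) (nat_lit 14890570978) (nat_lit 5) (nat_lit 5) (nat_lit 7) (nat_lit 4) (nat_lit 5) (nat_lit 4) (nat_lit 441) (nat_lit 232) (nat_lit 227)) (XT.nd (nat_lit 78) (nat_lit 0) (nat_lit 0) (XT.lf (nat_lit 0) (nat_lit 19857309532) (nat_lit 152) (nat_lit 27281978373) (nat_lit 0) (nat_lit 19148575155) (nat_lit 5) (nat_lit 5) (nat_lit 7) (nat_lit 4) (nat_lit 5) (nat_lit 4) (nat_lit 442) (nat_lit 232) (nat_lit 226)) (XT.lf (nat_lit 0) (nat_lit 24281934825) (nat_lit 152) (nat_lit 20408659846) (nat_lit 0) (nat_lit 23466823203) (nat_lit 5) (nat_lit 5) (nat_lit 7) (nat_lit 4) (nat_lit 5) (nat_lit 4) (nat_lit 443) (nat_lit 232) (nat_lit 225))))) (XT.nd (nat_lit 234) (nat_lit 0) (nat_lit 0) (XT.nd (nat_lit 78) (nat_lit 76) (nat_lit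 0) (XT.lf (nat_lit 0) (nat_lit 28767478849) (nat_lit 152) (nat_lit 13468651976) (nat_lit 0) (nat_lit 27849088348) (nat_lit 5) (nat_lit 5) (nat_lit 7) (nat_lit 4) (nat_lit 5) (nat_lit 4) (nat_lit 444) (nat_lit 232) (nat_lit 224)) (XT.nd (nat_lit 78) (nat_lit 76) (nat_lit 0) (XT.lf (nat_lit 0) (nat_lit 33317861012) (nat_lit 152) (nat_lit 6455890681) (nat_lit 0) (nat_lit 32299199754) (nat_lit 5) (nat_lit 5) (nat_lit 7) (nat_lit 4) (nat_lit 5) (nat_lit 4) (nat_lit 445) (nat_lit 232) (nat_lit 223)) (XT.lf (nat_lit 0) (nat_lit 648404400) (nat_lit 76) (nat_lit 37294885834) (nat_lit 76) (nat_lit 36178874327) (nat_lit 4) (nat_lit 4) (nat_lit 5) (nat_lit 5) (nat_lit 5) (nat_lit 4) (nat_lit 446) (nat_lit 232) (nat_lit 222)))) (XT.nd (nat_lit 156) (nat_lit 0) (nat_lit 0) (XT.nd (nat_lit 78) (nat_lit 0) (nat_lit 0) (XT.lf (nat_lit 0) (nat_lit 7967955240) (nat_lit 76) (nat_lit 34737741749) (nat_lit 76) (nat_lit 33527215437)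 (nat_lit 4) (nat_lit 4) (nat_lit 5) (nat_lit 5) (nat_lit 5) (nat_lit 4) (nat_lit 447) (nat_lit 232) (nat_lit 221)) (XT.lf (nat_lit 0) (nat_lit 15380672678) (nat_lit 76) (nat_lit 32165276878) (nat_lit 76) (nat_lit 30862988619) (nat_lit 4) (nat_lit 4) (nat_lit 5) (nat_lit 5) (nat_lit 5) (nat_lit 4) (nat_lit 448) (nat_lit 232) (nat_lit 220))) (XT.nd (nat_lit 78) (nat_lit 0) (nat_lit 0) (XT.lf (nat_lit 0) (nat_lit 22893033847) (nat_lit 76) (nat_lit 29575243435) (nat_lit 76) (nat_lit 28183865909) (nat_lit 4) (nat_lit 4) (nat_lit 5) (nat_lit 5) (nat_lit 5) (nat_lit 4) (nat_lit 449) (nat_lit 232) (nat_lit 219)) (XT.lf (nat_lit 0) (nat_lit 30511602945) (nat_lit 76) (nat_lit 26965378286) (nat_lit 76) (nat_lit 25487506324) (nat_lit 4) (nat_lit 4) (nat_lit 5) (nat_lit 5) (nat_lit 5) (nat_lit 4) (nat_lit 450) (nat_lit 232) (nat_lit 218)))))) (XT.nd (nat_lit 468) (nat_lit 0) (nat_lit 0) (XT.nd (nat_lit 234) (nat_lit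 152) (nat_lit 0) (XT.nd (nat_lit 78) (nat_lit 0) (nat_lit 0) (XT.lf (nat_lit 0) (nat_lit 13120891647) (nat_lit 76) (nat_lit 6745846940) (nat_lit 76) (nat_lit 6745846940) (nat_lit 7) (nat_lit 4) (nat_lit 8) (nat_lit 5) (nat_lit 8) (nat_lit 4) (nat_lit 434) (nat_lit 233) (nat_lit 233)) (XT.nd (nat_lit 78) (nat_lit 0) (nat_lit 0) (XT.lf (nat_lit 0) (nat_lit 35553341522) (nat_lit 76) (nat_lit 9635466406) (nat_lit 76) (nat_lit 9500710894) (nat_lit 7) (nat_lit 4) (nat_lit 8) (nat_lit 5) (nat_lit 8) (nat_lit 4) (nat_lit 435) (nat_lit 233) (nat_lit 232)) (XT.lf (nat_lit 0) (nat_lit 44979537391) (nat_lit 76) (nat_lit 5743202075) (nat_lit 76) (nat_lit 5477615969) (nat_lit 7) (nat_lit 4) (nat_lit 8) (nat_lit 5) (nat_lit 8) (nat_lit 4) (nat_lit 436) (nat_lit 233) (nat_lit 231)))) (XT.nd (nat_lit 78) (nat_lit 152) (nat_lit 0) (XT.lf (nat_lit 0) (nat_lit 54528607383) (nat_lit 76) (nat_lit 1811499881) (nat_lit 76) (nat_lit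 1418893780) (nat_lit 7) (nat_lit 4) (nat_lit 8) (nat_lit 5) (nat_lit 8) (nat_lit 4) (nat_lit 437) (nat_lit 233) (nat_lit 230)) (XT.nd (nat_lit 78) (nat_lit 0) (nat_lit 0) (XT.lf (nat_lit 0) (nat_lit 2695459318) (nat_lit 152) (nat_lit 54473963842) (nat_lit 0) (nat_lit 2194559819) (nat_lit 5) (nat_lit 5) (nat_lit 7) (nat_lit 4) (nat_lit 5) (nat_lit 4) (nat_lit 438) (nat_lit 233) (nat_lit 229)) (XT.lf (nat_lit 0) (nat_lit 6874769837) (nat_lit 152) (nat_lit 47885198577) (nat_lit 0) (nat_lit 6257629049) (nat_lit 5) (nat_lit 5) (nat_lit 7) (nat_lit 4) (nat_lit 5) (nat_lit 4) (nat_lit 439) (nat_lit 233) (nat_lit 228))))) (XT.nd (nat_lit 234) (nat_lit 0) (nat_lit 0) (XT.nd (nat_lit 78) (nat_lit 0) (nat_lit 0) (XT.lf (nat_lit 0) (nat_lit 11100979987) (nat_lit 152) (nat_lit 41251216933) (nat_lit 0) (nat_lit 10370983580) (nat_lit 5) (nat_lit 5) (nat_lit 7) (nat_lit 4) (nat_lit 5) (nat_lit 4) (nat_lit 440) (nat_lit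 233) (nat_lit 227)) (XT.nd (nat_lit 78) (nat_lit 0) (nat_lit 0) (XT.lf (nat_lit 0) (nat_lit 15377782575) (nat_lit 152) (nat_lit 34566222226) (nat_lit 0) (nat_lit 14538217604) (nat_lit 5) (nat_lit 5) (nat_lit 7) (nat_lit 4) (nat_lit 5) (nat_lit 4) (nat_lit 441) (nat_lit 233) (nat_lit 226)) (XT.lf (nat_lit 0) (nat_lit 19708914611) (nat_lit 152) (nat_lit 27824373198) (nat_lit 0) (nat_lit 18762972395) (nat_lit 5) (nat_lit 5) (nat_lit 7) (nat_lit 4) (nat_lit 5) (nat_lit 4) (nat_lit 442) (nat_lit 233) (nat_lit 225)))) (XT.nd (nat_lit 156) (nat_lit 0) (nat_lit 0) (XT.nd (nat_lit 78) (nat_lit 0) (nat_lit 0) (XT.lf (nat_lit 0) (nat_lit 24098160580) (nat_lit 152) (nat_lit 21019778914) (nat_lit 0) (nat_lit 23048939485) (nat_lit 5) (nat_lit 5) (nat_lit 7) (nat_lit 4) (nat_lit 5) (nat_lit 4) (nat_lit 443) (nat_lit 233) (nat_lit 224)) (XT.lf (nat_lit 0) (nat_lit 28549355746) (nat_lit 152) (nat_lit 14146493611) (nat_lit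 0) (nat_lit 27399863894) (nat_lit 5) (nat_lit 5) (nat_lit 7) (nat_lit 4) (nat_lit 5) (nat_lit 4) (nat_lit 444) (nat_lit 233) (nat_lit 223))) (XT.nd (nat_lit 78) (nat_lit 0) (nat_lit 0) (XT.lf (nat_lit 0) (nat_lit 33066389503) (nat_lit 152) (nat_lit 7198511506) (nat_lit 0) (nat_lit 31819547402) (nat_lit 5) (nat_lit 5) (nat_lit 7) (nat_lit 4) (nat_lit 5) (nat_lit 4) (nat_lit 445) (nat_lit 233) (nat_lit 222)) (XT.lf (nat_lit 0) (nat_lit 37653208772) (nat_lit 152) (nat_lit 169761548) (nat_lit 0) (nat_lit 36311851866) (nat_lit 5) (nat_lit 5) (nat_lit 7) (nat_lit 4) (nat_lit 5) (nat_lit 4) (nat_lit 446) (nat_lit 233) (nat_lit 221))))))) (XT.nd (nat_lit 46410) (nat_lit 0) (nat_lit 0) (XT.nd (nat_lit 45864) (nat_lit 0) (nat_lit 76) (XT.nd (nat_lit 234) (nat_lit 0) (nat_lit 0) (XT.nd (nat_lit 78) (nat_lit 0) (nat_lit 0) (XT.lf (nat_lit 0) (nat_lit 7084134877) (nat_lit 76) (nat_lit 35297783616) (nat_lit 76) (nat_lit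 33864664763) (nat_lit 4) (nat_lit 4) (nat_lit 5) (nat_lit 5) (nat_lit 5) (nat_lit 4) (nat_lit 447) (nat_lit 233) (nat_lit 220)) (XT.nd (nat_lit 78) (nat_lit 0) (nat_lit 0) (XT.lf (nat_lit 0) (nat_lit 14436390349) (nat_lit 76) (nat_lit 32754680998) (nat_lit 76) (nat_lit 31232472877) (nat_lit 4) (nat_lit 4) (nat_lit 5) (nat_lit 5) (nat_lit 5) (nat_lit 4) (nat_lit 448) (nat_lit 233) (nat_lit 219)) (XT.lf (nat_lit 0) (nat_lit 21890050579) (nat_lit 76) (nat_lit 30193154598) (nat_lit 76) (nat_lit 28584452042) (nat_lit 4) (nat_lit 4) (nat_lit 5) (nat_lit 5) (nat_lit 5) (nat_lit 4) (nat_lit 449) (nat_lit 233) (nat_lit 218)))) (XT.nd (nat_lit 45474) (nat_lit 0) (nat_lit 228) (XT.lf (nat_lit 0) (nat_lit 29451628474) (nat_lit 76) (nat_lit 27610966189) (nat_lit 76) (nat_lit 25918288452) (nat_lit 4) (nat_lit 4) (nat_lit 5) (nat_lit 5) (nat_lit 5) (nat_lit 4) (nat_lit 450) (nat_lit 233) (nat_lit 217)) (XT.nd (nat_lit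 78) (nat_lit 0) (nat_lit 0) (XT.lf (nat_lit 0) (nat_lit 4008103167) (nat_lit 76) (nat_lit 10603330016) (nat_lit 76) (nat_lit 10603330016) (nat_lit 7) (nat_lit 4) (nat_lit 8) (nat_lit 5) (nat_lit 8) (nat_lit 4) (nat_lit 432) (nat_lit 234) (nat_lit 234)) (XT.lf (nat_lit 0) (nat_lit 17036726396) (nat_lit 76) (nat_lit 17454052195) (nat_lit 76) (nat_lit 17315254017) (nat_lit 7) (nat_lit 4) (nat_lit 8) (nat_lit 5) (nat_lit 8) (nat_lit 4) (nat_lit 433) (nat_lit 234) (nat_lit 233))))) (XT.nd (nat_lit 234) (nat_lit 152) (nat_lit 0) (XT.nd (nat_lit 78) (nat_lit 0) (nat_lit 0) (XT.lf (nat_lit 0) (nat_lit 26158211680) (nat_lit 76) (nat_lit 13670905588) (nat_lit 76) (nat_lit 13397351898) (nat_lit 7) (nat_lit 4) (nat_lit 8) (nat_lit 5) (nat_lit 8) (nat_lit 4) (nat_lit 434) (nat_lit 234) (nat_lit 232)) (XT.nd (nat_lit 78) (nat_lit 0) (nat_lit 0) (XT.lf (nat_lit 0) (nat_lit 35388632417) (nat_lit 76) (nat_lit 9853914551)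 (nat_lit 76) (nat_lit 9449530267) (nat_lit 7) (nat_lit 4) (nat_lit 8) (nat_lit 5) (nat_lit 8) (nat_lit 4) (nat_lit 435) (nat_lit 234) (nat_lit 231)) (XT.lf (nat_lit 0) (nat_lit 44736054023) (nat_lit 76) (nat_lit 5999743849) (nat_lit 76) (nat_lit 5468339571) (nat_lit 7) (nat_lit 4) (nat_lit 8) (nat_lit 5) (nat_lit 8) (nat_lit 4) (nat_lit 436) (nat_lit 234) (nat_lit 230)))) (XT.nd (nat_lit 156) (nat_lit 0) (nat_lit 0) (XT.nd (nat_lit 78) (nat_lit 152) (nat_lit 0) (XT.lf (nat_lit 0) (nat_lit 54208644149) (nat_lit 76) (nat_lit 2105025760) (nat_lit 76) (nat_lit 1450301099) (nat_lit 7) (nat_lit 4) (nat_lit 8) (nat_lit 5) (nat_lit 8) (nat_lit 4) (nat_lit 437) (nat_lit 234) (nat_lit 229)) (XT.lf (nat_lit 0) (nat_lit 2618806418) (nat_lit 152) (nat_lit 54884624125) (nat_lit 0) (nat_lit 1866910118) (nat_lit 5) (nat_lit 5) (nat_lit 7) (nat_lit 4) (nat_lit 5) (nat_lit 4) (nat_lit 438) (nat_lit 234) (nat_lit 228))) (XT.nd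 (nat_lit 78) (nat_lit 0) (nat_lit 0) (XT.lf (nat_lit 0) (nat_lit 6759456994) (nat_lit 152) (nat_lit 48370955697) (nat_lit 0) (nat_lit 5894705074) (nat_lit 5) (nat_lit 5) (nat_lit 7) (nat_lit 4) (nat_lit 5) (nat_lit 4) (nat_lit 439) (nat_lit 234) (nat_lit 227)) (XT.lf (nat_lit 0) (nat_lit 10948133219) (nat_lit 152) (nat_lit 41809883602) (nat_lit 0) (nat_lit 9973812737) (nat_lit 5) (nat_lit 5) (nat_lit 7) (nat_lit 4) (nat_lit 5) (nat_lit 4) (nat_lit 440) (nat_lit 234) (nat_lit 226)))))) (XT.nd (nat_lit 546) (nat_lit 0) (nat_lit 0) (XT.nd (nat_lit 234) (nat_lit 76) (nat_lit 0) (XT.nd (nat_lit 78) (nat_lit 0) (nat_lit 0) (XT.lf (nat_lit 0) (nat_lit 15188495103) (nat_lit 152) (nat_lit 35195674866) (nat_lit 0) (nat_lit 14107797374) (nat_lit 5) (nat_lit 5) (nat_lit 7) (nat_lit 4) (nat_lit 5) (nat_lit 4) (nat_lit 441) (nat_lit 234) (nat_lit 225)) (XT.nd (nat_lit 78) (nat_lit 0) (nat_lit 0) (XT.lf (nat_lit 0) (nat_lit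 19484247815) (nat_lit 152) (nat_lit 28522550081) (nat_lit 0) (nat_lit 18300271207) (nat_lit 5) (nat_lit 5) (nat_lit 7) (nat_lit 4) (nat_lit 5) (nat_lit 4) (nat_lit 442) (nat_lit 234) (nat_lit 224)) (XT.lf (nat_lit 0) (nat_lit 23839144926) (nat_lit 152) (nat_lit 21784678364) (nat_lit 0) (nat_lit 22554897562) (nat_lit 5) (nat_lit 5) (nat_lit 7) (nat_lit 4) (nat_lit 5) (nat_lit 4) (nat_lit 443) (nat_lit 234) (nat_lit 223)))) (XT.nd (nat_lit 156) (nat_lit 76) (nat_lit 0) (XT.nd (nat_lit 78) (nat_lit 0) (nat_lit 0) (XT.lf (nat_lit 0) (nat_lit 28256991685) (nat_lit 152) (nat_lit 14976172252) (nat_lit 0) (nat_lit 26875394072) (nat_lit 5) (nat_lit 5) (nat_lit 7) (nat_lit 4) (nat_lit 5) (nat_lit 4) (nat_lit 444) (nat_lit 234) (nat_lit 222)) (XT.lf (nat_lit 0) (nat_lit 32741648349) (nat_lit 152) (nat_lit 8091082566) (nat_lit 0) (nat_lit 31265535930) (nat_lit 5) (nat_lit 5) (nat_lit 7) (nat_lit 4) (nat_lit 5) (nat_lit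 4) (nat_lit 445) (nat_lit 234) (nat_lit 221))) (XT.nd (nat_lit 78) (nat_lit 76) (nat_lit 0) (XT.lf (nat_lit 0) (nat_lit 37297033547) (nat_lit 152) (nat_lit 1123393207) (nat_lit 0) (nat_lit 35729159182) (nat_lit 5) (nat_lit 5) (nat_lit 7) (nat_lit 4) (nat_lit 5) (nat_lit 4) (nat_lit 446) (nat_lit 234) (nat_lit 220)) (XT.lf (nat_lit 0) (nat_lit 6051062111) (nat_lit 76) (nat_lit 35934232113) (nat_lit 76) (nat_lit 34277268480) (nat_lit 4) (nat_lit 4) (nat_lit 5) (nat_lit 5) (nat_lit 5) (nat_lit 4) (nat_lit 447) (nat_lit 234) (nat_lit 219))))) (XT.nd (nat_lit 45474) (nat_lit 0) (nat_lit 228) (XT.nd (nat_lit 78) (nat_lit 0) (nat_lit 0) (XT.lf (nat_lit 0) (nat_lit 13344616644) (nat_lit 76) (nat_lit 33419636538) (nat_lit 76) (nat_lit 31676178470) (nat_lit 4) (nat_lit 4) (nat_lit 5) (nat_lit 5) (nat_lit 5) (nat_lit 4) (nat_lit 448) (nat_lit 234) (nat_lit 218)) (XT.nd (nat_lit 78) (nat_lit 0) (nat_lit 0) (XT.lf (nat_lit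 0) (nat_lit 20741285671) (nat_lit 76) (nat_lit 30885786879) (nat_lit 76) (nat_lit 29058353630) (nat_lit 4) (nat_lit 4) (nat_lit 5) (nat_lit 5) (nat_lit 5) (nat_lit 4) (nat_lit 449) (nat_lit 234) (nat_lit 217)) (XT.lf (nat_lit 0) (nat_lit 28247532301) (nat_lit 76) (nat_lit 28330469091) (nat_lit 76) (nat_lit 26421506541) (nat_lit 4) (nat_lit 4) (nat_lit 5) (nat_lit 5) (nat_lit 5) (nat_lit 4) (nat_lit 450) (nat_lit 234) (nat_lit 216)))) (XT.nd (nat_lit 156) (nat_lit 76) (nat_lit 0) (XT.nd (nat_lit 78) (nat_lit 0) (nat_lit 0) (XT.lf (nat_lit 0) (nat_lit 9580809228) (nat_lit 152) (nat_lit 4738065057) (nat_lit 0) (nat_lit 9580809228) (nat_lit 8) (nat_lit 5) (nat_lit 10) (nat_lit 4) (nat_lit 8) (nat_lit 4) (nat_lit 430) (nat_lit 235) (nat_lit 235)) (XT.lf (nat_lit 0) (nat_lit 24172499000) (nat_lit 152) (nat_lit 893449119) (nat_lit 0) (nat_lit 24029536877) (nat_lit 8) (nat_lit 5) (nat_lit 10) (nat_lit 4) (nat_lit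 8) (nat_lit 4) (nat_lit 431) (nat_lit 235) (nat_lit 234))) (XT.nd (nat_lit 78) (nat_lit 0) (nat_lit 0) (XT.lf (nat_lit 0) (nat_lit 7930127572) (nat_lit 76) (nat_lit 21391248092) (nat_lit 76) (nat_lit 21109487792) (nat_lit 7) (nat_lit 4) (nat_lit 8) (nat_lit 5) (nat_lit 8) (nat_lit 4) (nat_lit 432) (nat_lit 235) (nat_lit 233)) (XT.lf (nat_lit 0) (nat_lit 16867076017) (nat_lit 76) (nat_lit 17679053784) (nat_lit 76) (nat_lit 17262537972) (nat_lit 7) (nat_lit 4) (nat_lit 8) (nat_lit 5) (nat_lit 8) (nat_lit 4) (nat_lit 433) (nat_lit 235) (nat_lit 232))))))))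
noncomputable def xc2 : XT := (XT.nd (nat_lit 47112) (nat_lit 0) (nat_lit 0) (XT.nd (nat_lit 1014) (nat_lit 76) (nat_lit 0) (XT.nd (nat_lit 468) (nat_lit 0) (nat_lit 0) (XT.nd (nat_lit 234) (nat_lit 152) (nat_lit 0) (XT.nd (nat_lit 78) (nat_lit 0) (nat_lit 0) (XT.lf (nat_lit 0) (nat_lit 25907423811) (nat_lit 76) (nat_lit 13935143615) (nat_lit 76) (nat_lit 13387797208) (nat_lit 7) (nat_lit 4) (nat_lit 8) (nat_lit 5) (nat_lit 8) (nat_lit 4) (nat_lit 434) (nat_lit 235) (nat_lit 231)) (XT.nd (nat_lit 78) (nat_lit 0) (nat_lit 0) (XT.lf (nat_lit 0) (nat_lit 35059070286) (nat_lit 76) (nat_lit 10156246207) (nat_lit 76) (nat_lit 9481879806) (nat_lit 7) (nat_lit 4) (nat_lit 8) (nat_lit 5) (nat_lit 8) (nat_lit 4) (nat_lit 435) (nat_lit 235) (nat_lit 230)) (XT.lf (nat_lit 0) (nat_lit 44330012026) (nat_lit 76) (nat_lit 6339059610) (nat_lit 76) (nat_lit 5541372826) (nat_lit 7) (nat_lit 4) (nat_lit 8) (nat_lit 5) (nat_lit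 8) (nat_lit 4) (nat_lit 436) (nat_lit 235) (nat_lit 229)))) (XT.nd (nat_lit 78) (nat_lit 152) (nat_lit 0) (XT.lf (nat_lit 0) (nat_lit 53728349854) (nat_lit 76) (nat_lit 2480248420) (nat_lit 76) (nat_lit 1562833108) (nat_lit 7) (nat_lit 4) (nat_lit 8) (nat_lit 5) (nat_lit 8) (nat_lit 4) (nat_lit 437) (nat_lit 235) (nat_lit 228)) (XT.nd (nat_lit 78) (nat_lit 0) (nat_lit 0) (XT.lf (nat_lit 0) (nat_lit 2461374246) (nat_lit 152) (nat_lit 55460050794) (nat_lit 0) (nat_lit 1457824149) (nat_lit 5) (nat_lit 5) (nat_lit 7) (nat_lit 4) (nat_lit 5) (nat_lit 4) (nat_lit 438) (nat_lit 235) (nat_lit 227)) (XT.lf (nat_lit 0) (nat_lit 6564490897) (nat_lit 152) (nat_lit 49019291916) (nat_lit 0) (nat_lit 5451372237) (nat_lit 5) (nat_lit 5) (nat_lit 7) (nat_lit 4) (nat_lit 5) (nat_lit 4) (nat_lit 439) (nat_lit 235) (nat_lit 226))))) (XT.nd (nat_lit 234) (nat_lit 0) (nat_lit 0) (XT.nd (nat_lit 78) (nat_lit 0) (nat_lit 0) (XT.lf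 (nat_lit 0) (nat_lit 10716726419) (nat_lit 152) (nat_lit 42529005792) (nat_lit 0) (nat_lit 9497230513) (nat_lit 5) (nat_lit 5) (nat_lit 7) (nat_lit 4) (nat_lit 5) (nat_lit 4) (nat_lit 440) (nat_lit 235) (nat_lit 225)) (XT.nd (nat_lit 78) (nat_lit 0) (nat_lit 0) (XT.lf (nat_lit 0) (nat_lit 14921708978) (nat_lit 152) (nat_lit 35983521299) (nat_lit 0) (nat_lit 13598934193) (nat_lit 5) (nat_lit 5) (nat_lit 7) (nat_lit 4) (nat_lit 5) (nat_lit 4) (nat_lit 441) (nat_lit 235) (nat_lit 224)) (XT.lf (nat_lit 0) (nat_lit 19183112832) (nat_lit 152) (nat_lit 29377119082) (nat_lit 0) (nat_lit 17760067291) (nat_lit 5) (nat_lit 5) (nat_lit 7) (nat_lit 4) (nat_lit 5) (nat_lit 4) (nat_lit 442) (nat_lit 235) (nat_lit 223)))) (XT.nd (nat_lit 156) (nat_lit 0) (nat_lit 0) (XT.nd (nat_lit 78) (nat_lit 0) (nat_lit 0) (XT.lf (nat_lit 0) (nat_lit 23504661537) (nat_lit 152) (nat_lit 22704026555) (nat_lit 0) (nat_lit 21984265746)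 (nat_lit 5) (nat_lit 5) (nat_lit 7) (nat_lit 4) (nat_lit 5) (nat_lit 4) (nat_lit 443) (nat_lit 235) (nat_lit 222)) (XT.lf (nat_lit 0) (nat_lit 27890131203) (nat_lit 152) (nat_lit 15958412861) (nat_lit 0) (nat_lit 26275220608) (nat_lit 5) (nat_lit 5) (nat_lit 7) (nat_lit 4) (nat_lit 5) (nat_lit 4) (nat_lit 444) (nat_lit 235) (nat_lit 221))) (XT.nd (nat_lit 78) (nat_lit 0) (nat_lit 0) (XT.lf (nat_lit 0) (nat_lit 32343353795) (nat_lit 152) (nat_lit 9134383775) (nat_lit 0) (nat_lit 30636681253) (nat_lit 5) (nat_lit 5) (nat_lit 7) (nat_lit 4) (nat_lit 5) (nat_lit 4) (nat_lit 445) (nat_lit 235) (nat_lit 220)) (XT.lf (nat_lit 0) (nat_lit 36868220478) (nat_lit 152) (nat_lit 2225976553) (nat_lit 0) (nat_lit 35072458667) (nat_lit 5) (nat_lit 5) (nat_lit 7) (nat_lit 4) (nat_lit 5) (nat_lit 4) (nat_lit 446) (nat_lit 235) (nat_lit 219)))))) (XT.nd (nat_lit 45552) (nat_lit 0) (nat_lit 228) (XT.nd (nat_lit 234) (nat_lit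 0) (nat_lit 0) (XT.nd (nat_lit 78) (nat_lit 0) (nat_lit 0) (XT.lf (nat_lit 0) (nat_lit 4867834256) (nat_lit 76) (nat_lit 36647643362) (nat_lit 76) (nat_lit 34765387116) (nat_lit 4) (nat_lit 4) (nat_lit 5) (nat_lit 5) (nat_lit 5) (nat_lit 4) (nat_lit 447) (nat_lit 235) (nat_lit 218)) (XT.nd (nat_lit 78) (nat_lit 0) (nat_lit 0) (XT.lf (nat_lit 0) (nat_lit 12104397586) (nat_lit 76) (nat_lit 34160724527) (nat_lit 76) (nat_lit 32194493101) (nat_lit 4) (nat_lit 4) (nat_lit 5) (nat_lit 5) (nat_lit 5) (nat_lit 4) (nat_lit 448) (nat_lit 235) (nat_lit 217)) (XT.lf (nat_lit 0) (nat_lit 19445735349) (nat_lit 76) (nat_lit 31653745489) (nat_lit 76) (nat_lit 29605984762) (nat_lit 4) (nat_lit 4) (nat_lit 5) (nat_lit 5) (nat_lit 5) (nat_lit 4) (nat_lit 449) (nat_lit 235) (nat_lit 216)))) (XT.nd (nat_lit 45162) (nat_lit 0) (nat_lit 304) (XT.lf (nat_lit 0) (nat_lit 26898262305) (nat_lit 76) (nat_lit 29124515684) (nat_lit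 76) (nat_lit 26997600296) (nat_lit 4) (nat_lit 4) (nat_lit 5) (nat_lit 5) (nat_lit 5) (nat_lit 4) (nat_lit 450) (nat_lit 235) (nat_lit 215)) (XT.nd (nat_lit 78) (nat_lit 0) (nat_lit 0) (XT.lf (nat_lit 0) (nat_lit 4750613784) (nat_lit 152) (nat_lit 13161715553) (nat_lit 0) (nat_lit 4750613784) (nat_lit 8) (nat_lit 5) (nat_lit 10) (nat_lit 4) (nat_lit 8) (nat_lit 4) (nat_lit 428) (nat_lit 236) (nat_lit 236)) (XT.lf (nat_lit 0) (nat_lit 14355377345) (nat_lit 152) (nat_lit 17980160195) (nat_lit 0) (nat_lit 14208126359) (nat_lit 8) (nat_lit 5) (nat_lit 10) (nat_lit 4) (nat_lit 8) (nat_lit 4) (nat_lit 429) (nat_lit 236) (nat_lit 235))))) (XT.nd (nat_lit 234) (nat_lit 0) (nat_lit 0) (XT.nd (nat_lit 78) (nat_lit 76) (nat_lit 0) (XT.lf (nat_lit 0) (nat_lit 19263935296) (nat_lit 152) (nat_lit 9563061143) (nat_lit 0) (nat_lit 18973722187) (nat_lit 8) (nat_lit 5) (nat_lit 10) (nat_lit 4) (nat_lit 8) (nat_lit 4) (nat_lit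 430) (nat_lit 236) (nat_lit 234)) (XT.nd (nat_lit 78) (nat_lit 76) (nat_lit 0) (XT.lf (nat_lit 0) (nat_lit 24231190454) (nat_lit 152) (nat_lit 1064779204) (nat_lit 0) (nat_lit 23802179168) (nat_lit 8) (nat_lit 5) (nat_lit 10) (nat_lit 4) (nat_lit 8) (nat_lit 4) (nat_lit 431) (nat_lit 236) (nat_lit 233)) (XT.lf (nat_lit 0) (nat_lit 7671816067) (nat_lit 76) (nat_lit 21663413260) (nat_lit 76) (nat_lit 21099646461) (nat_lit 7) (nat_lit 4) (nat_lit 8) (nat_lit 5) (nat_lit 8) (nat_lit 4) (nat_lit 432) (nat_lit 236) (nat_lit 232)))) (XT.nd (nat_lit 156) (nat_lit 0) (nat_lit 0) (XT.nd (nat_lit 78) (nat_lit 0) (nat_lit 0) (XT.lf (nat_lit 0) (nat_lit 16527627022) (nat_lit 76) (nat_lit 17990455390) (nat_lit 76) (nat_lit 17295857997) (nat_lit 7) (nat_lit 4) (nat_lit 8) (nat_lit 5) (nat_lit 8) (nat_lit 4) (nat_lit 433) (nat_lit 236) (nat_lit 231)) (XT.lf (nat_lit 0) (nat_lit 25489200554) (nat_lit 76) (nat_lit 14284638849)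 (nat_lit 76) (nat_lit 13463021461) (nat_lit 7) (nat_lit 4) (nat_lit 8) (nat_lit 5) (nat_lit 8) (nat_lit 4) (nat_lit 434) (nat_lit 236) (nat_lit 230))) (XT.nd (nat_lit 78) (nat_lit 0) (nat_lit 0) (XT.lf (nat_lit 0) (nat_lit 34564367162) (nat_lit 76) (nat_lit 10542725546) (nat_lit 76) (nat_lit 9597787775) (nat_lit 7) (nat_lit 4) (nat_lit 8) (nat_lit 5) (nat_lit 8) (nat_lit 4) (nat_lit 435) (nat_lit 236) (nat_lit 229)) (XT.lf (nat_lit 0) (nat_lit 43761056604) (nat_lit 76) (nat_lit 6761445848) (nat_lit 76) (nat_lit 5696779550) (nat_lit 7) (nat_lit 4) (nat_lit 8) (nat_lit 5) (nat_lit 8) (nat_lit 4) (nat_lit 436) (nat_lit 236) (nat_lit 228))))))) (XT.nd (nat_lit 1014) (nat_lit 0) (nat_lit 0) (XT.nd (nat_lit 468) (nat_lit 76) (nat_lit 0) (XT.nd (nat_lit 234) (nat_lit 0) (nat_lit 0) (XT.nd (nat_lit 78) (nat_lit 152) (nat_lit 0) (XT.lf (nat_lit 0) (nat_lit 53087304824) (nat_lit 76) (nat_lit 2937495724) (nat_lit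 76) (nat_lit 1756588137) (nat_lit 7) (nat_lit 4) (nat_lit 8) (nat_lit 5) (nat_lit 8) (nat_lit 4) (nat_lit 437) (nat_lit 236) (nat_lit 227)) (XT.nd (nat_lit 78) (nat_lit 0) (nat_lit 0) (XT.lf (nat_lit 0) (nat_lit 2223025242) (nat_lit 152) (nat_lit 56200746650) (nat_lit 0) (nat_lit 966944459) (nat_lit 5) (nat_lit 5) (nat_lit 7) (nat_lit 4) (nat_lit 5) (nat_lit 4) (nat_lit 438) (nat_lit 236) (nat_lit 226)) (XT.lf (nat_lit 0) (nat_lit 6289701189) (nat_lit 152) (nat_lit 49830773742) (nat_lit 0) (nat_lit 4927243161) (nat_lit 5) (nat_lit 5) (nat_lit 7) (nat_lit 4) (nat_lit 5) (nat_lit 4) (nat_lit 439) (nat_lit 236) (nat_lit 225)))) (XT.nd (nat_lit 78) (nat_lit 0) (nat_lit 0) (XT.lf (nat_lit 0) (nat_lit 10406557387) (nat_lit 152) (nat_lit 43409211862) (nat_lit 0) (nat_lit 8940820479) (nat_lit 5) (nat_lit 5) (nat_lit 7) (nat_lit 4) (nat_lit 5) (nat_lit 4) (nat_lit 440) (nat_lit 236) (nat_lit 224)) (XT.nd (nat_lit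 78) (nat_lit 0) (nat_lit 0) (XT.lf (nat_lit 0) (nat_lit 14577191088) (nat_lit 152) (nat_lit 36930449936) (nat_lit 0) (nat_lit 13011183424) (nat_lit 5) (nat_lit 5) (nat_lit 7) (nat_lit 4) (nat_lit 5) (nat_lit 4) (nat_lit 441) (nat_lit 236) (nat_lit 223)) (XT.lf (nat_lit 0) (nat_lit 18805246536) (nat_lit 152) (nat_lit 30388826909) (nat_lit 0) (nat_lit 17141888622) (nat_lit 5) (nat_lit 5) (nat_lit 7) (nat_lit 4) (nat_lit 5) (nat_lit 4) (nat_lit 442) (nat_lit 236) (nat_lit 222))))) (XT.nd (nat_lit 234) (nat_lit 76) (nat_lit 0) (XT.nd (nat_lit 78) (nat_lit 0) (nat_lit 0) (XT.lf (nat_lit 0) (nat_lit 23094418147) (nat_lit 152) (nat_lit 23778626800) (nat_lit 0) (nat_lit 21336545429) (nat_lit 5) (nat_lit 5) (nat_lit 7) (nat_lit 4) (nat_lit 5) (nat_lit 4) (nat_lit 443) (nat_lit 236) (nat_lit 221)) (XT.nd (nat_lit 78) (nat_lit 0) (nat_lit 0) (XT.lf (nat_lit 0) (nat_lit 27448453742) (nat_lit 152) (nat_lit 17094073707)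 (nat_lit 0) (nat_lit 25598819077) (nat_lit 5) (nat_lit 5) (nat_lit 7) (nat_lit 4) (nat_lit 5) (nat_lit 4) (nat_lit 444) (nat_lit 236) (nat_lit 220)) (XT.lf (nat_lit 0) (nat_lit 31871157818) (nat_lit 152) (nat_lit 10329326757) (nat_lit 0) (nat_lit 29932433885) (nat_lit 5) (nat_lit 5) (nat_lit 7) (nat_lit 4) (nat_lit 5) (nat_lit 4) (nat_lit 445) (nat_lit 236) (nat_lit 219)))) (XT.nd (nat_lit 156) (nat_lit 0) (nat_lit 0) (XT.nd (nat_lit 78) (nat_lit 76) (nat_lit 0) (XT.lf (nat_lit 0) (nat_lit 36366394874) (nat_lit 152) (nat_lit 3478475007) (nat_lit 0) (nat_lit 34341176505) (nat_lit 5) (nat_lit 5) (nat_lit 7) (nat_lit 4) (nat_lit 5) (nat_lit 4) (nat_lit 446) (nat_lit 236) (nat_lit 218)) (XT.lf (nat_lit 0) (nat_lit 3533417424) (nat_lit 76) (nat_lit 37438640731) (nat_lit 76) (nat_lit 35329447182) (nat_lit 4) (nat_lit 4) (nat_lit 5) (nat_lit 5) (nat_lit 5) (nat_lit 4) (nat_lit 447) (nat_lit 236) (nat_lit 217)))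 (XT.nd (nat_lit 78) (nat_lit 0) (nat_lit 0) (XT.lf (nat_lit 0) (nat_lit 10714649489) (nat_lit 76) (nat_lit 34978592518) (nat_lit 76) (nat_lit 32787869668) (nat_lit 4) (nat_lit 4) (nat_lit 5) (nat_lit 5) (nat_lit 5) (nat_lit 4) (nat_lit 448) (nat_lit 236) (nat_lit 216)) (XT.lf (nat_lit 0) (nat_lit 18002267577) (nat_lit 76) (nat_lit 32497701462) (nat_lit 76) (nat_lit 30227823951) (nat_lit 4) (nat_lit 4) (nat_lit 5) (nat_lit 5) (nat_lit 5) (nat_lit 4) (nat_lit 449) (nat_lit 236) (nat_lit 215)))))) (XT.nd (nat_lit 45474) (nat_lit 0) (nat_lit 76) (XT.nd (nat_lit 45162) (nat_lit 0) (nat_lit 304) (XT.nd (nat_lit 45006) (nat_lit 0) (nat_lit 304) (XT.lf (nat_lit 0) (nat_lit 25402639510) (nat_lit 76) (nat_lit 29993799795) (nat_lit 76) (nat_lit 27647073098) (nat_lit 4) (nat_lit 4) (nat_lit 5) (nat_lit 5) (nat_lit 5) (nat_lit 4) (nat_lit 450) (nat_lit 236) (nat_lit 214)) (XT.nd (nat_lit 78) (nat_lit 0) (nat_lit 0)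 (XT.lf (nat_lit 0) (nat_lit 69284784) (nat_lit 152) (nat_lit 21362683096) (nat_lit 0) (nat_lit 69284784) (nat_lit 8) (nat_lit 5) (nat_lit 10) (nat_lit 4) (nat_lit 8) (nat_lit 4) (nat_lit 426) (nat_lit 237) (nat_lit 237)) (XT.lf (nat_lit 0) (nat_lit 4848912994) (nat_lit 152) (nat_lit 34600164117) (nat_lit 0) (nat_lit 4697244478) (nat_lit 8) (nat_lit 5) (nat_lit 10) (nat_lit 4) (nat_lit 8) (nat_lit 4) (nat_lit 427) (nat_lit 237) (nat_lit 236)))) (XT.nd (nat_lit 156) (nat_lit 0) (nat_lit 0) (XT.nd (nat_lit 78) (nat_lit 0) (nat_lit 0) (XT.lf (nat_lit 0) (nat_lit 9606613914) (nat_lit 152) (nat_lit 26412970067) (nat_lit 0) (nat_lit 9307694411) (nat_lit 8) (nat_lit 5) (nat_lit 10) (nat_lit 4) (nat_lit 8) (nat_lit 4) (nat_lit 428) (nat_lit 237) (nat_lit 235)) (XT.lf (nat_lit 0) (nat_lit 14415829543) (nat_lit 152) (nat_lit 18156630183) (nat_lit 0) (nat_lit 13973947918) (nat_lit 8) (nat_lit 5) (nat_lit 10) (nat_lit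 4) (nat_lit 8) (nat_lit 4) (nat_lit 429) (nat_lit 237) (nat_lit 234))) (XT.nd (nat_lit 78) (nat_lit 0) (nat_lit 0) (XT.lf (nat_lit 0) (nat_lit 19280762109) (nat_lit 152) (nat_lit 9823930187) (nat_lit 0) (nat_lit 18700082306) (nat_lit 8) (nat_lit 5) (nat_lit 10) (nat_lit 4) (nat_lit 8) (nat_lit 4) (nat_lit 430) (nat_lit 237) (nat_lit 233)) (XT.lf (nat_lit 0) (nat_lit 24205662524) (nat_lit 152) (nat_lit 1407589080) (nat_lit 0) (nat_lit 23490227209) (nat_lit 8) (nat_lit 5) (nat_lit 10) (nat_lit 4) (nat_lit 8) (nat_lit 4) (nat_lit 431) (nat_lit 237) (nat_lit 232))))) (XT.nd (nat_lit 234) (nat_lit 152) (nat_lit 0) (XT.nd (nat_lit 78) (nat_lit 0) (nat_lit 0) (XT.lf (nat_lit 0) (nat_lit 7241046112) (nat_lit 76) (nat_lit 22023393351) (nat_lit 76) (nat_lit 21177127442) (nat_lit 7) (nat_lit 4) (nat_lit 8) (nat_lit 5) (nat_lit 8) (nat_lit 4) (nat_lit 432) (nat_lit 237) (nat_lit 231)) (XT.nd (nat_lit 78) (nat_lit 0)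 (nat_lit 0) (XT.lf (nat_lit 0) (nat_lit 16018082805) (nat_lit 76) (nat_lit 18388529109) (nat_lit 76) (nat_lit 17415243205) (nat_lit 7) (nat_lit 4) (nat_lit 8) (nat_lit 5) (nat_lit 8) (nat_lit 4) (nat_lit 433) (nat_lit 237) (nat_lit 230)) (XT.lf (nat_lit 0) (nat_lit 24903176470) (nat_lit 76) (nat_lit 14719696674) (nat_lit 76) (nat_lit 13623090387) (nat_lit 7) (nat_lit 4) (nat_lit 8) (nat_lit 5) (nat_lit 8) (nat_lit 4) (nat_lit 434) (nat_lit 237) (nat_lit 229)))) (XT.nd (nat_lit 156) (nat_lit 152) (nat_lit 0) (XT.nd (nat_lit 78) (nat_lit 0) (nat_lit 0) (XT.lf (nat_lit 0) (nat_lit 33904090780) (nat_lit 76) (nat_lit 11013690270) (nat_lit 76) (nat_lit 9797355456) (nat_lit 7) (nat_lit 4) (nat_lit 8) (nat_lit 5) (nat_lit 8) (nat_lit 4) (nat_lit 435) (nat_lit 237) (nat_lit 228)) (XT.lf (nat_lit 0) (nat_lit 43028690614) (nat_lit 76) (nat_lit 7267271638) (nat_lit 76) (nat_lit 5934695535) (nat_lit 7) (nat_lit 4) (nat_lit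 8) (nat_lit 5) (nat_lit 8) (nat_lit 4) (nat_lit 436) (nat_lit 237) (nat_lit 227))) (XT.nd (nat_lit 78) (nat_lit 152) (nat_lit 0) (XT.lf (nat_lit 0) (nat_lit 52284948921) (nat_lit 76) (nat_lit 3477167209) (nat_lit 76) (nat_lit 2031735487) (nat_lit 7) (nat_lit 4) (nat_lit 8) (nat_lit 5) (nat_lit 8) (nat_lit 4) (nat_lit 437) (nat_lit 237) (nat_lit 226)) (XT.lf (nat_lit 0) (nat_lit 1903551139) (nat_lit 152) (nat_lit 57107358902) (nat_lit 0) (nat_lit 393842124) (nat_lit 5) (nat_lit 5) (nat_lit 7) (nat_lit 4) (nat_lit 5) (nat_lit 4) (nat_lit 438) (nat_lit 237) (nat_lit 225))))))))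
noncomputable def xc3 : XT := (XT.nd (nat_lit 46878) (nat_lit 0) (nat_lit 0) (XT.nd (nat_lit 45786) (nat_lit 0) (nat_lit 76) (XT.nd (nat_lit 468) (nat_lit 76) (nat_lit 0) (XT.nd (nat_lit 234) (nat_lit 0) (nat_lit 0) (XT.nd (nat_lit 78) (nat_lit 0) (nat_lit 0) (XT.lf (nat_lit 0) (nat_lit 5934847762) (nat_lit 152) (nat_lit 50806110238) (nat_lit 0) (nat_lit 4321859868) (nat_lit 5) (nat_lit 5) (nat_lit 7) (nat_lit 4) (nat_lit 5) (nat_lit 4) (nat_lit 439) (nat_lit 237) (nat_lit 224)) (XT.nd (nat_lit 78) (nat_lit 0) (nat_lit 0) (XT.lf (nat_lit 0) (nat_lit 10017355102) (nat_lit 152) (nat_lit 44451270925) (nat_lit 0) (nat_lit 8304096451) (nat_lit 5) (nat_lit 5) (nat_lit 7) (nat_lit 4) (nat_lit 5) (nat_lit 4) (nat_lit 440) (nat_lit 237) (nat_lit 223)) (XT.lf (nat_lit 0) (nat_lit 14154640396) (nat_lit 152) (nat_lit 38037288189) (nat_lit 0) (nat_lit 12344031496) (nat_lit 5) (nat_lit 5) (nat_lit 7) (nat_lit 4) (nat_lit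 5) (nat_lit 4) (nat_lit 441) (nat_lit 237) (nat_lit 222)))) (XT.nd (nat_lit 78) (nat_lit 0) (nat_lit 0) (XT.lf (nat_lit 0) (nat_lit 18350318751) (nat_lit 152) (nat_lit 31558557580) (nat_lit 0) (nat_lit 16445195046) (nat_lit 5) (nat_lit 5) (nat_lit 7) (nat_lit 4) (nat_lit 5) (nat_lit 4) (nat_lit 442) (nat_lit 237) (nat_lit 221)) (XT.nd (nat_lit 78) (nat_lit 0) (nat_lit 0) (XT.lf (nat_lit 0) (nat_lit 22608056291) (nat_lit 152) (nat_lit 25009418072) (nat_lit 0) (nat_lit 20611170639) (nat_lit 5) (nat_lit 5) (nat_lit 7) (nat_lit 4) (nat_lit 5) (nat_lit 4) (nat_lit 443) (nat_lit 237) (nat_lit 220)) (XT.lf (nat_lit 0) (nat_lit 26931573370) (nat_lit 152) (nat_lit 18384147115) (nat_lit 0) (nat_lit 24845598450) (nat_lit 5) (nat_lit 5) (nat_lit 7) (nat_lit 4) (nat_lit 5) (nat_lit 4) (nat_lit 444) (nat_lit 237) (nat_lit 219))))) (XT.nd (nat_lit 234) (nat_lit 0) (nat_lit 0) (XT.nd (nat_lit 78) (nat_lit 76) (nat_lit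 0) (XT.lf (nat_lit 0) (nat_lit 31324647819) (nat_lit 152) (nat_lit 11676955637) (nat_lit 0) (nat_lit 29152178464) (nat_lit 5) (nat_lit 5) (nat_lit 7) (nat_lit 4) (nat_lit 5) (nat_lit 4) (nat_lit 445) (nat_lit 237) (nat_lit 218)) (XT.nd (nat_lit 78) (nat_lit 76) (nat_lit 0) (XT.lf (nat_lit 0) (nat_lit 35791118247) (nat_lit 152) (nat_lit 4881982986) (nat_lit 0) (nat_lit 33534673711) (nat_lit 5) (nat_lit 5) (nat_lit 7) (nat_lit 4) (nat_lit 5) (nat_lit 4) (nat_lit 446) (nat_lit 237) (nat_lit 217)) (XT.lf (nat_lit 0) (nat_lit 2046645620) (nat_lit 76) (nat_lit 38307915383) (nat_lit 76) (nat_lit 35969941547) (nat_lit 4) (nat_lit 4) (nat_lit 5) (nat_lit 5) (nat_lit 5) (nat_lit 4) (nat_lit 447) (nat_lit 237) (nat_lit 216)))) (XT.nd (nat_lit 156) (nat_lit 0) (nat_lit 0) (XT.nd (nat_lit 78) (nat_lit 0) (nat_lit 0) (XT.lf (nat_lit 0) (nat_lit 9174158011) (nat_lit 76) (nat_lit 35873955152) (nat_lit 76) (nat_lit 33456826655)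 (nat_lit 4) (nat_lit 4) (nat_lit 5) (nat_lit 5) (nat_lit 5) (nat_lit 4) (nat_lit 448) (nat_lit 237) (nat_lit 215)) (XT.lf (nat_lit 0) (nat_lit 16409621075) (nat_lit 76) (nat_lit 33418392235) (nat_lit 76) (nat_lit 30924414551) (nat_lit 4) (nat_lit 4) (nat_lit 5) (nat_lit 5) (nat_lit 5) (nat_lit 4) (nat_lit 449) (nat_lit 237) (nat_lit 214))) (XT.nd (nat_lit 44850) (nat_lit 0) (nat_lit 456) (XT.lf (nat_lit 0) (nat_lit 23759357062) (nat_lit 76) (nat_lit 30939080992) (nat_lit 76) (nat_lit 28370492449) (nat_lit 4) (nat_lit 4) (nat_lit 5) (nat_lit 5) (nat_lit 5) (nat_lit 4) (nat_lit 450) (nat_lit 237) (nat_lit 213)) (XT.lf (nat_lit 0) (nat_lit 11541842309) (nat_lit 76) (nat_lit 4431697318) (nat_lit 76) (nat_lit 4431697318) (nat_lit 10) (nat_lit 4) (nat_lit 11) (nat_lit 5) (nat_lit 11) (nat_lit 4) (nat_lit 424) (nat_lit 238) (nat_lit 238)))))) (XT.nd (nat_lit 546) (nat_lit 228) (nat_lit 0) (XT.nd (nat_lit 234)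 (nat_lit 0) (nat_lit 0) (XT.nd (nat_lit 78) (nat_lit 152) (nat_lit 0) (XT.lf (nat_lit 0) (nat_lit 33076088003) (nat_lit 76) (nat_lit 4487243875) (nat_lit 76) (nat_lit 4326338746) (nat_lit 10) (nat_lit 4) (nat_lit 11) (nat_lit 5) (nat_lit 11) (nat_lit 4) (nat_lit 425) (nat_lit 238) (nat_lit 237)) (XT.nd (nat_lit 78) (nat_lit 0) (nat_lit 0) (XT.lf (nat_lit 0) (nat_lit 185734268) (nat_lit 76) (nat_lit 61979016) (nat_lit 152) (nat_lit 42756208084) (nat_lit 8) (nat_lit 5) (nat_lit 9) (nat_lit 5) (nat_lit 10) (nat_lit 4) (nat_lit 426) (nat_lit 238) (nat_lit 236)) (XT.lf (nat_lit 0) (nat_lit 4911178758) (nat_lit 152) (nat_lit 34781928204) (nat_lit 0) (nat_lit 4456040684) (nat_lit 8) (nat_lit 5) (nat_lit 10) (nat_lit 4) (nat_lit 8) (nat_lit 4) (nat_lit 427) (nat_lit 238) (nat_lit 235)))) (XT.nd (nat_lit 156) (nat_lit 0) (nat_lit 0) (XT.nd (nat_lit 78) (nat_lit 0) (nat_lit 0) (XT.lf (nat_lit 0) (nat_lit 9623945531)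 (nat_lit 152) (nat_lit 26681665182) (nat_lit 0) (nat_lit 9025845334) (nat_lit 8) (nat_lit 5) (nat_lit 10) (nat_lit 4) (nat_lit 8) (nat_lit 4) (nat_lit 428) (nat_lit 238) (nat_lit 234)) (XT.lf (nat_lit 0) (nat_lit 14389535775) (nat_lit 152) (nat_lit 18509724355) (nat_lit 0) (nat_lit 13652637400) (nat_lit 8) (nat_lit 5) (nat_lit 10) (nat_lit 4) (nat_lit 8) (nat_lit 4) (nat_lit 429) (nat_lit 238) (nat_lit 233))) (XT.nd (nat_lit 78) (nat_lit 0) (nat_lit 0) (XT.lf (nat_lit 0) (nat_lit 19212113598) (nat_lit 152) (nat_lit 10258965191) (nat_lit 0) (nat_lit 18340459712) (nat_lit 8) (nat_lit 5) (nat_lit 10) (nat_lit 4) (nat_lit 8) (nat_lit 4) (nat_lit 430) (nat_lit 238) (nat_lit 232)) (XT.lf (nat_lit 0) (nat_lit 24095892903) (nat_lit 152) (nat_lit 1922178290) (nat_lit 0) (nat_lit 23093408422) (nat_lit 8) (nat_lit 5) (nat_lit 10) (nat_lit 4) (nat_lit 8) (nat_lit 4) (nat_lit 431) (nat_lit 238) (nat_lit 231))))) (XT.nd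 (nat_lit 234) (nat_lit 152) (nat_lit 0) (XT.nd (nat_lit 78) (nat_lit 0) (nat_lit 0) (XT.lf (nat_lit 0) (nat_lit 6637441306) (nat_lit 76) (nat_lit 22471502911) (nat_lit 76) (nat_lit 21341998435) (nat_lit 7) (nat_lit 4) (nat_lit 8) (nat_lit 5) (nat_lit 8) (nat_lit 4) (nat_lit 432) (nat_lit 238) (nat_lit 230)) (XT.nd (nat_lit 78) (nat_lit 0) (nat_lit 0) (XT.lf (nat_lit 0) (nat_lit 15337998132) (nat_lit 76) (nat_lit 18873622774) (nat_lit 76) (nat_lit 17620797916) (nat_lit 7) (nat_lit 4) (nat_lit 8) (nat_lit 5) (nat_lit 8) (nat_lit 4) (nat_lit 433) (nat_lit 238) (nat_lit 229)) (XT.lf (nat_lit 0) (nat_lit 24148839499) (nat_lit 76) (nat_lit 15240697238) (nat_lit 76) (nat_lit 13868143852) (nat_lit 7) (nat_lit 4) (nat_lit 8) (nat_lit 5) (nat_lit 8) (nat_lit 4) (nat_lit 434) (nat_lit 238) (nat_lit 228)))) (XT.nd (nat_lit 156) (nat_lit 152) (nat_lit 0) (XT.nd (nat_lit 78) (nat_lit 0) (nat_lit 0) (XT.lf (nat_lit 0)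 (nat_lit 33077664201) (nat_lit 76) (nat_lit 11569551899) (nat_lit 76) (nat_lit 10080757225) (nat_lit 7) (nat_lit 4) (nat_lit 8) (nat_lit 5) (nat_lit 8) (nat_lit 4) (nat_lit 435) (nat_lit 238) (nat_lit 227)) (XT.lf (nat_lit 0) (nat_lit 42132274122) (nat_lit 76) (nat_lit 7856978963) (nat_lit 76) (nat_lit 6255328669) (nat_lit 7) (nat_lit 4) (nat_lit 8) (nat_lit 5) (nat_lit 8) (nat_lit 4) (nat_lit 436) (nat_lit 238) (nat_lit 226))) (XT.nd (nat_lit 78) (nat_lit 152) (nat_lit 0) (XT.lf (nat_lit 0) (nat_lit 51320581059) (nat_lit 76) (nat_lit 4099734433) (nat_lit 76) (nat_lit 2388515576) (nat_lit 7) (nat_lit 4) (nat_lit 8) (nat_lit 5) (nat_lit 8) (nat_lit 4) (nat_lit 437) (nat_lit 238) (nat_lit 225)) (XT.lf (nat_lit 0) (nat_lit 1238043640) (nat_lit 76) (nat_lit 267197612) (nat_lit 152) (nat_lit 57916050591) (nat_lit 5) (nat_lit 5) (nat_lit 6) (nat_lit 5) (nat_lit 7) (nat_lit 4) (nat_lit 438) (nat_lit 238) (nat_lit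 224))))))) (XT.nd (nat_lit 45630) (nat_lit 0) (nat_lit 228) (XT.nd (nat_lit 468) (nat_lit 76) (nat_lit 0) (XT.nd (nat_lit 234) (nat_lit 0) (nat_lit 0) (XT.nd (nat_lit 78) (nat_lit 0) (nat_lit 0) (XT.lf (nat_lit 0) (nat_lit 5499620550) (nat_lit 152) (nat_lit 51946153639) (nat_lit 0) (nat_lit 3634693383) (nat_lit 5) (nat_lit 5) (nat_lit 7) (nat_lit 4) (nat_lit 5) (nat_lit 4) (nat_lit 439) (nat_lit 238) (nat_lit 223)) (XT.nd (nat_lit 78) (nat_lit 0) (nat_lit 0) (XT.lf (nat_lit 0) (nat_lit 9548779483) (nat_lit 152) (nat_lit 45656093516) (nat_lit 0) (nat_lit 7586502067) (nat_lit 5) (nat_lit 5) (nat_lit 7) (nat_lit 4) (nat_lit 5) (nat_lit 4) (nat_lit 440) (nat_lit 238) (nat_lit 222)) (XT.lf (nat_lit 0) (nat_lit 13653687685) (nat_lit 152) (nat_lit 39305003199) (nat_lit 0) (nat_lit 11596895463) (nat_lit 5) (nat_lit 5) (nat_lit 7) (nat_lit 4) (nat_lit 5) (nat_lit 4) (nat_lit 441) (nat_lit 238) (nat_lit 221)))) (XT.nd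 (nat_lit 78) (nat_lit 0) (nat_lit 0) (XT.lf (nat_lit 0) (nat_lit 17817931968) (nat_lit 152) (nat_lit 32887333190) (nat_lit 0) (nat_lit 15669377800) (nat_lit 5) (nat_lit 5) (nat_lit 7) (nat_lit 4) (nat_lit 5) (nat_lit 4) (nat_lit 442) (nat_lit 238) (nat_lit 220)) (XT.nd (nat_lit 78) (nat_lit 0) (nat_lit 0) (XT.lf (nat_lit 0) (nat_lit 22045150992) (nat_lit 152) (nat_lit 26397475818) (nat_lit 0) (nat_lit 19807507556) (nat_lit 5) (nat_lit 5) (nat_lit 7) (nat_lit 4) (nat_lit 5) (nat_lit 4) (nat_lit 443) (nat_lit 238) (nat_lit 219)) (XT.lf (nat_lit 0) (nat_lit 26339038444) (nat_lit 152) (nat_lit 19829760333) (nat_lit 0) (nat_lit 24014900573) (nat_lit 5) (nat_lit 5) (nat_lit 7) (nat_lit 4) (nat_lit 5) (nat_lit 4) (nat_lit 444) (nat_lit 238) (nat_lit 218))))) (XT.nd (nat_lit 234) (nat_lit 0) (nat_lit 0) (XT.nd (nat_lit 78) (nat_lit 76) (nat_lit 0) (XT.lf (nat_lit 0) (nat_lit 30703346265) (nat_lit 152) (nat_lit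 13178447954) (nat_lit 0) (nat_lit 28295233214) (nat_lit 5) (nat_lit 5) (nat_lit 7) (nat_lit 4) (nat_lit 5) (nat_lit 4) (nat_lit 445) (nat_lit 238) (nat_lit 217)) (XT.nd (nat_lit 78) (nat_lit 76) (nat_lit 0) (XT.lf (nat_lit 0) (nat_lit 35141887928) (nat_lit 152) (nat_lit 6437726856) (nat_lit 0) (nat_lit 32652245575) (nat_lit 5) (nat_lit 5) (nat_lit 7) (nat_lit 4) (nat_lit 5) (nat_lit 4) (nat_lit 446) (nat_lit 238) (nat_lit 216)) (XT.lf (nat_lit 0) (nat_lit 406219722) (nat_lit 76) (nat_lit 39256226879) (nat_lit 76) (nat_lit 36687429865) (nat_lit 4) (nat_lit 4) (nat_lit 5) (nat_lit 5) (nat_lit 5) (nat_lit 4) (nat_lit 447) (nat_lit 238) (nat_lit 215)))) (XT.nd (nat_lit 156) (nat_lit 0) (nat_lit 0) (XT.nd (nat_lit 78) (nat_lit 0) (nat_lit 0) (XT.lf (nat_lit 0) (nat_lit 7481577089) (nat_lit 76) (nat_lit 36847594786) (nat_lit 76) (nat_lit 34201948586) (nat_lit 4) (nat_lit 4) (nat_lit 5) (nat_lit 5) (nat_lit 5)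 (nat_lit 4) (nat_lit 448) (nat_lit 238) (nat_lit 214)) (XT.lf (nat_lit 0) (nat_lit 14666404208) (nat_lit 76) (nat_lit 34416622293) (nat_lit 76) (nat_lit 31696365234) (nat_lit 4) (nat_lit 4) (nat_lit 5) (nat_lit 5) (nat_lit 5) (nat_lit 4) (nat_lit 449) (nat_lit 238) (nat_lit 213))) (XT.nd (nat_lit 44694) (nat_lit 0) (nat_lit 456) (XT.lf (nat_lit 0) (nat_lit 21966979083) (nat_lit 76) (nat_lit 31961185250) (nat_lit 76) (nat_lit 29168490463) (nat_lit 4) (nat_lit 4) (nat_lit 5) (nat_lit 5) (nat_lit 5) (nat_lit 4) (nat_lit 450) (nat_lit 238) (nat_lit 212)) (XT.lf (nat_lit 0) (nat_lit 1759095743) (nat_lit 76) (nat_lit 8808555304) (nat_lit 76) (nat_lit 8808555304) (nat_lit 10) (nat_lit 4) (nat_lit 11) (nat_lit 5) (nat_lit 11) (nat_lit 4) (nat_lit 422) (nat_lit 239) (nat_lit 239)))))) (XT.nd (nat_lit 546) (nat_lit 76) (nat_lit 0) (XT.nd (nat_lit 234) (nat_lit 152) (nat_lit 0) (XT.nd (nat_lit 78) (nat_lit 0) (nat_lit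 0) (XT.lf (nat_lit 0) (nat_lit 13202626864) (nat_lit 76) (nat_lit 13364309747) (nat_lit 76) (nat_lit 13198577465) (nat_lit 10) (nat_lit 4) (nat_lit 11) (nat_lit 5) (nat_lit 11) (nat_lit 4) (nat_lit 423) (nat_lit 239) (nat_lit 238)) (XT.nd (nat_lit 78) (nat_lit 0) (nat_lit 0) (XT.lf (nat_lit 0) (nat_lit 22992509198) (nat_lit 76) (nat_lit 9073012412) (nat_lit 76) (nat_lit 8746375001) (nat_lit 10) (nat_lit 4) (nat_lit 11) (nat_lit 5) (nat_lit 11) (nat_lit 4) (nat_lit 424) (nat_lit 239) (nat_lit 237)) (XT.lf (nat_lit 0) (nat_lit 32896392758) (nat_lit 76) (nat_lit 4739468926) (nat_lit 76) (nat_lit 4256612943) (nat_lit 10) (nat_lit 4) (nat_lit 11) (nat_lit 5) (nat_lit 11) (nat_lit 4) (nat_lit 425) (nat_lit 239) (nat_lit 236)))) (XT.nd (nat_lit 156) (nat_lit 0) (nat_lit 0) (XT.nd (nat_lit 78) (nat_lit 76) (nat_lit 0) (XT.lf (nat_lit 0) (nat_lit 269272746) (nat_lit 152) (nat_lit 87900823) (nat_lit 76) (nat_lit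 42650939548) (nat_lit 9) (nat_lit 5) (nat_lit 11) (nat_lit 5) (nat_lit 10) (nat_lit 4) (nat_lit 426) (nat_lit 239) (nat_lit 235)) (XT.lf (nat_lit 0) (nat_lit 4884096177) (nat_lit 152) (nat_lit 35145615202) (nat_lit 0) (nat_lit 4125090851) (nat_lit 8) (nat_lit 5) (nat_lit 10) (nat_lit 4) (nat_lit 8) (nat_lit 4) (nat_lit 427) (nat_lit 239) (nat_lit 234))) (XT.nd (nat_lit 78) (nat_lit 0) (nat_lit 0) (XT.lf (nat_lit 0) (nat_lit 9553237565) (nat_lit 152) (nat_lit 27129751237) (nat_lit 0) (nat_lit 8655434061) (nat_lit 8) (nat_lit 5) (nat_lit 10) (nat_lit 4) (nat_lit 8) (nat_lit 4) (nat_lit 428) (nat_lit 239) (nat_lit 233)) (XT.lf (nat_lit 0) (nat_lit 14276473066) (nat_lit 152) (nat_lit 19039751241) (nat_lit 0) (nat_lit 13243914050) (nat_lit 8) (nat_lit 5) (nat_lit 10) (nat_lit 4) (nat_lit 8) (nat_lit 4) (nat_lit 429) (nat_lit 239) (nat_lit 232))))) (XT.nd (nat_lit 234) (nat_lit 0) (nat_lit 0) (XT.nd (nat_lit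 78) (nat_lit 76) (nat_lit 0) (XT.lf (nat_lit 0) (nat_lit 19057929779) (nat_lit 152) (nat_lit 10868546283) (nat_lit 0) (nat_lit 17894540169) (nat_lit 8) (nat_lit 5) (nat_lit 10) (nat_lit 4) (nat_lit 8) (nat_lit 4) (nat_lit 430) (nat_lit 239) (nat_lit 231)) (XT.nd (nat_lit 78) (nat_lit 76) (nat_lit 0) (XT.lf (nat_lit 0) (nat_lit 23901785677) (nat_lit 152) (nat_lit 2608996475) (nat_lit 0) (nat_lit 22611376073) (nat_lit 8) (nat_lit 5) (nat_lit 10) (nat_lit 4) (nat_lit 8) (nat_lit 4) (nat_lit 431) (nat_lit 239) (nat_lit 230)) (XT.lf (nat_lit 0) (nat_lit 5860474226) (nat_lit 76) (nat_lit 23008133491) (nat_lit 76) (nat_lit 21594403504) (nat_lit 7) (nat_lit 4) (nat_lit 8) (nat_lit 5) (nat_lit 8) (nat_lit 4) (nat_lit 432) (nat_lit 239) (nat_lit 229)))) (XT.nd (nat_lit 156) (nat_lit 0) (nat_lit 0) (XT.nd (nat_lit 78) (nat_lit 0) (nat_lit 0) (XT.lf (nat_lit 0) (nat_lit 14486778755) (nat_lit 76) (nat_lit 19446160253)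 (nat_lit 76) (nat_lit 17912701739) (nat_lit 7) (nat_lit 4) (nat_lit 8) (nat_lit 5) (nat_lit 8) (nat_lit 4) (nat_lit 433) (nat_lit 239) (nat_lit 228)) (XT.lf (nat_lit 0) (nat_lit 23225530513) (nat_lit 76) (nat_lit 15848095783) (nat_lit 76) (nat_lit 14198395980) (nat_lit 7) (nat_lit 4) (nat_lit 8) (nat_lit 5) (nat_lit 8) (nat_lit 4) (nat_lit 434) (nat_lit 239) (nat_lit 227))) (XT.nd (nat_lit 78) (nat_lit 0) (nat_lit 0) (XT.lf (nat_lit 0) (nat_lit 32084365303) (nat_lit 76) (nat_lit 12210796140) (nat_lit 76) (nat_lit 10448240717) (nat_lit 7) (nat_lit 4) (nat_lit 8) (nat_lit 5) (nat_lit 8) (nat_lit 4) (nat_lit 435) (nat_lit 239) (nat_lit 226)) (XT.lf (nat_lit 0) (nat_lit 41071023853) (nat_lit 76) (nat_lit 8531083103) (nat_lit 76) (nat_lit 6658959117) (nat_lit 7) (nat_lit 4) (nat_lit 8) (nat_lit 5) (nat_lit 8) (nat_lit 4) (nat_lit 436) (nat_lit 239) (nat_lit 225))))))))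
noncomputable def xc4 : XT := (XT.nd (nat_lit 46488) (nat_lit 0) (nat_lit 0) (XT.nd (nat_lit 1014) (nat_lit 0) (nat_lit 0) (XT.nd (nat_lit 468) (nat_lit 76) (nat_lit 0) (XT.nd (nat_lit 234) (nat_lit 0) (nat_lit 0) (XT.nd (nat_lit 78) (nat_lit 152) (nat_lit 0) (XT.lf (nat_lit 0) (nat_lit 50193358585) (nat_lit 76) (nat_lit 4805741387) (nat_lit 76) (nat_lit 2827240155) (nat_lit 7) (nat_lit 4) (nat_lit 8) (nat_lit 5) (nat_lit 8) (nat_lit 4) (nat_lit 437) (nat_lit 239) (nat_lit 224)) (XT.nd (nat_lit 78) (nat_lit 0) (nat_lit 0) (XT.lf (nat_lit 0) (nat_lit 8824852) (nat_lit 76) (nat_lit 1021029809) (nat_lit 152) (nat_lit 58410431960) (nat_lit 5) (nat_lit 5) (nat_lit 6) (nat_lit 5) (nat_lit 7) (nat_lit 4) (nat_lit 438) (nat_lit 239) (nat_lit 223)) (XT.lf (nat_lit 0) (nat_lit 4983639257) (nat_lit 152) (nat_lit 53251900099) (nat_lit 0) (nat_lit 2865143269) (nat_lit 5) (nat_lit 5) (nat_lit 7) (nat_lit 4) (nat_lit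 5) (nat_lit 4) (nat_lit 439) (nat_lit 239) (nat_lit 222)))) (XT.nd (nat_lit 78) (nat_lit 0) (nat_lit 0) (XT.lf (nat_lit 0) (nat_lit 9000421096) (nat_lit 152) (nat_lit 47024732395) (nat_lit 0) (nat_lit 6787410304) (nat_lit 5) (nat_lit 5) (nat_lit 7) (nat_lit 4) (nat_lit 5) (nat_lit 4) (nat_lit 440) (nat_lit 239) (nat_lit 221)) (XT.nd (nat_lit 78) (nat_lit 0) (nat_lit 0) (XT.lf (nat_lit 0) (nat_lit 13073895227) (nat_lit 152) (nat_lit 40734702677) (nat_lit 0) (nat_lit 10769122487) (nat_lit 5) (nat_lit 5) (nat_lit 7) (nat_lit 4) (nat_lit 5) (nat_lit 4) (nat_lit 441) (nat_lit 239) (nat_lit 220)) (XT.lf (nat_lit 0) (nat_lit 17207620994) (nat_lit 152) (nat_lit 34376314805) (nat_lit 0) (nat_lit 14813758986) (nat_lit 5) (nat_lit 5) (nat_lit 7) (nat_lit 4) (nat_lit 5) (nat_lit 4) (nat_lit 442) (nat_lit 239) (nat_lit 219))))) (XT.nd (nat_lit 234) (nat_lit 76) (nat_lit 0) (XT.nd (nat_lit 78) (nat_lit 0) (nat_lit 0)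 (XT.lf (nat_lit 0) (nat_lit 21405210391) (nat_lit 152) (nat_lit 27944012905) (nat_lit 0) (nat_lit 18924853948) (nat_lit 5) (nat_lit 5) (nat_lit 7) (nat_lit 4) (nat_lit 5) (nat_lit 4) (nat_lit 443) (nat_lit 239) (nat_lit 218)) (XT.nd (nat_lit 78) (nat_lit 0) (nat_lit 0) (XT.lf (nat_lit 0) (nat_lit 25670331216) (nat_lit 152) (nat_lit 21432176519) (nat_lit 0) (nat_lit 23105999593) (nat_lit 5) (nat_lit 5) (nat_lit 7) (nat_lit 4) (nat_lit 5) (nat_lit 4) (nat_lit 444) (nat_lit 239) (nat_lit 217)) (XT.lf (nat_lit 0) (nat_lit 30006710272) (nat_lit 152) (nat_lit 14835115693) (nat_lit 0) (nat_lit 27360849347) (nat_lit 5) (nat_lit 5) (nat_lit 7) (nat_lit 4) (nat_lit 5) (nat_lit 4) (nat_lit 445) (nat_lit 239) (nat_lit 216)))) (XT.nd (nat_lit 156) (nat_lit 76) (nat_lit 0) (XT.nd (nat_lit 78) (nat_lit 0) (nat_lit 0) (XT.lf (nat_lit 0) (nat_lit 34418136628) (nat_lit 152) (nat_lit 8147066004) (nat_lit 0) (nat_lit 31693121043)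 (nat_lit 5) (nat_lit 5) (nat_lit 7) (nat_lit 4) (nat_lit 5) (nat_lit 4) (nat_lit 446) (nat_lit 239) (nat_lit 215)) (XT.lf (nat_lit 0) (nat_lit 38908464929) (nat_lit 152) (nat_lit 1362183527) (nat_lit 0) (nat_lit 36106600158) (nat_lit 5) (nat_lit 5) (nat_lit 7) (nat_lit 4) (nat_lit 5) (nat_lit 4) (nat_lit 447) (nat_lit 239) (nat_lit 214))) (XT.nd (nat_lit 78) (nat_lit 0) (nat_lit 0) (XT.lf (nat_lit 0) (nat_lit 5635427771) (nat_lit 76) (nat_lit 37900362171) (nat_lit 76) (nat_lit 35023886541) (nat_lit 4) (nat_lit 4) (nat_lit 5) (nat_lit 5) (nat_lit 5) (nat_lit 4) (nat_lit 448) (nat_lit 239) (nat_lit 213)) (XT.lf (nat_lit 0) (nat_lit 12771093777) (nat_lit 76) (nat_lit 35493263878) (nat_lit 76) (nat_lit 32544350519) (nat_lit 4) (nat_lit 4) (nat_lit 5) (nat_lit 5) (nat_lit 5) (nat_lit 4) (nat_lit 449) (nat_lit 239) (nat_lit 212)))))) (XT.nd (nat_lit 44928) (nat_lit 0) (nat_lit 304) (XT.nd (nat_lit 44694) (nat_lit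 0) (nat_lit 456) (XT.nd (nat_lit 44538) (nat_lit 0) (nat_lit 532) (XT.lf (nat_lit 0) (nat_lit 20023939417) (nat_lit 76) (nat_lit 33061005670) (nat_lit 76) (nat_lit 30041764419) (nat_lit 4) (nat_lit 4) (nat_lit 5) (nat_lit 5) (nat_lit 5) (nat_lit 4) (nat_lit 450) (nat_lit 239) (nat_lit 211)) (XT.nd (nat_lit 78) (nat_lit 0) (nat_lit 0) (XT.lf (nat_lit 0) (nat_lit 5411774482) (nat_lit 152) (nat_lit 7584735959) (nat_lit 0) (nat_lit 5411774482) (nat_lit 11) (nat_lit 5) (nat_lit 13) (nat_lit 4) (nat_lit 11) (nat_lit 4) (nat_lit 420) (nat_lit 240) (nat_lit 240)) (XT.lf (nat_lit 0) (nat_lit 15994917658) (nat_lit 152) (nat_lit 5950825952) (nat_lit 0) (nat_lit 15824213407) (nat_lit 11) (nat_lit 5) (nat_lit 13) (nat_lit 4) (nat_lit 11) (nat_lit 4) (nat_lit 421) (nat_lit 240) (nat_lit 239)))) (XT.nd (nat_lit 78) (nat_lit 0) (nat_lit 0) (XT.lf (nat_lit 0) (nat_lit 3424280805) (nat_lit 76) (nat_lit 17833016917) (nat_lit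 76) (nat_lit 17496580383) (nat_lit 10) (nat_lit 4) (nat_lit 11) (nat_lit 5) (nat_lit 11) (nat_lit 4) (nat_lit 422) (nat_lit 240) (nat_lit 238)) (XT.nd (nat_lit 78) (nat_lit 0) (nat_lit 0) (XT.lf (nat_lit 0) (nat_lit 13017540761) (nat_lit 76) (nat_lit 13624101550) (nat_lit 76) (nat_lit 13126759887) (nat_lit 10) (nat_lit 4) (nat_lit 11) (nat_lit 5) (nat_lit 11) (nat_lit 4) (nat_lit 423) (nat_lit 240) (nat_lit 237)) (XT.lf (nat_lit 0) (nat_lit 22718903270) (nat_lit 76) (nat_lit 9375411490) (nat_lit 76) (nat_lit 8721851256) (nat_lit 10) (nat_lit 4) (nat_lit 11) (nat_lit 5) (nat_lit 11) (nat_lit 4) (nat_lit 424) (nat_lit 240) (nat_lit 236))))) (XT.nd (nat_lit 234) (nat_lit 0) (nat_lit 0) (XT.nd (nat_lit 78) (nat_lit 152) (nat_lit 0) (XT.lf (nat_lit 0) (nat_lit 32536845252) (nat_lit 76) (nat_lit 5083234290) (nat_lit 76) (nat_lit 4278005540) (nat_lit 10) (nat_lit 4) (nat_lit 11) (nat_lit 5) (nat_lit 11) (nat_lit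 4) (nat_lit 425) (nat_lit 240) (nat_lit 235)) (XT.nd (nat_lit 78) (nat_lit 76) (nat_lit 0) (XT.lf (nat_lit 0) (nat_lit 204588519) (nat_lit 152) (nat_lit 537165041) (nat_lit 76) (nat_lit 42273291027) (nat_lit 9) (nat_lit 5) (nat_lit 11) (nat_lit 5) (nat_lit 10) (nat_lit 4) (nat_lit 426) (nat_lit 240) (nat_lit 234)) (XT.lf (nat_lit 0) (nat_lit 4767641586) (nat_lit 152) (nat_lit 35691542895) (nat_lit 0) (nat_lit 3704105800) (nat_lit 8) (nat_lit 5) (nat_lit 10) (nat_lit 4) (nat_lit 8) (nat_lit 4) (nat_lit 427) (nat_lit 240) (nat_lit 233)))) (XT.nd (nat_lit 156) (nat_lit 0) (nat_lit 0) (XT.nd (nat_lit 78) (nat_lit 0) (nat_lit 0) (XT.lf (nat_lit 0) (nat_lit 9394428231) (nat_lit 152) (nat_lit 27757619761) (nat_lit 0) (nat_lit 8196136933) (nat_lit 8) (nat_lit 5) (nat_lit 10) (nat_lit 4) (nat_lit 8) (nat_lit 4) (nat_lit 428) (nat_lit 240) (nat_lit 232)) (XT.lf (nat_lit 0) (nat_lit 14076542622) (nat_lit 152) (nat_lit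 19747173971) (nat_lit 0) (nat_lit 12747420730) (nat_lit 8) (nat_lit 5) (nat_lit 10) (nat_lit 4) (nat_lit 8) (nat_lit 4) (nat_lit 429) (nat_lit 240) (nat_lit 231))) (XT.nd (nat_lit 78) (nat_lit 0) (nat_lit 0) (XT.lf (nat_lit 0) (nat_lit 18818075928) (nat_lit 152) (nat_lit 11653206106) (nat_lit 0) (nat_lit 17361934042) (nat_lit 8) (nat_lit 5) (nat_lit 10) (nat_lit 4) (nat_lit 8) (nat_lit 4) (nat_lit 430) (nat_lit 240) (nat_lit 230)) (XT.lf (nat_lit 0) (nat_lit 23623171236) (nat_lit 152) (nat_lit 3468643766) (nat_lit 0) (nat_lit 22043708967) (nat_lit 8) (nat_lit 5) (nat_lit 10) (nat_lit 4) (nat_lit 8) (nat_lit 4) (nat_lit 431) (nat_lit 240) (nat_lit 229))))))) (XT.nd (nat_lit 1014) (nat_lit 76) (nat_lit 0) (XT.nd (nat_lit 468) (nat_lit 152) (nat_lit 0) (XT.nd (nat_lit 234) (nat_lit 0) (nat_lit 0) (XT.nd (nat_lit 78) (nat_lit 0) (nat_lit 0) (XT.lf (nat_lit 0) (nat_lit 4909465970) (nat_lit 76) (nat_lit 23633753993)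 (nat_lit 76) (nat_lit 21934563196) (nat_lit 7) (nat_lit 4) (nat_lit 8) (nat_lit 5) (nat_lit 8) (nat_lit 4) (nat_lit 432) (nat_lit 240) (nat_lit 228)) (XT.nd (nat_lit 78) (nat_lit 0) (nat_lit 0) (XT.lf (nat_lit 0) (nat_lit 13463680890) (nat_lit 76) (nat_lit 20106641821) (nat_lit 76) (nat_lit 18291209736) (nat_lit 7) (nat_lit 4) (nat_lit 8) (nat_lit 5) (nat_lit 8) (nat_lit 4) (nat_lit 433) (nat_lit 240) (nat_lit 227)) (XT.lf (nat_lit 0) (nat_lit 22132442736) (nat_lit 76) (nat_lit 16542423046) (nat_lit 76) (nat_lit 14614135341) (nat_lit 7) (nat_lit 4) (nat_lit 8) (nat_lit 5) (nat_lit 8) (nat_lit 4) (nat_lit 434) (nat_lit 240) (nat_lit 226)))) (XT.nd (nat_lit 78) (nat_lit 0) (nat_lit 0) (XT.lf (nat_lit 0) (nat_lit 30923326155) (nat_lit 76) (nat_lit 12937983302) (nat_lit 76) (nat_lit 10900127034) (nat_lit 7) (nat_lit 4) (nat_lit 8) (nat_lit 5) (nat_lit 8) (nat_lit 4) (nat_lit 435) (nat_lit 240) (nat_lit 225))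 (XT.nd (nat_lit 78) (nat_lit 0) (nat_lit 0) (XT.lf (nat_lit 0) (nat_lit 39844012501) (nat_lit 76) (nat_lit 9290173079) (nat_lit 76) (nat_lit 7145939565) (nat_lit 7) (nat_lit 4) (nat_lit 8) (nat_lit 5) (nat_lit 8) (nat_lit 4) (nat_lit 436) (nat_lit 240) (nat_lit 224)) (XT.lf (nat_lit 0) (nat_lit 48902296549) (nat_lit 76) (nat_lit 5595804969) (nat_lit 76) (nat_lit 3348292576) (nat_lit 7) (nat_lit 4) (nat_lit 8) (nat_lit 5) (nat_lit 8) (nat_lit 4) (nat_lit 437) (nat_lit 240) (nat_lit 223))))) (XT.nd (nat_lit 234) (nat_lit 0) (nat_lit 0) (XT.nd (nat_lit 78) (nat_lit 76) (nat_lit 0) (XT.lf (nat_lit 0) (nat_lit 486450937) (nat_lit 152) (nat_lit 1360287745) (nat_lit 76) (nat_lit 57614730166) (nat_lit 6) (nat_lit 5) (nat_lit 8) (nat_lit 5) (nat_lit 7) (nat_lit 4) (nat_lit 438) (nat_lit 240) (nat_lit 222)) (XT.nd (nat_lit 78) (nat_lit 0) (nat_lit 0) (XT.lf (nat_lit 0) (nat_lit 4386453025) (nat_lit 152) (nat_lit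 54724490562) (nat_lit 0) (nat_lit 2012537104) (nat_lit 5) (nat_lit 5) (nat_lit 7) (nat_lit 4) (nat_lit 5) (nat_lit 4) (nat_lit 439) (nat_lit 240) (nat_lit 221)) (XT.lf (nat_lit 0) (nat_lit 8371800794) (nat_lit 152) (nat_lit 48558383458) (nat_lit 0) (nat_lit 5906122926) (nat_lit 5) (nat_lit 5) (nat_lit 7) (nat_lit 4) (nat_lit 5) (nat_lit 4) (nat_lit 440) (nat_lit 240) (nat_lit 220)))) (XT.nd (nat_lit 156) (nat_lit 0) (nat_lit 0) (XT.nd (nat_lit 78) (nat_lit 0) (nat_lit 0) (XT.lf (nat_lit 0) (nat_lit 12414756408) (nat_lit 152) (nat_lit 42327635877) (nat_lit 0) (nat_lit 9859989272) (nat_lit 5) (nat_lit 5) (nat_lit 7) (nat_lit 4) (nat_lit 5) (nat_lit 4) (nat_lit 441) (nat_lit 240) (nat_lit 219)) (XT.lf (nat_lit 0) (nat_lit 16518852548) (nat_lit 152) (nat_lit 36026803477) (nat_lit 0) (nat_lit 13877590976) (nat_lit 5) (nat_lit 5) (nat_lit 7) (nat_lit 4) (nat_lit 5) (nat_lit 4) (nat_lit 442) (nat_lit 240) (nat_lit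 218))) (XT.nd (nat_lit 78) (nat_lit 0) (nat_lit 0) (XT.lf (nat_lit 0) (nat_lit 20687675318) (nat_lit 152) (nat_lit 29650380675) (nat_lit 0) (nat_lit 17962438566) (nat_lit 5) (nat_lit 5) (nat_lit 7) (nat_lit 4) (nat_lit 5) (nat_lit 4) (nat_lit 443) (nat_lit 240) (nat_lit 217)) (XT.lf (nat_lit 0) (nat_lit 24924867377) (nat_lit 152) (nat_lit 23192795842) (nat_lit 0) (nat_lit 22118101324) (nat_lit 5) (nat_lit 5) (nat_lit 7) (nat_lit 4) (nat_lit 5) (nat_lit 4) (nat_lit 444) (nat_lit 240) (nat_lit 216)))))) (XT.nd (nat_lit 44850) (nat_lit 0) (nat_lit 456) (XT.nd (nat_lit 234) (nat_lit 76) (nat_lit 0) (XT.nd (nat_lit 78) (nat_lit 0) (nat_lit 0) (XT.lf (nat_lit 0) (nat_lit 29234131127) (nat_lit 152) (nat_lit 16648406426) (nat_lit 0) (nat_lit 26348210413) (nat_lit 5) (nat_lit 5) (nat_lit 7) (nat_lit 4) (nat_lit 5) (nat_lit 4) (nat_lit 445) (nat_lit 240) (nat_lit 215)) (XT.nd (nat_lit 78) (nat_lit 0) (nat_lit 0)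 (XT.lf (nat_lit 0) (nat_lit 33619231943) (nat_lit 152) (nat_lit 10011494029) (nat_lit 0) (nat_lit 30656462044) (nat_lit 5) (nat_lit 5) (nat_lit 7) (nat_lit 4) (nat_lit 5) (nat_lit 4) (nat_lit 446) (nat_lit 240) (nat_lit 214)) (XT.lf (nat_lit 0) (nat_lit 38084001468) (nat_lit 152) (nat_lit 3276259407) (nat_lit 0) (nat_lit 35046620709) (nat_lit 5) (nat_lit 5) (nat_lit 7) (nat_lit 4) (nat_lit 5) (nat_lit 4) (nat_lit 447) (nat_lit 240) (nat_lit 213)))) (XT.nd (nat_lit 156) (nat_lit 0) (nat_lit 0) (XT.nd (nat_lit 78) (nat_lit 0) (nat_lit 0) (XT.lf (nat_lit 0) (nat_lit 3634096915) (nat_lit 76) (nat_lit 39033177203) (nat_lit 76) (nat_lit 35923358716) (nat_lit 4) (nat_lit 4) (nat_lit 5) (nat_lit 5) (nat_lit 5) (nat_lit 4) (nat_lit 448) (nat_lit 240) (nat_lit 212)) (XT.lf (nat_lit 0) (nat_lit 10722033687) (nat_lit 76) (nat_lit 36649257744) (nat_lit 76) (nat_lit 33469111365) (nat_lit 4) (nat_lit 4) (nat_lit 5) (nat_lit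 5) (nat_lit 5) (nat_lit 4) (nat_lit 449) (nat_lit 240) (nat_lit 211))) (XT.nd (nat_lit 44382) (nat_lit 0) (nat_lit 532) (XT.lf (nat_lit 0) (nat_lit 17928540264) (nat_lit 76) (nat_lit 34239503258) (nat_lit 76) (nat_lit 30991077373) (nat_lit 4) (nat_lit 4) (nat_lit 5) (nat_lit 5) (nat_lit 5) (nat_lit 4) (nat_lit 450) (nat_lit 240) (nat_lit 210)) (XT.lf (nat_lit 0) (nat_lit 431805812) (nat_lit 152) (nat_lit 16636152571) (nat_lit 0) (nat_lit 431805812) (nat_lit 11) (nat_lit 5) (nat_lit 13) (nat_lit 4) (nat_lit 11) (nat_lit 4) (nat_lit 418) (nat_lit 241) (nat_lit 241))))) (XT.nd (nat_lit 234) (nat_lit 76) (nat_lit 0) (XT.nd (nat_lit 78) (nat_lit 0) (nat_lit 0) (XT.lf (nat_lit 0) (nat_lit 5881582065) (nat_lit 152) (nat_lit 24306532270) (nat_lit 0) (nat_lit 5705756687) (nat_lit 11) (nat_lit 5) (nat_lit 13) (nat_lit 4) (nat_lit 11) (nat_lit 4) (nat_lit 419) (nat_lit 241) (nat_lit 240)) (XT.nd (nat_lit 78) (nat_lit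 0) (nat_lit 0) (XT.lf (nat_lit 0) (nat_lit 10950134268) (nat_lit 152) (nat_lit 15264312409) (nat_lit 0) (nat_lit 10603604638) (nat_lit 11) (nat_lit 5) (nat_lit 13) (nat_lit 4) (nat_lit 11) (nat_lit 4) (nat_lit 420) (nat_lit 241) (nat_lit 239)) (XT.lf (nat_lit 0) (nat_lit 16073697064) (nat_lit 152) (nat_lit 6137744591) (nat_lit 0) (nat_lit 15561435152) (nat_lit 11) (nat_lit 5) (nat_lit 13) (nat_lit 4) (nat_lit 11) (nat_lit 4) (nat_lit 421) (nat_lit 241) (nat_lit 238)))) (XT.nd (nat_lit 156) (nat_lit 0) (nat_lit 0) (XT.nd (nat_lit 78) (nat_lit 0) (nat_lit 0) (XT.lf (nat_lit 0) (nat_lit 3142466699) (nat_lit 76) (nat_lit 18144487967) (nat_lit 76) (nat_lit 17471320926) (nat_lit 10) (nat_lit 4) (nat_lit 11) (nat_lit 5) (nat_lit 11) (nat_lit 4) (nat_lit 422) (nat_lit 241) (nat_lit 237)) (XT.lf (nat_lit 0) (nat_lit 12647206830) (nat_lit 76) (nat_lit 13978179875) (nat_lit 76) (nat_lit 13148794262) (nat_lit 10) (nat_lit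 4) (nat_lit 11) (nat_lit 5) (nat_lit 11) (nat_lit 4) (nat_lit 423) (nat_lit 241) (nat_lit 236))) (XT.nd (nat_lit 78) (nat_lit 0) (nat_lit 0) (XT.lf (nat_lit 0) (nat_lit 22262627761) (nat_lit 76) (nat_lit 9770856101) (nat_lit 76) (nat_lit 8789801973) (nat_lit 10) (nat_lit 4) (nat_lit 11) (nat_lit 5) (nat_lit 11) (nat_lit 4) (nat_lit 424) (nat_lit 241) (nat_lit 235)) (XT.lf (nat_lit 0) (nat_lit 31997131318) (nat_lit 76) (nat_lit 5518840344) (nat_lit 76) (nat_lit 4390535229) (nat_lit 10) (nat_lit 4) (nat_lit 11) (nat_lit 5) (nat_lit 11) (nat_lit 4) (nat_lit 425) (nat_lit 241) (nat_lit 234))))))))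
noncomputable def xc5 : XT := (XT.nd (nat_lit 46176) (nat_lit 0) (nat_lit 76) (XT.nd (nat_lit 1014) (nat_lit 228) (nat_lit 0) (XT.nd (nat_lit 468) (nat_lit 76) (nat_lit 0) (XT.nd (nat_lit 234) (nat_lit 0) (nat_lit 0) (XT.nd (nat_lit 78) (nat_lit 76) (nat_lit 0) (XT.lf (nat_lit 0) (nat_lit 51818693) (nat_lit 152) (nat_lit 1166075290) (nat_lit 76) (nat_lit 41806881415) (nat_lit 9) (nat_lit 5) (nat_lit 11) (nat_lit 5) (nat_lit 10) (nat_lit 4) (nat_lit 426) (nat_lit 241) (nat_lit 233)) (XT.nd (nat_lit 78) (nat_lit 0) (nat_lit 0) (XT.lf (nat_lit 0) (nat_lit 4561713229) (nat_lit 152) (nat_lit 36420188307) (nat_lit 0) (nat_lit 3192717680) (nat_lit 8) (nat_lit 5) (nat_lit 10) (nat_lit 4) (nat_lit 8) (nat_lit 4) (nat_lit 427) (nat_lit 241) (nat_lit 232)) (XT.lf (nat_lit 0) (nat_lit 9147378765) (nat_lit 152) (nat_lit 28565819379) (nat_lit 0) (nat_lit 7647552621) (nat_lit 8) (nat_lit 5) (nat_lit 10) (nat_lit 4) (nat_lit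 8) (nat_lit 4) (nat_lit 428) (nat_lit 241) (nat_lit 231)))) (XT.nd (nat_lit 78) (nat_lit 0) (nat_lit 0) (XT.lf (nat_lit 0) (nat_lit 13789569749) (nat_lit 152) (nat_lit 20632610682) (nat_lit 0) (nat_lit 12162723611) (nat_lit 8) (nat_lit 5) (nat_lit 10) (nat_lit 4) (nat_lit 8) (nat_lit 4) (nat_lit 429) (nat_lit 241) (nat_lit 230)) (XT.nd (nat_lit 78) (nat_lit 0) (nat_lit 0) (XT.lf (nat_lit 0) (nat_lit 18492342465) (nat_lit 152) (nat_lit 12613630285) (nat_lit 0) (nat_lit 16742175944) (nat_lit 8) (nat_lit 5) (nat_lit 10) (nat_lit 4) (nat_lit 8) (nat_lit 4) (nat_lit 430) (nat_lit 241) (nat_lit 229)) (XT.lf (nat_lit 0) (nat_lit 23259806132) (nat_lit 152) (nat_lit 4501871313) (nat_lit 0) (nat_lit 21389911084) (nat_lit 8) (nat_lit 5) (nat_lit 10) (nat_lit 4) (nat_lit 8) (nat_lit 4) (nat_lit 431) (nat_lit 241) (nat_lit 228))))) (XT.nd (nat_lit 234) (nat_lit 0) (nat_lit 0) (XT.nd (nat_lit 78) (nat_lit 0) (nat_lit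 0) (XT.lf (nat_lit 0) (nat_lit 3783585560) (nat_lit 76) (nat_lit 24348911074) (nat_lit 76) (nat_lit 22362774738) (nat_lit 7) (nat_lit 4) (nat_lit 8) (nat_lit 5) (nat_lit 8) (nat_lit 4) (nat_lit 432) (nat_lit 241) (nat_lit 227)) (XT.nd (nat_lit 78) (nat_lit 0) (nat_lit 0) (XT.lf (nat_lit 0) (nat_lit 12267810568) (nat_lit 76) (nat_lit 20855644598) (nat_lit 76) (nat_lit 18756652642) (nat_lit 7) (nat_lit 4) (nat_lit 8) (nat_lit 5) (nat_lit 8) (nat_lit 4) (nat_lit 433) (nat_lit 241) (nat_lit 226)) (XT.lf (nat_lit 0) (nat_lit 20868621043) (nat_lit 76) (nat_lit 17324285722) (nat_lit 76) (nat_lit 15115725202) (nat_lit 7) (nat_lit 4) (nat_lit 8) (nat_lit 5) (nat_lit 8) (nat_lit 4) (nat_lit 434) (nat_lit 241) (nat_lit 225)))) (XT.nd (nat_lit 156) (nat_lit 0) (nat_lit 0) (XT.nd (nat_lit 78) (nat_lit 0) (nat_lit 0) (XT.lf (nat_lit 0) (nat_lit 29593532258) (nat_lit 76) (nat_lit 13751748792) (nat_lit 76) (nat_lit 11436811027)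 (nat_lit 7) (nat_lit 4) (nat_lit 8) (nat_lit 5) (nat_lit 8) (nat_lit 4) (nat_lit 435) (nat_lit 241) (nat_lit 224)) (XT.lf (nat_lit 0) (nat_lit 38450167920) (nat_lit 76) (nat_lit 10134912175) (nat_lit 76) (nat_lit 7716695530) (nat_lit 7) (nat_lit 4) (nat_lit 8) (nat_lit 5) (nat_lit 8) (nat_lit 4) (nat_lit 436) (nat_lit 241) (nat_lit 223))) (XT.nd (nat_lit 78) (nat_lit 0) (nat_lit 0) (XT.lf (nat_lit 0) (nat_lit 47446266838) (nat_lit 76) (nat_lit 6470615527) (nat_lit 76) (nat_lit 3952128126) (nat_lit 7) (nat_lit 4) (nat_lit 8) (nat_lit 5) (nat_lit 8) (nat_lit 4) (nat_lit 437) (nat_lit 241) (nat_lit 222)) (XT.lf (nat_lit 0) (nat_lit 56589689680) (nat_lit 76) (nat_lit 2755657036) (nat_lit 76) (nat_lit 139819386) (nat_lit 7) (nat_lit 4) (nat_lit 8) (nat_lit 5) (nat_lit 8) (nat_lit 4) (nat_lit 438) (nat_lit 241) (nat_lit 221)))))) (XT.nd (nat_lit 468) (nat_lit 76) (nat_lit 0) (XT.nd (nat_lit 234) (nat_lit 0) (nat_lit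 0) (XT.nd (nat_lit 78) (nat_lit 0) (nat_lit 0) (XT.lf (nat_lit 0) (nat_lit 3707540042) (nat_lit 152) (nat_lit 56365211757) (nat_lit 0) (nat_lit 1076129891) (nat_lit 5) (nat_lit 5) (nat_lit 7) (nat_lit 4) (nat_lit 5) (nat_lit 4) (nat_lit 439) (nat_lit 241) (nat_lit 220)) (XT.nd (nat_lit 78) (nat_lit 0) (nat_lit 0) (XT.lf (nat_lit 0) (nat_lit 7662369295) (nat_lit 152) (nat_lit 50258386789) (nat_lit 0) (nat_lit 4941869876) (nat_lit 5) (nat_lit 5) (nat_lit 7) (nat_lit 4) (nat_lit 5) (nat_lit 4) (nat_lit 440) (nat_lit 241) (nat_lit 219)) (XT.lf (nat_lit 0) (nat_lit 11675695282) (nat_lit 152) (nat_lit 44085194680) (nat_lit 0) (nat_lit 8868701428) (nat_lit 5) (nat_lit 5) (nat_lit 7) (nat_lit 4) (nat_lit 5) (nat_lit 4) (nat_lit 441) (nat_lit 241) (nat_lit 218)))) (XT.nd (nat_lit 78) (nat_lit 0) (nat_lit 0) (XT.lf (nat_lit 0) (nat_lit 15751024794) (nat_lit 152) (nat_lit 37840241379) (nat_lit 0) (nat_lit 12860055760)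 (nat_lit 5) (nat_lit 5) (nat_lit 7) (nat_lit 4) (nat_lit 5) (nat_lit 4) (nat_lit 442) (nat_lit 241) (nat_lit 217)) (XT.nd (nat_lit 78) (nat_lit 0) (nat_lit 0) (XT.lf (nat_lit 0) (nat_lit 19891918799) (nat_lit 152) (nat_lit 31518070131) (nat_lit 0) (nat_lit 16919420463) (nat_lit 5) (nat_lit 5) (nat_lit 7) (nat_lit 4) (nat_lit 5) (nat_lit 4) (nat_lit 443) (nat_lit 241) (nat_lit 216)) (XT.lf (nat_lit 0) (nat_lit 24101995552) (nat_lit 152) (nat_lit 25113156707) (nat_lit 0) (nat_lit 21050342555) (nat_lit 5) (nat_lit 5) (nat_lit 7) (nat_lit 4) (nat_lit 5) (nat_lit 4) (nat_lit 444) (nat_lit 241) (nat_lit 215))))) (XT.nd (nat_lit 234) (nat_lit 76) (nat_lit 0) (XT.nd (nat_lit 78) (nat_lit 0) (nat_lit 0) (XT.lf (nat_lit 0) (nat_lit 28384933762) (nat_lit 152) (nat_lit 18619904582) (nat_lit 0) (nat_lit 25256431580) (nat_lit 5) (nat_lit 5) (nat_lit 7) (nat_lit 4) (nat_lit 5) (nat_lit 4) (nat_lit 445) (nat_lit 241) (nat_lit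 214)) (XT.nd (nat_lit 78) (nat_lit 0) (nat_lit 0) (XT.lf (nat_lit 0) (nat_lit 32744475802) (nat_lit 152) (nat_lit 12032640041) (nat_lit 0) (nat_lit 29541362760) (nat_lit 5) (nat_lit 5) (nat_lit 7) (nat_lit 4) (nat_lit 5) (nat_lit 4) (nat_lit 446) (nat_lit 241) (nat_lit 213)) (XT.lf (nat_lit 0) (nat_lit 37184430981) (nat_lit 152) (nat_lit 5345607221) (nat_lit 0) (nat_lit 33908880211) (nat_lit 5) (nat_lit 5) (nat_lit 7) (nat_lit 4) (nat_lit 5) (nat_lit 4) (nat_lit 447) (nat_lit 241) (nat_lit 212)))) (XT.nd (nat_lit 156) (nat_lit 0) (nat_lit 0) (XT.nd (nat_lit 78) (nat_lit 0) (nat_lit 0) (XT.lf (nat_lit 0) (nat_lit 1475835787) (nat_lit 76) (nat_lit 40247029719) (nat_lit 76) (nat_lit 36901151058) (nat_lit 4) (nat_lit 4) (nat_lit 5) (nat_lit 5) (nat_lit 5) (nat_lit 4) (nat_lit 448) (nat_lit 241) (nat_lit 211)) (XT.lf (nat_lit 0) (nat_lit 8517433496) (nat_lit 76) (nat_lit 37885613983) (nat_lit 76) (nat_lit 34471455815)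 (nat_lit 4) (nat_lit 4) (nat_lit 5) (nat_lit 5) (nat_lit 5) (nat_lit 4) (nat_lit 449) (nat_lit 241) (nat_lit 210))) (XT.nd (nat_lit 44226) (nat_lit 0) (nat_lit 684) (XT.lf (nat_lit 0) (nat_lit 15678950691) (nat_lit 76) (nat_lit 35497707771) (nat_lit 76) (nat_lit 32017258821) (nat_lit 4) (nat_lit 4) (nat_lit 5) (nat_lit 5) (nat_lit 5) (nat_lit 4) (nat_lit 450) (nat_lit 241) (nat_lit 209)) (XT.lf (nat_lit 0) (nat_lit 7924315951) (nat_lit 76) (nat_lit 4359211097) (nat_lit 76) (nat_lit 4359211097) (nat_lit 13) (nat_lit 4) (nat_lit 14) (nat_lit 5) (nat_lit 14) (nat_lit 4) (nat_lit 416) (nat_lit 242) (nat_lit 242))))))) (XT.nd (nat_lit 1014) (nat_lit 228) (nat_lit 0) (XT.nd (nat_lit 468) (nat_lit 152) (nat_lit 0) (XT.nd (nat_lit 234) (nat_lit 76) (nat_lit 0) (XT.nd (nat_lit 78) (nat_lit 152) (nat_lit 0) (XT.lf (nat_lit 0) (nat_lit 26173137656) (nat_lit 76) (nat_lit 4071489840) (nat_lit 76) (nat_lit 3884956696)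 (nat_lit 13) (nat_lit 4) (nat_lit 14) (nat_lit 5) (nat_lit 14) (nat_lit 4) (nat_lit 417) (nat_lit 242) (nat_lit 241)) (XT.nd (nat_lit 78) (nat_lit 0) (nat_lit 0) (XT.lf (nat_lit 0) (nat_lit 993994488) (nat_lit 152) (nat_lit 33369990849) (nat_lit 0) (nat_lit 637068969) (nat_lit 11) (nat_lit 5) (nat_lit 13) (nat_lit 4) (nat_lit 11) (nat_lit 4) (nat_lit 418) (nat_lit 242) (nat_lit 240)) (XT.lf (nat_lit 0) (nat_lit 5962724854) (nat_lit 152) (nat_lit 24499058468) (nat_lit 0) (nat_lit 5435095084) (nat_lit 11) (nat_lit 5) (nat_lit 13) (nat_lit 4) (nat_lit 11) (nat_lit 4) (nat_lit 419) (nat_lit 242) (nat_lit 239)))) (XT.nd (nat_lit 78) (nat_lit 76) (nat_lit 0) (XT.lf (nat_lit 0) (nat_lit 10983471159) (nat_lit 152) (nat_lit 15548916754) (nat_lit 0) (nat_lit 10290109106) (nat_lit 11) (nat_lit 5) (nat_lit 13) (nat_lit 4) (nat_lit 11) (nat_lit 4) (nat_lit 420) (nat_lit 242) (nat_lit 238)) (XT.nd (nat_lit 78) (nat_lit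 76) (nat_lit 0) (XT.lf (nat_lit 0) (nat_lit 16060620462) (nat_lit 152) (nat_lit 6511745195) (nat_lit 0) (nat_lit 15206353281) (nat_lit 11) (nat_lit 5) (nat_lit 13) (nat_lit 4) (nat_lit 11) (nat_lit 4) (nat_lit 421) (nat_lit 242) (nat_lit 237)) (XT.lf (nat_lit 0) (nat_lit 2672502925) (nat_lit 76) (nat_lit 18551795917) (nat_lit 76) (nat_lit 17541310164) (nat_lit 10) (nat_lit 4) (nat_lit 11) (nat_lit 5) (nat_lit 11) (nat_lit 4) (nat_lit 422) (nat_lit 242) (nat_lit 236))))) (XT.nd (nat_lit 234) (nat_lit 152) (nat_lit 0) (XT.nd (nat_lit 78) (nat_lit 0) (nat_lit 0) (XT.lf (nat_lit 0) (nat_lit 12091301477) (nat_lit 76) (nat_lit 14426854111) (nat_lit 76) (nat_lit 13264699842) (nat_lit 10) (nat_lit 4) (nat_lit 11) (nat_lit 5) (nat_lit 11) (nat_lit 4) (nat_lit 423) (nat_lit 242) (nat_lit 235)) (XT.nd (nat_lit 78) (nat_lit 0) (nat_lit 0) (XT.lf (nat_lit 0) (nat_lit 21623283984) (nat_lit 76) (nat_lit 10259691781) (nat_lit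 76) (nat_lit 8950286526) (nat_lit 10) (nat_lit 4) (nat_lit 11) (nat_lit 5) (nat_lit 11) (nat_lit 4) (nat_lit 424) (nat_lit 242) (nat_lit 234)) (XT.lf (nat_lit 0) (nat_lit 31276779360) (nat_lit 76) (nat_lit 6046667716) (nat_lit 76) (nat_lit 4594300338) (nat_lit 10) (nat_lit 4) (nat_lit 11) (nat_lit 5) (nat_lit 11) (nat_lit 4) (nat_lit 425) (nat_lit 242) (nat_lit 233)))) (XT.nd (nat_lit 156) (nat_lit 0) (nat_lit 0) (XT.nd (nat_lit 78) (nat_lit 152) (nat_lit 0) (XT.lf (nat_lit 0) (nat_lit 41060222700) (nat_lit 76) (nat_lit 1784100634) (nat_lit 76) (nat_lit 192935079) (nat_lit 10) (nat_lit 4) (nat_lit 11) (nat_lit 5) (nat_lit 11) (nat_lit 4) (nat_lit 426) (nat_lit 242) (nat_lit 232)) (XT.lf (nat_lit 0) (nat_lit 4266131170) (nat_lit 152) (nat_lit 37332188118) (nat_lit 0) (nat_lit 2590479647) (nat_lit 8) (nat_lit 5) (nat_lit 10) (nat_lit 4) (nat_lit 8) (nat_lit 4) (nat_lit 427) (nat_lit 242) (nat_lit 231))) (XT.nd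 (nat_lit 78) (nat_lit 0) (nat_lit 0) (XT.lf (nat_lit 0) (nat_lit 8811873297) (nat_lit 152) (nat_lit 29555056283) (nat_lit 0) (nat_lit 7009201781) (nat_lit 8) (nat_lit 5) (nat_lit 10) (nat_lit 4) (nat_lit 8) (nat_lit 4) (nat_lit 428) (nat_lit 242) (nat_lit 230)) (XT.lf (nat_lit 0) (nat_lit 13415303691) (nat_lit 152) (nat_lit 21696835055) (nat_lit 0) (nat_lit 11489311792) (nat_lit 8) (nat_lit 5) (nat_lit 10) (nat_lit 4) (nat_lit 8) (nat_lit 4) (nat_lit 429) (nat_lit 242) (nat_lit 229)))))) (XT.nd (nat_lit 546) (nat_lit 152) (nat_lit 0) (XT.nd (nat_lit 234) (nat_lit 0) (nat_lit 0) (XT.nd (nat_lit 78) (nat_lit 76) (nat_lit 0) (XT.lf (nat_lit 0) (nat_lit 18080444767) (nat_lit 152) (nat_lit 13750658026) (nat_lit 0) (nat_lit 16034724340) (nat_lit 8) (nat_lit 5) (nat_lit 10) (nat_lit 4) (nat_lit 8) (nat_lit 4) (nat_lit 430) (nat_lit 242) (nat_lit 228)) (XT.nd (nat_lit 78) (nat_lit 76) (nat_lit 0) (XT.lf (nat_lit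 0) (nat_lit 22811372861) (nat_lit 152) (nat_lit 5709581935) (nat_lit 0) (nat_lit 20649411146) (nat_lit 8) (nat_lit 5) (nat_lit 10) (nat_lit 4) (nat_lit 8) (nat_lit 4) (nat_lit 431) (nat_lit 242) (nat_lit 227)) (XT.lf (nat_lit 0) (nat_lit 2481849217) (nat_lit 76) (nat_lit 25154229630) (nat_lit 76) (nat_lit 22879412295) (nat_lit 7) (nat_lit 4) (nat_lit 8) (nat_lit 5) (nat_lit 8) (nat_lit 4) (nat_lit 432) (nat_lit 242) (nat_lit 226)))) (XT.nd (nat_lit 156) (nat_lit 0) (nat_lit 0) (XT.nd (nat_lit 78) (nat_lit 0) (nat_lit 0) (XT.lf (nat_lit 0) (nat_lit 10898122854) (nat_lit 76) (nat_lit 21693823053) (nat_lit 76) (nat_lit 19309437155) (nat_lit 7) (nat_lit 4) (nat_lit 8) (nat_lit 5) (nat_lit 8) (nat_lit 4) (nat_lit 433) (nat_lit 242) (nat_lit 225)) (XT.lf (nat_lit 0) (nat_lit 19432961124) (nat_lit 76) (nat_lit 18194366991) (nat_lit 76) (nat_lit 15703603847) (nat_lit 7) (nat_lit 4) (nat_lit 8) (nat_lit 5) (nat_lit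 8) (nat_lit 4) (nat_lit 434) (nat_lit 242) (nat_lit 224))) (XT.nd (nat_lit 78) (nat_lit 0) (nat_lit 0) (XT.lf (nat_lit 0) (nat_lit 28093821655) (nat_lit 76) (nat_lit 14652803667) (nat_lit 76) (nat_lit 12058761644) (nat_lit 7) (nat_lit 4) (nat_lit 8) (nat_lit 5) (nat_lit 8) (nat_lit 4) (nat_lit 435) (nat_lit 242) (nat_lit 223)) (XT.lf (nat_lit 0) (nat_lit 36888272187) (nat_lit 76) (nat_lit 11066038512) (nat_lit 76) (nat_lit 8371725732) (nat_lit 7) (nat_lit 4) (nat_lit 8) (nat_lit 5) (nat_lit 8) (nat_lit 4) (nat_lit 436) (nat_lit 242) (nat_lit 222))))) (XT.nd (nat_lit 234) (nat_lit 0) (nat_lit 0) (XT.nd (nat_lit 78) (nat_lit 152) (nat_lit 0) (XT.lf (nat_lit 0) (nat_lit 45823997192) (nat_lit 76) (nat_lit 7430937458) (nat_lit 76) (nat_lit 4639274429) (nat_lit 7) (nat_lit 4) (nat_lit 8) (nat_lit 5) (nat_lit 8) (nat_lit 4) (nat_lit 437) (nat_lit 242) (nat_lit 221)) (XT.nd (nat_lit 78) (nat_lit 152) (nat_lit 0)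 (XT.lf (nat_lit 0) (nat_lit 54908804585) (nat_lit 76) (nat_lit 3744324205) (nat_lit 76) (nat_lit 858146371) (nat_lit 7) (nat_lit 4) (nat_lit 8) (nat_lit 5) (nat_lit 8) (nat_lit 4) (nat_lit 438) (nat_lit 242) (nat_lit 220)) (XT.lf (nat_lit 0) (nat_lit 2946307082) (nat_lit 152) (nat_lit 58175497325) (nat_lit 0) (nat_lit 55103412) (nat_lit 5) (nat_lit 5) (nat_lit 7) (nat_lit 4) (nat_lit 5) (nat_lit 4) (nat_lit 439) (nat_lit 242) (nat_lit 219)))) (XT.nd (nat_lit 156) (nat_lit 0) (nat_lit 0) (XT.nd (nat_lit 78) (nat_lit 0) (nat_lit 0) (XT.lf (nat_lit 0) (nat_lit 6871506708) (nat_lit 152) (nat_lit 52126227829) (nat_lit 0) (nat_lit 3893808602) (nat_lit 5) (nat_lit 5) (nat_lit 7) (nat_lit 4) (nat_lit 5) (nat_lit 4) (nat_lit 440) (nat_lit 242) (nat_lit 218)) (XT.lf (nat_lit 0) (nat_lit 10856066068) (nat_lit 152) (nat_lit 46008914819) (nat_lit 0) (nat_lit 7794392782) (nat_lit 5) (nat_lit 5) (nat_lit 7) (nat_lit 4)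 (nat_lit 5) (nat_lit 4) (nat_lit 441) (nat_lit 242) (nat_lit 217))) (XT.nd (nat_lit 78) (nat_lit 0) (nat_lit 0) (XT.lf (nat_lit 0) (nat_lit 14903466815) (nat_lit 152) (nat_lit 39818213070) (nat_lit 0) (nat_lit 11760264228) (nat_lit 5) (nat_lit 5) (nat_lit 7) (nat_lit 4) (nat_lit 5) (nat_lit 4) (nat_lit 442) (nat_lit 242) (nat_lit 216)) (XT.lf (nat_lit 0) (nat_lit 19017245513) (nat_lit 152) (nat_lit 33548713232) (nat_lit 0) (nat_lit 15794888265) (nat_lit 5) (nat_lit 5) (nat_lit 7) (nat_lit 4) (nat_lit 5) (nat_lit 4) (nat_lit 443) (nat_lit 242) (nat_lit 215))))))))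
noncomputable def xc6 : XT := (XT.nd (nat_lit 46020) (nat_lit 0) (nat_lit 0) (XT.nd (nat_lit 45006) (nat_lit 0) (nat_lit 228) (XT.nd (nat_lit 468) (nat_lit 0) (nat_lit 0) (XT.nd (nat_lit 234) (nat_lit 76) (nat_lit 0) (XT.nd (nat_lit 78) (nat_lit 0) (nat_lit 0) (XT.lf (nat_lit 0) (nat_lit 23200996726) (nat_lit 152) (nat_lit 27194937100) (nat_lit 0) (nat_lit 19901790293) (nat_lit 5) (nat_lit 5) (nat_lit 7) (nat_lit 4) (nat_lit 5) (nat_lit 4) (nat_lit 444) (nat_lit 242) (nat_lit 214)) (XT.nd (nat_lit 78) (nat_lit 0) (nat_lit 0) (XT.lf (nat_lit 0) (nat_lit 27458376160) (nat_lit 152) (nat_lit 20751332831) (nat_lit 0) (nat_lit 24084558867) (nat_lit 5) (nat_lit 5) (nat_lit 7) (nat_lit 4) (nat_lit 5) (nat_lit 4) (nat_lit 445) (nat_lit 242) (nat_lit 213)) (XT.lf (nat_lit 0) (nat_lit 31793103854) (nat_lit 152) (nat_lit 14212270091) (nat_lit 0) (nat_lit 28346848833) (nat_lit 5) (nat_lit 5) (nat_lit 7) (nat_lit 4)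 (nat_lit 5) (nat_lit 4) (nat_lit 446) (nat_lit 242) (nat_lit 212)))) (XT.nd (nat_lit 78) (nat_lit 76) (nat_lit 0) (XT.lf (nat_lit 0) (nat_lit 36208967434) (nat_lit 152) (nat_lit 7572035137) (nat_lit 0) (nat_lit 32692384522) (nat_lit 5) (nat_lit 5) (nat_lit 7) (nat_lit 4) (nat_lit 5) (nat_lit 4) (nat_lit 447) (nat_lit 242) (nat_lit 211)) (XT.nd (nat_lit 78) (nat_lit 76) (nat_lit 0) (XT.lf (nat_lit 0) (nat_lit 40709825423) (nat_lit 152) (nat_lit 824825821) (nat_lit 0) (nat_lit 37124963005) (nat_lit 5) (nat_lit 5) (nat_lit 7) (nat_lit 4) (nat_lit 5) (nat_lit 4) (nat_lit 448) (nat_lit 242) (nat_lit 210)) (XT.lf (nat_lit 0) (nat_lit 6155366854) (nat_lit 76) (nat_lit 39203412906) (nat_lit 76) (nat_lit 35552259705) (nat_lit 4) (nat_lit 4) (nat_lit 5) (nat_lit 5) (nat_lit 5) (nat_lit 4) (nat_lit 449) (nat_lit 242) (nat_lit 209))))) (XT.nd (nat_lit 44226) (nat_lit 0) (nat_lit 532) (XT.nd (nat_lit 44070) (nat_lit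 0) (nat_lit 684) (XT.lf (nat_lit 0) (nat_lit 13273205038) (nat_lit 76) (nat_lit 36836718611) (nat_lit 76) (nat_lit 33121205427) (nat_lit 4) (nat_lit 4) (nat_lit 5) (nat_lit 5) (nat_lit 5) (nat_lit 4) (nat_lit 450) (nat_lit 242) (nat_lit 208)) (XT.nd (nat_lit 78) (nat_lit 76) (nat_lit 0) (XT.lf (nat_lit 0) (nat_lit 6845813009) (nat_lit 152) (nat_lit 2146591460) (nat_lit 0) (nat_lit 6845813009) (nat_lit 14) (nat_lit 5) (nat_lit 16) (nat_lit 4) (nat_lit 14) (nat_lit 4) (nat_lit 414) (nat_lit 243) (nat_lit 243)) (XT.lf (nat_lit 0) (nat_lit 5634533751) (nat_lit 76) (nat_lit 13513266947) (nat_lit 76) (nat_lit 13321137809) (nat_lit 13) (nat_lit 4) (nat_lit 14) (nat_lit 5) (nat_lit 14) (nat_lit 4) (nat_lit 415) (nat_lit 243) (nat_lit 242)))) (XT.nd (nat_lit 156) (nat_lit 152) (nat_lit 0) (XT.nd (nat_lit 78) (nat_lit 0) (nat_lit 0) (XT.lf (nat_lit 0) (nat_lit 15752072620) (nat_lit 76) (nat_lit 8956790116) (nat_lit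 76) (nat_lit 8578127833) (nat_lit 13) (nat_lit 4) (nat_lit 14) (nat_lit 5) (nat_lit 14) (nat_lit 4) (nat_lit 416) (nat_lit 243) (nat_lit 241)) (XT.lf (nat_lit 0) (nat_lit 25982831498) (nat_lit 76) (nat_lit 4354749784) (nat_lit 76) (nat_lit 3794987362) (nat_lit 13) (nat_lit 4) (nat_lit 14) (nat_lit 5) (nat_lit 14) (nat_lit 4) (nat_lit 417) (nat_lit 243) (nat_lit 240))) (XT.nd (nat_lit 78) (nat_lit 0) (nat_lit 0) (XT.lf (nat_lit 0) (nat_lit 1028331486) (nat_lit 152) (nat_lit 33663133324) (nat_lit 0) (nat_lit 314168572) (nat_lit 11) (nat_lit 5) (nat_lit 13) (nat_lit 4) (nat_lit 11) (nat_lit 4) (nat_lit 418) (nat_lit 243) (nat_lit 239)) (XT.lf (nat_lit 0) (nat_lit 5949255954) (nat_lit 152) (nat_lit 24884279090) (nat_lit 0) (nat_lit 5069360758) (nat_lit 11) (nat_lit 5) (nat_lit 13) (nat_lit 4) (nat_lit 11) (nat_lit 4) (nat_lit 419) (nat_lit 243) (nat_lit 238)))))) (XT.nd (nat_lit 468) (nat_lit 228) (nat_lit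 0) (XT.nd (nat_lit 234) (nat_lit 0) (nat_lit 0) (XT.nd (nat_lit 78) (nat_lit 76) (nat_lit 0) (XT.lf (nat_lit 0) (nat_lit 10923588766) (nat_lit 152) (nat_lit 16023533635) (nat_lit 0) (nat_lit 9882788441) (nat_lit 11) (nat_lit 5) (nat_lit 13) (nat_lit 4) (nat_lit 11) (nat_lit 4) (nat_lit 420) (nat_lit 243) (nat_lit 237)) (XT.nd (nat_lit 78) (nat_lit 76) (nat_lit 0) (XT.lf (nat_lit 0) (nat_lit 15955676426) (nat_lit 152) (nat_lit 7073154560) (nat_lit 0) (nat_lit 14758657529) (nat_lit 11) (nat_lit 5) (nat_lit 13) (nat_lit 4) (nat_lit 11) (nat_lit 4) (nat_lit 421) (nat_lit 243) (nat_lit 236)) (XT.lf (nat_lit 0) (nat_lit 2013978834) (nat_lit 76) (nat_lit 19055296666) (nat_lit 76) (nat_lit 17706609253) (nat_lit 10) (nat_lit 4) (nat_lit 11) (nat_lit 5) (nat_lit 11) (nat_lit 4) (nat_lit 422) (nat_lit 243) (nat_lit 235)))) (XT.nd (nat_lit 78) (nat_lit 0) (nat_lit 0) (XT.lf (nat_lit 0) (nat_lit 11349338961) (nat_lit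 76) (nat_lit 14970516304) (nat_lit 76) (nat_lit 13474577904) (nat_lit 10) (nat_lit 4) (nat_lit 11) (nat_lit 5) (nat_lit 11) (nat_lit 4) (nat_lit 423) (nat_lit 243) (nat_lit 234)) (XT.nd (nat_lit 78) (nat_lit 0) (nat_lit 0) (XT.lf (nat_lit 0) (nat_lit 20800313288) (nat_lit 76) (nat_lit 10842345666) (nat_lit 76) (nat_lit 9203445144) (nat_lit 10) (nat_lit 4) (nat_lit 11) (nat_lit 5) (nat_lit 11) (nat_lit 4) (nat_lit 424) (nat_lit 243) (nat_lit 233)) (XT.lf (nat_lit 0) (nat_lit 30375159946) (nat_lit 76) (nat_lit 6667177614) (nat_lit 76) (nat_lit 4889478914) (nat_lit 10) (nat_lit 4) (nat_lit 11) (nat_lit 5) (nat_lit 11) (nat_lit 4) (nat_lit 425) (nat_lit 243) (nat_lit 232))))) (XT.nd (nat_lit 234) (nat_lit 76) (nat_lit 0) (XT.nd (nat_lit 78) (nat_lit 152) (nat_lit 0) (XT.lf (nat_lit 0) (nat_lit 40082245307) (nat_lit 76) (nat_lit 2441363941) (nat_lit 76) (nat_lit 528909730) (nat_lit 10) (nat_lit 4) (nat_lit 11)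 (nat_lit 5) (nat_lit 11) (nat_lit 4) (nat_lit 426) (nat_lit 243) (nat_lit 231)) (XT.nd (nat_lit 78) (nat_lit 0) (nat_lit 0) (XT.lf (nat_lit 0) (nat_lit 3880637131) (nat_lit 152) (nat_lit 38428339223) (nat_lit 0) (nat_lit 1896865474) (nat_lit 8) (nat_lit 5) (nat_lit 10) (nat_lit 4) (nat_lit 8) (nat_lit 4) (nat_lit 427) (nat_lit 243) (nat_lit 230)) (XT.lf (nat_lit 0) (nat_lit 8387618668) (nat_lit 152) (nat_lit 30726194857) (nat_lit 0) (nat_lit 6280526629) (nat_lit 8) (nat_lit 5) (nat_lit 10) (nat_lit 4) (nat_lit 8) (nat_lit 4) (nat_lit 428) (nat_lit 243) (nat_lit 229)))) (XT.nd (nat_lit 156) (nat_lit 76) (nat_lit 0) (XT.nd (nat_lit 78) (nat_lit 0) (nat_lit 0) (XT.lf (nat_lit 0) (nat_lit 12953417422) (nat_lit 152) (nat_lit 22940776996) (nat_lit 0) (nat_lit 10726596855) (nat_lit 8) (nat_lit 5) (nat_lit 10) (nat_lit 4) (nat_lit 8) (nat_lit 4) (nat_lit 429) (nat_lit 243) (nat_lit 228)) (XT.lf (nat_lit 0) (nat_lit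 17582022925) (nat_lit 152) (nat_lit 15065282848) (nat_lit 0) (nat_lit 15238961069) (nat_lit 8) (nat_lit 5) (nat_lit 10) (nat_lit 4) (nat_lit 8) (nat_lit 4) (nat_lit 430) (nat_lit 243) (nat_lit 227))) (XT.nd (nat_lit 78) (nat_lit 76) (nat_lit 0) (XT.lf (nat_lit 0) (nat_lit 22277479588) (nat_lit 152) (nat_lit 7092830914) (nat_lit 0) (nat_lit 19821562113) (nat_lit 8) (nat_lit 5) (nat_lit 10) (nat_lit 4) (nat_lit 8) (nat_lit 4) (nat_lit 431) (nat_lit 243) (nat_lit 226)) (XT.lf (nat_lit 0) (nat_lit 1003119500) (nat_lit 76) (nat_lit 26050413337) (nat_lit 76) (nat_lit 23484927299) (nat_lit 7) (nat_lit 4) (nat_lit 8) (nat_lit 5) (nat_lit 8) (nat_lit 4) (nat_lit 432) (nat_lit 243) (nat_lit 225))))))) (XT.nd (nat_lit 1014) (nat_lit 76) (nat_lit 0) (XT.nd (nat_lit 468) (nat_lit 152) (nat_lit 0) (XT.nd (nat_lit 234) (nat_lit 0) (nat_lit 0) (XT.nd (nat_lit 78) (nat_lit 0) (nat_lit 0) (XT.lf (nat_lit 0) (nat_lit 9353420933)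 (nat_lit 76) (nat_lit 22621909574) (nat_lit 76) (nat_lit 19950046290) (nat_lit 7) (nat_lit 4) (nat_lit 8) (nat_lit 5) (nat_lit 8) (nat_lit 4) (nat_lit 433) (nat_lit 243) (nat_lit 224)) (XT.nd (nat_lit 78) (nat_lit 0) (nat_lit 0) (XT.lf (nat_lit 0) (nat_lit 17824208519) (nat_lit 76) (nat_lit 19153427118) (nat_lit 76) (nat_lit 16378284955) (nat_lit 7) (nat_lit 4) (nat_lit 8) (nat_lit 5) (nat_lit 8) (nat_lit 4) (nat_lit 434) (nat_lit 243) (nat_lit 223)) (XT.lf (nat_lit 0) (nat_lit 26422883919) (nat_lit 76) (nat_lit 15641935256) (nat_lit 76) (nat_lit 12766522336) (nat_lit 7) (nat_lit 4) (nat_lit 8) (nat_lit 5) (nat_lit 8) (nat_lit 4) (nat_lit 435) (nat_lit 243) (nat_lit 222)))) (XT.nd (nat_lit 78) (nat_lit 0) (nat_lit 0) (XT.lf (nat_lit 0) (nat_lit 35156960539) (nat_lit 76) (nat_lit 12084365695) (nat_lit 76) (nat_lit 9111602526) (nat_lit 7) (nat_lit 4) (nat_lit 8) (nat_lit 5) (nat_lit 8) (nat_lit 4) (nat_lit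 436) (nat_lit 243) (nat_lit 221)) (XT.nd (nat_lit 78) (nat_lit 0) (nat_lit 0) (XT.lf (nat_lit 0) (nat_lit 44034070094) (nat_lit 76) (nat_lit 8477609879) (nat_lit 76) (nat_lit 5410331905) (nat_lit 7) (nat_lit 4) (nat_lit 8) (nat_lit 5) (nat_lit 8) (nat_lit 4) (nat_lit 437) (nat_lit 243) (nat_lit 220)) (XT.lf (nat_lit 0) (nat_lit 53061969284) (nat_lit 76) (nat_lit 4818516273) (nat_lit 76) (nat_lit 1659476353) (nat_lit 7) (nat_lit 4) (nat_lit 8) (nat_lit 5) (nat_lit 8) (nat_lit 4) (nat_lit 438) (nat_lit 243) (nat_lit 219))))) (XT.nd (nat_lit 234) (nat_lit 0) (nat_lit 0) (XT.nd (nat_lit 78) (nat_lit 0) (nat_lit 0) (XT.lf (nat_lit 0) (nat_lit 1040037072) (nat_lit 76) (nat_lit 1072360100) (nat_lit 152) (nat_lit 59094877149) (nat_lit 5) (nat_lit 5) (nat_lit 6) (nat_lit 5) (nat_lit 7) (nat_lit 4) (nat_lit 439) (nat_lit 243) (nat_lit 218)) (XT.nd (nat_lit 78) (nat_lit 0) (nat_lit 0) (XT.lf (nat_lit 0) (nat_lit 5998521989)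 (nat_lit 152) (nat_lit 54163538671) (nat_lit 0) (nat_lit 2761023325) (nat_lit 5) (nat_lit 5) (nat_lit 7) (nat_lit 4) (nat_lit 5) (nat_lit 4) (nat_lit 440) (nat_lit 243) (nat_lit 217)) (XT.lf (nat_lit 0) (nat_lit 9955152583) (nat_lit 152) (nat_lit 48100477213) (nat_lit 0) (nat_lit 6636124618) (nat_lit 5) (nat_lit 5) (nat_lit 7) (nat_lit 4) (nat_lit 5) (nat_lit 4) (nat_lit 441) (nat_lit 243) (nat_lit 216)))) (XT.nd (nat_lit 156) (nat_lit 0) (nat_lit 0) (XT.nd (nat_lit 78) (nat_lit 0) (nat_lit 0) (XT.lf (nat_lit 0) (nat_lit 13975438024) (nat_lit 152) (nat_lit 41962446875) (nat_lit 0) (nat_lit 10577255398) (nat_lit 5) (nat_lit 5) (nat_lit 7) (nat_lit 4) (nat_lit 5) (nat_lit 4) (nat_lit 442) (nat_lit 243) (nat_lit 215)) (XT.lf (nat_lit 0) (nat_lit 18062891183) (nat_lit 152) (nat_lit 35744084328) (nat_lit 0) (nat_lit 14587859371) (nat_lit 5) (nat_lit 5) (nat_lit 7) (nat_lit 4) (nat_lit 5) (nat_lit 4) (nat_lit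 443) (nat_lit 243) (nat_lit 214))) (XT.nd (nat_lit 78) (nat_lit 0) (nat_lit 0) (XT.lf (nat_lit 0) (nat_lit 22221083620) (nat_lit 152) (nat_lit 29439956051) (nat_lit 0) (nat_lit 18671440948) (nat_lit 5) (nat_lit 5) (nat_lit 7) (nat_lit 4) (nat_lit 5) (nat_lit 4) (nat_lit 444) (nat_lit 243) (nat_lit 213)) (XT.lf (nat_lit 0) (nat_lit 26453648707) (nat_lit 152) (nat_lit 23044553584) (nat_lit 0) (nat_lit 22831568307) (nat_lit 5) (nat_lit 5) (nat_lit 7) (nat_lit 4) (nat_lit 5) (nat_lit 4) (nat_lit 445) (nat_lit 243) (nat_lit 212)))))) (XT.nd (nat_lit 44382) (nat_lit 0) (nat_lit 532) (XT.nd (nat_lit 234) (nat_lit 76) (nat_lit 0) (XT.nd (nat_lit 78) (nat_lit 0) (nat_lit 0) (XT.lf (nat_lit 0) (nat_lit 30764284803) (nat_lit 152) (nat_lit 16552288710) (nat_lit 0) (nat_lit 27071876512) (nat_lit 5) (nat_lit 5) (nat_lit 7) (nat_lit 4) (nat_lit 5) (nat_lit 4) (nat_lit 446) (nat_lit 243) (nat_lit 211)) (XT.nd (nat_lit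 78) (nat_lit 0) (nat_lit 0) (XT.lf (nat_lit 0) (nat_lit 35156758482) (nat_lit 152) (nat_lit 9957488577) (nat_lit 0) (nat_lit 31396070685) (nat_lit 5) (nat_lit 5) (nat_lit 7) (nat_lit 4) (nat_lit 5) (nat_lit 4) (nat_lit 447) (nat_lit 243) (nat_lit 210)) (XT.lf (nat_lit 0) (nat_lit 39634907829) (nat_lit 152) (nat_lit 3254390738) (nat_lit 0) (nat_lit 35807929249) (nat_lit 5) (nat_lit 5) (nat_lit 7) (nat_lit 4) (nat_lit 5) (nat_lit 4) (nat_lit 448) (nat_lit 243) (nat_lit 209)))) (XT.nd (nat_lit 43992) (nat_lit 0) (nat_lit 760) (XT.nd (nat_lit 78) (nat_lit 0) (nat_lit 0) (XT.lf (nat_lit 0) (nat_lit 3633769820) (nat_lit 76) (nat_lit 40603805988) (nat_lit 76) (nat_lit 36712467425) (nat_lit 4) (nat_lit 4) (nat_lit 5) (nat_lit 5) (nat_lit 5) (nat_lit 4) (nat_lit 449) (nat_lit 243) (nat_lit 208)) (XT.lf (nat_lit 0) (nat_lit 10709201197) (nat_lit 76) (nat_lit 38257705787) (nat_lit 76) (nat_lit 34303881803) (nat_lit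 4) (nat_lit 4) (nat_lit 5) (nat_lit 5) (nat_lit 5) (nat_lit 4) (nat_lit 450) (nat_lit 243) (nat_lit 207))) (XT.nd (nat_lit 78) (nat_lit 0) (nat_lit 0) (XT.lf (nat_lit 0) (nat_lit 1652223050) (nat_lit 152) (nat_lit 11777740062) (nat_lit 0) (nat_lit 1652223050) (nat_lit 14) (nat_lit 5) (nat_lit 16) (nat_lit 4) (nat_lit 14) (nat_lit 4) (nat_lit 412) (nat_lit 244) (nat_lit 244)) (XT.lf (nat_lit 0) (nat_lit 8544580699) (nat_lit 152) (nat_lit 14017185553) (nat_lit 0) (nat_lit 8346687686) (nat_lit 14) (nat_lit 5) (nat_lit 16) (nat_lit 4) (nat_lit 14) (nat_lit 4) (nat_lit 413) (nat_lit 244) (nat_lit 243))))) (XT.nd (nat_lit 234) (nat_lit 152) (nat_lit 0) (XT.nd (nat_lit 78) (nat_lit 76) (nat_lit 0) (XT.lf (nat_lit 0) (nat_lit 13838644949) (nat_lit 152) (nat_lit 4390698235) (nat_lit 0) (nat_lit 13448622798) (nat_lit 14) (nat_lit 5) (nat_lit 16) (nat_lit 4) (nat_lit 14) (nat_lit 4) (nat_lit 414) (nat_lit 244) (nat_lit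 242)) (XT.nd (nat_lit 78) (nat_lit 0) (nat_lit 0) (XT.lf (nat_lit 0) (nat_lit 5438518408) (nat_lit 76) (nat_lit 13805024690) (nat_lit 76) (nat_lit 13228469395) (nat_lit 13) (nat_lit 4) (nat_lit 14) (nat_lit 5) (nat_lit 14) (nat_lit 4) (nat_lit 415) (nat_lit 244) (nat_lit 241)) (XT.lf (nat_lit 0) (nat_lit 15462310401) (nat_lit 76) (nat_lit 9293439880) (nat_lit 76) (nat_lit 8535784445) (nat_lit 13) (nat_lit 4) (nat_lit 14) (nat_lit 5) (nat_lit 14) (nat_lit 4) (nat_lit 416) (nat_lit 244) (nat_lit 240)))) (XT.nd (nat_lit 156) (nat_lit 0) (nat_lit 0) (XT.nd (nat_lit 78) (nat_lit 152) (nat_lit 0) (XT.lf (nat_lit 0) (nat_lit 25602052894) (nat_lit 76) (nat_lit 4734984037) (nat_lit 76) (nat_lit 3801503223) (nat_lit 13) (nat_lit 4) (nat_lit 14) (nat_lit 5) (nat_lit 14) (nat_lit 4) (nat_lit 417) (nat_lit 244) (nat_lit 239)) (XT.lf (nat_lit 0) (nat_lit 860216860) (nat_lit 76) (nat_lit 107468816) (nat_lit 152) (nat_lit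 34045552950) (nat_lit 11) (nat_lit 5) (nat_lit 12) (nat_lit 5) (nat_lit 13) (nat_lit 4) (nat_lit 418) (nat_lit 244) (nat_lit 238))) (XT.nd (nat_lit 78) (nat_lit 0) (nat_lit 0) (XT.lf (nat_lit 0) (nat_lit 5841163597) (nat_lit 152) (nat_lit 25462530736) (nat_lit 0) (nat_lit 4608234133) (nat_lit 11) (nat_lit 5) (nat_lit 13) (nat_lit 4) (nat_lit 11) (nat_lit 4) (nat_lit 419) (nat_lit 244) (nat_lit 237)) (XT.lf (nat_lit 0) (nat_lit 10770434765) (nat_lit 152) (nat_lit 16688577766) (nat_lit 0) (nat_lit 9381286730) (nat_lit 11) (nat_lit 5) (nat_lit 13) (nat_lit 4) (nat_lit 11) (nat_lit 4) (nat_lit 420) (nat_lit 244) (nat_lit 236))))))))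
noncomputable def xc7 : XT := (XT.nd (nat_lit 2106) (nat_lit 76) (nat_lit 0) (XT.nd (nat_lit 1014) (nat_lit 152) (nat_lit 0) (XT.nd (nat_lit 468) (nat_lit 228) (nat_lit 0) (XT.nd (nat_lit 234) (nat_lit 0) (nat_lit 0) (XT.nd (nat_lit 78) (nat_lit 76) (nat_lit 0) (XT.lf (nat_lit 0) (nat_lit 15758773257) (nat_lit 152) (nat_lit 7822463240) (nat_lit 0) (nat_lit 14217956705) (nat_lit 11) (nat_lit 5) (nat_lit 13) (nat_lit 4) (nat_lit 11) (nat_lit 4) (nat_lit 421) (nat_lit 244) (nat_lit 235)) (XT.nd (nat_lit 78) (nat_lit 0) (nat_lit 0) (XT.lf (nat_lit 0) (nat_lit 1166319017) (nat_lit 76) (nat_lit 19655430168) (nat_lit 76) (nat_lit 17967362630) (nat_lit 10) (nat_lit 4) (nat_lit 11) (nat_lit 5) (nat_lit 11) (nat_lit 4) (nat_lit 422) (nat_lit 244) (nat_lit 234)) (XT.lf (nat_lit 0) (nat_lit 10420670965) (nat_lit 76) (nat_lit 15609641498) (nat_lit 76) (nat_lit 13778611838) (nat_lit 10) (nat_lit 4) (nat_lit 11) (nat_lit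 5) (nat_lit 11) (nat_lit 4) (nat_lit 423) (nat_lit 244) (nat_lit 233)))) (XT.nd (nat_lit 78) (nat_lit 0) (nat_lit 0) (XT.lf (nat_lit 0) (nat_lit 19792996573) (nat_lit 76) (nat_lit 11519326873) (nat_lit 76) (nat_lit 9549499034) (nat_lit 10) (nat_lit 4) (nat_lit 11) (nat_lit 5) (nat_lit 11) (nat_lit 4) (nat_lit 424) (nat_lit 244) (nat_lit 232)) (XT.nd (nat_lit 78) (nat_lit 0) (nat_lit 0) (XT.lf (nat_lit 0) (nat_lit 29291485252) (nat_lit 76) (nat_lit 7380912230) (nat_lit 76) (nat_lit 5276328879) (nat_lit 10) (nat_lit 4) (nat_lit 11) (nat_lit 5) (nat_lit 11) (nat_lit 4) (nat_lit 425) (nat_lit 244) (nat_lit 231)) (XT.lf (nat_lit 0) (nat_lit 38924436653) (nat_lit 76) (nat_lit 3190781480) (nat_lit 76) (nat_lit 955367535) (nat_lit 10) (nat_lit 4) (nat_lit 11) (nat_lit 5) (nat_lit 11) (nat_lit 4) (nat_lit 426) (nat_lit 244) (nat_lit 230))))) (XT.nd (nat_lit 234) (nat_lit 76) (nat_lit 0) (XT.nd (nat_lit 78) (nat_lit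 0) (nat_lit 0) (XT.lf (nat_lit 0) (nat_lit 3404894273) (nat_lit 152) (nat_lit 39709599422) (nat_lit 0) (nat_lit 1111269090) (nat_lit 8) (nat_lit 5) (nat_lit 10) (nat_lit 4) (nat_lit 8) (nat_lit 4) (nat_lit 427) (nat_lit 244) (nat_lit 229)) (XT.nd (nat_lit 78) (nat_lit 0) (nat_lit 0) (XT.lf (nat_lit 0) (nat_lit 7874244171) (nat_lit 152) (nat_lit 32080258423) (nat_lit 0) (nat_lit 5460890460) (nat_lit 8) (nat_lit 5) (nat_lit 10) (nat_lit 4) (nat_lit 8) (nat_lit 4) (nat_lit 428) (nat_lit 244) (nat_lit 228)) (XT.lf (nat_lit 0) (nat_lit 12403507351) (nat_lit 152) (nat_lit 24365523444) (nat_lit 0) (nat_lit 9873912352) (nat_lit 8) (nat_lit 5) (nat_lit 10) (nat_lit 4) (nat_lit 8) (nat_lit 4) (nat_lit 429) (nat_lit 244) (nat_lit 227)))) (XT.nd (nat_lit 156) (nat_lit 76) (nat_lit 0) (XT.nd (nat_lit 78) (nat_lit 0) (nat_lit 0) (XT.lf (nat_lit 0) (nat_lit 16996641423) (nat_lit 152) (nat_lit 16558653453) (nat_lit 0)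 (nat_lit 14354190804) (nat_lit 8) (nat_lit 5) (nat_lit 10) (nat_lit 4) (nat_lit 8) (nat_lit 4) (nat_lit 430) (nat_lit 244) (nat_lit 226)) (XT.lf (nat_lit 0) (nat_lit 21657659805) (nat_lit 152) (nat_lit 8652826914) (nat_lit 0) (nat_lit 18905640622) (nat_lit 8) (nat_lit 5) (nat_lit 10) (nat_lit 4) (nat_lit 8) (nat_lit 4) (nat_lit 431) (nat_lit 244) (nat_lit 225))) (XT.nd (nat_lit 78) (nat_lit 76) (nat_lit 0) (XT.lf (nat_lit 0) (nat_lit 26390635230) (nat_lit 152) (nat_lit 641135822) (nat_lit 0) (nat_lit 23532238803) (nat_lit 8) (nat_lit 5) (nat_lit 10) (nat_lit 4) (nat_lit 8) (nat_lit 4) (nat_lit 432) (nat_lit 244) (nat_lit 224)) (XT.lf (nat_lit 0) (nat_lit 7632355065) (nat_lit 76) (nat_lit 23640715110) (nat_lit 76) (nat_lit 20679039803) (nat_lit 7) (nat_lit 4) (nat_lit 8) (nat_lit 5) (nat_lit 8) (nat_lit 4) (nat_lit 433) (nat_lit 244) (nat_lit 223)))))) (XT.nd (nat_lit 546) (nat_lit 0) (nat_lit 0) (XT.nd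 (nat_lit 234) (nat_lit 152) (nat_lit 0) (XT.nd (nat_lit 78) (nat_lit 0) (nat_lit 0) (XT.lf (nat_lit 0) (nat_lit 16040957522) (nat_lit 76) (nat_lit 20202304117) (nat_lit 76) (nat_lit 17140358053) (nat_lit 7) (nat_lit 4) (nat_lit 8) (nat_lit 5) (nat_lit 8) (nat_lit 4) (nat_lit 434) (nat_lit 244) (nat_lit 222)) (XT.nd (nat_lit 78) (nat_lit 0) (nat_lit 0) (XT.lf (nat_lit 0) (nat_lit 24579259009) (nat_lit 76) (nat_lit 16720007849) (nat_lit 76) (nat_lit 13560711536) (nat_lit 7) (nat_lit 4) (nat_lit 8) (nat_lit 5) (nat_lit 8) (nat_lit 4) (nat_lit 435) (nat_lit 244) (nat_lit 221)) (XT.lf (nat_lit 0) (nat_lit 33254720179) (nat_lit 76) (nat_lit 13190783526) (nat_lit 76) (nat_lit 9936972408) (nat_lit 7) (nat_lit 4) (nat_lit 8) (nat_lit 5) (nat_lit 8) (nat_lit 4) (nat_lit 436) (nat_lit 244) (nat_lit 220)))) (XT.nd (nat_lit 156) (nat_lit 152) (nat_lit 0) (XT.nd (nat_lit 78) (nat_lit 0) (nat_lit 0) (XT.lf (nat_lit 0)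 (nat_lit 42074921531) (nat_lit 76) (nat_lit 9611547357) (nat_lit 76) (nat_lit 6265974293) (nat_lit 7) (nat_lit 4) (nat_lit 8) (nat_lit 5) (nat_lit 8) (nat_lit 4) (nat_lit 437) (nat_lit 244) (nat_lit 219)) (XT.lf (nat_lit 0) (nat_lit 51047570039) (nat_lit 76) (nat_lit 5979171856) (nat_lit 76) (nat_lit 2544509523) (nat_lit 7) (nat_lit 4) (nat_lit 8) (nat_lit 5) (nat_lit 8) (nat_lit 4) (nat_lit 438) (nat_lit 244) (nat_lit 218))) (XT.nd (nat_lit 78) (nat_lit 76) (nat_lit 0) (XT.lf (nat_lit 0) (nat_lit 1206658790) (nat_lit 152) (nat_lit 1071639424) (nat_lit 76) (nat_lit 58961662201) (nat_lit 6) (nat_lit 5) (nat_lit 8) (nat_lit 5) (nat_lit 7) (nat_lit 4) (nat_lit 439) (nat_lit 244) (nat_lit 217)) (XT.lf (nat_lit 0) (nat_lit 5042652335) (nat_lit 152) (nat_lit 56372099490) (nat_lit 0) (nat_lit 1542524230) (nat_lit 5) (nat_lit 5) (nat_lit 7) (nat_lit 4) (nat_lit 5) (nat_lit 4) (nat_lit 440) (nat_lit 244) (nat_lit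 216))))) (XT.nd (nat_lit 234) (nat_lit 0) (nat_lit 0) (XT.nd (nat_lit 78) (nat_lit 0) (nat_lit 0) (XT.lf (nat_lit 0) (nat_lit 8972167623) (nat_lit 152) (nat_lit 50361709442) (nat_lit 0) (nat_lit 5392884857) (nat_lit 5) (nat_lit 5) (nat_lit 7) (nat_lit 4) (nat_lit 5) (nat_lit 4) (nat_lit 441) (nat_lit 244) (nat_lit 215)) (XT.nd (nat_lit 78) (nat_lit 0) (nat_lit 0) (XT.lf (nat_lit 0) (nat_lit 12966127524) (nat_lit 152) (nat_lit 44274816395) (nat_lit 0) (nat_lit 9309995572) (nat_lit 5) (nat_lit 5) (nat_lit 7) (nat_lit 4) (nat_lit 5) (nat_lit 4) (nat_lit 442) (nat_lit 244) (nat_lit 214)) (XT.lf (nat_lit 0) (nat_lit 17028021906) (nat_lit 152) (nat_lit 38106101704) (nat_lit 0) (nat_lit 13297279094) (nat_lit 5) (nat_lit 5) (nat_lit 7) (nat_lit 4) (nat_lit 5) (nat_lit 4) (nat_lit 443) (nat_lit 244) (nat_lit 213)))) (XT.nd (nat_lit 156) (nat_lit 0) (nat_lit 0) (XT.nd (nat_lit 78) (nat_lit 0) (nat_lit 0) (XT.lf (nat_lit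 0) (nat_lit 21161399997) (nat_lit 152) (nat_lit 31850175229) (nat_lit 0) (nat_lit 17358219457) (nat_lit 5) (nat_lit 5) (nat_lit 7) (nat_lit 4) (nat_lit 5) (nat_lit 4) (nat_lit 444) (nat_lit 244) (nat_lit 212)) (XT.lf (nat_lit 0) (nat_lit 25369873487) (nat_lit 152) (nat_lit 25501570628) (nat_lit 0) (nat_lit 21496365055) (nat_lit 5) (nat_lit 5) (nat_lit 7) (nat_lit 4) (nat_lit 5) (nat_lit 4) (nat_lit 445) (nat_lit 244) (nat_lit 211))) (XT.nd (nat_lit 78) (nat_lit 0) (nat_lit 0) (XT.lf (nat_lit 0) (nat_lit 29657119681) (nat_lit 152) (nat_lit 19054740575) (nat_lit 0) (nat_lit 25715331744) (nat_lit 5) (nat_lit 5) (nat_lit 7) (nat_lit 4) (nat_lit 5) (nat_lit 4) (nat_lit 446) (nat_lit 244) (nat_lit 210)) (XT.lf (nat_lit 0) (nat_lit 34026884719) (nat_lit 152) (nat_lit 12504051918) (nat_lit 0) (nat_lit 30018805999) (nat_lit 5) (nat_lit 5) (nat_lit 7) (nat_lit 4) (nat_lit 5) (nat_lit 4) (nat_lit 447) (nat_lit 244)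 (nat_lit 209))))))) (XT.nd (nat_lit 44694) (nat_lit 0) (nat_lit 228) (XT.nd (nat_lit 44148) (nat_lit 0) (nat_lit 532) (XT.nd (nat_lit 43914) (nat_lit 0) (nat_lit 760) (XT.nd (nat_lit 78) (nat_lit 76) (nat_lit 0) (XT.lf (nat_lit 0) (nat_lit 38482986841) (nat_lit 152) (nat_lit 5843780756) (nat_lit 0) (nat_lit 34410548138) (nat_lit 5) (nat_lit 5) (nat_lit 7) (nat_lit 4) (nat_lit 5) (nat_lit 4) (nat_lit 448) (nat_lit 244) (nat_lit 208)) (XT.nd (nat_lit 78) (nat_lit 0) (nat_lit 0) (XT.lf (nat_lit 0) (nat_lit 950439056) (nat_lit 76) (nat_lit 42088016873) (nat_lit 76) (nat_lit 37953092749) (nat_lit 4) (nat_lit 4) (nat_lit 5) (nat_lit 5) (nat_lit 5) (nat_lit 4) (nat_lit 449) (nat_lit 244) (nat_lit 207)) (XT.lf (nat_lit 0) (nat_lit 7984698776) (nat_lit 76) (nat_lit 39761910938) (nat_lit 76) (nat_lit 35566321358) (nat_lit 4) (nat_lit 4) (nat_lit 5) (nat_lit 5) (nat_lit 5) (nat_lit 4) (nat_lit 450) (nat_lit 244) (nat_lit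 206)))) (XT.nd (nat_lit 78) (nat_lit 152) (nat_lit 0) (XT.lf (nat_lit 0) (nat_lit 7662134358) (nat_lit 76) (nat_lit 3354043613) (nat_lit 76) (nat_lit 3354043613) (nat_lit 16) (nat_lit 4) (nat_lit 17) (nat_lit 5) (nat_lit 17) (nat_lit 4) (nat_lit 410) (nat_lit 245) (nat_lit 245)) (XT.nd (nat_lit 78) (nat_lit 152) (nat_lit 0) (XT.lf (nat_lit 0) (nat_lit 25909145508) (nat_lit 76) (nat_lit 1871900709) (nat_lit 76) (nat_lit 1661956011) (nat_lit 16) (nat_lit 4) (nat_lit 17) (nat_lit 5) (nat_lit 17) (nat_lit 4) (nat_lit 411) (nat_lit 245) (nat_lit 244)) (XT.lf (nat_lit 0) (nat_lit 3455875600) (nat_lit 152) (nat_lit 23655920898) (nat_lit 0) (nat_lit 3054152784) (nat_lit 14) (nat_lit 5) (nat_lit 16) (nat_lit 4) (nat_lit 14) (nat_lit 4) (nat_lit 412) (nat_lit 245) (nat_lit 243))))) (XT.nd (nat_lit 234) (nat_lit 152) (nat_lit 0) (XT.nd (nat_lit 78) (nat_lit 76) (nat_lit 0) (XT.lf (nat_lit 0) (nat_lit 8645136116) (nat_lit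 152) (nat_lit 14215141642) (nat_lit 0) (nat_lit 8051284162) (nat_lit 14) (nat_lit 5) (nat_lit 16) (nat_lit 4) (nat_lit 14) (nat_lit 4) (nat_lit 413) (nat_lit 245) (nat_lit 242)) (XT.nd (nat_lit 78) (nat_lit 76) (nat_lit 0) (XT.lf (nat_lit 0) (nat_lit 13889808054) (nat_lit 152) (nat_lit 4683329387) (nat_lit 0) (nat_lit 13109422955) (nat_lit 14) (nat_lit 5) (nat_lit 16) (nat_lit 4) (nat_lit 14) (nat_lit 4) (nat_lit 414) (nat_lit 245) (nat_lit 241)) (XT.lf (nat_lit 0) (nat_lit 5046316446) (nat_lit 76) (nat_lit 14196665970) (nat_lit 76) (nat_lit 13235180732) (nat_lit 13) (nat_lit 4) (nat_lit 14) (nat_lit 5) (nat_lit 14) (nat_lit 4) (nat_lit 415) (nat_lit 245) (nat_lit 240)))) (XT.nd (nat_lit 156) (nat_lit 152) (nat_lit 0) (XT.nd (nat_lit 78) (nat_lit 0) (nat_lit 0) (XT.lf (nat_lit 0) (nat_lit 14979092055) (nat_lit 76) (nat_lit 9728665649) (nat_lit 76) (nat_lit 8591355032) (nat_lit 13) (nat_lit 4) (nat_lit 14)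 (nat_lit 5) (nat_lit 14) (nat_lit 4) (nat_lit 416) (nat_lit 245) (nat_lit 239)) (XT.lf (nat_lit 0) (nat_lit 25030469126) (nat_lit 76) (nat_lit 5212524842) (nat_lit 76) (nat_lit 3904509974) (nat_lit 13) (nat_lit 4) (nat_lit 14) (nat_lit 5) (nat_lit 14) (nat_lit 4) (nat_lit 417) (nat_lit 245) (nat_lit 238))) (XT.nd (nat_lit 78) (nat_lit 0) (nat_lit 0) (XT.lf (nat_lit 0) (nat_lit 180705368) (nat_lit 76) (nat_lit 634295872) (nat_lit 152) (nat_lit 34208785534) (nat_lit 11) (nat_lit 5) (nat_lit 12) (nat_lit 5) (nat_lit 13) (nat_lit 4) (nat_lit 418) (nat_lit 245) (nat_lit 237)) (XT.lf (nat_lit 0) (nat_lit 5638353332) (nat_lit 152) (nat_lit 26234318676) (nat_lit 0) (nat_lit 4051312284) (nat_lit 11) (nat_lit 5) (nat_lit 13) (nat_lit 4) (nat_lit 11) (nat_lit 4) (nat_lit 419) (nat_lit 245) (nat_lit 236)))))) (XT.nd (nat_lit 546) (nat_lit 228) (nat_lit 0) (XT.nd (nat_lit 234) (nat_lit 0) (nat_lit 0) (XT.nd (nat_lit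 78) (nat_lit 76) (nat_lit 0) (XT.lf (nat_lit 0) (nat_lit 10523875332) (nat_lit 152) (nat_lit 17544630255) (nat_lit 0) (nat_lit 8785165768) (nat_lit 11) (nat_lit 5) (nat_lit 13) (nat_lit 4) (nat_lit 11) (nat_lit 4) (nat_lit 420) (nat_lit 245) (nat_lit 235)) (XT.nd (nat_lit 78) (nat_lit 76) (nat_lit 0) (XT.lf (nat_lit 0) (nat_lit 15469738903) (nat_lit 152) (nat_lit 8760325969) (nat_lit 0) (nat_lit 13583778353) (nat_lit 11) (nat_lit 5) (nat_lit 13) (nat_lit 4) (nat_lit 11) (nat_lit 4) (nat_lit 421) (nat_lit 245) (nat_lit 234)) (XT.lf (nat_lit 0) (nat_lit 128782801) (nat_lit 76) (nat_lit 20352720811) (nat_lit 76) (nat_lit 18323798137) (nat_lit 10) (nat_lit 4) (nat_lit 11) (nat_lit 5) (nat_lit 11) (nat_lit 4) (nat_lit 422) (nat_lit 245) (nat_lit 233)))) (XT.nd (nat_lit 156) (nat_lit 0) (nat_lit 0) (XT.nd (nat_lit 78) (nat_lit 0) (nat_lit 0) (XT.lf (nat_lit 0) (nat_lit 9304486030) (nat_lit 76) (nat_lit 16344788153)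 (nat_lit 76) (nat_lit 14177067302) (nat_lit 10) (nat_lit 4) (nat_lit 11) (nat_lit 5) (nat_lit 11) (nat_lit 4) (nat_lit 423) (nat_lit 245) (nat_lit 232)) (XT.lf (nat_lit 0) (nat_lit 18600453659) (nat_lit 76) (nat_lit 12291226937) (nat_lit 76) (nat_lit 9988750574) (nat_lit 10) (nat_lit 4) (nat_lit 11) (nat_lit 5) (nat_lit 11) (nat_lit 4) (nat_lit 424) (nat_lit 245) (nat_lit 231))) (XT.nd (nat_lit 78) (nat_lit 0) (nat_lit 0) (XT.lf (nat_lit 0) (nat_lit 28024808379) (nat_lit 76) (nat_lit 8188495216) (nat_lit 76) (nat_lit 5755188259) (nat_lit 10) (nat_lit 4) (nat_lit 11) (nat_lit 5) (nat_lit 11) (nat_lit 4) (nat_lit 425) (nat_lit 245) (nat_lit 230)) (XT.lf (nat_lit 0) (nat_lit 37585785061) (nat_lit 76) (nat_lit 4033008080) (nat_lit 76) (nat_lit 1472681128) (nat_lit 10) (nat_lit 4) (nat_lit 11) (nat_lit 5) (nat_lit 11) (nat_lit 4) (nat_lit 426) (nat_lit 245) (nat_lit 229))))) (XT.nd (nat_lit 234) (nat_lit 76)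 (nat_lit 0) (XT.nd (nat_lit 78) (nat_lit 0) (nat_lit 0) (XT.lf (nat_lit 0) (nat_lit 2838486900) (nat_lit 152) (nat_lit 41177088263) (nat_lit 0) (nat_lit 233004051) (nat_lit 8) (nat_lit 5) (nat_lit 10) (nat_lit 4) (nat_lit 8) (nat_lit 4) (nat_lit 427) (nat_lit 245) (nat_lit 228)) (XT.nd (nat_lit 78) (nat_lit 0) (nat_lit 0) (XT.lf (nat_lit 0) (nat_lit 7271301224) (nat_lit 152) (nat_lit 33618430146) (nat_lit 0) (nat_lit 4549577086) (nat_lit 8) (nat_lit 5) (nat_lit 10) (nat_lit 4) (nat_lit 8) (nat_lit 4) (nat_lit 428) (nat_lit 245) (nat_lit 227)) (XT.lf (nat_lit 0) (nat_lit 11765092974) (nat_lit 152) (nat_lit 25972319323) (nat_lit 0) (nat_lit 8930513216) (nat_lit 8) (nat_lit 5) (nat_lit 10) (nat_lit 4) (nat_lit 8) (nat_lit 4) (nat_lit 429) (nat_lit 245) (nat_lit 226)))) (XT.nd (nat_lit 156) (nat_lit 76) (nat_lit 0) (XT.nd (nat_lit 78) (nat_lit 0) (nat_lit 0) (XT.lf (nat_lit 0) (nat_lit 16323788764) (nat_lit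 152) (nat_lit 18232074727) (nat_lit 0) (nat_lit 13379640443) (nat_lit 8) (nat_lit 5) (nat_lit 10) (nat_lit 4) (nat_lit 8) (nat_lit 4) (nat_lit 430) (nat_lit 245) (nat_lit 225)) (XT.lf (nat_lit 0) (nat_lit 20951371920) (nat_lit 152) (nat_lit 10390933037) (nat_lit 0) (nat_lit 17900846354) (nat_lit 8) (nat_lit 5) (nat_lit 10) (nat_lit 4) (nat_lit 8) (nat_lit 4) (nat_lit 431) (nat_lit 245) (nat_lit 224))) (XT.nd (nat_lit 78) (nat_lit 76) (nat_lit 0) (XT.lf (nat_lit 0) (nat_lit 25651885962) (nat_lit 152) (nat_lit 2442042770) (nat_lit 0) (nat_lit 22498081517) (nat_lit 8) (nat_lit 5) (nat_lit 10) (nat_lit 4) (nat_lit 8) (nat_lit 4) (nat_lit 432) (nat_lit 245) (nat_lit 223)) (XT.lf (nat_lit 0) (nat_lit 5733421408) (nat_lit 76) (nat_lit 24751129882) (nat_lit 76) (nat_lit 21497054679) (nat_lit 7) (nat_lit 4) (nat_lit 8) (nat_lit 5) (nat_lit 8) (nat_lit 4) (nat_lit 433) (nat_lit 245) (nat_lit 222))))))))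
noncomputable def xc8 : XT := (XT.nd (nat_lit 45552) (nat_lit 0) (nat_lit 76) (XT.nd (nat_lit 1014) (nat_lit 76) (nat_lit 0) (XT.nd (nat_lit 468) (nat_lit 76) (nat_lit 0) (XT.nd (nat_lit 234) (nat_lit 76) (nat_lit 0) (XT.nd (nat_lit 78) (nat_lit 0) (nat_lit 0) (XT.lf (nat_lit 0) (nat_lit 14081649951) (nat_lit 76) (nat_lit 21341914482) (nat_lit 76) (nat_lit 17990489031) (nat_lit 7) (nat_lit 4) (nat_lit 8) (nat_lit 5) (nat_lit 8) (nat_lit 4) (nat_lit 434) (nat_lit 245) (nat_lit 221)) (XT.nd (nat_lit 78) (nat_lit 0) (nat_lit 0) (XT.lf (nat_lit 0) (nat_lit 22561335989) (nat_lit 76) (nat_lit 17887963452) (nat_lit 76) (nat_lit 14442023196) (nat_lit 7) (nat_lit 4) (nat_lit 8) (nat_lit 5) (nat_lit 8) (nat_lit 4) (nat_lit 435) (nat_lit 245) (nat_lit 220)) (XT.lf (nat_lit 0) (nat_lit 31179888956) (nat_lit 76) (nat_lit 14386258776) (nat_lit 76) (nat_lit 10848556573) (nat_lit 7) (nat_lit 4) (nat_lit 8) (nat_lit 5)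 (nat_lit 8) (nat_lit 4) (nat_lit 436) (nat_lit 245) (nat_lit 219)))) (XT.nd (nat_lit 78) (nat_lit 76) (nat_lit 0) (XT.lf (nat_lit 0) (nat_lit 39944839626) (nat_lit 76) (nat_lit 10833740712) (nat_lit 76) (nat_lit 7206949241) (nat_lit 7) (nat_lit 4) (nat_lit 8) (nat_lit 5) (nat_lit 8) (nat_lit 4) (nat_lit 437) (nat_lit 245) (nat_lit 218)) (XT.nd (nat_lit 78) (nat_lit 76) (nat_lit 0) (XT.lf (nat_lit 0) (nat_lit 48863846693) (nat_lit 76) (nat_lit 7227305118) (nat_lit 76) (nat_lit 3514019211) (nat_lit 7) (nat_lit 4) (nat_lit 8) (nat_lit 5) (nat_lit 8) (nat_lit 4) (nat_lit 438) (nat_lit 245) (nat_lit 217)) (XT.lf (nat_lit 0) (nat_lit 228904694) (nat_lit 152) (nat_lit 3332584557) (nat_lit 76) (nat_lit 57713487283) (nat_lit 6) (nat_lit 5) (nat_lit 8) (nat_lit 5) (nat_lit 7) (nat_lit 4) (nat_lit 439) (nat_lit 245) (nat_lit 216))))) (XT.nd (nat_lit 234) (nat_lit 0) (nat_lit 0) (XT.nd (nat_lit 78) (nat_lit 0) (nat_lit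 0) (XT.lf (nat_lit 0) (nat_lit 4003062520) (nat_lit 152) (nat_lit 58753840095) (nat_lit 0) (nat_lit 237246609) (nat_lit 5) (nat_lit 5) (nat_lit 7) (nat_lit 4) (nat_lit 5) (nat_lit 4) (nat_lit 440) (nat_lit 245) (nat_lit 215)) (XT.nd (nat_lit 78) (nat_lit 0) (nat_lit 0) (XT.lf (nat_lit 0) (nat_lit 7906252268) (nat_lit 152) (nat_lit 52794587340) (nat_lit 0) (nat_lit 4063587172) (nat_lit 5) (nat_lit 5) (nat_lit 7) (nat_lit 4) (nat_lit 5) (nat_lit 4) (nat_lit 441) (nat_lit 245) (nat_lit 214)) (XT.lf (nat_lit 0) (nat_lit 11874653393) (nat_lit 152) (nat_lit 46757342148) (nat_lit 0) (nat_lit 7957377437) (nat_lit 5) (nat_lit 5) (nat_lit 7) (nat_lit 4) (nat_lit 5) (nat_lit 4) (nat_lit 442) (nat_lit 245) (nat_lit 213)))) (XT.nd (nat_lit 156) (nat_lit 0) (nat_lit 0) (XT.nd (nat_lit 78) (nat_lit 0) (nat_lit 0) (XT.lf (nat_lit 0) (nat_lit 15911733429) (nat_lit 152) (nat_lit 40636829259) (nat_lit 0) (nat_lit 11922019745)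 (nat_lit 5) (nat_lit 5) (nat_lit 7) (nat_lit 4) (nat_lit 5) (nat_lit 4) (nat_lit 443) (nat_lit 245) (nat_lit 212)) (XT.lf (nat_lit 0) (nat_lit 20021019922) (nat_lit 152) (nat_lit 34427700650) (nat_lit 0) (nat_lit 15960978347) (nat_lit 5) (nat_lit 5) (nat_lit 7) (nat_lit 4) (nat_lit 5) (nat_lit 4) (nat_lit 444) (nat_lit 245) (nat_lit 211))) (XT.nd (nat_lit 78) (nat_lit 0) (nat_lit 0) (XT.lf (nat_lit 0) (nat_lit 24206103510) (nat_lit 152) (nat_lit 28124530869) (nat_lit 0) (nat_lit 20077782429) (nat_lit 5) (nat_lit 5) (nat_lit 7) (nat_lit 4) (nat_lit 5) (nat_lit 4) (nat_lit 445) (nat_lit 245) (nat_lit 210)) (XT.lf (nat_lit 0) (nat_lit 28470641063) (nat_lit 152) (nat_lit 21721812293) (nat_lit 0) (nat_lit 24276029199) (nat_lit 5) (nat_lit 5) (nat_lit 7) (nat_lit 4) (nat_lit 5) (nat_lit 4) (nat_lit 446) (nat_lit 245) (nat_lit 209)))))) (XT.nd (nat_lit 43992) (nat_lit 0) (nat_lit 684) (XT.nd (nat_lit 234) (nat_lit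 76) (nat_lit 0) (XT.nd (nat_lit 78) (nat_lit 0) (nat_lit 0) (XT.lf (nat_lit 0) (nat_lit 32818358875) (nat_lit 152) (nat_lit 15213950313) (nat_lit 0) (nat_lit 28559387028) (nat_lit 5) (nat_lit 5) (nat_lit 7) (nat_lit 4) (nat_lit 5) (nat_lit 4) (nat_lit 447) (nat_lit 245) (nat_lit 208)) (XT.nd (nat_lit 78) (nat_lit 0) (nat_lit 0) (XT.lf (nat_lit 0) (nat_lit 37253055924) (nat_lit 152) (nat_lit 8595258448) (nat_lit 0) (nat_lit 32931598657) (nat_lit 5) (nat_lit 5) (nat_lit 7) (nat_lit 4) (nat_lit 5) (nat_lit 4) (nat_lit 448) (nat_lit 245) (nat_lit 207)) (XT.lf (nat_lit 0) (nat_lit 41778607187) (nat_lit 152) (nat_lit 1859953374) (nat_lit 0) (nat_lit 37396484463) (nat_lit 5) (nat_lit 5) (nat_lit 7) (nat_lit 4) (nat_lit 5) (nat_lit 4) (nat_lit 449) (nat_lit 245) (nat_lit 206)))) (XT.nd (nat_lit 43602) (nat_lit 0) (nat_lit 912) (XT.lf (nat_lit 0) (nat_lit 5097317142) (nat_lit 76) (nat_lit 41350648418) (nat_lit 76)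 (nat_lit 36909627192) (nat_lit 4) (nat_lit 4) (nat_lit 5) (nat_lit 5) (nat_lit 5) (nat_lit 4) (nat_lit 450) (nat_lit 245) (nat_lit 205)) (XT.nd (nat_lit 78) (nat_lit 76) (nat_lit 0) (XT.lf (nat_lit 0) (nat_lit 5523358512) (nat_lit 152) (nat_lit 2654383705) (nat_lit 0) (nat_lit 5523358512) (nat_lit 17) (nat_lit 5) (nat_lit 19) (nat_lit 4) (nat_lit 17) (nat_lit 4) (nat_lit 408) (nat_lit 246) (nat_lit 246)) (XT.lf (nat_lit 0) (nat_lit 4852048229) (nat_lit 76) (nat_lit 11712813347) (nat_lit 76) (nat_lit 11496570309) (nat_lit 16) (nat_lit 4) (nat_lit 17) (nat_lit 5) (nat_lit 17) (nat_lit 4) (nat_lit 409) (nat_lit 246) (nat_lit 245))))) (XT.nd (nat_lit 234) (nat_lit 76) (nat_lit 0) (XT.nd (nat_lit 78) (nat_lit 152) (nat_lit 0) (XT.lf (nat_lit 0) (nat_lit 15225002553) (nat_lit 76) (nat_lit 6971596795) (nat_lit 76) (nat_lit 6545409060) (nat_lit 16) (nat_lit 4) (nat_lit 17) (nat_lit 5) (nat_lit 17) (nat_lit 4) (nat_lit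 410) (nat_lit 246) (nat_lit 244)) (XT.nd (nat_lit 78) (nat_lit 152) (nat_lit 0) (XT.lf (nat_lit 0) (nat_lit 25713504427) (nat_lit 76) (nat_lit 2181300112) (nat_lit 76) (nat_lit 1551282574) (nat_lit 16) (nat_lit 4) (nat_lit 17) (nat_lit 5) (nat_lit 17) (nat_lit 4) (nat_lit 411) (nat_lit 246) (nat_lit 243)) (XT.lf (nat_lit 0) (nat_lit 3508573598) (nat_lit 152) (nat_lit 23957330985) (nat_lit 0) (nat_lit 2704776947) (nat_lit 14) (nat_lit 5) (nat_lit 16) (nat_lit 4) (nat_lit 14) (nat_lit 4) (nat_lit 412) (nat_lit 246) (nat_lit 242)))) (XT.nd (nat_lit 156) (nat_lit 76) (nat_lit 0) (XT.nd (nat_lit 78) (nat_lit 0) (nat_lit 0) (XT.lf (nat_lit 0) (nat_lit 8648441802) (nat_lit 152) (nat_lit 14611226792) (nat_lit 0) (nat_lit 7658112007) (nat_lit 14) (nat_lit 5) (nat_lit 16) (nat_lit 4) (nat_lit 14) (nat_lit 4) (nat_lit 413) (nat_lit 246) (nat_lit 241)) (XT.lf (nat_lit 0) (nat_lit 13845160038) (nat_lit 152) (nat_lit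 5171332073) (nat_lit 0) (nat_lit 12673730103) (nat_lit 14) (nat_lit 5) (nat_lit 16) (nat_lit 4) (nat_lit 14) (nat_lit 4) (nat_lit 414) (nat_lit 246) (nat_lit 240))) (XT.nd (nat_lit 78) (nat_lit 0) (nat_lit 0) (XT.lf (nat_lit 0) (nat_lit 4457585165) (nat_lit 76) (nat_lit 14688532999) (nat_lit 76) (nat_lit 13341277685) (nat_lit 13) (nat_lit 4) (nat_lit 14) (nat_lit 5) (nat_lit 14) (nat_lit 4) (nat_lit 415) (nat_lit 246) (nat_lit 239)) (XT.lf (nat_lit 0) (nat_lit 14301995352) (nat_lit 76) (nat_lit 10262847714) (nat_lit 76) (nat_lit 8744888149) (nat_lit 13) (nat_lit 4) (nat_lit 14) (nat_lit 5) (nat_lit 14) (nat_lit 4) (nat_lit 416) (nat_lit 246) (nat_lit 238))))))) (XT.nd (nat_lit 1014) (nat_lit 228) (nat_lit 0) (XT.nd (nat_lit 468) (nat_lit 228) (nat_lit 0) (XT.nd (nat_lit 234) (nat_lit 0) (nat_lit 0) (XT.nd (nat_lit 78) (nat_lit 152) (nat_lit 0) (XT.lf (nat_lit 0) (nat_lit 24267580751) (nat_lit 76) (nat_lit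 5787789468) (nat_lit 76) (nat_lit 4104097620) (nat_lit 13) (nat_lit 4) (nat_lit 14) (nat_lit 5) (nat_lit 14) (nat_lit 4) (nat_lit 417) (nat_lit 246) (nat_lit 237)) (XT.nd (nat_lit 78) (nat_lit 76) (nat_lit 0) (XT.lf (nat_lit 0) (nat_lit 573730598) (nat_lit 152) (nat_lit 679923862) (nat_lit 76) (nat_lit 33783525004) (nat_lit 12) (nat_lit 5) (nat_lit 14) (nat_lit 5) (nat_lit 13) (nat_lit 4) (nat_lit 418) (nat_lit 246) (nat_lit 236)) (XT.lf (nat_lit 0) (nat_lit 5340647948) (nat_lit 152) (nat_lit 27200317288) (nat_lit 0) (nat_lit 3398108581) (nat_lit 11) (nat_lit 5) (nat_lit 13) (nat_lit 4) (nat_lit 11) (nat_lit 4) (nat_lit 419) (nat_lit 246) (nat_lit 235)))) (XT.nd (nat_lit 78) (nat_lit 0) (nat_lit 0) (XT.lf (nat_lit 0) (nat_lit 10183695027) (nat_lit 152) (nat_lit 18592439107) (nat_lit 0) (nat_lit 8093904674) (nat_lit 11) (nat_lit 5) (nat_lit 13) (nat_lit 4) (nat_lit 11) (nat_lit 4) (nat_lit 420) (nat_lit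 246) (nat_lit 234)) (XT.nd (nat_lit 78) (nat_lit 0) (nat_lit 0) (XT.lf (nat_lit 0) (nat_lit 15088320811) (nat_lit 152) (nat_lit 9887562240) (nat_lit 0) (nat_lit 12855568334) (nat_lit 11) (nat_lit 5) (nat_lit 13) (nat_lit 4) (nat_lit 11) (nat_lit 4) (nat_lit 421) (nat_lit 246) (nat_lit 233)) (XT.lf (nat_lit 0) (nat_lit 20058810894) (nat_lit 152) (nat_lit 1078080484) (nat_lit 0) (nat_lit 17687260240) (nat_lit 11) (nat_lit 5) (nat_lit 13) (nat_lit 4) (nat_lit 11) (nat_lit 4) (nat_lit 422) (nat_lit 246) (nat_lit 232))))) (XT.nd (nat_lit 234) (nat_lit 152) (nat_lit 0) (XT.nd (nat_lit 78) (nat_lit 0) (nat_lit 0) (XT.lf (nat_lit 0) (nat_lit 7999808850) (nat_lit 76) (nat_lit 17176598629) (nat_lit 76) (nat_lit 14670292463) (nat_lit 10) (nat_lit 4) (nat_lit 11) (nat_lit 5) (nat_lit 11) (nat_lit 4) (nat_lit 423) (nat_lit 246) (nat_lit 231)) (XT.nd (nat_lit 78) (nat_lit 0) (nat_lit 0) (XT.lf (nat_lit 0) (nat_lit 17221642520)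 (nat_lit 76) (nat_lit 13158720335) (nat_lit 76) (nat_lit 10521583575) (nat_lit 10) (nat_lit 4) (nat_lit 11) (nat_lit 5) (nat_lit 11) (nat_lit 4) (nat_lit 424) (nat_lit 246) (nat_lit 230)) (XT.lf (nat_lit 0) (nat_lit 26574022520) (nat_lit 76) (nat_lit 9090632228) (nat_lit 76) (nat_lit 6326475473) (nat_lit 10) (nat_lit 4) (nat_lit 11) (nat_lit 5) (nat_lit 11) (nat_lit 4) (nat_lit 425) (nat_lit 246) (nat_lit 229)))) (XT.nd (nat_lit 156) (nat_lit 0) (nat_lit 0) (XT.nd (nat_lit 78) (nat_lit 152) (nat_lit 0) (XT.lf (nat_lit 0) (nat_lit 36065120835) (nat_lit 76) (nat_lit 4968779668) (nat_lit 76) (nat_lit 2081302530) (nat_lit 10) (nat_lit 4) (nat_lit 11) (nat_lit 5) (nat_lit 11) (nat_lit 4) (nat_lit 426) (nat_lit 246) (nat_lit 228)) (XT.lf (nat_lit 0) (nat_lit 1434763641) (nat_lit 76) (nat_lit 753398578) (nat_lit 152) (nat_lit 42085931569) (nat_lit 8) (nat_lit 5) (nat_lit 9) (nat_lit 5) (nat_lit 10) (nat_lit 4)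 (nat_lit 427) (nat_lit 246) (nat_lit 227))) (XT.nd (nat_lit 78) (nat_lit 0) (nat_lit 0) (XT.lf (nat_lit 0) (nat_lit 6578262985) (nat_lit 152) (nat_lit 35342054059) (nat_lit 0) (nat_lit 3545790215) (nat_lit 8) (nat_lit 5) (nat_lit 10) (nat_lit 4) (nat_lit 8) (nat_lit 4) (nat_lit 428) (nat_lit 246) (nat_lit 226)) (XT.lf (nat_lit 0) (nat_lit 11037616453) (nat_lit 152) (nat_lit 27762568631) (nat_lit 0) (nat_lit 7895575119) (nat_lit 8) (nat_lit 5) (nat_lit 10) (nat_lit 4) (nat_lit 8) (nat_lit 4) (nat_lit 429) (nat_lit 246) (nat_lit 225)))))) (XT.nd (nat_lit 546) (nat_lit 152) (nat_lit 0) (XT.nd (nat_lit 234) (nat_lit 76) (nat_lit 0) (XT.nd (nat_lit 78) (nat_lit 0) (nat_lit 0) (XT.lf (nat_lit 0) (nat_lit 15562877018) (nat_lit 152) (nat_lit 20087008884) (nat_lit 0) (nat_lit 12314458439) (nat_lit 8) (nat_lit 5) (nat_lit 10) (nat_lit 4) (nat_lit 8) (nat_lit 4) (nat_lit 430) (nat_lit 246) (nat_lit 224)) (XT.nd (nat_lit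 78) (nat_lit 0) (nat_lit 0) (XT.lf (nat_lit 0) (nat_lit 20157998790) (nat_lit 152) (nat_lit 12308668018) (nat_lit 0) (nat_lit 16806301332) (nat_lit 8) (nat_lit 5) (nat_lit 10) (nat_lit 4) (nat_lit 8) (nat_lit 4) (nat_lit 431) (nat_lit 246) (nat_lit 223)) (XT.lf (nat_lit 0) (nat_lit 24826996926) (nat_lit 152) (nat_lit 4420749425) (nat_lit 0) (nat_lit 21375028711) (nat_lit 8) (nat_lit 5) (nat_lit 10) (nat_lit 4) (nat_lit 8) (nat_lit 4) (nat_lit 432) (nat_lit 246) (nat_lit 222)))) (XT.nd (nat_lit 156) (nat_lit 0) (nat_lit 0) (XT.nd (nat_lit 78) (nat_lit 0) (nat_lit 0) (XT.lf (nat_lit 0) (nat_lit 3654960697) (nat_lit 76) (nat_lit 25954124152) (nat_lit 76) (nat_lit 22404805688) (nat_lit 7) (nat_lit 4) (nat_lit 8) (nat_lit 5) (nat_lit 8) (nat_lit 4) (nat_lit 433) (nat_lit 246) (nat_lit 221)) (XT.lf (nat_lit 0) (nat_lit 11944573792) (nat_lit 76) (nat_lit 22573253990) (nat_lit 76) (nat_lit 18929420721) (nat_lit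 7) (nat_lit 4) (nat_lit 8) (nat_lit 5) (nat_lit 8) (nat_lit 4) (nat_lit 434) (nat_lit 246) (nat_lit 220))) (XT.nd (nat_lit 78) (nat_lit 0) (nat_lit 0) (XT.lf (nat_lit 0) (nat_lit 20367351627) (nat_lit 76) (nat_lit 19146822607) (nat_lit 76) (nat_lit 15411227392) (nat_lit 7) (nat_lit 4) (nat_lit 8) (nat_lit 5) (nat_lit 8) (nat_lit 4) (nat_lit 435) (nat_lit 246) (nat_lit 219)) (XT.lf (nat_lit 0) (nat_lit 28930653911) (nat_lit 76) (nat_lit 15671836036) (nat_lit 76) (nat_lit 11847151552) (nat_lit 7) (nat_lit 4) (nat_lit 8) (nat_lit 5) (nat_lit 8) (nat_lit 4) (nat_lit 436) (nat_lit 246) (nat_lit 218))))) (XT.nd (nat_lit 234) (nat_lit 152) (nat_lit 0) (XT.nd (nat_lit 78) (nat_lit 0) (nat_lit 0) (XT.lf (nat_lit 0) (nat_lit 37641963141) (nat_lit 76) (nat_lit 12145257880) (nat_lit 76) (nat_lit 8234078960) (nat_lit 7) (nat_lit 4) (nat_lit 8) (nat_lit 5) (nat_lit 8) (nat_lit 4) (nat_lit 437) (nat_lit 246) (nat_lit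 217)) (XT.nd (nat_lit 78) (nat_lit 0) (nat_lit 0) (XT.lf (nat_lit 0) (nat_lit 46508891141) (nat_lit 76) (nat_lit 8564006662) (nat_lit 76) (nat_lit 4568852562) (nat_lit 7) (nat_lit 4) (nat_lit 8) (nat_lit 5) (nat_lit 8) (nat_lit 4) (nat_lit 438) (nat_lit 246) (nat_lit 216)) (XT.lf (nat_lit 0) (nat_lit 55539185712) (nat_lit 76) (nat_lit 4924953134) (nat_lit 76) (nat_lit 848269734) (nat_lit 7) (nat_lit 4) (nat_lit 8) (nat_lit 5) (nat_lit 8) (nat_lit 4) (nat_lit 439) (nat_lit 246) (nat_lit 215)))) (XT.nd (nat_lit 156) (nat_lit 0) (nat_lit 0) (XT.nd (nat_lit 78) (nat_lit 0) (nat_lit 0) (XT.lf (nat_lit 0) (nat_lit 1711221266) (nat_lit 76) (nat_lit 1178955742) (nat_lit 152) (nat_lit 60143218723) (nat_lit 5) (nat_lit 5) (nat_lit 6) (nat_lit 5) (nat_lit 7) (nat_lit 4) (nat_lit 440) (nat_lit 246) (nat_lit 214)) (XT.lf (nat_lit 0) (nat_lit 6756475137) (nat_lit 152) (nat_lit 55401236721) (nat_lit 0) (nat_lit 2647070042)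 (nat_lit 5) (nat_lit 5) (nat_lit 7) (nat_lit 4) (nat_lit 5) (nat_lit 4) (nat_lit 441) (nat_lit 246) (nat_lit 213))) (XT.nd (nat_lit 78) (nat_lit 0) (nat_lit 0) (XT.lf (nat_lit 0) (nat_lit 10700061916) (nat_lit 152) (nat_lit 49412193331) (nat_lit 0) (nat_lit 6518219093) (nat_lit 5) (nat_lit 5) (nat_lit 7) (nat_lit 4) (nat_lit 5) (nat_lit 4) (nat_lit 442) (nat_lit 246) (nat_lit 212)) (XT.lf (nat_lit 0) (nat_lit 14713050353) (nat_lit 152) (nat_lit 43338478307) (nat_lit 0) (nat_lit 10460879640) (nat_lit 5) (nat_lit 5) (nat_lit 7) (nat_lit 4) (nat_lit 5) (nat_lit 4) (nat_lit 443) (nat_lit 246) (nat_lit 211))))))))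
noncomputable def xc9 : XT := (XT.nd (nat_lit 45396) (nat_lit 0) (nat_lit 76) (XT.nd (nat_lit 44382) (nat_lit 0) (nat_lit 456) (XT.nd (nat_lit 468) (nat_lit 76) (nat_lit 0) (XT.nd (nat_lit 234) (nat_lit 0) (nat_lit 0) (XT.nd (nat_lit 78) (nat_lit 0) (nat_lit 0) (XT.lf (nat_lit 0) (nat_lit 18798946945) (nat_lit 152) (nat_lit 37174784519) (nat_lit 0) (nat_lit 14478496725) (nat_lit 5) (nat_lit 5) (nat_lit 7) (nat_lit 4) (nat_lit 5) (nat_lit 4) (nat_lit 444) (nat_lit 246) (nat_lit 210)) (XT.nd (nat_lit 78) (nat_lit 0) (nat_lit 0) (XT.lf (nat_lit 0) (nat_lit 22961321891) (nat_lit 152) (nat_lit 30915726216) (nat_lit 0) (nat_lit 18574580889) (nat_lit 5) (nat_lit 5) (nat_lit 7) (nat_lit 4) (nat_lit 5) (nat_lit 4) (nat_lit 445) (nat_lit 246) (nat_lit 209)) (XT.lf (nat_lit 0) (nat_lit 27203812219) (nat_lit 152) (nat_lit 24555834316) (nat_lit 0) (nat_lit 22752711234) (nat_lit 5) (nat_lit 5) (nat_lit 7) (nat_lit 4)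 (nat_lit 5) (nat_lit 4) (nat_lit 446) (nat_lit 246) (nat_lit 208)))) (XT.nd (nat_lit 78) (nat_lit 0) (nat_lit 0) (XT.lf (nat_lit 0) (nat_lit 31530124959) (nat_lit 152) (nat_lit 18089551634) (nat_lit 0) (nat_lit 27016538553) (nat_lit 5) (nat_lit 5) (nat_lit 7) (nat_lit 4) (nat_lit 5) (nat_lit 4) (nat_lit 447) (nat_lit 246) (nat_lit 207)) (XT.nd (nat_lit 78) (nat_lit 0) (nat_lit 0) (XT.lf (nat_lit 0) (nat_lit 35944040383) (nat_lit 152) (nat_lit 11511228019) (nat_lit 0) (nat_lit 31369788520) (nat_lit 5) (nat_lit 5) (nat_lit 7) (nat_lit 4) (nat_lit 5) (nat_lit 4) (nat_lit 448) (nat_lit 246) (nat_lit 206)) (XT.lf (nat_lit 0) (nat_lit 40449415312) (nat_lit 152) (nat_lit 4815115421) (nat_lit 0) (nat_lit 35816264948) (nat_lit 5) (nat_lit 5) (nat_lit 7) (nat_lit 4) (nat_lit 5) (nat_lit 4) (nat_lit 449) (nat_lit 246) (nat_lit 205))))) (XT.nd (nat_lit 43602) (nat_lit 0) (nat_lit 912) (XT.nd (nat_lit 43446) (nat_lit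 0) (nat_lit 988) (XT.lf (nat_lit 0) (nat_lit 2044533340) (nat_lit 76) (nat_lit 43025306445) (nat_lit 76) (nat_lit 38334973069) (nat_lit 4) (nat_lit 4) (nat_lit 5) (nat_lit 5) (nat_lit 5) (nat_lit 4) (nat_lit 450) (nat_lit 246) (nat_lit 204)) (XT.nd (nat_lit 78) (nat_lit 0) (nat_lit 0) (XT.lf (nat_lit 0) (nat_lit 271543873) (nat_lit 152) (nat_lit 12529830827) (nat_lit 0) (nat_lit 271543873) (nat_lit 17) (nat_lit 5) (nat_lit 19) (nat_lit 4) (nat_lit 17) (nat_lit 4) (nat_lit 406) (nat_lit 247) (nat_lit 247)) (XT.lf (nat_lit 0) (nat_lit 5853685628) (nat_lit 152) (nat_lit 15279291847) (nat_lit 0) (nat_lit 5630955299) (nat_lit 17) (nat_lit 5) (nat_lit 19) (nat_lit 4) (nat_lit 17) (nat_lit 4) (nat_lit 407) (nat_lit 247) (nat_lit 246)))) (XT.nd (nat_lit 156) (nat_lit 0) (nat_lit 0) (XT.nd (nat_lit 78) (nat_lit 76) (nat_lit 0) (XT.lf (nat_lit 0) (nat_lit 11216870565) (nat_lit 152) (nat_lit 5409016409) (nat_lit 0)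 (nat_lit 10777897198) (nat_lit 17) (nat_lit 5) (nat_lit 19) (nat_lit 4) (nat_lit 17) (nat_lit 4) (nat_lit 408) (nat_lit 247) (nat_lit 245)) (XT.lf (nat_lit 0) (nat_lit 4650537916) (nat_lit 76) (nat_lit 12031494733) (nat_lit 76) (nat_lit 11382576668) (nat_lit 16) (nat_lit 4) (nat_lit 17) (nat_lit 5) (nat_lit 17) (nat_lit 4) (nat_lit 409) (nat_lit 247) (nat_lit 244))) (XT.nd (nat_lit 78) (nat_lit 0) (nat_lit 0) (XT.lf (nat_lit 0) (nat_lit 14927117324) (nat_lit 76) (nat_lit 7336168016) (nat_lit 76) (nat_lit 6483420149) (nat_lit 16) (nat_lit 4) (nat_lit 17) (nat_lit 5) (nat_lit 17) (nat_lit 4) (nat_lit 410) (nat_lit 247) (nat_lit 243)) (XT.lf (nat_lit 0) (nat_lit 25322051318) (nat_lit 76) (nat_lit 2590424572) (nat_lit 76) (nat_lit 1539783692) (nat_lit 16) (nat_lit 4) (nat_lit 17) (nat_lit 5) (nat_lit 17) (nat_lit 4) (nat_lit 411) (nat_lit 247) (nat_lit 242)))))) (XT.nd (nat_lit 468) (nat_lit 228) (nat_lit 0)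 (XT.nd (nat_lit 234) (nat_lit 76) (nat_lit 0) (XT.nd (nat_lit 78) (nat_lit 0) (nat_lit 0) (XT.lf (nat_lit 0) (nat_lit 3462586142) (nat_lit 152) (nat_lit 24459973752) (nat_lit 0) (nat_lit 2256013309) (nat_lit 14) (nat_lit 5) (nat_lit 16) (nat_lit 4) (nat_lit 14) (nat_lit 4) (nat_lit 412) (nat_lit 247) (nat_lit 241)) (XT.nd (nat_lit 78) (nat_lit 0) (nat_lit 0) (XT.lf (nat_lit 0) (nat_lit 8554500645) (nat_lit 152) (nat_lit 15205787096) (nat_lit 0) (nat_lit 7166827671) (nat_lit 14) (nat_lit 5) (nat_lit 16) (nat_lit 4) (nat_lit 14) (nat_lit 4) (nat_lit 413) (nat_lit 247) (nat_lit 240)) (XT.lf (nat_lit 0) (nat_lit 13704661890) (nat_lit 152) (nat_lit 5855132704) (nat_lit 0) (nat_lit 12141163538) (nat_lit 14) (nat_lit 5) (nat_lit 16) (nat_lit 4) (nat_lit 14) (nat_lit 4) (nat_lit 414) (nat_lit 247) (nat_lit 239)))) (XT.nd (nat_lit 78) (nat_lit 0) (nat_lit 0) (XT.lf (nat_lit 0) (nat_lit 3671810139) (nat_lit 76) (nat_lit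 15281055564) (nat_lit 76) (nat_lit 13546852961) (nat_lit 13) (nat_lit 4) (nat_lit 14) (nat_lit 5) (nat_lit 14) (nat_lit 4) (nat_lit 415) (nat_lit 247) (nat_lit 238)) (XT.nd (nat_lit 78) (nat_lit 0) (nat_lit 0) (XT.lf (nat_lit 0) (nat_lit 13430428654) (nat_lit 76) (nat_lit 10896452839) (nat_lit 76) (nat_lit 8996517953) (nat_lit 13) (nat_lit 4) (nat_lit 14) (nat_lit 5) (nat_lit 14) (nat_lit 4) (nat_lit 416) (nat_lit 247) (nat_lit 237)) (XT.lf (nat_lit 0) (nat_lit 23312721169) (nat_lit 76) (nat_lit 6461280573) (nat_lit 76) (nat_lit 4400440558) (nat_lit 13) (nat_lit 4) (nat_lit 14) (nat_lit 5) (nat_lit 14) (nat_lit 4) (nat_lit 417) (nat_lit 247) (nat_lit 236))))) (XT.nd (nat_lit 234) (nat_lit 76) (nat_lit 0) (XT.nd (nat_lit 78) (nat_lit 76) (nat_lit 0) (XT.lf (nat_lit 0) (nat_lit 240606669) (nat_lit 152) (nat_lit 1728627047) (nat_lit 76) (nat_lit 33084286369) (nat_lit 12) (nat_lit 5) (nat_lit 14) (nat_lit 5)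 (nat_lit 13) (nat_lit 4) (nat_lit 418) (nat_lit 247) (nat_lit 235)) (XT.nd (nat_lit 78) (nat_lit 0) (nat_lit 0) (XT.lf (nat_lit 0) (nat_lit 4947787313) (nat_lit 152) (nat_lit 28361370646) (nat_lit 0) (nat_lit 2648052262) (nat_lit 11) (nat_lit 5) (nat_lit 13) (nat_lit 4) (nat_lit 11) (nat_lit 4) (nat_lit 419) (nat_lit 247) (nat_lit 234)) (XT.lf (nat_lit 0) (nat_lit 9749596605) (nat_lit 152) (nat_lit 19832919884) (nat_lit 0) (nat_lit 7306899431) (nat_lit 11) (nat_lit 5) (nat_lit 13) (nat_lit 4) (nat_lit 11) (nat_lit 4) (nat_lit 420) (nat_lit 247) (nat_lit 233)))) (XT.nd (nat_lit 156) (nat_lit 76) (nat_lit 0) (XT.nd (nat_lit 78) (nat_lit 0) (nat_lit 0) (XT.lf (nat_lit 0) (nat_lit 14614185702) (nat_lit 152) (nat_lit 11205157015) (nat_lit 0) (nat_lit 12032690351) (nat_lit 11) (nat_lit 5) (nat_lit 13) (nat_lit 4) (nat_lit 11) (nat_lit 4) (nat_lit 421) (nat_lit 247) (nat_lit 232)) (XT.lf (nat_lit 0) (nat_lit 19545805215)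 (nat_lit 152) (nat_lit 2470543219) (nat_lit 0) (nat_lit 16829554352) (nat_lit 11) (nat_lit 5) (nat_lit 13) (nat_lit 4) (nat_lit 11) (nat_lit 4) (nat_lit 422) (nat_lit 247) (nat_lit 231))) (XT.nd (nat_lit 78) (nat_lit 0) (nat_lit 0) (XT.lf (nat_lit 0) (nat_lit 6505499416) (nat_lit 76) (nat_lit 18105799751) (nat_lit 76) (nat_lit 15258718294) (nat_lit 10) (nat_lit 4) (nat_lit 11) (nat_lit 5) (nat_lit 11) (nat_lit 4) (nat_lit 423) (nat_lit 247) (nat_lit 230)) (XT.lf (nat_lit 0) (nat_lit 15655358367) (nat_lit 76) (nat_lit 14122565071) (nat_lit 76) (nat_lit 11148463619) (nat_lit 10) (nat_lit 4) (nat_lit 11) (nat_lit 5) (nat_lit 11) (nat_lit 4) (nat_lit 424) (nat_lit 247) (nat_lit 229))))))) (XT.nd (nat_lit 1014) (nat_lit 152) (nat_lit 0) (XT.nd (nat_lit 468) (nat_lit 76) (nat_lit 0) (XT.nd (nat_lit 234) (nat_lit 76) (nat_lit 0) (XT.nd (nat_lit 78) (nat_lit 76) (nat_lit 0) (XT.lf (nat_lit 0) (nat_lit 24937860000)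 (nat_lit 76) (nat_lit 10088111540) (nat_lit 76) (nat_lit 6990689705) (nat_lit 10) (nat_lit 4) (nat_lit 11) (nat_lit 5) (nat_lit 11) (nat_lit 4) (nat_lit 425) (nat_lit 247) (nat_lit 228)) (XT.nd (nat_lit 78) (nat_lit 76) (nat_lit 0) (XT.lf (nat_lit 0) (nat_lit 34361115239) (nat_lit 76) (nat_lit 5998913909) (nat_lit 76) (nat_lit 2781763547) (nat_lit 10) (nat_lit 4) (nat_lit 11) (nat_lit 5) (nat_lit 11) (nat_lit 4) (nat_lit 426) (nat_lit 247) (nat_lit 227)) (XT.lf (nat_lit 0) (nat_lit 1453073546) (nat_lit 152) (nat_lit 383652351) (nat_lit 76) (nat_lit 42465611257) (nat_lit 9) (nat_lit 5) (nat_lit 11) (nat_lit 5) (nat_lit 10) (nat_lit 4) (nat_lit 427) (nat_lit 247) (nat_lit 226)))) (XT.nd (nat_lit 78) (nat_lit 0) (nat_lit 0) (XT.lf (nat_lit 0) (nat_lit 5794523886) (nat_lit 152) (nat_lit 37252636240) (nat_lit 0) (nat_lit 2448652750) (nat_lit 8) (nat_lit 5) (nat_lit 10) (nat_lit 4) (nat_lit 8) (nat_lit 4) (nat_lit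 428) (nat_lit 247) (nat_lit 225)) (XT.nd (nat_lit 78) (nat_lit 0) (nat_lit 0) (XT.lf (nat_lit 0) (nat_lit 10220442129) (nat_lit 152) (nat_lit 29737835661) (nat_lit 0) (nat_lit 6768193747) (nat_lit 8) (nat_lit 5) (nat_lit 10) (nat_lit 4) (nat_lit 8) (nat_lit 4) (nat_lit 429) (nat_lit 247) (nat_lit 224)) (XT.lf (nat_lit 0) (nat_lit 14713241310) (nat_lit 152) (nat_lit 22125076739) (nat_lit 0) (nat_lit 11157714049) (nat_lit 8) (nat_lit 5) (nat_lit 10) (nat_lit 4) (nat_lit 8) (nat_lit 4) (nat_lit 430) (nat_lit 247) (nat_lit 223))))) (XT.nd (nat_lit 234) (nat_lit 0) (nat_lit 0) (XT.nd (nat_lit 78) (nat_lit 76) (nat_lit 0) (XT.lf (nat_lit 0) (nat_lit 19276847176) (nat_lit 152) (nat_lit 14407707547) (nat_lit 0) (nat_lit 15621049158) (nat_lit 8) (nat_lit 5) (nat_lit 10) (nat_lit 4) (nat_lit 8) (nat_lit 4) (nat_lit 431) (nat_lit 247) (nat_lit 222)) (XT.nd (nat_lit 78) (nat_lit 76) (nat_lit 0) (XT.lf (nat_lit 0) (nat_lit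 23915247345) (nat_lit 152) (nat_lit 6578984755) (nat_lit 0) (nat_lit 20162099078) (nat_lit 8) (nat_lit 5) (nat_lit 10) (nat_lit 4) (nat_lit 8) (nat_lit 4) (nat_lit 432) (nat_lit 247) (nat_lit 221)) (XT.lf (nat_lit 0) (nat_lit 1395156804) (nat_lit 76) (nat_lit 27250749082) (nat_lit 76) (nat_lit 23403086010) (nat_lit 7) (nat_lit 4) (nat_lit 8) (nat_lit 5) (nat_lit 8) (nat_lit 4) (nat_lit 433) (nat_lit 247) (nat_lit 220)))) (XT.nd (nat_lit 156) (nat_lit 0) (nat_lit 0) (XT.nd (nat_lit 78) (nat_lit 0) (nat_lit 0) (XT.lf (nat_lit 0) (nat_lit 9627861695) (nat_lit 76) (nat_lit 23897398568) (nat_lit 76) (nat_lit 19957973549) (nat_lit 7) (nat_lit 4) (nat_lit 8) (nat_lit 5) (nat_lit 8) (nat_lit 4) (nat_lit 434) (nat_lit 247) (nat_lit 219)) (XT.lf (nat_lit 0) (nat_lit 17995388847) (nat_lit 76) (nat_lit 20497685290) (nat_lit 76) (nat_lit 16469171003) (nat_lit 7) (nat_lit 4) (nat_lit 8) (nat_lit 5) (nat_lit 8) (nat_lit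 4) (nat_lit 435) (nat_lit 247) (nat_lit 218))) (XT.nd (nat_lit 78) (nat_lit 0) (nat_lit 0) (XT.lf (nat_lit 0) (nat_lit 26505049691) (nat_lit 76) (nat_lit 17048638626) (nat_lit 76) (nat_lit 12933629904) (nat_lit 7) (nat_lit 4) (nat_lit 8) (nat_lit 5) (nat_lit 8) (nat_lit 4) (nat_lit 436) (nat_lit 247) (nat_lit 217)) (XT.lf (nat_lit 0) (nat_lit 35164279854) (nat_lit 76) (nat_lit 13547244846) (nat_lit 76) (nat_lit 9348260943) (nat_lit 7) (nat_lit 4) (nat_lit 8) (nat_lit 5) (nat_lit 8) (nat_lit 4) (nat_lit 437) (nat_lit 247) (nat_lit 216)))))) (XT.nd (nat_lit 546) (nat_lit 0) (nat_lit 0) (XT.nd (nat_lit 234) (nat_lit 76) (nat_lit 0) (XT.nd (nat_lit 78) (nat_lit 76) (nat_lit 0) (XT.lf (nat_lit 0) (nat_lit 43980645653) (nat_lit 76) (nat_lit 9990444479) (nat_lit 76) (nat_lit 5709931275) (nat_lit 7) (nat_lit 4) (nat_lit 8) (nat_lit 5) (nat_lit 8) (nat_lit 4) (nat_lit 438) (nat_lit 247) (nat_lit 215)) (XT.nd (nat_lit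 78) (nat_lit 76) (nat_lit 0) (XT.lf (nat_lit 0) (nat_lit 52961850708) (nat_lit 76) (nat_lit 6375129641) (nat_lit 76) (nat_lit 2015461776) (nat_lit 7) (nat_lit 4) (nat_lit 8) (nat_lit 5) (nat_lit 8) (nat_lit 4) (nat_lit 439) (nat_lit 247) (nat_lit 214)) (XT.lf (nat_lit 0) (nat_lit 1704453758) (nat_lit 152) (nat_lit 976475921) (nat_lit 76) (nat_lit 60394077275) (nat_lit 6) (nat_lit 5) (nat_lit 8) (nat_lit 5) (nat_lit 7) (nat_lit 4) (nat_lit 440) (nat_lit 247) (nat_lit 213)))) (XT.nd (nat_lit 156) (nat_lit 0) (nat_lit 0) (XT.nd (nat_lit 78) (nat_lit 0) (nat_lit 0) (XT.lf (nat_lit 0) (nat_lit 5521831569) (nat_lit 152) (nat_lit 58183935241) (nat_lit 0) (nat_lit 1142095734) (nat_lit 5) (nat_lit 5) (nat_lit 7) (nat_lit 4) (nat_lit 5) (nat_lit 4) (nat_lit 441) (nat_lit 247) (nat_lit 212)) (XT.lf (nat_lit 0) (nat_lit 9441326749) (nat_lit 152) (nat_lit 52241689717) (nat_lit 0) (nat_lit 4991263023) (nat_lit 5) (nat_lit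 5) (nat_lit 7) (nat_lit 4) (nat_lit 5) (nat_lit 4) (nat_lit 442) (nat_lit 247) (nat_lit 211))) (XT.nd (nat_lit 78) (nat_lit 0) (nat_lit 0) (XT.lf (nat_lit 0) (nat_lit 13430925286) (nat_lit 152) (nat_lit 46213409514) (nat_lit 0) (nat_lit 8912582054) (nat_lit 5) (nat_lit 5) (nat_lit 7) (nat_lit 4) (nat_lit 5) (nat_lit 4) (nat_lit 443) (nat_lit 247) (nat_lit 210)) (XT.lf (nat_lit 0) (nat_lit 17494113236) (nat_lit 152) (nat_lit 40093827203) (nat_lit 0) (nat_lit 12909479221) (nat_lit 5) (nat_lit 5) (nat_lit 7) (nat_lit 4) (nat_lit 5) (nat_lit 4) (nat_lit 444) (nat_lit 247) (nat_lit 209))))) (XT.nd (nat_lit 234) (nat_lit 0) (nat_lit 0) (XT.nd (nat_lit 78) (nat_lit 0) (nat_lit 0) (XT.lf (nat_lit 0) (nat_lit 21634440957) (nat_lit 152) (nat_lit 33877595576) (nat_lit 0) (nat_lit 16985446959) (nat_lit 5) (nat_lit 5) (nat_lit 7) (nat_lit 4) (nat_lit 5) (nat_lit 4) (nat_lit 445) (nat_lit 247) (nat_lit 208)) (XT.nd (nat_lit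 78) (nat_lit 0) (nat_lit 0) (XT.lf (nat_lit 0) (nat_lit 25855526212) (nat_lit 152) (nat_lit 27559282974) (nat_lit 0) (nat_lit 21144046793) (nat_lit 5) (nat_lit 5) (nat_lit 7) (nat_lit 4) (nat_lit 5) (nat_lit 4) (nat_lit 446) (nat_lit 247) (nat_lit 207)) (XT.lf (nat_lit 0) (nat_lit 30161057327) (nat_lit 152) (nat_lit 21133368542) (nat_lit 0) (nat_lit 25388912452) (nat_lit 5) (nat_lit 5) (nat_lit 7) (nat_lit 4) (nat_lit 5) (nat_lit 4) (nat_lit 447) (nat_lit 247) (nat_lit 206)))) (XT.nd (nat_lit 156) (nat_lit 0) (nat_lit 0) (XT.nd (nat_lit 78) (nat_lit 0) (nat_lit 0) (XT.lf (nat_lit 0) (nat_lit 34554796417) (nat_lit 152) (nat_lit 14594237402) (nat_lit 0) (nat_lit 29723753040) (nat_lit 5) (nat_lit 5) (nat_lit 7) (nat_lit 4) (nat_lit 5) (nat_lit 4) (nat_lit 448) (nat_lit 247) (nat_lit 205)) (XT.lf (nat_lit 0) (nat_lit 39040582672) (nat_lit 152) (nat_lit 7936175752) (nat_lit 0) (nat_lit 34152356284) (nat_lit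 5) (nat_lit 5) (nat_lit 7) (nat_lit 4) (nat_lit 5) (nat_lit 4) (nat_lit 449) (nat_lit 247) (nat_lit 204))) (XT.nd (nat_lit 43290) (nat_lit 0) (nat_lit 1064) (XT.lf (nat_lit 0) (nat_lit 43622335711) (nat_lit 152) (nat_lit 1153365867) (nat_lit 0) (nat_lit 38678591836) (nat_lit 5) (nat_lit 5) (nat_lit 7) (nat_lit 4) (nat_lit 5) (nat_lit 4) (nat_lit 450) (nat_lit 247) (nat_lit 203)) (XT.lf (nat_lit 0) (nat_lit 2920918777) (nat_lit 76) (nat_lit 4779515721) (nat_lit 76) (nat_lit 4779515721) (nat_lit 19) (nat_lit 4) (nat_lit 20) (nat_lit 5) (nat_lit 20) (nat_lit 4) (nat_lit 404) (nat_lit 248) (nat_lit 248))))))))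
noncomputable def xc10 : XT := (XT.nd (nat_lit 2028) (nat_lit 228) (nat_lit 0) (XT.nd (nat_lit 1014) (nat_lit 380) (nat_lit 0) (XT.nd (nat_lit 468) (nat_lit 228) (nat_lit 0) (XT.nd (nat_lit 234) (nat_lit 76) (nat_lit 0) (XT.nd (nat_lit 78) (nat_lit 152) (nat_lit 0) (XT.lf (nat_lit 0) (nat_lit 16424195360) (nat_lit 76) (nat_lit 4677858934) (nat_lit 76) (nat_lit 4441564327) (nat_lit 19) (nat_lit 4) (nat_lit 20) (nat_lit 5) (nat_lit 20) (nat_lit 4) (nat_lit 405) (nat_lit 248) (nat_lit 247)) (XT.nd (nat_lit 78) (nat_lit 0) (nat_lit 0) (XT.lf (nat_lit 0) (nat_lit 718345892) (nat_lit 152) (nat_lit 25162918122) (nat_lit 0) (nat_lit 266203324) (nat_lit 17) (nat_lit 5) (nat_lit 19) (nat_lit 4) (nat_lit 17) (nat_lit 4) (nat_lit 406) (nat_lit 248) (nat_lit 246)) (XT.lf (nat_lit 0) (nat_lit 5976366985) (nat_lit 152) (nat_lit 15482797311) (nat_lit 0) (nat_lit 5307981379) (nat_lit 17) (nat_lit 5) (nat_lit 19) (nat_lit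 4) (nat_lit 17) (nat_lit 4) (nat_lit 407) (nat_lit 248) (nat_lit 245)))) (XT.nd (nat_lit 78) (nat_lit 76) (nat_lit 0) (XT.lf (nat_lit 0) (nat_lit 11288506495) (nat_lit 152) (nat_lit 5709850997) (nat_lit 0) (nat_lit 10410176192) (nat_lit 17) (nat_lit 5) (nat_lit 19) (nat_lit 4) (nat_lit 17) (nat_lit 4) (nat_lit 408) (nat_lit 248) (nat_lit 244)) (XT.nd (nat_lit 78) (nat_lit 0) (nat_lit 0) (XT.lf (nat_lit 0) (nat_lit 4247341213) (nat_lit 76) (nat_lit 12452892926) (nat_lit 76) (nat_lit 11370732819) (nat_lit 16) (nat_lit 4) (nat_lit 17) (nat_lit 5) (nat_lit 17) (nat_lit 4) (nat_lit 409) (nat_lit 248) (nat_lit 243)) (XT.lf (nat_lit 0) (nat_lit 14430352741) (nat_lit 76) (nat_lit 7802119447) (nat_lit 76) (nat_lit 6522066328) (nat_lit 16) (nat_lit 4) (nat_lit 17) (nat_lit 5) (nat_lit 17) (nat_lit 4) (nat_lit 410) (nat_lit 248) (nat_lit 242))))) (XT.nd (nat_lit 234) (nat_lit 76) (nat_lit 0) (XT.nd (nat_lit 78) (nat_lit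 152) (nat_lit 0) (XT.lf (nat_lit 0) (nat_lit 24734444133) (nat_lit 76) (nat_lit 3099631574) (nat_lit 76) (nat_lit 1627449316) (nat_lit 16) (nat_lit 4) (nat_lit 17) (nat_lit 5) (nat_lit 17) (nat_lit 4) (nat_lit 411) (nat_lit 248) (nat_lit 241)) (XT.nd (nat_lit 78) (nat_lit 0) (nat_lit 0) (XT.lf (nat_lit 0) (nat_lit 3317873049) (nat_lit 152) (nat_lit 25164288401) (nat_lit 0) (nat_lit 1707469747) (nat_lit 14) (nat_lit 5) (nat_lit 16) (nat_lit 4) (nat_lit 14) (nat_lit 4) (nat_lit 412) (nat_lit 248) (nat_lit 240)) (XT.lf (nat_lit 0) (nat_lit 8363230560) (nat_lit 152) (nat_lit 15999342072) (nat_lit 0) (nat_lit 6577001879) (nat_lit 14) (nat_lit 5) (nat_lit 16) (nat_lit 4) (nat_lit 14) (nat_lit 4) (nat_lit 413) (nat_lit 248) (nat_lit 239)))) (XT.nd (nat_lit 156) (nat_lit 0) (nat_lit 0) (XT.nd (nat_lit 78) (nat_lit 76) (nat_lit 0) (XT.lf (nat_lit 0) (nat_lit 13468190843) (nat_lit 152) (nat_lit 6735328774) (nat_lit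 0) (nat_lit 11511257910) (nat_lit 14) (nat_lit 5) (nat_lit 16) (nat_lit 4) (nat_lit 14) (nat_lit 4) (nat_lit 414) (nat_lit 248) (nat_lit 238)) (XT.lf (nat_lit 0) (nat_lit 2688304769) (nat_lit 76) (nat_lit 15974751402) (nat_lit 76) (nat_lit 13852086187) (nat_lit 13) (nat_lit 4) (nat_lit 14) (nat_lit 5) (nat_lit 14) (nat_lit 4) (nat_lit 415) (nat_lit 248) (nat_lit 237))) (XT.nd (nat_lit 78) (nat_lit 0) (nat_lit 0) (XT.lf (nat_lit 0) (nat_lit 12363630399) (nat_lit 76) (nat_lit 11630034657) (nat_lit 76) (nat_lit 9346464314) (nat_lit 13) (nat_lit 4) (nat_lit 14) (nat_lit 5) (nat_lit 14) (nat_lit 4) (nat_lit 416) (nat_lit 248) (nat_lit 236)) (XT.lf (nat_lit 0) (nat_lit 22165056034) (nat_lit 76) (nat_lit 7233586644) (nat_lit 76) (nat_lit 4793797729) (nat_lit 13) (nat_lit 4) (nat_lit 14) (nat_lit 5) (nat_lit 14) (nat_lit 4) (nat_lit 417) (nat_lit 248) (nat_lit 235)))))) (XT.nd (nat_lit 468) (nat_lit 152) (nat_lit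 0) (XT.nd (nat_lit 234) (nat_lit 76) (nat_lit 0) (XT.nd (nat_lit 78) (nat_lit 152) (nat_lit 0) (XT.lf (nat_lit 0) (nat_lit 32101146027) (nat_lit 76) (nat_lit 2781565806) (nat_lit 76) (nat_lit 190108374) (nat_lit 13) (nat_lit 4) (nat_lit 14) (nat_lit 5) (nat_lit 14) (nat_lit 4) (nat_lit 418) (nat_lit 248) (nat_lit 234)) (XT.nd (nat_lit 78) (nat_lit 0) (nat_lit 0) (XT.lf (nat_lit 0) (nat_lit 4459428151) (nat_lit 152) (nat_lit 29718493265) (nat_lit 0) (nat_lit 1800487939) (nat_lit 11) (nat_lit 5) (nat_lit 13) (nat_lit 4) (nat_lit 11) (nat_lit 4) (nat_lit 419) (nat_lit 248) (nat_lit 233)) (XT.lf (nat_lit 0) (nat_lit 9221200756) (nat_lit 152) (nat_lit 21267156501) (nat_lit 0) (nat_lit 6423462367) (nat_lit 11) (nat_lit 5) (nat_lit 13) (nat_lit 4) (nat_lit 11) (nat_lit 4) (nat_lit 420) (nat_lit 248) (nat_lit 232)))) (XT.nd (nat_lit 78) (nat_lit 76) (nat_lit 0) (XT.lf (nat_lit 0) (nat_lit 14046919283) (nat_lit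 152) (nat_lit 12714261592) (nat_lit 0) (nat_lit 11114425382) (nat_lit 11) (nat_lit 5) (nat_lit 13) (nat_lit 4) (nat_lit 11) (nat_lit 4) (nat_lit 421) (nat_lit 248) (nat_lit 231)) (XT.nd (nat_lit 78) (nat_lit 76) (nat_lit 0) (XT.lf (nat_lit 0) (nat_lit 18940800380) (nat_lit 152) (nat_lit 4052335136) (nat_lit 0) (nat_lit 15877475884) (nat_lit 11) (nat_lit 5) (nat_lit 13) (nat_lit 4) (nat_lit 11) (nat_lit 4) (nat_lit 422) (nat_lit 248) (nat_lit 230)) (XT.lf (nat_lit 0) (nat_lit 4820252020) (nat_lit 76) (nat_lit 19133203443) (nat_lit 76) (nat_lit 15942858953) (nat_lit 10) (nat_lit 4) (nat_lit 11) (nat_lit 5) (nat_lit 11) (nat_lit 4) (nat_lit 423) (nat_lit 248) (nat_lit 229))))) (XT.nd (nat_lit 234) (nat_lit 152) (nat_lit 0) (XT.nd (nat_lit 78) (nat_lit 0) (nat_lit 0) (XT.lf (nat_lit 0) (nat_lit 13900232604) (nat_lit 76) (nat_lit 15183603339) (nat_lit 76) (nat_lit 11869938466) (nat_lit 10) (nat_lit 4) (nat_lit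 11) (nat_lit 5) (nat_lit 11) (nat_lit 4) (nat_lit 424) (nat_lit 248) (nat_lit 228)) (XT.nd (nat_lit 78) (nat_lit 0) (nat_lit 0) (XT.lf (nat_lit 0) (nat_lit 23114891161) (nat_lit 76) (nat_lit 11181804737) (nat_lit 76) (nat_lit 7748411337) (nat_lit 10) (nat_lit 4) (nat_lit 11) (nat_lit 5) (nat_lit 11) (nat_lit 4) (nat_lit 425) (nat_lit 248) (nat_lit 227)) (XT.lf (nat_lit 0) (nat_lit 32472279337) (nat_lit 76) (nat_lit 7124310919) (nat_lit 76) (nat_lit 3574676231) (nat_lit 10) (nat_lit 4) (nat_lit 11) (nat_lit 5) (nat_lit 11) (nat_lit 4) (nat_lit 426) (nat_lit 248) (nat_lit 226)))) (XT.nd (nat_lit 156) (nat_lit 0) (nat_lit 0) (XT.nd (nat_lit 78) (nat_lit 76) (nat_lit 0) (XT.lf (nat_lit 0) (nat_lit 642134077) (nat_lit 152) (nat_lit 2358958131) (nat_lit 76) (nat_lit 41331955118) (nat_lit 9) (nat_lit 5) (nat_lit 11) (nat_lit 5) (nat_lit 10) (nat_lit 4) (nat_lit 427) (nat_lit 248) (nat_lit 225)) (XT.lf (nat_lit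 0) (nat_lit 4919399108) (nat_lit 152) (nat_lit 39351846130) (nat_lit 0) (nat_lit 1257206029) (nat_lit 8) (nat_lit 5) (nat_lit 10) (nat_lit 4) (nat_lit 8) (nat_lit 4) (nat_lit 428) (nat_lit 248) (nat_lit 224))) (XT.nd (nat_lit 78) (nat_lit 0) (nat_lit 0) (XT.lf (nat_lit 0) (nat_lit 9312855967) (nat_lit 152) (nat_lit 31899846376) (nat_lit 0) (nat_lit 5547384008) (nat_lit 8) (nat_lit 5) (nat_lit 10) (nat_lit 4) (nat_lit 8) (nat_lit 4) (nat_lit 429) (nat_lit 248) (nat_lit 223)) (XT.lf (nat_lit 0) (nat_lit 13774139241) (nat_lit 152) (nat_lit 24348059128) (nat_lit 0) (nat_lit 9908396526) (nat_lit 8) (nat_lit 5) (nat_lit 10) (nat_lit 4) (nat_lit 8) (nat_lit 4) (nat_lit 430) (nat_lit 248) (nat_lit 222))))))) (XT.nd (nat_lit 1014) (nat_lit 0) (nat_lit 0) (XT.nd (nat_lit 468) (nat_lit 152) (nat_lit 0) (XT.nd (nat_lit 234) (nat_lit 76) (nat_lit 0) (XT.nd (nat_lit 78) (nat_lit 0) (nat_lit 0) (XT.lf (nat_lit 0) (nat_lit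 18307147140) (nat_lit 152) (nat_lit 16689885737) (nat_lit 0) (nat_lit 14344054176) (nat_lit 8) (nat_lit 5) (nat_lit 10) (nat_lit 4) (nat_lit 8) (nat_lit 4) (nat_lit 431) (nat_lit 248) (nat_lit 221)) (XT.nd (nat_lit 78) (nat_lit 0) (nat_lit 0) (XT.lf (nat_lit 0) (nat_lit 22915840544) (nat_lit 152) (nat_lit 8918634595) (nat_lit 0) (nat_lit 18858232775) (nat_lit 8) (nat_lit 5) (nat_lit 10) (nat_lit 4) (nat_lit 8) (nat_lit 4) (nat_lit 432) (nat_lit 248) (nat_lit 220)) (XT.lf (nat_lit 0) (nat_lit 27604246466) (nat_lit 152) (nat_lit 1027515289) (nat_lit 0) (nat_lit 23454876750) (nat_lit 8) (nat_lit 5) (nat_lit 10) (nat_lit 4) (nat_lit 8) (nat_lit 4) (nat_lit 433) (nat_lit 248) (nat_lit 219)))) (XT.nd (nat_lit 78) (nat_lit 0) (nat_lit 0) (XT.lf (nat_lit 0) (nat_lit 7129489349) (nat_lit 76) (nat_lit 25315505236) (nat_lit 76) (nat_lit 21077046251) (nat_lit 7) (nat_lit 4) (nat_lit 8) (nat_lit 5) (nat_lit 8) (nat_lit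 4) (nat_lit 434) (nat_lit 248) (nat_lit 218)) (XT.nd (nat_lit 78) (nat_lit 0) (nat_lit 0) (XT.lf (nat_lit 0) (nat_lit 15443375062) (nat_lit 76) (nat_lit 21941731865) (nat_lit 76) (nat_lit 17616778446) (nat_lit 7) (nat_lit 4) (nat_lit 8) (nat_lit 5) (nat_lit 8) (nat_lit 4) (nat_lit 435) (nat_lit 248) (nat_lit 217)) (XT.lf (nat_lit 0) (nat_lit 23900956839) (nat_lit 76) (nat_lit 18517869577) (nat_lit 76) (nat_lit 14108940978) (nat_lit 7) (nat_lit 4) (nat_lit 8) (nat_lit 5) (nat_lit 8) (nat_lit 4) (nat_lit 436) (nat_lit 248) (nat_lit 216))))) (XT.nd (nat_lit 234) (nat_lit 152) (nat_lit 0) (XT.nd (nat_lit 78) (nat_lit 0) (nat_lit 0) (XT.lf (nat_lit 0) (nat_lit 32509624800) (nat_lit 76) (nat_lit 15040926648) (nat_lit 76) (nat_lit 10550468747) (nat_lit 7) (nat_lit 4) (nat_lit 8) (nat_lit 5) (nat_lit 8) (nat_lit 4) (nat_lit 437) (nat_lit 248) (nat_lit 215)) (XT.nd (nat_lit 78) (nat_lit 0) (nat_lit 0) (XT.lf (nat_lit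 0) (nat_lit 41276901082) (nat_lit 76) (nat_lit 11507864970) (nat_lit 76) (nat_lit 6938252409) (nat_lit 7) (nat_lit 4) (nat_lit 8) (nat_lit 5) (nat_lit 8) (nat_lit 4) (nat_lit 438) (nat_lit 248) (nat_lit 214)) (XT.lf (nat_lit 0) (nat_lit 50210446413) (nat_lit 76) (nat_lit 7915597405) (nat_lit 76) (nat_lit 3269135657) (nat_lit 7) (nat_lit 4) (nat_lit 8) (nat_lit 5) (nat_lit 8) (nat_lit 4) (nat_lit 439) (nat_lit 248) (nat_lit 213)))) (XT.nd (nat_lit 156) (nat_lit 0) (nat_lit 0) (XT.nd (nat_lit 78) (nat_lit 76) (nat_lit 0) (XT.lf (nat_lit 0) (nat_lit 451109566) (nat_lit 152) (nat_lit 3805320187) (nat_lit 76) (nat_lit 58862401914) (nat_lit 6) (nat_lit 5) (nat_lit 8) (nat_lit 5) (nat_lit 7) (nat_lit 4) (nat_lit 440) (nat_lit 248) (nat_lit 212)) (XT.lf (nat_lit 0) (nat_lit 3744021085) (nat_lit 76) (nat_lit 461659417) (nat_lit 152) (nat_lit 60687892720) (nat_lit 5) (nat_lit 5) (nat_lit 6) (nat_lit 5) (nat_lit 7)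 (nat_lit 4) (nat_lit 441) (nat_lit 248) (nat_lit 211))) (XT.nd (nat_lit 78) (nat_lit 0) (nat_lit 0) (XT.lf (nat_lit 0) (nat_lit 8097348029) (nat_lit 152) (nat_lit 55248303682) (nat_lit 0) (nat_lit 3375174993) (nat_lit 5) (nat_lit 5) (nat_lit 7) (nat_lit 4) (nat_lit 5) (nat_lit 4) (nat_lit 442) (nat_lit 248) (nat_lit 210)) (XT.lf (nat_lit 0) (nat_lit 12064237924) (nat_lit 152) (nat_lit 49264134955) (nat_lit 0) (nat_lit 7275774106) (nat_lit 5) (nat_lit 5) (nat_lit 7) (nat_lit 4) (nat_lit 5) (nat_lit 4) (nat_lit 443) (nat_lit 248) (nat_lit 209)))))) (XT.nd (nat_lit 43602) (nat_lit 0) (nat_lit 912) (XT.nd (nat_lit 234) (nat_lit 0) (nat_lit 0) (XT.nd (nat_lit 78) (nat_lit 0) (nat_lit 0) (XT.lf (nat_lit 0) (nat_lit 16105378648) (nat_lit 152) (nat_lit 43187379321) (nat_lit 0) (nat_lit 11252554847) (nat_lit 5) (nat_lit 5) (nat_lit 7) (nat_lit 4) (nat_lit 5) (nat_lit 4) (nat_lit 444) (nat_lit 248) (nat_lit 208))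 (XT.nd (nat_lit 78) (nat_lit 0) (nat_lit 0) (XT.lf (nat_lit 0) (nat_lit 20224301297) (nat_lit 152) (nat_lit 37012726991) (nat_lit 0) (nat_lit 15308992075) (nat_lit 5) (nat_lit 5) (nat_lit 7) (nat_lit 4) (nat_lit 5) (nat_lit 4) (nat_lit 445) (nat_lit 248) (nat_lit 207)) (XT.lf (nat_lit 0) (nat_lit 24424604927) (nat_lit 152) (nat_lit 30734782639) (nat_lit 0) (nat_lit 19448630249) (nat_lit 5) (nat_lit 5) (nat_lit 7) (nat_lit 4) (nat_lit 5) (nat_lit 4) (nat_lit 446) (nat_lit 248) (nat_lit 206)))) (XT.nd (nat_lit 156) (nat_lit 0) (nat_lit 0) (XT.nd (nat_lit 78) (nat_lit 0) (nat_lit 0) (XT.lf (nat_lit 0) (nat_lit 28709959708) (nat_lit 152) (nat_lit 24348060683) (nat_lit 0) (nat_lit 23675086528) (nat_lit 5) (nat_lit 5) (nat_lit 7) (nat_lit 4) (nat_lit 5) (nat_lit 4) (nat_lit 447) (nat_lit 248) (nat_lit 205)) (XT.lf (nat_lit 0) (nat_lit 33084110125) (nat_lit 152) (nat_lit 17846980491) (nat_lit 0) (nat_lit 27992053933)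 (nat_lit 5) (nat_lit 5) (nat_lit 7) (nat_lit 4) (nat_lit 5) (nat_lit 4) (nat_lit 448) (nat_lit 248) (nat_lit 204))) (XT.nd (nat_lit 78) (nat_lit 0) (nat_lit 0) (XT.lf (nat_lit 0) (nat_lit 37550878250) (nat_lit 152) (nat_lit 11225861508) (nat_lit 0) (nat_lit 32403304571) (nat_lit 5) (nat_lit 5) (nat_lit 7) (nat_lit 4) (nat_lit 5) (nat_lit 4) (nat_lit 449) (nat_lit 248) (nat_lit 203)) (XT.lf (nat_lit 0) (nat_lit 42114167084) (nat_lit 152) (nat_lit 4478918290) (nat_lit 0) (nat_lit 36912692934) (nat_lit 5) (nat_lit 5) (nat_lit 7) (nat_lit 4) (nat_lit 5) (nat_lit 4) (nat_lit 450) (nat_lit 248) (nat_lit 202))))) (XT.nd (nat_lit 234) (nat_lit 152) (nat_lit 0) (XT.nd (nat_lit 78) (nat_lit 76) (nat_lit 0) (XT.lf (nat_lit 0) (nat_lit 2307976381) (nat_lit 152) (nat_lit 7307337175) (nat_lit 0) (nat_lit 2307976381) (nat_lit 20) (nat_lit 5) (nat_lit 22) (nat_lit 4) (nat_lit 20) (nat_lit 4) (nat_lit 402) (nat_lit 249)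 (nat_lit 249)) (XT.nd (nat_lit 78) (nat_lit 76) (nat_lit 0) (XT.lf (nat_lit 0) (nat_lit 10047724728) (nat_lit 152) (nat_lit 4542971279) (nat_lit 0) (nat_lit 9804341284) (nat_lit 20) (nat_lit 5) (nat_lit 22) (nat_lit 4) (nat_lit 20) (nat_lit 4) (nat_lit 403) (nat_lit 249) (nat_lit 248)) (XT.lf (nat_lit 0) (nat_lit 5739807135) (nat_lit 76) (nat_lit 9850694887) (nat_lit 76) (nat_lit 9371016837) (nat_lit 19) (nat_lit 4) (nat_lit 20) (nat_lit 5) (nat_lit 20) (nat_lit 4) (nat_lit 404) (nat_lit 249) (nat_lit 247)))) (XT.nd (nat_lit 156) (nat_lit 0) (nat_lit 0) (XT.nd (nat_lit 78) (nat_lit 152) (nat_lit 0) (XT.lf (nat_lit 0) (nat_lit 16223106283) (nat_lit 76) (nat_lit 5016396165) (nat_lit 76) (nat_lit 4307305875) (nat_lit 19) (nat_lit 4) (nat_lit 20) (nat_lit 5) (nat_lit 20) (nat_lit 4) (nat_lit 405) (nat_lit 249) (nat_lit 246)) (XT.lf (nat_lit 0) (nat_lit 678445060) (nat_lit 76) (nat_lit 114789264) (nat_lit 152)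 (nat_lit 25359091909) (nat_lit 17) (nat_lit 5) (nat_lit 18) (nat_lit 5) (nat_lit 19) (nat_lit 4) (nat_lit 406) (nat_lit 249) (nat_lit 245))) (XT.nd (nat_lit 78) (nat_lit 0) (nat_lit 0) (XT.lf (nat_lit 0) (nat_lit 5999106566) (nat_lit 152) (nat_lit 15889986061) (nat_lit 0) (nat_lit 4884481657) (nat_lit 17) (nat_lit 5) (nat_lit 19) (nat_lit 4) (nat_lit 17) (nat_lit 4) (nat_lit 407) (nat_lit 249) (nat_lit 244)) (XT.lf (nat_lit 0) (nat_lit 11261687410) (nat_lit 152) (nat_lit 6211534041) (nat_lit 0) (nat_lit 9943232697) (nat_lit 17) (nat_lit 5) (nat_lit 19) (nat_lit 4) (nat_lit 17) (nat_lit 4) (nat_lit 408) (nat_lit 249) (nat_lit 243))))))))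
noncomputable def xc11 : XT := (XT.nd (nat_lit 2106) (nat_lit 152) (nat_lit 0) (XT.nd (nat_lit 1014) (nat_lit 304) (nat_lit 0) (XT.nd (nat_lit 468) (nat_lit 228) (nat_lit 0) (XT.nd (nat_lit 234) (nat_lit 152) (nat_lit 0) (XT.nd (nat_lit 78) (nat_lit 0) (nat_lit 0) (XT.lf (nat_lit 0) (nat_lit 3642105812) (nat_lit 76) (nat_lit 12977376138) (nat_lit 76) (nat_lit 11461028413) (nat_lit 16) (nat_lit 4) (nat_lit 17) (nat_lit 5) (nat_lit 17) (nat_lit 4) (nat_lit 409) (nat_lit 249) (nat_lit 242)) (XT.nd (nat_lit 78) (nat_lit 0) (nat_lit 0) (XT.lf (nat_lit 0) (nat_lit 13734274738) (nat_lit 76) (nat_lit 8369858231) (nat_lit 76) (nat_lit 6661381367) (nat_lit 16) (nat_lit 4) (nat_lit 17) (nat_lit 5) (nat_lit 17) (nat_lit 4) (nat_lit 410) (nat_lit 249) (nat_lit 241)) (XT.lf (nat_lit 0) (nat_lit 23950169429) (nat_lit 76) (nat_lit 3709366057) (nat_lit 76) (nat_lit 1814356049) (nat_lit 16) (nat_lit 4) (nat_lit 17) (nat_lit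 5) (nat_lit 17) (nat_lit 4) (nat_lit 411) (nat_lit 249) (nat_lit 240)))) (XT.nd (nat_lit 78) (nat_lit 0) (nat_lit 0) (XT.lf (nat_lit 0) (nat_lit 3074307871) (nat_lit 152) (nat_lit 26070890354) (nat_lit 0) (nat_lit 1058666951) (nat_lit 14) (nat_lit 5) (nat_lit 16) (nat_lit 4) (nat_lit 14) (nat_lit 4) (nat_lit 412) (nat_lit 249) (nat_lit 239)) (XT.nd (nat_lit 78) (nat_lit 0) (nat_lit 0) (XT.lf (nat_lit 0) (nat_lit 8074464419) (nat_lit 152) (nat_lit 16992585119) (nat_lit 0) (nat_lit 5888119248) (nat_lit 14) (nat_lit 5) (nat_lit 16) (nat_lit 4) (nat_lit 14) (nat_lit 4) (nat_lit 413) (nat_lit 249) (nat_lit 238)) (XT.lf (nat_lit 0) (nat_lit 13135540272) (nat_lit 152) (nat_lit 7812689389) (nat_lit 0) (nat_lit 10783462818) (nat_lit 14) (nat_lit 5) (nat_lit 16) (nat_lit 4) (nat_lit 14) (nat_lit 4) (nat_lit 414) (nat_lit 249) (nat_lit 237))))) (XT.nd (nat_lit 234) (nat_lit 152) (nat_lit 0) (XT.nd (nat_lit 78) (nat_lit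 0) (nat_lit 0) (XT.lf (nat_lit 0) (nat_lit 1506209681) (nat_lit 76) (nat_lit 16770226656) (nat_lit 76) (nat_lit 14257244073) (nat_lit 13) (nat_lit 4) (nat_lit 14) (nat_lit 5) (nat_lit 14) (nat_lit 4) (nat_lit 415) (nat_lit 249) (nat_lit 236)) (XT.nd (nat_lit 78) (nat_lit 0) (nat_lit 0) (XT.lf (nat_lit 0) (nat_lit 11100668432) (nat_lit 76) (nat_lit 12464234164) (nat_lit 76) (nat_lit 9795033010) (nat_lit 13) (nat_lit 4) (nat_lit 14) (nat_lit 5) (nat_lit 14) (nat_lit 4) (nat_lit 416) (nat_lit 249) (nat_lit 235)) (XT.lf (nat_lit 0) (nat_lit 20823582535) (nat_lit 76) (nat_lit 8105382513) (nat_lit 76) (nat_lit 5284512843) (nat_lit 13) (nat_lit 4) (nat_lit 14) (nat_lit 5) (nat_lit 14) (nat_lit 4) (nat_lit 417) (nat_lit 249) (nat_lit 234)))) (XT.nd (nat_lit 156) (nat_lit 0) (nat_lit 0) (XT.nd (nat_lit 78) (nat_lit 152) (nat_lit 0) (XT.lf (nat_lit 0) (nat_lit 30683447738) (nat_lit 76) (nat_lit 3689862997) (nat_lit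 76) (nat_lit 721742340) (nat_lit 13) (nat_lit 4) (nat_lit 14) (nat_lit 5) (nat_lit 14) (nat_lit 4) (nat_lit 418) (nat_lit 249) (nat_lit 233)) (XT.lf (nat_lit 0) (nat_lit 3875143740) (nat_lit 152) (nat_lit 31272870980) (nat_lit 0) (nat_lit 854675021) (nat_lit 11) (nat_lit 5) (nat_lit 13) (nat_lit 4) (nat_lit 11) (nat_lit 4) (nat_lit 419) (nat_lit 249) (nat_lit 232))) (XT.nd (nat_lit 78) (nat_lit 0) (nat_lit 0) (XT.lf (nat_lit 0) (nat_lit 8598045775) (nat_lit 152) (nat_lit 22896402175) (nat_lit 0) (nat_lit 5442821545) (nat_lit 11) (nat_lit 5) (nat_lit 13) (nat_lit 4) (nat_lit 11) (nat_lit 4) (nat_lit 420) (nat_lit 249) (nat_lit 231)) (XT.lf (nat_lit 0) (nat_lit 13386025886) (nat_lit 152) (nat_lit 14416194606) (nat_lit 0) (nat_lit 10099971061) (nat_lit 11) (nat_lit 5) (nat_lit 13) (nat_lit 4) (nat_lit 11) (nat_lit 4) (nat_lit 421) (nat_lit 249) (nat_lit 230)))))) (XT.nd (nat_lit 546) (nat_lit 76) (nat_lit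 0) (XT.nd (nat_lit 234) (nat_lit 152) (nat_lit 0) (XT.nd (nat_lit 78) (nat_lit 76) (nat_lit 0) (XT.lf (nat_lit 0) (nat_lit 18243267742) (nat_lit 152) (nat_lit 5824838382) (nat_lit 0) (nat_lit 14830192923) (nat_lit 11) (nat_lit 5) (nat_lit 13) (nat_lit 4) (nat_lit 11) (nat_lit 4) (nat_lit 422) (nat_lit 249) (nat_lit 229)) (XT.nd (nat_lit 78) (nat_lit 0) (nat_lit 0) (XT.lf (nat_lit 0) (nat_lit 2942594117) (nat_lit 76) (nat_lit 20259707435) (nat_lit 76) (nat_lit 16723312233) (nat_lit 10) (nat_lit 4) (nat_lit 11) (nat_lit 5) (nat_lit 11) (nat_lit 4) (nat_lit 423) (nat_lit 249) (nat_lit 228)) (XT.lf (nat_lit 0) (nat_lit 11954731625) (nat_lit 76) (nat_lit 16342762260) (nat_lit 76) (nat_lit 12686638530) (nat_lit 10) (nat_lit 4) (nat_lit 11) (nat_lit 5) (nat_lit 11) (nat_lit 4) (nat_lit 424) (nat_lit 249) (nat_lit 227)))) (XT.nd (nat_lit 156) (nat_lit 152) (nat_lit 0) (XT.nd (nat_lit 78) (nat_lit 0) (nat_lit 0)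 (XT.lf (nat_lit 0) (nat_lit 21103523119) (nat_lit 76) (nat_lit 12372667472) (nat_lit 76) (nat_lit 8600302454) (nat_lit 10) (nat_lit 4) (nat_lit 11) (nat_lit 5) (nat_lit 11) (nat_lit 4) (nat_lit 425) (nat_lit 249) (nat_lit 226)) (XT.lf (nat_lit 0) (nat_lit 30396962690) (nat_lit 76) (nat_lit 8345954056) (nat_lit 76) (nat_lit 4460733419) (nat_lit 10) (nat_lit 4) (nat_lit 11) (nat_lit 5) (nat_lit 11) (nat_lit 4) (nat_lit 426) (nat_lit 249) (nat_lit 225))) (XT.nd (nat_lit 78) (nat_lit 152) (nat_lit 0) (XT.lf (nat_lit 0) (nat_lit 39843170818) (nat_lit 76) (nat_lit 4259103526) (nat_lit 76) (nat_lit 264314325) (nat_lit 10) (nat_lit 4) (nat_lit 11) (nat_lit 5) (nat_lit 11) (nat_lit 4) (nat_lit 427) (nat_lit 249) (nat_lit 224)) (XT.lf (nat_lit 0) (nat_lit 3922234147) (nat_lit 76) (nat_lit 30179938) (nat_lit 152) (nat_lit 41611628161) (nat_lit 8) (nat_lit 5) (nat_lit 9) (nat_lit 5) (nat_lit 10) (nat_lit 4) (nat_lit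 428) (nat_lit 249) (nat_lit 223))))) (XT.nd (nat_lit 234) (nat_lit 76) (nat_lit 0) (XT.nd (nat_lit 78) (nat_lit 0) (nat_lit 0) (XT.lf (nat_lit 0) (nat_lit 8314064929) (nat_lit 152) (nat_lit 34250489911) (nat_lit 0) (nat_lit 4232079176) (nat_lit 8) (nat_lit 5) (nat_lit 10) (nat_lit 4) (nat_lit 8) (nat_lit 4) (nat_lit 429) (nat_lit 249) (nat_lit 222)) (XT.nd (nat_lit 78) (nat_lit 0) (nat_lit 0) (XT.lf (nat_lit 0) (nat_lit 12744750236) (nat_lit 152) (nat_lit 26757898463) (nat_lit 0) (nat_lit 8565414234) (nat_lit 8) (nat_lit 5) (nat_lit 10) (nat_lit 4) (nat_lit 8) (nat_lit 4) (nat_lit 430) (nat_lit 249) (nat_lit 221)) (XT.lf (nat_lit 0) (nat_lit 17248051371) (nat_lit 152) (nat_lit 19157196723) (nat_lit 0) (nat_lit 12974200563) (nat_lit 8) (nat_lit 5) (nat_lit 10) (nat_lit 4) (nat_lit 8) (nat_lit 4) (nat_lit 431) (nat_lit 249) (nat_lit 220)))) (XT.nd (nat_lit 156) (nat_lit 76) (nat_lit 0) (XT.nd (nat_lit 78)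 (nat_lit 0) (nat_lit 0) (XT.lf (nat_lit 0) (nat_lit 21827903255) (nat_lit 152) (nat_lit 11441743301) (nat_lit 0) (nat_lit 17462290502) (nat_lit 8) (nat_lit 5) (nat_lit 10) (nat_lit 4) (nat_lit 8) (nat_lit 4) (nat_lit 432) (nat_lit 249) (nat_lit 219)) (XT.lf (nat_lit 0) (nat_lit 26488307703) (nat_lit 152) (nat_lit 3604796538) (nat_lit 0) (nat_lit 22033605681) (nat_lit 8) (nat_lit 5) (nat_lit 10) (nat_lit 4) (nat_lit 8) (nat_lit 4) (nat_lit 433) (nat_lit 249) (nat_lit 218))) (XT.nd (nat_lit 78) (nat_lit 0) (nat_lit 0) (XT.lf (nat_lit 0) (nat_lit 4447273711) (nat_lit 76) (nat_lit 26828813115) (nat_lit 76) (nat_lit 22287616658) (nat_lit 7) (nat_lit 4) (nat_lit 8) (nat_lit 5) (nat_lit 8) (nat_lit 4) (nat_lit 434) (nat_lit 249) (nat_lit 217)) (XT.lf (nat_lit 0) (nat_lit 12709080356) (nat_lit 76) (nat_lit 23480224121) (nat_lit 76) (nat_lit 18855052483) (nat_lit 7) (nat_lit 4) (nat_lit 8) (nat_lit 5) (nat_lit 8)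 (nat_lit 4) (nat_lit 435) (nat_lit 249) (nat_lit 216))))))) (XT.nd (nat_lit 1014) (nat_lit 0) (nat_lit 0) (XT.nd (nat_lit 468) (nat_lit 0) (nat_lit 0) (XT.nd (nat_lit 234) (nat_lit 152) (nat_lit 0) (XT.nd (nat_lit 78) (nat_lit 0) (nat_lit 0) (XT.lf (nat_lit 0) (nat_lit 21116099931) (nat_lit 76) (nat_lit 20080812684) (nat_lit 76) (nat_lit 15374111745) (nat_lit 7) (nat_lit 4) (nat_lit 8) (nat_lit 5) (nat_lit 8) (nat_lit 4) (nat_lit 436) (nat_lit 249) (nat_lit 215)) (XT.nd (nat_lit 78) (nat_lit 0) (nat_lit 0) (XT.lf (nat_lit 0) (nat_lit 29675678377) (nat_lit 76) (nat_lit 16627608444) (nat_lit 76) (nat_lit 11841752844) (nat_lit 7) (nat_lit 4) (nat_lit 8) (nat_lit 5) (nat_lit 8) (nat_lit 4) (nat_lit 437) (nat_lit 249) (nat_lit 214)) (XT.lf (nat_lit 0) (nat_lit 38395294935) (nat_lit 76) (nat_lit 13117594039) (nat_lit 76) (nat_lit 8254889253) (nat_lit 7) (nat_lit 4) (nat_lit 8) (nat_lit 5) (nat_lit 8) (nat_lit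 4) (nat_lit 438) (nat_lit 249) (nat_lit 213)))) (XT.nd (nat_lit 78) (nat_lit 152) (nat_lit 0) (XT.lf (nat_lit 0) (nat_lit 47282568689) (nat_lit 76) (nat_lit 9547702465) (nat_lit 76) (nat_lit 4610386819) (nat_lit 7) (nat_lit 4) (nat_lit 8) (nat_lit 5) (nat_lit 8) (nat_lit 4) (nat_lit 439) (nat_lit 249) (nat_lit 212)) (XT.nd (nat_lit 78) (nat_lit 152) (nat_lit 0) (XT.lf (nat_lit 0) (nat_lit 56345265217) (nat_lit 76) (nat_lit 5914814400) (nat_lit 76) (nat_lit 905061026) (nat_lit 7) (nat_lit 4) (nat_lit 8) (nat_lit 5) (nat_lit 8) (nat_lit 4) (nat_lit 440) (nat_lit 249) (nat_lit 211)) (XT.lf (nat_lit 0) (nat_lit 633396508) (nat_lit 76) (nat_lit 2181124562) (nat_lit 152) (nat_lit 62127203330) (nat_lit 5) (nat_lit 5) (nat_lit 6) (nat_lit 5) (nat_lit 7) (nat_lit 4) (nat_lit 441) (nat_lit 249) (nat_lit 210))))) (XT.nd (nat_lit 234) (nat_lit 0) (nat_lit 0) (XT.nd (nat_lit 78) (nat_lit 0) (nat_lit 0) (XT.lf (nat_lit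 0) (nat_lit 6666951404) (nat_lit 152) (nat_lit 58434662363) (nat_lit 0) (nat_lit 1668542889) (nat_lit 5) (nat_lit 5) (nat_lit 7) (nat_lit 4) (nat_lit 5) (nat_lit 4) (nat_lit 442) (nat_lit 249) (nat_lit 209)) (XT.nd (nat_lit 78) (nat_lit 0) (nat_lit 0) (XT.lf (nat_lit 0) (nat_lit 10611794073) (nat_lit 152) (nat_lit 52493320313) (nat_lit 0) (nat_lit 5549025575) (nat_lit 5) (nat_lit 5) (nat_lit 7) (nat_lit 4) (nat_lit 5) (nat_lit 4) (nat_lit 443) (nat_lit 249) (nat_lit 208)) (XT.lf (nat_lit 0) (nat_lit 14631529725) (nat_lit 152) (nat_lit 46458143976) (nat_lit 0) (nat_lit 9506275806) (nat_lit 5) (nat_lit 5) (nat_lit 7) (nat_lit 4) (nat_lit 5) (nat_lit 4) (nat_lit 444) (nat_lit 249) (nat_lit 207)))) (XT.nd (nat_lit 156) (nat_lit 0) (nat_lit 0) (XT.nd (nat_lit 78) (nat_lit 0) (nat_lit 0) (XT.lf (nat_lit 0) (nat_lit 18729670749) (nat_lit 152) (nat_lit 40323859897) (nat_lit 0) (nat_lit 13543751374) (nat_lit 5)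 (nat_lit 5) (nat_lit 7) (nat_lit 4) (nat_lit 5) (nat_lit 4) (nat_lit 445) (nat_lit 249) (nat_lit 206)) (XT.lf (nat_lit 0) (nat_lit 22909798046) (nat_lit 152) (nat_lit 34085108021) (nat_lit 0) (nat_lit 17664980168) (nat_lit 5) (nat_lit 5) (nat_lit 7) (nat_lit 4) (nat_lit 5) (nat_lit 4) (nat_lit 446) (nat_lit 249) (nat_lit 205))) (XT.nd (nat_lit 78) (nat_lit 0) (nat_lit 0) (XT.lf (nat_lit 0) (nat_lit 27175564153) (nat_lit 152) (nat_lit 27736437011) (nat_lit 0) (nat_lit 21873563264) (nat_lit 5) (nat_lit 5) (nat_lit 7) (nat_lit 4) (nat_lit 5) (nat_lit 4) (nat_lit 447) (nat_lit 249) (nat_lit 204)) (XT.lf (nat_lit 0) (nat_lit 31530696439) (nat_lit 152) (nat_lit 21272299487) (nat_lit 0) (nat_lit 26173178064) (nat_lit 5) (nat_lit 5) (nat_lit 7) (nat_lit 4) (nat_lit 5) (nat_lit 4) (nat_lit 448) (nat_lit 249) (nat_lit 203)))))) (XT.nd (nat_lit 43446) (nat_lit 0) (nat_lit 836) (XT.nd (nat_lit 43134) (nat_lit 0) (nat_lit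 1064) (XT.nd (nat_lit 78) (nat_lit 0) (nat_lit 0) (XT.lf (nat_lit 0) (nat_lit 35979000360) (nat_lit 152) (nat_lit 14687047171) (nat_lit 0) (nat_lit 30567581512) (nat_lit 5) (nat_lit 5) (nat_lit 7) (nat_lit 4) (nat_lit 5) (nat_lit 4) (nat_lit 449) (nat_lit 249) (nat_lit 202)) (XT.nd (nat_lit 42978) (nat_lit 0) (nat_lit 1292) (XT.lf (nat_lit 0) (nat_lit 40524362783) (nat_lit 152) (nat_lit 7974925960) (nat_lit 0) (nat_lit 35060613379) (nat_lit 5) (nat_lit 5) (nat_lit 7) (nat_lit 4) (nat_lit 5) (nat_lit 4) (nat_lit 450) (nat_lit 249) (nat_lit 201)) (XT.lf (nat_lit 0) (nat_lit 5663618187) (nat_lit 76) (nat_lit 2867791394) (nat_lit 76) (nat_lit 2867791394) (nat_lit 22) (nat_lit 4) (nat_lit 23) (nat_lit 5) (nat_lit 23) (nat_lit 4) (nat_lit 400) (nat_lit 250) (nat_lit 250)))) (XT.nd (nat_lit 156) (nat_lit 76) (nat_lit 0) (XT.nd (nat_lit 78) (nat_lit 152) (nat_lit 0) (XT.lf (nat_lit 0) (nat_lit 22050334140) (nat_lit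 76) (nat_lit 762226345) (nat_lit 76) (nat_lit 504020849) (nat_lit 22) (nat_lit 4) (nat_lit 23) (nat_lit 5) (nat_lit 23) (nat_lit 4) (nat_lit 401) (nat_lit 250) (nat_lit 249)) (XT.lf (nat_lit 0) (nat_lit 4812284981) (nat_lit 152) (nat_lit 14717714970) (nat_lit 0) (nat_lit 4318216589) (nat_lit 20) (nat_lit 5) (nat_lit 22) (nat_lit 4) (nat_lit 20) (nat_lit 4) (nat_lit 402) (nat_lit 250) (nat_lit 248))) (XT.nd (nat_lit 78) (nat_lit 76) (nat_lit 0) (XT.lf (nat_lit 0) (nat_lit 10191287308) (nat_lit 152) (nat_lit 4746051337) (nat_lit 0) (nat_lit 9460924309) (nat_lit 20) (nat_lit 5) (nat_lit 22) (nat_lit 4) (nat_lit 20) (nat_lit 4) (nat_lit 403) (nat_lit 250) (nat_lit 247)) (XT.lf (nat_lit 0) (nat_lit 5433626727) (nat_lit 76) (nat_lit 10246262022) (nat_lit 76) (nat_lit 9286486784) (nat_lit 19) (nat_lit 4) (nat_lit 20) (nat_lit 5) (nat_lit 20) (nat_lit 4) (nat_lit 404) (nat_lit 250) (nat_lit 246))))) (XT.nd (nat_lit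 234) (nat_lit 76) (nat_lit 0) (XT.nd (nat_lit 78) (nat_lit 152) (nat_lit 0) (XT.lf (nat_lit 0) (nat_lit 15820752420) (nat_lit 76) (nat_lit 5457471830) (nat_lit 76) (nat_lit 4274966263) (nat_lit 19) (nat_lit 4) (nat_lit 20) (nat_lit 5) (nat_lit 20) (nat_lit 4) (nat_lit 405) (nat_lit 250) (nat_lit 245)) (XT.nd (nat_lit 78) (nat_lit 0) (nat_lit 0) (XT.lf (nat_lit 0) (nat_lit 165012933) (nat_lit 76) (nat_lit 605312947) (nat_lit 152) (nat_lit 25390016975) (nat_lit 17) (nat_lit 5) (nat_lit 18) (nat_lit 5) (nat_lit 19) (nat_lit 4) (nat_lit 406) (nat_lit 250) (nat_lit 244)) (XT.lf (nat_lit 0) (nat_lit 5921924242) (nat_lit 152) (nat_lit 16501213891) (nat_lit 0) (nat_lit 4360086085) (nat_lit 17) (nat_lit 5) (nat_lit 19) (nat_lit 4) (nat_lit 17) (nat_lit 4) (nat_lit 407) (nat_lit 250) (nat_lit 243)))) (XT.nd (nat_lit 156) (nat_lit 0) (nat_lit 0) (XT.nd (nat_lit 78) (nat_lit 76) (nat_lit 0) (XT.lf (nat_lit 0) (nat_lit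 11136389875) (nat_lit 152) (nat_lit 6914503905) (nat_lit 0) (nat_lit 9376658706) (nat_lit 17) (nat_lit 5) (nat_lit 19) (nat_lit 4) (nat_lit 17) (nat_lit 4) (nat_lit 408) (nat_lit 250) (nat_lit 242)) (XT.lf (nat_lit 0) (nat_lit 2834302868) (nat_lit 76) (nat_lit 13605402656) (nat_lit 76) (nat_lit 11653542348) (nat_lit 16) (nat_lit 4) (nat_lit 17) (nat_lit 5) (nat_lit 17) (nat_lit 4) (nat_lit 409) (nat_lit 250) (nat_lit 241))) (XT.nd (nat_lit 78) (nat_lit 0) (nat_lit 0) (XT.lf (nat_lit 0) (nat_lit 12838275093) (nat_lit 76) (nat_lit 9039880449) (nat_lit 76) (nat_lit 6901486996) (nat_lit 16) (nat_lit 4) (nat_lit 17) (nat_lit 5) (nat_lit 17) (nat_lit 4) (nat_lit 410) (nat_lit 250) (nat_lit 240)) (XT.lf (nat_lit 0) (nat_lit 22968541918) (nat_lit 76) (nat_lit 4420160799) (nat_lit 76) (nat_lit 2100667207) (nat_lit 16) (nat_lit 4) (nat_lit 17) (nat_lit 5) (nat_lit 17) (nat_lit 4) (nat_lit 411) (nat_lit 250) (nat_lit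 239))))))))
noncomputable def xc12 : XT := (XT.nd (nat_lit 2028) (nat_lit 152) (nat_lit 0) (XT.nd (nat_lit 1014) (nat_lit 228) (nat_lit 0) (XT.nd (nat_lit 468) (nat_lit 228) (nat_lit 0) (XT.nd (nat_lit 234) (nat_lit 76) (nat_lit 0) (XT.nd (nat_lit 78) (nat_lit 0) (nat_lit 0) (XT.lf (nat_lit 0) (nat_lit 2731677783) (nat_lit 152) (nat_lit 27180571787) (nat_lit 0) (nat_lit 309038005) (nat_lit 14) (nat_lit 5) (nat_lit 16) (nat_lit 4) (nat_lit 14) (nat_lit 4) (nat_lit 412) (nat_lit 250) (nat_lit 238)) (XT.nd (nat_lit 78) (nat_lit 0) (nat_lit 0) (XT.lf (nat_lit 0) (nat_lit 7687949902) (nat_lit 152) (nat_lit 18186384119) (nat_lit 0) (nat_lit 5099577841) (nat_lit 14) (nat_lit 5) (nat_lit 16) (nat_lit 4) (nat_lit 14) (nat_lit 4) (nat_lit 413) (nat_lit 250) (nat_lit 237)) (XT.lf (nat_lit 0) (nat_lit 12706419512) (nat_lit 152) (nat_lit 9088155930) (nat_lit 0) (nat_lit 9957142323) (nat_lit 14) (nat_lit 5) (nat_lit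 16) (nat_lit 4) (nat_lit 14) (nat_lit 4) (nat_lit 414) (nat_lit 250) (nat_lit 236)))) (XT.nd (nat_lit 78) (nat_lit 0) (nat_lit 0) (XT.lf (nat_lit 0) (nat_lit 124491976) (nat_lit 76) (nat_lit 17668176400) (nat_lit 76) (nat_lit 14762680640) (nat_lit 13) (nat_lit 4) (nat_lit 14) (nat_lit 5) (nat_lit 14) (nat_lit 4) (nat_lit 415) (nat_lit 250) (nat_lit 235)) (XT.nd (nat_lit 78) (nat_lit 0) (nat_lit 0) (XT.lf (nat_lit 0) (nat_lit 9640439195) (nat_lit 76) (nat_lit 13399780271) (nat_lit 76) (nat_lit 10342615994) (nat_lit 13) (nat_lit 4) (nat_lit 14) (nat_lit 5) (nat_lit 14) (nat_lit 4) (nat_lit 416) (nat_lit 250) (nat_lit 234)) (XT.lf (nat_lit 0) (nat_lit 19287128508) (nat_lit 76) (nat_lit 9077429942) (nat_lit 76) (nat_lit 5873014679) (nat_lit 13) (nat_lit 4) (nat_lit 14) (nat_lit 5) (nat_lit 14) (nat_lit 4) (nat_lit 417) (nat_lit 250) (nat_lit 233))))) (XT.nd (nat_lit 234) (nat_lit 76) (nat_lit 0) (XT.nd (nat_lit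 78) (nat_lit 152) (nat_lit 0) (XT.lf (nat_lit 0) (nat_lit 29072989062) (nat_lit 76) (nat_lit 4697348603) (nat_lit 76) (nat_lit 1349971217) (nat_lit 13) (nat_lit 4) (nat_lit 14) (nat_lit 5) (nat_lit 14) (nat_lit 4) (nat_lit 418) (nat_lit 250) (nat_lit 232)) (XT.nd (nat_lit 78) (nat_lit 0) (nat_lit 0) (XT.lf (nat_lit 0) (nat_lit 3002289834) (nat_lit 76) (nat_lit 193998539) (nat_lit 152) (nat_lit 32833728277) (nat_lit 11) (nat_lit 5) (nat_lit 12) (nat_lit 5) (nat_lit 13) (nat_lit 4) (nat_lit 419) (nat_lit 250) (nat_lit 231)) (XT.lf (nat_lit 0) (nat_lit 7879587159) (nat_lit 152) (nat_lit 24722080519) (nat_lit 0) (nat_lit 4364120095) (nat_lit 11) (nat_lit 5) (nat_lit 13) (nat_lit 4) (nat_lit 11) (nat_lit 4) (nat_lit 420) (nat_lit 250) (nat_lit 230)))) (XT.nd (nat_lit 156) (nat_lit 76) (nat_lit 0) (XT.nd (nat_lit 78) (nat_lit 0) (nat_lit 0) (XT.lf (nat_lit 0) (nat_lit 12630928029) (nat_lit 152) (nat_lit 16312443182)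 (nat_lit 0) (nat_lit 8988440971) (nat_lit 11) (nat_lit 5) (nat_lit 13) (nat_lit 4) (nat_lit 11) (nat_lit 4) (nat_lit 421) (nat_lit 250) (nat_lit 229)) (XT.lf (nat_lit 0) (nat_lit 17452597808) (nat_lit 152) (nat_lit 7789601747) (nat_lit 0) (nat_lit 13686790367) (nat_lit 11) (nat_lit 5) (nat_lit 13) (nat_lit 4) (nat_lit 11) (nat_lit 4) (nat_lit 422) (nat_lit 250) (nat_lit 228))) (XT.nd (nat_lit 78) (nat_lit 0) (nat_lit 0) (XT.lf (nat_lit 0) (nat_lit 870885033) (nat_lit 76) (nat_lit 21486296052) (nat_lit 76) (nat_lit 17600760084) (nat_lit 10) (nat_lit 4) (nat_lit 11) (nat_lit 5) (nat_lit 11) (nat_lit 4) (nat_lit 423) (nat_lit 250) (nat_lit 227)) (XT.lf (nat_lit 0) (nat_lit 9817155478) (nat_lit 76) (nat_lit 17601054691) (nat_lit 76) (nat_lit 13599277434) (nat_lit 10) (nat_lit 4) (nat_lit 11) (nat_lit 5) (nat_lit 11) (nat_lit 4) (nat_lit 424) (nat_lit 250) (nat_lit 226)))))) (XT.nd (nat_lit 468) (nat_lit 76)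 (nat_lit 0) (XT.nd (nat_lit 234) (nat_lit 152) (nat_lit 0) (XT.nd (nat_lit 78) (nat_lit 0) (nat_lit 0) (XT.lf (nat_lit 0) (nat_lit 18901998367) (nat_lit 76) (nat_lit 13661740305) (nat_lit 76) (nat_lit 9547107428) (nat_lit 10) (nat_lit 4) (nat_lit 11) (nat_lit 5) (nat_lit 11) (nat_lit 4) (nat_lit 425) (nat_lit 250) (nat_lit 225)) (XT.nd (nat_lit 78) (nat_lit 0) (nat_lit 0) (XT.lf (nat_lit 0) (nat_lit 28133351913) (nat_lit 76) (nat_lit 9664910775) (nat_lit 76) (nat_lit 5440709335) (nat_lit 10) (nat_lit 4) (nat_lit 11) (nat_lit 5) (nat_lit 11) (nat_lit 4) (nat_lit 426) (nat_lit 250) (nat_lit 224)) (XT.lf (nat_lit 0) (nat_lit 37519282348) (nat_lit 76) (nat_lit 5607073726) (nat_lit 76) (nat_lit 1276495040) (nat_lit 10) (nat_lit 4) (nat_lit 11) (nat_lit 5) (nat_lit 11) (nat_lit 4) (nat_lit 427) (nat_lit 250) (nat_lit 223)))) (XT.nd (nat_lit 78) (nat_lit 0) (nat_lit 0) (XT.lf (nat_lit 0) (nat_lit 1464723378) (nat_lit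 76) (nat_lit 1440981519) (nat_lit 152) (nat_lit 42696522583) (nat_lit 8) (nat_lit 5) (nat_lit 9) (nat_lit 5) (nat_lit 10) (nat_lit 4) (nat_lit 428) (nat_lit 250) (nat_lit 222)) (XT.nd (nat_lit 78) (nat_lit 0) (nat_lit 0) (XT.lf (nat_lit 0) (nat_lit 7223196287) (nat_lit 152) (nat_lit 36791820227) (nat_lit 0) (nat_lit 2821129955) (nat_lit 8) (nat_lit 5) (nat_lit 10) (nat_lit 4) (nat_lit 8) (nat_lit 4) (nat_lit 429) (nat_lit 250) (nat_lit 221)) (XT.lf (nat_lit 0) (nat_lit 11624174829) (nat_lit 152) (nat_lit 29356700430) (nat_lit 0) (nat_lit 7127593693) (nat_lit 8) (nat_lit 5) (nat_lit 10) (nat_lit 4) (nat_lit 8) (nat_lit 4) (nat_lit 430) (nat_lit 250) (nat_lit 220))))) (XT.nd (nat_lit 234) (nat_lit 76) (nat_lit 0) (XT.nd (nat_lit 78) (nat_lit 0) (nat_lit 0) (XT.lf (nat_lit 0) (nat_lit 16098634444) (nat_lit 152) (nat_lit 21811796409) (nat_lit 0) (nat_lit 11510291362) (nat_lit 8) (nat_lit 5) (nat_lit 10) (nat_lit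 4) (nat_lit 8) (nat_lit 4) (nat_lit 431) (nat_lit 250) (nat_lit 219)) (XT.nd (nat_lit 78) (nat_lit 0) (nat_lit 0) (XT.lf (nat_lit 0) (nat_lit 20650484854) (nat_lit 152) (nat_lit 14150515530) (nat_lit 0) (nat_lit 15973052503) (nat_lit 8) (nat_lit 5) (nat_lit 10) (nat_lit 4) (nat_lit 8) (nat_lit 4) (nat_lit 432) (nat_lit 250) (nat_lit 218)) (XT.lf (nat_lit 0) (nat_lit 25283703404) (nat_lit 152) (nat_lit 6366163468) (nat_lit 0) (nat_lit 20519776617) (nat_lit 8) (nat_lit 5) (nat_lit 10) (nat_lit 4) (nat_lit 8) (nat_lit 4) (nat_lit 433) (nat_lit 250) (nat_lit 217)))) (XT.nd (nat_lit 156) (nat_lit 0) (nat_lit 0) (XT.nd (nat_lit 78) (nat_lit 0) (nat_lit 0) (XT.lf (nat_lit 0) (nat_lit 1578871096) (nat_lit 76) (nat_lit 28438644515) (nat_lit 76) (nat_lit 23590742548) (nat_lit 7) (nat_lit 4) (nat_lit 8) (nat_lit 5) (nat_lit 8) (nat_lit 4) (nat_lit 434) (nat_lit 250) (nat_lit 216)) (XT.lf (nat_lit 0) (nat_lit 9790115540)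 (nat_lit 76) (nat_lit 25114506371) (nat_lit 76) (nat_lit 20185075104) (nat_lit 7) (nat_lit 4) (nat_lit 8) (nat_lit 5) (nat_lit 8) (nat_lit 4) (nat_lit 435) (nat_lit 250) (nat_lit 215))) (XT.nd (nat_lit 78) (nat_lit 0) (nat_lit 0) (XT.lf (nat_lit 0) (nat_lit 18148045599) (nat_lit 76) (nat_lit 21738833624) (nat_lit 76) (nat_lit 16730247695) (nat_lit 7) (nat_lit 4) (nat_lit 8) (nat_lit 5) (nat_lit 8) (nat_lit 4) (nat_lit 436) (nat_lit 250) (nat_lit 214)) (XT.lf (nat_lit 0) (nat_lit 26659964320) (nat_lit 76) (nat_lit 18308676656) (nat_lit 76) (nat_lit 13223241541) (nat_lit 7) (nat_lit 4) (nat_lit 8) (nat_lit 5) (nat_lit 8) (nat_lit 4) (nat_lit 437) (nat_lit 250) (nat_lit 213))))))) (XT.nd (nat_lit 43758) (nat_lit 0) (nat_lit 836) (XT.nd (nat_lit 468) (nat_lit 0) (nat_lit 0) (XT.nd (nat_lit 234) (nat_lit 152) (nat_lit 0) (XT.nd (nat_lit 78) (nat_lit 0) (nat_lit 0) (XT.lf (nat_lit 0) (nat_lit 35333309302) (nat_lit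 76) (nat_lit 14821038243) (nat_lit 76) (nat_lit 9660992268) (nat_lit 7) (nat_lit 4) (nat_lit 8) (nat_lit 5) (nat_lit 8) (nat_lit 4) (nat_lit 438) (nat_lit 250) (nat_lit 212)) (XT.nd (nat_lit 78) (nat_lit 0) (nat_lit 0) (XT.lf (nat_lit 0) (nat_lit 44175659194) (nat_lit 76) (nat_lit 11272870933) (nat_lit 76) (nat_lit 6040387230) (nat_lit 7) (nat_lit 4) (nat_lit 8) (nat_lit 5) (nat_lit 8) (nat_lit 4) (nat_lit 439) (nat_lit 250) (nat_lit 211)) (XT.lf (nat_lit 0) (nat_lit 53194740323) (nat_lit 76) (nat_lit 7661074386) (nat_lit 76) (nat_lit 2358262793) (nat_lit 7) (nat_lit 4) (nat_lit 8) (nat_lit 5) (nat_lit 8) (nat_lit 4) (nat_lit 440) (nat_lit 250) (nat_lit 210)))) (XT.nd (nat_lit 78) (nat_lit 76) (nat_lit 0) (XT.lf (nat_lit 0) (nat_lit 1361501877) (nat_lit 152) (nat_lit 2607242287) (nat_lit 76) (nat_lit 61023183062) (nat_lit 6) (nat_lit 5) (nat_lit 8) (nat_lit 5) (nat_lit 7) (nat_lit 4) (nat_lit 441) (nat_lit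 250) (nat_lit 209)) (XT.nd (nat_lit 78) (nat_lit 0) (nat_lit 0) (XT.lf (nat_lit 0) (nat_lit 5017448488) (nat_lit 76) (nat_lit 132714255) (nat_lit 152) (nat_lit 61672111432) (nat_lit 5) (nat_lit 5) (nat_lit 6) (nat_lit 5) (nat_lit 7) (nat_lit 4) (nat_lit 442) (nat_lit 250) (nat_lit 208)) (XT.lf (nat_lit 0) (nat_lit 9072324610) (nat_lit 152) (nat_lit 55903787206) (nat_lit 0) (nat_lit 3730827653) (nat_lit 5) (nat_lit 5) (nat_lit 7) (nat_lit 4) (nat_lit 5) (nat_lit 4) (nat_lit 443) (nat_lit 250) (nat_lit 207))))) (XT.nd (nat_lit 234) (nat_lit 0) (nat_lit 0) (XT.nd (nat_lit 78) (nat_lit 0) (nat_lit 0) (XT.lf (nat_lit 0) (nat_lit 13071278637) (nat_lit 152) (nat_lit 49908979119) (nat_lit 0) (nat_lit 7669116224) (nat_lit 5) (nat_lit 5) (nat_lit 7) (nat_lit 4) (nat_lit 5) (nat_lit 4) (nat_lit 444) (nat_lit 250) (nat_lit 206)) (XT.nd (nat_lit 78) (nat_lit 0) (nat_lit 0) (XT.lf (nat_lit 0) (nat_lit 17149243327) (nat_lit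 152) (nat_lit 43813887515) (nat_lit 0) (nat_lit 11688182412) (nat_lit 5) (nat_lit 5) (nat_lit 7) (nat_lit 4) (nat_lit 5) (nat_lit 4) (nat_lit 445) (nat_lit 250) (nat_lit 205)) (XT.lf (nat_lit 0) (nat_lit 21309781950) (nat_lit 152) (nat_lit 37613186586) (nat_lit 0) (nat_lit 15791538023) (nat_lit 5) (nat_lit 5) (nat_lit 7) (nat_lit 4) (nat_lit 5) (nat_lit 4) (nat_lit 446) (nat_lit 250) (nat_lit 204)))) (XT.nd (nat_lit 156) (nat_lit 0) (nat_lit 0) (XT.nd (nat_lit 78) (nat_lit 0) (nat_lit 0) (XT.lf (nat_lit 0) (nat_lit 25556529927) (nat_lit 152) (nat_lit 31301458244) (nat_lit 0) (nat_lit 19982768513) (nat_lit 5) (nat_lit 5) (nat_lit 7) (nat_lit 4) (nat_lit 5) (nat_lit 4) (nat_lit 447) (nat_lit 250) (nat_lit 203)) (XT.lf (nat_lit 0) (nat_lit 29893198009) (nat_lit 152) (nat_lit 24873187387) (nat_lit 0) (nat_lit 24265536123) (nat_lit 5) (nat_lit 5) (nat_lit 7) (nat_lit 4) (nat_lit 5) (nat_lit 4) (nat_lit 448)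 (nat_lit 250) (nat_lit 202))) (XT.nd (nat_lit 78) (nat_lit 0) (nat_lit 0) (XT.lf (nat_lit 0) (nat_lit 34323575519) (nat_lit 152) (nat_lit 18322757078) (nat_lit 0) (nat_lit 28643583077) (nat_lit 5) (nat_lit 5) (nat_lit 7) (nat_lit 4) (nat_lit 5) (nat_lit 4) (nat_lit 449) (nat_lit 250) (nat_lit 201)) (XT.lf (nat_lit 0) (nat_lit 38851533659) (nat_lit 152) (nat_lit 11644443641) (nat_lit 0) (nat_lit 33120734852) (nat_lit 5) (nat_lit 5) (nat_lit 7) (nat_lit 4) (nat_lit 5) (nat_lit 4) (nat_lit 450) (nat_lit 250) (nat_lit 200)))))) (XT.nd (nat_lit 546) (nat_lit 228) (nat_lit 0) (XT.nd (nat_lit 234) (nat_lit 228) (nat_lit 0) (XT.nd (nat_lit 78) (nat_lit 76) (nat_lit 0) (XT.lf (nat_lit 0) (nat_lit 3078195528) (nat_lit 152) (nat_lit 4749621771) (nat_lit 0) (nat_lit 3078195528) (nat_lit 23) (nat_lit 5) (nat_lit 25) (nat_lit 4) (nat_lit 23) (nat_lit 4) (nat_lit 398) (nat_lit 251) (nat_lit 251)) (XT.nd (nat_lit 78) (nat_lit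 0) (nat_lit 0) (XT.lf (nat_lit 0) (nat_lit 715833064) (nat_lit 76) (nat_lit 10924318439) (nat_lit 76) (nat_lit 10658366778) (nat_lit 22) (nat_lit 4) (nat_lit 23) (nat_lit 5) (nat_lit 23) (nat_lit 4) (nat_lit 399) (nat_lit 251) (nat_lit 250)) (XT.lf (nat_lit 0) (nat_lit 11225439505) (nat_lit 76) (nat_lit 6049372413) (nat_lit 76) (nat_lit 5525215256) (nat_lit 22) (nat_lit 4) (nat_lit 23) (nat_lit 5) (nat_lit 23) (nat_lit 4) (nat_lit 400) (nat_lit 251) (nat_lit 249)))) (XT.nd (nat_lit 156) (nat_lit 76) (nat_lit 0) (XT.nd (nat_lit 78) (nat_lit 152) (nat_lit 0) (XT.lf (nat_lit 0) (nat_lit 21849705358) (nat_lit 76) (nat_lit 1122460595) (nat_lit 76) (nat_lit 347618490) (nat_lit 22) (nat_lit 4) (nat_lit 23) (nat_lit 5) (nat_lit 23) (nat_lit 4) (nat_lit 401) (nat_lit 251) (nat_lit 248)) (XT.lf (nat_lit 0) (nat_lit 4907384798) (nat_lit 152) (nat_lit 15026926867) (nat_lit 0) (nat_lit 3918816303) (nat_lit 20) (nat_lit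 5) (nat_lit 22) (nat_lit 4) (nat_lit 20) (nat_lit 4) (nat_lit 402) (nat_lit 251) (nat_lit 247))) (XT.nd (nat_lit 78) (nat_lit 76) (nat_lit 0) (XT.lf (nat_lit 0) (nat_lit 10235154465) (nat_lit 152) (nat_lit 5152388902) (nat_lit 0) (nat_lit 9017173732) (nat_lit 20) (nat_lit 5) (nat_lit 22) (nat_lit 4) (nat_lit 20) (nat_lit 4) (nat_lit 403) (nat_lit 251) (nat_lit 246)) (XT.lf (nat_lit 0) (nat_lit 4923028793) (nat_lit 76) (nat_lit 10746078487) (nat_lit 76) (nat_lit 9305367425) (nat_lit 19) (nat_lit 4) (nat_lit 20) (nat_lit 5) (nat_lit 20) (nat_lit 4) (nat_lit 404) (nat_lit 251) (nat_lit 245))))) (XT.nd (nat_lit 234) (nat_lit 76) (nat_lit 0) (XT.nd (nat_lit 78) (nat_lit 152) (nat_lit 0) (XT.lf (nat_lit 0) (nat_lit 15216782200) (nat_lit 76) (nat_lit 6001471334) (nat_lit 76) (nat_lit 4344517234) (nat_lit 19) (nat_lit 4) (nat_lit 20) (nat_lit 5) (nat_lit 20) (nat_lit 4) (nat_lit 405) (nat_lit 251) (nat_lit 244))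 (XT.nd (nat_lit 78) (nat_lit 76) (nat_lit 0) (XT.lf (nat_lit 0) (nat_lit 652311361) (nat_lit 152) (nat_lit 542706734) (nat_lit 76) (nat_lit 24976424790) (nat_lit 18) (nat_lit 5) (nat_lit 20) (nat_lit 5) (nat_lit 19) (nat_lit 4) (nat_lit 406) (nat_lit 251) (nat_lit 243)) (XT.lf (nat_lit 0) (nat_lit 5744752572) (nat_lit 152) (nat_lit 17317014885) (nat_lit 0) (nat_lit 3734336454) (nat_lit 17) (nat_lit 5) (nat_lit 19) (nat_lit 4) (nat_lit 17) (nat_lit 4) (nat_lit 407) (nat_lit 251) (nat_lit 242)))) (XT.nd (nat_lit 156) (nat_lit 0) (nat_lit 0) (XT.nd (nat_lit 78) (nat_lit 76) (nat_lit 0) (XT.lf (nat_lit 0) (nat_lit 10912504408) (nat_lit 152) (nat_lit 7819374834) (nat_lit 0) (nat_lit 8709959152) (nat_lit 17) (nat_lit 5) (nat_lit 19) (nat_lit 4) (nat_lit 17) (nat_lit 4) (nat_lit 408) (nat_lit 251) (nat_lit 241)) (XT.lf (nat_lit 0) (nat_lit 1823226532) (nat_lit 76) (nat_lit 14337521240) (nat_lit 76) (nat_lit 11948442840)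 (nat_lit 16) (nat_lit 4) (nat_lit 17) (nat_lit 5) (nat_lit 17) (nat_lit 4) (nat_lit 409) (nat_lit 251) (nat_lit 240))) (XT.nd (nat_lit 78) (nat_lit 0) (nat_lit 0) (XT.lf (nat_lit 0) (nat_lit 11741570891) (nat_lit 76) (nat_lit 9812771557) (nat_lit 76) (nat_lit 7242593017) (nat_lit 16) (nat_lit 4) (nat_lit 17) (nat_lit 5) (nat_lit 17) (nat_lit 4) (nat_lit 410) (nat_lit 251) (nat_lit 239)) (XT.lf (nat_lit 0) (nat_lit 21788703868) (nat_lit 76) (nat_lit 5232636883) (nat_lit 76) (nat_lit 2486632964) (nat_lit 16) (nat_lit 4) (nat_lit 17) (nat_lit 5) (nat_lit 17) (nat_lit 4) (nat_lit 411) (nat_lit 251) (nat_lit 238))))))))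
noncomputable def xc13 : XT := (XT.nd (nat_lit 2028) (nat_lit 152) (nat_lit 0) (XT.nd (nat_lit 1014) (nat_lit 228) (nat_lit 0) (XT.nd (nat_lit 468) (nat_lit 228) (nat_lit 0) (XT.nd (nat_lit 234) (nat_lit 76) (nat_lit 0) (XT.nd (nat_lit 78) (nat_lit 0) (nat_lit 0) (XT.lf (nat_lit 0) (nat_lit 1742137430) (nat_lit 76) (nat_lit 552860401) (nat_lit 152) (nat_lit 27946756354) (nat_lit 14) (nat_lit 5) (nat_lit 15) (nat_lit 5) (nat_lit 16) (nat_lit 4) (nat_lit 412) (nat_lit 251) (nat_lit 237)) (XT.nd (nat_lit 78) (nat_lit 0) (nat_lit 0) (XT.lf (nat_lit 0) (nat_lit 7203349276) (nat_lit 152) (nat_lit 19581782197) (nat_lit 0) (nat_lit 4210688643) (nat_lit 14) (nat_lit 5) (nat_lit 16) (nat_lit 4) (nat_lit 14) (nat_lit 4) (nat_lit 413) (nat_lit 251) (nat_lit 236)) (XT.lf (nat_lit 0) (nat_lit 12180453602) (nat_lit 152) (nat_lit 10562842882) (nat_lit 0) (nat_lit 9031574397) (nat_lit 14) (nat_lit 5) (nat_lit 16) (nat_lit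 4) (nat_lit 14) (nat_lit 4) (nat_lit 414) (nat_lit 251) (nat_lit 235)))) (XT.nd (nat_lit 78) (nat_lit 76) (nat_lit 0) (XT.lf (nat_lit 0) (nat_lit 17225345304) (nat_lit 152) (nat_lit 1429603753) (nat_lit 0) (nat_lit 13924797583) (nat_lit 14) (nat_lit 5) (nat_lit 16) (nat_lit 4) (nat_lit 14) (nat_lit 4) (nat_lit 415) (nat_lit 251) (nat_lit 234)) (XT.nd (nat_lit 78) (nat_lit 0) (nat_lit 0) (XT.lf (nat_lit 0) (nat_lit 7981666758) (nat_lit 76) (nat_lit 14437490445) (nat_lit 76) (nat_lit 10989691738) (nat_lit 13) (nat_lit 4) (nat_lit 14) (nat_lit 5) (nat_lit 14) (nat_lit 4) (nat_lit 416) (nat_lit 251) (nat_lit 233)) (XT.lf (nat_lit 0) (nat_lit 17554351422) (nat_lit 76) (nat_lit 10150578294) (nat_lit 76) (nat_lit 6559817463) (nat_lit 13) (nat_lit 4) (nat_lit 14) (nat_lit 5) (nat_lit 14) (nat_lit 4) (nat_lit 417) (nat_lit 251) (nat_lit 232))))) (XT.nd (nat_lit 234) (nat_lit 76) (nat_lit 0) (XT.nd (nat_lit 78) (nat_lit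 152) (nat_lit 0) (XT.lf (nat_lit 0) (nat_lit 27268362801) (nat_lit 76) (nat_lit 5804902952) (nat_lit 76) (nat_lit 2075343944) (nat_lit 13) (nat_lit 4) (nat_lit 14) (nat_lit 5) (nat_lit 14) (nat_lit 4) (nat_lit 418) (nat_lit 251) (nat_lit 231)) (XT.nd (nat_lit 78) (nat_lit 0) (nat_lit 0) (XT.lf (nat_lit 0) (nat_lit 1068102046) (nat_lit 76) (nat_lit 1361659808) (nat_lit 152) (nat_lit 33630427315) (nat_lit 11) (nat_lit 5) (nat_lit 12) (nat_lit 5) (nat_lit 13) (nat_lit 4) (nat_lit 419) (nat_lit 251) (nat_lit 230)) (XT.lf (nat_lit 0) (nat_lit 7065197127) (nat_lit 152) (nat_lit 26745786785) (nat_lit 0) (nat_lit 3186415462) (nat_lit 11) (nat_lit 5) (nat_lit 13) (nat_lit 4) (nat_lit 11) (nat_lit 4) (nat_lit 420) (nat_lit 251) (nat_lit 229)))) (XT.nd (nat_lit 156) (nat_lit 76) (nat_lit 0) (XT.nd (nat_lit 78) (nat_lit 0) (nat_lit 0) (XT.lf (nat_lit 0) (nat_lit 11780965920) (nat_lit 152) (nat_lit 18404664237) (nat_lit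 0) (nat_lit 7778863872) (nat_lit 11) (nat_lit 5) (nat_lit 13) (nat_lit 4) (nat_lit 11) (nat_lit 4) (nat_lit 421) (nat_lit 251) (nat_lit 228)) (XT.lf (nat_lit 0) (nat_lit 16568099701) (nat_lit 152) (nat_lit 9948342014) (nat_lit 0) (nat_lit 12446269127) (nat_lit 11) (nat_lit 5) (nat_lit 13) (nat_lit 4) (nat_lit 11) (nat_lit 4) (nat_lit 422) (nat_lit 251) (nat_lit 227))) (XT.nd (nat_lit 78) (nat_lit 76) (nat_lit 0) (XT.lf (nat_lit 0) (nat_lit 21430781404) (nat_lit 152) (nat_lit 1369431097) (nat_lit 0) (nat_lit 17192709541) (nat_lit 11) (nat_lit 5) (nat_lit 13) (nat_lit 4) (nat_lit 11) (nat_lit 4) (nat_lit 423) (nat_lit 251) (nat_lit 226)) (XT.lf (nat_lit 0) (nat_lit 7485636378) (nat_lit 76) (nat_lit 18959580111) (nat_lit 76) (nat_lit 14608652628) (nat_lit 10) (nat_lit 4) (nat_lit 11) (nat_lit 5) (nat_lit 11) (nat_lit 4) (nat_lit 424) (nat_lit 251) (nat_lit 225)))))) (XT.nd (nat_lit 468) (nat_lit 76) (nat_lit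 0) (XT.nd (nat_lit 234) (nat_lit 152) (nat_lit 0) (XT.nd (nat_lit 78) (nat_lit 0) (nat_lit 0) (XT.lf (nat_lit 0) (nat_lit 16508393242) (nat_lit 76) (nat_lit 15050149611) (nat_lit 76) (nat_lit 10589653565) (nat_lit 10) (nat_lit 4) (nat_lit 11) (nat_lit 5) (nat_lit 11) (nat_lit 4) (nat_lit 425) (nat_lit 251) (nat_lit 224)) (XT.nd (nat_lit 78) (nat_lit 0) (nat_lit 0) (XT.lf (nat_lit 0) (nat_lit 25679469095) (nat_lit 76) (nat_lit 11082333562) (nat_lit 76) (nat_lit 6515460270) (nat_lit 10) (nat_lit 4) (nat_lit 11) (nat_lit 5) (nat_lit 11) (nat_lit 4) (nat_lit 426) (nat_lit 251) (nat_lit 223)) (XT.lf (nat_lit 0) (nat_lit 35006877497) (nat_lit 76) (nat_lit 7052664941) (nat_lit 76) (nat_lit 2382512770) (nat_lit 10) (nat_lit 4) (nat_lit 11) (nat_lit 5) (nat_lit 11) (nat_lit 4) (nat_lit 427) (nat_lit 251) (nat_lit 222)))) (XT.nd (nat_lit 78) (nat_lit 76) (nat_lit 0) (XT.lf (nat_lit 0) (nat_lit 1777425987) (nat_lit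 152) (nat_lit 1162248173) (nat_lit 76) (nat_lit 42703394107) (nat_lit 9) (nat_lit 5) (nat_lit 11) (nat_lit 5) (nat_lit 10) (nat_lit 4) (nat_lit 428) (nat_lit 251) (nat_lit 221)) (XT.nd (nat_lit 78) (nat_lit 0) (nat_lit 0) (XT.lf (nat_lit 0) (nat_lit 6039296853) (nat_lit 152) (nat_lit 39526057904) (nat_lit 0) (nat_lit 1313303477) (nat_lit 8) (nat_lit 5) (nat_lit 10) (nat_lit 4) (nat_lit 8) (nat_lit 4) (nat_lit 429) (nat_lit 251) (nat_lit 220)) (XT.lf (nat_lit 0) (nat_lit 10411433876) (nat_lit 152) (nat_lit 32146735826) (nat_lit 0) (nat_lit 5593678554) (nat_lit 8) (nat_lit 5) (nat_lit 10) (nat_lit 4) (nat_lit 8) (nat_lit 4) (nat_lit 430) (nat_lit 251) (nat_lit 219))))) (XT.nd (nat_lit 234) (nat_lit 76) (nat_lit 0) (XT.nd (nat_lit 78) (nat_lit 0) (nat_lit 0) (XT.lf (nat_lit 0) (nat_lit 14857892017) (nat_lit 152) (nat_lit 24656004348) (nat_lit 0) (nat_lit 9951047426) (nat_lit 8) (nat_lit 5) (nat_lit 10) (nat_lit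 4) (nat_lit 8) (nat_lit 4) (nat_lit 431) (nat_lit 251) (nat_lit 218)) (XT.nd (nat_lit 78) (nat_lit 0) (nat_lit 0) (XT.lf (nat_lit 0) (nat_lit 19382556529) (nat_lit 152) (nat_lit 17047318170) (nat_lit 0) (nat_lit 14389217503) (nat_lit 8) (nat_lit 5) (nat_lit 10) (nat_lit 4) (nat_lit 8) (nat_lit 4) (nat_lit 432) (nat_lit 251) (nat_lit 217)) (XT.lf (nat_lit 0) (nat_lit 23989381003) (nat_lit 152) (nat_lit 9314028926) (nat_lit 0) (nat_lit 18912066797) (nat_lit 8) (nat_lit 5) (nat_lit 10) (nat_lit 4) (nat_lit 8) (nat_lit 4) (nat_lit 433) (nat_lit 251) (nat_lit 216)))) (XT.nd (nat_lit 156) (nat_lit 0) (nat_lit 0) (XT.nd (nat_lit 78) (nat_lit 76) (nat_lit 0) (XT.lf (nat_lit 0) (nat_lit 28682390820) (nat_lit 152) (nat_lit 1449379373) (nat_lit 0) (nat_lit 23523547313) (nat_lit 8) (nat_lit 5) (nat_lit 10) (nat_lit 4) (nat_lit 8) (nat_lit 4) (nat_lit 434) (nat_lit 251) (nat_lit 215)) (XT.lf (nat_lit 0) (nat_lit 6683930062)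 (nat_lit 76) (nat_lit 26846006630) (nat_lit 76) (nat_lit 21608008462) (nat_lit 7) (nat_lit 4) (nat_lit 8) (nat_lit 5) (nat_lit 8) (nat_lit 4) (nat_lit 435) (nat_lit 251) (nat_lit 214))) (XT.nd (nat_lit 78) (nat_lit 0) (nat_lit 0) (XT.lf (nat_lit 0) (nat_lit 14994200397) (nat_lit 76) (nat_lit 23493381154) (nat_lit 76) (nat_lit 18178533800) (nat_lit 7) (nat_lit 4) (nat_lit 8) (nat_lit 5) (nat_lit 8) (nat_lit 4) (nat_lit 436) (nat_lit 251) (nat_lit 213)) (XT.lf (nat_lit 0) (nat_lit 23459847541) (nat_lit 76) (nat_lit 20085600178) (nat_lit 76) (nat_lit 14696141964) (nat_lit 7) (nat_lit 4) (nat_lit 8) (nat_lit 5) (nat_lit 8) (nat_lit 4) (nat_lit 437) (nat_lit 251) (nat_lit 212))))))) (XT.nd (nat_lit 43602) (nat_lit 0) (nat_lit 836) (XT.nd (nat_lit 468) (nat_lit 0) (nat_lit 0) (XT.nd (nat_lit 234) (nat_lit 152) (nat_lit 0) (XT.nd (nat_lit 78) (nat_lit 0) (nat_lit 0) (XT.lf (nat_lit 0) (nat_lit 32088268661) (nat_lit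 76) (nat_lit 16619686029) (nat_lit 76) (nat_lit 11157790087) (nat_lit 7) (nat_lit 4) (nat_lit 8) (nat_lit 5) (nat_lit 8) (nat_lit 4) (nat_lit 438) (nat_lit 251) (nat_lit 211)) (XT.nd (nat_lit 78) (nat_lit 0) (nat_lit 0) (XT.lf (nat_lit 0) (nat_lit 40887003155) (nat_lit 76) (nat_lit 13092610237) (nat_lit 76) (nat_lit 7560386405) (nat_lit 7) (nat_lit 4) (nat_lit 8) (nat_lit 5) (nat_lit 8) (nat_lit 4) (nat_lit 439) (nat_lit 251) (nat_lit 210)) (XT.lf (nat_lit 0) (nat_lit 49863739236) (nat_lit 76) (nat_lit 9501290893) (nat_lit 76) (nat_lit 3900787555) (nat_lit 7) (nat_lit 4) (nat_lit 8) (nat_lit 5) (nat_lit 8) (nat_lit 4) (nat_lit 440) (nat_lit 251) (nat_lit 209)))) (XT.nd (nat_lit 78) (nat_lit 152) (nat_lit 0) (XT.lf (nat_lit 0) (nat_lit 59026320656) (nat_lit 76) (nat_lit 5842589950) (nat_lit 76) (nat_lit 175795829) (nat_lit 7) (nat_lit 4) (nat_lit 8) (nat_lit 5) (nat_lit 8) (nat_lit 4) (nat_lit 441) (nat_lit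 251) (nat_lit 208)) (XT.nd (nat_lit 78) (nat_lit 0) (nat_lit 0) (XT.lf (nat_lit 0) (nat_lit 1499007236) (nat_lit 76) (nat_lit 2062648596) (nat_lit 152) (nat_lit 63315088998) (nat_lit 5) (nat_lit 5) (nat_lit 6) (nat_lit 5) (nat_lit 7) (nat_lit 4) (nat_lit 442) (nat_lit 251) (nat_lit 207)) (XT.lf (nat_lit 0) (nat_lit 7444484365) (nat_lit 152) (nat_lit 59498515652) (nat_lit 0) (nat_lit 1819591622) (nat_lit 5) (nat_lit 5) (nat_lit 7) (nat_lit 4) (nat_lit 5) (nat_lit 4) (nat_lit 443) (nat_lit 251) (nat_lit 206))))) (XT.nd (nat_lit 234) (nat_lit 0) (nat_lit 0) (XT.nd (nat_lit 78) (nat_lit 0) (nat_lit 0) (XT.lf (nat_lit 0) (nat_lit 11423262058) (nat_lit 152) (nat_lit 53542900041) (nat_lit 0) (nat_lit 5739470814) (nat_lit 5) (nat_lit 5) (nat_lit 7) (nat_lit 4) (nat_lit 5) (nat_lit 4) (nat_lit 444) (nat_lit 251) (nat_lit 205)) (XT.nd (nat_lit 78) (nat_lit 0) (nat_lit 0) (XT.lf (nat_lit 0) (nat_lit 15481638074) (nat_lit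 152) (nat_lit 47485859385) (nat_lit 0) (nat_lit 9740663818) (nat_lit 5) (nat_lit 5) (nat_lit 7) (nat_lit 4) (nat_lit 5) (nat_lit 4) (nat_lit 445) (nat_lit 251) (nat_lit 204)) (XT.lf (nat_lit 0) (nat_lit 19623158567) (nat_lit 152) (nat_lit 41322101123) (nat_lit 0) (nat_lit 13826666824) (nat_lit 5) (nat_lit 5) (nat_lit 7) (nat_lit 4) (nat_lit 5) (nat_lit 4) (nat_lit 446) (nat_lit 251) (nat_lit 203)))) (XT.nd (nat_lit 156) (nat_lit 0) (nat_lit 0) (XT.nd (nat_lit 78) (nat_lit 0) (nat_lit 0) (XT.lf (nat_lit 0) (nat_lit 23851442340) (nat_lit 152) (nat_lit 35046239449) (nat_lit 0) (nat_lit 18001050125) (nat_lit 5) (nat_lit 5) (nat_lit 7) (nat_lit 4) (nat_lit 5) (nat_lit 4) (nat_lit 447) (nat_lit 251) (nat_lit 202)) (XT.lf (nat_lit 0) (nat_lit 28170184011) (nat_lit 152) (nat_lit 28652790599) (nat_lit 0) (nat_lit 22267461240) (nat_lit 5) (nat_lit 5) (nat_lit 7) (nat_lit 4) (nat_lit 5) (nat_lit 4) (nat_lit 448) (nat_lit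 251) (nat_lit 201))) (XT.nd (nat_lit 78) (nat_lit 0) (nat_lit 0) (XT.lf (nat_lit 0) (nat_lit 32583157237) (nat_lit 152) (nat_lit 22136168064) (nat_lit 0) (nat_lit 26629628101) (nat_lit 5) (nat_lit 5) (nat_lit 7) (nat_lit 4) (nat_lit 5) (nat_lit 4) (nat_lit 449) (nat_lit 251) (nat_lit 200)) (XT.lf (nat_lit 0) (nat_lit 37094218015) (nat_lit 152) (nat_lit 15490677708) (nat_lit 0) (nat_lit 31091362311) (nat_lit 5) (nat_lit 5) (nat_lit 7) (nat_lit 4) (nat_lit 5) (nat_lit 4) (nat_lit 450) (nat_lit 251) (nat_lit 199)))))) (XT.nd (nat_lit 546) (nat_lit 304) (nat_lit 0) (XT.nd (nat_lit 234) (nat_lit 228) (nat_lit 0) (XT.nd (nat_lit 78) (nat_lit 152) (nat_lit 0) (XT.lf (nat_lit 0) (nat_lit 6168138505) (nat_lit 76) (nat_lit 2136872396) (nat_lit 76) (nat_lit 2136872396) (nat_lit 25) (nat_lit 4) (nat_lit 26) (nat_lit 5) (nat_lit 26) (nat_lit 4) (nat_lit 396) (nat_lit 252) (nat_lit 252)) (XT.nd (nat_lit 78) (nat_lit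 0) (nat_lit 0) (XT.lf (nat_lit 0) (nat_lit 1005412450) (nat_lit 152) (nat_lit 19605847220) (nat_lit 0) (nat_lit 731482239) (nat_lit 23) (nat_lit 5) (nat_lit 25) (nat_lit 4) (nat_lit 23) (nat_lit 4) (nat_lit 397) (nat_lit 252) (nat_lit 251)) (XT.lf (nat_lit 0) (nat_lit 6375751484) (nat_lit 152) (nat_lit 9602048302) (nat_lit 0) (nat_lit 5835869612) (nat_lit 23) (nat_lit 5) (nat_lit 25) (nat_lit 4) (nat_lit 23) (nat_lit 4) (nat_lit 398) (nat_lit 252) (nat_lit 250)))) (XT.nd (nat_lit 156) (nat_lit 152) (nat_lit 0) (XT.nd (nat_lit 78) (nat_lit 0) (nat_lit 0) (XT.lf (nat_lit 0) (nat_lit 509185419) (nat_lit 76) (nat_lit 11295359715) (nat_lit 76) (nat_lit 10497272347) (nat_lit 22) (nat_lit 4) (nat_lit 23) (nat_lit 5) (nat_lit 23) (nat_lit 4) (nat_lit 399) (nat_lit 252) (nat_lit 249)) (XT.lf (nat_lit 0) (nat_lit 10919959948) (nat_lit 76) (nat_lit 6466858314) (nat_lit 76) (nat_lit 5418085998) (nat_lit 22) (nat_lit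 4) (nat_lit 23) (nat_lit 5) (nat_lit 23) (nat_lit 4) (nat_lit 400) (nat_lit 252) (nat_lit 248))) (XT.nd (nat_lit 78) (nat_lit 152) (nat_lit 0) (XT.lf (nat_lit 0) (nat_lit 21448272489) (nat_lit 76) (nat_lit 1585038364) (nat_lit 76) (nat_lit 292882604) (nat_lit 22) (nat_lit 4) (nat_lit 23) (nat_lit 5) (nat_lit 23) (nat_lit 4) (nat_lit 401) (nat_lit 252) (nat_lit 247)) (XT.lf (nat_lit 0) (nat_lit 4901335311) (nat_lit 152) (nat_lit 15542580227) (nat_lit 0) (nat_lit 3417402916) (nat_lit 20) (nat_lit 5) (nat_lit 22) (nat_lit 4) (nat_lit 20) (nat_lit 4) (nat_lit 402) (nat_lit 252) (nat_lit 246))))) (XT.nd (nat_lit 234) (nat_lit 228) (nat_lit 0) (XT.nd (nat_lit 78) (nat_lit 76) (nat_lit 0) (XT.lf (nat_lit 0) (nat_lit 10179364531) (nat_lit 152) (nat_lit 5762339026) (nat_lit 0) (nat_lit 8472701808) (nat_lit 20) (nat_lit 5) (nat_lit 22) (nat_lit 4) (nat_lit 20) (nat_lit 4) (nat_lit 403) (nat_lit 252) (nat_lit 245))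 (XT.nd (nat_lit 78) (nat_lit 0) (nat_lit 0) (XT.lf (nat_lit 0) (nat_lit 4207567180) (nat_lit 76) (nat_lit 11350581017) (nat_lit 76) (nat_lit 9427675255) (nat_lit 19) (nat_lit 4) (nat_lit 20) (nat_lit 5) (nat_lit 20) (nat_lit 4) (nat_lit 404) (nat_lit 252) (nat_lit 244)) (XT.lf (nat_lit 0) (nat_lit 14410667881) (nat_lit 76) (nat_lit 6648870019) (nat_lit 76) (nat_lit 4516019560) (nat_lit 19) (nat_lit 4) (nat_lit 20) (nat_lit 5) (nat_lit 20) (nat_lit 4) (nat_lit 405) (nat_lit 252) (nat_lit 243)))) (XT.nd (nat_lit 156) (nat_lit 76) (nat_lit 0) (XT.nd (nat_lit 78) (nat_lit 76) (nat_lit 0) (XT.lf (nat_lit 0) (nat_lit 437326018) (nat_lit 152) (nat_lit 1448908443) (nat_lit 76) (nat_lit 24299454409) (nat_lit 18) (nat_lit 5) (nat_lit 20) (nat_lit 5) (nat_lit 19) (nat_lit 4) (nat_lit 406) (nat_lit 252) (nat_lit 242)) (XT.lf (nat_lit 0) (nat_lit 5467436744) (nat_lit 152) (nat_lit 18338101877) (nat_lit 0) (nat_lit 3006685992)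 (nat_lit 17) (nat_lit 5) (nat_lit 19) (nat_lit 4) (nat_lit 17) (nat_lit 4) (nat_lit 407) (nat_lit 252) (nat_lit 241))) (XT.nd (nat_lit 78) (nat_lit 76) (nat_lit 0) (XT.lf (nat_lit 0) (nat_lit 10589835381) (nat_lit 152) (nat_lit 8926937493) (nat_lit 0) (nat_lit 7942551484) (nat_lit 17) (nat_lit 5) (nat_lit 19) (nat_lit 4) (nat_lit 17) (nat_lit 4) (nat_lit 408) (nat_lit 252) (nat_lit 240)) (XT.lf (nat_lit 0) (nat_lit 607993339) (nat_lit 76) (nat_lit 15174371607) (nat_lit 76) (nat_lit 12345987570) (nat_lit 16) (nat_lit 4) (nat_lit 17) (nat_lit 5) (nat_lit 17) (nat_lit 4) (nat_lit 409) (nat_lit 252) (nat_lit 239))))))))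
noncomputable def xc14 : XT := (XT.nd (nat_lit 2028) (nat_lit 152) (nat_lit 0) (XT.nd (nat_lit 1014) (nat_lit 304) (nat_lit 0) (XT.nd (nat_lit 468) (nat_lit 228) (nat_lit 0) (XT.nd (nat_lit 234) (nat_lit 0) (nat_lit 0) (XT.nd (nat_lit 78) (nat_lit 152) (nat_lit 0) (XT.lf (nat_lit 0) (nat_lit 10443203850) (nat_lit 76) (nat_lit 10689206899) (nat_lit 76) (nat_lit 7684997484) (nat_lit 16) (nat_lit 4) (nat_lit 17) (nat_lit 5) (nat_lit 17) (nat_lit 4) (nat_lit 410) (nat_lit 252) (nat_lit 238)) (XT.nd (nat_lit 78) (nat_lit 152) (nat_lit 0) (XT.lf (nat_lit 0) (nat_lit 20409624350) (nat_lit 76) (nat_lit 6147504239) (nat_lit 76) (nat_lit 2972590573) (nat_lit 16) (nat_lit 4) (nat_lit 17) (nat_lit 5) (nat_lit 17) (nat_lit 4) (nat_lit 411) (nat_lit 252) (nat_lit 237)) (XT.lf (nat_lit 0) (nat_lit 237430767) (nat_lit 76) (nat_lit 1525168600) (nat_lit 152) (nat_lit 28502722139) (nat_lit 14) (nat_lit 5) (nat_lit 15) (nat_lit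 5) (nat_lit 16) (nat_lit 4) (nat_lit 412) (nat_lit 252) (nat_lit 236)))) (XT.nd (nat_lit 78) (nat_lit 0) (nat_lit 0) (XT.lf (nat_lit 0) (nat_lit 6620239106) (nat_lit 152) (nat_lit 21179998633) (nat_lit 0) (nat_lit 3220674953) (nat_lit 14) (nat_lit 5) (nat_lit 16) (nat_lit 4) (nat_lit 14) (nat_lit 4) (nat_lit 413) (nat_lit 252) (nat_lit 235)) (XT.nd (nat_lit 78) (nat_lit 0) (nat_lit 0) (XT.lf (nat_lit 0) (nat_lit 11557182962) (nat_lit 152) (nat_lit 12238038808) (nat_lit 0) (nat_lit 8005950293) (nat_lit 14) (nat_lit 5) (nat_lit 16) (nat_lit 4) (nat_lit 14) (nat_lit 4) (nat_lit 414) (nat_lit 252) (nat_lit 234)) (XT.lf (nat_lit 0) (nat_lit 16563083917) (nat_lit 152) (nat_lit 3179537048) (nat_lit 0) (nat_lit 12864600261) (nat_lit 14) (nat_lit 5) (nat_lit 16) (nat_lit 4) (nat_lit 14) (nat_lit 4) (nat_lit 415) (nat_lit 252) (nat_lit 233))))) (XT.nd (nat_lit 234) (nat_lit 152) (nat_lit 0) (XT.nd (nat_lit 78) (nat_lit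 0) (nat_lit 0) (XT.lf (nat_lit 0) (nat_lit 6122901710) (nat_lit 76) (nat_lit 15578271425) (nat_lit 76) (nat_lit 11736825647) (nat_lit 13) (nat_lit 4) (nat_lit 14) (nat_lit 5) (nat_lit 14) (nat_lit 4) (nat_lit 416) (nat_lit 252) (nat_lit 232)) (XT.nd (nat_lit 78) (nat_lit 0) (nat_lit 0) (XT.lf (nat_lit 0) (nat_lit 15623737199) (nat_lit 76) (nat_lit 11325765270) (nat_lit 76) (nat_lit 7345521315) (nat_lit 13) (nat_lit 4) (nat_lit 14) (nat_lit 5) (nat_lit 14) (nat_lit 4) (nat_lit 417) (nat_lit 252) (nat_lit 231)) (XT.lf (nat_lit 0) (nat_lit 25267992099) (nat_lit 76) (nat_lit 7013493809) (nat_lit 76) (nat_lit 2898494341) (nat_lit 13) (nat_lit 4) (nat_lit 14) (nat_lit 5) (nat_lit 14) (nat_lit 4) (nat_lit 418) (nat_lit 252) (nat_lit 230)))) (XT.nd (nat_lit 156) (nat_lit 0) (nat_lit 0) (XT.nd (nat_lit 78) (nat_lit 76) (nat_lit 0) (XT.lf (nat_lit 0) (nat_lit 1576760401) (nat_lit 152) (nat_lit 1045006448) (nat_lit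 76) (nat_lit 33471410838) (nat_lit 12) (nat_lit 5) (nat_lit 14) (nat_lit 5) (nat_lit 13) (nat_lit 4) (nat_lit 419) (nat_lit 252) (nat_lit 229)) (XT.lf (nat_lit 0) (nat_lit 6154164077) (nat_lit 152) (nat_lit 28969289260) (nat_lit 0) (nat_lit 1908678585) (nat_lit 11) (nat_lit 5) (nat_lit 13) (nat_lit 4) (nat_lit 11) (nat_lit 4) (nat_lit 420) (nat_lit 252) (nat_lit 228))) (XT.nd (nat_lit 78) (nat_lit 0) (nat_lit 0) (XT.lf (nat_lit 0) (nat_lit 10835396872) (nat_lit 152) (nat_lit 20694685925) (nat_lit 0) (nat_lit 6470182853) (nat_lit 11) (nat_lit 5) (nat_lit 13) (nat_lit 4) (nat_lit 11) (nat_lit 4) (nat_lit 421) (nat_lit 252) (nat_lit 227)) (XT.lf (nat_lit 0) (nat_lit 15589000559) (nat_lit 152) (nat_lit 12302945462) (nat_lit 0) (nat_lit 11107545251) (nat_lit 11) (nat_lit 5) (nat_lit 13) (nat_lit 4) (nat_lit 11) (nat_lit 4) (nat_lit 422) (nat_lit 252) (nat_lit 226)))))) (XT.nd (nat_lit 468) (nat_lit 152) (nat_lit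 0) (XT.nd (nat_lit 234) (nat_lit 76) (nat_lit 0) (XT.nd (nat_lit 78) (nat_lit 76) (nat_lit 0) (XT.lf (nat_lit 0) (nat_lit 20419128771) (nat_lit 152) (nat_lit 3786735282) (nat_lit 0) (nat_lit 15824817844) (nat_lit 11) (nat_lit 5) (nat_lit 13) (nat_lit 4) (nat_lit 11) (nat_lit 4) (nat_lit 423) (nat_lit 252) (nat_lit 225)) (XT.nd (nat_lit 78) (nat_lit 0) (nat_lit 0) (XT.lf (nat_lit 0) (nat_lit 4958137075) (nat_lit 76) (nat_lit 20419525581) (nat_lit 76) (nat_lit 15715646091) (nat_lit 10) (nat_lit 4) (nat_lit 11) (nat_lit 5) (nat_lit 11) (nat_lit 4) (nat_lit 424) (nat_lit 252) (nat_lit 224)) (XT.lf (nat_lit 0) (nat_lit 13920616246) (nat_lit 76) (nat_lit 16539108562) (nat_lit 76) (nat_lit 11728851826) (nat_lit 10) (nat_lit 4) (nat_lit 11) (nat_lit 5) (nat_lit 11) (nat_lit 4) (nat_lit 425) (nat_lit 252) (nat_lit 223)))) (XT.nd (nat_lit 78) (nat_lit 76) (nat_lit 0) (XT.lf (nat_lit 0) (nat_lit 23033170066) (nat_lit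 76) (nat_lit 12599460941) (nat_lit 76) (nat_lit 7685925326) (nat_lit 10) (nat_lit 4) (nat_lit 11) (nat_lit 5) (nat_lit 11) (nat_lit 4) (nat_lit 426) (nat_lit 252) (nat_lit 222)) (XT.nd (nat_lit 78) (nat_lit 76) (nat_lit 0) (XT.lf (nat_lit 0) (nat_lit 32303760961) (nat_lit 76) (nat_lit 8597140309) (nat_lit 76) (nat_lit 3583333937) (nat_lit 10) (nat_lit 4) (nat_lit 11) (nat_lit 5) (nat_lit 11) (nat_lit 4) (nat_lit 427) (nat_lit 252) (nat_lit 221)) (XT.lf (nat_lit 0) (nat_lit 571140317) (nat_lit 152) (nat_lit 3951741777) (nat_lit 76) (nat_lit 41163581732) (nat_lit 9) (nat_lit 5) (nat_lit 11) (nat_lit 5) (nat_lit 10) (nat_lit 4) (nat_lit 428) (nat_lit 252) (nat_lit 220))))) (XT.nd (nat_lit 234) (nat_lit 76) (nat_lit 0) (XT.nd (nat_lit 78) (nat_lit 0) (nat_lit 0) (XT.lf (nat_lit 0) (nat_lit 4465658502) (nat_lit 76) (nat_lit 298543432) (nat_lit 152) (nat_lit 42159918430) (nat_lit 8) (nat_lit 5) (nat_lit 9) (nat_lit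 5) (nat_lit 10) (nat_lit 4) (nat_lit 429) (nat_lit 252) (nat_lit 219)) (XT.nd (nat_lit 78) (nat_lit 0) (nat_lit 0) (XT.lf (nat_lit 0) (nat_lit 9105467701) (nat_lit 152) (nat_lit 35130442546) (nat_lit 0) (nat_lit 3962328504) (nat_lit 8) (nat_lit 5) (nat_lit 10) (nat_lit 4) (nat_lit 8) (nat_lit 4) (nat_lit 430) (nat_lit 252) (nat_lit 218)) (XT.lf (nat_lit 0) (nat_lit 13524739944) (nat_lit 152) (nat_lit 27692305769) (nat_lit 0) (nat_lit 8295106312) (nat_lit 8) (nat_lit 5) (nat_lit 10) (nat_lit 4) (nat_lit 8) (nat_lit 4) (nat_lit 431) (nat_lit 252) (nat_lit 217)))) (XT.nd (nat_lit 156) (nat_lit 76) (nat_lit 0) (XT.nd (nat_lit 78) (nat_lit 0) (nat_lit 0) (XT.lf (nat_lit 0) (nat_lit 18023010380) (nat_lit 152) (nat_lit 20134682409) (nat_lit 0) (nat_lit 12709401568) (nat_lit 8) (nat_lit 5) (nat_lit 10) (nat_lit 4) (nat_lit 8) (nat_lit 4) (nat_lit 432) (nat_lit 252) (nat_lit 216)) (XT.lf (nat_lit 0) (nat_lit 22604209539)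 (nat_lit 152) (nat_lit 12450968716) (nat_lit 0) (nat_lit 17209071425) (nat_lit 8) (nat_lit 5) (nat_lit 10) (nat_lit 4) (nat_lit 8) (nat_lit 4) (nat_lit 433) (nat_lit 252) (nat_lit 215))) (XT.nd (nat_lit 78) (nat_lit 76) (nat_lit 0) (XT.lf (nat_lit 0) (nat_lit 27272340408) (nat_lit 152) (nat_lit 4634450766) (nat_lit 0) (nat_lit 21798047633) (nat_lit 8) (nat_lit 5) (nat_lit 10) (nat_lit 4) (nat_lit 8) (nat_lit 4) (nat_lit 434) (nat_lit 252) (nat_lit 214)) (XT.lf (nat_lit 0) (nat_lit 3387809779) (nat_lit 76) (nat_lit 28676237857) (nat_lit 76) (nat_lit 23125095897) (nat_lit 7) (nat_lit 4) (nat_lit 8) (nat_lit 5) (nat_lit 8) (nat_lit 4) (nat_lit 435) (nat_lit 252) (nat_lit 213))))))) (XT.nd (nat_lit 1014) (nat_lit 0) (nat_lit 0) (XT.nd (nat_lit 468) (nat_lit 152) (nat_lit 0) (XT.nd (nat_lit 234) (nat_lit 0) (nat_lit 0) (XT.nd (nat_lit 78) (nat_lit 0) (nat_lit 0) (XT.lf (nat_lit 0) (nat_lit 11651808537) (nat_lit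 76) (nat_lit 25345988374) (nat_lit 76) (nat_lit 19720235554) (nat_lit 7) (nat_lit 4) (nat_lit 8) (nat_lit 5) (nat_lit 8) (nat_lit 4) (nat_lit 436) (nat_lit 252) (nat_lit 212)) (XT.nd (nat_lit 78) (nat_lit 0) (nat_lit 0) (XT.lf (nat_lit 0) (nat_lit 20072531820) (nat_lit 76) (nat_lit 21959931662) (nat_lit 76) (nat_lit 16261741114) (nat_lit 7) (nat_lit 4) (nat_lit 8) (nat_lit 5) (nat_lit 8) (nat_lit 4) (nat_lit 437) (nat_lit 252) (nat_lit 211)) (XT.lf (nat_lit 0) (nat_lit 28657337541) (nat_lit 76) (nat_lit 18515109031) (nat_lit 76) (nat_lit 12746590592) (nat_lit 7) (nat_lit 4) (nat_lit 8) (nat_lit 5) (nat_lit 8) (nat_lit 4) (nat_lit 438) (nat_lit 252) (nat_lit 210)))) (XT.nd (nat_lit 78) (nat_lit 0) (nat_lit 0) (XT.lf (nat_lit 0) (nat_lit 37413726987) (nat_lit 76) (nat_lit 15008510442) (nat_lit 76) (nat_lit 9171712497) (nat_lit 7) (nat_lit 4) (nat_lit 8) (nat_lit 5) (nat_lit 8) (nat_lit 4) (nat_lit 439) (nat_lit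 252) (nat_lit 209)) (XT.nd (nat_lit 78) (nat_lit 0) (nat_lit 0) (XT.lf (nat_lit 0) (nat_lit 46349351372) (nat_lit 76) (nat_lit 11437071877) (nat_lit 76) (nat_lit 5533983149) (nat_lit 7) (nat_lit 4) (nat_lit 8) (nat_lit 5) (nat_lit 8) (nat_lit 4) (nat_lit 440) (nat_lit 252) (nat_lit 208)) (XT.lf (nat_lit 0) (nat_lit 55472018523) (nat_lit 76) (nat_lit 7797672662) (nat_lit 76) (nat_lit 1830223951) (nat_lit 7) (nat_lit 4) (nat_lit 8) (nat_lit 5) (nat_lit 8) (nat_lit 4) (nat_lit 441) (nat_lit 252) (nat_lit 207))))) (XT.nd (nat_lit 234) (nat_lit 0) (nat_lit 0) (XT.nd (nat_lit 78) (nat_lit 76) (nat_lit 0) (XT.lf (nat_lit 0) (nat_lit 1904890340) (nat_lit 152) (nat_lit 2163006740) (nat_lit 76) (nat_lit 62865573704) (nat_lit 6) (nat_lit 5) (nat_lit 8) (nat_lit 5) (nat_lit 7) (nat_lit 4) (nat_lit 442) (nat_lit 252) (nat_lit 206)) (XT.nd (nat_lit 78) (nat_lit 0) (nat_lit 0) (XT.lf (nat_lit 0) (nat_lit 5538616631) (nat_lit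 76) (nat_lit 190061309) (nat_lit 152) (nat_lit 63092412355) (nat_lit 5) (nat_lit 5) (nat_lit 6) (nat_lit 5) (nat_lit 7) (nat_lit 4) (nat_lit 443) (nat_lit 252) (nat_lit 205)) (XT.lf (nat_lit 0) (nat_lit 9686039974) (nat_lit 152) (nat_lit 57363082015) (nat_lit 0) (nat_lit 3715653479) (nat_lit 5) (nat_lit 5) (nat_lit 7) (nat_lit 4) (nat_lit 5) (nat_lit 4) (nat_lit 444) (nat_lit 252) (nat_lit 204)))) (XT.nd (nat_lit 156) (nat_lit 0) (nat_lit 0) (XT.nd (nat_lit 78) (nat_lit 0) (nat_lit 0) (XT.lf (nat_lit 0) (nat_lit 13725397860) (nat_lit 152) (nat_lit 51342984026) (nat_lit 0) (nat_lit 7699493878) (nat_lit 5) (nat_lit 5) (nat_lit 7) (nat_lit 4) (nat_lit 5) (nat_lit 4) (nat_lit 445) (nat_lit 252) (nat_lit 203)) (XT.lf (nat_lit 0) (nat_lit 17848454148) (nat_lit 152) (nat_lit 45215092432) (nat_lit 0) (nat_lit 11768649694) (nat_lit 5) (nat_lit 5) (nat_lit 7) (nat_lit 4) (nat_lit 5) (nat_lit 4) (nat_lit 446) (nat_lit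 252) (nat_lit 202))) (XT.nd (nat_lit 78) (nat_lit 0) (nat_lit 0) (XT.lf (nat_lit 0) (nat_lit 22058811510) (nat_lit 152) (nat_lit 38974052764) (nat_lit 0) (nat_lit 15926676500) (nat_lit 5) (nat_lit 5) (nat_lit 7) (nat_lit 4) (nat_lit 5) (nat_lit 4) (nat_lit 447) (nat_lit 252) (nat_lit 201)) (XT.lf (nat_lit 0) (nat_lit 26360148897) (nat_lit 152) (nat_lit 32614411688) (nat_lit 0) (nat_lit 20177207522) (nat_lit 5) (nat_lit 5) (nat_lit 7) (nat_lit 4) (nat_lit 5) (nat_lit 4) (nat_lit 448) (nat_lit 252) (nat_lit 200)))))) (XT.nd (nat_lit 42978) (nat_lit 0) (nat_lit 1064) (XT.nd (nat_lit 42666) (nat_lit 0) (nat_lit 1368) (XT.nd (nat_lit 78) (nat_lit 0) (nat_lit 0) (XT.lf (nat_lit 0) (nat_lit 30756224762) (nat_lit 152) (nat_lit 26130612235) (nat_lit 0) (nat_lit 24523956818) (nat_lit 5) (nat_lit 5) (nat_lit 7) (nat_lit 4) (nat_lit 5) (nat_lit 4) (nat_lit 449) (nat_lit 252) (nat_lit 199)) (XT.nd (nat_lit 42510) (nat_lit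 0) (nat_lit 1596) (XT.lf (nat_lit 0) (nat_lit 35250880333) (nat_lit 152) (nat_lit 19516988948) (nat_lit 0) (nat_lit 28970722518) (nat_lit 5) (nat_lit 5) (nat_lit 7) (nat_lit 4) (nat_lit 5) (nat_lit 4) (nat_lit 450) (nat_lit 252) (nat_lit 198)) (XT.lf (nat_lit 0) (nat_lit 2873112058) (nat_lit 152) (nat_lit 4258313019) (nat_lit 0) (nat_lit 2873112058) (nat_lit 26) (nat_lit 5) (nat_lit 28) (nat_lit 4) (nat_lit 26) (nat_lit 4) (nat_lit 394) (nat_lit 253) (nat_lit 253)))) (XT.nd (nat_lit 156) (nat_lit 152) (nat_lit 0) (XT.nd (nat_lit 78) (nat_lit 0) (nat_lit 0) (XT.lf (nat_lit 0) (nat_lit 1721259910) (nat_lit 76) (nat_lit 9504876201) (nat_lit 76) (nat_lit 9214263640) (nat_lit 25) (nat_lit 4) (nat_lit 26) (nat_lit 5) (nat_lit 26) (nat_lit 4) (nat_lit 395) (nat_lit 253) (nat_lit 252)) (XT.lf (nat_lit 0) (nat_lit 12234735346) (nat_lit 76) (nat_lit 4611712291) (nat_lit 76) (nat_lit 4038951613) (nat_lit 25) (nat_lit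 4) (nat_lit 26) (nat_lit 5) (nat_lit 26) (nat_lit 4) (nat_lit 396) (nat_lit 253) (nat_lit 251))) (XT.nd (nat_lit 78) (nat_lit 0) (nat_lit 0) (XT.lf (nat_lit 0) (nat_lit 1176783907) (nat_lit 152) (nat_lit 19814540881) (nat_lit 0) (nat_lit 354753918) (nat_lit 23) (nat_lit 5) (nat_lit 25) (nat_lit 4) (nat_lit 23) (nat_lit 4) (nat_lit 397) (nat_lit 253) (nat_lit 250)) (XT.lf (nat_lit 0) (nat_lit 6494142569) (nat_lit 152) (nat_lit 9910552409) (nat_lit 0) (nat_lit 5413907083) (nat_lit 23) (nat_lit 5) (nat_lit 25) (nat_lit 4) (nat_lit 23) (nat_lit 4) (nat_lit 398) (nat_lit 253) (nat_lit 249))))) (XT.nd (nat_lit 234) (nat_lit 228) (nat_lit 0) (XT.nd (nat_lit 78) (nat_lit 0) (nat_lit 0) (XT.lf (nat_lit 0) (nat_lit 95709564) (nat_lit 76) (nat_lit 11771814818) (nat_lit 76) (nat_lit 10440894385) (nat_lit 22) (nat_lit 4) (nat_lit 23) (nat_lit 5) (nat_lit 23) (nat_lit 4) (nat_lit 399) (nat_lit 253) (nat_lit 248)) (XT.nd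 (nat_lit 78) (nat_lit 0) (nat_lit 0) (XT.lf (nat_lit 0) (nat_lit 10410530780) (nat_lit 76) (nat_lit 6988405286) (nat_lit 76) (nat_lit 5414101408) (nat_lit 22) (nat_lit 4) (nat_lit 23) (nat_lit 5) (nat_lit 23) (nat_lit 4) (nat_lit 400) (nat_lit 253) (nat_lit 247)) (XT.lf (nat_lit 0) (nat_lit 20845684765) (nat_lit 76) (nat_lit 2150363849) (nat_lit 76) (nat_lit 339765365) (nat_lit 22) (nat_lit 4) (nat_lit 23) (nat_lit 5) (nat_lit 23) (nat_lit 4) (nat_lit 401) (nat_lit 253) (nat_lit 246)))) (XT.nd (nat_lit 156) (nat_lit 76) (nat_lit 0) (XT.nd (nat_lit 78) (nat_lit 0) (nat_lit 0) (XT.lf (nat_lit 0) (nat_lit 4794131232) (nat_lit 152) (nat_lit 16265125618) (nat_lit 0) (nat_lit 2813538298) (nat_lit 20) (nat_lit 5) (nat_lit 22) (nat_lit 4) (nat_lit 20) (nat_lit 4) (nat_lit 402) (nat_lit 253) (nat_lit 245)) (XT.lf (nat_lit 0) (nat_lit 10023868758) (nat_lit 152) (nat_lit 6576434674) (nat_lit 0) (nat_lit 7827032785)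 (nat_lit 20) (nat_lit 5) (nat_lit 22) (nat_lit 4) (nat_lit 20) (nat_lit 4) (nat_lit 403) (nat_lit 253) (nat_lit 244))) (XT.nd (nat_lit 78) (nat_lit 0) (nat_lit 0) (XT.lf (nat_lit 0) (nat_lit 3286616726) (nat_lit 76) (nat_lit 12060297816) (nat_lit 76) (nat_lit 9653517146) (nat_lit 19) (nat_lit 4) (nat_lit 20) (nat_lit 5) (nat_lit 20) (nat_lit 4) (nat_lit 404) (nat_lit 253) (nat_lit 243)) (XT.lf (nat_lit 0) (nat_lit 13401705092) (nat_lit 76) (nat_lit 7400233570) (nat_lit 76) (nat_lit 4789623097) (nat_lit 19) (nat_lit 4) (nat_lit 20) (nat_lit 5) (nat_lit 20) (nat_lit 4) (nat_lit 405) (nat_lit 253) (nat_lit 242))))))))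
noncomputable def xc15 : XT := (XT.nd (nat_lit 2106) (nat_lit 228) (nat_lit 0) (XT.nd (nat_lit 1014) (nat_lit 380) (nat_lit 0) (XT.nd (nat_lit 468) (nat_lit 228) (nat_lit 0) (XT.nd (nat_lit 234) (nat_lit 76) (nat_lit 0) (XT.nd (nat_lit 78) (nat_lit 76) (nat_lit 0) (XT.lf (nat_lit 0) (nat_lit 123595797) (nat_lit 152) (nat_lit 2557604016) (nat_lit 76) (nat_lit 23521941032) (nat_lit 18) (nat_lit 5) (nat_lit 20) (nat_lit 5) (nat_lit 19) (nat_lit 4) (nat_lit 406) (nat_lit 253) (nat_lit 241)) (XT.nd (nat_lit 78) (nat_lit 0) (nat_lit 0) (XT.lf (nat_lit 0) (nat_lit 5089734445) (nat_lit 152) (nat_lit 19565367082) (nat_lit 0) (nat_lit 2176498888) (nat_lit 17) (nat_lit 5) (nat_lit 19) (nat_lit 4) (nat_lit 17) (nat_lit 4) (nat_lit 407) (nat_lit 253) (nat_lit 240)) (XT.lf (nat_lit 0) (nat_lit 10168100848) (nat_lit 152) (nat_lit 10238159654) (nat_lit 0) (nat_lit 7073765151) (nat_lit 17) (nat_lit 5) (nat_lit 19) (nat_lit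 4) (nat_lit 17) (nat_lit 4) (nat_lit 408) (nat_lit 253) (nat_lit 239)))) (XT.nd (nat_lit 78) (nat_lit 76) (nat_lit 0) (XT.lf (nat_lit 0) (nat_lit 15312036269) (nat_lit 152) (nat_lit 796604570) (nat_lit 0) (nat_lit 12041875193) (nat_lit 17) (nat_lit 5) (nat_lit 19) (nat_lit 4) (nat_lit 17) (nat_lit 4) (nat_lit 409) (nat_lit 253) (nat_lit 238)) (XT.nd (nat_lit 78) (nat_lit 0) (nat_lit 0) (XT.lf (nat_lit 0) (nat_lit 8942039472) (nat_lit 76) (nat_lit 11669952290) (nat_lit 76) (nat_lit 8229086963) (nat_lit 16) (nat_lit 4) (nat_lit 17) (nat_lit 5) (nat_lit 17) (nat_lit 4) (nat_lit 410) (nat_lit 253) (nat_lit 237)) (XT.lf (nat_lit 0) (nat_lit 18830098346) (nat_lit 76) (nat_lit 7165562266) (nat_lit 76) (nat_lit 3558964656) (nat_lit 16) (nat_lit 4) (nat_lit 17) (nat_lit 5) (nat_lit 17) (nat_lit 4) (nat_lit 411) (nat_lit 253) (nat_lit 236))))) (XT.nd (nat_lit 234) (nat_lit 76) (nat_lit 0) (XT.nd (nat_lit 78) (nat_lit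 76) (nat_lit 0) (XT.lf (nat_lit 0) (nat_lit 1145133303) (nat_lit 152) (nat_lit 1442882132) (nat_lit 76) (nat_lit 27703661206) (nat_lit 15) (nat_lit 5) (nat_lit 17) (nat_lit 5) (nat_lit 16) (nat_lit 4) (nat_lit 412) (nat_lit 253) (nat_lit 235)) (XT.nd (nat_lit 78) (nat_lit 0) (nat_lit 0) (XT.lf (nat_lit 0) (nat_lit 5938109876) (nat_lit 152) (nat_lit 22982429927) (nat_lit 0) (nat_lit 2128671711) (nat_lit 14) (nat_lit 5) (nat_lit 16) (nat_lit 4) (nat_lit 14) (nat_lit 4) (nat_lit 413) (nat_lit 253) (nat_lit 234)) (XT.lf (nat_lit 0) (nat_lit 10836062985) (nat_lit 152) (nat_lit 14115207471) (nat_lit 0) (nat_lit 6879373833) (nat_lit 14) (nat_lit 5) (nat_lit 16) (nat_lit 4) (nat_lit 14) (nat_lit 4) (nat_lit 414) (nat_lit 253) (nat_lit 233)))) (XT.nd (nat_lit 156) (nat_lit 0) (nat_lit 0) (XT.nd (nat_lit 78) (nat_lit 76) (nat_lit 0) (XT.lf (nat_lit 0) (nat_lit 15804108845) (nat_lit 152) (nat_lit 5129266263) (nat_lit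 0) (nat_lit 11704457571) (nat_lit 14) (nat_lit 5) (nat_lit 16) (nat_lit 4) (nat_lit 14) (nat_lit 4) (nat_lit 415) (nat_lit 253) (nat_lit 232)) (XT.lf (nat_lit 0) (nat_lit 4062519886) (nat_lit 76) (nat_lit 16823120008) (nat_lit 76) (nat_lit 12584670556) (nat_lit 13) (nat_lit 4) (nat_lit 14) (nat_lit 5) (nat_lit 14) (nat_lit 4) (nat_lit 416) (nat_lit 253) (nat_lit 231))) (XT.nd (nat_lit 78) (nat_lit 0) (nat_lit 0) (XT.lf (nat_lit 0) (nat_lit 13493598895) (nat_lit 76) (nat_lit 12604017734) (nat_lit 76) (nat_lit 8230812770) (nat_lit 13) (nat_lit 4) (nat_lit 14) (nat_lit 5) (nat_lit 14) (nat_lit 4) (nat_lit 417) (nat_lit 253) (nat_lit 230)) (XT.lf (nat_lit 0) (nat_lit 23070129057) (nat_lit 76) (nat_lit 8324177225) (nat_lit 76) (nat_lit 3820141667) (nat_lit 13) (nat_lit 4) (nat_lit 14) (nat_lit 5) (nat_lit 14) (nat_lit 4) (nat_lit 418) (nat_lit 253) (nat_lit 229)))))) (XT.nd (nat_lit 546) (nat_lit 152) (nat_lit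 0) (XT.nd (nat_lit 234) (nat_lit 76) (nat_lit 0) (XT.nd (nat_lit 78) (nat_lit 76) (nat_lit 0) (XT.lf (nat_lit 0) (nat_lit 638489544) (nat_lit 152) (nat_lit 3334921777) (nat_lit 76) (nat_lit 32155541176) (nat_lit 12) (nat_lit 5) (nat_lit 14) (nat_lit 5) (nat_lit 13) (nat_lit 4) (nat_lit 419) (nat_lit 253) (nat_lit 228)) (XT.nd (nat_lit 78) (nat_lit 0) (nat_lit 0) (XT.lf (nat_lit 0) (nat_lit 5145691960) (nat_lit 152) (nat_lit 31394530811) (nat_lit 0) (nat_lit 529792993) (nat_lit 11) (nat_lit 5) (nat_lit 13) (nat_lit 4) (nat_lit 11) (nat_lit 4) (nat_lit 420) (nat_lit 253) (nat_lit 227)) (XT.lf (nat_lit 0) (nat_lit 9793394660) (nat_lit 152) (nat_lit 23184509235) (nat_lit 0) (nat_lit 5061254405) (nat_lit 11) (nat_lit 5) (nat_lit 13) (nat_lit 4) (nat_lit 11) (nat_lit 4) (nat_lit 421) (nat_lit 253) (nat_lit 226)))) (XT.nd (nat_lit 156) (nat_lit 76) (nat_lit 0) (XT.nd (nat_lit 78) (nat_lit 0) (nat_lit 0) (XT.lf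 (nat_lit 0) (nat_lit 14514444857) (nat_lit 152) (nat_lit 14855469510) (nat_lit 0) (nat_lit 9669448982) (nat_lit 11) (nat_lit 5) (nat_lit 13) (nat_lit 4) (nat_lit 11) (nat_lit 4) (nat_lit 422) (nat_lit 253) (nat_lit 225)) (XT.lf (nat_lit 0) (nat_lit 19312967740) (nat_lit 152) (nat_lit 6400133833) (nat_lit 0) (nat_lit 14358403301) (nat_lit 11) (nat_lit 5) (nat_lit 13) (nat_lit 4) (nat_lit 11) (nat_lit 4) (nat_lit 423) (nat_lit 253) (nat_lit 224))) (XT.nd (nat_lit 78) (nat_lit 0) (nat_lit 0) (XT.lf (nat_lit 0) (nat_lit 2232449075) (nat_lit 76) (nat_lit 21982166782) (nat_lit 76) (nat_lit 16921225099) (nat_lit 10) (nat_lit 4) (nat_lit 11) (nat_lit 5) (nat_lit 11) (nat_lit 4) (nat_lit 424) (nat_lit 253) (nat_lit 223)) (XT.lf (nat_lit 0) (nat_lit 11136406214) (nat_lit 76) (nat_lit 18129918191) (nat_lit 76) (nat_lit 12965697628) (nat_lit 10) (nat_lit 4) (nat_lit 11) (nat_lit 5) (nat_lit 11) (nat_lit 4) (nat_lit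 425) (nat_lit 253) (nat_lit 222))))) (XT.nd (nat_lit 234) (nat_lit 152) (nat_lit 0) (XT.nd (nat_lit 78) (nat_lit 0) (nat_lit 0) (XT.lf (nat_lit 0) (nat_lit 20192142526) (nat_lit 76) (nat_lit 14217618559) (nat_lit 76) (nat_lit 8953127239) (nat_lit 10) (nat_lit 4) (nat_lit 11) (nat_lit 5) (nat_lit 11) (nat_lit 4) (nat_lit 426) (nat_lit 253) (nat_lit 221)) (XT.nd (nat_lit 78) (nat_lit 0) (nat_lit 0) (XT.lf (nat_lit 0) (nat_lit 29407570792) (nat_lit 76) (nat_lit 10241849372) (nat_lit 76) (nat_lit 4880007803) (nat_lit 10) (nat_lit 4) (nat_lit 11) (nat_lit 5) (nat_lit 11) (nat_lit 4) (nat_lit 427) (nat_lit 253) (nat_lit 220)) (XT.lf (nat_lit 0) (nat_lit 38790743327) (nat_lit 76) (nat_lit 6199136656) (nat_lit 76) (nat_lit 742780282) (nat_lit 10) (nat_lit 4) (nat_lit 11) (nat_lit 5) (nat_lit 11) (nat_lit 4) (nat_lit 428) (nat_lit 253) (nat_lit 219)))) (XT.nd (nat_lit 156) (nat_lit 0) (nat_lit 0) (XT.nd (nat_lit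 78) (nat_lit 0) (nat_lit 0) (XT.lf (nat_lit 0) (nat_lit 1369669107) (nat_lit 76) (nat_lit 2038107950) (nat_lit 152) (nat_lit 43564466135) (nat_lit 8) (nat_lit 5) (nat_lit 9) (nat_lit 5) (nat_lit 10) (nat_lit 4) (nat_lit 429) (nat_lit 253) (nat_lit 218)) (XT.lf (nat_lit 0) (nat_lit 7705135168) (nat_lit 152) (nat_lit 38310427712) (nat_lit 0) (nat_lit 2232118092) (nat_lit 8) (nat_lit 5) (nat_lit 10) (nat_lit 4) (nat_lit 8) (nat_lit 4) (nat_lit 430) (nat_lit 253) (nat_lit 217))) (XT.nd (nat_lit 78) (nat_lit 0) (nat_lit 0) (XT.lf (nat_lit 0) (nat_lit 12098013335) (nat_lit 152) (nat_lit 30923353753) (nat_lit 0) (nat_lit 6541021079) (nat_lit 8) (nat_lit 5) (nat_lit 10) (nat_lit 4) (nat_lit 8) (nat_lit 4) (nat_lit 431) (nat_lit 253) (nat_lit 216)) (XT.lf (nat_lit 0) (nat_lit 16570658456) (nat_lit 152) (nat_lit 23415305943) (nat_lit 0) (nat_lit 10932136898) (nat_lit 8) (nat_lit 5) (nat_lit 10) (nat_lit 4) (nat_lit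 8) (nat_lit 4) (nat_lit 432) (nat_lit 253) (nat_lit 215))))))) (XT.nd (nat_lit 1014) (nat_lit 0) (nat_lit 0) (XT.nd (nat_lit 468) (nat_lit 152) (nat_lit 0) (XT.nd (nat_lit 234) (nat_lit 76) (nat_lit 0) (XT.nd (nat_lit 78) (nat_lit 0) (nat_lit 0) (XT.lf (nat_lit 0) (nat_lit 21126978666) (nat_lit 152) (nat_lit 15779723853) (nat_lit 0) (nat_lit 15409302448) (nat_lit 8) (nat_lit 5) (nat_lit 10) (nat_lit 4) (nat_lit 8) (nat_lit 4) (nat_lit 433) (nat_lit 253) (nat_lit 214)) (XT.nd (nat_lit 78) (nat_lit 0) (nat_lit 0) (XT.lf (nat_lit 0) (nat_lit 25770955217) (nat_lit 152) (nat_lit 8009935614) (nat_lit 0) (nat_lit 19976429813) (nat_lit 8) (nat_lit 5) (nat_lit 10) (nat_lit 4) (nat_lit 8) (nat_lit 4) (nat_lit 434) (nat_lit 253) (nat_lit 213)) (XT.lf (nat_lit 0) (nat_lit 30506645953) (nat_lit 152) (nat_lit 99152091) (nat_lit 0) (nat_lit 24637509688) (nat_lit 8) (nat_lit 5) (nat_lit 10) (nat_lit 4) (nat_lit 8) (nat_lit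 4) (nat_lit 435) (nat_lit 253) (nat_lit 212)))) (XT.nd (nat_lit 78) (nat_lit 0) (nat_lit 0) (XT.lf (nat_lit 0) (nat_lit 8117949484) (nat_lit 76) (nat_lit 27298274066) (nat_lit 76) (nat_lit 21356700074) (nat_lit 7) (nat_lit 4) (nat_lit 8) (nat_lit 5) (nat_lit 8) (nat_lit 4) (nat_lit 436) (nat_lit 253) (nat_lit 211)) (XT.nd (nat_lit 78) (nat_lit 0) (nat_lit 0) (XT.lf (nat_lit 0) (nat_lit 16495057368) (nat_lit 76) (nat_lit 23933308873) (nat_lit 76) (nat_lit 17921406989) (nat_lit 7) (nat_lit 4) (nat_lit 8) (nat_lit 5) (nat_lit 8) (nat_lit 4) (nat_lit 437) (nat_lit 253) (nat_lit 210)) (XT.lf (nat_lit 0) (nat_lit 25037518041) (nat_lit 76) (nat_lit 20508963444) (nat_lit 76) (nat_lit 14428782055) (nat_lit 7) (nat_lit 4) (nat_lit 8) (nat_lit 5) (nat_lit 8) (nat_lit 4) (nat_lit 438) (nat_lit 253) (nat_lit 209))))) (XT.nd (nat_lit 234) (nat_lit 152) (nat_lit 0) (XT.nd (nat_lit 78) (nat_lit 0) (nat_lit 0) (XT.lf (nat_lit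 0) (nat_lit 33752795790) (nat_lit 76) (nat_lit 17022245635) (nat_lit 76) (nat_lit 10875773462) (nat_lit 7) (nat_lit 4) (nat_lit 8) (nat_lit 5) (nat_lit 8) (nat_lit 4) (nat_lit 439) (nat_lit 253) (nat_lit 208)) (XT.nd (nat_lit 78) (nat_lit 0) (nat_lit 0) (XT.lf (nat_lit 0) (nat_lit 42648505906) (nat_lit 76) (nat_lit 13470108797) (nat_lit 76) (nat_lit 7259276642) (nat_lit 7) (nat_lit 4) (nat_lit 8) (nat_lit 5) (nat_lit 8) (nat_lit 4) (nat_lit 440) (nat_lit 253) (nat_lit 207)) (XT.lf (nat_lit 0) (nat_lit 51732421340) (nat_lit 76) (nat_lit 9849449122) (nat_lit 76) (nat_lit 3576131547) (nat_lit 7) (nat_lit 4) (nat_lit 8) (nat_lit 5) (nat_lit 8) (nat_lit 4) (nat_lit 441) (nat_lit 253) (nat_lit 206)))) (XT.nd (nat_lit 156) (nat_lit 0) (nat_lit 0) (XT.nd (nat_lit 78) (nat_lit 76) (nat_lit 0) (XT.lf (nat_lit 0) (nat_lit 173428536) (nat_lit 152) (nat_lit 5981923103) (nat_lit 76) (nat_lit 60837299668) (nat_lit 6)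 (nat_lit 5) (nat_lit 8) (nat_lit 5) (nat_lit 7) (nat_lit 4) (nat_lit 442) (nat_lit 253) (nat_lit 205)) (XT.lf (nat_lit 0) (nat_lit 1606054003) (nat_lit 76) (nat_lit 2334308330) (nat_lit 152) (nat_lit 64941615528) (nat_lit 5) (nat_lit 5) (nat_lit 6) (nat_lit 5) (nat_lit 7) (nat_lit 4) (nat_lit 443) (nat_lit 253) (nat_lit 204))) (XT.nd (nat_lit 78) (nat_lit 0) (nat_lit 0) (XT.lf (nat_lit 0) (nat_lit 7858094423) (nat_lit 152) (nat_lit 61372863062) (nat_lit 0) (nat_lit 1595895835) (nat_lit 5) (nat_lit 5) (nat_lit 7) (nat_lit 4) (nat_lit 5) (nat_lit 4) (nat_lit 444) (nat_lit 253) (nat_lit 203)) (XT.lf (nat_lit 0) (nat_lit 11878988105) (nat_lit 152) (nat_lit 55388631740) (nat_lit 0) (nat_lit 5562889044) (nat_lit 5) (nat_lit 5) (nat_lit 7) (nat_lit 4) (nat_lit 5) (nat_lit 4) (nat_lit 445) (nat_lit 253) (nat_lit 202)))))) (XT.nd (nat_lit 42822) (nat_lit 0) (nat_lit 1292) (XT.nd (nat_lit 234) (nat_lit 0) (nat_lit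 0) (XT.nd (nat_lit 78) (nat_lit 0) (nat_lit 0) (XT.lf (nat_lit 0) (nat_lit 15984117982) (nat_lit 152) (nat_lit 49295562153) (nat_lit 0) (nat_lit 9615688365) (nat_lit 5) (nat_lit 5) (nat_lit 7) (nat_lit 4) (nat_lit 5) (nat_lit 4) (nat_lit 446) (nat_lit 253) (nat_lit 201)) (XT.nd (nat_lit 78) (nat_lit 0) (nat_lit 0) (XT.lf (nat_lit 0) (nat_lit 20177071060) (nat_lit 152) (nat_lit 43088330260) (nat_lit 0) (nat_lit 13757835079) (nat_lit 5) (nat_lit 5) (nat_lit 7) (nat_lit 4) (nat_lit 5) (nat_lit 4) (nat_lit 447) (nat_lit 253) (nat_lit 200)) (XT.lf (nat_lit 0) (nat_lit 24461511086) (nat_lit 152) (nat_lit 36761512265) (nat_lit 0) (nat_lit 17992948536) (nat_lit 5) (nat_lit 5) (nat_lit 7) (nat_lit 4) (nat_lit 5) (nat_lit 4) (nat_lit 448) (nat_lit 253) (nat_lit 199)))) (XT.nd (nat_lit 42432) (nat_lit 0) (nat_lit 1596) (XT.nd (nat_lit 78) (nat_lit 0) (nat_lit 0) (XT.lf (nat_lit 0) (nat_lit 28841181744) (nat_lit 152)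 (nat_lit 30309579881) (nat_lit 0) (nat_lit 22324729323) (nat_lit 5) (nat_lit 5) (nat_lit 7) (nat_lit 4) (nat_lit 5) (nat_lit 4) (nat_lit 449) (nat_lit 253) (nat_lit 198)) (XT.lf (nat_lit 0) (nat_lit 33319909931) (nat_lit 152) (nat_lit 23726895497) (nat_lit 0) (nat_lit 26756962489) (nat_lit 5) (nat_lit 5) (nat_lit 7) (nat_lit 4) (nat_lit 5) (nat_lit 4) (nat_lit 450) (nat_lit 253) (nat_lit 197))) (XT.nd (nat_lit 78) (nat_lit 152) (nat_lit 0) (XT.lf (nat_lit 0) (nat_lit 4962438447) (nat_lit 152) (nat_lit 2315141126) (nat_lit 152) (nat_lit 2315141126) (nat_lit 28) (nat_lit 4) (nat_lit 30) (nat_lit 5) (nat_lit 30) (nat_lit 4) (nat_lit 392) (nat_lit 254) (nat_lit 254)) (XT.lf (nat_lit 0) (nat_lit 633298422) (nat_lit 152) (nat_lit 18625818694) (nat_lit 0) (nat_lit 333967484) (nat_lit 26) (nat_lit 5) (nat_lit 28) (nat_lit 4) (nat_lit 26) (nat_lit 4) (nat_lit 393) (nat_lit 254) (nat_lit 253))))) (XT.nd (nat_lit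 234) (nat_lit 228) (nat_lit 0) (XT.nd (nat_lit 78) (nat_lit 76) (nat_lit 0) (XT.lf (nat_lit 0) (nat_lit 5990748089) (nat_lit 152) (nat_lit 8619173066) (nat_lit 0) (nat_lit 5400804591) (nat_lit 26) (nat_lit 5) (nat_lit 28) (nat_lit 4) (nat_lit 26) (nat_lit 4) (nat_lit 394) (nat_lit 254) (nat_lit 252)) (XT.nd (nat_lit 78) (nat_lit 0) (nat_lit 0) (XT.lf (nat_lit 0) (nat_lit 1515130333) (nat_lit 76) (nat_lit 9900337662) (nat_lit 76) (nat_lit 9028246047) (nat_lit 25) (nat_lit 4) (nat_lit 26) (nat_lit 5) (nat_lit 26) (nat_lit 4) (nat_lit 395) (nat_lit 254) (nat_lit 251)) (XT.lf (nat_lit 0) (nat_lit 11930021628) (nat_lit 76) (nat_lit 5053149420) (nat_lit 76) (nat_lit 3907127594) (nat_lit 25) (nat_lit 4) (nat_lit 26) (nat_lit 5) (nat_lit 26) (nat_lit 4) (nat_lit 396) (nat_lit 254) (nat_lit 250)))) (XT.nd (nat_lit 156) (nat_lit 76) (nat_lit 0) (XT.nd (nat_lit 78) (nat_lit 0) (nat_lit 0) (XT.lf (nat_lit 0) (nat_lit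 1119381377) (nat_lit 76) (nat_lit 127591462) (nat_lit 152) (nat_lit 20105745582) (nat_lit 23) (nat_lit 5) (nat_lit 24) (nat_lit 5) (nat_lit 25) (nat_lit 4) (nat_lit 397) (nat_lit 254) (nat_lit 249)) (XT.lf (nat_lit 0) (nat_lit 6511667759) (nat_lit 152) (nat_lit 10425025430) (nat_lit 0) (nat_lit 4890134766) (nat_lit 23) (nat_lit 5) (nat_lit 25) (nat_lit 4) (nat_lit 23) (nat_lit 4) (nat_lit 398) (nat_lit 254) (nat_lit 248))) (XT.nd (nat_lit 78) (nat_lit 76) (nat_lit 0) (XT.lf (nat_lit 0) (nat_lit 11834190472) (nat_lit 152) (nat_lit 514712013) (nat_lit 0) (nat_lit 9969274034) (nat_lit 23) (nat_lit 5) (nat_lit 25) (nat_lit 4) (nat_lit 23) (nat_lit 4) (nat_lit 399) (nat_lit 254) (nat_lit 247)) (XT.lf (nat_lit 0) (nat_lit 9696706869) (nat_lit 76) (nat_lit 7614469048) (nat_lit 76) (nat_lit 5513258004) (nat_lit 22) (nat_lit 4) (nat_lit 23) (nat_lit 5) (nat_lit 23) (nat_lit 4) (nat_lit 400) (nat_lit 254) (nat_lit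 246))))))))
noncomputable def xc16 : XT := (XT.nd (nat_lit 2028) (nat_lit 380) (nat_lit 0) (XT.nd (nat_lit 1014) (nat_lit 304) (nat_lit 0) (XT.nd (nat_lit 468) (nat_lit 380) (nat_lit 0) (XT.nd (nat_lit 234) (nat_lit 76) (nat_lit 0) (XT.nd (nat_lit 78) (nat_lit 152) (nat_lit 0) (XT.lf (nat_lit 0) (nat_lit 20041415653) (nat_lit 76) (nat_lit 2818931022) (nat_lit 76) (nat_lit 488307739) (nat_lit 22) (nat_lit 4) (nat_lit 23) (nat_lit 5) (nat_lit 23) (nat_lit 4) (nat_lit 401) (nat_lit 254) (nat_lit 245)) (XT.nd (nat_lit 78) (nat_lit 0) (nat_lit 0) (XT.lf (nat_lit 0) (nat_lit 4585678890) (nat_lit 152) (nat_lit 17195194393) (nat_lit 0) (nat_lit 2106694800) (nat_lit 20) (nat_lit 5) (nat_lit 22) (nat_lit 4) (nat_lit 20) (nat_lit 4) (nat_lit 402) (nat_lit 254) (nat_lit 244)) (XT.lf (nat_lit 0) (nat_lit 9768531274) (nat_lit 152) (nat_lit 7595387194) (nat_lit 0) (nat_lit 7079602487) (nat_lit 20) (nat_lit 5) (nat_lit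 22) (nat_lit 4) (nat_lit 20) (nat_lit 4) (nat_lit 403) (nat_lit 254) (nat_lit 243)))) (XT.nd (nat_lit 78) (nat_lit 0) (nat_lit 0) (XT.lf (nat_lit 0) (nat_lit 2159372718) (nat_lit 76) (nat_lit 12875849027) (nat_lit 76) (nat_lit 9983090436) (nat_lit 19) (nat_lit 4) (nat_lit 20) (nat_lit 5) (nat_lit 20) (nat_lit 4) (nat_lit 404) (nat_lit 254) (nat_lit 242)) (XT.nd (nat_lit 78) (nat_lit 0) (nat_lit 0) (XT.lf (nat_lit 0) (nat_lit 12189012215) (nat_lit 76) (nat_lit 8256218520) (nat_lit 76) (nat_lit 5165566918) (nat_lit 19) (nat_lit 4) (nat_lit 20) (nat_lit 5) (nat_lit 20) (nat_lit 4) (nat_lit 405) (nat_lit 254) (nat_lit 241)) (XT.lf (nat_lit 0) (nat_lit 22351131961) (nat_lit 76) (nat_lit 3577688897) (nat_lit 76) (nat_lit 294908156) (nat_lit 19) (nat_lit 4) (nat_lit 20) (nat_lit 5) (nat_lit 20) (nat_lit 4) (nat_lit 406) (nat_lit 254) (nat_lit 240))))) (XT.nd (nat_lit 234) (nat_lit 228) (nat_lit 0) (XT.nd (nat_lit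 78) (nat_lit 0) (nat_lit 0) (XT.lf (nat_lit 0) (nat_lit 4611315643) (nat_lit 152) (nat_lit 20999882865) (nat_lit 0) (nat_lit 1243049735) (nat_lit 17) (nat_lit 5) (nat_lit 19) (nat_lit 4) (nat_lit 17) (nat_lit 4) (nat_lit 407) (nat_lit 254) (nat_lit 239)) (XT.nd (nat_lit 78) (nat_lit 0) (nat_lit 0) (XT.lf (nat_lit 0) (nat_lit 9646932305) (nat_lit 152) (nat_lit 11754187046) (nat_lit 0) (nat_lit 6102841019) (nat_lit 17) (nat_lit 5) (nat_lit 19) (nat_lit 4) (nat_lit 17) (nat_lit 4) (nat_lit 408) (nat_lit 254) (nat_lit 238)) (XT.lf (nat_lit 0) (nat_lit 14749363123) (nat_lit 152) (nat_lit 2391769445) (nat_lit 0) (nat_lit 11034567585) (nat_lit 17) (nat_lit 5) (nat_lit 19) (nat_lit 4) (nat_lit 17) (nat_lit 4) (nat_lit 409) (nat_lit 254) (nat_lit 237)))) (XT.nd (nat_lit 156) (nat_lit 152) (nat_lit 0) (XT.nd (nat_lit 78) (nat_lit 0) (nat_lit 0) (XT.lf (nat_lit 0) (nat_lit 7236766060) (nat_lit 76) (nat_lit 12755864693)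 (nat_lit 76) (nat_lit 8875336872) (nat_lit 16) (nat_lit 4) (nat_lit 17) (nat_lit 5) (nat_lit 17) (nat_lit 4) (nat_lit 410) (nat_lit 254) (nat_lit 236)) (XT.lf (nat_lit 0) (nat_lit 17048745685) (nat_lit 76) (nat_lit 8287700529) (nat_lit 76) (nat_lit 4246267579) (nat_lit 16) (nat_lit 4) (nat_lit 17) (nat_lit 5) (nat_lit 17) (nat_lit 4) (nat_lit 411) (nat_lit 254) (nat_lit 235))) (XT.nd (nat_lit 78) (nat_lit 76) (nat_lit 0) (XT.lf (nat_lit 0) (nat_lit 432162600) (nat_lit 152) (nat_lit 3320361442) (nat_lit 76) (nat_lit 26568615506) (nat_lit 15) (nat_lit 5) (nat_lit 17) (nat_lit 5) (nat_lit 16) (nat_lit 4) (nat_lit 412) (nat_lit 254) (nat_lit 234)) (XT.lf (nat_lit 0) (nat_lit 5156365552) (nat_lit 152) (nat_lit 24990651019) (nat_lit 0) (nat_lit 933724740) (nat_lit 14) (nat_lit 5) (nat_lit 16) (nat_lit 4) (nat_lit 14) (nat_lit 4) (nat_lit 413) (nat_lit 254) (nat_lit 233)))))) (XT.nd (nat_lit 468) (nat_lit 228)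 (nat_lit 0) (XT.nd (nat_lit 234) (nat_lit 0) (nat_lit 0) (XT.nd (nat_lit 78) (nat_lit 76) (nat_lit 0) (XT.lf (nat_lit 0) (nat_lit 10016463567) (nat_lit 152) (nat_lit 16195989115) (nat_lit 0) (nat_lit 5650860631) (nat_lit 14) (nat_lit 5) (nat_lit 16) (nat_lit 4) (nat_lit 14) (nat_lit 4) (nat_lit 414) (nat_lit 254) (nat_lit 232)) (XT.nd (nat_lit 78) (nat_lit 76) (nat_lit 0) (XT.lf (nat_lit 0) (nat_lit 14947756908) (nat_lit 152) (nat_lit 7280495045) (nat_lit 0) (nat_lit 10443355795) (nat_lit 14) (nat_lit 5) (nat_lit 16) (nat_lit 4) (nat_lit 14) (nat_lit 4) (nat_lit 415) (nat_lit 254) (nat_lit 231)) (XT.lf (nat_lit 0) (nat_lit 1798720953) (nat_lit 76) (nat_lit 18173123926) (nat_lit 76) (nat_lit 13533967301) (nat_lit 13) (nat_lit 4) (nat_lit 14) (nat_lit 5) (nat_lit 14) (nat_lit 4) (nat_lit 416) (nat_lit 254) (nat_lit 230)))) (XT.nd (nat_lit 78) (nat_lit 0) (nat_lit 0) (XT.lf (nat_lit 0) (nat_lit 11162075224)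 (nat_lit 76) (nat_lit 13986452604) (nat_lit 76) (nat_lit 9216465385) (nat_lit 13) (nat_lit 4) (nat_lit 14) (nat_lit 5) (nat_lit 14) (nat_lit 4) (nat_lit 417) (nat_lit 254) (nat_lit 229)) (XT.nd (nat_lit 78) (nat_lit 0) (nat_lit 0) (XT.lf (nat_lit 0) (nat_lit 20672853213) (nat_lit 76) (nat_lit 9738098457) (nat_lit 76) (nat_lit 4841091243) (nat_lit 13) (nat_lit 4) (nat_lit 14) (nat_lit 5) (nat_lit 14) (nat_lit 4) (nat_lit 418) (nat_lit 254) (nat_lit 228)) (XT.lf (nat_lit 0) (nat_lit 30339365309) (nat_lit 76) (nat_lit 5424349329) (nat_lit 76) (nat_lit 404021732) (nat_lit 13) (nat_lit 4) (nat_lit 14) (nat_lit 5) (nat_lit 14) (nat_lit 4) (nat_lit 419) (nat_lit 254) (nat_lit 227))))) (XT.nd (nat_lit 234) (nat_lit 76) (nat_lit 0) (XT.nd (nat_lit 78) (nat_lit 0) (nat_lit 0) (XT.lf (nat_lit 0) (nat_lit 3077845683) (nat_lit 76) (nat_lit 970381808) (nat_lit 152) (nat_lit 33062576676) (nat_lit 11) (nat_lit 5) (nat_lit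 12) (nat_lit 5) (nat_lit 13) (nat_lit 4) (nat_lit 420) (nat_lit 254) (nat_lit 226)) (XT.nd (nat_lit 78) (nat_lit 0) (nat_lit 0) (XT.lf (nat_lit 0) (nat_lit 8654048798) (nat_lit 152) (nat_lit 25876309743) (nat_lit 0) (nat_lit 3550847426) (nat_lit 11) (nat_lit 5) (nat_lit 13) (nat_lit 4) (nat_lit 11) (nat_lit 4) (nat_lit 421) (nat_lit 254) (nat_lit 225)) (XT.lf (nat_lit 0) (nat_lit 13343493664) (nat_lit 152) (nat_lit 17608144519) (nat_lit 0) (nat_lit 8130723730) (nat_lit 11) (nat_lit 5) (nat_lit 13) (nat_lit 4) (nat_lit 11) (nat_lit 4) (nat_lit 422) (nat_lit 254) (nat_lit 224)))) (XT.nd (nat_lit 156) (nat_lit 76) (nat_lit 0) (XT.nd (nat_lit 78) (nat_lit 0) (nat_lit 0) (XT.lf (nat_lit 0) (nat_lit 18111331760) (nat_lit 152) (nat_lit 9211910301) (nat_lit 0) (nat_lit 12792184580) (nat_lit 11) (nat_lit 5) (nat_lit 13) (nat_lit 4) (nat_lit 11) (nat_lit 4) (nat_lit 423) (nat_lit 254) (nat_lit 223)) (XT.lf (nat_lit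 0) (nat_lit 22961729158) (nat_lit 152) (nat_lit 680270572) (nat_lit 0) (nat_lit 17539303098) (nat_lit 11) (nat_lit 5) (nat_lit 13) (nat_lit 4) (nat_lit 11) (nat_lit 4) (nat_lit 424) (nat_lit 254) (nat_lit 222))) (XT.nd (nat_lit 78) (nat_lit 0) (nat_lit 0) (XT.lf (nat_lit 0) (nat_lit 8153330340) (nat_lit 76) (nat_lit 19823968526) (nat_lit 76) (nat_lit 14301271710) (nat_lit 10) (nat_lit 4) (nat_lit 11) (nat_lit 5) (nat_lit 11) (nat_lit 4) (nat_lit 425) (nat_lit 254) (nat_lit 221)) (XT.lf (nat_lit 0) (nat_lit 17153904024) (nat_lit 76) (nat_lit 15938220339) (nat_lit 76) (nat_lit 10318173274) (nat_lit 10) (nat_lit 4) (nat_lit 11) (nat_lit 5) (nat_lit 11) (nat_lit 4) (nat_lit 426) (nat_lit 254) (nat_lit 220))))))) (XT.nd (nat_lit 1014) (nat_lit 152) (nat_lit 0) (XT.nd (nat_lit 468) (nat_lit 76) (nat_lit 0) (XT.nd (nat_lit 234) (nat_lit 76) (nat_lit 0) (XT.nd (nat_lit 78) (nat_lit 76) (nat_lit 0) (XT.lf (nat_lit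 0) (nat_lit 26315776340) (nat_lit 76) (nat_lit 11988229254) (nat_lit 76) (nat_lit 6273667384) (nat_lit 10) (nat_lit 4) (nat_lit 11) (nat_lit 5) (nat_lit 11) (nat_lit 4) (nat_lit 427) (nat_lit 254) (nat_lit 219)) (XT.nd (nat_lit 78) (nat_lit 76) (nat_lit 0) (XT.lf (nat_lit 0) (nat_lit 35646952807) (nat_lit 76) (nat_lit 7970543822) (nat_lit 76) (nat_lit 2164220005) (nat_lit 10) (nat_lit 4) (nat_lit 11) (nat_lit 5) (nat_lit 11) (nat_lit 4) (nat_lit 428) (nat_lit 254) (nat_lit 218)) (XT.lf (nat_lit 0) (nat_lit 1974463936) (nat_lit 152) (nat_lit 1887251293) (nat_lit 76) (nat_lit 43161184730) (nat_lit 9) (nat_lit 5) (nat_lit 11) (nat_lit 5) (nat_lit 10) (nat_lit 4) (nat_lit 429) (nat_lit 254) (nat_lit 217)))) (XT.nd (nat_lit 78) (nat_lit 0) (nat_lit 0) (XT.lf (nat_lit 0) (nat_lit 6209212686) (nat_lit 152) (nat_lit 41689469952) (nat_lit 0) (nat_lit 401535482) (nat_lit 8) (nat_lit 5) (nat_lit 10) (nat_lit 4) (nat_lit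 8) (nat_lit 4) (nat_lit 430) (nat_lit 254) (nat_lit 216)) (XT.nd (nat_lit 78) (nat_lit 0) (nat_lit 0) (XT.lf (nat_lit 0) (nat_lit 10576465537) (nat_lit 152) (nat_lit 34351971544) (nat_lit 0) (nat_lit 4687259032) (nat_lit 8) (nat_lit 5) (nat_lit 10) (nat_lit 4) (nat_lit 8) (nat_lit 4) (nat_lit 431) (nat_lit 254) (nat_lit 215)) (XT.lf (nat_lit 0) (nat_lit 15024231710) (nat_lit 152) (nat_lit 26892055337) (nat_lit 0) (nat_lit 9055870543) (nat_lit 8) (nat_lit 5) (nat_lit 10) (nat_lit 4) (nat_lit 8) (nat_lit 4) (nat_lit 432) (nat_lit 254) (nat_lit 214))))) (XT.nd (nat_lit 234) (nat_lit 76) (nat_lit 0) (XT.nd (nat_lit 78) (nat_lit 0) (nat_lit 0) (XT.lf (nat_lit 0) (nat_lit 19556397602) (nat_lit 152) (nat_lit 19303202958) (nat_lit 0) (nat_lit 13511187250) (nat_lit 8) (nat_lit 5) (nat_lit 10) (nat_lit 4) (nat_lit 8) (nat_lit 4) (nat_lit 433) (nat_lit 254) (nat_lit 213)) (XT.nd (nat_lit 78) (nat_lit 0) (nat_lit 0)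 (XT.lf (nat_lit 0) (nat_lit 24176923359) (nat_lit 152) (nat_lit 11578783371) (nat_lit 0) (nat_lit 18057102147) (nat_lit 8) (nat_lit 5) (nat_lit 10) (nat_lit 4) (nat_lit 8) (nat_lit 4) (nat_lit 434) (nat_lit 254) (nat_lit 212)) (XT.lf (nat_lit 0) (nat_lit 28889846333) (nat_lit 152) (nat_lit 3712047083) (nat_lit 0) (nat_lit 22697587393) (nat_lit 8) (nat_lit 5) (nat_lit 10) (nat_lit 4) (nat_lit 8) (nat_lit 4) (nat_lit 435) (nat_lit 254) (nat_lit 211)))) (XT.nd (nat_lit 156) (nat_lit 0) (nat_lit 0) (XT.nd (nat_lit 78) (nat_lit 0) (nat_lit 0) (XT.lf (nat_lit 0) (nat_lit 4389535399) (nat_lit 76) (nat_lit 29351944112) (nat_lit 76) (nat_lit 23089357281) (nat_lit 7) (nat_lit 4) (nat_lit 8) (nat_lit 5) (nat_lit 8) (nat_lit 4) (nat_lit 436) (nat_lit 254) (nat_lit 210)) (XT.lf (nat_lit 0) (nat_lit 12724298235) (nat_lit 76) (nat_lit 26007456121) (nat_lit 76) (nat_lit 19676589784) (nat_lit 7) (nat_lit 4) (nat_lit 8)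 (nat_lit 5) (nat_lit 8) (nat_lit 4) (nat_lit 437) (nat_lit 254) (nat_lit 209))) (XT.nd (nat_lit 78) (nat_lit 0) (nat_lit 0) (XT.lf (nat_lit 0) (nat_lit 21225647211) (nat_lit 76) (nat_lit 22602991471) (nat_lit 76) (nat_lit 16205834352) (nat_lit 7) (nat_lit 4) (nat_lit 8) (nat_lit 5) (nat_lit 8) (nat_lit 4) (nat_lit 438) (nat_lit 254) (nat_lit 208)) (XT.lf (nat_lit 0) (nat_lit 29901010692) (nat_lit 76) (nat_lit 19135575389) (nat_lit 76) (nat_lit 12674058286) (nat_lit 7) (nat_lit 4) (nat_lit 8) (nat_lit 5) (nat_lit 8) (nat_lit 4) (nat_lit 439) (nat_lit 254) (nat_lit 207)))))) (XT.nd (nat_lit 546) (nat_lit 0) (nat_lit 0) (XT.nd (nat_lit 234) (nat_lit 152) (nat_lit 0) (XT.nd (nat_lit 78) (nat_lit 0) (nat_lit 0) (XT.lf (nat_lit 0) (nat_lit 38757969090) (nat_lit 76) (nat_lit 15602178092) (nat_lit 76) (nat_lit 9078175569) (nat_lit 7) (nat_lit 4) (nat_lit 8) (nat_lit 5) (nat_lit 8) (nat_lit 4) (nat_lit 440) (nat_lit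 254) (nat_lit 206)) (XT.nd (nat_lit 78) (nat_lit 0) (nat_lit 0) (XT.lf (nat_lit 0) (nat_lit 47804261497) (nat_lit 76) (nat_lit 11999712147) (nat_lit 76) (nat_lit 5415044167) (nat_lit 7) (nat_lit 4) (nat_lit 8) (nat_lit 5) (nat_lit 8) (nat_lit 4) (nat_lit 441) (nat_lit 254) (nat_lit 205)) (XT.lf (nat_lit 0) (nat_lit 57047792440) (nat_lit 76) (nat_lit 8325029767) (nat_lit 76) (nat_lit 1681463285) (nat_lit 7) (nat_lit 4) (nat_lit 8) (nat_lit 5) (nat_lit 8) (nat_lit 4) (nat_lit 442) (nat_lit 254) (nat_lit 204)))) (XT.nd (nat_lit 156) (nat_lit 0) (nat_lit 0) (XT.nd (nat_lit 78) (nat_lit 76) (nat_lit 0) (XT.lf (nat_lit 0) (nat_lit 2084346838) (nat_lit 152) (nat_lit 2469525410) (nat_lit 76) (nat_lit 64391244135) (nat_lit 6) (nat_lit 5) (nat_lit 8) (nat_lit 5) (nat_lit 7) (nat_lit 4) (nat_lit 443) (nat_lit 254) (nat_lit 203)) (XT.lf (nat_lit 0) (nat_lit 5309896348) (nat_lit 76) (nat_lit 634026473) (nat_lit 152)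 (nat_lit 64947815052) (nat_lit 5) (nat_lit 5) (nat_lit 6) (nat_lit 5) (nat_lit 7) (nat_lit 4) (nat_lit 444) (nat_lit 254) (nat_lit 202))) (XT.nd (nat_lit 78) (nat_lit 0) (nat_lit 0) (XT.lf (nat_lit 0) (nat_lit 9940795441) (nat_lit 152) (nat_lit 59626337561) (nat_lit 0) (nat_lit 3328982381) (nat_lit 5) (nat_lit 5) (nat_lit 7) (nat_lit 4) (nat_lit 5) (nat_lit 4) (nat_lit 445) (nat_lit 254) (nat_lit 201)) (XT.lf (nat_lit 0) (nat_lit 14028521035) (nat_lit 152) (nat_lit 53567075748) (nat_lit 0) (nat_lit 7365901610) (nat_lit 5) (nat_lit 5) (nat_lit 7) (nat_lit 4) (nat_lit 5) (nat_lit 4) (nat_lit 446) (nat_lit 254) (nat_lit 200))))) (XT.nd (nat_lit 234) (nat_lit 0) (nat_lit 0) (XT.nd (nat_lit 78) (nat_lit 0) (nat_lit 0) (XT.lf (nat_lit 0) (nat_lit 18204576752) (nat_lit 152) (nat_lit 47392666936) (nat_lit 0) (nat_lit 11492630758) (nat_lit 5) (nat_lit 5) (nat_lit 7) (nat_lit 4) (nat_lit 5) (nat_lit 4) (nat_lit 447)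 (nat_lit 254) (nat_lit 199)) (XT.nd (nat_lit 78) (nat_lit 0) (nat_lit 0) (XT.lf (nat_lit 0) (nat_lit 22472611571) (nat_lit 152) (nat_lit 41097716010) (nat_lit 0) (nat_lit 15712775706) (nat_lit 5) (nat_lit 5) (nat_lit 7) (nat_lit 4) (nat_lit 5) (nat_lit 4) (nat_lit 448) (nat_lit 254) (nat_lit 198)) (XT.lf (nat_lit 0) (nat_lit 26836354845) (nat_lit 152) (nat_lit 34676722529) (nat_lit 0) (nat_lit 20030023958) (nat_lit 5) (nat_lit 5) (nat_lit 7) (nat_lit 4) (nat_lit 5) (nat_lit 4) (nat_lit 449) (nat_lit 254) (nat_lit 197)))) (XT.nd (nat_lit 42276) (nat_lit 0) (nat_lit 1748) (XT.nd (nat_lit 42198) (nat_lit 0) (nat_lit 1900) (XT.lf (nat_lit 0) (nat_lit 31299619552) (nat_lit 152) (nat_lit 28124075914) (nat_lit 0) (nat_lit 24448147868) (nat_lit 5) (nat_lit 5) (nat_lit 7) (nat_lit 4) (nat_lit 5) (nat_lit 4) (nat_lit 450) (nat_lit 254) (nat_lit 196)) (XT.lf (nat_lit 0) (nat_lit 1929669755) (nat_lit 152) (nat_lit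 5345273218) (nat_lit 0) (nat_lit 1929669755) (nat_lit 30) (nat_lit 5) (nat_lit 32) (nat_lit 4) (nat_lit 30) (nat_lit 4) (nat_lit 390) (nat_lit 255) (nat_lit 255))) (XT.nd (nat_lit 78) (nat_lit 152) (nat_lit 0) (XT.lf (nat_lit 0) (nat_lit 9264778909) (nat_lit 152) (nat_lit 580192431) (nat_lit 0) (nat_lit 8947218718) (nat_lit 30) (nat_lit 5) (nat_lit 32) (nat_lit 4) (nat_lit 30) (nat_lit 4) (nat_lit 391) (nat_lit 255) (nat_lit 254)) (XT.lf (nat_lit 0) (nat_lit 9823614100) (nat_lit 152) (nat_lit 4994669567) (nat_lit 152) (nat_lit 4368798510) (nat_lit 28) (nat_lit 4) (nat_lit 30) (nat_lit 5) (nat_lit 30) (nat_lit 4) (nat_lit 392) (nat_lit 255) (nat_lit 253))))))))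
noncomputable def xc17 : XT := (XT.nd (nat_lit 2028) (nat_lit 608) (nat_lit 0) (XT.nd (nat_lit 1014) (nat_lit 456) (nat_lit 0) (XT.nd (nat_lit 468) (nat_lit 304) (nat_lit 0) (XT.nd (nat_lit 234) (nat_lit 152) (nat_lit 0) (XT.nd (nat_lit 78) (nat_lit 76) (nat_lit 0) (XT.lf (nat_lit 0) (nat_lit 761762246) (nat_lit 76) (nat_lit 69254621) (nat_lit 152) (nat_lit 18765400255) (nat_lit 26) (nat_lit 5) (nat_lit 27) (nat_lit 5) (nat_lit 28) (nat_lit 4) (nat_lit 393) (nat_lit 255) (nat_lit 252)) (XT.nd (nat_lit 78) (nat_lit 76) (nat_lit 0) (XT.lf (nat_lit 0) (nat_lit 6134590171) (nat_lit 152) (nat_lit 8926903751) (nat_lit 0) (nat_lit 4954187690) (nat_lit 26) (nat_lit 5) (nat_lit 28) (nat_lit 4) (nat_lit 26) (nat_lit 4) (nat_lit 394) (nat_lit 255) (nat_lit 251)) (XT.lf (nat_lit 0) (nat_lit 1102691064) (nat_lit 76) (nat_lit 10400993574) (nat_lit 76) (nat_lit 8946660882) (nat_lit 25) (nat_lit 4) (nat_lit 26) (nat_lit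 5) (nat_lit 26) (nat_lit 4) (nat_lit 395) (nat_lit 255) (nat_lit 250)))) (XT.nd (nat_lit 78) (nat_lit 152) (nat_lit 0) (XT.lf (nat_lit 0) (nat_lit 11421869602) (nat_lit 76) (nat_lit 5598441903) (nat_lit 76) (nat_lit 3878157549) (nat_lit 25) (nat_lit 4) (nat_lit 26) (nat_lit 5) (nat_lit 26) (nat_lit 4) (nat_lit 396) (nat_lit 255) (nat_lit 249)) (XT.nd (nat_lit 78) (nat_lit 0) (nat_lit 0) (XT.lf (nat_lit 0) (nat_lit 496701657) (nat_lit 76) (nat_lit 722604503) (nat_lit 152) (nat_lit 20143262727) (nat_lit 23) (nat_lit 5) (nat_lit 24) (nat_lit 5) (nat_lit 25) (nat_lit 4) (nat_lit 397) (nat_lit 255) (nat_lit 248)) (XT.lf (nat_lit 0) (nat_lit 6428342369) (nat_lit 152) (nat_lit 11145916905) (nat_lit 0) (nat_lit 4264094994) (nat_lit 23) (nat_lit 5) (nat_lit 25) (nat_lit 4) (nat_lit 23) (nat_lit 4) (nat_lit 398) (nat_lit 255) (nat_lit 247))))) (XT.nd (nat_lit 234) (nat_lit 228) (nat_lit 0) (XT.nd (nat_lit 78) (nat_lit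 76) (nat_lit 0) (XT.lf (nat_lit 0) (nat_lit 11702380537) (nat_lit 152) (nat_lit 1326944185) (nat_lit 0) (nat_lit 9301838555) (nat_lit 23) (nat_lit 5) (nat_lit 25) (nat_lit 4) (nat_lit 23) (nat_lit 4) (nat_lit 399) (nat_lit 255) (nat_lit 246)) (XT.nd (nat_lit 78) (nat_lit 0) (nat_lit 0) (XT.lf (nat_lit 0) (nat_lit 8777864484) (nat_lit 76) (nat_lit 8345596648) (nat_lit 76) (nat_lit 5715642427) (nat_lit 22) (nat_lit 4) (nat_lit 23) (nat_lit 5) (nat_lit 23) (nat_lit 4) (nat_lit 400) (nat_lit 255) (nat_lit 245)) (XT.lf (nat_lit 0) (nat_lit 19034762395) (nat_lit 76) (nat_lit 3591324069) (nat_lit 76) (nat_lit 738639519) (nat_lit 22) (nat_lit 4) (nat_lit 23) (nat_lit 5) (nat_lit 23) (nat_lit 4) (nat_lit 401) (nat_lit 255) (nat_lit 244)))) (XT.nd (nat_lit 156) (nat_lit 76) (nat_lit 0) (XT.nd (nat_lit 78) (nat_lit 0) (nat_lit 0) (XT.lf (nat_lit 0) (nat_lit 4275796140) (nat_lit 152) (nat_lit 18333599233) (nat_lit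 0) (nat_lit 1296254792) (nat_lit 20) (nat_lit 5) (nat_lit 22) (nat_lit 4) (nat_lit 20) (nat_lit 4) (nat_lit 402) (nat_lit 255) (nat_lit 243)) (XT.lf (nat_lit 0) (nat_lit 9413128970) (nat_lit 152) (nat_lit 8820086931) (nat_lit 0) (nat_lit 6229757819) (nat_lit 20) (nat_lit 5) (nat_lit 22) (nat_lit 4) (nat_lit 20) (nat_lit 4) (nat_lit 403) (nat_lit 255) (nat_lit 242))) (XT.nd (nat_lit 78) (nat_lit 0) (nat_lit 0) (XT.lf (nat_lit 0) (nat_lit 824850186) (nat_lit 76) (nat_lit 13797947265) (nat_lit 76) (nat_lit 10416683102) (nat_lit 19) (nat_lit 4) (nat_lit 20) (nat_lit 5) (nat_lit 20) (nat_lit 4) (nat_lit 404) (nat_lit 255) (nat_lit 241)) (XT.lf (nat_lit 0) (nat_lit 10771529616) (nat_lit 76) (nat_lit 9217572818) (nat_lit 76) (nat_lit 5644179516) (nat_lit 19) (nat_lit 4) (nat_lit 20) (nat_lit 5) (nat_lit 20) (nat_lit 4) (nat_lit 405) (nat_lit 255) (nat_lit 240)))))) (XT.nd (nat_lit 468) (nat_lit 228) (nat_lit 0)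 (XT.nd (nat_lit 234) (nat_lit 76) (nat_lit 0) (XT.nd (nat_lit 78) (nat_lit 152) (nat_lit 0) (XT.lf (nat_lit 0) (nat_lit 20853105607) (nat_lit 76) (nat_lit 4577155872) (nat_lit 76) (nat_lit 817229426) (nat_lit 19) (nat_lit 4) (nat_lit 20) (nat_lit 5) (nat_lit 20) (nat_lit 4) (nat_lit 406) (nat_lit 255) (nat_lit 239)) (XT.nd (nat_lit 78) (nat_lit 0) (nat_lit 0) (XT.lf (nat_lit 0) (nat_lit 4031762303) (nat_lit 152) (nat_lit 22642902687) (nat_lit 0) (nat_lit 205522899) (nat_lit 17) (nat_lit 5) (nat_lit 19) (nat_lit 4) (nat_lit 17) (nat_lit 4) (nat_lit 407) (nat_lit 255) (nat_lit 238)) (XT.lf (nat_lit 0) (nat_lit 9025874362) (nat_lit 152) (nat_lit 13476344352) (nat_lit 0) (nat_lit 5028930707) (nat_lit 17) (nat_lit 5) (nat_lit 19) (nat_lit 4) (nat_lit 17) (nat_lit 4) (nat_lit 408) (nat_lit 255) (nat_lit 237)))) (XT.nd (nat_lit 78) (nat_lit 76) (nat_lit 0) (XT.lf (nat_lit 0) (nat_lit 14088009449) (nat_lit 152)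 (nat_lit 4190759261) (nat_lit 0) (nat_lit 9925333511) (nat_lit 17) (nat_lit 5) (nat_lit 19) (nat_lit 4) (nat_lit 17) (nat_lit 4) (nat_lit 409) (nat_lit 255) (nat_lit 236)) (XT.nd (nat_lit 78) (nat_lit 0) (nat_lit 0) (XT.lf (nat_lit 0) (nat_lit 5325893571) (nat_lit 76) (nat_lit 13947892963) (nat_lit 76) (nat_lit 9624311897) (nat_lit 16) (nat_lit 4) (nat_lit 17) (nat_lit 5) (nat_lit 17) (nat_lit 4) (nat_lit 410) (nat_lit 255) (nat_lit 235)) (XT.lf (nat_lit 0) (nat_lit 15064009848) (nat_lit 76) (nat_lit 9514899537) (nat_lit 76) (nat_lit 5035099899) (nat_lit 16) (nat_lit 4) (nat_lit 17) (nat_lit 5) (nat_lit 17) (nat_lit 4) (nat_lit 411) (nat_lit 255) (nat_lit 234))))) (XT.nd (nat_lit 234) (nat_lit 76) (nat_lit 0) (XT.nd (nat_lit 78) (nat_lit 152) (nat_lit 0) (XT.lf (nat_lit 0) (nat_lit 24948694275) (nat_lit 76) (nat_lit 5018233392) (nat_lit 76) (nat_lit 386765238) (nat_lit 16) (nat_lit 4) (nat_lit 17) (nat_lit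 5) (nat_lit 17) (nat_lit 4) (nat_lit 412) (nat_lit 255) (nat_lit 233)) (XT.nd (nat_lit 78) (nat_lit 0) (nat_lit 0) (XT.lf (nat_lit 0) (nat_lit 3905425063) (nat_lit 76) (nat_lit 372478485) (nat_lit 152) (nat_lit 26837518670) (nat_lit 14) (nat_lit 5) (nat_lit 15) (nat_lit 5) (nat_lit 16) (nat_lit 4) (nat_lit 413) (nat_lit 255) (nat_lit 232)) (XT.lf (nat_lit 0) (nat_lit 9097668552) (nat_lit 152) (nat_lit 18482201899) (nat_lit 0) (nat_lit 4319337229) (nat_lit 14) (nat_lit 5) (nat_lit 16) (nat_lit 4) (nat_lit 14) (nat_lit 4) (nat_lit 414) (nat_lit 255) (nat_lit 231)))) (XT.nd (nat_lit 156) (nat_lit 76) (nat_lit 0) (XT.nd (nat_lit 78) (nat_lit 0) (nat_lit 0) (XT.lf (nat_lit 0) (nat_lit 13993279836) (nat_lit 152) (nat_lit 9635103109) (nat_lit 0) (nat_lit 9080193000) (nat_lit 14) (nat_lit 5) (nat_lit 16) (nat_lit 4) (nat_lit 14) (nat_lit 4) (nat_lit 415) (nat_lit 255) (nat_lit 230)) (XT.lf (nat_lit 0) (nat_lit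 18965434627) (nat_lit 152) (nat_lit 657389819) (nat_lit 0) (nat_lit 13921517197) (nat_lit 14) (nat_lit 5) (nat_lit 16) (nat_lit 4) (nat_lit 14) (nat_lit 4) (nat_lit 416) (nat_lit 255) (nat_lit 229))) (XT.nd (nat_lit 78) (nat_lit 0) (nat_lit 0) (XT.lf (nat_lit 0) (nat_lit 8627128933) (nat_lit 76) (nat_lit 15474277834) (nat_lit 76) (nat_lit 10303340410) (nat_lit 13) (nat_lit 4) (nat_lit 14) (nat_lit 5) (nat_lit 14) (nat_lit 4) (nat_lit 417) (nat_lit 255) (nat_lit 228)) (XT.lf (nat_lit 0) (nat_lit 18074069861) (nat_lit 76) (nat_lit 11256492970) (nat_lit 76) (nat_lit 5962235162) (nat_lit 13) (nat_lit 4) (nat_lit 14) (nat_lit 5) (nat_lit 14) (nat_lit 4) (nat_lit 418) (nat_lit 255) (nat_lit 227))))))) (XT.nd (nat_lit 1014) (nat_lit 228) (nat_lit 0) (XT.nd (nat_lit 468) (nat_lit 228) (nat_lit 0) (XT.nd (nat_lit 234) (nat_lit 0) (nat_lit 0) (XT.nd (nat_lit 78) (nat_lit 152) (nat_lit 0) (XT.lf (nat_lit 0) (nat_lit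 27678604227) (nat_lit 76) (nat_lit 6972422757) (nat_lit 76) (nat_lit 1558436422) (nat_lit 13) (nat_lit 4) (nat_lit 14) (nat_lit 5) (nat_lit 14) (nat_lit 4) (nat_lit 419) (nat_lit 255) (nat_lit 226)) (XT.nd (nat_lit 78) (nat_lit 0) (nat_lit 0) (XT.lf (nat_lit 0) (nat_lit 270874693) (nat_lit 76) (nat_lit 2586811176) (nat_lit 152) (nat_lit 34296940675) (nat_lit 11) (nat_lit 5) (nat_lit 12) (nat_lit 5) (nat_lit 13) (nat_lit 4) (nat_lit 420) (nat_lit 255) (nat_lit 225)) (XT.lf (nat_lit 0) (nat_lit 7416363739) (nat_lit 152) (nat_lit 28772439505) (nat_lit 0) (nat_lit 1937642143) (nat_lit 11) (nat_lit 5) (nat_lit 13) (nat_lit 4) (nat_lit 11) (nat_lit 4) (nat_lit 421) (nat_lit 255) (nat_lit 224)))) (XT.nd (nat_lit 78) (nat_lit 0) (nat_lit 0) (XT.lf (nat_lit 0) (nat_lit 12075123819) (nat_lit 152) (nat_lit 20563375741) (nat_lit 0) (nat_lit 6490024978) (nat_lit 11) (nat_lit 5) (nat_lit 13) (nat_lit 4) (nat_lit 11)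 (nat_lit 4) (nat_lit 422) (nat_lit 255) (nat_lit 223)) (XT.nd (nat_lit 78) (nat_lit 0) (nat_lit 0) (XT.lf (nat_lit 0) (nat_lit 16813170860) (nat_lit 152) (nat_lit 12224521579) (nat_lit 0) (nat_lit 11124793140) (nat_lit 11) (nat_lit 5) (nat_lit 13) (nat_lit 4) (nat_lit 11) (nat_lit 4) (nat_lit 423) (nat_lit 255) (nat_lit 222)) (XT.lf (nat_lit 0) (nat_lit 21634644903) (nat_lit 152) (nat_lit 3748590643) (nat_lit 0) (nat_lit 15845996426) (nat_lit 11) (nat_lit 5) (nat_lit 13) (nat_lit 4) (nat_lit 11) (nat_lit 4) (nat_lit 424) (nat_lit 255) (nat_lit 221))))) (XT.nd (nat_lit 234) (nat_lit 152) (nat_lit 0) (XT.nd (nat_lit 78) (nat_lit 0) (nat_lit 0) (XT.lf (nat_lit 0) (nat_lit 4968782054) (nat_lit 76) (nat_lit 21622739805) (nat_lit 76) (nat_lit 15736741079) (nat_lit 10) (nat_lit 4) (nat_lit 11) (nat_lit 5) (nat_lit 11) (nat_lit 4) (nat_lit 425) (nat_lit 255) (nat_lit 220)) (XT.nd (nat_lit 78) (nat_lit 0) (nat_lit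 0) (XT.lf (nat_lit 0) (nat_lit 13915799788) (nat_lit 76) (nat_lit 17762769720) (nat_lit 76) (nat_lit 11782256189) (nat_lit 10) (nat_lit 4) (nat_lit 11) (nat_lit 5) (nat_lit 11) (nat_lit 4) (nat_lit 426) (nat_lit 255) (nat_lit 219)) (XT.lf (nat_lit 0) (nat_lit 23025676036) (nat_lit 76) (nat_lit 13837805918) (nat_lit 76) (nat_lit 7765530441) (nat_lit 10) (nat_lit 4) (nat_lit 11) (nat_lit 5) (nat_lit 11) (nat_lit 4) (nat_lit 427) (nat_lit 255) (nat_lit 218)))) (XT.nd (nat_lit 156) (nat_lit 76) (nat_lit 0) (XT.nd (nat_lit 78) (nat_lit 76) (nat_lit 0) (XT.lf (nat_lit 0) (nat_lit 32306370884) (nat_lit 76) (nat_lit 9844418820) (nat_lit 76) (nat_lit 3683054074) (nat_lit 10) (nat_lit 4) (nat_lit 11) (nat_lit 5) (nat_lit 11) (nat_lit 4) (nat_lit 428) (nat_lit 255) (nat_lit 217)) (XT.lf (nat_lit 0) (nat_lit 459593315) (nat_lit 152) (nat_lit 5314884750) (nat_lit 76) (nat_lit 41301759369) (nat_lit 9) (nat_lit 5) (nat_lit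 11) (nat_lit 5) (nat_lit 10) (nat_lit 4) (nat_lit 429) (nat_lit 255) (nat_lit 216))) (XT.nd (nat_lit 78) (nat_lit 0) (nat_lit 0) (XT.lf (nat_lit 0) (nat_lit 3069913985) (nat_lit 76) (nat_lit 1561489140) (nat_lit 152) (nat_lit 43724042675) (nat_lit 8) (nat_lit 5) (nat_lit 9) (nat_lit 5) (nat_lit 10) (nat_lit 4) (nat_lit 430) (nat_lit 255) (nat_lit 215)) (XT.lf (nat_lit 0) (nat_lit 8958767041) (nat_lit 152) (nat_lit 37981155022) (nat_lit 0) (nat_lit 2732200378) (nat_lit 8) (nat_lit 5) (nat_lit 10) (nat_lit 4) (nat_lit 8) (nat_lit 4) (nat_lit 431) (nat_lit 255) (nat_lit 214)))))) (XT.nd (nat_lit 546) (nat_lit 152) (nat_lit 0) (XT.nd (nat_lit 234) (nat_lit 76) (nat_lit 0) (XT.nd (nat_lit 78) (nat_lit 0) (nat_lit 0) (XT.lf (nat_lit 0) (nat_lit 13382378896) (nat_lit 152) (nat_lit 30567968526) (nat_lit 0) (nat_lit 7078963047) (nat_lit 8) (nat_lit 5) (nat_lit 10) (nat_lit 4) (nat_lit 8) (nat_lit 4) (nat_lit 432)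 (nat_lit 255) (nat_lit 213)) (XT.nd (nat_lit 78) (nat_lit 0) (nat_lit 0) (XT.lf (nat_lit 0) (nat_lit 17891093994) (nat_lit 152) (nat_lit 23024484799) (nat_lit 0) (nat_lit 11513067286) (nat_lit 8) (nat_lit 5) (nat_lit 10) (nat_lit 4) (nat_lit 8) (nat_lit 4) (nat_lit 433) (nat_lit 255) (nat_lit 212)) (XT.lf (nat_lit 0) (nat_lit 22488851989) (nat_lit 152) (nat_lit 15344112447) (nat_lit 0) (nat_lit 16038387553) (nat_lit 8) (nat_lit 5) (nat_lit 10) (nat_lit 4) (nat_lit 8) (nat_lit 4) (nat_lit 434) (nat_lit 255) (nat_lit 211)))) (XT.nd (nat_lit 156) (nat_lit 0) (nat_lit 0) (XT.nd (nat_lit 78) (nat_lit 76) (nat_lit 0) (XT.lf (nat_lit 0) (nat_lit 27179670340) (nat_lit 152) (nat_lit 7520140465) (nat_lit 0) (nat_lit 20658878013) (nat_lit 8) (nat_lit 5) (nat_lit 10) (nat_lit 4) (nat_lit 8) (nat_lit 4) (nat_lit 435) (nat_lit 255) (nat_lit 210)) (XT.lf (nat_lit 0) (nat_lit 463308444) (nat_lit 76) (nat_lit 31508792980)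 (nat_lit 76) (nat_lit 24919721147) (nat_lit 7) (nat_lit 4) (nat_lit 8) (nat_lit 5) (nat_lit 8) (nat_lit 4) (nat_lit 436) (nat_lit 255) (nat_lit 209))) (XT.nd (nat_lit 78) (nat_lit 0) (nat_lit 0) (XT.lf (nat_lit 0) (nat_lit 8756959583) (nat_lit 76) (nat_lit 28184185768) (nat_lit 76) (nat_lit 21528823152) (nat_lit 7) (nat_lit 4) (nat_lit 8) (nat_lit 5) (nat_lit 8) (nat_lit 4) (nat_lit 437) (nat_lit 255) (nat_lit 208)) (XT.lf (nat_lit 0) (nat_lit 17218394291) (nat_lit 76) (nat_lit 24799022846) (nat_lit 76) (nat_lit 18079300247) (nat_lit 7) (nat_lit 4) (nat_lit 8) (nat_lit 5) (nat_lit 8) (nat_lit 4) (nat_lit 438) (nat_lit 255) (nat_lit 207))))) (XT.nd (nat_lit 234) (nat_lit 152) (nat_lit 0) (XT.nd (nat_lit 78) (nat_lit 0) (nat_lit 0) (XT.lf (nat_lit 0) (nat_lit 25855006054) (nat_lit 76) (nat_lit 21350346304) (nat_lit 76) (nat_lit 14568138285) (nat_lit 7) (nat_lit 4) (nat_lit 8) (nat_lit 5) (nat_lit 8) (nat_lit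 4) (nat_lit 439) (nat_lit 255) (nat_lit 206)) (XT.nd (nat_lit 78) (nat_lit 0) (nat_lit 0) (XT.lf (nat_lit 0) (nat_lit 34674341426) (nat_lit 76) (nat_lit 17835142737) (nat_lit 76) (nat_lit 10992269260) (nat_lit 7) (nat_lit 4) (nat_lit 8) (nat_lit 5) (nat_lit 8) (nat_lit 4) (nat_lit 440) (nat_lit 255) (nat_lit 205)) (XT.lf (nat_lit 0) (nat_lit 43684106623) (nat_lit 76) (nat_lit 14250340606) (nat_lit 76) (nat_lit 7348568628) (nat_lit 7) (nat_lit 4) (nat_lit 8) (nat_lit 5) (nat_lit 8) (nat_lit 4) (nat_lit 441) (nat_lit 255) (nat_lit 204)))) (XT.nd (nat_lit 156) (nat_lit 76) (nat_lit 0) (XT.nd (nat_lit 78) (nat_lit 76) (nat_lit 0) (XT.lf (nat_lit 0) (nat_lit 52892174255) (nat_lit 76) (nat_lit 10592807561) (nat_lit 76) (nat_lit 3633852571) (nat_lit 7) (nat_lit 4) (nat_lit 8) (nat_lit 5) (nat_lit 8) (nat_lit 4) (nat_lit 442) (nat_lit 255) (nat_lit 203)) (XT.lf (nat_lit 0) (nat_lit 152097734) (nat_lit 152) (nat_lit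 6705714075) (nat_lit 76) (nat_lit 62152956583) (nat_lit 6) (nat_lit 5) (nat_lit 8) (nat_lit 5) (nat_lit 7) (nat_lit 4) (nat_lit 443) (nat_lit 255) (nat_lit 202))) (XT.nd (nat_lit 78) (nat_lit 0) (nat_lit 0) (XT.lf (nat_lit 0) (nat_lit 954951147) (nat_lit 76) (nat_lit 2997425254) (nat_lit 152) (nat_lit 67006793708) (nat_lit 5) (nat_lit 5) (nat_lit 6) (nat_lit 5) (nat_lit 7) (nat_lit 4) (nat_lit 444) (nat_lit 255) (nat_lit 201)) (XT.lf (nat_lit 0) (nat_lit 7909126304) (nat_lit 152) (nat_lit 64059804337) (nat_lit 0) (nat_lit 995821930) (nat_lit 5) (nat_lit 5) (nat_lit 7) (nat_lit 4) (nat_lit 5) (nat_lit 4) (nat_lit 445) (nat_lit 255) (nat_lit 200))))))))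
noncomputable def xc18 : XT := (XT.nd (nat_lit 43992) (nat_lit 0) (nat_lit 228) (XT.nd (nat_lit 42978) (nat_lit 0) (nat_lit 912) (XT.nd (nat_lit 42432) (nat_lit 0) (nat_lit 1520) (XT.nd (nat_lit 234) (nat_lit 0) (nat_lit 0) (XT.nd (nat_lit 78) (nat_lit 0) (nat_lit 0) (XT.lf (nat_lit 0) (nat_lit 11979954535) (nat_lit 152) (nat_lit 58033365606) (nat_lit 0) (nat_lit 5017323594) (nat_lit 5) (nat_lit 5) (nat_lit 7) (nat_lit 4) (nat_lit 5) (nat_lit 4) (nat_lit 446) (nat_lit 255) (nat_lit 199)) (XT.nd (nat_lit 78) (nat_lit 0) (nat_lit 0) (XT.lf (nat_lit 0) (nat_lit 16139605046) (nat_lit 152) (nat_lit 51890823863) (nat_lit 0) (nat_lit 9129084232) (nat_lit 5) (nat_lit 5) (nat_lit 7) (nat_lit 4) (nat_lit 5) (nat_lit 4) (nat_lit 447) (nat_lit 255) (nat_lit 198)) (XT.lf (nat_lit 0) (nat_lit 20391712481) (nat_lit 152) (nat_lit 45626811840) (nat_lit 0) (nat_lit 13334696646) (nat_lit 5) (nat_lit 5) (nat_lit 7) (nat_lit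 4) (nat_lit 5) (nat_lit 4) (nat_lit 448) (nat_lit 255) (nat_lit 197)))) (XT.nd (nat_lit 78) (nat_lit 0) (nat_lit 0) (XT.lf (nat_lit 0) (nat_lit 24739992274) (nat_lit 152) (nat_lit 39235856127) (nat_lit 0) (nat_lit 17637835642) (nat_lit 5) (nat_lit 5) (nat_lit 7) (nat_lit 4) (nat_lit 5) (nat_lit 4) (nat_lit 449) (nat_lit 255) (nat_lit 196)) (XT.nd (nat_lit 42042) (nat_lit 0) (nat_lit 2052) (XT.lf (nat_lit 0) (nat_lit 29188243894) (nat_lit 152) (nat_lit 32712372395) (nat_lit 0) (nat_lit 22042261245) (nat_lit 5) (nat_lit 5) (nat_lit 7) (nat_lit 4) (nat_lit 5) (nat_lit 4) (nat_lit 450) (nat_lit 255) (nat_lit 195)) (XT.lf (nat_lit 0) (nat_lit 2475863157) (nat_lit 152) (nat_lit 3181341523) (nat_lit 152) (nat_lit 3181341523) (nat_lit 32) (nat_lit 4) (nat_lit 34) (nat_lit 5) (nat_lit 34) (nat_lit 4) (nat_lit 388) (nat_lit 256) (nat_lit 256))))) (XT.nd (nat_lit 234) (nat_lit 380) (nat_lit 0) (XT.nd (nat_lit 78)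 (nat_lit 152) (nat_lit 0) (XT.lf (nat_lit 0) (nat_lit 15398000791) (nat_lit 152) (nat_lit 1489019670) (nat_lit 152) (nat_lit 1152120062) (nat_lit 32) (nat_lit 4) (nat_lit 34) (nat_lit 5) (nat_lit 34) (nat_lit 4) (nat_lit 389) (nat_lit 256) (nat_lit 255)) (XT.nd (nat_lit 78) (nat_lit 0) (nat_lit 0) (XT.lf (nat_lit 0) (nat_lit 4131360369) (nat_lit 152) (nat_lit 10792811832) (nat_lit 0) (nat_lit 3486713180) (nat_lit 30) (nat_lit 5) (nat_lit 32) (nat_lit 4) (nat_lit 30) (nat_lit 4) (nat_lit 390) (nat_lit 256) (nat_lit 254)) (XT.lf (nat_lit 0) (nat_lit 9483337496) (nat_lit 152) (nat_lit 781744619) (nat_lit 0) (nat_lit 8530379442) (nat_lit 30) (nat_lit 5) (nat_lit 32) (nat_lit 4) (nat_lit 30) (nat_lit 4) (nat_lit 391) (nat_lit 256) (nat_lit 253)))) (XT.nd (nat_lit 156) (nat_lit 76) (nat_lit 0) (XT.nd (nat_lit 78) (nat_lit 152) (nat_lit 0) (XT.lf (nat_lit 0) (nat_lit 9519737235) (nat_lit 152) (nat_lit 5462278850)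 (nat_lit 152) (nat_lit 4209989858) (nat_lit 28) (nat_lit 4) (nat_lit 30) (nat_lit 5) (nat_lit 30) (nat_lit 4) (nat_lit 392) (nat_lit 256) (nat_lit 252)) (XT.lf (nat_lit 0) (nat_lit 346850232) (nat_lit 76) (nat_lit 584061977) (nat_lit 152) (nat_lit 18672064369) (nat_lit 26) (nat_lit 5) (nat_lit 27) (nat_lit 5) (nat_lit 28) (nat_lit 4) (nat_lit 393) (nat_lit 256) (nat_lit 251))) (XT.nd (nat_lit 78) (nat_lit 76) (nat_lit 0) (XT.lf (nat_lit 0) (nat_lit 6177876049) (nat_lit 152) (nat_lit 9440086985) (nat_lit 0) (nat_lit 4405983165) (nat_lit 26) (nat_lit 5) (nat_lit 28) (nat_lit 4) (nat_lit 26) (nat_lit 4) (nat_lit 394) (nat_lit 256) (nat_lit 250)) (XT.lf (nat_lit 0) (nat_lit 483581720) (nat_lit 76) (nat_lit 11007281401) (nat_lit 76) (nat_lit 8969436856) (nat_lit 25) (nat_lit 4) (nat_lit 26) (nat_lit 5) (nat_lit 26) (nat_lit 4) (nat_lit 395) (nat_lit 256) (nat_lit 249)))))) (XT.nd (nat_lit 468) (nat_lit 380)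 (nat_lit 0) (XT.nd (nat_lit 234) (nat_lit 76) (nat_lit 0) (XT.nd (nat_lit 78) (nat_lit 152) (nat_lit 0) (XT.lf (nat_lit 0) (nat_lit 10709835252) (nat_lit 76) (nat_lit 6248066206) (nat_lit 76) (nat_lit 3952016166) (nat_lit 25) (nat_lit 4) (nat_lit 26) (nat_lit 5) (nat_lit 26) (nat_lit 4) (nat_lit 396) (nat_lit 256) (nat_lit 248)) (XT.nd (nat_lit 78) (nat_lit 76) (nat_lit 0) (XT.lf (nat_lit 0) (nat_lit 1093487167) (nat_lit 152) (nat_lit 326956037) (nat_lit 76) (nat_lit 19955203685) (nat_lit 24) (nat_lit 5) (nat_lit 26) (nat_lit 5) (nat_lit 25) (nat_lit 4) (nat_lit 397) (nat_lit 256) (nat_lit 247)) (XT.lf (nat_lit 0) (nat_lit 6244093590) (nat_lit 152) (nat_lit 12073856739) (nat_lit 0) (nat_lit 3535240742) (nat_lit 23) (nat_lit 5) (nat_lit 25) (nat_lit 4) (nat_lit 23) (nat_lit 4) (nat_lit 398) (nat_lit 256) (nat_lit 246)))) (XT.nd (nat_lit 78) (nat_lit 76) (nat_lit 0) (XT.lf (nat_lit 0) (nat_lit 11471059382)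 (nat_lit 152) (nat_lit 2343564307) (nat_lit 0) (nat_lit 8532794296) (nat_lit 23) (nat_lit 5) (nat_lit 25) (nat_lit 4) (nat_lit 23) (nat_lit 4) (nat_lit 399) (nat_lit 256) (nat_lit 245)) (XT.nd (nat_lit 78) (nat_lit 0) (nat_lit 0) (XT.lf (nat_lit 0) (nat_lit 7653200754) (nat_lit 76) (nat_lit 9182426933) (nat_lit 76) (nat_lit 6021431517) (nat_lit 22) (nat_lit 4) (nat_lit 23) (nat_lit 5) (nat_lit 23) (nat_lit 4) (nat_lit 400) (nat_lit 256) (nat_lit 244)) (XT.lf (nat_lit 0) (nat_lit 17824845389) (nat_lit 76) (nat_lit 4468217896) (nat_lit 76) (nat_lit 1090979442) (nat_lit 22) (nat_lit 4) (nat_lit 23) (nat_lit 5) (nat_lit 23) (nat_lit 4) (nat_lit 401) (nat_lit 256) (nat_lit 243))))) (XT.nd (nat_lit 234) (nat_lit 228) (nat_lit 0) (XT.nd (nat_lit 78) (nat_lit 0) (nat_lit 0) (XT.lf (nat_lit 0) (nat_lit 3864212212) (nat_lit 152) (nat_lit 19681334859) (nat_lit 0) (nat_lit 381510124) (nat_lit 20) (nat_lit 5) (nat_lit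 22) (nat_lit 4) (nat_lit 20) (nat_lit 4) (nat_lit 402) (nat_lit 256) (nat_lit 242)) (XT.nd (nat_lit 78) (nat_lit 0) (nat_lit 0) (XT.lf (nat_lit 0) (nat_lit 8957351299) (nat_lit 152) (nat_lit 10251604011) (nat_lit 0) (nat_lit 5276756198) (nat_lit 20) (nat_lit 5) (nat_lit 22) (nat_lit 4) (nat_lit 20) (nat_lit 4) (nat_lit 403) (nat_lit 256) (nat_lit 241)) (XT.lf (nat_lit 0) (nat_lit 14116184271) (nat_lit 152) (nat_lit 704103909) (nat_lit 0) (nat_lit 10243460031) (nat_lit 20) (nat_lit 5) (nat_lit 22) (nat_lit 4) (nat_lit 20) (nat_lit 4) (nat_lit 404) (nat_lit 256) (nat_lit 240)))) (XT.nd (nat_lit 156) (nat_lit 152) (nat_lit 0) (XT.nd (nat_lit 78) (nat_lit 0) (nat_lit 0) (XT.lf (nat_lit 0) (nat_lit 9148018717) (nat_lit 76) (nat_lit 10285136480) (nat_lit 76) (nat_lit 6225879096) (nat_lit 19) (nat_lit 4) (nat_lit 20) (nat_lit 5) (nat_lit 20) (nat_lit 4) (nat_lit 405) (nat_lit 256) (nat_lit 239)) (XT.lf (nat_lit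 0) (nat_lit 19151396888) (nat_lit 76) (nat_lit 5681722134) (nat_lit 76) (nat_lit 1441364611) (nat_lit 19) (nat_lit 4) (nat_lit 20) (nat_lit 5) (nat_lit 20) (nat_lit 4) (nat_lit 406) (nat_lit 256) (nat_lit 238))) (XT.nd (nat_lit 78) (nat_lit 0) (nat_lit 0) (XT.lf (nat_lit 0) (nat_lit 2404118079) (nat_lit 76) (nat_lit 955636098) (nat_lit 152) (nat_lit 23549412256) (nat_lit 17) (nat_lit 5) (nat_lit 18) (nat_lit 5) (nat_lit 19) (nat_lit 4) (nat_lit 407) (nat_lit 256) (nat_lit 237)) (XT.lf (nat_lit 0) (nat_lit 8304384347) (nat_lit 152) (nat_lit 15406136371) (nat_lit 0) (nat_lit 3851095848) (nat_lit 17) (nat_lit 5) (nat_lit 19) (nat_lit 4) (nat_lit 17) (nat_lit 4) (nat_lit 408) (nat_lit 256) (nat_lit 236))))))) (XT.nd (nat_lit 1014) (nat_lit 228) (nat_lit 0) (XT.nd (nat_lit 468) (nat_lit 228) (nat_lit 0) (XT.nd (nat_lit 234) (nat_lit 152) (nat_lit 0) (XT.nd (nat_lit 78) (nat_lit 76) (nat_lit 0) (XT.lf (nat_lit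 0) (nat_lit 13327397364) (nat_lit 152) (nat_lit 6195145948) (nat_lit 0) (nat_lit 8713203737) (nat_lit 17) (nat_lit 5) (nat_lit 19) (nat_lit 4) (nat_lit 17) (nat_lit 4) (nat_lit 409) (nat_lit 256) (nat_lit 235)) (XT.nd (nat_lit 78) (nat_lit 0) (nat_lit 0) (XT.lf (nat_lit 0) (nat_lit 3207752310) (nat_lit 76) (nat_lit 15247078679) (nat_lit 76) (nat_lit 10476666481) (nat_lit 16) (nat_lit 4) (nat_lit 17) (nat_lit 5) (nat_lit 17) (nat_lit 4) (nat_lit 410) (nat_lit 256) (nat_lit 234)) (XT.lf (nat_lit 0) (nat_lit 12874156597) (nat_lit 76) (nat_lit 10848231600) (nat_lit 76) (nat_lit 5926150885) (nat_lit 16) (nat_lit 4) (nat_lit 17) (nat_lit 5) (nat_lit 17) (nat_lit 4) (nat_lit 411) (nat_lit 256) (nat_lit 233)))) (XT.nd (nat_lit 78) (nat_lit 152) (nat_lit 0) (XT.lf (nat_lit 0) (nat_lit 22689217735) (nat_lit 76) (nat_lit 6384717249) (nat_lit 76) (nat_lit 1315385547) (nat_lit 16) (nat_lit 4) (nat_lit 17) (nat_lit 5)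 (nat_lit 17) (nat_lit 4) (nat_lit 412) (nat_lit 256) (nat_lit 232)) (XT.nd (nat_lit 78) (nat_lit 0) (nat_lit 0) (XT.lf (nat_lit 0) (nat_lit 1504077771) (nat_lit 76) (nat_lit 1804479664) (nat_lit 152) (nat_lit 27844529067) (nat_lit 14) (nat_lit 5) (nat_lit 15) (nat_lit 5) (nat_lit 16) (nat_lit 4) (nat_lit 413) (nat_lit 256) (nat_lit 231)) (XT.lf (nat_lit 0) (nat_lit 8078875111) (nat_lit 152) (nat_lit 20975843484) (nat_lit 0) (nat_lit 2883640158) (nat_lit 14) (nat_lit 5) (nat_lit 16) (nat_lit 4) (nat_lit 14) (nat_lit 4) (nat_lit 414) (nat_lit 256) (nat_lit 230))))) (XT.nd (nat_lit 234) (nat_lit 152) (nat_lit 0) (XT.nd (nat_lit 78) (nat_lit 76) (nat_lit 0) (XT.lf (nat_lit 0) (nat_lit 12939843621) (nat_lit 152) (nat_lit 12195147878) (nat_lit 0) (nat_lit 7613778074) (nat_lit 14) (nat_lit 5) (nat_lit 16) (nat_lit 4) (nat_lit 14) (nat_lit 4) (nat_lit 415) (nat_lit 256) (nat_lit 229)) (XT.nd (nat_lit 78) (nat_lit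 76) (nat_lit 0) (XT.lf (nat_lit 0) (nat_lit 17878364651) (nat_lit 152) (nat_lit 3281903699) (nat_lit 0) (nat_lit 12425279109) (nat_lit 14) (nat_lit 5) (nat_lit 16) (nat_lit 4) (nat_lit 14) (nat_lit 4) (nat_lit 416) (nat_lit 256) (nat_lit 228)) (XT.lf (nat_lit 0) (nat_lit 5886545019) (nat_lit 76) (nat_lit 17068793466) (nat_lit 76) (nat_lit 11492387541) (nat_lit 13) (nat_lit 4) (nat_lit 14) (nat_lit 5) (nat_lit 14) (nat_lit 4) (nat_lit 417) (nat_lit 256) (nat_lit 227)))) (XT.nd (nat_lit 156) (nat_lit 152) (nat_lit 0) (XT.nd (nat_lit 78) (nat_lit 0) (nat_lit 0) (XT.lf (nat_lit 0) (nat_lit 15271508218) (nat_lit 76) (nat_lit 12880687516) (nat_lit 76) (nat_lit 7184553064) (nat_lit 13) (nat_lit 4) (nat_lit 14) (nat_lit 5) (nat_lit 14) (nat_lit 4) (nat_lit 418) (nat_lit 256) (nat_lit 226)) (XT.lf (nat_lit 0) (nat_lit 24815870032) (nat_lit 76) (nat_lit 8625431785) (nat_lit 76) (nat_lit 2813056044) (nat_lit 13) (nat_lit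 4) (nat_lit 14) (nat_lit 5) (nat_lit 14) (nat_lit 4) (nat_lit 419) (nat_lit 256) (nat_lit 225))) (XT.nd (nat_lit 78) (nat_lit 76) (nat_lit 0) (XT.lf (nat_lit 0) (nat_lit 1594195654) (nat_lit 152) (nat_lit 2689014182) (nat_lit 76) (nat_lit 32917676290) (nat_lit 12) (nat_lit 5) (nat_lit 14) (nat_lit 5) (nat_lit 13) (nat_lit 4) (nat_lit 420) (nat_lit 256) (nat_lit 224)) (XT.lf (nat_lit 0) (nat_lit 6079258012) (nat_lit 152) (nat_lit 31875429122) (nat_lit 0) (nat_lit 220228960) (nat_lit 11) (nat_lit 5) (nat_lit 13) (nat_lit 4) (nat_lit 11) (nat_lit 4) (nat_lit 421) (nat_lit 256) (nat_lit 223)))))) (XT.nd (nat_lit 546) (nat_lit 152) (nat_lit 0) (XT.nd (nat_lit 234) (nat_lit 76) (nat_lit 0) (XT.nd (nat_lit 78) (nat_lit 0) (nat_lit 0) (XT.lf (nat_lit 0) (nat_lit 10708227037) (nat_lit 152) (nat_lit 23723745414) (nat_lit 0) (nat_lit 4745919106) (nat_lit 11) (nat_lit 5) (nat_lit 13) (nat_lit 4) (nat_lit 11) (nat_lit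 4) (nat_lit 422) (nat_lit 256) (nat_lit 222)) (XT.nd (nat_lit 78) (nat_lit 0) (nat_lit 0) (XT.lf (nat_lit 0) (nat_lit 15417350724) (nat_lit 152) (nat_lit 15440600046) (nat_lit 0) (nat_lit 9354772036) (nat_lit 11) (nat_lit 5) (nat_lit 13) (nat_lit 4) (nat_lit 11) (nat_lit 4) (nat_lit 423) (nat_lit 256) (nat_lit 221)) (XT.lf (nat_lit 0) (nat_lit 20210743840) (nat_lit 152) (nat_lit 7018755317) (nat_lit 0) (nat_lit 14050814903) (nat_lit 11) (nat_lit 5) (nat_lit 13) (nat_lit 4) (nat_lit 11) (nat_lit 4) (nat_lit 424) (nat_lit 256) (nat_lit 220)))) (XT.nd (nat_lit 156) (nat_lit 0) (nat_lit 0) (XT.nd (nat_lit 78) (nat_lit 0) (nat_lit 0) (XT.lf (nat_lit 0) (nat_lit 1579978741) (nat_lit 76) (nat_lit 23527803769) (nat_lit 76) (nat_lit 17273360027) (nat_lit 10) (nat_lit 4) (nat_lit 11) (nat_lit 5) (nat_lit 11) (nat_lit 4) (nat_lit 425) (nat_lit 256) (nat_lit 219)) (XT.lf (nat_lit 0) (nat_lit 10475000407) (nat_lit 76)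 (nat_lit 19692860968) (nat_lit 76) (nat_lit 13346655279) (nat_lit 10) (nat_lit 4) (nat_lit 11) (nat_lit 5) (nat_lit 11) (nat_lit 4) (nat_lit 426) (nat_lit 256) (nat_lit 218))) (XT.nd (nat_lit 78) (nat_lit 0) (nat_lit 0) (XT.lf (nat_lit 0) (nat_lit 19534395035) (nat_lit 76) (nat_lit 15792195500) (nat_lit 76) (nat_lit 9356900543) (nat_lit 10) (nat_lit 4) (nat_lit 11) (nat_lit 5) (nat_lit 11) (nat_lit 4) (nat_lit 427) (nat_lit 256) (nat_lit 217)) (XT.lf (nat_lit 0) (nat_lit 28766078602) (nat_lit 76) (nat_lit 11822399017) (nat_lit 76) (nat_lit 5300609624) (nat_lit 10) (nat_lit 4) (nat_lit 11) (nat_lit 5) (nat_lit 11) (nat_lit 4) (nat_lit 428) (nat_lit 256) (nat_lit 216))))) (XT.nd (nat_lit 234) (nat_lit 0) (nat_lit 0) (XT.nd (nat_lit 78) (nat_lit 152) (nat_lit 0) (XT.lf (nat_lit 0) (nat_lit 38178117627) (nat_lit 76) (nat_lit 7780002764) (nat_lit 76) (nat_lit 1174238191) (nat_lit 10) (nat_lit 4) (nat_lit 11)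 (nat_lit 5) (nat_lit 11) (nat_lit 4) (nat_lit 429) (nat_lit 256) (nat_lit 215)) (XT.nd (nat_lit 78) (nat_lit 76) (nat_lit 0) (XT.lf (nat_lit 0) (nat_lit 2966774688) (nat_lit 152) (nat_lit 664741255) (nat_lit 76) (nat_lit 44782002925) (nat_lit 9) (nat_lit 5) (nat_lit 11) (nat_lit 5) (nat_lit 10) (nat_lit 4) (nat_lit 430) (nat_lit 256) (nat_lit 214)) (XT.lf (nat_lit 0) (nat_lit 7243504324) (nat_lit 152) (nat_lit 41814075319) (nat_lit 0) (nat_lit 674136815) (nat_lit 8) (nat_lit 5) (nat_lit 10) (nat_lit 4) (nat_lit 8) (nat_lit 4) (nat_lit 431) (nat_lit 256) (nat_lit 213)))) (XT.nd (nat_lit 156) (nat_lit 0) (nat_lit 0) (XT.nd (nat_lit 78) (nat_lit 0) (nat_lit 0) (XT.lf (nat_lit 0) (nat_lit 11643665385) (nat_lit 152) (nat_lit 34446257475) (nat_lit 0) (nat_lit 4999687016) (nat_lit 8) (nat_lit 5) (nat_lit 10) (nat_lit 4) (nat_lit 8) (nat_lit 4) (nat_lit 432) (nat_lit 256) (nat_lit 212)) (XT.lf (nat_lit 0) (nat_lit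 16129612721) (nat_lit 152) (nat_lit 26946820983) (nat_lit 0) (nat_lit 9413196624) (nat_lit 8) (nat_lit 5) (nat_lit 10) (nat_lit 4) (nat_lit 8) (nat_lit 4) (nat_lit 433) (nat_lit 256) (nat_lit 211))) (XT.nd (nat_lit 78) (nat_lit 0) (nat_lit 0) (XT.lf (nat_lit 0) (nat_lit 20705266094) (nat_lit 152) (nat_lit 19309212936) (nat_lit 0) (nat_lit 13918522106) (nat_lit 8) (nat_lit 5) (nat_lit 10) (nat_lit 4) (nat_lit 8) (nat_lit 4) (nat_lit 434) (nat_lit 256) (nat_lit 210)) (XT.lf (nat_lit 0) (nat_lit 25374623646) (nat_lit 152) (nat_lit 11526759697) (nat_lit 0) (nat_lit 18519600152) (nat_lit 8) (nat_lit 5) (nat_lit 10) (nat_lit 4) (nat_lit 8) (nat_lit 4) (nat_lit 435) (nat_lit 256) (nat_lit 209))))))))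
noncomputable def xc19 : XT := (XT.nd (nat_lit 43914) (nat_lit 0) (nat_lit 456) (XT.nd (nat_lit 1014) (nat_lit 0) (nat_lit 0) (XT.nd (nat_lit 468) (nat_lit 152) (nat_lit 0) (XT.nd (nat_lit 234) (nat_lit 0) (nat_lit 0) (XT.nd (nat_lit 78) (nat_lit 76) (nat_lit 0) (XT.lf (nat_lit 0) (nat_lit 30141765400) (nat_lit 152) (nat_lit 3592661063) (nat_lit 0) (nat_lit 23220451123) (nat_lit 8) (nat_lit 5) (nat_lit 10) (nat_lit 4) (nat_lit 8) (nat_lit 4) (nat_lit 436) (nat_lit 256) (nat_lit 208)) (XT.nd (nat_lit 78) (nat_lit 0) (nat_lit 0) (XT.lf (nat_lit 0) (nat_lit 4589574807) (nat_lit 76) (nat_lit 30465399811) (nat_lit 76) (nat_lit 23479725551) (nat_lit 7) (nat_lit 4) (nat_lit 8) (nat_lit 5) (nat_lit 8) (nat_lit 4) (nat_lit 437) (nat_lit 256) (nat_lit 207)) (XT.lf (nat_lit 0) (nat_lit 13012257797) (nat_lit 76) (nat_lit 27098976430) (nat_lit 76) (nat_lit 20050816749) (nat_lit 7) (nat_lit 4) (nat_lit 8) (nat_lit 5)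 (nat_lit 8) (nat_lit 4) (nat_lit 438) (nat_lit 256) (nat_lit 206)))) (XT.nd (nat_lit 78) (nat_lit 0) (nat_lit 0) (XT.lf (nat_lit 0) (nat_lit 21611246534) (nat_lit 76) (nat_lit 23668493617) (nat_lit 76) (nat_lit 16559668480) (nat_lit 7) (nat_lit 4) (nat_lit 8) (nat_lit 5) (nat_lit 8) (nat_lit 4) (nat_lit 439) (nat_lit 256) (nat_lit 205)) (XT.nd (nat_lit 78) (nat_lit 0) (nat_lit 0) (XT.lf (nat_lit 0) (nat_lit 30394054696) (nat_lit 76) (nat_lit 20170953865) (nat_lit 76) (nat_lit 13003230225) (nat_lit 7) (nat_lit 4) (nat_lit 8) (nat_lit 5) (nat_lit 8) (nat_lit 4) (nat_lit 440) (nat_lit 256) (nat_lit 204)) (XT.lf (nat_lit 0) (nat_lit 39368356582) (nat_lit 76) (nat_lit 16603301068) (nat_lit 76) (nat_lit 9378394418) (nat_lit 7) (nat_lit 4) (nat_lit 8) (nat_lit 5) (nat_lit 8) (nat_lit 4) (nat_lit 441) (nat_lit 256) (nat_lit 203))))) (XT.nd (nat_lit 234) (nat_lit 76) (nat_lit 0) (XT.nd (nat_lit 78) (nat_lit 76)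 (nat_lit 0) (XT.lf (nat_lit 0) (nat_lit 48541993815) (nat_lit 76) (nat_lit 12962417863) (nat_lit 76) (nat_lit 5681993725) (nat_lit 7) (nat_lit 4) (nat_lit 8) (nat_lit 5) (nat_lit 8) (nat_lit 4) (nat_lit 442) (nat_lit 256) (nat_lit 202)) (XT.nd (nat_lit 78) (nat_lit 76) (nat_lit 0) (XT.lf (nat_lit 0) (nat_lit 57922982194) (nat_lit 76) (nat_lit 9245122893) (nat_lit 76) (nat_lit 1910798283) (nat_lit 7) (nat_lit 4) (nat_lit 8) (nat_lit 5) (nat_lit 8) (nat_lit 4) (nat_lit 443) (nat_lit 256) (nat_lit 201)) (XT.lf (nat_lit 0) (nat_lit 1900660262) (nat_lit 152) (nat_lit 3528314833) (nat_lit 76) (nat_lit 65599665496) (nat_lit 6) (nat_lit 5) (nat_lit 8) (nat_lit 5) (nat_lit 7) (nat_lit 4) (nat_lit 444) (nat_lit 256) (nat_lit 200)))) (XT.nd (nat_lit 156) (nat_lit 0) (nat_lit 0) (XT.nd (nat_lit 78) (nat_lit 0) (nat_lit 0) (XT.lf (nat_lit 0) (nat_lit 4329047104) (nat_lit 76) (nat_lit 1467262568) (nat_lit 152) (nat_lit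 67239747629) (nat_lit 5) (nat_lit 5) (nat_lit 6) (nat_lit 5) (nat_lit 7) (nat_lit 4) (nat_lit 445) (nat_lit 256) (nat_lit 199)) (XT.lf (nat_lit 0) (nat_lit 9836628472) (nat_lit 152) (nat_lit 62698334310) (nat_lit 0) (nat_lit 2567902163) (nat_lit 5) (nat_lit 5) (nat_lit 7) (nat_lit 4) (nat_lit 5) (nat_lit 4) (nat_lit 446) (nat_lit 256) (nat_lit 198))) (XT.nd (nat_lit 78) (nat_lit 0) (nat_lit 0) (XT.lf (nat_lit 0) (nat_lit 13980351598) (nat_lit 152) (nat_lit 56586731469) (nat_lit 0) (nat_lit 6665130267) (nat_lit 5) (nat_lit 5) (nat_lit 7) (nat_lit 4) (nat_lit 5) (nat_lit 4) (nat_lit 447) (nat_lit 256) (nat_lit 197)) (XT.lf (nat_lit 0) (nat_lit 18216995553) (nat_lit 152) (nat_lit 50352757215) (nat_lit 0) (nat_lit 10856633425) (nat_lit 5) (nat_lit 5) (nat_lit 7) (nat_lit 4) (nat_lit 5) (nat_lit 4) (nat_lit 448) (nat_lit 256) (nat_lit 196)))))) (XT.nd (nat_lit 42354) (nat_lit 0) (nat_lit 1444) (XT.nd (nat_lit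 42042) (nat_lit 0) (nat_lit 1900) (XT.nd (nat_lit 78) (nat_lit 0) (nat_lit 0) (XT.lf (nat_lit 0) (nat_lit 22550262259) (nat_lit 152) (nat_lit 43990964386) (nat_lit 0) (nat_lit 15146074114) (nat_lit 5) (nat_lit 5) (nat_lit 7) (nat_lit 4) (nat_lit 5) (nat_lit 4) (nat_lit 449) (nat_lit 256) (nat_lit 195)) (XT.nd (nat_lit 41886) (nat_lit 0) (nat_lit 2204) (XT.lf (nat_lit 0) (nat_lit 26983938065) (nat_lit 152) (nat_lit 37495794132) (nat_lit 0) (nat_lit 19537200390) (nat_lit 5) (nat_lit 5) (nat_lit 7) (nat_lit 4) (nat_lit 5) (nat_lit 4) (nat_lit 450) (nat_lit 256) (nat_lit 194)) (XT.lf (nat_lit 0) (nat_lit 440233159) (nat_lit 152) (nat_lit 7613485312) (nat_lit 0) (nat_lit 440233159) (nat_lit 34) (nat_lit 5) (nat_lit 36) (nat_lit 4) (nat_lit 34) (nat_lit 4) (nat_lit 386) (nat_lit 257) (nat_lit 257)))) (XT.nd (nat_lit 156) (nat_lit 152) (nat_lit 0) (XT.nd (nat_lit 78) (nat_lit 152) (nat_lit 0) (XT.lf (nat_lit 0)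 (nat_lit 6195096842) (nat_lit 152) (nat_lit 5284099405) (nat_lit 0) (nat_lit 5848090247) (nat_lit 34) (nat_lit 5) (nat_lit 36) (nat_lit 4) (nat_lit 34) (nat_lit 4) (nat_lit 387) (nat_lit 257) (nat_lit 256)) (XT.lf (nat_lit 0) (nat_lit 4850768249) (nat_lit 152) (nat_lit 6755940007) (nat_lit 152) (nat_lit 6072033804) (nat_lit 32) (nat_lit 4) (nat_lit 34) (nat_lit 5) (nat_lit 34) (nat_lit 4) (nat_lit 388) (nat_lit 257) (nat_lit 255))) (XT.nd (nat_lit 78) (nat_lit 152) (nat_lit 0) (XT.lf (nat_lit 0) (nat_lit 15199025187) (nat_lit 152) (nat_lit 1927179898) (nat_lit 152) (nat_lit 916186698) (nat_lit 32) (nat_lit 4) (nat_lit 34) (nat_lit 5) (nat_lit 34) (nat_lit 4) (nat_lit 389) (nat_lit 257) (nat_lit 254)) (XT.lf (nat_lit 0) (nat_lit 4303013443) (nat_lit 152) (nat_lit 11099697378) (nat_lit 0) (nat_lit 3013155781) (nat_lit 30) (nat_lit 5) (nat_lit 32) (nat_lit 4) (nat_lit 30) (nat_lit 4) (nat_lit 390) (nat_lit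 257) (nat_lit 253))))) (XT.nd (nat_lit 234) (nat_lit 228) (nat_lit 0) (XT.nd (nat_lit 78) (nat_lit 228) (nat_lit 0) (XT.lf (nat_lit 0) (nat_lit 9603085452) (nat_lit 152) (nat_lit 1185025109) (nat_lit 0) (nat_lit 8013896852) (nat_lit 30) (nat_lit 5) (nat_lit 32) (nat_lit 4) (nat_lit 30) (nat_lit 4) (nat_lit 391) (nat_lit 257) (nat_lit 252)) (XT.nd (nat_lit 78) (nat_lit 76) (nat_lit 0) (XT.lf (nat_lit 0) (nat_lit 9012980777) (nat_lit 152) (nat_lit 6033518693) (nat_lit 152) (nat_lit 4153717533) (nat_lit 28) (nat_lit 4) (nat_lit 30) (nat_lit 5) (nat_lit 30) (nat_lit 4) (nat_lit 392) (nat_lit 257) (nat_lit 251)) (XT.lf (nat_lit 0) (nat_lit 932435824) (nat_lit 228) (nat_lit 269104553) (nat_lit 76) (nat_lit 18411247399) (nat_lit 27) (nat_lit 5) (nat_lit 30) (nat_lit 5) (nat_lit 28) (nat_lit 4) (nat_lit 393) (nat_lit 257) (nat_lit 250)))) (XT.nd (nat_lit 156) (nat_lit 152) (nat_lit 0) (XT.nd (nat_lit 78) (nat_lit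 0) (nat_lit 0) (XT.lf (nat_lit 0) (nat_lit 6120643546) (nat_lit 152) (nat_lit 10159171181) (nat_lit 0) (nat_lit 3755712004) (nat_lit 26) (nat_lit 5) (nat_lit 28) (nat_lit 4) (nat_lit 26) (nat_lit 4) (nat_lit 394) (nat_lit 257) (nat_lit 249)) (XT.lf (nat_lit 0) (nat_lit 11380286857) (nat_lit 152) (nat_lit 336050601) (nat_lit 0) (nat_lit 8757149819) (nat_lit 26) (nat_lit 5) (nat_lit 28) (nat_lit 4) (nat_lit 26) (nat_lit 4) (nat_lit 395) (nat_lit 257) (nat_lit 248))) (XT.nd (nat_lit 78) (nat_lit 76) (nat_lit 0) (XT.lf (nat_lit 0) (nat_lit 9793296410) (nat_lit 76) (nat_lit 7002589965) (nat_lit 76) (nat_lit 4128767979) (nat_lit 25) (nat_lit 4) (nat_lit 26) (nat_lit 5) (nat_lit 26) (nat_lit 4) (nat_lit 396) (nat_lit 257) (nat_lit 247)) (XT.lf (nat_lit 0) (nat_lit 872973715) (nat_lit 152) (nat_lit 1345068787) (nat_lit 76) (nat_lit 19173814318) (nat_lit 24) (nat_lit 5) (nat_lit 26) (nat_lit 5) (nat_lit 25) (nat_lit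 4) (nat_lit 397) (nat_lit 257) (nat_lit 246))))))) (XT.nd (nat_lit 1014) (nat_lit 380) (nat_lit 0) (XT.nd (nat_lit 468) (nat_lit 304) (nat_lit 0) (XT.nd (nat_lit 234) (nat_lit 152) (nat_lit 0) (XT.nd (nat_lit 78) (nat_lit 76) (nat_lit 0) (XT.lf (nat_lit 0) (nat_lit 5958760426) (nat_lit 152) (nat_lit 13209655754) (nat_lit 0) (nat_lit 2702935148) (nat_lit 23) (nat_lit 5) (nat_lit 25) (nat_lit 4) (nat_lit 23) (nat_lit 4) (nat_lit 398) (nat_lit 257) (nat_lit 245)) (XT.nd (nat_lit 78) (nat_lit 76) (nat_lit 0) (XT.lf (nat_lit 0) (nat_lit 11140024885) (nat_lit 152) (nat_lit 3565460689) (nat_lit 0) (nat_lit 7661469277) (nat_lit 23) (nat_lit 5) (nat_lit 25) (nat_lit 4) (nat_lit 23) (nat_lit 4) (nat_lit 399) (nat_lit 257) (nat_lit 244)) (XT.lf (nat_lit 0) (nat_lit 6321732963) (nat_lit 76) (nat_lit 10125691116) (nat_lit 76) (nat_lit 6430892471) (nat_lit 22) (nat_lit 4) (nat_lit 23) (nat_lit 5) (nat_lit 23) (nat_lit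 4) (nat_lit 400) (nat_lit 257) (nat_lit 243)))) (XT.nd (nat_lit 78) (nat_lit 152) (nat_lit 0) (XT.lf (nat_lit 0) (nat_lit 16410607428) (nat_lit 76) (nat_lit 5450378721) (nat_lit 76) (nat_lit 1545635378) (nat_lit 22) (nat_lit 4) (nat_lit 23) (nat_lit 5) (nat_lit 23) (nat_lit 4) (nat_lit 401) (nat_lit 257) (nat_lit 242)) (XT.nd (nat_lit 78) (nat_lit 0) (nat_lit 0) (XT.lf (nat_lit 0) (nat_lit 2705783006) (nat_lit 76) (nat_lit 651042684) (nat_lit 152) (nat_lit 20594794443) (nat_lit 20) (nat_lit 5) (nat_lit 21) (nat_lit 5) (nat_lit 22) (nat_lit 4) (nat_lit 402) (nat_lit 257) (nat_lit 241)) (XT.lf (nat_lit 0) (nat_lit 8400800011) (nat_lit 152) (nat_lit 11891189276) (nat_lit 0) (nat_lit 4219764905) (nat_lit 20) (nat_lit 5) (nat_lit 22) (nat_lit 4) (nat_lit 20) (nat_lit 4) (nat_lit 403) (nat_lit 257) (nat_lit 240))))) (XT.nd (nat_lit 234) (nat_lit 228) (nat_lit 0) (XT.nd (nat_lit 78) (nat_lit 76) (nat_lit 0) (XT.lf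 (nat_lit 0) (nat_lit 13517976141) (nat_lit 152) (nat_lit 2422661229) (nat_lit 0) (nat_lit 9150407892) (nat_lit 20) (nat_lit 5) (nat_lit 22) (nat_lit 4) (nat_lit 20) (nat_lit 4) (nat_lit 404) (nat_lit 257) (nat_lit 239)) (XT.nd (nat_lit 78) (nat_lit 0) (nat_lit 0) (XT.lf (nat_lit 0) (nat_lit 7317060916) (nat_lit 76) (nat_lit 11459842329) (nat_lit 76) (nat_lit 6911173940) (nat_lit 19) (nat_lit 4) (nat_lit 20) (nat_lit 5) (nat_lit 20) (nat_lit 4) (nat_lit 405) (nat_lit 257) (nat_lit 238)) (XT.lf (nat_lit 0) (nat_lit 17244518874) (nat_lit 76) (nat_lit 6892352838) (nat_lit 76) (nat_lit 2167859070) (nat_lit 19) (nat_lit 4) (nat_lit 20) (nat_lit 5) (nat_lit 20) (nat_lit 4) (nat_lit 406) (nat_lit 257) (nat_lit 237)))) (XT.nd (nat_lit 156) (nat_lit 76) (nat_lit 0) (XT.nd (nat_lit 78) (nat_lit 0) (nat_lit 0) (XT.lf (nat_lit 0) (nat_lit 359586626) (nat_lit 76) (nat_lit 2228977238) (nat_lit 152) (nat_lit 24352829539)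 (nat_lit 17) (nat_lit 5) (nat_lit 18) (nat_lit 5) (nat_lit 19) (nat_lit 4) (nat_lit 407) (nat_lit 257) (nat_lit 236)) (XT.lf (nat_lit 0) (nat_lit 7481831830) (nat_lit 152) (nat_lit 17545249328) (nat_lit 0) (nat_lit 2568307266) (nat_lit 17) (nat_lit 5) (nat_lit 19) (nat_lit 4) (nat_lit 17) (nat_lit 4) (nat_lit 408) (nat_lit 257) (nat_lit 235))) (XT.nd (nat_lit 78) (nat_lit 76) (nat_lit 0) (XT.lf (nat_lit 0) (nat_lit 12466862257) (nat_lit 152) (nat_lit 8406680914) (nat_lit 0) (nat_lit 7397119120) (nat_lit 17) (nat_lit 5) (nat_lit 19) (nat_lit 4) (nat_lit 17) (nat_lit 4) (nat_lit 409) (nat_lit 257) (nat_lit 234)) (XT.lf (nat_lit 0) (nat_lit 880491473) (nat_lit 76) (nat_lit 16654557052) (nat_lit 76) (nat_lit 11433145399) (nat_lit 16) (nat_lit 4) (nat_lit 17) (nat_lit 5) (nat_lit 17) (nat_lit 4) (nat_lit 410) (nat_lit 257) (nat_lit 233)))))) (XT.nd (nat_lit 546) (nat_lit 152) (nat_lit 0) (XT.nd (nat_lit 234)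 (nat_lit 152) (nat_lit 0) (XT.nd (nat_lit 78) (nat_lit 76) (nat_lit 0) (XT.lf (nat_lit 0) (nat_lit 10477272470) (nat_lit 76) (nat_lit 12288861766) (nat_lit 76) (nat_lit 6920199127) (nat_lit 16) (nat_lit 4) (nat_lit 17) (nat_lit 5) (nat_lit 17) (nat_lit 4) (nat_lit 411) (nat_lit 257) (nat_lit 232)) (XT.nd (nat_lit 78) (nat_lit 76) (nat_lit 0) (XT.lf (nat_lit 0) (nat_lit 20224738180) (nat_lit 76) (nat_lit 7857533622) (nat_lit 76) (nat_lit 2345908860) (nat_lit 16) (nat_lit 4) (nat_lit 17) (nat_lit 5) (nat_lit 17) (nat_lit 4) (nat_lit 412) (nat_lit 257) (nat_lit 231)) (XT.lf (nat_lit 0) (nat_lit 2248963568) (nat_lit 152) (nat_lit 1085026894) (nat_lit 76) (nat_lit 27859732114) (nat_lit 15) (nat_lit 5) (nat_lit 17) (nat_lit 5) (nat_lit 16) (nat_lit 4) (nat_lit 413) (nat_lit 257) (nat_lit 230)))) (XT.nd (nat_lit 156) (nat_lit 76) (nat_lit 0) (XT.nd (nat_lit 78) (nat_lit 0) (nat_lit 0) (XT.lf (nat_lit 0) (nat_lit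 6959193036) (nat_lit 152) (nat_lit 23679092781) (nat_lit 0) (nat_lit 1342514928) (nat_lit 14) (nat_lit 5) (nat_lit 16) (nat_lit 4) (nat_lit 14) (nat_lit 4) (nat_lit 414) (nat_lit 257) (nat_lit 229)) (XT.lf (nat_lit 0) (nat_lit 11786527784) (nat_lit 152) (nat_lit 14962866286) (nat_lit 0) (nat_lit 6042829682) (nat_lit 14) (nat_lit 5) (nat_lit 16) (nat_lit 4) (nat_lit 14) (nat_lit 4) (nat_lit 415) (nat_lit 257) (nat_lit 228))) (XT.nd (nat_lit 78) (nat_lit 76) (nat_lit 0) (XT.lf (nat_lit 0) (nat_lit 16692394677) (nat_lit 152) (nat_lit 6112213477) (nat_lit 0) (nat_lit 10825376191) (nat_lit 14) (nat_lit 5) (nat_lit 16) (nat_lit 4) (nat_lit 14) (nat_lit 4) (nat_lit 416) (nat_lit 257) (nat_lit 227)) (XT.lf (nat_lit 0) (nat_lit 2937928798) (nat_lit 76) (nat_lit 18771392764) (nat_lit 76) (nat_lit 12784645751) (nat_lit 13) (nat_lit 4) (nat_lit 14) (nat_lit 5) (nat_lit 14) (nat_lit 4) (nat_lit 417) (nat_lit 257) (nat_lit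 226))))) (XT.nd (nat_lit 234) (nat_lit 76) (nat_lit 0) (XT.nd (nat_lit 78) (nat_lit 76) (nat_lit 0) (XT.lf (nat_lit 0) (nat_lit 12262719445) (nat_lit 76) (nat_lit 14612101296) (nat_lit 76) (nat_lit 8509112994) (nat_lit 13) (nat_lit 4) (nat_lit 14) (nat_lit 5) (nat_lit 14) (nat_lit 4) (nat_lit 418) (nat_lit 257) (nat_lit 225)) (XT.nd (nat_lit 78) (nat_lit 76) (nat_lit 0) (XT.lf (nat_lit 0) (nat_lit 21748661305) (nat_lit 76) (nat_lit 10384820788) (nat_lit 76) (nat_lit 4168976867) (nat_lit 13) (nat_lit 4) (nat_lit 14) (nat_lit 5) (nat_lit 14) (nat_lit 4) (nat_lit 419) (nat_lit 257) (nat_lit 224)) (XT.lf (nat_lit 0) (nat_lit 234880401) (nat_lit 152) (nat_lit 5848605269) (nat_lit 76) (nat_lit 31166790832) (nat_lit 12) (nat_lit 5) (nat_lit 14) (nat_lit 5) (nat_lit 13) (nat_lit 4) (nat_lit 420) (nat_lit 257) (nat_lit 223)))) (XT.nd (nat_lit 156) (nat_lit 0) (nat_lit 0) (XT.nd (nat_lit 78) (nat_lit 0) (nat_lit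 0) (XT.lf (nat_lit 0) (nat_lit 3022484420) (nat_lit 76) (nat_lit 1634793486) (nat_lit 152) (nat_lit 33568911091) (nat_lit 11) (nat_lit 5) (nat_lit 12) (nat_lit 5) (nat_lit 13) (nat_lit 4) (nat_lit 421) (nat_lit 257) (nat_lit 222)) (XT.lf (nat_lit 0) (nat_lit 9241608942) (nat_lit 152) (nat_lit 27092015028) (nat_lit 0) (nat_lit 2896882137) (nat_lit 11) (nat_lit 5) (nat_lit 13) (nat_lit 4) (nat_lit 11) (nat_lit 4) (nat_lit 422) (nat_lit 257) (nat_lit 221))) (XT.nd (nat_lit 78) (nat_lit 0) (nat_lit 0) (XT.lf (nat_lit 0) (nat_lit 13922651702) (nat_lit 152) (nat_lit 18862955867) (nat_lit 0) (nat_lit 7480574648) (nat_lit 11) (nat_lit 5) (nat_lit 13) (nat_lit 4) (nat_lit 11) (nat_lit 4) (nat_lit 423) (nat_lit 257) (nat_lit 220)) (XT.lf (nat_lit 0) (nat_lit 18688781784) (nat_lit 152) (nat_lit 10493622019) (nat_lit 0) (nat_lit 12152189925) (nat_lit 11) (nat_lit 5) (nat_lit 13) (nat_lit 4) (nat_lit 11) (nat_lit 4)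 (nat_lit 424) (nat_lit 257) (nat_lit 219))))))))
noncomputable def xc20 : XT := (XT.nd (nat_lit 43680) (nat_lit 0) (nat_lit 912) (XT.nd (nat_lit 1014) (nat_lit 152) (nat_lit 0) (XT.nd (nat_lit 468) (nat_lit 152) (nat_lit 0) (XT.nd (nat_lit 234) (nat_lit 76) (nat_lit 0) (XT.nd (nat_lit 78) (nat_lit 76) (nat_lit 0) (XT.lf (nat_lit 0) (nat_lit 23544163766) (nat_lit 152) (nat_lit 1976700473) (nat_lit 0) (nat_lit 16915809960) (nat_lit 11) (nat_lit 5) (nat_lit 13) (nat_lit 4) (nat_lit 11) (nat_lit 4) (nat_lit 425) (nat_lit 257) (nat_lit 218)) (XT.nd (nat_lit 78) (nat_lit 0) (nat_lit 0) (XT.lf (nat_lit 0) (nat_lit 6828499357) (nat_lit 76) (nat_lit 21730180570) (nat_lit 76) (nat_lit 15012737496) (nat_lit 10) (nat_lit 4) (nat_lit 11) (nat_lit 5) (nat_lit 11) (nat_lit 4) (nat_lit 426) (nat_lit 257) (nat_lit 217)) (XT.lf (nat_lit 0) (nat_lit 15838882704) (nat_lit 76) (nat_lit 17853105718) (nat_lit 76) (nat_lit 11049168208)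 (nat_lit 10) (nat_lit 4) (nat_lit 11) (nat_lit 5) (nat_lit 11) (nat_lit 4) (nat_lit 427) (nat_lit 257) (nat_lit 216)))) (XT.nd (nat_lit 78) (nat_lit 76) (nat_lit 0) (XT.lf (nat_lit 0) (nat_lit 25022982503) (nat_lit 76) (nat_lit 13906212744) (nat_lit 76) (nat_lit 7018300054) (nat_lit 10) (nat_lit 4) (nat_lit 11) (nat_lit 5) (nat_lit 11) (nat_lit 4) (nat_lit 428) (nat_lit 257) (nat_lit 215)) (XT.nd (nat_lit 78) (nat_lit 76) (nat_lit 0) (XT.lf (nat_lit 0) (nat_lit 34388823695) (nat_lit 76) (nat_lit 9886052909) (nat_lit 76) (nat_lit 2916610918) (nat_lit 10) (nat_lit 4) (nat_lit 11) (nat_lit 5) (nat_lit 11) (nat_lit 4) (nat_lit 429) (nat_lit 257) (nat_lit 214)) (XT.lf (nat_lit 0) (nat_lit 1234906147) (nat_lit 152) (nat_lit 4541737172) (nat_lit 76) (nat_lit 42697213746) (nat_lit 9) (nat_lit 5) (nat_lit 11) (nat_lit 5) (nat_lit 10) (nat_lit 4) (nat_lit 430) (nat_lit 257) (nat_lit 213))))) (XT.nd (nat_lit 234)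 (nat_lit 76) (nat_lit 0) (XT.nd (nat_lit 78) (nat_lit 0) (nat_lit 0) (XT.lf (nat_lit 0) (nat_lit 3925415394) (nat_lit 76) (nat_lit 1518358611) (nat_lit 152) (nat_lit 44350318368) (nat_lit 8) (nat_lit 5) (nat_lit 9) (nat_lit 5) (nat_lit 10) (nat_lit 4) (nat_lit 431) (nat_lit 257) (nat_lit 212)) (XT.nd (nat_lit 78) (nat_lit 0) (nat_lit 0) (XT.lf (nat_lit 0) (nat_lit 9806571913) (nat_lit 152) (nat_lit 38530310979) (nat_lit 0) (nat_lit 2816225605) (nat_lit 8) (nat_lit 5) (nat_lit 10) (nat_lit 4) (nat_lit 8) (nat_lit 4) (nat_lit 432) (nat_lit 257) (nat_lit 211)) (XT.lf (nat_lit 0) (nat_lit 14270414627) (nat_lit 152) (nat_lit 31073638792) (nat_lit 0) (nat_lit 7209740428) (nat_lit 8) (nat_lit 5) (nat_lit 10) (nat_lit 4) (nat_lit 8) (nat_lit 4) (nat_lit 433) (nat_lit 257) (nat_lit 210)))) (XT.nd (nat_lit 156) (nat_lit 76) (nat_lit 0) (XT.nd (nat_lit 78) (nat_lit 0) (nat_lit 0) (XT.lf (nat_lit 0) (nat_lit 18824607201)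 (nat_lit 152) (nat_lit 23477549488) (nat_lit 0) (nat_lit 11695653495) (nat_lit 8) (nat_lit 5) (nat_lit 10) (nat_lit 4) (nat_lit 8) (nat_lit 4) (nat_lit 434) (nat_lit 257) (nat_lit 209)) (XT.lf (nat_lit 0) (nat_lit 23473129026) (nat_lit 152) (nat_lit 15735405709) (nat_lit 0) (nat_lit 16277884538) (nat_lit 8) (nat_lit 5) (nat_lit 10) (nat_lit 4) (nat_lit 8) (nat_lit 4) (nat_lit 435) (nat_lit 257) (nat_lit 208))) (XT.nd (nat_lit 78) (nat_lit 76) (nat_lit 0) (XT.lf (nat_lit 0) (nat_lit 28220041918) (nat_lit 152) (nat_lit 7840442473) (nat_lit 0) (nat_lit 20960437447) (nat_lit 8) (nat_lit 5) (nat_lit 10) (nat_lit 4) (nat_lit 8) (nat_lit 4) (nat_lit 436) (nat_lit 257) (nat_lit 207)) (XT.lf (nat_lit 0) (nat_lit 218502501) (nat_lit 76) (nat_lit 32853091543) (nat_lit 76) (nat_lit 25531001652) (nat_lit 7) (nat_lit 4) (nat_lit 8) (nat_lit 5) (nat_lit 8) (nat_lit 4) (nat_lit 437) (nat_lit 257) (nat_lit 206)))))) (XT.nd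 (nat_lit 468) (nat_lit 152) (nat_lit 0) (XT.nd (nat_lit 234) (nat_lit 0) (nat_lit 0) (XT.nd (nat_lit 78) (nat_lit 0) (nat_lit 0) (XT.lf (nat_lit 0) (nat_lit 8603562465) (nat_lit 76) (nat_lit 29504861891) (nat_lit 76) (nat_lit 22122106543) (nat_lit 7) (nat_lit 4) (nat_lit 8) (nat_lit 5) (nat_lit 8) (nat_lit 4) (nat_lit 438) (nat_lit 257) (nat_lit 205)) (XT.nd (nat_lit 78) (nat_lit 0) (nat_lit 0) (XT.lf (nat_lit 0) (nat_lit 17166023991) (nat_lit 76) (nat_lit 26092042894) (nat_lit 76) (nat_lit 18650389044) (nat_lit 7) (nat_lit 4) (nat_lit 8) (nat_lit 5) (nat_lit 8) (nat_lit 4) (nat_lit 439) (nat_lit 257) (nat_lit 204)) (XT.lf (nat_lit 0) (nat_lit 25913368843) (nat_lit 76) (nat_lit 22611652475) (nat_lit 76) (nat_lit 15112815614) (nat_lit 7) (nat_lit 4) (nat_lit 8) (nat_lit 5) (nat_lit 8) (nat_lit 4) (nat_lit 440) (nat_lit 257) (nat_lit 203)))) (XT.nd (nat_lit 78) (nat_lit 0) (nat_lit 0) (XT.lf (nat_lit 0) (nat_lit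 34853240330) (nat_lit 76) (nat_lit 19060649519) (nat_lit 76) (nat_lit 11506295171) (nat_lit 7) (nat_lit 4) (nat_lit 8) (nat_lit 5) (nat_lit 8) (nat_lit 4) (nat_lit 441) (nat_lit 257) (nat_lit 202)) (XT.nd (nat_lit 78) (nat_lit 0) (nat_lit 0) (XT.lf (nat_lit 0) (nat_lit 43993449991) (nat_lit 76) (nat_lit 15435931206) (nat_lit 76) (nat_lit 7827676385) (nat_lit 7) (nat_lit 4) (nat_lit 8) (nat_lit 5) (nat_lit 8) (nat_lit 4) (nat_lit 442) (nat_lit 257) (nat_lit 201)) (XT.lf (nat_lit 0) (nat_lit 53341984417) (nat_lit 76) (nat_lit 11734330306) (nat_lit 76) (nat_lit 4073744930) (nat_lit 7) (nat_lit 4) (nat_lit 8) (nat_lit 5) (nat_lit 8) (nat_lit 4) (nat_lit 443) (nat_lit 257) (nat_lit 200))))) (XT.nd (nat_lit 234) (nat_lit 0) (nat_lit 0) (XT.nd (nat_lit 78) (nat_lit 152) (nat_lit 0) (XT.lf (nat_lit 0) (nat_lit 62907012231) (nat_lit 76) (nat_lit 7952612413) (nat_lit 76) (nat_lit 241220671) (nat_lit 7) (nat_lit 4)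 (nat_lit 8) (nat_lit 5) (nat_lit 8) (nat_lit 4) (nat_lit 444) (nat_lit 257) (nat_lit 199)) (XT.nd (nat_lit 78) (nat_lit 76) (nat_lit 0) (XT.lf (nat_lit 0) (nat_lit 3601566954) (nat_lit 152) (nat_lit 449537392) (nat_lit 76) (nat_lit 69058955505) (nat_lit 6) (nat_lit 5) (nat_lit 8) (nat_lit 5) (nat_lit 7) (nat_lit 4) (nat_lit 445) (nat_lit 257) (nat_lit 198)) (XT.lf (nat_lit 0) (nat_lit 7596670036) (nat_lit 152) (nat_lit 67566058047) (nat_lit 0) (nat_lit 15497045) (nat_lit 5) (nat_lit 5) (nat_lit 7) (nat_lit 4) (nat_lit 5) (nat_lit 4) (nat_lit 446) (nat_lit 257) (nat_lit 197)))) (XT.nd (nat_lit 156) (nat_lit 0) (nat_lit 0) (XT.nd (nat_lit 78) (nat_lit 0) (nat_lit 0) (XT.lf (nat_lit 0) (nat_lit 11724929682) (nat_lit 152) (nat_lit 61484492976) (nat_lit 0) (nat_lit 4098615893) (nat_lit 5) (nat_lit 5) (nat_lit 7) (nat_lit 4) (nat_lit 5) (nat_lit 4) (nat_lit 447) (nat_lit 257) (nat_lit 196)) (XT.lf (nat_lit 0)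 (nat_lit 15946560549) (nat_lit 152) (nat_lit 55279681604) (nat_lit 0) (nat_lit 8276420744) (nat_lit 5) (nat_lit 5) (nat_lit 7) (nat_lit 4) (nat_lit 5) (nat_lit 4) (nat_lit 448) (nat_lit 257) (nat_lit 195))) (XT.nd (nat_lit 78) (nat_lit 0) (nat_lit 0) (XT.lf (nat_lit 0) (nat_lit 20265251442) (nat_lit 152) (nat_lit 48946202253) (nat_lit 0) (nat_lit 12552562106) (nat_lit 5) (nat_lit 5) (nat_lit 7) (nat_lit 4) (nat_lit 5) (nat_lit 4) (nat_lit 449) (nat_lit 257) (nat_lit 194)) (XT.lf (nat_lit 0) (nat_lit 24684775974) (nat_lit 152) (nat_lit 42478520814) (nat_lit 0) (nat_lit 16930776413) (nat_lit 5) (nat_lit 5) (nat_lit 7) (nat_lit 4) (nat_lit 5) (nat_lit 4) (nat_lit 450) (nat_lit 257) (nat_lit 193))))))) (XT.nd (nat_lit 1014) (nat_lit 608) (nat_lit 0) (XT.nd (nat_lit 468) (nat_lit 532) (nat_lit 0) (XT.nd (nat_lit 234) (nat_lit 152) (nat_lit 0) (XT.nd (nat_lit 78) (nat_lit 304) (nat_lit 0) (XT.lf (nat_lit 0) (nat_lit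 3621248850) (nat_lit 152) (nat_lit 925224383) (nat_lit 0) (nat_lit 3621248850) (nat_lit 38) (nat_lit 5) (nat_lit 40) (nat_lit 4) (nat_lit 38) (nat_lit 4) (nat_lit 384) (nat_lit 258) (nat_lit 258)) (XT.nd (nat_lit 78) (nat_lit 152) (nat_lit 0) (XT.lf (nat_lit 0) (nat_lit 8319863586) (nat_lit 152) (nat_lit 4352544934) (nat_lit 152) (nat_lit 3984405637) (nat_lit 36) (nat_lit 4) (nat_lit 38) (nat_lit 5) (nat_lit 38) (nat_lit 4) (nat_lit 385) (nat_lit 258) (nat_lit 257)) (XT.lf (nat_lit 0) (nat_lit 1182533766) (nat_lit 152) (nat_lit 15328928275) (nat_lit 0) (nat_lit 478110378) (nat_lit 34) (nat_lit 5) (nat_lit 36) (nat_lit 4) (nat_lit 34) (nat_lit 4) (nat_lit 386) (nat_lit 258) (nat_lit 256)))) (XT.nd (nat_lit 78) (nat_lit 152) (nat_lit 0) (XT.lf (nat_lit 0) (nat_lit 6443427060) (nat_lit 152) (nat_lit 5485045066) (nat_lit 0) (nat_lit 5402104064) (nat_lit 34) (nat_lit 5) (nat_lit 36) (nat_lit 4) (nat_lit 34)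 (nat_lit 4) (nat_lit 387) (nat_lit 258) (nat_lit 255)) (XT.nd (nat_lit 78) (nat_lit 0) (nat_lit 0) (XT.lf (nat_lit 0) (nat_lit 4547805837) (nat_lit 152) (nat_lit 7252148310) (nat_lit 152) (nat_lit 5883738316) (nat_lit 32) (nat_lit 4) (nat_lit 34) (nat_lit 5) (nat_lit 34) (nat_lit 4) (nat_lit 388) (nat_lit 258) (nat_lit 254)) (XT.lf (nat_lit 0) (nat_lit 14800900114) (nat_lit 152) (nat_lit 2466983606) (nat_lit 152) (nat_lit 781013420) (nat_lit 32) (nat_lit 4) (nat_lit 34) (nat_lit 5) (nat_lit 34) (nat_lit 4) (nat_lit 389) (nat_lit 258) (nat_lit 253))))) (XT.nd (nat_lit 234) (nat_lit 228) (nat_lit 0) (XT.nd (nat_lit 78) (nat_lit 152) (nat_lit 0) (XT.lf (nat_lit 0) (nat_lit 4374448720) (nat_lit 152) (nat_lit 11611471227) (nat_lit 0) (nat_lit 2438253524) (nat_lit 30) (nat_lit 5) (nat_lit 32) (nat_lit 4) (nat_lit 30) (nat_lit 4) (nat_lit 390) (nat_lit 258) (nat_lit 252)) (XT.nd (nat_lit 78) (nat_lit 152) (nat_lit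 0) (XT.lf (nat_lit 0) (nat_lit 9624127411) (nat_lit 152) (nat_lit 1790386282) (nat_lit 0) (nat_lit 7397319655) (nat_lit 30) (nat_lit 5) (nat_lit 32) (nat_lit 4) (nat_lit 30) (nat_lit 4) (nat_lit 391) (nat_lit 258) (nat_lit 251)) (XT.lf (nat_lit 0) (nat_lit 8302901928) (nat_lit 152) (nat_lit 6708888237) (nat_lit 152) (nat_lit 4199932364) (nat_lit 28) (nat_lit 4) (nat_lit 30) (nat_lit 5) (nat_lit 30) (nat_lit 4) (nat_lit 392) (nat_lit 258) (nat_lit 250)))) (XT.nd (nat_lit 156) (nat_lit 76) (nat_lit 0) (XT.nd (nat_lit 78) (nat_lit 76) (nat_lit 0) (XT.lf (nat_lit 0) (nat_lit 838271843) (nat_lit 228) (nat_lit 1081194242) (nat_lit 76) (nat_lit 17706312722) (nat_lit 27) (nat_lit 5) (nat_lit 30) (nat_lit 5) (nat_lit 28) (nat_lit 4) (nat_lit 393) (nat_lit 258) (nat_lit 249)) (XT.lf (nat_lit 0) (nat_lit 5962842653) (nat_lit 152) (nat_lit 11084784664) (nat_lit 0) (nat_lit 3002806007) (nat_lit 26) (nat_lit 5) (nat_lit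 28) (nat_lit 4) (nat_lit 26) (nat_lit 4) (nat_lit 394) (nat_lit 258) (nat_lit 248))) (XT.nd (nat_lit 78) (nat_lit 76) (nat_lit 0) (XT.lf (nat_lit 0) (nat_lit 11175208994) (nat_lit 152) (nat_lit 1350122051) (nat_lit 0) (nat_lit 7964487401) (nat_lit 26) (nat_lit 5) (nat_lit 28) (nat_lit 4) (nat_lit 26) (nat_lit 4) (nat_lit 395) (nat_lit 258) (nat_lit 247)) (XT.lf (nat_lit 0) (nat_lit 8671452219) (nat_lit 76) (nat_lit 7862672471) (nat_lit 76) (nat_lit 4408567433) (nat_lit 25) (nat_lit 4) (nat_lit 26) (nat_lit 5) (nat_lit 26) (nat_lit 4) (nat_lit 396) (nat_lit 258) (nat_lit 246)))))) (XT.nd (nat_lit 546) (nat_lit 228) (nat_lit 0) (XT.nd (nat_lit 234) (nat_lit 228) (nat_lit 0) (XT.nd (nat_lit 78) (nat_lit 76) (nat_lit 0) (XT.lf (nat_lit 0) (nat_lit 552798522) (nat_lit 152) (nat_lit 2568218643) (nat_lit 76) (nat_lit 18290338917) (nat_lit 24) (nat_lit 5) (nat_lit 26) (nat_lit 5) (nat_lit 25) (nat_lit 4) (nat_lit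 397) (nat_lit 258) (nat_lit 245)) (XT.nd (nat_lit 78) (nat_lit 0) (nat_lit 0) (XT.lf (nat_lit 0) (nat_lit 5572093559) (nat_lit 152) (nat_lit 14554306395) (nat_lit 0) (nat_lit 1766450954) (nat_lit 23) (nat_lit 5) (nat_lit 25) (nat_lit 4) (nat_lit 23) (nat_lit 4) (nat_lit 398) (nat_lit 258) (nat_lit 244)) (XT.lf (nat_lit 0) (nat_lit 10708987790) (nat_lit 152) (nat_lit 4993701007) (nat_lit 0) (nat_lit 6687102147) (nat_lit 23) (nat_lit 5) (nat_lit 25) (nat_lit 4) (nat_lit 23) (nat_lit 4) (nat_lit 399) (nat_lit 258) (nat_lit 243)))) (XT.nd (nat_lit 156) (nat_lit 152) (nat_lit 0) (XT.nd (nat_lit 78) (nat_lit 0) (nat_lit 0) (XT.lf (nat_lit 0) (nat_lit 4782297692) (nat_lit 76) (nat_lit 11176213408) (nat_lit 76) (nat_lit 6944383068) (nat_lit 22) (nat_lit 4) (nat_lit 23) (nat_lit 5) (nat_lit 23) (nat_lit 4) (nat_lit 400) (nat_lit 258) (nat_lit 242)) (XT.lf (nat_lit 0) (nat_lit 14790812768) (nat_lit 76) (nat_lit 6538664743)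 (nat_lit 76) (nat_lit 2103004599) (nat_lit 22) (nat_lit 4) (nat_lit 23) (nat_lit 5) (nat_lit 23) (nat_lit 4) (nat_lit 401) (nat_lit 258) (nat_lit 241))) (XT.nd (nat_lit 78) (nat_lit 0) (nat_lit 0) (XT.lf (nat_lit 0) (nat_lit 952416115) (nat_lit 76) (nat_lit 1799292885) (nat_lit 152) (nat_lit 21227695965) (nat_lit 20) (nat_lit 5) (nat_lit 21) (nat_lit 5) (nat_lit 22) (nat_lit 4) (nat_lit 402) (nat_lit 258) (nat_lit 240)) (XT.lf (nat_lit 0) (nat_lit 7742988797) (nat_lit 152) (nat_lit 13740275371) (nat_lit 0) (nat_lit 3057860356) (nat_lit 20) (nat_lit 5) (nat_lit 22) (nat_lit 4) (nat_lit 20) (nat_lit 4) (nat_lit 403) (nat_lit 258) (nat_lit 239))))) (XT.nd (nat_lit 234) (nat_lit 152) (nat_lit 0) (XT.nd (nat_lit 78) (nat_lit 76) (nat_lit 0) (XT.lf (nat_lit 0) (nat_lit 12819721393) (nat_lit 152) (nat_lit 4348419223) (nat_lit 0) (nat_lit 7953492812) (nat_lit 20) (nat_lit 5) (nat_lit 22) (nat_lit 4) (nat_lit 20)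 (nat_lit 4) (nat_lit 404) (nat_lit 258) (nat_lit 238)) (XT.nd (nat_lit 78) (nat_lit 0) (nat_lit 0) (XT.lf (nat_lit 0) (nat_lit 5277056349) (nat_lit 76) (nat_lit 12742716809) (nat_lit 76) (nat_lit 7700662849) (nat_lit 19) (nat_lit 4) (nat_lit 20) (nat_lit 5) (nat_lit 20) (nat_lit 4) (nat_lit 405) (nat_lit 258) (nat_lit 237)) (XT.lf (nat_lit 0) (nat_lit 15130805361) (nat_lit 76) (nat_lit 8210105817) (nat_lit 76) (nat_lit 2997347606) (nat_lit 19) (nat_lit 4) (nat_lit 20) (nat_lit 5) (nat_lit 20) (nat_lit 4) (nat_lit 406) (nat_lit 258) (nat_lit 236)))) (XT.nd (nat_lit 156) (nat_lit 0) (nat_lit 0) (XT.nd (nat_lit 78) (nat_lit 76) (nat_lit 0) (XT.lf (nat_lit 0) (nat_lit 1733728284) (nat_lit 152) (nat_lit 1859022075) (nat_lit 76) (nat_lit 23383660276) (nat_lit 18) (nat_lit 5) (nat_lit 20) (nat_lit 5) (nat_lit 19) (nat_lit 4) (nat_lit 407) (nat_lit 258) (nat_lit 235)) (XT.lf (nat_lit 0) (nat_lit 6557498078) (nat_lit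 152) (nat_lit 19895552351) (nat_lit 0) (nat_lit 1179444076) (nat_lit 17) (nat_lit 5) (nat_lit 19) (nat_lit 4) (nat_lit 17) (nat_lit 4) (nat_lit 408) (nat_lit 258) (nat_lit 234))) (XT.nd (nat_lit 78) (nat_lit 0) (nat_lit 0) (XT.lf (nat_lit 0) (nat_lit 11505652203) (nat_lit 152) (nat_lit 10827296567) (nat_lit 0) (nat_lit 5975929684) (nat_lit 17) (nat_lit 5) (nat_lit 19) (nat_lit 4) (nat_lit 17) (nat_lit 4) (nat_lit 409) (nat_lit 258) (nat_lit 233)) (XT.lf (nat_lit 0) (nat_lit 16529572413) (nat_lit 152) (nat_lit 1625570428) (nat_lit 0) (nat_lit 10852598908) (nat_lit 17) (nat_lit 5) (nat_lit 19) (nat_lit 4) (nat_lit 17) (nat_lit 4) (nat_lit 410) (nat_lit 258) (nat_lit 232))))))))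
noncomputable def xc21 : XT := (XT.nd (nat_lit 2028) (nat_lit 228) (nat_lit 0) (XT.nd (nat_lit 1014) (nat_lit 228) (nat_lit 0) (XT.nd (nat_lit 468) (nat_lit 228) (nat_lit 0) (XT.nd (nat_lit 234) (nat_lit 76) (nat_lit 0) (XT.nd (nat_lit 78) (nat_lit 76) (nat_lit 0) (XT.lf (nat_lit 0) (nat_lit 7871263102) (nat_lit 76) (nat_lit 13838048837) (nat_lit 76) (nat_lit 8018113209) (nat_lit 16) (nat_lit 4) (nat_lit 17) (nat_lit 5) (nat_lit 17) (nat_lit 4) (nat_lit 411) (nat_lit 258) (nat_lit 231)) (XT.nd (nat_lit 78) (nat_lit 76) (nat_lit 0) (XT.lf (nat_lit 0) (nat_lit 17553102183) (nat_lit 76) (nat_lit 9437969438) (nat_lit 76) (nat_lit 3479235633) (nat_lit 16) (nat_lit 4) (nat_lit 17) (nat_lit 5) (nat_lit 17) (nat_lit 4) (nat_lit 412) (nat_lit 258) (nat_lit 230)) (XT.lf (nat_lit 0) (nat_lit 1104041732) (nat_lit 152) (nat_lit 3852284599) (nat_lit 76) (nat_lit 26280864245) (nat_lit 15) (nat_lit 5) (nat_lit 17) (nat_lit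 5) (nat_lit 16) (nat_lit 4) (nat_lit 413) (nat_lit 258) (nat_lit 229)))) (XT.nd (nat_lit 78) (nat_lit 0) (nat_lit 0) (XT.lf (nat_lit 0) (nat_lit 5429175095) (nat_lit 76) (nat_lit 311462838) (nat_lit 152) (nat_lit 26285842985) (nat_lit 14) (nat_lit 5) (nat_lit 15) (nat_lit 5) (nat_lit 16) (nat_lit 4) (nat_lit 414) (nat_lit 258) (nat_lit 228)) (XT.nd (nat_lit 78) (nat_lit 0) (nat_lit 0) (XT.lf (nat_lit 0) (nat_lit 10532324574) (nat_lit 152) (nat_lit 17940676727) (nat_lit 0) (nat_lit 4365975151) (nat_lit 14) (nat_lit 5) (nat_lit 16) (nat_lit 4) (nat_lit 14) (nat_lit 4) (nat_lit 415) (nat_lit 258) (nat_lit 227)) (XT.lf (nat_lit 0) (nat_lit 15406488421) (nat_lit 152) (nat_lit 9150792238) (nat_lit 0) (nat_lit 9120410471) (nat_lit 14) (nat_lit 5) (nat_lit 16) (nat_lit 4) (nat_lit 14) (nat_lit 4) (nat_lit 416) (nat_lit 258) (nat_lit 226))))) (XT.nd (nat_lit 234) (nat_lit 152) (nat_lit 0) (XT.nd (nat_lit 78) (nat_lit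 76) (nat_lit 0) (XT.lf (nat_lit 0) (nat_lit 20364394482) (nat_lit 152) (nat_lit 216977904) (nat_lit 0) (nat_lit 13962075243) (nat_lit 14) (nat_lit 5) (nat_lit 16) (nat_lit 4) (nat_lit 14) (nat_lit 4) (nat_lit 417) (nat_lit 258) (nat_lit 225)) (XT.nd (nat_lit 78) (nat_lit 0) (nat_lit 0) (XT.lf (nat_lit 0) (nat_lit 9045074502) (nat_lit 76) (nat_lit 16452247194) (nat_lit 76) (nat_lit 9937072335) (nat_lit 13) (nat_lit 4) (nat_lit 14) (nat_lit 5) (nat_lit 14) (nat_lit 4) (nat_lit 418) (nat_lit 258) (nat_lit 224)) (XT.lf (nat_lit 0) (nat_lit 18474297960) (nat_lit 76) (nat_lit 12252127098) (nat_lit 76) (nat_lit 5627383676) (nat_lit 13) (nat_lit 4) (nat_lit 14) (nat_lit 5) (nat_lit 14) (nat_lit 4) (nat_lit 419) (nat_lit 258) (nat_lit 223)))) (XT.nd (nat_lit 156) (nat_lit 76) (nat_lit 0) (XT.nd (nat_lit 78) (nat_lit 76) (nat_lit 0) (XT.lf (nat_lit 0) (nat_lit 28074613311) (nat_lit 76) (nat_lit 7979533144) (nat_lit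 76) (nat_lit 1248412476) (nat_lit 13) (nat_lit 4) (nat_lit 14) (nat_lit 5) (nat_lit 14) (nat_lit 4) (nat_lit 420) (nat_lit 258) (nat_lit 222)) (XT.lf (nat_lit 0) (nat_lit 3141152457) (nat_lit 152) (nat_lit 457860057) (nat_lit 76) (nat_lit 34681537241) (nat_lit 12) (nat_lit 5) (nat_lit 14) (nat_lit 5) (nat_lit 13) (nat_lit 4) (nat_lit 421) (nat_lit 258) (nat_lit 221))) (XT.nd (nat_lit 78) (nat_lit 0) (nat_lit 0) (XT.lf (nat_lit 0) (nat_lit 7673988024) (nat_lit 152) (nat_lit 30671127731) (nat_lit 0) (nat_lit 941298409) (nat_lit 11) (nat_lit 5) (nat_lit 13) (nat_lit 4) (nat_lit 11) (nat_lit 4) (nat_lit 422) (nat_lit 258) (nat_lit 220)) (XT.lf (nat_lit 0) (nat_lit 12327767749) (nat_lit 152) (nat_lit 22494579451) (nat_lit 0) (nat_lit 5500563329) (nat_lit 11) (nat_lit 5) (nat_lit 13) (nat_lit 4) (nat_lit 11) (nat_lit 4) (nat_lit 423) (nat_lit 258) (nat_lit 219)))))) (XT.nd (nat_lit 468) (nat_lit 152) (nat_lit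 0) (XT.nd (nat_lit 234) (nat_lit 0) (nat_lit 0) (XT.nd (nat_lit 78) (nat_lit 76) (nat_lit 0) (XT.lf (nat_lit 0) (nat_lit 17067428863) (nat_lit 152) (nat_lit 14176227040) (nat_lit 0) (nat_lit 10148462497) (nat_lit 11) (nat_lit 5) (nat_lit 13) (nat_lit 4) (nat_lit 11) (nat_lit 4) (nat_lit 424) (nat_lit 258) (nat_lit 218)) (XT.nd (nat_lit 78) (nat_lit 76) (nat_lit 0) (XT.lf (nat_lit 0) (nat_lit 21897112820) (nat_lit 152) (nat_lit 5708802035) (nat_lit 0) (nat_lit 14889057185) (nat_lit 11) (nat_lit 5) (nat_lit 13) (nat_lit 4) (nat_lit 11) (nat_lit 4) (nat_lit 425) (nat_lit 258) (nat_lit 217)) (XT.lf (nat_lit 0) (nat_lit 2973110375) (nat_lit 76) (nat_lit 23876508710) (nat_lit 76) (nat_lit 16781958639) (nat_lit 10) (nat_lit 4) (nat_lit 11) (nat_lit 5) (nat_lit 11) (nat_lit 4) (nat_lit 426) (nat_lit 258) (nat_lit 216)))) (XT.nd (nat_lit 78) (nat_lit 0) (nat_lit 0) (XT.lf (nat_lit 0) (nat_lit 11935909954) (nat_lit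 76) (nat_lit 20022337367) (nat_lit 76) (nat_lit 12843812116) (nat_lit 10) (nat_lit 4) (nat_lit 11) (nat_lit 5) (nat_lit 11) (nat_lit 4) (nat_lit 427) (nat_lit 258) (nat_lit 215)) (XT.nd (nat_lit 78) (nat_lit 0) (nat_lit 0) (XT.lf (nat_lit 0) (nat_lit 21073811920) (nat_lit 76) (nat_lit 16097680811) (nat_lit 76) (nat_lit 8837626259) (nat_lit 10) (nat_lit 4) (nat_lit 11) (nat_lit 5) (nat_lit 11) (nat_lit 4) (nat_lit 428) (nat_lit 258) (nat_lit 214)) (XT.lf (nat_lit 0) (nat_lit 30394800846) (nat_lit 76) (nat_lit 12099109730) (nat_lit 76) (nat_lit 4759900517) (nat_lit 10) (nat_lit 4) (nat_lit 11) (nat_lit 5) (nat_lit 11) (nat_lit 4) (nat_lit 429) (nat_lit 258) (nat_lit 213))))) (XT.nd (nat_lit 234) (nat_lit 0) (nat_lit 0) (XT.nd (nat_lit 78) (nat_lit 152) (nat_lit 0) (XT.lf (nat_lit 0) (nat_lit 39907021287) (nat_lit 76) (nat_lit 8023130228) (nat_lit 76) (nat_lit 607071829) (nat_lit 10) (nat_lit 4) (nat_lit 11)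 (nat_lit 5) (nat_lit 11) (nat_lit 4) (nat_lit 430) (nat_lit 258) (nat_lit 212)) (XT.nd (nat_lit 78) (nat_lit 76) (nat_lit 0) (XT.lf (nat_lit 0) (nat_lit 3553761664) (nat_lit 152) (nat_lit 276533079) (nat_lit 76) (nat_lit 46029137203) (nat_lit 9) (nat_lit 5) (nat_lit 11) (nat_lit 5) (nat_lit 10) (nat_lit 4) (nat_lit 431) (nat_lit 258) (nat_lit 211)) (XT.lf (nat_lit 0) (nat_lit 7869493253) (nat_lit 152) (nat_lit 42823697628) (nat_lit 0) (nat_lit 526670936) (nat_lit 8) (nat_lit 5) (nat_lit 10) (nat_lit 4) (nat_lit 8) (nat_lit 4) (nat_lit 432) (nat_lit 258) (nat_lit 210)))) (XT.nd (nat_lit 156) (nat_lit 0) (nat_lit 0) (XT.nd (nat_lit 78) (nat_lit 0) (nat_lit 0) (XT.lf (nat_lit 0) (nat_lit 12311875168) (nat_lit 152) (nat_lit 35408544184) (nat_lit 0) (nat_lit 4900773345) (nat_lit 8) (nat_lit 5) (nat_lit 10) (nat_lit 4) (nat_lit 8) (nat_lit 4) (nat_lit 433) (nat_lit 258) (nat_lit 209)) (XT.lf (nat_lit 0) (nat_lit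 16845232015) (nat_lit 152) (nat_lit 27852764340) (nat_lit 0) (nat_lit 9367839410) (nat_lit 8) (nat_lit 5) (nat_lit 10) (nat_lit 4) (nat_lit 8) (nat_lit 4) (nat_lit 434) (nat_lit 258) (nat_lit 208))) (XT.nd (nat_lit 78) (nat_lit 0) (nat_lit 0) (XT.lf (nat_lit 0) (nat_lit 21473524979) (nat_lit 152) (nat_lit 20149755958) (nat_lit 0) (nat_lit 13931772391) (nat_lit 8) (nat_lit 5) (nat_lit 10) (nat_lit 4) (nat_lit 8) (nat_lit 4) (nat_lit 435) (nat_lit 258) (nat_lit 207)) (XT.lf (nat_lit 0) (nat_lit 26200798200) (nat_lit 152) (nat_lit 12292788254) (nat_lit 0) (nat_lit 18596560191) (nat_lit 8) (nat_lit 5) (nat_lit 10) (nat_lit 4) (nat_lit 8) (nat_lit 4) (nat_lit 436) (nat_lit 258) (nat_lit 206))))))) (XT.nd (nat_lit 1014) (nat_lit 0) (nat_lit 0) (XT.nd (nat_lit 468) (nat_lit 152) (nat_lit 0) (XT.nd (nat_lit 234) (nat_lit 0) (nat_lit 0) (XT.nd (nat_lit 78) (nat_lit 76) (nat_lit 0) (XT.lf (nat_lit 0) (nat_lit 31031182305)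 (nat_lit 152) (nat_lit 4274995916) (nat_lit 0) (nat_lit 23366278839) (nat_lit 8) (nat_lit 5) (nat_lit 10) (nat_lit 4) (nat_lit 8) (nat_lit 4) (nat_lit 437) (nat_lit 258) (nat_lit 205)) (XT.nd (nat_lit 78) (nat_lit 0) (nat_lit 0) (XT.lf (nat_lit 0) (nat_lit 3988456036) (nat_lit 76) (nat_lit 32018781460) (nat_lit 76) (nat_lit 24294979493) (nat_lit 7) (nat_lit 4) (nat_lit 8) (nat_lit 5) (nat_lit 8) (nat_lit 4) (nat_lit 438) (nat_lit 258) (nat_lit 204)) (XT.lf (nat_lit 0) (nat_lit 12515454252) (nat_lit 76) (nat_lit 28623111798) (nat_lit 76) (nat_lit 20842126819) (nat_lit 7) (nat_lit 4) (nat_lit 8) (nat_lit 5) (nat_lit 8) (nat_lit 4) (nat_lit 439) (nat_lit 258) (nat_lit 203)))) (XT.nd (nat_lit 78) (nat_lit 0) (nat_lit 0) (XT.lf (nat_lit 0) (nat_lit 21228368704) (nat_lit 76) (nat_lit 25159371219) (nat_lit 76) (nat_lit 17322868753) (nat_lit 7) (nat_lit 4) (nat_lit 8) (nat_lit 5) (nat_lit 8) (nat_lit 4) (nat_lit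 440) (nat_lit 258) (nat_lit 202)) (XT.nd (nat_lit 78) (nat_lit 0) (nat_lit 0) (XT.lf (nat_lit 0) (nat_lit 30134812620) (nat_lit 76) (nat_lit 21624533155) (nat_lit 76) (nat_lit 13734130217) (nat_lit 7) (nat_lit 4) (nat_lit 8) (nat_lit 5) (nat_lit 8) (nat_lit 4) (nat_lit 441) (nat_lit 258) (nat_lit 201)) (XT.lf (nat_lit 0) (nat_lit 39242568328) (nat_lit 76) (nat_lit 18015508912) (nat_lit 76) (nat_lit 10072775419) (nat_lit 7) (nat_lit 4) (nat_lit 8) (nat_lit 5) (nat_lit 8) (nat_lit 4) (nat_lit 442) (nat_lit 258) (nat_lit 200))))) (XT.nd (nat_lit 234) (nat_lit 76) (nat_lit 0) (XT.nd (nat_lit 78) (nat_lit 76) (nat_lit 0) (XT.lf (nat_lit 0) (nat_lit 48559594062) (nat_lit 76) (nat_lit 14329144975) (nat_lit 76) (nat_lit 6335605116) (nat_lit 7) (nat_lit 4) (nat_lit 8) (nat_lit 5) (nat_lit 8) (nat_lit 4) (nat_lit 443) (nat_lit 258) (nat_lit 199)) (XT.nd (nat_lit 78) (nat_lit 76) (nat_lit 0) (XT.lf (nat_lit 0) (nat_lit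 58094030912) (nat_lit 76) (nat_lit 10562220248) (nat_lit 76) (nat_lit 2519353821) (nat_lit 7) (nat_lit 4) (nat_lit 8) (nat_lit 5) (nat_lit 8) (nat_lit 4) (nat_lit 444) (nat_lit 258) (nat_lit 198)) (XT.lf (nat_lit 0) (nat_lit 1352397688) (nat_lit 152) (nat_lit 5345388989) (nat_lit 76) (nat_lit 66488155686) (nat_lit 6) (nat_lit 5) (nat_lit 8) (nat_lit 5) (nat_lit 7) (nat_lit 4) (nat_lit 445) (nat_lit 258) (nat_lit 197)))) (XT.nd (nat_lit 156) (nat_lit 0) (nat_lit 0) (XT.nd (nat_lit 78) (nat_lit 0) (nat_lit 0) (XT.lf (nat_lit 0) (nat_lit 2589319715) (nat_lit 76) (nat_lit 2694705424) (nat_lit 152) (nat_lit 69971987900) (nat_lit 5) (nat_lit 5) (nat_lit 6) (nat_lit 5) (nat_lit 7) (nat_lit 4) (nat_lit 446) (nat_lit 258) (nat_lit 196)) (XT.lf (nat_lit 0) (nat_lit 9371368541) (nat_lit 152) (nat_lit 66588387979) (nat_lit 0) (nat_lit 1427298525) (nat_lit 5) (nat_lit 5) (nat_lit 7) (nat_lit 4) (nat_lit 5) (nat_lit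 4) (nat_lit 447) (nat_lit 258) (nat_lit 195))) (XT.nd (nat_lit 78) (nat_lit 0) (nat_lit 0) (XT.lf (nat_lit 0) (nat_lit 13578423595) (nat_lit 152) (nat_lit 60411890086) (nat_lit 0) (nat_lit 5591804048) (nat_lit 5) (nat_lit 5) (nat_lit 7) (nat_lit 4) (nat_lit 5) (nat_lit 4) (nat_lit 448) (nat_lit 258) (nat_lit 194)) (XT.lf (nat_lit 0) (nat_lit 17882963213) (nat_lit 152) (nat_lit 54105899549) (nat_lit 0) (nat_lit 9855033442) (nat_lit 5) (nat_lit 5) (nat_lit 7) (nat_lit 4) (nat_lit 5) (nat_lit 4) (nat_lit 449) (nat_lit 258) (nat_lit 193)))))) (XT.nd (nat_lit 42042) (nat_lit 0) (nat_lit 1596) (XT.nd (nat_lit 41730) (nat_lit 0) (nat_lit 2204) (XT.nd (nat_lit 41574) (nat_lit 0) (nat_lit 2508) (XT.lf (nat_lit 0) (nat_lit 22288748643) (nat_lit 152) (nat_lit 47664906278) (nat_lit 0) (nat_lit 14220711858) (nat_lit 5) (nat_lit 5) (nat_lit 7) (nat_lit 4) (nat_lit 5) (nat_lit 4) (nat_lit 450) (nat_lit 258) (nat_lit 192))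 (XT.nd (nat_lit 78) (nat_lit 152) (nat_lit 0) (XT.lf (nat_lit 0) (nat_lit 5009304431) (nat_lit 152) (nat_lit 1425484448) (nat_lit 152) (nat_lit 1425484448) (nat_lit 40) (nat_lit 4) (nat_lit 42) (nat_lit 5) (nat_lit 42) (nat_lit 4) (nat_lit 382) (nat_lit 259) (nat_lit 259)) (XT.lf (nat_lit 0) (nat_lit 2321067876) (nat_lit 152) (nat_lit 11761365989) (nat_lit 0) (nat_lit 1941884400) (nat_lit 38) (nat_lit 5) (nat_lit 40) (nat_lit 4) (nat_lit 38) (nat_lit 4) (nat_lit 383) (nat_lit 259) (nat_lit 258)))) (XT.nd (nat_lit 156) (nat_lit 152) (nat_lit 0) (XT.nd (nat_lit 78) (nat_lit 152) (nat_lit 0) (XT.lf (nat_lit 0) (nat_lit 7567643493) (nat_lit 152) (nat_lit 1949110289) (nat_lit 0) (nat_lit 6820320720) (nat_lit 38) (nat_lit 5) (nat_lit 40) (nat_lit 4) (nat_lit 38) (nat_lit 4) (nat_lit 384) (nat_lit 259) (nat_lit 257)) (XT.lf (nat_lit 0) (nat_lit 8121544253) (nat_lit 152) (nat_lit 4821639922) (nat_lit 152) (nat_lit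 3716900355) (nat_lit 36) (nat_lit 4) (nat_lit 38) (nat_lit 5) (nat_lit 38) (nat_lit 4) (nat_lit 385) (nat_lit 259) (nat_lit 256))) (XT.nd (nat_lit 78) (nat_lit 0) (nat_lit 0) (XT.lf (nat_lit 0) (nat_lit 1359439733) (nat_lit 76) (nat_lit 25380904) (nat_lit 152) (nat_lit 15609753387) (nat_lit 34) (nat_lit 5) (nat_lit 35) (nat_lit 5) (nat_lit 36) (nat_lit 4) (nat_lit 386) (nat_lit 259) (nat_lit 255)) (XT.lf (nat_lit 0) (nat_lit 6593297887) (nat_lit 152) (nat_lit 5887111970) (nat_lit 0) (nat_lit 4856748596) (nat_lit 34) (nat_lit 5) (nat_lit 36) (nat_lit 4) (nat_lit 34) (nat_lit 4) (nat_lit 387) (nat_lit 259) (nat_lit 254))))) (XT.nd (nat_lit 234) (nat_lit 304) (nat_lit 0) (XT.nd (nat_lit 78) (nat_lit 152) (nat_lit 0) (XT.lf (nat_lit 0) (nat_lit 4042574353) (nat_lit 152) (nat_lit 7851741534) (nat_lit 152) (nat_lit 5797632052) (nat_lit 32) (nat_lit 4) (nat_lit 34) (nat_lit 5) (nat_lit 34) (nat_lit 4) (nat_lit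 388) (nat_lit 259) (nat_lit 253)) (XT.nd (nat_lit 78) (nat_lit 152) (nat_lit 0) (XT.lf (nat_lit 0) (nat_lit 14203277699) (nat_lit 152) (nat_lit 3108902466) (nat_lit 152) (nat_lit 746482118) (nat_lit 32) (nat_lit 4) (nat_lit 34) (nat_lit 5) (nat_lit 34) (nat_lit 4) (nat_lit 389) (nat_lit 259) (nat_lit 252)) (XT.lf (nat_lit 0) (nat_lit 4345728619) (nat_lit 152) (nat_lit 12328580560) (nat_lit 0) (nat_lit 1761504069) (nat_lit 30) (nat_lit 5) (nat_lit 32) (nat_lit 4) (nat_lit 30) (nat_lit 4) (nat_lit 390) (nat_lit 259) (nat_lit 251)))) (XT.nd (nat_lit 156) (nat_lit 152) (nat_lit 0) (XT.nd (nat_lit 78) (nat_lit 152) (nat_lit 0) (XT.lf (nat_lit 0) (nat_lit 9546481758) (nat_lit 152) (nat_lit 2598357095) (nat_lit 0) (nat_lit 6680109092) (nat_lit 30) (nat_lit 5) (nat_lit 32) (nat_lit 4) (nat_lit 30) (nat_lit 4) (nat_lit 391) (nat_lit 259) (nat_lit 250)) (XT.lf (nat_lit 0) (nat_lit 7388880231) (nat_lit 152) (nat_lit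 7488977610) (nat_lit 152) (nat_lit 4348674733) (nat_lit 28) (nat_lit 4) (nat_lit 30) (nat_lit 5) (nat_lit 30) (nat_lit 4) (nat_lit 392) (nat_lit 259) (nat_lit 249))) (XT.nd (nat_lit 78) (nat_lit 76) (nat_lit 0) (XT.lf (nat_lit 0) (nat_lit 645003848) (nat_lit 228) (nat_lit 2096896726) (nat_lit 76) (nat_lit 16900160472) (nat_lit 27) (nat_lit 5) (nat_lit 30) (nat_lit 5) (nat_lit 28) (nat_lit 4) (nat_lit 393) (nat_lit 259) (nat_lit 248)) (XT.lf (nat_lit 0) (nat_lit 5704335485) (nat_lit 152) (nat_lit 12217736223) (nat_lit 0) (nat_lit 2146607296) (nat_lit 26) (nat_lit 5) (nat_lit 28) (nat_lit 4) (nat_lit 26) (nat_lit 4) (nat_lit 394) (nat_lit 259) (nat_lit 247))))))))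
noncomputable def xc22 : XT := (XT.nd (nat_lit 2028) (nat_lit 608) (nat_lit 0) (XT.nd (nat_lit 1014) (nat_lit 380) (nat_lit 0) (XT.nd (nat_lit 468) (nat_lit 304) (nat_lit 0) (XT.nd (nat_lit 234) (nat_lit 152) (nat_lit 0) (XT.nd (nat_lit 78) (nat_lit 152) (nat_lit 0) (XT.lf (nat_lit 0) (nat_lit 10870801857) (nat_lit 152) (nat_lit 2568955131) (nat_lit 0) (nat_lit 7069690223) (nat_lit 26) (nat_lit 5) (nat_lit 28) (nat_lit 4) (nat_lit 26) (nat_lit 4) (nat_lit 395) (nat_lit 259) (nat_lit 246)) (XT.nd (nat_lit 78) (nat_lit 76) (nat_lit 0) (XT.lf (nat_lit 0) (nat_lit 7343322426) (nat_lit 76) (nat_lit 8829065252) (nat_lit 76) (nat_lit 4791659013) (nat_lit 25) (nat_lit 4) (nat_lit 26) (nat_lit 5) (nat_lit 26) (nat_lit 4) (nat_lit 396) (nat_lit 259) (nat_lit 245)) (XT.lf (nat_lit 0) (nat_lit 132681823) (nat_lit 152) (nat_lit 3997474376) (nat_lit 76) (nat_lit 17304005512) (nat_lit 24) (nat_lit 5) (nat_lit 26) (nat_lit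 5) (nat_lit 25) (nat_lit 4) (nat_lit 397) (nat_lit 259) (nat_lit 244)))) (XT.nd (nat_lit 78) (nat_lit 76) (nat_lit 0) (XT.lf (nat_lit 0) (nat_lit 5083755124) (nat_lit 152) (nat_lit 16108983599) (nat_lit 0) (nat_lit 724969874) (nat_lit 23) (nat_lit 5) (nat_lit 25) (nat_lit 4) (nat_lit 23) (nat_lit 4) (nat_lit 398) (nat_lit 259) (nat_lit 243)) (XT.nd (nat_lit 78) (nat_lit 76) (nat_lit 0) (XT.lf (nat_lit 0) (nat_lit 10177571464) (nat_lit 152) (nat_lit 6629533237) (nat_lit 0) (nat_lit 5608841516) (nat_lit 23) (nat_lit 5) (nat_lit 25) (nat_lit 4) (nat_lit 23) (nat_lit 4) (nat_lit 399) (nat_lit 259) (nat_lit 242)) (XT.lf (nat_lit 0) (nat_lit 3033549804) (nat_lit 76) (nat_lit 12334911740) (nat_lit 76) (nat_lit 7562351990) (nat_lit 22) (nat_lit 4) (nat_lit 23) (nat_lit 5) (nat_lit 23) (nat_lit 4) (nat_lit 400) (nat_lit 259) (nat_lit 241))))) (XT.nd (nat_lit 234) (nat_lit 152) (nat_lit 0) (XT.nd (nat_lit 78) (nat_lit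 152) (nat_lit 0) (XT.lf (nat_lit 0) (nat_lit 12964046056) (nat_lit 76) (nat_lit 7734026890) (nat_lit 76) (nat_lit 2763574127) (nat_lit 22) (nat_lit 4) (nat_lit 23) (nat_lit 5) (nat_lit 23) (nat_lit 4) (nat_lit 401) (nat_lit 259) (nat_lit 240)) (XT.nd (nat_lit 78) (nat_lit 76) (nat_lit 0) (XT.lf (nat_lit 0) (nat_lit 2054321624) (nat_lit 152) (nat_lit 992309004) (nat_lit 76) (nat_lit 20963625696) (nat_lit 21) (nat_lit 5) (nat_lit 23) (nat_lit 5) (nat_lit 22) (nat_lit 4) (nat_lit 402) (nat_lit 259) (nat_lit 239)) (XT.lf (nat_lit 0) (nat_lit 6983342871) (nat_lit 152) (nat_lit 15800478004) (nat_lit 0) (nat_lit 1790027292) (nat_lit 20) (nat_lit 5) (nat_lit 22) (nat_lit 4) (nat_lit 20) (nat_lit 4) (nat_lit 403) (nat_lit 259) (nat_lit 238)))) (XT.nd (nat_lit 156) (nat_lit 76) (nat_lit 0) (XT.nd (nat_lit 78) (nat_lit 76) (nat_lit 0) (XT.lf (nat_lit 0) (nat_lit 12020809899) (nat_lit 152) (nat_lit 6483060593) (nat_lit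 0) (nat_lit 6651668942) (nat_lit 20) (nat_lit 5) (nat_lit 22) (nat_lit 4) (nat_lit 20) (nat_lit 4) (nat_lit 404) (nat_lit 259) (nat_lit 237)) (XT.lf (nat_lit 0) (nat_lit 3026222485) (nat_lit 76) (nat_lit 14134880876) (nat_lit 76) (nat_lit 8595035668) (nat_lit 19) (nat_lit 4) (nat_lit 20) (nat_lit 5) (nat_lit 20) (nat_lit 4) (nat_lit 405) (nat_lit 259) (nat_lit 236))) (XT.nd (nat_lit 78) (nat_lit 76) (nat_lit 0) (XT.lf (nat_lit 0) (nat_lit 12808409415) (nat_lit 76) (nat_lit 9636132505) (nat_lit 76) (nat_lit 3930555014) (nat_lit 19) (nat_lit 4) (nat_lit 20) (nat_lit 5) (nat_lit 20) (nat_lit 4) (nat_lit 406) (nat_lit 259) (nat_lit 235)) (XT.lf (nat_lit 0) (nat_lit 781763360) (nat_lit 152) (nat_lit 4279502997) (nat_lit 76) (nat_lit 21953364483) (nat_lit 18) (nat_lit 5) (nat_lit 20) (nat_lit 5) (nat_lit 19) (nat_lit 4) (nat_lit 407) (nat_lit 259) (nat_lit 234)))))) (XT.nd (nat_lit 468) (nat_lit 228) (nat_lit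 0) (XT.nd (nat_lit 234) (nat_lit 76) (nat_lit 0) (XT.nd (nat_lit 78) (nat_lit 0) (nat_lit 0) (XT.lf (nat_lit 0) (nat_lit 5210670009) (nat_lit 76) (nat_lit 323010384) (nat_lit 152) (nat_lit 22139193692) (nat_lit 17) (nat_lit 5) (nat_lit 18) (nat_lit 5) (nat_lit 19) (nat_lit 4) (nat_lit 408) (nat_lit 259) (nat_lit 233)) (XT.nd (nat_lit 78) (nat_lit 0) (nat_lit 0) (XT.lf (nat_lit 0) (nat_lit 10442927309) (nat_lit 152) (nat_lit 13459108009) (nat_lit 0) (nat_lit 4448393613) (nat_lit 17) (nat_lit 5) (nat_lit 19) (nat_lit 4) (nat_lit 17) (nat_lit 4) (nat_lit 409) (nat_lit 259) (nat_lit 232)) (XT.lf (nat_lit 0) (nat_lit 15432088068) (nat_lit 152) (nat_lit 4323658267) (nat_lit 0) (nat_lit 9294592249) (nat_lit 17) (nat_lit 5) (nat_lit 19) (nat_lit 4) (nat_lit 17) (nat_lit 4) (nat_lit 410) (nat_lit 259) (nat_lit 231)))) (XT.nd (nat_lit 78) (nat_lit 0) (nat_lit 0) (XT.lf (nat_lit 0) (nat_lit 5053851396) (nat_lit 76)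 (nat_lit 15497146472) (nat_lit 76) (nat_lit 9220852476) (nat_lit 16) (nat_lit 4) (nat_lit 17) (nat_lit 5) (nat_lit 17) (nat_lit 4) (nat_lit 411) (nat_lit 259) (nat_lit 230)) (XT.nd (nat_lit 78) (nat_lit 0) (nat_lit 0) (XT.lf (nat_lit 0) (nat_lit 14671975304) (nat_lit 76) (nat_lit 11127405660) (nat_lit 76) (nat_lit 4716356152) (nat_lit 16) (nat_lit 4) (nat_lit 17) (nat_lit 5) (nat_lit 17) (nat_lit 4) (nat_lit 412) (nat_lit 259) (nat_lit 229)) (XT.lf (nat_lit 0) (nat_lit 24453068364) (nat_lit 76) (nat_lit 6686366150) (nat_lit 76) (nat_lit 144486047) (nat_lit 16) (nat_lit 4) (nat_lit 17) (nat_lit 5) (nat_lit 17) (nat_lit 4) (nat_lit 413) (nat_lit 259) (nat_lit 228))))) (XT.nd (nat_lit 234) (nat_lit 76) (nat_lit 0) (XT.nd (nat_lit 78) (nat_lit 0) (nat_lit 0) (XT.lf (nat_lit 0) (nat_lit 2330843644) (nat_lit 76) (nat_lit 2102527657) (nat_lit 152) (nat_lit 27641731102) (nat_lit 14) (nat_lit 5) (nat_lit 15) (nat_lit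 5) (nat_lit 16) (nat_lit 4) (nat_lit 414) (nat_lit 259) (nat_lit 227)) (XT.nd (nat_lit 78) (nat_lit 0) (nat_lit 0) (XT.lf (nat_lit 0) (nat_lit 9176138085) (nat_lit 152) (nat_lit 21131181172) (nat_lit 0) (nat_lit 2581749269) (nat_lit 14) (nat_lit 5) (nat_lit 16) (nat_lit 4) (nat_lit 14) (nat_lit 4) (nat_lit 415) (nat_lit 259) (nat_lit 226)) (XT.lf (nat_lit 0) (nat_lit 14019522275) (nat_lit 152) (nat_lit 12400295052) (nat_lit 0) (nat_lit 7308892171) (nat_lit 14) (nat_lit 5) (nat_lit 16) (nat_lit 4) (nat_lit 14) (nat_lit 4) (nat_lit 416) (nat_lit 259) (nat_lit 225)))) (XT.nd (nat_lit 156) (nat_lit 0) (nat_lit 0) (XT.nd (nat_lit 78) (nat_lit 76) (nat_lit 0) (XT.lf (nat_lit 0) (nat_lit 18947545175) (nat_lit 152) (nat_lit 3523760688) (nat_lit 0) (nat_lit 12124059450) (nat_lit 14) (nat_lit 5) (nat_lit 16) (nat_lit 4) (nat_lit 14) (nat_lit 4) (nat_lit 417) (nat_lit 259) (nat_lit 224)) (XT.lf (nat_lit 0) (nat_lit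 5615761855) (nat_lit 76) (nat_lit 18402733105) (nat_lit 76) (nat_lit 11469678817) (nat_lit 13) (nat_lit 4) (nat_lit 14) (nat_lit 5) (nat_lit 14) (nat_lit 4) (nat_lit 418) (nat_lit 259) (nat_lit 223))) (XT.nd (nat_lit 78) (nat_lit 0) (nat_lit 0) (XT.lf (nat_lit 0) (nat_lit 14989918904) (nat_lit 76) (nat_lit 14228982341) (nat_lit 76) (nat_lit 7189550808) (nat_lit 13) (nat_lit 4) (nat_lit 14) (nat_lit 5) (nat_lit 14) (nat_lit 4) (nat_lit 419) (nat_lit 259) (nat_lit 222)) (XT.lf (nat_lit 0) (nat_lit 24536771721) (nat_lit 76) (nat_lit 9981989680) (nat_lit 76) (nat_lit 2839279267) (nat_lit 13) (nat_lit 4) (nat_lit 14) (nat_lit 5) (nat_lit 14) (nat_lit 4) (nat_lit 420) (nat_lit 259) (nat_lit 221))))))) (XT.nd (nat_lit 1014) (nat_lit 228) (nat_lit 0) (XT.nd (nat_lit 468) (nat_lit 228) (nat_lit 0) (XT.nd (nat_lit 234) (nat_lit 0) (nat_lit 0) (XT.nd (nat_lit 78) (nat_lit 76) (nat_lit 0) (XT.lf (nat_lit 0) (nat_lit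 1554009182) (nat_lit 152) (nat_lit 4088342528) (nat_lit 76) (nat_lit 32694960589) (nat_lit 12) (nat_lit 5) (nat_lit 14) (nat_lit 5) (nat_lit 13) (nat_lit 4) (nat_lit 421) (nat_lit 259) (nat_lit 220)) (XT.nd (nat_lit 78) (nat_lit 0) (nat_lit 0) (XT.lf (nat_lit 0) (nat_lit 4870118214) (nat_lit 76) (nat_lit 1144881604) (nat_lit 152) (nat_lit 33330334600) (nat_lit 11) (nat_lit 5) (nat_lit 12) (nat_lit 5) (nat_lit 13) (nat_lit 4) (nat_lit 422) (nat_lit 259) (nat_lit 219)) (XT.lf (nat_lit 0) (nat_lit 10631305274) (nat_lit 152) (nat_lit 26338644060) (nat_lit 0) (nat_lit 3413007970) (nat_lit 11) (nat_lit 5) (nat_lit 13) (nat_lit 4) (nat_lit 11) (nat_lit 4) (nat_lit 423) (nat_lit 259) (nat_lit 218)))) (XT.nd (nat_lit 78) (nat_lit 0) (nat_lit 0) (XT.lf (nat_lit 0) (nat_lit 15345268364) (nat_lit 152) (nat_lit 18069788190) (nat_lit 0) (nat_lit 8037881791) (nat_lit 11) (nat_lit 5) (nat_lit 13) (nat_lit 4) (nat_lit 11)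 (nat_lit 4) (nat_lit 424) (nat_lit 259) (nat_lit 217)) (XT.nd (nat_lit 78) (nat_lit 0) (nat_lit 0) (XT.lf (nat_lit 0) (nat_lit 20150002780) (nat_lit 152) (nat_lit 9650418080) (nat_lit 0) (nat_lit 12756121772) (nat_lit 11) (nat_lit 5) (nat_lit 13) (nat_lit 4) (nat_lit 11) (nat_lit 4) (nat_lit 425) (nat_lit 259) (nat_lit 216)) (XT.lf (nat_lit 0) (nat_lit 25049706836) (nat_lit 152) (nat_lit 1073176998) (nat_lit 0) (nat_lit 17571850648) (nat_lit 11) (nat_lit 5) (nat_lit 13) (nat_lit 4) (nat_lit 11) (nat_lit 4) (nat_lit 426) (nat_lit 259) (nat_lit 215))))) (XT.nd (nat_lit 234) (nat_lit 152) (nat_lit 0) (XT.nd (nat_lit 78) (nat_lit 0) (nat_lit 0) (XT.lf (nat_lit 0) (nat_lit 7822066421) (nat_lit 76) (nat_lit 22301785893) (nat_lit 76) (nat_lit 14742400404) (nat_lit 10) (nat_lit 4) (nat_lit 11) (nat_lit 5) (nat_lit 11) (nat_lit 4) (nat_lit 427) (nat_lit 259) (nat_lit 214)) (XT.nd (nat_lit 78) (nat_lit 0) (nat_lit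 0) (XT.lf (nat_lit 0) (nat_lit 16915116121) (nat_lit 76) (nat_lit 18398718091) (nat_lit 76) (nat_lit 10760177941) (nat_lit 10) (nat_lit 4) (nat_lit 11) (nat_lit 5) (nat_lit 11) (nat_lit 4) (nat_lit 428) (nat_lit 259) (nat_lit 213)) (XT.lf (nat_lit 0) (nat_lit 26192559159) (nat_lit 76) (nat_lit 14421106967) (nat_lit 76) (nat_lit 6705717631) (nat_lit 10) (nat_lit 4) (nat_lit 11) (nat_lit 5) (nat_lit 11) (nat_lit 4) (nat_lit 429) (nat_lit 259) (nat_lit 212)))) (XT.nd (nat_lit 156) (nat_lit 76) (nat_lit 0) (XT.nd (nat_lit 78) (nat_lit 76) (nat_lit 0) (XT.lf (nat_lit 0) (nat_lit 35662502039) (nat_lit 76) (nat_lit 10365476936) (nat_lit 76) (nat_lit 2575476741) (nat_lit 10) (nat_lit 4) (nat_lit 11) (nat_lit 5) (nat_lit 11) (nat_lit 4) (nat_lit 430) (nat_lit 259) (nat_lit 211)) (XT.lf (nat_lit 0) (nat_lit 1602265453) (nat_lit 152) (nat_lit 4609839052) (nat_lit 76) (nat_lit 43714774274) (nat_lit 9) (nat_lit 5) (nat_lit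 11) (nat_lit 5) (nat_lit 10) (nat_lit 4) (nat_lit 431) (nat_lit 259) (nat_lit 210))) (XT.nd (nat_lit 78) (nat_lit 0) (nat_lit 0) (XT.lf (nat_lit 0) (nat_lit 3940866035) (nat_lit 76) (nat_lit 1908213693) (nat_lit 152) (nat_lit 45440298149) (nat_lit 8) (nat_lit 5) (nat_lit 9) (nat_lit 5) (nat_lit 10) (nat_lit 4) (nat_lit 432) (nat_lit 259) (nat_lit 209)) (XT.lf (nat_lit 0) (nat_lit 10252282999) (nat_lit 152) (nat_lit 39955324941) (nat_lit 0) (nat_lit 2484277833) (nat_lit 8) (nat_lit 5) (nat_lit 10) (nat_lit 4) (nat_lit 8) (nat_lit 4) (nat_lit 433) (nat_lit 259) (nat_lit 208)))))) (XT.nd (nat_lit 546) (nat_lit 152) (nat_lit 0) (XT.nd (nat_lit 234) (nat_lit 76) (nat_lit 0) (XT.nd (nat_lit 78) (nat_lit 0) (nat_lit 0) (XT.lf (nat_lit 0) (nat_lit 14765410985) (nat_lit 152) (nat_lit 32438680495) (nat_lit 0) (nat_lit 6933045836) (nat_lit 8) (nat_lit 5) (nat_lit 10) (nat_lit 4) (nat_lit 8) (nat_lit 4) (nat_lit 434)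 (nat_lit 259) (nat_lit 207)) (XT.nd (nat_lit 78) (nat_lit 0) (nat_lit 0) (XT.lf (nat_lit 0) (nat_lit 19374064278) (nat_lit 152) (nat_lit 24773667645) (nat_lit 0) (nat_lit 11479213709) (nat_lit 8) (nat_lit 5) (nat_lit 10) (nat_lit 4) (nat_lit 8) (nat_lit 4) (nat_lit 435) (nat_lit 259) (nat_lit 206)) (XT.lf (nat_lit 0) (nat_lit 24082269858) (nat_lit 152) (nat_lit 16953588806) (nat_lit 0) (nat_lit 16126753831) (nat_lit 8) (nat_lit 5) (nat_lit 10) (nat_lit 4) (nat_lit 8) (nat_lit 4) (nat_lit 436) (nat_lit 259) (nat_lit 205)))) (XT.nd (nat_lit 156) (nat_lit 76) (nat_lit 0) (XT.nd (nat_lit 78) (nat_lit 0) (nat_lit 0) (XT.lf (nat_lit 0) (nat_lit 28894141689) (nat_lit 152) (nat_lit 8971610901) (nat_lit 0) (nat_lit 20879727161) (nat_lit 8) (nat_lit 5) (nat_lit 10) (nat_lit 4) (nat_lit 8) (nat_lit 4) (nat_lit 437) (nat_lit 259) (nat_lit 204)) (XT.lf (nat_lit 0) (nat_lit 33813884321) (nat_lit 152) (nat_lit 820759385)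 (nat_lit 0) (nat_lit 25742286781) (nat_lit 8) (nat_lit 5) (nat_lit 10) (nat_lit 4) (nat_lit 8) (nat_lit 4) (nat_lit 438) (nat_lit 259) (nat_lit 203))) (XT.nd (nat_lit 78) (nat_lit 0) (nat_lit 0) (XT.lf (nat_lit 0) (nat_lit 7655473710) (nat_lit 76) (nat_lit 31263911943) (nat_lit 76) (nat_lit 23136796917) (nat_lit 7) (nat_lit 4) (nat_lit 8) (nat_lit 5) (nat_lit 8) (nat_lit 4) (nat_lit 439) (nat_lit 259) (nat_lit 202)) (XT.lf (nat_lit 0) (nat_lit 16334960591) (nat_lit 76) (nat_lit 27816336257) (nat_lit 76) (nat_lit 19635320758) (nat_lit 7) (nat_lit 4) (nat_lit 8) (nat_lit 5) (nat_lit 8) (nat_lit 4) (nat_lit 440) (nat_lit 259) (nat_lit 201))))) (XT.nd (nat_lit 234) (nat_lit 152) (nat_lit 0) (XT.nd (nat_lit 78) (nat_lit 0) (nat_lit 0) (XT.lf (nat_lit 0) (nat_lit 25208950553) (nat_lit 76) (nat_lit 24297192263) (nat_lit 76) (nat_lit 16063846209) (nat_lit 7) (nat_lit 4) (nat_lit 8) (nat_lit 5) (nat_lit 8) (nat_lit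 4) (nat_lit 441) (nat_lit 259) (nat_lit 200)) (XT.nd (nat_lit 78) (nat_lit 0) (nat_lit 0) (XT.lf (nat_lit 0) (nat_lit 34285197569) (nat_lit 76) (nat_lit 20703404983) (nat_lit 76) (nat_lit 12419252563) (nat_lit 7) (nat_lit 4) (nat_lit 8) (nat_lit 5) (nat_lit 8) (nat_lit 4) (nat_lit 442) (nat_lit 259) (nat_lit 199)) (XT.lf (nat_lit 0) (nat_lit 43571632340) (nat_lit 76) (nat_lit 17031834212) (nat_lit 76) (nat_lit 8698355224) (nat_lit 7) (nat_lit 4) (nat_lit 8) (nat_lit 5) (nat_lit 8) (nat_lit 4) (nat_lit 443) (nat_lit 259) (nat_lit 198)))) (XT.nd (nat_lit 156) (nat_lit 152) (nat_lit 0) (XT.nd (nat_lit 78) (nat_lit 0) (nat_lit 0) (XT.lf (nat_lit 0) (nat_lit 53076369225) (nat_lit 76) (nat_lit 13279271782) (nat_lit 76) (nat_lit 4897902923) (nat_lit 7) (nat_lit 4) (nat_lit 8) (nat_lit 5) (nat_lit 8) (nat_lit 4) (nat_lit 444) (nat_lit 259) (nat_lit 197)) (XT.lf (nat_lit 0) (nat_lit 62807713336) (nat_lit 76) (nat_lit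 9442438756) (nat_lit 76) (nat_lit 1014574876) (nat_lit 7) (nat_lit 4) (nat_lit 8) (nat_lit 5) (nat_lit 8) (nat_lit 4) (nat_lit 445) (nat_lit 259) (nat_lit 196))) (XT.nd (nat_lit 78) (nat_lit 76) (nat_lit 0) (XT.lf (nat_lit 0) (nat_lit 2897358990) (nat_lit 152) (nat_lit 2591365926) (nat_lit 76) (nat_lit 69847551153) (nat_lit 6) (nat_lit 5) (nat_lit 8) (nat_lit 5) (nat_lit 7) (nat_lit 4) (nat_lit 446) (nat_lit 259) (nat_lit 195)) (XT.lf (nat_lit 0) (nat_lit 5552811641) (nat_lit 76) (nat_lit 1378046652) (nat_lit 152) (nat_lit 70538076169) (nat_lit 5) (nat_lit 5) (nat_lit 6) (nat_lit 5) (nat_lit 7) (nat_lit 4) (nat_lit 447) (nat_lit 259) (nat_lit 194))))))))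
noncomputable def xc23 : XT := (XT.nd (nat_lit 43446) (nat_lit 0) (nat_lit 380) (XT.nd (nat_lit 42354) (nat_lit 0) (nat_lit 1140) (XT.nd (nat_lit 41808) (nat_lit 0) (nat_lit 2052) (XT.nd (nat_lit 41574) (nat_lit 0) (nat_lit 2660) (XT.nd (nat_lit 78) (nat_lit 0) (nat_lit 0) (XT.lf (nat_lit 0) (nat_lit 11110515445) (nat_lit 152) (nat_lit 65753867115) (nat_lit 0) (nat_lit 2800437556) (nat_lit 5) (nat_lit 5) (nat_lit 7) (nat_lit 4) (nat_lit 5) (nat_lit 4) (nat_lit 448) (nat_lit 259) (nat_lit 193)) (XT.nd (nat_lit 78) (nat_lit 0) (nat_lit 0) (XT.lf (nat_lit 0) (nat_lit 15401315961) (nat_lit 152) (nat_lit 59474564746) (nat_lit 0) (nat_lit 7051131059) (nat_lit 5) (nat_lit 5) (nat_lit 7) (nat_lit 4) (nat_lit 5) (nat_lit 4) (nat_lit 449) (nat_lit 259) (nat_lit 192)) (XT.lf (nat_lit 0) (nat_lit 19793762457) (nat_lit 152) (nat_lit 53059482319) (nat_lit 0) (nat_lit 11404638707) (nat_lit 5) (nat_lit 5) (nat_lit 7) (nat_lit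 4) (nat_lit 5) (nat_lit 4) (nat_lit 450) (nat_lit 259) (nat_lit 191)))) (XT.nd (nat_lit 78) (nat_lit 152) (nat_lit 0) (XT.lf (nat_lit 0) (nat_lit 1326236807) (nat_lit 152) (nat_lit 4917319890) (nat_lit 0) (nat_lit 1326236807) (nat_lit 42) (nat_lit 5) (nat_lit 44) (nat_lit 4) (nat_lit 42) (nat_lit 4) (nat_lit 380) (nat_lit 260) (nat_lit 260)) (XT.nd (nat_lit 78) (nat_lit 152) (nat_lit 0) (XT.lf (nat_lit 0) (nat_lit 7863035632) (nat_lit 152) (nat_lit 102593347) (nat_lit 0) (nat_lit 7460759883) (nat_lit 42) (nat_lit 5) (nat_lit 44) (nat_lit 4) (nat_lit 42) (nat_lit 4) (nat_lit 381) (nat_lit 260) (nat_lit 259)) (XT.lf (nat_lit 0) (nat_lit 9921267874) (nat_lit 152) (nat_lit 3296867412) (nat_lit 152) (nat_lit 2504032682) (nat_lit 40) (nat_lit 4) (nat_lit 42) (nat_lit 5) (nat_lit 42) (nat_lit 4) (nat_lit 382) (nat_lit 260) (nat_lit 258))))) (XT.nd (nat_lit 234) (nat_lit 304) (nat_lit 0) (XT.nd (nat_lit 78) (nat_lit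 152) (nat_lit 0) (XT.lf (nat_lit 0) (nat_lit 2601930359) (nat_lit 152) (nat_lit 11961648880) (nat_lit 0) (nat_lit 1464048605) (nat_lit 38) (nat_lit 5) (nat_lit 40) (nat_lit 4) (nat_lit 38) (nat_lit 4) (nat_lit 383) (nat_lit 260) (nat_lit 257)) (XT.nd (nat_lit 78) (nat_lit 152) (nat_lit 0) (XT.lf (nat_lit 0) (nat_lit 7796042205) (nat_lit 152) (nat_lit 2245181066) (nat_lit 0) (nat_lit 6300743658) (nat_lit 38) (nat_lit 5) (nat_lit 40) (nat_lit 4) (nat_lit 38) (nat_lit 4) (nat_lit 384) (nat_lit 260) (nat_lit 256)) (XT.lf (nat_lit 0) (nat_lit 7724732298) (nat_lit 152) (nat_lit 5392100490) (nat_lit 152) (nat_lit 3549795347) (nat_lit 36) (nat_lit 4) (nat_lit 38) (nat_lit 5) (nat_lit 38) (nat_lit 4) (nat_lit 385) (nat_lit 260) (nat_lit 255)))) (XT.nd (nat_lit 156) (nat_lit 152) (nat_lit 0) (XT.nd (nat_lit 78) (nat_lit 0) (nat_lit 0) (XT.lf (nat_lit 0) (nat_lit 851459050) (nat_lit 76) (nat_lit 641478782) (nat_lit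 152) (nat_lit 15509811595) (nat_lit 34) (nat_lit 5) (nat_lit 35) (nat_lit 5) (nat_lit 36) (nat_lit 4) (nat_lit 386) (nat_lit 260) (nat_lit 254)) (XT.lf (nat_lit 0) (nat_lit 6644840279) (nat_lit 152) (nat_lit 6490651439) (nat_lit 0) (nat_lit 4211547320) (nat_lit 34) (nat_lit 5) (nat_lit 36) (nat_lit 4) (nat_lit 34) (nat_lit 4) (nat_lit 387) (nat_lit 260) (nat_lit 253))) (XT.nd (nat_lit 78) (nat_lit 0) (nat_lit 0) (XT.lf (nat_lit 0) (nat_lit 3334632333) (nat_lit 152) (nat_lit 8555243597) (nat_lit 152) (nat_lit 5813639772) (nat_lit 32) (nat_lit 4) (nat_lit 34) (nat_lit 5) (nat_lit 34) (nat_lit 4) (nat_lit 388) (nat_lit 260) (nat_lit 252)) (XT.lf (nat_lit 0) (nat_lit 13405635746) (nat_lit 152) (nat_lit 3853497379) (nat_lit 152) (nat_lit 812562617) (nat_lit 32) (nat_lit 4) (nat_lit 34) (nat_lit 5) (nat_lit 34) (nat_lit 4) (nat_lit 389) (nat_lit 260) (nat_lit 251)))))) (XT.nd (nat_lit 546) (nat_lit 380) (nat_lit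 0) (XT.nd (nat_lit 234) (nat_lit 228) (nat_lit 0) (XT.nd (nat_lit 78) (nat_lit 152) (nat_lit 0) (XT.lf (nat_lit 0) (nat_lit 4216828045) (nat_lit 152) (nat_lit 13251651977) (nat_lit 0) (nat_lit 982316082) (nat_lit 30) (nat_lit 5) (nat_lit 32) (nat_lit 4) (nat_lit 30) (nat_lit 4) (nat_lit 390) (nat_lit 260) (nat_lit 250)) (XT.nd (nat_lit 78) (nat_lit 152) (nat_lit 0) (XT.lf (nat_lit 0) (nat_lit 9370080649) (nat_lit 152) (nat_lit 3609643541) (nat_lit 0) (nat_lit 5861638475) (nat_lit 30) (nat_lit 5) (nat_lit 32) (nat_lit 4) (nat_lit 30) (nat_lit 4) (nat_lit 391) (nat_lit 260) (nat_lit 249)) (XT.lf (nat_lit 0) (nat_lit 6270117027) (nat_lit 152) (nat_lit 8374468445) (nat_lit 152) (nat_lit 4600074609) (nat_lit 28) (nat_lit 4) (nat_lit 30) (nat_lit 5) (nat_lit 30) (nat_lit 4) (nat_lit 392) (nat_lit 260) (nat_lit 248)))) (XT.nd (nat_lit 156) (nat_lit 76) (nat_lit 0) (XT.nd (nat_lit 78) (nat_lit 76) (nat_lit 0) (XT.lf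 (nat_lit 0) (nat_lit 352462965) (nat_lit 228) (nat_lit 3317099510) (nat_lit 76) (nat_lit 15992086243) (nat_lit 27) (nat_lit 5) (nat_lit 30) (nat_lit 5) (nat_lit 28) (nat_lit 4) (nat_lit 393) (nat_lit 260) (nat_lit 247)) (XT.lf (nat_lit 0) (nat_lit 5344896163) (nat_lit 152) (nat_lit 13559015816) (nat_lit 0) (nat_lit 1186367736) (nat_lit 26) (nat_lit 5) (nat_lit 28) (nat_lit 4) (nat_lit 26) (nat_lit 4) (nat_lit 394) (nat_lit 260) (nat_lit 246))) (XT.nd (nat_lit 78) (nat_lit 76) (nat_lit 0) (XT.lf (nat_lit 0) (nat_lit 10466799457) (nat_lit 152) (nat_lit 3993614841) (nat_lit 0) (nat_lit 6071976424) (nat_lit 26) (nat_lit 5) (nat_lit 28) (nat_lit 4) (nat_lit 26) (nat_lit 4) (nat_lit 395) (nat_lit 260) (nat_lit 245)) (XT.lf (nat_lit 0) (nat_lit 5807746529) (nat_lit 76) (nat_lit 9902612731) (nat_lit 76) (nat_lit 5278377458) (nat_lit 25) (nat_lit 4) (nat_lit 26) (nat_lit 5) (nat_lit 26) (nat_lit 4) (nat_lit 396)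 (nat_lit 260) (nat_lit 244))))) (XT.nd (nat_lit 234) (nat_lit 228) (nat_lit 0) (XT.nd (nat_lit 78) (nat_lit 152) (nat_lit 0) (XT.lf (nat_lit 0) (nat_lit 15822293338) (nat_lit 76) (nat_lit 5242425929) (nat_lit 76) (nat_lit 395460328) (nat_lit 25) (nat_lit 4) (nat_lit 26) (nat_lit 5) (nat_lit 26) (nat_lit 4) (nat_lit 397) (nat_lit 260) (nat_lit 243)) (XT.nd (nat_lit 78) (nat_lit 0) (nat_lit 0) (XT.lf (nat_lit 0) (nat_lit 4066634697) (nat_lit 76) (nat_lit 430825074) (nat_lit 152) (nat_lit 17448362102) (nat_lit 23) (nat_lit 5) (nat_lit 24) (nat_lit 5) (nat_lit 25) (nat_lit 4) (nat_lit 398) (nat_lit 260) (nat_lit 242)) (XT.lf (nat_lit 0) (nat_lit 9545311562) (nat_lit 152) (nat_lit 8474386748) (nat_lit 0) (nat_lit 4425745216) (nat_lit 23) (nat_lit 5) (nat_lit 25) (nat_lit 4) (nat_lit 23) (nat_lit 4) (nat_lit 399) (nat_lit 260) (nat_lit 241)))) (XT.nd (nat_lit 156) (nat_lit 152) (nat_lit 0) (XT.nd (nat_lit 78)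 (nat_lit 0) (nat_lit 0) (XT.lf (nat_lit 0) (nat_lit 1073961267) (nat_lit 76) (nat_lit 13602798568) (nat_lit 76) (nat_lit 8285339209) (nat_lit 22) (nat_lit 4) (nat_lit 23) (nat_lit 5) (nat_lit 23) (nat_lit 4) (nat_lit 400) (nat_lit 260) (nat_lit 240)) (XT.lf (nat_lit 0) (nat_lit 10928711088) (nat_lit 76) (nat_lit 9037509656) (nat_lit 76) (nat_lit 3527921159) (nat_lit 22) (nat_lit 4) (nat_lit 23) (nat_lit 5) (nat_lit 23) (nat_lit 4) (nat_lit 401) (nat_lit 260) (nat_lit 239))) (XT.nd (nat_lit 78) (nat_lit 76) (nat_lit 0) (XT.lf (nat_lit 0) (nat_lit 1265518171) (nat_lit 152) (nat_lit 3127119753) (nat_lit 76) (nat_lit 19651519325) (nat_lit 21) (nat_lit 5) (nat_lit 23) (nat_lit 5) (nat_lit 22) (nat_lit 4) (nat_lit 402) (nat_lit 260) (nat_lit 238)) (XT.lf (nat_lit 0) (nat_lit 6121198464) (nat_lit 152) (nat_lit 18073597351) (nat_lit 0) (nat_lit 415157900) (nat_lit 20) (nat_lit 5) (nat_lit 22) (nat_lit 4) (nat_lit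 20) (nat_lit 4) (nat_lit 403) (nat_lit 260) (nat_lit 237))))))) (XT.nd (nat_lit 1014) (nat_lit 304) (nat_lit 0) (XT.nd (nat_lit 468) (nat_lit 228) (nat_lit 0) (XT.nd (nat_lit 234) (nat_lit 152) (nat_lit 0) (XT.nd (nat_lit 78) (nat_lit 76) (nat_lit 0) (XT.lf (nat_lit 0) (nat_lit 11120543582) (nat_lit 152) (nat_lit 8828450558) (nat_lit 0) (nat_lit 5243798767) (nat_lit 20) (nat_lit 5) (nat_lit 22) (nat_lit 4) (nat_lit 20) (nat_lit 4) (nat_lit 404) (nat_lit 260) (nat_lit 236)) (XT.nd (nat_lit 78) (nat_lit 0) (nat_lit 0) (XT.lf (nat_lit 0) (nat_lit 562592578) (nat_lit 76) (nat_lit 15637550985) (nat_lit 76) (nat_lit 9595073887) (nat_lit 19) (nat_lit 4) (nat_lit 20) (nat_lit 5) (nat_lit 20) (nat_lit 4) (nat_lit 405) (nat_lit 260) (nat_lit 235)) (XT.lf (nat_lit 0) (nat_lit 10275301758) (nat_lit 76) (nat_lit 11171678945) (nat_lit 76) (nat_lit 4968296718) (nat_lit 19) (nat_lit 4) (nat_lit 20) (nat_lit 5) (nat_lit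 20) (nat_lit 4) (nat_lit 406) (nat_lit 260) (nat_lit 234)))) (XT.nd (nat_lit 78) (nat_lit 152) (nat_lit 0) (XT.lf (nat_lit 0) (nat_lit 20142460337) (nat_lit 76) (nat_lit 6636625842) (nat_lit 76) (nat_lit 277025044) (nat_lit 19) (nat_lit 4) (nat_lit 20) (nat_lit 5) (nat_lit 20) (nat_lit 4) (nat_lit 407) (nat_lit 260) (nat_lit 233)) (XT.nd (nat_lit 78) (nat_lit 0) (nat_lit 0) (XT.lf (nat_lit 0) (nat_lit 2459309478) (nat_lit 76) (nat_lit 1959694852) (nat_lit 152) (nat_lit 23297272510) (nat_lit 17) (nat_lit 5) (nat_lit 18) (nat_lit 5) (nat_lit 19) (nat_lit 4) (nat_lit 408) (nat_lit 260) (nat_lit 232)) (XT.lf (nat_lit 0) (nat_lit 9277758983) (nat_lit 152) (nat_lit 16304414879) (nat_lit 0) (nat_lit 2813176166) (nat_lit 17) (nat_lit 5) (nat_lit 19) (nat_lit 4) (nat_lit 17) (nat_lit 4) (nat_lit 409) (nat_lit 260) (nat_lit 231))))) (XT.nd (nat_lit 234) (nat_lit 152) (nat_lit 0) (XT.nd (nat_lit 78) (nat_lit 76) (nat_lit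 0) (XT.lf (nat_lit 0) (nat_lit 14233172701) (nat_lit 152) (nat_lit 7233311154) (nat_lit 0) (nat_lit 7629791707) (nat_lit 17) (nat_lit 5) (nat_lit 19) (nat_lit 4) (nat_lit 17) (nat_lit 4) (nat_lit 410) (nat_lit 260) (nat_lit 230)) (XT.nd (nat_lit 78) (nat_lit 0) (nat_lit 0) (XT.lf (nat_lit 0) (nat_lit 2022575538) (nat_lit 76) (nat_lit 17267604369) (nat_lit 76) (nat_lit 10529467863) (nat_lit 16) (nat_lit 4) (nat_lit 17) (nat_lit 5) (nat_lit 17) (nat_lit 4) (nat_lit 411) (nat_lit 260) (nat_lit 229)) (XT.lf (nat_lit 0) (nat_lit 11578840054) (nat_lit 76) (nat_lit 12927318496) (nat_lit 76) (nat_lit 6058351395) (nat_lit 16) (nat_lit 4) (nat_lit 17) (nat_lit 5) (nat_lit 17) (nat_lit 4) (nat_lit 412) (nat_lit 260) (nat_lit 228)))) (XT.nd (nat_lit 156) (nat_lit 76) (nat_lit 0) (XT.nd (nat_lit 78) (nat_lit 76) (nat_lit 0) (XT.lf (nat_lit 0) (nat_lit 21299875453) (nat_lit 76) (nat_lit 8514876014) (nat_lit 76) (nat_lit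 1518888919) (nat_lit 16) (nat_lit 4) (nat_lit 17) (nat_lit 5) (nat_lit 17) (nat_lit 4) (nat_lit 413) (nat_lit 260) (nat_lit 227)) (XT.lf (nat_lit 0) (nat_lit 3032532738) (nat_lit 152) (nat_lit 963266018) (nat_lit 76) (nat_lit 28131020468) (nat_lit 15) (nat_lit 5) (nat_lit 17) (nat_lit 5) (nat_lit 16) (nat_lit 4) (nat_lit 414) (nat_lit 260) (nat_lit 226))) (XT.nd (nat_lit 78) (nat_lit 0) (nat_lit 0) (XT.lf (nat_lit 0) (nat_lit 7716783299) (nat_lit 152) (nat_lit 24537167439) (nat_lit 0) (nat_lit 688593002) (nat_lit 14) (nat_lit 5) (nat_lit 16) (nat_lit 4) (nat_lit 14) (nat_lit 4) (nat_lit 415) (nat_lit 260) (nat_lit 225)) (XT.lf (nat_lit 0) (nat_lit 12530284328) (nat_lit 152) (nat_lit 15863561289) (nat_lit 0) (nat_lit 5389238412) (nat_lit 14) (nat_lit 5) (nat_lit 16) (nat_lit 4) (nat_lit 14) (nat_lit 4) (nat_lit 416) (nat_lit 260) (nat_lit 224)))))) (XT.nd (nat_lit 546) (nat_lit 76) (nat_lit 0) (XT.nd (nat_lit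 234) (nat_lit 152) (nat_lit 0) (XT.nd (nat_lit 78) (nat_lit 76) (nat_lit 0) (XT.lf (nat_lit 0) (nat_lit 17429294450) (nat_lit 152) (nat_lit 7042638547) (nat_lit 0) (nat_lit 10178679970) (nat_lit 14) (nat_lit 5) (nat_lit 16) (nat_lit 4) (nat_lit 14) (nat_lit 4) (nat_lit 417) (nat_lit 260) (nat_lit 223)) (XT.nd (nat_lit 78) (nat_lit 0) (nat_lit 0) (XT.lf (nat_lit 0) (nat_lit 1971785018) (nat_lit 76) (nat_lit 20465263337) (nat_lit 76) (nat_lit 13108271612) (nat_lit 13) (nat_lit 4) (nat_lit 14) (nat_lit 5) (nat_lit 14) (nat_lit 4) (nat_lit 418) (nat_lit 260) (nat_lit 222)) (XT.lf (nat_lit 0) (nat_lit 11292479533) (nat_lit 76) (nat_lit 16317113866) (nat_lit 76) (nat_lit 8856843262) (nat_lit 13) (nat_lit 4) (nat_lit 14) (nat_lit 5) (nat_lit 14) (nat_lit 4) (nat_lit 419) (nat_lit 260) (nat_lit 221)))) (XT.nd (nat_lit 156) (nat_lit 152) (nat_lit 0) (XT.nd (nat_lit 78) (nat_lit 0) (nat_lit 0) (XT.lf (nat_lit 0)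 (nat_lit 20787426978) (nat_lit 76) (nat_lit 12094976829) (nat_lit 76) (nat_lit 4534435469) (nat_lit 13) (nat_lit 4) (nat_lit 14) (nat_lit 5) (nat_lit 14) (nat_lit 4) (nat_lit 420) (nat_lit 260) (nat_lit 220)) (XT.lf (nat_lit 0) (nat_lit 30464923909) (nat_lit 76) (nat_lit 7795162980) (nat_lit 76) (nat_lit 137271370) (nat_lit 13) (nat_lit 4) (nat_lit 14) (nat_lit 5) (nat_lit 14) (nat_lit 4) (nat_lit 421) (nat_lit 260) (nat_lit 219))) (XT.nd (nat_lit 78) (nat_lit 0) (nat_lit 0) (XT.lf (nat_lit 0) (nat_lit 900442663) (nat_lit 76) (nat_lit 3362044567) (nat_lit 152) (nat_lit 35144852350) (nat_lit 11) (nat_lit 5) (nat_lit 12) (nat_lit 5) (nat_lit 13) (nat_lit 4) (nat_lit 422) (nat_lit 260) (nat_lit 218)) (XT.lf (nat_lit 0) (nat_lit 8831781934) (nat_lit 152) (nat_lit 30398508586) (nat_lit 0) (nat_lit 1216084496) (nat_lit 11) (nat_lit 5) (nat_lit 13) (nat_lit 4) (nat_lit 11) (nat_lit 4) (nat_lit 423) (nat_lit 260)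 (nat_lit 217))))) (XT.nd (nat_lit 234) (nat_lit 76) (nat_lit 0) (XT.nd (nat_lit 78) (nat_lit 0) (nat_lit 0) (XT.lf (nat_lit 0) (nat_lit 13520795484) (nat_lit 152) (nat_lit 22177707610) (nat_lit 0) (nat_lit 5818603610) (nat_lit 11) (nat_lit 5) (nat_lit 13) (nat_lit 4) (nat_lit 11) (nat_lit 4) (nat_lit 424) (nat_lit 260) (nat_lit 216)) (XT.nd (nat_lit 78) (nat_lit 0) (nat_lit 0) (XT.lf (nat_lit 0) (nat_lit 18301307047) (nat_lit 152) (nat_lit 13804992738) (nat_lit 0) (nat_lit 10515139993) (nat_lit 11) (nat_lit 5) (nat_lit 13) (nat_lit 4) (nat_lit 11) (nat_lit 4) (nat_lit 425) (nat_lit 260) (nat_lit 215)) (XT.lf (nat_lit 0) (nat_lit 23177493769) (nat_lit 152) (nat_lit 5273048003) (nat_lit 0) (nat_lit 15309797414) (nat_lit 11) (nat_lit 5) (nat_lit 13) (nat_lit 4) (nat_lit 11) (nat_lit 4) (nat_lit 426) (nat_lit 260) (nat_lit 214)))) (XT.nd (nat_lit 156) (nat_lit 0) (nat_lit 0) (XT.nd (nat_lit 78) (nat_lit 0)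 (nat_lit 0) (XT.lf (nat_lit 0) (nat_lit 3493757483) (nat_lit 76) (nat_lit 24693443047) (nat_lit 76) (nat_lit 16746592031) (nat_lit 10) (nat_lit 4) (nat_lit 11) (nat_lit 5) (nat_lit 11) (nat_lit 4) (nat_lit 427) (nat_lit 260) (nat_lit 213)) (XT.lf (nat_lit 0) (nat_lit 12543261295) (nat_lit 76) (nat_lit 20811335201) (nat_lit 76) (nat_lit 12787635000) (nat_lit 10) (nat_lit 4) (nat_lit 11) (nat_lit 5) (nat_lit 11) (nat_lit 4) (nat_lit 428) (nat_lit 260) (nat_lit 212))) (XT.nd (nat_lit 78) (nat_lit 0) (nat_lit 0) (XT.lf (nat_lit 0) (nat_lit 21778426772) (nat_lit 76) (nat_lit 16854073548) (nat_lit 76) (nat_lit 8755762487) (nat_lit 10) (nat_lit 4) (nat_lit 11) (nat_lit 5) (nat_lit 11) (nat_lit 4) (nat_lit 429) (nat_lit 260) (nat_lit 211)) (XT.lf (nat_lit 0) (nat_lit 31207323475) (nat_lit 76) (nat_lit 12818200287) (nat_lit 76) (nat_lit 4647451497) (nat_lit 10) (nat_lit 4) (nat_lit 11) (nat_lit 5) (nat_lit 11) (nat_lit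 4) (nat_lit 430) (nat_lit 260) (nat_lit 210))))))))
noncomputable def xc24 : XT := (XT.nd (nat_lit 43212) (nat_lit 0) (nat_lit 912) (XT.nd (nat_lit 1014) (nat_lit 152) (nat_lit 0) (XT.nd (nat_lit 468) (nat_lit 76) (nat_lit 0) (XT.nd (nat_lit 234) (nat_lit 0) (nat_lit 0) (XT.nd (nat_lit 78) (nat_lit 152) (nat_lit 0) (XT.lf (nat_lit 0) (nat_lit 40838190246) (nat_lit 76) (nat_lit 8700188925) (nat_lit 76) (nat_lit 459112244) (nat_lit 10) (nat_lit 4) (nat_lit 11) (nat_lit 5) (nat_lit 11) (nat_lit 4) (nat_lit 431) (nat_lit 260) (nat_lit 209)) (XT.nd (nat_lit 78) (nat_lit 76) (nat_lit 0) (XT.lf (nat_lit 0) (nat_lit 3738511280) (nat_lit 152) (nat_lit 720178286) (nat_lit 76) (nat_lit 46903179492) (nat_lit 9) (nat_lit 5) (nat_lit 11) (nat_lit 5) (nat_lit 10) (nat_lit 4) (nat_lit 432) (nat_lit 260) (nat_lit 208)) (XT.lf (nat_lit 0) (nat_lit 8047558190) (nat_lit 76) (nat_lit 42690656) (nat_lit 152) (nat_lit 44675673690)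 (nat_lit 8) (nat_lit 5) (nat_lit 9) (nat_lit 5) (nat_lit 10) (nat_lit 4) (nat_lit 433) (nat_lit 260) (nat_lit 207)))) (XT.nd (nat_lit 78) (nat_lit 0) (nat_lit 0) (XT.lf (nat_lit 0) (nat_lit 12583326792) (nat_lit 152) (nat_lit 37239305063) (nat_lit 0) (nat_lit 4389145285) (nat_lit 8) (nat_lit 5) (nat_lit 10) (nat_lit 4) (nat_lit 8) (nat_lit 4) (nat_lit 434) (nat_lit 260) (nat_lit 206)) (XT.nd (nat_lit 78) (nat_lit 0) (nat_lit 0) (XT.lf (nat_lit 0) (nat_lit 17172912444) (nat_lit 152) (nat_lit 29611181079) (nat_lit 0) (nat_lit 8918065480) (nat_lit 8) (nat_lit 5) (nat_lit 10) (nat_lit 4) (nat_lit 8) (nat_lit 4) (nat_lit 435) (nat_lit 260) (nat_lit 205)) (XT.lf (nat_lit 0) (nat_lit 21862605750) (nat_lit 152) (nat_lit 21826916673) (nat_lit 0) (nat_lit 13548860284) (nat_lit 8) (nat_lit 5) (nat_lit 10) (nat_lit 4) (nat_lit 8) (nat_lit 4) (nat_lit 436) (nat_lit 260) (nat_lit 204))))) (XT.nd (nat_lit 234) (nat_lit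 0) (nat_lit 0) (XT.nd (nat_lit 78) (nat_lit 76) (nat_lit 0) (XT.lf (nat_lit 0) (nat_lit 26656504500) (nat_lit 152) (nat_lit 13879710061) (nat_lit 0) (nat_lit 18285576023) (nat_lit 8) (nat_lit 5) (nat_lit 10) (nat_lit 4) (nat_lit 8) (nat_lit 4) (nat_lit 437) (nat_lit 260) (nat_lit 203)) (XT.nd (nat_lit 78) (nat_lit 76) (nat_lit 0) (XT.lf (nat_lit 0) (nat_lit 31558797538) (nat_lit 152) (nat_lit 5762617083) (nat_lit 0) (nat_lit 23132351575) (nat_lit 8) (nat_lit 5) (nat_lit 10) (nat_lit 4) (nat_lit 8) (nat_lit 4) (nat_lit 438) (nat_lit 260) (nat_lit 202)) (XT.lf (nat_lit 0) (nat_lit 2581835782) (nat_lit 76) (nat_lit 34016750824) (nat_lit 76) (nat_lit 25536404388) (nat_lit 7) (nat_lit 4) (nat_lit 8) (nat_lit 5) (nat_lit 8) (nat_lit 4) (nat_lit 439) (nat_lit 260) (nat_lit 201)))) (XT.nd (nat_lit 156) (nat_lit 0) (nat_lit 0) (XT.nd (nat_lit 78) (nat_lit 0) (nat_lit 0) (XT.lf (nat_lit 0) (nat_lit 11228868709) (nat_lit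 76) (nat_lit 30584869209) (nat_lit 76) (nat_lit 22052192217) (nat_lit 7) (nat_lit 4) (nat_lit 8) (nat_lit 5) (nat_lit 8) (nat_lit 4) (nat_lit 440) (nat_lit 260) (nat_lit 200)) (XT.lf (nat_lit 0) (nat_lit 20071349980) (nat_lit 76) (nat_lit 27080962177) (nat_lit 76) (nat_lit 18497478820) (nat_lit 7) (nat_lit 4) (nat_lit 8) (nat_lit 5) (nat_lit 8) (nat_lit 4) (nat_lit 441) (nat_lit 260) (nat_lit 199))) (XT.nd (nat_lit 78) (nat_lit 0) (nat_lit 0) (XT.lf (nat_lit 0) (nat_lit 29117006032) (nat_lit 76) (nat_lit 23501968063) (nat_lit 76) (nat_lit 14869158138) (nat_lit 7) (nat_lit 4) (nat_lit 8) (nat_lit 5) (nat_lit 8) (nat_lit 4) (nat_lit 442) (nat_lit 260) (nat_lit 198)) (XT.lf (nat_lit 0) (nat_lit 38373740838) (nat_lit 76) (nat_lit 19844759590) (nat_lit 76) (nat_lit 11164059793) (nat_lit 7) (nat_lit 4) (nat_lit 8) (nat_lit 5) (nat_lit 8) (nat_lit 4) (nat_lit 443) (nat_lit 260) (nat_lit 197)))))) (XT.nd (nat_lit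 468) (nat_lit 0) (nat_lit 0) (XT.nd (nat_lit 234) (nat_lit 76) (nat_lit 0) (XT.nd (nat_lit 78) (nat_lit 76) (nat_lit 0) (XT.lf (nat_lit 0) (nat_lit 47849642807) (nat_lit 76) (nat_lit 16106141139) (nat_lit 76) (nat_lit 7378946321) (nat_lit 7) (nat_lit 4) (nat_lit 8) (nat_lit 5) (nat_lit 8) (nat_lit 4) (nat_lit 444) (nat_lit 260) (nat_lit 196)) (XT.nd (nat_lit 78) (nat_lit 76) (nat_lit 0) (XT.lf (nat_lit 0) (nat_lit 57552991853) (nat_lit 76) (nat_lit 12282845957) (nat_lit 76) (nat_lit 3510510341) (nat_lit 7) (nat_lit 4) (nat_lit 8) (nat_lit 5) (nat_lit 8) (nat_lit 4) (nat_lit 445) (nat_lit 260) (nat_lit 195)) (XT.lf (nat_lit 0) (nat_lit 435952032) (nat_lit 152) (nat_lit 7931179005) (nat_lit 76) (nat_lit 67051912336) (nat_lit 6) (nat_lit 5) (nat_lit 8) (nat_lit 5) (nat_lit 7) (nat_lit 4) (nat_lit 446) (nat_lit 260) (nat_lit 194)))) (XT.nd (nat_lit 78) (nat_lit 0) (nat_lit 0) (XT.lf (nat_lit 0) (nat_lit 79532182)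 (nat_lit 76) (nat_lit 4323543356) (nat_lit 152) (nat_lit 73150618534) (nat_lit 5) (nat_lit 5) (nat_lit 6) (nat_lit 5) (nat_lit 7) (nat_lit 4) (nat_lit 447) (nat_lit 260) (nat_lit 193)) (XT.nd (nat_lit 78) (nat_lit 0) (nat_lit 0) (XT.lf (nat_lit 0) (nat_lit 8439550891) (nat_lit 76) (nat_lit 102110329) (nat_lit 152) (nat_lit 71209151655) (nat_lit 5) (nat_lit 5) (nat_lit 6) (nat_lit 5) (nat_lit 7) (nat_lit 4) (nat_lit 448) (nat_lit 260) (nat_lit 192)) (XT.lf (nat_lit 0) (nat_lit 12818141256) (nat_lit 152) (nat_lit 65056888912) (nat_lit 0) (nat_lit 4138404944) (nat_lit 5) (nat_lit 5) (nat_lit 7) (nat_lit 4) (nat_lit 5) (nat_lit 4) (nat_lit 449) (nat_lit 260) (nat_lit 191))))) (XT.nd (nat_lit 41418) (nat_lit 0) (nat_lit 2508) (XT.nd (nat_lit 41262) (nat_lit 0) (nat_lit 2964) (XT.lf (nat_lit 0) (nat_lit 17197637331) (nat_lit 152) (nat_lit 58666962644) (nat_lit 0) (nat_lit 8480096312) (nat_lit 5) (nat_lit 5) (nat_lit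 7) (nat_lit 4) (nat_lit 5) (nat_lit 4) (nat_lit 450) (nat_lit 260) (nat_lit 190)) (XT.nd (nat_lit 78) (nat_lit 0) (nat_lit 0) (XT.lf (nat_lit 0) (nat_lit 196559239) (nat_lit 152) (nat_lit 3549346500) (nat_lit 152) (nat_lit 3549346500) (nat_lit 44) (nat_lit 4) (nat_lit 46) (nat_lit 5) (nat_lit 46) (nat_lit 4) (nat_lit 378) (nat_lit 261) (nat_lit 261)) (XT.lf (nat_lit 0) (nat_lit 10294318752) (nat_lit 152) (nat_lit 2497077348) (nat_lit 152) (nat_lit 2070303005) (nat_lit 44) (nat_lit 4) (nat_lit 46) (nat_lit 5) (nat_lit 46) (nat_lit 4) (nat_lit 379) (nat_lit 261) (nat_lit 260)))) (XT.nd (nat_lit 156) (nat_lit 304) (nat_lit 0) (XT.nd (nat_lit 78) (nat_lit 0) (nat_lit 0) (XT.lf (nat_lit 0) (nat_lit 3012451638) (nat_lit 152) (nat_lit 9932944542) (nat_lit 0) (nat_lit 2195831866) (nat_lit 42) (nat_lit 5) (nat_lit 44) (nat_lit 4) (nat_lit 42) (nat_lit 4) (nat_lit 380) (nat_lit 261) (nat_lit 259)) (XT.lf (nat_lit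 0) (nat_lit 8170231134) (nat_lit 152) (nat_lit 296339623) (nat_lit 0) (nat_lit 6963052381) (nat_lit 42) (nat_lit 5) (nat_lit 44) (nat_lit 4) (nat_lit 42) (nat_lit 4) (nat_lit 381) (nat_lit 261) (nat_lit 258))) (XT.nd (nat_lit 78) (nat_lit 152) (nat_lit 0) (XT.lf (nat_lit 0) (nat_lit 9629159852) (nat_lit 152) (nat_lit 3842117846) (nat_lit 152) (nat_lit 2255755618) (nat_lit 40) (nat_lit 4) (nat_lit 42) (nat_lit 5) (nat_lit 42) (nat_lit 4) (nat_lit 382) (nat_lit 261) (nat_lit 257)) (XT.lf (nat_lit 0) (nat_lit 2784717261) (nat_lit 152) (nat_lit 12362389666) (nat_lit 0) (nat_lit 887142964) (nat_lit 38) (nat_lit 5) (nat_lit 40) (nat_lit 4) (nat_lit 38) (nat_lit 4) (nat_lit 383) (nat_lit 261) (nat_lit 256))))))) (XT.nd (nat_lit 1014) (nat_lit 608) (nat_lit 0) (XT.nd (nat_lit 468) (nat_lit 532) (nat_lit 0) (XT.nd (nat_lit 234) (nat_lit 152) (nat_lit 0) (XT.nd (nat_lit 78) (nat_lit 304) (nat_lit 0) (XT.lf (nat_lit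 0) (nat_lit 7927893408) (nat_lit 152) (nat_lit 2738919800) (nat_lit 0) (nat_lit 5683312515) (nat_lit 38) (nat_lit 5) (nat_lit 40) (nat_lit 4) (nat_lit 38) (nat_lit 4) (nat_lit 384) (nat_lit 261) (nat_lit 255)) (XT.nd (nat_lit 78) (nat_lit 152) (nat_lit 0) (XT.lf (nat_lit 0) (nat_lit 7129080992) (nat_lit 152) (nat_lit 6064425098) (nat_lit 152) (nat_lit 3482944599) (nat_lit 36) (nat_lit 4) (nat_lit 38) (nat_lit 5) (nat_lit 38) (nat_lit 4) (nat_lit 385) (nat_lit 261) (nat_lit 254)) (XT.lf (nat_lit 0) (nat_lit 141086205) (nat_lit 76) (nat_lit 1361206258) (nat_lit 152) (nat_lit 15511953926) (nat_lit 34) (nat_lit 5) (nat_lit 35) (nat_lit 5) (nat_lit 36) (nat_lit 4) (nat_lit 386) (nat_lit 261) (nat_lit 253)))) (XT.nd (nat_lit 78) (nat_lit 152) (nat_lit 0) (XT.lf (nat_lit 0) (nat_lit 6598099273) (nat_lit 152) (nat_lit 7296190837) (nat_lit 0) (nat_lit 3465936468) (nat_lit 34) (nat_lit 5) (nat_lit 36) (nat_lit 4)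 (nat_lit 34) (nat_lit 4) (nat_lit 387) (nat_lit 261) (nat_lit 252)) (XT.nd (nat_lit 78) (nat_lit 0) (nat_lit 0) (XT.lf (nat_lit 0) (nat_lit 2423361188) (nat_lit 152) (nat_lit 9363269208) (nat_lit 152) (nat_lit 5931775465) (nat_lit 32) (nat_lit 4) (nat_lit 34) (nat_lit 5) (nat_lit 34) (nat_lit 4) (nat_lit 388) (nat_lit 261) (nat_lit 251)) (XT.lf (nat_lit 0) (nat_lit 12407277286) (nat_lit 152) (nat_lit 4701418962) (nat_lit 152) (nat_lit 979312659) (nat_lit 32) (nat_lit 4) (nat_lit 34) (nat_lit 5) (nat_lit 34) (nat_lit 4) (nat_lit 389) (nat_lit 261) (nat_lit 250))))) (XT.nd (nat_lit 234) (nat_lit 228) (nat_lit 0) (XT.nd (nat_lit 78) (nat_lit 152) (nat_lit 0) (XT.lf (nat_lit 0) (nat_lit 3987634368) (nat_lit 152) (nat_lit 14381492045) (nat_lit 0) (nat_lit 100008717) (nat_lit 30) (nat_lit 5) (nat_lit 32) (nat_lit 4) (nat_lit 30) (nat_lit 4) (nat_lit 390) (nat_lit 261) (nat_lit 249)) (XT.nd (nat_lit 78) (nat_lit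 152) (nat_lit 0) (XT.lf (nat_lit 0) (nat_lit 9094769947) (nat_lit 152) (nat_lit 4825129268) (nat_lit 0) (nat_lit 4941192635) (nat_lit 30) (nat_lit 5) (nat_lit 32) (nat_lit 4) (nat_lit 30) (nat_lit 4) (nat_lit 391) (nat_lit 261) (nat_lit 248)) (XT.lf (nat_lit 0) (nat_lit 4945634754) (nat_lit 152) (nat_lit 9366134471) (nat_lit 152) (nat_lit 4954351663) (nat_lit 28) (nat_lit 4) (nat_lit 30) (nat_lit 5) (nat_lit 30) (nat_lit 4) (nat_lit 392) (nat_lit 261) (nat_lit 247)))) (XT.nd (nat_lit 156) (nat_lit 76) (nat_lit 0) (XT.nd (nat_lit 78) (nat_lit 152) (nat_lit 0) (XT.lf (nat_lit 0) (nat_lit 14941290203) (nat_lit 152) (nat_lit 4702862423) (nat_lit 152) (nat_lit 40394667) (nat_lit 28) (nat_lit 4) (nat_lit 30) (nat_lit 5) (nat_lit 30) (nat_lit 4) (nat_lit 393) (nat_lit 261) (nat_lit 246)) (XT.lf (nat_lit 0) (nat_lit 4884210614) (nat_lit 152) (nat_lit 15109795435) (nat_lit 0) (nat_lit 121248283) (nat_lit 26) (nat_lit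 5) (nat_lit 28) (nat_lit 4) (nat_lit 26) (nat_lit 4) (nat_lit 394) (nat_lit 261) (nat_lit 245))) (XT.nd (nat_lit 78) (nat_lit 76) (nat_lit 0) (XT.lf (nat_lit 0) (nat_lit 9962848783) (nat_lit 152) (nat_lit 5625346030) (nat_lit 0) (nat_lit 4970474214) (nat_lit 26) (nat_lit 5) (nat_lit 28) (nat_lit 4) (nat_lit 26) (nat_lit 4) (nat_lit 395) (nat_lit 261) (nat_lit 244)) (XT.lf (nat_lit 0) (nat_lit 4063382763) (nat_lit 76) (nat_lit 11084252956) (nat_lit 76) (nat_lit 5869148058) (nat_lit 25) (nat_lit 4) (nat_lit 26) (nat_lit 5) (nat_lit 26) (nat_lit 4) (nat_lit 396) (nat_lit 261) (nat_lit 243)))))) (XT.nd (nat_lit 546) (nat_lit 228) (nat_lit 0) (XT.nd (nat_lit 234) (nat_lit 228) (nat_lit 0) (XT.nd (nat_lit 78) (nat_lit 152) (nat_lit 0) (XT.lf (nat_lit 0) (nat_lit 14000106342) (nat_lit 76) (nat_lit 6460359772) (nat_lit 76) (nat_lit 1029011836) (nat_lit 25) (nat_lit 4) (nat_lit 26) (nat_lit 5) (nat_lit 26) (nat_lit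 4) (nat_lit 397) (nat_lit 261) (nat_lit 242)) (XT.nd (nat_lit 78) (nat_lit 0) (nat_lit 0) (XT.lf (nat_lit 0) (nat_lit 2106620368) (nat_lit 76) (nat_lit 1710085543) (nat_lit 152) (nat_lit 18160389071) (nat_lit 23) (nat_lit 5) (nat_lit 24) (nat_lit 5) (nat_lit 25) (nat_lit 4) (nat_lit 398) (nat_lit 261) (nat_lit 241)) (XT.lf (nat_lit 0) (nat_lit 8811655625) (nat_lit 152) (nat_lit 10529873548) (nat_lit 0) (nat_lit 3136779473) (nat_lit 23) (nat_lit 5) (nat_lit 25) (nat_lit 4) (nat_lit 23) (nat_lit 4) (nat_lit 399) (nat_lit 261) (nat_lit 240)))) (XT.nd (nat_lit 156) (nat_lit 152) (nat_lit 0) (XT.nd (nat_lit 78) (nat_lit 76) (nat_lit 0) (XT.lf (nat_lit 0) (nat_lit 13893357952) (nat_lit 152) (nat_lit 1076750730) (nat_lit 0) (nat_lit 8026352662) (nat_lit 23) (nat_lit 5) (nat_lit 25) (nat_lit 4) (nat_lit 23) (nat_lit 4) (nat_lit 400) (nat_lit 261) (nat_lit 239)) (XT.lf (nat_lit 0) (nat_lit 8683029415) (nat_lit 76)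 (nat_lit 10450252004) (nat_lit 76) (nat_lit 4396713569) (nat_lit 22) (nat_lit 4) (nat_lit 23) (nat_lit 5) (nat_lit 23) (nat_lit 4) (nat_lit 401) (nat_lit 261) (nat_lit 238))) (XT.nd (nat_lit 78) (nat_lit 76) (nat_lit 0) (XT.lf (nat_lit 0) (nat_lit 375454189) (nat_lit 152) (nat_lit 5472466569) (nat_lit 76) (nat_lit 18233491259) (nat_lit 21) (nat_lit 5) (nat_lit 23) (nat_lit 5) (nat_lit 22) (nat_lit 4) (nat_lit 402) (nat_lit 261) (nat_lit 237)) (XT.lf (nat_lit 0) (nat_lit 4077068893) (nat_lit 76) (nat_lit 1089203444) (nat_lit 152) (nat_lit 19482886279) (nat_lit 20) (nat_lit 5) (nat_lit 21) (nat_lit 5) (nat_lit 22) (nat_lit 4) (nat_lit 403) (nat_lit 261) (nat_lit 236))))) (XT.nd (nat_lit 234) (nat_lit 152) (nat_lit 0) (XT.nd (nat_lit 78) (nat_lit 76) (nat_lit 0) (XT.lf (nat_lit 0) (nat_lit 10118135802) (nat_lit 152) (nat_lit 11386638489) (nat_lit 0) (nat_lit 3728652109) (nat_lit 20) (nat_lit 5) (nat_lit 22)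 (nat_lit 4) (nat_lit 20) (nat_lit 4) (nat_lit 404) (nat_lit 261) (nat_lit 235)) (XT.nd (nat_lit 78) (nat_lit 76) (nat_lit 0) (XT.lf (nat_lit 0) (nat_lit 15156394243) (nat_lit 152) (nat_lit 2074695549) (nat_lit 0) (nat_lit 8606005421) (nat_lit 20) (nat_lit 5) (nat_lit 22) (nat_lit 4) (nat_lit 20) (nat_lit 4) (nat_lit 405) (nat_lit 261) (nat_lit 234)) (XT.lf (nat_lit 0) (nat_lit 7529268995) (nat_lit 76) (nat_lit 12818086877) (nat_lit 76) (nat_lit 6111479483) (nat_lit 19) (nat_lit 4) (nat_lit 20) (nat_lit 5) (nat_lit 20) (nat_lit 4) (nat_lit 406) (nat_lit 261) (nat_lit 233)))) (XT.nd (nat_lit 156) (nat_lit 76) (nat_lit 0) (XT.nd (nat_lit 78) (nat_lit 76) (nat_lit 0) (XT.lf (nat_lit 0) (nat_lit 17330938130) (nat_lit 76) (nat_lit 8314022869) (nat_lit 76) (nat_lit 1455746959) (nat_lit 19) (nat_lit 4) (nat_lit 20) (nat_lit 5) (nat_lit 20) (nat_lit 4) (nat_lit 407) (nat_lit 261) (nat_lit 232)) (XT.lf (nat_lit 0)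 (nat_lit 3205812407) (nat_lit 152) (nat_lit 497727708) (nat_lit 76) (nat_lit 24059401086) (nat_lit 18) (nat_lit 5) (nat_lit 20) (nat_lit 5) (nat_lit 19) (nat_lit 4) (nat_lit 408) (nat_lit 261) (nat_lit 231))) (XT.nd (nat_lit 78) (nat_lit 0) (nat_lit 0) (XT.lf (nat_lit 0) (nat_lit 8009129114) (nat_lit 152) (nat_lit 19365703370) (nat_lit 0) (nat_lit 1068848513) (nat_lit 17) (nat_lit 5) (nat_lit 19) (nat_lit 4) (nat_lit 17) (nat_lit 4) (nat_lit 409) (nat_lit 261) (nat_lit 230)) (XT.lf (nat_lit 0) (nat_lit 12931778716) (nat_lit 152) (nat_lit 10357071506) (nat_lit 0) (nat_lit 5856742602) (nat_lit 17) (nat_lit 5) (nat_lit 19) (nat_lit 4) (nat_lit 17) (nat_lit 4) (nat_lit 410) (nat_lit 261) (nat_lit 229))))))))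
noncomputable def xc25 : XT := (XT.nd (nat_lit 2028) (nat_lit 228) (nat_lit 0) (XT.nd (nat_lit 1014) (nat_lit 228) (nat_lit 0) (XT.nd (nat_lit 468) (nat_lit 228) (nat_lit 0) (XT.nd (nat_lit 234) (nat_lit 152) (nat_lit 0) (XT.nd (nat_lit 78) (nat_lit 76) (nat_lit 0) (XT.lf (nat_lit 0) (nat_lit 17937533866) (nat_lit 152) (nat_lit 1201304838) (nat_lit 0) (nat_lit 10731667158) (nat_lit 17) (nat_lit 5) (nat_lit 19) (nat_lit 4) (nat_lit 17) (nat_lit 4) (nat_lit 411) (nat_lit 261) (nat_lit 228)) (XT.nd (nat_lit 78) (nat_lit 0) (nat_lit 0) (XT.lf (nat_lit 0) (nat_lit 8270993693) (nat_lit 76) (nat_lit 14839280684) (nat_lit 76) (nat_lit 7506393982) (nat_lit 16) (nat_lit 4) (nat_lit 17) (nat_lit 5) (nat_lit 17) (nat_lit 4) (nat_lit 412) (nat_lit 261) (nat_lit 227)) (XT.lf (nat_lit 0) (nat_lit 17933720682) (nat_lit 76) (nat_lit 10454602307) (nat_lit 76) (nat_lit 2998395222) (nat_lit 16) (nat_lit 4) (nat_lit 17) (nat_lit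 5) (nat_lit 17) (nat_lit 4) (nat_lit 413) (nat_lit 261) (nat_lit 226)))) (XT.nd (nat_lit 78) (nat_lit 76) (nat_lit 0) (XT.lf (nat_lit 0) (nat_lit 1551945723) (nat_lit 152) (nat_lit 4425485794) (nat_lit 76) (nat_lit 26203793633) (nat_lit 15) (nat_lit 5) (nat_lit 17) (nat_lit 5) (nat_lit 16) (nat_lit 4) (nat_lit 414) (nat_lit 261) (nat_lit 225)) (XT.nd (nat_lit 78) (nat_lit 0) (nat_lit 0) (XT.lf (nat_lit 0) (nat_lit 4824556776) (nat_lit 76) (nat_lit 1341321882) (nat_lit 152) (nat_lit 26833183357) (nat_lit 14) (nat_lit 5) (nat_lit 15) (nat_lit 5) (nat_lit 16) (nat_lit 4) (nat_lit 415) (nat_lit 261) (nat_lit 224)) (XT.lf (nat_lit 0) (nat_lit 10937473303) (nat_lit 152) (nat_lit 19543617105) (nat_lit 0) (nat_lit 3359771827) (nat_lit 14) (nat_lit 5) (nat_lit 16) (nat_lit 4) (nat_lit 14) (nat_lit 4) (nat_lit 416) (nat_lit 261) (nat_lit 223))))) (XT.nd (nat_lit 234) (nat_lit 152) (nat_lit 0) (XT.nd (nat_lit 78)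 (nat_lit 76) (nat_lit 0) (XT.lf (nat_lit 0) (nat_lit 15808315679) (nat_lit 152) (nat_lit 10776686228) (nat_lit 0) (nat_lit 8124236957) (nat_lit 14) (nat_lit 5) (nat_lit 16) (nat_lit 4) (nat_lit 14) (nat_lit 4) (nat_lit 417) (nat_lit 261) (nat_lit 222)) (XT.nd (nat_lit 78) (nat_lit 76) (nat_lit 0) (XT.lf (nat_lit 0) (nat_lit 20769768255) (nat_lit 152) (nat_lit 1853158577) (nat_lit 0) (nat_lit 12982410654) (nat_lit 14) (nat_lit 5) (nat_lit 16) (nat_lit 4) (nat_lit 14) (nat_lit 4) (nat_lit 418) (nat_lit 261) (nat_lit 221)) (XT.lf (nat_lit 0) (nat_lit 7378749076) (nat_lit 76) (nat_lit 18518346255) (nat_lit 76) (nat_lit 10630717897) (nat_lit 13) (nat_lit 4) (nat_lit 14) (nat_lit 5) (nat_lit 14) (nat_lit 4) (nat_lit 419) (nat_lit 261) (nat_lit 220)))) (XT.nd (nat_lit 156) (nat_lit 152) (nat_lit 0) (XT.nd (nat_lit 78) (nat_lit 0) (nat_lit 0) (XT.lf (nat_lit 0) (nat_lit 16823302955) (nat_lit 76) (nat_lit 14320340892)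 (nat_lit 76) (nat_lit 6335362285) (nat_lit 13) (nat_lit 4) (nat_lit 14) (nat_lit 5) (nat_lit 14) (nat_lit 4) (nat_lit 420) (nat_lit 261) (nat_lit 219)) (XT.lf (nat_lit 0) (nat_lit 26451874094) (nat_lit 76) (nat_lit 10043955853) (nat_lit 76) (nat_lit 1964462441) (nat_lit 13) (nat_lit 4) (nat_lit 14) (nat_lit 5) (nat_lit 14) (nat_lit 4) (nat_lit 421) (nat_lit 261) (nat_lit 218))) (XT.nd (nat_lit 78) (nat_lit 76) (nat_lit 0) (XT.lf (nat_lit 0) (nat_lit 2437293940) (nat_lit 152) (nat_lit 3223548659) (nat_lit 76) (nat_lit 33810969977) (nat_lit 12) (nat_lit 5) (nat_lit 14) (nat_lit 5) (nat_lit 13) (nat_lit 4) (nat_lit 422) (nat_lit 261) (nat_lit 217)) (XT.lf (nat_lit 0) (nat_lit 5824470253) (nat_lit 76) (nat_lit 1113862200) (nat_lit 152) (nat_lit 33574565408) (nat_lit 11) (nat_lit 5) (nat_lit 12) (nat_lit 5) (nat_lit 13) (nat_lit 4) (nat_lit 423) (nat_lit 261) (nat_lit 216)))))) (XT.nd (nat_lit 468) (nat_lit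 152) (nat_lit 0) (XT.nd (nat_lit 234) (nat_lit 76) (nat_lit 0) (XT.nd (nat_lit 78) (nat_lit 0) (nat_lit 0) (XT.lf (nat_lit 0) (nat_lit 11592416024) (nat_lit 152) (nat_lit 26503574745) (nat_lit 0) (nat_lit 3488688779) (nat_lit 11) (nat_lit 5) (nat_lit 13) (nat_lit 4) (nat_lit 11) (nat_lit 4) (nat_lit 424) (nat_lit 261) (nat_lit 215)) (XT.nd (nat_lit 78) (nat_lit 0) (nat_lit 0) (XT.lf (nat_lit 0) (nat_lit 16349410253) (nat_lit 152) (nat_lit 18176156219) (nat_lit 0) (nat_lit 8164153707) (nat_lit 11) (nat_lit 5) (nat_lit 13) (nat_lit 4) (nat_lit 11) (nat_lit 4) (nat_lit 425) (nat_lit 261) (nat_lit 214)) (XT.lf (nat_lit 0) (nat_lit 21202764612) (nat_lit 152) (nat_lit 9688188520) (nat_lit 0) (nat_lit 12938353405) (nat_lit 11) (nat_lit 5) (nat_lit 13) (nat_lit 4) (nat_lit 11) (nat_lit 4) (nat_lit 426) (nat_lit 261) (nat_lit 213)))) (XT.nd (nat_lit 78) (nat_lit 76) (nat_lit 0) (XT.lf (nat_lit 0) (nat_lit 26156719897)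 (nat_lit 152) (nat_lit 1032254977) (nat_lit 0) (nat_lit 17815459504) (nat_lit 11) (nat_lit 5) (nat_lit 13) (nat_lit 4) (nat_lit 11) (nat_lit 4) (nat_lit 427) (nat_lit 261) (nat_lit 212)) (XT.nd (nat_lit 78) (nat_lit 0) (nat_lit 0) (XT.lf (nat_lit 0) (nat_lit 7954427374) (nat_lit 76) (nat_lit 23337640252) (nat_lit 76) (nat_lit 14921768999) (nat_lit 10) (nat_lit 4) (nat_lit 11) (nat_lit 5) (nat_lit 11) (nat_lit 4) (nat_lit 428) (nat_lit 261) (nat_lit 211)) (XT.lf (nat_lit 0) (nat_lit 17148546675) (nat_lit 76) (nat_lit 19400135368) (nat_lit 76) (nat_lit 10911826387) (nat_lit 10) (nat_lit 4) (nat_lit 11) (nat_lit 5) (nat_lit 11) (nat_lit 4) (nat_lit 429) (nat_lit 261) (nat_lit 210))))) (XT.nd (nat_lit 234) (nat_lit 76) (nat_lit 0) (XT.nd (nat_lit 78) (nat_lit 76) (nat_lit 0) (XT.lf (nat_lit 0) (nat_lit 26537592721) (nat_lit 76) (nat_lit 15383443435) (nat_lit 76) (nat_lit 6824806563) (nat_lit 10) (nat_lit 4)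 (nat_lit 11) (nat_lit 5) (nat_lit 11) (nat_lit 4) (nat_lit 430) (nat_lit 261) (nat_lit 209)) (XT.nd (nat_lit 78) (nat_lit 76) (nat_lit 0) (XT.lf (nat_lit 0) (nat_lit 36129769535) (nat_lit 76) (nat_lit 11284054723) (nat_lit 76) (nat_lit 2657138345) (nat_lit 10) (nat_lit 4) (nat_lit 11) (nat_lit 5) (nat_lit 11) (nat_lit 4) (nat_lit 431) (nat_lit 261) (nat_lit 208)) (XT.lf (nat_lit 0) (nat_lit 1563699238) (nat_lit 152) (nat_lit 5518897706) (nat_lit 76) (nat_lit 44353969094) (nat_lit 9) (nat_lit 5) (nat_lit 11) (nat_lit 5) (nat_lit 10) (nat_lit 4) (nat_lit 432) (nat_lit 261) (nat_lit 207)))) (XT.nd (nat_lit 156) (nat_lit 0) (nat_lit 0) (XT.nd (nat_lit 78) (nat_lit 0) (nat_lit 0) (XT.lf (nat_lit 0) (nat_lit 3115750672) (nat_lit 76) (nat_lit 2733174360) (nat_lit 152) (nat_lit 46993691399) (nat_lit 8) (nat_lit 5) (nat_lit 9) (nat_lit 5) (nat_lit 10) (nat_lit 4) (nat_lit 433) (nat_lit 261) (nat_lit 206)) (XT.lf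 (nat_lit 0) (nat_lit 10297072761) (nat_lit 152) (nat_lit 42258832766) (nat_lit 0) (nat_lit 1733914932) (nat_lit 8) (nat_lit 5) (nat_lit 10) (nat_lit 4) (nat_lit 8) (nat_lit 4) (nat_lit 434) (nat_lit 261) (nat_lit 205))) (XT.nd (nat_lit 78) (nat_lit 0) (nat_lit 0) (XT.lf (nat_lit 0) (nat_lit 14868146139) (nat_lit 152) (nat_lit 34666523214) (nat_lit 0) (nat_lit 6246089808) (nat_lit 8) (nat_lit 5) (nat_lit 10) (nat_lit 4) (nat_lit 8) (nat_lit 4) (nat_lit 435) (nat_lit 261) (nat_lit 204)) (XT.lf (nat_lit 0) (nat_lit 19539866364) (nat_lit 152) (nat_lit 26917030102) (nat_lit 0) (nat_lit 10860627021) (nat_lit 8) (nat_lit 5) (nat_lit 10) (nat_lit 4) (nat_lit 8) (nat_lit 4) (nat_lit 436) (nat_lit 261) (nat_lit 203))))))) (XT.nd (nat_lit 1014) (nat_lit 0) (nat_lit 0) (XT.nd (nat_lit 468) (nat_lit 152) (nat_lit 0) (XT.nd (nat_lit 234) (nat_lit 76) (nat_lit 0) (XT.nd (nat_lit 78) (nat_lit 0) (nat_lit 0) (XT.lf (nat_lit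 0) (nat_lit 24316315521) (nat_lit 152) (nat_lit 19003582029) (nat_lit 0) (nat_lit 15581558691) (nat_lit 8) (nat_lit 5) (nat_lit 10) (nat_lit 4) (nat_lit 8) (nat_lit 4) (nat_lit 437) (nat_lit 261) (nat_lit 202)) (XT.nd (nat_lit 78) (nat_lit 0) (nat_lit 0) (XT.lf (nat_lit 0) (nat_lit 29201667206) (nat_lit 152) (nat_lit 10919264330) (nat_lit 0) (nat_lit 20413009904) (nat_lit 8) (nat_lit 5) (nat_lit 10) (nat_lit 4) (nat_lit 8) (nat_lit 4) (nat_lit 438) (nat_lit 261) (nat_lit 201)) (XT.lf (nat_lit 0) (nat_lit 34200190175) (nat_lit 152) (nat_lit 2657013039) (nat_lit 0) (nat_lit 25359202317) (nat_lit 8) (nat_lit 5) (nat_lit 10) (nat_lit 4) (nat_lit 8) (nat_lit 4) (nat_lit 439) (nat_lit 261) (nat_lit 200)))) (XT.nd (nat_lit 78) (nat_lit 0) (nat_lit 0) (XT.lf (nat_lit 0) (nat_lit 5905631426) (nat_lit 76) (nat_lit 33467389182) (nat_lit 76) (nat_lit 24575594959) (nat_lit 7) (nat_lit 4) (nat_lit 8) (nat_lit 5) (nat_lit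 8) (nat_lit 4) (nat_lit 440) (nat_lit 261) (nat_lit 199)) (XT.nd (nat_lit 78) (nat_lit 0) (nat_lit 0) (XT.lf (nat_lit 0) (nat_lit 14717521733) (nat_lit 76) (nat_lit 29978275317) (nat_lit 76) (nat_lit 21037154527) (nat_lit 7) (nat_lit 4) (nat_lit 8) (nat_lit 5) (nat_lit 8) (nat_lit 4) (nat_lit 441) (nat_lit 261) (nat_lit 198)) (XT.lf (nat_lit 0) (nat_lit 23733477821) (nat_lit 76) (nat_lit 26413643501) (nat_lit 76) (nat_lit 17424632838) (nat_lit 7) (nat_lit 4) (nat_lit 8) (nat_lit 5) (nat_lit 8) (nat_lit 4) (nat_lit 442) (nat_lit 261) (nat_lit 197))))) (XT.nd (nat_lit 234) (nat_lit 152) (nat_lit 0) (XT.nd (nat_lit 78) (nat_lit 0) (nat_lit 0) (XT.lf (nat_lit 0) (nat_lit 32961377710) (nat_lit 76) (nat_lit 22770379006) (nat_lit 76) (nat_lit 13734873323) (nat_lit 7) (nat_lit 4) (nat_lit 8) (nat_lit 5) (nat_lit 8) (nat_lit 4) (nat_lit 443) (nat_lit 261) (nat_lit 196)) (XT.nd (nat_lit 78) (nat_lit 0) (nat_lit 0)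 (XT.lf (nat_lit 0) (nat_lit 42409284614) (nat_lit 76) (nat_lit 19045298399) (nat_lit 76) (nat_lit 9964651918) (nat_lit 7) (nat_lit 4) (nat_lit 8) (nat_lit 5) (nat_lit 8) (nat_lit 4) (nat_lit 444) (nat_lit 261) (nat_lit 195)) (XT.lf (nat_lit 0) (nat_lit 52085453985) (nat_lit 76) (nat_lit 15235146753) (nat_lit 76) (nat_lit 6110674255) (nat_lit 7) (nat_lit 4) (nat_lit 8) (nat_lit 5) (nat_lit 8) (nat_lit 4) (nat_lit 445) (nat_lit 261) (nat_lit 194)))) (XT.nd (nat_lit 156) (nat_lit 76) (nat_lit 0) (XT.nd (nat_lit 78) (nat_lit 76) (nat_lit 0) (XT.lf (nat_lit 0) (nat_lit 61998340728) (nat_lit 76) (nat_lit 11336594810) (nat_lit 76) (nat_lit 2169572782) (nat_lit 7) (nat_lit 4) (nat_lit 8) (nat_lit 5) (nat_lit 8) (nat_lit 4) (nat_lit 446) (nat_lit 261) (nat_lit 193)) (XT.lf (nat_lit 0) (nat_lit 1825759979) (nat_lit 152) (nat_lit 5502039494) (nat_lit 76) (nat_lit 70312410015) (nat_lit 6) (nat_lit 5) (nat_lit 8) (nat_lit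 5) (nat_lit 7) (nat_lit 4) (nat_lit 447) (nat_lit 261) (nat_lit 192))) (XT.nd (nat_lit 78) (nat_lit 0) (nat_lit 0) (XT.lf (nat_lit 0) (nat_lit 2722845236) (nat_lit 76) (nat_lit 3174339247) (nat_lit 152) (nat_lit 73942159615) (nat_lit 5) (nat_lit 5) (nat_lit 6) (nat_lit 5) (nat_lit 7) (nat_lit 4) (nat_lit 448) (nat_lit 261) (nat_lit 191)) (XT.lf (nat_lit 0) (nat_lit 10131181954) (nat_lit 152) (nat_lit 70857749806) (nat_lit 0) (nat_lit 1114309998) (nat_lit 5) (nat_lit 5) (nat_lit 7) (nat_lit 4) (nat_lit 5) (nat_lit 4) (nat_lit 449) (nat_lit 261) (nat_lit 190)))))) (XT.nd (nat_lit 41574) (nat_lit 0) (nat_lit 2052) (XT.nd (nat_lit 41262) (nat_lit 0) (nat_lit 2812) (XT.nd (nat_lit 41106) (nat_lit 0) (nat_lit 3116) (XT.lf (nat_lit 0) (nat_lit 14498104805) (nat_lit 152) (nat_lit 64492246993) (nat_lit 0) (nat_lit 5444529250) (nat_lit 5) (nat_lit 5) (nat_lit 7) (nat_lit 4) (nat_lit 5) (nat_lit 4) (nat_lit 450) (nat_lit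 261) (nat_lit 189)) (XT.nd (nat_lit 78) (nat_lit 228) (nat_lit 0) (XT.lf (nat_lit 0) (nat_lit 4767785028) (nat_lit 152) (nat_lit 1133960913) (nat_lit 152) (nat_lit 1133960913) (nat_lit 49) (nat_lit 4) (nat_lit 51) (nat_lit 5) (nat_lit 51) (nat_lit 4) (nat_lit 376) (nat_lit 262) (nat_lit 262)) (XT.lf (nat_lit 0) (nat_lit 2770072473) (nat_lit 228) (nat_lit 9227145046) (nat_lit 0) (nat_lit 2330494900) (nat_lit 46) (nat_lit 5) (nat_lit 49) (nat_lit 4) (nat_lit 46) (nat_lit 4) (nat_lit 377) (nat_lit 262) (nat_lit 261)))) (XT.nd (nat_lit 156) (nat_lit 152) (nat_lit 0) (XT.nd (nat_lit 78) (nat_lit 0) (nat_lit 0) (XT.lf (nat_lit 0) (nat_lit 296163510) (nat_lit 152) (nat_lit 7581162720) (nat_lit 152) (nat_lit 6714810804) (nat_lit 44) (nat_lit 4) (nat_lit 46) (nat_lit 5) (nat_lit 46) (nat_lit 4) (nat_lit 378) (nat_lit 262) (nat_lit 260)) (XT.lf (nat_lit 0) (nat_lit 10103232747) (nat_lit 152) (nat_lit 3021189927)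 (nat_lit 152) (nat_lit 1740493988) (nat_lit 44) (nat_lit 4) (nat_lit 46) (nat_lit 5) (nat_lit 46) (nat_lit 4) (nat_lit 379) (nat_lit 262) (nat_lit 259))) (XT.nd (nat_lit 78) (nat_lit 0) (nat_lit 0) (XT.lf (nat_lit 0) (nat_lit 3276080482) (nat_lit 152) (nat_lit 10227944722) (nat_lit 0) (nat_lit 1642127386) (nat_lit 42) (nat_lit 5) (nat_lit 44) (nat_lit 4) (nat_lit 42) (nat_lit 4) (nat_lit 380) (nat_lit 262) (nat_lit 258)) (XT.lf (nat_lit 0) (nat_lit 8382614810) (nat_lit 152) (nat_lit 684001470) (nat_lit 0) (nat_lit 6369478238) (nat_lit 42) (nat_lit 5) (nat_lit 44) (nat_lit 4) (nat_lit 42) (nat_lit 4) (nat_lit 381) (nat_lit 262) (nat_lit 257))))) (XT.nd (nat_lit 234) (nat_lit 456) (nat_lit 0) (XT.nd (nat_lit 78) (nat_lit 152) (nat_lit 0) (XT.lf (nat_lit 0) (nat_lit 9142029557) (nat_lit 152) (nat_lit 4487196633) (nat_lit 152) (nat_lit 2105920764) (nat_lit 40) (nat_lit 4) (nat_lit 42) (nat_lit 5) (nat_lit 42)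 (nat_lit 4) (nat_lit 382) (nat_lit 262) (nat_lit 256)) (XT.nd (nat_lit 78) (nat_lit 0) (nat_lit 0) (XT.lf (nat_lit 0) (nat_lit 2869588300) (nat_lit 152) (nat_lit 12963938510) (nat_lit 0) (nat_lit 210663385) (nat_lit 38) (nat_lit 5) (nat_lit 40) (nat_lit 4) (nat_lit 38) (nat_lit 4) (nat_lit 383) (nat_lit 262) (nat_lit 255)) (XT.lf (nat_lit 0) (nat_lit 7963312311) (nat_lit 152) (nat_lit 3430757914) (nat_lit 0) (nat_lit 4967487789) (nat_lit 38) (nat_lit 5) (nat_lit 40) (nat_lit 4) (nat_lit 38) (nat_lit 4) (nat_lit 384) (nat_lit 262) (nat_lit 254)))) (XT.nd (nat_lit 156) (nat_lit 228) (nat_lit 0) (XT.nd (nat_lit 78) (nat_lit 76) (nat_lit 0) (XT.lf (nat_lit 0) (nat_lit 6334069863) (nat_lit 152) (nat_lit 6839201215) (nat_lit 152) (nat_lit 3516289696) (nat_lit 36) (nat_lit 4) (nat_lit 38) (nat_lit 5) (nat_lit 38) (nat_lit 4) (nat_lit 385) (nat_lit 262) (nat_lit 253)) (XT.lf (nat_lit 0) (nat_lit 1420316523) (nat_lit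 228) (nat_lit 757229168) (nat_lit 76) (nat_lit 14851306553) (nat_lit 35) (nat_lit 5) (nat_lit 38) (nat_lit 5) (nat_lit 36) (nat_lit 4) (nat_lit 386) (nat_lit 262) (nat_lit 252))) (XT.nd (nat_lit 78) (nat_lit 152) (nat_lit 0) (XT.lf (nat_lit 0) (nat_lit 6453034027) (nat_lit 152) (nat_lit 8304434034) (nat_lit 0) (nat_lit 2619264535) (nat_lit 34) (nat_lit 5) (nat_lit 36) (nat_lit 4) (nat_lit 34) (nat_lit 4) (nat_lit 387) (nat_lit 262) (nat_lit 251)) (XT.lf (nat_lit 0) (nat_lit 1307964660) (nat_lit 152) (nat_lit 10276524409) (nat_lit 152) (nat_lit 6152142356) (nat_lit 32) (nat_lit 4) (nat_lit 34) (nat_lit 5) (nat_lit 34) (nat_lit 4) (nat_lit 388) (nat_lit 262) (nat_lit 250))))))))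
noncomputable def xc26 : XT := (XT.nd (nat_lit 2028) (nat_lit 684) (nat_lit 0) (XT.nd (nat_lit 1014) (nat_lit 456) (nat_lit 0) (XT.nd (nat_lit 468) (nat_lit 304) (nat_lit 0) (XT.nd (nat_lit 234) (nat_lit 304) (nat_lit 0) (XT.nd (nat_lit 78) (nat_lit 152) (nat_lit 0) (XT.lf (nat_lit 0) (nat_lit 11207329968) (nat_lit 152) (nat_lit 5653408116) (nat_lit 152) (nat_lit 1246877946) (nat_lit 32) (nat_lit 4) (nat_lit 34) (nat_lit 5) (nat_lit 34) (nat_lit 4) (nat_lit 389) (nat_lit 262) (nat_lit 249)) (XT.nd (nat_lit 78) (nat_lit 0) (nat_lit 0) (XT.lf (nat_lit 0) (nat_lit 2762809576) (nat_lit 76) (nat_lit 903825870) (nat_lit 152) (nat_lit 14823950260) (nat_lit 30) (nat_lit 5) (nat_lit 31) (nat_lit 5) (nat_lit 32) (nat_lit 4) (nat_lit 390) (nat_lit 262) (nat_lit 248)) (XT.lf (nat_lit 0) (nat_lit 8720309088) (nat_lit 152) (nat_lit 6245876352) (nat_lit 0) (nat_lit 3917967300) (nat_lit 30) (nat_lit 5) (nat_lit 32) (nat_lit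 4) (nat_lit 30) (nat_lit 4) (nat_lit 391) (nat_lit 262) (nat_lit 247)))) (XT.nd (nat_lit 78) (nat_lit 152) (nat_lit 0) (XT.lf (nat_lit 0) (nat_lit 3414276099) (nat_lit 152) (nat_lit 10464842192) (nat_lit 152) (nat_lit 5411815456) (nat_lit 28) (nat_lit 4) (nat_lit 30) (nat_lit 5) (nat_lit 30) (nat_lit 4) (nat_lit 392) (nat_lit 262) (nat_lit 246)) (XT.nd (nat_lit 78) (nat_lit 152) (nat_lit 0) (XT.lf (nat_lit 0) (nat_lit 13329993763) (nat_lit 152) (nat_lit 5838535908) (nat_lit 152) (nat_lit 542125727) (nat_lit 28) (nat_lit 4) (nat_lit 30) (nat_lit 5) (nat_lit 30) (nat_lit 4) (nat_lit 393) (nat_lit 262) (nat_lit 245)) (XT.lf (nat_lit 0) (nat_lit 3261594819) (nat_lit 76) (nat_lit 1070572474) (nat_lit 152) (nat_lit 15811148653) (nat_lit 26) (nat_lit 5) (nat_lit 27) (nat_lit 5) (nat_lit 28) (nat_lit 4) (nat_lit 394) (nat_lit 262) (nat_lit 244))))) (XT.nd (nat_lit 234) (nat_lit 228) (nat_lit 0) (XT.nd (nat_lit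 78) (nat_lit 76) (nat_lit 0) (XT.lf (nat_lit 0) (nat_lit 9358509490) (nat_lit 152) (nat_lit 7465574481) (nat_lit 0) (nat_lit 3764221116) (nat_lit 26) (nat_lit 5) (nat_lit 28) (nat_lit 4) (nat_lit 26) (nat_lit 4) (nat_lit 395) (nat_lit 262) (nat_lit 243)) (XT.nd (nat_lit 78) (nat_lit 0) (nat_lit 0) (XT.lf (nat_lit 0) (nat_lit 2108706927) (nat_lit 76) (nat_lit 12375018431) (nat_lit 76) (nat_lit 6564487018) (nat_lit 25) (nat_lit 4) (nat_lit 26) (nat_lit 5) (nat_lit 26) (nat_lit 4) (nat_lit 396) (nat_lit 262) (nat_lit 242)) (XT.lf (nat_lit 0) (nat_lit 11969873971) (nat_lit 76) (nat_lit 7786361768) (nat_lit 76) (nat_lit 1765885658) (nat_lit 25) (nat_lit 4) (nat_lit 26) (nat_lit 5) (nat_lit 26) (nat_lit 4) (nat_lit 397) (nat_lit 262) (nat_lit 241)))) (XT.nd (nat_lit 156) (nat_lit 76) (nat_lit 0) (XT.nd (nat_lit 78) (nat_lit 76) (nat_lit 0) (XT.lf (nat_lit 0) (nat_lit 3034422807) (nat_lit 152) (nat_lit 64427613)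 (nat_lit 76) (nat_lit 18912899106) (nat_lit 24) (nat_lit 5) (nat_lit 26) (nat_lit 5) (nat_lit 25) (nat_lit 4) (nat_lit 398) (nat_lit 262) (nat_lit 240)) (XT.lf (nat_lit 0) (nat_lit 7975962593) (nat_lit 152) (nat_lit 12797789692) (nat_lit 0) (nat_lit 1740818005) (nat_lit 23) (nat_lit 5) (nat_lit 25) (nat_lit 4) (nat_lit 23) (nat_lit 4) (nat_lit 399) (nat_lit 262) (nat_lit 239))) (XT.nd (nat_lit 78) (nat_lit 76) (nat_lit 0) (XT.lf (nat_lit 0) (nat_lit 13019390772) (nat_lit 152) (nat_lit 3416772064) (nat_lit 0) (nat_lit 6597713040) (nat_lit 23) (nat_lit 5) (nat_lit 25) (nat_lit 4) (nat_lit 23) (nat_lit 4) (nat_lit 400) (nat_lit 262) (nat_lit 238)) (XT.lf (nat_lit 0) (nat_lit 6225038792) (nat_lit 76) (nat_lit 11973488371) (nat_lit 76) (nat_lit 5370710499) (nat_lit 22) (nat_lit 4) (nat_lit 23) (nat_lit 5) (nat_lit 23) (nat_lit 4) (nat_lit 401) (nat_lit 262) (nat_lit 237)))))) (XT.nd (nat_lit 468) (nat_lit 228)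 (nat_lit 0) (XT.nd (nat_lit 234) (nat_lit 76) (nat_lit 0) (XT.nd (nat_lit 78) (nat_lit 152) (nat_lit 0) (XT.lf (nat_lit 0) (nat_lit 16085427462) (nat_lit 76) (nat_lit 7407523801) (nat_lit 76) (nat_lit 628920551) (nat_lit 22) (nat_lit 4) (nat_lit 23) (nat_lit 5) (nat_lit 23) (nat_lit 4) (nat_lit 402) (nat_lit 262) (nat_lit 236)) (XT.nd (nat_lit 78) (nat_lit 0) (nat_lit 0) (XT.lf (nat_lit 0) (nat_lit 1398854116) (nat_lit 76) (nat_lit 2713540769) (nat_lit 152) (nat_lit 20579262296) (nat_lit 20) (nat_lit 5) (nat_lit 21) (nat_lit 5) (nat_lit 22) (nat_lit 4) (nat_lit 403) (nat_lit 262) (nat_lit 235)) (XT.lf (nat_lit 0) (nat_lit 9012710669) (nat_lit 152) (nat_lit 14159859696) (nat_lit 0) (nat_lit 2104905053) (nat_lit 20) (nat_lit 5) (nat_lit 22) (nat_lit 4) (nat_lit 20) (nat_lit 4) (nat_lit 404) (nat_lit 262) (nat_lit 234)))) (XT.nd (nat_lit 78) (nat_lit 76) (nat_lit 0) (XT.lf (nat_lit 0) (nat_lit 14016082161)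 (nat_lit 152) (nat_lit 4914054609) (nat_lit 0) (nat_lit 6952057974) (nat_lit 20) (nat_lit 5) (nat_lit 22) (nat_lit 4) (nat_lit 20) (nat_lit 4) (nat_lit 405) (nat_lit 262) (nat_lit 233)) (XT.nd (nat_lit 78) (nat_lit 0) (nat_lit 0) (XT.lf (nat_lit 0) (nat_lit 4567911679) (nat_lit 76) (nat_lit 14576794909) (nat_lit 76) (nat_lit 7361102206) (nat_lit 19) (nat_lit 4) (nat_lit 20) (nat_lit 5) (nat_lit 20) (nat_lit 4) (nat_lit 406) (nat_lit 262) (nat_lit 232)) (XT.lf (nat_lit 0) (nat_lit 14305998831) (nat_lit 76) (nat_lit 10102817401) (nat_lit 76) (nat_lit 2739873711) (nat_lit 19) (nat_lit 4) (nat_lit 20) (nat_lit 5) (nat_lit 20) (nat_lit 4) (nat_lit 407) (nat_lit 262) (nat_lit 231))))) (XT.nd (nat_lit 234) (nat_lit 76) (nat_lit 0) (XT.nd (nat_lit 78) (nat_lit 76) (nat_lit 0) (XT.lf (nat_lit 0) (nat_lit 1913898223) (nat_lit 152) (nat_lit 3620692419) (nat_lit 76) (nat_lit 22277691690) (nat_lit 18) (nat_lit 5) (nat_lit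 20) (nat_lit 5) (nat_lit 19) (nat_lit 4) (nat_lit 408) (nat_lit 262) (nat_lit 230)) (XT.nd (nat_lit 78) (nat_lit 0) (nat_lit 0) (XT.lf (nat_lit 0) (nat_lit 5841877471) (nat_lit 76) (nat_lit 801758716) (nat_lit 152) (nat_lit 21851596672) (nat_lit 17) (nat_lit 5) (nat_lit 18) (nat_lit 5) (nat_lit 19) (nat_lit 4) (nat_lit 409) (nat_lit 262) (nat_lit 229)) (XT.lf (nat_lit 0) (nat_lit 11526768972) (nat_lit 152) (nat_lit 13697668821) (nat_lit 0) (nat_lit 3973895668) (nat_lit 17) (nat_lit 5) (nat_lit 19) (nat_lit 4) (nat_lit 17) (nat_lit 4) (nat_lit 410) (nat_lit 262) (nat_lit 228)))) (XT.nd (nat_lit 156) (nat_lit 0) (nat_lit 0) (XT.nd (nat_lit 78) (nat_lit 76) (nat_lit 0) (XT.lf (nat_lit 0) (nat_lit 16501640799) (nat_lit 152) (nat_lit 4600787874) (nat_lit 0) (nat_lit 8821747502) (nat_lit 17) (nat_lit 5) (nat_lit 19) (nat_lit 4) (nat_lit 17) (nat_lit 4) (nat_lit 411) (nat_lit 262) (nat_lit 227)) (XT.lf (nat_lit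 0) (nat_lit 4745545870) (nat_lit 76) (nat_lit 16864962871) (nat_lit 76) (nat_lit 9061749190) (nat_lit 16) (nat_lit 4) (nat_lit 17) (nat_lit 5) (nat_lit 17) (nat_lit 4) (nat_lit 412) (nat_lit 262) (nat_lit 226))) (XT.nd (nat_lit 78) (nat_lit 0) (nat_lit 0) (XT.lf (nat_lit 0) (nat_lit 14351662753) (nat_lit 76) (nat_lit 12507239936) (nat_lit 76) (nat_lit 4584297728) (nat_lit 16) (nat_lit 4) (nat_lit 17) (nat_lit 5) (nat_lit 17) (nat_lit 4) (nat_lit 413) (nat_lit 262) (nat_lit 225)) (XT.lf (nat_lit 0) (nat_lit 24134391768) (nat_lit 76) (nat_lit 8071911086) (nat_lit 76) (nat_lit 32727590) (nat_lit 16) (nat_lit 4) (nat_lit 17) (nat_lit 5) (nat_lit 17) (nat_lit 4) (nat_lit 414) (nat_lit 262) (nat_lit 224))))))) (XT.nd (nat_lit 1014) (nat_lit 304) (nat_lit 0) (XT.nd (nat_lit 468) (nat_lit 152) (nat_lit 0) (XT.nd (nat_lit 234) (nat_lit 76) (nat_lit 0) (XT.nd (nat_lit 78) (nat_lit 0) (nat_lit 0) (XT.lf (nat_lit 0)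 (nat_lit 1017504117) (nat_lit 76) (nat_lit 3499512253) (nat_lit 152) (nat_lit 28541807944) (nat_lit 14) (nat_lit 5) (nat_lit 15) (nat_lit 5) (nat_lit 16) (nat_lit 4) (nat_lit 415) (nat_lit 262) (nat_lit 223)) (XT.nd (nat_lit 78) (nat_lit 0) (nat_lit 0) (XT.lf (nat_lit 0) (nat_lit 9239697425) (nat_lit 152) (nat_lit 23443678083) (nat_lit 0) (nat_lit 1218719095) (nat_lit 14) (nat_lit 5) (nat_lit 16) (nat_lit 4) (nat_lit 14) (nat_lit 4) (nat_lit 416) (nat_lit 262) (nat_lit 222)) (XT.lf (nat_lit 0) (nat_lit 14083192475) (nat_lit 152) (nat_lit 14729166492) (nat_lit 0) (nat_lit 5958935266) (nat_lit 14) (nat_lit 5) (nat_lit 16) (nat_lit 4) (nat_lit 14) (nat_lit 4) (nat_lit 417) (nat_lit 262) (nat_lit 221)))) (XT.nd (nat_lit 78) (nat_lit 76) (nat_lit 0) (XT.lf (nat_lit 0) (nat_lit 19018094249) (nat_lit 152) (nat_lit 5856531353) (nat_lit 0) (nat_lit 10793566284) (nat_lit 14) (nat_lit 5) (nat_lit 16) (nat_lit 4) (nat_lit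 14) (nat_lit 4) (nat_lit 418) (nat_lit 262) (nat_lit 220)) (XT.nd (nat_lit 78) (nat_lit 0) (nat_lit 0) (XT.lf (nat_lit 0) (nat_lit 3245307766) (nat_lit 76) (nat_lit 20834602914) (nat_lit 76) (nat_lit 12512724699) (nat_lit 13) (nat_lit 4) (nat_lit 14) (nat_lit 5) (nat_lit 14) (nat_lit 4) (nat_lit 419) (nat_lit 262) (nat_lit 219)) (XT.lf (nat_lit 0) (nat_lit 12640935855) (nat_lit 76) (nat_lit 16660026361) (nat_lit 76) (nat_lit 8243633341) (nat_lit 13) (nat_lit 4) (nat_lit 14) (nat_lit 5) (nat_lit 14) (nat_lit 4) (nat_lit 420) (nat_lit 262) (nat_lit 218))))) (XT.nd (nat_lit 234) (nat_lit 0) (nat_lit 0) (XT.nd (nat_lit 78) (nat_lit 152) (nat_lit 0) (XT.lf (nat_lit 0) (nat_lit 22222006225) (nat_lit 76) (nat_lit 12406387739) (nat_lit 76) (nat_lit 3898232773) (nat_lit 13) (nat_lit 4) (nat_lit 14) (nat_lit 5) (nat_lit 14) (nat_lit 4) (nat_lit 421) (nat_lit 262) (nat_lit 217)) (XT.nd (nat_lit 78) (nat_lit 76) (nat_lit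 0) (XT.lf (nat_lit 0) (nat_lit 516984944) (nat_lit 152) (nat_lit 7547764797) (nat_lit 76) (nat_lit 31474685209) (nat_lit 12) (nat_lit 5) (nat_lit 14) (nat_lit 5) (nat_lit 13) (nat_lit 4) (nat_lit 422) (nat_lit 262) (nat_lit 216)) (XT.lf (nat_lit 0) (nat_lit 1368048119) (nat_lit 76) (nat_lit 3583570988) (nat_lit 152) (nat_lit 35630895357) (nat_lit 11) (nat_lit 5) (nat_lit 12) (nat_lit 5) (nat_lit 13) (nat_lit 4) (nat_lit 423) (nat_lit 262) (nat_lit 215)))) (XT.nd (nat_lit 156) (nat_lit 0) (nat_lit 0) (XT.nd (nat_lit 78) (nat_lit 0) (nat_lit 0) (XT.lf (nat_lit 0) (nat_lit 9558444993) (nat_lit 152) (nat_lit 31051169478) (nat_lit 0) (nat_lit 1046101449) (nat_lit 11) (nat_lit 5) (nat_lit 13) (nat_lit 4) (nat_lit 11) (nat_lit 4) (nat_lit 424) (nat_lit 262) (nat_lit 214)) (XT.lf (nat_lit 0) (nat_lit 14292606859) (nat_lit 152) (nat_lit 22767727988) (nat_lit 0) (nat_lit 5701108654) (nat_lit 11) (nat_lit 5) (nat_lit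 13) (nat_lit 4) (nat_lit 11) (nat_lit 4) (nat_lit 425) (nat_lit 262) (nat_lit 213))) (XT.nd (nat_lit 78) (nat_lit 0) (nat_lit 0) (XT.lf (nat_lit 0) (nat_lit 19123793876) (nat_lit 152) (nat_lit 14322456440) (nat_lit 0) (nat_lit 10455446485) (nat_lit 11) (nat_lit 5) (nat_lit 13) (nat_lit 4) (nat_lit 11) (nat_lit 4) (nat_lit 426) (nat_lit 262) (nat_lit 212)) (XT.lf (nat_lit 0) (nat_lit 24056227468) (nat_lit 152) (nat_lit 5707975471) (nat_lit 0) (nat_lit 15313269218) (nat_lit 11) (nat_lit 5) (nat_lit 13) (nat_lit 4) (nat_lit 11) (nat_lit 4) (nat_lit 427) (nat_lit 262) (nat_lit 211)))))) (XT.nd (nat_lit 546) (nat_lit 76) (nat_lit 0) (XT.nd (nat_lit 234) (nat_lit 152) (nat_lit 0) (XT.nd (nat_lit 78) (nat_lit 0) (nat_lit 0) (XT.lf (nat_lit 0) (nat_lit 3144604698) (nat_lit 76) (nat_lit 25979840695) (nat_lit 76) (nat_lit 17164444717) (nat_lit 10) (nat_lit 4) (nat_lit 11) (nat_lit 5) (nat_lit 11) (nat_lit 4) (nat_lit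 428) (nat_lit 262) (nat_lit 210)) (XT.nd (nat_lit 78) (nat_lit 0) (nat_lit 0) (XT.lf (nat_lit 0) (nat_lit 12298873342) (nat_lit 76) (nat_lit 22061517140) (nat_lit 76) (nat_lit 13175793271) (nat_lit 10) (nat_lit 4) (nat_lit 11) (nat_lit 5) (nat_lit 11) (nat_lit 4) (nat_lit 429) (nat_lit 262) (nat_lit 209)) (XT.lf (nat_lit 0) (nat_lit 21649229431) (nat_lit 76) (nat_lit 18063447857) (nat_lit 76) (nat_lit 9109444481) (nat_lit 10) (nat_lit 4) (nat_lit 11) (nat_lit 5) (nat_lit 11) (nat_lit 4) (nat_lit 430) (nat_lit 262) (nat_lit 208)))) (XT.nd (nat_lit 156) (nat_lit 152) (nat_lit 0) (XT.nd (nat_lit 78) (nat_lit 0) (nat_lit 0) (XT.lf (nat_lit 0) (nat_lit 31203843178) (nat_lit 76) (nat_lit 13982139386) (nat_lit 76) (nat_lit 4961845228) (nat_lit 10) (nat_lit 4) (nat_lit 11) (nat_lit 5) (nat_lit 11) (nat_lit 4) (nat_lit 431) (nat_lit 262) (nat_lit 207)) (XT.lf (nat_lit 0) (nat_lit 40971063277) (nat_lit 76) (nat_lit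 9814025537) (nat_lit 76) (nat_lit 729371396) (nat_lit 10) (nat_lit 4) (nat_lit 11) (nat_lit 5) (nat_lit 11) (nat_lit 4) (nat_lit 432) (nat_lit 262) (nat_lit 206))) (XT.nd (nat_lit 78) (nat_lit 76) (nat_lit 0) (XT.lf (nat_lit 0) (nat_lit 3521588771) (nat_lit 152) (nat_lit 1998314356) (nat_lit 76) (nat_lit 47402274277) (nat_lit 9) (nat_lit 5) (nat_lit 11) (nat_lit 5) (nat_lit 10) (nat_lit 4) (nat_lit 433) (nat_lit 262) (nat_lit 205)) (XT.lf (nat_lit 0) (nat_lit 6859234745) (nat_lit 76) (nat_lit 1055563167) (nat_lit 152) (nat_lit 46456233150) (nat_lit 8) (nat_lit 5) (nat_lit 9) (nat_lit 5) (nat_lit 10) (nat_lit 4) (nat_lit 434) (nat_lit 262) (nat_lit 204))))) (XT.nd (nat_lit 234) (nat_lit 76) (nat_lit 0) (XT.nd (nat_lit 78) (nat_lit 0) (nat_lit 0) (XT.lf (nat_lit 0) (nat_lit 12457751491) (nat_lit 152) (nat_lit 39944111341) (nat_lit 0) (nat_lit 3460951956) (nat_lit 8) (nat_lit 5) (nat_lit 10) (nat_lit 4) (nat_lit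 8) (nat_lit 4) (nat_lit 435) (nat_lit 262) (nat_lit 203)) (XT.nd (nat_lit 78) (nat_lit 0) (nat_lit 0) (XT.lf (nat_lit 0) (nat_lit 17112022122) (nat_lit 152) (nat_lit 32228376766) (nat_lit 0) (nat_lit 8059705101) (nat_lit 8) (nat_lit 5) (nat_lit 10) (nat_lit 4) (nat_lit 8) (nat_lit 4) (nat_lit 436) (nat_lit 262) (nat_lit 202)) (XT.lf (nat_lit 0) (nat_lit 21871529926) (nat_lit 152) (nat_lit 24347703972) (nat_lit 0) (nat_lit 12765312433) (nat_lit 8) (nat_lit 5) (nat_lit 10) (nat_lit 4) (nat_lit 8) (nat_lit 4) (nat_lit 437) (nat_lit 262) (nat_lit 201)))) (XT.nd (nat_lit 156) (nat_lit 76) (nat_lit 0) (XT.nd (nat_lit 78) (nat_lit 0) (nat_lit 0) (XT.lf (nat_lit 0) (nat_lit 26740433697) (nat_lit 152) (nat_lit 16295206933) (nat_lit 0) (nat_lit 17581885647) (nat_lit 8) (nat_lit 5) (nat_lit 10) (nat_lit 4) (nat_lit 8) (nat_lit 4) (nat_lit 438) (nat_lit 262) (nat_lit 200)) (XT.lf (nat_lit 0) (nat_lit 31722987815) (nat_lit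 152) (nat_lit 8063849486) (nat_lit 0) (nat_lit 22513633400) (nat_lit 8) (nat_lit 5) (nat_lit 10) (nat_lit 4) (nat_lit 8) (nat_lit 4) (nat_lit 439) (nat_lit 262) (nat_lit 199))) (XT.nd (nat_lit 78) (nat_lit 0) (nat_lit 0) (XT.lf (nat_lit 0) (nat_lit 360597369) (nat_lit 76) (nat_lit 36466414883) (nat_lit 76) (nat_lit 27207733901) (nat_lit 7) (nat_lit 4) (nat_lit 8) (nat_lit 5) (nat_lit 8) (nat_lit 4) (nat_lit 440) (nat_lit 262) (nat_lit 198)) (XT.lf (nat_lit 0) (nat_lit 9142787711) (nat_lit 76) (nat_lit 32991663316) (nat_lit 76) (nat_lit 23685092462) (nat_lit 7) (nat_lit 4) (nat_lit 8) (nat_lit 5) (nat_lit 8) (nat_lit 4) (nat_lit 441) (nat_lit 262) (nat_lit 197))))))))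
noncomputable def xc27 : XT := (XT.nd (nat_lit 42978) (nat_lit 0) (nat_lit 684) (XT.nd (nat_lit 41886) (nat_lit 0) (nat_lit 1900) (XT.nd (nat_lit 468) (nat_lit 152) (nat_lit 0) (XT.nd (nat_lit 234) (nat_lit 0) (nat_lit 0) (XT.nd (nat_lit 78) (nat_lit 0) (nat_lit 0) (XT.lf (nat_lit 0) (nat_lit 18129908882) (nat_lit 76) (nat_lit 29440975478) (nat_lit 76) (nat_lit 20087909603) (nat_lit 7) (nat_lit 4) (nat_lit 8) (nat_lit 5) (nat_lit 8) (nat_lit 4) (nat_lit 442) (nat_lit 262) (nat_lit 196)) (XT.nd (nat_lit 78) (nat_lit 0) (nat_lit 0) (XT.lf (nat_lit 0) (nat_lit 27329813706) (nat_lit 76) (nat_lit 25811248827) (nat_lit 76) (nat_lit 16413042154) (nat_lit 7) (nat_lit 4) (nat_lit 8) (nat_lit 5) (nat_lit 8) (nat_lit 4) (nat_lit 443) (nat_lit 262) (nat_lit 195)) (XT.lf (nat_lit 0) (nat_lit 36750540935) (nat_lit 76) (nat_lit 22099311756) (nat_lit 76) (nat_lit 12657279067) (nat_lit 7) (nat_lit 4) (nat_lit 8) (nat_lit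 5) (nat_lit 8) (nat_lit 4) (nat_lit 444) (nat_lit 262) (nat_lit 194)))) (XT.nd (nat_lit 78) (nat_lit 0) (nat_lit 0) (XT.lf (nat_lit 0) (nat_lit 46400322272) (nat_lit 76) (nat_lit 18301920826) (nat_lit 76) (nat_lit 8817338606) (nat_lit 7) (nat_lit 4) (nat_lit 8) (nat_lit 5) (nat_lit 8) (nat_lit 4) (nat_lit 445) (nat_lit 262) (nat_lit 193)) (XT.nd (nat_lit 78) (nat_lit 0) (nat_lit 0) (XT.lf (nat_lit 0) (nat_lit 56287589565) (nat_lit 76) (nat_lit 14415757927) (nat_lit 76) (nat_lit 4889865483) (nat_lit 7) (nat_lit 4) (nat_lit 8) (nat_lit 5) (nat_lit 8) (nat_lit 4) (nat_lit 446) (nat_lit 262) (nat_lit 192)) (XT.lf (nat_lit 0) (nat_lit 66420982174) (nat_lit 76) (nat_lit 10437427384) (nat_lit 76) (nat_lit 871427927) (nat_lit 7) (nat_lit 4) (nat_lit 8) (nat_lit 5) (nat_lit 8) (nat_lit 4) (nat_lit 447) (nat_lit 262) (nat_lit 191))))) (XT.nd (nat_lit 41106) (nat_lit 0) (nat_lit 3116) (XT.nd (nat_lit 78) (nat_lit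 76) (nat_lit 0) (XT.lf (nat_lit 0) (nat_lit 3178232265) (nat_lit 152) (nat_lit 3153126807) (nat_lit 76) (nat_lit 73599028341) (nat_lit 6) (nat_lit 5) (nat_lit 8) (nat_lit 5) (nat_lit 7) (nat_lit 4) (nat_lit 448) (nat_lit 262) (nat_lit 190)) (XT.nd (nat_lit 78) (nat_lit 0) (nat_lit 0) (XT.lf (nat_lit 0) (nat_lit 5293857663) (nat_lit 76) (nat_lit 2064073704) (nat_lit 152) (nat_lit 74837983575) (nat_lit 5) (nat_lit 5) (nat_lit 6) (nat_lit 5) (nat_lit 7) (nat_lit 4) (nat_lit 449) (nat_lit 262) (nat_lit 189)) (XT.lf (nat_lit 0) (nat_lit 11692806064) (nat_lit 152) (nat_lit 70540425419) (nat_lit 0) (nat_lit 2295285082) (nat_lit 5) (nat_lit 5) (nat_lit 7) (nat_lit 4) (nat_lit 5) (nat_lit 4) (nat_lit 450) (nat_lit 262) (nat_lit 188)))) (XT.nd (nat_lit 156) (nat_lit 380) (nat_lit 0) (XT.nd (nat_lit 78) (nat_lit 0) (nat_lit 0) (XT.lf (nat_lit 0) (nat_lit 1002308307) (nat_lit 228) (nat_lit 4785544078) (nat_lit 0) (nat_lit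 1002308307) (nat_lit 51) (nat_lit 5) (nat_lit 54) (nat_lit 4) (nat_lit 51) (nat_lit 4) (nat_lit 374) (nat_lit 263) (nat_lit 263)) (XT.lf (nat_lit 0) (nat_lit 7042583521) (nat_lit 228) (nat_lit 203977645) (nat_lit 0) (nat_lit 6576235674) (nat_lit 51) (nat_lit 5) (nat_lit 54) (nat_lit 4) (nat_lit 51) (nat_lit 4) (nat_lit 375) (nat_lit 263) (nat_lit 262))) (XT.nd (nat_lit 78) (nat_lit 228) (nat_lit 0) (XT.lf (nat_lit 0) (nat_lit 9441848550) (nat_lit 152) (nat_lit 2775137419) (nat_lit 152) (nat_lit 1856024671) (nat_lit 49) (nat_lit 4) (nat_lit 51) (nat_lit 5) (nat_lit 51) (nat_lit 4) (nat_lit 376) (nat_lit 263) (nat_lit 261)) (XT.lf (nat_lit 0) (nat_lit 3114981786) (nat_lit 228) (nat_lit 9420122992) (nat_lit 0) (nat_lit 1795864969) (nat_lit 46) (nat_lit 5) (nat_lit 49) (nat_lit 4) (nat_lit 46) (nat_lit 4) (nat_lit 377) (nat_lit 263) (nat_lit 260)))))) (XT.nd (nat_lit 546) (nat_lit 608) (nat_lit 0) (XT.nd (nat_lit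 234) (nat_lit 304) (nat_lit 0) (XT.nd (nat_lit 78) (nat_lit 152) (nat_lit 0) (XT.lf (nat_lit 0) (nat_lit 5213889) (nat_lit 152) (nat_lit 8162641537) (nat_lit 152) (nat_lit 6429180697) (nat_lit 44) (nat_lit 4) (nat_lit 46) (nat_lit 5) (nat_lit 46) (nat_lit 4) (nat_lit 378) (nat_lit 263) (nat_lit 259)) (XT.nd (nat_lit 78) (nat_lit 152) (nat_lit 0) (XT.lf (nat_lit 0) (nat_lit 9720893770) (nat_lit 152) (nat_lit 3643098704) (nat_lit 152) (nat_lit 1507362116) (nat_lit 44) (nat_lit 4) (nat_lit 46) (nat_lit 5) (nat_lit 46) (nat_lit 4) (nat_lit 379) (nat_lit 263) (nat_lit 258)) (XT.lf (nat_lit 0) (nat_lit 3443590501) (nat_lit 152) (nat_lit 10719898089) (nat_lit 0) (nat_lit 990876356) (nat_lit 42) (nat_lit 5) (nat_lit 44) (nat_lit 4) (nat_lit 42) (nat_lit 4) (nat_lit 380) (nat_lit 263) (nat_lit 257)))) (XT.nd (nat_lit 156) (nat_lit 152) (nat_lit 0) (XT.nd (nat_lit 78) (nat_lit 152) (nat_lit 0) (XT.lf (nat_lit 0)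 (nat_lit 8500372238) (nat_lit 152) (nat_lit 1265917619) (nat_lit 0) (nat_lit 5679518796) (nat_lit 42) (nat_lit 5) (nat_lit 44) (nat_lit 4) (nat_lit 42) (nat_lit 4) (nat_lit 381) (nat_lit 263) (nat_lit 256)) (XT.lf (nat_lit 0) (nat_lit 8459451341) (nat_lit 152) (nat_lit 5232667433) (nat_lit 152) (nat_lit 2054397197) (nat_lit 40) (nat_lit 4) (nat_lit 42) (nat_lit 5) (nat_lit 42) (nat_lit 4) (nat_lit 382) (nat_lit 263) (nat_lit 255))) (XT.nd (nat_lit 78) (nat_lit 0) (nat_lit 0) (XT.lf (nat_lit 0) (nat_lit 2284921105) (nat_lit 76) (nat_lit 577245365) (nat_lit 152) (nat_lit 13195124506) (nat_lit 38) (nat_lit 5) (nat_lit 39) (nat_lit 5) (nat_lit 40) (nat_lit 4) (nat_lit 383) (nat_lit 263) (nat_lit 254)) (XT.lf (nat_lit 0) (nat_lit 7902329864) (nat_lit 152) (nat_lit 4321299925) (nat_lit 0) (nat_lit 4152644001) (nat_lit 38) (nat_lit 5) (nat_lit 40) (nat_lit 4) (nat_lit 38) (nat_lit 4) (nat_lit 384) (nat_lit 263)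 (nat_lit 253))))) (XT.nd (nat_lit 234) (nat_lit 304) (nat_lit 0) (XT.nd (nat_lit 78) (nat_lit 152) (nat_lit 0) (XT.lf (nat_lit 0) (nat_lit 5339004241) (nat_lit 152) (nat_lit 7717105830) (nat_lit 152) (nat_lit 3649859776) (nat_lit 36) (nat_lit 4) (nat_lit 38) (nat_lit 5) (nat_lit 38) (nat_lit 4) (nat_lit 385) (nat_lit 263) (nat_lit 252)) (XT.nd (nat_lit 78) (nat_lit 76) (nat_lit 0) (XT.lf (nat_lit 0) (nat_lit 1242823440) (nat_lit 228) (nat_lit 1852625336) (nat_lit 76) (nat_lit 13951254426) (nat_lit 35) (nat_lit 5) (nat_lit 38) (nat_lit 5) (nat_lit 36) (nat_lit 4) (nat_lit 386) (nat_lit 263) (nat_lit 251)) (XT.lf (nat_lit 0) (nat_lit 6209517785) (nat_lit 152) (nat_lit 9516262019) (nat_lit 0) (nat_lit 1670791709) (nat_lit 34) (nat_lit 5) (nat_lit 36) (nat_lit 4) (nat_lit 34) (nat_lit 4) (nat_lit 387) (nat_lit 263) (nat_lit 250)))) (XT.nd (nat_lit 156) (nat_lit 152) (nat_lit 0) (XT.nd (nat_lit 78) (nat_lit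 152) (nat_lit 0) (XT.lf (nat_lit 0) (nat_lit 11283395788) (nat_lit 152) (nat_lit 12287325) (nat_lit 0) (nat_lit 6462521595) (nat_lit 34) (nat_lit 5) (nat_lit 36) (nat_lit 4) (nat_lit 34) (nat_lit 4) (nat_lit 388) (nat_lit 263) (nat_lit 249)) (XT.lf (nat_lit 0) (nat_lit 9804745294) (nat_lit 152) (nat_lit 6710296678) (nat_lit 152) (nat_lit 1615492275) (nat_lit 32) (nat_lit 4) (nat_lit 34) (nat_lit 5) (nat_lit 34) (nat_lit 4) (nat_lit 389) (nat_lit 263) (nat_lit 248))) (XT.nd (nat_lit 78) (nat_lit 0) (nat_lit 0) (XT.lf (nat_lit 0) (nat_lit 1230374887) (nat_lit 76) (nat_lit 2016487650) (nat_lit 152) (nat_lit 15268504687) (nat_lit 30) (nat_lit 5) (nat_lit 31) (nat_lit 5) (nat_lit 32) (nat_lit 4) (nat_lit 390) (nat_lit 263) (nat_lit 247)) (XT.lf (nat_lit 0) (nat_lit 8246370874) (nat_lit 152) (nat_lit 7873126221) (nat_lit 0) (nat_lit 2791068389) (nat_lit 30) (nat_lit 5) (nat_lit 32) (nat_lit 4) (nat_lit 30) (nat_lit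 4) (nat_lit 391) (nat_lit 263) (nat_lit 246))))))) (XT.nd (nat_lit 1014) (nat_lit 456) (nat_lit 0) (XT.nd (nat_lit 468) (nat_lit 380) (nat_lit 0) (XT.nd (nat_lit 234) (nat_lit 76) (nat_lit 0) (XT.nd (nat_lit 78) (nat_lit 152) (nat_lit 0) (XT.lf (nat_lit 0) (nat_lit 1674702982) (nat_lit 152) (nat_lit 11671551644) (nat_lit 152) (nat_lit 5972865714) (nat_lit 28) (nat_lit 4) (nat_lit 30) (nat_lit 5) (nat_lit 30) (nat_lit 4) (nat_lit 392) (nat_lit 263) (nat_lit 245)) (XT.nd (nat_lit 78) (nat_lit 152) (nat_lit 0) (XT.lf (nat_lit 0) (nat_lit 11512811146) (nat_lit 152) (nat_lit 7081134450) (nat_lit 152) (nat_lit 1146153914) (nat_lit 28) (nat_lit 4) (nat_lit 30) (nat_lit 5) (nat_lit 30) (nat_lit 4) (nat_lit 393) (nat_lit 263) (nat_lit 244)) (XT.lf (nat_lit 0) (nat_lit 1306453708) (nat_lit 76) (nat_lit 2373766234) (nat_lit 152) (nat_lit 16494511051) (nat_lit 26) (nat_lit 5) (nat_lit 27) (nat_lit 5) (nat_lit 28) (nat_lit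 4) (nat_lit 394) (nat_lit 263) (nat_lit 243)))) (XT.nd (nat_lit 78) (nat_lit 76) (nat_lit 0) (XT.lf (nat_lit 0) (nat_lit 8653253515) (nat_lit 152) (nat_lit 9515908163) (nat_lit 0) (nat_lit 2452163122) (nat_lit 26) (nat_lit 5) (nat_lit 28) (nat_lit 4) (nat_lit 26) (nat_lit 4) (nat_lit 395) (nat_lit 263) (nat_lit 242)) (XT.nd (nat_lit 78) (nat_lit 76) (nat_lit 0) (XT.lf (nat_lit 0) (nat_lit 13718605484) (nat_lit 152) (nat_lit 56857375) (nat_lit 0) (nat_lit 7307570394) (nat_lit 26) (nat_lit 5) (nat_lit 28) (nat_lit 4) (nat_lit 26) (nat_lit 4) (nat_lit 396) (nat_lit 263) (nat_lit 241)) (XT.lf (nat_lit 0) (nat_lit 9729822237) (nat_lit 76) (nat_lit 9221590560) (nat_lit 76) (nat_lit 2606725666) (nat_lit 25) (nat_lit 4) (nat_lit 26) (nat_lit 5) (nat_lit 26) (nat_lit 4) (nat_lit 397) (nat_lit 263) (nat_lit 240))))) (XT.nd (nat_lit 234) (nat_lit 228) (nat_lit 0) (XT.nd (nat_lit 78) (nat_lit 76) (nat_lit 0) (XT.lf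 (nat_lit 0) (nat_lit 2171603994) (nat_lit 152) (nat_lit 2404401796) (nat_lit 76) (nat_lit 17473159683) (nat_lit 24) (nat_lit 5) (nat_lit 26) (nat_lit 5) (nat_lit 25) (nat_lit 4) (nat_lit 398) (nat_lit 263) (nat_lit 239)) (XT.nd (nat_lit 78) (nat_lit 0) (nat_lit 0) (XT.lf (nat_lit 0) (nat_lit 7037502249) (nat_lit 152) (nat_lit 15280116856) (nat_lit 0) (nat_lit 236641041) (nat_lit 23) (nat_lit 5) (nat_lit 25) (nat_lit 4) (nat_lit 23) (nat_lit 4) (nat_lit 399) (nat_lit 263) (nat_lit 238)) (XT.lf (nat_lit 0) (nat_lit 12043771062) (nat_lit 152) (nat_lit 5969104267) (nat_lit 0) (nat_lit 5061809714) (nat_lit 23) (nat_lit 5) (nat_lit 25) (nat_lit 4) (nat_lit 23) (nat_lit 4) (nat_lit 400) (nat_lit 263) (nat_lit 237)))) (XT.nd (nat_lit 156) (nat_lit 152) (nat_lit 0) (XT.nd (nat_lit 78) (nat_lit 0) (nat_lit 0) (XT.lf (nat_lit 0) (nat_lit 3552591460) (nat_lit 76) (nat_lit 13608549738) (nat_lit 76) (nat_lit 6450763012)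 (nat_lit 22) (nat_lit 4) (nat_lit 23) (nat_lit 5) (nat_lit 23) (nat_lit 4) (nat_lit 401) (nat_lit 263) (nat_lit 236)) (XT.lf (nat_lit 0) (nat_lit 13345680407) (nat_lit 76) (nat_lit 9074211699) (nat_lit 76) (nat_lit 1745720721) (nat_lit 22) (nat_lit 4) (nat_lit 23) (nat_lit 5) (nat_lit 23) (nat_lit 4) (nat_lit 402) (nat_lit 263) (nat_lit 235))) (XT.nd (nat_lit 78) (nat_lit 76) (nat_lit 0) (XT.lf (nat_lit 0) (nat_lit 2968959724) (nat_lit 152) (nat_lit 1467235019) (nat_lit 76) (nat_lit 20300982366) (nat_lit 21) (nat_lit 5) (nat_lit 23) (nat_lit 5) (nat_lit 22) (nat_lit 4) (nat_lit 403) (nat_lit 263) (nat_lit 234)) (XT.lf (nat_lit 0) (nat_lit 7803302276) (nat_lit 152) (nat_lit 17150537381) (nat_lit 0) (nat_lit 371138792) (nat_lit 20) (nat_lit 5) (nat_lit 22) (nat_lit 4) (nat_lit 20) (nat_lit 4) (nat_lit 404) (nat_lit 263) (nat_lit 233)))))) (XT.nd (nat_lit 546) (nat_lit 228) (nat_lit 0) (XT.nd (nat_lit 234)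 (nat_lit 152) (nat_lit 0) (XT.nd (nat_lit 78) (nat_lit 76) (nat_lit 0) (XT.lf (nat_lit 0) (nat_lit 12772802945) (nat_lit 152) (nat_lit 7968943802) (nat_lit 0) (nat_lit 5188970945) (nat_lit 20) (nat_lit 5) (nat_lit 22) (nat_lit 4) (nat_lit 20) (nat_lit 4) (nat_lit 405) (nat_lit 263) (nat_lit 232)) (XT.nd (nat_lit 78) (nat_lit 0) (nat_lit 0) (XT.lf (nat_lit 0) (nat_lit 1388642217) (nat_lit 76) (nat_lit 16449339777) (nat_lit 76) (nat_lit 8718256790) (nat_lit 19) (nat_lit 4) (nat_lit 20) (nat_lit 5) (nat_lit 20) (nat_lit 4) (nat_lit 406) (nat_lit 263) (nat_lit 231)) (XT.lf (nat_lit 0) (nat_lit 11064999288) (nat_lit 76) (nat_lit 12004572463) (nat_lit 76) (nat_lit 4130527353) (nat_lit 19) (nat_lit 4) (nat_lit 20) (nat_lit 5) (nat_lit 20) (nat_lit 4) (nat_lit 407) (nat_lit 263) (nat_lit 230)))) (XT.nd (nat_lit 156) (nat_lit 0) (nat_lit 0) (XT.nd (nat_lit 78) (nat_lit 76) (nat_lit 0) (XT.lf (nat_lit 0) (nat_lit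 518492533) (nat_lit 152) (nat_lit 6960303444) (nat_lit 76) (nat_lit 20386256580) (nat_lit 18) (nat_lit 5) (nat_lit 20) (nat_lit 5) (nat_lit 19) (nat_lit 4) (nat_lit 408) (nat_lit 263) (nat_lit 229)) (XT.lf (nat_lit 0) (nat_lit 2375825329) (nat_lit 76) (nat_lit 2808127443) (nat_lit 152) (nat_lit 23365981915) (nat_lit 17) (nat_lit 5) (nat_lit 18) (nat_lit 5) (nat_lit 19) (nat_lit 4) (nat_lit 409) (nat_lit 263) (nat_lit 228))) (XT.nd (nat_lit 78) (nat_lit 0) (nat_lit 0) (XT.lf (nat_lit 0) (nat_lit 10016915790) (nat_lit 152) (nat_lit 17258022068) (nat_lit 0) (nat_lit 1979605699) (nat_lit 17) (nat_lit 5) (nat_lit 19) (nat_lit 4) (nat_lit 17) (nat_lit 4) (nat_lit 410) (nat_lit 263) (nat_lit 227)) (XT.lf (nat_lit 0) (nat_lit 14961803810) (nat_lit 152) (nat_lit 8218311723) (nat_lit 0) (nat_lit 6801173336) (nat_lit 17) (nat_lit 5) (nat_lit 19) (nat_lit 4) (nat_lit 17) (nat_lit 4) (nat_lit 411) (nat_lit 263) (nat_lit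 226))))) (XT.nd (nat_lit 234) (nat_lit 152) (nat_lit 0) (XT.nd (nat_lit 78) (nat_lit 0) (nat_lit 0) (XT.lf (nat_lit 0) (nat_lit 999416097) (nat_lit 76) (nat_lit 19006135070) (nat_lit 76) (nat_lit 10725776068) (nat_lit 16) (nat_lit 4) (nat_lit 17) (nat_lit 5) (nat_lit 17) (nat_lit 4) (nat_lit 412) (nat_lit 263) (nat_lit 225)) (XT.nd (nat_lit 78) (nat_lit 0) (nat_lit 0) (XT.lf (nat_lit 0) (nat_lit 10550571711) (nat_lit 76) (nat_lit 14674582467) (nat_lit 76) (nat_lit 6277982177) (nat_lit 16) (nat_lit 4) (nat_lit 17) (nat_lit 5) (nat_lit 17) (nat_lit 4) (nat_lit 413) (nat_lit 263) (nat_lit 224)) (XT.lf (nat_lit 0) (nat_lit 20279940271) (nat_lit 76) (nat_lit 10264661706) (nat_lit 76) (nat_lit 1755205797) (nat_lit 16) (nat_lit 4) (nat_lit 17) (nat_lit 5) (nat_lit 17) (nat_lit 4) (nat_lit 414) (nat_lit 263) (nat_lit 223)))) (XT.nd (nat_lit 156) (nat_lit 0) (nat_lit 0) (XT.nd (nat_lit 78) (nat_lit 76) (nat_lit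 0) (XT.lf (nat_lit 0) (nat_lit 2790959446) (nat_lit 152) (nat_lit 2953376796) (nat_lit 76) (nat_lit 27376880503) (nat_lit 15) (nat_lit 5) (nat_lit 17) (nat_lit 5) (nat_lit 16) (nat_lit 4) (nat_lit 415) (nat_lit 263) (nat_lit 222)) (XT.lf (nat_lit 0) (nat_lit 6389223138) (nat_lit 76) (nat_lit 1056404869) (nat_lit 152) (nat_lit 26520901982) (nat_lit 14) (nat_lit 5) (nat_lit 15) (nat_lit 5) (nat_lit 16) (nat_lit 4) (nat_lit 416) (nat_lit 263) (nat_lit 221))) (XT.nd (nat_lit 78) (nat_lit 0) (nat_lit 0) (XT.lf (nat_lit 0) (nat_lit 12252417447) (nat_lit 152) (nat_lit 18903532963) (nat_lit 0) (nat_lit 3680882886) (nat_lit 14) (nat_lit 5) (nat_lit 16) (nat_lit 4) (nat_lit 14) (nat_lit 4) (nat_lit 417) (nat_lit 263) (nat_lit 220)) (XT.lf (nat_lit 0) (nat_lit 17161541743) (nat_lit 152) (nat_lit 10080308029) (nat_lit 0) (nat_lit 8492656933) (nat_lit 14) (nat_lit 5) (nat_lit 16) (nat_lit 4) (nat_lit 14) (nat_lit 4)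 (nat_lit 418) (nat_lit 263) (nat_lit 219))))))))
noncomputable def xc28 : XT := (XT.nd (nat_lit 2028) (nat_lit 152) (nat_lit 0) (XT.nd (nat_lit 1014) (nat_lit 228) (nat_lit 0) (XT.nd (nat_lit 468) (nat_lit 76) (nat_lit 0) (XT.nd (nat_lit 234) (nat_lit 152) (nat_lit 0) (XT.nd (nat_lit 78) (nat_lit 76) (nat_lit 0) (XT.lf (nat_lit 0) (nat_lit 22167135615) (nat_lit 152) (nat_lit 1089767625) (nat_lit 0) (nat_lit 13403736000) (nat_lit 14) (nat_lit 5) (nat_lit 16) (nat_lit 4) (nat_lit 14) (nat_lit 4) (nat_lit 419) (nat_lit 263) (nat_lit 218)) (XT.nd (nat_lit 78) (nat_lit 0) (nat_lit 0) (XT.lf (nat_lit 0) (nat_lit 8236671181) (nat_lit 76) (nat_lit 19116077621) (nat_lit 76) (nat_lit 10260916059) (nat_lit 13) (nat_lit 4) (nat_lit 14) (nat_lit 5) (nat_lit 14) (nat_lit 4) (nat_lit 420) (nat_lit 263) (nat_lit 217)) (XT.lf (nat_lit 0) (nat_lit 17771624301) (nat_lit 76) (nat_lit 14884522899) (nat_lit 76) (nat_lit 5940272069)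 (nat_lit 13) (nat_lit 4) (nat_lit 14) (nat_lit 5) (nat_lit 14) (nat_lit 4) (nat_lit 421) (nat_lit 263) (nat_lit 216)))) (XT.nd (nat_lit 78) (nat_lit 152) (nat_lit 0) (XT.lf (nat_lit 0) (nat_lit 27501734733) (nat_lit 76) (nat_lit 10569546116) (nat_lit 76) (nat_lit 1538800850) (nat_lit 13) (nat_lit 4) (nat_lit 14) (nat_lit 5) (nat_lit 14) (nat_lit 4) (nat_lit 422) (nat_lit 263) (nat_lit 215)) (XT.nd (nat_lit 78) (nat_lit 76) (nat_lit 0) (XT.lf (nat_lit 0) (nat_lit 2889830253) (nat_lit 152) (nat_lit 3248365030) (nat_lit 76) (nat_lit 34516492643) (nat_lit 12) (nat_lit 5) (nat_lit 14) (nat_lit 5) (nat_lit 13) (nat_lit 4) (nat_lit 423) (nat_lit 263) (nat_lit 214)) (XT.lf (nat_lit 0) (nat_lit 5890551364) (nat_lit 76) (nat_lit 1541370365) (nat_lit 152) (nat_lit 34297911665) (nat_lit 11) (nat_lit 5) (nat_lit 12) (nat_lit 5) (nat_lit 13) (nat_lit 4) (nat_lit 424) (nat_lit 263) (nat_lit 213))))) (XT.nd (nat_lit 234)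 (nat_lit 76) (nat_lit 0) (XT.nd (nat_lit 78) (nat_lit 0) (nat_lit 0) (XT.lf (nat_lit 0) (nat_lit 12129099658) (nat_lit 152) (nat_lit 27583720097) (nat_lit 0) (nat_lit 3123852660) (nat_lit 11) (nat_lit 5) (nat_lit 13) (nat_lit 4) (nat_lit 11) (nat_lit 4) (nat_lit 425) (nat_lit 263) (nat_lit 212)) (XT.nd (nat_lit 78) (nat_lit 0) (nat_lit 0) (XT.lf (nat_lit 0) (nat_lit 16938764982) (nat_lit 152) (nat_lit 19179901123) (nat_lit 0) (nat_lit 7858907125) (nat_lit 11) (nat_lit 5) (nat_lit 13) (nat_lit 4) (nat_lit 11) (nat_lit 4) (nat_lit 426) (nat_lit 263) (nat_lit 211)) (XT.lf (nat_lit 0) (nat_lit 21850303728) (nat_lit 152) (nat_lit 10605665372) (nat_lit 0) (nat_lit 12698008142) (nat_lit 11) (nat_lit 5) (nat_lit 13) (nat_lit 4) (nat_lit 11) (nat_lit 4) (nat_lit 427) (nat_lit 263) (nat_lit 210)))) (XT.nd (nat_lit 156) (nat_lit 0) (nat_lit 0) (XT.nd (nat_lit 78) (nat_lit 76) (nat_lit 0) (XT.lf (nat_lit 0) (nat_lit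 26868007531) (nat_lit 152) (nat_lit 1853520792) (nat_lit 0) (nat_lit 17645384054) (nat_lit 11) (nat_lit 5) (nat_lit 13) (nat_lit 4) (nat_lit 11) (nat_lit 4) (nat_lit 428) (nat_lit 263) (nat_lit 209)) (XT.lf (nat_lit 0) (nat_lit 7225169195) (nat_lit 76) (nat_lit 24840544344) (nat_lit 76) (nat_lit 15549641361) (nat_lit 10) (nat_lit 4) (nat_lit 11) (nat_lit 5) (nat_lit 11) (nat_lit 4) (nat_lit 429) (nat_lit 263) (nat_lit 208))) (XT.nd (nat_lit 78) (nat_lit 0) (nat_lit 0) (XT.lf (nat_lit 0) (nat_lit 16537962218) (nat_lit 76) (nat_lit 20860555303) (nat_lit 76) (nat_lit 11503361537) (nat_lit 10) (nat_lit 4) (nat_lit 11) (nat_lit 5) (nat_lit 11) (nat_lit 4) (nat_lit 430) (nat_lit 263) (nat_lit 207)) (XT.lf (nat_lit 0) (nat_lit 26056106969) (nat_lit 76) (nat_lit 16796800465) (nat_lit 76) (nat_lit 7375246717) (nat_lit 10) (nat_lit 4) (nat_lit 11) (nat_lit 5) (nat_lit 11) (nat_lit 4) (nat_lit 431) (nat_lit 263) (nat_lit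 206)))))) (XT.nd (nat_lit 468) (nat_lit 76) (nat_lit 0) (XT.nd (nat_lit 234) (nat_lit 0) (nat_lit 0) (XT.nd (nat_lit 78) (nat_lit 152) (nat_lit 0) (XT.lf (nat_lit 0) (nat_lit 35787920275) (nat_lit 76) (nat_lit 12645728979) (nat_lit 76) (nat_lit 3161689810) (nat_lit 10) (nat_lit 4) (nat_lit 11) (nat_lit 5) (nat_lit 11) (nat_lit 4) (nat_lit 432) (nat_lit 263) (nat_lit 205)) (XT.nd (nat_lit 78) (nat_lit 76) (nat_lit 0) (XT.lf (nat_lit 0) (nat_lit 1118726090) (nat_lit 152) (nat_lit 7273690663) (nat_lit 76) (nat_lit 44611882632) (nat_lit 9) (nat_lit 5) (nat_lit 11) (nat_lit 5) (nat_lit 10) (nat_lit 4) (nat_lit 433) (nat_lit 263) (nat_lit 204)) (XT.lf (nat_lit 0) (nat_lit 1444473264) (nat_lit 76) (nat_lit 3997928899) (nat_lit 152) (nat_lit 49012838302) (nat_lit 8) (nat_lit 5) (nat_lit 9) (nat_lit 5) (nat_lit 10) (nat_lit 4) (nat_lit 434) (nat_lit 263) (nat_lit 203)))) (XT.nd (nat_lit 78) (nat_lit 0) (nat_lit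 0) (XT.lf (nat_lit 0) (nat_lit 9939622328) (nat_lit 152) (nat_lit 45448556942) (nat_lit 0) (nat_lit 560218310) (nat_lit 8) (nat_lit 5) (nat_lit 10) (nat_lit 4) (nat_lit 8) (nat_lit 4) (nat_lit 435) (nat_lit 263) (nat_lit 202)) (XT.nd (nat_lit 78) (nat_lit 0) (nat_lit 0) (XT.lf (nat_lit 0) (nat_lit 14576951607) (nat_lit 152) (nat_lit 37765597647) (nat_lit 0) (nat_lit 5143647116) (nat_lit 8) (nat_lit 5) (nat_lit 10) (nat_lit 4) (nat_lit 8) (nat_lit 4) (nat_lit 436) (nat_lit 263) (nat_lit 201)) (XT.lf (nat_lit 0) (nat_lit 19320011496) (nat_lit 152) (nat_lit 29916745513) (nat_lit 0) (nat_lit 9834376449) (nat_lit 8) (nat_lit 5) (nat_lit 10) (nat_lit 4) (nat_lit 8) (nat_lit 4) (nat_lit 437) (nat_lit 263) (nat_lit 200))))) (XT.nd (nat_lit 234) (nat_lit 76) (nat_lit 0) (XT.nd (nat_lit 78) (nat_lit 0) (nat_lit 0) (XT.lf (nat_lit 0) (nat_lit 24172946416) (nat_lit 152) (nat_lit 21895142318) (nat_lit 0) (nat_lit 14636505005)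 (nat_lit 8) (nat_lit 5) (nat_lit 10) (nat_lit 4) (nat_lit 8) (nat_lit 4) (nat_lit 438) (nat_lit 263) (nat_lit 199)) (XT.nd (nat_lit 78) (nat_lit 0) (nat_lit 0) (XT.lf (nat_lit 0) (nat_lit 29139996797) (nat_lit 152) (nat_lit 13693778895) (nat_lit 0) (nat_lit 19554228817) (nat_lit 8) (nat_lit 5) (nat_lit 10) (nat_lit 4) (nat_lit 8) (nat_lit 4) (nat_lit 439) (nat_lit 263) (nat_lit 198)) (XT.lf (nat_lit 0) (nat_lit 34225502779) (nat_lit 152) (nat_lit 5305489004) (nat_lit 0) (nat_lit 24591844928) (nat_lit 8) (nat_lit 5) (nat_lit 10) (nat_lit 4) (nat_lit 8) (nat_lit 4) (nat_lit 440) (nat_lit 263) (nat_lit 197)))) (XT.nd (nat_lit 156) (nat_lit 0) (nat_lit 0) (XT.nd (nat_lit 78) (nat_lit 0) (nat_lit 0) (XT.lf (nat_lit 0) (nat_lit 3342276787) (nat_lit 76) (nat_lit 36123759231) (nat_lit 76) (nat_lit 26443606358) (nat_lit 7) (nat_lit 4) (nat_lit 8) (nat_lit 5) (nat_lit 8) (nat_lit 4) (nat_lit 441) (nat_lit 263) (nat_lit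 196)) (XT.lf (nat_lit 0) (nat_lit 12301402892) (nat_lit 76) (nat_lit 32586609236) (nat_lit 76) (nat_lit 22861315566) (nat_lit 7) (nat_lit 4) (nat_lit 8) (nat_lit 5) (nat_lit 8) (nat_lit 4) (nat_lit 442) (nat_lit 263) (nat_lit 195))) (XT.nd (nat_lit 78) (nat_lit 0) (nat_lit 0) (XT.lf (nat_lit 0) (nat_lit 21474128042) (nat_lit 76) (nat_lit 28970026122) (nat_lit 76) (nat_lit 19200906435) (nat_lit 7) (nat_lit 4) (nat_lit 8) (nat_lit 5) (nat_lit 8) (nat_lit 4) (nat_lit 443) (nat_lit 263) (nat_lit 194)) (XT.lf (nat_lit 0) (nat_lit 30868467237) (nat_lit 76) (nat_lit 25270849766) (nat_lit 76) (nat_lit 15459180549) (nat_lit 7) (nat_lit 4) (nat_lit 8) (nat_lit 5) (nat_lit 8) (nat_lit 4) (nat_lit 444) (nat_lit 263) (nat_lit 193))))))) (XT.nd (nat_lit 41730) (nat_lit 0) (nat_lit 1900) (XT.nd (nat_lit 41184) (nat_lit 0) (nat_lit 3116) (XT.nd (nat_lit 234) (nat_lit 152) (nat_lit 0) (XT.nd (nat_lit 78) (nat_lit 0) (nat_lit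 0) (XT.lf (nat_lit 0) (nat_lit 40492629124) (nat_lit 76) (nat_lit 21485847880) (nat_lit 76) (nat_lit 11632868439) (nat_lit 7) (nat_lit 4) (nat_lit 8) (nat_lit 5) (nat_lit 8) (nat_lit 4) (nat_lit 445) (nat_lit 263) (nat_lit 192)) (XT.nd (nat_lit 78) (nat_lit 0) (nat_lit 0) (XT.lf (nat_lit 0) (nat_lit 50355023164) (nat_lit 76) (nat_lit 17611713180) (nat_lit 76) (nat_lit 7718626725) (nat_lit 7) (nat_lit 4) (nat_lit 8) (nat_lit 5) (nat_lit 8) (nat_lit 4) (nat_lit 446) (nat_lit 263) (nat_lit 191)) (XT.lf (nat_lit 0) (nat_lit 60464266985) (nat_lit 76) (nat_lit 13645060500) (nat_lit 76) (nat_lit 3713035197) (nat_lit 7) (nat_lit 4) (nat_lit 8) (nat_lit 5) (nat_lit 8) (nat_lit 4) (nat_lit 447) (nat_lit 263) (nat_lit 190)))) (XT.nd (nat_lit 78) (nat_lit 76) (nat_lit 0) (XT.lf (nat_lit 0) (nat_lit 379846487) (nat_lit 152) (nat_lit 9198741640) (nat_lit 76) (nat_lit 70445511712) (nat_lit 6) (nat_lit 5) (nat_lit 8) (nat_lit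 5) (nat_lit 7) (nat_lit 4) (nat_lit 448) (nat_lit 263) (nat_lit 189)) (XT.nd (nat_lit 78) (nat_lit 76) (nat_lit 0) (XT.lf (nat_lit 0) (nat_lit 4496785460) (nat_lit 152) (nat_lit 878059123) (nat_lit 76) (nat_lit 76916666478) (nat_lit 6) (nat_lit 5) (nat_lit 8) (nat_lit 5) (nat_lit 7) (nat_lit 4) (nat_lit 449) (nat_lit 263) (nat_lit 188)) (XT.lf (nat_lit 0) (nat_lit 7799102905) (nat_lit 76) (nat_lit 989700580) (nat_lit 152) (nat_lit 75836595767) (nat_lit 5) (nat_lit 5) (nat_lit 6) (nat_lit 5) (nat_lit 7) (nat_lit 4) (nat_lit 450) (nat_lit 263) (nat_lit 187))))) (XT.nd (nat_lit 234) (nat_lit 380) (nat_lit 0) (XT.nd (nat_lit 78) (nat_lit 380) (nat_lit 0) (XT.lf (nat_lit 0) (nat_lit 2893529996) (nat_lit 228) (nat_lit 770539289) (nat_lit 0) (nat_lit 2893529996) (nat_lit 56) (nat_lit 5) (nat_lit 59) (nat_lit 4) (nat_lit 56) (nat_lit 4) (nat_lit 372) (nat_lit 264) (nat_lit 264)) (XT.nd (nat_lit 78) (nat_lit 228)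 (nat_lit 0) (XT.lf (nat_lit 0) (nat_lit 7895046750) (nat_lit 152) (nat_lit 2972303261) (nat_lit 152) (nat_lit 2477554829) (nat_lit 54) (nat_lit 4) (nat_lit 56) (nat_lit 5) (nat_lit 56) (nat_lit 4) (nat_lit 373) (nat_lit 264) (nat_lit 263)) (XT.lf (nat_lit 0) (nat_lit 2431443459) (nat_lit 228) (nat_lit 9665737600) (nat_lit 0) (nat_lit 1484757329) (nat_lit 51) (nat_lit 5) (nat_lit 54) (nat_lit 4) (nat_lit 51) (nat_lit 4) (nat_lit 374) (nat_lit 264) (nat_lit 262)))) (XT.nd (nat_lit 156) (nat_lit 228) (nat_lit 0) (XT.nd (nat_lit 78) (nat_lit 152) (nat_lit 0) (XT.lf (nat_lit 0) (nat_lit 7417457514) (nat_lit 228) (nat_lit 390519751) (nat_lit 0) (nat_lit 6018006483) (nat_lit 51) (nat_lit 5) (nat_lit 54) (nat_lit 4) (nat_lit 51) (nat_lit 4) (nat_lit 375) (nat_lit 264) (nat_lit 261)) (XT.lf (nat_lit 0) (nat_lit 9160602136) (nat_lit 152) (nat_lit 3378114650) (nat_lit 152) (nat_lit 1539086045) (nat_lit 49) (nat_lit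 4) (nat_lit 51) (nat_lit 5) (nat_lit 51) (nat_lit 4) (nat_lit 376) (nat_lit 264) (nat_lit 260))) (XT.nd (nat_lit 78) (nat_lit 0) (nat_lit 0) (XT.lf (nat_lit 0) (nat_lit 3365524214) (nat_lit 228) (nat_lit 9806247504) (nat_lit 0) (nat_lit 1165715528) (nat_lit 46) (nat_lit 5) (nat_lit 49) (nat_lit 4) (nat_lit 46) (nat_lit 4) (nat_lit 377) (nat_lit 264) (nat_lit 259)) (XT.lf (nat_lit 0) (nat_lit 8368266831) (nat_lit 228) (nat_lit 470618385) (nat_lit 0) (nat_lit 5766182394) (nat_lit 46) (nat_lit 5) (nat_lit 49) (nat_lit 4) (nat_lit 46) (nat_lit 4) (nat_lit 378) (nat_lit 264) (nat_lit 258)))))) (XT.nd (nat_lit 546) (nat_lit 456) (nat_lit 0) (XT.nd (nat_lit 234) (nat_lit 456) (nat_lit 0) (XT.nd (nat_lit 78) (nat_lit 152) (nat_lit 0) (XT.lf (nat_lit 0) (nat_lit 9146967737) (nat_lit 152) (nat_lit 4363347096) (nat_lit 152) (nat_lit 1370703679) (nat_lit 44) (nat_lit 4) (nat_lit 46) (nat_lit 5) (nat_lit 46) (nat_lit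 4) (nat_lit 379) (nat_lit 264) (nat_lit 257)) (XT.nd (nat_lit 78) (nat_lit 0) (nat_lit 0) (XT.lf (nat_lit 0) (nat_lit 3515128062) (nat_lit 152) (nat_lit 11409234505) (nat_lit 0) (nat_lit 241509720) (nat_lit 42) (nat_lit 5) (nat_lit 44) (nat_lit 4) (nat_lit 42) (nat_lit 4) (nat_lit 380) (nat_lit 264) (nat_lit 256)) (XT.lf (nat_lit 0) (nat_lit 8523606315) (nat_lit 152) (nat_lit 2042596542) (nat_lit 0) (nat_lit 4892571179) (nat_lit 42) (nat_lit 5) (nat_lit 44) (nat_lit 4) (nat_lit 42) (nat_lit 4) (nat_lit 381) (nat_lit 264) (nat_lit 255)))) (XT.nd (nat_lit 156) (nat_lit 152) (nat_lit 0) (XT.nd (nat_lit 78) (nat_lit 152) (nat_lit 0) (XT.lf (nat_lit 0) (nat_lit 7580828777) (nat_lit 152) (nat_lit 6079181628) (nat_lit 152) (nat_lit 2101139896) (nat_lit 40) (nat_lit 4) (nat_lit 42) (nat_lit 5) (nat_lit 42) (nat_lit 4) (nat_lit 382) (nat_lit 264) (nat_lit 254)) (XT.lf (nat_lit 0) (nat_lit 1287748218) (nat_lit 76)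 (nat_lit 1472197376) (nat_lit 152) (nat_lit 13313693078) (nat_lit 38) (nat_lit 5) (nat_lit 39) (nat_lit 5) (nat_lit 40) (nat_lit 4) (nat_lit 383) (nat_lit 264) (nat_lit 253))) (XT.nd (nat_lit 78) (nat_lit 152) (nat_lit 0) (XT.lf (nat_lit 0) (nat_lit 7744892780) (nat_lit 152) (nat_lit 5411323978) (nat_lit 0) (nat_lit 3238069153) (nat_lit 38) (nat_lit 5) (nat_lit 40) (nat_lit 4) (nat_lit 38) (nat_lit 4) (nat_lit 384) (nat_lit 264) (nat_lit 252)) (XT.lf (nat_lit 0) (nat_lit 4143014652) (nat_lit 152) (nat_lit 8698906043) (nat_lit 152) (nat_lit 3883771549) (nat_lit 36) (nat_lit 4) (nat_lit 38) (nat_lit 5) (nat_lit 38) (nat_lit 4) (nat_lit 385) (nat_lit 264) (nat_lit 251))))) (XT.nd (nat_lit 234) (nat_lit 304) (nat_lit 0) (XT.nd (nat_lit 78) (nat_lit 76) (nat_lit 0) (XT.lf (nat_lit 0) (nat_lit 968301916) (nat_lit 228) (nat_lit 3148812539) (nat_lit 76) (nat_lit 12950741090) (nat_lit 35) (nat_lit 5) (nat_lit 38)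 (nat_lit 5) (nat_lit 36) (nat_lit 4) (nat_lit 386) (nat_lit 264) (nat_lit 250)) (XT.nd (nat_lit 78) (nat_lit 0) (nat_lit 0) (XT.lf (nat_lit 0) (nat_lit 5867337766) (nat_lit 152) (nat_lit 10932733670) (nat_lit 0) (nat_lit 619689230) (nat_lit 34) (nat_lit 5) (nat_lit 36) (nat_lit 4) (nat_lit 34) (nat_lit 4) (nat_lit 387) (nat_lit 264) (nat_lit 249)) (XT.lf (nat_lit 0) (nat_lit 10897522484) (nat_lit 152) (nat_lit 1509245287) (nat_lit 0) (nat_lit 5375943737) (nat_lit 34) (nat_lit 5) (nat_lit 36) (nat_lit 4) (nat_lit 34) (nat_lit 4) (nat_lit 388) (nat_lit 264) (nat_lit 248)))) (XT.nd (nat_lit 156) (nat_lit 76) (nat_lit 0) (XT.nd (nat_lit 78) (nat_lit 76) (nat_lit 0) (XT.lf (nat_lit 0) (nat_lit 8198297704) (nat_lit 152) (nat_lit 7873008141) (nat_lit 152) (nat_lit 2085477734) (nat_lit 32) (nat_lit 4) (nat_lit 34) (nat_lit 5) (nat_lit 34) (nat_lit 4) (nat_lit 389) (nat_lit 264) (nat_lit 247)) (XT.lf (nat_lit 0)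 (nat_lit 2731870707) (nat_lit 228) (nat_lit 500038366) (nat_lit 76) (nat_lit 15311474609) (nat_lit 31) (nat_lit 5) (nat_lit 34) (nat_lit 5) (nat_lit 32) (nat_lit 4) (nat_lit 390) (nat_lit 264) (nat_lit 246))) (XT.nd (nat_lit 78) (nat_lit 0) (nat_lit 0) (XT.lf (nat_lit 0) (nat_lit 7672541185) (nat_lit 152) (nat_lit 9708300746) (nat_lit 0) (nat_lit 1559511232) (nat_lit 30) (nat_lit 5) (nat_lit 32) (nat_lit 4) (nat_lit 30) (nat_lit 4) (nat_lit 391) (nat_lit 264) (nat_lit 245)) (XT.lf (nat_lit 0) (nat_lit 12715352288) (nat_lit 152) (nat_lit 269246088) (nat_lit 0) (nat_lit 6366027729) (nat_lit 30) (nat_lit 5) (nat_lit 32) (nat_lit 4) (nat_lit 30) (nat_lit 4) (nat_lit 392) (nat_lit 264) (nat_lit 244))))))))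
noncomputable def xc29 : XT := (XT.nd (nat_lit 2028) (nat_lit 532) (nat_lit 0) (XT.nd (nat_lit 1014) (nat_lit 456) (nat_lit 0) (XT.nd (nat_lit 468) (nat_lit 304) (nat_lit 0) (XT.nd (nat_lit 234) (nat_lit 152) (nat_lit 0) (XT.nd (nat_lit 78) (nat_lit 152) (nat_lit 0) (XT.lf (nat_lit 0) (nat_lit 9488154521) (nat_lit 152) (nat_lit 8431743818) (nat_lit 152) (nat_lit 1853007020) (nat_lit 28) (nat_lit 4) (nat_lit 30) (nat_lit 5) (nat_lit 30) (nat_lit 4) (nat_lit 393) (nat_lit 264) (nat_lit 243)) (XT.nd (nat_lit 78) (nat_lit 76) (nat_lit 0) (XT.lf (nat_lit 0) (nat_lit 2934881346) (nat_lit 228) (nat_lit 843657992) (nat_lit 76) (nat_lit 16430775111) (nat_lit 27) (nat_lit 5) (nat_lit 30) (nat_lit 5) (nat_lit 28) (nat_lit 4) (nat_lit 394) (nat_lit 264) (nat_lit 242)) (XT.lf (nat_lit 0) (nat_lit 7846464614) (nat_lit 152) (nat_lit 11778138627) (nat_lit 0) (nat_lit 1033153774) (nat_lit 26) (nat_lit 5) (nat_lit 28) (nat_lit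 4) (nat_lit 26) (nat_lit 4) (nat_lit 395) (nat_lit 264) (nat_lit 241)))) (XT.nd (nat_lit 78) (nat_lit 152) (nat_lit 0) (XT.lf (nat_lit 0) (nat_lit 12873376081) (nat_lit 152) (nat_lit 2391012261) (nat_lit 0) (nat_lit 5856235438) (nat_lit 26) (nat_lit 5) (nat_lit 28) (nat_lit 4) (nat_lit 26) (nat_lit 4) (nat_lit 396) (nat_lit 264) (nat_lit 240)) (XT.nd (nat_lit 78) (nat_lit 76) (nat_lit 0) (XT.lf (nat_lit 0) (nat_lit 7277993811) (nat_lit 76) (nat_lit 10767300231) (nat_lit 76) (nat_lit 3552266575) (nat_lit 25) (nat_lit 4) (nat_lit 26) (nat_lit 5) (nat_lit 26) (nat_lit 4) (nat_lit 397) (nat_lit 264) (nat_lit 239)) (XT.lf (nat_lit 0) (nat_lit 1207245429) (nat_lit 152) (nat_lit 4956454571) (nat_lit 76) (nat_lit 15926283021) (nat_lit 24) (nat_lit 5) (nat_lit 26) (nat_lit 5) (nat_lit 25) (nat_lit 4) (nat_lit 398) (nat_lit 264) (nat_lit 238))))) (XT.nd (nat_lit 234) (nat_lit 152) (nat_lit 0) (XT.nd (nat_lit 78)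 (nat_lit 76) (nat_lit 0) (XT.lf (nat_lit 0) (nat_lit 4604483168) (nat_lit 76) (nat_lit 1404472056) (nat_lit 152) (nat_lit 16588052651) (nat_lit 23) (nat_lit 5) (nat_lit 24) (nat_lit 5) (nat_lit 25) (nat_lit 4) (nat_lit 399) (nat_lit 264) (nat_lit 237)) (XT.nd (nat_lit 78) (nat_lit 76) (nat_lit 0) (XT.lf (nat_lit 0) (nat_lit 10965646337) (nat_lit 152) (nat_lit 8735977530) (nat_lit 0) (nat_lit 3417300630) (nat_lit 23) (nat_lit 5) (nat_lit 25) (nat_lit 4) (nat_lit 23) (nat_lit 4) (nat_lit 400) (nat_lit 264) (nat_lit 236)) (XT.lf (nat_lit 0) (nat_lit 663352270) (nat_lit 76) (nat_lit 15356864802) (nat_lit 76) (nat_lit 7637814844) (nat_lit 22) (nat_lit 4) (nat_lit 23) (nat_lit 5) (nat_lit 23) (nat_lit 4) (nat_lit 401) (nat_lit 264) (nat_lit 235)))) (XT.nd (nat_lit 156) (nat_lit 76) (nat_lit 0) (XT.nd (nat_lit 78) (nat_lit 76) (nat_lit 0) (XT.lf (nat_lit 0) (nat_lit 10391101680) (nat_lit 76) (nat_lit 10853232130)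 (nat_lit 76) (nat_lit 2968449890) (nat_lit 22) (nat_lit 4) (nat_lit 23) (nat_lit 5) (nat_lit 23) (nat_lit 4) (nat_lit 402) (nat_lit 264) (nat_lit 234)) (XT.lf (nat_lit 0) (nat_lit 1736128130) (nat_lit 152) (nat_lit 4521347264) (nat_lit 76) (nat_lit 18528247972) (nat_lit 21) (nat_lit 5) (nat_lit 23) (nat_lit 5) (nat_lit 22) (nat_lit 4) (nat_lit 403) (nat_lit 264) (nat_lit 233))) (XT.nd (nat_lit 78) (nat_lit 0) (nat_lit 0) (XT.lf (nat_lit 0) (nat_lit 4999806102) (nat_lit 76) (nat_lit 1503500322) (nat_lit 152) (nat_lit 18872237001) (nat_lit 20) (nat_lit 5) (nat_lit 21) (nat_lit 5) (nat_lit 22) (nat_lit 4) (nat_lit 404) (nat_lit 264) (nat_lit 232)) (XT.lf (nat_lit 0) (nat_lit 11425470234) (nat_lit 152) (nat_lit 11242032450) (nat_lit 0) (nat_lit 3315203771) (nat_lit 20) (nat_lit 5) (nat_lit 22) (nat_lit 4) (nat_lit 20) (nat_lit 4) (nat_lit 405) (nat_lit 264) (nat_lit 231)))))) (XT.nd (nat_lit 468) (nat_lit 228)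 (nat_lit 0) (XT.nd (nat_lit 234) (nat_lit 152) (nat_lit 0) (XT.nd (nat_lit 78) (nat_lit 76) (nat_lit 0) (XT.lf (nat_lit 0) (nat_lit 16445374305) (nat_lit 152) (nat_lit 1972069346) (nat_lit 0) (nat_lit 8192145719) (nat_lit 20) (nat_lit 5) (nat_lit 22) (nat_lit 4) (nat_lit 20) (nat_lit 4) (nat_lit 406) (nat_lit 264) (nat_lit 230)) (XT.nd (nat_lit 78) (nat_lit 0) (nat_lit 0) (XT.lf (nat_lit 0) (nat_lit 7605107560) (nat_lit 76) (nat_lit 14020949783) (nat_lit 76) (nat_lit 5628923019) (nat_lit 19) (nat_lit 4) (nat_lit 20) (nat_lit 5) (nat_lit 20) (nat_lit 4) (nat_lit 407) (nat_lit 264) (nat_lit 229)) (XT.lf (nat_lit 0) (nat_lit 17391906622) (nat_lit 76) (nat_lit 9527942464) (nat_lit 76) (nat_lit 1001160189) (nat_lit 19) (nat_lit 4) (nat_lit 20) (nat_lit 5) (nat_lit 20) (nat_lit 4) (nat_lit 408) (nat_lit 264) (nat_lit 228)))) (XT.nd (nat_lit 78) (nat_lit 76) (nat_lit 0) (XT.lf (nat_lit 0) (nat_lit 3630940238)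 (nat_lit 152) (nat_lit 1286804186) (nat_lit 76) (nat_lit 23690025751) (nat_lit 18) (nat_lit 5) (nat_lit 20) (nat_lit 5) (nat_lit 19) (nat_lit 4) (nat_lit 409) (nat_lit 264) (nat_lit 227)) (XT.nd (nat_lit 78) (nat_lit 0) (nat_lit 0) (XT.lf (nat_lit 0) (nat_lit 8271738759) (nat_lit 76) (nat_lit 130414749) (nat_lit 152) (nat_lit 20912081112) (nat_lit 17) (nat_lit 5) (nat_lit 18) (nat_lit 5) (nat_lit 19) (nat_lit 4) (nat_lit 410) (nat_lit 264) (nat_lit 226)) (XT.lf (nat_lit 0) (nat_lit 13316677409) (nat_lit 152) (nat_lit 12057037330) (nat_lit 0) (nat_lit 4668179110) (nat_lit 17) (nat_lit 5) (nat_lit 19) (nat_lit 4) (nat_lit 17) (nat_lit 4) (nat_lit 411) (nat_lit 264) (nat_lit 225))))) (XT.nd (nat_lit 234) (nat_lit 152) (nat_lit 0) (XT.nd (nat_lit 78) (nat_lit 76) (nat_lit 0) (XT.lf (nat_lit 0) (nat_lit 18322555152) (nat_lit 152) (nat_lit 2912700492) (nat_lit 0) (nat_lit 9557815565) (nat_lit 17) (nat_lit 5)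 (nat_lit 19) (nat_lit 4) (nat_lit 17) (nat_lit 4) (nat_lit 412) (nat_lit 264) (nat_lit 224)) (XT.nd (nat_lit 78) (nat_lit 0) (nat_lit 0) (XT.lf (nat_lit 0) (nat_lit 6527126216) (nat_lit 76) (nat_lit 16958523695) (nat_lit 76) (nat_lit 8080928488) (nat_lit 16) (nat_lit 4) (nat_lit 17) (nat_lit 5) (nat_lit 17) (nat_lit 4) (nat_lit 413) (nat_lit 264) (nat_lit 223)) (XT.lf (nat_lit 0) (nat_lit 16204688509) (nat_lit 76) (nat_lit 12573270982) (nat_lit 76) (nat_lit 3586107212) (nat_lit 16) (nat_lit 4) (nat_lit 17) (nat_lit 5) (nat_lit 17) (nat_lit 4) (nat_lit 414) (nat_lit 264) (nat_lit 222)))) (XT.nd (nat_lit 156) (nat_lit 0) (nat_lit 0) (XT.nd (nat_lit 78) (nat_lit 76) (nat_lit 0) (XT.lf (nat_lit 0) (nat_lit 969174250) (nat_lit 152) (nat_lit 7126117287) (nat_lit 76) (nat_lit 25091513049) (nat_lit 15) (nat_lit 5) (nat_lit 17) (nat_lit 5) (nat_lit 16) (nat_lit 4) (nat_lit 415) (nat_lit 264) (nat_lit 221)) (XT.lf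 (nat_lit 0) (nat_lit 2083105714) (nat_lit 76) (nat_lit 3473507886) (nat_lit 152) (nat_lit 28477523614) (nat_lit 14) (nat_lit 5) (nat_lit 15) (nat_lit 5) (nat_lit 16) (nat_lit 4) (nat_lit 416) (nat_lit 264) (nat_lit 220))) (XT.nd (nat_lit 78) (nat_lit 0) (nat_lit 0) (XT.lf (nat_lit 0) (nat_lit 10314390888) (nat_lit 152) (nat_lit 23303433144) (nat_lit 0) (nat_lit 1288089285) (nat_lit 14) (nat_lit 5) (nat_lit 16) (nat_lit 4) (nat_lit 14) (nat_lit 4) (nat_lit 417) (nat_lit 264) (nat_lit 219)) (XT.lf (nat_lit 0) (nat_lit 15198488508) (nat_lit 152) (nat_lit 14528179283) (nat_lit 0) (nat_lit 6077672100) (nat_lit 14) (nat_lit 5) (nat_lit 16) (nat_lit 4) (nat_lit 14) (nat_lit 4) (nat_lit 418) (nat_lit 264) (nat_lit 218))))))) (XT.nd (nat_lit 1014) (nat_lit 228) (nat_lit 0) (XT.nd (nat_lit 468) (nat_lit 76) (nat_lit 0) (XT.nd (nat_lit 234) (nat_lit 152) (nat_lit 0) (XT.nd (nat_lit 78) (nat_lit 76) (nat_lit 0) (XT.lf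 (nat_lit 0) (nat_lit 20179784635) (nat_lit 152) (nat_lit 5584212737) (nat_lit 0) (nat_lit 10967206280) (nat_lit 14) (nat_lit 5) (nat_lit 16) (nat_lit 4) (nat_lit 14) (nat_lit 4) (nat_lit 419) (nat_lit 264) (nat_lit 217)) (XT.nd (nat_lit 78) (nat_lit 0) (nat_lit 0) (XT.lf (nat_lit 0) (nat_lit 3606660547) (nat_lit 76) (nat_lit 21690640736) (nat_lit 76) (nat_lit 12388973113) (nat_lit 13) (nat_lit 4) (nat_lit 14) (nat_lit 5) (nat_lit 14) (nat_lit 4) (nat_lit 420) (nat_lit 264) (nat_lit 216)) (XT.lf (nat_lit 0) (nat_lit 13096839637) (nat_lit 76) (nat_lit 17480526695) (nat_lit 76) (nat_lit 8092364636) (nat_lit 13) (nat_lit 4) (nat_lit 14) (nat_lit 5) (nat_lit 14) (nat_lit 4) (nat_lit 421) (nat_lit 264) (nat_lit 215)))) (XT.nd (nat_lit 78) (nat_lit 152) (nat_lit 0) (XT.lf (nat_lit 0) (nat_lit 22783480137) (nat_lit 76) (nat_lit 13186366105) (nat_lit 76) (nat_lit 3714228866) (nat_lit 13) (nat_lit 4) (nat_lit 14)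 (nat_lit 5) (nat_lit 14) (nat_lit 4) (nat_lit 422) (nat_lit 264) (nat_lit 214)) (XT.nd (nat_lit 78) (nat_lit 76) (nat_lit 0) (XT.lf (nat_lit 0) (nat_lit 734638993) (nat_lit 152) (nat_lit 8062349383) (nat_lit 76) (nat_lit 31932988696) (nat_lit 12) (nat_lit 5) (nat_lit 14) (nat_lit 5) (nat_lit 13) (nat_lit 4) (nat_lit 423) (nat_lit 264) (nat_lit 213)) (XT.lf (nat_lit 0) (nat_lit 938529507) (nat_lit 76) (nat_lit 4269032417) (nat_lit 152) (nat_lit 36599637592) (nat_lit 11) (nat_lit 5) (nat_lit 12) (nat_lit 5) (nat_lit 13) (nat_lit 4) (nat_lit 424) (nat_lit 264) (nat_lit 212))))) (XT.nd (nat_lit 234) (nat_lit 76) (nat_lit 0) (XT.nd (nat_lit 78) (nat_lit 0) (nat_lit 0) (XT.lf (nat_lit 0) (nat_lit 9856998205) (nat_lit 152) (nat_lit 32628340694) (nat_lit 0) (nat_lit 430133752) (nat_lit 11) (nat_lit 5) (nat_lit 13) (nat_lit 4) (nat_lit 11) (nat_lit 4) (nat_lit 425) (nat_lit 264) (nat_lit 211)) (XT.nd (nat_lit 78)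 (nat_lit 0) (nat_lit 0) (XT.lf (nat_lit 0) (nat_lit 14645768684) (nat_lit 152) (nat_lit 24264766938) (nat_lit 0) (nat_lit 5146466502) (nat_lit 11) (nat_lit 5) (nat_lit 13) (nat_lit 4) (nat_lit 11) (nat_lit 4) (nat_lit 426) (nat_lit 264) (nat_lit 210)) (XT.lf (nat_lit 0) (nat_lit 19537021171) (nat_lit 152) (nat_lit 15729604213) (nat_lit 0) (nat_lit 9967391098) (nat_lit 11) (nat_lit 5) (nat_lit 13) (nat_lit 4) (nat_lit 11) (nat_lit 4) (nat_lit 427) (nat_lit 264) (nat_lit 209)))) (XT.nd (nat_lit 156) (nat_lit 0) (nat_lit 0) (XT.nd (nat_lit 78) (nat_lit 76) (nat_lit 0) (XT.lf (nat_lit 0) (nat_lit 24535029577) (nat_lit 152) (nat_lit 7015394611) (nat_lit 0) (nat_lit 14897119998) (nat_lit 11) (nat_lit 5) (nat_lit 13) (nat_lit 4) (nat_lit 11) (nat_lit 4) (nat_lit 428) (nat_lit 264) (nat_lit 208)) (XT.lf (nat_lit 0) (nat_lit 1923000899) (nat_lit 76) (nat_lit 27739645255) (nat_lit 76) (nat_lit 18035444894) (nat_lit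 10) (nat_lit 4) (nat_lit 11) (nat_lit 5) (nat_lit 11) (nat_lit 4) (nat_lit 429) (nat_lit 264) (nat_lit 207))) (XT.nd (nat_lit 78) (nat_lit 0) (nat_lit 0) (XT.lf (nat_lit 0) (nat_lit 11199324926) (nat_lit 76) (nat_lit 23777209847) (nat_lit 76) (nat_lit 14008649503) (nat_lit 10) (nat_lit 4) (nat_lit 11) (nat_lit 5) (nat_lit 11) (nat_lit 4) (nat_lit 430) (nat_lit 264) (nat_lit 206)) (XT.lf (nat_lit 0) (nat_lit 20682062886) (nat_lit 76) (nat_lit 19730497372) (nat_lit 76) (nat_lit 9899451608) (nat_lit 10) (nat_lit 4) (nat_lit 11) (nat_lit 5) (nat_lit 11) (nat_lit 4) (nat_lit 431) (nat_lit 264) (nat_lit 205)))))) (XT.nd (nat_lit 546) (nat_lit 76) (nat_lit 0) (XT.nd (nat_lit 234) (nat_lit 76) (nat_lit 0) (XT.nd (nat_lit 78) (nat_lit 76) (nat_lit 0) (XT.lf (nat_lit 0) (nat_lit 30379500665) (nat_lit 76) (nat_lit 15595971868) (nat_lit 76) (nat_lit 5704260647) (nat_lit 10) (nat_lit 4) (nat_lit 11) (nat_lit 5) (nat_lit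 11) (nat_lit 4) (nat_lit 432) (nat_lit 264) (nat_lit 204)) (XT.nd (nat_lit 78) (nat_lit 76) (nat_lit 0) (XT.lf (nat_lit 0) (nat_lit 40300111755) (nat_lit 76) (nat_lit 11370020643) (nat_lit 76) (nat_lit 1419410920) (nat_lit 10) (nat_lit 4) (nat_lit 11) (nat_lit 5) (nat_lit 11) (nat_lit 4) (nat_lit 433) (nat_lit 264) (nat_lit 203)) (XT.lf (nat_lit 0) (nat_lit 2901103958) (nat_lit 152) (nat_lit 4118551698) (nat_lit 76) (nat_lit 47522165228) (nat_lit 9) (nat_lit 5) (nat_lit 11) (nat_lit 5) (nat_lit 10) (nat_lit 4) (nat_lit 434) (nat_lit 264) (nat_lit 202)))) (XT.nd (nat_lit 156) (nat_lit 0) (nat_lit 0) (XT.nd (nat_lit 78) (nat_lit 0) (nat_lit 0) (XT.lf (nat_lit 0) (nat_lit 4828085091) (nat_lit 76) (nat_lit 2507577624) (nat_lit 152) (nat_lit 48701196475) (nat_lit 8) (nat_lit 5) (nat_lit 9) (nat_lit 5) (nat_lit 10) (nat_lit 4) (nat_lit 435) (nat_lit 264) (nat_lit 201)) (XT.lf (nat_lit 0) (nat_lit 11932439708)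 (nat_lit 152) (nat_lit 43533531094) (nat_lit 0) (nat_lit 2109905054) (nat_lit 8) (nat_lit 5) (nat_lit 10) (nat_lit 4) (nat_lit 8) (nat_lit 4) (nat_lit 436) (nat_lit 264) (nat_lit 200))) (XT.nd (nat_lit 78) (nat_lit 0) (nat_lit 0) (XT.lf (nat_lit 0) (nat_lit 16659530747) (nat_lit 152) (nat_lit 35715572803) (nat_lit 0) (nat_lit 6786189728) (nat_lit 8) (nat_lit 5) (nat_lit 10) (nat_lit 4) (nat_lit 8) (nat_lit 4) (nat_lit 437) (nat_lit 264) (nat_lit 199)) (XT.lf (nat_lit 0) (nat_lit 21496961930) (nat_lit 152) (nat_lit 27723963632) (nat_lit 0) (nat_lit 11574294343) (nat_lit 8) (nat_lit 5) (nat_lit 10) (nat_lit 4) (nat_lit 8) (nat_lit 4) (nat_lit 438) (nat_lit 264) (nat_lit 198))))) (XT.nd (nat_lit 234) (nat_lit 76) (nat_lit 0) (XT.nd (nat_lit 78) (nat_lit 0) (nat_lit 0) (XT.lf (nat_lit 0) (nat_lit 26448960139) (nat_lit 152) (nat_lit 19551720620) (nat_lit 0) (nat_lit 16478402680) (nat_lit 8) (nat_lit 5) (nat_lit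 10) (nat_lit 4) (nat_lit 8) (nat_lit 4) (nat_lit 439) (nat_lit 264) (nat_lit 197)) (XT.nd (nat_lit 78) (nat_lit 0) (nat_lit 0) (XT.lf (nat_lit 0) (nat_lit 31519852361) (nat_lit 152) (nat_lit 11191702973) (nat_lit 0) (nat_lit 21502799881) (nat_lit 8) (nat_lit 5) (nat_lit 10) (nat_lit 4) (nat_lit 8) (nat_lit 4) (nat_lit 440) (nat_lit 264) (nat_lit 196)) (XT.lf (nat_lit 0) (nat_lit 36714069474) (nat_lit 152) (nat_lit 2636605821) (nat_lit 0) (nat_lit 26651876197) (nat_lit 8) (nat_lit 5) (nat_lit 10) (nat_lit 4) (nat_lit 8) (nat_lit 4) (nat_lit 441) (nat_lit 264) (nat_lit 195)))) (XT.nd (nat_lit 156) (nat_lit 0) (nat_lit 0) (XT.nd (nat_lit 78) (nat_lit 0) (nat_lit 0) (XT.lf (nat_lit 0) (nat_lit 6242866984) (nat_lit 76) (nat_lit 35853293387) (nat_lit 76) (nat_lit 25747274093) (nat_lit 7) (nat_lit 4) (nat_lit 8) (nat_lit 5) (nat_lit 8) (nat_lit 4) (nat_lit 442) (nat_lit 264) (nat_lit 194)) (XT.lf (nat_lit 0) (nat_lit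 15389204099) (nat_lit 76) (nat_lit 32249470988) (nat_lit 76) (nat_lit 22100902163) (nat_lit 7) (nat_lit 4) (nat_lit 8) (nat_lit 5) (nat_lit 8) (nat_lit 4) (nat_lit 443) (nat_lit 264) (nat_lit 193))) (XT.nd (nat_lit 78) (nat_lit 0) (nat_lit 0) (XT.lf (nat_lit 0) (nat_lit 24757923844) (nat_lit 76) (nat_lit 28562683677) (nat_lit 76) (nat_lit 18372804628) (nat_lit 7) (nat_lit 4) (nat_lit 8) (nat_lit 5) (nat_lit 8) (nat_lit 4) (nat_lit 444) (nat_lit 264) (nat_lit 192)) (XT.lf (nat_lit 0) (nat_lit 34357212478) (nat_lit 76) (nat_lit 24789709989) (nat_lit 76) (nat_lit 14559723927) (nat_lit 7) (nat_lit 4) (nat_lit 8) (nat_lit 5) (nat_lit 8) (nat_lit 4) (nat_lit 445) (nat_lit 264) (nat_lit 191))))))))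
noncomputable def xc30 : XT := (XT.nd (nat_lit 42588) (nat_lit 0) (nat_lit 684) (XT.nd (nat_lit 41574) (nat_lit 0) (nat_lit 1976) (XT.nd (nat_lit 41028) (nat_lit 0) (nat_lit 3116) (XT.nd (nat_lit 234) (nat_lit 152) (nat_lit 0) (XT.nd (nat_lit 78) (nat_lit 0) (nat_lit 0) (XT.lf (nat_lit 0) (nat_lit 44195457730) (nat_lit 76) (nat_lit 20927253152) (nat_lit 76) (nat_lit 10658328241) (nat_lit 7) (nat_lit 4) (nat_lit 8) (nat_lit 5) (nat_lit 8) (nat_lit 4) (nat_lit 446) (nat_lit 264) (nat_lit 190)) (XT.nd (nat_lit 78) (nat_lit 0) (nat_lit 0) (XT.lf (nat_lit 0) (nat_lit 54281256124) (nat_lit 76) (nat_lit 16971938202) (nat_lit 76) (nat_lit 6665208584) (nat_lit 7) (nat_lit 4) (nat_lit 8) (nat_lit 5) (nat_lit 8) (nat_lit 4) (nat_lit 447) (nat_lit 264) (nat_lit 189)) (XT.lf (nat_lit 0) (nat_lit 64623420494) (nat_lit 76) (nat_lit 12920309039) (nat_lit 76) (nat_lit 2576875823) (nat_lit 7) (nat_lit 4) (nat_lit 8) (nat_lit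 5) (nat_lit 8) (nat_lit 4) (nat_lit 448) (nat_lit 264) (nat_lit 188)))) (XT.nd (nat_lit 78) (nat_lit 76) (nat_lit 0) (XT.lf (nat_lit 0) (nat_lit 1578820744) (nat_lit 152) (nat_lit 7174061668) (nat_lit 76) (nat_lit 73636223944) (nat_lit 6) (nat_lit 5) (nat_lit 8) (nat_lit 5) (nat_lit 7) (nat_lit 4) (nat_lit 449) (nat_lit 264) (nat_lit 187)) (XT.nd (nat_lit 40638) (nat_lit 0) (nat_lit 4104) (XT.lf (nat_lit 0) (nat_lit 1355686656) (nat_lit 76) (nat_lit 4442023243) (nat_lit 152) (nat_lit 78927479352) (nat_lit 5) (nat_lit 5) (nat_lit 6) (nat_lit 5) (nat_lit 7) (nat_lit 4) (nat_lit 450) (nat_lit 264) (nat_lit 186)) (XT.lf (nat_lit 0) (nat_lit 2837284576) (nat_lit 152) (nat_lit 1750092769) (nat_lit 152) (nat_lit 1750092769) (nat_lit 59) (nat_lit 4) (nat_lit 61) (nat_lit 5) (nat_lit 61) (nat_lit 4) (nat_lit 370) (nat_lit 265) (nat_lit 265))))) (XT.nd (nat_lit 234) (nat_lit 608) (nat_lit 0) (XT.nd (nat_lit 78) (nat_lit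 152) (nat_lit 0) (XT.lf (nat_lit 0) (nat_lit 1334823718) (nat_lit 228) (nat_lit 10733035791) (nat_lit 0) (nat_lit 825232834) (nat_lit 56) (nat_lit 5) (nat_lit 59) (nat_lit 4) (nat_lit 56) (nat_lit 4) (nat_lit 371) (nat_lit 265) (nat_lit 264)) (XT.nd (nat_lit 78) (nat_lit 152) (nat_lit 0) (XT.lf (nat_lit 0) (nat_lit 6244294239) (nat_lit 228) (nat_lit 1632532469) (nat_lit 0) (nat_lit 5239954924) (nat_lit 56) (nat_lit 5) (nat_lit 59) (nat_lit 4) (nat_lit 56) (nat_lit 4) (nat_lit 372) (nat_lit 265) (nat_lit 263)) (XT.lf (nat_lit 0) (nat_lit 7711215463) (nat_lit 152) (nat_lit 3560770008) (nat_lit 152) (nat_lit 2076092409) (nat_lit 54) (nat_lit 4) (nat_lit 56) (nat_lit 5) (nat_lit 56) (nat_lit 4) (nat_lit 373) (nat_lit 265) (nat_lit 262)))) (XT.nd (nat_lit 156) (nat_lit 380) (nat_lit 0) (XT.nd (nat_lit 78) (nat_lit 0) (nat_lit 0) (XT.lf (nat_lit 0) (nat_lit 2765610819) (nat_lit 228) (nat_lit 9949768632) (nat_lit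 0) (nat_lit 871411356) (nat_lit 51) (nat_lit 5) (nat_lit 54) (nat_lit 4) (nat_lit 51) (nat_lit 4) (nat_lit 374) (nat_lit 265) (nat_lit 261)) (XT.lf (nat_lit 0) (nat_lit 7701185210) (nat_lit 228) (nat_lit 763766960) (nat_lit 0) (nat_lit 5367408175) (nat_lit 51) (nat_lit 5) (nat_lit 54) (nat_lit 4) (nat_lit 51) (nat_lit 4) (nat_lit 375) (nat_lit 265) (nat_lit 260))) (XT.nd (nat_lit 78) (nat_lit 228) (nat_lit 0) (XT.lf (nat_lit 0) (nat_lit 8691585066) (nat_lit 152) (nat_lit 4077380390) (nat_lit 152) (nat_lit 1316829012) (nat_lit 49) (nat_lit 4) (nat_lit 51) (nat_lit 5) (nat_lit 51) (nat_lit 4) (nat_lit 376) (nat_lit 265) (nat_lit 259)) (XT.lf (nat_lit 0) (nat_lit 3521918679) (nat_lit 228) (nat_lit 10385855973) (nat_lit 0) (nat_lit 439495960) (nat_lit 46) (nat_lit 5) (nat_lit 49) (nat_lit 4) (nat_lit 46) (nat_lit 4) (nat_lit 377) (nat_lit 265) (nat_lit 258)))))) (XT.nd (nat_lit 468) (nat_lit 532) (nat_lit 0)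 (XT.nd (nat_lit 234) (nat_lit 304) (nat_lit 0) (XT.nd (nat_lit 78) (nat_lit 304) (nat_lit 0) (XT.lf (nat_lit 0) (nat_lit 8476039058) (nat_lit 228) (nat_lit 1137222990) (nat_lit 0) (nat_lit 5003057359) (nat_lit 46) (nat_lit 5) (nat_lit 49) (nat_lit 4) (nat_lit 46) (nat_lit 4) (nat_lit 378) (nat_lit 265) (nat_lit 257)) (XT.nd (nat_lit 78) (nat_lit 152) (nat_lit 0) (XT.lf (nat_lit 0) (nat_lit 8380953159) (nat_lit 152) (nat_lit 5182564445) (nat_lit 152) (nat_lit 1330399269) (nat_lit 44) (nat_lit 4) (nat_lit 46) (nat_lit 5) (nat_lit 46) (nat_lit 4) (nat_lit 379) (nat_lit 265) (nat_lit 256)) (XT.lf (nat_lit 0) (nat_lit 2878002622) (nat_lit 76) (nat_lit 618700380) (nat_lit 152) (nat_lit 11683803249) (nat_lit 42) (nat_lit 5) (nat_lit 43) (nat_lit 5) (nat_lit 44) (nat_lit 4) (nat_lit 380) (nat_lit 265) (nat_lit 255)))) (XT.nd (nat_lit 78) (nat_lit 304) (nat_lit 0) (XT.lf (nat_lit 0) (nat_lit 8452337340) (nat_lit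 152) (nat_lit 3014716890) (nat_lit 0) (nat_lit 4007947761) (nat_lit 42) (nat_lit 5) (nat_lit 44) (nat_lit 4) (nat_lit 42) (nat_lit 4) (nat_lit 381) (nat_lit 265) (nat_lit 254)) (XT.nd (nat_lit 78) (nat_lit 152) (nat_lit 0) (XT.lf (nat_lit 0) (nat_lit 6505394136) (nat_lit 152) (nat_lit 7027478891) (nat_lit 152) (nat_lit 2246189704) (nat_lit 40) (nat_lit 4) (nat_lit 42) (nat_lit 5) (nat_lit 42) (nat_lit 4) (nat_lit 382) (nat_lit 265) (nat_lit 253)) (XT.lf (nat_lit 0) (nat_lit 89988995) (nat_lit 76) (nat_lit 2470782028) (nat_lit 152) (nat_lit 13532538503) (nat_lit 38) (nat_lit 5) (nat_lit 39) (nat_lit 5) (nat_lit 40) (nat_lit 4) (nat_lit 383) (nat_lit 265) (nat_lit 252))))) (XT.nd (nat_lit 234) (nat_lit 304) (nat_lit 0) (XT.nd (nat_lit 78) (nat_lit 228) (nat_lit 0) (XT.lf (nat_lit 0) (nat_lit 7490863494) (nat_lit 152) (nat_lit 6701782520) (nat_lit 0) (nat_lit 2222964100) (nat_lit 38) (nat_lit 5) (nat_lit 40)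 (nat_lit 4) (nat_lit 38) (nat_lit 4) (nat_lit 384) (nat_lit 265) (nat_lit 251)) (XT.nd (nat_lit 78) (nat_lit 76) (nat_lit 0) (XT.lf (nat_lit 0) (nat_lit 2745056055) (nat_lit 152) (nat_lit 9785459738) (nat_lit 152) (nat_lit 4218229407) (nat_lit 36) (nat_lit 4) (nat_lit 38) (nat_lit 5) (nat_lit 38) (nat_lit 4) (nat_lit 385) (nat_lit 265) (nat_lit 250)) (XT.lf (nat_lit 0) (nat_lit 596512080) (nat_lit 228) (nat_lit 4646923369) (nat_lit 76) (nat_lit 11848892311) (nat_lit 35) (nat_lit 5) (nat_lit 38) (nat_lit 5) (nat_lit 36) (nat_lit 4) (nat_lit 386) (nat_lit 265) (nat_lit 249)))) (XT.nd (nat_lit 156) (nat_lit 228) (nat_lit 0) (XT.nd (nat_lit 78) (nat_lit 0) (nat_lit 0) (XT.lf (nat_lit 0) (nat_lit 4885831574) (nat_lit 76) (nat_lit 545608121) (nat_lit 152) (nat_lit 12014723279) (nat_lit 34) (nat_lit 5) (nat_lit 35) (nat_lit 5) (nat_lit 36) (nat_lit 4) (nat_lit 387) (nat_lit 265) (nat_lit 248)) (XT.lf (nat_lit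 0) (nat_lit 10413959030) (nat_lit 152) (nat_lit 3209740348) (nat_lit 0) (nat_lit 4186851049) (nat_lit 34) (nat_lit 5) (nat_lit 36) (nat_lit 4) (nat_lit 34) (nat_lit 4) (nat_lit 388) (nat_lit 265) (nat_lit 247))) (XT.nd (nat_lit 78) (nat_lit 76) (nat_lit 0) (XT.lf (nat_lit 0) (nat_lit 6386583506) (nat_lit 152) (nat_lit 9142558468) (nat_lit 152) (nat_lit 2657244991) (nat_lit 32) (nat_lit 4) (nat_lit 34) (nat_lit 5) (nat_lit 34) (nat_lit 4) (nat_lit 389) (nat_lit 265) (nat_lit 246)) (XT.lf (nat_lit 0) (nat_lit 2130143831) (nat_lit 228) (nat_lit 2411806446) (nat_lit 76) (nat_lit 14032441267) (nat_lit 31) (nat_lit 5) (nat_lit 34) (nat_lit 5) (nat_lit 32) (nat_lit 4) (nat_lit 390) (nat_lit 265) (nat_lit 245))))))) (XT.nd (nat_lit 1014) (nat_lit 532) (nat_lit 0) (XT.nd (nat_lit 468) (nat_lit 380) (nat_lit 0) (XT.nd (nat_lit 234) (nat_lit 152) (nat_lit 0) (XT.nd (nat_lit 78) (nat_lit 152) (nat_lit 0) (XT.lf (nat_lit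 0) (nat_lit 6998318615) (nat_lit 152) (nat_lit 11753003476) (nat_lit 0) (nat_lit 222219713) (nat_lit 30) (nat_lit 5) (nat_lit 32) (nat_lit 4) (nat_lit 30) (nat_lit 4) (nat_lit 391) (nat_lit 265) (nat_lit 244)) (XT.nd (nat_lit 78) (nat_lit 152) (nat_lit 0) (XT.lf (nat_lit 0) (nat_lit 12001348767) (nat_lit 152) (nat_lit 2387827516) (nat_lit 0) (nat_lit 4995837626) (nat_lit 30) (nat_lit 5) (nat_lit 32) (nat_lit 4) (nat_lit 30) (nat_lit 4) (nat_lit 392) (nat_lit 265) (nat_lit 243)) (XT.lf (nat_lit 0) (nat_lit 7254254772) (nat_lit 152) (nat_lit 9891544153) (nat_lit 152) (nat_lit 2663302683) (nat_lit 28) (nat_lit 4) (nat_lit 30) (nat_lit 5) (nat_lit 30) (nat_lit 4) (nat_lit 393) (nat_lit 265) (nat_lit 242)))) (XT.nd (nat_lit 78) (nat_lit 76) (nat_lit 0) (XT.lf (nat_lit 0) (nat_lit 2101834064) (nat_lit 228) (nat_lit 3177761356) (nat_lit 76) (nat_lit 14967311102) (nat_lit 27) (nat_lit 5) (nat_lit 30) (nat_lit 5)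 (nat_lit 28) (nat_lit 4) (nat_lit 394) (nat_lit 265) (nat_lit 241)) (XT.nd (nat_lit 78) (nat_lit 0) (nat_lit 0) (XT.lf (nat_lit 0) (nat_lit 6438402082) (nat_lit 76) (nat_lit 503879339) (nat_lit 152) (nat_lit 13755206838) (nat_lit 26) (nat_lit 5) (nat_lit 27) (nat_lit 5) (nat_lit 28) (nat_lit 4) (nat_lit 395) (nat_lit 265) (nat_lit 240)) (XT.lf (nat_lit 0) (nat_lit 11927028417) (nat_lit 152) (nat_lit 4936945751) (nat_lit 0) (nat_lit 4297650739) (nat_lit 26) (nat_lit 5) (nat_lit 28) (nat_lit 4) (nat_lit 26) (nat_lit 4) (nat_lit 396) (nat_lit 265) (nat_lit 239))))) (XT.nd (nat_lit 234) (nat_lit 152) (nat_lit 0) (XT.nd (nat_lit 78) (nat_lit 152) (nat_lit 0) (XT.lf (nat_lit 0) (nat_lit 4612246321) (nat_lit 76) (nat_lit 12424841401) (nat_lit 76) (nat_lit 4603334584) (nat_lit 25) (nat_lit 4) (nat_lit 26) (nat_lit 5) (nat_lit 26) (nat_lit 4) (nat_lit 397) (nat_lit 265) (nat_lit 238)) (XT.nd (nat_lit 78) (nat_lit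 76) (nat_lit 0) (XT.lf (nat_lit 0) (nat_lit 140504470) (nat_lit 152) (nat_lit 7722815886) (nat_lit 76) (nat_lit 14270917480) (nat_lit 24) (nat_lit 5) (nat_lit 26) (nat_lit 5) (nat_lit 25) (nat_lit 4) (nat_lit 398) (nat_lit 265) (nat_lit 237)) (XT.lf (nat_lit 0) (nat_lit 1715875447) (nat_lit 76) (nat_lit 3163442556) (nat_lit 152) (nat_lit 17763835970) (nat_lit 23) (nat_lit 5) (nat_lit 24) (nat_lit 5) (nat_lit 25) (nat_lit 4) (nat_lit 399) (nat_lit 265) (nat_lit 236)))) (XT.nd (nat_lit 156) (nat_lit 152) (nat_lit 0) (XT.nd (nat_lit 78) (nat_lit 0) (nat_lit 0) (XT.lf (nat_lit 0) (nat_lit 9784074548) (nat_lit 152) (nat_lit 11719809512) (nat_lit 0) (nat_lit 1662748840) (nat_lit 23) (nat_lit 5) (nat_lit 25) (nat_lit 4) (nat_lit 23) (nat_lit 4) (nat_lit 400) (nat_lit 265) (nat_lit 235)) (XT.lf (nat_lit 0) (nat_lit 14798262650) (nat_lit 152) (nat_lit 2397488630) (nat_lit 0) (nat_lit 6511204660) (nat_lit 23) (nat_lit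 5) (nat_lit 25) (nat_lit 4) (nat_lit 23) (nat_lit 4) (nat_lit 401) (nat_lit 265) (nat_lit 234))) (XT.nd (nat_lit 78) (nat_lit 76) (nat_lit 0) (XT.lf (nat_lit 0) (nat_lit 7219109611) (nat_lit 76) (nat_lit 12746139581) (nat_lit 76) (nat_lit 4298176461) (nat_lit 22) (nat_lit 4) (nat_lit 23) (nat_lit 5) (nat_lit 23) (nat_lit 4) (nat_lit 402) (nat_lit 265) (nat_lit 233)) (XT.lf (nat_lit 0) (nat_lit 399376231) (nat_lit 152) (nat_lit 7793447941) (nat_lit 76) (nat_lit 16644917595) (nat_lit 21) (nat_lit 5) (nat_lit 23) (nat_lit 5) (nat_lit 22) (nat_lit 4) (nat_lit 403) (nat_lit 265) (nat_lit 232)))))) (XT.nd (nat_lit 546) (nat_lit 228) (nat_lit 0) (XT.nd (nat_lit 234) (nat_lit 228) (nat_lit 0) (XT.nd (nat_lit 78) (nat_lit 0) (nat_lit 0) (XT.lf (nat_lit 0) (nat_lit 1600945687) (nat_lit 76) (nat_lit 3500924211) (nat_lit 152) (nat_lit 20327636150) (nat_lit 20) (nat_lit 5) (nat_lit 21) (nat_lit 5) (nat_lit 22) (nat_lit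 4) (nat_lit 404) (nat_lit 265) (nat_lit 231)) (XT.nd (nat_lit 78) (nat_lit 0) (nat_lit 0) (XT.lf (nat_lit 0) (nat_lit 9972906747) (nat_lit 152) (nat_lit 14736180531) (nat_lit 0) (nat_lit 1329119181) (nat_lit 20) (nat_lit 5) (nat_lit 22) (nat_lit 4) (nat_lit 20) (nat_lit 4) (nat_lit 405) (nat_lit 265) (nat_lit 230)) (XT.lf (nat_lit 0) (nat_lit 14961814216) (nat_lit 152) (nat_lit 5524980054) (nat_lit 0) (nat_lit 6179228472) (nat_lit 20) (nat_lit 5) (nat_lit 22) (nat_lit 4) (nat_lit 20) (nat_lit 4) (nat_lit 406) (nat_lit 265) (nat_lit 229)))) (XT.nd (nat_lit 156) (nat_lit 152) (nat_lit 0) (XT.nd (nat_lit 78) (nat_lit 0) (nat_lit 0) (XT.lf (nat_lit 0) (nat_lit 3923300440) (nat_lit 76) (nat_lit 16153711243) (nat_lit 76) (nat_lit 7236369987) (nat_lit 19) (nat_lit 4) (nat_lit 20) (nat_lit 5) (nat_lit 20) (nat_lit 4) (nat_lit 407) (nat_lit 265) (nat_lit 228)) (XT.lf (nat_lit 0) (nat_lit 13653607734) (nat_lit 76)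 (nat_lit 11687435390) (nat_lit 76) (nat_lit 2639263540) (nat_lit 19) (nat_lit 4) (nat_lit 20) (nat_lit 5) (nat_lit 20) (nat_lit 4) (nat_lit 408) (nat_lit 265) (nat_lit 227))) (XT.nd (nat_lit 78) (nat_lit 76) (nat_lit 0) (XT.lf (nat_lit 0) (nat_lit 1995619497) (nat_lit 152) (nat_lit 5124084265) (nat_lit 76) (nat_lit 21548714758) (nat_lit 18) (nat_lit 5) (nat_lit 20) (nat_lit 5) (nat_lit 19) (nat_lit 4) (nat_lit 409) (nat_lit 265) (nat_lit 226)) (XT.lf (nat_lit 0) (nat_lit 4303202464) (nat_lit 76) (nat_lit 2397149600) (nat_lit 152) (nat_lit 22676528316) (nat_lit 17) (nat_lit 5) (nat_lit 18) (nat_lit 5) (nat_lit 19) (nat_lit 4) (nat_lit 410) (nat_lit 265) (nat_lit 225))))) (XT.nd (nat_lit 234) (nat_lit 152) (nat_lit 0) (XT.nd (nat_lit 78) (nat_lit 76) (nat_lit 0) (XT.lf (nat_lit 0) (nat_lit 11564824107) (nat_lit 152) (nat_lit 16120318919) (nat_lit 0) (nat_lit 2420901044) (nat_lit 17) (nat_lit 5) (nat_lit 19)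 (nat_lit 4) (nat_lit 17) (nat_lit 4) (nat_lit 411) (nat_lit 265) (nat_lit 224)) (XT.nd (nat_lit 78) (nat_lit 76) (nat_lit 0) (XT.lf (nat_lit 0) (nat_lit 16543262419) (nat_lit 152) (nat_lit 7028301282) (nat_lit 0) (nat_lit 7286483735) (nat_lit 17) (nat_lit 5) (nat_lit 19) (nat_lit 4) (nat_lit 17) (nat_lit 4) (nat_lit 412) (nat_lit 265) (nat_lit 223)) (XT.lf (nat_lit 0) (nat_lit 2277810634) (nat_lit 76) (nat_lit 19361059297) (nat_lit 76) (nat_lit 9994712050) (nat_lit 16) (nat_lit 4) (nat_lit 17) (nat_lit 5) (nat_lit 17) (nat_lit 4) (nat_lit 413) (nat_lit 265) (nat_lit 222)))) (XT.nd (nat_lit 156) (nat_lit 152) (nat_lit 0) (XT.nd (nat_lit 78) (nat_lit 0) (nat_lit 0) (XT.lf (nat_lit 0) (nat_lit 11905075581) (nat_lit 76) (nat_lit 14999756145) (nat_lit 76) (nat_lit 5527031653) (nat_lit 16) (nat_lit 4) (nat_lit 17) (nat_lit 5) (nat_lit 17) (nat_lit 4) (nat_lit 414) (nat_lit 265) (nat_lit 221)) (XT.lf (nat_lit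 0) (nat_lit 21722028756) (nat_lit 76) (nat_lit 10554815461) (nat_lit 76) (nat_lit 978812090) (nat_lit 16) (nat_lit 4) (nat_lit 17) (nat_lit 5) (nat_lit 17) (nat_lit 4) (nat_lit 415) (nat_lit 265) (nat_lit 220))) (XT.nd (nat_lit 78) (nat_lit 76) (nat_lit 0) (XT.lf (nat_lit 0) (nat_lit 3582619656) (nat_lit 152) (nat_lit 2403556225) (nat_lit 76) (nat_lit 28118450988) (nat_lit 15) (nat_lit 5) (nat_lit 17) (nat_lit 5) (nat_lit 16) (nat_lit 4) (nat_lit 416) (nat_lit 265) (nat_lit 219)) (XT.lf (nat_lit 0) (nat_lit 7033547931) (nat_lit 76) (nat_lit 1245847294) (nat_lit 152) (nat_lit 26698840162) (nat_lit 14) (nat_lit 5) (nat_lit 15) (nat_lit 5) (nat_lit 16) (nat_lit 4) (nat_lit 417) (nat_lit 265) (nat_lit 218))))))))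
noncomputable def xc31 : XT := (XT.nd (nat_lit 2106) (nat_lit 0) (nat_lit 0) (XT.nd (nat_lit 1014) (nat_lit 228) (nat_lit 0) (XT.nd (nat_lit 468) (nat_lit 228) (nat_lit 0) (XT.nd (nat_lit 234) (nat_lit 76) (nat_lit 0) (XT.nd (nat_lit 78) (nat_lit 0) (nat_lit 0) (XT.lf (nat_lit 0) (nat_lit 13127219254) (nat_lit 152) (nat_lit 19204031606) (nat_lit 0) (nat_lit 3546501602) (nat_lit 14) (nat_lit 5) (nat_lit 16) (nat_lit 4) (nat_lit 14) (nat_lit 4) (nat_lit 418) (nat_lit 265) (nat_lit 217)) (XT.nd (nat_lit 78) (nat_lit 0) (nat_lit 0) (XT.lf (nat_lit 0) (nat_lit 18084925337) (nat_lit 152) (nat_lit 10305282398) (nat_lit 0) (nat_lit 8415118416) (nat_lit 14) (nat_lit 5) (nat_lit 16) (nat_lit 4) (nat_lit 14) (nat_lit 4) (nat_lit 419) (nat_lit 265) (nat_lit 216)) (XT.lf (nat_lit 0) (nat_lit 23144869605) (nat_lit 152) (nat_lit 1228688377) (nat_lit 0) (nat_lit 13388568248) (nat_lit 14) (nat_lit 5) (nat_lit 16) (nat_lit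 4) (nat_lit 14) (nat_lit 4) (nat_lit 420) (nat_lit 265) (nat_lit 215)))) (XT.nd (nat_lit 78) (nat_lit 0) (nat_lit 0) (XT.lf (nat_lit 0) (nat_lit 8193567471) (nat_lit 76) (nat_lit 20196667478) (nat_lit 76) (nat_lit 10356390942) (nat_lit 13) (nat_lit 4) (nat_lit 14) (nat_lit 5) (nat_lit 14) (nat_lit 4) (nat_lit 421) (nat_lit 265) (nat_lit 214)) (XT.nd (nat_lit 78) (nat_lit 0) (nat_lit 0) (XT.lf (nat_lit 0) (nat_lit 17838004154) (nat_lit 76) (nat_lit 15922716786) (nat_lit 76) (nat_lit 6000910949) (nat_lit 13) (nat_lit 4) (nat_lit 14) (nat_lit 5) (nat_lit 14) (nat_lit 4) (nat_lit 422) (nat_lit 265) (nat_lit 213)) (XT.lf (nat_lit 0) (nat_lit 27688595539) (nat_lit 76) (nat_lit 11560378730) (nat_lit 76) (nat_lit 1559418232) (nat_lit 13) (nat_lit 4) (nat_lit 14) (nat_lit 5) (nat_lit 14) (nat_lit 4) (nat_lit 423) (nat_lit 265) (nat_lit 212))))) (XT.nd (nat_lit 234) (nat_lit 76) (nat_lit 0) (XT.nd (nat_lit 78) (nat_lit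 76) (nat_lit 0) (XT.lf (nat_lit 0) (nat_lit 2913974322) (nat_lit 152) (nat_lit 4162441808) (nat_lit 76) (nat_lit 34810549190) (nat_lit 12) (nat_lit 5) (nat_lit 14) (nat_lit 5) (nat_lit 13) (nat_lit 4) (nat_lit 424) (nat_lit 265) (nat_lit 211)) (XT.nd (nat_lit 78) (nat_lit 0) (nat_lit 0) (XT.lf (nat_lit 0) (nat_lit 5067857782) (nat_lit 76) (nat_lit 2429816269) (nat_lit 152) (nat_lit 35499538312) (nat_lit 11) (nat_lit 5) (nat_lit 12) (nat_lit 5) (nat_lit 13) (nat_lit 4) (nat_lit 425) (nat_lit 265) (nat_lit 210)) (XT.lf (nat_lit 0) (nat_lit 12242801391) (nat_lit 152) (nat_lit 29581496972) (nat_lit 0) (nat_lit 2315754525) (nat_lit 11) (nat_lit 5) (nat_lit 13) (nat_lit 4) (nat_lit 11) (nat_lit 4) (nat_lit 426) (nat_lit 265) (nat_lit 209)))) (XT.nd (nat_lit 156) (nat_lit 76) (nat_lit 0) (XT.nd (nat_lit 78) (nat_lit 0) (nat_lit 0) (XT.lf (nat_lit 0) (nat_lit 17114358481) (nat_lit 152) (nat_lit 21084269225) (nat_lit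 0) (nat_lit 7119032109) (nat_lit 11) (nat_lit 5) (nat_lit 13) (nat_lit 4) (nat_lit 11) (nat_lit 4) (nat_lit 427) (nat_lit 265) (nat_lit 208)) (XT.lf (nat_lit 0) (nat_lit 22093245143) (nat_lit 152) (nat_lit 12406889698) (nat_lit 0) (nat_lit 12031627988) (nat_lit 11) (nat_lit 5) (nat_lit 13) (nat_lit 4) (nat_lit 11) (nat_lit 4) (nat_lit 428) (nat_lit 265) (nat_lit 207))) (XT.nd (nat_lit 78) (nat_lit 76) (nat_lit 0) (XT.lf (nat_lit 0) (nat_lit 27183811859) (nat_lit 152) (nat_lit 3541776214) (nat_lit 0) (nat_lit 17057834722) (nat_lit 11) (nat_lit 5) (nat_lit 13) (nat_lit 4) (nat_lit 11) (nat_lit 4) (nat_lit 429) (nat_lit 265) (nat_lit 206)) (XT.lf (nat_lit 0) (nat_lit 5628652728) (nat_lit 76) (nat_lit 26815960023) (nat_lit 76) (nat_lit 16627497465) (nat_lit 10) (nat_lit 4) (nat_lit 11) (nat_lit 5) (nat_lit 11) (nat_lit 4) (nat_lit 430) (nat_lit 265) (nat_lit 205)))))) (XT.nd (nat_lit 546) (nat_lit 76) (nat_lit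 0) (XT.nd (nat_lit 234) (nat_lit 152) (nat_lit 0) (XT.nd (nat_lit 78) (nat_lit 0) (nat_lit 0) (XT.lf (nat_lit 0) (nat_lit 15077015161) (nat_lit 76) (nat_lit 22785793531) (nat_lit 76) (nat_lit 12536665517) (nat_lit 10) (nat_lit 4) (nat_lit 11) (nat_lit 5) (nat_lit 11) (nat_lit 4) (nat_lit 431) (nat_lit 265) (nat_lit 204)) (XT.nd (nat_lit 78) (nat_lit 0) (nat_lit 0) (XT.lf (nat_lit 0) (nat_lit 24741078643) (nat_lit 76) (nat_lit 18667332089) (nat_lit 76) (nat_lit 8359305572) (nat_lit 10) (nat_lit 4) (nat_lit 11) (nat_lit 5) (nat_lit 11) (nat_lit 4) (nat_lit 432) (nat_lit 265) (nat_lit 203)) (XT.lf (nat_lit 0) (nat_lit 34629287502) (nat_lit 76) (nat_lit 14456977039) (nat_lit 76) (nat_lit 4091767511) (nat_lit 10) (nat_lit 4) (nat_lit 11) (nat_lit 5) (nat_lit 11) (nat_lit 4) (nat_lit 433) (nat_lit 265) (nat_lit 202)))) (XT.nd (nat_lit 156) (nat_lit 76) (nat_lit 0) (XT.nd (nat_lit 78) (nat_lit 0) (nat_lit 0) (XT.lf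 (nat_lit 0) (nat_lit 264415201) (nat_lit 152) (nat_lit 9883964156) (nat_lit 76) (nat_lit 44483196643) (nat_lit 9) (nat_lit 5) (nat_lit 11) (nat_lit 5) (nat_lit 10) (nat_lit 4) (nat_lit 434) (nat_lit 265) (nat_lit 201)) (XT.lf (nat_lit 0) (nat_lit 4636563966) (nat_lit 152) (nat_lit 1062402636) (nat_lit 76) (nat_lit 50429521312) (nat_lit 9) (nat_lit 5) (nat_lit 11) (nat_lit 5) (nat_lit 10) (nat_lit 4) (nat_lit 435) (nat_lit 265) (nat_lit 200))) (XT.nd (nat_lit 78) (nat_lit 0) (nat_lit 0) (XT.lf (nat_lit 0) (nat_lit 8121459672) (nat_lit 76) (nat_lit 1064952995) (nat_lit 152) (nat_lit 48482501032) (nat_lit 8) (nat_lit 5) (nat_lit 9) (nat_lit 5) (nat_lit 10) (nat_lit 4) (nat_lit 436) (nat_lit 265) (nat_lit 199)) (XT.lf (nat_lit 0) (nat_lit 13887762989) (nat_lit 152) (nat_lit 41749252780) (nat_lit 0) (nat_lit 3618088807) (nat_lit 8) (nat_lit 5) (nat_lit 10) (nat_lit 4) (nat_lit 8) (nat_lit 4) (nat_lit 437) (nat_lit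 265) (nat_lit 198))))) (XT.nd (nat_lit 234) (nat_lit 76) (nat_lit 0) (XT.nd (nat_lit 78) (nat_lit 0) (nat_lit 0) (XT.lf (nat_lit 0) (nat_lit 18710142000) (nat_lit 152) (nat_lit 33786764020) (nat_lit 0) (nat_lit 8392577945) (nat_lit 8) (nat_lit 5) (nat_lit 10) (nat_lit 4) (nat_lit 8) (nat_lit 4) (nat_lit 438) (nat_lit 265) (nat_lit 197)) (XT.nd (nat_lit 78) (nat_lit 0) (nat_lit 0) (XT.lf (nat_lit 0) (nat_lit 23647526448) (nat_lit 152) (nat_lit 25642793252) (nat_lit 0) (nat_lit 13283467373) (nat_lit 8) (nat_lit 5) (nat_lit 10) (nat_lit 4) (nat_lit 8) (nat_lit 4) (nat_lit 439) (nat_lit 265) (nat_lit 196)) (XT.lf (nat_lit 0) (nat_lit 28704230555) (nat_lit 152) (nat_lit 17310224386) (nat_lit 0) (nat_lit 18295030682) (nat_lit 8) (nat_lit 5) (nat_lit 10) (nat_lit 4) (nat_lit 8) (nat_lit 4) (nat_lit 440) (nat_lit 265) (nat_lit 195)))) (XT.nd (nat_lit 156) (nat_lit 76) (nat_lit 0) (XT.nd (nat_lit 78) (nat_lit 0)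 (nat_lit 0) (XT.lf (nat_lit 0) (nat_lit 33884672798) (nat_lit 152) (nat_lit 8781776535) (nat_lit 0) (nat_lit 23431646908) (nat_lit 8) (nat_lit 5) (nat_lit 10) (nat_lit 4) (nat_lit 8) (nat_lit 4) (nat_lit 441) (nat_lit 265) (nat_lit 194)) (XT.lf (nat_lit 0) (nat_lit 39193379778) (nat_lit 152) (nat_lit 49997658) (nat_lit 0) (nat_lit 28697804357) (nat_lit 8) (nat_lit 5) (nat_lit 10) (nat_lit 4) (nat_lit 8) (nat_lit 4) (nat_lit 442) (nat_lit 265) (nat_lit 193))) (XT.nd (nat_lit 78) (nat_lit 0) (nat_lit 0) (XT.lf (nat_lit 0) (nat_lit 9069724954) (nat_lit 76) (nat_lit 35652448960) (nat_lit 76) (nat_lit 25115563316) (nat_lit 7) (nat_lit 4) (nat_lit 8) (nat_lit 5) (nat_lit 8) (nat_lit 4) (nat_lit 443) (nat_lit 265) (nat_lit 192)) (XT.lf (nat_lit 0) (nat_lit 18413571447) (nat_lit 76) (nat_lit 31977689848) (nat_lit 76) (nat_lit 21400697190) (nat_lit 7) (nat_lit 4) (nat_lit 8) (nat_lit 5) (nat_lit 8) (nat_lit 4) (nat_lit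 444) (nat_lit 265) (nat_lit 191))))))) (XT.nd (nat_lit 41496) (nat_lit 0) (nat_lit 1900) (XT.nd (nat_lit 40950) (nat_lit 0) (nat_lit 3344) (XT.nd (nat_lit 234) (nat_lit 0) (nat_lit 0) (XT.nd (nat_lit 78) (nat_lit 0) (nat_lit 0) (XT.lf (nat_lit 0) (nat_lit 27988711292) (nat_lit 76) (nat_lit 28216394022) (nat_lit 76) (nat_lit 17600462516) (nat_lit 7) (nat_lit 4) (nat_lit 8) (nat_lit 5) (nat_lit 8) (nat_lit 4) (nat_lit 445) (nat_lit 265) (nat_lit 190)) (XT.nd (nat_lit 78) (nat_lit 0) (nat_lit 0) (XT.lf (nat_lit 0) (nat_lit 37803511117) (nat_lit 76) (nat_lit 24365274915) (nat_lit 76) (nat_lit 13711538702) (nat_lit 7) (nat_lit 4) (nat_lit 8) (nat_lit 5) (nat_lit 8) (nat_lit 4) (nat_lit 446) (nat_lit 265) (nat_lit 189)) (XT.lf (nat_lit 0) (nat_lit 47866546961) (nat_lit 76) (nat_lit 20420967471) (nat_lit 76) (nat_lit 9730527658) (nat_lit 7) (nat_lit 4) (nat_lit 8) (nat_lit 5) (nat_lit 8) (nat_lit 4) (nat_lit 447)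 (nat_lit 265) (nat_lit 188)))) (XT.nd (nat_lit 78) (nat_lit 0) (nat_lit 0) (XT.lf (nat_lit 0) (nat_lit 58186611768) (nat_lit 76) (nat_lit 16380025207) (nat_lit 76) (nat_lit 5653950832) (nat_lit 7) (nat_lit 4) (nat_lit 8) (nat_lit 5) (nat_lit 8) (nat_lit 4) (nat_lit 448) (nat_lit 265) (nat_lit 187)) (XT.nd (nat_lit 40560) (nat_lit 0) (nat_lit 4332) (XT.lf (nat_lit 0) (nat_lit 68772723070) (nat_lit 76) (nat_lit 12238917202) (nat_lit 76) (nat_lit 1478246166) (nat_lit 7) (nat_lit 4) (nat_lit 8) (nat_lit 5) (nat_lit 8) (nat_lit 4) (nat_lit 449) (nat_lit 265) (nat_lit 186)) (XT.lf (nat_lit 0) (nat_lit 6047115779) (nat_lit 228) (nat_lit 41209089) (nat_lit 228) (nat_lit 41209089) (nat_lit 64) (nat_lit 4) (nat_lit 67) (nat_lit 5) (nat_lit 67) (nat_lit 4) (nat_lit 368) (nat_lit 266) (nat_lit 266))))) (XT.nd (nat_lit 234) (nat_lit 380) (nat_lit 0) (XT.nd (nat_lit 78) (nat_lit 380) (nat_lit 0) (XT.lf (nat_lit 0) (nat_lit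 4742807324) (nat_lit 228) (nat_lit 3519009604) (nat_lit 0) (nat_lit 4202182355) (nat_lit 61) (nat_lit 5) (nat_lit 64) (nat_lit 4) (nat_lit 61) (nat_lit 4) (nat_lit 369) (nat_lit 266) (nat_lit 265)) (XT.nd (nat_lit 78) (nat_lit 228) (nat_lit 0) (XT.lf (nat_lit 0) (nat_lit 5584486625) (nat_lit 152) (nat_lit 4078767043) (nat_lit 152) (nat_lit 3013263463) (nat_lit 59) (nat_lit 4) (nat_lit 61) (nat_lit 5) (nat_lit 61) (nat_lit 4) (nat_lit 370) (nat_lit 266) (nat_lit 264)) (XT.lf (nat_lit 0) (nat_lit 1753418354) (nat_lit 228) (nat_lit 10918687190) (nat_lit 0) (nat_lit 224200427) (nat_lit 56) (nat_lit 5) (nat_lit 59) (nat_lit 4) (nat_lit 56) (nat_lit 4) (nat_lit 371) (nat_lit 266) (nat_lit 263)))) (XT.nd (nat_lit 156) (nat_lit 228) (nat_lit 0) (XT.nd (nat_lit 78) (nat_lit 152) (nat_lit 0) (XT.lf (nat_lit 0) (nat_lit 6612057188) (nat_lit 228) (nat_lit 1906974054) (nat_lit 0) (nat_lit 4602500978) (nat_lit 56) (nat_lit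 5) (nat_lit 59) (nat_lit 4) (nat_lit 56) (nat_lit 4) (nat_lit 372) (nat_lit 266) (nat_lit 262)) (XT.lf (nat_lit 0) (nat_lit 7343392259) (nat_lit 152) (nat_lit 4243469265) (nat_lit 152) (nat_lit 1767565208) (nat_lit 54) (nat_lit 4) (nat_lit 56) (nat_lit 5) (nat_lit 56) (nat_lit 4) (nat_lit 373) (nat_lit 266) (nat_lit 261))) (XT.nd (nat_lit 78) (nat_lit 0) (nat_lit 0) (XT.lf (nat_lit 0) (nat_lit 3007410683) (nat_lit 228) (nat_lit 10423429435) (nat_lit 0) (nat_lit 164042764) (nat_lit 51) (nat_lit 5) (nat_lit 54) (nat_lit 4) (nat_lit 51) (nat_lit 4) (nat_lit 374) (nat_lit 266) (nat_lit 260)) (XT.lf (nat_lit 0) (nat_lit 7894014529) (nat_lit 228) (nat_lit 1324045411) (nat_lit 0) (nat_lit 4623872266) (nat_lit 51) (nat_lit 5) (nat_lit 54) (nat_lit 4) (nat_lit 51) (nat_lit 4) (nat_lit 375) (nat_lit 266) (nat_lit 259)))))) (XT.nd (nat_lit 546) (nat_lit 608) (nat_lit 0) (XT.nd (nat_lit 234) (nat_lit 456) (nat_lit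 0) (XT.nd (nat_lit 78) (nat_lit 228) (nat_lit 0) (XT.lf (nat_lit 0) (nat_lit 8034387520) (nat_lit 152) (nat_lit 4873545651) (nat_lit 152) (nat_lit 1189059365) (nat_lit 49) (nat_lit 4) (nat_lit 51) (nat_lit 5) (nat_lit 51) (nat_lit 4) (nat_lit 376) (nat_lit 266) (nat_lit 258)) (XT.nd (nat_lit 78) (nat_lit 0) (nat_lit 0) (XT.lf (nat_lit 0) (nat_lit 3197001669) (nat_lit 152) (nat_lit 391059268) (nat_lit 228) (nat_lit 10772154685) (nat_lit 46) (nat_lit 5) (nat_lit 48) (nat_lit 5) (nat_lit 49) (nat_lit 4) (nat_lit 377) (nat_lit 266) (nat_lit 257)) (XT.lf (nat_lit 0) (nat_lit 8491216160) (nat_lit 228) (nat_lit 1995284138) (nat_lit 0) (nat_lit 4144302553) (nat_lit 46) (nat_lit 5) (nat_lit 49) (nat_lit 4) (nat_lit 46) (nat_lit 4) (nat_lit 378) (nat_lit 266) (nat_lit 256)))) (XT.nd (nat_lit 156) (nat_lit 152) (nat_lit 0) (XT.nd (nat_lit 78) (nat_lit 152) (nat_lit 0) (XT.lf (nat_lit 0) (nat_lit 7422180705) (nat_lit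 152) (nat_lit 6101466572) (nat_lit 152) (nat_lit 1386413667) (nat_lit 44) (nat_lit 4) (nat_lit 46) (nat_lit 5) (nat_lit 46) (nat_lit 4) (nat_lit 379) (nat_lit 266) (nat_lit 255)) (XT.lf (nat_lit 0) (nat_lit 1800481088) (nat_lit 76) (nat_lit 1585208953) (nat_lit 152) (nat_lit 11812667856) (nat_lit 42) (nat_lit 5) (nat_lit 43) (nat_lit 5) (nat_lit 44) (nat_lit 4) (nat_lit 380) (nat_lit 266) (nat_lit 254))) (XT.nd (nat_lit 78) (nat_lit 152) (nat_lit 0) (XT.lf (nat_lit 0) (nat_lit 8286503041) (nat_lit 152) (nat_lit 4183128088) (nat_lit 0) (nat_lit 3024875571) (nat_lit 42) (nat_lit 5) (nat_lit 44) (nat_lit 4) (nat_lit 42) (nat_lit 4) (nat_lit 381) (nat_lit 266) (nat_lit 253)) (XT.lf (nat_lit 0) (nat_lit 5232207718) (nat_lit 152) (nat_lit 8078387831) (nat_lit 152) (nat_lit 2489673364) (nat_lit 40) (nat_lit 4) (nat_lit 42) (nat_lit 5) (nat_lit 42) (nat_lit 4) (nat_lit 382) (nat_lit 266) (nat_lit 252))))) (XT.nd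 (nat_lit 234) (nat_lit 304) (nat_lit 0) (XT.nd (nat_lit 78) (nat_lit 228) (nat_lit 0) (XT.lf (nat_lit 0) (nat_lit 2277055508) (nat_lit 228) (nat_lit 1283851975) (nat_lit 76) (nat_lit 12555035642) (nat_lit 39) (nat_lit 5) (nat_lit 42) (nat_lit 5) (nat_lit 40) (nat_lit 4) (nat_lit 383) (nat_lit 266) (nat_lit 251)) (XT.nd (nat_lit 78) (nat_lit 152) (nat_lit 0) (XT.lf (nat_lit 0) (nat_lit 7140020038) (nat_lit 152) (nat_lit 8193803137) (nat_lit 0) (nat_lit 1106441859) (nat_lit 38) (nat_lit 5) (nat_lit 40) (nat_lit 4) (nat_lit 38) (nat_lit 4) (nat_lit 384) (nat_lit 266) (nat_lit 250)) (XT.lf (nat_lit 0) (nat_lit 1143906934) (nat_lit 152) (nat_lit 10977716331) (nat_lit 152) (nat_lit 4653525591) (nat_lit 36) (nat_lit 4) (nat_lit 38) (nat_lit 5) (nat_lit 38) (nat_lit 4) (nat_lit 385) (nat_lit 266) (nat_lit 249)))) (XT.nd (nat_lit 156) (nat_lit 152) (nat_lit 0) (XT.nd (nat_lit 78) (nat_lit 76) (nat_lit 0) (XT.lf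 (nat_lit 0) (nat_lit 127129065) (nat_lit 228) (nat_lit 6348266853) (nat_lit 76) (nat_lit 10644745307) (nat_lit 35) (nat_lit 5) (nat_lit 38) (nat_lit 5) (nat_lit 36) (nat_lit 4) (nat_lit 386) (nat_lit 266) (nat_lit 248)) (XT.lf (nat_lit 0) (nat_lit 3073417440) (nat_lit 76) (nat_lit 1829876405) (nat_lit 152) (nat_lit 12572452129) (nat_lit 34) (nat_lit 5) (nat_lit 35) (nat_lit 5) (nat_lit 36) (nat_lit 4) (nat_lit 387) (nat_lit 266) (nat_lit 247))) (XT.nd (nat_lit 78) (nat_lit 152) (nat_lit 0) (XT.lf (nat_lit 0) (nat_lit 9832282896) (nat_lit 152) (nat_lit 5115258377) (nat_lit 0) (nat_lit 2894204518) (nat_lit 34) (nat_lit 5) (nat_lit 36) (nat_lit 4) (nat_lit 34) (nat_lit 4) (nat_lit 388) (nat_lit 266) (nat_lit 246)) (XT.lf (nat_lit 0) (nat_lit 4368019650) (nat_lit 152) (nat_lit 10520056974) (nat_lit 152) (nat_lit 3331293649) (nat_lit 32) (nat_lit 4) (nat_lit 34) (nat_lit 5) (nat_lit 34) (nat_lit 4) (nat_lit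 389) (nat_lit 266) (nat_lit 245))))))))
noncomputable def xc32 : XT := (XT.nd (nat_lit 2028) (nat_lit 608) (nat_lit 0) (XT.nd (nat_lit 1014) (nat_lit 456) (nat_lit 0) (XT.nd (nat_lit 468) (nat_lit 304) (nat_lit 0) (XT.nd (nat_lit 234) (nat_lit 304) (nat_lit 0) (XT.nd (nat_lit 78) (nat_lit 76) (nat_lit 0) (XT.lf (nat_lit 0) (nat_lit 1429329011) (nat_lit 228) (nat_lit 4530608876) (nat_lit 76) (nat_lit 12648834832) (nat_lit 31) (nat_lit 5) (nat_lit 34) (nat_lit 5) (nat_lit 32) (nat_lit 4) (nat_lit 390) (nat_lit 266) (nat_lit 244)) (XT.nd (nat_lit 78) (nat_lit 0) (nat_lit 0) (XT.lf (nat_lit 0) (nat_lit 4988799814) (nat_lit 76) (nat_lit 1246294368) (nat_lit 152) (nat_lit 12774706820) (nat_lit 30) (nat_lit 5) (nat_lit 31) (nat_lit 5) (nat_lit 32) (nat_lit 4) (nat_lit 391) (nat_lit 266) (nat_lit 243)) (XT.lf (nat_lit 0) (nat_lit 11187521908) (nat_lit 152) (nat_lit 4715571976) (nat_lit 0) (nat_lit 3519702864) (nat_lit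 30) (nat_lit 5) (nat_lit 32) (nat_lit 4) (nat_lit 30) (nat_lit 4) (nat_lit 392) (nat_lit 266) (nat_lit 242)))) (XT.nd (nat_lit 78) (nat_lit 152) (nat_lit 0) (XT.lf (nat_lit 0) (nat_lit 4809159947) (nat_lit 152) (nat_lit 11461811011) (nat_lit 152) (nat_lit 3577748929) (nat_lit 28) (nat_lit 4) (nat_lit 30) (nat_lit 5) (nat_lit 30) (nat_lit 4) (nat_lit 393) (nat_lit 266) (nat_lit 241)) (XT.nd (nat_lit 78) (nat_lit 76) (nat_lit 0) (XT.lf (nat_lit 0) (nat_lit 1167791759) (nat_lit 228) (nat_lit 5723389507) (nat_lit 76) (nat_lit 13396735543) (nat_lit 27) (nat_lit 5) (nat_lit 30) (nat_lit 5) (nat_lit 28) (nat_lit 4) (nat_lit 394) (nat_lit 266) (nat_lit 240)) (XT.lf (nat_lit 0) (nat_lit 3773089060) (nat_lit 76) (nat_lit 2173179728) (nat_lit 152) (nat_lit 14794093815) (nat_lit 26) (nat_lit 5) (nat_lit 27) (nat_lit 5) (nat_lit 28) (nat_lit 4) (nat_lit 395) (nat_lit 266) (nat_lit 239))))) (XT.nd (nat_lit 234) (nat_lit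 228) (nat_lit 0) (XT.nd (nat_lit 78) (nat_lit 76) (nat_lit 0) (XT.lf (nat_lit 0) (nat_lit 10878735586) (nat_lit 152) (nat_lit 7696882446) (nat_lit 0) (nat_lit 2630454427) (nat_lit 26) (nat_lit 5) (nat_lit 28) (nat_lit 4) (nat_lit 26) (nat_lit 4) (nat_lit 396) (nat_lit 266) (nat_lit 238)) (XT.nd (nat_lit 78) (nat_lit 0) (nat_lit 0) (XT.lf (nat_lit 0) (nat_lit 1730250472) (nat_lit 76) (nat_lit 14195662407) (nat_lit 76) (nat_lit 5760848104) (nat_lit 25) (nat_lit 4) (nat_lit 26) (nat_lit 5) (nat_lit 26) (nat_lit 4) (nat_lit 397) (nat_lit 266) (nat_lit 237)) (XT.lf (nat_lit 0) (nat_lit 11465669190) (nat_lit 76) (nat_lit 9665955515) (nat_lit 76) (nat_lit 1050041071) (nat_lit 25) (nat_lit 4) (nat_lit 26) (nat_lit 5) (nat_lit 26) (nat_lit 4) (nat_lit 398) (nat_lit 266) (nat_lit 236)))) (XT.nd (nat_lit 156) (nat_lit 76) (nat_lit 0) (XT.nd (nat_lit 78) (nat_lit 76) (nat_lit 0) (XT.lf (nat_lit 0) (nat_lit 3658662484)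 (nat_lit 152) (nat_lit 1364654978) (nat_lit 76) (nat_lit 17669089530) (nat_lit 24) (nat_lit 5) (nat_lit 26) (nat_lit 5) (nat_lit 25) (nat_lit 4) (nat_lit 399) (nat_lit 266) (nat_lit 235)) (XT.lf (nat_lit 0) (nat_lit 8292590767) (nat_lit 76) (nat_lit 207426395) (nat_lit 152) (nat_lit 14717774957) (nat_lit 23) (nat_lit 5) (nat_lit 24) (nat_lit 5) (nat_lit 25) (nat_lit 4) (nat_lit 400) (nat_lit 266) (nat_lit 234))) (XT.nd (nat_lit 78) (nat_lit 76) (nat_lit 0) (XT.lf (nat_lit 0) (nat_lit 13479195739) (nat_lit 152) (nat_lit 5663085131) (nat_lit 0) (nat_lit 4616888597) (nat_lit 23) (nat_lit 5) (nat_lit 25) (nat_lit 4) (nat_lit 23) (nat_lit 4) (nat_lit 401) (nat_lit 266) (nat_lit 233)) (XT.lf (nat_lit 0) (nat_lit 3826932557) (nat_lit 76) (nat_lit 14754588046) (nat_lit 76) (nat_lit 5736062333) (nat_lit 22) (nat_lit 4) (nat_lit 23) (nat_lit 5) (nat_lit 23) (nat_lit 4) (nat_lit 402) (nat_lit 266) (nat_lit 232))))))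 (XT.nd (nat_lit 468) (nat_lit 228) (nat_lit 0) (XT.nd (nat_lit 234) (nat_lit 76) (nat_lit 0) (XT.nd (nat_lit 78) (nat_lit 152) (nat_lit 0) (XT.lf (nat_lit 0) (nat_lit 13596354757) (nat_lit 76) (nat_lit 10233405317) (nat_lit 76) (nat_lit 1063211087) (nat_lit 22) (nat_lit 4) (nat_lit 23) (nat_lit 5) (nat_lit 23) (nat_lit 4) (nat_lit 403) (nat_lit 266) (nat_lit 231)) (XT.nd (nat_lit 78) (nat_lit 76) (nat_lit 0) (XT.lf (nat_lit 0) (nat_lit 3613560095) (nat_lit 152) (nat_lit 1981918222) (nat_lit 76) (nat_lit 19890961392) (nat_lit 21) (nat_lit 5) (nat_lit 23) (nat_lit 5) (nat_lit 22) (nat_lit 4) (nat_lit 404) (nat_lit 266) (nat_lit 230)) (XT.lf (nat_lit 0) (nat_lit 7635039243) (nat_lit 76) (nat_lit 786363013) (nat_lit 152) (nat_lit 17675637175) (nat_lit 20) (nat_lit 5) (nat_lit 21) (nat_lit 5) (nat_lit 22) (nat_lit 4) (nat_lit 405) (nat_lit 266) (nat_lit 229)))) (XT.nd (nat_lit 78) (nat_lit 76) (nat_lit 0) (XT.lf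 (nat_lit 0) (nat_lit 13372656935) (nat_lit 152) (nat_lit 9300291803) (nat_lit 0) (nat_lit 4053039929) (nat_lit 20) (nat_lit 5) (nat_lit 22) (nat_lit 4) (nat_lit 20) (nat_lit 4) (nat_lit 406) (nat_lit 266) (nat_lit 228)) (XT.nd (nat_lit 78) (nat_lit 0) (nat_lit 0) (XT.lf (nat_lit 0) (nat_lit 16360816) (nat_lit 76) (nat_lit 18404720422) (nat_lit 76) (nat_lit 8954272822) (nat_lit 19) (nat_lit 4) (nat_lit 20) (nat_lit 5) (nat_lit 20) (nat_lit 4) (nat_lit 407) (nat_lit 266) (nat_lit 227)) (XT.lf (nat_lit 0) (nat_lit 9691821732) (nat_lit 76) (nat_lit 13964397448) (nat_lit 76) (nat_lit 4386929854) (nat_lit 19) (nat_lit 4) (nat_lit 20) (nat_lit 5) (nat_lit 20) (nat_lit 4) (nat_lit 408) (nat_lit 266) (nat_lit 226))))) (XT.nd (nat_lit 234) (nat_lit 76) (nat_lit 0) (XT.nd (nat_lit 78) (nat_lit 76) (nat_lit 0) (XT.lf (nat_lit 0) (nat_lit 253723742) (nat_lit 152) (nat_lit 9185728779) (nat_lit 76) (nat_lit 19293165333)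 (nat_lit 18) (nat_lit 5) (nat_lit 20) (nat_lit 5) (nat_lit 19) (nat_lit 4) (nat_lit 409) (nat_lit 266) (nat_lit 225)) (XT.nd (nat_lit 78) (nat_lit 0) (nat_lit 0) (XT.lf (nat_lit 0) (nat_lit 107435086) (nat_lit 76) (nat_lit 4783181461) (nat_lit 152) (nat_lit 24552501267) (nat_lit 17) (nat_lit 5) (nat_lit 18) (nat_lit 5) (nat_lit 19) (nat_lit 4) (nat_lit 410) (nat_lit 266) (nat_lit 224)) (XT.lf (nat_lit 0) (nat_lit 9704713160) (nat_lit 152) (nat_lit 20411706932) (nat_lit 0) (nat_lit 57375496) (nat_lit 17) (nat_lit 5) (nat_lit 19) (nat_lit 4) (nat_lit 17) (nat_lit 4) (nat_lit 411) (nat_lit 266) (nat_lit 223)))) (XT.nd (nat_lit 156) (nat_lit 76) (nat_lit 0) (XT.nd (nat_lit 78) (nat_lit 0) (nat_lit 0) (XT.lf (nat_lit 0) (nat_lit 14656511246) (nat_lit 152) (nat_lit 11370484635) (nat_lit 0) (nat_lit 4899605019) (nat_lit 17) (nat_lit 5) (nat_lit 19) (nat_lit 4) (nat_lit 17) (nat_lit 4) (nat_lit 412) (nat_lit 266)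 (nat_lit 222)) (XT.lf (nat_lit 0) (nat_lit 19704358752) (nat_lit 152) (nat_lit 2158136871) (nat_lit 0) (nat_lit 9841075280) (nat_lit 17) (nat_lit 5) (nat_lit 19) (nat_lit 4) (nat_lit 17) (nat_lit 4) (nat_lit 413) (nat_lit 266) (nat_lit 221))) (XT.nd (nat_lit 78) (nat_lit 0) (nat_lit 0) (XT.lf (nat_lit 0) (nat_lit 7377344544) (nat_lit 76) (nat_lit 17546237424) (nat_lit 76) (nat_lit 7579675073) (nat_lit 16) (nat_lit 4) (nat_lit 17) (nat_lit 5) (nat_lit 17) (nat_lit 4) (nat_lit 414) (nat_lit 266) (nat_lit 220)) (XT.lf (nat_lit 0) (nat_lit 17146887646) (nat_lit 76) (nat_lit 13123871498) (nat_lit 76) (nat_lit 3057038390) (nat_lit 16) (nat_lit 4) (nat_lit 17) (nat_lit 5) (nat_lit 17) (nat_lit 4) (nat_lit 415) (nat_lit 266) (nat_lit 219))))))) (XT.nd (nat_lit 1014) (nat_lit 228) (nat_lit 0) (XT.nd (nat_lit 468) (nat_lit 152) (nat_lit 0) (XT.nd (nat_lit 234) (nat_lit 76) (nat_lit 0) (XT.nd (nat_lit 78) (nat_lit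 76) (nat_lit 0) (XT.lf (nat_lit 0) (nat_lit 1520593962) (nat_lit 152) (nat_lit 7077377614) (nat_lit 76) (nat_lit 25580128792) (nat_lit 15) (nat_lit 5) (nat_lit 17) (nat_lit 5) (nat_lit 16) (nat_lit 4) (nat_lit 416) (nat_lit 266) (nat_lit 218)) (XT.nd (nat_lit 78) (nat_lit 0) (nat_lit 0) (XT.lf (nat_lit 0) (nat_lit 2220648140) (nat_lit 76) (nat_lit 3926813092) (nat_lit 152) (nat_lit 28906347197) (nat_lit 14) (nat_lit 5) (nat_lit 15) (nat_lit 5) (nat_lit 16) (nat_lit 4) (nat_lit 417) (nat_lit 266) (nat_lit 217)) (XT.lf (nat_lit 0) (nat_lit 10945924134) (nat_lit 152) (nat_lit 24111950694) (nat_lit 0) (nat_lit 896933737) (nat_lit 14) (nat_lit 5) (nat_lit 16) (nat_lit 4) (nat_lit 14) (nat_lit 4) (nat_lit 418) (nat_lit 266) (nat_lit 216)))) (XT.nd (nat_lit 78) (nat_lit 76) (nat_lit 0) (XT.lf (nat_lit 0) (nat_lit 15880727263) (nat_lit 152) (nat_lit 15257101812) (nat_lit 0) (nat_lit 5745242430) (nat_lit 14) (nat_lit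 5) (nat_lit 16) (nat_lit 4) (nat_lit 14) (nat_lit 4) (nat_lit 419) (nat_lit 266) (nat_lit 215)) (XT.nd (nat_lit 78) (nat_lit 76) (nat_lit 0) (XT.lf (nat_lit 0) (nat_lit 20918435652) (nat_lit 152) (nat_lit 6223129469) (nat_lit 0) (nat_lit 10698975639) (nat_lit 14) (nat_lit 5) (nat_lit 16) (nat_lit 4) (nat_lit 14) (nat_lit 4) (nat_lit 420) (nat_lit 266) (nat_lit 214)) (XT.lf (nat_lit 0) (nat_lit 3057523391) (nat_lit 76) (nat_lit 23035318576) (nat_lit 76) (nat_lit 12734329263) (nat_lit 13) (nat_lit 4) (nat_lit 14) (nat_lit 5) (nat_lit 14) (nat_lit 4) (nat_lit 421) (nat_lit 266) (nat_lit 213))))) (XT.nd (nat_lit 234) (nat_lit 76) (nat_lit 0) (XT.nd (nat_lit 78) (nat_lit 76) (nat_lit 0) (XT.lf (nat_lit 0) (nat_lit 12660985493) (nat_lit 76) (nat_lit 18780989144) (nat_lit 76) (nat_lit 8400845169) (nat_lit 13) (nat_lit 4) (nat_lit 14) (nat_lit 5) (nat_lit 14) (nat_lit 4) (nat_lit 422) (nat_lit 266) (nat_lit 212))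 (XT.nd (nat_lit 78) (nat_lit 76) (nat_lit 0) (XT.lf (nat_lit 0) (nat_lit 22471795733) (nat_lit 76) (nat_lit 14437700854) (nat_lit 76) (nat_lit 3980707694) (nat_lit 13) (nat_lit 4) (nat_lit 14) (nat_lit 5) (nat_lit 14) (nat_lit 4) (nat_lit 423) (nat_lit 266) (nat_lit 211)) (XT.lf (nat_lit 0) (nat_lit 519604274) (nat_lit 152) (nat_lit 9476807342) (nat_lit 76) (nat_lit 31973675403) (nat_lit 12) (nat_lit 5) (nat_lit 14) (nat_lit 5) (nat_lit 13) (nat_lit 4) (nat_lit 424) (nat_lit 266) (nat_lit 210)))) (XT.nd (nat_lit 156) (nat_lit 0) (nat_lit 0) (XT.nd (nat_lit 78) (nat_lit 76) (nat_lit 0) (XT.lf (nat_lit 0) (nat_lit 5034852087) (nat_lit 152) (nat_lit 383292010) (nat_lit 76) (nat_lit 37664245280) (nat_lit 12) (nat_lit 5) (nat_lit 14) (nat_lit 5) (nat_lit 13) (nat_lit 4) (nat_lit 425) (nat_lit 266) (nat_lit 209)) (XT.lf (nat_lit 0) (nat_lit 9085641832) (nat_lit 76) (nat_lit 648353966) (nat_lit 152) (nat_lit 34492615319)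 (nat_lit 11) (nat_lit 5) (nat_lit 12) (nat_lit 5) (nat_lit 13) (nat_lit 4) (nat_lit 426) (nat_lit 266) (nat_lit 208))) (XT.nd (nat_lit 78) (nat_lit 0) (nat_lit 0) (XT.lf (nat_lit 0) (nat_lit 14580198769) (nat_lit 152) (nat_lit 26674339239) (nat_lit 0) (nat_lit 4150442318) (nat_lit 11) (nat_lit 5) (nat_lit 13) (nat_lit 4) (nat_lit 11) (nat_lit 4) (nat_lit 427) (nat_lit 266) (nat_lit 207)) (XT.lf (nat_lit 0) (nat_lit 19540520630) (nat_lit 152) (nat_lit 18032717066) (nat_lit 0) (nat_lit 9046404196) (nat_lit 11) (nat_lit 5) (nat_lit 13) (nat_lit 4) (nat_lit 11) (nat_lit 4) (nat_lit 428) (nat_lit 266) (nat_lit 206)))))) (XT.nd (nat_lit 546) (nat_lit 76) (nat_lit 0) (XT.nd (nat_lit 234) (nat_lit 76) (nat_lit 0) (XT.nd (nat_lit 78) (nat_lit 76) (nat_lit 0) (XT.lf (nat_lit 0) (nat_lit 24613063269) (nat_lit 152) (nat_lit 9202319461) (nat_lit 0) (nat_lit 14056461414) (nat_lit 11) (nat_lit 5) (nat_lit 13) (nat_lit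 4) (nat_lit 11) (nat_lit 4) (nat_lit 429) (nat_lit 266) (nat_lit 205)) (XT.nd (nat_lit 78) (nat_lit 76) (nat_lit 0) (XT.lf (nat_lit 0) (nat_lit 29802259003) (nat_lit 152) (nat_lit 175430542) (nat_lit 0) (nat_lit 19184991691) (nat_lit 11) (nat_lit 5) (nat_lit 13) (nat_lit 4) (nat_lit 11) (nat_lit 4) (nat_lit 430) (nat_lit 266) (nat_lit 204)) (XT.lf (nat_lit 0) (nat_lit 9236066181) (nat_lit 76) (nat_lit 25965358619) (nat_lit 76) (nat_lit 15289192806) (nat_lit 10) (nat_lit 4) (nat_lit 11) (nat_lit 5) (nat_lit 11) (nat_lit 4) (nat_lit 431) (nat_lit 266) (nat_lit 203)))) (XT.nd (nat_lit 156) (nat_lit 76) (nat_lit 0) (XT.nd (nat_lit 78) (nat_lit 0) (nat_lit 0) (XT.lf (nat_lit 0) (nat_lit 18867727432) (nat_lit 76) (nat_lit 21862493352) (nat_lit 76) (nat_lit 11129144527) (nat_lit 10) (nat_lit 4) (nat_lit 11) (nat_lit 5) (nat_lit 11) (nat_lit 4) (nat_lit 432) (nat_lit 266) (nat_lit 202)) (XT.lf (nat_lit 0) (nat_lit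 28724477815) (nat_lit 76) (nat_lit 17667280221) (nat_lit 76) (nat_lit 6878413909) (nat_lit 10) (nat_lit 4) (nat_lit 11) (nat_lit 5) (nat_lit 11) (nat_lit 4) (nat_lit 433) (nat_lit 266) (nat_lit 201))) (XT.nd (nat_lit 78) (nat_lit 76) (nat_lit 0) (XT.lf (nat_lit 0) (nat_lit 38814930022) (nat_lit 76) (nat_lit 13376053505) (nat_lit 76) (nat_lit 2533286721) (nat_lit 10) (nat_lit 4) (nat_lit 11) (nat_lit 5) (nat_lit 11) (nat_lit 4) (nat_lit 434) (nat_lit 266) (nat_lit 200)) (XT.lf (nat_lit 0) (nat_lit 1872762111) (nat_lit 152) (nat_lit 7093390253) (nat_lit 76) (nat_lit 47256227617) (nat_lit 9) (nat_lit 5) (nat_lit 11) (nat_lit 5) (nat_lit 10) (nat_lit 4) (nat_lit 435) (nat_lit 266) (nat_lit 199))))) (XT.nd (nat_lit 234) (nat_lit 0) (nat_lit 0) (XT.nd (nat_lit 78) (nat_lit 0) (nat_lit 0) (XT.lf (nat_lit 0) (nat_lit 1940774284) (nat_lit 76) (nat_lit 4407342951) (nat_lit 152) (nat_lit 51416924572) (nat_lit 8) (nat_lit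 5) (nat_lit 9) (nat_lit 5) (nat_lit 10) (nat_lit 4) (nat_lit 436) (nat_lit 266) (nat_lit 198)) (XT.nd (nat_lit 78) (nat_lit 0) (nat_lit 0) (XT.lf (nat_lit 0) (nat_lit 11002286288) (nat_lit 152) (nat_lit 48023057592) (nat_lit 0) (nat_lit 327305440) (nat_lit 8) (nat_lit 5) (nat_lit 10) (nat_lit 4) (nat_lit 8) (nat_lit 4) (nat_lit 437) (nat_lit 266) (nat_lit 197)) (XT.lf (nat_lit 0) (nat_lit 15810051539) (nat_lit 152) (nat_lit 40088841075) (nat_lit 0) (nat_lit 5088575670) (nat_lit 8) (nat_lit 5) (nat_lit 10) (nat_lit 4) (nat_lit 8) (nat_lit 4) (nat_lit 438) (nat_lit 266) (nat_lit 196)))) (XT.nd (nat_lit 156) (nat_lit 0) (nat_lit 0) (XT.nd (nat_lit 78) (nat_lit 0) (nat_lit 0) (XT.lf (nat_lit 0) (nat_lit 20733247871) (nat_lit 152) (nat_lit 31972319088) (nat_lit 0) (nat_lit 9966631205) (nat_lit 8) (nat_lit 5) (nat_lit 10) (nat_lit 4) (nat_lit 8) (nat_lit 4) (nat_lit 439) (nat_lit 266) (nat_lit 195)) (XT.lf (nat_lit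 0) (nat_lit 25776177107) (nat_lit 152) (nat_lit 23666399523) (nat_lit 0) (nat_lit 14965734425) (nat_lit 8) (nat_lit 5) (nat_lit 10) (nat_lit 4) (nat_lit 8) (nat_lit 4) (nat_lit 440) (nat_lit 266) (nat_lit 194))) (XT.nd (nat_lit 78) (nat_lit 0) (nat_lit 0) (XT.lf (nat_lit 0) (nat_lit 30943245690) (nat_lit 152) (nat_lit 15163824780) (nat_lit 0) (nat_lit 20090253477) (nat_lit 8) (nat_lit 5) (nat_lit 10) (nat_lit 4) (nat_lit 8) (nat_lit 4) (nat_lit 441) (nat_lit 266) (nat_lit 193)) (XT.lf (nat_lit 0) (nat_lit 36238968534) (nat_lit 152) (nat_lit 6457165426) (nat_lit 0) (nat_lit 25344666096) (nat_lit 8) (nat_lit 5) (nat_lit 10) (nat_lit 4) (nat_lit 8) (nat_lit 4) (nat_lit 442) (nat_lit 266) (nat_lit 192))))))))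
noncomputable def xc33 : XT := (XT.nd (nat_lit 42354) (nat_lit 0) (nat_lit 760) (XT.nd (nat_lit 41340) (nat_lit 0) (nat_lit 2356) (XT.nd (nat_lit 468) (nat_lit 0) (nat_lit 0) (XT.nd (nat_lit 234) (nat_lit 0) (nat_lit 0) (XT.nd (nat_lit 78) (nat_lit 0) (nat_lit 0) (XT.lf (nat_lit 0) (nat_lit 2510168732) (nat_lit 76) (nat_lit 39181933514) (nat_lit 76) (nat_lit 28247524063) (nat_lit 7) (nat_lit 4) (nat_lit 8) (nat_lit 5) (nat_lit 8) (nat_lit 4) (nat_lit 443) (nat_lit 266) (nat_lit 191)) (XT.nd (nat_lit 78) (nat_lit 0) (nat_lit 0) (XT.lf (nat_lit 0) (nat_lit 11829866435) (nat_lit 76) (nat_lit 35518852264) (nat_lit 76) (nat_lit 24545503964) (nat_lit 7) (nat_lit 4) (nat_lit 8) (nat_lit 5) (nat_lit 8) (nat_lit 4) (nat_lit 444) (nat_lit 266) (nat_lit 190)) (XT.lf (nat_lit 0) (nat_lit 21381560854) (nat_lit 76) (nat_lit 31768894169) (nat_lit 76) (nat_lit 20757741162) (nat_lit 7) (nat_lit 4) (nat_lit 8) (nat_lit 5)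 (nat_lit 8) (nat_lit 4) (nat_lit 445) (nat_lit 266) (nat_lit 189)))) (XT.nd (nat_lit 78) (nat_lit 0) (nat_lit 0) (XT.lf (nat_lit 0) (nat_lit 31173598130) (nat_lit 76) (nat_lit 27928782567) (nat_lit 76) (nat_lit 16880925962) (nat_lit 7) (nat_lit 4) (nat_lit 8) (nat_lit 5) (nat_lit 8) (nat_lit 4) (nat_lit 446) (nat_lit 266) (nat_lit 188)) (XT.nd (nat_lit 78) (nat_lit 0) (nat_lit 0) (XT.lf (nat_lit 0) (nat_lit 41214534411) (nat_lit 76) (nat_lit 23995162021) (nat_lit 76) (nat_lit 12911670853) (nat_lit 7) (nat_lit 4) (nat_lit 8) (nat_lit 5) (nat_lit 8) (nat_lit 4) (nat_lit 447) (nat_lit 266) (nat_lit 187)) (XT.lf (nat_lit 0) (nat_lit 51513143332) (nat_lit 76) (nat_lit 19964595387) (nat_lit 76) (nat_lit 8846507556) (nat_lit 7) (nat_lit 4) (nat_lit 8) (nat_lit 5) (nat_lit 8) (nat_lit 4) (nat_lit 448) (nat_lit 266) (nat_lit 186))))) (XT.nd (nat_lit 40560) (nat_lit 0) (nat_lit 3724) (XT.nd (nat_lit 40404) (nat_lit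 0) (nat_lit 4332) (XT.lf (nat_lit 0) (nat_lit 62078423677) (nat_lit 76) (nat_lit 15833560809) (nat_lit 76) (nat_lit 4681883986) (nat_lit 7) (nat_lit 4) (nat_lit 8) (nat_lit 5) (nat_lit 8) (nat_lit 4) (nat_lit 449) (nat_lit 266) (nat_lit 185)) (XT.nd (nat_lit 78) (nat_lit 228) (nat_lit 0) (XT.lf (nat_lit 0) (nat_lit 1495932846) (nat_lit 228) (nat_lit 2939552639) (nat_lit 0) (nat_lit 1495932846) (nat_lit 67) (nat_lit 5) (nat_lit 70) (nat_lit 4) (nat_lit 67) (nat_lit 4) (nat_lit 366) (nat_lit 267) (nat_lit 267)) (XT.lf (nat_lit 0) (nat_lit 2959507868) (nat_lit 228) (nat_lit 4836079372) (nat_lit 228) (nat_lit 4262530342) (nat_lit 64) (nat_lit 4) (nat_lit 67) (nat_lit 5) (nat_lit 67) (nat_lit 4) (nat_lit 367) (nat_lit 267) (nat_lit 266)))) (XT.nd (nat_lit 156) (nat_lit 380) (nat_lit 0) (XT.nd (nat_lit 78) (nat_lit 152) (nat_lit 0) (XT.lf (nat_lit 0) (nat_lit 429970569) (nat_lit 304) (nat_lit 257552493) (nat_lit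 76) (nat_lit 11572964036) (nat_lit 63) (nat_lit 5) (nat_lit 67) (nat_lit 5) (nat_lit 64) (nat_lit 4) (nat_lit 368) (nat_lit 267) (nat_lit 265)) (XT.lf (nat_lit 0) (nat_lit 5195593114) (nat_lit 228) (nat_lit 3698308730) (nat_lit 0) (nat_lit 3573245815) (nat_lit 61) (nat_lit 5) (nat_lit 64) (nat_lit 4) (nat_lit 61) (nat_lit 4) (nat_lit 369) (nat_lit 267) (nat_lit 264))) (XT.nd (nat_lit 78) (nat_lit 228) (nat_lit 0) (XT.lf (nat_lit 0) (nat_lit 5314160331) (nat_lit 152) (nat_lit 4749513533) (nat_lit 152) (nat_lit 2617575350) (nat_lit 59) (nat_lit 4) (nat_lit 61) (nat_lit 5) (nat_lit 61) (nat_lit 4) (nat_lit 370) (nat_lit 267) (nat_lit 263)) (XT.lf (nat_lit 0) (nat_lit 1607849880) (nat_lit 152) (nat_lit 478128688) (nat_lit 228) (nat_lit 10816619585) (nat_lit 56) (nat_lit 5) (nat_lit 58) (nat_lit 5) (nat_lit 59) (nat_lit 4) (nat_lit 371) (nat_lit 267) (nat_lit 262)))))) (XT.nd (nat_lit 468) (nat_lit 608) (nat_lit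 0) (XT.nd (nat_lit 234) (nat_lit 380) (nat_lit 0) (XT.nd (nat_lit 78) (nat_lit 380) (nat_lit 0) (XT.lf (nat_lit 0) (nat_lit 6890670184) (nat_lit 228) (nat_lit 2364643135) (nat_lit 0) (nat_lit 3874141158) (nat_lit 56) (nat_lit 5) (nat_lit 59) (nat_lit 4) (nat_lit 56) (nat_lit 4) (nat_lit 372) (nat_lit 267) (nat_lit 261)) (XT.nd (nat_lit 78) (nat_lit 228) (nat_lit 0) (XT.lf (nat_lit 0) (nat_lit 6791255741) (nat_lit 152) (nat_lit 5020997565) (nat_lit 152) (nat_lit 1551703639) (nat_lit 54) (nat_lit 4) (nat_lit 56) (nat_lit 5) (nat_lit 56) (nat_lit 4) (nat_lit 373) (nat_lit 267) (nat_lit 260)) (XT.lf (nat_lit 0) (nat_lit 2512645586) (nat_lit 152) (nat_lit 650663322) (nat_lit 228) (nat_lit 10442725138) (nat_lit 51) (nat_lit 5) (nat_lit 53) (nat_lit 5) (nat_lit 54) (nat_lit 4) (nat_lit 374) (nat_lit 267) (nat_lit 259)))) (XT.nd (nat_lit 78) (nat_lit 380) (nat_lit 0) (XT.lf (nat_lit 0) (nat_lit 7996113961) (nat_lit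 228) (nat_lit 2071844667) (nat_lit 0) (nat_lit 3786749065) (nat_lit 51) (nat_lit 5) (nat_lit 54) (nat_lit 4) (nat_lit 51) (nat_lit 4) (nat_lit 375) (nat_lit 267) (nat_lit 258)) (XT.nd (nat_lit 78) (nat_lit 228) (nat_lit 0) (XT.lf (nat_lit 0) (nat_lit 7188435247) (nat_lit 152) (nat_lit 5767306108) (nat_lit 152) (nat_lit 1155665462) (nat_lit 49) (nat_lit 4) (nat_lit 51) (nat_lit 5) (nat_lit 51) (nat_lit 4) (nat_lit 376) (nat_lit 267) (nat_lit 257)) (XT.lf (nat_lit 0) (nat_lit 2235786316) (nat_lit 152) (nat_lit 1329724000) (nat_lit 228) (nat_lit 10810778224) (nat_lit 46) (nat_lit 5) (nat_lit 48) (nat_lit 5) (nat_lit 49) (nat_lit 4) (nat_lit 377) (nat_lit 267) (nat_lit 256))))) (XT.nd (nat_lit 234) (nat_lit 304) (nat_lit 0) (XT.nd (nat_lit 78) (nat_lit 304) (nat_lit 0) (XT.lf (nat_lit 0) (nat_lit 8413811397) (nat_lit 228) (nat_lit 3045551592) (nat_lit 0) (nat_lit 3189167608) (nat_lit 46) (nat_lit 5) (nat_lit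 49) (nat_lit 4) (nat_lit 46) (nat_lit 4) (nat_lit 378) (nat_lit 267) (nat_lit 255)) (XT.nd (nat_lit 78) (nat_lit 152) (nat_lit 0) (XT.lf (nat_lit 0) (nat_lit 6269812610) (nat_lit 152) (nat_lit 7120856401) (nat_lit 152) (nat_lit 1538795819) (nat_lit 44) (nat_lit 4) (nat_lit 46) (nat_lit 5) (nat_lit 46) (nat_lit 4) (nat_lit 379) (nat_lit 267) (nat_lit 254)) (XT.lf (nat_lit 0) (nat_lit 525570433) (nat_lit 76) (nat_lit 2654054005) (nat_lit 152) (nat_lit 12039889421) (nat_lit 42) (nat_lit 5) (nat_lit 43) (nat_lit 5) (nat_lit 44) (nat_lit 4) (nat_lit 380) (nat_lit 267) (nat_lit 253)))) (XT.nd (nat_lit 156) (nat_lit 152) (nat_lit 0) (XT.nd (nat_lit 78) (nat_lit 152) (nat_lit 0) (XT.lf (nat_lit 0) (nat_lit 8025958513) (nat_lit 152) (nat_lit 5548851079) (nat_lit 0) (nat_lit 1942495615) (nat_lit 42) (nat_lit 5) (nat_lit 44) (nat_lit 4) (nat_lit 42) (nat_lit 4) (nat_lit 381) (nat_lit 267) (nat_lit 252)) (XT.lf (nat_lit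 0) (nat_lit 3760157030) (nat_lit 152) (nat_lit 9232826719) (nat_lit 152) (nat_lit 2831803629) (nat_lit 40) (nat_lit 4) (nat_lit 42) (nat_lit 5) (nat_lit 42) (nat_lit 4) (nat_lit 382) (nat_lit 267) (nat_lit 251))) (XT.nd (nat_lit 78) (nat_lit 76) (nat_lit 0) (XT.lf (nat_lit 0) (nat_lit 1898768360) (nat_lit 228) (nat_lit 2854834183) (nat_lit 76) (nat_lit 11388250185) (nat_lit 39) (nat_lit 5) (nat_lit 42) (nat_lit 5) (nat_lit 40) (nat_lit 4) (nat_lit 383) (nat_lit 267) (nat_lit 250)) (XT.lf (nat_lit 0) (nat_lit 6578446919) (nat_lit 76) (nat_lit 114711609) (nat_lit 152) (nat_lit 9775080606) (nat_lit 38) (nat_lit 5) (nat_lit 39) (nat_lit 5) (nat_lit 40) (nat_lit 4) (nat_lit 384) (nat_lit 267) (nat_lit 249))))))) (XT.nd (nat_lit 1014) (nat_lit 684) (nat_lit 0) (XT.nd (nat_lit 468) (nat_lit 380) (nat_lit 0) (XT.nd (nat_lit 234) (nat_lit 228) (nat_lit 0) (XT.nd (nat_lit 78) (nat_lit 304) (nat_lit 0) (XT.lf (nat_lit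 0) (nat_lit 11621247759) (nat_lit 152) (nat_lit 648917050) (nat_lit 0) (nat_lit 4534570619) (nat_lit 38) (nat_lit 5) (nat_lit 40) (nat_lit 4) (nat_lit 38) (nat_lit 4) (nat_lit 385) (nat_lit 267) (nat_lit 248)) (XT.nd (nat_lit 78) (nat_lit 152) (nat_lit 0) (XT.lf (nat_lit 0) (nat_lit 8892544910) (nat_lit 152) (nat_lit 7809626600) (nat_lit 152) (nat_lit 449019250) (nat_lit 36) (nat_lit 4) (nat_lit 38) (nat_lit 5) (nat_lit 38) (nat_lit 4) (nat_lit 386) (nat_lit 267) (nat_lit 247)) (XT.lf (nat_lit 0) (nat_lit 1054458577) (nat_lit 76) (nat_lit 3221904766) (nat_lit 152) (nat_lit 13232354434) (nat_lit 34) (nat_lit 5) (nat_lit 35) (nat_lit 5) (nat_lit 36) (nat_lit 4) (nat_lit 387) (nat_lit 267) (nat_lit 246)))) (XT.nd (nat_lit 78) (nat_lit 228) (nat_lit 0) (XT.lf (nat_lit 0) (nat_lit 9151985820) (nat_lit 152) (nat_lit 7227464390) (nat_lit 0) (nat_lit 1496874648) (nat_lit 34) (nat_lit 5) (nat_lit 36) (nat_lit 4)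 (nat_lit 34) (nat_lit 4) (nat_lit 388) (nat_lit 267) (nat_lit 245)) (XT.nd (nat_lit 78) (nat_lit 76) (nat_lit 0) (XT.lf (nat_lit 0) (nat_lit 2140842341) (nat_lit 152) (nat_lit 12006707299) (nat_lit 152) (nat_lit 4108212682) (nat_lit 32) (nat_lit 4) (nat_lit 34) (nat_lit 5) (nat_lit 34) (nat_lit 4) (nat_lit 389) (nat_lit 267) (nat_lit 244)) (XT.lf (nat_lit 0) (nat_lit 628813885) (nat_lit 228) (nat_lit 6858297036) (nat_lit 76) (nat_lit 11159446326) (nat_lit 31) (nat_lit 5) (nat_lit 34) (nat_lit 5) (nat_lit 32) (nat_lit 4) (nat_lit 390) (nat_lit 267) (nat_lit 243))))) (XT.nd (nat_lit 234) (nat_lit 152) (nat_lit 0) (XT.nd (nat_lit 78) (nat_lit 152) (nat_lit 0) (XT.lf (nat_lit 0) (nat_lit 2543900906) (nat_lit 76) (nat_lit 2829548536) (nat_lit 152) (nat_lit 13675975545) (nat_lit 30) (nat_lit 5) (nat_lit 31) (nat_lit 5) (nat_lit 32) (nat_lit 4) (nat_lit 391) (nat_lit 267) (nat_lit 242)) (XT.nd (nat_lit 78) (nat_lit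 152) (nat_lit 0) (XT.lf (nat_lit 0) (nat_lit 10273160599) (nat_lit 152) (nat_lit 7254513419) (nat_lit 0) (nat_lit 1936333617) (nat_lit 30) (nat_lit 5) (nat_lit 32) (nat_lit 4) (nat_lit 30) (nat_lit 4) (nat_lit 392) (nat_lit 267) (nat_lit 241)) (XT.lf (nat_lit 0) (nat_lit 2150733555) (nat_lit 152) (nat_lit 13143916468) (nat_lit 152) (nat_lit 4597144789) (nat_lit 28) (nat_lit 4) (nat_lit 30) (nat_lit 5) (nat_lit 30) (nat_lit 4) (nat_lit 393) (nat_lit 267) (nat_lit 240)))) (XT.nd (nat_lit 156) (nat_lit 0) (nat_lit 0) (XT.nd (nat_lit 78) (nat_lit 76) (nat_lit 0) (XT.lf (nat_lit 0) (nat_lit 131938275) (nat_lit 228) (nat_lit 8482766782) (nat_lit 76) (nat_lit 11717676087) (nat_lit 27) (nat_lit 5) (nat_lit 30) (nat_lit 5) (nat_lit 28) (nat_lit 4) (nat_lit 394) (nat_lit 267) (nat_lit 239)) (XT.lf (nat_lit 0) (nat_lit 891783234) (nat_lit 76) (nat_lit 3955644218) (nat_lit 152) (nat_lit 15939293926) (nat_lit 26) (nat_lit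 5) (nat_lit 27) (nat_lit 5) (nat_lit 28) (nat_lit 4) (nat_lit 395) (nat_lit 267) (nat_lit 238))) (XT.nd (nat_lit 78) (nat_lit 0) (nat_lit 0) (XT.lf (nat_lit 0) (nat_lit 9727581606) (nat_lit 152) (nat_lit 10673233942) (nat_lit 0) (nat_lit 853189729) (nat_lit 26) (nat_lit 5) (nat_lit 28) (nat_lit 4) (nat_lit 26) (nat_lit 4) (nat_lit 396) (nat_lit 267) (nat_lit 237)) (XT.lf (nat_lit 0) (nat_lit 14723972784) (nat_lit 152) (nat_lit 1343768359) (nat_lit 0) (nat_lit 5668480767) (nat_lit 26) (nat_lit 5) (nat_lit 28) (nat_lit 4) (nat_lit 26) (nat_lit 4) (nat_lit 397) (nat_lit 267) (nat_lit 236)))))) (XT.nd (nat_lit 546) (nat_lit 304) (nat_lit 0) (XT.nd (nat_lit 234) (nat_lit 152) (nat_lit 0) (XT.nd (nat_lit 78) (nat_lit 152) (nat_lit 0) (XT.lf (nat_lit 0) (nat_lit 8301629326) (nat_lit 76) (nat_lit 11581113708) (nat_lit 76) (nat_lit 2349796313) (nat_lit 25) (nat_lit 4) (nat_lit 26) (nat_lit 5) (nat_lit 26) (nat_lit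 4) (nat_lit 398) (nat_lit 267) (nat_lit 235)) (XT.nd (nat_lit 78) (nat_lit 76) (nat_lit 0) (XT.lf (nat_lit 0) (nat_lit 2351157511) (nat_lit 152) (nat_lit 4629171897) (nat_lit 76) (nat_lit 15764323498) (nat_lit 24) (nat_lit 5) (nat_lit 26) (nat_lit 5) (nat_lit 25) (nat_lit 4) (nat_lit 399) (nat_lit 267) (nat_lit 234)) (XT.lf (nat_lit 0) (nat_lit 4901614833) (nat_lit 76) (nat_lit 2226153029) (nat_lit 152) (nat_lit 16144216523) (nat_lit 23) (nat_lit 5) (nat_lit 24) (nat_lit 5) (nat_lit 25) (nat_lit 4) (nat_lit 400) (nat_lit 267) (nat_lit 233)))) (XT.nd (nat_lit 156) (nat_lit 76) (nat_lit 0) (XT.nd (nat_lit 78) (nat_lit 76) (nat_lit 0) (XT.lf (nat_lit 0) (nat_lit 12055487208) (nat_lit 152) (nat_lit 9149235058) (nat_lit 0) (nat_lit 2610187151) (nat_lit 23) (nat_lit 5) (nat_lit 25) (nat_lit 4) (nat_lit 23) (nat_lit 4) (nat_lit 401) (nat_lit 267) (nat_lit 232)) (XT.lf (nat_lit 0) (nat_lit 211606479) (nat_lit 76)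 (nat_lit 16880332482) (nat_lit 76) (nat_lit 7283363910) (nat_lit 22) (nat_lit 4) (nat_lit 23) (nat_lit 5) (nat_lit 23) (nat_lit 4) (nat_lit 402) (nat_lit 267) (nat_lit 231))) (XT.nd (nat_lit 78) (nat_lit 76) (nat_lit 0) (XT.lf (nat_lit 0) (nat_lit 9922975346) (nat_lit 76) (nat_lit 12386431075) (nat_lit 76) (nat_lit 2642211516) (nat_lit 22) (nat_lit 4) (nat_lit 23) (nat_lit 5) (nat_lit 23) (nat_lit 4) (nat_lit 403) (nat_lit 267) (nat_lit 230)) (XT.lf (nat_lit 0) (nat_lit 2035196610) (nat_lit 152) (nat_lit 5755732561) (nat_lit 76) (nat_lit 17755521384) (nat_lit 21) (nat_lit 5) (nat_lit 23) (nat_lit 5) (nat_lit 22) (nat_lit 4) (nat_lit 404) (nat_lit 267) (nat_lit 229))))) (XT.nd (nat_lit 234) (nat_lit 228) (nat_lit 0) (XT.nd (nat_lit 78) (nat_lit 0) (nat_lit 0) (XT.lf (nat_lit 0) (nat_lit 3729710622) (nat_lit 76) (nat_lit 3046491585) (nat_lit 152) (nat_lit 19382856537) (nat_lit 20) (nat_lit 5) (nat_lit 21)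 (nat_lit 5) (nat_lit 22) (nat_lit 4) (nat_lit 405) (nat_lit 267) (nat_lit 228)) (XT.nd (nat_lit 78) (nat_lit 0) (nat_lit 0) (XT.lf (nat_lit 0) (nat_lit 11676513878) (nat_lit 152) (nat_lit 13301303408) (nat_lit 0) (nat_lit 1811722255) (nat_lit 20) (nat_lit 5) (nat_lit 22) (nat_lit 4) (nat_lit 20) (nat_lit 4) (nat_lit 406) (nat_lit 267) (nat_lit 227)) (XT.lf (nat_lit 0) (nat_lit 16696414630) (nat_lit 152) (nat_lit 4038746174) (nat_lit 0) (nat_lit 6704603012) (nat_lit 20) (nat_lit 5) (nat_lit 22) (nat_lit 4) (nat_lit 20) (nat_lit 4) (nat_lit 407) (nat_lit 267) (nat_lit 226)))) (XT.nd (nat_lit 156) (nat_lit 152) (nat_lit 0) (XT.nd (nat_lit 78) (nat_lit 0) (nat_lit 0) (XT.lf (nat_lit 0) (nat_lit 5503086863) (nat_lit 76) (nat_lit 16360818217) (nat_lit 76) (nat_lit 6245686217) (nat_lit 19) (nat_lit 4) (nat_lit 20) (nat_lit 5) (nat_lit 20) (nat_lit 4) (nat_lit 408) (nat_lit 267) (nat_lit 225)) (XT.lf (nat_lit 0)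 (nat_lit 15309018348) (nat_lit 76) (nat_lit 11862898481) (nat_lit 76) (nat_lit 1628037954) (nat_lit 19) (nat_lit 4) (nat_lit 20) (nat_lit 5) (nat_lit 20) (nat_lit 4) (nat_lit 409) (nat_lit 267) (nat_lit 224))) (XT.nd (nat_lit 78) (nat_lit 76) (nat_lit 0) (XT.lf (nat_lit 0) (nat_lit 3012884710) (nat_lit 152) (nat_lit 4234945852) (nat_lit 76) (nat_lit 22263928662) (nat_lit 18) (nat_lit 5) (nat_lit 20) (nat_lit 5) (nat_lit 19) (nat_lit 4) (nat_lit 410) (nat_lit 267) (nat_lit 223)) (XT.lf (nat_lit 0) (nat_lit 5285774156) (nat_lit 76) (nat_lit 2472714312) (nat_lit 152) (nat_lit 22486006056) (nat_lit 17) (nat_lit 5) (nat_lit 18) (nat_lit 5) (nat_lit 19) (nat_lit 4) (nat_lit 411) (nat_lit 267) (nat_lit 222))))))))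
noncomputable def xc34 : XT := (XT.nd (nat_lit 2028) (nat_lit 76) (nat_lit 0) (XT.nd (nat_lit 1014) (nat_lit 380) (nat_lit 0) (XT.nd (nat_lit 468) (nat_lit 152) (nat_lit 0) (XT.nd (nat_lit 234) (nat_lit 76) (nat_lit 0) (XT.nd (nat_lit 78) (nat_lit 76) (nat_lit 0) (XT.lf (nat_lit 0) (nat_lit 12660653015) (nat_lit 152) (nat_lit 15943044692) (nat_lit 0) (nat_lit 2395093793) (nat_lit 17) (nat_lit 5) (nat_lit 19) (nat_lit 4) (nat_lit 17) (nat_lit 4) (nat_lit 412) (nat_lit 267) (nat_lit 221)) (XT.nd (nat_lit 78) (nat_lit 76) (nat_lit 0) (XT.lf (nat_lit 0) (nat_lit 17683389555) (nat_lit 152) (nat_lit 6778576408) (nat_lit 0) (nat_lit 7314551454) (nat_lit 17) (nat_lit 5) (nat_lit 19) (nat_lit 4) (nat_lit 17) (nat_lit 4) (nat_lit 413) (nat_lit 267) (nat_lit 220)) (XT.lf (nat_lit 0) (nat_lit 2617539129) (nat_lit 76) (nat_lit 20214939901) (nat_lit 76) (nat_lit 9745831043) (nat_lit 16) (nat_lit 4) (nat_lit 17) (nat_lit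 5) (nat_lit 17) (nat_lit 4) (nat_lit 414) (nat_lit 267) (nat_lit 219)))) (XT.nd (nat_lit 78) (nat_lit 76) (nat_lit 0) (XT.lf (nat_lit 0) (nat_lit 12341053034) (nat_lit 76) (nat_lit 15814491216) (nat_lit 76) (nat_lit 5248032109) (nat_lit 16) (nat_lit 4) (nat_lit 17) (nat_lit 5) (nat_lit 17) (nat_lit 4) (nat_lit 415) (nat_lit 267) (nat_lit 218)) (XT.nd (nat_lit 78) (nat_lit 76) (nat_lit 0) (XT.lf (nat_lit 0) (nat_lit 22265554618) (nat_lit 76) (nat_lit 11325225186) (nat_lit 76) (nat_lit 664251274) (nat_lit 16) (nat_lit 4) (nat_lit 17) (nat_lit 5) (nat_lit 17) (nat_lit 4) (nat_lit 416) (nat_lit 267) (nat_lit 217)) (XT.lf (nat_lit 0) (nat_lit 3931276594) (nat_lit 152) (nat_lit 2772244371) (nat_lit 76) (nat_lit 28428740997) (nat_lit 15) (nat_lit 5) (nat_lit 17) (nat_lit 5) (nat_lit 16) (nat_lit 4) (nat_lit 417) (nat_lit 267) (nat_lit 216))))) (XT.nd (nat_lit 234) (nat_lit 76) (nat_lit 0) (XT.nd (nat_lit 78) (nat_lit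 0) (nat_lit 0) (XT.lf (nat_lit 0) (nat_lit 6760433385) (nat_lit 76) (nat_lit 1910629921) (nat_lit 152) (nat_lit 27363961241) (nat_lit 14) (nat_lit 5) (nat_lit 15) (nat_lit 5) (nat_lit 16) (nat_lit 4) (nat_lit 418) (nat_lit 267) (nat_lit 215)) (XT.nd (nat_lit 78) (nat_lit 0) (nat_lit 0) (XT.lf (nat_lit 0) (nat_lit 13565264412) (nat_lit 152) (nat_lit 20443997814) (nat_lit 0) (nat_lit 2955245420) (nat_lit 14) (nat_lit 5) (nat_lit 16) (nat_lit 4) (nat_lit 14) (nat_lit 4) (nat_lit 419) (nat_lit 267) (nat_lit 214)) (XT.lf (nat_lit 0) (nat_lit 18581384570) (nat_lit 152) (nat_lit 11451405740) (nat_lit 0) (nat_lit 7889836276) (nat_lit 14) (nat_lit 5) (nat_lit 16) (nat_lit 4) (nat_lit 14) (nat_lit 4) (nat_lit 420) (nat_lit 267) (nat_lit 213)))) (XT.nd (nat_lit 156) (nat_lit 0) (nat_lit 0) (XT.nd (nat_lit 78) (nat_lit 76) (nat_lit 0) (XT.lf (nat_lit 0) (nat_lit 23705440653) (nat_lit 152) (nat_lit 2270591192) (nat_lit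 0) (nat_lit 12934737698) (nat_lit 14) (nat_lit 5) (nat_lit 16) (nat_lit 4) (nat_lit 14) (nat_lit 4) (nat_lit 421) (nat_lit 267) (nat_lit 212)) (XT.lf (nat_lit 0) (nat_lit 7247900547) (nat_lit 76) (nat_lit 21763680698) (nat_lit 76) (nat_lit 10916128557) (nat_lit 13) (nat_lit 4) (nat_lit 14) (nat_lit 5) (nat_lit 14) (nat_lit 4) (nat_lit 422) (nat_lit 267) (nat_lit 211))) (XT.nd (nat_lit 78) (nat_lit 0) (nat_lit 0) (XT.lf (nat_lit 0) (nat_lit 17020088314) (nat_lit 76) (nat_lit 17438887327) (nat_lit 76) (nat_lit 6516724327) (nat_lit 13) (nat_lit 4) (nat_lit 14) (nat_lit 5) (nat_lit 14) (nat_lit 4) (nat_lit 423) (nat_lit 267) (nat_lit 210)) (XT.lf (nat_lit 0) (nat_lit 27009321698) (nat_lit 76) (nat_lit 13020801306) (nat_lit 76) (nat_lit 2026200578) (nat_lit 13) (nat_lit 4) (nat_lit 14) (nat_lit 5) (nat_lit 14) (nat_lit 4) (nat_lit 424) (nat_lit 267) (nat_lit 209)))))) (XT.nd (nat_lit 468) (nat_lit 228) (nat_lit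 0) (XT.nd (nat_lit 234) (nat_lit 0) (nat_lit 0) (XT.nd (nat_lit 78) (nat_lit 76) (nat_lit 0) (XT.lf (nat_lit 0) (nat_lit 2509423990) (nat_lit 152) (nat_lit 5970797919) (nat_lit 76) (nat_lit 34689564902) (nat_lit 12) (nat_lit 5) (nat_lit 14) (nat_lit 5) (nat_lit 13) (nat_lit 4) (nat_lit 425) (nat_lit 267) (nat_lit 208)) (XT.nd (nat_lit 78) (nat_lit 0) (nat_lit 0) (XT.lf (nat_lit 0) (nat_lit 3350505824) (nat_lit 76) (nat_lit 3784328633) (nat_lit 152) (nat_lit 37181387748) (nat_lit 11) (nat_lit 5) (nat_lit 12) (nat_lit 5) (nat_lit 13) (nat_lit 4) (nat_lit 426) (nat_lit 267) (nat_lit 207)) (XT.lf (nat_lit 0) (nat_lit 11932327721) (nat_lit 152) (nat_lit 32504698783) (nat_lit 0) (nat_lit 1059027810) (nat_lit 11) (nat_lit 5) (nat_lit 13) (nat_lit 4) (nat_lit 11) (nat_lit 4) (nat_lit 427) (nat_lit 267) (nat_lit 206)))) (XT.nd (nat_lit 78) (nat_lit 0) (nat_lit 0) (XT.lf (nat_lit 0) (nat_lit 16874625504) (nat_lit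 152) (nat_lit 23897792488) (nat_lit 0) (nat_lit 5938840173) (nat_lit 11) (nat_lit 5) (nat_lit 13) (nat_lit 4) (nat_lit 11) (nat_lit 4) (nat_lit 428) (nat_lit 267) (nat_lit 205)) (XT.nd (nat_lit 78) (nat_lit 0) (nat_lit 0) (XT.lf (nat_lit 0) (nat_lit 21929669038) (nat_lit 152) (nat_lit 15101099619) (nat_lit 0) (nat_lit 10933218249) (nat_lit 11) (nat_lit 5) (nat_lit 13) (nat_lit 4) (nat_lit 11) (nat_lit 4) (nat_lit 429) (nat_lit 267) (nat_lit 204)) (XT.lf (nat_lit 0) (nat_lit 27101875350) (nat_lit 152) (nat_lit 6106933745) (nat_lit 0) (nat_lit 16046526060) (nat_lit 11) (nat_lit 5) (nat_lit 13) (nat_lit 4) (nat_lit 11) (nat_lit 4) (nat_lit 430) (nat_lit 267) (nat_lit 203))))) (XT.nd (nat_lit 234) (nat_lit 152) (nat_lit 0) (XT.nd (nat_lit 78) (nat_lit 0) (nat_lit 0) (XT.lf (nat_lit 0) (nat_lit 3154112203) (nat_lit 76) (nat_lit 29271970896) (nat_lit 76) (nat_lit 18159438595) (nat_lit 10) (nat_lit 4) (nat_lit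 11) (nat_lit 5) (nat_lit 11) (nat_lit 4) (nat_lit 431) (nat_lit 267) (nat_lit 202)) (XT.nd (nat_lit 78) (nat_lit 0) (nat_lit 0) (XT.lf (nat_lit 0) (nat_lit 12754314978) (nat_lit 76) (nat_lit 25184247547) (nat_lit 76) (nat_lit 14016197759) (nat_lit 10) (nat_lit 4) (nat_lit 11) (nat_lit 5) (nat_lit 11) (nat_lit 4) (nat_lit 432) (nat_lit 267) (nat_lit 201)) (XT.lf (nat_lit 0) (nat_lit 22580523151) (nat_lit 76) (nat_lit 21003735308) (nat_lit 76) (nat_lit 9781785047) (nat_lit 10) (nat_lit 4) (nat_lit 11) (nat_lit 5) (nat_lit 11) (nat_lit 4) (nat_lit 433) (nat_lit 267) (nat_lit 200)))) (XT.nd (nat_lit 156) (nat_lit 152) (nat_lit 0) (XT.nd (nat_lit 78) (nat_lit 0) (nat_lit 0) (XT.lf (nat_lit 0) (nat_lit 32641322727) (nat_lit 76) (nat_lit 16726781302) (nat_lit 76) (nat_lit 5452500486) (nat_lit 10) (nat_lit 4) (nat_lit 11) (nat_lit 5) (nat_lit 11) (nat_lit 4) (nat_lit 434) (nat_lit 267) (nat_lit 199)) (XT.lf (nat_lit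 0) (nat_lit 42945504697) (nat_lit 76) (nat_lit 12349648387) (nat_lit 76) (nat_lit 1024561205) (nat_lit 10) (nat_lit 4) (nat_lit 11) (nat_lit 5) (nat_lit 11) (nat_lit 4) (nat_lit 435) (nat_lit 267) (nat_lit 198))) (XT.nd (nat_lit 78) (nat_lit 76) (nat_lit 0) (XT.lf (nat_lit 0) (nat_lit 3437489093) (nat_lit 152) (nat_lit 4396310889) (nat_lit 76) (nat_lit 50029871723) (nat_lit 9) (nat_lit 5) (nat_lit 11) (nat_lit 5) (nat_lit 10) (nat_lit 4) (nat_lit 436) (nat_lit 267) (nat_lit 197)) (XT.lf (nat_lit 0) (nat_lit 4880350337) (nat_lit 76) (nat_lit 3150513681) (nat_lit 152) (nat_lit 51422240186) (nat_lit 8) (nat_lit 5) (nat_lit 9) (nat_lit 5) (nat_lit 10) (nat_lit 4) (nat_lit 437) (nat_lit 267) (nat_lit 196))))))) (XT.nd (nat_lit 41184) (nat_lit 0) (nat_lit 2964) (XT.nd (nat_lit 468) (nat_lit 76) (nat_lit 0) (XT.nd (nat_lit 234) (nat_lit 0) (nat_lit 0) (XT.nd (nat_lit 78) (nat_lit 0) (nat_lit 0) (XT.lf (nat_lit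 0) (nat_lit 12794156489) (nat_lit 152) (nat_lit 46635701467) (nat_lit 0) (nat_lit 1659400525) (nat_lit 8) (nat_lit 5) (nat_lit 10) (nat_lit 4) (nat_lit 8) (nat_lit 4) (nat_lit 438) (nat_lit 267) (nat_lit 195)) (XT.nd (nat_lit 78) (nat_lit 0) (nat_lit 0) (XT.lf (nat_lit 0) (nat_lit 17703577951) (nat_lit 152) (nat_lit 38545828781) (nat_lit 0) (nat_lit 6524995971) (nat_lit 8) (nat_lit 5) (nat_lit 10) (nat_lit 4) (nat_lit 8) (nat_lit 4) (nat_lit 439) (nat_lit 267) (nat_lit 194)) (XT.lf (nat_lit 0) (nat_lit 22733133527) (nat_lit 152) (nat_lit 30265782324) (nat_lit 0) (nat_lit 11512002016) (nat_lit 8) (nat_lit 5) (nat_lit 10) (nat_lit 4) (nat_lit 8) (nat_lit 4) (nat_lit 440) (nat_lit 267) (nat_lit 193)))) (XT.nd (nat_lit 78) (nat_lit 0) (nat_lit 0) (XT.lf (nat_lit 0) (nat_lit 27887217973) (nat_lit 152) (nat_lit 21788327104) (nat_lit 0) (nat_lit 16624776238) (nat_lit 8) (nat_lit 5) (nat_lit 10) (nat_lit 4) (nat_lit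 8) (nat_lit 4) (nat_lit 441) (nat_lit 267) (nat_lit 192)) (XT.nd (nat_lit 78) (nat_lit 0) (nat_lit 0) (XT.lf (nat_lit 0) (nat_lit 33170334860) (nat_lit 152) (nat_lit 13106055635) (nat_lit 0) (nat_lit 21867786111) (nat_lit 8) (nat_lit 5) (nat_lit 10) (nat_lit 4) (nat_lit 8) (nat_lit 4) (nat_lit 442) (nat_lit 267) (nat_lit 191)) (XT.lf (nat_lit 0) (nat_lit 38587100501) (nat_lit 152) (nat_lit 4211381468) (nat_lit 0) (nat_lit 27245612904) (nat_lit 8) (nat_lit 5) (nat_lit 10) (nat_lit 4) (nat_lit 8) (nat_lit 4) (nat_lit 443) (nat_lit 267) (nat_lit 190))))) (XT.nd (nat_lit 234) (nat_lit 0) (nat_lit 0) (XT.nd (nat_lit 78) (nat_lit 0) (nat_lit 0) (XT.lf (nat_lit 0) (nat_lit 5001056059) (nat_lit 76) (nat_lit 39189265146) (nat_lit 76) (nat_lit 27809972842) (nat_lit 7) (nat_lit 4) (nat_lit 8) (nat_lit 5) (nat_lit 8) (nat_lit 4) (nat_lit 444) (nat_lit 267) (nat_lit 189)) (XT.nd (nat_lit 78) (nat_lit 0) (nat_lit 0)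 (XT.lf (nat_lit 0) (nat_lit 14529987928) (nat_lit 76) (nat_lit 35450314556) (nat_lit 76) (nat_lit 24034318653) (nat_lit 7) (nat_lit 4) (nat_lit 8) (nat_lit 5) (nat_lit 8) (nat_lit 4) (nat_lit 445) (nat_lit 267) (nat_lit 188)) (XT.lf (nat_lit 0) (nat_lit 24299925641) (nat_lit 76) (nat_lit 31620889853) (nat_lit 76) (nat_lit 20169259388) (nat_lit 7) (nat_lit 4) (nat_lit 8) (nat_lit 5) (nat_lit 8) (nat_lit 4) (nat_lit 446) (nat_lit 267) (nat_lit 187)))) (XT.nd (nat_lit 156) (nat_lit 0) (nat_lit 0) (XT.nd (nat_lit 78) (nat_lit 0) (nat_lit 0) (XT.lf (nat_lit 0) (nat_lit 34319406036) (nat_lit 76) (nat_lit 27697644936) (nat_lit 76) (nat_lit 16211417809) (nat_lit 7) (nat_lit 4) (nat_lit 8) (nat_lit 5) (nat_lit 8) (nat_lit 4) (nat_lit 447) (nat_lit 267) (nat_lit 186)) (XT.lf (nat_lit 0) (nat_lit 44597183999) (nat_lit 76) (nat_lit 23677151728) (nat_lit 76) (nat_lit 12157335608) (nat_lit 7) (nat_lit 4) (nat_lit 8)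 (nat_lit 5) (nat_lit 8) (nat_lit 4) (nat_lit 448) (nat_lit 267) (nat_lit 185))) (XT.nd (nat_lit 40248) (nat_lit 0) (nat_lit 5016) (XT.lf (nat_lit 0) (nat_lit 55142240113) (nat_lit 76) (nat_lit 19555897177) (nat_lit 76) (nat_lit 8003470385) (nat_lit 7) (nat_lit 4) (nat_lit 8) (nat_lit 5) (nat_lit 8) (nat_lit 4) (nat_lit 449) (nat_lit 267) (nat_lit 184)) (XT.lf (nat_lit 0) (nat_lit 2869067044) (nat_lit 228) (nat_lit 6092393) (nat_lit 0) (nat_lit 2869067044) (nat_lit 73) (nat_lit 5) (nat_lit 76) (nat_lit 4) (nat_lit 73) (nat_lit 4) (nat_lit 364) (nat_lit 268) (nat_lit 268)))))) (XT.nd (nat_lit 546) (nat_lit 760) (nat_lit 0) (XT.nd (nat_lit 234) (nat_lit 608) (nat_lit 0) (XT.nd (nat_lit 78) (nat_lit 456) (nat_lit 0) (XT.lf (nat_lit 0) (nat_lit 8800481386) (nat_lit 228) (nat_lit 1740908198) (nat_lit 228) (nat_lit 1132430032) (nat_lit 70) (nat_lit 4) (nat_lit 73) (nat_lit 5) (nat_lit 73) (nat_lit 4) (nat_lit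 365) (nat_lit 268) (nat_lit 267)) (XT.nd (nat_lit 78) (nat_lit 228) (nat_lit 0) (XT.lf (nat_lit 0) (nat_lit 3530893032) (nat_lit 228) (nat_lit 5966921315) (nat_lit 0) (nat_lit 2366588501) (nat_lit 67) (nat_lit 5) (nat_lit 70) (nat_lit 4) (nat_lit 67) (nat_lit 4) (nat_lit 366) (nat_lit 268) (nat_lit 266)) (XT.lf (nat_lit 0) (nat_lit 2782989027) (nat_lit 228) (nat_lit 5499707229) (nat_lit 228) (nat_lit 3778558980) (nat_lit 64) (nat_lit 4) (nat_lit 67) (nat_lit 5) (nat_lit 67) (nat_lit 4) (nat_lit 367) (nat_lit 268) (nat_lit 265)))) (XT.nd (nat_lit 156) (nat_lit 380) (nat_lit 0) (XT.nd (nat_lit 78) (nat_lit 152) (nat_lit 0) (XT.lf (nat_lit 0) (nat_lit 854423586) (nat_lit 304) (nat_lit 527293338) (nat_lit 76) (nat_lit 10883283613) (nat_lit 63) (nat_lit 5) (nat_lit 67) (nat_lit 5) (nat_lit 64) (nat_lit 4) (nat_lit 368) (nat_lit 268) (nat_lit 264)) (XT.lf (nat_lit 0) (nat_lit 5560935361) (nat_lit 228) (nat_lit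 4057063651) (nat_lit 0) (nat_lit 2855448149) (nat_lit 61) (nat_lit 5) (nat_lit 64) (nat_lit 4) (nat_lit 61) (nat_lit 4) (nat_lit 369) (nat_lit 268) (nat_lit 263))) (XT.nd (nat_lit 78) (nat_lit 228) (nat_lit 0) (XT.lf (nat_lit 0) (nat_lit 4863354062) (nat_lit 152) (nat_lit 5513011097) (nat_lit 152) (nat_lit 2312775453) (nat_lit 59) (nat_lit 4) (nat_lit 61) (nat_lit 5) (nat_lit 61) (nat_lit 4) (nat_lit 370) (nat_lit 268) (nat_lit 262)) (XT.lf (nat_lit 0) (nat_lit 1051966051) (nat_lit 152) (nat_lit 1279334430) (nat_lit 228) (nat_lit 10580718739) (nat_lit 56) (nat_lit 5) (nat_lit 58) (nat_lit 5) (nat_lit 59) (nat_lit 4) (nat_lit 371) (nat_lit 268) (nat_lit 261))))) (XT.nd (nat_lit 234) (nat_lit 380) (nat_lit 0) (XT.nd (nat_lit 78) (nat_lit 380) (nat_lit 0) (XT.lf (nat_lit 0) (nat_lit 7080376677) (nat_lit 228) (nat_lit 3005939617) (nat_lit 0) (nat_lit 3054239032) (nat_lit 56) (nat_lit 5) (nat_lit 59) (nat_lit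 4) (nat_lit 56) (nat_lit 4) (nat_lit 372) (nat_lit 268) (nat_lit 260)) (XT.nd (nat_lit 78) (nat_lit 228) (nat_lit 0) (XT.lf (nat_lit 0) (nat_lit 6054323457) (nat_lit 152) (nat_lit 5894034303) (nat_lit 152) (nat_lit 1428319084) (nat_lit 54) (nat_lit 4) (nat_lit 56) (nat_lit 5) (nat_lit 56) (nat_lit 4) (nat_lit 373) (nat_lit 268) (nat_lit 259)) (XT.lf (nat_lit 0) (nat_lit 1663851502) (nat_lit 152) (nat_lit 1565873159) (nat_lit 228) (nat_lit 10390640896) (nat_lit 51) (nat_lit 5) (nat_lit 53) (nat_lit 5) (nat_lit 54) (nat_lit 4) (nat_lit 374) (nat_lit 268) (nat_lit 258)))) (XT.nd (nat_lit 156) (nat_lit 228) (nat_lit 0) (XT.nd (nat_lit 78) (nat_lit 152) (nat_lit 0) (XT.lf (nat_lit 0) (nat_lit 8007572720) (nat_lit 228) (nat_lit 3007818146) (nat_lit 0) (nat_lit 2855307105) (nat_lit 51) (nat_lit 5) (nat_lit 54) (nat_lit 4) (nat_lit 51) (nat_lit 4) (nat_lit 375) (nat_lit 268) (nat_lit 257)) (XT.lf (nat_lit 0) (nat_lit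 6152989066) (nat_lit 152) (nat_lit 6759442719) (nat_lit 152) (nat_lit 1216618124) (nat_lit 49) (nat_lit 4) (nat_lit 51) (nat_lit 5) (nat_lit 51) (nat_lit 4) (nat_lit 376) (nat_lit 268) (nat_lit 256))) (XT.nd (nat_lit 78) (nat_lit 0) (nat_lit 0) (XT.lf (nat_lit 0) (nat_lit 1081366732) (nat_lit 152) (nat_lit 2368571594) (nat_lit 228) (nat_lit 10945694348) (nat_lit 46) (nat_lit 5) (nat_lit 48) (nat_lit 5) (nat_lit 49) (nat_lit 4) (nat_lit 377) (nat_lit 268) (nat_lit 255)) (XT.lf (nat_lit 0) (nat_lit 8243757134) (nat_lit 228) (nat_lit 4288943060) (nat_lit 0) (nat_lit 2136817941) (nat_lit 46) (nat_lit 5) (nat_lit 49) (nat_lit 4) (nat_lit 46) (nat_lit 4) (nat_lit 378) (nat_lit 268) (nat_lit 254))))))))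
noncomputable def xc35 : XT := (XT.nd (nat_lit 2106) (nat_lit 836) (nat_lit 0) (XT.nd (nat_lit 1014) (nat_lit 760) (nat_lit 0) (XT.nd (nat_lit 468) (nat_lit 532) (nat_lit 0) (XT.nd (nat_lit 234) (nat_lit 304) (nat_lit 0) (XT.nd (nat_lit 78) (nat_lit 152) (nat_lit 0) (XT.lf (nat_lit 0) (nat_lit 4922841952) (nat_lit 152) (nat_lit 8241624661) (nat_lit 152) (nat_lit 1787678873) (nat_lit 44) (nat_lit 4) (nat_lit 46) (nat_lit 5) (nat_lit 46) (nat_lit 4) (nat_lit 379) (nat_lit 268) (nat_lit 253)) (XT.nd (nat_lit 78) (nat_lit 76) (nat_lit 0) (XT.lf (nat_lit 0) (nat_lit 2887437384) (nat_lit 228) (nat_lit 929347504) (nat_lit 76) (nat_lit 11426934395) (nat_lit 43) (nat_lit 5) (nat_lit 46) (nat_lit 5) (nat_lit 44) (nat_lit 4) (nat_lit 380) (nat_lit 268) (nat_lit 252)) (XT.lf (nat_lit 0) (nat_lit 7670476097) (nat_lit 152) (nat_lit 7113079213) (nat_lit 0) (nat_lit 759862122) (nat_lit 42) (nat_lit 5) (nat_lit 44) (nat_lit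 4) (nat_lit 42) (nat_lit 4) (nat_lit 381) (nat_lit 268) (nat_lit 251)))) (XT.nd (nat_lit 78) (nat_lit 152) (nat_lit 0) (XT.lf (nat_lit 0) (nat_lit 2087955814) (nat_lit 152) (nat_lit 10491804286) (nat_lit 152) (nat_lit 3272879447) (nat_lit 40) (nat_lit 4) (nat_lit 42) (nat_lit 5) (nat_lit 42) (nat_lit 4) (nat_lit 382) (nat_lit 268) (nat_lit 250)) (XT.nd (nat_lit 78) (nat_lit 76) (nat_lit 0) (XT.lf (nat_lit 0) (nat_lit 1424714008) (nat_lit 228) (nat_lit 4626086339) (nat_lit 76) (nat_lit 10120286577) (nat_lit 39) (nat_lit 5) (nat_lit 42) (nat_lit 5) (nat_lit 40) (nat_lit 4) (nat_lit 383) (nat_lit 268) (nat_lit 249)) (XT.lf (nat_lit 0) (nat_lit 4697244305) (nat_lit 76) (nat_lit 1463402316) (nat_lit 152) (nat_lit 10338587488) (nat_lit 38) (nat_lit 5) (nat_lit 39) (nat_lit 5) (nat_lit 40) (nat_lit 4) (nat_lit 384) (nat_lit 268) (nat_lit 248))))) (XT.nd (nat_lit 234) (nat_lit 304) (nat_lit 0) (XT.nd (nat_lit 78)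 (nat_lit 228) (nat_lit 0) (XT.lf (nat_lit 0) (nat_lit 11035562302) (nat_lit 152) (nat_lit 2621563639) (nat_lit 0) (nat_lit 3180206520) (nat_lit 38) (nat_lit 5) (nat_lit 40) (nat_lit 4) (nat_lit 38) (nat_lit 4) (nat_lit 385) (nat_lit 268) (nat_lit 247)) (XT.nd (nat_lit 78) (nat_lit 76) (nat_lit 0) (XT.lf (nat_lit 0) (nat_lit 6807945087) (nat_lit 152) (nat_lit 9249464545) (nat_lit 152) (nat_lit 1128157102) (nat_lit 36) (nat_lit 4) (nat_lit 38) (nat_lit 5) (nat_lit 38) (nat_lit 4) (nat_lit 386) (nat_lit 268) (nat_lit 246)) (XT.lf (nat_lit 0) (nat_lit 3561374146) (nat_lit 228) (nat_lit 1149923421) (nat_lit 76) (nat_lit 12833471412) (nat_lit 35) (nat_lit 5) (nat_lit 38) (nat_lit 5) (nat_lit 36) (nat_lit 4) (nat_lit 387) (nat_lit 268) (nat_lit 245)))) (XT.nd (nat_lit 156) (nat_lit 228) (nat_lit 0) (XT.nd (nat_lit 78) (nat_lit 0) (nat_lit 0) (XT.lf (nat_lit 0) (nat_lit 8366049620) (nat_lit 76) (nat_lit 6486097)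 (nat_lit 152) (nat_lit 9541780255) (nat_lit 34) (nat_lit 5) (nat_lit 35) (nat_lit 5) (nat_lit 36) (nat_lit 4) (nat_lit 388) (nat_lit 268) (nat_lit 244)) (XT.lf (nat_lit 0) (nat_lit 13309767892) (nat_lit 152) (nat_lit 291101016) (nat_lit 0) (nat_lit 4694640386) (nat_lit 34) (nat_lit 5) (nat_lit 36) (nat_lit 4) (nat_lit 34) (nat_lit 4) (nat_lit 389) (nat_lit 268) (nat_lit 243))) (XT.nd (nat_lit 78) (nat_lit 76) (nat_lit 0) (XT.lf (nat_lit 0) (nat_lit 9288125630) (nat_lit 152) (nat_lit 9122056115) (nat_lit 152) (nat_lit 277516370) (nat_lit 32) (nat_lit 4) (nat_lit 34) (nat_lit 5) (nat_lit 34) (nat_lit 4) (nat_lit 390) (nat_lit 268) (nat_lit 242)) (XT.lf (nat_lit 0) (nat_lit 4411549203) (nat_lit 228) (nat_lit 111825190) (nat_lit 76) (nat_lit 14569106456) (nat_lit 31) (nat_lit 5) (nat_lit 34) (nat_lit 5) (nat_lit 32) (nat_lit 4) (nat_lit 391) (nat_lit 268) (nat_lit 241)))))) (XT.nd (nat_lit 546) (nat_lit 304)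 (nat_lit 0) (XT.nd (nat_lit 234) (nat_lit 228) (nat_lit 0) (XT.nd (nat_lit 78) (nat_lit 152) (nat_lit 0) (XT.lf (nat_lit 0) (nat_lit 9257465885) (nat_lit 152) (nat_lit 10006870339) (nat_lit 0) (nat_lit 244346358) (nat_lit 30) (nat_lit 5) (nat_lit 32) (nat_lit 4) (nat_lit 30) (nat_lit 4) (nat_lit 392) (nat_lit 268) (nat_lit 240)) (XT.nd (nat_lit 78) (nat_lit 152) (nat_lit 0) (XT.lf (nat_lit 0) (nat_lit 14222936283) (nat_lit 152) (nat_lit 709232188) (nat_lit 0) (nat_lit 5005986953) (nat_lit 30) (nat_lit 5) (nat_lit 32) (nat_lit 4) (nat_lit 30) (nat_lit 4) (nat_lit 393) (nat_lit 268) (nat_lit 239)) (XT.lf (nat_lit 0) (nat_lit 8911869091) (nat_lit 152) (nat_lit 10441507782) (nat_lit 152) (nat_lit 1026665440) (nat_lit 28) (nat_lit 4) (nat_lit 30) (nat_lit 5) (nat_lit 30) (nat_lit 4) (nat_lit 394) (nat_lit 268) (nat_lit 238)))) (XT.nd (nat_lit 156) (nat_lit 76) (nat_lit 0) (XT.nd (nat_lit 78) (nat_lit 76) (nat_lit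 0) (XT.lf (nat_lit 0) (nat_lit 3666022224) (nat_lit 228) (nat_lit 2164946364) (nat_lit 76) (nat_lit 15004999753) (nat_lit 27) (nat_lit 5) (nat_lit 30) (nat_lit 5) (nat_lit 28) (nat_lit 4) (nat_lit 395) (nat_lit 268) (nat_lit 237)) (XT.lf (nat_lit 0) (nat_lit 7426405805) (nat_lit 76) (nat_lit 1056308692) (nat_lit 152) (nat_lit 12822446127) (nat_lit 26) (nat_lit 5) (nat_lit 27) (nat_lit 5) (nat_lit 28) (nat_lit 4) (nat_lit 396) (nat_lit 268) (nat_lit 236))) (XT.nd (nat_lit 78) (nat_lit 76) (nat_lit 0) (XT.lf (nat_lit 0) (nat_lit 13435792676) (nat_lit 152) (nat_lit 4601177989) (nat_lit 0) (nat_lit 3751710380) (nat_lit 26) (nat_lit 5) (nat_lit 28) (nat_lit 4) (nat_lit 26) (nat_lit 4) (nat_lit 397) (nat_lit 268) (nat_lit 235)) (XT.lf (nat_lit 0) (nat_lit 4917956480) (nat_lit 76) (nat_lit 13611887196) (nat_lit 76) (nat_lit 3757100649) (nat_lit 25) (nat_lit 4) (nat_lit 26) (nat_lit 5) (nat_lit 26) (nat_lit 4)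 (nat_lit 398) (nat_lit 268) (nat_lit 234))))) (XT.nd (nat_lit 234) (nat_lit 152) (nat_lit 0) (XT.nd (nat_lit 78) (nat_lit 76) (nat_lit 0) (XT.lf (nat_lit 0) (nat_lit 939166560) (nat_lit 152) (nat_lit 8114010711) (nat_lit 76) (nat_lit 13747254918) (nat_lit 24) (nat_lit 5) (nat_lit 26) (nat_lit 5) (nat_lit 25) (nat_lit 4) (nat_lit 399) (nat_lit 268) (nat_lit 233)) (XT.nd (nat_lit 78) (nat_lit 0) (nat_lit 0) (XT.lf (nat_lit 0) (nat_lit 1287723100) (nat_lit 76) (nat_lit 4362103036) (nat_lit 152) (nat_lit 17679919961) (nat_lit 23) (nat_lit 5) (nat_lit 24) (nat_lit 5) (nat_lit 25) (nat_lit 4) (nat_lit 400) (nat_lit 268) (nat_lit 232)) (XT.lf (nat_lit 0) (nat_lit 10525893039) (nat_lit 152) (nat_lit 12858984561) (nat_lit 0) (nat_lit 489346893) (nat_lit 23) (nat_lit 5) (nat_lit 25) (nat_lit 4) (nat_lit 23) (nat_lit 4) (nat_lit 401) (nat_lit 268) (nat_lit 231)))) (XT.nd (nat_lit 156) (nat_lit 76) (nat_lit 0) (XT.nd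 (nat_lit 78) (nat_lit 76) (nat_lit 0) (XT.lf (nat_lit 0) (nat_lit 15530096735) (nat_lit 152) (nat_lit 3559192731) (nat_lit 0) (nat_lit 5346299603) (nat_lit 23) (nat_lit 5) (nat_lit 25) (nat_lit 4) (nat_lit 23) (nat_lit 4) (nat_lit 402) (nat_lit 268) (nat_lit 230)) (XT.lf (nat_lit 0) (nat_lit 6024978763) (nat_lit 76) (nat_lit 14657815648) (nat_lit 76) (nat_lit 4331056393) (nat_lit 22) (nat_lit 4) (nat_lit 23) (nat_lit 5) (nat_lit 23) (nat_lit 4) (nat_lit 403) (nat_lit 268) (nat_lit 229))) (XT.nd (nat_lit 78) (nat_lit 0) (nat_lit 0) (XT.lf (nat_lit 0) (nat_lit 350011023) (nat_lit 152) (nat_lit 9755035055) (nat_lit 76) (nat_lit 15505006625) (nat_lit 21) (nat_lit 5) (nat_lit 23) (nat_lit 5) (nat_lit 22) (nat_lit 4) (nat_lit 404) (nat_lit 268) (nat_lit 228)) (XT.lf (nat_lit 0) (nat_lit 5026721489) (nat_lit 152) (nat_lit 396068321) (nat_lit 76) (nat_lit 20801803206) (nat_lit 21) (nat_lit 5) (nat_lit 23) (nat_lit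 5) (nat_lit 22) (nat_lit 4) (nat_lit 405) (nat_lit 268) (nat_lit 227))))))) (XT.nd (nat_lit 1014) (nat_lit 304) (nat_lit 0) (XT.nd (nat_lit 468) (nat_lit 228) (nat_lit 0) (XT.nd (nat_lit 234) (nat_lit 152) (nat_lit 0) (XT.nd (nat_lit 78) (nat_lit 76) (nat_lit 0) (XT.lf (nat_lit 0) (nat_lit 9319699568) (nat_lit 76) (nat_lit 557563046) (nat_lit 152) (nat_lit 16979307491) (nat_lit 20) (nat_lit 5) (nat_lit 21) (nat_lit 5) (nat_lit 22) (nat_lit 4) (nat_lit 406) (nat_lit 268) (nat_lit 226)) (XT.nd (nat_lit 78) (nat_lit 76) (nat_lit 0) (XT.lf (nat_lit 0) (nat_lit 14864263650) (nat_lit 152) (nat_lit 8321163498) (nat_lit 0) (nat_lit 4322357306) (nat_lit 20) (nat_lit 5) (nat_lit 22) (nat_lit 4) (nat_lit 20) (nat_lit 4) (nat_lit 407) (nat_lit 268) (nat_lit 225)) (XT.lf (nat_lit 0) (nat_lit 1083743066) (nat_lit 76) (nat_lit 18878791657) (nat_lit 76) (nat_lit 8217156787) (nat_lit 19) (nat_lit 4) (nat_lit 20) (nat_lit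 5) (nat_lit 20) (nat_lit 4) (nat_lit 408) (nat_lit 268) (nat_lit 224)))) (XT.nd (nat_lit 78) (nat_lit 152) (nat_lit 0) (XT.lf (nat_lit 0) (nat_lit 10839482346) (nat_lit 76) (nat_lit 14404622482) (nat_lit 76) (nat_lit 3626746323) (nat_lit 19) (nat_lit 4) (nat_lit 20) (nat_lit 5) (nat_lit 20) (nat_lit 4) (nat_lit 409) (nat_lit 268) (nat_lit 223)) (XT.nd (nat_lit 78) (nat_lit 76) (nat_lit 0) (XT.lf (nat_lit 0) (nat_lit 1027249902) (nat_lit 152) (nat_lit 8805414476) (nat_lit 76) (nat_lit 19751348191) (nat_lit 18) (nat_lit 5) (nat_lit 20) (nat_lit 5) (nat_lit 19) (nat_lit 4) (nat_lit 410) (nat_lit 268) (nat_lit 222)) (XT.lf (nat_lit 0) (nat_lit 575578017) (nat_lit 76) (nat_lit 5126825115) (nat_lit 152) (nat_lit 24616460912) (nat_lit 17) (nat_lit 5) (nat_lit 18) (nat_lit 5) (nat_lit 19) (nat_lit 4) (nat_lit 411) (nat_lit 268) (nat_lit 221))))) (XT.nd (nat_lit 234) (nat_lit 228) (nat_lit 0) (XT.nd (nat_lit 78)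 (nat_lit 0) (nat_lit 0) (XT.lf (nat_lit 0) (nat_lit 10322390568) (nat_lit 76) (nat_lit 233800641) (nat_lit 152) (nat_lit 20518423687) (nat_lit 17) (nat_lit 5) (nat_lit 18) (nat_lit 5) (nat_lit 19) (nat_lit 4) (nat_lit 412) (nat_lit 268) (nat_lit 220)) (XT.nd (nat_lit 78) (nat_lit 0) (nat_lit 0) (XT.lf (nat_lit 0) (nat_lit 15552300734) (nat_lit 152) (nat_lit 11631993541) (nat_lit 0) (nat_lit 4668847854) (nat_lit 17) (nat_lit 5) (nat_lit 19) (nat_lit 4) (nat_lit 17) (nat_lit 4) (nat_lit 413) (nat_lit 268) (nat_lit 219)) (XT.lf (nat_lit 0) (nat_lit 20652559327) (nat_lit 152) (nat_lit 2332086622) (nat_lit 0) (nat_lit 9671756198) (nat_lit 17) (nat_lit 5) (nat_lit 19) (nat_lit 4) (nat_lit 17) (nat_lit 4) (nat_lit 414) (nat_lit 268) (nat_lit 218)))) (XT.nd (nat_lit 156) (nat_lit 152) (nat_lit 0) (XT.nd (nat_lit 78) (nat_lit 0) (nat_lit 0) (XT.lf (nat_lit 0) (nat_lit 7300325645) (nat_lit 76) (nat_lit 18629025641)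 (nat_lit 76) (nat_lit 7553707706) (nat_lit 16) (nat_lit 4) (nat_lit 17) (nat_lit 5) (nat_lit 17) (nat_lit 4) (nat_lit 415) (nat_lit 268) (nat_lit 217)) (XT.lf (nat_lit 0) (nat_lit 17181440297) (nat_lit 76) (nat_lit 14160418712) (nat_lit 76) (nat_lit 2993338831) (nat_lit 16) (nat_lit 4) (nat_lit 17) (nat_lit 5) (nat_lit 17) (nat_lit 4) (nat_lit 416) (nat_lit 268) (nat_lit 216))) (XT.nd (nat_lit 78) (nat_lit 76) (nat_lit 0) (XT.lf (nat_lit 0) (nat_lit 1625351411) (nat_lit 152) (nat_lit 7956705784) (nat_lit 76) (nat_lit 25631713947) (nat_lit 15) (nat_lit 5) (nat_lit 17) (nat_lit 5) (nat_lit 16) (nat_lit 4) (nat_lit 417) (nat_lit 268) (nat_lit 215)) (XT.lf (nat_lit 0) (nat_lit 1430639424) (nat_lit 76) (nat_lit 4861628067) (nat_lit 152) (nat_lit 29826454453) (nat_lit 14) (nat_lit 5) (nat_lit 15) (nat_lit 5) (nat_lit 16) (nat_lit 4) (nat_lit 418) (nat_lit 268) (nat_lit 214)))))) (XT.nd (nat_lit 546) (nat_lit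 228) (nat_lit 0) (XT.nd (nat_lit 234) (nat_lit 76) (nat_lit 0) (XT.nd (nat_lit 78) (nat_lit 0) (nat_lit 0) (XT.lf (nat_lit 0) (nat_lit 11136513567) (nat_lit 152) (nat_lit 25870502643) (nat_lit 0) (nat_lit 42689523) (nat_lit 14) (nat_lit 5) (nat_lit 16) (nat_lit 4) (nat_lit 14) (nat_lit 4) (nat_lit 419) (nat_lit 268) (nat_lit 213)) (XT.nd (nat_lit 78) (nat_lit 0) (nat_lit 0) (XT.lf (nat_lit 0) (nat_lit 16131674276) (nat_lit 152) (nat_lit 16918085587) (nat_lit 0) (nat_lit 4958695572) (nat_lit 14) (nat_lit 5) (nat_lit 16) (nat_lit 4) (nat_lit 14) (nat_lit 4) (nat_lit 420) (nat_lit 268) (nat_lit 212)) (XT.lf (nat_lit 0) (nat_lit 21235381380) (nat_lit 152) (nat_lit 7776275911) (nat_lit 0) (nat_lit 9985553490) (nat_lit 14) (nat_lit 5) (nat_lit 16) (nat_lit 4) (nat_lit 14) (nat_lit 4) (nat_lit 421) (nat_lit 268) (nat_lit 211)))) (XT.nd (nat_lit 156) (nat_lit 0) (nat_lit 0) (XT.nd (nat_lit 78) (nat_lit 0) (nat_lit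 0) (XT.lf (nat_lit 0) (nat_lit 1594019434) (nat_lit 76) (nat_lit 24873397684) (nat_lit 76) (nat_lit 13548958934) (nat_lit 13) (nat_lit 4) (nat_lit 14) (nat_lit 5) (nat_lit 14) (nat_lit 4) (nat_lit 422) (nat_lit 268) (nat_lit 210)) (XT.lf (nat_lit 0) (nat_lit 11328709657) (nat_lit 76) (nat_lit 20566560545) (nat_lit 76) (nat_lit 9169684067) (nat_lit 13) (nat_lit 4) (nat_lit 14) (nat_lit 5) (nat_lit 14) (nat_lit 4) (nat_lit 423) (nat_lit 268) (nat_lit 209))) (XT.nd (nat_lit 78) (nat_lit 0) (nat_lit 0) (XT.lf (nat_lit 0) (nat_lit 21281537657) (nat_lit 76) (nat_lit 16165907759) (nat_lit 76) (nat_lit 4698703390) (nat_lit 13) (nat_lit 4) (nat_lit 14) (nat_lit 5) (nat_lit 14) (nat_lit 4) (nat_lit 424) (nat_lit 268) (nat_lit 208)) (XT.lf (nat_lit 0) (nat_lit 31461200080) (nat_lit 76) (nat_lit 11667594095) (nat_lit 76) (nat_lit 132110219) (nat_lit 13) (nat_lit 4) (nat_lit 14) (nat_lit 5) (nat_lit 14) (nat_lit 4)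 (nat_lit 425) (nat_lit 268) (nat_lit 207))))) (XT.nd (nat_lit 234) (nat_lit 76) (nat_lit 0) (XT.nd (nat_lit 78) (nat_lit 76) (nat_lit 0) (XT.lf (nat_lit 0) (nat_lit 4445609327) (nat_lit 152) (nat_lit 2577187722) (nat_lit 76) (nat_lit 37386090512) (nat_lit 12) (nat_lit 5) (nat_lit 14) (nat_lit 5) (nat_lit 13) (nat_lit 4) (nat_lit 426) (nat_lit 268) (nat_lit 206)) (XT.nd (nat_lit 78) (nat_lit 0) (nat_lit 0) (XT.lf (nat_lit 0) (nat_lit 6988728328) (nat_lit 76) (nat_lit 2200859341) (nat_lit 152) (nat_lit 36400739011) (nat_lit 11) (nat_lit 5) (nat_lit 12) (nat_lit 5) (nat_lit 13) (nat_lit 4) (nat_lit 427) (nat_lit 268) (nat_lit 205)) (XT.lf (nat_lit 0) (nat_lit 14093230341) (nat_lit 152) (nat_lit 30007240787) (nat_lit 0) (nat_lit 2706220572) (nat_lit 11) (nat_lit 5) (nat_lit 13) (nat_lit 4) (nat_lit 11) (nat_lit 4) (nat_lit 428) (nat_lit 268) (nat_lit 204)))) (XT.nd (nat_lit 156) (nat_lit 76) (nat_lit 0) (XT.nd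 (nat_lit 78) (nat_lit 0) (nat_lit 0) (XT.lf (nat_lit 0) (nat_lit 19131284452) (nat_lit 152) (nat_lit 21243270963) (nat_lit 0) (nat_lit 7685376182) (nat_lit 11) (nat_lit 5) (nat_lit 13) (nat_lit 4) (nat_lit 11) (nat_lit 4) (nat_lit 429) (nat_lit 268) (nat_lit 203)) (XT.lf (nat_lit 0) (nat_lit 24286996179) (nat_lit 152) (nat_lit 12280875035) (nat_lit 0) (nat_lit 12783904898) (nat_lit 11) (nat_lit 5) (nat_lit 13) (nat_lit 4) (nat_lit 11) (nat_lit 4) (nat_lit 430) (nat_lit 268) (nat_lit 202))) (XT.nd (nat_lit 78) (nat_lit 76) (nat_lit 0) (XT.lf (nat_lit 0) (nat_lit 29564870514) (nat_lit 152) (nat_lit 3112221784) (nat_lit 0) (nat_lit 18006261745) (nat_lit 11) (nat_lit 5) (nat_lit 13) (nat_lit 4) (nat_lit 11) (nat_lit 4) (nat_lit 431) (nat_lit 268) (nat_lit 201)) (XT.lf (nat_lit 0) (nat_lit 6395499464) (nat_lit 76) (nat_lit 28635497178) (nat_lit 76) (nat_lit 17022987937) (nat_lit 10) (nat_lit 4) (nat_lit 11)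 (nat_lit 5) (nat_lit 11) (nat_lit 4) (nat_lit 432) (nat_lit 268) (nat_lit 200))))))))
noncomputable def xc36 : XT := (XT.nd (nat_lit 42042) (nat_lit 0) (nat_lit 1444) (XT.nd (nat_lit 1014) (nat_lit 0) (nat_lit 0) (XT.nd (nat_lit 468) (nat_lit 76) (nat_lit 0) (XT.nd (nat_lit 234) (nat_lit 152) (nat_lit 0) (XT.nd (nat_lit 78) (nat_lit 0) (nat_lit 0) (XT.lf (nat_lit 0) (nat_lit 16192055006) (nat_lit 76) (nat_lit 24469257649) (nat_lit 76) (nat_lit 12804417852) (nat_lit 10) (nat_lit 4) (nat_lit 11) (nat_lit 5) (nat_lit 11) (nat_lit 4) (nat_lit 433) (nat_lit 268) (nat_lit 199)) (XT.nd (nat_lit 78) (nat_lit 0) (nat_lit 0) (XT.lf (nat_lit 0) (nat_lit 26224065620) (nat_lit 76) (nat_lit 20206160643) (nat_lit 76) (nat_lit 8490514481) (nat_lit 10) (nat_lit 4) (nat_lit 11) (nat_lit 5) (nat_lit 11) (nat_lit 4) (nat_lit 434) (nat_lit 268) (nat_lit 198)) (XT.lf (nat_lit 0) (nat_lit 36500297141) (nat_lit 76) (nat_lit 15842481126)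 (nat_lit 76) (nat_lit 4077508396) (nat_lit 10) (nat_lit 4) (nat_lit 11) (nat_lit 5) (nat_lit 11) (nat_lit 4) (nat_lit 435) (nat_lit 268) (nat_lit 197)))) (XT.nd (nat_lit 78) (nat_lit 76) (nat_lit 0) (XT.lf (nat_lit 0) (nat_lit 429900563) (nat_lit 152) (nat_lit 10940164457) (nat_lit 76) (nat_lit 46595487086) (nat_lit 9) (nat_lit 5) (nat_lit 11) (nat_lit 5) (nat_lit 10) (nat_lit 4) (nat_lit 436) (nat_lit 268) (nat_lit 196)) (XT.nd (nat_lit 78) (nat_lit 76) (nat_lit 0) (XT.lf (nat_lit 0) (nat_lit 4962561280) (nat_lit 152) (nat_lit 1785358223) (nat_lit 76) (nat_lit 52808887657) (nat_lit 9) (nat_lit 5) (nat_lit 11) (nat_lit 5) (nat_lit 10) (nat_lit 4) (nat_lit 437) (nat_lit 268) (nat_lit 195)) (XT.lf (nat_lit 0) (nat_lit 7742712233) (nat_lit 76) (nat_lit 1935716659) (nat_lit 152) (nat_lit 51515956384) (nat_lit 8) (nat_lit 5) (nat_lit 9) (nat_lit 5) (nat_lit 10) (nat_lit 4) (nat_lit 438) (nat_lit 268) (nat_lit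 194))))) (XT.nd (nat_lit 234) (nat_lit 76) (nat_lit 0) (XT.nd (nat_lit 78) (nat_lit 0) (nat_lit 0) (XT.lf (nat_lit 0) (nat_lit 14555869402) (nat_lit 152) (nat_lit 45369066174) (nat_lit 0) (nat_lit 2955554415) (nat_lit 8) (nat_lit 5) (nat_lit 10) (nat_lit 4) (nat_lit 8) (nat_lit 4) (nat_lit 439) (nat_lit 268) (nat_lit 193)) (XT.nd (nat_lit 78) (nat_lit 0) (nat_lit 0) (XT.lf (nat_lit 0) (nat_lit 19572440842) (nat_lit 152) (nat_lit 37114139239) (nat_lit 0) (nat_lit 7930815631) (nat_lit 8) (nat_lit 5) (nat_lit 10) (nat_lit 4) (nat_lit 8) (nat_lit 4) (nat_lit 440) (nat_lit 268) (nat_lit 192)) (XT.lf (nat_lit 0) (nat_lit 24713919331) (nat_lit 152) (nat_lit 28661071905) (nat_lit 0) (nat_lit 13032187106) (nat_lit 8) (nat_lit 5) (nat_lit 10) (nat_lit 4) (nat_lit 8) (nat_lit 4) (nat_lit 441) (nat_lit 268) (nat_lit 191)))) (XT.nd (nat_lit 156) (nat_lit 76) (nat_lit 0) (XT.nd (nat_lit 78) (nat_lit 0) (nat_lit 0) (XT.lf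 (nat_lit 0) (nat_lit 29984797424) (nat_lit 152) (nat_lit 20002477996) (nat_lit 0) (nat_lit 18264126351) (nat_lit 8) (nat_lit 5) (nat_lit 10) (nat_lit 4) (nat_lit 8) (nat_lit 4) (nat_lit 442) (nat_lit 268) (nat_lit 190)) (XT.lf (nat_lit 0) (nat_lit 35389680742) (nat_lit 152) (nat_lit 11130791751) (nat_lit 0) (nat_lit 23631204961) (nat_lit 8) (nat_lit 5) (nat_lit 10) (nat_lit 4) (nat_lit 8) (nat_lit 4) (nat_lit 443) (nat_lit 268) (nat_lit 189))) (XT.nd (nat_lit 78) (nat_lit 76) (nat_lit 0) (XT.lf (nat_lit 0) (nat_lit 40933291998) (nat_lit 152) (nat_lit 2038261210) (nat_lit 0) (nat_lit 29138112619) (nat_lit 8) (nat_lit 5) (nat_lit 10) (nat_lit 4) (nat_lit 8) (nat_lit 4) (nat_lit 444) (nat_lit 268) (nat_lit 188)) (XT.lf (nat_lit 0) (nat_lit 7428005701) (nat_lit 76) (nat_lit 39263871959) (nat_lit 76) (nat_lit 27433058018) (nat_lit 7) (nat_lit 4) (nat_lit 8) (nat_lit 5) (nat_lit 8) (nat_lit 4) (nat_lit 445) (nat_lit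 268) (nat_lit 187)))))) (XT.nd (nat_lit 40482) (nat_lit 0) (nat_lit 3952) (XT.nd (nat_lit 234) (nat_lit 0) (nat_lit 0) (XT.nd (nat_lit 78) (nat_lit 0) (nat_lit 0) (XT.lf (nat_lit 0) (nat_lit 17176487528) (nat_lit 76) (nat_lit 35444822885) (nat_lit 76) (nat_lit 23579412281) (nat_lit 7) (nat_lit 4) (nat_lit 8) (nat_lit 5) (nat_lit 8) (nat_lit 4) (nat_lit 446) (nat_lit 268) (nat_lit 186)) (XT.nd (nat_lit 78) (nat_lit 0) (nat_lit 0) (XT.lf (nat_lit 0) (nat_lit 27175136965) (nat_lit 76) (nat_lit 31531651395) (nat_lit 76) (nat_lit 19632651799) (nat_lit 7) (nat_lit 4) (nat_lit 8) (nat_lit 5) (nat_lit 8) (nat_lit 4) (nat_lit 447) (nat_lit 268) (nat_lit 185)) (XT.lf (nat_lit 0) (nat_lit 37432690698) (nat_lit 76) (nat_lit 27520938213) (nat_lit 76) (nat_lit 15589327945) (nat_lit 7) (nat_lit 4) (nat_lit 8) (nat_lit 5) (nat_lit 8) (nat_lit 4) (nat_lit 448) (nat_lit 268) (nat_lit 184)))) (XT.nd (nat_lit 40092) (nat_lit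 0) (nat_lit 5016) (XT.lf (nat_lit 0) (nat_lit 47958111636) (nat_lit 76) (nat_lit 23409178832) (nat_lit 76) (nat_lit 11445907717) (nat_lit 7) (nat_lit 4) (nat_lit 8) (nat_lit 5) (nat_lit 8) (nat_lit 4) (nat_lit 449) (nat_lit 268) (nat_lit 183)) (XT.nd (nat_lit 78) (nat_lit 228) (nat_lit 0) (XT.lf (nat_lit 0) (nat_lit 2683193718) (nat_lit 228) (nat_lit 1441661532) (nat_lit 228) (nat_lit 1441661532) (nat_lit 76) (nat_lit 4) (nat_lit 79) (nat_lit 5) (nat_lit 79) (nat_lit 4) (nat_lit 362) (nat_lit 269) (nat_lit 269)) (XT.lf (nat_lit 0) (nat_lit 1683684395) (nat_lit 228) (nat_lit 8568413866) (nat_lit 0) (nat_lit 1056951884) (nat_lit 73) (nat_lit 5) (nat_lit 76) (nat_lit 4) (nat_lit 73) (nat_lit 4) (nat_lit 363) (nat_lit 269) (nat_lit 268))))) (XT.nd (nat_lit 234) (nat_lit 608) (nat_lit 0) (XT.nd (nat_lit 78) (nat_lit 456) (nat_lit 0) (XT.lf (nat_lit 0) (nat_lit 6314148478) (nat_lit 228) (nat_lit 96903441) (nat_lit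 0) (nat_lit 5078937802) (nat_lit 73) (nat_lit 5) (nat_lit 76) (nat_lit 4) (nat_lit 73) (nat_lit 4) (nat_lit 364) (nat_lit 269) (nat_lit 267)) (XT.nd (nat_lit 78) (nat_lit 228) (nat_lit 0) (XT.lf (nat_lit 0) (nat_lit 8630188587) (nat_lit 228) (nat_lit 2436337533) (nat_lit 228) (nat_lit 610371356) (nat_lit 70) (nat_lit 4) (nat_lit 73) (nat_lit 5) (nat_lit 73) (nat_lit 4) (nat_lit 365) (nat_lit 269) (nat_lit 266)) (XT.lf (nat_lit 0) (nat_lit 3984141514) (nat_lit 228) (nat_lit 6230446155) (nat_lit 0) (nat_lit 1654515099) (nat_lit 67) (nat_lit 5) (nat_lit 70) (nat_lit 4) (nat_lit 67) (nat_lit 4) (nat_lit 366) (nat_lit 269) (nat_lit 265)))) (XT.nd (nat_lit 156) (nat_lit 304) (nat_lit 0) (XT.nd (nat_lit 78) (nat_lit 76) (nat_lit 0) (XT.lf (nat_lit 0) (nat_lit 2429797105) (nat_lit 228) (nat_lit 6253993783) (nat_lit 228) (nat_lit 3383742399) (nat_lit 64) (nat_lit 4) (nat_lit 67) (nat_lit 5) (nat_lit 67) (nat_lit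 4) (nat_lit 367) (nat_lit 269) (nat_lit 264)) (XT.lf (nat_lit 0) (nat_lit 1192920028) (nat_lit 304) (nat_lit 973502335) (nat_lit 76) (nat_lit 10106213581) (nat_lit 63) (nat_lit 5) (nat_lit 67) (nat_lit 5) (nat_lit 64) (nat_lit 4) (nat_lit 368) (nat_lit 269) (nat_lit 263))) (XT.nd (nat_lit 78) (nat_lit 152) (nat_lit 0) (XT.lf (nat_lit 0) (nat_lit 5839153298) (nat_lit 228) (nat_lit 4595587842) (nat_lit 0) (nat_lit 2048162154) (nat_lit 61) (nat_lit 5) (nat_lit 64) (nat_lit 4) (nat_lit 61) (nat_lit 4) (nat_lit 369) (nat_lit 269) (nat_lit 262)) (XT.lf (nat_lit 0) (nat_lit 4231673911) (nat_lit 152) (nat_lit 6369926870) (nat_lit 152) (nat_lit 2098597443) (nat_lit 59) (nat_lit 4) (nat_lit 61) (nat_lit 5) (nat_lit 61) (nat_lit 4) (nat_lit 370) (nat_lit 269) (nat_lit 261))))))) (XT.nd (nat_lit 1014) (nat_lit 988) (nat_lit 0) (XT.nd (nat_lit 468) (nat_lit 760) (nat_lit 0) (XT.nd (nat_lit 234) (nat_lit 380) (nat_lit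 0) (XT.nd (nat_lit 78) (nat_lit 152) (nat_lit 0) (XT.lf (nat_lit 0) (nat_lit 311745554) (nat_lit 152) (nat_lit 2175654854) (nat_lit 228) (nat_lit 10437242938) (nat_lit 56) (nat_lit 5) (nat_lit 58) (nat_lit 5) (nat_lit 59) (nat_lit 4) (nat_lit 371) (nat_lit 269) (nat_lit 260)) (XT.nd (nat_lit 78) (nat_lit 152) (nat_lit 0) (XT.lf (nat_lit 0) (nat_lit 7181342428) (nat_lit 228) (nat_lit 3831423858) (nat_lit 0) (nat_lit 2142078180) (nat_lit 56) (nat_lit 5) (nat_lit 59) (nat_lit 4) (nat_lit 56) (nat_lit 4) (nat_lit 372) (nat_lit 269) (nat_lit 259)) (XT.lf (nat_lit 0) (nat_lit 5131951488) (nat_lit 152) (nat_lit 6863342325) (nat_lit 152) (nat_lit 1397303734) (nat_lit 54) (nat_lit 4) (nat_lit 56) (nat_lit 5) (nat_lit 56) (nat_lit 4) (nat_lit 373) (nat_lit 269) (nat_lit 258)))) (XT.nd (nat_lit 78) (nat_lit 152) (nat_lit 0) (XT.lf (nat_lit 0) (nat_lit 625986040) (nat_lit 152) (nat_lit 2579121670) (nat_lit 228) (nat_lit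 10432830474) (nat_lit 51) (nat_lit 5) (nat_lit 53) (nat_lit 5) (nat_lit 54) (nat_lit 4) (nat_lit 374) (nat_lit 269) (nat_lit 257)) (XT.nd (nat_lit 78) (nat_lit 152) (nat_lit 0) (XT.lf (nat_lit 0) (nat_lit 7928400818) (nat_lit 228) (nat_lit 4132783688) (nat_lit 0) (nat_lit 1828732504) (nat_lit 51) (nat_lit 5) (nat_lit 54) (nat_lit 4) (nat_lit 51) (nat_lit 4) (nat_lit 375) (nat_lit 269) (nat_lit 256)) (XT.lf (nat_lit 0) (nat_lit 4927144217) (nat_lit 152) (nat_lit 7850822399) (nat_lit 152) (nat_lit 1371970609) (nat_lit 49) (nat_lit 4) (nat_lit 51) (nat_lit 5) (nat_lit 51) (nat_lit 4) (nat_lit 376) (nat_lit 269) (nat_lit 255))))) (XT.nd (nat_lit 234) (nat_lit 380) (nat_lit 0) (XT.nd (nat_lit 78) (nat_lit 304) (nat_lit 0) (XT.lf (nat_lit 0) (nat_lit 3243813106) (nat_lit 228) (nat_lit 262050480) (nat_lit 76) (nat_lit 10912324267) (nat_lit 48) (nat_lit 5) (nat_lit 51) (nat_lit 5) (nat_lit 49) (nat_lit 4) (nat_lit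 377) (nat_lit 269) (nat_lit 254)) (XT.nd (nat_lit 78) (nat_lit 152) (nat_lit 0) (XT.lf (nat_lit 0) (nat_lit 7980904780) (nat_lit 228) (nat_lit 5726545002) (nat_lit 0) (nat_lit 986334022) (nat_lit 46) (nat_lit 5) (nat_lit 49) (nat_lit 4) (nat_lit 46) (nat_lit 4) (nat_lit 378) (nat_lit 269) (nat_lit 253)) (XT.lf (nat_lit 0) (nat_lit 3380091766) (nat_lit 152) (nat_lit 9464750665) (nat_lit 152) (nat_lit 2133280300) (nat_lit 44) (nat_lit 4) (nat_lit 46) (nat_lit 5) (nat_lit 46) (nat_lit 4) (nat_lit 379) (nat_lit 269) (nat_lit 252)))) (XT.nd (nat_lit 156) (nat_lit 228) (nat_lit 0) (XT.nd (nat_lit 78) (nat_lit 76) (nat_lit 0) (XT.lf (nat_lit 0) (nat_lit 2506726972) (nat_lit 228) (nat_lit 2569901607) (nat_lit 76) (nat_lit 10194431140) (nat_lit 43) (nat_lit 5) (nat_lit 46) (nat_lit 5) (nat_lit 44) (nat_lit 4) (nat_lit 380) (nat_lit 269) (nat_lit 251)) (XT.lf (nat_lit 0) (nat_lit 6690394940) (nat_lit 76) (nat_lit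 534488061) (nat_lit 152) (nat_lit 8347829055) (nat_lit 42) (nat_lit 5) (nat_lit 43) (nat_lit 5) (nat_lit 44) (nat_lit 4) (nat_lit 381) (nat_lit 269) (nat_lit 250))) (XT.nd (nat_lit 78) (nat_lit 76) (nat_lit 0) (XT.lf (nat_lit 0) (nat_lit 214142923) (nat_lit 152) (nat_lit 11856420612) (nat_lit 152) (nat_lit 3813286224) (nat_lit 40) (nat_lit 4) (nat_lit 42) (nat_lit 5) (nat_lit 42) (nat_lit 4) (nat_lit 382) (nat_lit 269) (nat_lit 249)) (XT.lf (nat_lit 0) (nat_lit 854478231) (nat_lit 228) (nat_lit 6599156139) (nat_lit 76) (nat_lit 8750036890) (nat_lit 39) (nat_lit 5) (nat_lit 42) (nat_lit 5) (nat_lit 40) (nat_lit 4) (nat_lit 383) (nat_lit 269) (nat_lit 248)))))) (XT.nd (nat_lit 546) (nat_lit 456) (nat_lit 0) (XT.nd (nat_lit 234) (nat_lit 304) (nat_lit 0) (XT.nd (nat_lit 78) (nat_lit 152) (nat_lit 0) (XT.lf (nat_lit 0) (nat_lit 2612383181) (nat_lit 76) (nat_lit 2918788368) (nat_lit 152) (nat_lit 11002430923)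 (nat_lit 38) (nat_lit 5) (nat_lit 39) (nat_lit 5) (nat_lit 40) (nat_lit 4) (nat_lit 384) (nat_lit 269) (nat_lit 247)) (XT.nd (nat_lit 78) (nat_lit 152) (nat_lit 0) (XT.lf (nat_lit 0) (nat_lit 10353059196) (nat_lit 152) (nat_lit 4798078248) (nat_lit 0) (nat_lit 1722160869) (nat_lit 38) (nat_lit 5) (nat_lit 40) (nat_lit 4) (nat_lit 38) (nat_lit 4) (nat_lit 385) (nat_lit 269) (nat_lit 246)) (XT.lf (nat_lit 0) (nat_lit 4517537163) (nat_lit 152) (nat_lit 10797451617) (nat_lit 152) (nat_lit 1908347793) (nat_lit 36) (nat_lit 4) (nat_lit 38) (nat_lit 5) (nat_lit 38) (nat_lit 4) (nat_lit 386) (nat_lit 269) (nat_lit 245)))) (XT.nd (nat_lit 156) (nat_lit 152) (nat_lit 0) (XT.nd (nat_lit 78) (nat_lit 76) (nat_lit 0) (XT.lf (nat_lit 0) (nat_lit 2758575095) (nat_lit 228) (nat_lit 3539881327) (nat_lit 76) (nat_lit 11285448453) (nat_lit 35) (nat_lit 5) (nat_lit 38) (nat_lit 5) (nat_lit 36) (nat_lit 4) (nat_lit 387) (nat_lit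 269) (nat_lit 244)) (XT.lf (nat_lit 0) (nat_lit 5859926267) (nat_lit 76) (nat_lit 1648989241) (nat_lit 152) (nat_lit 10446366901) (nat_lit 34) (nat_lit 5) (nat_lit 35) (nat_lit 5) (nat_lit 36) (nat_lit 4) (nat_lit 388) (nat_lit 269) (nat_lit 243))) (XT.nd (nat_lit 78) (nat_lit 152) (nat_lit 0) (XT.lf (nat_lit 0) (nat_lit 12393766499) (nat_lit 152) (nat_lit 2889808079) (nat_lit 0) (nat_lit 3054478323) (nat_lit 34) (nat_lit 5) (nat_lit 36) (nat_lit 4) (nat_lit 34) (nat_lit 4) (nat_lit 389) (nat_lit 269) (nat_lit 242)) (XT.lf (nat_lit 0) (nat_lit 6570954025) (nat_lit 152) (nat_lit 10861580572) (nat_lit 152) (nat_lit 1299562066) (nat_lit 32) (nat_lit 4) (nat_lit 34) (nat_lit 5) (nat_lit 34) (nat_lit 4) (nat_lit 390) (nat_lit 269) (nat_lit 241))))) (XT.nd (nat_lit 234) (nat_lit 304) (nat_lit 0) (XT.nd (nat_lit 78) (nat_lit 76) (nat_lit 0) (XT.lf (nat_lit 0) (nat_lit 3373979537) (nat_lit 228) (nat_lit 2929083082)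 (nat_lit 76) (nat_lit 12835180797) (nat_lit 31) (nat_lit 5) (nat_lit 34) (nat_lit 5) (nat_lit 32) (nat_lit 4) (nat_lit 391) (nat_lit 269) (nat_lit 240)) (XT.nd (nat_lit 78) (nat_lit 0) (nat_lit 0) (XT.lf (nat_lit 0) (nat_lit 6566082824) (nat_lit 76) (nat_lit 1588739375) (nat_lit 152) (nat_lit 11401580266) (nat_lit 30) (nat_lit 5) (nat_lit 31) (nat_lit 5) (nat_lit 32) (nat_lit 4) (nat_lit 392) (nat_lit 269) (nat_lit 239)) (XT.lf (nat_lit 0) (nat_lit 13070705265) (nat_lit 152) (nat_lit 3741137969) (nat_lit 0) (nat_lit 3175524640) (nat_lit 30) (nat_lit 5) (nat_lit 32) (nat_lit 4) (nat_lit 30) (nat_lit 4) (nat_lit 393) (nat_lit 269) (nat_lit 238)))) (XT.nd (nat_lit 156) (nat_lit 76) (nat_lit 0) (XT.nd (nat_lit 78) (nat_lit 76) (nat_lit 0) (XT.lf (nat_lit 0) (nat_lit 5756518814) (nat_lit 152) (nat_lit 12380979964) (nat_lit 152) (nat_lit 2293670200) (nat_lit 28) (nat_lit 4) (nat_lit 30) (nat_lit 5) (nat_lit 30)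 (nat_lit 4) (nat_lit 394) (nat_lit 269) (nat_lit 237)) (XT.lf (nat_lit 0) (nat_lit 2390476158) (nat_lit 228) (nat_lit 5421176306) (nat_lit 76) (nat_lit 13076810402) (nat_lit 27) (nat_lit 5) (nat_lit 30) (nat_lit 5) (nat_lit 28) (nat_lit 4) (nat_lit 395) (nat_lit 269) (nat_lit 236))) (XT.nd (nat_lit 78) (nat_lit 0) (nat_lit 0) (XT.lf (nat_lit 0) (nat_lit 4044045456) (nat_lit 76) (nat_lit 3098313412) (nat_lit 152) (nat_lit 14217244962) (nat_lit 26) (nat_lit 5) (nat_lit 27) (nat_lit 5) (nat_lit 28) (nat_lit 4) (nat_lit 396) (nat_lit 269) (nat_lit 235)) (XT.lf (nat_lit 0) (nat_lit 12043614733) (nat_lit 152) (nat_lit 8078588116) (nat_lit 0) (nat_lit 1722480338) (nat_lit 26) (nat_lit 5) (nat_lit 28) (nat_lit 4) (nat_lit 26) (nat_lit 4) (nat_lit 397) (nat_lit 269) (nat_lit 234))))))))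
noncomputable def xc37 : XT := (XT.nd (nat_lit 2028) (nat_lit 456) (nat_lit 0) (XT.nd (nat_lit 1014) (nat_lit 456) (nat_lit 0) (XT.nd (nat_lit 468) (nat_lit 228) (nat_lit 0) (XT.nd (nat_lit 234) (nat_lit 152) (nat_lit 0) (XT.nd (nat_lit 78) (nat_lit 76) (nat_lit 0) (XT.lf (nat_lit 0) (nat_lit 1311694047) (nat_lit 76) (nat_lit 15760050440) (nat_lit 76) (nat_lit 5273183763) (nat_lit 25) (nat_lit 4) (nat_lit 26) (nat_lit 5) (nat_lit 26) (nat_lit 4) (nat_lit 398) (nat_lit 269) (nat_lit 233)) (XT.nd (nat_lit 78) (nat_lit 76) (nat_lit 0) (XT.lf (nat_lit 0) (nat_lit 11031734994) (nat_lit 76) (nat_lit 11237830116) (nat_lit 76) (nat_lit 590058310) (nat_lit 25) (nat_lit 4) (nat_lit 26) (nat_lit 5) (nat_lit 26) (nat_lit 4) (nat_lit 399) (nat_lit 269) (nat_lit 232)) (XT.lf (nat_lit 0) (nat_lit 4089434293) (nat_lit 152) (nat_lit 2502438761) (nat_lit 76) (nat_lit 16798518659) (nat_lit 24) (nat_lit 5) (nat_lit 26) (nat_lit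 5) (nat_lit 25) (nat_lit 4) (nat_lit 400) (nat_lit 269) (nat_lit 231)))) (XT.nd (nat_lit 78) (nat_lit 76) (nat_lit 0) (XT.lf (nat_lit 0) (nat_lit 7123945180) (nat_lit 76) (nat_lit 1782263722) (nat_lit 152) (nat_lit 15030443657) (nat_lit 23) (nat_lit 5) (nat_lit 24) (nat_lit 5) (nat_lit 25) (nat_lit 4) (nat_lit 401) (nat_lit 269) (nat_lit 230)) (XT.nd (nat_lit 78) (nat_lit 76) (nat_lit 0) (XT.lf (nat_lit 0) (nat_lit 13863946443) (nat_lit 152) (nat_lit 7551045964) (nat_lit 0) (nat_lit 3084422288) (nat_lit 23) (nat_lit 5) (nat_lit 25) (nat_lit 4) (nat_lit 23) (nat_lit 4) (nat_lit 402) (nat_lit 269) (nat_lit 229)) (XT.lf (nat_lit 0) (nat_lit 1898958990) (nat_lit 76) (nat_lit 17049543741) (nat_lit 76) (nat_lit 6131221408) (nat_lit 22) (nat_lit 4) (nat_lit 23) (nat_lit 5) (nat_lit 23) (nat_lit 4) (nat_lit 403) (nat_lit 269) (nat_lit 228))))) (XT.nd (nat_lit 234) (nat_lit 76) (nat_lit 0) (XT.nd (nat_lit 78) (nat_lit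 152) (nat_lit 0) (XT.lf (nat_lit 0) (nat_lit 11679405277) (nat_lit 76) (nat_lit 12525274871) (nat_lit 76) (nat_lit 1472197026) (nat_lit 22) (nat_lit 4) (nat_lit 23) (nat_lit 5) (nat_lit 23) (nat_lit 4) (nat_lit 404) (nat_lit 269) (nat_lit 227)) (XT.nd (nat_lit 78) (nat_lit 76) (nat_lit 0) (XT.lf (nat_lit 0) (nat_lit 3205626868) (nat_lit 152) (nat_lit 4676485895) (nat_lit 76) (nat_lit 18410560882) (nat_lit 21) (nat_lit 5) (nat_lit 23) (nat_lit 5) (nat_lit 22) (nat_lit 4) (nat_lit 405) (nat_lit 269) (nat_lit 226)) (XT.lf (nat_lit 0) (nat_lit 4902472002) (nat_lit 76) (nat_lit 3084424764) (nat_lit 152) (nat_lit 18939835189) (nat_lit 20) (nat_lit 5) (nat_lit 21) (nat_lit 5) (nat_lit 22) (nat_lit 4) (nat_lit 406) (nat_lit 269) (nat_lit 225)))) (XT.nd (nat_lit 156) (nat_lit 76) (nat_lit 0) (XT.nd (nat_lit 78) (nat_lit 0) (nat_lit 0) (XT.lf (nat_lit 0) (nat_lit 12922870120) (nat_lit 152) (nat_lit 12834952331) (nat_lit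 0) (nat_lit 1821657677) (nat_lit 20) (nat_lit 5) (nat_lit 22) (nat_lit 4) (nat_lit 20) (nat_lit 4) (nat_lit 407) (nat_lit 269) (nat_lit 224)) (XT.lf (nat_lit 0) (nat_lit 17984764427) (nat_lit 152) (nat_lit 3500406271) (nat_lit 0) (nat_lit 6767310695) (nat_lit 20) (nat_lit 5) (nat_lit 22) (nat_lit 4) (nat_lit 20) (nat_lit 4) (nat_lit 408) (nat_lit 269) (nat_lit 223))) (XT.nd (nat_lit 78) (nat_lit 0) (nat_lit 0) (XT.lf (nat_lit 0) (nat_lit 6136937763) (nat_lit 76) (nat_lit 17069407560) (nat_lit 76) (nat_lit 5739098208) (nat_lit 19) (nat_lit 4) (nat_lit 20) (nat_lit 5) (nat_lit 20) (nat_lit 4) (nat_lit 409) (nat_lit 269) (nat_lit 222)) (XT.lf (nat_lit 0) (nat_lit 16039115753) (nat_lit 76) (nat_lit 12530209848) (nat_lit 76) (nat_lit 1090331933) (nat_lit 19) (nat_lit 4) (nat_lit 20) (nat_lit 5) (nat_lit 20) (nat_lit 4) (nat_lit 410) (nat_lit 269) (nat_lit 221)))))) (XT.nd (nat_lit 468) (nat_lit 228) (nat_lit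 0) (XT.nd (nat_lit 234) (nat_lit 76) (nat_lit 0) (XT.nd (nat_lit 78) (nat_lit 76) (nat_lit 0) (XT.lf (nat_lit 0) (nat_lit 3576124751) (nat_lit 152) (nat_lit 4286721915) (nat_lit 76) (nat_lit 22532878539) (nat_lit 18) (nat_lit 5) (nat_lit 20) (nat_lit 5) (nat_lit 19) (nat_lit 4) (nat_lit 411) (nat_lit 269) (nat_lit 220)) (XT.nd (nat_lit 78) (nat_lit 0) (nat_lit 0) (XT.lf (nat_lit 0) (nat_lit 5328809617) (nat_lit 76) (nat_lit 3034906469) (nat_lit 152) (nat_lit 22789748380) (nat_lit 17) (nat_lit 5) (nat_lit 18) (nat_lit 5) (nat_lit 19) (nat_lit 4) (nat_lit 412) (nat_lit 269) (nat_lit 219)) (XT.lf (nat_lit 0) (nat_lit 13309230174) (nat_lit 152) (nat_lit 16722629122) (nat_lit 0) (nat_lit 1901652701) (nat_lit 17) (nat_lit 5) (nat_lit 19) (nat_lit 4) (nat_lit 17) (nat_lit 4) (nat_lit 413) (nat_lit 269) (nat_lit 218)))) (XT.nd (nat_lit 78) (nat_lit 76) (nat_lit 0) (XT.lf (nat_lit 0) (nat_lit 18386508674) (nat_lit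 152) (nat_lit 7466538708) (nat_lit 0) (nat_lit 6884416397) (nat_lit 17) (nat_lit 5) (nat_lit 19) (nat_lit 4) (nat_lit 17) (nat_lit 4) (nat_lit 414) (nat_lit 269) (nat_lit 217)) (XT.nd (nat_lit 78) (nat_lit 0) (nat_lit 0) (XT.lf (nat_lit 0) (nat_lit 2020300962) (nat_lit 76) (nat_lit 21569934075) (nat_lit 76) (nat_lit 9976079851) (nat_lit 16) (nat_lit 4) (nat_lit 17) (nat_lit 5) (nat_lit 17) (nat_lit 4) (nat_lit 415) (nat_lit 269) (nat_lit 216)) (XT.lf (nat_lit 0) (nat_lit 11859292378) (nat_lit 76) (nat_lit 17121384526) (nat_lit 76) (nat_lit 5438441034) (nat_lit 16) (nat_lit 4) (nat_lit 17) (nat_lit 5) (nat_lit 17) (nat_lit 4) (nat_lit 416) (nat_lit 269) (nat_lit 215))))) (XT.nd (nat_lit 234) (nat_lit 76) (nat_lit 0) (XT.nd (nat_lit 78) (nat_lit 152) (nat_lit 0) (XT.lf (nat_lit 0) (nat_lit 21910433956) (nat_lit 76) (nat_lit 12578909056) (nat_lit 76) (nat_lit 809471128) (nat_lit 16) (nat_lit 4) (nat_lit 17)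 (nat_lit 5) (nat_lit 17) (nat_lit 4) (nat_lit 417) (nat_lit 269) (nat_lit 214)) (XT.nd (nat_lit 78) (nat_lit 76) (nat_lit 0) (XT.lf (nat_lit 0) (nat_lit 3838481291) (nat_lit 152) (nat_lit 4061296085) (nat_lit 76) (nat_lit 28305265820) (nat_lit 15) (nat_lit 5) (nat_lit 17) (nat_lit 5) (nat_lit 16) (nat_lit 4) (nat_lit 418) (nat_lit 269) (nat_lit 213)) (XT.lf (nat_lit 0) (nat_lit 5567138980) (nat_lit 76) (nat_lit 3054575989) (nat_lit 152) (nat_lit 28516144367) (nat_lit 14) (nat_lit 5) (nat_lit 15) (nat_lit 5) (nat_lit 16) (nat_lit 4) (nat_lit 419) (nat_lit 269) (nat_lit 212)))) (XT.nd (nat_lit 156) (nat_lit 76) (nat_lit 0) (XT.nd (nat_lit 78) (nat_lit 0) (nat_lit 0) (XT.lf (nat_lit 0) (nat_lit 13567164247) (nat_lit 152) (nat_lit 22627945721) (nat_lit 0) (nat_lit 1902992335) (nat_lit 14) (nat_lit 5) (nat_lit 16) (nat_lit 4) (nat_lit 14) (nat_lit 4) (nat_lit 420) (nat_lit 269) (nat_lit 211)) (XT.lf (nat_lit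 0) (nat_lit 18651115061) (nat_lit 152) (nat_lit 13524004853) (nat_lit 0) (nat_lit 6912332289) (nat_lit 14) (nat_lit 5) (nat_lit 16) (nat_lit 4) (nat_lit 14) (nat_lit 4) (nat_lit 421) (nat_lit 269) (nat_lit 210))) (XT.nd (nat_lit 78) (nat_lit 76) (nat_lit 0) (XT.lf (nat_lit 0) (nat_lit 23848647246) (nat_lit 152) (nat_lit 4221580400) (nat_lit 0) (nat_lit 12037426745) (nat_lit 14) (nat_lit 5) (nat_lit 16) (nat_lit 4) (nat_lit 14) (nat_lit 4) (nat_lit 422) (nat_lit 269) (nat_lit 209)) (XT.lf (nat_lit 0) (nat_lit 5392686710) (nat_lit 76) (nat_lit 23823453427) (nat_lit 76) (nat_lit 11941905035) (nat_lit 13) (nat_lit 4) (nat_lit 14) (nat_lit 5) (nat_lit 14) (nat_lit 4) (nat_lit 423) (nat_lit 269) (nat_lit 208))))))) (XT.nd (nat_lit 1014) (nat_lit 228) (nat_lit 0) (XT.nd (nat_lit 468) (nat_lit 76) (nat_lit 0) (XT.nd (nat_lit 234) (nat_lit 76) (nat_lit 0) (XT.nd (nat_lit 78) (nat_lit 76) (nat_lit 0) (XT.lf (nat_lit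 0) (nat_lit 15310169677) (nat_lit 76) (nat_lit 19439726111) (nat_lit 76) (nat_lit 7489898213) (nat_lit 13) (nat_lit 4) (nat_lit 14) (nat_lit 5) (nat_lit 14) (nat_lit 4) (nat_lit 424) (nat_lit 269) (nat_lit 207)) (XT.nd (nat_lit 78) (nat_lit 76) (nat_lit 0) (XT.lf (nat_lit 0) (nat_lit 25455516535) (nat_lit 76) (nat_lit 14957844943) (nat_lit 76) (nat_lit 2941726262) (nat_lit 13) (nat_lit 4) (nat_lit 14) (nat_lit 5) (nat_lit 14) (nat_lit 4) (nat_lit 425) (nat_lit 269) (nat_lit 206)) (XT.lf (nat_lit 0) (nat_lit 1673283329) (nat_lit 152) (nat_lit 8683713505) (nat_lit 76) (nat_lit 34147411939) (nat_lit 12) (nat_lit 5) (nat_lit 14) (nat_lit 5) (nat_lit 13) (nat_lit 4) (nat_lit 426) (nat_lit 269) (nat_lit 205)))) (XT.nd (nat_lit 78) (nat_lit 0) (nat_lit 0) (XT.lf (nat_lit 0) (nat_lit 727334134) (nat_lit 76) (nat_lit 5612714249) (nat_lit 152) (nat_lit 39348117424) (nat_lit 11) (nat_lit 5) (nat_lit 12) (nat_lit 5)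 (nat_lit 13) (nat_lit 4) (nat_lit 427) (nat_lit 269) (nat_lit 204)) (XT.nd (nat_lit 78) (nat_lit 0) (nat_lit 0) (XT.lf (nat_lit 0) (nat_lit 10533018634) (nat_lit 76) (nat_lit 667300663) (nat_lit 152) (nat_lit 35705514155) (nat_lit 11) (nat_lit 5) (nat_lit 12) (nat_lit 5) (nat_lit 13) (nat_lit 4) (nat_lit 428) (nat_lit 269) (nat_lit 203)) (XT.lf (nat_lit 0) (nat_lit 16215464322) (nat_lit 152) (nat_lit 27634200438) (nat_lit 0) (nat_lit 4310097290) (nat_lit 11) (nat_lit 5) (nat_lit 13) (nat_lit 4) (nat_lit 11) (nat_lit 4) (nat_lit 429) (nat_lit 269) (nat_lit 202))))) (XT.nd (nat_lit 234) (nat_lit 76) (nat_lit 0) (XT.nd (nat_lit 78) (nat_lit 0) (nat_lit 0) (XT.lf (nat_lit 0) (nat_lit 21355161889) (nat_lit 152) (nat_lit 18702649119) (nat_lit 0) (nat_lit 9394277371) (nat_lit 11) (nat_lit 5) (nat_lit 13) (nat_lit 4) (nat_lit 11) (nat_lit 4) (nat_lit 430) (nat_lit 269) (nat_lit 201)) (XT.nd (nat_lit 78) (nat_lit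 0) (nat_lit 0) (XT.lf (nat_lit 0) (nat_lit 26617488495) (nat_lit 152) (nat_lit 9563942089) (nat_lit 0) (nat_lit 14602703504) (nat_lit 11) (nat_lit 5) (nat_lit 13) (nat_lit 4) (nat_lit 11) (nat_lit 4) (nat_lit 431) (nat_lit 269) (nat_lit 200)) (XT.lf (nat_lit 0) (nat_lit 32007042290) (nat_lit 152) (nat_lit 210094071) (nat_lit 0) (nat_lit 19939926743) (nat_lit 11) (nat_lit 5) (nat_lit 13) (nat_lit 4) (nat_lit 11) (nat_lit 4) (nat_lit 432) (nat_lit 269) (nat_lit 199)))) (XT.nd (nat_lit 156) (nat_lit 0) (nat_lit 0) (XT.nd (nat_lit 78) (nat_lit 0) (nat_lit 0) (XT.lf (nat_lit 0) (nat_lit 9553491223) (nat_lit 76) (nat_lit 28066875370) (nat_lit 76) (nat_lit 15948953458) (nat_lit 10) (nat_lit 4) (nat_lit 11) (nat_lit 5) (nat_lit 11) (nat_lit 4) (nat_lit 433) (nat_lit 269) (nat_lit 198)) (XT.lf (nat_lit 0) (nat_lit 19557551388) (nat_lit 76) (nat_lit 23817231763) (nat_lit 76) (nat_lit 11649983283) (nat_lit 10) (nat_lit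 4) (nat_lit 11) (nat_lit 5) (nat_lit 11) (nat_lit 4) (nat_lit 434) (nat_lit 269) (nat_lit 197))) (XT.nd (nat_lit 78) (nat_lit 0) (nat_lit 0) (XT.lf (nat_lit 0) (nat_lit 29806646552) (nat_lit 76) (nat_lit 19466613797) (nat_lit 76) (nat_lit 7251475446) (nat_lit 10) (nat_lit 4) (nat_lit 11) (nat_lit 5) (nat_lit 11) (nat_lit 4) (nat_lit 435) (nat_lit 269) (nat_lit 196)) (XT.lf (nat_lit 0) (nat_lit 40309732234) (nat_lit 76) (nat_lit 15011219963) (nat_lit 76) (nat_lit 2749586590) (nat_lit 10) (nat_lit 4) (nat_lit 11) (nat_lit 5) (nat_lit 11) (nat_lit 4) (nat_lit 436) (nat_lit 269) (nat_lit 195)))))) (XT.nd (nat_lit 546) (nat_lit 76) (nat_lit 0) (XT.nd (nat_lit 234) (nat_lit 0) (nat_lit 0) (XT.nd (nat_lit 78) (nat_lit 76) (nat_lit 0) (XT.lf (nat_lit 0) (nat_lit 1823329147) (nat_lit 152) (nat_lit 8605415999) (nat_lit 76) (nat_lit 49234244691) (nat_lit 9) (nat_lit 5) (nat_lit 11) (nat_lit 5) (nat_lit 10) (nat_lit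 4) (nat_lit 437) (nat_lit 269) (nat_lit 194)) (XT.nd (nat_lit 78) (nat_lit 0) (nat_lit 0) (XT.lf (nat_lit 0) (nat_lit 761328942) (nat_lit 76) (nat_lit 5697749446) (nat_lit 152) (nat_lit 54843894182) (nat_lit 8) (nat_lit 5) (nat_lit 9) (nat_lit 5) (nat_lit 10) (nat_lit 4) (nat_lit 438) (nat_lit 269) (nat_lit 193)) (XT.lf (nat_lit 0) (nat_lit 10535038266) (nat_lit 76) (nat_lit 759635617) (nat_lit 152) (nat_lit 51695659784) (nat_lit 8) (nat_lit 5) (nat_lit 9) (nat_lit 5) (nat_lit 10) (nat_lit 4) (nat_lit 439) (nat_lit 269) (nat_lit 192)))) (XT.nd (nat_lit 156) (nat_lit 0) (nat_lit 0) (XT.nd (nat_lit 78) (nat_lit 0) (nat_lit 0) (XT.lf (nat_lit 0) (nat_lit 16291337283) (nat_lit 152) (nat_lit 44217454271) (nat_lit 0) (nat_lit 4219046078) (nat_lit 8) (nat_lit 5) (nat_lit 10) (nat_lit 4) (nat_lit 8) (nat_lit 4) (nat_lit 440) (nat_lit 269) (nat_lit 191)) (XT.lf (nat_lit 0) (nat_lit 21420576978) (nat_lit 152) (nat_lit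 35788064496) (nat_lit 0) (nat_lit 9309346925) (nat_lit 8) (nat_lit 5) (nat_lit 10) (nat_lit 4) (nat_lit 8) (nat_lit 4) (nat_lit 441) (nat_lit 269) (nat_lit 190))) (XT.nd (nat_lit 78) (nat_lit 0) (nat_lit 0) (XT.lf (nat_lit 0) (nat_lit 26679572747) (nat_lit 152) (nat_lit 27152458508) (nat_lit 0) (nat_lit 14530537987) (nat_lit 8) (nat_lit 5) (nat_lit 10) (nat_lit 4) (nat_lit 8) (nat_lit 4) (nat_lit 442) (nat_lit 269) (nat_lit 189)) (XT.lf (nat_lit 0) (nat_lit 32072919828) (nat_lit 152) (nat_lit 18303090633) (nat_lit 0) (nat_lit 19887181469) (nat_lit 8) (nat_lit 5) (nat_lit 10) (nat_lit 4) (nat_lit 8) (nat_lit 4) (nat_lit 443) (nat_lit 269) (nat_lit 188))))) (XT.nd (nat_lit 234) (nat_lit 0) (nat_lit 0) (XT.nd (nat_lit 78) (nat_lit 76) (nat_lit 0) (XT.lf (nat_lit 0) (nat_lit 37605330855) (nat_lit 152) (nat_lit 9232228413) (nat_lit 0) (nat_lit 25383957933) (nat_lit 8) (nat_lit 5) (nat_lit 10) (nat_lit 4) (nat_lit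 8) (nat_lit 4) (nat_lit 444) (nat_lit 269) (nat_lit 187)) (XT.nd (nat_lit 78) (nat_lit 0) (nat_lit 0) (XT.lf (nat_lit 0) (nat_lit 69408558) (nat_lit 76) (nat_lit 43212898611) (nat_lit 76) (nat_lit 30956929027) (nat_lit 7) (nat_lit 4) (nat_lit 8) (nat_lit 5) (nat_lit 8) (nat_lit 4) (nat_lit 445) (nat_lit 269) (nat_lit 186)) (XT.lf (nat_lit 0) (nat_lit 9797059427) (nat_lit 76) (nat_lit 39403922964) (nat_lit 76) (nat_lit 27114364387) (nat_lit 7) (nat_lit 4) (nat_lit 8) (nat_lit 5) (nat_lit 8) (nat_lit 4) (nat_lit 446) (nat_lit 269) (nat_lit 185)))) (XT.nd (nat_lit 156) (nat_lit 0) (nat_lit 0) (XT.nd (nat_lit 78) (nat_lit 0) (nat_lit 0) (XT.lf (nat_lit 0) (nat_lit 19775484634) (nat_lit 76) (nat_lit 35500531500) (nat_lit 76) (nat_lit 23178362251) (nat_lit 7) (nat_lit 4) (nat_lit 8) (nat_lit 5) (nat_lit 8) (nat_lit 4) (nat_lit 447) (nat_lit 269) (nat_lit 184)) (XT.lf (nat_lit 0) (nat_lit 30013403191) (nat_lit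 76) (nat_lit 31499313489) (nat_lit 76) (nat_lit 19145483393) (nat_lit 7) (nat_lit 4) (nat_lit 8) (nat_lit 5) (nat_lit 8) (nat_lit 4) (nat_lit 448) (nat_lit 269) (nat_lit 183))) (XT.nd (nat_lit 39936) (nat_lit 0) (nat_lit 5776) (XT.lf (nat_lit 0) (nat_lit 40519760853) (nat_lit 76) (nat_lit 27396772721) (nat_lit 76) (nat_lit 15012203938) (nat_lit 7) (nat_lit 4) (nat_lit 8) (nat_lit 5) (nat_lit 8) (nat_lit 4) (nat_lit 449) (nat_lit 269) (nat_lit 182)) (XT.lf (nat_lit 0) (nat_lit 5109596996) (nat_lit 228) (nat_lit 144450102) (nat_lit 228) (nat_lit 144450102) (nat_lit 83) (nat_lit 4) (nat_lit 86) (nat_lit 5) (nat_lit 86) (nat_lit 4) (nat_lit 360) (nat_lit 270) (nat_lit 270))))))))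
noncomputable def xc38 : XT := (XT.nd (nat_lit 2028) (nat_lit 1444) (nat_lit 0) (XT.nd (nat_lit 1014) (nat_lit 1368) (nat_lit 0) (XT.nd (nat_lit 468) (nat_lit 988) (nat_lit 0) (XT.nd (nat_lit 234) (nat_lit 456) (nat_lit 0) (XT.nd (nat_lit 78) (nat_lit 456) (nat_lit 0) (XT.lf (nat_lit 0) (nat_lit 4243238116) (nat_lit 304) (nat_lit 3141123451) (nat_lit 0) (nat_lit 3578337595) (nat_lit 79) (nat_lit 5) (nat_lit 83) (nat_lit 4) (nat_lit 79) (nat_lit 4) (nat_lit 361) (nat_lit 270) (nat_lit 269)) (XT.nd (nat_lit 78) (nat_lit 228) (nat_lit 0) (XT.lf (nat_lit 0) (nat_lit 5283083250) (nat_lit 228) (nat_lit 3580959257) (nat_lit 228) (nat_lit 2270524251) (nat_lit 76) (nat_lit 4) (nat_lit 79) (nat_lit 5) (nat_lit 79) (nat_lit 4) (nat_lit 362) (nat_lit 270) (nat_lit 268)) (XT.lf (nat_lit 0) (nat_lit 2226261095) (nat_lit 228) (nat_lit 8740392732) (nat_lit 0) (nat_lit 345515932) (nat_lit 73) (nat_lit 5) (nat_lit 76) (nat_lit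 4) (nat_lit 73) (nat_lit 4) (nat_lit 363) (nat_lit 270) (nat_lit 267)))) (XT.nd (nat_lit 78) (nat_lit 456) (nat_lit 0) (XT.lf (nat_lit 0) (nat_lit 6807484284) (nat_lit 228) (nat_lit 351133426) (nat_lit 0) (nat_lit 4335983621) (nat_lit 73) (nat_lit 5) (nat_lit 76) (nat_lit 4) (nat_lit 73) (nat_lit 4) (nat_lit 364) (nat_lit 270) (nat_lit 266)) (XT.nd (nat_lit 78) (nat_lit 228) (nat_lit 0) (XT.lf (nat_lit 0) (nat_lit 8289454190) (nat_lit 228) (nat_lit 3219325694) (nat_lit 228) (nat_lit 174276001) (nat_lit 70) (nat_lit 4) (nat_lit 73) (nat_lit 5) (nat_lit 73) (nat_lit 4) (nat_lit 365) (nat_lit 270) (nat_lit 265)) (XT.lf (nat_lit 0) (nat_lit 4352007180) (nat_lit 228) (nat_lit 6669910063) (nat_lit 0) (nat_lit 855023286) (nat_lit 67) (nat_lit 5) (nat_lit 70) (nat_lit 4) (nat_lit 67) (nat_lit 4) (nat_lit 366) (nat_lit 270) (nat_lit 264))))) (XT.nd (nat_lit 234) (nat_lit 532) (nat_lit 0) (XT.nd (nat_lit 78) (nat_lit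 228) (nat_lit 0) (XT.lf (nat_lit 0) (nat_lit 1899623487) (nat_lit 228) (nat_lit 7099598119) (nat_lit 228) (nat_lit 3077735613) (nat_lit 64) (nat_lit 4) (nat_lit 67) (nat_lit 5) (nat_lit 67) (nat_lit 4) (nat_lit 367) (nat_lit 270) (nat_lit 263)) (XT.nd (nat_lit 78) (nat_lit 152) (nat_lit 0) (XT.lf (nat_lit 0) (nat_lit 1445755670) (nat_lit 304) (nat_lit 1596569377) (nat_lit 76) (nat_lit 9241074948) (nat_lit 63) (nat_lit 5) (nat_lit 67) (nat_lit 5) (nat_lit 64) (nat_lit 4) (nat_lit 368) (nat_lit 270) (nat_lit 262)) (XT.lf (nat_lit 0) (nat_lit 6030490028) (nat_lit 228) (nat_lit 5314351858) (nat_lit 0) (nat_lit 1150682434) (nat_lit 61) (nat_lit 5) (nat_lit 64) (nat_lit 4) (nat_lit 61) (nat_lit 4) (nat_lit 369) (nat_lit 270) (nat_lit 261)))) (XT.nd (nat_lit 156) (nat_lit 304) (nat_lit 0) (XT.nd (nat_lit 78) (nat_lit 76) (nat_lit 0) (XT.lf (nat_lit 0) (nat_lit 3418567923) (nat_lit 152) (nat_lit 7321009613) (nat_lit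 152) (nat_lit 1974854172) (nat_lit 59) (nat_lit 4) (nat_lit 61) (nat_lit 5) (nat_lit 61) (nat_lit 4) (nat_lit 370) (nat_lit 270) (nat_lit 260)) (XT.lf (nat_lit 0) (nat_lit 2560311685) (nat_lit 228) (nat_lit 601487620) (nat_lit 76) (nat_lit 9778505350) (nat_lit 58) (nat_lit 5) (nat_lit 61) (nat_lit 5) (nat_lit 59) (nat_lit 4) (nat_lit 371) (nat_lit 270) (nat_lit 259))) (XT.nd (nat_lit 78) (nat_lit 152) (nat_lit 0) (XT.lf (nat_lit 0) (nat_lit 7193655662) (nat_lit 228) (nat_lit 4841817153) (nat_lit 0) (nat_lit 1136861570) (nat_lit 56) (nat_lit 5) (nat_lit 59) (nat_lit 4) (nat_lit 56) (nat_lit 4) (nat_lit 372) (nat_lit 270) (nat_lit 258)) (XT.lf (nat_lit 0) (nat_lit 4023333876) (nat_lit 152) (nat_lit 7929768599) (nat_lit 152) (nat_lit 1458630485) (nat_lit 54) (nat_lit 4) (nat_lit 56) (nat_lit 5) (nat_lit 56) (nat_lit 4) (nat_lit 373) (nat_lit 270) (nat_lit 257)))))) (XT.nd (nat_lit 468) (nat_lit 608) (nat_lit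 0) (XT.nd (nat_lit 234) (nat_lit 380) (nat_lit 0) (XT.nd (nat_lit 78) (nat_lit 304) (nat_lit 0) (XT.lf (nat_lit 0) (nat_lit 3095221972) (nat_lit 228) (nat_lit 590113260) (nat_lit 76) (nat_lit 9973258487) (nat_lit 53) (nat_lit 5) (nat_lit 56) (nat_lit 5) (nat_lit 54) (nat_lit 4) (nat_lit 374) (nat_lit 270) (nat_lit 256)) (XT.nd (nat_lit 78) (nat_lit 152) (nat_lit 0) (XT.lf (nat_lit 0) (nat_lit 7758529075) (nat_lit 228) (nat_lit 5447724273) (nat_lit 0) (nat_lit 706128256) (nat_lit 51) (nat_lit 5) (nat_lit 54) (nat_lit 4) (nat_lit 51) (nat_lit 4) (nat_lit 375) (nat_lit 270) (nat_lit 255)) (XT.lf (nat_lit 0) (nat_lit 3509829574) (nat_lit 152) (nat_lit 9042398781) (nat_lit 152) (nat_lit 1621858664) (nat_lit 49) (nat_lit 4) (nat_lit 51) (nat_lit 5) (nat_lit 51) (nat_lit 4) (nat_lit 376) (nat_lit 270) (nat_lit 254)))) (XT.nd (nat_lit 78) (nat_lit 304) (nat_lit 0) (XT.lf (nat_lit 0) (nat_lit 2956656158) (nat_lit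 228) (nat_lit 1775944908) (nat_lit 76) (nat_lit 9711081671) (nat_lit 48) (nat_lit 5) (nat_lit 51) (nat_lit 5) (nat_lit 49) (nat_lit 4) (nat_lit 377) (nat_lit 270) (nat_lit 253)) (XT.nd (nat_lit 78) (nat_lit 152) (nat_lit 0) (XT.lf (nat_lit 0) (nat_lit 7359076525) (nat_lit 152) (nat_lit 268529401) (nat_lit 228) (nat_lit 7093665441) (nat_lit 46) (nat_lit 5) (nat_lit 48) (nat_lit 5) (nat_lit 49) (nat_lit 4) (nat_lit 378) (nat_lit 270) (nat_lit 252)) (XT.lf (nat_lit 0) (nat_lit 1640214018) (nat_lit 152) (nat_lit 10791303164) (nat_lit 152) (nat_lit 2575902083) (nat_lit 44) (nat_lit 4) (nat_lit 46) (nat_lit 5) (nat_lit 46) (nat_lit 4) (nat_lit 379) (nat_lit 270) (nat_lit 251))))) (XT.nd (nat_lit 234) (nat_lit 456) (nat_lit 0) (XT.nd (nat_lit 78) (nat_lit 76) (nat_lit 0) (XT.lf (nat_lit 0) (nat_lit 2032108439) (nat_lit 228) (nat_lit 4407781140) (nat_lit 76) (nat_lit 8861821041) (nat_lit 43) (nat_lit 5) (nat_lit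 46) (nat_lit 5) (nat_lit 44) (nat_lit 4) (nat_lit 380) (nat_lit 270) (nat_lit 250)) (XT.nd (nat_lit 78) (nat_lit 0) (nat_lit 0) (XT.lf (nat_lit 0) (nat_lit 4743693291) (nat_lit 76) (nat_lit 1948407905) (nat_lit 152) (nat_lit 8913014142) (nat_lit 42) (nat_lit 5) (nat_lit 43) (nat_lit 5) (nat_lit 44) (nat_lit 4) (nat_lit 381) (nat_lit 270) (nat_lit 249)) (XT.lf (nat_lit 0) (nat_lit 11482856641) (nat_lit 152) (nat_lit 1826566695) (nat_lit 0) (nat_lit 2608484722) (nat_lit 42) (nat_lit 5) (nat_lit 44) (nat_lit 4) (nat_lit 42) (nat_lit 4) (nat_lit 382) (nat_lit 270) (nat_lit 248)))) (XT.nd (nat_lit 156) (nat_lit 152) (nat_lit 0) (XT.nd (nat_lit 78) (nat_lit 76) (nat_lit 0) (XT.lf (nat_lit 0) (nat_lit 187562763) (nat_lit 228) (nat_lit 8775767626) (nat_lit 76) (nat_lit 7276303817) (nat_lit 39) (nat_lit 5) (nat_lit 42) (nat_lit 5) (nat_lit 40) (nat_lit 4) (nat_lit 383) (nat_lit 270) (nat_lit 247)) (XT.lf (nat_lit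 0) (nat_lit 322041824) (nat_lit 76) (nat_lit 4482141461) (nat_lit 152) (nat_lit 11767190966) (nat_lit 38) (nat_lit 5) (nat_lit 39) (nat_lit 5) (nat_lit 40) (nat_lit 4) (nat_lit 384) (nat_lit 270) (nat_lit 246))) (XT.nd (nat_lit 78) (nat_lit 152) (nat_lit 0) (XT.lf (nat_lit 0) (nat_lit 9573142081) (nat_lit 152) (nat_lit 7180362684) (nat_lit 0) (nat_lit 159159647) (nat_lit 38) (nat_lit 5) (nat_lit 40) (nat_lit 4) (nat_lit 38) (nat_lit 4) (nat_lit 385) (nat_lit 270) (nat_lit 245)) (XT.lf (nat_lit 0) (nat_lit 2019319812) (nat_lit 152) (nat_lit 12454940427) (nat_lit 152) (nat_lit 2790273044) (nat_lit 36) (nat_lit 4) (nat_lit 38) (nat_lit 5) (nat_lit 38) (nat_lit 4) (nat_lit 386) (nat_lit 270) (nat_lit 244))))))) (XT.nd (nat_lit 1014) (nat_lit 608) (nat_lit 0) (XT.nd (nat_lit 468) (nat_lit 380) (nat_lit 0) (XT.nd (nat_lit 234) (nat_lit 304) (nat_lit 0) (XT.nd (nat_lit 78) (nat_lit 76) (nat_lit 0) (XT.lf (nat_lit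 0) (nat_lit 1857128615) (nat_lit 228) (nat_lit 6138079737) (nat_lit 76) (nat_lit 9631255391) (nat_lit 35) (nat_lit 5) (nat_lit 38) (nat_lit 5) (nat_lit 36) (nat_lit 4) (nat_lit 387) (nat_lit 270) (nat_lit 243)) (XT.nd (nat_lit 78) (nat_lit 0) (nat_lit 0) (XT.lf (nat_lit 0) (nat_lit 3143416091) (nat_lit 76) (nat_lit 3402279240) (nat_lit 152) (nat_lit 11454004892) (nat_lit 34) (nat_lit 5) (nat_lit 35) (nat_lit 5) (nat_lit 36) (nat_lit 4) (nat_lit 388) (nat_lit 270) (nat_lit 242)) (XT.lf (nat_lit 0) (nat_lit 11378165987) (nat_lit 152) (nat_lit 5699325109) (nat_lit 0) (nat_lit 1306556597) (nat_lit 34) (nat_lit 5) (nat_lit 36) (nat_lit 4) (nat_lit 34) (nat_lit 4) (nat_lit 389) (nat_lit 270) (nat_lit 241)))) (XT.nd (nat_lit 78) (nat_lit 152) (nat_lit 0) (XT.lf (nat_lit 0) (nat_lit 3640720957) (nat_lit 152) (nat_lit 12713554053) (nat_lit 152) (nat_lit 2425701625) (nat_lit 32) (nat_lit 4) (nat_lit 34) (nat_lit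 5) (nat_lit 34) (nat_lit 4) (nat_lit 390) (nat_lit 270) (nat_lit 240)) (XT.nd (nat_lit 78) (nat_lit 76) (nat_lit 0) (XT.lf (nat_lit 0) (nat_lit 2235380297) (nat_lit 228) (nat_lit 5959975122) (nat_lit 76) (nat_lit 10992130860) (nat_lit 31) (nat_lit 5) (nat_lit 34) (nat_lit 5) (nat_lit 32) (nat_lit 4) (nat_lit 391) (nat_lit 270) (nat_lit 239)) (XT.lf (nat_lit 0) (nat_lit 3411889518) (nat_lit 76) (nat_lit 3540581637) (nat_lit 152) (nat_lit 12655091674) (nat_lit 30) (nat_lit 5) (nat_lit 31) (nat_lit 5) (nat_lit 32) (nat_lit 4) (nat_lit 392) (nat_lit 270) (nat_lit 238))))) (XT.nd (nat_lit 234) (nat_lit 152) (nat_lit 0) (XT.nd (nat_lit 78) (nat_lit 228) (nat_lit 0) (XT.lf (nat_lit 0) (nat_lit 11816275999) (nat_lit 152) (nat_lit 6989601584) (nat_lit 0) (nat_lit 1234217804) (nat_lit 30) (nat_lit 5) (nat_lit 32) (nat_lit 4) (nat_lit 30) (nat_lit 4) (nat_lit 393) (nat_lit 270) (nat_lit 237)) (XT.nd (nat_lit 78) (nat_lit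 76) (nat_lit 0) (XT.lf (nat_lit 0) (nat_lit 2382138748) (nat_lit 152) (nat_lit 14436148606) (nat_lit 152) (nat_lit 3667557266) (nat_lit 28) (nat_lit 4) (nat_lit 30) (nat_lit 5) (nat_lit 30) (nat_lit 4) (nat_lit 394) (nat_lit 270) (nat_lit 236)) (XT.lf (nat_lit 0) (nat_lit 1011102332) (nat_lit 228) (nat_lit 8897153745) (nat_lit 76) (nat_lit 11036251913) (nat_lit 27) (nat_lit 5) (nat_lit 30) (nat_lit 5) (nat_lit 28) (nat_lit 4) (nat_lit 395) (nat_lit 270) (nat_lit 235)))) (XT.nd (nat_lit 156) (nat_lit 76) (nat_lit 0) (XT.nd (nat_lit 78) (nat_lit 0) (nat_lit 0) (XT.lf (nat_lit 0) (nat_lit 439350371) (nat_lit 76) (nat_lit 5257628559) (nat_lit 152) (nat_lit 15720654476) (nat_lit 26) (nat_lit 5) (nat_lit 27) (nat_lit 5) (nat_lit 28) (nat_lit 4) (nat_lit 396) (nat_lit 270) (nat_lit 234)) (XT.lf (nat_lit 0) (nat_lit 10120988923) (nat_lit 76) (nat_lit 429360846) (nat_lit 152) (nat_lit 11353803688) (nat_lit 26) (nat_lit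 5) (nat_lit 27) (nat_lit 5) (nat_lit 28) (nat_lit 4) (nat_lit 397) (nat_lit 270) (nat_lit 233))) (XT.nd (nat_lit 78) (nat_lit 76) (nat_lit 0) (XT.lf (nat_lit 0) (nat_lit 15531398151) (nat_lit 152) (nat_lit 2471128768) (nat_lit 0) (nat_lit 4403288063) (nat_lit 26) (nat_lit 5) (nat_lit 28) (nat_lit 4) (nat_lit 26) (nat_lit 4) (nat_lit 398) (nat_lit 270) (nat_lit 232)) (XT.lf (nat_lit 0) (nat_lit 7143510713) (nat_lit 76) (nat_lit 13531479432) (nat_lit 76) (nat_lit 2247150772) (nat_lit 25) (nat_lit 4) (nat_lit 26) (nat_lit 5) (nat_lit 26) (nat_lit 4) (nat_lit 399) (nat_lit 270) (nat_lit 231)))))) (XT.nd (nat_lit 546) (nat_lit 228) (nat_lit 0) (XT.nd (nat_lit 234) (nat_lit 228) (nat_lit 0) (XT.nd (nat_lit 78) (nat_lit 76) (nat_lit 0) (XT.lf (nat_lit 0) (nat_lit 2435257524) (nat_lit 152) (nat_lit 6492424401) (nat_lit 76) (nat_lit 14526591441) (nat_lit 24) (nat_lit 5) (nat_lit 26) (nat_lit 5) (nat_lit 25) (nat_lit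 4) (nat_lit 400) (nat_lit 270) (nat_lit 230)) (XT.nd (nat_lit 78) (nat_lit 0) (nat_lit 0) (XT.lf (nat_lit 0) (nat_lit 2999919065) (nat_lit 76) (nat_lit 4183907155) (nat_lit 152) (nat_lit 16818757743) (nat_lit 23) (nat_lit 5) (nat_lit 24) (nat_lit 5) (nat_lit 25) (nat_lit 4) (nat_lit 401) (nat_lit 270) (nat_lit 229)) (XT.lf (nat_lit 0) (nat_lit 12089998134) (nat_lit 152) (nat_lit 11771570451) (nat_lit 0) (nat_lit 705327953) (nat_lit 23) (nat_lit 5) (nat_lit 25) (nat_lit 4) (nat_lit 23) (nat_lit 4) (nat_lit 402) (nat_lit 270) (nat_lit 228)))) (XT.nd (nat_lit 156) (nat_lit 152) (nat_lit 0) (XT.nd (nat_lit 78) (nat_lit 76) (nat_lit 0) (XT.lf (nat_lit 0) (nat_lit 17128650408) (nat_lit 152) (nat_lit 2410711348) (nat_lit 0) (nat_lit 5609224716) (nat_lit 23) (nat_lit 5) (nat_lit 25) (nat_lit 4) (nat_lit 23) (nat_lit 4) (nat_lit 403) (nat_lit 270) (nat_lit 227)) (XT.lf (nat_lit 0) (nat_lit 7270177422) (nat_lit 76)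 (nat_lit 15063675445) (nat_lit 76) (nat_lit 3413419159) (nat_lit 22) (nat_lit 4) (nat_lit 23) (nat_lit 5) (nat_lit 23) (nat_lit 4) (nat_lit 404) (nat_lit 270) (nat_lit 226))) (XT.nd (nat_lit 78) (nat_lit 76) (nat_lit 0) (XT.lf (nat_lit 0) (nat_lit 1275474838) (nat_lit 152) (nat_lit 9188062360) (nat_lit 76) (nat_lit 15900898494) (nat_lit 21) (nat_lit 5) (nat_lit 23) (nat_lit 5) (nat_lit 22) (nat_lit 4) (nat_lit 405) (nat_lit 270) (nat_lit 225)) (XT.lf (nat_lit 0) (nat_lit 250988564) (nat_lit 76) (nat_lit 5735014011) (nat_lit 152) (nat_lit 21014616683) (nat_lit 20) (nat_lit 5) (nat_lit 21) (nat_lit 5) (nat_lit 22) (nat_lit 4) (nat_lit 406) (nat_lit 270) (nat_lit 224))))) (XT.nd (nat_lit 234) (nat_lit 152) (nat_lit 0) (XT.nd (nat_lit 78) (nat_lit 76) (nat_lit 0) (XT.lf (nat_lit 0) (nat_lit 10062781514) (nat_lit 76) (nat_lit 815596173) (nat_lit 152) (nat_lit 16776300597) (nat_lit 20) (nat_lit 5) (nat_lit 21)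 (nat_lit 5) (nat_lit 22) (nat_lit 4) (nat_lit 407) (nat_lit 270) (nat_lit 223)) (XT.nd (nat_lit 78) (nat_lit 76) (nat_lit 0) (XT.lf (nat_lit 0) (nat_lit 15907228911) (nat_lit 152) (nat_lit 8297290094) (nat_lit 0) (nat_lit 4124154659) (nat_lit 20) (nat_lit 5) (nat_lit 22) (nat_lit 4) (nat_lit 20) (nat_lit 4) (nat_lit 408) (nat_lit 270) (nat_lit 222)) (XT.lf (nat_lit 0) (nat_lit 1197275580) (nat_lit 76) (nat_lit 19859582169) (nat_lit 76) (nat_lit 7966939353) (nat_lit 19) (nat_lit 4) (nat_lit 20) (nat_lit 5) (nat_lit 20) (nat_lit 4) (nat_lit 409) (nat_lit 270) (nat_lit 221)))) (XT.nd (nat_lit 156) (nat_lit 76) (nat_lit 0) (XT.nd (nat_lit 78) (nat_lit 76) (nat_lit 0) (XT.lf (nat_lit 0) (nat_lit 11053520592) (nat_lit 76) (nat_lit 15342119585) (nat_lit 76) (nat_lit 3343099524) (nat_lit 19) (nat_lit 4) (nat_lit 20) (nat_lit 5) (nat_lit 20) (nat_lit 4) (nat_lit 410) (nat_lit 270) (nat_lit 220)) (XT.lf (nat_lit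 0) (nat_lit 1343588575) (nat_lit 152) (nat_lit 9374814131) (nat_lit 76) (nat_lit 19757768667) (nat_lit 18) (nat_lit 5) (nat_lit 20) (nat_lit 5) (nat_lit 19) (nat_lit 4) (nat_lit 411) (nat_lit 270) (nat_lit 219))) (XT.nd (nat_lit 78) (nat_lit 0) (nat_lit 0) (XT.lf (nat_lit 0) (nat_lit 94826383) (nat_lit 76) (nat_lit 5963004198) (nat_lit 152) (nat_lit 25178282968) (nat_lit 17) (nat_lit 5) (nat_lit 18) (nat_lit 5) (nat_lit 19) (nat_lit 4) (nat_lit 412) (nat_lit 270) (nat_lit 218)) (XT.lf (nat_lit 0) (nat_lit 9952774443) (nat_lit 76) (nat_lit 1009143975) (nat_lit 152) (nat_lit 21055487811) (nat_lit 17) (nat_lit 5) (nat_lit 18) (nat_lit 5) (nat_lit 19) (nat_lit 4) (nat_lit 413) (nat_lit 270) (nat_lit 217))))))))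
noncomputable def xc39 : XT := (XT.nd (nat_lit 2106) (nat_lit 76) (nat_lit 0) (XT.nd (nat_lit 1014) (nat_lit 380) (nat_lit 0) (XT.nd (nat_lit 468) (nat_lit 152) (nat_lit 0) (XT.nd (nat_lit 234) (nat_lit 76) (nat_lit 0) (XT.nd (nat_lit 78) (nat_lit 76) (nat_lit 0) (XT.lf (nat_lit 0) (nat_lit 16007185640) (nat_lit 152) (nat_lit 12841381161) (nat_lit 0) (nat_lit 3973753843) (nat_lit 17) (nat_lit 5) (nat_lit 19) (nat_lit 4) (nat_lit 17) (nat_lit 4) (nat_lit 414) (nat_lit 270) (nat_lit 216)) (XT.nd (nat_lit 78) (nat_lit 76) (nat_lit 0) (XT.lf (nat_lit 0) (nat_lit 21169830693) (nat_lit 152) (nat_lit 3435266098) (nat_lit 0) (nat_lit 9047309627) (nat_lit 17) (nat_lit 5) (nat_lit 19) (nat_lit 4) (nat_lit 17) (nat_lit 4) (nat_lit 415) (nat_lit 270) (nat_lit 215)) (XT.lf (nat_lit 0) (nat_lit 6294460441) (nat_lit 76) (nat_lit 20210709880) (nat_lit 76) (nat_lit 8001694378) (nat_lit 16) (nat_lit 4) (nat_lit 17) (nat_lit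 5) (nat_lit 17) (nat_lit 4) (nat_lit 416) (nat_lit 270) (nat_lit 214)))) (XT.nd (nat_lit 78) (nat_lit 76) (nat_lit 0) (XT.lf (nat_lit 0) (nat_lit 16305896829) (nat_lit 76) (nat_lit 15687140414) (nat_lit 76) (nat_lit 3394149733) (nat_lit 16) (nat_lit 4) (nat_lit 17) (nat_lit 5) (nat_lit 17) (nat_lit 4) (nat_lit 417) (nat_lit 270) (nat_lit 213)) (XT.nd (nat_lit 78) (nat_lit 0) (nat_lit 0) (XT.lf (nat_lit 0) (nat_lit 1283843759) (nat_lit 152) (nat_lit 9768317149) (nat_lit 76) (nat_lit 25242614327) (nat_lit 15) (nat_lit 5) (nat_lit 17) (nat_lit 5) (nat_lit 16) (nat_lit 4) (nat_lit 418) (nat_lit 270) (nat_lit 212)) (XT.lf (nat_lit 0) (nat_lit 5993761414) (nat_lit 152) (nat_lit 286338971) (nat_lit 76) (nat_lit 30949692392) (nat_lit 15) (nat_lit 5) (nat_lit 17) (nat_lit 5) (nat_lit 16) (nat_lit 4) (nat_lit 419) (nat_lit 270) (nat_lit 211))))) (XT.nd (nat_lit 234) (nat_lit 76) (nat_lit 0) (XT.nd (nat_lit 78) (nat_lit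 0) (nat_lit 0) (XT.lf (nat_lit 0) (nat_lit 9592745263) (nat_lit 76) (nat_lit 1305416850) (nat_lit 152) (nat_lit 27293106953) (nat_lit 14) (nat_lit 5) (nat_lit 15) (nat_lit 5) (nat_lit 16) (nat_lit 4) (nat_lit 420) (nat_lit 270) (nat_lit 210)) (XT.nd (nat_lit 78) (nat_lit 0) (nat_lit 0) (XT.lf (nat_lit 0) (nat_lit 15950383599) (nat_lit 152) (nat_lit 19518800303) (nat_lit 0) (nat_lit 3712388755) (nat_lit 14) (nat_lit 5) (nat_lit 16) (nat_lit 4) (nat_lit 14) (nat_lit 4) (nat_lit 421) (nat_lit 270) (nat_lit 209)) (XT.lf (nat_lit 0) (nat_lit 21129293585) (nat_lit 152) (nat_lit 10252070834) (nat_lit 0) (nat_lit 8820970850) (nat_lit 14) (nat_lit 5) (nat_lit 16) (nat_lit 4) (nat_lit 14) (nat_lit 4) (nat_lit 422) (nat_lit 270) (nat_lit 208)))) (XT.nd (nat_lit 156) (nat_lit 0) (nat_lit 0) (XT.nd (nat_lit 78) (nat_lit 76) (nat_lit 0) (XT.lf (nat_lit 0) (nat_lit 26426868869) (nat_lit 152) (nat_lit 777689789) (nat_lit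 0) (nat_lit 14050266628) (nat_lit 14) (nat_lit 5) (nat_lit 16) (nat_lit 4) (nat_lit 14) (nat_lit 4) (nat_lit 423) (nat_lit 270) (nat_lit 207)) (XT.lf (nat_lit 0) (nat_lit 9090000060) (nat_lit 76) (nat_lit 22845116980) (nat_lit 76) (nat_lit 10402223957) (nat_lit 13) (nat_lit 4) (nat_lit 14) (nat_lit 5) (nat_lit 14) (nat_lit 4) (nat_lit 424) (nat_lit 270) (nat_lit 206))) (XT.nd (nat_lit 78) (nat_lit 0) (nat_lit 0) (XT.lf (nat_lit 0) (nat_lit 19202030834) (nat_lit 76) (nat_lit 18379189692) (nat_lit 76) (nat_lit 5871936685) (nat_lit 13) (nat_lit 4) (nat_lit 14) (nat_lit 5) (nat_lit 14) (nat_lit 4) (nat_lit 425) (nat_lit 270) (nat_lit 205)) (XT.lf (nat_lit 0) (nat_lit 29551760736) (nat_lit 76) (nat_lit 13810727667) (nat_lit 76) (nat_lit 1240989240) (nat_lit 13) (nat_lit 4) (nat_lit 14) (nat_lit 5) (nat_lit 14) (nat_lit 4) (nat_lit 426) (nat_lit 270) (nat_lit 204)))))) (XT.nd (nat_lit 546) (nat_lit 152) (nat_lit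 0) (XT.nd (nat_lit 234) (nat_lit 76) (nat_lit 0) (XT.nd (nat_lit 78) (nat_lit 76) (nat_lit 0) (XT.lf (nat_lit 0) (nat_lit 3426471338) (nat_lit 152) (nat_lit 5674667066) (nat_lit 76) (nat_lit 36687161239) (nat_lit 12) (nat_lit 5) (nat_lit 14) (nat_lit 5) (nat_lit 13) (nat_lit 4) (nat_lit 427) (nat_lit 270) (nat_lit 203)) (XT.nd (nat_lit 78) (nat_lit 0) (nat_lit 0) (XT.lf (nat_lit 0) (nat_lit 3986657513) (nat_lit 76) (nat_lit 4228101057) (nat_lit 152) (nat_lit 38793369659) (nat_lit 11) (nat_lit 5) (nat_lit 12) (nat_lit 5) (nat_lit 13) (nat_lit 4) (nat_lit 428) (nat_lit 270) (nat_lit 202)) (XT.lf (nat_lit 0) (nat_lit 13179660843) (nat_lit 152) (nat_lit 34279472352) (nat_lit 0) (nat_lit 804432302) (nat_lit 11) (nat_lit 5) (nat_lit 13) (nat_lit 4) (nat_lit 11) (nat_lit 4) (nat_lit 429) (nat_lit 270) (nat_lit 201)))) (XT.nd (nat_lit 156) (nat_lit 76) (nat_lit 0) (XT.nd (nat_lit 78) (nat_lit 0) (nat_lit 0) (XT.lf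 (nat_lit 0) (nat_lit 18303810682) (nat_lit 152) (nat_lit 25377867254) (nat_lit 0) (nat_lit 5874681669) (nat_lit 11) (nat_lit 5) (nat_lit 13) (nat_lit 4) (nat_lit 11) (nat_lit 4) (nat_lit 430) (nat_lit 270) (nat_lit 200)) (XT.lf (nat_lit 0) (nat_lit 23551042407) (nat_lit 152) (nat_lit 16268234226) (nat_lit 0) (nat_lit 11069582837) (nat_lit 11) (nat_lit 5) (nat_lit 13) (nat_lit 4) (nat_lit 11) (nat_lit 4) (nat_lit 431) (nat_lit 270) (nat_lit 199))) (XT.nd (nat_lit 78) (nat_lit 76) (nat_lit 0) (XT.lf (nat_lit 0) (nat_lit 28925940976) (nat_lit 152) (nat_lit 6942613394) (nat_lit 0) (nat_lit 16393675042) (nat_lit 11) (nat_lit 5) (nat_lit 13) (nat_lit 4) (nat_lit 11) (nat_lit 4) (nat_lit 432) (nat_lit 270) (nat_lit 198)) (XT.lf (nat_lit 0) (nat_lit 2659031116) (nat_lit 76) (nat_lit 31799732021) (nat_lit 76) (nat_lit 19218139519) (nat_lit 10) (nat_lit 4) (nat_lit 11) (nat_lit 5) (nat_lit 11) (nat_lit 4) (nat_lit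 433) (nat_lit 270) (nat_lit 197))))) (XT.nd (nat_lit 234) (nat_lit 152) (nat_lit 0) (XT.nd (nat_lit 78) (nat_lit 0) (nat_lit 0) (XT.lf (nat_lit 0) (nat_lit 12635954923) (nat_lit 76) (nat_lit 27563149966) (nat_lit 76) (nat_lit 14933667592) (nat_lit 10) (nat_lit 4) (nat_lit 11) (nat_lit 5) (nat_lit 11) (nat_lit 4) (nat_lit 434) (nat_lit 270) (nat_lit 196)) (XT.nd (nat_lit 78) (nat_lit 0) (nat_lit 0) (XT.lf (nat_lit 0) (nat_lit 22858704108) (nat_lit 76) (nat_lit 23225213119) (nat_lit 76) (nat_lit 10549235724) (nat_lit 10) (nat_lit 4) (nat_lit 11) (nat_lit 5) (nat_lit 11) (nat_lit 4) (nat_lit 435) (nat_lit 270) (nat_lit 195)) (XT.lf (nat_lit 0) (nat_lit 33336211170) (nat_lit 76) (nat_lit 18782131049) (nat_lit 76) (nat_lit 6061012857) (nat_lit 10) (nat_lit 4) (nat_lit 11) (nat_lit 5) (nat_lit 11) (nat_lit 4) (nat_lit 436) (nat_lit 270) (nat_lit 194)))) (XT.nd (nat_lit 156) (nat_lit 76) (nat_lit 0) (XT.nd (nat_lit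 78) (nat_lit 76) (nat_lit 0) (XT.lf (nat_lit 0) (nat_lit 44077631213) (nat_lit 76) (nat_lit 14230021452) (nat_lit 76) (nat_lit 1465077244) (nat_lit 10) (nat_lit 4) (nat_lit 11) (nat_lit 5) (nat_lit 11) (nat_lit 4) (nat_lit 437) (nat_lit 270) (nat_lit 193)) (XT.lf (nat_lit 0) (nat_lit 3179312430) (nat_lit 152) (nat_lit 6353489506) (nat_lit 76) (nat_lit 51880932690) (nat_lit 9) (nat_lit 5) (nat_lit 11) (nat_lit 5) (nat_lit 10) (nat_lit 4) (nat_lit 438) (nat_lit 270) (nat_lit 192))) (XT.nd (nat_lit 78) (nat_lit 0) (nat_lit 0) (XT.lf (nat_lit 0) (nat_lit 3269649068) (nat_lit 76) (nat_lit 4670475577) (nat_lit 152) (nat_lit 55163215578) (nat_lit 8) (nat_lit 5) (nat_lit 9) (nat_lit 5) (nat_lit 10) (nat_lit 4) (nat_lit 439) (nat_lit 270) (nat_lit 191)) (XT.lf (nat_lit 0) (nat_lit 12886955866) (nat_lit 152) (nat_lit 51581934198) (nat_lit 0) (nat_lit 373450063) (nat_lit 8) (nat_lit 5) (nat_lit 10) (nat_lit 4) (nat_lit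 8) (nat_lit 4) (nat_lit 440) (nat_lit 270) (nat_lit 190))))))) (XT.nd (nat_lit 40716) (nat_lit 0) (nat_lit 3344) (XT.nd (nat_lit 468) (nat_lit 0) (nat_lit 0) (XT.nd (nat_lit 234) (nat_lit 76) (nat_lit 0) (XT.nd (nat_lit 78) (nat_lit 0) (nat_lit 0) (XT.lf (nat_lit 0) (nat_lit 18004313238) (nat_lit 152) (nat_lit 43175532345) (nat_lit 0) (nat_lit 5453002727) (nat_lit 8) (nat_lit 5) (nat_lit 10) (nat_lit 4) (nat_lit 8) (nat_lit 4) (nat_lit 441) (nat_lit 270) (nat_lit 189)) (XT.nd (nat_lit 78) (nat_lit 0) (nat_lit 0) (XT.lf (nat_lit 0) (nat_lit 23251772769) (nat_lit 152) (nat_lit 34562244728) (nat_lit 0) (nat_lit 10663758660) (nat_lit 8) (nat_lit 5) (nat_lit 10) (nat_lit 4) (nat_lit 8) (nat_lit 4) (nat_lit 442) (nat_lit 270) (nat_lit 188)) (XT.lf (nat_lit 0) (nat_lit 28633919621) (nat_lit 152) (nat_lit 25734545173) (nat_lit 0) (nat_lit 16010270949) (nat_lit 8) (nat_lit 5) (nat_lit 10) (nat_lit 4) (nat_lit 8)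 (nat_lit 4) (nat_lit 443) (nat_lit 270) (nat_lit 187)))) (XT.nd (nat_lit 78) (nat_lit 76) (nat_lit 0) (XT.lf (nat_lit 0) (nat_lit 34155456638) (nat_lit 152) (nat_lit 16684720158) (nat_lit 0) (nat_lit 21497211304) (nat_lit 8) (nat_lit 5) (nat_lit 10) (nat_lit 4) (nat_lit 8) (nat_lit 4) (nat_lit 444) (nat_lit 270) (nat_lit 186)) (XT.nd (nat_lit 78) (nat_lit 76) (nat_lit 0) (XT.lf (nat_lit 0) (nat_lit 39821208464) (nat_lit 152) (nat_lit 7404862067) (nat_lit 0) (nat_lit 27129374138) (nat_lit 8) (nat_lit 5) (nat_lit 10) (nat_lit 4) (nat_lit 8) (nat_lit 4) (nat_lit 445) (nat_lit 270) (nat_lit 185)) (XT.lf (nat_lit 0) (nat_lit 2155193296) (nat_lit 76) (nat_lit 43501649498) (nat_lit 76) (nat_lit 30777204499) (nat_lit 7) (nat_lit 4) (nat_lit 8) (nat_lit 5) (nat_lit 8) (nat_lit 4) (nat_lit 446) (nat_lit 270) (nat_lit 184))))) (XT.nd (nat_lit 39936) (nat_lit 0) (nat_lit 5472) (XT.nd (nat_lit 78) (nat_lit 0) (nat_lit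 0) (XT.lf (nat_lit 0) (nat_lit 12113983327) (nat_lit 76) (nat_lit 39607753205) (nat_lit 76) (nat_lit 26851647359) (nat_lit 7) (nat_lit 4) (nat_lit 8) (nat_lit 5) (nat_lit 8) (nat_lit 4) (nat_lit 447) (nat_lit 270) (nat_lit 183)) (XT.nd (nat_lit 78) (nat_lit 0) (nat_lit 0) (XT.lf (nat_lit 0) (nat_lit 22332838608) (nat_lit 76) (nat_lit 35615753806) (nat_lit 76) (nat_lit 22828909274) (nat_lit 7) (nat_lit 4) (nat_lit 8) (nat_lit 5) (nat_lit 8) (nat_lit 4) (nat_lit 448) (nat_lit 270) (nat_lit 182)) (XT.lf (nat_lit 0) (nat_lit 32820688233) (nat_lit 76) (nat_lit 31522163147) (nat_lit 76) (nat_lit 18705475230) (nat_lit 7) (nat_lit 4) (nat_lit 8) (nat_lit 5) (nat_lit 8) (nat_lit 4) (nat_lit 449) (nat_lit 270) (nat_lit 181)))) (XT.nd (nat_lit 156) (nat_lit 304) (nat_lit 0) (XT.nd (nat_lit 78) (nat_lit 228) (nat_lit 0) (XT.lf (nat_lit 0) (nat_lit 1044580064) (nat_lit 304) (nat_lit 3149216878) (nat_lit 0) (nat_lit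 1044580064) (nat_lit 86) (nat_lit 5) (nat_lit 90) (nat_lit 4) (nat_lit 86) (nat_lit 4) (nat_lit 358) (nat_lit 271) (nat_lit 271)) (XT.lf (nat_lit 0) (nat_lit 1815449092) (nat_lit 228) (nat_lit 4762313638) (nat_lit 228) (nat_lit 4056920676) (nat_lit 83) (nat_lit 4) (nat_lit 86) (nat_lit 5) (nat_lit 86) (nat_lit 4) (nat_lit 359) (nat_lit 271) (nat_lit 270))) (XT.nd (nat_lit 78) (nat_lit 228) (nat_lit 0) (XT.lf (nat_lit 0) (nat_lit 358208501) (nat_lit 304) (nat_lit 663077240) (nat_lit 76) (nat_lit 9777109886) (nat_lit 82) (nat_lit 5) (nat_lit 86) (nat_lit 5) (nat_lit 83) (nat_lit 4) (nat_lit 360) (nat_lit 271) (nat_lit 269)) (XT.lf (nat_lit 0) (nat_lit 4827057134) (nat_lit 304) (nat_lit 3306931054) (nat_lit 0) (nat_lit 2831774591) (nat_lit 79) (nat_lit 5) (nat_lit 83) (nat_lit 4) (nat_lit 79) (nat_lit 4) (nat_lit 361) (nat_lit 271) (nat_lit 268)))))) (XT.nd (nat_lit 546) (nat_lit 912) (nat_lit 0) (XT.nd (nat_lit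 234) (nat_lit 760) (nat_lit 0) (XT.nd (nat_lit 78) (nat_lit 228) (nat_lit 0) (XT.lf (nat_lit 0) (nat_lit 5033097900) (nat_lit 228) (nat_lit 4364042416) (nat_lit 228) (nat_lit 1742027363) (nat_lit 76) (nat_lit 4) (nat_lit 79) (nat_lit 5) (nat_lit 79) (nat_lit 4) (nat_lit 362) (nat_lit 271) (nat_lit 267)) (XT.nd (nat_lit 78) (nat_lit 0) (nat_lit 0) (XT.lf (nat_lit 0) (nat_lit 2229354286) (nat_lit 152) (nat_lit 460225765) (nat_lit 228) (nat_lit 8628698943) (nat_lit 73) (nat_lit 5) (nat_lit 75) (nat_lit 5) (nat_lit 76) (nat_lit 4) (nat_lit 363) (nat_lit 271) (nat_lit 266)) (XT.lf (nat_lit 0) (nat_lit 7218572575) (nat_lit 228) (nat_lit 775096887) (nat_lit 0) (nat_lit 3508622361) (nat_lit 73) (nat_lit 5) (nat_lit 76) (nat_lit 4) (nat_lit 73) (nat_lit 4) (nat_lit 364) (nat_lit 271) (nat_lit 265)))) (XT.nd (nat_lit 156) (nat_lit 304) (nat_lit 0) (XT.nd (nat_lit 78) (nat_lit 152) (nat_lit 0) (XT.lf (nat_lit 0) (nat_lit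 172798065) (nat_lit 304) (nat_lit 3916013859) (nat_lit 76) (nat_lit 7603437479) (nat_lit 69) (nat_lit 5) (nat_lit 73) (nat_lit 5) (nat_lit 70) (nat_lit 4) (nat_lit 365) (nat_lit 271) (nat_lit 264)) (XT.lf (nat_lit 0) (nat_lit 4601896895) (nat_lit 152) (nat_lit 33234038) (nat_lit 228) (nat_lit 7252782464) (nat_lit 67) (nat_lit 5) (nat_lit 69) (nat_lit 5) (nat_lit 70) (nat_lit 4) (nat_lit 366) (nat_lit 271) (nat_lit 263))) (XT.nd (nat_lit 78) (nat_lit 76) (nat_lit 0) (XT.lf (nat_lit 0) (nat_lit 1192004915) (nat_lit 228) (nat_lit 8037259114) (nat_lit 228) (nat_lit 2860271238) (nat_lit 64) (nat_lit 4) (nat_lit 67) (nat_lit 5) (nat_lit 67) (nat_lit 4) (nat_lit 367) (nat_lit 271) (nat_lit 262)) (XT.lf (nat_lit 0) (nat_lit 1613151436) (nat_lit 304) (nat_lit 2397038890) (nat_lit 76) (nat_lit 8287111766) (nat_lit 63) (nat_lit 5) (nat_lit 67) (nat_lit 5) (nat_lit 64) (nat_lit 4) (nat_lit 368) (nat_lit 271) (nat_lit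 261))))) (XT.nd (nat_lit 234) (nat_lit 532) (nat_lit 0) (XT.nd (nat_lit 78) (nat_lit 228) (nat_lit 0) (XT.lf (nat_lit 0) (nat_lit 6135112737) (nat_lit 228) (nat_lit 6213983745) (nat_lit 0) (nat_lit 162224786) (nat_lit 61) (nat_lit 5) (nat_lit 64) (nat_lit 4) (nat_lit 61) (nat_lit 4) (nat_lit 369) (nat_lit 271) (nat_lit 260)) (XT.nd (nat_lit 78) (nat_lit 76) (nat_lit 0) (XT.lf (nat_lit 0) (nat_lit 2423325618) (nat_lit 152) (nat_lit 8367090369) (nat_lit 152) (nat_lit 1941437517) (nat_lit 59) (nat_lit 4) (nat_lit 61) (nat_lit 5) (nat_lit 61) (nat_lit 4) (nat_lit 370) (nat_lit 271) (nat_lit 259)) (XT.lf (nat_lit 0) (nat_lit 2548978564) (nat_lit 228) (nat_lit 1690803939) (nat_lit 76) (nat_lit 8719267910) (nat_lit 58) (nat_lit 5) (nat_lit 61) (nat_lit 5) (nat_lit 59) (nat_lit 4) (nat_lit 371) (nat_lit 271) (nat_lit 258)))) (XT.nd (nat_lit 156) (nat_lit 228) (nat_lit 0) (XT.nd (nat_lit 78) (nat_lit 152) (nat_lit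 0) (XT.lf (nat_lit 0) (nat_lit 7117327137) (nat_lit 228) (nat_lit 6038002370) (nat_lit 0) (nat_lit 37710857) (nat_lit 56) (nat_lit 5) (nat_lit 59) (nat_lit 4) (nat_lit 56) (nat_lit 4) (nat_lit 372) (nat_lit 271) (nat_lit 257)) (XT.lf (nat_lit 0) (nat_lit 2727501927) (nat_lit 152) (nat_lit 9094244956) (nat_lit 152) (nat_lit 1612352926) (nat_lit 54) (nat_lit 4) (nat_lit 56) (nat_lit 5) (nat_lit 56) (nat_lit 4) (nat_lit 373) (nat_lit 271) (nat_lit 256))) (XT.nd (nat_lit 78) (nat_lit 152) (nat_lit 0) (XT.lf (nat_lit 0) (nat_lit 2902034809) (nat_lit 228) (nat_lit 1981320346) (nat_lit 76) (nat_lit 8798933154) (nat_lit 53) (nat_lit 5) (nat_lit 56) (nat_lit 5) (nat_lit 54) (nat_lit 4) (nat_lit 374) (nat_lit 271) (nat_lit 255)) (XT.lf (nat_lit 0) (nat_lit 6979137298) (nat_lit 152) (nat_lit 523705945) (nat_lit 228) (nat_lit 6435117115) (nat_lit 51) (nat_lit 5) (nat_lit 53) (nat_lit 5) (nat_lit 54) (nat_lit 4) (nat_lit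 375) (nat_lit 271) (nat_lit 254))))))))
noncomputable def xc40 : XT := (XT.nd (nat_lit 2028) (nat_lit 912) (nat_lit 0) (XT.nd (nat_lit 1014) (nat_lit 760) (nat_lit 0) (XT.nd (nat_lit 468) (nat_lit 608) (nat_lit 0) (XT.nd (nat_lit 234) (nat_lit 304) (nat_lit 0) (XT.nd (nat_lit 78) (nat_lit 228) (nat_lit 0) (XT.lf (nat_lit 0) (nat_lit 1899806708) (nat_lit 152) (nat_lit 10335213048) (nat_lit 152) (nat_lit 1966500636) (nat_lit 49) (nat_lit 4) (nat_lit 51) (nat_lit 5) (nat_lit 51) (nat_lit 4) (nat_lit 376) (nat_lit 271) (nat_lit 253)) (XT.nd (nat_lit 78) (nat_lit 152) (nat_lit 0) (XT.lf (nat_lit 0) (nat_lit 2577821810) (nat_lit 228) (nat_lit 3482740731) (nat_lit 76) (nat_lit 8411888906) (nat_lit 48) (nat_lit 5) (nat_lit 51) (nat_lit 5) (nat_lit 49) (nat_lit 4) (nat_lit 377) (nat_lit 271) (nat_lit 252)) (XT.lf (nat_lit 0) (nat_lit 5546371904) (nat_lit 152) (nat_lit 1645249040) (nat_lit 228) (nat_lit 7560141828)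 (nat_lit 46) (nat_lit 5) (nat_lit 48) (nat_lit 5) (nat_lit 49) (nat_lit 4) (nat_lit 378) (nat_lit 271) (nat_lit 251)))) (XT.nd (nat_lit 78) (nat_lit 304) (nat_lit 0) (XT.lf (nat_lit 0) (nat_lit 11926997261) (nat_lit 228) (nat_lit 292490439) (nat_lit 0) (nat_lit 2820486958) (nat_lit 46) (nat_lit 5) (nat_lit 49) (nat_lit 4) (nat_lit 46) (nat_lit 4) (nat_lit 379) (nat_lit 271) (nat_lit 250)) (XT.nd (nat_lit 78) (nat_lit 76) (nat_lit 0) (XT.lf (nat_lit 0) (nat_lit 1463167068) (nat_lit 228) (nat_lit 6444592018) (nat_lit 76) (nat_lit 7427939681) (nat_lit 43) (nat_lit 5) (nat_lit 46) (nat_lit 5) (nat_lit 44) (nat_lit 4) (nat_lit 380) (nat_lit 271) (nat_lit 249)) (XT.lf (nat_lit 0) (nat_lit 2596205389) (nat_lit 76) (nat_lit 3468010125) (nat_lit 152) (nat_lit 9576663565) (nat_lit 42) (nat_lit 5) (nat_lit 43) (nat_lit 5) (nat_lit 44) (nat_lit 4) (nat_lit 381) (nat_lit 271) (nat_lit 248))))) (XT.nd (nat_lit 234) (nat_lit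 380) (nat_lit 0) (XT.nd (nat_lit 78) (nat_lit 228) (nat_lit 0) (XT.lf (nat_lit 0) (nat_lit 10802232395) (nat_lit 152) (nat_lit 4064159974) (nat_lit 0) (nat_lit 1088868641) (nat_lit 42) (nat_lit 5) (nat_lit 44) (nat_lit 4) (nat_lit 42) (nat_lit 4) (nat_lit 382) (nat_lit 271) (nat_lit 247)) (XT.nd (nat_lit 78) (nat_lit 76) (nat_lit 0) (XT.lf (nat_lit 0) (nat_lit 5115361813) (nat_lit 152) (nat_lit 10575384873) (nat_lit 152) (nat_lit 588090908) (nat_lit 40) (nat_lit 4) (nat_lit 42) (nat_lit 5) (nat_lit 42) (nat_lit 4) (nat_lit 383) (nat_lit 271) (nat_lit 246)) (XT.lf (nat_lit 0) (nat_lit 3999961534) (nat_lit 228) (nat_lit 2133323710) (nat_lit 76) (nat_lit 10478669758) (nat_lit 39) (nat_lit 5) (nat_lit 42) (nat_lit 5) (nat_lit 40) (nat_lit 4) (nat_lit 384) (nat_lit 271) (nat_lit 245)))) (XT.nd (nat_lit 156) (nat_lit 304) (nat_lit 0) (XT.nd (nat_lit 78) (nat_lit 0) (nat_lit 0) (XT.lf (nat_lit 0) (nat_lit 7169716916)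 (nat_lit 76) (nat_lit 1540218077) (nat_lit 152) (nat_lit 8245085998) (nat_lit 38) (nat_lit 5) (nat_lit 39) (nat_lit 5) (nat_lit 40) (nat_lit 4) (nat_lit 385) (nat_lit 271) (nat_lit 244)) (XT.lf (nat_lit 0) (nat_lit 13541111421) (nat_lit 152) (nat_lit 675447152) (nat_lit 0) (nat_lit 3092435625) (nat_lit 38) (nat_lit 5) (nat_lit 40) (nat_lit 4) (nat_lit 38) (nat_lit 4) (nat_lit 386) (nat_lit 271) (nat_lit 243))) (XT.nd (nat_lit 78) (nat_lit 76) (nat_lit 0) (XT.lf (nat_lit 0) (nat_lit 856247034) (nat_lit 228) (nat_lit 8946788921) (nat_lit 76) (nat_lit 7869446815) (nat_lit 35) (nat_lit 5) (nat_lit 38) (nat_lit 5) (nat_lit 36) (nat_lit 4) (nat_lit 387) (nat_lit 271) (nat_lit 242)) (XT.lf (nat_lit 0) (nat_lit 214145443) (nat_lit 76) (nat_lit 5267888095) (nat_lit 152) (nat_lit 12565574687) (nat_lit 34) (nat_lit 5) (nat_lit 35) (nat_lit 5) (nat_lit 36) (nat_lit 4) (nat_lit 388) (nat_lit 271) (nat_lit 241))))))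 (XT.nd (nat_lit 468) (nat_lit 456) (nat_lit 0) (XT.nd (nat_lit 234) (nat_lit 76) (nat_lit 0) (XT.nd (nat_lit 78) (nat_lit 228) (nat_lit 0) (XT.lf (nat_lit 0) (nat_lit 9705866331) (nat_lit 76) (nat_lit 561611157) (nat_lit 152) (nat_lit 8165894416) (nat_lit 34) (nat_lit 5) (nat_lit 35) (nat_lit 5) (nat_lit 36) (nat_lit 4) (nat_lit 389) (nat_lit 271) (nat_lit 240)) (XT.nd (nat_lit 78) (nat_lit 76) (nat_lit 0) (XT.lf (nat_lit 0) (nat_lit 494866028) (nat_lit 152) (nat_lit 14679594786) (nat_lit 152) (nat_lit 3656919050) (nat_lit 32) (nat_lit 4) (nat_lit 34) (nat_lit 5) (nat_lit 34) (nat_lit 4) (nat_lit 390) (nat_lit 271) (nat_lit 239)) (XT.lf (nat_lit 0) (nat_lit 994756590) (nat_lit 228) (nat_lit 9207149660) (nat_lit 76) (nat_lit 9038346214) (nat_lit 31) (nat_lit 5) (nat_lit 34) (nat_lit 5) (nat_lit 32) (nat_lit 4) (nat_lit 391) (nat_lit 271) (nat_lit 238)))) (XT.nd (nat_lit 78) (nat_lit 0) (nat_lit 0) (XT.lf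 (nat_lit 0) (nat_lit 38943651) (nat_lit 76) (nat_lit 5608022950) (nat_lit 152) (nat_lit 14015313641) (nat_lit 30) (nat_lit 5) (nat_lit 31) (nat_lit 5) (nat_lit 32) (nat_lit 4) (nat_lit 392) (nat_lit 271) (nat_lit 237)) (XT.nd (nat_lit 78) (nat_lit 0) (nat_lit 0) (XT.lf (nat_lit 0) (nat_lit 9630645887) (nat_lit 76) (nat_lit 835942081) (nat_lit 152) (nat_lit 9629555002) (nat_lit 30) (nat_lit 5) (nat_lit 31) (nat_lit 5) (nat_lit 32) (nat_lit 4) (nat_lit 393) (nat_lit 271) (nat_lit 236)) (XT.lf (nat_lit 0) (nat_lit 15406261712) (nat_lit 152) (nat_lit 1190525797) (nat_lit 0) (nat_lit 3946979349) (nat_lit 30) (nat_lit 5) (nat_lit 32) (nat_lit 4) (nat_lit 30) (nat_lit 4) (nat_lit 394) (nat_lit 271) (nat_lit 235))))) (XT.nd (nat_lit 234) (nat_lit 152) (nat_lit 0) (XT.nd (nat_lit 78) (nat_lit 152) (nat_lit 0) (XT.lf (nat_lit 0) (nat_lit 8403457296) (nat_lit 152) (nat_lit 12117831962) (nat_lit 152) (nat_lit 482724220)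 (nat_lit 28) (nat_lit 4) (nat_lit 30) (nat_lit 5) (nat_lit 30) (nat_lit 4) (nat_lit 395) (nat_lit 271) (nat_lit 234)) (XT.nd (nat_lit 78) (nat_lit 76) (nat_lit 0) (XT.lf (nat_lit 0) (nat_lit 4177906453) (nat_lit 228) (nat_lit 3324661892) (nat_lit 76) (nat_lit 13975753868) (nat_lit 27) (nat_lit 5) (nat_lit 30) (nat_lit 5) (nat_lit 28) (nat_lit 4) (nat_lit 396) (nat_lit 271) (nat_lit 233)) (XT.lf (nat_lit 0) (nat_lit 6234688264) (nat_lit 76) (nat_lit 2733899193) (nat_lit 152) (nat_lit 12998139524) (nat_lit 26) (nat_lit 5) (nat_lit 27) (nat_lit 5) (nat_lit 28) (nat_lit 4) (nat_lit 397) (nat_lit 271) (nat_lit 232)))) (XT.nd (nat_lit 156) (nat_lit 76) (nat_lit 0) (XT.nd (nat_lit 78) (nat_lit 76) (nat_lit 0) (XT.lf (nat_lit 0) (nat_lit 13898021763) (nat_lit 152) (nat_lit 6452974400) (nat_lit 0) (nat_lit 2118944672) (nat_lit 26) (nat_lit 5) (nat_lit 28) (nat_lit 4) (nat_lit 26) (nat_lit 4) (nat_lit 398) (nat_lit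 271) (nat_lit 231)) (XT.lf (nat_lit 0) (nat_lit 3027834897) (nat_lit 76) (nat_lit 15945613122) (nat_lit 76) (nat_lit 4014867514) (nat_lit 25) (nat_lit 4) (nat_lit 26) (nat_lit 5) (nat_lit 26) (nat_lit 4) (nat_lit 399) (nat_lit 271) (nat_lit 230))) (XT.nd (nat_lit 78) (nat_lit 0) (nat_lit 0) (XT.lf (nat_lit 0) (nat_lit 673472051) (nat_lit 152) (nat_lit 10710848330) (nat_lit 76) (nat_lit 12137497845) (nat_lit 24) (nat_lit 5) (nat_lit 26) (nat_lit 5) (nat_lit 25) (nat_lit 4) (nat_lit 400) (nat_lit 271) (nat_lit 229)) (XT.lf (nat_lit 0) (nat_lit 5365472377) (nat_lit 152) (nat_lit 1329049790) (nat_lit 76) (nat_lit 17377307176) (nat_lit 24) (nat_lit 5) (nat_lit 26) (nat_lit 5) (nat_lit 25) (nat_lit 4) (nat_lit 401) (nat_lit 271) (nat_lit 228))))))) (XT.nd (nat_lit 1014) (nat_lit 380) (nat_lit 0) (XT.nd (nat_lit 468) (nat_lit 228) (nat_lit 0) (XT.nd (nat_lit 234) (nat_lit 152) (nat_lit 0) (XT.nd (nat_lit 78) (nat_lit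 76) (nat_lit 0) (XT.lf (nat_lit 0) (nat_lit 8395533123) (nat_lit 76) (nat_lit 1828747673) (nat_lit 152) (nat_lit 14413285395) (nat_lit 23) (nat_lit 5) (nat_lit 24) (nat_lit 5) (nat_lit 25) (nat_lit 4) (nat_lit 402) (nat_lit 271) (nat_lit 227)) (XT.nd (nat_lit 78) (nat_lit 76) (nat_lit 0) (XT.lf (nat_lit 0) (nat_lit 15218509313) (nat_lit 152) (nat_lit 6914168054) (nat_lit 0) (nat_lit 3087914743) (nat_lit 23) (nat_lit 5) (nat_lit 25) (nat_lit 4) (nat_lit 23) (nat_lit 4) (nat_lit 403) (nat_lit 271) (nat_lit 226)) (XT.lf (nat_lit 0) (nat_lit 2627015782) (nat_lit 76) (nat_lit 17726000247) (nat_lit 76) (nat_lit 5468385682) (nat_lit 22) (nat_lit 4) (nat_lit 23) (nat_lit 5) (nat_lit 23) (nat_lit 4) (nat_lit 404) (nat_lit 271) (nat_lit 225)))) (XT.nd (nat_lit 78) (nat_lit 152) (nat_lit 0) (XT.lf (nat_lit 0) (nat_lit 12497472736) (nat_lit 76) (nat_lit 13161589471) (nat_lit 76) (nat_lit 780654524) (nat_lit 22) (nat_lit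 4) (nat_lit 23) (nat_lit 5) (nat_lit 23) (nat_lit 4) (nat_lit 405) (nat_lit 271) (nat_lit 224)) (XT.nd (nat_lit 78) (nat_lit 76) (nat_lit 0) (XT.lf (nat_lit 0) (nat_lit 3917422816) (nat_lit 152) (nat_lit 4548295157) (nat_lit 76) (nat_lit 18611240869) (nat_lit 21) (nat_lit 5) (nat_lit 23) (nat_lit 5) (nat_lit 22) (nat_lit 4) (nat_lit 406) (nat_lit 271) (nat_lit 223)) (XT.lf (nat_lit 0) (nat_lit 5125737009) (nat_lit 76) (nat_lit 3614480612) (nat_lit 152) (nat_lit 18992890478) (nat_lit 20) (nat_lit 5) (nat_lit 21) (nat_lit 5) (nat_lit 22) (nat_lit 4) (nat_lit 407) (nat_lit 271) (nat_lit 222))))) (XT.nd (nat_lit 234) (nat_lit 152) (nat_lit 0) (XT.nd (nat_lit 78) (nat_lit 76) (nat_lit 0) (XT.lf (nat_lit 0) (nat_lit 13717695252) (nat_lit 152) (nat_lit 13332247583) (nat_lit 0) (nat_lit 1358704589) (nat_lit 20) (nat_lit 5) (nat_lit 22) (nat_lit 4) (nat_lit 20) (nat_lit 4) (nat_lit 408) (nat_lit 271) (nat_lit 221))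 (XT.nd (nat_lit 78) (nat_lit 76) (nat_lit 0) (XT.lf (nat_lit 0) (nat_lit 18832058831) (nat_lit 152) (nat_lit 3906081728) (nat_lit 0) (nat_lit 6366690922) (nat_lit 20) (nat_lit 5) (nat_lit 22) (nat_lit 4) (nat_lit 20) (nat_lit 4) (nat_lit 409) (nat_lit 271) (nat_lit 220)) (XT.lf (nat_lit 0) (nat_lit 5827829474) (nat_lit 76) (nat_lit 18281223807) (nat_lit 76) (nat_lit 5712577019) (nat_lit 19) (nat_lit 4) (nat_lit 20) (nat_lit 5) (nat_lit 20) (nat_lit 4) (nat_lit 410) (nat_lit 271) (nat_lit 219)))) (XT.nd (nat_lit 156) (nat_lit 76) (nat_lit 0) (XT.nd (nat_lit 78) (nat_lit 76) (nat_lit 0) (XT.lf (nat_lit 0) (nat_lit 15845937498) (nat_lit 76) (nat_lit 13691561981) (nat_lit 76) (nat_lit 1022644437) (nat_lit 19) (nat_lit 4) (nat_lit 20) (nat_lit 5) (nat_lit 20) (nat_lit 4) (nat_lit 411) (nat_lit 271) (nat_lit 218)) (XT.lf (nat_lit 0) (nat_lit 3688275416) (nat_lit 152) (nat_lit 5279068698) (nat_lit 76) (nat_lit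 22353737578) (nat_lit 18) (nat_lit 5) (nat_lit 20) (nat_lit 5) (nat_lit 19) (nat_lit 4) (nat_lit 412) (nat_lit 271) (nat_lit 217))) (XT.nd (nat_lit 78) (nat_lit 0) (nat_lit 0) (XT.lf (nat_lit 0) (nat_lit 4431749366) (nat_lit 76) (nat_lit 4086739286) (nat_lit 152) (nat_lit 23586104253) (nat_lit 17) (nat_lit 5) (nat_lit 18) (nat_lit 5) (nat_lit 19) (nat_lit 4) (nat_lit 413) (nat_lit 271) (nat_lit 216)) (XT.lf (nat_lit 0) (nat_lit 13512511204) (nat_lit 152) (nat_lit 18461310444) (nat_lit 0) (nat_lit 937225238) (nat_lit 17) (nat_lit 5) (nat_lit 19) (nat_lit 4) (nat_lit 17) (nat_lit 4) (nat_lit 414) (nat_lit 271) (nat_lit 215)))))) (XT.nd (nat_lit 546) (nat_lit 152) (nat_lit 0) (XT.nd (nat_lit 234) (nat_lit 152) (nat_lit 0) (XT.nd (nat_lit 78) (nat_lit 76) (nat_lit 0) (XT.lf (nat_lit 0) (nat_lit 18654126217) (nat_lit 152) (nat_lit 9095293692) (nat_lit 0) (nat_lit 5992345816) (nat_lit 17) (nat_lit 5) (nat_lit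 19) (nat_lit 4) (nat_lit 17) (nat_lit 4) (nat_lit 415) (nat_lit 271) (nat_lit 214)) (XT.nd (nat_lit 78) (nat_lit 0) (nat_lit 0) (XT.lf (nat_lit 0) (nat_lit 482082010) (nat_lit 76) (nat_lit 23431094183) (nat_lit 76) (nat_lit 10685338601) (nat_lit 16) (nat_lit 4) (nat_lit 17) (nat_lit 5) (nat_lit 17) (nat_lit 4) (nat_lit 416) (nat_lit 271) (nat_lit 213)) (XT.lf (nat_lit 0) (nat_lit 10454969671) (nat_lit 76) (nat_lit 18925880062) (nat_lit 76) (nat_lit 6098595179) (nat_lit 16) (nat_lit 4) (nat_lit 17) (nat_lit 5) (nat_lit 17) (nat_lit 4) (nat_lit 417) (nat_lit 271) (nat_lit 212)))) (XT.nd (nat_lit 156) (nat_lit 76) (nat_lit 0) (XT.nd (nat_lit 78) (nat_lit 76) (nat_lit 0) (XT.lf (nat_lit 0) (nat_lit 20651069285) (nat_lit 76) (nat_lit 14321685584) (nat_lit 76) (nat_lit 1415246040) (nat_lit 16) (nat_lit 4) (nat_lit 17) (nat_lit 5) (nat_lit 17) (nat_lit 4) (nat_lit 418) (nat_lit 271) (nat_lit 211)) (XT.lf (nat_lit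 0) (nat_lit 3303063620) (nat_lit 152) (nat_lit 6278069580) (nat_lit 76) (nat_lit 27742871978) (nat_lit 15) (nat_lit 5) (nat_lit 17) (nat_lit 5) (nat_lit 16) (nat_lit 4) (nat_lit 419) (nat_lit 271) (nat_lit 210))) (XT.nd (nat_lit 78) (nat_lit 0) (nat_lit 0) (XT.lf (nat_lit 0) (nat_lit 3445407126) (nat_lit 76) (nat_lit 4684300615) (nat_lit 152) (nat_lit 30158108234) (nat_lit 14) (nat_lit 5) (nat_lit 15) (nat_lit 5) (nat_lit 16) (nat_lit 4) (nat_lit 420) (nat_lit 271) (nat_lit 209)) (XT.lf (nat_lit 0) (nat_lit 13130827130) (nat_lit 152) (nat_lit 25765900435) (nat_lit 0) (nat_lit 382926822) (nat_lit 14) (nat_lit 5) (nat_lit 16) (nat_lit 4) (nat_lit 14) (nat_lit 4) (nat_lit 421) (nat_lit 271) (nat_lit 208))))) (XT.nd (nat_lit 234) (nat_lit 76) (nat_lit 0) (XT.nd (nat_lit 78) (nat_lit 76) (nat_lit 0) (XT.lf (nat_lit 0) (nat_lit 18291657312) (nat_lit 152) (nat_lit 16533826289) (nat_lit 0) (nat_lit 5475477498)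 (nat_lit 14) (nat_lit 5) (nat_lit 16) (nat_lit 4) (nat_lit 14) (nat_lit 4) (nat_lit 422) (nat_lit 271) (nat_lit 207)) (XT.nd (nat_lit 78) (nat_lit 76) (nat_lit 0) (XT.lf (nat_lit 0) (nat_lit 23571679389) (nat_lit 152) (nat_lit 7093091189) (nat_lit 0) (nat_lit 10689208792) (nat_lit 14) (nat_lit 5) (nat_lit 16) (nat_lit 4) (nat_lit 14) (nat_lit 4) (nat_lit 423) (nat_lit 271) (nat_lit 206)) (XT.lf (nat_lit 0) (nat_lit 2615593705) (nat_lit 76) (nat_lit 26385055951) (nat_lit 76) (nat_lit 13438225371) (nat_lit 13) (nat_lit 4) (nat_lit 14) (nat_lit 5) (nat_lit 14) (nat_lit 4) (nat_lit 424) (nat_lit 271) (nat_lit 205)))) (XT.nd (nat_lit 156) (nat_lit 76) (nat_lit 0) (XT.nd (nat_lit 78) (nat_lit 0) (nat_lit 0) (XT.lf (nat_lit 0) (nat_lit 12695278767) (nat_lit 76) (nat_lit 21934617866) (nat_lit 76) (nat_lit 8925301865) (nat_lit 13) (nat_lit 4) (nat_lit 14) (nat_lit 5) (nat_lit 14) (nat_lit 4) (nat_lit 425) (nat_lit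 271) (nat_lit 204)) (XT.lf (nat_lit 0) (nat_lit 23013605065) (nat_lit 76) (nat_lit 17381193902) (nat_lit 76) (nat_lit 4311212446) (nat_lit 13) (nat_lit 4) (nat_lit 14) (nat_lit 5) (nat_lit 14) (nat_lit 4) (nat_lit 426) (nat_lit 271) (nat_lit 203))) (XT.nd (nat_lit 78) (nat_lit 0) (nat_lit 0) (XT.lf (nat_lit 0) (nat_lit 400111610) (nat_lit 152) (nat_lit 12316653388) (nat_lit 76) (nat_lit 33175436659) (nat_lit 12) (nat_lit 5) (nat_lit 14) (nat_lit 5) (nat_lit 13) (nat_lit 4) (nat_lit 427) (nat_lit 271) (nat_lit 202)) (XT.lf (nat_lit 0) (nat_lit 5134496423) (nat_lit 152) (nat_lit 2763035229) (nat_lit 76) (nat_lit 39216117052) (nat_lit 12) (nat_lit 5) (nat_lit 14) (nat_lit 5) (nat_lit 13) (nat_lit 4) (nat_lit 428) (nat_lit 271) (nat_lit 201))))))))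
noncomputable def xc41 : XT := (XT.nd (nat_lit 41574) (nat_lit 0) (nat_lit 2204) (XT.nd (nat_lit 1014) (nat_lit 76) (nat_lit 0) (XT.nd (nat_lit 468) (nat_lit 152) (nat_lit 0) (XT.nd (nat_lit 234) (nat_lit 76) (nat_lit 0) (XT.nd (nat_lit 78) (nat_lit 0) (nat_lit 0) (XT.lf (nat_lit 0) (nat_lit 7157914658) (nat_lit 76) (nat_lit 2891097713) (nat_lit 152) (nat_lit 38321586540) (nat_lit 11) (nat_lit 5) (nat_lit 12) (nat_lit 5) (nat_lit 13) (nat_lit 4) (nat_lit 429) (nat_lit 271) (nat_lit 200)) (XT.nd (nat_lit 78) (nat_lit 0) (nat_lit 0) (XT.lf (nat_lit 0) (nat_lit 15130276329) (nat_lit 152) (nat_lit 32312362157) (nat_lit 0) (nat_lit 2222042417) (nat_lit 11) (nat_lit 5) (nat_lit 13) (nat_lit 4) (nat_lit 11) (nat_lit 4) (nat_lit 430) (nat_lit 271) (nat_lit 199)) (XT.lf (nat_lit 0) (nat_lit 20362852829) (nat_lit 152) (nat_lit 23230956314) (nat_lit 0) (nat_lit 7403812552) (nat_lit 11) (nat_lit 5) (nat_lit 13) (nat_lit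 4) (nat_lit 11) (nat_lit 4) (nat_lit 431) (nat_lit 271) (nat_lit 198)))) (XT.nd (nat_lit 78) (nat_lit 76) (nat_lit 0) (XT.lf (nat_lit 0) (nat_lit 25723523024) (nat_lit 152) (nat_lit 13932740517) (nat_lit 0) (nat_lit 12715156179) (nat_lit 11) (nat_lit 5) (nat_lit 13) (nat_lit 4) (nat_lit 11) (nat_lit 4) (nat_lit 432) (nat_lit 271) (nat_lit 197)) (XT.nd (nat_lit 78) (nat_lit 76) (nat_lit 0) (XT.lf (nat_lit 0) (nat_lit 31216970997) (nat_lit 152) (nat_lit 4409590111) (nat_lit 0) (nat_lit 18160714281) (nat_lit 11) (nat_lit 5) (nat_lit 13) (nat_lit 4) (nat_lit 11) (nat_lit 4) (nat_lit 433) (nat_lit 271) (nat_lit 196)) (XT.lf (nat_lit 0) (nat_lit 5453228228) (nat_lit 76) (nat_lit 31447188385) (nat_lit 76) (nat_lit 18344436647) (nat_lit 10) (nat_lit 4) (nat_lit 11) (nat_lit 5) (nat_lit 11) (nat_lit 4) (nat_lit 434) (nat_lit 271) (nat_lit 195))))) (XT.nd (nat_lit 234) (nat_lit 152) (nat_lit 0) (XT.nd (nat_lit 78)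 (nat_lit 0) (nat_lit 0) (XT.lf (nat_lit 0) (nat_lit 15650398793) (nat_lit 76) (nat_lit 27121563303) (nat_lit 76) (nat_lit 13973670767) (nat_lit 10) (nat_lit 4) (nat_lit 11) (nat_lit 5) (nat_lit 11) (nat_lit 4) (nat_lit 435) (nat_lit 271) (nat_lit 194)) (XT.nd (nat_lit 78) (nat_lit 0) (nat_lit 0) (XT.lf (nat_lit 0) (nat_lit 26103072243) (nat_lit 76) (nat_lit 22690434403) (nat_lit 76) (nat_lit 9498715851) (nat_lit 10) (nat_lit 4) (nat_lit 11) (nat_lit 5) (nat_lit 11) (nat_lit 4) (nat_lit 436) (nat_lit 271) (nat_lit 193)) (XT.lf (nat_lit 0) (nat_lit 36820381983) (nat_lit 76) (nat_lit 18149929826) (nat_lit 76) (nat_lit 4915661743) (nat_lit 10) (nat_lit 4) (nat_lit 11) (nat_lit 5) (nat_lit 11) (nat_lit 4) (nat_lit 437) (nat_lit 271) (nat_lit 192)))) (XT.nd (nat_lit 156) (nat_lit 76) (nat_lit 0) (XT.nd (nat_lit 78) (nat_lit 76) (nat_lit 0) (XT.lf (nat_lit 0) (nat_lit 47811692651) (nat_lit 76) (nat_lit 13496082140)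 (nat_lit 76) (nat_lit 220503833) (nat_lit 10) (nat_lit 4) (nat_lit 11) (nat_lit 5) (nat_lit 11) (nat_lit 4) (nat_lit 438) (nat_lit 271) (nat_lit 191)) (XT.lf (nat_lit 0) (nat_lit 4501276220) (nat_lit 152) (nat_lit 4178094593) (nat_lit 76) (nat_lit 54539878022) (nat_lit 9) (nat_lit 5) (nat_lit 11) (nat_lit 5) (nat_lit 10) (nat_lit 4) (nat_lit 439) (nat_lit 271) (nat_lit 190))) (XT.nd (nat_lit 78) (nat_lit 0) (nat_lit 0) (XT.lf (nat_lit 0) (nat_lit 5710542064) (nat_lit 76) (nat_lit 3681165439) (nat_lit 152) (nat_lit 55568234179) (nat_lit 8) (nat_lit 5) (nat_lit 9) (nat_lit 5) (nat_lit 10) (nat_lit 4) (nat_lit 440) (nat_lit 271) (nat_lit 189)) (XT.lf (nat_lit 0) (nat_lit 14462143024) (nat_lit 152) (nat_lit 50829930521) (nat_lit 0) (nat_lit 1459784892) (nat_lit 8) (nat_lit 5) (nat_lit 10) (nat_lit 4) (nat_lit 8) (nat_lit 4) (nat_lit 441) (nat_lit 271) (nat_lit 188)))))) (XT.nd (nat_lit 468) (nat_lit 0) (nat_lit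 0) (XT.nd (nat_lit 234) (nat_lit 76) (nat_lit 0) (XT.nd (nat_lit 78) (nat_lit 0) (nat_lit 0) (XT.lf (nat_lit 0) (nat_lit 19698402326) (nat_lit 152) (nat_lit 42238311225) (nat_lit 0) (nat_lit 6660409632) (nat_lit 8) (nat_lit 5) (nat_lit 10) (nat_lit 4) (nat_lit 8) (nat_lit 4) (nat_lit 442) (nat_lit 271) (nat_lit 187)) (XT.nd (nat_lit 78) (nat_lit 0) (nat_lit 0) (XT.lf (nat_lit 0) (nat_lit 25069675167) (nat_lit 152) (nat_lit 33431648875) (nat_lit 0) (nat_lit 11997085811) (nat_lit 8) (nat_lit 5) (nat_lit 10) (nat_lit 4) (nat_lit 8) (nat_lit 4) (nat_lit 443) (nat_lit 271) (nat_lit 186)) (XT.lf (nat_lit 0) (nat_lit 30580654893) (nat_lit 152) (nat_lit 24402248330) (nat_lit 0) (nat_lit 17474476545) (nat_lit 8) (nat_lit 5) (nat_lit 10) (nat_lit 4) (nat_lit 8) (nat_lit 4) (nat_lit 444) (nat_lit 271) (nat_lit 185)))) (XT.nd (nat_lit 78) (nat_lit 76) (nat_lit 0) (XT.lf (nat_lit 0) (nat_lit 36236156923) (nat_lit 152)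 (nat_lit 15142219822) (nat_lit 0) (nat_lit 23097367902) (nat_lit 8) (nat_lit 5) (nat_lit 10) (nat_lit 4) (nat_lit 8) (nat_lit 4) (nat_lit 445) (nat_lit 271) (nat_lit 184)) (XT.nd (nat_lit 78) (nat_lit 76) (nat_lit 0) (XT.lf (nat_lit 0) (nat_lit 42041122958) (nat_lit 152) (nat_lit 5643472065) (nat_lit 0) (nat_lit 28870673090) (nat_lit 8) (nat_lit 5) (nat_lit 10) (nat_lit 4) (nat_lit 8) (nat_lit 4) (nat_lit 446) (nat_lit 271) (nat_lit 183)) (XT.lf (nat_lit 0) (nat_lit 4183938529) (nat_lit 76) (nat_lit 43856905344) (nat_lit 76) (nat_lit 30655716790) (nat_lit 7) (nat_lit 4) (nat_lit 8) (nat_lit 5) (nat_lit 8) (nat_lit 4) (nat_lit 447) (nat_lit 271) (nat_lit 182))))) (XT.nd (nat_lit 39780) (nat_lit 0) (nat_lit 5700) (XT.nd (nat_lit 78) (nat_lit 0) (nat_lit 0) (XT.lf (nat_lit 0) (nat_lit 14384285773) (nat_lit 76) (nat_lit 39873856055) (nat_lit 76) (nat_lit 26642824116) (nat_lit 7) (nat_lit 4) (nat_lit 8) (nat_lit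 5) (nat_lit 8) (nat_lit 4) (nat_lit 448) (nat_lit 271) (nat_lit 181)) (XT.nd (nat_lit 39624) (nat_lit 0) (nat_lit 6612) (XT.lf (nat_lit 0) (nat_lit 24854166432) (nat_lit 76) (nat_lit 35788954822) (nat_lit 76) (nat_lit 22528948723) (nat_lit 7) (nat_lit 4) (nat_lit 8) (nat_lit 5) (nat_lit 8) (nat_lit 4) (nat_lit 449) (nat_lit 271) (nat_lit 180)) (XT.lf (nat_lit 0) (nat_lit 2131659622) (nat_lit 304) (nat_lit 823479950) (nat_lit 0) (nat_lit 2131659622) (nat_lit 94) (nat_lit 5) (nat_lit 98) (nat_lit 4) (nat_lit 94) (nat_lit 4) (nat_lit 356) (nat_lit 272) (nat_lit 272)))) (XT.nd (nat_lit 156) (nat_lit 304) (nat_lit 0) (XT.nd (nat_lit 78) (nat_lit 304) (nat_lit 0) (XT.lf (nat_lit 0) (nat_lit 6387184306) (nat_lit 304) (nat_lit 2342395129) (nat_lit 304) (nat_lit 1594043736) (nat_lit 90) (nat_lit 4) (nat_lit 94) (nat_lit 5) (nat_lit 94) (nat_lit 4) (nat_lit 357) (nat_lit 272) (nat_lit 271)) (XT.lf (nat_lit 0) (nat_lit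 2765371436) (nat_lit 304) (nat_lit 6379486795) (nat_lit 0) (nat_lit 1333423722) (nat_lit 86) (nat_lit 5) (nat_lit 90) (nat_lit 4) (nat_lit 86) (nat_lit 4) (nat_lit 358) (nat_lit 272) (nat_lit 270))) (XT.nd (nat_lit 78) (nat_lit 76) (nat_lit 0) (XT.lf (nat_lit 0) (nat_lit 1652524539) (nat_lit 228) (nat_lit 5551006237) (nat_lit 228) (nat_lit 3434210988) (nat_lit 83) (nat_lit 4) (nat_lit 86) (nat_lit 5) (nat_lit 86) (nat_lit 4) (nat_lit 359) (nat_lit 272) (nat_lit 269)) (XT.lf (nat_lit 0) (nat_lit 920070782) (nat_lit 304) (nat_lit 913952081) (nat_lit 76) (nat_lit 8968728566) (nat_lit 82) (nat_lit 5) (nat_lit 86) (nat_lit 5) (nat_lit 83) (nat_lit 4) (nat_lit 360) (nat_lit 272) (nat_lit 268))))))) (XT.nd (nat_lit 1014) (nat_lit 1368) (nat_lit 0) (XT.nd (nat_lit 468) (nat_lit 988) (nat_lit 0) (XT.nd (nat_lit 234) (nat_lit 456) (nat_lit 0) (XT.nd (nat_lit 78) (nat_lit 456) (nat_lit 0) (XT.lf (nat_lit 0) (nat_lit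 5330304783) (nat_lit 304) (nat_lit 3638691139) (nat_lit 0) (nat_lit 2002896767) (nat_lit 79) (nat_lit 5) (nat_lit 83) (nat_lit 4) (nat_lit 79) (nat_lit 4) (nat_lit 361) (nat_lit 272) (nat_lit 267)) (XT.nd (nat_lit 78) (nat_lit 228) (nat_lit 0) (XT.lf (nat_lit 0) (nat_lit 4616212953) (nat_lit 228) (nat_lit 5233256788) (nat_lit 228) (nat_lit 1297370607) (nat_lit 76) (nat_lit 4) (nat_lit 79) (nat_lit 5) (nat_lit 79) (nat_lit 4) (nat_lit 362) (nat_lit 272) (nat_lit 266)) (XT.lf (nat_lit 0) (nat_lit 1713271842) (nat_lit 152) (nat_lit 1360577184) (nat_lit 228) (nat_lit 8253540073) (nat_lit 73) (nat_lit 5) (nat_lit 75) (nat_lit 5) (nat_lit 76) (nat_lit 4) (nat_lit 363) (nat_lit 272) (nat_lit 265)))) (XT.nd (nat_lit 78) (nat_lit 456) (nat_lit 0) (XT.lf (nat_lit 0) (nat_lit 7547772556) (nat_lit 228) (nat_lit 1369164277) (nat_lit 0) (nat_lit 2596131088) (nat_lit 73) (nat_lit 5) (nat_lit 76) (nat_lit 4) (nat_lit 73)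 (nat_lit 4) (nat_lit 364) (nat_lit 272) (nat_lit 264)) (XT.nd (nat_lit 78) (nat_lit 152) (nat_lit 0) (XT.lf (nat_lit 0) (nat_lit 432859427) (nat_lit 304) (nat_lit 4613561799) (nat_lit 76) (nat_lit 6658090036) (nat_lit 69) (nat_lit 5) (nat_lit 73) (nat_lit 5) (nat_lit 70) (nat_lit 4) (nat_lit 365) (nat_lit 272) (nat_lit 263)) (XT.lf (nat_lit 0) (nat_lit 3813524779) (nat_lit 152) (nat_lit 1029169716) (nat_lit 228) (nat_lit 7059068436) (nat_lit 67) (nat_lit 5) (nat_lit 69) (nat_lit 5) (nat_lit 70) (nat_lit 4) (nat_lit 366) (nat_lit 272) (nat_lit 262))))) (XT.nd (nat_lit 234) (nat_lit 532) (nat_lit 0) (XT.nd (nat_lit 78) (nat_lit 228) (nat_lit 0) (XT.lf (nat_lit 0) (nat_lit 306323082) (nat_lit 228) (nat_lit 9067796084) (nat_lit 228) (nat_lit 2731159256) (nat_lit 64) (nat_lit 4) (nat_lit 67) (nat_lit 5) (nat_lit 67) (nat_lit 4) (nat_lit 367) (nat_lit 272) (nat_lit 261)) (XT.nd (nat_lit 78) (nat_lit 152) (nat_lit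 0) (XT.lf (nat_lit 0) (nat_lit 1695253593) (nat_lit 304) (nat_lit 3375610314) (nat_lit 76) (nat_lit 7243490477) (nat_lit 63) (nat_lit 5) (nat_lit 67) (nat_lit 5) (nat_lit 64) (nat_lit 4) (nat_lit 368) (nat_lit 272) (nat_lit 260)) (XT.lf (nat_lit 0) (nat_lit 5225767598) (nat_lit 152) (nat_lit 936345976) (nat_lit 228) (nat_lit 6367924345) (nat_lit 61) (nat_lit 5) (nat_lit 63) (nat_lit 5) (nat_lit 64) (nat_lit 4) (nat_lit 369) (nat_lit 272) (nat_lit 259)))) (XT.nd (nat_lit 156) (nat_lit 304) (nat_lit 0) (XT.nd (nat_lit 78) (nat_lit 76) (nat_lit 0) (XT.lf (nat_lit 0) (nat_lit 1245077366) (nat_lit 152) (nat_lit 9509083188) (nat_lit 152) (nat_lit 1998318277) (nat_lit 59) (nat_lit 4) (nat_lit 61) (nat_lit 5) (nat_lit 61) (nat_lit 4) (nat_lit 370) (nat_lit 272) (nat_lit 258)) (XT.lf (nat_lit 0) (nat_lit 2450394453) (nat_lit 228) (nat_lit 2963238512) (nat_lit 76) (nat_lit 7567353936) (nat_lit 58) (nat_lit 5) (nat_lit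 61) (nat_lit 5) (nat_lit 59) (nat_lit 4) (nat_lit 371) (nat_lit 272) (nat_lit 257))) (XT.nd (nat_lit 78) (nat_lit 152) (nat_lit 0) (XT.lf (nat_lit 0) (nat_lit 5784279066) (nat_lit 152) (nat_lit 1179347703) (nat_lit 228) (nat_lit 6253013629) (nat_lit 56) (nat_lit 5) (nat_lit 58) (nat_lit 5) (nat_lit 59) (nat_lit 4) (nat_lit 372) (nat_lit 272) (nat_lit 256)) (XT.lf (nat_lit 0) (nat_lit 1243323361) (nat_lit 152) (nat_lit 10357788897) (nat_lit 152) (nat_lit 1858605376) (nat_lit 54) (nat_lit 4) (nat_lit 56) (nat_lit 5) (nat_lit 56) (nat_lit 4) (nat_lit 373) (nat_lit 272) (nat_lit 255)))))) (XT.nd (nat_lit 546) (nat_lit 532) (nat_lit 0) (XT.nd (nat_lit 234) (nat_lit 456) (nat_lit 0) (XT.nd (nat_lit 78) (nat_lit 304) (nat_lit 0) (XT.lf (nat_lit 0) (nat_lit 2619360058) (nat_lit 228) (nat_lit 3561066078) (nat_lit 76) (nat_lit 7528797043) (nat_lit 53) (nat_lit 5) (nat_lit 56) (nat_lit 5) (nat_lit 54) (nat_lit 4)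 (nat_lit 374) (nat_lit 272) (nat_lit 254)) (XT.nd (nat_lit 78) (nat_lit 152) (nat_lit 0) (XT.lf (nat_lit 0) (nat_lit 5296344044) (nat_lit 152) (nat_lit 1867621639) (nat_lit 228) (nat_lit 6802624564) (nat_lit 51) (nat_lit 5) (nat_lit 53) (nat_lit 5) (nat_lit 54) (nat_lit 4) (nat_lit 375) (nat_lit 272) (nat_lit 253)) (XT.lf (nat_lit 0) (nat_lit 95668801) (nat_lit 152) (nat_lit 11730394842) (nat_lit 152) (nat_lit 2406197670) (nat_lit 49) (nat_lit 4) (nat_lit 51) (nat_lit 5) (nat_lit 51) (nat_lit 4) (nat_lit 376) (nat_lit 272) (nat_lit 252)))) (XT.nd (nat_lit 156) (nat_lit 228) (nat_lit 0) (XT.nd (nat_lit 78) (nat_lit 152) (nat_lit 0) (XT.lf (nat_lit 0) (nat_lit 2106979041) (nat_lit 228) (nat_lit 5383929324) (nat_lit 76) (nat_lit 7013610753) (nat_lit 48) (nat_lit 5) (nat_lit 51) (nat_lit 5) (nat_lit 49) (nat_lit 4) (nat_lit 377) (nat_lit 272) (nat_lit 251)) (XT.lf (nat_lit 0) (nat_lit 3537501062) (nat_lit 152)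 (nat_lit 3125397873) (nat_lit 228) (nat_lit 8122675826) (nat_lit 46) (nat_lit 5) (nat_lit 48) (nat_lit 5) (nat_lit 49) (nat_lit 4) (nat_lit 378) (nat_lit 272) (nat_lit 250))) (XT.nd (nat_lit 78) (nat_lit 228) (nat_lit 0) (XT.lf (nat_lit 0) (nat_lit 11345664312) (nat_lit 228) (nat_lit 2389620727) (nat_lit 0) (nat_lit 1340087643) (nat_lit 46) (nat_lit 5) (nat_lit 49) (nat_lit 4) (nat_lit 46) (nat_lit 4) (nat_lit 379) (nat_lit 272) (nat_lit 249)) (XT.lf (nat_lit 0) (nat_lit 799405728) (nat_lit 228) (nat_lit 8682113978) (nat_lit 76) (nat_lit 5891534153) (nat_lit 43) (nat_lit 5) (nat_lit 46) (nat_lit 5) (nat_lit 44) (nat_lit 4) (nat_lit 380) (nat_lit 272) (nat_lit 248))))) (XT.nd (nat_lit 234) (nat_lit 304) (nat_lit 0) (XT.nd (nat_lit 78) (nat_lit 152) (nat_lit 0) (XT.lf (nat_lit 0) (nat_lit 246054787) (nat_lit 76) (nat_lit 5094622530) (nat_lit 152) (nat_lit 10339357213) (nat_lit 42) (nat_lit 5) (nat_lit 43)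 (nat_lit 5) (nat_lit 44) (nat_lit 4) (nat_lit 381) (nat_lit 272) (nat_lit 247)) (XT.nd (nat_lit 78) (nat_lit 152) (nat_lit 0) (XT.lf (nat_lit 0) (nat_lit 9485831730) (nat_lit 76) (nat_lit 545449065) (nat_lit 152) (nat_lit 5964564917) (nat_lit 42) (nat_lit 5) (nat_lit 43) (nat_lit 5) (nat_lit 44) (nat_lit 4) (nat_lit 382) (nat_lit 272) (nat_lit 246)) (XT.lf (nat_lit 0) (nat_lit 2559893577) (nat_lit 152) (nat_lit 12294151265) (nat_lit 152) (nat_lit 1467356609) (nat_lit 40) (nat_lit 4) (nat_lit 42) (nat_lit 5) (nat_lit 42) (nat_lit 4) (nat_lit 383) (nat_lit 272) (nat_lit 245)))) (XT.nd (nat_lit 156) (nat_lit 152) (nat_lit 0) (XT.nd (nat_lit 78) (nat_lit 76) (nat_lit 0) (XT.lf (nat_lit 0) (nat_lit 3101981446) (nat_lit 228) (nat_lit 4787977815) (nat_lit 76) (nat_lit 8765895588) (nat_lit 39) (nat_lit 5) (nat_lit 42) (nat_lit 5) (nat_lit 40) (nat_lit 4) (nat_lit 384) (nat_lit 272) (nat_lit 244)) (XT.lf (nat_lit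 0) (nat_lit 4397793918) (nat_lit 76) (nat_lit 3352688356) (nat_lit 152) (nat_lit 9250288827) (nat_lit 38) (nat_lit 5) (nat_lit 39) (nat_lit 5) (nat_lit 40) (nat_lit 4) (nat_lit 385) (nat_lit 272) (nat_lit 243))) (XT.nd (nat_lit 78) (nat_lit 152) (nat_lit 0) (XT.lf (nat_lit 0) (nat_lit 12529551395) (nat_lit 152) (nat_lit 3539024764) (nat_lit 0) (nat_lit 1287737275) (nat_lit 38) (nat_lit 5) (nat_lit 40) (nat_lit 4) (nat_lit 38) (nat_lit 4) (nat_lit 386) (nat_lit 272) (nat_lit 242)) (XT.lf (nat_lit 0) (nat_lit 5751065622) (nat_lit 152) (nat_lit 11721045432) (nat_lit 152) (nat_lit 249819073) (nat_lit 36) (nat_lit 4) (nat_lit 38) (nat_lit 5) (nat_lit 38) (nat_lit 4) (nat_lit 387) (nat_lit 272) (nat_lit 241))))))))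
noncomputable def xc42 : XT := (XT.nd (nat_lit 2028) (nat_lit 684) (nat_lit 0) (XT.nd (nat_lit 1014) (nat_lit 532) (nat_lit 0) (XT.nd (nat_lit 468) (nat_lit 380) (nat_lit 0) (XT.nd (nat_lit 234) (nat_lit 304) (nat_lit 0) (XT.nd (nat_lit 78) (nat_lit 76) (nat_lit 0) (XT.lf (nat_lit 0) (nat_lit 4345169948) (nat_lit 228) (nat_lit 2873261692) (nat_lit 76) (nat_lit 10879771560) (nat_lit 35) (nat_lit 5) (nat_lit 38) (nat_lit 5) (nat_lit 36) (nat_lit 4) (nat_lit 388) (nat_lit 272) (nat_lit 240)) (XT.nd (nat_lit 78) (nat_lit 0) (nat_lit 0) (XT.lf (nat_lit 0) (nat_lit 6500324910) (nat_lit 76) (nat_lit 2568899048) (nat_lit 152) (nat_lit 9416589867) (nat_lit 34) (nat_lit 5) (nat_lit 35) (nat_lit 5) (nat_lit 36) (nat_lit 4) (nat_lit 389) (nat_lit 272) (nat_lit 239)) (XT.lf (nat_lit 0) (nat_lit 13919643143) (nat_lit 152) (nat_lit 2813368027) (nat_lit 0) (nat_lit 2152512635) (nat_lit 34) (nat_lit 5) (nat_lit 36) (nat_lit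 4) (nat_lit 34) (nat_lit 4) (nat_lit 390) (nat_lit 272) (nat_lit 238)))) (XT.nd (nat_lit 78) (nat_lit 152) (nat_lit 0) (XT.lf (nat_lit 0) (nat_lit 6619620076) (nat_lit 152) (nat_lit 12320944443) (nat_lit 152) (nat_lit 355920922) (nat_lit 32) (nat_lit 4) (nat_lit 34) (nat_lit 5) (nat_lit 34) (nat_lit 4) (nat_lit 391) (nat_lit 272) (nat_lit 237)) (XT.nd (nat_lit 78) (nat_lit 76) (nat_lit 0) (XT.lf (nat_lit 0) (nat_lit 4271347391) (nat_lit 228) (nat_lit 3486317454) (nat_lit 76) (nat_lit 11961912287) (nat_lit 31) (nat_lit 5) (nat_lit 34) (nat_lit 5) (nat_lit 32) (nat_lit 4) (nat_lit 392) (nat_lit 272) (nat_lit 236)) (XT.lf (nat_lit 0) (nat_lit 5978364082) (nat_lit 76) (nat_lit 3047276255) (nat_lit 152) (nat_lit 11129763903) (nat_lit 30) (nat_lit 5) (nat_lit 31) (nat_lit 5) (nat_lit 32) (nat_lit 4) (nat_lit 393) (nat_lit 272) (nat_lit 235))))) (XT.nd (nat_lit 234) (nat_lit 152) (nat_lit 0) (XT.nd (nat_lit 78)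 (nat_lit 228) (nat_lit 0) (XT.lf (nat_lit 0) (nat_lit 13913568598) (nat_lit 152) (nat_lit 4937434045) (nat_lit 0) (nat_lit 1753582245) (nat_lit 30) (nat_lit 5) (nat_lit 32) (nat_lit 4) (nat_lit 30) (nat_lit 4) (nat_lit 394) (nat_lit 272) (nat_lit 234)) (XT.nd (nat_lit 78) (nat_lit 76) (nat_lit 0) (XT.lf (nat_lit 0) (nat_lit 4525911473) (nat_lit 152) (nat_lit 14435810565) (nat_lit 152) (nat_lit 2105119961) (nat_lit 28) (nat_lit 4) (nat_lit 30) (nat_lit 5) (nat_lit 30) (nat_lit 4) (nat_lit 395) (nat_lit 272) (nat_lit 233)) (XT.lf (nat_lit 0) (nat_lit 2557613857) (nat_lit 228) (nat_lit 7304466755) (nat_lit 76) (nat_lit 11680428676) (nat_lit 27) (nat_lit 5) (nat_lit 30) (nat_lit 5) (nat_lit 28) (nat_lit 4) (nat_lit 396) (nat_lit 272) (nat_lit 232)))) (XT.nd (nat_lit 156) (nat_lit 76) (nat_lit 0) (XT.nd (nat_lit 78) (nat_lit 0) (nat_lit 0) (XT.lf (nat_lit 0) (nat_lit 2121190972) (nat_lit 76) (nat_lit 5158867642)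 (nat_lit 152) (nat_lit 14752906436) (nat_lit 26) (nat_lit 5) (nat_lit 27) (nat_lit 5) (nat_lit 28) (nat_lit 4) (nat_lit 397) (nat_lit 272) (nat_lit 231)) (XT.lf (nat_lit 0) (nat_lit 11871966806) (nat_lit 76) (nat_lit 288384618) (nat_lit 152) (nat_lit 10377305516) (nat_lit 26) (nat_lit 5) (nat_lit 27) (nat_lit 5) (nat_lit 28) (nat_lit 4) (nat_lit 398) (nat_lit 272) (nat_lit 230))) (XT.nd (nat_lit 78) (nat_lit 76) (nat_lit 0) (XT.lf (nat_lit 0) (nat_lit 17176129914) (nat_lit 152) (nat_lit 1293152404) (nat_lit 0) (nat_lit 4588542435) (nat_lit 26) (nat_lit 5) (nat_lit 28) (nat_lit 4) (nat_lit 26) (nat_lit 4) (nat_lit 399) (nat_lit 272) (nat_lit 229)) (XT.lf (nat_lit 0) (nat_lit 8419596749) (nat_lit 76) (nat_lit 13951842985) (nat_lit 76) (nat_lit 1221293383) (nat_lit 25) (nat_lit 4) (nat_lit 26) (nat_lit 5) (nat_lit 26) (nat_lit 4) (nat_lit 400) (nat_lit 272) (nat_lit 228)))))) (XT.nd (nat_lit 468) (nat_lit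 228) (nat_lit 0) (XT.nd (nat_lit 234) (nat_lit 152) (nat_lit 0) (XT.nd (nat_lit 78) (nat_lit 76) (nat_lit 0) (XT.lf (nat_lit 0) (nat_lit 3467615171) (nat_lit 152) (nat_lit 5830088981) (nat_lit 76) (nat_lit 14846203355) (nat_lit 24) (nat_lit 5) (nat_lit 26) (nat_lit 5) (nat_lit 25) (nat_lit 4) (nat_lit 401) (nat_lit 272) (nat_lit 227)) (XT.nd (nat_lit 78) (nat_lit 0) (nat_lit 0) (XT.lf (nat_lit 0) (nat_lit 3754918465) (nat_lit 76) (nat_lit 4500757276) (nat_lit 152) (nat_lit 16456094320) (nat_lit 23) (nat_lit 5) (nat_lit 24) (nat_lit 5) (nat_lit 25) (nat_lit 4) (nat_lit 402) (nat_lit 272) (nat_lit 226)) (XT.lf (nat_lit 0) (nat_lit 13198156434) (nat_lit 152) (nat_lit 11652401717) (nat_lit 0) (nat_lit 445793439) (nat_lit 23) (nat_lit 5) (nat_lit 25) (nat_lit 4) (nat_lit 23) (nat_lit 4) (nat_lit 403) (nat_lit 272) (nat_lit 225)))) (XT.nd (nat_lit 78) (nat_lit 152) (nat_lit 0) (XT.lf (nat_lit 0) (nat_lit 18282106947)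 (nat_lit 152) (nat_lit 2210150444) (nat_lit 0) (nat_lit 5406423569) (nat_lit 23) (nat_lit 5) (nat_lit 25) (nat_lit 4) (nat_lit 23) (nat_lit 4) (nat_lit 404) (nat_lit 272) (nat_lit 224)) (XT.nd (nat_lit 78) (nat_lit 76) (nat_lit 0) (XT.lf (nat_lit 0) (nat_lit 7569117509) (nat_lit 76) (nat_lit 15972347014) (nat_lit 76) (nat_lit 2976935108) (nat_lit 22) (nat_lit 4) (nat_lit 23) (nat_lit 5) (nat_lit 23) (nat_lit 4) (nat_lit 405) (nat_lit 272) (nat_lit 223)) (XT.lf (nat_lit 0) (nat_lit 1739464507) (nat_lit 152) (nat_lit 9580540244) (nat_lit 76) (nat_lit 15837009224) (nat_lit 21) (nat_lit 5) (nat_lit 23) (nat_lit 5) (nat_lit 22) (nat_lit 4) (nat_lit 406) (nat_lit 272) (nat_lit 222))))) (XT.nd (nat_lit 234) (nat_lit 152) (nat_lit 0) (XT.nd (nat_lit 78) (nat_lit 76) (nat_lit 0) (XT.lf (nat_lit 0) (nat_lit 6489167136) (nat_lit 152) (nat_lit 51499527) (nat_lit 76) (nat_lit 21274692074) (nat_lit 21) (nat_lit 5) (nat_lit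 23) (nat_lit 5) (nat_lit 22) (nat_lit 4) (nat_lit 407) (nat_lit 272) (nat_lit 221)) (XT.nd (nat_lit 78) (nat_lit 0) (nat_lit 0) (XT.lf (nat_lit 0) (nat_lit 9867329638) (nat_lit 76) (nat_lit 1561934901) (nat_lit 152) (nat_lit 17062757590) (nat_lit 20) (nat_lit 5) (nat_lit 21) (nat_lit 5) (nat_lit 22) (nat_lit 4) (nat_lit 408) (nat_lit 272) (nat_lit 220)) (XT.lf (nat_lit 0) (nat_lit 16505549462) (nat_lit 152) (nat_lit 9227237274) (nat_lit 0) (nat_lit 3456564391) (nat_lit 20) (nat_lit 5) (nat_lit 22) (nat_lit 4) (nat_lit 20) (nat_lit 4) (nat_lit 409) (nat_lit 272) (nat_lit 219)))) (XT.nd (nat_lit 156) (nat_lit 76) (nat_lit 0) (XT.nd (nat_lit 78) (nat_lit 0) (nat_lit 0) (XT.lf (nat_lit 0) (nat_lit 357476262) (nat_lit 76) (nat_lit 21350090664) (nat_lit 76) (nat_lit 8200834837) (nat_lit 19) (nat_lit 4) (nat_lit 20) (nat_lit 5) (nat_lit 20) (nat_lit 4) (nat_lit 410) (nat_lit 272) (nat_lit 218)) (XT.lf (nat_lit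 0) (nat_lit 10333549105) (nat_lit 76) (nat_lit 16780319559) (nat_lit 76) (nat_lit 3533713483) (nat_lit 19) (nat_lit 4) (nat_lit 20) (nat_lit 5) (nat_lit 20) (nat_lit 4) (nat_lit 411) (nat_lit 272) (nat_lit 217))) (XT.nd (nat_lit 78) (nat_lit 0) (nat_lit 0) (XT.lf (nat_lit 0) (nat_lit 1204491712) (nat_lit 152) (nat_lit 10896002704) (nat_lit 76) (nat_lit 19309403378) (nat_lit 18) (nat_lit 5) (nat_lit 20) (nat_lit 5) (nat_lit 19) (nat_lit 4) (nat_lit 412) (nat_lit 272) (nat_lit 216)) (XT.lf (nat_lit 0) (nat_lit 5971022069) (nat_lit 152) (nat_lit 1311708026) (nat_lit 76) (nat_lit 24912591625) (nat_lit 18) (nat_lit 5) (nat_lit 20) (nat_lit 5) (nat_lit 19) (nat_lit 4) (nat_lit 413) (nat_lit 272) (nat_lit 215))))))) (XT.nd (nat_lit 1014) (nat_lit 304) (nat_lit 0) (XT.nd (nat_lit 468) (nat_lit 152) (nat_lit 0) (XT.nd (nat_lit 234) (nat_lit 152) (nat_lit 0) (XT.nd (nat_lit 78) (nat_lit 0) (nat_lit 0) (XT.lf (nat_lit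 0) (nat_lit 8649986220) (nat_lit 76) (nat_lit 2272160733) (nat_lit 152) (nat_lit 22080917841) (nat_lit 17) (nat_lit 5) (nat_lit 18) (nat_lit 5) (nat_lit 19) (nat_lit 4) (nat_lit 414) (nat_lit 272) (nat_lit 214)) (XT.nd (nat_lit 78) (nat_lit 0) (nat_lit 0) (XT.lf (nat_lit 0) (nat_lit 16021503053) (nat_lit 152) (nat_lit 15004150822) (nat_lit 0) (nat_lit 2809399624) (nat_lit 17) (nat_lit 5) (nat_lit 19) (nat_lit 4) (nat_lit 17) (nat_lit 4) (nat_lit 415) (nat_lit 272) (nat_lit 213)) (XT.lf (nat_lit 0) (nat_lit 21256096133) (nat_lit 152) (nat_lit 5473978778) (nat_lit 0) (nat_lit 7962463403) (nat_lit 17) (nat_lit 5) (nat_lit 19) (nat_lit 4) (nat_lit 17) (nat_lit 4) (nat_lit 416) (nat_lit 272) (nat_lit 212)))) (XT.nd (nat_lit 78) (nat_lit 76) (nat_lit 0) (XT.lf (nat_lit 0) (nat_lit 4352540021) (nat_lit 76) (nat_lit 22297957965) (nat_lit 76) (nat_lit 8925170574) (nat_lit 16) (nat_lit 4) (nat_lit 17) (nat_lit 5)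 (nat_lit 17) (nat_lit 4) (nat_lit 417) (nat_lit 272) (nat_lit 211)) (XT.nd (nat_lit 78) (nat_lit 76) (nat_lit 0) (XT.lf (nat_lit 0) (nat_lit 14512303762) (nat_lit 76) (nat_lit 17711065159) (nat_lit 76) (nat_lit 4261428583) (nat_lit 16) (nat_lit 4) (nat_lit 17) (nat_lit 5) (nat_lit 17) (nat_lit 4) (nat_lit 418) (nat_lit 272) (nat_lit 210)) (XT.lf (nat_lit 0) (nat_lit 493755746) (nat_lit 152) (nat_lit 12521923271) (nat_lit 76) (nat_lit 24406505283) (nat_lit 15) (nat_lit 5) (nat_lit 17) (nat_lit 5) (nat_lit 16) (nat_lit 4) (nat_lit 419) (nat_lit 272) (nat_lit 209))))) (XT.nd (nat_lit 234) (nat_lit 76) (nat_lit 0) (XT.nd (nat_lit 78) (nat_lit 76) (nat_lit 0) (XT.lf (nat_lit 0) (nat_lit 5269159532) (nat_lit 152) (nat_lit 2900291313) (nat_lit 76) (nat_lit 30218083221) (nat_lit 15) (nat_lit 5) (nat_lit 17) (nat_lit 5) (nat_lit 16) (nat_lit 4) (nat_lit 420) (nat_lit 272) (nat_lit 208)) (XT.nd (nat_lit 78) (nat_lit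 0) (nat_lit 0) (XT.lf (nat_lit 0) (nat_lit 7079927730) (nat_lit 76) (nat_lit 3140240144) (nat_lit 152) (nat_lit 29160709642) (nat_lit 14) (nat_lit 5) (nat_lit 15) (nat_lit 5) (nat_lit 16) (nat_lit 4) (nat_lit 421) (nat_lit 272) (nat_lit 207)) (XT.lf (nat_lit 0) (nat_lit 15333258940) (nat_lit 152) (nat_lit 23072335678) (nat_lit 0) (nat_lit 1998023443) (nat_lit 14) (nat_lit 5) (nat_lit 16) (nat_lit 4) (nat_lit 14) (nat_lit 4) (nat_lit 422) (nat_lit 272) (nat_lit 206)))) (XT.nd (nat_lit 156) (nat_lit 76) (nat_lit 0) (XT.nd (nat_lit 78) (nat_lit 0) (nat_lit 0) (XT.lf (nat_lit 0) (nat_lit 20596239067) (nat_lit 152) (nat_lit 13664266544) (nat_lit 0) (nat_lit 7196643586) (nat_lit 14) (nat_lit 5) (nat_lit 16) (nat_lit 4) (nat_lit 14) (nat_lit 4) (nat_lit 423) (nat_lit 272) (nat_lit 205)) (XT.lf (nat_lit 0) (nat_lit 25983521066) (nat_lit 152) (nat_lit 4038335834) (nat_lit 0) (nat_lit 12521440165) (nat_lit 14) (nat_lit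 5) (nat_lit 16) (nat_lit 4) (nat_lit 14) (nat_lit 4) (nat_lit 424) (nat_lit 272) (nat_lit 204))) (XT.nd (nat_lit 78) (nat_lit 0) (nat_lit 0) (XT.lf (nat_lit 0) (nat_lit 5929574822) (nat_lit 76) (nat_lit 25627236150) (nat_lit 76) (nat_lit 12104489792) (nat_lit 13) (nat_lit 4) (nat_lit 14) (nat_lit 5) (nat_lit 14) (nat_lit 4) (nat_lit 425) (nat_lit 272) (nat_lit 203)) (XT.lf (nat_lit 0) (nat_lit 16217412185) (nat_lit 76) (nat_lit 21088412246) (nat_lit 76) (nat_lit 7506767387) (nat_lit 13) (nat_lit 4) (nat_lit 14) (nat_lit 5) (nat_lit 14) (nat_lit 4) (nat_lit 426) (nat_lit 272) (nat_lit 202)))))) (XT.nd (nat_lit 546) (nat_lit 152) (nat_lit 0) (XT.nd (nat_lit 234) (nat_lit 0) (nat_lit 0) (XT.nd (nat_lit 78) (nat_lit 152) (nat_lit 0) (XT.lf (nat_lit 0) (nat_lit 26753794823) (nat_lit 76) (nat_lit 16442198501) (nat_lit 76) (nat_lit 2803370630) (nat_lit 13) (nat_lit 4) (nat_lit 14) (nat_lit 5) (nat_lit 14) (nat_lit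 4) (nat_lit 427) (nat_lit 272) (nat_lit 201)) (XT.nd (nat_lit 78) (nat_lit 76) (nat_lit 0) (XT.lf (nat_lit 0) (nat_lit 1970591604) (nat_lit 152) (nat_lit 9694044399) (nat_lit 76) (nat_lit 35557438571) (nat_lit 12) (nat_lit 5) (nat_lit 14) (nat_lit 5) (nat_lit 13) (nat_lit 4) (nat_lit 428) (nat_lit 272) (nat_lit 200)) (XT.lf (nat_lit 0) (nat_lit 60208393) (nat_lit 76) (nat_lit 6741985805) (nat_lit 152) (nat_lit 41679319291) (nat_lit 11) (nat_lit 5) (nat_lit 12) (nat_lit 5) (nat_lit 13) (nat_lit 4) (nat_lit 429) (nat_lit 272) (nat_lit 199)))) (XT.nd (nat_lit 156) (nat_lit 0) (nat_lit 0) (XT.nd (nat_lit 78) (nat_lit 0) (nat_lit 0) (XT.lf (nat_lit 0) (nat_lit 10249131897) (nat_lit 76) (nat_lit 1598015040) (nat_lit 152) (nat_lit 37929539151) (nat_lit 11) (nat_lit 5) (nat_lit 12) (nat_lit 5) (nat_lit 13) (nat_lit 4) (nat_lit 430) (nat_lit 272) (nat_lit 198)) (XT.lf (nat_lit 0) (nat_lit 17050133964) (nat_lit 152)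 (nat_lit 30458192286) (nat_lit 0) (nat_lit 3602189546) (nat_lit 11) (nat_lit 5) (nat_lit 13) (nat_lit 4) (nat_lit 11) (nat_lit 4) (nat_lit 431) (nat_lit 272) (nat_lit 197))) (XT.nd (nat_lit 78) (nat_lit 0) (nat_lit 0) (XT.lf (nat_lit 0) (nat_lit 22396990205) (nat_lit 152) (nat_lit 21186583318) (nat_lit 0) (nat_lit 8901155915) (nat_lit 11) (nat_lit 5) (nat_lit 13) (nat_lit 4) (nat_lit 11) (nat_lit 4) (nat_lit 432) (nat_lit 272) (nat_lit 196)) (XT.lf (nat_lit 0) (nat_lit 27877026571) (nat_lit 152) (nat_lit 11689264786) (nat_lit 0) (nat_lit 14334697260) (nat_lit 11) (nat_lit 5) (nat_lit 13) (nat_lit 4) (nat_lit 11) (nat_lit 4) (nat_lit 433) (nat_lit 272) (nat_lit 195))))) (XT.nd (nat_lit 234) (nat_lit 76) (nat_lit 0) (XT.nd (nat_lit 78) (nat_lit 76) (nat_lit 0) (XT.lf (nat_lit 0) (nat_lit 33495031444) (nat_lit 152) (nat_lit 1957938060) (nat_lit 0) (nat_lit 19907561335) (nat_lit 11) (nat_lit 5) (nat_lit 13)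 (nat_lit 4) (nat_lit 11) (nat_lit 4) (nat_lit 434) (nat_lit 272) (nat_lit 194)) (XT.nd (nat_lit 78) (nat_lit 0) (nat_lit 0) (XT.lf (nat_lit 0) (nat_lit 8175432086) (nat_lit 76) (nat_lit 31159068927) (nat_lit 76) (nat_lit 17527772802) (nat_lit 10) (nat_lit 4) (nat_lit 11) (nat_lit 5) (nat_lit 11) (nat_lit 4) (nat_lit 435) (nat_lit 272) (nat_lit 193)) (XT.lf (nat_lit 0) (nat_lit 18603995234) (nat_lit 76) (nat_lit 26739545047) (nat_lit 76) (nat_lit 13065699391) (nat_lit 10) (nat_lit 4) (nat_lit 11) (nat_lit 5) (nat_lit 11) (nat_lit 4) (nat_lit 436) (nat_lit 272) (nat_lit 192)))) (XT.nd (nat_lit 156) (nat_lit 76) (nat_lit 0) (XT.nd (nat_lit 78) (nat_lit 0) (nat_lit 0) (XT.lf (nat_lit 0) (nat_lit 29297896912) (nat_lit 76) (nat_lit 22210307479) (nat_lit 76) (nat_lit 8495151599) (nat_lit 10) (nat_lit 4) (nat_lit 11) (nat_lit 5) (nat_lit 11) (nat_lit 4) (nat_lit 437) (nat_lit 272) (nat_lit 191)) (XT.lf (nat_lit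 0) (nat_lit 40266481308) (nat_lit 76) (nat_lit 17567398637) (nat_lit 76) (nat_lit 3812135744) (nat_lit 10) (nat_lit 4) (nat_lit 11) (nat_lit 5) (nat_lit 11) (nat_lit 4) (nat_lit 438) (nat_lit 272) (nat_lit 190))) (XT.nd (nat_lit 78) (nat_lit 0) (nat_lit 0) (XT.lf (nat_lit 0) (nat_lit 968171616) (nat_lit 152) (nat_lit 11828813359) (nat_lit 76) (nat_lit 50541384369) (nat_lit 9) (nat_lit 5) (nat_lit 11) (nat_lit 5) (nat_lit 10) (nat_lit 4) (nat_lit 439) (nat_lit 272) (nat_lit 189)) (XT.lf (nat_lit 0) (nat_lit 5792487960) (nat_lit 152) (nat_lit 2073255889) (nat_lit 76) (nat_lit 57215302708) (nat_lit 9) (nat_lit 5) (nat_lit 11) (nat_lit 5) (nat_lit 10) (nat_lit 4) (nat_lit 440) (nat_lit 272) (nat_lit 188))))))))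
noncomputable def xc43 : XT := (XT.nd (nat_lit 41496) (nat_lit 0) (nat_lit 1444) (XT.nd (nat_lit 40404) (nat_lit 0) (nat_lit 3876) (XT.nd (nat_lit 468) (nat_lit 76) (nat_lit 0) (XT.nd (nat_lit 234) (nat_lit 0) (nat_lit 0) (XT.nd (nat_lit 78) (nat_lit 0) (nat_lit 0) (XT.lf (nat_lit 0) (nat_lit 8090175342) (nat_lit 76) (nat_lit 2727009578) (nat_lit 152) (nat_lit 56057151440) (nat_lit 8) (nat_lit 5) (nat_lit 9) (nat_lit 5) (nat_lit 10) (nat_lit 4) (nat_lit 441) (nat_lit 272) (nat_lit 187)) (XT.nd (nat_lit 78) (nat_lit 0) (nat_lit 0) (XT.lf (nat_lit 0) (nat_lit 16016356529) (nat_lit 152) (nat_lit 50187365242) (nat_lit 0) (nat_lit 2516992830) (nat_lit 8) (nat_lit 5) (nat_lit 10) (nat_lit 4) (nat_lit 8) (nat_lit 4) (nat_lit 442) (nat_lit 272) (nat_lit 186)) (XT.lf (nat_lit 0) (nat_lit 21377072080) (nat_lit 152) (nat_lit 41401127363) (nat_lit 0) (nat_lit 7844119388) (nat_lit 8) (nat_lit 5) (nat_lit 10) (nat_lit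 4) (nat_lit 8) (nat_lit 4) (nat_lit 443) (nat_lit 272) (nat_lit 185)))) (XT.nd (nat_lit 78) (nat_lit 0) (nat_lit 0) (XT.lf (nat_lit 0) (nat_lit 26877802009) (nat_lit 152) (nat_lit 32391556401) (nat_lit 0) (nat_lit 13312238645) (nat_lit 8) (nat_lit 5) (nat_lit 10) (nat_lit 4) (nat_lit 8) (nat_lit 4) (nat_lit 444) (nat_lit 272) (nat_lit 184)) (XT.nd (nat_lit 78) (nat_lit 0) (nat_lit 0) (XT.lf (nat_lit 0) (nat_lit 32523352779) (nat_lit 152) (nat_lit 23150779916) (nat_lit 0) (nat_lit 18926128568) (nat_lit 8) (nat_lit 5) (nat_lit 10) (nat_lit 4) (nat_lit 8) (nat_lit 4) (nat_lit 445) (nat_lit 272) (nat_lit 183)) (XT.lf (nat_lit 0) (nat_lit 38318657397) (nat_lit 152) (nat_lit 13670723442) (nat_lit 0) (nat_lit 24690694500) (nat_lit 8) (nat_lit 5) (nat_lit 10) (nat_lit 4) (nat_lit 8) (nat_lit 4) (nat_lit 446) (nat_lit 272) (nat_lit 182))))) (XT.nd (nat_lit 39624) (nat_lit 0) (nat_lit 6308) (XT.nd (nat_lit 78) (nat_lit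 76) (nat_lit 0) (XT.lf (nat_lit 0) (nat_lit 44268779720) (nat_lit 152) (nat_lit 3943103435) (nat_lit 0) (nat_lit 30610973438) (nat_lit 8) (nat_lit 5) (nat_lit 10) (nat_lit 4) (nat_lit 8) (nat_lit 4) (nat_lit 447) (nat_lit 272) (nat_lit 181)) (XT.nd (nat_lit 78) (nat_lit 0) (nat_lit 0) (XT.lf (nat_lit 0) (nat_lit 6160799351) (nat_lit 76) (nat_lit 44277340906) (nat_lit 76) (nat_lit 30590560464) (nat_lit 7) (nat_lit 4) (nat_lit 8) (nat_lit 5) (nat_lit 8) (nat_lit 4) (nat_lit 448) (nat_lit 272) (nat_lit 180)) (XT.lf (nat_lit 0) (nat_lit 16613234410) (nat_lit 76) (nat_lit 40200876010) (nat_lit 76) (nat_lit 26485965315) (nat_lit 7) (nat_lit 4) (nat_lit 8) (nat_lit 5) (nat_lit 8) (nat_lit 4) (nat_lit 449) (nat_lit 272) (nat_lit 179)))) (XT.nd (nat_lit 156) (nat_lit 304) (nat_lit 0) (XT.nd (nat_lit 78) (nat_lit 304) (nat_lit 0) (XT.lf (nat_lit 0) (nat_lit 1342549458) (nat_lit 304) (nat_lit 1800258612) (nat_lit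 304) (nat_lit 1800258612) (nat_lit 98) (nat_lit 4) (nat_lit 102) (nat_lit 5) (nat_lit 102) (nat_lit 4) (nat_lit 354) (nat_lit 273) (nat_lit 273)) (XT.lf (nat_lit 0) (nat_lit 548121584) (nat_lit 228) (nat_lit 112985596) (nat_lit 304) (nat_lit 9367978130) (nat_lit 94) (nat_lit 5) (nat_lit 97) (nat_lit 5) (nat_lit 98) (nat_lit 4) (nat_lit 355) (nat_lit 273) (nat_lit 272))) (XT.nd (nat_lit 78) (nat_lit 304) (nat_lit 0) (XT.lf (nat_lit 0) (nat_lit 4984633288) (nat_lit 304) (nat_lit 1724988490) (nat_lit 0) (nat_lit 3465479959) (nat_lit 94) (nat_lit 5) (nat_lit 98) (nat_lit 4) (nat_lit 94) (nat_lit 4) (nat_lit 356) (nat_lit 273) (nat_lit 271)) (XT.lf (nat_lit 0) (nat_lit 6230339193) (nat_lit 304) (nat_lit 3171000097) (nat_lit 304) (nat_lit 925292016) (nat_lit 90) (nat_lit 4) (nat_lit 94) (nat_lit 5) (nat_lit 94) (nat_lit 4) (nat_lit 357) (nat_lit 273) (nat_lit 270)))))) (XT.nd (nat_lit 546) (nat_lit 1140) (nat_lit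 0) (XT.nd (nat_lit 234) (nat_lit 684) (nat_lit 0) (XT.nd (nat_lit 78) (nat_lit 304) (nat_lit 0) (XT.lf (nat_lit 0) (nat_lit 3362648507) (nat_lit 304) (nat_lit 6622716733) (nat_lit 0) (nat_lit 497501863) (nat_lit 86) (nat_lit 5) (nat_lit 90) (nat_lit 4) (nat_lit 86) (nat_lit 4) (nat_lit 358) (nat_lit 273) (nat_lit 269)) (XT.nd (nat_lit 78) (nat_lit 76) (nat_lit 0) (XT.lf (nat_lit 0) (nat_lit 1326533071) (nat_lit 228) (nat_lit 6423687622) (nat_lit 228) (nat_lit 2893640458) (nat_lit 83) (nat_lit 4) (nat_lit 86) (nat_lit 5) (nat_lit 86) (nat_lit 4) (nat_lit 359) (nat_lit 273) (nat_lit 268)) (XT.lf (nat_lit 0) (nat_lit 1402815069) (nat_lit 304) (nat_lit 1327867059) (nat_lit 76) (nat_lit 8079466801) (nat_lit 82) (nat_lit 5) (nat_lit 86) (nat_lit 5) (nat_lit 83) (nat_lit 4) (nat_lit 360) (nat_lit 273) (nat_lit 267)))) (XT.nd (nat_lit 156) (nat_lit 228) (nat_lit 0) (XT.nd (nat_lit 78) (nat_lit 228) (nat_lit 0)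 (XT.lf (nat_lit 0) (nat_lit 5753420793) (nat_lit 304) (nat_lit 4136693595) (nat_lit 0) (nat_lit 1090979860) (nat_lit 79) (nat_lit 5) (nat_lit 83) (nat_lit 4) (nat_lit 79) (nat_lit 4) (nat_lit 361) (nat_lit 273) (nat_lit 266)) (XT.lf (nat_lit 0) (nat_lit 4032064140) (nat_lit 228) (nat_lit 6189361881) (nat_lit 228) (nat_lit 936165448) (nat_lit 76) (nat_lit 4) (nat_lit 79) (nat_lit 5) (nat_lit 79) (nat_lit 4) (nat_lit 362) (nat_lit 273) (nat_lit 265))) (XT.nd (nat_lit 78) (nat_lit 0) (nat_lit 0) (XT.lf (nat_lit 0) (nat_lit 1026567785) (nat_lit 152) (nat_lit 2349448593) (nat_lit 228) (nat_lit 7963593281) (nat_lit 73) (nat_lit 5) (nat_lit 75) (nat_lit 5) (nat_lit 76) (nat_lit 4) (nat_lit 363) (nat_lit 273) (nat_lit 264)) (XT.lf (nat_lit 0) (nat_lit 7795371877) (nat_lit 228) (nat_lit 2133854683) (nat_lit 0) (nat_lit 1597712477) (nat_lit 73) (nat_lit 5) (nat_lit 76) (nat_lit 4) (nat_lit 73) (nat_lit 4) (nat_lit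 364) (nat_lit 273) (nat_lit 263))))) (XT.nd (nat_lit 234) (nat_lit 684) (nat_lit 0) (XT.nd (nat_lit 78) (nat_lit 152) (nat_lit 0) (XT.lf (nat_lit 0) (nat_lit 609536076) (nat_lit 304) (nat_lit 5485179776) (nat_lit 76) (nat_lit 5625186585) (nat_lit 69) (nat_lit 5) (nat_lit 73) (nat_lit 5) (nat_lit 70) (nat_lit 4) (nat_lit 365) (nat_lit 273) (nat_lit 262)) (XT.nd (nat_lit 78) (nat_lit 0) (nat_lit 0) (XT.lf (nat_lit 0) (nat_lit 2849859308) (nat_lit 152) (nat_lit 2116637343) (nat_lit 228) (nat_lit 6952256057) (nat_lit 67) (nat_lit 5) (nat_lit 69) (nat_lit 5) (nat_lit 70) (nat_lit 4) (nat_lit 366) (nat_lit 273) (nat_lit 261)) (XT.lf (nat_lit 0) (nat_lit 9441201832) (nat_lit 228) (nat_lit 743400775) (nat_lit 0) (nat_lit 1939379185) (nat_lit 67) (nat_lit 5) (nat_lit 70) (nat_lit 4) (nat_lit 67) (nat_lit 4) (nat_lit 367) (nat_lit 273) (nat_lit 260)))) (XT.nd (nat_lit 156) (nat_lit 228) (nat_lit 0) (XT.nd (nat_lit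 78) (nat_lit 152) (nat_lit 0) (XT.lf (nat_lit 0) (nat_lit 1692133882) (nat_lit 304) (nat_lit 4533138712) (nat_lit 76) (nat_lit 6109299178) (nat_lit 63) (nat_lit 5) (nat_lit 67) (nat_lit 5) (nat_lit 64) (nat_lit 4) (nat_lit 368) (nat_lit 273) (nat_lit 259)) (XT.lf (nat_lit 0) (nat_lit 3972230114) (nat_lit 152) (nat_lit 2132777525) (nat_lit 228) (nat_lit 6446878243) (nat_lit 61) (nat_lit 5) (nat_lit 63) (nat_lit 5) (nat_lit 64) (nat_lit 4) (nat_lit 369) (nat_lit 273) (nat_lit 258))) (XT.nd (nat_lit 78) (nat_lit 228) (nat_lit 0) (XT.lf (nat_lit 0) (nat_lit 10631906220) (nat_lit 228) (nat_lit 114919251) (nat_lit 0) (nat_lit 2029466445) (nat_lit 61) (nat_lit 5) (nat_lit 64) (nat_lit 4) (nat_lit 61) (nat_lit 4) (nat_lit 370) (nat_lit 273) (nat_lit 257)) (XT.lf (nat_lit 0) (nat_lit 2264473213) (nat_lit 228) (nat_lit 4419903174) (nat_lit 76) (nat_lit 6321756903) (nat_lit 58) (nat_lit 5) (nat_lit 61) (nat_lit 5)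 (nat_lit 59) (nat_lit 4) (nat_lit 371) (nat_lit 273) (nat_lit 256))))))) (XT.nd (nat_lit 1014) (nat_lit 988) (nat_lit 0) (XT.nd (nat_lit 468) (nat_lit 684) (nat_lit 0) (XT.nd (nat_lit 234) (nat_lit 380) (nat_lit 0) (XT.nd (nat_lit 78) (nat_lit 228) (nat_lit 0) (XT.lf (nat_lit 0) (nat_lit 4227380020) (nat_lit 152) (nat_lit 2495004003) (nat_lit 228) (nat_lit 6521072173) (nat_lit 56) (nat_lit 5) (nat_lit 58) (nat_lit 5) (nat_lit 59) (nat_lit 4) (nat_lit 372) (nat_lit 273) (nat_lit 255)) (XT.nd (nat_lit 78) (nat_lit 228) (nat_lit 0) (XT.lf (nat_lit 0) (nat_lit 11295144030) (nat_lit 228) (nat_lit 422098097) (nat_lit 0) (nat_lit 1771242547) (nat_lit 56) (nat_lit 5) (nat_lit 59) (nat_lit 4) (nat_lit 56) (nat_lit 4) (nat_lit 373) (nat_lit 273) (nat_lit 254)) (XT.lf (nat_lit 0) (nat_lit 2246950721) (nat_lit 228) (nat_lit 5330730816) (nat_lit 76) (nat_lit 6161740327) (nat_lit 53) (nat_lit 5) (nat_lit 56) (nat_lit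 5) (nat_lit 54) (nat_lit 4) (nat_lit 374) (nat_lit 273) (nat_lit 253)))) (XT.nd (nat_lit 78) (nat_lit 228) (nat_lit 0) (XT.lf (nat_lit 0) (nat_lit 3421937678) (nat_lit 152) (nat_lit 3312739785) (nat_lit 228) (nat_lit 7263826511) (nat_lit 51) (nat_lit 5) (nat_lit 53) (nat_lit 5) (nat_lit 54) (nat_lit 4) (nat_lit 375) (nat_lit 273) (nat_lit 252)) (XT.nd (nat_lit 78) (nat_lit 228) (nat_lit 0) (XT.lf (nat_lit 0) (nat_lit 11343306635) (nat_lit 228) (nat_lit 1867003546) (nat_lit 0) (nat_lit 1055477345) (nat_lit 51) (nat_lit 5) (nat_lit 54) (nat_lit 4) (nat_lit 51) (nat_lit 4) (nat_lit 376) (nat_lit 273) (nat_lit 251)) (XT.lf (nat_lit 0) (nat_lit 1543716436) (nat_lit 228) (nat_lit 7481171920) (nat_lit 76) (nat_lit 5515025417) (nat_lit 48) (nat_lit 5) (nat_lit 51) (nat_lit 5) (nat_lit 49) (nat_lit 4) (nat_lit 377) (nat_lit 273) (nat_lit 250))))) (XT.nd (nat_lit 234) (nat_lit 304) (nat_lit 0) (XT.nd (nat_lit 78)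 (nat_lit 228) (nat_lit 0) (XT.lf (nat_lit 0) (nat_lit 1330708674) (nat_lit 152) (nat_lit 4710269233) (nat_lit 228) (nat_lit 8781758968) (nat_lit 46) (nat_lit 5) (nat_lit 48) (nat_lit 5) (nat_lit 49) (nat_lit 4) (nat_lit 378) (nat_lit 273) (nat_lit 249)) (XT.nd (nat_lit 78) (nat_lit 228) (nat_lit 0) (XT.lf (nat_lit 0) (nat_lit 10426656338) (nat_lit 152) (nat_lit 246961239) (nat_lit 228) (nat_lit 4440428474) (nat_lit 46) (nat_lit 5) (nat_lit 48) (nat_lit 5) (nat_lit 49) (nat_lit 4) (nat_lit 379) (nat_lit 273) (nat_lit 248)) (XT.lf (nat_lit 0) (nat_lit 40244431) (nat_lit 228) (nat_lit 11122302136) (nat_lit 76) (nat_lit 4251261968) (nat_lit 43) (nat_lit 5) (nat_lit 46) (nat_lit 5) (nat_lit 44) (nat_lit 4) (nat_lit 380) (nat_lit 273) (nat_lit 247)))) (XT.nd (nat_lit 156) (nat_lit 228) (nat_lit 0) (XT.nd (nat_lit 78) (nat_lit 76) (nat_lit 0) (XT.lf (nat_lit 0) (nat_lit 4543048101) (nat_lit 228) (nat_lit 2263758804)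 (nat_lit 76) (nat_lit 8915143188) (nat_lit 43) (nat_lit 5) (nat_lit 46) (nat_lit 5) (nat_lit 44) (nat_lit 4) (nat_lit 381) (nat_lit 273) (nat_lit 246)) (XT.lf (nat_lit 0) (nat_lit 6866776411) (nat_lit 76) (nat_lit 2309013279) (nat_lit 152) (nat_lit 6863714089) (nat_lit 42) (nat_lit 5) (nat_lit 43) (nat_lit 5) (nat_lit 44) (nat_lit 4) (nat_lit 382) (nat_lit 273) (nat_lit 245))) (XT.nd (nat_lit 78) (nat_lit 228) (nat_lit 0) (XT.lf (nat_lit 0) (nat_lit 13922098551) (nat_lit 152) (nat_lit 198918180) (nat_lit 0) (nat_lit 2246342899) (nat_lit 42) (nat_lit 5) (nat_lit 44) (nat_lit 4) (nat_lit 42) (nat_lit 4) (nat_lit 383) (nat_lit 273) (nat_lit 244)) (XT.lf (nat_lit 0) (nat_lit 2106362716) (nat_lit 228) (nat_lit 7650524286) (nat_lit 76) (nat_lit 6946318018) (nat_lit 39) (nat_lit 5) (nat_lit 42) (nat_lit 5) (nat_lit 40) (nat_lit 4) (nat_lit 384) (nat_lit 273) (nat_lit 243)))))) (XT.nd (nat_lit 546) (nat_lit 456)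 (nat_lit 0) (XT.nd (nat_lit 234) (nat_lit 304) (nat_lit 0) (XT.nd (nat_lit 78) (nat_lit 152) (nat_lit 0) (XT.lf (nat_lit 0) (nat_lit 1415717868) (nat_lit 76) (nat_lit 5276667310) (nat_lit 152) (nat_lit 10357616352) (nat_lit 38) (nat_lit 5) (nat_lit 39) (nat_lit 5) (nat_lit 40) (nat_lit 4) (nat_lit 385) (nat_lit 273) (nat_lit 242)) (XT.nd (nat_lit 78) (nat_lit 152) (nat_lit 0) (XT.lf (nat_lit 0) (nat_lit 10787479065) (nat_lit 76) (nat_lit 637938528) (nat_lit 152) (nat_lit 5981513107) (nat_lit 38) (nat_lit 5) (nat_lit 39) (nat_lit 5) (nat_lit 40) (nat_lit 4) (nat_lit 386) (nat_lit 273) (nat_lit 241)) (XT.lf (nat_lit 0) (nat_lit 2554706686) (nat_lit 152) (nat_lit 13743719266) (nat_lit 152) (nat_lit 1476213547) (nat_lit 36) (nat_lit 4) (nat_lit 38) (nat_lit 5) (nat_lit 38) (nat_lit 4) (nat_lit 387) (nat_lit 273) (nat_lit 240)))) (XT.nd (nat_lit 156) (nat_lit 152) (nat_lit 0) (XT.nd (nat_lit 78) (nat_lit 76)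 (nat_lit 0) (XT.lf (nat_lit 0) (nat_lit 3110072036) (nat_lit 228) (nat_lit 6170302521) (nat_lit 76) (nat_lit 8871875975) (nat_lit 35) (nat_lit 5) (nat_lit 38) (nat_lit 5) (nat_lit 36) (nat_lit 4) (nat_lit 388) (nat_lit 273) (nat_lit 239)) (XT.lf (nat_lit 0) (nat_lit 3078491024) (nat_lit 76) (nat_lit 4691057979) (nat_lit 152) (nat_lit 10772254560) (nat_lit 34) (nat_lit 5) (nat_lit 35) (nat_lit 5) (nat_lit 36) (nat_lit 4) (nat_lit 389) (nat_lit 273) (nat_lit 238))) (XT.nd (nat_lit 78) (nat_lit 152) (nat_lit 0) (XT.lf (nat_lit 0) (nat_lit 12568003740) (nat_lit 152) (nat_lit 6328937185) (nat_lit 0) (nat_lit 46136500) (nat_lit 34) (nat_lit 5) (nat_lit 36) (nat_lit 4) (nat_lit 34) (nat_lit 4) (nat_lit 390) (nat_lit 273) (nat_lit 237)) (XT.lf (nat_lit 0) (nat_lit 2976509225) (nat_lit 152) (nat_lit 14546750489) (nat_lit 152) (nat_lit 1832754111) (nat_lit 32) (nat_lit 4) (nat_lit 34) (nat_lit 5) (nat_lit 34) (nat_lit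 4) (nat_lit 391) (nat_lit 273) (nat_lit 236))))) (XT.nd (nat_lit 234) (nat_lit 304) (nat_lit 0) (XT.nd (nat_lit 78) (nat_lit 76) (nat_lit 0) (XT.lf (nat_lit 0) (nat_lit 2792737733) (nat_lit 228) (nat_lit 7231271923) (nat_lit 76) (nat_lit 9756444119) (nat_lit 31) (nat_lit 5) (nat_lit 34) (nat_lit 5) (nat_lit 32) (nat_lit 4) (nat_lit 392) (nat_lit 273) (nat_lit 235)) (XT.nd (nat_lit 78) (nat_lit 0) (nat_lit 0) (XT.lf (nat_lit 0) (nat_lit 2102920252) (nat_lit 76) (nat_lit 5377153596) (nat_lit 152) (nat_lit 12738220134) (nat_lit 30) (nat_lit 5) (nat_lit 31) (nat_lit 5) (nat_lit 32) (nat_lit 4) (nat_lit 393) (nat_lit 273) (nat_lit 234)) (XT.lf (nat_lit 0) (nat_lit 11755087160) (nat_lit 76) (nat_lit 566362199) (nat_lit 152) (nat_lit 8347426122) (nat_lit 30) (nat_lit 5) (nat_lit 31) (nat_lit 5) (nat_lit 32) (nat_lit 4) (nat_lit 394) (nat_lit 273) (nat_lit 233)))) (XT.nd (nat_lit 156) (nat_lit 76) (nat_lit 0) (XT.nd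 (nat_lit 78) (nat_lit 76) (nat_lit 0) (XT.lf (nat_lit 0) (nat_lit 421538779) (nat_lit 152) (nat_lit 16874427454) (nat_lit 152) (nat_lit 3837379599) (nat_lit 28) (nat_lit 4) (nat_lit 30) (nat_lit 5) (nat_lit 30) (nat_lit 4) (nat_lit 395) (nat_lit 273) (nat_lit 232)) (XT.lf (nat_lit 0) (nat_lit 830462049) (nat_lit 228) (nat_lit 11512115024) (nat_lit 76) (nat_lit 9267800345) (nat_lit 27) (nat_lit 5) (nat_lit 30) (nat_lit 5) (nat_lit 28) (nat_lit 4) (nat_lit 396) (nat_lit 273) (nat_lit 231))) (XT.nd (nat_lit 78) (nat_lit 76) (nat_lit 0) (XT.lf (nat_lit 0) (nat_lit 5504657596) (nat_lit 228) (nat_lit 2179716636) (nat_lit 76) (nat_lit 14417910216) (nat_lit 27) (nat_lit 5) (nat_lit 30) (nat_lit 5) (nat_lit 28) (nat_lit 4) (nat_lit 397) (nat_lit 273) (nat_lit 230)) (XT.lf (nat_lit 0) (nat_lit 7476319802) (nat_lit 76) (nat_lit 2859719544) (nat_lit 152) (nat_lit 12272408004) (nat_lit 26) (nat_lit 5) (nat_lit 27) (nat_lit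 5) (nat_lit 28) (nat_lit 4) (nat_lit 398) (nat_lit 273) (nat_lit 229))))))))
noncomputable def xc44 : XT := (XT.nd (nat_lit 2028) (nat_lit 532) (nat_lit 0) (XT.nd (nat_lit 1014) (nat_lit 380) (nat_lit 0) (XT.nd (nat_lit 468) (nat_lit 304) (nat_lit 0) (XT.nd (nat_lit 234) (nat_lit 76) (nat_lit 0) (XT.nd (nat_lit 78) (nat_lit 152) (nat_lit 0) (XT.lf (nat_lit 0) (nat_lit 15300139197) (nat_lit 152) (nat_lit 5785318916) (nat_lit 0) (nat_lit 2044710984) (nat_lit 26) (nat_lit 5) (nat_lit 28) (nat_lit 4) (nat_lit 26) (nat_lit 4) (nat_lit 399) (nat_lit 273) (nat_lit 228)) (XT.nd (nat_lit 78) (nat_lit 76) (nat_lit 0) (XT.lf (nat_lit 0) (nat_lit 3788075545) (nat_lit 76) (nat_lit 16636676345) (nat_lit 76) (nat_lit 3242449955) (nat_lit 25) (nat_lit 4) (nat_lit 26) (nat_lit 5) (nat_lit 26) (nat_lit 4) (nat_lit 400) (nat_lit 273) (nat_lit 227)) (XT.lf (nat_lit 0) (nat_lit 1459759222) (nat_lit 152) (nat_lit 10565670680)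 (nat_lit 76) (nat_lit 12194316644) (nat_lit 24) (nat_lit 5) (nat_lit 26) (nat_lit 5) (nat_lit 25) (nat_lit 4) (nat_lit 401) (nat_lit 273) (nat_lit 226)))) (XT.nd (nat_lit 78) (nat_lit 76) (nat_lit 0) (XT.lf (nat_lit 0) (nat_lit 6186347140) (nat_lit 152) (nat_lit 1101527800) (nat_lit 76) (nat_lit 17501581515) (nat_lit 24) (nat_lit 5) (nat_lit 26) (nat_lit 5) (nat_lit 25) (nat_lit 4) (nat_lit 402) (nat_lit 273) (nat_lit 225)) (XT.nd (nat_lit 78) (nat_lit 0) (nat_lit 0) (XT.lf (nat_lit 0) (nat_lit 8722956695) (nat_lit 76) (nat_lit 2365609406) (nat_lit 152) (nat_lit 14286682818) (nat_lit 23) (nat_lit 5) (nat_lit 24) (nat_lit 5) (nat_lit 25) (nat_lit 4) (nat_lit 403) (nat_lit 273) (nat_lit 224)) (XT.lf (nat_lit 0) (nat_lit 16125210210) (nat_lit 152) (nat_lit 7233582844) (nat_lit 0) (nat_lit 2620207420) (nat_lit 23) (nat_lit 5) (nat_lit 25) (nat_lit 4) (nat_lit 23) (nat_lit 4) (nat_lit 404) (nat_lit 273) (nat_lit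 223))))) (XT.nd (nat_lit 234) (nat_lit 152) (nat_lit 0) (XT.nd (nat_lit 78) (nat_lit 76) (nat_lit 0) (XT.lf (nat_lit 0) (nat_lit 2399881118) (nat_lit 76) (nat_lit 18911145622) (nat_lit 76) (nat_lit 5289901543) (nat_lit 22) (nat_lit 4) (nat_lit 23) (nat_lit 5) (nat_lit 23) (nat_lit 4) (nat_lit 405) (nat_lit 273) (nat_lit 222)) (XT.nd (nat_lit 78) (nat_lit 76) (nat_lit 0) (XT.lf (nat_lit 0) (nat_lit 12380309475) (nat_lit 76) (nat_lit 14297277402) (nat_lit 76) (nat_lit 563177703) (nat_lit 22) (nat_lit 4) (nat_lit 23) (nat_lit 5) (nat_lit 23) (nat_lit 4) (nat_lit 406) (nat_lit 273) (nat_lit 221)) (XT.lf (nat_lit 0) (nat_lit 4174387894) (nat_lit 152) (nat_lit 5369660836) (nat_lit 76) (nat_lit 18355919480) (nat_lit 21) (nat_lit 5) (nat_lit 23) (nat_lit 5) (nat_lit 22) (nat_lit 4) (nat_lit 407) (nat_lit 273) (nat_lit 220)))) (XT.nd (nat_lit 156) (nat_lit 76) (nat_lit 0) (XT.nd (nat_lit 78) (nat_lit 0) (nat_lit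 0) (XT.lf (nat_lit 0) (nat_lit 4400094475) (nat_lit 76) (nat_lit 4639383348) (nat_lit 152) (nat_lit 19539406584) (nat_lit 20) (nat_lit 5) (nat_lit 21) (nat_lit 5) (nat_lit 22) (nat_lit 4) (nat_lit 408) (nat_lit 273) (nat_lit 219)) (XT.lf (nat_lit 0) (nat_lit 14063787824) (nat_lit 152) (nat_lit 14794203770) (nat_lit 0) (nat_lit 419783565) (nat_lit 20) (nat_lit 5) (nat_lit 22) (nat_lit 4) (nat_lit 20) (nat_lit 4) (nat_lit 409) (nat_lit 273) (nat_lit 218))) (XT.nd (nat_lit 78) (nat_lit 76) (nat_lit 0) (XT.lf (nat_lit 0) (nat_lit 19240628616) (nat_lit 152) (nat_lit 5257680807) (nat_lit 0) (nat_lit 5499274108) (nat_lit 20) (nat_lit 5) (nat_lit 22) (nat_lit 4) (nat_lit 20) (nat_lit 4) (nat_lit 410) (nat_lit 273) (nat_lit 217)) (XT.lf (nat_lit 0) (nat_lit 4572943022) (nat_lit 76) (nat_lit 20000941964) (nat_lit 76) (nat_lit 6165072651) (nat_lit 19) (nat_lit 4) (nat_lit 20) (nat_lit 5) (nat_lit 20) (nat_lit 4) (nat_lit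 411) (nat_lit 273) (nat_lit 216)))))) (XT.nd (nat_lit 468) (nat_lit 228) (nat_lit 0) (XT.nd (nat_lit 234) (nat_lit 0) (nat_lit 0) (XT.nd (nat_lit 78) (nat_lit 152) (nat_lit 0) (XT.lf (nat_lit 0) (nat_lit 14725829822) (nat_lit 76) (nat_lit 15352028738) (nat_lit 76) (nat_lit 1424397479) (nat_lit 19) (nat_lit 4) (nat_lit 20) (nat_lit 5) (nat_lit 20) (nat_lit 4) (nat_lit 412) (nat_lit 273) (nat_lit 215)) (XT.nd (nat_lit 78) (nat_lit 76) (nat_lit 0) (XT.lf (nat_lit 0) (nat_lit 3349459853) (nat_lit 152) (nat_lit 7217317024) (nat_lit 76) (nat_lit 21721930060) (nat_lit 18) (nat_lit 5) (nat_lit 20) (nat_lit 5) (nat_lit 19) (nat_lit 4) (nat_lit 413) (nat_lit 273) (nat_lit 214)) (XT.lf (nat_lit 0) (nat_lit 2588347512) (nat_lit 76) (nat_lit 5634097057) (nat_lit 152) (nat_lit 24876351749) (nat_lit 17) (nat_lit 5) (nat_lit 18) (nat_lit 5) (nat_lit 19) (nat_lit 4) (nat_lit 414) (nat_lit 273) (nat_lit 213)))) (XT.nd (nat_lit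 78) (nat_lit 0) (nat_lit 0) (XT.lf (nat_lit 0) (nat_lit 12760258144) (nat_lit 76) (nat_lit 514346923) (nat_lit 152) (nat_lit 20657597861) (nat_lit 17) (nat_lit 5) (nat_lit 18) (nat_lit 5) (nat_lit 19) (nat_lit 4) (nat_lit 415) (nat_lit 273) (nat_lit 212)) (XT.nd (nat_lit 78) (nat_lit 0) (nat_lit 0) (XT.lf (nat_lit 0) (nat_lit 18485008464) (nat_lit 152) (nat_lit 11673524158) (nat_lit 0) (nat_lit 4631882790) (nat_lit 17) (nat_lit 5) (nat_lit 19) (nat_lit 4) (nat_lit 17) (nat_lit 4) (nat_lit 416) (nat_lit 273) (nat_lit 211)) (XT.lf (nat_lit 0) (nat_lit 23818886123) (nat_lit 152) (nat_lit 1967565919) (nat_lit 0) (nat_lit 9888911263) (nat_lit 17) (nat_lit 5) (nat_lit 19) (nat_lit 4) (nat_lit 17) (nat_lit 4) (nat_lit 417) (nat_lit 273) (nat_lit 210))))) (XT.nd (nat_lit 234) (nat_lit 76) (nat_lit 0) (XT.nd (nat_lit 78) (nat_lit 76) (nat_lit 0) (XT.lf (nat_lit 0) (nat_lit 8117761854) (nat_lit 76) (nat_lit 21236225535)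 (nat_lit 76) (nat_lit 7231639816) (nat_lit 16) (nat_lit 4) (nat_lit 17) (nat_lit 5) (nat_lit 17) (nat_lit 4) (nat_lit 418) (nat_lit 273) (nat_lit 209)) (XT.nd (nat_lit 78) (nat_lit 76) (nat_lit 0) (XT.lf (nat_lit 0) (nat_lit 18476455041) (nat_lit 76) (nat_lit 16562133844) (nat_lit 76) (nat_lit 2485110396) (nat_lit 16) (nat_lit 4) (nat_lit 17) (nat_lit 5) (nat_lit 17) (nat_lit 4) (nat_lit 419) (nat_lit 273) (nat_lit 208)) (XT.lf (nat_lit 0) (nat_lit 2321193665) (nat_lit 152) (nat_lit 9435328198) (nat_lit 76) (nat_lit 26733773338) (nat_lit 15) (nat_lit 5) (nat_lit 17) (nat_lit 5) (nat_lit 16) (nat_lit 4) (nat_lit 420) (nat_lit 273) (nat_lit 207)))) (XT.nd (nat_lit 156) (nat_lit 0) (nat_lit 0) (XT.nd (nat_lit 78) (nat_lit 0) (nat_lit 0) (XT.lf (nat_lit 0) (nat_lit 381555935) (nat_lit 76) (nat_lit 6809176468) (nat_lit 152) (nat_lit 32295351994) (nat_lit 14) (nat_lit 5) (nat_lit 15) (nat_lit 5) (nat_lit 16)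 (nat_lit 4) (nat_lit 421) (nat_lit 273) (nat_lit 206)) (XT.lf (nat_lit 0) (nat_lit 10620781015) (nat_lit 76) (nat_lit 1646560188) (nat_lit 152) (nat_lit 28242579815) (nat_lit 14) (nat_lit 5) (nat_lit 15) (nat_lit 5) (nat_lit 16) (nat_lit 4) (nat_lit 422) (nat_lit 273) (nat_lit 205))) (XT.nd (nat_lit 78) (nat_lit 0) (nat_lit 0) (XT.lf (nat_lit 0) (nat_lit 17497948004) (nat_lit 152) (nat_lit 20496957657) (nat_lit 0) (nat_lit 3569519256) (nat_lit 14) (nat_lit 5) (nat_lit 16) (nat_lit 4) (nat_lit 14) (nat_lit 4) (nat_lit 423) (nat_lit 273) (nat_lit 204)) (XT.lf (nat_lit 0) (nat_lit 22869166332) (nat_lit 152) (nat_lit 10901817753) (nat_lit 0) (nat_lit 8880072127) (nat_lit 14) (nat_lit 5) (nat_lit 16) (nat_lit 4) (nat_lit 14) (nat_lit 4) (nat_lit 424) (nat_lit 273) (nat_lit 203))))))) (XT.nd (nat_lit 1014) (nat_lit 228) (nat_lit 0) (XT.nd (nat_lit 468) (nat_lit 76) (nat_lit 0) (XT.nd (nat_lit 234) (nat_lit 152)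 (nat_lit 0) (XT.nd (nat_lit 78) (nat_lit 76) (nat_lit 0) (XT.lf (nat_lit 0) (nat_lit 28369861740) (nat_lit 152) (nat_lit 1079508445) (nat_lit 0) (nat_lit 14321869033) (nat_lit 14) (nat_lit 5) (nat_lit 16) (nat_lit 4) (nat_lit 14) (nat_lit 4) (nat_lit 425) (nat_lit 273) (nat_lit 202)) (XT.nd (nat_lit 78) (nat_lit 0) (nat_lit 0) (XT.lf (nat_lit 0) (nat_lit 9157243673) (nat_lit 76) (nat_lit 24935622016) (nat_lit 76) (nat_lit 10830446298) (nat_lit 13) (nat_lit 4) (nat_lit 14) (nat_lit 5) (nat_lit 14) (nat_lit 4) (nat_lit 426) (nat_lit 273) (nat_lit 201)) (XT.lf (nat_lit 0) (nat_lit 19664887566) (nat_lit 76) (nat_lit 20303170227) (nat_lit 76) (nat_lit 6142477022) (nat_lit 13) (nat_lit 4) (nat_lit 14) (nat_lit 5) (nat_lit 14) (nat_lit 4) (nat_lit 427) (nat_lit 273) (nat_lit 200)))) (XT.nd (nat_lit 78) (nat_lit 152) (nat_lit 0) (XT.lf (nat_lit 0) (nat_lit 30431120334) (nat_lit 76) (nat_lit 15558867964) (nat_lit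 76) (nat_lit 1344274286) (nat_lit 13) (nat_lit 4) (nat_lit 14) (nat_lit 5) (nat_lit 14) (nat_lit 4) (nat_lit 428) (nat_lit 273) (nat_lit 199)) (XT.nd (nat_lit 78) (nat_lit 76) (nat_lit 0) (XT.lf (nat_lit 0) (nat_lit 3498723063) (nat_lit 152) (nat_lit 7164516413) (nat_lit 76) (nat_lit 37931296059) (nat_lit 12) (nat_lit 5) (nat_lit 14) (nat_lit 5) (nat_lit 13) (nat_lit 4) (nat_lit 429) (nat_lit 273) (nat_lit 198)) (XT.lf (nat_lit 0) (nat_lit 2854713479) (nat_lit 76) (nat_lit 5604618578) (nat_lit 152) (nat_lit 41432907623) (nat_lit 11) (nat_lit 5) (nat_lit 12) (nat_lit 5) (nat_lit 13) (nat_lit 4) (nat_lit 430) (nat_lit 273) (nat_lit 197))))) (XT.nd (nat_lit 234) (nat_lit 76) (nat_lit 0) (XT.nd (nat_lit 78) (nat_lit 0) (nat_lit 0) (XT.lf (nat_lit 0) (nat_lit 13267963945) (nat_lit 76) (nat_lit 345346947) (nat_lit 152) (nat_lit 37614229940) (nat_lit 11) (nat_lit 5) (nat_lit 12) (nat_lit 5) (nat_lit 13) (nat_lit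 4) (nat_lit 431) (nat_lit 273) (nat_lit 196)) (XT.nd (nat_lit 78) (nat_lit 0) (nat_lit 0) (XT.lf (nat_lit 0) (nat_lit 18943435840) (nat_lit 152) (nat_lit 28710480108) (nat_lit 0) (nat_lit 4948341628) (nat_lit 11) (nat_lit 5) (nat_lit 13) (nat_lit 4) (nat_lit 11) (nat_lit 4) (nat_lit 432) (nat_lit 273) (nat_lit 195)) (XT.lf (nat_lit 0) (nat_lit 24410451228) (nat_lit 152) (nat_lit 19238241064) (nat_lit 0) (nat_lit 10370216219) (nat_lit 11) (nat_lit 5) (nat_lit 13) (nat_lit 4) (nat_lit 11) (nat_lit 4) (nat_lit 433) (nat_lit 273) (nat_lit 194)))) (XT.nd (nat_lit 156) (nat_lit 0) (nat_lit 0) (XT.nd (nat_lit 78) (nat_lit 76) (nat_lit 0) (XT.lf (nat_lit 0) (nat_lit 30015814375) (nat_lit 152) (nat_lit 9531263356) (nat_lit 0) (nat_lit 15931753349) (nat_lit 11) (nat_lit 5) (nat_lit 13) (nat_lit 4) (nat_lit 11) (nat_lit 4) (nat_lit 434) (nat_lit 273) (nat_lit 193)) (XT.lf (nat_lit 0) (nat_lit 427272464) (nat_lit 76)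 (nat_lit 35341257910) (nat_lit 76) (nat_lit 21214647354) (nat_lit 10) (nat_lit 4) (nat_lit 11) (nat_lit 5) (nat_lit 11) (nat_lit 4) (nat_lit 435) (nat_lit 273) (nat_lit 192))) (XT.nd (nat_lit 78) (nat_lit 0) (nat_lit 0) (XT.lf (nat_lit 0) (nat_lit 10832427551) (nat_lit 76) (nat_lit 30933001039) (nat_lit 76) (nat_lit 16765080259) (nat_lit 10) (nat_lit 4) (nat_lit 11) (nat_lit 5) (nat_lit 11) (nat_lit 4) (nat_lit 436) (nat_lit 273) (nat_lit 191)) (XT.lf (nat_lit 0) (nat_lit 21503602957) (nat_lit 76) (nat_lit 26414702315) (nat_lit 76) (nat_lit 12206674521) (nat_lit 10) (nat_lit 4) (nat_lit 11) (nat_lit 5) (nat_lit 11) (nat_lit 4) (nat_lit 437) (nat_lit 273) (nat_lit 190)))))) (XT.nd (nat_lit 546) (nat_lit 76) (nat_lit 0) (XT.nd (nat_lit 234) (nat_lit 76) (nat_lit 0) (XT.nd (nat_lit 78) (nat_lit 76) (nat_lit 0) (XT.lf (nat_lit 0) (nat_lit 32450123010) (nat_lit 76) (nat_lit 21782413710) (nat_lit 76) (nat_lit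 7535447068) (nat_lit 10) (nat_lit 4) (nat_lit 11) (nat_lit 5) (nat_lit 11) (nat_lit 4) (nat_lit 438) (nat_lit 273) (nat_lit 189)) (XT.nd (nat_lit 78) (nat_lit 76) (nat_lit 0) (XT.lf (nat_lit 0) (nat_lit 43681552631) (nat_lit 76) (nat_lit 17032087593) (nat_lit 76) (nat_lit 2747316244) (nat_lit 10) (nat_lit 4) (nat_lit 11) (nat_lit 5) (nat_lit 11) (nat_lit 4) (nat_lit 439) (nat_lit 273) (nat_lit 188)) (XT.lf (nat_lit 0) (nat_lit 2119715264) (nat_lit 152) (nat_lit 10018452962) (nat_lit 76) (nat_lit 53066585459) (nat_lit 9) (nat_lit 5) (nat_lit 11) (nat_lit 5) (nat_lit 10) (nat_lit 4) (nat_lit 440) (nat_lit 273) (nat_lit 187)))) (XT.nd (nat_lit 156) (nat_lit 0) (nat_lit 0) (XT.nd (nat_lit 78) (nat_lit 76) (nat_lit 0) (XT.lf (nat_lit 0) (nat_lit 7056066966) (nat_lit 152) (nat_lit 33293568) (nat_lit 76) (nat_lit 59911334176) (nat_lit 9) (nat_lit 5) (nat_lit 11) (nat_lit 5) (nat_lit 10) (nat_lit 4) (nat_lit 441)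 (nat_lit 273) (nat_lit 186)) (XT.lf (nat_lit 0) (nat_lit 10414431189) (nat_lit 76) (nat_lit 1805340910) (nat_lit 152) (nat_lit 56628365687) (nat_lit 8) (nat_lit 5) (nat_lit 9) (nat_lit 5) (nat_lit 10) (nat_lit 4) (nat_lit 442) (nat_lit 273) (nat_lit 185))) (XT.nd (nat_lit 78) (nat_lit 0) (nat_lit 0) (XT.lf (nat_lit 0) (nat_lit 17552883811) (nat_lit 152) (nat_lit 49649944260) (nat_lit 0) (nat_lit 3547742874) (nat_lit 8) (nat_lit 5) (nat_lit 10) (nat_lit 4) (nat_lit 8) (nat_lit 4) (nat_lit 443) (nat_lit 273) (nat_lit 184)) (XT.lf (nat_lit 0) (nat_lit 23043662481) (nat_lit 152) (nat_lit 40659625320) (nat_lit 0) (nat_lit 9006860697) (nat_lit 8) (nat_lit 5) (nat_lit 10) (nat_lit 4) (nat_lit 8) (nat_lit 4) (nat_lit 444) (nat_lit 273) (nat_lit 183))))) (XT.nd (nat_lit 234) (nat_lit 76) (nat_lit 0) (XT.nd (nat_lit 78) (nat_lit 0) (nat_lit 0) (XT.lf (nat_lit 0) (nat_lit 28679551835) (nat_lit 152) (nat_lit 31437540118)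 (nat_lit 0) (nat_lit 14612011364) (nat_lit 8) (nat_lit 5) (nat_lit 10) (nat_lit 4) (nat_lit 8) (nat_lit 4) (nat_lit 445) (nat_lit 273) (nat_lit 182)) (XT.nd (nat_lit 78) (nat_lit 0) (nat_lit 0) (XT.lf (nat_lit 0) (nat_lit 34465476437) (nat_lit 152) (nat_lit 21975630522) (nat_lit 0) (nat_lit 20368092581) (nat_lit 8) (nat_lit 5) (nat_lit 10) (nat_lit 4) (nat_lit 8) (nat_lit 4) (nat_lit 446) (nat_lit 273) (nat_lit 181)) (XT.lf (nat_lit 0) (nat_lit 40406491948) (nat_lit 152) (nat_lit 12265628843) (nat_lit 0) (nat_lit 26280133933) (nat_lit 8) (nat_lit 5) (nat_lit 10) (nat_lit 4) (nat_lit 8) (nat_lit 4) (nat_lit 447) (nat_lit 273) (nat_lit 180)))) (XT.nd (nat_lit 39390) (nat_lit 0) (nat_lit 7220) (XT.nd (nat_lit 78) (nat_lit 76) (nat_lit 0) (XT.lf (nat_lit 0) (nat_lit 46507789548) (nat_lit 152) (nat_lit 2299050614) (nat_lit 0) (nat_lit 32353301280) (nat_lit 8) (nat_lit 5) (nat_lit 10) (nat_lit 4) (nat_lit 8)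 (nat_lit 4) (nat_lit 448) (nat_lit 273) (nat_lit 179)) (XT.lf (nat_lit 0) (nat_lit 8090691355) (nat_lit 76) (nat_lit 44761781787) (nat_lit 76) (nat_lit 30579982595) (nat_lit 7) (nat_lit 4) (nat_lit 8) (nat_lit 5) (nat_lit 8) (nat_lit 4) (nat_lit 449) (nat_lit 273) (nat_lit 178))) (XT.nd (nat_lit 78) (nat_lit 304) (nat_lit 0) (XT.lf (nat_lit 0) (nat_lit 3362458007) (nat_lit 304) (nat_lit 722243527) (nat_lit 304) (nat_lit 722243527) (nat_lit 106) (nat_lit 4) (nat_lit 110) (nat_lit 5) (nat_lit 110) (nat_lit 4) (nat_lit 352) (nat_lit 274) (nat_lit 274)) (XT.lf (nat_lit 0) (nat_lit 2771010746) (nat_lit 304) (nat_lit 5024210647) (nat_lit 0) (nat_lit 1953266973) (nat_lit 102) (nat_lit 5) (nat_lit 106) (nat_lit 4) (nat_lit 102) (nat_lit 4) (nat_lit 353) (nat_lit 274) (nat_lit 273))))))))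
noncomputable def xc45 : XT := (XT.nd (nat_lit 2028) (nat_lit 1824) (nat_lit 0) (XT.nd (nat_lit 1014) (nat_lit 1596) (nat_lit 0) (XT.nd (nat_lit 468) (nat_lit 1216) (nat_lit 0) (XT.nd (nat_lit 234) (nat_lit 836) (nat_lit 0) (XT.nd (nat_lit 78) (nat_lit 304) (nat_lit 0) (XT.lf (nat_lit 0) (nat_lit 2608553427) (nat_lit 304) (nat_lit 4445376231) (nat_lit 304) (nat_lit 2833706464) (nat_lit 98) (nat_lit 4) (nat_lit 102) (nat_lit 5) (nat_lit 102) (nat_lit 4) (nat_lit 354) (nat_lit 274) (nat_lit 272)) (XT.nd (nat_lit 78) (nat_lit 0) (nat_lit 0) (XT.lf (nat_lit 0) (nat_lit 384204006) (nat_lit 228) (nat_lit 978690431) (nat_lit 304) (nat_lit 8668993014) (nat_lit 94) (nat_lit 5) (nat_lit 97) (nat_lit 5) (nat_lit 98) (nat_lit 4) (nat_lit 355) (nat_lit 274) (nat_lit 271)) (XT.lf (nat_lit 0) (nat_lit 5630052363) (nat_lit 304) (nat_lit 1959142436) (nat_lit 0) (nat_lit 2590418289) (nat_lit 94) (nat_lit 5) (nat_lit 98)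 (nat_lit 4) (nat_lit 94) (nat_lit 4) (nat_lit 356) (nat_lit 274) (nat_lit 270)))) (XT.nd (nat_lit 78) (nat_lit 532) (nat_lit 0) (XT.lf (nat_lit 0) (nat_lit 5916511918) (nat_lit 304) (nat_lit 4080582661) (nat_lit 304) (nat_lit 335555625) (nat_lit 90) (nat_lit 4) (nat_lit 94) (nat_lit 5) (nat_lit 94) (nat_lit 4) (nat_lit 357) (nat_lit 274) (nat_lit 269)) (XT.nd (nat_lit 78) (nat_lit 228) (nat_lit 0) (XT.lf (nat_lit 0) (nat_lit 3457942899) (nat_lit 228) (nat_lit 427681471) (nat_lit 304) (nat_lit 6604765766) (nat_lit 86) (nat_lit 5) (nat_lit 89) (nat_lit 5) (nat_lit 90) (nat_lit 4) (nat_lit 358) (nat_lit 274) (nat_lit 268)) (XT.lf (nat_lit 0) (nat_lit 837189841) (nat_lit 228) (nat_lit 7381120329) (nat_lit 228) (nat_lit 2434736744) (nat_lit 83) (nat_lit 4) (nat_lit 86) (nat_lit 5) (nat_lit 86) (nat_lit 4) (nat_lit 359) (nat_lit 274) (nat_lit 267))))) (XT.nd (nat_lit 234) (nat_lit 684) (nat_lit 0) (XT.nd (nat_lit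 78) (nat_lit 456) (nat_lit 0) (XT.lf (nat_lit 0) (nat_lit 1806863176) (nat_lit 304) (nat_lit 1905183848) (nat_lit 76) (nat_lit 7108547564) (nat_lit 82) (nat_lit 5) (nat_lit 86) (nat_lit 5) (nat_lit 83) (nat_lit 4) (nat_lit 360) (nat_lit 274) (nat_lit 266)) (XT.nd (nat_lit 78) (nat_lit 228) (nat_lit 0) (XT.lf (nat_lit 0) (nat_lit 6096774877) (nat_lit 304) (nat_lit 4801373570) (nat_lit 0) (nat_lit 95227050) (nat_lit 79) (nat_lit 5) (nat_lit 83) (nat_lit 4) (nat_lit 79) (nat_lit 4) (nat_lit 361) (nat_lit 274) (nat_lit 265)) (XT.lf (nat_lit 0) (nat_lit 3280141039) (nat_lit 228) (nat_lit 7233193126) (nat_lit 228) (nat_lit 658096269) (nat_lit 76) (nat_lit 4) (nat_lit 79) (nat_lit 5) (nat_lit 79) (nat_lit 4) (nat_lit 362) (nat_lit 274) (nat_lit 264)))) (XT.nd (nat_lit 156) (nat_lit 456) (nat_lit 0) (XT.nd (nat_lit 78) (nat_lit 0) (nat_lit 0) (XT.lf (nat_lit 0) (nat_lit 168642080) (nat_lit 152) (nat_lit 3427704055)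 (nat_lit 228) (nat_lit 7758605215) (nat_lit 73) (nat_lit 5) (nat_lit 75) (nat_lit 5) (nat_lit 76) (nat_lit 4) (nat_lit 363) (nat_lit 274) (nat_lit 263)) (XT.lf (nat_lit 0) (nat_lit 7961586886) (nat_lit 228) (nat_lit 3069836282) (nat_lit 0) (nat_lit 512494124) (nat_lit 73) (nat_lit 5) (nat_lit 76) (nat_lit 4) (nat_lit 73) (nat_lit 4) (nat_lit 364) (nat_lit 274) (nat_lit 262))) (XT.nd (nat_lit 78) (nat_lit 152) (nat_lit 0) (XT.lf (nat_lit 0) (nat_lit 702982388) (nat_lit 304) (nat_lit 6531629398) (nat_lit 76) (nat_lit 4503824587) (nat_lit 69) (nat_lit 5) (nat_lit 73) (nat_lit 5) (nat_lit 70) (nat_lit 4) (nat_lit 365) (nat_lit 274) (nat_lit 261)) (XT.lf (nat_lit 0) (nat_lit 1710058445) (nat_lit 152) (nat_lit 3296587132) (nat_lit 228) (nat_lit 6932251998) (nat_lit 67) (nat_lit 5) (nat_lit 69) (nat_lit 5) (nat_lit 70) (nat_lit 4) (nat_lit 366) (nat_lit 274) (nat_lit 260)))))) (XT.nd (nat_lit 468) (nat_lit 760)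 (nat_lit 0) (XT.nd (nat_lit 234) (nat_lit 380) (nat_lit 0) (XT.nd (nat_lit 78) (nat_lit 456) (nat_lit 0) (XT.lf (nat_lit 0) (nat_lit 9427948630) (nat_lit 228) (nat_lit 1963406579) (nat_lit 0) (nat_lit 754385173) (nat_lit 67) (nat_lit 5) (nat_lit 70) (nat_lit 4) (nat_lit 67) (nat_lit 4) (nat_lit 367) (nat_lit 274) (nat_lit 259)) (XT.nd (nat_lit 78) (nat_lit 152) (nat_lit 0) (XT.lf (nat_lit 0) (nat_lit 1603789577) (nat_lit 304) (nat_lit 5870635515) (nat_lit 76) (nat_lit 4883546827) (nat_lit 63) (nat_lit 5) (nat_lit 67) (nat_lit 5) (nat_lit 64) (nat_lit 4) (nat_lit 368) (nat_lit 274) (nat_lit 258)) (XT.lf (nat_lit 0) (nat_lit 2537267897) (nat_lit 152) (nat_lit 3424886697) (nat_lit 228) (nat_lit 6614777366) (nat_lit 61) (nat_lit 5) (nat_lit 63) (nat_lit 5) (nat_lit 64) (nat_lit 4) (nat_lit 369) (nat_lit 274) (nat_lit 257)))) (XT.nd (nat_lit 78) (nat_lit 380) (nat_lit 0) (XT.lf (nat_lit 0) (nat_lit 10436167464)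 (nat_lit 228) (nat_lit 1632231330) (nat_lit 0) (nat_lit 734536130) (nat_lit 61) (nat_lit 5) (nat_lit 64) (nat_lit 4) (nat_lit 61) (nat_lit 4) (nat_lit 370) (nat_lit 274) (nat_lit 256)) (XT.nd (nat_lit 78) (nat_lit 152) (nat_lit 0) (XT.lf (nat_lit 0) (nat_lit 1991052386) (nat_lit 228) (nat_lit 6062070739) (nat_lit 76) (nat_lit 4981388423) (nat_lit 58) (nat_lit 5) (nat_lit 61) (nat_lit 5) (nat_lit 59) (nat_lit 4) (nat_lit 371) (nat_lit 274) (nat_lit 255)) (XT.lf (nat_lit 0) (nat_lit 2483361264) (nat_lit 152) (nat_lit 3909657123) (nat_lit 228) (nat_lit 6880503890) (nat_lit 56) (nat_lit 5) (nat_lit 58) (nat_lit 5) (nat_lit 59) (nat_lit 4) (nat_lit 372) (nat_lit 274) (nat_lit 254))))) (XT.nd (nat_lit 234) (nat_lit 380) (nat_lit 0) (XT.nd (nat_lit 78) (nat_lit 380) (nat_lit 0) (XT.lf (nat_lit 0) (nat_lit 10913221628) (nat_lit 228) (nat_lit 2250634708) (nat_lit 0) (nat_lit 356280327) (nat_lit 56) (nat_lit 5) (nat_lit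 59) (nat_lit 4) (nat_lit 56) (nat_lit 4) (nat_lit 373) (nat_lit 274) (nat_lit 253)) (XT.nd (nat_lit 78) (nat_lit 152) (nat_lit 0) (XT.lf (nat_lit 0) (nat_lit 1784481391) (nat_lit 228) (nat_lit 7291860869) (nat_lit 76) (nat_lit 4696568492) (nat_lit 53) (nat_lit 5) (nat_lit 56) (nat_lit 5) (nat_lit 54) (nat_lit 4) (nat_lit 374) (nat_lit 274) (nat_lit 252)) (XT.lf (nat_lit 0) (nat_lit 1354280370) (nat_lit 152) (nat_lit 4860323107) (nat_lit 228) (nat_lit 7819125947) (nat_lit 51) (nat_lit 5) (nat_lit 53) (nat_lit 5) (nat_lit 54) (nat_lit 4) (nat_lit 375) (nat_lit 274) (nat_lit 251)))) (XT.nd (nat_lit 156) (nat_lit 152) (nat_lit 0) (XT.nd (nat_lit 78) (nat_lit 228) (nat_lit 0) (XT.lf (nat_lit 0) (nat_lit 10276253932) (nat_lit 152) (nat_lit 499370811) (nat_lit 228) (nat_lit 3526824647) (nat_lit 51) (nat_lit 5) (nat_lit 53) (nat_lit 5) (nat_lit 54) (nat_lit 4) (nat_lit 376) (nat_lit 274) (nat_lit 250)) (XT.lf (nat_lit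 0) (nat_lit 887541824) (nat_lit 228) (nat_lit 9776301061) (nat_lit 76) (nat_lit 3914823453) (nat_lit 48) (nat_lit 5) (nat_lit 51) (nat_lit 5) (nat_lit 49) (nat_lit 4) (nat_lit 377) (nat_lit 274) (nat_lit 249))) (XT.nd (nat_lit 78) (nat_lit 152) (nat_lit 0) (XT.lf (nat_lit 0) (nat_lit 5335656968) (nat_lit 228) (nat_lit 1054938185) (nat_lit 76) (nat_lit 8472376161) (nat_lit 48) (nat_lit 5) (nat_lit 51) (nat_lit 5) (nat_lit 49) (nat_lit 4) (nat_lit 378) (nat_lit 274) (nat_lit 248)) (XT.lf (nat_lit 0) (nat_lit 7956096191) (nat_lit 152) (nat_lit 1965947631) (nat_lit 228) (nat_lit 5233631518) (nat_lit 46) (nat_lit 5) (nat_lit 48) (nat_lit 5) (nat_lit 49) (nat_lit 4) (nat_lit 379) (nat_lit 274) (nat_lit 247))))))) (XT.nd (nat_lit 1014) (nat_lit 684) (nat_lit 0) (XT.nd (nat_lit 468) (nat_lit 608) (nat_lit 0) (XT.nd (nat_lit 234) (nat_lit 228) (nat_lit 0) (XT.nd (nat_lit 78) (nat_lit 152) (nat_lit 0) (XT.lf (nat_lit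 0) (nat_lit 1682480011) (nat_lit 152) (nat_lit 12944078829) (nat_lit 152) (nat_lit 831199868) (nat_lit 44) (nat_lit 4) (nat_lit 46) (nat_lit 5) (nat_lit 46) (nat_lit 4) (nat_lit 380) (nat_lit 274) (nat_lit 246)) (XT.nd (nat_lit 78) (nat_lit 76) (nat_lit 0) (XT.lf (nat_lit 0) (nat_lit 3652772348) (nat_lit 228) (nat_lit 4971681303) (nat_lit 76) (nat_lit 7142744497) (nat_lit 43) (nat_lit 5) (nat_lit 46) (nat_lit 5) (nat_lit 44) (nat_lit 4) (nat_lit 381) (nat_lit 274) (nat_lit 245)) (XT.lf (nat_lit 0) (nat_lit 4042642022) (nat_lit 76) (nat_lit 4181694359) (nat_lit 152) (nat_lit 7862257236) (nat_lit 42) (nat_lit 5) (nat_lit 43) (nat_lit 5) (nat_lit 44) (nat_lit 4) (nat_lit 382) (nat_lit 274) (nat_lit 244)))) (XT.nd (nat_lit 78) (nat_lit 228) (nat_lit 0) (XT.lf (nat_lit 0) (nat_lit 12918764793) (nat_lit 152) (nat_lit 3113401327) (nat_lit 0) (nat_lit 383846028) (nat_lit 42) (nat_lit 5) (nat_lit 44) (nat_lit 4)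 (nat_lit 42) (nat_lit 4) (nat_lit 383) (nat_lit 274) (nat_lit 243)) (XT.nd (nat_lit 78) (nat_lit 0) (nat_lit 0) (XT.lf (nat_lit 0) (nat_lit 1012235385) (nat_lit 228) (nat_lit 10723464377) (nat_lit 76) (nat_lit 5018347127) (nat_lit 39) (nat_lit 5) (nat_lit 42) (nat_lit 5) (nat_lit 40) (nat_lit 4) (nat_lit 384) (nat_lit 274) (nat_lit 242)) (XT.lf (nat_lit 0) (nat_lit 5551821114) (nat_lit 228) (nat_lit 1744399953) (nat_lit 76) (nat_lit 9806021169) (nat_lit 39) (nat_lit 5) (nat_lit 42) (nat_lit 5) (nat_lit 40) (nat_lit 4) (nat_lit 385) (nat_lit 274) (nat_lit 241))))) (XT.nd (nat_lit 234) (nat_lit 304) (nat_lit 0) (XT.nd (nat_lit 78) (nat_lit 228) (nat_lit 0) (XT.lf (nat_lit 0) (nat_lit 7533676131) (nat_lit 76) (nat_lit 2701636768) (nat_lit 152) (nat_lit 7225350294) (nat_lit 38) (nat_lit 5) (nat_lit 39) (nat_lit 5) (nat_lit 40) (nat_lit 4) (nat_lit 386) (nat_lit 274) (nat_lit 240)) (XT.nd (nat_lit 78) (nat_lit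 228) (nat_lit 0) (XT.lf (nat_lit 0) (nat_lit 15032184881) (nat_lit 152) (nat_lit 840795986) (nat_lit 0) (nat_lit 1957680624) (nat_lit 38) (nat_lit 5) (nat_lit 40) (nat_lit 4) (nat_lit 38) (nat_lit 4) (nat_lit 387) (nat_lit 274) (nat_lit 239)) (XT.lf (nat_lit 0) (nat_lit 1773602094) (nat_lit 228) (nat_lit 9684036703) (nat_lit 76) (nat_lit 6752220404) (nat_lit 35) (nat_lit 5) (nat_lit 38) (nat_lit 5) (nat_lit 36) (nat_lit 4) (nat_lit 388) (nat_lit 274) (nat_lit 238)))) (XT.nd (nat_lit 156) (nat_lit 228) (nat_lit 0) (XT.nd (nat_lit 78) (nat_lit 76) (nat_lit 0) (XT.lf (nat_lit 0) (nat_lit 6372725283) (nat_lit 228) (nat_lit 551646432) (nat_lit 76) (nat_lit 11676856078) (nat_lit 35) (nat_lit 5) (nat_lit 38) (nat_lit 5) (nat_lit 36) (nat_lit 4) (nat_lit 389) (nat_lit 274) (nat_lit 237)) (XT.lf (nat_lit 0) (nat_lit 8917711261) (nat_lit 76) (nat_lit 2217206487) (nat_lit 152) (nat_lit 7868676577) (nat_lit 34) (nat_lit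 5) (nat_lit 35) (nat_lit 5) (nat_lit 36) (nat_lit 4) (nat_lit 390) (nat_lit 274) (nat_lit 236))) (XT.nd (nat_lit 78) (nat_lit 228) (nat_lit 0) (XT.lf (nat_lit 0) (nat_lit 16010495550) (nat_lit 152) (nat_lit 872013186) (nat_lit 0) (nat_lit 2536416998) (nat_lit 34) (nat_lit 5) (nat_lit 36) (nat_lit 4) (nat_lit 34) (nat_lit 4) (nat_lit 391) (nat_lit 274) (nat_lit 235)) (XT.lf (nat_lit 0) (nat_lit 1209471288) (nat_lit 228) (nat_lit 11199951976) (nat_lit 76) (nat_lit 7435551332) (nat_lit 31) (nat_lit 5) (nat_lit 34) (nat_lit 5) (nat_lit 32) (nat_lit 4) (nat_lit 392) (nat_lit 274) (nat_lit 234)))))) (XT.nd (nat_lit 546) (nat_lit 304) (nat_lit 0) (XT.nd (nat_lit 234) (nat_lit 304) (nat_lit 0) (XT.nd (nat_lit 78) (nat_lit 76) (nat_lit 0) (XT.lf (nat_lit 0) (nat_lit 5847754312) (nat_lit 228) (nat_lit 1960062816) (nat_lit 76) (nat_lit 12476473536) (nat_lit 31) (nat_lit 5) (nat_lit 34) (nat_lit 5) (nat_lit 32) (nat_lit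 4) (nat_lit 393) (nat_lit 274) (nat_lit 233)) (XT.nd (nat_lit 78) (nat_lit 0) (nat_lit 0) (XT.lf (nat_lit 0) (nat_lit 7600349759) (nat_lit 76) (nat_lit 3041058161) (nat_lit 152) (nat_lit 10094900041) (nat_lit 30) (nat_lit 5) (nat_lit 31) (nat_lit 5) (nat_lit 32) (nat_lit 4) (nat_lit 394) (nat_lit 274) (nat_lit 232)) (XT.lf (nat_lit 0) (nat_lit 15560182857) (nat_lit 152) (nat_lit 3836885583) (nat_lit 0) (nat_lit 1805386154) (nat_lit 30) (nat_lit 5) (nat_lit 32) (nat_lit 4) (nat_lit 30) (nat_lit 4) (nat_lit 395) (nat_lit 274) (nat_lit 231)))) (XT.nd (nat_lit 156) (nat_lit 76) (nat_lit 0) (XT.nd (nat_lit 78) (nat_lit 76) (nat_lit 0) (XT.lf (nat_lit 0) (nat_lit 5720553501) (nat_lit 152) (nat_lit 14936076035) (nat_lit 152) (nat_lit 1025060761) (nat_lit 28) (nat_lit 4) (nat_lit 30) (nat_lit 5) (nat_lit 30) (nat_lit 4) (nat_lit 396) (nat_lit 274) (nat_lit 230)) (XT.lf (nat_lit 0) (nat_lit 3642089816) (nat_lit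 228) (nat_lit 6669241463) (nat_lit 76) (nat_lit 11863376763) (nat_lit 27) (nat_lit 5) (nat_lit 30) (nat_lit 5) (nat_lit 28) (nat_lit 4) (nat_lit 397) (nat_lit 274) (nat_lit 229))) (XT.nd (nat_lit 78) (nat_lit 0) (nat_lit 0) (XT.lf (nat_lit 0) (nat_lit 2847581753) (nat_lit 76) (nat_lit 5555135749) (nat_lit 152) (nat_lit 14280279639) (nat_lit 26) (nat_lit 5) (nat_lit 27) (nat_lit 5) (nat_lit 28) (nat_lit 4) (nat_lit 398) (nat_lit 274) (nat_lit 228)) (XT.lf (nat_lit 0) (nat_lit 12688349147) (nat_lit 76) (nat_lit 632461713) (nat_lit 152) (nat_lit 9885291692) (nat_lit 26) (nat_lit 5) (nat_lit 27) (nat_lit 5) (nat_lit 28) (nat_lit 4) (nat_lit 399) (nat_lit 274) (nat_lit 227))))) (XT.nd (nat_lit 234) (nat_lit 152) (nat_lit 0) (XT.nd (nat_lit 78) (nat_lit 152) (nat_lit 0) (XT.lf (nat_lit 0) (nat_lit 18377516944) (nat_lit 152) (nat_lit 1059748849) (nat_lit 0) (nat_lit 4307910073) (nat_lit 26) (nat_lit 5) (nat_lit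 28) (nat_lit 4) (nat_lit 26) (nat_lit 4) (nat_lit 400) (nat_lit 274) (nat_lit 226)) (XT.nd (nat_lit 78) (nat_lit 76) (nat_lit 0) (XT.lf (nat_lit 0) (nat_lit 8752816763) (nat_lit 76) (nat_lit 14873419678) (nat_lit 76) (nat_lit 672982212) (nat_lit 25) (nat_lit 4) (nat_lit 26) (nat_lit 5) (nat_lit 26) (nat_lit 4) (nat_lit 401) (nat_lit 274) (nat_lit 225)) (XT.lf (nat_lit 0) (nat_lit 4042099100) (nat_lit 152) (nat_lit 6121996285) (nat_lit 76) (nat_lit 14705769501) (nat_lit 24) (nat_lit 5) (nat_lit 26) (nat_lit 5) (nat_lit 25) (nat_lit 4) (nat_lit 402) (nat_lit 274) (nat_lit 224)))) (XT.nd (nat_lit 156) (nat_lit 76) (nat_lit 0) (XT.nd (nat_lit 78) (nat_lit 0) (nat_lit 0) (XT.lf (nat_lit 0) (nat_lit 3556817655) (nat_lit 76) (nat_lit 5313919043) (nat_lit 152) (nat_lit 16587131086) (nat_lit 23) (nat_lit 5) (nat_lit 24) (nat_lit 5) (nat_lit 25) (nat_lit 4) (nat_lit 403) (nat_lit 274) (nat_lit 223)) (XT.lf (nat_lit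 0) (nat_lit 13561316784) (nat_lit 76) (nat_lit 296724178) (nat_lit 152) (nat_lit 12205061479) (nat_lit 23) (nat_lit 5) (nat_lit 24) (nat_lit 5) (nat_lit 25) (nat_lit 4) (nat_lit 404) (nat_lit 274) (nat_lit 222))) (XT.nd (nat_lit 78) (nat_lit 76) (nat_lit 0) (XT.lf (nat_lit 0) (nat_lit 18994779584) (nat_lit 152) (nat_lit 2955924551) (nat_lit 0) (nat_lit 4735801274) (nat_lit 23) (nat_lit 5) (nat_lit 25) (nat_lit 4) (nat_lit 23) (nat_lit 4) (nat_lit 405) (nat_lit 274) (nat_lit 221)) (XT.lf (nat_lit 0) (nat_lit 6922477980) (nat_lit 76) (nat_lit 17386984823) (nat_lit 76) (nat_lit 3018437950) (nat_lit 22) (nat_lit 4) (nat_lit 23) (nat_lit 5) (nat_lit 23) (nat_lit 4) (nat_lit 406) (nat_lit 274) (nat_lit 220))))))))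
noncomputable def xc46 : XT := (XT.nd (nat_lit 2028) (nat_lit 228) (nat_lit 0) (XT.nd (nat_lit 1014) (nat_lit 380) (nat_lit 0) (XT.nd (nat_lit 468) (nat_lit 228) (nat_lit 0) (XT.nd (nat_lit 234) (nat_lit 76) (nat_lit 0) (XT.nd (nat_lit 78) (nat_lit 76) (nat_lit 0) (XT.lf (nat_lit 0) (nat_lit 1744585553) (nat_lit 152) (nat_lit 10933415444) (nat_lit 76) (nat_lit 15310487602) (nat_lit 21) (nat_lit 5) (nat_lit 23) (nat_lit 5) (nat_lit 22) (nat_lit 4) (nat_lit 407) (nat_lit 274) (nat_lit 219)) (XT.nd (nat_lit 78) (nat_lit 76) (nat_lit 0) (XT.lf (nat_lit 0) (nat_lit 6545579991) (nat_lit 152) (nat_lit 1290675615) (nat_lit 76) (nat_lit 20833074564) (nat_lit 21) (nat_lit 5) (nat_lit 23) (nat_lit 5) (nat_lit 22) (nat_lit 4) (nat_lit 408) (nat_lit 274) (nat_lit 218)) (XT.lf (nat_lit 0) (nat_lit 8730602992) (nat_lit 76) (nat_lit 2800961907) (nat_lit 152) (nat_lit 17837808209) (nat_lit 20) (nat_lit 5) (nat_lit 21) (nat_lit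 5) (nat_lit 22) (nat_lit 4) (nat_lit 409) (nat_lit 274) (nat_lit 217)))) (XT.nd (nat_lit 78) (nat_lit 76) (nat_lit 0) (XT.lf (nat_lit 0) (nat_lit 16660373954) (nat_lit 152) (nat_lit 11115337082) (nat_lit 0) (nat_lit 2314913757) (nat_lit 20) (nat_lit 5) (nat_lit 22) (nat_lit 4) (nat_lit 20) (nat_lit 4) (nat_lit 410) (nat_lit 274) (nat_lit 216)) (XT.nd (nat_lit 78) (nat_lit 76) (nat_lit 0) (XT.lf (nat_lit 0) (nat_lit 21929179994) (nat_lit 152) (nat_lit 1412796860) (nat_lit 0) (nat_lit 7491957850) (nat_lit 20) (nat_lit 5) (nat_lit 22) (nat_lit 4) (nat_lit 20) (nat_lit 4) (nat_lit 411) (nat_lit 274) (nat_lit 215)) (XT.lf (nat_lit 0) (nat_lit 8673504366) (nat_lit 76) (nat_lit 18725532934) (nat_lit 76) (nat_lit 4199221522) (nat_lit 19) (nat_lit 4) (nat_lit 20) (nat_lit 5) (nat_lit 20) (nat_lit 4) (nat_lit 412) (nat_lit 274) (nat_lit 214))))) (XT.nd (nat_lit 234) (nat_lit 76) (nat_lit 0) (XT.nd (nat_lit 78) (nat_lit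 76) (nat_lit 0) (XT.lf (nat_lit 0) (nat_lit 608910632) (nat_lit 152) (nat_lit 13376717262) (nat_lit 76) (nat_lit 18400480284) (nat_lit 18) (nat_lit 5) (nat_lit 20) (nat_lit 5) (nat_lit 19) (nat_lit 4) (nat_lit 413) (nat_lit 274) (nat_lit 213)) (XT.nd (nat_lit 78) (nat_lit 76) (nat_lit 0) (XT.lf (nat_lit 0) (nat_lit 5437721375) (nat_lit 152) (nat_lit 3658206636) (nat_lit 76) (nat_lit 24101596805) (nat_lit 18) (nat_lit 5) (nat_lit 20) (nat_lit 5) (nat_lit 19) (nat_lit 4) (nat_lit 414) (nat_lit 274) (nat_lit 212)) (XT.lf (nat_lit 0) (nat_lit 6404611857) (nat_lit 76) (nat_lit 4030325179) (nat_lit 152) (nat_lit 23597644713) (nat_lit 17) (nat_lit 5) (nat_lit 18) (nat_lit 5) (nat_lit 19) (nat_lit 4) (nat_lit 415) (nat_lit 274) (nat_lit 211)))) (XT.nd (nat_lit 156) (nat_lit 76) (nat_lit 0) (XT.nd (nat_lit 78) (nat_lit 0) (nat_lit 0) (XT.lf (nat_lit 0) (nat_lit 15592857782) (nat_lit 152) (nat_lit 18131378362) (nat_lit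 0) (nat_lit 1168134491) (nat_lit 17) (nat_lit 5) (nat_lit 19) (nat_lit 4) (nat_lit 17) (nat_lit 4) (nat_lit 416) (nat_lit 274) (nat_lit 210)) (XT.lf (nat_lit 0) (nat_lit 20908594744) (nat_lit 152) (nat_lit 8460009278) (nat_lit 0) (nat_lit 6409260593) (nat_lit 17) (nat_lit 5) (nat_lit 19) (nat_lit 4) (nat_lit 17) (nat_lit 4) (nat_lit 417) (nat_lit 274) (nat_lit 209))) (XT.nd (nat_lit 78) (nat_lit 0) (nat_lit 0) (XT.lf (nat_lit 0) (nat_lit 1461856096) (nat_lit 76) (nat_lit 24900246948) (nat_lit 76) (nat_lit 10328475069) (nat_lit 16) (nat_lit 4) (nat_lit 17) (nat_lit 5) (nat_lit 17) (nat_lit 4) (nat_lit 418) (nat_lit 274) (nat_lit 208)) (XT.lf (nat_lit 0) (nat_lit 11787296813) (nat_lit 76) (nat_lit 20241988737) (nat_lit 76) (nat_lit 5599888967) (nat_lit 16) (nat_lit 4) (nat_lit 17) (nat_lit 5) (nat_lit 17) (nat_lit 4) (nat_lit 419) (nat_lit 274) (nat_lit 207)))))) (XT.nd (nat_lit 468) (nat_lit 228) (nat_lit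 0) (XT.nd (nat_lit 234) (nat_lit 0) (nat_lit 0) (XT.nd (nat_lit 78) (nat_lit 152) (nat_lit 0) (XT.lf (nat_lit 0) (nat_lit 22356964327) (nat_lit 76) (nat_lit 15475188574) (nat_lit 76) (nat_lit 764809297) (nat_lit 16) (nat_lit 4) (nat_lit 17) (nat_lit 5) (nat_lit 17) (nat_lit 4) (nat_lit 420) (nat_lit 274) (nat_lit 206)) (XT.nd (nat_lit 78) (nat_lit 76) (nat_lit 0) (XT.lf (nat_lit 0) (nat_lit 4099402617) (nat_lit 152) (nat_lit 6454882745) (nat_lit 76) (nat_lit 29039295725) (nat_lit 15) (nat_lit 5) (nat_lit 17) (nat_lit 5) (nat_lit 16) (nat_lit 4) (nat_lit 421) (nat_lit 274) (nat_lit 205)) (XT.lf (nat_lit 0) (nat_lit 3624512761) (nat_lit 76) (nat_lit 5471813742) (nat_lit 152) (nat_lit 31523483315) (nat_lit 14) (nat_lit 5) (nat_lit 15) (nat_lit 5) (nat_lit 16) (nat_lit 4) (nat_lit 422) (nat_lit 274) (nat_lit 204)))) (XT.nd (nat_lit 78) (nat_lit 0) (nat_lit 0) (XT.lf (nat_lit 0) (nat_lit 14076792939) (nat_lit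 76) (nat_lit 199221051) (nat_lit 152) (nat_lit 27399828823) (nat_lit 14) (nat_lit 5) (nat_lit 15) (nat_lit 5) (nat_lit 16) (nat_lit 4) (nat_lit 423) (nat_lit 274) (nat_lit 203)) (XT.nd (nat_lit 78) (nat_lit 0) (nat_lit 0) (XT.lf (nat_lit 0) (nat_lit 19629721486) (nat_lit 152) (nat_lit 18031888923) (nat_lit 0) (nat_lit 5101390496) (nat_lit 14) (nat_lit 5) (nat_lit 16) (nat_lit 4) (nat_lit 14) (nat_lit 4) (nat_lit 424) (nat_lit 274) (nat_lit 202)) (XT.lf (nat_lit 0) (nat_lit 25115275343) (nat_lit 152) (nat_lit 8238602903) (nat_lit 0) (nat_lit 10529761342) (nat_lit 14) (nat_lit 5) (nat_lit 16) (nat_lit 4) (nat_lit 14) (nat_lit 4) (nat_lit 425) (nat_lit 274) (nat_lit 201))))) (XT.nd (nat_lit 234) (nat_lit 152) (nat_lit 0) (XT.nd (nat_lit 78) (nat_lit 0) (nat_lit 0) (XT.lf (nat_lit 0) (nat_lit 1826930452) (nat_lit 76) (nat_lit 28926184850) (nat_lit 76) (nat_lit 14285153362) (nat_lit 13) (nat_lit 4) (nat_lit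 14) (nat_lit 5) (nat_lit 14) (nat_lit 4) (nat_lit 426) (nat_lit 274) (nat_lit 200)) (XT.nd (nat_lit 78) (nat_lit 0) (nat_lit 0) (XT.lf (nat_lit 0) (nat_lit 12306672649) (nat_lit 76) (nat_lit 24307094184) (nat_lit 76) (nat_lit 9612162224) (nat_lit 13) (nat_lit 4) (nat_lit 14) (nat_lit 5) (nat_lit 14) (nat_lit 4) (nat_lit 427) (nat_lit 274) (nat_lit 199)) (XT.lf (nat_lit 0) (nat_lit 23045816393) (nat_lit 76) (nat_lit 19575763885) (nat_lit 76) (nat_lit 4828501369) (nat_lit 13) (nat_lit 4) (nat_lit 14) (nat_lit 5) (nat_lit 14) (nat_lit 4) (nat_lit 428) (nat_lit 274) (nat_lit 198)))) (XT.nd (nat_lit 156) (nat_lit 76) (nat_lit 0) (XT.nd (nat_lit 78) (nat_lit 0) (nat_lit 0) (XT.lf (nat_lit 0) (nat_lit 68642970) (nat_lit 152) (nat_lit 14658723651) (nat_lit 76) (nat_lit 33984409270) (nat_lit 12) (nat_lit 5) (nat_lit 14) (nat_lit 5) (nat_lit 13) (nat_lit 4) (nat_lit 429) (nat_lit 274) (nat_lit 197)) (XT.lf (nat_lit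 0) (nat_lit 4988371070) (nat_lit 152) (nat_lit 4721002176) (nat_lit 76) (nat_lit 40301334414) (nat_lit 12) (nat_lit 5) (nat_lit 14) (nat_lit 5) (nat_lit 13) (nat_lit 4) (nat_lit 430) (nat_lit 274) (nat_lit 196))) (XT.nd (nat_lit 78) (nat_lit 0) (nat_lit 0) (XT.lf (nat_lit 0) (nat_lit 5572741380) (nat_lit 76) (nat_lit 4510030393) (nat_lit 152) (nat_lit 41265025545) (nat_lit 11) (nat_lit 5) (nat_lit 12) (nat_lit 5) (nat_lit 13) (nat_lit 4) (nat_lit 431) (nat_lit 274) (nat_lit 195)) (XT.lf (nat_lit 0) (nat_lit 15359842259) (nat_lit 152) (nat_lit 36511005163) (nat_lit 0) (nat_lit 853259402) (nat_lit 11) (nat_lit 5) (nat_lit 13) (nat_lit 4) (nat_lit 11) (nat_lit 4) (nat_lit 432) (nat_lit 274) (nat_lit 194))))))) (XT.nd (nat_lit 1014) (nat_lit 0) (nat_lit 0) (XT.nd (nat_lit 468) (nat_lit 152) (nat_lit 0) (XT.nd (nat_lit 234) (nat_lit 76) (nat_lit 0) (XT.nd (nat_lit 78) (nat_lit 0) (nat_lit 0) (XT.lf (nat_lit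 0) (nat_lit 20814215921) (nat_lit 152) (nat_lit 27063115138) (nat_lit 0) (nat_lit 6263807048) (nat_lit 11) (nat_lit 5) (nat_lit 13) (nat_lit 4) (nat_lit 11) (nat_lit 4) (nat_lit 433) (nat_lit 274) (nat_lit 193)) (XT.nd (nat_lit 78) (nat_lit 0) (nat_lit 0) (XT.lf (nat_lit 0) (nat_lit 26407305548) (nat_lit 152) (nat_lit 17379777254) (nat_lit 0) (nat_lit 11814347144) (nat_lit 11) (nat_lit 5) (nat_lit 13) (nat_lit 4) (nat_lit 11) (nat_lit 4) (nat_lit 434) (nat_lit 274) (nat_lit 192)) (XT.lf (nat_lit 0) (nat_lit 32143998304) (nat_lit 152) (nat_lit 7452530343) (nat_lit 0) (nat_lit 17509729676) (nat_lit 11) (nat_lit 5) (nat_lit 13) (nat_lit 4) (nat_lit 11) (nat_lit 4) (nat_lit 435) (nat_lit 274) (nat_lit 191)))) (XT.nd (nat_lit 78) (nat_lit 0) (nat_lit 0) (XT.lf (nat_lit 0) (nat_lit 2781578504) (nat_lit 76) (nat_lit 35274466564) (nat_lit 76) (nat_lit 20600090923) (nat_lit 10) (nat_lit 4) (nat_lit 11) (nat_lit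 5) (nat_lit 11) (nat_lit 4) (nat_lit 436) (nat_lit 274) (nat_lit 190)) (XT.nd (nat_lit 78) (nat_lit 0) (nat_lit 0) (XT.lf (nat_lit 0) (nat_lit 13430689568) (nat_lit 76) (nat_lit 30766788077) (nat_lit 76) (nat_lit 16053473587) (nat_lit 10) (nat_lit 4) (nat_lit 11) (nat_lit 5) (nat_lit 11) (nat_lit 4) (nat_lit 437) (nat_lit 274) (nat_lit 189)) (XT.lf (nat_lit 0) (nat_lit 24355787929) (nat_lit 76) (nat_lit 26144810381) (nat_lit 76) (nat_lit 11393691184) (nat_lit 10) (nat_lit 4) (nat_lit 11) (nat_lit 5) (nat_lit 11) (nat_lit 4) (nat_lit 438) (nat_lit 274) (nat_lit 188))))) (XT.nd (nat_lit 234) (nat_lit 76) (nat_lit 0) (XT.nd (nat_lit 78) (nat_lit 76) (nat_lit 0) (XT.lf (nat_lit 0) (nat_lit 35566419792) (nat_lit 76) (nat_lit 21404494856) (nat_lit 76) (nat_lit 6616672060) (nat_lit 10) (nat_lit 4) (nat_lit 11) (nat_lit 5) (nat_lit 11) (nat_lit 4) (nat_lit 439) (nat_lit 274) (nat_lit 187)) (XT.nd (nat_lit 78) (nat_lit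 76) (nat_lit 0) (XT.lf (nat_lit 0) (nat_lit 47072380852) (nat_lit 76) (nat_lit 16541699478) (nat_lit 76) (nat_lit 1718242120) (nat_lit 10) (nat_lit 4) (nat_lit 11) (nat_lit 5) (nat_lit 11) (nat_lit 4) (nat_lit 440) (nat_lit 274) (nat_lit 186)) (XT.lf (nat_lit 0) (nat_lit 3241369214) (nat_lit 152) (nat_lit 8278074514) (nat_lit 76) (nat_lit 55609624175) (nat_lit 9) (nat_lit 5) (nat_lit 11) (nat_lit 5) (nat_lit 10) (nat_lit 4) (nat_lit 441) (nat_lit 274) (nat_lit 185)))) (XT.nd (nat_lit 156) (nat_lit 0) (nat_lit 0) (XT.nd (nat_lit 78) (nat_lit 0) (nat_lit 0) (XT.lf (nat_lit 0) (nat_lit 1985948038) (nat_lit 76) (nat_lit 6328136223) (nat_lit 152) (nat_lit 60665157235) (nat_lit 8) (nat_lit 5) (nat_lit 9) (nat_lit 5) (nat_lit 10) (nat_lit 4) (nat_lit 442) (nat_lit 274) (nat_lit 184)) (XT.lf (nat_lit 0) (nat_lit 12688925192) (nat_lit 76) (nat_lit 913625978) (nat_lit 152) (nat_lit 57280463621) (nat_lit 8) (nat_lit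 5) (nat_lit 9) (nat_lit 5) (nat_lit 10) (nat_lit 4) (nat_lit 443) (nat_lit 274) (nat_lit 183))) (XT.nd (nat_lit 78) (nat_lit 0) (nat_lit 0) (XT.lf (nat_lit 0) (nat_lit 19074886092) (nat_lit 152) (nat_lit 49213679612) (nat_lit 0) (nat_lit 4554580721) (nat_lit 8) (nat_lit 5) (nat_lit 10) (nat_lit 4) (nat_lit 8) (nat_lit 4) (nat_lit 444) (nat_lit 274) (nat_lit 182)) (XT.lf (nat_lit 0) (nat_lit 24701395430) (nat_lit 152) (nat_lit 40009741288) (nat_lit 0) (nat_lit 10151246674) (nat_lit 8) (nat_lit 5) (nat_lit 10) (nat_lit 4) (nat_lit 8) (nat_lit 4) (nat_lit 445) (nat_lit 274) (nat_lit 181)))))) (XT.nd (nat_lit 39624) (nat_lit 0) (nat_lit 5700) (XT.nd (nat_lit 234) (nat_lit 0) (nat_lit 0) (XT.nd (nat_lit 78) (nat_lit 0) (nat_lit 0) (XT.lf (nat_lit 0) (nat_lit 30478213219) (nat_lit 152) (nat_lit 30565450020) (nat_lit 0) (nat_lit 15899090303) (nat_lit 8) (nat_lit 5) (nat_lit 10) (nat_lit 4) (nat_lit 8) (nat_lit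 4) (nat_lit 446) (nat_lit 274) (nat_lit 180)) (XT.nd (nat_lit 78) (nat_lit 0) (nat_lit 0) (XT.lf (nat_lit 0) (nat_lit 36410387166) (nat_lit 152) (nat_lit 20872553513) (nat_lit 0) (nat_lit 21803133997) (nat_lit 8) (nat_lit 5) (nat_lit 10) (nat_lit 4) (nat_lit 8) (nat_lit 4) (nat_lit 447) (nat_lit 274) (nat_lit 179)) (XT.lf (nat_lit 0) (nat_lit 42503100722) (nat_lit 152) (nat_lit 10922582248) (nat_lit 0) (nat_lit 27868536629) (nat_lit 8) (nat_lit 5) (nat_lit 10) (nat_lit 4) (nat_lit 8) (nat_lit 4) (nat_lit 448) (nat_lit 274) (nat_lit 178)))) (XT.nd (nat_lit 39234) (nat_lit 0) (nat_lit 7448) (XT.nd (nat_lit 39156) (nat_lit 0) (nat_lit 7752) (XT.lf (nat_lit 0) (nat_lit 48761677619) (nat_lit 152) (nat_lit 706842074) (nat_lit 0) (nat_lit 34100598065) (nat_lit 8) (nat_lit 5) (nat_lit 10) (nat_lit 4) (nat_lit 8) (nat_lit 4) (nat_lit 449) (nat_lit 274) (nat_lit 177)) (XT.lf (nat_lit 0) (nat_lit 285782749) (nat_lit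 380) (nat_lit 4106394227) (nat_lit 0) (nat_lit 285782749) (nat_lit 110) (nat_lit 5) (nat_lit 115) (nat_lit 4) (nat_lit 110) (nat_lit 4) (nat_lit 350) (nat_lit 275) (nat_lit 275))) (XT.nd (nat_lit 78) (nat_lit 304) (nat_lit 0) (XT.lf (nat_lit 0) (nat_lit 4734196252) (nat_lit 380) (nat_lit 882365026) (nat_lit 0) (nat_lit 3866651883) (nat_lit 110) (nat_lit 5) (nat_lit 115) (nat_lit 4) (nat_lit 110) (nat_lit 4) (nat_lit 351) (nat_lit 275) (nat_lit 274)) (XT.lf (nat_lit 0) (nat_lit 6651361852) (nat_lit 304) (nat_lit 2336914953) (nat_lit 304) (nat_lit 627094497) (nat_lit 106) (nat_lit 4) (nat_lit 110) (nat_lit 5) (nat_lit 110) (nat_lit 4) (nat_lit 352) (nat_lit 275) (nat_lit 273))))) (XT.nd (nat_lit 234) (nat_lit 836) (nat_lit 0) (XT.nd (nat_lit 78) (nat_lit 608) (nat_lit 0) (XT.lf (nat_lit 0) (nat_lit 3514437090) (nat_lit 304) (nat_lit 5176565824) (nat_lit 0) (nat_lit 1060491236) (nat_lit 102) (nat_lit 5) (nat_lit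 106) (nat_lit 4) (nat_lit 102) (nat_lit 4) (nat_lit 353) (nat_lit 275) (nat_lit 272)) (XT.nd (nat_lit 78) (nat_lit 304) (nat_lit 0) (XT.lf (nat_lit 0) (nat_lit 2378850074) (nat_lit 304) (nat_lit 5369021709) (nat_lit 304) (nat_lit 2144273920) (nat_lit 98) (nat_lit 4) (nat_lit 102) (nat_lit 5) (nat_lit 102) (nat_lit 4) (nat_lit 354) (nat_lit 275) (nat_lit 271)) (XT.lf (nat_lit 0) (nat_lit 64009208) (nat_lit 228) (nat_lit 1924714136) (nat_lit 304) (nat_lit 8048997543) (nat_lit 94) (nat_lit 5) (nat_lit 97) (nat_lit 5) (nat_lit 98) (nat_lit 4) (nat_lit 355) (nat_lit 275) (nat_lit 270)))) (XT.nd (nat_lit 156) (nat_lit 456) (nat_lit 0) (XT.nd (nat_lit 78) (nat_lit 380) (nat_lit 0) (XT.lf (nat_lit 0) (nat_lit 6200140427) (nat_lit 304) (nat_lit 2349626340) (nat_lit 0) (nat_lit 1637369617) (nat_lit 94) (nat_lit 5) (nat_lit 98) (nat_lit 4) (nat_lit 94) (nat_lit 4) (nat_lit 356) (nat_lit 275) (nat_lit 269)) (XT.lf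 (nat_lit 0) (nat_lit 172252577) (nat_lit 380) (nat_lit 4897945614) (nat_lit 76) (nat_lit 5271436273) (nat_lit 89) (nat_lit 5) (nat_lit 94) (nat_lit 5) (nat_lit 90) (nat_lit 4) (nat_lit 357) (nat_lit 275) (nat_lit 268))) (XT.nd (nat_lit 78) (nat_lit 228) (nat_lit 0) (XT.lf (nat_lit 0) (nat_lit 2890210496) (nat_lit 228) (nat_lit 1446109386) (nat_lit 304) (nat_lit 6164490827) (nat_lit 86) (nat_lit 5) (nat_lit 89) (nat_lit 5) (nat_lit 90) (nat_lit 4) (nat_lit 358) (nat_lit 275) (nat_lit 267)) (XT.lf (nat_lit 0) (nat_lit 184067268) (nat_lit 228) (nat_lit 8424140951) (nat_lit 228) (nat_lit 2057098861) (nat_lit 83) (nat_lit 4) (nat_lit 86) (nat_lit 5) (nat_lit 86) (nat_lit 4) (nat_lit 359) (nat_lit 275) (nat_lit 266))))))))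
noncomputable def xc47 : XT := (XT.nd (nat_lit 2106) (nat_lit 1444) (nat_lit 0) (XT.nd (nat_lit 1014) (nat_lit 1368) (nat_lit 0) (XT.nd (nat_lit 468) (nat_lit 988) (nat_lit 0) (XT.nd (nat_lit 234) (nat_lit 532) (nat_lit 0) (XT.nd (nat_lit 78) (nat_lit 456) (nat_lit 0) (XT.lf (nat_lit 0) (nat_lit 2132568155) (nat_lit 304) (nat_lit 2646406900) (nat_lit 76) (nat_lit 6055122481) (nat_lit 82) (nat_lit 5) (nat_lit 86) (nat_lit 5) (nat_lit 83) (nat_lit 4) (nat_lit 360) (nat_lit 275) (nat_lit 265)) (XT.nd (nat_lit 78) (nat_lit 228) (nat_lit 0) (XT.lf (nat_lit 0) (nat_lit 5365486408) (nat_lit 228) (nat_lit 1004839781) (nat_lit 304) (nat_lit 4638131205) (nat_lit 79) (nat_lit 5) (nat_lit 82) (nat_lit 5) (nat_lit 83) (nat_lit 4) (nat_lit 361) (nat_lit 275) (nat_lit 264)) (XT.lf (nat_lit 0) (nat_lit 2359786632) (nat_lit 228) (nat_lit 8365662609) (nat_lit 228) (nat_lit 462920098) (nat_lit 76) (nat_lit 4) (nat_lit 79)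 (nat_lit 5) (nat_lit 79) (nat_lit 4) (nat_lit 362) (nat_lit 275) (nat_lit 263)))) (XT.nd (nat_lit 78) (nat_lit 456) (nat_lit 0) (XT.lf (nat_lit 0) (nat_lit 3743309730) (nat_lit 304) (nat_lit 844448728) (nat_lit 76) (nat_lit 6785420754) (nat_lit 75) (nat_lit 5) (nat_lit 79) (nat_lit 5) (nat_lit 76) (nat_lit 4) (nat_lit 363) (nat_lit 275) (nat_lit 262)) (XT.nd (nat_lit 78) (nat_lit 304) (nat_lit 0) (XT.lf (nat_lit 0) (nat_lit 7379421128) (nat_lit 152) (nat_lit 673616910) (nat_lit 228) (nat_lit 3510785228) (nat_lit 73) (nat_lit 5) (nat_lit 75) (nat_lit 5) (nat_lit 76) (nat_lit 4) (nat_lit 364) (nat_lit 275) (nat_lit 261)) (XT.lf (nat_lit 0) (nat_lit 713280015) (nat_lit 304) (nat_lit 7753825039) (nat_lit 76) (nat_lit 3293024213) (nat_lit 69) (nat_lit 5) (nat_lit 73) (nat_lit 5) (nat_lit 70) (nat_lit 4) (nat_lit 365) (nat_lit 275) (nat_lit 260))))) (XT.nd (nat_lit 234) (nat_lit 532) (nat_lit 0) (XT.nd (nat_lit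 78) (nat_lit 304) (nat_lit 0) (XT.lf (nat_lit 0) (nat_lit 393126247) (nat_lit 152) (nat_lit 4570050107) (nat_lit 228) (nat_lit 6999038779) (nat_lit 67) (nat_lit 5) (nat_lit 69) (nat_lit 5) (nat_lit 70) (nat_lit 4) (nat_lit 366) (nat_lit 275) (nat_lit 259)) (XT.nd (nat_lit 78) (nat_lit 304) (nat_lit 0) (XT.lf (nat_lit 0) (nat_lit 8804657798) (nat_lit 152) (nat_lit 531858162) (nat_lit 228) (nat_lit 2833992203) (nat_lit 67) (nat_lit 5) (nat_lit 69) (nat_lit 5) (nat_lit 70) (nat_lit 4) (nat_lit 367) (nat_lit 275) (nat_lit 258)) (XT.lf (nat_lit 0) (nat_lit 1430143483) (nat_lit 304) (nat_lit 7389269410) (nat_lit 76) (nat_lit 3565162379) (nat_lit 63) (nat_lit 5) (nat_lit 67) (nat_lit 5) (nat_lit 64) (nat_lit 4) (nat_lit 368) (nat_lit 275) (nat_lit 257)))) (XT.nd (nat_lit 156) (nat_lit 380) (nat_lit 0) (XT.nd (nat_lit 78) (nat_lit 0) (nat_lit 0) (XT.lf (nat_lit 0) (nat_lit 919627098) (nat_lit 152) (nat_lit 4813802518)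 (nat_lit 228) (nat_lit 6871768423) (nat_lit 61) (nat_lit 5) (nat_lit 63) (nat_lit 5) (nat_lit 64) (nat_lit 4) (nat_lit 369) (nat_lit 275) (nat_lit 256)) (XT.lf (nat_lit 0) (nat_lit 9493700450) (nat_lit 152) (nat_lit 667520976) (nat_lit 228) (nat_lit 2671376265) (nat_lit 61) (nat_lit 5) (nat_lit 63) (nat_lit 5) (nat_lit 64) (nat_lit 4) (nat_lit 370) (nat_lit 275) (nat_lit 255))) (XT.nd (nat_lit 78) (nat_lit 152) (nat_lit 0) (XT.lf (nat_lit 0) (nat_lit 1629893061) (nat_lit 228) (nat_lit 7891176110) (nat_lit 76) (nat_lit 3545077302) (nat_lit 58) (nat_lit 5) (nat_lit 61) (nat_lit 5) (nat_lit 59) (nat_lit 4) (nat_lit 371) (nat_lit 275) (nat_lit 254)) (XT.lf (nat_lit 0) (nat_lit 550698899) (nat_lit 152) (nat_lit 5424543170) (nat_lit 228) (nat_lit 7331622847) (nat_lit 56) (nat_lit 5) (nat_lit 58) (nat_lit 5) (nat_lit 59) (nat_lit 4) (nat_lit 372) (nat_lit 275) (nat_lit 253)))))) (XT.nd (nat_lit 546) (nat_lit 608)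 (nat_lit 0) (XT.nd (nat_lit 234) (nat_lit 532) (nat_lit 0) (XT.nd (nat_lit 78) (nat_lit 228) (nat_lit 0) (XT.lf (nat_lit 0) (nat_lit 9275239061) (nat_lit 152) (nat_lit 1179155451) (nat_lit 228) (nat_lit 3100325250) (nat_lit 56) (nat_lit 5) (nat_lit 58) (nat_lit 5) (nat_lit 59) (nat_lit 4) (nat_lit 373) (nat_lit 275) (nat_lit 252)) (XT.nd (nat_lit 78) (nat_lit 0) (nat_lit 0) (XT.lf (nat_lit 0) (nat_lit 1231547970) (nat_lit 228) (nat_lit 9446169846) (nat_lit 76) (nat_lit 3132001288) (nat_lit 53) (nat_lit 5) (nat_lit 56) (nat_lit 5) (nat_lit 54) (nat_lit 4) (nat_lit 374) (nat_lit 275) (nat_lit 251)) (XT.lf (nat_lit 0) (nat_lit 5612021720) (nat_lit 228) (nat_lit 890707740) (nat_lit 76) (nat_lit 7569305943) (nat_lit 53) (nat_lit 5) (nat_lit 56) (nat_lit 5) (nat_lit 54) (nat_lit 4) (nat_lit 375) (nat_lit 275) (nat_lit 250)))) (XT.nd (nat_lit 156) (nat_lit 152) (nat_lit 0) (XT.nd (nat_lit 78) (nat_lit 228) (nat_lit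 0) (XT.lf (nat_lit 0) (nat_lit 7949916668) (nat_lit 152) (nat_lit 2178219045) (nat_lit 228) (nat_lit 4213974814) (nat_lit 51) (nat_lit 5) (nat_lit 53) (nat_lit 5) (nat_lit 54) (nat_lit 4) (nat_lit 376) (nat_lit 275) (nat_lit 249)) (XT.lf (nat_lit 0) (nat_lit 137881847) (nat_lit 228) (nat_lit 12271322200) (nat_lit 76) (nat_lit 2211606628) (nat_lit 48) (nat_lit 5) (nat_lit 51) (nat_lit 5) (nat_lit 49) (nat_lit 4) (nat_lit 377) (nat_lit 275) (nat_lit 248))) (XT.nd (nat_lit 78) (nat_lit 152) (nat_lit 0) (XT.lf (nat_lit 0) (nat_lit 4550701126) (nat_lit 228) (nat_lit 3612630003) (nat_lit 76) (nat_lit 6742850663) (nat_lit 48) (nat_lit 5) (nat_lit 51) (nat_lit 5) (nat_lit 49) (nat_lit 4) (nat_lit 378) (nat_lit 275) (nat_lit 247)) (XT.lf (nat_lit 0) (nat_lit 5285445030) (nat_lit 152) (nat_lit 3791703186) (nat_lit 228) (nat_lit 6123542848) (nat_lit 46) (nat_lit 5) (nat_lit 48) (nat_lit 5) (nat_lit 49) (nat_lit 4)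 (nat_lit 379) (nat_lit 275) (nat_lit 246))))) (XT.nd (nat_lit 234) (nat_lit 304) (nat_lit 0) (XT.nd (nat_lit 78) (nat_lit 304) (nat_lit 0) (XT.lf (nat_lit 0) (nat_lit 13713837269) (nat_lit 228) (nat_lit 1109485180) (nat_lit 0) (nat_lit 681493611) (nat_lit 46) (nat_lit 5) (nat_lit 49) (nat_lit 4) (nat_lit 46) (nat_lit 4) (nat_lit 380) (nat_lit 275) (nat_lit 245)) (XT.nd (nat_lit 78) (nat_lit 76) (nat_lit 0) (XT.lf (nat_lit 0) (nat_lit 2666706919) (nat_lit 228) (nat_lit 7884880273) (nat_lit 76) (nat_lit 5264302002) (nat_lit 43) (nat_lit 5) (nat_lit 46) (nat_lit 5) (nat_lit 44) (nat_lit 4) (nat_lit 381) (nat_lit 275) (nat_lit 244)) (XT.lf (nat_lit 0) (nat_lit 1010960875) (nat_lit 76) (nat_lit 6165128627) (nat_lit 152) (nat_lit 8961066870) (nat_lit 42) (nat_lit 5) (nat_lit 43) (nat_lit 5) (nat_lit 44) (nat_lit 4) (nat_lit 382) (nat_lit 275) (nat_lit 243)))) (XT.nd (nat_lit 156) (nat_lit 152) (nat_lit 0) (XT.nd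 (nat_lit 78) (nat_lit 152) (nat_lit 0) (XT.lf (nat_lit 0) (nat_lit 10216064206) (nat_lit 76) (nat_lit 1618049078) (nat_lit 152) (nat_lit 4633559842) (nat_lit 42) (nat_lit 5) (nat_lit 43) (nat_lit 5) (nat_lit 44) (nat_lit 4) (nat_lit 383) (nat_lit 275) (nat_lit 242)) (XT.lf (nat_lit 0) (nat_lit 2797110354) (nat_lit 152) (nat_lit 13826295257) (nat_lit 152) (nat_lit 184965930) (nat_lit 40) (nat_lit 4) (nat_lit 42) (nat_lit 5) (nat_lit 42) (nat_lit 4) (nat_lit 384) (nat_lit 275) (nat_lit 241))) (XT.nd (nat_lit 78) (nat_lit 76) (nat_lit 0) (XT.lf (nat_lit 0) (nat_lit 4326357318) (nat_lit 228) (nat_lit 5088236209) (nat_lit 76) (nat_lit 7742988424) (nat_lit 39) (nat_lit 5) (nat_lit 42) (nat_lit 5) (nat_lit 40) (nat_lit 4) (nat_lit 385) (nat_lit 275) (nat_lit 240)) (XT.lf (nat_lit 0) (nat_lit 4066040362) (nat_lit 76) (nat_lit 4879532178) (nat_lit 152) (nat_lit 8572364072) (nat_lit 38) (nat_lit 5) (nat_lit 39) (nat_lit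 5) (nat_lit 40) (nat_lit 4) (nat_lit 386) (nat_lit 275) (nat_lit 239))))))) (XT.nd (nat_lit 1014) (nat_lit 532) (nat_lit 0) (XT.nd (nat_lit 468) (nat_lit 456) (nat_lit 0) (XT.nd (nat_lit 234) (nat_lit 228) (nat_lit 0) (XT.nd (nat_lit 78) (nat_lit 228) (nat_lit 0) (XT.lf (nat_lit 0) (nat_lit 13486415351) (nat_lit 76) (nat_lit 206259665) (nat_lit 152) (nat_lit 4196758226) (nat_lit 38) (nat_lit 5) (nat_lit 39) (nat_lit 5) (nat_lit 40) (nat_lit 4) (nat_lit 387) (nat_lit 275) (nat_lit 238)) (XT.nd (nat_lit 78) (nat_lit 0) (nat_lit 0) (XT.lf (nat_lit 0) (nat_lit 334592331) (nat_lit 228) (nat_lit 13417534490) (nat_lit 76) (nat_lit 4518952723) (nat_lit 35) (nat_lit 5) (nat_lit 38) (nat_lit 5) (nat_lit 36) (nat_lit 4) (nat_lit 388) (nat_lit 275) (nat_lit 237)) (XT.lf (nat_lit 0) (nat_lit 4903850045) (nat_lit 228) (nat_lit 4339834343) (nat_lit 76) (nat_lit 9419664515) (nat_lit 35) (nat_lit 5) (nat_lit 38) (nat_lit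 5) (nat_lit 36) (nat_lit 4) (nat_lit 389) (nat_lit 275) (nat_lit 236)))) (XT.nd (nat_lit 78) (nat_lit 152) (nat_lit 0) (XT.lf (nat_lit 0) (nat_lit 4999977037) (nat_lit 76) (nat_lit 4599410209) (nat_lit 152) (nat_lit 9468332511) (nat_lit 34) (nat_lit 5) (nat_lit 35) (nat_lit 5) (nat_lit 36) (nat_lit 4) (nat_lit 390) (nat_lit 275) (nat_lit 235)) (XT.nd (nat_lit 78) (nat_lit 152) (nat_lit 0) (XT.lf (nat_lit 0) (nat_lit 14423179439) (nat_lit 152) (nat_lit 4884184576) (nat_lit 0) (nat_lit 177245247) (nat_lit 34) (nat_lit 5) (nat_lit 36) (nat_lit 4) (nat_lit 34) (nat_lit 4) (nat_lit 391) (nat_lit 275) (nat_lit 234)) (XT.lf (nat_lit 0) (nat_lit 4512525184) (nat_lit 152) (nat_lit 14911144615) (nat_lit 152) (nat_lit 489385044) (nat_lit 32) (nat_lit 4) (nat_lit 34) (nat_lit 5) (nat_lit 34) (nat_lit 4) (nat_lit 392) (nat_lit 275) (nat_lit 233))))) (XT.nd (nat_lit 234) (nat_lit 304) (nat_lit 0) (XT.nd (nat_lit 78)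 (nat_lit 76) (nat_lit 0) (XT.lf (nat_lit 0) (nat_lit 4130449064) (nat_lit 228) (nat_lit 6207652220) (nat_lit 76) (nat_lit 10015254855) (nat_lit 31) (nat_lit 5) (nat_lit 34) (nat_lit 5) (nat_lit 32) (nat_lit 4) (nat_lit 393) (nat_lit 275) (nat_lit 232)) (XT.nd (nat_lit 78) (nat_lit 0) (nat_lit 0) (XT.lf (nat_lit 0) (nat_lit 3217016029) (nat_lit 76) (nat_lit 5637768273) (nat_lit 152) (nat_lit 11952672710) (nat_lit 30) (nat_lit 5) (nat_lit 31) (nat_lit 5) (nat_lit 32) (nat_lit 4) (nat_lit 394) (nat_lit 275) (nat_lit 231)) (XT.lf (nat_lit 0) (nat_lit 12950748695) (nat_lit 76) (nat_lit 778241417) (nat_lit 152) (nat_lit 7545954510) (nat_lit 30) (nat_lit 5) (nat_lit 31) (nat_lit 5) (nat_lit 32) (nat_lit 4) (nat_lit 395) (nat_lit 275) (nat_lit 230)))) (XT.nd (nat_lit 156) (nat_lit 76) (nat_lit 0) (XT.nd (nat_lit 78) (nat_lit 76) (nat_lit 0) (XT.lf (nat_lit 0) (nat_lit 1101752115) (nat_lit 152) (nat_lit 17645505105)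 (nat_lit 152) (nat_lit 3009272285) (nat_lit 28) (nat_lit 4) (nat_lit 30) (nat_lit 5) (nat_lit 30) (nat_lit 4) (nat_lit 396) (nat_lit 275) (nat_lit 229)) (XT.lf (nat_lit 0) (nat_lit 1670337603) (nat_lit 228) (nat_lit 11392698472) (nat_lit 76) (nat_lit 9187874746) (nat_lit 27) (nat_lit 5) (nat_lit 30) (nat_lit 5) (nat_lit 28) (nat_lit 4) (nat_lit 397) (nat_lit 275) (nat_lit 228))) (XT.nd (nat_lit 78) (nat_lit 76) (nat_lit 0) (XT.lf (nat_lit 0) (nat_lit 6378097637) (nat_lit 228) (nat_lit 1978907724) (nat_lit 76) (nat_lit 14403784058) (nat_lit 27) (nat_lit 5) (nat_lit 30) (nat_lit 5) (nat_lit 28) (nat_lit 4) (nat_lit 398) (nat_lit 275) (nat_lit 227)) (XT.lf (nat_lit 0) (nat_lit 7775474983) (nat_lit 76) (nat_lit 3476110775) (nat_lit 152) (nat_lit 12033650599) (nat_lit 26) (nat_lit 5) (nat_lit 27) (nat_lit 5) (nat_lit 28) (nat_lit 4) (nat_lit 399) (nat_lit 275) (nat_lit 226)))))) (XT.nd (nat_lit 546) (nat_lit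 228) (nat_lit 0) (XT.nd (nat_lit 234) (nat_lit 152) (nat_lit 0) (XT.nd (nat_lit 78) (nat_lit 152) (nat_lit 0) (XT.lf (nat_lit 0) (nat_lit 16256283453) (nat_lit 152) (nat_lit 6070587472) (nat_lit 0) (nat_lit 1499002269) (nat_lit 26) (nat_lit 5) (nat_lit 28) (nat_lit 4) (nat_lit 26) (nat_lit 4) (nat_lit 400) (nat_lit 275) (nat_lit 225)) (XT.nd (nat_lit 78) (nat_lit 76) (nat_lit 0) (XT.lf (nat_lit 0) (nat_lit 3596539680) (nat_lit 76) (nat_lit 17834943129) (nat_lit 76) (nat_lit 2950641951) (nat_lit 25) (nat_lit 4) (nat_lit 26) (nat_lit 5) (nat_lit 26) (nat_lit 4) (nat_lit 401) (nat_lit 275) (nat_lit 224)) (XT.lf (nat_lit 0) (nat_lit 1784963433) (nat_lit 152) (nat_lit 11384145791) (nat_lit 76) (nat_lit 11785039229) (nat_lit 24) (nat_lit 5) (nat_lit 26) (nat_lit 5) (nat_lit 25) (nat_lit 4) (nat_lit 402) (nat_lit 275) (nat_lit 223)))) (XT.nd (nat_lit 156) (nat_lit 76) (nat_lit 0) (XT.nd (nat_lit 78) (nat_lit 76)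 (nat_lit 0) (XT.lf (nat_lit 0) (nat_lit 6556186186) (nat_lit 152) (nat_lit 1818292129) (nat_lit 76) (nat_lit 17169398386) (nat_lit 24) (nat_lit 5) (nat_lit 26) (nat_lit 5) (nat_lit 25) (nat_lit 4) (nat_lit 403) (nat_lit 275) (nat_lit 222)) (XT.lf (nat_lit 0) (nat_lit 8106892464) (nat_lit 76) (nat_lit 3395808935) (nat_lit 152) (nat_lit 14647636452) (nat_lit 23) (nat_lit 5) (nat_lit 24) (nat_lit 5) (nat_lit 25) (nat_lit 4) (nat_lit 404) (nat_lit 275) (nat_lit 221))) (XT.nd (nat_lit 78) (nat_lit 76) (nat_lit 0) (XT.lf (nat_lit 0) (nat_lit 16587167694) (nat_lit 152) (nat_lit 8510148181) (nat_lit 0) (nat_lit 1677995852) (nat_lit 23) (nat_lit 5) (nat_lit 25) (nat_lit 4) (nat_lit 23) (nat_lit 4) (nat_lit 405) (nat_lit 275) (nat_lit 220)) (XT.lf (nat_lit 0) (nat_lit 1215775446) (nat_lit 76) (nat_lit 20609391939) (nat_lit 76) (nat_lit 5593842852) (nat_lit 22) (nat_lit 4) (nat_lit 23) (nat_lit 5) (nat_lit 23) (nat_lit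 4) (nat_lit 406) (nat_lit 275) (nat_lit 219))))) (XT.nd (nat_lit 234) (nat_lit 76) (nat_lit 0) (XT.nd (nat_lit 78) (nat_lit 152) (nat_lit 0) (XT.lf (nat_lit 0) (nat_lit 11325270076) (nat_lit 76) (nat_lit 15937159578) (nat_lit 76) (nat_lit 818331612) (nat_lit 22) (nat_lit 4) (nat_lit 23) (nat_lit 5) (nat_lit 23) (nat_lit 4) (nat_lit 407) (nat_lit 275) (nat_lit 218)) (XT.nd (nat_lit 78) (nat_lit 76) (nat_lit 0) (XT.lf (nat_lit 0) (nat_lit 3977467255) (nat_lit 152) (nat_lit 7144840193) (nat_lit 76) (nat_lit 17640168735) (nat_lit 21) (nat_lit 5) (nat_lit 23) (nat_lit 5) (nat_lit 22) (nat_lit 4) (nat_lit 408) (nat_lit 275) (nat_lit 217)) (XT.lf (nat_lit 0) (nat_lit 2720365640) (nat_lit 76) (nat_lit 6164764710) (nat_lit 152) (nat_lit 20579740789) (nat_lit 20) (nat_lit 5) (nat_lit 21) (nat_lit 5) (nat_lit 22) (nat_lit 4) (nat_lit 409) (nat_lit 275) (nat_lit 216)))) (XT.nd (nat_lit 156) (nat_lit 76) (nat_lit 0)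 (XT.nd (nat_lit 78) (nat_lit 0) (nat_lit 0) (XT.lf (nat_lit 0) (nat_lit 12950015363) (nat_lit 76) (nat_lit 1020910321) (nat_lit 152) (nat_lit 16216489846) (nat_lit 20) (nat_lit 5) (nat_lit 21) (nat_lit 5) (nat_lit 22) (nat_lit 4) (nat_lit 410) (nat_lit 275) (nat_lit 215)) (XT.lf (nat_lit 0) (nat_lit 19210022571) (nat_lit 152) (nat_lit 7562763825) (nat_lit 0) (nat_lit 4158832547) (nat_lit 20) (nat_lit 5) (nat_lit 22) (nat_lit 4) (nat_lit 20) (nat_lit 4) (nat_lit 411) (nat_lit 275) (nat_lit 214))) (XT.nd (nat_lit 78) (nat_lit 0) (nat_lit 0) (XT.lf (nat_lit 0) (nat_lit 2363793285) (nat_lit 76) (nat_lit 22236117731) (nat_lit 76) (nat_lit 7098433273) (nat_lit 19) (nat_lit 4) (nat_lit 20) (nat_lit 5) (nat_lit 20) (nat_lit 4) (nat_lit 412) (nat_lit 275) (nat_lit 213)) (XT.lf (nat_lit 0) (nat_lit 12669568723) (nat_lit 76) (nat_lit 17519519406) (nat_lit 76) (nat_lit 2297859767) (nat_lit 19) (nat_lit 4) (nat_lit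 20) (nat_lit 5) (nat_lit 20) (nat_lit 4) (nat_lit 413) (nat_lit 275) (nat_lit 212))))))))
noncomputable def xc48 : XT := (XT.nd (nat_lit 2028) (nat_lit 152) (nat_lit 0) (XT.nd (nat_lit 1014) (nat_lit 304) (nat_lit 0) (XT.nd (nat_lit 468) (nat_lit 152) (nat_lit 0) (XT.nd (nat_lit 234) (nat_lit 76) (nat_lit 0) (XT.nd (nat_lit 78) (nat_lit 76) (nat_lit 0) (XT.lf (nat_lit 0) (nat_lit 2557059239) (nat_lit 152) (nat_lit 10112358684) (nat_lit 76) (nat_lit 20630173180) (nat_lit 18) (nat_lit 5) (nat_lit 20) (nat_lit 5) (nat_lit 19) (nat_lit 4) (nat_lit 414) (nat_lit 275) (nat_lit 211)) (XT.nd (nat_lit 78) (nat_lit 76) (nat_lit 0) (XT.lf (nat_lit 0) (nat_lit 7474524169) (nat_lit 152) (nat_lit 209059537) (nat_lit 76) (nat_lit 26453458775) (nat_lit 18) (nat_lit 5) (nat_lit 20) (nat_lit 5) (nat_lit 19) (nat_lit 4) (nat_lit 415) (nat_lit 275) (nat_lit 210)) (XT.lf (nat_lit 0) (nat_lit 10120752400) (nat_lit 76) (nat_lit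 2480205819) (nat_lit 152) (nat_lit 22396819612) (nat_lit 17) (nat_lit 5) (nat_lit 18) (nat_lit 5) (nat_lit 19) (nat_lit 4) (nat_lit 416) (nat_lit 275) (nat_lit 209)))) (XT.nd (nat_lit 78) (nat_lit 76) (nat_lit 0) (XT.lf (nat_lit 0) (nat_lit 17875241598) (nat_lit 152) (nat_lit 15215396796) (nat_lit 0) (nat_lit 2793878835) (nat_lit 17) (nat_lit 5) (nat_lit 19) (nat_lit 4) (nat_lit 17) (nat_lit 4) (nat_lit 417) (nat_lit 275) (nat_lit 208)) (XT.nd (nat_lit 78) (nat_lit 76) (nat_lit 0) (XT.lf (nat_lit 0) (nat_lit 23297598298) (nat_lit 152) (nat_lit 5354661094) (nat_lit 0) (nat_lit 8145907643) (nat_lit 17) (nat_lit 5) (nat_lit 19) (nat_lit 4) (nat_lit 17) (nat_lit 4) (nat_lit 418) (nat_lit 275) (nat_lit 207)) (XT.lf (nat_lit 0) (nat_lit 4831927414) (nat_lit 76) (nat_lit 24063445071) (nat_lit 76) (nat_lit 8843474911) (nat_lit 16) (nat_lit 4) (nat_lit 17) (nat_lit 5) (nat_lit 17) (nat_lit 4) (nat_lit 419) (nat_lit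 275) (nat_lit 206))))) (XT.nd (nat_lit 234) (nat_lit 76) (nat_lit 0) (XT.nd (nat_lit 78) (nat_lit 76) (nat_lit 0) (XT.lf (nat_lit 0) (nat_lit 15370251285) (nat_lit 76) (nat_lit 19311569482) (nat_lit 76) (nat_lit 4025308539) (nat_lit 16) (nat_lit 4) (nat_lit 17) (nat_lit 5) (nat_lit 17) (nat_lit 4) (nat_lit 420) (nat_lit 275) (nat_lit 205)) (XT.nd (nat_lit 78) (nat_lit 0) (nat_lit 0) (XT.lf (nat_lit 0) (nat_lit 886427208) (nat_lit 152) (nat_lit 13551173692) (nat_lit 76) (nat_lit 25267572121) (nat_lit 15) (nat_lit 5) (nat_lit 17) (nat_lit 5) (nat_lit 16) (nat_lit 4) (nat_lit 421) (nat_lit 275) (nat_lit 204)) (XT.lf (nat_lit 0) (nat_lit 5832878749) (nat_lit 152) (nat_lit 3572362484) (nat_lit 76) (nat_lit 31327676206) (nat_lit 15) (nat_lit 5) (nat_lit 17) (nat_lit 5) (nat_lit 16) (nat_lit 4) (nat_lit 422) (nat_lit 275) (nat_lit 203)))) (XT.nd (nat_lit 156) (nat_lit 0) (nat_lit 0) (XT.nd (nat_lit 78) (nat_lit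 0) (nat_lit 0) (XT.lf (nat_lit 0) (nat_lit 6779256390) (nat_lit 76) (nat_lit 4182826463) (nat_lit 152) (nat_lit 30828383555) (nat_lit 14) (nat_lit 5) (nat_lit 15) (nat_lit 5) (nat_lit 16) (nat_lit 4) (nat_lit 423) (nat_lit 275) (nat_lit 202)) (XT.lf (nat_lit 0) (nat_lit 16262355946) (nat_lit 152) (nat_lit 25434779503) (nat_lit 0) (nat_lit 1182093513) (nat_lit 14) (nat_lit 5) (nat_lit 16) (nat_lit 4) (nat_lit 14) (nat_lit 4) (nat_lit 424) (nat_lit 275) (nat_lit 201))) (XT.nd (nat_lit 78) (nat_lit 0) (nat_lit 0) (XT.lf (nat_lit 0) (nat_lit 21733209268) (nat_lit 152) (nat_lit 15669671433) (nat_lit 0) (nat_lit 6597429348) (nat_lit 14) (nat_lit 5) (nat_lit 16) (nat_lit 4) (nat_lit 14) (nat_lit 4) (nat_lit 425) (nat_lit 275) (nat_lit 200)) (XT.lf (nat_lit 0) (nat_lit 27339215290) (nat_lit 152) (nat_lit 5667145303) (nat_lit 0) (nat_lit 12149534898) (nat_lit 14) (nat_lit 5) (nat_lit 16) (nat_lit 4) (nat_lit 14)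 (nat_lit 4) (nat_lit 426) (nat_lit 275) (nat_lit 199)))))) (XT.nd (nat_lit 468) (nat_lit 76) (nat_lit 0) (XT.nd (nat_lit 234) (nat_lit 152) (nat_lit 0) (XT.nd (nat_lit 78) (nat_lit 0) (nat_lit 0) (XT.lf (nat_lit 0) (nat_lit 4672720565) (nat_lit 76) (nat_lit 28457468947) (nat_lit 76) (nat_lit 13215457999) (nat_lit 13) (nat_lit 4) (nat_lit 14) (nat_lit 5) (nat_lit 14) (nat_lit 4) (nat_lit 427) (nat_lit 275) (nat_lit 198)) (XT.nd (nat_lit 78) (nat_lit 0) (nat_lit 0) (XT.lf (nat_lit 0) (nat_lit 15385564285) (nat_lit 76) (nat_lit 23738732788) (nat_lit 76) (nat_lit 8445915475) (nat_lit 13) (nat_lit 4) (nat_lit 14) (nat_lit 5) (nat_lit 14) (nat_lit 4) (nat_lit 428) (nat_lit 275) (nat_lit 197)) (XT.lf (nat_lit 0) (nat_lit 26367959289) (nat_lit 76) (nat_lit 18903256003) (nat_lit 76) (nat_lit 3561112123) (nat_lit 13) (nat_lit 4) (nat_lit 14) (nat_lit 5) (nat_lit 14) (nat_lit 4) (nat_lit 429) (nat_lit 275) (nat_lit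 196)))) (XT.nd (nat_lit 78) (nat_lit 76) (nat_lit 0) (XT.lf (nat_lit 0) (nat_lit 1415057904) (nat_lit 152) (nat_lit 12517466206) (nat_lit 76) (nat_lit 36200154629) (nat_lit 12) (nat_lit 5) (nat_lit 14) (nat_lit 5) (nat_lit 13) (nat_lit 4) (nat_lit 430) (nat_lit 275) (nat_lit 195)) (XT.nd (nat_lit 78) (nat_lit 76) (nat_lit 0) (XT.lf (nat_lit 0) (nat_lit 6443221857) (nat_lit 152) (nat_lit 2356788402) (nat_lit 76) (nat_lit 42671746369) (nat_lit 12) (nat_lit 5) (nat_lit 14) (nat_lit 5) (nat_lit 13) (nat_lit 4) (nat_lit 431) (nat_lit 275) (nat_lit 194)) (XT.lf (nat_lit 0) (nat_lit 8221200364) (nat_lit 76) (nat_lit 3455090244) (nat_lit 152) (nat_lit 41173096675) (nat_lit 11) (nat_lit 5) (nat_lit 12) (nat_lit 5) (nat_lit 13) (nat_lit 4) (nat_lit 432) (nat_lit 275) (nat_lit 193))))) (XT.nd (nat_lit 234) (nat_lit 76) (nat_lit 0) (XT.nd (nat_lit 78) (nat_lit 0) (nat_lit 0) (XT.lf (nat_lit 0) (nat_lit 17085178309)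 (nat_lit 152) (nat_lit 35170724276) (nat_lit 0) (nat_lit 2011881623) (nat_lit 11) (nat_lit 5) (nat_lit 13) (nat_lit 4) (nat_lit 11) (nat_lit 4) (nat_lit 433) (nat_lit 275) (nat_lit 192)) (XT.nd (nat_lit 78) (nat_lit 0) (nat_lit 0) (XT.lf (nat_lit 0) (nat_lit 22666351897) (nat_lit 152) (nat_lit 25510337678) (nat_lit 0) (nat_lit 7551744986) (nat_lit 11) (nat_lit 5) (nat_lit 13) (nat_lit 4) (nat_lit 11) (nat_lit 4) (nat_lit 434) (nat_lit 275) (nat_lit 191)) (XT.lf (nat_lit 0) (nat_lit 28391475683) (nat_lit 152) (nat_lit 15605373568) (nat_lit 0) (nat_lit 13236761759) (nat_lit 11) (nat_lit 5) (nat_lit 13) (nat_lit 4) (nat_lit 11) (nat_lit 4) (nat_lit 435) (nat_lit 275) (nat_lit 190)))) (XT.nd (nat_lit 156) (nat_lit 0) (nat_lit 0) (XT.nd (nat_lit 78) (nat_lit 76) (nat_lit 0) (XT.lf (nat_lit 0) (nat_lit 34265552204) (nat_lit 152) (nat_lit 5447177123) (nat_lit 0) (nat_lit 19071899431) (nat_lit 11) (nat_lit 5) (nat_lit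 13) (nat_lit 4) (nat_lit 11) (nat_lit 4) (nat_lit 436) (nat_lit 275) (nat_lit 189)) (XT.lf (nat_lit 0) (nat_lit 5072102743) (nat_lit 76) (nat_lit 35270367558) (nat_lit 76) (nat_lit 20038910078) (nat_lit 10) (nat_lit 4) (nat_lit 11) (nat_lit 5) (nat_lit 11) (nat_lit 4) (nat_lit 437) (nat_lit 275) (nat_lit 188))) (XT.nd (nat_lit 78) (nat_lit 0) (nat_lit 0) (XT.lf (nat_lit 0) (nat_lit 15976403346) (nat_lit 76) (nat_lit 30658400454) (nat_lit 76) (nat_lit 15390239375) (nat_lit 10) (nat_lit 4) (nat_lit 11) (nat_lit 5) (nat_lit 11) (nat_lit 4) (nat_lit 438) (nat_lit 275) (nat_lit 187)) (XT.lf (nat_lit 0) (nat_lit 27166843209) (nat_lit 76) (nat_lit 25927803950) (nat_lit 76) (nat_lit 10624008309) (nat_lit 10) (nat_lit 4) (nat_lit 11) (nat_lit 5) (nat_lit 11) (nat_lit 4) (nat_lit 439) (nat_lit 275) (nat_lit 186))))))) (XT.nd (nat_lit 39936) (nat_lit 0) (nat_lit 4940) (XT.nd (nat_lit 468) (nat_lit 0) (nat_lit 0) (XT.nd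 (nat_lit 234) (nat_lit 76) (nat_lit 0) (XT.nd (nat_lit 78) (nat_lit 76) (nat_lit 0) (XT.lf (nat_lit 0) (nat_lit 38653200387) (nat_lit 76) (nat_lit 21074444514) (nat_lit 76) (nat_lit 5736052211) (nat_lit 10) (nat_lit 4) (nat_lit 11) (nat_lit 5) (nat_lit 11) (nat_lit 4) (nat_lit 440) (nat_lit 275) (nat_lit 185)) (XT.nd (nat_lit 78) (nat_lit 76) (nat_lit 0) (XT.lf (nat_lit 0) (nat_lit 50445511503) (nat_lit 76) (nat_lit 16094081348) (nat_lit 76) (nat_lit 722100052) (nat_lit 10) (nat_lit 4) (nat_lit 11) (nat_lit 5) (nat_lit 11) (nat_lit 4) (nat_lit 441) (nat_lit 275) (nat_lit 184)) (XT.lf (nat_lit 0) (nat_lit 4335935668) (nat_lit 152) (nat_lit 6602642561) (nat_lit 76) (nat_lit 58174360400) (nat_lit 9) (nat_lit 5) (nat_lit 11) (nat_lit 5) (nat_lit 10) (nat_lit 4) (nat_lit 442) (nat_lit 275) (nat_lit 183)))) (XT.nd (nat_lit 78) (nat_lit 0) (nat_lit 0) (XT.lf (nat_lit 0) (nat_lit 3950440137) (nat_lit 76) (nat_lit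 5599654913) (nat_lit 152) (nat_lit 61468846869) (nat_lit 8) (nat_lit 5) (nat_lit 9) (nat_lit 5) (nat_lit 10) (nat_lit 4) (nat_lit 443) (nat_lit 275) (nat_lit 182)) (XT.nd (nat_lit 78) (nat_lit 0) (nat_lit 0) (XT.lf (nat_lit 0) (nat_lit 14919023683) (nat_lit 76) (nat_lit 49456703) (nat_lit 152) (nat_lit 58012212400) (nat_lit 8) (nat_lit 5) (nat_lit 9) (nat_lit 5) (nat_lit 10) (nat_lit 4) (nat_lit 444) (nat_lit 275) (nat_lit 181)) (XT.lf (nat_lit 0) (nat_lit 20585407504) (nat_lit 152) (nat_lit 48874873699) (nat_lit 0) (nat_lit 5539936740) (nat_lit 8) (nat_lit 5) (nat_lit 10) (nat_lit 4) (nat_lit 8) (nat_lit 4) (nat_lit 445) (nat_lit 275) (nat_lit 180))))) (XT.nd (nat_lit 234) (nat_lit 0) (nat_lit 0) (XT.nd (nat_lit 78) (nat_lit 0) (nat_lit 0) (XT.lf (nat_lit 0) (nat_lit 26353383729) (nat_lit 152) (nat_lit 39447687603) (nat_lit 0) (nat_lit 11279782713) (nat_lit 8) (nat_lit 5) (nat_lit 10) (nat_lit 4) (nat_lit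 8) (nat_lit 4) (nat_lit 446) (nat_lit 275) (nat_lit 179)) (XT.nd (nat_lit 78) (nat_lit 0) (nat_lit 0) (XT.lf (nat_lit 0) (nat_lit 32276973632) (nat_lit 152) (nat_lit 29771398060) (nat_lit 0) (nat_lit 17176061691) (nat_lit 8) (nat_lit 5) (nat_lit 10) (nat_lit 4) (nat_lit 8) (nat_lit 4) (nat_lit 447) (nat_lit 275) (nat_lit 178)) (XT.lf (nat_lit 0) (nat_lit 38361353165) (nat_lit 152) (nat_lit 19837550060) (nat_lit 0) (nat_lit 23233925763) (nat_lit 8) (nat_lit 5) (nat_lit 10) (nat_lit 4) (nat_lit 8) (nat_lit 4) (nat_lit 448) (nat_lit 275) (nat_lit 177)))) (XT.nd (nat_lit 39078) (nat_lit 0) (nat_lit 7752) (XT.nd (nat_lit 39000) (nat_lit 0) (nat_lit 8436) (XT.lf (nat_lit 0) (nat_lit 44611838777) (nat_lit 152) (nat_lit 9637463542) (nat_lit 0) (nat_lit 29458668210) (nat_lit 8) (nat_lit 5) (nat_lit 10) (nat_lit 4) (nat_lit 8) (nat_lit 4) (nat_lit 449) (nat_lit 275) (nat_lit 176)) (XT.lf (nat_lit 0) (nat_lit 1238739295)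 (nat_lit 380) (nat_lit 2077848440) (nat_lit 0) (nat_lit 1238739295) (nat_lit 119) (nat_lit 5) (nat_lit 124) (nat_lit 4) (nat_lit 119) (nat_lit 4) (nat_lit 348) (nat_lit 276) (nat_lit 276))) (XT.nd (nat_lit 78) (nat_lit 380) (nat_lit 0) (XT.lf (nat_lit 0) (nat_lit 3052055217) (nat_lit 304) (nat_lit 3550001026) (nat_lit 304) (nat_lit 2629623205) (nat_lit 115) (nat_lit 4) (nat_lit 119) (nat_lit 5) (nat_lit 119) (nat_lit 4) (nat_lit 349) (nat_lit 276) (nat_lit 275)) (XT.lf (nat_lit 0) (nat_lit 1066864663) (nat_lit 304) (nat_lit 352255132) (nat_lit 380) (nat_lit 7938201836) (nat_lit 110) (nat_lit 5) (nat_lit 114) (nat_lit 5) (nat_lit 115) (nat_lit 4) (nat_lit 350) (nat_lit 276) (nat_lit 274)))))) (XT.nd (nat_lit 546) (nat_lit 1216) (nat_lit 0) (XT.nd (nat_lit 234) (nat_lit 988) (nat_lit 0) (XT.nd (nat_lit 78) (nat_lit 608) (nat_lit 0) (XT.lf (nat_lit 0) (nat_lit 5530400870) (nat_lit 380) (nat_lit 1028766305)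 (nat_lit 0) (nat_lit 2927009714) (nat_lit 110) (nat_lit 5) (nat_lit 115) (nat_lit 4) (nat_lit 110) (nat_lit 4) (nat_lit 351) (nat_lit 276) (nat_lit 273)) (XT.nd (nat_lit 78) (nat_lit 228) (nat_lit 0) (XT.lf (nat_lit 0) (nat_lit 113713820) (nat_lit 380) (nat_lit 3190295874) (nat_lit 76) (nat_lit 6315772984) (nat_lit 105) (nat_lit 5) (nat_lit 110) (nat_lit 5) (nat_lit 106) (nat_lit 4) (nat_lit 352) (nat_lit 276) (nat_lit 272)) (XT.lf (nat_lit 0) (nat_lit 4184195599) (nat_lit 304) (nat_lit 5481409304) (nat_lit 0) (nat_lit 91903441) (nat_lit 102) (nat_lit 5) (nat_lit 106) (nat_lit 4) (nat_lit 102) (nat_lit 4) (nat_lit 353) (nat_lit 276) (nat_lit 271)))) (XT.nd (nat_lit 156) (nat_lit 608) (nat_lit 0) (XT.nd (nat_lit 78) (nat_lit 76) (nat_lit 0) (XT.lf (nat_lit 0) (nat_lit 1995788145) (nat_lit 304) (nat_lit 6372260727) (nat_lit 304) (nat_lit 1531617175) (nat_lit 98) (nat_lit 4) (nat_lit 102) (nat_lit 5) (nat_lit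 102) (nat_lit 4) (nat_lit 354) (nat_lit 276) (nat_lit 270)) (XT.lf (nat_lit 0) (nat_lit 2543108280) (nat_lit 380) (nat_lit 404688494) (nat_lit 76) (nat_lit 7098674918) (nat_lit 97) (nat_lit 5) (nat_lit 102) (nat_lit 5) (nat_lit 98) (nat_lit 4) (nat_lit 355) (nat_lit 276) (nat_lit 269))) (XT.nd (nat_lit 78) (nat_lit 380) (nat_lit 0) (XT.lf (nat_lit 0) (nat_lit 6695395616) (nat_lit 304) (nat_lit 2896781401) (nat_lit 0) (nat_lit 605501184) (nat_lit 94) (nat_lit 5) (nat_lit 98) (nat_lit 4) (nat_lit 94) (nat_lit 4) (nat_lit 356) (nat_lit 276) (nat_lit 268)) (XT.lf (nat_lit 0) (nat_lit 596982669) (nat_lit 380) (nat_lit 5542920134) (nat_lit 76) (nat_lit 4213665578) (nat_lit 89) (nat_lit 5) (nat_lit 94) (nat_lit 5) (nat_lit 90) (nat_lit 4) (nat_lit 357) (nat_lit 276) (nat_lit 267))))) (XT.nd (nat_lit 234) (nat_lit 684) (nat_lit 0) (XT.nd (nat_lit 78) (nat_lit 304) (nat_lit 0) (XT.lf (nat_lit 0) (nat_lit 2161480879)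 (nat_lit 228) (nat_lit 2548770508) (nat_lit 304) (nat_lit 5804032866) (nat_lit 86) (nat_lit 5) (nat_lit 89) (nat_lit 5) (nat_lit 90) (nat_lit 4) (nat_lit 358) (nat_lit 276) (nat_lit 266)) (XT.nd (nat_lit 78) (nat_lit 304) (nat_lit 0) (XT.lf (nat_lit 0) (nat_lit 8926344207) (nat_lit 304) (nat_lit 621045317) (nat_lit 0) (nat_lit 1133080178) (nat_lit 86) (nat_lit 5) (nat_lit 90) (nat_lit 4) (nat_lit 86) (nat_lit 4) (nat_lit 359) (nat_lit 276) (nat_lit 265)) (XT.lf (nat_lit 0) (nat_lit 2380214603) (nat_lit 304) (nat_lit 3552183884) (nat_lit 76) (nat_lit 4918271082) (nat_lit 82) (nat_lit 5) (nat_lit 86) (nat_lit 5) (nat_lit 83) (nat_lit 4) (nat_lit 360) (nat_lit 276) (nat_lit 264)))) (XT.nd (nat_lit 156) (nat_lit 228) (nat_lit 0) (XT.nd (nat_lit 78) (nat_lit 228) (nat_lit 0) (XT.lf (nat_lit 0) (nat_lit 4372262994) (nat_lit 228) (nat_lit 2194156490) (nat_lit 304) (nat_lit 4460170459) (nat_lit 79) (nat_lit 5)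 (nat_lit 82) (nat_lit 5) (nat_lit 83) (nat_lit 4) (nat_lit 361) (nat_lit 276) (nat_lit 263)) (XT.lf (nat_lit 0) (nat_lit 1270196724) (nat_lit 228) (nat_lit 9587759866) (nat_lit 228) (nat_lit 350466392) (nat_lit 76) (nat_lit 4) (nat_lit 79) (nat_lit 5) (nat_lit 79) (nat_lit 4) (nat_lit 362) (nat_lit 276) (nat_lit 262))) (XT.nd (nat_lit 78) (nat_lit 152) (nat_lit 0) (XT.lf (nat_lit 0) (nat_lit 3812032266) (nat_lit 304) (nat_lit 2023746583) (nat_lit 76) (nat_lit 5558680420) (nat_lit 75) (nat_lit 5) (nat_lit 79) (nat_lit 5) (nat_lit 76) (nat_lit 4) (nat_lit 363) (nat_lit 276) (nat_lit 261)) (XT.lf (nat_lit 0) (nat_lit 6108751890) (nat_lit 152) (nat_lit 1960467252) (nat_lit 228) (nat_lit 3517472794) (nat_lit 73) (nat_lit 5) (nat_lit 75) (nat_lit 5) (nat_lit 76) (nat_lit 4) (nat_lit 364) (nat_lit 276) (nat_lit 260))))))))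
noncomputable def xc49 : XT := (XT.nd (nat_lit 2028) (nat_lit 1292) (nat_lit 0) (XT.nd (nat_lit 1014) (nat_lit 1292) (nat_lit 0) (XT.nd (nat_lit 468) (nat_lit 760) (nat_lit 0) (XT.nd (nat_lit 234) (nat_lit 456) (nat_lit 0) (XT.nd (nat_lit 78) (nat_lit 152) (nat_lit 0) (XT.lf (nat_lit 0) (nat_lit 640437957) (nat_lit 304) (nat_lit 9152834636) (nat_lit 76) (nat_lit 1991727480) (nat_lit 69) (nat_lit 5) (nat_lit 73) (nat_lit 5) (nat_lit 70) (nat_lit 4) (nat_lit 365) (nat_lit 276) (nat_lit 259)) (XT.nd (nat_lit 78) (nat_lit 152) (nat_lit 0) (XT.lf (nat_lit 0) (nat_lit 4846644946) (nat_lit 304) (nat_lit 1080582296) (nat_lit 76) (nat_lit 6061180698) (nat_lit 69) (nat_lit 5) (nat_lit 73) (nat_lit 5) (nat_lit 70) (nat_lit 4) (nat_lit 366) (nat_lit 276) (nat_lit 258)) (XT.lf (nat_lit 0) (nat_lit 7243073044) (nat_lit 152) (nat_lit 1926931626) (nat_lit 228) (nat_lit 3028206685) (nat_lit 67) (nat_lit 5) (nat_lit 69)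 (nat_lit 5) (nat_lit 70) (nat_lit 4) (nat_lit 367) (nat_lit 276) (nat_lit 257)))) (XT.nd (nat_lit 78) (nat_lit 152) (nat_lit 0) (XT.lf (nat_lit 0) (nat_lit 1171043870) (nat_lit 304) (nat_lit 9090367360) (nat_lit 76) (nat_lit 2152993849) (nat_lit 63) (nat_lit 5) (nat_lit 67) (nat_lit 5) (nat_lit 64) (nat_lit 4) (nat_lit 368) (nat_lit 276) (nat_lit 256)) (XT.nd (nat_lit 78) (nat_lit 152) (nat_lit 0) (XT.lf (nat_lit 0) (nat_lit 5427112190) (nat_lit 304) (nat_lit 864892694) (nat_lit 76) (nat_lit 6344449553) (nat_lit 63) (nat_lit 5) (nat_lit 67) (nat_lit 5) (nat_lit 64) (nat_lit 4) (nat_lit 369) (nat_lit 276) (nat_lit 255)) (XT.lf (nat_lit 0) (nat_lit 7627132917) (nat_lit 152) (nat_lit 2181408514) (nat_lit 228) (nat_lit 3056713298) (nat_lit 61) (nat_lit 5) (nat_lit 63) (nat_lit 5) (nat_lit 64) (nat_lit 4) (nat_lit 370) (nat_lit 276) (nat_lit 254))))) (XT.nd (nat_lit 234) (nat_lit 380) (nat_lit 0) (XT.nd (nat_lit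 78) (nat_lit 152) (nat_lit 0) (XT.lf (nat_lit 0) (nat_lit 1180679663) (nat_lit 228) (nat_lit 9908817536) (nat_lit 76) (nat_lit 2011568510) (nat_lit 58) (nat_lit 5) (nat_lit 61) (nat_lit 5) (nat_lit 59) (nat_lit 4) (nat_lit 371) (nat_lit 276) (nat_lit 253)) (XT.nd (nat_lit 78) (nat_lit 152) (nat_lit 0) (XT.lf (nat_lit 0) (nat_lit 5483803889) (nat_lit 228) (nat_lit 1541614654) (nat_lit 76) (nat_lit 6317641288) (nat_lit 58) (nat_lit 5) (nat_lit 61) (nat_lit 5) (nat_lit 59) (nat_lit 4) (nat_lit 372) (nat_lit 276) (nat_lit 252)) (XT.lf (nat_lit 0) (nat_lit 7088945069) (nat_lit 152) (nat_lit 2822433459) (nat_lit 228) (nat_lit 3681092158) (nat_lit 56) (nat_lit 5) (nat_lit 58) (nat_lit 5) (nat_lit 59) (nat_lit 4) (nat_lit 373) (nat_lit 276) (nat_lit 251)))) (XT.nd (nat_lit 156) (nat_lit 152) (nat_lit 0) (XT.nd (nat_lit 78) (nat_lit 0) (nat_lit 0) (XT.lf (nat_lit 0) (nat_lit 587667311) (nat_lit 228) (nat_lit 11795540152)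 (nat_lit 76) (nat_lit 1466671620) (nat_lit 53) (nat_lit 5) (nat_lit 56) (nat_lit 5) (nat_lit 54) (nat_lit 4) (nat_lit 374) (nat_lit 276) (nat_lit 250)) (XT.lf (nat_lit 0) (nat_lit 4932577795) (nat_lit 228) (nat_lit 3302458868) (nat_lit 76) (nat_lit 5878233557) (nat_lit 53) (nat_lit 5) (nat_lit 56) (nat_lit 5) (nat_lit 54) (nat_lit 4) (nat_lit 375) (nat_lit 276) (nat_lit 249))) (XT.nd (nat_lit 78) (nat_lit 0) (nat_lit 0) (XT.lf (nat_lit 0) (nat_lit 5428397718) (nat_lit 152) (nat_lit 3961528243) (nat_lit 228) (nat_lit 4995190065) (nat_lit 51) (nat_lit 5) (nat_lit 53) (nat_lit 5) (nat_lit 54) (nat_lit 4) (nat_lit 376) (nat_lit 276) (nat_lit 248)) (XT.lf (nat_lit 0) (nat_lit 13949180126) (nat_lit 228) (nat_lit 303127405) (nat_lit 0) (nat_lit 413779300) (nat_lit 51) (nat_lit 5) (nat_lit 54) (nat_lit 4) (nat_lit 51) (nat_lit 4) (nat_lit 377) (nat_lit 276) (nat_lit 247)))))) (XT.nd (nat_lit 468) (nat_lit 608)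 (nat_lit 0) (XT.nd (nat_lit 234) (nat_lit 304) (nat_lit 0) (XT.nd (nat_lit 78) (nat_lit 152) (nat_lit 0) (XT.lf (nat_lit 0) (nat_lit 3672632911) (nat_lit 228) (nat_lit 6370568575) (nat_lit 76) (nat_lit 4909588328) (nat_lit 48) (nat_lit 5) (nat_lit 51) (nat_lit 5) (nat_lit 49) (nat_lit 4) (nat_lit 378) (nat_lit 276) (nat_lit 246)) (XT.nd (nat_lit 78) (nat_lit 0) (nat_lit 0) (XT.lf (nat_lit 0) (nat_lit 2412369276) (nat_lit 152) (nat_lit 5725823226) (nat_lit 228) (nat_lit 7110940058) (nat_lit 46) (nat_lit 5) (nat_lit 48) (nat_lit 5) (nat_lit 49) (nat_lit 4) (nat_lit 379) (nat_lit 276) (nat_lit 245)) (XT.lf (nat_lit 0) (nat_lit 11470642898) (nat_lit 152) (nat_lit 1264694349) (nat_lit 228) (nat_lit 2819113286) (nat_lit 46) (nat_lit 5) (nat_lit 48) (nat_lit 5) (nat_lit 49) (nat_lit 4) (nat_lit 380) (nat_lit 276) (nat_lit 244)))) (XT.nd (nat_lit 78) (nat_lit 76) (nat_lit 0) (XT.lf (nat_lit 0) (nat_lit 1583990202)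 (nat_lit 228) (nat_lit 11005901225) (nat_lit 76) (nat_lit 3278174344) (nat_lit 43) (nat_lit 5) (nat_lit 46) (nat_lit 5) (nat_lit 44) (nat_lit 4) (nat_lit 381) (nat_lit 276) (nat_lit 243)) (XT.nd (nat_lit 78) (nat_lit 76) (nat_lit 0) (XT.lf (nat_lit 0) (nat_lit 6051578038) (nat_lit 228) (nat_lit 2187382865) (nat_lit 76) (nat_lit 7951631974) (nat_lit 43) (nat_lit 5) (nat_lit 46) (nat_lit 5) (nat_lit 44) (nat_lit 4) (nat_lit 382) (nat_lit 276) (nat_lit 242)) (XT.lf (nat_lit 0) (nat_lit 6917156617) (nat_lit 76) (nat_lit 3739309562) (nat_lit 152) (nat_lit 5866243429) (nat_lit 42) (nat_lit 5) (nat_lit 43) (nat_lit 5) (nat_lit 44) (nat_lit 4) (nat_lit 383) (nat_lit 276) (nat_lit 241))))) (XT.nd (nat_lit 234) (nat_lit 304) (nat_lit 0) (XT.nd (nat_lit 78) (nat_lit 304) (nat_lit 0) (XT.lf (nat_lit 0) (nat_lit 15367475948) (nat_lit 152) (nat_lit 647086391) (nat_lit 0) (nat_lit 851199895) (nat_lit 42) (nat_lit 5) (nat_lit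 44) (nat_lit 4) (nat_lit 42) (nat_lit 4) (nat_lit 384) (nat_lit 276) (nat_lit 240)) (XT.nd (nat_lit 78) (nat_lit 76) (nat_lit 0) (XT.lf (nat_lit 0) (nat_lit 3001314249) (nat_lit 228) (nat_lit 8646338455) (nat_lit 76) (nat_lit 5568824590) (nat_lit 39) (nat_lit 5) (nat_lit 42) (nat_lit 5) (nat_lit 40) (nat_lit 4) (nat_lit 385) (nat_lit 276) (nat_lit 239)) (XT.lf (nat_lit 0) (nat_lit 381541785) (nat_lit 76) (nat_lit 7173527773) (nat_lit 152) (nat_lit 10023731442) (nat_lit 38) (nat_lit 5) (nat_lit 39) (nat_lit 5) (nat_lit 40) (nat_lit 4) (nat_lit 386) (nat_lit 276) (nat_lit 238)))) (XT.nd (nat_lit 156) (nat_lit 152) (nat_lit 0) (XT.nd (nat_lit 78) (nat_lit 152) (nat_lit 0) (XT.lf (nat_lit 0) (nat_lit 9747952578) (nat_lit 76) (nat_lit 2524533478) (nat_lit 152) (nat_lit 5678707249) (nat_lit 38) (nat_lit 5) (nat_lit 39) (nat_lit 5) (nat_lit 40) (nat_lit 4) (nat_lit 387) (nat_lit 276) (nat_lit 237)) (XT.lf (nat_lit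 0) (nat_lit 949706295) (nat_lit 152) (nat_lit 16153642924) (nat_lit 152) (nat_lit 1232260478) (nat_lit 36) (nat_lit 4) (nat_lit 38) (nat_lit 5) (nat_lit 38) (nat_lit 4) (nat_lit 388) (nat_lit 276) (nat_lit 236))) (XT.nd (nat_lit 78) (nat_lit 76) (nat_lit 0) (XT.lf (nat_lit 0) (nat_lit 3332047468) (nat_lit 228) (nat_lit 8349455223) (nat_lit 76) (nat_lit 7047606255) (nat_lit 35) (nat_lit 5) (nat_lit 38) (nat_lit 5) (nat_lit 36) (nat_lit 4) (nat_lit 389) (nat_lit 276) (nat_lit 235)) (XT.lf (nat_lit 0) (nat_lit 857980193) (nat_lit 76) (nat_lit 7101637994) (nat_lit 152) (nat_lit 11175905135) (nat_lit 34) (nat_lit 5) (nat_lit 35) (nat_lit 5) (nat_lit 36) (nat_lit 4) (nat_lit 390) (nat_lit 276) (nat_lit 234))))))) (XT.nd (nat_lit 1014) (nat_lit 532) (nat_lit 0) (XT.nd (nat_lit 468) (nat_lit 456) (nat_lit 0) (XT.nd (nat_lit 234) (nat_lit 76) (nat_lit 0) (XT.nd (nat_lit 78) (nat_lit 228) (nat_lit 0) (XT.lf (nat_lit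 0) (nat_lit 10409172384) (nat_lit 76) (nat_lit 2344678479) (nat_lit 152) (nat_lit 6799453145) (nat_lit 34) (nat_lit 5) (nat_lit 35) (nat_lit 5) (nat_lit 36) (nat_lit 4) (nat_lit 391) (nat_lit 276) (nat_lit 233)) (XT.nd (nat_lit 78) (nat_lit 76) (nat_lit 0) (XT.lf (nat_lit 0) (nat_lit 139629261) (nat_lit 152) (nat_lit 17522910316) (nat_lit 152) (nat_lit 2321968328) (nat_lit 32) (nat_lit 4) (nat_lit 34) (nat_lit 5) (nat_lit 34) (nat_lit 4) (nat_lit 392) (nat_lit 276) (nat_lit 232)) (XT.lf (nat_lit 0) (nat_lit 2306442994) (nat_lit 228) (nat_lit 10684594992) (nat_lit 76) (nat_lit 7435119209) (nat_lit 31) (nat_lit 5) (nat_lit 34) (nat_lit 5) (nat_lit 32) (nat_lit 4) (nat_lit 393) (nat_lit 276) (nat_lit 231)))) (XT.nd (nat_lit 78) (nat_lit 76) (nat_lit 0) (XT.lf (nat_lit 0) (nat_lit 6973462959) (nat_lit 228) (nat_lit 1371449592) (nat_lit 76) (nat_lit 12537068880) (nat_lit 31) (nat_lit 5) (nat_lit 34) (nat_lit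 5) (nat_lit 32) (nat_lit 4) (nat_lit 394) (nat_lit 276) (nat_lit 230)) (XT.nd (nat_lit 78) (nat_lit 0) (nat_lit 0) (XT.lf (nat_lit 0) (nat_lit 8286719173) (nat_lit 76) (nat_lit 3521417350) (nat_lit 152) (nat_lit 9542522278) (nat_lit 30) (nat_lit 5) (nat_lit 31) (nat_lit 5) (nat_lit 32) (nat_lit 4) (nat_lit 395) (nat_lit 276) (nat_lit 229)) (XT.lf (nat_lit 0) (nat_lit 16763909953) (nat_lit 152) (nat_lit 3680541577) (nat_lit 0) (nat_lit 1389670645) (nat_lit 30) (nat_lit 5) (nat_lit 32) (nat_lit 4) (nat_lit 30) (nat_lit 4) (nat_lit 396) (nat_lit 276) (nat_lit 228))))) (XT.nd (nat_lit 234) (nat_lit 152) (nat_lit 0) (XT.nd (nat_lit 78) (nat_lit 152) (nat_lit 0) (XT.lf (nat_lit 0) (nat_lit 5972580773) (nat_lit 152) (nat_lit 15937729378) (nat_lit 152) (nat_lit 420527948) (nat_lit 28) (nat_lit 4) (nat_lit 30) (nat_lit 5) (nat_lit 30) (nat_lit 4) (nat_lit 397) (nat_lit 276) (nat_lit 227)) (XT.nd (nat_lit 78) (nat_lit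 76) (nat_lit 0) (XT.lf (nat_lit 0) (nat_lit 4270685718) (nat_lit 228) (nat_lit 6986507598) (nat_lit 76) (nat_lit 11584390593) (nat_lit 27) (nat_lit 5) (nat_lit 30) (nat_lit 5) (nat_lit 28) (nat_lit 4) (nat_lit 398) (nat_lit 276) (nat_lit 226)) (XT.lf (nat_lit 0) (nat_lit 2622582459) (nat_lit 76) (nat_lit 6448027185) (nat_lit 152) (nat_lit 14297631399) (nat_lit 26) (nat_lit 5) (nat_lit 27) (nat_lit 5) (nat_lit 28) (nat_lit 4) (nat_lit 399) (nat_lit 276) (nat_lit 225)))) (XT.nd (nat_lit 156) (nat_lit 152) (nat_lit 0) (XT.nd (nat_lit 78) (nat_lit 0) (nat_lit 0) (XT.lf (nat_lit 0) (nat_lit 12573227664) (nat_lit 76) (nat_lit 1463626216) (nat_lit 152) (nat_lit 9873180779) (nat_lit 26) (nat_lit 5) (nat_lit 27) (nat_lit 5) (nat_lit 28) (nat_lit 4) (nat_lit 400) (nat_lit 276) (nat_lit 224)) (XT.lf (nat_lit 0) (nat_lit 19140154692) (nat_lit 152) (nat_lit 1769307473) (nat_lit 0) (nat_lit 3558984100) (nat_lit 26) (nat_lit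 5) (nat_lit 28) (nat_lit 4) (nat_lit 26) (nat_lit 4) (nat_lit 401) (nat_lit 276) (nat_lit 223))) (XT.nd (nat_lit 78) (nat_lit 76) (nat_lit 0) (XT.lf (nat_lit 0) (nat_lit 8143878615) (nat_lit 76) (nat_lit 16299614323) (nat_lit 76) (nat_lit 598715205) (nat_lit 25) (nat_lit 4) (nat_lit 26) (nat_lit 5) (nat_lit 26) (nat_lit 4) (nat_lit 402) (nat_lit 276) (nat_lit 222)) (XT.lf (nat_lit 0) (nat_lit 4161642543) (nat_lit 152) (nat_lit 7369006043) (nat_lit 76) (nat_lit 14102139726) (nat_lit 24) (nat_lit 5) (nat_lit 26) (nat_lit 5) (nat_lit 25) (nat_lit 4) (nat_lit 403) (nat_lit 276) (nat_lit 221)))))) (XT.nd (nat_lit 546) (nat_lit 228) (nat_lit 0) (XT.nd (nat_lit 234) (nat_lit 228) (nat_lit 0) (XT.nd (nat_lit 78) (nat_lit 0) (nat_lit 0) (XT.lf (nat_lit 0) (nat_lit 2403837628) (nat_lit 76) (nat_lit 6627607521) (nat_lit 152) (nat_lit 17210108430) (nat_lit 23) (nat_lit 5) (nat_lit 24) (nat_lit 5) (nat_lit 25) (nat_lit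 4) (nat_lit 404) (nat_lit 276) (nat_lit 220)) (XT.nd (nat_lit 78) (nat_lit 0) (nat_lit 0) (XT.lf (nat_lit 0) (nat_lit 12538401887) (nat_lit 76) (nat_lit 1539414111) (nat_lit 152) (nat_lit 12789856981) (nat_lit 23) (nat_lit 5) (nat_lit 24) (nat_lit 5) (nat_lit 25) (nat_lit 4) (nat_lit 405) (nat_lit 276) (nat_lit 219)) (XT.lf (nat_lit 0) (nat_lit 19268139654) (nat_lit 152) (nat_lit 4652196728) (nat_lit 0) (nat_lit 3592467969) (nat_lit 23) (nat_lit 5) (nat_lit 25) (nat_lit 4) (nat_lit 23) (nat_lit 4) (nat_lit 406) (nat_lit 276) (nat_lit 218)))) (XT.nd (nat_lit 156) (nat_lit 76) (nat_lit 0) (XT.nd (nat_lit 78) (nat_lit 76) (nat_lit 0) (XT.lf (nat_lit 0) (nat_lit 5325178570) (nat_lit 76) (nat_lit 19313659339) (nat_lit 76) (nat_lit 3537716898) (nat_lit 22) (nat_lit 4) (nat_lit 23) (nat_lit 5) (nat_lit 23) (nat_lit 4) (nat_lit 407) (nat_lit 276) (nat_lit 217)) (XT.lf (nat_lit 0) (nat_lit 1290599236) (nat_lit 152)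 (nat_lit 13253376240) (nat_lit 76) (nat_lit 14315697255) (nat_lit 21) (nat_lit 5) (nat_lit 23) (nat_lit 5) (nat_lit 22) (nat_lit 4) (nat_lit 408) (nat_lit 276) (nat_lit 216))) (XT.nd (nat_lit 78) (nat_lit 76) (nat_lit 0) (XT.lf (nat_lit 0) (nat_lit 6152163255) (nat_lit 152) (nat_lit 3478916086) (nat_lit 76) (nat_lit 19932373612) (nat_lit 21) (nat_lit 5) (nat_lit 23) (nat_lit 5) (nat_lit 22) (nat_lit 4) (nat_lit 409) (nat_lit 276) (nat_lit 215)) (XT.lf (nat_lit 0) (nat_lit 6644204067) (nat_lit 76) (nat_lit 4539920814) (nat_lit 152) (nat_lit 19103489702) (nat_lit 20) (nat_lit 5) (nat_lit 21) (nat_lit 5) (nat_lit 22) (nat_lit 4) (nat_lit 410) (nat_lit 276) (nat_lit 214))))) (XT.nd (nat_lit 234) (nat_lit 152) (nat_lit 0) (XT.nd (nat_lit 78) (nat_lit 76) (nat_lit 0) (XT.lf (nat_lit 0) (nat_lit 16370078828) (nat_lit 152) (nat_lit 13971566218) (nat_lit 0) (nat_lit 691769400) (nat_lit 20) (nat_lit 5) (nat_lit 22)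 (nat_lit 4) (nat_lit 20) (nat_lit 4) (nat_lit 411) (nat_lit 276) (nat_lit 213)) (XT.nd (nat_lit 78) (nat_lit 76) (nat_lit 0) (XT.lf (nat_lit 0) (nat_lit 21718491593) (nat_lit 152) (nat_lit 4126687583) (nat_lit 0) (nat_lit 5956206985) (nat_lit 20) (nat_lit 5) (nat_lit 22) (nat_lit 4) (nat_lit 20) (nat_lit 4) (nat_lit 412) (nat_lit 276) (nat_lit 212)) (XT.lf (nat_lit 0) (nat_lit 6061754876) (nat_lit 76) (nat_lit 21186910471) (nat_lit 76) (nat_lit 5343096562) (nat_lit 19) (nat_lit 4) (nat_lit 20) (nat_lit 5) (nat_lit 20) (nat_lit 4) (nat_lit 413) (nat_lit 276) (nat_lit 211)))) (XT.nd (nat_lit 156) (nat_lit 76) (nat_lit 0) (XT.nd (nat_lit 78) (nat_lit 76) (nat_lit 0) (XT.lf (nat_lit 0) (nat_lit 16571061408) (nat_lit 76) (nat_lit 16378803248) (nat_lit 76) (nat_lit 455834678) (nat_lit 19) (nat_lit 4) (nat_lit 20) (nat_lit 5) (nat_lit 20) (nat_lit 4) (nat_lit 414) (nat_lit 276) (nat_lit 210)) (XT.lf (nat_lit 0)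 (nat_lit 4452869222) (nat_lit 152) (nat_lit 6960493233) (nat_lit 76) (nat_lit 22830451255) (nat_lit 18) (nat_lit 5) (nat_lit 20) (nat_lit 5) (nat_lit 19) (nat_lit 4) (nat_lit 415) (nat_lit 276) (nat_lit 209))) (XT.nd (nat_lit 78) (nat_lit 0) (nat_lit 0) (XT.lf (nat_lit 0) (nat_lit 3201744507) (nat_lit 76) (nat_lit 6293907277) (nat_lit 152) (nat_lit 25611408633) (nat_lit 17) (nat_lit 5) (nat_lit 18) (nat_lit 5) (nat_lit 19) (nat_lit 4) (nat_lit 416) (nat_lit 276) (nat_lit 208)) (XT.lf (nat_lit 0) (nat_lit 13746085017) (nat_lit 76) (nat_lit 979506785) (nat_lit 152) (nat_lit 21269540072) (nat_lit 17) (nat_lit 5) (nat_lit 18) (nat_lit 5) (nat_lit 19) (nat_lit 4) (nat_lit 417) (nat_lit 276) (nat_lit 207))))))))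
noncomputable def xc50 : XT := (XT.nd (nat_lit 2028) (nat_lit 76) (nat_lit 0) (XT.nd (nat_lit 1014) (nat_lit 304) (nat_lit 0) (XT.nd (nat_lit 468) (nat_lit 152) (nat_lit 0) (XT.nd (nat_lit 234) (nat_lit 76) (nat_lit 0) (XT.nd (nat_lit 78) (nat_lit 76) (nat_lit 0) (XT.lf (nat_lit 0) (nat_lit 20121931576) (nat_lit 152) (nat_lit 12410549513) (nat_lit 0) (nat_lit 4377082805) (nat_lit 17) (nat_lit 5) (nat_lit 19) (nat_lit 4) (nat_lit 17) (nat_lit 4) (nat_lit 418) (nat_lit 276) (nat_lit 206)) (XT.nd (nat_lit 78) (nat_lit 76) (nat_lit 0) (XT.lf (nat_lit 0) (nat_lit 25657140547) (nat_lit 152) (nat_lit 2348981328) (nat_lit 0) (nat_lit 9846000993) (nat_lit 17) (nat_lit 5) (nat_lit 19) (nat_lit 4) (nat_lit 17) (nat_lit 4) (nat_lit 419) (nat_lit 276) (nat_lit 205)) (XT.lf (nat_lit 0) (nat_lit 8112162486) (nat_lit 76) (nat_lit 23292456270) (nat_lit 76) (nat_lit 7416956733) (nat_lit 16) (nat_lit 4) (nat_lit 17) (nat_lit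 5) (nat_lit 17) (nat_lit 4) (nat_lit 420) (nat_lit 276) (nat_lit 204)))) (XT.nd (nat_lit 78) (nat_lit 76) (nat_lit 0) (XT.lf (nat_lit 0) (nat_lit 18875317318) (nat_lit 76) (nat_lit 18441506709) (nat_lit 76) (nat_lit 2503521751) (nat_lit 16) (nat_lit 4) (nat_lit 17) (nat_lit 5) (nat_lit 17) (nat_lit 4) (nat_lit 421) (nat_lit 276) (nat_lit 203)) (XT.nd (nat_lit 78) (nat_lit 0) (nat_lit 0) (XT.lf (nat_lit 0) (nat_lit 2476606485) (nat_lit 152) (nat_lit 10971139249) (nat_lit 76) (nat_lit 27401523177) (nat_lit 15) (nat_lit 5) (nat_lit 17) (nat_lit 5) (nat_lit 16) (nat_lit 4) (nat_lit 422) (nat_lit 276) (nat_lit 202)) (XT.lf (nat_lit 0) (nat_lit 7525910219) (nat_lit 152) (nat_lit 779951170) (nat_lit 76) (nat_lit 33603354931) (nat_lit 15) (nat_lit 5) (nat_lit 17) (nat_lit 5) (nat_lit 16) (nat_lit 4) (nat_lit 423) (nat_lit 276) (nat_lit 201))))) (XT.nd (nat_lit 234) (nat_lit 76) (nat_lit 0) (XT.nd (nat_lit 78) (nat_lit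 0) (nat_lit 0) (XT.lf (nat_lit 0) (nat_lit 9853788994) (nat_lit 76) (nat_lit 2938585844) (nat_lit 152) (nat_lit 30206619679) (nat_lit 14) (nat_lit 5) (nat_lit 15) (nat_lit 5) (nat_lit 16) (nat_lit 4) (nat_lit 424) (nat_lit 276) (nat_lit 200)) (XT.nd (nat_lit 78) (nat_lit 0) (nat_lit 0) (XT.lf (nat_lit 0) (nat_lit 18220708311) (nat_lit 152) (nat_lit 23379207201) (nat_lit 0) (nat_lit 2521437035) (nat_lit 14) (nat_lit 5) (nat_lit 16) (nat_lit 4) (nat_lit 14) (nat_lit 4) (nat_lit 425) (nat_lit 276) (nat_lit 199)) (XT.lf (nat_lit 0) (nat_lit 23812857668) (nat_lit 152) (nat_lit 13403241491) (nat_lit 0) (nat_lit 8061255836) (nat_lit 14) (nat_lit 5) (nat_lit 16) (nat_lit 4) (nat_lit 14) (nat_lit 4) (nat_lit 426) (nat_lit 276) (nat_lit 198)))) (XT.nd (nat_lit 156) (nat_lit 0) (nat_lit 0) (XT.nd (nat_lit 78) (nat_lit 76) (nat_lit 0) (XT.lf (nat_lit 0) (nat_lit 29545461770) (nat_lit 152) (nat_lit 3180344046) (nat_lit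 0) (nat_lit 13743053574) (nat_lit 14) (nat_lit 5) (nat_lit 16) (nat_lit 4) (nat_lit 14) (nat_lit 4) (nat_lit 427) (nat_lit 276) (nat_lit 197)) (XT.lf (nat_lit 0) (nat_lit 7443670586) (nat_lit 76) (nat_lit 28051412217) (nat_lit 76) (nat_lit 12199677452) (nat_lit 13) (nat_lit 4) (nat_lit 14) (nat_lit 5) (nat_lit 14) (nat_lit 4) (nat_lit 428) (nat_lit 276) (nat_lit 196))) (XT.nd (nat_lit 78) (nat_lit 0) (nat_lit 0) (XT.lf (nat_lit 0) (nat_lit 18401275295) (nat_lit 76) (nat_lit 23227806618) (nat_lit 76) (nat_lit 7328181981) (nat_lit 13) (nat_lit 4) (nat_lit 14) (nat_lit 5) (nat_lit 14) (nat_lit 4) (nat_lit 429) (nat_lit 276) (nat_lit 195)) (XT.lf (nat_lit 0) (nat_lit 29638749603) (nat_lit 76) (nat_lit 18282889457) (nat_lit 76) (nat_lit 2336769799) (nat_lit 13) (nat_lit 4) (nat_lit 14) (nat_lit 5) (nat_lit 14) (nat_lit 4) (nat_lit 430) (nat_lit 276) (nat_lit 194)))))) (XT.nd (nat_lit 468) (nat_lit 152) (nat_lit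 0) (XT.nd (nat_lit 234) (nat_lit 0) (nat_lit 0) (XT.nd (nat_lit 78) (nat_lit 76) (nat_lit 0) (XT.lf (nat_lit 0) (nat_lit 2724693772) (nat_lit 152) (nat_lit 10460132096) (nat_lit 76) (nat_lit 38413704824) (nat_lit 12) (nat_lit 5) (nat_lit 14) (nat_lit 5) (nat_lit 13) (nat_lit 4) (nat_lit 431) (nat_lit 276) (nat_lit 193)) (XT.nd (nat_lit 78) (nat_lit 76) (nat_lit 0) (XT.lf (nat_lit 0) (nat_lit 7866794368) (nat_lit 152) (nat_lit 65493903) (nat_lit 76) (nat_lit 45046603184) (nat_lit 12) (nat_lit 5) (nat_lit 14) (nat_lit 5) (nat_lit 13) (nat_lit 4) (nat_lit 432) (nat_lit 276) (nat_lit 192)) (XT.lf (nat_lit 0) (nat_lit 10806677682) (nat_lit 76) (nat_lit 2436826595) (nat_lit 152) (nat_lit 41154750470) (nat_lit 11) (nat_lit 5) (nat_lit 12) (nat_lit 5) (nat_lit 13) (nat_lit 4) (nat_lit 433) (nat_lit 276) (nat_lit 191)))) (XT.nd (nat_lit 78) (nat_lit 0) (nat_lit 0) (XT.lf (nat_lit 0) (nat_lit 18789684628) (nat_lit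 152) (nat_lit 33930049000) (nat_lit 0) (nat_lit 3140222272) (nat_lit 11) (nat_lit 5) (nat_lit 13) (nat_lit 4) (nat_lit 11) (nat_lit 4) (nat_lit 434) (nat_lit 276) (nat_lit 190)) (XT.nd (nat_lit 78) (nat_lit 0) (nat_lit 0) (XT.lf (nat_lit 0) (nat_lit 24503576404) (nat_lit 152) (nat_lit 24046718678) (nat_lit 0) (nat_lit 8815175200) (nat_lit 11) (nat_lit 5) (nat_lit 13) (nat_lit 4) (nat_lit 11) (nat_lit 4) (nat_lit 435) (nat_lit 276) (nat_lit 189)) (XT.lf (nat_lit 0) (nat_lit 30366748061) (nat_lit 152) (nat_lit 13909525910) (nat_lit 0) (nat_lit 14640542150) (nat_lit 11) (nat_lit 5) (nat_lit 13) (nat_lit 4) (nat_lit 11) (nat_lit 4) (nat_lit 436) (nat_lit 276) (nat_lit 188))))) (XT.nd (nat_lit 234) (nat_lit 76) (nat_lit 0) (XT.nd (nat_lit 78) (nat_lit 76) (nat_lit 0) (XT.lf (nat_lit 0) (nat_lit 36384322758) (nat_lit 152) (nat_lit 3509612957) (nat_lit 0) (nat_lit 20621413247) (nat_lit 11) (nat_lit 5) (nat_lit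 13) (nat_lit 4) (nat_lit 11) (nat_lit 4) (nat_lit 437) (nat_lit 276) (nat_lit 187)) (XT.nd (nat_lit 78) (nat_lit 0) (nat_lit 0) (XT.lf (nat_lit 0) (nat_lit 7304647467) (nat_lit 76) (nat_lit 35327127841) (nat_lit 76) (nat_lit 19528583769) (nat_lit 10) (nat_lit 4) (nat_lit 11) (nat_lit 5) (nat_lit 11) (nat_lit 4) (nat_lit 438) (nat_lit 276) (nat_lit 186)) (XT.lf (nat_lit 0) (nat_lit 18475483448) (nat_lit 76) (nat_lit 30605967280) (nat_lit 76) (nat_lit 14772826545) (nat_lit 10) (nat_lit 4) (nat_lit 11) (nat_lit 5) (nat_lit 11) (nat_lit 4) (nat_lit 439) (nat_lit 276) (nat_lit 185)))) (XT.nd (nat_lit 156) (nat_lit 76) (nat_lit 0) (XT.nd (nat_lit 78) (nat_lit 0) (nat_lit 0) (XT.lf (nat_lit 0) (nat_lit 29942807730) (nat_lit 76) (nat_lit 25761768954) (nat_lit 76) (nat_lit 9895039227) (nat_lit 10) (nat_lit 4) (nat_lit 11) (nat_lit 5) (nat_lit 11) (nat_lit 4) (nat_lit 440) (nat_lit 276) (nat_lit 184)) (XT.lf (nat_lit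 0) (nat_lit 41716640307) (nat_lit 76) (nat_lit 20790300069) (nat_lit 76) (nat_lit 4890959669) (nat_lit 10) (nat_lit 4) (nat_lit 11) (nat_lit 5) (nat_lit 11) (nat_lit 4) (nat_lit 441) (nat_lit 276) (nat_lit 183))) (XT.nd (nat_lit 78) (nat_lit 0) (nat_lit 0) (XT.lf (nat_lit 0) (nat_lit 239027507) (nat_lit 152) (nat_lit 15445775407) (nat_lit 76) (nat_lit 53565827775) (nat_lit 9) (nat_lit 5) (nat_lit 11) (nat_lit 5) (nat_lit 10) (nat_lit 4) (nat_lit 442) (nat_lit 276) (nat_lit 182)) (XT.lf (nat_lit 0) (nat_lit 5406088559) (nat_lit 152) (nat_lit 4987380157) (nat_lit 76) (nat_lit 60764578958) (nat_lit 9) (nat_lit 5) (nat_lit 11) (nat_lit 5) (nat_lit 10) (nat_lit 4) (nat_lit 443) (nat_lit 276) (nat_lit 181))))))) (XT.nd (nat_lit 39780) (nat_lit 0) (nat_lit 4636) (XT.nd (nat_lit 39234) (nat_lit 0) (nat_lit 7372) (XT.nd (nat_lit 234) (nat_lit 0) (nat_lit 0) (XT.nd (nat_lit 78) (nat_lit 0) (nat_lit 0) (XT.lf (nat_lit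 0) (nat_lit 5864517162) (nat_lit 76) (nat_lit 4902034798) (nat_lit 152) (nat_lit 62354984964) (nat_lit 8) (nat_lit 5) (nat_lit 9) (nat_lit 5) (nat_lit 10) (nat_lit 4) (nat_lit 444) (nat_lit 276) (nat_lit 180)) (XT.nd (nat_lit 78) (nat_lit 0) (nat_lit 0) (XT.lf (nat_lit 0) (nat_lit 16327991564) (nat_lit 152) (nat_lit 58040683581) (nat_lit 0) (nat_lit 774052265) (nat_lit 8) (nat_lit 5) (nat_lit 10) (nat_lit 4) (nat_lit 8) (nat_lit 4) (nat_lit 445) (nat_lit 276) (nat_lit 179)) (XT.lf (nat_lit 0) (nat_lit 22087383745) (nat_lit 152) (nat_lit 48630104449) (nat_lit 0) (nat_lit 6506133521) (nat_lit 8) (nat_lit 5) (nat_lit 10) (nat_lit 4) (nat_lit 8) (nat_lit 4) (nat_lit 446) (nat_lit 276) (nat_lit 178)))) (XT.nd (nat_lit 78) (nat_lit 0) (nat_lit 0) (XT.lf (nat_lit 0) (nat_lit 28002639625) (nat_lit 152) (nat_lit 38969938172) (nat_lit 0) (nat_lit 12394873940) (nat_lit 8) (nat_lit 5) (nat_lit 10) (nat_lit 4) (nat_lit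 8) (nat_lit 4) (nat_lit 447) (nat_lit 276) (nat_lit 177)) (XT.nd (nat_lit 78) (nat_lit 0) (nat_lit 0) (XT.lf (nat_lit 0) (nat_lit 34078927874) (nat_lit 152) (nat_lit 29051743828) (nat_lit 0) (nat_lit 18445419023) (nat_lit 8) (nat_lit 5) (nat_lit 10) (nat_lit 4) (nat_lit 8) (nat_lit 4) (nat_lit 448) (nat_lit 276) (nat_lit 176)) (XT.lf (nat_lit 0) (nat_lit 40321557870) (nat_lit 152) (nat_lit 18866855034) (nat_lit 0) (nat_lit 24663055655) (nat_lit 8) (nat_lit 5) (nat_lit 10) (nat_lit 4) (nat_lit 8) (nat_lit 4) (nat_lit 449) (nat_lit 276) (nat_lit 175))))) (XT.nd (nat_lit 234) (nat_lit 1064) (nat_lit 0) (XT.nd (nat_lit 78) (nat_lit 760) (nat_lit 0) (XT.lf (nat_lit 0) (nat_lit 2139690007) (nat_lit 380) (nat_lit 160199275) (nat_lit 0) (nat_lit 2139690007) (nat_lit 129) (nat_lit 5) (nat_lit 134) (nat_lit 4) (nat_lit 129) (nat_lit 4) (nat_lit 346) (nat_lit 277) (nat_lit 277)) (XT.nd (nat_lit 78) (nat_lit 380) (nat_lit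 0) (XT.lf (nat_lit 0) (nat_lit 6774900239) (nat_lit 380) (nat_lit 1597727201) (nat_lit 380) (nat_lit 621298370) (nat_lit 124) (nat_lit 4) (nat_lit 129) (nat_lit 5) (nat_lit 129) (nat_lit 4) (nat_lit 347) (nat_lit 277) (nat_lit 276)) (XT.lf (nat_lit 0) (nat_lit 3376753000) (nat_lit 380) (nat_lit 4226999493) (nat_lit 0) (nat_lit 1508386023) (nat_lit 119) (nat_lit 5) (nat_lit 124) (nat_lit 4) (nat_lit 119) (nat_lit 4) (nat_lit 348) (nat_lit 277) (nat_lit 275)))) (XT.nd (nat_lit 156) (nat_lit 380) (nat_lit 0) (XT.nd (nat_lit 78) (nat_lit 380) (nat_lit 0) (XT.lf (nat_lit 0) (nat_lit 2908729977) (nat_lit 304) (nat_lit 4543927074) (nat_lit 304) (nat_lit 1781989397) (nat_lit 115) (nat_lit 4) (nat_lit 119) (nat_lit 5) (nat_lit 119) (nat_lit 4) (nat_lit 349) (nat_lit 277) (nat_lit 274)) (XT.lf (nat_lit 0) (nat_lit 838462715) (nat_lit 304) (nat_lit 1362495295) (nat_lit 380) (nat_lit 7160584893) (nat_lit 110) (nat_lit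 5) (nat_lit 114) (nat_lit 5) (nat_lit 115) (nat_lit 4) (nat_lit 350) (nat_lit 277) (nat_lit 273))) (XT.nd (nat_lit 78) (nat_lit 380) (nat_lit 0) (XT.lf (nat_lit 0) (nat_lit 6255961449) (nat_lit 380) (nat_lit 1321696786) (nat_lit 0) (nat_lit 1914448698) (nat_lit 110) (nat_lit 5) (nat_lit 115) (nat_lit 4) (nat_lit 110) (nat_lit 4) (nat_lit 351) (nat_lit 277) (nat_lit 272)) (XT.lf (nat_lit 0) (nat_lit 770051040) (nat_lit 380) (nat_lit 3572235131) (nat_lit 76) (nat_lit 5284715819) (nat_lit 105) (nat_lit 5) (nat_lit 110) (nat_lit 5) (nat_lit 106) (nat_lit 4) (nat_lit 352) (nat_lit 277) (nat_lit 271)))))) (XT.nd (nat_lit 546) (nat_lit 1292) (nat_lit 0) (XT.nd (nat_lit 234) (nat_lit 836) (nat_lit 0) (XT.nd (nat_lit 78) (nat_lit 380) (nat_lit 0) (XT.lf (nat_lit 0) (nat_lit 3817901857) (nat_lit 228) (nat_lit 972316141) (nat_lit 304) (nat_lit 4976037812) (nat_lit 102) (nat_lit 5) (nat_lit 105) (nat_lit 5) (nat_lit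 106) (nat_lit 4) (nat_lit 353) (nat_lit 277) (nat_lit 270)) (XT.nd (nat_lit 78) (nat_lit 76) (nat_lit 0) (XT.lf (nat_lit 0) (nat_lit 1459032928) (nat_lit 304) (nat_lit 7455969903) (nat_lit 304) (nat_lit 995200900) (nat_lit 98) (nat_lit 4) (nat_lit 102) (nat_lit 5) (nat_lit 102) (nat_lit 4) (nat_lit 354) (nat_lit 277) (nat_lit 269)) (XT.lf (nat_lit 0) (nat_lit 3024686875) (nat_lit 380) (nat_lit 1026047608) (nat_lit 76) (nat_lit 6007468429) (nat_lit 97) (nat_lit 5) (nat_lit 102) (nat_lit 5) (nat_lit 98) (nat_lit 4) (nat_lit 355) (nat_lit 277) (nat_lit 268)))) (XT.nd (nat_lit 156) (nat_lit 228) (nat_lit 0) (XT.nd (nat_lit 78) (nat_lit 380) (nat_lit 0) (XT.lf (nat_lit 0) (nat_lit 6605051531) (nat_lit 228) (nat_lit 516160800) (nat_lit 304) (nat_lit 3089886570) (nat_lit 94) (nat_lit 5) (nat_lit 97) (nat_lit 5) (nat_lit 98) (nat_lit 4) (nat_lit 356) (nat_lit 277) (nat_lit 267)) (XT.lf (nat_lit 0) (nat_lit 945553672)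 (nat_lit 380) (nat_lit 6348399853) (nat_lit 76) (nat_lit 3074605629) (nat_lit 89) (nat_lit 5) (nat_lit 94) (nat_lit 5) (nat_lit 90) (nat_lit 4) (nat_lit 357) (nat_lit 277) (nat_lit 266))) (XT.nd (nat_lit 78) (nat_lit 0) (nat_lit 0) (XT.lf (nat_lit 0) (nat_lit 1271117294) (nat_lit 228) (nat_lit 3736628328) (nat_lit 304) (nat_lit 5523076919) (nat_lit 86) (nat_lit 5) (nat_lit 89) (nat_lit 5) (nat_lit 90) (nat_lit 4) (nat_lit 358) (nat_lit 277) (nat_lit 265)) (XT.lf (nat_lit 0) (nat_lit 9113654880) (nat_lit 228) (nat_lit 57152688) (nat_lit 304) (nat_lit 1527806115) (nat_lit 86) (nat_lit 5) (nat_lit 89) (nat_lit 5) (nat_lit 90) (nat_lit 4) (nat_lit 359) (nat_lit 277) (nat_lit 264))))) (XT.nd (nat_lit 234) (nat_lit 532) (nat_lit 0) (XT.nd (nat_lit 78) (nat_lit 456) (nat_lit 0) (XT.lf (nat_lit 0) (nat_lit 2550018910) (nat_lit 304) (nat_lit 4623306257) (nat_lit 76) (nat_lit 3697000003) (nat_lit 82) (nat_lit 5)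 (nat_lit 86) (nat_lit 5) (nat_lit 83) (nat_lit 4) (nat_lit 360) (nat_lit 277) (nat_lit 263)) (XT.nd (nat_lit 78) (nat_lit 228) (nat_lit 0) (XT.lf (nat_lit 0) (nat_lit 3212425426) (nat_lit 228) (nat_lit 3471867081) (nat_lit 304) (nat_lit 4363524491) (nat_lit 79) (nat_lit 5) (nat_lit 82) (nat_lit 5) (nat_lit 83) (nat_lit 4) (nat_lit 361) (nat_lit 277) (nat_lit 262)) (XT.lf (nat_lit 0) (nat_lit 10419247) (nat_lit 228) (nat_lit 10900552749) (nat_lit 228) (nat_lit 320636891) (nat_lit 76) (nat_lit 4) (nat_lit 79) (nat_lit 5) (nat_lit 79) (nat_lit 4) (nat_lit 362) (nat_lit 277) (nat_lit 261)))) (XT.nd (nat_lit 156) (nat_lit 304) (nat_lit 0) (XT.nd (nat_lit 78) (nat_lit 152) (nat_lit 0) (XT.lf (nat_lit 0) (nat_lit 3800952703) (nat_lit 304) (nat_lit 3373572754) (nat_lit 76) (nat_lit 4244333294) (nat_lit 75) (nat_lit 5) (nat_lit 79) (nat_lit 5) (nat_lit 76) (nat_lit 4) (nat_lit 363) (nat_lit 277) (nat_lit 260)) (XT.lf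 (nat_lit 0) (nat_lit 4666138189) (nat_lit 152) (nat_lit 3338981694) (nat_lit 228) (nat_lit 3607574134) (nat_lit 73) (nat_lit 5) (nat_lit 75) (nat_lit 5) (nat_lit 76) (nat_lit 4) (nat_lit 364) (nat_lit 277) (nat_lit 259))) (XT.nd (nat_lit 78) (nat_lit 0) (nat_lit 0) (XT.lf (nat_lit 0) (nat_lit 484392563) (nat_lit 304) (nat_lit 10729880626) (nat_lit 76) (nat_lit 598797335) (nat_lit 69) (nat_lit 5) (nat_lit 73) (nat_lit 5) (nat_lit 70) (nat_lit 4) (nat_lit 365) (nat_lit 277) (nat_lit 258)) (XT.lf (nat_lit 0) (nat_lit 4651851610) (nat_lit 304) (nat_lit 2722703661) (nat_lit 76) (nat_lit 4643096547) (nat_lit 69) (nat_lit 5) (nat_lit 73) (nat_lit 5) (nat_lit 70) (nat_lit 4) (nat_lit 366) (nat_lit 277) (nat_lit 257))))))))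
noncomputable def xc51 : XT := (XT.nd (nat_lit 2106) (nat_lit 1140) (nat_lit 0) (XT.nd (nat_lit 1014) (nat_lit 1292) (nat_lit 0) (XT.nd (nat_lit 468) (nat_lit 760) (nat_lit 0) (XT.nd (nat_lit 234) (nat_lit 380) (nat_lit 0) (XT.nd (nat_lit 78) (nat_lit 304) (nat_lit 0) (XT.lf (nat_lit 0) (nat_lit 5503832860) (nat_lit 152) (nat_lit 3417040471) (nat_lit 228) (nat_lit 3308222711) (nat_lit 67) (nat_lit 5) (nat_lit 69) (nat_lit 5) (nat_lit 70) (nat_lit 4) (nat_lit 367) (nat_lit 277) (nat_lit 256)) (XT.nd (nat_lit 78) (nat_lit 0) (nat_lit 0) (XT.lf (nat_lit 0) (nat_lit 826264342) (nat_lit 304) (nat_lit 10975415760) (nat_lit 76) (nat_lit 645807301) (nat_lit 63) (nat_lit 5) (nat_lit 67) (nat_lit 5) (nat_lit 64) (nat_lit 4) (nat_lit 368) (nat_lit 277) (nat_lit 255)) (XT.lf (nat_lit 0) (nat_lit 5045072665) (nat_lit 304) (nat_lit 2813510615) (nat_lit 76) (nat_lit 4812081045) (nat_lit 63) (nat_lit 5) (nat_lit 67) (nat_lit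 5) (nat_lit 64) (nat_lit 4) (nat_lit 369) (nat_lit 277) (nat_lit 254)))) (XT.nd (nat_lit 78) (nat_lit 228) (nat_lit 0) (XT.lf (nat_lit 0) (nat_lit 5576787388) (nat_lit 152) (nat_lit 3793830589) (nat_lit 228) (nat_lit 3530532639) (nat_lit 61) (nat_lit 5) (nat_lit 63) (nat_lit 5) (nat_lit 64) (nat_lit 4) (nat_lit 370) (nat_lit 277) (nat_lit 253)) (XT.nd (nat_lit 78) (nat_lit 0) (nat_lit 0) (XT.lf (nat_lit 0) (nat_lit 643019675) (nat_lit 228) (nat_lit 12116758003) (nat_lit 76) (nat_lit 379522089) (nat_lit 58) (nat_lit 5) (nat_lit 61) (nat_lit 5) (nat_lit 59) (nat_lit 4) (nat_lit 371) (nat_lit 277) (nat_lit 252)) (XT.lf (nat_lit 0) (nat_lit 4910288438) (nat_lit 228) (nat_lit 3811619208) (nat_lit 76) (nat_lit 4660470581) (nat_lit 58) (nat_lit 5) (nat_lit 61) (nat_lit 5) (nat_lit 59) (nat_lit 4) (nat_lit 372) (nat_lit 277) (nat_lit 251))))) (XT.nd (nat_lit 234) (nat_lit 380) (nat_lit 0) (XT.nd (nat_lit 78) (nat_lit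 228) (nat_lit 0) (XT.lf (nat_lit 0) (nat_lit 4712307359) (nat_lit 152) (nat_lit 4567898893) (nat_lit 228) (nat_lit 4353320958) (nat_lit 56) (nat_lit 5) (nat_lit 58) (nat_lit 5) (nat_lit 59) (nat_lit 4) (nat_lit 373) (nat_lit 277) (nat_lit 250)) (XT.nd (nat_lit 78) (nat_lit 228) (nat_lit 0) (XT.lf (nat_lit 0) (nat_lit 13448964919) (nat_lit 152) (nat_lit 300973927) (nat_lit 228) (nat_lit 143226897) (nat_lit 56) (nat_lit 5) (nat_lit 58) (nat_lit 5) (nat_lit 59) (nat_lit 4) (nat_lit 374) (nat_lit 277) (nat_lit 249)) (XT.lf (nat_lit 0) (nat_lit 4162659841) (nat_lit 228) (nat_lit 5909507257) (nat_lit 76) (nat_lit 4085693351) (nat_lit 53) (nat_lit 5) (nat_lit 56) (nat_lit 5) (nat_lit 54) (nat_lit 4) (nat_lit 375) (nat_lit 277) (nat_lit 248)))) (XT.nd (nat_lit 156) (nat_lit 228) (nat_lit 0) (XT.nd (nat_lit 78) (nat_lit 0) (nat_lit 0) (XT.lf (nat_lit 0) (nat_lit 2709493814) (nat_lit 152) (nat_lit 5850856636) (nat_lit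 228) (nat_lit 5871153015) (nat_lit 51) (nat_lit 5) (nat_lit 53) (nat_lit 5) (nat_lit 54) (nat_lit 4) (nat_lit 376) (nat_lit 277) (nat_lit 247)) (XT.lf (nat_lit 0) (nat_lit 11590010444) (nat_lit 152) (nat_lit 1492432404) (nat_lit 228) (nat_lit 1631153540) (nat_lit 51) (nat_lit 5) (nat_lit 53) (nat_lit 5) (nat_lit 54) (nat_lit 4) (nat_lit 377) (nat_lit 277) (nat_lit 246))) (XT.nd (nat_lit 78) (nat_lit 0) (nat_lit 0) (XT.lf (nat_lit 0) (nat_lit 2700685081) (nat_lit 228) (nat_lit 9331163749) (nat_lit 76) (nat_lit 2970987276) (nat_lit 48) (nat_lit 5) (nat_lit 51) (nat_lit 5) (nat_lit 49) (nat_lit 4) (nat_lit 378) (nat_lit 277) (nat_lit 245)) (XT.lf (nat_lit 0) (nat_lit 7110754786) (nat_lit 228) (nat_lit 652652461) (nat_lit 76) (nat_lit 7537442951) (nat_lit 48) (nat_lit 5) (nat_lit 51) (nat_lit 5) (nat_lit 49) (nat_lit 4) (nat_lit 379) (nat_lit 277) (nat_lit 244)))))) (XT.nd (nat_lit 546) (nat_lit 608) (nat_lit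 0) (XT.nd (nat_lit 234) (nat_lit 304) (nat_lit 0) (XT.nd (nat_lit 78) (nat_lit 228) (nat_lit 0) (XT.lf (nat_lit 0) (nat_lit 8335841828) (nat_lit 152) (nat_lit 3333753327) (nat_lit 228) (nat_lit 3937728603) (nat_lit 46) (nat_lit 5) (nat_lit 48) (nat_lit 5) (nat_lit 49) (nat_lit 4) (nat_lit 380) (nat_lit 277) (nat_lit 243)) (XT.nd (nat_lit 78) (nat_lit 0) (nat_lit 0) (XT.lf (nat_lit 0) (nat_lit 403676134) (nat_lit 228) (nat_lit 14337471266) (nat_lit 76) (nat_lit 1182626072) (nat_lit 43) (nat_lit 5) (nat_lit 46) (nat_lit 5) (nat_lit 44) (nat_lit 4) (nat_lit 381) (nat_lit 277) (nat_lit 242)) (XT.lf (nat_lit 0) (nat_lit 4840121472) (nat_lit 228) (nat_lit 5574870673) (nat_lit 76) (nat_lit 5832248615) (nat_lit 43) (nat_lit 5) (nat_lit 46) (nat_lit 5) (nat_lit 44) (nat_lit 4) (nat_lit 382) (nat_lit 277) (nat_lit 241)))) (XT.nd (nat_lit 156) (nat_lit 228) (nat_lit 0) (XT.nd (nat_lit 78) (nat_lit 0) (nat_lit 0) (XT.lf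 (nat_lit 0) (nat_lit 3406881605) (nat_lit 76) (nat_lit 5974149663) (nat_lit 152) (nat_lit 7200251310) (nat_lit 42) (nat_lit 5) (nat_lit 43) (nat_lit 5) (nat_lit 44) (nat_lit 4) (nat_lit 383) (nat_lit 277) (nat_lit 240)) (XT.lf (nat_lit 0) (nat_lit 12663239433) (nat_lit 76) (nat_lit 1390584971) (nat_lit 152) (nat_lit 2871662867) (nat_lit 42) (nat_lit 5) (nat_lit 43) (nat_lit 5) (nat_lit 44) (nat_lit 4) (nat_lit 384) (nat_lit 277) (nat_lit 239))) (XT.nd (nat_lit 78) (nat_lit 0) (nat_lit 0) (XT.lf (nat_lit 0) (nat_lit 1575534103) (nat_lit 228) (nat_lit 12421815710) (nat_lit 76) (nat_lit 3281629911) (nat_lit 39) (nat_lit 5) (nat_lit 42) (nat_lit 5) (nat_lit 40) (nat_lit 4) (nat_lit 385) (nat_lit 277) (nat_lit 238)) (XT.lf (nat_lit 0) (nat_lit 6096454558) (nat_lit 228) (nat_lit 3454291883) (nat_lit 76) (nat_lit 8091547130) (nat_lit 39) (nat_lit 5) (nat_lit 42) (nat_lit 5) (nat_lit 40) (nat_lit 4) (nat_lit 386)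 (nat_lit 277) (nat_lit 237))))) (XT.nd (nat_lit 234) (nat_lit 304) (nat_lit 0) (XT.nd (nat_lit 78) (nat_lit 228) (nat_lit 0) (XT.lf (nat_lit 0) (nat_lit 5790979306) (nat_lit 76) (nat_lit 4960204805) (nat_lit 152) (nat_lit 7265387322) (nat_lit 38) (nat_lit 5) (nat_lit 39) (nat_lit 5) (nat_lit 40) (nat_lit 4) (nat_lit 387) (nat_lit 277) (nat_lit 236)) (XT.nd (nat_lit 78) (nat_lit 228) (nat_lit 0) (XT.lf (nat_lit 0) (nat_lit 15281159376) (nat_lit 76) (nat_lit 242474529) (nat_lit 152) (nat_lit 2879111125) (nat_lit 38) (nat_lit 5) (nat_lit 39) (nat_lit 5) (nat_lit 40) (nat_lit 4) (nat_lit 388) (nat_lit 277) (nat_lit 235)) (XT.lf (nat_lit 0) (nat_lit 1655944133) (nat_lit 228) (nat_lit 12584012623) (nat_lit 76) (nat_lit 4558608626) (nat_lit 35) (nat_lit 5) (nat_lit 38) (nat_lit 5) (nat_lit 36) (nat_lit 4) (nat_lit 389) (nat_lit 277) (nat_lit 234)))) (XT.nd (nat_lit 156) (nat_lit 228) (nat_lit 0) (XT.nd (nat_lit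 78) (nat_lit 76) (nat_lit 0) (XT.lf (nat_lit 0) (nat_lit 6247936282) (nat_lit 228) (nat_lit 3443368701) (nat_lit 76) (nat_lit 9514746528) (nat_lit 35) (nat_lit 5) (nat_lit 38) (nat_lit 5) (nat_lit 36) (nat_lit 4) (nat_lit 390) (nat_lit 277) (nat_lit 233)) (XT.lf (nat_lit 0) (nat_lit 5989735167) (nat_lit 76) (nat_lit 4991663798) (nat_lit 152) (nat_lit 8644260599) (nat_lit 34) (nat_lit 5) (nat_lit 35) (nat_lit 5) (nat_lit 36) (nat_lit 4) (nat_lit 391) (nat_lit 277) (nat_lit 232))) (XT.nd (nat_lit 78) (nat_lit 228) (nat_lit 0) (XT.lf (nat_lit 0) (nat_lit 15678744223) (nat_lit 76) (nat_lit 159656371) (nat_lit 152) (nat_lit 4220017623) (nat_lit 34) (nat_lit 5) (nat_lit 35) (nat_lit 5) (nat_lit 36) (nat_lit 4) (nat_lit 392) (nat_lit 277) (nat_lit 231)) (XT.lf (nat_lit 0) (nat_lit 374142307) (nat_lit 228) (nat_lit 15394803024) (nat_lit 76) (nat_lit 4733812112) (nat_lit 31) (nat_lit 5) (nat_lit 34) (nat_lit 5)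 (nat_lit 32) (nat_lit 4) (nat_lit 393) (nat_lit 277) (nat_lit 230))))))) (XT.nd (nat_lit 1014) (nat_lit 532) (nat_lit 0) (XT.nd (nat_lit 468) (nat_lit 304) (nat_lit 0) (XT.nd (nat_lit 234) (nat_lit 228) (nat_lit 0) (XT.nd (nat_lit 78) (nat_lit 76) (nat_lit 0) (XT.lf (nat_lit 0) (nat_lit 5015539606) (nat_lit 228) (nat_lit 6128985080) (nat_lit 76) (nat_lit 9814829465) (nat_lit 31) (nat_lit 5) (nat_lit 34) (nat_lit 5) (nat_lit 32) (nat_lit 4) (nat_lit 394) (nat_lit 277) (nat_lit 229)) (XT.nd (nat_lit 78) (nat_lit 0) (nat_lit 0) (XT.lf (nat_lit 0) (nat_lit 3387635939) (nat_lit 76) (nat_lit 6390607871) (nat_lit 152) (nat_lit 11651950473) (nat_lit 30) (nat_lit 5) (nat_lit 31) (nat_lit 5) (nat_lit 32) (nat_lit 4) (nat_lit 395) (nat_lit 277) (nat_lit 228)) (XT.lf (nat_lit 0) (nat_lit 13223031808) (nat_lit 76) (nat_lit 1472772030) (nat_lit 152) (nat_lit 7219003796) (nat_lit 30) (nat_lit 5) (nat_lit 31) (nat_lit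 5) (nat_lit 32) (nat_lit 4) (nat_lit 396) (nat_lit 277) (nat_lit 227)))) (XT.nd (nat_lit 78) (nat_lit 76) (nat_lit 0) (XT.lf (nat_lit 0) (nat_lit 830464676) (nat_lit 152) (nat_lit 18924084880) (nat_lit 152) (nat_lit 2659607106) (nat_lit 28) (nat_lit 4) (nat_lit 30) (nat_lit 5) (nat_lit 30) (nat_lit 4) (nat_lit 397) (nat_lit 277) (nat_lit 226)) (XT.nd (nat_lit 78) (nat_lit 0) (nat_lit 0) (XT.lf (nat_lit 0) (nat_lit 2051267620) (nat_lit 228) (nat_lit 12235160017) (nat_lit 76) (nat_lit 8639844752) (nat_lit 27) (nat_lit 5) (nat_lit 30) (nat_lit 5) (nat_lit 28) (nat_lit 4) (nat_lit 398) (nat_lit 277) (nat_lit 225)) (XT.lf (nat_lit 0) (nat_lit 6802650184) (nat_lit 228) (nat_lit 2720684004) (nat_lit 76) (nat_lit 13931054749) (nat_lit 27) (nat_lit 5) (nat_lit 30) (nat_lit 5) (nat_lit 28) (nat_lit 4) (nat_lit 399) (nat_lit 277) (nat_lit 224))))) (XT.nd (nat_lit 234) (nat_lit 152) (nat_lit 0) (XT.nd (nat_lit 78)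 (nat_lit 76) (nat_lit 0) (XT.lf (nat_lit 0) (nat_lit 7132802100) (nat_lit 76) (nat_lit 4586353552) (nat_lit 152) (nat_lit 12278522149) (nat_lit 26) (nat_lit 5) (nat_lit 27) (nat_lit 5) (nat_lit 28) (nat_lit 4) (nat_lit 400) (nat_lit 277) (nat_lit 223)) (XT.nd (nat_lit 78) (nat_lit 76) (nat_lit 0) (XT.lf (nat_lit 0) (nat_lit 16769859154) (nat_lit 152) (nat_lit 7309606630) (nat_lit 0) (nat_lit 478204534) (nat_lit 26) (nat_lit 5) (nat_lit 28) (nat_lit 4) (nat_lit 26) (nat_lit 4) (nat_lit 401) (nat_lit 277) (nat_lit 222)) (XT.lf (nat_lit 0) (nat_lit 2451482820) (nat_lit 76) (nat_lit 19545073708) (nat_lit 76) (nat_lit 3137177800) (nat_lit 25) (nat_lit 4) (nat_lit 26) (nat_lit 5) (nat_lit 26) (nat_lit 4) (nat_lit 402) (nat_lit 277) (nat_lit 221)))) (XT.nd (nat_lit 156) (nat_lit 76) (nat_lit 0) (XT.nd (nat_lit 78) (nat_lit 0) (nat_lit 0) (XT.lf (nat_lit 0) (nat_lit 1650823141) (nat_lit 152) (nat_lit 13169580549)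 (nat_lit 76) (nat_lit 10905302325) (nat_lit 24) (nat_lit 5) (nat_lit 26) (nat_lit 5) (nat_lit 25) (nat_lit 4) (nat_lit 403) (nat_lit 277) (nat_lit 220)) (XT.lf (nat_lit 0) (nat_lit 6476264849) (nat_lit 152) (nat_lit 3483502446) (nat_lit 76) (nat_lit 16376037474) (nat_lit 24) (nat_lit 5) (nat_lit 26) (nat_lit 5) (nat_lit 25) (nat_lit 4) (nat_lit 404) (nat_lit 277) (nat_lit 219))) (XT.nd (nat_lit 78) (nat_lit 0) (nat_lit 0) (XT.lf (nat_lit 0) (nat_lit 6542266008) (nat_lit 76) (nat_lit 4925203619) (nat_lit 152) (nat_lit 15496112106) (nat_lit 23) (nat_lit 5) (nat_lit 24) (nat_lit 5) (nat_lit 25) (nat_lit 4) (nat_lit 405) (nat_lit 277) (nat_lit 218)) (XT.lf (nat_lit 0) (nat_lit 16604672763) (nat_lit 152) (nat_lit 10750455173) (nat_lit 0) (nat_lit 255181292) (nat_lit 23) (nat_lit 5) (nat_lit 25) (nat_lit 4) (nat_lit 23) (nat_lit 4) (nat_lit 406) (nat_lit 277) (nat_lit 217)))))) (XT.nd (nat_lit 546) (nat_lit 304)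 (nat_lit 0) (XT.nd (nat_lit 234) (nat_lit 76) (nat_lit 0) (XT.nd (nat_lit 78) (nat_lit 152) (nat_lit 0) (XT.lf (nat_lit 0) (nat_lit 21904207153) (nat_lit 152) (nat_lit 914624446) (nat_lit 0) (nat_lit 5457365433) (nat_lit 23) (nat_lit 5) (nat_lit 25) (nat_lit 4) (nat_lit 23) (nat_lit 4) (nat_lit 407) (nat_lit 277) (nat_lit 216)) (XT.nd (nat_lit 78) (nat_lit 76) (nat_lit 0) (XT.lf (nat_lit 0) (nat_lit 9324060952) (nat_lit 76) (nat_lit 18088927015) (nat_lit 76) (nat_lit 1547570490) (nat_lit 22) (nat_lit 4) (nat_lit 23) (nat_lit 5) (nat_lit 23) (nat_lit 4) (nat_lit 408) (nat_lit 277) (nat_lit 215)) (XT.lf (nat_lit 0) (nat_lit 3324823992) (nat_lit 152) (nat_lit 9883725767) (nat_lit 76) (nat_lit 16456818479) (nat_lit 21) (nat_lit 5) (nat_lit 23) (nat_lit 5) (nat_lit 22) (nat_lit 4) (nat_lit 409) (nat_lit 277) (nat_lit 214)))) (XT.nd (nat_lit 156) (nat_lit 0) (nat_lit 0) (XT.nd (nat_lit 78) (nat_lit 0) (nat_lit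 0) (XT.lf (nat_lit 0) (nat_lit 75719981) (nat_lit 76) (nat_lit 8199121260) (nat_lit 152) (nat_lit 22117149120) (nat_lit 20) (nat_lit 5) (nat_lit 21) (nat_lit 5) (nat_lit 22) (nat_lit 4) (nat_lit 410) (nat_lit 277) (nat_lit 213)) (XT.lf (nat_lit 0) (nat_lit 10465198072) (nat_lit 76) (nat_lit 2970220769) (nat_lit 152) (nat_lit 17703134774) (nat_lit 20) (nat_lit 5) (nat_lit 21) (nat_lit 5) (nat_lit 22) (nat_lit 4) (nat_lit 411) (nat_lit 277) (nat_lit 212))) (XT.nd (nat_lit 78) (nat_lit 0) (nat_lit 0) (XT.lf (nat_lit 0) (nat_lit 18737072791) (nat_lit 152) (nat_lit 10834442179) (nat_lit 0) (nat_lit 2336415163) (nat_lit 20) (nat_lit 5) (nat_lit 22) (nat_lit 4) (nat_lit 20) (nat_lit 4) (nat_lit 412) (nat_lit 277) (nat_lit 211)) (XT.lf (nat_lit 0) (nat_lit 24191300319) (nat_lit 152) (nat_lit 797797895) (nat_lit 0) (nat_lit 7711488031) (nat_lit 20) (nat_lit 5) (nat_lit 22) (nat_lit 4) (nat_lit 20) (nat_lit 4) (nat_lit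 413) (nat_lit 277) (nat_lit 210))))) (XT.nd (nat_lit 234) (nat_lit 152) (nat_lit 0) (XT.nd (nat_lit 78) (nat_lit 76) (nat_lit 0) (XT.lf (nat_lit 0) (nat_lit 9662447934) (nat_lit 76) (nat_lit 20204749105) (nat_lit 76) (nat_lit 3648087631) (nat_lit 19) (nat_lit 4) (nat_lit 20) (nat_lit 5) (nat_lit 20) (nat_lit 4) (nat_lit 414) (nat_lit 277) (nat_lit 209)) (XT.nd (nat_lit 78) (nat_lit 0) (nat_lit 0) (XT.lf (nat_lit 0) (nat_lit 1305766870) (nat_lit 152) (nat_lit 13980565586) (nat_lit 76) (nat_lit 19068503230) (nat_lit 18) (nat_lit 5) (nat_lit 20) (nat_lit 5) (nat_lit 19) (nat_lit 4) (nat_lit 415) (nat_lit 277) (nat_lit 208)) (XT.lf (nat_lit 0) (nat_lit 6301129827) (nat_lit 152) (nat_lit 3912416512) (nat_lit 76) (nat_lit 25005960400) (nat_lit 18) (nat_lit 5) (nat_lit 20) (nat_lit 5) (nat_lit 19) (nat_lit 4) (nat_lit 416) (nat_lit 277) (nat_lit 207)))) (XT.nd (nat_lit 156) (nat_lit 76) (nat_lit 0) (XT.nd (nat_lit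 78) (nat_lit 0) (nat_lit 0) (XT.lf (nat_lit 0) (nat_lit 6522758051) (nat_lit 76) (nat_lit 4953496137) (nat_lit 152) (nat_lit 24632970185) (nat_lit 17) (nat_lit 5) (nat_lit 18) (nat_lit 5) (nat_lit 19) (nat_lit 4) (nat_lit 417) (nat_lit 277) (nat_lit 206)) (XT.lf (nat_lit 0) (nat_lit 16818275771) (nat_lit 152) (nat_lit 19740500577) (nat_lit 0) (nat_lit 466511248) (nat_lit 17) (nat_lit 5) (nat_lit 19) (nat_lit 4) (nat_lit 17) (nat_lit 4) (nat_lit 418) (nat_lit 277) (nat_lit 205))) (XT.nd (nat_lit 78) (nat_lit 76) (nat_lit 0) (XT.lf (nat_lit 0) (nat_lit 22337836417) (nat_lit 152) (nat_lit 9708769301) (nat_lit 0) (nat_lit 5921711911) (nat_lit 17) (nat_lit 5) (nat_lit 19) (nat_lit 4) (nat_lit 17) (nat_lit 4) (nat_lit 419) (nat_lit 277) (nat_lit 204)) (XT.lf (nat_lit 0) (nat_lit 576355912) (nat_lit 76) (nat_lit 27421327383) (nat_lit 76) (nat_lit 10942717457) (nat_lit 16) (nat_lit 4) (nat_lit 17) (nat_lit 5) (nat_lit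 17) (nat_lit 4) (nat_lit 420) (nat_lit 277) (nat_lit 203))))))))
noncomputable def xc52 : XT := (XT.nd (nat_lit 2028) (nat_lit 0) (nat_lit 0) (XT.nd (nat_lit 1014) (nat_lit 228) (nat_lit 0) (XT.nd (nat_lit 468) (nat_lit 228) (nat_lit 0) (XT.nd (nat_lit 234) (nat_lit 76) (nat_lit 0) (XT.nd (nat_lit 78) (nat_lit 76) (nat_lit 0) (XT.lf (nat_lit 0) (nat_lit 11310826870) (nat_lit 76) (nat_lit 22584035922) (nat_lit 76) (nat_lit 6044760538) (nat_lit 16) (nat_lit 4) (nat_lit 17) (nat_lit 5) (nat_lit 17) (nat_lit 4) (nat_lit 421) (nat_lit 277) (nat_lit 202)) (XT.nd (nat_lit 78) (nat_lit 76) (nat_lit 0) (XT.lf (nat_lit 0) (nat_lit 22310799663) (nat_lit 76) (nat_lit 17628544108) (nat_lit 76) (nat_lit 1030370222) (nat_lit 16) (nat_lit 4) (nat_lit 17) (nat_lit 5) (nat_lit 17) (nat_lit 4) (nat_lit 422) (nat_lit 277) (nat_lit 201)) (XT.lf (nat_lit 0) (nat_lit 4024734880) (nat_lit 152) (nat_lit 8485145088) (nat_lit 76)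 (nat_lit 29520509104) (nat_lit 15) (nat_lit 5) (nat_lit 17) (nat_lit 5) (nat_lit 16) (nat_lit 4) (nat_lit 423) (nat_lit 277) (nat_lit 200)))) (XT.nd (nat_lit 78) (nat_lit 0) (nat_lit 0) (XT.lf (nat_lit 0) (nat_lit 1968191100) (nat_lit 76) (nat_lit 7233318990) (nat_lit 152) (nat_lit 33921349209) (nat_lit 14) (nat_lit 5) (nat_lit 15) (nat_lit 5) (nat_lit 16) (nat_lit 4) (nat_lit 424) (nat_lit 277) (nat_lit 199)) (XT.nd (nat_lit 78) (nat_lit 0) (nat_lit 0) (XT.lf (nat_lit 0) (nat_lit 12855741538) (nat_lit 76) (nat_lit 1735645847) (nat_lit 152) (nat_lit 29654984937) (nat_lit 14) (nat_lit 5) (nat_lit 15) (nat_lit 5) (nat_lit 16) (nat_lit 4) (nat_lit 425) (nat_lit 277) (nat_lit 198)) (XT.lf (nat_lit 0) (nat_lit 20153399582) (nat_lit 152) (nat_lit 21423767801) (nat_lit 0) (nat_lit 3826112774) (nat_lit 14) (nat_lit 5) (nat_lit 16) (nat_lit 4) (nat_lit 14) (nat_lit 4) (nat_lit 426) (nat_lit 277) (nat_lit 197)))))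 (XT.nd (nat_lit 234) (nat_lit 152) (nat_lit 0) (XT.nd (nat_lit 78) (nat_lit 76) (nat_lit 0) (XT.lf (nat_lit 0) (nat_lit 25872942449) (nat_lit 152) (nat_lit 11225906099) (nat_lit 0) (nat_lit 9496329073) (nat_lit 14) (nat_lit 5) (nat_lit 16) (nat_lit 4) (nat_lit 14) (nat_lit 4) (nat_lit 427) (nat_lit 277) (nat_lit 196)) (XT.nd (nat_lit 78) (nat_lit 76) (nat_lit 0) (XT.lf (nat_lit 0) (nat_lit 31738329556) (nat_lit 152) (nat_lit 771450837) (nat_lit 0) (nat_lit 15313826309) (nat_lit 14) (nat_lit 5) (nat_lit 16) (nat_lit 4) (nat_lit 14) (nat_lit 4) (nat_lit 428) (nat_lit 277) (nat_lit 195)) (XT.lf (nat_lit 0) (nat_lit 10146732239) (nat_lit 76) (nat_lit 27705490357) (nat_lit 76) (nat_lit 11234492088) (nat_lit 13) (nat_lit 4) (nat_lit 14) (nat_lit 5) (nat_lit 14) (nat_lit 4) (nat_lit 429) (nat_lit 277) (nat_lit 194)))) (XT.nd (nat_lit 156) (nat_lit 152) (nat_lit 0) (XT.nd (nat_lit 78) (nat_lit 0) (nat_lit 0) (XT.lf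 (nat_lit 0) (nat_lit 21360839316) (nat_lit 76) (nat_lit 22771762926) (nat_lit 76) (nat_lit 6255623860) (nat_lit 13) (nat_lit 4) (nat_lit 14) (nat_lit 5) (nat_lit 14) (nat_lit 4) (nat_lit 430) (nat_lit 277) (nat_lit 193)) (XT.lf (nat_lit 0) (nat_lit 32865315744) (nat_lit 76) (nat_lit 17712077218) (nat_lit 76) (nat_lit 1152112135) (nat_lit 13) (nat_lit 4) (nat_lit 14) (nat_lit 5) (nat_lit 14) (nat_lit 4) (nat_lit 431) (nat_lit 277) (nat_lit 192))) (XT.nd (nat_lit 78) (nat_lit 76) (nat_lit 0) (XT.lf (nat_lit 0) (nat_lit 4000877164) (nat_lit 152) (nat_lit 8480733970) (nat_lit 76) (nat_lit 40628935798) (nat_lit 12) (nat_lit 5) (nat_lit 14) (nat_lit 5) (nat_lit 13) (nat_lit 4) (nat_lit 432) (nat_lit 277) (nat_lit 191)) (XT.lf (nat_lit 0) (nat_lit 2201918434) (nat_lit 76) (nat_lit 7081698940) (nat_lit 152) (nat_lit 45249112943) (nat_lit 11) (nat_lit 5) (nat_lit 12) (nat_lit 5) (nat_lit 13) (nat_lit 4) (nat_lit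 433) (nat_lit 277) (nat_lit 190)))))) (XT.nd (nat_lit 468) (nat_lit 152) (nat_lit 0) (XT.nd (nat_lit 234) (nat_lit 76) (nat_lit 0) (XT.nd (nat_lit 78) (nat_lit 0) (nat_lit 0) (XT.lf (nat_lit 0) (nat_lit 13335460261) (nat_lit 76) (nat_lit 1452417626) (nat_lit 152) (nat_lit 41207812152) (nat_lit 11) (nat_lit 5) (nat_lit 12) (nat_lit 5) (nat_lit 13) (nat_lit 4) (nat_lit 434) (nat_lit 277) (nat_lit 189)) (XT.nd (nat_lit 78) (nat_lit 0) (nat_lit 0) (XT.lf (nat_lit 0) (nat_lit 20476903274) (nat_lit 152) (nat_lit 32783941606) (nat_lit 0) (nat_lit 4241106478) (nat_lit 11) (nat_lit 5) (nat_lit 13) (nat_lit 4) (nat_lit 11) (nat_lit 4) (nat_lit 435) (nat_lit 277) (nat_lit 188)) (XT.lf (nat_lit 0) (nat_lit 26329487684) (nat_lit 152) (nat_lit 22667140758) (nat_lit 0) (nat_lit 10056987290) (nat_lit 11) (nat_lit 5) (nat_lit 13) (nat_lit 4) (nat_lit 11) (nat_lit 4) (nat_lit 436) (nat_lit 277) (nat_lit 187)))) (XT.nd (nat_lit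 78) (nat_lit 76) (nat_lit 0) (XT.lf (nat_lit 0) (nat_lit 32336783501) (nat_lit 152) (nat_lit 12287025785) (nat_lit 0) (nat_lit 16028648544) (nat_lit 11) (nat_lit 5) (nat_lit 13) (nat_lit 4) (nat_lit 11) (nat_lit 4) (nat_lit 437) (nat_lit 277) (nat_lit 186)) (XT.nd (nat_lit 78) (nat_lit 76) (nat_lit 0) (XT.lf (nat_lit 0) (nat_lit 38504039817) (nat_lit 152) (nat_lit 1634526683) (nat_lit 0) (nat_lit 22161308198) (nat_lit 11) (nat_lit 5) (nat_lit 13) (nat_lit 4) (nat_lit 11) (nat_lit 4) (nat_lit 438) (nat_lit 277) (nat_lit 185)) (XT.lf (nat_lit 0) (nat_lit 9484746116) (nat_lit 76) (nat_lit 35443072562) (nat_lit 76) (nat_lit 19066751951) (nat_lit 10) (nat_lit 4) (nat_lit 11) (nat_lit 5) (nat_lit 11) (nat_lit 4) (nat_lit 439) (nat_lit 277) (nat_lit 184))))) (XT.nd (nat_lit 234) (nat_lit 152) (nat_lit 0) (XT.nd (nat_lit 78) (nat_lit 0) (nat_lit 0) (XT.lf (nat_lit 0) (nat_lit 20933591859) (nat_lit 76) (nat_lit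 30607768518) (nat_lit 76) (nat_lit 14198837234) (nat_lit 10) (nat_lit 4) (nat_lit 11) (nat_lit 5) (nat_lit 11) (nat_lit 4) (nat_lit 440) (nat_lit 277) (nat_lit 183)) (XT.nd (nat_lit 78) (nat_lit 0) (nat_lit 0) (XT.lf (nat_lit 0) (nat_lit 32689484106) (nat_lit 76) (nat_lit 25644934857) (nat_lit 76) (nat_lit 9204342726) (nat_lit 10) (nat_lit 4) (nat_lit 11) (nat_lit 5) (nat_lit 11) (nat_lit 4) (nat_lit 441) (nat_lit 277) (nat_lit 182)) (XT.lf (nat_lit 0) (nat_lit 44762694995) (nat_lit 76) (nat_lit 20550235124) (nat_lit 76) (nat_lit 4078904307) (nat_lit 10) (nat_lit 4) (nat_lit 11) (nat_lit 5) (nat_lit 11) (nat_lit 4) (nat_lit 442) (nat_lit 277) (nat_lit 181)))) (XT.nd (nat_lit 156) (nat_lit 76) (nat_lit 0) (XT.nd (nat_lit 78) (nat_lit 0) (nat_lit 0) (XT.lf (nat_lit 0) (nat_lit 1158892333) (nat_lit 152) (nat_lit 14148622765) (nat_lit 76) (nat_lit 55993179061) (nat_lit 9) (nat_lit 5) (nat_lit 11) (nat_lit 5)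 (nat_lit 10) (nat_lit 4) (nat_lit 443) (nat_lit 277) (nat_lit 180)) (XT.lf (nat_lit 0) (nat_lit 6454381896) (nat_lit 152) (nat_lit 3427753112) (nat_lit 76) (nat_lit 63383998319) (nat_lit 9) (nat_lit 5) (nat_lit 11) (nat_lit 5) (nat_lit 10) (nat_lit 4) (nat_lit 444) (nat_lit 277) (nat_lit 179))) (XT.nd (nat_lit 78) (nat_lit 0) (nat_lit 0) (XT.lf (nat_lit 0) (nat_lit 7732943789) (nat_lit 76) (nat_lit 4233175621) (nat_lit 152) (nat_lit 63322696149) (nat_lit 8) (nat_lit 5) (nat_lit 9) (nat_lit 5) (nat_lit 10) (nat_lit 4) (nat_lit 445) (nat_lit 277) (nat_lit 178)) (XT.lf (nat_lit 0) (nat_lit 17676485695) (nat_lit 152) (nat_lit 58120724030) (nat_lit 0) (nat_lit 1573971579) (nat_lit 8) (nat_lit 5) (nat_lit 10) (nat_lit 4) (nat_lit 8) (nat_lit 4) (nat_lit 446) (nat_lit 277) (nat_lit 177))))))) (XT.nd (nat_lit 39624) (nat_lit 0) (nat_lit 4484) (XT.nd (nat_lit 39078) (nat_lit 0) (nat_lit 7144) (XT.nd (nat_lit 38844)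 (nat_lit 0) (nat_lit 9196) (XT.nd (nat_lit 78) (nat_lit 0) (nat_lit 0) (XT.lf (nat_lit 0) (nat_lit 23583650290) (nat_lit 152) (nat_lit 48476211409) (nat_lit 0) (nat_lit 7455393008) (nat_lit 8) (nat_lit 5) (nat_lit 10) (nat_lit 4) (nat_lit 8) (nat_lit 4) (nat_lit 447) (nat_lit 277) (nat_lit 176)) (XT.nd (nat_lit 78) (nat_lit 0) (nat_lit 0) (XT.lf (nat_lit 0) (nat_lit 29652082923) (nat_lit 152) (nat_lit 38573214789) (nat_lit 0) (nat_lit 13498832277) (nat_lit 8) (nat_lit 5) (nat_lit 10) (nat_lit 4) (nat_lit 8) (nat_lit 4) (nat_lit 448) (nat_lit 277) (nat_lit 175)) (XT.lf (nat_lit 0) (nat_lit 35887086108) (nat_lit 152) (nat_lit 28403081067) (nat_lit 0) (nat_lit 19709570058) (nat_lit 8) (nat_lit 5) (nat_lit 10) (nat_lit 4) (nat_lit 8) (nat_lit 4) (nat_lit 449) (nat_lit 277) (nat_lit 174)))) (XT.nd (nat_lit 78) (nat_lit 380) (nat_lit 0) (XT.lf (nat_lit 0) (nat_lit 1698513675) (nat_lit 380) (nat_lit 1315718636)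 (nat_lit 380) (nat_lit 1315718636) (nat_lit 134) (nat_lit 4) (nat_lit 139) (nat_lit 5) (nat_lit 139) (nat_lit 4) (nat_lit 344) (nat_lit 278) (nat_lit 278)) (XT.nd (nat_lit 78) (nat_lit 0) (nat_lit 0) (XT.lf (nat_lit 0) (nat_lit 1279517945) (nat_lit 380) (nat_lit 7215414711) (nat_lit 0) (nat_lit 273796249) (nat_lit 129) (nat_lit 5) (nat_lit 134) (nat_lit 4) (nat_lit 129) (nat_lit 4) (nat_lit 345) (nat_lit 278) (nat_lit 277)) (XT.lf (nat_lit 0) (nat_lit 5237008933) (nat_lit 380) (nat_lit 388758433) (nat_lit 0) (nat_lit 3254858407) (nat_lit 129) (nat_lit 5) (nat_lit 134) (nat_lit 4) (nat_lit 129) (nat_lit 4) (nat_lit 346) (nat_lit 278) (nat_lit 276))))) (XT.nd (nat_lit 234) (nat_lit 988) (nat_lit 0) (XT.nd (nat_lit 78) (nat_lit 608) (nat_lit 0) (XT.lf (nat_lit 0) (nat_lit 279817465) (nat_lit 456) (nat_lit 2362110227) (nat_lit 76) (nat_lit 6354847100) (nat_lit 123) (nat_lit 5) (nat_lit 129) (nat_lit 5) (nat_lit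 124) (nat_lit 4) (nat_lit 347) (nat_lit 278) (nat_lit 275)) (XT.nd (nat_lit 78) (nat_lit 304) (nat_lit 0) (XT.lf (nat_lit 0) (nat_lit 4206995022) (nat_lit 380) (nat_lit 4440969632) (nat_lit 0) (nat_lit 468628514) (nat_lit 119) (nat_lit 5) (nat_lit 124) (nat_lit 4) (nat_lit 119) (nat_lit 4) (nat_lit 348) (nat_lit 278) (nat_lit 274)) (XT.lf (nat_lit 0) (nat_lit 2621954261) (nat_lit 304) (nat_lit 5612269828) (nat_lit 304) (nat_lit 1006358950) (nat_lit 115) (nat_lit 4) (nat_lit 119) (nat_lit 5) (nat_lit 119) (nat_lit 4) (nat_lit 349) (nat_lit 278) (nat_lit 273)))) (XT.nd (nat_lit 156) (nat_lit 608) (nat_lit 0) (XT.nd (nat_lit 78) (nat_lit 0) (nat_lit 0) (XT.lf (nat_lit 0) (nat_lit 463497270) (nat_lit 304) (nat_lit 2448662451) (nat_lit 380) (nat_lit 6456595344) (nat_lit 110) (nat_lit 5) (nat_lit 114) (nat_lit 5) (nat_lit 115) (nat_lit 4) (nat_lit 350) (nat_lit 278) (nat_lit 272)) (XT.lf (nat_lit 0) (nat_lit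 6911511975) (nat_lit 380) (nat_lit 1761412429) (nat_lit 0) (nat_lit 828084075) (nat_lit 110) (nat_lit 5) (nat_lit 115) (nat_lit 4) (nat_lit 110) (nat_lit 4) (nat_lit 351) (nat_lit 278) (nat_lit 271))) (XT.nd (nat_lit 78) (nat_lit 228) (nat_lit 0) (XT.lf (nat_lit 0) (nat_lit 1354727535) (nat_lit 380) (nat_lit 4104132937) (nat_lit 76) (nat_lit 4178355912) (nat_lit 105) (nat_lit 5) (nat_lit 110) (nat_lit 5) (nat_lit 106) (nat_lit 4) (nat_lit 352) (nat_lit 278) (nat_lit 270)) (XT.lf (nat_lit 0) (nat_lit 3207860347) (nat_lit 228) (nat_lit 2117480330) (nat_lit 304) (nat_lit 4452634306) (nat_lit 102) (nat_lit 5) (nat_lit 105) (nat_lit 5) (nat_lit 106) (nat_lit 4) (nat_lit 353) (nat_lit 278) (nat_lit 269)))))) (XT.nd (nat_lit 546) (nat_lit 1140) (nat_lit 0) (XT.nd (nat_lit 234) (nat_lit 912) (nat_lit 0) (XT.nd (nat_lit 78) (nat_lit 304) (nat_lit 0) (XT.lf (nat_lit 0) (nat_lit 768115411) (nat_lit 304) (nat_lit 8621096166)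 (nat_lit 304) (nat_lit 534556379) (nat_lit 98) (nat_lit 4) (nat_lit 102) (nat_lit 5) (nat_lit 102) (nat_lit 4) (nat_lit 354) (nat_lit 278) (nat_lit 268)) (XT.nd (nat_lit 78) (nat_lit 228) (nat_lit 0) (XT.lf (nat_lit 0) (nat_lit 3433264633) (nat_lit 380) (nat_lit 1801860117) (nat_lit 76) (nat_lit 4837818509) (nat_lit 97) (nat_lit 5) (nat_lit 102) (nat_lit 5) (nat_lit 98) (nat_lit 4) (nat_lit 355) (nat_lit 278) (nat_lit 267)) (XT.lf (nat_lit 0) (nat_lit 5747551972) (nat_lit 228) (nat_lit 1732172075) (nat_lit 304) (nat_lit 2747633321) (nat_lit 94) (nat_lit 5) (nat_lit 97) (nat_lit 5) (nat_lit 98) (nat_lit 4) (nat_lit 356) (nat_lit 278) (nat_lit 266)))) (XT.nd (nat_lit 156) (nat_lit 304) (nat_lit 0) (XT.nd (nat_lit 78) (nat_lit 228) (nat_lit 0) (XT.lf (nat_lit 0) (nat_lit 1218270164) (nat_lit 380) (nat_lit 7315088586) (nat_lit 76) (nat_lit 1853261129) (nat_lit 89) (nat_lit 5) (nat_lit 94) (nat_lit 5) (nat_lit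 90) (nat_lit 4) (nat_lit 357) (nat_lit 278) (nat_lit 265)) (XT.lf (nat_lit 0) (nat_lit 218341752) (nat_lit 228) (nat_lit 5010720778) (nat_lit 304) (nat_lit 5321377492) (nat_lit 86) (nat_lit 5) (nat_lit 89) (nat_lit 5) (nat_lit 90) (nat_lit 4) (nat_lit 358) (nat_lit 278) (nat_lit 264))) (XT.nd (nat_lit 78) (nat_lit 304) (nat_lit 0) (XT.lf (nat_lit 0) (nat_lit 7995978555) (nat_lit 228) (nat_lit 1355444716) (nat_lit 304) (nat_lit 1368043269) (nat_lit 86) (nat_lit 5) (nat_lit 89) (nat_lit 5) (nat_lit 90) (nat_lit 4) (nat_lit 359) (nat_lit 278) (nat_lit 263)) (XT.lf (nat_lit 0) (nat_lit 2642129449) (nat_lit 304) (nat_lit 5860709951) (nat_lit 76) (nat_lit 2390242113) (nat_lit 82) (nat_lit 5) (nat_lit 86) (nat_lit 5) (nat_lit 83) (nat_lit 4) (nat_lit 360) (nat_lit 278) (nat_lit 262))))) (XT.nd (nat_lit 234) (nat_lit 608) (nat_lit 0) (XT.nd (nat_lit 78) (nat_lit 304) (nat_lit 0) (XT.lf (nat_lit 0) (nat_lit 1884960255)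 (nat_lit 228) (nat_lit 4839087999) (nat_lit 304) (nat_lit 4348108851) (nat_lit 79) (nat_lit 5) (nat_lit 82) (nat_lit 5) (nat_lit 83) (nat_lit 4) (nat_lit 361) (nat_lit 278) (nat_lit 261)) (XT.nd (nat_lit 78) (nat_lit 304) (nat_lit 0) (XT.lf (nat_lit 0) (nat_lit 9854175807) (nat_lit 228) (nat_lit 1054155286) (nat_lit 304) (nat_lit 348902541) (nat_lit 79) (nat_lit 5) (nat_lit 82) (nat_lit 5) (nat_lit 83) (nat_lit 4) (nat_lit 362) (nat_lit 278) (nat_lit 260)) (XT.lf (nat_lit 0) (nat_lit 3710061359) (nat_lit 304) (nat_lit 4895106699) (nat_lit 76) (nat_lit 2841230916) (nat_lit 75) (nat_lit 5) (nat_lit 79) (nat_lit 5) (nat_lit 76) (nat_lit 4) (nat_lit 363) (nat_lit 278) (nat_lit 259)))) (XT.nd (nat_lit 156) (nat_lit 380) (nat_lit 0) (XT.nd (nat_lit 78) (nat_lit 76) (nat_lit 0) (XT.lf (nat_lit 0) (nat_lit 3050319489) (nat_lit 152) (nat_lit 4810364763) (nat_lit 228) (nat_lit 3781167977) (nat_lit 73) (nat_lit 5)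 (nat_lit 75) (nat_lit 5) (nat_lit 76) (nat_lit 4) (nat_lit 364) (nat_lit 278) (nat_lit 258)) (XT.lf (nat_lit 0) (nat_lit 259960563) (nat_lit 228) (nat_lit 638230613) (nat_lit 76) (nat_lit 10945725378) (nat_lit 72) (nat_lit 5) (nat_lit 75) (nat_lit 5) (nat_lit 73) (nat_lit 5) (nat_lit 365) (nat_lit 278) (nat_lit 257))) (XT.nd (nat_lit 78) (nat_lit 152) (nat_lit 0) (XT.lf (nat_lit 0) (nat_lit 4374847170) (nat_lit 304) (nat_lit 4542344021) (nat_lit 76) (nat_lit 3132894499) (nat_lit 69) (nat_lit 5) (nat_lit 73) (nat_lit 5) (nat_lit 70) (nat_lit 4) (nat_lit 366) (nat_lit 278) (nat_lit 256)) (XT.lf (nat_lit 0) (nat_lit 3585417524) (nat_lit 152) (nat_lit 5003486734) (nat_lit 228) (nat_lit 3674284955) (nat_lit 67) (nat_lit 5) (nat_lit 69) (nat_lit 5) (nat_lit 70) (nat_lit 4) (nat_lit 367) (nat_lit 278) (nat_lit 255))))))))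
noncomputable def xc53 : XT := (XT.nd (nat_lit 2028) (nat_lit 1140) (nat_lit 0) (XT.nd (nat_lit 1014) (nat_lit 1064) (nat_lit 0) (XT.nd (nat_lit 468) (nat_lit 760) (nat_lit 0) (XT.nd (nat_lit 234) (nat_lit 380) (nat_lit 0) (XT.nd (nat_lit 78) (nat_lit 380) (nat_lit 0) (XT.lf (nat_lit 0) (nat_lit 410390266) (nat_lit 228) (nat_lit 560722152) (nat_lit 76) (nat_lit 11512292134) (nat_lit 66) (nat_lit 5) (nat_lit 69) (nat_lit 5) (nat_lit 67) (nat_lit 5) (nat_lit 368) (nat_lit 278) (nat_lit 254)) (XT.nd (nat_lit 78) (nat_lit 152) (nat_lit 0) (XT.lf (nat_lit 0) (nat_lit 4578137203) (nat_lit 304) (nat_lit 4945874577) (nat_lit 76) (nat_lit 3184111016) (nat_lit 63) (nat_lit 5) (nat_lit 67) (nat_lit 5) (nat_lit 64) (nat_lit 4) (nat_lit 369) (nat_lit 278) (nat_lit 253)) (XT.lf (nat_lit 0) (nat_lit 3340872299) (nat_lit 152) (nat_lit 5506196112) (nat_lit 228) (nat_lit 4093248302) (nat_lit 61) (nat_lit 5) (nat_lit 63)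 (nat_lit 5) (nat_lit 64) (nat_lit 4) (nat_lit 370) (nat_lit 278) (nat_lit 252)))) (XT.nd (nat_lit 78) (nat_lit 304) (nat_lit 0) (XT.lf (nat_lit 0) (nat_lit 42677146) (nat_lit 228) (nat_lit 1323364651) (nat_lit 76) (nat_lit 11814053241) (nat_lit 60) (nat_lit 5) (nat_lit 63) (nat_lit 5) (nat_lit 61) (nat_lit 5) (nat_lit 371) (nat_lit 278) (nat_lit 251)) (XT.nd (nat_lit 78) (nat_lit 152) (nat_lit 0) (XT.lf (nat_lit 0) (nat_lit 4248900930) (nat_lit 228) (nat_lit 6272044380) (nat_lit 76) (nat_lit 2904067961) (nat_lit 58) (nat_lit 5) (nat_lit 61) (nat_lit 5) (nat_lit 59) (nat_lit 4) (nat_lit 372) (nat_lit 278) (nat_lit 250)) (XT.lf (nat_lit 0) (nat_lit 2143249255) (nat_lit 152) (nat_lit 6417076917) (nat_lit 228) (nat_lit 5117599034) (nat_lit 56) (nat_lit 5) (nat_lit 58) (nat_lit 5) (nat_lit 59) (nat_lit 4) (nat_lit 373) (nat_lit 278) (nat_lit 249))))) (XT.nd (nat_lit 234) (nat_lit 532) (nat_lit 0) (XT.nd (nat_lit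 78) (nat_lit 228) (nat_lit 0) (XT.lf (nat_lit 0) (nat_lit 10821979004) (nat_lit 152) (nat_lit 2174710098) (nat_lit 228) (nat_lit 941883668) (nat_lit 56) (nat_lit 5) (nat_lit 58) (nat_lit 5) (nat_lit 59) (nat_lit 4) (nat_lit 374) (nat_lit 278) (nat_lit 248)) (XT.nd (nat_lit 78) (nat_lit 0) (nat_lit 0) (XT.lf (nat_lit 0) (nat_lit 3301595116) (nat_lit 228) (nat_lit 8714130909) (nat_lit 76) (nat_lit 2190119028) (nat_lit 53) (nat_lit 5) (nat_lit 56) (nat_lit 5) (nat_lit 54) (nat_lit 4) (nat_lit 375) (nat_lit 278) (nat_lit 247)) (XT.lf (nat_lit 0) (nat_lit 7640694986) (nat_lit 228) (nat_lit 205089110) (nat_lit 76) (nat_lit 6635468961) (nat_lit 53) (nat_lit 5) (nat_lit 56) (nat_lit 5) (nat_lit 54) (nat_lit 4) (nat_lit 376) (nat_lit 278) (nat_lit 246)))) (XT.nd (nat_lit 156) (nat_lit 152) (nat_lit 0) (XT.nd (nat_lit 78) (nat_lit 228) (nat_lit 0) (XT.lf (nat_lit 0) (nat_lit 8614818234) (nat_lit 152) (nat_lit 3513817591)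 (nat_lit 228) (nat_lit 2635741754) (nat_lit 51) (nat_lit 5) (nat_lit 53) (nat_lit 5) (nat_lit 54) (nat_lit 4) (nat_lit 377) (nat_lit 278) (nat_lit 245)) (XT.lf (nat_lit 0) (nat_lit 1634008361) (nat_lit 228) (nat_lit 12497002454) (nat_lit 76) (nat_lit 925353583) (nat_lit 48) (nat_lit 5) (nat_lit 51) (nat_lit 5) (nat_lit 49) (nat_lit 4) (nat_lit 378) (nat_lit 278) (nat_lit 244))) (XT.nd (nat_lit 78) (nat_lit 152) (nat_lit 0) (XT.lf (nat_lit 0) (nat_lit 6012718145) (nat_lit 228) (nat_lit 3874173253) (nat_lit 76) (nat_lit 5468434344) (nat_lit 48) (nat_lit 5) (nat_lit 51) (nat_lit 5) (nat_lit 49) (nat_lit 4) (nat_lit 379) (nat_lit 278) (nat_lit 243)) (XT.lf (nat_lit 0) (nat_lit 4995070271) (nat_lit 152) (nat_lit 5513928179) (nat_lit 228) (nat_lit 5154683920) (nat_lit 46) (nat_lit 5) (nat_lit 48) (nat_lit 5) (nat_lit 49) (nat_lit 4) (nat_lit 380) (nat_lit 278) (nat_lit 242)))))) (XT.nd (nat_lit 468) (nat_lit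 532) (nat_lit 0) (XT.nd (nat_lit 234) (nat_lit 304) (nat_lit 0) (XT.nd (nat_lit 78) (nat_lit 228) (nat_lit 0) (XT.lf (nat_lit 0) (nat_lit 14101141395) (nat_lit 152) (nat_lit 1017096500) (nat_lit 228) (nat_lit 863722034) (nat_lit 46) (nat_lit 5) (nat_lit 48) (nat_lit 5) (nat_lit 49) (nat_lit 4) (nat_lit 381) (nat_lit 278) (nat_lit 241)) (XT.nd (nat_lit 78) (nat_lit 0) (nat_lit 0) (XT.lf (nat_lit 0) (nat_lit 3530943277) (nat_lit 228) (nat_lit 9174189978) (nat_lit 76) (nat_lit 3602307806) (nat_lit 43) (nat_lit 5) (nat_lit 46) (nat_lit 5) (nat_lit 44) (nat_lit 4) (nat_lit 382) (nat_lit 278) (nat_lit 240)) (XT.lf (nat_lit 0) (nat_lit 8009749252) (nat_lit 228) (nat_lit 311626089) (nat_lit 76) (nat_lit 8321976221) (nat_lit 43) (nat_lit 5) (nat_lit 46) (nat_lit 5) (nat_lit 44) (nat_lit 4) (nat_lit 383) (nat_lit 278) (nat_lit 239)))) (XT.nd (nat_lit 78) (nat_lit 228) (nat_lit 0) (XT.lf (nat_lit 0) (nat_lit 8886338652)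 (nat_lit 76) (nat_lit 3764147087) (nat_lit 152) (nat_lit 4338037621) (nat_lit 42) (nat_lit 5) (nat_lit 43) (nat_lit 5) (nat_lit 44) (nat_lit 4) (nat_lit 384) (nat_lit 278) (nat_lit 238)) (XT.nd (nat_lit 78) (nat_lit 0) (nat_lit 0) (XT.lf (nat_lit 0) (nat_lit 47771052) (nat_lit 228) (nat_lit 16417966936) (nat_lit 76) (nat_lit 879405869) (nat_lit 39) (nat_lit 5) (nat_lit 42) (nat_lit 5) (nat_lit 40) (nat_lit 4) (nat_lit 385) (nat_lit 278) (nat_lit 237)) (XT.lf (nat_lit 0) (nat_lit 4540373797) (nat_lit 228) (nat_lit 7501813166) (nat_lit 76) (nat_lit 5667125219) (nat_lit 39) (nat_lit 5) (nat_lit 42) (nat_lit 5) (nat_lit 40) (nat_lit 4) (nat_lit 386) (nat_lit 278) (nat_lit 236))))) (XT.nd (nat_lit 234) (nat_lit 304) (nat_lit 0) (XT.nd (nat_lit 78) (nat_lit 152) (nat_lit 0) (XT.lf (nat_lit 0) (nat_lit 1612037983) (nat_lit 76) (nat_lit 7515401904) (nat_lit 152) (nat_lit 8958184864) (nat_lit 38) (nat_lit 5) (nat_lit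 39) (nat_lit 5) (nat_lit 40) (nat_lit 4) (nat_lit 387) (nat_lit 278) (nat_lit 235)) (XT.nd (nat_lit 78) (nat_lit 152) (nat_lit 0) (XT.lf (nat_lit 0) (nat_lit 11052833171) (nat_lit 76) (nat_lit 2819889636) (nat_lit 152) (nat_lit 4599895212) (nat_lit 38) (nat_lit 5) (nat_lit 39) (nat_lit 5) (nat_lit 40) (nat_lit 4) (nat_lit 388) (nat_lit 278) (nat_lit 234)) (XT.lf (nat_lit 0) (nat_lit 1823300666) (nat_lit 152) (nat_lit 16920010536) (nat_lit 152) (nat_lit 128430661) (nat_lit 36) (nat_lit 4) (nat_lit 38) (nat_lit 5) (nat_lit 38) (nat_lit 4) (nat_lit 389) (nat_lit 278) (nat_lit 233)))) (XT.nd (nat_lit 156) (nat_lit 152) (nat_lit 0) (XT.nd (nat_lit 78) (nat_lit 76) (nat_lit 0) (XT.lf (nat_lit 0) (nat_lit 4439532544) (nat_lit 228) (nat_lit 7955154188) (nat_lit 76) (nat_lit 6885378617) (nat_lit 35) (nat_lit 5) (nat_lit 38) (nat_lit 5) (nat_lit 36) (nat_lit 4) (nat_lit 390) (nat_lit 278) (nat_lit 232)) (XT.lf (nat_lit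 0) (nat_lit 1340041222) (nat_lit 76) (nat_lit 7762496081) (nat_lit 152) (nat_lit 10599253980) (nat_lit 34) (nat_lit 5) (nat_lit 35) (nat_lit 5) (nat_lit 36) (nat_lit 4) (nat_lit 391) (nat_lit 278) (nat_lit 231))) (XT.nd (nat_lit 78) (nat_lit 152) (nat_lit 0) (XT.lf (nat_lit 0) (nat_lit 10982336609) (nat_lit 76) (nat_lit 2951741418) (nat_lit 152) (nat_lit 6201239759) (nat_lit 34) (nat_lit 5) (nat_lit 35) (nat_lit 5) (nat_lit 36) (nat_lit 4) (nat_lit 392) (nat_lit 278) (nat_lit 230)) (XT.lf (nat_lit 0) (nat_lit 223986827) (nat_lit 152) (nat_lit 18657405664) (nat_lit 152) (nat_lit 1701340696) (nat_lit 32) (nat_lit 4) (nat_lit 34) (nat_lit 5) (nat_lit 34) (nat_lit 4) (nat_lit 393) (nat_lit 278) (nat_lit 229))))))) (XT.nd (nat_lit 1014) (nat_lit 456) (nat_lit 0) (XT.nd (nat_lit 468) (nat_lit 304) (nat_lit 0) (XT.nd (nat_lit 234) (nat_lit 228) (nat_lit 0) (XT.nd (nat_lit 78) (nat_lit 76) (nat_lit 0) (XT.lf (nat_lit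 0) (nat_lit 2948379511) (nat_lit 228) (nat_lit 11122523075) (nat_lit 76) (nat_lit 6969667911) (nat_lit 31) (nat_lit 5) (nat_lit 34) (nat_lit 5) (nat_lit 32) (nat_lit 4) (nat_lit 394) (nat_lit 278) (nat_lit 228)) (XT.nd (nat_lit 78) (nat_lit 76) (nat_lit 0) (XT.lf (nat_lit 0) (nat_lit 7654367866) (nat_lit 228) (nat_lit 1716617700) (nat_lit 76) (nat_lit 12142130112) (nat_lit 31) (nat_lit 5) (nat_lit 34) (nat_lit 5) (nat_lit 32) (nat_lit 4) (nat_lit 395) (nat_lit 278) (nat_lit 227)) (XT.lf (nat_lit 0) (nat_lit 8040440803) (nat_lit 76) (nat_lit 4490784514) (nat_lit 152) (nat_lit 9467728259) (nat_lit 30) (nat_lit 5) (nat_lit 31) (nat_lit 5) (nat_lit 32) (nat_lit 4) (nat_lit 396) (nat_lit 278) (nat_lit 226)))) (XT.nd (nat_lit 78) (nat_lit 228) (nat_lit 0) (XT.lf (nat_lit 0) (nat_lit 17529610004) (nat_lit 152) (nat_lit 4466862594) (nat_lit 0) (nat_lit 503644207) (nat_lit 30) (nat_lit 5) (nat_lit 32) (nat_lit 4)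 (nat_lit 30) (nat_lit 4) (nat_lit 397) (nat_lit 278) (nat_lit 225)) (XT.nd (nat_lit 78) (nat_lit 76) (nat_lit 0) (XT.lf (nat_lit 0) (nat_lit 5282629059) (nat_lit 152) (nat_lit 17444506609) (nat_lit 152) (nat_lit 287710218) (nat_lit 28) (nat_lit 4) (nat_lit 30) (nat_lit 5) (nat_lit 30) (nat_lit 4) (nat_lit 398) (nat_lit 278) (nat_lit 224)) (XT.lf (nat_lit 0) (nat_lit 4446634672) (nat_lit 228) (nat_lit 8257148000) (nat_lit 76) (nat_lit 10839945375) (nat_lit 27) (nat_lit 5) (nat_lit 30) (nat_lit 5) (nat_lit 28) (nat_lit 4) (nat_lit 399) (nat_lit 278) (nat_lit 223))))) (XT.nd (nat_lit 234) (nat_lit 228) (nat_lit 0) (XT.nd (nat_lit 78) (nat_lit 0) (nat_lit 0) (XT.lf (nat_lit 0) (nat_lit 1444392243) (nat_lit 76) (nat_lit 7842075250) (nat_lit 152) (nat_lit 14802852589) (nat_lit 26) (nat_lit 5) (nat_lit 27) (nat_lit 5) (nat_lit 28) (nat_lit 4) (nat_lit 400) (nat_lit 278) (nat_lit 222)) (XT.nd (nat_lit 78) (nat_lit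 0) (nat_lit 0) (XT.lf (nat_lit 0) (nat_lit 11523939680) (nat_lit 76) (nat_lit 2786801687) (nat_lit 152) (nat_lit 10339367028) (nat_lit 26) (nat_lit 5) (nat_lit 27) (nat_lit 5) (nat_lit 28) (nat_lit 4) (nat_lit 401) (nat_lit 278) (nat_lit 221)) (XT.lf (nat_lit 0) (nat_lit 19465801573) (nat_lit 152) (nat_lit 3425950889) (nat_lit 0) (nat_lit 2336571879) (nat_lit 26) (nat_lit 5) (nat_lit 28) (nat_lit 4) (nat_lit 26) (nat_lit 4) (nat_lit 402) (nat_lit 278) (nat_lit 220)))) (XT.nd (nat_lit 156) (nat_lit 76) (nat_lit 0) (XT.nd (nat_lit 78) (nat_lit 76) (nat_lit 0) (XT.lf (nat_lit 0) (nat_lit 6587746305) (nat_lit 76) (nat_lit 18236737584) (nat_lit 76) (nat_lit 997939328) (nat_lit 25) (nat_lit 4) (nat_lit 26) (nat_lit 5) (nat_lit 26) (nat_lit 4) (nat_lit 403) (nat_lit 278) (nat_lit 219)) (XT.lf (nat_lit 0) (nat_lit 3826341068) (nat_lit 152) (nat_lit 9577703132) (nat_lit 76) (nat_lit 13029387178) (nat_lit 24) (nat_lit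 5) (nat_lit 26) (nat_lit 5) (nat_lit 25) (nat_lit 4) (nat_lit 404) (nat_lit 278) (nat_lit 218))) (XT.nd (nat_lit 78) (nat_lit 0) (nat_lit 0) (XT.lf (nat_lit 0) (nat_lit 288461037) (nat_lit 76) (nat_lit 8448935720) (nat_lit 152) (nat_lit 18326218564) (nat_lit 23) (nat_lit 5) (nat_lit 24) (nat_lit 5) (nat_lit 25) (nat_lit 4) (nat_lit 405) (nat_lit 278) (nat_lit 217)) (XT.lf (nat_lit 0) (nat_lit 10571424224) (nat_lit 76) (nat_lit 3280866101) (nat_lit 152) (nat_lit 13858724212) (nat_lit 23) (nat_lit 5) (nat_lit 24) (nat_lit 5) (nat_lit 25) (nat_lit 4) (nat_lit 406) (nat_lit 278) (nat_lit 216)))))) (XT.nd (nat_lit 546) (nat_lit 228) (nat_lit 0) (XT.nd (nat_lit 234) (nat_lit 76) (nat_lit 0) (XT.nd (nat_lit 78) (nat_lit 152) (nat_lit 0) (XT.lf (nat_lit 0) (nat_lit 19100893829) (nat_lit 152) (nat_lit 7308756999) (nat_lit 0) (nat_lit 1968781803) (nat_lit 23) (nat_lit 5) (nat_lit 25) (nat_lit 4) (nat_lit 23) (nat_lit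 4) (nat_lit 407) (nat_lit 278) (nat_lit 215)) (XT.nd (nat_lit 78) (nat_lit 76) (nat_lit 0) (XT.lf (nat_lit 0) (nat_lit 2766495706) (nat_lit 76) (nat_lit 21761315263) (nat_lit 76) (nat_lit 4537441291) (nat_lit 22) (nat_lit 4) (nat_lit 23) (nat_lit 5) (nat_lit 23) (nat_lit 4) (nat_lit 408) (nat_lit 278) (nat_lit 214)) (XT.lf (nat_lit 0) (nat_lit 374492251) (nat_lit 152) (nat_lit 16552743970) (nat_lit 76) (nat_lit 12844254319) (nat_lit 21) (nat_lit 5) (nat_lit 23) (nat_lit 5) (nat_lit 22) (nat_lit 4) (nat_lit 409) (nat_lit 278) (nat_lit 213)))) (XT.nd (nat_lit 156) (nat_lit 0) (nat_lit 0) (XT.nd (nat_lit 78) (nat_lit 76) (nat_lit 0) (XT.lf (nat_lit 0) (nat_lit 5305525238) (nat_lit 152) (nat_lit 6629241442) (nat_lit 76) (nat_lit 18563917611) (nat_lit 21) (nat_lit 5) (nat_lit 23) (nat_lit 5) (nat_lit 22) (nat_lit 4) (nat_lit 410) (nat_lit 278) (nat_lit 212)) (XT.lf (nat_lit 0) (nat_lit 3594173991) (nat_lit 76)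 (nat_lit 6788883568) (nat_lit 152) (nat_lit 20864683381) (nat_lit 20) (nat_lit 5) (nat_lit 21) (nat_lit 5) (nat_lit 22) (nat_lit 4) (nat_lit 411) (nat_lit 278) (nat_lit 211))) (XT.nd (nat_lit 78) (nat_lit 0) (nat_lit 0) (XT.lf (nat_lit 0) (nat_lit 14192923345) (nat_lit 76) (nat_lit 1451355227) (nat_lit 152) (nat_lit 16374053854) (nat_lit 20) (nat_lit 5) (nat_lit 21) (nat_lit 5) (nat_lit 22) (nat_lit 4) (nat_lit 412) (nat_lit 278) (nat_lit 210)) (XT.lf (nat_lit 0) (nat_lit 21067392720) (nat_lit 152) (nat_lit 7807348924) (nat_lit 0) (nat_lit 3937182216) (nat_lit 20) (nat_lit 5) (nat_lit 22) (nat_lit 4) (nat_lit 20) (nat_lit 4) (nat_lit 413) (nat_lit 278) (nat_lit 209))))) (XT.nd (nat_lit 234) (nat_lit 76) (nat_lit 0) (XT.nd (nat_lit 78) (nat_lit 76) (nat_lit 0) (XT.lf (nat_lit 0) (nat_lit 2481176628) (nat_lit 76) (nat_lit 24176419837) (nat_lit 76) (nat_lit 6971598474) (nat_lit 19) (nat_lit 4) (nat_lit 20)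 (nat_lit 5) (nat_lit 20) (nat_lit 4) (nat_lit 414) (nat_lit 278) (nat_lit 208)) (XT.nd (nat_lit 78) (nat_lit 76) (nat_lit 0) (XT.lf (nat_lit 0) (nat_lit 13174906357) (nat_lit 76) (nat_lit 19285989439) (nat_lit 76) (nat_lit 2008730347) (nat_lit 19) (nat_lit 4) (nat_lit 20) (nat_lit 5) (nat_lit 20) (nat_lit 4) (nat_lit 415) (nat_lit 278) (nat_lit 207)) (XT.lf (nat_lit 0) (nat_lit 3009672427) (nat_lit 152) (nat_lit 11237951954) (nat_lit 76) (nat_lit 21087738528) (nat_lit 18) (nat_lit 5) (nat_lit 20) (nat_lit 5) (nat_lit 19) (nat_lit 4) (nat_lit 416) (nat_lit 278) (nat_lit 206)))) (XT.nd (nat_lit 156) (nat_lit 0) (nat_lit 0) (XT.nd (nat_lit 78) (nat_lit 76) (nat_lit 0) (XT.lf (nat_lit 0) (nat_lit 8106408917) (nat_lit 152) (nat_lit 959856386) (nat_lit 76) (nat_lit 27161168534) (nat_lit 18) (nat_lit 5) (nat_lit 20) (nat_lit 5) (nat_lit 19) (nat_lit 4) (nat_lit 417) (nat_lit 278) (nat_lit 205)) (XT.lf (nat_lit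 0) (nat_lit 9758276035) (nat_lit 76) (nat_lit 3660656627) (nat_lit 152) (nat_lit 23725450941) (nat_lit 17) (nat_lit 5) (nat_lit 18) (nat_lit 5) (nat_lit 19) (nat_lit 4) (nat_lit 418) (nat_lit 278) (nat_lit 204))) (XT.nd (nat_lit 78) (nat_lit 0) (nat_lit 0) (XT.lf (nat_lit 0) (nat_lit 18888112290) (nat_lit 152) (nat_lit 17348155694) (nat_lit 0) (nat_lit 1852658645) (nat_lit 17) (nat_lit 5) (nat_lit 19) (nat_lit 4) (nat_lit 17) (nat_lit 4) (nat_lit 419) (nat_lit 278) (nat_lit 203)) (XT.lf (nat_lit 0) (nat_lit 24527668836) (nat_lit 152) (nat_lit 7102401408) (nat_lit 0) (nat_lit 7431549734) (nat_lit 17) (nat_lit 5) (nat_lit 19) (nat_lit 4) (nat_lit 17) (nat_lit 4) (nat_lit 420) (nat_lit 278) (nat_lit 202))))))))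
noncomputable def xc54 : XT := (XT.nd (nat_lit 2028) (nat_lit 0) (nat_lit 0) (XT.nd (nat_lit 1014) (nat_lit 304) (nat_lit 0) (XT.nd (nat_lit 468) (nat_lit 152) (nat_lit 0) (XT.nd (nat_lit 234) (nat_lit 76) (nat_lit 0) (XT.nd (nat_lit 78) (nat_lit 76) (nat_lit 0) (XT.lf (nat_lit 0) (nat_lit 3462869414) (nat_lit 76) (nat_lit 26877759403) (nat_lit 76) (nat_lit 9722741799) (nat_lit 16) (nat_lit 4) (nat_lit 17) (nat_lit 5) (nat_lit 17) (nat_lit 4) (nat_lit 421) (nat_lit 278) (nat_lit 201)) (XT.nd (nat_lit 78) (nat_lit 76) (nat_lit 0) (XT.lf (nat_lit 0) (nat_lit 14435804905) (nat_lit 76) (nat_lit 21935141658) (nat_lit 76) (nat_lit 4722941043) (nat_lit 16) (nat_lit 4) (nat_lit 17) (nat_lit 5) (nat_lit 17) (nat_lit 4) (nat_lit 422) (nat_lit 278) (nat_lit 200)) (XT.lf (nat_lit 0) (nat_lit 390331199) (nat_lit 152) (nat_lit 16475345766) (nat_lit 76) (nat_lit 25290368571) (nat_lit 15) (nat_lit 5) (nat_lit 17) (nat_lit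 5) (nat_lit 16) (nat_lit 4) (nat_lit 423) (nat_lit 278) (nat_lit 199)))) (XT.nd (nat_lit 78) (nat_lit 76) (nat_lit 0) (XT.lf (nat_lit 0) (nat_lit 5534703245) (nat_lit 152) (nat_lit 6086170985) (nat_lit 76) (nat_lit 31628614935) (nat_lit 15) (nat_lit 5) (nat_lit 17) (nat_lit 5) (nat_lit 16) (nat_lit 4) (nat_lit 424) (nat_lit 278) (nat_lit 198)) (XT.nd (nat_lit 78) (nat_lit 0) (nat_lit 0) (XT.lf (nat_lit 0) (nat_lit 4654750304) (nat_lit 76) (nat_lit 6196825771) (nat_lit 152) (nat_lit 33523617518) (nat_lit 14) (nat_lit 5) (nat_lit 15) (nat_lit 5) (nat_lit 16) (nat_lit 4) (nat_lit 425) (nat_lit 278) (nat_lit 197)) (XT.lf (nat_lit 0) (nat_lit 15792397736) (nat_lit 76) (nat_lit 570731934) (nat_lit 152) (nat_lit 29170486749) (nat_lit 14) (nat_lit 5) (nat_lit 15) (nat_lit 5) (nat_lit 16) (nat_lit 4) (nat_lit 426) (nat_lit 278) (nat_lit 196))))) (XT.nd (nat_lit 234) (nat_lit 76) (nat_lit 0) (XT.nd (nat_lit 78) (nat_lit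 76) (nat_lit 0) (XT.lf (nat_lit 0) (nat_lit 22064505502) (nat_lit 152) (nat_lit 19562177304) (nat_lit 0) (nat_lit 5099377285) (nat_lit 14) (nat_lit 5) (nat_lit 16) (nat_lit 4) (nat_lit 14) (nat_lit 4) (nat_lit 427) (nat_lit 278) (nat_lit 195)) (XT.nd (nat_lit 78) (nat_lit 76) (nat_lit 0) (XT.lf (nat_lit 0) (nat_lit 27917581143) (nat_lit 152) (nat_lit 9131320631) (nat_lit 0) (nat_lit 10905957905) (nat_lit 14) (nat_lit 5) (nat_lit 16) (nat_lit 4) (nat_lit 14) (nat_lit 4) (nat_lit 428) (nat_lit 278) (nat_lit 194)) (XT.lf (nat_lit 0) (nat_lit 1597117414) (nat_lit 76) (nat_lit 32340219760) (nat_lit 76) (nat_lit 15283455725) (nat_lit 13) (nat_lit 4) (nat_lit 14) (nat_lit 5) (nat_lit 14) (nat_lit 4) (nat_lit 429) (nat_lit 278) (nat_lit 193)))) (XT.nd (nat_lit 156) (nat_lit 76) (nat_lit 0) (XT.nd (nat_lit 78) (nat_lit 0) (nat_lit 0) (XT.lf (nat_lit 0) (nat_lit 12788537859) (nat_lit 76) (nat_lit 27417356145) (nat_lit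 76) (nat_lit 10316766093) (nat_lit 13) (nat_lit 4) (nat_lit 14) (nat_lit 5) (nat_lit 14) (nat_lit 4) (nat_lit 430) (nat_lit 278) (nat_lit 192)) (XT.lf (nat_lit 0) (nat_lit 24270988431) (nat_lit 76) (nat_lit 22368217831) (nat_lit 76) (nat_lit 5225078248) (nat_lit 13) (nat_lit 4) (nat_lit 14) (nat_lit 5) (nat_lit 14) (nat_lit 4) (nat_lit 431) (nat_lit 278) (nat_lit 191))) (XT.nd (nat_lit 78) (nat_lit 76) (nat_lit 0) (XT.lf (nat_lit 0) (nat_lit 36054502338) (nat_lit 76) (nat_lit 17188392949) (nat_lit 76) (nat_lit 3943143) (nat_lit 13) (nat_lit 4) (nat_lit 14) (nat_lit 5) (nat_lit 14) (nat_lit 4) (nat_lit 432) (nat_lit 278) (nat_lit 190)) (XT.lf (nat_lit 0) (nat_lit 5246780167) (nat_lit 152) (nat_lit 6573593081) (nat_lit 76) (nat_lit 42849613495) (nat_lit 12) (nat_lit 5) (nat_lit 14) (nat_lit 5) (nat_lit 13) (nat_lit 4) (nat_lit 433) (nat_lit 278) (nat_lit 189)))))) (XT.nd (nat_lit 468) (nat_lit 152) (nat_lit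 0) (XT.nd (nat_lit 234) (nat_lit 76) (nat_lit 0) (XT.nd (nat_lit 78) (nat_lit 0) (nat_lit 0) (XT.lf (nat_lit 0) (nat_lit 4408347102) (nat_lit 76) (nat_lit 6267437513) (nat_lit 152) (nat_lit 45459420475) (nat_lit 11) (nat_lit 5) (nat_lit 12) (nat_lit 5) (nat_lit 13) (nat_lit 4) (nat_lit 434) (nat_lit 278) (nat_lit 188)) (XT.nd (nat_lit 78) (nat_lit 0) (nat_lit 0) (XT.lf (nat_lit 0) (nat_lit 15813554277) (nat_lit 76) (nat_lit 499182004) (nat_lit 152) (nat_lit 41330293257) (nat_lit 11) (nat_lit 5) (nat_lit 12) (nat_lit 5) (nat_lit 13) (nat_lit 4) (nat_lit 435) (nat_lit 278) (nat_lit 187)) (XT.lf (nat_lit 0) (nat_lit 22150243370) (nat_lit 152) (nat_lit 31727673952) (nat_lit 0) (nat_lit 5317229802) (nat_lit 11) (nat_lit 5) (nat_lit 13) (nat_lit 4) (nat_lit 11) (nat_lit 4) (nat_lit 436) (nat_lit 278) (nat_lit 186)))) (XT.nd (nat_lit 78) (nat_lit 76) (nat_lit 0) (XT.lf (nat_lit 0) (nat_lit 28147559691) (nat_lit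 152) (nat_lit 21366780318) (nat_lit 0) (nat_lit 11279949461) (nat_lit 11) (nat_lit 5) (nat_lit 13) (nat_lit 4) (nat_lit 11) (nat_lit 4) (nat_lit 437) (nat_lit 278) (nat_lit 185)) (XT.nd (nat_lit 78) (nat_lit 76) (nat_lit 0) (XT.lf (nat_lit 0) (nat_lit 34305127177) (nat_lit 152) (nat_lit 10732942711) (nat_lit 0) (nat_lit 17403927954) (nat_lit 11) (nat_lit 5) (nat_lit 13) (nat_lit 4) (nat_lit 11) (nat_lit 4) (nat_lit 438) (nat_lit 278) (nat_lit 184)) (XT.lf (nat_lit 0) (nat_lit 186775229) (nat_lit 76) (nat_lit 40443346394) (nat_lit 76) (nat_lit 23509536499) (nat_lit 10) (nat_lit 4) (nat_lit 11) (nat_lit 5) (nat_lit 11) (nat_lit 4) (nat_lit 439) (nat_lit 278) (nat_lit 183))))) (XT.nd (nat_lit 234) (nat_lit 152) (nat_lit 0) (XT.nd (nat_lit 78) (nat_lit 0) (nat_lit 0) (XT.lf (nat_lit 0) (nat_lit 11617680643) (nat_lit 76) (nat_lit 35616677574) (nat_lit 76) (nat_lit 18651206832) (nat_lit 10) (nat_lit 4) (nat_lit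 11) (nat_lit 5) (nat_lit 11) (nat_lit 4) (nat_lit 440) (nat_lit 278) (nat_lit 182)) (XT.nd (nat_lit 78) (nat_lit 0) (nat_lit 0) (XT.lf (nat_lit 0) (nat_lit 23356155094) (nat_lit 76) (nat_lit 30662227626) (nat_lit 76) (nat_lit 13666018198) (nat_lit 10) (nat_lit 4) (nat_lit 11) (nat_lit 5) (nat_lit 11) (nat_lit 4) (nat_lit 441) (nat_lit 278) (nat_lit 181)) (XT.lf (nat_lit 0) (nat_lit 35412455502) (nat_lit 76) (nat_lit 25575667420) (nat_lit 76) (nat_lit 8549614607) (nat_lit 10) (nat_lit 4) (nat_lit 11) (nat_lit 5) (nat_lit 11) (nat_lit 4) (nat_lit 442) (nat_lit 278) (nat_lit 180)))) (XT.nd (nat_lit 156) (nat_lit 76) (nat_lit 0) (XT.nd (nat_lit 78) (nat_lit 76) (nat_lit 0) (XT.lf (nat_lit 0) (nat_lit 47797116498) (nat_lit 76) (nat_lit 20352552388) (nat_lit 76) (nat_lit 3297525415) (nat_lit 10) (nat_lit 4) (nat_lit 11) (nat_lit 5) (nat_lit 11) (nat_lit 4) (nat_lit 443) (nat_lit 278) (nat_lit 179)) (XT.lf (nat_lit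 0) (nat_lit 2053960734) (nat_lit 152) (nat_lit 12913616934) (nat_lit 76) (nat_lit 58446257920) (nat_lit 9) (nat_lit 5) (nat_lit 11) (nat_lit 5) (nat_lit 10) (nat_lit 4) (nat_lit 444) (nat_lit 278) (nat_lit 178))) (XT.nd (nat_lit 78) (nat_lit 76) (nat_lit 0) (XT.lf (nat_lit 0) (nat_lit 7483257655) (nat_lit 152) (nat_lit 1919455109) (nat_lit 76) (nat_lit 66036278937) (nat_lit 9) (nat_lit 5) (nat_lit 11) (nat_lit 5) (nat_lit 10) (nat_lit 4) (nat_lit 445) (nat_lit 278) (nat_lit 177)) (XT.lf (nat_lit 0) (nat_lit 9560267301) (nat_lit 76) (nat_lit 3591087827) (nat_lit 152) (nat_lit 64371271025) (nat_lit 8) (nat_lit 5) (nat_lit 9) (nat_lit 5) (nat_lit 10) (nat_lit 4) (nat_lit 446) (nat_lit 278) (nat_lit 176))))))) (XT.nd (nat_lit 39468) (nat_lit 0) (nat_lit 4940) (XT.nd (nat_lit 38922) (nat_lit 0) (nat_lit 7752) (XT.nd (nat_lit 38688) (nat_lit 0) (nat_lit 9576) (XT.nd (nat_lit 78) (nat_lit 0) (nat_lit 0) (XT.lf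 (nat_lit 0) (nat_lit 19016144375) (nat_lit 152) (nat_lit 58298524223) (nat_lit 0) (nat_lit 2353302844) (nat_lit 8) (nat_lit 5) (nat_lit 10) (nat_lit 4) (nat_lit 8) (nat_lit 4) (nat_lit 447) (nat_lit 278) (nat_lit 175)) (XT.nd (nat_lit 78) (nat_lit 0) (nat_lit 0) (XT.lf (nat_lit 0) (nat_lit 25076950197) (nat_lit 152) (nat_lit 48410282675) (nat_lit 0) (nat_lit 8389843263) (nat_lit 8) (nat_lit 5) (nat_lit 10) (nat_lit 4) (nat_lit 8) (nat_lit 4) (nat_lit 448) (nat_lit 278) (nat_lit 174)) (XT.lf (nat_lit 0) (nat_lit 31304548710) (nat_lit 152) (nat_lit 38254474266) (nat_lit 0) (nat_lit 14593883132) (nat_lit 8) (nat_lit 5) (nat_lit 10) (nat_lit 4) (nat_lit 8) (nat_lit 4) (nat_lit 449) (nat_lit 278) (nat_lit 173)))) (XT.nd (nat_lit 78) (nat_lit 836) (nat_lit 0) (XT.lf (nat_lit 0) (nat_lit 3483970364) (nat_lit 456) (nat_lit 371347494) (nat_lit 456) (nat_lit 371347494) (nat_lit 145) (nat_lit 4) (nat_lit 151) (nat_lit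 5) (nat_lit 151) (nat_lit 4) (nat_lit 342) (nat_lit 279) (nat_lit 279)) (XT.nd (nat_lit 78) (nat_lit 380) (nat_lit 0) (XT.lf (nat_lit 0) (nat_lit 3122755756) (nat_lit 456) (nat_lit 3376735590) (nat_lit 0) (nat_lit 2055785609) (nat_lit 139) (nat_lit 5) (nat_lit 145) (nat_lit 4) (nat_lit 139) (nat_lit 4) (nat_lit 343) (nat_lit 279) (nat_lit 278)) (XT.lf (nat_lit 0) (nat_lit 3330274636) (nat_lit 380) (nat_lit 3716981012) (nat_lit 380) (nat_lit 1614117519) (nat_lit 134) (nat_lit 4) (nat_lit 139) (nat_lit 5) (nat_lit 139) (nat_lit 4) (nat_lit 344) (nat_lit 279) (nat_lit 277))))) (XT.nd (nat_lit 234) (nat_lit 988) (nat_lit 0) (XT.nd (nat_lit 78) (nat_lit 456) (nat_lit 0) (XT.lf (nat_lit 0) (nat_lit 1409440970) (nat_lit 304) (nat_lit 816187679) (nat_lit 380) (nat_lit 6545843289) (nat_lit 129) (nat_lit 5) (nat_lit 133) (nat_lit 5) (nat_lit 134) (nat_lit 4) (nat_lit 345) (nat_lit 279) (nat_lit 276)) (XT.nd (nat_lit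 78) (nat_lit 456) (nat_lit 0) (XT.lf (nat_lit 0) (nat_lit 6128581926) (nat_lit 380) (nat_lit 593897813) (nat_lit 0) (nat_lit 2162548898) (nat_lit 129) (nat_lit 5) (nat_lit 134) (nat_lit 4) (nat_lit 129) (nat_lit 4) (nat_lit 346) (nat_lit 279) (nat_lit 275)) (XT.lf (nat_lit 0) (nat_lit 1101203201) (nat_lit 456) (nat_lit 2650968350) (nat_lit 76) (nat_lit 5250226779) (nat_lit 123) (nat_lit 5) (nat_lit 129) (nat_lit 5) (nat_lit 124) (nat_lit 4) (nat_lit 347) (nat_lit 279) (nat_lit 274)))) (XT.nd (nat_lit 156) (nat_lit 380) (nat_lit 0) (XT.nd (nat_lit 78) (nat_lit 304) (nat_lit 0) (XT.lf (nat_lit 0) (nat_lit 4319737618) (nat_lit 304) (nat_lit 655493498) (nat_lit 380) (nat_lit 4148601767) (nat_lit 119) (nat_lit 5) (nat_lit 123) (nat_lit 5) (nat_lit 124) (nat_lit 4) (nat_lit 348) (nat_lit 279) (nat_lit 273)) (XT.lf (nat_lit 0) (nat_lit 2191477487) (nat_lit 304) (nat_lit 6755962790) (nat_lit 304) (nat_lit 302054131)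 (nat_lit 115) (nat_lit 4) (nat_lit 119) (nat_lit 5) (nat_lit 119) (nat_lit 4) (nat_lit 349) (nat_lit 279) (nat_lit 272))) (XT.nd (nat_lit 78) (nat_lit 304) (nat_lit 0) (XT.lf (nat_lit 0) (nat_lit 3553907350) (nat_lit 380) (nat_lit 57220512) (nat_lit 76) (nat_lit 5767819725) (nat_lit 114) (nat_lit 5) (nat_lit 119) (nat_lit 5) (nat_lit 115) (nat_lit 4) (nat_lit 350) (nat_lit 279) (nat_lit 271)) (XT.lf (nat_lit 0) (nat_lit 7161228866) (nat_lit 304) (nat_lit 339661425) (nat_lit 380) (nat_lit 2011901058) (nat_lit 110) (nat_lit 5) (nat_lit 114) (nat_lit 5) (nat_lit 115) (nat_lit 4) (nat_lit 351) (nat_lit 279) (nat_lit 270)))))) (XT.nd (nat_lit 546) (nat_lit 1216) (nat_lit 0) (XT.nd (nat_lit 234) (nat_lit 988) (nat_lit 0) (XT.nd (nat_lit 78) (nat_lit 228) (nat_lit 0) (XT.lf (nat_lit 0) (nat_lit 1868254187) (nat_lit 380) (nat_lit 4786454059) (nat_lit 76) (nat_lit 2995726543) (nat_lit 105) (nat_lit 5) (nat_lit 110)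 (nat_lit 5) (nat_lit 106) (nat_lit 4) (nat_lit 352) (nat_lit 279) (nat_lit 269)) (XT.nd (nat_lit 78) (nat_lit 0) (nat_lit 0) (XT.lf (nat_lit 0) (nat_lit 2446369509) (nat_lit 228) (nat_lit 3342760697) (nat_lit 304) (nat_lit 4003572929) (nat_lit 102) (nat_lit 5) (nat_lit 105) (nat_lit 5) (nat_lit 106) (nat_lit 4) (nat_lit 353) (nat_lit 279) (nat_lit 268)) (XT.lf (nat_lit 0) (nat_lit 9791835103) (nat_lit 304) (nat_lit 76054484) (nat_lit 0) (nat_lit 72458624) (nat_lit 102) (nat_lit 5) (nat_lit 106) (nat_lit 4) (nat_lit 102) (nat_lit 4) (nat_lit 354) (nat_lit 279) (nat_lit 267)))) (XT.nd (nat_lit 156) (nat_lit 380) (nat_lit 0) (XT.nd (nat_lit 78) (nat_lit 228) (nat_lit 0) (XT.lf (nat_lit 0) (nat_lit 3769198563) (nat_lit 380) (nat_lit 2732803916) (nat_lit 76) (nat_lit 3588703133) (nat_lit 97) (nat_lit 5) (nat_lit 102) (nat_lit 5) (nat_lit 98) (nat_lit 4) (nat_lit 355) (nat_lit 279) (nat_lit 266)) (XT.lf (nat_lit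 0) (nat_lit 4733763226) (nat_lit 228) (nat_lit 3031544513) (nat_lit 304) (nat_lit 2481338156) (nat_lit 94) (nat_lit 5) (nat_lit 97) (nat_lit 5) (nat_lit 98) (nat_lit 4) (nat_lit 356) (nat_lit 279) (nat_lit 265))) (XT.nd (nat_lit 78) (nat_lit 0) (nat_lit 0) (XT.lf (nat_lit 0) (nat_lit 1415370439) (nat_lit 380) (nat_lit 8443831014) (nat_lit 76) (nat_lit 548564884) (nat_lit 89) (nat_lit 5) (nat_lit 94) (nat_lit 5) (nat_lit 90) (nat_lit 4) (nat_lit 357) (nat_lit 279) (nat_lit 264)) (XT.lf (nat_lit 0) (nat_lit 5383986631) (nat_lit 380) (nat_lit 978295644) (nat_lit 76) (nat_lit 4210583829) (nat_lit 89) (nat_lit 5) (nat_lit 94) (nat_lit 5) (nat_lit 90) (nat_lit 4) (nat_lit 358) (nat_lit 279) (nat_lit 263))))) (XT.nd (nat_lit 234) (nat_lit 456) (nat_lit 0) (XT.nd (nat_lit 78) (nat_lit 532) (nat_lit 0) (XT.lf (nat_lit 0) (nat_lit 6716860687) (nat_lit 228) (nat_lit 2740379817) (nat_lit 304) (nat_lit 1286139246) (nat_lit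 86) (nat_lit 5) (nat_lit 89) (nat_lit 5) (nat_lit 90) (nat_lit 4) (nat_lit 359) (nat_lit 279) (nat_lit 262)) (XT.nd (nat_lit 78) (nat_lit 228) (nat_lit 0) (XT.lf (nat_lit 0) (nat_lit 2656626704) (nat_lit 304) (nat_lit 7265476192) (nat_lit 76) (nat_lit 996855584) (nat_lit 82) (nat_lit 5) (nat_lit 86) (nat_lit 5) (nat_lit 83) (nat_lit 4) (nat_lit 360) (nat_lit 279) (nat_lit 261)) (XT.lf (nat_lit 0) (nat_lit 388707559) (nat_lit 228) (nat_lit 6297013905) (nat_lit 304) (nat_lit 4413910071) (nat_lit 79) (nat_lit 5) (nat_lit 82) (nat_lit 5) (nat_lit 83) (nat_lit 4) (nat_lit 361) (nat_lit 279) (nat_lit 260)))) (XT.nd (nat_lit 156) (nat_lit 152) (nat_lit 0) (XT.nd (nat_lit 78) (nat_lit 304) (nat_lit 0) (XT.lf (nat_lit 0) (nat_lit 8296244614) (nat_lit 228) (nat_lit 2535845293) (nat_lit 304) (nat_lit 453767958) (nat_lit 79) (nat_lit 5) (nat_lit 82) (nat_lit 5) (nat_lit 83) (nat_lit 4) (nat_lit 362) (nat_lit 279) (nat_lit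 259)) (XT.lf (nat_lit 0) (nat_lit 3539278816) (nat_lit 304) (nat_lit 6589677916) (nat_lit 76) (nat_lit 1348147277) (nat_lit 75) (nat_lit 5) (nat_lit 79) (nat_lit 5) (nat_lit 76) (nat_lit 4) (nat_lit 363) (nat_lit 279) (nat_lit 258))) (XT.nd (nat_lit 78) (nat_lit 0) (nat_lit 0) (XT.lf (nat_lit 0) (nat_lit 1259883910) (nat_lit 152) (nat_lit 6375902134) (nat_lit 228) (nat_lit 4038406006) (nat_lit 73) (nat_lit 5) (nat_lit 75) (nat_lit 5) (nat_lit 76) (nat_lit 4) (nat_lit 364) (nat_lit 279) (nat_lit 257)) (XT.lf (nat_lit 0) (nat_lit 9357546258) (nat_lit 152) (nat_lit 2490272913) (nat_lit 228) (nat_lit 29616951) (nat_lit 73) (nat_lit 5) (nat_lit 75) (nat_lit 5) (nat_lit 76) (nat_lit 4) (nat_lit 365) (nat_lit 279) (nat_lit 256))))))))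
noncomputable def xc55 : XT := (XT.nd (nat_lit 2106) (nat_lit 1292) (nat_lit 0) (XT.nd (nat_lit 1014) (nat_lit 1216) (nat_lit 0) (XT.nd (nat_lit 468) (nat_lit 836) (nat_lit 0) (XT.nd (nat_lit 234) (nat_lit 456) (nat_lit 0) (XT.nd (nat_lit 78) (nat_lit 152) (nat_lit 0) (XT.lf (nat_lit 0) (nat_lit 4015389583) (nat_lit 304) (nat_lit 6541093352) (nat_lit 76) (nat_lit 1529254963) (nat_lit 69) (nat_lit 5) (nat_lit 73) (nat_lit 5) (nat_lit 70) (nat_lit 4) (nat_lit 366) (nat_lit 279) (nat_lit 255)) (XT.nd (nat_lit 78) (nat_lit 0) (nat_lit 0) (XT.lf (nat_lit 0) (nat_lit 1486150749) (nat_lit 152) (nat_lit 6687656629) (nat_lit 228) (nat_lit 4126713278) (nat_lit 67) (nat_lit 5) (nat_lit 69) (nat_lit 5) (nat_lit 70) (nat_lit 4) (nat_lit 367) (nat_lit 279) (nat_lit 254)) (XT.lf (nat_lit 0) (nat_lit 9768590430) (nat_lit 152) (nat_lit 2683401889) (nat_lit 228) (nat_lit 69923960) (nat_lit 67) (nat_lit 5) (nat_lit 69) (nat_lit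 5) (nat_lit 70) (nat_lit 4) (nat_lit 368) (nat_lit 279) (nat_lit 253)))) (XT.nd (nat_lit 78) (nat_lit 152) (nat_lit 0) (XT.lf (nat_lit 0) (nat_lit 4025897802) (nat_lit 304) (nat_lit 7263847809) (nat_lit 76) (nat_lit 1459116968) (nat_lit 63) (nat_lit 5) (nat_lit 67) (nat_lit 5) (nat_lit 64) (nat_lit 4) (nat_lit 369) (nat_lit 279) (nat_lit 252)) (XT.nd (nat_lit 78) (nat_lit 0) (nat_lit 0) (XT.lf (nat_lit 0) (nat_lit 917433938) (nat_lit 152) (nat_lit 7320001325) (nat_lit 228) (nat_lit 4745351982) (nat_lit 61) (nat_lit 5) (nat_lit 63) (nat_lit 5) (nat_lit 64) (nat_lit 4) (nat_lit 370) (nat_lit 279) (nat_lit 251)) (XT.lf (nat_lit 0) (nat_lit 9376118209) (nat_lit 152) (nat_lit 3204223982) (nat_lit 228) (nat_lit 643254369) (nat_lit 61) (nat_lit 5) (nat_lit 63) (nat_lit 5) (nat_lit 64) (nat_lit 4) (nat_lit 371) (nat_lit 279) (nat_lit 250))))) (XT.nd (nat_lit 234) (nat_lit 456) (nat_lit 0) (XT.nd (nat_lit 78) (nat_lit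 152) (nat_lit 0) (XT.lf (nat_lit 0) (nat_lit 3499063454) (nat_lit 228) (nat_lit 8925040056) (nat_lit 76) (nat_lit 1046898705) (nat_lit 58) (nat_lit 5) (nat_lit 61) (nat_lit 5) (nat_lit 59) (nat_lit 4) (nat_lit 372) (nat_lit 279) (nat_lit 249)) (XT.nd (nat_lit 78) (nat_lit 152) (nat_lit 0) (XT.lf (nat_lit 0) (nat_lit 7757073646) (nat_lit 228) (nat_lit 608366364) (nat_lit 76) (nat_lit 5360084532) (nat_lit 58) (nat_lit 5) (nat_lit 61) (nat_lit 5) (nat_lit 59) (nat_lit 4) (nat_lit 373) (nat_lit 279) (nat_lit 248)) (XT.lf (nat_lit 0) (nat_lit 8002015106) (nat_lit 152) (nat_lit 4153059358) (nat_lit 228) (nat_lit 1832256211) (nat_lit 56) (nat_lit 5) (nat_lit 58) (nat_lit 5) (nat_lit 59) (nat_lit 4) (nat_lit 374) (nat_lit 279) (nat_lit 247)))) (XT.nd (nat_lit 156) (nat_lit 228) (nat_lit 0) (XT.nd (nat_lit 78) (nat_lit 0) (nat_lit 0) (XT.lf (nat_lit 0) (nat_lit 2348631231) (nat_lit 228) (nat_lit 11718780468) (nat_lit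 76) (nat_lit 189854262) (nat_lit 53) (nat_lit 5) (nat_lit 56) (nat_lit 5) (nat_lit 54) (nat_lit 4) (nat_lit 375) (nat_lit 279) (nat_lit 246)) (XT.lf (nat_lit 0) (nat_lit 6656133600) (nat_lit 228) (nat_lit 3265163220) (nat_lit 76) (nat_lit 4612332123) (nat_lit 53) (nat_lit 5) (nat_lit 56) (nat_lit 5) (nat_lit 54) (nat_lit 4) (nat_lit 376) (nat_lit 279) (nat_lit 245))) (XT.nd (nat_lit 78) (nat_lit 76) (nat_lit 0) (XT.lf (nat_lit 0) (nat_lit 5438961475) (nat_lit 152) (nat_lit 5643907500) (nat_lit 228) (nat_lit 3735727503) (nat_lit 51) (nat_lit 5) (nat_lit 53) (nat_lit 5) (nat_lit 54) (nat_lit 4) (nat_lit 377) (nat_lit 279) (nat_lit 244)) (XT.lf (nat_lit 0) (nat_lit 491120886) (nat_lit 228) (nat_lit 754818625) (nat_lit 76) (nat_lit 13866898444) (nat_lit 50) (nat_lit 5) (nat_lit 53) (nat_lit 5) (nat_lit 51) (nat_lit 5) (nat_lit 378) (nat_lit 279) (nat_lit 243)))))) (XT.nd (nat_lit 546) (nat_lit 608) (nat_lit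 0) (XT.nd (nat_lit 234) (nat_lit 304) (nat_lit 0) (XT.nd (nat_lit 78) (nat_lit 152) (nat_lit 0) (XT.lf (nat_lit 0) (nat_lit 4819933963) (nat_lit 228) (nat_lit 7302082034) (nat_lit 76) (nat_lit 3291286472) (nat_lit 48) (nat_lit 5) (nat_lit 51) (nat_lit 5) (nat_lit 49) (nat_lit 4) (nat_lit 379) (nat_lit 279) (nat_lit 242)) (XT.nd (nat_lit 78) (nat_lit 0) (nat_lit 0) (XT.lf (nat_lit 0) (nat_lit 1445409108) (nat_lit 152) (nat_lit 7807123913) (nat_lit 228) (nat_lit 6471042597) (nat_lit 46) (nat_lit 5) (nat_lit 48) (nat_lit 5) (nat_lit 49) (nat_lit 4) (nat_lit 380) (nat_lit 279) (nat_lit 241)) (XT.lf (nat_lit 0) (nat_lit 10499509091) (nat_lit 152) (nat_lit 3333065028) (nat_lit 228) (nat_lit 2210160916) (nat_lit 46) (nat_lit 5) (nat_lit 48) (nat_lit 5) (nat_lit 49) (nat_lit 4) (nat_lit 381) (nat_lit 279) (nat_lit 240)))) (XT.nd (nat_lit 156) (nat_lit 76) (nat_lit 0) (XT.nd (nat_lit 78) (nat_lit 0) (nat_lit 0)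 (XT.lf (nat_lit 0) (nat_lit 2122899510) (nat_lit 228) (nat_lit 12988485816) (nat_lit 76) (nat_lit 1259861057) (nat_lit 43) (nat_lit 5) (nat_lit 46) (nat_lit 5) (nat_lit 44) (nat_lit 4) (nat_lit 382) (nat_lit 279) (nat_lit 239)) (XT.lf (nat_lit 0) (nat_lit 6573205687) (nat_lit 228) (nat_lit 4177094605) (nat_lit 76) (nat_lit 5957716990) (nat_lit 43) (nat_lit 5) (nat_lit 46) (nat_lit 5) (nat_lit 44) (nat_lit 4) (nat_lit 383) (nat_lit 279) (nat_lit 238))) (XT.nd (nat_lit 78) (nat_lit 0) (nat_lit 0) (XT.lf (nat_lit 0) (nat_lit 4893268748) (nat_lit 76) (nat_lit 6254619891) (nat_lit 152) (nat_lit 5907287298) (nat_lit 42) (nat_lit 5) (nat_lit 43) (nat_lit 5) (nat_lit 44) (nat_lit 4) (nat_lit 384) (nat_lit 279) (nat_lit 237)) (XT.lf (nat_lit 0) (nat_lit 14221503229) (nat_lit 76) (nat_lit 1624995842) (nat_lit 152) (nat_lit 1566660013) (nat_lit 42) (nat_lit 5) (nat_lit 43) (nat_lit 5) (nat_lit 44) (nat_lit 4) (nat_lit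 385) (nat_lit 279) (nat_lit 236))))) (XT.nd (nat_lit 234) (nat_lit 304) (nat_lit 0) (XT.nd (nat_lit 78) (nat_lit 76) (nat_lit 0) (XT.lf (nat_lit 0) (nat_lit 2881799981) (nat_lit 228) (nat_lit 11772003988) (nat_lit 76) (nat_lit 3126221453) (nat_lit 39) (nat_lit 5) (nat_lit 42) (nat_lit 5) (nat_lit 40) (nat_lit 4) (nat_lit 386) (nat_lit 279) (nat_lit 235)) (XT.nd (nat_lit 78) (nat_lit 76) (nat_lit 0) (XT.lf (nat_lit 0) (nat_lit 7426678019) (nat_lit 228) (nat_lit 2738030711) (nat_lit 76) (nat_lit 7992899566) (nat_lit 39) (nat_lit 5) (nat_lit 42) (nat_lit 5) (nat_lit 40) (nat_lit 4) (nat_lit 387) (nat_lit 279) (nat_lit 234)) (XT.lf (nat_lit 0) (nat_lit 6600325808) (nat_lit 76) (nat_lit 5518416084) (nat_lit 152) (nat_lit 6427460769) (nat_lit 38) (nat_lit 5) (nat_lit 39) (nat_lit 5) (nat_lit 40) (nat_lit 4) (nat_lit 388) (nat_lit 279) (nat_lit 233)))) (XT.nd (nat_lit 156) (nat_lit 76) (nat_lit 0) (XT.nd (nat_lit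 78) (nat_lit 228) (nat_lit 0) (XT.lf (nat_lit 0) (nat_lit 16180463492) (nat_lit 76) (nat_lit 746769939) (nat_lit 152) (nat_lit 2019960377) (nat_lit 38) (nat_lit 5) (nat_lit 39) (nat_lit 5) (nat_lit 40) (nat_lit 4) (nat_lit 389) (nat_lit 279) (nat_lit 232)) (XT.lf (nat_lit 0) (nat_lit 2524579385) (nat_lit 228) (nat_lit 12698060888) (nat_lit 76) (nat_lit 4135236660) (nat_lit 35) (nat_lit 5) (nat_lit 38) (nat_lit 5) (nat_lit 36) (nat_lit 4) (nat_lit 390) (nat_lit 279) (nat_lit 231))) (XT.nd (nat_lit 78) (nat_lit 76) (nat_lit 0) (XT.lf (nat_lit 0) (nat_lit 7149690984) (nat_lit 228) (nat_lit 3474816625) (nat_lit 76) (nat_lit 9156236076) (nat_lit 35) (nat_lit 5) (nat_lit 38) (nat_lit 5) (nat_lit 36) (nat_lit 4) (nat_lit 391) (nat_lit 279) (nat_lit 230)) (XT.lf (nat_lit 0) (nat_lit 6052970019) (nat_lit 76) (nat_lit 5869475533) (nat_lit 152) (nat_lit 8293592126) (nat_lit 34) (nat_lit 5) (nat_lit 35) (nat_lit 5)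 (nat_lit 36) (nat_lit 4) (nat_lit 392) (nat_lit 279) (nat_lit 229))))))) (XT.nd (nat_lit 1014) (nat_lit 532) (nat_lit 0) (XT.nd (nat_lit 468) (nat_lit 456) (nat_lit 0) (XT.nd (nat_lit 234) (nat_lit 76) (nat_lit 0) (XT.nd (nat_lit 78) (nat_lit 228) (nat_lit 0) (XT.lf (nat_lit 0) (nat_lit 15848435406) (nat_lit 76) (nat_lit 976317515) (nat_lit 152) (nat_lit 3840054163) (nat_lit 34) (nat_lit 5) (nat_lit 35) (nat_lit 5) (nat_lit 36) (nat_lit 4) (nat_lit 393) (nat_lit 279) (nat_lit 228)) (XT.nd (nat_lit 78) (nat_lit 0) (nat_lit 0) (XT.lf (nat_lit 0) (nat_lit 770176418) (nat_lit 228) (nat_lit 16356426861) (nat_lit 76) (nat_lit 3999098156) (nat_lit 31) (nat_lit 5) (nat_lit 34) (nat_lit 5) (nat_lit 32) (nat_lit 4) (nat_lit 394) (nat_lit 279) (nat_lit 227)) (XT.lf (nat_lit 0) (nat_lit 5452716404) (nat_lit 228) (nat_lit 6993832813) (nat_lit 76) (nat_lit 9152404321) (nat_lit 31) (nat_lit 5) (nat_lit 34) (nat_lit 5)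 (nat_lit 32) (nat_lit 4) (nat_lit 395) (nat_lit 279) (nat_lit 226)))) (XT.nd (nat_lit 78) (nat_lit 0) (nat_lit 0) (XT.lf (nat_lit 0) (nat_lit 2615312056) (nat_lit 76) (nat_lit 7639346735) (nat_lit 152) (nat_lit 11832383465) (nat_lit 30) (nat_lit 5) (nat_lit 31) (nat_lit 5) (nat_lit 32) (nat_lit 4) (nat_lit 396) (nat_lit 279) (nat_lit 225)) (XT.nd (nat_lit 78) (nat_lit 0) (nat_lit 0) (XT.lf (nat_lit 0) (nat_lit 12571573705) (nat_lit 76) (nat_lit 2654029500) (nat_lit 152) (nat_lit 7363428758) (nat_lit 30) (nat_lit 5) (nat_lit 31) (nat_lit 5) (nat_lit 32) (nat_lit 4) (nat_lit 397) (nat_lit 279) (nat_lit 224)) (XT.lf (nat_lit 0) (nat_lit 20324811106) (nat_lit 152) (nat_lit 386442413) (nat_lit 0) (nat_lit 2395460234) (nat_lit 30) (nat_lit 5) (nat_lit 32) (nat_lit 4) (nat_lit 30) (nat_lit 4) (nat_lit 398) (nat_lit 279) (nat_lit 223))))) (XT.nd (nat_lit 234) (nat_lit 152) (nat_lit 0) (XT.nd (nat_lit 78) (nat_lit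 76) (nat_lit 0) (XT.lf (nat_lit 0) (nat_lit 1975294586) (nat_lit 228) (nat_lit 14042823243) (nat_lit 76) (nat_lit 7618974899) (nat_lit 27) (nat_lit 5) (nat_lit 30) (nat_lit 5) (nat_lit 28) (nat_lit 4) (nat_lit 399) (nat_lit 279) (nat_lit 222)) (XT.nd (nat_lit 78) (nat_lit 76) (nat_lit 0) (XT.lf (nat_lit 0) (nat_lit 6779891402) (nat_lit 228) (nat_lit 4409220233) (nat_lit 76) (nat_lit 12994633113) (nat_lit 27) (nat_lit 5) (nat_lit 30) (nat_lit 5) (nat_lit 28) (nat_lit 4) (nat_lit 400) (nat_lit 279) (nat_lit 221)) (XT.lf (nat_lit 0) (nat_lit 5543212862) (nat_lit 76) (nat_lit 6196616661) (nat_lit 152) (nat_lit 13006636434) (nat_lit 26) (nat_lit 5) (nat_lit 27) (nat_lit 5) (nat_lit 28) (nat_lit 4) (nat_lit 401) (nat_lit 279) (nat_lit 220)))) (XT.nd (nat_lit 156) (nat_lit 76) (nat_lit 0) (XT.nd (nat_lit 78) (nat_lit 76) (nat_lit 0) (XT.lf (nat_lit 0) (nat_lit 15807025688) (nat_lit 76) (nat_lit 1044463168) (nat_lit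 152) (nat_lit 8474497812) (nat_lit 26) (nat_lit 5) (nat_lit 27) (nat_lit 5) (nat_lit 28) (nat_lit 4) (nat_lit 402) (nat_lit 279) (nat_lit 219)) (XT.lf (nat_lit 0) (nat_lit 345429328) (nat_lit 76) (nat_lit 21774635046) (nat_lit 76) (nat_lit 3802727034) (nat_lit 25) (nat_lit 4) (nat_lit 26) (nat_lit 5) (nat_lit 26) (nat_lit 4) (nat_lit 403) (nat_lit 279) (nat_lit 218))) (XT.nd (nat_lit 78) (nat_lit 0) (nat_lit 0) (XT.lf (nat_lit 0) (nat_lit 1056251183) (nat_lit 152) (nat_lit 15930996989) (nat_lit 76) (nat_lit 9547963754) (nat_lit 24) (nat_lit 5) (nat_lit 26) (nat_lit 5) (nat_lit 25) (nat_lit 4) (nat_lit 404) (nat_lit 279) (nat_lit 217)) (XT.lf (nat_lit 0) (nat_lit 5945083824) (nat_lit 152) (nat_lit 6106937485) (nat_lit 76) (nat_lit 15114043686) (nat_lit 24) (nat_lit 5) (nat_lit 26) (nat_lit 5) (nat_lit 25) (nat_lit 4) (nat_lit 405) (nat_lit 279) (nat_lit 216)))))) (XT.nd (nat_lit 546) (nat_lit 228) (nat_lit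 0) (XT.nd (nat_lit 234) (nat_lit 228) (nat_lit 0) (XT.nd (nat_lit 78) (nat_lit 0) (nat_lit 0) (XT.lf (nat_lit 0) (nat_lit 4018367524) (nat_lit 76) (nat_lit 6962507067) (nat_lit 152) (nat_lit 16834965065) (nat_lit 23) (nat_lit 5) (nat_lit 24) (nat_lit 5) (nat_lit 25) (nat_lit 4) (nat_lit 406) (nat_lit 279) (nat_lit 215)) (XT.nd (nat_lit 78) (nat_lit 0) (nat_lit 0) (XT.lf (nat_lit 0) (nat_lit 14501433607) (nat_lit 76) (nat_lit 1690071964) (nat_lit 152) (nat_lit 12292893651) (nat_lit 23) (nat_lit 5) (nat_lit 24) (nat_lit 5) (nat_lit 25) (nat_lit 4) (nat_lit 407) (nat_lit 279) (nat_lit 214)) (XT.lf (nat_lit 0) (nat_lit 21557303510) (nat_lit 152) (nat_lit 3979889039) (nat_lit 0) (nat_lit 3635862103) (nat_lit 23) (nat_lit 5) (nat_lit 25) (nat_lit 4) (nat_lit 23) (nat_lit 4) (nat_lit 408) (nat_lit 279) (nat_lit 213)))) (XT.nd (nat_lit 156) (nat_lit 76) (nat_lit 0) (XT.nd (nat_lit 78) (nat_lit 76) (nat_lit 0) (XT.lf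 (nat_lit 0) (nat_lit 6362835653) (nat_lit 76) (nat_lit 20763109122) (nat_lit 76) (nat_lit 2755173280) (nat_lit 22) (nat_lit 4) (nat_lit 23) (nat_lit 5) (nat_lit 23) (nat_lit 4) (nat_lit 409) (nat_lit 279) (nat_lit 212)) (XT.lf (nat_lit 0) (nat_lit 2211898404) (nat_lit 152) (nat_lit 13601757262) (nat_lit 76) (nat_lit 14795984451) (nat_lit 21) (nat_lit 5) (nat_lit 23) (nat_lit 5) (nat_lit 22) (nat_lit 4) (nat_lit 410) (nat_lit 279) (nat_lit 211))) (XT.nd (nat_lit 78) (nat_lit 76) (nat_lit 0) (XT.lf (nat_lit 0) (nat_lit 7237672922) (nat_lit 152) (nat_lit 3480964290) (nat_lit 76) (nat_lit 20641614267) (nat_lit 21) (nat_lit 5) (nat_lit 23) (nat_lit 5) (nat_lit 22) (nat_lit 4) (nat_lit 411) (nat_lit 279) (nat_lit 210)) (XT.lf (nat_lit 0) (nat_lit 7016338367) (nat_lit 76) (nat_lit 5431412052) (nat_lit 152) (nat_lit 19684628772) (nat_lit 20) (nat_lit 5) (nat_lit 21) (nat_lit 5) (nat_lit 22) (nat_lit 4) (nat_lit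 412) (nat_lit 279) (nat_lit 209))))) (XT.nd (nat_lit 234) (nat_lit 152) (nat_lit 0) (XT.nd (nat_lit 78) (nat_lit 76) (nat_lit 0) (XT.lf (nat_lit 0) (nat_lit 17815943625) (nat_lit 152) (nat_lit 15091309732) (nat_lit 0) (nat_lit 20366761) (nat_lit 20) (nat_lit 5) (nat_lit 22) (nat_lit 4) (nat_lit 20) (nat_lit 4) (nat_lit 413) (nat_lit 279) (nat_lit 208)) (XT.nd (nat_lit 78) (nat_lit 76) (nat_lit 0) (XT.lf (nat_lit 0) (nat_lit 23366119890) (nat_lit 152) (nat_lit 4881868646) (nat_lit 0) (nat_lit 5498105297) (nat_lit 20) (nat_lit 5) (nat_lit 22) (nat_lit 4) (nat_lit 20) (nat_lit 4) (nat_lit 414) (nat_lit 279) (nat_lit 207)) (XT.lf (nat_lit 0) (nat_lit 5684335214) (nat_lit 76) (nat_lit 23421224918) (nat_lit 76) (nat_lit 5482882435) (nat_lit 19) (nat_lit 4) (nat_lit 20) (nat_lit 5) (nat_lit 20) (nat_lit 4) (nat_lit 415) (nat_lit 279) (nat_lit 206)))) (XT.nd (nat_lit 156) (nat_lit 76) (nat_lit 0) (XT.nd (nat_lit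 78) (nat_lit 76) (nat_lit 0) (XT.lf (nat_lit 0) (nat_lit 16607748972) (nat_lit 76) (nat_lit 18427202603) (nat_lit 76) (nat_lit 420580614) (nat_lit 19) (nat_lit 4) (nat_lit 20) (nat_lit 5) (nat_lit 20) (nat_lit 4) (nat_lit 416) (nat_lit 279) (nat_lit 205)) (XT.lf (nat_lit 0) (nat_lit 4669132693) (nat_lit 152) (nat_lit 8594573405) (nat_lit 76) (nat_lit 23084476822) (nat_lit 18) (nat_lit 5) (nat_lit 20) (nat_lit 5) (nat_lit 19) (nat_lit 4) (nat_lit 417) (nat_lit 279) (nat_lit 204))) (XT.nd (nat_lit 78) (nat_lit 0) (nat_lit 0) (XT.lf (nat_lit 0) (nat_lit 1942968159) (nat_lit 76) (nat_lit 7948776133) (nat_lit 152) (nat_lit 27376087320) (nat_lit 17) (nat_lit 5) (nat_lit 18) (nat_lit 5) (nat_lit 19) (nat_lit 4) (nat_lit 418) (nat_lit 279) (nat_lit 203)) (XT.lf (nat_lit 0) (nat_lit 12916360581) (nat_lit 76) (nat_lit 2411776737) (nat_lit 152) (nat_lit 22885222435) (nat_lit 17) (nat_lit 5) (nat_lit 18) (nat_lit 5)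 (nat_lit 19) (nat_lit 4) (nat_lit 419) (nat_lit 279) (nat_lit 202))))))))
noncomputable def xc56 : XT := (XT.nd (nat_lit 2028) (nat_lit 76) (nat_lit 0) (XT.nd (nat_lit 1014) (nat_lit 304) (nat_lit 0) (XT.nd (nat_lit 468) (nat_lit 152) (nat_lit 0) (XT.nd (nat_lit 234) (nat_lit 76) (nat_lit 0) (XT.nd (nat_lit 78) (nat_lit 76) (nat_lit 0) (XT.lf (nat_lit 0) (nat_lit 20930189957) (nat_lit 152) (nat_lit 15055366411) (nat_lit 0) (nat_lit 3201623323) (nat_lit 17) (nat_lit 5) (nat_lit 19) (nat_lit 4) (nat_lit 17) (nat_lit 4) (nat_lit 420) (nat_lit 279) (nat_lit 201)) (XT.nd (nat_lit 78) (nat_lit 76) (nat_lit 0) (XT.lf (nat_lit 0) (nat_lit 26695959385) (nat_lit 152) (nat_lit 4584178350) (nat_lit 0) (nat_lit 8910209740) (nat_lit 17) (nat_lit 5) (nat_lit 19) (nat_lit 4) (nat_lit 17) (nat_lit 4) (nat_lit 421) (nat_lit 279) (nat_lit 200)) (XT.lf (nat_lit 0) (nat_lit 6271273194) (nat_lit 76) (nat_lit 26396310299) (nat_lit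 76) (nat_lit 8555043168) (nat_lit 16) (nat_lit 4) (nat_lit 17) (nat_lit 5) (nat_lit 17) (nat_lit 4) (nat_lit 422) (nat_lit 279) (nat_lit 199)))) (XT.nd (nat_lit 78) (nat_lit 76) (nat_lit 0) (XT.lf (nat_lit 0) (nat_lit 17494624389) (nat_lit 76) (nat_lit 21342922232) (nat_lit 76) (nat_lit 3447754628) (nat_lit 16) (nat_lit 4) (nat_lit 17) (nat_lit 5) (nat_lit 17) (nat_lit 4) (nat_lit 423) (nat_lit 279) (nat_lit 198)) (XT.nd (nat_lit 78) (nat_lit 0) (nat_lit 0) (XT.lf (nat_lit 0) (nat_lit 1750804551) (nat_lit 152) (nat_lit 14393364921) (nat_lit 76) (nat_lit 27235963664) (nat_lit 15) (nat_lit 5) (nat_lit 17) (nat_lit 5) (nat_lit 16) (nat_lit 4) (nat_lit 424) (nat_lit 279) (nat_lit 197)) (XT.lf (nat_lit 0) (nat_lit 7010223387) (nat_lit 152) (nat_lit 3767551048) (nat_lit 76) (nat_lit 33729787981) (nat_lit 15) (nat_lit 5) (nat_lit 17) (nat_lit 5) (nat_lit 16) (nat_lit 4) (nat_lit 425) (nat_lit 279) (nat_lit 196)))))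 (XT.nd (nat_lit 234) (nat_lit 76) (nat_lit 0) (XT.nd (nat_lit 78) (nat_lit 0) (nat_lit 0) (XT.lf (nat_lit 0) (nat_lit 7271076261) (nat_lit 76) (nat_lit 5201193371) (nat_lit 152) (nat_lit 33195202028) (nat_lit 14) (nat_lit 5) (nat_lit 15) (nat_lit 5) (nat_lit 16) (nat_lit 4) (nat_lit 426) (nat_lit 279) (nat_lit 195)) (XT.nd (nat_lit 78) (nat_lit 0) (nat_lit 0) (XT.lf (nat_lit 0) (nat_lit 18116823169) (nat_lit 152) (nat_lit 28196441781) (nat_lit 0) (nat_lit 548356213) (nat_lit 14) (nat_lit 5) (nat_lit 16) (nat_lit 4) (nat_lit 14) (nat_lit 4) (nat_lit 427) (nat_lit 279) (nat_lit 194)) (XT.lf (nat_lit 0) (nat_lit 23957945929) (nat_lit 152) (nat_lit 17788496360) (nat_lit 0) (nat_lit 6344338176) (nat_lit 14) (nat_lit 5) (nat_lit 16) (nat_lit 4) (nat_lit 14) (nat_lit 4) (nat_lit 428) (nat_lit 279) (nat_lit 193)))) (XT.nd (nat_lit 156) (nat_lit 0) (nat_lit 0) (XT.nd (nat_lit 78) (nat_lit 76) (nat_lit 0) (XT.lf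 (nat_lit 0) (nat_lit 29950744754) (nat_lit 152) (nat_lit 7113467761) (nat_lit 0) (nat_lit 12293310984) (nat_lit 14) (nat_lit 5) (nat_lit 16) (nat_lit 4) (nat_lit 14) (nat_lit 4) (nat_lit 429) (nat_lit 279) (nat_lit 192)) (XT.lf (nat_lit 0) (nat_lit 3914354871) (nat_lit 76) (nat_lit 32223728370) (nat_lit 76) (nat_lit 14523745069) (nat_lit 13) (nat_lit 4) (nat_lit 14) (nat_lit 5) (nat_lit 14) (nat_lit 4) (nat_lit 430) (nat_lit 279) (nat_lit 191))) (XT.nd (nat_lit 78) (nat_lit 0) (nat_lit 0) (XT.lf (nat_lit 0) (nat_lit 15375421117) (nat_lit 76) (nat_lit 27184830244) (nat_lit 76) (nat_lit 9443536719) (nat_lit 13) (nat_lit 4) (nat_lit 14) (nat_lit 5) (nat_lit 14) (nat_lit 4) (nat_lit 431) (nat_lit 279) (nat_lit 190)) (XT.lf (nat_lit 0) (nat_lit 27138173542) (nat_lit 76) (nat_lit 22014947293) (nat_lit 76) (nat_lit 4233546754) (nat_lit 13) (nat_lit 4) (nat_lit 14) (nat_lit 5) (nat_lit 14) (nat_lit 4) (nat_lit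 432) (nat_lit 279) (nat_lit 189)))))) (XT.nd (nat_lit 468) (nat_lit 152) (nat_lit 0) (XT.nd (nat_lit 234) (nat_lit 0) (nat_lit 0) (XT.nd (nat_lit 78) (nat_lit 76) (nat_lit 0) (XT.lf (nat_lit 0) (nat_lit 1089101978) (nat_lit 152) (nat_lit 15609462369) (nat_lit 76) (nat_lit 38112790506) (nat_lit 12) (nat_lit 5) (nat_lit 14) (nat_lit 5) (nat_lit 13) (nat_lit 4) (nat_lit 433) (nat_lit 279) (nat_lit 188)) (XT.nd (nat_lit 78) (nat_lit 76) (nat_lit 0) (XT.lf (nat_lit 0) (nat_lit 6465430332) (nat_lit 152) (nat_lit 4733320519) (nat_lit 76) (nat_lit 45079403551) (nat_lit 12) (nat_lit 5) (nat_lit 14) (nat_lit 5) (nat_lit 13) (nat_lit 4) (nat_lit 434) (nat_lit 279) (nat_lit 187)) (XT.lf (nat_lit 0) (nat_lit 6558102572) (nat_lit 76) (nat_lit 5487685735) (nat_lit 152) (nat_lit 45741889245) (nat_lit 11) (nat_lit 5) (nat_lit 12) (nat_lit 5) (nat_lit 13) (nat_lit 4) (nat_lit 435) (nat_lit 279) (nat_lit 186)))) (XT.nd (nat_lit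 78) (nat_lit 0) (nat_lit 0) (XT.lf (nat_lit 0) (nat_lit 17825363351) (nat_lit 152) (nat_lit 41099042461) (nat_lit 0) (nat_lit 417128152) (nat_lit 11) (nat_lit 5) (nat_lit 13) (nat_lit 4) (nat_lit 11) (nat_lit 4) (nat_lit 436) (nat_lit 279) (nat_lit 185)) (XT.nd (nat_lit 78) (nat_lit 0) (nat_lit 0) (XT.lf (nat_lit 0) (nat_lit 23812990842) (nat_lit 152) (nat_lit 30756810323) (nat_lit 0) (nat_lit 6371166650) (nat_lit 11) (nat_lit 5) (nat_lit 13) (nat_lit 4) (nat_lit 11) (nat_lit 4) (nat_lit 437) (nat_lit 279) (nat_lit 184)) (XT.lf (nat_lit 0) (nat_lit 29961151697) (nat_lit 152) (nat_lit 20141090672) (nat_lit 0) (nat_lit 12486716833) (nat_lit 11) (nat_lit 5) (nat_lit 13) (nat_lit 4) (nat_lit 11) (nat_lit 4) (nat_lit 438) (nat_lit 279) (nat_lit 183))))) (XT.nd (nat_lit 234) (nat_lit 76) (nat_lit 0) (XT.nd (nat_lit 78) (nat_lit 76) (nat_lit 0) (XT.lf (nat_lit 0) (nat_lit 36275218094) (nat_lit 152) (nat_lit 9242607637)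 (nat_lit 0) (nat_lit 18769122383) (nat_lit 11) (nat_lit 5) (nat_lit 13) (nat_lit 4) (nat_lit 11) (nat_lit 4) (nat_lit 439) (nat_lit 279) (nat_lit 182)) (XT.nd (nat_lit 78) (nat_lit 0) (nat_lit 0) (XT.lf (nat_lit 0) (nat_lit 1986933965) (nat_lit 76) (nat_lit 40792872839) (nat_lit 76) (nat_lit 23256038441) (nat_lit 10) (nat_lit 4) (nat_lit 11) (nat_lit 5) (nat_lit 11) (nat_lit 4) (nat_lit 440) (nat_lit 279) (nat_lit 181)) (XT.lf (nat_lit 0) (nat_lit 13708497935) (nat_lit 76) (nat_lit 35846562418) (nat_lit 76) (nat_lit 18279884636) (nat_lit 10) (nat_lit 4) (nat_lit 11) (nat_lit 5) (nat_lit 11) (nat_lit 4) (nat_lit 441) (nat_lit 279) (nat_lit 180)))) (XT.nd (nat_lit 156) (nat_lit 76) (nat_lit 0) (XT.nd (nat_lit 78) (nat_lit 0) (nat_lit 0) (XT.lf (nat_lit 0) (nat_lit 25748380400) (nat_lit 76) (nat_lit 30767904666) (nat_lit 76) (nat_lit 13172252723) (nat_lit 10) (nat_lit 4) (nat_lit 11) (nat_lit 5) (nat_lit 11)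 (nat_lit 4) (nat_lit 442) (nat_lit 279) (nat_lit 179)) (XT.lf (nat_lit 0) (nat_lit 38117101646) (nat_lit 76) (nat_lit 25552461919) (nat_lit 76) (nat_lit 7928679724) (nat_lit 10) (nat_lit 4) (nat_lit 11) (nat_lit 5) (nat_lit 11) (nat_lit 4) (nat_lit 443) (nat_lit 279) (nat_lit 178))) (XT.nd (nat_lit 78) (nat_lit 76) (nat_lit 0) (XT.lf (nat_lit 0) (nat_lit 50825469293) (nat_lit 76) (nat_lit 20195676996) (nat_lit 76) (nat_lit 2544583876) (nat_lit 10) (nat_lit 4) (nat_lit 11) (nat_lit 5) (nat_lit 11) (nat_lit 4) (nat_lit 444) (nat_lit 279) (nat_lit 177)) (XT.lf (nat_lit 0) (nat_lit 2926496354) (nat_lit 152) (nat_lit 11736820979) (nat_lit 76) (nat_lit 60928539510) (nat_lit 9) (nat_lit 5) (nat_lit 11) (nat_lit 5) (nat_lit 10) (nat_lit 4) (nat_lit 445) (nat_lit 279) (nat_lit 176))))))) (XT.nd (nat_lit 39390) (nat_lit 0) (nat_lit 5092) (XT.nd (nat_lit 38844) (nat_lit 0) (nat_lit 8056) (XT.nd (nat_lit 38610) (nat_lit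 0) (nat_lit 10336) (XT.nd (nat_lit 78) (nat_lit 76) (nat_lit 0) (XT.lf (nat_lit 0) (nat_lit 8495053247) (nat_lit 152) (nat_lit 458393653) (nat_lit 76) (nat_lit 68725031239) (nat_lit 9) (nat_lit 5) (nat_lit 11) (nat_lit 5) (nat_lit 10) (nat_lit 4) (nat_lit 446) (nat_lit 279) (nat_lit 175)) (XT.nd (nat_lit 78) (nat_lit 0) (nat_lit 0) (XT.lf (nat_lit 0) (nat_lit 11350831752) (nat_lit 76) (nat_lit 2973885914) (nat_lit 152) (nat_lit 65500160114) (nat_lit 8) (nat_lit 5) (nat_lit 9) (nat_lit 5) (nat_lit 10) (nat_lit 4) (nat_lit 447) (nat_lit 279) (nat_lit 174)) (XT.lf (nat_lit 0) (nat_lit 20349532005) (nat_lit 152) (nat_lit 58571542983) (nat_lit 0) (nat_lit 3113987817) (nat_lit 8) (nat_lit 5) (nat_lit 10) (nat_lit 4) (nat_lit 8) (nat_lit 4) (nat_lit 448) (nat_lit 279) (nat_lit 173)))) (XT.nd (nat_lit 78) (nat_lit 532) (nat_lit 0) (XT.lf (nat_lit 0) (nat_lit 545038708) (nat_lit 456) (nat_lit 3038845817) (nat_lit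 0) (nat_lit 545038708) (nat_lit 151) (nat_lit 5) (nat_lit 157) (nat_lit 4) (nat_lit 151) (nat_lit 4) (nat_lit 340) (nat_lit 280) (nat_lit 280)) (XT.nd (nat_lit 78) (nat_lit 76) (nat_lit 0) (XT.lf (nat_lit 0) (nat_lit 319734227) (nat_lit 456) (nat_lit 4583263028) (nat_lit 456) (nat_lit 3451314400) (nat_lit 145) (nat_lit 4) (nat_lit 151) (nat_lit 5) (nat_lit 151) (nat_lit 4) (nat_lit 341) (nat_lit 280) (nat_lit 279)) (XT.lf (nat_lit 0) (nat_lit 333495832) (nat_lit 532) (nat_lit 1553931340) (nat_lit 76) (nat_lit 6567262819) (nat_lit 144) (nat_lit 5) (nat_lit 151) (nat_lit 5) (nat_lit 145) (nat_lit 4) (nat_lit 342) (nat_lit 280) (nat_lit 278))))) (XT.nd (nat_lit 234) (nat_lit 1140) (nat_lit 0) (XT.nd (nat_lit 78) (nat_lit 760) (nat_lit 0) (XT.lf (nat_lit 0) (nat_lit 4125233976) (nat_lit 456) (nat_lit 3509599349) (nat_lit 0) (nat_lit 923391232) (nat_lit 139) (nat_lit 5) (nat_lit 145) (nat_lit 4) (nat_lit 139)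 (nat_lit 4) (nat_lit 343) (nat_lit 280) (nat_lit 277)) (XT.nd (nat_lit 78) (nat_lit 380) (nat_lit 0) (XT.lf (nat_lit 0) (nat_lit 3129958168) (nat_lit 380) (nat_lit 4871697269) (nat_lit 380) (nat_lit 664132829) (nat_lit 134) (nat_lit 4) (nat_lit 139) (nat_lit 5) (nat_lit 139) (nat_lit 4) (nat_lit 344) (nat_lit 280) (nat_lit 276)) (XT.lf (nat_lit 0) (nat_lit 1126192598) (nat_lit 304) (nat_lit 1982273346) (nat_lit 380) (nat_lit 5668629130) (nat_lit 129) (nat_lit 5) (nat_lit 133) (nat_lit 5) (nat_lit 134) (nat_lit 4) (nat_lit 345) (nat_lit 280) (nat_lit 275)))) (XT.nd (nat_lit 156) (nat_lit 684) (nat_lit 0) (XT.nd (nat_lit 78) (nat_lit 456) (nat_lit 0) (XT.lf (nat_lit 0) (nat_lit 6954878038) (nat_lit 380) (nat_lit 935995938) (nat_lit 0) (nat_lit 1001497041) (nat_lit 129) (nat_lit 5) (nat_lit 134) (nat_lit 4) (nat_lit 129) (nat_lit 4) (nat_lit 346) (nat_lit 280) (nat_lit 274)) (XT.lf (nat_lit 0) (nat_lit 1855700323)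 (nat_lit 456) (nat_lit 3079880041) (nat_lit 76) (nat_lit 4075400144) (nat_lit 123) (nat_lit 5) (nat_lit 129) (nat_lit 5) (nat_lit 124) (nat_lit 4) (nat_lit 347) (nat_lit 280) (nat_lit 273))) (XT.nd (nat_lit 78) (nat_lit 380) (nat_lit 0) (XT.lf (nat_lit 0) (nat_lit 3818201217) (nat_lit 304) (nat_lit 1862930449) (nat_lit 380) (nat_lit 3452762350) (nat_lit 119) (nat_lit 5) (nat_lit 123) (nat_lit 5) (nat_lit 124) (nat_lit 4) (nat_lit 348) (nat_lit 280) (nat_lit 272)) (XT.lf (nat_lit 0) (nat_lit 325070924) (nat_lit 380) (nat_lit 7647651802) (nat_lit 76) (nat_lit 1288570009) (nat_lit 114) (nat_lit 5) (nat_lit 119) (nat_lit 5) (nat_lit 115) (nat_lit 4) (nat_lit 349) (nat_lit 280) (nat_lit 271)))))) (XT.nd (nat_lit 546) (nat_lit 1444) (nat_lit 0) (XT.nd (nat_lit 234) (nat_lit 836) (nat_lit 0) (XT.nd (nat_lit 78) (nat_lit 684) (nat_lit 0) (XT.lf (nat_lit 0) (nat_lit 4132071982) (nat_lit 380) (nat_lit 713365648)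 (nat_lit 76) (nat_lit 4546532434) (nat_lit 114) (nat_lit 5) (nat_lit 119) (nat_lit 5) (nat_lit 115) (nat_lit 4) (nat_lit 350) (nat_lit 280) (nat_lit 270)) (XT.nd (nat_lit 78) (nat_lit 380) (nat_lit 0) (XT.lf (nat_lit 0) (nat_lit 6429042023) (nat_lit 304) (nat_lit 1601162770) (nat_lit 380) (nat_lit 1497093248) (nat_lit 110) (nat_lit 5) (nat_lit 114) (nat_lit 5) (nat_lit 115) (nat_lit 4) (nat_lit 351) (nat_lit 280) (nat_lit 269)) (XT.lf (nat_lit 0) (nat_lit 2311079708) (nat_lit 380) (nat_lit 5619794698) (nat_lit 76) (nat_lit 1735794345) (nat_lit 105) (nat_lit 5) (nat_lit 110) (nat_lit 5) (nat_lit 106) (nat_lit 4) (nat_lit 352) (nat_lit 280) (nat_lit 268)))) (XT.nd (nat_lit 156) (nat_lit 532) (nat_lit 0) (XT.nd (nat_lit 78) (nat_lit 76) (nat_lit 0) (XT.lf (nat_lit 0) (nat_lit 1532763962) (nat_lit 228) (nat_lit 4649227875) (nat_lit 304) (nat_lit 3628461299) (nat_lit 102) (nat_lit 5) (nat_lit 105) (nat_lit 5)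 (nat_lit 106) (nat_lit 4) (nat_lit 353) (nat_lit 280) (nat_lit 267)) (XT.lf (nat_lit 0) (nat_lit 180464724) (nat_lit 304) (nat_lit 1071527878) (nat_lit 76) (nat_lit 8707307763) (nat_lit 101) (nat_lit 5) (nat_lit 105) (nat_lit 5) (nat_lit 102) (nat_lit 5) (nat_lit 354) (nat_lit 280) (nat_lit 266))) (XT.nd (nat_lit 78) (nat_lit 228) (nat_lit 0) (XT.lf (nat_lit 0) (nat_lit 4032782199) (nat_lit 380) (nat_lit 3819692451) (nat_lit 76) (nat_lit 2259030841) (nat_lit 97) (nat_lit 5) (nat_lit 102) (nat_lit 5) (nat_lit 98) (nat_lit 4) (nat_lit 355) (nat_lit 280) (nat_lit 265)) (XT.lf (nat_lit 0) (nat_lit 3562799459) (nat_lit 228) (nat_lit 4415413489) (nat_lit 304) (nat_lit 2290768391) (nat_lit 94) (nat_lit 5) (nat_lit 97) (nat_lit 5) (nat_lit 98) (nat_lit 4) (nat_lit 356) (nat_lit 280) (nat_lit 264))))) (XT.nd (nat_lit 234) (nat_lit 836) (nat_lit 0) (XT.nd (nat_lit 78) (nat_lit 228) (nat_lit 0) (XT.lf (nat_lit 0)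 (nat_lit 687914947) (nat_lit 304) (nat_lit 857353178) (nat_lit 380) (nat_lit 8886501640) (nat_lit 89) (nat_lit 5) (nat_lit 93) (nat_lit 5) (nat_lit 94) (nat_lit 5) (nat_lit 357) (nat_lit 280) (nat_lit 263)) (XT.nd (nat_lit 78) (nat_lit 228) (nat_lit 0) (XT.lf (nat_lit 0) (nat_lit 5466732876) (nat_lit 380) (nat_lit 2331858954) (nat_lit 76) (nat_lit 2799706167) (nat_lit 89) (nat_lit 5) (nat_lit 94) (nat_lit 5) (nat_lit 90) (nat_lit 4) (nat_lit 358) (nat_lit 280) (nat_lit 262)) (XT.lf (nat_lit 0) (nat_lit 5275183599) (nat_lit 228) (nat_lit 4213168129) (nat_lit 304) (nat_lit 1282022480) (nat_lit 86) (nat_lit 5) (nat_lit 89) (nat_lit 5) (nat_lit 90) (nat_lit 4) (nat_lit 359) (nat_lit 280) (nat_lit 261)))) (XT.nd (nat_lit 156) (nat_lit 532) (nat_lit 0) (XT.nd (nat_lit 78) (nat_lit 0) (nat_lit 0) (XT.lf (nat_lit 0) (nat_lit 2104254981) (nat_lit 228) (nat_lit 494017157) (nat_lit 304) (nat_lit 8349564084) (nat_lit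 82) (nat_lit 5) (nat_lit 85) (nat_lit 5) (nat_lit 86) (nat_lit 5) (nat_lit 360) (nat_lit 280) (nat_lit 260)) (XT.lf (nat_lit 0) (nat_lit 6581560105) (nat_lit 304) (nat_lit 1252708706) (nat_lit 76) (nat_lit 3295627038) (nat_lit 82) (nat_lit 5) (nat_lit 86) (nat_lit 5) (nat_lit 83) (nat_lit 4) (nat_lit 361) (nat_lit 280) (nat_lit 259))) (XT.nd (nat_lit 78) (nat_lit 304) (nat_lit 0) (XT.lf (nat_lit 0) (nat_lit 6570014953) (nat_lit 228) (nat_lit 4108822044) (nat_lit 304) (nat_lit 638769937) (nat_lit 79) (nat_lit 5) (nat_lit 82) (nat_lit 5) (nat_lit 83) (nat_lit 4) (nat_lit 362) (nat_lit 280) (nat_lit 258)) (XT.lf (nat_lit 0) (nat_lit 3049848201) (nat_lit 228) (nat_lit 240923547) (nat_lit 304) (nat_lit 8220159452) (nat_lit 75) (nat_lit 5) (nat_lit 78) (nat_lit 5) (nat_lit 79) (nat_lit 5) (nat_lit 363) (nat_lit 280) (nat_lit 257))))))))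
noncomputable def xc57 : XT := (XT.nd (nat_lit 2028) (nat_lit 1444) (nat_lit 0) (XT.nd (nat_lit 1014) (nat_lit 1140) (nat_lit 0) (XT.nd (nat_lit 468) (nat_lit 760) (nat_lit 0) (XT.nd (nat_lit 234) (nat_lit 456) (nat_lit 0) (XT.nd (nat_lit 78) (nat_lit 456) (nat_lit 0) (XT.lf (nat_lit 0) (nat_lit 7337022296) (nat_lit 304) (nat_lit 692942099) (nat_lit 76) (nat_lit 3679573538) (nat_lit 75) (nat_lit 5) (nat_lit 79) (nat_lit 5) (nat_lit 76) (nat_lit 4) (nat_lit 364) (nat_lit 280) (nat_lit 256)) (XT.nd (nat_lit 78) (nat_lit 304) (nat_lit 0) (XT.lf (nat_lit 0) (nat_lit 7332357305) (nat_lit 152) (nat_lit 4174555127) (nat_lit 228) (nat_lit 407144531) (nat_lit 73) (nat_lit 5) (nat_lit 75) (nat_lit 5) (nat_lit 76) (nat_lit 4) (nat_lit 365) (nat_lit 280) (nat_lit 255)) (XT.lf (nat_lit 0) (nat_lit 3402232635) (nat_lit 228) (nat_lit 172591177) (nat_lit 304) (nat_lit 8549766009) (nat_lit 69) (nat_lit 5) (nat_lit 72) (nat_lit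 5) (nat_lit 73) (nat_lit 5) (nat_lit 366) (nat_lit 280) (nat_lit 254)))) (XT.nd (nat_lit 78) (nat_lit 456) (nat_lit 0) (XT.lf (nat_lit 0) (nat_lit 7682869721) (nat_lit 304) (nat_lit 780272815) (nat_lit 76) (nat_lit 3877750964) (nat_lit 69) (nat_lit 5) (nat_lit 73) (nat_lit 5) (nat_lit 70) (nat_lit 4) (nat_lit 367) (nat_lit 280) (nat_lit 253)) (XT.nd (nat_lit 78) (nat_lit 304) (nat_lit 0) (XT.lf (nat_lit 0) (nat_lit 7429386126) (nat_lit 152) (nat_lit 4490044147) (nat_lit 228) (nat_lit 644117061) (nat_lit 67) (nat_lit 5) (nat_lit 69) (nat_lit 5) (nat_lit 70) (nat_lit 4) (nat_lit 368) (nat_lit 280) (nat_lit 252)) (XT.lf (nat_lit 0) (nat_lit 3019783738) (nat_lit 228) (nat_lit 371660816) (nat_lit 304) (nat_lit 9401367541) (nat_lit 63) (nat_lit 5) (nat_lit 66) (nat_lit 5) (nat_lit 67) (nat_lit 5) (nat_lit 369) (nat_lit 280) (nat_lit 251))))) (XT.nd (nat_lit 234) (nat_lit 380) (nat_lit 0) (XT.nd (nat_lit 78) (nat_lit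 380) (nat_lit 0) (XT.lf (nat_lit 0) (nat_lit 7557485424) (nat_lit 304) (nat_lit 1662557115) (nat_lit 76) (nat_lit 3808067795) (nat_lit 63) (nat_lit 5) (nat_lit 67) (nat_lit 5) (nat_lit 64) (nat_lit 4) (nat_lit 370) (nat_lit 280) (nat_lit 250)) (XT.nd (nat_lit 78) (nat_lit 228) (nat_lit 0) (XT.lf (nat_lit 0) (nat_lit 6707112045) (nat_lit 152) (nat_lit 5144302322) (nat_lit 228) (nat_lit 1418983044) (nat_lit 61) (nat_lit 5) (nat_lit 63) (nat_lit 5) (nat_lit 64) (nat_lit 4) (nat_lit 371) (nat_lit 280) (nat_lit 249)) (XT.lf (nat_lit 0) (nat_lit 1738244782) (nat_lit 152) (nat_lit 930823677) (nat_lit 228) (nat_lit 10851048357) (nat_lit 58) (nat_lit 5) (nat_lit 60) (nat_lit 5) (nat_lit 61) (nat_lit 5) (nat_lit 372) (nat_lit 280) (nat_lit 248)))) (XT.nd (nat_lit 156) (nat_lit 228) (nat_lit 0) (XT.nd (nat_lit 78) (nat_lit 152) (nat_lit 0) (XT.lf (nat_lit 0) (nat_lit 6886273890) (nat_lit 228) (nat_lit 3511393833)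 (nat_lit 76) (nat_lit 3378203270) (nat_lit 58) (nat_lit 5) (nat_lit 61) (nat_lit 5) (nat_lit 59) (nat_lit 4) (nat_lit 373) (nat_lit 280) (nat_lit 247)) (XT.lf (nat_lit 0) (nat_lit 4986609180) (nat_lit 152) (nat_lit 6237750365) (nat_lit 228) (nat_lit 2815122521) (nat_lit 56) (nat_lit 5) (nat_lit 58) (nat_lit 5) (nat_lit 59) (nat_lit 4) (nat_lit 374) (nat_lit 280) (nat_lit 246))) (XT.nd (nat_lit 78) (nat_lit 152) (nat_lit 0) (XT.lf (nat_lit 0) (nat_lit 1327815512) (nat_lit 228) (nat_lit 620912292) (nat_lit 76) (nat_lit 12362693899) (nat_lit 55) (nat_lit 5) (nat_lit 58) (nat_lit 5) (nat_lit 56) (nat_lit 5) (nat_lit 375) (nat_lit 280) (nat_lit 245)) (XT.lf (nat_lit 0) (nat_lit 5579760683) (nat_lit 228) (nat_lit 6526274351) (nat_lit 76) (nat_lit 2483423214) (nat_lit 53) (nat_lit 5) (nat_lit 56) (nat_lit 5) (nat_lit 54) (nat_lit 4) (nat_lit 376) (nat_lit 280) (nat_lit 244)))))) (XT.nd (nat_lit 468) (nat_lit 532)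 (nat_lit 0) (XT.nd (nat_lit 234) (nat_lit 228) (nat_lit 0) (XT.nd (nat_lit 78) (nat_lit 228) (nat_lit 0) (XT.lf (nat_lit 0) (nat_lit 2059665145) (nat_lit 152) (nat_lit 7884563375) (nat_lit 228) (nat_lit 4932071940) (nat_lit 51) (nat_lit 5) (nat_lit 53) (nat_lit 5) (nat_lit 54) (nat_lit 4) (nat_lit 377) (nat_lit 280) (nat_lit 243)) (XT.nd (nat_lit 78) (nat_lit 228) (nat_lit 0) (XT.lf (nat_lit 0) (nat_lit 10931951589) (nat_lit 152) (nat_lit 3513872056) (nat_lit 228) (nat_lit 725751597) (nat_lit 51) (nat_lit 5) (nat_lit 53) (nat_lit 5) (nat_lit 54) (nat_lit 4) (nat_lit 378) (nat_lit 280) (nat_lit 242)) (XT.lf (nat_lit 0) (nat_lit 3531359998) (nat_lit 228) (nat_lit 10939374064) (nat_lit 76) (nat_lit 1004096973) (nat_lit 48) (nat_lit 5) (nat_lit 51) (nat_lit 5) (nat_lit 49) (nat_lit 4) (nat_lit 379) (nat_lit 280) (nat_lit 241)))) (XT.nd (nat_lit 78) (nat_lit 228) (nat_lit 0) (XT.lf (nat_lit 0) (nat_lit 7921366133)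 (nat_lit 228) (nat_lit 2271045056) (nat_lit 76) (nat_lit 5593976693) (nat_lit 48) (nat_lit 5) (nat_lit 51) (nat_lit 5) (nat_lit 49) (nat_lit 4) (nat_lit 380) (nat_lit 280) (nat_lit 240)) (XT.nd (nat_lit 78) (nat_lit 76) (nat_lit 0) (XT.lf (nat_lit 0) (nat_lit 6687399257) (nat_lit 152) (nat_lit 5763394915) (nat_lit 228) (nat_lit 3656277253) (nat_lit 46) (nat_lit 5) (nat_lit 48) (nat_lit 5) (nat_lit 49) (nat_lit 4) (nat_lit 381) (nat_lit 280) (nat_lit 239)) (XT.lf (nat_lit 0) (nat_lit 632210876) (nat_lit 228) (nat_lit 582867141) (nat_lit 76) (nat_lit 15223110926) (nat_lit 45) (nat_lit 5) (nat_lit 48) (nat_lit 5) (nat_lit 46) (nat_lit 5) (nat_lit 382) (nat_lit 280) (nat_lit 238))))) (XT.nd (nat_lit 234) (nat_lit 304) (nat_lit 0) (XT.nd (nat_lit 78) (nat_lit 76) (nat_lit 0) (XT.lf (nat_lit 0) (nat_lit 5037396312) (nat_lit 228) (nat_lit 8259382068) (nat_lit 76) (nat_lit 3479540334) (nat_lit 43) (nat_lit 5) (nat_lit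 46) (nat_lit 5) (nat_lit 44) (nat_lit 4) (nat_lit 383) (nat_lit 280) (nat_lit 237)) (XT.nd (nat_lit 78) (nat_lit 0) (nat_lit 0) (XT.lf (nat_lit 0) (nat_lit 680540629) (nat_lit 76) (nat_lit 8864179523) (nat_lit 152) (nat_lit 7580783086) (nat_lit 42) (nat_lit 5) (nat_lit 43) (nat_lit 5) (nat_lit 44) (nat_lit 4) (nat_lit 384) (nat_lit 280) (nat_lit 236)) (XT.lf (nat_lit 0) (nat_lit 9961012846) (nat_lit 76) (nat_lit 4255777266) (nat_lit 152) (nat_lit 3267497434) (nat_lit 42) (nat_lit 5) (nat_lit 43) (nat_lit 5) (nat_lit 44) (nat_lit 4) (nat_lit 385) (nat_lit 280) (nat_lit 235)))) (XT.nd (nat_lit 156) (nat_lit 76) (nat_lit 0) (XT.nd (nat_lit 78) (nat_lit 0) (nat_lit 0) (XT.lf (nat_lit 0) (nat_lit 1119283871) (nat_lit 228) (nat_lit 16268595582) (nat_lit 76) (nat_lit 466615625) (nat_lit 39) (nat_lit 5) (nat_lit 42) (nat_lit 5) (nat_lit 40) (nat_lit 4) (nat_lit 386) (nat_lit 280) (nat_lit 234)) (XT.lf (nat_lit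 0) (nat_lit 5638247192) (nat_lit 228) (nat_lit 7281633185) (nat_lit 76) (nat_lit 5312979543) (nat_lit 39) (nat_lit 5) (nat_lit 42) (nat_lit 5) (nat_lit 40) (nat_lit 4) (nat_lit 387) (nat_lit 280) (nat_lit 233))) (XT.nd (nat_lit 78) (nat_lit 0) (nat_lit 0) (XT.lf (nat_lit 0) (nat_lit 1919746747) (nat_lit 76) (nat_lit 8340411810) (nat_lit 152) (nat_lit 8363404699) (nat_lit 38) (nat_lit 5) (nat_lit 39) (nat_lit 5) (nat_lit 40) (nat_lit 4) (nat_lit 388) (nat_lit 280) (nat_lit 232)) (XT.lf (nat_lit 0) (nat_lit 11454690267) (nat_lit 76) (nat_lit 3589098289) (nat_lit 152) (nat_lit 3981515961) (nat_lit 38) (nat_lit 5) (nat_lit 39) (nat_lit 5) (nat_lit 40) (nat_lit 4) (nat_lit 389) (nat_lit 280) (nat_lit 231))))))) (XT.nd (nat_lit 1014) (nat_lit 532) (nat_lit 0) (XT.nd (nat_lit 468) (nat_lit 380) (nat_lit 0) (XT.nd (nat_lit 234) (nat_lit 228) (nat_lit 0) (XT.nd (nat_lit 78) (nat_lit 76) (nat_lit 0) (XT.lf (nat_lit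 0) (nat_lit 501403545) (nat_lit 228) (nat_lit 17676233088) (nat_lit 76) (nat_lit 1261917620) (nat_lit 35) (nat_lit 5) (nat_lit 38) (nat_lit 5) (nat_lit 36) (nat_lit 4) (nat_lit 390) (nat_lit 280) (nat_lit 230)) (XT.nd (nat_lit 78) (nat_lit 76) (nat_lit 0) (XT.lf (nat_lit 0) (nat_lit 5102231780) (nat_lit 228) (nat_lit 8497456900) (nat_lit 76) (nat_lit 6263464731) (nat_lit 35) (nat_lit 5) (nat_lit 38) (nat_lit 5) (nat_lit 36) (nat_lit 4) (nat_lit 391) (nat_lit 280) (nat_lit 229)) (XT.lf (nat_lit 0) (nat_lit 886337240) (nat_lit 76) (nat_lit 8915408191) (nat_lit 152) (nat_lit 10498902992) (nat_lit 34) (nat_lit 5) (nat_lit 35) (nat_lit 5) (nat_lit 36) (nat_lit 4) (nat_lit 392) (nat_lit 280) (nat_lit 228)))) (XT.nd (nat_lit 78) (nat_lit 228) (nat_lit 0) (XT.lf (nat_lit 0) (nat_lit 10639053002) (nat_lit 76) (nat_lit 4041699463) (nat_lit 152) (nat_lit 6069368055) (nat_lit 34) (nat_lit 5) (nat_lit 35) (nat_lit 5)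 (nat_lit 36) (nat_lit 4) (nat_lit 393) (nat_lit 280) (nat_lit 227)) (XT.nd (nat_lit 78) (nat_lit 228) (nat_lit 0) (XT.lf (nat_lit 0) (nat_lit 19669242472) (nat_lit 152) (nat_lit 623400358) (nat_lit 0) (nat_lit 921547822) (nat_lit 34) (nat_lit 5) (nat_lit 36) (nat_lit 4) (nat_lit 34) (nat_lit 4) (nat_lit 394) (nat_lit 280) (nat_lit 226)) (XT.lf (nat_lit 0) (nat_lit 3138801620) (nat_lit 228) (nat_lit 12514725537) (nat_lit 76) (nat_lit 6035232627) (nat_lit 31) (nat_lit 5) (nat_lit 34) (nat_lit 5) (nat_lit 32) (nat_lit 4) (nat_lit 395) (nat_lit 280) (nat_lit 225))))) (XT.nd (nat_lit 234) (nat_lit 304) (nat_lit 0) (XT.nd (nat_lit 78) (nat_lit 76) (nat_lit 0) (XT.lf (nat_lit 0) (nat_lit 7893501692) (nat_lit 228) (nat_lit 2997439904) (nat_lit 76) (nat_lit 11287327447) (nat_lit 31) (nat_lit 5) (nat_lit 34) (nat_lit 5) (nat_lit 32) (nat_lit 4) (nat_lit 396) (nat_lit 280) (nat_lit 224)) (XT.nd (nat_lit 78) (nat_lit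 0) (nat_lit 0) (XT.lf (nat_lit 0) (nat_lit 6858741979) (nat_lit 76) (nat_lit 5954470293) (nat_lit 152) (nat_lit 9868586669) (nat_lit 30) (nat_lit 5) (nat_lit 31) (nat_lit 5) (nat_lit 32) (nat_lit 4) (nat_lit 397) (nat_lit 280) (nat_lit 223)) (XT.lf (nat_lit 0) (nat_lit 16992381655) (nat_lit 76) (nat_lit 875342770) (nat_lit 152) (nat_lit 5333100261) (nat_lit 30) (nat_lit 5) (nat_lit 31) (nat_lit 5) (nat_lit 32) (nat_lit 4) (nat_lit 398) (nat_lit 280) (nat_lit 222)))) (XT.nd (nat_lit 156) (nat_lit 76) (nat_lit 0) (XT.nd (nat_lit 78) (nat_lit 76) (nat_lit 0) (XT.lf (nat_lit 0) (nat_lit 3645603940) (nat_lit 152) (nat_lit 19463040238) (nat_lit 152) (nat_lit 625739935) (nat_lit 28) (nat_lit 4) (nat_lit 30) (nat_lit 5) (nat_lit 30) (nat_lit 4) (nat_lit 399) (nat_lit 280) (nat_lit 221)) (XT.lf (nat_lit 0) (nat_lit 4170337589) (nat_lit 228) (nat_lit 10487756283) (nat_lit 76) (nat_lit 9623747424) (nat_lit 27) (nat_lit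 5) (nat_lit 30) (nat_lit 5) (nat_lit 28) (nat_lit 4) (nat_lit 400) (nat_lit 280) (nat_lit 220))) (XT.nd (nat_lit 78) (nat_lit 76) (nat_lit 0) (XT.lf (nat_lit 0) (nat_lit 9056865004) (nat_lit 228) (nat_lit 680961251) (nat_lit 76) (nat_lit 15108941309) (nat_lit 27) (nat_lit 5) (nat_lit 30) (nat_lit 5) (nat_lit 28) (nat_lit 4) (nat_lit 401) (nat_lit 280) (nat_lit 219)) (XT.lf (nat_lit 0) (nat_lit 9532196449) (nat_lit 76) (nat_lit 4609755384) (nat_lit 152) (nat_lit 11285136278) (nat_lit 26) (nat_lit 5) (nat_lit 27) (nat_lit 5) (nat_lit 28) (nat_lit 4) (nat_lit 402) (nat_lit 280) (nat_lit 218)))))) (XT.nd (nat_lit 546) (nat_lit 304) (nat_lit 0) (XT.nd (nat_lit 234) (nat_lit 76) (nat_lit 0) (XT.nd (nat_lit 78) (nat_lit 152) (nat_lit 0) (XT.lf (nat_lit 0) (nat_lit 19353457619) (nat_lit 152) (nat_lit 6039413665) (nat_lit 0) (nat_lit 632736241) (nat_lit 26) (nat_lit 5) (nat_lit 28) (nat_lit 4) (nat_lit 26) (nat_lit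 4) (nat_lit 403) (nat_lit 280) (nat_lit 217)) (XT.nd (nat_lit 78) (nat_lit 76) (nat_lit 0) (XT.lf (nat_lit 0) (nat_lit 4073755615) (nat_lit 76) (nat_lit 20693965871) (nat_lit 76) (nat_lit 1872973736) (nat_lit 25) (nat_lit 4) (nat_lit 26) (nat_lit 5) (nat_lit 26) (nat_lit 4) (nat_lit 404) (nat_lit 280) (nat_lit 216)) (XT.lf (nat_lit 0) (nat_lit 3033523693) (nat_lit 152) (nat_lit 12760289286) (nat_lit 76) (nat_lit 11478844310) (nat_lit 24) (nat_lit 5) (nat_lit 26) (nat_lit 5) (nat_lit 25) (nat_lit 4) (nat_lit 405) (nat_lit 280) (nat_lit 215)))) (XT.nd (nat_lit 156) (nat_lit 0) (nat_lit 0) (XT.nd (nat_lit 78) (nat_lit 76) (nat_lit 0) (XT.lf (nat_lit 0) (nat_lit 8012353789) (nat_lit 152) (nat_lit 2747778995) (nat_lit 76) (nat_lit 17164010281) (nat_lit 24) (nat_lit 5) (nat_lit 26) (nat_lit 5) (nat_lit 25) (nat_lit 4) (nat_lit 406) (nat_lit 280) (nat_lit 214)) (XT.lf (nat_lit 0) (nat_lit 7646556080) (nat_lit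 76) (nat_lit 5531362745) (nat_lit 152) (nat_lit 15416138010) (nat_lit 23) (nat_lit 5) (nat_lit 24) (nat_lit 5) (nat_lit 25) (nat_lit 4) (nat_lit 407) (nat_lit 280) (nat_lit 213))) (XT.nd (nat_lit 78) (nat_lit 0) (nat_lit 0) (XT.lf (nat_lit 0) (nat_lit 18341949945) (nat_lit 76) (nat_lit 148522147) (nat_lit 152) (nat_lit 10793839677) (nat_lit 23) (nat_lit 5) (nat_lit 24) (nat_lit 5) (nat_lit 25) (nat_lit 4) (nat_lit 408) (nat_lit 280) (nat_lit 212)) (XT.lf (nat_lit 0) (nat_lit 23979291601) (nat_lit 152) (nat_lit 754832255) (nat_lit 0) (nat_lit 5260648068) (nat_lit 23) (nat_lit 5) (nat_lit 25) (nat_lit 4) (nat_lit 23) (nat_lit 4) (nat_lit 409) (nat_lit 280) (nat_lit 211))))) (XT.nd (nat_lit 234) (nat_lit 152) (nat_lit 0) (XT.nd (nat_lit 78) (nat_lit 76) (nat_lit 0) (XT.lf (nat_lit 0) (nat_lit 9865385419) (nat_lit 76) (nat_lit 19829733569) (nat_lit 76) (nat_lit 1029560735) (nat_lit 22) (nat_lit 4) (nat_lit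 23) (nat_lit 5) (nat_lit 23) (nat_lit 4) (nat_lit 410) (nat_lit 280) (nat_lit 210)) (XT.nd (nat_lit 78) (nat_lit 0) (nat_lit 0) (XT.lf (nat_lit 0) (nat_lit 3999597032) (nat_lit 152) (nat_lit 10760145518) (nat_lit 76) (nat_lit 16716348574) (nat_lit 21) (nat_lit 5) (nat_lit 23) (nat_lit 5) (nat_lit 22) (nat_lit 4) (nat_lit 411) (nat_lit 280) (nat_lit 209)) (XT.lf (nat_lit 0) (nat_lit 9126008621) (nat_lit 152) (nat_lit 430379178) (nat_lit 76) (nat_lit 22694342880) (nat_lit 21) (nat_lit 5) (nat_lit 23) (nat_lit 5) (nat_lit 22) (nat_lit 4) (nat_lit 412) (nat_lit 280) (nat_lit 208)))) (XT.nd (nat_lit 156) (nat_lit 76) (nat_lit 0) (XT.nd (nat_lit 78) (nat_lit 0) (nat_lit 0) (XT.lf (nat_lit 0) (nat_lit 10350911048) (nat_lit 76) (nat_lit 4122832098) (nat_lit 152) (nat_lit 18572844032) (nat_lit 20) (nat_lit 5) (nat_lit 21) (nat_lit 5) (nat_lit 22) (nat_lit 4) (nat_lit 413) (nat_lit 280) (nat_lit 207)) (XT.lf (nat_lit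 0) (nat_lit 19968582505) (nat_lit 152) (nat_lit 12476378398) (nat_lit 0) (nat_lit 1421761856) (nat_lit 20) (nat_lit 5) (nat_lit 22) (nat_lit 4) (nat_lit 20) (nat_lit 4) (nat_lit 414) (nat_lit 280) (nat_lit 206))) (XT.nd (nat_lit 78) (nat_lit 76) (nat_lit 0) (XT.lf (nat_lit 0) (nat_lit 25638133167) (nat_lit 152) (nat_lit 2050003709) (nat_lit 0) (nat_lit 7023033011) (nat_lit 20) (nat_lit 5) (nat_lit 22) (nat_lit 4) (nat_lit 20) (nat_lit 4) (nat_lit 415) (nat_lit 280) (nat_lit 205)) (XT.lf (nat_lit 0) (nat_lit 8803987042) (nat_lit 76) (nat_lit 22728360192) (nat_lit 76) (nat_lit 4046969254) (nat_lit 19) (nat_lit 4) (nat_lit 20) (nat_lit 5) (nat_lit 20) (nat_lit 4) (nat_lit 416) (nat_lit 280) (nat_lit 204))))))))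
noncomputable def xc58 : XT := (XT.nd (nat_lit 2028) (nat_lit 152) (nat_lit 0) (XT.nd (nat_lit 1014) (nat_lit 304) (nat_lit 0) (XT.nd (nat_lit 468) (nat_lit 228) (nat_lit 0) (XT.nd (nat_lit 234) (nat_lit 0) (nat_lit 0) (XT.nd (nat_lit 78) (nat_lit 76) (nat_lit 0) (XT.lf (nat_lit 0) (nat_lit 1098721330) (nat_lit 152) (nat_lit 16515346619) (nat_lit 76) (nat_lit 18859390200) (nat_lit 18) (nat_lit 5) (nat_lit 20) (nat_lit 5) (nat_lit 19) (nat_lit 4) (nat_lit 417) (nat_lit 280) (nat_lit 203)) (XT.nd (nat_lit 78) (nat_lit 76) (nat_lit 0) (XT.lf (nat_lit 0) (nat_lit 6288299983) (nat_lit 152) (nat_lit 6042987374) (nat_lit 76) (nat_lit 25062811991) (nat_lit 18) (nat_lit 5) (nat_lit 20) (nat_lit 5) (nat_lit 19) (nat_lit 4) (nat_lit 418) (nat_lit 280) (nat_lit 202)) (XT.lf (nat_lit 0) (nat_lit 4783137072) (nat_lit 76) (nat_lit 6868113602) (nat_lit 152) (nat_lit 26690581557) (nat_lit 17) (nat_lit 5) (nat_lit 18) (nat_lit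 5) (nat_lit 19) (nat_lit 4) (nat_lit 419) (nat_lit 280) (nat_lit 201)))) (XT.nd (nat_lit 78) (nat_lit 0) (nat_lit 0) (XT.lf (nat_lit 0) (nat_lit 16004705639) (nat_lit 76) (nat_lit 1203425365) (nat_lit 152) (nat_lit 22108877765) (nat_lit 17) (nat_lit 5) (nat_lit 18) (nat_lit 5) (nat_lit 19) (nat_lit 4) (nat_lit 420) (nat_lit 280) (nat_lit 200)) (XT.nd (nat_lit 78) (nat_lit 0) (nat_lit 0) (XT.lf (nat_lit 0) (nat_lit 22948833989) (nat_lit 152) (nat_lit 12855284588) (nat_lit 0) (nat_lit 4516811357) (nat_lit 17) (nat_lit 5) (nat_lit 19) (nat_lit 4) (nat_lit 17) (nat_lit 4) (nat_lit 421) (nat_lit 280) (nat_lit 199)) (XT.lf (nat_lit 0) (nat_lit 28847069558) (nat_lit 152) (nat_lit 2147196112) (nat_lit 0) (nat_lit 10361146453) (nat_lit 17) (nat_lit 5) (nat_lit 19) (nat_lit 4) (nat_lit 17) (nat_lit 4) (nat_lit 422) (nat_lit 280) (nat_lit 198))))) (XT.nd (nat_lit 234) (nat_lit 76) (nat_lit 0) (XT.nd (nat_lit 78) (nat_lit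 76) (nat_lit 0) (XT.lf (nat_lit 0) (nat_lit 9008678707) (nat_lit 76) (nat_lit 25974341671) (nat_lit 76) (nat_lit 7436088010) (nat_lit 16) (nat_lit 4) (nat_lit 17) (nat_lit 5) (nat_lit 17) (nat_lit 4) (nat_lit 423) (nat_lit 280) (nat_lit 197)) (XT.nd (nat_lit 78) (nat_lit 76) (nat_lit 0) (XT.lf (nat_lit 0) (nat_lit 20494479934) (nat_lit 76) (nat_lit 20804707048) (nat_lit 76) (nat_lit 2215647022) (nat_lit 16) (nat_lit 4) (nat_lit 17) (nat_lit 5) (nat_lit 17) (nat_lit 4) (nat_lit 424) (nat_lit 280) (nat_lit 196)) (XT.lf (nat_lit 0) (nat_lit 3074667565) (nat_lit 152) (nat_lit 12396811434) (nat_lit 76) (nat_lit 29171794611) (nat_lit 15) (nat_lit 5) (nat_lit 17) (nat_lit 5) (nat_lit 16) (nat_lit 4) (nat_lit 425) (nat_lit 280) (nat_lit 195)))) (XT.nd (nat_lit 156) (nat_lit 0) (nat_lit 0) (XT.nd (nat_lit 78) (nat_lit 76) (nat_lit 0) (XT.lf (nat_lit 0) (nat_lit 8454839679) (nat_lit 152) (nat_lit 1522951916) (nat_lit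 76) (nat_lit 35827848646) (nat_lit 15) (nat_lit 5) (nat_lit 17) (nat_lit 5) (nat_lit 16) (nat_lit 4) (nat_lit 426) (nat_lit 280) (nat_lit 194)) (XT.lf (nat_lit 0) (nat_lit 9823720236) (nat_lit 76) (nat_lit 4243517065) (nat_lit 152) (nat_lit 32933518250) (nat_lit 14) (nat_lit 5) (nat_lit 15) (nat_lit 5) (nat_lit 16) (nat_lit 4) (nat_lit 427) (nat_lit 280) (nat_lit 193))) (XT.nd (nat_lit 78) (nat_lit 0) (nat_lit 0) (XT.lf (nat_lit 0) (nat_lit 19855964041) (nat_lit 152) (nat_lit 26750542546) (nat_lit 0) (nat_lit 1624981241) (nat_lit 14) (nat_lit 5) (nat_lit 16) (nat_lit 4) (nat_lit 14) (nat_lit 4) (nat_lit 428) (nat_lit 280) (nat_lit 192)) (XT.lf (nat_lit 0) (nat_lit 25837496130) (nat_lit 152) (nat_lit 16097109999) (nat_lit 0) (nat_lit 7563963799) (nat_lit 14) (nat_lit 5) (nat_lit 16) (nat_lit 4) (nat_lit 14) (nat_lit 4) (nat_lit 429) (nat_lit 280) (nat_lit 191)))))) (XT.nd (nat_lit 468) (nat_lit 152) (nat_lit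 0) (XT.nd (nat_lit 234) (nat_lit 76) (nat_lit 0) (XT.nd (nat_lit 78) (nat_lit 76) (nat_lit 0) (XT.lf (nat_lit 0) (nat_lit 31976268866) (nat_lit 152) (nat_lit 5166637569) (nat_lit 0) (nat_lit 13661426311) (nat_lit 14) (nat_lit 5) (nat_lit 16) (nat_lit 4) (nat_lit 14) (nat_lit 4) (nat_lit 430) (nat_lit 280) (nat_lit 190)) (XT.nd (nat_lit 78) (nat_lit 0) (nat_lit 0) (XT.lf (nat_lit 0) (nat_lit 6170840975) (nat_lit 76) (nat_lit 32166123148) (nat_lit 76) (nat_lit 13811173580) (nat_lit 13) (nat_lit 4) (nat_lit 14) (nat_lit 5) (nat_lit 14) (nat_lit 4) (nat_lit 431) (nat_lit 280) (nat_lit 189)) (XT.lf (nat_lit 0) (nat_lit 17913436622) (nat_lit 76) (nat_lit 27005892556) (nat_lit 76) (nat_lit 8612004140) (nat_lit 13) (nat_lit 4) (nat_lit 14) (nat_lit 5) (nat_lit 14) (nat_lit 4) (nat_lit 432) (nat_lit 280) (nat_lit 188)))) (XT.nd (nat_lit 78) (nat_lit 76) (nat_lit 0) (XT.lf (nat_lit 0) (nat_lit 29968583672) (nat_lit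 76) (nat_lit 21709878629) (nat_lit 76) (nat_lit 3278185505) (nat_lit 13) (nat_lit 4) (nat_lit 14) (nat_lit 5) (nat_lit 14) (nat_lit 4) (nat_lit 433) (nat_lit 280) (nat_lit 187)) (XT.nd (nat_lit 78) (nat_lit 0) (nat_lit 0) (XT.lf (nat_lit 0) (nat_lit 2152111698) (nat_lit 152) (nat_lit 14099609974) (nat_lit 76) (nat_lit 40172971941) (nat_lit 12) (nat_lit 5) (nat_lit 14) (nat_lit 5) (nat_lit 13) (nat_lit 4) (nat_lit 434) (nat_lit 280) (nat_lit 186)) (XT.lf (nat_lit 0) (nat_lit 7659720097) (nat_lit 152) (nat_lit 2954799487) (nat_lit 76) (nat_lit 47321880532) (nat_lit 12) (nat_lit 5) (nat_lit 14) (nat_lit 5) (nat_lit 13) (nat_lit 4) (nat_lit 435) (nat_lit 280) (nat_lit 185))))) (XT.nd (nat_lit 234) (nat_lit 76) (nat_lit 0) (XT.nd (nat_lit 78) (nat_lit 0) (nat_lit 0) (XT.lf (nat_lit 0) (nat_lit 8656537662) (nat_lit 76) (nat_lit 4740095642) (nat_lit 152) (nat_lit 46094903917) (nat_lit 11) (nat_lit 5) (nat_lit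 12) (nat_lit 5) (nat_lit 13) (nat_lit 4) (nat_lit 436) (nat_lit 280) (nat_lit 184)) (XT.nd (nat_lit 78) (nat_lit 0) (nat_lit 0) (XT.lf (nat_lit 0) (nat_lit 19329289466) (nat_lit 152) (nat_lit 40465320679) (nat_lit 0) (nat_lit 1298010884) (nat_lit 11) (nat_lit 5) (nat_lit 13) (nat_lit 4) (nat_lit 11) (nat_lit 4) (nat_lit 437) (nat_lit 280) (nat_lit 183)) (XT.lf (nat_lit 0) (nat_lit 25468317669) (nat_lit 152) (nat_lit 29867191277) (nat_lit 0) (nat_lit 7405378240) (nat_lit 11) (nat_lit 5) (nat_lit 13) (nat_lit 4) (nat_lit 11) (nat_lit 4) (nat_lit 438) (nat_lit 280) (nat_lit 182)))) (XT.nd (nat_lit 156) (nat_lit 76) (nat_lit 0) (XT.nd (nat_lit 78) (nat_lit 0) (nat_lit 0) (XT.lf (nat_lit 0) (nat_lit 31773517414) (nat_lit 152) (nat_lit 18985786154) (nat_lit 0) (nat_lit 13679839299) (nat_lit 11) (nat_lit 5) (nat_lit 13) (nat_lit 4) (nat_lit 11) (nat_lit 4) (nat_lit 439) (nat_lit 280) (nat_lit 181)) (XT.lf (nat_lit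 0) (nat_lit 38250398100) (nat_lit 152) (nat_lit 7811597286) (nat_lit 0) (nat_lit 20126876599) (nat_lit 11) (nat_lit 5) (nat_lit 13) (nat_lit 4) (nat_lit 11) (nat_lit 4) (nat_lit 440) (nat_lit 280) (nat_lit 180))) (XT.nd (nat_lit 78) (nat_lit 0) (nat_lit 0) (XT.lf (nat_lit 0) (nat_lit 3738082637) (nat_lit 76) (nat_lit 41202469235) (nat_lit 76) (nat_lit 23049973574) (nat_lit 10) (nat_lit 4) (nat_lit 11) (nat_lit 5) (nat_lit 11) (nat_lit 4) (nat_lit 441) (nat_lit 280) (nat_lit 179)) (XT.lf (nat_lit 0) (nat_lit 15762025352) (nat_lit 76) (nat_lit 36131483767) (nat_lit 76) (nat_lit 17950857854) (nat_lit 10) (nat_lit 4) (nat_lit 11) (nat_lit 5) (nat_lit 11) (nat_lit 4) (nat_lit 442) (nat_lit 280) (nat_lit 178))))))) (XT.nd (nat_lit 39234) (nat_lit 0) (nat_lit 6156) (XT.nd (nat_lit 38688) (nat_lit 0) (nat_lit 9500) (XT.nd (nat_lit 234) (nat_lit 152) (nat_lit 0) (XT.nd (nat_lit 78) (nat_lit 0) (nat_lit 0) (XT.lf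 (nat_lit 0) (nat_lit 28115271112) (nat_lit 76) (nat_lit 30923489841) (nat_lit 76) (nat_lit 12715553004) (nat_lit 10) (nat_lit 4) (nat_lit 11) (nat_lit 5) (nat_lit 11) (nat_lit 4) (nat_lit 443) (nat_lit 280) (nat_lit 177)) (XT.nd (nat_lit 78) (nat_lit 0) (nat_lit 0) (XT.lf (nat_lit 0) (nat_lit 40808614016) (nat_lit 76) (nat_lit 25573936782) (nat_lit 76) (nat_lit 7339484484) (nat_lit 10) (nat_lit 4) (nat_lit 11) (nat_lit 5) (nat_lit 11) (nat_lit 4) (nat_lit 444) (nat_lit 280) (nat_lit 176)) (XT.lf (nat_lit 0) (nat_lit 53853145333) (nat_lit 76) (nat_lit 20078150223) (nat_lit 76) (nat_lit 1817954759) (nat_lit 10) (nat_lit 4) (nat_lit 11) (nat_lit 5) (nat_lit 11) (nat_lit 4) (nat_lit 445) (nat_lit 280) (nat_lit 175)))) (XT.nd (nat_lit 78) (nat_lit 76) (nat_lit 0) (XT.lf (nat_lit 0) (nat_lit 3778658102) (nat_lit 152) (nat_lit 10614512881) (nat_lit 76) (nat_lit 63443448059) (nat_lit 9) (nat_lit 5) (nat_lit 11)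 (nat_lit 5) (nat_lit 10) (nat_lit 4) (nat_lit 446) (nat_lit 280) (nat_lit 174)) (XT.nd (nat_lit 78) (nat_lit 0) (nat_lit 0) (XT.lf (nat_lit 0) (nat_lit 978415617) (nat_lit 76) (nat_lit 8522998101) (nat_lit 152) (nat_lit 70484812818) (nat_lit 8) (nat_lit 5) (nat_lit 9) (nat_lit 5) (nat_lit 10) (nat_lit 4) (nat_lit 447) (nat_lit 280) (nat_lit 173)) (XT.lf (nat_lit 0) (nat_lit 13108791365) (nat_lit 76) (nat_lit 2379782152) (nat_lit 152) (nat_lit 66708968253) (nat_lit 8) (nat_lit 5) (nat_lit 9) (nat_lit 5) (nat_lit 10) (nat_lit 4) (nat_lit 448) (nat_lit 280) (nat_lit 172))))) (XT.nd (nat_lit 234) (nat_lit 1368) (nat_lit 0) (XT.nd (nat_lit 78) (nat_lit 912) (nat_lit 0) (XT.lf (nat_lit 0) (nat_lit 1438935162) (nat_lit 532) (nat_lit 1158896585) (nat_lit 0) (nat_lit 1438935162) (nat_lit 163) (nat_lit 5) (nat_lit 170) (nat_lit 4) (nat_lit 163) (nat_lit 4) (nat_lit 338) (nat_lit 281) (nat_lit 281)) (XT.nd (nat_lit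 78) (nat_lit 456) (nat_lit 0) (XT.lf (nat_lit 0) (nat_lit 3963438308) (nat_lit 456) (nat_lit 2701004577) (nat_lit 456) (nat_lit 1500120276) (nat_lit 157) (nat_lit 4) (nat_lit 163) (nat_lit 5) (nat_lit 163) (nat_lit 4) (nat_lit 339) (nat_lit 281) (nat_lit 280)) (XT.lf (nat_lit 0) (nat_lit 2116278542) (nat_lit 380) (nat_lit 92130290) (nat_lit 456) (nat_lit 6050893206) (nat_lit 151) (nat_lit 5) (nat_lit 156) (nat_lit 5) (nat_lit 157) (nat_lit 4) (nat_lit 340) (nat_lit 281) (nat_lit 279)))) (XT.nd (nat_lit 156) (nat_lit 836) (nat_lit 0) (XT.nd (nat_lit 78) (nat_lit 76) (nat_lit 0) (XT.lf (nat_lit 0) (nat_lit 190190948) (nat_lit 456) (nat_lit 5781957069) (nat_lit 456) (nat_lit 2385122102) (nat_lit 145) (nat_lit 4) (nat_lit 151) (nat_lit 5) (nat_lit 151) (nat_lit 4) (nat_lit 341) (nat_lit 281) (nat_lit 278)) (XT.lf (nat_lit 0) (nat_lit 1332123590) (nat_lit 532) (nat_lit 1759594225) (nat_lit 76) (nat_lit 5367051848)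 (nat_lit 144) (nat_lit 5) (nat_lit 151) (nat_lit 5) (nat_lit 145) (nat_lit 4) (nat_lit 342) (nat_lit 281) (nat_lit 277))) (XT.nd (nat_lit 78) (nat_lit 456) (nat_lit 0) (XT.lf (nat_lit 0) (nat_lit 4785898207) (nat_lit 380) (nat_lit 280898180) (nat_lit 456) (nat_lit 3497244945) (nat_lit 139) (nat_lit 5) (nat_lit 144) (nat_lit 5) (nat_lit 145) (nat_lit 4) (nat_lit 343) (nat_lit 281) (nat_lit 276)) (XT.lf (nat_lit 0) (nat_lit 215066632) (nat_lit 456) (nat_lit 5879356634) (nat_lit 76) (nat_lit 2578664528) (nat_lit 133) (nat_lit 5) (nat_lit 139) (nat_lit 5) (nat_lit 134) (nat_lit 4) (nat_lit 344) (nat_lit 281) (nat_lit 275)))))) (XT.nd (nat_lit 546) (nat_lit 1596) (nat_lit 0) (XT.nd (nat_lit 234) (nat_lit 988) (nat_lit 0) (XT.nd (nat_lit 78) (nat_lit 456) (nat_lit 0) (XT.lf (nat_lit 0) (nat_lit 706086385) (nat_lit 304) (nat_lit 3220030580) (nat_lit 380) (nat_lit 4859566792) (nat_lit 129) (nat_lit 5) (nat_lit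 133) (nat_lit 5) (nat_lit 134) (nat_lit 4) (nat_lit 345) (nat_lit 281) (nat_lit 274)) (XT.nd (nat_lit 78) (nat_lit 456) (nat_lit 0) (XT.lf (nat_lit 0) (nat_lit 7484992004) (nat_lit 304) (nat_lit 233875424) (nat_lit 380) (nat_lit 1183724459) (nat_lit 129) (nat_lit 5) (nat_lit 133) (nat_lit 5) (nat_lit 134) (nat_lit 4) (nat_lit 346) (nat_lit 281) (nat_lit 273)) (XT.lf (nat_lit 0) (nat_lit 2543968098) (nat_lit 456) (nat_lit 3649220077) (nat_lit 76) (nat_lit 2829340648) (nat_lit 123) (nat_lit 5) (nat_lit 129) (nat_lit 5) (nat_lit 124) (nat_lit 4) (nat_lit 347) (nat_lit 281) (nat_lit 272)))) (XT.nd (nat_lit 156) (nat_lit 304) (nat_lit 0) (XT.nd (nat_lit 78) (nat_lit 380) (nat_lit 0) (XT.lf (nat_lit 0) (nat_lit 3175308327) (nat_lit 304) (nat_lit 3145410751) (nat_lit 380) (nat_lit 2826204108) (nat_lit 119) (nat_lit 5) (nat_lit 123) (nat_lit 5) (nat_lit 124) (nat_lit 4) (nat_lit 348) (nat_lit 281) (nat_lit 271))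 (XT.lf (nat_lit 0) (nat_lit 877514235) (nat_lit 380) (nat_lit 8387088020) (nat_lit 76) (nat_lit 11414890) (nat_lit 114) (nat_lit 5) (nat_lit 119) (nat_lit 5) (nat_lit 115) (nat_lit 4) (nat_lit 349) (nat_lit 281) (nat_lit 270))) (XT.nd (nat_lit 78) (nat_lit 304) (nat_lit 0) (XT.lf (nat_lit 0) (nat_lit 4642703390) (nat_lit 380) (nat_lit 1514555971) (nat_lit 76) (nat_lit 3250708179) (nat_lit 114) (nat_lit 5) (nat_lit 119) (nat_lit 5) (nat_lit 115) (nat_lit 4) (nat_lit 350) (nat_lit 281) (nat_lit 269)) (XT.lf (nat_lit 0) (nat_lit 5550757769) (nat_lit 304) (nat_lit 2941041746) (nat_lit 380) (nat_lit 1052985266) (nat_lit 110) (nat_lit 5) (nat_lit 114) (nat_lit 5) (nat_lit 115) (nat_lit 4) (nat_lit 351) (nat_lit 281) (nat_lit 268))))) (XT.nd (nat_lit 234) (nat_lit 912) (nat_lit 0) (XT.nd (nat_lit 78) (nat_lit 304) (nat_lit 0) (XT.lf (nat_lit 0) (nat_lit 2683591033) (nat_lit 380) (nat_lit 6604883018) (nat_lit 76)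 (nat_lit 397458407) (nat_lit 105) (nat_lit 5) (nat_lit 110) (nat_lit 5) (nat_lit 106) (nat_lit 4) (nat_lit 352) (nat_lit 281) (nat_lit 267)) (XT.nd (nat_lit 78) (nat_lit 76) (nat_lit 0) (XT.lf (nat_lit 0) (nat_lit 466245410) (nat_lit 228) (nat_lit 6038023437) (nat_lit 304) (nat_lit 3326971646) (nat_lit 102) (nat_lit 5) (nat_lit 105) (nat_lit 5) (nat_lit 106) (nat_lit 4) (nat_lit 353) (nat_lit 281) (nat_lit 266)) (XT.lf (nat_lit 0) (nat_lit 436270613) (nat_lit 304) (nat_lit 2222563984) (nat_lit 76) (nat_lit 7322375870) (nat_lit 101) (nat_lit 5) (nat_lit 105) (nat_lit 5) (nat_lit 102) (nat_lit 5) (nat_lit 354) (nat_lit 281) (nat_lit 265)))) (XT.nd (nat_lit 156) (nat_lit 380) (nat_lit 0) (XT.nd (nat_lit 78) (nat_lit 228) (nat_lit 0) (XT.lf (nat_lit 0) (nat_lit 4224245858) (nat_lit 380) (nat_lit 5063475430) (nat_lit 76) (nat_lit 847639784) (nat_lit 97) (nat_lit 5) (nat_lit 102) (nat_lit 5) (nat_lit 98) (nat_lit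 4) (nat_lit 355) (nat_lit 281) (nat_lit 264)) (XT.lf (nat_lit 0) (nat_lit 2233637499) (nat_lit 228) (nat_lit 5884988209) (nat_lit 304) (nat_lit 2175757509) (nat_lit 94) (nat_lit 5) (nat_lit 97) (nat_lit 5) (nat_lit 98) (nat_lit 4) (nat_lit 356) (nat_lit 281) (nat_lit 263))) (XT.nd (nat_lit 78) (nat_lit 304) (nat_lit 0) (XT.lf (nat_lit 0) (nat_lit 1613309303) (nat_lit 304) (nat_lit 740810059) (nat_lit 76) (nat_lit 8104374796) (nat_lit 93) (nat_lit 5) (nat_lit 97) (nat_lit 5) (nat_lit 94) (nat_lit 5) (nat_lit 357) (nat_lit 281) (nat_lit 262)) (XT.lf (nat_lit 0) (nat_lit 5475274731) (nat_lit 380) (nat_lit 3847791536) (nat_lit 76) (nat_lit 1303754619) (nat_lit 89) (nat_lit 5) (nat_lit 94) (nat_lit 5) (nat_lit 90) (nat_lit 4) (nat_lit 358) (nat_lit 281) (nat_lit 261))))))))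
noncomputable def xc59 : XT := (XT.nd (nat_lit 2106) (nat_lit 1596) (nat_lit 0) (XT.nd (nat_lit 1014) (nat_lit 1444) (nat_lit 0) (XT.nd (nat_lit 468) (nat_lit 1064) (nat_lit 0) (XT.nd (nat_lit 234) (nat_lit 532) (nat_lit 0) (XT.nd (nat_lit 78) (nat_lit 304) (nat_lit 0) (XT.lf (nat_lit 0) (nat_lit 3669687575) (nat_lit 228) (nat_lit 5775096555) (nat_lit 304) (nat_lit 1355689372) (nat_lit 86) (nat_lit 5) (nat_lit 89) (nat_lit 5) (nat_lit 90) (nat_lit 4) (nat_lit 359) (nat_lit 281) (nat_lit 260)) (XT.nd (nat_lit 78) (nat_lit 0) (nat_lit 0) (XT.lf (nat_lit 0) (nat_lit 377265046) (nat_lit 228) (nat_lit 2095643792) (nat_lit 304) (nat_lit 8506654309) (nat_lit 82) (nat_lit 5) (nat_lit 85) (nat_lit 5) (nat_lit 86) (nat_lit 5) (nat_lit 360) (nat_lit 281) (nat_lit 259)) (XT.lf (nat_lit 0) (nat_lit 6404566519) (nat_lit 304) (nat_lit 3054743272) (nat_lit 76) (nat_lit 1703873900) (nat_lit 82) (nat_lit 5) (nat_lit 86)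 (nat_lit 5) (nat_lit 83) (nat_lit 4) (nat_lit 361) (nat_lit 281) (nat_lit 258)))) (XT.nd (nat_lit 78) (nat_lit 304) (nat_lit 0) (XT.lf (nat_lit 0) (nat_lit 4673978466) (nat_lit 228) (nat_lit 5774459985) (nat_lit 304) (nat_lit 904070132) (nat_lit 79) (nat_lit 5) (nat_lit 82) (nat_lit 5) (nat_lit 83) (nat_lit 4) (nat_lit 362) (nat_lit 281) (nat_lit 257)) (XT.nd (nat_lit 78) (nat_lit 0) (nat_lit 0) (XT.lf (nat_lit 0) (nat_lit 1024790984) (nat_lit 228) (nat_lit 1951339766) (nat_lit 304) (nat_lit 8571425129) (nat_lit 75) (nat_lit 5) (nat_lit 78) (nat_lit 5) (nat_lit 79) (nat_lit 5) (nat_lit 363) (nat_lit 281) (nat_lit 256)) (XT.lf (nat_lit 0) (nat_lit 6971153321) (nat_lit 304) (nat_lit 2795611512) (nat_lit 76) (nat_lit 1980945286) (nat_lit 75) (nat_lit 5) (nat_lit 79) (nat_lit 5) (nat_lit 76) (nat_lit 4) (nat_lit 364) (nat_lit 281) (nat_lit 255))))) (XT.nd (nat_lit 234) (nat_lit 608) (nat_lit 0) (XT.nd (nat_lit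 78) (nat_lit 304) (nat_lit 0) (XT.lf (nat_lit 0) (nat_lit 5130974593) (nat_lit 152) (nat_lit 5955134614) (nat_lit 228) (nat_lit 867778330) (nat_lit 73) (nat_lit 5) (nat_lit 75) (nat_lit 5) (nat_lit 76) (nat_lit 4) (nat_lit 365) (nat_lit 281) (nat_lit 254)) (XT.nd (nat_lit 78) (nat_lit 0) (nat_lit 0) (XT.lf (nat_lit 0) (nat_lit 1063929094) (nat_lit 228) (nat_lit 2003112338) (nat_lit 304) (nat_lit 9099205679) (nat_lit 69) (nat_lit 5) (nat_lit 72) (nat_lit 5) (nat_lit 73) (nat_lit 5) (nat_lit 366) (nat_lit 281) (nat_lit 253)) (XT.lf (nat_lit 0) (nat_lit 7124066936) (nat_lit 304) (nat_lit 3198772148) (nat_lit 76) (nat_lit 2061251797) (nat_lit 69) (nat_lit 5) (nat_lit 73) (nat_lit 5) (nat_lit 70) (nat_lit 4) (nat_lit 367) (nat_lit 281) (nat_lit 252)))) (XT.nd (nat_lit 156) (nat_lit 152) (nat_lit 0) (XT.nd (nat_lit 78) (nat_lit 304) (nat_lit 0) (XT.lf (nat_lit 0) (nat_lit 4907169662) (nat_lit 152) (nat_lit 6396761947)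 (nat_lit 228) (nat_lit 1304523187) (nat_lit 67) (nat_lit 5) (nat_lit 69) (nat_lit 5) (nat_lit 70) (nat_lit 4) (nat_lit 368) (nat_lit 281) (nat_lit 251)) (XT.lf (nat_lit 0) (nat_lit 352338780) (nat_lit 228) (nat_lit 2333595233) (nat_lit 304) (nat_lit 10153724406) (nat_lit 63) (nat_lit 5) (nat_lit 66) (nat_lit 5) (nat_lit 67) (nat_lit 5) (nat_lit 369) (nat_lit 281) (nat_lit 250))) (XT.nd (nat_lit 78) (nat_lit 152) (nat_lit 0) (XT.lf (nat_lit 0) (nat_lit 6800974768) (nat_lit 304) (nat_lit 4412824710) (nat_lit 76) (nat_lit 1862695605) (nat_lit 63) (nat_lit 5) (nat_lit 67) (nat_lit 5) (nat_lit 64) (nat_lit 4) (nat_lit 370) (nat_lit 281) (nat_lit 249)) (XT.lf (nat_lit 0) (nat_lit 3847810709) (nat_lit 152) (nat_lit 7188402989) (nat_lit 228) (nat_lit 2284337341) (nat_lit 61) (nat_lit 5) (nat_lit 63) (nat_lit 5) (nat_lit 64) (nat_lit 4) (nat_lit 371) (nat_lit 281) (nat_lit 248)))))) (XT.nd (nat_lit 546) (nat_lit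 684) (nat_lit 0) (XT.nd (nat_lit 234) (nat_lit 380) (nat_lit 0) (XT.nd (nat_lit 78) (nat_lit 304) (nat_lit 0) (XT.lf (nat_lit 0) (nat_lit 1772775980) (nat_lit 228) (nat_lit 1250154773) (nat_lit 76) (nat_lit 10549031679) (nat_lit 60) (nat_lit 5) (nat_lit 63) (nat_lit 5) (nat_lit 61) (nat_lit 5) (nat_lit 372) (nat_lit 281) (nat_lit 247)) (XT.nd (nat_lit 78) (nat_lit 152) (nat_lit 0) (XT.lf (nat_lit 0) (nat_lit 5926563789) (nat_lit 228) (nat_lit 6610192290) (nat_lit 76) (nat_lit 1292870541) (nat_lit 58) (nat_lit 5) (nat_lit 61) (nat_lit 5) (nat_lit 59) (nat_lit 4) (nat_lit 373) (nat_lit 281) (nat_lit 246)) (XT.lf (nat_lit 0) (nat_lit 1773126404) (nat_lit 152) (nat_lit 8430604692) (nat_lit 228) (nat_lit 3891341413) (nat_lit 56) (nat_lit 5) (nat_lit 58) (nat_lit 5) (nat_lit 59) (nat_lit 4) (nat_lit 374) (nat_lit 281) (nat_lit 245)))) (XT.nd (nat_lit 156) (nat_lit 152) (nat_lit 0) (XT.nd (nat_lit 78) (nat_lit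 152) (nat_lit 0) (XT.lf (nat_lit 0) (nat_lit 242648545) (nat_lit 228) (nat_lit 3931711238) (nat_lit 76) (nat_lit 10193868037) (nat_lit 55) (nat_lit 5) (nat_lit 58) (nat_lit 5) (nat_lit 56) (nat_lit 5) (nat_lit 375) (nat_lit 281) (nat_lit 244)) (XT.lf (nat_lit 0) (nat_lit 4410635717) (nat_lit 228) (nat_lit 9991272017) (nat_lit 76) (nat_lit 246882022) (nat_lit 53) (nat_lit 5) (nat_lit 56) (nat_lit 5) (nat_lit 54) (nat_lit 4) (nat_lit 376) (nat_lit 281) (nat_lit 243))) (XT.nd (nat_lit 78) (nat_lit 152) (nat_lit 0) (XT.lf (nat_lit 0) (nat_lit 8726388602) (nat_lit 228) (nat_lit 1496245322) (nat_lit 76) (nat_lit 4714465946) (nat_lit 53) (nat_lit 5) (nat_lit 56) (nat_lit 5) (nat_lit 54) (nat_lit 4) (nat_lit 377) (nat_lit 281) (nat_lit 242)) (XT.lf (nat_lit 0) (nat_lit 7296038856) (nat_lit 152) (nat_lit 5888719044) (nat_lit 228) (nat_lit 2048919796) (nat_lit 51) (nat_lit 5) (nat_lit 53) (nat_lit 5) (nat_lit 54)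 (nat_lit 4) (nat_lit 378) (nat_lit 281) (nat_lit 241))))) (XT.nd (nat_lit 234) (nat_lit 304) (nat_lit 0) (XT.nd (nat_lit 78) (nat_lit 152) (nat_lit 0) (XT.lf (nat_lit 0) (nat_lit 736649543) (nat_lit 152) (nat_lit 1422898543) (nat_lit 228) (nat_lit 13380006788) (nat_lit 48) (nat_lit 5) (nat_lit 50) (nat_lit 5) (nat_lit 51) (nat_lit 5) (nat_lit 379) (nat_lit 281) (nat_lit 240)) (XT.nd (nat_lit 78) (nat_lit 152) (nat_lit 0) (XT.lf (nat_lit 0) (nat_lit 6508013567) (nat_lit 228) (nat_lit 6170371365) (nat_lit 76) (nat_lit 3173978743) (nat_lit 48) (nat_lit 5) (nat_lit 51) (nat_lit 5) (nat_lit 49) (nat_lit 4) (nat_lit 380) (nat_lit 281) (nat_lit 239)) (XT.lf (nat_lit 0) (nat_lit 2661480923) (nat_lit 152) (nat_lit 8310209750) (nat_lit 228) (nat_lit 5203334640) (nat_lit 46) (nat_lit 5) (nat_lit 48) (nat_lit 5) (nat_lit 49) (nat_lit 4) (nat_lit 381) (nat_lit 281) (nat_lit 238)))) (XT.nd (nat_lit 156) (nat_lit 76)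 (nat_lit 0) (XT.nd (nat_lit 78) (nat_lit 228) (nat_lit 0) (XT.lf (nat_lit 0) (nat_lit 11788226603) (nat_lit 152) (nat_lit 3789117277) (nat_lit 228) (nat_lit 929791922) (nat_lit 46) (nat_lit 5) (nat_lit 48) (nat_lit 5) (nat_lit 49) (nat_lit 4) (nat_lit 382) (nat_lit 281) (nat_lit 237)) (XT.lf (nat_lit 0) (nat_lit 3400979158) (nat_lit 228) (nat_lit 12562055524) (nat_lit 76) (nat_lit 885280857) (nat_lit 43) (nat_lit 5) (nat_lit 46) (nat_lit 5) (nat_lit 44) (nat_lit 4) (nat_lit 383) (nat_lit 281) (nat_lit 236))) (XT.nd (nat_lit 78) (nat_lit 76) (nat_lit 0) (XT.lf (nat_lit 0) (nat_lit 7875679873) (nat_lit 228) (nat_lit 3682242875) (nat_lit 76) (nat_lit 5640560955) (nat_lit 43) (nat_lit 5) (nat_lit 46) (nat_lit 5) (nat_lit 44) (nat_lit 4) (nat_lit 384) (nat_lit 281) (nat_lit 235)) (XT.lf (nat_lit 0) (nat_lit 5478574358) (nat_lit 76) (nat_lit 7007307607) (nat_lit 152) (nat_lit 5073246887) (nat_lit 42) (nat_lit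 5) (nat_lit 43) (nat_lit 5) (nat_lit 44) (nat_lit 4) (nat_lit 385) (nat_lit 281) (nat_lit 234))))))) (XT.nd (nat_lit 1014) (nat_lit 684) (nat_lit 0) (XT.nd (nat_lit 468) (nat_lit 380) (nat_lit 0) (XT.nd (nat_lit 234) (nat_lit 304) (nat_lit 0) (XT.nd (nat_lit 78) (nat_lit 228) (nat_lit 0) (XT.lf (nat_lit 0) (nat_lit 14898306835) (nat_lit 76) (nat_lit 2322482330) (nat_lit 152) (nat_lit 710221686) (nat_lit 42) (nat_lit 5) (nat_lit 43) (nat_lit 5) (nat_lit 44) (nat_lit 4) (nat_lit 386) (nat_lit 281) (nat_lit 233)) (XT.nd (nat_lit 78) (nat_lit 0) (nat_lit 0) (XT.lf (nat_lit 0) (nat_lit 3745088805) (nat_lit 228) (nat_lit 12054196243) (nat_lit 76) (nat_lit 2512625207) (nat_lit 39) (nat_lit 5) (nat_lit 42) (nat_lit 5) (nat_lit 40) (nat_lit 4) (nat_lit 387) (nat_lit 281) (nat_lit 232)) (XT.lf (nat_lit 0) (nat_lit 8324119286) (nat_lit 228) (nat_lit 2934589746) (nat_lit 76) (nat_lit 7445195254) (nat_lit 39) (nat_lit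 5) (nat_lit 42) (nat_lit 5) (nat_lit 40) (nat_lit 4) (nat_lit 388) (nat_lit 281) (nat_lit 231)))) (XT.nd (nat_lit 78) (nat_lit 228) (nat_lit 0) (XT.lf (nat_lit 0) (nat_lit 6498071854) (nat_lit 76) (nat_lit 6556769526) (nat_lit 152) (nat_lit 6052395547) (nat_lit 38) (nat_lit 5) (nat_lit 39) (nat_lit 5) (nat_lit 40) (nat_lit 4) (nat_lit 389) (nat_lit 281) (nat_lit 230)) (XT.nd (nat_lit 78) (nat_lit 228) (nat_lit 0) (XT.lf (nat_lit 0) (nat_lit 16187391853) (nat_lit 76) (nat_lit 1722155084) (nat_lit 152) (nat_lit 1613668922) (nat_lit 38) (nat_lit 5) (nat_lit 39) (nat_lit 5) (nat_lit 40) (nat_lit 4) (nat_lit 390) (nat_lit 281) (nat_lit 229)) (XT.lf (nat_lit 0) (nat_lit 2945489354) (nat_lit 228) (nat_lit 13758417348) (nat_lit 76) (nat_lit 3245572208) (nat_lit 35) (nat_lit 5) (nat_lit 38) (nat_lit 5) (nat_lit 36) (nat_lit 4) (nat_lit 391) (nat_lit 281) (nat_lit 228))))) (XT.nd (nat_lit 234) (nat_lit 304) (nat_lit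 0) (XT.nd (nat_lit 78) (nat_lit 76) (nat_lit 0) (XT.lf (nat_lit 0) (nat_lit 7613593590) (nat_lit 228) (nat_lit 4433834264) (nat_lit 76) (nat_lit 8340492031) (nat_lit 35) (nat_lit 5) (nat_lit 38) (nat_lit 5) (nat_lit 36) (nat_lit 4) (nat_lit 392) (nat_lit 281) (nat_lit 227)) (XT.nd (nat_lit 78) (nat_lit 0) (nat_lit 0) (XT.lf (nat_lit 0) (nat_lit 5189135010) (nat_lit 76) (nat_lit 7237374965) (nat_lit 152) (nat_lit 8412868301) (nat_lit 34) (nat_lit 5) (nat_lit 35) (nat_lit 5) (nat_lit 36) (nat_lit 4) (nat_lit 393) (nat_lit 281) (nat_lit 226)) (XT.lf (nat_lit 0) (nat_lit 15109882508) (nat_lit 76) (nat_lit 2274119891) (nat_lit 152) (nat_lit 3920379407) (nat_lit 34) (nat_lit 5) (nat_lit 35) (nat_lit 5) (nat_lit 36) (nat_lit 4) (nat_lit 394) (nat_lit 281) (nat_lit 225)))) (XT.nd (nat_lit 156) (nat_lit 76) (nat_lit 0) (XT.nd (nat_lit 78) (nat_lit 0) (nat_lit 0) (XT.lf (nat_lit 0) (nat_lit 710601649) (nat_lit 228)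 (nat_lit 18284119954) (nat_lit 76) (nat_lit 2787891288) (nat_lit 31) (nat_lit 5) (nat_lit 34) (nat_lit 5) (nat_lit 32) (nat_lit 4) (nat_lit 395) (nat_lit 281) (nat_lit 224)) (XT.lf (nat_lit 0) (nat_lit 5443843140) (nat_lit 228) (nat_lit 8806470320) (nat_lit 76) (nat_lit 8022455622) (nat_lit 31) (nat_lit 5) (nat_lit 34) (nat_lit 5) (nat_lit 32) (nat_lit 4) (nat_lit 396) (nat_lit 281) (nat_lit 223))) (XT.nd (nat_lit 78) (nat_lit 0) (nat_lit 0) (XT.lf (nat_lit 0) (nat_lit 894853057) (nat_lit 76) (nat_lit 9390538542) (nat_lit 152) (nat_lit 12493255327) (nat_lit 30) (nat_lit 5) (nat_lit 31) (nat_lit 5) (nat_lit 32) (nat_lit 4) (nat_lit 397) (nat_lit 281) (nat_lit 222)) (XT.lf (nat_lit 0) (nat_lit 10990388451) (nat_lit 76) (nat_lit 4328922250) (nat_lit 152) (nat_lit 7978982755) (nat_lit 30) (nat_lit 5) (nat_lit 31) (nat_lit 5) (nat_lit 32) (nat_lit 4) (nat_lit 398) (nat_lit 281) (nat_lit 221)))))) (XT.nd (nat_lit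 546) (nat_lit 304) (nat_lit 0) (XT.nd (nat_lit 234) (nat_lit 152) (nat_lit 0) (XT.nd (nat_lit 78) (nat_lit 228) (nat_lit 0) (XT.lf (nat_lit 0) (nat_lit 20471832081) (nat_lit 152) (nat_lit 2529232705) (nat_lit 0) (nat_lit 833442954) (nat_lit 30) (nat_lit 5) (nat_lit 32) (nat_lit 4) (nat_lit 30) (nat_lit 4) (nat_lit 399) (nat_lit 281) (nat_lit 220)) (XT.nd (nat_lit 78) (nat_lit 0) (nat_lit 0) (XT.lf (nat_lit 0) (nat_lit 1441641478) (nat_lit 228) (nat_lit 16824712544) (nat_lit 76) (nat_lit 6117757950) (nat_lit 27) (nat_lit 5) (nat_lit 30) (nat_lit 5) (nat_lit 28) (nat_lit 4) (nat_lit 400) (nat_lit 281) (nat_lit 219)) (XT.lf (nat_lit 0) (nat_lit 6308629134) (nat_lit 228) (nat_lit 7054296166) (nat_lit 76) (nat_lit 11586701792) (nat_lit 27) (nat_lit 5) (nat_lit 30) (nat_lit 5) (nat_lit 28) (nat_lit 4) (nat_lit 401) (nat_lit 281) (nat_lit 218)))) (XT.nd (nat_lit 156) (nat_lit 76) (nat_lit 0) (XT.nd (nat_lit 78)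 (nat_lit 0) (nat_lit 0) (XT.lf (nat_lit 0) (nat_lit 2995997670) (nat_lit 76) (nat_lit 8315917711) (nat_lit 152) (nat_lit 14220488857) (nat_lit 26) (nat_lit 5) (nat_lit 27) (nat_lit 5) (nat_lit 28) (nat_lit 4) (nat_lit 402) (nat_lit 281) (nat_lit 217)) (XT.lf (nat_lit 0) (nat_lit 13421411660) (nat_lit 76) (nat_lit 3077051933) (nat_lit 152) (nat_lit 9633211293) (nat_lit 26) (nat_lit 5) (nat_lit 27) (nat_lit 5) (nat_lit 28) (nat_lit 4) (nat_lit 403) (nat_lit 281) (nat_lit 216))) (XT.nd (nat_lit 78) (nat_lit 76) (nat_lit 0) (XT.lf (nat_lit 0) (nat_lit 21825630126) (nat_lit 152) (nat_lit 2681360590) (nat_lit 0) (nat_lit 2242387221) (nat_lit 26) (nat_lit 5) (nat_lit 28) (nat_lit 4) (nat_lit 26) (nat_lit 4) (nat_lit 404) (nat_lit 281) (nat_lit 215)) (XT.lf (nat_lit 0) (nat_lit 7700505381) (nat_lit 76) (nat_lit 19680410046) (nat_lit 76) (nat_lit 2652336) (nat_lit 25) (nat_lit 4) (nat_lit 26) (nat_lit 5) (nat_lit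 26) (nat_lit 4) (nat_lit 405) (nat_lit 281) (nat_lit 214))))) (XT.nd (nat_lit 234) (nat_lit 152) (nat_lit 0) (XT.nd (nat_lit 78) (nat_lit 76) (nat_lit 0) (XT.lf (nat_lit 0) (nat_lit 4958429841) (nat_lit 152) (nat_lit 9703907076) (nat_lit 76) (nat_lit 13373253604) (nat_lit 24) (nat_lit 5) (nat_lit 26) (nat_lit 5) (nat_lit 25) (nat_lit 4) (nat_lit 406) (nat_lit 281) (nat_lit 213)) (XT.nd (nat_lit 78) (nat_lit 0) (nat_lit 0) (XT.lf (nat_lit 0) (nat_lit 518934189) (nat_lit 76) (nat_lit 9519264388) (nat_lit 152) (nat_lit 18669881766) (nat_lit 23) (nat_lit 5) (nat_lit 24) (nat_lit 5) (nat_lit 25) (nat_lit 4) (nat_lit 407) (nat_lit 281) (nat_lit 212)) (XT.lf (nat_lit 0) (nat_lit 11182237549) (nat_lit 76) (nat_lit 4151427923) (nat_lit 152) (nat_lit 14065184497) (nat_lit 23) (nat_lit 5) (nat_lit 24) (nat_lit 5) (nat_lit 25) (nat_lit 4) (nat_lit 408) (nat_lit 281) (nat_lit 211)))) (XT.nd (nat_lit 156) (nat_lit 76)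 (nat_lit 0) (XT.nd (nat_lit 78) (nat_lit 76) (nat_lit 0) (XT.lf (nat_lit 0) (nat_lit 20767277861) (nat_lit 152) (nat_lit 8022119973) (nat_lit 0) (nat_lit 1321570541) (nat_lit 23) (nat_lit 5) (nat_lit 25) (nat_lit 4) (nat_lit 23) (nat_lit 4) (nat_lit 409) (nat_lit 281) (nat_lit 210)) (XT.lf (nat_lit 0) (nat_lit 2422257898) (nat_lit 76) (nat_lit 23973057958) (nat_lit 76) (nat_lit 4448195977) (nat_lit 22) (nat_lit 4) (nat_lit 23) (nat_lit 5) (nat_lit 23) (nat_lit 4) (nat_lit 410) (nat_lit 281) (nat_lit 209))) (XT.nd (nat_lit 78) (nat_lit 0) (nat_lit 0) (XT.lf (nat_lit 0) (nat_lit 631451105) (nat_lit 152) (nat_lit 18319865422) (nat_lit 76) (nat_lit 12645081052) (nat_lit 21) (nat_lit 5) (nat_lit 23) (nat_lit 5) (nat_lit 22) (nat_lit 4) (nat_lit 411) (nat_lit 281) (nat_lit 208)) (XT.lf (nat_lit 0) (nat_lit 5742114566) (nat_lit 152) (nat_lit 8019829456) (nat_lit 76) (nat_lit 18609567366) (nat_lit 21) (nat_lit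 5) (nat_lit 23) (nat_lit 5) (nat_lit 22) (nat_lit 4) (nat_lit 412) (nat_lit 281) (nat_lit 207))))))))
noncomputable def xc60 : XT := (XT.nd (nat_lit 2028) (nat_lit 228) (nat_lit 0) (XT.nd (nat_lit 1014) (nat_lit 380) (nat_lit 0) (XT.nd (nat_lit 468) (nat_lit 152) (nat_lit 0) (XT.nd (nat_lit 234) (nat_lit 152) (nat_lit 0) (XT.nd (nat_lit 78) (nat_lit 0) (nat_lit 0) (XT.lf (nat_lit 0) (nat_lit 2580976929) (nat_lit 76) (nat_lit 8418893358) (nat_lit 152) (nat_lit 22170198723) (nat_lit 20) (nat_lit 5) (nat_lit 21) (nat_lit 5) (nat_lit 22) (nat_lit 4) (nat_lit 413) (nat_lit 281) (nat_lit 206)) (XT.nd (nat_lit 78) (nat_lit 0) (nat_lit 0) (XT.lf (nat_lit 0) (nat_lit 13606185793) (nat_lit 76) (nat_lit 2859466147) (nat_lit 152) (nat_lit 17525426089) (nat_lit 20) (nat_lit 5) (nat_lit 21) (nat_lit 5) (nat_lit 22) (nat_lit 4) (nat_lit 414) (nat_lit 281) (nat_lit 205)) (XT.lf (nat_lit 0) (nat_lit 22092911514) (nat_lit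 152) (nat_lit 9959095967) (nat_lit 0) (nat_lit 2784788066) (nat_lit 20) (nat_lit 5) (nat_lit 22) (nat_lit 4) (nat_lit 20) (nat_lit 4) (nat_lit 415) (nat_lit 281) (nat_lit 204)))) (XT.nd (nat_lit 78) (nat_lit 76) (nat_lit 0) (XT.lf (nat_lit 0) (nat_lit 709698133) (nat_lit 76) (nat_lit 27185247230) (nat_lit 76) (nat_lit 7812763799) (nat_lit 19) (nat_lit 4) (nat_lit 20) (nat_lit 5) (nat_lit 20) (nat_lit 4) (nat_lit 416) (nat_lit 281) (nat_lit 203)) (XT.nd (nat_lit 78) (nat_lit 76) (nat_lit 0) (XT.lf (nat_lit 0) (nat_lit 11847936770) (nat_lit 76) (nat_lit 22094817017) (nat_lit 76) (nat_lit 2659848164) (nat_lit 19) (nat_lit 4) (nat_lit 20) (nat_lit 5) (nat_lit 20) (nat_lit 4) (nat_lit 417) (nat_lit 281) (nat_lit 202)) (XT.lf (nat_lit 0) (nat_lit 2567695892) (nat_lit 152) (nat_lit 14283211646) (nat_lit 76) (nat_lit 20673522261) (nat_lit 18) (nat_lit 5) (nat_lit 20) (nat_lit 5) (nat_lit 19) (nat_lit 4) (nat_lit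 418) (nat_lit 281) (nat_lit 201))))) (XT.nd (nat_lit 234) (nat_lit 76) (nat_lit 0) (XT.nd (nat_lit 78) (nat_lit 76) (nat_lit 0) (XT.lf (nat_lit 0) (nat_lit 7871136286) (nat_lit 152) (nat_lit 3576126148) (nat_lit 76) (nat_lit 27026686986) (nat_lit 18) (nat_lit 5) (nat_lit 20) (nat_lit 5) (nat_lit 19) (nat_lit 4) (nat_lit 419) (nat_lit 281) (nat_lit 200)) (XT.nd (nat_lit 78) (nat_lit 0) (nat_lit 0) (XT.lf (nat_lit 0) (nat_lit 7548819767) (nat_lit 76) (nat_lit 5830754414) (nat_lit 152) (nat_lit 26071006438) (nat_lit 17) (nat_lit 5) (nat_lit 18) (nat_lit 5) (nat_lit 19) (nat_lit 4) (nat_lit 420) (nat_lit 281) (nat_lit 199)) (XT.lf (nat_lit 0) (nat_lit 19030660967) (nat_lit 76) (nat_lit 32341139) (nat_lit 152) (nat_lit 21393219277) (nat_lit 17) (nat_lit 5) (nat_lit 18) (nat_lit 5) (nat_lit 19) (nat_lit 4) (nat_lit 421) (nat_lit 281) (nat_lit 198)))) (XT.nd (nat_lit 156) (nat_lit 0) (nat_lit 0) (XT.nd (nat_lit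 78) (nat_lit 76) (nat_lit 0) (XT.lf (nat_lit 0) (nat_lit 24948203272) (nat_lit 152) (nat_lit 10741421195) (nat_lit 0) (nat_lit 5801471446) (nat_lit 17) (nat_lit 5) (nat_lit 19) (nat_lit 4) (nat_lit 17) (nat_lit 4) (nat_lit 422) (nat_lit 281) (nat_lit 197)) (XT.lf (nat_lit 0) (nat_lit 219389401) (nat_lit 76) (nat_lit 30767923734) (nat_lit 76) (nat_lit 11570385542) (nat_lit 16) (nat_lit 4) (nat_lit 17) (nat_lit 5) (nat_lit 17) (nat_lit 4) (nat_lit 423) (nat_lit 281) (nat_lit 196))) (XT.nd (nat_lit 78) (nat_lit 0) (nat_lit 0) (XT.lf (nat_lit 0) (nat_lit 11681868014) (nat_lit 76) (nat_lit 25609394395) (nat_lit 76) (nat_lit 6362529636) (nat_lit 16) (nat_lit 4) (nat_lit 17) (nat_lit 5) (nat_lit 17) (nat_lit 4) (nat_lit 424) (nat_lit 281) (nat_lit 195)) (XT.lf (nat_lit 0) (nat_lit 23442255055) (nat_lit 76) (nat_lit 20317996292) (nat_lit 76) (nat_lit 1023241661) (nat_lit 16) (nat_lit 4) (nat_lit 17) (nat_lit 5)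 (nat_lit 17) (nat_lit 4) (nat_lit 425) (nat_lit 281) (nat_lit 194)))))) (XT.nd (nat_lit 468) (nat_lit 228) (nat_lit 0) (XT.nd (nat_lit 234) (nat_lit 0) (nat_lit 0) (XT.nd (nat_lit 78) (nat_lit 76) (nat_lit 0) (XT.lf (nat_lit 0) (nat_lit 4365266418) (nat_lit 152) (nat_lit 10479758822) (nat_lit 76) (nat_lit 31101479543) (nat_lit 15) (nat_lit 5) (nat_lit 17) (nat_lit 5) (nat_lit 16) (nat_lit 4) (nat_lit 426) (nat_lit 281) (nat_lit 193)) (XT.nd (nat_lit 78) (nat_lit 0) (nat_lit 0) (XT.lf (nat_lit 0) (nat_lit 666656705) (nat_lit 76) (nat_lit 9211691646) (nat_lit 152) (nat_lit 37266252308) (nat_lit 14) (nat_lit 5) (nat_lit 15) (nat_lit 5) (nat_lit 16) (nat_lit 4) (nat_lit 427) (nat_lit 281) (nat_lit 192)) (XT.lf (nat_lit 0) (nat_lit 12318933009) (nat_lit 76) (nat_lit 3321042101) (nat_lit 152) (nat_lit 32736171890) (nat_lit 14) (nat_lit 5) (nat_lit 15) (nat_lit 5) (nat_lit 16) (nat_lit 4) (nat_lit 428) (nat_lit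 281) (nat_lit 191)))) (XT.nd (nat_lit 78) (nat_lit 0) (nat_lit 0) (XT.lf (nat_lit 0) (nat_lit 21578644732) (nat_lit 152) (nat_lit 25392824598) (nat_lit 0) (nat_lit 2673046676) (nat_lit 14) (nat_lit 5) (nat_lit 16) (nat_lit 4) (nat_lit 14) (nat_lit 4) (nat_lit 429) (nat_lit 281) (nat_lit 190)) (XT.nd (nat_lit 78) (nat_lit 0) (nat_lit 0) (XT.lf (nat_lit 0) (nat_lit 27706797488) (nat_lit 152) (nat_lit 14482708518) (nat_lit 0) (nat_lit 8761092419) (nat_lit 14) (nat_lit 5) (nat_lit 16) (nat_lit 4) (nat_lit 14) (nat_lit 4) (nat_lit 430) (nat_lit 281) (nat_lit 189)) (XT.lf (nat_lit 0) (nat_lit 33997864189) (nat_lit 152) (nat_lit 3285408754) (nat_lit 0) (nat_lit 15013220271) (nat_lit 14) (nat_lit 5) (nat_lit 16) (nat_lit 4) (nat_lit 14) (nat_lit 4) (nat_lit 431) (nat_lit 281) (nat_lit 188))))) (XT.nd (nat_lit 234) (nat_lit 152) (nat_lit 0) (XT.nd (nat_lit 78) (nat_lit 0) (nat_lit 0) (XT.lf (nat_lit 0) (nat_lit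 8372231128) (nat_lit 76) (nat_lit 32165589760) (nat_lit 76) (nat_lit 13143141136) (nat_lit 13) (nat_lit 4) (nat_lit 14) (nat_lit 5) (nat_lit 14) (nat_lit 4) (nat_lit 432) (nat_lit 281) (nat_lit 187)) (XT.nd (nat_lit 78) (nat_lit 0) (nat_lit 0) (XT.lf (nat_lit 0) (nat_lit 20408378481) (nat_lit 76) (nat_lit 26878674107) (nat_lit 76) (nat_lit 7819521884) (nat_lit 13) (nat_lit 4) (nat_lit 14) (nat_lit 5) (nat_lit 14) (nat_lit 4) (nat_lit 433) (nat_lit 281) (nat_lit 186)) (XT.lf (nat_lit 0) (nat_lit 32768164251) (nat_lit 76) (nat_lit 21451082535) (nat_lit 76) (nat_lit 2356295750) (nat_lit 13) (nat_lit 4) (nat_lit 14) (nat_lit 5) (nat_lit 14) (nat_lit 4) (nat_lit 434) (nat_lit 281) (nat_lit 185)))) (XT.nd (nat_lit 156) (nat_lit 76) (nat_lit 0) (XT.nd (nat_lit 78) (nat_lit 0) (nat_lit 0) (XT.lf (nat_lit 0) (nat_lit 3187866170) (nat_lit 152) (nat_lit 12658015121) (nat_lit 76) (nat_lit 42242330880) (nat_lit 12)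 (nat_lit 5) (nat_lit 14) (nat_lit 5) (nat_lit 13) (nat_lit 4) (nat_lit 435) (nat_lit 281) (nat_lit 184)) (XT.lf (nat_lit 0) (nat_lit 8832415701) (nat_lit 152) (nat_lit 1233168566) (nat_lit 76) (nat_lit 49580536735) (nat_lit 12) (nat_lit 5) (nat_lit 14) (nat_lit 5) (nat_lit 13) (nat_lit 4) (nat_lit 436) (nat_lit 281) (nat_lit 183))) (XT.nd (nat_lit 78) (nat_lit 0) (nat_lit 0) (XT.lf (nat_lit 0) (nat_lit 10708760904) (nat_lit 76) (nat_lit 4022443044) (nat_lit 152) (nat_lit 46517017690) (nat_lit 11) (nat_lit 5) (nat_lit 12) (nat_lit 5) (nat_lit 13) (nat_lit 4) (nat_lit 437) (nat_lit 281) (nat_lit 182)) (XT.lf (nat_lit 0) (nat_lit 20822699317) (nat_lit 152) (nat_lit 39919743061) (nat_lit 0) (nat_lit 2155472171) (nat_lit 11) (nat_lit 5) (nat_lit 13) (nat_lit 4) (nat_lit 11) (nat_lit 4) (nat_lit 438) (nat_lit 281) (nat_lit 181))))))) (XT.nd (nat_lit 39078) (nat_lit 0) (nat_lit 7372) (XT.nd (nat_lit 468) (nat_lit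 152) (nat_lit 0) (XT.nd (nat_lit 234) (nat_lit 76) (nat_lit 0) (XT.nd (nat_lit 78) (nat_lit 0) (nat_lit 0) (XT.lf (nat_lit 0) (nat_lit 27119290662) (nat_lit 152) (nat_lit 29054918435) (nat_lit 0) (nat_lit 8422220132) (nat_lit 11) (nat_lit 5) (nat_lit 13) (nat_lit 4) (nat_lit 11) (nat_lit 4) (nat_lit 439) (nat_lit 281) (nat_lit 180)) (XT.nd (nat_lit 78) (nat_lit 0) (nat_lit 0) (XT.lf (nat_lit 0) (nat_lit 33587813677) (nat_lit 152) (nat_lit 17896827136) (nat_lit 0) (nat_lit 14861768987) (nat_lit 11) (nat_lit 5) (nat_lit 13) (nat_lit 4) (nat_lit 11) (nat_lit 4) (nat_lit 440) (nat_lit 281) (nat_lit 179)) (XT.lf (nat_lit 0) (nat_lit 40233920470) (nat_lit 152) (nat_lit 6435719377) (nat_lit 0) (nat_lit 21479745528) (nat_lit 11) (nat_lit 5) (nat_lit 13) (nat_lit 4) (nat_lit 11) (nat_lit 4) (nat_lit 441) (nat_lit 281) (nat_lit 178)))) (XT.nd (nat_lit 78) (nat_lit 0) (nat_lit 0) (XT.lf (nat_lit 0) (nat_lit 5444664416)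 (nat_lit 76) (nat_lit 41671091347) (nat_lit 76) (nat_lit 22889605480) (nat_lit 10) (nat_lit 4) (nat_lit 11) (nat_lit 5) (nat_lit 11) (nat_lit 4) (nat_lit 442) (nat_lit 281) (nat_lit 177)) (XT.nd (nat_lit 78) (nat_lit 0) (nat_lit 0) (XT.lf (nat_lit 0) (nat_lit 17782885433) (nat_lit 76) (nat_lit 36470329286) (nat_lit 76) (nat_lit 17662327957) (nat_lit 10) (nat_lit 4) (nat_lit 11) (nat_lit 5) (nat_lit 11) (nat_lit 4) (nat_lit 443) (nat_lit 281) (nat_lit 176)) (XT.lf (nat_lit 0) (nat_lit 30461641207) (nat_lit 76) (nat_lit 31127797454) (nat_lit 76) (nat_lit 12294052960) (nat_lit 10) (nat_lit 4) (nat_lit 11) (nat_lit 5) (nat_lit 11) (nat_lit 4) (nat_lit 444) (nat_lit 281) (nat_lit 175))))) (XT.nd (nat_lit 234) (nat_lit 76) (nat_lit 0) (XT.nd (nat_lit 78) (nat_lit 76) (nat_lit 0) (XT.lf (nat_lit 0) (nat_lit 43492010263) (nat_lit 76) (nat_lit 25638827621) (nat_lit 76) (nat_lit 6780089762) (nat_lit 10) (nat_lit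 4) (nat_lit 11) (nat_lit 5) (nat_lit 11) (nat_lit 4) (nat_lit 445) (nat_lit 281) (nat_lit 174)) (XT.nd (nat_lit 78) (nat_lit 76) (nat_lit 0) (XT.lf (nat_lit 0) (nat_lit 56885378360) (nat_lit 76) (nat_lit 19998623600) (nat_lit 76) (nat_lit 1115620338) (nat_lit 10) (nat_lit 4) (nat_lit 11) (nat_lit 5) (nat_lit 11) (nat_lit 4) (nat_lit 446) (nat_lit 281) (nat_lit 173)) (XT.lf (nat_lit 0) (nat_lit 4612506917) (nat_lit 152) (nat_lit 9543172862) (nat_lit 76) (nat_lit 65994364248) (nat_lit 9) (nat_lit 5) (nat_lit 11) (nat_lit 5) (nat_lit 10) (nat_lit 4) (nat_lit 447) (nat_lit 281) (nat_lit 172)))) (XT.nd (nat_lit 38220) (nat_lit 0) (nat_lit 11780) (XT.nd (nat_lit 38142) (nat_lit 0) (nat_lit 12312) (XT.lf (nat_lit 0) (nat_lit 2383918242) (nat_lit 76) (nat_lit 8115270239) (nat_lit 152) (nat_lit 71865185683) (nat_lit 8) (nat_lit 5) (nat_lit 9) (nat_lit 5) (nat_lit 10) (nat_lit 4) (nat_lit 448) (nat_lit 281) (nat_lit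 171)) (XT.lf (nat_lit 0) (nat_lit 690140774) (nat_lit 456) (nat_lit 1630062703) (nat_lit 456) (nat_lit 1630062703) (nat_lit 170) (nat_lit 4) (nat_lit 176) (nat_lit 5) (nat_lit 176) (nat_lit 4) (nat_lit 336) (nat_lit 282) (nat_lit 282))) (XT.nd (nat_lit 78) (nat_lit 456) (nat_lit 0) (XT.lf (nat_lit 0) (nat_lit 393870166) (nat_lit 532) (nat_lit 474461715) (nat_lit 76) (nat_lit 7118221916) (nat_lit 169) (nat_lit 5) (nat_lit 176) (nat_lit 5) (nat_lit 170) (nat_lit 4) (nat_lit 337) (nat_lit 282) (nat_lit 281)) (XT.lf (nat_lit 0) (nat_lit 4066751269) (nat_lit 532) (nat_lit 2379297330) (nat_lit 0) (nat_lit 1628956140) (nat_lit 163) (nat_lit 5) (nat_lit 170) (nat_lit 4) (nat_lit 163) (nat_lit 4) (nat_lit 338) (nat_lit 282) (nat_lit 280)))))) (XT.nd (nat_lit 546) (nat_lit 1824) (nat_lit 0) (XT.nd (nat_lit 234) (nat_lit 1672) (nat_lit 0) (XT.nd (nat_lit 78) (nat_lit 456) (nat_lit 0) (XT.lf (nat_lit 0) (nat_lit 3839808917)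 (nat_lit 456) (nat_lit 3965695554) (nat_lit 456) (nat_lit 361993337) (nat_lit 157) (nat_lit 4) (nat_lit 163) (nat_lit 5) (nat_lit 163) (nat_lit 4) (nat_lit 339) (nat_lit 282) (nat_lit 279)) (XT.nd (nat_lit 78) (nat_lit 0) (nat_lit 0) (XT.lf (nat_lit 0) (nat_lit 1914765133) (nat_lit 380) (nat_lit 1361301851) (nat_lit 456) (nat_lit 4987316759) (nat_lit 151) (nat_lit 5) (nat_lit 156) (nat_lit 5) (nat_lit 157) (nat_lit 4) (nat_lit 340) (nat_lit 282) (nat_lit 278)) (XT.lf (nat_lit 0) (nat_lit 6980098475) (nat_lit 456) (nat_lit 67662193) (nat_lit 0) (nat_lit 1315409060) (nat_lit 151) (nat_lit 5) (nat_lit 157) (nat_lit 4) (nat_lit 151) (nat_lit 4) (nat_lit 341) (nat_lit 282) (nat_lit 277)))) (XT.nd (nat_lit 156) (nat_lit 760) (nat_lit 0) (XT.nd (nat_lit 78) (nat_lit 380) (nat_lit 0) (XT.lf (nat_lit 0) (nat_lit 2268553527) (nat_lit 532) (nat_lit 2095419100) (nat_lit 76) (nat_lit 4101814839) (nat_lit 144) (nat_lit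 5) (nat_lit 151) (nat_lit 5) (nat_lit 145) (nat_lit 4) (nat_lit 342) (nat_lit 282) (nat_lit 276)) (XT.lf (nat_lit 0) (nat_lit 4382908726) (nat_lit 380) (nat_lit 1572368703) (nat_lit 456) (nat_lit 2617244584) (nat_lit 139) (nat_lit 5) (nat_lit 144) (nat_lit 5) (nat_lit 145) (nat_lit 4) (nat_lit 343) (nat_lit 282) (nat_lit 275))) (XT.nd (nat_lit 78) (nat_lit 304) (nat_lit 0) (XT.lf (nat_lit 0) (nat_lit 1016856151) (nat_lit 456) (nat_lit 6365620156) (nat_lit 76) (nat_lit 1300692570) (nat_lit 133) (nat_lit 5) (nat_lit 139) (nat_lit 5) (nat_lit 134) (nat_lit 4) (nat_lit 344) (nat_lit 282) (nat_lit 274)) (XT.lf (nat_lit 0) (nat_lit 148755247) (nat_lit 304) (nat_lit 4530540915) (nat_lit 380) (nat_lit 4117949325) (nat_lit 129) (nat_lit 5) (nat_lit 133) (nat_lit 5) (nat_lit 134) (nat_lit 4) (nat_lit 345) (nat_lit 282) (nat_lit 273))))) (XT.nd (nat_lit 234) (nat_lit 1064) (nat_lit 0) (XT.nd (nat_lit 78) (nat_lit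 760) (nat_lit 0) (XT.lf (nat_lit 0) (nat_lit 6868058906) (nat_lit 304) (nat_lit 1561421670) (nat_lit 380) (nat_lit 485971713) (nat_lit 129) (nat_lit 5) (nat_lit 133) (nat_lit 5) (nat_lit 134) (nat_lit 4) (nat_lit 346) (nat_lit 282) (nat_lit 272)) (XT.nd (nat_lit 78) (nat_lit 304) (nat_lit 0) (XT.lf (nat_lit 0) (nat_lit 3166607927) (nat_lit 456) (nat_lit 4359485940) (nat_lit 76) (nat_lit 1510959502) (nat_lit 123) (nat_lit 5) (nat_lit 129) (nat_lit 5) (nat_lit 124) (nat_lit 4) (nat_lit 347) (nat_lit 282) (nat_lit 271)) (XT.lf (nat_lit 0) (nat_lit 2390497198) (nat_lit 304) (nat_lit 4504055020) (nat_lit 380) (nat_lit 2268379563) (nat_lit 119) (nat_lit 5) (nat_lit 123) (nat_lit 5) (nat_lit 124) (nat_lit 4) (nat_lit 348) (nat_lit 282) (nat_lit 270)))) (XT.nd (nat_lit 156) (nat_lit 684) (nat_lit 0) (XT.nd (nat_lit 78) (nat_lit 0) (nat_lit 0) (XT.lf (nat_lit 0) (nat_lit 6148359) (nat_lit 304) (nat_lit 1368660728)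 (nat_lit 380) (nat_lit 7918563833) (nat_lit 114) (nat_lit 5) (nat_lit 118) (nat_lit 5) (nat_lit 119) (nat_lit 5) (nat_lit 349) (nat_lit 282) (nat_lit 269)) (XT.lf (nat_lit 0) (nat_lit 5086247758) (nat_lit 380) (nat_lit 2461491550) (nat_lit 76) (nat_lit 1879214686) (nat_lit 114) (nat_lit 5) (nat_lit 119) (nat_lit 5) (nat_lit 115) (nat_lit 4) (nat_lit 350) (nat_lit 282) (nat_lit 268))) (XT.nd (nat_lit 78) (nat_lit 380) (nat_lit 0) (XT.lf (nat_lit 0) (nat_lit 4525608673) (nat_lit 304) (nat_lit 4360469121) (nat_lit 380) (nat_lit 679189057) (nat_lit 110) (nat_lit 5) (nat_lit 114) (nat_lit 5) (nat_lit 115) (nat_lit 4) (nat_lit 351) (nat_lit 282) (nat_lit 267)) (XT.lf (nat_lit 0) (nat_lit 1955358416) (nat_lit 304) (nat_lit 1040759659) (nat_lit 380) (nat_lit 6711824532) (nat_lit 105) (nat_lit 5) (nat_lit 109) (nat_lit 5) (nat_lit 110) (nat_lit 5) (nat_lit 352) (nat_lit 282) (nat_lit 266))))))))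
noncomputable def xc61 : XT := (XT.nd (nat_lit 2106) (nat_lit 1976) (nat_lit 0) (XT.nd (nat_lit 1014) (nat_lit 1748) (nat_lit 0) (XT.nd (nat_lit 468) (nat_lit 1216) (nat_lit 0) (XT.nd (nat_lit 234) (nat_lit 608) (nat_lit 0) (XT.nd (nat_lit 78) (nat_lit 608) (nat_lit 0) (XT.lf (nat_lit 0) (nat_lit 6763491883) (nat_lit 380) (nat_lit 739402495) (nat_lit 76) (nat_lit 2351971524) (nat_lit 105) (nat_lit 5) (nat_lit 110) (nat_lit 5) (nat_lit 106) (nat_lit 4) (nat_lit 353) (nat_lit 282) (nat_lit 265)) (XT.nd (nat_lit 78) (nat_lit 304) (nat_lit 0) (XT.lf (nat_lit 0) (nat_lit 621308691) (nat_lit 304) (nat_lit 3528023549) (nat_lit 76) (nat_lit 5856829770) (nat_lit 101) (nat_lit 5) (nat_lit 105) (nat_lit 5) (nat_lit 102) (nat_lit 5) (nat_lit 354) (nat_lit 282) (nat_lit 264)) (XT.lf (nat_lit 0) (nat_lit 3690523110) (nat_lit 304) (nat_lit 659573955) (nat_lit 380) (nat_lit 5812005927) (nat_lit 97) (nat_lit 5) (nat_lit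 101) (nat_lit 5) (nat_lit 102) (nat_lit 5) (nat_lit 355) (nat_lit 282) (nat_lit 263)))) (XT.nd (nat_lit 78) (nat_lit 380) (nat_lit 0) (XT.lf (nat_lit 0) (nat_lit 745115941) (nat_lit 228) (nat_lit 7441552766) (nat_lit 304) (nat_lit 2136205014) (nat_lit 94) (nat_lit 5) (nat_lit 97) (nat_lit 5) (nat_lit 98) (nat_lit 4) (nat_lit 356) (nat_lit 282) (nat_lit 262)) (XT.nd (nat_lit 78) (nat_lit 304) (nat_lit 0) (XT.lf (nat_lit 0) (nat_lit 1615087299) (nat_lit 304) (nat_lit 2316097390) (nat_lit 76) (nat_lit 6556912166) (nat_lit 93) (nat_lit 5) (nat_lit 97) (nat_lit 5) (nat_lit 94) (nat_lit 5) (nat_lit 357) (nat_lit 282) (nat_lit 261)) (XT.lf (nat_lit 0) (nat_lit 5128228613) (nat_lit 304) (nat_lit 284122205) (nat_lit 380) (nat_lit 5246026943) (nat_lit 89) (nat_lit 5) (nat_lit 93) (nat_lit 5) (nat_lit 94) (nat_lit 5) (nat_lit 358) (nat_lit 282) (nat_lit 260))))) (XT.nd (nat_lit 234) (nat_lit 684) (nat_lit 0) (XT.nd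 (nat_lit 78) (nat_lit 304) (nat_lit 0) (XT.lf (nat_lit 0) (nat_lit 1898969754) (nat_lit 228) (nat_lit 7427529886) (nat_lit 304) (nat_lit 1507204294) (nat_lit 86) (nat_lit 5) (nat_lit 89) (nat_lit 5) (nat_lit 90) (nat_lit 4) (nat_lit 359) (nat_lit 282) (nat_lit 259)) (XT.nd (nat_lit 78) (nat_lit 228) (nat_lit 0) (XT.lf (nat_lit 0) (nat_lit 2285255055) (nat_lit 304) (nat_lit 1489290448) (nat_lit 76) (nat_lit 7239476641) (nat_lit 85) (nat_lit 5) (nat_lit 89) (nat_lit 5) (nat_lit 86) (nat_lit 5) (nat_lit 360) (nat_lit 282) (nat_lit 258)) (XT.lf (nat_lit 0) (nat_lit 6150849558) (nat_lit 304) (nat_lit 5026555816) (nat_lit 76) (nat_lit 22230868) (nat_lit 82) (nat_lit 5) (nat_lit 86) (nat_lit 5) (nat_lit 83) (nat_lit 4) (nat_lit 361) (nat_lit 282) (nat_lit 257)))) (XT.nd (nat_lit 156) (nat_lit 380) (nat_lit 0) (XT.nd (nat_lit 78) (nat_lit 76) (nat_lit 0) (XT.lf (nat_lit 0) (nat_lit 2606478424) (nat_lit 228) (nat_lit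 7534214527) (nat_lit 304) (nat_lit 1249900358) (nat_lit 79) (nat_lit 5) (nat_lit 82) (nat_lit 5) (nat_lit 83) (nat_lit 4) (nat_lit 362) (nat_lit 282) (nat_lit 256)) (XT.lf (nat_lit 0) (nat_lit 2593167246) (nat_lit 304) (nat_lit 1152955309) (nat_lit 76) (nat_lit 7840944899) (nat_lit 78) (nat_lit 5) (nat_lit 82) (nat_lit 5) (nat_lit 79) (nat_lit 5) (nat_lit 363) (nat_lit 282) (nat_lit 255))) (XT.nd (nat_lit 78) (nat_lit 152) (nat_lit 0) (XT.lf (nat_lit 0) (nat_lit 6525748654) (nat_lit 304) (nat_lit 5074546486) (nat_lit 76) (nat_lit 188810150) (nat_lit 75) (nat_lit 5) (nat_lit 79) (nat_lit 5) (nat_lit 76) (nat_lit 4) (nat_lit 364) (nat_lit 282) (nat_lit 254)) (XT.lf (nat_lit 0) (nat_lit 2751474584) (nat_lit 152) (nat_lit 7833567219) (nat_lit 228) (nat_lit 1411920843) (nat_lit 73) (nat_lit 5) (nat_lit 75) (nat_lit 5) (nat_lit 76) (nat_lit 4) (nat_lit 365) (nat_lit 282) (nat_lit 253)))))) (XT.nd (nat_lit 546)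 (nat_lit 760) (nat_lit 0) (XT.nd (nat_lit 234) (nat_lit 532) (nat_lit 0) (XT.nd (nat_lit 78) (nat_lit 380) (nat_lit 0) (XT.lf (nat_lit 0) (nat_lit 2490610349) (nat_lit 228) (nat_lit 1428438060) (nat_lit 76) (nat_lit 8291727412) (nat_lit 72) (nat_lit 5) (nat_lit 75) (nat_lit 5) (nat_lit 73) (nat_lit 5) (nat_lit 366) (nat_lit 282) (nat_lit 252)) (XT.nd (nat_lit 78) (nat_lit 152) (nat_lit 0) (XT.lf (nat_lit 0) (nat_lit 6482624960) (nat_lit 304) (nat_lit 5800460656) (nat_lit 76) (nat_lit 147493505) (nat_lit 69) (nat_lit 5) (nat_lit 73) (nat_lit 5) (nat_lit 70) (nat_lit 4) (nat_lit 367) (nat_lit 282) (nat_lit 251)) (XT.lf (nat_lit 0) (nat_lit 2199737158) (nat_lit 152) (nat_lit 8405221355) (nat_lit 228) (nat_lit 2051719392) (nat_lit 67) (nat_lit 5) (nat_lit 69) (nat_lit 5) (nat_lit 70) (nat_lit 4) (nat_lit 368) (nat_lit 282) (nat_lit 250)))) (XT.nd (nat_lit 156) (nat_lit 228) (nat_lit 0) (XT.nd (nat_lit 78) (nat_lit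 228) (nat_lit 0) (XT.lf (nat_lit 0) (nat_lit 1918523437) (nat_lit 228) (nat_lit 2456036714) (nat_lit 76) (nat_lit 8514589121) (nat_lit 66) (nat_lit 5) (nat_lit 69) (nat_lit 5) (nat_lit 67) (nat_lit 5) (nat_lit 369) (nat_lit 282) (nat_lit 249)) (XT.lf (nat_lit 0) (nat_lit 5772717386) (nat_lit 228) (nat_lit 187508390) (nat_lit 304) (nat_lit 7167968488) (nat_lit 63) (nat_lit 5) (nat_lit 66) (nat_lit 5) (nat_lit 67) (nat_lit 5) (nat_lit 370) (nat_lit 282) (nat_lit 248))) (XT.nd (nat_lit 78) (nat_lit 76) (nat_lit 0) (XT.lf (nat_lit 0) (nat_lit 795715781) (nat_lit 152) (nat_lit 9338312089) (nat_lit 228) (nat_lit 3240073394) (nat_lit 61) (nat_lit 5) (nat_lit 63) (nat_lit 5) (nat_lit 64) (nat_lit 4) (nat_lit 371) (nat_lit 282) (nat_lit 247)) (XT.lf (nat_lit 0) (nat_lit 805480759) (nat_lit 228) (nat_lit 4398402603) (nat_lit 76) (nat_lit 8422818663) (nat_lit 60) (nat_lit 5) (nat_lit 63) (nat_lit 5) (nat_lit 61) (nat_lit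 5) (nat_lit 372) (nat_lit 282) (nat_lit 246))))) (XT.nd (nat_lit 234) (nat_lit 456) (nat_lit 0) (XT.nd (nat_lit 78) (nat_lit 152) (nat_lit 0) (XT.lf (nat_lit 0) (nat_lit 3970303600) (nat_lit 152) (nat_lit 915602493) (nat_lit 228) (nat_lit 9000668261) (nat_lit 58) (nat_lit 5) (nat_lit 60) (nat_lit 5) (nat_lit 61) (nat_lit 5) (nat_lit 373) (nat_lit 282) (nat_lit 245)) (XT.nd (nat_lit 78) (nat_lit 152) (nat_lit 0) (XT.lf (nat_lit 0) (nat_lit 9108073920) (nat_lit 228) (nat_lit 1609214593) (nat_lit 76) (nat_lit 3436388767) (nat_lit 58) (nat_lit 5) (nat_lit 61) (nat_lit 5) (nat_lit 59) (nat_lit 4) (nat_lit 374) (nat_lit 282) (nat_lit 244)) (XT.lf (nat_lit 0) (nat_lit 6974630295) (nat_lit 152) (nat_lit 6500927864) (nat_lit 228) (nat_lit 952689495) (nat_lit 56) (nat_lit 5) (nat_lit 58) (nat_lit 5) (nat_lit 59) (nat_lit 4) (nat_lit 375) (nat_lit 282) (nat_lit 243)))) (XT.nd (nat_lit 156) (nat_lit 228) (nat_lit 0)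 (XT.nd (nat_lit 78) (nat_lit 0) (nat_lit 0) (XT.lf (nat_lit 0) (nat_lit 1027293157) (nat_lit 152) (nat_lit 2141024818) (nat_lit 228) (nat_lit 11542739908) (nat_lit 53) (nat_lit 5) (nat_lit 55) (nat_lit 5) (nat_lit 56) (nat_lit 5) (nat_lit 376) (nat_lit 282) (nat_lit 242)) (XT.lf (nat_lit 0) (nat_lit 7435416049) (nat_lit 228) (nat_lit 5217401188) (nat_lit 76) (nat_lit 2348016672) (nat_lit 53) (nat_lit 5) (nat_lit 56) (nat_lit 5) (nat_lit 54) (nat_lit 4) (nat_lit 377) (nat_lit 282) (nat_lit 241))) (XT.nd (nat_lit 78) (nat_lit 76) (nat_lit 0) (XT.lf (nat_lit 0) (nat_lit 3452063480) (nat_lit 152) (nat_lit 8377514941) (nat_lit 228) (nat_lit 3469765606) (nat_lit 51) (nat_lit 5) (nat_lit 53) (nat_lit 5) (nat_lit 54) (nat_lit 4) (nat_lit 378) (nat_lit 282) (nat_lit 240)) (XT.lf (nat_lit 0) (nat_lit 732157187) (nat_lit 228) (nat_lit 3221596659) (nat_lit 76) (nat_lit 11652910963) (nat_lit 50) (nat_lit 5) (nat_lit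 53) (nat_lit 5) (nat_lit 51) (nat_lit 5) (nat_lit 379) (nat_lit 282) (nat_lit 239))))))) (XT.nd (nat_lit 1014) (nat_lit 836) (nat_lit 0) (XT.nd (nat_lit 468) (nat_lit 532) (nat_lit 0) (XT.nd (nat_lit 234) (nat_lit 304) (nat_lit 0) (XT.nd (nat_lit 78) (nat_lit 152) (nat_lit 0) (XT.lf (nat_lit 0) (nat_lit 4997346199) (nat_lit 228) (nat_lit 10284182133) (nat_lit 76) (nat_lit 640449139) (nat_lit 48) (nat_lit 5) (nat_lit 51) (nat_lit 5) (nat_lit 49) (nat_lit 4) (nat_lit 380) (nat_lit 282) (nat_lit 238)) (XT.nd (nat_lit 78) (nat_lit 152) (nat_lit 0) (XT.lf (nat_lit 0) (nat_lit 9409176085) (nat_lit 228) (nat_lit 1550897794) (nat_lit 76) (nat_lit 5286126054) (nat_lit 48) (nat_lit 5) (nat_lit 51) (nat_lit 5) (nat_lit 49) (nat_lit 4) (nat_lit 381) (nat_lit 282) (nat_lit 237)) (XT.lf (nat_lit 0) (nat_lit 7498806291) (nat_lit 152) (nat_lit 6474875766) (nat_lit 228) (nat_lit 2605868031) (nat_lit 46) (nat_lit 5) (nat_lit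 48) (nat_lit 5) (nat_lit 49) (nat_lit 4) (nat_lit 382) (nat_lit 282) (nat_lit 236)))) (XT.nd (nat_lit 78) (nat_lit 228) (nat_lit 0) (XT.lf (nat_lit 0) (nat_lit 1682200900) (nat_lit 228) (nat_lit 179680365) (nat_lit 76) (nat_lit 15061599104) (nat_lit 45) (nat_lit 5) (nat_lit 48) (nat_lit 5) (nat_lit 46) (nat_lit 5) (nat_lit 383) (nat_lit 282) (nat_lit 235)) (XT.nd (nat_lit 78) (nat_lit 76) (nat_lit 0) (XT.lf (nat_lit 0) (nat_lit 6111903359) (nat_lit 228) (nat_lit 8254528204) (nat_lit 76) (nat_lit 2908571720) (nat_lit 43) (nat_lit 5) (nat_lit 46) (nat_lit 5) (nat_lit 44) (nat_lit 4) (nat_lit 384) (nat_lit 282) (nat_lit 234)) (XT.lf (nat_lit 0) (nat_lit 770271071) (nat_lit 76) (nat_lit 9881991113) (nat_lit 152) (nat_lit 6985486210) (nat_lit 42) (nat_lit 5) (nat_lit 43) (nat_lit 5) (nat_lit 44) (nat_lit 4) (nat_lit 385) (nat_lit 282) (nat_lit 233))))) (XT.nd (nat_lit 234) (nat_lit 304) (nat_lit 0) (XT.nd (nat_lit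 78) (nat_lit 228) (nat_lit 0) (XT.lf (nat_lit 0) (nat_lit 10146294310) (nat_lit 76) (nat_lit 5216586782) (nat_lit 152) (nat_lit 2647482476) (nat_lit 42) (nat_lit 5) (nat_lit 43) (nat_lit 5) (nat_lit 44) (nat_lit 4) (nat_lit 386) (nat_lit 282) (nat_lit 232)) (XT.nd (nat_lit 78) (nat_lit 0) (nat_lit 0) (XT.lf (nat_lit 0) (nat_lit 1330791929) (nat_lit 152) (nat_lit 418782305) (nat_lit 228) (nat_lit 16645133372) (nat_lit 39) (nat_lit 5) (nat_lit 41) (nat_lit 5) (nat_lit 42) (nat_lit 5) (nat_lit 387) (nat_lit 282) (nat_lit 231)) (XT.lf (nat_lit 0) (nat_lit 6300863487) (nat_lit 228) (nat_lit 7983305204) (nat_lit 76) (nat_lit 4503369326) (nat_lit 39) (nat_lit 5) (nat_lit 42) (nat_lit 5) (nat_lit 40) (nat_lit 4) (nat_lit 388) (nat_lit 282) (nat_lit 230)))) (XT.nd (nat_lit 156) (nat_lit 228) (nat_lit 0) (XT.nd (nat_lit 78) (nat_lit 0) (nat_lit 0) (XT.lf (nat_lit 0) (nat_lit 1306277225) (nat_lit 76) (nat_lit 9652376760)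 (nat_lit 152) (nat_lit 8234408644) (nat_lit 38) (nat_lit 5) (nat_lit 39) (nat_lit 5) (nat_lit 40) (nat_lit 4) (nat_lit 389) (nat_lit 282) (nat_lit 229)) (XT.lf (nat_lit 0) (nat_lit 10954238163) (nat_lit 76) (nat_lit 4836369550) (nat_lit 152) (nat_lit 3819120309) (nat_lit 38) (nat_lit 5) (nat_lit 39) (nat_lit 5) (nat_lit 40) (nat_lit 4) (nat_lit 390) (nat_lit 282) (nat_lit 228))) (XT.nd (nat_lit 78) (nat_lit 0) (nat_lit 0) (XT.lf (nat_lit 0) (nat_lit 677579174) (nat_lit 228) (nat_lit 19262294924) (nat_lit 76) (nat_lit 99921513) (nat_lit 35) (nat_lit 5) (nat_lit 38) (nat_lit 5) (nat_lit 36) (nat_lit 4) (nat_lit 391) (nat_lit 282) (nat_lit 227)) (XT.lf (nat_lit 0) (nat_lit 5323460692) (nat_lit 228) (nat_lit 9978406429) (nat_lit 76) (nat_lit 5177039722) (nat_lit 35) (nat_lit 5) (nat_lit 38) (nat_lit 5) (nat_lit 36) (nat_lit 4) (nat_lit 392) (nat_lit 282) (nat_lit 226)))))) (XT.nd (nat_lit 546) (nat_lit 456)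 (nat_lit 0) (XT.nd (nat_lit 234) (nat_lit 304) (nat_lit 0) (XT.nd (nat_lit 78) (nat_lit 76) (nat_lit 0) (XT.lf (nat_lit 0) (nat_lit 10064920482) (nat_lit 228) (nat_lit 496205177) (nat_lit 76) (nat_lit 10371386742) (nat_lit 35) (nat_lit 5) (nat_lit 38) (nat_lit 5) (nat_lit 36) (nat_lit 4) (nat_lit 393) (nat_lit 282) (nat_lit 225)) (XT.nd (nat_lit 78) (nat_lit 0) (nat_lit 0) (XT.lf (nat_lit 0) (nat_lit 9375544901) (nat_lit 76) (nat_lit 5620680141) (nat_lit 152) (nat_lit 6402079894) (nat_lit 34) (nat_lit 5) (nat_lit 35) (nat_lit 5) (nat_lit 36) (nat_lit 4) (nat_lit 394) (nat_lit 282) (nat_lit 224)) (XT.lf (nat_lit 0) (nat_lit 19476514750) (nat_lit 76) (nat_lit 561939533) (nat_lit 152) (nat_lit 1840734035) (nat_lit 34) (nat_lit 5) (nat_lit 35) (nat_lit 5) (nat_lit 36) (nat_lit 4) (nat_lit 395) (nat_lit 282) (nat_lit 223)))) (XT.nd (nat_lit 156) (nat_lit 76) (nat_lit 0) (XT.nd (nat_lit 78) (nat_lit 0) (nat_lit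 0) (XT.lf (nat_lit 0) (nat_lit 2878402680) (nat_lit 228) (nat_lit 14867889199) (nat_lit 76) (nat_lit 4625087265) (nat_lit 31) (nat_lit 5) (nat_lit 34) (nat_lit 5) (nat_lit 32) (nat_lit 4) (nat_lit 396) (nat_lit 282) (nat_lit 222)) (XT.lf (nat_lit 0) (nat_lit 7691122495) (nat_lit 228) (nat_lit 5221388358) (nat_lit 76) (nat_lit 9965613988) (nat_lit 31) (nat_lit 5) (nat_lit 34) (nat_lit 5) (nat_lit 32) (nat_lit 4) (nat_lit 397) (nat_lit 282) (nat_lit 221))) (XT.nd (nat_lit 78) (nat_lit 0) (nat_lit 0) (XT.lf (nat_lit 0) (nat_lit 4733236719) (nat_lit 76) (nat_lit 7920621542) (nat_lit 152) (nat_lit 10746051517) (nat_lit 30) (nat_lit 5) (nat_lit 31) (nat_lit 5) (nat_lit 32) (nat_lit 4) (nat_lit 398) (nat_lit 282) (nat_lit 220)) (XT.lf (nat_lit 0) (nat_lit 15020622503) (nat_lit 76) (nat_lit 2758175203) (nat_lit 152) (nat_lit 6158156636) (nat_lit 30) (nat_lit 5) (nat_lit 31) (nat_lit 5) (nat_lit 32) (nat_lit 4)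 (nat_lit 399) (nat_lit 282) (nat_lit 219))))) (XT.nd (nat_lit 234) (nat_lit 228) (nat_lit 0) (XT.nd (nat_lit 78) (nat_lit 76) (nat_lit 0) (XT.lf (nat_lit 0) (nat_lit 1050796068) (nat_lit 152) (nat_lit 22002821027) (nat_lit 152) (nat_lit 1436614755) (nat_lit 28) (nat_lit 4) (nat_lit 30) (nat_lit 5) (nat_lit 30) (nat_lit 4) (nat_lit 400) (nat_lit 282) (nat_lit 218)) (XT.nd (nat_lit 78) (nat_lit 0) (nat_lit 0) (XT.lf (nat_lit 0) (nat_lit 3439435788) (nat_lit 228) (nat_lit 13690528867) (nat_lit 76) (nat_lit 7926768304) (nat_lit 27) (nat_lit 5) (nat_lit 30) (nat_lit 5) (nat_lit 28) (nat_lit 4) (nat_lit 401) (nat_lit 282) (nat_lit 217)) (XT.lf (nat_lit 0) (nat_lit 8395504576) (nat_lit 228) (nat_lit 3732988106) (nat_lit 76) (nat_lit 13512436453) (nat_lit 27) (nat_lit 5) (nat_lit 30) (nat_lit 5) (nat_lit 28) (nat_lit 4) (nat_lit 402) (nat_lit 282) (nat_lit 216)))) (XT.nd (nat_lit 156) (nat_lit 152) (nat_lit 0)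 (XT.nd (nat_lit 78) (nat_lit 0) (nat_lit 0) (XT.lf (nat_lit 0) (nat_lit 6584177909) (nat_lit 76) (nat_lit 6943068919) (nat_lit 152) (nat_lit 12714599568) (nat_lit 26) (nat_lit 5) (nat_lit 27) (nat_lit 5) (nat_lit 28) (nat_lit 4) (nat_lit 403) (nat_lit 282) (nat_lit 215)) (XT.lf (nat_lit 0) (nat_lit 17220462076) (nat_lit 76) (nat_lit 1594289390) (nat_lit 152) (nat_lit 8045990200) (nat_lit 26) (nat_lit 5) (nat_lit 27) (nat_lit 5) (nat_lit 28) (nat_lit 4) (nat_lit 404) (nat_lit 282) (nat_lit 214))) (XT.nd (nat_lit 78) (nat_lit 76) (nat_lit 0) (XT.lf (nat_lit 0) (nat_lit 585696530) (nat_lit 76) (nat_lit 23683317565) (nat_lit 76) (nat_lit 3228950372) (nat_lit 25) (nat_lit 4) (nat_lit 26) (nat_lit 5) (nat_lit 26) (nat_lit 4) (nat_lit 405) (nat_lit 282) (nat_lit 213)) (XT.lf (nat_lit 0) (nat_lit 1777807264) (nat_lit 152) (nat_lit 16934507714) (nat_lit 76) (nat_lit 9439123242) (nat_lit 24) (nat_lit 5) (nat_lit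 26) (nat_lit 5) (nat_lit 25) (nat_lit 4) (nat_lit 406) (nat_lit 282) (nat_lit 212))))))))
noncomputable def xc62 : XT := (XT.nd (nat_lit 2028) (nat_lit 380) (nat_lit 0) (XT.nd (nat_lit 1014) (nat_lit 304) (nat_lit 0) (XT.nd (nat_lit 468) (nat_lit 228) (nat_lit 0) (XT.nd (nat_lit 234) (nat_lit 152) (nat_lit 0) (XT.nd (nat_lit 78) (nat_lit 76) (nat_lit 0) (XT.lf (nat_lit 0) (nat_lit 6835809787) (nat_lit 152) (nat_lit 6753257027) (nat_lit 76) (nat_lit 15235516313) (nat_lit 24) (nat_lit 5) (nat_lit 26) (nat_lit 5) (nat_lit 25) (nat_lit 4) (nat_lit 407) (nat_lit 282) (nat_lit 211)) (XT.nd (nat_lit 78) (nat_lit 0) (nat_lit 0) (XT.lf (nat_lit 0) (nat_lit 3744487445) (nat_lit 76) (nat_lit 8303992121) (nat_lit 152) (nat_lit 17469359137) (nat_lit 23) (nat_lit 5) (nat_lit 24) (nat_lit 5) (nat_lit 25) (nat_lit 4) (nat_lit 408) (nat_lit 282) (nat_lit 210)) (XT.lf (nat_lit 0) (nat_lit 14634195190) (nat_lit 76) (nat_lit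 2818834645) (nat_lit 152) (nat_lit 12777801117) (nat_lit 23) (nat_lit 5) (nat_lit 24) (nat_lit 5) (nat_lit 25) (nat_lit 4) (nat_lit 409) (nat_lit 282) (nat_lit 209)))) (XT.nd (nat_lit 78) (nat_lit 152) (nat_lit 0) (XT.lf (nat_lit 0) (nat_lit 23014918802) (nat_lit 152) (nat_lit 5202134888) (nat_lit 0) (nat_lit 2748307114) (nat_lit 23) (nat_lit 5) (nat_lit 25) (nat_lit 4) (nat_lit 23) (nat_lit 4) (nat_lit 410) (nat_lit 282) (nat_lit 208)) (XT.nd (nat_lit 78) (nat_lit 76) (nat_lit 0) (XT.lf (nat_lit 0) (nat_lit 5525567960) (nat_lit 76) (nat_lit 23268043260) (nat_lit 76) (nat_lit 2926820713) (nat_lit 22) (nat_lit 4) (nat_lit 23) (nat_lit 5) (nat_lit 23) (nat_lit 4) (nat_lit 411) (nat_lit 282) (nat_lit 207)) (XT.lf (nat_lit 0) (nat_lit 2225666117) (nat_lit 152) (nat_lit 15895558057) (nat_lit 76) (nat_lit 14375626042) (nat_lit 21) (nat_lit 5) (nat_lit 23) (nat_lit 5) (nat_lit 22) (nat_lit 4) (nat_lit 412) (nat_lit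 282) (nat_lit 206))))) (XT.nd (nat_lit 234) (nat_lit 152) (nat_lit 0) (XT.nd (nat_lit 78) (nat_lit 76) (nat_lit 0) (XT.lf (nat_lit 0) (nat_lit 7443767788) (nat_lit 152) (nat_lit 5373139556) (nat_lit 76) (nat_lit 20479691822) (nat_lit 21) (nat_lit 5) (nat_lit 23) (nat_lit 5) (nat_lit 22) (nat_lit 4) (nat_lit 413) (nat_lit 282) (nat_lit 205)) (XT.nd (nat_lit 78) (nat_lit 0) (nat_lit 0) (XT.lf (nat_lit 0) (nat_lit 5517384308) (nat_lit 76) (nat_lit 7324808785) (nat_lit 152) (nat_lit 21277437438) (nat_lit 20) (nat_lit 5) (nat_lit 21) (nat_lit 5) (nat_lit 22) (nat_lit 4) (nat_lit 414) (nat_lit 282) (nat_lit 204)) (XT.lf (nat_lit 0) (nat_lit 16790078231) (nat_lit 76) (nat_lit 1637821614) (nat_lit 152) (nat_lit 16538696399) (nat_lit 20) (nat_lit 5) (nat_lit 21) (nat_lit 5) (nat_lit 22) (nat_lit 4) (nat_lit 415) (nat_lit 282) (nat_lit 203)))) (XT.nd (nat_lit 156) (nat_lit 76) (nat_lit 0) (XT.nd (nat_lit 78) (nat_lit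 76) (nat_lit 0) (XT.lf (nat_lit 0) (nat_lit 24193413568) (nat_lit 152) (nat_lit 7532283227) (nat_lit 0) (nat_lit 4112910230) (nat_lit 20) (nat_lit 5) (nat_lit 22) (nat_lit 4) (nat_lit 20) (nat_lit 4) (nat_lit 416) (nat_lit 282) (nat_lit 202)) (XT.lf (nat_lit 0) (nat_lit 3429853268) (nat_lit 76) (nat_lit 26723723113) (nat_lit 76) (nat_lit 6582554318) (nat_lit 19) (nat_lit 4) (nat_lit 20) (nat_lit 5) (nat_lit 20) (nat_lit 4) (nat_lit 417) (nat_lit 282) (nat_lit 201))) (XT.nd (nat_lit 78) (nat_lit 76) (nat_lit 0) (XT.lf (nat_lit 0) (nat_lit 14823631370) (nat_lit 76) (nat_lit 21517776542) (nat_lit 76) (nat_lit 1317709245) (nat_lit 19) (nat_lit 4) (nat_lit 20) (nat_lit 5) (nat_lit 20) (nat_lit 4) (nat_lit 418) (nat_lit 282) (nat_lit 200)) (XT.lf (nat_lit 0) (nat_lit 3998306675) (nat_lit 152) (nat_lit 12140687756) (nat_lit 76) (nat_lit 22470417865) (nat_lit 18) (nat_lit 5) (nat_lit 20) (nat_lit 5) (nat_lit 19)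 (nat_lit 4) (nat_lit 419) (nat_lit 282) (nat_lit 199)))))) (XT.nd (nat_lit 468) (nat_lit 152) (nat_lit 0) (XT.nd (nat_lit 234) (nat_lit 76) (nat_lit 0) (XT.nd (nat_lit 78) (nat_lit 76) (nat_lit 0) (XT.lf (nat_lit 0) (nat_lit 9421425623) (nat_lit 152) (nat_lit 1187273778) (nat_lit 76) (nat_lit 28979905010) (nat_lit 18) (nat_lit 5) (nat_lit 20) (nat_lit 5) (nat_lit 19) (nat_lit 4) (nat_lit 420) (nat_lit 282) (nat_lit 198)) (XT.nd (nat_lit 78) (nat_lit 0) (nat_lit 0) (XT.lf (nat_lit 0) (nat_lit 10246948592) (nat_lit 76) (nat_lit 4833650845) (nat_lit 152) (nat_lit 25514374669) (nat_lit 17) (nat_lit 5) (nat_lit 18) (nat_lit 5) (nat_lit 19) (nat_lit 4) (nat_lit 421) (nat_lit 282) (nat_lit 197)) (XT.lf (nat_lit 0) (nat_lit 20907294546) (nat_lit 152) (nat_lit 19641286699) (nat_lit 0) (nat_lit 1083023844) (nat_lit 17) (nat_lit 5) (nat_lit 19) (nat_lit 4) (nat_lit 17) (nat_lit 4) (nat_lit 422) (nat_lit 282) (nat_lit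 196)))) (XT.nd (nat_lit 78) (nat_lit 76) (nat_lit 0) (XT.lf (nat_lit 0) (nat_lit 26932302366) (nat_lit 152) (nat_lit 8707624685) (nat_lit 0) (nat_lit 7058705096) (nat_lit 17) (nat_lit 5) (nat_lit 19) (nat_lit 4) (nat_lit 17) (nat_lit 4) (nat_lit 423) (nat_lit 282) (nat_lit 195)) (XT.nd (nat_lit 78) (nat_lit 0) (nat_lit 0) (XT.lf (nat_lit 0) (nat_lit 2558911807) (nat_lit 76) (nat_lit 30580109479) (nat_lit 76) (nat_lit 10658622337) (nat_lit 16) (nat_lit 4) (nat_lit 17) (nat_lit 5) (nat_lit 17) (nat_lit 4) (nat_lit 424) (nat_lit 282) (nat_lit 194)) (XT.lf (nat_lit 0) (nat_lit 14297315047) (nat_lit 76) (nat_lit 25299179172) (nat_lit 76) (nat_lit 5331197009) (nat_lit 16) (nat_lit 4) (nat_lit 17) (nat_lit 5) (nat_lit 17) (nat_lit 4) (nat_lit 425) (nat_lit 282) (nat_lit 193))))) (XT.nd (nat_lit 234) (nat_lit 0) (nat_lit 0) (XT.nd (nat_lit 78) (nat_lit 76) (nat_lit 0) (XT.lf (nat_lit 0) (nat_lit 130082403) (nat_lit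 152) (nat_lit 19749055681) (nat_lit 76) (nat_lit 26213147108) (nat_lit 15) (nat_lit 5) (nat_lit 17) (nat_lit 5) (nat_lit 16) (nat_lit 4) (nat_lit 426) (nat_lit 282) (nat_lit 192)) (XT.nd (nat_lit 78) (nat_lit 76) (nat_lit 0) (XT.lf (nat_lit 0) (nat_lit 5625792537) (nat_lit 152) (nat_lit 8636590125) (nat_lit 76) (nat_lit 33028520624) (nat_lit 15) (nat_lit 5) (nat_lit 17) (nat_lit 5) (nat_lit 16) (nat_lit 4) (nat_lit 427) (nat_lit 282) (nat_lit 191)) (XT.lf (nat_lit 0) (nat_lit 2823065305) (nat_lit 76) (nat_lit 8468838050) (nat_lit 152) (nat_lit 37233412782) (nat_lit 14) (nat_lit 5) (nat_lit 15) (nat_lit 5) (nat_lit 16) (nat_lit 4) (nat_lit 428) (nat_lit 282) (nat_lit 190)))) (XT.nd (nat_lit 156) (nat_lit 0) (nat_lit 0) (XT.nd (nat_lit 78) (nat_lit 0) (nat_lit 0) (XT.lf (nat_lit 0) (nat_lit 14762684396) (nat_lit 76) (nat_lit 2431154583) (nat_lit 152) (nat_lit 32600949187) (nat_lit 14) (nat_lit 5) (nat_lit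 15) (nat_lit 5) (nat_lit 16) (nat_lit 4) (nat_lit 429) (nat_lit 282) (nat_lit 189)) (XT.lf (nat_lit 0) (nat_lit 23288311331) (nat_lit 152) (nat_lit 24118381393) (nat_lit 0) (nat_lit 3695189248) (nat_lit 14) (nat_lit 5) (nat_lit 16) (nat_lit 4) (nat_lit 14) (nat_lit 4) (nat_lit 430) (nat_lit 282) (nat_lit 188))) (XT.nd (nat_lit 78) (nat_lit 0) (nat_lit 0) (XT.lf (nat_lit 0) (nat_lit 29569367682) (nat_lit 152) (nat_lit 12940269441) (nat_lit 0) (nat_lit 9938440892) (nat_lit 14) (nat_lit 5) (nat_lit 16) (nat_lit 4) (nat_lit 14) (nat_lit 4) (nat_lit 431) (nat_lit 282) (nat_lit 187)) (XT.lf (nat_lit 0) (nat_lit 36019126589) (nat_lit 152) (nat_lit 1464630887) (nat_lit 0) (nat_lit 16351496200) (nat_lit 14) (nat_lit 5) (nat_lit 16) (nat_lit 4) (nat_lit 14) (nat_lit 4) (nat_lit 432) (nat_lit 282) (nat_lit 186))))))) (XT.nd (nat_lit 1014) (nat_lit 76) (nat_lit 0) (XT.nd (nat_lit 468) (nat_lit 76) (nat_lit 0) (XT.nd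 (nat_lit 234) (nat_lit 152) (nat_lit 0) (XT.nd (nat_lit 78) (nat_lit 0) (nat_lit 0) (XT.lf (nat_lit 0) (nat_lit 10523921131) (nat_lit 76) (nat_lit 32220465000) (nat_lit 76) (nat_lit 12517200049) (nat_lit 13) (nat_lit 4) (nat_lit 14) (nat_lit 5) (nat_lit 14) (nat_lit 4) (nat_lit 433) (nat_lit 282) (nat_lit 185)) (XT.nd (nat_lit 78) (nat_lit 0) (nat_lit 0) (XT.lf (nat_lit 0) (nat_lit 22865797864) (nat_lit 76) (nat_lit 26801449425) (nat_lit 76) (nat_lit 7063587811) (nat_lit 13) (nat_lit 4) (nat_lit 14) (nat_lit 5) (nat_lit 14) (nat_lit 4) (nat_lit 434) (nat_lit 282) (nat_lit 184)) (XT.lf (nat_lit 0) (nat_lit 35542634448) (nat_lit 76) (nat_lit 21236765589) (nat_lit 76) (nat_lit 1465314983) (nat_lit 13) (nat_lit 4) (nat_lit 14) (nat_lit 5) (nat_lit 14) (nat_lit 4) (nat_lit 435) (nat_lit 282) (nat_lit 183)))) (XT.nd (nat_lit 78) (nat_lit 76) (nat_lit 0) (XT.lf (nat_lit 0) (nat_lit 4198942933) (nat_lit 152) (nat_lit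 11280207122) (nat_lit 76) (nat_lit 44324163707) (nat_lit 12) (nat_lit 5) (nat_lit 14) (nat_lit 5) (nat_lit 13) (nat_lit 4) (nat_lit 436) (nat_lit 282) (nat_lit 182)) (XT.nd (nat_lit 78) (nat_lit 0) (nat_lit 0) (XT.lf (nat_lit 0) (nat_lit 444875214) (nat_lit 76) (nat_lit 9545566825) (nat_lit 152) (nat_lit 51418191803) (nat_lit 11) (nat_lit 5) (nat_lit 12) (nat_lit 5) (nat_lit 13) (nat_lit 4) (nat_lit 437) (nat_lit 282) (nat_lit 181)) (XT.lf (nat_lit 0) (nat_lit 12719652454) (nat_lit 76) (nat_lit 3332620090) (nat_lit 152) (nat_lit 47006944900) (nat_lit 11) (nat_lit 5) (nat_lit 12) (nat_lit 5) (nat_lit 13) (nat_lit 4) (nat_lit 438) (nat_lit 282) (nat_lit 180))))) (XT.nd (nat_lit 234) (nat_lit 76) (nat_lit 0) (XT.nd (nat_lit 78) (nat_lit 0) (nat_lit 0) (XT.lf (nat_lit 0) (nat_lit 22308471037) (nat_lit 152) (nat_lit 39458802751) (nat_lit 0) (nat_lit 2991670846) (nat_lit 11) (nat_lit 5) (nat_lit 13) (nat_lit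 4) (nat_lit 11) (nat_lit 4) (nat_lit 439) (nat_lit 282) (nat_lit 179)) (XT.nd (nat_lit 78) (nat_lit 0) (nat_lit 0) (XT.lf (nat_lit 0) (nat_lit 28768879810) (nat_lit 152) (nat_lit 28316340160) (nat_lit 0) (nat_lit 9423949366) (nat_lit 11) (nat_lit 5) (nat_lit 13) (nat_lit 4) (nat_lit 11) (nat_lit 4) (nat_lit 440) (nat_lit 282) (nat_lit 178)) (XT.lf (nat_lit 0) (nat_lit 35407108697) (nat_lit 152) (nat_lit 16870405904) (nat_lit 0) (nat_lit 16034867329) (nat_lit 11) (nat_lit 5) (nat_lit 13) (nat_lit 4) (nat_lit 11) (nat_lit 4) (nat_lit 441) (nat_lit 282) (nat_lit 177)))) (XT.nd (nat_lit 156) (nat_lit 0) (nat_lit 0) (XT.nd (nat_lit 78) (nat_lit 76) (nat_lit 0) (XT.lf (nat_lit 0) (nat_lit 42228958094) (nat_lit 152) (nat_lit 5110998680) (nat_lit 0) (nat_lit 22830201265) (nat_lit 11) (nat_lit 5) (nat_lit 13) (nat_lit 4) (nat_lit 11) (nat_lit 4) (nat_lit 442) (nat_lit 282) (nat_lit 176)) (XT.lf (nat_lit 0) (nat_lit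 7110916311) (nat_lit 76) (nat_lit 42197827006) (nat_lit 76) (nat_lit 22773327011) (nat_lit 10) (nat_lit 4) (nat_lit 11) (nat_lit 5) (nat_lit 11) (nat_lit 4) (nat_lit 443) (nat_lit 282) (nat_lit 175))) (XT.nd (nat_lit 78) (nat_lit 0) (nat_lit 0) (XT.lf (nat_lit 0) (nat_lit 19775509823) (nat_lit 76) (nat_lit 36862111900) (nat_lit 76) (nat_lit 17412618540) (nat_lit 10) (nat_lit 4) (nat_lit 11) (nat_lit 5) (nat_lit 11) (nat_lit 4) (nat_lit 444) (nat_lit 282) (nat_lit 174)) (XT.lf (nat_lit 0) (nat_lit 32792129110) (nat_lit 76) (nat_lit 31379760247) (nat_lit 76) (nat_lit 11906001485) (nat_lit 10) (nat_lit 4) (nat_lit 11) (nat_lit 5) (nat_lit 11) (nat_lit 4) (nat_lit 445) (nat_lit 282) (nat_lit 173)))))) (XT.nd (nat_lit 38454) (nat_lit 0) (nat_lit 9424) (XT.nd (nat_lit 38142) (nat_lit 0) (nat_lit 12160) (XT.nd (nat_lit 78) (nat_lit 76) (nat_lit 0) (XT.lf (nat_lit 0) (nat_lit 46172147917) (nat_lit 76) (nat_lit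 25745981644) (nat_lit 76) (nat_lit 6248664237) (nat_lit 10) (nat_lit 4) (nat_lit 11) (nat_lit 5) (nat_lit 11) (nat_lit 4) (nat_lit 446) (nat_lit 282) (nat_lit 172)) (XT.nd (nat_lit 78) (nat_lit 76) (nat_lit 0) (XT.lf (nat_lit 0) (nat_lit 59927257523) (nat_lit 76) (nat_lit 19955853370) (nat_lit 76) (nat_lit 435663494) (nat_lit 10) (nat_lit 4) (nat_lit 11) (nat_lit 5) (nat_lit 11) (nat_lit 4) (nat_lit 447) (nat_lit 282) (nat_lit 171)) (XT.lf (nat_lit 0) (nat_lit 5430012177) (nat_lit 152) (nat_lit 8519471437) (nat_lit 76) (nat_lit 68584632302) (nat_lit 9) (nat_lit 5) (nat_lit 11) (nat_lit 5) (nat_lit 10) (nat_lit 4) (nat_lit 448) (nat_lit 282) (nat_lit 170)))) (XT.nd (nat_lit 156) (nat_lit 532) (nat_lit 0) (XT.nd (nat_lit 78) (nat_lit 532) (nat_lit 0) (XT.lf (nat_lit 0) (nat_lit 2530170917) (nat_lit 532) (nat_lit 669488706) (nat_lit 532) (nat_lit 669488706) (nat_lit 183) (nat_lit 4) (nat_lit 190) (nat_lit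 5) (nat_lit 190) (nat_lit 4) (nat_lit 334) (nat_lit 283) (nat_lit 283)) (XT.lf (nat_lit 0) (nat_lit 2263880172) (nat_lit 532) (nat_lit 4602943803) (nat_lit 0) (nat_lit 951641473) (nat_lit 176) (nat_lit 5) (nat_lit 183) (nat_lit 4) (nat_lit 176) (nat_lit 4) (nat_lit 335) (nat_lit 283) (nat_lit 282))) (XT.nd (nat_lit 78) (nat_lit 76) (nat_lit 0) (XT.lf (nat_lit 0) (nat_lit 1320532732) (nat_lit 456) (nat_lit 4583867842) (nat_lit 456) (nat_lit 1997610990) (nat_lit 170) (nat_lit 4) (nat_lit 176) (nat_lit 5) (nat_lit 176) (nat_lit 4) (nat_lit 336) (nat_lit 283) (nat_lit 281)) (XT.lf (nat_lit 0) (nat_lit 1584414415) (nat_lit 532) (nat_lit 606806418) (nat_lit 76) (nat_lit 5797898126) (nat_lit 169) (nat_lit 5) (nat_lit 176) (nat_lit 5) (nat_lit 170) (nat_lit 4) (nat_lit 337) (nat_lit 283) (nat_lit 280))))) (XT.nd (nat_lit 234) (nat_lit 1368) (nat_lit 0) (XT.nd (nat_lit 78) (nat_lit 912) (nat_lit 0) (XT.lf (nat_lit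 0) (nat_lit 5196637800) (nat_lit 532) (nat_lit 2563863551) (nat_lit 0) (nat_lit 318917429) (nat_lit 163) (nat_lit 5) (nat_lit 170) (nat_lit 4) (nat_lit 163) (nat_lit 4) (nat_lit 338) (nat_lit 283) (nat_lit 279)) (XT.nd (nat_lit 78) (nat_lit 380) (nat_lit 0) (XT.lf (nat_lit 0) (nat_lit 700430774) (nat_lit 532) (nat_lit 4587794527) (nat_lit 76) (nat_lit 2884938357) (nat_lit 156) (nat_lit 5) (nat_lit 163) (nat_lit 5) (nat_lit 157) (nat_lit 4) (nat_lit 339) (nat_lit 283) (nat_lit 278)) (XT.lf (nat_lit 0) (nat_lit 1586446174) (nat_lit 380) (nat_lit 2696851572) (nat_lit 456) (nat_lit 3987118017) (nat_lit 151) (nat_lit 5) (nat_lit 156) (nat_lit 5) (nat_lit 157) (nat_lit 4) (nat_lit 340) (nat_lit 283) (nat_lit 277)))) (XT.nd (nat_lit 156) (nat_lit 836) (nat_lit 0) (XT.nd (nat_lit 78) (nat_lit 532) (nat_lit 0) (XT.lf (nat_lit 0) (nat_lit 7922716524) (nat_lit 380) (nat_lit 7497722) (nat_lit 456) (nat_lit 441726849)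 (nat_lit 151) (nat_lit 5) (nat_lit 156) (nat_lit 5) (nat_lit 157) (nat_lit 4) (nat_lit 341) (nat_lit 283) (nat_lit 276)) (XT.lf (nat_lit 0) (nat_lit 3143603881) (nat_lit 532) (nat_lit 2561699406) (nat_lit 76) (nat_lit 2770446243) (nat_lit 144) (nat_lit 5) (nat_lit 151) (nat_lit 5) (nat_lit 145) (nat_lit 4) (nat_lit 342) (nat_lit 283) (nat_lit 275))) (XT.nd (nat_lit 78) (nat_lit 456) (nat_lit 0) (XT.lf (nat_lit 0) (nat_lit 3848629079) (nat_lit 380) (nat_lit 2933771509) (nat_lit 456) (nat_lit 1801545004) (nat_lit 139) (nat_lit 5) (nat_lit 144) (nat_lit 5) (nat_lit 145) (nat_lit 4) (nat_lit 343) (nat_lit 283) (nat_lit 274)) (XT.lf (nat_lit 0) (nat_lit 1707092445) (nat_lit 380) (nat_lit 48267472) (nat_lit 456) (nat_lit 6940858006) (nat_lit 133) (nat_lit 5) (nat_lit 138) (nat_lit 5) (nat_lit 139) (nat_lit 5) (nat_lit 344) (nat_lit 283) (nat_lit 273))))))))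
noncomputable def xc63 : XT := (XT.nd (nat_lit 2106) (nat_lit 2432) (nat_lit 0) (XT.nd (nat_lit 1014) (nat_lit 2280) (nat_lit 0) (XT.nd (nat_lit 468) (nat_lit 1596) (nat_lit 0) (XT.nd (nat_lit 234) (nat_lit 684) (nat_lit 0) (XT.nd (nat_lit 78) (nat_lit 760) (nat_lit 0) (XT.lf (nat_lit 0) (nat_lit 5373912908) (nat_lit 456) (nat_lit 535627760) (nat_lit 76) (nat_lit 2902092165) (nat_lit 133) (nat_lit 5) (nat_lit 139) (nat_lit 5) (nat_lit 134) (nat_lit 4) (nat_lit 345) (nat_lit 283) (nat_lit 272)) (XT.nd (nat_lit 78) (nat_lit 380) (nat_lit 0) (XT.lf (nat_lit 0) (nat_lit 143407694) (nat_lit 380) (nat_lit 2817514100) (nat_lit 76) (nat_lit 5970294044) (nat_lit 128) (nat_lit 5) (nat_lit 133) (nat_lit 5) (nat_lit 129) (nat_lit 5) (nat_lit 346) (nat_lit 283) (nat_lit 271)) (XT.lf (nat_lit 0) (nat_lit 3724163863) (nat_lit 456) (nat_lit 5211298251) (nat_lit 76) (nat_lit 119104721) (nat_lit 123) (nat_lit 5) (nat_lit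 129) (nat_lit 5) (nat_lit 124) (nat_lit 4) (nat_lit 347) (nat_lit 283) (nat_lit 270)))) (XT.nd (nat_lit 78) (nat_lit 380) (nat_lit 0) (XT.lf (nat_lit 0) (nat_lit 1463082072) (nat_lit 304) (nat_lit 5940050420) (nat_lit 380) (nat_lit 1778801296) (nat_lit 119) (nat_lit 5) (nat_lit 123) (nat_lit 5) (nat_lit 124) (nat_lit 4) (nat_lit 348) (nat_lit 283) (nat_lit 269)) (XT.nd (nat_lit 78) (nat_lit 304) (nat_lit 0) (XT.lf (nat_lit 0) (nat_lit 1814924644) (nat_lit 380) (nat_lit 1002847961) (nat_lit 76) (nat_lit 6495676580) (nat_lit 118) (nat_lit 5) (nat_lit 123) (nat_lit 5) (nat_lit 119) (nat_lit 5) (nat_lit 349) (nat_lit 283) (nat_lit 268)) (XT.lf (nat_lit 0) (nat_lit 5463092648) (nat_lit 380) (nat_lit 3554999803) (nat_lit 76) (nat_lit 430853562) (nat_lit 114) (nat_lit 5) (nat_lit 119) (nat_lit 5) (nat_lit 115) (nat_lit 4) (nat_lit 350) (nat_lit 283) (nat_lit 267))))) (XT.nd (nat_lit 234) (nat_lit 912) (nat_lit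 0) (XT.nd (nat_lit 78) (nat_lit 380) (nat_lit 0) (XT.lf (nat_lit 0) (nat_lit 3352698973) (nat_lit 304) (nat_lit 5860685172) (nat_lit 380) (nat_lit 375378004) (nat_lit 110) (nat_lit 5) (nat_lit 114) (nat_lit 5) (nat_lit 115) (nat_lit 4) (nat_lit 351) (nat_lit 283) (nat_lit 266)) (XT.nd (nat_lit 78) (nat_lit 0) (nat_lit 0) (XT.lf (nat_lit 0) (nat_lit 674301328) (nat_lit 304) (nat_lit 2569308357) (nat_lit 380) (nat_lit 6489268476) (nat_lit 105) (nat_lit 5) (nat_lit 109) (nat_lit 5) (nat_lit 110) (nat_lit 5) (nat_lit 352) (nat_lit 283) (nat_lit 265)) (XT.lf (nat_lit 0) (nat_lit 6958603008) (nat_lit 380) (nat_lit 2087840649) (nat_lit 76) (nat_lit 834944881) (nat_lit 105) (nat_lit 5) (nat_lit 110) (nat_lit 5) (nat_lit 106) (nat_lit 4) (nat_lit 353) (nat_lit 283) (nat_lit 264)))) (XT.nd (nat_lit 156) (nat_lit 304) (nat_lit 0) (XT.nd (nat_lit 78) (nat_lit 304) (nat_lit 0) (XT.lf (nat_lit 0) (nat_lit 735740643)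 (nat_lit 304) (nat_lit 4989047268) (nat_lit 76) (nat_lit 4309388890) (nat_lit 101) (nat_lit 5) (nat_lit 105) (nat_lit 5) (nat_lit 102) (nat_lit 5) (nat_lit 354) (nat_lit 283) (nat_lit 263)) (XT.lf (nat_lit 0) (nat_lit 2143644231) (nat_lit 304) (nat_lit 2269592040) (nat_lit 380) (nat_lit 5778434632) (nat_lit 97) (nat_lit 5) (nat_lit 101) (nat_lit 5) (nat_lit 102) (nat_lit 5) (nat_lit 355) (nat_lit 283) (nat_lit 262))) (XT.nd (nat_lit 78) (nat_lit 304) (nat_lit 0) (XT.lf (nat_lit 0) (nat_lit 8191091837) (nat_lit 380) (nat_lit 886424281) (nat_lit 76) (nat_lit 1276700917) (nat_lit 97) (nat_lit 5) (nat_lit 102) (nat_lit 5) (nat_lit 98) (nat_lit 4) (nat_lit 356) (nat_lit 283) (nat_lit 261)) (XT.lf (nat_lit 0) (nat_lit 1543991005) (nat_lit 304) (nat_lit 4052747206) (nat_lit 76) (nat_lit 4924063885) (nat_lit 93) (nat_lit 5) (nat_lit 97) (nat_lit 5) (nat_lit 94) (nat_lit 5) (nat_lit 357) (nat_lit 283) (nat_lit 260))))))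 (XT.nd (nat_lit 546) (nat_lit 912) (nat_lit 0) (XT.nd (nat_lit 234) (nat_lit 760) (nat_lit 0) (XT.nd (nat_lit 78) (nat_lit 304) (nat_lit 0) (XT.lf (nat_lit 0) (nat_lit 3301358326) (nat_lit 304) (nat_lit 1987456622) (nat_lit 380) (nat_lit 5403853983) (nat_lit 89) (nat_lit 5) (nat_lit 93) (nat_lit 5) (nat_lit 94) (nat_lit 5) (nat_lit 358) (nat_lit 283) (nat_lit 259)) (XT.nd (nat_lit 78) (nat_lit 304) (nat_lit 0) (XT.lf (nat_lit 0) (nat_lit 9133765154) (nat_lit 380) (nat_lit 37765485) (nat_lit 76) (nat_lit 1698552792) (nat_lit 89) (nat_lit 5) (nat_lit 94) (nat_lit 5) (nat_lit 90) (nat_lit 4) (nat_lit 359) (nat_lit 283) (nat_lit 258)) (XT.lf (nat_lit 0) (nat_lit 2025802110) (nat_lit 304) (nat_lit 3516012235) (nat_lit 76) (nat_lit 5509709321) (nat_lit 85) (nat_lit 5) (nat_lit 89) (nat_lit 5) (nat_lit 86) (nat_lit 5) (nat_lit 360) (nat_lit 283) (nat_lit 257)))) (XT.nd (nat_lit 156) (nat_lit 304) (nat_lit 0) (XT.nd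 (nat_lit 78) (nat_lit 228) (nat_lit 0) (XT.lf (nat_lit 0) (nat_lit 4051736715) (nat_lit 228) (nat_lit 1785615238) (nat_lit 304) (nat_lit 5401418469) (nat_lit 82) (nat_lit 5) (nat_lit 85) (nat_lit 5) (nat_lit 86) (nat_lit 5) (nat_lit 361) (nat_lit 283) (nat_lit 256)) (XT.lf (nat_lit 0) (nat_lit 365708272) (nat_lit 228) (nat_lit 9389623321) (nat_lit 304) (nat_lit 1676562797) (nat_lit 79) (nat_lit 5) (nat_lit 82) (nat_lit 5) (nat_lit 83) (nat_lit 4) (nat_lit 362) (nat_lit 283) (nat_lit 255))) (XT.nd (nat_lit 78) (nat_lit 228) (nat_lit 0) (XT.lf (nat_lit 0) (nat_lit 2141790961) (nat_lit 304) (nat_lit 3484797526) (nat_lit 76) (nat_lit 6002904635) (nat_lit 78) (nat_lit 5) (nat_lit 82) (nat_lit 5) (nat_lit 79) (nat_lit 5) (nat_lit 363) (nat_lit 283) (nat_lit 254)) (XT.lf (nat_lit 0) (nat_lit 4284870803) (nat_lit 228) (nat_lit 1732199261) (nat_lit 304) (nat_lit 5816190019) (nat_lit 75) (nat_lit 5) (nat_lit 78)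 (nat_lit 5) (nat_lit 79) (nat_lit 5) (nat_lit 364) (nat_lit 283) (nat_lit 253))))) (XT.nd (nat_lit 234) (nat_lit 456) (nat_lit 0) (XT.nd (nat_lit 78) (nat_lit 304) (nat_lit 0) (XT.lf (nat_lit 0) (nat_lit 191778102) (nat_lit 152) (nat_lit 9811494291) (nat_lit 228) (nat_lit 2040047534) (nat_lit 73) (nat_lit 5) (nat_lit 75) (nat_lit 5) (nat_lit 76) (nat_lit 4) (nat_lit 365) (nat_lit 283) (nat_lit 252)) (XT.nd (nat_lit 78) (nat_lit 228) (nat_lit 0) (XT.lf (nat_lit 0) (nat_lit 1843012892) (nat_lit 228) (nat_lit 4081135029) (nat_lit 76) (nat_lit 6334127356) (nat_lit 72) (nat_lit 5) (nat_lit 75) (nat_lit 5) (nat_lit 73) (nat_lit 5) (nat_lit 366) (nat_lit 283) (nat_lit 251)) (XT.lf (nat_lit 0) (nat_lit 3873952358) (nat_lit 228) (nat_lit 1902317189) (nat_lit 304) (nat_lit 6703580706) (nat_lit 69) (nat_lit 5) (nat_lit 72) (nat_lit 5) (nat_lit 73) (nat_lit 5) (nat_lit 367) (nat_lit 283) (nat_lit 250)))) (XT.nd (nat_lit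 156) (nat_lit 228) (nat_lit 0) (XT.nd (nat_lit 78) (nat_lit 228) (nat_lit 0) (XT.lf (nat_lit 0) (nat_lit 9828583661) (nat_lit 304) (nat_lit 681709741) (nat_lit 76) (nat_lit 2197764892) (nat_lit 69) (nat_lit 5) (nat_lit 73) (nat_lit 5) (nat_lit 70) (nat_lit 4) (nat_lit 368) (nat_lit 283) (nat_lit 249)) (XT.lf (nat_lit 0) (nat_lit 1069677909) (nat_lit 228) (nat_lit 5446091321) (nat_lit 76) (nat_lit 6426124598) (nat_lit 66) (nat_lit 5) (nat_lit 69) (nat_lit 5) (nat_lit 67) (nat_lit 5) (nat_lit 369) (nat_lit 283) (nat_lit 248))) (XT.nd (nat_lit 78) (nat_lit 0) (nat_lit 0) (XT.lf (nat_lit 0) (nat_lit 2672177045) (nat_lit 228) (nat_lit 2379793893) (nat_lit 304) (nat_lit 8130758102) (nat_lit 63) (nat_lit 5) (nat_lit 66) (nat_lit 5) (nat_lit 67) (nat_lit 5) (nat_lit 370) (nat_lit 283) (nat_lit 247)) (XT.lf (nat_lit 0) (nat_lit 9167637151) (nat_lit 304) (nat_lit 2403995392) (nat_lit 76) (nat_lit 1858755281) (nat_lit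 63) (nat_lit 5) (nat_lit 67) (nat_lit 5) (nat_lit 64) (nat_lit 4) (nat_lit 371) (nat_lit 283) (nat_lit 246))))))) (XT.nd (nat_lit 1014) (nat_lit 912) (nat_lit 0) (XT.nd (nat_lit 468) (nat_lit 760) (nat_lit 0) (XT.nd (nat_lit 234) (nat_lit 380) (nat_lit 0) (XT.nd (nat_lit 78) (nat_lit 228) (nat_lit 0) (XT.lf (nat_lit 0) (nat_lit 5939187419) (nat_lit 152) (nat_lit 7490269277) (nat_lit 228) (nat_lit 255354365) (nat_lit 61) (nat_lit 5) (nat_lit 63) (nat_lit 5) (nat_lit 64) (nat_lit 4) (nat_lit 372) (nat_lit 283) (nat_lit 245)) (XT.nd (nat_lit 78) (nat_lit 0) (nat_lit 0) (XT.lf (nat_lit 0) (nat_lit 509181371) (nat_lit 152) (nat_lit 3259127157) (nat_lit 228) (nat_lit 10178307914) (nat_lit 58) (nat_lit 5) (nat_lit 60) (nat_lit 5) (nat_lit 61) (nat_lit 5) (nat_lit 373) (nat_lit 283) (nat_lit 244)) (XT.lf (nat_lit 0) (nat_lit 7939644329) (nat_lit 228) (nat_lit 5156845480) (nat_lit 76) (nat_lit 1118761368) (nat_lit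 58) (nat_lit 5) (nat_lit 61) (nat_lit 5) (nat_lit 59) (nat_lit 4) (nat_lit 374) (nat_lit 283) (nat_lit 243)))) (XT.nd (nat_lit 78) (nat_lit 228) (nat_lit 0) (XT.lf (nat_lit 0) (nat_lit 3307880967) (nat_lit 152) (nat_lit 8936520337) (nat_lit 228) (nat_lit 2247308715) (nat_lit 56) (nat_lit 5) (nat_lit 58) (nat_lit 5) (nat_lit 59) (nat_lit 4) (nat_lit 375) (nat_lit 283) (nat_lit 242)) (XT.nd (nat_lit 78) (nat_lit 152) (nat_lit 0) (XT.lf (nat_lit 0) (nat_lit 1861678909) (nat_lit 228) (nat_lit 2758172395) (nat_lit 76) (nat_lit 10156167027) (nat_lit 55) (nat_lit 5) (nat_lit 58) (nat_lit 5) (nat_lit 56) (nat_lit 5) (nat_lit 376) (nat_lit 283) (nat_lit 241)) (XT.lf (nat_lit 0) (nat_lit 5919599330) (nat_lit 152) (nat_lit 132054119) (nat_lit 228) (nat_lit 9016460697) (nat_lit 53) (nat_lit 5) (nat_lit 55) (nat_lit 5) (nat_lit 56) (nat_lit 5) (nat_lit 377) (nat_lit 283) (nat_lit 240))))) (XT.nd (nat_lit 234) (nat_lit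 380) (nat_lit 0) (XT.nd (nat_lit 78) (nat_lit 380) (nat_lit 0) (XT.lf (nat_lit 0) (nat_lit 10384900681) (nat_lit 228) (nat_lit 591560145) (nat_lit 76) (nat_lit 4391996799) (nat_lit 53) (nat_lit 5) (nat_lit 56) (nat_lit 5) (nat_lit 54) (nat_lit 4) (nat_lit 378) (nat_lit 283) (nat_lit 239)) (XT.nd (nat_lit 78) (nat_lit 228) (nat_lit 0) (XT.lf (nat_lit 0) (nat_lit 8291102550) (nat_lit 152) (nat_lit 6585895324) (nat_lit 228) (nat_lit 799959602) (nat_lit 51) (nat_lit 5) (nat_lit 53) (nat_lit 5) (nat_lit 54) (nat_lit 4) (nat_lit 379) (nat_lit 283) (nat_lit 238)) (XT.lf (nat_lit 0) (nat_lit 1358932946) (nat_lit 152) (nat_lit 2048805455) (nat_lit 228) (nat_lit 12586960869) (nat_lit 48) (nat_lit 5) (nat_lit 50) (nat_lit 5) (nat_lit 51) (nat_lit 5) (nat_lit 380) (nat_lit 283) (nat_lit 237)))) (XT.nd (nat_lit 156) (nat_lit 228) (nat_lit 0) (XT.nd (nat_lit 78) (nat_lit 152) (nat_lit 0) (XT.lf (nat_lit 0) (nat_lit 7774375431)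 (nat_lit 228) (nat_lit 5928062246) (nat_lit 76) (nat_lit 2617845088) (nat_lit 48) (nat_lit 5) (nat_lit 51) (nat_lit 5) (nat_lit 49) (nat_lit 4) (nat_lit 381) (nat_lit 283) (nat_lit 236)) (XT.lf (nat_lit 0) (nat_lit 2989696921) (nat_lit 152) (nat_lit 9281084355) (nat_lit 228) (nat_lit 4384899744) (nat_lit 46) (nat_lit 5) (nat_lit 48) (nat_lit 5) (nat_lit 49) (nat_lit 4) (nat_lit 382) (nat_lit 283) (nat_lit 235))) (XT.nd (nat_lit 78) (nat_lit 228) (nat_lit 0) (XT.lf (nat_lit 0) (nat_lit 12208152552) (nat_lit 152) (nat_lit 4704148642) (nat_lit 228) (nat_lit 88543414) (nat_lit 46) (nat_lit 5) (nat_lit 48) (nat_lit 5) (nat_lit 49) (nat_lit 4) (nat_lit 383) (nat_lit 283) (nat_lit 234)) (XT.lf (nat_lit 0) (nat_lit 4245307674) (nat_lit 228) (nat_lit 13053590358) (nat_lit 76) (nat_lit 56427063) (nat_lit 43) (nat_lit 5) (nat_lit 46) (nat_lit 5) (nat_lit 44) (nat_lit 4) (nat_lit 384) (nat_lit 283) (nat_lit 233))))))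 (XT.nd (nat_lit 546) (nat_lit 532) (nat_lit 0) (XT.nd (nat_lit 234) (nat_lit 304) (nat_lit 0) (XT.nd (nat_lit 78) (nat_lit 76) (nat_lit 0) (XT.lf (nat_lit 0) (nat_lit 8754394051) (nat_lit 228) (nat_lit 4086678156) (nat_lit 76) (nat_lit 4877940698) (nat_lit 43) (nat_lit 5) (nat_lit 46) (nat_lit 5) (nat_lit 44) (nat_lit 4) (nat_lit 385) (nat_lit 283) (nat_lit 232)) (XT.nd (nat_lit 78) (nat_lit 0) (nat_lit 0) (XT.lf (nat_lit 0) (nat_lit 5165576020) (nat_lit 76) (nat_lit 8235790601) (nat_lit 152) (nat_lit 4692175246) (nat_lit 42) (nat_lit 5) (nat_lit 43) (nat_lit 5) (nat_lit 44) (nat_lit 4) (nat_lit 386) (nat_lit 283) (nat_lit 231)) (XT.lf (nat_lit 0) (nat_lit 14695534418) (nat_lit 76) (nat_lit 3487006477) (nat_lit 152) (nat_lit 296930688) (nat_lit 42) (nat_lit 5) (nat_lit 43) (nat_lit 5) (nat_lit 44) (nat_lit 4) (nat_lit 387) (nat_lit 283) (nat_lit 230)))) (XT.nd (nat_lit 156) (nat_lit 76) (nat_lit 0) (XT.nd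 (nat_lit 78) (nat_lit 0) (nat_lit 0) (XT.lf (nat_lit 0) (nat_lit 4170169488) (nat_lit 228) (nat_lit 13268272297) (nat_lit 76) (nat_lit 1436649357) (nat_lit 39) (nat_lit 5) (nat_lit 42) (nat_lit 5) (nat_lit 40) (nat_lit 4) (nat_lit 388) (nat_lit 283) (nat_lit 229)) (XT.lf (nat_lit 0) (nat_lit 8793048990) (nat_lit 228) (nat_lit 4044732039) (nat_lit 76) (nat_lit 6443885962) (nat_lit 39) (nat_lit 5) (nat_lit 42) (nat_lit 5) (nat_lit 40) (nat_lit 4) (nat_lit 389) (nat_lit 283) (nat_lit 228))) (XT.nd (nat_lit 78) (nat_lit 0) (nat_lit 0) (XT.lf (nat_lit 0) (nat_lit 5482576370) (nat_lit 76) (nat_lit 8080682955) (nat_lit 152) (nat_lit 6136929151) (nat_lit 38) (nat_lit 5) (nat_lit 39) (nat_lit 5) (nat_lit 40) (nat_lit 4) (nat_lit 390) (nat_lit 283) (nat_lit 227)) (XT.lf (nat_lit 0) (nat_lit 15299477762) (nat_lit 76) (nat_lit 3174407133) (nat_lit 152) (nat_lit 1657468917) (nat_lit 38) (nat_lit 5) (nat_lit 39) (nat_lit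 5) (nat_lit 40) (nat_lit 4) (nat_lit 391) (nat_lit 283) (nat_lit 226))))) (XT.nd (nat_lit 234) (nat_lit 228) (nat_lit 0) (XT.nd (nat_lit 78) (nat_lit 76) (nat_lit 0) (XT.lf (nat_lit 0) (nat_lit 2920825633) (nat_lit 228) (nat_lit 15769519655) (nat_lit 76) (nat_lit 1883599108) (nat_lit 35) (nat_lit 5) (nat_lit 38) (nat_lit 5) (nat_lit 36) (nat_lit 4) (nat_lit 392) (nat_lit 283) (nat_lit 225)) (XT.nd (nat_lit 78) (nat_lit 76) (nat_lit 0) (XT.lf (nat_lit 0) (nat_lit 7641338381) (nat_lit 228) (nat_lit 6325676956) (nat_lit 76) (nat_lit 7061166399) (nat_lit 35) (nat_lit 5) (nat_lit 38) (nat_lit 5) (nat_lit 36) (nat_lit 4) (nat_lit 393) (nat_lit 283) (nat_lit 224)) (XT.lf (nat_lit 0) (nat_lit 3392072715) (nat_lit 76) (nat_lit 9102716495) (nat_lit 152) (nat_lit 9001523943) (nat_lit 34) (nat_lit 5) (nat_lit 35) (nat_lit 5) (nat_lit 36) (nat_lit 4) (nat_lit 394) (nat_lit 283) (nat_lit 223)))) (XT.nd (nat_lit 156)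 (nat_lit 0) (nat_lit 0) (XT.nd (nat_lit 78) (nat_lit 228) (nat_lit 0) (XT.lf (nat_lit 0) (nat_lit 13456166362) (nat_lit 76) (nat_lit 4060753016) (nat_lit 152) (nat_lit 4460883306) (nat_lit 34) (nat_lit 5) (nat_lit 35) (nat_lit 5) (nat_lit 36) (nat_lit 4) (nat_lit 395) (nat_lit 283) (nat_lit 222)) (XT.lf (nat_lit 0) (nat_lit 194938664) (nat_lit 228) (nat_lit 21186992928) (nat_lit 76) (nat_lit 1092253804) (nat_lit 31) (nat_lit 5) (nat_lit 34) (nat_lit 5) (nat_lit 32) (nat_lit 4) (nat_lit 396) (nat_lit 283) (nat_lit 221))) (XT.nd (nat_lit 78) (nat_lit 0) (nat_lit 0) (XT.lf (nat_lit 0) (nat_lit 4988020839) (nat_lit 228) (nat_lit 11576764641) (nat_lit 76) (nat_lit 6416737648) (nat_lit 31) (nat_lit 5) (nat_lit 34) (nat_lit 5) (nat_lit 32) (nat_lit 4) (nat_lit 397) (nat_lit 283) (nat_lit 220)) (XT.lf (nat_lit 0) (nat_lit 9886192168) (nat_lit 228) (nat_lit 1749718132) (nat_lit 76) (nat_lit 11869337520) (nat_lit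 31) (nat_lit 5) (nat_lit 34) (nat_lit 5) (nat_lit 32) (nat_lit 4) (nat_lit 398) (nat_lit 283) (nat_lit 219))))))))
noncomputable def xc64 : XT := (XT.nd (nat_lit 2028) (nat_lit 608) (nat_lit 0) (XT.nd (nat_lit 1014) (nat_lit 456) (nat_lit 0) (XT.nd (nat_lit 468) (nat_lit 228) (nat_lit 0) (XT.nd (nat_lit 234) (nat_lit 76) (nat_lit 0) (XT.nd (nat_lit 78) (nat_lit 228) (nat_lit 0) (XT.lf (nat_lit 0) (nat_lit 8467974013) (nat_lit 76) (nat_lit 6507157940) (nat_lit 152) (nat_lit 9068243158) (nat_lit 30) (nat_lit 5) (nat_lit 31) (nat_lit 5) (nat_lit 32) (nat_lit 4) (nat_lit 399) (nat_lit 283) (nat_lit 218)) (XT.nd (nat_lit 78) (nat_lit 228) (nat_lit 0) (XT.lf (nat_lit 0) (nat_lit 18959338452) (nat_lit 76) (nat_lit 1237927985) (nat_lit 152) (nat_lit 4400969389) (nat_lit 30) (nat_lit 5) (nat_lit 31) (nat_lit 5) (nat_lit 32) (nat_lit 4) (nat_lit 400) (nat_lit 283) (nat_lit 217)) (XT.lf (nat_lit 0) (nat_lit 446777904)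 (nat_lit 228) (nat_lit 20595458002) (nat_lit 76) (nat_lit 4125942847) (nat_lit 27) (nat_lit 5) (nat_lit 30) (nat_lit 5) (nat_lit 28) (nat_lit 4) (nat_lit 401) (nat_lit 283) (nat_lit 216)))) (XT.nd (nat_lit 78) (nat_lit 76) (nat_lit 0) (XT.lf (nat_lit 0) (nat_lit 5384965044) (nat_lit 228) (nat_lit 10671208864) (nat_lit 76) (nat_lit 9696739905) (nat_lit 27) (nat_lit 5) (nat_lit 30) (nat_lit 5) (nat_lit 28) (nat_lit 4) (nat_lit 402) (nat_lit 283) (nat_lit 215)) (XT.nd (nat_lit 78) (nat_lit 76) (nat_lit 0) (XT.lf (nat_lit 0) (nat_lit 10436055328) (nat_lit 228) (nat_lit 514845838) (nat_lit 76) (nat_lit 15405351829) (nat_lit 27) (nat_lit 5) (nat_lit 30) (nat_lit 5) (nat_lit 28) (nat_lit 4) (nat_lit 403) (nat_lit 283) (nat_lit 214)) (XT.lf (nat_lit 0) (nat_lit 10079186806) (nat_lit 76) (nat_lit 5622162831) (nat_lit 152) (nat_lit 11274467232) (nat_lit 26) (nat_lit 5) (nat_lit 27) (nat_lit 5) (nat_lit 28) (nat_lit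 4) (nat_lit 404) (nat_lit 283) (nat_lit 213))))) (XT.nd (nat_lit 234) (nat_lit 76) (nat_lit 0) (XT.nd (nat_lit 78) (nat_lit 152) (nat_lit 0) (XT.lf (nat_lit 0) (nat_lit 20938516288) (nat_lit 76) (nat_lit 157459669) (nat_lit 152) (nat_lit 6518855030) (nat_lit 26) (nat_lit 5) (nat_lit 27) (nat_lit 5) (nat_lit 28) (nat_lit 4) (nat_lit 405) (nat_lit 283) (nat_lit 212)) (XT.nd (nat_lit 78) (nat_lit 76) (nat_lit 0) (XT.lf (nat_lit 0) (nat_lit 3810415321) (nat_lit 76) (nat_lit 22898132624) (nat_lit 76) (nat_lit 1562788765) (nat_lit 25) (nat_lit 4) (nat_lit 26) (nat_lit 5) (nat_lit 26) (nat_lit 4) (nat_lit 406) (nat_lit 283) (nat_lit 211)) (XT.lf (nat_lit 0) (nat_lit 3509420171) (nat_lit 152) (nat_lit 14295196089) (nat_lit 76) (nat_lit 11140806746) (nat_lit 24) (nat_lit 5) (nat_lit 26) (nat_lit 5) (nat_lit 25) (nat_lit 4) (nat_lit 407) (nat_lit 283) (nat_lit 210)))) (XT.nd (nat_lit 156) (nat_lit 0) (nat_lit 0)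 (XT.nd (nat_lit 78) (nat_lit 76) (nat_lit 0) (XT.lf (nat_lit 0) (nat_lit 8670280867) (nat_lit 152) (nat_lit 3900178178) (nat_lit 76) (nat_lit 17069775790) (nat_lit 24) (nat_lit 5) (nat_lit 26) (nat_lit 5) (nat_lit 25) (nat_lit 4) (nat_lit 408) (nat_lit 283) (nat_lit 209)) (XT.lf (nat_lit 0) (nat_lit 6882541014) (nat_lit 76) (nat_lit 7138416628) (nat_lit 152) (nat_lit 16333887568) (nat_lit 23) (nat_lit 5) (nat_lit 24) (nat_lit 5) (nat_lit 25) (nat_lit 4) (nat_lit 409) (nat_lit 283) (nat_lit 208))) (XT.nd (nat_lit 78) (nat_lit 0) (nat_lit 0) (XT.lf (nat_lit 0) (nat_lit 18010812255) (nat_lit 76) (nat_lit 1529909144) (nat_lit 152) (nat_lit 11549919283) (nat_lit 23) (nat_lit 5) (nat_lit 24) (nat_lit 5) (nat_lit 25) (nat_lit 4) (nat_lit 410) (nat_lit 283) (nat_lit 207)) (XT.lf (nat_lit 0) (nat_lit 25236728987) (nat_lit 152) (nat_lit 2473244005) (nat_lit 0) (nat_lit 4138221176) (nat_lit 23) (nat_lit 5) (nat_lit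 25) (nat_lit 4) (nat_lit 23) (nat_lit 4) (nat_lit 411) (nat_lit 283) (nat_lit 206)))))) (XT.nd (nat_lit 468) (nat_lit 228) (nat_lit 0) (XT.nd (nat_lit 234) (nat_lit 76) (nat_lit 0) (XT.nd (nat_lit 78) (nat_lit 76) (nat_lit 0) (XT.lf (nat_lit 0) (nat_lit 8548006057) (nat_lit 76) (nat_lit 22623633397) (nat_lit 76) (nat_lit 1454797694) (nat_lit 22) (nat_lit 4) (nat_lit 23) (nat_lit 5) (nat_lit 23) (nat_lit 4) (nat_lit 412) (nat_lit 283) (nat_lit 205)) (XT.nd (nat_lit 78) (nat_lit 0) (nat_lit 0) (XT.lf (nat_lit 0) (nat_lit 3777280552) (nat_lit 152) (nat_lit 13569235688) (nat_lit 76) (nat_lit 16080523400) (nat_lit 21) (nat_lit 5) (nat_lit 23) (nat_lit 5) (nat_lit 22) (nat_lit 4) (nat_lit 413) (nat_lit 283) (nat_lit 204)) (XT.lf (nat_lit 0) (nat_lit 9108677376) (nat_lit 152) (nat_lit 2812790916) (nat_lit 76) (nat_lit 22330615176) (nat_lit 21) (nat_lit 5) (nat_lit 23) (nat_lit 5) (nat_lit 22) (nat_lit 4) (nat_lit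 414) (nat_lit 283) (nat_lit 203)))) (XT.nd (nat_lit 78) (nat_lit 0) (nat_lit 0) (XT.lf (nat_lit 0) (nat_lit 8377766870) (nat_lit 76) (nat_lit 6275204974) (nat_lit 152) (nat_lit 20447321268) (nat_lit 20) (nat_lit 5) (nat_lit 21) (nat_lit 5) (nat_lit 22) (nat_lit 4) (nat_lit 415) (nat_lit 283) (nat_lit 202)) (XT.nd (nat_lit 78) (nat_lit 0) (nat_lit 0) (XT.lf (nat_lit 0) (nat_lit 19910150514) (nat_lit 76) (nat_lit 454579490) (nat_lit 152) (nat_lit 15609188073) (nat_lit 20) (nat_lit 5) (nat_lit 21) (nat_lit 5) (nat_lit 22) (nat_lit 4) (nat_lit 416) (nat_lit 283) (nat_lit 201)) (XT.lf (nat_lit 0) (nat_lit 26274399978) (nat_lit 152) (nat_lit 5189125869) (nat_lit 0) (nat_lit 5409432161) (nat_lit 20) (nat_lit 5) (nat_lit 22) (nat_lit 4) (nat_lit 20) (nat_lit 4) (nat_lit 417) (nat_lit 283) (nat_lit 200))))) (XT.nd (nat_lit 234) (nat_lit 76) (nat_lit 0) (XT.nd (nat_lit 78) (nat_lit 76) (nat_lit 0) (XT.lf (nat_lit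 0) (nat_lit 6076687213) (nat_lit 76) (nat_lit 26321662976) (nat_lit 76) (nat_lit 5399512147) (nat_lit 19) (nat_lit 4) (nat_lit 20) (nat_lit 5) (nat_lit 20) (nat_lit 4) (nat_lit 418) (nat_lit 283) (nat_lit 199)) (XT.nd (nat_lit 78) (nat_lit 76) (nat_lit 0) (XT.lf (nat_lit 0) (nat_lit 17738183365) (nat_lit 76) (nat_lit 20994599323) (nat_lit 76) (nat_lit 16931008) (nat_lit 19) (nat_lit 4) (nat_lit 20) (nat_lit 5) (nat_lit 20) (nat_lit 4) (nat_lit 419) (nat_lit 283) (nat_lit 198)) (XT.lf (nat_lit 0) (nat_lit 5394134758) (nat_lit 152) (nat_lit 10081475228) (nat_lit 76) (nat_lit 24253673522) (nat_lit 18) (nat_lit 5) (nat_lit 20) (nat_lit 5) (nat_lit 19) (nat_lit 4) (nat_lit 420) (nat_lit 283) (nat_lit 197)))) (XT.nd (nat_lit 156) (nat_lit 0) (nat_lit 0) (XT.nd (nat_lit 78) (nat_lit 0) (nat_lit 0) (XT.lf (nat_lit 0) (nat_lit 1152444071) (nat_lit 76) (nat_lit 9801419680) (nat_lit 152) (nat_lit 29784774068) (nat_lit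 17) (nat_lit 5) (nat_lit 18) (nat_lit 5) (nat_lit 19) (nat_lit 4) (nat_lit 421) (nat_lit 283) (nat_lit 196)) (XT.lf (nat_lit 0) (nat_lit 12884137643) (nat_lit 76) (nat_lit 3873913268) (nat_lit 152) (nat_lit 25017894360) (nat_lit 17) (nat_lit 5) (nat_lit 18) (nat_lit 5) (nat_lit 19) (nat_lit 4) (nat_lit 422) (nat_lit 283) (nat_lit 195))) (XT.nd (nat_lit 78) (nat_lit 0) (nat_lit 0) (XT.lf (nat_lit 0) (nat_lit 22734176485) (nat_lit 152) (nat_lit 17943108653) (nat_lit 0) (nat_lit 2167154857) (nat_lit 17) (nat_lit 5) (nat_lit 19) (nat_lit 4) (nat_lit 17) (nat_lit 4) (nat_lit 423) (nat_lit 283) (nat_lit 194)) (XT.lf (nat_lit 0) (nat_lit 28904992897) (nat_lit 152) (nat_lit 6748060565) (nat_lit 0) (nat_lit 8291476248) (nat_lit 17) (nat_lit 5) (nat_lit 19) (nat_lit 4) (nat_lit 17) (nat_lit 4) (nat_lit 424) (nat_lit 283) (nat_lit 193))))))) (XT.nd (nat_lit 1014) (nat_lit 228) (nat_lit 0) (XT.nd (nat_lit 468) (nat_lit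 152) (nat_lit 0) (XT.nd (nat_lit 234) (nat_lit 76) (nat_lit 0) (XT.nd (nat_lit 78) (nat_lit 76) (nat_lit 0) (XT.lf (nat_lit 0) (nat_lit 4834699543) (nat_lit 76) (nat_lit 30450428244) (nat_lit 76) (nat_lit 9791770798) (nat_lit 16) (nat_lit 4) (nat_lit 17) (nat_lit 5) (nat_lit 17) (nat_lit 4) (nat_lit 425) (nat_lit 283) (nat_lit 192)) (XT.nd (nat_lit 78) (nat_lit 76) (nat_lit 0) (XT.lf (nat_lit 0) (nat_lit 16861205743) (nat_lit 76) (nat_lit 25041567635) (nat_lit 76) (nat_lit 4339084172) (nat_lit 16) (nat_lit 4) (nat_lit 17) (nat_lit 5) (nat_lit 17) (nat_lit 4) (nat_lit 426) (nat_lit 283) (nat_lit 191)) (XT.lf (nat_lit 0) (nat_lit 1230652959) (nat_lit 152) (nat_lit 18246807485) (nat_lit 76) (nat_lit 27964586856) (nat_lit 15) (nat_lit 5) (nat_lit 17) (nat_lit 5) (nat_lit 16) (nat_lit 4) (nat_lit 427) (nat_lit 283) (nat_lit 190)))) (XT.nd (nat_lit 78) (nat_lit 76) (nat_lit 0) (XT.lf (nat_lit 0) (nat_lit 6859292609)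 (nat_lit 152) (nat_lit 6861979221) (nat_lit 76) (nat_lit 34956313460) (nat_lit 15) (nat_lit 5) (nat_lit 17) (nat_lit 5) (nat_lit 16) (nat_lit 4) (nat_lit 428) (nat_lit 283) (nat_lit 189)) (XT.nd (nat_lit 78) (nat_lit 0) (nat_lit 0) (XT.lf (nat_lit 0) (nat_lit 4921527553) (nat_lit 76) (nat_lit 7762205345) (nat_lit 152) (nat_lit 37265650254) (nat_lit 14) (nat_lit 5) (nat_lit 15) (nat_lit 5) (nat_lit 16) (nat_lit 4) (nat_lit 429) (nat_lit 283) (nat_lit 188)) (XT.lf (nat_lit 0) (nat_lit 17160681712) (nat_lit 76) (nat_lit 1571372864) (nat_lit 152) (nat_lit 32525807846) (nat_lit 14) (nat_lit 5) (nat_lit 15) (nat_lit 5) (nat_lit 16) (nat_lit 4) (nat_lit 430) (nat_lit 283) (nat_lit 187))))) (XT.nd (nat_lit 234) (nat_lit 76) (nat_lit 0) (XT.nd (nat_lit 78) (nat_lit 76) (nat_lit 0) (XT.lf (nat_lit 0) (nat_lit 24988287146) (nat_lit 152) (nat_lit 22922592706) (nat_lit 0) (nat_lit 4693924246) (nat_lit 14) (nat_lit 5)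 (nat_lit 16) (nat_lit 4) (nat_lit 14) (nat_lit 4) (nat_lit 431) (nat_lit 283) (nat_lit 186)) (XT.nd (nat_lit 78) (nat_lit 76) (nat_lit 0) (XT.lf (nat_lit 0) (nat_lit 31428610339) (nat_lit 152) (nat_lit 11465040506) (nat_lit 0) (nat_lit 11098612877) (nat_lit 14) (nat_lit 5) (nat_lit 16) (nat_lit 4) (nat_lit 14) (nat_lit 4) (nat_lit 432) (nat_lit 283) (nat_lit 185)) (XT.lf (nat_lit 0) (nat_lit 306574716) (nat_lit 76) (nat_lit 37739918893) (nat_lit 76) (nat_lit 17375324769) (nat_lit 13) (nat_lit 4) (nat_lit 14) (nat_lit 5) (nat_lit 14) (nat_lit 4) (nat_lit 433) (nat_lit 283) (nat_lit 184)))) (XT.nd (nat_lit 156) (nat_lit 76) (nat_lit 0) (XT.nd (nat_lit 78) (nat_lit 0) (nat_lit 0) (XT.lf (nat_lit 0) (nat_lit 12631064035) (nat_lit 76) (nat_lit 32329229528) (nat_lit 76) (nat_lit 11931046411) (nat_lit 13) (nat_lit 4) (nat_lit 14) (nat_lit 5) (nat_lit 14) (nat_lit 4) (nat_lit 434) (nat_lit 283) (nat_lit 183)) (XT.lf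 (nat_lit 0) (nat_lit 25291019634) (nat_lit 76) (nat_lit 26772629391) (nat_lit 76) (nat_lit 6341835601) (nat_lit 13) (nat_lit 4) (nat_lit 14) (nat_lit 5) (nat_lit 14) (nat_lit 4) (nat_lit 435) (nat_lit 283) (nat_lit 182))) (XT.nd (nat_lit 78) (nat_lit 76) (nat_lit 0) (XT.lf (nat_lit 0) (nat_lit 38297503612) (nat_lit 76) (nat_lit 21065263200) (nat_lit 76) (nat_lit 602808564) (nat_lit 13) (nat_lit 4) (nat_lit 14) (nat_lit 5) (nat_lit 14) (nat_lit 4) (nat_lit 436) (nat_lit 283) (nat_lit 181)) (XT.lf (nat_lit 0) (nat_lit 5187801954) (nat_lit 152) (nat_lit 9961955355) (nat_lit 76) (nat_lit 46421692276) (nat_lit 12) (nat_lit 5) (nat_lit 14) (nat_lit 5) (nat_lit 13) (nat_lit 4) (nat_lit 437) (nat_lit 283) (nat_lit 180)))))) (XT.nd (nat_lit 546) (nat_lit 76) (nat_lit 0) (XT.nd (nat_lit 234) (nat_lit 76) (nat_lit 0) (XT.nd (nat_lit 78) (nat_lit 0) (nat_lit 0) (XT.lf (nat_lit 0) (nat_lit 2098637706) (nat_lit 76) (nat_lit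 9045044270) (nat_lit 152) (nat_lit 52081530450) (nat_lit 11) (nat_lit 5) (nat_lit 12) (nat_lit 5) (nat_lit 13) (nat_lit 4) (nat_lit 438) (nat_lit 283) (nat_lit 179)) (XT.nd (nat_lit 78) (nat_lit 0) (nat_lit 0) (XT.lf (nat_lit 0) (nat_lit 14693879150) (nat_lit 76) (nat_lit 2668628247) (nat_lit 152) (nat_lit 47563554114) (nat_lit 11) (nat_lit 5) (nat_lit 12) (nat_lit 5) (nat_lit 13) (nat_lit 4) (nat_lit 439) (nat_lit 283) (nat_lit 178)) (XT.lf (nat_lit 0) (nat_lit 23789385778) (nat_lit 152) (nat_lit 39079240787) (nat_lit 0) (nat_lit 3808666244) (nat_lit 11) (nat_lit 5) (nat_lit 13) (nat_lit 4) (nat_lit 11) (nat_lit 4) (nat_lit 440) (nat_lit 283) (nat_lit 177)))) (XT.nd (nat_lit 156) (nat_lit 76) (nat_lit 0) (XT.nd (nat_lit 78) (nat_lit 0) (nat_lit 0) (XT.lf (nat_lit 0) (nat_lit 30419966213) (nat_lit 152) (nat_lit 27648038087) (nat_lit 0) (nat_lit 10412731218) (nat_lit 11) (nat_lit 5) (nat_lit 13) (nat_lit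 4) (nat_lit 11) (nat_lit 4) (nat_lit 441) (nat_lit 283) (nat_lit 176)) (XT.lf (nat_lit 0) (nat_lit 37234389928) (nat_lit 152) (nat_lit 15902933345) (nat_lit 0) (nat_lit 17201411768) (nat_lit 11) (nat_lit 5) (nat_lit 13) (nat_lit 4) (nat_lit 11) (nat_lit 4) (nat_lit 442) (nat_lit 283) (nat_lit 175))) (XT.nd (nat_lit 78) (nat_lit 76) (nat_lit 0) (XT.lf (nat_lit 0) (nat_lit 44238611274) (nat_lit 152) (nat_lit 3833663848) (nat_lit 0) (nat_lit 24180639748) (nat_lit 11) (nat_lit 5) (nat_lit 13) (nat_lit 4) (nat_lit 11) (nat_lit 4) (nat_lit 443) (nat_lit 283) (nat_lit 174)) (XT.lf (nat_lit 0) (nat_lit 8740882467) (nat_lit 76) (nat_lit 42781890685) (nat_lit 76) (nat_lit 22699653757) (nat_lit 10) (nat_lit 4) (nat_lit 11) (nat_lit 5) (nat_lit 11) (nat_lit 4) (nat_lit 444) (nat_lit 283) (nat_lit 173))))) (XT.nd (nat_lit 234) (nat_lit 76) (nat_lit 0) (XT.nd (nat_lit 78) (nat_lit 0) (nat_lit 0) (XT.lf (nat_lit 0) (nat_lit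 21744152464) (nat_lit 76) (nat_lit 37305964451) (nat_lit 76) (nat_lit 17200168879) (nat_lit 10) (nat_lit 4) (nat_lit 11) (nat_lit 5) (nat_lit 11) (nat_lit 4) (nat_lit 445) (nat_lit 283) (nat_lit 172)) (XT.nd (nat_lit 78) (nat_lit 0) (nat_lit 0) (XT.lf (nat_lit 0) (nat_lit 35111210795) (nat_lit 76) (nat_lit 31678424117) (nat_lit 76) (nat_lit 11549756075) (nat_lit 10) (nat_lit 4) (nat_lit 11) (nat_lit 5) (nat_lit 11) (nat_lit 4) (nat_lit 446) (nat_lit 283) (nat_lit 171)) (XT.lf (nat_lit 0) (nat_lit 48853737415) (nat_lit 76) (nat_lit 25894352415) (nat_lit 76) (nat_lit 5743478093) (nat_lit 10) (nat_lit 4) (nat_lit 11) (nat_lit 5) (nat_lit 11) (nat_lit 4) (nat_lit 447) (nat_lit 283) (nat_lit 170)))) (XT.nd (nat_lit 37908) (nat_lit 0) (nat_lit 13148) (XT.nd (nat_lit 37830) (nat_lit 0) (nat_lit 13756) (XT.lf (nat_lit 0) (nat_lit 219372570) (nat_lit 152) (nat_lit 19727107499) (nat_lit 76) (nat_lit 62762152552)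 (nat_lit 9) (nat_lit 5) (nat_lit 11) (nat_lit 5) (nat_lit 10) (nat_lit 4) (nat_lit 448) (nat_lit 283) (nat_lit 169)) (XT.lf (nat_lit 0) (nat_lit 281142498) (nat_lit 608) (nat_lit 3231023676) (nat_lit 0) (nat_lit 281142498) (nat_lit 190) (nat_lit 5) (nat_lit 198) (nat_lit 4) (nat_lit 190) (nat_lit 4) (nat_lit 332) (nat_lit 284) (nat_lit 284))) (XT.nd (nat_lit 78) (nat_lit 608) (nat_lit 0) (XT.lf (nat_lit 0) (nat_lit 4123542199) (nat_lit 608) (nat_lit 806386292) (nat_lit 0) (nat_lit 2731388163) (nat_lit 190) (nat_lit 5) (nat_lit 198) (nat_lit 4) (nat_lit 190) (nat_lit 4) (nat_lit 333) (nat_lit 284) (nat_lit 283)) (XT.lf (nat_lit 0) (nat_lit 3700022) (nat_lit 608) (nat_lit 2736248850) (nat_lit 76) (nat_lit 4999818428) (nat_lit 182) (nat_lit 5) (nat_lit 190) (nat_lit 5) (nat_lit 183) (nat_lit 4) (nat_lit 334) (nat_lit 284) (nat_lit 282))))))))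
noncomputable def xc65 : XT := (XT.nd (nat_lit 2028) (nat_lit 3268) (nat_lit 0) (XT.nd (nat_lit 1014) (nat_lit 2888) (nat_lit 0) (XT.nd (nat_lit 468) (nat_lit 2128) (nat_lit 0) (XT.nd (nat_lit 234) (nat_lit 1368) (nat_lit 0) (XT.nd (nat_lit 78) (nat_lit 532) (nat_lit 0) (XT.lf (nat_lit 0) (nat_lit 3095333581) (nat_lit 456) (nat_lit 427490150) (nat_lit 532) (nat_lit 4298486243) (nat_lit 176) (nat_lit 5) (nat_lit 182) (nat_lit 5) (nat_lit 183) (nat_lit 4) (nat_lit 335) (nat_lit 284) (nat_lit 281)) (XT.nd (nat_lit 78) (nat_lit 76) (nat_lit 0) (XT.lf (nat_lit 0) (nat_lit 1141234071) (nat_lit 456) (nat_lit 5969994968) (nat_lit 456) (nat_lit 795221426) (nat_lit 170) (nat_lit 4) (nat_lit 176) (nat_lit 5) (nat_lit 176) (nat_lit 4) (nat_lit 336) (nat_lit 284) (nat_lit 280)) (XT.lf (nat_lit 0) (nat_lit 2717385723) (nat_lit 532) (nat_lit 859364824) (nat_lit 76) (nat_lit 4417868378) (nat_lit 169) (nat_lit 5) (nat_lit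 176) (nat_lit 5) (nat_lit 170) (nat_lit 4) (nat_lit 337) (nat_lit 284) (nat_lit 279)))) (XT.nd (nat_lit 78) (nat_lit 912) (nat_lit 0) (XT.lf (nat_lit 0) (nat_lit 5204489518) (nat_lit 456) (nat_lit 1074355037) (nat_lit 532) (nat_lit 1807625426) (nat_lit 163) (nat_lit 5) (nat_lit 169) (nat_lit 5) (nat_lit 170) (nat_lit 4) (nat_lit 338) (nat_lit 284) (nat_lit 278)) (XT.nd (nat_lit 78) (nat_lit 380) (nat_lit 0) (XT.lf (nat_lit 0) (nat_lit 1696155587) (nat_lit 532) (nat_lit 4977691107) (nat_lit 76) (nat_lit 1507838304) (nat_lit 156) (nat_lit 5) (nat_lit 163) (nat_lit 5) (nat_lit 157) (nat_lit 4) (nat_lit 339) (nat_lit 284) (nat_lit 277)) (XT.lf (nat_lit 0) (nat_lit 1131034783) (nat_lit 380) (nat_lit 4099946438) (nat_lit 456) (nat_lit 3049423019) (nat_lit 151) (nat_lit 5) (nat_lit 156) (nat_lit 5) (nat_lit 157) (nat_lit 4) (nat_lit 340) (nat_lit 284) (nat_lit 276))))) (XT.nd (nat_lit 234) (nat_lit 1216) (nat_lit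 0) (XT.nd (nat_lit 78) (nat_lit 836) (nat_lit 0) (XT.lf (nat_lit 0) (nat_lit 442909417) (nat_lit 456) (nat_lit 976352676) (nat_lit 76) (nat_lit 6963850282) (nat_lit 150) (nat_lit 5) (nat_lit 156) (nat_lit 5) (nat_lit 151) (nat_lit 5) (nat_lit 341) (nat_lit 284) (nat_lit 275)) (XT.nd (nat_lit 78) (nat_lit 380) (nat_lit 0) (XT.lf (nat_lit 0) (nat_lit 3958039260) (nat_lit 532) (nat_lit 3158842570) (nat_lit 76) (nat_lit 1371782731) (nat_lit 144) (nat_lit 5) (nat_lit 151) (nat_lit 5) (nat_lit 145) (nat_lit 4) (nat_lit 342) (nat_lit 284) (nat_lit 274)) (XT.lf (nat_lit 0) (nat_lit 3182592422) (nat_lit 380) (nat_lit 4366296173) (nat_lit 456) (nat_lit 1049433461) (nat_lit 139) (nat_lit 5) (nat_lit 144) (nat_lit 5) (nat_lit 145) (nat_lit 4) (nat_lit 343) (nat_lit 284) (nat_lit 273)))) (XT.nd (nat_lit 156) (nat_lit 760) (nat_lit 0) (XT.nd (nat_lit 78) (nat_lit 0) (nat_lit 0) (XT.lf (nat_lit 0) (nat_lit 948453569)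 (nat_lit 380) (nat_lit 1495755441) (nat_lit 456) (nat_lit 6267647753) (nat_lit 133) (nat_lit 5) (nat_lit 138) (nat_lit 5) (nat_lit 139) (nat_lit 5) (nat_lit 344) (nat_lit 284) (nat_lit 272)) (XT.lf (nat_lit 0) (nat_lit 6008077842) (nat_lit 456) (nat_lit 1352728143) (nat_lit 76) (nat_lit 1468127270) (nat_lit 133) (nat_lit 5) (nat_lit 139) (nat_lit 5) (nat_lit 134) (nat_lit 4) (nat_lit 345) (nat_lit 284) (nat_lit 271))) (XT.nd (nat_lit 78) (nat_lit 380) (nat_lit 0) (XT.lf (nat_lit 0) (nat_lit 699604973) (nat_lit 380) (nat_lit 3731274727) (nat_lit 76) (nat_lit 4518937416) (nat_lit 128) (nat_lit 5) (nat_lit 133) (nat_lit 5) (nat_lit 129) (nat_lit 5) (nat_lit 346) (nat_lit 284) (nat_lit 270)) (XT.lf (nat_lit 0) (nat_lit 2856076713) (nat_lit 380) (nat_lit 1374256572) (nat_lit 456) (nat_lit 4844354934) (nat_lit 123) (nat_lit 5) (nat_lit 128) (nat_lit 5) (nat_lit 129) (nat_lit 5) (nat_lit 347) (nat_lit 284) (nat_lit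 269)))))) (XT.nd (nat_lit 468) (nat_lit 1520) (nat_lit 0) (XT.nd (nat_lit 234) (nat_lit 684) (nat_lit 0) (XT.nd (nat_lit 78) (nat_lit 380) (nat_lit 0) (XT.lf (nat_lit 0) (nat_lit 392252585) (nat_lit 304) (nat_lit 7454651704) (nat_lit 380) (nat_lit 1357041520) (nat_lit 119) (nat_lit 5) (nat_lit 123) (nat_lit 5) (nat_lit 124) (nat_lit 4) (nat_lit 348) (nat_lit 284) (nat_lit 268)) (XT.nd (nat_lit 78) (nat_lit 304) (nat_lit 0) (XT.lf (nat_lit 0) (nat_lit 2189764878) (nat_lit 380) (nat_lit 2155814639) (nat_lit 76) (nat_lit 4990938382) (nat_lit 118) (nat_lit 5) (nat_lit 123) (nat_lit 5) (nat_lit 119) (nat_lit 5) (nat_lit 349) (nat_lit 284) (nat_lit 267)) (XT.lf (nat_lit 0) (nat_lit 4666862769) (nat_lit 304) (nat_lit 1117446149) (nat_lit 380) (nat_lit 3689331650) (nat_lit 114) (nat_lit 5) (nat_lit 118) (nat_lit 5) (nat_lit 119) (nat_lit 5) (nat_lit 350) (nat_lit 284) (nat_lit 266)))) (XT.nd (nat_lit 78) (nat_lit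 380) (nat_lit 0) (XT.lf (nat_lit 0) (nat_lit 2031003797) (nat_lit 304) (nat_lit 7443000765) (nat_lit 380) (nat_lit 141286639) (nat_lit 110) (nat_lit 5) (nat_lit 114) (nat_lit 5) (nat_lit 115) (nat_lit 4) (nat_lit 351) (nat_lit 284) (nat_lit 265)) (XT.nd (nat_lit 78) (nat_lit 304) (nat_lit 0) (XT.lf (nat_lit 0) (nat_lit 3429683624) (nat_lit 380) (nat_lit 744412378) (nat_lit 76) (nat_lit 5586562856) (nat_lit 109) (nat_lit 5) (nat_lit 114) (nat_lit 5) (nat_lit 110) (nat_lit 5) (nat_lit 352) (nat_lit 284) (nat_lit 264)) (XT.lf (nat_lit 0) (nat_lit 6313909034) (nat_lit 304) (nat_lit 778868801) (nat_lit 380) (nat_lit 2817963587) (nat_lit 105) (nat_lit 5) (nat_lit 109) (nat_lit 5) (nat_lit 110) (nat_lit 5) (nat_lit 353) (nat_lit 284) (nat_lit 263))))) (XT.nd (nat_lit 234) (nat_lit 912) (nat_lit 0) (XT.nd (nat_lit 78) (nat_lit 304) (nat_lit 0) (XT.lf (nat_lit 0) (nat_lit 779666458) (nat_lit 304) (nat_lit 6606911762)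 (nat_lit 76) (nat_lit 2678701096) (nat_lit 101) (nat_lit 5) (nat_lit 105) (nat_lit 5) (nat_lit 102) (nat_lit 5) (nat_lit 354) (nat_lit 284) (nat_lit 262)) (XT.nd (nat_lit 78) (nat_lit 0) (nat_lit 0) (XT.lf (nat_lit 0) (nat_lit 438456863) (nat_lit 304) (nat_lit 3966951588) (nat_lit 380) (nat_lit 5818931496) (nat_lit 97) (nat_lit 5) (nat_lit 101) (nat_lit 5) (nat_lit 102) (nat_lit 5) (nat_lit 355) (nat_lit 284) (nat_lit 261)) (XT.lf (nat_lit 0) (nat_lit 7721978924) (nat_lit 304) (nat_lit 413921604) (nat_lit 380) (nat_lit 2252419972) (nat_lit 97) (nat_lit 5) (nat_lit 101) (nat_lit 5) (nat_lit 102) (nat_lit 5) (nat_lit 356) (nat_lit 284) (nat_lit 260)))) (XT.nd (nat_lit 156) (nat_lit 304) (nat_lit 0) (XT.nd (nat_lit 78) (nat_lit 304) (nat_lit 0) (XT.lf (nat_lit 0) (nat_lit 1399958301) (nat_lit 304) (nat_lit 5952276969) (nat_lit 76) (nat_lit 3204403193) (nat_lit 93) (nat_lit 5) (nat_lit 97) (nat_lit 5) (nat_lit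 94) (nat_lit 5) (nat_lit 357) (nat_lit 284) (nat_lit 259)) (XT.lf (nat_lit 0) (nat_lit 1309987561) (nat_lit 304) (nat_lit 3781789707) (nat_lit 380) (nat_lit 5638330547) (nat_lit 89) (nat_lit 5) (nat_lit 93) (nat_lit 5) (nat_lit 94) (nat_lit 5) (nat_lit 358) (nat_lit 284) (nat_lit 258))) (XT.nd (nat_lit 78) (nat_lit 304) (nat_lit 0) (XT.lf (nat_lit 0) (nat_lit 8805636481) (nat_lit 304) (nat_lit 81057800) (nat_lit 380) (nat_lit 2022341038) (nat_lit 89) (nat_lit 5) (nat_lit 93) (nat_lit 5) (nat_lit 94) (nat_lit 5) (nat_lit 359) (nat_lit 284) (nat_lit 257)) (XT.lf (nat_lit 0) (nat_lit 1690696793) (nat_lit 304) (nat_lit 5712033036) (nat_lit 76) (nat_lit 3689479444) (nat_lit 85) (nat_lit 5) (nat_lit 89) (nat_lit 5) (nat_lit 86) (nat_lit 5) (nat_lit 360) (nat_lit 284) (nat_lit 256))))))) (XT.nd (nat_lit 1014) (nat_lit 1368) (nat_lit 0) (XT.nd (nat_lit 468) (nat_lit 912) (nat_lit 0) (XT.nd (nat_lit 234) (nat_lit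 456) (nat_lit 0) (XT.nd (nat_lit 78) (nat_lit 304) (nat_lit 0) (XT.lf (nat_lit 0) (nat_lit 1759087808) (nat_lit 228) (nat_lit 3688661360) (nat_lit 304) (nat_lit 5833352775) (nat_lit 82) (nat_lit 5) (nat_lit 85) (nat_lit 5) (nat_lit 86) (nat_lit 5) (nat_lit 361) (nat_lit 284) (nat_lit 255)) (XT.nd (nat_lit 78) (nat_lit 304) (nat_lit 0) (XT.lf (nat_lit 0) (nat_lit 9311726297) (nat_lit 304) (nat_lit 2010281400) (nat_lit 76) (nat_lit 153848960) (nat_lit 82) (nat_lit 5) (nat_lit 86) (nat_lit 5) (nat_lit 83) (nat_lit 4) (nat_lit 362) (nat_lit 284) (nat_lit 254)) (XT.lf (nat_lit 0) (nat_lit 1611756572) (nat_lit 304) (nat_lit 5992770561) (nat_lit 76) (nat_lit 4070638347) (nat_lit 78) (nat_lit 5) (nat_lit 82) (nat_lit 5) (nat_lit 79) (nat_lit 5) (nat_lit 363) (nat_lit 284) (nat_lit 253)))) (XT.nd (nat_lit 78) (nat_lit 228) (nat_lit 0) (XT.lf (nat_lit 0) (nat_lit 1675193737) (nat_lit 228) (nat_lit 3755613165) (nat_lit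 304) (nat_lit 6449822166) (nat_lit 75) (nat_lit 5) (nat_lit 78) (nat_lit 5) (nat_lit 79) (nat_lit 5) (nat_lit 364) (nat_lit 284) (nat_lit 252)) (XT.nd (nat_lit 78) (nat_lit 228) (nat_lit 0) (XT.lf (nat_lit 0) (nat_lit 9364808176) (nat_lit 304) (nat_lit 2500584935) (nat_lit 76) (nat_lit 226871313) (nat_lit 75) (nat_lit 5) (nat_lit 79) (nat_lit 5) (nat_lit 76) (nat_lit 4) (nat_lit 365) (nat_lit 284) (nat_lit 251)) (XT.lf (nat_lit 0) (nat_lit 1113456062) (nat_lit 228) (nat_lit 6917240793) (nat_lit 76) (nat_lit 4278396946) (nat_lit 72) (nat_lit 5) (nat_lit 75) (nat_lit 5) (nat_lit 73) (nat_lit 5) (nat_lit 366) (nat_lit 284) (nat_lit 250))))) (XT.nd (nat_lit 234) (nat_lit 456) (nat_lit 0) (XT.nd (nat_lit 78) (nat_lit 228) (nat_lit 0) (XT.lf (nat_lit 0) (nat_lit 930757225) (nat_lit 228) (nat_lit 4057757224) (nat_lit 304) (nat_lit 7543908950) (nat_lit 69) (nat_lit 5) (nat_lit 72) (nat_lit 5) (nat_lit 73) (nat_lit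 5) (nat_lit 367) (nat_lit 284) (nat_lit 249)) (XT.nd (nat_lit 78) (nat_lit 228) (nat_lit 0) (XT.lf (nat_lit 0) (nat_lit 8990412083) (nat_lit 304) (nat_lit 3706633469) (nat_lit 76) (nat_lit 65106805) (nat_lit 69) (nat_lit 5) (nat_lit 73) (nat_lit 5) (nat_lit 70) (nat_lit 4) (nat_lit 368) (nat_lit 284) (nat_lit 248)) (XT.lf (nat_lit 0) (nat_lit 135268825) (nat_lit 228) (nat_lit 8627313106) (nat_lit 76) (nat_lit 4235457852) (nat_lit 66) (nat_lit 5) (nat_lit 69) (nat_lit 5) (nat_lit 67) (nat_lit 5) (nat_lit 369) (nat_lit 284) (nat_lit 247)))) (XT.nd (nat_lit 156) (nat_lit 228) (nat_lit 0) (XT.nd (nat_lit 78) (nat_lit 228) (nat_lit 0) (XT.lf (nat_lit 0) (nat_lit 4063132517) (nat_lit 228) (nat_lit 609715747) (nat_lit 76) (nat_lit 8567667320) (nat_lit 66) (nat_lit 5) (nat_lit 69) (nat_lit 5) (nat_lit 67) (nat_lit 5) (nat_lit 370) (nat_lit 284) (nat_lit 246)) (XT.lf (nat_lit 0) (nat_lit 7703083432) (nat_lit 228)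 (nat_lit 423147129) (nat_lit 304) (nat_lit 5363528334) (nat_lit 63) (nat_lit 5) (nat_lit 66) (nat_lit 5) (nat_lit 67) (nat_lit 5) (nat_lit 371) (nat_lit 284) (nat_lit 245))) (XT.nd (nat_lit 78) (nat_lit 76) (nat_lit 0) (XT.lf (nat_lit 0) (nat_lit 2445090793) (nat_lit 152) (nat_lit 9877579434) (nat_lit 228) (nat_lit 1423480568) (nat_lit 61) (nat_lit 5) (nat_lit 63) (nat_lit 5) (nat_lit 64) (nat_lit 4) (nat_lit 372) (nat_lit 284) (nat_lit 244)) (XT.lf (nat_lit 0) (nat_lit 2590436580) (nat_lit 228) (nat_lit 3092357207) (nat_lit 76) (nat_lit 8326482302) (nat_lit 60) (nat_lit 5) (nat_lit 63) (nat_lit 5) (nat_lit 61) (nat_lit 5) (nat_lit 373) (nat_lit 284) (nat_lit 243)))))) (XT.nd (nat_lit 546) (nat_lit 608) (nat_lit 0) (XT.nd (nat_lit 234) (nat_lit 380) (nat_lit 0) (XT.nd (nat_lit 78) (nat_lit 228) (nat_lit 0) (XT.lf (nat_lit 0) (nat_lit 5359690100) (nat_lit 152) (nat_lit 1333505358) (nat_lit 228) (nat_lit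 7586779322) (nat_lit 58) (nat_lit 5) (nat_lit 60) (nat_lit 5) (nat_lit 61) (nat_lit 5) (nat_lit 374) (nat_lit 284) (nat_lit 242)) (XT.nd (nat_lit 78) (nat_lit 228) (nat_lit 0) (XT.lf (nat_lit 0) (nat_lit 10926656757) (nat_lit 228) (nat_lit 553469945) (nat_lit 76) (nat_lit 3078452245) (nat_lit 58) (nat_lit 5) (nat_lit 61) (nat_lit 5) (nat_lit 59) (nat_lit 4) (nat_lit 375) (nat_lit 284) (nat_lit 241)) (XT.lf (nat_lit 0) (nat_lit 471995047) (nat_lit 228) (nat_lit 6730471094) (nat_lit 76) (nat_lit 7641789171) (nat_lit 55) (nat_lit 5) (nat_lit 58) (nat_lit 5) (nat_lit 56) (nat_lit 5) (nat_lit 376) (nat_lit 284) (nat_lit 240)))) (XT.nd (nat_lit 156) (nat_lit 228) (nat_lit 0) (XT.nd (nat_lit 78) (nat_lit 0) (nat_lit 0) (XT.lf (nat_lit 0) (nat_lit 1822433261) (nat_lit 152) (nat_lit 2774317605) (nat_lit 228) (nat_lit 10541562731) (nat_lit 53) (nat_lit 5) (nat_lit 55) (nat_lit 5) (nat_lit 56) (nat_lit 5) (nat_lit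 377) (nat_lit 284) (nat_lit 239)) (XT.lf (nat_lit 0) (nat_lit 8878907384) (nat_lit 228) (nat_lit 4778591845) (nat_lit 76) (nat_lit 1782696304) (nat_lit 53) (nat_lit 5) (nat_lit 56) (nat_lit 5) (nat_lit 54) (nat_lit 4) (nat_lit 378) (nat_lit 284) (nat_lit 238))) (XT.nd (nat_lit 78) (nat_lit 76) (nat_lit 0) (XT.lf (nat_lit 0) (nat_lit 3976117292) (nat_lit 152) (nat_lit 9328465647) (nat_lit 228) (nat_lit 2446110661) (nat_lit 51) (nat_lit 5) (nat_lit 53) (nat_lit 5) (nat_lit 54) (nat_lit 4) (nat_lit 379) (nat_lit 284) (nat_lit 237)) (XT.lf (nat_lit 0) (nat_lit 1755764281) (nat_lit 228) (nat_lit 3084306465) (nat_lit 76) (nat_lit 11229982973) (nat_lit 50) (nat_lit 5) (nat_lit 53) (nat_lit 5) (nat_lit 51) (nat_lit 5) (nat_lit 380) (nat_lit 284) (nat_lit 236))))) (XT.nd (nat_lit 234) (nat_lit 304) (nat_lit 0) (XT.nd (nat_lit 78) (nat_lit 152) (nat_lit 0) (XT.lf (nat_lit 0) (nat_lit 5870637948) (nat_lit 152) (nat_lit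 171285011) (nat_lit 228) (nat_lit 10356133702) (nat_lit 48) (nat_lit 5) (nat_lit 50) (nat_lit 5) (nat_lit 51) (nat_lit 5) (nat_lit 381) (nat_lit 284) (nat_lit 235)) (XT.nd (nat_lit 78) (nat_lit 152) (nat_lit 0) (XT.lf (nat_lit 0) (nat_lit 10483908745) (nat_lit 228) (nat_lit 1709028488) (nat_lit 76) (nat_lit 4542155231) (nat_lit 48) (nat_lit 5) (nat_lit 51) (nat_lit 5) (nat_lit 49) (nat_lit 4) (nat_lit 382) (nat_lit 284) (nat_lit 234)) (XT.lf (nat_lit 0) (nat_lit 7433156831) (nat_lit 152) (nat_lit 7651775723) (nat_lit 228) (nat_lit 1996543185) (nat_lit 46) (nat_lit 5) (nat_lit 48) (nat_lit 5) (nat_lit 49) (nat_lit 4) (nat_lit 383) (nat_lit 284) (nat_lit 233)))) (XT.nd (nat_lit 156) (nat_lit 76) (nat_lit 0) (XT.nd (nat_lit 78) (nat_lit 152) (nat_lit 0) (XT.lf (nat_lit 0) (nat_lit 2309348031) (nat_lit 228) (nat_lit 660429296) (nat_lit 76) (nat_lit 14468689406) (nat_lit 45) (nat_lit 5) (nat_lit 48) (nat_lit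 5) (nat_lit 46) (nat_lit 5) (nat_lit 384) (nat_lit 284) (nat_lit 232)) (XT.lf (nat_lit 0) (nat_lit 6760175245) (nat_lit 228) (nat_lit 9158318560) (nat_lit 76) (nat_lit 1885412911) (nat_lit 43) (nat_lit 5) (nat_lit 46) (nat_lit 5) (nat_lit 44) (nat_lit 4) (nat_lit 385) (nat_lit 284) (nat_lit 231))) (XT.nd (nat_lit 78) (nat_lit 76) (nat_lit 0) (XT.lf (nat_lit 0) (nat_lit 11334995135) (nat_lit 228) (nat_lit 47259561) (nat_lit 76) (nat_lit 6798349828) (nat_lit 43) (nat_lit 5) (nat_lit 46) (nat_lit 5) (nat_lit 44) (nat_lit 4) (nat_lit 386) (nat_lit 284) (nat_lit 230)) (XT.lf (nat_lit 0) (nat_lit 9441758134) (nat_lit 76) (nat_lit 6651720718) (nat_lit 152) (nat_lit 2473740248) (nat_lit 42) (nat_lit 5) (nat_lit 43) (nat_lit 5) (nat_lit 44) (nat_lit 4) (nat_lit 387) (nat_lit 284) (nat_lit 229))))))))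
noncomputable def xc66 : XT := (XT.nd (nat_lit 2028) (nat_lit 836) (nat_lit 0) (XT.nd (nat_lit 1014) (nat_lit 608) (nat_lit 0) (XT.nd (nat_lit 468) (nat_lit 380) (nat_lit 0) (XT.nd (nat_lit 234) (nat_lit 304) (nat_lit 0) (XT.nd (nat_lit 78) (nat_lit 0) (nat_lit 0) (XT.lf (nat_lit 0) (nat_lit 154782445) (nat_lit 152) (nat_lit 1792624880) (nat_lit 228) (nat_lit 17018715885) (nat_lit 39) (nat_lit 5) (nat_lit 41) (nat_lit 5) (nat_lit 42) (nat_lit 5) (nat_lit 388) (nat_lit 284) (nat_lit 228)) (XT.nd (nat_lit 78) (nat_lit 0) (nat_lit 0) (XT.lf (nat_lit 0) (nat_lit 6531351853) (nat_lit 228) (nat_lit 9609939572) (nat_lit 76) (nat_lit 3232579474) (nat_lit 39) (nat_lit 5) (nat_lit 42) (nat_lit 5) (nat_lit 40) (nat_lit 4) (nat_lit 389) (nat_lit 284) (nat_lit 227)) (XT.lf (nat_lit 0) (nat_lit 11227789275) (nat_lit 228) (nat_lit 227840121) (nat_lit 76) (nat_lit 8338979858) (nat_lit 39) (nat_lit 5) (nat_lit 42) (nat_lit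 5) (nat_lit 40) (nat_lit 4) (nat_lit 390) (nat_lit 284) (nat_lit 226)))) (XT.nd (nat_lit 78) (nat_lit 228) (nat_lit 0) (XT.lf (nat_lit 0) (nat_lit 9546677404) (nat_lit 76) (nat_lit 6568682566) (nat_lit 152) (nat_lit 4111109840) (nat_lit 38) (nat_lit 5) (nat_lit 39) (nat_lit 5) (nat_lit 40) (nat_lit 4) (nat_lit 391) (nat_lit 284) (nat_lit 225)) (XT.nd (nat_lit 78) (nat_lit 152) (nat_lit 0) (XT.lf (nat_lit 0) (nat_lit 429813262) (nat_lit 152) (nat_lit 1132164573) (nat_lit 76) (nat_lit 19110351029) (nat_lit 37) (nat_lit 5) (nat_lit 39) (nat_lit 5) (nat_lit 38) (nat_lit 5) (nat_lit 392) (nat_lit 284) (nat_lit 224)) (XT.lf (nat_lit 0) (nat_lit 5103764838) (nat_lit 228) (nat_lit 12405632754) (nat_lit 76) (nat_lit 3618568718) (nat_lit 35) (nat_lit 5) (nat_lit 38) (nat_lit 5) (nat_lit 36) (nat_lit 4) (nat_lit 393) (nat_lit 284) (nat_lit 223))))) (XT.nd (nat_lit 234) (nat_lit 304) (nat_lit 0) (XT.nd (nat_lit 78)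 (nat_lit 76) (nat_lit 0) (XT.lf (nat_lit 0) (nat_lit 9904864392) (nat_lit 228) (nat_lit 2790231254) (nat_lit 76) (nat_lit 8902575795) (nat_lit 35) (nat_lit 5) (nat_lit 38) (nat_lit 5) (nat_lit 36) (nat_lit 4) (nat_lit 394) (nat_lit 284) (nat_lit 222)) (XT.nd (nat_lit 78) (nat_lit 0) (nat_lit 0) (XT.lf (nat_lit 0) (nat_lit 7182529181) (nat_lit 76) (nat_lit 7697596506) (nat_lit 152) (nat_lit 7200444434) (nat_lit 34) (nat_lit 5) (nat_lit 35) (nat_lit 5) (nat_lit 36) (nat_lit 4) (nat_lit 395) (nat_lit 284) (nat_lit 221)) (XT.lf (nat_lit 0) (nat_lit 17441107940) (nat_lit 76) (nat_lit 2553253777) (nat_lit 152) (nat_lit 2583908613) (nat_lit 34) (nat_lit 5) (nat_lit 35) (nat_lit 5) (nat_lit 36) (nat_lit 4) (nat_lit 396) (nat_lit 284) (nat_lit 220)))) (XT.nd (nat_lit 156) (nat_lit 76) (nat_lit 0) (XT.nd (nat_lit 78) (nat_lit 0) (nat_lit 0) (XT.lf (nat_lit 0) (nat_lit 2165122823) (nat_lit 228) (nat_lit 18194290838)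 (nat_lit 76) (nat_lit 2729776529) (nat_lit 31) (nat_lit 5) (nat_lit 34) (nat_lit 5) (nat_lit 32) (nat_lit 4) (nat_lit 397) (nat_lit 284) (nat_lit 219)) (XT.lf (nat_lit 0) (nat_lit 7044783792) (nat_lit 228) (nat_lit 8401434690) (nat_lit 76) (nat_lit 8167254449) (nat_lit 31) (nat_lit 5) (nat_lit 34) (nat_lit 5) (nat_lit 32) (nat_lit 4) (nat_lit 398) (nat_lit 284) (nat_lit 218))) (XT.nd (nat_lit 78) (nat_lit 0) (nat_lit 0) (XT.lf (nat_lit 0) (nat_lit 1650020092) (nat_lit 76) (nat_lit 10400193920) (nat_lit 152) (nat_lit 12103894159) (nat_lit 30) (nat_lit 5) (nat_lit 31) (nat_lit 5) (nat_lit 32) (nat_lit 4) (nat_lit 399) (nat_lit 284) (nat_lit 217)) (XT.lf (nat_lit 0) (nat_lit 12108515442) (nat_lit 76) (nat_lit 5146069306) (nat_lit 152) (nat_lit 7454919631) (nat_lit 30) (nat_lit 5) (nat_lit 31) (nat_lit 5) (nat_lit 32) (nat_lit 4) (nat_lit 400) (nat_lit 284) (nat_lit 216)))))) (XT.nd (nat_lit 468) (nat_lit 304)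 (nat_lit 0) (XT.nd (nat_lit 234) (nat_lit 76) (nat_lit 0) (XT.nd (nat_lit 78) (nat_lit 228) (nat_lit 0) (XT.lf (nat_lit 0) (nat_lit 22582344200) (nat_lit 152) (nat_lit 2468900735) (nat_lit 0) (nat_lit 231304901) (nat_lit 30) (nat_lit 5) (nat_lit 32) (nat_lit 4) (nat_lit 30) (nat_lit 4) (nat_lit 401) (nat_lit 284) (nat_lit 215)) (XT.nd (nat_lit 78) (nat_lit 0) (nat_lit 0) (XT.lf (nat_lit 0) (nat_lit 2248866855) (nat_lit 228) (nat_lit 17883189830) (nat_lit 76) (nat_lit 5737263415) (nat_lit 27) (nat_lit 5) (nat_lit 30) (nat_lit 5) (nat_lit 28) (nat_lit 4) (nat_lit 402) (nat_lit 284) (nat_lit 214)) (XT.lf (nat_lit 0) (nat_lit 7283101970) (nat_lit 228) (nat_lit 7758207351) (nat_lit 76) (nat_lit 11431857910) (nat_lit 27) (nat_lit 5) (nat_lit 30) (nat_lit 5) (nat_lit 28) (nat_lit 4) (nat_lit 403) (nat_lit 284) (nat_lit 213)))) (XT.nd (nat_lit 78) (nat_lit 0) (nat_lit 0) (XT.lf (nat_lit 0) (nat_lit 2660595301)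 (nat_lit 76) (nat_lit 9800124699) (nat_lit 152) (nat_lit 14634643623) (nat_lit 26) (nat_lit 5) (nat_lit 27) (nat_lit 5) (nat_lit 28) (nat_lit 4) (nat_lit 404) (nat_lit 284) (nat_lit 212)) (XT.nd (nat_lit 78) (nat_lit 0) (nat_lit 0) (XT.lf (nat_lit 0) (nat_lit 13489756924) (nat_lit 76) (nat_lit 4349411791) (nat_lit 152) (nat_lit 9895696516) (nat_lit 26) (nat_lit 5) (nat_lit 27) (nat_lit 5) (nat_lit 28) (nat_lit 4) (nat_lit 405) (nat_lit 284) (nat_lit 211)) (XT.lf (nat_lit 0) (nat_lit 23358980074) (nat_lit 152) (nat_lit 3822069514) (nat_lit 0) (nat_lit 1213106284) (nat_lit 26) (nat_lit 5) (nat_lit 28) (nat_lit 4) (nat_lit 26) (nat_lit 4) (nat_lit 406) (nat_lit 284) (nat_lit 210))))) (XT.nd (nat_lit 234) (nat_lit 152) (nat_lit 0) (XT.nd (nat_lit 78) (nat_lit 0) (nat_lit 0) (XT.lf (nat_lit 0) (nat_lit 51134864) (nat_lit 152) (nat_lit 22123599316) (nat_lit 76) (nat_lit 6896121041) (nat_lit 24) (nat_lit 5) (nat_lit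 26) (nat_lit 5) (nat_lit 25) (nat_lit 4) (nat_lit 407) (nat_lit 284) (nat_lit 209)) (XT.nd (nat_lit 78) (nat_lit 0) (nat_lit 0) (XT.lf (nat_lit 0) (nat_lit 5196641404) (nat_lit 152) (nat_lit 11757375701) (nat_lit 76) (nat_lit 12812112490) (nat_lit 24) (nat_lit 5) (nat_lit 26) (nat_lit 5) (nat_lit 25) (nat_lit 4) (nat_lit 408) (nat_lit 284) (nat_lit 208)) (XT.lf (nat_lit 0) (nat_lit 10466252038) (nat_lit 152) (nat_lit 1136915299) (nat_lit 76) (nat_lit 18880006482) (nat_lit 24) (nat_lit 5) (nat_lit 26) (nat_lit 5) (nat_lit 25) (nat_lit 4) (nat_lit 409) (nat_lit 284) (nat_lit 207)))) (XT.nd (nat_lit 156) (nat_lit 76) (nat_lit 0) (XT.nd (nat_lit 78) (nat_lit 0) (nat_lit 0) (XT.lf (nat_lit 0) (nat_lit 9941047545) (nat_lit 76) (nat_lit 6019083164) (nat_lit 152) (nat_lit 15259616945) (nat_lit 23) (nat_lit 5) (nat_lit 24) (nat_lit 5) (nat_lit 25) (nat_lit 4) (nat_lit 410) (nat_lit 284) (nat_lit 206)) (XT.lf (nat_lit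 0) (nat_lit 21320098080) (nat_lit 76) (nat_lit 281159853) (nat_lit 152) (nat_lit 10377691376) (nat_lit 23) (nat_lit 5) (nat_lit 24) (nat_lit 5) (nat_lit 25) (nat_lit 4) (nat_lit 411) (nat_lit 284) (nat_lit 205))) (XT.nd (nat_lit 78) (nat_lit 0) (nat_lit 0) (XT.lf (nat_lit 0) (nat_lit 175326643) (nat_lit 76) (nat_lit 27263645703) (nat_lit 76) (nat_lit 5321137531) (nat_lit 22) (nat_lit 4) (nat_lit 23) (nat_lit 5) (nat_lit 23) (nat_lit 4) (nat_lit 412) (nat_lit 284) (nat_lit 204)) (XT.lf (nat_lit 0) (nat_lit 11497132691) (nat_lit 76) (nat_lit 22036953426) (nat_lit 76) (nat_lit 28154472) (nat_lit 22) (nat_lit 4) (nat_lit 23) (nat_lit 5) (nat_lit 23) (nat_lit 4) (nat_lit 413) (nat_lit 284) (nat_lit 203))))))) (XT.nd (nat_lit 1014) (nat_lit 380) (nat_lit 0) (XT.nd (nat_lit 468) (nat_lit 228) (nat_lit 0) (XT.nd (nat_lit 234) (nat_lit 76) (nat_lit 0) (XT.nd (nat_lit 78) (nat_lit 76) (nat_lit 0) (XT.lf (nat_lit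 0) (nat_lit 5290207274) (nat_lit 152) (nat_lit 11334038170) (nat_lit 76) (nat_lit 17763456189) (nat_lit 21) (nat_lit 5) (nat_lit 23) (nat_lit 5) (nat_lit 22) (nat_lit 4) (nat_lit 414) (nat_lit 284) (nat_lit 202)) (XT.nd (nat_lit 78) (nat_lit 76) (nat_lit 0) (XT.lf (nat_lit 0) (nat_lit 10740780712) (nat_lit 152) (nat_lit 331859510) (nat_lit 76) (nat_lit 24166084201) (nat_lit 21) (nat_lit 5) (nat_lit 23) (nat_lit 5) (nat_lit 22) (nat_lit 4) (nat_lit 415) (nat_lit 284) (nat_lit 201)) (XT.lf (nat_lit 0) (nat_lit 11169264863) (nat_lit 76) (nat_lit 5266978820) (nat_lit 152) (nat_lit 19676596034) (nat_lit 20) (nat_lit 5) (nat_lit 21) (nat_lit 5) (nat_lit 22) (nat_lit 4) (nat_lit 416) (nat_lit 284) (nat_lit 200)))) (XT.nd (nat_lit 78) (nat_lit 76) (nat_lit 0) (XT.lf (nat_lit 0) (nat_lit 22286883741) (nat_lit 152) (nat_lit 14046882858) (nat_lit 0) (nat_lit 679885376) (nat_lit 20) (nat_lit 5) (nat_lit 22) (nat_lit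 4) (nat_lit 20) (nat_lit 4) (nat_lit 417) (nat_lit 284) (nat_lit 199)) (XT.nd (nat_lit 78) (nat_lit 76) (nat_lit 0) (XT.lf (nat_lit 0) (nat_lit 28340022875) (nat_lit 152) (nat_lit 2923152125) (nat_lit 0) (nat_lit 6677507023) (nat_lit 20) (nat_lit 5) (nat_lit 22) (nat_lit 4) (nat_lit 20) (nat_lit 4) (nat_lit 418) (nat_lit 284) (nat_lit 198)) (XT.lf (nat_lit 0) (nat_lit 8656893707) (nat_lit 76) (nat_lit 25976642462) (nat_lit 76) (nat_lit 4260226138) (nat_lit 19) (nat_lit 4) (nat_lit 20) (nat_lit 5) (nat_lit 20) (nat_lit 4) (nat_lit 419) (nat_lit 284) (nat_lit 197))))) (XT.nd (nat_lit 234) (nat_lit 76) (nat_lit 0) (XT.nd (nat_lit 78) (nat_lit 76) (nat_lit 0) (XT.lf (nat_lit 0) (nat_lit 1221618719) (nat_lit 152) (nat_lit 19288860879) (nat_lit 76) (nat_lit 19364438152) (nat_lit 18) (nat_lit 5) (nat_lit 20) (nat_lit 5) (nat_lit 19) (nat_lit 4) (nat_lit 420) (nat_lit 284) (nat_lit 196)) (XT.nd (nat_lit 78) (nat_lit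 76) (nat_lit 0) (XT.lf (nat_lit 0) (nat_lit 6758597015) (nat_lit 152) (nat_lit 8099601303) (nat_lit 76) (nat_lit 26026757496) (nat_lit 18) (nat_lit 5) (nat_lit 20) (nat_lit 5) (nat_lit 19) (nat_lit 4) (nat_lit 421) (nat_lit 284) (nat_lit 195)) (XT.lf (nat_lit 0) (nat_lit 3448940299) (nat_lit 76) (nat_lit 9022892268) (nat_lit 152) (nat_lit 29453160447) (nat_lit 17) (nat_lit 5) (nat_lit 18) (nat_lit 5) (nat_lit 19) (nat_lit 4) (nat_lit 422) (nat_lit 284) (nat_lit 194)))) (XT.nd (nat_lit 156) (nat_lit 76) (nat_lit 0) (XT.nd (nat_lit 78) (nat_lit 0) (nat_lit 0) (XT.lf (nat_lit 0) (nat_lit 15466703429) (nat_lit 76) (nat_lit 2948800567) (nat_lit 152) (nat_lit 24578958528) (nat_lit 17) (nat_lit 5) (nat_lit 18) (nat_lit 5) (nat_lit 19) (nat_lit 4) (nat_lit 423) (nat_lit 284) (nat_lit 193)) (XT.lf (nat_lit 0) (nat_lit 24546999313) (nat_lit 152) (nat_lit 16325292339) (nat_lit 0) (nat_lit 3223441346) (nat_lit 17)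 (nat_lit 5) (nat_lit 19) (nat_lit 4) (nat_lit 17) (nat_lit 4) (nat_lit 424) (nat_lit 284) (nat_lit 192))) (XT.nd (nat_lit 78) (nat_lit 76) (nat_lit 0) (XT.lf (nat_lit 0) (nat_lit 30870004366) (nat_lit 152) (nat_lit 4857192116) (nat_lit 0) (nat_lit 9502620383) (nat_lit 17) (nat_lit 5) (nat_lit 19) (nat_lit 4) (nat_lit 17) (nat_lit 4) (nat_lit 425) (nat_lit 284) (nat_lit 191)) (XT.lf (nat_lit 0) (nat_lit 7052528145) (nat_lit 76) (nat_lit 30376963507) (nat_lit 76) (nat_lit 8967029992) (nat_lit 16) (nat_lit 4) (nat_lit 17) (nat_lit 5) (nat_lit 17) (nat_lit 4) (nat_lit 426) (nat_lit 284) (nat_lit 190)))))) (XT.nd (nat_lit 546) (nat_lit 228) (nat_lit 0) (XT.nd (nat_lit 234) (nat_lit 76) (nat_lit 0) (XT.nd (nat_lit 78) (nat_lit 76) (nat_lit 0) (XT.lf (nat_lit 0) (nat_lit 19379457077) (nat_lit 76) (nat_lit 24834584000) (nat_lit 76) (nat_lit 3383340261) (nat_lit 16) (nat_lit 4) (nat_lit 17) (nat_lit 5) (nat_lit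 17) (nat_lit 4) (nat_lit 427) (nat_lit 284) (nat_lit 189)) (XT.nd (nat_lit 78) (nat_lit 0) (nat_lit 0) (XT.lf (nat_lit 0) (nat_lit 2301287398) (nat_lit 152) (nat_lit 16819737333) (nat_lit 76) (nat_lit 29713172246) (nat_lit 15) (nat_lit 5) (nat_lit 17) (nat_lit 5) (nat_lit 16) (nat_lit 4) (nat_lit 428) (nat_lit 284) (nat_lit 188)) (XT.lf (nat_lit 0) (nat_lit 8068678037) (nat_lit 152) (nat_lit 5150873183) (nat_lit 76) (nat_lit 36888156053) (nat_lit 15) (nat_lit 5) (nat_lit 17) (nat_lit 5) (nat_lit 16) (nat_lit 4) (nat_lit 429) (nat_lit 284) (nat_lit 187)))) (XT.nd (nat_lit 156) (nat_lit 0) (nat_lit 0) (XT.nd (nat_lit 78) (nat_lit 0) (nat_lit 0) (XT.lf (nat_lit 0) (nat_lit 6967345015) (nat_lit 76) (nat_lit 7089521646) (nat_lit 152) (nat_lit 37361124793) (nat_lit 14) (nat_lit 5) (nat_lit 15) (nat_lit 5) (nat_lit 16) (nat_lit 4) (nat_lit 430) (nat_lit 284) (nat_lit 186)) (XT.lf (nat_lit 0) (nat_lit 19518387247)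 (nat_lit 76) (nat_lit 739339429) (nat_lit 152) (nat_lit 32508868520) (nat_lit 14) (nat_lit 5) (nat_lit 15) (nat_lit 5) (nat_lit 16) (nat_lit 4) (nat_lit 431) (nat_lit 284) (nat_lit 185))) (XT.nd (nat_lit 78) (nat_lit 0) (nat_lit 0) (XT.lf (nat_lit 0) (nat_lit 26681781999) (nat_lit 152) (nat_lit 21801108333) (nat_lit 0) (nat_lit 5671653388) (nat_lit 14) (nat_lit 5) (nat_lit 16) (nat_lit 4) (nat_lit 14) (nat_lit 4) (nat_lit 432) (nat_lit 284) (nat_lit 184)) (XT.lf (nat_lit 0) (nat_lit 33287824221) (nat_lit 152) (nat_lit 10052523611) (nat_lit 0) (nat_lit 12244106618) (nat_lit 14) (nat_lit 5) (nat_lit 16) (nat_lit 4) (nat_lit 14) (nat_lit 4) (nat_lit 433) (nat_lit 284) (nat_lit 183))))) (XT.nd (nat_lit 234) (nat_lit 152) (nat_lit 0) (XT.nd (nat_lit 78) (nat_lit 0) (nat_lit 0) (XT.lf (nat_lit 0) (nat_lit 2055019792) (nat_lit 76) (nat_lit 38039252943) (nat_lit 76) (nat_lit 16962924668) (nat_lit 13) (nat_lit 4)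 (nat_lit 14) (nat_lit 5) (nat_lit 14) (nat_lit 4) (nat_lit 434) (nat_lit 284) (nat_lit 182)) (XT.nd (nat_lit 78) (nat_lit 0) (nat_lit 0) (XT.lf (nat_lit 0) (nat_lit 14698586087) (nat_lit 76) (nat_lit 32490501057) (nat_lit 76) (nat_lit 11382511935) (nat_lit 13) (nat_lit 4) (nat_lit 14) (nat_lit 5) (nat_lit 14) (nat_lit 4) (nat_lit 435) (nat_lit 284) (nat_lit 181)) (XT.lf (nat_lit 0) (nat_lit 27689158118) (nat_lit 76) (nat_lit 26790754528) (nat_lit 76) (nat_lit 5652026720) (nat_lit 13) (nat_lit 4) (nat_lit 14) (nat_lit 5) (nat_lit 14) (nat_lit 4) (nat_lit 436) (nat_lit 284) (nat_lit 180)))) (XT.nd (nat_lit 156) (nat_lit 76) (nat_lit 0) (XT.nd (nat_lit 78) (nat_lit 0) (nat_lit 0) (XT.lf (nat_lit 0) (nat_lit 228981026) (nat_lit 152) (nat_lit 20703739709) (nat_lit 76) (nat_lit 40806793585) (nat_lit 12) (nat_lit 5) (nat_lit 14) (nat_lit 5) (nat_lit 13) (nat_lit 4) (nat_lit 437) (nat_lit 284) (nat_lit 179)) (XT.lf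 (nat_lit 0) (nat_lit 6156793286) (nat_lit 152) (nat_lit 8699254981) (nat_lit 76) (nat_lit 48538071631) (nat_lit 12) (nat_lit 5) (nat_lit 14) (nat_lit 5) (nat_lit 13) (nat_lit 4) (nat_lit 438) (nat_lit 284) (nat_lit 178))) (XT.nd (nat_lit 78) (nat_lit 0) (nat_lit 0) (XT.lf (nat_lit 0) (nat_lit 3707846470) (nat_lit 76) (nat_lit 8574676719) (nat_lit 152) (nat_lit 52815239341) (nat_lit 11) (nat_lit 5) (nat_lit 12) (nat_lit 5) (nat_lit 13) (nat_lit 4) (nat_lit 439) (nat_lit 284) (nat_lit 177)) (XT.lf (nat_lit 0) (nat_lit 16635908761) (nat_lit 76) (nat_lit 2028571678) (nat_lit 152) (nat_lit 48185861686) (nat_lit 11) (nat_lit 5) (nat_lit 12) (nat_lit 5) (nat_lit 13) (nat_lit 4) (nat_lit 440) (nat_lit 284) (nat_lit 176))))))))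
noncomputable def xc67 : XT := (XT.nd (nat_lit 39702) (nat_lit 0) (nat_lit 3648) (XT.nd (nat_lit 38610) (nat_lit 0) (nat_lit 8588) (XT.nd (nat_lit 468) (nat_lit 0) (nat_lit 0) (XT.nd (nat_lit 234) (nat_lit 76) (nat_lit 0) (XT.nd (nat_lit 78) (nat_lit 0) (nat_lit 0) (XT.lf (nat_lit 0) (nat_lit 25268135321) (nat_lit 152) (nat_lit 38778033275) (nat_lit 0) (nat_lit 4608424650) (nat_lit 11) (nat_lit 5) (nat_lit 13) (nat_lit 4) (nat_lit 11) (nat_lit 4) (nat_lit 441) (nat_lit 284) (nat_lit 175)) (XT.nd (nat_lit 78) (nat_lit 0) (nat_lit 0) (XT.lf (nat_lit 0) (nat_lit 32075349637) (nat_lit 152) (nat_lit 27046814438) (nat_lit 0) (nat_lit 11390645600) (nat_lit 11) (nat_lit 5) (nat_lit 13) (nat_lit 4) (nat_lit 11) (nat_lit 4) (nat_lit 442) (nat_lit 284) (nat_lit 174)) (XT.lf (nat_lit 0) (nat_lit 39072571565) (nat_lit 152) (nat_lit 14991026402) (nat_lit 0) (nat_lit 18363602126) (nat_lit 11) (nat_lit 5) (nat_lit 13)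 (nat_lit 4) (nat_lit 11) (nat_lit 4) (nat_lit 443) (nat_lit 284) (nat_lit 173)))) (XT.nd (nat_lit 78) (nat_lit 76) (nat_lit 0) (XT.lf (nat_lit 0) (nat_lit 46265915184) (nat_lit 152) (nat_lit 2600134984) (nat_lit 0) (nat_lit 25533387101) (nat_lit 11) (nat_lit 5) (nat_lit 13) (nat_lit 4) (nat_lit 11) (nat_lit 4) (nat_lit 444) (nat_lit 284) (nat_lit 172)) (XT.nd (nat_lit 78) (nat_lit 0) (nat_lit 0) (XT.lf (nat_lit 0) (nat_lit 10338426753) (nat_lit 76) (nat_lit 43422618468) (nat_lit 76) (nat_lit 22667217916) (nat_lit 10) (nat_lit 4) (nat_lit 11) (nat_lit 5) (nat_lit 11) (nat_lit 4) (nat_lit 445) (nat_lit 284) (nat_lit 171)) (XT.lf (nat_lit 0) (nat_lit 23692902098) (nat_lit 76) (nat_lit 37801134707) (nat_lit 76) (nat_lit 17023527873) (nat_lit 10) (nat_lit 4) (nat_lit 11) (nat_lit 5) (nat_lit 11) (nat_lit 4) (nat_lit 446) (nat_lit 284) (nat_lit 170))))) (XT.nd (nat_lit 37830) (nat_lit 0) (nat_lit 13072) (XT.nd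 (nat_lit 78) (nat_lit 0) (nat_lit 0) (XT.lf (nat_lit 0) (nat_lit 37423212226) (nat_lit 76) (nat_lit 32022943173) (nat_lit 76) (nat_lit 11223776843) (nat_lit 10) (nat_lit 4) (nat_lit 11) (nat_lit 5) (nat_lit 11) (nat_lit 4) (nat_lit 447) (nat_lit 284) (nat_lit 169)) (XT.nd (nat_lit 37674) (nat_lit 0) (nat_lit 14896) (XT.lf (nat_lit 0) (nat_lit 51541354495) (nat_lit 76) (nat_lit 26082994961) (nat_lit 76) (nat_lit 5262897082) (nat_lit 10) (nat_lit 4) (nat_lit 11) (nat_lit 5) (nat_lit 11) (nat_lit 4) (nat_lit 448) (nat_lit 284) (nat_lit 168)) (XT.lf (nat_lit 0) (nat_lit 1231432418) (nat_lit 608) (nat_lit 1259335735) (nat_lit 0) (nat_lit 1231432418) (nat_lit 206) (nat_lit 5) (nat_lit 214) (nat_lit 4) (nat_lit 206) (nat_lit 4) (nat_lit 330) (nat_lit 285) (nat_lit 285)))) (XT.nd (nat_lit 156) (nat_lit 608) (nat_lit 0) (XT.nd (nat_lit 78) (nat_lit 608) (nat_lit 0) (XT.lf (nat_lit 0) (nat_lit 3010050361) (nat_lit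 608) (nat_lit 2990648537) (nat_lit 608) (nat_lit 1513712321) (nat_lit 198) (nat_lit 4) (nat_lit 206) (nat_lit 5) (nat_lit 206) (nat_lit 4) (nat_lit 331) (nat_lit 285) (nat_lit 284)) (XT.lf (nat_lit 0) (nat_lit 1059847842) (nat_lit 532) (nat_lit 896163347) (nat_lit 608) (nat_lit 5631846734) (nat_lit 190) (nat_lit 5) (nat_lit 197) (nat_lit 5) (nat_lit 198) (nat_lit 4) (nat_lit 332) (nat_lit 285) (nat_lit 283))) (XT.nd (nat_lit 78) (nat_lit 608) (nat_lit 0) (XT.lf (nat_lit 0) (nat_lit 5461268548) (nat_lit 608) (nat_lit 919412474) (nat_lit 0) (nat_lit 1283589996) (nat_lit 190) (nat_lit 5) (nat_lit 198) (nat_lit 4) (nat_lit 190) (nat_lit 4) (nat_lit 333) (nat_lit 285) (nat_lit 282)) (XT.lf (nat_lit 0) (nat_lit 1264278637) (nat_lit 608) (nat_lit 2923431615) (nat_lit 76) (nat_lit 3556102756) (nat_lit 182) (nat_lit 5) (nat_lit 190) (nat_lit 5) (nat_lit 183) (nat_lit 4) (nat_lit 334) (nat_lit 285) (nat_lit 281))))))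 (XT.nd (nat_lit 546) (nat_lit 2052) (nat_lit 0) (XT.nd (nat_lit 234) (nat_lit 1444) (nat_lit 0) (XT.nd (nat_lit 78) (nat_lit 532) (nat_lit 0) (XT.lf (nat_lit 0) (nat_lit 2848875648) (nat_lit 456) (nat_lit 1886499254) (nat_lit 532) (nat_lit 3091452527) (nat_lit 176) (nat_lit 5) (nat_lit 182) (nat_lit 5) (nat_lit 183) (nat_lit 4) (nat_lit 335) (nat_lit 285) (nat_lit 280)) (XT.nd (nat_lit 78) (nat_lit 0) (nat_lit 0) (XT.lf (nat_lit 0) (nat_lit 341301350) (nat_lit 532) (nat_lit 7074970136) (nat_lit 76) (nat_lit 497481074) (nat_lit 169) (nat_lit 5) (nat_lit 176) (nat_lit 5) (nat_lit 170) (nat_lit 4) (nat_lit 336) (nat_lit 285) (nat_lit 279)) (XT.lf (nat_lit 0) (nat_lit 3793774064) (nat_lit 532) (nat_lit 1232357613) (nat_lit 76) (nat_lit 2976926820) (nat_lit 169) (nat_lit 5) (nat_lit 176) (nat_lit 5) (nat_lit 170) (nat_lit 4) (nat_lit 337) (nat_lit 285) (nat_lit 278)))) (XT.nd (nat_lit 156) (nat_lit 456) (nat_lit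 0) (XT.nd (nat_lit 78) (nat_lit 532) (nat_lit 0) (XT.lf (nat_lit 0) (nat_lit 4769023595) (nat_lit 456) (nat_lit 2538706054) (nat_lit 532) (nat_lit 788632476) (nat_lit 163) (nat_lit 5) (nat_lit 169) (nat_lit 5) (nat_lit 170) (nat_lit 4) (nat_lit 338) (nat_lit 285) (nat_lit 277)) (XT.lf (nat_lit 0) (nat_lit 2633114945) (nat_lit 532) (nat_lit 5494239616) (nat_lit 76) (nat_lit 65819105) (nat_lit 156) (nat_lit 5) (nat_lit 163) (nat_lit 5) (nat_lit 157) (nat_lit 4) (nat_lit 339) (nat_lit 285) (nat_lit 276))) (XT.nd (nat_lit 78) (nat_lit 76) (nat_lit 0) (XT.lf (nat_lit 0) (nat_lit 548133028) (nat_lit 380) (nat_lit 5571812454) (nat_lit 456) (nat_lit 2173412421) (nat_lit 151) (nat_lit 5) (nat_lit 156) (nat_lit 5) (nat_lit 157) (nat_lit 4) (nat_lit 340) (nat_lit 285) (nat_lit 275)) (XT.lf (nat_lit 0) (nat_lit 1259708799) (nat_lit 456) (nat_lit 1635930482) (nat_lit 76) (nat_lit 5501461348) (nat_lit 150) (nat_lit 5)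 (nat_lit 156) (nat_lit 5) (nat_lit 151) (nat_lit 5) (nat_lit 341) (nat_lit 285) (nat_lit 274))))) (XT.nd (nat_lit 234) (nat_lit 760) (nat_lit 0) (XT.nd (nat_lit 78) (nat_lit 836) (nat_lit 0) (XT.lf (nat_lit 0) (nat_lit 4616210145) (nat_lit 456) (nat_lit 97296435) (nat_lit 532) (nat_lit 3791009207) (nat_lit 144) (nat_lit 5) (nat_lit 150) (nat_lit 5) (nat_lit 151) (nat_lit 5) (nat_lit 342) (nat_lit 285) (nat_lit 273)) (XT.nd (nat_lit 78) (nat_lit 456) (nat_lit 0) (XT.lf (nat_lit 0) (nat_lit 2384216779) (nat_lit 380) (nat_lit 5871194415) (nat_lit 456) (nat_lit 360252767) (nat_lit 139) (nat_lit 5) (nat_lit 144) (nat_lit 5) (nat_lit 145) (nat_lit 4) (nat_lit 343) (nat_lit 285) (nat_lit 272)) (XT.lf (nat_lit 0) (nat_lit 54103649) (nat_lit 380) (nat_lit 3017149797) (nat_lit 456) (nat_lit 5659228171) (nat_lit 133) (nat_lit 5) (nat_lit 138) (nat_lit 5) (nat_lit 139) (nat_lit 5) (nat_lit 344) (nat_lit 285) (nat_lit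 271)))) (XT.nd (nat_lit 156) (nat_lit 380) (nat_lit 0) (XT.nd (nat_lit 78) (nat_lit 380) (nat_lit 0) (XT.lf (nat_lit 0) (nat_lit 6542659700) (nat_lit 380) (nat_lit 38626766) (nat_lit 456) (nat_lit 2267907161) (nat_lit 133) (nat_lit 5) (nat_lit 138) (nat_lit 5) (nat_lit 139) (nat_lit 5) (nat_lit 345) (nat_lit 285) (nat_lit 270)) (XT.lf (nat_lit 0) (nat_lit 1192589180) (nat_lit 380) (nat_lit 4784802237) (nat_lit 76) (nat_lit 2994021105) (nat_lit 128) (nat_lit 5) (nat_lit 133) (nat_lit 5) (nat_lit 129) (nat_lit 5) (nat_lit 346) (nat_lit 285) (nat_lit 269))) (XT.nd (nat_lit 78) (nat_lit 0) (nat_lit 0) (XT.lf (nat_lit 0) (nat_lit 1726777726) (nat_lit 380) (nat_lit 2947471525) (nat_lit 456) (nat_lit 4423525129) (nat_lit 123) (nat_lit 5) (nat_lit 128) (nat_lit 5) (nat_lit 129) (nat_lit 5) (nat_lit 347) (nat_lit 285) (nat_lit 268)) (XT.lf (nat_lit 0) (nat_lit 8234165851) (nat_lit 456) (nat_lit 806868667) (nat_lit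 76) (nat_lit 187715248) (nat_lit 123) (nat_lit 5) (nat_lit 129) (nat_lit 5) (nat_lit 124) (nat_lit 4) (nat_lit 348) (nat_lit 285) (nat_lit 267))))))) (XT.nd (nat_lit 1014) (nat_lit 2052) (nat_lit 0) (XT.nd (nat_lit 468) (nat_lit 1216) (nat_lit 0) (XT.nd (nat_lit 234) (nat_lit 608) (nat_lit 0) (XT.nd (nat_lit 78) (nat_lit 684) (nat_lit 0) (XT.lf (nat_lit 0) (nat_lit 2499598220) (nat_lit 380) (nat_lit 3453879098) (nat_lit 76) (nat_lit 3409123677) (nat_lit 118) (nat_lit 5) (nat_lit 123) (nat_lit 5) (nat_lit 119) (nat_lit 5) (nat_lit 349) (nat_lit 285) (nat_lit 266)) (XT.nd (nat_lit 78) (nat_lit 380) (nat_lit 0) (XT.lf (nat_lit 0) (nat_lit 3289060164) (nat_lit 304) (nat_lit 2755369260) (nat_lit 380) (nat_lit 3456802247) (nat_lit 114) (nat_lit 5) (nat_lit 118) (nat_lit 5) (nat_lit 119) (nat_lit 5) (nat_lit 350) (nat_lit 285) (nat_lit 265)) (XT.lf (nat_lit 0) (nat_lit 22835117) (nat_lit 380) (nat_lit 9085732801)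 (nat_lit 76) (nat_lit 536302558) (nat_lit 109) (nat_lit 5) (nat_lit 114) (nat_lit 5) (nat_lit 110) (nat_lit 5) (nat_lit 351) (nat_lit 285) (nat_lit 264)))) (XT.nd (nat_lit 78) (nat_lit 608) (nat_lit 0) (XT.lf (nat_lit 0) (nat_lit 3555157437) (nat_lit 380) (nat_lit 2300692801) (nat_lit 76) (nat_lit 3935439090) (nat_lit 109) (nat_lit 5) (nat_lit 114) (nat_lit 5) (nat_lit 110) (nat_lit 5) (nat_lit 352) (nat_lit 285) (nat_lit 263)) (XT.nd (nat_lit 78) (nat_lit 304) (nat_lit 0) (XT.lf (nat_lit 0) (nat_lit 4673702969) (nat_lit 304) (nat_lit 2493936447) (nat_lit 380) (nat_lit 2775265611) (nat_lit 105) (nat_lit 5) (nat_lit 109) (nat_lit 5) (nat_lit 110) (nat_lit 5) (nat_lit 353) (nat_lit 285) (nat_lit 262)) (XT.lf (nat_lit 0) (nat_lit 753124516) (nat_lit 304) (nat_lit 8383030699) (nat_lit 76) (nat_lit 963341516) (nat_lit 101) (nat_lit 5) (nat_lit 105) (nat_lit 5) (nat_lit 102) (nat_lit 5) (nat_lit 354) (nat_lit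 285) (nat_lit 261))))) (XT.nd (nat_lit 234) (nat_lit 608) (nat_lit 0) (XT.nd (nat_lit 78) (nat_lit 608) (nat_lit 0) (XT.lf (nat_lit 0) (nat_lit 4340319435) (nat_lit 304) (nat_lit 1398692243) (nat_lit 76) (nat_lit 4520715612) (nat_lit 101) (nat_lit 5) (nat_lit 105) (nat_lit 5) (nat_lit 102) (nat_lit 5) (nat_lit 355) (nat_lit 285) (nat_lit 260)) (XT.nd (nat_lit 78) (nat_lit 304) (nat_lit 0) (XT.lf (nat_lit 0) (nat_lit 5805033255) (nat_lit 304) (nat_lit 2218233730) (nat_lit 380) (nat_lit 2401880316) (nat_lit 97) (nat_lit 5) (nat_lit 101) (nat_lit 5) (nat_lit 102) (nat_lit 5) (nat_lit 356) (nat_lit 285) (nat_lit 259)) (XT.lf (nat_lit 0) (nat_lit 1182863332) (nat_lit 304) (nat_lit 8016346462) (nat_lit 76) (nat_lit 1396427475) (nat_lit 93) (nat_lit 5) (nat_lit 97) (nat_lit 5) (nat_lit 94) (nat_lit 5) (nat_lit 357) (nat_lit 285) (nat_lit 258)))) (XT.nd (nat_lit 156) (nat_lit 304) (nat_lit 0) (XT.nd (nat_lit 78)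 (nat_lit 304) (nat_lit 0) (XT.lf (nat_lit 0) (nat_lit 4829213487) (nat_lit 304) (nat_lit 831083522) (nat_lit 76) (nat_lit 5110185683) (nat_lit 93) (nat_lit 5) (nat_lit 97) (nat_lit 5) (nat_lit 94) (nat_lit 5) (nat_lit 358) (nat_lit 285) (nat_lit 257)) (XT.lf (nat_lit 0) (nat_lit 6597090494) (nat_lit 304) (nat_lit 1986483670) (nat_lit 380) (nat_lit 2367064382) (nat_lit 89) (nat_lit 5) (nat_lit 93) (nat_lit 5) (nat_lit 94) (nat_lit 5) (nat_lit 359) (nat_lit 285) (nat_lit 256))) (XT.nd (nat_lit 78) (nat_lit 0) (nat_lit 0) (XT.lf (nat_lit 0) (nat_lit 1279646294) (nat_lit 304) (nat_lit 8079271704) (nat_lit 76) (nat_lit 1777196519) (nat_lit 85) (nat_lit 5) (nat_lit 89) (nat_lit 5) (nat_lit 86) (nat_lit 5) (nat_lit 360) (nat_lit 285) (nat_lit 255)) (XT.lf (nat_lit 0) (nat_lit 4988275529) (nat_lit 304) (nat_lit 692855899) (nat_lit 76) (nat_lit 5645339123) (nat_lit 85) (nat_lit 5) (nat_lit 89) (nat_lit 5) (nat_lit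 86) (nat_lit 5) (nat_lit 361) (nat_lit 285) (nat_lit 254)))))) (XT.nd (nat_lit 546) (nat_lit 836) (nat_lit 0) (XT.nd (nat_lit 234) (nat_lit 684) (nat_lit 0) (XT.nd (nat_lit 78) (nat_lit 304) (nat_lit 0) (XT.lf (nat_lit 0) (nat_lit 6951510941) (nat_lit 228) (nat_lit 1861365325) (nat_lit 304) (nat_lit 2709540650) (nat_lit 82) (nat_lit 5) (nat_lit 85) (nat_lit 5) (nat_lit 86) (nat_lit 5) (nat_lit 362) (nat_lit 285) (nat_lit 253)) (XT.nd (nat_lit 78) (nat_lit 0) (nat_lit 0) (XT.lf (nat_lit 0) (nat_lit 1002600940) (nat_lit 304) (nat_lit 8679065847) (nat_lit 76) (nat_lit 2042457648) (nat_lit 78) (nat_lit 5) (nat_lit 82) (nat_lit 5) (nat_lit 79) (nat_lit 5) (nat_lit 363) (nat_lit 285) (nat_lit 252)) (XT.lf (nat_lit 0) (nat_lit 4775312400) (nat_lit 304) (nat_lit 1093091420) (nat_lit 76) (nat_lit 6062583849) (nat_lit 78) (nat_lit 5) (nat_lit 82) (nat_lit 5) (nat_lit 79) (nat_lit 5) (nat_lit 364) (nat_lit 285) (nat_lit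 251)))) (XT.nd (nat_lit 156) (nat_lit 228) (nat_lit 0) (XT.nd (nat_lit 78) (nat_lit 228) (nat_lit 0) (XT.lf (nat_lit 0) (nat_lit 6755113157) (nat_lit 228) (nat_lit 1911435214) (nat_lit 304) (nat_lit 3477366816) (nat_lit 75) (nat_lit 5) (nat_lit 78) (nat_lit 5) (nat_lit 79) (nat_lit 5) (nat_lit 365) (nat_lit 285) (nat_lit 250)) (XT.lf (nat_lit 0) (nat_lit 301302382) (nat_lit 228) (nat_lit 9939233503) (nat_lit 76) (nat_lit 2122739910) (nat_lit 72) (nat_lit 5) (nat_lit 75) (nat_lit 5) (nat_lit 73) (nat_lit 5) (nat_lit 366) (nat_lit 285) (nat_lit 249))) (XT.nd (nat_lit 78) (nat_lit 228) (nat_lit 0) (XT.lf (nat_lit 0) (nat_lit 4138378348) (nat_lit 228) (nat_lit 2157608619) (nat_lit 76) (nat_lit 6291766320) (nat_lit 72) (nat_lit 5) (nat_lit 75) (nat_lit 5) (nat_lit 73) (nat_lit 5) (nat_lit 367) (nat_lit 285) (nat_lit 248)) (XT.lf (nat_lit 0) (nat_lit 5877131797) (nat_lit 228) (nat_lit 2212704248) (nat_lit 304)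 (nat_lit 4729167576) (nat_lit 69) (nat_lit 5) (nat_lit 72) (nat_lit 5) (nat_lit 73) (nat_lit 5) (nat_lit 368) (nat_lit 285) (nat_lit 247))))) (XT.nd (nat_lit 234) (nat_lit 380) (nat_lit 0) (XT.nd (nat_lit 78) (nat_lit 304) (nat_lit 0) (XT.lf (nat_lit 0) (nat_lit 1046212400) (nat_lit 152) (nat_lit 11108019471) (nat_lit 228) (nat_lit 903143879) (nat_lit 67) (nat_lit 5) (nat_lit 69) (nat_lit 5) (nat_lit 70) (nat_lit 4) (nat_lit 369) (nat_lit 285) (nat_lit 246)) (XT.nd (nat_lit 78) (nat_lit 228) (nat_lit 0) (XT.lf (nat_lit 0) (nat_lit 3014437832) (nat_lit 228) (nat_lit 4031998215) (nat_lit 76) (nat_lit 6254520601) (nat_lit 66) (nat_lit 5) (nat_lit 69) (nat_lit 5) (nat_lit 67) (nat_lit 5) (nat_lit 370) (nat_lit 285) (nat_lit 245)) (XT.lf (nat_lit 0) (nat_lit 4166038938) (nat_lit 228) (nat_lit 2850403916) (nat_lit 304) (nat_lit 6535597161) (nat_lit 63) (nat_lit 5) (nat_lit 66) (nat_lit 5) (nat_lit 67) (nat_lit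 5) (nat_lit 371) (nat_lit 285) (nat_lit 244)))) (XT.nd (nat_lit 156) (nat_lit 152) (nat_lit 0) (XT.nd (nat_lit 78) (nat_lit 228) (nat_lit 0) (XT.lf (nat_lit 0) (nat_lit 11139129120) (nat_lit 304) (nat_lit 1224539046) (nat_lit 76) (nat_lit 1446983404) (nat_lit 63) (nat_lit 5) (nat_lit 67) (nat_lit 5) (nat_lit 64) (nat_lit 4) (nat_lit 372) (nat_lit 285) (nat_lit 243)) (XT.lf (nat_lit 0) (nat_lit 1327784018) (nat_lit 228) (nat_lit 6885117465) (nat_lit 76) (nat_lit 5862410872) (nat_lit 60) (nat_lit 5) (nat_lit 63) (nat_lit 5) (nat_lit 61) (nat_lit 5) (nat_lit 373) (nat_lit 285) (nat_lit 242))) (XT.nd (nat_lit 78) (nat_lit 0) (nat_lit 0) (XT.lf (nat_lit 0) (nat_lit 1445883035) (nat_lit 152) (nat_lit 3920979387) (nat_lit 228) (nat_lit 8981065494) (nat_lit 58) (nat_lit 5) (nat_lit 60) (nat_lit 5) (nat_lit 61) (nat_lit 5) (nat_lit 374) (nat_lit 285) (nat_lit 241)) (XT.lf (nat_lit 0) (nat_lit 9549548588) (nat_lit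 228) (nat_lit 4555194180) (nat_lit 76) (nat_lit 523318836) (nat_lit 58) (nat_lit 5) (nat_lit 61) (nat_lit 5) (nat_lit 59) (nat_lit 4) (nat_lit 375) (nat_lit 285) (nat_lit 240))))))))
noncomputable def xc68 : XT := (XT.nd (nat_lit 2028) (nat_lit 1064) (nat_lit 0) (XT.nd (nat_lit 1014) (nat_lit 912) (nat_lit 0) (XT.nd (nat_lit 468) (nat_lit 456) (nat_lit 0) (XT.nd (nat_lit 234) (nat_lit 380) (nat_lit 0) (XT.nd (nat_lit 78) (nat_lit 228) (nat_lit 0) (XT.lf (nat_lit 0) (nat_lit 3992787206) (nat_lit 152) (nat_lit 9891079773) (nat_lit 228) (nat_lit 1031960126) (nat_lit 56) (nat_lit 5) (nat_lit 58) (nat_lit 5) (nat_lit 59) (nat_lit 4) (nat_lit 376) (nat_lit 285) (nat_lit 239)) (XT.nd (nat_lit 78) (nat_lit 152) (nat_lit 0) (XT.lf (nat_lit 0) (nat_lit 3070332808) (nat_lit 228) (nat_lit 2439386594) (nat_lit 76) (nat_lit 9701747323) (nat_lit 55) (nat_lit 5) (nat_lit 58) (nat_lit 5) (nat_lit 56) (nat_lit 5) (nat_lit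 377) (nat_lit 285) (nat_lit 238)) (XT.lf (nat_lit 0) (nat_lit 6326055884) (nat_lit 152) (nat_lit 960274125) (nat_lit 228) (nat_lit 8229008999) (nat_lit 53) (nat_lit 5) (nat_lit 55) (nat_lit 5) (nat_lit 56) (nat_lit 5) (nat_lit 378) (nat_lit 285) (nat_lit 237)))) (XT.nd (nat_lit 78) (nat_lit 380) (nat_lit 0) (XT.lf (nat_lit 0) (nat_lit 11640337097) (nat_lit 228) (nat_lit 545409918) (nat_lit 76) (nat_lit 3642245522) (nat_lit 53) (nat_lit 5) (nat_lit 56) (nat_lit 5) (nat_lit 54) (nat_lit 4) (nat_lit 379) (nat_lit 285) (nat_lit 236)) (XT.nd (nat_lit 78) (nat_lit 152) (nat_lit 0) (XT.lf (nat_lit 0) (nat_lit 18645445) (nat_lit 228) (nat_lit 7719901751) (nat_lit 76) (nat_lit 8410199514) (nat_lit 50) (nat_lit 5) (nat_lit 53) (nat_lit 5) (nat_lit 51) (nat_lit 5) (nat_lit 380) (nat_lit 285) (nat_lit 235)) (XT.lf (nat_lit 0) (nat_lit 1100654628) (nat_lit 152) (nat_lit 3134843352) (nat_lit 228) (nat_lit 12243335803)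 (nat_lit 48) (nat_lit 5) (nat_lit 50) (nat_lit 5) (nat_lit 51) (nat_lit 5) (nat_lit 381) (nat_lit 285) (nat_lit 234))))) (XT.nd (nat_lit 234) (nat_lit 228) (nat_lit 0) (XT.nd (nat_lit 78) (nat_lit 228) (nat_lit 0) (XT.lf (nat_lit 0) (nat_lit 8625661506) (nat_lit 228) (nat_lit 6572734096) (nat_lit 76) (nat_lit 1619033456) (nat_lit 48) (nat_lit 5) (nat_lit 51) (nat_lit 5) (nat_lit 49) (nat_lit 4) (nat_lit 382) (nat_lit 285) (nat_lit 233)) (XT.nd (nat_lit 78) (nat_lit 76) (nat_lit 0) (XT.lf (nat_lit 0) (nat_lit 2431627444) (nat_lit 152) (nat_lit 10724325037) (nat_lit 228) (nat_lit 4009986500) (nat_lit 46) (nat_lit 5) (nat_lit 48) (nat_lit 5) (nat_lit 49) (nat_lit 4) (nat_lit 383) (nat_lit 285) (nat_lit 232)) (XT.lf (nat_lit 0) (nat_lit 312590141) (nat_lit 228) (nat_lit 5767353291) (nat_lit 76) (nat_lit 11444249697) (nat_lit 45) (nat_lit 5) (nat_lit 48) (nat_lit 5) (nat_lit 46) (nat_lit 5) (nat_lit 384) (nat_lit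 285) (nat_lit 231)))) (XT.nd (nat_lit 156) (nat_lit 76) (nat_lit 0) (XT.nd (nat_lit 78) (nat_lit 0) (nat_lit 0) (XT.lf (nat_lit 0) (nat_lit 3416174479) (nat_lit 152) (nat_lit 1256361362) (nat_lit 228) (nat_lit 13219827981) (nat_lit 43) (nat_lit 5) (nat_lit 45) (nat_lit 5) (nat_lit 46) (nat_lit 5) (nat_lit 385) (nat_lit 285) (nat_lit 230)) (XT.lf (nat_lit 0) (nat_lit 9213436097) (nat_lit 228) (nat_lit 5392273028) (nat_lit 76) (nat_lit 3664374238) (nat_lit 43) (nat_lit 5) (nat_lit 46) (nat_lit 5) (nat_lit 44) (nat_lit 4) (nat_lit 386) (nat_lit 285) (nat_lit 229))) (XT.nd (nat_lit 78) (nat_lit 0) (nat_lit 0) (XT.lf (nat_lit 0) (nat_lit 3951533327) (nat_lit 76) (nat_lit 9946404562) (nat_lit 152) (nat_lit 4760983532) (nat_lit 42) (nat_lit 5) (nat_lit 43) (nat_lit 5) (nat_lit 44) (nat_lit 4) (nat_lit 387) (nat_lit 285) (nat_lit 228)) (XT.lf (nat_lit 0) (nat_lit 13609651121) (nat_lit 76) (nat_lit 5125243873) (nat_lit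 152) (nat_lit 324179946) (nat_lit 42) (nat_lit 5) (nat_lit 43) (nat_lit 5) (nat_lit 44) (nat_lit 4) (nat_lit 388) (nat_lit 285) (nat_lit 227)))))) (XT.nd (nat_lit 468) (nat_lit 380) (nat_lit 0) (XT.nd (nat_lit 234) (nat_lit 228) (nat_lit 0) (XT.nd (nat_lit 78) (nat_lit 76) (nat_lit 0) (XT.lf (nat_lit 0) (nat_lit 4049336664) (nat_lit 152) (nat_lit 110757604) (nat_lit 228) (nat_lit 15310005415) (nat_lit 39) (nat_lit 5) (nat_lit 41) (nat_lit 5) (nat_lit 42) (nat_lit 5) (nat_lit 389) (nat_lit 285) (nat_lit 226)) (XT.nd (nat_lit 78) (nat_lit 76) (nat_lit 0) (XT.lf (nat_lit 0) (nat_lit 8835009705) (nat_lit 228) (nat_lit 6074709721) (nat_lit 76) (nat_lit 4981767846) (nat_lit 39) (nat_lit 5) (nat_lit 42) (nat_lit 5) (nat_lit 40) (nat_lit 4) (nat_lit 390) (nat_lit 285) (nat_lit 225)) (XT.lf (nat_lit 0) (nat_lit 3546696643) (nat_lit 76) (nat_lit 10098346799) (nat_lit 152) (nat_lit 6680633965) (nat_lit 38) (nat_lit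 5) (nat_lit 39) (nat_lit 5) (nat_lit 40) (nat_lit 4) (nat_lit 391) (nat_lit 285) (nat_lit 224)))) (XT.nd (nat_lit 78) (nat_lit 228) (nat_lit 0) (XT.lf (nat_lit 0) (nat_lit 13508847113) (nat_lit 76) (nat_lit 5112033102) (nat_lit 152) (nat_lit 2151374810) (nat_lit 38) (nat_lit 5) (nat_lit 39) (nat_lit 5) (nat_lit 40) (nat_lit 4) (nat_lit 392) (nat_lit 285) (nat_lit 223)) (XT.nd (nat_lit 78) (nat_lit 0) (nat_lit 0) (XT.lf (nat_lit 0) (nat_lit 2449982556) (nat_lit 228) (nat_lit 18741385154) (nat_lit 76) (nat_lit 40585603) (nat_lit 35) (nat_lit 5) (nat_lit 38) (nat_lit 5) (nat_lit 36) (nat_lit 4) (nat_lit 393) (nat_lit 285) (nat_lit 222)) (XT.lf (nat_lit 0) (nat_lit 7231912598) (nat_lit 228) (nat_lit 9161087163) (nat_lit 76) (nat_lit 5309236851) (nat_lit 35) (nat_lit 5) (nat_lit 38) (nat_lit 5) (nat_lit 36) (nat_lit 4) (nat_lit 394) (nat_lit 285) (nat_lit 221))))) (XT.nd (nat_lit 234) (nat_lit 304) (nat_lit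 0) (XT.nd (nat_lit 78) (nat_lit 0) (nat_lit 0) (XT.lf (nat_lit 0) (nat_lit 650121390) (nat_lit 76) (nat_lit 11475647826) (nat_lit 152) (nat_lit 10061811209) (nat_lit 34) (nat_lit 5) (nat_lit 35) (nat_lit 5) (nat_lit 36) (nat_lit 4) (nat_lit 395) (nat_lit 285) (nat_lit 220)) (XT.nd (nat_lit 78) (nat_lit 0) (nat_lit 0) (XT.lf (nat_lit 0) (nat_lit 10874953200) (nat_lit 76) (nat_lit 6346658547) (nat_lit 152) (nat_lit 5464223600) (nat_lit 34) (nat_lit 5) (nat_lit 35) (nat_lit 5) (nat_lit 36) (nat_lit 4) (nat_lit 396) (nat_lit 285) (nat_lit 219)) (XT.lf (nat_lit 0) (nat_lit 21340018987) (nat_lit 76) (nat_lit 1094059300) (nat_lit 152) (nat_lit 766052894) (nat_lit 34) (nat_lit 5) (nat_lit 35) (nat_lit 5) (nat_lit 36) (nat_lit 4) (nat_lit 397) (nat_lit 285) (nat_lit 218)))) (XT.nd (nat_lit 156) (nat_lit 76) (nat_lit 0) (XT.nd (nat_lit 78) (nat_lit 0) (nat_lit 0) (XT.lf (nat_lit 0) (nat_lit 4081651583) (nat_lit 228)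 (nat_lit 15320087631) (nat_lit 76) (nat_lit 4324305429) (nat_lit 31) (nat_lit 5) (nat_lit 34) (nat_lit 5) (nat_lit 32) (nat_lit 4) (nat_lit 398) (nat_lit 285) (nat_lit 217)) (XT.lf (nat_lit 0) (nat_lit 9053773011) (nat_lit 228) (nat_lit 5333058378) (nat_lit 76) (nat_lit 9880850338) (nat_lit 31) (nat_lit 5) (nat_lit 34) (nat_lit 5) (nat_lit 32) (nat_lit 4) (nat_lit 399) (nat_lit 285) (nat_lit 216))) (XT.nd (nat_lit 78) (nat_lit 0) (nat_lit 0) (XT.lf (nat_lit 0) (nat_lit 4987386916) (nat_lit 76) (nat_lit 9201225589) (nat_lit 152) (nat_lit 10636553876) (nat_lit 30) (nat_lit 5) (nat_lit 31) (nat_lit 5) (nat_lit 32) (nat_lit 4) (nat_lit 400) (nat_lit 285) (nat_lit 215)) (XT.lf (nat_lit 0) (nat_lit 15663874032) (nat_lit 76) (nat_lit 3833486194) (nat_lit 152) (nat_lit 5901424397) (nat_lit 30) (nat_lit 5) (nat_lit 31) (nat_lit 5) (nat_lit 32) (nat_lit 4) (nat_lit 401) (nat_lit 285) (nat_lit 214))))))) (XT.nd (nat_lit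 1014) (nat_lit 380) (nat_lit 0) (XT.nd (nat_lit 468) (nat_lit 380) (nat_lit 0) (XT.nd (nat_lit 234) (nat_lit 76) (nat_lit 0) (XT.nd (nat_lit 78) (nat_lit 76) (nat_lit 0) (XT.lf (nat_lit 0) (nat_lit 604762114) (nat_lit 152) (nat_lit 24349447602) (nat_lit 152) (nat_lit 1035741313) (nat_lit 28) (nat_lit 4) (nat_lit 30) (nat_lit 5) (nat_lit 30) (nat_lit 4) (nat_lit 402) (nat_lit 285) (nat_lit 213)) (XT.nd (nat_lit 78) (nat_lit 0) (nat_lit 0) (XT.lf (nat_lit 0) (nat_lit 4002340604) (nat_lit 228) (nat_lit 15280716808) (nat_lit 76) (nat_lit 7311532588) (nat_lit 27) (nat_lit 5) (nat_lit 30) (nat_lit 5) (nat_lit 28) (nat_lit 4) (nat_lit 403) (nat_lit 285) (nat_lit 212)) (XT.lf (nat_lit 0) (nat_lit 9138495751) (nat_lit 228) (nat_lit 4943411128) (nat_lit 76) (nat_lit 13136125560) (nat_lit 27) (nat_lit 5) (nat_lit 30) (nat_lit 5) (nat_lit 28) (nat_lit 4) (nat_lit 404) (nat_lit 285) (nat_lit 211)))) (XT.nd (nat_lit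 78) (nat_lit 0) (nat_lit 0) (XT.lf (nat_lit 0) (nat_lit 5758077736) (nat_lit 76) (nat_lit 8694695502) (nat_lit 152) (nat_lit 13406688045) (nat_lit 26) (nat_lit 5) (nat_lit 27) (nat_lit 5) (nat_lit 28) (nat_lit 4) (nat_lit 405) (nat_lit 285) (nat_lit 210)) (XT.nd (nat_lit 78) (nat_lit 0) (nat_lit 0) (XT.lf (nat_lit 0) (nat_lit 16824221065) (nat_lit 76) (nat_lit 3121221389) (nat_lit 152) (nat_lit 8574125773) (nat_lit 26) (nat_lit 5) (nat_lit 27) (nat_lit 5) (nat_lit 28) (nat_lit 4) (nat_lit 406) (nat_lit 285) (nat_lit 209)) (XT.lf (nat_lit 0) (nat_lit 25597767993) (nat_lit 152) (nat_lit 1059009270) (nat_lit 0) (nat_lit 2542858847) (nat_lit 26) (nat_lit 5) (nat_lit 28) (nat_lit 4) (nat_lit 26) (nat_lit 4) (nat_lit 407) (nat_lit 285) (nat_lit 208))))) (XT.nd (nat_lit 234) (nat_lit 152) (nat_lit 0) (XT.nd (nat_lit 78) (nat_lit 76) (nat_lit 0) (XT.lf (nat_lit 0) (nat_lit 1588531654) (nat_lit 152) (nat_lit 19907039071)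 (nat_lit 76) (nat_lit 8401142090) (nat_lit 24) (nat_lit 5) (nat_lit 26) (nat_lit 5) (nat_lit 25) (nat_lit 4) (nat_lit 408) (nat_lit 285) (nat_lit 207)) (XT.nd (nat_lit 78) (nat_lit 76) (nat_lit 0) (XT.lf (nat_lit 0) (nat_lit 6843669525) (nat_lit 152) (nat_lit 9313720055) (nat_lit 76) (nat_lit 14456803455) (nat_lit 24) (nat_lit 5) (nat_lit 26) (nat_lit 5) (nat_lit 25) (nat_lit 4) (nat_lit 409) (nat_lit 285) (nat_lit 206)) (XT.lf (nat_lit 0) (nat_lit 1574633049) (nat_lit 76) (nat_lit 10668440826) (nat_lit 152) (nat_lit 19110528983) (nat_lit 23) (nat_lit 5) (nat_lit 24) (nat_lit 5) (nat_lit 25) (nat_lit 4) (nat_lit 410) (nat_lit 285) (nat_lit 205)))) (XT.nd (nat_lit 156) (nat_lit 152) (nat_lit 0) (XT.nd (nat_lit 78) (nat_lit 0) (nat_lit 0) (XT.lf (nat_lit 0) (nat_lit 12927591066) (nat_lit 76) (nat_lit 4942717247) (nat_lit 152) (nat_lit 14242914690) (nat_lit 23) (nat_lit 5) (nat_lit 24) (nat_lit 5) (nat_lit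 25) (nat_lit 4) (nat_lit 411) (nat_lit 285) (nat_lit 204)) (XT.lf (nat_lit 0) (nat_lit 23647925641) (nat_lit 152) (nat_lit 8335690564) (nat_lit 0) (nat_lit 912571936) (nat_lit 23) (nat_lit 5) (nat_lit 25) (nat_lit 4) (nat_lit 23) (nat_lit 4) (nat_lit 412) (nat_lit 285) (nat_lit 203))) (XT.nd (nat_lit 78) (nat_lit 76) (nat_lit 0) (XT.lf (nat_lit 0) (nat_lit 2794845134) (nat_lit 76) (nat_lit 26853022090) (nat_lit 76) (nat_lit 4053308402) (nat_lit 22) (nat_lit 4) (nat_lit 23) (nat_lit 5) (nat_lit 23) (nat_lit 4) (nat_lit 413) (nat_lit 285) (nat_lit 202)) (XT.lf (nat_lit 0) (nat_lit 1330409785) (nat_lit 152) (nat_lit 20161467243) (nat_lit 76) (nat_lit 13036317591) (nat_lit 21) (nat_lit 5) (nat_lit 23) (nat_lit 5) (nat_lit 22) (nat_lit 4) (nat_lit 414) (nat_lit 285) (nat_lit 201)))))) (XT.nd (nat_lit 546) (nat_lit 152) (nat_lit 0) (XT.nd (nat_lit 234) (nat_lit 152) (nat_lit 0) (XT.nd (nat_lit 78) (nat_lit 76)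 (nat_lit 0) (XT.lf (nat_lit 0) (nat_lit 6768178555) (nat_lit 152) (nat_lit 9183462097) (nat_lit 76) (nat_lit 19427962370) (nat_lit 21) (nat_lit 5) (nat_lit 23) (nat_lit 5) (nat_lit 22) (nat_lit 4) (nat_lit 415) (nat_lit 285) (nat_lit 200)) (XT.nd (nat_lit 78) (nat_lit 0) (nat_lit 0) (XT.lf (nat_lit 0) (nat_lit 2117561508) (nat_lit 76) (nat_lit 10246637790) (nat_lit 152) (nat_lit 23892503715) (nat_lit 20) (nat_lit 5) (nat_lit 21) (nat_lit 5) (nat_lit 22) (nat_lit 4) (nat_lit 416) (nat_lit 285) (nat_lit 199)) (XT.lf (nat_lit 0) (nat_lit 13898691933) (nat_lit 76) (nat_lit 4297188860) (nat_lit 152) (nat_lit 18962204622) (nat_lit 20) (nat_lit 5) (nat_lit 21) (nat_lit 5) (nat_lit 22) (nat_lit 4) (nat_lit 417) (nat_lit 285) (nat_lit 198)))) (XT.nd (nat_lit 156) (nat_lit 152) (nat_lit 0) (XT.nd (nat_lit 78) (nat_lit 0) (nat_lit 0) (XT.lf (nat_lit 0) (nat_lit 24195675590) (nat_lit 152) (nat_lit 12117175246) (nat_lit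 0) (nat_lit 1773866304) (nat_lit 20) (nat_lit 5) (nat_lit 22) (nat_lit 4) (nat_lit 20) (nat_lit 4) (nat_lit 418) (nat_lit 285) (nat_lit 197)) (XT.lf (nat_lit 0) (nat_lit 30394286995) (nat_lit 152) (nat_lit 728211642) (nat_lit 0) (nat_lit 7920147152) (nat_lit 20) (nat_lit 5) (nat_lit 22) (nat_lit 4) (nat_lit 20) (nat_lit 4) (nat_lit 419) (nat_lit 285) (nat_lit 196))) (XT.nd (nat_lit 78) (nat_lit 76) (nat_lit 0) (XT.lf (nat_lit 0) (nat_lit 11176856789) (nat_lit 76) (nat_lit 25686406056) (nat_lit 76) (nat_lit 3161459848) (nat_lit 19) (nat_lit 4) (nat_lit 20) (nat_lit 5) (nat_lit 20) (nat_lit 4) (nat_lit 420) (nat_lit 285) (nat_lit 195)) (XT.lf (nat_lit 0) (nat_lit 2425877198) (nat_lit 152) (nat_lit 17649742062) (nat_lit 76) (nat_lit 20960394373) (nat_lit 18) (nat_lit 5) (nat_lit 20) (nat_lit 5) (nat_lit 19) (nat_lit 4) (nat_lit 421) (nat_lit 285) (nat_lit 194))))) (XT.nd (nat_lit 234) (nat_lit 76) (nat_lit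 0) (XT.nd (nat_lit 78) (nat_lit 76) (nat_lit 0) (XT.lf (nat_lit 0) (nat_lit 8094956787) (nat_lit 152) (nat_lit 6189400368) (nat_lit 76) (nat_lit 27793019519) (nat_lit 18) (nat_lit 5) (nat_lit 20) (nat_lit 5) (nat_lit 19) (nat_lit 4) (nat_lit 422) (nat_lit 285) (nat_lit 193)) (XT.nd (nat_lit 78) (nat_lit 0) (nat_lit 0) (XT.lf (nat_lit 0) (nat_lit 5684487786) (nat_lit 76) (nat_lit 8282578939) (nat_lit 152) (nat_lit 29181927431) (nat_lit 17) (nat_lit 5) (nat_lit 18) (nat_lit 5) (nat_lit 19) (nat_lit 4) (nat_lit 423) (nat_lit 285) (nat_lit 192)) (XT.lf (nat_lit 0) (nat_lit 18000684414) (nat_lit 76) (nat_lit 2055711092) (nat_lit 152) (nat_lit 24195135217) (nat_lit 17) (nat_lit 5) (nat_lit 18) (nat_lit 5) (nat_lit 19) (nat_lit 4) (nat_lit 424) (nat_lit 285) (nat_lit 191)))) (XT.nd (nat_lit 156) (nat_lit 76) (nat_lit 0) (XT.nd (nat_lit 78) (nat_lit 0) (nat_lit 0) (XT.lf (nat_lit 0) (nat_lit 26349294421) (nat_lit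 152) (nat_lit 14782711045) (nat_lit 0) (nat_lit 4254513371) (nat_lit 17) (nat_lit 5) (nat_lit 19) (nat_lit 4) (nat_lit 17) (nat_lit 4) (nat_lit 425) (nat_lit 285) (nat_lit 190)) (XT.lf (nat_lit 0) (nat_lit 32830944428) (nat_lit 152) (nat_lit 3029762186) (nat_lit 0) (nat_lit 10694853153) (nat_lit 17) (nat_lit 5) (nat_lit 19) (nat_lit 4) (nat_lit 17) (nat_lit 4) (nat_lit 426) (nat_lit 285) (nat_lit 189))) (XT.nd (nat_lit 78) (nat_lit 0) (nat_lit 0) (XT.lf (nat_lit 0) (nat_lit 9217905117) (nat_lit 76) (nat_lit 30357951378) (nat_lit 76) (nat_lit 8181753090) (nat_lit 16) (nat_lit 4) (nat_lit 17) (nat_lit 5) (nat_lit 17) (nat_lit 4) (nat_lit 427) (nat_lit 285) (nat_lit 188)) (XT.lf (nat_lit 0) (nat_lit 21857735088) (nat_lit 76) (nat_lit 24676397215) (nat_lit 76) (nat_lit 2461260078) (nat_lit 16) (nat_lit 4) (nat_lit 17) (nat_lit 5) (nat_lit 17) (nat_lit 4) (nat_lit 428) (nat_lit 285) (nat_lit 187))))))))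
noncomputable def xc69 : XT := (XT.nd (nat_lit 39468) (nat_lit 0) (nat_lit 5700) (XT.nd (nat_lit 1014) (nat_lit 76) (nat_lit 0) (XT.nd (nat_lit 468) (nat_lit 228) (nat_lit 0) (XT.nd (nat_lit 234) (nat_lit 0) (nat_lit 0) (XT.nd (nat_lit 78) (nat_lit 76) (nat_lit 0) (XT.lf (nat_lit 0) (nat_lit 3344701409) (nat_lit 152) (nat_lit 15463197983) (nat_lit 76) (nat_lit 31461997694) (nat_lit 15) (nat_lit 5) (nat_lit 17) (nat_lit 5) (nat_lit 16) (nat_lit 4) (nat_lit 429) (nat_lit 285) (nat_lit 186)) (XT.nd (nat_lit 78) (nat_lit 76) (nat_lit 0) (XT.lf (nat_lit 0) (nat_lit 9256733901) (nat_lit 152) (nat_lit 3498475621) (nat_lit 76) (nat_lit 38827257318) (nat_lit 15) (nat_lit 5) (nat_lit 17) (nat_lit 5) (nat_lit 16) (nat_lit 4) (nat_lit 430) (nat_lit 285) (nat_lit 185)) (XT.lf (nat_lit 0) (nat_lit 8965574184) (nat_lit 76) (nat_lit 6448639702) (nat_lit 152) (nat_lit 37518158963) (nat_lit 14) (nat_lit 5) (nat_lit 15) (nat_lit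 5) (nat_lit 16) (nat_lit 4) (nat_lit 431) (nat_lit 285) (nat_lit 184)))) (XT.nd (nat_lit 78) (nat_lit 0) (nat_lit 0) (XT.lf (nat_lit 0) (nat_lit 21774493856) (nat_lit 152) (nat_lit 32481865885) (nat_lit 0) (nat_lit 65875732) (nat_lit 14) (nat_lit 5) (nat_lit 16) (nat_lit 4) (nat_lit 14) (nat_lit 4) (nat_lit 432) (nat_lit 285) (nat_lit 183)) (XT.nd (nat_lit 78) (nat_lit 0) (nat_lit 0) (XT.lf (nat_lit 0) (nat_lit 28371901063) (nat_lit 152) (nat_lit 20749832738) (nat_lit 0) (nat_lit 6630672267) (nat_lit 14) (nat_lit 5) (nat_lit 16) (nat_lit 4) (nat_lit 14) (nat_lit 4) (nat_lit 433) (nat_lit 285) (nat_lit 182)) (XT.lf (nat_lit 0) (nat_lit 35150211960) (nat_lit 152) (nat_lit 8698459663) (nat_lit 0) (nat_lit 13377322318) (nat_lit 14) (nat_lit 5) (nat_lit 16) (nat_lit 4) (nat_lit 14) (nat_lit 4) (nat_lit 434) (nat_lit 285) (nat_lit 181))))) (XT.nd (nat_lit 234) (nat_lit 152) (nat_lit 0) (XT.nd (nat_lit 78) (nat_lit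 0) (nat_lit 0) (XT.lf (nat_lit 0) (nat_lit 3756078280) (nat_lit 76) (nat_lit 38395376787) (nat_lit 76) (nat_lit 16591748458) (nat_lit 13) (nat_lit 4) (nat_lit 14) (nat_lit 5) (nat_lit 14) (nat_lit 4) (nat_lit 435) (nat_lit 285) (nat_lit 180)) (XT.nd (nat_lit 78) (nat_lit 0) (nat_lit 0) (XT.lf (nat_lit 0) (nat_lit 16731201819) (nat_lit 76) (nat_lit 32703027988) (nat_lit 76) (nat_lit 10869556274) (nat_lit 13) (nat_lit 4) (nat_lit 14) (nat_lit 5) (nat_lit 14) (nat_lit 4) (nat_lit 436) (nat_lit 285) (nat_lit 179)) (XT.lf (nat_lit 0) (nat_lit 30065132036) (nat_lit 76) (nat_lit 26854488717) (nat_lit 76) (nat_lit 4992042843) (nat_lit 13) (nat_lit 4) (nat_lit 14) (nat_lit 5) (nat_lit 14) (nat_lit 4) (nat_lit 437) (nat_lit 285) (nat_lit 178)))) (XT.nd (nat_lit 156) (nat_lit 76) (nat_lit 0) (XT.nd (nat_lit 78) (nat_lit 0) (nat_lit 0) (XT.lf (nat_lit 0) (nat_lit 1025517713) (nat_lit 152) (nat_lit 19808775167) (nat_lit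 76) (nat_lit 42733646505) (nat_lit 12) (nat_lit 5) (nat_lit 14) (nat_lit 5) (nat_lit 13) (nat_lit 4) (nat_lit 438) (nat_lit 285) (nat_lit 177)) (XT.lf (nat_lit 0) (nat_lit 7108164324) (nat_lit 152) (nat_lit 7488313471) (nat_lit 76) (nat_lit 50676397385) (nat_lit 12) (nat_lit 5) (nat_lit 14) (nat_lit 5) (nat_lit 13) (nat_lit 4) (nat_lit 439) (nat_lit 285) (nat_lit 176))) (XT.nd (nat_lit 78) (nat_lit 0) (nat_lit 0) (XT.lf (nat_lit 0) (nat_lit 5276570443) (nat_lit 76) (nat_lit 8132775840) (nat_lit 152) (nat_lit 53618532394) (nat_lit 11) (nat_lit 5) (nat_lit 12) (nat_lit 5) (nat_lit 13) (nat_lit 4) (nat_lit 440) (nat_lit 285) (nat_lit 175)) (XT.lf (nat_lit 0) (nat_lit 18550023479) (nat_lit 76) (nat_lit 1410650982) (nat_lit 152) (nat_lit 48873025763) (nat_lit 11) (nat_lit 5) (nat_lit 12) (nat_lit 5) (nat_lit 13) (nat_lit 4) (nat_lit 441) (nat_lit 285) (nat_lit 174)))))) (XT.nd (nat_lit 468) (nat_lit 0) (nat_lit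 0) (XT.nd (nat_lit 234) (nat_lit 76) (nat_lit 0) (XT.nd (nat_lit 78) (nat_lit 0) (nat_lit 0) (XT.lf (nat_lit 0) (nat_lit 26747329320) (nat_lit 152) (nat_lit 38552379329) (nat_lit 0) (nat_lit 5392825394) (nat_lit 11) (nat_lit 5) (nat_lit 13) (nat_lit 4) (nat_lit 11) (nat_lit 4) (nat_lit 442) (nat_lit 285) (nat_lit 173)) (XT.nd (nat_lit 78) (nat_lit 0) (nat_lit 0) (XT.lf (nat_lit 0) (nat_lit 33737755697) (nat_lit 152) (nat_lit 26509680091) (nat_lit 0) (nat_lit 12359693129) (nat_lit 11) (nat_lit 5) (nat_lit 13) (nat_lit 4) (nat_lit 11) (nat_lit 4) (nat_lit 443) (nat_lit 285) (nat_lit 172)) (XT.lf (nat_lit 0) (nat_lit 40924501694) (nat_lit 152) (nat_lit 14131496242) (nat_lit 0) (nat_lit 19523566656) (nat_lit 11) (nat_lit 5) (nat_lit 13) (nat_lit 4) (nat_lit 11) (nat_lit 4) (nat_lit 444) (nat_lit 285) (nat_lit 171)))) (XT.nd (nat_lit 78) (nat_lit 76) (nat_lit 0) (XT.lf (nat_lit 0) (nat_lit 48313846991) (nat_lit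 152) (nat_lit 1407011895) (nat_lit 0) (nat_lit 26890705672) (nat_lit 11) (nat_lit 5) (nat_lit 13) (nat_lit 4) (nat_lit 11) (nat_lit 4) (nat_lit 445) (nat_lit 285) (nat_lit 170)) (XT.nd (nat_lit 78) (nat_lit 0) (nat_lit 0) (XT.lf (nat_lit 0) (nat_lit 11907244662) (nat_lit 76) (nat_lit 44119463354) (nat_lit 76) (nat_lit 22674762539) (nat_lit 10) (nat_lit 4) (nat_lit 11) (nat_lit 5) (nat_lit 11) (nat_lit 4) (nat_lit 446) (nat_lit 285) (nat_lit 169)) (XT.lf (nat_lit 0) (nat_lit 25625694119) (nat_lit 76) (nat_lit 38346980721) (nat_lit 76) (nat_lit 16881348356) (nat_lit 10) (nat_lit 4) (nat_lit 11) (nat_lit 5) (nat_lit 11) (nat_lit 4) (nat_lit 447) (nat_lit 285) (nat_lit 168))))) (XT.nd (nat_lit 37674) (nat_lit 0) (nat_lit 13680) (XT.nd (nat_lit 37518) (nat_lit 0) (nat_lit 15428) (XT.lf (nat_lit 0) (nat_lit 39732321174) (nat_lit 76) (nat_lit 32412575131) (nat_lit 76) (nat_lit 10926620873) (nat_lit 10) (nat_lit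 4) (nat_lit 11) (nat_lit 5) (nat_lit 11) (nat_lit 4) (nat_lit 448) (nat_lit 285) (nat_lit 167)) (XT.nd (nat_lit 78) (nat_lit 76) (nat_lit 0) (XT.lf (nat_lit 0) (nat_lit 718013306) (nat_lit 608) (nat_lit 1469152893) (nat_lit 608) (nat_lit 1469152893) (nat_lit 214) (nat_lit 4) (nat_lit 222) (nat_lit 5) (nat_lit 222) (nat_lit 4) (nat_lit 328) (nat_lit 286) (nat_lit 286)) (XT.lf (nat_lit 0) (nat_lit 497300703) (nat_lit 684) (nat_lit 557361203) (nat_lit 76) (nat_lit 6323401606) (nat_lit 213) (nat_lit 5) (nat_lit 222) (nat_lit 5) (nat_lit 214) (nat_lit 4) (nat_lit 329) (nat_lit 286) (nat_lit 285)))) (XT.nd (nat_lit 156) (nat_lit 608) (nat_lit 0) (XT.nd (nat_lit 78) (nat_lit 608) (nat_lit 0) (XT.lf (nat_lit 0) (nat_lit 3935518375) (nat_lit 608) (nat_lit 2573039559) (nat_lit 0) (nat_lit 937337857) (nat_lit 206) (nat_lit 5) (nat_lit 214) (nat_lit 4) (nat_lit 206) (nat_lit 4) (nat_lit 330) (nat_lit 286) (nat_lit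 284)) (XT.lf (nat_lit 0) (nat_lit 2900765172) (nat_lit 608) (nat_lit 4524361249) (nat_lit 608) (nat_lit 92262073) (nat_lit 198) (nat_lit 4) (nat_lit 206) (nat_lit 5) (nat_lit 206) (nat_lit 4) (nat_lit 331) (nat_lit 286) (nat_lit 283))) (XT.nd (nat_lit 78) (nat_lit 0) (nat_lit 0) (XT.lf (nat_lit 0) (nat_lit 877123736) (nat_lit 532) (nat_lit 2424047173) (nat_lit 608) (nat_lit 4290744751) (nat_lit 190) (nat_lit 5) (nat_lit 197) (nat_lit 5) (nat_lit 198) (nat_lit 4) (nat_lit 332) (nat_lit 286) (nat_lit 282)) (XT.lf (nat_lit 0) (nat_lit 6522385876) (nat_lit 532) (nat_lit 225518038) (nat_lit 608) (nat_lit 922213376) (nat_lit 190) (nat_lit 5) (nat_lit 197) (nat_lit 5) (nat_lit 198) (nat_lit 4) (nat_lit 333) (nat_lit 286) (nat_lit 281))))))) (XT.nd (nat_lit 1014) (nat_lit 3268) (nat_lit 0) (XT.nd (nat_lit 468) (nat_lit 2128) (nat_lit 0) (XT.nd (nat_lit 234) (nat_lit 988) (nat_lit 0) (XT.nd (nat_lit 78) (nat_lit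 988) (nat_lit 0) (XT.lf (nat_lit 0) (nat_lit 2469988182) (nat_lit 608) (nat_lit 3226795611) (nat_lit 76) (nat_lit 2054039663) (nat_lit 182) (nat_lit 5) (nat_lit 190) (nat_lit 5) (nat_lit 183) (nat_lit 4) (nat_lit 334) (nat_lit 286) (nat_lit 280)) (XT.nd (nat_lit 78) (nat_lit 532) (nat_lit 0) (XT.lf (nat_lit 0) (nat_lit 2485542209) (nat_lit 456) (nat_lit 3407721169) (nat_lit 532) (nat_lit 1942039151) (nat_lit 176) (nat_lit 5) (nat_lit 182) (nat_lit 5) (nat_lit 183) (nat_lit 4) (nat_lit 335) (nat_lit 286) (nat_lit 279)) (XT.lf (nat_lit 0) (nat_lit 399003845) (nat_lit 456) (nat_lit 1016128343) (nat_lit 532) (nat_lit 6508386906) (nat_lit 169) (nat_lit 5) (nat_lit 175) (nat_lit 5) (nat_lit 176) (nat_lit 5) (nat_lit 336) (nat_lit 286) (nat_lit 278)))) (XT.nd (nat_lit 78) (nat_lit 988) (nat_lit 0) (XT.lf (nat_lit 0) (nat_lit 4814519973) (nat_lit 532) (nat_lit 1726110703) (nat_lit 76) (nat_lit 1473814377) (nat_lit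 169) (nat_lit 5) (nat_lit 176) (nat_lit 5) (nat_lit 170) (nat_lit 4) (nat_lit 337) (nat_lit 286) (nat_lit 277)) (XT.nd (nat_lit 78) (nat_lit 456) (nat_lit 0) (XT.lf (nat_lit 0) (nat_lit 168514048) (nat_lit 532) (nat_lit 3898852358) (nat_lit 76) (nat_lit 4041781689) (nat_lit 162) (nat_lit 5) (nat_lit 169) (nat_lit 5) (nat_lit 163) (nat_lit 5) (nat_lit 338) (nat_lit 286) (nat_lit 276)) (XT.lf (nat_lit 0) (nat_lit 2055183091) (nat_lit 456) (nat_lit 1471085433) (nat_lit 532) (nat_lit 4680946947) (nat_lit 156) (nat_lit 5) (nat_lit 162) (nat_lit 5) (nat_lit 163) (nat_lit 5) (nat_lit 339) (nat_lit 286) (nat_lit 275))))) (XT.nd (nat_lit 234) (nat_lit 1216) (nat_lit 0) (XT.nd (nat_lit 78) (nat_lit 912) (nat_lit 0) (XT.lf (nat_lit 0) (nat_lit 6952531926) (nat_lit 532) (nat_lit 159592222) (nat_lit 76) (nat_lit 1197116985) (nat_lit 156) (nat_lit 5) (nat_lit 163) (nat_lit 5) (nat_lit 157) (nat_lit 4) (nat_lit 340) (nat_lit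 286) (nat_lit 274)) (XT.nd (nat_lit 78) (nat_lit 456) (nat_lit 0) (XT.lf (nat_lit 0) (nat_lit 2018004688) (nat_lit 456) (nat_lit 2424288171) (nat_lit 76) (nat_lit 3971752605) (nat_lit 150) (nat_lit 5) (nat_lit 156) (nat_lit 5) (nat_lit 151) (nat_lit 5) (nat_lit 341) (nat_lit 286) (nat_lit 273)) (XT.lf (nat_lit 0) (nat_lit 3758998064) (nat_lit 456) (nat_lit 1664864958) (nat_lit 532) (nat_lit 3099058123) (nat_lit 144) (nat_lit 5) (nat_lit 150) (nat_lit 5) (nat_lit 151) (nat_lit 5) (nat_lit 342) (nat_lit 286) (nat_lit 272)))) (XT.nd (nat_lit 156) (nat_lit 760) (nat_lit 0) (XT.nd (nat_lit 78) (nat_lit 0) (nat_lit 0) (XT.lf (nat_lit 0) (nat_lit 261396959) (nat_lit 456) (nat_lit 7185744639) (nat_lit 76) (nat_lit 1188767984) (nat_lit 138) (nat_lit 5) (nat_lit 144) (nat_lit 5) (nat_lit 139) (nat_lit 5) (nat_lit 343) (nat_lit 286) (nat_lit 271)) (XT.lf (nat_lit 0) (nat_lit 3646430141) (nat_lit 456) (nat_lit 957679094)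 (nat_lit 76) (nat_lit 4147717855) (nat_lit 138) (nat_lit 5) (nat_lit 144) (nat_lit 5) (nat_lit 139) (nat_lit 5) (nat_lit 344) (nat_lit 286) (nat_lit 270))) (XT.nd (nat_lit 78) (nat_lit 380) (nat_lit 0) (XT.lf (nat_lit 0) (nat_lit 5459369986) (nat_lit 380) (nat_lit 1649410565) (nat_lit 456) (nat_lit 1763208875) (nat_lit 133) (nat_lit 5) (nat_lit 138) (nat_lit 5) (nat_lit 139) (nat_lit 5) (nat_lit 345) (nat_lit 286) (nat_lit 269)) (XT.lf (nat_lit 0) (nat_lit 1622791076) (nat_lit 380) (nat_lit 5979017189) (nat_lit 76) (nat_lit 1394212658) (nat_lit 128) (nat_lit 5) (nat_lit 133) (nat_lit 5) (nat_lit 129) (nat_lit 5) (nat_lit 346) (nat_lit 286) (nat_lit 268)))))) (XT.nd (nat_lit 546) (nat_lit 1520) (nat_lit 0) (XT.nd (nat_lit 234) (nat_lit 988) (nat_lit 0) (XT.nd (nat_lit 78) (nat_lit 380) (nat_lit 0) (XT.lf (nat_lit 0) (nat_lit 455587580) (nat_lit 380) (nat_lit 4599544375) (nat_lit 456) (nat_lit 4068748566)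 (nat_lit 123) (nat_lit 5) (nat_lit 128) (nat_lit 5) (nat_lit 129) (nat_lit 5) (nat_lit 347) (nat_lit 286) (nat_lit 267)) (XT.nd (nat_lit 78) (nat_lit 380) (nat_lit 0) (XT.lf (nat_lit 0) (nat_lit 7100928281) (nat_lit 380) (nat_lit 1475764196) (nat_lit 456) (nat_lit 679331746) (nat_lit 123) (nat_lit 5) (nat_lit 128) (nat_lit 5) (nat_lit 129) (nat_lit 5) (nat_lit 348) (nat_lit 286) (nat_lit 266)) (XT.lf (nat_lit 0) (nat_lit 2744695397) (nat_lit 380) (nat_lit 4898175568) (nat_lit 76) (nat_lit 1748850297) (nat_lit 118) (nat_lit 5) (nat_lit 123) (nat_lit 5) (nat_lit 119) (nat_lit 5) (nat_lit 349) (nat_lit 286) (nat_lit 265)))) (XT.nd (nat_lit 156) (nat_lit 608) (nat_lit 0) (XT.nd (nat_lit 78) (nat_lit 76) (nat_lit 0) (XT.lf (nat_lit 0) (nat_lit 1763685266) (nat_lit 304) (nat_lit 4475772134) (nat_lit 380) (nat_lit 3292412752) (nat_lit 114) (nat_lit 5) (nat_lit 118) (nat_lit 5) (nat_lit 119) (nat_lit 5) (nat_lit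 350) (nat_lit 286) (nat_lit 264)) (XT.lf (nat_lit 0) (nat_lit 138108011) (nat_lit 380) (nat_lit 1055582820) (nat_lit 76) (nat_lit 8483163195) (nat_lit 113) (nat_lit 5) (nat_lit 118) (nat_lit 5) (nat_lit 114) (nat_lit 5) (nat_lit 351) (nat_lit 286) (nat_lit 263))) (XT.nd (nat_lit 78) (nat_lit 304) (nat_lit 0) (XT.lf (nat_lit 0) (nat_lit 3613658962) (nat_lit 380) (nat_lit 4009057844) (nat_lit 76) (nat_lit 2202273982) (nat_lit 109) (nat_lit 5) (nat_lit 114) (nat_lit 5) (nat_lit 110) (nat_lit 5) (nat_lit 352) (nat_lit 286) (nat_lit 262)) (XT.lf (nat_lit 0) (nat_lit 2879927810) (nat_lit 304) (nat_lit 4295139619) (nat_lit 380) (nat_lit 2803085602) (nat_lit 105) (nat_lit 5) (nat_lit 109) (nat_lit 5) (nat_lit 110) (nat_lit 5) (nat_lit 353) (nat_lit 286) (nat_lit 261))))) (XT.nd (nat_lit 234) (nat_lit 912) (nat_lit 0) (XT.nd (nat_lit 78) (nat_lit 532) (nat_lit 0) (XT.lf (nat_lit 0) (nat_lit 666140954) (nat_lit 380)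 (nat_lit 186842609) (nat_lit 76) (nat_lit 9283573903) (nat_lit 104) (nat_lit 5) (nat_lit 109) (nat_lit 5) (nat_lit 105) (nat_lit 5) (nat_lit 354) (nat_lit 286) (nat_lit 260)) (XT.nd (nat_lit 78) (nat_lit 304) (nat_lit 0) (XT.lf (nat_lit 0) (nat_lit 4209954159) (nat_lit 304) (nat_lit 3385563492) (nat_lit 76) (nat_lit 2702584948) (nat_lit 101) (nat_lit 5) (nat_lit 105) (nat_lit 5) (nat_lit 102) (nat_lit 5) (nat_lit 355) (nat_lit 286) (nat_lit 259)) (XT.lf (nat_lit 0) (nat_lit 3728172922) (nat_lit 304) (nat_lit 4112403193) (nat_lit 380) (nat_lit 2624529003) (nat_lit 97) (nat_lit 5) (nat_lit 101) (nat_lit 5) (nat_lit 102) (nat_lit 5) (nat_lit 356) (nat_lit 286) (nat_lit 258)))) (XT.nd (nat_lit 156) (nat_lit 608) (nat_lit 0) (XT.nd (nat_lit 78) (nat_lit 0) (nat_lit 0) (XT.lf (nat_lit 0) (nat_lit 386009756) (nat_lit 228) (nat_lit 511422755) (nat_lit 304) (nat_lit 9740252594) (nat_lit 93) (nat_lit 5) (nat_lit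 96) (nat_lit 5) (nat_lit 97) (nat_lit 5) (nat_lit 357) (nat_lit 286) (nat_lit 257)) (XT.lf (nat_lit 0) (nat_lit 4506947714) (nat_lit 304) (nat_lit 3111437093) (nat_lit 76) (nat_lit 3195262428) (nat_lit 93) (nat_lit 5) (nat_lit 97) (nat_lit 5) (nat_lit 94) (nat_lit 5) (nat_lit 358) (nat_lit 286) (nat_lit 256))) (XT.nd (nat_lit 78) (nat_lit 304) (nat_lit 0) (XT.lf (nat_lit 0) (nat_lit 4221902240) (nat_lit 304) (nat_lit 3985585220) (nat_lit 380) (nat_lit 2787941577) (nat_lit 89) (nat_lit 5) (nat_lit 93) (nat_lit 5) (nat_lit 94) (nat_lit 5) (nat_lit 359) (nat_lit 286) (nat_lit 255)) (XT.lf (nat_lit 0) (nat_lit 561170528) (nat_lit 228) (nat_lit 233364155) (nat_lit 304) (nat_lit 10388675784) (nat_lit 85) (nat_lit 5) (nat_lit 88) (nat_lit 5) (nat_lit 89) (nat_lit 5) (nat_lit 360) (nat_lit 286) (nat_lit 254))))))))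
noncomputable def xc70 : XT := (XT.nd (nat_lit 2028) (nat_lit 1520) (nat_lit 0) (XT.nd (nat_lit 1014) (nat_lit 1368) (nat_lit 0) (XT.nd (nat_lit 468) (nat_lit 1064) (nat_lit 0) (XT.nd (nat_lit 234) (nat_lit 228) (nat_lit 0) (XT.nd (nat_lit 78) (nat_lit 532) (nat_lit 0) (XT.lf (nat_lit 0) (nat_lit 4470324841) (nat_lit 304) (nat_lit 3282292450) (nat_lit 76) (nat_lit 3621944741) (nat_lit 85) (nat_lit 5) (nat_lit 89) (nat_lit 5) (nat_lit 86) (nat_lit 5) (nat_lit 361) (nat_lit 286) (nat_lit 253)) (XT.nd (nat_lit 78) (nat_lit 304) (nat_lit 0) (XT.lf (nat_lit 0) (nat_lit 4262107497) (nat_lit 228) (nat_lit 3977261193) (nat_lit 304) (nat_lit 3332816470) (nat_lit 82) (nat_lit 5) (nat_lit 85) (nat_lit 5) (nat_lit 86) (nat_lit 5) (nat_lit 362) (nat_lit 286) (nat_lit 252)) (XT.lf (nat_lit 0) (nat_lit 229539863) (nat_lit 228) (nat_lit 85069673) (nat_lit 304) (nat_lit 11461778699) (nat_lit 78) (nat_lit 5) (nat_lit 81)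 (nat_lit 5) (nat_lit 82) (nat_lit 5) (nat_lit 363) (nat_lit 286) (nat_lit 251)))) (XT.nd (nat_lit 78) (nat_lit 228) (nat_lit 0) (XT.lf (nat_lit 0) (nat_lit 4057148028) (nat_lit 304) (nat_lit 4007921066) (nat_lit 76) (nat_lit 3919096768) (nat_lit 78) (nat_lit 5) (nat_lit 82) (nat_lit 5) (nat_lit 79) (nat_lit 5) (nat_lit 364) (nat_lit 286) (nat_lit 250)) (XT.nd (nat_lit 78) (nat_lit 0) (nat_lit 0) (XT.lf (nat_lit 0) (nat_lit 3734877086) (nat_lit 228) (nat_lit 4155974335) (nat_lit 304) (nat_lit 4307976871) (nat_lit 75) (nat_lit 5) (nat_lit 78) (nat_lit 5) (nat_lit 79) (nat_lit 5) (nat_lit 365) (nat_lit 286) (nat_lit 249)) (XT.lf (nat_lit 0) (nat_lit 11698706894) (nat_lit 228) (nat_lit 124262909) (nat_lit 304) (nat_lit 597476287) (nat_lit 75) (nat_lit 5) (nat_lit 78) (nat_lit 5) (nat_lit 79) (nat_lit 5) (nat_lit 366) (nat_lit 286) (nat_lit 248))))) (XT.nd (nat_lit 234) (nat_lit 608) (nat_lit 0) (XT.nd (nat_lit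 78) (nat_lit 228) (nat_lit 0) (XT.lf (nat_lit 0) (nat_lit 3214728448) (nat_lit 228) (nat_lit 5414935364) (nat_lit 76) (nat_lit 4016536153) (nat_lit 72) (nat_lit 5) (nat_lit 75) (nat_lit 5) (nat_lit 73) (nat_lit 5) (nat_lit 367) (nat_lit 286) (nat_lit 247)) (XT.nd (nat_lit 78) (nat_lit 0) (nat_lit 0) (XT.lf (nat_lit 0) (nat_lit 2508630236) (nat_lit 228) (nat_lit 4597807150) (nat_lit 304) (nat_lit 5772813315) (nat_lit 69) (nat_lit 5) (nat_lit 72) (nat_lit 5) (nat_lit 73) (nat_lit 5) (nat_lit 368) (nat_lit 286) (nat_lit 246)) (XT.lf (nat_lit 0) (nat_lit 10689558348) (nat_lit 228) (nat_lit 425201228) (nat_lit 304) (nat_lit 2004553168) (nat_lit 69) (nat_lit 5) (nat_lit 72) (nat_lit 5) (nat_lit 73) (nat_lit 5) (nat_lit 369) (nat_lit 286) (nat_lit 245)))) (XT.nd (nat_lit 156) (nat_lit 152) (nat_lit 0) (XT.nd (nat_lit 78) (nat_lit 228) (nat_lit 0) (XT.lf (nat_lit 0) (nat_lit 1879283949) (nat_lit 228) (nat_lit 7649804499)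 (nat_lit 76) (nat_lit 3835787194) (nat_lit 66) (nat_lit 5) (nat_lit 69) (nat_lit 5) (nat_lit 67) (nat_lit 5) (nat_lit 370) (nat_lit 286) (nat_lit 244)) (XT.lf (nat_lit 0) (nat_lit 430938112) (nat_lit 228) (nat_lit 5388143108) (nat_lit 304) (nat_lit 7798751076) (nat_lit 63) (nat_lit 5) (nat_lit 66) (nat_lit 5) (nat_lit 67) (nat_lit 5) (nat_lit 371) (nat_lit 286) (nat_lit 243))) (XT.nd (nat_lit 78) (nat_lit 152) (nat_lit 0) (XT.lf (nat_lit 0) (nat_lit 8821649509) (nat_lit 228) (nat_lit 1079971611) (nat_lit 304) (nat_lit 3976033971) (nat_lit 63) (nat_lit 5) (nat_lit 66) (nat_lit 5) (nat_lit 67) (nat_lit 5) (nat_lit 372) (nat_lit 286) (nat_lit 242)) (XT.lf (nat_lit 0) (nat_lit 3262321368) (nat_lit 152) (nat_lit 10856443435) (nat_lit 228) (nat_lit 26157434) (nat_lit 61) (nat_lit 5) (nat_lit 63) (nat_lit 5) (nat_lit 64) (nat_lit 4) (nat_lit 373) (nat_lit 286) (nat_lit 241)))))) (XT.nd (nat_lit 468) (nat_lit 760)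 (nat_lit 0) (XT.nd (nat_lit 234) (nat_lit 380) (nat_lit 0) (XT.nd (nat_lit 78) (nat_lit 152) (nat_lit 0) (XT.lf (nat_lit 0) (nat_lit 3974233105) (nat_lit 228) (nat_lit 2622936452) (nat_lit 76) (nat_lit 7821558000) (nat_lit 60) (nat_lit 5) (nat_lit 63) (nat_lit 5) (nat_lit 61) (nat_lit 5) (nat_lit 374) (nat_lit 286) (nat_lit 240)) (XT.nd (nat_lit 78) (nat_lit 0) (nat_lit 0) (XT.lf (nat_lit 0) (nat_lit 5914182940) (nat_lit 152) (nat_lit 2186915150) (nat_lit 228) (nat_lit 6599443875) (nat_lit 58) (nat_lit 5) (nat_lit 60) (nat_lit 5) (nat_lit 61) (nat_lit 5) (nat_lit 375) (nat_lit 286) (nat_lit 239)) (XT.lf (nat_lit 0) (nat_lit 12351597576) (nat_lit 228) (nat_lit 337531956) (nat_lit 76) (nat_lit 2301698408) (nat_lit 58) (nat_lit 5) (nat_lit 61) (nat_lit 5) (nat_lit 59) (nat_lit 4) (nat_lit 376) (nat_lit 286) (nat_lit 238)))) (XT.nd (nat_lit 78) (nat_lit 152) (nat_lit 0) (XT.lf (nat_lit 0) (nat_lit 1466733038)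 (nat_lit 228) (nat_lit 6878379075) (nat_lit 76) (nat_lit 6942655313) (nat_lit 55) (nat_lit 5) (nat_lit 58) (nat_lit 5) (nat_lit 56) (nat_lit 5) (nat_lit 377) (nat_lit 286) (nat_lit 237)) (XT.nd (nat_lit 78) (nat_lit 0) (nat_lit 0) (XT.lf (nat_lit 0) (nat_lit 1756795343) (nat_lit 152) (nat_lit 3858370366) (nat_lit 228) (nat_lit 9978506342) (nat_lit 53) (nat_lit 5) (nat_lit 55) (nat_lit 5) (nat_lit 56) (nat_lit 5) (nat_lit 378) (nat_lit 286) (nat_lit 236)) (XT.lf (nat_lit 0) (nat_lit 9917803014) (nat_lit 228) (nat_lit 5206386300) (nat_lit 76) (nat_lit 783682607) (nat_lit 53) (nat_lit 5) (nat_lit 56) (nat_lit 5) (nat_lit 54) (nat_lit 4) (nat_lit 379) (nat_lit 286) (nat_lit 235))))) (XT.nd (nat_lit 234) (nat_lit 380) (nat_lit 0) (XT.nd (nat_lit 78) (nat_lit 228) (nat_lit 0) (XT.lf (nat_lit 0) (nat_lit 3634457543) (nat_lit 152) (nat_lit 10741861993) (nat_lit 228) (nat_lit 1854384592) (nat_lit 51) (nat_lit 5)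 (nat_lit 53) (nat_lit 5) (nat_lit 54) (nat_lit 4) (nat_lit 380) (nat_lit 286) (nat_lit 234)) (XT.nd (nat_lit 78) (nat_lit 152) (nat_lit 0) (XT.lf (nat_lit 0) (nat_lit 2365302485) (nat_lit 228) (nat_lit 3819447781) (nat_lit 76) (nat_lit 10377581038) (nat_lit 50) (nat_lit 5) (nat_lit 53) (nat_lit 5) (nat_lit 51) (nat_lit 5) (nat_lit 381) (nat_lit 286) (nat_lit 233)) (XT.lf (nat_lit 0) (nat_lit 5225214985) (nat_lit 152) (nat_lit 1454443062) (nat_lit 228) (nat_lit 10223547434) (nat_lit 48) (nat_lit 5) (nat_lit 50) (nat_lit 5) (nat_lit 51) (nat_lit 5) (nat_lit 382) (nat_lit 286) (nat_lit 232)))) (XT.nd (nat_lit 156) (nat_lit 228) (nat_lit 0) (XT.nd (nat_lit 78) (nat_lit 152) (nat_lit 0) (XT.lf (nat_lit 0) (nat_lit 11150598519) (nat_lit 228) (nat_lit 2746152063) (nat_lit 76) (nat_lit 3356749864) (nat_lit 48) (nat_lit 5) (nat_lit 51) (nat_lit 5) (nat_lit 49) (nat_lit 4) (nat_lit 383) (nat_lit 286) (nat_lit 231))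 (XT.lf (nat_lit 0) (nat_lit 6488891657) (nat_lit 152) (nat_lit 9300201375) (nat_lit 228) (nat_lit 1824217377) (nat_lit 46) (nat_lit 5) (nat_lit 48) (nat_lit 5) (nat_lit 49) (nat_lit 4) (nat_lit 384) (nat_lit 286) (nat_lit 230))) (XT.nd (nat_lit 78) (nat_lit 152) (nat_lit 0) (XT.lf (nat_lit 0) (nat_lit 2517180477) (nat_lit 228) (nat_lit 2027990601) (nat_lit 76) (nat_lit 13438464581) (nat_lit 45) (nat_lit 5) (nat_lit 48) (nat_lit 5) (nat_lit 46) (nat_lit 5) (nat_lit 385) (nat_lit 286) (nat_lit 229)) (XT.lf (nat_lit 0) (nat_lit 6985181041) (nat_lit 228) (nat_lit 10974933776) (nat_lit 76) (nat_lit 403431396) (nat_lit 43) (nat_lit 5) (nat_lit 46) (nat_lit 5) (nat_lit 44) (nat_lit 4) (nat_lit 386) (nat_lit 286) (nat_lit 228))))))) (XT.nd (nat_lit 1014) (nat_lit 608) (nat_lit 0) (XT.nd (nat_lit 468) (nat_lit 532) (nat_lit 0) (XT.nd (nat_lit 234) (nat_lit 228) (nat_lit 0) (XT.nd (nat_lit 78) (nat_lit 152) (nat_lit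 0) (XT.lf (nat_lit 0) (nat_lit 11611109418) (nat_lit 228) (nat_lit 1745204300) (nat_lit 76) (nat_lit 5397831661) (nat_lit 43) (nat_lit 5) (nat_lit 46) (nat_lit 5) (nat_lit 44) (nat_lit 4) (nat_lit 387) (nat_lit 286) (nat_lit 227)) (XT.nd (nat_lit 78) (nat_lit 76) (nat_lit 0) (XT.lf (nat_lit 0) (nat_lit 7841574708) (nat_lit 76) (nat_lit 8569040906) (nat_lit 152) (nat_lit 2744810602) (nat_lit 42) (nat_lit 5) (nat_lit 43) (nat_lit 5) (nat_lit 44) (nat_lit 4) (nat_lit 388) (nat_lit 286) (nat_lit 226)) (XT.lf (nat_lit 0) (nat_lit 1727826391) (nat_lit 152) (nat_lit 1906779767) (nat_lit 76) (nat_lit 15934312605) (nat_lit 41) (nat_lit 5) (nat_lit 43) (nat_lit 5) (nat_lit 42) (nat_lit 5) (nat_lit 389) (nat_lit 286) (nat_lit 225)))) (XT.nd (nat_lit 78) (nat_lit 76) (nat_lit 0) (XT.lf (nat_lit 0) (nat_lit 6330127959) (nat_lit 228) (nat_lit 12170126157) (nat_lit 76) (nat_lit 1492234122) (nat_lit 39) (nat_lit 5) (nat_lit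 42) (nat_lit 5) (nat_lit 40) (nat_lit 4) (nat_lit 390) (nat_lit 286) (nat_lit 224)) (XT.nd (nat_lit 78) (nat_lit 76) (nat_lit 0) (XT.lf (nat_lit 0) (nat_lit 11086785697) (nat_lit 228) (nat_lit 2652909127) (nat_lit 76) (nat_lit 6688588199) (nat_lit 39) (nat_lit 5) (nat_lit 42) (nat_lit 5) (nat_lit 40) (nat_lit 4) (nat_lit 391) (nat_lit 286) (nat_lit 223)) (XT.lf (nat_lit 0) (nat_lit 7221805685) (nat_lit 76) (nat_lit 8795753570) (nat_lit 152) (nat_lit 4858656552) (nat_lit 38) (nat_lit 5) (nat_lit 39) (nat_lit 5) (nat_lit 40) (nat_lit 4) (nat_lit 392) (nat_lit 286) (nat_lit 222))))) (XT.nd (nat_lit 234) (nat_lit 304) (nat_lit 0) (XT.nd (nat_lit 78) (nat_lit 228) (nat_lit 0) (XT.lf (nat_lit 0) (nat_lit 17378877713) (nat_lit 76) (nat_lit 3706613869) (nat_lit 152) (nat_lit 252424373) (nat_lit 38) (nat_lit 5) (nat_lit 39) (nat_lit 5) (nat_lit 40) (nat_lit 4) (nat_lit 393) (nat_lit 286) (nat_lit 221)) (XT.nd (nat_lit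 78) (nat_lit 0) (nat_lit 0) (XT.lf (nat_lit 0) (nat_lit 4440991562) (nat_lit 228) (nat_lit 15792253336) (nat_lit 76) (nat_lit 1577833338) (nat_lit 35) (nat_lit 5) (nat_lit 38) (nat_lit 5) (nat_lit 36) (nat_lit 4) (nat_lit 394) (nat_lit 286) (nat_lit 220)) (XT.lf (nat_lit 0) (nat_lit 9310529713) (nat_lit 228) (nat_lit 6026819416) (nat_lit 76) (nat_lit 6959805380) (nat_lit 35) (nat_lit 5) (nat_lit 38) (nat_lit 5) (nat_lit 36) (nat_lit 4) (nat_lit 395) (nat_lit 286) (nat_lit 219)))) (XT.nd (nat_lit 156) (nat_lit 228) (nat_lit 0) (XT.nd (nat_lit 78) (nat_lit 0) (nat_lit 0) (XT.lf (nat_lit 0) (nat_lit 4045302841) (nat_lit 76) (nat_lit 10284125170) (nat_lit 152) (nat_lit 8468292568) (nat_lit 34) (nat_lit 5) (nat_lit 35) (nat_lit 5) (nat_lit 36) (nat_lit 4) (nat_lit 396) (nat_lit 286) (nat_lit 218)) (XT.lf (nat_lit 0) (nat_lit 14478558892) (nat_lit 76) (nat_lit 5045998021) (nat_lit 152) (nat_lit 3787982368) (nat_lit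 34) (nat_lit 5) (nat_lit 35) (nat_lit 5) (nat_lit 36) (nat_lit 4) (nat_lit 397) (nat_lit 286) (nat_lit 217))) (XT.nd (nat_lit 78) (nat_lit 0) (nat_lit 0) (XT.lf (nat_lit 0) (nat_lit 994206396) (nat_lit 228) (nat_lit 22511722380) (nat_lit 76) (nat_lit 337132542) (nat_lit 31) (nat_lit 5) (nat_lit 34) (nat_lit 5) (nat_lit 32) (nat_lit 4) (nat_lit 398) (nat_lit 286) (nat_lit 216)) (XT.lf (nat_lit 0) (nat_lit 5949388223) (nat_lit 228) (nat_lit 12555982151) (nat_lit 76) (nat_lit 5879838723) (nat_lit 31) (nat_lit 5) (nat_lit 34) (nat_lit 5) (nat_lit 32) (nat_lit 4) (nat_lit 399) (nat_lit 286) (nat_lit 215)))))) (XT.nd (nat_lit 546) (nat_lit 228) (nat_lit 0) (XT.nd (nat_lit 234) (nat_lit 304) (nat_lit 0) (XT.nd (nat_lit 78) (nat_lit 76) (nat_lit 0) (XT.lf (nat_lit 0) (nat_lit 11019839689) (nat_lit 228) (nat_lit 2363236431) (nat_lit 76) (nat_lit 11561551705) (nat_lit 31) (nat_lit 5) (nat_lit 34) (nat_lit 5) (nat_lit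 32) (nat_lit 4) (nat_lit 400) (nat_lit 286) (nat_lit 214)) (XT.nd (nat_lit 78) (nat_lit 0) (nat_lit 0) (XT.lf (nat_lit 0) (nat_lit 8236137773) (nat_lit 76) (nat_lit 8053024307) (nat_lit 152) (nat_lit 9230269110) (nat_lit 30) (nat_lit 5) (nat_lit 31) (nat_lit 5) (nat_lit 32) (nat_lit 4) (nat_lit 401) (nat_lit 286) (nat_lit 213)) (XT.lf (nat_lit 0) (nat_lit 19142653603) (nat_lit 76) (nat_lit 2565735390) (nat_lit 152) (nat_lit 4403339573) (nat_lit 30) (nat_lit 5) (nat_lit 31) (nat_lit 5) (nat_lit 32) (nat_lit 4) (nat_lit 402) (nat_lit 286) (nat_lit 212)))) (XT.nd (nat_lit 156) (nat_lit 76) (nat_lit 0) (XT.nd (nat_lit 78) (nat_lit 0) (nat_lit 0) (XT.lf (nat_lit 0) (nat_lit 590904542) (nat_lit 228) (nat_lit 23088947275) (nat_lit 76) (nat_lit 3040775579) (nat_lit 27) (nat_lit 5) (nat_lit 30) (nat_lit 5) (nat_lit 28) (nat_lit 4) (nat_lit 403) (nat_lit 286) (nat_lit 211)) (XT.lf (nat_lit 0) (nat_lit 5711634823)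 (nat_lit 228) (nat_lit 12780359241) (nat_lit 76) (nat_lit 8852540617) (nat_lit 27) (nat_lit 5) (nat_lit 30) (nat_lit 5) (nat_lit 28) (nat_lit 4) (nat_lit 404) (nat_lit 286) (nat_lit 210))) (XT.nd (nat_lit 78) (nat_lit 76) (nat_lit 0) (XT.lf (nat_lit 0) (nat_lit 10955586546) (nat_lit 228) (nat_lit 2219112422) (nat_lit 76) (nat_lit 14813376368) (nat_lit 27) (nat_lit 5) (nat_lit 30) (nat_lit 5) (nat_lit 28) (nat_lit 4) (nat_lit 405) (nat_lit 286) (nat_lit 209)) (XT.lf (nat_lit 0) (nat_lit 8775258353) (nat_lit 76) (nat_lit 7636436605) (nat_lit 152) (nat_lit 12237586125) (nat_lit 26) (nat_lit 5) (nat_lit 27) (nat_lit 5) (nat_lit 28) (nat_lit 4) (nat_lit 406) (nat_lit 286) (nat_lit 208))))) (XT.nd (nat_lit 234) (nat_lit 76) (nat_lit 0) (XT.nd (nat_lit 78) (nat_lit 152) (nat_lit 0) (XT.lf (nat_lit 0) (nat_lit 20090538265) (nat_lit 76) (nat_lit 1934178650) (nat_lit 152) (nat_lit 7305813079) (nat_lit 26) (nat_lit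 5) (nat_lit 27) (nat_lit 5) (nat_lit 28) (nat_lit 4) (nat_lit 407) (nat_lit 286) (nat_lit 207)) (XT.nd (nat_lit 78) (nat_lit 76) (nat_lit 0) (XT.lf (nat_lit 0) (nat_lit 1654025746) (nat_lit 76) (nat_lit 26177304755) (nat_lit 76) (nat_lit 2200133629) (nat_lit 25) (nat_lit 4) (nat_lit 26) (nat_lit 5) (nat_lit 26) (nat_lit 4) (nat_lit 408) (nat_lit 286) (nat_lit 206)) (XT.lf (nat_lit 0) (nat_lit 3083885545) (nat_lit 152) (nat_lit 17789321198) (nat_lit 76) (nat_lit 9876795373) (nat_lit 24) (nat_lit 5) (nat_lit 26) (nat_lit 5) (nat_lit 25) (nat_lit 4) (nat_lit 409) (nat_lit 286) (nat_lit 205)))) (XT.nd (nat_lit 156) (nat_lit 0) (nat_lit 0) (XT.nd (nat_lit 78) (nat_lit 76) (nat_lit 0) (XT.lf (nat_lit 0) (nat_lit 8454511591) (nat_lit 152) (nat_lit 6957278214) (nat_lit 76) (nat_lit 16078487189) (nat_lit 24) (nat_lit 5) (nat_lit 26) (nat_lit 5) (nat_lit 25) (nat_lit 4) (nat_lit 410) (nat_lit 286) (nat_lit 204))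 (XT.lf (nat_lit 0) (nat_lit 4231883782) (nat_lit 76) (nat_lit 9768165495) (nat_lit 152) (nat_lit 18252300422) (nat_lit 23) (nat_lit 5) (nat_lit 24) (nat_lit 5) (nat_lit 25) (nat_lit 4) (nat_lit 411) (nat_lit 286) (nat_lit 203))) (XT.nd (nat_lit 78) (nat_lit 0) (nat_lit 0) (XT.lf (nat_lit 0) (nat_lit 15849410780) (nat_lit 76) (nat_lit 3906213758) (nat_lit 152) (nat_lit 13280353170) (nat_lit 23) (nat_lit 5) (nat_lit 24) (nat_lit 5) (nat_lit 25) (nat_lit 4) (nat_lit 412) (nat_lit 286) (nat_lit 202)) (XT.lf (nat_lit 0) (nat_lit 25678330259) (nat_lit 152) (nat_lit 6097173816) (nat_lit 0) (nat_lit 2067779757) (nat_lit 23) (nat_lit 5) (nat_lit 25) (nat_lit 4) (nat_lit 23) (nat_lit 4) (nat_lit 413) (nat_lit 286) (nat_lit 201))))))))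
noncomputable def xc71 : XT := (XT.nd (nat_lit 2106) (nat_lit 152) (nat_lit 0) (XT.nd (nat_lit 1014) (nat_lit 380) (nat_lit 0) (XT.nd (nat_lit 468) (nat_lit 228) (nat_lit 0) (XT.nd (nat_lit 234) (nat_lit 76) (nat_lit 0) (XT.nd (nat_lit 78) (nat_lit 76) (nat_lit 0) (XT.lf (nat_lit 0) (nat_lit 5342880037) (nat_lit 76) (nat_lit 26500602589) (nat_lit 76) (nat_lit 2829386630) (nat_lit 22) (nat_lit 4) (nat_lit 23) (nat_lit 5) (nat_lit 23) (nat_lit 4) (nat_lit 414) (nat_lit 286) (nat_lit 200)) (XT.nd (nat_lit 78) (nat_lit 0) (nat_lit 0) (XT.lf (nat_lit 0) (nat_lit 2651161946) (nat_lit 152) (nat_lit 18348255709) (nat_lit 76) (nat_lit 14526050318) (nat_lit 21) (nat_lit 5) (nat_lit 23) (nat_lit 5) (nat_lit 22) (nat_lit 4) (nat_lit 415) (nat_lit 286) (nat_lit 199)) (XT.lf (nat_lit 0) (nat_lit 8214757763) (nat_lit 152) (nat_lit 7111339212) (nat_lit 76) (nat_lit 21077445124) (nat_lit 21) (nat_lit 5) (nat_lit 23) (nat_lit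 5) (nat_lit 22) (nat_lit 4) (nat_lit 416) (nat_lit 286) (nat_lit 198)))) (XT.nd (nat_lit 78) (nat_lit 0) (nat_lit 0) (XT.lf (nat_lit 0) (nat_lit 4505699153) (nat_lit 76) (nat_lit 9459086123) (nat_lit 152) (nat_lit 23342590192) (nat_lit 20) (nat_lit 5) (nat_lit 21) (nat_lit 5) (nat_lit 22) (nat_lit 4) (nat_lit 417) (nat_lit 286) (nat_lit 197)) (XT.nd (nat_lit 78) (nat_lit 0) (nat_lit 0) (XT.lf (nat_lit 0) (nat_lit 16572556380) (nat_lit 76) (nat_lit 3363045497) (nat_lit 152) (nat_lit 18301275970) (nat_lit 20) (nat_lit 5) (nat_lit 21) (nat_lit 5) (nat_lit 22) (nat_lit 4) (nat_lit 418) (nat_lit 286) (nat_lit 196)) (XT.lf (nat_lit 0) (nat_lit 26090539483) (nat_lit 152) (nat_lit 10264539973) (nat_lit 0) (nat_lit 2839038525) (nat_lit 20) (nat_lit 5) (nat_lit 22) (nat_lit 4) (nat_lit 20) (nat_lit 4) (nat_lit 419) (nat_lit 286) (nat_lit 195))))) (XT.nd (nat_lit 234) (nat_lit 76) (nat_lit 0) (XT.nd (nat_lit 78) (nat_lit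 76) (nat_lit 0) (XT.lf (nat_lit 0) (nat_lit 1429437947) (nat_lit 76) (nat_lit 31025363557) (nat_lit 76) (nat_lit 7724536030) (nat_lit 19) (nat_lit 4) (nat_lit 20) (nat_lit 5) (nat_lit 20) (nat_lit 4) (nat_lit 420) (nat_lit 286) (nat_lit 194)) (XT.nd (nat_lit 78) (nat_lit 76) (nat_lit 0) (XT.lf (nat_lit 0) (nat_lit 13642670808) (nat_lit 76) (nat_lit 25448858281) (nat_lit 76) (nat_lit 2100140883) (nat_lit 19) (nat_lit 4) (nat_lit 20) (nat_lit 5) (nat_lit 20) (nat_lit 4) (nat_lit 421) (nat_lit 286) (nat_lit 193)) (XT.lf (nat_lit 0) (nat_lit 3599237845) (nat_lit 152) (nat_lit 16088759592) (nat_lit 76) (nat_lit 22545962803) (nat_lit 18) (nat_lit 5) (nat_lit 20) (nat_lit 5) (nat_lit 19) (nat_lit 4) (nat_lit 422) (nat_lit 286) (nat_lit 192)))) (XT.nd (nat_lit 156) (nat_lit 0) (nat_lit 0) (XT.nd (nat_lit 78) (nat_lit 76) (nat_lit 0) (XT.lf (nat_lit 0) (nat_lit 9406333968) (nat_lit 152) (nat_lit 4345495260) (nat_lit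 76) (nat_lit 29555700006) (nat_lit 18) (nat_lit 5) (nat_lit 20) (nat_lit 5) (nat_lit 19) (nat_lit 4) (nat_lit 423) (nat_lit 286) (nat_lit 191)) (XT.lf (nat_lit 0) (nat_lit 7864711626) (nat_lit 76) (nat_lit 7578091752) (nat_lit 152) (nat_lit 28968849267) (nat_lit 17) (nat_lit 5) (nat_lit 18) (nat_lit 5) (nat_lit 19) (nat_lit 4) (nat_lit 424) (nat_lit 286) (nat_lit 190))) (XT.nd (nat_lit 78) (nat_lit 0) (nat_lit 0) (XT.lf (nat_lit 0) (nat_lit 20491859515) (nat_lit 76) (nat_lit 1192174119) (nat_lit 152) (nat_lit 23864158218) (nat_lit 17) (nat_lit 5) (nat_lit 18) (nat_lit 5) (nat_lit 19) (nat_lit 4) (nat_lit 425) (nat_lit 286) (nat_lit 189)) (XT.lf (nat_lit 0) (nat_lit 28144472216) (nat_lit 152) (nat_lit 13310516947) (nat_lit 0) (nat_lit 5262880965) (nat_lit 17) (nat_lit 5) (nat_lit 19) (nat_lit 4) (nat_lit 17) (nat_lit 4) (nat_lit 426) (nat_lit 286) (nat_lit 188)))))) (XT.nd (nat_lit 546) (nat_lit 152) (nat_lit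 0) (XT.nd (nat_lit 234) (nat_lit 152) (nat_lit 0) (XT.nd (nat_lit 78) (nat_lit 76) (nat_lit 0) (XT.lf (nat_lit 0) (nat_lit 34791308647) (nat_lit 152) (nat_lit 1260775993) (nat_lit 0) (nat_lit 11870778548) (nat_lit 17) (nat_lit 5) (nat_lit 19) (nat_lit 4) (nat_lit 17) (nat_lit 4) (nat_lit 427) (nat_lit 286) (nat_lit 187)) (XT.nd (nat_lit 78) (nat_lit 0) (nat_lit 0) (XT.lf (nat_lit 0) (nat_lit 11336087221) (nat_lit 76) (nat_lit 30391773119) (nat_lit 76) (nat_lit 7433438313) (nat_lit 16) (nat_lit 4) (nat_lit 17) (nat_lit 5) (nat_lit 17) (nat_lit 4) (nat_lit 428) (nat_lit 286) (nat_lit 186)) (XT.lf (nat_lit 0) (nat_lit 24301471946) (nat_lit 76) (nat_lit 24565313597) (nat_lit 76) (nat_lit 1570275192) (nat_lit 16) (nat_lit 4) (nat_lit 17) (nat_lit 5) (nat_lit 17) (nat_lit 4) (nat_lit 429) (nat_lit 286) (nat_lit 185)))) (XT.nd (nat_lit 156) (nat_lit 76) (nat_lit 0) (XT.nd (nat_lit 78) (nat_lit 0) (nat_lit 0) (XT.lf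 (nat_lit 0) (nat_lit 4363484706) (nat_lit 152) (nat_lit 14172799012) (nat_lit 76) (nat_lit 33214067900) (nat_lit 15) (nat_lit 5) (nat_lit 17) (nat_lit 5) (nat_lit 16) (nat_lit 4) (nat_lit 430) (nat_lit 286) (nat_lit 184)) (XT.lf (nat_lit 0) (nat_lit 10426127429) (nat_lit 152) (nat_lit 1900230948) (nat_lit 76) (nat_lit 40776745207) (nat_lit 15) (nat_lit 5) (nat_lit 17) (nat_lit 5) (nat_lit 16) (nat_lit 4) (nat_lit 431) (nat_lit 286) (nat_lit 183))) (XT.nd (nat_lit 78) (nat_lit 0) (nat_lit 0) (XT.lf (nat_lit 0) (nat_lit 10921042322) (nat_lit 76) (nat_lit 5837529571) (nat_lit 152) (nat_lit 37735230196) (nat_lit 14) (nat_lit 5) (nat_lit 15) (nat_lit 5) (nat_lit 16) (nat_lit 4) (nat_lit 432) (nat_lit 286) (nat_lit 182)) (XT.lf (nat_lit 0) (nat_lit 23291481685) (nat_lit 152) (nat_lit 31800682206) (nat_lit 0) (nat_lit 833744506) (nat_lit 14) (nat_lit 5) (nat_lit 16) (nat_lit 4) (nat_lit 14) (nat_lit 4) (nat_lit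 433) (nat_lit 286) (nat_lit 181))))) (XT.nd (nat_lit 234) (nat_lit 76) (nat_lit 0) (XT.nd (nat_lit 78) (nat_lit 76) (nat_lit 0) (XT.lf (nat_lit 0) (nat_lit 30061653253) (nat_lit 152) (nat_lit 19764910579) (nat_lit 0) (nat_lit 7573177387) (nat_lit 14) (nat_lit 5) (nat_lit 16) (nat_lit 4) (nat_lit 14) (nat_lit 4) (nat_lit 434) (nat_lit 286) (nat_lit 180)) (XT.nd (nat_lit 78) (nat_lit 76) (nat_lit 0) (XT.lf (nat_lit 0) (nat_lit 37018888376) (nat_lit 152) (nat_lit 7398814287) (nat_lit 0) (nat_lit 14500569126) (nat_lit 14) (nat_lit 5) (nat_lit 16) (nat_lit 4) (nat_lit 14) (nat_lit 4) (nat_lit 435) (nat_lit 286) (nat_lit 179)) (XT.lf (nat_lit 0) (nat_lit 5414059803) (nat_lit 76) (nat_lit 38807249643) (nat_lit 76) (nat_lit 16259956233) (nat_lit 13) (nat_lit 4) (nat_lit 14) (nat_lit 5) (nat_lit 14) (nat_lit 4) (nat_lit 436) (nat_lit 286) (nat_lit 178)))) (XT.nd (nat_lit 156) (nat_lit 76) (nat_lit 0) (XT.nd (nat_lit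 78) (nat_lit 0) (nat_lit 0) (XT.lf (nat_lit 0) (nat_lit 18733428334) (nat_lit 76) (nat_lit 32965683442) (nat_lit 76) (nat_lit 10390259779) (nat_lit 13) (nat_lit 4) (nat_lit 14) (nat_lit 5) (nat_lit 14) (nat_lit 4) (nat_lit 437) (nat_lit 286) (nat_lit 177)) (XT.lf (nat_lit 0) (nat_lit 32423678677) (nat_lit 76) (nat_lit 26962613295) (nat_lit 76) (nat_lit 4359878707) (nat_lit 13) (nat_lit 4) (nat_lit 14) (nat_lit 5) (nat_lit 14) (nat_lit 4) (nat_lit 438) (nat_lit 286) (nat_lit 176))) (XT.nd (nat_lit 78) (nat_lit 0) (nat_lit 0) (XT.lf (nat_lit 0) (nat_lit 1800620370) (nat_lit 152) (nat_lit 18973990695) (nat_lit 76) (nat_lit 44677970080) (nat_lit 12) (nat_lit 5) (nat_lit 14) (nat_lit 5) (nat_lit 13) (nat_lit 4) (nat_lit 439) (nat_lit 286) (nat_lit 175)) (XT.lf (nat_lit 0) (nat_lit 8044066658) (nat_lit 152) (nat_lit 6325537898) (nat_lit 76) (nat_lit 52839712781) (nat_lit 12) (nat_lit 5) (nat_lit 14) (nat_lit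 5) (nat_lit 13) (nat_lit 4) (nat_lit 440) (nat_lit 286) (nat_lit 174))))))) (XT.nd (nat_lit 38298) (nat_lit 0) (nat_lit 9728) (XT.nd (nat_lit 468) (nat_lit 76) (nat_lit 0) (XT.nd (nat_lit 234) (nat_lit 0) (nat_lit 0) (XT.nd (nat_lit 78) (nat_lit 0) (nat_lit 0) (XT.lf (nat_lit 0) (nat_lit 6808690328) (nat_lit 76) (nat_lit 7717751497) (nat_lit 152) (nat_lit 54490766255) (nat_lit 11) (nat_lit 5) (nat_lit 12) (nat_lit 5) (nat_lit 13) (nat_lit 4) (nat_lit 441) (nat_lit 286) (nat_lit 173)) (XT.nd (nat_lit 78) (nat_lit 0) (nat_lit 0) (XT.lf (nat_lit 0) (nat_lit 20440332700) (nat_lit 76) (nat_lit 813157291) (nat_lit 152) (nat_lit 49624340700) (nat_lit 11) (nat_lit 5) (nat_lit 12) (nat_lit 5) (nat_lit 13) (nat_lit 4) (nat_lit 442) (nat_lit 286) (nat_lit 172)) (XT.lf (nat_lit 0) (nat_lit 28229502181) (nat_lit 152) (nat_lit 38399689757) (nat_lit 0) (nat_lit 6163666623) (nat_lit 11) (nat_lit 5) (nat_lit 13) (nat_lit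 4) (nat_lit 11) (nat_lit 4) (nat_lit 443) (nat_lit 286) (nat_lit 171)))) (XT.nd (nat_lit 78) (nat_lit 0) (nat_lit 0) (XT.lf (nat_lit 0) (nat_lit 35409842720) (nat_lit 152) (nat_lit 26033843356) (nat_lit 0) (nat_lit 13321800880) (nat_lit 11) (nat_lit 5) (nat_lit 13) (nat_lit 4) (nat_lit 11) (nat_lit 4) (nat_lit 444) (nat_lit 286) (nat_lit 170)) (XT.nd (nat_lit 78) (nat_lit 0) (nat_lit 0) (XT.lf (nat_lit 0) (nat_lit 42792969125) (nat_lit 152) (nat_lit 13321337112) (nat_lit 0) (nat_lit 20683367789) (nat_lit 11) (nat_lit 5) (nat_lit 13) (nat_lit 4) (nat_lit 11) (nat_lit 4) (nat_lit 445) (nat_lit 286) (nat_lit 169)) (XT.lf (nat_lit 0) (nat_lit 50385332673) (nat_lit 152) (nat_lit 251063012) (nat_lit 0) (nat_lit 28254799787) (nat_lit 11) (nat_lit 5) (nat_lit 13) (nat_lit 4) (nat_lit 11) (nat_lit 4) (nat_lit 446) (nat_lit 286) (nat_lit 168))))) (XT.nd (nat_lit 37518) (nat_lit 0) (nat_lit 14896) (XT.nd (nat_lit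 78) (nat_lit 0) (nat_lit 0) (XT.lf (nat_lit 0) (nat_lit 13450874583) (nat_lit 76) (nat_lit 44871990918) (nat_lit 76) (nat_lit 22721136140) (nat_lit 10) (nat_lit 4) (nat_lit 11) (nat_lit 5) (nat_lit 11) (nat_lit 4) (nat_lit 447) (nat_lit 286) (nat_lit 167)) (XT.nd (nat_lit 37362) (nat_lit 0) (nat_lit 17404) (XT.lf (nat_lit 0) (nat_lit 27546321817) (nat_lit 76) (nat_lit 38942966515) (nat_lit 76) (nat_lit 16772381743) (nat_lit 10) (nat_lit 4) (nat_lit 11) (nat_lit 5) (nat_lit 11) (nat_lit 4) (nat_lit 448) (nat_lit 286) (nat_lit 166)) (XT.lf (nat_lit 0) (nat_lit 2722628800) (nat_lit 1140) (nat_lit 436405211) (nat_lit 1140) (nat_lit 436405211) (nat_lit 239) (nat_lit 4) (nat_lit 254) (nat_lit 5) (nat_lit 254) (nat_lit 4) (nat_lit 326) (nat_lit 287) (nat_lit 287)))) (XT.nd (nat_lit 156) (nat_lit 608) (nat_lit 0) (XT.nd (nat_lit 78) (nat_lit 608) (nat_lit 0) (XT.lf (nat_lit 0) (nat_lit 2520408260) (nat_lit 1292)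 (nat_lit 3823895243) (nat_lit 0) (nat_lit 906520179) (nat_lit 222) (nat_lit 5) (nat_lit 239) (nat_lit 4) (nat_lit 222) (nat_lit 4) (nat_lit 327) (nat_lit 287) (nat_lit 286)) (XT.lf (nat_lit 0) (nat_lit 1383608801) (nat_lit 608) (nat_lit 4555653506) (nat_lit 608) (nat_lit 1374883793) (nat_lit 214) (nat_lit 4) (nat_lit 222) (nat_lit 5) (nat_lit 222) (nat_lit 4) (nat_lit 328) (nat_lit 287) (nat_lit 285))) (XT.nd (nat_lit 78) (nat_lit 532) (nat_lit 0) (XT.lf (nat_lit 0) (nat_lit 1982174591) (nat_lit 684) (nat_lit 678199593) (nat_lit 76) (nat_lit 4720224515) (nat_lit 213) (nat_lit 5) (nat_lit 222) (nat_lit 5) (nat_lit 214) (nat_lit 4) (nat_lit 329) (nat_lit 287) (nat_lit 284)) (XT.lf (nat_lit 0) (nat_lit 4707702770) (nat_lit 532) (nat_lit 655180481) (nat_lit 608) (nat_lit 2087308845) (nat_lit 206) (nat_lit 5) (nat_lit 213) (nat_lit 5) (nat_lit 214) (nat_lit 4) (nat_lit 330) (nat_lit 287) (nat_lit 283)))))) (XT.nd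 (nat_lit 546) (nat_lit 2356) (nat_lit 0) (XT.nd (nat_lit 234) (nat_lit 1520) (nat_lit 0) (XT.nd (nat_lit 78) (nat_lit 608) (nat_lit 0) (XT.lf (nat_lit 0) (nat_lit 1250065495) (nat_lit 684) (nat_lit 4853501887) (nat_lit 76) (nat_lit 1419410597) (nat_lit 197) (nat_lit 5) (nat_lit 206) (nat_lit 5) (nat_lit 198) (nat_lit 4) (nat_lit 331) (nat_lit 287) (nat_lit 282)) (XT.nd (nat_lit 78) (nat_lit 76) (nat_lit 0) (XT.lf (nat_lit 0) (nat_lit 581915990) (nat_lit 532) (nat_lit 4011510951) (nat_lit 608) (nat_lit 3005532538) (nat_lit 190) (nat_lit 5) (nat_lit 197) (nat_lit 5) (nat_lit 198) (nat_lit 4) (nat_lit 332) (nat_lit 287) (nat_lit 281)) (XT.lf (nat_lit 0) (nat_lit 310840511) (nat_lit 608) (nat_lit 1505575401) (nat_lit 76) (nat_lit 5862023686) (nat_lit 189) (nat_lit 5) (nat_lit 197) (nat_lit 5) (nat_lit 190) (nat_lit 5) (nat_lit 333) (nat_lit 287) (nat_lit 280)))) (XT.nd (nat_lit 156) (nat_lit 532) (nat_lit 0)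 (XT.nd (nat_lit 78) (nat_lit 456) (nat_lit 0) (XT.lf (nat_lit 0) (nat_lit 3621882187) (nat_lit 608) (nat_lit 3646605911) (nat_lit 76) (nat_lit 492316666) (nat_lit 182) (nat_lit 5) (nat_lit 190) (nat_lit 5) (nat_lit 183) (nat_lit 4) (nat_lit 334) (nat_lit 287) (nat_lit 279)) (XT.lf (nat_lit 0) (nat_lit 2005015787) (nat_lit 456) (nat_lit 4992485119) (nat_lit 532) (nat_lit 849241776) (nat_lit 176) (nat_lit 5) (nat_lit 182) (nat_lit 5) (nat_lit 183) (nat_lit 4) (nat_lit 335) (nat_lit 287) (nat_lit 278))) (XT.nd (nat_lit 78) (nat_lit 456) (nat_lit 0) (XT.lf (nat_lit 0) (nat_lit 2440050880) (nat_lit 532) (nat_lit 162967023) (nat_lit 76) (nat_lit 5333050305) (nat_lit 175) (nat_lit 5) (nat_lit 182) (nat_lit 5) (nat_lit 176) (nat_lit 5) (nat_lit 336) (nat_lit 287) (nat_lit 277)) (XT.lf (nat_lit 0) (nat_lit 5686796094) (nat_lit 456) (nat_lit 94628900) (nat_lit 532) (nat_lit 2247336259) (nat_lit 169) (nat_lit 5) (nat_lit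 175) (nat_lit 5) (nat_lit 176) (nat_lit 5) (nat_lit 337) (nat_lit 287) (nat_lit 276))))) (XT.nd (nat_lit 234) (nat_lit 1368) (nat_lit 0) (XT.nd (nat_lit 78) (nat_lit 456) (nat_lit 0) (XT.lf (nat_lit 0) (nat_lit 1053743148) (nat_lit 532) (nat_lit 4602394402) (nat_lit 76) (nat_lit 2468540321) (nat_lit 162) (nat_lit 5) (nat_lit 169) (nat_lit 5) (nat_lit 163) (nat_lit 5) (nat_lit 338) (nat_lit 287) (nat_lit 275)) (XT.nd (nat_lit 78) (nat_lit 0) (nat_lit 0) (XT.lf (nat_lit 0) (nat_lit 1285410211) (nat_lit 456) (nat_lit 3078140230) (nat_lit 532) (nat_lit 3860657632) (nat_lit 156) (nat_lit 5) (nat_lit 162) (nat_lit 5) (nat_lit 163) (nat_lit 5) (nat_lit 339) (nat_lit 287) (nat_lit 274)) (XT.lf (nat_lit 0) (nat_lit 7341256828) (nat_lit 456) (nat_lit 396966485) (nat_lit 532) (nat_lit 589581837) (nat_lit 156) (nat_lit 5) (nat_lit 162) (nat_lit 5) (nat_lit 163) (nat_lit 5) (nat_lit 340) (nat_lit 287) (nat_lit 273))))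 (XT.nd (nat_lit 156) (nat_lit 456) (nat_lit 0) (XT.nd (nat_lit 78) (nat_lit 456) (nat_lit 0) (XT.lf (nat_lit 0) (nat_lit 2718459672) (nat_lit 456) (nat_lit 3342114598) (nat_lit 76) (nat_lit 2373387416) (nat_lit 150) (nat_lit 5) (nat_lit 156) (nat_lit 5) (nat_lit 151) (nat_lit 5) (nat_lit 341) (nat_lit 287) (nat_lit 272)) (XT.lf (nat_lit 0) (nat_lit 2771289043) (nat_lit 456) (nat_lit 3304991393) (nat_lit 532) (nat_lit 2468019747) (nat_lit 144) (nat_lit 5) (nat_lit 150) (nat_lit 5) (nat_lit 151) (nat_lit 5) (nat_lit 342) (nat_lit 287) (nat_lit 271))) (XT.nd (nat_lit 78) (nat_lit 0) (nat_lit 0) (XT.lf (nat_lit 0) (nat_lit 374903394) (nat_lit 380) (nat_lit 444813936) (nat_lit 456) (nat_lit 7839221882) (nat_lit 138) (nat_lit 5) (nat_lit 143) (nat_lit 5) (nat_lit 144) (nat_lit 5) (nat_lit 343) (nat_lit 287) (nat_lit 270)) (XT.lf (nat_lit 0) (nat_lit 4162685245) (nat_lit 456) (nat_lit 2103118293) (nat_lit 76)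 (nat_lit 2510334986) (nat_lit 138) (nat_lit 5) (nat_lit 144) (nat_lit 5) (nat_lit 139) (nat_lit 5) (nat_lit 344) (nat_lit 287) (nat_lit 269))))))))
noncomputable def xc72 : XT := (XT.nd (nat_lit 2028) (nat_lit 2432) (nat_lit 0) (XT.nd (nat_lit 1014) (nat_lit 2280) (nat_lit 0) (XT.nd (nat_lit 468) (nat_lit 1368) (nat_lit 0) (XT.nd (nat_lit 234) (nat_lit 1064) (nat_lit 0) (XT.nd (nat_lit 78) (nat_lit 380) (nat_lit 0) (XT.lf (nat_lit 0) (nat_lit 4240214611) (nat_lit 380) (nat_lit 3336412996) (nat_lit 456) (nat_lit 1321144765) (nat_lit 133) (nat_lit 5) (nat_lit 138) (nat_lit 5) (nat_lit 139) (nat_lit 5) (nat_lit 345) (nat_lit 287) (nat_lit 268)) (XT.nd (nat_lit 78) (nat_lit 0) (nat_lit 0) (XT.lf (nat_lit 0) (nat_lit 1705854257) (nat_lit 304) (nat_lit 287495895) (nat_lit 380) (nat_lit 7030230762) (nat_lit 128) (nat_lit 5) (nat_lit 132) (nat_lit 5) (nat_lit 133) (nat_lit 5) (nat_lit 346) (nat_lit 287) (nat_lit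 267)) (XT.lf (nat_lit 0) (nat_lit 5382528899) (nat_lit 380) (nat_lit 939898646) (nat_lit 76) (nat_lit 2830325466) (nat_lit 128) (nat_lit 5) (nat_lit 133) (nat_lit 5) (nat_lit 129) (nat_lit 5) (nat_lit 347) (nat_lit 287) (nat_lit 266)))) (XT.nd (nat_lit 78) (nat_lit 684) (nat_lit 0) (XT.lf (nat_lit 0) (nat_lit 5636582609) (nat_lit 380) (nat_lit 3222839954) (nat_lit 456) (nat_lit 426831278) (nat_lit 123) (nat_lit 5) (nat_lit 128) (nat_lit 5) (nat_lit 129) (nat_lit 5) (nat_lit 348) (nat_lit 287) (nat_lit 265)) (XT.nd (nat_lit 78) (nat_lit 304) (nat_lit 0) (XT.lf (nat_lit 0) (nat_lit 2925270571) (nat_lit 380) (nat_lit 6489966056) (nat_lit 76) (nat_lit 8667518) (nat_lit 118) (nat_lit 5) (nat_lit 123) (nat_lit 5) (nat_lit 119) (nat_lit 5) (nat_lit 349) (nat_lit 287) (nat_lit 264)) (XT.lf (nat_lit 0) (nat_lit 89405225) (nat_lit 304) (nat_lit 6280158036) (nat_lit 380) (nat_lit 3196019522) (nat_lit 114) (nat_lit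 5) (nat_lit 118) (nat_lit 5) (nat_lit 119) (nat_lit 5) (nat_lit 350) (nat_lit 287) (nat_lit 263))))) (XT.nd (nat_lit 234) (nat_lit 684) (nat_lit 0) (XT.nd (nat_lit 78) (nat_lit 608) (nat_lit 0) (XT.lf (nat_lit 0) (nat_lit 198422134) (nat_lit 380) (nat_lit 2814527366) (nat_lit 76) (nat_lit 6698630071) (nat_lit 113) (nat_lit 5) (nat_lit 118) (nat_lit 5) (nat_lit 114) (nat_lit 5) (nat_lit 351) (nat_lit 287) (nat_lit 262)) (XT.nd (nat_lit 78) (nat_lit 304) (nat_lit 0) (XT.lf (nat_lit 0) (nat_lit 3605239317) (nat_lit 380) (nat_lit 5871000254) (nat_lit 76) (nat_lit 385553114) (nat_lit 109) (nat_lit 5) (nat_lit 114) (nat_lit 5) (nat_lit 110) (nat_lit 5) (nat_lit 352) (nat_lit 287) (nat_lit 261)) (XT.lf (nat_lit 0) (nat_lit 931016181) (nat_lit 304) (nat_lit 6184052183) (nat_lit 380) (nat_lit 2901447868) (nat_lit 105) (nat_lit 5) (nat_lit 109) (nat_lit 5) (nat_lit 110) (nat_lit 5) (nat_lit 353) (nat_lit 287) (nat_lit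 260)))) (XT.nd (nat_lit 156) (nat_lit 380) (nat_lit 0) (XT.nd (nat_lit 78) (nat_lit 228) (nat_lit 0) (XT.lf (nat_lit 0) (nat_lit 537010048) (nat_lit 380) (nat_lit 2222294738) (nat_lit 76) (nat_lit 7416638010) (nat_lit 104) (nat_lit 5) (nat_lit 109) (nat_lit 5) (nat_lit 105) (nat_lit 5) (nat_lit 354) (nat_lit 287) (nat_lit 259)) (XT.lf (nat_lit 0) (nat_lit 4009983994) (nat_lit 304) (nat_lit 5532448857) (nat_lit 76) (nat_lit 797192996) (nat_lit 101) (nat_lit 5) (nat_lit 105) (nat_lit 5) (nat_lit 102) (nat_lit 5) (nat_lit 355) (nat_lit 287) (nat_lit 258))) (XT.nd (nat_lit 78) (nat_lit 76) (nat_lit 0) (XT.lf (nat_lit 0) (nat_lit 1489583193) (nat_lit 304) (nat_lit 6098085091) (nat_lit 380) (nat_lit 2920560579) (nat_lit 97) (nat_lit 5) (nat_lit 101) (nat_lit 5) (nat_lit 102) (nat_lit 5) (nat_lit 356) (nat_lit 287) (nat_lit 257)) (XT.lf (nat_lit 0) (nat_lit 572187754) (nat_lit 380) (nat_lit 1948575318) (nat_lit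 76) (nat_lit 8161192501) (nat_lit 96) (nat_lit 5) (nat_lit 101) (nat_lit 5) (nat_lit 97) (nat_lit 5) (nat_lit 357) (nat_lit 287) (nat_lit 256)))))) (XT.nd (nat_lit 468) (nat_lit 1216) (nat_lit 0) (XT.nd (nat_lit 234) (nat_lit 456) (nat_lit 0) (XT.nd (nat_lit 78) (nat_lit 380) (nat_lit 0) (XT.lf (nat_lit 0) (nat_lit 4112105956) (nat_lit 304) (nat_lit 5558628268) (nat_lit 76) (nat_lit 1189282710) (nat_lit 93) (nat_lit 5) (nat_lit 97) (nat_lit 5) (nat_lit 94) (nat_lit 5) (nat_lit 358) (nat_lit 287) (nat_lit 255)) (XT.nd (nat_lit 78) (nat_lit 76) (nat_lit 0) (XT.lf (nat_lit 0) (nat_lit 1677996312) (nat_lit 304) (nat_lit 6080109238) (nat_lit 380) (nat_lit 3285340380) (nat_lit 89) (nat_lit 5) (nat_lit 93) (nat_lit 5) (nat_lit 94) (nat_lit 5) (nat_lit 359) (nat_lit 287) (nat_lit 254)) (XT.lf (nat_lit 0) (nat_lit 271485169) (nat_lit 380) (nat_lit 2084140594) (nat_lit 76) (nat_lit 8876816096) (nat_lit 88) (nat_lit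 5) (nat_lit 93) (nat_lit 5) (nat_lit 89) (nat_lit 5) (nat_lit 360) (nat_lit 287) (nat_lit 253)))) (XT.nd (nat_lit 78) (nat_lit 228) (nat_lit 0) (XT.lf (nat_lit 0) (nat_lit 3876535098) (nat_lit 304) (nat_lit 6045810596) (nat_lit 76) (nat_lit 1503579994) (nat_lit 85) (nat_lit 5) (nat_lit 89) (nat_lit 5) (nat_lit 86) (nat_lit 5) (nat_lit 361) (nat_lit 287) (nat_lit 252)) (XT.nd (nat_lit 78) (nat_lit 0) (nat_lit 0) (XT.lf (nat_lit 0) (nat_lit 1396568533) (nat_lit 228) (nat_lit 6192625589) (nat_lit 304) (nat_lit 4036056003) (nat_lit 82) (nat_lit 5) (nat_lit 85) (nat_lit 5) (nat_lit 86) (nat_lit 5) (nat_lit 362) (nat_lit 287) (nat_lit 251)) (XT.lf (nat_lit 0) (nat_lit 9093479008) (nat_lit 228) (nat_lit 2323074873) (nat_lit 304) (nat_lit 413920028) (nat_lit 82) (nat_lit 5) (nat_lit 85) (nat_lit 5) (nat_lit 86) (nat_lit 5) (nat_lit 363) (nat_lit 287) (nat_lit 250))))) (XT.nd (nat_lit 234) (nat_lit 684) (nat_lit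 0) (XT.nd (nat_lit 78) (nat_lit 228) (nat_lit 0) (XT.lf (nat_lit 0) (nat_lit 3259583277) (nat_lit 304) (nat_lit 7104531205) (nat_lit 76) (nat_lit 1676578722) (nat_lit 78) (nat_lit 5) (nat_lit 82) (nat_lit 5) (nat_lit 79) (nat_lit 5) (nat_lit 364) (nat_lit 287) (nat_lit 249)) (XT.nd (nat_lit 78) (nat_lit 0) (nat_lit 0) (XT.lf (nat_lit 0) (nat_lit 530623190) (nat_lit 228) (nat_lit 6504192115) (nat_lit 304) (nat_lit 5222303145) (nat_lit 75) (nat_lit 5) (nat_lit 78) (nat_lit 5) (nat_lit 79) (nat_lit 5) (nat_lit 365) (nat_lit 287) (nat_lit 248)) (XT.lf (nat_lit 0) (nat_lit 8449778100) (nat_lit 228) (nat_lit 2489861953) (nat_lit 304) (nat_lit 1539923427) (nat_lit 75) (nat_lit 5) (nat_lit 78) (nat_lit 5) (nat_lit 79) (nat_lit 5) (nat_lit 366) (nat_lit 287) (nat_lit 247)))) (XT.nd (nat_lit 156) (nat_lit 456) (nat_lit 0) (XT.nd (nat_lit 78) (nat_lit 0) (nat_lit 0) (XT.lf (nat_lit 0) (nat_lit 2207810667) (nat_lit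 228) (nat_lit 8862231643) (nat_lit 76) (nat_lit 1638040599) (nat_lit 72) (nat_lit 5) (nat_lit 75) (nat_lit 5) (nat_lit 73) (nat_lit 5) (nat_lit 367) (nat_lit 287) (nat_lit 246)) (XT.lf (nat_lit 0) (nat_lit 6048833601) (nat_lit 228) (nat_lit 1031738083) (nat_lit 76) (nat_lit 5862090249) (nat_lit 72) (nat_lit 5) (nat_lit 75) (nat_lit 5) (nat_lit 73) (nat_lit 5) (nat_lit 368) (nat_lit 287) (nat_lit 245))) (XT.nd (nat_lit 78) (nat_lit 228) (nat_lit 0) (XT.lf (nat_lit 0) (nat_lit 7084969335) (nat_lit 228) (nat_lit 2935853842) (nat_lit 304) (nat_lit 3162998262) (nat_lit 69) (nat_lit 5) (nat_lit 72) (nat_lit 5) (nat_lit 73) (nat_lit 5) (nat_lit 369) (nat_lit 287) (nat_lit 244)) (XT.lf (nat_lit 0) (nat_lit 656678986) (nat_lit 228) (nat_lit 11466295792) (nat_lit 76) (nat_lit 1309353643) (nat_lit 66) (nat_lit 5) (nat_lit 69) (nat_lit 5) (nat_lit 67) (nat_lit 5) (nat_lit 370) (nat_lit 287) (nat_lit 243))))))) (XT.nd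 (nat_lit 1014) (nat_lit 1064) (nat_lit 0) (XT.nd (nat_lit 468) (nat_lit 760) (nat_lit 0) (XT.nd (nat_lit 234) (nat_lit 380) (nat_lit 0) (XT.nd (nat_lit 78) (nat_lit 228) (nat_lit 0) (XT.lf (nat_lit 0) (nat_lit 4566796266) (nat_lit 228) (nat_lit 3437078130) (nat_lit 76) (nat_lit 5682307926) (nat_lit 66) (nat_lit 5) (nat_lit 69) (nat_lit 5) (nat_lit 67) (nat_lit 5) (nat_lit 371) (nat_lit 287) (nat_lit 242)) (XT.nd (nat_lit 78) (nat_lit 0) (nat_lit 0) (XT.lf (nat_lit 0) (nat_lit 4842535579) (nat_lit 228) (nat_lit 3747899612) (nat_lit 304) (nat_lit 5357343603) (nat_lit 63) (nat_lit 5) (nat_lit 66) (nat_lit 5) (nat_lit 67) (nat_lit 5) (nat_lit 372) (nat_lit 287) (nat_lit 241)) (XT.lf (nat_lit 0) (nat_lit 12725940443) (nat_lit 304) (nat_lit 866957091) (nat_lit 76) (nat_lit 624604015) (nat_lit 63) (nat_lit 5) (nat_lit 67) (nat_lit 5) (nat_lit 64) (nat_lit 4) (nat_lit 373) (nat_lit 287) (nat_lit 240)))) (XT.nd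 (nat_lit 78) (nat_lit 152) (nat_lit 0) (XT.lf (nat_lit 0) (nat_lit 2504278304) (nat_lit 228) (nat_lit 6870242691) (nat_lit 76) (nat_lit 5118208942) (nat_lit 60) (nat_lit 5) (nat_lit 63) (nat_lit 5) (nat_lit 61) (nat_lit 5) (nat_lit 374) (nat_lit 287) (nat_lit 239)) (XT.nd (nat_lit 78) (nat_lit 0) (nat_lit 0) (XT.lf (nat_lit 0) (nat_lit 1540649977) (nat_lit 152) (nat_lit 5024604960) (nat_lit 228) (nat_lit 8211271967) (nat_lit 58) (nat_lit 5) (nat_lit 60) (nat_lit 5) (nat_lit 61) (nat_lit 5) (nat_lit 375) (nat_lit 287) (nat_lit 238)) (XT.lf (nat_lit 0) (nat_lit 10262523136) (nat_lit 152) (nat_lit 507123775) (nat_lit 228) (nat_lit 4298554928) (nat_lit 58) (nat_lit 5) (nat_lit 60) (nat_lit 5) (nat_lit 61) (nat_lit 5) (nat_lit 376) (nat_lit 287) (nat_lit 237))))) (XT.nd (nat_lit 234) (nat_lit 380) (nat_lit 0) (XT.nd (nat_lit 78) (nat_lit 228) (nat_lit 0) (XT.lf (nat_lit 0) (nat_lit 3831470250) (nat_lit 152)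 (nat_lit 11298664640) (nat_lit 228) (nat_lit 237604510) (nat_lit 56) (nat_lit 5) (nat_lit 58) (nat_lit 5) (nat_lit 59) (nat_lit 4) (nat_lit 377) (nat_lit 287) (nat_lit 236)) (XT.nd (nat_lit 78) (nat_lit 152) (nat_lit 0) (XT.lf (nat_lit 0) (nat_lit 3875623889) (nat_lit 228) (nat_lit 2973000224) (nat_lit 76) (nat_lit 8826288905) (nat_lit 55) (nat_lit 5) (nat_lit 58) (nat_lit 5) (nat_lit 56) (nat_lit 5) (nat_lit 378) (nat_lit 287) (nat_lit 235)) (XT.lf (nat_lit 0) (nat_lit 5880918346) (nat_lit 152) (nat_lit 2237847908) (nat_lit 228) (nat_lit 7872136577) (nat_lit 53) (nat_lit 5) (nat_lit 55) (nat_lit 5) (nat_lit 56) (nat_lit 5) (nat_lit 379) (nat_lit 287) (nat_lit 234)))) (XT.nd (nat_lit 156) (nat_lit 152) (nat_lit 0) (XT.nd (nat_lit 78) (nat_lit 228) (nat_lit 0) (XT.lf (nat_lit 0) (nat_lit 12498672733) (nat_lit 228) (nat_lit 1357424102) (nat_lit 76) (nat_lit 2460001452) (nat_lit 53) (nat_lit 5) (nat_lit 56)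 (nat_lit 5) (nat_lit 54) (nat_lit 4) (nat_lit 380) (nat_lit 287) (nat_lit 233)) (XT.lf (nat_lit 0) (nat_lit 405019898) (nat_lit 228) (nat_lit 8944073718) (nat_lit 76) (nat_lit 7300269038) (nat_lit 50) (nat_lit 5) (nat_lit 53) (nat_lit 5) (nat_lit 51) (nat_lit 5) (nat_lit 381) (nat_lit 287) (nat_lit 232))) (XT.nd (nat_lit 78) (nat_lit 152) (nat_lit 0) (XT.lf (nat_lit 0) (nat_lit 4647683632) (nat_lit 228) (nat_lit 39176825) (nat_lit 76) (nat_lit 12305531656) (nat_lit 50) (nat_lit 5) (nat_lit 53) (nat_lit 5) (nat_lit 51) (nat_lit 5) (nat_lit 382) (nat_lit 287) (nat_lit 231)) (XT.lf (nat_lit 0) (nat_lit 9065809662) (nat_lit 228) (nat_lit 8107362740) (nat_lit 76) (nat_lit 171103505) (nat_lit 48) (nat_lit 5) (nat_lit 51) (nat_lit 5) (nat_lit 49) (nat_lit 4) (nat_lit 383) (nat_lit 287) (nat_lit 230)))))) (XT.nd (nat_lit 546) (nat_lit 380) (nat_lit 0) (XT.nd (nat_lit 234) (nat_lit 304) (nat_lit 0) (XT.nd (nat_lit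 78) (nat_lit 228) (nat_lit 0) (XT.lf (nat_lit 0) (nat_lit 983437317) (nat_lit 152) (nat_lit 12647212461) (nat_lit 228) (nat_lit 4075649992) (nat_lit 46) (nat_lit 5) (nat_lit 48) (nat_lit 5) (nat_lit 49) (nat_lit 4) (nat_lit 384) (nat_lit 287) (nat_lit 229)) (XT.nd (nat_lit 78) (nat_lit 152) (nat_lit 0) (XT.lf (nat_lit 0) (nat_lit 288995463) (nat_lit 228) (nat_lit 7641659380) (nat_lit 76) (nat_lit 10147244041) (nat_lit 45) (nat_lit 5) (nat_lit 48) (nat_lit 5) (nat_lit 46) (nat_lit 5) (nat_lit 385) (nat_lit 287) (nat_lit 228)) (XT.lf (nat_lit 0) (nat_lit 1630788725) (nat_lit 152) (nat_lit 3046781752) (nat_lit 228) (nat_lit 13782625634) (nat_lit 43) (nat_lit 5) (nat_lit 45) (nat_lit 5) (nat_lit 46) (nat_lit 5) (nat_lit 386) (nat_lit 287) (nat_lit 227)))) (XT.nd (nat_lit 156) (nat_lit 228) (nat_lit 0) (XT.nd (nat_lit 78) (nat_lit 76) (nat_lit 0) (XT.lf (nat_lit 0) (nat_lit 9254222139) (nat_lit 228) (nat_lit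 7606281867) (nat_lit 76) (nat_lit 1991773362) (nat_lit 43) (nat_lit 5) (nat_lit 46) (nat_lit 5) (nat_lit 44) (nat_lit 4) (nat_lit 387) (nat_lit 287) (nat_lit 226)) (XT.lf (nat_lit 0) (nat_lit 1828310594) (nat_lit 76) (nat_lit 12148207593) (nat_lit 152) (nat_lit 5279360005) (nat_lit 42) (nat_lit 5) (nat_lit 43) (nat_lit 5) (nat_lit 44) (nat_lit 4) (nat_lit 388) (nat_lit 287) (nat_lit 225))) (XT.nd (nat_lit 78) (nat_lit 228) (nat_lit 0) (XT.lf (nat_lit 0) (nat_lit 11631818067) (nat_lit 76) (nat_lit 7246551578) (nat_lit 152) (nat_lit 792088056) (nat_lit 42) (nat_lit 5) (nat_lit 43) (nat_lit 5) (nat_lit 44) (nat_lit 4) (nat_lit 389) (nat_lit 287) (nat_lit 224)) (XT.lf (nat_lit 0) (nat_lit 1556749098) (nat_lit 152) (nat_lit 2175114742) (nat_lit 228) (nat_lit 16365209311) (nat_lit 39) (nat_lit 5) (nat_lit 41) (nat_lit 5) (nat_lit 42) (nat_lit 5) (nat_lit 390) (nat_lit 287) (nat_lit 223))))) (XT.nd (nat_lit 234)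 (nat_lit 304) (nat_lit 0) (XT.nd (nat_lit 78) (nat_lit 76) (nat_lit 0) (XT.lf (nat_lit 0) (nat_lit 8448891702) (nat_lit 228) (nat_lit 9036160149) (nat_lit 76) (nat_lit 3049008251) (nat_lit 39) (nat_lit 5) (nat_lit 42) (nat_lit 5) (nat_lit 40) (nat_lit 4) (nat_lit 391) (nat_lit 287) (nat_lit 222)) (XT.nd (nat_lit 78) (nat_lit 0) (nat_lit 0) (XT.lf (nat_lit 0) (nat_lit 677886749) (nat_lit 76) (nat_lit 12620698299) (nat_lit 152) (nat_lit 7685843420) (nat_lit 38) (nat_lit 5) (nat_lit 39) (nat_lit 5) (nat_lit 40) (nat_lit 4) (nat_lit 392) (nat_lit 287) (nat_lit 221)) (XT.lf (nat_lit 0) (nat_lit 10802309552) (nat_lit 76) (nat_lit 7546247318) (nat_lit 152) (nat_lit 3098113645) (nat_lit 38) (nat_lit 5) (nat_lit 39) (nat_lit 5) (nat_lit 40) (nat_lit 4) (nat_lit 393) (nat_lit 287) (nat_lit 220)))) (XT.nd (nat_lit 156) (nat_lit 76) (nat_lit 0) (XT.nd (nat_lit 78) (nat_lit 152) (nat_lit 0) (XT.lf (nat_lit 0) (nat_lit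 1559740232) (nat_lit 152) (nat_lit 773021870) (nat_lit 76) (nat_lit 19590626984) (nat_lit 37) (nat_lit 5) (nat_lit 39) (nat_lit 5) (nat_lit 38) (nat_lit 5) (nat_lit 394) (nat_lit 287) (nat_lit 219)) (XT.lf (nat_lit 0) (nat_lit 6381657946) (nat_lit 228) (nat_lit 12956214760) (nat_lit 76) (nat_lit 3073024089) (nat_lit 35) (nat_lit 5) (nat_lit 38) (nat_lit 5) (nat_lit 36) (nat_lit 4) (nat_lit 395) (nat_lit 287) (nat_lit 218))) (XT.nd (nat_lit 78) (nat_lit 76) (nat_lit 0) (XT.lf (nat_lit 0) (nat_lit 11344638457) (nat_lit 228) (nat_lit 2994219944) (nat_lit 76) (nat_lit 8574284737) (nat_lit 35) (nat_lit 5) (nat_lit 38) (nat_lit 5) (nat_lit 36) (nat_lit 4) (nat_lit 396) (nat_lit 287) (nat_lit 217)) (XT.lf (nat_lit 0) (nat_lit 7348562020) (nat_lit 76) (nat_lit 9145017583) (nat_lit 152) (nat_lit 6935770530) (nat_lit 34) (nat_lit 5) (nat_lit 35) (nat_lit 5) (nat_lit 36) (nat_lit 4) (nat_lit 397) (nat_lit 287) (nat_lit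 216))))))))
noncomputable def xc73 : XT := (XT.nd (nat_lit 2028) (nat_lit 608) (nat_lit 0) (XT.nd (nat_lit 1014) (nat_lit 456) (nat_lit 0) (XT.nd (nat_lit 468) (nat_lit 456) (nat_lit 0) (XT.nd (nat_lit 234) (nat_lit 76) (nat_lit 0) (XT.nd (nat_lit 78) (nat_lit 228) (nat_lit 0) (XT.lf (nat_lit 0) (nat_lit 18002139051) (nat_lit 76) (nat_lit 3791910639) (nat_lit 152) (nat_lit 2167087068) (nat_lit 34) (nat_lit 5) (nat_lit 35) (nat_lit 5) (nat_lit 36) (nat_lit 4) (nat_lit 398) (nat_lit 287) (nat_lit 215)) (XT.nd (nat_lit 78) (nat_lit 0) (nat_lit 0) (XT.lf (nat_lit 0) (nat_lit 2718486076) (nat_lit 228) (nat_lit 20057260353) (nat_lit 76) (nat_lit 1731522374) (nat_lit 31) (nat_lit 5) (nat_lit 34) (nat_lit 5) (nat_lit 32) (nat_lit 4) (nat_lit 399) (nat_lit 287) (nat_lit 214)) (XT.lf (nat_lit 0) (nat_lit 7772970343) (nat_lit 228) (nat_lit 9894007539) (nat_lit 76) (nat_lit 7400191027) (nat_lit 31) (nat_lit 5) (nat_lit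 34) (nat_lit 5) (nat_lit 32) (nat_lit 4) (nat_lit 400) (nat_lit 287) (nat_lit 213)))) (XT.nd (nat_lit 78) (nat_lit 0) (nat_lit 0) (XT.lf (nat_lit 0) (nat_lit 526285794) (nat_lit 76) (nat_lit 12426392991) (nat_lit 152) (nat_lit 12691984201) (nat_lit 30) (nat_lit 5) (nat_lit 31) (nat_lit 5) (nat_lit 32) (nat_lit 4) (nat_lit 401) (nat_lit 287) (nat_lit 212)) (XT.nd (nat_lit 78) (nat_lit 0) (nat_lit 0) (XT.lf (nat_lit 0) (nat_lit 11404448460) (nat_lit 76) (nat_lit 6952134076) (nat_lit 152) (nat_lit 7880839751) (nat_lit 30) (nat_lit 5) (nat_lit 31) (nat_lit 5) (nat_lit 32) (nat_lit 4) (nat_lit 402) (nat_lit 287) (nat_lit 211)) (XT.lf (nat_lit 0) (nat_lit 22553075496) (nat_lit 76) (nat_lit 1339327879) (nat_lit 152) (nat_lit 2956471380) (nat_lit 30) (nat_lit 5) (nat_lit 31) (nat_lit 5) (nat_lit 32) (nat_lit 4) (nat_lit 403) (nat_lit 287) (nat_lit 210))))) (XT.nd (nat_lit 234) (nat_lit 152) (nat_lit 0) (XT.nd (nat_lit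 78) (nat_lit 76) (nat_lit 0) (XT.lf (nat_lit 0) (nat_lit 2151567602) (nat_lit 228) (nat_lit 20909014653) (nat_lit 76) (nat_lit 4415165887) (nat_lit 27) (nat_lit 5) (nat_lit 30) (nat_lit 5) (nat_lit 28) (nat_lit 4) (nat_lit 404) (nat_lit 287) (nat_lit 209)) (XT.nd (nat_lit 78) (nat_lit 76) (nat_lit 0) (XT.lf (nat_lit 0) (nat_lit 7380979909) (nat_lit 228) (nat_lit 10374836969) (nat_lit 76) (nat_lit 10363910079) (nat_lit 27) (nat_lit 5) (nat_lit 30) (nat_lit 5) (nat_lit 28) (nat_lit 4) (nat_lit 405) (nat_lit 287) (nat_lit 208)) (XT.lf (nat_lit 0) (nat_lit 430415144) (nat_lit 76) (nat_lit 12312341502) (nat_lit 152) (nat_lit 16041007931) (nat_lit 26) (nat_lit 5) (nat_lit 27) (nat_lit 5) (nat_lit 28) (nat_lit 4) (nat_lit 406) (nat_lit 287) (nat_lit 207)))) (XT.nd (nat_lit 156) (nat_lit 152) (nat_lit 0) (XT.nd (nat_lit 78) (nat_lit 0) (nat_lit 0) (XT.lf (nat_lit 0) (nat_lit 11719671995) (nat_lit 76) (nat_lit 6622151664)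 (nat_lit 152) (nat_lit 11123610342) (nat_lit 26) (nat_lit 5) (nat_lit 27) (nat_lit 5) (nat_lit 28) (nat_lit 4) (nat_lit 407) (nat_lit 287) (nat_lit 206)) (XT.lf (nat_lit 0) (nat_lit 23296318385) (nat_lit 76) (nat_lit 785040865) (nat_lit 152) (nat_lit 6087023038) (nat_lit 26) (nat_lit 5) (nat_lit 27) (nat_lit 5) (nat_lit 28) (nat_lit 4) (nat_lit 408) (nat_lit 287) (nat_lit 205))) (XT.nd (nat_lit 78) (nat_lit 76) (nat_lit 0) (XT.lf (nat_lit 0) (nat_lit 4311351247) (nat_lit 76) (nat_lit 25746495554) (nat_lit 76) (nat_lit 832632815) (nat_lit 25) (nat_lit 4) (nat_lit 26) (nat_lit 5) (nat_lit 26) (nat_lit 4) (nat_lit 409) (nat_lit 287) (nat_lit 204)) (XT.lf (nat_lit 0) (nat_lit 4540996267) (nat_lit 152) (nat_lit 15763919822) (nat_lit 76) (nat_lit 11326477516) (nat_lit 24) (nat_lit 5) (nat_lit 26) (nat_lit 5) (nat_lit 25) (nat_lit 4) (nat_lit 410) (nat_lit 287) (nat_lit 203)))))) (XT.nd (nat_lit 468) (nat_lit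 228) (nat_lit 0) (XT.nd (nat_lit 234) (nat_lit 152) (nat_lit 0) (XT.nd (nat_lit 78) (nat_lit 76) (nat_lit 0) (XT.lf (nat_lit 0) (nat_lit 10032995634) (nat_lit 152) (nat_lit 4681451889) (nat_lit 76) (nat_lit 17680626546) (nat_lit 24) (nat_lit 5) (nat_lit 26) (nat_lit 5) (nat_lit 25) (nat_lit 4) (nat_lit 411) (nat_lit 287) (nat_lit 202)) (XT.nd (nat_lit 78) (nat_lit 0) (nat_lit 0) (XT.lf (nat_lit 0) (nat_lit 6819026687) (nat_lit 76) (nat_lit 8910933755) (nat_lit 152) (nat_lit 17450501512) (nat_lit 23) (nat_lit 5) (nat_lit 24) (nat_lit 5) (nat_lit 25) (nat_lit 4) (nat_lit 412) (nat_lit 287) (nat_lit 201)) (XT.lf (nat_lit 0) (nat_lit 18713423580) (nat_lit 76) (nat_lit 2906626671) (nat_lit 152) (nat_lit 12368697820) (nat_lit 23) (nat_lit 5) (nat_lit 24) (nat_lit 5) (nat_lit 25) (nat_lit 4) (nat_lit 413) (nat_lit 287) (nat_lit 200)))) (XT.nd (nat_lit 78) (nat_lit 152) (nat_lit 0) (XT.lf (nat_lit 0) (nat_lit 27693818115)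 (nat_lit 152) (nat_lit 3934356667) (nat_lit 0) (nat_lit 3192901719) (nat_lit 23) (nat_lit 5) (nat_lit 25) (nat_lit 4) (nat_lit 23) (nat_lit 4) (nat_lit 414) (nat_lit 287) (nat_lit 199)) (XT.nd (nat_lit 78) (nat_lit 76) (nat_lit 0) (XT.lf (nat_lit 0) (nat_lit 7825901426) (nat_lit 76) (nat_lit 26204085023) (nat_lit 76) (nat_lit 1645985615) (nat_lit 22) (nat_lit 4) (nat_lit 23) (nat_lit 5) (nat_lit 23) (nat_lit 4) (nat_lit 415) (nat_lit 287) (nat_lit 198)) (XT.lf (nat_lit 0) (nat_lit 3938011223) (nat_lit 152) (nat_lit 16619454110) (nat_lit 76) (nat_lit 15997408412) (nat_lit 21) (nat_lit 5) (nat_lit 23) (nat_lit 5) (nat_lit 22) (nat_lit 4) (nat_lit 416) (nat_lit 287) (nat_lit 197))))) (XT.nd (nat_lit 234) (nat_lit 152) (nat_lit 0) (XT.nd (nat_lit 78) (nat_lit 76) (nat_lit 0) (XT.lf (nat_lit 0) (nat_lit 9633350417) (nat_lit 152) (nat_lit 5111816018) (nat_lit 76) (nat_lit 22715182638) (nat_lit 21) (nat_lit 5)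 (nat_lit 23) (nat_lit 5) (nat_lit 22) (nat_lit 4) (nat_lit 417) (nat_lit 287) (nat_lit 196)) (XT.nd (nat_lit 78) (nat_lit 0) (nat_lit 0) (XT.lf (nat_lit 0) (nat_lit 6832038758) (nat_lit 76) (nat_lit 8710762562) (nat_lit 152) (nat_lit 22848892373) (nat_lit 20) (nat_lit 5) (nat_lit 21) (nat_lit 5) (nat_lit 22) (nat_lit 4) (nat_lit 418) (nat_lit 287) (nat_lit 195)) (XT.lf (nat_lit 0) (nat_lit 19197081257) (nat_lit 76) (nat_lit 2461901769) (nat_lit 152) (nat_lit 17691114711) (nat_lit 20) (nat_lit 5) (nat_lit 21) (nat_lit 5) (nat_lit 22) (nat_lit 4) (nat_lit 419) (nat_lit 287) (nat_lit 194)))) (XT.nd (nat_lit 156) (nat_lit 76) (nat_lit 0) (XT.nd (nat_lit 78) (nat_lit 76) (nat_lit 0) (XT.lf (nat_lit 0) (nat_lit 27975144277) (nat_lit 152) (nat_lit 8483541748) (nat_lit 0) (nat_lit 3878075485) (nat_lit 20) (nat_lit 5) (nat_lit 22) (nat_lit 4) (nat_lit 20) (nat_lit 4) (nat_lit 420) (nat_lit 287) (nat_lit 193)) (XT.lf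 (nat_lit 0) (nat_lit 3540775760) (nat_lit 76) (nat_lit 30977347806) (nat_lit 76) (nat_lit 6833783993) (nat_lit 19) (nat_lit 4) (nat_lit 20) (nat_lit 5) (nat_lit 20) (nat_lit 4) (nat_lit 421) (nat_lit 287) (nat_lit 192))) (XT.nd (nat_lit 78) (nat_lit 76) (nat_lit 0) (XT.lf (nat_lit 0) (nat_lit 16060159354) (nat_lit 76) (nat_lit 25262055431) (nat_lit 76) (nat_lit 1073350820) (nat_lit 19) (nat_lit 4) (nat_lit 20) (nat_lit 5) (nat_lit 20) (nat_lit 4) (nat_lit 422) (nat_lit 287) (nat_lit 191)) (XT.lf (nat_lit 0) (nat_lit 4744621269) (nat_lit 152) (nat_lit 14600949449) (nat_lit 76) (nat_lit 24124176544) (nat_lit 18) (nat_lit 5) (nat_lit 20) (nat_lit 5) (nat_lit 19) (nat_lit 4) (nat_lit 423) (nat_lit 287) (nat_lit 190))))))) (XT.nd (nat_lit 1014) (nat_lit 304) (nat_lit 0) (XT.nd (nat_lit 468) (nat_lit 152) (nat_lit 0) (XT.nd (nat_lit 234) (nat_lit 76) (nat_lit 0) (XT.nd (nat_lit 78) (nat_lit 76) (nat_lit 0) (XT.lf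 (nat_lit 0) (nat_lit 10695714559) (nat_lit 152) (nat_lit 2562779603) (nat_lit 76) (nat_lit 31317938828) (nat_lit 18) (nat_lit 5) (nat_lit 20) (nat_lit 5) (nat_lit 19) (nat_lit 4) (nat_lit 424) (nat_lit 287) (nat_lit 189)) (XT.nd (nat_lit 78) (nat_lit 0) (nat_lit 0) (XT.lf (nat_lit 0) (nat_lit 9994977798) (nat_lit 76) (nat_lit 6907174014) (nat_lit 152) (nat_lit 28811865177) (nat_lit 17) (nat_lit 5) (nat_lit 18) (nat_lit 5) (nat_lit 19) (nat_lit 4) (nat_lit 425) (nat_lit 287) (nat_lit 188)) (XT.lf (nat_lit 0) (nat_lit 22945765615) (nat_lit 76) (nat_lit 355841779) (nat_lit 152) (nat_lit 23583918335) (nat_lit 17) (nat_lit 5) (nat_lit 18) (nat_lit 5) (nat_lit 19) (nat_lit 4) (nat_lit 426) (nat_lit 287) (nat_lit 187)))) (XT.nd (nat_lit 78) (nat_lit 76) (nat_lit 0) (XT.lf (nat_lit 0) (nat_lit 29935831514) (nat_lit 152) (nat_lit 11904124631) (nat_lit 0) (nat_lit 6250941957) (nat_lit 17) (nat_lit 5) (nat_lit 19)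 (nat_lit 4) (nat_lit 17) (nat_lit 4) (nat_lit 427) (nat_lit 287) (nat_lit 186)) (XT.nd (nat_lit 78) (nat_lit 0) (nat_lit 0) (XT.lf (nat_lit 0) (nat_lit 463560860) (nat_lit 76) (nat_lit 36295384952) (nat_lit 76) (nat_lit 12573791795) (nat_lit 16) (nat_lit 4) (nat_lit 17) (nat_lit 5) (nat_lit 17) (nat_lit 4) (nat_lit 428) (nat_lit 287) (nat_lit 185)) (XT.lf (nat_lit 0) (nat_lit 13412096833) (nat_lit 76) (nat_lit 30476948124) (nat_lit 76) (nat_lit 6719720405) (nat_lit 16) (nat_lit 4) (nat_lit 17) (nat_lit 5) (nat_lit 17) (nat_lit 4) (nat_lit 429) (nat_lit 287) (nat_lit 184))))) (XT.nd (nat_lit 234) (nat_lit 76) (nat_lit 0) (XT.nd (nat_lit 78) (nat_lit 76) (nat_lit 0) (XT.lf (nat_lit 0) (nat_lit 26715882120) (nat_lit 76) (nat_lit 24499769909) (nat_lit 76) (nat_lit 707945528) (nat_lit 16) (nat_lit 4) (nat_lit 17) (nat_lit 5) (nat_lit 17) (nat_lit 4) (nat_lit 430) (nat_lit 287) (nat_lit 183)) (XT.nd (nat_lit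 78) (nat_lit 0) (nat_lit 0) (XT.lf (nat_lit 0) (nat_lit 5360109160) (nat_lit 152) (nat_lit 12944391777) (nat_lit 76) (nat_lit 34972305635) (nat_lit 15) (nat_lit 5) (nat_lit 17) (nat_lit 5) (nat_lit 16) (nat_lit 4) (nat_lit 431) (nat_lit 287) (nat_lit 182)) (XT.lf (nat_lit 0) (nat_lit 11579416021) (nat_lit 152) (nat_lit 351809522) (nat_lit 76) (nat_lit 42739674455) (nat_lit 15) (nat_lit 5) (nat_lit 17) (nat_lit 5) (nat_lit 16) (nat_lit 4) (nat_lit 432) (nat_lit 287) (nat_lit 181)))) (XT.nd (nat_lit 156) (nat_lit 0) (nat_lit 0) (XT.nd (nat_lit 78) (nat_lit 0) (nat_lit 0) (XT.lf (nat_lit 0) (nat_lit 12838362453) (nat_lit 76) (nat_lit 5254271707) (nat_lit 152) (nat_lit 38010963664) (nat_lit 14) (nat_lit 5) (nat_lit 15) (nat_lit 5) (nat_lit 16) (nat_lit 4) (nat_lit 433) (nat_lit 287) (nat_lit 180)) (XT.lf (nat_lit 0) (nat_lit 24804396192) (nat_lit 152) (nat_lit 31194103506) (nat_lit 0) (nat_lit 1580683980) (nat_lit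 14) (nat_lit 5) (nat_lit 16) (nat_lit 4) (nat_lit 14) (nat_lit 4) (nat_lit 434) (nat_lit 287) (nat_lit 179))) (XT.nd (nat_lit 78) (nat_lit 0) (nat_lit 0) (XT.lf (nat_lit 0) (nat_lit 31753959216) (nat_lit 152) (nat_lit 18842713075) (nat_lit 0) (nat_lit 8501272844) (nat_lit 14) (nat_lit 5) (nat_lit 16) (nat_lit 4) (nat_lit 14) (nat_lit 4) (nat_lit 435) (nat_lit 287) (nat_lit 178)) (XT.lf (nat_lit 0) (nat_lit 38896888392) (nat_lit 152) (nat_lit 6149764326) (nat_lit 0) (nat_lit 15616071767) (nat_lit 14) (nat_lit 5) (nat_lit 16) (nat_lit 4) (nat_lit 14) (nat_lit 4) (nat_lit 436) (nat_lit 287) (nat_lit 177)))))) (XT.nd (nat_lit 546) (nat_lit 76) (nat_lit 0) (XT.nd (nat_lit 234) (nat_lit 152) (nat_lit 0) (XT.nd (nat_lit 78) (nat_lit 0) (nat_lit 0) (XT.lf (nat_lit 0) (nat_lit 7033074277) (nat_lit 76) (nat_lit 39273957049) (nat_lit 76) (nat_lit 15965829499) (nat_lit 13) (nat_lit 4) (nat_lit 14) (nat_lit 5) (nat_lit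 14) (nat_lit 4) (nat_lit 437) (nat_lit 287) (nat_lit 176)) (XT.nd (nat_lit 78) (nat_lit 0) (nat_lit 0) (XT.lf (nat_lit 0) (nat_lit 20709598835) (nat_lit 76) (nat_lit 33277459689) (nat_lit 76) (nat_lit 9942816678) (nat_lit 13) (nat_lit 4) (nat_lit 14) (nat_lit 5) (nat_lit 14) (nat_lit 4) (nat_lit 438) (nat_lit 287) (nat_lit 175)) (XT.lf (nat_lit 0) (nat_lit 34769367339) (nat_lit 76) (nat_lit 27114021542) (nat_lit 76) (nat_lit 3753635366) (nat_lit 13) (nat_lit 4) (nat_lit 14) (nat_lit 5) (nat_lit 14) (nat_lit 4) (nat_lit 439) (nat_lit 287) (nat_lit 174)))) (XT.nd (nat_lit 156) (nat_lit 76) (nat_lit 0) (XT.nd (nat_lit 78) (nat_lit 0) (nat_lit 0) (XT.lf (nat_lit 0) (nat_lit 2556248111) (nat_lit 152) (nat_lit 18196195875) (nat_lit 76) (nat_lit 46642603819) (nat_lit 12) (nat_lit 5) (nat_lit 14) (nat_lit 5) (nat_lit 13) (nat_lit 4) (nat_lit 440) (nat_lit 287) (nat_lit 173)) (XT.lf (nat_lit 0) (nat_lit 8966562570)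 (nat_lit 152) (nat_lit 5207522927) (nat_lit 76) (nat_lit 55031015462) (nat_lit 12) (nat_lit 5) (nat_lit 14) (nat_lit 5) (nat_lit 13) (nat_lit 4) (nat_lit 441) (nat_lit 287) (nat_lit 172))) (XT.nd (nat_lit 78) (nat_lit 0) (nat_lit 0) (XT.lf (nat_lit 0) (nat_lit 8307910763) (nat_lit 76) (nat_lit 7328106158) (nat_lit 152) (nat_lit 55431435033) (nat_lit 11) (nat_lit 5) (nat_lit 12) (nat_lit 5) (nat_lit 13) (nat_lit 4) (nat_lit 442) (nat_lit 287) (nat_lit 171)) (XT.lf (nat_lit 0) (nat_lit 22310785132) (nat_lit 76) (nat_lit 234466685) (nat_lit 152) (nat_lit 50439231883) (nat_lit 11) (nat_lit 5) (nat_lit 12) (nat_lit 5) (nat_lit 13) (nat_lit 4) (nat_lit 443) (nat_lit 287) (nat_lit 170))))) (XT.nd (nat_lit 234) (nat_lit 76) (nat_lit 0) (XT.nd (nat_lit 78) (nat_lit 0) (nat_lit 0) (XT.lf (nat_lit 0) (nat_lit 29717119627) (nat_lit 152) (nat_lit 38317576433) (nat_lit 0) (nat_lit 6922670755) (nat_lit 11) (nat_lit 5)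 (nat_lit 13) (nat_lit 4) (nat_lit 11) (nat_lit 4) (nat_lit 444) (nat_lit 287) (nat_lit 169)) (XT.nd (nat_lit 78) (nat_lit 0) (nat_lit 0) (XT.lf (nat_lit 0) (nat_lit 37094208274) (nat_lit 152) (nat_lit 25616699416) (nat_lit 0) (nat_lit 14278827852) (nat_lit 11) (nat_lit 5) (nat_lit 13) (nat_lit 4) (nat_lit 11) (nat_lit 4) (nat_lit 445) (nat_lit 287) (nat_lit 168)) (XT.lf (nat_lit 0) (nat_lit 44680709920) (nat_lit 152) (nat_lit 12557715828) (nat_lit 0) (nat_lit 21845007605) (nat_lit 11) (nat_lit 5) (nat_lit 13) (nat_lit 4) (nat_lit 11) (nat_lit 4) (nat_lit 446) (nat_lit 287) (nat_lit 167)))) (XT.nd (nat_lit 37284) (nat_lit 0) (nat_lit 17404) (XT.nd (nat_lit 78) (nat_lit 0) (nat_lit 0) (XT.lf (nat_lit 0) (nat_lit 888115425) (nat_lit 76) (nat_lit 51603675230) (nat_lit 76) (nat_lit 28748242922) (nat_lit 10) (nat_lit 4) (nat_lit 11) (nat_lit 5) (nat_lit 11) (nat_lit 4) (nat_lit 447) (nat_lit 287) (nat_lit 166))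 (XT.lf (nat_lit 0) (nat_lit 14972708465) (nat_lit 76) (nat_lit 45679875279) (nat_lit 76) (nat_lit 22805287638) (nat_lit 10) (nat_lit 4) (nat_lit 11) (nat_lit 5) (nat_lit 11) (nat_lit 4) (nat_lit 448) (nat_lit 287) (nat_lit 165))) (XT.nd (nat_lit 78) (nat_lit 1140) (nat_lit 0) (XT.lf (nat_lit 0) (nat_lit 605828229) (nat_lit 1140) (nat_lit 2327528246) (nat_lit 0) (nat_lit 605828229) (nat_lit 254) (nat_lit 5) (nat_lit 269) (nat_lit 4) (nat_lit 254) (nat_lit 4) (nat_lit 324) (nat_lit 288) (nat_lit 288)) (XT.lf (nat_lit 0) (nat_lit 298519435) (nat_lit 1140) (nat_lit 4273688328) (nat_lit 1140) (nat_lit 2561514463) (nat_lit 239) (nat_lit 4) (nat_lit 254) (nat_lit 5) (nat_lit 254) (nat_lit 4) (nat_lit 325) (nat_lit 288) (nat_lit 287))))))))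
noncomputable def xc74 : XT := (XT.nd (nat_lit 2028) (nat_lit 4408) (nat_lit 0) (XT.nd (nat_lit 1014) (nat_lit 3724) (nat_lit 0) (XT.nd (nat_lit 468) (nat_lit 2660) (nat_lit 0) (XT.nd (nat_lit 234) (nat_lit 1216) (nat_lit 0) (XT.nd (nat_lit 78) (nat_lit 1900) (nat_lit 0) (XT.lf (nat_lit 0) (nat_lit 773585356) (nat_lit 1216) (nat_lit 1804100315) (nat_lit 76) (nat_lit 4614473040) (nat_lit 238) (nat_lit 5) (nat_lit 254) (nat_lit 5) (nat_lit 239) (nat_lit 4) (nat_lit 326) (nat_lit 288) (nat_lit 286)) (XT.nd (nat_lit 78) (nat_lit 684) (nat_lit 0) (XT.lf (nat_lit 0) (nat_lit 3317965455) (nat_lit 1216) (nat_lit 773823768) (nat_lit 1292) (nat_lit 3161841691) (nat_lit 222) (nat_lit 5) (nat_lit 238) (nat_lit 5) (nat_lit 239) (nat_lit 4) (nat_lit 327) (nat_lit 288) (nat_lit 285)) (XT.lf (nat_lit 0) (nat_lit 133325136) (nat_lit 684) (nat_lit 6093668711) (nat_lit 76) (nat_lit 1091638110) (nat_lit 213) (nat_lit 5) (nat_lit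 222) (nat_lit 5) (nat_lit 214) (nat_lit 4) (nat_lit 328) (nat_lit 288) (nat_lit 284)))) (XT.nd (nat_lit 78) (nat_lit 1216) (nat_lit 0) (XT.lf (nat_lit 0) (nat_lit 3416913703) (nat_lit 684) (nat_lit 904920136) (nat_lit 76) (nat_lit 3064289304) (nat_lit 213) (nat_lit 5) (nat_lit 222) (nat_lit 5) (nat_lit 214) (nat_lit 4) (nat_lit 329) (nat_lit 288) (nat_lit 283)) (XT.nd (nat_lit 78) (nat_lit 684) (nat_lit 0) (XT.lf (nat_lit 0) (nat_lit 4426590989) (nat_lit 532) (nat_lit 2323046744) (nat_lit 608) (nat_lit 707553149) (nat_lit 206) (nat_lit 5) (nat_lit 213) (nat_lit 5) (nat_lit 214) (nat_lit 4) (nat_lit 330) (nat_lit 288) (nat_lit 282)) (XT.lf (nat_lit 0) (nat_lit 2326102881) (nat_lit 608) (nat_lit 214537992) (nat_lit 684) (nat_lit 4990838496) (nat_lit 197) (nat_lit 5) (nat_lit 205) (nat_lit 5) (nat_lit 206) (nat_lit 5) (nat_lit 331) (nat_lit 288) (nat_lit 281))))) (XT.nd (nat_lit 234) (nat_lit 1520) (nat_lit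 0) (XT.nd (nat_lit 78) (nat_lit 608) (nat_lit 0) (XT.lf (nat_lit 0) (nat_lit 173966655) (nat_lit 532) (nat_lit 5659941786) (nat_lit 608) (nat_lit 1775087095) (nat_lit 190) (nat_lit 5) (nat_lit 197) (nat_lit 5) (nat_lit 198) (nat_lit 4) (nat_lit 332) (nat_lit 288) (nat_lit 280)) (XT.nd (nat_lit 78) (nat_lit 532) (nat_lit 0) (XT.lf (nat_lit 0) (nat_lit 1473513485) (nat_lit 608) (nat_lit 1985974076) (nat_lit 76) (nat_lit 4229976145) (nat_lit 189) (nat_lit 5) (nat_lit 197) (nat_lit 5) (nat_lit 190) (nat_lit 5) (nat_lit 333) (nat_lit 288) (nat_lit 279)) (XT.lf (nat_lit 0) (nat_lit 3579121183) (nat_lit 532) (nat_lit 1152928635) (nat_lit 608) (nat_lit 3041383360) (nat_lit 182) (nat_lit 5) (nat_lit 189) (nat_lit 5) (nat_lit 190) (nat_lit 5) (nat_lit 334) (nat_lit 288) (nat_lit 278)))) (XT.nd (nat_lit 156) (nat_lit 988) (nat_lit 0) (XT.nd (nat_lit 78) (nat_lit 0) (nat_lit 0) (XT.lf (nat_lit 0) (nat_lit 184227974)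 (nat_lit 532) (nat_lit 6456087532) (nat_lit 76) (nat_lit 1220788189) (nat_lit 175) (nat_lit 5) (nat_lit 182) (nat_lit 5) (nat_lit 176) (nat_lit 5) (nat_lit 335) (nat_lit 288) (nat_lit 277)) (XT.lf (nat_lit 0) (nat_lit 3415474300) (nat_lit 532) (nat_lit 835698525) (nat_lit 76) (nat_lit 3700282406) (nat_lit 175) (nat_lit 5) (nat_lit 182) (nat_lit 5) (nat_lit 176) (nat_lit 5) (nat_lit 336) (nat_lit 288) (nat_lit 276))) (XT.nd (nat_lit 78) (nat_lit 532) (nat_lit 0) (XT.lf (nat_lit 0) (nat_lit 4950960713) (nat_lit 456) (nat_lit 1758547833) (nat_lit 532) (nat_lit 1336085822) (nat_lit 169) (nat_lit 5) (nat_lit 175) (nat_lit 5) (nat_lit 176) (nat_lit 5) (nat_lit 337) (nat_lit 288) (nat_lit 275)) (XT.lf (nat_lit 0) (nat_lit 1883217381) (nat_lit 532) (nat_lit 5430998591) (nat_lit 76) (nat_lit 828976472) (nat_lit 162) (nat_lit 5) (nat_lit 169) (nat_lit 5) (nat_lit 163) (nat_lit 5) (nat_lit 338) (nat_lit 288) (nat_lit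 274)))))) (XT.nd (nat_lit 468) (nat_lit 1900) (nat_lit 0) (XT.nd (nat_lit 234) (nat_lit 912) (nat_lit 0) (XT.nd (nat_lit 78) (nat_lit 456) (nat_lit 0) (XT.lf (nat_lit 0) (nat_lit 389607435) (nat_lit 456) (nat_lit 4755439580) (nat_lit 532) (nat_lit 3099138661) (nat_lit 156) (nat_lit 5) (nat_lit 162) (nat_lit 5) (nat_lit 163) (nat_lit 5) (nat_lit 339) (nat_lit 288) (nat_lit 273)) (XT.nd (nat_lit 78) (nat_lit 380) (nat_lit 0) (XT.lf (nat_lit 0) (nat_lit 129483068) (nat_lit 532) (nat_lit 1954012766) (nat_lit 76) (nat_lit 6265432645) (nat_lit 155) (nat_lit 5) (nat_lit 162) (nat_lit 5) (nat_lit 156) (nat_lit 5) (nat_lit 340) (nat_lit 288) (nat_lit 272)) (XT.lf (nat_lit 0) (nat_lit 3361685799) (nat_lit 456) (nat_lit 4390211749) (nat_lit 76) (nat_lit 704969151) (nat_lit 150) (nat_lit 5) (nat_lit 156) (nat_lit 5) (nat_lit 151) (nat_lit 5) (nat_lit 341) (nat_lit 288) (nat_lit 271)))) (XT.nd (nat_lit 78) (nat_lit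 456) (nat_lit 0) (XT.lf (nat_lit 0) (nat_lit 1652220036) (nat_lit 456) (nat_lit 5019108858) (nat_lit 532) (nat_lit 1897342687) (nat_lit 144) (nat_lit 5) (nat_lit 150) (nat_lit 5) (nat_lit 151) (nat_lit 5) (nat_lit 342) (nat_lit 288) (nat_lit 270)) (XT.nd (nat_lit 78) (nat_lit 380) (nat_lit 0) (XT.lf (nat_lit 0) (nat_lit 1338471983) (nat_lit 532) (nat_lit 830751354) (nat_lit 76) (nat_lit 6515166144) (nat_lit 143) (nat_lit 5) (nat_lit 150) (nat_lit 5) (nat_lit 144) (nat_lit 5) (nat_lit 343) (nat_lit 288) (nat_lit 269)) (XT.lf (nat_lit 0) (nat_lit 4619949778) (nat_lit 456) (nat_lit 3384270576) (nat_lit 76) (nat_lit 799232413) (nat_lit 138) (nat_lit 5) (nat_lit 144) (nat_lit 5) (nat_lit 139) (nat_lit 5) (nat_lit 344) (nat_lit 288) (nat_lit 268))))) (XT.nd (nat_lit 234) (nat_lit 1140) (nat_lit 0) (XT.nd (nat_lit 78) (nat_lit 380) (nat_lit 0) (XT.lf (nat_lit 0) (nat_lit 2884128294) (nat_lit 380) (nat_lit 5101108140)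 (nat_lit 456) (nat_lit 941328561) (nat_lit 133) (nat_lit 5) (nat_lit 138) (nat_lit 5) (nat_lit 139) (nat_lit 5) (nat_lit 345) (nat_lit 288) (nat_lit 267)) (XT.nd (nat_lit 78) (nat_lit 0) (nat_lit 0) (XT.lf (nat_lit 0) (nat_lit 240001187) (nat_lit 304) (nat_lit 2076254062) (nat_lit 380) (nat_lit 6737511377) (nat_lit 128) (nat_lit 5) (nat_lit 132) (nat_lit 5) (nat_lit 133) (nat_lit 5) (nat_lit 346) (nat_lit 288) (nat_lit 266)) (XT.lf (nat_lit 0) (nat_lit 5653269300) (nat_lit 380) (nat_lit 2467917732) (nat_lit 76) (nat_lit 1063333754) (nat_lit 128) (nat_lit 5) (nat_lit 133) (nat_lit 5) (nat_lit 129) (nat_lit 5) (nat_lit 347) (nat_lit 288) (nat_lit 265)))) (XT.nd (nat_lit 156) (nat_lit 380) (nat_lit 0) (XT.nd (nat_lit 78) (nat_lit 380) (nat_lit 0) (XT.lf (nat_lit 0) (nat_lit 4029460113) (nat_lit 380) (nat_lit 5051302693) (nat_lit 456) (nat_lit 238757437) (nat_lit 123) (nat_lit 5) (nat_lit 128) (nat_lit 5) (nat_lit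 129) (nat_lit 5) (nat_lit 348) (nat_lit 288) (nat_lit 264)) (XT.lf (nat_lit 0) (nat_lit 1210229127) (nat_lit 304) (nat_lit 1849026372) (nat_lit 380) (nat_lit 6399389047) (nat_lit 118) (nat_lit 5) (nat_lit 122) (nat_lit 5) (nat_lit 123) (nat_lit 5) (nat_lit 349) (nat_lit 288) (nat_lit 263))) (XT.nd (nat_lit 78) (nat_lit 380) (nat_lit 0) (XT.lf (nat_lit 0) (nat_lit 6451540907) (nat_lit 380) (nat_lit 1701382083) (nat_lit 76) (nat_lit 1448975625) (nat_lit 118) (nat_lit 5) (nat_lit 123) (nat_lit 5) (nat_lit 119) (nat_lit 5) (nat_lit 350) (nat_lit 288) (nat_lit 262)) (XT.lf (nat_lit 0) (nat_lit 193145489) (nat_lit 380) (nat_lit 4724833768) (nat_lit 76) (nat_lit 4831418741) (nat_lit 113) (nat_lit 5) (nat_lit 118) (nat_lit 5) (nat_lit 114) (nat_lit 5) (nat_lit 351) (nat_lit 288) (nat_lit 261))))))) (XT.nd (nat_lit 1014) (nat_lit 1748) (nat_lit 0) (XT.nd (nat_lit 468) (nat_lit 1368) (nat_lit 0) (XT.nd (nat_lit 234)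 (nat_lit 608) (nat_lit 0) (XT.nd (nat_lit 78) (nat_lit 380) (nat_lit 0) (XT.lf (nat_lit 0) (nat_lit 1998268441) (nat_lit 304) (nat_lit 1546488499) (nat_lit 380) (nat_lit 6356524265) (nat_lit 109) (nat_lit 5) (nat_lit 113) (nat_lit 5) (nat_lit 114) (nat_lit 5) (nat_lit 352) (nat_lit 288) (nat_lit 260)) (XT.nd (nat_lit 78) (nat_lit 380) (nat_lit 0) (XT.lf (nat_lit 0) (nat_lit 6998882067) (nat_lit 380) (nat_lit 1151811541) (nat_lit 76) (nat_lit 1906995776) (nat_lit 109) (nat_lit 5) (nat_lit 114) (nat_lit 5) (nat_lit 110) (nat_lit 5) (nat_lit 353) (nat_lit 288) (nat_lit 259)) (XT.lf (nat_lit 0) (nat_lit 339581210) (nat_lit 380) (nat_lit 4415625306) (nat_lit 76) (nat_lit 5463261752) (nat_lit 104) (nat_lit 5) (nat_lit 109) (nat_lit 5) (nat_lit 105) (nat_lit 5) (nat_lit 354) (nat_lit 288) (nat_lit 258)))) (XT.nd (nat_lit 78) (nat_lit 380) (nat_lit 0) (XT.lf (nat_lit 0) (nat_lit 2531020443) (nat_lit 228) (nat_lit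 1220950289) (nat_lit 304) (nat_lit 6632010488) (nat_lit 101) (nat_lit 5) (nat_lit 104) (nat_lit 5) (nat_lit 105) (nat_lit 5) (nat_lit 355) (nat_lit 288) (nat_lit 257)) (XT.nd (nat_lit 78) (nat_lit 380) (nat_lit 0) (XT.lf (nat_lit 0) (nat_lit 7273095861) (nat_lit 304) (nat_lit 894882072) (nat_lit 76) (nat_lit 2386315088) (nat_lit 101) (nat_lit 5) (nat_lit 105) (nat_lit 5) (nat_lit 102) (nat_lit 5) (nat_lit 356) (nat_lit 288) (nat_lit 256)) (XT.lf (nat_lit 0) (nat_lit 179360059) (nat_lit 380) (nat_lit 4440405679) (nat_lit 76) (nat_lit 6109546163) (nat_lit 96) (nat_lit 5) (nat_lit 101) (nat_lit 5) (nat_lit 97) (nat_lit 5) (nat_lit 357) (nat_lit 288) (nat_lit 255))))) (XT.nd (nat_lit 234) (nat_lit 836) (nat_lit 0) (XT.nd (nat_lit 78) (nat_lit 304) (nat_lit 0) (XT.lf (nat_lit 0) (nat_lit 2725652705) (nat_lit 228) (nat_lit 927607227) (nat_lit 304) (nat_lit 7256104871) (nat_lit 93) (nat_lit 5) (nat_lit 96) (nat_lit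 5) (nat_lit 97) (nat_lit 5) (nat_lit 358) (nat_lit 288) (nat_lit 254)) (XT.nd (nat_lit 78) (nat_lit 304) (nat_lit 0) (XT.lf (nat_lit 0) (nat_lit 7245002607) (nat_lit 304) (nat_lit 1016617440) (nat_lit 76) (nat_lit 2832812127) (nat_lit 93) (nat_lit 5) (nat_lit 97) (nat_lit 5) (nat_lit 94) (nat_lit 5) (nat_lit 359) (nat_lit 288) (nat_lit 253)) (XT.lf (nat_lit 0) (nat_lit 6390941469) (nat_lit 304) (nat_lit 4566604219) (nat_lit 380) (nat_lit 327135463) (nat_lit 89) (nat_lit 5) (nat_lit 93) (nat_lit 5) (nat_lit 94) (nat_lit 5) (nat_lit 360) (nat_lit 288) (nat_lit 252)))) (XT.nd (nat_lit 156) (nat_lit 532) (nat_lit 0) (XT.nd (nat_lit 78) (nat_lit 0) (nat_lit 0) (XT.lf (nat_lit 0) (nat_lit 2487595511) (nat_lit 228) (nat_lit 725768473) (nat_lit 304) (nat_lit 8267033121) (nat_lit 85) (nat_lit 5) (nat_lit 88) (nat_lit 5) (nat_lit 89) (nat_lit 5) (nat_lit 361) (nat_lit 288) (nat_lit 251)) (XT.lf (nat_lit 0) (nat_lit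 6877622282) (nat_lit 304) (nat_lit 1615459016) (nat_lit 76) (nat_lit 3188101745) (nat_lit 85) (nat_lit 5) (nat_lit 89) (nat_lit 5) (nat_lit 86) (nat_lit 5) (nat_lit 362) (nat_lit 288) (nat_lit 250))) (XT.nd (nat_lit 78) (nat_lit 304) (nat_lit 0) (XT.lf (nat_lit 0) (nat_lit 6004978488) (nat_lit 228) (nat_lit 4656555661) (nat_lit 304) (nat_lit 1226185318) (nat_lit 82) (nat_lit 5) (nat_lit 85) (nat_lit 5) (nat_lit 86) (nat_lit 5) (nat_lit 363) (nat_lit 288) (nat_lit 249)) (XT.lf (nat_lit 0) (nat_lit 1708256792) (nat_lit 228) (nat_lit 680202980) (nat_lit 304) (nat_lit 9711963157) (nat_lit 78) (nat_lit 5) (nat_lit 81) (nat_lit 5) (nat_lit 82) (nat_lit 5) (nat_lit 364) (nat_lit 288) (nat_lit 248)))))) (XT.nd (nat_lit 546) (nat_lit 836) (nat_lit 0) (XT.nd (nat_lit 234) (nat_lit 456) (nat_lit 0) (XT.nd (nat_lit 78) (nat_lit 456) (nat_lit 0) (XT.lf (nat_lit 0) (nat_lit 6125188409) (nat_lit 304) (nat_lit 2804630714)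 (nat_lit 76) (nat_lit 3388192578) (nat_lit 78) (nat_lit 5) (nat_lit 82) (nat_lit 5) (nat_lit 79) (nat_lit 5) (nat_lit 365) (nat_lit 288) (nat_lit 247)) (XT.nd (nat_lit 78) (nat_lit 228) (nat_lit 0) (XT.lf (nat_lit 0) (nat_lit 5015332857) (nat_lit 228) (nat_lit 4960685245) (nat_lit 304) (nat_lit 2566066657) (nat_lit 75) (nat_lit 5) (nat_lit 78) (nat_lit 5) (nat_lit 79) (nat_lit 5) (nat_lit 366) (nat_lit 288) (nat_lit 246)) (XT.lf (nat_lit 0) (nat_lit 262405630) (nat_lit 152) (nat_lit 862631689) (nat_lit 228) (nat_lit 11648170111) (nat_lit 72) (nat_lit 5) (nat_lit 74) (nat_lit 5) (nat_lit 75) (nat_lit 5) (nat_lit 367) (nat_lit 288) (nat_lit 245)))) (XT.nd (nat_lit 156) (nat_lit 228) (nat_lit 0) (XT.nd (nat_lit 78) (nat_lit 228) (nat_lit 0) (XT.lf (nat_lit 0) (nat_lit 4931970521) (nat_lit 228) (nat_lit 4714850687) (nat_lit 76) (nat_lit 3361995421) (nat_lit 72) (nat_lit 5) (nat_lit 75) (nat_lit 5) (nat_lit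 73) (nat_lit 5) (nat_lit 368) (nat_lit 288) (nat_lit 244)) (XT.lf (nat_lit 0) (nat_lit 3286140924) (nat_lit 228) (nat_lit 5556256309) (nat_lit 304) (nat_lit 4409433055) (nat_lit 69) (nat_lit 5) (nat_lit 72) (nat_lit 5) (nat_lit 73) (nat_lit 5) (nat_lit 369) (nat_lit 288) (nat_lit 243))) (XT.nd (nat_lit 78) (nat_lit 228) (nat_lit 0) (XT.lf (nat_lit 0) (nat_lit 11540218191) (nat_lit 228) (nat_lit 1327362842) (nat_lit 304) (nat_lit 634644312) (nat_lit 69) (nat_lit 5) (nat_lit 72) (nat_lit 5) (nat_lit 73) (nat_lit 5) (nat_lit 370) (nat_lit 288) (nat_lit 242)) (XT.lf (nat_lit 0) (nat_lit 3230878189) (nat_lit 228) (nat_lit 7497449224) (nat_lit 76) (nat_lit 3029650869) (nat_lit 66) (nat_lit 5) (nat_lit 69) (nat_lit 5) (nat_lit 67) (nat_lit 5) (nat_lit 371) (nat_lit 288) (nat_lit 241))))) (XT.nd (nat_lit 234) (nat_lit 380) (nat_lit 0) (XT.nd (nat_lit 78) (nat_lit 228) (nat_lit 0) (XT.lf (nat_lit 0) (nat_lit 659905534)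 (nat_lit 228) (nat_lit 6530333990) (nat_lit 304) (nat_lit 6831270013) (nat_lit 63) (nat_lit 5) (nat_lit 66) (nat_lit 5) (nat_lit 67) (nat_lit 5) (nat_lit 372) (nat_lit 288) (nat_lit 240)) (XT.nd (nat_lit 78) (nat_lit 228) (nat_lit 0) (XT.lf (nat_lit 0) (nat_lit 9133979355) (nat_lit 228) (nat_lit 2161884542) (nat_lit 304) (nat_lit 2996271089) (nat_lit 63) (nat_lit 5) (nat_lit 66) (nat_lit 5) (nat_lit 67) (nat_lit 5) (nat_lit 373) (nat_lit 288) (nat_lit 239)) (XT.lf (nat_lit 0) (nat_lit 941814884) (nat_lit 228) (nat_lit 11327961305) (nat_lit 76) (nat_lit 2300640492) (nat_lit 60) (nat_lit 5) (nat_lit 63) (nat_lit 5) (nat_lit 61) (nat_lit 5) (nat_lit 374) (nat_lit 288) (nat_lit 238)))) (XT.nd (nat_lit 156) (nat_lit 228) (nat_lit 0) (XT.nd (nat_lit 78) (nat_lit 152) (nat_lit 0) (XT.lf (nat_lit 0) (nat_lit 4964829148) (nat_lit 228) (nat_lit 2986824833) (nat_lit 76) (nat_lit 6903704272) (nat_lit 60) (nat_lit 5)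 (nat_lit 63) (nat_lit 5) (nat_lit 61) (nat_lit 5) (nat_lit 375) (nat_lit 288) (nat_lit 237)) (XT.lf (nat_lit 0) (nat_lit 5636301231) (nat_lit 152) (nat_lit 3480781138) (nat_lit 228) (nat_lit 6031520550) (nat_lit 58) (nat_lit 5) (nat_lit 60) (nat_lit 5) (nat_lit 61) (nat_lit 5) (nat_lit 376) (nat_lit 288) (nat_lit 236))) (XT.nd (nat_lit 78) (nat_lit 228) (nat_lit 0) (XT.lf (nat_lit 0) (nat_lit 13389811360) (nat_lit 228) (nat_lit 960010192) (nat_lit 76) (nat_lit 1100957103) (nat_lit 58) (nat_lit 5) (nat_lit 61) (nat_lit 5) (nat_lit 59) (nat_lit 4) (nat_lit 377) (nat_lit 288) (nat_lit 235)) (XT.lf (nat_lit 0) (nat_lit 2056051572) (nat_lit 228) (nat_lit 7888033614) (nat_lit 76) (nat_lit 5815351699) (nat_lit 55) (nat_lit 5) (nat_lit 58) (nat_lit 5) (nat_lit 56) (nat_lit 5) (nat_lit 378) (nat_lit 288) (nat_lit 234))))))))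
noncomputable def xc75 : XT := (XT.nd (nat_lit 2106) (nat_lit 912) (nat_lit 0) (XT.nd (nat_lit 1014) (nat_lit 912) (nat_lit 0) (XT.nd (nat_lit 468) (nat_lit 684) (nat_lit 0) (XT.nd (nat_lit 234) (nat_lit 228) (nat_lit 0) (XT.nd (nat_lit 78) (nat_lit 152) (nat_lit 0) (XT.lf (nat_lit 0) (nat_lit 829700298) (nat_lit 152) (nat_lit 5399302459) (nat_lit 228) (nat_lit 9848534623) (nat_lit 53) (nat_lit 5) (nat_lit 55) (nat_lit 5) (nat_lit 56) (nat_lit 5) (nat_lit 379) (nat_lit 288) (nat_lit 233)) (XT.nd (nat_lit 78) (nat_lit 152) (nat_lit 0) (XT.lf (nat_lit 0) (nat_lit 9895048925) (nat_lit 152) (nat_lit 668378981) (nat_lit 228) (nat_lit 5840674173) (nat_lit 53) (nat_lit 5) (nat_lit 55) (nat_lit 5) (nat_lit 56) (nat_lit 5) (nat_lit 380) (nat_lit 288) (nat_lit 232)) (XT.lf (nat_lit 0) (nat_lit 2424403597) (nat_lit 152) (nat_lit 12624796991) (nat_lit 228) (nat_lit 1690633155) (nat_lit 51) (nat_lit 5) (nat_lit 53)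 (nat_lit 5) (nat_lit 54) (nat_lit 4) (nat_lit 381) (nat_lit 288) (nat_lit 231)))) (XT.nd (nat_lit 78) (nat_lit 152) (nat_lit 0) (XT.lf (nat_lit 0) (nat_lit 2564182216) (nat_lit 228) (nat_lit 5430983901) (nat_lit 76) (nat_lit 9088814183) (nat_lit 50) (nat_lit 5) (nat_lit 53) (nat_lit 5) (nat_lit 51) (nat_lit 5) (nat_lit 382) (nat_lit 288) (nat_lit 230)) (XT.nd (nat_lit 78) (nat_lit 0) (nat_lit 0) (XT.lf (nat_lit 0) (nat_lit 3703184144) (nat_lit 152) (nat_lit 3204004666) (nat_lit 228) (nat_lit 10530933134) (nat_lit 48) (nat_lit 5) (nat_lit 50) (nat_lit 5) (nat_lit 51) (nat_lit 5) (nat_lit 383) (nat_lit 288) (nat_lit 229)) (XT.lf (nat_lit 0) (nat_lit 11411647934) (nat_lit 228) (nat_lit 4668269507) (nat_lit 76) (nat_lit 1722043938) (nat_lit 48) (nat_lit 5) (nat_lit 51) (nat_lit 5) (nat_lit 49) (nat_lit 4) (nat_lit 384) (nat_lit 288) (nat_lit 228))))) (XT.nd (nat_lit 234) (nat_lit 304) (nat_lit 0) (XT.nd (nat_lit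 78) (nat_lit 228) (nat_lit 0) (XT.lf (nat_lit 0) (nat_lit 4659153432) (nat_lit 152) (nat_lit 11428925646) (nat_lit 228) (nat_lit 2087539938) (nat_lit 46) (nat_lit 5) (nat_lit 48) (nat_lit 5) (nat_lit 49) (nat_lit 4) (nat_lit 385) (nat_lit 288) (nat_lit 227)) (XT.nd (nat_lit 78) (nat_lit 152) (nat_lit 0) (XT.lf (nat_lit 0) (nat_lit 2306595858) (nat_lit 228) (nat_lit 4290524227) (nat_lit 76) (nat_lit 11962457190) (nat_lit 45) (nat_lit 5) (nat_lit 48) (nat_lit 5) (nat_lit 46) (nat_lit 5) (nat_lit 386) (nat_lit 288) (nat_lit 226)) (XT.lf (nat_lit 0) (nat_lit 5224995508) (nat_lit 152) (nat_lit 1577399504) (nat_lit 228) (nat_lit 12151692778) (nat_lit 43) (nat_lit 5) (nat_lit 45) (nat_lit 5) (nat_lit 46) (nat_lit 5) (nat_lit 387) (nat_lit 288) (nat_lit 225)))) (XT.nd (nat_lit 156) (nat_lit 228) (nat_lit 0) (XT.nd (nat_lit 78) (nat_lit 76) (nat_lit 0) (XT.lf (nat_lit 0) (nat_lit 11473111569) (nat_lit 228) (nat_lit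 4348844985) (nat_lit 76) (nat_lit 3537283019) (nat_lit 43) (nat_lit 5) (nat_lit 46) (nat_lit 5) (nat_lit 44) (nat_lit 4) (nat_lit 388) (nat_lit 288) (nat_lit 224)) (XT.lf (nat_lit 0) (nat_lit 5334612453) (nat_lit 76) (nat_lit 10979099884) (nat_lit 152) (nat_lit 3461947734) (nat_lit 42) (nat_lit 5) (nat_lit 43) (nat_lit 5) (nat_lit 44) (nat_lit 4) (nat_lit 389) (nat_lit 288) (nat_lit 223))) (XT.nd (nat_lit 78) (nat_lit 152) (nat_lit 0) (XT.lf (nat_lit 0) (nat_lit 1080883305) (nat_lit 152) (nat_lit 4883262701) (nat_lit 76) (nat_lit 14239899298) (nat_lit 41) (nat_lit 5) (nat_lit 43) (nat_lit 5) (nat_lit 42) (nat_lit 5) (nat_lit 390) (nat_lit 288) (nat_lit 222)) (XT.lf (nat_lit 0) (nat_lit 4958922751) (nat_lit 152) (nat_lit 743184678) (nat_lit 228) (nat_lit 14941802113) (nat_lit 39) (nat_lit 5) (nat_lit 41) (nat_lit 5) (nat_lit 42) (nat_lit 5) (nat_lit 391) (nat_lit 288) (nat_lit 221)))))) (XT.nd (nat_lit 546)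 (nat_lit 532) (nat_lit 0) (XT.nd (nat_lit 234) (nat_lit 304) (nat_lit 0) (XT.nd (nat_lit 78) (nat_lit 76) (nat_lit 0) (XT.lf (nat_lit 0) (nat_lit 10520493908) (nat_lit 228) (nat_lit 6009036081) (nat_lit 76) (nat_lit 4565690210) (nat_lit 39) (nat_lit 5) (nat_lit 42) (nat_lit 5) (nat_lit 40) (nat_lit 4) (nat_lit 392) (nat_lit 288) (nat_lit 220)) (XT.nd (nat_lit 78) (nat_lit 0) (nat_lit 0) (XT.lf (nat_lit 0) (nat_lit 3964096843) (nat_lit 76) (nat_lit 11530019384) (nat_lit 152) (nat_lit 6065639496) (nat_lit 38) (nat_lit 5) (nat_lit 39) (nat_lit 5) (nat_lit 40) (nat_lit 4) (nat_lit 393) (nat_lit 288) (nat_lit 219)) (XT.lf (nat_lit 0) (nat_lit 14297129800) (nat_lit 76) (nat_lit 6346130015) (nat_lit 152) (nat_lit 1394184019) (nat_lit 38) (nat_lit 5) (nat_lit 39) (nat_lit 5) (nat_lit 40) (nat_lit 4) (nat_lit 394) (nat_lit 288) (nat_lit 218)))) (XT.nd (nat_lit 156) (nat_lit 76) (nat_lit 0) (XT.nd (nat_lit 78) (nat_lit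 0) (nat_lit 0) (XT.lf (nat_lit 0) (nat_lit 2362613995) (nat_lit 152) (nat_lit 977124064) (nat_lit 228) (nat_lit 19189074311) (nat_lit 35) (nat_lit 5) (nat_lit 37) (nat_lit 5) (nat_lit 38) (nat_lit 5) (nat_lit 395) (nat_lit 288) (nat_lit 217)) (XT.lf (nat_lit 0) (nat_lit 8276790066) (nat_lit 228) (nat_lit 10225091441) (nat_lit 76) (nat_lit 4529957720) (nat_lit 35) (nat_lit 5) (nat_lit 38) (nat_lit 5) (nat_lit 36) (nat_lit 4) (nat_lit 396) (nat_lit 288) (nat_lit 216))) (XT.nd (nat_lit 78) (nat_lit 76) (nat_lit 0) (XT.lf (nat_lit 0) (nat_lit 13339038174) (nat_lit 228) (nat_lit 55105026) (nat_lit 76) (nat_lit 10156506394) (nat_lit 35) (nat_lit 5) (nat_lit 38) (nat_lit 5) (nat_lit 36) (nat_lit 4) (nat_lit 397) (nat_lit 288) (nat_lit 215)) (XT.lf (nat_lit 0) (nat_lit 10568264891) (nat_lit 76) (nat_lit 8054836730) (nat_lit 152) (nat_lit 5459829304) (nat_lit 34) (nat_lit 5) (nat_lit 35) (nat_lit 5) (nat_lit 36)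 (nat_lit 4) (nat_lit 398) (nat_lit 288) (nat_lit 214))))) (XT.nd (nat_lit 234) (nat_lit 304) (nat_lit 0) (XT.nd (nat_lit 78) (nat_lit 228) (nat_lit 0) (XT.lf (nat_lit 0) (nat_lit 21454092554) (nat_lit 76) (nat_lit 2580880210) (nat_lit 152) (nat_lit 597134300) (nat_lit 34) (nat_lit 5) (nat_lit 35) (nat_lit 5) (nat_lit 36) (nat_lit 4) (nat_lit 399) (nat_lit 288) (nat_lit 213)) (XT.nd (nat_lit 78) (nat_lit 0) (nat_lit 0) (XT.lf (nat_lit 0) (nat_lit 4397225583) (nat_lit 228) (nat_lit 17708828575) (nat_lit 76) (nat_lit 3088280804) (nat_lit 31) (nat_lit 5) (nat_lit 34) (nat_lit 5) (nat_lit 32) (nat_lit 4) (nat_lit 400) (nat_lit 288) (nat_lit 212)) (XT.lf (nat_lit 0) (nat_lit 9556824429) (nat_lit 228) (nat_lit 7326604864) (nat_lit 76) (nat_lit 8889005262) (nat_lit 31) (nat_lit 5) (nat_lit 34) (nat_lit 5) (nat_lit 32) (nat_lit 4) (nat_lit 401) (nat_lit 288) (nat_lit 211)))) (XT.nd (nat_lit 156) (nat_lit 228) (nat_lit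 0) (XT.nd (nat_lit 78) (nat_lit 0) (nat_lit 0) (XT.lf (nat_lit 0) (nat_lit 3378216653) (nat_lit 76) (nat_lit 11495805208) (nat_lit 152) (nat_lit 11493775346) (nat_lit 30) (nat_lit 5) (nat_lit 31) (nat_lit 5) (nat_lit 32) (nat_lit 4) (nat_lit 402) (nat_lit 288) (nat_lit 210)) (XT.lf (nat_lit 0) (nat_lit 14500118112) (nat_lit 76) (nat_lit 5895281037) (nat_lit 152) (nat_lit 6584285933) (nat_lit 30) (nat_lit 5) (nat_lit 31) (nat_lit 5) (nat_lit 32) (nat_lit 4) (nat_lit 403) (nat_lit 288) (nat_lit 209))) (XT.nd (nat_lit 78) (nat_lit 228) (nat_lit 0) (XT.lf (nat_lit 0) (nat_lit 25903003876) (nat_lit 76) (nat_lit 150947462) (nat_lit 152) (nat_lit 1556836385) (nat_lit 30) (nat_lit 5) (nat_lit 31) (nat_lit 5) (nat_lit 32) (nat_lit 4) (nat_lit 404) (nat_lit 288) (nat_lit 208)) (XT.lf (nat_lit 0) (nat_lit 3670479719) (nat_lit 228) (nat_lit 18828583103) (nat_lit 76) (nat_lit 5757128866) (nat_lit 27) (nat_lit 5) (nat_lit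 30) (nat_lit 5) (nat_lit 28) (nat_lit 4) (nat_lit 405) (nat_lit 288) (nat_lit 207))))))) (XT.nd (nat_lit 1014) (nat_lit 456) (nat_lit 0) (XT.nd (nat_lit 468) (nat_lit 228) (nat_lit 0) (XT.nd (nat_lit 234) (nat_lit 152) (nat_lit 0) (XT.nd (nat_lit 78) (nat_lit 76) (nat_lit 0) (XT.lf (nat_lit 0) (nat_lit 9014414248) (nat_lit 228) (nat_lit 8057245196) (nat_lit 76) (nat_lit 11849106995) (nat_lit 27) (nat_lit 5) (nat_lit 30) (nat_lit 5) (nat_lit 28) (nat_lit 4) (nat_lit 406) (nat_lit 288) (nat_lit 206)) (XT.nd (nat_lit 78) (nat_lit 0) (nat_lit 0) (XT.lf (nat_lit 0) (nat_lit 3046391570) (nat_lit 76) (nat_lit 11474548602) (nat_lit 152) (nat_lit 15084273736) (nat_lit 26) (nat_lit 5) (nat_lit 27) (nat_lit 5) (nat_lit 28) (nat_lit 4) (nat_lit 407) (nat_lit 288) (nat_lit 205)) (XT.lf (nat_lit 0) (nat_lit 14598508730) (nat_lit 76) (nat_lit 5648813160) (nat_lit 152) (nat_lit 10061236679) (nat_lit 26) (nat_lit 5) (nat_lit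 27) (nat_lit 5) (nat_lit 28) (nat_lit 4) (nat_lit 408) (nat_lit 288) (nat_lit 204)))) (XT.nd (nat_lit 78) (nat_lit 152) (nat_lit 0) (XT.lf (nat_lit 0) (nat_lit 26122735629) (nat_lit 152) (nat_lit 4588104578) (nat_lit 0) (nat_lit 322849610) (nat_lit 26) (nat_lit 5) (nat_lit 28) (nat_lit 4) (nat_lit 26) (nat_lit 4) (nat_lit 409) (nat_lit 288) (nat_lit 203)) (XT.nd (nat_lit 78) (nat_lit 0) (nat_lit 0) (XT.lf (nat_lit 0) (nat_lit 483971991) (nat_lit 152) (nat_lit 24883713659) (nat_lit 76) (nat_lit 6409844435) (nat_lit 24) (nat_lit 5) (nat_lit 26) (nat_lit 5) (nat_lit 25) (nat_lit 4) (nat_lit 410) (nat_lit 288) (nat_lit 202)) (XT.lf (nat_lit 0) (nat_lit 5963487025) (nat_lit 152) (nat_lit 13824658123) (nat_lit 76) (nat_lit 12753441493) (nat_lit 24) (nat_lit 5) (nat_lit 26) (nat_lit 5) (nat_lit 25) (nat_lit 4) (nat_lit 411) (nat_lit 288) (nat_lit 201))))) (XT.nd (nat_lit 234) (nat_lit 152) (nat_lit 0) (XT.nd (nat_lit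 78) (nat_lit 76) (nat_lit 0) (XT.lf (nat_lit 0) (nat_lit 11582782464) (nat_lit 152) (nat_lit 2479973802) (nat_lit 76) (nat_lit 19266549857) (nat_lit 24) (nat_lit 5) (nat_lit 26) (nat_lit 5) (nat_lit 25) (nat_lit 4) (nat_lit 412) (nat_lit 288) (nat_lit 200)) (XT.nd (nat_lit 78) (nat_lit 0) (nat_lit 0) (XT.lf (nat_lit 0) (nat_lit 9342559115) (nat_lit 76) (nat_lit 8094015651) (nat_lit 152) (nat_lit 16702107873) (nat_lit 23) (nat_lit 5) (nat_lit 24) (nat_lit 5) (nat_lit 25) (nat_lit 4) (nat_lit 413) (nat_lit 288) (nat_lit 199)) (XT.lf (nat_lit 0) (nat_lit 21526245344) (nat_lit 76) (nat_lit 1941159339) (nat_lit 152) (nat_lit 11504895954) (nat_lit 23) (nat_lit 5) (nat_lit 24) (nat_lit 5) (nat_lit 25) (nat_lit 4) (nat_lit 414) (nat_lit 288) (nat_lit 198)))) (XT.nd (nat_lit 156) (nat_lit 76) (nat_lit 0) (XT.nd (nat_lit 78) (nat_lit 76) (nat_lit 0) (XT.lf (nat_lit 0) (nat_lit 29698294595) (nat_lit 152) (nat_lit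 1841309637) (nat_lit 0) (nat_lit 4290751707) (nat_lit 23) (nat_lit 5) (nat_lit 25) (nat_lit 4) (nat_lit 23) (nat_lit 4) (nat_lit 415) (nat_lit 288) (nat_lit 197)) (XT.lf (nat_lit 0) (nat_lit 10250078966) (nat_lit 76) (nat_lit 25961330541) (nat_lit 76) (nat_lit 499887180) (nat_lit 22) (nat_lit 4) (nat_lit 23) (nat_lit 5) (nat_lit 23) (nat_lit 4) (nat_lit 416) (nat_lit 288) (nat_lit 196))) (XT.nd (nat_lit 78) (nat_lit 0) (nat_lit 0) (XT.lf (nat_lit 0) (nat_lit 5194161192) (nat_lit 152) (nat_lit 14969626695) (nat_lit 76) (nat_lit 17453460917) (nat_lit 21) (nat_lit 5) (nat_lit 23) (nat_lit 5) (nat_lit 22) (nat_lit 4) (nat_lit 417) (nat_lit 288) (nat_lit 195)) (XT.lf (nat_lit 0) (nat_lit 11027214651) (nat_lit 152) (nat_lit 3179334539) (nat_lit 76) (nat_lit 24344337391) (nat_lit 21) (nat_lit 5) (nat_lit 23) (nat_lit 5) (nat_lit 22) (nat_lit 4) (nat_lit 418) (nat_lit 288) (nat_lit 194)))))) (XT.nd (nat_lit 546)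 (nat_lit 228) (nat_lit 0) (XT.nd (nat_lit 234) (nat_lit 152) (nat_lit 0) (XT.nd (nat_lit 78) (nat_lit 0) (nat_lit 0) (XT.lf (nat_lit 0) (nat_lit 9102386509) (nat_lit 76) (nat_lit 7999235835) (nat_lit 152) (nat_lit 22408922699) (nat_lit 20) (nat_lit 5) (nat_lit 21) (nat_lit 5) (nat_lit 22) (nat_lit 4) (nat_lit 419) (nat_lit 288) (nat_lit 193)) (XT.nd (nat_lit 78) (nat_lit 0) (nat_lit 0) (XT.lf (nat_lit 0) (nat_lit 21778223391) (nat_lit 76) (nat_lit 1591244644) (nat_lit 152) (nat_lit 17129191409) (nat_lit 20) (nat_lit 5) (nat_lit 21) (nat_lit 5) (nat_lit 22) (nat_lit 4) (nat_lit 420) (nat_lit 288) (nat_lit 192)) (XT.lf (nat_lit 0) (nat_lit 29853034300) (nat_lit 152) (nat_lit 6769026959) (nat_lit 0) (nat_lit 4893527754) (nat_lit 20) (nat_lit 5) (nat_lit 22) (nat_lit 4) (nat_lit 20) (nat_lit 4) (nat_lit 421) (nat_lit 288) (nat_lit 191)))) (XT.nd (nat_lit 156) (nat_lit 76) (nat_lit 0) (XT.nd (nat_lit 78) (nat_lit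 0) (nat_lit 0) (XT.lf (nat_lit 0) (nat_lit 5596715947) (nat_lit 76) (nat_lit 30984077368) (nat_lit 76) (nat_lit 5980744805) (nat_lit 19) (nat_lit 4) (nat_lit 20) (nat_lit 5) (nat_lit 20) (nat_lit 4) (nat_lit 422) (nat_lit 288) (nat_lit 190)) (XT.lf (nat_lit 0) (nat_lit 18434893178) (nat_lit 76) (nat_lit 25124197800) (nat_lit 76) (nat_lit 78315706) (nat_lit 19) (nat_lit 4) (nat_lit 20) (nat_lit 5) (nat_lit 20) (nat_lit 4) (nat_lit 423) (nat_lit 288) (nat_lit 189))) (XT.nd (nat_lit 78) (nat_lit 0) (nat_lit 0) (XT.lf (nat_lit 0) (nat_lit 5864814831) (nat_lit 152) (nat_lit 13181618209) (nat_lit 76) (nat_lit 25697967687) (nat_lit 18) (nat_lit 5) (nat_lit 20) (nat_lit 5) (nat_lit 19) (nat_lit 4) (nat_lit 424) (nat_lit 288) (nat_lit 188)) (XT.lf (nat_lit 0) (nat_lit 11965959708) (nat_lit 152) (nat_lit 836401123) (nat_lit 76) (nat_lit 33082783640) (nat_lit 18) (nat_lit 5) (nat_lit 20) (nat_lit 5) (nat_lit 19) (nat_lit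 4) (nat_lit 425) (nat_lit 288) (nat_lit 187))))) (XT.nd (nat_lit 234) (nat_lit 152) (nat_lit 0) (XT.nd (nat_lit 78) (nat_lit 0) (nat_lit 0) (XT.lf (nat_lit 0) (nat_lit 12080409962) (nat_lit 76) (nat_lit 6267692570) (nat_lit 152) (nat_lit 28709071006) (nat_lit 17) (nat_lit 5) (nat_lit 18) (nat_lit 5) (nat_lit 19) (nat_lit 4) (nat_lit 426) (nat_lit 288) (nat_lit 186)) (XT.nd (nat_lit 78) (nat_lit 0) (nat_lit 0) (XT.lf (nat_lit 0) (nat_lit 24916574305) (nat_lit 152) (nat_lit 22901315340) (nat_lit 0) (nat_lit 446629755) (nat_lit 17) (nat_lit 5) (nat_lit 19) (nat_lit 4) (nat_lit 17) (nat_lit 4) (nat_lit 427) (nat_lit 288) (nat_lit 185)) (XT.lf (nat_lit 0) (nat_lit 31726568475) (nat_lit 152) (nat_lit 10559195562) (nat_lit 0) (nat_lit 7220989362) (nat_lit 17) (nat_lit 5) (nat_lit 19) (nat_lit 4) (nat_lit 17) (nat_lit 4) (nat_lit 428) (nat_lit 288) (nat_lit 184)))) (XT.nd (nat_lit 156) (nat_lit 76) (nat_lit 0)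 (XT.nd (nat_lit 78) (nat_lit 0) (nat_lit 0) (XT.lf (nat_lit 0) (nat_lit 2162833701) (nat_lit 76) (nat_lit 36581743404) (nat_lit 76) (nat_lit 12041567630) (nat_lit 16) (nat_lit 4) (nat_lit 17) (nat_lit 5) (nat_lit 17) (nat_lit 4) (nat_lit 429) (nat_lit 288) (nat_lit 183)) (XT.lf (nat_lit 0) (nat_lit 15450737423) (nat_lit 76) (nat_lit 30612127348) (nat_lit 76) (nat_lit 6038362581) (nat_lit 16) (nat_lit 4) (nat_lit 17) (nat_lit 5) (nat_lit 17) (nat_lit 4) (nat_lit 430) (nat_lit 288) (nat_lit 182))) (XT.nd (nat_lit 78) (nat_lit 0) (nat_lit 0) (XT.lf (nat_lit 0) (nat_lit 125549879) (nat_lit 152) (nat_lit 24351509184) (nat_lit 76) (nat_lit 28979160009) (nat_lit 15) (nat_lit 5) (nat_lit 17) (nat_lit 5) (nat_lit 16) (nat_lit 4) (nat_lit 431) (nat_lit 288) (nat_lit 181)) (XT.lf (nat_lit 0) (nat_lit 6336936483) (nat_lit 152) (nat_lit 11774055225) (nat_lit 76) (nat_lit 36739559165) (nat_lit 15) (nat_lit 5) (nat_lit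 17) (nat_lit 5) (nat_lit 16) (nat_lit 4) (nat_lit 432) (nat_lit 288) (nat_lit 180))))))))
noncomputable def xc76 : XT := (XT.nd (nat_lit 39078) (nat_lit 0) (nat_lit 6232) (XT.nd (nat_lit 1014) (nat_lit 0) (nat_lit 0) (XT.nd (nat_lit 468) (nat_lit 152) (nat_lit 0) (XT.nd (nat_lit 234) (nat_lit 76) (nat_lit 0) (XT.nd (nat_lit 78) (nat_lit 0) (nat_lit 0) (XT.lf (nat_lit 0) (nat_lit 1173811685) (nat_lit 76) (nat_lit 11556526569) (nat_lit 152) (nat_lit 43556505681) (nat_lit 14) (nat_lit 5) (nat_lit 15) (nat_lit 5) (nat_lit 16) (nat_lit 4) (nat_lit 433) (nat_lit 288) (nat_lit 179)) (XT.nd (nat_lit 78) (nat_lit 0) (nat_lit 0) (XT.lf (nat_lit 0) (nat_lit 14721947544) (nat_lit 76) (nat_lit 4697050436) (nat_lit 152) (nat_lit 38344125604) (nat_lit 14) (nat_lit 5) (nat_lit 15) (nat_lit 5) (nat_lit 16) (nat_lit 4) (nat_lit 434) (nat_lit 288) (nat_lit 178)) (XT.lf (nat_lit 0) (nat_lit 26315961443) (nat_lit 152) (nat_lit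 30658912221) (nat_lit 0) (nat_lit 2308590067) (nat_lit 14) (nat_lit 5) (nat_lit 16) (nat_lit 4) (nat_lit 14) (nat_lit 4) (nat_lit 435) (nat_lit 288) (nat_lit 177)))) (XT.nd (nat_lit 78) (nat_lit 76) (nat_lit 0) (XT.lf (nat_lit 0) (nat_lit 33451658930) (nat_lit 152) (nat_lit 17979825156) (nat_lit 0) (nat_lit 9416976629) (nat_lit 14) (nat_lit 5) (nat_lit 16) (nat_lit 4) (nat_lit 14) (nat_lit 4) (nat_lit 436) (nat_lit 288) (nat_lit 176)) (XT.nd (nat_lit 78) (nat_lit 76) (nat_lit 0) (XT.lf (nat_lit 0) (nat_lit 40787174594) (nat_lit 152) (nat_lit 4947685109) (nat_lit 0) (nat_lit 16725976832) (nat_lit 14) (nat_lit 5) (nat_lit 16) (nat_lit 4) (nat_lit 14) (nat_lit 4) (nat_lit 437) (nat_lit 288) (nat_lit 175)) (XT.lf (nat_lit 0) (nat_lit 8617044807) (nat_lit 76) (nat_lit 39794705609) (nat_lit 76) (nat_lit 15707764681) (nat_lit 13) (nat_lit 4) (nat_lit 14) (nat_lit 5) (nat_lit 14) (nat_lit 4) (nat_lit 438) (nat_lit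 288) (nat_lit 174))))) (XT.nd (nat_lit 234) (nat_lit 76) (nat_lit 0) (XT.nd (nat_lit 78) (nat_lit 76) (nat_lit 0) (XT.lf (nat_lit 0) (nat_lit 22663875442) (nat_lit 76) (nat_lit 33637462945) (nat_lit 76) (nat_lit 9525528652) (nat_lit 13) (nat_lit 4) (nat_lit 14) (nat_lit 5) (nat_lit 14) (nat_lit 4) (nat_lit 439) (nat_lit 288) (nat_lit 173)) (XT.nd (nat_lit 78) (nat_lit 76) (nat_lit 0) (XT.lf (nat_lit 0) (nat_lit 37106612089) (nat_lit 76) (nat_lit 27307713513) (nat_lit 76) (nat_lit 3171513818) (nat_lit 13) (nat_lit 4) (nat_lit 14) (nat_lit 5) (nat_lit 14) (nat_lit 4) (nat_lit 440) (nat_lit 288) (nat_lit 172)) (XT.lf (nat_lit 0) (nat_lit 3294269450) (nat_lit 152) (nat_lit 17472391355) (nat_lit 76) (nat_lit 48630339504) (nat_lit 12) (nat_lit 5) (nat_lit 14) (nat_lit 5) (nat_lit 13) (nat_lit 4) (nat_lit 441) (nat_lit 288) (nat_lit 171)))) (XT.nd (nat_lit 156) (nat_lit 0) (nat_lit 0) (XT.nd (nat_lit 78) (nat_lit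 76) (nat_lit 0) (XT.lf (nat_lit 0) (nat_lit 9877631190) (nat_lit 152) (nat_lit 4131039492) (nat_lit 76) (nat_lit 57253263955) (nat_lit 12) (nat_lit 5) (nat_lit 14) (nat_lit 5) (nat_lit 13) (nat_lit 4) (nat_lit 442) (nat_lit 288) (nat_lit 170)) (XT.lf (nat_lit 0) (nat_lit 9777771825) (nat_lit 76) (nat_lit 6962429610) (nat_lit 152) (nat_lit 56440165426) (nat_lit 11) (nat_lit 5) (nat_lit 12) (nat_lit 5) (nat_lit 13) (nat_lit 4) (nat_lit 443) (nat_lit 288) (nat_lit 169))) (XT.nd (nat_lit 78) (nat_lit 0) (nat_lit 0) (XT.lf (nat_lit 0) (nat_lit 23841358191) (nat_lit 152) (nat_lit 50993428833) (nat_lit 0) (nat_lit 320584807) (nat_lit 11) (nat_lit 5) (nat_lit 13) (nat_lit 4) (nat_lit 11) (nat_lit 4) (nat_lit 444) (nat_lit 288) (nat_lit 168)) (XT.lf (nat_lit 0) (nat_lit 31212584936) (nat_lit 152) (nat_lit 38303842328) (nat_lit 0) (nat_lit 7671489659) (nat_lit 11) (nat_lit 5) (nat_lit 13) (nat_lit 4) (nat_lit 11)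 (nat_lit 4) (nat_lit 445) (nat_lit 288) (nat_lit 167)))))) (XT.nd (nat_lit 37518) (nat_lit 0) (nat_lit 14136) (XT.nd (nat_lit 37284) (nat_lit 0) (nat_lit 17328) (XT.nd (nat_lit 78) (nat_lit 0) (nat_lit 0) (XT.lf (nat_lit 0) (nat_lit 38793395416) (nat_lit 152) (nat_lit 25255820401) (nat_lit 0) (nat_lit 15232570145) (nat_lit 11) (nat_lit 5) (nat_lit 13) (nat_lit 4) (nat_lit 11) (nat_lit 4) (nat_lit 446) (nat_lit 288) (nat_lit 166)) (XT.nd (nat_lit 37128) (nat_lit 0) (nat_lit 20596) (XT.lf (nat_lit 0) (nat_lit 46590413638) (nat_lit 152) (nat_lit 11837961867) (nat_lit 0) (nat_lit 23010433035) (nat_lit 11) (nat_lit 5) (nat_lit 13) (nat_lit 4) (nat_lit 11) (nat_lit 4) (nat_lit 447) (nat_lit 288) (nat_lit 165)) (XT.lf (nat_lit 0) (nat_lit 1660930300) (nat_lit 988) (nat_lit 165851133) (nat_lit 0) (nat_lit 1660930300) (nat_lit 282) (nat_lit 5) (nat_lit 295) (nat_lit 4) (nat_lit 282) (nat_lit 4) (nat_lit 322) (nat_lit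 289) (nat_lit 289)))) (XT.nd (nat_lit 78) (nat_lit 2280) (nat_lit 0) (XT.lf (nat_lit 0) (nat_lit 4521488024) (nat_lit 988) (nat_lit 2160534067) (nat_lit 988) (nat_lit 344088814) (nat_lit 269) (nat_lit 4) (nat_lit 282) (nat_lit 5) (nat_lit 282) (nat_lit 4) (nat_lit 323) (nat_lit 289) (nat_lit 288)) (XT.nd (nat_lit 78) (nat_lit 1140) (nat_lit 0) (XT.lf (nat_lit 0) (nat_lit 2369417128) (nat_lit 1064) (nat_lit 561322508) (nat_lit 1140) (nat_lit 4149006254) (nat_lit 254) (nat_lit 5) (nat_lit 268) (nat_lit 5) (nat_lit 269) (nat_lit 4) (nat_lit 324) (nat_lit 289) (nat_lit 287)) (XT.lf (nat_lit 0) (nat_lit 198262791) (nat_lit 1140) (nat_lit 6038268959) (nat_lit 1140) (nat_lit 900251291) (nat_lit 239) (nat_lit 4) (nat_lit 254) (nat_lit 5) (nat_lit 254) (nat_lit 4) (nat_lit 325) (nat_lit 289) (nat_lit 286))))) (XT.nd (nat_lit 234) (nat_lit 1216) (nat_lit 0) (XT.nd (nat_lit 78) (nat_lit 1900) (nat_lit 0) (XT.lf (nat_lit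 0) (nat_lit 2354471026) (nat_lit 1216) (nat_lit 1972329565) (nat_lit 76) (nat_lit 2869417842) (nat_lit 238) (nat_lit 5) (nat_lit 254) (nat_lit 5) (nat_lit 239) (nat_lit 4) (nat_lit 326) (nat_lit 289) (nat_lit 285)) (XT.nd (nat_lit 78) (nat_lit 684) (nat_lit 0) (XT.lf (nat_lit 0) (nat_lit 3097925230) (nat_lit 1216) (nat_lit 2526071130) (nat_lit 1292) (nat_lit 1635192664) (nat_lit 222) (nat_lit 5) (nat_lit 238) (nat_lit 5) (nat_lit 239) (nat_lit 4) (nat_lit 327) (nat_lit 289) (nat_lit 284)) (XT.lf (nat_lit 0) (nat_lit 941970292) (nat_lit 608) (nat_lit 628537129) (nat_lit 684) (nat_lit 5755068531) (nat_lit 213) (nat_lit 5) (nat_lit 221) (nat_lit 5) (nat_lit 222) (nat_lit 5) (nat_lit 328) (nat_lit 289) (nat_lit 283)))) (XT.nd (nat_lit 156) (nat_lit 608) (nat_lit 0) (XT.nd (nat_lit 78) (nat_lit 608) (nat_lit 0) (XT.lf (nat_lit 0) (nat_lit 4802771694) (nat_lit 684) (nat_lit 1237720935) (nat_lit 76) (nat_lit 1354149041)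 (nat_lit 213) (nat_lit 5) (nat_lit 222) (nat_lit 5) (nat_lit 214) (nat_lit 4) (nat_lit 329) (nat_lit 289) (nat_lit 282)) (XT.lf (nat_lit 0) (nat_lit 608519282) (nat_lit 608) (nat_lit 3434399294) (nat_lit 76) (nat_lit 3424076401) (nat_lit 205) (nat_lit 5) (nat_lit 213) (nat_lit 5) (nat_lit 206) (nat_lit 5) (nat_lit 330) (nat_lit 289) (nat_lit 281))) (XT.nd (nat_lit 78) (nat_lit 0) (nat_lit 0) (XT.lf (nat_lit 0) (nat_lit 1858461424) (nat_lit 608) (nat_lit 1936355510) (nat_lit 684) (nat_lit 3747737020) (nat_lit 197) (nat_lit 5) (nat_lit 205) (nat_lit 5) (nat_lit 206) (nat_lit 5) (nat_lit 331) (nat_lit 289) (nat_lit 280)) (XT.lf (nat_lit 0) (nat_lit 7027035678) (nat_lit 684) (nat_lit 340307932) (nat_lit 76) (nat_lit 254588900) (nat_lit 197) (nat_lit 5) (nat_lit 206) (nat_lit 5) (nat_lit 198) (nat_lit 4) (nat_lit 332) (nat_lit 289) (nat_lit 279))))))) (XT.nd (nat_lit 1014) (nat_lit 3040) (nat_lit 0) (XT.nd (nat_lit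 468) (nat_lit 2204) (nat_lit 0) (XT.nd (nat_lit 234) (nat_lit 988) (nat_lit 0) (XT.nd (nat_lit 78) (nat_lit 1064) (nat_lit 0) (XT.lf (nat_lit 0) (nat_lit 2584817174) (nat_lit 608) (nat_lit 2580482326) (nat_lit 76) (nat_lit 2538165689) (nat_lit 189) (nat_lit 5) (nat_lit 197) (nat_lit 5) (nat_lit 190) (nat_lit 5) (nat_lit 333) (nat_lit 289) (nat_lit 278)) (XT.nd (nat_lit 78) (nat_lit 532) (nat_lit 0) (XT.lf (nat_lit 0) (nat_lit 2924150419) (nat_lit 532) (nat_lit 2871657182) (nat_lit 608) (nat_lit 1993081737) (nat_lit 182) (nat_lit 5) (nat_lit 189) (nat_lit 5) (nat_lit 190) (nat_lit 5) (nat_lit 334) (nat_lit 289) (nat_lit 277)) (XT.lf (nat_lit 0) (nat_lit 674284656) (nat_lit 456) (nat_lit 477747273) (nat_lit 532) (nat_lit 6726053538) (nat_lit 175) (nat_lit 5) (nat_lit 181) (nat_lit 5) (nat_lit 182) (nat_lit 5) (nat_lit 335) (nat_lit 289) (nat_lit 276)))) (XT.nd (nat_lit 78) (nat_lit 988) (nat_lit 0) (XT.lf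 (nat_lit 0) (nat_lit 4338419290) (nat_lit 532) (nat_lit 1627564487) (nat_lit 76) (nat_lit 2003824893) (nat_lit 175) (nat_lit 5) (nat_lit 182) (nat_lit 5) (nat_lit 176) (nat_lit 5) (nat_lit 336) (nat_lit 289) (nat_lit 275)) (XT.nd (nat_lit 78) (nat_lit 532) (nat_lit 0) (XT.lf (nat_lit 0) (nat_lit 4095067878) (nat_lit 456) (nat_lit 3490064537) (nat_lit 532) (nat_lit 480260169) (nat_lit 169) (nat_lit 5) (nat_lit 175) (nat_lit 5) (nat_lit 176) (nat_lit 5) (nat_lit 337) (nat_lit 289) (nat_lit 274)) (XT.lf (nat_lit 0) (nat_lit 1770449511) (nat_lit 456) (nat_lit 895823223) (nat_lit 532) (nat_lit 5498176926) (nat_lit 162) (nat_lit 5) (nat_lit 168) (nat_lit 5) (nat_lit 169) (nat_lit 5) (nat_lit 338) (nat_lit 289) (nat_lit 273))))) (XT.nd (nat_lit 234) (nat_lit 1292) (nat_lit 0) (XT.nd (nat_lit 78) (nat_lit 912) (nat_lit 0) (XT.lf (nat_lit 0) (nat_lit 5877525970) (nat_lit 532) (nat_lit 620655708) (nat_lit 76) (nat_lit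 1768801515) (nat_lit 162) (nat_lit 5) (nat_lit 169) (nat_lit 5) (nat_lit 163) (nat_lit 5) (nat_lit 339) (nat_lit 289) (nat_lit 272)) (XT.nd (nat_lit 78) (nat_lit 380) (nat_lit 0) (XT.lf (nat_lit 0) (nat_lit 781210811) (nat_lit 532) (nat_lit 3054943960) (nat_lit 76) (nat_lit 4536711414) (nat_lit 155) (nat_lit 5) (nat_lit 162) (nat_lit 5) (nat_lit 156) (nat_lit 5) (nat_lit 340) (nat_lit 289) (nat_lit 271)) (XT.lf (nat_lit 0) (nat_lit 2902834012) (nat_lit 380) (nat_lit 1055557765) (nat_lit 456) (nat_lit 4524084337) (nat_lit 150) (nat_lit 5) (nat_lit 155) (nat_lit 5) (nat_lit 156) (nat_lit 5) (nat_lit 341) (nat_lit 289) (nat_lit 270)))) (XT.nd (nat_lit 156) (nat_lit 760) (nat_lit 0) (XT.nd (nat_lit 78) (nat_lit 76) (nat_lit 0) (XT.lf (nat_lit 0) (nat_lit 400813217) (nat_lit 456) (nat_lit 6808715127) (nat_lit 532) (nat_lit 1386528293) (nat_lit 144) (nat_lit 5) (nat_lit 150) (nat_lit 5) (nat_lit 151) (nat_lit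 5) (nat_lit 342) (nat_lit 289) (nat_lit 269)) (XT.lf (nat_lit 0) (nat_lit 1803218897) (nat_lit 532) (nat_lit 2162427209) (nat_lit 76) (nat_lit 4747083383) (nat_lit 143) (nat_lit 5) (nat_lit 150) (nat_lit 5) (nat_lit 144) (nat_lit 5) (nat_lit 343) (nat_lit 289) (nat_lit 268))) (XT.nd (nat_lit 78) (nat_lit 380) (nat_lit 0) (XT.lf (nat_lit 0) (nat_lit 4021570668) (nat_lit 380) (nat_lit 1006729928) (nat_lit 456) (nat_lit 3805202770) (nat_lit 138) (nat_lit 5) (nat_lit 143) (nat_lit 5) (nat_lit 144) (nat_lit 5) (nat_lit 344) (nat_lit 289) (nat_lit 267)) (XT.lf (nat_lit 0) (nat_lit 1389926106) (nat_lit 380) (nat_lit 6945037962) (nat_lit 456) (nat_lit 623428384) (nat_lit 133) (nat_lit 5) (nat_lit 138) (nat_lit 5) (nat_lit 139) (nat_lit 5) (nat_lit 345) (nat_lit 289) (nat_lit 266)))))) (XT.nd (nat_lit 546) (nat_lit 1520) (nat_lit 0) (XT.nd (nat_lit 234) (nat_lit 760) (nat_lit 0) (XT.nd (nat_lit 78) (nat_lit 684)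 (nat_lit 0) (XT.lf (nat_lit 0) (nat_lit 2591267488) (nat_lit 456) (nat_lit 1341067626) (nat_lit 76) (nat_lit 5154284953) (nat_lit 132) (nat_lit 5) (nat_lit 138) (nat_lit 5) (nat_lit 133) (nat_lit 5) (nat_lit 346) (nat_lit 289) (nat_lit 265)) (XT.nd (nat_lit 78) (nat_lit 380) (nat_lit 0) (XT.lf (nat_lit 0) (nat_lit 5072745647) (nat_lit 304) (nat_lit 798136874) (nat_lit 380) (nat_lit 3348230299) (nat_lit 128) (nat_lit 5) (nat_lit 132) (nat_lit 5) (nat_lit 133) (nat_lit 5) (nat_lit 347) (nat_lit 289) (nat_lit 264)) (XT.lf (nat_lit 0) (nat_lit 2278156511) (nat_lit 380) (nat_lit 6962750101) (nat_lit 456) (nat_lit 114945886) (nat_lit 123) (nat_lit 5) (nat_lit 128) (nat_lit 5) (nat_lit 129) (nat_lit 5) (nat_lit 348) (nat_lit 289) (nat_lit 263)))) (XT.nd (nat_lit 156) (nat_lit 380) (nat_lit 0) (XT.nd (nat_lit 78) (nat_lit 304) (nat_lit 0) (XT.lf (nat_lit 0) (nat_lit 3136237238) (nat_lit 456) (nat_lit 648778081)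 (nat_lit 76) (nat_lit 5711273404) (nat_lit 122) (nat_lit 5) (nat_lit 128) (nat_lit 5) (nat_lit 123) (nat_lit 5) (nat_lit 349) (nat_lit 289) (nat_lit 262)) (XT.lf (nat_lit 0) (nat_lit 5997120431) (nat_lit 304) (nat_lit 478567200) (nat_lit 380) (nat_lit 3165454979) (nat_lit 118) (nat_lit 5) (nat_lit 122) (nat_lit 5) (nat_lit 123) (nat_lit 5) (nat_lit 350) (nat_lit 289) (nat_lit 261))) (XT.nd (nat_lit 78) (nat_lit 0) (nat_lit 0) (XT.lf (nat_lit 0) (nat_lit 122273465) (nat_lit 380) (nat_lit 6788171225) (nat_lit 76) (nat_lit 2879897658) (nat_lit 113) (nat_lit 5) (nat_lit 118) (nat_lit 5) (nat_lit 114) (nat_lit 5) (nat_lit 351) (nat_lit 289) (nat_lit 260)) (XT.lf (nat_lit 0) (nat_lit 3423380207) (nat_lit 380) (nat_lit 149842651) (nat_lit 76) (nat_lit 6370531354) (nat_lit 113) (nat_lit 5) (nat_lit 118) (nat_lit 5) (nat_lit 114) (nat_lit 5) (nat_lit 352) (nat_lit 289) (nat_lit 259))))) (XT.nd (nat_lit 234) (nat_lit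 608) (nat_lit 0) (XT.nd (nat_lit 78) (nat_lit 608) (nat_lit 0) (XT.lf (nat_lit 0) (nat_lit 6728710112) (nat_lit 304) (nat_lit 97809792) (nat_lit 380) (nat_lit 3275185173) (nat_lit 109) (nat_lit 5) (nat_lit 113) (nat_lit 5) (nat_lit 114) (nat_lit 5) (nat_lit 353) (nat_lit 289) (nat_lit 258)) (XT.nd (nat_lit 78) (nat_lit 228) (nat_lit 0) (XT.lf (nat_lit 0) (nat_lit 73681929) (nat_lit 380) (nat_lit 6768750813) (nat_lit 76) (nat_lit 3421738297) (nat_lit 104) (nat_lit 5) (nat_lit 109) (nat_lit 5) (nat_lit 105) (nat_lit 5) (nat_lit 354) (nat_lit 289) (nat_lit 257)) (XT.lf (nat_lit 0) (nat_lit 85214108) (nat_lit 228) (nat_lit 3347432568) (nat_lit 304) (nat_lit 6998652069) (nat_lit 101) (nat_lit 5) (nat_lit 104) (nat_lit 5) (nat_lit 105) (nat_lit 5) (nat_lit 355) (nat_lit 289) (nat_lit 256)))) (XT.nd (nat_lit 156) (nat_lit 304) (nat_lit 0) (XT.nd (nat_lit 78) (nat_lit 304) (nat_lit 0) (XT.lf (nat_lit 0) (nat_lit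 6903715361) (nat_lit 304) (nat_lit 3412829673) (nat_lit 76) (nat_lit 286578863) (nat_lit 101) (nat_lit 5) (nat_lit 105) (nat_lit 5) (nat_lit 102) (nat_lit 5) (nat_lit 356) (nat_lit 289) (nat_lit 255)) (XT.lf (nat_lit 0) (nat_lit 3677836695) (nat_lit 304) (nat_lit 6811207718) (nat_lit 380) (nat_lit 290778519) (nat_lit 97) (nat_lit 5) (nat_lit 101) (nat_lit 5) (nat_lit 102) (nat_lit 5) (nat_lit 357) (nat_lit 289) (nat_lit 254))) (XT.nd (nat_lit 78) (nat_lit 228) (nat_lit 0) (XT.lf (nat_lit 0) (nat_lit 3133969894) (nat_lit 380) (nat_lit 30415926) (nat_lit 76) (nat_lit 7797229304) (nat_lit 96) (nat_lit 5) (nat_lit 101) (nat_lit 5) (nat_lit 97) (nat_lit 5) (nat_lit 358) (nat_lit 289) (nat_lit 253)) (XT.lf (nat_lit 0) (nat_lit 6675550657) (nat_lit 304) (nat_lit 3848418186) (nat_lit 76) (nat_lit 624228868) (nat_lit 93) (nat_lit 5) (nat_lit 97) (nat_lit 5) (nat_lit 94) (nat_lit 5) (nat_lit 359) (nat_lit 289) (nat_lit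 252))))))))
noncomputable def xc77 : XT := (XT.nd (nat_lit 2028) (nat_lit 1824) (nat_lit 0) (XT.nd (nat_lit 1014) (nat_lit 1368) (nat_lit 0) (XT.nd (nat_lit 468) (nat_lit 912) (nat_lit 0) (XT.nd (nat_lit 234) (nat_lit 532) (nat_lit 0) (XT.nd (nat_lit 78) (nat_lit 304) (nat_lit 0) (XT.lf (nat_lit 0) (nat_lit 3458845606) (nat_lit 304) (nat_lit 6873529558) (nat_lit 380) (nat_lit 1007753139) (nat_lit 89) (nat_lit 5) (nat_lit 93) (nat_lit 5) (nat_lit 94) (nat_lit 5) (nat_lit 360) (nat_lit 289) (nat_lit 251)) (XT.nd (nat_lit 78) (nat_lit 228) (nat_lit 0) (XT.lf (nat_lit 0) (nat_lit 2494695445) (nat_lit 380) (nat_lit 585159145) (nat_lit 76) (nat_lit 8457735386) (nat_lit 88) (nat_lit 5) (nat_lit 93) (nat_lit 5) (nat_lit 89) (nat_lit 5) (nat_lit 361) (nat_lit 289) (nat_lit 250)) (XT.lf (nat_lit 0) (nat_lit 6103347166) (nat_lit 304) (nat_lit 4777996031) (nat_lit 76) (nat_lit 858710118) (nat_lit 85) (nat_lit 5) (nat_lit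 89) (nat_lit 5) (nat_lit 86) (nat_lit 5) (nat_lit 362) (nat_lit 289) (nat_lit 249)))) (XT.nd (nat_lit 78) (nat_lit 304) (nat_lit 0) (XT.lf (nat_lit 0) (nat_lit 2736469555) (nat_lit 228) (nat_lit 7092978332) (nat_lit 304) (nat_lit 2118885122) (nat_lit 82) (nat_lit 5) (nat_lit 85) (nat_lit 5) (nat_lit 86) (nat_lit 5) (nat_lit 363) (nat_lit 289) (nat_lit 248)) (XT.nd (nat_lit 78) (nat_lit 228) (nat_lit 0) (XT.lf (nat_lit 0) (nat_lit 1470467641) (nat_lit 304) (nat_lit 1687928313) (nat_lit 76) (nat_lit 9004187740) (nat_lit 81) (nat_lit 5) (nat_lit 85) (nat_lit 5) (nat_lit 82) (nat_lit 5) (nat_lit 364) (nat_lit 289) (nat_lit 247)) (XT.lf (nat_lit 0) (nat_lit 5140580469) (nat_lit 304) (nat_lit 6315607675) (nat_lit 76) (nat_lit 925990972) (nat_lit 78) (nat_lit 5) (nat_lit 82) (nat_lit 5) (nat_lit 79) (nat_lit 5) (nat_lit 365) (nat_lit 289) (nat_lit 246))))) (XT.nd (nat_lit 234) (nat_lit 456) (nat_lit 0) (XT.nd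 (nat_lit 78) (nat_lit 228) (nat_lit 0) (XT.lf (nat_lit 0) (nat_lit 1392370195) (nat_lit 228) (nat_lit 7538891758) (nat_lit 304) (nat_lit 3676802607) (nat_lit 75) (nat_lit 5) (nat_lit 78) (nat_lit 5) (nat_lit 79) (nat_lit 5) (nat_lit 366) (nat_lit 289) (nat_lit 245)) (XT.nd (nat_lit 78) (nat_lit 152) (nat_lit 0) (XT.lf (nat_lit 0) (nat_lit 8221024) (nat_lit 304) (nat_lit 3462373755) (nat_lit 76) (nat_lit 9369752892) (nat_lit 74) (nat_lit 5) (nat_lit 78) (nat_lit 5) (nat_lit 75) (nat_lit 5) (nat_lit 367) (nat_lit 289) (nat_lit 244)) (XT.lf (nat_lit 0) (nat_lit 3730757758) (nat_lit 228) (nat_lit 8592878243) (nat_lit 76) (nat_lit 754860028) (nat_lit 72) (nat_lit 5) (nat_lit 75) (nat_lit 5) (nat_lit 73) (nat_lit 5) (nat_lit 368) (nat_lit 289) (nat_lit 243)))) (XT.nd (nat_lit 156) (nat_lit 228) (nat_lit 0) (XT.nd (nat_lit 78) (nat_lit 228) (nat_lit 0) (XT.lf (nat_lit 0) (nat_lit 7585279371) (nat_lit 228) (nat_lit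 696386787) (nat_lit 76) (nat_lit 5041527735) (nat_lit 72) (nat_lit 5) (nat_lit 75) (nat_lit 5) (nat_lit 73) (nat_lit 5) (nat_lit 369) (nat_lit 289) (nat_lit 242)) (XT.lf (nat_lit 0) (nat_lit 7503851147) (nat_lit 228) (nat_lit 4075791944) (nat_lit 304) (nat_lit 1994877310) (nat_lit 69) (nat_lit 5) (nat_lit 72) (nat_lit 5) (nat_lit 73) (nat_lit 5) (nat_lit 370) (nat_lit 289) (nat_lit 241))) (XT.nd (nat_lit 78) (nat_lit 0) (nat_lit 0) (XT.lf (nat_lit 0) (nat_lit 1806017241) (nat_lit 228) (nat_lit 11762132221) (nat_lit 76) (nat_lit 265257724) (nat_lit 66) (nat_lit 5) (nat_lit 69) (nat_lit 5) (nat_lit 67) (nat_lit 5) (nat_lit 371) (nat_lit 289) (nat_lit 240)) (XT.lf (nat_lit 0) (nat_lit 5735664685) (nat_lit 228) (nat_lit 3657111657) (nat_lit 76) (nat_lit 4705059782) (nat_lit 66) (nat_lit 5) (nat_lit 69) (nat_lit 5) (nat_lit 67) (nat_lit 5) (nat_lit 372) (nat_lit 289) (nat_lit 239)))))) (XT.nd (nat_lit 468) (nat_lit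 532) (nat_lit 0) (XT.nd (nat_lit 234) (nat_lit 380) (nat_lit 0) (XT.nd (nat_lit 78) (nat_lit 228) (nat_lit 0) (XT.lf (nat_lit 0) (nat_lit 4705108243) (nat_lit 228) (nat_lit 5077261429) (nat_lit 304) (nat_lit 4587865568) (nat_lit 63) (nat_lit 5) (nat_lit 66) (nat_lit 5) (nat_lit 67) (nat_lit 5) (nat_lit 373) (nat_lit 289) (nat_lit 238)) (XT.nd (nat_lit 78) (nat_lit 228) (nat_lit 0) (XT.lf (nat_lit 0) (nat_lit 13316159457) (nat_lit 228) (nat_lit 625787116) (nat_lit 304) (nat_lit 709127624) (nat_lit 63) (nat_lit 5) (nat_lit 66) (nat_lit 5) (nat_lit 67) (nat_lit 5) (nat_lit 374) (nat_lit 289) (nat_lit 237)) (XT.lf (nat_lit 0) (nat_lit 3286013499) (nat_lit 228) (nat_lit 7697387387) (nat_lit 76) (nat_lit 3954076271) (nat_lit 60) (nat_lit 5) (nat_lit 63) (nat_lit 5) (nat_lit 61) (nat_lit 5) (nat_lit 375) (nat_lit 289) (nat_lit 236)))) (XT.nd (nat_lit 78) (nat_lit 228) (nat_lit 0) (XT.lf (nat_lit 0) (nat_lit 793830582)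 (nat_lit 152) (nat_lit 6576063710) (nat_lit 228) (nat_lit 7862884112) (nat_lit 58) (nat_lit 5) (nat_lit 60) (nat_lit 5) (nat_lit 61) (nat_lit 5) (nat_lit 376) (nat_lit 289) (nat_lit 235)) (XT.nd (nat_lit 78) (nat_lit 228) (nat_lit 0) (XT.lf (nat_lit 0) (nat_lit 9622368075) (nat_lit 152) (nat_lit 1987917390) (nat_lit 228) (nat_lit 3925644058) (nat_lit 58) (nat_lit 5) (nat_lit 60) (nat_lit 5) (nat_lit 61) (nat_lit 5) (nat_lit 377) (nat_lit 289) (nat_lit 234)) (XT.lf (nat_lit 0) (nat_lit 137971449) (nat_lit 228) (nat_lit 13026880921) (nat_lit 76) (nat_lit 2682971760) (nat_lit 55) (nat_lit 5) (nat_lit 58) (nat_lit 5) (nat_lit 56) (nat_lit 5) (nat_lit 378) (nat_lit 289) (nat_lit 233))))) (XT.nd (nat_lit 234) (nat_lit 380) (nat_lit 0) (XT.nd (nat_lit 78) (nat_lit 152) (nat_lit 0) (XT.lf (nat_lit 0) (nat_lit 4281941435) (nat_lit 228) (nat_lit 4361859002) (nat_lit 76) (nat_lit 7522998428) (nat_lit 55) (nat_lit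 5) (nat_lit 58) (nat_lit 5) (nat_lit 56) (nat_lit 5) (nat_lit 379) (nat_lit 289) (nat_lit 232)) (XT.nd (nat_lit 78) (nat_lit 0) (nat_lit 0) (XT.lf (nat_lit 0) (nat_lit 4580516578) (nat_lit 152) (nat_lit 3972345257) (nat_lit 228) (nat_lit 7942411534) (nat_lit 53) (nat_lit 5) (nat_lit 55) (nat_lit 5) (nat_lit 56) (nat_lit 5) (nat_lit 380) (nat_lit 289) (nat_lit 231)) (XT.lf (nat_lit 0) (nat_lit 12963288687) (nat_lit 228) (nat_lit 3032424052) (nat_lit 76) (nat_lit 837557196) (nat_lit 53) (nat_lit 5) (nat_lit 56) (nat_lit 5) (nat_lit 54) (nat_lit 4) (nat_lit 381) (nat_lit 289) (nat_lit 230)))) (XT.nd (nat_lit 156) (nat_lit 152) (nat_lit 0) (XT.nd (nat_lit 78) (nat_lit 0) (nat_lit 0) (XT.lf (nat_lit 0) (nat_lit 377105300) (nat_lit 228) (nat_lit 11056880294) (nat_lit 76) (nat_lit 5745571315) (nat_lit 50) (nat_lit 5) (nat_lit 53) (nat_lit 5) (nat_lit 51) (nat_lit 5) (nat_lit 382) (nat_lit 289) (nat_lit 229)) (XT.lf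 (nat_lit 0) (nat_lit 4664872147) (nat_lit 228) (nat_lit 2029569909) (nat_lit 76) (nat_lit 10840917834) (nat_lit 50) (nat_lit 5) (nat_lit 53) (nat_lit 5) (nat_lit 51) (nat_lit 5) (nat_lit 383) (nat_lit 289) (nat_lit 228))) (XT.nd (nat_lit 78) (nat_lit 0) (nat_lit 0) (XT.lf (nat_lit 0) (nat_lit 7343678633) (nat_lit 152) (nat_lit 1769472452) (nat_lit 228) (nat_lit 8787737668) (nat_lit 48) (nat_lit 5) (nat_lit 50) (nat_lit 5) (nat_lit 51) (nat_lit 5) (nat_lit 384) (nat_lit 289) (nat_lit 227)) (XT.lf (nat_lit 0) (nat_lit 13708813078) (nat_lit 228) (nat_lit 1337383371) (nat_lit 76) (nat_lit 3230776920) (nat_lit 48) (nat_lit 5) (nat_lit 51) (nat_lit 5) (nat_lit 49) (nat_lit 4) (nat_lit 385) (nat_lit 289) (nat_lit 226))))))) (XT.nd (nat_lit 1014) (nat_lit 760) (nat_lit 0) (XT.nd (nat_lit 468) (nat_lit 532) (nat_lit 0) (XT.nd (nat_lit 234) (nat_lit 152) (nat_lit 0) (XT.nd (nat_lit 78) (nat_lit 228) (nat_lit 0) (XT.lf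 (nat_lit 0) (nat_lit 8235833490) (nat_lit 152) (nat_lit 10265804925) (nat_lit 228) (nat_lit 160931003) (nat_lit 46) (nat_lit 5) (nat_lit 48) (nat_lit 5) (nat_lit 49) (nat_lit 4) (nat_lit 386) (nat_lit 289) (nat_lit 225)) (XT.nd (nat_lit 78) (nat_lit 152) (nat_lit 0) (XT.lf (nat_lit 0) (nat_lit 4269403433) (nat_lit 228) (nat_lit 1044383761) (nat_lit 76) (nat_lit 13745400873) (nat_lit 45) (nat_lit 5) (nat_lit 48) (nat_lit 5) (nat_lit 46) (nat_lit 5) (nat_lit 387) (nat_lit 289) (nat_lit 224)) (XT.lf (nat_lit 0) (nat_lit 8723514740) (nat_lit 152) (nat_lit 153531272) (nat_lit 228) (nat_lit 10589189527) (nat_lit 43) (nat_lit 5) (nat_lit 45) (nat_lit 5) (nat_lit 46) (nat_lit 5) (nat_lit 388) (nat_lit 289) (nat_lit 223)))) (XT.nd (nat_lit 78) (nat_lit 152) (nat_lit 0) (XT.lf (nat_lit 0) (nat_lit 13647131256) (nat_lit 228) (nat_lit 1193774149) (nat_lit 76) (nat_lit 5043869467) (nat_lit 43) (nat_lit 5) (nat_lit 46)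 (nat_lit 5) (nat_lit 44) (nat_lit 4) (nat_lit 389) (nat_lit 289) (nat_lit 222)) (XT.nd (nat_lit 78) (nat_lit 76) (nat_lit 0) (XT.lf (nat_lit 0) (nat_lit 8747975873) (nat_lit 76) (nat_lit 9862951213) (nat_lit 152) (nat_lit 1703431699) (nat_lit 42) (nat_lit 5) (nat_lit 43) (nat_lit 5) (nat_lit 44) (nat_lit 4) (nat_lit 390) (nat_lit 289) (nat_lit 221)) (XT.lf (nat_lit 0) (nat_lit 2886157215) (nat_lit 152) (nat_lit 1835591794) (nat_lit 76) (nat_lit 16034914590) (nat_lit 41) (nat_lit 5) (nat_lit 43) (nat_lit 5) (nat_lit 42) (nat_lit 5) (nat_lit 391) (nat_lit 289) (nat_lit 220))))) (XT.nd (nat_lit 234) (nat_lit 304) (nat_lit 0) (XT.nd (nat_lit 78) (nat_lit 76) (nat_lit 0) (XT.lf (nat_lit 0) (nat_lit 7630992442) (nat_lit 228) (nat_lit 12946033596) (nat_lit 76) (nat_lit 633157747) (nat_lit 39) (nat_lit 5) (nat_lit 42) (nat_lit 5) (nat_lit 40) (nat_lit 4) (nat_lit 392) (nat_lit 289) (nat_lit 219)) (XT.nd (nat_lit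 78) (nat_lit 76) (nat_lit 0) (XT.lf (nat_lit 0) (nat_lit 12549875767) (nat_lit 228) (nat_lit 3080428973) (nat_lit 76) (nat_lit 6046059645) (nat_lit 39) (nat_lit 5) (nat_lit 42) (nat_lit 5) (nat_lit 40) (nat_lit 4) (nat_lit 393) (nat_lit 289) (nat_lit 218)) (XT.lf (nat_lit 0) (nat_lit 7161418741) (nat_lit 76) (nat_lit 10490963924) (nat_lit 152) (nat_lit 4503071753) (nat_lit 38) (nat_lit 5) (nat_lit 39) (nat_lit 5) (nat_lit 40) (nat_lit 4) (nat_lit 394) (nat_lit 289) (nat_lit 217)))) (XT.nd (nat_lit 156) (nat_lit 76) (nat_lit 0) (XT.nd (nat_lit 78) (nat_lit 152) (nat_lit 0) (XT.lf (nat_lit 0) (nat_lit 252686672) (nat_lit 152) (nat_lit 4936658087) (nat_lit 76) (nat_lit 17459542268) (nat_lit 37) (nat_lit 5) (nat_lit 39) (nat_lit 5) (nat_lit 38) (nat_lit 5) (nat_lit 395) (nat_lit 289) (nat_lit 216)) (XT.lf (nat_lit 0) (nat_lit 5084316269) (nat_lit 228) (nat_lit 17732568315) (nat_lit 76) (nat_lit 338194554) (nat_lit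 35) (nat_lit 5) (nat_lit 38) (nat_lit 5) (nat_lit 36) (nat_lit 4) (nat_lit 396) (nat_lit 289) (nat_lit 215))) (XT.nd (nat_lit 78) (nat_lit 76) (nat_lit 0) (XT.lf (nat_lit 0) (nat_lit 10130977810) (nat_lit 228) (nat_lit 7591124265) (nat_lit 76) (nat_lit 5952257534) (nat_lit 35) (nat_lit 5) (nat_lit 38) (nat_lit 5) (nat_lit 36) (nat_lit 4) (nat_lit 397) (nat_lit 289) (nat_lit 214)) (XT.lf (nat_lit 0) (nat_lit 2854001554) (nat_lit 76) (nat_lit 12471752895) (nat_lit 152) (nat_lit 8883567530) (nat_lit 34) (nat_lit 5) (nat_lit 35) (nat_lit 5) (nat_lit 36) (nat_lit 4) (nat_lit 398) (nat_lit 289) (nat_lit 213)))))) (XT.nd (nat_lit 546) (nat_lit 304) (nat_lit 0) (XT.nd (nat_lit 234) (nat_lit 228) (nat_lit 0) (XT.nd (nat_lit 78) (nat_lit 228) (nat_lit 0) (XT.lf (nat_lit 0) (nat_lit 13712389859) (nat_lit 76) (nat_lit 7010280134) (nat_lit 152) (nat_lit 4036279154) (nat_lit 34) (nat_lit 5) (nat_lit 35) (nat_lit 5) (nat_lit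 36) (nat_lit 4) (nat_lit 399) (nat_lit 289) (nat_lit 212)) (XT.nd (nat_lit 78) (nat_lit 152) (nat_lit 0) (XT.lf (nat_lit 0) (nat_lit 907992518) (nat_lit 152) (nat_lit 492405642) (nat_lit 76) (nat_lit 23925288840) (nat_lit 33) (nat_lit 5) (nat_lit 35) (nat_lit 5) (nat_lit 34) (nat_lit 5) (nat_lit 400) (nat_lit 289) (nat_lit 211)) (XT.lf (nat_lit 0) (nat_lit 6034642328) (nat_lit 228) (nat_lit 15459294500) (nat_lit 76) (nat_lit 4410840397) (nat_lit 31) (nat_lit 5) (nat_lit 34) (nat_lit 5) (nat_lit 32) (nat_lit 4) (nat_lit 401) (nat_lit 289) (nat_lit 210)))) (XT.nd (nat_lit 156) (nat_lit 152) (nat_lit 0) (XT.nd (nat_lit 78) (nat_lit 76) (nat_lit 0) (XT.lf (nat_lit 0) (nat_lit 11305179625) (nat_lit 228) (nat_lit 4846598221) (nat_lit 76) (nat_lit 10349763933) (nat_lit 31) (nat_lit 5) (nat_lit 34) (nat_lit 5) (nat_lit 32) (nat_lit 4) (nat_lit 402) (nat_lit 289) (nat_lit 209)) (XT.lf (nat_lit 0) (nat_lit 6152899267)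 (nat_lit 76) (nat_lit 10612119111) (nat_lit 152) (nat_lit 10350259470) (nat_lit 30) (nat_lit 5) (nat_lit 31) (nat_lit 5) (nat_lit 32) (nat_lit 4) (nat_lit 403) (nat_lit 289) (nat_lit 208))) (XT.nd (nat_lit 78) (nat_lit 152) (nat_lit 0) (XT.lf (nat_lit 0) (nat_lit 17530593612) (nat_lit 76) (nat_lit 4879362523) (nat_lit 152) (nat_lit 5336834766) (nat_lit 30) (nat_lit 5) (nat_lit 31) (nat_lit 5) (nat_lit 32) (nat_lit 4) (nat_lit 404) (nat_lit 289) (nat_lit 207)) (XT.lf (nat_lit 0) (nat_lit 808042052) (nat_lit 152) (nat_lit 27406772257) (nat_lit 152) (nat_lit 182721768) (nat_lit 28) (nat_lit 4) (nat_lit 30) (nat_lit 5) (nat_lit 30) (nat_lit 4) (nat_lit 405) (nat_lit 289) (nat_lit 206))))) (XT.nd (nat_lit 234) (nat_lit 152) (nat_lit 0) (XT.nd (nat_lit 78) (nat_lit 76) (nat_lit 0) (XT.lf (nat_lit 0) (nat_lit 5151472694) (nat_lit 228) (nat_lit 16841171778) (nat_lit 76) (nat_lit 7069920028) (nat_lit 27) (nat_lit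 5) (nat_lit 30) (nat_lit 5) (nat_lit 28) (nat_lit 4) (nat_lit 406) (nat_lit 289) (nat_lit 205)) (XT.nd (nat_lit 78) (nat_lit 76) (nat_lit 0) (XT.lf (nat_lit 0) (nat_lit 10615796756) (nat_lit 228) (nat_lit 5821031660) (nat_lit 76) (nat_lit 13311451366) (nat_lit 27) (nat_lit 5) (nat_lit 30) (nat_lit 5) (nat_lit 28) (nat_lit 4) (nat_lit 407) (nat_lit 289) (nat_lit 204)) (XT.lf (nat_lit 0) (nat_lit 5591420768) (nat_lit 76) (nat_lit 10680918017) (nat_lit 152) (nat_lit 14181382556) (nat_lit 26) (nat_lit 5) (nat_lit 27) (nat_lit 5) (nat_lit 28) (nat_lit 4) (nat_lit 408) (nat_lit 289) (nat_lit 203)))) (XT.nd (nat_lit 156) (nat_lit 152) (nat_lit 0) (XT.nd (nat_lit 78) (nat_lit 0) (nat_lit 0) (XT.lf (nat_lit 0) (nat_lit 17418636275) (nat_lit 76) (nat_lit 4713552271) (nat_lit 152) (nat_lit 9047132622) (nat_lit 26) (nat_lit 5) (nat_lit 27) (nat_lit 5) (nat_lit 28) (nat_lit 4) (nat_lit 409) (nat_lit 289) (nat_lit 202))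 (XT.lf (nat_lit 0) (nat_lit 28156967498) (nat_lit 152) (nat_lit 2385896118) (nat_lit 0) (nat_lit 1384154627) (nat_lit 26) (nat_lit 5) (nat_lit 28) (nat_lit 4) (nat_lit 26) (nat_lit 4) (nat_lit 410) (nat_lit 289) (nat_lit 201))) (XT.nd (nat_lit 78) (nat_lit 0) (nat_lit 0) (XT.lf (nat_lit 0) (nat_lit 1747288111) (nat_lit 152) (nat_lit 23288303425) (nat_lit 76) (nat_lit 7657644284) (nat_lit 24) (nat_lit 5) (nat_lit 26) (nat_lit 5) (nat_lit 25) (nat_lit 4) (nat_lit 411) (nat_lit 289) (nat_lit 200)) (XT.lf (nat_lit 0) (nat_lit 7354815869) (nat_lit 152) (nat_lit 11965687533) (nat_lit 76) (nat_lit 14160806403) (nat_lit 24) (nat_lit 5) (nat_lit 26) (nat_lit 5) (nat_lit 25) (nat_lit 4) (nat_lit 412) (nat_lit 289) (nat_lit 199))))))))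
noncomputable def xc78 : XT := (XT.nd (nat_lit 2028) (nat_lit 228) (nat_lit 0) (XT.nd (nat_lit 1014) (nat_lit 304) (nat_lit 0) (XT.nd (nat_lit 468) (nat_lit 228) (nat_lit 0) (XT.nd (nat_lit 234) (nat_lit 152) (nat_lit 0) (XT.nd (nat_lit 78) (nat_lit 76) (nat_lit 0) (XT.lf (nat_lit 0) (nat_lit 13107376844) (nat_lit 152) (nat_lit 346887255) (nat_lit 76) (nat_lit 20839460591) (nat_lit 24) (nat_lit 5) (nat_lit 26) (nat_lit 5) (nat_lit 25) (nat_lit 4) (nat_lit 413) (nat_lit 289) (nat_lit 198)) (XT.nd (nat_lit 78) (nat_lit 0) (nat_lit 0) (XT.lf (nat_lit 0) (nat_lit 11808679632) (nat_lit 76) (nat_lit 7314830167) (nat_lit 152) (nat_lit 16004275186) (nat_lit 23) (nat_lit 5) (nat_lit 24) (nat_lit 5) (nat_lit 25) (nat_lit 4) (nat_lit 414) (nat_lit 289) (nat_lit 197)) (XT.lf (nat_lit 0) (nat_lit 24294211096) (nat_lit 76) (nat_lit 1007155329) (nat_lit 152) (nat_lit 10686066209) (nat_lit 23) (nat_lit 5) (nat_lit 24)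 (nat_lit 5) (nat_lit 25) (nat_lit 4) (nat_lit 415) (nat_lit 289) (nat_lit 196)))) (XT.nd (nat_lit 78) (nat_lit 76) (nat_lit 0) (XT.lf (nat_lit 0) (nat_lit 191337581) (nat_lit 76) (nat_lit 31506034045) (nat_lit 76) (nat_lit 5174516355) (nat_lit 22) (nat_lit 4) (nat_lit 23) (nat_lit 5) (nat_lit 23) (nat_lit 4) (nat_lit 416) (nat_lit 289) (nat_lit 195)) (XT.nd (nat_lit 78) (nat_lit 0) (nat_lit 0) (XT.lf (nat_lit 0) (nat_lit 600027161) (nat_lit 152) (nat_lit 25164268916) (nat_lit 76) (nat_lit 12015215027) (nat_lit 21) (nat_lit 5) (nat_lit 23) (nat_lit 5) (nat_lit 22) (nat_lit 4) (nat_lit 417) (nat_lit 289) (nat_lit 194)) (XT.lf (nat_lit 0) (nat_lit 6422669252) (nat_lit 152) (nat_lit 13393632040) (nat_lit 76) (nat_lit 18897161128) (nat_lit 21) (nat_lit 5) (nat_lit 23) (nat_lit 5) (nat_lit 22) (nat_lit 4) (nat_lit 418) (nat_lit 289) (nat_lit 193))))) (XT.nd (nat_lit 234) (nat_lit 152) (nat_lit 0) (XT.nd (nat_lit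 78) (nat_lit 76) (nat_lit 0) (XT.lf (nat_lit 0) (nat_lit 12399471114) (nat_lit 152) (nat_lit 1308614133) (nat_lit 76) (nat_lit 25967964972) (nat_lit 21) (nat_lit 5) (nat_lit 23) (nat_lit 5) (nat_lit 22) (nat_lit 4) (nat_lit 419) (nat_lit 289) (nat_lit 192)) (XT.nd (nat_lit 78) (nat_lit 0) (nat_lit 0) (XT.lf (nat_lit 0) (nat_lit 11322283052) (nat_lit 76) (nat_lit 7322208853) (nat_lit 152) (nat_lit 22020358591) (nat_lit 20) (nat_lit 5) (nat_lit 21) (nat_lit 5) (nat_lit 22) (nat_lit 4) (nat_lit 420) (nat_lit 289) (nat_lit 191)) (XT.lf (nat_lit 0) (nat_lit 24321691402) (nat_lit 76) (nat_lit 748686782) (nat_lit 152) (nat_lit 16613133376) (nat_lit 20) (nat_lit 5) (nat_lit 21) (nat_lit 5) (nat_lit 22) (nat_lit 4) (nat_lit 421) (nat_lit 289) (nat_lit 190)))) (XT.nd (nat_lit 156) (nat_lit 76) (nat_lit 0) (XT.nd (nat_lit 78) (nat_lit 76) (nat_lit 0) (XT.lf (nat_lit 0) (nat_lit 31727639086) (nat_lit 152) (nat_lit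 5116106588) (nat_lit 0) (nat_lit 5887830999) (nat_lit 20) (nat_lit 5) (nat_lit 22) (nat_lit 4) (nat_lit 20) (nat_lit 4) (nat_lit 422) (nat_lit 289) (nat_lit 189)) (XT.lf (nat_lit 0) (nat_lit 7602412613) (nat_lit 76) (nat_lit 31043969306) (nat_lit 76) (nat_lit 5162850995) (nat_lit 19) (nat_lit 4) (nat_lit 20) (nat_lit 5) (nat_lit 20) (nat_lit 4) (nat_lit 423) (nat_lit 289) (nat_lit 188))) (XT.nd (nat_lit 78) (nat_lit 0) (nat_lit 0) (XT.lf (nat_lit 0) (nat_lit 870282602) (nat_lit 152) (nat_lit 24154551641) (nat_lit 76) (nat_lit 19893136395) (nat_lit 18) (nat_lit 5) (nat_lit 20) (nat_lit 5) (nat_lit 19) (nat_lit 4) (nat_lit 424) (nat_lit 289) (nat_lit 187)) (XT.lf (nat_lit 0) (nat_lit 6962481327) (nat_lit 152) (nat_lit 11826327078) (nat_lit 76) (nat_lit 27270175307) (nat_lit 18) (nat_lit 5) (nat_lit 20) (nat_lit 5) (nat_lit 19) (nat_lit 4) (nat_lit 425) (nat_lit 289) (nat_lit 186)))))) (XT.nd (nat_lit 468)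 (nat_lit 152) (nat_lit 0) (XT.nd (nat_lit 234) (nat_lit 76) (nat_lit 0) (XT.nd (nat_lit 78) (nat_lit 0) (nat_lit 0) (XT.lf (nat_lit 0) (nat_lit 854937002) (nat_lit 76) (nat_lit 12373095452) (nat_lit 152) (nat_lit 34006478994) (nat_lit 17) (nat_lit 5) (nat_lit 18) (nat_lit 5) (nat_lit 19) (nat_lit 4) (nat_lit 426) (nat_lit 289) (nat_lit 185)) (XT.nd (nat_lit 78) (nat_lit 0) (nat_lit 0) (XT.lf (nat_lit 0) (nat_lit 14125905331) (nat_lit 76) (nat_lit 5657630535) (nat_lit 152) (nat_lit 28658711385) (nat_lit 17) (nat_lit 5) (nat_lit 18) (nat_lit 5) (nat_lit 19) (nat_lit 4) (nat_lit 427) (nat_lit 289) (nat_lit 184)) (XT.lf (nat_lit 0) (nat_lit 26530733685) (nat_lit 152) (nat_lit 21935876346) (nat_lit 0) (nat_lit 1219755975) (nat_lit 17) (nat_lit 5) (nat_lit 19) (nat_lit 4) (nat_lit 17) (nat_lit 4) (nat_lit 428) (nat_lit 289) (nat_lit 183)))) (XT.nd (nat_lit 78) (nat_lit 76) (nat_lit 0) (XT.lf (nat_lit 0) (nat_lit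 33519785092) (nat_lit 152) (nat_lit 9271623416) (nat_lit 0) (nat_lit 8175218390) (nat_lit 17) (nat_lit 5) (nat_lit 19) (nat_lit 4) (nat_lit 17) (nat_lit 4) (nat_lit 429) (nat_lit 289) (nat_lit 182)) (XT.nd (nat_lit 78) (nat_lit 0) (nat_lit 0) (XT.lf (nat_lit 0) (nat_lit 3816337824) (nat_lit 76) (nat_lit 36922759571) (nat_lit 76) (nat_lit 11545582196) (nat_lit 16) (nat_lit 4) (nat_lit 17) (nat_lit 5) (nat_lit 17) (nat_lit 4) (nat_lit 430) (nat_lit 289) (nat_lit 181)) (XT.lf (nat_lit 0) (nat_lit 17456608198) (nat_lit 76) (nat_lit 30796087154) (nat_lit 76) (nat_lit 5387248932) (nat_lit 16) (nat_lit 4) (nat_lit 17) (nat_lit 5) (nat_lit 17) (nat_lit 4) (nat_lit 431) (nat_lit 289) (nat_lit 180))))) (XT.nd (nat_lit 234) (nat_lit 0) (nat_lit 0) (XT.nd (nat_lit 78) (nat_lit 76) (nat_lit 0) (XT.lf (nat_lit 0) (nat_lit 921572732) (nat_lit 152) (nat_lit 23568784260) (nat_lit 76) (nat_lit 30545704092) (nat_lit 15) (nat_lit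 5) (nat_lit 17) (nat_lit 5) (nat_lit 16) (nat_lit 4) (nat_lit 432) (nat_lit 289) (nat_lit 179)) (XT.nd (nat_lit 78) (nat_lit 76) (nat_lit 0) (XT.lf (nat_lit 0) (nat_lit 7296225507) (nat_lit 152) (nat_lit 10658082513) (nat_lit 76) (nat_lit 38518609322) (nat_lit 15) (nat_lit 5) (nat_lit 17) (nat_lit 5) (nat_lit 16) (nat_lit 4) (nat_lit 433) (nat_lit 289) (nat_lit 178)) (XT.lf (nat_lit 0) (nat_lit 2663816538) (nat_lit 76) (nat_lit 11209193802) (nat_lit 152) (nat_lit 44079543600) (nat_lit 14) (nat_lit 5) (nat_lit 15) (nat_lit 5) (nat_lit 16) (nat_lit 4) (nat_lit 434) (nat_lit 289) (nat_lit 177)))) (XT.nd (nat_lit 156) (nat_lit 0) (nat_lit 0) (XT.nd (nat_lit 78) (nat_lit 0) (nat_lit 0) (XT.lf (nat_lit 0) (nat_lit 16576023934) (nat_lit 76) (nat_lit 4164147809) (nat_lit 152) (nat_lit 38733617088) (nat_lit 14) (nat_lit 5) (nat_lit 15) (nat_lit 5) (nat_lit 16) (nat_lit 4) (nat_lit 435) (nat_lit 289) (nat_lit 176))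 (XT.lf (nat_lit 0) (nat_lit 27828819836) (nat_lit 152) (nat_lit 30192107442) (nat_lit 0) (nat_lit 3019270681) (nat_lit 14) (nat_lit 5) (nat_lit 16) (nat_lit 4) (nat_lit 14) (nat_lit 4) (nat_lit 436) (nat_lit 289) (nat_lit 175))) (XT.nd (nat_lit 78) (nat_lit 0) (nat_lit 0) (XT.lf (nat_lit 0) (nat_lit 35157518940) (nat_lit 152) (nat_lit 17173033361) (nat_lit 0) (nat_lit 10322226619) (nat_lit 14) (nat_lit 5) (nat_lit 16) (nat_lit 4) (nat_lit 14) (nat_lit 4) (nat_lit 437) (nat_lit 289) (nat_lit 174)) (XT.lf (nat_lit 0) (nat_lit 42692644437) (nat_lit 152) (nat_lit 3789138430) (nat_lit 0) (nat_lit 17832358750) (nat_lit 14) (nat_lit 5) (nat_lit 16) (nat_lit 4) (nat_lit 14) (nat_lit 4) (nat_lit 438) (nat_lit 289) (nat_lit 173))))))) (XT.nd (nat_lit 37908) (nat_lit 0) (nat_lit 11932) (XT.nd (nat_lit 468) (nat_lit 0) (nat_lit 0) (XT.nd (nat_lit 234) (nat_lit 152) (nat_lit 0) (XT.nd (nat_lit 78) (nat_lit 0) (nat_lit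 0) (XT.lf (nat_lit 0) (nat_lit 10169719882) (nat_lit 76) (nat_lit 40368818102) (nat_lit 76) (nat_lit 15484267013) (nat_lit 13) (nat_lit 4) (nat_lit 14) (nat_lit 5) (nat_lit 14) (nat_lit 4) (nat_lit 439) (nat_lit 289) (nat_lit 172)) (XT.nd (nat_lit 78) (nat_lit 0) (nat_lit 0) (XT.lf (nat_lit 0) (nat_lit 24600261347) (nat_lit 76) (nat_lit 34044908508) (nat_lit 76) (nat_lit 9136798775) (nat_lit 13) (nat_lit 4) (nat_lit 14) (nat_lit 5) (nat_lit 14) (nat_lit 4) (nat_lit 440) (nat_lit 289) (nat_lit 171)) (XT.lf (nat_lit 0) (nat_lit 39439683890) (nat_lit 76) (nat_lit 27542791205) (nat_lit 76) (nat_lit 2611809003) (nat_lit 13) (nat_lit 4) (nat_lit 14) (nat_lit 5) (nat_lit 14) (nat_lit 4) (nat_lit 441) (nat_lit 289) (nat_lit 170)))) (XT.nd (nat_lit 78) (nat_lit 76) (nat_lit 0) (XT.lf (nat_lit 0) (nat_lit 4016468158) (nat_lit 152) (nat_lit 16799758122) (nat_lit 76) (nat_lit 50643927387) (nat_lit 12) (nat_lit 5) (nat_lit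 14) (nat_lit 5) (nat_lit 13) (nat_lit 4) (nat_lit 442) (nat_lit 289) (nat_lit 169)) (XT.nd (nat_lit 78) (nat_lit 76) (nat_lit 0) (XT.lf (nat_lit 0) (nat_lit 10779174324) (nat_lit 152) (nat_lit 3093024101) (nat_lit 76) (nat_lit 59509383911) (nat_lit 12) (nat_lit 5) (nat_lit 14) (nat_lit 5) (nat_lit 13) (nat_lit 4) (nat_lit 443) (nat_lit 289) (nat_lit 168)) (XT.lf (nat_lit 0) (nat_lit 11221659922) (nat_lit 76) (nat_lit 6619393994) (nat_lit 152) (nat_lit 57516712213) (nat_lit 11) (nat_lit 5) (nat_lit 12) (nat_lit 5) (nat_lit 13) (nat_lit 4) (nat_lit 444) (nat_lit 289) (nat_lit 167))))) (XT.nd (nat_lit 37128) (nat_lit 0) (nat_lit 19532) (XT.nd (nat_lit 78) (nat_lit 0) (nat_lit 0) (XT.lf (nat_lit 0) (nat_lit 25142959831) (nat_lit 152) (nat_lit 51393851700) (nat_lit 0) (nat_lit 855579809) (nat_lit 11) (nat_lit 5) (nat_lit 13) (nat_lit 4) (nat_lit 11) (nat_lit 4) (nat_lit 445) (nat_lit 289) (nat_lit 166)) (XT.nd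 (nat_lit 78) (nat_lit 0) (nat_lit 0) (XT.lf (nat_lit 0) (nat_lit 32718244906) (nat_lit 152) (nat_lit 38356472163) (nat_lit 0) (nat_lit 8411709551) (nat_lit 11) (nat_lit 5) (nat_lit 13) (nat_lit 4) (nat_lit 11) (nat_lit 4) (nat_lit 446) (nat_lit 289) (nat_lit 165)) (XT.lf (nat_lit 0) (nat_lit 40509898658) (nat_lit 152) (nat_lit 24948946047) (nat_lit 0) (nat_lit 16184765893) (nat_lit 11) (nat_lit 5) (nat_lit 13) (nat_lit 4) (nat_lit 11) (nat_lit 4) (nat_lit 447) (nat_lit 289) (nat_lit 164)))) (XT.nd (nat_lit 156) (nat_lit 1064) (nat_lit 0) (XT.nd (nat_lit 78) (nat_lit 988) (nat_lit 0) (XT.lf (nat_lit 0) (nat_lit 2057379978) (nat_lit 836) (nat_lit 691772707) (nat_lit 836) (nat_lit 691772707) (nat_lit 295) (nat_lit 4) (nat_lit 306) (nat_lit 5) (nat_lit 306) (nat_lit 4) (nat_lit 320) (nat_lit 290) (nat_lit 290)) (XT.lf (nat_lit 0) (nat_lit 1874392433) (nat_lit 988) (nat_lit 5050139024) (nat_lit 0) (nat_lit 3453822)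 (nat_lit 282) (nat_lit 5) (nat_lit 295) (nat_lit 4) (nat_lit 282) (nat_lit 4) (nat_lit 321) (nat_lit 290) (nat_lit 289))) (XT.nd (nat_lit 78) (nat_lit 1064) (nat_lit 0) (XT.lf (nat_lit 0) (nat_lit 5142917044) (nat_lit 988) (nat_lit 378515117) (nat_lit 0) (nat_lit 1455533180) (nat_lit 282) (nat_lit 5) (nat_lit 295) (nat_lit 4) (nat_lit 282) (nat_lit 4) (nat_lit 322) (nat_lit 290) (nat_lit 288)) (XT.lf (nat_lit 0) (nat_lit 1396769381) (nat_lit 1064) (nat_lit 2615481100) (nat_lit 76) (nat_lit 3016515589) (nat_lit 268) (nat_lit 5) (nat_lit 282) (nat_lit 5) (nat_lit 269) (nat_lit 4) (nat_lit 323) (nat_lit 290) (nat_lit 287)))))) (XT.nd (nat_lit 546) (nat_lit 2812) (nat_lit 0) (XT.nd (nat_lit 234) (nat_lit 2508) (nat_lit 0) (XT.nd (nat_lit 78) (nat_lit 1216) (nat_lit 0) (XT.lf (nat_lit 0) (nat_lit 2206063801) (nat_lit 1064) (nat_lit 2409286253) (nat_lit 1140) (nat_lit 2468479331) (nat_lit 254) (nat_lit 5) (nat_lit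 268) (nat_lit 5) (nat_lit 269) (nat_lit 4) (nat_lit 324) (nat_lit 290) (nat_lit 286)) (XT.nd (nat_lit 78) (nat_lit 1140) (nat_lit 0) (XT.lf (nat_lit 0) (nat_lit 704758522) (nat_lit 1140) (nat_lit 16200581) (nat_lit 76) (nat_lit 6421530324) (nat_lit 253) (nat_lit 5) (nat_lit 268) (nat_lit 5) (nat_lit 254) (nat_lit 5) (nat_lit 325) (nat_lit 290) (nat_lit 285)) (XT.lf (nat_lit 0) (nat_lit 3888259621) (nat_lit 1216) (nat_lit 2242065603) (nat_lit 76) (nat_lit 1072987636) (nat_lit 238) (nat_lit 5) (nat_lit 254) (nat_lit 5) (nat_lit 239) (nat_lit 4) (nat_lit 326) (nat_lit 290) (nat_lit 284)))) (XT.nd (nat_lit 156) (nat_lit 608) (nat_lit 0) (XT.nd (nat_lit 78) (nat_lit 684) (nat_lit 0) (XT.lf (nat_lit 0) (nat_lit 2775769572) (nat_lit 1216) (nat_lit 4333711466) (nat_lit 1292) (nat_lit 158288453) (nat_lit 222) (nat_lit 5) (nat_lit 238) (nat_lit 5) (nat_lit 239) (nat_lit 4) (nat_lit 327) (nat_lit 290) (nat_lit 283))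 (XT.lf (nat_lit 0) (nat_lit 542637439) (nat_lit 608) (nat_lit 2427312228) (nat_lit 684) (nat_lit 4365274916) (nat_lit 213) (nat_lit 5) (nat_lit 221) (nat_lit 5) (nat_lit 222) (nat_lit 5) (nat_lit 328) (nat_lit 290) (nat_lit 282))) (XT.nd (nat_lit 78) (nat_lit 608) (nat_lit 0) (XT.lf (nat_lit 0) (nat_lit 5725111669) (nat_lit 608) (nat_lit 419884021) (nat_lit 684) (nat_lit 1261044950) (nat_lit 213) (nat_lit 5) (nat_lit 221) (nat_lit 5) (nat_lit 222) (nat_lit 5) (nat_lit 329) (nat_lit 290) (nat_lit 281)) (XT.lf (nat_lit 0) (nat_lit 1861356534) (nat_lit 608) (nat_lit 3954586118) (nat_lit 76) (nat_lit 1663659921) (nat_lit 205) (nat_lit 5) (nat_lit 213) (nat_lit 5) (nat_lit 206) (nat_lit 5) (nat_lit 330) (nat_lit 290) (nat_lit 280))))) (XT.nd (nat_lit 234) (nat_lit 1596) (nat_lit 0) (XT.nd (nat_lit 78) (nat_lit 608) (nat_lit 0) (XT.lf (nat_lit 0) (nat_lit 1280476366) (nat_lit 608) (nat_lit 3719297403) (nat_lit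 684) (nat_lit 2556855116) (nat_lit 197) (nat_lit 5) (nat_lit 205) (nat_lit 5) (nat_lit 206) (nat_lit 5) (nat_lit 331) (nat_lit 290) (nat_lit 279)) (XT.nd (nat_lit 78) (nat_lit 532) (nat_lit 0) (XT.lf (nat_lit 0) (nat_lit 539859394) (nat_lit 684) (nat_lit 982504336) (nat_lit 76) (nat_lit 6114835865) (nat_lit 196) (nat_lit 5) (nat_lit 205) (nat_lit 5) (nat_lit 197) (nat_lit 5) (nat_lit 332) (nat_lit 290) (nat_lit 278)) (XT.lf (nat_lit 0) (nat_lit 3645722623) (nat_lit 608) (nat_lit 3289619625) (nat_lit 76) (nat_lit 785114037) (nat_lit 189) (nat_lit 5) (nat_lit 197) (nat_lit 5) (nat_lit 190) (nat_lit 5) (nat_lit 333) (nat_lit 290) (nat_lit 277)))) (XT.nd (nat_lit 156) (nat_lit 988) (nat_lit 0) (XT.nd (nat_lit 78) (nat_lit 76) (nat_lit 0) (XT.lf (nat_lit 0) (nat_lit 2153685690) (nat_lit 532) (nat_lit 4655572709) (nat_lit 608) (nat_lit 998073149) (nat_lit 182) (nat_lit 5) (nat_lit 189) (nat_lit 5) (nat_lit 190)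 (nat_lit 5) (nat_lit 334) (nat_lit 290) (nat_lit 276)) (XT.lf (nat_lit 0) (nat_lit 2081404548) (nat_lit 608) (nat_lit 184000436) (nat_lit 76) (nat_lit 5632248244) (nat_lit 181) (nat_lit 5) (nat_lit 189) (nat_lit 5) (nat_lit 182) (nat_lit 5) (nat_lit 335) (nat_lit 290) (nat_lit 275))) (XT.nd (nat_lit 78) (nat_lit 532) (nat_lit 0) (XT.lf (nat_lit 0) (nat_lit 5209692306) (nat_lit 532) (nat_lit 2539256828) (nat_lit 76) (nat_lit 242195427) (nat_lit 175) (nat_lit 5) (nat_lit 182) (nat_lit 5) (nat_lit 176) (nat_lit 5) (nat_lit 336) (nat_lit 290) (nat_lit 274)) (XT.lf (nat_lit 0) (nat_lit 314626820) (nat_lit 532) (nat_lit 4972888051) (nat_lit 76) (nat_lit 2800565790) (nat_lit 168) (nat_lit 5) (nat_lit 175) (nat_lit 5) (nat_lit 169) (nat_lit 5) (nat_lit 337) (nat_lit 290) (nat_lit 273))))))))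
noncomputable def xc79 : XT := (XT.nd (nat_lit 2106) (nat_lit 3040) (nat_lit 0) (XT.nd (nat_lit 1014) (nat_lit 2812) (nat_lit 0) (XT.nd (nat_lit 468) (nat_lit 1900) (nat_lit 0) (XT.nd (nat_lit 234) (nat_lit 912) (nat_lit 0) (XT.nd (nat_lit 78) (nat_lit 532) (nat_lit 0) (XT.lf (nat_lit 0) (nat_lit 696034549) (nat_lit 456) (nat_lit 2707746266) (nat_lit 532) (nat_lit 4784681653) (nat_lit 162) (nat_lit 5) (nat_lit 168) (nat_lit 5) (nat_lit 169) (nat_lit 5) (nat_lit 338) (nat_lit 290) (nat_lit 272)) (XT.nd (nat_lit 78) (nat_lit 532) (nat_lit 0) (XT.lf (nat_lit 0) (nat_lit 6543958215) (nat_lit 456) (nat_lit 16712325) (nat_lit 532) (nat_lit 1731978706) (nat_lit 162) (nat_lit 5) (nat_lit 168) (nat_lit 5) (nat_lit 169) (nat_lit 5) (nat_lit 339) (nat_lit 290) (nat_lit 271)) (XT.lf (nat_lit 0) (nat_lit 1377675726) (nat_lit 532) (nat_lit 4284636465) (nat_lit 76) (nat_lit 2737497017) (nat_lit 155) (nat_lit 5) (nat_lit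 162) (nat_lit 5) (nat_lit 156) (nat_lit 5) (nat_lit 340) (nat_lit 290) (nat_lit 270)))) (XT.nd (nat_lit 78) (nat_lit 532) (nat_lit 0) (XT.lf (nat_lit 0) (nat_lit 1601971264) (nat_lit 380) (nat_lit 2904599659) (nat_lit 456) (nat_lit 4004317230) (nat_lit 150) (nat_lit 5) (nat_lit 155) (nat_lit 5) (nat_lit 156) (nat_lit 5) (nat_lit 341) (nat_lit 290) (nat_lit 269)) (XT.nd (nat_lit 78) (nat_lit 532) (nat_lit 0) (XT.lf (nat_lit 0) (nat_lit 7660974276) (nat_lit 380) (nat_lit 40220452) (nat_lit 456) (nat_lit 924989179) (nat_lit 150) (nat_lit 5) (nat_lit 155) (nat_lit 5) (nat_lit 156) (nat_lit 5) (nat_lit 342) (nat_lit 290) (nat_lit 268)) (XT.lf (nat_lit 0) (nat_lit 2210760359) (nat_lit 532) (nat_lit 3628603486) (nat_lit 76) (nat_lit 2904728265) (nat_lit 143) (nat_lit 5) (nat_lit 150) (nat_lit 5) (nat_lit 144) (nat_lit 5) (nat_lit 343) (nat_lit 290) (nat_lit 267))))) (XT.nd (nat_lit 234) (nat_lit 1064) (nat_lit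 0) (XT.nd (nat_lit 78) (nat_lit 456) (nat_lit 0) (XT.lf (nat_lit 0) (nat_lit 2480094813) (nat_lit 380) (nat_lit 2906902252) (nat_lit 456) (nat_lit 3479352436) (nat_lit 138) (nat_lit 5) (nat_lit 143) (nat_lit 5) (nat_lit 144) (nat_lit 5) (nat_lit 344) (nat_lit 290) (nat_lit 266)) (XT.nd (nat_lit 78) (nat_lit 456) (nat_lit 0) (XT.lf (nat_lit 0) (nat_lit 8628458669) (nat_lit 456) (nat_lit 238942148) (nat_lit 76) (nat_lit 125811463) (nat_lit 138) (nat_lit 5) (nat_lit 144) (nat_lit 5) (nat_lit 139) (nat_lit 5) (nat_lit 345) (nat_lit 290) (nat_lit 265)) (XT.lf (nat_lit 0) (nat_lit 2809152585) (nat_lit 456) (nat_lit 3057967108) (nat_lit 76) (nat_lit 3255334487) (nat_lit 132) (nat_lit 5) (nat_lit 138) (nat_lit 5) (nat_lit 133) (nat_lit 5) (nat_lit 346) (nat_lit 290) (nat_lit 264)))) (XT.nd (nat_lit 156) (nat_lit 380) (nat_lit 0) (XT.nd (nat_lit 78) (nat_lit 380) (nat_lit 0) (XT.lf (nat_lit 0) (nat_lit 3276204359)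 (nat_lit 304) (nat_lit 2762889693) (nat_lit 380) (nat_lit 3217359226) (nat_lit 128) (nat_lit 5) (nat_lit 132) (nat_lit 5) (nat_lit 133) (nat_lit 5) (nat_lit 347) (nat_lit 290) (nat_lit 263)) (XT.lf (nat_lit 0) (nat_lit 381141538) (nat_lit 380) (nat_lit 8958852373) (nat_lit 456) (nat_lit 55288440) (nat_lit 123) (nat_lit 5) (nat_lit 128) (nat_lit 5) (nat_lit 129) (nat_lit 5) (nat_lit 348) (nat_lit 290) (nat_lit 262))) (XT.nd (nat_lit 78) (nat_lit 304) (nat_lit 0) (XT.lf (nat_lit 0) (nat_lit 3162904978) (nat_lit 456) (nat_lit 2631005372) (nat_lit 76) (nat_lit 3742760558) (nat_lit 122) (nat_lit 5) (nat_lit 128) (nat_lit 5) (nat_lit 123) (nat_lit 5) (nat_lit 349) (nat_lit 290) (nat_lit 261)) (XT.lf (nat_lit 0) (nat_lit 3930677154) (nat_lit 304) (nat_lit 2520915684) (nat_lit 380) (nat_lit 3231469173) (nat_lit 118) (nat_lit 5) (nat_lit 122) (nat_lit 5) (nat_lit 123) (nat_lit 5) (nat_lit 350) (nat_lit 290) (nat_lit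 260)))))) (XT.nd (nat_lit 546) (nat_lit 1216) (nat_lit 0) (XT.nd (nat_lit 234) (nat_lit 912) (nat_lit 0) (XT.nd (nat_lit 78) (nat_lit 380) (nat_lit 0) (XT.lf (nat_lit 0) (nat_lit 827961791) (nat_lit 304) (nat_lit 8991942832) (nat_lit 380) (nat_lit 14539584) (nat_lit 114) (nat_lit 5) (nat_lit 118) (nat_lit 5) (nat_lit 119) (nat_lit 5) (nat_lit 351) (nat_lit 290) (nat_lit 259)) (XT.nd (nat_lit 78) (nat_lit 304) (nat_lit 0) (XT.lf (nat_lit 0) (nat_lit 3256466283) (nat_lit 380) (nat_lit 2412460896) (nat_lit 76) (nat_lit 4319857745) (nat_lit 113) (nat_lit 5) (nat_lit 118) (nat_lit 5) (nat_lit 114) (nat_lit 5) (nat_lit 352) (nat_lit 290) (nat_lit 258)) (XT.lf (nat_lit 0) (nat_lit 4377050265) (nat_lit 304) (nat_lit 2230450518) (nat_lit 380) (nat_lit 3540810902) (nat_lit 109) (nat_lit 5) (nat_lit 113) (nat_lit 5) (nat_lit 114) (nat_lit 5) (nat_lit 353) (nat_lit 290) (nat_lit 257)))) (XT.nd (nat_lit 156) (nat_lit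 532) (nat_lit 0) (XT.nd (nat_lit 78) (nat_lit 76) (nat_lit 0) (XT.lf (nat_lit 0) (nat_lit 1026728875) (nat_lit 304) (nat_lit 9020172475) (nat_lit 380) (nat_lit 266112955) (nat_lit 105) (nat_lit 5) (nat_lit 109) (nat_lit 5) (nat_lit 110) (nat_lit 5) (nat_lit 354) (nat_lit 290) (nat_lit 256)) (XT.lf (nat_lit 0) (nat_lit 3068182580) (nat_lit 380) (nat_lit 2475070290) (nat_lit 76) (nat_lit 4937873400) (nat_lit 104) (nat_lit 5) (nat_lit 109) (nat_lit 5) (nat_lit 105) (nat_lit 5) (nat_lit 355) (nat_lit 290) (nat_lit 255))) (XT.nd (nat_lit 78) (nat_lit 304) (nat_lit 0) (XT.lf (nat_lit 0) (nat_lit 4540427863) (nat_lit 228) (nat_lit 1943135989) (nat_lit 304) (nat_lit 4171069512) (nat_lit 101) (nat_lit 5) (nat_lit 104) (nat_lit 5) (nat_lit 105) (nat_lit 5) (nat_lit 356) (nat_lit 290) (nat_lit 254)) (XT.lf (nat_lit 0) (nat_lit 898232992) (nat_lit 304) (nat_lit 9097346699) (nat_lit 380) (nat_lit 837963094) (nat_lit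 97) (nat_lit 5) (nat_lit 101) (nat_lit 5) (nat_lit 102) (nat_lit 5) (nat_lit 357) (nat_lit 290) (nat_lit 253))))) (XT.nd (nat_lit 234) (nat_lit 608) (nat_lit 0) (XT.nd (nat_lit 78) (nat_lit 532) (nat_lit 0) (XT.lf (nat_lit 0) (nat_lit 2569671643) (nat_lit 380) (nat_lit 2901291175) (nat_lit 76) (nat_lit 5545374050) (nat_lit 96) (nat_lit 5) (nat_lit 101) (nat_lit 5) (nat_lit 97) (nat_lit 5) (nat_lit 358) (nat_lit 290) (nat_lit 252)) (XT.nd (nat_lit 78) (nat_lit 304) (nat_lit 0) (XT.lf (nat_lit 0) (nat_lit 4335679873) (nat_lit 228) (nat_lit 1713917545) (nat_lit 304) (nat_lit 5155181744) (nat_lit 93) (nat_lit 5) (nat_lit 96) (nat_lit 5) (nat_lit 97) (nat_lit 5) (nat_lit 359) (nat_lit 290) (nat_lit 251)) (XT.lf (nat_lit 0) (nat_lit 352193119) (nat_lit 304) (nat_lit 9281159009) (nat_lit 380) (nat_lit 1765559484) (nat_lit 89) (nat_lit 5) (nat_lit 93) (nat_lit 5) (nat_lit 94) (nat_lit 5) (nat_lit 360) (nat_lit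 290) (nat_lit 250)))) (XT.nd (nat_lit 156) (nat_lit 304) (nat_lit 0) (XT.nd (nat_lit 78) (nat_lit 228) (nat_lit 0) (XT.lf (nat_lit 0) (nat_lit 1725055392) (nat_lit 380) (nat_lit 3785264043) (nat_lit 76) (nat_lit 6087080226) (nat_lit 88) (nat_lit 5) (nat_lit 93) (nat_lit 5) (nat_lit 89) (nat_lit 5) (nat_lit 361) (nat_lit 290) (nat_lit 249)) (XT.lf (nat_lit 0) (nat_lit 3665393024) (nat_lit 228) (nat_lit 1602276592) (nat_lit 304) (nat_lit 6534183445) (nat_lit 85) (nat_lit 5) (nat_lit 88) (nat_lit 5) (nat_lit 89) (nat_lit 5) (nat_lit 362) (nat_lit 290) (nat_lit 248))) (XT.nd (nat_lit 78) (nat_lit 304) (nat_lit 0) (XT.lf (nat_lit 0) (nat_lit 8926440123) (nat_lit 304) (nat_lit 700953421) (nat_lit 76) (nat_lit 2384767792) (nat_lit 85) (nat_lit 5) (nat_lit 89) (nat_lit 5) (nat_lit 86) (nat_lit 5) (nat_lit 363) (nat_lit 290) (nat_lit 247)) (XT.lf (nat_lit 0) (nat_lit 490032330) (nat_lit 304) (nat_lit 5235051514)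 (nat_lit 76) (nat_lit 6502589138) (nat_lit 81) (nat_lit 5) (nat_lit 85) (nat_lit 5) (nat_lit 82) (nat_lit 5) (nat_lit 364) (nat_lit 290) (nat_lit 246))))))) (XT.nd (nat_lit 1014) (nat_lit 1292) (nat_lit 0) (XT.nd (nat_lit 468) (nat_lit 836) (nat_lit 0) (XT.nd (nat_lit 234) (nat_lit 456) (nat_lit 0) (XT.nd (nat_lit 78) (nat_lit 228) (nat_lit 0) (XT.lf (nat_lit 0) (nat_lit 2417529697) (nat_lit 228) (nat_lit 1673588332) (nat_lit 304) (nat_lit 8358229128) (nat_lit 78) (nat_lit 5) (nat_lit 81) (nat_lit 5) (nat_lit 82) (nat_lit 5) (nat_lit 365) (nat_lit 290) (nat_lit 245)) (XT.nd (nat_lit 78) (nat_lit 228) (nat_lit 0) (XT.lf (nat_lit 0) (nat_lit 7827743105) (nat_lit 304) (nat_lit 2375008261) (nat_lit 76) (nat_lit 2474110636) (nat_lit 78) (nat_lit 5) (nat_lit 82) (nat_lit 5) (nat_lit 79) (nat_lit 5) (nat_lit 366) (nat_lit 290) (nat_lit 244)) (XT.lf (nat_lit 0) (nat_lit 5523718086) (nat_lit 228) (nat_lit 6173963358)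 (nat_lit 304) (nat_lit 1212899602) (nat_lit 75) (nat_lit 5) (nat_lit 78) (nat_lit 5) (nat_lit 79) (nat_lit 5) (nat_lit 367) (nat_lit 290) (nat_lit 243)))) (XT.nd (nat_lit 78) (nat_lit 228) (nat_lit 0) (XT.lf (nat_lit 0) (nat_lit 462743447) (nat_lit 152) (nat_lit 2000633575) (nat_lit 228) (nat_lit 10687807055) (nat_lit 72) (nat_lit 5) (nat_lit 74) (nat_lit 5) (nat_lit 75) (nat_lit 5) (nat_lit 368) (nat_lit 290) (nat_lit 242)) (XT.nd (nat_lit 78) (nat_lit 228) (nat_lit 0) (XT.lf (nat_lit 0) (nat_lit 6275058874) (nat_lit 228) (nat_lit 4811917579) (nat_lit 76) (nat_lit 2310197529) (nat_lit 72) (nat_lit 5) (nat_lit 75) (nat_lit 5) (nat_lit 73) (nat_lit 5) (nat_lit 369) (nat_lit 290) (nat_lit 241)) (XT.lf (nat_lit 0) (nat_lit 3267597815) (nat_lit 228) (nat_lit 6938182498) (nat_lit 304) (nat_lit 3444636096) (nat_lit 69) (nat_lit 5) (nat_lit 72) (nat_lit 5) (nat_lit 73) (nat_lit 5) (nat_lit 370) (nat_lit 290) (nat_lit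 240))))) (XT.nd (nat_lit 234) (nat_lit 380) (nat_lit 0) (XT.nd (nat_lit 78) (nat_lit 380) (nat_lit 0) (XT.lf (nat_lit 0) (nat_lit 339166074) (nat_lit 304) (nat_lit 2302875929) (nat_lit 76) (nat_lit 11269047008) (nat_lit 68) (nat_lit 5) (nat_lit 72) (nat_lit 5) (nat_lit 69) (nat_lit 5) (nat_lit 371) (nat_lit 290) (nat_lit 239)) (XT.nd (nat_lit 78) (nat_lit 228) (nat_lit 0) (XT.lf (nat_lit 0) (nat_lit 4197926060) (nat_lit 228) (nat_lit 8168140806) (nat_lit 76) (nat_lit 1811583792) (nat_lit 66) (nat_lit 5) (nat_lit 69) (nat_lit 5) (nat_lit 67) (nat_lit 5) (nat_lit 372) (nat_lit 290) (nat_lit 238)) (XT.lf (nat_lit 0) (nat_lit 66368510) (nat_lit 228) (nat_lit 8111643218) (nat_lit 304) (nat_lit 6274042532) (nat_lit 63) (nat_lit 5) (nat_lit 66) (nat_lit 5) (nat_lit 67) (nat_lit 5) (nat_lit 373) (nat_lit 290) (nat_lit 237)))) (XT.nd (nat_lit 156) (nat_lit 152) (nat_lit 0) (XT.nd (nat_lit 78) (nat_lit 228) (nat_lit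 0) (XT.lf (nat_lit 0) (nat_lit 8640592288) (nat_lit 228) (nat_lit 3675255037) (nat_lit 304) (nat_lit 2417703867) (nat_lit 63) (nat_lit 5) (nat_lit 66) (nat_lit 5) (nat_lit 67) (nat_lit 5) (nat_lit 374) (nat_lit 290) (nat_lit 236)) (XT.lf (nat_lit 0) (nat_lit 1512531395) (nat_lit 228) (nat_lit 12625217342) (nat_lit 76) (nat_lit 885650928) (nat_lit 60) (nat_lit 5) (nat_lit 63) (nat_lit 5) (nat_lit 61) (nat_lit 5) (nat_lit 375) (nat_lit 290) (nat_lit 235))) (XT.nd (nat_lit 78) (nat_lit 152) (nat_lit 0) (XT.lf (nat_lit 0) (nat_lit 5567593404) (nat_lit 228) (nat_lit 4185814187) (nat_lit 76) (nat_lit 5566163132) (nat_lit 60) (nat_lit 5) (nat_lit 63) (nat_lit 5) (nat_lit 61) (nat_lit 5) (nat_lit 376) (nat_lit 290) (nat_lit 234)) (XT.lf (nat_lit 0) (nat_lit 4523449195) (nat_lit 152) (nat_lit 5222581367) (nat_lit 228) (nat_lit 5878554996) (nat_lit 58) (nat_lit 5) (nat_lit 60) (nat_lit 5) (nat_lit 61) (nat_lit 5)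 (nat_lit 377) (nat_lit 290) (nat_lit 233)))))) (XT.nd (nat_lit 546) (nat_lit 532) (nat_lit 0) (XT.nd (nat_lit 234) (nat_lit 532) (nat_lit 0) (XT.nd (nat_lit 78) (nat_lit 228) (nat_lit 0) (XT.lf (nat_lit 0) (nat_lit 13508906784) (nat_lit 152) (nat_lit 541958549) (nat_lit 228) (nat_lit 1887864214) (nat_lit 58) (nat_lit 5) (nat_lit 60) (nat_lit 5) (nat_lit 61) (nat_lit 5) (nat_lit 378) (nat_lit 290) (nat_lit 232)) (XT.nd (nat_lit 78) (nat_lit 0) (nat_lit 0) (XT.lf (nat_lit 0) (nat_lit 2243283714) (nat_lit 228) (nat_lit 9764468300) (nat_lit 76) (nat_lit 4251991183) (nat_lit 55) (nat_lit 5) (nat_lit 58) (nat_lit 5) (nat_lit 56) (nat_lit 5) (nat_lit 379) (nat_lit 290) (nat_lit 231)) (XT.lf (nat_lit 0) (nat_lit 6450373583) (nat_lit 228) (nat_lit 945900162) (nat_lit 76) (nat_lit 9193863400) (nat_lit 55) (nat_lit 5) (nat_lit 58) (nat_lit 5) (nat_lit 56) (nat_lit 5) (nat_lit 380) (nat_lit 290) (nat_lit 230)))) (XT.nd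 (nat_lit 156) (nat_lit 228) (nat_lit 0) (XT.nd (nat_lit 78) (nat_lit 152) (nat_lit 0) (XT.lf (nat_lit 0) (nat_lit 8229973993) (nat_lit 152) (nat_lit 2593790782) (nat_lit 228) (nat_lit 6105484401) (nat_lit 53) (nat_lit 5) (nat_lit 55) (nat_lit 5) (nat_lit 56) (nat_lit 5) (nat_lit 381) (nat_lit 290) (nat_lit 229)) (XT.lf (nat_lit 0) (nat_lit 338081248) (nat_lit 152) (nat_lit 14986981313) (nat_lit 228) (nat_lit 1953579524) (nat_lit 51) (nat_lit 5) (nat_lit 53) (nat_lit 5) (nat_lit 54) (nat_lit 4) (nat_lit 382) (nat_lit 290) (nat_lit 228))) (XT.nd (nat_lit 78) (nat_lit 152) (nat_lit 0) (XT.lf (nat_lit 0) (nat_lit 2353238328) (nat_lit 228) (nat_lit 7928059024) (nat_lit 76) (nat_lit 7354287217) (nat_lit 50) (nat_lit 5) (nat_lit 53) (nat_lit 5) (nat_lit 51) (nat_lit 5) (nat_lit 383) (nat_lit 290) (nat_lit 227)) (XT.lf (nat_lit 0) (nat_lit 1294539736) (nat_lit 152) (nat_lit 5430314588) (nat_lit 228) (nat_lit 11278562902)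 (nat_lit 48) (nat_lit 5) (nat_lit 50) (nat_lit 5) (nat_lit 51) (nat_lit 5) (nat_lit 384) (nat_lit 290) (nat_lit 226))))) (XT.nd (nat_lit 234) (nat_lit 304) (nat_lit 0) (XT.nd (nat_lit 78) (nat_lit 228) (nat_lit 0) (XT.lf (nat_lit 0) (nat_lit 10890786018) (nat_lit 152) (nat_lit 379769978) (nat_lit 228) (nat_lit 7110448448) (nat_lit 48) (nat_lit 5) (nat_lit 50) (nat_lit 5) (nat_lit 51) (nat_lit 5) (nat_lit 385) (nat_lit 290) (nat_lit 225)) (XT.nd (nat_lit 78) (nat_lit 76) (nat_lit 0) (XT.lf (nat_lit 0) (nat_lit 1931881490) (nat_lit 152) (nat_lit 14049367694) (nat_lit 228) (nat_lit 2787818953) (nat_lit 46) (nat_lit 5) (nat_lit 48) (nat_lit 5) (nat_lit 49) (nat_lit 4) (nat_lit 386) (nat_lit 290) (nat_lit 224)) (XT.lf (nat_lit 0) (nat_lit 1675931639) (nat_lit 228) (nat_lit 7461385220) (nat_lit 76) (nat_lit 10029666253) (nat_lit 45) (nat_lit 5) (nat_lit 48) (nat_lit 5) (nat_lit 46) (nat_lit 5) (nat_lit 387) (nat_lit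 290) (nat_lit 223)))) (XT.nd (nat_lit 156) (nat_lit 152) (nat_lit 0) (XT.nd (nat_lit 78) (nat_lit 0) (nat_lit 0) (XT.lf (nat_lit 0) (nat_lit 2147312160) (nat_lit 152) (nat_lit 4055723410) (nat_lit 228) (nat_lit 13373414542) (nat_lit 43) (nat_lit 5) (nat_lit 45) (nat_lit 5) (nat_lit 46) (nat_lit 5) (nat_lit 388) (nat_lit 290) (nat_lit 222)) (XT.lf (nat_lit 0) (nat_lit 10918367710) (nat_lit 228) (nat_lit 7873641356) (nat_lit 76) (nat_lit 1204626244) (nat_lit 43) (nat_lit 5) (nat_lit 46) (nat_lit 5) (nat_lit 44) (nat_lit 4) (nat_lit 389) (nat_lit 290) (nat_lit 221))) (XT.nd (nat_lit 78) (nat_lit 76) (nat_lit 0) (XT.lf (nat_lit 0) (nat_lit 1904509432) (nat_lit 76) (nat_lit 13895129895) (nat_lit 152) (nat_lit 4629058797) (nat_lit 42) (nat_lit 5) (nat_lit 43) (nat_lit 5) (nat_lit 44) (nat_lit 4) (nat_lit 390) (nat_lit 290) (nat_lit 220)) (XT.lf (nat_lit 0) (nat_lit 913718) (nat_lit 152) (nat_lit 8795373994) (nat_lit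 76) (nat_lit 12076063084) (nat_lit 41) (nat_lit 5) (nat_lit 43) (nat_lit 5) (nat_lit 42) (nat_lit 5) (nat_lit 391) (nat_lit 290) (nat_lit 219))))))))
noncomputable def xc80 : XT := (XT.nd (nat_lit 2028) (nat_lit 760) (nat_lit 0) (XT.nd (nat_lit 1014) (nat_lit 608) (nat_lit 0) (XT.nd (nat_lit 468) (nat_lit 380) (nat_lit 0) (XT.nd (nat_lit 234) (nat_lit 304) (nat_lit 0) (XT.nd (nat_lit 78) (nat_lit 0) (nat_lit 0) (XT.lf (nat_lit 0) (nat_lit 1142444083) (nat_lit 152) (nat_lit 3512358436) (nat_lit 228) (nat_lit 16673799761) (nat_lit 39) (nat_lit 5) (nat_lit 41) (nat_lit 5) (nat_lit 42) (nat_lit 5) (nat_lit 392) (nat_lit 290) (nat_lit 218)) (XT.nd (nat_lit 78) (nat_lit 0) (nat_lit 0) (XT.lf (nat_lit 0) (nat_lit 9523773712) (nat_lit 228) (nat_lit 10316086263) (nat_lit 76) (nat_lit 1956423090) (nat_lit 39) (nat_lit 5) (nat_lit 42) (nat_lit 5) (nat_lit 40) (nat_lit 4) (nat_lit 393) (nat_lit 290) (nat_lit 217))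 (XT.lf (nat_lit 0) (nat_lit 14541761843) (nat_lit 228) (nat_lit 242425978) (nat_lit 76) (nat_lit 7493723580) (nat_lit 39) (nat_lit 5) (nat_lit 42) (nat_lit 5) (nat_lit 40) (nat_lit 4) (nat_lit 394) (nat_lit 290) (nat_lit 216)))) (XT.nd (nat_lit 78) (nat_lit 228) (nat_lit 0) (XT.lf (nat_lit 0) (nat_lit 10277947600) (nat_lit 76) (nat_lit 9500238943) (nat_lit 152) (nat_lit 2993770534) (nat_lit 38) (nat_lit 5) (nat_lit 39) (nat_lit 5) (nat_lit 40) (nat_lit 4) (nat_lit 395) (nat_lit 290) (nat_lit 215)) (XT.nd (nat_lit 78) (nat_lit 152) (nat_lit 0) (XT.lf (nat_lit 0) (nat_lit 1825612257) (nat_lit 152) (nat_lit 2236174960) (nat_lit 76) (nat_lit 19219347799) (nat_lit 37) (nat_lit 5) (nat_lit 39) (nat_lit 5) (nat_lit 38) (nat_lit 5) (nat_lit 396) (nat_lit 290) (nat_lit 214)) (XT.lf (nat_lit 0) (nat_lit 6795956479) (nat_lit 228) (nat_lit 15409477482) (nat_lit 76) (nat_lit 1597273480) (nat_lit 35) (nat_lit 5) (nat_lit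 38) (nat_lit 5) (nat_lit 36) (nat_lit 4) (nat_lit 397) (nat_lit 290) (nat_lit 213))))) (XT.nd (nat_lit 234) (nat_lit 304) (nat_lit 0) (XT.nd (nat_lit 78) (nat_lit 76) (nat_lit 0) (XT.lf (nat_lit 0) (nat_lit 11948606874) (nat_lit 228) (nat_lit 5046947428) (nat_lit 76) (nat_lit 7343381658) (nat_lit 35) (nat_lit 5) (nat_lit 38) (nat_lit 5) (nat_lit 36) (nat_lit 4) (nat_lit 398) (nat_lit 290) (nat_lit 212)) (XT.nd (nat_lit 78) (nat_lit 0) (nat_lit 0) (XT.lf (nat_lit 0) (nat_lit 5684356573) (nat_lit 76) (nat_lit 11597165969) (nat_lit 152) (nat_lit 7608962877) (nat_lit 34) (nat_lit 5) (nat_lit 35) (nat_lit 5) (nat_lit 36) (nat_lit 4) (nat_lit 399) (nat_lit 290) (nat_lit 211)) (XT.lf (nat_lit 0) (nat_lit 16788552789) (nat_lit 76) (nat_lit 6008220079) (nat_lit 152) (nat_lit 2661142598) (nat_lit 34) (nat_lit 5) (nat_lit 35) (nat_lit 5) (nat_lit 36) (nat_lit 4) (nat_lit 400) (nat_lit 290) (nat_lit 210)))) (XT.nd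 (nat_lit 156) (nat_lit 76) (nat_lit 0) (XT.nd (nat_lit 78) (nat_lit 0) (nat_lit 0) (XT.lf (nat_lit 0) (nat_lit 2150525284) (nat_lit 152) (nat_lit 229678390) (nat_lit 228) (nat_lit 23661688494) (nat_lit 31) (nat_lit 5) (nat_lit 33) (nat_lit 5) (nat_lit 34) (nat_lit 5) (nat_lit 401) (nat_lit 290) (nat_lit 209)) (XT.lf (nat_lit 0) (nat_lit 7634759717) (nat_lit 228) (nat_lit 13301903636) (nat_lit 76) (nat_lit 5702474846) (nat_lit 31) (nat_lit 5) (nat_lit 34) (nat_lit 5) (nat_lit 32) (nat_lit 4) (nat_lit 402) (nat_lit 290) (nat_lit 208))) (XT.nd (nat_lit 78) (nat_lit 76) (nat_lit 0) (XT.lf (nat_lit 0) (nat_lit 13022080761) (nat_lit 228) (nat_lit 2447171217) (nat_lit 76) (nat_lit 11785799799) (nat_lit 31) (nat_lit 5) (nat_lit 34) (nat_lit 5) (nat_lit 32) (nat_lit 4) (nat_lit 403) (nat_lit 290) (nat_lit 207)) (XT.lf (nat_lit 0) (nat_lit 8857361931) (nat_lit 76) (nat_lit 9772446815) (nat_lit 152) (nat_lit 9257874298)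 (nat_lit 30) (nat_lit 5) (nat_lit 31) (nat_lit 5) (nat_lit 32) (nat_lit 4) (nat_lit 404) (nat_lit 290) (nat_lit 206)))))) (XT.nd (nat_lit 468) (nat_lit 304) (nat_lit 0) (XT.nd (nat_lit 234) (nat_lit 76) (nat_lit 0) (XT.nd (nat_lit 78) (nat_lit 228) (nat_lit 0) (XT.lf (nat_lit 0) (nat_lit 20502992668) (nat_lit 76) (nat_lit 3901436730) (nat_lit 152) (nat_lit 4134907814) (nat_lit 30) (nat_lit 5) (nat_lit 31) (nat_lit 5) (nat_lit 32) (nat_lit 4) (nat_lit 405) (nat_lit 290) (nat_lit 205)) (XT.nd (nat_lit 78) (nat_lit 0) (nat_lit 0) (XT.lf (nat_lit 0) (nat_lit 1146419186) (nat_lit 228) (nat_lit 25937438828) (nat_lit 76) (nat_lit 2125548769) (nat_lit 27) (nat_lit 5) (nat_lit 30) (nat_lit 5) (nat_lit 28) (nat_lit 4) (nat_lit 406) (nat_lit 290) (nat_lit 204)) (XT.lf (nat_lit 0) (nat_lit 6598201420) (nat_lit 228) (nat_lit 14940648785) (nat_lit 76) (nat_lit 8356649823) (nat_lit 27) (nat_lit 5) (nat_lit 30) (nat_lit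 5) (nat_lit 28) (nat_lit 4) (nat_lit 407) (nat_lit 290) (nat_lit 203)))) (XT.nd (nat_lit 78) (nat_lit 76) (nat_lit 0) (XT.lf (nat_lit 0) (nat_lit 12188818761) (nat_lit 228) (nat_lit 3659975089) (nat_lit 76) (nat_lit 14754127135) (nat_lit 27) (nat_lit 5) (nat_lit 30) (nat_lit 5) (nat_lit 28) (nat_lit 4) (nat_lit 408) (nat_lit 290) (nat_lit 202)) (XT.nd (nat_lit 78) (nat_lit 0) (nat_lit 0) (XT.lf (nat_lit 0) (nat_lit 8071952016) (nat_lit 76) (nat_lit 9928796739) (nat_lit 152) (nat_lit 13329211258) (nat_lit 26) (nat_lit 5) (nat_lit 27) (nat_lit 5) (nat_lit 28) (nat_lit 4) (nat_lit 409) (nat_lit 290) (nat_lit 201)) (XT.lf (nat_lit 0) (nat_lit 20186621211) (nat_lit 76) (nat_lit 3813649306) (nat_lit 152) (nat_lit 8078145849) (nat_lit 26) (nat_lit 5) (nat_lit 27) (nat_lit 5) (nat_lit 28) (nat_lit 4) (nat_lit 410) (nat_lit 290) (nat_lit 200))))) (XT.nd (nat_lit 234) (nat_lit 152) (nat_lit 0) (XT.nd (nat_lit 78)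 (nat_lit 152) (nat_lit 0) (XT.lf (nat_lit 0) (nat_lit 30180439649) (nat_lit 152) (nat_lit 251938457) (nat_lit 0) (nat_lit 2416931532) (nat_lit 26) (nat_lit 5) (nat_lit 28) (nat_lit 4) (nat_lit 26) (nat_lit 4) (nat_lit 411) (nat_lit 290) (nat_lit 199)) (XT.nd (nat_lit 78) (nat_lit 0) (nat_lit 0) (XT.lf (nat_lit 0) (nat_lit 2976817661) (nat_lit 152) (nat_lit 21779466767) (nat_lit 76) (nat_lit 8882287851) (nat_lit 24) (nat_lit 5) (nat_lit 26) (nat_lit 5) (nat_lit 25) (nat_lit 4) (nat_lit 412) (nat_lit 290) (nat_lit 198)) (XT.lf (nat_lit 0) (nat_lit 8718286467) (nat_lit 152) (nat_lit 10181468100) (nat_lit 76) (nat_lit 15551566749) (nat_lit 24) (nat_lit 5) (nat_lit 26) (nat_lit 5) (nat_lit 25) (nat_lit 4) (nat_lit 413) (nat_lit 290) (nat_lit 197)))) (XT.nd (nat_lit 156) (nat_lit 76) (nat_lit 0) (XT.nd (nat_lit 78) (nat_lit 0) (nat_lit 0) (XT.lf (nat_lit 0) (nat_lit 1757773670) (nat_lit 76) (nat_lit 12869261200)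 (nat_lit 152) (nat_lit 20661569625) (nat_lit 23) (nat_lit 5) (nat_lit 24) (nat_lit 5) (nat_lit 25) (nat_lit 4) (nat_lit 414) (nat_lit 290) (nat_lit 196)) (XT.lf (nat_lit 0) (nat_lit 14223307392) (nat_lit 76) (nat_lit 6570936441) (nat_lit 152) (nat_lit 15354329049) (nat_lit 23) (nat_lit 5) (nat_lit 24) (nat_lit 5) (nat_lit 25) (nat_lit 4) (nat_lit 415) (nat_lit 290) (nat_lit 195))) (XT.nd (nat_lit 78) (nat_lit 76) (nat_lit 0) (XT.lf (nat_lit 0) (nat_lit 27023394099) (nat_lit 76) (nat_lit 102089765) (nat_lit 152) (nat_lit 9909488591) (nat_lit 23) (nat_lit 5) (nat_lit 24) (nat_lit 5) (nat_lit 25) (nat_lit 4) (nat_lit 416) (nat_lit 290) (nat_lit 194)) (XT.lf (nat_lit 0) (nat_lit 2200689313) (nat_lit 76) (nat_lit 31509646832) (nat_lit 76) (nat_lit 4235720122) (nat_lit 22) (nat_lit 4) (nat_lit 23) (nat_lit 5) (nat_lit 23) (nat_lit 4) (nat_lit 417) (nat_lit 290) (nat_lit 193))))))) (XT.nd (nat_lit 1014) (nat_lit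 380) (nat_lit 0) (XT.nd (nat_lit 468) (nat_lit 228) (nat_lit 0) (XT.nd (nat_lit 234) (nat_lit 0) (nat_lit 0) (XT.nd (nat_lit 78) (nat_lit 76) (nat_lit 0) (XT.lf (nat_lit 0) (nat_lit 1659468000) (nat_lit 152) (nat_lit 23953096541) (nat_lit 76) (nat_lit 13268968937) (nat_lit 21) (nat_lit 5) (nat_lit 23) (nat_lit 5) (nat_lit 22) (nat_lit 4) (nat_lit 418) (nat_lit 290) (nat_lit 192)) (XT.nd (nat_lit 78) (nat_lit 76) (nat_lit 0) (XT.lf (nat_lit 0) (nat_lit 7626456148) (nat_lit 152) (nat_lit 11886605620) (nat_lit 76) (nat_lit 20331355048) (nat_lit 21) (nat_lit 5) (nat_lit 23) (nat_lit 5) (nat_lit 22) (nat_lit 4) (nat_lit 419) (nat_lit 290) (nat_lit 191)) (XT.lf (nat_lit 0) (nat_lit 515423444) (nat_lit 76) (nat_lit 13242643473) (nat_lit 152) (nat_lit 27078553572) (nat_lit 20) (nat_lit 5) (nat_lit 21) (nat_lit 5) (nat_lit 22) (nat_lit 4) (nat_lit 420) (nat_lit 290) (nat_lit 190)))) (XT.nd (nat_lit 78) (nat_lit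 0) (nat_lit 0) (XT.lf (nat_lit 0) (nat_lit 13497020776) (nat_lit 76) (nat_lit 6677510845) (nat_lit 152) (nat_lit 21681033644) (nat_lit 20) (nat_lit 5) (nat_lit 21) (nat_lit 5) (nat_lit 22) (nat_lit 4) (nat_lit 421) (nat_lit 290) (nat_lit 189)) (XT.nd (nat_lit 78) (nat_lit 0) (nat_lit 0) (XT.lf (nat_lit 0) (nat_lit 26765575583) (nat_lit 152) (nat_lit 16073328838) (nat_lit 0) (nat_lit 66713498) (nat_lit 20) (nat_lit 5) (nat_lit 22) (nat_lit 4) (nat_lit 20) (nat_lit 4) (nat_lit 422) (nat_lit 290) (nat_lit 188)) (XT.lf (nat_lit 0) (nat_lit 33602282622) (nat_lit 152) (nat_lit 3520140092) (nat_lit 0) (nat_lit 6863313523) (nat_lit 20) (nat_lit 5) (nat_lit 22) (nat_lit 4) (nat_lit 20) (nat_lit 4) (nat_lit 423) (nat_lit 290) (nat_lit 187))))) (XT.nd (nat_lit 234) (nat_lit 76) (nat_lit 0) (XT.nd (nat_lit 78) (nat_lit 76) (nat_lit 0) (XT.lf (nat_lit 0) (nat_lit 9562783217) (nat_lit 76) (nat_lit 31155578345) (nat_lit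 76) (nat_lit 4377670398) (nat_lit 19) (nat_lit 4) (nat_lit 20) (nat_lit 5) (nat_lit 20) (nat_lit 4) (nat_lit 424) (nat_lit 290) (nat_lit 186)) (XT.nd (nat_lit 78) (nat_lit 0) (nat_lit 0) (XT.lf (nat_lit 0) (nat_lit 1791266858) (nat_lit 152) (nat_lit 23179440930) (nat_lit 76) (nat_lit 21267861156) (nat_lit 18) (nat_lit 5) (nat_lit 20) (nat_lit 5) (nat_lit 19) (nat_lit 4) (nat_lit 425) (nat_lit 290) (nat_lit 185)) (XT.lf (nat_lit 0) (nat_lit 8040167201) (nat_lit 152) (nat_lit 10530876833) (nat_lit 76) (nat_lit 28843553061) (nat_lit 18) (nat_lit 5) (nat_lit 20) (nat_lit 5) (nat_lit 19) (nat_lit 4) (nat_lit 426) (nat_lit 290) (nat_lit 184)))) (XT.nd (nat_lit 156) (nat_lit 0) (nat_lit 0) (XT.nd (nat_lit 78) (nat_lit 0) (nat_lit 0) (XT.lf (nat_lit 0) (nat_lit 2514646345) (nat_lit 76) (nat_lit 11969440925) (nat_lit 152) (nat_lit 34141593993) (nat_lit 17) (nat_lit 5) (nat_lit 18) (nat_lit 5) (nat_lit 19) (nat_lit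 4) (nat_lit 427) (nat_lit 290) (nat_lit 183)) (XT.lf (nat_lit 0) (nat_lit 16136149709) (nat_lit 76) (nat_lit 5075080431) (nat_lit 152) (nat_lit 28659172366) (nat_lit 17) (nat_lit 5) (nat_lit 18) (nat_lit 5) (nat_lit 19) (nat_lit 4) (nat_lit 428) (nat_lit 290) (nat_lit 182))) (XT.nd (nat_lit 78) (nat_lit 0) (nat_lit 0) (XT.lf (nat_lit 0) (nat_lit 28143567893) (nat_lit 152) (nat_lit 21036333205) (nat_lit 0) (nat_lit 1972464524) (nat_lit 17) (nat_lit 5) (nat_lit 19) (nat_lit 4) (nat_lit 17) (nat_lit 4) (nat_lit 429) (nat_lit 290) (nat_lit 181)) (XT.lf (nat_lit 0) (nat_lit 35318497284) (nat_lit 152) (nat_lit 8037520244) (nat_lit 0) (nat_lit 9115733068) (nat_lit 17) (nat_lit 5) (nat_lit 19) (nat_lit 4) (nat_lit 17) (nat_lit 4) (nat_lit 430) (nat_lit 290) (nat_lit 180)))))) (XT.nd (nat_lit 546) (nat_lit 152) (nat_lit 0) (XT.nd (nat_lit 234) (nat_lit 76) (nat_lit 0) (XT.nd (nat_lit 78) (nat_lit 76) (nat_lit 0)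 (XT.lf (nat_lit 0) (nat_lit 5428253834) (nat_lit 76) (nat_lit 37317428752) (nat_lit 76) (nat_lit 11083925850) (nat_lit 16) (nat_lit 4) (nat_lit 17) (nat_lit 5) (nat_lit 17) (nat_lit 4) (nat_lit 431) (nat_lit 290) (nat_lit 179)) (XT.nd (nat_lit 78) (nat_lit 76) (nat_lit 0) (XT.lf (nat_lit 0) (nat_lit 19434117974) (nat_lit 76) (nat_lit 31027723548) (nat_lit 76) (nat_lit 4764377262) (nat_lit 16) (nat_lit 4) (nat_lit 17) (nat_lit 5) (nat_lit 17) (nat_lit 4) (nat_lit 432) (nat_lit 290) (nat_lit 178)) (XT.lf (nat_lit 0) (nat_lit 1695997516) (nat_lit 152) (nat_lit 22849445488) (nat_lit 76) (nat_lit 32119224128) (nat_lit 15) (nat_lit 5) (nat_lit 17) (nat_lit 5) (nat_lit 16) (nat_lit 4) (nat_lit 433) (nat_lit 290) (nat_lit 177)))) (XT.nd (nat_lit 156) (nat_lit 0) (nat_lit 0) (XT.nd (nat_lit 78) (nat_lit 76) (nat_lit 0) (XT.lf (nat_lit 0) (nat_lit 8240139070) (nat_lit 152) (nat_lit 9592968386) (nat_lit 76) (nat_lit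 40312176255) (nat_lit 15) (nat_lit 5) (nat_lit 17) (nat_lit 5) (nat_lit 16) (nat_lit 4) (nat_lit 434) (nat_lit 290) (nat_lit 176)) (XT.lf (nat_lit 0) (nat_lit 4115010611) (nat_lit 76) (nat_lit 10891281130) (nat_lit 152) (nat_lit 44663257787) (nat_lit 14) (nat_lit 5) (nat_lit 15) (nat_lit 5) (nat_lit 16) (nat_lit 4) (nat_lit 435) (nat_lit 290) (nat_lit 175))) (XT.nd (nat_lit 78) (nat_lit 0) (nat_lit 0) (XT.lf (nat_lit 0) (nat_lit 18404644047) (nat_lit 76) (nat_lit 3653937791) (nat_lit 152) (nat_lit 39178468202) (nat_lit 14) (nat_lit 5) (nat_lit 15) (nat_lit 5) (nat_lit 16) (nat_lit 4) (nat_lit 436) (nat_lit 290) (nat_lit 174)) (XT.lf (nat_lit 0) (nat_lit 29345539036) (nat_lit 152) (nat_lit 29790893432) (nat_lit 0) (nat_lit 3714451414) (nat_lit 14) (nat_lit 5) (nat_lit 16) (nat_lit 4) (nat_lit 14) (nat_lit 4) (nat_lit 437) (nat_lit 290) (nat_lit 173))))) (XT.nd (nat_lit 234) (nat_lit 76) (nat_lit 0) (XT.nd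 (nat_lit 78) (nat_lit 76) (nat_lit 0) (XT.lf (nat_lit 0) (nat_lit 36874239271) (nat_lit 152) (nat_lit 16419314428) (nat_lit 0) (nat_lit 11218886246) (nat_lit 14) (nat_lit 5) (nat_lit 16) (nat_lit 4) (nat_lit 14) (nat_lit 4) (nat_lit 438) (nat_lit 290) (nat_lit 172)) (XT.nd (nat_lit 78) (nat_lit 76) (nat_lit 0) (XT.lf (nat_lit 0) (nat_lit 44616137131) (nat_lit 152) (nat_lit 2670861190) (nat_lit 0) (nat_lit 18937225463) (nat_lit 14) (nat_lit 5) (nat_lit 16) (nat_lit 4) (nat_lit 14) (nat_lit 4) (nat_lit 439) (nat_lit 290) (nat_lit 171)) (XT.lf (nat_lit 0) (nat_lit 11694684916) (nat_lit 76) (nat_lit 40995728932) (nat_lit 76) (nat_lit 15293944794) (nat_lit 13) (nat_lit 4) (nat_lit 14) (nat_lit 5) (nat_lit 14) (nat_lit 4) (nat_lit 440) (nat_lit 290) (nat_lit 170)))) (XT.nd (nat_lit 156) (nat_lit 76) (nat_lit 0) (XT.nd (nat_lit 78) (nat_lit 0) (nat_lit 0) (XT.lf (nat_lit 0) (nat_lit 26522612331) (nat_lit 76) (nat_lit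 34499116235) (nat_lit 76) (nat_lit 8775125816) (nat_lit 13) (nat_lit 4) (nat_lit 14) (nat_lit 5) (nat_lit 14) (nat_lit 4) (nat_lit 441) (nat_lit 290) (nat_lit 169)) (XT.lf (nat_lit 0) (nat_lit 41772722119) (nat_lit 76) (nat_lit 27818454040) (nat_lit 76) (nat_lit 2072904125) (nat_lit 13) (nat_lit 4) (nat_lit 14) (nat_lit 5) (nat_lit 14) (nat_lit 4) (nat_lit 442) (nat_lit 290) (nat_lit 168))) (XT.nd (nat_lit 78) (nat_lit 0) (nat_lit 0) (XT.lf (nat_lit 0) (nat_lit 4724548803) (nat_lit 152) (nat_lit 16175647394) (nat_lit 76) (nat_lit 52686082138) (nat_lit 12) (nat_lit 5) (nat_lit 14) (nat_lit 5) (nat_lit 13) (nat_lit 4) (nat_lit 443) (nat_lit 290) (nat_lit 167)) (XT.lf (nat_lit 0) (nat_lit 11673021981) (nat_lit 152) (nat_lit 2090568735) (nat_lit 76) (nat_lit 61802274098) (nat_lit 12) (nat_lit 5) (nat_lit 14) (nat_lit 5) (nat_lit 13) (nat_lit 4) (nat_lit 444) (nat_lit 290) (nat_lit 166))))))))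
noncomputable def xc81 : XT := (XT.nd (nat_lit 38766) (nat_lit 0) (nat_lit 4864) (XT.nd (nat_lit 37752) (nat_lit 0) (nat_lit 10944) (XT.nd (nat_lit 37206) (nat_lit 0) (nat_lit 15960) (XT.nd (nat_lit 36972) (nat_lit 0) (nat_lit 21508) (XT.nd (nat_lit 78) (nat_lit 0) (nat_lit 0) (XT.lf (nat_lit 0) (nat_lit 12642818103) (nat_lit 76) (nat_lit 6297749115) (nat_lit 152) (nat_lit 58660954106) (nat_lit 11) (nat_lit 5) (nat_lit 12) (nat_lit 5) (nat_lit 13) (nat_lit 4) (nat_lit 445) (nat_lit 290) (nat_lit 165)) (XT.nd (nat_lit 78) (nat_lit 0) (nat_lit 0) (XT.lf (nat_lit 0) (nat_lit 26449950005) (nat_lit 152) (nat_lit 51871118285) (nat_lit 0) (nat_lit 1376465846) (nat_lit 11) (nat_lit 5) (nat_lit 13) (nat_lit 4) (nat_lit 11) (nat_lit 4) (nat_lit 446) (nat_lit 290) (nat_lit 164)) (XT.lf (nat_lit 0) (nat_lit 34236395534) (nat_lit 152) (nat_lit 38473623642) (nat_lit 0) (nat_lit 9144855636) (nat_lit 11) (nat_lit 5) (nat_lit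 13) (nat_lit 4) (nat_lit 11) (nat_lit 4) (nat_lit 447) (nat_lit 290) (nat_lit 163)))) (XT.nd (nat_lit 78) (nat_lit 912) (nat_lit 0) (XT.lf (nat_lit 0) (nat_lit 462479259) (nat_lit 836) (nat_lit 2473871839) (nat_lit 0) (nat_lit 462479259) (nat_lit 306) (nat_lit 5) (nat_lit 317) (nat_lit 4) (nat_lit 306) (nat_lit 4) (nat_lit 318) (nat_lit 291) (nat_lit 291)) (XT.nd (nat_lit 78) (nat_lit 912) (nat_lit 0) (XT.lf (nat_lit 0) (nat_lit 4161497508) (nat_lit 836) (nat_lit 500816390) (nat_lit 0) (nat_lit 2176618735) (nat_lit 306) (nat_lit 5) (nat_lit 317) (nat_lit 4) (nat_lit 306) (nat_lit 4) (nat_lit 319) (nat_lit 291) (nat_lit 290)) (XT.lf (nat_lit 0) (nat_lit 538621747) (nat_lit 912) (nat_lit 2818543393) (nat_lit 76) (nat_lit 3526088333) (nat_lit 294) (nat_lit 5) (nat_lit 306) (nat_lit 5) (nat_lit 295) (nat_lit 4) (nat_lit 320) (nat_lit 291) (nat_lit 289))))) (XT.nd (nat_lit 234) (nat_lit 3572) (nat_lit 0) (XT.nd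 (nat_lit 78) (nat_lit 1064) (nat_lit 0) (XT.lf (nat_lit 0) (nat_lit 1766615982) (nat_lit 912) (nat_lit 1952349600) (nat_lit 988) (nat_lit 3211586690) (nat_lit 282) (nat_lit 5) (nat_lit 294) (nat_lit 5) (nat_lit 295) (nat_lit 4) (nat_lit 321) (nat_lit 291) (nat_lit 288)) (XT.nd (nat_lit 78) (nat_lit 1064) (nat_lit 0) (XT.lf (nat_lit 0) (nat_lit 6457975910) (nat_lit 912) (nat_lit 466805033) (nat_lit 988) (nat_lit 56676758) (nat_lit 282) (nat_lit 5) (nat_lit 294) (nat_lit 5) (nat_lit 295) (nat_lit 4) (nat_lit 322) (nat_lit 291) (nat_lit 287)) (XT.lf (nat_lit 0) (nat_lit 3085572357) (nat_lit 1064) (nat_lit 2826451692) (nat_lit 76) (nat_lit 1122379951) (nat_lit 268) (nat_lit 5) (nat_lit 282) (nat_lit 5) (nat_lit 269) (nat_lit 4) (nat_lit 323) (nat_lit 291) (nat_lit 286)))) (XT.nd (nat_lit 156) (nat_lit 2432) (nat_lit 0) (XT.nd (nat_lit 78) (nat_lit 76) (nat_lit 0) (XT.lf (nat_lit 0) (nat_lit 1945345553) (nat_lit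 1064) (nat_lit 4309735163) (nat_lit 1140) (nat_lit 835899116) (nat_lit 254) (nat_lit 5) (nat_lit 268) (nat_lit 5) (nat_lit 269) (nat_lit 4) (nat_lit 324) (nat_lit 291) (nat_lit 285)) (XT.lf (nat_lit 0) (nat_lit 2259356052) (nat_lit 1140) (nat_lit 344940906) (nat_lit 76) (nat_lit 4546293902) (nat_lit 253) (nat_lit 5) (nat_lit 268) (nat_lit 5) (nat_lit 254) (nat_lit 5) (nat_lit 325) (nat_lit 291) (nat_lit 284))) (XT.nd (nat_lit 78) (nat_lit 1292) (nat_lit 0) (XT.lf (nat_lit 0) (nat_lit 4592064079) (nat_lit 1140) (nat_lit 791838903) (nat_lit 1216) (nat_lit 1829316859) (nat_lit 238) (nat_lit 5) (nat_lit 253) (nat_lit 5) (nat_lit 254) (nat_lit 5) (nat_lit 326) (nat_lit 291) (nat_lit 283)) (XT.lf (nat_lit 0) (nat_lit 1245376016) (nat_lit 1292) (nat_lit 4940372397) (nat_lit 76) (nat_lit 1093265114) (nat_lit 221) (nat_lit 5) (nat_lit 238) (nat_lit 5) (nat_lit 222) (nat_lit 5) (nat_lit 327) (nat_lit 291) (nat_lit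 282)))))) (XT.nd (nat_lit 468) (nat_lit 2584) (nat_lit 0) (XT.nd (nat_lit 234) (nat_lit 1216) (nat_lit 0) (XT.nd (nat_lit 78) (nat_lit 608) (nat_lit 0) (XT.lf (nat_lit 0) (nat_lit 37639159) (nat_lit 608) (nat_lit 4284533195) (nat_lit 684) (nat_lit 3025734999) (nat_lit 213) (nat_lit 5) (nat_lit 221) (nat_lit 5) (nat_lit 222) (nat_lit 5) (nat_lit 328) (nat_lit 291) (nat_lit 281)) (XT.nd (nat_lit 78) (nat_lit 532) (nat_lit 0) (XT.lf (nat_lit 0) (nat_lit 33846273) (nat_lit 684) (nat_lit 2245060801) (nat_lit 76) (nat_lit 5141119059) (nat_lit 212) (nat_lit 5) (nat_lit 221) (nat_lit 5) (nat_lit 213) (nat_lit 5) (nat_lit 329) (nat_lit 291) (nat_lit 280)) (XT.lf (nat_lit 0) (nat_lit 2908845578) (nat_lit 532) (nat_lit 158538620) (nat_lit 608) (nat_lit 4427798814) (nat_lit 205) (nat_lit 5) (nat_lit 212) (nat_lit 5) (nat_lit 213) (nat_lit 5) (nat_lit 330) (nat_lit 291) (nat_lit 279)))) (XT.nd (nat_lit 78) (nat_lit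 608) (nat_lit 0) (XT.lf (nat_lit 0) (nat_lit 591642672) (nat_lit 608) (nat_lit 5564921582) (nat_lit 684) (nat_lit 1417152207) (nat_lit 197) (nat_lit 5) (nat_lit 205) (nat_lit 5) (nat_lit 206) (nat_lit 5) (nat_lit 331) (nat_lit 291) (nat_lit 278)) (XT.nd (nat_lit 78) (nat_lit 532) (nat_lit 0) (XT.lf (nat_lit 0) (nat_lit 1616569993) (nat_lit 684) (nat_lit 1744942414) (nat_lit 76) (nat_lit 4293696976) (nat_lit 196) (nat_lit 5) (nat_lit 205) (nat_lit 5) (nat_lit 197) (nat_lit 5) (nat_lit 332) (nat_lit 291) (nat_lit 277)) (XT.lf (nat_lit 0) (nat_lit 3616038076) (nat_lit 532) (nat_lit 1051223764) (nat_lit 608) (nat_lit 3072886848) (nat_lit 189) (nat_lit 5) (nat_lit 196) (nat_lit 5) (nat_lit 197) (nat_lit 5) (nat_lit 333) (nat_lit 291) (nat_lit 276))))) (XT.nd (nat_lit 234) (nat_lit 1520) (nat_lit 0) (XT.nd (nat_lit 78) (nat_lit 532) (nat_lit 0) (XT.lf (nat_lit 0) (nat_lit 1267053774) (nat_lit 532) (nat_lit 6506233976)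 (nat_lit 608) (nat_lit 55488172) (nat_lit 182) (nat_lit 5) (nat_lit 189) (nat_lit 5) (nat_lit 190) (nat_lit 5) (nat_lit 334) (nat_lit 291) (nat_lit 275)) (XT.nd (nat_lit 78) (nat_lit 456) (nat_lit 0) (XT.lf (nat_lit 0) (nat_lit 2967015586) (nat_lit 608) (nat_lit 1146434323) (nat_lit 76) (nat_lit 3806558436) (nat_lit 181) (nat_lit 5) (nat_lit 189) (nat_lit 5) (nat_lit 182) (nat_lit 5) (nat_lit 335) (nat_lit 291) (nat_lit 274)) (XT.lf (nat_lit 0) (nat_lit 4427892417) (nat_lit 456) (nat_lit 1617712682) (nat_lit 532) (nat_lit 1969409937) (nat_lit 175) (nat_lit 5) (nat_lit 181) (nat_lit 5) (nat_lit 182) (nat_lit 5) (nat_lit 336) (nat_lit 291) (nat_lit 273)))) (XT.nd (nat_lit 156) (nat_lit 988) (nat_lit 0) (XT.nd (nat_lit 78) (nat_lit 0) (nat_lit 0) (XT.lf (nat_lit 0) (nat_lit 1047218547) (nat_lit 532) (nat_lit 6104210142) (nat_lit 76) (nat_lit 962219422) (nat_lit 168) (nat_lit 5) (nat_lit 175) (nat_lit 5) (nat_lit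 169) (nat_lit 5) (nat_lit 337) (nat_lit 291) (nat_lit 272)) (XT.lf (nat_lit 0) (nat_lit 4093099922) (nat_lit 532) (nat_lit 493791387) (nat_lit 76) (nat_lit 3628459127) (nat_lit 168) (nat_lit 5) (nat_lit 175) (nat_lit 5) (nat_lit 169) (nat_lit 5) (nat_lit 338) (nat_lit 291) (nat_lit 271))) (XT.nd (nat_lit 78) (nat_lit 532) (nat_lit 0) (XT.lf (nat_lit 0) (nat_lit 5299823564) (nat_lit 456) (nat_lit 1909380990) (nat_lit 532) (nat_lit 1111577901) (nat_lit 162) (nat_lit 5) (nat_lit 168) (nat_lit 5) (nat_lit 169) (nat_lit 5) (nat_lit 339) (nat_lit 291) (nat_lit 270)) (XT.lf (nat_lit 0) (nat_lit 1919398996) (nat_lit 532) (nat_lit 5644164767) (nat_lit 76) (nat_lit 866217326) (nat_lit 155) (nat_lit 5) (nat_lit 162) (nat_lit 5) (nat_lit 156) (nat_lit 5) (nat_lit 340) (nat_lit 291) (nat_lit 269))))))) (XT.nd (nat_lit 1014) (nat_lit 2584) (nat_lit 0) (XT.nd (nat_lit 468) (nat_lit 1748) (nat_lit 0) (XT.nd (nat_lit 234)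 (nat_lit 836) (nat_lit 0) (XT.nd (nat_lit 78) (nat_lit 532) (nat_lit 0) (XT.lf (nat_lit 0) (nat_lit 170048837) (nat_lit 380) (nat_lit 4829741930) (nat_lit 456) (nat_lit 3542544219) (nat_lit 150) (nat_lit 5) (nat_lit 155) (nat_lit 5) (nat_lit 156) (nat_lit 5) (nat_lit 341) (nat_lit 291) (nat_lit 268)) (XT.nd (nat_lit 78) (nat_lit 532) (nat_lit 0) (XT.lf (nat_lit 0) (nat_lit 6185035493) (nat_lit 380) (nat_lit 1975228866) (nat_lit 456) (nat_lit 498410156) (nat_lit 150) (nat_lit 5) (nat_lit 155) (nat_lit 5) (nat_lit 156) (nat_lit 5) (nat_lit 342) (nat_lit 291) (nat_lit 267)) (XT.lf (nat_lit 0) (nat_lit 2561452475) (nat_lit 532) (nat_lit 5230561309) (nat_lit 76) (nat_lit 986490967) (nat_lit 143) (nat_lit 5) (nat_lit 150) (nat_lit 5) (nat_lit 144) (nat_lit 5) (nat_lit 343) (nat_lit 291) (nat_lit 266)))) (XT.nd (nat_lit 78) (nat_lit 456) (nat_lit 0) (XT.lf (nat_lit 0) (nat_lit 801478388) (nat_lit 380) (nat_lit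 4887038610) (nat_lit 456) (nat_lit 3213737945) (nat_lit 138) (nat_lit 5) (nat_lit 143) (nat_lit 5) (nat_lit 144) (nat_lit 5) (nat_lit 344) (nat_lit 291) (nat_lit 265)) (XT.nd (nat_lit 78) (nat_lit 456) (nat_lit 0) (XT.lf (nat_lit 0) (nat_lit 7033451826) (nat_lit 380) (nat_lit 1862801373) (nat_lit 456) (nat_lit 133893405) (nat_lit 138) (nat_lit 5) (nat_lit 143) (nat_lit 5) (nat_lit 144) (nat_lit 5) (nat_lit 345) (nat_lit 291) (nat_lit 264)) (XT.lf (nat_lit 0) (nat_lit 2967793888) (nat_lit 456) (nat_lit 4916880749) (nat_lit 76) (nat_lit 1276694851) (nat_lit 132) (nat_lit 5) (nat_lit 138) (nat_lit 5) (nat_lit 133) (nat_lit 5) (nat_lit 346) (nat_lit 291) (nat_lit 263))))) (XT.nd (nat_lit 234) (nat_lit 988) (nat_lit 0) (XT.nd (nat_lit 78) (nat_lit 456) (nat_lit 0) (XT.lf (nat_lit 0) (nat_lit 1336146983) (nat_lit 304) (nat_lit 4811479050) (nat_lit 380) (nat_lit 3149261500) (nat_lit 128) (nat_lit 5) (nat_lit 132)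 (nat_lit 5) (nat_lit 133) (nat_lit 5) (nat_lit 347) (nat_lit 291) (nat_lit 262)) (XT.nd (nat_lit 78) (nat_lit 456) (nat_lit 0) (XT.lf (nat_lit 0) (nat_lit 7790547221) (nat_lit 304) (nat_lit 1619116102) (nat_lit 380) (nat_lit 27234372) (nat_lit 128) (nat_lit 5) (nat_lit 132) (nat_lit 5) (nat_lit 133) (nat_lit 5) (nat_lit 348) (nat_lit 291) (nat_lit 261)) (XT.lf (nat_lit 0) (nat_lit 3127648559) (nat_lit 456) (nat_lit 4761800718) (nat_lit 76) (nat_lit 1690726115) (nat_lit 122) (nat_lit 5) (nat_lit 128) (nat_lit 5) (nat_lit 123) (nat_lit 5) (nat_lit 349) (nat_lit 291) (nat_lit 260)))) (XT.nd (nat_lit 156) (nat_lit 684) (nat_lit 0) (XT.nd (nat_lit 78) (nat_lit 0) (nat_lit 0) (XT.lf (nat_lit 0) (nat_lit 1714012884) (nat_lit 304) (nat_lit 4651016946) (nat_lit 380) (nat_lit 3363089784) (nat_lit 118) (nat_lit 5) (nat_lit 122) (nat_lit 5) (nat_lit 123) (nat_lit 5) (nat_lit 350) (nat_lit 291) (nat_lit 259)) (XT.lf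 (nat_lit 0) (nat_lit 8396055186) (nat_lit 304) (nat_lit 1291615242) (nat_lit 380) (nat_lit 193215034) (nat_lit 118) (nat_lit 5) (nat_lit 122) (nat_lit 5) (nat_lit 123) (nat_lit 5) (nat_lit 351) (nat_lit 291) (nat_lit 258))) (XT.nd (nat_lit 78) (nat_lit 304) (nat_lit 0) (XT.lf (nat_lit 0) (nat_lit 3024660744) (nat_lit 380) (nat_lit 4830556753) (nat_lit 76) (nat_lit 2181771448) (nat_lit 113) (nat_lit 5) (nat_lit 118) (nat_lit 5) (nat_lit 114) (nat_lit 5) (nat_lit 352) (nat_lit 291) (nat_lit 257)) (XT.lf (nat_lit 0) (nat_lit 1868100372) (nat_lit 304) (nat_lit 4454836918) (nat_lit 380) (nat_lit 3875173523) (nat_lit 109) (nat_lit 5) (nat_lit 113) (nat_lit 5) (nat_lit 114) (nat_lit 5) (nat_lit 353) (nat_lit 291) (nat_lit 256)))))) (XT.nd (nat_lit 546) (nat_lit 1368) (nat_lit 0) (XT.nd (nat_lit 234) (nat_lit 608) (nat_lit 0) (XT.nd (nat_lit 78) (nat_lit 608) (nat_lit 0) (XT.lf (nat_lit 0) (nat_lit 8782525053)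 (nat_lit 304) (nat_lit 929160116) (nat_lit 380) (nat_lit 652659854) (nat_lit 109) (nat_lit 5) (nat_lit 113) (nat_lit 5) (nat_lit 114) (nat_lit 5) (nat_lit 354) (nat_lit 291) (nat_lit 255)) (XT.nd (nat_lit 78) (nat_lit 228) (nat_lit 0) (XT.lf (nat_lit 0) (nat_lit 2636388372) (nat_lit 380) (nat_lit 5196469263) (nat_lit 76) (nat_lit 2701305851) (nat_lit 104) (nat_lit 5) (nat_lit 109) (nat_lit 5) (nat_lit 105) (nat_lit 5) (nat_lit 355) (nat_lit 291) (nat_lit 254)) (XT.lf (nat_lit 0) (nat_lit 1722909370) (nat_lit 228) (nat_lit 4274400842) (nat_lit 304) (nat_lit 4712005141) (nat_lit 101) (nat_lit 5) (nat_lit 104) (nat_lit 5) (nat_lit 105) (nat_lit 5) (nat_lit 356) (nat_lit 291) (nat_lit 253)))) (XT.nd (nat_lit 156) (nat_lit 228) (nat_lit 0) (XT.nd (nat_lit 78) (nat_lit 380) (nat_lit 0) (XT.lf (nat_lit 0) (nat_lit 8873697285) (nat_lit 228) (nat_lit 583087571) (nat_lit 304) (nat_lit 1433026823) (nat_lit 101) (nat_lit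 5) (nat_lit 104) (nat_lit 5) (nat_lit 105) (nat_lit 5) (nat_lit 357) (nat_lit 291) (nat_lit 252)) (XT.lf (nat_lit 0) (nat_lit 1933671462) (nat_lit 380) (nat_lit 5942668876) (nat_lit 76) (nat_lit 3198023533) (nat_lit 96) (nat_lit 5) (nat_lit 101) (nat_lit 5) (nat_lit 97) (nat_lit 5) (nat_lit 358) (nat_lit 291) (nat_lit 251))) (XT.nd (nat_lit 78) (nat_lit 0) (nat_lit 0) (XT.lf (nat_lit 0) (nat_lit 1192615663) (nat_lit 228) (nat_lit 4164572631) (nat_lit 304) (nat_lit 5907319903) (nat_lit 93) (nat_lit 5) (nat_lit 96) (nat_lit 5) (nat_lit 97) (nat_lit 5) (nat_lit 359) (nat_lit 291) (nat_lit 250)) (XT.lf (nat_lit 0) (nat_lit 8582662113) (nat_lit 228) (nat_lit 308349300) (nat_lit 304) (nat_lit 2569136661) (nat_lit 93) (nat_lit 5) (nat_lit 96) (nat_lit 5) (nat_lit 97) (nat_lit 5) (nat_lit 360) (nat_lit 291) (nat_lit 249))))) (XT.nd (nat_lit 234) (nat_lit 760) (nat_lit 0) (XT.nd (nat_lit 78) (nat_lit 228) (nat_lit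 0) (XT.lf (nat_lit 0) (nat_lit 879859035) (nat_lit 380) (nat_lit 7164057337) (nat_lit 76) (nat_lit 3616679416) (nat_lit 88) (nat_lit 5) (nat_lit 93) (nat_lit 5) (nat_lit 89) (nat_lit 5) (nat_lit 361) (nat_lit 291) (nat_lit 248)) (XT.nd (nat_lit 78) (nat_lit 0) (nat_lit 0) (XT.lf (nat_lit 0) (nat_lit 179022797) (nat_lit 228) (nat_lit 4184844266) (nat_lit 304) (nat_lit 7502948985) (nat_lit 85) (nat_lit 5) (nat_lit 88) (nat_lit 5) (nat_lit 89) (nat_lit 5) (nat_lit 362) (nat_lit 291) (nat_lit 247)) (XT.lf (nat_lit 0) (nat_lit 7809761575) (nat_lit 228) (nat_lit 164757307) (nat_lit 304) (nat_lit 4104057425) (nat_lit 85) (nat_lit 5) (nat_lit 88) (nat_lit 5) (nat_lit 89) (nat_lit 5) (nat_lit 363) (nat_lit 291) (nat_lit 246)))) (XT.nd (nat_lit 156) (nat_lit 456) (nat_lit 0) (XT.nd (nat_lit 78) (nat_lit 76) (nat_lit 0) (XT.lf (nat_lit 0) (nat_lit 3320936682) (nat_lit 228) (nat_lit 8393665690) (nat_lit 304) (nat_lit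 581470239) (nat_lit 82) (nat_lit 5) (nat_lit 85) (nat_lit 5) (nat_lit 86) (nat_lit 5) (nat_lit 364) (nat_lit 291) (nat_lit 245)) (XT.lf (nat_lit 0) (nat_lit 2983662994) (nat_lit 304) (nat_lit 1402859226) (nat_lit 76) (nat_lit 8132818929) (nat_lit 81) (nat_lit 5) (nat_lit 85) (nat_lit 5) (nat_lit 82) (nat_lit 5) (nat_lit 365) (nat_lit 291) (nat_lit 244))) (XT.nd (nat_lit 78) (nat_lit 228) (nat_lit 0) (XT.lf (nat_lit 0) (nat_lit 6440189189) (nat_lit 228) (nat_lit 218361341) (nat_lit 304) (nat_lit 6090165072) (nat_lit 78) (nat_lit 5) (nat_lit 81) (nat_lit 5) (nat_lit 82) (nat_lit 5) (nat_lit 366) (nat_lit 291) (nat_lit 243)) (XT.lf (nat_lit 0) (nat_lit 1475519047) (nat_lit 228) (nat_lit 8988783746) (nat_lit 304) (nat_lit 2520064701) (nat_lit 75) (nat_lit 5) (nat_lit 78) (nat_lit 5) (nat_lit 79) (nat_lit 5) (nat_lit 367) (nat_lit 291) (nat_lit 242))))))))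
noncomputable def xc82 : XT := (XT.nd (nat_lit 2028) (nat_lit 1368) (nat_lit 0) (XT.nd (nat_lit 1014) (nat_lit 1216) (nat_lit 0) (XT.nd (nat_lit 468) (nat_lit 836) (nat_lit 0) (XT.nd (nat_lit 234) (nat_lit 456) (nat_lit 0) (XT.nd (nat_lit 78) (nat_lit 152) (nat_lit 0) (XT.lf (nat_lit 0) (nat_lit 1154180028) (nat_lit 304) (nat_lit 3693587492) (nat_lit 76) (nat_lit 8378412992) (nat_lit 74) (nat_lit 5) (nat_lit 78) (nat_lit 5) (nat_lit 75) (nat_lit 5) (nat_lit 368) (nat_lit 291) (nat_lit 241)) (XT.nd (nat_lit 78) (nat_lit 0) (nat_lit 0) (XT.lf (nat_lit 0) (nat_lit 4341234745) (nat_lit 152) (nat_lit 542987271) (nat_lit 228) (nat_lit 8590404247) (nat_lit 72) (nat_lit 5) (nat_lit 74) (nat_lit 5) (nat_lit 75) (nat_lit 5) (nat_lit 369) (nat_lit 291) (nat_lit 240)) (XT.lf (nat_lit 0) (nat_lit 8756060554) (nat_lit 228) (nat_lit 1149368695) (nat_lit 76) (nat_lit 3824212382) (nat_lit 72) (nat_lit 5) (nat_lit 75) (nat_lit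 5) (nat_lit 73) (nat_lit 5) (nat_lit 370) (nat_lit 291) (nat_lit 239)))) (XT.nd (nat_lit 78) (nat_lit 228) (nat_lit 0) (XT.lf (nat_lit 0) (nat_lit 7135209548) (nat_lit 228) (nat_lit 5638950509) (nat_lit 304) (nat_lit 1217256951) (nat_lit 69) (nat_lit 5) (nat_lit 72) (nat_lit 5) (nat_lit 73) (nat_lit 5) (nat_lit 371) (nat_lit 291) (nat_lit 238)) (XT.nd (nat_lit 78) (nat_lit 0) (nat_lit 0) (XT.lf (nat_lit 0) (nat_lit 1359113756) (nat_lit 152) (nat_lit 1221969136) (nat_lit 228) (nat_lit 11679777898) (nat_lit 66) (nat_lit 5) (nat_lit 68) (nat_lit 5) (nat_lit 69) (nat_lit 5) (nat_lit 372) (nat_lit 291) (nat_lit 237)) (XT.lf (nat_lit 0) (nat_lit 6527396975) (nat_lit 228) (nat_lit 4692895293) (nat_lit 76) (nat_lit 3315991007) (nat_lit 66) (nat_lit 5) (nat_lit 69) (nat_lit 5) (nat_lit 67) (nat_lit 5) (nat_lit 373) (nat_lit 291) (nat_lit 236))))) (XT.nd (nat_lit 234) (nat_lit 380) (nat_lit 0) (XT.nd (nat_lit 78)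 (nat_lit 228) (nat_lit 0) (XT.lf (nat_lit 0) (nat_lit 3752175873) (nat_lit 228) (nat_lit 6845939859) (nat_lit 304) (nat_lit 4221683548) (nat_lit 63) (nat_lit 5) (nat_lit 66) (nat_lit 5) (nat_lit 67) (nat_lit 5) (nat_lit 374) (nat_lit 291) (nat_lit 235)) (XT.nd (nat_lit 78) (nat_lit 228) (nat_lit 0) (XT.lf (nat_lit 0) (nat_lit 12476330744) (nat_lit 228) (nat_lit 2320413023) (nat_lit 304) (nat_lit 314914342) (nat_lit 63) (nat_lit 5) (nat_lit 66) (nat_lit 5) (nat_lit 67) (nat_lit 5) (nat_lit 375) (nat_lit 291) (nat_lit 234)) (XT.lf (nat_lit 0) (nat_lit 3677324327) (nat_lit 228) (nat_lit 9370483744) (nat_lit 76) (nat_lit 2362186060) (nat_lit 60) (nat_lit 5) (nat_lit 63) (nat_lit 5) (nat_lit 61) (nat_lit 5) (nat_lit 376) (nat_lit 291) (nat_lit 233)))) (XT.nd (nat_lit 156) (nat_lit 228) (nat_lit 0) (XT.nd (nat_lit 78) (nat_lit 152) (nat_lit 0) (XT.lf (nat_lit 0) (nat_lit 7792307604) (nat_lit 228) (nat_lit 783728304)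 (nat_lit 76) (nat_lit 7140881622) (nat_lit 60) (nat_lit 5) (nat_lit 63) (nat_lit 5) (nat_lit 61) (nat_lit 5) (nat_lit 377) (nat_lit 291) (nat_lit 232)) (XT.lf (nat_lit 0) (nat_lit 8152228075) (nat_lit 152) (nat_lit 3917514766) (nat_lit 228) (nat_lit 3962145466) (nat_lit 58) (nat_lit 5) (nat_lit 60) (nat_lit 5) (nat_lit 61) (nat_lit 5) (nat_lit 378) (nat_lit 291) (nat_lit 231))) (XT.nd (nat_lit 78) (nat_lit 0) (nat_lit 0) (XT.lf (nat_lit 0) (nat_lit 103272658) (nat_lit 228) (nat_lit 15399038763) (nat_lit 76) (nat_lit 854379438) (nat_lit 55) (nat_lit 5) (nat_lit 58) (nat_lit 5) (nat_lit 56) (nat_lit 5) (nat_lit 379) (nat_lit 291) (nat_lit 230)) (XT.lf (nat_lit 0) (nat_lit 4291139415) (nat_lit 228) (nat_lit 6613893019) (nat_lit 76) (nat_lit 5782633461) (nat_lit 55) (nat_lit 5) (nat_lit 58) (nat_lit 5) (nat_lit 56) (nat_lit 5) (nat_lit 380) (nat_lit 291) (nat_lit 229)))))) (XT.nd (nat_lit 468) (nat_lit 684)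 (nat_lit 0) (XT.nd (nat_lit 234) (nat_lit 228) (nat_lit 0) (XT.nd (nat_lit 78) (nat_lit 152) (nat_lit 0) (XT.lf (nat_lit 0) (nat_lit 2416082240) (nat_lit 152) (nat_lit 6173898467) (nat_lit 228) (nat_lit 8439037983) (nat_lit 53) (nat_lit 5) (nat_lit 55) (nat_lit 5) (nat_lit 56) (nat_lit 5) (nat_lit 381) (nat_lit 291) (nat_lit 228)) (XT.nd (nat_lit 78) (nat_lit 152) (nat_lit 0) (XT.lf (nat_lit 0) (nat_lit 11787309557) (nat_lit 152) (nat_lit 1259855204) (nat_lit 228) (nat_lit 4332574393) (nat_lit 53) (nat_lit 5) (nat_lit 55) (nat_lit 5) (nat_lit 56) (nat_lit 5) (nat_lit 382) (nat_lit 291) (nat_lit 227)) (XT.lf (nat_lit 0) (nat_lit 3669592093) (nat_lit 152) (nat_lit 14003710188) (nat_lit 228) (nat_lit 66629981) (nat_lit 51) (nat_lit 5) (nat_lit 53) (nat_lit 5) (nat_lit 54) (nat_lit 4) (nat_lit 383) (nat_lit 291) (nat_lit 226)))) (XT.nd (nat_lit 78) (nat_lit 152) (nat_lit 0) (XT.lf (nat_lit 0) (nat_lit 4275866648)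 (nat_lit 228) (nat_lit 4904021562) (nat_lit 76) (nat_lit 8928812301) (nat_lit 50) (nat_lit 5) (nat_lit 53) (nat_lit 5) (nat_lit 51) (nat_lit 5) (nat_lit 384) (nat_lit 291) (nat_lit 225)) (XT.nd (nat_lit 78) (nat_lit 0) (nat_lit 0) (XT.lf (nat_lit 0) (nat_lit 4563275953) (nat_lit 152) (nat_lit 4192460290) (nat_lit 228) (nat_lit 9732530129) (nat_lit 48) (nat_lit 5) (nat_lit 50) (nat_lit 5) (nat_lit 51) (nat_lit 5) (nat_lit 385) (nat_lit 291) (nat_lit 224)) (XT.lf (nat_lit 0) (nat_lit 13393845867) (nat_lit 228) (nat_lit 4534768378) (nat_lit 76) (nat_lit 949896902) (nat_lit 48) (nat_lit 5) (nat_lit 51) (nat_lit 5) (nat_lit 49) (nat_lit 4) (nat_lit 386) (nat_lit 291) (nat_lit 223))))) (XT.nd (nat_lit 234) (nat_lit 304) (nat_lit 0) (XT.nd (nat_lit 78) (nat_lit 228) (nat_lit 0) (XT.lf (nat_lit 0) (nat_lit 5135093295) (nat_lit 152) (nat_lit 13092655920) (nat_lit 228) (nat_lit 1051021581) (nat_lit 46) (nat_lit 5)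 (nat_lit 48) (nat_lit 5) (nat_lit 49) (nat_lit 4) (nat_lit 387) (nat_lit 291) (nat_lit 222)) (XT.nd (nat_lit 78) (nat_lit 152) (nat_lit 0) (XT.lf (nat_lit 0) (nat_lit 3459130711) (nat_lit 228) (nat_lit 4596755281) (nat_lit 76) (nat_lit 11633781993) (nat_lit 45) (nat_lit 5) (nat_lit 48) (nat_lit 5) (nat_lit 46) (nat_lit 5) (nat_lit 388) (nat_lit 291) (nat_lit 221)) (XT.lf (nat_lit 0) (nat_lit 5269923889) (nat_lit 152) (nat_lit 2831047657) (nat_lit 228) (nat_lit 12011089551) (nat_lit 43) (nat_lit 5) (nat_lit 45) (nat_lit 5) (nat_lit 46) (nat_lit 5) (nat_lit 389) (nat_lit 291) (nat_lit 220)))) (XT.nd (nat_lit 156) (nat_lit 228) (nat_lit 0) (XT.nd (nat_lit 78) (nat_lit 76) (nat_lit 0) (XT.lf (nat_lit 0) (nat_lit 12920469055) (nat_lit 228) (nat_lit 5103119560) (nat_lit 76) (nat_lit 2522391601) (nat_lit 43) (nat_lit 5) (nat_lit 46) (nat_lit 5) (nat_lit 44) (nat_lit 4) (nat_lit 390) (nat_lit 291) (nat_lit 219))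 (XT.lf (nat_lit 0) (nat_lit 4938897996) (nat_lit 76) (nat_lit 12989126695) (nat_lit 152) (nat_lit 3063594101) (nat_lit 42) (nat_lit 5) (nat_lit 43) (nat_lit 5) (nat_lit 44) (nat_lit 4) (nat_lit 391) (nat_lit 291) (nat_lit 218))) (XT.nd (nat_lit 78) (nat_lit 152) (nat_lit 0) (XT.lf (nat_lit 0) (nat_lit 1623347651) (nat_lit 152) (nat_lit 6136118289) (nat_lit 76) (nat_lit 13690092496) (nat_lit 41) (nat_lit 5) (nat_lit 43) (nat_lit 5) (nat_lit 42) (nat_lit 5) (nat_lit 392) (nat_lit 291) (nat_lit 217)) (XT.lf (nat_lit 0) (nat_lit 4071176321) (nat_lit 152) (nat_lit 2326245545) (nat_lit 228) (nat_lit 15522667003) (nat_lit 39) (nat_lit 5) (nat_lit 41) (nat_lit 5) (nat_lit 42) (nat_lit 5) (nat_lit 393) (nat_lit 291) (nat_lit 216))))))) (XT.nd (nat_lit 1014) (nat_lit 684) (nat_lit 0) (XT.nd (nat_lit 468) (nat_lit 380) (nat_lit 0) (XT.nd (nat_lit 234) (nat_lit 228) (nat_lit 0) (XT.nd (nat_lit 78) (nat_lit 76) (nat_lit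 0) (XT.lf (nat_lit 0) (nat_lit 11377826538) (nat_lit 228) (nat_lit 7780504905) (nat_lit 76) (nat_lit 3244515925) (nat_lit 39) (nat_lit 5) (nat_lit 42) (nat_lit 5) (nat_lit 40) (nat_lit 4) (nat_lit 394) (nat_lit 291) (nat_lit 215)) (XT.nd (nat_lit 78) (nat_lit 0) (nat_lit 0) (XT.lf (nat_lit 0) (nat_lit 2562502909) (nat_lit 76) (nat_lit 13962803954) (nat_lit 152) (nat_lit 6374257094) (nat_lit 38) (nat_lit 5) (nat_lit 39) (nat_lit 5) (nat_lit 40) (nat_lit 4) (nat_lit 395) (nat_lit 291) (nat_lit 214)) (XT.lf (nat_lit 0) (nat_lit 13321403661) (nat_lit 76) (nat_lit 8554730607) (nat_lit 152) (nat_lit 1533585186) (nat_lit 38) (nat_lit 5) (nat_lit 39) (nat_lit 5) (nat_lit 40) (nat_lit 4) (nat_lit 396) (nat_lit 291) (nat_lit 213)))) (XT.nd (nat_lit 78) (nat_lit 0) (nat_lit 0) (XT.lf (nat_lit 0) (nat_lit 389400965) (nat_lit 152) (nat_lit 2970210598) (nat_lit 228) (nat_lit 20575337128) (nat_lit 35) (nat_lit 5) (nat_lit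 37) (nat_lit 5) (nat_lit 38) (nat_lit 5) (nat_lit 397) (nat_lit 291) (nat_lit 212)) (XT.nd (nat_lit 78) (nat_lit 0) (nat_lit 0) (XT.lf (nat_lit 0) (nat_lit 8469446560) (nat_lit 228) (nat_lit 13180586500) (nat_lit 76) (nat_lit 2822430906) (nat_lit 35) (nat_lit 5) (nat_lit 38) (nat_lit 5) (nat_lit 36) (nat_lit 4) (nat_lit 398) (nat_lit 291) (nat_lit 211)) (XT.lf (nat_lit 0) (nat_lit 13733872253) (nat_lit 228) (nat_lit 2585564291) (nat_lit 76) (nat_lit 8706633808) (nat_lit 35) (nat_lit 5) (nat_lit 38) (nat_lit 5) (nat_lit 36) (nat_lit 4) (nat_lit 399) (nat_lit 291) (nat_lit 210))))) (XT.nd (nat_lit 234) (nat_lit 76) (nat_lit 0) (XT.nd (nat_lit 78) (nat_lit 228) (nat_lit 0) (XT.lf (nat_lit 0) (nat_lit 8442063226) (nat_lit 76) (nat_lit 10768024192) (nat_lit 152) (nat_lit 6384586199) (nat_lit 34) (nat_lit 5) (nat_lit 35) (nat_lit 5) (nat_lit 36) (nat_lit 4) (nat_lit 400) (nat_lit 291) (nat_lit 209)) (XT.nd (nat_lit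 78) (nat_lit 228) (nat_lit 0) (XT.lf (nat_lit 0) (nat_lit 19804030689) (nat_lit 76) (nat_lit 5045693132) (nat_lit 152) (nat_lit 1330641377) (nat_lit 34) (nat_lit 5) (nat_lit 35) (nat_lit 5) (nat_lit 36) (nat_lit 4) (nat_lit 401) (nat_lit 291) (nat_lit 208)) (XT.lf (nat_lit 0) (nat_lit 3827081488) (nat_lit 228) (nat_lit 22061008897) (nat_lit 76) (nat_lit 893590514) (nat_lit 31) (nat_lit 5) (nat_lit 34) (nat_lit 5) (nat_lit 32) (nat_lit 4) (nat_lit 402) (nat_lit 291) (nat_lit 207)))) (XT.nd (nat_lit 156) (nat_lit 76) (nat_lit 0) (XT.nd (nat_lit 78) (nat_lit 0) (nat_lit 0) (XT.lf (nat_lit 0) (nat_lit 9201419739) (nat_lit 228) (nat_lit 11230256910) (nat_lit 76) (nat_lit 6966309235) (nat_lit 31) (nat_lit 5) (nat_lit 34) (nat_lit 5) (nat_lit 32) (nat_lit 4) (nat_lit 403) (nat_lit 291) (nat_lit 206)) (XT.lf (nat_lit 0) (nat_lit 14711400689) (nat_lit 228) (nat_lit 121844767) (nat_lit 76) (nat_lit 13200305971) (nat_lit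 31) (nat_lit 5) (nat_lit 34) (nat_lit 5) (nat_lit 32) (nat_lit 4) (nat_lit 404) (nat_lit 291) (nat_lit 205))) (XT.nd (nat_lit 78) (nat_lit 0) (nat_lit 0) (XT.lf (nat_lit 0) (nat_lit 11498307302) (nat_lit 76) (nat_lit 8974060347) (nat_lit 152) (nat_lit 8213249367) (nat_lit 30) (nat_lit 5) (nat_lit 31) (nat_lit 5) (nat_lit 32) (nat_lit 4) (nat_lit 405) (nat_lit 291) (nat_lit 204)) (XT.lf (nat_lit 0) (nat_lit 23424125665) (nat_lit 76) (nat_lit 2958712965) (nat_lit 152) (nat_lit 2975109261) (nat_lit 30) (nat_lit 5) (nat_lit 31) (nat_lit 5) (nat_lit 32) (nat_lit 4) (nat_lit 406) (nat_lit 291) (nat_lit 203)))))) (XT.nd (nat_lit 546) (nat_lit 228) (nat_lit 0) (XT.nd (nat_lit 234) (nat_lit 228) (nat_lit 0) (XT.nd (nat_lit 78) (nat_lit 0) (nat_lit 0) (XT.lf (nat_lit 0) (nat_lit 2435359863) (nat_lit 228) (nat_lit 24379874472) (nat_lit 76) (nat_lit 3232647460) (nat_lit 27) (nat_lit 5) (nat_lit 30) (nat_lit 5) (nat_lit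 28) (nat_lit 4) (nat_lit 407) (nat_lit 291) (nat_lit 202)) (XT.nd (nat_lit 78) (nat_lit 0) (nat_lit 0) (XT.lf (nat_lit 0) (nat_lit 8014155329) (nat_lit 228) (nat_lit 13121210460) (nat_lit 76) (nat_lit 9620293229) (nat_lit 27) (nat_lit 5) (nat_lit 30) (nat_lit 5) (nat_lit 28) (nat_lit 4) (nat_lit 408) (nat_lit 291) (nat_lit 201)) (XT.lf (nat_lit 0) (nat_lit 13737015232) (nat_lit 228) (nat_lit 1568164839) (nat_lit 76) (nat_lit 16180191639) (nat_lit 27) (nat_lit 5) (nat_lit 30) (nat_lit 5) (nat_lit 28) (nat_lit 4) (nat_lit 409) (nat_lit 291) (nat_lit 200)))) (XT.nd (nat_lit 156) (nat_lit 152) (nat_lit 0) (XT.nd (nat_lit 78) (nat_lit 0) (nat_lit 0) (XT.lf (nat_lit 0) (nat_lit 10494135672) (nat_lit 76) (nat_lit 9215680512) (nat_lit 152) (nat_lit 12524815021) (nat_lit 26) (nat_lit 5) (nat_lit 27) (nat_lit 5) (nat_lit 28) (nat_lit 4) (nat_lit 410) (nat_lit 291) (nat_lit 199)) (XT.lf (nat_lit 0) (nat_lit 22908749067)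 (nat_lit 76) (nat_lit 2946524679) (nat_lit 152) (nat_lit 7151293550) (nat_lit 26) (nat_lit 5) (nat_lit 27) (nat_lit 5) (nat_lit 28) (nat_lit 4) (nat_lit 411) (nat_lit 291) (nat_lit 198))) (XT.nd (nat_lit 78) (nat_lit 76) (nat_lit 0) (XT.lf (nat_lit 0) (nat_lit 1855641476) (nat_lit 76) (nat_lit 30359146223) (nat_lit 76) (nat_lit 1585985892) (nat_lit 25) (nat_lit 4) (nat_lit 26) (nat_lit 5) (nat_lit 26) (nat_lit 4) (nat_lit 412) (nat_lit 291) (nat_lit 197)) (XT.lf (nat_lit 0) (nat_lit 4175662115) (nat_lit 152) (nat_lit 20352083722) (nat_lit 76) (nat_lit 10086558577) (nat_lit 24) (nat_lit 5) (nat_lit 26) (nat_lit 5) (nat_lit 25) (nat_lit 4) (nat_lit 413) (nat_lit 291) (nat_lit 196))))) (XT.nd (nat_lit 234) (nat_lit 152) (nat_lit 0) (XT.nd (nat_lit 78) (nat_lit 76) (nat_lit 0) (XT.lf (nat_lit 0) (nat_lit 10057058290) (nat_lit 152) (nat_lit 8466749961) (nat_lit 76) (nat_lit 16928601218) (nat_lit 24) (nat_lit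 5) (nat_lit 26) (nat_lit 5) (nat_lit 25) (nat_lit 4) (nat_lit 414) (nat_lit 291) (nat_lit 195)) (XT.nd (nat_lit 78) (nat_lit 0) (nat_lit 0) (XT.lf (nat_lit 0) (nat_lit 3810863551) (nat_lit 76) (nat_lit 12320058812) (nat_lit 152) (nat_lit 20184257110) (nat_lit 23) (nat_lit 5) (nat_lit 24) (nat_lit 5) (nat_lit 25) (nat_lit 4) (nat_lit 415) (nat_lit 291) (nat_lit 194)) (XT.lf (nat_lit 0) (nat_lit 16592100468) (nat_lit 76) (nat_lit 5860025481) (nat_lit 152) (nat_lit 14749755422) (nat_lit 23) (nat_lit 5) (nat_lit 24) (nat_lit 5) (nat_lit 25) (nat_lit 4) (nat_lit 416) (nat_lit 291) (nat_lit 193)))) (XT.nd (nat_lit 156) (nat_lit 76) (nat_lit 0) (XT.nd (nat_lit 78) (nat_lit 76) (nat_lit 0) (XT.lf (nat_lit 0) (nat_lit 28950648687) (nat_lit 152) (nat_lit 8403619844) (nat_lit 0) (nat_lit 761287736) (nat_lit 23) (nat_lit 5) (nat_lit 25) (nat_lit 4) (nat_lit 23) (nat_lit 4) (nat_lit 417) (nat_lit 291) (nat_lit 192))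 (XT.lf (nat_lit 0) (nat_lit 4155306094) (nat_lit 76) (nat_lit 31567417870) (nat_lit 76) (nat_lit 3331561899) (nat_lit 22) (nat_lit 4) (nat_lit 23) (nat_lit 5) (nat_lit 23) (nat_lit 4) (nat_lit 418) (nat_lit 291) (nat_lit 191))) (XT.nd (nat_lit 78) (nat_lit 0) (nat_lit 0) (XT.lf (nat_lit 0) (nat_lit 2690909145) (nat_lit 152) (nat_lit 22818451203) (nat_lit 76) (nat_lit 14509056536) (nat_lit 21) (nat_lit 5) (nat_lit 23) (nat_lit 5) (nat_lit 22) (nat_lit 4) (nat_lit 419) (nat_lit 291) (nat_lit 190)) (XT.lf (nat_lit 0) (nat_lit 8808314984) (nat_lit 152) (nat_lit 10443943367) (nat_lit 76) (nat_lit 21758789419) (nat_lit 21) (nat_lit 5) (nat_lit 23) (nat_lit 5) (nat_lit 22) (nat_lit 4) (nat_lit 420) (nat_lit 291) (nat_lit 189))))))))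
noncomputable def xc83 : XT := (XT.nd (nat_lit 38688) (nat_lit 0) (nat_lit 10564) (XT.nd (nat_lit 1014) (nat_lit 380) (nat_lit 0) (XT.nd (nat_lit 468) (nat_lit 152) (nat_lit 0) (XT.nd (nat_lit 234) (nat_lit 152) (nat_lit 0) (XT.nd (nat_lit 78) (nat_lit 0) (nat_lit 0) (XT.lf (nat_lit 0) (nat_lit 2312506761) (nat_lit 76) (nat_lit 12800734163) (nat_lit 152) (nat_lit 26920098816) (nat_lit 20) (nat_lit 5) (nat_lit 21) (nat_lit 5) (nat_lit 22) (nat_lit 4) (nat_lit 421) (nat_lit 291) (nat_lit 188)) (XT.nd (nat_lit 78) (nat_lit 0) (nat_lit 0) (XT.lf (nat_lit 0) (nat_lit 15631660150) (nat_lit 76) (nat_lit 6063089943) (nat_lit 152) (nat_lit 21388929348) (nat_lit 20) (nat_lit 5) (nat_lit 21) (nat_lit 5) (nat_lit 22) (nat_lit 4) (nat_lit 422) (nat_lit 291) (nat_lit 187)) (XT.lf (nat_lit 0) (nat_lit 28464479125) (nat_lit 152) (nat_lit 14857033856) (nat_lit 0) (nat_lit 844295092) (nat_lit 20) (nat_lit 5) (nat_lit 22)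 (nat_lit 4) (nat_lit 20) (nat_lit 4) (nat_lit 423) (nat_lit 291) (nat_lit 186)))) (XT.nd (nat_lit 78) (nat_lit 152) (nat_lit 0) (XT.lf (nat_lit 0) (nat_lit 35480192143) (nat_lit 152) (nat_lit 1976720171) (nat_lit 0) (nat_lit 7822203403) (nat_lit 20) (nat_lit 5) (nat_lit 22) (nat_lit 4) (nat_lit 20) (nat_lit 4) (nat_lit 424) (nat_lit 291) (nat_lit 185)) (XT.nd (nat_lit 78) (nat_lit 76) (nat_lit 0) (XT.lf (nat_lit 0) (nat_lit 11482523934) (nat_lit 76) (nat_lit 31317590364) (nat_lit 76) (nat_lit 3622898025) (nat_lit 19) (nat_lit 4) (nat_lit 20) (nat_lit 5) (nat_lit 20) (nat_lit 4) (nat_lit 425) (nat_lit 291) (nat_lit 184)) (XT.lf (nat_lit 0) (nat_lit 2688511111) (nat_lit 152) (nat_lit 22272649345) (nat_lit 76) (nat_lit 22639171257) (nat_lit 18) (nat_lit 5) (nat_lit 20) (nat_lit 5) (nat_lit 19) (nat_lit 4) (nat_lit 426) (nat_lit 291) (nat_lit 183))))) (XT.nd (nat_lit 234) (nat_lit 76) (nat_lit 0) (XT.nd (nat_lit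 78) (nat_lit 76) (nat_lit 0) (XT.lf (nat_lit 0) (nat_lit 9100310321) (nat_lit 152) (nat_lit 9291293610) (nat_lit 76) (nat_lit 30420776416) (nat_lit 18) (nat_lit 5) (nat_lit 20) (nat_lit 5) (nat_lit 19) (nat_lit 4) (nat_lit 427) (nat_lit 291) (nat_lit 182)) (XT.nd (nat_lit 78) (nat_lit 0) (nat_lit 0) (XT.lf (nat_lit 0) (nat_lit 4130345170) (nat_lit 76) (nat_lit 11598156172) (nat_lit 152) (nat_lit 34331569619) (nat_lit 17) (nat_lit 5) (nat_lit 18) (nat_lit 5) (nat_lit 19) (nat_lit 4) (nat_lit 428) (nat_lit 291) (nat_lit 181)) (XT.lf (nat_lit 0) (nat_lit 18115631709) (nat_lit 76) (nat_lit 4518237718) (nat_lit 152) (nat_lit 28708974533) (nat_lit 17) (nat_lit 5) (nat_lit 18) (nat_lit 5) (nat_lit 19) (nat_lit 4) (nat_lit 429) (nat_lit 291) (nat_lit 180)))) (XT.nd (nat_lit 156) (nat_lit 76) (nat_lit 0) (XT.nd (nat_lit 78) (nat_lit 0) (nat_lit 0) (XT.lf (nat_lit 0) (nat_lit 29757893025) (nat_lit 152) (nat_lit 20199217498)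 (nat_lit 0) (nat_lit 2706646350) (nat_lit 17) (nat_lit 5) (nat_lit 19) (nat_lit 4) (nat_lit 17) (nat_lit 4) (nat_lit 430) (nat_lit 291) (nat_lit 179)) (XT.lf (nat_lit 0) (nat_lit 37125642586) (nat_lit 152) (nat_lit 6853203420) (nat_lit 0) (nat_lit 10044552526) (nat_lit 17) (nat_lit 5) (nat_lit 19) (nat_lit 4) (nat_lit 17) (nat_lit 4) (nat_lit 431) (nat_lit 291) (nat_lit 178))) (XT.nd (nat_lit 78) (nat_lit 0) (nat_lit 0) (XT.lf (nat_lit 0) (nat_lit 7002568954) (nat_lit 76) (nat_lit 37764867905) (nat_lit 76) (nat_lit 10654803685) (nat_lit 16) (nat_lit 4) (nat_lit 17) (nat_lit 5) (nat_lit 17) (nat_lit 4) (nat_lit 432) (nat_lit 291) (nat_lit 177)) (XT.lf (nat_lit 0) (nat_lit 21387498314) (nat_lit 76) (nat_lit 31306046800) (nat_lit 76) (nat_lit 4167852327) (nat_lit 16) (nat_lit 4) (nat_lit 17) (nat_lit 5) (nat_lit 17) (nat_lit 4) (nat_lit 433) (nat_lit 291) (nat_lit 176)))))) (XT.nd (nat_lit 546) (nat_lit 228)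 (nat_lit 0) (XT.nd (nat_lit 234) (nat_lit 0) (nat_lit 0) (XT.nd (nat_lit 78) (nat_lit 76) (nat_lit 0) (XT.lf (nat_lit 0) (nat_lit 2450786954) (nat_lit 152) (nat_lit 22190407880) (nat_lit 76) (nat_lit 33702226730) (nat_lit 15) (nat_lit 5) (nat_lit 17) (nat_lit 5) (nat_lit 16) (nat_lit 4) (nat_lit 434) (nat_lit 291) (nat_lit 175)) (XT.nd (nat_lit 78) (nat_lit 76) (nat_lit 0) (XT.lf (nat_lit 0) (nat_lit 9170750535) (nat_lit 152) (nat_lit 8575397270) (nat_lit 76) (nat_lit 42122925891) (nat_lit 15) (nat_lit 5) (nat_lit 17) (nat_lit 5) (nat_lit 16) (nat_lit 4) (nat_lit 435) (nat_lit 291) (nat_lit 174)) (XT.lf (nat_lit 0) (nat_lit 5531023448) (nat_lit 76) (nat_lit 10601384173) (nat_lit 152) (nat_lit 45306886202) (nat_lit 14) (nat_lit 5) (nat_lit 15) (nat_lit 5) (nat_lit 16) (nat_lit 4) (nat_lit 436) (nat_lit 291) (nat_lit 173)))) (XT.nd (nat_lit 156) (nat_lit 0) (nat_lit 0) (XT.nd (nat_lit 78) (nat_lit 0) (nat_lit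 0) (XT.lf (nat_lit 0) (nat_lit 20211698435) (nat_lit 76) (nat_lit 3164880788) (nat_lit 152) (nat_lit 39677832618) (nat_lit 14) (nat_lit 5) (nat_lit 15) (nat_lit 5) (nat_lit 16) (nat_lit 4) (nat_lit 437) (nat_lit 291) (nat_lit 172)) (XT.lf (nat_lit 0) (nat_lit 30868618569) (nat_lit 152) (nat_lit 29452668842) (nat_lit 0) (nat_lit 4395780907) (nat_lit 14) (nat_lit 5) (nat_lit 16) (nat_lit 4) (nat_lit 14) (nat_lit 4) (nat_lit 438) (nat_lit 291) (nat_lit 171))) (XT.nd (nat_lit 78) (nat_lit 0) (nat_lit 0) (XT.lf (nat_lit 0) (nat_lit 38604460003) (nat_lit 152) (nat_lit 15715824547) (nat_lit 0) (nat_lit 12108749872) (nat_lit 14) (nat_lit 5) (nat_lit 16) (nat_lit 4) (nat_lit 14) (nat_lit 4) (nat_lit 439) (nat_lit 291) (nat_lit 170)) (XT.lf (nat_lit 0) (nat_lit 46560440230) (nat_lit 152) (nat_lit 1589754683) (nat_lit 0) (nat_lit 20042523817) (nat_lit 14) (nat_lit 5) (nat_lit 16) (nat_lit 4) (nat_lit 14) (nat_lit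 4) (nat_lit 440) (nat_lit 291) (nat_lit 169))))) (XT.nd (nat_lit 234) (nat_lit 152) (nat_lit 0) (XT.nd (nat_lit 78) (nat_lit 0) (nat_lit 0) (XT.lf (nat_lit 0) (nat_lit 13195373176) (nat_lit 76) (nat_lit 41674979899) (nat_lit 76) (nat_lit 15135503990) (nat_lit 13) (nat_lit 4) (nat_lit 14) (nat_lit 5) (nat_lit 14) (nat_lit 4) (nat_lit 441) (nat_lit 291) (nat_lit 168)) (XT.nd (nat_lit 78) (nat_lit 0) (nat_lit 0) (XT.lf (nat_lit 0) (nat_lit 28434647703) (nat_lit 76) (nat_lit 34999506323) (nat_lit 76) (nat_lit 8439098865) (nat_lit 13) (nat_lit 4) (nat_lit 14) (nat_lit 5) (nat_lit 14) (nat_lit 4) (nat_lit 442) (nat_lit 291) (nat_lit 167)) (XT.lf (nat_lit 0) (nat_lit 44109745533) (nat_lit 76) (nat_lit 28133994653) (nat_lit 76) (nat_lit 1553265302) (nat_lit 13) (nat_lit 4) (nat_lit 14) (nat_lit 5) (nat_lit 14) (nat_lit 4) (nat_lit 443) (nat_lit 291) (nat_lit 166)))) (XT.nd (nat_lit 156) (nat_lit 76) (nat_lit 0)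 (XT.nd (nat_lit 78) (nat_lit 0) (nat_lit 0) (XT.lf (nat_lit 0) (nat_lit 5420141993) (nat_lit 152) (nat_lit 15597571098) (nat_lit 76) (nat_lit 54759488553) (nat_lit 12) (nat_lit 5) (nat_lit 14) (nat_lit 5) (nat_lit 13) (nat_lit 4) (nat_lit 444) (nat_lit 291) (nat_lit 165)) (XT.lf (nat_lit 0) (nat_lit 12560937617) (nat_lit 152) (nat_lit 1120911313) (nat_lit 76) (nat_lit 64134812176) (nat_lit 12) (nat_lit 5) (nat_lit 14) (nat_lit 5) (nat_lit 13) (nat_lit 4) (nat_lit 445) (nat_lit 291) (nat_lit 164))) (XT.nd (nat_lit 78) (nat_lit 0) (nat_lit 0) (XT.lf (nat_lit 0) (nat_lit 14044355810) (nat_lit 76) (nat_lit 5996318031) (nat_lit 152) (nat_lit 59872889927) (nat_lit 11) (nat_lit 5) (nat_lit 12) (nat_lit 5) (nat_lit 13) (nat_lit 4) (nat_lit 446) (nat_lit 291) (nat_lit 163)) (XT.lf (nat_lit 0) (nat_lit 27764422565) (nat_lit 152) (nat_lit 52423812333) (nat_lit 0) (nat_lit 1884550889) (nat_lit 11) (nat_lit 5) (nat_lit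 13) (nat_lit 4) (nat_lit 11) (nat_lit 4) (nat_lit 447) (nat_lit 291) (nat_lit 162))))))) (XT.nd (nat_lit 1014) (nat_lit 5396) (nat_lit 0) (XT.nd (nat_lit 468) (nat_lit 4636) (nat_lit 0) (XT.nd (nat_lit 234) (nat_lit 1824) (nat_lit 0) (XT.nd (nat_lit 78) (nat_lit 1520) (nat_lit 0) (XT.lf (nat_lit 0) (nat_lit 1641432541) (nat_lit 684) (nat_lit 78335986) (nat_lit 0) (nat_lit 1641432541) (nat_lit 326) (nat_lit 5) (nat_lit 335) (nat_lit 4) (nat_lit 326) (nat_lit 4) (nat_lit 316) (nat_lit 292) (nat_lit 292)) (XT.nd (nat_lit 78) (nat_lit 836) (nat_lit 0) (XT.lf (nat_lit 0) (nat_lit 4191446341) (nat_lit 684) (nat_lit 2336771080) (nat_lit 684) (nat_lit 231013191) (nat_lit 317) (nat_lit 4) (nat_lit 326) (nat_lit 5) (nat_lit 326) (nat_lit 4) (nat_lit 317) (nat_lit 292) (nat_lit 291)) (XT.lf (nat_lit 0) (nat_lit 1795235990) (nat_lit 760) (nat_lit 1133541849) (nat_lit 836) (nat_lit 3870150671) (nat_lit 306) (nat_lit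 5) (nat_lit 316) (nat_lit 5) (nat_lit 317) (nat_lit 4) (nat_lit 318) (nat_lit 292) (nat_lit 290)))) (XT.nd (nat_lit 78) (nat_lit 1824) (nat_lit 0) (XT.lf (nat_lit 0) (nat_lit 6104418482) (nat_lit 836) (nat_lit 589609271) (nat_lit 0) (nat_lit 148047805) (nat_lit 306) (nat_lit 5) (nat_lit 317) (nat_lit 4) (nat_lit 306) (nat_lit 4) (nat_lit 319) (nat_lit 292) (nat_lit 289)) (XT.nd (nat_lit 78) (nat_lit 912) (nat_lit 0) (XT.lf (nat_lit 0) (nat_lit 2390175954) (nat_lit 912) (nat_lit 2975252099) (nat_lit 76) (nat_lit 1521965518) (nat_lit 294) (nat_lit 5) (nat_lit 306) (nat_lit 5) (nat_lit 295) (nat_lit 4) (nat_lit 320) (nat_lit 292) (nat_lit 288)) (XT.lf (nat_lit 0) (nat_lit 1562881270) (nat_lit 912) (nat_lit 3957628981) (nat_lit 988) (nat_lit 1415726495) (nat_lit 282) (nat_lit 5) (nat_lit 294) (nat_lit 5) (nat_lit 295) (nat_lit 4) (nat_lit 321) (nat_lit 292) (nat_lit 287))))) (XT.nd (nat_lit 234) (nat_lit 2432)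 (nat_lit 0) (XT.nd (nat_lit 78) (nat_lit 2128) (nat_lit 0) (XT.lf (nat_lit 0) (nat_lit 1657676442) (nat_lit 988) (nat_lit 793235695) (nat_lit 76) (nat_lit 4537197129) (nat_lit 281) (nat_lit 5) (nat_lit 294) (nat_lit 5) (nat_lit 282) (nat_lit 5) (nat_lit 322) (nat_lit 292) (nat_lit 286)) (XT.nd (nat_lit 78) (nat_lit 1140) (nat_lit 0) (XT.lf (nat_lit 0) (nat_lit 3900418945) (nat_lit 988) (nat_lit 838148024) (nat_lit 1064) (nat_lit 2304320178) (nat_lit 268) (nat_lit 5) (nat_lit 281) (nat_lit 5) (nat_lit 282) (nat_lit 5) (nat_lit 323) (nat_lit 292) (nat_lit 285)) (XT.lf (nat_lit 0) (nat_lit 735522576) (nat_lit 1140) (nat_lit 5521379912) (nat_lit 76) (nat_lit 844084661) (nat_lit 253) (nat_lit 5) (nat_lit 268) (nat_lit 5) (nat_lit 254) (nat_lit 5) (nat_lit 324) (nat_lit 292) (nat_lit 284)))) (XT.nd (nat_lit 156) (nat_lit 1292) (nat_lit 0) (XT.nd (nat_lit 78) (nat_lit 1140) (nat_lit 0) (XT.lf (nat_lit 0) (nat_lit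 3769684629) (nat_lit 1140) (nat_lit 772584111) (nat_lit 76) (nat_lit 2619468756) (nat_lit 253) (nat_lit 5) (nat_lit 268) (nat_lit 5) (nat_lit 254) (nat_lit 5) (nat_lit 325) (nat_lit 292) (nat_lit 283)) (XT.lf (nat_lit 0) (nat_lit 4112477560) (nat_lit 1140) (nat_lit 2733666527) (nat_lit 1216) (nat_lit 379700862) (nat_lit 238) (nat_lit 5) (nat_lit 253) (nat_lit 5) (nat_lit 254) (nat_lit 5) (nat_lit 326) (nat_lit 292) (nat_lit 282))) (XT.nd (nat_lit 78) (nat_lit 0) (nat_lit 0) (XT.lf (nat_lit 0) (nat_lit 1789546122) (nat_lit 1216) (nat_lit 817983549) (nat_lit 1292) (nat_lit 4685499970) (nat_lit 221) (nat_lit 5) (nat_lit 237) (nat_lit 5) (nat_lit 238) (nat_lit 5) (nat_lit 327) (nat_lit 292) (nat_lit 281)) (XT.lf (nat_lit 0) (nat_lit 5633869539) (nat_lit 1292) (nat_lit 562275424) (nat_lit 76) (nat_lit 1167325004) (nat_lit 221) (nat_lit 5) (nat_lit 238) (nat_lit 5) (nat_lit 222) (nat_lit 5) (nat_lit 328) (nat_lit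 292) (nat_lit 280)))))) (XT.nd (nat_lit 546) (nat_lit 2356) (nat_lit 0) (XT.nd (nat_lit 234) (nat_lit 1824) (nat_lit 0) (XT.nd (nat_lit 78) (nat_lit 532) (nat_lit 0) (XT.lf (nat_lit 0) (nat_lit 1257260368) (nat_lit 684) (nat_lit 2928663697) (nat_lit 76) (nat_lit 3250744675) (nat_lit 212) (nat_lit 5) (nat_lit 221) (nat_lit 5) (nat_lit 213) (nat_lit 5) (nat_lit 329) (nat_lit 292) (nat_lit 279)) (XT.nd (nat_lit 78) (nat_lit 0) (nat_lit 0) (XT.lf (nat_lit 0) (nat_lit 2167707318) (nat_lit 532) (nat_lit 2075324817) (nat_lit 608) (nat_lit 3270256489) (nat_lit 205) (nat_lit 5) (nat_lit 212) (nat_lit 5) (nat_lit 213) (nat_lit 5) (nat_lit 330) (nat_lit 292) (nat_lit 278)) (XT.lf (nat_lit 0) (nat_lit 7268204767) (nat_lit 608) (nat_lit 204570202) (nat_lit 76) (nat_lit 120996476) (nat_lit 205) (nat_lit 5) (nat_lit 213) (nat_lit 5) (nat_lit 206) (nat_lit 5) (nat_lit 331) (nat_lit 292) (nat_lit 277)))) (XT.nd (nat_lit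 156) (nat_lit 608) (nat_lit 0) (XT.nd (nat_lit 78) (nat_lit 532) (nat_lit 0) (XT.lf (nat_lit 0) (nat_lit 2645263676) (nat_lit 684) (nat_lit 2620049178) (nat_lit 76) (nat_lit 2410911930) (nat_lit 196) (nat_lit 5) (nat_lit 205) (nat_lit 5) (nat_lit 197) (nat_lit 5) (nat_lit 332) (nat_lit 292) (nat_lit 276)) (XT.lf (nat_lit 0) (nat_lit 2679714382) (nat_lit 532) (nat_lit 2968827389) (nat_lit 608) (nat_lit 2114071404) (nat_lit 189) (nat_lit 5) (nat_lit 196) (nat_lit 5) (nat_lit 197) (nat_lit 5) (nat_lit 333) (nat_lit 292) (nat_lit 275))) (XT.nd (nat_lit 78) (nat_lit 0) (nat_lit 0) (XT.lf (nat_lit 0) (nat_lit 249512550) (nat_lit 532) (nat_lit 575209979) (nat_lit 608) (nat_lit 7028111849) (nat_lit 181) (nat_lit 5) (nat_lit 188) (nat_lit 5) (nat_lit 189) (nat_lit 5) (nat_lit 334) (nat_lit 292) (nat_lit 274)) (XT.lf (nat_lit 0) (nat_lit 3803157244) (nat_lit 608) (nat_lit 2227015687) (nat_lit 76) (nat_lit 1915191868)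 (nat_lit 181) (nat_lit 5) (nat_lit 189) (nat_lit 5) (nat_lit 182) (nat_lit 5) (nat_lit 335) (nat_lit 292) (nat_lit 273))))) (XT.nd (nat_lit 234) (nat_lit 1368) (nat_lit 0) (XT.nd (nat_lit 78) (nat_lit 532) (nat_lit 0) (XT.lf (nat_lit 0) (nat_lit 3282258950) (nat_lit 456) (nat_lit 3552109257) (nat_lit 532) (nat_lit 1207448340) (nat_lit 175) (nat_lit 5) (nat_lit 181) (nat_lit 5) (nat_lit 182) (nat_lit 5) (nat_lit 336) (nat_lit 292) (nat_lit 272)) (XT.nd (nat_lit 78) (nat_lit 0) (nat_lit 0) (XT.lf (nat_lit 0) (nat_lit 772040737) (nat_lit 456) (nat_lit 964759871) (nat_lit 532) (nat_lit 6405176947) (nat_lit 168) (nat_lit 5) (nat_lit 174) (nat_lit 5) (nat_lit 175) (nat_lit 5) (nat_lit 337) (nat_lit 292) (nat_lit 271)) (XT.lf (nat_lit 0) (nat_lit 4737891703) (nat_lit 532) (nat_lit 1793857509) (nat_lit 76) (nat_lit 1713296067) (nat_lit 168) (nat_lit 5) (nat_lit 175) (nat_lit 5) (nat_lit 169) (nat_lit 5) (nat_lit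 338) (nat_lit 292) (nat_lit 270)))) (XT.nd (nat_lit 156) (nat_lit 380) (nat_lit 0) (XT.nd (nat_lit 78) (nat_lit 532) (nat_lit 0) (XT.lf (nat_lit 0) (nat_lit 3930697853) (nat_lit 456) (nat_lit 3875655649) (nat_lit 532) (nat_lit 545574138) (nat_lit 162) (nat_lit 5) (nat_lit 168) (nat_lit 5) (nat_lit 169) (nat_lit 5) (nat_lit 339) (nat_lit 292) (nat_lit 269)) (XT.lf (nat_lit 0) (nat_lit 1317197825) (nat_lit 456) (nat_lit 1100232252) (nat_lit 532) (nat_lit 6045060659) (nat_lit 155) (nat_lit 5) (nat_lit 161) (nat_lit 5) (nat_lit 162) (nat_lit 5) (nat_lit 340) (nat_lit 292) (nat_lit 268))) (XT.nd (nat_lit 78) (nat_lit 380) (nat_lit 0) (XT.lf (nat_lit 0) (nat_lit 5451884030) (nat_lit 532) (nat_lit 1366978903) (nat_lit 76) (nat_lit 1757579103) (nat_lit 155) (nat_lit 5) (nat_lit 162) (nat_lit 5) (nat_lit 156) (nat_lit 5) (nat_lit 341) (nat_lit 292) (nat_lit 267)) (XT.lf (nat_lit 0) (nat_lit 4578067866) (nat_lit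 380) (nat_lit 3987732457) (nat_lit 456) (nat_lit 128396671) (nat_lit 150) (nat_lit 5) (nat_lit 155) (nat_lit 5) (nat_lit 156) (nat_lit 5) (nat_lit 342) (nat_lit 292) (nat_lit 266))))))))
noncomputable def xc84 : XT := (XT.nd (nat_lit 2028) (nat_lit 2736) (nat_lit 0) (XT.nd (nat_lit 1014) (nat_lit 2204) (nat_lit 0) (XT.nd (nat_lit 468) (nat_lit 1824) (nat_lit 0) (XT.nd (nat_lit 234) (nat_lit 684) (nat_lit 0) (XT.nd (nat_lit 78) (nat_lit 456) (nat_lit 0) (XT.lf (nat_lit 0) (nat_lit 1836105035) (nat_lit 456) (nat_lit 1029391783) (nat_lit 532) (nat_lit 5950203808) (nat_lit 143) (nat_lit 5) (nat_lit 149) (nat_lit 5) (nat_lit 150) (nat_lit 5) (nat_lit 343) (nat_lit 292) (nat_lit 265)) (XT.nd (nat_lit 78) (nat_lit 456) (nat_lit 0) (XT.lf (nat_lit 0) (nat_lit 5942887824) (nat_lit 532) (nat_lit 995924508) (nat_lit 76) (nat_lit 2002145812) (nat_lit 143) (nat_lit 5) (nat_lit 150) (nat_lit 5) (nat_lit 144) (nat_lit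 5) (nat_lit 344) (nat_lit 292) (nat_lit 264)) (XT.lf (nat_lit 0) (nat_lit 38443651) (nat_lit 456) (nat_lit 3896460681) (nat_lit 76) (nat_lit 5135190075) (nat_lit 137) (nat_lit 5) (nat_lit 143) (nat_lit 5) (nat_lit 138) (nat_lit 5) (nat_lit 345) (nat_lit 292) (nat_lit 263)))) (XT.nd (nat_lit 78) (nat_lit 304) (nat_lit 0) (XT.lf (nat_lit 0) (nat_lit 2276056724) (nat_lit 380) (nat_lit 798953318) (nat_lit 456) (nat_lit 6128159550) (nat_lit 132) (nat_lit 5) (nat_lit 137) (nat_lit 5) (nat_lit 138) (nat_lit 5) (nat_lit 346) (nat_lit 292) (nat_lit 262)) (XT.nd (nat_lit 78) (nat_lit 304) (nat_lit 0) (XT.lf (nat_lit 0) (nat_lit 6203774315) (nat_lit 456) (nat_lit 734503613) (nat_lit 76) (nat_lit 2401956958) (nat_lit 132) (nat_lit 5) (nat_lit 138) (nat_lit 5) (nat_lit 133) (nat_lit 5) (nat_lit 347) (nat_lit 292) (nat_lit 261)) (XT.lf (nat_lit 0) (nat_lit 5663665112) (nat_lit 304) (nat_lit 3764891109) (nat_lit 380)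 (nat_lit 52821257) (nat_lit 128) (nat_lit 5) (nat_lit 132) (nat_lit 5) (nat_lit 133) (nat_lit 5) (nat_lit 348) (nat_lit 292) (nat_lit 260))))) (XT.nd (nat_lit 234) (nat_lit 1064) (nat_lit 0) (XT.nd (nat_lit 78) (nat_lit 304) (nat_lit 0) (XT.lf (nat_lit 0) (nat_lit 2579304195) (nat_lit 380) (nat_lit 455511637) (nat_lit 456) (nat_lit 6591892998) (nat_lit 122) (nat_lit 5) (nat_lit 127) (nat_lit 5) (nat_lit 128) (nat_lit 5) (nat_lit 349) (nat_lit 292) (nat_lit 259)) (XT.nd (nat_lit 78) (nat_lit 304) (nat_lit 0) (XT.lf (nat_lit 0) (nat_lit 6222217398) (nat_lit 456) (nat_lit 642031581) (nat_lit 76) (nat_lit 2911916979) (nat_lit 122) (nat_lit 5) (nat_lit 128) (nat_lit 5) (nat_lit 123) (nat_lit 5) (nat_lit 350) (nat_lit 292) (nat_lit 258)) (XT.lf (nat_lit 0) (nat_lit 5986266006) (nat_lit 304) (nat_lit 3523627151) (nat_lit 380) (nat_lit 420100717) (nat_lit 118) (nat_lit 5) (nat_lit 122) (nat_lit 5) (nat_lit 123)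 (nat_lit 5) (nat_lit 351) (nat_lit 292) (nat_lit 257)))) (XT.nd (nat_lit 156) (nat_lit 684) (nat_lit 0) (XT.nd (nat_lit 78) (nat_lit 0) (nat_lit 0) (XT.lf (nat_lit 0) (nat_lit 2681704847) (nat_lit 304) (nat_lit 46503211) (nat_lit 380) (nat_lit 7360186927) (nat_lit 113) (nat_lit 5) (nat_lit 117) (nat_lit 5) (nat_lit 118) (nat_lit 5) (nat_lit 352) (nat_lit 292) (nat_lit 256)) (XT.lf (nat_lit 0) (nat_lit 5980274057) (nat_lit 380) (nat_lit 784714496) (nat_lit 76) (nat_lit 3485926625) (nat_lit 113) (nat_lit 5) (nat_lit 118) (nat_lit 5) (nat_lit 114) (nat_lit 5) (nat_lit 353) (nat_lit 292) (nat_lit 255))) (XT.nd (nat_lit 78) (nat_lit 380) (nat_lit 0) (XT.lf (nat_lit 0) (nat_lit 6073816470) (nat_lit 304) (nat_lit 3260128707) (nat_lit 380) (nat_lit 1084268171) (nat_lit 109) (nat_lit 5) (nat_lit 113) (nat_lit 5) (nat_lit 114) (nat_lit 5) (nat_lit 354) (nat_lit 292) (nat_lit 254)) (XT.lf (nat_lit 0) (nat_lit 2136067625)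 (nat_lit 380) (nat_lit 8083023565) (nat_lit 76) (nat_lit 371390118) (nat_lit 104) (nat_lit 5) (nat_lit 109) (nat_lit 5) (nat_lit 105) (nat_lit 5) (nat_lit 355) (nat_lit 292) (nat_lit 253)))))) (XT.nd (nat_lit 468) (nat_lit 1064) (nat_lit 0) (XT.nd (nat_lit 234) (nat_lit 532) (nat_lit 0) (XT.nd (nat_lit 78) (nat_lit 608) (nat_lit 0) (XT.lf (nat_lit 0) (nat_lit 5453849436) (nat_lit 380) (nat_lit 1237206446) (nat_lit 76) (nat_lit 4075882162) (nat_lit 104) (nat_lit 5) (nat_lit 109) (nat_lit 5) (nat_lit 105) (nat_lit 5) (nat_lit 356) (nat_lit 292) (nat_lit 252)) (XT.nd (nat_lit 78) (nat_lit 380) (nat_lit 0) (XT.lf (nat_lit 0) (nat_lit 5849408870) (nat_lit 228) (nat_lit 3025601316) (nat_lit 304) (nat_lit 2073583960) (nat_lit 101) (nat_lit 5) (nat_lit 104) (nat_lit 5) (nat_lit 105) (nat_lit 5) (nat_lit 357) (nat_lit 292) (nat_lit 251)) (XT.lf (nat_lit 0) (nat_lit 1225413624) (nat_lit 380) (nat_lit 9157206541)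 (nat_lit 76) (nat_lit 753126669) (nat_lit 96) (nat_lit 5) (nat_lit 101) (nat_lit 5) (nat_lit 97) (nat_lit 5) (nat_lit 358) (nat_lit 292) (nat_lit 250)))) (XT.nd (nat_lit 78) (nat_lit 532) (nat_lit 0) (XT.lf (nat_lit 0) (nat_lit 4612033403) (nat_lit 380) (nat_lit 2084372877) (nat_lit 76) (nat_lit 4630601271) (nat_lit 96) (nat_lit 5) (nat_lit 101) (nat_lit 5) (nat_lit 97) (nat_lit 5) (nat_lit 359) (nat_lit 292) (nat_lit 249)) (XT.nd (nat_lit 78) (nat_lit 304) (nat_lit 0) (XT.lf (nat_lit 0) (nat_lit 5225395923) (nat_lit 228) (nat_lit 2874960518) (nat_lit 304) (nat_lit 3423665193) (nat_lit 93) (nat_lit 5) (nat_lit 96) (nat_lit 5) (nat_lit 97) (nat_lit 5) (nat_lit 360) (nat_lit 292) (nat_lit 248)) (XT.lf (nat_lit 0) (nat_lit 1002321803) (nat_lit 304) (nat_lit 10682438823) (nat_lit 380) (nat_lit 42460708) (nat_lit 89) (nat_lit 5) (nat_lit 93) (nat_lit 5) (nat_lit 94) (nat_lit 5) (nat_lit 361) (nat_lit 292) (nat_lit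 247))))) (XT.nd (nat_lit 234) (nat_lit 760) (nat_lit 0) (XT.nd (nat_lit 78) (nat_lit 228) (nat_lit 0) (XT.lf (nat_lit 0) (nat_lit 3416292799) (nat_lit 380) (nat_lit 3423298104) (nat_lit 76) (nat_lit 5094653850) (nat_lit 88) (nat_lit 5) (nat_lit 93) (nat_lit 5) (nat_lit 89) (nat_lit 5) (nat_lit 362) (nat_lit 292) (nat_lit 246)) (XT.nd (nat_lit 78) (nat_lit 0) (nat_lit 0) (XT.lf (nat_lit 0) (nat_lit 4101293249) (nat_lit 228) (nat_lit 2868071553) (nat_lit 304) (nat_lit 5178375782) (nat_lit 85) (nat_lit 5) (nat_lit 88) (nat_lit 5) (nat_lit 89) (nat_lit 5) (nat_lit 363) (nat_lit 292) (nat_lit 245)) (XT.lf (nat_lit 0) (nat_lit 10628090345) (nat_lit 304) (nat_lit 533000079) (nat_lit 76) (nat_lit 1206595141) (nat_lit 85) (nat_lit 5) (nat_lit 89) (nat_lit 5) (nat_lit 86) (nat_lit 5) (nat_lit 364) (nat_lit 292) (nat_lit 244)))) (XT.nd (nat_lit 156) (nat_lit 228) (nat_lit 0) (XT.nd (nat_lit 78) (nat_lit 228) (nat_lit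 0) (XT.lf (nat_lit 0) (nat_lit 1819500488) (nat_lit 304) (nat_lit 5365580610) (nat_lit 76) (nat_lit 5407073568) (nat_lit 81) (nat_lit 5) (nat_lit 85) (nat_lit 5) (nat_lit 82) (nat_lit 5) (nat_lit 365) (nat_lit 292) (nat_lit 243)) (XT.lf (nat_lit 0) (nat_lit 2361378923) (nat_lit 228) (nat_lit 3071121968) (nat_lit 304) (nat_lit 7390892106) (nat_lit 78) (nat_lit 5) (nat_lit 81) (nat_lit 5) (nat_lit 82) (nat_lit 5) (nat_lit 366) (nat_lit 292) (nat_lit 242))) (XT.nd (nat_lit 78) (nat_lit 228) (nat_lit 0) (XT.lf (nat_lit 0) (nat_lit 9174148746) (nat_lit 304) (nat_lit 2716023255) (nat_lit 76) (nat_lit 1170803075) (nat_lit 78) (nat_lit 5) (nat_lit 82) (nat_lit 5) (nat_lit 79) (nat_lit 5) (nat_lit 367) (nat_lit 292) (nat_lit 241)) (XT.lf (nat_lit 0) (nat_lit 5262326704) (nat_lit 228) (nat_lit 7802369800) (nat_lit 304) (nat_lit 239902501) (nat_lit 75) (nat_lit 5) (nat_lit 78) (nat_lit 5) (nat_lit 79) (nat_lit 5)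 (nat_lit 368) (nat_lit 292) (nat_lit 240))))))) (XT.nd (nat_lit 1014) (nat_lit 1216) (nat_lit 0) (XT.nd (nat_lit 468) (nat_lit 836) (nat_lit 0) (XT.nd (nat_lit 234) (nat_lit 228) (nat_lit 0) (XT.nd (nat_lit 78) (nat_lit 380) (nat_lit 0) (XT.lf (nat_lit 0) (nat_lit 3431324553) (nat_lit 304) (nat_lit 125563511) (nat_lit 76) (nat_lit 9998137217) (nat_lit 74) (nat_lit 5) (nat_lit 78) (nat_lit 5) (nat_lit 75) (nat_lit 5) (nat_lit 369) (nat_lit 292) (nat_lit 239)) (XT.nd (nat_lit 78) (nat_lit 228) (nat_lit 0) (XT.lf (nat_lit 0) (nat_lit 7251343355) (nat_lit 228) (nat_lit 5705991511) (nat_lit 76) (nat_lit 854266643) (nat_lit 72) (nat_lit 5) (nat_lit 75) (nat_lit 5) (nat_lit 73) (nat_lit 5) (nat_lit 370) (nat_lit 292) (nat_lit 238)) (XT.lf (nat_lit 0) (nat_lit 2452379407) (nat_lit 228) (nat_lit 8751073423) (nat_lit 304) (nat_lit 2871909841) (nat_lit 69) (nat_lit 5) (nat_lit 72) (nat_lit 5) (nat_lit 73) (nat_lit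 5) (nat_lit 371) (nat_lit 292) (nat_lit 237)))) (XT.nd (nat_lit 78) (nat_lit 152) (nat_lit 0) (XT.lf (nat_lit 0) (nat_lit 924746536) (nat_lit 304) (nat_lit 3453186530) (nat_lit 76) (nat_lit 9968375439) (nat_lit 68) (nat_lit 5) (nat_lit 72) (nat_lit 5) (nat_lit 69) (nat_lit 5) (nat_lit 372) (nat_lit 292) (nat_lit 236)) (XT.nd (nat_lit 78) (nat_lit 0) (nat_lit 0) (XT.lf (nat_lit 0) (nat_lit 4785769232) (nat_lit 228) (nat_lit 9664768958) (nat_lit 76) (nat_lit 173757111) (nat_lit 66) (nat_lit 5) (nat_lit 69) (nat_lit 5) (nat_lit 67) (nat_lit 5) (nat_lit 373) (nat_lit 292) (nat_lit 235)) (XT.lf (nat_lit 0) (nat_lit 8800260202) (nat_lit 228) (nat_lit 1326952264) (nat_lit 76) (nat_lit 4782291079) (nat_lit 66) (nat_lit 5) (nat_lit 69) (nat_lit 5) (nat_lit 67) (nat_lit 5) (nat_lit 374) (nat_lit 292) (nat_lit 234))))) (XT.nd (nat_lit 234) (nat_lit 380) (nat_lit 0) (XT.nd (nat_lit 78) (nat_lit 228) (nat_lit 0) (XT.lf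 (nat_lit 0) (nat_lit 7337091332) (nat_lit 228) (nat_lit 5628891195) (nat_lit 304) (nat_lit 2236372267) (nat_lit 63) (nat_lit 5) (nat_lit 66) (nat_lit 5) (nat_lit 67) (nat_lit 5) (nat_lit 375) (nat_lit 292) (nat_lit 233)) (XT.nd (nat_lit 78) (nat_lit 0) (nat_lit 0) (XT.lf (nat_lit 0) (nat_lit 714406546) (nat_lit 152) (nat_lit 984865164) (nat_lit 228) (nat_lit 13804800837) (nat_lit 60) (nat_lit 5) (nat_lit 62) (nat_lit 5) (nat_lit 63) (nat_lit 5) (nat_lit 376) (nat_lit 292) (nat_lit 232)) (XT.lf (nat_lit 0) (nat_lit 5785397841) (nat_lit 228) (nat_lit 6226685335) (nat_lit 76) (nat_lit 3799783288) (nat_lit 60) (nat_lit 5) (nat_lit 63) (nat_lit 5) (nat_lit 61) (nat_lit 5) (nat_lit 377) (nat_lit 292) (nat_lit 231)))) (XT.nd (nat_lit 156) (nat_lit 228) (nat_lit 0) (XT.nd (nat_lit 78) (nat_lit 0) (nat_lit 0) (XT.lf (nat_lit 0) (nat_lit 2568029528) (nat_lit 152) (nat_lit 7422299556) (nat_lit 228) (nat_lit 6138687942)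 (nat_lit 58) (nat_lit 5) (nat_lit 60) (nat_lit 5) (nat_lit 61) (nat_lit 5) (nat_lit 378) (nat_lit 292) (nat_lit 230)) (XT.lf (nat_lit 0) (nat_lit 11689353503) (nat_lit 152) (nat_lit 2657206255) (nat_lit 228) (nat_lit 2108376990) (nat_lit 58) (nat_lit 5) (nat_lit 60) (nat_lit 5) (nat_lit 61) (nat_lit 5) (nat_lit 379) (nat_lit 292) (nat_lit 229))) (XT.nd (nat_lit 78) (nat_lit 0) (nat_lit 0) (XT.lf (nat_lit 0) (nat_lit 2029241895) (nat_lit 228) (nat_lit 12517796983) (nat_lit 76) (nat_lit 2242226882) (nat_lit 55) (nat_lit 5) (nat_lit 58) (nat_lit 5) (nat_lit 56) (nat_lit 5) (nat_lit 380) (nat_lit 292) (nat_lit 228)) (XT.lf (nat_lit 0) (nat_lit 6286738702) (nat_lit 228) (nat_lit 3566472002) (nat_lit 76) (nat_lit 7278652330) (nat_lit 55) (nat_lit 5) (nat_lit 58) (nat_lit 5) (nat_lit 56) (nat_lit 5) (nat_lit 381) (nat_lit 292) (nat_lit 227)))))) (XT.nd (nat_lit 546) (nat_lit 456) (nat_lit 0) (XT.nd (nat_lit 234)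 (nat_lit 380) (nat_lit 0) (XT.nd (nat_lit 78) (nat_lit 228) (nat_lit 0) (XT.lf (nat_lit 0) (nat_lit 5702580576) (nat_lit 152) (nat_lit 4988485032) (nat_lit 228) (nat_lit 6793107627) (nat_lit 53) (nat_lit 5) (nat_lit 55) (nat_lit 5) (nat_lit 56) (nat_lit 5) (nat_lit 382) (nat_lit 292) (nat_lit 226)) (XT.nd (nat_lit 78) (nat_lit 228) (nat_lit 0) (XT.lf (nat_lit 0) (nat_lit 15228592121) (nat_lit 228) (nat_lit 2586023287) (nat_lit 76) (nat_lit 32413168) (nat_lit 53) (nat_lit 5) (nat_lit 56) (nat_lit 5) (nat_lit 54) (nat_lit 4) (nat_lit 383) (nat_lit 292) (nat_lit 225)) (XT.lf (nat_lit 0) (nat_lit 1730798830) (nat_lit 228) (nat_lit 11324917629) (nat_lit 76) (nat_lit 5162111623) (nat_lit 50) (nat_lit 5) (nat_lit 53) (nat_lit 5) (nat_lit 51) (nat_lit 5) (nat_lit 384) (nat_lit 292) (nat_lit 224)))) (XT.nd (nat_lit 156) (nat_lit 228) (nat_lit 0) (XT.nd (nat_lit 78) (nat_lit 152) (nat_lit 0) (XT.lf (nat_lit 0) (nat_lit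 6149859652) (nat_lit 228) (nat_lit 1976508187) (nat_lit 76) (nat_lit 10472853942) (nat_lit 50) (nat_lit 5) (nat_lit 53) (nat_lit 5) (nat_lit 51) (nat_lit 5) (nat_lit 385) (nat_lit 292) (nat_lit 223)) (XT.lf (nat_lit 0) (nat_lit 7744664782) (nat_lit 152) (nat_lit 2997879933) (nat_lit 228) (nat_lit 8248288048) (nat_lit 48) (nat_lit 5) (nat_lit 50) (nat_lit 5) (nat_lit 51) (nat_lit 5) (nat_lit 386) (nat_lit 292) (nat_lit 222))) (XT.nd (nat_lit 78) (nat_lit 228) (nat_lit 0) (XT.lf (nat_lit 0) (nat_lit 15481902443) (nat_lit 228) (nat_lit 1676753080) (nat_lit 76) (nat_lit 2235276626) (nat_lit 48) (nat_lit 5) (nat_lit 51) (nat_lit 5) (nat_lit 49) (nat_lit 4) (nat_lit 387) (nat_lit 292) (nat_lit 221)) (XT.lf (nat_lit 0) (nat_lit 621019955) (nat_lit 228) (nat_lit 11559065657) (nat_lit 76) (nat_lit 7626559890) (nat_lit 45) (nat_lit 5) (nat_lit 48) (nat_lit 5) (nat_lit 46) (nat_lit 5) (nat_lit 388) (nat_lit 292) (nat_lit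 220))))) (XT.nd (nat_lit 234) (nat_lit 304) (nat_lit 0) (XT.nd (nat_lit 78) (nat_lit 152) (nat_lit 0) (XT.lf (nat_lit 0) (nat_lit 5196348993) (nat_lit 228) (nat_lit 1823477342) (nat_lit 76) (nat_lit 13211210716) (nat_lit 45) (nat_lit 5) (nat_lit 48) (nat_lit 5) (nat_lit 46) (nat_lit 5) (nat_lit 389) (nat_lit 292) (nat_lit 219)) (XT.nd (nat_lit 78) (nat_lit 0) (nat_lit 0) (XT.lf (nat_lit 0) (nat_lit 8310661217) (nat_lit 152) (nat_lit 1646917482) (nat_lit 228) (nat_lit 10709128499) (nat_lit 43) (nat_lit 5) (nat_lit 45) (nat_lit 5) (nat_lit 46) (nat_lit 5) (nat_lit 390) (nat_lit 292) (nat_lit 218)) (XT.lf (nat_lit 0) (nat_lit 14886507403) (nat_lit 228) (nat_lit 2422080772) (nat_lit 76) (nat_lit 3806119312) (nat_lit 43) (nat_lit 5) (nat_lit 46) (nat_lit 5) (nat_lit 44) (nat_lit 4) (nat_lit 391) (nat_lit 292) (nat_lit 217)))) (XT.nd (nat_lit 156) (nat_lit 152) (nat_lit 0) (XT.nd (nat_lit 78) (nat_lit 76) (nat_lit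 0) (XT.lf (nat_lit 0) (nat_lit 7893411699) (nat_lit 76) (nat_lit 12131880807) (nat_lit 152) (nat_lit 1549001349) (nat_lit 42) (nat_lit 5) (nat_lit 43) (nat_lit 5) (nat_lit 44) (nat_lit 4) (nat_lit 392) (nat_lit 292) (nat_lit 216)) (XT.lf (nat_lit 0) (nat_lit 3201321830) (nat_lit 152) (nat_lit 3564883782) (nat_lit 76) (nat_lit 15280687363) (nat_lit 41) (nat_lit 5) (nat_lit 43) (nat_lit 5) (nat_lit 42) (nat_lit 5) (nat_lit 393) (nat_lit 292) (nat_lit 215))) (XT.nd (nat_lit 78) (nat_lit 0) (nat_lit 0) (XT.lf (nat_lit 0) (nat_lit 6921616744) (nat_lit 152) (nat_lit 1178685713) (nat_lit 228) (nat_lit 14431794320) (nat_lit 39) (nat_lit 5) (nat_lit 41) (nat_lit 5) (nat_lit 42) (nat_lit 5) (nat_lit 394) (nat_lit 292) (nat_lit 214)) (XT.lf (nat_lit 0) (nat_lit 13197471839) (nat_lit 228) (nat_lit 5332174416) (nat_lit 76) (nat_lit 4500678947) (nat_lit 39) (nat_lit 5) (nat_lit 42) (nat_lit 5) (nat_lit 40) (nat_lit 4)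 (nat_lit 395) (nat_lit 292) (nat_lit 213))))))))
noncomputable def xc85 : XT := (XT.nd (nat_lit 2028) (nat_lit 760) (nat_lit 0) (XT.nd (nat_lit 1014) (nat_lit 456) (nat_lit 0) (XT.nd (nat_lit 468) (nat_lit 532) (nat_lit 0) (XT.nd (nat_lit 234) (nat_lit 76) (nat_lit 0) (XT.nd (nat_lit 78) (nat_lit 228) (nat_lit 0) (XT.lf (nat_lit 0) (nat_lit 5294832009) (nat_lit 76) (nat_lit 13187012826) (nat_lit 152) (nat_lit 5060631929) (nat_lit 38) (nat_lit 5) (nat_lit 39) (nat_lit 5) (nat_lit 40) (nat_lit 4) (nat_lit 396) (nat_lit 292) (nat_lit 212)) (XT.nd (nat_lit 78) (nat_lit 228) (nat_lit 0) (XT.lf (nat_lit 0) (nat_lit 16299156463) (nat_lit 76) (nat_lit 7651493644) (nat_lit 152) (nat_lit 118570529) (nat_lit 38) (nat_lit 5) (nat_lit 39) (nat_lit 5) (nat_lit 40) (nat_lit 4) (nat_lit 397) (nat_lit 292) (nat_lit 211)) (XT.lf (nat_lit 0) (nat_lit 2982382427) (nat_lit 152) (nat_lit 1893619256) (nat_lit 228) (nat_lit 19734297944)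 (nat_lit 35) (nat_lit 5) (nat_lit 37) (nat_lit 5) (nat_lit 38) (nat_lit 5) (nat_lit 398) (nat_lit 292) (nat_lit 210)))) (XT.nd (nat_lit 78) (nat_lit 76) (nat_lit 0) (XT.lf (nat_lit 0) (nat_lit 10108779639) (nat_lit 228) (nat_lit 11039313261) (nat_lit 76) (nat_lit 4016764707) (nat_lit 35) (nat_lit 5) (nat_lit 38) (nat_lit 5) (nat_lit 36) (nat_lit 4) (nat_lit 399) (nat_lit 292) (nat_lit 209)) (XT.nd (nat_lit 78) (nat_lit 76) (nat_lit 0) (XT.lf (nat_lit 0) (nat_lit 15490791024) (nat_lit 228) (nat_lit 200324585) (nat_lit 76) (nat_lit 10045173476) (nat_lit 35) (nat_lit 5) (nat_lit 38) (nat_lit 5) (nat_lit 36) (nat_lit 4) (nat_lit 400) (nat_lit 292) (nat_lit 208)) (XT.lf (nat_lit 0) (nat_lit 11133986595) (nat_lit 76) (nat_lit 9981576035) (nat_lit 152) (nat_lit 5206866019) (nat_lit 34) (nat_lit 5) (nat_lit 35) (nat_lit 5) (nat_lit 36) (nat_lit 4) (nat_lit 401) (nat_lit 292) (nat_lit 207))))) (XT.nd (nat_lit 234)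 (nat_lit 304) (nat_lit 0) (XT.nd (nat_lit 78) (nat_lit 228) (nat_lit 0) (XT.lf (nat_lit 0) (nat_lit 22765784107) (nat_lit 76) (nat_lit 4119890253) (nat_lit 152) (nat_lit 41184147) (nat_lit 34) (nat_lit 5) (nat_lit 35) (nat_lit 5) (nat_lit 36) (nat_lit 4) (nat_lit 402) (nat_lit 292) (nat_lit 206)) (XT.nd (nat_lit 78) (nat_lit 0) (nat_lit 0) (XT.lf (nat_lit 0) (nat_lit 5240551438) (nat_lit 228) (nat_lit 20324097577) (nat_lit 76) (nat_lit 1981330408) (nat_lit 31) (nat_lit 5) (nat_lit 34) (nat_lit 5) (nat_lit 32) (nat_lit 4) (nat_lit 403) (nat_lit 292) (nat_lit 205)) (XT.lf (nat_lit 0) (nat_lit 10738294860) (nat_lit 228) (nat_lit 9238289290) (nat_lit 76) (nat_lit 8205329753) (nat_lit 31) (nat_lit 5) (nat_lit 34) (nat_lit 5) (nat_lit 32) (nat_lit 4) (nat_lit 404) (nat_lit 292) (nat_lit 204)))) (XT.nd (nat_lit 156) (nat_lit 228) (nat_lit 0) (XT.nd (nat_lit 78) (nat_lit 0) (nat_lit 0) (XT.lf (nat_lit 0) (nat_lit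 2178045408) (nat_lit 76) (nat_lit 14219743258) (nat_lit 152) (nat_lit 12439236778) (nat_lit 30) (nat_lit 5) (nat_lit 31) (nat_lit 5) (nat_lit 32) (nat_lit 4) (nat_lit 405) (nat_lit 292) (nat_lit 203)) (XT.lf (nat_lit 0) (nat_lit 14082133430) (nat_lit 76) (nat_lit 8214382287) (nat_lit 152) (nat_lit 7213194627) (nat_lit 30) (nat_lit 5) (nat_lit 31) (nat_lit 5) (nat_lit 32) (nat_lit 4) (nat_lit 406) (nat_lit 292) (nat_lit 202))) (XT.nd (nat_lit 78) (nat_lit 228) (nat_lit 0) (XT.lf (nat_lit 0) (nat_lit 26300516337) (nat_lit 76) (nat_lit 2048542440) (nat_lit 152) (nat_lit 1854214752) (nat_lit 30) (nat_lit 5) (nat_lit 31) (nat_lit 5) (nat_lit 32) (nat_lit 4) (nat_lit 407) (nat_lit 292) (nat_lit 201)) (XT.lf (nat_lit 0) (nat_lit 3690952568) (nat_lit 228) (nat_lit 22909661203) (nat_lit 76) (nat_lit 4313067574) (nat_lit 27) (nat_lit 5) (nat_lit 30) (nat_lit 5) (nat_lit 28) (nat_lit 4) (nat_lit 408) (nat_lit 292)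 (nat_lit 200)))))) (XT.nd (nat_lit 468) (nat_lit 228) (nat_lit 0) (XT.nd (nat_lit 234) (nat_lit 152) (nat_lit 0) (XT.nd (nat_lit 78) (nat_lit 76) (nat_lit 0) (XT.lf (nat_lit 0) (nat_lit 9402669220) (nat_lit 228) (nat_lit 11377361820) (nat_lit 76) (nat_lit 10863698812) (nat_lit 27) (nat_lit 5) (nat_lit 30) (nat_lit 5) (nat_lit 28) (nat_lit 4) (nat_lit 409) (nat_lit 292) (nat_lit 199)) (XT.nd (nat_lit 78) (nat_lit 0) (nat_lit 0) (XT.lf (nat_lit 0) (nat_lit 469173593) (nat_lit 76) (nat_lit 14799111819) (nat_lit 152) (nat_lit 17127920950) (nat_lit 26) (nat_lit 5) (nat_lit 27) (nat_lit 5) (nat_lit 28) (nat_lit 4) (nat_lit 410) (nat_lit 292) (nat_lit 198)) (XT.lf (nat_lit 0) (nat_lit 12863842479) (nat_lit 76) (nat_lit 8539205193) (nat_lit 152) (nat_lit 11765417070) (nat_lit 26) (nat_lit 5) (nat_lit 27) (nat_lit 5) (nat_lit 28) (nat_lit 4) (nat_lit 411) (nat_lit 292) (nat_lit 197)))) (XT.nd (nat_lit 78) (nat_lit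 152) (nat_lit 0) (XT.lf (nat_lit 0) (nat_lit 25591043323) (nat_lit 76) (nat_lit 2109730386) (nat_lit 152) (nat_lit 6263752354) (nat_lit 26) (nat_lit 5) (nat_lit 27) (nat_lit 5) (nat_lit 28) (nat_lit 4) (nat_lit 412) (nat_lit 292) (nat_lit 196)) (XT.nd (nat_lit 78) (nat_lit 76) (nat_lit 0) (XT.lf (nat_lit 0) (nat_lit 3909899258) (nat_lit 76) (nat_lit 30337859498) (nat_lit 76) (nat_lit 534903387) (nat_lit 25) (nat_lit 4) (nat_lit 26) (nat_lit 5) (nat_lit 26) (nat_lit 4) (nat_lit 413) (nat_lit 292) (nat_lit 195)) (XT.lf (nat_lit 0) (nat_lit 5346779773) (nat_lit 152) (nat_lit 19001323727) (nat_lit 76) (nat_lit 11273123749) (nat_lit 24) (nat_lit 5) (nat_lit 26) (nat_lit 5) (nat_lit 25) (nat_lit 4) (nat_lit 414) (nat_lit 292) (nat_lit 194))))) (XT.nd (nat_lit 234) (nat_lit 152) (nat_lit 0) (XT.nd (nat_lit 78) (nat_lit 76) (nat_lit 0) (XT.lf (nat_lit 0) (nat_lit 11374156246) (nat_lit 152) (nat_lit 6816555851)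 (nat_lit 76) (nat_lit 18294681016) (nat_lit 24) (nat_lit 5) (nat_lit 26) (nat_lit 5) (nat_lit 25) (nat_lit 4) (nat_lit 415) (nat_lit 292) (nat_lit 193)) (XT.nd (nat_lit 78) (nat_lit 0) (nat_lit 0) (XT.lf (nat_lit 0) (nat_lit 5810717472) (nat_lit 76) (nat_lit 11808069263) (nat_lit 152) (nat_lit 19755606669) (nat_lit 23) (nat_lit 5) (nat_lit 24) (nat_lit 5) (nat_lit 25) (nat_lit 4) (nat_lit 416) (nat_lit 292) (nat_lit 192)) (XT.lf (nat_lit 0) (nat_lit 18920473205) (nat_lit 76) (nat_lit 5179912349) (nat_lit 152) (nat_lit 14188191624) (nat_lit 23) (nat_lit 5) (nat_lit 24) (nat_lit 5) (nat_lit 25) (nat_lit 4) (nat_lit 417) (nat_lit 292) (nat_lit 191)))) (XT.nd (nat_lit 156) (nat_lit 76) (nat_lit 0) (XT.nd (nat_lit 78) (nat_lit 76) (nat_lit 0) (XT.lf (nat_lit 0) (nat_lit 30773462705) (nat_lit 152) (nat_lit 6857919906) (nat_lit 0) (nat_lit 1598895236) (nat_lit 23) (nat_lit 5) (nat_lit 25) (nat_lit 4) (nat_lit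 23) (nat_lit 4) (nat_lit 418) (nat_lit 292) (nat_lit 190)) (XT.lf (nat_lit 0) (nat_lit 6060148236) (nat_lit 76) (nat_lit 31677869225) (nat_lit 76) (nat_lit 2459475739) (nat_lit 22) (nat_lit 4) (nat_lit 23) (nat_lit 5) (nat_lit 23) (nat_lit 4) (nat_lit 419) (nat_lit 292) (nat_lit 189))) (XT.nd (nat_lit 78) (nat_lit 0) (nat_lit 0) (XT.lf (nat_lit 0) (nat_lit 3696942391) (nat_lit 152) (nat_lit 21756149961) (nat_lit 76) (nat_lit 15738011455) (nat_lit 21) (nat_lit 5) (nat_lit 23) (nat_lit 5) (nat_lit 22) (nat_lit 4) (nat_lit 420) (nat_lit 292) (nat_lit 188)) (XT.lf (nat_lit 0) (nat_lit 9970919746) (nat_lit 152) (nat_lit 9061286155) (nat_lit 76) (nat_lit 23182119336) (nat_lit 21) (nat_lit 5) (nat_lit 23) (nat_lit 5) (nat_lit 22) (nat_lit 4) (nat_lit 421) (nat_lit 292) (nat_lit 187))))))) (XT.nd (nat_lit 1014) (nat_lit 380) (nat_lit 0) (XT.nd (nat_lit 468) (nat_lit 152) (nat_lit 0) (XT.nd (nat_lit 234) (nat_lit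 152) (nat_lit 0) (XT.nd (nat_lit 78) (nat_lit 0) (nat_lit 0) (XT.lf (nat_lit 0) (nat_lit 4061230266) (nat_lit 76) (nat_lit 12393740433) (nat_lit 152) (nat_lit 26812618960) (nat_lit 20) (nat_lit 5) (nat_lit 21) (nat_lit 5) (nat_lit 22) (nat_lit 4) (nat_lit 422) (nat_lit 292) (nat_lit 186)) (XT.nd (nat_lit 78) (nat_lit 0) (nat_lit 0) (XT.lf (nat_lit 0) (nat_lit 17731045199) (nat_lit 76) (nat_lit 5477006180) (nat_lit 152) (nat_lit 21142167306) (nat_lit 20) (nat_lit 5) (nat_lit 21) (nat_lit 5) (nat_lit 22) (nat_lit 4) (nat_lit 423) (nat_lit 292) (nat_lit 185)) (XT.lf (nat_lit 0) (nat_lit 30162919366) (nat_lit 152) (nat_lit 13701750576) (nat_lit 0) (nat_lit 1600682657) (nat_lit 20) (nat_lit 5) (nat_lit 22) (nat_lit 4) (nat_lit 20) (nat_lit 4) (nat_lit 424) (nat_lit 292) (nat_lit 184)))) (XT.nd (nat_lit 78) (nat_lit 152) (nat_lit 0) (XT.lf (nat_lit 0) (nat_lit 37364506517) (nat_lit 152) (nat_lit 481658383) (nat_lit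 0) (nat_lit 8766635246) (nat_lit 20) (nat_lit 5) (nat_lit 22) (nat_lit 4) (nat_lit 20) (nat_lit 4) (nat_lit 425) (nat_lit 292) (nat_lit 183)) (XT.nd (nat_lit 78) (nat_lit 76) (nat_lit 0) (XT.lf (nat_lit 0) (nat_lit 13366124189) (nat_lit 76) (nat_lit 31528816320) (nat_lit 76) (nat_lit 2896348387) (nat_lit 19) (nat_lit 4) (nat_lit 20) (nat_lit 5) (nat_lit 20) (nat_lit 4) (nat_lit 426) (nat_lit 292) (nat_lit 182)) (XT.lf (nat_lit 0) (nat_lit 3564251982) (nat_lit 152) (nat_lit 21430625401) (nat_lit 76) (nat_lit 24009527719) (nat_lit 18) (nat_lit 5) (nat_lit 20) (nat_lit 5) (nat_lit 19) (nat_lit 4) (nat_lit 427) (nat_lit 292) (nat_lit 181))))) (XT.nd (nat_lit 234) (nat_lit 76) (nat_lit 0) (XT.nd (nat_lit 78) (nat_lit 76) (nat_lit 0) (XT.lf (nat_lit 0) (nat_lit 10145247337) (nat_lit 152) (nat_lit 8103815501) (nat_lit 76) (nat_lit 32004449537) (nat_lit 18) (nat_lit 5) (nat_lit 20) (nat_lit 5) (nat_lit 19) (nat_lit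 4) (nat_lit 428) (nat_lit 292) (nat_lit 180)) (XT.nd (nat_lit 78) (nat_lit 0) (nat_lit 0) (XT.lf (nat_lit 0) (nat_lit 5706097767) (nat_lit 76) (nat_lit 11257658987) (nat_lit 152) (nat_lit 34575135150) (nat_lit 17) (nat_lit 5) (nat_lit 18) (nat_lit 5) (nat_lit 19) (nat_lit 4) (nat_lit 429) (nat_lit 292) (nat_lit 179)) (XT.lf (nat_lit 0) (nat_lit 20068656234) (nat_lit 76) (nat_lit 3985394684) (nat_lit 152) (nat_lit 28806766529) (nat_lit 17) (nat_lit 5) (nat_lit 18) (nat_lit 5) (nat_lit 19) (nat_lit 4) (nat_lit 430) (nat_lit 292) (nat_lit 178)))) (XT.nd (nat_lit 156) (nat_lit 76) (nat_lit 0) (XT.nd (nat_lit 78) (nat_lit 0) (nat_lit 0) (XT.lf (nat_lit 0) (nat_lit 31376445723) (nat_lit 152) (nat_lit 19421269333) (nat_lit 0) (nat_lit 3424105416) (nat_lit 17) (nat_lit 5) (nat_lit 19) (nat_lit 4) (nat_lit 17) (nat_lit 4) (nat_lit 431) (nat_lit 292) (nat_lit 177)) (XT.lf (nat_lit 0) (nat_lit 38944087501) (nat_lit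 152) (nat_lit 5715183319) (nat_lit 0) (nat_lit 10963616942) (nat_lit 17) (nat_lit 5) (nat_lit 19) (nat_lit 4) (nat_lit 17) (nat_lit 4) (nat_lit 432) (nat_lit 292) (nat_lit 176))) (XT.nd (nat_lit 78) (nat_lit 0) (nat_lit 0) (XT.lf (nat_lit 0) (nat_lit 8543089519) (nat_lit 76) (nat_lit 38264310588) (nat_lit 76) (nat_lit 10256529104) (nat_lit 16) (nat_lit 4) (nat_lit 17) (nat_lit 5) (nat_lit 17) (nat_lit 4) (nat_lit 433) (nat_lit 292) (nat_lit 175)) (XT.lf (nat_lit 0) (nat_lit 23320815977) (nat_lit 76) (nat_lit 31630176403) (nat_lit 76) (nat_lit 3595879458) (nat_lit 16) (nat_lit 4) (nat_lit 17) (nat_lit 5) (nat_lit 17) (nat_lit 4) (nat_lit 434) (nat_lit 292) (nat_lit 174)))))) (XT.nd (nat_lit 546) (nat_lit 228) (nat_lit 0) (XT.nd (nat_lit 234) (nat_lit 0) (nat_lit 0) (XT.nd (nat_lit 78) (nat_lit 76) (nat_lit 0) (XT.lf (nat_lit 0) (nat_lit 3187812789) (nat_lit 152) (nat_lit 21588780148) (nat_lit 76) (nat_lit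 35297161830) (nat_lit 15) (nat_lit 5) (nat_lit 17) (nat_lit 5) (nat_lit 16) (nat_lit 4) (nat_lit 435) (nat_lit 292) (nat_lit 173)) (XT.nd (nat_lit 78) (nat_lit 76) (nat_lit 0) (XT.lf (nat_lit 0) (nat_lit 10090049970) (nat_lit 152) (nat_lit 7602232035) (nat_lit 76) (nat_lit 43953476093) (nat_lit 15) (nat_lit 5) (nat_lit 17) (nat_lit 5) (nat_lit 16) (nat_lit 4) (nat_lit 436) (nat_lit 292) (nat_lit 172)) (XT.lf (nat_lit 0) (nat_lit 6915318294) (nat_lit 76) (nat_lit 10338187702) (nat_lit 152) (nat_lit 46009792177) (nat_lit 14) (nat_lit 5) (nat_lit 15) (nat_lit 5) (nat_lit 16) (nat_lit 4) (nat_lit 437) (nat_lit 292) (nat_lit 171)))) (XT.nd (nat_lit 156) (nat_lit 0) (nat_lit 0) (XT.nd (nat_lit 78) (nat_lit 0) (nat_lit 0) (XT.lf (nat_lit 0) (nat_lit 22000927196) (nat_lit 76) (nat_lit 2695518477) (nat_lit 152) (nat_lit 40230982537) (nat_lit 14) (nat_lit 5) (nat_lit 15) (nat_lit 5) (nat_lit 16) (nat_lit 4) (nat_lit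 438) (nat_lit 292) (nat_lit 170)) (XT.lf (nat_lit 0) (nat_lit 32400496111) (nat_lit 152) (nat_lit 29175016565) (nat_lit 0) (nat_lit 5064835925) (nat_lit 14) (nat_lit 5) (nat_lit 16) (nat_lit 4) (nat_lit 14) (nat_lit 4) (nat_lit 439) (nat_lit 292) (nat_lit 169))) (XT.nd (nat_lit 78) (nat_lit 0) (nat_lit 0) (XT.lf (nat_lit 0) (nat_lit 40350767575) (nat_lit 152) (nat_lit 15059889241) (nat_lit 0) (nat_lit 12993547893) (nat_lit 14) (nat_lit 5) (nat_lit 16) (nat_lit 4) (nat_lit 14) (nat_lit 4) (nat_lit 440) (nat_lit 292) (nat_lit 168)) (XT.lf (nat_lit 0) (nat_lit 48528295934) (nat_lit 152) (nat_lit 542874467) (nat_lit 0) (nat_lit 21150144702) (nat_lit 14) (nat_lit 5) (nat_lit 16) (nat_lit 4) (nat_lit 14) (nat_lit 4) (nat_lit 441) (nat_lit 292) (nat_lit 167))))) (XT.nd (nat_lit 234) (nat_lit 152) (nat_lit 0) (XT.nd (nat_lit 78) (nat_lit 0) (nat_lit 0) (XT.lf (nat_lit 0) (nat_lit 14675076121) (nat_lit 76) (nat_lit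 42406216287) (nat_lit 76) (nat_lit 15007743162) (nat_lit 13) (nat_lit 4) (nat_lit 14) (nat_lit 5) (nat_lit 14) (nat_lit 4) (nat_lit 442) (nat_lit 292) (nat_lit 166)) (XT.nd (nat_lit 78) (nat_lit 0) (nat_lit 0) (XT.lf (nat_lit 0) (nat_lit 30339960678) (nat_lit 76) (nat_lit 35545595388) (nat_lit 76) (nat_lit 8127392270) (nat_lit 13) (nat_lit 4) (nat_lit 14) (nat_lit 5) (nat_lit 14) (nat_lit 4) (nat_lit 443) (nat_lit 292) (nat_lit 165)) (XT.lf (nat_lit 0) (nat_lit 46454662698) (nat_lit 76) (nat_lit 28488794954) (nat_lit 76) (nat_lit 1051436503) (nat_lit 13) (nat_lit 4) (nat_lit 14) (nat_lit 5) (nat_lit 14) (nat_lit 4) (nat_lit 444) (nat_lit 292) (nat_lit 164)))) (XT.nd (nat_lit 156) (nat_lit 76) (nat_lit 0) (XT.nd (nat_lit 78) (nat_lit 0) (nat_lit 0) (XT.lf (nat_lit 0) (nat_lit 6104809336) (nat_lit 152) (nat_lit 15063192907) (nat_lit 76) (nat_lit 56866807050) (nat_lit 12) (nat_lit 5) (nat_lit 14) (nat_lit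 5) (nat_lit 13) (nat_lit 4) (nat_lit 445) (nat_lit 292) (nat_lit 163)) (XT.lf (nat_lit 0) (nat_lit 13444623109) (nat_lit 152) (nat_lit 181426688) (nat_lit 76) (nat_lit 66509860270) (nat_lit 12) (nat_lit 5) (nat_lit 14) (nat_lit 5) (nat_lit 13) (nat_lit 4) (nat_lit 446) (nat_lit 292) (nat_lit 162))) (XT.nd (nat_lit 36504) (nat_lit 0) (nat_lit 24624) (XT.lf (nat_lit 0) (nat_lit 15429258136) (nat_lit 76) (nat_lit 5713992888) (nat_lit 152) (nat_lit 61152635111) (nat_lit 11) (nat_lit 5) (nat_lit 12) (nat_lit 5) (nat_lit 13) (nat_lit 4) (nat_lit 447) (nat_lit 292) (nat_lit 161)) (XT.lf (nat_lit 0) (nat_lit 2403725403) (nat_lit 532) (nat_lit 462230429) (nat_lit 532) (nat_lit 462230429) (nat_lit 335) (nat_lit 4) (nat_lit 342) (nat_lit 5) (nat_lit 342) (nat_lit 4) (nat_lit 314) (nat_lit 293) (nat_lit 293))))))))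
noncomputable def xc86 : XT := (XT.nd (nat_lit 2028) (nat_lit 6308) (nat_lit 0) (XT.nd (nat_lit 1014) (nat_lit 4560) (nat_lit 0) (XT.nd (nat_lit 468) (nat_lit 5548) (nat_lit 0) (XT.nd (nat_lit 234) (nat_lit 1672) (nat_lit 0) (XT.nd (nat_lit 78) (nat_lit 760) (nat_lit 0) (XT.lf (nat_lit 0) (nat_lit 2238150554) (nat_lit 684) (nat_lit 4381264145) (nat_lit 0) (nat_lit 69219928) (nat_lit 326) (nat_lit 5) (nat_lit 335) (nat_lit 4) (nat_lit 326) (nat_lit 4) (nat_lit 315) (nat_lit 293) (nat_lit 292)) (XT.nd (nat_lit 78) (nat_lit 760) (nat_lit 0) (XT.lf (nat_lit 0) (nat_lit 5400075060) (nat_lit 684) (nat_lit 198544799) (nat_lit 0) (nat_lit 1125386544) (nat_lit 326) (nat_lit 5) (nat_lit 335) (nat_lit 4) (nat_lit 326) (nat_lit 4) (nat_lit 316) (nat_lit 293) (nat_lit 291)) (XT.lf (nat_lit 0) (nat_lit 1796238737) (nat_lit 760) (nat_lit 2672749013) (nat_lit 76) (nat_lit 2292900628) (nat_lit 316) (nat_lit 5) (nat_lit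 326) (nat_lit 5) (nat_lit 317) (nat_lit 4) (nat_lit 317) (nat_lit 293) (nat_lit 290)))) (XT.nd (nat_lit 78) (nat_lit 912) (nat_lit 0) (XT.lf (nat_lit 0) (nat_lit 1643804177) (nat_lit 760) (nat_lit 3256588236) (nat_lit 836) (nat_lit 1902709306) (nat_lit 306) (nat_lit 5) (nat_lit 316) (nat_lit 5) (nat_lit 317) (nat_lit 4) (nat_lit 318) (nat_lit 293) (nat_lit 289)) (XT.nd (nat_lit 78) (nat_lit 836) (nat_lit 0) (XT.lf (nat_lit 0) (nat_lit 1155173683) (nat_lit 836) (nat_lit 797480082) (nat_lit 76) (nat_lit 4894804161) (nat_lit 305) (nat_lit 5) (nat_lit 316) (nat_lit 5) (nat_lit 306) (nat_lit 5) (nat_lit 319) (nat_lit 293) (nat_lit 288)) (XT.lf (nat_lit 0) (nat_lit 3665276280) (nat_lit 836) (nat_lit 539644131) (nat_lit 912) (nat_lit 2689597652) (nat_lit 294) (nat_lit 5) (nat_lit 305) (nat_lit 5) (nat_lit 306) (nat_lit 5) (nat_lit 320) (nat_lit 293) (nat_lit 287))))) (XT.nd (nat_lit 234) (nat_lit 3572) (nat_lit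 0) (XT.nd (nat_lit 78) (nat_lit 988) (nat_lit 0) (XT.lf (nat_lit 0) (nat_lit 328974816) (nat_lit 988) (nat_lit 5681770948) (nat_lit 76) (nat_lit 934202160) (nat_lit 281) (nat_lit 5) (nat_lit 294) (nat_lit 5) (nat_lit 282) (nat_lit 5) (nat_lit 321) (nat_lit 293) (nat_lit 286)) (XT.nd (nat_lit 78) (nat_lit 988) (nat_lit 0) (XT.lf (nat_lit 0) (nat_lit 3328568082) (nat_lit 988) (nat_lit 1157606234) (nat_lit 76) (nat_lit 2511663723) (nat_lit 281) (nat_lit 5) (nat_lit 294) (nat_lit 5) (nat_lit 282) (nat_lit 5) (nat_lit 322) (nat_lit 293) (nat_lit 285)) (XT.lf (nat_lit 0) (nat_lit 3486865640) (nat_lit 988) (nat_lit 2873779050) (nat_lit 1064) (nat_lit 693474820) (nat_lit 268) (nat_lit 5) (nat_lit 281) (nat_lit 5) (nat_lit 282) (nat_lit 5) (nat_lit 323) (nat_lit 293) (nat_lit 284)))) (XT.nd (nat_lit 156) (nat_lit 2432) (nat_lit 0) (XT.nd (nat_lit 78) (nat_lit 0) (nat_lit 0) (XT.lf (nat_lit 0) (nat_lit 1096639699)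 (nat_lit 1064) (nat_lit 1160898867) (nat_lit 1140) (nat_lit 4855975216) (nat_lit 253) (nat_lit 5) (nat_lit 267) (nat_lit 5) (nat_lit 268) (nat_lit 5) (nat_lit 324) (nat_lit 293) (nat_lit 283)) (XT.lf (nat_lit 0) (nat_lit 5237063957) (nat_lit 1140) (nat_lit 1299503865) (nat_lit 76) (nat_lit 639371254) (nat_lit 253) (nat_lit 5) (nat_lit 268) (nat_lit 5) (nat_lit 254) (nat_lit 5) (nat_lit 325) (nat_lit 293) (nat_lit 282))) (XT.nd (nat_lit 78) (nat_lit 1216) (nat_lit 0) (XT.lf (nat_lit 0) (nat_lit 1004239989) (nat_lit 1216) (nat_lit 3718456577) (nat_lit 76) (nat_lit 2518522871) (nat_lit 237) (nat_lit 5) (nat_lit 253) (nat_lit 5) (nat_lit 238) (nat_lit 5) (nat_lit 326) (nat_lit 293) (nat_lit 281)) (XT.lf (nat_lit 0) (nat_lit 1126055685) (nat_lit 1216) (nat_lit 2809809701) (nat_lit 1292) (nat_lit 3373907926) (nat_lit 221) (nat_lit 5) (nat_lit 237) (nat_lit 5) (nat_lit 238) (nat_lit 5) (nat_lit 327) (nat_lit 293)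 (nat_lit 280)))))) (XT.nd (nat_lit 468) (nat_lit 2128) (nat_lit 0) (XT.nd (nat_lit 234) (nat_lit 1216) (nat_lit 0) (XT.nd (nat_lit 78) (nat_lit 1216) (nat_lit 0) (XT.lf (nat_lit 0) (nat_lit 6108097402) (nat_lit 1216) (nat_lit 801665648) (nat_lit 1292) (nat_lit 472055704) (nat_lit 221) (nat_lit 5) (nat_lit 237) (nat_lit 5) (nat_lit 238) (nat_lit 5) (nat_lit 328) (nat_lit 293) (nat_lit 279)) (XT.nd (nat_lit 78) (nat_lit 532) (nat_lit 0) (XT.lf (nat_lit 0) (nat_lit 2434873863) (nat_lit 684) (nat_lit 3720213046) (nat_lit 76) (nat_lit 1301259750) (nat_lit 212) (nat_lit 5) (nat_lit 221) (nat_lit 5) (nat_lit 213) (nat_lit 5) (nat_lit 329) (nat_lit 293) (nat_lit 278)) (XT.lf (nat_lit 0) (nat_lit 1317753783) (nat_lit 532) (nat_lit 4055263437) (nat_lit 608) (nat_lit 2161407325) (nat_lit 205) (nat_lit 5) (nat_lit 212) (nat_lit 5) (nat_lit 213) (nat_lit 5) (nat_lit 330) (nat_lit 293) (nat_lit 277)))) (XT.nd (nat_lit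 78) (nat_lit 1140) (nat_lit 0) (XT.lf (nat_lit 0) (nat_lit 727681937) (nat_lit 608) (nat_lit 1124205606) (nat_lit 76) (nat_lit 5764030892) (nat_lit 204) (nat_lit 5) (nat_lit 212) (nat_lit 5) (nat_lit 205) (nat_lit 5) (nat_lit 331) (nat_lit 293) (nat_lit 276)) (XT.nd (nat_lit 78) (nat_lit 532) (nat_lit 0) (XT.lf (nat_lit 0) (nat_lit 3626839302) (nat_lit 684) (nat_lit 3608589284) (nat_lit 76) (nat_lit 464835575) (nat_lit 196) (nat_lit 5) (nat_lit 205) (nat_lit 5) (nat_lit 197) (nat_lit 5) (nat_lit 332) (nat_lit 293) (nat_lit 275)) (XT.lf (nat_lit 0) (nat_lit 1628975546) (nat_lit 532) (nat_lit 4953747104) (nat_lit 608) (nat_lit 1205377643) (nat_lit 189) (nat_lit 5) (nat_lit 196) (nat_lit 5) (nat_lit 197) (nat_lit 5) (nat_lit 333) (nat_lit 293) (nat_lit 274))))) (XT.nd (nat_lit 234) (nat_lit 1064) (nat_lit 0) (XT.nd (nat_lit 78) (nat_lit 988) (nat_lit 0) (XT.lf (nat_lit 0) (nat_lit 1676293830) (nat_lit 608)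 (nat_lit 882364094) (nat_lit 76) (nat_lit 5320607653) (nat_lit 188) (nat_lit 5) (nat_lit 196) (nat_lit 5) (nat_lit 189) (nat_lit 5) (nat_lit 334) (nat_lit 293) (nat_lit 273)) (XT.nd (nat_lit 78) (nat_lit 456) (nat_lit 0) (XT.lf (nat_lit 0) (nat_lit 4546616717) (nat_lit 532) (nat_lit 44369924) (nat_lit 608) (nat_lit 3382745313) (nat_lit 181) (nat_lit 5) (nat_lit 188) (nat_lit 5) (nat_lit 189) (nat_lit 5) (nat_lit 335) (nat_lit 293) (nat_lit 272)) (XT.lf (nat_lit 0) (nat_lit 2016431992) (nat_lit 456) (nat_lit 5557864382) (nat_lit 532) (nat_lit 497347374) (nat_lit 175) (nat_lit 5) (nat_lit 181) (nat_lit 5) (nat_lit 182) (nat_lit 5) (nat_lit 336) (nat_lit 293) (nat_lit 271)))) (XT.nd (nat_lit 156) (nat_lit 532) (nat_lit 0) (XT.nd (nat_lit 78) (nat_lit 456) (nat_lit 0) (XT.lf (nat_lit 0) (nat_lit 2390585392) (nat_lit 532) (nat_lit 587270331) (nat_lit 76) (nat_lit 5195039731) (nat_lit 174) (nat_lit 5) (nat_lit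 181) (nat_lit 5) (nat_lit 175) (nat_lit 5) (nat_lit 337) (nat_lit 293) (nat_lit 270)) (XT.lf (nat_lit 0) (nat_lit 5056133578) (nat_lit 456) (nat_lit 278573096) (nat_lit 532) (nat_lit 2942986654) (nat_lit 168) (nat_lit 5) (nat_lit 174) (nat_lit 5) (nat_lit 175) (nat_lit 5) (nat_lit 338) (nat_lit 293) (nat_lit 269))) (XT.nd (nat_lit 78) (nat_lit 76) (nat_lit 0) (XT.lf (nat_lit 0) (nat_lit 2435384758) (nat_lit 456) (nat_lit 5917254406) (nat_lit 532) (nat_lit 33472849) (nat_lit 162) (nat_lit 5) (nat_lit 168) (nat_lit 5) (nat_lit 169) (nat_lit 5) (nat_lit 339) (nat_lit 293) (nat_lit 268)) (XT.lf (nat_lit 0) (nat_lit 2873637720) (nat_lit 532) (nat_lit 284313026) (nat_lit 76) (nat_lit 5339972975) (nat_lit 161) (nat_lit 5) (nat_lit 168) (nat_lit 5) (nat_lit 162) (nat_lit 5) (nat_lit 340) (nat_lit 293) (nat_lit 267))))))) (XT.nd (nat_lit 1014) (nat_lit 2660) (nat_lit 0) (XT.nd (nat_lit 468) (nat_lit 1444) (nat_lit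 0) (XT.nd (nat_lit 234) (nat_lit 1292) (nat_lit 0) (XT.nd (nat_lit 78) (nat_lit 456) (nat_lit 0) (XT.lf (nat_lit 0) (nat_lit 5579060279) (nat_lit 456) (nat_lit 276348033) (nat_lit 532) (nat_lit 2758065919) (nat_lit 155) (nat_lit 5) (nat_lit 161) (nat_lit 5) (nat_lit 162) (nat_lit 5) (nat_lit 341) (nat_lit 293) (nat_lit 266)) (XT.nd (nat_lit 78) (nat_lit 0) (nat_lit 0) (XT.lf (nat_lit 0) (nat_lit 181757262) (nat_lit 456) (nat_lit 5895897069) (nat_lit 76) (nat_lit 2655074593) (nat_lit 149) (nat_lit 5) (nat_lit 155) (nat_lit 5) (nat_lit 150) (nat_lit 5) (nat_lit 342) (nat_lit 293) (nat_lit 265)) (XT.lf (nat_lit 0) (nat_lit 3123916506) (nat_lit 456) (nat_lit 21652959) (nat_lit 76) (nat_lit 5710120048) (nat_lit 149) (nat_lit 5) (nat_lit 155) (nat_lit 5) (nat_lit 150) (nat_lit 5) (nat_lit 343) (nat_lit 293) (nat_lit 264)))) (XT.nd (nat_lit 78) (nat_lit 836) (nat_lit 0) (XT.lf (nat_lit 0) (nat_lit 6066536890)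 (nat_lit 456) (nat_lit 83880676) (nat_lit 532) (nat_lit 2832072786) (nat_lit 143) (nat_lit 5) (nat_lit 149) (nat_lit 5) (nat_lit 150) (nat_lit 5) (nat_lit 344) (nat_lit 293) (nat_lit 263)) (XT.nd (nat_lit 78) (nat_lit 380) (nat_lit 0) (XT.lf (nat_lit 0) (nat_lit 150439632) (nat_lit 456) (nat_lit 5939010274) (nat_lit 76) (nat_lit 3023667378) (nat_lit 137) (nat_lit 5) (nat_lit 143) (nat_lit 5) (nat_lit 138) (nat_lit 5) (nat_lit 345) (nat_lit 293) (nat_lit 262)) (XT.lf (nat_lit 0) (nat_lit 151655923) (nat_lit 380) (nat_lit 2984884552) (nat_lit 456) (nat_lit 6111181172) (nat_lit 132) (nat_lit 5) (nat_lit 137) (nat_lit 5) (nat_lit 138) (nat_lit 5) (nat_lit 346) (nat_lit 293) (nat_lit 261))))) (XT.nd (nat_lit 234) (nat_lit 684) (nat_lit 0) (XT.nd (nat_lit 78) (nat_lit 760) (nat_lit 0) (XT.lf (nat_lit 0) (nat_lit 6214637887) (nat_lit 456) (nat_lit 2923245381) (nat_lit 76) (nat_lit 248438448) (nat_lit 132) (nat_lit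 5) (nat_lit 138) (nat_lit 5) (nat_lit 133) (nat_lit 5) (nat_lit 347) (nat_lit 293) (nat_lit 260)) (XT.nd (nat_lit 78) (nat_lit 456) (nat_lit 0) (XT.lf (nat_lit 0) (nat_lit 3390961683) (nat_lit 304) (nat_lit 5997820860) (nat_lit 380) (nat_lit 140215220) (nat_lit 128) (nat_lit 5) (nat_lit 132) (nat_lit 5) (nat_lit 133) (nat_lit 5) (nat_lit 348) (nat_lit 293) (nat_lit 259)) (XT.lf (nat_lit 0) (nat_lit 173058197) (nat_lit 380) (nat_lit 2724315475) (nat_lit 456) (nat_lit 6778546769) (nat_lit 122) (nat_lit 5) (nat_lit 127) (nat_lit 5) (nat_lit 128) (nat_lit 5) (nat_lit 349) (nat_lit 293) (nat_lit 258)))) (XT.nd (nat_lit 156) (nat_lit 380) (nat_lit 0) (XT.nd (nat_lit 78) (nat_lit 304) (nat_lit 0) (XT.lf (nat_lit 0) (nat_lit 6034689496) (nat_lit 456) (nat_lit 3115847672) (nat_lit 76) (nat_lit 676356095) (nat_lit 122) (nat_lit 5) (nat_lit 128) (nat_lit 5) (nat_lit 123) (nat_lit 5) (nat_lit 350) (nat_lit 293) (nat_lit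 257)) (XT.lf (nat_lit 0) (nat_lit 3423442312) (nat_lit 304) (nat_lit 5846834494) (nat_lit 380) (nat_lit 712019765) (nat_lit 118) (nat_lit 5) (nat_lit 122) (nat_lit 5) (nat_lit 123) (nat_lit 5) (nat_lit 351) (nat_lit 293) (nat_lit 256))) (XT.nd (nat_lit 78) (nat_lit 304) (nat_lit 0) (XT.lf (nat_lit 0) (nat_lit 2388902905) (nat_lit 380) (nat_lit 22115930) (nat_lit 76) (nat_lit 7731367515) (nat_lit 117) (nat_lit 5) (nat_lit 122) (nat_lit 5) (nat_lit 118) (nat_lit 5) (nat_lit 352) (nat_lit 293) (nat_lit 255)) (XT.lf (nat_lit 0) (nat_lit 5591024445) (nat_lit 380) (nat_lit 3559732396) (nat_lit 76) (nat_lit 1155659693) (nat_lit 113) (nat_lit 5) (nat_lit 118) (nat_lit 5) (nat_lit 114) (nat_lit 5) (nat_lit 353) (nat_lit 293) (nat_lit 254)))))) (XT.nd (nat_lit 546) (nat_lit 1140) (nat_lit 0) (XT.nd (nat_lit 234) (nat_lit 836) (nat_lit 0) (XT.nd (nat_lit 78) (nat_lit 380) (nat_lit 0) (XT.lf (nat_lit 0) (nat_lit 3204467013)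 (nat_lit 304) (nat_lit 5686436594) (nat_lit 380) (nat_lit 1584436177) (nat_lit 109) (nat_lit 5) (nat_lit 113) (nat_lit 5) (nat_lit 114) (nat_lit 5) (nat_lit 354) (nat_lit 293) (nat_lit 253)) (XT.nd (nat_lit 78) (nat_lit 304) (nat_lit 0) (XT.lf (nat_lit 0) (nat_lit 1591801461) (nat_lit 380) (nat_lit 497956629) (nat_lit 76) (nat_lit 8559620306) (nat_lit 108) (nat_lit 5) (nat_lit 113) (nat_lit 5) (nat_lit 109) (nat_lit 5) (nat_lit 355) (nat_lit 293) (nat_lit 252)) (XT.lf (nat_lit 0) (nat_lit 4858760734) (nat_lit 380) (nat_lit 4330216316) (nat_lit 76) (nat_lit 1638393118) (nat_lit 104) (nat_lit 5) (nat_lit 109) (nat_lit 5) (nat_lit 105) (nat_lit 5) (nat_lit 356) (nat_lit 293) (nat_lit 251)))) (XT.nd (nat_lit 156) (nat_lit 532) (nat_lit 0) (XT.nd (nat_lit 78) (nat_lit 76) (nat_lit 0) (XT.lf (nat_lit 0) (nat_lit 2656444209) (nat_lit 228) (nat_lit 5567731882) (nat_lit 304) (nat_lit 2786532597) (nat_lit 101) (nat_lit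 5) (nat_lit 104) (nat_lit 5) (nat_lit 105) (nat_lit 5) (nat_lit 357) (nat_lit 293) (nat_lit 250)) (XT.lf (nat_lit 0) (nat_lit 474966274) (nat_lit 304) (nat_lit 1338622546) (nat_lit 76) (nat_lit 9386029962) (nat_lit 100) (nat_lit 5) (nat_lit 104) (nat_lit 5) (nat_lit 101) (nat_lit 5) (nat_lit 358) (nat_lit 293) (nat_lit 249))) (XT.nd (nat_lit 78) (nat_lit 228) (nat_lit 0) (XT.lf (nat_lit 0) (nat_lit 3806206903) (nat_lit 380) (nat_lit 5512916849) (nat_lit 76) (nat_lit 2073426325) (nat_lit 96) (nat_lit 5) (nat_lit 101) (nat_lit 5) (nat_lit 97) (nat_lit 5) (nat_lit 359) (nat_lit 293) (nat_lit 248)) (XT.lf (nat_lit 0) (nat_lit 1690952598) (nat_lit 228) (nat_lit 5545629162) (nat_lit 304) (nat_lit 4354729781) (nat_lit 93) (nat_lit 5) (nat_lit 96) (nat_lit 5) (nat_lit 97) (nat_lit 5) (nat_lit 360) (nat_lit 293) (nat_lit 247))))) (XT.nd (nat_lit 234) (nat_lit 532) (nat_lit 0) (XT.nd (nat_lit 78) (nat_lit 608) (nat_lit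 0) (XT.lf (nat_lit 0) (nat_lit 9149715336) (nat_lit 228) (nat_lit 1627860956) (nat_lit 304) (nat_lit 1018245913) (nat_lit 93) (nat_lit 5) (nat_lit 96) (nat_lit 5) (nat_lit 97) (nat_lit 5) (nat_lit 361) (nat_lit 293) (nat_lit 246)) (XT.nd (nat_lit 78) (nat_lit 228) (nat_lit 0) (XT.lf (nat_lit 0) (nat_lit 2394048979) (nat_lit 380) (nat_lit 7205759168) (nat_lit 76) (nat_lit 2405292042) (nat_lit 88) (nat_lit 5) (nat_lit 93) (nat_lit 5) (nat_lit 89) (nat_lit 5) (nat_lit 362) (nat_lit 293) (nat_lit 245)) (XT.lf (nat_lit 0) (nat_lit 206644006) (nat_lit 228) (nat_lit 5680075510) (nat_lit 304) (nat_lit 6333696487) (nat_lit 85) (nat_lit 5) (nat_lit 88) (nat_lit 5) (nat_lit 89) (nat_lit 5) (nat_lit 363) (nat_lit 293) (nat_lit 244)))) (XT.nd (nat_lit 156) (nat_lit 228) (nat_lit 0) (XT.nd (nat_lit 78) (nat_lit 304) (nat_lit 0) (XT.lf (nat_lit 0) (nat_lit 7916385744) (nat_lit 228) (nat_lit 1594590615) (nat_lit 304) (nat_lit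 2930426392) (nat_lit 85) (nat_lit 5) (nat_lit 88) (nat_lit 5) (nat_lit 89) (nat_lit 5) (nat_lit 364) (nat_lit 293) (nat_lit 243)) (XT.lf (nat_lit 0) (nat_lit 574374508) (nat_lit 304) (nat_lit 9521271738) (nat_lit 76) (nat_lit 2572902249) (nat_lit 81) (nat_lit 5) (nat_lit 85) (nat_lit 5) (nat_lit 82) (nat_lit 5) (nat_lit 365) (nat_lit 293) (nat_lit 242))) (XT.nd (nat_lit 78) (nat_lit 228) (nat_lit 0) (XT.lf (nat_lit 0) (nat_lit 4142657337) (nat_lit 304) (nat_lit 1875824806) (nat_lit 76) (nat_lit 6882653265) (nat_lit 81) (nat_lit 5) (nat_lit 85) (nat_lit 5) (nat_lit 82) (nat_lit 5) (nat_lit 366) (nat_lit 293) (nat_lit 241)) (XT.lf (nat_lit 0) (nat_lit 6047152109) (nat_lit 228) (nat_lit 1785569672) (nat_lit 304) (nat_lit 5307550056) (nat_lit 78) (nat_lit 5) (nat_lit 81) (nat_lit 5) (nat_lit 82) (nat_lit 5) (nat_lit 367) (nat_lit 293) (nat_lit 240))))))))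
noncomputable def xc87 : XT := (XT.nd (nat_lit 2106) (nat_lit 1520) (nat_lit 0) (XT.nd (nat_lit 1014) (nat_lit 1292) (nat_lit 0) (XT.nd (nat_lit 468) (nat_lit 760) (nat_lit 0) (XT.nd (nat_lit 234) (nat_lit 304) (nat_lit 0) (XT.nd (nat_lit 78) (nat_lit 228) (nat_lit 0) (XT.lf (nat_lit 0) (nat_lit 780356237) (nat_lit 228) (nat_lit 10861459031) (nat_lit 304) (nat_lit 1744530773) (nat_lit 75) (nat_lit 5) (nat_lit 78) (nat_lit 5) (nat_lit 79) (nat_lit 5) (nat_lit 368) (nat_lit 293) (nat_lit 239)) (XT.nd (nat_lit 78) (nat_lit 152) (nat_lit 0) (XT.lf (nat_lit 0) (nat_lit 1934925259) (nat_lit 304) (nat_lit 4709484027) (nat_lit 76) (nat_lit 6993437154) (nat_lit 74) (nat_lit 5) (nat_lit 78) (nat_lit 5) (nat_lit 75) (nat_lit 5) (nat_lit 369) (nat_lit 293) (nat_lit 238)) (XT.lf (nat_lit 0) (nat_lit 3404760342) (nat_lit 152) (nat_lit 2276021939) (nat_lit 228) (nat_lit 8215871324) (nat_lit 72) (nat_lit 5) (nat_lit 74)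 (nat_lit 5) (nat_lit 75) (nat_lit 5) (nat_lit 370) (nat_lit 293) (nat_lit 237)))) (XT.nd (nat_lit 78) (nat_lit 304) (nat_lit 0) (XT.lf (nat_lit 0) (nat_lit 9567074616) (nat_lit 228) (nat_lit 2393312607) (nat_lit 76) (nat_lit 2202007967) (nat_lit 72) (nat_lit 5) (nat_lit 75) (nat_lit 5) (nat_lit 73) (nat_lit 5) (nat_lit 371) (nat_lit 293) (nat_lit 236)) (XT.nd (nat_lit 78) (nat_lit 76) (nat_lit 0) (XT.lf (nat_lit 0) (nat_lit 5975653962) (nat_lit 228) (nat_lit 7634141713) (nat_lit 304) (nat_lit 825129790) (nat_lit 69) (nat_lit 5) (nat_lit 72) (nat_lit 5) (nat_lit 73) (nat_lit 5) (nat_lit 372) (nat_lit 293) (nat_lit 235)) (XT.lf (nat_lit 0) (nat_lit 2982892870) (nat_lit 304) (nat_lit 166589737) (nat_lit 76) (nat_lit 11565746047) (nat_lit 68) (nat_lit 5) (nat_lit 72) (nat_lit 5) (nat_lit 69) (nat_lit 5) (nat_lit 373) (nat_lit 293) (nat_lit 234))))) (XT.nd (nat_lit 234) (nat_lit 380) (nat_lit 0) (XT.nd (nat_lit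 78) (nat_lit 228) (nat_lit 0) (XT.lf (nat_lit 0) (nat_lit 6945887277) (nat_lit 228) (nat_lit 6550119903) (nat_lit 76) (nat_lit 1505979865) (nat_lit 66) (nat_lit 5) (nat_lit 69) (nat_lit 5) (nat_lit 67) (nat_lit 5) (nat_lit 374) (nat_lit 293) (nat_lit 233)) (XT.nd (nat_lit 78) (nat_lit 0) (nat_lit 0) (XT.lf (nat_lit 0) (nat_lit 1977251715) (nat_lit 228) (nat_lit 9063833494) (nat_lit 304) (nat_lit 4255873912) (nat_lit 63) (nat_lit 5) (nat_lit 66) (nat_lit 5) (nat_lit 67) (nat_lit 5) (nat_lit 375) (nat_lit 293) (nat_lit 232)) (XT.lf (nat_lit 0) (nat_lit 10830227149) (nat_lit 228) (nat_lit 4456984192) (nat_lit 304) (nat_lit 312736894) (nat_lit 63) (nat_lit 5) (nat_lit 66) (nat_lit 5) (nat_lit 67) (nat_lit 5) (nat_lit 376) (nat_lit 293) (nat_lit 231)))) (XT.nd (nat_lit 156) (nat_lit 152) (nat_lit 0) (XT.nd (nat_lit 78) (nat_lit 0) (nat_lit 0) (XT.lf (nat_lit 0) (nat_lit 3680065503) (nat_lit 228) (nat_lit 11898446666)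 (nat_lit 76) (nat_lit 332307624) (nat_lit 60) (nat_lit 5) (nat_lit 63) (nat_lit 5) (nat_lit 61) (nat_lit 5) (nat_lit 377) (nat_lit 293) (nat_lit 230)) (XT.lf (nat_lit 0) (nat_lit 7842034321) (nat_lit 228) (nat_lit 3185176986) (nat_lit 76) (nat_lit 5202052446) (nat_lit 60) (nat_lit 5) (nat_lit 63) (nat_lit 5) (nat_lit 61) (nat_lit 5) (nat_lit 378) (nat_lit 293) (nat_lit 229))) (XT.nd (nat_lit 78) (nat_lit 0) (nat_lit 0) (XT.lf (nat_lit 0) (nat_lit 5841729235) (nat_lit 152) (nat_lit 6307265674) (nat_lit 228) (nat_lit 4407671066) (nat_lit 58) (nat_lit 5) (nat_lit 60) (nat_lit 5) (nat_lit 61) (nat_lit 5) (nat_lit 379) (nat_lit 293) (nat_lit 228)) (XT.lf (nat_lit 0) (nat_lit 15143586362) (nat_lit 152) (nat_lit 1438181795) (nat_lit 228) (nat_lit 312232655) (nat_lit 58) (nat_lit 5) (nat_lit 60) (nat_lit 5) (nat_lit 61) (nat_lit 5) (nat_lit 380) (nat_lit 293) (nat_lit 227)))))) (XT.nd (nat_lit 546) (nat_lit 532)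 (nat_lit 0) (XT.nd (nat_lit 234) (nat_lit 380) (nat_lit 0) (XT.nd (nat_lit 78) (nat_lit 152) (nat_lit 0) (XT.lf (nat_lit 0) (nat_lit 3902609545) (nat_lit 228) (nat_lit 9742032051) (nat_lit 76) (nat_lit 3593512975) (nat_lit 55) (nat_lit 5) (nat_lit 58) (nat_lit 5) (nat_lit 56) (nat_lit 5) (nat_lit 381) (nat_lit 293) (nat_lit 226)) (XT.nd (nat_lit 78) (nat_lit 152) (nat_lit 0) (XT.lf (nat_lit 0) (nat_lit 8235040273) (nat_lit 228) (nat_lit 613952723) (nat_lit 76) (nat_lit 8743632567) (nat_lit 55) (nat_lit 5) (nat_lit 58) (nat_lit 5) (nat_lit 56) (nat_lit 5) (nat_lit 382) (nat_lit 293) (nat_lit 225)) (XT.lf (nat_lit 0) (nat_lit 8903176203) (nat_lit 152) (nat_lit 3846188985) (nat_lit 228) (nat_lit 5206815556) (nat_lit 53) (nat_lit 5) (nat_lit 55) (nat_lit 5) (nat_lit 56) (nat_lit 5) (nat_lit 383) (nat_lit 293) (nat_lit 224)))) (XT.nd (nat_lit 156) (nat_lit 152) (nat_lit 0) (XT.nd (nat_lit 78) (nat_lit 76) (nat_lit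 0) (XT.lf (nat_lit 0) (nat_lit 322907666) (nat_lit 152) (nat_lit 17064662351) (nat_lit 228) (nat_lit 943426531) (nat_lit 51) (nat_lit 5) (nat_lit 53) (nat_lit 5) (nat_lit 54) (nat_lit 4) (nat_lit 384) (nat_lit 293) (nat_lit 223)) (XT.lf (nat_lit 0) (nat_lit 3477593674) (nat_lit 228) (nat_lit 8679583584) (nat_lit 76) (nat_lit 6555982032) (nat_lit 50) (nat_lit 5) (nat_lit 53) (nat_lit 5) (nat_lit 51) (nat_lit 5) (nat_lit 385) (nat_lit 293) (nat_lit 222))) (XT.nd (nat_lit 78) (nat_lit 0) (nat_lit 0) (XT.lf (nat_lit 0) (nat_lit 879496155) (nat_lit 152) (nat_lit 7108819249) (nat_lit 228) (nat_lit 11118917136) (nat_lit 48) (nat_lit 5) (nat_lit 50) (nat_lit 5) (nat_lit 51) (nat_lit 5) (nat_lit 386) (nat_lit 293) (nat_lit 221)) (XT.lf (nat_lit 0) (nat_lit 10846729064) (nat_lit 152) (nat_lit 1843255894) (nat_lit 228) (nat_lit 6821480883) (nat_lit 48) (nat_lit 5) (nat_lit 50) (nat_lit 5) (nat_lit 51) (nat_lit 5)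 (nat_lit 387) (nat_lit 293) (nat_lit 220))))) (XT.nd (nat_lit 234) (nat_lit 152) (nat_lit 0) (XT.nd (nat_lit 78) (nat_lit 228) (nat_lit 0) (XT.lf (nat_lit 0) (nat_lit 1116926741) (nat_lit 152) (nat_lit 16429613414) (nat_lit 228) (nat_lit 2380877367) (nat_lit 46) (nat_lit 5) (nat_lit 48) (nat_lit 5) (nat_lit 49) (nat_lit 4) (nat_lit 388) (nat_lit 293) (nat_lit 219)) (XT.nd (nat_lit 78) (nat_lit 152) (nat_lit 0) (XT.lf (nat_lit 0) (nat_lit 2225518866) (nat_lit 228) (nat_lit 9079448697) (nat_lit 76) (nat_lit 9047992865) (nat_lit 45) (nat_lit 5) (nat_lit 48) (nat_lit 5) (nat_lit 46) (nat_lit 5) (nat_lit 389) (nat_lit 293) (nat_lit 218)) (XT.lf (nat_lit 0) (nat_lit 883118074) (nat_lit 152) (nat_lit 6017288433) (nat_lit 228) (nat_lit 13890817236) (nat_lit 43) (nat_lit 5) (nat_lit 45) (nat_lit 5) (nat_lit 46) (nat_lit 5) (nat_lit 390) (nat_lit 293) (nat_lit 217)))) (XT.nd (nat_lit 156) (nat_lit 76) (nat_lit 0)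 (XT.nd (nat_lit 78) (nat_lit 76) (nat_lit 0) (XT.lf (nat_lit 0) (nat_lit 11277145359) (nat_lit 152) (nat_lit 500112730) (nat_lit 228) (nat_lit 9463531077) (nat_lit 43) (nat_lit 5) (nat_lit 45) (nat_lit 5) (nat_lit 46) (nat_lit 5) (nat_lit 391) (nat_lit 293) (nat_lit 216)) (XT.lf (nat_lit 0) (nat_lit 180215030) (nat_lit 76) (nat_lit 16642436196) (nat_lit 152) (nat_lit 4880528806) (nat_lit 42) (nat_lit 5) (nat_lit 43) (nat_lit 5) (nat_lit 44) (nat_lit 4) (nat_lit 392) (nat_lit 293) (nat_lit 215))) (XT.nd (nat_lit 78) (nat_lit 76) (nat_lit 0) (XT.lf (nat_lit 0) (nat_lit 10775465028) (nat_lit 76) (nat_lit 11320495834) (nat_lit 152) (nat_lit 81190519) (nat_lit 42) (nat_lit 5) (nat_lit 43) (nat_lit 5) (nat_lit 44) (nat_lit 4) (nat_lit 393) (nat_lit 293) (nat_lit 214)) (XT.lf (nat_lit 0) (nat_lit 4738848666) (nat_lit 152) (nat_lit 1074678768) (nat_lit 76) (nat_lit 16851269443) (nat_lit 41) (nat_lit 5) (nat_lit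 43) (nat_lit 5) (nat_lit 42) (nat_lit 5) (nat_lit 394) (nat_lit 293) (nat_lit 213))))))) (XT.nd (nat_lit 1014) (nat_lit 684) (nat_lit 0) (XT.nd (nat_lit 468) (nat_lit 380) (nat_lit 0) (XT.nd (nat_lit 234) (nat_lit 228) (nat_lit 0) (XT.nd (nat_lit 78) (nat_lit 76) (nat_lit 0) (XT.lf (nat_lit 0) (nat_lit 9700954504) (nat_lit 152) (nat_lit 66579794) (nat_lit 228) (nat_lit 13397547950) (nat_lit 39) (nat_lit 5) (nat_lit 41) (nat_lit 5) (nat_lit 42) (nat_lit 5) (nat_lit 395) (nat_lit 293) (nat_lit 212)) (XT.nd (nat_lit 78) (nat_lit 76) (nat_lit 0) (XT.lf (nat_lit 0) (nat_lit 14986845429) (nat_lit 228) (nat_lit 2964337182) (nat_lit 76) (nat_lit 5728005418) (nat_lit 39) (nat_lit 5) (nat_lit 42) (nat_lit 5) (nat_lit 40) (nat_lit 4) (nat_lit 396) (nat_lit 293) (nat_lit 211)) (XT.lf (nat_lit 0) (nat_lit 7956697059) (nat_lit 76) (nat_lit 12456527210) (nat_lit 152) (nat_lit 3793982719) (nat_lit 38) (nat_lit 5) (nat_lit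 39) (nat_lit 5) (nat_lit 40) (nat_lit 4) (nat_lit 397) (nat_lit 293) (nat_lit 210)))) (XT.nd (nat_lit 78) (nat_lit 152) (nat_lit 0) (XT.lf (nat_lit 0) (nat_lit 1230535839) (nat_lit 152) (nat_lit 5544779527) (nat_lit 76) (nat_lit 17975285910) (nat_lit 37) (nat_lit 5) (nat_lit 39) (nat_lit 5) (nat_lit 38) (nat_lit 5) (nat_lit 398) (nat_lit 293) (nat_lit 209)) (XT.nd (nat_lit 78) (nat_lit 0) (nat_lit 0) (XT.lf (nat_lit 0) (nat_lit 5504976186) (nat_lit 152) (nat_lit 851645988) (nat_lit 228) (nat_lit 18951739930) (nat_lit 35) (nat_lit 5) (nat_lit 37) (nat_lit 5) (nat_lit 38) (nat_lit 5) (nat_lit 399) (nat_lit 293) (nat_lit 208)) (XT.lf (nat_lit 0) (nat_lit 11717773712) (nat_lit 228) (nat_lit 8979418255) (nat_lit 76) (nat_lit 5183229449) (nat_lit 35) (nat_lit 5) (nat_lit 38) (nat_lit 5) (nat_lit 36) (nat_lit 4) (nat_lit 400) (nat_lit 293) (nat_lit 207))))) (XT.nd (nat_lit 234) (nat_lit 228) (nat_lit 0) (XT.nd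 (nat_lit 78) (nat_lit 76) (nat_lit 0) (XT.lf (nat_lit 0) (nat_lit 2157191716) (nat_lit 76) (nat_lit 15086758977) (nat_lit 152) (nat_lit 9225570104) (nat_lit 34) (nat_lit 5) (nat_lit 35) (nat_lit 5) (nat_lit 36) (nat_lit 4) (nat_lit 401) (nat_lit 293) (nat_lit 206)) (XT.nd (nat_lit 78) (nat_lit 76) (nat_lit 0) (XT.lf (nat_lit 0) (nat_lit 13766678520) (nat_lit 76) (nat_lit 9235223634) (nat_lit 152) (nat_lit 4072415231) (nat_lit 34) (nat_lit 5) (nat_lit 35) (nat_lit 5) (nat_lit 36) (nat_lit 4) (nat_lit 402) (nat_lit 293) (nat_lit 205)) (XT.lf (nat_lit 0) (nat_lit 1187021105) (nat_lit 152) (nat_lit 2029139773) (nat_lit 76) (nat_lit 24481470646) (nat_lit 33) (nat_lit 5) (nat_lit 35) (nat_lit 5) (nat_lit 34) (nat_lit 5) (nat_lit 403) (nat_lit 293) (nat_lit 204)))) (XT.nd (nat_lit 156) (nat_lit 76) (nat_lit 0) (XT.nd (nat_lit 78) (nat_lit 0) (nat_lit 0) (XT.lf (nat_lit 0) (nat_lit 6621877233) (nat_lit 228) (nat_lit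 18672776497) (nat_lit 76) (nat_lit 3040800651) (nat_lit 31) (nat_lit 5) (nat_lit 34) (nat_lit 5) (nat_lit 32) (nat_lit 4) (nat_lit 404) (nat_lit 293) (nat_lit 203)) (XT.lf (nat_lit 0) (nat_lit 12248899290) (nat_lit 228) (nat_lit 7320249612) (nat_lit 76) (nat_lit 9422392879) (nat_lit 31) (nat_lit 5) (nat_lit 34) (nat_lit 5) (nat_lit 32) (nat_lit 4) (nat_lit 405) (nat_lit 293) (nat_lit 202))) (XT.nd (nat_lit 78) (nat_lit 0) (nat_lit 0) (XT.lf (nat_lit 0) (nat_lit 4417053672) (nat_lit 76) (nat_lit 13647403643) (nat_lit 152) (nat_lit 11602266095) (nat_lit 30) (nat_lit 5) (nat_lit 31) (nat_lit 5) (nat_lit 32) (nat_lit 4) (nat_lit 406) (nat_lit 293) (nat_lit 201)) (XT.lf (nat_lit 0) (nat_lit 16614953649) (nat_lit 76) (nat_lit 7490976946) (nat_lit 152) (nat_lit 6254689702) (nat_lit 30) (nat_lit 5) (nat_lit 31) (nat_lit 5) (nat_lit 32) (nat_lit 4) (nat_lit 407) (nat_lit 293) (nat_lit 200)))))) (XT.nd (nat_lit 546)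 (nat_lit 228) (nat_lit 0) (XT.nd (nat_lit 234) (nat_lit 228) (nat_lit 0) (XT.nd (nat_lit 78) (nat_lit 228) (nat_lit 0) (XT.lf (nat_lit 0) (nat_lit 29138421357) (nat_lit 76) (nat_lit 1168409579) (nat_lit 152) (nat_lit 769160841) (nat_lit 30) (nat_lit 5) (nat_lit 31) (nat_lit 5) (nat_lit 32) (nat_lit 4) (nat_lit 408) (nat_lit 293) (nat_lit 199)) (XT.nd (nat_lit 78) (nat_lit 0) (nat_lit 0) (XT.lf (nat_lit 0) (nat_lit 4916330884) (nat_lit 228) (nat_lit 21521722929) (nat_lit 76) (nat_lit 5369446773) (nat_lit 27) (nat_lit 5) (nat_lit 30) (nat_lit 5) (nat_lit 28) (nat_lit 4) (nat_lit 409) (nat_lit 293) (nat_lit 198)) (XT.lf (nat_lit 0) (nat_lit 10766933510) (nat_lit 228) (nat_lit 9703898101) (nat_lit 76) (nat_lit 12089597321) (nat_lit 27) (nat_lit 5) (nat_lit 30) (nat_lit 5) (nat_lit 28) (nat_lit 4) (nat_lit 410) (nat_lit 293) (nat_lit 197)))) (XT.nd (nat_lit 156) (nat_lit 152) (nat_lit 0) (XT.nd (nat_lit 78)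 (nat_lit 0) (nat_lit 0) (XT.lf (nat_lit 0) (nat_lit 2478280584) (nat_lit 76) (nat_lit 14317895141) (nat_lit 152) (nat_lit 16539678576) (nat_lit 26) (nat_lit 5) (nat_lit 27) (nat_lit 5) (nat_lit 28) (nat_lit 4) (nat_lit 411) (nat_lit 293) (nat_lit 196)) (XT.lf (nat_lit 0) (nat_lit 15186681815) (nat_lit 76) (nat_lit 7897138598) (nat_lit 152) (nat_lit 11048398997) (nat_lit 26) (nat_lit 5) (nat_lit 27) (nat_lit 5) (nat_lit 28) (nat_lit 4) (nat_lit 412) (nat_lit 293) (nat_lit 195))) (XT.nd (nat_lit 78) (nat_lit 152) (nat_lit 0) (XT.lf (nat_lit 0) (nat_lit 28239283420) (nat_lit 76) (nat_lit 1300941958) (nat_lit 152) (nat_lit 5412848823) (nat_lit 26) (nat_lit 5) (nat_lit 27) (nat_lit 5) (nat_lit 28) (nat_lit 4) (nat_lit 413) (nat_lit 293) (nat_lit 194)) (XT.lf (nat_lit 0) (nat_lit 475186747) (nat_lit 152) (nat_lit 29889453090) (nat_lit 76) (nat_lit 5431072413) (nat_lit 24) (nat_lit 5) (nat_lit 26) (nat_lit 5)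 (nat_lit 25) (nat_lit 4) (nat_lit 414) (nat_lit 293) (nat_lit 193))))) (XT.nd (nat_lit 234) (nat_lit 152) (nat_lit 0) (XT.nd (nat_lit 78) (nat_lit 76) (nat_lit 0) (XT.lf (nat_lit 0) (nat_lit 6492995019) (nat_lit 152) (nat_lit 17722628867) (nat_lit 76) (nat_lit 12444542473) (nat_lit 24) (nat_lit 5) (nat_lit 26) (nat_lit 5) (nat_lit 25) (nat_lit 4) (nat_lit 415) (nat_lit 293) (nat_lit 192)) (XT.nd (nat_lit 78) (nat_lit 76) (nat_lit 0) (XT.lf (nat_lit 0) (nat_lit 12672479820) (nat_lit 152) (nat_lit 5226164593) (nat_lit 76) (nat_lit 19652477768) (nat_lit 24) (nat_lit 5) (nat_lit 26) (nat_lit 5) (nat_lit 25) (nat_lit 4) (nat_lit 416) (nat_lit 293) (nat_lit 191)) (XT.lf (nat_lit 0) (nat_lit 7762329989) (nat_lit 76) (nat_lit 11331326975) (nat_lit 152) (nat_lit 19373462771) (nat_lit 23) (nat_lit 5) (nat_lit 24) (nat_lit 5) (nat_lit 25) (nat_lit 4) (nat_lit 417) (nat_lit 293) (nat_lit 190)))) (XT.nd (nat_lit 156)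 (nat_lit 152) (nat_lit 0) (XT.nd (nat_lit 78) (nat_lit 0) (nat_lit 0) (XT.lf (nat_lit 0) (nat_lit 21213612637) (nat_lit 76) (nat_lit 4528528782) (nat_lit 152) (nat_lit 13667417860) (nat_lit 23) (nat_lit 5) (nat_lit 24) (nat_lit 5) (nat_lit 25) (nat_lit 4) (nat_lit 418) (nat_lit 293) (nat_lit 189)) (XT.lf (nat_lit 0) (nat_lit 32596180732) (nat_lit 152) (nat_lit 5369050535) (nat_lit 0) (nat_lit 2414859894) (nat_lit 23) (nat_lit 5) (nat_lit 25) (nat_lit 4) (nat_lit 23) (nat_lit 4) (nat_lit 419) (nat_lit 293) (nat_lit 188))) (XT.nd (nat_lit 78) (nat_lit 76) (nat_lit 0) (XT.lf (nat_lit 0) (nat_lit 7919945858) (nat_lit 76) (nat_lit 31839656729) (nat_lit 76) (nat_lit 1617025667) (nat_lit 22) (nat_lit 4) (nat_lit 23) (nat_lit 5) (nat_lit 23) (nat_lit 4) (nat_lit 420) (nat_lit 293) (nat_lit 187)) (XT.lf (nat_lit 0) (nat_lit 4680040287) (nat_lit 152) (nat_lit 20762256292) (nat_lit 76) (nat_lit 16958274357) (nat_lit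 21) (nat_lit 5) (nat_lit 23) (nat_lit 5) (nat_lit 22) (nat_lit 4) (nat_lit 421) (nat_lit 293) (nat_lit 186))))))))
noncomputable def xc88 : XT := (XT.nd (nat_lit 38298) (nat_lit 0) (nat_lit 11932) (XT.nd (nat_lit 1014) (nat_lit 380) (nat_lit 0) (XT.nd (nat_lit 468) (nat_lit 228) (nat_lit 0) (XT.nd (nat_lit 234) (nat_lit 76) (nat_lit 0) (XT.nd (nat_lit 78) (nat_lit 76) (nat_lit 0) (XT.lf (nat_lit 0) (nat_lit 11116833381) (nat_lit 152) (nat_lit 7734505159) (nat_lit 76) (nat_lit 24603915498) (nat_lit 21) (nat_lit 5) (nat_lit 23) (nat_lit 5) (nat_lit 22) (nat_lit 4) (nat_lit 422) (nat_lit 293) (nat_lit 185)) (XT.nd (nat_lit 78) (nat_lit 0) (nat_lit 0) (XT.lf (nat_lit 0) (nat_lit 5766014013) (nat_lit 76) (nat_lit 12019944431) (nat_lit 152) (nat_lit 26754444206) (nat_lit 20) (nat_lit 5) (nat_lit 21) (nat_lit 5) (nat_lit 22) (nat_lit 4) (nat_lit 423) (nat_lit 293) (nat_lit 184)) (XT.lf (nat_lit 0) (nat_lit 19799818147)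 (nat_lit 76) (nat_lit 4917424895) (nat_lit 152) (nat_lit 20939001915) (nat_lit 20) (nat_lit 5) (nat_lit 21) (nat_lit 5) (nat_lit 22) (nat_lit 4) (nat_lit 424) (nat_lit 293) (nat_lit 183)))) (XT.nd (nat_lit 78) (nat_lit 76) (nat_lit 0) (XT.lf (nat_lit 0) (nat_lit 31863834722) (nat_lit 152) (nat_lit 12603712421) (nat_lit 0) (nat_lit 2337796089) (nat_lit 20) (nat_lit 5) (nat_lit 22) (nat_lit 4) (nat_lit 20) (nat_lit 4) (nat_lit 425) (nat_lit 293) (nat_lit 182)) (XT.nd (nat_lit 78) (nat_lit 0) (nat_lit 0) (XT.lf (nat_lit 0) (nat_lit 988314007) (nat_lit 76) (nat_lit 38279470484) (nat_lit 76) (nat_lit 8719842859) (nat_lit 19) (nat_lit 4) (nat_lit 20) (nat_lit 5) (nat_lit 20) (nat_lit 4) (nat_lit 426) (nat_lit 293) (nat_lit 181)) (XT.lf (nat_lit 0) (nat_lit 15217880406) (nat_lit 76) (nat_lit 31788186556) (nat_lit 76) (nat_lit 2195948257) (nat_lit 19) (nat_lit 4) (nat_lit 20) (nat_lit 5) (nat_lit 20) (nat_lit 4)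 (nat_lit 427) (nat_lit 293) (nat_lit 180))))) (XT.nd (nat_lit 234) (nat_lit 76) (nat_lit 0) (XT.nd (nat_lit 78) (nat_lit 76) (nat_lit 0) (XT.lf (nat_lit 0) (nat_lit 4420623917) (nat_lit 152) (nat_lit 20650032593) (nat_lit 76) (nat_lit 25381318239) (nat_lit 18) (nat_lit 5) (nat_lit 20) (nat_lit 5) (nat_lit 19) (nat_lit 4) (nat_lit 428) (nat_lit 293) (nat_lit 179)) (XT.nd (nat_lit 78) (nat_lit 76) (nat_lit 0) (XT.lf (nat_lit 0) (nat_lit 11177220656) (nat_lit 152) (nat_lit 6964879898) (nat_lit 76) (nat_lit 33597111847) (nat_lit 18) (nat_lit 5) (nat_lit 20) (nat_lit 5) (nat_lit 19) (nat_lit 4) (nat_lit 429) (nat_lit 293) (nat_lit 178)) (XT.lf (nat_lit 0) (nat_lit 7245781257) (nat_lit 76) (nat_lit 10946466266) (nat_lit 152) (nat_lit 34871149165) (nat_lit 17) (nat_lit 5) (nat_lit 18) (nat_lit 5) (nat_lit 19) (nat_lit 4) (nat_lit 430) (nat_lit 293) (nat_lit 177)))) (XT.nd (nat_lit 156) (nat_lit 76) (nat_lit 0)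 (XT.nd (nat_lit 78) (nat_lit 0) (nat_lit 0) (XT.lf (nat_lit 0) (nat_lit 21999357239) (nat_lit 76) (nat_lit 3474934689) (nat_lit 152) (nat_lit 28951319001) (nat_lit 17) (nat_lit 5) (nat_lit 18) (nat_lit 5) (nat_lit 19) (nat_lit 4) (nat_lit 431) (nat_lit 293) (nat_lit 176)) (XT.lf (nat_lit 0) (nat_lit 33001890199) (nat_lit 152) (nat_lit 18699425662) (nat_lit 0) (nat_lit 4126564346) (nat_lit 17) (nat_lit 5) (nat_lit 19) (nat_lit 4) (nat_lit 17) (nat_lit 4) (nat_lit 432) (nat_lit 293) (nat_lit 175))) (XT.nd (nat_lit 78) (nat_lit 76) (nat_lit 0) (XT.lf (nat_lit 0) (nat_lit 40776634500) (nat_lit 152) (nat_lit 4620151682) (nat_lit 0) (nat_lit 11874793186) (nat_lit 17) (nat_lit 5) (nat_lit 19) (nat_lit 4) (nat_lit 17) (nat_lit 4) (nat_lit 433) (nat_lit 293) (nat_lit 174)) (XT.lf (nat_lit 0) (nat_lit 10053452801) (nat_lit 76) (nat_lit 38815102235) (nat_lit 76) (nat_lit 9887517755) (nat_lit 16) (nat_lit 4) (nat_lit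 17) (nat_lit 5) (nat_lit 17) (nat_lit 4) (nat_lit 434) (nat_lit 293) (nat_lit 173)))))) (XT.nd (nat_lit 468) (nat_lit 228) (nat_lit 0) (XT.nd (nat_lit 234) (nat_lit 76) (nat_lit 0) (XT.nd (nat_lit 78) (nat_lit 76) (nat_lit 0) (XT.lf (nat_lit 0) (nat_lit 25237984725) (nat_lit 76) (nat_lit 31999336384) (nat_lit 76) (nat_lit 3046758539) (nat_lit 16) (nat_lit 4) (nat_lit 17) (nat_lit 5) (nat_lit 17) (nat_lit 4) (nat_lit 435) (nat_lit 293) (nat_lit 172)) (XT.nd (nat_lit 78) (nat_lit 0) (nat_lit 0) (XT.lf (nat_lit 0) (nat_lit 3908861657) (nat_lit 152) (nat_lit 21041854083) (nat_lit 76) (nat_lit 36906428555) (nat_lit 15) (nat_lit 5) (nat_lit 17) (nat_lit 5) (nat_lit 16) (nat_lit 4) (nat_lit 436) (nat_lit 293) (nat_lit 171)) (XT.lf (nat_lit 0) (nat_lit 10999949998) (nat_lit 152) (nat_lit 6670503394) (nat_lit 76) (nat_lit 45806402579) (nat_lit 15) (nat_lit 5) (nat_lit 17) (nat_lit 5) (nat_lit 16) (nat_lit 4) (nat_lit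 437) (nat_lit 293) (nat_lit 170)))) (XT.nd (nat_lit 78) (nat_lit 0) (nat_lit 0) (XT.lf (nat_lit 0) (nat_lit 8271202899) (nat_lit 76) (nat_lit 10100460775) (nat_lit 152) (nat_lit 46771459671) (nat_lit 14) (nat_lit 5) (nat_lit 15) (nat_lit 5) (nat_lit 16) (nat_lit 4) (nat_lit 438) (nat_lit 293) (nat_lit 169)) (XT.nd (nat_lit 78) (nat_lit 0) (nat_lit 0) (XT.lf (nat_lit 0) (nat_lit 23775930795) (nat_lit 76) (nat_lit 2244468927) (nat_lit 152) (nat_lit 40837303983) (nat_lit 14) (nat_lit 5) (nat_lit 15) (nat_lit 5) (nat_lit 16) (nat_lit 4) (nat_lit 439) (nat_lit 293) (nat_lit 168)) (XT.lf (nat_lit 0) (nat_lit 33943553491) (nat_lit 152) (nat_lit 28955694205) (nat_lit 0) (nat_lit 5723126172) (nat_lit 14) (nat_lit 5) (nat_lit 16) (nat_lit 4) (nat_lit 14) (nat_lit 4) (nat_lit 440) (nat_lit 293) (nat_lit 167))))) (XT.nd (nat_lit 234) (nat_lit 152) (nat_lit 0) (XT.nd (nat_lit 78) (nat_lit 76) (nat_lit 0) (XT.lf (nat_lit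 0) (nat_lit 42115700794) (nat_lit 152) (nat_lit 14448993825) (nat_lit 0) (nat_lit 13874951582) (nat_lit 14) (nat_lit 5) (nat_lit 16) (nat_lit 4) (nat_lit 14) (nat_lit 4) (nat_lit 441) (nat_lit 293) (nat_lit 166)) (XT.nd (nat_lit 78) (nat_lit 0) (nat_lit 0) (XT.lf (nat_lit 0) (nat_lit 481984447) (nat_lit 76) (nat_lit 50045055815) (nat_lit 76) (nat_lit 21784576610) (nat_lit 13) (nat_lit 4) (nat_lit 14) (nat_lit 5) (nat_lit 14) (nat_lit 4) (nat_lit 442) (nat_lit 293) (nat_lit 165)) (XT.lf (nat_lit 0) (nat_lit 16136953204) (nat_lit 76) (nat_lit 43189183237) (nat_lit 76) (nat_lit 14909548699) (nat_lit 13) (nat_lit 4) (nat_lit 14) (nat_lit 5) (nat_lit 14) (nat_lit 4) (nat_lit 443) (nat_lit 293) (nat_lit 164)))) (XT.nd (nat_lit 156) (nat_lit 152) (nat_lit 0) (XT.nd (nat_lit 78) (nat_lit 0) (nat_lit 0) (XT.lf (nat_lit 0) (nat_lit 32242028235) (nat_lit 76) (nat_lit 36136992823) (nat_lit 76) (nat_lit 7838760875)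 (nat_lit 13) (nat_lit 4) (nat_lit 14) (nat_lit 5) (nat_lit 14) (nat_lit 4) (nat_lit 444) (nat_lit 293) (nat_lit 163)) (XT.lf (nat_lit 0) (nat_lit 48811281936) (nat_lit 76) (nat_lit 28882322466) (nat_lit 76) (nat_lit 566034779) (nat_lit 13) (nat_lit 4) (nat_lit 14) (nat_lit 5) (nat_lit 14) (nat_lit 4) (nat_lit 445) (nat_lit 293) (nat_lit 162))) (XT.nd (nat_lit 78) (nat_lit 76) (nat_lit 0) (XT.lf (nat_lit 0) (nat_lit 6780048144) (nat_lit 152) (nat_lit 14570319797) (nat_lit 76) (nat_lit 59010678958) (nat_lit 12) (nat_lit 5) (nat_lit 14) (nat_lit 5) (nat_lit 13) (nat_lit 4) (nat_lit 446) (nat_lit 293) (nat_lit 161)) (XT.lf (nat_lit 0) (nat_lit 744917898) (nat_lit 76) (nat_lit 13587966187) (nat_lit 152) (nat_lit 68192513055) (nat_lit 11) (nat_lit 5) (nat_lit 12) (nat_lit 5) (nat_lit 13) (nat_lit 4) (nat_lit 447) (nat_lit 293) (nat_lit 160))))))) (XT.nd (nat_lit 1014) (nat_lit 6460) (nat_lit 0) (XT.nd (nat_lit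 468) (nat_lit 4788) (nat_lit 0) (XT.nd (nat_lit 234) (nat_lit 1368) (nat_lit 0) (XT.nd (nat_lit 78) (nat_lit 608) (nat_lit 0) (XT.lf (nat_lit 0) (nat_lit 826368191) (nat_lit 532) (nat_lit 1646796312) (nat_lit 0) (nat_lit 826368191) (nat_lit 342) (nat_lit 5) (nat_lit 349) (nat_lit 4) (nat_lit 342) (nat_lit 4) (nat_lit 312) (nat_lit 294) (nat_lit 294)) (XT.nd (nat_lit 78) (nat_lit 76) (nat_lit 0) (XT.lf (nat_lit 0) (nat_lit 683822596) (nat_lit 532) (nat_lit 4122078356) (nat_lit 532) (nat_lit 1821059855) (nat_lit 335) (nat_lit 4) (nat_lit 342) (nat_lit 5) (nat_lit 342) (nat_lit 4) (nat_lit 313) (nat_lit 294) (nat_lit 293)) (XT.lf (nat_lit 0) (nat_lit 1296705686) (nat_lit 608) (nat_lit 1902704502) (nat_lit 76) (nat_lit 3458209299) (nat_lit 334) (nat_lit 5) (nat_lit 342) (nat_lit 5) (nat_lit 335) (nat_lit 4) (nat_lit 314) (nat_lit 294) (nat_lit 292)))) (XT.nd (nat_lit 78) (nat_lit 760) (nat_lit 0) (XT.lf (nat_lit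 0) (nat_lit 2204000037) (nat_lit 608) (nat_lit 2184151543) (nat_lit 684) (nat_lit 2303109839) (nat_lit 326) (nat_lit 5) (nat_lit 334) (nat_lit 5) (nat_lit 335) (nat_lit 4) (nat_lit 315) (nat_lit 294) (nat_lit 291)) (XT.nd (nat_lit 78) (nat_lit 684) (nat_lit 0) (XT.lf (nat_lit 0) (nat_lit 746045866) (nat_lit 684) (nat_lit 342045862) (nat_lit 76) (nat_lit 5640193488) (nat_lit 325) (nat_lit 5) (nat_lit 334) (nat_lit 5) (nat_lit 326) (nat_lit 5) (nat_lit 316) (nat_lit 294) (nat_lit 290)) (XT.lf (nat_lit 0) (nat_lit 3778827273) (nat_lit 760) (nat_lit 2866971603) (nat_lit 76) (nat_lit 121881319) (nat_lit 316) (nat_lit 5) (nat_lit 326) (nat_lit 5) (nat_lit 317) (nat_lit 4) (nat_lit 317) (nat_lit 294) (nat_lit 289))))) (XT.nd (nat_lit 234) (nat_lit 3116) (nat_lit 0) (XT.nd (nat_lit 78) (nat_lit 836) (nat_lit 0) (XT.lf (nat_lit 0) (nat_lit 21571440) (nat_lit 836) (nat_lit 5405837974) (nat_lit 76) (nat_lit 1383040275)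 (nat_lit 305) (nat_lit 5) (nat_lit 316) (nat_lit 5) (nat_lit 306) (nat_lit 5) (nat_lit 318) (nat_lit 294) (nat_lit 288)) (XT.nd (nat_lit 78) (nat_lit 836) (nat_lit 0) (XT.lf (nat_lit 0) (nat_lit 2994609927) (nat_lit 836) (nat_lit 1103000006) (nat_lit 76) (nat_lit 2758122825) (nat_lit 305) (nat_lit 5) (nat_lit 316) (nat_lit 5) (nat_lit 306) (nat_lit 5) (nat_lit 319) (nat_lit 294) (nat_lit 287)) (XT.lf (nat_lit 0) (nat_lit 3313385342) (nat_lit 836) (nat_lit 2681262712) (nat_lit 912) (nat_lit 909678904) (nat_lit 294) (nat_lit 5) (nat_lit 305) (nat_lit 5) (nat_lit 306) (nat_lit 5) (nat_lit 320) (nat_lit 294) (nat_lit 286)))) (XT.nd (nat_lit 156) (nat_lit 2128) (nat_lit 0) (XT.nd (nat_lit 78) (nat_lit 0) (nat_lit 0) (XT.lf (nat_lit 0) (nat_lit 845394807) (nat_lit 912) (nat_lit 1169658118) (nat_lit 988) (nat_lit 4941004192) (nat_lit 281) (nat_lit 5) (nat_lit 293) (nat_lit 5) (nat_lit 294) (nat_lit 5) (nat_lit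 321) (nat_lit 294) (nat_lit 285)) (XT.lf (nat_lit 0) (nat_lit 4958564130) (nat_lit 988) (nat_lit 1616366977) (nat_lit 76) (nat_lit 435737757) (nat_lit 281) (nat_lit 5) (nat_lit 294) (nat_lit 5) (nat_lit 282) (nat_lit 5) (nat_lit 322) (nat_lit 294) (nat_lit 284))) (XT.nd (nat_lit 78) (nat_lit 1064) (nat_lit 0) (XT.lf (nat_lit 0) (nat_lit 856727569) (nat_lit 1064) (nat_lit 4098575431) (nat_lit 76) (nat_lit 2112886035) (nat_lit 267) (nat_lit 5) (nat_lit 281) (nat_lit 5) (nat_lit 268) (nat_lit 5) (nat_lit 323) (nat_lit 294) (nat_lit 283)) (XT.lf (nat_lit 0) (nat_lit 506722887) (nat_lit 1064) (nat_lit 3238712207) (nat_lit 1140) (nat_lit 3383447288) (nat_lit 253) (nat_lit 5) (nat_lit 267) (nat_lit 5) (nat_lit 268) (nat_lit 5) (nat_lit 324) (nat_lit 294) (nat_lit 282)))))) (XT.nd (nat_lit 546) (nat_lit 2736) (nat_lit 0) (XT.nd (nat_lit 234) (nat_lit 1292) (nat_lit 0) (XT.nd (nat_lit 78) (nat_lit 2432) (nat_lit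 0) (XT.lf (nat_lit 0) (nat_lit 5252953303) (nat_lit 1064) (nat_lit 1423506524) (nat_lit 1140) (nat_lit 516337674) (nat_lit 253) (nat_lit 5) (nat_lit 267) (nat_lit 5) (nat_lit 268) (nat_lit 5) (nat_lit 325) (nat_lit 294) (nat_lit 281)) (XT.nd (nat_lit 78) (nat_lit 1216) (nat_lit 0) (XT.lf (nat_lit 0) (nat_lit 2337177057) (nat_lit 1216) (nat_lit 4430320470) (nat_lit 76) (nat_lit 492058157) (nat_lit 237) (nat_lit 5) (nat_lit 253) (nat_lit 5) (nat_lit 238) (nat_lit 5) (nat_lit 326) (nat_lit 294) (nat_lit 280)) (XT.lf (nat_lit 0) (nat_lit 358629906) (nat_lit 1216) (nat_lit 4862195650) (nat_lit 1292) (nat_lit 2108755160) (nat_lit 221) (nat_lit 5) (nat_lit 237) (nat_lit 5) (nat_lit 238) (nat_lit 5) (nat_lit 327) (nat_lit 294) (nat_lit 279)))) (XT.nd (nat_lit 156) (nat_lit 608) (nat_lit 0) (XT.nd (nat_lit 78) (nat_lit 608) (nat_lit 0) (XT.lf (nat_lit 0) (nat_lit 737392736) (nat_lit 1292) (nat_lit 2109597649) (nat_lit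 76) (nat_lit 4555643929) (nat_lit 220) (nat_lit 5) (nat_lit 237) (nat_lit 5) (nat_lit 221) (nat_lit 5) (nat_lit 328) (nat_lit 294) (nat_lit 278)) (XT.lf (nat_lit 0) (nat_lit 2851516689) (nat_lit 608) (nat_lit 723150418) (nat_lit 684) (nat_lit 3904201440) (nat_lit 212) (nat_lit 5) (nat_lit 220) (nat_lit 5) (nat_lit 221) (nat_lit 5) (nat_lit 329) (nat_lit 294) (nat_lit 277))) (XT.nd (nat_lit 78) (nat_lit 76) (nat_lit 0) (XT.lf (nat_lit 0) (nat_lit 358242294) (nat_lit 532) (nat_lit 6100084523) (nat_lit 608) (nat_lit 1100282424) (nat_lit 205) (nat_lit 5) (nat_lit 212) (nat_lit 5) (nat_lit 213) (nat_lit 5) (nat_lit 330) (nat_lit 294) (nat_lit 276)) (XT.lf (nat_lit 0) (nat_lit 1730121926) (nat_lit 608) (nat_lit 2159086966) (nat_lit 76) (nat_lit 3751754264) (nat_lit 204) (nat_lit 5) (nat_lit 212) (nat_lit 5) (nat_lit 205) (nat_lit 5) (nat_lit 331) (nat_lit 294) (nat_lit 275))))) (XT.nd (nat_lit 234) (nat_lit 1520)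 (nat_lit 0) (XT.nd (nat_lit 78) (nat_lit 608) (nat_lit 0) (XT.lf (nat_lit 0) (nat_lit 3000308098) (nat_lit 608) (nat_lit 1577005602) (nat_lit 684) (nat_lit 3149580046) (nat_lit 196) (nat_lit 5) (nat_lit 204) (nat_lit 5) (nat_lit 205) (nat_lit 5) (nat_lit 332) (nat_lit 294) (nat_lit 274)) (XT.nd (nat_lit 78) (nat_lit 76) (nat_lit 0) (XT.lf (nat_lit 0) (nat_lit 462903444) (nat_lit 532) (nat_lit 7007717305) (nat_lit 608) (nat_lit 346011561) (nat_lit 189) (nat_lit 5) (nat_lit 196) (nat_lit 5) (nat_lit 197) (nat_lit 5) (nat_lit 333) (nat_lit 294) (nat_lit 273)) (XT.lf (nat_lit 0) (nat_lit 2482975919) (nat_lit 608) (nat_lit 2126051181) (nat_lit 76) (nat_lit 3299623812) (nat_lit 188) (nat_lit 5) (nat_lit 196) (nat_lit 5) (nat_lit 189) (nat_lit 5) (nat_lit 334) (nat_lit 294) (nat_lit 272)))) (XT.nd (nat_lit 156) (nat_lit 456) (nat_lit 0) (XT.nd (nat_lit 78) (nat_lit 532) (nat_lit 0) (XT.lf (nat_lit 0) (nat_lit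 3237755821) (nat_lit 532) (nat_lit 2112462730) (nat_lit 608) (nat_lit 2654345253) (nat_lit 181) (nat_lit 5) (nat_lit 188) (nat_lit 5) (nat_lit 189) (nat_lit 5) (nat_lit 335) (nat_lit 294) (nat_lit 271)) (XT.lf (nat_lit 0) (nat_lit 158361730) (nat_lit 532) (nat_lit 7476769787) (nat_lit 76) (nat_lit 469344608) (nat_lit 174) (nat_lit 5) (nat_lit 181) (nat_lit 5) (nat_lit 175) (nat_lit 5) (nat_lit 336) (nat_lit 294) (nat_lit 270))) (XT.nd (nat_lit 78) (nat_lit 456) (nat_lit 0) (XT.lf (nat_lit 0) (nat_lit 3002571760) (nat_lit 532) (nat_lit 2054158382) (nat_lit 76) (nat_lit 3149895852) (nat_lit 174) (nat_lit 5) (nat_lit 181) (nat_lit 5) (nat_lit 175) (nat_lit 5) (nat_lit 337) (nat_lit 294) (nat_lit 269)) (XT.lf (nat_lit 0) (nat_lit 3519899906) (nat_lit 456) (nat_lit 2378999028) (nat_lit 532) (nat_lit 2413979201) (nat_lit 168) (nat_lit 5) (nat_lit 174) (nat_lit 5) (nat_lit 175) (nat_lit 5) (nat_lit 338) (nat_lit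 294) (nat_lit 268))))))))
noncomputable def xc89 : XT := (XT.nd (nat_lit 2028) (nat_lit 3192) (nat_lit 0) (XT.nd (nat_lit 1014) (nat_lit 2508) (nat_lit 0) (XT.nd (nat_lit 468) (nat_lit 1900) (nat_lit 0) (XT.nd (nat_lit 234) (nat_lit 912) (nat_lit 0) (XT.nd (nat_lit 78) (nat_lit 456) (nat_lit 0) (XT.lf (nat_lit 0) (nat_lit 416876766) (nat_lit 532) (nat_lit 7614874777) (nat_lit 76) (nat_lit 391491289) (nat_lit 161) (nat_lit 5) (nat_lit 168) (nat_lit 5) (nat_lit 162) (nat_lit 5) (nat_lit 339) (nat_lit 294) (nat_lit 267)) (XT.nd (nat_lit 78) (nat_lit 456) (nat_lit 0) (XT.lf (nat_lit 0) (nat_lit 3291063292) (nat_lit 532) (nat_lit 1988964328) (nat_lit 76) (nat_lit 3256004103) (nat_lit 161) (nat_lit 5) (nat_lit 168) (nat_lit 5) (nat_lit 162) (nat_lit 5) (nat_lit 340) (nat_lit 294) (nat_lit 266)) (XT.lf (nat_lit 0) (nat_lit 3800694997) (nat_lit 456) (nat_lit 2423713212) (nat_lit 532) (nat_lit 2428644958) (nat_lit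 155) (nat_lit 5) (nat_lit 161) (nat_lit 5) (nat_lit 162) (nat_lit 5) (nat_lit 341) (nat_lit 294) (nat_lit 265)))) (XT.nd (nat_lit 78) (nat_lit 456) (nat_lit 0) (XT.lf (nat_lit 0) (nat_lit 434529797) (nat_lit 456) (nat_lit 7813410716) (nat_lit 76) (nat_lit 526396078) (nat_lit 149) (nat_lit 5) (nat_lit 155) (nat_lit 5) (nat_lit 150) (nat_lit 5) (nat_lit 342) (nat_lit 294) (nat_lit 264)) (XT.nd (nat_lit 78) (nat_lit 456) (nat_lit 0) (XT.lf (nat_lit 0) (nat_lit 3346029817) (nat_lit 456) (nat_lit 1978901369) (nat_lit 76) (nat_lit 3573302393) (nat_lit 149) (nat_lit 5) (nat_lit 155) (nat_lit 5) (nat_lit 150) (nat_lit 5) (nat_lit 343) (nat_lit 294) (nat_lit 263)) (XT.lf (nat_lit 0) (nat_lit 4030990192) (nat_lit 456) (nat_lit 2292207528) (nat_lit 532) (nat_lit 2703332831) (nat_lit 143) (nat_lit 5) (nat_lit 149) (nat_lit 5) (nat_lit 150) (nat_lit 5) (nat_lit 344) (nat_lit 294) (nat_lit 262))))) (XT.nd (nat_lit 234)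 (nat_lit 1064) (nat_lit 0) (XT.nd (nat_lit 78) (nat_lit 380) (nat_lit 0) (XT.lf (nat_lit 0) (nat_lit 204805141) (nat_lit 456) (nat_lit 8124841243) (nat_lit 76) (nat_lit 829645054) (nat_lit 137) (nat_lit 5) (nat_lit 143) (nat_lit 5) (nat_lit 138) (nat_lit 5) (nat_lit 345) (nat_lit 294) (nat_lit 261)) (XT.nd (nat_lit 78) (nat_lit 380) (nat_lit 0) (XT.lf (nat_lit 0) (nat_lit 3160278749) (nat_lit 456) (nat_lit 2076354298) (nat_lit 76) (nat_lit 4058196340) (nat_lit 137) (nat_lit 5) (nat_lit 143) (nat_lit 5) (nat_lit 138) (nat_lit 5) (nat_lit 346) (nat_lit 294) (nat_lit 260)) (XT.lf (nat_lit 0) (nat_lit 4157415941) (nat_lit 380) (nat_lit 2029474992) (nat_lit 456) (nat_lit 3248097417) (nat_lit 132) (nat_lit 5) (nat_lit 137) (nat_lit 5) (nat_lit 138) (nat_lit 5) (nat_lit 347) (nat_lit 294) (nat_lit 259)))) (XT.nd (nat_lit 156) (nat_lit 684) (nat_lit 0) (XT.nd (nat_lit 78) (nat_lit 76) (nat_lit 0) (XT.lf (nat_lit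 0) (nat_lit 970451077) (nat_lit 304) (nat_lit 8319856458) (nat_lit 380) (nat_lit 289492626) (nat_lit 128) (nat_lit 5) (nat_lit 132) (nat_lit 5) (nat_lit 133) (nat_lit 5) (nat_lit 348) (nat_lit 294) (nat_lit 258)) (XT.lf (nat_lit 0) (nat_lit 2721556093) (nat_lit 380) (nat_lit 2338845240) (nat_lit 76) (nat_lit 4667261269) (nat_lit 127) (nat_lit 5) (nat_lit 132) (nat_lit 5) (nat_lit 128) (nat_lit 5) (nat_lit 349) (nat_lit 294) (nat_lit 257))) (XT.nd (nat_lit 78) (nat_lit 304) (nat_lit 0) (XT.lf (nat_lit 0) (nat_lit 4121154934) (nat_lit 380) (nat_lit 1680808149) (nat_lit 456) (nat_lit 4078392346) (nat_lit 122) (nat_lit 5) (nat_lit 127) (nat_lit 5) (nat_lit 128) (nat_lit 5) (nat_lit 350) (nat_lit 294) (nat_lit 256)) (XT.lf (nat_lit 0) (nat_lit 705344744) (nat_lit 304) (nat_lit 8263267259) (nat_lit 380) (nat_lit 1069227255) (nat_lit 118) (nat_lit 5) (nat_lit 122) (nat_lit 5) (nat_lit 123) (nat_lit 5) (nat_lit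 351) (nat_lit 294) (nat_lit 255)))))) (XT.nd (nat_lit 468) (nat_lit 1444) (nat_lit 0) (XT.nd (nat_lit 234) (nat_lit 380) (nat_lit 0) (XT.nd (nat_lit 78) (nat_lit 608) (nat_lit 0) (XT.lf (nat_lit 0) (nat_lit 2012156781) (nat_lit 380) (nat_lit 2830352360) (nat_lit 76) (nat_lit 5356329835) (nat_lit 117) (nat_lit 5) (nat_lit 122) (nat_lit 5) (nat_lit 118) (nat_lit 5) (nat_lit 352) (nat_lit 294) (nat_lit 254)) (XT.nd (nat_lit 78) (nat_lit 304) (nat_lit 0) (XT.lf (nat_lit 0) (nat_lit 3856571163) (nat_lit 304) (nat_lit 1292746519) (nat_lit 380) (nat_lit 5215511619) (nat_lit 113) (nat_lit 5) (nat_lit 117) (nat_lit 5) (nat_lit 118) (nat_lit 5) (nat_lit 353) (nat_lit 294) (nat_lit 253)) (XT.lf (nat_lit 0) (nat_lit 171969484) (nat_lit 304) (nat_lit 8210203850) (nat_lit 380) (nat_lit 2153600910) (nat_lit 109) (nat_lit 5) (nat_lit 113) (nat_lit 5) (nat_lit 114) (nat_lit 5) (nat_lit 354) (nat_lit 294) (nat_lit 252))))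 (XT.nd (nat_lit 78) (nat_lit 304) (nat_lit 0) (XT.lf (nat_lit 0) (nat_lit 1008424842) (nat_lit 380) (nat_lit 3622790275) (nat_lit 76) (nat_lit 6079531783) (nat_lit 108) (nat_lit 5) (nat_lit 113) (nat_lit 5) (nat_lit 109) (nat_lit 5) (nat_lit 355) (nat_lit 294) (nat_lit 251)) (XT.nd (nat_lit 78) (nat_lit 0) (nat_lit 0) (XT.lf (nat_lit 0) (nat_lit 3289668032) (nat_lit 304) (nat_lit 914081140) (nat_lit 380) (nat_lit 6687148605) (nat_lit 104) (nat_lit 5) (nat_lit 108) (nat_lit 5) (nat_lit 109) (nat_lit 5) (nat_lit 356) (nat_lit 294) (nat_lit 250)) (XT.lf (nat_lit 0) (nat_lit 7510519484) (nat_lit 380) (nat_lit 694171296) (nat_lit 76) (nat_lit 2871314633) (nat_lit 104) (nat_lit 5) (nat_lit 109) (nat_lit 5) (nat_lit 105) (nat_lit 5) (nat_lit 357) (nat_lit 294) (nat_lit 249))))) (XT.nd (nat_lit 234) (nat_lit 836) (nat_lit 0) (XT.nd (nat_lit 78) (nat_lit 380) (nat_lit 0) (XT.lf (nat_lit 0) (nat_lit 6465167951) (nat_lit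 228) (nat_lit 4474584900) (nat_lit 304) (nat_lit 326234872) (nat_lit 101) (nat_lit 5) (nat_lit 104) (nat_lit 5) (nat_lit 105) (nat_lit 5) (nat_lit 358) (nat_lit 294) (nat_lit 248)) (XT.nd (nat_lit 78) (nat_lit 0) (nat_lit 0) (XT.lf (nat_lit 0) (nat_lit 2336342417) (nat_lit 304) (nat_lit 596936221) (nat_lit 380) (nat_lit 8528086189) (nat_lit 96) (nat_lit 5) (nat_lit 100) (nat_lit 5) (nat_lit 101) (nat_lit 5) (nat_lit 359) (nat_lit 294) (nat_lit 247)) (XT.lf (nat_lit 0) (nat_lit 6318386202) (nat_lit 380) (nat_lit 1984265436) (nat_lit 76) (nat_lit 3358841347) (nat_lit 96) (nat_lit 5) (nat_lit 101) (nat_lit 5) (nat_lit 97) (nat_lit 5) (nat_lit 360) (nat_lit 294) (nat_lit 246)))) (XT.nd (nat_lit 156) (nat_lit 228) (nat_lit 0) (XT.nd (nat_lit 78) (nat_lit 380) (nat_lit 0) (XT.lf (nat_lit 0) (nat_lit 5399504026) (nat_lit 228) (nat_lit 4417485050) (nat_lit 304) (nat_lit 2050294746) (nat_lit 93) (nat_lit 5) (nat_lit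 96) (nat_lit 5) (nat_lit 97) (nat_lit 5) (nat_lit 361) (nat_lit 294) (nat_lit 245)) (XT.lf (nat_lit 0) (nat_lit 900396958) (nat_lit 304) (nat_lit 397949881) (nat_lit 380) (nat_lit 10781034294) (nat_lit 88) (nat_lit 5) (nat_lit 92) (nat_lit 5) (nat_lit 93) (nat_lit 5) (nat_lit 362) (nat_lit 294) (nat_lit 244))) (XT.nd (nat_lit 78) (nat_lit 228) (nat_lit 0) (XT.lf (nat_lit 0) (nat_lit 4762910782) (nat_lit 380) (nat_lit 3801923511) (nat_lit 76) (nat_lit 3730713559) (nat_lit 88) (nat_lit 5) (nat_lit 93) (nat_lit 5) (nat_lit 89) (nat_lit 5) (nat_lit 363) (nat_lit 294) (nat_lit 243)) (XT.lf (nat_lit 0) (nat_lit 3797361480) (nat_lit 228) (nat_lit 4530552450) (nat_lit 304) (nat_lit 4190405767) (nat_lit 85) (nat_lit 5) (nat_lit 88) (nat_lit 5) (nat_lit 89) (nat_lit 5) (nat_lit 364) (nat_lit 294) (nat_lit 242))))))) (XT.nd (nat_lit 1014) (nat_lit 1444) (nat_lit 0) (XT.nd (nat_lit 468) (nat_lit 912) (nat_lit 0) (XT.nd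 (nat_lit 234) (nat_lit 304) (nat_lit 0) (XT.nd (nat_lit 78) (nat_lit 532) (nat_lit 0) (XT.lf (nat_lit 0) (nat_lit 11633992029) (nat_lit 228) (nat_lit 360947435) (nat_lit 304) (nat_lit 752997811) (nat_lit 85) (nat_lit 5) (nat_lit 88) (nat_lit 5) (nat_lit 89) (nat_lit 5) (nat_lit 365) (nat_lit 294) (nat_lit 241)) (XT.nd (nat_lit 78) (nat_lit 228) (nat_lit 0) (XT.lf (nat_lit 0) (nat_lit 2794102670) (nat_lit 304) (nat_lit 6262518412) (nat_lit 76) (nat_lit 3925203384) (nat_lit 81) (nat_lit 5) (nat_lit 85) (nat_lit 5) (nat_lit 82) (nat_lit 5) (nat_lit 366) (nat_lit 294) (nat_lit 240)) (XT.lf (nat_lit 0) (nat_lit 1539090421) (nat_lit 228) (nat_lit 4880987845) (nat_lit 304) (nat_lit 6802811943) (nat_lit 78) (nat_lit 5) (nat_lit 81) (nat_lit 5) (nat_lit 82) (nat_lit 5) (nat_lit 367) (nat_lit 294) (nat_lit 239)))) (XT.nd (nat_lit 78) (nat_lit 304) (nat_lit 0) (XT.lf (nat_lit 0) (nat_lit 9635986615) (nat_lit 228)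 (nat_lit 540535617) (nat_lit 304) (nat_lit 3294028123) (nat_lit 78) (nat_lit 5) (nat_lit 81) (nat_lit 5) (nat_lit 82) (nat_lit 5) (nat_lit 368) (nat_lit 294) (nat_lit 238)) (XT.nd (nat_lit 78) (nat_lit 0) (nat_lit 0) (XT.lf (nat_lit 0) (nat_lit 351985996) (nat_lit 304) (nat_lit 9499245296) (nat_lit 76) (nat_lit 3873182733) (nat_lit 74) (nat_lit 5) (nat_lit 78) (nat_lit 5) (nat_lit 75) (nat_lit 5) (nat_lit 369) (nat_lit 294) (nat_lit 237)) (XT.lf (nat_lit 0) (nat_lit 4045195689) (nat_lit 304) (nat_lit 1484116488) (nat_lit 76) (nat_lit 8455494340) (nat_lit 74) (nat_lit 5) (nat_lit 78) (nat_lit 5) (nat_lit 75) (nat_lit 5) (nat_lit 370) (nat_lit 294) (nat_lit 236))))) (XT.nd (nat_lit 234) (nat_lit 456) (nat_lit 0) (XT.nd (nat_lit 78) (nat_lit 304) (nat_lit 0) (XT.lf (nat_lit 0) (nat_lit 6840548819) (nat_lit 152) (nat_lit 1035151168) (nat_lit 228) (nat_lit 6376527490) (nat_lit 72) (nat_lit 5) (nat_lit 74) (nat_lit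 5) (nat_lit 75) (nat_lit 5) (nat_lit 371) (nat_lit 294) (nat_lit 235)) (XT.nd (nat_lit 78) (nat_lit 76) (nat_lit 0) (XT.lf (nat_lit 0) (nat_lit 835053833) (nat_lit 228) (nat_lit 11004806285) (nat_lit 304) (nat_lit 2687260031) (nat_lit 69) (nat_lit 5) (nat_lit 72) (nat_lit 5) (nat_lit 73) (nat_lit 5) (nat_lit 372) (nat_lit 294) (nat_lit 234)) (XT.lf (nat_lit 0) (nat_lit 1137966566) (nat_lit 304) (nat_lit 5413431125) (nat_lit 76) (nat_lit 8257141882) (nat_lit 68) (nat_lit 5) (nat_lit 72) (nat_lit 5) (nat_lit 69) (nat_lit 5) (nat_lit 373) (nat_lit 294) (nat_lit 233)))) (XT.nd (nat_lit 156) (nat_lit 304) (nat_lit 0) (XT.nd (nat_lit 78) (nat_lit 0) (nat_lit 0) (XT.lf (nat_lit 0) (nat_lit 3084177458) (nat_lit 152) (nat_lit 1931699644) (nat_lit 228) (nat_lit 10081978474) (nat_lit 66) (nat_lit 5) (nat_lit 68) (nat_lit 5) (nat_lit 69) (nat_lit 5) (nat_lit 374) (nat_lit 294) (nat_lit 232)) (XT.lf (nat_lit 0) (nat_lit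 9055050933) (nat_lit 228) (nat_lit 3537468892) (nat_lit 76) (nat_lit 2801993497) (nat_lit 66) (nat_lit 5) (nat_lit 69) (nat_lit 5) (nat_lit 67) (nat_lit 5) (nat_lit 375) (nat_lit 294) (nat_lit 231))) (XT.nd (nat_lit 78) (nat_lit 76) (nat_lit 0) (XT.lf (nat_lit 0) (nat_lit 5214261574) (nat_lit 228) (nat_lit 8034026422) (nat_lit 304) (nat_lit 2450805915) (nat_lit 63) (nat_lit 5) (nat_lit 66) (nat_lit 5) (nat_lit 67) (nat_lit 5) (nat_lit 376) (nat_lit 294) (nat_lit 230)) (XT.lf (nat_lit 0) (nat_lit 1524001082) (nat_lit 304) (nat_lit 1787495371) (nat_lit 76) (nat_lit 12700881621) (nat_lit 62) (nat_lit 5) (nat_lit 66) (nat_lit 5) (nat_lit 63) (nat_lit 5) (nat_lit 377) (nat_lit 294) (nat_lit 229)))))) (XT.nd (nat_lit 546) (nat_lit 760) (nat_lit 0) (XT.nd (nat_lit 234) (nat_lit 380) (nat_lit 0) (XT.nd (nat_lit 78) (nat_lit 152) (nat_lit 0) (XT.lf (nat_lit 0) (nat_lit 5618695181) (nat_lit 228) (nat_lit 9121119572)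 (nat_lit 76) (nat_lit 1593029920) (nat_lit 60) (nat_lit 5) (nat_lit 63) (nat_lit 5) (nat_lit 61) (nat_lit 5) (nat_lit 378) (nat_lit 294) (nat_lit 228)) (XT.nd (nat_lit 78) (nat_lit 152) (nat_lit 0) (XT.lf (nat_lit 0) (nat_lit 9852273713) (nat_lit 228) (nat_lit 237741525) (nat_lit 76) (nat_lit 6572437385) (nat_lit 60) (nat_lit 5) (nat_lit 63) (nat_lit 5) (nat_lit 61) (nat_lit 5) (nat_lit 379) (nat_lit 294) (nat_lit 227)) (XT.lf (nat_lit 0) (nat_lit 9030138640) (nat_lit 152) (nat_lit 5235570394) (nat_lit 228) (nat_lit 2734662707) (nat_lit 58) (nat_lit 5) (nat_lit 60) (nat_lit 5) (nat_lit 61) (nat_lit 5) (nat_lit 380) (nat_lit 294) (nat_lit 226)))) (XT.nd (nat_lit 156) (nat_lit 152) (nat_lit 0) (XT.nd (nat_lit 78) (nat_lit 0) (nat_lit 0) (XT.lf (nat_lit 0) (nat_lit 1183252774) (nat_lit 152) (nat_lit 231255350) (nat_lit 228) (nat_lit 15934108108) (nat_lit 55) (nat_lit 5) (nat_lit 57) (nat_lit 5) (nat_lit 58)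 (nat_lit 5) (nat_lit 381) (nat_lit 294) (nat_lit 225)) (XT.lf (nat_lit 0) (nat_lit 5728133860) (nat_lit 228) (nat_lit 7063891615) (nat_lit 76) (nat_lit 4911629691) (nat_lit 55) (nat_lit 5) (nat_lit 58) (nat_lit 5) (nat_lit 56) (nat_lit 5) (nat_lit 382) (nat_lit 294) (nat_lit 224))) (XT.nd (nat_lit 78) (nat_lit 0) (nat_lit 0) (XT.lf (nat_lit 0) (nat_lit 2296323080) (nat_lit 152) (nat_lit 7866527528) (nat_lit 228) (nat_lit 7906751666) (nat_lit 53) (nat_lit 5) (nat_lit 55) (nat_lit 5) (nat_lit 56) (nat_lit 5) (nat_lit 383) (nat_lit 294) (nat_lit 223)) (XT.lf (nat_lit 0) (nat_lit 12025882960) (nat_lit 152) (nat_lit 2743787307) (nat_lit 228) (nat_lit 3675692941) (nat_lit 53) (nat_lit 5) (nat_lit 55) (nat_lit 5) (nat_lit 56) (nat_lit 5) (nat_lit 384) (nat_lit 294) (nat_lit 222))))) (XT.nd (nat_lit 234) (nat_lit 380) (nat_lit 0) (XT.nd (nat_lit 78) (nat_lit 152) (nat_lit 0) (XT.lf (nat_lit 0) (nat_lit 692738318)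 (nat_lit 228) (nat_lit 15640853242) (nat_lit 76) (nat_lit 2497902843) (nat_lit 50) (nat_lit 5) (nat_lit 53) (nat_lit 5) (nat_lit 51) (nat_lit 5) (nat_lit 385) (nat_lit 294) (nat_lit 221)) (XT.nd (nat_lit 78) (nat_lit 152) (nat_lit 0) (XT.lf (nat_lit 0) (nat_lit 5179499840) (nat_lit 228) (nat_lit 6126245411) (nat_lit 76) (nat_lit 7920544479) (nat_lit 50) (nat_lit 5) (nat_lit 53) (nat_lit 5) (nat_lit 51) (nat_lit 5) (nat_lit 386) (nat_lit 294) (nat_lit 220)) (XT.lf (nat_lit 0) (nat_lit 3692021174) (nat_lit 152) (nat_lit 6113772724) (nat_lit 228) (nat_lit 9826993576) (nat_lit 48) (nat_lit 5) (nat_lit 50) (nat_lit 5) (nat_lit 51) (nat_lit 5) (nat_lit 387) (nat_lit 294) (nat_lit 219)))) (XT.nd (nat_lit 156) (nat_lit 228) (nat_lit 0) (XT.nd (nat_lit 78) (nat_lit 152) (nat_lit 0) (XT.lf (nat_lit 0) (nat_lit 13877121358) (nat_lit 152) (nat_lit 725435996) (nat_lit 228) (nat_lit 5447978636) (nat_lit 48) (nat_lit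 5) (nat_lit 50) (nat_lit 5) (nat_lit 51) (nat_lit 5) (nat_lit 388) (nat_lit 294) (nat_lit 218)) (XT.lf (nat_lit 0) (nat_lit 3863559447) (nat_lit 152) (nat_lit 15733660596) (nat_lit 228) (nat_lit 881983105) (nat_lit 46) (nat_lit 5) (nat_lit 48) (nat_lit 5) (nat_lit 49) (nat_lit 4) (nat_lit 389) (nat_lit 294) (nat_lit 217))) (XT.nd (nat_lit 78) (nat_lit 152) (nat_lit 0) (XT.lf (nat_lit 0) (nat_lit 3787117415) (nat_lit 228) (nat_lit 6687689515) (nat_lit 76) (nat_lit 10443606633) (nat_lit 45) (nat_lit 5) (nat_lit 48) (nat_lit 5) (nat_lit 46) (nat_lit 5) (nat_lit 390) (nat_lit 294) (nat_lit 216)) (XT.lf (nat_lit 0) (nat_lit 3547635213) (nat_lit 152) (nat_lit 5036435944) (nat_lit 228) (nat_lit 12786307504) (nat_lit 43) (nat_lit 5) (nat_lit 45) (nat_lit 5) (nat_lit 46) (nat_lit 5) (nat_lit 391) (nat_lit 294) (nat_lit 215))))))))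
noncomputable def xc90 : XT := (XT.nd (nat_lit 2028) (nat_lit 836) (nat_lit 0) (XT.nd (nat_lit 1014) (nat_lit 532) (nat_lit 0) (XT.nd (nat_lit 468) (nat_lit 608) (nat_lit 0) (XT.nd (nat_lit 234) (nat_lit 152) (nat_lit 0) (XT.nd (nat_lit 78) (nat_lit 152) (nat_lit 0) (XT.lf (nat_lit 0) (nat_lit 13570106032) (nat_lit 228) (nat_lit 7663968906) (nat_lit 76) (nat_lit 600477996) (nat_lit 43) (nat_lit 5) (nat_lit 46) (nat_lit 5) (nat_lit 44) (nat_lit 4) (nat_lit 392) (nat_lit 294) (nat_lit 214)) (XT.nd (nat_lit 78) (nat_lit 76) (nat_lit 0) (XT.lf (nat_lit 0) (nat_lit 2753826315) (nat_lit 76) (nat_lit 16000601129) (nat_lit 152) (nat_lit 3556769068) (nat_lit 42) (nat_lit 5) (nat_lit 43) (nat_lit 5) (nat_lit 44) (nat_lit 4) (nat_lit 393) (nat_lit 294) (nat_lit 213)) (XT.lf (nat_lit 0) (nat_lit 1317507730) (nat_lit 152) (nat_lit 9221426741) (nat_lit 76) (nat_lit 12261319755) (nat_lit 41) (nat_lit 5) (nat_lit 43) (nat_lit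 5) (nat_lit 42) (nat_lit 5) (nat_lit 394) (nat_lit 294) (nat_lit 212)))) (XT.nd (nat_lit 78) (nat_lit 0) (nat_lit 0) (XT.lf (nat_lit 0) (nat_lit 1367836693) (nat_lit 152) (nat_lit 4885065834) (nat_lit 228) (nat_lit 17050438157) (nat_lit 39) (nat_lit 5) (nat_lit 41) (nat_lit 5) (nat_lit 42) (nat_lit 5) (nat_lit 395) (nat_lit 294) (nat_lit 211)) (XT.nd (nat_lit 78) (nat_lit 0) (nat_lit 0) (XT.lf (nat_lit 0) (nat_lit 11412764650) (nat_lit 228) (nat_lit 11413215218) (nat_lit 76) (nat_lit 993252361) (nat_lit 39) (nat_lit 5) (nat_lit 42) (nat_lit 5) (nat_lit 40) (nat_lit 4) (nat_lit 396) (nat_lit 294) (nat_lit 210)) (XT.lf (nat_lit 0) (nat_lit 16749910528) (nat_lit 228) (nat_lit 670571033) (nat_lit 76) (nat_lit 6929448845) (nat_lit 39) (nat_lit 5) (nat_lit 42) (nat_lit 5) (nat_lit 40) (nat_lit 4) (nat_lit 397) (nat_lit 294) (nat_lit 209))))) (XT.nd (nat_lit 234) (nat_lit 304) (nat_lit 0) (XT.nd (nat_lit 78) (nat_lit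 228) (nat_lit 0) (XT.lf (nat_lit 0) (nat_lit 10554734467) (nat_lit 76) (nat_lit 11768769543) (nat_lit 152) (nat_lit 2570759909) (nat_lit 38) (nat_lit 5) (nat_lit 39) (nat_lit 5) (nat_lit 40) (nat_lit 4) (nat_lit 398) (nat_lit 294) (nat_lit 208)) (XT.nd (nat_lit 78) (nat_lit 152) (nat_lit 0) (XT.lf (nat_lit 0) (nat_lit 2540220633) (nat_lit 152) (nat_lit 3394964363) (nat_lit 76) (nat_lit 19519541258) (nat_lit 37) (nat_lit 5) (nat_lit 39) (nat_lit 5) (nat_lit 38) (nat_lit 5) (nat_lit 399) (nat_lit 294) (nat_lit 207)) (XT.lf (nat_lit 0) (nat_lit 7806588394) (nat_lit 228) (nat_lit 18067623898) (nat_lit 76) (nat_lit 155418766) (nat_lit 35) (nat_lit 5) (nat_lit 38) (nat_lit 5) (nat_lit 36) (nat_lit 4) (nat_lit 400) (nat_lit 294) (nat_lit 206)))) (XT.nd (nat_lit 156) (nat_lit 228) (nat_lit 0) (XT.nd (nat_lit 78) (nat_lit 76) (nat_lit 0) (XT.lf (nat_lit 0) (nat_lit 13300083324) (nat_lit 228) (nat_lit 6994983852)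 (nat_lit 76) (nat_lit 6324645646) (nat_lit 35) (nat_lit 5) (nat_lit 38) (nat_lit 5) (nat_lit 36) (nat_lit 4) (nat_lit 401) (nat_lit 294) (nat_lit 205)) (XT.lf (nat_lit 0) (nat_lit 4453628174) (nat_lit 76) (nat_lit 14524022249) (nat_lit 152) (nat_lit 8249272383) (nat_lit 34) (nat_lit 5) (nat_lit 35) (nat_lit 5) (nat_lit 36) (nat_lit 4) (nat_lit 402) (nat_lit 294) (nat_lit 204))) (XT.nd (nat_lit 78) (nat_lit 228) (nat_lit 0) (XT.lf (nat_lit 0) (nat_lit 16346398008) (nat_lit 76) (nat_lit 8526513841) (nat_lit 152) (nat_lit 2978019897) (nat_lit 34) (nat_lit 5) (nat_lit 35) (nat_lit 5) (nat_lit 36) (nat_lit 4) (nat_lit 403) (nat_lit 294) (nat_lit 203)) (XT.lf (nat_lit 0) (nat_lit 37553694) (nat_lit 152) (nat_lit 2343524635) (nat_lit 228) (nat_lit 26112552871) (nat_lit 31) (nat_lit 5) (nat_lit 33) (nat_lit 5) (nat_lit 34) (nat_lit 5) (nat_lit 404) (nat_lit 294) (nat_lit 202)))))) (XT.nd (nat_lit 468) (nat_lit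 228) (nat_lit 0) (XT.nd (nat_lit 234) (nat_lit 228) (nat_lit 0) (XT.nd (nat_lit 78) (nat_lit 76) (nat_lit 0) (XT.lf (nat_lit 0) (nat_lit 7974373923) (nat_lit 228) (nat_lit 17101708960) (nat_lit 76) (nat_lit 4074649170) (nat_lit 31) (nat_lit 5) (nat_lit 34) (nat_lit 5) (nat_lit 32) (nat_lit 4) (nat_lit 405) (nat_lit 294) (nat_lit 201)) (XT.nd (nat_lit 78) (nat_lit 76) (nat_lit 0) (XT.lf (nat_lit 0) (nat_lit 13736599640) (nat_lit 228) (nat_lit 5470681536) (nat_lit 76) (nat_lit 10620234082) (nat_lit 31) (nat_lit 5) (nat_lit 34) (nat_lit 5) (nat_lit 32) (nat_lit 4) (nat_lit 406) (nat_lit 294) (nat_lit 200)) (XT.lf (nat_lit 0) (nat_lit 6598454812) (nat_lit 76) (nat_lit 13115236617) (nat_lit 152) (nat_lit 10809653724) (nat_lit 30) (nat_lit 5) (nat_lit 31) (nat_lit 5) (nat_lit 32) (nat_lit 4) (nat_lit 407) (nat_lit 294) (nat_lit 199)))) (XT.nd (nat_lit 78) (nat_lit 228) (nat_lit 0) (XT.lf (nat_lit 0) (nat_lit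 19102615394) (nat_lit 76) (nat_lit 6801542046) (nat_lit 152) (nat_lit 5334873739) (nat_lit 30) (nat_lit 5) (nat_lit 31) (nat_lit 5) (nat_lit 32) (nat_lit 4) (nat_lit 408) (nat_lit 294) (nat_lit 198)) (XT.nd (nat_lit 78) (nat_lit 152) (nat_lit 0) (XT.lf (nat_lit 0) (nat_lit 277443302) (nat_lit 152) (nat_lit 35678864) (nat_lit 76) (nat_lit 31663603951) (nat_lit 29) (nat_lit 5) (nat_lit 31) (nat_lit 5) (nat_lit 30) (nat_lit 5) (nat_lit 409) (nat_lit 294) (nat_lit 197)) (XT.lf (nat_lit 0) (nat_lit 6114485095) (nat_lit 228) (nat_lit 20211273089) (nat_lit 76) (nat_lit 6404304491) (nat_lit 27) (nat_lit 5) (nat_lit 30) (nat_lit 5) (nat_lit 28) (nat_lit 4) (nat_lit 410) (nat_lit 294) (nat_lit 196))))) (XT.nd (nat_lit 234) (nat_lit 152) (nat_lit 0) (XT.nd (nat_lit 78) (nat_lit 76) (nat_lit 0) (XT.lf (nat_lit 0) (nat_lit 12110003927) (nat_lit 228) (nat_lit 8095887348) (nat_lit 76) (nat_lit 13300609819) (nat_lit 27)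 (nat_lit 5) (nat_lit 30) (nat_lit 5) (nat_lit 28) (nat_lit 4) (nat_lit 411) (nat_lit 294) (nat_lit 195)) (XT.nd (nat_lit 78) (nat_lit 0) (nat_lit 0) (XT.lf (nat_lit 0) (nat_lit 4433137799) (nat_lit 76) (nat_lit 13875351655) (nat_lit 152) (nat_lit 15997052832) (nat_lit 26) (nat_lit 5) (nat_lit 27) (nat_lit 5) (nat_lit 28) (nat_lit 4) (nat_lit 412) (nat_lit 294) (nat_lit 194)) (XT.lf (nat_lit 0) (nat_lit 17468018967) (nat_lit 76) (nat_lit 7287372814) (nat_lit 152) (nat_lit 10371291645) (nat_lit 26) (nat_lit 5) (nat_lit 27) (nat_lit 5) (nat_lit 28) (nat_lit 4) (nat_lit 413) (nat_lit 294) (nat_lit 193)))) (XT.nd (nat_lit 156) (nat_lit 0) (nat_lit 0) (XT.nd (nat_lit 78) (nat_lit 152) (nat_lit 0) (XT.lf (nat_lit 0) (nat_lit 30859021823) (nat_lit 76) (nat_lit 517950855) (nat_lit 152) (nat_lit 4596050480) (nat_lit 26) (nat_lit 5) (nat_lit 27) (nat_lit 5) (nat_lit 28) (nat_lit 4) (nat_lit 414) (nat_lit 294) (nat_lit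 192)) (XT.lf (nat_lit 0) (nat_lit 1446541236) (nat_lit 152) (nat_lit 28991248749) (nat_lit 76) (nat_lit 6402960907) (nat_lit 24) (nat_lit 5) (nat_lit 26) (nat_lit 5) (nat_lit 25) (nat_lit 4) (nat_lit 415) (nat_lit 294) (nat_lit 191))) (XT.nd (nat_lit 78) (nat_lit 0) (nat_lit 0) (XT.lf (nat_lit 0) (nat_lit 7617007088) (nat_lit 152) (nat_lit 16511698089) (nat_lit 76) (nat_lit 13603273234) (nat_lit 24) (nat_lit 5) (nat_lit 26) (nat_lit 5) (nat_lit 25) (nat_lit 4) (nat_lit 416) (nat_lit 294) (nat_lit 190)) (XT.lf (nat_lit 0) (nat_lit 13954811709) (nat_lit 152) (nat_lit 3691095507) (nat_lit 76) (nat_lit 21004571021) (nat_lit 24) (nat_lit 5) (nat_lit 26) (nat_lit 5) (nat_lit 25) (nat_lit 4) (nat_lit 417) (nat_lit 294) (nat_lit 189))))))) (XT.nd (nat_lit 1014) (nat_lit 380) (nat_lit 0) (XT.nd (nat_lit 468) (nat_lit 228) (nat_lit 0) (XT.nd (nat_lit 234) (nat_lit 152) (nat_lit 0) (XT.nd (nat_lit 78) (nat_lit 0)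 (nat_lit 0) (XT.lf (nat_lit 0) (nat_lit 9670467108) (nat_lit 76) (nat_lit 10887984321) (nat_lit 152) (nat_lit 19035812759) (nat_lit 23) (nat_lit 5) (nat_lit 24) (nat_lit 5) (nat_lit 25) (nat_lit 4) (nat_lit 418) (nat_lit 294) (nat_lit 188)) (XT.nd (nat_lit 78) (nat_lit 0) (nat_lit 0) (XT.lf (nat_lit 0) (nat_lit 23476494045) (nat_lit 76) (nat_lit 3903916235) (nat_lit 152) (nat_lit 13185349235) (nat_lit 23) (nat_lit 5) (nat_lit 24) (nat_lit 5) (nat_lit 25) (nat_lit 4) (nat_lit 419) (nat_lit 294) (nat_lit 187)) (XT.lf (nat_lit 0) (nat_lit 34421944509) (nat_lit 152) (nat_lit 3932792454) (nat_lit 0) (nat_lit 3211217277) (nat_lit 23) (nat_lit 5) (nat_lit 25) (nat_lit 4) (nat_lit 23) (nat_lit 4) (nat_lit 420) (nat_lit 294) (nat_lit 186)))) (XT.nd (nat_lit 78) (nat_lit 76) (nat_lit 0) (XT.lf (nat_lit 0) (nat_lit 9739213736) (nat_lit 76) (nat_lit 32051563772) (nat_lit 76) (nat_lit 801897692) (nat_lit 22) (nat_lit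 4) (nat_lit 23) (nat_lit 5) (nat_lit 23) (nat_lit 4) (nat_lit 421) (nat_lit 294) (nat_lit 185)) (XT.nd (nat_lit 78) (nat_lit 0) (nat_lit 0) (XT.lf (nat_lit 0) (nat_lit 5642563867) (nat_lit 152) (nat_lit 19833066135) (nat_lit 76) (nat_lit 18172199851) (nat_lit 21) (nat_lit 5) (nat_lit 23) (nat_lit 5) (nat_lit 22) (nat_lit 4) (nat_lit 422) (nat_lit 294) (nat_lit 184)) (XT.lf (nat_lit 0) (nat_lit 12248515442) (nat_lit 152) (nat_lit 6459688037) (nat_lit 76) (nat_lit 26026671082) (nat_lit 21) (nat_lit 5) (nat_lit 23) (nat_lit 5) (nat_lit 22) (nat_lit 4) (nat_lit 423) (nat_lit 294) (nat_lit 183))))) (XT.nd (nat_lit 234) (nat_lit 152) (nat_lit 0) (XT.nd (nat_lit 78) (nat_lit 0) (nat_lit 0) (XT.lf (nat_lit 0) (nat_lit 7431073649) (nat_lit 76) (nat_lit 11677735511) (nat_lit 152) (nat_lit 26744038299) (nat_lit 20) (nat_lit 5) (nat_lit 21) (nat_lit 5) (nat_lit 22) (nat_lit 4) (nat_lit 424) (nat_lit 294) (nat_lit 182))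 (XT.nd (nat_lit 78) (nat_lit 0) (nat_lit 0) (XT.lf (nat_lit 0) (nat_lit 21842433288) (nat_lit 76) (nat_lit 4382610503) (nat_lit 152) (nat_lit 20777813493) (nat_lit 20) (nat_lit 5) (nat_lit 21) (nat_lit 5) (nat_lit 22) (nat_lit 4) (nat_lit 425) (nat_lit 294) (nat_lit 181)) (XT.lf (nat_lit 0) (nat_lit 33570082289) (nat_lit 152) (nat_lit 11559361098) (nat_lit 0) (nat_lit 3057466169) (nat_lit 20) (nat_lit 5) (nat_lit 22) (nat_lit 4) (nat_lit 20) (nat_lit 4) (nat_lit 426) (nat_lit 294) (nat_lit 180)))) (XT.nd (nat_lit 156) (nat_lit 76) (nat_lit 0) (XT.nd (nat_lit 78) (nat_lit 0) (nat_lit 0) (XT.lf (nat_lit 0) (nat_lit 2426480409) (nat_lit 76) (nat_lit 38761355323) (nat_lit 76) (nat_lit 8217078356) (nat_lit 19) (nat_lit 4) (nat_lit 20) (nat_lit 5) (nat_lit 20) (nat_lit 4) (nat_lit 427) (nat_lit 294) (nat_lit 179)) (XT.lf (nat_lit 0) (nat_lit 17041909035) (nat_lit 76) (nat_lit 32094745476) (nat_lit 76) (nat_lit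 1519729824) (nat_lit 19) (nat_lit 4) (nat_lit 20) (nat_lit 5) (nat_lit 20) (nat_lit 4) (nat_lit 428) (nat_lit 294) (nat_lit 178))) (XT.nd (nat_lit 78) (nat_lit 0) (nat_lit 0) (XT.lf (nat_lit 0) (nat_lit 5259665837) (nat_lit 152) (nat_lit 19927737388) (nat_lit 76) (nat_lit 26756863440) (nat_lit 18) (nat_lit 5) (nat_lit 20) (nat_lit 5) (nat_lit 19) (nat_lit 4) (nat_lit 429) (nat_lit 294) (nat_lit 177)) (XT.lf (nat_lit 0) (nat_lit 12198385045) (nat_lit 152) (nat_lit 5871111555) (nat_lit 76) (nat_lit 35201244284) (nat_lit 18) (nat_lit 5) (nat_lit 20) (nat_lit 5) (nat_lit 19) (nat_lit 4) (nat_lit 430) (nat_lit 294) (nat_lit 176)))))) (XT.nd (nat_lit 546) (nat_lit 152) (nat_lit 0) (XT.nd (nat_lit 234) (nat_lit 152) (nat_lit 0) (XT.nd (nat_lit 78) (nat_lit 0) (nat_lit 0) (XT.lf (nat_lit 0) (nat_lit 8753097722) (nat_lit 76) (nat_lit 10663188569) (nat_lit 152) (nat_lit 35218593812) (nat_lit 17) (nat_lit 5) (nat_lit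 18) (nat_lit 5) (nat_lit 19) (nat_lit 4) (nat_lit 431) (nat_lit 294) (nat_lit 175)) (XT.nd (nat_lit 78) (nat_lit 0) (nat_lit 0) (XT.lf (nat_lit 0) (nat_lit 23911709828) (nat_lit 76) (nat_lit 2985326725) (nat_lit 152) (nat_lit 29141518932) (nat_lit 17) (nat_lit 5) (nat_lit 18) (nat_lit 5) (nat_lit 19) (nat_lit 4) (nat_lit 432) (nat_lit 294) (nat_lit 174)) (XT.lf (nat_lit 0) (nat_lit 34636824938) (nat_lit 152) (nat_lit 18030809270) (nat_lit 0) (nat_lit 4815669757) (nat_lit 17) (nat_lit 5) (nat_lit 19) (nat_lit 4) (nat_lit 17) (nat_lit 4) (nat_lit 433) (nat_lit 294) (nat_lit 173)))) (XT.nd (nat_lit 156) (nat_lit 76) (nat_lit 0) (XT.nd (nat_lit 78) (nat_lit 76) (nat_lit 0) (XT.lf (nat_lit 0) (nat_lit 42626028712) (nat_lit 152) (nat_lit 3564970638) (nat_lit 0) (nat_lit 12779880167) (nat_lit 17) (nat_lit 5) (nat_lit 19) (nat_lit 4) (nat_lit 17) (nat_lit 4) (nat_lit 434) (nat_lit 294) (nat_lit 172)) (XT.lf (nat_lit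 0) (nat_lit 11537138199) (nat_lit 76) (nat_lit 39416695777) (nat_lit 76) (nat_lit 9546281829) (nat_lit 16) (nat_lit 4) (nat_lit 17) (nat_lit 5) (nat_lit 17) (nat_lit 4) (nat_lit 435) (nat_lit 294) (nat_lit 171))) (XT.nd (nat_lit 78) (nat_lit 76) (nat_lit 0) (XT.lf (nat_lit 0) (nat_lit 27142776514) (nat_lit 76) (nat_lit 32412850917) (nat_lit 76) (nat_lit 2518878326) (nat_lit 16) (nat_lit 4) (nat_lit 17) (nat_lit 5) (nat_lit 17) (nat_lit 4) (nat_lit 436) (nat_lit 294) (nat_lit 170)) (XT.lf (nat_lit 0) (nat_lit 4615640641) (nat_lit 152) (nat_lit 20547094558) (nat_lit 76) (nat_lit 38532380832) (nat_lit 15) (nat_lit 5) (nat_lit 17) (nat_lit 5) (nat_lit 16) (nat_lit 4) (nat_lit 437) (nat_lit 294) (nat_lit 169))))) (XT.nd (nat_lit 234) (nat_lit 76) (nat_lit 0) (XT.nd (nat_lit 78) (nat_lit 76) (nat_lit 0) (XT.lf (nat_lit 0) (nat_lit 11902291347) (nat_lit 152) (nat_lit 5777399906) (nat_lit 76) (nat_lit 47684244580)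 (nat_lit 15) (nat_lit 5) (nat_lit 17) (nat_lit 5) (nat_lit 16) (nat_lit 4) (nat_lit 438) (nat_lit 294) (nat_lit 168)) (XT.nd (nat_lit 78) (nat_lit 0) (nat_lit 0) (XT.lf (nat_lit 0) (nat_lit 9601839746) (nat_lit 76) (nat_lit 9887052166) (nat_lit 152) (nat_lit 47591488868) (nat_lit 14) (nat_lit 5) (nat_lit 15) (nat_lit 5) (nat_lit 16) (nat_lit 4) (nat_lit 439) (nat_lit 294) (nat_lit 167)) (XT.lf (nat_lit 0) (nat_lit 25540180331) (nat_lit 76) (nat_lit 1810421993) (nat_lit 152) (nat_lit 41496292430) (nat_lit 14) (nat_lit 5) (nat_lit 15) (nat_lit 5) (nat_lit 16) (nat_lit 4) (nat_lit 440) (nat_lit 294) (nat_lit 166)))) (XT.nd (nat_lit 156) (nat_lit 76) (nat_lit 0) (XT.nd (nat_lit 78) (nat_lit 0) (nat_lit 0) (XT.lf (nat_lit 0) (nat_lit 35500122417) (nat_lit 152) (nat_lit 28792625135) (nat_lit 0) (nat_lit 6372098844) (nat_lit 14) (nat_lit 5) (nat_lit 16) (nat_lit 4) (nat_lit 14) (nat_lit 4) (nat_lit 441) (nat_lit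 294) (nat_lit 165)) (XT.lf (nat_lit 0) (nat_lit 43901756596) (nat_lit 152) (nat_lit 13880774420) (nat_lit 0) (nat_lit 14754577689) (nat_lit 14) (nat_lit 5) (nat_lit 16) (nat_lit 4) (nat_lit 14) (nat_lit 4) (nat_lit 442) (nat_lit 294) (nat_lit 164))) (XT.nd (nat_lit 78) (nat_lit 0) (nat_lit 0) (XT.lf (nat_lit 0) (nat_lit 1488312718) (nat_lit 76) (nat_lit 51071437063) (nat_lit 76) (nat_lit 21905660746) (nat_lit 13) (nat_lit 4) (nat_lit 14) (nat_lit 5) (nat_lit 14) (nat_lit 4) (nat_lit 443) (nat_lit 294) (nat_lit 163)) (XT.lf (nat_lit 0) (nat_lit 17584041157) (nat_lit 76) (nat_lit 44023722398) (nat_lit 76) (nat_lit 14839890342) (nat_lit 13) (nat_lit 4) (nat_lit 14) (nat_lit 5) (nat_lit 14) (nat_lit 4) (nat_lit 444) (nat_lit 294) (nat_lit 162))))))))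
noncomputable def xc91 : XT := (XT.nd (nat_lit 38220) (nat_lit 0) (nat_lit 6384) (XT.nd (nat_lit 37128) (nat_lit 0) (nat_lit 13908) (XT.nd (nat_lit 36582) (nat_lit 0) (nat_lit 22268) (XT.nd (nat_lit 36348) (nat_lit 0) (nat_lit 25080) (XT.nd (nat_lit 78) (nat_lit 76) (nat_lit 0) (XT.lf (nat_lit 0) (nat_lit 34144220497) (nat_lit 76) (nat_lit 36773397427) (nat_lit 76) (nat_lit 7572035528) (nat_lit 13) (nat_lit 4) (nat_lit 14) (nat_lit 5) (nat_lit 14) (nat_lit 4) (nat_lit 445) (nat_lit 294) (nat_lit 161)) (XT.nd (nat_lit 78) (nat_lit 76) (nat_lit 0) (XT.lf (nat_lit 0) (nat_lit 51183320796) (nat_lit 76) (nat_lit 29314126916) (nat_lit 76) (nat_lit 95745752) (nat_lit 13) (nat_lit 4) (nat_lit 14) (nat_lit 5) (nat_lit 14) (nat_lit 4) (nat_lit 446) (nat_lit 294) (nat_lit 160)) (XT.lf (nat_lit 0) (nat_lit 7447295876) (nat_lit 152) (nat_lit 14116894093) (nat_lit 76) (nat_lit 61193731627) (nat_lit 12) (nat_lit 5) (nat_lit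 14) (nat_lit 5) (nat_lit 13) (nat_lit 4) (nat_lit 447) (nat_lit 294) (nat_lit 159)))) (XT.nd (nat_lit 78) (nat_lit 532) (nat_lit 0) (XT.lf (nat_lit 0) (nat_lit 1037653356) (nat_lit 380) (nat_lit 1118879773) (nat_lit 380) (nat_lit 1118879773) (nat_lit 349) (nat_lit 4) (nat_lit 354) (nat_lit 5) (nat_lit 354) (nat_lit 4) (nat_lit 310) (nat_lit 295) (nat_lit 295)) (XT.nd (nat_lit 78) (nat_lit 456) (nat_lit 0) (XT.lf (nat_lit 0) (nat_lit 883341769) (nat_lit 456) (nat_lit 647966735) (nat_lit 76) (nat_lit 5043130895) (nat_lit 348) (nat_lit 5) (nat_lit 354) (nat_lit 5) (nat_lit 349) (nat_lit 4) (nat_lit 311) (nat_lit 295) (nat_lit 294)) (XT.lf (nat_lit 0) (nat_lit 3260218481) (nat_lit 456) (nat_lit 715849531) (nat_lit 532) (nat_lit 2624456425) (nat_lit 342) (nat_lit 5) (nat_lit 348) (nat_lit 5) (nat_lit 349) (nat_lit 4) (nat_lit 312) (nat_lit 295) (nat_lit 293))))) (XT.nd (nat_lit 234) (nat_lit 1596) (nat_lit 0)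 (XT.nd (nat_lit 78) (nat_lit 608) (nat_lit 0) (XT.lf (nat_lit 0) (nat_lit 430706015) (nat_lit 608) (nat_lit 6030732891) (nat_lit 76) (nat_lit 168700771) (nat_lit 334) (nat_lit 5) (nat_lit 342) (nat_lit 5) (nat_lit 335) (nat_lit 4) (nat_lit 313) (nat_lit 295) (nat_lit 292)) (XT.nd (nat_lit 78) (nat_lit 608) (nat_lit 0) (XT.lf (nat_lit 0) (nat_lit 3461489169) (nat_lit 608) (nat_lit 2047173714) (nat_lit 76) (nat_lit 1153206372) (nat_lit 334) (nat_lit 5) (nat_lit 342) (nat_lit 5) (nat_lit 335) (nat_lit 4) (nat_lit 314) (nat_lit 295) (nat_lit 291)) (XT.lf (nat_lit 0) (nat_lit 2017672188) (nat_lit 608) (nat_lit 4483523282) (nat_lit 684) (nat_lit 195919015) (nat_lit 326) (nat_lit 5) (nat_lit 334) (nat_lit 5) (nat_lit 335) (nat_lit 4) (nat_lit 315) (nat_lit 295) (nat_lit 290)))) (XT.nd (nat_lit 156) (nat_lit 836) (nat_lit 0) (XT.nd (nat_lit 78) (nat_lit 684) (nat_lit 0) (XT.lf (nat_lit 0) (nat_lit 2762727913) (nat_lit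 684) (nat_lit 593361494) (nat_lit 76) (nat_lit 3378971081) (nat_lit 325) (nat_lit 5) (nat_lit 334) (nat_lit 5) (nat_lit 326) (nat_lit 5) (nat_lit 316) (nat_lit 295) (nat_lit 289)) (XT.lf (nat_lit 0) (nat_lit 3607124107) (nat_lit 684) (nat_lit 2136404999) (nat_lit 760) (nat_lit 1032532540) (nat_lit 316) (nat_lit 5) (nat_lit 325) (nat_lit 5) (nat_lit 326) (nat_lit 5) (nat_lit 317) (nat_lit 295) (nat_lit 288))) (XT.nd (nat_lit 78) (nat_lit 0) (nat_lit 0) (XT.lf (nat_lit 0) (nat_lit 1051063614) (nat_lit 760) (nat_lit 825345089) (nat_lit 836) (nat_lit 4943801614) (nat_lit 305) (nat_lit 5) (nat_lit 315) (nat_lit 5) (nat_lit 316) (nat_lit 5) (nat_lit 318) (nat_lit 295) (nat_lit 287)) (XT.lf (nat_lit 0) (nat_lit 4795187457) (nat_lit 836) (nat_lit 1497879368) (nat_lit 76) (nat_lit 574097156) (nat_lit 305) (nat_lit 5) (nat_lit 316) (nat_lit 5) (nat_lit 306) (nat_lit 5) (nat_lit 319) (nat_lit 295) (nat_lit 286))))))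 (XT.nd (nat_lit 546) (nat_lit 3192) (nat_lit 0) (XT.nd (nat_lit 234) (nat_lit 3344) (nat_lit 0) (XT.nd (nat_lit 78) (nat_lit 912) (nat_lit 0) (XT.lf (nat_lit 0) (nat_lit 812553619) (nat_lit 912) (nat_lit 4053712626) (nat_lit 76) (nat_lit 2050771230) (nat_lit 293) (nat_lit 5) (nat_lit 305) (nat_lit 5) (nat_lit 294) (nat_lit 5) (nat_lit 320) (nat_lit 295) (nat_lit 285)) (XT.nd (nat_lit 78) (nat_lit 0) (nat_lit 0) (XT.lf (nat_lit 0) (nat_lit 324818406) (nat_lit 912) (nat_lit 3345204540) (nat_lit 988) (nat_lit 3300006870) (nat_lit 281) (nat_lit 5) (nat_lit 293) (nat_lit 5) (nat_lit 294) (nat_lit 5) (nat_lit 321) (nat_lit 295) (nat_lit 284)) (XT.lf (nat_lit 0) (nat_lit 4839604302) (nat_lit 912) (nat_lit 1726076657) (nat_lit 988) (nat_lit 460434232) (nat_lit 281) (nat_lit 5) (nat_lit 293) (nat_lit 5) (nat_lit 294) (nat_lit 5) (nat_lit 322) (nat_lit 295) (nat_lit 283)))) (XT.nd (nat_lit 156) (nat_lit 2280) (nat_lit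 0) (XT.nd (nat_lit 78) (nat_lit 0) (nat_lit 0) (XT.lf (nat_lit 0) (nat_lit 2350405737) (nat_lit 988) (nat_lit 1608449) (nat_lit 1064) (nat_lit 4733157761) (nat_lit 267) (nat_lit 5) (nat_lit 280) (nat_lit 5) (nat_lit 281) (nat_lit 5) (nat_lit 323) (nat_lit 295) (nat_lit 282)) (XT.lf (nat_lit 0) (nat_lit 5193987719) (nat_lit 1064) (nat_lit 178580948) (nat_lit 76) (nat_lit 1774733449) (nat_lit 267) (nat_lit 5) (nat_lit 281) (nat_lit 5) (nat_lit 268) (nat_lit 5) (nat_lit 324) (nat_lit 295) (nat_lit 281))) (XT.nd (nat_lit 78) (nat_lit 1140) (nat_lit 0) (XT.lf (nat_lit 0) (nat_lit 852754313) (nat_lit 1140) (nat_lit 2695654416) (nat_lit 76) (nat_lit 3663874077) (nat_lit 252) (nat_lit 5) (nat_lit 267) (nat_lit 5) (nat_lit 253) (nat_lit 5) (nat_lit 325) (nat_lit 295) (nat_lit 280)) (XT.lf (nat_lit 0) (nat_lit 2018965539) (nat_lit 1140) (nat_lit 1624332918) (nat_lit 1216) (nat_lit 3637212332) (nat_lit 237) (nat_lit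 5) (nat_lit 252) (nat_lit 5) (nat_lit 253) (nat_lit 5) (nat_lit 326) (nat_lit 295) (nat_lit 279))))) (XT.nd (nat_lit 234) (nat_lit 1292) (nat_lit 0) (XT.nd (nat_lit 78) (nat_lit 1900) (nat_lit 0) (XT.lf (nat_lit 0) (nat_lit 6468468096) (nat_lit 1216) (nat_lit 503383462) (nat_lit 76) (nat_lit 380469552) (nat_lit 237) (nat_lit 5) (nat_lit 253) (nat_lit 5) (nat_lit 238) (nat_lit 5) (nat_lit 327) (nat_lit 295) (nat_lit 278)) (XT.nd (nat_lit 78) (nat_lit 608) (nat_lit 0) (XT.lf (nat_lit 0) (nat_lit 1894352183) (nat_lit 1292) (nat_lit 3056068068) (nat_lit 76) (nat_lit 2475951581) (nat_lit 220) (nat_lit 5) (nat_lit 237) (nat_lit 5) (nat_lit 221) (nat_lit 5) (nat_lit 328) (nat_lit 295) (nat_lit 277)) (XT.lf (nat_lit 0) (nat_lit 1846775451) (nat_lit 608) (nat_lit 2837274031) (nat_lit 684) (nat_lit 2820012195) (nat_lit 212) (nat_lit 5) (nat_lit 220) (nat_lit 5) (nat_lit 221) (nat_lit 5) (nat_lit 329) (nat_lit 295)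 (nat_lit 276)))) (XT.nd (nat_lit 156) (nat_lit 684) (nat_lit 0) (XT.nd (nat_lit 78) (nat_lit 608) (nat_lit 0) (XT.lf (nat_lit 0) (nat_lit 6881630844) (nat_lit 608) (nat_lit 631186728) (nat_lit 684) (nat_lit 72659023) (nat_lit 212) (nat_lit 5) (nat_lit 220) (nat_lit 5) (nat_lit 221) (nat_lit 5) (nat_lit 330) (nat_lit 295) (nat_lit 275)) (XT.lf (nat_lit 0) (nat_lit 2687784198) (nat_lit 608) (nat_lit 3305791015) (nat_lit 76) (nat_lit 1675482104) (nat_lit 204) (nat_lit 5) (nat_lit 212) (nat_lit 5) (nat_lit 205) (nat_lit 5) (nat_lit 331) (nat_lit 295) (nat_lit 274))) (XT.nd (nat_lit 78) (nat_lit 76) (nat_lit 0) (XT.lf (nat_lit 0) (nat_lit 1791381245) (nat_lit 608) (nat_lit 3696175364) (nat_lit 684) (nat_lit 2268879023) (nat_lit 196) (nat_lit 5) (nat_lit 204) (nat_lit 5) (nat_lit 205) (nat_lit 5) (nat_lit 332) (nat_lit 295) (nat_lit 273)) (XT.lf (nat_lit 0) (nat_lit 476301819) (nat_lit 684) (nat_lit 820712571)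 (nat_lit 76) (nat_lit 6550467930) (nat_lit 195) (nat_lit 5) (nat_lit 204) (nat_lit 5) (nat_lit 196) (nat_lit 5) (nat_lit 333) (nat_lit 295) (nat_lit 272))))))) (XT.nd (nat_lit 1014) (nat_lit 3116) (nat_lit 0) (XT.nd (nat_lit 468) (nat_lit 2280) (nat_lit 0) (XT.nd (nat_lit 234) (nat_lit 988) (nat_lit 0) (XT.nd (nat_lit 78) (nat_lit 608) (nat_lit 0) (XT.lf (nat_lit 0) (nat_lit 3243075198) (nat_lit 608) (nat_lit 3487504315) (nat_lit 76) (nat_lit 1210508501) (nat_lit 188) (nat_lit 5) (nat_lit 196) (nat_lit 5) (nat_lit 189) (nat_lit 5) (nat_lit 334) (nat_lit 295) (nat_lit 271)) (XT.nd (nat_lit 78) (nat_lit 76) (nat_lit 0) (XT.lf (nat_lit 0) (nat_lit 1809962441) (nat_lit 532) (nat_lit 4252777548) (nat_lit 608) (nat_lit 1975710591) (nat_lit 181) (nat_lit 5) (nat_lit 188) (nat_lit 5) (nat_lit 189) (nat_lit 5) (nat_lit 335) (nat_lit 295) (nat_lit 270)) (XT.lf (nat_lit 0) (nat_lit 779489341) (nat_lit 608) (nat_lit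 886890149) (nat_lit 76) (nat_lit 6473136698) (nat_lit 180) (nat_lit 5) (nat_lit 188) (nat_lit 5) (nat_lit 181) (nat_lit 5) (nat_lit 336) (nat_lit 295) (nat_lit 269)))) (XT.nd (nat_lit 78) (nat_lit 532) (nat_lit 0) (XT.lf (nat_lit 0) (nat_lit 3565873131) (nat_lit 532) (nat_lit 3644970457) (nat_lit 76) (nat_lit 1032577700) (nat_lit 174) (nat_lit 5) (nat_lit 181) (nat_lit 5) (nat_lit 175) (nat_lit 5) (nat_lit 337) (nat_lit 295) (nat_lit 268)) (XT.nd (nat_lit 78) (nat_lit 76) (nat_lit 0) (XT.lf (nat_lit 0) (nat_lit 1858445346) (nat_lit 456) (nat_lit 4555719099) (nat_lit 532) (nat_lit 1936969908) (nat_lit 168) (nat_lit 5) (nat_lit 174) (nat_lit 5) (nat_lit 175) (nat_lit 5) (nat_lit 338) (nat_lit 295) (nat_lit 267)) (XT.lf (nat_lit 0) (nat_lit 841105667) (nat_lit 532) (nat_lit 946324950) (nat_lit 76) (nat_lit 6675253750) (nat_lit 167) (nat_lit 5) (nat_lit 174) (nat_lit 5) (nat_lit 168) (nat_lit 5) (nat_lit 339)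 (nat_lit 295) (nat_lit 266))))) (XT.nd (nat_lit 234) (nat_lit 1292) (nat_lit 0) (XT.nd (nat_lit 78) (nat_lit 532) (nat_lit 0) (XT.lf (nat_lit 0) (nat_lit 3657409822) (nat_lit 532) (nat_lit 3823948855) (nat_lit 76) (nat_lit 1095869215) (nat_lit 161) (nat_lit 5) (nat_lit 168) (nat_lit 5) (nat_lit 162) (nat_lit 5) (nat_lit 340) (nat_lit 295) (nat_lit 265)) (XT.nd (nat_lit 78) (nat_lit 76) (nat_lit 0) (XT.lf (nat_lit 0) (nat_lit 1890561479) (nat_lit 456) (nat_lit 4651413501) (nat_lit 532) (nat_lit 2153755385) (nat_lit 155) (nat_lit 5) (nat_lit 161) (nat_lit 5) (nat_lit 162) (nat_lit 5) (nat_lit 341) (nat_lit 295) (nat_lit 264)) (XT.lf (nat_lit 0) (nat_lit 659400750) (nat_lit 532) (nat_lit 1046188382) (nat_lit 76) (nat_lit 7112701642) (nat_lit 154) (nat_lit 5) (nat_lit 161) (nat_lit 5) (nat_lit 155) (nat_lit 5) (nat_lit 342) (nat_lit 295) (nat_lit 263)))) (XT.nd (nat_lit 156) (nat_lit 456) (nat_lit 0) (XT.nd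 (nat_lit 78) (nat_lit 456) (nat_lit 0) (XT.lf (nat_lit 0) (nat_lit 3514381067) (nat_lit 456) (nat_lit 4073179434) (nat_lit 76) (nat_lit 1356338991) (nat_lit 149) (nat_lit 5) (nat_lit 155) (nat_lit 5) (nat_lit 150) (nat_lit 5) (nat_lit 343) (nat_lit 295) (nat_lit 262)) (XT.lf (nat_lit 0) (nat_lit 1856832658) (nat_lit 456) (nat_lit 4584917721) (nat_lit 532) (nat_lit 2631955711) (nat_lit 143) (nat_lit 5) (nat_lit 149) (nat_lit 5) (nat_lit 150) (nat_lit 5) (nat_lit 344) (nat_lit 295) (nat_lit 261))) (XT.nd (nat_lit 78) (nat_lit 380) (nat_lit 0) (XT.lf (nat_lit 0) (nat_lit 227921086) (nat_lit 532) (nat_lit 1237213330) (nat_lit 76) (nat_lit 7742732797) (nat_lit 142) (nat_lit 5) (nat_lit 149) (nat_lit 5) (nat_lit 143) (nat_lit 5) (nat_lit 345) (nat_lit 295) (nat_lit 260)) (XT.lf (nat_lit 0) (nat_lit 3128741458) (nat_lit 456) (nat_lit 4445454165) (nat_lit 76) (nat_lit 1770863474) (nat_lit 137) (nat_lit 5) (nat_lit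 143) (nat_lit 5) (nat_lit 138) (nat_lit 5) (nat_lit 346) (nat_lit 295) (nat_lit 259)))))) (XT.nd (nat_lit 546) (nat_lit 1292) (nat_lit 0) (XT.nd (nat_lit 234) (nat_lit 1064) (nat_lit 0) (XT.nd (nat_lit 78) (nat_lit 380) (nat_lit 0) (XT.lf (nat_lit 0) (nat_lit 1703462078) (nat_lit 380) (nat_lit 4400807677) (nat_lit 456) (nat_lit 3382494743) (nat_lit 132) (nat_lit 5) (nat_lit 137) (nat_lit 5) (nat_lit 138) (nat_lit 5) (nat_lit 347) (nat_lit 295) (nat_lit 258)) (XT.nd (nat_lit 78) (nat_lit 380) (nat_lit 0) (XT.lf (nat_lit 0) (nat_lit 8053662918) (nat_lit 380) (nat_lit 1105387901) (nat_lit 456) (nat_lit 473998073) (nat_lit 132) (nat_lit 5) (nat_lit 137) (nat_lit 5) (nat_lit 138) (nat_lit 5) (nat_lit 348) (nat_lit 295) (nat_lit 257)) (XT.lf (nat_lit 0) (nat_lit 2487407696) (nat_lit 380) (nat_lit 4998798581) (nat_lit 76) (nat_lit 2296368301) (nat_lit 127) (nat_lit 5) (nat_lit 132) (nat_lit 5) (nat_lit 128) (nat_lit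 5) (nat_lit 349) (nat_lit 295) (nat_lit 256)))) (XT.nd (nat_lit 156) (nat_lit 684) (nat_lit 0) (XT.nd (nat_lit 78) (nat_lit 0) (nat_lit 0) (XT.lf (nat_lit 0) (nat_lit 1371108466) (nat_lit 380) (nat_lit 4144076754) (nat_lit 456) (nat_lit 4421673438) (nat_lit 122) (nat_lit 5) (nat_lit 127) (nat_lit 5) (nat_lit 128) (nat_lit 5) (nat_lit 350) (nat_lit 295) (nat_lit 255)) (XT.lf (nat_lit 0) (nat_lit 7961355696) (nat_lit 380) (nat_lit 670588799) (nat_lit 456) (nat_lit 1463906690) (nat_lit 122) (nat_lit 5) (nat_lit 127) (nat_lit 5) (nat_lit 128) (nat_lit 5) (nat_lit 351) (nat_lit 295) (nat_lit 254))) (XT.nd (nat_lit 78) (nat_lit 304) (nat_lit 0) (XT.lf (nat_lit 0) (nat_lit 1571862305) (nat_lit 380) (nat_lit 5797787964) (nat_lit 76) (nat_lit 2888925271) (nat_lit 117) (nat_lit 5) (nat_lit 122) (nat_lit 5) (nat_lit 118) (nat_lit 5) (nat_lit 352) (nat_lit 295) (nat_lit 253)) (XT.lf (nat_lit 0) (nat_lit 793517548)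 (nat_lit 304) (nat_lit 3861074401) (nat_lit 380) (nat_lit 5771617842) (nat_lit 113) (nat_lit 5) (nat_lit 117) (nat_lit 5) (nat_lit 118) (nat_lit 5) (nat_lit 353) (nat_lit 295) (nat_lit 252))))) (XT.nd (nat_lit 234) (nat_lit 912) (nat_lit 0) (XT.nd (nat_lit 78) (nat_lit 380) (nat_lit 0) (XT.lf (nat_lit 0) (nat_lit 7629355607) (nat_lit 304) (nat_lit 209054686) (nat_lit 380) (nat_lit 2760226230) (nat_lit 113) (nat_lit 5) (nat_lit 117) (nat_lit 5) (nat_lit 118) (nat_lit 5) (nat_lit 354) (nat_lit 295) (nat_lit 251)) (XT.nd (nat_lit 78) (nat_lit 0) (nat_lit 0) (XT.lf (nat_lit 0) (nat_lit 357647673) (nat_lit 380) (nat_lit 6915026033) (nat_lit 76) (nat_lit 3502800146) (nat_lit 108) (nat_lit 5) (nat_lit 113) (nat_lit 5) (nat_lit 109) (nat_lit 5) (nat_lit 355) (nat_lit 295) (nat_lit 250)) (XT.lf (nat_lit 0) (nat_lit 3497484739) (nat_lit 380) (nat_lit 101988460) (nat_lit 76) (nat_lit 7357825912) (nat_lit 108) (nat_lit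 5) (nat_lit 113) (nat_lit 5) (nat_lit 109) (nat_lit 5) (nat_lit 356) (nat_lit 295) (nat_lit 249)))) (XT.nd (nat_lit 156) (nat_lit 380) (nat_lit 0) (XT.nd (nat_lit 78) (nat_lit 228) (nat_lit 0) (XT.lf (nat_lit 0) (nat_lit 6753817095) (nat_lit 380) (nat_lit 4163952728) (nat_lit 76) (nat_lit 226159542) (nat_lit 104) (nat_lit 5) (nat_lit 109) (nat_lit 5) (nat_lit 105) (nat_lit 5) (nat_lit 357) (nat_lit 295) (nat_lit 248)) (XT.lf (nat_lit 0) (nat_lit 2891191612) (nat_lit 228) (nat_lit 7234576868) (nat_lit 304) (nat_lit 1209870857) (nat_lit 101) (nat_lit 5) (nat_lit 104) (nat_lit 5) (nat_lit 105) (nat_lit 5) (nat_lit 358) (nat_lit 295) (nat_lit 247))) (XT.nd (nat_lit 78) (nat_lit 304) (nat_lit 0) (XT.lf (nat_lit 0) (nat_lit 2021607918) (nat_lit 304) (nat_lit 1378960740) (nat_lit 76) (nat_lit 8132069611) (nat_lit 100) (nat_lit 5) (nat_lit 104) (nat_lit 5) (nat_lit 101) (nat_lit 5) (nat_lit 359) (nat_lit 295) (nat_lit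 246)) (XT.lf (nat_lit 0) (nat_lit 5343515371) (nat_lit 380) (nat_lit 5806417272) (nat_lit 76) (nat_lit 584738209) (nat_lit 96) (nat_lit 5) (nat_lit 101) (nat_lit 5) (nat_lit 97) (nat_lit 5) (nat_lit 360) (nat_lit 295) (nat_lit 245))))))))
noncomputable def xc92 : XT := (XT.nd (nat_lit 2028) (nat_lit 1824) (nat_lit 0) (XT.nd (nat_lit 1014) (nat_lit 1444) (nat_lit 0) (XT.nd (nat_lit 468) (nat_lit 912) (nat_lit 0) (XT.nd (nat_lit 234) (nat_lit 532) (nat_lit 0) (XT.nd (nat_lit 78) (nat_lit 380) (nat_lit 0) (XT.lf (nat_lit 0) (nat_lit 1466815425) (nat_lit 228) (nat_lit 7315560768) (nat_lit 304) (nat_lit 3159885935) (nat_lit 93) (nat_lit 5) (nat_lit 96) (nat_lit 5) (nat_lit 97) (nat_lit 5) (nat_lit 361) (nat_lit 295) (nat_lit 244)) (XT.nd (nat_lit 78) (nat_lit 304) (nat_lit 0) (XT.lf (nat_lit 0) (nat_lit 179909412) (nat_lit 304) (nat_lit 3148080811) (nat_lit 76) (nat_lit 8827611857) (nat_lit 92) (nat_lit 5) (nat_lit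 96) (nat_lit 5) (nat_lit 93) (nat_lit 5) (nat_lit 362) (nat_lit 295) (nat_lit 243)) (XT.lf (nat_lit 0) (nat_lit 3563493394) (nat_lit 380) (nat_lit 7995842310) (nat_lit 76) (nat_lit 814869977) (nat_lit 88) (nat_lit 5) (nat_lit 93) (nat_lit 5) (nat_lit 89) (nat_lit 5) (nat_lit 363) (nat_lit 295) (nat_lit 242)))) (XT.nd (nat_lit 78) (nat_lit 532) (nat_lit 0) (XT.lf (nat_lit 0) (nat_lit 7070978928) (nat_lit 380) (nat_lit 503776078) (nat_lit 76) (nat_lit 5023955313) (nat_lit 88) (nat_lit 5) (nat_lit 93) (nat_lit 5) (nat_lit 89) (nat_lit 5) (nat_lit 364) (nat_lit 295) (nat_lit 241)) (XT.nd (nat_lit 78) (nat_lit 304) (nat_lit 0) (XT.lf (nat_lit 0) (nat_lit 7290034471) (nat_lit 228) (nat_lit 3422312811) (nat_lit 304) (nat_lit 2116757383) (nat_lit 85) (nat_lit 5) (nat_lit 88) (nat_lit 5) (nat_lit 89) (nat_lit 5) (nat_lit 365) (nat_lit 295) (nat_lit 240)) (XT.lf (nat_lit 0) (nat_lit 1362959522) (nat_lit 304) (nat_lit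 10848613935) (nat_lit 76) (nat_lit 854638190) (nat_lit 81) (nat_lit 5) (nat_lit 85) (nat_lit 5) (nat_lit 82) (nat_lit 5) (nat_lit 366) (nat_lit 295) (nat_lit 239))))) (XT.nd (nat_lit 234) (nat_lit 684) (nat_lit 0) (XT.nd (nat_lit 78) (nat_lit 228) (nat_lit 0) (XT.lf (nat_lit 0) (nat_lit 4953990342) (nat_lit 304) (nat_lit 3109465058) (nat_lit 76) (nat_lit 5244876789) (nat_lit 81) (nat_lit 5) (nat_lit 85) (nat_lit 5) (nat_lit 82) (nat_lit 5) (nat_lit 367) (nat_lit 295) (nat_lit 238)) (XT.nd (nat_lit 78) (nat_lit 0) (nat_lit 0) (XT.lf (nat_lit 0) (nat_lit 4893437835) (nat_lit 228) (nat_lit 3766639670) (nat_lit 304) (nat_lit 4897431802) (nat_lit 78) (nat_lit 5) (nat_lit 81) (nat_lit 5) (nat_lit 82) (nat_lit 5) (nat_lit 368) (nat_lit 295) (nat_lit 237)) (XT.lf (nat_lit 0) (nat_lit 12475996410) (nat_lit 304) (nat_lit 683935278) (nat_lit 76) (nat_lit 654282928) (nat_lit 78) (nat_lit 5) (nat_lit 82) (nat_lit 5)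 (nat_lit 79) (nat_lit 5) (nat_lit 369) (nat_lit 295) (nat_lit 236)))) (XT.nd (nat_lit 156) (nat_lit 228) (nat_lit 0) (XT.nd (nat_lit 78) (nat_lit 152) (nat_lit 0) (XT.lf (nat_lit 0) (nat_lit 2354994773) (nat_lit 304) (nat_lit 6515628421) (nat_lit 76) (nat_lit 5205158867) (nat_lit 74) (nat_lit 5) (nat_lit 78) (nat_lit 5) (nat_lit 75) (nat_lit 5) (nat_lit 370) (nat_lit 295) (nat_lit 235)) (XT.lf (nat_lit 0) (nat_lit 1677486275) (nat_lit 152) (nat_lit 4439607004) (nat_lit 228) (nat_lit 8228167485) (nat_lit 72) (nat_lit 5) (nat_lit 74) (nat_lit 5) (nat_lit 75) (nat_lit 5) (nat_lit 371) (nat_lit 295) (nat_lit 234))) (XT.nd (nat_lit 78) (nat_lit 228) (nat_lit 0) (XT.lf (nat_lit 0) (nat_lit 10021863923) (nat_lit 228) (nat_lit 4435555812) (nat_lit 76) (nat_lit 164520791) (nat_lit 72) (nat_lit 5) (nat_lit 75) (nat_lit 5) (nat_lit 73) (nat_lit 5) (nat_lit 372) (nat_lit 295) (nat_lit 233)) (XT.lf (nat_lit 0) (nat_lit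 4017072534) (nat_lit 228) (nat_lit 10072545579) (nat_lit 304) (nat_lit 815938010) (nat_lit 69) (nat_lit 5) (nat_lit 72) (nat_lit 5) (nat_lit 73) (nat_lit 5) (nat_lit 373) (nat_lit 295) (nat_lit 232)))))) (XT.nd (nat_lit 468) (nat_lit 760) (nat_lit 0) (XT.nd (nat_lit 234) (nat_lit 456) (nat_lit 0) (XT.nd (nat_lit 78) (nat_lit 152) (nat_lit 0) (XT.lf (nat_lit 0) (nat_lit 3030212791) (nat_lit 304) (nat_lit 2473327771) (nat_lit 76) (nat_lit 9693002259) (nat_lit 68) (nat_lit 5) (nat_lit 72) (nat_lit 5) (nat_lit 69) (nat_lit 5) (nat_lit 374) (nat_lit 295) (nat_lit 231)) (XT.nd (nat_lit 78) (nat_lit 0) (nat_lit 0) (XT.lf (nat_lit 0) (nat_lit 6248792341) (nat_lit 152) (nat_lit 751079478) (nat_lit 228) (nat_lit 8495418995) (nat_lit 66) (nat_lit 5) (nat_lit 68) (nat_lit 5) (nat_lit 69) (nat_lit 5) (nat_lit 375) (nat_lit 295) (nat_lit 230)) (XT.lf (nat_lit 0) (nat_lit 11118376547) (nat_lit 228) (nat_lit 618656954)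 (nat_lit 76) (nat_lit 4065084535) (nat_lit 66) (nat_lit 5) (nat_lit 69) (nat_lit 5) (nat_lit 67) (nat_lit 5) (nat_lit 376) (nat_lit 295) (nat_lit 229)))) (XT.nd (nat_lit 78) (nat_lit 228) (nat_lit 0) (XT.lf (nat_lit 0) (nat_lit 8365969191) (nat_lit 228) (nat_lit 7048049310) (nat_lit 304) (nat_lit 702533302) (nat_lit 63) (nat_lit 5) (nat_lit 66) (nat_lit 5) (nat_lit 67) (nat_lit 5) (nat_lit 377) (nat_lit 295) (nat_lit 228)) (XT.nd (nat_lit 78) (nat_lit 0) (nat_lit 0) (XT.lf (nat_lit 0) (nat_lit 1123801878) (nat_lit 152) (nat_lit 2190942269) (nat_lit 228) (nat_lit 13125214887) (nat_lit 60) (nat_lit 5) (nat_lit 62) (nat_lit 5) (nat_lit 63) (nat_lit 5) (nat_lit 378) (nat_lit 295) (nat_lit 227)) (XT.lf (nat_lit 0) (nat_lit 7510536000) (nat_lit 228) (nat_lit 6440393187) (nat_lit 76) (nat_lit 2819775541) (nat_lit 60) (nat_lit 5) (nat_lit 63) (nat_lit 5) (nat_lit 61) (nat_lit 5) (nat_lit 379) (nat_lit 295) (nat_lit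 226))))) (XT.nd (nat_lit 234) (nat_lit 380) (nat_lit 0) (XT.nd (nat_lit 78) (nat_lit 228) (nat_lit 0) (XT.lf (nat_lit 0) (nat_lit 2675648418) (nat_lit 152) (nat_lit 9171000818) (nat_lit 228) (nat_lit 5264298295) (nat_lit 58) (nat_lit 5) (nat_lit 60) (nat_lit 5) (nat_lit 61) (nat_lit 5) (nat_lit 380) (nat_lit 295) (nat_lit 225)) (XT.nd (nat_lit 78) (nat_lit 228) (nat_lit 0) (XT.lf (nat_lit 0) (nat_lit 12141232759) (nat_lit 152) (nat_lit 4204105833) (nat_lit 228) (nat_lit 1115092173) (nat_lit 58) (nat_lit 5) (nat_lit 60) (nat_lit 5) (nat_lit 61) (nat_lit 5) (nat_lit 381) (nat_lit 295) (nat_lit 224)) (XT.lf (nat_lit 0) (nat_lit 3113339177) (nat_lit 228) (nat_lit 13764149854) (nat_lit 76) (nat_lit 941514533) (nat_lit 55) (nat_lit 5) (nat_lit 58) (nat_lit 5) (nat_lit 56) (nat_lit 5) (nat_lit 382) (nat_lit 295) (nat_lit 223)))) (XT.nd (nat_lit 156) (nat_lit 228) (nat_lit 0) (XT.nd (nat_lit 78) (nat_lit 152) (nat_lit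 0) (XT.lf (nat_lit 0) (nat_lit 7510352115) (nat_lit 228) (nat_lit 4475920158) (nat_lit 76) (nat_lit 6199813088) (nat_lit 55) (nat_lit 5) (nat_lit 58) (nat_lit 5) (nat_lit 56) (nat_lit 5) (nat_lit 383) (nat_lit 295) (nat_lit 222)) (XT.lf (nat_lit 0) (nat_lit 5137651094) (nat_lit 152) (nat_lit 6920205540) (nat_lit 228) (nat_lit 6505772584) (nat_lit 53) (nat_lit 5) (nat_lit 55) (nat_lit 5) (nat_lit 56) (nat_lit 5) (nat_lit 384) (nat_lit 295) (nat_lit 221))) (XT.nd (nat_lit 78) (nat_lit 228) (nat_lit 0) (XT.lf (nat_lit 0) (nat_lit 15078347139) (nat_lit 152) (nat_lit 1678219553) (nat_lit 228) (nat_lit 2195496126) (nat_lit 53) (nat_lit 5) (nat_lit 55) (nat_lit 5) (nat_lit 56) (nat_lit 5) (nat_lit 385) (nat_lit 295) (nat_lit 220)) (XT.lf (nat_lit 0) (nat_lit 2264567416) (nat_lit 228) (nat_lit 13378306334) (nat_lit 76) (nat_lit 3706706905) (nat_lit 50) (nat_lit 5) (nat_lit 53) (nat_lit 5) (nat_lit 51) (nat_lit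 5) (nat_lit 386) (nat_lit 295) (nat_lit 219))))))) (XT.nd (nat_lit 1014) (nat_lit 912) (nat_lit 0) (XT.nd (nat_lit 468) (nat_lit 380) (nat_lit 0) (XT.nd (nat_lit 234) (nat_lit 380) (nat_lit 0) (XT.nd (nat_lit 78) (nat_lit 152) (nat_lit 0) (XT.lf (nat_lit 0) (nat_lit 6840755659) (nat_lit 228) (nat_lit 3657826458) (nat_lit 76) (nat_lit 9259002539) (nat_lit 50) (nat_lit 5) (nat_lit 53) (nat_lit 5) (nat_lit 51) (nat_lit 5) (nat_lit 387) (nat_lit 295) (nat_lit 218)) (XT.nd (nat_lit 78) (nat_lit 0) (nat_lit 0) (XT.lf (nat_lit 0) (nat_lit 6428986102) (nat_lit 152) (nat_lit 5158236803) (nat_lit 228) (nat_lit 8589622146) (nat_lit 48) (nat_lit 5) (nat_lit 50) (nat_lit 5) (nat_lit 51) (nat_lit 5) (nat_lit 388) (nat_lit 295) (nat_lit 217)) (XT.lf (nat_lit 0) (nat_lit 16488018012) (nat_lit 228) (nat_lit 3768733504) (nat_lit 76) (nat_lit 351579627) (nat_lit 48) (nat_lit 5) (nat_lit 51) (nat_lit 5) (nat_lit 49) (nat_lit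 4) (nat_lit 389) (nat_lit 295) (nat_lit 216)))) (XT.nd (nat_lit 78) (nat_lit 152) (nat_lit 0) (XT.lf (nat_lit 0) (nat_lit 560578547) (nat_lit 228) (nat_lit 14518834251) (nat_lit 76) (nat_lit 5970607373) (nat_lit 45) (nat_lit 5) (nat_lit 48) (nat_lit 5) (nat_lit 46) (nat_lit 5) (nat_lit 390) (nat_lit 295) (nat_lit 215)) (XT.nd (nat_lit 78) (nat_lit 152) (nat_lit 0) (XT.lf (nat_lit 0) (nat_lit 5309754393) (nat_lit 228) (nat_lit 4377110244) (nat_lit 76) (nat_lit 11816556629) (nat_lit 45) (nat_lit 5) (nat_lit 48) (nat_lit 5) (nat_lit 46) (nat_lit 5) (nat_lit 391) (nat_lit 295) (nat_lit 214)) (XT.lf (nat_lit 0) (nat_lit 6140654521) (nat_lit 152) (nat_lit 4092825334) (nat_lit 228) (nat_lit 11735987548) (nat_lit 43) (nat_lit 5) (nat_lit 45) (nat_lit 5) (nat_lit 46) (nat_lit 5) (nat_lit 392) (nat_lit 295) (nat_lit 213))))) (XT.nd (nat_lit 234) (nat_lit 228) (nat_lit 0) (XT.nd (nat_lit 78) (nat_lit 152) (nat_lit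 0) (XT.lf (nat_lit 0) (nat_lit 15338771858) (nat_lit 228) (nat_lit 5449140491) (nat_lit 76) (nat_lit 1660572021) (nat_lit 43) (nat_lit 5) (nat_lit 46) (nat_lit 5) (nat_lit 44) (nat_lit 4) (nat_lit 393) (nat_lit 295) (nat_lit 212)) (XT.nd (nat_lit 78) (nat_lit 76) (nat_lit 0) (XT.lf (nat_lit 0) (nat_lit 5257220474) (nat_lit 76) (nat_lit 15405015287) (nat_lit 152) (nat_lit 2277690632) (nat_lit 42) (nat_lit 5) (nat_lit 43) (nat_lit 5) (nat_lit 44) (nat_lit 4) (nat_lit 394) (nat_lit 295) (nat_lit 211)) (XT.lf (nat_lit 0) (nat_lit 2676197932) (nat_lit 152) (nat_lit 7121307985) (nat_lit 76) (nat_lit 13646944631) (nat_lit 41) (nat_lit 5) (nat_lit 43) (nat_lit 5) (nat_lit 42) (nat_lit 5) (nat_lit 395) (nat_lit 295) (nat_lit 210)))) (XT.nd (nat_lit 156) (nat_lit 76) (nat_lit 0) (XT.nd (nat_lit 78) (nat_lit 0) (nat_lit 0) (XT.lf (nat_lit 0) (nat_lit 3762331769) (nat_lit 152) (nat_lit 3981523422) (nat_lit 228) (nat_lit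 16219255276) (nat_lit 39) (nat_lit 5) (nat_lit 41) (nat_lit 5) (nat_lit 42) (nat_lit 5) (nat_lit 396) (nat_lit 295) (nat_lit 209)) (XT.lf (nat_lit 0) (nat_lit 13030351217) (nat_lit 228) (nat_lit 9442314331) (nat_lit 76) (nat_lit 2022664751) (nat_lit 39) (nat_lit 5) (nat_lit 42) (nat_lit 5) (nat_lit 40) (nat_lit 4) (nat_lit 397) (nat_lit 295) (nat_lit 208))) (XT.nd (nat_lit 78) (nat_lit 0) (nat_lit 0) (XT.lf (nat_lit 0) (nat_lit 1586183744) (nat_lit 76) (nat_lit 16919533242) (nat_lit 152) (nat_lit 6536895758) (nat_lit 38) (nat_lit 5) (nat_lit 39) (nat_lit 5) (nat_lit 40) (nat_lit 4) (nat_lit 398) (nat_lit 295) (nat_lit 207)) (XT.lf (nat_lit 0) (nat_lit 13095277432) (nat_lit 76) (nat_lit 11121310917) (nat_lit 152) (nat_lit 1387592112) (nat_lit 38) (nat_lit 5) (nat_lit 39) (nat_lit 5) (nat_lit 40) (nat_lit 4) (nat_lit 399) (nat_lit 295) (nat_lit 206)))))) (XT.nd (nat_lit 546) (nat_lit 380) (nat_lit 0) (XT.nd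 (nat_lit 234) (nat_lit 304) (nat_lit 0) (XT.nd (nat_lit 78) (nat_lit 152) (nat_lit 0) (XT.lf (nat_lit 0) (nat_lit 3816133840) (nat_lit 152) (nat_lit 1313611719) (nat_lit 76) (nat_lit 21052433340) (nat_lit 37) (nat_lit 5) (nat_lit 39) (nat_lit 5) (nat_lit 38) (nat_lit 5) (nat_lit 400) (nat_lit 295) (nat_lit 205)) (XT.nd (nat_lit 78) (nat_lit 0) (nat_lit 0) (XT.lf (nat_lit 0) (nat_lit 9235714590) (nat_lit 228) (nat_lit 16421480818) (nat_lit 76) (nat_lit 1117284546) (nat_lit 35) (nat_lit 5) (nat_lit 38) (nat_lit 5) (nat_lit 36) (nat_lit 4) (nat_lit 401) (nat_lit 295) (nat_lit 204)) (XT.lf (nat_lit 0) (nat_lit 14859210624) (nat_lit 228) (nat_lit 5080394730) (nat_lit 76) (nat_lit 7443708528) (nat_lit 35) (nat_lit 5) (nat_lit 38) (nat_lit 5) (nat_lit 36) (nat_lit 4) (nat_lit 402) (nat_lit 295) (nat_lit 203)))) (XT.nd (nat_lit 156) (nat_lit 228) (nat_lit 0) (XT.nd (nat_lit 78) (nat_lit 0) (nat_lit 0) (XT.lf (nat_lit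 0) (nat_lit 6690847827) (nat_lit 76) (nat_lit 14002688060) (nat_lit 152) (nat_lit 7315616777) (nat_lit 34) (nat_lit 5) (nat_lit 35) (nat_lit 5) (nat_lit 36) (nat_lit 4) (nat_lit 403) (nat_lit 295) (nat_lit 202)) (XT.lf (nat_lit 0) (nat_lit 18879130538) (nat_lit 76) (nat_lit 7853129784) (nat_lit 152) (nat_lit 1920628672) (nat_lit 34) (nat_lit 5) (nat_lit 35) (nat_lit 5) (nat_lit 36) (nat_lit 4) (nat_lit 404) (nat_lit 295) (nat_lit 201))) (XT.nd (nat_lit 78) (nat_lit 0) (nat_lit 0) (XT.lf (nat_lit 0) (nat_lit 2083324510) (nat_lit 152) (nat_lit 1480447292) (nat_lit 228) (nat_lit 25751164726) (nat_lit 31) (nat_lit 5) (nat_lit 33) (nat_lit 5) (nat_lit 34) (nat_lit 5) (nat_lit 405) (nat_lit 295) (nat_lit 200)) (XT.lf (nat_lit 0) (nat_lit 9301210356) (nat_lit 228) (nat_lit 15605851914) (nat_lit 76) (nat_lit 5085402641) (nat_lit 31) (nat_lit 5) (nat_lit 34) (nat_lit 5) (nat_lit 32) (nat_lit 4) (nat_lit 406) (nat_lit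 295) (nat_lit 199))))) (XT.nd (nat_lit 234) (nat_lit 304) (nat_lit 0) (XT.nd (nat_lit 78) (nat_lit 76) (nat_lit 0) (XT.lf (nat_lit 0) (nat_lit 15204625023) (nat_lit 228) (nat_lit 3684405559) (nat_lit 76) (nat_lit 11801476053) (nat_lit 31) (nat_lit 5) (nat_lit 34) (nat_lit 5) (nat_lit 32) (nat_lit 4) (nat_lit 407) (nat_lit 295) (nat_lit 198)) (XT.nd (nat_lit 78) (nat_lit 0) (nat_lit 0) (XT.lf (nat_lit 0) (nat_lit 8727683345) (nat_lit 76) (nat_lit 12621155649) (nat_lit 152) (nat_lit 10058742701) (nat_lit 30) (nat_lit 5) (nat_lit 31) (nat_lit 5) (nat_lit 32) (nat_lit 4) (nat_lit 408) (nat_lit 295) (nat_lit 197)) (XT.lf (nat_lit 0) (nat_lit 21550718020) (nat_lit 76) (nat_lit 6143900864) (nat_lit 152) (nat_lit 4451035840) (nat_lit 30) (nat_lit 5) (nat_lit 31) (nat_lit 5) (nat_lit 32) (nat_lit 4) (nat_lit 409) (nat_lit 295) (nat_lit 196)))) (XT.nd (nat_lit 156) (nat_lit 76) (nat_lit 0) (XT.nd (nat_lit 78) (nat_lit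 0) (nat_lit 0) (XT.lf (nat_lit 0) (nat_lit 1302364940) (nat_lit 228) (nat_lit 31071287838) (nat_lit 76) (nat_lit 531738338) (nat_lit 27) (nat_lit 5) (nat_lit 30) (nat_lit 5) (nat_lit 28) (nat_lit 4) (nat_lit 410) (nat_lit 295) (nat_lit 195)) (XT.lf (nat_lit 0) (nat_lit 7288271505) (nat_lit 228) (nat_lit 18973797984) (nat_lit 76) (nat_lit 7420049721) (nat_lit 27) (nat_lit 5) (nat_lit 30) (nat_lit 5) (nat_lit 28) (nat_lit 4) (nat_lit 411) (nat_lit 295) (nat_lit 194))) (XT.nd (nat_lit 78) (nat_lit 76) (nat_lit 0) (XT.lf (nat_lit 0) (nat_lit 13434810702) (nat_lit 228) (nat_lit 6548653970) (nat_lit 76) (nat_lit 14499255391) (nat_lit 27) (nat_lit 5) (nat_lit 30) (nat_lit 5) (nat_lit 28) (nat_lit 4) (nat_lit 412) (nat_lit 295) (nat_lit 193)) (XT.lf (nat_lit 0) (nat_lit 6338691833) (nat_lit 76) (nat_lit 13469592843) (nat_lit 152) (nat_lit 15497780610) (nat_lit 26) (nat_lit 5) (nat_lit 27) (nat_lit 5) (nat_lit 28)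 (nat_lit 4) (nat_lit 413) (nat_lit 295) (nat_lit 192))))))))
noncomputable def xc93 : XT := (XT.nd (nat_lit 2106) (nat_lit 152) (nat_lit 0) (XT.nd (nat_lit 1014) (nat_lit 456) (nat_lit 0) (XT.nd (nat_lit 468) (nat_lit 228) (nat_lit 0) (XT.nd (nat_lit 234) (nat_lit 76) (nat_lit 0) (XT.nd (nat_lit 78) (nat_lit 152) (nat_lit 0) (XT.lf (nat_lit 0) (nat_lit 19712991477) (nat_lit 76) (nat_lit 6707916949) (nat_lit 152) (nat_lit 9731766504) (nat_lit 26) (nat_lit 5) (nat_lit 27) (nat_lit 5) (nat_lit 28) (nat_lit 4) (nat_lit 414) (nat_lit 295) (nat_lit 191)) (XT.nd (nat_lit 78) (nat_lit 152) (nat_lit 0) (XT.lf (nat_lit 0) (nat_lit 33216577415) (nat_lit 152) (nat_lit 3571934571) (nat_lit 0) (nat_lit 236633240) (nat_lit 26) (nat_lit 5) (nat_lit 28) (nat_lit 4) (nat_lit 26) (nat_lit 4) (nat_lit 415) (nat_lit 295) (nat_lit 190)) (XT.lf (nat_lit 0) (nat_lit 2392094967) (nat_lit 152) (nat_lit 28169132188) (nat_lit 76)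 (nat_lit 7357568654) (nat_lit 24) (nat_lit 5) (nat_lit 26) (nat_lit 5) (nat_lit 25) (nat_lit 4) (nat_lit 416) (nat_lit 295) (nat_lit 189)))) (XT.nd (nat_lit 78) (nat_lit 76) (nat_lit 0) (XT.lf (nat_lit 0) (nat_lit 8721398364) (nat_lit 152) (nat_lit 15364472310) (nat_lit 76) (nat_lit 14751681061) (nat_lit 24) (nat_lit 5) (nat_lit 26) (nat_lit 5) (nat_lit 25) (nat_lit 4) (nat_lit 417) (nat_lit 295) (nat_lit 188)) (XT.nd (nat_lit 78) (nat_lit 76) (nat_lit 0) (XT.lf (nat_lit 0) (nat_lit 15223826023) (nat_lit 152) (nat_lit 2207093691) (nat_lit 76) (nat_lit 22353455365) (nat_lit 24) (nat_lit 5) (nat_lit 26) (nat_lit 5) (nat_lit 25) (nat_lit 4) (nat_lit 418) (nat_lit 295) (nat_lit 187)) (XT.lf (nat_lit 0) (nat_lit 11539681149) (nat_lit 76) (nat_lit 10476305005) (nat_lit 152) (nat_lit 18740779218) (nat_lit 23) (nat_lit 5) (nat_lit 24) (nat_lit 5) (nat_lit 25) (nat_lit 4) (nat_lit 419) (nat_lit 295) (nat_lit 186)))))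 (XT.nd (nat_lit 234) (nat_lit 152) (nat_lit 0) (XT.nd (nat_lit 78) (nat_lit 76) (nat_lit 0) (XT.lf (nat_lit 0) (nat_lit 25713895689) (nat_lit 76) (nat_lit 3304219308) (nat_lit 152) (nat_lit 12740028234) (nat_lit 23) (nat_lit 5) (nat_lit 24) (nat_lit 5) (nat_lit 25) (nat_lit 4) (nat_lit 420) (nat_lit 295) (nat_lit 185)) (XT.nd (nat_lit 78) (nat_lit 76) (nat_lit 0) (XT.lf (nat_lit 0) (nat_lit 36253809512) (nat_lit 152) (nat_lit 2545139885) (nat_lit 0) (nat_lit 3989909894) (nat_lit 23) (nat_lit 5) (nat_lit 25) (nat_lit 4) (nat_lit 23) (nat_lit 4) (nat_lit 421) (nat_lit 295) (nat_lit 184)) (XT.lf (nat_lit 0) (nat_lit 11522265351) (nat_lit 76) (nat_lit 32312495491) (nat_lit 76) (nat_lit 11892274) (nat_lit 22) (nat_lit 4) (nat_lit 23) (nat_lit 5) (nat_lit 23) (nat_lit 4) (nat_lit 422) (nat_lit 295) (nat_lit 183)))) (XT.nd (nat_lit 156) (nat_lit 76) (nat_lit 0) (XT.nd (nat_lit 78) (nat_lit 0) (nat_lit 0) (XT.lf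 (nat_lit 0) (nat_lit 6586769967) (nat_lit 152) (nat_lit 18965094744) (nat_lit 76) (nat_lit 19382063050) (nat_lit 21) (nat_lit 5) (nat_lit 23) (nat_lit 5) (nat_lit 22) (nat_lit 4) (nat_lit 423) (nat_lit 295) (nat_lit 182)) (XT.lf (nat_lit 0) (nat_lit 13368329336) (nat_lit 152) (nat_lit 5233125887) (nat_lit 76) (nat_lit 27452808305) (nat_lit 21) (nat_lit 5) (nat_lit 23) (nat_lit 5) (nat_lit 22) (nat_lit 4) (nat_lit 424) (nat_lit 295) (nat_lit 181))) (XT.nd (nat_lit 78) (nat_lit 0) (nat_lit 0) (XT.lf (nat_lit 0) (nat_lit 9060433623) (nat_lit 76) (nat_lit 11365604335) (nat_lit 152) (nat_lit 26779991992) (nat_lit 20) (nat_lit 5) (nat_lit 21) (nat_lit 5) (nat_lit 22) (nat_lit 4) (nat_lit 425) (nat_lit 295) (nat_lit 180)) (XT.lf (nat_lit 0) (nat_lit 23863170136) (nat_lit 76) (nat_lit 3870920623) (nat_lit 152) (nat_lit 20657101825) (nat_lit 20) (nat_lit 5) (nat_lit 21) (nat_lit 5) (nat_lit 22) (nat_lit 4) (nat_lit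 426) (nat_lit 295) (nat_lit 179)))))) (XT.nd (nat_lit 546) (nat_lit 228) (nat_lit 0) (XT.nd (nat_lit 234) (nat_lit 152) (nat_lit 0) (XT.nd (nat_lit 78) (nat_lit 76) (nat_lit 0) (XT.lf (nat_lit 0) (nat_lit 35284445126) (nat_lit 152) (nat_lit 10565334414) (nat_lit 0) (nat_lit 3761440317) (nat_lit 20) (nat_lit 5) (nat_lit 22) (nat_lit 4) (nat_lit 20) (nat_lit 4) (nat_lit 427) (nat_lit 295) (nat_lit 178)) (XT.nd (nat_lit 78) (nat_lit 0) (nat_lit 0) (XT.lf (nat_lit 0) (nat_lit 3826937167) (nat_lit 76) (nat_lit 39295956492) (nat_lit 76) (nat_lit 7743108298) (nat_lit 19) (nat_lit 4) (nat_lit 20) (nat_lit 5) (nat_lit 20) (nat_lit 4) (nat_lit 428) (nat_lit 295) (nat_lit 177)) (XT.lf (nat_lit 0) (nat_lit 18842158874) (nat_lit 76) (nat_lit 32447646587) (nat_lit 76) (nat_lit 865824234) (nat_lit 19) (nat_lit 4) (nat_lit 20) (nat_lit 5) (nat_lit 20) (nat_lit 4) (nat_lit 429) (nat_lit 295) (nat_lit 176)))) (XT.nd (nat_lit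 156) (nat_lit 76) (nat_lit 0) (XT.nd (nat_lit 78) (nat_lit 0) (nat_lit 0) (XT.lf (nat_lit 0) (nat_lit 6083327432) (nat_lit 152) (nat_lit 19260797917) (nat_lit 76) (nat_lit 28138422820) (nat_lit 18) (nat_lit 5) (nat_lit 20) (nat_lit 5) (nat_lit 19) (nat_lit 4) (nat_lit 430) (nat_lit 295) (nat_lit 175)) (XT.lf (nat_lit 0) (nat_lit 13210813898) (nat_lit 152) (nat_lit 4819311317) (nat_lit 76) (nat_lit 36819275280) (nat_lit 18) (nat_lit 5) (nat_lit 20) (nat_lit 5) (nat_lit 19) (nat_lit 4) (nat_lit 431) (nat_lit 295) (nat_lit 174))) (XT.nd (nat_lit 78) (nat_lit 0) (nat_lit 0) (XT.lf (nat_lit 0) (nat_lit 10231585674) (nat_lit 76) (nat_lit 10406524998) (nat_lit 152) (nat_lit 35616569452) (nat_lit 17) (nat_lit 5) (nat_lit 18) (nat_lit 5) (nat_lit 19) (nat_lit 4) (nat_lit 432) (nat_lit 295) (nat_lit 173)) (XT.lf (nat_lit 0) (nat_lit 25809541725) (nat_lit 76) (nat_lit 2515120285) (nat_lit 152) (nat_lit 29376364331)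 (nat_lit 17) (nat_lit 5) (nat_lit 18) (nat_lit 5) (nat_lit 19) (nat_lit 4) (nat_lit 433) (nat_lit 295) (nat_lit 172))))) (XT.nd (nat_lit 234) (nat_lit 152) (nat_lit 0) (XT.nd (nat_lit 78) (nat_lit 76) (nat_lit 0) (XT.lf (nat_lit 0) (nat_lit 36283789081) (nat_lit 152) (nat_lit 17412718408) (nat_lit 0) (nat_lit 5492997312) (nat_lit 17) (nat_lit 5) (nat_lit 19) (nat_lit 4) (nat_lit 17) (nat_lit 4) (nat_lit 434) (nat_lit 295) (nat_lit 171)) (XT.nd (nat_lit 78) (nat_lit 76) (nat_lit 0) (XT.lf (nat_lit 0) (nat_lit 44494964326) (nat_lit 152) (nat_lit 2546662340) (nat_lit 0) (nat_lit 13680613913) (nat_lit 17) (nat_lit 5) (nat_lit 19) (nat_lit 4) (nat_lit 17) (nat_lit 4) (nat_lit 435) (nat_lit 295) (nat_lit 170)) (XT.lf (nat_lit 0) (nat_lit 12997477827) (nat_lit 76) (nat_lit 40068647564) (nat_lit 76) (nat_lit 9231424682) (nat_lit 16) (nat_lit 4) (nat_lit 17) (nat_lit 5) (nat_lit 17) (nat_lit 4) (nat_lit 436) (nat_lit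 295) (nat_lit 169)))) (XT.nd (nat_lit 156) (nat_lit 76) (nat_lit 0) (XT.nd (nat_lit 78) (nat_lit 76) (nat_lit 0) (XT.lf (nat_lit 0) (nat_lit 29038832122) (nat_lit 76) (nat_lit 32870140245) (nat_lit 76) (nat_lit 2010711081) (nat_lit 16) (nat_lit 4) (nat_lit 17) (nat_lit 5) (nat_lit 17) (nat_lit 4) (nat_lit 437) (nat_lit 295) (nat_lit 168)) (XT.lf (nat_lit 0) (nat_lit 5309782529) (nat_lit 152) (nat_lit 20102130123) (nat_lit 76) (nat_lit 40177332765) (nat_lit 15) (nat_lit 5) (nat_lit 17) (nat_lit 5) (nat_lit 16) (nat_lit 4) (nat_lit 438) (nat_lit 295) (nat_lit 167))) (XT.nd (nat_lit 78) (nat_lit 76) (nat_lit 0) (XT.lf (nat_lit 0) (nat_lit 12798848116) (nat_lit 152) (nat_lit 4920258533) (nat_lit 76) (nat_lit 49589510274) (nat_lit 15) (nat_lit 5) (nat_lit 17) (nat_lit 5) (nat_lit 16) (nat_lit 4) (nat_lit 439) (nat_lit 295) (nat_lit 166)) (XT.lf (nat_lit 0) (nat_lit 10910255727) (nat_lit 76) (nat_lit 9696886060)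 (nat_lit 152) (nat_lit 48469592104) (nat_lit 14) (nat_lit 5) (nat_lit 15) (nat_lit 5) (nat_lit 16) (nat_lit 4) (nat_lit 440) (nat_lit 295) (nat_lit 165))))))) (XT.nd (nat_lit 36972) (nat_lit 0) (nat_lit 17024) (XT.nd (nat_lit 468) (nat_lit 76) (nat_lit 0) (XT.nd (nat_lit 234) (nat_lit 76) (nat_lit 0) (XT.nd (nat_lit 78) (nat_lit 0) (nat_lit 0) (XT.lf (nat_lit 0) (nat_lit 27297027283) (nat_lit 76) (nat_lit 1392134972) (nat_lit 152) (nat_lit 42207548746) (nat_lit 14) (nat_lit 5) (nat_lit 15) (nat_lit 5) (nat_lit 16) (nat_lit 4) (nat_lit 441) (nat_lit 295) (nat_lit 164)) (XT.nd (nat_lit 78) (nat_lit 0) (nat_lit 0) (XT.lf (nat_lit 0) (nat_lit 37072489952) (nat_lit 152) (nat_lit 28683890083) (nat_lit 0) (nat_lit 7013142934) (nat_lit 14) (nat_lit 5) (nat_lit 16) (nat_lit 4) (nat_lit 14) (nat_lit 4) (nat_lit 442) (nat_lit 295) (nat_lit 163)) (XT.lf (nat_lit 0) (nat_lit 45711395568) (nat_lit 152) (nat_lit 13353009492)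 (nat_lit 0) (nat_lit 15633992811) (nat_lit 14) (nat_lit 5) (nat_lit 16) (nat_lit 4) (nat_lit 14) (nat_lit 4) (nat_lit 443) (nat_lit 295) (nat_lit 162)))) (XT.nd (nat_lit 78) (nat_lit 0) (nat_lit 0) (XT.lf (nat_lit 0) (nat_lit 2467893514) (nat_lit 76) (nat_lit 52155874995) (nat_lit 76) (nat_lit 22060942395) (nat_lit 13) (nat_lit 4) (nat_lit 14) (nat_lit 5) (nat_lit 14) (nat_lit 4) (nat_lit 444) (nat_lit 295) (nat_lit 161)) (XT.nd (nat_lit 78) (nat_lit 0) (nat_lit 0) (XT.lf (nat_lit 0) (nat_lit 19019262794) (nat_lit 76) (nat_lit 44909768846) (nat_lit 76) (nat_lit 14797816981) (nat_lit 13) (nat_lit 4) (nat_lit 14) (nat_lit 5) (nat_lit 14) (nat_lit 4) (nat_lit 445) (nat_lit 295) (nat_lit 160)) (XT.lf (nat_lit 0) (nat_lit 36049809638) (nat_lit 76) (nat_lit 37454594279) (nat_lit 76) (nat_lit 7326118855) (nat_lit 13) (nat_lit 4) (nat_lit 14) (nat_lit 5) (nat_lit 14) (nat_lit 4) (nat_lit 446) (nat_lit 295) (nat_lit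 159))))) (XT.nd (nat_lit 36192) (nat_lit 0) (nat_lit 24472) (XT.nd (nat_lit 36036) (nat_lit 0) (nat_lit 25992) (XT.lf (nat_lit 0) (nat_lit 353642472) (nat_lit 152) (nat_lit 29426623494) (nat_lit 76) (nat_lit 53217201538) (nat_lit 12) (nat_lit 5) (nat_lit 14) (nat_lit 5) (nat_lit 13) (nat_lit 4) (nat_lit 447) (nat_lit 295) (nat_lit 158)) (XT.nd (nat_lit 78) (nat_lit 0) (nat_lit 0) (XT.lf (nat_lit 0) (nat_lit 281574613) (nat_lit 380) (nat_lit 2692764940) (nat_lit 0) (nat_lit 281574613) (nat_lit 354) (nat_lit 5) (nat_lit 359) (nat_lit 4) (nat_lit 354) (nat_lit 4) (nat_lit 308) (nat_lit 296) (nat_lit 296)) (XT.lf (nat_lit 0) (nat_lit 3666599309) (nat_lit 380) (nat_lit 1711666762) (nat_lit 0) (nat_lit 1152214265) (nat_lit 354) (nat_lit 5) (nat_lit 359) (nat_lit 4) (nat_lit 354) (nat_lit 4) (nat_lit 309) (nat_lit 296) (nat_lit 295)))) (XT.nd (nat_lit 156) (nat_lit 1064) (nat_lit 0) (XT.nd (nat_lit 78) (nat_lit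 0) (nat_lit 0) (XT.lf (nat_lit 0) (nat_lit 216241481) (nat_lit 456) (nat_lit 4516565364) (nat_lit 76) (nat_lit 1819648020) (nat_lit 348) (nat_lit 5) (nat_lit 354) (nat_lit 5) (nat_lit 349) (nat_lit 4) (nat_lit 310) (nat_lit 296) (nat_lit 294)) (XT.lf (nat_lit 0) (nat_lit 3240291529) (nat_lit 456) (nat_lit 747792824) (nat_lit 76) (nat_lit 2588997846) (nat_lit 348) (nat_lit 5) (nat_lit 354) (nat_lit 5) (nat_lit 349) (nat_lit 4) (nat_lit 311) (nat_lit 296) (nat_lit 293))) (XT.nd (nat_lit 78) (nat_lit 608) (nat_lit 0) (XT.lf (nat_lit 0) (nat_lit 3121501937) (nat_lit 456) (nat_lit 3158352775) (nat_lit 532) (nat_lit 324963267) (nat_lit 342) (nat_lit 5) (nat_lit 348) (nat_lit 5) (nat_lit 349) (nat_lit 4) (nat_lit 312) (nat_lit 296) (nat_lit 292)) (XT.lf (nat_lit 0) (nat_lit 395074754) (nat_lit 532) (nat_lit 2235399323) (nat_lit 608) (nat_lit 4004994272) (nat_lit 334) (nat_lit 5) (nat_lit 341) (nat_lit 5) (nat_lit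 342) (nat_lit 5) (nat_lit 313) (nat_lit 296) (nat_lit 291)))))) (XT.nd (nat_lit 546) (nat_lit 4332) (nat_lit 0) (XT.nd (nat_lit 234) (nat_lit 2432) (nat_lit 0) (XT.nd (nat_lit 78) (nat_lit 684) (nat_lit 0) (XT.lf (nat_lit 0) (nat_lit 4383765996) (nat_lit 532) (nat_lit 1217760574) (nat_lit 608) (nat_lit 1067514388) (nat_lit 334) (nat_lit 5) (nat_lit 341) (nat_lit 5) (nat_lit 342) (nat_lit 5) (nat_lit 314) (nat_lit 296) (nat_lit 290)) (XT.nd (nat_lit 78) (nat_lit 0) (nat_lit 0) (XT.lf (nat_lit 0) (nat_lit 1729322743) (nat_lit 608) (nat_lit 107406396) (nat_lit 684) (nat_lit 4868919275) (nat_lit 325) (nat_lit 5) (nat_lit 333) (nat_lit 5) (nat_lit 334) (nat_lit 5) (nat_lit 315) (nat_lit 296) (nat_lit 289)) (XT.lf (nat_lit 0) (nat_lit 4742569173) (nat_lit 684) (nat_lit 928842412) (nat_lit 76) (nat_lit 1073642619) (nat_lit 325) (nat_lit 5) (nat_lit 334) (nat_lit 5) (nat_lit 326) (nat_lit 5) (nat_lit 316) (nat_lit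 296) (nat_lit 288)))) (XT.nd (nat_lit 156) (nat_lit 912) (nat_lit 0) (XT.nd (nat_lit 78) (nat_lit 760) (nat_lit 0) (XT.lf (nat_lit 0) (nat_lit 868279997) (nat_lit 760) (nat_lit 3568529597) (nat_lit 76) (nat_lit 2350541894) (nat_lit 315) (nat_lit 5) (nat_lit 325) (nat_lit 5) (nat_lit 316) (nat_lit 5) (nat_lit 317) (nat_lit 296) (nat_lit 287)) (XT.lf (nat_lit 0) (nat_lit 595407603) (nat_lit 760) (nat_lit 3111243397) (nat_lit 836) (nat_lit 3126106857) (nat_lit 305) (nat_lit 5) (nat_lit 315) (nat_lit 5) (nat_lit 316) (nat_lit 5) (nat_lit 318) (nat_lit 296) (nat_lit 286))) (XT.nd (nat_lit 78) (nat_lit 912) (nat_lit 0) (XT.lf (nat_lit 0) (nat_lit 4882543899) (nat_lit 760) (nat_lit 1692202177) (nat_lit 836) (nat_lit 306527515) (nat_lit 305) (nat_lit 5) (nat_lit 315) (nat_lit 5) (nat_lit 316) (nat_lit 5) (nat_lit 319) (nat_lit 296) (nat_lit 285)) (XT.lf (nat_lit 0) (nat_lit 2312651995) (nat_lit 836) (nat_lit 166770778)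 (nat_lit 912) (nat_lit 4453178253) (nat_lit 293) (nat_lit 5) (nat_lit 304) (nat_lit 5) (nat_lit 305) (nat_lit 5) (nat_lit 320) (nat_lit 296) (nat_lit 284))))) (XT.nd (nat_lit 234) (nat_lit 2356) (nat_lit 0) (XT.nd (nat_lit 78) (nat_lit 1976) (nat_lit 0) (XT.lf (nat_lit 0) (nat_lit 5288955683) (nat_lit 912) (nat_lit 283922866) (nat_lit 76) (nat_lit 1414190941) (nat_lit 293) (nat_lit 5) (nat_lit 305) (nat_lit 5) (nat_lit 294) (nat_lit 5) (nat_lit 321) (nat_lit 296) (nat_lit 283)) (XT.nd (nat_lit 78) (nat_lit 988) (nat_lit 0) (XT.lf (nat_lit 0) (nat_lit 1073606710) (nat_lit 988) (nat_lit 2867257105) (nat_lit 76) (nat_lit 3103365071) (nat_lit 280) (nat_lit 5) (nat_lit 293) (nat_lit 5) (nat_lit 281) (nat_lit 5) (nat_lit 322) (nat_lit 296) (nat_lit 282)) (XT.lf (nat_lit 0) (nat_lit 1613686333) (nat_lit 988) (nat_lit 2214780881) (nat_lit 1064) (nat_lit 3276178548) (nat_lit 267) (nat_lit 5) (nat_lit 280) (nat_lit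 5) (nat_lit 281) (nat_lit 5) (nat_lit 323) (nat_lit 296) (nat_lit 281)))) (XT.nd (nat_lit 156) (nat_lit 1216) (nat_lit 0) (XT.nd (nat_lit 78) (nat_lit 1140) (nat_lit 0) (XT.lf (nat_lit 0) (nat_lit 6213116353) (nat_lit 988) (nat_lit 399259212) (nat_lit 1064) (nat_lit 556176113) (nat_lit 267) (nat_lit 5) (nat_lit 280) (nat_lit 5) (nat_lit 281) (nat_lit 5) (nat_lit 324) (nat_lit 296) (nat_lit 280)) (XT.lf (nat_lit 0) (nat_lit 2170865537) (nat_lit 1140) (nat_lit 3557521270) (nat_lit 76) (nat_lit 1506327422) (nat_lit 252) (nat_lit 5) (nat_lit 267) (nat_lit 5) (nat_lit 253) (nat_lit 5) (nat_lit 325) (nat_lit 296) (nat_lit 279))) (XT.nd (nat_lit 78) (nat_lit 76) (nat_lit 0) (XT.lf (nat_lit 0) (nat_lit 1101767164) (nat_lit 1140) (nat_lit 3811763409) (nat_lit 1216) (nat_lit 2390878935) (nat_lit 237) (nat_lit 5) (nat_lit 252) (nat_lit 5) (nat_lit 253) (nat_lit 5) (nat_lit 326) (nat_lit 296) (nat_lit 278)) (XT.lf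 (nat_lit 0) (nat_lit 312950599) (nat_lit 1216) (nat_lit 1482063739) (nat_lit 76) (nat_lit 5582403802) (nat_lit 236) (nat_lit 5) (nat_lit 252) (nat_lit 5) (nat_lit 237) (nat_lit 5) (nat_lit 327) (nat_lit 296) (nat_lit 277))))))))
noncomputable def xc94 : XT := (XT.nd (nat_lit 2028) (nat_lit 4332) (nat_lit 0) (XT.nd (nat_lit 1014) (nat_lit 3344) (nat_lit 0) (XT.nd (nat_lit 468) (nat_lit 2584) (nat_lit 0) (XT.nd (nat_lit 234) (nat_lit 1216) (nat_lit 0) (XT.nd (nat_lit 78) (nat_lit 684) (nat_lit 0) (XT.lf (nat_lit 0) (nat_lit 3009045079) (nat_lit 1292) (nat_lit 4109421937) (nat_lit 76) (nat_lit 334721169) (nat_lit 220) (nat_lit 5) (nat_lit 237) (nat_lit 5) (nat_lit 221) (nat_lit 5) (nat_lit 328) (nat_lit 296) (nat_lit 276)) (XT.nd (nat_lit 78) (nat_lit 76) (nat_lit 0) (XT.lf (nat_lit 0) (nat_lit 734172143) (nat_lit 608) (nat_lit 5017060761) (nat_lit 684) (nat_lit 1781097883) (nat_lit 212) (nat_lit 5) (nat_lit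 220) (nat_lit 5) (nat_lit 221) (nat_lit 5) (nat_lit 329) (nat_lit 296) (nat_lit 275)) (XT.lf (nat_lit 0) (nat_lit 910917102) (nat_lit 684) (nat_lit 1891928904) (nat_lit 76) (nat_lit 4811741441) (nat_lit 211) (nat_lit 5) (nat_lit 220) (nat_lit 5) (nat_lit 212) (nat_lit 5) (nat_lit 330) (nat_lit 296) (nat_lit 274)))) (XT.nd (nat_lit 78) (nat_lit 684) (nat_lit 0) (XT.lf (nat_lit 0) (nat_lit 3130193997) (nat_lit 532) (nat_lit 475886058) (nat_lit 608) (nat_lit 4094008177) (nat_lit 204) (nat_lit 5) (nat_lit 211) (nat_lit 5) (nat_lit 212) (nat_lit 5) (nat_lit 331) (nat_lit 296) (nat_lit 273)) (XT.nd (nat_lit 78) (nat_lit 76) (nat_lit 0) (XT.lf (nat_lit 0) (nat_lit 468531902) (nat_lit 608) (nat_lit 5885274272) (nat_lit 684) (nat_lit 1435246172) (nat_lit 196) (nat_lit 5) (nat_lit 204) (nat_lit 5) (nat_lit 205) (nat_lit 5) (nat_lit 332) (nat_lit 296) (nat_lit 272)) (XT.lf (nat_lit 0) (nat_lit 1259206174) (nat_lit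 684) (nat_lit 2222040233) (nat_lit 76) (nat_lit 4399669075) (nat_lit 195) (nat_lit 5) (nat_lit 204) (nat_lit 5) (nat_lit 196) (nat_lit 5) (nat_lit 333) (nat_lit 296) (nat_lit 271))))) (XT.nd (nat_lit 234) (nat_lit 1444) (nat_lit 0) (XT.nd (nat_lit 78) (nat_lit 608) (nat_lit 0) (XT.lf (nat_lit 0) (nat_lit 2999113477) (nat_lit 532) (nat_lit 967441998) (nat_lit 608) (nat_lit 4009770762) (nat_lit 188) (nat_lit 5) (nat_lit 195) (nat_lit 5) (nat_lit 196) (nat_lit 5) (nat_lit 334) (nat_lit 296) (nat_lit 270)) (XT.nd (nat_lit 78) (nat_lit 76) (nat_lit 0) (XT.lf (nat_lit 0) (nat_lit 261988993) (nat_lit 532) (nat_lit 6467184555) (nat_lit 608) (nat_lit 1346248346) (nat_lit 181) (nat_lit 5) (nat_lit 188) (nat_lit 5) (nat_lit 189) (nat_lit 5) (nat_lit 335) (nat_lit 296) (nat_lit 269)) (XT.lf (nat_lit 0) (nat_lit 1364063102) (nat_lit 608) (nat_lit 2515546897) (nat_lit 76) (nat_lit 4297694585) (nat_lit 180) (nat_lit 5)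 (nat_lit 188) (nat_lit 5) (nat_lit 181) (nat_lit 5) (nat_lit 336) (nat_lit 296) (nat_lit 268)))) (XT.nd (nat_lit 156) (nat_lit 532) (nat_lit 0) (XT.nd (nat_lit 78) (nat_lit 456) (nat_lit 0) (XT.lf (nat_lit 0) (nat_lit 2910515650) (nat_lit 456) (nat_lit 1181826499) (nat_lit 532) (nat_lit 4190630526) (nat_lit 174) (nat_lit 5) (nat_lit 180) (nat_lit 5) (nat_lit 181) (nat_lit 5) (nat_lit 337) (nat_lit 296) (nat_lit 267)) (XT.lf (nat_lit 0) (nat_lit 70318139) (nat_lit 456) (nat_lit 6810635300) (nat_lit 532) (nat_lit 1511541971) (nat_lit 168) (nat_lit 5) (nat_lit 174) (nat_lit 5) (nat_lit 175) (nat_lit 5) (nat_lit 338) (nat_lit 296) (nat_lit 266))) (XT.nd (nat_lit 78) (nat_lit 456) (nat_lit 0) (XT.lf (nat_lit 0) (nat_lit 1227333388) (nat_lit 532) (nat_lit 2817280261) (nat_lit 76) (nat_lit 4460254212) (nat_lit 167) (nat_lit 5) (nat_lit 174) (nat_lit 5) (nat_lit 168) (nat_lit 5) (nat_lit 339) (nat_lit 296) (nat_lit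 265)) (XT.lf (nat_lit 0) (nat_lit 2819143049) (nat_lit 456) (nat_lit 1165053578) (nat_lit 532) (nat_lit 4637015621) (nat_lit 161) (nat_lit 5) (nat_lit 167) (nat_lit 5) (nat_lit 168) (nat_lit 5) (nat_lit 340) (nat_lit 296) (nat_lit 264)))))) (XT.nd (nat_lit 468) (nat_lit 1520) (nat_lit 0) (XT.nd (nat_lit 234) (nat_lit 912) (nat_lit 0) (XT.nd (nat_lit 78) (nat_lit 912) (nat_lit 0) (XT.lf (nat_lit 0) (nat_lit 6809856929) (nat_lit 532) (nat_lit 150023560) (nat_lit 76) (nat_lit 1781618499) (nat_lit 161) (nat_lit 5) (nat_lit 168) (nat_lit 5) (nat_lit 162) (nat_lit 5) (nat_lit 341) (nat_lit 296) (nat_lit 263)) (XT.nd (nat_lit 78) (nat_lit 380) (nat_lit 0) (XT.lf (nat_lit 0) (nat_lit 846368555) (nat_lit 532) (nat_lit 3174703967) (nat_lit 76) (nat_lit 4843863300) (nat_lit 154) (nat_lit 5) (nat_lit 161) (nat_lit 5) (nat_lit 155) (nat_lit 5) (nat_lit 342) (nat_lit 296) (nat_lit 262)) (XT.lf (nat_lit 0) (nat_lit 2676890553)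 (nat_lit 380) (nat_lit 961469033) (nat_lit 456) (nat_lit 5354090301) (nat_lit 149) (nat_lit 5) (nat_lit 154) (nat_lit 5) (nat_lit 155) (nat_lit 5) (nat_lit 343) (nat_lit 296) (nat_lit 261)))) (XT.nd (nat_lit 78) (nat_lit 912) (nat_lit 0) (XT.lf (nat_lit 0) (nat_lit 6510580126) (nat_lit 456) (nat_lit 448901443) (nat_lit 76) (nat_lit 2164444591) (nat_lit 149) (nat_lit 5) (nat_lit 155) (nat_lit 5) (nat_lit 150) (nat_lit 5) (nat_lit 344) (nat_lit 296) (nat_lit 260)) (XT.nd (nat_lit 78) (nat_lit 380) (nat_lit 0) (XT.lf (nat_lit 0) (nat_lit 213848999) (nat_lit 532) (nat_lit 3638944387) (nat_lit 76) (nat_lit 5406272426) (nat_lit 142) (nat_lit 5) (nat_lit 149) (nat_lit 5) (nat_lit 143) (nat_lit 5) (nat_lit 345) (nat_lit 296) (nat_lit 259)) (XT.lf (nat_lit 0) (nat_lit 2431740025) (nat_lit 380) (nat_lit 614611230) (nat_lit 456) (nat_lit 6351969908) (nat_lit 137) (nat_lit 5) (nat_lit 142) (nat_lit 5) (nat_lit 143)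 (nat_lit 5) (nat_lit 346) (nat_lit 296) (nat_lit 258))))) (XT.nd (nat_lit 234) (nat_lit 760) (nat_lit 0) (XT.nd (nat_lit 78) (nat_lit 760) (nat_lit 0) (XT.lf (nat_lit 0) (nat_lit 5972902657) (nat_lit 456) (nat_lit 880889320) (nat_lit 76) (nat_lit 2687717409) (nat_lit 137) (nat_lit 5) (nat_lit 143) (nat_lit 5) (nat_lit 138) (nat_lit 5) (nat_lit 347) (nat_lit 296) (nat_lit 257)) (XT.nd (nat_lit 78) (nat_lit 380) (nat_lit 0) (XT.lf (nat_lit 0) (nat_lit 5416240210) (nat_lit 380) (nat_lit 3576549052) (nat_lit 456) (nat_lit 696064473) (nat_lit 132) (nat_lit 5) (nat_lit 137) (nat_lit 5) (nat_lit 138) (nat_lit 5) (nat_lit 348) (nat_lit 296) (nat_lit 256)) (XT.lf (nat_lit 0) (nat_lit 2026586963) (nat_lit 304) (nat_lit 168089155) (nat_lit 380) (nat_lit 7646029666) (nat_lit 127) (nat_lit 5) (nat_lit 131) (nat_lit 5) (nat_lit 132) (nat_lit 5) (nat_lit 349) (nat_lit 296) (nat_lit 255)))) (XT.nd (nat_lit 156) (nat_lit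 380) (nat_lit 0) (XT.nd (nat_lit 78) (nat_lit 380) (nat_lit 0) (XT.lf (nat_lit 0) (nat_lit 5182226539) (nat_lit 380) (nat_lit 1504720015) (nat_lit 76) (nat_lit 3309262131) (nat_lit 127) (nat_lit 5) (nat_lit 132) (nat_lit 5) (nat_lit 128) (nat_lit 5) (nat_lit 350) (nat_lit 296) (nat_lit 254)) (XT.lf (nat_lit 0) (nat_lit 5020558336) (nat_lit 380) (nat_lit 3238647993) (nat_lit 456) (nat_lit 1897199926) (nat_lit 122) (nat_lit 5) (nat_lit 127) (nat_lit 5) (nat_lit 128) (nat_lit 5) (nat_lit 351) (nat_lit 296) (nat_lit 253))) (XT.nd (nat_lit 78) (nat_lit 0) (nat_lit 0) (XT.lf (nat_lit 0) (nat_lit 1067634752) (nat_lit 380) (nat_lit 8927015646) (nat_lit 76) (nat_lit 326997838) (nat_lit 117) (nat_lit 5) (nat_lit 122) (nat_lit 5) (nat_lit 118) (nat_lit 5) (nat_lit 352) (nat_lit 296) (nat_lit 252)) (XT.lf (nat_lit 0) (nat_lit 4118477094) (nat_lit 380) (nat_lit 2385997240) (nat_lit 76) (nat_lit 3985775440) (nat_lit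 117) (nat_lit 5) (nat_lit 122) (nat_lit 5) (nat_lit 118) (nat_lit 5) (nat_lit 353) (nat_lit 296) (nat_lit 251))))))) (XT.nd (nat_lit 1014) (nat_lit 1900) (nat_lit 0) (XT.nd (nat_lit 468) (nat_lit 1140) (nat_lit 0) (XT.nd (nat_lit 234) (nat_lit 608) (nat_lit 0) (XT.nd (nat_lit 78) (nat_lit 380) (nat_lit 0) (XT.lf (nat_lit 0) (nat_lit 4367893277) (nat_lit 304) (nat_lit 2887125829) (nat_lit 380) (nat_lit 3409086049) (nat_lit 113) (nat_lit 5) (nat_lit 117) (nat_lit 5) (nat_lit 118) (nat_lit 5) (nat_lit 354) (nat_lit 296) (nat_lit 250)) (XT.nd (nat_lit 78) (nat_lit 76) (nat_lit 0) (XT.lf (nat_lit 0) (nat_lit 462428808) (nat_lit 304) (nat_lit 10012795540) (nat_lit 380) (nat_lit 368285257) (nat_lit 109) (nat_lit 5) (nat_lit 113) (nat_lit 5) (nat_lit 114) (nat_lit 5) (nat_lit 355) (nat_lit 296) (nat_lit 249)) (XT.lf (nat_lit 0) (nat_lit 2755568512) (nat_lit 380) (nat_lit 3598704461) (nat_lit 76) (nat_lit 4671872670)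 (nat_lit 108) (nat_lit 5) (nat_lit 113) (nat_lit 5) (nat_lit 109) (nat_lit 5) (nat_lit 356) (nat_lit 296) (nat_lit 248)))) (XT.nd (nat_lit 78) (nat_lit 304) (nat_lit 0) (XT.lf (nat_lit 0) (nat_lit 3382086787) (nat_lit 304) (nat_lit 2570494743) (nat_lit 380) (nat_lit 5261983152) (nat_lit 104) (nat_lit 5) (nat_lit 108) (nat_lit 5) (nat_lit 109) (nat_lit 5) (nat_lit 357) (nat_lit 296) (nat_lit 247)) (XT.nd (nat_lit 78) (nat_lit 304) (nat_lit 0) (XT.lf (nat_lit 0) (nat_lit 9249772880) (nat_lit 380) (nat_lit 842492197) (nat_lit 76) (nat_lit 1316261315) (nat_lit 104) (nat_lit 5) (nat_lit 109) (nat_lit 5) (nat_lit 105) (nat_lit 5) (nat_lit 358) (nat_lit 296) (nat_lit 246)) (XT.lf (nat_lit 0) (nat_lit 1060745211) (nat_lit 304) (nat_lit 5226915271) (nat_lit 76) (nat_lit 5319061785) (nat_lit 100) (nat_lit 5) (nat_lit 104) (nat_lit 5) (nat_lit 101) (nat_lit 5) (nat_lit 359) (nat_lit 296) (nat_lit 245))))) (XT.nd (nat_lit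 234) (nat_lit 608) (nat_lit 0) (XT.nd (nat_lit 78) (nat_lit 228) (nat_lit 0) (XT.lf (nat_lit 0) (nat_lit 1976379404) (nat_lit 304) (nat_lit 2340986558) (nat_lit 380) (nat_lit 7493355666) (nat_lit 96) (nat_lit 5) (nat_lit 100) (nat_lit 5) (nat_lit 101) (nat_lit 5) (nat_lit 360) (nat_lit 296) (nat_lit 244)) (XT.nd (nat_lit 78) (nat_lit 228) (nat_lit 0) (XT.lf (nat_lit 0) (nat_lit 7698324209) (nat_lit 380) (nat_lit 2600040885) (nat_lit 76) (nat_lit 1721692827) (nat_lit 96) (nat_lit 5) (nat_lit 101) (nat_lit 5) (nat_lit 97) (nat_lit 5) (nat_lit 361) (nat_lit 296) (nat_lit 243)) (XT.lf (nat_lit 0) (nat_lit 4858245961) (nat_lit 228) (nat_lit 6350364828) (nat_lit 304) (nat_lit 1026242172) (nat_lit 93) (nat_lit 5) (nat_lit 96) (nat_lit 5) (nat_lit 97) (nat_lit 5) (nat_lit 362) (nat_lit 296) (nat_lit 242)))) (XT.nd (nat_lit 156) (nat_lit 228) (nat_lit 0) (XT.nd (nat_lit 78) (nat_lit 0) (nat_lit 0) (XT.lf (nat_lit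 0) (nat_lit 51374382) (nat_lit 304) (nat_lit 2255742119) (nat_lit 380) (nat_lit 10148750802) (nat_lit 88) (nat_lit 5) (nat_lit 92) (nat_lit 5) (nat_lit 93) (nat_lit 5) (nat_lit 363) (nat_lit 296) (nat_lit 241)) (XT.lf (nat_lit 0) (nat_lit 5772515499) (nat_lit 380) (nat_lit 4922897056) (nat_lit 76) (nat_lit 1986229035) (nat_lit 88) (nat_lit 5) (nat_lit 93) (nat_lit 5) (nat_lit 89) (nat_lit 5) (nat_lit 364) (nat_lit 296) (nat_lit 240))) (XT.nd (nat_lit 78) (nat_lit 0) (nat_lit 0) (XT.lf (nat_lit 0) (nat_lit 2751125614) (nat_lit 228) (nat_lit 6599318769) (nat_lit 304) (nat_lit 3563501587) (nat_lit 85) (nat_lit 5) (nat_lit 88) (nat_lit 5) (nat_lit 89) (nat_lit 5) (nat_lit 365) (nat_lit 296) (nat_lit 239)) (XT.lf (nat_lit 0) (nat_lit 10693533458) (nat_lit 228) (nat_lit 2352245640) (nat_lit 304) (nat_lit 107151841) (nat_lit 85) (nat_lit 5) (nat_lit 88) (nat_lit 5) (nat_lit 89) (nat_lit 5) (nat_lit 366) (nat_lit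 296) (nat_lit 238)))))) (XT.nd (nat_lit 546) (nat_lit 912) (nat_lit 0) (XT.nd (nat_lit 234) (nat_lit 456) (nat_lit 0) (XT.nd (nat_lit 78) (nat_lit 228) (nat_lit 0) (XT.lf (nat_lit 0) (nat_lit 3419445000) (nat_lit 304) (nat_lit 7930452055) (nat_lit 76) (nat_lit 2047187339) (nat_lit 81) (nat_lit 5) (nat_lit 85) (nat_lit 5) (nat_lit 82) (nat_lit 5) (nat_lit 367) (nat_lit 296) (nat_lit 237)) (XT.nd (nat_lit 78) (nat_lit 228) (nat_lit 0) (XT.lf (nat_lit 0) (nat_lit 7059500045) (nat_lit 304) (nat_lit 53603089) (nat_lit 76) (nat_lit 6535145426) (nat_lit 81) (nat_lit 5) (nat_lit 85) (nat_lit 5) (nat_lit 82) (nat_lit 5) (nat_lit 368) (nat_lit 296) (nat_lit 236)) (XT.lf (nat_lit 0) (nat_lit 8158512911) (nat_lit 228) (nat_lit 2691234853) (nat_lit 304) (nat_lit 3055982148) (nat_lit 78) (nat_lit 5) (nat_lit 81) (nat_lit 5) (nat_lit 82) (nat_lit 5) (nat_lit 369) (nat_lit 296) (nat_lit 235)))) (XT.nd (nat_lit 156) (nat_lit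 152) (nat_lit 0) (XT.nd (nat_lit 78) (nat_lit 0) (nat_lit 0) (XT.lf (nat_lit 0) (nat_lit 575974018) (nat_lit 304) (nat_lit 11760611062) (nat_lit 76) (nat_lit 1834056510) (nat_lit 74) (nat_lit 5) (nat_lit 78) (nat_lit 5) (nat_lit 75) (nat_lit 5) (nat_lit 370) (nat_lit 296) (nat_lit 234)) (XT.lf (nat_lit 0) (nat_lit 4303719077) (nat_lit 304) (nat_lit 3630133721) (nat_lit 76) (nat_lit 6507303503) (nat_lit 74) (nat_lit 5) (nat_lit 78) (nat_lit 5) (nat_lit 75) (nat_lit 5) (nat_lit 371) (nat_lit 296) (nat_lit 233))) (XT.nd (nat_lit 78) (nat_lit 0) (nat_lit 0) (XT.lf (nat_lit 0) (nat_lit 4778568891) (nat_lit 152) (nat_lit 3374736203) (nat_lit 228) (nat_lit 6566191757) (nat_lit 72) (nat_lit 5) (nat_lit 74) (nat_lit 5) (nat_lit 75) (nat_lit 5) (nat_lit 372) (nat_lit 296) (nat_lit 232)) (XT.lf (nat_lit 0) (nat_lit 12132437795) (nat_lit 228) (nat_lit 1563415411) (nat_lit 76) (nat_lit 1309922983) (nat_lit 72) (nat_lit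 5) (nat_lit 75) (nat_lit 5) (nat_lit 73) (nat_lit 5) (nat_lit 373) (nat_lit 296) (nat_lit 231))))) (XT.nd (nat_lit 234) (nat_lit 456) (nat_lit 0) (XT.nd (nat_lit 78) (nat_lit 152) (nat_lit 0) (XT.lf (nat_lit 0) (nat_lit 979970995) (nat_lit 304) (nat_lit 8194917476) (nat_lit 76) (nat_lit 6123462189) (nat_lit 68) (nat_lit 5) (nat_lit 72) (nat_lit 5) (nat_lit 69) (nat_lit 5) (nat_lit 374) (nat_lit 296) (nat_lit 230)) (XT.nd (nat_lit 78) (nat_lit 0) (nat_lit 0) (XT.lf (nat_lit 0) (nat_lit 384382824) (nat_lit 152) (nat_lit 4491875546) (nat_lit 228) (nat_lit 10723046097) (nat_lit 66) (nat_lit 5) (nat_lit 68) (nat_lit 5) (nat_lit 69) (nat_lit 5) (nat_lit 375) (nat_lit 296) (nat_lit 229)) (XT.lf (nat_lit 0) (nat_lit 8941920948) (nat_lit 228) (nat_lit 6579625925) (nat_lit 76) (nat_lit 386174608) (nat_lit 66) (nat_lit 5) (nat_lit 69) (nat_lit 5) (nat_lit 67) (nat_lit 5) (nat_lit 376) (nat_lit 296) (nat_lit 228))))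 (XT.nd (nat_lit 156) (nat_lit 152) (nat_lit 0) (XT.nd (nat_lit 78) (nat_lit 76) (nat_lit 0) (XT.lf (nat_lit 0) (nat_lit 2258140086) (nat_lit 228) (nat_lit 10904319045) (nat_lit 304) (nat_lit 3061953626) (nat_lit 63) (nat_lit 5) (nat_lit 66) (nat_lit 5) (nat_lit 67) (nat_lit 5) (nat_lit 377) (nat_lit 296) (nat_lit 227)) (XT.lf (nat_lit 0) (nat_lit 974220011) (nat_lit 304) (nat_lit 5118869862) (nat_lit 76) (nat_lit 10456229002) (nat_lit 62) (nat_lit 5) (nat_lit 66) (nat_lit 5) (nat_lit 63) (nat_lit 5) (nat_lit 378) (nat_lit 296) (nat_lit 226))) (XT.nd (nat_lit 78) (nat_lit 0) (nat_lit 0) (XT.lf (nat_lit 0) (nat_lit 3986777894) (nat_lit 152) (nat_lit 1089274192) (nat_lit 228) (nat_lit 11806835298) (nat_lit 60) (nat_lit 5) (nat_lit 62) (nat_lit 5) (nat_lit 63) (nat_lit 5) (nat_lit 379) (nat_lit 296) (nat_lit 225)) (XT.lf (nat_lit 0) (nat_lit 9360208724) (nat_lit 228) (nat_lit 3848837359) (nat_lit 76) (nat_lit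 4015646708) (nat_lit 60) (nat_lit 5) (nat_lit 63) (nat_lit 5) (nat_lit 61) (nat_lit 5) (nat_lit 380) (nat_lit 296) (nat_lit 224))))))))
noncomputable def xc95 : XT := (XT.nd (nat_lit 2106) (nat_lit 1064) (nat_lit 0) (XT.nd (nat_lit 1014) (nat_lit 912) (nat_lit 0) (XT.nd (nat_lit 468) (nat_lit 760) (nat_lit 0) (XT.nd (nat_lit 234) (nat_lit 152) (nat_lit 0) (XT.nd (nat_lit 78) (nat_lit 228) (nat_lit 0) (XT.lf (nat_lit 0) (nat_lit 5513383851) (nat_lit 152) (nat_lit 8292216598) (nat_lit 228) (nat_lit 3770178296) (nat_lit 58) (nat_lit 5) (nat_lit 60) (nat_lit 5) (nat_lit 61) (nat_lit 5) (nat_lit 381) (nat_lit 296) (nat_lit 223)) (XT.nd (nat_lit 78) (nat_lit 152) (nat_lit 0) (XT.lf (nat_lit 0) (nat_lit 446499855) (nat_lit 228) (nat_lit 2758915287) (nat_lit 76) (nat_lit 14731612550) (nat_lit 57) (nat_lit 5) (nat_lit 60) (nat_lit 5) (nat_lit 58) (nat_lit 5) (nat_lit 382) (nat_lit 296) (nat_lit 222)) (XT.lf (nat_lit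 0) (nat_lit 4770209487) (nat_lit 228) (nat_lit 11458736286) (nat_lit 76) (nat_lit 2077366285) (nat_lit 55) (nat_lit 5) (nat_lit 58) (nat_lit 5) (nat_lit 56) (nat_lit 5) (nat_lit 383) (nat_lit 296) (nat_lit 221)))) (XT.nd (nat_lit 78) (nat_lit 152) (nat_lit 0) (XT.lf (nat_lit 0) (nat_lit 9253594847) (nat_lit 228) (nat_lit 1971034594) (nat_lit 76) (nat_lit 7461153418) (nat_lit 55) (nat_lit 5) (nat_lit 58) (nat_lit 5) (nat_lit 56) (nat_lit 5) (nat_lit 384) (nat_lit 296) (nat_lit 220)) (XT.nd (nat_lit 78) (nat_lit 0) (nat_lit 0) (XT.lf (nat_lit 0) (nat_lit 7905069647) (nat_lit 152) (nat_lit 6013363772) (nat_lit 228) (nat_lit 5156802456) (nat_lit 53) (nat_lit 5) (nat_lit 55) (nat_lit 5) (nat_lit 56) (nat_lit 5) (nat_lit 385) (nat_lit 296) (nat_lit 219)) (XT.lf (nat_lit 0) (nat_lit 18067871359) (nat_lit 152) (nat_lit 646577854) (nat_lit 228) (nat_lit 762192752) (nat_lit 53) (nat_lit 5) (nat_lit 55) (nat_lit 5)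 (nat_lit 56) (nat_lit 5) (nat_lit 386) (nat_lit 296) (nat_lit 218))))) (XT.nd (nat_lit 234) (nat_lit 380) (nat_lit 0) (XT.nd (nat_lit 78) (nat_lit 152) (nat_lit 0) (XT.lf (nat_lit 0) (nat_lit 3794514946) (nat_lit 228) (nat_lit 11204697936) (nat_lit 76) (nat_lit 4886686486) (nat_lit 50) (nat_lit 5) (nat_lit 53) (nat_lit 5) (nat_lit 51) (nat_lit 5) (nat_lit 387) (nat_lit 296) (nat_lit 217)) (XT.nd (nat_lit 78) (nat_lit 152) (nat_lit 0) (XT.lf (nat_lit 0) (nat_lit 8465406007) (nat_lit 228) (nat_lit 1267602428) (nat_lit 76) (nat_lit 10574421522) (nat_lit 50) (nat_lit 5) (nat_lit 53) (nat_lit 5) (nat_lit 51) (nat_lit 5) (nat_lit 388) (nat_lit 296) (nat_lit 216)) (XT.lf (nat_lit 0) (nat_lit 9097305108) (nat_lit 152) (nat_lit 4239415142) (nat_lit 228) (nat_lit 7403083045) (nat_lit 48) (nat_lit 5) (nat_lit 50) (nat_lit 5) (nat_lit 51) (nat_lit 5) (nat_lit 389) (nat_lit 296) (nat_lit 215)))) (XT.nd (nat_lit 156)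 (nat_lit 152) (nat_lit 0) (XT.nd (nat_lit 78) (nat_lit 228) (nat_lit 0) (XT.lf (nat_lit 0) (nat_lit 18353726958) (nat_lit 228) (nat_lit 1447352081) (nat_lit 76) (nat_lit 1384087765) (nat_lit 48) (nat_lit 5) (nat_lit 51) (nat_lit 5) (nat_lit 49) (nat_lit 4) (nat_lit 390) (nat_lit 296) (nat_lit 214)) (XT.lf (nat_lit 0) (nat_lit 1945379840) (nat_lit 228) (nat_lit 12516331360) (nat_lit 76) (nat_lit 7178504038) (nat_lit 45) (nat_lit 5) (nat_lit 48) (nat_lit 5) (nat_lit 46) (nat_lit 5) (nat_lit 391) (nat_lit 296) (nat_lit 213))) (XT.nd (nat_lit 78) (nat_lit 152) (nat_lit 0) (XT.lf (nat_lit 0) (nat_lit 6797186769) (nat_lit 228) (nat_lit 2141367319) (nat_lit 76) (nat_lit 13169867351) (nat_lit 45) (nat_lit 5) (nat_lit 48) (nat_lit 5) (nat_lit 46) (nat_lit 5) (nat_lit 392) (nat_lit 296) (nat_lit 212)) (XT.lf (nat_lit 0) (nat_lit 8668723955) (nat_lit 152) (nat_lit 3183746877) (nat_lit 228) (nat_lit 10736470246) (nat_lit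 43) (nat_lit 5) (nat_lit 45) (nat_lit 5) (nat_lit 46) (nat_lit 5) (nat_lit 393) (nat_lit 296) (nat_lit 211)))))) (XT.nd (nat_lit 546) (nat_lit 532) (nat_lit 0) (XT.nd (nat_lit 234) (nat_lit 228) (nat_lit 0) (XT.nd (nat_lit 78) (nat_lit 152) (nat_lit 0) (XT.lf (nat_lit 0) (nat_lit 17082338394) (nat_lit 228) (nat_lit 3308205730) (nat_lit 76) (nat_lit 2692649230) (nat_lit 43) (nat_lit 5) (nat_lit 46) (nat_lit 5) (nat_lit 44) (nat_lit 4) (nat_lit 394) (nat_lit 296) (nat_lit 210)) (XT.nd (nat_lit 78) (nat_lit 76) (nat_lit 0) (XT.lf (nat_lit 0) (nat_lit 7696753819) (nat_lit 76) (nat_lit 14853305931) (nat_lit 152) (nat_lit 1039789371) (nat_lit 42) (nat_lit 5) (nat_lit 43) (nat_lit 5) (nat_lit 44) (nat_lit 4) (nat_lit 395) (nat_lit 296) (nat_lit 209)) (XT.lf (nat_lit 0) (nat_lit 3999923375) (nat_lit 152) (nat_lit 5094621503) (nat_lit 76) (nat_lit 15015713214) (nat_lit 41) (nat_lit 5) (nat_lit 43) (nat_lit 5) (nat_lit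 42) (nat_lit 5) (nat_lit 396) (nat_lit 296) (nat_lit 208)))) (XT.nd (nat_lit 156) (nat_lit 76) (nat_lit 0) (XT.nd (nat_lit 78) (nat_lit 0) (nat_lit 0) (XT.lf (nat_lit 0) (nat_lit 6093563466) (nat_lit 152) (nat_lit 3111154450) (nat_lit 228) (nat_lit 15440213153) (nat_lit 39) (nat_lit 5) (nat_lit 41) (nat_lit 5) (nat_lit 42) (nat_lit 5) (nat_lit 397) (nat_lit 296) (nat_lit 207)) (XT.lf (nat_lit 0) (nat_lit 14623263476) (nat_lit 228) (nat_lit 7545079148) (nat_lit 76) (nat_lit 3025577533) (nat_lit 39) (nat_lit 5) (nat_lit 42) (nat_lit 5) (nat_lit 40) (nat_lit 4) (nat_lit 398) (nat_lit 296) (nat_lit 206))) (XT.nd (nat_lit 78) (nat_lit 0) (nat_lit 0) (XT.lf (nat_lit 0) (nat_lit 3792896373) (nat_lit 76) (nat_lit 16455738937) (nat_lit 152) (nat_lit 5509419530) (nat_lit 38) (nat_lit 5) (nat_lit 39) (nat_lit 5) (nat_lit 40) (nat_lit 4) (nat_lit 399) (nat_lit 296) (nat_lit 205)) (XT.lf (nat_lit 0) (nat_lit 15584375674)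 (nat_lit 76) (nat_lit 10511862573) (nat_lit 152) (nat_lit 241275117) (nat_lit 38) (nat_lit 5) (nat_lit 39) (nat_lit 5) (nat_lit 40) (nat_lit 4) (nat_lit 400) (nat_lit 296) (nat_lit 204))))) (XT.nd (nat_lit 234) (nat_lit 304) (nat_lit 0) (XT.nd (nat_lit 78) (nat_lit 0) (nat_lit 0) (XT.lf (nat_lit 0) (nat_lit 718884833) (nat_lit 152) (nat_lit 4349481904) (nat_lit 228) (nat_lit 21864958482) (nat_lit 35) (nat_lit 5) (nat_lit 37) (nat_lit 5) (nat_lit 38) (nat_lit 5) (nat_lit 401) (nat_lit 296) (nat_lit 203)) (XT.nd (nat_lit 78) (nat_lit 0) (nat_lit 0) (XT.lf (nat_lit 0) (nat_lit 10639120785) (nat_lit 228) (nat_lit 14851563458) (nat_lit 76) (nat_lit 2053058920) (nat_lit 35) (nat_lit 5) (nat_lit 38) (nat_lit 5) (nat_lit 36) (nat_lit 4) (nat_lit 402) (nat_lit 296) (nat_lit 202)) (XT.lf (nat_lit 0) (nat_lit 16398515833) (nat_lit 228) (nat_lit 3230319403) (nat_lit 76) (nat_lit 8542996324) (nat_lit 35) (nat_lit 5)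 (nat_lit 38) (nat_lit 5) (nat_lit 36) (nat_lit 4) (nat_lit 403) (nat_lit 296) (nat_lit 201)))) (XT.nd (nat_lit 156) (nat_lit 228) (nat_lit 0) (XT.nd (nat_lit 78) (nat_lit 0) (nat_lit 0) (XT.lf (nat_lit 0) (nat_lit 8874428204) (nat_lit 76) (nat_lit 13520652709) (nat_lit 152) (nat_lit 6421753414) (nat_lit 34) (nat_lit 5) (nat_lit 35) (nat_lit 5) (nat_lit 36) (nat_lit 4) (nat_lit 404) (nat_lit 296) (nat_lit 200)) (XT.lf (nat_lit 0) (nat_lit 21370606340) (nat_lit 76) (nat_lit 7212882907) (nat_lit 152) (nat_lit 897342807) (nat_lit 34) (nat_lit 5) (nat_lit 35) (nat_lit 5) (nat_lit 36) (nat_lit 4) (nat_lit 405) (nat_lit 296) (nat_lit 199))) (XT.nd (nat_lit 78) (nat_lit 0) (nat_lit 0) (XT.lf (nat_lit 0) (nat_lit 4073097508) (nat_lit 152) (nat_lit 645057635) (nat_lit 228) (nat_lit 25444649115) (nat_lit 31) (nat_lit 5) (nat_lit 33) (nat_lit 5) (nat_lit 34) (nat_lit 5) (nat_lit 406) (nat_lit 296) (nat_lit 198)) (XT.lf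 (nat_lit 0) (nat_lit 10605418893) (nat_lit 228) (nat_lit 14180438711) (nat_lit 76) (nat_lit 6075474379) (nat_lit 31) (nat_lit 5) (nat_lit 34) (nat_lit 5) (nat_lit 32) (nat_lit 4) (nat_lit 407) (nat_lit 296) (nat_lit 197))))))) (XT.nd (nat_lit 1014) (nat_lit 456) (nat_lit 0) (XT.nd (nat_lit 468) (nat_lit 304) (nat_lit 0) (XT.nd (nat_lit 234) (nat_lit 228) (nat_lit 0) (XT.nd (nat_lit 78) (nat_lit 76) (nat_lit 0) (XT.lf (nat_lit 0) (nat_lit 16656076615) (nat_lit 228) (nat_lit 1956502037) (nat_lit 76) (nat_lit 12968636508) (nat_lit 31) (nat_lit 5) (nat_lit 34) (nat_lit 5) (nat_lit 32) (nat_lit 4) (nat_lit 408) (nat_lit 296) (nat_lit 196)) (XT.nd (nat_lit 78) (nat_lit 0) (nat_lit 0) (XT.lf (nat_lit 0) (nat_lit 10809925655) (nat_lit 76) (nat_lit 12163200568) (nat_lit 152) (nat_lit 9347025262) (nat_lit 30) (nat_lit 5) (nat_lit 31) (nat_lit 5) (nat_lit 32) (nat_lit 4) (nat_lit 409) (nat_lit 296) (nat_lit 195))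 (XT.lf (nat_lit 0) (nat_lit 23964629667) (nat_lit 76) (nat_lit 5515994831) (nat_lit 152) (nat_lit 3600606022) (nat_lit 30) (nat_lit 5) (nat_lit 31) (nat_lit 5) (nat_lit 32) (nat_lit 4) (nat_lit 410) (nat_lit 296) (nat_lit 194)))) (XT.nd (nat_lit 78) (nat_lit 0) (nat_lit 0) (XT.lf (nat_lit 0) (nat_lit 2302942545) (nat_lit 228) (nat_lit 30213316475) (nat_lit 76) (nat_lit 1347317765) (nat_lit 27) (nat_lit 5) (nat_lit 30) (nat_lit 5) (nat_lit 28) (nat_lit 4) (nat_lit 411) (nat_lit 296) (nat_lit 193)) (XT.nd (nat_lit 78) (nat_lit 0) (nat_lit 0) (XT.lf (nat_lit 0) (nat_lit 8440421258) (nat_lit 228) (nat_lit 17805041052) (nat_lit 76) (nat_lit 8418988375) (nat_lit 27) (nat_lit 5) (nat_lit 30) (nat_lit 5) (nat_lit 28) (nat_lit 4) (nat_lit 412) (nat_lit 296) (nat_lit 192)) (XT.lf (nat_lit 0) (nat_lit 14744167264) (nat_lit 228) (nat_lit 5057763228) (nat_lit 76) (nat_lit 15687958452) (nat_lit 27) (nat_lit 5) (nat_lit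 30) (nat_lit 5) (nat_lit 28) (nat_lit 4) (nat_lit 413) (nat_lit 296) (nat_lit 191))))) (XT.nd (nat_lit 234) (nat_lit 228) (nat_lit 0) (XT.nd (nat_lit 78) (nat_lit 0) (nat_lit 0) (XT.lf (nat_lit 0) (nat_lit 8199660298) (nat_lit 76) (nat_lit 13098848541) (nat_lit 152) (nat_lit 15039739376) (nat_lit 26) (nat_lit 5) (nat_lit 27) (nat_lit 5) (nat_lit 28) (nat_lit 4) (nat_lit 414) (nat_lit 296) (nat_lit 190)) (XT.nd (nat_lit 78) (nat_lit 0) (nat_lit 0) (XT.lf (nat_lit 0) (nat_lit 21926524630) (nat_lit 76) (nat_lit 6156890295) (nat_lit 152) (nat_lit 9127627604) (nat_lit 26) (nat_lit 5) (nat_lit 27) (nat_lit 5) (nat_lit 28) (nat_lit 4) (nat_lit 415) (nat_lit 296) (nat_lit 189)) (XT.lf (nat_lit 0) (nat_lit 35064638300) (nat_lit 152) (nat_lit 2085767527) (nat_lit 0) (nat_lit 959833964) (nat_lit 26) (nat_lit 5) (nat_lit 28) (nat_lit 4) (nat_lit 26) (nat_lit 4) (nat_lit 416) (nat_lit 296) (nat_lit 188)))) (XT.nd (nat_lit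 156) (nat_lit 76) (nat_lit 0) (XT.nd (nat_lit 78) (nat_lit 0) (nat_lit 0) (XT.lf (nat_lit 0) (nat_lit 3314227780) (nat_lit 152) (nat_lit 27419471472) (nat_lit 76) (nat_lit 8297042927) (nat_lit 24) (nat_lit 5) (nat_lit 26) (nat_lit 5) (nat_lit 25) (nat_lit 4) (nat_lit 417) (nat_lit 296) (nat_lit 187)) (XT.lf (nat_lit 0) (nat_lit 9808642221) (nat_lit 152) (nat_lit 14277120380) (nat_lit 76) (nat_lit 15892044322) (nat_lit 24) (nat_lit 5) (nat_lit 26) (nat_lit 5) (nat_lit 25) (nat_lit 4) (nat_lit 418) (nat_lit 296) (nat_lit 186))) (XT.nd (nat_lit 78) (nat_lit 76) (nat_lit 0) (XT.lf (nat_lit 0) (nat_lit 16482096053) (nat_lit 152) (nat_lit 770116115) (nat_lit 76) (nat_lit 23701547210) (nat_lit 24) (nat_lit 5) (nat_lit 26) (nat_lit 5) (nat_lit 25) (nat_lit 4) (nat_lit 419) (nat_lit 296) (nat_lit 185)) (XT.lf (nat_lit 0) (nat_lit 13374324810) (nat_lit 76) (nat_lit 10094657831) (nat_lit 152) (nat_lit 18486612810)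 (nat_lit 23) (nat_lit 5) (nat_lit 24) (nat_lit 5) (nat_lit 25) (nat_lit 4) (nat_lit 420) (nat_lit 296) (nat_lit 184)))))) (XT.nd (nat_lit 546) (nat_lit 228) (nat_lit 0) (XT.nd (nat_lit 234) (nat_lit 76) (nat_lit 0) (XT.nd (nat_lit 78) (nat_lit 152) (nat_lit 0) (XT.lf (nat_lit 0) (nat_lit 27930412780) (nat_lit 76) (nat_lit 2727679554) (nat_lit 152) (nat_lit 12329617639) (nat_lit 23) (nat_lit 5) (nat_lit 24) (nat_lit 5) (nat_lit 25) (nat_lit 4) (nat_lit 421) (nat_lit 296) (nat_lit 183)) (XT.nd (nat_lit 78) (nat_lit 152) (nat_lit 0) (XT.lf (nat_lit 0) (nat_lit 38094752733) (nat_lit 152) (nat_lit 1202287424) (nat_lit 0) (nat_lit 4752793259) (nat_lit 23) (nat_lit 5) (nat_lit 25) (nat_lit 4) (nat_lit 23) (nat_lit 4) (nat_lit 422) (nat_lit 296) (nat_lit 182)) (XT.lf (nat_lit 0) (nat_lit 740348411) (nat_lit 152) (nat_lit 31873648862) (nat_lit 76) (nat_lit 12525401700) (nat_lit 21) (nat_lit 5) (nat_lit 23) (nat_lit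 5) (nat_lit 22) (nat_lit 4) (nat_lit 423) (nat_lit 296) (nat_lit 181)))) (XT.nd (nat_lit 156) (nat_lit 76) (nat_lit 0) (XT.nd (nat_lit 78) (nat_lit 0) (nat_lit 0) (XT.lf (nat_lit 0) (nat_lit 7514818145) (nat_lit 152) (nat_lit 18155064293) (nat_lit 76) (nat_lit 20590065806) (nat_lit 21) (nat_lit 5) (nat_lit 23) (nat_lit 5) (nat_lit 22) (nat_lit 4) (nat_lit 424) (nat_lit 296) (nat_lit 180)) (XT.lf (nat_lit 0) (nat_lit 14478549196) (nat_lit 152) (nat_lit 4051300932) (nat_lit 76) (nat_lit 28884684656) (nat_lit 21) (nat_lit 5) (nat_lit 23) (nat_lit 5) (nat_lit 22) (nat_lit 4) (nat_lit 425) (nat_lit 296) (nat_lit 179))) (XT.nd (nat_lit 78) (nat_lit 0) (nat_lit 0) (XT.lf (nat_lit 0) (nat_lit 10657939689) (nat_lit 76) (nat_lit 11082137324) (nat_lit 152) (nat_lit 26861016923) (nat_lit 20) (nat_lit 5) (nat_lit 21) (nat_lit 5) (nat_lit 22) (nat_lit 4) (nat_lit 426) (nat_lit 296) (nat_lit 178)) (XT.lf (nat_lit 0) (nat_lit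 25866145878) (nat_lit 76) (nat_lit 3380800531) (nat_lit 152) (nat_lit 20575480095) (nat_lit 20) (nat_lit 5) (nat_lit 21) (nat_lit 5) (nat_lit 22) (nat_lit 4) (nat_lit 427) (nat_lit 296) (nat_lit 177))))) (XT.nd (nat_lit 234) (nat_lit 152) (nat_lit 0) (XT.nd (nat_lit 78) (nat_lit 76) (nat_lit 0) (XT.lf (nat_lit 0) (nat_lit 37009639209) (nat_lit 152) (nat_lit 9618454766) (nat_lit 0) (nat_lit 4451388025) (nat_lit 20) (nat_lit 5) (nat_lit 22) (nat_lit 4) (nat_lit 20) (nat_lit 4) (nat_lit 428) (nat_lit 296) (nat_lit 176)) (XT.nd (nat_lit 78) (nat_lit 0) (nat_lit 0) (XT.lf (nat_lit 0) (nat_lit 5193194378) (nat_lit 76) (nat_lit 39882659212) (nat_lit 76) (nat_lit 7296277775) (nat_lit 19) (nat_lit 4) (nat_lit 20) (nat_lit 5) (nat_lit 20) (nat_lit 4) (nat_lit 429) (nat_lit 296) (nat_lit 175)) (XT.lf (nat_lit 0) (nat_lit 20622422762) (nat_lit 76) (nat_lit 32846147855) (nat_lit 76) (nat_lit 232455493) (nat_lit 19)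 (nat_lit 4) (nat_lit 20) (nat_lit 5) (nat_lit 20) (nat_lit 4) (nat_lit 430) (nat_lit 296) (nat_lit 174)))) (XT.nd (nat_lit 156) (nat_lit 76) (nat_lit 0) (XT.nd (nat_lit 78) (nat_lit 0) (nat_lit 0) (XT.lf (nat_lit 0) (nat_lit 6893475121) (nat_lit 152) (nat_lit 18646453325) (nat_lit 76) (nat_lit 29528200424) (nat_lit 18) (nat_lit 5) (nat_lit 20) (nat_lit 5) (nat_lit 19) (nat_lit 4) (nat_lit 431) (nat_lit 296) (nat_lit 173)) (XT.lf (nat_lit 0) (nat_lit 14216505175) (nat_lit 152) (nat_lit 3806445482) (nat_lit 76) (nat_lit 38453586470) (nat_lit 18) (nat_lit 5) (nat_lit 20) (nat_lit 5) (nat_lit 19) (nat_lit 4) (nat_lit 432) (nat_lit 296) (nat_lit 172))) (XT.nd (nat_lit 78) (nat_lit 0) (nat_lit 0) (XT.lf (nat_lit 0) (nat_lit 11684630917) (nat_lit 76) (nat_lit 10175258378) (nat_lit 152) (nat_lit 36064289672) (nat_lit 17) (nat_lit 5) (nat_lit 18) (nat_lit 5) (nat_lit 19) (nat_lit 4) (nat_lit 433) (nat_lit 296) (nat_lit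 171)) (XT.lf (nat_lit 0) (nat_lit 27696544163) (nat_lit 76) (nat_lit 2062940525) (nat_lit 152) (nat_lit 29654959277) (nat_lit 17) (nat_lit 5) (nat_lit 18) (nat_lit 5) (nat_lit 19) (nat_lit 4) (nat_lit 434) (nat_lit 296) (nat_lit 170))))))))
noncomputable def xc96 : XT := (XT.nd (nat_lit 37908) (nat_lit 0) (nat_lit 9804) (XT.nd (nat_lit 36894) (nat_lit 0) (nat_lit 22116) (XT.nd (nat_lit 468) (nat_lit 152) (nat_lit 0) (XT.nd (nat_lit 234) (nat_lit 76) (nat_lit 0) (XT.nd (nat_lit 78) (nat_lit 76) (nat_lit 0) (XT.lf (nat_lit 0) (nat_lit 37945268533) (nat_lit 152) (nat_lit 16842617030) (nat_lit 0) (nat_lit 6160056494) (nat_lit 17) (nat_lit 5) (nat_lit 19) (nat_lit 4) (nat_lit 17) (nat_lit 4) (nat_lit 435) (nat_lit 296) (nat_lit 169)) (XT.nd (nat_lit 78) (nat_lit 76) (nat_lit 0) (XT.lf (nat_lit 0) (nat_lit 46386090711) (nat_lit 152) (nat_lit 1562399171) (nat_lit 0) (nat_lit 14578672392) (nat_lit 17) (nat_lit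 5) (nat_lit 19) (nat_lit 4) (nat_lit 17) (nat_lit 4) (nat_lit 436) (nat_lit 296) (nat_lit 168)) (XT.lf (nat_lit 0) (nat_lit 14437666543) (nat_lit 76) (nat_lit 40770613593) (nat_lit 76) (nat_lit 8941635778) (nat_lit 16) (nat_lit 4) (nat_lit 17) (nat_lit 5) (nat_lit 17) (nat_lit 4) (nat_lit 437) (nat_lit 296) (nat_lit 167)))) (XT.nd (nat_lit 78) (nat_lit 76) (nat_lit 0) (XT.lf (nat_lit 0) (nat_lit 30929671242) (nat_lit 76) (nat_lit 33370716881) (nat_lit 76) (nat_lit 1520807516) (nat_lit 16) (nat_lit 4) (nat_lit 17) (nat_lit 5) (nat_lit 17) (nat_lit 4) (nat_lit 438) (nat_lit 296) (nat_lit 166)) (XT.nd (nat_lit 78) (nat_lit 0) (nat_lit 0) (XT.lf (nat_lit 0) (nat_lit 5992850790) (nat_lit 152) (nat_lit 19704744153) (nat_lit 76) (nat_lit 41843563774) (nat_lit 15) (nat_lit 5) (nat_lit 17) (nat_lit 5) (nat_lit 16) (nat_lit 4) (nat_lit 439) (nat_lit 296) (nat_lit 165)) (XT.lf (nat_lit 0) (nat_lit 13691332767) (nat_lit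 152) (nat_lit 4096555732) (nat_lit 76) (nat_lit 51524682016) (nat_lit 15) (nat_lit 5) (nat_lit 17) (nat_lit 5) (nat_lit 16) (nat_lit 4) (nat_lit 440) (nat_lit 296) (nat_lit 164))))) (XT.nd (nat_lit 234) (nat_lit 76) (nat_lit 0) (XT.nd (nat_lit 78) (nat_lit 0) (nat_lit 0) (XT.lf (nat_lit 0) (nat_lit 12199351304) (nat_lit 76) (nat_lit 9528958000) (nat_lit 152) (nat_lit 49405590104) (nat_lit 14) (nat_lit 5) (nat_lit 15) (nat_lit 5) (nat_lit 16) (nat_lit 4) (nat_lit 441) (nat_lit 296) (nat_lit 163)) (XT.nd (nat_lit 78) (nat_lit 0) (nat_lit 0) (XT.lf (nat_lit 0) (nat_lit 29049712766) (nat_lit 76) (nat_lit 988428495) (nat_lit 152) (nat_lit 42970775439) (nat_lit 14) (nat_lit 5) (nat_lit 15) (nat_lit 5) (nat_lit 16) (nat_lit 4) (nat_lit 442) (nat_lit 296) (nat_lit 162)) (XT.lf (nat_lit 0) (nat_lit 38662903752) (nat_lit 152) (nat_lit 28627719251) (nat_lit 0) (nat_lit 7647593331) (nat_lit 14) (nat_lit 5) (nat_lit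 16) (nat_lit 4) (nat_lit 14) (nat_lit 4) (nat_lit 443) (nat_lit 296) (nat_lit 161)))) (XT.nd (nat_lit 156) (nat_lit 0) (nat_lit 0) (XT.nd (nat_lit 78) (nat_lit 76) (nat_lit 0) (XT.lf (nat_lit 0) (nat_lit 47547047241) (nat_lit 152) (nat_lit 12863611879) (nat_lit 0) (nat_lit 16514717555) (nat_lit 14) (nat_lit 5) (nat_lit 16) (nat_lit 4) (nat_lit 14) (nat_lit 4) (nat_lit 444) (nat_lit 296) (nat_lit 160)) (XT.lf (nat_lit 0) (nat_lit 3423192846) (nat_lit 76) (nat_lit 53298546173) (nat_lit 76) (nat_lit 22249692928) (nat_lit 13) (nat_lit 4) (nat_lit 14) (nat_lit 5) (nat_lit 14) (nat_lit 4) (nat_lit 445) (nat_lit 296) (nat_lit 159))) (XT.nd (nat_lit 35958) (nat_lit 0) (nat_lit 26296) (XT.lf (nat_lit 0) (nat_lit 20445435364) (nat_lit 76) (nat_lit 45847348250) (nat_lit 76) (nat_lit 14782452715) (nat_lit 13) (nat_lit 4) (nat_lit 14) (nat_lit 5) (nat_lit 14) (nat_lit 4) (nat_lit 446) (nat_lit 296) (nat_lit 158)) (XT.lf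 (nat_lit 0) (nat_lit 213291352) (nat_lit 228) (nat_lit 1513618198) (nat_lit 228) (nat_lit 1513618198) (nat_lit 359) (nat_lit 4) (nat_lit 362) (nat_lit 5) (nat_lit 362) (nat_lit 4) (nat_lit 306) (nat_lit 297) (nat_lit 297)))))) (XT.nd (nat_lit 468) (nat_lit 2812) (nat_lit 0) (XT.nd (nat_lit 234) (nat_lit 988) (nat_lit 0) (XT.nd (nat_lit 78) (nat_lit 304) (nat_lit 0) (XT.lf (nat_lit 0) (nat_lit 79883220) (nat_lit 304) (nat_lit 2505348155) (nat_lit 76) (nat_lit 3910412835) (nat_lit 358) (nat_lit 5) (nat_lit 362) (nat_lit 5) (nat_lit 359) (nat_lit 4) (nat_lit 307) (nat_lit 297) (nat_lit 296)) (XT.nd (nat_lit 78) (nat_lit 0) (nat_lit 0) (XT.lf (nat_lit 0) (nat_lit 1070162969) (nat_lit 304) (nat_lit 2046827502) (nat_lit 380) (nat_lit 3395979983) (nat_lit 354) (nat_lit 5) (nat_lit 358) (nat_lit 5) (nat_lit 359) (nat_lit 4) (nat_lit 308) (nat_lit 297) (nat_lit 295)) (XT.lf (nat_lit 0) (nat_lit 4733995311) (nat_lit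 304) (nat_lit 1426452000) (nat_lit 380) (nat_lit 373035971) (nat_lit 354) (nat_lit 5) (nat_lit 358) (nat_lit 5) (nat_lit 359) (nat_lit 4) (nat_lit 309) (nat_lit 297) (nat_lit 294)))) (XT.nd (nat_lit 78) (nat_lit 532) (nat_lit 0) (XT.lf (nat_lit 0) (nat_lit 1893209646) (nat_lit 380) (nat_lit 704073552) (nat_lit 456) (nat_lit 3959349772) (nat_lit 348) (nat_lit 5) (nat_lit 353) (nat_lit 5) (nat_lit 354) (nat_lit 5) (nat_lit 310) (nat_lit 297) (nat_lit 293)) (XT.nd (nat_lit 78) (nat_lit 532) (nat_lit 0) (XT.lf (nat_lit 0) (nat_lit 5562735629) (nat_lit 456) (nat_lit 924066396) (nat_lit 76) (nat_lit 96272057) (nat_lit 348) (nat_lit 5) (nat_lit 354) (nat_lit 5) (nat_lit 349) (nat_lit 4) (nat_lit 311) (nat_lit 297) (nat_lit 292)) (XT.lf (nat_lit 0) (nat_lit 1899663312) (nat_lit 532) (nat_lit 3725168695) (nat_lit 76) (nat_lit 987045133) (nat_lit 341) (nat_lit 5) (nat_lit 348) (nat_lit 5) (nat_lit 342) (nat_lit 5)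 (nat_lit 312) (nat_lit 297) (nat_lit 291))))) (XT.nd (nat_lit 234) (nat_lit 1596) (nat_lit 0) (XT.nd (nat_lit 78) (nat_lit 684) (nat_lit 0) (XT.lf (nat_lit 0) (nat_lit 108683756) (nat_lit 532) (nat_lit 4687595321) (nat_lit 608) (nat_lit 1847780243) (nat_lit 334) (nat_lit 5) (nat_lit 341) (nat_lit 5) (nat_lit 342) (nat_lit 5) (nat_lit 313) (nat_lit 297) (nat_lit 290)) (XT.nd (nat_lit 78) (nat_lit 608) (nat_lit 0) (XT.lf (nat_lit 0) (nat_lit 1019285590) (nat_lit 608) (nat_lit 2627232994) (nat_lit 76) (nat_lit 3032321778) (nat_lit 333) (nat_lit 5) (nat_lit 341) (nat_lit 5) (nat_lit 334) (nat_lit 5) (nat_lit 314) (nat_lit 297) (nat_lit 289)) (XT.lf (nat_lit 0) (nat_lit 1333949901) (nat_lit 608) (nat_lit 2517229072) (nat_lit 684) (nat_lit 2865553343) (nat_lit 325) (nat_lit 5) (nat_lit 333) (nat_lit 5) (nat_lit 334) (nat_lit 5) (nat_lit 315) (nat_lit 297) (nat_lit 288)))) (XT.nd (nat_lit 156) (nat_lit 836) (nat_lit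 0) (XT.nd (nat_lit 78) (nat_lit 760) (nat_lit 0) (XT.lf (nat_lit 0) (nat_lit 5396590005) (nat_lit 608) (nat_lit 1303237111) (nat_lit 684) (nat_lit 58072158) (nat_lit 325) (nat_lit 5) (nat_lit 333) (nat_lit 5) (nat_lit 334) (nat_lit 5) (nat_lit 316) (nat_lit 297) (nat_lit 287)) (XT.lf (nat_lit 0) (nat_lit 2711899244) (nat_lit 760) (nat_lit 4065944181) (nat_lit 76) (nat_lit 23720745) (nat_lit 315) (nat_lit 5) (nat_lit 325) (nat_lit 5) (nat_lit 316) (nat_lit 5) (nat_lit 317) (nat_lit 297) (nat_lit 286))) (XT.nd (nat_lit 78) (nat_lit 76) (nat_lit 0) (XT.lf (nat_lit 0) (nat_lit 51211533) (nat_lit 760) (nat_lit 5449126824) (nat_lit 836) (nat_lit 1348171696) (nat_lit 305) (nat_lit 5) (nat_lit 315) (nat_lit 5) (nat_lit 316) (nat_lit 5) (nat_lit 318) (nat_lit 297) (nat_lit 285)) (XT.lf (nat_lit 0) (nat_lit 1398479536) (nat_lit 836) (nat_lit 2609548907) (nat_lit 76) (nat_lit 2889938662) (nat_lit 304) (nat_lit 5)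 (nat_lit 315) (nat_lit 5) (nat_lit 305) (nat_lit 5) (nat_lit 319) (nat_lit 297) (nat_lit 284))))))) (XT.nd (nat_lit 1014) (nat_lit 4712) (nat_lit 0) (XT.nd (nat_lit 468) (nat_lit 3648) (nat_lit 0) (XT.nd (nat_lit 234) (nat_lit 2128) (nat_lit 0) (XT.nd (nat_lit 78) (nat_lit 988) (nat_lit 0) (XT.lf (nat_lit 0) (nat_lit 1650304297) (nat_lit 836) (nat_lit 2478849370) (nat_lit 912) (nat_lit 2821569351) (nat_lit 293) (nat_lit 5) (nat_lit 304) (nat_lit 5) (nat_lit 305) (nat_lit 5) (nat_lit 320) (nat_lit 297) (nat_lit 283)) (XT.nd (nat_lit 78) (nat_lit 988) (nat_lit 0) (XT.lf (nat_lit 0) (nat_lit 6019771899) (nat_lit 836) (nat_lit 863033176) (nat_lit 912) (nat_lit 124099776) (nat_lit 293) (nat_lit 5) (nat_lit 304) (nat_lit 5) (nat_lit 305) (nat_lit 5) (nat_lit 321) (nat_lit 297) (nat_lit 282)) (XT.lf (nat_lit 0) (nat_lit 2560126194) (nat_lit 988) (nat_lit 3648441924) (nat_lit 76) (nat_lit 856780417) (nat_lit 280)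 (nat_lit 5) (nat_lit 293) (nat_lit 5) (nat_lit 281) (nat_lit 5) (nat_lit 322) (nat_lit 297) (nat_lit 281)))) (XT.nd (nat_lit 78) (nat_lit 1140) (nat_lit 0) (XT.lf (nat_lit 0) (nat_lit 780147665) (nat_lit 988) (nat_lit 4486514524) (nat_lit 1064) (nat_lit 1860586747) (nat_lit 267) (nat_lit 5) (nat_lit 280) (nat_lit 5) (nat_lit 281) (nat_lit 5) (nat_lit 323) (nat_lit 297) (nat_lit 280)) (XT.nd (nat_lit 78) (nat_lit 1064) (nat_lit 0) (XT.lf (nat_lit 0) (nat_lit 802740928) (nat_lit 1064) (nat_lit 1856399123) (nat_lit 76) (nat_lit 4532995948) (nat_lit 266) (nat_lit 5) (nat_lit 280) (nat_lit 5) (nat_lit 267) (nat_lit 5) (nat_lit 324) (nat_lit 297) (nat_lit 279)) (XT.lf (nat_lit 0) (nat_lit 2731854174) (nat_lit 1064) (nat_lit 724331900) (nat_lit 1140) (nat_lit 3803865315) (nat_lit 252) (nat_lit 5) (nat_lit 266) (nat_lit 5) (nat_lit 267) (nat_lit 5) (nat_lit 325) (nat_lit 297) (nat_lit 278))))) (XT.nd (nat_lit 234)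 (nat_lit 1216) (nat_lit 0) (XT.nd (nat_lit 78) (nat_lit 1292) (nat_lit 0) (XT.lf (nat_lit 0) (nat_lit 81807476) (nat_lit 1140) (nat_lit 6062351742) (nat_lit 1216) (nat_lit 1187258230) (nat_lit 237) (nat_lit 5) (nat_lit 252) (nat_lit 5) (nat_lit 253) (nat_lit 5) (nat_lit 326) (nat_lit 297) (nat_lit 277)) (XT.nd (nat_lit 78) (nat_lit 1216) (nat_lit 0) (XT.lf (nat_lit 0) (nat_lit 1455521748) (nat_lit 1216) (nat_lit 2577364240) (nat_lit 76) (nat_lit 3372348168) (nat_lit 236) (nat_lit 5) (nat_lit 252) (nat_lit 5) (nat_lit 237) (nat_lit 5) (nat_lit 327) (nat_lit 297) (nat_lit 276)) (XT.lf (nat_lit 0) (nat_lit 2193644631) (nat_lit 1216) (nat_lit 1907133327) (nat_lit 1292) (nat_lit 3381778865) (nat_lit 220) (nat_lit 5) (nat_lit 236) (nat_lit 5) (nat_lit 237) (nat_lit 5) (nat_lit 328) (nat_lit 297) (nat_lit 275)))) (XT.nd (nat_lit 156) (nat_lit 532) (nat_lit 0) (XT.nd (nat_lit 78) (nat_lit 684) (nat_lit 0) (XT.lf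 (nat_lit 0) (nat_lit 6781833756) (nat_lit 1292) (nat_lit 477757108) (nat_lit 76) (nat_lit 303969198) (nat_lit 220) (nat_lit 5) (nat_lit 237) (nat_lit 5) (nat_lit 221) (nat_lit 5) (nat_lit 329) (nat_lit 297) (nat_lit 274)) (XT.lf (nat_lit 0) (nat_lit 1850636619) (nat_lit 684) (nat_lit 3191114405) (nat_lit 76) (nat_lit 2605007163) (nat_lit 211) (nat_lit 5) (nat_lit 220) (nat_lit 5) (nat_lit 212) (nat_lit 5) (nat_lit 330) (nat_lit 297) (nat_lit 273))) (XT.nd (nat_lit 78) (nat_lit 0) (nat_lit 0) (XT.lf (nat_lit 0) (nat_lit 1768695157) (nat_lit 532) (nat_lit 2729628068) (nat_lit 608) (nat_lit 3235384450) (nat_lit 204) (nat_lit 5) (nat_lit 211) (nat_lit 5) (nat_lit 212) (nat_lit 5) (nat_lit 331) (nat_lit 297) (nat_lit 272)) (XT.lf (nat_lit 0) (nat_lit 6870861581) (nat_lit 532) (nat_lit 318336199) (nat_lit 608) (nat_lit 635203256) (nat_lit 204) (nat_lit 5) (nat_lit 211) (nat_lit 5) (nat_lit 212) (nat_lit 5) (nat_lit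 332) (nat_lit 297) (nat_lit 271)))))) (XT.nd (nat_lit 546) (nat_lit 1900) (nat_lit 0) (XT.nd (nat_lit 234) (nat_lit 1596) (nat_lit 0) (XT.nd (nat_lit 78) (nat_lit 532) (nat_lit 0) (XT.lf (nat_lit 0) (nat_lit 1997678757) (nat_lit 684) (nat_lit 3740001780) (nat_lit 76) (nat_lit 2179754017) (nat_lit 195) (nat_lit 5) (nat_lit 204) (nat_lit 5) (nat_lit 196) (nat_lit 5) (nat_lit 333) (nat_lit 297) (nat_lit 270)) (XT.nd (nat_lit 78) (nat_lit 0) (nat_lit 0) (XT.lf (nat_lit 0) (nat_lit 1414555932) (nat_lit 532) (nat_lit 3242757294) (nat_lit 608) (nat_lit 3356985217) (nat_lit 188) (nat_lit 5) (nat_lit 195) (nat_lit 5) (nat_lit 196) (nat_lit 5) (nat_lit 334) (nat_lit 297) (nat_lit 269)) (XT.lf (nat_lit 0) (nat_lit 6728705346) (nat_lit 532) (nat_lit 641088653) (nat_lit 608) (nat_lit 745125277) (nat_lit 188) (nat_lit 5) (nat_lit 195) (nat_lit 5) (nat_lit 196) (nat_lit 5) (nat_lit 335) (nat_lit 297) (nat_lit 268))))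 (XT.nd (nat_lit 156) (nat_lit 532) (nat_lit 0) (XT.nd (nat_lit 78) (nat_lit 456) (nat_lit 0) (XT.lf (nat_lit 0) (nat_lit 1901912933) (nat_lit 608) (nat_lit 4267288837) (nat_lit 76) (nat_lit 2048992988) (nat_lit 180) (nat_lit 5) (nat_lit 188) (nat_lit 5) (nat_lit 181) (nat_lit 5) (nat_lit 336) (nat_lit 297) (nat_lit 267)) (XT.lf (nat_lit 0) (nat_lit 1087704802) (nat_lit 456) (nat_lit 3494231480) (nat_lit 532) (nat_lit 3743393507) (nat_lit 174) (nat_lit 5) (nat_lit 180) (nat_lit 5) (nat_lit 181) (nat_lit 5) (nat_lit 337) (nat_lit 297) (nat_lit 266))) (XT.nd (nat_lit 78) (nat_lit 532) (nat_lit 0) (XT.lf (nat_lit 0) (nat_lit 6619466412) (nat_lit 456) (nat_lit 704726951) (nat_lit 532) (nat_lit 1112068497) (nat_lit 174) (nat_lit 5) (nat_lit 180) (nat_lit 5) (nat_lit 181) (nat_lit 5) (nat_lit 338) (nat_lit 297) (nat_lit 265)) (XT.lf (nat_lit 0) (nat_lit 1564250729) (nat_lit 532) (nat_lit 4818030714) (nat_lit 76)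 (nat_lit 2167898133) (nat_lit 167) (nat_lit 5) (nat_lit 174) (nat_lit 5) (nat_lit 168) (nat_lit 5) (nat_lit 339) (nat_lit 297) (nat_lit 264))))) (XT.nd (nat_lit 234) (nat_lit 912) (nat_lit 0) (XT.nd (nat_lit 78) (nat_lit 532) (nat_lit 0) (XT.lf (nat_lit 0) (nat_lit 742640606) (nat_lit 456) (nat_lit 3529387871) (nat_lit 532) (nat_lit 4395985171) (nat_lit 161) (nat_lit 5) (nat_lit 167) (nat_lit 5) (nat_lit 168) (nat_lit 5) (nat_lit 340) (nat_lit 297) (nat_lit 263)) (XT.nd (nat_lit 78) (nat_lit 532) (nat_lit 0) (XT.lf (nat_lit 0) (nat_lit 6498077302) (nat_lit 456) (nat_lit 553532695) (nat_lit 532) (nat_lit 1738089377) (nat_lit 161) (nat_lit 5) (nat_lit 167) (nat_lit 5) (nat_lit 168) (nat_lit 5) (nat_lit 341) (nat_lit 297) (nat_lit 262)) (XT.lf (nat_lit 0) (nat_lit 981147732) (nat_lit 532) (nat_lit 5440020031) (nat_lit 76) (nat_lit 2493578195) (nat_lit 154) (nat_lit 5) (nat_lit 161) (nat_lit 5) (nat_lit 155)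 (nat_lit 5) (nat_lit 342) (nat_lit 297) (nat_lit 261)))) (XT.nd (nat_lit 156) (nat_lit 532) (nat_lit 0) (XT.nd (nat_lit 78) (nat_lit 0) (nat_lit 0) (XT.lf (nat_lit 0) (nat_lit 330909043) (nat_lit 380) (nat_lit 3392036229) (nat_lit 456) (nat_lit 5320835766) (nat_lit 149) (nat_lit 5) (nat_lit 154) (nat_lit 5) (nat_lit 155) (nat_lit 5) (nat_lit 343) (nat_lit 297) (nat_lit 260)) (XT.lf (nat_lit 0) (nat_lit 6316354987) (nat_lit 380) (nat_lit 230421354) (nat_lit 456) (nat_lit 2629947424) (nat_lit 149) (nat_lit 5) (nat_lit 154) (nat_lit 5) (nat_lit 155) (nat_lit 5) (nat_lit 344) (nat_lit 297) (nat_lit 259))) (XT.nd (nat_lit 78) (nat_lit 0) (nat_lit 0) (XT.lf (nat_lit 0) (nat_lit 144418509) (nat_lit 532) (nat_lit 6184813119) (nat_lit 76) (nat_lit 2984245090) (nat_lit 142) (nat_lit 5) (nat_lit 149) (nat_lit 5) (nat_lit 143) (nat_lit 5) (nat_lit 345) (nat_lit 297) (nat_lit 258)) (XT.lf (nat_lit 0) (nat_lit 2927271424)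 (nat_lit 532) (nat_lit 196056653) (nat_lit 76) (nat_lit 6330906987) (nat_lit 142) (nat_lit 5) (nat_lit 149) (nat_lit 5) (nat_lit 143) (nat_lit 5) (nat_lit 346) (nat_lit 297) (nat_lit 257))))))))
noncomputable def xc97 : XT := (XT.nd (nat_lit 2028) (nat_lit 2660) (nat_lit 0) (XT.nd (nat_lit 1014) (nat_lit 1976) (nat_lit 0) (XT.nd (nat_lit 468) (nat_lit 1596) (nat_lit 0) (XT.nd (nat_lit 234) (nat_lit 760) (nat_lit 0) (XT.nd (nat_lit 78) (nat_lit 456) (nat_lit 0) (XT.lf (nat_lit 0) (nat_lit 5801849694) (nat_lit 456) (nat_lit 3579271496) (nat_lit 76) (nat_lit 217874414) (nat_lit 137) (nat_lit 5) (nat_lit 143) (nat_lit 5) (nat_lit 138) (nat_lit 5) (nat_lit 347) (nat_lit 297) (nat_lit 256)) (XT.nd (nat_lit 78) (nat_lit 76) (nat_lit 0) (XT.lf (nat_lit 0) (nat_lit 2629650196) (nat_lit 380) (nat_lit 6140137892) (nat_lit 456) (nat_lit 978123050) (nat_lit 132) (nat_lit 5) (nat_lit 137) (nat_lit 5) (nat_lit 138) (nat_lit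 5) (nat_lit 348) (nat_lit 297) (nat_lit 255)) (XT.lf (nat_lit 0) (nat_lit 1873632584) (nat_lit 456) (nat_lit 889904615) (nat_lit 76) (nat_lit 7137654004) (nat_lit 131) (nat_lit 5) (nat_lit 137) (nat_lit 5) (nat_lit 132) (nat_lit 5) (nat_lit 349) (nat_lit 297) (nat_lit 254)))) (XT.nd (nat_lit 78) (nat_lit 456) (nat_lit 0) (XT.lf (nat_lit 0) (nat_lit 4802732359) (nat_lit 380) (nat_lit 4508972775) (nat_lit 76) (nat_lit 746754149) (nat_lit 127) (nat_lit 5) (nat_lit 132) (nat_lit 5) (nat_lit 128) (nat_lit 5) (nat_lit 350) (nat_lit 297) (nat_lit 253)) (XT.nd (nat_lit 78) (nat_lit 76) (nat_lit 0) (XT.lf (nat_lit 0) (nat_lit 1922513114) (nat_lit 380) (nat_lit 5903447201) (nat_lit 456) (nat_lit 2394320413) (nat_lit 122) (nat_lit 5) (nat_lit 127) (nat_lit 5) (nat_lit 128) (nat_lit 5) (nat_lit 351) (nat_lit 297) (nat_lit 252)) (XT.lf (nat_lit 0) (nat_lit 539736210) (nat_lit 456) (nat_lit 1819981806) (nat_lit 76) (nat_lit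 8027173079) (nat_lit 121) (nat_lit 5) (nat_lit 127) (nat_lit 5) (nat_lit 122) (nat_lit 5) (nat_lit 352) (nat_lit 297) (nat_lit 251))))) (XT.nd (nat_lit 234) (nat_lit 988) (nat_lit 0) (XT.nd (nat_lit 78) (nat_lit 304) (nat_lit 0) (XT.lf (nat_lit 0) (nat_lit 3526322940) (nat_lit 380) (nat_lit 5713540325) (nat_lit 76) (nat_lit 1317567396) (nat_lit 117) (nat_lit 5) (nat_lit 122) (nat_lit 5) (nat_lit 118) (nat_lit 5) (nat_lit 353) (nat_lit 297) (nat_lit 250)) (XT.nd (nat_lit 78) (nat_lit 0) (nat_lit 0) (XT.lf (nat_lit 0) (nat_lit 940667775) (nat_lit 304) (nat_lit 5666385659) (nat_lit 380) (nat_lit 4125917011) (nat_lit 113) (nat_lit 5) (nat_lit 117) (nat_lit 5) (nat_lit 118) (nat_lit 5) (nat_lit 354) (nat_lit 297) (nat_lit 249)) (XT.lf (nat_lit 0) (nat_lit 7845683024) (nat_lit 304) (nat_lit 1946516676) (nat_lit 380) (nat_lit 1121236727) (nat_lit 113) (nat_lit 5) (nat_lit 117) (nat_lit 5) (nat_lit 118) (nat_lit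 5) (nat_lit 355) (nat_lit 297) (nat_lit 248)))) (XT.nd (nat_lit 156) (nat_lit 608) (nat_lit 0) (XT.nd (nat_lit 78) (nat_lit 0) (nat_lit 0) (XT.lf (nat_lit 0) (nat_lit 1945729916) (nat_lit 380) (nat_lit 7267728626) (nat_lit 76) (nat_lit 1884987661) (nat_lit 108) (nat_lit 5) (nat_lit 113) (nat_lit 5) (nat_lit 109) (nat_lit 5) (nat_lit 356) (nat_lit 297) (nat_lit 247)) (XT.lf (nat_lit 0) (nat_lit 5088392424) (nat_lit 380) (nat_lit 385172191) (nat_lit 76) (nat_lit 5814940076) (nat_lit 108) (nat_lit 5) (nat_lit 113) (nat_lit 5) (nat_lit 109) (nat_lit 5) (nat_lit 357) (nat_lit 297) (nat_lit 246))) (XT.nd (nat_lit 78) (nat_lit 304) (nat_lit 0) (XT.lf (nat_lit 0) (nat_lit 6772479134) (nat_lit 304) (nat_lit 1574913354) (nat_lit 380) (nat_lit 3136228327) (nat_lit 104) (nat_lit 5) (nat_lit 108) (nat_lit 5) (nat_lit 109) (nat_lit 5) (nat_lit 358) (nat_lit 297) (nat_lit 245)) (XT.lf (nat_lit 0) (nat_lit 27392577) (nat_lit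 304) (nat_lit 9256473920) (nat_lit 76) (nat_lit 2400488809) (nat_lit 100) (nat_lit 5) (nat_lit 104) (nat_lit 5) (nat_lit 101) (nat_lit 5) (nat_lit 359) (nat_lit 297) (nat_lit 244)))))) (XT.nd (nat_lit 468) (nat_lit 1064) (nat_lit 0) (XT.nd (nat_lit 234) (nat_lit 380) (nat_lit 0) (XT.nd (nat_lit 78) (nat_lit 532) (nat_lit 0) (XT.lf (nat_lit 0) (nat_lit 3244132266) (nat_lit 304) (nat_lit 2123390023) (nat_lit 76) (nat_lit 6522036749) (nat_lit 100) (nat_lit 5) (nat_lit 104) (nat_lit 5) (nat_lit 101) (nat_lit 5) (nat_lit 360) (nat_lit 297) (nat_lit 243)) (XT.nd (nat_lit 78) (nat_lit 228) (nat_lit 0) (XT.lf (nat_lit 0) (nat_lit 5264039446) (nat_lit 304) (nat_lit 1302778315) (nat_lit 380) (nat_lit 5533833459) (nat_lit 96) (nat_lit 5) (nat_lit 100) (nat_lit 5) (nat_lit 101) (nat_lit 5) (nat_lit 361) (nat_lit 297) (nat_lit 242)) (XT.lf (nat_lit 0) (nat_lit 518587825) (nat_lit 228) (nat_lit 9484200999) (nat_lit 304)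 (nat_lit 2314894386) (nat_lit 93) (nat_lit 5) (nat_lit 96) (nat_lit 5) (nat_lit 97) (nat_lit 5) (nat_lit 362) (nat_lit 297) (nat_lit 241)))) (XT.nd (nat_lit 78) (nat_lit 304) (nat_lit 0) (XT.lf (nat_lit 0) (nat_lit 1023127076) (nat_lit 304) (nat_lit 4390758845) (nat_lit 76) (nat_lit 7125804808) (nat_lit 92) (nat_lit 5) (nat_lit 96) (nat_lit 5) (nat_lit 93) (nat_lit 5) (nat_lit 363) (nat_lit 297) (nat_lit 240)) (XT.nd (nat_lit 78) (nat_lit 0) (nat_lit 0) (XT.lf (nat_lit 0) (nat_lit 3218558170) (nat_lit 304) (nat_lit 1187745669) (nat_lit 380) (nat_lit 8361634692) (nat_lit 88) (nat_lit 5) (nat_lit 92) (nat_lit 5) (nat_lit 93) (nat_lit 5) (nat_lit 364) (nat_lit 297) (nat_lit 239)) (XT.lf (nat_lit 0) (nat_lit 7927138134) (nat_lit 380) (nat_lit 1947932895) (nat_lit 76) (nat_lit 3126891369) (nat_lit 88) (nat_lit 5) (nat_lit 93) (nat_lit 5) (nat_lit 89) (nat_lit 5) (nat_lit 365) (nat_lit 297) (nat_lit 238)))))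 (XT.nd (nat_lit 234) (nat_lit 532) (nat_lit 0) (XT.nd (nat_lit 78) (nat_lit 304) (nat_lit 0) (XT.lf (nat_lit 0) (nat_lit 5925696229) (nat_lit 228) (nat_lit 5658719151) (nat_lit 304) (nat_lit 1657680165) (nat_lit 85) (nat_lit 5) (nat_lit 88) (nat_lit 5) (nat_lit 89) (nat_lit 5) (nat_lit 366) (nat_lit 297) (nat_lit 237)) (XT.nd (nat_lit 78) (nat_lit 0) (nat_lit 0) (XT.lf (nat_lit 0) (nat_lit 518739999) (nat_lit 228) (nat_lit 1294005468) (nat_lit 304) (nat_lit 11676549586) (nat_lit 81) (nat_lit 5) (nat_lit 84) (nat_lit 5) (nat_lit 85) (nat_lit 5) (nat_lit 367) (nat_lit 297) (nat_lit 236)) (XT.lf (nat_lit 0) (nat_lit 5421921546) (nat_lit 304) (nat_lit 5110942393) (nat_lit 76) (nat_lit 3208527555) (nat_lit 81) (nat_lit 5) (nat_lit 85) (nat_lit 5) (nat_lit 82) (nat_lit 5) (nat_lit 368) (nat_lit 297) (nat_lit 235)))) (XT.nd (nat_lit 156) (nat_lit 304) (nat_lit 0) (XT.nd (nat_lit 78) (nat_lit 0) (nat_lit 0) (XT.lf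 (nat_lit 0) (nat_lit 2971138493) (nat_lit 228) (nat_lit 6173263455) (nat_lit 304) (nat_lit 4856509653) (nat_lit 78) (nat_lit 5) (nat_lit 81) (nat_lit 5) (nat_lit 82) (nat_lit 5) (nat_lit 369) (nat_lit 297) (nat_lit 234)) (XT.lf (nat_lit 0) (nat_lit 11342538674) (nat_lit 228) (nat_lit 1651787143) (nat_lit 304) (nat_lit 1273429727) (nat_lit 78) (nat_lit 5) (nat_lit 81) (nat_lit 5) (nat_lit 82) (nat_lit 5) (nat_lit 370) (nat_lit 297) (nat_lit 233))) (XT.nd (nat_lit 78) (nat_lit 0) (nat_lit 0) (XT.lf (nat_lit 0) (nat_lit 2416626502) (nat_lit 304) (nat_lit 9122202643) (nat_lit 76) (nat_lit 3001689729) (nat_lit 74) (nat_lit 5) (nat_lit 78) (nat_lit 5) (nat_lit 75) (nat_lit 5) (nat_lit 371) (nat_lit 297) (nat_lit 232)) (XT.lf (nat_lit 0) (nat_lit 6203095954) (nat_lit 304) (nat_lit 834934092) (nat_lit 76) (nat_lit 7782727970) (nat_lit 74) (nat_lit 5) (nat_lit 78) (nat_lit 5) (nat_lit 75) (nat_lit 5) (nat_lit 372)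 (nat_lit 297) (nat_lit 231))))))) (XT.nd (nat_lit 1014) (nat_lit 1064) (nat_lit 0) (XT.nd (nat_lit 468) (nat_lit 760) (nat_lit 0) (XT.nd (nat_lit 234) (nat_lit 380) (nat_lit 0) (XT.nd (nat_lit 78) (nat_lit 304) (nat_lit 0) (XT.lf (nat_lit 0) (nat_lit 7797557994) (nat_lit 152) (nat_lit 2346692766) (nat_lit 228) (nat_lit 4963930878) (nat_lit 72) (nat_lit 5) (nat_lit 74) (nat_lit 5) (nat_lit 75) (nat_lit 5) (nat_lit 373) (nat_lit 297) (nat_lit 230)) (XT.nd (nat_lit 78) (nat_lit 76) (nat_lit 0) (XT.lf (nat_lit 0) (nat_lit 1246705740) (nat_lit 228) (nat_lit 12967710546) (nat_lit 304) (nat_lit 1189498152) (nat_lit 69) (nat_lit 5) (nat_lit 72) (nat_lit 5) (nat_lit 73) (nat_lit 5) (nat_lit 374) (nat_lit 297) (nat_lit 229)) (XT.lf (nat_lit 0) (nat_lit 2709801458) (nat_lit 304) (nat_lit 5601532247) (nat_lit 76) (nat_lit 7394488067) (nat_lit 68) (nat_lit 5) (nat_lit 72) (nat_lit 5) (nat_lit 69) (nat_lit 5) (nat_lit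 375) (nat_lit 297) (nat_lit 228)))) (XT.nd (nat_lit 78) (nat_lit 228) (nat_lit 0) (XT.lf (nat_lit 0) (nat_lit 3207311446) (nat_lit 152) (nat_lit 3493163750) (nat_lit 228) (nat_lit 9316017650) (nat_lit 66) (nat_lit 5) (nat_lit 68) (nat_lit 5) (nat_lit 69) (nat_lit 5) (nat_lit 376) (nat_lit 297) (nat_lit 227)) (XT.nd (nat_lit 78) (nat_lit 228) (nat_lit 0) (XT.lf (nat_lit 0) (nat_lit 10849814172) (nat_lit 228) (nat_lit 4008769747) (nat_lit 76) (nat_lit 1476740446) (nat_lit 66) (nat_lit 5) (nat_lit 69) (nat_lit 5) (nat_lit 67) (nat_lit 5) (nat_lit 377) (nat_lit 297) (nat_lit 226)) (XT.lf (nat_lit 0) (nat_lit 5066989588) (nat_lit 228) (nat_lit 10108571718) (nat_lit 304) (nat_lit 1486610098) (nat_lit 63) (nat_lit 5) (nat_lit 66) (nat_lit 5) (nat_lit 67) (nat_lit 5) (nat_lit 378) (nat_lit 297) (nat_lit 225))))) (XT.nd (nat_lit 234) (nat_lit 532) (nat_lit 0) (XT.nd (nat_lit 78) (nat_lit 152) (nat_lit 0) (XT.lf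 (nat_lit 0) (nat_lit 2590503911) (nat_lit 304) (nat_lit 2579180745) (nat_lit 76) (nat_lit 11828099685) (nat_lit 62) (nat_lit 5) (nat_lit 66) (nat_lit 5) (nat_lit 63) (nat_lit 5) (nat_lit 379) (nat_lit 297) (nat_lit 224)) (XT.nd (nat_lit 78) (nat_lit 0) (nat_lit 0) (XT.lf (nat_lit 0) (nat_lit 6773231980) (nat_lit 152) (nat_lit 21569399) (nat_lit 228) (nat_lit 10547187934) (nat_lit 60) (nat_lit 5) (nat_lit 62) (nat_lit 5) (nat_lit 63) (nat_lit 5) (nat_lit 380) (nat_lit 297) (nat_lit 223)) (XT.lf (nat_lit 0) (nat_lit 11172126913) (nat_lit 228) (nat_lit 1339391910) (nat_lit 76) (nat_lit 5183602112) (nat_lit 60) (nat_lit 5) (nat_lit 63) (nat_lit 5) (nat_lit 61) (nat_lit 5) (nat_lit 381) (nat_lit 297) (nat_lit 222)))) (XT.nd (nat_lit 156) (nat_lit 304) (nat_lit 0) (XT.nd (nat_lit 78) (nat_lit 76) (nat_lit 0) (XT.lf (nat_lit 0) (nat_lit 8277961519) (nat_lit 152) (nat_lit 7453308249) (nat_lit 228) (nat_lit 2326069065)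 (nat_lit 58) (nat_lit 5) (nat_lit 60) (nat_lit 5) (nat_lit 61) (nat_lit 5) (nat_lit 382) (nat_lit 297) (nat_lit 221)) (XT.lf (nat_lit 0) (nat_lit 1942251855) (nat_lit 228) (nat_lit 288361846) (nat_lit 76) (nat_lit 16199707016) (nat_lit 57) (nat_lit 5) (nat_lit 60) (nat_lit 5) (nat_lit 58) (nat_lit 5) (nat_lit 383) (nat_lit 297) (nat_lit 220))) (XT.nd (nat_lit 78) (nat_lit 152) (nat_lit 0) (XT.lf (nat_lit 0) (nat_lit 6387036324) (nat_lit 228) (nat_lit 9240204036) (nat_lit 76) (nat_lit 3183712456) (nat_lit 55) (nat_lit 5) (nat_lit 58) (nat_lit 5) (nat_lit 56) (nat_lit 5) (nat_lit 384) (nat_lit 297) (nat_lit 219)) (XT.lf (nat_lit 0) (nat_lit 466603896) (nat_lit 152) (nat_lit 10499880731) (nat_lit 228) (nat_lit 8236486088) (nat_lit 53) (nat_lit 5) (nat_lit 55) (nat_lit 5) (nat_lit 56) (nat_lit 5) (nat_lit 385) (nat_lit 297) (nat_lit 218)))))) (XT.nd (nat_lit 546) (nat_lit 456) (nat_lit 0) (XT.nd (nat_lit 234)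 (nat_lit 380) (nat_lit 0) (XT.nd (nat_lit 78) (nat_lit 228) (nat_lit 0) (XT.lf (nat_lit 0) (nat_lit 10605497276) (nat_lit 152) (nat_lit 5143290621) (nat_lit 228) (nat_lit 3856003368) (nat_lit 53) (nat_lit 5) (nat_lit 55) (nat_lit 5) (nat_lit 56) (nat_lit 5) (nat_lit 386) (nat_lit 297) (nat_lit 217)) (XT.nd (nat_lit 78) (nat_lit 0) (nat_lit 0) (XT.lf (nat_lit 0) (nat_lit 628920030) (nat_lit 228) (nat_lit 19027232245) (nat_lit 76) (nat_lit 362756157) (nat_lit 50) (nat_lit 5) (nat_lit 53) (nat_lit 5) (nat_lit 51) (nat_lit 5) (nat_lit 387) (nat_lit 297) (nat_lit 216)) (XT.lf (nat_lit 0) (nat_lit 5286435519) (nat_lit 228) (nat_lit 9113694385) (nat_lit 76) (nat_lit 6040713204) (nat_lit 50) (nat_lit 5) (nat_lit 53) (nat_lit 5) (nat_lit 51) (nat_lit 5) (nat_lit 388) (nat_lit 297) (nat_lit 215)))) (XT.nd (nat_lit 156) (nat_lit 228) (nat_lit 0) (XT.nd (nat_lit 78) (nat_lit 0) (nat_lit 0) (XT.lf (nat_lit 0) (nat_lit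 1071733845) (nat_lit 152) (nat_lit 8995883225) (nat_lit 228) (nat_lit 10808306097) (nat_lit 48) (nat_lit 5) (nat_lit 50) (nat_lit 5) (nat_lit 51) (nat_lit 5) (nat_lit 389) (nat_lit 297) (nat_lit 214)) (XT.lf (nat_lit 0) (nat_lit 11703572761) (nat_lit 152) (nat_lit 3354656070) (nat_lit 228) (nat_lit 6263852352) (nat_lit 48) (nat_lit 5) (nat_lit 50) (nat_lit 5) (nat_lit 51) (nat_lit 5) (nat_lit 390) (nat_lit 297) (nat_lit 213))) (XT.nd (nat_lit 78) (nat_lit 76) (nat_lit 0) (XT.lf (nat_lit 0) (nat_lit 819923432) (nat_lit 152) (nat_lit 19384660410) (nat_lit 228) (nat_lit 1576864593) (nat_lit 46) (nat_lit 5) (nat_lit 48) (nat_lit 5) (nat_lit 49) (nat_lit 4) (nat_lit 391) (nat_lit 297) (nat_lit 212)) (XT.lf (nat_lit 0) (nat_lit 3293197297) (nat_lit 228) (nat_lit 10593708454) (nat_lit 76) (nat_lit 8363581512) (nat_lit 45) (nat_lit 5) (nat_lit 48) (nat_lit 5) (nat_lit 46) (nat_lit 5) (nat_lit 392) (nat_lit 297)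 (nat_lit 211))))) (XT.nd (nat_lit 234) (nat_lit 304) (nat_lit 0) (XT.nd (nat_lit 78) (nat_lit 0) (nat_lit 0) (XT.lf (nat_lit 0) (nat_lit 26078058) (nat_lit 152) (nat_lit 8227174081) (nat_lit 228) (nat_lit 14480614002) (nat_lit 43) (nat_lit 5) (nat_lit 45) (nat_lit 5) (nat_lit 46) (nat_lit 5) (nat_lit 393) (nat_lit 297) (nat_lit 210)) (XT.nd (nat_lit 78) (nat_lit 0) (nat_lit 0) (XT.lf (nat_lit 0) (nat_lit 11138088905) (nat_lit 152) (nat_lit 2306629235) (nat_lit 228) (nat_lit 9784554619) (nat_lit 43) (nat_lit 5) (nat_lit 45) (nat_lit 5) (nat_lit 46) (nat_lit 5) (nat_lit 394) (nat_lit 297) (nat_lit 209)) (XT.lf (nat_lit 0) (nat_lit 18804539321) (nat_lit 228) (nat_lit 1235325428) (nat_lit 76) (nat_lit 3699303010) (nat_lit 43) (nat_lit 5) (nat_lit 46) (nat_lit 5) (nat_lit 44) (nat_lit 4) (nat_lit 395) (nat_lit 297) (nat_lit 208)))) (XT.nd (nat_lit 156) (nat_lit 152) (nat_lit 0) (XT.nd (nat_lit 78) (nat_lit 0)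 (nat_lit 0) (XT.lf (nat_lit 0) (nat_lit 157138504) (nat_lit 152) (nat_lit 14184519701) (nat_lit 76) (nat_lit 9919762255) (nat_lit 41) (nat_lit 5) (nat_lit 43) (nat_lit 5) (nat_lit 42) (nat_lit 5) (nat_lit 396) (nat_lit 297) (nat_lit 207)) (XT.lf (nat_lit 0) (nat_lit 5291982066) (nat_lit 152) (nat_lit 3135738287) (nat_lit 76) (nat_lit 16370473652) (nat_lit 41) (nat_lit 5) (nat_lit 43) (nat_lit 5) (nat_lit 42) (nat_lit 5) (nat_lit 397) (nat_lit 297) (nat_lit 206))) (XT.nd (nat_lit 78) (nat_lit 0) (nat_lit 0) (XT.lf (nat_lit 0) (nat_lit 8367389075) (nat_lit 152) (nat_lit 2271493821) (nat_lit 228) (nat_lit 14710451519) (nat_lit 39) (nat_lit 5) (nat_lit 41) (nat_lit 5) (nat_lit 42) (nat_lit 5) (nat_lit 398) (nat_lit 297) (nat_lit 205)) (XT.lf (nat_lit 0) (nat_lit 16194963287) (nat_lit 228) (nat_lit 5716096795) (nat_lit 76) (nat_lit 4004489679) (nat_lit 39) (nat_lit 5) (nat_lit 42) (nat_lit 5) (nat_lit 40) (nat_lit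 4) (nat_lit 399) (nat_lit 297) (nat_lit 204))))))))
noncomputable def xc98 : XT := (XT.nd (nat_lit 2028) (nat_lit 608) (nat_lit 0) (XT.nd (nat_lit 1014) (nat_lit 456) (nat_lit 0) (XT.nd (nat_lit 468) (nat_lit 532) (nat_lit 0) (XT.nd (nat_lit 234) (nat_lit 76) (nat_lit 0) (XT.nd (nat_lit 78) (nat_lit 228) (nat_lit 0) (XT.lf (nat_lit 0) (nat_lit 5941867652) (nat_lit 76) (nat_lit 16033792006) (nat_lit 152) (nat_lit 4521357690) (nat_lit 38) (nat_lit 5) (nat_lit 39) (nat_lit 5) (nat_lit 40) (nat_lit 4) (nat_lit 400) (nat_lit 297) (nat_lit 203)) (XT.nd (nat_lit 78) (nat_lit 152) (nat_lit 0) (XT.lf (nat_lit 0) (nat_lit 854237497) (nat_lit 152) (nat_lit 9075404247) (nat_lit 76) (nat_lit 17164950495) (nat_lit 37) (nat_lit 5) (nat_lit 39) (nat_lit 5) (nat_lit 38) (nat_lit 5) (nat_lit 401) (nat_lit 297) (nat_lit 202)) (XT.lf (nat_lit 0) (nat_lit 2718802455) (nat_lit 152) (nat_lit 3586556170) (nat_lit 228) (nat_lit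 21403242253) (nat_lit 35) (nat_lit 5) (nat_lit 37) (nat_lit 5) (nat_lit 38) (nat_lit 5) (nat_lit 402) (nat_lit 297) (nat_lit 201)))) (XT.nd (nat_lit 78) (nat_lit 76) (nat_lit 0) (XT.lf (nat_lit 0) (nat_lit 12019972944) (nat_lit 228) (nat_lit 13352948062) (nat_lit 76) (nat_lit 2965113348) (nat_lit 35) (nat_lit 5) (nat_lit 38) (nat_lit 5) (nat_lit 36) (nat_lit 4) (nat_lit 403) (nat_lit 297) (nat_lit 200)) (XT.nd (nat_lit 78) (nat_lit 76) (nat_lit 0) (XT.lf (nat_lit 0) (nat_lit 17921227167) (nat_lit 228) (nat_lit 1439692771) (nat_lit 76) (nat_lit 9624978118) (nat_lit 35) (nat_lit 5) (nat_lit 38) (nat_lit 5) (nat_lit 36) (nat_lit 4) (nat_lit 404) (nat_lit 297) (nat_lit 199)) (XT.lf (nat_lit 0) (nat_lit 11009692007) (nat_lit 76) (nat_lit 13075941446) (nat_lit 152) (nat_lit 5564983954) (nat_lit 34) (nat_lit 5) (nat_lit 35) (nat_lit 5) (nat_lit 36) (nat_lit 4) (nat_lit 405) (nat_lit 297) (nat_lit 198))))) (XT.nd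 (nat_lit 234) (nat_lit 304) (nat_lit 0) (XT.nd (nat_lit 78) (nat_lit 152) (nat_lit 0) (XT.lf (nat_lit 0) (nat_lit 92747423) (nat_lit 152) (nat_lit 6510021477) (nat_lit 76) (nat_lit 23732633701) (nat_lit 33) (nat_lit 5) (nat_lit 35) (nat_lit 5) (nat_lit 34) (nat_lit 5) (nat_lit 406) (nat_lit 297) (nat_lit 197)) (XT.nd (nat_lit 78) (nat_lit 0) (nat_lit 0) (XT.lf (nat_lit 0) (nat_lit 5848625931) (nat_lit 228) (nat_lit 25027575555) (nat_lit 76) (nat_lit 161671828) (nat_lit 31) (nat_lit 5) (nat_lit 34) (nat_lit 5) (nat_lit 32) (nat_lit 4) (nat_lit 407) (nat_lit 297) (nat_lit 196)) (XT.lf (nat_lit 0) (nat_lit 11889904607) (nat_lit 228) (nat_lit 12820962854) (nat_lit 76) (nat_lit 7047171789) (nat_lit 31) (nat_lit 5) (nat_lit 34) (nat_lit 5) (nat_lit 32) (nat_lit 4) (nat_lit 408) (nat_lit 297) (nat_lit 195)))) (XT.nd (nat_lit 156) (nat_lit 228) (nat_lit 0) (XT.nd (nat_lit 78) (nat_lit 76) (nat_lit 0) (XT.lf (nat_lit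 0) (nat_lit 18093936726) (nat_lit 228) (nat_lit 282295138) (nat_lit 76) (nat_lit 14124135582) (nat_lit 31) (nat_lit 5) (nat_lit 34) (nat_lit 5) (nat_lit 32) (nat_lit 4) (nat_lit 409) (nat_lit 297) (nat_lit 194)) (XT.lf (nat_lit 0) (nat_lit 12850136150) (nat_lit 76) (nat_lit 11739530508) (nat_lit 152) (nat_lit 8672134182) (nat_lit 30) (nat_lit 5) (nat_lit 31) (nat_lit 5) (nat_lit 32) (nat_lit 4) (nat_lit 410) (nat_lit 297) (nat_lit 193))) (XT.nd (nat_lit 78) (nat_lit 228) (nat_lit 0) (XT.lf (nat_lit 0) (nat_lit 26349503242) (nat_lit 76) (nat_lit 4915876543) (nat_lit 152) (nat_lit 2781146690) (nat_lit 30) (nat_lit 5) (nat_lit 31) (nat_lit 5) (nat_lit 32) (nat_lit 4) (nat_lit 411) (nat_lit 297) (nat_lit 192)) (XT.lf (nat_lit 0) (nat_lit 3278343063) (nat_lit 228) (nat_lit 29432365608) (nat_lit 76) (nat_lit 2141462698) (nat_lit 27) (nat_lit 5) (nat_lit 30) (nat_lit 5) (nat_lit 28) (nat_lit 4) (nat_lit 412) (nat_lit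 297) (nat_lit 191)))))) (XT.nd (nat_lit 468) (nat_lit 228) (nat_lit 0) (XT.nd (nat_lit 234) (nat_lit 152) (nat_lit 0) (XT.nd (nat_lit 78) (nat_lit 76) (nat_lit 0) (XT.lf (nat_lit 0) (nat_lit 9573548694) (nat_lit 228) (nat_lit 16700988049) (nat_lit 76) (nat_lit 9403330259) (nat_lit 27) (nat_lit 5) (nat_lit 30) (nat_lit 5) (nat_lit 28) (nat_lit 4) (nat_lit 413) (nat_lit 297) (nat_lit 190)) (XT.nd (nat_lit 78) (nat_lit 76) (nat_lit 0) (XT.lf (nat_lit 0) (nat_lit 16040778493) (nat_lit 228) (nat_lit 3619006578) (nat_lit 76) (nat_lit 16869055685) (nat_lit 27) (nat_lit 5) (nat_lit 30) (nat_lit 5) (nat_lit 28) (nat_lit 4) (nat_lit 414) (nat_lit 297) (nat_lit 189)) (XT.lf (nat_lit 0) (nat_lit 10020546620) (nat_lit 76) (nat_lit 12761460442) (nat_lit 152) (nat_lit 14620939427) (nat_lit 26) (nat_lit 5) (nat_lit 27) (nat_lit 5) (nat_lit 28) (nat_lit 4) (nat_lit 415) (nat_lit 297) (nat_lit 188)))) (XT.nd (nat_lit 78)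 (nat_lit 152) (nat_lit 0) (XT.lf (nat_lit 0) (nat_lit 24113346109) (nat_lit 76) (nat_lit 5632515882) (nat_lit 152) (nat_lit 8556803878) (nat_lit 26) (nat_lit 5) (nat_lit 27) (nat_lit 5) (nat_lit 28) (nat_lit 4) (nat_lit 416) (nat_lit 297) (nat_lit 187)) (XT.nd (nat_lit 78) (nat_lit 152) (nat_lit 0) (XT.lf (nat_lit 0) (nat_lit 36919257779) (nat_lit 152) (nat_lit 646478850) (nat_lit 0) (nat_lit 1663623542) (nat_lit 26) (nat_lit 5) (nat_lit 28) (nat_lit 4) (nat_lit 26) (nat_lit 4) (nat_lit 417) (nat_lit 297) (nat_lit 186)) (XT.lf (nat_lit 0) (nat_lit 4215209862) (nat_lit 152) (nat_lit 26738865229) (nat_lit 76) (nat_lit 9223442399) (nat_lit 24) (nat_lit 5) (nat_lit 26) (nat_lit 5) (nat_lit 25) (nat_lit 4) (nat_lit 418) (nat_lit 297) (nat_lit 185))))) (XT.nd (nat_lit 234) (nat_lit 152) (nat_lit 0) (XT.nd (nat_lit 78) (nat_lit 76) (nat_lit 0) (XT.lf (nat_lit 0) (nat_lit 10881110467) (nat_lit 152) (nat_lit 13246025849)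 (nat_lit 76) (nat_lit 17026561170) (nat_lit 24) (nat_lit 5) (nat_lit 26) (nat_lit 5) (nat_lit 25) (nat_lit 4) (nat_lit 419) (nat_lit 297) (nat_lit 184)) (XT.nd (nat_lit 78) (nat_lit 0) (nat_lit 0) (XT.lf (nat_lit 0) (nat_lit 636093995) (nat_lit 76) (nat_lit 17102122163) (nat_lit 152) (nat_lit 24421211746) (nat_lit 23) (nat_lit 5) (nat_lit 24) (nat_lit 5) (nat_lit 25) (nat_lit 4) (nat_lit 420) (nat_lit 297) (nat_lit 183)) (XT.lf (nat_lit 0) (nat_lit 15178564476) (nat_lit 76) (nat_lit 9741510834) (nat_lit 152) (nat_lit 18271685522) (nat_lit 23) (nat_lit 5) (nat_lit 24) (nat_lit 5) (nat_lit 25) (nat_lit 4) (nat_lit 421) (nat_lit 297) (nat_lit 182)))) (XT.nd (nat_lit 156) (nat_lit 76) (nat_lit 0) (XT.nd (nat_lit 78) (nat_lit 76) (nat_lit 0) (XT.lf (nat_lit 0) (nat_lit 30130470719) (nat_lit 76) (nat_lit 2172629619) (nat_lit 152) (nat_lit 11952393865) (nat_lit 23) (nat_lit 5) (nat_lit 24) (nat_lit 5) (nat_lit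 25) (nat_lit 4) (nat_lit 422) (nat_lit 297) (nat_lit 181)) (XT.lf (nat_lit 0) (nat_lit 101360246) (nat_lit 76) (nat_lit 39847294179) (nat_lit 76) (nat_lit 5401255704) (nat_lit 22) (nat_lit 4) (nat_lit 23) (nat_lit 5) (nat_lit 23) (nat_lit 4) (nat_lit 423) (nat_lit 297) (nat_lit 180))) (XT.nd (nat_lit 78) (nat_lit 0) (nat_lit 0) (XT.lf (nat_lit 0) (nat_lit 1471728842) (nat_lit 152) (nat_lit 31491039596) (nat_lit 76) (nat_lit 13509455853) (nat_lit 21) (nat_lit 5) (nat_lit 23) (nat_lit 5) (nat_lit 22) (nat_lit 4) (nat_lit 424) (nat_lit 297) (nat_lit 179)) (XT.lf (nat_lit 0) (nat_lit 8428777232) (nat_lit 152) (nat_lit 17399892211) (nat_lit 76) (nat_lit 21798342636) (nat_lit 21) (nat_lit 5) (nat_lit 23) (nat_lit 5) (nat_lit 22) (nat_lit 4) (nat_lit 425) (nat_lit 297) (nat_lit 178))))))) (XT.nd (nat_lit 1014) (nat_lit 228) (nat_lit 0) (XT.nd (nat_lit 468) (nat_lit 152) (nat_lit 0) (XT.nd (nat_lit 234) (nat_lit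 152) (nat_lit 0) (XT.nd (nat_lit 78) (nat_lit 76) (nat_lit 0) (XT.lf (nat_lit 0) (nat_lit 15581366393) (nat_lit 152) (nat_lit 2910874901) (nat_lit 76) (nat_lit 30324598843) (nat_lit 21) (nat_lit 5) (nat_lit 23) (nat_lit 5) (nat_lit 22) (nat_lit 4) (nat_lit 426) (nat_lit 297) (nat_lit 177)) (XT.nd (nat_lit 78) (nat_lit 0) (nat_lit 0) (XT.lf (nat_lit 0) (nat_lit 12227270732) (nat_lit 76) (nat_lit 10826011434) (nat_lit 152) (nat_lit 26985939873) (nat_lit 20) (nat_lit 5) (nat_lit 21) (nat_lit 5) (nat_lit 22) (nat_lit 4) (nat_lit 427) (nat_lit 297) (nat_lit 176)) (XT.lf (nat_lit 0) (nat_lit 27855327199) (nat_lit 76) (nat_lit 2910777936) (nat_lit 152) (nat_lit 20531669199) (nat_lit 20) (nat_lit 5) (nat_lit 21) (nat_lit 5) (nat_lit 22) (nat_lit 4) (nat_lit 428) (nat_lit 297) (nat_lit 175)))) (XT.nd (nat_lit 78) (nat_lit 152) (nat_lit 0) (XT.lf (nat_lit 0) (nat_lit 38748320063) (nat_lit 152) (nat_lit 8715718296)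 (nat_lit 0) (nat_lit 5128906006) (nat_lit 20) (nat_lit 5) (nat_lit 22) (nat_lit 4) (nat_lit 20) (nat_lit 4) (nat_lit 429) (nat_lit 297) (nat_lit 174)) (XT.nd (nat_lit 78) (nat_lit 76) (nat_lit 0) (XT.lf (nat_lit 0) (nat_lit 6528601007) (nat_lit 76) (nat_lit 40520956338) (nat_lit 76) (nat_lit 6875026820) (nat_lit 19) (nat_lit 4) (nat_lit 20) (nat_lit 5) (nat_lit 20) (nat_lit 4) (nat_lit 430) (nat_lit 297) (nat_lit 173)) (XT.lf (nat_lit 0) (nat_lit 374609826) (nat_lit 152) (nat_lit 32911214735) (nat_lit 76) (nat_lit 22007955996) (nat_lit 18) (nat_lit 5) (nat_lit 20) (nat_lit 5) (nat_lit 19) (nat_lit 4) (nat_lit 431) (nat_lit 297) (nat_lit 172))))) (XT.nd (nat_lit 234) (nat_lit 76) (nat_lit 0) (XT.nd (nat_lit 78) (nat_lit 76) (nat_lit 0) (XT.lf (nat_lit 0) (nat_lit 7691897685) (nat_lit 152) (nat_lit 18082113747) (nat_lit 76) (nat_lit 30928350254) (nat_lit 18) (nat_lit 5) (nat_lit 20) (nat_lit 5) (nat_lit 19)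 (nat_lit 4) (nat_lit 432) (nat_lit 297) (nat_lit 171)) (XT.nd (nat_lit 78) (nat_lit 76) (nat_lit 0) (XT.lf (nat_lit 0) (nat_lit 15217387039) (nat_lit 152) (nat_lit 2829635761) (nat_lit 76) (nat_lit 40106518158) (nat_lit 18) (nat_lit 5) (nat_lit 20) (nat_lit 5) (nat_lit 19) (nat_lit 4) (nat_lit 433) (nat_lit 297) (nat_lit 170)) (XT.lf (nat_lit 0) (nat_lit 13115476821) (nat_lit 76) (nat_lit 9968250723) (nat_lit 152) (nat_lit 36561076631) (nat_lit 17) (nat_lit 5) (nat_lit 18) (nat_lit 5) (nat_lit 19) (nat_lit 4) (nat_lit 434) (nat_lit 297) (nat_lit 169)))) (XT.nd (nat_lit 156) (nat_lit 76) (nat_lit 0) (XT.nd (nat_lit 78) (nat_lit 0) (nat_lit 0) (XT.lf (nat_lit 0) (nat_lit 29576282214) (nat_lit 76) (nat_lit 1627483686) (nat_lit 152) (nat_lit 29976509287) (nat_lit 17) (nat_lit 5) (nat_lit 18) (nat_lit 5) (nat_lit 19) (nat_lit 4) (nat_lit 435) (nat_lit 297) (nat_lit 168)) (XT.lf (nat_lit 0) (nat_lit 39623701788)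 (nat_lit 152) (nat_lit 16318125601) (nat_lit 0) (nat_lit 6818295142) (nat_lit 17) (nat_lit 5) (nat_lit 19) (nat_lit 4) (nat_lit 17) (nat_lit 4) (nat_lit 436) (nat_lit 297) (nat_lit 167))) (XT.nd (nat_lit 78) (nat_lit 76) (nat_lit 0) (XT.lf (nat_lit 0) (nat_lit 48302018287) (nat_lit 152) (nat_lit 609494505) (nat_lit 0) (nat_lit 15475680091) (nat_lit 17) (nat_lit 5) (nat_lit 19) (nat_lit 4) (nat_lit 17) (nat_lit 4) (nat_lit 437) (nat_lit 297) (nat_lit 166)) (XT.lf (nat_lit 0) (nat_lit 15860771449) (nat_lit 76) (nat_lit 41522346010) (nat_lit 76) (nat_lit 8675685921) (nat_lit 16) (nat_lit 4) (nat_lit 17) (nat_lit 5) (nat_lit 17) (nat_lit 4) (nat_lit 438) (nat_lit 297) (nat_lit 165)))))) (XT.nd (nat_lit 546) (nat_lit 76) (nat_lit 0) (XT.nd (nat_lit 234) (nat_lit 76) (nat_lit 0) (XT.nd (nat_lit 78) (nat_lit 76) (nat_lit 0) (XT.lf (nat_lit 0) (nat_lit 32818702068) (nat_lit 76) (nat_lit 33914182086) (nat_lit 76)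 (nat_lit 1047792004) (nat_lit 16) (nat_lit 4) (nat_lit 17) (nat_lit 5) (nat_lit 17) (nat_lit 4) (nat_lit 439) (nat_lit 297) (nat_lit 164)) (XT.nd (nat_lit 78) (nat_lit 0) (nat_lit 0) (XT.lf (nat_lit 0) (nat_lit 6666344283) (nat_lit 152) (nat_lit 19352866519) (nat_lit 76) (nat_lit 43533323536) (nat_lit 15) (nat_lit 5) (nat_lit 17) (nat_lit 5) (nat_lit 16) (nat_lit 4) (nat_lit 440) (nat_lit 297) (nat_lit 163)) (XT.lf (nat_lit 0) (nat_lit 14581400876) (nat_lit 152) (nat_lit 3303899046) (nat_lit 76) (nat_lit 53492221358) (nat_lit 15) (nat_lit 5) (nat_lit 17) (nat_lit 5) (nat_lit 16) (nat_lit 4) (nat_lit 441) (nat_lit 297) (nat_lit 162)))) (XT.nd (nat_lit 156) (nat_lit 0) (nat_lit 0) (XT.nd (nat_lit 78) (nat_lit 0) (nat_lit 0) (XT.lf (nat_lit 0) (nat_lit 13471909188) (nat_lit 76) (nat_lit 9382331084) (nat_lit 152) (nat_lit 50399408516) (nat_lit 14) (nat_lit 5) (nat_lit 15) (nat_lit 5) (nat_lit 16) (nat_lit 4)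 (nat_lit 442) (nat_lit 297) (nat_lit 161)) (XT.lf (nat_lit 0) (nat_lit 30801376328) (nat_lit 76) (nat_lit 598182654) (nat_lit 152) (nat_lit 43785773176) (nat_lit 14) (nat_lit 5) (nat_lit 15) (nat_lit 5) (nat_lit 16) (nat_lit 4) (nat_lit 443) (nat_lit 297) (nat_lit 160))) (XT.nd (nat_lit 78) (nat_lit 0) (nat_lit 0) (XT.lf (nat_lit 0) (nat_lit 40273577084) (nat_lit 152) (nat_lit 28622484908) (nat_lit 0) (nat_lit 8276734683) (nat_lit 14) (nat_lit 5) (nat_lit 16) (nat_lit 4) (nat_lit 14) (nat_lit 4) (nat_lit 444) (nat_lit 297) (nat_lit 159)) (XT.lf (nat_lit 0) (nat_lit 49411115183) (nat_lit 152) (nat_lit 12410621283) (nat_lit 0) (nat_lit 17398230492) (nat_lit 14) (nat_lit 5) (nat_lit 16) (nat_lit 4) (nat_lit 14) (nat_lit 4) (nat_lit 445) (nat_lit 297) (nat_lit 158))))) (XT.nd (nat_lit 35958) (nat_lit 0) (nat_lit 25840) (XT.nd (nat_lit 35802) (nat_lit 0) (nat_lit 26524) (XT.lf (nat_lit 0) (nat_lit 4356563084)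 (nat_lit 76) (nat_lit 54499722304) (nat_lit 76) (nat_lit 22471262574) (nat_lit 13) (nat_lit 4) (nat_lit 14) (nat_lit 5) (nat_lit 14) (nat_lit 4) (nat_lit 446) (nat_lit 297) (nat_lit 157)) (XT.nd (nat_lit 78) (nat_lit 0) (nat_lit 0) (XT.lf (nat_lit 0) (nat_lit 5951837) (nat_lit 228) (nat_lit 3218002987) (nat_lit 0) (nat_lit 5951837) (nat_lit 362) (nat_lit 5) (nat_lit 365) (nat_lit 4) (nat_lit 362) (nat_lit 4) (nat_lit 304) (nat_lit 298) (nat_lit 298)) (XT.lf (nat_lit 0) (nat_lit 3087393513) (nat_lit 228) (nat_lit 3042198051) (nat_lit 0) (nat_lit 339857087) (nat_lit 362) (nat_lit 5) (nat_lit 365) (nat_lit 4) (nat_lit 362) (nat_lit 4) (nat_lit 305) (nat_lit 298) (nat_lit 297)))) (XT.nd (nat_lit 156) (nat_lit 380) (nat_lit 0) (XT.nd (nat_lit 78) (nat_lit 76) (nat_lit 0) (XT.lf (nat_lit 0) (nat_lit 391761896) (nat_lit 228) (nat_lit 5753052029) (nat_lit 228) (nat_lit 338004510) (nat_lit 359) (nat_lit 4) (nat_lit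 362) (nat_lit 5) (nat_lit 362) (nat_lit 4) (nat_lit 306) (nat_lit 298) (nat_lit 296)) (XT.lf (nat_lit 0) (nat_lit 2661136752) (nat_lit 304) (nat_lit 2602756506) (nat_lit 76) (nat_lit 1234466284) (nat_lit 358) (nat_lit 5) (nat_lit 362) (nat_lit 5) (nat_lit 359) (nat_lit 4) (nat_lit 307) (nat_lit 298) (nat_lit 295))) (XT.nd (nat_lit 78) (nat_lit 76) (nat_lit 0) (XT.lf (nat_lit 0) (nat_lit 936184820) (nat_lit 304) (nat_lit 4706886105) (nat_lit 380) (nat_lit 874331082) (nat_lit 354) (nat_lit 5) (nat_lit 358) (nat_lit 5) (nat_lit 359) (nat_lit 4) (nat_lit 308) (nat_lit 298) (nat_lit 294)) (XT.lf (nat_lit 0) (nat_lit 2053467552) (nat_lit 380) (nat_lit 1993290634) (nat_lit 76) (nat_lit 2492191107) (nat_lit 353) (nat_lit 5) (nat_lit 358) (nat_lit 5) (nat_lit 354) (nat_lit 5) (nat_lit 309) (nat_lit 298) (nat_lit 293))))))))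
noncomputable def xc99 : XT := (XT.nd (nat_lit 2106) (nat_lit 6612) (nat_lit 0) (XT.nd (nat_lit 1014) (nat_lit 7600) (nat_lit 0) (XT.nd (nat_lit 468) (nat_lit 3420) (nat_lit 0) (XT.nd (nat_lit 234) (nat_lit 1216) (nat_lit 0) (XT.nd (nat_lit 78) (nat_lit 532) (nat_lit 0) (XT.lf (nat_lit 0) (nat_lit 1657494117) (nat_lit 380) (nat_lit 3305079333) (nat_lit 456) (nat_lit 1601091826) (nat_lit 348) (nat_lit 5) (nat_lit 353) (nat_lit 5) (nat_lit 354) (nat_lit 5) (nat_lit 310) (nat_lit 298) (nat_lit 292)) (XT.nd (nat_lit 78) (nat_lit 456) (nat_lit 0) (XT.lf (nat_lit 0) (nat_lit 1259821378) (nat_lit 456) (nat_lit 1213187025) (nat_lit 76) (nat_lit 4118324516) (nat_lit 347) (nat_lit 5) (nat_lit 353) (nat_lit 5) (nat_lit 348) (nat_lit 5) (nat_lit 311) (nat_lit 298) (nat_lit 291)) (XT.lf (nat_lit 0) (nat_lit 2556698302) (nat_lit 456) (nat_lit 1541671796) (nat_lit 532) (nat_lit 2523369023) (nat_lit 341) (nat_lit 5) (nat_lit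 347) (nat_lit 5) (nat_lit 348) (nat_lit 5) (nat_lit 312) (nat_lit 298) (nat_lit 290)))) (XT.nd (nat_lit 78) (nat_lit 1140) (nat_lit 0) (XT.lf (nat_lit 0) (nat_lit 274812060) (nat_lit 532) (nat_lit 261145149) (nat_lit 76) (nat_lit 6119701826) (nat_lit 340) (nat_lit 5) (nat_lit 347) (nat_lit 5) (nat_lit 341) (nat_lit 5) (nat_lit 313) (nat_lit 298) (nat_lit 289)) (XT.nd (nat_lit 78) (nat_lit 608) (nat_lit 0) (XT.lf (nat_lit 0) (nat_lit 3050364972) (nat_lit 608) (nat_lit 3061958481) (nat_lit 76) (nat_lit 579294220) (nat_lit 333) (nat_lit 5) (nat_lit 341) (nat_lit 5) (nat_lit 334) (nat_lit 5) (nat_lit 314) (nat_lit 298) (nat_lit 288)) (XT.lf (nat_lit 0) (nat_lit 855481894) (nat_lit 608) (nat_lit 4975848464) (nat_lit 684) (nat_lit 899752519) (nat_lit 325) (nat_lit 5) (nat_lit 333) (nat_lit 5) (nat_lit 334) (nat_lit 5) (nat_lit 315) (nat_lit 298) (nat_lit 287))))) (XT.nd (nat_lit 234) (nat_lit 2584) (nat_lit 0)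 (XT.nd (nat_lit 78) (nat_lit 760) (nat_lit 0) (XT.lf (nat_lit 0) (nat_lit 1824703419) (nat_lit 684) (nat_lit 1907488951) (nat_lit 76) (nat_lit 3040924080) (nat_lit 324) (nat_lit 5) (nat_lit 333) (nat_lit 5) (nat_lit 325) (nat_lit 5) (nat_lit 316) (nat_lit 298) (nat_lit 286)) (XT.nd (nat_lit 78) (nat_lit 76) (nat_lit 0) (XT.lf (nat_lit 0) (nat_lit 2143560962) (nat_lit 684) (nat_lit 2399589920) (nat_lit 760) (nat_lit 2275166997) (nat_lit 315) (nat_lit 5) (nat_lit 324) (nat_lit 5) (nat_lit 325) (nat_lit 5) (nat_lit 317) (nat_lit 298) (nat_lit 285)) (XT.lf (nat_lit 0) (nat_lit 399150432) (nat_lit 760) (nat_lit 584046261) (nat_lit 76) (nat_lit 5883714046) (nat_lit 314) (nat_lit 5) (nat_lit 324) (nat_lit 5) (nat_lit 315) (nat_lit 5) (nat_lit 318) (nat_lit 298) (nat_lit 284)))) (XT.nd (nat_lit 156) (nat_lit 988) (nat_lit 0) (XT.nd (nat_lit 78) (nat_lit 836) (nat_lit 0) (XT.lf (nat_lit 0) (nat_lit 3061332444) (nat_lit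 836) (nat_lit 3314111667) (nat_lit 76) (nat_lit 542317774) (nat_lit 304) (nat_lit 5) (nat_lit 315) (nat_lit 5) (nat_lit 305) (nat_lit 5) (nat_lit 319) (nat_lit 298) (nat_lit 283)) (XT.lf (nat_lit 0) (nat_lit 896411774) (nat_lit 836) (nat_lit 4846670439) (nat_lit 912) (nat_lit 1228940239) (nat_lit 293) (nat_lit 5) (nat_lit 304) (nat_lit 5) (nat_lit 305) (nat_lit 5) (nat_lit 320) (nat_lit 298) (nat_lit 282))) (XT.nd (nat_lit 78) (nat_lit 912) (nat_lit 0) (XT.lf (nat_lit 0) (nat_lit 1398640906) (nat_lit 912) (nat_lit 1811575924) (nat_lit 76) (nat_lit 3818835731) (nat_lit 292) (nat_lit 5) (nat_lit 304) (nat_lit 5) (nat_lit 293) (nat_lit 5) (nat_lit 321) (nat_lit 298) (nat_lit 281)) (XT.lf (nat_lit 0) (nat_lit 2548700591) (nat_lit 912) (nat_lit 1474884753) (nat_lit 988) (nat_lit 3065614700) (nat_lit 280) (nat_lit 5) (nat_lit 292) (nat_lit 5) (nat_lit 293) (nat_lit 5) (nat_lit 322) (nat_lit 298) (nat_lit 280))))))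 (XT.nd (nat_lit 546) (nat_lit 2964) (nat_lit 0) (XT.nd (nat_lit 234) (nat_lit 2508) (nat_lit 0) (XT.nd (nat_lit 78) (nat_lit 2128) (nat_lit 0) (XT.lf (nat_lit 0) (nat_lit 6669306700) (nat_lit 988) (nat_lit 147993246) (nat_lit 76) (nat_lit 335657744) (nat_lit 280) (nat_lit 5) (nat_lit 293) (nat_lit 5) (nat_lit 281) (nat_lit 5) (nat_lit 323) (nat_lit 298) (nat_lit 279)) (XT.nd (nat_lit 78) (nat_lit 1064) (nat_lit 0) (XT.lf (nat_lit 0) (nat_lit 2112600230) (nat_lit 1064) (nat_lit 2861955107) (nat_lit 76) (nat_lit 2244129484) (nat_lit 266) (nat_lit 5) (nat_lit 280) (nat_lit 5) (nat_lit 267) (nat_lit 5) (nat_lit 324) (nat_lit 298) (nat_lit 278)) (XT.lf (nat_lit 0) (nat_lit 1671137801) (nat_lit 1064) (nat_lit 3047097536) (nat_lit 1140) (nat_lit 2569829198) (nat_lit 252) (nat_lit 5) (nat_lit 266) (nat_lit 5) (nat_lit 267) (nat_lit 5) (nat_lit 325) (nat_lit 298) (nat_lit 277)))) (XT.nd (nat_lit 156) (nat_lit 1292)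 (nat_lit 0) (XT.nd (nat_lit 78) (nat_lit 1216) (nat_lit 0) (XT.lf (nat_lit 0) (nat_lit 6329618791) (nat_lit 1064) (nat_lit 1026522937) (nat_lit 1140) (nat_lit 4820016) (nat_lit 252) (nat_lit 5) (nat_lit 266) (nat_lit 5) (nat_lit 267) (nat_lit 5) (nat_lit 326) (nat_lit 298) (nat_lit 276)) (XT.lf (nat_lit 0) (nat_lit 2558338925) (nat_lit 1216) (nat_lit 3777978863) (nat_lit 76) (nat_lit 1099843572) (nat_lit 236) (nat_lit 5) (nat_lit 252) (nat_lit 5) (nat_lit 237) (nat_lit 5) (nat_lit 327) (nat_lit 298) (nat_lit 275))) (XT.nd (nat_lit 78) (nat_lit 76) (nat_lit 0) (XT.lf (nat_lit 0) (nat_lit 933793175) (nat_lit 1216) (nat_lit 4222285161) (nat_lit 1292) (nat_lit 2358857868) (nat_lit 220) (nat_lit 5) (nat_lit 236) (nat_lit 5) (nat_lit 237) (nat_lit 5) (nat_lit 328) (nat_lit 298) (nat_lit 274)) (XT.lf (nat_lit 0) (nat_lit 198404592) (nat_lit 1292) (nat_lit 1804332905) (nat_lit 76) (nat_lit 5594300040) (nat_lit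 219) (nat_lit 5) (nat_lit 236) (nat_lit 5) (nat_lit 220) (nat_lit 5) (nat_lit 329) (nat_lit 298) (nat_lit 273))))) (XT.nd (nat_lit 234) (nat_lit 1748) (nat_lit 0) (XT.nd (nat_lit 78) (nat_lit 608) (nat_lit 0) (XT.lf (nat_lit 0) (nat_lit 2748738483) (nat_lit 684) (nat_lit 4601839023) (nat_lit 76) (nat_lit 331460377) (nat_lit 211) (nat_lit 5) (nat_lit 220) (nat_lit 5) (nat_lit 212) (nat_lit 5) (nat_lit 330) (nat_lit 298) (nat_lit 272)) (XT.nd (nat_lit 78) (nat_lit 76) (nat_lit 0) (XT.lf (nat_lit 0) (nat_lit 294499209) (nat_lit 532) (nat_lit 5054367834) (nat_lit 608) (nat_lit 2421570769) (nat_lit 204) (nat_lit 5) (nat_lit 211) (nat_lit 5) (nat_lit 212) (nat_lit 5) (nat_lit 331) (nat_lit 298) (nat_lit 271)) (XT.lf (nat_lit 0) (nat_lit 142033262) (nat_lit 608) (nat_lit 2501227603) (nat_lit 76) (nat_lit 5218833894) (nat_lit 203) (nat_lit 5) (nat_lit 211) (nat_lit 5) (nat_lit 204) (nat_lit 5) (nat_lit 332) (nat_lit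 298) (nat_lit 270)))) (XT.nd (nat_lit 156) (nat_lit 1140) (nat_lit 0) (XT.nd (nat_lit 78) (nat_lit 0) (nat_lit 0) (XT.lf (nat_lit 0) (nat_lit 2580024787) (nat_lit 608) (nat_lit 113430408) (nat_lit 684) (nat_lit 5263583540) (nat_lit 195) (nat_lit 5) (nat_lit 203) (nat_lit 5) (nat_lit 204) (nat_lit 5) (nat_lit 333) (nat_lit 298) (nat_lit 269)) (XT.lf (nat_lit 0) (nat_lit 5306864740) (nat_lit 684) (nat_lit 283605434) (nat_lit 76) (nat_lit 2464840255) (nat_lit 195) (nat_lit 5) (nat_lit 204) (nat_lit 5) (nat_lit 196) (nat_lit 5) (nat_lit 334) (nat_lit 298) (nat_lit 268))) (XT.nd (nat_lit 78) (nat_lit 608) (nat_lit 0) (XT.lf (nat_lit 0) (nat_lit 4990602770) (nat_lit 532) (nat_lit 2995014183) (nat_lit 608) (nat_lit 171346610) (nat_lit 188) (nat_lit 5) (nat_lit 195) (nat_lit 5) (nat_lit 196) (nat_lit 5) (nat_lit 335) (nat_lit 298) (nat_lit 267)) (XT.lf (nat_lit 0) (nat_lit 2115799537) (nat_lit 532) (nat_lit 280404681)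 (nat_lit 608) (nat_lit 5865937357) (nat_lit 180) (nat_lit 5) (nat_lit 187) (nat_lit 5) (nat_lit 188) (nat_lit 5) (nat_lit 336) (nat_lit 298) (nat_lit 266))))))) (XT.nd (nat_lit 1014) (nat_lit 2888) (nat_lit 0) (XT.nd (nat_lit 468) (nat_lit 1748) (nat_lit 0) (XT.nd (nat_lit 234) (nat_lit 988) (nat_lit 0) (XT.nd (nat_lit 78) (nat_lit 988) (nat_lit 0) (XT.lf (nat_lit 0) (nat_lit 5033237897) (nat_lit 608) (nat_lit 844343358) (nat_lit 76) (nat_lit 2493003753) (nat_lit 180) (nat_lit 5) (nat_lit 188) (nat_lit 5) (nat_lit 181) (nat_lit 5) (nat_lit 337) (nat_lit 298) (nat_lit 265)) (XT.nd (nat_lit 78) (nat_lit 532) (nat_lit 0) (XT.lf (nat_lit 0) (nat_lit 4636486717) (nat_lit 456) (nat_lit 3101432848) (nat_lit 532) (nat_lit 744742939) (nat_lit 174) (nat_lit 5) (nat_lit 180) (nat_lit 5) (nat_lit 181) (nat_lit 5) (nat_lit 338) (nat_lit 298) (nat_lit 264)) (XT.lf (nat_lit 0) (nat_lit 1646276410) (nat_lit 456) (nat_lit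 207873885) (nat_lit 532) (nat_lit 6744448861) (nat_lit 167) (nat_lit 5) (nat_lit 173) (nat_lit 5) (nat_lit 174) (nat_lit 5) (nat_lit 339) (nat_lit 298) (nat_lit 263)))) (XT.nd (nat_lit 78) (nat_lit 988) (nat_lit 0) (XT.lf (nat_lit 0) (nat_lit 4524514535) (nat_lit 532) (nat_lit 1438350584) (nat_lit 76) (nat_lit 2754707139) (nat_lit 167) (nat_lit 5) (nat_lit 174) (nat_lit 5) (nat_lit 168) (nat_lit 5) (nat_lit 340) (nat_lit 298) (nat_lit 262)) (XT.nd (nat_lit 78) (nat_lit 532) (nat_lit 0) (XT.lf (nat_lit 0) (nat_lit 4254589689) (nat_lit 456) (nat_lit 3007626313) (nat_lit 532) (nat_lit 1578314521) (nat_lit 161) (nat_lit 5) (nat_lit 167) (nat_lit 5) (nat_lit 168) (nat_lit 5) (nat_lit 341) (nat_lit 298) (nat_lit 261)) (XT.lf (nat_lit 0) (nat_lit 1063856048) (nat_lit 532) (nat_lit 7844115976) (nat_lit 76) (nat_lit 59792680) (nat_lit 154) (nat_lit 5) (nat_lit 161) (nat_lit 5) (nat_lit 155) (nat_lit 5) (nat_lit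 342) (nat_lit 298) (nat_lit 260))))) (XT.nd (nat_lit 234) (nat_lit 836) (nat_lit 0) (XT.nd (nat_lit 78) (nat_lit 912) (nat_lit 0) (XT.lf (nat_lit 0) (nat_lit 3775635330) (nat_lit 532) (nat_lit 2113514901) (nat_lit 76) (nat_lit 3208564872) (nat_lit 154) (nat_lit 5) (nat_lit 161) (nat_lit 5) (nat_lit 155) (nat_lit 5) (nat_lit 343) (nat_lit 298) (nat_lit 259)) (XT.nd (nat_lit 78) (nat_lit 532) (nat_lit 0) (XT.lf (nat_lit 0) (nat_lit 3796329245) (nat_lit 380) (nat_lit 2756038336) (nat_lit 456) (nat_lit 2679717553) (nat_lit 149) (nat_lit 5) (nat_lit 154) (nat_lit 5) (nat_lit 155) (nat_lit 5) (nat_lit 344) (nat_lit 298) (nat_lit 258)) (XT.lf (nat_lit 0) (nat_lit 19568949) (nat_lit 532) (nat_lit 8877044071) (nat_lit 76) (nat_lit 474534452) (nat_lit 142) (nat_lit 5) (nat_lit 149) (nat_lit 5) (nat_lit 143) (nat_lit 5) (nat_lit 345) (nat_lit 298) (nat_lit 257)))) (XT.nd (nat_lit 156) (nat_lit 456) (nat_lit 0) (XT.nd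 (nat_lit 78) (nat_lit 380) (nat_lit 0) (XT.lf (nat_lit 0) (nat_lit 2776913157) (nat_lit 532) (nat_lit 2921759390) (nat_lit 76) (nat_lit 3814011654) (nat_lit 142) (nat_lit 5) (nat_lit 149) (nat_lit 5) (nat_lit 143) (nat_lit 5) (nat_lit 346) (nat_lit 298) (nat_lit 256)) (XT.lf (nat_lit 0) (nat_lit 3208831015) (nat_lit 380) (nat_lit 2388717480) (nat_lit 456) (nat_lit 4061527274) (nat_lit 137) (nat_lit 5) (nat_lit 142) (nat_lit 5) (nat_lit 143) (nat_lit 5) (nat_lit 347) (nat_lit 298) (nat_lit 255))) (XT.nd (nat_lit 78) (nat_lit 456) (nat_lit 0) (XT.lf (nat_lit 0) (nat_lit 8492818335) (nat_lit 456) (nat_lit 302521244) (nat_lit 76) (nat_lit 1014844150) (nat_lit 137) (nat_lit 5) (nat_lit 143) (nat_lit 5) (nat_lit 138) (nat_lit 5) (nat_lit 348) (nat_lit 298) (nat_lit 254)) (XT.lf (nat_lit 0) (nat_lit 1513735072) (nat_lit 456) (nat_lit 3920186921) (nat_lit 76) (nat_lit 4530469541) (nat_lit 131) (nat_lit 5) (nat_lit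 137) (nat_lit 5) (nat_lit 132) (nat_lit 5) (nat_lit 349) (nat_lit 298) (nat_lit 253)))))) (XT.nd (nat_lit 546) (nat_lit 1140) (nat_lit 0) (XT.nd (nat_lit 234) (nat_lit 1064) (nat_lit 0) (XT.nd (nat_lit 78) (nat_lit 380) (nat_lit 0) (XT.lf (nat_lit 0) (nat_lit 2433741209) (nat_lit 304) (nat_lit 1948177011) (nat_lit 380) (nat_lit 5741580211) (nat_lit 127) (nat_lit 5) (nat_lit 131) (nat_lit 5) (nat_lit 132) (nat_lit 5) (nat_lit 350) (nat_lit 298) (nat_lit 252)) (XT.nd (nat_lit 78) (nat_lit 380) (nat_lit 0) (XT.lf (nat_lit 0) (nat_lit 7344665406) (nat_lit 380) (nat_lit 1309426837) (nat_lit 76) (nat_lit 1633053045) (nat_lit 127) (nat_lit 5) (nat_lit 132) (nat_lit 5) (nat_lit 128) (nat_lit 5) (nat_lit 351) (nat_lit 298) (nat_lit 251)) (XT.lf (nat_lit 0) (nat_lit 5282309363) (nat_lit 380) (nat_lit 5138182521) (nat_lit 456) (nat_lit 34505419) (nat_lit 122) (nat_lit 5) (nat_lit 127) (nat_lit 5) (nat_lit 128) (nat_lit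 5) (nat_lit 352) (nat_lit 298) (nat_lit 250)))) (XT.nd (nat_lit 156) (nat_lit 684) (nat_lit 0) (XT.nd (nat_lit 78) (nat_lit 0) (nat_lit 0) (XT.lf (nat_lit 0) (nat_lit 1405899749) (nat_lit 304) (nat_lit 1478294820) (nat_lit 380) (nat_lit 7743419110) (nat_lit 117) (nat_lit 5) (nat_lit 121) (nat_lit 5) (nat_lit 122) (nat_lit 5) (nat_lit 353) (nat_lit 298) (nat_lit 249)) (XT.lf (nat_lit 0) (nat_lit 5919471613) (nat_lit 380) (nat_lit 2603500791) (nat_lit 76) (nat_lit 2281554426) (nat_lit 117) (nat_lit 5) (nat_lit 122) (nat_lit 5) (nat_lit 118) (nat_lit 5) (nat_lit 354) (nat_lit 298) (nat_lit 248))) (XT.nd (nat_lit 78) (nat_lit 380) (nat_lit 0) (XT.lf (nat_lit 0) (nat_lit 4218162516) (nat_lit 304) (nat_lit 4839073416) (nat_lit 380) (nat_lit 1929187818) (nat_lit 113) (nat_lit 5) (nat_lit 117) (nat_lit 5) (nat_lit 118) (nat_lit 5) (nat_lit 355) (nat_lit 298) (nat_lit 247)) (XT.lf (nat_lit 0) (nat_lit 51845868)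 (nat_lit 304) (nat_lit 1025270986) (nat_lit 380) (nat_lit 10096851443) (nat_lit 108) (nat_lit 5) (nat_lit 112) (nat_lit 5) (nat_lit 113) (nat_lit 5) (nat_lit 356) (nat_lit 298) (nat_lit 246))))) (XT.nd (nat_lit 234) (nat_lit 836) (nat_lit 0) (XT.nd (nat_lit 78) (nat_lit 304) (nat_lit 0) (XT.lf (nat_lit 0) (nat_lit 4188720120) (nat_lit 380) (nat_lit 4261009606) (nat_lit 76) (nat_lit 2915237511) (nat_lit 108) (nat_lit 5) (nat_lit 113) (nat_lit 5) (nat_lit 109) (nat_lit 5) (nat_lit 357) (nat_lit 298) (nat_lit 245)) (XT.nd (nat_lit 78) (nat_lit 0) (nat_lit 0) (XT.lf (nat_lit 0) (nat_lit 2788512664) (nat_lit 304) (nat_lit 4600325070) (nat_lit 380) (nat_lit 4173020523) (nat_lit 104) (nat_lit 5) (nat_lit 108) (nat_lit 5) (nat_lit 109) (nat_lit 5) (nat_lit 358) (nat_lit 298) (nat_lit 244)) (XT.lf (nat_lit 0) (nat_lit 10075785230) (nat_lit 304) (nat_lit 611041674) (nat_lit 380) (nat_lit 1077789661) (nat_lit 104)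 (nat_lit 5) (nat_lit 108) (nat_lit 5) (nat_lit 109) (nat_lit 5) (nat_lit 359) (nat_lit 298) (nat_lit 243)))) (XT.nd (nat_lit 156) (nat_lit 228) (nat_lit 0) (XT.nd (nat_lit 78) (nat_lit 304) (nat_lit 0) (XT.lf (nat_lit 0) (nat_lit 2117112121) (nat_lit 304) (nat_lit 6368796578) (nat_lit 76) (nat_lit 3485516202) (nat_lit 100) (nat_lit 5) (nat_lit 104) (nat_lit 5) (nat_lit 101) (nat_lit 5) (nat_lit 360) (nat_lit 298) (nat_lit 242)) (XT.lf (nat_lit 0) (nat_lit 903719366) (nat_lit 304) (nat_lit 4474480054) (nat_lit 380) (nat_lit 6806173092) (nat_lit 96) (nat_lit 5) (nat_lit 100) (nat_lit 5) (nat_lit 101) (nat_lit 5) (nat_lit 361) (nat_lit 298) (nat_lit 241))) (XT.nd (nat_lit 78) (nat_lit 228) (nat_lit 0) (XT.lf (nat_lit 0) (nat_lit 8465007721) (nat_lit 304) (nat_lit 297052692) (nat_lit 380) (nat_lit 3640914656) (nat_lit 96) (nat_lit 5) (nat_lit 100) (nat_lit 5) (nat_lit 101) (nat_lit 5) (nat_lit 362) (nat_lit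 298) (nat_lit 240)) (XT.lf (nat_lit 0) (nat_lit 3597514511) (nat_lit 228) (nat_lit 8684592782) (nat_lit 304) (nat_lit 345002626) (nat_lit 93) (nat_lit 5) (nat_lit 96) (nat_lit 5) (nat_lit 97) (nat_lit 5) (nat_lit 363) (nat_lit 298) (nat_lit 239))))))))
noncomputable def xc100 : XT := (XT.nd (nat_lit 2028) (nat_lit 1824) (nat_lit 0) (XT.nd (nat_lit 1014) (nat_lit 1368) (nat_lit 0) (XT.nd (nat_lit 468) (nat_lit 988) (nat_lit 0) (XT.nd (nat_lit 234) (nat_lit 304) (nat_lit 0) (XT.nd (nat_lit 78) (nat_lit 532) (nat_lit 0) (XT.lf (nat_lit 0) (nat_lit 2995125500) (nat_lit 304) (nat_lit 1509016107) (nat_lit 76) (nat_lit 8352815680) (nat_lit 92) (nat_lit 5) (nat_lit 96) (nat_lit 5) (nat_lit 93) (nat_lit 5) (nat_lit 364) (nat_lit 298) (nat_lit 238)) (XT.nd (nat_lit 78) (nat_lit 228) (nat_lit 0) (XT.lf (nat_lit 0) (nat_lit 6299036639) (nat_lit 304) (nat_lit 152901355) (nat_lit 380) (nat_lit 6640970269) (nat_lit 88)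 (nat_lit 5) (nat_lit 92) (nat_lit 5) (nat_lit 93) (nat_lit 5) (nat_lit 365) (nat_lit 298) (nat_lit 237)) (XT.lf (nat_lit 0) (nat_lit 955675924) (nat_lit 228) (nat_lit 9086166892) (nat_lit 304) (nat_lit 3293226036) (nat_lit 85) (nat_lit 5) (nat_lit 88) (nat_lit 5) (nat_lit 89) (nat_lit 5) (nat_lit 366) (nat_lit 298) (nat_lit 236)))) (XT.nd (nat_lit 78) (nat_lit 228) (nat_lit 0) (XT.lf (nat_lit 0) (nat_lit 186073929) (nat_lit 304) (nat_lit 4567307737) (nat_lit 76) (nat_lit 8830055488) (nat_lit 84) (nat_lit 5) (nat_lit 88) (nat_lit 5) (nat_lit 85) (nat_lit 5) (nat_lit 367) (nat_lit 298) (nat_lit 235)) (XT.nd (nat_lit 78) (nat_lit 0) (nat_lit 0) (XT.lf (nat_lit 0) (nat_lit 3457530232) (nat_lit 228) (nat_lit 243684611) (nat_lit 304) (nat_lit 10137145543) (nat_lit 81) (nat_lit 5) (nat_lit 84) (nat_lit 5) (nat_lit 85) (nat_lit 5) (nat_lit 368) (nat_lit 298) (nat_lit 234)) (XT.lf (nat_lit 0) (nat_lit 7375410747)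 (nat_lit 304) (nat_lit 2382356042) (nat_lit 76) (nat_lit 4341567806) (nat_lit 81) (nat_lit 5) (nat_lit 85) (nat_lit 5) (nat_lit 82) (nat_lit 5) (nat_lit 369) (nat_lit 298) (nat_lit 233))))) (XT.nd (nat_lit 234) (nat_lit 456) (nat_lit 0) (XT.nd (nat_lit 78) (nat_lit 304) (nat_lit 0) (XT.lf (nat_lit 0) (nat_lit 5913933206) (nat_lit 228) (nat_lit 5270903343) (nat_lit 304) (nat_lit 3182562335) (nat_lit 78) (nat_lit 5) (nat_lit 81) (nat_lit 5) (nat_lit 82) (nat_lit 5) (nat_lit 370) (nat_lit 298) (nat_lit 232)) (XT.nd (nat_lit 78) (nat_lit 228) (nat_lit 0) (XT.lf (nat_lit 0) (nat_lit 446131791) (nat_lit 304) (nat_lit 194822341) (nat_lit 76) (nat_lit 14002722217) (nat_lit 77) (nat_lit 5) (nat_lit 81) (nat_lit 5) (nat_lit 78) (nat_lit 5) (nat_lit 371) (nat_lit 298) (nat_lit 231)) (XT.lf (nat_lit 0) (nat_lit 4207829477) (nat_lit 304) (nat_lit 6576350625) (nat_lit 76) (nat_lit 4140483491) (nat_lit 74) (nat_lit 5)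 (nat_lit 78) (nat_lit 5) (nat_lit 75) (nat_lit 5) (nat_lit 372) (nat_lit 298) (nat_lit 230)))) (XT.nd (nat_lit 156) (nat_lit 304) (nat_lit 0) (XT.nd (nat_lit 78) (nat_lit 0) (nat_lit 0) (XT.lf (nat_lit 0) (nat_lit 1914778317) (nat_lit 152) (nat_lit 6161461370) (nat_lit 228) (nat_lit 7138034668) (nat_lit 72) (nat_lit 5) (nat_lit 74) (nat_lit 5) (nat_lit 75) (nat_lit 5) (nat_lit 373) (nat_lit 298) (nat_lit 229)) (XT.lf (nat_lit 0) (nat_lit 10742043728) (nat_lit 152) (nat_lit 1352633635) (nat_lit 228) (nat_lit 3416886290) (nat_lit 72) (nat_lit 5) (nat_lit 74) (nat_lit 5) (nat_lit 75) (nat_lit 5) (nat_lit 374) (nat_lit 298) (nat_lit 228))) (XT.nd (nat_lit 78) (nat_lit 0) (nat_lit 0) (XT.lf (nat_lit 0) (nat_lit 449628844) (nat_lit 304) (nat_lit 11813611096) (nat_lit 76) (nat_lit 3553165238) (nat_lit 68) (nat_lit 5) (nat_lit 72) (nat_lit 5) (nat_lit 69) (nat_lit 5) (nat_lit 375) (nat_lit 298) (nat_lit 227)) (XT.lf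 (nat_lit 0) (nat_lit 4393915119) (nat_lit 304) (nat_lit 3093329037) (nat_lit 76) (nat_lit 8641227989) (nat_lit 68) (nat_lit 5) (nat_lit 72) (nat_lit 5) (nat_lit 69) (nat_lit 5) (nat_lit 376) (nat_lit 298) (nat_lit 226)))))) (XT.nd (nat_lit 468) (nat_lit 608) (nat_lit 0) (XT.nd (nat_lit 234) (nat_lit 304) (nat_lit 0) (XT.nd (nat_lit 78) (nat_lit 304) (nat_lit 0) (XT.lf (nat_lit 0) (nat_lit 5953542230) (nat_lit 152) (nat_lit 2529556304) (nat_lit 228) (nat_lit 7966013940) (nat_lit 66) (nat_lit 5) (nat_lit 68) (nat_lit 5) (nat_lit 69) (nat_lit 5) (nat_lit 377) (nat_lit 298) (nat_lit 225)) (XT.nd (nat_lit 78) (nat_lit 304) (nat_lit 0) (XT.lf (nat_lit 0) (nat_lit 12720822403) (nat_lit 228) (nat_lit 1519696470) (nat_lit 76) (nat_lit 2538085359) (nat_lit 66) (nat_lit 5) (nat_lit 69) (nat_lit 5) (nat_lit 67) (nat_lit 5) (nat_lit 378) (nat_lit 298) (nat_lit 224)) (XT.lf (nat_lit 0) (nat_lit 39503319) (nat_lit 304)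 (nat_lit 9313507473) (nat_lit 76) (nat_lit 7762851690) (nat_lit 62) (nat_lit 5) (nat_lit 66) (nat_lit 5) (nat_lit 63) (nat_lit 5) (nat_lit 379) (nat_lit 298) (nat_lit 223)))) (XT.nd (nat_lit 78) (nat_lit 304) (nat_lit 0) (XT.lf (nat_lit 0) (nat_lit 4164172746) (nat_lit 304) (nat_lit 117904822) (nat_lit 76) (nat_lit 13180382410) (nat_lit 62) (nat_lit 5) (nat_lit 66) (nat_lit 5) (nat_lit 63) (nat_lit 5) (nat_lit 380) (nat_lit 298) (nat_lit 222)) (XT.nd (nat_lit 78) (nat_lit 152) (nat_lit 0) (XT.lf (nat_lit 0) (nat_lit 8484948298) (nat_lit 228) (nat_lit 8337149632) (nat_lit 76) (nat_lit 995193743) (nat_lit 60) (nat_lit 5) (nat_lit 63) (nat_lit 5) (nat_lit 61) (nat_lit 5) (nat_lit 381) (nat_lit 298) (nat_lit 221)) (XT.lf (nat_lit 0) (nat_lit 1116442103) (nat_lit 152) (nat_lit 11844800381) (nat_lit 228) (nat_lit 5220756017) (nat_lit 58) (nat_lit 5) (nat_lit 60) (nat_lit 5) (nat_lit 61) (nat_lit 5) (nat_lit 382)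 (nat_lit 298) (nat_lit 220))))) (XT.nd (nat_lit 234) (nat_lit 380) (nat_lit 0) (XT.nd (nat_lit 78) (nat_lit 228) (nat_lit 0) (XT.lf (nat_lit 0) (nat_lit 10976273173) (nat_lit 152) (nat_lit 6651669636) (nat_lit 228) (nat_lit 928027045) (nat_lit 58) (nat_lit 5) (nat_lit 60) (nat_lit 5) (nat_lit 61) (nat_lit 5) (nat_lit 383) (nat_lit 298) (nat_lit 219)) (XT.nd (nat_lit 78) (nat_lit 0) (nat_lit 0) (XT.lf (nat_lit 0) (nat_lit 2151725039) (nat_lit 152) (nat_lit 1266741717) (nat_lit 228) (nat_lit 15521897990) (nat_lit 55) (nat_lit 5) (nat_lit 57) (nat_lit 5) (nat_lit 58) (nat_lit 5) (nat_lit 384) (nat_lit 298) (nat_lit 218)) (XT.lf (nat_lit 0) (nat_lit 7967770378) (nat_lit 228) (nat_lit 7102201996) (nat_lit 76) (nat_lit 4263317695) (nat_lit 55) (nat_lit 5) (nat_lit 58) (nat_lit 5) (nat_lit 56) (nat_lit 5) (nat_lit 385) (nat_lit 298) (nat_lit 217)))) (XT.nd (nat_lit 156) (nat_lit 228) (nat_lit 0) (XT.nd (nat_lit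 78) (nat_lit 0) (nat_lit 0) (XT.lf (nat_lit 0) (nat_lit 2872131663) (nat_lit 152) (nat_lit 9794999421) (nat_lit 228) (nat_lit 7070470804) (nat_lit 53) (nat_lit 5) (nat_lit 55) (nat_lit 5) (nat_lit 56) (nat_lit 5) (nat_lit 386) (nat_lit 298) (nat_lit 216)) (XT.lf (nat_lit 0) (nat_lit 13245535641) (nat_lit 152) (nat_lit 4307416784) (nat_lit 228) (nat_lit 2599732142) (nat_lit 53) (nat_lit 5) (nat_lit 55) (nat_lit 5) (nat_lit 56) (nat_lit 5) (nat_lit 387) (nat_lit 298) (nat_lit 215))) (XT.nd (nat_lit 78) (nat_lit 0) (nat_lit 0) (XT.lf (nat_lit 0) (nat_lit 1985734353) (nat_lit 228) (nat_lit 17241598253) (nat_lit 76) (nat_lit 1351722457) (nat_lit 50) (nat_lit 5) (nat_lit 53) (nat_lit 5) (nat_lit 51) (nat_lit 5) (nat_lit 388) (nat_lit 298) (nat_lit 214)) (XT.lf (nat_lit 0) (nat_lit 6744005985) (nat_lit 228) (nat_lit 7099288751) (nat_lit 76) (nat_lit 7171530343) (nat_lit 50) (nat_lit 5) (nat_lit 53) (nat_lit 5)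 (nat_lit 51) (nat_lit 5) (nat_lit 389) (nat_lit 298) (nat_lit 213))))))) (XT.nd (nat_lit 1014) (nat_lit 836) (nat_lit 0) (XT.nd (nat_lit 468) (nat_lit 456) (nat_lit 0) (XT.nd (nat_lit 234) (nat_lit 228) (nat_lit 0) (XT.nd (nat_lit 78) (nat_lit 152) (nat_lit 0) (XT.lf (nat_lit 0) (nat_lit 3369272754) (nat_lit 152) (nat_lit 8283292220) (nat_lit 228) (nat_lit 9810882286) (nat_lit 48) (nat_lit 5) (nat_lit 50) (nat_lit 5) (nat_lit 51) (nat_lit 5) (nat_lit 390) (nat_lit 298) (nat_lit 212)) (XT.nd (nat_lit 78) (nat_lit 152) (nat_lit 0) (XT.lf (nat_lit 0) (nat_lit 14254084694) (nat_lit 152) (nat_lit 2501443810) (nat_lit 228) (nat_lit 5168590259) (nat_lit 48) (nat_lit 5) (nat_lit 50) (nat_lit 5) (nat_lit 51) (nat_lit 5) (nat_lit 391) (nat_lit 298) (nat_lit 211)) (XT.lf (nat_lit 0) (nat_lit 3050539963) (nat_lit 152) (nat_lit 18999563518) (nat_lit 228) (nat_lit 347356194) (nat_lit 46) (nat_lit 5) (nat_lit 48) (nat_lit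 5) (nat_lit 49) (nat_lit 4) (nat_lit 392) (nat_lit 298) (nat_lit 210)))) (XT.nd (nat_lit 78) (nat_lit 152) (nat_lit 0) (XT.lf (nat_lit 0) (nat_lit 4607429226) (nat_lit 228) (nat_lit 8745327940) (nat_lit 76) (nat_lit 9528545279) (nat_lit 45) (nat_lit 5) (nat_lit 48) (nat_lit 5) (nat_lit 46) (nat_lit 5) (nat_lit 393) (nat_lit 298) (nat_lit 209)) (XT.nd (nat_lit 78) (nat_lit 0) (nat_lit 0) (XT.lf (nat_lit 0) (nat_lit 2171814994) (nat_lit 152) (nat_lit 7529688286) (nat_lit 228) (nat_lit 13678129767) (nat_lit 43) (nat_lit 5) (nat_lit 45) (nat_lit 5) (nat_lit 46) (nat_lit 5) (nat_lit 394) (nat_lit 298) (nat_lit 208)) (XT.lf (nat_lit 0) (nat_lit 13554711760) (nat_lit 152) (nat_lit 1459031008) (nat_lit 228) (nat_lit 8877214893) (nat_lit 43) (nat_lit 5) (nat_lit 45) (nat_lit 5) (nat_lit 46) (nat_lit 5) (nat_lit 395) (nat_lit 298) (nat_lit 207))))) (XT.nd (nat_lit 234) (nat_lit 304) (nat_lit 0) (XT.nd (nat_lit 78)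 (nat_lit 76) (nat_lit 0) (XT.lf (nat_lit 0) (nat_lit 790477397) (nat_lit 76) (nat_lit 19726083935) (nat_lit 152) (nat_lit 3900128585) (nat_lit 42) (nat_lit 5) (nat_lit 43) (nat_lit 5) (nat_lit 44) (nat_lit 4) (nat_lit 396) (nat_lit 298) (nat_lit 206)) (XT.nd (nat_lit 78) (nat_lit 0) (nat_lit 0) (XT.lf (nat_lit 0) (nat_lit 1299775951) (nat_lit 152) (nat_lit 12559839893) (nat_lit 76) (nat_lit 11095305648) (nat_lit 41) (nat_lit 5) (nat_lit 43) (nat_lit 5) (nat_lit 42) (nat_lit 5) (nat_lit 397) (nat_lit 298) (nat_lit 205)) (XT.lf (nat_lit 0) (nat_lit 6555521423) (nat_lit 152) (nat_lit 1239310049) (nat_lit 76) (nat_lit 17713967012) (nat_lit 41) (nat_lit 5) (nat_lit 43) (nat_lit 5) (nat_lit 42) (nat_lit 5) (nat_lit 398) (nat_lit 298) (nat_lit 204)))) (XT.nd (nat_lit 156) (nat_lit 152) (nat_lit 0) (XT.nd (nat_lit 78) (nat_lit 0) (nat_lit 0) (XT.lf (nat_lit 0) (nat_lit 10589396424) (nat_lit 152) (nat_lit 1460201118)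 (nat_lit 228) (nat_lit 14027278281) (nat_lit 39) (nat_lit 5) (nat_lit 41) (nat_lit 5) (nat_lit 42) (nat_lit 5) (nat_lit 399) (nat_lit 298) (nat_lit 203)) (XT.lf (nat_lit 0) (nat_lit 17748775147) (nat_lit 228) (nat_lit 3950229593) (nat_lit 76) (nat_lit 4961786044) (nat_lit 39) (nat_lit 5) (nat_lit 42) (nat_lit 5) (nat_lit 40) (nat_lit 4) (nat_lit 400) (nat_lit 298) (nat_lit 202))) (XT.nd (nat_lit 78) (nat_lit 76) (nat_lit 0) (XT.lf (nat_lit 0) (nat_lit 8038480159) (nat_lit 76) (nat_lit 15651746949) (nat_lit 152) (nat_lit 3569860683) (nat_lit 38) (nat_lit 5) (nat_lit 39) (nat_lit 5) (nat_lit 40) (nat_lit 4) (nat_lit 401) (nat_lit 298) (nat_lit 201)) (XT.lf (nat_lit 0) (nat_lit 1914742064) (nat_lit 152) (nat_lit 7464417518) (nat_lit 76) (nat_lit 18497053352) (nat_lit 37) (nat_lit 5) (nat_lit 39) (nat_lit 5) (nat_lit 38) (nat_lit 5) (nat_lit 402) (nat_lit 298) (nat_lit 200)))))) (XT.nd (nat_lit 546) (nat_lit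 380) (nat_lit 0) (XT.nd (nat_lit 234) (nat_lit 228) (nat_lit 0) (XT.nd (nat_lit 78) (nat_lit 76) (nat_lit 0) (XT.lf (nat_lit 0) (nat_lit 4665152161) (nat_lit 152) (nat_lit 2852028063) (nat_lit 228) (nat_lit 20991833080) (nat_lit 35) (nat_lit 5) (nat_lit 37) (nat_lit 5) (nat_lit 38) (nat_lit 5) (nat_lit 403) (nat_lit 298) (nat_lit 199)) (XT.nd (nat_lit 78) (nat_lit 76) (nat_lit 0) (XT.lf (nat_lit 0) (nat_lit 13381305976) (nat_lit 228) (nat_lit 11920977073) (nat_lit 76) (nat_lit 3855709374) (nat_lit 35) (nat_lit 5) (nat_lit 38) (nat_lit 5) (nat_lit 36) (nat_lit 4) (nat_lit 404) (nat_lit 298) (nat_lit 198)) (XT.lf (nat_lit 0) (nat_lit 302197317) (nat_lit 76) (nat_lit 19131157826) (nat_lit 152) (nat_lit 10392728861) (nat_lit 34) (nat_lit 5) (nat_lit 35) (nat_lit 5) (nat_lit 36) (nat_lit 4) (nat_lit 405) (nat_lit 298) (nat_lit 197)))) (XT.nd (nat_lit 156) (nat_lit 152) (nat_lit 0) (XT.nd (nat_lit 78) (nat_lit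 76) (nat_lit 0) (XT.lf (nat_lit 0) (nat_lit 13101723701) (nat_lit 76) (nat_lit 12666701314) (nat_lit 152) (nat_lit 4742752529) (nat_lit 34) (nat_lit 5) (nat_lit 35) (nat_lit 5) (nat_lit 36) (nat_lit 4) (nat_lit 406) (nat_lit 298) (nat_lit 196)) (XT.lf (nat_lit 0) (nat_lit 1037159419) (nat_lit 152) (nat_lit 4976010756) (nat_lit 76) (nat_lit 25203902618) (nat_lit 33) (nat_lit 5) (nat_lit 35) (nat_lit 5) (nat_lit 34) (nat_lit 5) (nat_lit 407) (nat_lit 298) (nat_lit 195))) (XT.nd (nat_lit 78) (nat_lit 0) (nat_lit 0) (XT.lf (nat_lit 0) (nat_lit 6962262521) (nat_lit 228) (nat_lit 24045500862) (nat_lit 76) (nat_lit 932961961) (nat_lit 31) (nat_lit 5) (nat_lit 34) (nat_lit 5) (nat_lit 32) (nat_lit 4) (nat_lit 408) (nat_lit 298) (nat_lit 194)) (XT.lf (nat_lit 0) (nat_lit 13157453990) (nat_lit 228) (nat_lit 11523162653) (nat_lit 76) (nat_lit 8002703426) (nat_lit 31) (nat_lit 5) (nat_lit 34) (nat_lit 5) (nat_lit 32)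 (nat_lit 4) (nat_lit 409) (nat_lit 298) (nat_lit 193))))) (XT.nd (nat_lit 234) (nat_lit 304) (nat_lit 0) (XT.nd (nat_lit 78) (nat_lit 0) (nat_lit 0) (XT.lf (nat_lit 0) (nat_lit 1369383917) (nat_lit 76) (nat_lit 18164856834) (nat_lit 152) (nat_lit 13914082276) (nat_lit 30) (nat_lit 5) (nat_lit 31) (nat_lit 5) (nat_lit 32) (nat_lit 4) (nat_lit 410) (nat_lit 298) (nat_lit 192)) (XT.nd (nat_lit 78) (nat_lit 0) (nat_lit 0) (XT.lf (nat_lit 0) (nat_lit 14853052549) (nat_lit 76) (nat_lit 11348417265) (nat_lit 152) (nat_lit 8031834603) (nat_lit 30) (nat_lit 5) (nat_lit 31) (nat_lit 5) (nat_lit 32) (nat_lit 4) (nat_lit 411) (nat_lit 298) (nat_lit 191)) (XT.lf (nat_lit 0) (nat_lit 28710291557) (nat_lit 76) (nat_lit 4341703171) (nat_lit 152) (nat_lit 1990344581) (nat_lit 30) (nat_lit 5) (nat_lit 31) (nat_lit 5) (nat_lit 32) (nat_lit 4) (nat_lit 412) (nat_lit 298) (nat_lit 190)))) (XT.nd (nat_lit 156) (nat_lit 76) (nat_lit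 0) (XT.nd (nat_lit 78) (nat_lit 0) (nat_lit 0) (XT.lf (nat_lit 0) (nat_lit 4230979565) (nat_lit 228) (nat_lit 28724847029) (nat_lit 76) (nat_lit 2916165058) (nat_lit 27) (nat_lit 5) (nat_lit 30) (nat_lit 5) (nat_lit 28) (nat_lit 4) (nat_lit 413) (nat_lit 298) (nat_lit 189)) (XT.lf (nat_lit 0) (nat_lit 10690159243) (nat_lit 228) (nat_lit 15657853082) (nat_lit 76) (nat_lit 10375195680) (nat_lit 27) (nat_lit 5) (nat_lit 30) (nat_lit 5) (nat_lit 28) (nat_lit 4) (nat_lit 414) (nat_lit 298) (nat_lit 188))) (XT.nd (nat_lit 78) (nat_lit 76) (nat_lit 0) (XT.lf (nat_lit 0) (nat_lit 17327248535) (nat_lit 228) (nat_lit 2228387834) (nat_lit 76) (nat_lit 18044802611) (nat_lit 27) (nat_lit 5) (nat_lit 30) (nat_lit 5) (nat_lit 28) (nat_lit 4) (nat_lit 415) (nat_lit 298) (nat_lit 187)) (XT.lf (nat_lit 0) (nat_lit 11805654029) (nat_lit 76) (nat_lit 12455875981) (nat_lit 152) (nat_lit 14239516587) (nat_lit 26) (nat_lit 5)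 (nat_lit 27) (nat_lit 5) (nat_lit 28) (nat_lit 4) (nat_lit 416) (nat_lit 298) (nat_lit 186))))))))
noncomputable def xc101 : XT := (XT.nd (nat_lit 2028) (nat_lit 76) (nat_lit 0) (XT.nd (nat_lit 1014) (nat_lit 380) (nat_lit 0) (XT.nd (nat_lit 468) (nat_lit 228) (nat_lit 0) (XT.nd (nat_lit 234) (nat_lit 76) (nat_lit 0) (XT.nd (nat_lit 78) (nat_lit 152) (nat_lit 0) (XT.lf (nat_lit 0) (nat_lit 26277999900) (nat_lit 76) (nat_lit 5133114393) (nat_lit 152) (nat_lit 8017341953) (nat_lit 26) (nat_lit 5) (nat_lit 27) (nat_lit 5) (nat_lit 28) (nat_lit 4) (nat_lit 417) (nat_lit 298) (nat_lit 185)) (XT.nd (nat_lit 78) (nat_lit 76) (nat_lit 0) (XT.lf (nat_lit 0) (nat_lit 764697484) (nat_lit 76) (nat_lit 38026091964) (nat_lit 76) (nat_lit 1592432613) (nat_lit 25) (nat_lit 4) (nat_lit 26) (nat_lit 5) (nat_lit 26) (nat_lit 4) (nat_lit 418) (nat_lit 298) (nat_lit 184)) (XT.lf (nat_lit 0) (nat_lit 5097208857) (nat_lit 152)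 (nat_lit 26124130077) (nat_lit 76) (nat_lit 10138743261) (nat_lit 24) (nat_lit 5) (nat_lit 26) (nat_lit 5) (nat_lit 25) (nat_lit 4) (nat_lit 419) (nat_lit 298) (nat_lit 183)))) (XT.nd (nat_lit 78) (nat_lit 76) (nat_lit 0) (XT.lf (nat_lit 0) (nat_lit 11941080382) (nat_lit 152) (nat_lit 12267774480) (nat_lit 76) (nat_lit 18157355666) (nat_lit 24) (nat_lit 5) (nat_lit 26) (nat_lit 5) (nat_lit 25) (nat_lit 4) (nat_lit 420) (nat_lit 298) (nat_lit 182)) (XT.nd (nat_lit 78) (nat_lit 0) (nat_lit 0) (XT.lf (nat_lit 0) (nat_lit 2017322370) (nat_lit 76) (nat_lit 16978305505) (nat_lit 152) (nat_lit 24406735796) (nat_lit 23) (nat_lit 5) (nat_lit 24) (nat_lit 5) (nat_lit 25) (nat_lit 4) (nat_lit 421) (nat_lit 298) (nat_lit 181)) (XT.lf (nat_lit 0) (nat_lit 16956392823) (nat_lit 76) (nat_lit 9415425750) (nat_lit 152) (nat_lit 18094484338) (nat_lit 23) (nat_lit 5) (nat_lit 24) (nat_lit 5) (nat_lit 25) (nat_lit 4) (nat_lit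 422) (nat_lit 298) (nat_lit 180))))) (XT.nd (nat_lit 234) (nat_lit 76) (nat_lit 0) (XT.nd (nat_lit 78) (nat_lit 152) (nat_lit 0) (XT.lf (nat_lit 0) (nat_lit 32318337668) (nat_lit 76) (nat_lit 1637487721) (nat_lit 152) (nat_lit 11606740681) (nat_lit 23) (nat_lit 5) (nat_lit 24) (nat_lit 5) (nat_lit 25) (nat_lit 4) (nat_lit 423) (nat_lit 298) (nat_lit 179)) (XT.nd (nat_lit 78) (nat_lit 76) (nat_lit 0) (XT.lf (nat_lit 0) (nat_lit 1390443099) (nat_lit 76) (nat_lit 40438356184) (nat_lit 76) (nat_lit 4861076042) (nat_lit 22) (nat_lit 4) (nat_lit 23) (nat_lit 5) (nat_lit 23) (nat_lit 4) (nat_lit 424) (nat_lit 298) (nat_lit 178)) (XT.lf (nat_lit 0) (nat_lit 2184341429) (nat_lit 152) (nat_lit 31173805725) (nat_lit 76) (nat_lit 14488113175) (nat_lit 21) (nat_lit 5) (nat_lit 23) (nat_lit 5) (nat_lit 22) (nat_lit 4) (nat_lit 425) (nat_lit 298) (nat_lit 177)))) (XT.nd (nat_lit 156) (nat_lit 76) (nat_lit 0) (XT.nd (nat_lit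 78) (nat_lit 0) (nat_lit 0) (XT.lf (nat_lit 0) (nat_lit 9330631541) (nat_lit 152) (nat_lit 16696680183) (nat_lit 76) (nat_lit 23008966359) (nat_lit 21) (nat_lit 5) (nat_lit 23) (nat_lit 5) (nat_lit 22) (nat_lit 4) (nat_lit 426) (nat_lit 298) (nat_lit 176)) (XT.lf (nat_lit 0) (nat_lit 16678895727) (nat_lit 152) (nat_lit 1808678046) (nat_lit 76) (nat_lit 31774796462) (nat_lit 21) (nat_lit 5) (nat_lit 23) (nat_lit 5) (nat_lit 22) (nat_lit 4) (nat_lit 427) (nat_lit 298) (nat_lit 175))) (XT.nd (nat_lit 78) (nat_lit 0) (nat_lit 0) (XT.lf (nat_lit 0) (nat_lit 13771949965) (nat_lit 76) (nat_lit 10595989241) (nat_lit 152) (nat_lit 27153697390) (nat_lit 20) (nat_lit 5) (nat_lit 21) (nat_lit 5) (nat_lit 22) (nat_lit 4) (nat_lit 428) (nat_lit 298) (nat_lit 174)) (XT.lf (nat_lit 0) (nat_lit 29834541491) (nat_lit 76) (nat_lit 2459458036) (nat_lit 152) (nat_lit 20524492402) (nat_lit 20) (nat_lit 5) (nat_lit 21) (nat_lit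 5) (nat_lit 22) (nat_lit 4) (nat_lit 429) (nat_lit 298) (nat_lit 173)))))) (XT.nd (nat_lit 468) (nat_lit 152) (nat_lit 0) (XT.nd (nat_lit 234) (nat_lit 76) (nat_lit 0) (XT.nd (nat_lit 78) (nat_lit 152) (nat_lit 0) (XT.lf (nat_lit 0) (nat_lit 40503089088) (nat_lit 152) (nat_lit 7854284658) (nat_lit 0) (nat_lit 5795523058) (nat_lit 20) (nat_lit 5) (nat_lit 22) (nat_lit 4) (nat_lit 20) (nat_lit 4) (nat_lit 430) (nat_lit 298) (nat_lit 172)) (XT.nd (nat_lit 78) (nat_lit 76) (nat_lit 0) (XT.lf (nat_lit 0) (nat_lit 7836355350) (nat_lit 76) (nat_lit 41210444345) (nat_lit 76) (nat_lit 6477884950) (nat_lit 19) (nat_lit 4) (nat_lit 20) (nat_lit 5) (nat_lit 20) (nat_lit 4) (nat_lit 431) (nat_lit 298) (nat_lit 171)) (XT.lf (nat_lit 0) (nat_lit 960234830) (nat_lit 152) (nat_lit 32807548092) (nat_lit 76) (nat_lit 23167518770) (nat_lit 18) (nat_lit 5) (nat_lit 20) (nat_lit 5) (nat_lit 19) (nat_lit 4) (nat_lit 432) (nat_lit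 298) (nat_lit 170)))) (XT.nd (nat_lit 78) (nat_lit 76) (nat_lit 0) (XT.lf (nat_lit 0) (nat_lit 8480311615) (nat_lit 152) (nat_lit 17565350862) (nat_lit 76) (nat_lit 32340981436) (nat_lit 18) (nat_lit 5) (nat_lit 20) (nat_lit 5) (nat_lit 19) (nat_lit 4) (nat_lit 433) (nat_lit 298) (nat_lit 169)) (XT.nd (nat_lit 78) (nat_lit 76) (nat_lit 0) (XT.lf (nat_lit 0) (nat_lit 16215323213) (nat_lit 152) (nat_lit 1886149788) (nat_lit 76) (nat_lit 41780374552) (nat_lit 18) (nat_lit 5) (nat_lit 20) (nat_lit 5) (nat_lit 19) (nat_lit 4) (nat_lit 434) (nat_lit 298) (nat_lit 168)) (XT.lf (nat_lit 0) (nat_lit 14527234064) (nat_lit 76) (nat_lit 9784438968) (nat_lit 152) (nat_lit 37106356727) (nat_lit 17) (nat_lit 5) (nat_lit 18) (nat_lit 5) (nat_lit 19) (nat_lit 4) (nat_lit 435) (nat_lit 298) (nat_lit 167))))) (XT.nd (nat_lit 234) (nat_lit 76) (nat_lit 0) (XT.nd (nat_lit 78) (nat_lit 76) (nat_lit 0) (XT.lf (nat_lit 0) (nat_lit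 31452204600) (nat_lit 76) (nat_lit 1207512783) (nat_lit 152) (nat_lit 30340316990) (nat_lit 17) (nat_lit 5) (nat_lit 18) (nat_lit 5) (nat_lit 19) (nat_lit 4) (nat_lit 436) (nat_lit 298) (nat_lit 166)) (XT.nd (nat_lit 78) (nat_lit 76) (nat_lit 0) (XT.lf (nat_lit 0) (nat_lit 41321485516) (nat_lit 152) (nat_lit 15837012436) (nat_lit 0) (nat_lit 7469103731) (nat_lit 17) (nat_lit 5) (nat_lit 19) (nat_lit 4) (nat_lit 17) (nat_lit 4) (nat_lit 437) (nat_lit 298) (nat_lit 165)) (XT.lf (nat_lit 0) (nat_lit 320867308) (nat_lit 76) (nat_lit 49927541214) (nat_lit 76) (nat_lit 16055429437) (nat_lit 16) (nat_lit 4) (nat_lit 17) (nat_lit 5) (nat_lit 17) (nat_lit 4) (nat_lit 438) (nat_lit 298) (nat_lit 164)))) (XT.nd (nat_lit 156) (nat_lit 76) (nat_lit 0) (XT.nd (nat_lit 78) (nat_lit 0) (nat_lit 0) (XT.lf (nat_lit 0) (nat_lit 17269740892) (nat_lit 76) (nat_lit 42323689883) (nat_lit 76) (nat_lit 8432422773) (nat_lit 16)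 (nat_lit 4) (nat_lit 17) (nat_lit 5) (nat_lit 17) (nat_lit 4) (nat_lit 439) (nat_lit 298) (nat_lit 163)) (XT.lf (nat_lit 0) (nat_lit 34709230411) (nat_lit 76) (nat_lit 34500222590) (nat_lit 76) (nat_lit 590358069) (nat_lit 16) (nat_lit 4) (nat_lit 17) (nat_lit 5) (nat_lit 17) (nat_lit 4) (nat_lit 440) (nat_lit 298) (nat_lit 162))) (XT.nd (nat_lit 78) (nat_lit 0) (nat_lit 0) (XT.lf (nat_lit 0) (nat_lit 7331701724) (nat_lit 152) (nat_lit 19044565759) (nat_lit 76) (nat_lit 45248836719) (nat_lit 15) (nat_lit 5) (nat_lit 17) (nat_lit 5) (nat_lit 16) (nat_lit 4) (nat_lit 441) (nat_lit 298) (nat_lit 161)) (XT.lf (nat_lit 0) (nat_lit 15470655633) (nat_lit 152) (nat_lit 2540019167) (nat_lit 76) (nat_lit 55494573899) (nat_lit 15) (nat_lit 5) (nat_lit 17) (nat_lit 5) (nat_lit 16) (nat_lit 4) (nat_lit 442) (nat_lit 298) (nat_lit 160))))))) (XT.nd (nat_lit 36582) (nat_lit 0) (nat_lit 19152) (XT.nd (nat_lit 36036) (nat_lit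 0) (nat_lit 25308) (XT.nd (nat_lit 234) (nat_lit 0) (nat_lit 0) (XT.nd (nat_lit 78) (nat_lit 0) (nat_lit 0) (XT.lf (nat_lit 0) (nat_lit 14730602559) (nat_lit 76) (nat_lit 9256132380) (nat_lit 152) (nat_lit 51451074727) (nat_lit 14) (nat_lit 5) (nat_lit 15) (nat_lit 5) (nat_lit 16) (nat_lit 4) (nat_lit 443) (nat_lit 298) (nat_lit 159)) (XT.nd (nat_lit 78) (nat_lit 0) (nat_lit 0) (XT.lf (nat_lit 0) (nat_lit 32555064314) (nat_lit 76) (nat_lit 220333341) (nat_lit 152) (nat_lit 44652437591) (nat_lit 14) (nat_lit 5) (nat_lit 15) (nat_lit 5) (nat_lit 16) (nat_lit 4) (nat_lit 444) (nat_lit 298) (nat_lit 158)) (XT.lf (nat_lit 0) (nat_lit 41906693644) (nat_lit 152) (nat_lit 28666694453) (nat_lit 0) (nat_lit 8901805084) (nat_lit 14) (nat_lit 5) (nat_lit 16) (nat_lit 4) (nat_lit 14) (nat_lit 4) (nat_lit 445) (nat_lit 298) (nat_lit 157)))) (XT.nd (nat_lit 35646) (nat_lit 0) (nat_lit 26676) (XT.lf (nat_lit 0) (nat_lit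 51305981888) (nat_lit 152) (nat_lit 11992197202) (nat_lit 0) (nat_lit 18285971931) (nat_lit 14) (nat_lit 5) (nat_lit 16) (nat_lit 4) (nat_lit 14) (nat_lit 4) (nat_lit 446) (nat_lit 298) (nat_lit 156)) (XT.nd (nat_lit 78) (nat_lit 76) (nat_lit 0) (XT.lf (nat_lit 0) (nat_lit 1577265079) (nat_lit 76) (nat_lit 68619328) (nat_lit 0) (nat_lit 1577265079) (nat_lit 366) (nat_lit 5) (nat_lit 367) (nat_lit 0) (nat_lit 366) (nat_lit 4) (nat_lit 302) (nat_lit 299) (nat_lit 299)) (XT.lf (nat_lit 0) (nat_lit 3138628715) (nat_lit 76) (nat_lit 3114154989) (nat_lit 76) (nat_lit 199293594) (nat_lit 365) (nat_lit 4) (nat_lit 366) (nat_lit 5) (nat_lit 366) (nat_lit 4) (nat_lit 303) (nat_lit 299) (nat_lit 298))))) (XT.nd (nat_lit 234) (nat_lit 836) (nat_lit 0) (XT.nd (nat_lit 78) (nat_lit 456) (nat_lit 0) (XT.lf (nat_lit 0) (nat_lit 2811723602) (nat_lit 152) (nat_lit 37025000) (nat_lit 76) (nat_lit 3612037691) (nat_lit 364)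 (nat_lit 5) (nat_lit 366) (nat_lit 5) (nat_lit 365) (nat_lit 4) (nat_lit 304) (nat_lit 299) (nat_lit 297)) (XT.nd (nat_lit 78) (nat_lit 304) (nat_lit 0) (XT.lf (nat_lit 0) (nat_lit 3336845148) (nat_lit 152) (nat_lit 2490349672) (nat_lit 228) (nat_lit 645094042) (nat_lit 362) (nat_lit 5) (nat_lit 364) (nat_lit 5) (nat_lit 365) (nat_lit 4) (nat_lit 305) (nat_lit 299) (nat_lit 296)) (XT.lf (nat_lit 0) (nat_lit 244057184) (nat_lit 228) (nat_lit 2047404276) (nat_lit 304) (nat_lit 4195388725) (nat_lit 358) (nat_lit 5) (nat_lit 361) (nat_lit 5) (nat_lit 362) (nat_lit 5) (nat_lit 306) (nat_lit 299) (nat_lit 295)))) (XT.nd (nat_lit 156) (nat_lit 456) (nat_lit 0) (XT.nd (nat_lit 78) (nat_lit 380) (nat_lit 0) (XT.lf (nat_lit 0) (nat_lit 3717621409) (nat_lit 228) (nat_lit 1507308701) (nat_lit 304) (nat_lit 1279197046) (nat_lit 358) (nat_lit 5) (nat_lit 361) (nat_lit 5) (nat_lit 362) (nat_lit 5) (nat_lit 307) (nat_lit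 299) (nat_lit 294)) (XT.lf (nat_lit 0) (nat_lit 705206967) (nat_lit 304) (nat_lit 884609481) (nat_lit 380) (nat_lit 4934755854) (nat_lit 353) (nat_lit 5) (nat_lit 357) (nat_lit 5) (nat_lit 358) (nat_lit 5) (nat_lit 308) (nat_lit 299) (nat_lit 293))) (XT.nd (nat_lit 78) (nat_lit 456) (nat_lit 0) (XT.lf (nat_lit 0) (nat_lit 4281068437) (nat_lit 304) (nat_lit 160860020) (nat_lit 380) (nat_lit 2105753601) (nat_lit 353) (nat_lit 5) (nat_lit 357) (nat_lit 5) (nat_lit 358) (nat_lit 5) (nat_lit 309) (nat_lit 299) (nat_lit 292)) (XT.lf (nat_lit 0) (nat_lit 708152564) (nat_lit 456) (nat_lit 5234123962) (nat_lit 76) (nat_lit 631608311) (nat_lit 347) (nat_lit 5) (nat_lit 353) (nat_lit 5) (nat_lit 348) (nat_lit 5) (nat_lit 310) (nat_lit 299) (nat_lit 291)))))) (XT.nd (nat_lit 546) (nat_lit 3724) (nat_lit 0) (XT.nd (nat_lit 234) (nat_lit 1900) (nat_lit 0) (XT.nd (nat_lit 78) (nat_lit 532) (nat_lit 0) (XT.lf (nat_lit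 0) (nat_lit 3488271928) (nat_lit 456) (nat_lit 1589991747) (nat_lit 76) (nat_lit 1524364718) (nat_lit 347) (nat_lit 5) (nat_lit 353) (nat_lit 5) (nat_lit 348) (nat_lit 5) (nat_lit 311) (nat_lit 299) (nat_lit 290)) (XT.nd (nat_lit 78) (nat_lit 76) (nat_lit 0) (XT.lf (nat_lit 0) (nat_lit 2139261232) (nat_lit 456) (nat_lit 4135439208) (nat_lit 532) (nat_lit 359947382) (nat_lit 341) (nat_lit 5) (nat_lit 347) (nat_lit 5) (nat_lit 348) (nat_lit 5) (nat_lit 312) (nat_lit 299) (nat_lit 289)) (XT.lf (nat_lit 0) (nat_lit 2348489239) (nat_lit 532) (nat_lit 745447883) (nat_lit 76) (nat_lit 3575479355) (nat_lit 340) (nat_lit 5) (nat_lit 347) (nat_lit 5) (nat_lit 341) (nat_lit 5) (nat_lit 313) (nat_lit 299) (nat_lit 288)))) (XT.nd (nat_lit 156) (nat_lit 684) (nat_lit 0) (XT.nd (nat_lit 78) (nat_lit 684) (nat_lit 0) (XT.lf (nat_lit 0) (nat_lit 3108731896) (nat_lit 532) (nat_lit 1958423202) (nat_lit 608) (nat_lit 1639972038)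 (nat_lit 333) (nat_lit 5) (nat_lit 340) (nat_lit 5) (nat_lit 341) (nat_lit 5) (nat_lit 314) (nat_lit 299) (nat_lit 287)) (XT.lf (nat_lit 0) (nat_lit 275961409) (nat_lit 608) (nat_lit 741262010) (nat_lit 684) (nat_lit 5730978368) (nat_lit 324) (nat_lit 5) (nat_lit 332) (nat_lit 5) (nat_lit 333) (nat_lit 5) (nat_lit 315) (nat_lit 299) (nat_lit 286))) (XT.nd (nat_lit 78) (nat_lit 684) (nat_lit 0) (XT.lf (nat_lit 0) (nat_lit 3672531833) (nat_lit 684) (nat_lit 2539654629) (nat_lit 76) (nat_lit 579378690) (nat_lit 324) (nat_lit 5) (nat_lit 333) (nat_lit 5) (nat_lit 325) (nat_lit 5) (nat_lit 316) (nat_lit 299) (nat_lit 285)) (XT.lf (nat_lit 0) (nat_lit 1465144533) (nat_lit 684) (nat_lit 4876143848) (nat_lit 760) (nat_lit 497009275) (nat_lit 315) (nat_lit 5) (nat_lit 324) (nat_lit 5) (nat_lit 325) (nat_lit 5) (nat_lit 317) (nat_lit 299) (nat_lit 284))))) (XT.nd (nat_lit 234) (nat_lit 1976) (nat_lit 0) (XT.nd (nat_lit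 78) (nat_lit 1672) (nat_lit 0) (XT.lf (nat_lit 0) (nat_lit 2099926981) (nat_lit 760) (nat_lit 1333111464) (nat_lit 76) (nat_lit 3454657807) (nat_lit 314) (nat_lit 5) (nat_lit 324) (nat_lit 5) (nat_lit 315) (nat_lit 5) (nat_lit 318) (nat_lit 299) (nat_lit 283)) (XT.nd (nat_lit 78) (nat_lit 912) (nat_lit 0) (XT.lf (nat_lit 0) (nat_lit 2811906418) (nat_lit 760) (nat_lit 1895782645) (nat_lit 836) (nat_lit 2232527856) (nat_lit 304) (nat_lit 5) (nat_lit 314) (nat_lit 5) (nat_lit 315) (nat_lit 5) (nat_lit 319) (nat_lit 299) (nat_lit 282)) (XT.lf (nat_lit 0) (nat_lit 44333729) (nat_lit 836) (nat_lit 278076611) (nat_lit 912) (nat_lit 6673933368) (nat_lit 292) (nat_lit 5) (nat_lit 303) (nat_lit 5) (nat_lit 304) (nat_lit 5) (nat_lit 320) (nat_lit 299) (nat_lit 281)))) (XT.nd (nat_lit 156) (nat_lit 1064) (nat_lit 0) (XT.nd (nat_lit 78) (nat_lit 912) (nat_lit 0) (XT.lf (nat_lit 0) (nat_lit 2883306197) (nat_lit 912)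 (nat_lit 2731226780) (nat_lit 76) (nat_lit 1439801356) (nat_lit 292) (nat_lit 5) (nat_lit 304) (nat_lit 5) (nat_lit 293) (nat_lit 5) (nat_lit 321) (nat_lit 299) (nat_lit 280)) (XT.lf (nat_lit 0) (nat_lit 1576970031) (nat_lit 912) (nat_lit 3883074497) (nat_lit 988) (nat_lit 1655916279) (nat_lit 280) (nat_lit 5) (nat_lit 292) (nat_lit 5) (nat_lit 293) (nat_lit 5) (nat_lit 322) (nat_lit 299) (nat_lit 279))) (XT.nd (nat_lit 78) (nat_lit 988) (nat_lit 0) (XT.lf (nat_lit 0) (nat_lit 866197149) (nat_lit 988) (nat_lit 1185652298) (nat_lit 76) (nat_lit 5128886269) (nat_lit 279) (nat_lit 5) (nat_lit 292) (nat_lit 5) (nat_lit 280) (nat_lit 5) (nat_lit 323) (nat_lit 299) (nat_lit 278)) (XT.lf (nat_lit 0) (nat_lit 3279689328) (nat_lit 988) (nat_lit 106736013) (nat_lit 1064) (nat_lit 3861925612) (nat_lit 266) (nat_lit 5) (nat_lit 279) (nat_lit 5) (nat_lit 280) (nat_lit 5) (nat_lit 324) (nat_lit 299) (nat_lit 277))))))))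
noncomputable def xc102 : XT := (XT.nd (nat_lit 2028) (nat_lit 4788) (nat_lit 0) (XT.nd (nat_lit 1014) (nat_lit 3724) (nat_lit 0) (XT.nd (nat_lit 468) (nat_lit 2356) (nat_lit 0) (XT.nd (nat_lit 234) (nat_lit 1900) (nat_lit 0) (XT.nd (nat_lit 78) (nat_lit 1216) (nat_lit 0) (XT.lf (nat_lit 0) (nat_lit 509327956) (nat_lit 1064) (nat_lit 5434020217) (nat_lit 1140) (nat_lit 1375873010) (nat_lit 252) (nat_lit 5) (nat_lit 266) (nat_lit 5) (nat_lit 267) (nat_lit 5) (nat_lit 325) (nat_lit 299) (nat_lit 276)) (XT.nd (nat_lit 78) (nat_lit 1140) (nat_lit 0) (XT.lf (nat_lit 0) (nat_lit 1129776839) (nat_lit 1140) (nat_lit 2269617402) (nat_lit 76) (nat_lit 3993493353) (nat_lit 251) (nat_lit 5) (nat_lit 266) (nat_lit 5) (nat_lit 252) (nat_lit 5) (nat_lit 326) (nat_lit 299) (nat_lit 275)) (XT.lf (nat_lit 0) (nat_lit 2372777845) (nat_lit 1140) (nat_lit 1261716299) (nat_lit 1216) (nat_lit 3835368778) (nat_lit 236) (nat_lit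 5) (nat_lit 251) (nat_lit 5) (nat_lit 252) (nat_lit 5) (nat_lit 327) (nat_lit 299) (nat_lit 274)))) (XT.nd (nat_lit 78) (nat_lit 1900) (nat_lit 0) (XT.lf (nat_lit 0) (nat_lit 6176753894) (nat_lit 1216) (nat_lit 425049612) (nat_lit 76) (nat_lit 948524549) (nat_lit 236) (nat_lit 5) (nat_lit 252) (nat_lit 5) (nat_lit 237) (nat_lit 5) (nat_lit 328) (nat_lit 299) (nat_lit 273)) (XT.nd (nat_lit 78) (nat_lit 608) (nat_lit 0) (XT.lf (nat_lit 0) (nat_lit 1126201099) (nat_lit 1292) (nat_lit 3250597347) (nat_lit 76) (nat_lit 3256519040) (nat_lit 219) (nat_lit 5) (nat_lit 236) (nat_lit 5) (nat_lit 220) (nat_lit 5) (nat_lit 329) (nat_lit 299) (nat_lit 272)) (XT.lf (nat_lit 0) (nat_lit 1574815929) (nat_lit 608) (nat_lit 2050906076) (nat_lit 684) (nat_lit 4094143917) (nat_lit 211) (nat_lit 5) (nat_lit 219) (nat_lit 5) (nat_lit 220) (nat_lit 5) (nat_lit 330) (nat_lit 299) (nat_lit 271))))) (XT.nd (nat_lit 234) (nat_lit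 1140) (nat_lit 0) (XT.nd (nat_lit 78) (nat_lit 1216) (nat_lit 0) (XT.lf (nat_lit 0) (nat_lit 6170890364) (nat_lit 684) (nat_lit 1268437585) (nat_lit 76) (nat_lit 370609716) (nat_lit 211) (nat_lit 5) (nat_lit 220) (nat_lit 5) (nat_lit 212) (nat_lit 5) (nat_lit 331) (nat_lit 299) (nat_lit 270)) (XT.nd (nat_lit 78) (nat_lit 608) (nat_lit 0) (XT.lf (nat_lit 0) (nat_lit 864600100) (nat_lit 608) (nat_lit 4170705103) (nat_lit 76) (nat_lit 2867426040) (nat_lit 203) (nat_lit 5) (nat_lit 211) (nat_lit 5) (nat_lit 204) (nat_lit 5) (nat_lit 332) (nat_lit 299) (nat_lit 269)) (XT.lf (nat_lit 0) (nat_lit 843630567) (nat_lit 608) (nat_lit 2524507959) (nat_lit 684) (nat_lit 4630994255) (nat_lit 195) (nat_lit 5) (nat_lit 203) (nat_lit 5) (nat_lit 204) (nat_lit 5) (nat_lit 333) (nat_lit 299) (nat_lit 268)))) (XT.nd (nat_lit 156) (nat_lit 532) (nat_lit 0) (XT.nd (nat_lit 78) (nat_lit 608) (nat_lit 0) (XT.lf (nat_lit 0) (nat_lit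 5927752886) (nat_lit 684) (nat_lit 2072544596) (nat_lit 76) (nat_lit 98741291) (nat_lit 195) (nat_lit 5) (nat_lit 204) (nat_lit 5) (nat_lit 196) (nat_lit 5) (nat_lit 334) (nat_lit 299) (nat_lit 267)) (XT.lf (nat_lit 0) (nat_lit 349818377) (nat_lit 608) (nat_lit 5072806663) (nat_lit 76) (nat_lit 2779411387) (nat_lit 187) (nat_lit 5) (nat_lit 195) (nat_lit 5) (nat_lit 188) (nat_lit 5) (nat_lit 335) (nat_lit 299) (nat_lit 266))) (XT.nd (nat_lit 78) (nat_lit 0) (nat_lit 0) (XT.lf (nat_lit 0) (nat_lit 136142819) (nat_lit 532) (nat_lit 2729373839) (nat_lit 608) (nat_lit 5443122347) (nat_lit 180) (nat_lit 5) (nat_lit 187) (nat_lit 5) (nat_lit 188) (nat_lit 5) (nat_lit 336) (nat_lit 299) (nat_lit 265)) (XT.lf (nat_lit 0) (nat_lit 5450039864) (nat_lit 608) (nat_lit 2880418013) (nat_lit 76) (nat_lit 88218038) (nat_lit 180) (nat_lit 5) (nat_lit 188) (nat_lit 5) (nat_lit 181) (nat_lit 5) (nat_lit 337) (nat_lit 299)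 (nat_lit 264)))))) (XT.nd (nat_lit 468) (nat_lit 1748) (nat_lit 0) (XT.nd (nat_lit 234) (nat_lit 988) (nat_lit 0) (XT.nd (nat_lit 78) (nat_lit 532) (nat_lit 0) (XT.lf (nat_lit 0) (nat_lit 2526756741) (nat_lit 456) (nat_lit 5579559064) (nat_lit 532) (nat_lit 425907413) (nat_lit 174) (nat_lit 5) (nat_lit 180) (nat_lit 5) (nat_lit 181) (nat_lit 5) (nat_lit 338) (nat_lit 299) (nat_lit 263)) (XT.nd (nat_lit 78) (nat_lit 456) (nat_lit 0) (XT.lf (nat_lit 0) (nat_lit 2123033228) (nat_lit 532) (nat_lit 580944300) (nat_lit 76) (nat_lit 5945418949) (nat_lit 173) (nat_lit 5) (nat_lit 180) (nat_lit 5) (nat_lit 174) (nat_lit 5) (nat_lit 339) (nat_lit 299) (nat_lit 262)) (XT.lf (nat_lit 0) (nat_lit 4736198476) (nat_lit 532) (nat_lit 3737260435) (nat_lit 76) (nat_lit 296642774) (nat_lit 167) (nat_lit 5) (nat_lit 174) (nat_lit 5) (nat_lit 168) (nat_lit 5) (nat_lit 340) (nat_lit 299) (nat_lit 261)))) (XT.nd (nat_lit 78)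 (nat_lit 532) (nat_lit 0) (XT.lf (nat_lit 0) (nat_lit 1877043116) (nat_lit 456) (nat_lit 5547349004) (nat_lit 532) (nat_lit 1470168734) (nat_lit 161) (nat_lit 5) (nat_lit 167) (nat_lit 5) (nat_lit 168) (nat_lit 5) (nat_lit 341) (nat_lit 299) (nat_lit 260)) (XT.nd (nat_lit 78) (nat_lit 456) (nat_lit 0) (XT.lf (nat_lit 0) (nat_lit 1132040181) (nat_lit 532) (nat_lit 1362769626) (nat_lit 76) (nat_lit 6528104351) (nat_lit 160) (nat_lit 5) (nat_lit 167) (nat_lit 5) (nat_lit 161) (nat_lit 5) (nat_lit 342) (nat_lit 299) (nat_lit 259)) (XT.lf (nat_lit 0) (nat_lit 3780289367) (nat_lit 532) (nat_lit 4691375639) (nat_lit 76) (nat_lit 683119792) (nat_lit 154) (nat_lit 5) (nat_lit 161) (nat_lit 5) (nat_lit 155) (nat_lit 5) (nat_lit 343) (nat_lit 299) (nat_lit 258))))) (XT.nd (nat_lit 234) (nat_lit 836) (nat_lit 0) (XT.nd (nat_lit 78) (nat_lit 532) (nat_lit 0) (XT.lf (nat_lit 0) (nat_lit 1134602172) (nat_lit 380) (nat_lit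 5371536511) (nat_lit 456) (nat_lit 2784556554) (nat_lit 149) (nat_lit 5) (nat_lit 154) (nat_lit 5) (nat_lit 155) (nat_lit 5) (nat_lit 344) (nat_lit 299) (nat_lit 257)) (XT.nd (nat_lit 78) (nat_lit 532) (nat_lit 0) (XT.lf (nat_lit 0) (nat_lit 7167352622) (nat_lit 380) (nat_lit 2143310888) (nat_lit 456) (nat_lit 120139915) (nat_lit 149) (nat_lit 5) (nat_lit 154) (nat_lit 5) (nat_lit 155) (nat_lit 5) (nat_lit 345) (nat_lit 299) (nat_lit 256)) (XT.lf (nat_lit 0) (nat_lit 2571769700) (nat_lit 532) (nat_lit 5795201876) (nat_lit 76) (nat_lit 1207449332) (nat_lit 142) (nat_lit 5) (nat_lit 149) (nat_lit 5) (nat_lit 143) (nat_lit 5) (nat_lit 346) (nat_lit 299) (nat_lit 255)))) (XT.nd (nat_lit 156) (nat_lit 456) (nat_lit 0) (XT.nd (nat_lit 78) (nat_lit 0) (nat_lit 0) (XT.lf (nat_lit 0) (nat_lit 246023107) (nat_lit 380) (nat_lit 5093857206) (nat_lit 456) (nat_lit 4382520273) (nat_lit 137) (nat_lit 5) (nat_lit 142)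 (nat_lit 5) (nat_lit 143) (nat_lit 5) (nat_lit 347) (nat_lit 299) (nat_lit 254)) (XT.lf (nat_lit 0) (nat_lit 6523861462) (nat_lit 380) (nat_lit 1677694849) (nat_lit 456) (nat_lit 1672972058) (nat_lit 137) (nat_lit 5) (nat_lit 142) (nat_lit 5) (nat_lit 143) (nat_lit 5) (nat_lit 348) (nat_lit 299) (nat_lit 253))) (XT.nd (nat_lit 78) (nat_lit 0) (nat_lit 0) (XT.lf (nat_lit 0) (nat_lit 1095188314) (nat_lit 456) (nat_lit 7106453784) (nat_lit 76) (nat_lit 1829304323) (nat_lit 131) (nat_lit 5) (nat_lit 137) (nat_lit 5) (nat_lit 132) (nat_lit 5) (nat_lit 349) (nat_lit 299) (nat_lit 252)) (XT.lf (nat_lit 0) (nat_lit 3917090861) (nat_lit 456) (nat_lit 831140192) (nat_lit 76) (nat_lit 5443221673) (nat_lit 131) (nat_lit 5) (nat_lit 137) (nat_lit 5) (nat_lit 132) (nat_lit 5) (nat_lit 350) (nat_lit 299) (nat_lit 251))))))) (XT.nd (nat_lit 1014) (nat_lit 2128) (nat_lit 0) (XT.nd (nat_lit 468) (nat_lit 1216) (nat_lit 0)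 (XT.nd (nat_lit 234) (nat_lit 684) (nat_lit 0) (XT.nd (nat_lit 78) (nat_lit 456) (nat_lit 0) (XT.lf (nat_lit 0) (nat_lit 5681968014) (nat_lit 304) (nat_lit 1151195621) (nat_lit 380) (nat_lit 3523346849) (nat_lit 127) (nat_lit 5) (nat_lit 131) (nat_lit 5) (nat_lit 132) (nat_lit 5) (nat_lit 351) (nat_lit 299) (nat_lit 250)) (XT.nd (nat_lit 78) (nat_lit 76) (nat_lit 0) (XT.lf (nat_lit 0) (nat_lit 1830390969) (nat_lit 380) (nat_lit 8012413852) (nat_lit 456) (nat_lit 683553596) (nat_lit 122) (nat_lit 5) (nat_lit 127) (nat_lit 5) (nat_lit 128) (nat_lit 5) (nat_lit 352) (nat_lit 299) (nat_lit 249)) (XT.lf (nat_lit 0) (nat_lit 2212484888) (nat_lit 456) (nat_lit 2169229036) (nat_lit 76) (nat_lit 6318517607) (nat_lit 121) (nat_lit 5) (nat_lit 127) (nat_lit 5) (nat_lit 122) (nat_lit 5) (nat_lit 353) (nat_lit 299) (nat_lit 248)))) (XT.nd (nat_lit 78) (nat_lit 380) (nat_lit 0) (XT.lf (nat_lit 0) (nat_lit 4575410941)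 (nat_lit 304) (nat_lit 607246990) (nat_lit 380) (nat_lit 5696449351) (nat_lit 117) (nat_lit 5) (nat_lit 121) (nat_lit 5) (nat_lit 122) (nat_lit 5) (nat_lit 354) (nat_lit 299) (nat_lit 247)) (XT.nd (nat_lit 78) (nat_lit 76) (nat_lit 0) (XT.lf (nat_lit 0) (nat_lit 419660609) (nat_lit 304) (nat_lit 7837484408) (nat_lit 380) (nat_lit 2805766706) (nat_lit 113) (nat_lit 5) (nat_lit 117) (nat_lit 5) (nat_lit 118) (nat_lit 5) (nat_lit 355) (nat_lit 299) (nat_lit 246)) (XT.lf (nat_lit 0) (nat_lit 196329333) (nat_lit 380) (nat_lit 3845879249) (nat_lit 76) (nat_lit 7209148564) (nat_lit 112) (nat_lit 5) (nat_lit 117) (nat_lit 5) (nat_lit 113) (nat_lit 5) (nat_lit 356) (nat_lit 299) (nat_lit 245))))) (XT.nd (nat_lit 234) (nat_lit 608) (nat_lit 0) (XT.nd (nat_lit 78) (nat_lit 304) (nat_lit 0) (XT.lf (nat_lit 0) (nat_lit 3129275991) (nat_lit 304) (nat_lit 91874976) (nat_lit 380) (nat_lit 8223816990) (nat_lit 108) (nat_lit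 5) (nat_lit 112) (nat_lit 5) (nat_lit 113) (nat_lit 5) (nat_lit 357) (nat_lit 299) (nat_lit 244)) (XT.nd (nat_lit 78) (nat_lit 304) (nat_lit 0) (XT.lf (nat_lit 0) (nat_lit 6373594003) (nat_lit 380) (nat_lit 1349202909) (nat_lit 76) (nat_lit 3920500480) (nat_lit 108) (nat_lit 5) (nat_lit 113) (nat_lit 5) (nat_lit 109) (nat_lit 5) (nat_lit 358) (nat_lit 299) (nat_lit 243)) (XT.lf (nat_lit 0) (nat_lit 5882004667) (nat_lit 304) (nat_lit 3756665813) (nat_lit 380) (nat_lit 2208380541) (nat_lit 104) (nat_lit 5) (nat_lit 108) (nat_lit 5) (nat_lit 109) (nat_lit 5) (nat_lit 359) (nat_lit 299) (nat_lit 242)))) (XT.nd (nat_lit 156) (nat_lit 304) (nat_lit 0) (XT.nd (nat_lit 78) (nat_lit 0) (nat_lit 0) (XT.lf (nat_lit 0) (nat_lit 916322583) (nat_lit 304) (nat_lit 10802116120) (nat_lit 76) (nat_lit 338521990) (nat_lit 100) (nat_lit 5) (nat_lit 104) (nat_lit 5) (nat_lit 101) (nat_lit 5) (nat_lit 360) (nat_lit 299) (nat_lit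 241)) (XT.lf (nat_lit 0) (nat_lit 4149611973) (nat_lit 304) (nat_lit 3576194193) (nat_lit 76) (nat_lit 4544943342) (nat_lit 100) (nat_lit 5) (nat_lit 104) (nat_lit 5) (nat_lit 101) (nat_lit 5) (nat_lit 361) (nat_lit 299) (nat_lit 240))) (XT.nd (nat_lit 78) (nat_lit 0) (nat_lit 0) (XT.lf (nat_lit 0) (nat_lit 3885245599) (nat_lit 304) (nat_lit 3594336812) (nat_lit 380) (nat_lit 5011393423) (nat_lit 96) (nat_lit 5) (nat_lit 100) (nat_lit 5) (nat_lit 101) (nat_lit 5) (nat_lit 362) (nat_lit 299) (nat_lit 239)) (XT.lf (nat_lit 0) (nat_lit 10914979000) (nat_lit 380) (nat_lit 1137056818) (nat_lit 76) (nat_lit 665621223) (nat_lit 96) (nat_lit 5) (nat_lit 101) (nat_lit 5) (nat_lit 97) (nat_lit 5) (nat_lit 363) (nat_lit 299) (nat_lit 238)))))) (XT.nd (nat_lit 546) (nat_lit 760) (nat_lit 0) (XT.nd (nat_lit 234) (nat_lit 760) (nat_lit 0) (XT.nd (nat_lit 78) (nat_lit 304) (nat_lit 0) (XT.lf (nat_lit 0) (nat_lit 1536343264)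 (nat_lit 304) (nat_lit 6371372740) (nat_lit 76) (nat_lit 5041101763) (nat_lit 92) (nat_lit 5) (nat_lit 96) (nat_lit 5) (nat_lit 93) (nat_lit 5) (nat_lit 364) (nat_lit 299) (nat_lit 237)) (XT.nd (nat_lit 78) (nat_lit 0) (nat_lit 0) (XT.lf (nat_lit 0) (nat_lit 1311791440) (nat_lit 304) (nat_lit 3615663352) (nat_lit 380) (nat_lit 8259291247) (nat_lit 88) (nat_lit 5) (nat_lit 92) (nat_lit 5) (nat_lit 93) (nat_lit 5) (nat_lit 365) (nat_lit 299) (nat_lit 236)) (XT.lf (nat_lit 0) (nat_lit 8457287111) (nat_lit 380) (nat_lit 4138505814) (nat_lit 76) (nat_lit 834921962) (nat_lit 88) (nat_lit 5) (nat_lit 93) (nat_lit 5) (nat_lit 89) (nat_lit 5) (nat_lit 366) (nat_lit 299) (nat_lit 235)))) (XT.nd (nat_lit 156) (nat_lit 456) (nat_lit 0) (XT.nd (nat_lit 78) (nat_lit 76) (nat_lit 0) (XT.lf (nat_lit 0) (nat_lit 3813997932) (nat_lit 228) (nat_lit 8316790659) (nat_lit 304) (nat_lit 1550092976) (nat_lit 85) (nat_lit 5) (nat_lit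 88) (nat_lit 5) (nat_lit 89) (nat_lit 5) (nat_lit 367) (nat_lit 299) (nat_lit 234)) (XT.lf (nat_lit 0) (nat_lit 1945041735) (nat_lit 304) (nat_lit 1921622770) (nat_lit 76) (nat_lit 10071100498) (nat_lit 84) (nat_lit 5) (nat_lit 88) (nat_lit 5) (nat_lit 85) (nat_lit 5) (nat_lit 368) (nat_lit 299) (nat_lit 233))) (XT.nd (nat_lit 78) (nat_lit 228) (nat_lit 0) (XT.lf (nat_lit 0) (nat_lit 5548509982) (nat_lit 304) (nat_lit 7891866978) (nat_lit 76) (nat_lit 760489489) (nat_lit 81) (nat_lit 5) (nat_lit 85) (nat_lit 5) (nat_lit 82) (nat_lit 5) (nat_lit 369) (nat_lit 299) (nat_lit 232)) (XT.lf (nat_lit 0) (nat_lit 267881544) (nat_lit 228) (nat_lit 9019397064) (nat_lit 304) (nat_lit 5183777094) (nat_lit 78) (nat_lit 5) (nat_lit 81) (nat_lit 5) (nat_lit 82) (nat_lit 5) (nat_lit 370) (nat_lit 299) (nat_lit 231))))) (XT.nd (nat_lit 234) (nat_lit 456) (nat_lit 0) (XT.nd (nat_lit 78) (nat_lit 304) (nat_lit 0) (XT.lf (nat_lit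 0) (nat_lit 8781199971) (nat_lit 228) (nat_lit 4403902708) (nat_lit 304) (nat_lit 1562851528) (nat_lit 78) (nat_lit 5) (nat_lit 81) (nat_lit 5) (nat_lit 82) (nat_lit 5) (nat_lit 371) (nat_lit 299) (nat_lit 230)) (XT.nd (nat_lit 78) (nat_lit 0) (nat_lit 0) (XT.lf (nat_lit 0) (nat_lit 2119827697) (nat_lit 304) (nat_lit 12543944568) (nat_lit 76) (nat_lit 368910139) (nat_lit 74) (nat_lit 5) (nat_lit 78) (nat_lit 5) (nat_lit 75) (nat_lit 5) (nat_lit 372) (nat_lit 299) (nat_lit 229)) (XT.lf (nat_lit 0) (nat_lit 5954107889) (nat_lit 304) (nat_lit 4115974918) (nat_lit 76) (nat_lit 5253238923) (nat_lit 74) (nat_lit 5) (nat_lit 78) (nat_lit 5) (nat_lit 75) (nat_lit 5) (nat_lit 373) (nat_lit 299) (nat_lit 228)))) (XT.nd (nat_lit 156) (nat_lit 304) (nat_lit 0) (XT.nd (nat_lit 78) (nat_lit 0) (nat_lit 0) (XT.lf (nat_lit 0) (nat_lit 4603832341) (nat_lit 152) (nat_lit 5312848984) (nat_lit 228) (nat_lit 5705610159) (nat_lit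 72) (nat_lit 5) (nat_lit 74) (nat_lit 5) (nat_lit 75) (nat_lit 5) (nat_lit 374) (nat_lit 299) (nat_lit 227)) (XT.lf (nat_lit 0) (nat_lit 13619266859) (nat_lit 152) (nat_lit 389857083) (nat_lit 228) (nat_lit 1920785550) (nat_lit 72) (nat_lit 5) (nat_lit 74) (nat_lit 5) (nat_lit 75) (nat_lit 5) (nat_lit 375) (nat_lit 299) (nat_lit 226))) (XT.nd (nat_lit 78) (nat_lit 0) (nat_lit 0) (XT.lf (nat_lit 0) (nat_lit 2019253261) (nat_lit 304) (nat_lit 9569719257) (nat_lit 76) (nat_lit 4654813865) (nat_lit 68) (nat_lit 5) (nat_lit 72) (nat_lit 5) (nat_lit 69) (nat_lit 5) (nat_lit 376) (nat_lit 299) (nat_lit 225)) (XT.lf (nat_lit 0) (nat_lit 6036543788) (nat_lit 304) (nat_lit 663507381) (nat_lit 76) (nat_lit 9866536353) (nat_lit 68) (nat_lit 5) (nat_lit 72) (nat_lit 5) (nat_lit 69) (nat_lit 5) (nat_lit 377) (nat_lit 299) (nat_lit 224))))))))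
noncomputable def xc103 : XT := (XT.nd (nat_lit 2106) (nat_lit 1140) (nat_lit 0) (XT.nd (nat_lit 1014) (nat_lit 1140) (nat_lit 0) (XT.nd (nat_lit 468) (nat_lit 608) (nat_lit 0) (XT.nd (nat_lit 234) (nat_lit 304) (nat_lit 0) (XT.nd (nat_lit 78) (nat_lit 304) (nat_lit 0) (XT.lf (nat_lit 0) (nat_lit 8630038441) (nat_lit 152) (nat_lit 1598371301) (nat_lit 228) (nat_lit 6669049180) (nat_lit 66) (nat_lit 5) (nat_lit 68) (nat_lit 5) (nat_lit 69) (nat_lit 5) (nat_lit 378) (nat_lit 299) (nat_lit 223)) (XT.nd (nat_lit 78) (nat_lit 76) (nat_lit 0) (XT.lf (nat_lit 0) (nat_lit 912059999) (nat_lit 228) (nat_lit 13655949345) (nat_lit 304) (nat_lit 2669595487) (nat_lit 63) (nat_lit 5) (nat_lit 66) (nat_lit 5) (nat_lit 67) (nat_lit 5) (nat_lit 379) (nat_lit 299) (nat_lit 222)) (XT.lf (nat_lit 0) (nat_lit 1493070670) (nat_lit 304) (nat_lit 7128202653) (nat_lit 76) (nat_lit 8964125332) (nat_lit 62) (nat_lit 5) (nat_lit 66)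 (nat_lit 5) (nat_lit 63) (nat_lit 5) (nat_lit 380) (nat_lit 299) (nat_lit 221)))) (XT.nd (nat_lit 78) (nat_lit 152) (nat_lit 0) (XT.lf (nat_lit 0) (nat_lit 2316687319) (nat_lit 152) (nat_lit 3404759880) (nat_lit 228) (nat_lit 12221558591) (nat_lit 60) (nat_lit 5) (nat_lit 62) (nat_lit 5) (nat_lit 63) (nat_lit 5) (nat_lit 381) (nat_lit 299) (nat_lit 220)) (XT.nd (nat_lit 78) (nat_lit 152) (nat_lit 0) (XT.lf (nat_lit 0) (nat_lit 10140681057) (nat_lit 228) (nat_lit 6185099107) (nat_lit 76) (nat_lit 1983647634) (nat_lit 60) (nat_lit 5) (nat_lit 63) (nat_lit 5) (nat_lit 61) (nat_lit 5) (nat_lit 382) (nat_lit 299) (nat_lit 219)) (XT.lf (nat_lit 0) (nat_lit 3528549743) (nat_lit 152) (nat_lit 11204767828) (nat_lit 228) (nat_lit 3952306763) (nat_lit 58) (nat_lit 5) (nat_lit 60) (nat_lit 5) (nat_lit 61) (nat_lit 5) (nat_lit 383) (nat_lit 299) (nat_lit 218))))) (XT.nd (nat_lit 234) (nat_lit 380) (nat_lit 0) (XT.nd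 (nat_lit 78) (nat_lit 152) (nat_lit 0) (XT.lf (nat_lit 0) (nat_lit 419351216) (nat_lit 228) (nat_lit 5461248870) (nat_lit 76) (nat_lit 13191309873) (nat_lit 57) (nat_lit 5) (nat_lit 60) (nat_lit 5) (nat_lit 58) (nat_lit 5) (nat_lit 384) (nat_lit 299) (nat_lit 217)) (XT.nd (nat_lit 78) (nat_lit 0) (nat_lit 0) (XT.lf (nat_lit 0) (nat_lit 4530018779) (nat_lit 152) (nat_lit 330298082) (nat_lit 228) (nat_lit 14607771554) (nat_lit 55) (nat_lit 5) (nat_lit 57) (nat_lit 5) (nat_lit 58) (nat_lit 5) (nat_lit 385) (nat_lit 299) (nat_lit 216)) (XT.lf (nat_lit 0) (nat_lit 9516185112) (nat_lit 228) (nat_lit 5038702723) (nat_lit 76) (nat_lit 5318820078) (nat_lit 55) (nat_lit 5) (nat_lit 58) (nat_lit 5) (nat_lit 56) (nat_lit 5) (nat_lit 386) (nat_lit 299) (nat_lit 215)))) (XT.nd (nat_lit 156) (nat_lit 228) (nat_lit 0) (XT.nd (nat_lit 78) (nat_lit 0) (nat_lit 0) (XT.lf (nat_lit 0) (nat_lit 5212541678) (nat_lit 152) (nat_lit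 9127516825) (nat_lit 228) (nat_lit 5950593349) (nat_lit 53) (nat_lit 5) (nat_lit 55) (nat_lit 5) (nat_lit 56) (nat_lit 5) (nat_lit 387) (nat_lit 299) (nat_lit 214)) (XT.lf (nat_lit 0) (nat_lit 15831490122) (nat_lit 152) (nat_lit 3503306688) (nat_lit 228) (nat_lit 1384528399) (nat_lit 53) (nat_lit 5) (nat_lit 55) (nat_lit 5) (nat_lit 56) (nat_lit 5) (nat_lit 388) (nat_lit 299) (nat_lit 213))) (XT.nd (nat_lit 78) (nat_lit 0) (nat_lit 0) (XT.lf (nat_lit 0) (nat_lit 3306449491) (nat_lit 228) (nat_lit 15537665165) (nat_lit 76) (nat_lit 2314211744) (nat_lit 50) (nat_lit 5) (nat_lit 53) (nat_lit 5) (nat_lit 51) (nat_lit 5) (nat_lit 389) (nat_lit 299) (nat_lit 212)) (XT.lf (nat_lit 0) (nat_lit 8170736948) (nat_lit 228) (nat_lit 5155780972) (nat_lit 76) (nat_lit 8281761315) (nat_lit 50) (nat_lit 5) (nat_lit 53) (nat_lit 5) (nat_lit 51) (nat_lit 5) (nat_lit 390) (nat_lit 299) (nat_lit 211)))))) (XT.nd (nat_lit 546)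 (nat_lit 532) (nat_lit 0) (XT.nd (nat_lit 234) (nat_lit 228) (nat_lit 0) (XT.nd (nat_lit 78) (nat_lit 228) (nat_lit 0) (XT.lf (nat_lit 0) (nat_lit 5605695354) (nat_lit 152) (nat_lit 7605721140) (nat_lit 228) (nat_lit 8859405197) (nat_lit 48) (nat_lit 5) (nat_lit 50) (nat_lit 5) (nat_lit 51) (nat_lit 5) (nat_lit 391) (nat_lit 299) (nat_lit 210)) (XT.nd (nat_lit 78) (nat_lit 228) (nat_lit 0) (XT.lf (nat_lit 0) (nat_lit 16754857155) (nat_lit 152) (nat_lit 1677390185) (nat_lit 228) (nat_lit 4114129950) (nat_lit 48) (nat_lit 5) (nat_lit 50) (nat_lit 5) (nat_lit 51) (nat_lit 5) (nat_lit 392) (nat_lit 299) (nat_lit 209)) (XT.lf (nat_lit 0) (nat_lit 829239595) (nat_lit 228) (nat_lit 17820789330) (nat_lit 76) (nat_lit 4383827194) (nat_lit 45) (nat_lit 5) (nat_lit 48) (nat_lit 5) (nat_lit 46) (nat_lit 5) (nat_lit 393) (nat_lit 299) (nat_lit 208)))) (XT.nd (nat_lit 156) (nat_lit 76) (nat_lit 0) (XT.nd (nat_lit 78)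 (nat_lit 152) (nat_lit 0) (XT.lf (nat_lit 0) (nat_lit 5891317113) (nat_lit 228) (nat_lit 6965844279) (nat_lit 76) (nat_lit 10675987388) (nat_lit 45) (nat_lit 5) (nat_lit 48) (nat_lit 5) (nat_lit 46) (nat_lit 5) (nat_lit 394) (nat_lit 299) (nat_lit 207)) (XT.lf (nat_lit 0) (nat_lit 4258794869) (nat_lit 152) (nat_lit 6865484659) (nat_lit 228) (nat_lit 12922574277) (nat_lit 43) (nat_lit 5) (nat_lit 45) (nat_lit 5) (nat_lit 46) (nat_lit 5) (nat_lit 395) (nat_lit 299) (nat_lit 206))) (XT.nd (nat_lit 78) (nat_lit 76) (nat_lit 0) (XT.lf (nat_lit 0) (nat_lit 15924290419) (nat_lit 152) (nat_lit 638632738) (nat_lit 228) (nat_lit 8011590191) (nat_lit 43) (nat_lit 5) (nat_lit 45) (nat_lit 5) (nat_lit 46) (nat_lit 5) (nat_lit 396) (nat_lit 299) (nat_lit 205)) (XT.lf (nat_lit 0) (nat_lit 2782506876) (nat_lit 76) (nat_lit 19443302072) (nat_lit 152) (nat_lit 2890365262) (nat_lit 42) (nat_lit 5) (nat_lit 43) (nat_lit 5)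 (nat_lit 44) (nat_lit 4) (nat_lit 397) (nat_lit 299) (nat_lit 204))))) (XT.nd (nat_lit 234) (nat_lit 304) (nat_lit 0) (XT.nd (nat_lit 78) (nat_lit 152) (nat_lit 0) (XT.lf (nat_lit 0) (nat_lit 2411371069) (nat_lit 152) (nat_lit 11004110443) (nat_lit 76) (nat_lit 12255717392) (nat_lit 41) (nat_lit 5) (nat_lit 43) (nat_lit 5) (nat_lit 42) (nat_lit 5) (nat_lit 398) (nat_lit 299) (nat_lit 203)) (XT.nd (nat_lit 78) (nat_lit 0) (nat_lit 0) (XT.lf (nat_lit 0) (nat_lit 611684335) (nat_lit 152) (nat_lit 7187743623) (nat_lit 228) (nat_lit 18443030672) (nat_lit 39) (nat_lit 5) (nat_lit 41) (nat_lit 5) (nat_lit 42) (nat_lit 5) (nat_lit 399) (nat_lit 299) (nat_lit 202)) (XT.lf (nat_lit 0) (nat_lit 12764921354) (nat_lit 152) (nat_lit 675052945) (nat_lit 228) (nat_lit 13388159988) (nat_lit 39) (nat_lit 5) (nat_lit 41) (nat_lit 5) (nat_lit 42) (nat_lit 5) (nat_lit 400) (nat_lit 299) (nat_lit 201)))) (XT.nd (nat_lit 156)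 (nat_lit 228) (nat_lit 0) (XT.nd (nat_lit 78) (nat_lit 76) (nat_lit 0) (XT.lf (nat_lit 0) (nat_lit 19287895921) (nat_lit 228) (nat_lit 2242598196) (nat_lit 76) (nat_lit 5899744794) (nat_lit 39) (nat_lit 5) (nat_lit 42) (nat_lit 5) (nat_lit 40) (nat_lit 4) (nat_lit 401) (nat_lit 299) (nat_lit 200)) (XT.lf (nat_lit 0) (nat_lit 10087869532) (nat_lit 76) (nat_lit 15307783647) (nat_lit 152) (nat_lit 2652224919) (nat_lit 38) (nat_lit 5) (nat_lit 39) (nat_lit 5) (nat_lit 40) (nat_lit 4) (nat_lit 402) (nat_lit 299) (nat_lit 199))) (XT.nd (nat_lit 78) (nat_lit 152) (nat_lit 0) (XT.lf (nat_lit 0) (nat_lit 2947655568) (nat_lit 152) (nat_lit 5913207376) (nat_lit 76) (nat_lit 19822211294) (nat_lit 37) (nat_lit 5) (nat_lit 39) (nat_lit 5) (nat_lit 38) (nat_lit 5) (nat_lit 403) (nat_lit 299) (nat_lit 198)) (XT.lf (nat_lit 0) (nat_lit 6562846034) (nat_lit 152) (nat_lit 2143805521) (nat_lit 228) (nat_lit 20628557211) (nat_lit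 35) (nat_lit 5) (nat_lit 37) (nat_lit 5) (nat_lit 38) (nat_lit 5) (nat_lit 404) (nat_lit 299) (nat_lit 197))))))) (XT.nd (nat_lit 1014) (nat_lit 456) (nat_lit 0) (XT.nd (nat_lit 468) (nat_lit 380) (nat_lit 0) (XT.nd (nat_lit 234) (nat_lit 228) (nat_lit 0) (XT.nd (nat_lit 78) (nat_lit 76) (nat_lit 0) (XT.lf (nat_lit 0) (nat_lit 14726032782) (nat_lit 228) (nat_lit 10551243362) (nat_lit 76) (nat_lit 4727005714) (nat_lit 35) (nat_lit 5) (nat_lit 38) (nat_lit 5) (nat_lit 36) (nat_lit 4) (nat_lit 405) (nat_lit 299) (nat_lit 196)) (XT.nd (nat_lit 78) (nat_lit 0) (nat_lit 0) (XT.lf (nat_lit 0) (nat_lit 2021691327) (nat_lit 76) (nat_lit 18926919382) (nat_lit 152) (nat_lit 9744140878) (nat_lit 34) (nat_lit 5) (nat_lit 35) (nat_lit 5) (nat_lit 36) (nat_lit 4) (nat_lit 406) (nat_lit 299) (nat_lit 195)) (XT.lf (nat_lit 0) (nat_lit 15155385210) (nat_lit 76) (nat_lit 12291194412) (nat_lit 152) (nat_lit 3952637194) (nat_lit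 34) (nat_lit 5) (nat_lit 35) (nat_lit 5) (nat_lit 36) (nat_lit 4) (nat_lit 407) (nat_lit 299) (nat_lit 194)))) (XT.nd (nat_lit 78) (nat_lit 152) (nat_lit 0) (XT.lf (nat_lit 0) (nat_lit 1955850385) (nat_lit 152) (nat_lit 3495249261) (nat_lit 76) (nat_lit 26675723256) (nat_lit 33) (nat_lit 5) (nat_lit 35) (nat_lit 5) (nat_lit 34) (nat_lit 5) (nat_lit 408) (nat_lit 299) (nat_lit 193)) (XT.nd (nat_lit 78) (nat_lit 0) (nat_lit 0) (XT.lf (nat_lit 0) (nat_lit 8055452965) (nat_lit 228) (nat_lit 23133439590) (nat_lit 76) (nat_lit 1683394008) (nat_lit 31) (nat_lit 5) (nat_lit 34) (nat_lit 5) (nat_lit 32) (nat_lit 4) (nat_lit 409) (nat_lit 299) (nat_lit 192)) (XT.lf (nat_lit 0) (nat_lit 14410743210) (nat_lit 228) (nat_lit 10283006757) (nat_lit 76) (nat_lit 8944185683) (nat_lit 31) (nat_lit 5) (nat_lit 34) (nat_lit 5) (nat_lit 32) (nat_lit 4) (nat_lit 410) (nat_lit 299) (nat_lit 191))))) (XT.nd (nat_lit 234) (nat_lit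 304) (nat_lit 0) (XT.nd (nat_lit 78) (nat_lit 0) (nat_lit 0) (XT.lf (nat_lit 0) (nat_lit 2980768653) (nat_lit 76) (nat_lit 17988152871) (nat_lit 152) (nat_lit 13457268235) (nat_lit 30) (nat_lit 5) (nat_lit 31) (nat_lit 5) (nat_lit 32) (nat_lit 4) (nat_lit 411) (nat_lit 299) (nat_lit 190)) (XT.nd (nat_lit 78) (nat_lit 0) (nat_lit 0) (XT.lf (nat_lit 0) (nat_lit 16823210357) (nat_lit 76) (nat_lit 10988239037) (nat_lit 152) (nat_lit 7424016331) (nat_lit 30) (nat_lit 5) (nat_lit 31) (nat_lit 5) (nat_lit 32) (nat_lit 4) (nat_lit 412) (nat_lit 299) (nat_lit 189)) (XT.lf (nat_lit 0) (nat_lit 31051761694) (nat_lit 76) (nat_lit 3791730241) (nat_lit 152) (nat_lit 1226003162) (nat_lit 30) (nat_lit 5) (nat_lit 31) (nat_lit 5) (nat_lit 32) (nat_lit 4) (nat_lit 413) (nat_lit 299) (nat_lit 188)))) (XT.nd (nat_lit 156) (nat_lit 76) (nat_lit 0) (XT.nd (nat_lit 78) (nat_lit 0) (nat_lit 0) (XT.lf (nat_lit 0) (nat_lit 5163155640)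 (nat_lit 228) (nat_lit 28087403499) (nat_lit 76) (nat_lit 3673325265) (nat_lit 27) (nat_lit 5) (nat_lit 30) (nat_lit 5) (nat_lit 28) (nat_lit 4) (nat_lit 414) (nat_lit 299) (nat_lit 187)) (XT.lf (nat_lit 0) (nat_lit 11792656921) (nat_lit 228) (nat_lit 14672065430) (nat_lit 76) (nat_lit 11336621702) (nat_lit 27) (nat_lit 5) (nat_lit 30) (nat_lit 5) (nat_lit 28) (nat_lit 4) (nat_lit 415) (nat_lit 299) (nat_lit 186))) (XT.nd (nat_lit 78) (nat_lit 76) (nat_lit 0) (XT.lf (nat_lit 0) (nat_lit 18606088225) (nat_lit 228) (nat_lit 882110106) (nat_lit 76) (nat_lit 19217379846) (nat_lit 27) (nat_lit 5) (nat_lit 30) (nat_lit 5) (nat_lit 28) (nat_lit 4) (nat_lit 416) (nat_lit 299) (nat_lit 185)) (XT.lf (nat_lit 0) (nat_lit 13559098803) (nat_lit 76) (nat_lit 12180642586) (nat_lit 152) (nat_lit 13893725344) (nat_lit 26) (nat_lit 5) (nat_lit 27) (nat_lit 5) (nat_lit 28) (nat_lit 4) (nat_lit 417) (nat_lit 299) (nat_lit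 184)))))) (XT.nd (nat_lit 546) (nat_lit 228) (nat_lit 0) (XT.nd (nat_lit 234) (nat_lit 76) (nat_lit 0) (XT.nd (nat_lit 78) (nat_lit 152) (nat_lit 0) (XT.lf (nat_lit 0) (nat_lit 28424859464) (nat_lit 76) (nat_lit 4657098432) (nat_lit 152) (nat_lit 7507399357) (nat_lit 26) (nat_lit 5) (nat_lit 27) (nat_lit 5) (nat_lit 28) (nat_lit 4) (nat_lit 418) (nat_lit 299) (nat_lit 183)) (XT.nd (nat_lit 78) (nat_lit 76) (nat_lit 0) (XT.lf (nat_lit 0) (nat_lit 2148579951) (nat_lit 76) (nat_lit 38532186460) (nat_lit 76) (nat_lit 892070174) (nat_lit 25) (nat_lit 4) (nat_lit 26) (nat_lit 5) (nat_lit 26) (nat_lit 4) (nat_lit 419) (nat_lit 299) (nat_lit 182)) (XT.lf (nat_lit 0) (nat_lit 5962296579) (nat_lit 152) (nat_lit 25572288790) (nat_lit 76) (nat_lit 11044845035) (nat_lit 24) (nat_lit 5) (nat_lit 26) (nat_lit 5) (nat_lit 25) (nat_lit 4) (nat_lit 420) (nat_lit 299) (nat_lit 181)))) (XT.nd (nat_lit 156) (nat_lit 0) (nat_lit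 0) (XT.nd (nat_lit 78) (nat_lit 76) (nat_lit 0) (XT.lf (nat_lit 0) (nat_lit 12990741392) (nat_lit 152) (nat_lit 11339142482) (nat_lit 76) (nat_lit 19286483594) (nat_lit 24) (nat_lit 5) (nat_lit 26) (nat_lit 5) (nat_lit 25) (nat_lit 4) (nat_lit 421) (nat_lit 299) (nat_lit 180)) (XT.lf (nat_lit 0) (nat_lit 3361794869) (nat_lit 76) (nat_lit 16887333884) (nat_lit 152) (nat_lit 24434712870) (nat_lit 23) (nat_lit 5) (nat_lit 24) (nat_lit 5) (nat_lit 25) (nat_lit 4) (nat_lit 422) (nat_lit 299) (nat_lit 179))) (XT.nd (nat_lit 78) (nat_lit 0) (nat_lit 0) (XT.lf (nat_lit 0) (nat_lit 18711640752) (nat_lit 76) (nat_lit 9115052807) (nat_lit 152) (nat_lit 17953605276) (nat_lit 23) (nat_lit 5) (nat_lit 24) (nat_lit 5) (nat_lit 25) (nat_lit 4) (nat_lit 423) (nat_lit 299) (nat_lit 178)) (XT.lf (nat_lit 0) (nat_lit 34498136482) (nat_lit 76) (nat_lit 1120752436) (nat_lit 152) (nat_lit 11291143297) (nat_lit 23) (nat_lit 5)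 (nat_lit 24) (nat_lit 5) (nat_lit 25) (nat_lit 4) (nat_lit 424) (nat_lit 299) (nat_lit 177))))) (XT.nd (nat_lit 234) (nat_lit 76) (nat_lit 0) (XT.nd (nat_lit 78) (nat_lit 76) (nat_lit 0) (XT.lf (nat_lit 0) (nat_lit 2644374364) (nat_lit 76) (nat_lit 41081842603) (nat_lit 76) (nat_lit 4345001138) (nat_lit 22) (nat_lit 4) (nat_lit 23) (nat_lit 5) (nat_lit 23) (nat_lit 4) (nat_lit 425) (nat_lit 299) (nat_lit 176)) (XT.nd (nat_lit 78) (nat_lit 0) (nat_lit 0) (XT.lf (nat_lit 0) (nat_lit 2879960014) (nat_lit 152) (nat_lit 30919496795) (nat_lit 76) (nat_lit 15463216224) (nat_lit 21) (nat_lit 5) (nat_lit 23) (nat_lit 5) (nat_lit 22) (nat_lit 4) (nat_lit 426) (nat_lit 299) (nat_lit 175)) (XT.lf (nat_lit 0) (nat_lit 10222286741) (nat_lit 152) (nat_lit 16042703790) (nat_lit 76) (nat_lit 24223953460) (nat_lit 21) (nat_lit 5) (nat_lit 23) (nat_lit 5) (nat_lit 22) (nat_lit 4) (nat_lit 427) (nat_lit 299) (nat_lit 174))))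 (XT.nd (nat_lit 156) (nat_lit 0) (nat_lit 0) (XT.nd (nat_lit 78) (nat_lit 76) (nat_lit 0) (XT.lf (nat_lit 0) (nat_lit 17773181291) (nat_lit 152) (nat_lit 741698778) (nat_lit 76) (nat_lit 33237475415) (nat_lit 21) (nat_lit 5) (nat_lit 23) (nat_lit 5) (nat_lit 22) (nat_lit 4) (nat_lit 428) (nat_lit 299) (nat_lit 173)) (XT.lf (nat_lit 0) (nat_lit 15295355528) (nat_lit 76) (nat_lit 10390914318) (nat_lit 152) (nat_lit 27363330766) (nat_lit 20) (nat_lit 5) (nat_lit 21) (nat_lit 5) (nat_lit 22) (nat_lit 4) (nat_lit 429) (nat_lit 299) (nat_lit 172))) (XT.nd (nat_lit 78) (nat_lit 0) (nat_lit 0) (XT.lf (nat_lit 0) (nat_lit 31807487507) (nat_lit 76) (nat_lit 2025518864) (nat_lit 152) (nat_lit 20552870333) (nat_lit 20) (nat_lit 5) (nat_lit 21) (nat_lit 5) (nat_lit 22) (nat_lit 4) (nat_lit 430) (nat_lit 299) (nat_lit 171)) (XT.lf (nat_lit 0) (nat_lit 42276499627) (nat_lit 152) (nat_lit 7031467362) (nat_lit 0) (nat_lit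 6452704682) (nat_lit 20) (nat_lit 5) (nat_lit 22) (nat_lit 4) (nat_lit 20) (nat_lit 4) (nat_lit 431) (nat_lit 299) (nat_lit 170))))))))
noncomputable def xc104 : XT := (XT.nd (nat_lit 37440) (nat_lit 0) (nat_lit 12616) (XT.nd (nat_lit 1014) (nat_lit 0) (nat_lit 0) (XT.nd (nat_lit 468) (nat_lit 228) (nat_lit 0) (XT.nd (nat_lit 234) (nat_lit 76) (nat_lit 0) (XT.nd (nat_lit 78) (nat_lit 76) (nat_lit 0) (XT.lf (nat_lit 0) (nat_lit 9119514926) (nat_lit 76) (nat_lit 41950819619) (nat_lit 76) (nat_lit 6103466031) (nat_lit 19) (nat_lit 4) (nat_lit 20) (nat_lit 5) (nat_lit 20) (nat_lit 4) (nat_lit 432) (nat_lit 299) (nat_lit 169)) (XT.nd (nat_lit 78) (nat_lit 0) (nat_lit 0) (XT.lf (nat_lit 0) (nat_lit 1530456437) (nat_lit 152) (nat_lit 32763399489) (nat_lit 76) (nat_lit 24333205182) (nat_lit 18) (nat_lit 5) (nat_lit 20) (nat_lit 5) (nat_lit 19) (nat_lit 4) (nat_lit 433) (nat_lit 299) (nat_lit 168)) (XT.lf (nat_lit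 0) (nat_lit 9260366169) (nat_lit 152) (nat_lit 17093889013) (nat_lit 76) (nat_lit 33768163159) (nat_lit 18) (nat_lit 5) (nat_lit 20) (nat_lit 5) (nat_lit 19) (nat_lit 4) (nat_lit 434) (nat_lit 299) (nat_lit 167)))) (XT.nd (nat_lit 78) (nat_lit 76) (nat_lit 0) (XT.lf (nat_lit 0) (nat_lit 17212118061) (nat_lit 152) (nat_lit 973392170) (nat_lit 76) (nat_lit 43477428779) (nat_lit 18) (nat_lit 5) (nat_lit 20) (nat_lit 5) (nat_lit 19) (nat_lit 4) (nat_lit 435) (nat_lit 299) (nat_lit 166)) (XT.nd (nat_lit 78) (nat_lit 0) (nat_lit 0) (XT.lf (nat_lit 0) (nat_lit 15922889843) (nat_lit 76) (nat_lit 9622830958) (nat_lit 152) (nat_lit 37699656579) (nat_lit 17) (nat_lit 5) (nat_lit 18) (nat_lit 5) (nat_lit 19) (nat_lit 4) (nat_lit 436) (nat_lit 299) (nat_lit 165)) (XT.lf (nat_lit 0) (nat_lit 33327653026) (nat_lit 76) (nat_lit 801853526) (nat_lit 152) (nat_lit 30745778102) (nat_lit 17) (nat_lit 5) (nat_lit 18) (nat_lit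 5) (nat_lit 19) (nat_lit 4) (nat_lit 437) (nat_lit 299) (nat_lit 164))))) (XT.nd (nat_lit 234) (nat_lit 152) (nat_lit 0) (XT.nd (nat_lit 78) (nat_lit 76) (nat_lit 0) (XT.lf (nat_lit 0) (nat_lit 43040979901) (nat_lit 152) (nat_lit 15397185555) (nat_lit 0) (nat_lit 8113819444) (nat_lit 17) (nat_lit 5) (nat_lit 19) (nat_lit 4) (nat_lit 17) (nat_lit 4) (nat_lit 438) (nat_lit 299) (nat_lit 163)) (XT.nd (nat_lit 78) (nat_lit 0) (nat_lit 0) (XT.lf (nat_lit 0) (nat_lit 1236460608) (nat_lit 76) (nat_lit 50993982493) (nat_lit 76) (nat_lit 16048224625) (nat_lit 16) (nat_lit 4) (nat_lit 17) (nat_lit 5) (nat_lit 17) (nat_lit 4) (nat_lit 439) (nat_lit 299) (nat_lit 162)) (XT.lf (nat_lit 0) (nat_lit 18667413003) (nat_lit 76) (nat_lit 43174580232) (nat_lit 76) (nat_lit 8210766626) (nat_lit 16) (nat_lit 4) (nat_lit 17) (nat_lit 5) (nat_lit 17) (nat_lit 4) (nat_lit 440) (nat_lit 299) (nat_lit 161)))) (XT.nd (nat_lit 156)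 (nat_lit 76) (nat_lit 0) (XT.nd (nat_lit 78) (nat_lit 76) (nat_lit 0) (XT.lf (nat_lit 0) (nat_lit 36604468377) (nat_lit 76) (nat_lit 35128607571) (nat_lit 76) (nat_lit 147264122) (nat_lit 16) (nat_lit 4) (nat_lit 17) (nat_lit 5) (nat_lit 17) (nat_lit 4) (nat_lit 441) (nat_lit 299) (nat_lit 160)) (XT.lf (nat_lit 0) (nat_lit 7990305912) (nat_lit 152) (nat_lit 18778041713) (nat_lit 76) (nat_lit 46992307549) (nat_lit 15) (nat_lit 5) (nat_lit 17) (nat_lit 5) (nat_lit 16) (nat_lit 4) (nat_lit 442) (nat_lit 299) (nat_lit 159))) (XT.nd (nat_lit 78) (nat_lit 76) (nat_lit 0) (XT.lf (nat_lit 0) (nat_lit 16360652133) (nat_lit 152) (nat_lit 1802762442) (nat_lit 76) (nat_lit 57534173959) (nat_lit 15) (nat_lit 5) (nat_lit 17) (nat_lit 5) (nat_lit 16) (nat_lit 4) (nat_lit 443) (nat_lit 299) (nat_lit 158)) (XT.lf (nat_lit 0) (nat_lit 15978002865) (nat_lit 76) (nat_lit 9149549562) (nat_lit 152) (nat_lit 52560714949) (nat_lit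 14) (nat_lit 5) (nat_lit 15) (nat_lit 5) (nat_lit 16) (nat_lit 4) (nat_lit 444) (nat_lit 299) (nat_lit 157)))))) (XT.nd (nat_lit 35880) (nat_lit 0) (nat_lit 25308) (XT.nd (nat_lit 35646) (nat_lit 0) (nat_lit 26600) (XT.nd (nat_lit 78) (nat_lit 0) (nat_lit 0) (XT.lf (nat_lit 0) (nat_lit 34169011316) (nat_lit 152) (nat_lit 45426029822) (nat_lit 0) (nat_lit 143279664) (nat_lit 14) (nat_lit 5) (nat_lit 16) (nat_lit 4) (nat_lit 14) (nat_lit 4) (nat_lit 445) (nat_lit 299) (nat_lit 156)) (XT.nd (nat_lit 35490) (nat_lit 0) (nat_lit 26828) (XT.lf (nat_lit 0) (nat_lit 43564412171) (nat_lit 152) (nat_lit 28758983908) (nat_lit 0) (nat_lit 9523999551) (nat_lit 14) (nat_lit 5) (nat_lit 16) (nat_lit 4) (nat_lit 14) (nat_lit 4) (nat_lit 446) (nat_lit 299) (nat_lit 155)) (XT.lf (nat_lit 0) (nat_lit 1073741823) (nat_lit 0) (nat_lit 0) (nat_lit 0) (nat_lit 0) (nat_lit 367) (nat_lit 0) (nat_lit 1) (nat_lit 0) (nat_lit 1) (nat_lit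 0) (nat_lit 300) (nat_lit 300) (nat_lit 300)))) (XT.nd (nat_lit 78) (nat_lit 152) (nat_lit 0) (XT.lf (nat_lit 0) (nat_lit 3062650638) (nat_lit 76) (nat_lit 3320423734) (nat_lit 0) (nat_lit 60343402) (nat_lit 366) (nat_lit 5) (nat_lit 367) (nat_lit 0) (nat_lit 366) (nat_lit 4) (nat_lit 301) (nat_lit 300) (nat_lit 299)) (XT.nd (nat_lit 78) (nat_lit 152) (nat_lit 0) (XT.lf (nat_lit 0) (nat_lit 6098251566) (nat_lit 76) (nat_lit 168794917) (nat_lit 0) (nat_lit 181082935) (nat_lit 366) (nat_lit 5) (nat_lit 367) (nat_lit 0) (nat_lit 366) (nat_lit 4) (nat_lit 302) (nat_lit 300) (nat_lit 298)) (XT.lf (nat_lit 0) (nat_lit 2630951661) (nat_lit 152) (nat_lit 3406299276) (nat_lit 76) (nat_lit 417678423) (nat_lit 364) (nat_lit 5) (nat_lit 366) (nat_lit 5) (nat_lit 365) (nat_lit 4) (nat_lit 303) (nat_lit 300) (nat_lit 297))))) (XT.nd (nat_lit 234) (nat_lit 836) (nat_lit 0) (XT.nd (nat_lit 78) (nat_lit 456) (nat_lit 0)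 (XT.lf (nat_lit 0) (nat_lit 5581948549) (nat_lit 152) (nat_lit 163312018) (nat_lit 76) (nat_lit 720070943) (nat_lit 364) (nat_lit 5) (nat_lit 366) (nat_lit 5) (nat_lit 365) (nat_lit 4) (nat_lit 304) (nat_lit 300) (nat_lit 296)) (XT.nd (nat_lit 78) (nat_lit 228) (nat_lit 0) (XT.lf (nat_lit 0) (nat_lit 2022552529) (nat_lit 228) (nat_lit 3321575610) (nat_lit 76) (nat_lit 1133856857) (nat_lit 361) (nat_lit 5) (nat_lit 364) (nat_lit 5) (nat_lit 362) (nat_lit 5) (nat_lit 305) (nat_lit 300) (nat_lit 295)) (XT.lf (nat_lit 0) (nat_lit 15836822) (nat_lit 228) (nat_lit 4874700449) (nat_lit 304) (nat_lit 1603563525) (nat_lit 358) (nat_lit 5) (nat_lit 361) (nat_lit 5) (nat_lit 362) (nat_lit 5) (nat_lit 306) (nat_lit 300) (nat_lit 294)))) (XT.nd (nat_lit 156) (nat_lit 456) (nat_lit 0) (XT.nd (nat_lit 78) (nat_lit 304) (nat_lit 0) (XT.lf (nat_lit 0) (nat_lit 1233914547) (nat_lit 304) (nat_lit 3066834664) (nat_lit 76)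 (nat_lit 2211900532) (nat_lit 357) (nat_lit 5) (nat_lit 361) (nat_lit 5) (nat_lit 358) (nat_lit 5) (nat_lit 307) (nat_lit 300) (nat_lit 293)) (XT.lf (nat_lit 0) (nat_lit 374833729) (nat_lit 304) (nat_lit 3648403907) (nat_lit 380) (nat_lit 2511186072) (nat_lit 353) (nat_lit 5) (nat_lit 357) (nat_lit 5) (nat_lit 358) (nat_lit 5) (nat_lit 308) (nat_lit 300) (nat_lit 292))) (XT.nd (nat_lit 78) (nat_lit 380) (nat_lit 0) (XT.lf (nat_lit 0) (nat_lit 260713458) (nat_lit 380) (nat_lit 2641953235) (nat_lit 76) (nat_lit 3656354793) (nat_lit 352) (nat_lit 5) (nat_lit 357) (nat_lit 5) (nat_lit 353) (nat_lit 5) (nat_lit 309) (nat_lit 300) (nat_lit 291)) (XT.lf (nat_lit 0) (nat_lit 910939018) (nat_lit 380) (nat_lit 2062795693) (nat_lit 456) (nat_lit 3612727232) (nat_lit 347) (nat_lit 5) (nat_lit 352) (nat_lit 5) (nat_lit 353) (nat_lit 5) (nat_lit 310) (nat_lit 300) (nat_lit 290))))))) (XT.nd (nat_lit 1014) (nat_lit 7524)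 (nat_lit 0) (XT.nd (nat_lit 468) (nat_lit 3420) (nat_lit 0) (XT.nd (nat_lit 234) (nat_lit 1216) (nat_lit 0) (XT.nd (nat_lit 78) (nat_lit 532) (nat_lit 0) (XT.lf (nat_lit 0) (nat_lit 4562008896) (nat_lit 380) (nat_lit 1134817337) (nat_lit 456) (nat_lit 920139724) (nat_lit 347) (nat_lit 5) (nat_lit 352) (nat_lit 5) (nat_lit 353) (nat_lit 5) (nat_lit 311) (nat_lit 300) (nat_lit 289)) (XT.nd (nat_lit 78) (nat_lit 0) (nat_lit 0) (XT.lf (nat_lit 0) (nat_lit 1625374922) (nat_lit 456) (nat_lit 111128985) (nat_lit 532) (nat_lit 4913858457) (nat_lit 340) (nat_lit 5) (nat_lit 346) (nat_lit 5) (nat_lit 347) (nat_lit 5) (nat_lit 312) (nat_lit 300) (nat_lit 288)) (XT.lf (nat_lit 0) (nat_lit 4390704426) (nat_lit 532) (nat_lit 1309635509) (nat_lit 76) (nat_lit 986149059) (nat_lit 340) (nat_lit 5) (nat_lit 347) (nat_lit 5) (nat_lit 341) (nat_lit 5) (nat_lit 313) (nat_lit 300) (nat_lit 287)))) (XT.nd (nat_lit 78) (nat_lit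 608) (nat_lit 0) (XT.lf (nat_lit 0) (nat_lit 326472284) (nat_lit 608) (nat_lit 4227527097) (nat_lit 76) (nat_lit 2171667472) (nat_lit 332) (nat_lit 5) (nat_lit 340) (nat_lit 5) (nat_lit 333) (nat_lit 5) (nat_lit 314) (nat_lit 300) (nat_lit 286)) (XT.nd (nat_lit 78) (nat_lit 608) (nat_lit 0) (XT.lf (nat_lit 0) (nat_lit 2904745054) (nat_lit 608) (nat_lit 406193262) (nat_lit 76) (nat_lit 3456779440) (nat_lit 332) (nat_lit 5) (nat_lit 340) (nat_lit 5) (nat_lit 333) (nat_lit 5) (nat_lit 315) (nat_lit 300) (nat_lit 285)) (XT.lf (nat_lit 0) (nat_lit 3535961481) (nat_lit 608) (nat_lit 1971147281) (nat_lit 684) (nat_lit 1305601047) (nat_lit 324) (nat_lit 5) (nat_lit 332) (nat_lit 5) (nat_lit 333) (nat_lit 5) (nat_lit 316) (nat_lit 300) (nat_lit 284))))) (XT.nd (nat_lit 234) (nat_lit 1900) (nat_lit 0) (XT.nd (nat_lit 78) (nat_lit 760) (nat_lit 0) (XT.lf (nat_lit 0) (nat_lit 682285967) (nat_lit 684) (nat_lit 544756665)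 (nat_lit 760) (nat_lit 5633968850) (nat_lit 314) (nat_lit 5) (nat_lit 323) (nat_lit 5) (nat_lit 324) (nat_lit 5) (nat_lit 317) (nat_lit 300) (nat_lit 283)) (XT.nd (nat_lit 78) (nat_lit 760) (nat_lit 0) (XT.lf (nat_lit 0) (nat_lit 3767604195) (nat_lit 760) (nat_lit 2170823187) (nat_lit 76) (nat_lit 973276582) (nat_lit 314) (nat_lit 5) (nat_lit 324) (nat_lit 5) (nat_lit 315) (nat_lit 5) (nat_lit 318) (nat_lit 300) (nat_lit 282)) (XT.lf (nat_lit 0) (nat_lit 1925243873) (nat_lit 760) (nat_lit 4401366524) (nat_lit 836) (nat_lit 639112758) (nat_lit 304) (nat_lit 5) (nat_lit 314) (nat_lit 5) (nat_lit 315) (nat_lit 5) (nat_lit 319) (nat_lit 300) (nat_lit 281)))) (XT.nd (nat_lit 156) (nat_lit 988) (nat_lit 0) (XT.nd (nat_lit 78) (nat_lit 836) (nat_lit 0) (XT.lf (nat_lit 0) (nat_lit 1844520002) (nat_lit 836) (nat_lit 916181212) (nat_lit 76) (nat_lit 4261929379) (nat_lit 303) (nat_lit 5) (nat_lit 314) (nat_lit 5)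 (nat_lit 304) (nat_lit 5) (nat_lit 320) (nat_lit 300) (nat_lit 280)) (XT.lf (nat_lit 0) (nat_lit 3327049146) (nat_lit 836) (nat_lit 1016335505) (nat_lit 912) (nat_lit 2739130310) (nat_lit 292) (nat_lit 5) (nat_lit 303) (nat_lit 5) (nat_lit 304) (nat_lit 5) (nat_lit 321) (nat_lit 300) (nat_lit 279))) (XT.nd (nat_lit 78) (nat_lit 76) (nat_lit 0) (XT.lf (nat_lit 0) (nat_lit 509517647) (nat_lit 912) (nat_lit 6352841449) (nat_lit 988) (nat_lit 283547105) (nat_lit 280) (nat_lit 5) (nat_lit 292) (nat_lit 5) (nat_lit 293) (nat_lit 5) (nat_lit 322) (nat_lit 300) (nat_lit 278)) (XT.lf (nat_lit 0) (nat_lit 2174450131) (nat_lit 988) (nat_lit 2328853136) (nat_lit 76) (nat_lit 2708132193) (nat_lit 279) (nat_lit 5) (nat_lit 292) (nat_lit 5) (nat_lit 280) (nat_lit 5) (nat_lit 323) (nat_lit 300) (nat_lit 277)))))) (XT.nd (nat_lit 546) (nat_lit 2964) (nat_lit 0) (XT.nd (nat_lit 234) (nat_lit 2432) (nat_lit 0) (XT.nd (nat_lit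 78) (nat_lit 1140) (nat_lit 0) (XT.lf (nat_lit 0) (nat_lit 2081445260) (nat_lit 988) (nat_lit 2565465949) (nat_lit 1064) (nat_lit 2633601649) (nat_lit 266) (nat_lit 5) (nat_lit 279) (nat_lit 5) (nat_lit 280) (nat_lit 5) (nat_lit 324) (nat_lit 300) (nat_lit 276)) (XT.nd (nat_lit 78) (nat_lit 1140) (nat_lit 0) (XT.lf (nat_lit 0) (nat_lit 6608149753) (nat_lit 988) (nat_lit 536859523) (nat_lit 1064) (nat_lit 208166854) (nat_lit 266) (nat_lit 5) (nat_lit 279) (nat_lit 5) (nat_lit 280) (nat_lit 5) (nat_lit 325) (nat_lit 300) (nat_lit 275)) (XT.lf (nat_lit 0) (nat_lit 2227057777) (nat_lit 1140) (nat_lit 3611855596) (nat_lit 76) (nat_lit 1589048274) (nat_lit 251) (nat_lit 5) (nat_lit 266) (nat_lit 5) (nat_lit 252) (nat_lit 5) (nat_lit 326) (nat_lit 300) (nat_lit 274)))) (XT.nd (nat_lit 156) (nat_lit 1292) (nat_lit 0) (XT.nd (nat_lit 78) (nat_lit 0) (nat_lit 0) (XT.lf (nat_lit 0) (nat_lit 971258400) (nat_lit 1140)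 (nat_lit 3712964863) (nat_lit 1216) (nat_lit 2822166164) (nat_lit 236) (nat_lit 5) (nat_lit 251) (nat_lit 5) (nat_lit 252) (nat_lit 5) (nat_lit 327) (nat_lit 300) (nat_lit 273)) (XT.lf (nat_lit 0) (nat_lit 5701717741) (nat_lit 1140) (nat_lit 1482075116) (nat_lit 1216) (nat_lit 404367550) (nat_lit 236) (nat_lit 5) (nat_lit 251) (nat_lit 5) (nat_lit 252) (nat_lit 5) (nat_lit 328) (nat_lit 300) (nat_lit 272))) (XT.nd (nat_lit 78) (nat_lit 0) (nat_lit 0) (XT.lf (nat_lit 0) (nat_lit 2014718611) (nat_lit 1292) (nat_lit 4807290132) (nat_lit 76) (nat_lit 850738588) (nat_lit 219) (nat_lit 5) (nat_lit 236) (nat_lit 5) (nat_lit 220) (nat_lit 5) (nat_lit 329) (nat_lit 300) (nat_lit 271)) (XT.lf (nat_lit 0) (nat_lit 4467003813) (nat_lit 1292) (nat_lit 44670131) (nat_lit 76) (nat_lit 3249061903) (nat_lit 219) (nat_lit 5) (nat_lit 236) (nat_lit 5) (nat_lit 220) (nat_lit 5) (nat_lit 330) (nat_lit 300) (nat_lit 270)))))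 (XT.nd (nat_lit 234) (nat_lit 1748) (nat_lit 0) (XT.nd (nat_lit 78) (nat_lit 608) (nat_lit 0) (XT.lf (nat_lit 0) (nat_lit 4893118826) (nat_lit 608) (nat_lit 2083514060) (nat_lit 684) (nat_lit 875263222) (nat_lit 211) (nat_lit 5) (nat_lit 219) (nat_lit 5) (nat_lit 220) (nat_lit 5) (nat_lit 331) (nat_lit 300) (nat_lit 269)) (XT.nd (nat_lit 78) (nat_lit 0) (nat_lit 0) (XT.lf (nat_lit 0) (nat_lit 1545523729) (nat_lit 608) (nat_lit 5957324760) (nat_lit 76) (nat_lit 443680682) (nat_lit 203) (nat_lit 5) (nat_lit 211) (nat_lit 5) (nat_lit 204) (nat_lit 5) (nat_lit 332) (nat_lit 300) (nat_lit 268)) (XT.lf (nat_lit 0) (nat_lit 4010668951) (nat_lit 608) (nat_lit 991522636) (nat_lit 76) (nat_lit 3041911362) (nat_lit 203) (nat_lit 5) (nat_lit 211) (nat_lit 5) (nat_lit 204) (nat_lit 5) (nat_lit 333) (nat_lit 300) (nat_lit 267)))) (XT.nd (nat_lit 156) (nat_lit 532) (nat_lit 0) (XT.nd (nat_lit 78) (nat_lit 608) (nat_lit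 0) (XT.lf (nat_lit 0) (nat_lit 4140847970) (nat_lit 608) (nat_lit 2389039549) (nat_lit 684) (nat_lit 1615353145) (nat_lit 195) (nat_lit 5) (nat_lit 203) (nat_lit 5) (nat_lit 204) (nat_lit 5) (nat_lit 334) (nat_lit 300) (nat_lit 266)) (XT.lf (nat_lit 0) (nat_lit 823331463) (nat_lit 608) (nat_lit 7104997470) (nat_lit 76) (nat_lit 321914917) (nat_lit 187) (nat_lit 5) (nat_lit 195) (nat_lit 5) (nat_lit 188) (nat_lit 5) (nat_lit 335) (nat_lit 300) (nat_lit 265))) (XT.nd (nat_lit 78) (nat_lit 532) (nat_lit 0) (XT.lf (nat_lit 0) (nat_lit 3309100388) (nat_lit 608) (nat_lit 1930678922) (nat_lit 76) (nat_lit 3117983163) (nat_lit 187) (nat_lit 5) (nat_lit 195) (nat_lit 5) (nat_lit 188) (nat_lit 5) (nat_lit 336) (nat_lit 300) (nat_lit 264)) (XT.lf (nat_lit 0) (nat_lit 3402241869) (nat_lit 532) (nat_lit 2443497216) (nat_lit 608) (nat_lit 2623514467) (nat_lit 180) (nat_lit 5) (nat_lit 187) (nat_lit 5) (nat_lit 188) (nat_lit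 5) (nat_lit 337) (nat_lit 300) (nat_lit 263))))))))
noncomputable def xc105 : XT := (XT.nd (nat_lit 2028) (nat_lit 3496) (nat_lit 0) (XT.nd (nat_lit 1014) (nat_lit 2660) (nat_lit 0) (XT.nd (nat_lit 468) (nat_lit 1748) (nat_lit 0) (XT.nd (nat_lit 234) (nat_lit 988) (nat_lit 0) (XT.nd (nat_lit 78) (nat_lit 532) (nat_lit 0) (XT.lf (nat_lit 0) (nat_lit 288433033) (nat_lit 456) (nat_lit 8141270952) (nat_lit 532) (nat_lit 155283324) (nat_lit 174) (nat_lit 5) (nat_lit 180) (nat_lit 5) (nat_lit 181) (nat_lit 5) (nat_lit 338) (nat_lit 300) (nat_lit 262)) (XT.nd (nat_lit 78) (nat_lit 456) (nat_lit 0) (XT.lf (nat_lit 0) (nat_lit 2361283313) (nat_lit 532) (nat_lit 2906420296) (nat_lit 76) (nat_lit 3435207849) (nat_lit 173) (nat_lit 5) (nat_lit 180) (nat_lit 5) (nat_lit 174) (nat_lit 5) (nat_lit 339) (nat_lit 300) (nat_lit 261)) (XT.lf (nat_lit 0) (nat_lit 2632604075) (nat_lit 456) (nat_lit 2289530847) (nat_lit 532)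 (nat_lit 3903066822) (nat_lit 167) (nat_lit 5) (nat_lit 173) (nat_lit 5) (nat_lit 174) (nat_lit 5) (nat_lit 340) (nat_lit 300) (nat_lit 260)))) (XT.nd (nat_lit 78) (nat_lit 988) (nat_lit 0) (XT.lf (nat_lit 0) (nat_lit 7544399831) (nat_lit 532) (nat_lit 624216747) (nat_lit 76) (nat_lit 783037408) (nat_lit 167) (nat_lit 5) (nat_lit 174) (nat_lit 5) (nat_lit 168) (nat_lit 5) (nat_lit 341) (nat_lit 300) (nat_lit 259)) (XT.nd (nat_lit 78) (nat_lit 456) (nat_lit 0) (XT.lf (nat_lit 0) (nat_lit 1161859196) (nat_lit 532) (nat_lit 3965795343) (nat_lit 76) (nat_lit 3953304984) (nat_lit 160) (nat_lit 5) (nat_lit 167) (nat_lit 5) (nat_lit 161) (nat_lit 5) (nat_lit 342) (nat_lit 300) (nat_lit 258)) (XT.lf (nat_lit 0) (nat_lit 1784263529) (nat_lit 456) (nat_lit 1968388375) (nat_lit 532) (nat_lit 5461915874) (nat_lit 154) (nat_lit 5) (nat_lit 160) (nat_lit 5) (nat_lit 161) (nat_lit 5) (nat_lit 343) (nat_lit 300) (nat_lit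 257))))) (XT.nd (nat_lit 234) (nat_lit 836) (nat_lit 0) (XT.nd (nat_lit 78) (nat_lit 912) (nat_lit 0) (XT.lf (nat_lit 0) (nat_lit 6424113391) (nat_lit 532) (nat_lit 1638541815) (nat_lit 76) (nat_lit 1289468162) (nat_lit 154) (nat_lit 5) (nat_lit 161) (nat_lit 5) (nat_lit 155) (nat_lit 5) (nat_lit 344) (nat_lit 300) (nat_lit 256)) (XT.nd (nat_lit 78) (nat_lit 532) (nat_lit 0) (XT.lf (nat_lit 0) (nat_lit 4330905772) (nat_lit 380) (nat_lit 4857528628) (nat_lit 456) (nat_lit 305016392) (nat_lit 149) (nat_lit 5) (nat_lit 154) (nat_lit 5) (nat_lit 155) (nat_lit 5) (nat_lit 345) (nat_lit 300) (nat_lit 255)) (XT.lf (nat_lit 0) (nat_lit 805547487) (nat_lit 456) (nat_lit 1520732525) (nat_lit 532) (nat_lit 7312780570) (nat_lit 142) (nat_lit 5) (nat_lit 148) (nat_lit 5) (nat_lit 149) (nat_lit 5) (nat_lit 346) (nat_lit 300) (nat_lit 254)))) (XT.nd (nat_lit 156) (nat_lit 456) (nat_lit 0) (XT.nd (nat_lit 78) (nat_lit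 380) (nat_lit 0) (XT.lf (nat_lit 0) (nat_lit 5054063409) (nat_lit 532) (nat_lit 2813102124) (nat_lit 76) (nat_lit 1921096552) (nat_lit 142) (nat_lit 5) (nat_lit 149) (nat_lit 5) (nat_lit 143) (nat_lit 5) (nat_lit 347) (nat_lit 300) (nat_lit 253)) (XT.lf (nat_lit 0) (nat_lit 3378418865) (nat_lit 380) (nat_lit 4486785392) (nat_lit 456) (nat_lit 2076713324) (nat_lit 137) (nat_lit 5) (nat_lit 142) (nat_lit 5) (nat_lit 143) (nat_lit 5) (nat_lit 348) (nat_lit 300) (nat_lit 252))) (XT.nd (nat_lit 78) (nat_lit 380) (nat_lit 0) (XT.lf (nat_lit 0) (nat_lit 630582691) (nat_lit 456) (nat_lit 353320470) (nat_lit 76) (nat_lit 9116622175) (nat_lit 136) (nat_lit 5) (nat_lit 142) (nat_lit 5) (nat_lit 137) (nat_lit 5) (nat_lit 349) (nat_lit 300) (nat_lit 251)) (XT.lf (nat_lit 0) (nat_lit 3417309727) (nat_lit 456) (nat_lit 4206392702) (nat_lit 76) (nat_lit 2638395147) (nat_lit 131) (nat_lit 5) (nat_lit 137) (nat_lit 5) (nat_lit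 132) (nat_lit 5) (nat_lit 350) (nat_lit 300) (nat_lit 250)))))) (XT.nd (nat_lit 468) (nat_lit 1292) (nat_lit 0) (XT.nd (nat_lit 234) (nat_lit 608) (nat_lit 0) (XT.nd (nat_lit 78) (nat_lit 456) (nat_lit 0) (XT.lf (nat_lit 0) (nat_lit 2209620633) (nat_lit 304) (nat_lit 4068811298) (nat_lit 380) (nat_lit 4150382279) (nat_lit 127) (nat_lit 5) (nat_lit 131) (nat_lit 5) (nat_lit 132) (nat_lit 5) (nat_lit 351) (nat_lit 300) (nat_lit 249)) (XT.nd (nat_lit 78) (nat_lit 456) (nat_lit 0) (XT.lf (nat_lit 0) (nat_lit 8845371318) (nat_lit 304) (nat_lit 379409781) (nat_lit 380) (nat_lit 1375789861) (nat_lit 127) (nat_lit 5) (nat_lit 131) (nat_lit 5) (nat_lit 132) (nat_lit 5) (nat_lit 352) (nat_lit 300) (nat_lit 248)) (XT.lf (nat_lit 0) (nat_lit 1491554221) (nat_lit 456) (nat_lit 5883769969) (nat_lit 76) (nat_lit 3400595062) (nat_lit 121) (nat_lit 5) (nat_lit 127) (nat_lit 5) (nat_lit 122) (nat_lit 5) (nat_lit 353) (nat_lit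 300) (nat_lit 247)))) (XT.nd (nat_lit 78) (nat_lit 304) (nat_lit 0) (XT.lf (nat_lit 0) (nat_lit 757473819) (nat_lit 304) (nat_lit 3646992815) (nat_lit 380) (nat_lit 6552055391) (nat_lit 117) (nat_lit 5) (nat_lit 121) (nat_lit 5) (nat_lit 122) (nat_lit 5) (nat_lit 354) (nat_lit 300) (nat_lit 246)) (XT.nd (nat_lit 78) (nat_lit 304) (nat_lit 0) (XT.lf (nat_lit 0) (nat_lit 7425382819) (nat_lit 380) (nat_lit 3483807181) (nat_lit 76) (nat_lit 232752529) (nat_lit 117) (nat_lit 5) (nat_lit 122) (nat_lit 5) (nat_lit 118) (nat_lit 5) (nat_lit 355) (nat_lit 300) (nat_lit 245)) (XT.lf (nat_lit 0) (nat_lit 3405797074) (nat_lit 304) (nat_lit 7159934673) (nat_lit 380) (nat_lit 766347352) (nat_lit 113) (nat_lit 5) (nat_lit 117) (nat_lit 5) (nat_lit 118) (nat_lit 5) (nat_lit 356) (nat_lit 300) (nat_lit 244))))) (XT.nd (nat_lit 234) (nat_lit 608) (nat_lit 0) (XT.nd (nat_lit 78) (nat_lit 608) (nat_lit 0) (XT.lf (nat_lit 0)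 (nat_lit 2223727386) (nat_lit 380) (nat_lit 1033242663) (nat_lit 76) (nat_lit 8270440071) (nat_lit 112) (nat_lit 5) (nat_lit 117) (nat_lit 5) (nat_lit 113) (nat_lit 5) (nat_lit 357) (nat_lit 300) (nat_lit 243)) (XT.nd (nat_lit 78) (nat_lit 304) (nat_lit 0) (XT.lf (nat_lit 0) (nat_lit 5316111067) (nat_lit 380) (nat_lit 5613149203) (nat_lit 76) (nat_lit 798289004) (nat_lit 108) (nat_lit 5) (nat_lit 113) (nat_lit 5) (nat_lit 109) (nat_lit 5) (nat_lit 358) (nat_lit 300) (nat_lit 242)) (XT.lf (nat_lit 0) (nat_lit 1504835145) (nat_lit 304) (nat_lit 7015437145) (nat_lit 380) (nat_lit 3412865778) (nat_lit 104) (nat_lit 5) (nat_lit 108) (nat_lit 5) (nat_lit 109) (nat_lit 5) (nat_lit 359) (nat_lit 300) (nat_lit 241)))) (XT.nd (nat_lit 156) (nat_lit 304) (nat_lit 0) (XT.nd (nat_lit 78) (nat_lit 304) (nat_lit 0) (XT.lf (nat_lit 0) (nat_lit 8895524495) (nat_lit 304) (nat_lit 2944048595) (nat_lit 380) (nat_lit 304766185)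 (nat_lit 104) (nat_lit 5) (nat_lit 108) (nat_lit 5) (nat_lit 109) (nat_lit 5) (nat_lit 360) (nat_lit 300) (nat_lit 240)) (XT.lf (nat_lit 0) (nat_lit 2855449629) (nat_lit 304) (nat_lit 8229416222) (nat_lit 76) (nat_lit 1275727800) (nat_lit 100) (nat_lit 5) (nat_lit 104) (nat_lit 5) (nat_lit 101) (nat_lit 5) (nat_lit 361) (nat_lit 300) (nat_lit 239))) (XT.nd (nat_lit 78) (nat_lit 304) (nat_lit 0) (XT.lf (nat_lit 0) (nat_lit 6130058941) (nat_lit 304) (nat_lit 871088387) (nat_lit 76) (nat_lit 5581340331) (nat_lit 100) (nat_lit 5) (nat_lit 104) (nat_lit 5) (nat_lit 101) (nat_lit 5) (nat_lit 362) (nat_lit 300) (nat_lit 238)) (XT.lf (nat_lit 0) (nat_lit 6786622132) (nat_lit 304) (nat_lit 2746018699) (nat_lit 380) (nat_lit 3277519124) (nat_lit 96) (nat_lit 5) (nat_lit 100) (nat_lit 5) (nat_lit 101) (nat_lit 5) (nat_lit 363) (nat_lit 300) (nat_lit 237))))))) (XT.nd (nat_lit 1014) (nat_lit 1444) (nat_lit 0) (XT.nd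 (nat_lit 468) (nat_lit 912) (nat_lit 0) (XT.nd (nat_lit 234) (nat_lit 532) (nat_lit 0) (XT.nd (nat_lit 78) (nat_lit 380) (nat_lit 0) (XT.lf (nat_lit 0) (nat_lit 1608939563) (nat_lit 228) (nat_lit 11433286986) (nat_lit 304) (nat_lit 2301186) (nat_lit 93) (nat_lit 5) (nat_lit 96) (nat_lit 5) (nat_lit 97) (nat_lit 5) (nat_lit 364) (nat_lit 300) (nat_lit 236)) (XT.nd (nat_lit 78) (nat_lit 304) (nat_lit 0) (XT.lf (nat_lit 0) (nat_lit 3359002286) (nat_lit 304) (nat_lit 3804766101) (nat_lit 76) (nat_lit 6119589956) (nat_lit 92) (nat_lit 5) (nat_lit 96) (nat_lit 5) (nat_lit 93) (nat_lit 5) (nat_lit 365) (nat_lit 300) (nat_lit 235)) (XT.lf (nat_lit 0) (nat_lit 4081856261) (nat_lit 304) (nat_lit 2744495444) (nat_lit 380) (nat_lit 6702855881) (nat_lit 88) (nat_lit 5) (nat_lit 92) (nat_lit 5) (nat_lit 93) (nat_lit 5) (nat_lit 366) (nat_lit 300) (nat_lit 234)))) (XT.nd (nat_lit 78) (nat_lit 532) (nat_lit 0) (XT.lf (nat_lit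 0) (nat_lit 10420219459) (nat_lit 380) (nat_lit 1569034742) (nat_lit 76) (nat_lit 1792514811) (nat_lit 88) (nat_lit 5) (nat_lit 93) (nat_lit 5) (nat_lit 89) (nat_lit 5) (nat_lit 367) (nat_lit 300) (nat_lit 233)) (XT.nd (nat_lit 78) (nat_lit 228) (nat_lit 0) (XT.lf (nat_lit 0) (nat_lit 136875673) (nat_lit 304) (nat_lit 7445888127) (nat_lit 76) (nat_lit 6457378167) (nat_lit 84) (nat_lit 5) (nat_lit 88) (nat_lit 5) (nat_lit 85) (nat_lit 5) (nat_lit 368) (nat_lit 300) (nat_lit 232)) (XT.lf (nat_lit 0) (nat_lit 656504915) (nat_lit 228) (nat_lit 3005932880) (nat_lit 304) (nat_lit 10643148049) (nat_lit 81) (nat_lit 5) (nat_lit 84) (nat_lit 5) (nat_lit 85) (nat_lit 5) (nat_lit 369) (nat_lit 300) (nat_lit 231))))) (XT.nd (nat_lit 234) (nat_lit 608) (nat_lit 0) (XT.nd (nat_lit 78) (nat_lit 304) (nat_lit 0) (XT.lf (nat_lit 0) (nat_lit 7353829842) (nat_lit 304) (nat_lit 5491262857) (nat_lit 76) (nat_lit 1732108792)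 (nat_lit 81) (nat_lit 5) (nat_lit 85) (nat_lit 5) (nat_lit 82) (nat_lit 5) (nat_lit 370) (nat_lit 300) (nat_lit 230)) (XT.nd (nat_lit 78) (nat_lit 76) (nat_lit 0) (XT.lf (nat_lit 0) (nat_lit 2887421649) (nat_lit 228) (nat_lit 8294709329) (nat_lit 304) (nat_lit 3674059652) (nat_lit 78) (nat_lit 5) (nat_lit 81) (nat_lit 5) (nat_lit 82) (nat_lit 5) (nat_lit 371) (nat_lit 300) (nat_lit 229)) (XT.lf (nat_lit 0) (nat_lit 6855379) (nat_lit 304) (nat_lit 3562813974) (nat_lit 76) (nat_lit 11573151810) (nat_lit 77) (nat_lit 5) (nat_lit 81) (nat_lit 5) (nat_lit 78) (nat_lit 5) (nat_lit 372) (nat_lit 300) (nat_lit 228)))) (XT.nd (nat_lit 156) (nat_lit 380) (nat_lit 0) (XT.nd (nat_lit 78) (nat_lit 0) (nat_lit 0) (XT.lf (nat_lit 0) (nat_lit 3756280322) (nat_lit 304) (nat_lit 10340004435) (nat_lit 76) (nat_lit 1339725917) (nat_lit 74) (nat_lit 5) (nat_lit 78) (nat_lit 5) (nat_lit 75) (nat_lit 5) (nat_lit 373) (nat_lit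 300) (nat_lit 227)) (XT.lf (nat_lit 0) (nat_lit 7659777529) (nat_lit 304) (nat_lit 1734348855) (nat_lit 76) (nat_lit 6342630726) (nat_lit 74) (nat_lit 5) (nat_lit 78) (nat_lit 5) (nat_lit 75) (nat_lit 5) (nat_lit 374) (nat_lit 300) (nat_lit 226))) (XT.nd (nat_lit 78) (nat_lit 228) (nat_lit 0) (XT.lf (nat_lit 0) (nat_lit 7222492766) (nat_lit 152) (nat_lit 4498102841) (nat_lit 228) (nat_lit 4324732514) (nat_lit 72) (nat_lit 5) (nat_lit 74) (nat_lit 5) (nat_lit 75) (nat_lit 5) (nat_lit 375) (nat_lit 300) (nat_lit 225)) (XT.lf (nat_lit 0) (nat_lit 68747939) (nat_lit 228) (nat_lit 15829079522) (nat_lit 304) (nat_lit 465499537) (nat_lit 69) (nat_lit 5) (nat_lit 72) (nat_lit 5) (nat_lit 73) (nat_lit 5) (nat_lit 376) (nat_lit 300) (nat_lit 224)))))) (XT.nd (nat_lit 546) (nat_lit 760) (nat_lit 0) (XT.nd (nat_lit 234) (nat_lit 456) (nat_lit 0) (XT.nd (nat_lit 78) (nat_lit 152) (nat_lit 0) (XT.lf (nat_lit 0) (nat_lit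 3546637863) (nat_lit 304) (nat_lit 7407663721) (nat_lit 76) (nat_lit 5732391799) (nat_lit 68) (nat_lit 5) (nat_lit 72) (nat_lit 5) (nat_lit 69) (nat_lit 5) (nat_lit 377) (nat_lit 300) (nat_lit 223)) (XT.nd (nat_lit 78) (nat_lit 0) (nat_lit 0) (XT.lf (nat_lit 0) (nat_lit 1728122013) (nat_lit 152) (nat_lit 5930214324) (nat_lit 228) (nat_lit 9361637262) (nat_lit 66) (nat_lit 5) (nat_lit 68) (nat_lit 5) (nat_lit 69) (nat_lit 5) (nat_lit 378) (nat_lit 300) (nat_lit 222)) (XT.lf (nat_lit 0) (nat_lit 11243440436) (nat_lit 152) (nat_lit 697060783) (nat_lit 228) (nat_lit 5421345013) (nat_lit 66) (nat_lit 5) (nat_lit 68) (nat_lit 5) (nat_lit 69) (nat_lit 5) (nat_lit 379) (nat_lit 300) (nat_lit 221)))) (XT.nd (nat_lit 156) (nat_lit 152) (nat_lit 0) (XT.nd (nat_lit 78) (nat_lit 76) (nat_lit 0) (XT.lf (nat_lit 0) (nat_lit 3303923308) (nat_lit 228) (nat_lit 13097024349) (nat_lit 304) (nat_lit 1311540143) (nat_lit 63)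 (nat_lit 5) (nat_lit 66) (nat_lit 5) (nat_lit 67) (nat_lit 5) (nat_lit 380) (nat_lit 300) (nat_lit 220)) (XT.lf (nat_lit 0) (nat_lit 2906872358) (nat_lit 304) (nat_lit 5018823128) (nat_lit 76) (nat_lit 10145847745) (nat_lit 62) (nat_lit 5) (nat_lit 66) (nat_lit 5) (nat_lit 63) (nat_lit 5) (nat_lit 381) (nat_lit 300) (nat_lit 219))) (XT.nd (nat_lit 78) (nat_lit 0) (nat_lit 0) (XT.lf (nat_lit 0) (nat_lit 4686636822) (nat_lit 152) (nat_lit 2557702618) (nat_lit 228) (nat_lit 11196082072) (nat_lit 60) (nat_lit 5) (nat_lit 62) (nat_lit 5) (nat_lit 63) (nat_lit 5) (nat_lit 382) (nat_lit 300) (nat_lit 218)) (XT.lf (nat_lit 0) (nat_lit 11765652087) (nat_lit 228) (nat_lit 4106381164) (nat_lit 76) (nat_lit 2946727690) (nat_lit 60) (nat_lit 5) (nat_lit 63) (nat_lit 5) (nat_lit 61) (nat_lit 5) (nat_lit 383) (nat_lit 300) (nat_lit 217))))) (XT.nd (nat_lit 234) (nat_lit 380) (nat_lit 0) (XT.nd (nat_lit 78) (nat_lit 228)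 (nat_lit 0) (XT.lf (nat_lit 0) (nat_lit 5876478417) (nat_lit 152) (nat_lit 10602672986) (nat_lit 228) (nat_lit 2727608991) (nat_lit 58) (nat_lit 5) (nat_lit 60) (nat_lit 5) (nat_lit 61) (nat_lit 5) (nat_lit 384) (nat_lit 300) (nat_lit 216)) (XT.nd (nat_lit 78) (nat_lit 152) (nat_lit 0) (XT.lf (nat_lit 0) (nat_lit 1710625926) (nat_lit 228) (nat_lit 3422569298) (nat_lit 76) (nat_lit 14472211800) (nat_lit 57) (nat_lit 5) (nat_lit 60) (nat_lit 5) (nat_lit 58) (nat_lit 5) (nat_lit 385) (nat_lit 300) (nat_lit 215)) (XT.lf (nat_lit 0) (nat_lit 6274100383) (nat_lit 228) (nat_lit 13172683843) (nat_lit 76) (nat_lit 567016933) (nat_lit 55) (nat_lit 5) (nat_lit 58) (nat_lit 5) (nat_lit 56) (nat_lit 5) (nat_lit 386) (nat_lit 300) (nat_lit 214)))) (XT.nd (nat_lit 156) (nat_lit 228) (nat_lit 0) (XT.nd (nat_lit 78) (nat_lit 152) (nat_lit 0) (XT.lf (nat_lit 0) (nat_lit 11035888427) (nat_lit 228) (nat_lit 3043982635) (nat_lit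 76) (nat_lit 6352739334) (nat_lit 55) (nat_lit 5) (nat_lit 58) (nat_lit 5) (nat_lit 56) (nat_lit 5) (nat_lit 387) (nat_lit 300) (nat_lit 213)) (XT.lf (nat_lit 0) (nat_lit 7493761047) (nat_lit 152) (nat_lit 8495194175) (nat_lit 228) (nat_lit 4873581336) (nat_lit 53) (nat_lit 5) (nat_lit 55) (nat_lit 5) (nat_lit 56) (nat_lit 5) (nat_lit 388) (nat_lit 300) (nat_lit 212))) (XT.nd (nat_lit 78) (nat_lit 228) (nat_lit 0) (XT.lf (nat_lit 0) (nat_lit 18369389310) (nat_lit 152) (nat_lit 2728650397) (nat_lit 228) (nat_lit 207103267) (nat_lit 53) (nat_lit 5) (nat_lit 55) (nat_lit 5) (nat_lit 56) (nat_lit 5) (nat_lit 389) (nat_lit 300) (nat_lit 211)) (XT.lf (nat_lit 0) (nat_lit 4594391309) (nat_lit 228) (nat_lit 13910118964) (nat_lit 76) (nat_lit 3252652720) (nat_lit 50) (nat_lit 5) (nat_lit 53) (nat_lit 5) (nat_lit 51) (nat_lit 5) (nat_lit 390) (nat_lit 300) (nat_lit 210))))))))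
noncomputable def xc106 : XT := (XT.nd (nat_lit 2028) (nat_lit 912) (nat_lit 0) (XT.nd (nat_lit 1014) (nat_lit 836) (nat_lit 0) (XT.nd (nat_lit 468) (nat_lit 380) (nat_lit 0) (XT.nd (nat_lit 234) (nat_lit 380) (nat_lit 0) (XT.nd (nat_lit 78) (nat_lit 152) (nat_lit 0) (XT.lf (nat_lit 0) (nat_lit 9569983652) (nat_lit 228) (nat_lit 3277759103) (nat_lit 76) (nat_lit 9373917672) (nat_lit 50) (nat_lit 5) (nat_lit 53) (nat_lit 5) (nat_lit 51) (nat_lit 5) (nat_lit 391) (nat_lit 300) (nat_lit 209)) (XT.nd (nat_lit 78) (nat_lit 0) (nat_lit 0) (XT.lf (nat_lit 0) (nat_lit 7786633127) (nat_lit 152) (nat_lit 6960983124) (nat_lit 228) (nat_lit 7950898016) (nat_lit 48) (nat_lit 5) (nat_lit 50) (nat_lit 5) (nat_lit 51) (nat_lit 5) (nat_lit 392) (nat_lit 300) (nat_lit 208)) (XT.lf (nat_lit 0) (nat_lit 19211645503) (nat_lit 152) (nat_lit 880226794) (nat_lit 228) (nat_lit 3097467113) (nat_lit 48) (nat_lit 5) (nat_lit 50) (nat_lit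 5) (nat_lit 51) (nat_lit 5) (nat_lit 393) (nat_lit 300) (nat_lit 207)))) (XT.nd (nat_lit 78) (nat_lit 152) (nat_lit 0) (XT.lf (nat_lit 0) (nat_lit 1966412910) (nat_lit 228) (nat_lit 16373040681) (nat_lit 76) (nat_lit 5351833030) (nat_lit 45) (nat_lit 5) (nat_lit 48) (nat_lit 5) (nat_lit 46) (nat_lit 5) (nat_lit 394) (nat_lit 300) (nat_lit 206)) (XT.nd (nat_lit 78) (nat_lit 152) (nat_lit 0) (XT.lf (nat_lit 0) (nat_lit 7147955779) (nat_lit 228) (nat_lit 5250186278) (nat_lit 76) (nat_lit 11808394213) (nat_lit 45) (nat_lit 5) (nat_lit 48) (nat_lit 5) (nat_lit 46) (nat_lit 5) (nat_lit 395) (nat_lit 300) (nat_lit 205)) (XT.lf (nat_lit 0) (nat_lit 6292323090) (nat_lit 152) (nat_lit 6232449976) (nat_lit 228) (nat_lit 12211279517) (nat_lit 43) (nat_lit 5) (nat_lit 45) (nat_lit 5) (nat_lit 46) (nat_lit 5) (nat_lit 396) (nat_lit 300) (nat_lit 204))))) (XT.nd (nat_lit 234) (nat_lit 228) (nat_lit 0) (XT.nd (nat_lit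 78) (nat_lit 152) (nat_lit 0) (XT.lf (nat_lit 0) (nat_lit 18097012150) (nat_lit 228) (nat_lit 7029711144) (nat_lit 76) (nat_lit 153711471) (nat_lit 43) (nat_lit 5) (nat_lit 46) (nat_lit 5) (nat_lit 44) (nat_lit 4) (nat_lit 397) (nat_lit 300) (nat_lit 203)) (XT.nd (nat_lit 78) (nat_lit 76) (nat_lit 0) (XT.lf (nat_lit 0) (nat_lit 4721307896) (nat_lit 76) (nat_lit 19202240326) (nat_lit 152) (nat_lit 1914990085) (nat_lit 42) (nat_lit 5) (nat_lit 43) (nat_lit 5) (nat_lit 44) (nat_lit 4) (nat_lit 398) (nat_lit 300) (nat_lit 202)) (XT.lf (nat_lit 0) (nat_lit 3494742307) (nat_lit 152) (nat_lit 9512643929) (nat_lit 76) (nat_lit 13403436584) (nat_lit 41) (nat_lit 5) (nat_lit 43) (nat_lit 5) (nat_lit 42) (nat_lit 5) (nat_lit 399) (nat_lit 300) (nat_lit 201)))) (XT.nd (nat_lit 156) (nat_lit 76) (nat_lit 0) (XT.nd (nat_lit 78) (nat_lit 0) (nat_lit 0) (XT.lf (nat_lit 0) (nat_lit 2433765969) (nat_lit 152) (nat_lit 6598566022)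 (nat_lit 228) (nat_lit 17967256891) (nat_lit 39) (nat_lit 5) (nat_lit 41) (nat_lit 5) (nat_lit 42) (nat_lit 5) (nat_lit 400) (nat_lit 300) (nat_lit 200)) (XT.lf (nat_lit 0) (nat_lit 14813827233) (nat_lit 228) (nat_lit 12705475838) (nat_lit 76) (nat_lit 84384885) (nat_lit 39) (nat_lit 5) (nat_lit 42) (nat_lit 5) (nat_lit 40) (nat_lit 4) (nat_lit 401) (nat_lit 300) (nat_lit 199))) (XT.nd (nat_lit 78) (nat_lit 76) (nat_lit 0) (XT.lf (nat_lit 0) (nat_lit 20815404058) (nat_lit 228) (nat_lit 588565665) (nat_lit 76) (nat_lit 6820544442) (nat_lit 39) (nat_lit 5) (nat_lit 42) (nat_lit 5) (nat_lit 40) (nat_lit 4) (nat_lit 402) (nat_lit 300) (nat_lit 198)) (XT.lf (nat_lit 0) (nat_lit 12094940502) (nat_lit 76) (nat_lit 15000200575) (nat_lit 152) (nat_lit 1765883868) (nat_lit 38) (nat_lit 5) (nat_lit 39) (nat_lit 5) (nat_lit 40) (nat_lit 4) (nat_lit 403) (nat_lit 300) (nat_lit 197)))))) (XT.nd (nat_lit 468) (nat_lit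 456) (nat_lit 0) (XT.nd (nat_lit 234) (nat_lit 152) (nat_lit 0) (XT.nd (nat_lit 78) (nat_lit 152) (nat_lit 0) (XT.lf (nat_lit 0) (nat_lit 3955560438) (nat_lit 152) (nat_lit 4417361381) (nat_lit 76) (nat_lit 21142908683) (nat_lit 37) (nat_lit 5) (nat_lit 39) (nat_lit 5) (nat_lit 38) (nat_lit 5) (nat_lit 404) (nat_lit 300) (nat_lit 196)) (XT.nd (nat_lit 78) (nat_lit 0) (nat_lit 0) (XT.lf (nat_lit 0) (nat_lit 8416569296) (nat_lit 152) (nat_lit 1459902717) (nat_lit 228) (nat_lit 20311387100) (nat_lit 35) (nat_lit 5) (nat_lit 37) (nat_lit 5) (nat_lit 38) (nat_lit 5) (nat_lit 405) (nat_lit 300) (nat_lit 195)) (XT.lf (nat_lit 0) (nat_lit 16056952824) (nat_lit 228) (nat_lit 9239575344) (nat_lit 76) (nat_lit 5581064975) (nat_lit 35) (nat_lit 5) (nat_lit 38) (nat_lit 5) (nat_lit 36) (nat_lit 4) (nat_lit 406) (nat_lit 300) (nat_lit 194)))) (XT.nd (nat_lit 78) (nat_lit 76) (nat_lit 0) (XT.lf (nat_lit 0) (nat_lit 3694584589)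 (nat_lit 76) (nat_lit 18761224107) (nat_lit 152) (nat_lit 9131224415) (nat_lit 34) (nat_lit 5) (nat_lit 35) (nat_lit 5) (nat_lit 36) (nat_lit 4) (nat_lit 407) (nat_lit 300) (nat_lit 193)) (XT.nd (nat_lit 78) (nat_lit 76) (nat_lit 0) (XT.lf (nat_lit 0) (nat_lit 17175330767) (nat_lit 76) (nat_lit 11947791550) (nat_lit 152) (nat_lit 3192341854) (nat_lit 34) (nat_lit 5) (nat_lit 35) (nat_lit 5) (nat_lit 36) (nat_lit 4) (nat_lit 408) (nat_lit 300) (nat_lit 192)) (XT.lf (nat_lit 0) (nat_lit 2851151576) (nat_lit 152) (nat_lit 2063635989) (nat_lit 76) (nat_lit 28150614200) (nat_lit 33) (nat_lit 5) (nat_lit 35) (nat_lit 5) (nat_lit 34) (nat_lit 5) (nat_lit 409) (nat_lit 300) (nat_lit 191))))) (XT.nd (nat_lit 234) (nat_lit 228) (nat_lit 0) (XT.nd (nat_lit 78) (nat_lit 76) (nat_lit 0) (XT.lf (nat_lit 0) (nat_lit 9130675389) (nat_lit 228) (nat_lit 22287781831) (nat_lit 76) (nat_lit 2414867823) (nat_lit 31) (nat_lit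 5) (nat_lit 34) (nat_lit 5) (nat_lit 32) (nat_lit 4) (nat_lit 410) (nat_lit 300) (nat_lit 190)) (XT.nd (nat_lit 78) (nat_lit 76) (nat_lit 0) (XT.lf (nat_lit 0) (nat_lit 15652345929) (nat_lit 228) (nat_lit 9096680507) (nat_lit 76) (nat_lit 9873649112) (nat_lit 31) (nat_lit 5) (nat_lit 34) (nat_lit 5) (nat_lit 32) (nat_lit 4) (nat_lit 411) (nat_lit 300) (nat_lit 189)) (XT.lf (nat_lit 0) (nat_lit 4550353103) (nat_lit 76) (nat_lit 17847573433) (nat_lit 152) (nat_lit 13036934525) (nat_lit 30) (nat_lit 5) (nat_lit 31) (nat_lit 5) (nat_lit 32) (nat_lit 4) (nat_lit 412) (nat_lit 300) (nat_lit 188)))) (XT.nd (nat_lit 156) (nat_lit 228) (nat_lit 0) (XT.nd (nat_lit 78) (nat_lit 0) (nat_lit 0) (XT.lf (nat_lit 0) (nat_lit 18764956561) (nat_lit 76) (nat_lit 10657474534) (nat_lit 152) (nat_lit 6846686572) (nat_lit 30) (nat_lit 5) (nat_lit 31) (nat_lit 5) (nat_lit 32) (nat_lit 4) (nat_lit 413) (nat_lit 300) (nat_lit 187))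 (XT.lf (nat_lit 0) (nat_lit 33378508615) (nat_lit 76) (nat_lit 3264305766) (nat_lit 152) (nat_lit 486035441) (nat_lit 30) (nat_lit 5) (nat_lit 31) (nat_lit 5) (nat_lit 32) (nat_lit 4) (nat_lit 414) (nat_lit 300) (nat_lit 186))) (XT.nd (nat_lit 78) (nat_lit 0) (nat_lit 0) (XT.lf (nat_lit 0) (nat_lit 6077072543) (nat_lit 228) (nat_lit 27516896241) (nat_lit 76) (nat_lit 4414758179) (nat_lit 27) (nat_lit 5) (nat_lit 30) (nat_lit 5) (nat_lit 28) (nat_lit 4) (nat_lit 415) (nat_lit 300) (nat_lit 185)) (XT.lf (nat_lit 0) (nat_lit 12883351418) (nat_lit 228) (nat_lit 13740257138) (nat_lit 76) (nat_lit 12289568078) (nat_lit 27) (nat_lit 5) (nat_lit 30) (nat_lit 5) (nat_lit 28) (nat_lit 4) (nat_lit 416) (nat_lit 300) (nat_lit 184))))))) (XT.nd (nat_lit 1014) (nat_lit 380) (nat_lit 0) (XT.nd (nat_lit 468) (nat_lit 304) (nat_lit 0) (XT.nd (nat_lit 234) (nat_lit 152) (nat_lit 0) (XT.nd (nat_lit 78) (nat_lit 0) (nat_lit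 0) (XT.lf (nat_lit 0) (nat_lit 431863763) (nat_lit 76) (nat_lit 19452009699) (nat_lit 152) (nat_lit 19961186607) (nat_lit 26) (nat_lit 5) (nat_lit 27) (nat_lit 5) (nat_lit 28) (nat_lit 4) (nat_lit 417) (nat_lit 300) (nat_lit 183)) (XT.nd (nat_lit 78) (nat_lit 0) (nat_lit 0) (XT.lf (nat_lit 0) (nat_lit 15284822803) (nat_lit 76) (nat_lit 11934402259) (nat_lit 152) (nat_lit 13581932392) (nat_lit 26) (nat_lit 5) (nat_lit 27) (nat_lit 5) (nat_lit 28) (nat_lit 4) (nat_lit 418) (nat_lit 300) (nat_lit 182)) (XT.lf (nat_lit 0) (nat_lit 30558140233) (nat_lit 76) (nat_lit 4202967109) (nat_lit 152) (nat_lit 7025238121) (nat_lit 26) (nat_lit 5) (nat_lit 27) (nat_lit 5) (nat_lit 28) (nat_lit 4) (nat_lit 419) (nat_lit 300) (nat_lit 181)))) (XT.nd (nat_lit 78) (nat_lit 76) (nat_lit 0) (XT.lf (nat_lit 0) (nat_lit 3495855280) (nat_lit 76) (nat_lit 39089897493) (nat_lit 76) (nat_lit 213642896) (nat_lit 25) (nat_lit 4) (nat_lit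 26) (nat_lit 5) (nat_lit 26) (nat_lit 4) (nat_lit 420) (nat_lit 300) (nat_lit 180)) (XT.nd (nat_lit 78) (nat_lit 0) (nat_lit 0) (XT.lf (nat_lit 0) (nat_lit 6812455379) (nat_lit 152) (nat_lit 25080559170) (nat_lit 76) (nat_lit 11943576074) (nat_lit 24) (nat_lit 5) (nat_lit 26) (nat_lit 5) (nat_lit 25) (nat_lit 4) (nat_lit 421) (nat_lit 300) (nat_lit 179)) (XT.lf (nat_lit 0) (nat_lit 14032201403) (nat_lit 152) (nat_lit 10457085413) (nat_lit 76) (nat_lit 20415937994) (nat_lit 24) (nat_lit 5) (nat_lit 26) (nat_lit 5) (nat_lit 25) (nat_lit 4) (nat_lit 422) (nat_lit 300) (nat_lit 178))))) (XT.nd (nat_lit 234) (nat_lit 228) (nat_lit 0) (XT.nd (nat_lit 78) (nat_lit 0) (nat_lit 0) (XT.lf (nat_lit 0) (nat_lit 4672897399) (nat_lit 76) (nat_lit 16828093984) (nat_lit 152) (nat_lit 24503954651) (nat_lit 23) (nat_lit 5) (nat_lit 24) (nat_lit 5) (nat_lit 25) (nat_lit 4) (nat_lit 423) (nat_lit 300) (nat_lit 177)) (XT.nd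 (nat_lit 78) (nat_lit 0) (nat_lit 0) (XT.lf (nat_lit 0) (nat_lit 20447988696) (nat_lit 76) (nat_lit 8839125831) (nat_lit 152) (nat_lit 17847747799) (nat_lit 23) (nat_lit 5) (nat_lit 24) (nat_lit 5) (nat_lit 25) (nat_lit 4) (nat_lit 424) (nat_lit 300) (nat_lit 176)) (XT.lf (nat_lit 0) (nat_lit 36673856034) (nat_lit 76) (nat_lit 620997766) (nat_lit 152) (nat_lit 11004182805) (nat_lit 23) (nat_lit 5) (nat_lit 24) (nat_lit 5) (nat_lit 25) (nat_lit 4) (nat_lit 425) (nat_lit 300) (nat_lit 175)))) (XT.nd (nat_lit 156) (nat_lit 76) (nat_lit 0) (XT.nd (nat_lit 78) (nat_lit 76) (nat_lit 0) (XT.lf (nat_lit 0) (nat_lit 3866337296) (nat_lit 76) (nat_lit 41777334673) (nat_lit 76) (nat_lit 3851440168) (nat_lit 22) (nat_lit 4) (nat_lit 23) (nat_lit 5) (nat_lit 23) (nat_lit 4) (nat_lit 426) (nat_lit 300) (nat_lit 174)) (XT.lf (nat_lit 0) (nat_lit 3560277507) (nat_lit 152) (nat_lit 30725842089) (nat_lit 76) (nat_lit 16436547770)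 (nat_lit 21) (nat_lit 5) (nat_lit 23) (nat_lit 5) (nat_lit 22) (nat_lit 4) (nat_lit 427) (nat_lit 300) (nat_lit 173))) (XT.nd (nat_lit 78) (nat_lit 76) (nat_lit 0) (XT.lf (nat_lit 0) (nat_lit 11105575434) (nat_lit 152) (nat_lit 15435402758) (nat_lit 76) (nat_lit 25445269208) (nat_lit 21) (nat_lit 5) (nat_lit 23) (nat_lit 5) (nat_lit 22) (nat_lit 4) (nat_lit 428) (nat_lit 300) (nat_lit 172)) (XT.lf (nat_lit 0) (nat_lit 298755931) (nat_lit 76) (nat_lit 18570317954) (nat_lit 152) (nat_lit 34418906972) (nat_lit 20) (nat_lit 5) (nat_lit 21) (nat_lit 5) (nat_lit 22) (nat_lit 4) (nat_lit 429) (nat_lit 300) (nat_lit 171)))))) (XT.nd (nat_lit 546) (nat_lit 228) (nat_lit 0) (XT.nd (nat_lit 234) (nat_lit 152) (nat_lit 0) (XT.nd (nat_lit 78) (nat_lit 0) (nat_lit 0) (XT.lf (nat_lit 0) (nat_lit 16800730535) (nat_lit 76) (nat_lit 10209706881) (nat_lit 152) (nat_lit 27613981329) (nat_lit 20) (nat_lit 5) (nat_lit 21) (nat_lit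 5) (nat_lit 22) (nat_lit 4) (nat_lit 430) (nat_lit 300) (nat_lit 170)) (XT.nd (nat_lit 78) (nat_lit 0) (nat_lit 0) (XT.lf (nat_lit 0) (nat_lit 33777745473) (nat_lit 76) (nat_lit 1607706889) (nat_lit 152) (nat_lit 20615816287) (nat_lit 20) (nat_lit 5) (nat_lit 21) (nat_lit 5) (nat_lit 22) (nat_lit 4) (nat_lit 431) (nat_lit 300) (nat_lit 169)) (XT.lf (nat_lit 0) (nat_lit 44071062752) (nat_lit 152) (nat_lit 6244724668) (nat_lit 0) (nat_lit 7101857443) (nat_lit 20) (nat_lit 5) (nat_lit 22) (nat_lit 4) (nat_lit 20) (nat_lit 4) (nat_lit 432) (nat_lit 300) (nat_lit 168)))) (XT.nd (nat_lit 156) (nat_lit 0) (nat_lit 0) (XT.nd (nat_lit 78) (nat_lit 76) (nat_lit 0) (XT.lf (nat_lit 0) (nat_lit 10381005846) (nat_lit 76) (nat_lit 42741875026) (nat_lit 76) (nat_lit 5750463436) (nat_lit 19) (nat_lit 4) (nat_lit 20) (nat_lit 5) (nat_lit 20) (nat_lit 4) (nat_lit 433) (nat_lit 300) (nat_lit 167)) (XT.lf (nat_lit 0) (nat_lit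 2086705282) (nat_lit 152) (nat_lit 32776959362) (nat_lit 76) (nat_lit 25506844328) (nat_lit 18) (nat_lit 5) (nat_lit 20) (nat_lit 5) (nat_lit 19) (nat_lit 4) (nat_lit 434) (nat_lit 300) (nat_lit 166))) (XT.nd (nat_lit 78) (nat_lit 0) (nat_lit 0) (XT.lf (nat_lit 0) (nat_lit 10033648176) (nat_lit 152) (nat_lit 16665596838) (nat_lit 76) (nat_lit 35211929404) (nat_lit 18) (nat_lit 5) (nat_lit 20) (nat_lit 5) (nat_lit 19) (nat_lit 4) (nat_lit 435) (nat_lit 300) (nat_lit 165)) (XT.lf (nat_lit 0) (nat_lit 18209521429) (nat_lit 152) (nat_lit 88896027) (nat_lit 76) (nat_lit 45199927710) (nat_lit 18) (nat_lit 5) (nat_lit 20) (nat_lit 5) (nat_lit 19) (nat_lit 4) (nat_lit 436) (nat_lit 300) (nat_lit 164))))) (XT.nd (nat_lit 234) (nat_lit 152) (nat_lit 0) (XT.nd (nat_lit 78) (nat_lit 0) (nat_lit 0) (XT.lf (nat_lit 0) (nat_lit 17305316624) (nat_lit 76) (nat_lit 9482501674) (nat_lit 152) (nat_lit 38340599289) (nat_lit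 17) (nat_lit 5) (nat_lit 18) (nat_lit 5) (nat_lit 19) (nat_lit 4) (nat_lit 437) (nat_lit 300) (nat_lit 163)) (XT.nd (nat_lit 78) (nat_lit 0) (nat_lit 0) (XT.lf (nat_lit 0) (nat_lit 35205871050) (nat_lit 76) (nat_lit 409390479) (nat_lit 152) (nat_lit 31192377670) (nat_lit 17) (nat_lit 5) (nat_lit 18) (nat_lit 5) (nat_lit 19) (nat_lit 4) (nat_lit 438) (nat_lit 300) (nat_lit 162)) (XT.lf (nat_lit 0) (nat_lit 44784513775) (nat_lit 152) (nat_lit 14996685008) (nat_lit 0) (nat_lit 8753730022) (nat_lit 17) (nat_lit 5) (nat_lit 19) (nat_lit 4) (nat_lit 17) (nat_lit 4) (nat_lit 439) (nat_lit 300) (nat_lit 161)))) (XT.nd (nat_lit 156) (nat_lit 76) (nat_lit 0) (XT.nd (nat_lit 78) (nat_lit 0) (nat_lit 0) (XT.lf (nat_lit 0) (nat_lit 2127515479) (nat_lit 76) (nat_lit 52117180271) (nat_lit 76) (nat_lit 16068866674) (nat_lit 16) (nat_lit 4) (nat_lit 17) (nat_lit 5) (nat_lit 17) (nat_lit 4) (nat_lit 440) (nat_lit 300) (nat_lit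 160)) (XT.lf (nat_lit 0) (nat_lit 20056523795) (nat_lit 76) (nat_lit 44075039293) (nat_lit 76) (nat_lit 8009706431) (nat_lit 16) (nat_lit 4) (nat_lit 17) (nat_lit 5) (nat_lit 17) (nat_lit 4) (nat_lit 441) (nat_lit 300) (nat_lit 159))) (XT.nd (nat_lit 78) (nat_lit 0) (nat_lit 0) (XT.lf (nat_lit 0) (nat_lit 277154648) (nat_lit 152) (nat_lit 35519232483) (nat_lit 76) (nat_lit 38227589256) (nat_lit 15) (nat_lit 5) (nat_lit 17) (nat_lit 5) (nat_lit 16) (nat_lit 4) (nat_lit 442) (nat_lit 300) (nat_lit 158)) (XT.lf (nat_lit 0) (nat_lit 8643487741) (nat_lit 152) (nat_lit 18551618595) (nat_lit 76) (nat_lit 48765924196) (nat_lit 15) (nat_lit 5) (nat_lit 17) (nat_lit 5) (nat_lit 16) (nat_lit 4) (nat_lit 443) (nat_lit 300) (nat_lit 157))))))))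
noncomputable def xc107 : XT := (XT.nd (nat_lit 37596) (nat_lit 0) (nat_lit 8892) (XT.nd (nat_lit 36504) (nat_lit 0) (nat_lit 19152) (XT.nd (nat_lit 35958) (nat_lit 0) (nat_lit 25308) (XT.nd (nat_lit 35724) (nat_lit 0) (nat_lit 26524) (XT.nd (nat_lit 78) (nat_lit 76) (nat_lit 0) (XT.lf (nat_lit 0) (nat_lit 17252901456) (nat_lit 152) (nat_lit 1090083792) (nat_lit 76) (nat_lit 59613449101) (nat_lit 15) (nat_lit 5) (nat_lit 17) (nat_lit 5) (nat_lit 16) (nat_lit 4) (nat_lit 444) (nat_lit 300) (nat_lit 156)) (XT.nd (nat_lit 78) (nat_lit 0) (nat_lit 0) (XT.lf (nat_lit 0) (nat_lit 17216587204) (nat_lit 76) (nat_lit 9061827746) (nat_lit 152) (nat_lit 53728551554) (nat_lit 14) (nat_lit 5) (nat_lit 15) (nat_lit 5) (nat_lit 16) (nat_lit 4) (nat_lit 445) (nat_lit 300) (nat_lit 155)) (XT.lf (nat_lit 0) (nat_lit 35582933809) (nat_lit 152) (nat_lit 46043459864) (nat_lit 0) (nat_lit 492374476) (nat_lit 14) (nat_lit 5)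 (nat_lit 16) (nat_lit 4) (nat_lit 14) (nat_lit 4) (nat_lit 446) (nat_lit 300) (nat_lit 154)))) (XT.nd (nat_lit 78) (nat_lit 228) (nat_lit 0) (XT.lf (nat_lit 0) (nat_lit 1516312326) (nat_lit 0) (nat_lit 1516312326) (nat_lit 76) (nat_lit 190504867) (nat_lit 366) (nat_lit 5) (nat_lit 366) (nat_lit 3) (nat_lit 367) (nat_lit 0) (nat_lit 301) (nat_lit 301) (nat_lit 298)) (XT.nd (nat_lit 78) (nat_lit 0) (nat_lit 0) (XT.lf (nat_lit 0) (nat_lit 2539186017) (nat_lit 228) (nat_lit 316078275) (nat_lit 228) (nat_lit 3596780454) (nat_lit 363) (nat_lit 3) (nat_lit 366) (nat_lit 3) (nat_lit 366) (nat_lit 5) (nat_lit 302) (nat_lit 301) (nat_lit 297)) (XT.lf (nat_lit 76) (nat_lit 2867870707) (nat_lit 0) (nat_lit 2585131138) (nat_lit 228) (nat_lit 1007614222) (nat_lit 364) (nat_lit 5) (nat_lit 363) (nat_lit 3) (nat_lit 366) (nat_lit 5) (nat_lit 303) (nat_lit 301) (nat_lit 296))))) (XT.nd (nat_lit 234) (nat_lit 684) (nat_lit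 0) (XT.nd (nat_lit 78) (nat_lit 304) (nat_lit 0) (XT.lf (nat_lit 0) (nat_lit 1836914185) (nat_lit 228) (nat_lit 395154034) (nat_lit 304) (nat_lit 4240205837) (nat_lit 360) (nat_lit 5) (nat_lit 363) (nat_lit 3) (nat_lit 364) (nat_lit 5) (nat_lit 304) (nat_lit 301) (nat_lit 295)) (XT.nd (nat_lit 78) (nat_lit 304) (nat_lit 0) (XT.lf (nat_lit 76) (nat_lit 2885954389) (nat_lit 0) (nat_lit 1779219925) (nat_lit 304) (nat_lit 1821372631) (nat_lit 361) (nat_lit 5) (nat_lit 360) (nat_lit 5) (nat_lit 364) (nat_lit 5) (nat_lit 305) (nat_lit 301) (nat_lit 294)) (XT.lf (nat_lit 0) (nat_lit 952399696) (nat_lit 304) (nat_lit 298357420) (nat_lit 380) (nat_lit 5253405617) (nat_lit 356) (nat_lit 5) (nat_lit 360) (nat_lit 5) (nat_lit 361) (nat_lit 5) (nat_lit 306) (nat_lit 301) (nat_lit 293)))) (XT.nd (nat_lit 156) (nat_lit 684) (nat_lit 0) (XT.nd (nat_lit 78) (nat_lit 0) (nat_lit 76) (XT.lf (nat_lit 76) (nat_lit 3086466814)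 (nat_lit 0) (nat_lit 611467462) (nat_lit 380) (nat_lit 2826190388) (nat_lit 357) (nat_lit 5) (nat_lit 356) (nat_lit 5) (nat_lit 361) (nat_lit 5) (nat_lit 307) (nat_lit 301) (nat_lit 292)) (XT.lf (nat_lit 0) (nat_lit 6427725061) (nat_lit 304) (nat_lit 27815456) (nat_lit 76) (nat_lit 92198304) (nat_lit 357) (nat_lit 5) (nat_lit 361) (nat_lit 5) (nat_lit 358) (nat_lit 5) (nat_lit 308) (nat_lit 301) (nat_lit 291))) (XT.nd (nat_lit 78) (nat_lit 380) (nat_lit 0) (XT.lf (nat_lit 0) (nat_lit 2555531555) (nat_lit 380) (nat_lit 3112588148) (nat_lit 76) (nat_lit 905069259) (nat_lit 352) (nat_lit 5) (nat_lit 357) (nat_lit 5) (nat_lit 353) (nat_lit 5) (nat_lit 309) (nat_lit 301) (nat_lit 290)) (XT.lf (nat_lit 0) (nat_lit 400116565) (nat_lit 380) (nat_lit 4815546847) (nat_lit 456) (nat_lit 1386602311) (nat_lit 347) (nat_lit 5) (nat_lit 352) (nat_lit 5) (nat_lit 353) (nat_lit 5) (nat_lit 310) (nat_lit 301) (nat_lit 289))))))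 (XT.nd (nat_lit 546) (nat_lit 4332) (nat_lit 0) (XT.nd (nat_lit 234) (nat_lit 1292) (nat_lit 0) (XT.nd (nat_lit 78) (nat_lit 456) (nat_lit 0) (XT.lf (nat_lit 0) (nat_lit 1233120181) (nat_lit 456) (nat_lit 2625050247) (nat_lit 76) (nat_lit 2775690881) (nat_lit 346) (nat_lit 5) (nat_lit 352) (nat_lit 5) (nat_lit 347) (nat_lit 5) (nat_lit 311) (nat_lit 301) (nat_lit 288)) (XT.nd (nat_lit 78) (nat_lit 0) (nat_lit 0) (XT.lf (nat_lit 0) (nat_lit 1004304833) (nat_lit 456) (nat_lit 2815533111) (nat_lit 532) (nat_lit 2848758954) (nat_lit 340) (nat_lit 5) (nat_lit 346) (nat_lit 5) (nat_lit 347) (nat_lit 5) (nat_lit 312) (nat_lit 301) (nat_lit 287)) (XT.lf (nat_lit 0) (nat_lit 4736023165) (nat_lit 456) (nat_lit 1683400794) (nat_lit 532) (nat_lit 286982092) (nat_lit 340) (nat_lit 5) (nat_lit 346) (nat_lit 5) (nat_lit 347) (nat_lit 5) (nat_lit 313) (nat_lit 301) (nat_lit 286)))) (XT.nd (nat_lit 156) (nat_lit 684) (nat_lit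 0) (XT.nd (nat_lit 78) (nat_lit 0) (nat_lit 0) (XT.lf (nat_lit 0) (nat_lit 1786154677) (nat_lit 532) (nat_lit 447227992) (nat_lit 608) (nat_lit 4513544297) (nat_lit 332) (nat_lit 5) (nat_lit 339) (nat_lit 5) (nat_lit 340) (nat_lit 5) (nat_lit 314) (nat_lit 301) (nat_lit 285)) (XT.lf (nat_lit 0) (nat_lit 4764377559) (nat_lit 608) (nat_lit 1166084474) (nat_lit 76) (nat_lit 859974520) (nat_lit 332) (nat_lit 5) (nat_lit 340) (nat_lit 5) (nat_lit 333) (nat_lit 5) (nat_lit 315) (nat_lit 301) (nat_lit 284))) (XT.nd (nat_lit 78) (nat_lit 0) (nat_lit 0) (XT.lf (nat_lit 0) (nat_lit 470945111) (nat_lit 684) (nat_lit 4111263755) (nat_lit 76) (nat_lit 2254604544) (nat_lit 323) (nat_lit 5) (nat_lit 332) (nat_lit 5) (nat_lit 324) (nat_lit 5) (nat_lit 316) (nat_lit 301) (nat_lit 283)) (XT.lf (nat_lit 0) (nat_lit 2930314380) (nat_lit 684) (nat_lit 208700399) (nat_lit 76) (nat_lit 3747194644) (nat_lit 323) (nat_lit 5) (nat_lit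 332) (nat_lit 5) (nat_lit 324) (nat_lit 5) (nat_lit 317) (nat_lit 301) (nat_lit 282))))) (XT.nd (nat_lit 234) (nat_lit 2812) (nat_lit 0) (XT.nd (nat_lit 78) (nat_lit 836) (nat_lit 0) (XT.lf (nat_lit 0) (nat_lit 3825262265) (nat_lit 684) (nat_lit 1593696587) (nat_lit 760) (nat_lit 1519536411) (nat_lit 314) (nat_lit 5) (nat_lit 323) (nat_lit 5) (nat_lit 324) (nat_lit 5) (nat_lit 318) (nat_lit 301) (nat_lit 281)) (XT.nd (nat_lit 78) (nat_lit 0) (nat_lit 0) (XT.lf (nat_lit 0) (nat_lit 901784527) (nat_lit 836) (nat_lit 6054939235) (nat_lit 76) (nat_lit 37473392) (nat_lit 303) (nat_lit 5) (nat_lit 314) (nat_lit 5) (nat_lit 304) (nat_lit 5) (nat_lit 319) (nat_lit 301) (nat_lit 280)) (XT.lf (nat_lit 0) (nat_lit 3334318707) (nat_lit 836) (nat_lit 1968012056) (nat_lit 76) (nat_lit 1749781144) (nat_lit 303) (nat_lit 5) (nat_lit 314) (nat_lit 5) (nat_lit 304) (nat_lit 5) (nat_lit 320) (nat_lit 301) (nat_lit 279))))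 (XT.nd (nat_lit 156) (nat_lit 1900) (nat_lit 0) (XT.nd (nat_lit 78) (nat_lit 76) (nat_lit 0) (XT.lf (nat_lit 0) (nat_lit 2223363606) (nat_lit 836) (nat_lit 3561708322) (nat_lit 912) (nat_lit 1328399539) (nat_lit 292) (nat_lit 5) (nat_lit 303) (nat_lit 5) (nat_lit 304) (nat_lit 5) (nat_lit 321) (nat_lit 301) (nat_lit 278)) (XT.lf (nat_lit 0) (nat_lit 1055346253) (nat_lit 912) (nat_lit 668838785) (nat_lit 76) (nat_lit 5453877896) (nat_lit 291) (nat_lit 5) (nat_lit 303) (nat_lit 5) (nat_lit 292) (nat_lit 5) (nat_lit 322) (nat_lit 301) (nat_lit 277))) (XT.nd (nat_lit 78) (nat_lit 988) (nat_lit 0) (XT.lf (nat_lit 0) (nat_lit 3448365518) (nat_lit 988) (nat_lit 3570622180) (nat_lit 76) (nat_lit 226335224) (nat_lit 279) (nat_lit 5) (nat_lit 292) (nat_lit 5) (nat_lit 280) (nat_lit 5) (nat_lit 323) (nat_lit 301) (nat_lit 276)) (XT.lf (nat_lit 0) (nat_lit 783611808) (nat_lit 988) (nat_lit 5089546151) (nat_lit 1064)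 (nat_lit 1442700719) (nat_lit 266) (nat_lit 5) (nat_lit 279) (nat_lit 5) (nat_lit 280) (nat_lit 5) (nat_lit 324) (nat_lit 301) (nat_lit 275))))))) (XT.nd (nat_lit 1014) (nat_lit 3724) (nat_lit 0) (XT.nd (nat_lit 468) (nat_lit 2964) (nat_lit 0) (XT.nd (nat_lit 234) (nat_lit 2432) (nat_lit 0) (XT.nd (nat_lit 78) (nat_lit 1064) (nat_lit 0) (XT.lf (nat_lit 0) (nat_lit 928728649) (nat_lit 1064) (nat_lit 2118809764) (nat_lit 76) (nat_lit 4341771673) (nat_lit 265) (nat_lit 5) (nat_lit 279) (nat_lit 5) (nat_lit 266) (nat_lit 5) (nat_lit 325) (nat_lit 301) (nat_lit 274)) (XT.nd (nat_lit 78) (nat_lit 0) (nat_lit 0) (XT.lf (nat_lit 0) (nat_lit 2398135092) (nat_lit 1064) (nat_lit 898578232) (nat_lit 1140) (nat_lit 4169243481) (nat_lit 251) (nat_lit 5) (nat_lit 265) (nat_lit 5) (nat_lit 266) (nat_lit 5) (nat_lit 326) (nat_lit 301) (nat_lit 273)) (XT.lf (nat_lit 0) (nat_lit 5702817849) (nat_lit 1140) (nat_lit 526025268)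 (nat_lit 76) (nat_lit 1317098441) (nat_lit 251) (nat_lit 5) (nat_lit 266) (nat_lit 5) (nat_lit 252) (nat_lit 5) (nat_lit 327) (nat_lit 301) (nat_lit 272)))) (XT.nd (nat_lit 78) (nat_lit 1216) (nat_lit 0) (XT.lf (nat_lit 0) (nat_lit 525489503) (nat_lit 1216) (nat_lit 3470749471) (nat_lit 76) (nat_lit 3632470682) (nat_lit 235) (nat_lit 5) (nat_lit 251) (nat_lit 5) (nat_lit 236) (nat_lit 5) (nat_lit 328) (nat_lit 301) (nat_lit 271)) (XT.nd (nat_lit 78) (nat_lit 0) (nat_lit 0) (XT.lf (nat_lit 0) (nat_lit 1223179284) (nat_lit 1216) (nat_lit 1657486994) (nat_lit 1292) (nat_lit 4834217262) (nat_lit 219) (nat_lit 5) (nat_lit 235) (nat_lit 5) (nat_lit 236) (nat_lit 5) (nat_lit 329) (nat_lit 301) (nat_lit 270)) (XT.lf (nat_lit 0) (nat_lit 5285855976) (nat_lit 1292) (nat_lit 1744280548) (nat_lit 76) (nat_lit 774170738) (nat_lit 219) (nat_lit 5) (nat_lit 236) (nat_lit 5) (nat_lit 220) (nat_lit 5) (nat_lit 330) (nat_lit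 301) (nat_lit 269))))) (XT.nd (nat_lit 234) (nat_lit 1748) (nat_lit 0) (XT.nd (nat_lit 78) (nat_lit 608) (nat_lit 0) (XT.lf (nat_lit 0) (nat_lit 3128858944) (nat_lit 608) (nat_lit 4619411884) (nat_lit 684) (nat_lit 148634810) (nat_lit 211) (nat_lit 5) (nat_lit 219) (nat_lit 5) (nat_lit 220) (nat_lit 5) (nat_lit 331) (nat_lit 301) (nat_lit 268)) (XT.nd (nat_lit 78) (nat_lit 0) (nat_lit 0) (XT.lf (nat_lit 0) (nat_lit 110132496) (nat_lit 532) (nat_lit 2095408989) (nat_lit 608) (nat_lit 5787381062) (nat_lit 203) (nat_lit 5) (nat_lit 210) (nat_lit 5) (nat_lit 211) (nat_lit 5) (nat_lit 332) (nat_lit 301) (nat_lit 267)) (XT.lf (nat_lit 0) (nat_lit 4621142692) (nat_lit 608) (nat_lit 2927982736) (nat_lit 76) (nat_lit 542877066) (nat_lit 203) (nat_lit 5) (nat_lit 211) (nat_lit 5) (nat_lit 204) (nat_lit 5) (nat_lit 333) (nat_lit 301) (nat_lit 266)))) (XT.nd (nat_lit 156) (nat_lit 1064) (nat_lit 0) (XT.nd (nat_lit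 78) (nat_lit 76) (nat_lit 0) (XT.lf (nat_lit 0) (nat_lit 2135016622) (nat_lit 608) (nat_lit 4957518057) (nat_lit 684) (nat_lit 1102059596) (nat_lit 195) (nat_lit 5) (nat_lit 203) (nat_lit 5) (nat_lit 204) (nat_lit 5) (nat_lit 334) (nat_lit 301) (nat_lit 265)) (XT.lf (nat_lit 0) (nat_lit 1284115504) (nat_lit 684) (nat_lit 964548488) (nat_lit 76) (nat_lit 6052078410) (nat_lit 194) (nat_lit 5) (nat_lit 203) (nat_lit 5) (nat_lit 195) (nat_lit 5) (nat_lit 335) (nat_lit 301) (nat_lit 264))) (XT.nd (nat_lit 78) (nat_lit 532) (nat_lit 0) (XT.lf (nat_lit 0) (nat_lit 3710931853) (nat_lit 608) (nat_lit 4119786286) (nat_lit 76) (nat_lit 579329097) (nat_lit 187) (nat_lit 5) (nat_lit 195) (nat_lit 5) (nat_lit 188) (nat_lit 5) (nat_lit 336) (nat_lit 301) (nat_lit 263)) (XT.lf (nat_lit 0) (nat_lit 1138828311) (nat_lit 532) (nat_lit 5060007199) (nat_lit 608) (nat_lit 2324181978) (nat_lit 180) (nat_lit 5) (nat_lit 187) (nat_lit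 5) (nat_lit 188) (nat_lit 5) (nat_lit 337) (nat_lit 301) (nat_lit 262)))))) (XT.nd (nat_lit 546) (nat_lit 1748) (nat_lit 0) (XT.nd (nat_lit 234) (nat_lit 988) (nat_lit 0) (XT.nd (nat_lit 78) (nat_lit 912) (nat_lit 0) (XT.lf (nat_lit 0) (nat_lit 107315116) (nat_lit 608) (nat_lit 2061756310) (nat_lit 76) (nat_lit 6470672109) (nat_lit 179) (nat_lit 5) (nat_lit 187) (nat_lit 5) (nat_lit 180) (nat_lit 5) (nat_lit 338) (nat_lit 301) (nat_lit 261)) (XT.nd (nat_lit 78) (nat_lit 456) (nat_lit 0) (XT.lf (nat_lit 0) (nat_lit 2553283714) (nat_lit 532) (nat_lit 5364308328) (nat_lit 76) (nat_lit 842073568) (nat_lit 173) (nat_lit 5) (nat_lit 180) (nat_lit 5) (nat_lit 174) (nat_lit 5) (nat_lit 339) (nat_lit 301) (nat_lit 260)) (XT.lf (nat_lit 0) (nat_lit 95240846) (nat_lit 456) (nat_lit 4968965893) (nat_lit 532) (nat_lit 3819262226) (nat_lit 167) (nat_lit 5) (nat_lit 173) (nat_lit 5) (nat_lit 174) (nat_lit 5) (nat_lit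 340) (nat_lit 301) (nat_lit 259)))) (XT.nd (nat_lit 156) (nat_lit 456) (nat_lit 0) (XT.nd (nat_lit 78) (nat_lit 532) (nat_lit 0) (XT.lf (nat_lit 0) (nat_lit 5768312798) (nat_lit 456) (nat_lit 1885402748) (nat_lit 532) (nat_lit 1357203114) (nat_lit 167) (nat_lit 5) (nat_lit 173) (nat_lit 5) (nat_lit 174) (nat_lit 5) (nat_lit 341) (nat_lit 301) (nat_lit 258)) (XT.lf (nat_lit 0) (nat_lit 1141945944) (nat_lit 532) (nat_lit 6709037334) (nat_lit 76) (nat_lit 1291310035) (nat_lit 160) (nat_lit 5) (nat_lit 167) (nat_lit 5) (nat_lit 161) (nat_lit 5) (nat_lit 342) (nat_lit 301) (nat_lit 257))) (XT.nd (nat_lit 78) (nat_lit 456) (nat_lit 0) (XT.lf (nat_lit 0) (nat_lit 3691374278) (nat_lit 532) (nat_lit 1023508196) (nat_lit 76) (nat_lit 4562273540) (nat_lit 160) (nat_lit 5) (nat_lit 167) (nat_lit 5) (nat_lit 161) (nat_lit 5) (nat_lit 343) (nat_lit 301) (nat_lit 256)) (XT.lf (nat_lit 0) (nat_lit 4869040078) (nat_lit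 456) (nat_lit 1447328925) (nat_lit 532) (nat_lit 3099749726) (nat_lit 154) (nat_lit 5) (nat_lit 160) (nat_lit 5) (nat_lit 161) (nat_lit 5) (nat_lit 344) (nat_lit 301) (nat_lit 255))))) (XT.nd (nat_lit 234) (nat_lit 836) (nat_lit 0) (XT.nd (nat_lit 78) (nat_lit 532) (nat_lit 0) (XT.lf (nat_lit 0) (nat_lit 1348874142) (nat_lit 380) (nat_lit 7666088005) (nat_lit 456) (nat_lit 544468582) (nat_lit 149) (nat_lit 5) (nat_lit 154) (nat_lit 5) (nat_lit 155) (nat_lit 5) (nat_lit 345) (nat_lit 301) (nat_lit 254)) (XT.nd (nat_lit 78) (nat_lit 456) (nat_lit 0) (XT.lf (nat_lit 0) (nat_lit 2060765601) (nat_lit 456) (nat_lit 2285281816) (nat_lit 76) (nat_lit 5359996207) (nat_lit 148) (nat_lit 5) (nat_lit 154) (nat_lit 5) (nat_lit 149) (nat_lit 5) (nat_lit 346) (nat_lit 301) (nat_lit 253)) (XT.lf (nat_lit 0) (nat_lit 3829136251) (nat_lit 456) (nat_lit 895572170) (nat_lit 532) (nat_lit 5132463582) (nat_lit 142) (nat_lit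 5) (nat_lit 148) (nat_lit 5) (nat_lit 149) (nat_lit 5) (nat_lit 347) (nat_lit 301) (nat_lit 252)))) (XT.nd (nat_lit 156) (nat_lit 380) (nat_lit 0) (XT.nd (nat_lit 78) (nat_lit 76) (nat_lit 0) (XT.lf (nat_lit 0) (nat_lit 78834185) (nat_lit 380) (nat_lit 7394684636) (nat_lit 456) (nat_lit 2539189912) (nat_lit 137) (nat_lit 5) (nat_lit 142) (nat_lit 5) (nat_lit 143) (nat_lit 5) (nat_lit 348) (nat_lit 301) (nat_lit 251)) (XT.lf (nat_lit 0) (nat_lit 155267711) (nat_lit 456) (nat_lit 3748286467) (nat_lit 76) (nat_lit 6268562237) (nat_lit 136) (nat_lit 5) (nat_lit 142) (nat_lit 5) (nat_lit 137) (nat_lit 5) (nat_lit 349) (nat_lit 301) (nat_lit 250))) (XT.nd (nat_lit 78) (nat_lit 0) (nat_lit 0) (XT.lf (nat_lit 0) (nat_lit 2591063908) (nat_lit 380) (nat_lit 270277674) (nat_lit 456) (nat_lit 7474777026) (nat_lit 131) (nat_lit 5) (nat_lit 136) (nat_lit 5) (nat_lit 137) (nat_lit 5) (nat_lit 350) (nat_lit 301) (nat_lit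 249)) (XT.lf (nat_lit 0) (nat_lit 5677681563) (nat_lit 456) (nat_lit 1398043342) (nat_lit 76) (nat_lit 3428463860) (nat_lit 131) (nat_lit 5) (nat_lit 137) (nat_lit 5) (nat_lit 132) (nat_lit 5) (nat_lit 351) (nat_lit 301) (nat_lit 248))))))))
noncomputable def xc108 : XT := (XT.nd (nat_lit 2028) (nat_lit 2280) (nat_lit 0) (XT.nd (nat_lit 1014) (nat_lit 2128) (nat_lit 0) (XT.nd (nat_lit 468) (nat_lit 1216) (nat_lit 0) (XT.nd (nat_lit 234) (nat_lit 684) (nat_lit 0) (XT.nd (nat_lit 78) (nat_lit 456) (nat_lit 0) (XT.lf (nat_lit 0) (nat_lit 5181680382) (nat_lit 304) (nat_lit 3408039028) (nat_lit 380) (nat_lit 2087265210) (nat_lit 127) (nat_lit 5) (nat_lit 131) (nat_lit 5) (nat_lit 132) (nat_lit 5) (nat_lit 352) (nat_lit 301) (nat_lit 247)) (XT.nd (nat_lit 78) (nat_lit 0) (nat_lit 0) (XT.lf (nat_lit 0) (nat_lit 707258261) (nat_lit 456) (nat_lit 9768402932) (nat_lit 76) (nat_lit 379487217) (nat_lit 121) (nat_lit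 5) (nat_lit 127) (nat_lit 5) (nat_lit 122) (nat_lit 5) (nat_lit 353) (nat_lit 301) (nat_lit 246)) (XT.lf (nat_lit 0) (nat_lit 3592927934) (nat_lit 456) (nat_lit 3169993083) (nat_lit 76) (nat_lit 4273656385) (nat_lit 121) (nat_lit 5) (nat_lit 127) (nat_lit 5) (nat_lit 122) (nat_lit 5) (nat_lit 354) (nat_lit 301) (nat_lit 245)))) (XT.nd (nat_lit 78) (nat_lit 380) (nat_lit 0) (XT.lf (nat_lit 0) (nat_lit 3642151843) (nat_lit 304) (nat_lit 2918684968) (nat_lit 380) (nat_lit 4662759989) (nat_lit 117) (nat_lit 5) (nat_lit 121) (nat_lit 5) (nat_lit 122) (nat_lit 5) (nat_lit 355) (nat_lit 301) (nat_lit 244)) (XT.nd (nat_lit 78) (nat_lit 380) (nat_lit 0) (XT.lf (nat_lit 0) (nat_lit 9621240256) (nat_lit 380) (nat_lit 757717472) (nat_lit 76) (nat_lit 1037182428) (nat_lit 117) (nat_lit 5) (nat_lit 122) (nat_lit 5) (nat_lit 118) (nat_lit 5) (nat_lit 356) (nat_lit 301) (nat_lit 243)) (XT.lf (nat_lit 0) (nat_lit 1188694344)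 (nat_lit 380) (nat_lit 5313751857) (nat_lit 76) (nat_lit 5110126066) (nat_lit 112) (nat_lit 5) (nat_lit 117) (nat_lit 5) (nat_lit 113) (nat_lit 5) (nat_lit 357) (nat_lit 301) (nat_lit 242))))) (XT.nd (nat_lit 234) (nat_lit 608) (nat_lit 0) (XT.nd (nat_lit 78) (nat_lit 304) (nat_lit 0) (XT.lf (nat_lit 0) (nat_lit 1729440714) (nat_lit 304) (nat_lit 2483088270) (nat_lit 380) (nat_lit 7602246615) (nat_lit 108) (nat_lit 5) (nat_lit 112) (nat_lit 5) (nat_lit 113) (nat_lit 5) (nat_lit 358) (nat_lit 301) (nat_lit 241)) (XT.nd (nat_lit 78) (nat_lit 304) (nat_lit 0) (XT.lf (nat_lit 0) (nat_lit 7360065341) (nat_lit 380) (nat_lit 2999845244) (nat_lit 76) (nat_lit 1662160037) (nat_lit 108) (nat_lit 5) (nat_lit 113) (nat_lit 5) (nat_lit 109) (nat_lit 5) (nat_lit 359) (nat_lit 301) (nat_lit 240)) (XT.lf (nat_lit 0) (nat_lit 4304407081) (nat_lit 304) (nat_lit 6327534053) (nat_lit 380) (nat_lit 1602760711) (nat_lit 104)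 (nat_lit 5) (nat_lit 108) (nat_lit 5) (nat_lit 109) (nat_lit 5) (nat_lit 360) (nat_lit 301) (nat_lit 239)))) (XT.nd (nat_lit 156) (nat_lit 304) (nat_lit 0) (XT.nd (nat_lit 78) (nat_lit 228) (nat_lit 0) (XT.lf (nat_lit 0) (nat_lit 1512771135) (nat_lit 380) (nat_lit 632122694) (nat_lit 76) (nat_lit 10308543928) (nat_lit 103) (nat_lit 5) (nat_lit 108) (nat_lit 5) (nat_lit 104) (nat_lit 5) (nat_lit 361) (nat_lit 301) (nat_lit 238)) (XT.lf (nat_lit 0) (nat_lit 4743014680) (nat_lit 304) (nat_lit 5745821396) (nat_lit 76) (nat_lit 2187833312) (nat_lit 100) (nat_lit 5) (nat_lit 104) (nat_lit 5) (nat_lit 101) (nat_lit 5) (nat_lit 362) (nat_lit 301) (nat_lit 237))) (XT.nd (nat_lit 78) (nat_lit 0) (nat_lit 0) (XT.lf (nat_lit 0) (nat_lit 1788630430) (nat_lit 304) (nat_lit 6291942682) (nat_lit 380) (nat_lit 4825725732) (nat_lit 96) (nat_lit 5) (nat_lit 100) (nat_lit 5) (nat_lit 101) (nat_lit 5) (nat_lit 363) (nat_lit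 301) (nat_lit 236)) (XT.lf (nat_lit 0) (nat_lit 9615179949) (nat_lit 304) (nat_lit 1927137862) (nat_lit 380) (nat_lit 1599790309) (nat_lit 96) (nat_lit 5) (nat_lit 100) (nat_lit 5) (nat_lit 101) (nat_lit 5) (nat_lit 364) (nat_lit 301) (nat_lit 235)))))) (XT.nd (nat_lit 468) (nat_lit 988) (nat_lit 0) (XT.nd (nat_lit 234) (nat_lit 532) (nat_lit 0) (XT.nd (nat_lit 78) (nat_lit 304) (nat_lit 0) (XT.lf (nat_lit 0) (nat_lit 1722500033) (nat_lit 304) (nat_lit 9101207965) (nat_lit 76) (nat_lit 2559802897) (nat_lit 92) (nat_lit 5) (nat_lit 96) (nat_lit 5) (nat_lit 93) (nat_lit 5) (nat_lit 365) (nat_lit 301) (nat_lit 234)) (XT.nd (nat_lit 78) (nat_lit 304) (nat_lit 0) (XT.lf (nat_lit 0) (nat_lit 5134358766) (nat_lit 304) (nat_lit 1319467270) (nat_lit 76) (nat_lit 7177204557) (nat_lit 92) (nat_lit 5) (nat_lit 96) (nat_lit 5) (nat_lit 93) (nat_lit 5) (nat_lit 366) (nat_lit 301) (nat_lit 233)) (XT.lf (nat_lit 0) (nat_lit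 6778269040) (nat_lit 304) (nat_lit 1903427716) (nat_lit 380) (nat_lit 5203296725) (nat_lit 88) (nat_lit 5) (nat_lit 92) (nat_lit 5) (nat_lit 93) (nat_lit 5) (nat_lit 367) (nat_lit 301) (nat_lit 232)))) (XT.nd (nat_lit 78) (nat_lit 304) (nat_lit 0) (XT.lf (nat_lit 0) (nat_lit 941262721) (nat_lit 228) (nat_lit 11411709189) (nat_lit 304) (nat_lit 1793088809) (nat_lit 85) (nat_lit 5) (nat_lit 88) (nat_lit 5) (nat_lit 89) (nat_lit 5) (nat_lit 368) (nat_lit 301) (nat_lit 231)) (XT.nd (nat_lit 78) (nat_lit 228) (nat_lit 0) (XT.lf (nat_lit 0) (nat_lit 1745578139) (nat_lit 304) (nat_lit 5122696232) (nat_lit 76) (nat_lit 7544408953) (nat_lit 84) (nat_lit 5) (nat_lit 88) (nat_lit 5) (nat_lit 85) (nat_lit 5) (nat_lit 369) (nat_lit 301) (nat_lit 230)) (XT.lf (nat_lit 0) (nat_lit 3197802243) (nat_lit 228) (nat_lit 2156608254) (nat_lit 304) (nat_lit 9332370213) (nat_lit 81) (nat_lit 5) (nat_lit 84) (nat_lit 5) (nat_lit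 85) (nat_lit 5) (nat_lit 370) (nat_lit 301) (nat_lit 229))))) (XT.nd (nat_lit 234) (nat_lit 684) (nat_lit 0) (XT.nd (nat_lit 78) (nat_lit 304) (nat_lit 0) (XT.lf (nat_lit 0) (nat_lit 9119231768) (nat_lit 304) (nat_lit 3170035873) (nat_lit 76) (nat_lit 2678411408) (nat_lit 81) (nat_lit 5) (nat_lit 85) (nat_lit 5) (nat_lit 82) (nat_lit 5) (nat_lit 371) (nat_lit 301) (nat_lit 228)) (XT.nd (nat_lit 78) (nat_lit 76) (nat_lit 0) (XT.lf (nat_lit 0) (nat_lit 5435636964) (nat_lit 228) (nat_lit 7605413512) (nat_lit 304) (nat_lit 2214641743) (nat_lit 78) (nat_lit 5) (nat_lit 81) (nat_lit 5) (nat_lit 82) (nat_lit 5) (nat_lit 372) (nat_lit 301) (nat_lit 227)) (XT.lf (nat_lit 0) (nat_lit 1501245869) (nat_lit 304) (nat_lit 1249612511) (nat_lit 76) (nat_lit 12800968990) (nat_lit 77) (nat_lit 5) (nat_lit 81) (nat_lit 5) (nat_lit 78) (nat_lit 5) (nat_lit 373) (nat_lit 301) (nat_lit 226)))) (XT.nd (nat_lit 156) (nat_lit 304)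 (nat_lit 0) (XT.nd (nat_lit 78) (nat_lit 152) (nat_lit 0) (XT.lf (nat_lit 0) (nat_lit 5351538055) (nat_lit 304) (nat_lit 8218063489) (nat_lit 76) (nat_lit 2284572680) (nat_lit 74) (nat_lit 5) (nat_lit 78) (nat_lit 5) (nat_lit 75) (nat_lit 5) (nat_lit 374) (nat_lit 301) (nat_lit 225)) (XT.lf (nat_lit 0) (nat_lit 586364786) (nat_lit 152) (nat_lit 8748230257) (nat_lit 228) (nat_lit 6830487169) (nat_lit 72) (nat_lit 5) (nat_lit 74) (nat_lit 5) (nat_lit 75) (nat_lit 5) (nat_lit 375) (nat_lit 301) (nat_lit 224))) (XT.nd (nat_lit 78) (nat_lit 304) (nat_lit 0) (XT.lf (nat_lit 0) (nat_lit 9777319548) (nat_lit 152) (nat_lit 3714833453) (nat_lit 228) (nat_lit 2991522326) (nat_lit 72) (nat_lit 5) (nat_lit 74) (nat_lit 5) (nat_lit 75) (nat_lit 5) (nat_lit 376) (nat_lit 301) (nat_lit 223)) (XT.lf (nat_lit 0) (nat_lit 953976026) (nat_lit 304) (nat_lit 14400994793) (nat_lit 76) (nat_lit 1456281062) (nat_lit 68) (nat_lit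 5) (nat_lit 72) (nat_lit 5) (nat_lit 69) (nat_lit 5) (nat_lit 377) (nat_lit 301) (nat_lit 222))))))) (XT.nd (nat_lit 1014) (nat_lit 1064) (nat_lit 0) (XT.nd (nat_lit 468) (nat_lit 608) (nat_lit 0) (XT.nd (nat_lit 234) (nat_lit 456) (nat_lit 0) (XT.nd (nat_lit 78) (nat_lit 152) (nat_lit 0) (XT.lf (nat_lit 0) (nat_lit 5035643281) (nat_lit 304) (nat_lit 5321337582) (nat_lit 76) (nat_lit 6788455851) (nat_lit 68) (nat_lit 5) (nat_lit 72) (nat_lit 5) (nat_lit 69) (nat_lit 5) (nat_lit 378) (nat_lit 301) (nat_lit 221)) (XT.nd (nat_lit 78) (nat_lit 0) (nat_lit 0) (XT.lf (nat_lit 0) (nat_lit 4065888821) (nat_lit 152) (nat_lit 5186507494) (nat_lit 228) (nat_lit 8236878961) (nat_lit 66) (nat_lit 5) (nat_lit 68) (nat_lit 5) (nat_lit 69) (nat_lit 5) (nat_lit 379) (nat_lit 301) (nat_lit 220)) (XT.lf (nat_lit 0) (nat_lit 13624988448) (nat_lit 228) (nat_lit 4044219904) (nat_lit 76) (nat_lit 173347591) (nat_lit 66) (nat_lit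 5) (nat_lit 69) (nat_lit 5) (nat_lit 67) (nat_lit 5) (nat_lit 380) (nat_lit 301) (nat_lit 219)))) (XT.nd (nat_lit 78) (nat_lit 152) (nat_lit 0) (XT.lf (nat_lit 0) (nat_lit 4609813) (nat_lit 304) (nat_lit 12572277041) (nat_lit 76) (nat_lit 5627154094) (nat_lit 62) (nat_lit 5) (nat_lit 66) (nat_lit 5) (nat_lit 63) (nat_lit 5) (nat_lit 381) (nat_lit 301) (nat_lit 218)) (XT.nd (nat_lit 78) (nat_lit 152) (nat_lit 0) (XT.lf (nat_lit 0) (nat_lit 4284501347) (nat_lit 304) (nat_lit 2979524871) (nat_lit 76) (nat_lit 11310623454) (nat_lit 62) (nat_lit 5) (nat_lit 66) (nat_lit 5) (nat_lit 63) (nat_lit 5) (nat_lit 382) (nat_lit 301) (nat_lit 217)) (XT.lf (nat_lit 0) (nat_lit 6995629633) (nat_lit 152) (nat_lit 1739721605) (nat_lit 228) (nat_lit 10219754829) (nat_lit 60) (nat_lit 5) (nat_lit 62) (nat_lit 5) (nat_lit 63) (nat_lit 5) (nat_lit 383) (nat_lit 301) (nat_lit 216))))) (XT.nd (nat_lit 234) (nat_lit 380) (nat_lit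 0) (XT.nd (nat_lit 78) (nat_lit 228) (nat_lit 0) (XT.lf (nat_lit 0) (nat_lit 13363555761) (nat_lit 228) (nat_lit 2095280097) (nat_lit 76) (nat_lit 3886831498) (nat_lit 60) (nat_lit 5) (nat_lit 63) (nat_lit 5) (nat_lit 61) (nat_lit 5) (nat_lit 384) (nat_lit 301) (nat_lit 215)) (XT.nd (nat_lit 78) (nat_lit 76) (nat_lit 0) (XT.lf (nat_lit 0) (nat_lit 8166140835) (nat_lit 152) (nat_lit 10036373990) (nat_lit 228) (nat_lit 1543279305) (nat_lit 58) (nat_lit 5) (nat_lit 60) (nat_lit 5) (nat_lit 61) (nat_lit 5) (nat_lit 385) (nat_lit 301) (nat_lit 214)) (XT.lf (nat_lit 0) (nat_lit 2967236600) (nat_lit 228) (nat_lit 1449162828) (nat_lit 76) (nat_lit 15740728829) (nat_lit 57) (nat_lit 5) (nat_lit 60) (nat_lit 5) (nat_lit 58) (nat_lit 5) (nat_lit 386) (nat_lit 301) (nat_lit 213)))) (XT.nd (nat_lit 156) (nat_lit 228) (nat_lit 0) (XT.nd (nat_lit 78) (nat_lit 0) (nat_lit 0) (XT.lf (nat_lit 0) (nat_lit 7660593066) (nat_lit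 228) (nat_lit 11484484582) (nat_lit 76) (nat_lit 1432915454) (nat_lit 55) (nat_lit 5) (nat_lit 58) (nat_lit 5) (nat_lit 56) (nat_lit 5) (nat_lit 387) (nat_lit 301) (nat_lit 212)) (XT.lf (nat_lit 0) (nat_lit 12530333693) (nat_lit 228) (nat_lit 1112603302) (nat_lit 76) (nat_lit 7367484634) (nat_lit 55) (nat_lit 5) (nat_lit 58) (nat_lit 5) (nat_lit 56) (nat_lit 5) (nat_lit 388) (nat_lit 301) (nat_lit 211))) (XT.nd (nat_lit 78) (nat_lit 76) (nat_lit 0) (XT.lf (nat_lit 0) (nat_lit 9721442310) (nat_lit 152) (nat_lit 7895918456) (nat_lit 228) (nat_lit 3836331510) (nat_lit 53) (nat_lit 5) (nat_lit 55) (nat_lit 5) (nat_lit 56) (nat_lit 5) (nat_lit 389) (nat_lit 301) (nat_lit 210)) (XT.lf (nat_lit 0) (nat_lit 917412954) (nat_lit 228) (nat_lit 1054578956) (nat_lit 76) (nat_lit 19938326420) (nat_lit 52) (nat_lit 5) (nat_lit 55) (nat_lit 5) (nat_lit 53) (nat_lit 5) (nat_lit 390) (nat_lit 301) (nat_lit 209)))))) (XT.nd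 (nat_lit 546) (nat_lit 380) (nat_lit 0) (XT.nd (nat_lit 234) (nat_lit 380) (nat_lit 0) (XT.nd (nat_lit 78) (nat_lit 152) (nat_lit 0) (XT.lf (nat_lit 0) (nat_lit 5852732365) (nat_lit 228) (nat_lit 12353931952) (nat_lit 76) (nat_lit 4169361930) (nat_lit 50) (nat_lit 5) (nat_lit 53) (nat_lit 5) (nat_lit 51) (nat_lit 5) (nat_lit 391) (nat_lit 301) (nat_lit 208)) (XT.nd (nat_lit 78) (nat_lit 152) (nat_lit 0) (XT.lf (nat_lit 0) (nat_lit 10944956284) (nat_lit 228) (nat_lit 1460081604) (nat_lit 76) (nat_lit 10450406687) (nat_lit 50) (nat_lit 5) (nat_lit 53) (nat_lit 5) (nat_lit 51) (nat_lit 5) (nat_lit 392) (nat_lit 301) (nat_lit 207)) (XT.lf (nat_lit 0) (nat_lit 9917457979) (nat_lit 152) (nat_lit 6347011554) (nat_lit 228) (nat_lit 7082544632) (nat_lit 48) (nat_lit 5) (nat_lit 50) (nat_lit 5) (nat_lit 51) (nat_lit 5) (nat_lit 393) (nat_lit 301) (nat_lit 206)))) (XT.nd (nat_lit 156) (nat_lit 152) (nat_lit 0) (XT.nd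 (nat_lit 78) (nat_lit 228) (nat_lit 0) (XT.lf (nat_lit 0) (nat_lit 21629961720) (nat_lit 152) (nat_lit 107797613) (nat_lit 228) (nat_lit 2115750034) (nat_lit 48) (nat_lit 5) (nat_lit 50) (nat_lit 5) (nat_lit 51) (nat_lit 5) (nat_lit 394) (nat_lit 301) (nat_lit 205)) (XT.lf (nat_lit 0) (nat_lit 3073851076) (nat_lit 228) (nat_lit 14995655853) (nat_lit 76) (nat_lit 6300861033) (nat_lit 45) (nat_lit 5) (nat_lit 48) (nat_lit 5) (nat_lit 46) (nat_lit 5) (nat_lit 395) (nat_lit 301) (nat_lit 204))) (XT.nd (nat_lit 78) (nat_lit 152) (nat_lit 0) (XT.lf (nat_lit 0) (nat_lit 8380302975) (nat_lit 228) (nat_lit 3593540364) (nat_lit 76) (nat_lit 12928153819) (nat_lit 45) (nat_lit 5) (nat_lit 48) (nat_lit 5) (nat_lit 46) (nat_lit 5) (nat_lit 396) (nat_lit 301) (nat_lit 203)) (XT.lf (nat_lit 0) (nat_lit 8277458486) (nat_lit 152) (nat_lit 5628586239) (nat_lit 228) (nat_lit 11541731401) (nat_lit 43) (nat_lit 5) (nat_lit 45)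 (nat_lit 5) (nat_lit 46) (nat_lit 5) (nat_lit 397) (nat_lit 301) (nat_lit 202))))) (XT.nd (nat_lit 234) (nat_lit 228) (nat_lit 0) (XT.nd (nat_lit 78) (nat_lit 152) (nat_lit 0) (XT.lf (nat_lit 0) (nat_lit 19623544339) (nat_lit 228) (nat_lit 5474464882) (nat_lit 76) (nat_lit 911143352) (nat_lit 43) (nat_lit 5) (nat_lit 46) (nat_lit 5) (nat_lit 44) (nat_lit 4) (nat_lit 398) (nat_lit 301) (nat_lit 201)) (XT.nd (nat_lit 78) (nat_lit 76) (nat_lit 0) (XT.lf (nat_lit 0) (nat_lit 6611769656) (nat_lit 76) (nat_lit 19001268410) (nat_lit 152) (nat_lit 971321741) (nat_lit 42) (nat_lit 5) (nat_lit 43) (nat_lit 5) (nat_lit 44) (nat_lit 4) (nat_lit 399) (nat_lit 301) (nat_lit 200)) (XT.lf (nat_lit 0) (nat_lit 4552577418) (nat_lit 152) (nat_lit 8081000128) (nat_lit 76) (nat_lit 14540809425) (nat_lit 41) (nat_lit 5) (nat_lit 43) (nat_lit 5) (nat_lit 42) (nat_lit 5) (nat_lit 400) (nat_lit 301) (nat_lit 199)))) (XT.nd (nat_lit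 156) (nat_lit 76) (nat_lit 0) (XT.nd (nat_lit 78) (nat_lit 0) (nat_lit 0) (XT.lf (nat_lit 0) (nat_lit 4206968507) (nat_lit 152) (nat_lit 6037912475) (nat_lit 228) (nat_lit 17536282421) (nat_lit 39) (nat_lit 5) (nat_lit 41) (nat_lit 5) (nat_lit 42) (nat_lit 5) (nat_lit 401) (nat_lit 301) (nat_lit 198)) (XT.lf (nat_lit 0) (nat_lit 16179476282) (nat_lit 228) (nat_lit 11415464893) (nat_lit 76) (nat_lit 809059446) (nat_lit 39) (nat_lit 5) (nat_lit 42) (nat_lit 5) (nat_lit 40) (nat_lit 4) (nat_lit 402) (nat_lit 301) (nat_lit 197))) (XT.nd (nat_lit 78) (nat_lit 0) (nat_lit 0) (XT.lf (nat_lit 0) (nat_lit 1036503495) (nat_lit 76) (nat_lit 21307728358) (nat_lit 152) (nat_lit 6699730508) (nat_lit 38) (nat_lit 5) (nat_lit 39) (nat_lit 5) (nat_lit 40) (nat_lit 4) (nat_lit 403) (nat_lit 301) (nat_lit 196)) (XT.lf (nat_lit 0) (nat_lit 14064382066) (nat_lit 76) (nat_lit 14727408421) (nat_lit 152) (nat_lit 908399644) (nat_lit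 38) (nat_lit 5) (nat_lit 39) (nat_lit 5) (nat_lit 40) (nat_lit 4) (nat_lit 404) (nat_lit 301) (nat_lit 195))))))))
noncomputable def xc109 : XT := (XT.nd (nat_lit 2028) (nat_lit 456) (nat_lit 0) (XT.nd (nat_lit 1014) (nat_lit 532) (nat_lit 0) (XT.nd (nat_lit 468) (nat_lit 456) (nat_lit 0) (XT.nd (nat_lit 234) (nat_lit 152) (nat_lit 0) (XT.nd (nat_lit 78) (nat_lit 152) (nat_lit 0) (XT.lf (nat_lit 0) (nat_lit 4940920816) (nat_lit 152) (nat_lit 2972690954) (nat_lit 76) (nat_lit 22461549841) (nat_lit 37) (nat_lit 5) (nat_lit 39) (nat_lit 5) (nat_lit 38) (nat_lit 5) (nat_lit 405) (nat_lit 301) (nat_lit 194)) (XT.nd (nat_lit 78) (nat_lit 0) (nat_lit 0) (XT.lf (nat_lit 0) (nat_lit 10230794984) (nat_lit 152) (nat_lit 798433543) (nat_lit 228) (nat_lit 20038433655) (nat_lit 35) (nat_lit 5) (nat_lit 37) (nat_lit 5) (nat_lit 38) (nat_lit 5) (nat_lit 406) (nat_lit 301) (nat_lit 193)) (XT.lf (nat_lit 0) (nat_lit 17376760248)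 (nat_lit 228) (nat_lit 7982022932) (nat_lit 76) (nat_lit 6419860002) (nat_lit 35) (nat_lit 5) (nat_lit 38) (nat_lit 5) (nat_lit 36) (nat_lit 4) (nat_lit 407) (nat_lit 301) (nat_lit 192)))) (XT.nd (nat_lit 78) (nat_lit 76) (nat_lit 0) (XT.lf (nat_lit 0) (nat_lit 5325115332) (nat_lit 76) (nat_lit 18632664039) (nat_lit 152) (nat_lit 8551884976) (nat_lit 34) (nat_lit 5) (nat_lit 35) (nat_lit 5) (nat_lit 36) (nat_lit 4) (nat_lit 408) (nat_lit 301) (nat_lit 191)) (XT.nd (nat_lit 78) (nat_lit 76) (nat_lit 0) (XT.lf (nat_lit 0) (nat_lit 19166020987) (nat_lit 76) (nat_lit 11634966276) (nat_lit 152) (nat_lit 2459688642) (nat_lit 34) (nat_lit 5) (nat_lit 35) (nat_lit 5) (nat_lit 36) (nat_lit 4) (nat_lit 409) (nat_lit 301) (nat_lit 190)) (XT.lf (nat_lit 0) (nat_lit 3725286067) (nat_lit 152) (nat_lit 677274025) (nat_lit 76) (nat_lit 29631025969) (nat_lit 33) (nat_lit 5) (nat_lit 35) (nat_lit 5) (nat_lit 34) (nat_lit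 5) (nat_lit 410) (nat_lit 301) (nat_lit 189))))) (XT.nd (nat_lit 234) (nat_lit 228) (nat_lit 0) (XT.nd (nat_lit 78) (nat_lit 76) (nat_lit 0) (XT.lf (nat_lit 0) (nat_lit 10190304799) (nat_lit 228) (nat_lit 21505137176) (nat_lit 76) (nat_lit 3129195273) (nat_lit 31) (nat_lit 5) (nat_lit 34) (nat_lit 5) (nat_lit 32) (nat_lit 4) (nat_lit 411) (nat_lit 301) (nat_lit 188)) (XT.nd (nat_lit 78) (nat_lit 76) (nat_lit 0) (XT.lf (nat_lit 0) (nat_lit 16884740722) (nat_lit 228) (nat_lit 7960573049) (nat_lit 76) (nat_lit 10793044426) (nat_lit 31) (nat_lit 5) (nat_lit 34) (nat_lit 5) (nat_lit 32) (nat_lit 4) (nat_lit 412) (nat_lit 301) (nat_lit 187)) (XT.lf (nat_lit 0) (nat_lit 6082057766) (nat_lit 76) (nat_lit 17741824253) (nat_lit 152) (nat_lit 12651294746) (nat_lit 30) (nat_lit 5) (nat_lit 31) (nat_lit 5) (nat_lit 32) (nat_lit 4) (nat_lit 413) (nat_lit 301) (nat_lit 186)))) (XT.nd (nat_lit 156) (nat_lit 152) (nat_lit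 0) (XT.nd (nat_lit 78) (nat_lit 76) (nat_lit 0) (XT.lf (nat_lit 0) (nat_lit 20682462608) (nat_lit 76) (nat_lit 10354697427) (nat_lit 152) (nat_lit 6297963076) (nat_lit 30) (nat_lit 5) (nat_lit 31) (nat_lit 5) (nat_lit 32) (nat_lit 4) (nat_lit 414) (nat_lit 301) (nat_lit 185)) (XT.lf (nat_lit 0) (nat_lit 227024573) (nat_lit 152) (nat_lit 2528547626) (nat_lit 76) (nat_lit 35465651021) (nat_lit 29) (nat_lit 5) (nat_lit 31) (nat_lit 5) (nat_lit 30) (nat_lit 5) (nat_lit 415) (nat_lit 301) (nat_lit 184))) (XT.nd (nat_lit 78) (nat_lit 0) (nat_lit 0) (XT.lf (nat_lit 0) (nat_lit 6974835972) (nat_lit 228) (nat_lit 27010393172) (nat_lit 76) (nat_lit 5142198716) (nat_lit 27) (nat_lit 5) (nat_lit 30) (nat_lit 5) (nat_lit 28) (nat_lit 4) (nat_lit 416) (nat_lit 301) (nat_lit 183)) (XT.lf (nat_lit 0) (nat_lit 13964464827) (nat_lit 228) (nat_lit 12859251302) (nat_lit 76) (nat_lit 13235922878) (nat_lit 27) (nat_lit 5) (nat_lit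 30) (nat_lit 5) (nat_lit 28) (nat_lit 4) (nat_lit 417) (nat_lit 301) (nat_lit 182)))))) (XT.nd (nat_lit 468) (nat_lit 304) (nat_lit 0) (XT.nd (nat_lit 234) (nat_lit 152) (nat_lit 0) (XT.nd (nat_lit 78) (nat_lit 0) (nat_lit 0) (XT.lf (nat_lit 0) (nat_lit 1725354662) (nat_lit 76) (nat_lit 19441725714) (nat_lit 152) (nat_lit 19852638989) (nat_lit 26) (nat_lit 5) (nat_lit 27) (nat_lit 5) (nat_lit 28) (nat_lit 4) (nat_lit 418) (nat_lit 301) (nat_lit 181)) (XT.nd (nat_lit 78) (nat_lit 0) (nat_lit 0) (XT.lf (nat_lit 0) (nat_lit 16986605337) (nat_lit 76) (nat_lit 11715886486) (nat_lit 152) (nat_lit 13302610542) (nat_lit 26) (nat_lit 5) (nat_lit 27) (nat_lit 5) (nat_lit 28) (nat_lit 4) (nat_lit 419) (nat_lit 301) (nat_lit 180)) (XT.lf (nat_lit 0) (nat_lit 32681911479) (nat_lit 76) (nat_lit 3769300937) (nat_lit 152) (nat_lit 6569218739) (nat_lit 26) (nat_lit 5) (nat_lit 27) (nat_lit 5) (nat_lit 28) (nat_lit 4) (nat_lit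 420) (nat_lit 301) (nat_lit 179)))) (XT.nd (nat_lit 78) (nat_lit 0) (nat_lit 0) (XT.lf (nat_lit 0) (nat_lit 435979596) (nat_lit 152) (nat_lit 39258299982) (nat_lit 76) (nat_lit 4369527737) (nat_lit 24) (nat_lit 5) (nat_lit 26) (nat_lit 5) (nat_lit 25) (nat_lit 4) (nat_lit 421) (nat_lit 301) (nat_lit 178)) (XT.nd (nat_lit 78) (nat_lit 0) (nat_lit 0) (XT.lf (nat_lit 0) (nat_lit 7649584155) (nat_lit 152) (nat_lit 24646343573) (nat_lit 76) (nat_lit 12836698785) (nat_lit 24) (nat_lit 5) (nat_lit 26) (nat_lit 5) (nat_lit 25) (nat_lit 4) (nat_lit 422) (nat_lit 301) (nat_lit 177)) (XT.lf (nat_lit 0) (nat_lit 15067492800) (nat_lit 152) (nat_lit 9618727711) (nat_lit 76) (nat_lit 21547654413) (nat_lit 24) (nat_lit 5) (nat_lit 26) (nat_lit 5) (nat_lit 25) (nat_lit 4) (nat_lit 423) (nat_lit 301) (nat_lit 176))))) (XT.nd (nat_lit 234) (nat_lit 228) (nat_lit 0) (XT.nd (nat_lit 78) (nat_lit 0) (nat_lit 0) (XT.lf (nat_lit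 0) (nat_lit 5953859779) (nat_lit 76) (nat_lit 16799559560) (nat_lit 152) (nat_lit 24613378500) (nat_lit 23) (nat_lit 5) (nat_lit 24) (nat_lit 5) (nat_lit 25) (nat_lit 4) (nat_lit 424) (nat_lit 301) (nat_lit 175)) (XT.nd (nat_lit 78) (nat_lit 0) (nat_lit 0) (XT.lf (nat_lit 0) (nat_lit 22168977345) (nat_lit 76) (nat_lit 8586457623) (nat_lit 152) (nat_lit 17775709562) (nat_lit 23) (nat_lit 5) (nat_lit 24) (nat_lit 5) (nat_lit 25) (nat_lit 4) (nat_lit 425) (nat_lit 301) (nat_lit 174)) (XT.lf (nat_lit 0) (nat_lit 38849361995) (nat_lit 76) (nat_lit 136868491) (nat_lit 152) (nat_lit 10744530938) (nat_lit 23) (nat_lit 5) (nat_lit 24) (nat_lit 5) (nat_lit 25) (nat_lit 4) (nat_lit 426) (nat_lit 301) (nat_lit 173)))) (XT.nd (nat_lit 156) (nat_lit 76) (nat_lit 0) (XT.nd (nat_lit 78) (nat_lit 76) (nat_lit 0) (XT.lf (nat_lit 0) (nat_lit 5059367382) (nat_lit 76) (nat_lit 42524515391) (nat_lit 76) (nat_lit 3378887412)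 (nat_lit 22) (nat_lit 4) (nat_lit 23) (nat_lit 5) (nat_lit 23) (nat_lit 4) (nat_lit 427) (nat_lit 301) (nat_lit 172)) (XT.lf (nat_lit 0) (nat_lit 4226911163) (nat_lit 152) (nat_lit 30590741483) (nat_lit 76) (nat_lit 17409835605) (nat_lit 21) (nat_lit 5) (nat_lit 23) (nat_lit 5) (nat_lit 22) (nat_lit 4) (nat_lit 428) (nat_lit 301) (nat_lit 171))) (XT.nd (nat_lit 78) (nat_lit 76) (nat_lit 0) (XT.lf (nat_lit 0) (nat_lit 11982262435) (nat_lit 152) (nat_lit 14872371764) (nat_lit 76) (nat_lit 26674832530) (nat_lit 21) (nat_lit 5) (nat_lit 23) (nat_lit 5) (nat_lit 22) (nat_lit 4) (nat_lit 429) (nat_lit 301) (nat_lit 170)) (XT.lf (nat_lit 0) (nat_lit 1323751950) (nat_lit 76) (nat_lit 18648849952) (nat_lit 152) (nat_lit 34897834026) (nat_lit 20) (nat_lit 5) (nat_lit 21) (nat_lit 5) (nat_lit 22) (nat_lit 4) (nat_lit 430) (nat_lit 301) (nat_lit 169))))))) (XT.nd (nat_lit 1014) (nat_lit 76) (nat_lit 0) (XT.nd (nat_lit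 468) (nat_lit 228) (nat_lit 0) (XT.nd (nat_lit 234) (nat_lit 152) (nat_lit 0) (XT.nd (nat_lit 78) (nat_lit 0) (nat_lit 0) (XT.lf (nat_lit 0) (nat_lit 18291192588) (nat_lit 76) (nat_lit 10051359699) (nat_lit 152) (nat_lit 27904886055) (nat_lit 20) (nat_lit 5) (nat_lit 21) (nat_lit 5) (nat_lit 22) (nat_lit 4) (nat_lit 431) (nat_lit 301) (nat_lit 168)) (XT.nd (nat_lit 78) (nat_lit 0) (nat_lit 0) (XT.lf (nat_lit 0) (nat_lit 35748786708) (nat_lit 76) (nat_lit 1204832864) (nat_lit 152) (nat_lit 20712431830) (nat_lit 20) (nat_lit 5) (nat_lit 21) (nat_lit 5) (nat_lit 22) (nat_lit 4) (nat_lit 432) (nat_lit 301) (nat_lit 167)) (XT.lf (nat_lit 0) (nat_lit 45889252827) (nat_lit 152) (nat_lit 5491650992) (nat_lit 0) (nat_lit 7744333112) (nat_lit 20) (nat_lit 5) (nat_lit 22) (nat_lit 4) (nat_lit 20) (nat_lit 4) (nat_lit 433) (nat_lit 301) (nat_lit 166)))) (XT.nd (nat_lit 78) (nat_lit 76) (nat_lit 0) (XT.lf (nat_lit 0)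 (nat_lit 11623631678) (nat_lit 76) (nat_lit 43583496737) (nat_lit 76) (nat_lit 5417645473) (nat_lit 19) (nat_lit 4) (nat_lit 20) (nat_lit 5) (nat_lit 20) (nat_lit 4) (nat_lit 434) (nat_lit 301) (nat_lit 165)) (XT.nd (nat_lit 78) (nat_lit 0) (nat_lit 0) (XT.lf (nat_lit 0) (nat_lit 2630346267) (nat_lit 152) (nat_lit 32846570234) (nat_lit 76) (nat_lit 26690225726) (nat_lit 18) (nat_lit 5) (nat_lit 20) (nat_lit 5) (nat_lit 19) (nat_lit 4) (nat_lit 435) (nat_lit 301) (nat_lit 164)) (XT.lf (nat_lit 0) (nat_lit 10801686578) (nat_lit 152) (nat_lit 16278479395) (nat_lit 76) (nat_lit 36674283469) (nat_lit 18) (nat_lit 5) (nat_lit 20) (nat_lit 5) (nat_lit 19) (nat_lit 4) (nat_lit 436) (nat_lit 301) (nat_lit 163))))) (XT.nd (nat_lit 234) (nat_lit 152) (nat_lit 0) (XT.nd (nat_lit 78) (nat_lit 0) (nat_lit 0) (XT.lf (nat_lit 0) (nat_lit 785003243) (nat_lit 76) (nat_lit 18431775932) (nat_lit 152) (nat_lit 46172639281)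 (nat_lit 17) (nat_lit 5) (nat_lit 18) (nat_lit 5) (nat_lit 19) (nat_lit 4) (nat_lit 437) (nat_lit 301) (nat_lit 162)) (XT.nd (nat_lit 78) (nat_lit 0) (nat_lit 0) (XT.lf (nat_lit 0) (nat_lit 18677280426) (nat_lit 76) (nat_lit 9362589682) (nat_lit 152) (nat_lit 39028900981) (nat_lit 17) (nat_lit 5) (nat_lit 18) (nat_lit 5) (nat_lit 19) (nat_lit 4) (nat_lit 438) (nat_lit 301) (nat_lit 161)) (XT.lf (nat_lit 0) (nat_lit 37090012525) (nat_lit 76) (nat_lit 29063414) (nat_lit 152) (nat_lit 31679686587) (nat_lit 17) (nat_lit 5) (nat_lit 18) (nat_lit 5) (nat_lit 19) (nat_lit 4) (nat_lit 439) (nat_lit 301) (nat_lit 160)))) (XT.nd (nat_lit 156) (nat_lit 76) (nat_lit 0) (XT.nd (nat_lit 78) (nat_lit 76) (nat_lit 0) (XT.lf (nat_lit 0) (nat_lit 46554389538) (nat_lit 152) (nat_lit 14633675658) (nat_lit 0) (nat_lit 9390077425) (nat_lit 17) (nat_lit 5) (nat_lit 19) (nat_lit 4) (nat_lit 17) (nat_lit 4) (nat_lit 440) (nat_lit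 301) (nat_lit 159)) (XT.lf (nat_lit 0) (nat_lit 2996281139) (nat_lit 76) (nat_lit 53297415731) (nat_lit 76) (nat_lit 16116580059) (nat_lit 16) (nat_lit 4) (nat_lit 17) (nat_lit 5) (nat_lit 17) (nat_lit 4) (nat_lit 441) (nat_lit 301) (nat_lit 158))) (XT.nd (nat_lit 78) (nat_lit 76) (nat_lit 0) (XT.lf (nat_lit 0) (nat_lit 21439714844) (nat_lit 76) (nat_lit 45025174017) (nat_lit 76) (nat_lit 7828296056) (nat_lit 16) (nat_lit 4) (nat_lit 17) (nat_lit 5) (nat_lit 17) (nat_lit 4) (nat_lit 442) (nat_lit 301) (nat_lit 157)) (XT.lf (nat_lit 0) (nat_lit 686899047) (nat_lit 152) (nat_lit 35818047934) (nat_lit 76) (nat_lit 39727666857) (nat_lit 15) (nat_lit 5) (nat_lit 17) (nat_lit 5) (nat_lit 16) (nat_lit 4) (nat_lit 443) (nat_lit 301) (nat_lit 156)))))) (XT.nd (nat_lit 36114) (nat_lit 0) (nat_lit 24776) (XT.nd (nat_lit 35802) (nat_lit 0) (nat_lit 25992) (XT.nd (nat_lit 78) (nat_lit 76) (nat_lit 0) (XT.lf (nat_lit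 0) (nat_lit 9292530003) (nat_lit 152) (nat_lit 18363738489) (nat_lit 76) (nat_lit 50571863012) (nat_lit 15) (nat_lit 5) (nat_lit 17) (nat_lit 5) (nat_lit 16) (nat_lit 4) (nat_lit 444) (nat_lit 301) (nat_lit 155)) (XT.nd (nat_lit 78) (nat_lit 76) (nat_lit 0) (XT.lf (nat_lit 0) (nat_lit 18148874548) (nat_lit 152) (nat_lit 400040031) (nat_lit 76) (nat_lit 61734824506) (nat_lit 15) (nat_lit 5) (nat_lit 17) (nat_lit 5) (nat_lit 16) (nat_lit 4) (nat_lit 445) (nat_lit 301) (nat_lit 154)) (XT.lf (nat_lit 0) (nat_lit 18448745348) (nat_lit 76) (nat_lit 8992266513) (nat_lit 152) (nat_lit 54954900660) (nat_lit 14) (nat_lit 5) (nat_lit 15) (nat_lit 5) (nat_lit 16) (nat_lit 4) (nat_lit 446) (nat_lit 301) (nat_lit 153)))) (XT.nd (nat_lit 156) (nat_lit 304) (nat_lit 0) (XT.nd (nat_lit 78) (nat_lit 228) (nat_lit 0) (XT.lf (nat_lit 0) (nat_lit 2697920344) (nat_lit 228) (nat_lit 265907441) (nat_lit 228) (nat_lit 265907441)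 (nat_lit 363) (nat_lit 3) (nat_lit 366) (nat_lit 3) (nat_lit 366) (nat_lit 5) (nat_lit 302) (nat_lit 302) (nat_lit 296)) (XT.lf (nat_lit 0) (nat_lit 1748189265) (nat_lit 228) (nat_lit 3867755422) (nat_lit 304) (nat_lit 853353535) (nat_lit 360) (nat_lit 5) (nat_lit 363) (nat_lit 3) (nat_lit 364) (nat_lit 5) (nat_lit 303) (nat_lit 302) (nat_lit 295))) (XT.nd (nat_lit 78) (nat_lit 304) (nat_lit 0) (XT.lf (nat_lit 0) (nat_lit 4519314780) (nat_lit 228) (nat_lit 708790604) (nat_lit 304) (nat_lit 1254233503) (nat_lit 360) (nat_lit 5) (nat_lit 363) (nat_lit 3) (nat_lit 364) (nat_lit 5) (nat_lit 304) (nat_lit 302) (nat_lit 294)) (XT.lf (nat_lit 0) (nat_lit 778224139) (nat_lit 304) (nat_lit 3968547583) (nat_lit 380) (nat_lit 1751336187) (nat_lit 356) (nat_lit 5) (nat_lit 360) (nat_lit 5) (nat_lit 361) (nat_lit 5) (nat_lit 305) (nat_lit 302) (nat_lit 293))))) (XT.nd (nat_lit 234) (nat_lit 836) (nat_lit 0) (XT.nd (nat_lit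 78) (nat_lit 380) (nat_lit 0) (XT.lf (nat_lit 0) (nat_lit 3464971115) (nat_lit 304) (nat_lit 712723377) (nat_lit 380) (nat_lit 2339104327) (nat_lit 356) (nat_lit 5) (nat_lit 360) (nat_lit 5) (nat_lit 361) (nat_lit 5) (nat_lit 306) (nat_lit 302) (nat_lit 292)) (XT.nd (nat_lit 78) (nat_lit 380) (nat_lit 0) (XT.lf (nat_lit 76) (nat_lit 2635234742) (nat_lit 0) (nat_lit 3520949150) (nat_lit 380) (nat_lit 382260734) (nat_lit 357) (nat_lit 5) (nat_lit 356) (nat_lit 5) (nat_lit 361) (nat_lit 5) (nat_lit 307) (nat_lit 302) (nat_lit 291)) (XT.lf (nat_lit 0) (nat_lit 2228324803) (nat_lit 380) (nat_lit 543612262) (nat_lit 456) (nat_lit 3791009955) (nat_lit 351) (nat_lit 5) (nat_lit 356) (nat_lit 5) (nat_lit 357) (nat_lit 5) (nat_lit 308) (nat_lit 302) (nat_lit 290)))) (XT.nd (nat_lit 156) (nat_lit 380) (nat_lit 0) (XT.nd (nat_lit 78) (nat_lit 456) (nat_lit 0) (XT.lf (nat_lit 76) (nat_lit 2913034250) (nat_lit 0) (nat_lit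 1927288735) (nat_lit 456) (nat_lit 1749925347) (nat_lit 352) (nat_lit 5) (nat_lit 351) (nat_lit 5) (nat_lit 357) (nat_lit 5) (nat_lit 309) (nat_lit 302) (nat_lit 289)) (XT.lf (nat_lit 0) (nat_lit 804085285) (nat_lit 456) (nat_lit 200750516) (nat_lit 532) (nat_lit 5616077480) (nat_lit 345) (nat_lit 5) (nat_lit 351) (nat_lit 5) (nat_lit 352) (nat_lit 5) (nat_lit 310) (nat_lit 302) (nat_lit 288))) (XT.nd (nat_lit 78) (nat_lit 456) (nat_lit 0) (XT.lf (nat_lit 0) (nat_lit 3339102923) (nat_lit 456) (nat_lit 3282282190) (nat_lit 76) (nat_lit 32498716) (nat_lit 346) (nat_lit 5) (nat_lit 352) (nat_lit 5) (nat_lit 347) (nat_lit 5) (nat_lit 311) (nat_lit 302) (nat_lit 287)) (XT.lf (nat_lit 0) (nat_lit 304274283) (nat_lit 456) (nat_lit 5570156577) (nat_lit 532) (nat_lit 815774339) (nat_lit 340) (nat_lit 5) (nat_lit 346) (nat_lit 5) (nat_lit 347) (nat_lit 5) (nat_lit 312) (nat_lit 302) (nat_lit 286))))))))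
noncomputable def xc110 : XT := (XT.nd (nat_lit 2028) (nat_lit 6384) (nat_lit 0) (XT.nd (nat_lit 1014) (nat_lit 6536) (nat_lit 0) (XT.nd (nat_lit 468) (nat_lit 3648) (nat_lit 0) (XT.nd (nat_lit 234) (nat_lit 1444) (nat_lit 0) (XT.nd (nat_lit 78) (nat_lit 532) (nat_lit 0) (XT.lf (nat_lit 0) (nat_lit 1667820447) (nat_lit 532) (nat_lit 2738577659) (nat_lit 76) (nat_lit 2322477635) (nat_lit 339) (nat_lit 5) (nat_lit 346) (nat_lit 5) (nat_lit 340) (nat_lit 5) (nat_lit 313) (nat_lit 302) (nat_lit 285)) (XT.nd (nat_lit 78) (nat_lit 0) (nat_lit 0) (XT.lf (nat_lit 0) (nat_lit 970377381) (nat_lit 532) (nat_lit 3161539539) (nat_lit 608) (nat_lit 2638957370) (nat_lit 332) (nat_lit 5) (nat_lit 339) (nat_lit 5) (nat_lit 340) (nat_lit 5) (nat_lit 314) (nat_lit 302) (nat_lit 284)) (XT.lf (nat_lit 0) (nat_lit 4788637100) (nat_lit 532) (nat_lit 1823989347) (nat_lit 608) (nat_lit 203305163) (nat_lit 332) (nat_lit 5) (nat_lit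 339) (nat_lit 5) (nat_lit 340) (nat_lit 5) (nat_lit 315) (nat_lit 302) (nat_lit 283)))) (XT.nd (nat_lit 78) (nat_lit 760) (nat_lit 0) (XT.lf (nat_lit 0) (nat_lit 1814200213) (nat_lit 608) (nat_lit 380286769) (nat_lit 684) (nat_lit 4669242070) (nat_lit 323) (nat_lit 5) (nat_lit 331) (nat_lit 5) (nat_lit 332) (nat_lit 5) (nat_lit 316) (nat_lit 302) (nat_lit 282)) (XT.nd (nat_lit 78) (nat_lit 760) (nat_lit 0) (XT.lf (nat_lit 0) (nat_lit 4610162951) (nat_lit 684) (nat_lit 1173025321) (nat_lit 76) (nat_lit 1131283439) (nat_lit 323) (nat_lit 5) (nat_lit 332) (nat_lit 5) (nat_lit 324) (nat_lit 5) (nat_lit 317) (nat_lit 302) (nat_lit 281)) (XT.lf (nat_lit 0) (nat_lit 80349093) (nat_lit 760) (nat_lit 4156717025) (nat_lit 76) (nat_lit 2731160865) (nat_lit 313) (nat_lit 5) (nat_lit 323) (nat_lit 5) (nat_lit 314) (nat_lit 5) (nat_lit 318) (nat_lit 302) (nat_lit 280))))) (XT.nd (nat_lit 234) (nat_lit 1976) (nat_lit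 0) (XT.nd (nat_lit 78) (nat_lit 1672) (nat_lit 0) (XT.lf (nat_lit 0) (nat_lit 2424195126) (nat_lit 760) (nat_lit 166154659) (nat_lit 76) (nat_lit 4434608392) (nat_lit 313) (nat_lit 5) (nat_lit 323) (nat_lit 5) (nat_lit 314) (nat_lit 5) (nat_lit 319) (nat_lit 302) (nat_lit 279)) (XT.nd (nat_lit 78) (nat_lit 912) (nat_lit 0) (XT.lf (nat_lit 0) (nat_lit 3963594749) (nat_lit 760) (nat_lit 837134356) (nat_lit 836) (nat_lit 2283855680) (nat_lit 303) (nat_lit 5) (nat_lit 313) (nat_lit 5) (nat_lit 314) (nat_lit 5) (nat_lit 320) (nat_lit 302) (nat_lit 278)) (XT.lf (nat_lit 0) (nat_lit 46923806) (nat_lit 912) (nat_lit 6122488693) (nat_lit 76) (nat_lit 978228077) (nat_lit 291) (nat_lit 5) (nat_lit 303) (nat_lit 5) (nat_lit 292) (nat_lit 5) (nat_lit 321) (nat_lit 302) (nat_lit 277)))) (XT.nd (nat_lit 156) (nat_lit 1064) (nat_lit 0) (XT.nd (nat_lit 78) (nat_lit 912) (nat_lit 0) (XT.lf (nat_lit 0) (nat_lit 2368736015)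 (nat_lit 912) (nat_lit 1943881052) (nat_lit 76) (nat_lit 2900341394) (nat_lit 291) (nat_lit 5) (nat_lit 303) (nat_lit 5) (nat_lit 292) (nat_lit 5) (nat_lit 322) (nat_lit 302) (nat_lit 276)) (XT.lf (nat_lit 0) (nat_lit 2346969189) (nat_lit 912) (nat_lit 2364819339) (nat_lit 988) (nat_lit 2569957221) (nat_lit 279) (nat_lit 5) (nat_lit 291) (nat_lit 5) (nat_lit 292) (nat_lit 5) (nat_lit 323) (nat_lit 302) (nat_lit 275))) (XT.nd (nat_lit 78) (nat_lit 1064) (nat_lit 0) (XT.lf (nat_lit 0) (nat_lit 6748056726) (nat_lit 912) (nat_lit 327237175) (nat_lit 988) (nat_lit 278853691) (nat_lit 279) (nat_lit 5) (nat_lit 291) (nat_lit 5) (nat_lit 292) (nat_lit 5) (nat_lit 324) (nat_lit 302) (nat_lit 274)) (XT.lf (nat_lit 0) (nat_lit 2026904011) (nat_lit 1064) (nat_lit 3597275160) (nat_lit 76) (nat_lit 1804398923) (nat_lit 265) (nat_lit 5) (nat_lit 279) (nat_lit 5) (nat_lit 266) (nat_lit 5) (nat_lit 325) (nat_lit 302) (nat_lit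 273)))))) (XT.nd (nat_lit 468) (nat_lit 2356) (nat_lit 0) (XT.nd (nat_lit 234) (nat_lit 1900) (nat_lit 0) (XT.nd (nat_lit 78) (nat_lit 1216) (nat_lit 0) (XT.lf (nat_lit 0) (nat_lit 860291929) (nat_lit 1064) (nat_lit 3486984636) (nat_lit 1140) (nat_lit 3159401755) (nat_lit 251) (nat_lit 5) (nat_lit 265) (nat_lit 5) (nat_lit 266) (nat_lit 5) (nat_lit 326) (nat_lit 302) (nat_lit 272)) (XT.nd (nat_lit 78) (nat_lit 1216) (nat_lit 0) (XT.lf (nat_lit 0) (nat_lit 5466292262) (nat_lit 1064) (nat_lit 1242023318) (nat_lit 1140) (nat_lit 879723868) (nat_lit 251) (nat_lit 5) (nat_lit 265) (nat_lit 5) (nat_lit 266) (nat_lit 5) (nat_lit 327) (nat_lit 302) (nat_lit 271)) (XT.lf (nat_lit 0) (nat_lit 1410542645) (nat_lit 1216) (nat_lit 5168423889) (nat_lit 76) (nat_lit 1093372617) (nat_lit 235) (nat_lit 5) (nat_lit 251) (nat_lit 5) (nat_lit 236) (nat_lit 5) (nat_lit 328) (nat_lit 302) (nat_lit 270)))) (XT.nd (nat_lit 78)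 (nat_lit 1900) (nat_lit 0) (XT.lf (nat_lit 0) (nat_lit 3723078966) (nat_lit 1216) (nat_lit 527937044) (nat_lit 76) (nat_lit 3508798577) (nat_lit 235) (nat_lit 5) (nat_lit 251) (nat_lit 5) (nat_lit 236) (nat_lit 5) (nat_lit 329) (nat_lit 302) (nat_lit 269)) (XT.nd (nat_lit 78) (nat_lit 684) (nat_lit 0) (XT.lf (nat_lit 0) (nat_lit 4276937663) (nat_lit 1216) (nat_lit 1808300729) (nat_lit 1292) (nat_lit 1765312513) (nat_lit 219) (nat_lit 5) (nat_lit 235) (nat_lit 5) (nat_lit 236) (nat_lit 5) (nat_lit 330) (nat_lit 302) (nat_lit 268)) (XT.lf (nat_lit 0) (nat_lit 527237363) (nat_lit 684) (nat_lit 6699362302) (nat_lit 76) (nat_lit 718359851) (nat_lit 210) (nat_lit 5) (nat_lit 219) (nat_lit 5) (nat_lit 211) (nat_lit 5) (nat_lit 331) (nat_lit 302) (nat_lit 267))))) (XT.nd (nat_lit 234) (nat_lit 1216) (nat_lit 0) (XT.nd (nat_lit 78) (nat_lit 1140) (nat_lit 0) (XT.lf (nat_lit 0) (nat_lit 2848351829) (nat_lit 684)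 (nat_lit 1854414479) (nat_lit 76) (nat_lit 3339091944) (nat_lit 210) (nat_lit 5) (nat_lit 219) (nat_lit 5) (nat_lit 211) (nat_lit 5) (nat_lit 332) (nat_lit 302) (nat_lit 266)) (XT.nd (nat_lit 78) (nat_lit 608) (nat_lit 0) (XT.lf (nat_lit 0) (nat_lit 3138685494) (nat_lit 532) (nat_lit 2073227315) (nat_lit 608) (nat_lit 2930605869) (nat_lit 203) (nat_lit 5) (nat_lit 210) (nat_lit 5) (nat_lit 211) (nat_lit 5) (nat_lit 333) (nat_lit 302) (nat_lit 265)) (XT.lf (nat_lit 0) (nat_lit 8244559) (nat_lit 608) (nat_lit 7606973387) (nat_lit 684) (nat_lit 631953827) (nat_lit 195) (nat_lit 5) (nat_lit 203) (nat_lit 5) (nat_lit 204) (nat_lit 5) (nat_lit 334) (nat_lit 302) (nat_lit 264)))) (XT.nd (nat_lit 156) (nat_lit 608) (nat_lit 0) (XT.nd (nat_lit 78) (nat_lit 532) (nat_lit 0) (XT.lf (nat_lit 0) (nat_lit 1717574791) (nat_lit 684) (nat_lit 3178043413) (nat_lit 76) (nat_lit 3458407953) (nat_lit 194) (nat_lit 5) (nat_lit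 203) (nat_lit 5) (nat_lit 195) (nat_lit 5) (nat_lit 335) (nat_lit 302) (nat_lit 263)) (XT.lf (nat_lit 0) (nat_lit 2009227259) (nat_lit 532) (nat_lit 2080828416) (nat_lit 608) (nat_lit 4374922501) (nat_lit 187) (nat_lit 5) (nat_lit 194) (nat_lit 5) (nat_lit 195) (nat_lit 5) (nat_lit 336) (nat_lit 302) (nat_lit 262))) (XT.nd (nat_lit 78) (nat_lit 608) (nat_lit 0) (XT.lf (nat_lit 0) (nat_lit 6520818057) (nat_lit 608) (nat_lit 1228617779) (nat_lit 76) (nat_lit 830243453) (nat_lit 187) (nat_lit 5) (nat_lit 195) (nat_lit 5) (nat_lit 188) (nat_lit 5) (nat_lit 337) (nat_lit 302) (nat_lit 261)) (XT.lf (nat_lit 0) (nat_lit 329316002) (nat_lit 608) (nat_lit 4542615448) (nat_lit 76) (nat_lit 3825557317) (nat_lit 179) (nat_lit 5) (nat_lit 187) (nat_lit 5) (nat_lit 180) (nat_lit 5) (nat_lit 338) (nat_lit 302) (nat_lit 260))))))) (XT.nd (nat_lit 1014) (nat_lit 2736) (nat_lit 0) (XT.nd (nat_lit 468) (nat_lit 1748) (nat_lit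 0) (XT.nd (nat_lit 234) (nat_lit 988) (nat_lit 0) (XT.nd (nat_lit 78) (nat_lit 456) (nat_lit 0) (XT.lf (nat_lit 0) (nat_lit 844409937) (nat_lit 456) (nat_lit 1872794708) (nat_lit 532) (nat_lit 6101963806) (nat_lit 173) (nat_lit 5) (nat_lit 179) (nat_lit 5) (nat_lit 180) (nat_lit 5) (nat_lit 339) (nat_lit 302) (nat_lit 259)) (XT.nd (nat_lit 78) (nat_lit 456) (nat_lit 0) (XT.lf (nat_lit 0) (nat_lit 5184415637) (nat_lit 532) (nat_lit 2528154802) (nat_lit 76) (nat_lit 1231727499) (nat_lit 173) (nat_lit 5) (nat_lit 180) (nat_lit 5) (nat_lit 174) (nat_lit 5) (nat_lit 340) (nat_lit 302) (nat_lit 258)) (XT.lf (nat_lit 0) (nat_lit 3065797683) (nat_lit 456) (nat_lit 4658992129) (nat_lit 532) (nat_lit 1348446198) (nat_lit 167) (nat_lit 5) (nat_lit 173) (nat_lit 5) (nat_lit 174) (nat_lit 5) (nat_lit 341) (nat_lit 302) (nat_lit 257)))) (XT.nd (nat_lit 78) (nat_lit 912) (nat_lit 0) (XT.lf (nat_lit 0) (nat_lit 1090469472)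 (nat_lit 532) (nat_lit 394811191) (nat_lit 76) (nat_lit 7721142865) (nat_lit 166) (nat_lit 5) (nat_lit 173) (nat_lit 5) (nat_lit 167) (nat_lit 5) (nat_lit 342) (nat_lit 302) (nat_lit 256)) (XT.nd (nat_lit 78) (nat_lit 456) (nat_lit 0) (XT.lf (nat_lit 0) (nat_lit 3598203648) (nat_lit 532) (nat_lit 3938210389) (nat_lit 76) (nat_lit 1806136139) (nat_lit 160) (nat_lit 5) (nat_lit 167) (nat_lit 5) (nat_lit 161) (nat_lit 5) (nat_lit 343) (nat_lit 302) (nat_lit 255)) (XT.lf (nat_lit 0) (nat_lit 1867765490) (nat_lit 456) (nat_lit 4303759776) (nat_lit 532) (nat_lit 3311550557) (nat_lit 154) (nat_lit 5) (nat_lit 160) (nat_lit 5) (nat_lit 161) (nat_lit 5) (nat_lit 344) (nat_lit 302) (nat_lit 254))))) (XT.nd (nat_lit 234) (nat_lit 836) (nat_lit 0) (XT.nd (nat_lit 78) (nat_lit 912) (nat_lit 0) (XT.lf (nat_lit 0) (nat_lit 7872353852) (nat_lit 456) (nat_lit 943938442) (nat_lit 532) (nat_lit 811722682) (nat_lit 154) (nat_lit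 5) (nat_lit 160) (nat_lit 5) (nat_lit 161) (nat_lit 5) (nat_lit 345) (nat_lit 302) (nat_lit 253)) (XT.nd (nat_lit 78) (nat_lit 456) (nat_lit 0) (XT.lf (nat_lit 0) (nat_lit 1749948365) (nat_lit 456) (nat_lit 5510589701) (nat_lit 76) (nat_lit 2515641881) (nat_lit 148) (nat_lit 5) (nat_lit 154) (nat_lit 5) (nat_lit 149) (nat_lit 5) (nat_lit 346) (nat_lit 302) (nat_lit 252)) (XT.lf (nat_lit 0) (nat_lit 511374216) (nat_lit 456) (nat_lit 3848953030) (nat_lit 532) (nat_lit 5568599318) (nat_lit 142) (nat_lit 5) (nat_lit 148) (nat_lit 5) (nat_lit 149) (nat_lit 5) (nat_lit 347) (nat_lit 302) (nat_lit 251)))) (XT.nd (nat_lit 156) (nat_lit 456) (nat_lit 0) (XT.nd (nat_lit 78) (nat_lit 380) (nat_lit 0) (XT.lf (nat_lit 0) (nat_lit 6771253566) (nat_lit 456) (nat_lit 290162654) (nat_lit 532) (nat_lit 3024489705) (nat_lit 142) (nat_lit 5) (nat_lit 148) (nat_lit 5) (nat_lit 149) (nat_lit 5) (nat_lit 348) (nat_lit 302) (nat_lit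 250)) (XT.lf (nat_lit 0) (nat_lit 2941030683) (nat_lit 380) (nat_lit 6921120440) (nat_lit 456) (nat_lit 384906806) (nat_lit 137) (nat_lit 5) (nat_lit 142) (nat_lit 5) (nat_lit 143) (nat_lit 5) (nat_lit 349) (nat_lit 302) (nat_lit 249))) (XT.nd (nat_lit 78) (nat_lit 380) (nat_lit 0) (XT.lf (nat_lit 0) (nat_lit 2283163138) (nat_lit 456) (nat_lit 1040906902) (nat_lit 76) (nat_lit 7088476583) (nat_lit 136) (nat_lit 5) (nat_lit 142) (nat_lit 5) (nat_lit 137) (nat_lit 5) (nat_lit 350) (nat_lit 302) (nat_lit 248)) (XT.lf (nat_lit 0) (nat_lit 5039508283) (nat_lit 456) (nat_lit 5125661257) (nat_lit 76) (nat_lit 417256851) (nat_lit 131) (nat_lit 5) (nat_lit 137) (nat_lit 5) (nat_lit 132) (nat_lit 5) (nat_lit 351) (nat_lit 302) (nat_lit 247)))))) (XT.nd (nat_lit 546) (nat_lit 1292) (nat_lit 0) (XT.nd (nat_lit 234) (nat_lit 684) (nat_lit 0) (XT.nd (nat_lit 78) (nat_lit 456) (nat_lit 0) (XT.lf (nat_lit 0) (nat_lit 1352493857)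 (nat_lit 304) (nat_lit 6542502131) (nat_lit 380) (nat_lit 2861932239) (nat_lit 127) (nat_lit 5) (nat_lit 131) (nat_lit 5) (nat_lit 132) (nat_lit 5) (nat_lit 352) (nat_lit 302) (nat_lit 246)) (XT.nd (nat_lit 78) (nat_lit 456) (nat_lit 0) (XT.lf (nat_lit 0) (nat_lit 8076098772) (nat_lit 304) (nat_lit 2772381612) (nat_lit 380) (nat_lit 87833456) (nat_lit 127) (nat_lit 5) (nat_lit 131) (nat_lit 5) (nat_lit 132) (nat_lit 5) (nat_lit 353) (nat_lit 302) (nat_lit 245)) (XT.lf (nat_lit 0) (nat_lit 2725201335) (nat_lit 456) (nat_lit 7255348239) (nat_lit 76) (nat_lit 1139457727) (nat_lit 121) (nat_lit 5) (nat_lit 127) (nat_lit 5) (nat_lit 122) (nat_lit 5) (nat_lit 354) (nat_lit 302) (nat_lit 244)))) (XT.nd (nat_lit 156) (nat_lit 380) (nat_lit 0) (XT.nd (nat_lit 78) (nat_lit 304) (nat_lit 0) (XT.lf (nat_lit 0) (nat_lit 5639284050) (nat_lit 456) (nat_lit 540717359) (nat_lit 76) (nat_lit 5128648497) (nat_lit 121) (nat_lit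 5) (nat_lit 127) (nat_lit 5) (nat_lit 122) (nat_lit 5) (nat_lit 355) (nat_lit 302) (nat_lit 243)) (XT.lf (nat_lit 0) (nat_lit 6449082350) (nat_lit 304) (nat_lit 2216616304) (nat_lit 380) (nat_lit 2836522452) (nat_lit 117) (nat_lit 5) (nat_lit 121) (nat_lit 5) (nat_lit 122) (nat_lit 5) (nat_lit 356) (nat_lit 302) (nat_lit 242))) (XT.nd (nat_lit 78) (nat_lit 0) (nat_lit 0) (XT.lf (nat_lit 0) (nat_lit 85066928) (nat_lit 380) (nat_lit 9777055285) (nat_lit 76) (nat_lit 1839309012) (nat_lit 112) (nat_lit 5) (nat_lit 117) (nat_lit 5) (nat_lit 113) (nat_lit 5) (nat_lit 357) (nat_lit 302) (nat_lit 241)) (XT.lf (nat_lit 0) (nat_lit 3074321518) (nat_lit 380) (nat_lit 2793617771) (nat_lit 76) (nat_lit 6036740153) (nat_lit 112) (nat_lit 5) (nat_lit 117) (nat_lit 5) (nat_lit 113) (nat_lit 5) (nat_lit 358) (nat_lit 302) (nat_lit 240))))) (XT.nd (nat_lit 234) (nat_lit 608) (nat_lit 0) (XT.nd (nat_lit 78) (nat_lit 380)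 (nat_lit 0) (XT.lf (nat_lit 0) (nat_lit 4434600512) (nat_lit 304) (nat_lit 1725893088) (nat_lit 380) (nat_lit 5953329059) (nat_lit 108) (nat_lit 5) (nat_lit 112) (nat_lit 5) (nat_lit 113) (nat_lit 5) (nat_lit 359) (nat_lit 302) (nat_lit 239)) (XT.nd (nat_lit 78) (nat_lit 380) (nat_lit 0) (XT.lf (nat_lit 0) (nat_lit 9357161903) (nat_lit 380) (nat_lit 467823036) (nat_lit 76) (nat_lit 2503732221) (nat_lit 108) (nat_lit 5) (nat_lit 113) (nat_lit 5) (nat_lit 109) (nat_lit 5) (nat_lit 360) (nat_lit 302) (nat_lit 238)) (XT.lf (nat_lit 0) (nat_lit 148899310) (nat_lit 380) (nat_lit 5520160862) (nat_lit 76) (nat_lit 6879447902) (nat_lit 103) (nat_lit 5) (nat_lit 108) (nat_lit 5) (nat_lit 104) (nat_lit 5) (nat_lit 361) (nat_lit 302) (nat_lit 237)))) (XT.nd (nat_lit 156) (nat_lit 380) (nat_lit 0) (XT.nd (nat_lit 78) (nat_lit 0) (nat_lit 0) (XT.lf (nat_lit 0) (nat_lit 1942323930) (nat_lit 228) (nat_lit 1350548659) (nat_lit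 304) (nat_lit 9481461679) (nat_lit 100) (nat_lit 5) (nat_lit 103) (nat_lit 5) (nat_lit 104) (nat_lit 5) (nat_lit 362) (nat_lit 302) (nat_lit 236)) (XT.lf (nat_lit 0) (nat_lit 6583770162) (nat_lit 304) (nat_lit 3344459293) (nat_lit 76) (nat_lit 3077140362) (nat_lit 100) (nat_lit 5) (nat_lit 104) (nat_lit 5) (nat_lit 101) (nat_lit 5) (nat_lit 363) (nat_lit 302) (nat_lit 235))) (XT.nd (nat_lit 78) (nat_lit 76) (nat_lit 0) (XT.lf (nat_lit 0) (nat_lit 4390793375) (nat_lit 304) (nat_lit 5605689896) (nat_lit 380) (nat_lit 3246172855) (nat_lit 96) (nat_lit 5) (nat_lit 100) (nat_lit 5) (nat_lit 101) (nat_lit 5) (nat_lit 364) (nat_lit 302) (nat_lit 234)) (XT.lf (nat_lit 0) (nat_lit 25804031) (nat_lit 380) (nat_lit 1109362089) (nat_lit 76) (nat_lit 12351846505) (nat_lit 95) (nat_lit 5) (nat_lit 100) (nat_lit 5) (nat_lit 96) (nat_lit 5) (nat_lit 365) (nat_lit 302) (nat_lit 233))))))))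
noncomputable def xc111 : XT := (XT.nd (nat_lit 2106) (nat_lit 1824) (nat_lit 0) (XT.nd (nat_lit 1014) (nat_lit 1368) (nat_lit 0) (XT.nd (nat_lit 468) (nat_lit 988) (nat_lit 0) (XT.nd (nat_lit 234) (nat_lit 532) (nat_lit 0) (XT.nd (nat_lit 78) (nat_lit 304) (nat_lit 0) (XT.lf (nat_lit 0) (nat_lit 3399987083) (nat_lit 304) (nat_lit 6850514287) (nat_lit 76) (nat_lit 3485166792) (nat_lit 92) (nat_lit 5) (nat_lit 96) (nat_lit 5) (nat_lit 93) (nat_lit 5) (nat_lit 366) (nat_lit 302) (nat_lit 232)) (XT.nd (nat_lit 78) (nat_lit 0) (nat_lit 0) (XT.lf (nat_lit 0) (nat_lit 1112888392) (nat_lit 304) (nat_lit 5764657201) (nat_lit 380) (nat_lit 7114184247) (nat_lit 88) (nat_lit 5) (nat_lit 92) (nat_lit 5) (nat_lit 93) (nat_lit 5) (nat_lit 367) (nat_lit 302) (nat_lit 231)) (XT.lf (nat_lit 0) (nat_lit 9407818535) (nat_lit 304) (nat_lit 1090135044) (nat_lit 380) (nat_lit 3756374764) (nat_lit 88) (nat_lit 5) (nat_lit 92)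 (nat_lit 5) (nat_lit 93) (nat_lit 5) (nat_lit 368) (nat_lit 302) (nat_lit 230)))) (XT.nd (nat_lit 78) (nat_lit 304) (nat_lit 0) (XT.lf (nat_lit 0) (nat_lit 3410383042) (nat_lit 228) (nat_lit 10855255546) (nat_lit 304) (nat_lit 258016613) (nat_lit 85) (nat_lit 5) (nat_lit 88) (nat_lit 5) (nat_lit 89) (nat_lit 5) (nat_lit 369) (nat_lit 302) (nat_lit 229)) (XT.nd (nat_lit 78) (nat_lit 228) (nat_lit 0) (XT.lf (nat_lit 0) (nat_lit 3310431294) (nat_lit 304) (nat_lit 2875992033) (nat_lit 76) (nat_lit 8612771046) (nat_lit 84) (nat_lit 5) (nat_lit 88) (nat_lit 5) (nat_lit 85) (nat_lit 5) (nat_lit 370) (nat_lit 302) (nat_lit 228)) (XT.lf (nat_lit 0) (nat_lit 5670588209) (nat_lit 228) (nat_lit 1335735183) (nat_lit 304) (nat_lit 8075841859) (nat_lit 81) (nat_lit 5) (nat_lit 84) (nat_lit 5) (nat_lit 85) (nat_lit 5) (nat_lit 371) (nat_lit 302) (nat_lit 227))))) (XT.nd (nat_lit 234) (nat_lit 456) (nat_lit 0) (XT.nd (nat_lit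 78) (nat_lit 532) (nat_lit 0) (XT.lf (nat_lit 0) (nat_lit 10848918656) (nat_lit 304) (nat_lit 921876632) (nat_lit 76) (nat_lit 3601764364) (nat_lit 81) (nat_lit 5) (nat_lit 85) (nat_lit 5) (nat_lit 82) (nat_lit 5) (nat_lit 372) (nat_lit 302) (nat_lit 226)) (XT.nd (nat_lit 78) (nat_lit 304) (nat_lit 0) (XT.lf (nat_lit 0) (nat_lit 7918993249) (nat_lit 228) (nat_lit 6949291727) (nat_lit 304) (nat_lit 801545038) (nat_lit 78) (nat_lit 5) (nat_lit 81) (nat_lit 5) (nat_lit 82) (nat_lit 5) (nat_lit 373) (nat_lit 302) (nat_lit 225)) (XT.lf (nat_lit 0) (nat_lit 1013845950) (nat_lit 228) (nat_lit 1950595509) (nat_lit 304) (nat_lit 13010969101) (nat_lit 74) (nat_lit 5) (nat_lit 77) (nat_lit 5) (nat_lit 78) (nat_lit 5) (nat_lit 374) (nat_lit 302) (nat_lit 224)))) (XT.nd (nat_lit 156) (nat_lit 304) (nat_lit 0) (XT.nd (nat_lit 78) (nat_lit 152) (nat_lit 0) (XT.lf (nat_lit 0) (nat_lit 6909547975) (nat_lit 304) (nat_lit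 6172079162) (nat_lit 76) (nat_lit 3205833949) (nat_lit 74) (nat_lit 5) (nat_lit 78) (nat_lit 5) (nat_lit 75) (nat_lit 5) (nat_lit 375) (nat_lit 302) (nat_lit 223)) (XT.lf (nat_lit 0) (nat_lit 2874006214) (nat_lit 152) (nat_lit 8119208744) (nat_lit 228) (nat_lit 5615059878) (nat_lit 72) (nat_lit 5) (nat_lit 74) (nat_lit 5) (nat_lit 75) (nat_lit 5) (nat_lit 376) (nat_lit 302) (nat_lit 222))) (XT.nd (nat_lit 78) (nat_lit 304) (nat_lit 0) (XT.lf (nat_lit 0) (nat_lit 12274571643) (nat_lit 152) (nat_lit 2960775137) (nat_lit 228) (nat_lit 1702295272) (nat_lit 72) (nat_lit 5) (nat_lit 74) (nat_lit 5) (nat_lit 75) (nat_lit 5) (nat_lit 377) (nat_lit 302) (nat_lit 221)) (XT.lf (nat_lit 0) (nat_lit 2324931503) (nat_lit 304) (nat_lit 12591708083) (nat_lit 76) (nat_lit 2358311530) (nat_lit 68) (nat_lit 5) (nat_lit 72) (nat_lit 5) (nat_lit 69) (nat_lit 5) (nat_lit 378) (nat_lit 302) (nat_lit 220)))))) (XT.nd (nat_lit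 546) (nat_lit 760) (nat_lit 0) (XT.nd (nat_lit 234) (nat_lit 456) (nat_lit 0) (XT.nd (nat_lit 78) (nat_lit 152) (nat_lit 0) (XT.lf (nat_lit 0) (nat_lit 6489951605) (nat_lit 304) (nat_lit 3304942221) (nat_lit 76) (nat_lit 7825451310) (nat_lit 68) (nat_lit 5) (nat_lit 72) (nat_lit 5) (nat_lit 69) (nat_lit 5) (nat_lit 379) (nat_lit 302) (nat_lit 219)) (XT.nd (nat_lit 78) (nat_lit 0) (nat_lit 0) (XT.lf (nat_lit 0) (nat_lit 6342567293) (nat_lit 152) (nat_lit 4473393831) (nat_lit 228) (nat_lit 7159065527) (nat_lit 66) (nat_lit 5) (nat_lit 68) (nat_lit 5) (nat_lit 69) (nat_lit 5) (nat_lit 380) (nat_lit 302) (nat_lit 218)) (XT.lf (nat_lit 0) (nat_lit 15290382258) (nat_lit 228) (nat_lit 2043917249) (nat_lit 76) (nat_lit 1005496804) (nat_lit 66) (nat_lit 5) (nat_lit 69) (nat_lit 5) (nat_lit 67) (nat_lit 5) (nat_lit 381) (nat_lit 302) (nat_lit 217)))) (XT.nd (nat_lit 156) (nat_lit 152) (nat_lit 0) (XT.nd (nat_lit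 78) (nat_lit 0) (nat_lit 0) (XT.lf (nat_lit 0) (nat_lit 1257585795) (nat_lit 304) (nat_lit 10823364818) (nat_lit 76) (nat_lit 6631308791) (nat_lit 62) (nat_lit 5) (nat_lit 66) (nat_lit 5) (nat_lit 63) (nat_lit 5) (nat_lit 382) (nat_lit 302) (nat_lit 216)) (XT.lf (nat_lit 0) (nat_lit 5629383657) (nat_lit 304) (nat_lit 1004754757) (nat_lit 76) (nat_lit 12460951939) (nat_lit 62) (nat_lit 5) (nat_lit 66) (nat_lit 5) (nat_lit 63) (nat_lit 5) (nat_lit 383) (nat_lit 302) (nat_lit 215))) (XT.nd (nat_lit 78) (nat_lit 0) (nat_lit 0) (XT.lf (nat_lit 0) (nat_lit 9249417559) (nat_lit 152) (nat_lit 948561295) (nat_lit 228) (nat_lit 9289463974) (nat_lit 60) (nat_lit 5) (nat_lit 62) (nat_lit 5) (nat_lit 63) (nat_lit 5) (nat_lit 384) (nat_lit 302) (nat_lit 214)) (XT.lf (nat_lit 0) (nat_lit 14937932234) (nat_lit 228) (nat_lit 146363118) (nat_lit 76) (nat_lit 4806247242) (nat_lit 60) (nat_lit 5) (nat_lit 63) (nat_lit 5) (nat_lit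 61) (nat_lit 5) (nat_lit 385) (nat_lit 302) (nat_lit 213))))) (XT.nd (nat_lit 234) (nat_lit 380) (nat_lit 0) (XT.nd (nat_lit 78) (nat_lit 228) (nat_lit 0) (XT.lf (nat_lit 0) (nat_lit 10403177154) (nat_lit 152) (nat_lit 9503853008) (nat_lit 228) (nat_lit 396102374) (nat_lit 58) (nat_lit 5) (nat_lit 60) (nat_lit 5) (nat_lit 61) (nat_lit 5) (nat_lit 386) (nat_lit 302) (nat_lit 212)) (XT.nd (nat_lit 78) (nat_lit 0) (nat_lit 0) (XT.lf (nat_lit 0) (nat_lit 473510034) (nat_lit 152) (nat_lit 3723398544) (nat_lit 228) (nat_lit 16530447860) (nat_lit 55) (nat_lit 5) (nat_lit 57) (nat_lit 5) (nat_lit 58) (nat_lit 5) (nat_lit 387) (nat_lit 302) (nat_lit 211)) (XT.lf (nat_lit 0) (nat_lit 9019894948) (nat_lit 228) (nat_lit 9865233865) (nat_lit 76) (nat_lit 2276061287) (nat_lit 55) (nat_lit 5) (nat_lit 58) (nat_lit 5) (nat_lit 56) (nat_lit 5) (nat_lit 388) (nat_lit 302) (nat_lit 210)))) (XT.nd (nat_lit 156) (nat_lit 228)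 (nat_lit 0) (XT.nd (nat_lit 78) (nat_lit 0) (nat_lit 0) (XT.lf (nat_lit 0) (nat_lit 775743778) (nat_lit 152) (nat_lit 13234543345) (nat_lit 228) (nat_lit 7597075104) (nat_lit 53) (nat_lit 5) (nat_lit 55) (nat_lit 5) (nat_lit 56) (nat_lit 5) (nat_lit 389) (nat_lit 302) (nat_lit 209)) (XT.lf (nat_lit 0) (nat_lit 11900981169) (nat_lit 152) (nat_lit 7327695110) (nat_lit 228) (nat_lit 2835899478) (nat_lit 53) (nat_lit 5) (nat_lit 55) (nat_lit 5) (nat_lit 56) (nat_lit 5) (nat_lit 390) (nat_lit 302) (nat_lit 208))) (XT.nd (nat_lit 78) (nat_lit 0) (nat_lit 0) (XT.lf (nat_lit 0) (nat_lit 783341129) (nat_lit 152) (nat_lit 1231021377) (nat_lit 228) (nat_lit 20520953088) (nat_lit 50) (nat_lit 5) (nat_lit 52) (nat_lit 5) (nat_lit 53) (nat_lit 5) (nat_lit 391) (nat_lit 302) (nat_lit 207)) (XT.lf (nat_lit 0) (nat_lit 7084501834) (nat_lit 228) (nat_lit 10864345763) (nat_lit 76) (nat_lit 5066551026) (nat_lit 50) (nat_lit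 5) (nat_lit 53) (nat_lit 5) (nat_lit 51) (nat_lit 5) (nat_lit 392) (nat_lit 302) (nat_lit 206))))))) (XT.nd (nat_lit 1014) (nat_lit 912) (nat_lit 0) (XT.nd (nat_lit 468) (nat_lit 380) (nat_lit 0) (XT.nd (nat_lit 234) (nat_lit 380) (nat_lit 0) (XT.nd (nat_lit 78) (nat_lit 0) (nat_lit 0) (XT.lf (nat_lit 0) (nat_lit 308152558) (nat_lit 152) (nat_lit 11993539321) (nat_lit 228) (nat_lit 11208348128) (nat_lit 48) (nat_lit 5) (nat_lit 50) (nat_lit 5) (nat_lit 51) (nat_lit 5) (nat_lit 393) (nat_lit 302) (nat_lit 205)) (XT.nd (nat_lit 78) (nat_lit 0) (nat_lit 0) (XT.lf (nat_lit 0) (nat_lit 12003299051) (nat_lit 152) (nat_lit 5761852983) (nat_lit 228) (nat_lit 6251680104) (nat_lit 48) (nat_lit 5) (nat_lit 50) (nat_lit 5) (nat_lit 51) (nat_lit 5) (nat_lit 394) (nat_lit 302) (nat_lit 204)) (XT.lf (nat_lit 0) (nat_lit 23379313799) (nat_lit 228) (nat_lit 530493045) (nat_lit 76) (nat_lit 629421272) (nat_lit 48) (nat_lit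 5) (nat_lit 51) (nat_lit 5) (nat_lit 49) (nat_lit 4) (nat_lit 395) (nat_lit 302) (nat_lit 203)))) (XT.nd (nat_lit 78) (nat_lit 152) (nat_lit 0) (XT.lf (nat_lit 0) (nat_lit 4154327310) (nat_lit 228) (nat_lit 13684213390) (nat_lit 76) (nat_lit 7233098301) (nat_lit 45) (nat_lit 5) (nat_lit 48) (nat_lit 5) (nat_lit 46) (nat_lit 5) (nat_lit 396) (nat_lit 302) (nat_lit 202)) (XT.nd (nat_lit 78) (nat_lit 152) (nat_lit 0) (XT.lf (nat_lit 0) (nat_lit 9591188474) (nat_lit 228) (nat_lit 1991334790) (nat_lit 76) (nat_lit 14037562935) (nat_lit 45) (nat_lit 5) (nat_lit 48) (nat_lit 5) (nat_lit 46) (nat_lit 5) (nat_lit 397) (nat_lit 302) (nat_lit 201)) (XT.lf (nat_lit 0) (nat_lit 10219029204) (nat_lit 152) (nat_lit 5052003884) (nat_lit 228) (nat_lit 10911560965) (nat_lit 43) (nat_lit 5) (nat_lit 45) (nat_lit 5) (nat_lit 46) (nat_lit 5) (nat_lit 398) (nat_lit 302) (nat_lit 200))))) (XT.nd (nat_lit 234) (nat_lit 228) (nat_lit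 0) (XT.nd (nat_lit 78) (nat_lit 152) (nat_lit 0) (XT.lf (nat_lit 0) (nat_lit 21139408577) (nat_lit 228) (nat_lit 3973944754) (nat_lit 76) (nat_lit 1648083211) (nat_lit 43) (nat_lit 5) (nat_lit 46) (nat_lit 5) (nat_lit 44) (nat_lit 4) (nat_lit 399) (nat_lit 302) (nat_lit 199)) (XT.nd (nat_lit 78) (nat_lit 76) (nat_lit 0) (XT.lf (nat_lit 0) (nat_lit 8458555702) (nat_lit 76) (nat_lit 18838872561) (nat_lit 152) (nat_lit 56811618) (nat_lit 42) (nat_lit 5) (nat_lit 43) (nat_lit 5) (nat_lit 44) (nat_lit 4) (nat_lit 400) (nat_lit 302) (nat_lit 198)) (XT.lf (nat_lit 0) (nat_lit 5587441894) (nat_lit 152) (nat_lit 6704971163) (nat_lit 76) (nat_lit 15670095960) (nat_lit 41) (nat_lit 5) (nat_lit 43) (nat_lit 5) (nat_lit 42) (nat_lit 5) (nat_lit 401) (nat_lit 302) (nat_lit 197)))) (XT.nd (nat_lit 156) (nat_lit 76) (nat_lit 0) (XT.nd (nat_lit 78) (nat_lit 0) (nat_lit 0) (XT.lf (nat_lit 0) (nat_lit 5935769285) (nat_lit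 152) (nat_lit 5503986669) (nat_lit 228) (nat_lit 17148060236) (nat_lit 39) (nat_lit 5) (nat_lit 41) (nat_lit 5) (nat_lit 42) (nat_lit 5) (nat_lit 402) (nat_lit 302) (nat_lit 196)) (XT.lf (nat_lit 0) (nat_lit 17533212189) (nat_lit 228) (nat_lit 10182685914) (nat_lit 76) (nat_lit 1514020280) (nat_lit 39) (nat_lit 5) (nat_lit 42) (nat_lit 5) (nat_lit 40) (nat_lit 4) (nat_lit 403) (nat_lit 302) (nat_lit 195))) (XT.nd (nat_lit 78) (nat_lit 0) (nat_lit 0) (XT.lf (nat_lit 0) (nat_lit 2627397968) (nat_lit 76) (nat_lit 21245214410) (nat_lit 152) (nat_lit 6016779958) (nat_lit 38) (nat_lit 5) (nat_lit 39) (nat_lit 5) (nat_lit 40) (nat_lit 4) (nat_lit 404) (nat_lit 302) (nat_lit 194)) (XT.lf (nat_lit 0) (nat_lit 16000681847) (nat_lit 76) (nat_lit 14487924073) (nat_lit 152) (nat_lit 77455064) (nat_lit 38) (nat_lit 5) (nat_lit 39) (nat_lit 5) (nat_lit 40) (nat_lit 4) (nat_lit 405) (nat_lit 302) (nat_lit 193)))))) (XT.nd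 (nat_lit 546) (nat_lit 380) (nat_lit 0) (XT.nd (nat_lit 234) (nat_lit 304) (nat_lit 0) (XT.nd (nat_lit 78) (nat_lit 152) (nat_lit 0) (XT.lf (nat_lit 0) (nat_lit 5906090249) (nat_lit 152) (nat_lit 1575217645) (nat_lit 76) (nat_lit 23780465520) (nat_lit 37) (nat_lit 5) (nat_lit 39) (nat_lit 5) (nat_lit 38) (nat_lit 5) (nat_lit 406) (nat_lit 302) (nat_lit 192)) (XT.nd (nat_lit 78) (nat_lit 0) (nat_lit 0) (XT.lf (nat_lit 0) (nat_lit 12009797831) (nat_lit 152) (nat_lit 157605462) (nat_lit 228) (nat_lit 19807938951) (nat_lit 35) (nat_lit 5) (nat_lit 37) (nat_lit 5) (nat_lit 38) (nat_lit 5) (nat_lit 407) (nat_lit 302) (nat_lit 191)) (XT.lf (nat_lit 0) (nat_lit 18688051593) (nat_lit 228) (nat_lit 6774844282) (nat_lit 76) (nat_lit 7245279893) (nat_lit 35) (nat_lit 5) (nat_lit 38) (nat_lit 5) (nat_lit 36) (nat_lit 4) (nat_lit 408) (nat_lit 302) (nat_lit 190)))) (XT.nd (nat_lit 156) (nat_lit 228) (nat_lit 0) (XT.nd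 (nat_lit 78) (nat_lit 0) (nat_lit 0) (XT.lf (nat_lit 0) (nat_lit 6917325390) (nat_lit 76) (nat_lit 18539936173) (nat_lit 152) (nat_lit 8004146897) (nat_lit 34) (nat_lit 5) (nat_lit 35) (nat_lit 5) (nat_lit 36) (nat_lit 4) (nat_lit 409) (nat_lit 302) (nat_lit 189)) (XT.lf (nat_lit 0) (nat_lit 21131736178) (nat_lit 76) (nat_lit 11351289257) (nat_lit 152) (nat_lit 1752610731) (nat_lit 34) (nat_lit 5) (nat_lit 35) (nat_lit 5) (nat_lit 36) (nat_lit 4) (nat_lit 410) (nat_lit 302) (nat_lit 188))) (XT.nd (nat_lit 78) (nat_lit 0) (nat_lit 0) (XT.lf (nat_lit 0) (nat_lit 680827511) (nat_lit 152) (nat_lit 3906092748) (nat_lit 228) (nat_lit 30445064230) (nat_lit 31) (nat_lit 5) (nat_lit 33) (nat_lit 5) (nat_lit 34) (nat_lit 5) (nat_lit 411) (nat_lit 302) (nat_lit 187)) (XT.lf (nat_lit 0) (nat_lit 11236620172) (nat_lit 228) (nat_lit 20782322482) (nat_lit 76) (nat_lit 3828105928) (nat_lit 31) (nat_lit 5) (nat_lit 34)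 (nat_lit 5) (nat_lit 32) (nat_lit 4) (nat_lit 412) (nat_lit 302) (nat_lit 186))))) (XT.nd (nat_lit 234) (nat_lit 304) (nat_lit 0) (XT.nd (nat_lit 78) (nat_lit 76) (nat_lit 0) (XT.lf (nat_lit 0) (nat_lit 18110318118) (nat_lit 228) (nat_lit 6871265183) (nat_lit 76) (nat_lit 11704248182) (nat_lit 31) (nat_lit 5) (nat_lit 34) (nat_lit 5) (nat_lit 32) (nat_lit 4) (nat_lit 413) (nat_lit 302) (nat_lit 185)) (XT.nd (nat_lit 78) (nat_lit 0) (nat_lit 0) (XT.lf (nat_lit 0) (nat_lit 7579623723) (nat_lit 76) (nat_lit 17669708744) (nat_lit 152) (nat_lit 12298674275) (nat_lit 30) (nat_lit 5) (nat_lit 31) (nat_lit 5) (nat_lit 32) (nat_lit 4) (nat_lit 414) (nat_lit 302) (nat_lit 184)) (XT.lf (nat_lit 0) (nat_lit 22579736703) (nat_lit 76) (nat_lit 10078571131) (nat_lit 152) (nat_lit 5776067684) (nat_lit 30) (nat_lit 5) (nat_lit 31) (nat_lit 5) (nat_lit 32) (nat_lit 4) (nat_lit 415) (nat_lit 302) (nat_lit 183)))) (XT.nd (nat_lit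 156) (nat_lit 76) (nat_lit 0) (XT.nd (nat_lit 78) (nat_lit 152) (nat_lit 0) (XT.lf (nat_lit 0) (nat_lit 910498755) (nat_lit 152) (nat_lit 1351230725) (nat_lit 76) (nat_lit 37085735994) (nat_lit 29) (nat_lit 5) (nat_lit 31) (nat_lit 5) (nat_lit 30) (nat_lit 5) (nat_lit 416) (nat_lit 302) (nat_lit 182)) (XT.lf (nat_lit 0) (nat_lit 7858462475) (nat_lit 228) (nat_lit 26565157831) (nat_lit 76) (nat_lit 5857307161) (nat_lit 27) (nat_lit 5) (nat_lit 30) (nat_lit 5) (nat_lit 28) (nat_lit 4) (nat_lit 417) (nat_lit 302) (nat_lit 181))) (XT.nd (nat_lit 78) (nat_lit 76) (nat_lit 0) (XT.lf (nat_lit 0) (nat_lit 15038138018) (nat_lit 228) (nat_lit 12026051040) (nat_lit 76) (nat_lit 14177507830) (nat_lit 27) (nat_lit 5) (nat_lit 30) (nat_lit 5) (nat_lit 28) (nat_lit 4) (nat_lit 418) (nat_lit 302) (nat_lit 180)) (XT.lf (nat_lit 0) (nat_lit 2984142341) (nat_lit 76) (nat_lit 19465222300) (nat_lit 152) (nat_lit 19781441632)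 (nat_lit 26) (nat_lit 5) (nat_lit 27) (nat_lit 5) (nat_lit 28) (nat_lit 4) (nat_lit 419) (nat_lit 302) (nat_lit 179))))))))
noncomputable def xc112 : XT := (XT.nd (nat_lit 2028) (nat_lit 76) (nat_lit 0) (XT.nd (nat_lit 1014) (nat_lit 380) (nat_lit 0) (XT.nd (nat_lit 468) (nat_lit 228) (nat_lit 0) (XT.nd (nat_lit 234) (nat_lit 76) (nat_lit 0) (XT.nd (nat_lit 78) (nat_lit 152) (nat_lit 0) (XT.lf (nat_lit 0) (nat_lit 18668074409) (nat_lit 76) (nat_lit 11523911444) (nat_lit 152) (nat_lit 13054333008) (nat_lit 26) (nat_lit 5) (nat_lit 27) (nat_lit 5) (nat_lit 28) (nat_lit 4) (nat_lit 420) (nat_lit 302) (nat_lit 178)) (XT.nd (nat_lit 78) (nat_lit 152) (nat_lit 0) (XT.lf (nat_lit 0) (nat_lit 34800107573) (nat_lit 76) (nat_lit 3354757017) (nat_lit 152) (nat_lit 6137794476) (nat_lit 26) (nat_lit 5) (nat_lit 27) (nat_lit 5) (nat_lit 28) (nat_lit 4) (nat_lit 421) (nat_lit 302) (nat_lit 177)) (XT.lf (nat_lit 0) (nat_lit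 1063384338) (nat_lit 152) (nat_lit 39283978717) (nat_lit 76) (nat_lit 5019851849) (nat_lit 24) (nat_lit 5) (nat_lit 26) (nat_lit 5) (nat_lit 25) (nat_lit 4) (nat_lit 422) (nat_lit 302) (nat_lit 176)))) (XT.nd (nat_lit 78) (nat_lit 76) (nat_lit 0) (XT.lf (nat_lit 0) (nat_lit 8475504063) (nat_lit 152) (nat_lit 24267219060) (nat_lit 76) (nat_lit 13725914583) (nat_lit 24) (nat_lit 5) (nat_lit 26) (nat_lit 5) (nat_lit 25) (nat_lit 4) (nat_lit 423) (nat_lit 302) (nat_lit 175)) (XT.nd (nat_lit 78) (nat_lit 76) (nat_lit 0) (XT.lf (nat_lit 0) (nat_lit 16098578150) (nat_lit 152) (nat_lit 8821352824) (nat_lit 76) (nat_lit 22683515924) (nat_lit 24) (nat_lit 5) (nat_lit 26) (nat_lit 5) (nat_lit 25) (nat_lit 4) (nat_lit 424) (nat_lit 302) (nat_lit 174)) (XT.lf (nat_lit 0) (nat_lit 7207765852) (nat_lit 76) (nat_lit 16800787140) (nat_lit 152) (nat_lit 24762002504) (nat_lit 23) (nat_lit 5) (nat_lit 24) (nat_lit 5) (nat_lit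 25) (nat_lit 4) (nat_lit 425) (nat_lit 302) (nat_lit 173))))) (XT.nd (nat_lit 234) (nat_lit 152) (nat_lit 0) (XT.nd (nat_lit 78) (nat_lit 76) (nat_lit 0) (XT.lf (nat_lit 0) (nat_lit 23878017811) (nat_lit 76) (nat_lit 8355935616) (nat_lit 152) (nat_lit 17736381479) (nat_lit 23) (nat_lit 5) (nat_lit 24) (nat_lit 5) (nat_lit 25) (nat_lit 4) (nat_lit 426) (nat_lit 302) (nat_lit 172)) (XT.nd (nat_lit 78) (nat_lit 76) (nat_lit 0) (XT.lf (nat_lit 0) (nat_lit 40698683119) (nat_lit 152) (nat_lit 10181221194) (nat_lit 0) (nat_lit 326427675) (nat_lit 23) (nat_lit 5) (nat_lit 25) (nat_lit 4) (nat_lit 23) (nat_lit 4) (nat_lit 427) (nat_lit 302) (nat_lit 171)) (XT.lf (nat_lit 0) (nat_lit 6226361870) (nat_lit 76) (nat_lit 43323165997) (nat_lit 76) (nat_lit 2925917188) (nat_lit 22) (nat_lit 4) (nat_lit 23) (nat_lit 5) (nat_lit 23) (nat_lit 4) (nat_lit 428) (nat_lit 302) (nat_lit 170)))) (XT.nd (nat_lit 156) (nat_lit 76)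 (nat_lit 0) (XT.nd (nat_lit 78) (nat_lit 0) (nat_lit 0) (XT.lf (nat_lit 0) (nat_lit 4881407564) (nat_lit 152) (nat_lit 30512256856) (nat_lit 76) (nat_lit 18384757125) (nat_lit 21) (nat_lit 5) (nat_lit 23) (nat_lit 5) (nat_lit 22) (nat_lit 4) (nat_lit 429) (nat_lit 302) (nat_lit 169)) (XT.lf (nat_lit 0) (nat_lit 12854049790) (nat_lit 152) (nat_lit 14351351780) (nat_lit 76) (nat_lit 27914520662) (nat_lit 21) (nat_lit 5) (nat_lit 23) (nat_lit 5) (nat_lit 22) (nat_lit 4) (nat_lit 430) (nat_lit 302) (nat_lit 168))) (XT.nd (nat_lit 78) (nat_lit 0) (nat_lit 0) (XT.lf (nat_lit 0) (nat_lit 2321173379) (nat_lit 76) (nat_lit 18757210218) (nat_lit 152) (nat_lit 35422910101) (nat_lit 20) (nat_lit 5) (nat_lit 21) (nat_lit 5) (nat_lit 22) (nat_lit 4) (nat_lit 431) (nat_lit 302) (nat_lit 167)) (XT.lf (nat_lit 0) (nat_lit 19769742803) (nat_lit 76) (nat_lit 9914934245) (nat_lit 152) (nat_lit 28235373466) (nat_lit 20) (nat_lit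 5) (nat_lit 21) (nat_lit 5) (nat_lit 22) (nat_lit 4) (nat_lit 432) (nat_lit 302) (nat_lit 166)))))) (XT.nd (nat_lit 468) (nat_lit 152) (nat_lit 0) (XT.nd (nat_lit 234) (nat_lit 152) (nat_lit 0) (XT.nd (nat_lit 78) (nat_lit 76) (nat_lit 0) (XT.lf (nat_lit 0) (nat_lit 37723982773) (nat_lit 76) (nat_lit 815767904) (nat_lit 152) (nat_lit 20841902678) (nat_lit 20) (nat_lit 5) (nat_lit 21) (nat_lit 5) (nat_lit 22) (nat_lit 4) (nat_lit 433) (nat_lit 302) (nat_lit 165)) (XT.nd (nat_lit 78) (nat_lit 76) (nat_lit 0) (XT.lf (nat_lit 0) (nat_lit 47733512835) (nat_lit 152) (nat_lit 4769968798) (nat_lit 0) (nat_lit 8381432590) (nat_lit 20) (nat_lit 5) (nat_lit 22) (nat_lit 4) (nat_lit 20) (nat_lit 4) (nat_lit 434) (nat_lit 302) (nat_lit 164)) (XT.lf (nat_lit 0) (nat_lit 12850081845) (nat_lit 76) (nat_lit 44475661326) (nat_lit 76) (nat_lit 5103851088) (nat_lit 19) (nat_lit 4) (nat_lit 20) (nat_lit 5) (nat_lit 20) (nat_lit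 4) (nat_lit 435) (nat_lit 302) (nat_lit 163)))) (XT.nd (nat_lit 78) (nat_lit 76) (nat_lit 0) (XT.lf (nat_lit 0) (nat_lit 3162682827) (nat_lit 152) (nat_lit 32970719431) (nat_lit 76) (nat_lit 27885103548) (nat_lit 18) (nat_lit 5) (nat_lit 20) (nat_lit 5) (nat_lit 19) (nat_lit 4) (nat_lit 436) (nat_lit 302) (nat_lit 162)) (XT.nd (nat_lit 78) (nat_lit 76) (nat_lit 0) (XT.lf (nat_lit 0) (nat_lit 11565956760) (nat_lit 152) (nat_lit 15930670757) (nat_lit 76) (nat_lit 38157202314) (nat_lit 18) (nat_lit 5) (nat_lit 20) (nat_lit 5) (nat_lit 19) (nat_lit 4) (nat_lit 437) (nat_lit 302) (nat_lit 161)) (XT.lf (nat_lit 0) (nat_lit 1636518683) (nat_lit 76) (nat_lit 18592120431) (nat_lit 152) (nat_lit 47109356045) (nat_lit 17) (nat_lit 5) (nat_lit 18) (nat_lit 5) (nat_lit 19) (nat_lit 4) (nat_lit 438) (nat_lit 302) (nat_lit 160))))) (XT.nd (nat_lit 234) (nat_lit 152) (nat_lit 0) (XT.nd (nat_lit 78) (nat_lit 0) (nat_lit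 0) (XT.lf (nat_lit 0) (nat_lit 20041448687) (nat_lit 76) (nat_lit 9262293800) (nat_lit 152) (nat_lit 39764367608) (nat_lit 17) (nat_lit 5) (nat_lit 18) (nat_lit 5) (nat_lit 19) (nat_lit 4) (nat_lit 439) (nat_lit 302) (nat_lit 159)) (XT.nd (nat_lit 78) (nat_lit 0) (nat_lit 0) (XT.lf (nat_lit 0) (nat_lit 38646283131) (nat_lit 152) (nat_lit 31870491832) (nat_lit 0) (nat_lit 333498831) (nat_lit 17) (nat_lit 5) (nat_lit 19) (nat_lit 4) (nat_lit 17) (nat_lit 4) (nat_lit 440) (nat_lit 302) (nat_lit 158)) (XT.lf (nat_lit 0) (nat_lit 48352887894) (nat_lit 152) (nat_lit 14306440382) (nat_lit 0) (nat_lit 10024061304) (nat_lit 17) (nat_lit 5) (nat_lit 19) (nat_lit 4) (nat_lit 17) (nat_lit 4) (nat_lit 441) (nat_lit 302) (nat_lit 157)))) (XT.nd (nat_lit 156) (nat_lit 76) (nat_lit 0) (XT.nd (nat_lit 78) (nat_lit 0) (nat_lit 0) (XT.lf (nat_lit 0) (nat_lit 3844902908) (nat_lit 76) (nat_lit 54535060092) (nat_lit 76) (nat_lit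 16190658463) (nat_lit 16) (nat_lit 4) (nat_lit 17) (nat_lit 5) (nat_lit 17) (nat_lit 4) (nat_lit 442) (nat_lit 302) (nat_lit 156)) (XT.lf (nat_lit 0) (nat_lit 22819540595) (nat_lit 76) (nat_lit 46025173790) (nat_lit 76) (nat_lit 7665650765) (nat_lit 16) (nat_lit 4) (nat_lit 17) (nat_lit 5) (nat_lit 17) (nat_lit 4) (nat_lit 443) (nat_lit 302) (nat_lit 155))) (XT.nd (nat_lit 78) (nat_lit 0) (nat_lit 0) (XT.lf (nat_lit 0) (nat_lit 1085892066) (nat_lit 152) (nat_lit 36169843097) (nat_lit 76) (nat_lit 41252468795) (nat_lit 15) (nat_lit 5) (nat_lit 17) (nat_lit 5) (nat_lit 16) (nat_lit 4) (nat_lit 444) (nat_lit 302) (nat_lit 154)) (XT.lf (nat_lit 0) (nat_lit 9938670999) (nat_lit 152) (nat_lit 18212955231) (nat_lit 76) (nat_lit 52412292623) (nat_lit 15) (nat_lit 5) (nat_lit 17) (nat_lit 5) (nat_lit 16) (nat_lit 4) (nat_lit 445) (nat_lit 302) (nat_lit 153))))))) (XT.nd (nat_lit 36660) (nat_lit 0) (nat_lit 16796)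 (XT.nd (nat_lit 36114) (nat_lit 0) (nat_lit 24168) (XT.nd (nat_lit 35880) (nat_lit 0) (nat_lit 25612) (XT.nd (nat_lit 35724) (nat_lit 0) (nat_lit 25916) (XT.lf (nat_lit 0) (nat_lit 274574385) (nat_lit 76) (nat_lit 18778070917) (nat_lit 152) (nat_lit 63628792213) (nat_lit 14) (nat_lit 5) (nat_lit 15) (nat_lit 5) (nat_lit 16) (nat_lit 4) (nat_lit 446) (nat_lit 302) (nat_lit 152)) (XT.nd (nat_lit 78) (nat_lit 380) (nat_lit 0) (XT.lf (nat_lit 0) (nat_lit 1119711970) (nat_lit 0) (nat_lit 1119711970) (nat_lit 228) (nat_lit 1000922282) (nat_lit 360) (nat_lit 5) (nat_lit 360) (nat_lit 3) (nat_lit 363) (nat_lit 3) (nat_lit 303) (nat_lit 303) (nat_lit 294)) (XT.lf (nat_lit 0) (nat_lit 684509596) (nat_lit 380) (nat_lit 1112930159) (nat_lit 380) (nat_lit 4697842009) (nat_lit 355) (nat_lit 3) (nat_lit 360) (nat_lit 3) (nat_lit 360) (nat_lit 5) (nat_lit 304) (nat_lit 303) (nat_lit 293)))) (XT.nd (nat_lit 78) (nat_lit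 304) (nat_lit 0) (XT.lf (nat_lit 76) (nat_lit 2076093798) (nat_lit 0) (nat_lit 1250616783) (nat_lit 380) (nat_lit 3185652209) (nat_lit 356) (nat_lit 5) (nat_lit 355) (nat_lit 3) (nat_lit 360) (nat_lit 5) (nat_lit 305) (nat_lit 303) (nat_lit 292)) (XT.nd (nat_lit 78) (nat_lit 304) (nat_lit 0) (XT.lf (nat_lit 76) (nat_lit 5330274091) (nat_lit 0) (nat_lit 627206582) (nat_lit 380) (nat_lit 575306556) (nat_lit 356) (nat_lit 5) (nat_lit 355) (nat_lit 3) (nat_lit 360) (nat_lit 5) (nat_lit 306) (nat_lit 303) (nat_lit 291)) (XT.lf (nat_lit 0) (nat_lit 1993185087) (nat_lit 380) (nat_lit 4461753291) (nat_lit 456) (nat_lit 100748093) (nat_lit 351) (nat_lit 5) (nat_lit 356) (nat_lit 5) (nat_lit 357) (nat_lit 5) (nat_lit 307) (nat_lit 303) (nat_lit 290))))) (XT.nd (nat_lit 234) (nat_lit 988) (nat_lit 0) (XT.nd (nat_lit 78) (nat_lit 456) (nat_lit 0) (XT.lf (nat_lit 0) (nat_lit 4548417879) (nat_lit 380) (nat_lit 1133809537)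 (nat_lit 456) (nat_lit 899337639) (nat_lit 351) (nat_lit 5) (nat_lit 356) (nat_lit 5) (nat_lit 357) (nat_lit 5) (nat_lit 308) (nat_lit 303) (nat_lit 289)) (XT.nd (nat_lit 78) (nat_lit 0) (nat_lit 0) (XT.lf (nat_lit 0) (nat_lit 487668355) (nat_lit 456) (nat_lit 4331886284) (nat_lit 532) (nat_lit 1790793004) (nat_lit 345) (nat_lit 5) (nat_lit 351) (nat_lit 5) (nat_lit 352) (nat_lit 5) (nat_lit 309) (nat_lit 303) (nat_lit 288)) (XT.lf (nat_lit 0) (nat_lit 2961633507) (nat_lit 456) (nat_lit 900101039) (nat_lit 532) (nat_lit 2780195761) (nat_lit 345) (nat_lit 5) (nat_lit 351) (nat_lit 5) (nat_lit 352) (nat_lit 5) (nat_lit 310) (nat_lit 303) (nat_lit 287)))) (XT.nd (nat_lit 156) (nat_lit 456) (nat_lit 0) (XT.nd (nat_lit 78) (nat_lit 532) (nat_lit 0) (XT.lf (nat_lit 76) (nat_lit 2631076982) (nat_lit 0) (nat_lit 2813572721) (nat_lit 532) (nat_lit 1231855284) (nat_lit 346) (nat_lit 5) (nat_lit 345) (nat_lit 5) (nat_lit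 352) (nat_lit 5) (nat_lit 311) (nat_lit 303) (nat_lit 286)) (XT.lf (nat_lit 0) (nat_lit 1184738212) (nat_lit 532) (nat_lit 493919397) (nat_lit 608) (nat_lit 5035575480) (nat_lit 338) (nat_lit 5) (nat_lit 345) (nat_lit 5) (nat_lit 346) (nat_lit 5) (nat_lit 312) (nat_lit 303) (nat_lit 285))) (XT.nd (nat_lit 78) (nat_lit 456) (nat_lit 0) (XT.lf (nat_lit 76) (nat_lit 3158992802) (nat_lit 0) (nat_lit 433737795) (nat_lit 608) (nat_lit 3161768638) (nat_lit 339) (nat_lit 5) (nat_lit 338) (nat_lit 5) (nat_lit 346) (nat_lit 5) (nat_lit 313) (nat_lit 303) (nat_lit 284)) (XT.lf (nat_lit 0) (nat_lit 72024636) (nat_lit 532) (nat_lit 5930418457) (nat_lit 608) (nat_lit 795725384) (nat_lit 332) (nat_lit 5) (nat_lit 339) (nat_lit 5) (nat_lit 340) (nat_lit 5) (nat_lit 314) (nat_lit 303) (nat_lit 283)))))) (XT.nd (nat_lit 546) (nat_lit 5092) (nat_lit 0) (XT.nd (nat_lit 234) (nat_lit 1596) (nat_lit 0) (XT.nd (nat_lit 78) (nat_lit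 608) (nat_lit 0) (XT.lf (nat_lit 0) (nat_lit 1566851141) (nat_lit 608) (nat_lit 2997347911) (nat_lit 76) (nat_lit 2279822992) (nat_lit 331) (nat_lit 5) (nat_lit 339) (nat_lit 5) (nat_lit 332) (nat_lit 5) (nat_lit 315) (nat_lit 303) (nat_lit 282)) (XT.nd (nat_lit 78) (nat_lit 0) (nat_lit 0) (XT.lf (nat_lit 0) (nat_lit 794485979) (nat_lit 608) (nat_lit 3116509526) (nat_lit 684) (nat_lit 2982291617) (nat_lit 323) (nat_lit 5) (nat_lit 331) (nat_lit 5) (nat_lit 332) (nat_lit 5) (nat_lit 316) (nat_lit 303) (nat_lit 281)) (XT.lf (nat_lit 0) (nat_lit 4705620290) (nat_lit 608) (nat_lit 1570978541) (nat_lit 684) (nat_lit 668967934) (nat_lit 323) (nat_lit 5) (nat_lit 331) (nat_lit 5) (nat_lit 332) (nat_lit 5) (nat_lit 317) (nat_lit 303) (nat_lit 280)))) (XT.nd (nat_lit 156) (nat_lit 836) (nat_lit 0) (XT.nd (nat_lit 78) (nat_lit 0) (nat_lit 0) (XT.lf (nat_lit 0) (nat_lit 1619690216) (nat_lit 760) (nat_lit 5306160540)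 (nat_lit 76) (nat_lit 74955139) (nat_lit 313) (nat_lit 5) (nat_lit 323) (nat_lit 5) (nat_lit 314) (nat_lit 5) (nat_lit 318) (nat_lit 303) (nat_lit 279)) (XT.lf (nat_lit 0) (nat_lit 3926231849) (nat_lit 760) (nat_lit 1344107453) (nat_lit 76) (nat_lit 1788348768) (nat_lit 313) (nat_lit 5) (nat_lit 323) (nat_lit 5) (nat_lit 314) (nat_lit 5) (nat_lit 319) (nat_lit 303) (nat_lit 278))) (XT.nd (nat_lit 78) (nat_lit 76) (nat_lit 0) (XT.lf (nat_lit 0) (nat_lit 2733968607) (nat_lit 760) (nat_lit 3520759439) (nat_lit 836) (nat_lit 865058690) (nat_lit 303) (nat_lit 5) (nat_lit 313) (nat_lit 5) (nat_lit 314) (nat_lit 5) (nat_lit 320) (nat_lit 303) (nat_lit 277)) (XT.lf (nat_lit 0) (nat_lit 1382688517) (nat_lit 836) (nat_lit 291782852) (nat_lit 76) (nat_lit 5509651548) (nat_lit 302) (nat_lit 5) (nat_lit 313) (nat_lit 5) (nat_lit 303) (nat_lit 5) (nat_lit 321) (nat_lit 303) (nat_lit 276))))) (XT.nd (nat_lit 234) (nat_lit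 3268) (nat_lit 0) (XT.nd (nat_lit 78) (nat_lit 988) (nat_lit 0) (XT.lf (nat_lit 0) (nat_lit 3650552904) (nat_lit 912) (nat_lit 3316088038) (nat_lit 76) (nat_lit 284446593) (nat_lit 291) (nat_lit 5) (nat_lit 303) (nat_lit 5) (nat_lit 292) (nat_lit 5) (nat_lit 322) (nat_lit 303) (nat_lit 275)) (XT.nd (nat_lit 78) (nat_lit 76) (nat_lit 0) (XT.lf (nat_lit 0) (nat_lit 918715712) (nat_lit 912) (nat_lit 5027215955) (nat_lit 988) (nat_lit 1375400844) (nat_lit 279) (nat_lit 5) (nat_lit 291) (nat_lit 5) (nat_lit 292) (nat_lit 5) (nat_lit 323) (nat_lit 303) (nat_lit 274)) (XT.lf (nat_lit 0) (nat_lit 864254902) (nat_lit 988) (nat_lit 2111327472) (nat_lit 76) (nat_lit 4418921182) (nat_lit 278) (nat_lit 5) (nat_lit 291) (nat_lit 5) (nat_lit 279) (nat_lit 5) (nat_lit 324) (nat_lit 303) (nat_lit 273)))) (XT.nd (nat_lit 156) (nat_lit 2280) (nat_lit 0) (XT.nd (nat_lit 78) (nat_lit 0) (nat_lit 0) (XT.lf (nat_lit 0) (nat_lit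 2283282462) (nat_lit 988) (nat_lit 815941755) (nat_lit 1064) (nat_lit 4371614977) (nat_lit 265) (nat_lit 5) (nat_lit 278) (nat_lit 5) (nat_lit 279) (nat_lit 5) (nat_lit 325) (nat_lit 303) (nat_lit 272)) (XT.lf (nat_lit 0) (nat_lit 5371610553) (nat_lit 1064) (nat_lit 767447208) (nat_lit 76) (nat_lit 1411345656) (nat_lit 265) (nat_lit 5) (nat_lit 279) (nat_lit 5) (nat_lit 266) (nat_lit 5) (nat_lit 326) (nat_lit 303) (nat_lit 271))) (XT.nd (nat_lit 78) (nat_lit 1140) (nat_lit 0) (XT.lf (nat_lit 0) (nat_lit 59769303) (nat_lit 1140) (nat_lit 3838490968) (nat_lit 76) (nat_lit 3734672604) (nat_lit 250) (nat_lit 5) (nat_lit 265) (nat_lit 5) (nat_lit 251) (nat_lit 5) (nat_lit 327) (nat_lit 303) (nat_lit 270)) (XT.lf (nat_lit 0) (nat_lit 726819428) (nat_lit 1140) (nat_lit 1547512096) (nat_lit 1216) (nat_lit 5444425832) (nat_lit 235) (nat_lit 5) (nat_lit 250) (nat_lit 5) (nat_lit 251) (nat_lit 5) (nat_lit 328) (nat_lit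 303) (nat_lit 269))))))))
noncomputable def xc113 : XT := (XT.nd (nat_lit 2028) (nat_lit 4560) (nat_lit 0) (XT.nd (nat_lit 1014) (nat_lit 3116) (nat_lit 0) (XT.nd (nat_lit 468) (nat_lit 2736) (nat_lit 0) (XT.nd (nat_lit 234) (nat_lit 1140) (nat_lit 0) (XT.nd (nat_lit 78) (nat_lit 1292) (nat_lit 0) (XT.lf (nat_lit 0) (nat_lit 4542009195) (nat_lit 1216) (nat_lit 2365287372) (nat_lit 76) (nat_lit 900303674) (nat_lit 235) (nat_lit 5) (nat_lit 251) (nat_lit 5) (nat_lit 236) (nat_lit 5) (nat_lit 329) (nat_lit 303) (nat_lit 268)) (XT.nd (nat_lit 78) (nat_lit 76) (nat_lit 0) (XT.lf (nat_lit 0) (nat_lit 2374590030) (nat_lit 1216) (nat_lit 4482182336) (nat_lit 1292) (nat_lit 1043007136) (nat_lit 219) (nat_lit 5) (nat_lit 235) (nat_lit 5) (nat_lit 236) (nat_lit 5) (nat_lit 330) (nat_lit 303) (nat_lit 267)) (XT.lf (nat_lit 0) (nat_lit 1187532352) (nat_lit 1292) (nat_lit 758311846) (nat_lit 76) (nat_lit 6049592934)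 (nat_lit 218) (nat_lit 5) (nat_lit 235) (nat_lit 5) (nat_lit 219) (nat_lit 5) (nat_lit 331) (nat_lit 303) (nat_lit 266)))) (XT.nd (nat_lit 78) (nat_lit 532) (nat_lit 0) (XT.lf (nat_lit 0) (nat_lit 3454179020) (nat_lit 684) (nat_lit 3934127653) (nat_lit 76) (nat_lit 705682500) (nat_lit 210) (nat_lit 5) (nat_lit 219) (nat_lit 5) (nat_lit 211) (nat_lit 5) (nat_lit 332) (nat_lit 303) (nat_lit 265)) (XT.nd (nat_lit 78) (nat_lit 0) (nat_lit 0) (XT.lf (nat_lit 0) (nat_lit 989074380) (nat_lit 532) (nat_lit 4780570091) (nat_lit 608) (nat_lit 2426466700) (nat_lit 203) (nat_lit 5) (nat_lit 210) (nat_lit 5) (nat_lit 211) (nat_lit 5) (nat_lit 333) (nat_lit 303) (nat_lit 264)) (XT.lf (nat_lit 0) (nat_lit 6084433412) (nat_lit 532) (nat_lit 2055262061) (nat_lit 608) (nat_lit 162084583) (nat_lit 203) (nat_lit 5) (nat_lit 210) (nat_lit 5) (nat_lit 211) (nat_lit 5) (nat_lit 334) (nat_lit 303) (nat_lit 263))))) (XT.nd (nat_lit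 234) (nat_lit 1520) (nat_lit 0) (XT.nd (nat_lit 78) (nat_lit 532) (nat_lit 0) (XT.lf (nat_lit 0) (nat_lit 2109891989) (nat_lit 684) (nat_lit 5516333121) (nat_lit 76) (nat_lit 784342446) (nat_lit 194) (nat_lit 5) (nat_lit 203) (nat_lit 5) (nat_lit 195) (nat_lit 5) (nat_lit 335) (nat_lit 303) (nat_lit 262)) (XT.nd (nat_lit 78) (nat_lit 532) (nat_lit 0) (XT.lf (nat_lit 0) (nat_lit 4437162991) (nat_lit 684) (nat_lit 396195451) (nat_lit 76) (nat_lit 3689534053) (nat_lit 194) (nat_lit 5) (nat_lit 203) (nat_lit 5) (nat_lit 195) (nat_lit 5) (nat_lit 336) (nat_lit 303) (nat_lit 261)) (XT.lf (nat_lit 0) (nat_lit 4918485603) (nat_lit 532) (nat_lit 1912008340) (nat_lit 608) (nat_lit 1808238746) (nat_lit 187) (nat_lit 5) (nat_lit 194) (nat_lit 5) (nat_lit 195) (nat_lit 5) (nat_lit 337) (nat_lit 303) (nat_lit 260)))) (XT.nd (nat_lit 156) (nat_lit 912) (nat_lit 0) (XT.nd (nat_lit 78) (nat_lit 0) (nat_lit 0) (XT.lf (nat_lit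 0) (nat_lit 506777625) (nat_lit 608) (nat_lit 7156054579) (nat_lit 76) (nat_lit 1095701010) (nat_lit 179) (nat_lit 5) (nat_lit 187) (nat_lit 5) (nat_lit 180) (nat_lit 5) (nat_lit 338) (nat_lit 303) (nat_lit 259)) (XT.lf (nat_lit 0) (nat_lit 2862062562) (nat_lit 608) (nat_lit 1813319680) (nat_lit 76) (nat_lit 4205823538) (nat_lit 179) (nat_lit 5) (nat_lit 187) (nat_lit 5) (nat_lit 180) (nat_lit 5) (nat_lit 339) (nat_lit 303) (nat_lit 258))) (XT.nd (nat_lit 78) (nat_lit 456) (nat_lit 0) (XT.lf (nat_lit 0) (nat_lit 3707222602) (nat_lit 456) (nat_lit 1568159294) (nat_lit 532) (nat_lit 3732584457) (nat_lit 173) (nat_lit 5) (nat_lit 179) (nat_lit 5) (nat_lit 180) (nat_lit 5) (nat_lit 340) (nat_lit 303) (nat_lit 257)) (XT.lf (nat_lit 0) (nat_lit 225437618) (nat_lit 456) (nat_lit 7524570276) (nat_lit 532) (nat_lit 1388882898) (nat_lit 167) (nat_lit 5) (nat_lit 173) (nat_lit 5) (nat_lit 174) (nat_lit 5) (nat_lit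 341) (nat_lit 303) (nat_lit 256)))))) (XT.nd (nat_lit 468) (nat_lit 1672) (nat_lit 0) (XT.nd (nat_lit 234) (nat_lit 912) (nat_lit 0) (XT.nd (nat_lit 78) (nat_lit 456) (nat_lit 0) (XT.lf (nat_lit 0) (nat_lit 1027630268) (nat_lit 532) (nat_lit 3328062764) (nat_lit 76) (nat_lit 4917105809) (nat_lit 166) (nat_lit 5) (nat_lit 173) (nat_lit 5) (nat_lit 167) (nat_lit 5) (nat_lit 342) (nat_lit 303) (nat_lit 255)) (XT.nd (nat_lit 78) (nat_lit 0) (nat_lit 0) (XT.lf (nat_lit 0) (nat_lit 2403594601) (nat_lit 456) (nat_lit 1062526221) (nat_lit 532) (nat_lit 5944894715) (nat_lit 160) (nat_lit 5) (nat_lit 166) (nat_lit 5) (nat_lit 167) (nat_lit 5) (nat_lit 343) (nat_lit 303) (nat_lit 254)) (XT.lf (nat_lit 0) (nat_lit 5989116414) (nat_lit 532) (nat_lit 1254869224) (nat_lit 76) (nat_lit 2309077696) (nat_lit 160) (nat_lit 5) (nat_lit 167) (nat_lit 5) (nat_lit 161) (nat_lit 5) (nat_lit 344) (nat_lit 303) (nat_lit 253))))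 (XT.nd (nat_lit 78) (nat_lit 456) (nat_lit 0) (XT.lf (nat_lit 0) (nat_lit 4697820369) (nat_lit 456) (nat_lit 3901988734) (nat_lit 532) (nat_lit 1099227622) (nat_lit 154) (nat_lit 5) (nat_lit 160) (nat_lit 5) (nat_lit 161) (nat_lit 5) (nat_lit 345) (nat_lit 303) (nat_lit 252)) (XT.nd (nat_lit 78) (nat_lit 0) (nat_lit 0) (XT.lf (nat_lit 0) (nat_lit 956558308) (nat_lit 380) (nat_lit 433421304) (nat_lit 456) (nat_lit 8459658535) (nat_lit 148) (nat_lit 5) (nat_lit 153) (nat_lit 5) (nat_lit 154) (nat_lit 5) (nat_lit 346) (nat_lit 303) (nat_lit 251)) (XT.lf (nat_lit 0) (nat_lit 3970236171) (nat_lit 456) (nat_lit 2903833863) (nat_lit 76) (nat_lit 3129229389) (nat_lit 148) (nat_lit 5) (nat_lit 154) (nat_lit 5) (nat_lit 149) (nat_lit 5) (nat_lit 347) (nat_lit 303) (nat_lit 250))))) (XT.nd (nat_lit 234) (nat_lit 760) (nat_lit 0) (XT.nd (nat_lit 78) (nat_lit 456) (nat_lit 0) (XT.lf (nat_lit 0) (nat_lit 3271611779)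 (nat_lit 456) (nat_lit 3350560765) (nat_lit 532) (nat_lit 3539591487) (nat_lit 142) (nat_lit 5) (nat_lit 148) (nat_lit 5) (nat_lit 149) (nat_lit 5) (nat_lit 348) (nat_lit 303) (nat_lit 249)) (XT.nd (nat_lit 78) (nat_lit 456) (nat_lit 0) (XT.lf (nat_lit 0) (nat_lit 9345081235) (nat_lit 532) (nat_lit 688863829) (nat_lit 76) (nat_lit 291316117) (nat_lit 142) (nat_lit 5) (nat_lit 149) (nat_lit 5) (nat_lit 143) (nat_lit 5) (nat_lit 349) (nat_lit 303) (nat_lit 248)) (XT.lf (nat_lit 0) (nat_lit 1672677765) (nat_lit 456) (nat_lit 4783699863) (nat_lit 76) (nat_lit 4035358519) (nat_lit 136) (nat_lit 5) (nat_lit 142) (nat_lit 5) (nat_lit 137) (nat_lit 5) (nat_lit 350) (nat_lit 303) (nat_lit 247)))) (XT.nd (nat_lit 156) (nat_lit 380) (nat_lit 0) (XT.nd (nat_lit 78) (nat_lit 0) (nat_lit 0) (XT.lf (nat_lit 0) (nat_lit 1617385392) (nat_lit 380) (nat_lit 2751174822) (nat_lit 456) (nat_lit 6294879061) (nat_lit 131) (nat_lit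 5) (nat_lit 136) (nat_lit 5) (nat_lit 137) (nat_lit 5) (nat_lit 351) (nat_lit 303) (nat_lit 246)) (XT.lf (nat_lit 0) (nat_lit 7165434289) (nat_lit 456) (nat_lit 2593910246) (nat_lit 76) (nat_lit 1080364190) (nat_lit 131) (nat_lit 5) (nat_lit 137) (nat_lit 5) (nat_lit 132) (nat_lit 5) (nat_lit 352) (nat_lit 303) (nat_lit 245))) (XT.nd (nat_lit 78) (nat_lit 76) (nat_lit 0) (XT.lf (nat_lit 0) (nat_lit 4052260886) (nat_lit 304) (nat_lit 6022370801) (nat_lit 380) (nat_lit 945800197) (nat_lit 127) (nat_lit 5) (nat_lit 131) (nat_lit 5) (nat_lit 132) (nat_lit 5) (nat_lit 353) (nat_lit 303) (nat_lit 244)) (XT.lf (nat_lit 0) (nat_lit 1817048335) (nat_lit 380) (nat_lit 324615911) (nat_lit 76) (nat_lit 9064724787) (nat_lit 126) (nat_lit 5) (nat_lit 131) (nat_lit 5) (nat_lit 127) (nat_lit 5) (nat_lit 354) (nat_lit 303) (nat_lit 243))))))) (XT.nd (nat_lit 1014) (nat_lit 1976) (nat_lit 0) (XT.nd (nat_lit 468) (nat_lit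 1216) (nat_lit 0) (XT.nd (nat_lit 234) (nat_lit 684) (nat_lit 0) (XT.nd (nat_lit 78) (nat_lit 304) (nat_lit 0) (XT.lf (nat_lit 0) (nat_lit 4689062499) (nat_lit 456) (nat_lit 4827983913) (nat_lit 76) (nat_lit 1879255460) (nat_lit 121) (nat_lit 5) (nat_lit 127) (nat_lit 5) (nat_lit 122) (nat_lit 5) (nat_lit 355) (nat_lit 303) (nat_lit 242)) (XT.nd (nat_lit 78) (nat_lit 0) (nat_lit 0) (XT.lf (nat_lit 0) (nat_lit 2051070101) (nat_lit 304) (nat_lit 5604395138) (nat_lit 380) (nat_lit 3936216128) (nat_lit 117) (nat_lit 5) (nat_lit 121) (nat_lit 5) (nat_lit 122) (nat_lit 5) (nat_lit 356) (nat_lit 303) (nat_lit 241)) (XT.lf (nat_lit 0) (nat_lit 9185363712) (nat_lit 304) (nat_lit 1538813527) (nat_lit 380) (nat_lit 1068361140) (nat_lit 117) (nat_lit 5) (nat_lit 121) (nat_lit 5) (nat_lit 122) (nat_lit 5) (nat_lit 357) (nat_lit 303) (nat_lit 240)))) (XT.nd (nat_lit 78) (nat_lit 304) (nat_lit 0) (XT.lf (nat_lit 0) (nat_lit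 1883702765) (nat_lit 380) (nat_lit 7468865349) (nat_lit 76) (nat_lit 2645274987) (nat_lit 112) (nat_lit 5) (nat_lit 117) (nat_lit 5) (nat_lit 113) (nat_lit 5) (nat_lit 358) (nat_lit 303) (nat_lit 239)) (XT.nd (nat_lit 78) (nat_lit 304) (nat_lit 0) (XT.lf (nat_lit 0) (nat_lit 4910321872) (nat_lit 380) (nat_lit 351696601) (nat_lit 76) (nat_lit 6946761488) (nat_lit 112) (nat_lit 5) (nat_lit 117) (nat_lit 5) (nat_lit 113) (nat_lit 5) (nat_lit 359) (nat_lit 303) (nat_lit 238)) (XT.lf (nat_lit 0) (nat_lit 7068606175) (nat_lit 304) (nat_lit 993724335) (nat_lit 380) (nat_lit 4362690591) (nat_lit 108) (nat_lit 5) (nat_lit 112) (nat_lit 5) (nat_lit 113) (nat_lit 5) (nat_lit 360) (nat_lit 303) (nat_lit 237))))) (XT.nd (nat_lit 234) (nat_lit 608) (nat_lit 0) (XT.nd (nat_lit 78) (nat_lit 304) (nat_lit 0) (XT.lf (nat_lit 0) (nat_lit 2029243145) (nat_lit 304) (nat_lit 9302467965) (nat_lit 380) (nat_lit 1315367509) (nat_lit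 104) (nat_lit 5) (nat_lit 108) (nat_lit 5) (nat_lit 109) (nat_lit 5) (nat_lit 361) (nat_lit 303) (nat_lit 236)) (XT.nd (nat_lit 78) (nat_lit 228) (nat_lit 0) (XT.lf (nat_lit 0) (nat_lit 1819431838) (nat_lit 380) (nat_lit 3204689406) (nat_lit 76) (nat_lit 7850214405) (nat_lit 103) (nat_lit 5) (nat_lit 108) (nat_lit 5) (nat_lit 104) (nat_lit 5) (nat_lit 362) (nat_lit 303) (nat_lit 235)) (XT.lf (nat_lit 0) (nat_lit 4457345653) (nat_lit 228) (nat_lit 575468284) (nat_lit 304) (nat_lit 8074888809) (nat_lit 100) (nat_lit 5) (nat_lit 103) (nat_lit 5) (nat_lit 104) (nat_lit 5) (nat_lit 363) (nat_lit 303) (nat_lit 234)))) (XT.nd (nat_lit 156) (nat_lit 304) (nat_lit 0) (XT.nd (nat_lit 78) (nat_lit 304) (nat_lit 0) (XT.lf (nat_lit 0) (nat_lit 8382249466) (nat_lit 304) (nat_lit 1018799345) (nat_lit 76) (nat_lit 3945844478) (nat_lit 100) (nat_lit 5) (nat_lit 104) (nat_lit 5) (nat_lit 101) (nat_lit 5) (nat_lit 364) (nat_lit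 303) (nat_lit 233)) (XT.lf (nat_lit 0) (nat_lit 6924726651) (nat_lit 304) (nat_lit 4949078741) (nat_lit 380) (nat_lit 1718216680) (nat_lit 96) (nat_lit 5) (nat_lit 100) (nat_lit 5) (nat_lit 101) (nat_lit 5) (nat_lit 365) (nat_lit 303) (nat_lit 232))) (XT.nd (nat_lit 78) (nat_lit 0) (nat_lit 0) (XT.lf (nat_lit 0) (nat_lit 1245248007) (nat_lit 228) (nat_lit 340509062) (nat_lit 304) (nat_lit 12258533580) (nat_lit 92) (nat_lit 5) (nat_lit 95) (nat_lit 5) (nat_lit 96) (nat_lit 5) (nat_lit 366) (nat_lit 303) (nat_lit 231)) (XT.lf (nat_lit 0) (nat_lit 5034470483) (nat_lit 304) (nat_lit 4677172220) (nat_lit 76) (nat_lit 4389580225) (nat_lit 92) (nat_lit 5) (nat_lit 96) (nat_lit 5) (nat_lit 93) (nat_lit 5) (nat_lit 367) (nat_lit 303) (nat_lit 230)))))) (XT.nd (nat_lit 546) (nat_lit 836) (nat_lit 0) (XT.nd (nat_lit 234) (nat_lit 532) (nat_lit 0) (XT.nd (nat_lit 78) (nat_lit 304) (nat_lit 0) (XT.lf (nat_lit 0) (nat_lit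 3501810407) (nat_lit 304) (nat_lit 5092552738) (nat_lit 380) (nat_lit 5771278841) (nat_lit 88) (nat_lit 5) (nat_lit 92) (nat_lit 5) (nat_lit 93) (nat_lit 5) (nat_lit 368) (nat_lit 303) (nat_lit 229)) (XT.nd (nat_lit 78) (nat_lit 304) (nat_lit 0) (XT.lf (nat_lit 0) (nat_lit 11976980628) (nat_lit 304) (nat_lit 302407853) (nat_lit 380) (nat_lit 2358065101) (nat_lit 88) (nat_lit 5) (nat_lit 92) (nat_lit 5) (nat_lit 93) (nat_lit 5) (nat_lit 369) (nat_lit 303) (nat_lit 228)) (XT.lf (nat_lit 0) (nat_lit 1207861592) (nat_lit 304) (nat_lit 9113644746) (nat_lit 76) (nat_lit 4593401709) (nat_lit 84) (nat_lit 5) (nat_lit 88) (nat_lit 5) (nat_lit 85) (nat_lit 5) (nat_lit 370) (nat_lit 303) (nat_lit 227)))) (XT.nd (nat_lit 156) (nat_lit 304) (nat_lit 0) (XT.nd (nat_lit 78) (nat_lit 228) (nat_lit 0) (XT.lf (nat_lit 0) (nat_lit 4835407170) (nat_lit 304) (nat_lit 699678631) (nat_lit 76) (nat_lit 9664848046) (nat_lit 84)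 (nat_lit 5) (nat_lit 88) (nat_lit 5) (nat_lit 85) (nat_lit 5) (nat_lit 371) (nat_lit 303) (nat_lit 226)) (XT.lf (nat_lit 0) (nat_lit 8081116732) (nat_lit 228) (nat_lit 541071336) (nat_lit 304) (nat_lit 6869819009) (nat_lit 81) (nat_lit 5) (nat_lit 84) (nat_lit 5) (nat_lit 85) (nat_lit 5) (nat_lit 372) (nat_lit 303) (nat_lit 225))) (XT.nd (nat_lit 78) (nat_lit 76) (nat_lit 0) (XT.lf (nat_lit 0) (nat_lit 1284275497) (nat_lit 228) (nat_lit 11274979228) (nat_lit 304) (nat_lit 3232495970) (nat_lit 78) (nat_lit 5) (nat_lit 81) (nat_lit 5) (nat_lit 82) (nat_lit 5) (nat_lit 373) (nat_lit 303) (nat_lit 224)) (XT.lf (nat_lit 0) (nat_lit 557909655) (nat_lit 304) (nat_lit 5760704370) (nat_lit 76) (nat_lit 9780112797) (nat_lit 77) (nat_lit 5) (nat_lit 81) (nat_lit 5) (nat_lit 78) (nat_lit 5) (nat_lit 374) (nat_lit 303) (nat_lit 223))))) (XT.nd (nat_lit 234) (nat_lit 456) (nat_lit 0) (XT.nd (nat_lit 78) (nat_lit 152)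 (nat_lit 0) (XT.lf (nat_lit 0) (nat_lit 3237269783) (nat_lit 228) (nat_lit 1164749326) (nat_lit 304) (nat_lit 12011792055) (nat_lit 74) (nat_lit 5) (nat_lit 77) (nat_lit 5) (nat_lit 78) (nat_lit 5) (nat_lit 375) (nat_lit 303) (nat_lit 222)) (XT.nd (nat_lit 78) (nat_lit 152) (nat_lit 0) (XT.lf (nat_lit 0) (nat_lit 8434078055) (nat_lit 304) (nat_lit 4196315689) (nat_lit 76) (nat_lit 4105783204) (nat_lit 74) (nat_lit 5) (nat_lit 78) (nat_lit 5) (nat_lit 75) (nat_lit 5) (nat_lit 376) (nat_lit 303) (nat_lit 221)) (XT.lf (nat_lit 0) (nat_lit 5099966700) (nat_lit 152) (nat_lit 7522490521) (nat_lit 228) (nat_lit 4444703204) (nat_lit 72) (nat_lit 5) (nat_lit 74) (nat_lit 5) (nat_lit 75) (nat_lit 5) (nat_lit 377) (nat_lit 303) (nat_lit 220)))) (XT.nd (nat_lit 156) (nat_lit 152) (nat_lit 0) (XT.nd (nat_lit 78) (nat_lit 304) (nat_lit 0) (XT.lf (nat_lit 0) (nat_lit 14720226560) (nat_lit 152) (nat_lit 2233778501) (nat_lit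 228) (nat_lit 453550081) (nat_lit 72) (nat_lit 5) (nat_lit 74) (nat_lit 5) (nat_lit 75) (nat_lit 5) (nat_lit 378) (nat_lit 303) (nat_lit 219)) (XT.lf (nat_lit 0) (nat_lit 3659960055) (nat_lit 304) (nat_lit 10856803512) (nat_lit 76) (nat_lit 3238130569) (nat_lit 68) (nat_lit 5) (nat_lit 72) (nat_lit 5) (nat_lit 69) (nat_lit 5) (nat_lit 379) (nat_lit 303) (nat_lit 218))) (XT.nd (nat_lit 78) (nat_lit 152) (nat_lit 0) (XT.lf (nat_lit 0) (nat_lit 7913077927) (nat_lit 304) (nat_lit 1352968338) (nat_lit 76) (nat_lit 8845719405) (nat_lit 68) (nat_lit 5) (nat_lit 72) (nat_lit 5) (nat_lit 69) (nat_lit 5) (nat_lit 380) (nat_lit 303) (nat_lit 217)) (XT.lf (nat_lit 0) (nat_lit 8563857421) (nat_lit 152) (nat_lit 3788754201) (nat_lit 228) (nat_lit 6124973506) (nat_lit 66) (nat_lit 5) (nat_lit 68) (nat_lit 5) (nat_lit 69) (nat_lit 5) (nat_lit 381) (nat_lit 303) (nat_lit 216))))))))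
noncomputable def xc114 : XT := (XT.nd (nat_lit 2028) (nat_lit 1292) (nat_lit 0) (XT.nd (nat_lit 1014) (nat_lit 836) (nat_lit 0) (XT.nd (nat_lit 468) (nat_lit 684) (nat_lit 0) (XT.nd (nat_lit 234) (nat_lit 228) (nat_lit 0) (XT.nd (nat_lit 78) (nat_lit 456) (nat_lit 0) (XT.lf (nat_lit 0) (nat_lit 16933601366) (nat_lit 228) (nat_lit 105395712) (nat_lit 76) (nat_lit 1815140251) (nat_lit 66) (nat_lit 5) (nat_lit 69) (nat_lit 5) (nat_lit 67) (nat_lit 5) (nat_lit 382) (nat_lit 303) (nat_lit 215)) (XT.nd (nat_lit 78) (nat_lit 152) (nat_lit 0) (XT.lf (nat_lit 0) (nat_lit 2476233049) (nat_lit 304) (nat_lit 9144030947) (nat_lit 76) (nat_lit 7617636191) (nat_lit 62) (nat_lit 5) (nat_lit 66) (nat_lit 5) (nat_lit 63) (nat_lit 5) (nat_lit 383) (nat_lit 303) (nat_lit 214)) (XT.lf (nat_lit 0) (nat_lit 928893526) (nat_lit 152) (nat_lit 6024824693) (nat_lit 228) (nat_lit 12679270565) (nat_lit 60) (nat_lit 5) (nat_lit 62)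 (nat_lit 5) (nat_lit 63) (nat_lit 5) (nat_lit 384) (nat_lit 303) (nat_lit 213)))) (XT.nd (nat_lit 78) (nat_lit 228) (nat_lit 0) (XT.lf (nat_lit 0) (nat_lit 11453489809) (nat_lit 152) (nat_lit 182078029) (nat_lit 228) (nat_lit 8402266565) (nat_lit 60) (nat_lit 5) (nat_lit 62) (nat_lit 5) (nat_lit 63) (nat_lit 5) (nat_lit 385) (nat_lit 303) (nat_lit 212)) (XT.nd (nat_lit 78) (nat_lit 76) (nat_lit 0) (XT.lf (nat_lit 0) (nat_lit 1780276846) (nat_lit 152) (nat_lit 14729014298) (nat_lit 228) (nat_lit 3943997099) (nat_lit 58) (nat_lit 5) (nat_lit 60) (nat_lit 5) (nat_lit 61) (nat_lit 5) (nat_lit 386) (nat_lit 303) (nat_lit 211)) (XT.lf (nat_lit 0) (nat_lit 702988646) (nat_lit 228) (nat_lit 8293121694) (nat_lit 76) (nat_lit 11882885169) (nat_lit 57) (nat_lit 5) (nat_lit 60) (nat_lit 5) (nat_lit 58) (nat_lit 5) (nat_lit 387) (nat_lit 303) (nat_lit 210))))) (XT.nd (nat_lit 234) (nat_lit 380) (nat_lit 0) (XT.nd (nat_lit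 78) (nat_lit 152) (nat_lit 0) (XT.lf (nat_lit 0) (nat_lit 2368999305) (nat_lit 152) (nat_lit 3042786821) (nat_lit 228) (nat_lit 15904471146) (nat_lit 55) (nat_lit 5) (nat_lit 57) (nat_lit 5) (nat_lit 58) (nat_lit 5) (nat_lit 388) (nat_lit 303) (nat_lit 209)) (XT.nd (nat_lit 78) (nat_lit 152) (nat_lit 0) (XT.lf (nat_lit 0) (nat_lit 10355138880) (nat_lit 228) (nat_lit 8310134934) (nat_lit 76) (nat_lit 3098569130) (nat_lit 55) (nat_lit 5) (nat_lit 58) (nat_lit 5) (nat_lit 56) (nat_lit 5) (nat_lit 389) (nat_lit 303) (nat_lit 208)) (XT.lf (nat_lit 0) (nat_lit 2631924431) (nat_lit 152) (nat_lit 12849928286) (nat_lit 228) (nat_lit 6741956311) (nat_lit 53) (nat_lit 5) (nat_lit 55) (nat_lit 5) (nat_lit 56) (nat_lit 5) (nat_lit 390) (nat_lit 303) (nat_lit 207)))) (XT.nd (nat_lit 156) (nat_lit 152) (nat_lit 0) (XT.nd (nat_lit 78) (nat_lit 228) (nat_lit 0) (XT.lf (nat_lit 0) (nat_lit 14037533264) (nat_lit 152) (nat_lit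 6788641149) (nat_lit 228) (nat_lit 1869490010) (nat_lit 53) (nat_lit 5) (nat_lit 55) (nat_lit 5) (nat_lit 56) (nat_lit 5) (nat_lit 391) (nat_lit 303) (nat_lit 206)) (XT.lf (nat_lit 0) (nat_lit 2589455455) (nat_lit 152) (nat_lit 503413470) (nat_lit 228) (nat_lit 20087747572) (nat_lit 50) (nat_lit 5) (nat_lit 52) (nat_lit 5) (nat_lit 53) (nat_lit 5) (nat_lit 392) (nat_lit 303) (nat_lit 205))) (XT.nd (nat_lit 78) (nat_lit 152) (nat_lit 0) (XT.lf (nat_lit 0) (nat_lit 8292594903) (nat_lit 228) (nat_lit 9436855315) (nat_lit 76) (nat_lit 5946333622) (nat_lit 50) (nat_lit 5) (nat_lit 53) (nat_lit 5) (nat_lit 51) (nat_lit 5) (nat_lit 393) (nat_lit 303) (nat_lit 204)) (XT.lf (nat_lit 0) (nat_lit 2053627554) (nat_lit 152) (nat_lit 11600365968) (nat_lit 228) (nat_lit 10531646274) (nat_lit 48) (nat_lit 5) (nat_lit 50) (nat_lit 5) (nat_lit 51) (nat_lit 5) (nat_lit 394) (nat_lit 303) (nat_lit 203)))))) (XT.nd (nat_lit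 468) (nat_lit 456) (nat_lit 0) (XT.nd (nat_lit 234) (nat_lit 152) (nat_lit 0) (XT.nd (nat_lit 78) (nat_lit 228) (nat_lit 0) (XT.lf (nat_lit 0) (nat_lit 14049058624) (nat_lit 152) (nat_lit 5203660483) (nat_lit 228) (nat_lit 5455781675) (nat_lit 48) (nat_lit 5) (nat_lit 50) (nat_lit 5) (nat_lit 51) (nat_lit 5) (nat_lit 395) (nat_lit 303) (nat_lit 202)) (XT.nd (nat_lit 78) (nat_lit 76) (nat_lit 0) (XT.lf (nat_lit 0) (nat_lit 1133447317) (nat_lit 152) (nat_lit 23891772152) (nat_lit 228) (nat_lit 221657523) (nat_lit 46) (nat_lit 5) (nat_lit 48) (nat_lit 5) (nat_lit 49) (nat_lit 4) (nat_lit 396) (nat_lit 303) (nat_lit 201)) (XT.lf (nat_lit 0) (nat_lit 5210487624) (nat_lit 228) (nat_lit 12434534176) (nat_lit 76) (nat_lit 8150639310) (nat_lit 45) (nat_lit 5) (nat_lit 48) (nat_lit 5) (nat_lit 46) (nat_lit 5) (nat_lit 397) (nat_lit 303) (nat_lit 200)))) (XT.nd (nat_lit 78) (nat_lit 152) (nat_lit 0) (XT.lf (nat_lit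 0) (nat_lit 10783322667) (nat_lit 228) (nat_lit 439224721) (nat_lit 76) (nat_lit 15138833570) (nat_lit 45) (nat_lit 5) (nat_lit 48) (nat_lit 5) (nat_lit 46) (nat_lit 5) (nat_lit 398) (nat_lit 303) (nat_lit 199)) (XT.nd (nat_lit 78) (nat_lit 0) (nat_lit 0) (XT.lf (nat_lit 0) (nat_lit 12121647741) (nat_lit 152) (nat_lit 4500915359) (nat_lit 228) (nat_lit 10318536055) (nat_lit 43) (nat_lit 5) (nat_lit 45) (nat_lit 5) (nat_lit 46) (nat_lit 5) (nat_lit 399) (nat_lit 303) (nat_lit 198)) (XT.lf (nat_lit 0) (nat_lit 22647526086) (nat_lit 228) (nat_lit 2523972716) (nat_lit 76) (nat_lit 2366397003) (nat_lit 43) (nat_lit 5) (nat_lit 46) (nat_lit 5) (nat_lit 44) (nat_lit 4) (nat_lit 400) (nat_lit 303) (nat_lit 197))))) (XT.nd (nat_lit 234) (nat_lit 152) (nat_lit 0) (XT.nd (nat_lit 78) (nat_lit 152) (nat_lit 0) (XT.lf (nat_lit 0) (nat_lit 814749340) (nat_lit 152) (nat_lit 17890672828) (nat_lit 76) (nat_lit 9443141822)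 (nat_lit 41) (nat_lit 5) (nat_lit 43) (nat_lit 5) (nat_lit 42) (nat_lit 5) (nat_lit 401) (nat_lit 303) (nat_lit 196)) (XT.nd (nat_lit 78) (nat_lit 152) (nat_lit 0) (XT.lf (nat_lit 0) (nat_lit 6601786948) (nat_lit 152) (nat_lit 5380567496) (nat_lit 76) (nat_lit 16793476483) (nat_lit 41) (nat_lit 5) (nat_lit 43) (nat_lit 5) (nat_lit 42) (nat_lit 5) (nat_lit 402) (nat_lit 303) (nat_lit 195)) (XT.lf (nat_lit 0) (nat_lit 7624438766) (nat_lit 152) (nat_lit 4995090640) (nat_lit 228) (nat_lit 16800676557) (nat_lit 39) (nat_lit 5) (nat_lit 41) (nat_lit 5) (nat_lit 42) (nat_lit 5) (nat_lit 403) (nat_lit 303) (nat_lit 194)))) (XT.nd (nat_lit 156) (nat_lit 76) (nat_lit 0) (XT.nd (nat_lit 78) (nat_lit 76) (nat_lit 0) (XT.lf (nat_lit 0) (nat_lit 18877713239) (nat_lit 228) (nat_lit 9003348953) (nat_lit 76) (nat_lit 2201055603) (nat_lit 39) (nat_lit 5) (nat_lit 42) (nat_lit 5) (nat_lit 40) (nat_lit 4) (nat_lit 404) (nat_lit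 303) (nat_lit 193)) (XT.lf (nat_lit 0) (nat_lit 4176480410) (nat_lit 76) (nat_lit 21221108124) (nat_lit 152) (nat_lit 5364082804) (nat_lit 38) (nat_lit 5) (nat_lit 39) (nat_lit 5) (nat_lit 40) (nat_lit 4) (nat_lit 405) (nat_lit 303) (nat_lit 192))) (XT.nd (nat_lit 78) (nat_lit 0) (nat_lit 0) (XT.lf (nat_lit 0) (nat_lit 714925440) (nat_lit 152) (nat_lit 13558220196) (nat_lit 76) (nat_lit 17185994898) (nat_lit 37) (nat_lit 5) (nat_lit 39) (nat_lit 5) (nat_lit 38) (nat_lit 5) (nat_lit 406) (nat_lit 303) (nat_lit 191)) (XT.lf (nat_lit 0) (nat_lit 6853318964) (nat_lit 152) (nat_lit 221160160) (nat_lit 76) (nat_lit 25101919060) (nat_lit 37) (nat_lit 5) (nat_lit 39) (nat_lit 5) (nat_lit 38) (nat_lit 5) (nat_lit 407) (nat_lit 303) (nat_lit 190))))))) (XT.nd (nat_lit 1014) (nat_lit 456) (nat_lit 0) (XT.nd (nat_lit 468) (nat_lit 380) (nat_lit 0) (XT.nd (nat_lit 234) (nat_lit 228) (nat_lit 0) (XT.nd (nat_lit 78) (nat_lit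 76) (nat_lit 0) (XT.lf (nat_lit 0) (nat_lit 13297844105) (nat_lit 228) (nat_lit 19158446086) (nat_lit 76) (nat_lit 455226408) (nat_lit 35) (nat_lit 5) (nat_lit 38) (nat_lit 5) (nat_lit 36) (nat_lit 4) (nat_lit 408) (nat_lit 303) (nat_lit 189)) (XT.nd (nat_lit 78) (nat_lit 76) (nat_lit 0) (XT.lf (nat_lit 0) (nat_lit 19993333104) (nat_lit 228) (nat_lit 5614493290) (nat_lit 76) (nat_lit 8059135689) (nat_lit 35) (nat_lit 5) (nat_lit 38) (nat_lit 5) (nat_lit 36) (nat_lit 4) (nat_lit 409) (nat_lit 303) (nat_lit 188)) (XT.lf (nat_lit 0) (nat_lit 8475072882) (nat_lit 76) (nat_lit 18481837164) (nat_lit 152) (nat_lit 7486146478) (nat_lit 34) (nat_lit 5) (nat_lit 35) (nat_lit 5) (nat_lit 36) (nat_lit 4) (nat_lit 410) (nat_lit 303) (nat_lit 187)))) (XT.nd (nat_lit 78) (nat_lit 228) (nat_lit 0) (XT.lf (nat_lit 0) (nat_lit 23076588972) (nat_lit 76) (nat_lit 11095422989) (nat_lit 152) (nat_lit 1069145532) (nat_lit 34)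 (nat_lit 5) (nat_lit 35) (nat_lit 5) (nat_lit 36) (nat_lit 4) (nat_lit 411) (nat_lit 303) (nat_lit 186)) (XT.nd (nat_lit 78) (nat_lit 0) (nat_lit 0) (XT.lf (nat_lit 0) (nat_lit 2013631647) (nat_lit 152) (nat_lit 3424172448) (nat_lit 228) (nat_lit 30623635237) (nat_lit 31) (nat_lit 5) (nat_lit 33) (nat_lit 5) (nat_lit 34) (nat_lit 5) (nat_lit 412) (nat_lit 303) (nat_lit 185)) (XT.lf (nat_lit 0) (nat_lit 12271811178) (nat_lit 228) (nat_lit 20116350353) (nat_lit 76) (nat_lit 4513252430) (nat_lit 31) (nat_lit 5) (nat_lit 34) (nat_lit 5) (nat_lit 32) (nat_lit 4) (nat_lit 413) (nat_lit 303) (nat_lit 184))))) (XT.nd (nat_lit 234) (nat_lit 304) (nat_lit 0) (XT.nd (nat_lit 78) (nat_lit 76) (nat_lit 0) (XT.lf (nat_lit 0) (nat_lit 19331387274) (nat_lit 228) (nat_lit 5825517892) (nat_lit 76) (nat_lit 12609068176) (nat_lit 31) (nat_lit 5) (nat_lit 34) (nat_lit 5) (nat_lit 32) (nat_lit 4) (nat_lit 414) (nat_lit 303)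 (nat_lit 183)) (XT.nd (nat_lit 78) (nat_lit 0) (nat_lit 0) (XT.lf (nat_lit 0) (nat_lit 9046624296) (nat_lit 76) (nat_lit 17630123095) (nat_lit 152) (nat_lit 11977504130) (nat_lit 30) (nat_lit 5) (nat_lit 31) (nat_lit 5) (nat_lit 32) (nat_lit 4) (nat_lit 415) (nat_lit 303) (nat_lit 182)) (XT.lf (nat_lit 0) (nat_lit 24460635466) (nat_lit 76) (nat_lit 9827843884) (nat_lit 152) (nat_lit 5279320226) (nat_lit 30) (nat_lit 5) (nat_lit 31) (nat_lit 5) (nat_lit 32) (nat_lit 4) (nat_lit 416) (nat_lit 303) (nat_lit 181)))) (XT.nd (nat_lit 156) (nat_lit 76) (nat_lit 0) (XT.nd (nat_lit 78) (nat_lit 152) (nat_lit 0) (XT.lf (nat_lit 0) (nat_lit 1575633911) (nat_lit 152) (nat_lit 210531592) (nat_lit 76) (nat_lit 38722500216) (nat_lit 29) (nat_lit 5) (nat_lit 31) (nat_lit 5) (nat_lit 30) (nat_lit 5) (nat_lit 417) (nat_lit 303) (nat_lit 180)) (XT.lf (nat_lit 0) (nat_lit 8729885520) (nat_lit 228) (nat_lit 26178638972) (nat_lit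 76) (nat_lit 6561674207) (nat_lit 27) (nat_lit 5) (nat_lit 30) (nat_lit 5) (nat_lit 28) (nat_lit 4) (nat_lit 418) (nat_lit 303) (nat_lit 179))) (XT.nd (nat_lit 78) (nat_lit 76) (nat_lit 0) (XT.lf (nat_lit 0) (nat_lit 16106436694) (nat_lit 228) (nat_lit 11237829082) (nat_lit 76) (nat_lit 15116083387) (nat_lit 27) (nat_lit 5) (nat_lit 30) (nat_lit 5) (nat_lit 28) (nat_lit 4) (nat_lit 419) (nat_lit 303) (nat_lit 178)) (XT.lf (nat_lit 0) (nat_lit 4211405360) (nat_lit 76) (nat_lit 19521556021) (nat_lit 152) (nat_lit 19746384056) (nat_lit 26) (nat_lit 5) (nat_lit 27) (nat_lit 5) (nat_lit 28) (nat_lit 4) (nat_lit 420) (nat_lit 303) (nat_lit 177)))))) (XT.nd (nat_lit 546) (nat_lit 228) (nat_lit 0) (XT.nd (nat_lit 234) (nat_lit 76) (nat_lit 0) (XT.nd (nat_lit 78) (nat_lit 152) (nat_lit 0) (XT.lf (nat_lit 0) (nat_lit 20332717368) (nat_lit 76) (nat_lit 11357373498) (nat_lit 152) (nat_lit 12835768022) (nat_lit 26)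 (nat_lit 5) (nat_lit 27) (nat_lit 5) (nat_lit 28) (nat_lit 4) (nat_lit 421) (nat_lit 303) (nat_lit 176)) (XT.nd (nat_lit 78) (nat_lit 152) (nat_lit 0) (XT.lf (nat_lit 0) (nat_lit 36916538691) (nat_lit 76) (nat_lit 2958064495) (nat_lit 152) (nat_lit 5729506003) (nat_lit 26) (nat_lit 5) (nat_lit 27) (nat_lit 5) (nat_lit 28) (nat_lit 4) (nat_lit 422) (nat_lit 303) (nat_lit 175)) (XT.lf (nat_lit 0) (nat_lit 1674346435) (nat_lit 152) (nat_lit 39376561360) (nat_lit 76) (nat_lit 5659879283) (nat_lit 24) (nat_lit 5) (nat_lit 26) (nat_lit 5) (nat_lit 25) (nat_lit 4) (nat_lit 423) (nat_lit 303) (nat_lit 174)))) (XT.nd (nat_lit 156) (nat_lit 76) (nat_lit 0) (XT.nd (nat_lit 78) (nat_lit 0) (nat_lit 0) (XT.lf (nat_lit 0) (nat_lit 9291963910) (nat_lit 152) (nat_lit 23940928138) (nat_lit 76) (nat_lit 14612868602) (nat_lit 24) (nat_lit 5) (nat_lit 26) (nat_lit 5) (nat_lit 25) (nat_lit 4) (nat_lit 424) (nat_lit 303) (nat_lit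 173)) (XT.lf (nat_lit 0) (nat_lit 17127355615) (nat_lit 152) (nat_lit 8062393900) (nat_lit 76) (nat_lit 23825357889) (nat_lit 24) (nat_lit 5) (nat_lit 26) (nat_lit 5) (nat_lit 25) (nat_lit 4) (nat_lit 425) (nat_lit 303) (nat_lit 172))) (XT.nd (nat_lit 78) (nat_lit 0) (nat_lit 0) (XT.lf (nat_lit 0) (nat_lit 8437563046) (nat_lit 76) (nat_lit 16830911982) (nat_lit 152) (nat_lit 24948940861) (nat_lit 23) (nat_lit 5) (nat_lit 24) (nat_lit 5) (nat_lit 25) (nat_lit 4) (nat_lit 426) (nat_lit 303) (nat_lit 171)) (XT.lf (nat_lit 0) (nat_lit 25578401276) (nat_lit 76) (nat_lit 8146517789) (nat_lit 152) (nat_lit 17728743100) (nat_lit 23) (nat_lit 5) (nat_lit 24) (nat_lit 5) (nat_lit 25) (nat_lit 4) (nat_lit 427) (nat_lit 303) (nat_lit 170))))) (XT.nd (nat_lit 234) (nat_lit 76) (nat_lit 0) (XT.nd (nat_lit 78) (nat_lit 152) (nat_lit 0) (XT.lf (nat_lit 0) (nat_lit 42432623961) (nat_lit 152) (nat_lit 9520247154) (nat_lit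 0) (nat_lit 774198919) (nat_lit 23) (nat_lit 5) (nat_lit 25) (nat_lit 4) (nat_lit 23) (nat_lit 4) (nat_lit 428) (nat_lit 303) (nat_lit 169)) (XT.nd (nat_lit 78) (nat_lit 76) (nat_lit 0) (XT.lf (nat_lit 0) (nat_lit 7370088787) (nat_lit 76) (nat_lit 44173162744) (nat_lit 76) (nat_lit 2491179059) (nat_lit 22) (nat_lit 4) (nat_lit 23) (nat_lit 5) (nat_lit 23) (nat_lit 4) (nat_lit 429) (nat_lit 303) (nat_lit 168)) (XT.lf (nat_lit 0) (nat_lit 5525247346) (nat_lit 152) (nat_lit 30488604041) (nat_lit 76) (nat_lit 19362943680) (nat_lit 21) (nat_lit 5) (nat_lit 23) (nat_lit 5) (nat_lit 22) (nat_lit 4) (nat_lit 430) (nat_lit 303) (nat_lit 167)))) (XT.nd (nat_lit 156) (nat_lit 0) (nat_lit 0) (XT.nd (nat_lit 78) (nat_lit 76) (nat_lit 0) (XT.lf (nat_lit 0) (nat_lit 13722581532) (nat_lit 152) (nat_lit 13870221925) (nat_lit 76) (nat_lit 29166173604) (nat_lit 21) (nat_lit 5) (nat_lit 23) (nat_lit 5) (nat_lit 22) (nat_lit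 4) (nat_lit 431) (nat_lit 303) (nat_lit 166)) (XT.lf (nat_lit 0) (nat_lit 3293541045) (nat_lit 76) (nat_lit 18894716579) (nat_lit 152) (nat_lit 35993695297) (nat_lit 20) (nat_lit 5) (nat_lit 21) (nat_lit 5) (nat_lit 22) (nat_lit 4) (nat_lit 432) (nat_lit 303) (nat_lit 165))) (XT.nd (nat_lit 78) (nat_lit 0) (nat_lit 0) (XT.lf (nat_lit 0) (nat_lit 21239274373) (nat_lit 76) (nat_lit 9799557082) (nat_lit 152) (nat_lit 28604859808) (nat_lit 20) (nat_lit 5) (nat_lit 21) (nat_lit 5) (nat_lit 22) (nat_lit 4) (nat_lit 433) (nat_lit 303) (nat_lit 164)) (XT.lf (nat_lit 0) (nat_lit 39706614184) (nat_lit 76) (nat_lit 439439785) (nat_lit 152) (nat_lit 21003494844) (nat_lit 20) (nat_lit 5) (nat_lit 21) (nat_lit 5) (nat_lit 22) (nat_lit 4) (nat_lit 434) (nat_lit 303) (nat_lit 163))))))))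
noncomputable def xc115 : XT := (XT.nd (nat_lit 37908) (nat_lit 0) (nat_lit 10488) (XT.nd (nat_lit 36816) (nat_lit 0) (nat_lit 22648) (XT.nd (nat_lit 468) (nat_lit 152) (nat_lit 0) (XT.nd (nat_lit 234) (nat_lit 76) (nat_lit 0) (XT.nd (nat_lit 78) (nat_lit 152) (nat_lit 0) (XT.lf (nat_lit 0) (nat_lit 49606259499) (nat_lit 152) (nat_lit 4077520946) (nat_lit 0) (nat_lit 9014409627) (nat_lit 20) (nat_lit 5) (nat_lit 22) (nat_lit 4) (nat_lit 20) (nat_lit 4) (nat_lit 435) (nat_lit 303) (nat_lit 162)) (XT.nd (nat_lit 78) (nat_lit 76) (nat_lit 0) (XT.lf (nat_lit 0) (nat_lit 14062939581) (nat_lit 76) (nat_lit 45418433085) (nat_lit 76) (nat_lit 4807985803) (nat_lit 19) (nat_lit 4) (nat_lit 20) (nat_lit 5) (nat_lit 20) (nat_lit 4) (nat_lit 436) (nat_lit 303) (nat_lit 161)) (XT.lf (nat_lit 0) (nat_lit 3684960967) (nat_lit 152) (nat_lit 33148032256) (nat_lit 76) (nat_lit 29093200675) (nat_lit 18) (nat_lit 5) (nat_lit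 20) (nat_lit 5) (nat_lit 19) (nat_lit 4) (nat_lit 437) (nat_lit 303) (nat_lit 160)))) (XT.nd (nat_lit 78) (nat_lit 76) (nat_lit 0) (XT.lf (nat_lit 0) (nat_lit 12327884643) (nat_lit 152) (nat_lit 15620427037) (nat_lit 76) (nat_lit 39662640733) (nat_lit 18) (nat_lit 5) (nat_lit 20) (nat_lit 5) (nat_lit 19) (nat_lit 4) (nat_lit 438) (nat_lit 303) (nat_lit 159)) (XT.nd (nat_lit 78) (nat_lit 0) (nat_lit 0) (XT.lf (nat_lit 0) (nat_lit 2466050990) (nat_lit 76) (nat_lit 18779812615) (nat_lit 152) (nat_lit 48099917890) (nat_lit 17) (nat_lit 5) (nat_lit 18) (nat_lit 5) (nat_lit 19) (nat_lit 4) (nat_lit 439) (nat_lit 303) (nat_lit 158)) (XT.lf (nat_lit 0) (nat_lit 21400397726) (nat_lit 76) (nat_lit 9180869965) (nat_lit 152) (nat_lit 40546891999) (nat_lit 17) (nat_lit 5) (nat_lit 18) (nat_lit 5) (nat_lit 19) (nat_lit 4) (nat_lit 440) (nat_lit 303) (nat_lit 157))))) (XT.nd (nat_lit 234) (nat_lit 76) (nat_lit 0) (XT.nd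 (nat_lit 78) (nat_lit 76) (nat_lit 0) (XT.lf (nat_lit 0) (nat_lit 40195833440) (nat_lit 152) (nat_lit 32082678872) (nat_lit 0) (nat_lit 685524724) (nat_lit 17) (nat_lit 5) (nat_lit 19) (nat_lit 4) (nat_lit 17) (nat_lit 4) (nat_lit 441) (nat_lit 303) (nat_lit 156)) (XT.nd (nat_lit 78) (nat_lit 76) (nat_lit 0) (XT.lf (nat_lit 0) (nat_lit 50182272409) (nat_lit 152) (nat_lit 14013373676) (nat_lit 0) (nat_lit 10656842296) (nat_lit 17) (nat_lit 5) (nat_lit 19) (nat_lit 4) (nat_lit 17) (nat_lit 4) (nat_lit 442) (nat_lit 303) (nat_lit 155)) (XT.lf (nat_lit 0) (nat_lit 4675428933) (nat_lit 76) (nat_lit 55830572625) (nat_lit 76) (nat_lit 16290461544) (nat_lit 16) (nat_lit 4) (nat_lit 17) (nat_lit 5) (nat_lit 17) (nat_lit 4) (nat_lit 443) (nat_lit 303) (nat_lit 154)))) (XT.nd (nat_lit 35958) (nat_lit 0) (nat_lit 25840) (XT.nd (nat_lit 78) (nat_lit 76) (nat_lit 0) (XT.lf (nat_lit 0) (nat_lit 24198475296) (nat_lit 76)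 (nat_lit 47075308354) (nat_lit 76) (nat_lit 7520943906) (nat_lit 16) (nat_lit 4) (nat_lit 17) (nat_lit 5) (nat_lit 17) (nat_lit 4) (nat_lit 444) (nat_lit 303) (nat_lit 153)) (XT.lf (nat_lit 0) (nat_lit 1475133970) (nat_lit 152) (nat_lit 36573680707) (nat_lit 76) (nat_lit 42803900839) (nat_lit 15) (nat_lit 5) (nat_lit 17) (nat_lit 5) (nat_lit 16) (nat_lit 4) (nat_lit 445) (nat_lit 303) (nat_lit 152))) (XT.nd (nat_lit 78) (nat_lit 0) (nat_lit 0) (XT.lf (nat_lit 0) (nat_lit 1640169888) (nat_lit 380) (nat_lit 807638422) (nat_lit 380) (nat_lit 807638422) (nat_lit 355) (nat_lit 3) (nat_lit 360) (nat_lit 3) (nat_lit 360) (nat_lit 5) (nat_lit 304) (nat_lit 304) (nat_lit 292)) (XT.lf (nat_lit 76) (nat_lit 1537479299) (nat_lit 0) (nat_lit 4329922044) (nat_lit 380) (nat_lit 662281556) (nat_lit 356) (nat_lit 5) (nat_lit 355) (nat_lit 3) (nat_lit 360) (nat_lit 5) (nat_lit 305) (nat_lit 304) (nat_lit 291)))))) (XT.nd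 (nat_lit 546) (nat_lit 1900) (nat_lit 0) (XT.nd (nat_lit 234) (nat_lit 456) (nat_lit 0) (XT.nd (nat_lit 78) (nat_lit 456) (nat_lit 0) (XT.lf (nat_lit 0) (nat_lit 1860764146) (nat_lit 380) (nat_lit 1803710712) (nat_lit 456) (nat_lit 2886600397) (nat_lit 350) (nat_lit 5) (nat_lit 355) (nat_lit 3) (nat_lit 356) (nat_lit 5) (nat_lit 306) (nat_lit 304) (nat_lit 290)) (XT.nd (nat_lit 78) (nat_lit 456) (nat_lit 0) (XT.lf (nat_lit 76) (nat_lit 1449870879) (nat_lit 0) (nat_lit 2913119298) (nat_lit 456) (nat_lit 2212519215) (nat_lit 351) (nat_lit 5) (nat_lit 350) (nat_lit 5) (nat_lit 356) (nat_lit 5) (nat_lit 307) (nat_lit 304) (nat_lit 289)) (XT.lf (nat_lit 0) (nat_lit 255533734) (nat_lit 456) (nat_lit 1819331397) (nat_lit 532) (nat_lit 4528131811) (nat_lit 344) (nat_lit 5) (nat_lit 350) (nat_lit 5) (nat_lit 351) (nat_lit 5) (nat_lit 308) (nat_lit 304) (nat_lit 288)))) (XT.nd (nat_lit 156) (nat_lit 456) (nat_lit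 0) (XT.nd (nat_lit 78) (nat_lit 0) (nat_lit 0) (XT.lf (nat_lit 76) (nat_lit 1542127336) (nat_lit 0) (nat_lit 1132806784) (nat_lit 532) (nat_lit 3958156739) (nat_lit 345) (nat_lit 5) (nat_lit 344) (nat_lit 5) (nat_lit 351) (nat_lit 5) (nat_lit 309) (nat_lit 304) (nat_lit 287)) (XT.lf (nat_lit 76) (nat_lit 4990012418) (nat_lit 0) (nat_lit 104440270) (nat_lit 532) (nat_lit 1571898321) (nat_lit 345) (nat_lit 5) (nat_lit 344) (nat_lit 5) (nat_lit 351) (nat_lit 5) (nat_lit 310) (nat_lit 304) (nat_lit 286))) (XT.nd (nat_lit 78) (nat_lit 0) (nat_lit 0) (XT.lf (nat_lit 0) (nat_lit 806755523) (nat_lit 532) (nat_lit 4896807357) (nat_lit 608) (nat_lit 998732085) (nat_lit 338) (nat_lit 5) (nat_lit 345) (nat_lit 5) (nat_lit 346) (nat_lit 5) (nat_lit 311) (nat_lit 304) (nat_lit 285)) (XT.lf (nat_lit 0) (nat_lit 3156598763) (nat_lit 532) (nat_lit 1384030936) (nat_lit 608) (nat_lit 2200359844) (nat_lit 338) (nat_lit 5)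 (nat_lit 345) (nat_lit 5) (nat_lit 346) (nat_lit 5) (nat_lit 312) (nat_lit 304) (nat_lit 284))))) (XT.nd (nat_lit 234) (nat_lit 1292) (nat_lit 0) (XT.nd (nat_lit 78) (nat_lit 608) (nat_lit 0) (XT.lf (nat_lit 76) (nat_lit 2224539094) (nat_lit 0) (nat_lit 3289601240) (nat_lit 608) (nat_lit 1268668053) (nat_lit 339) (nat_lit 5) (nat_lit 338) (nat_lit 5) (nat_lit 346) (nat_lit 5) (nat_lit 313) (nat_lit 304) (nat_lit 283)) (XT.nd (nat_lit 78) (nat_lit 0) (nat_lit 0) (XT.lf (nat_lit 0) (nat_lit 1025730198) (nat_lit 608) (nat_lit 920804252) (nat_lit 684) (nat_lit 4881170580) (nat_lit 330) (nat_lit 5) (nat_lit 338) (nat_lit 5) (nat_lit 339) (nat_lit 5) (nat_lit 314) (nat_lit 304) (nat_lit 282)) (XT.lf (nat_lit 76) (nat_lit 2815535663) (nat_lit 0) (nat_lit 494288392) (nat_lit 684) (nat_lit 3565429576) (nat_lit 331) (nat_lit 5) (nat_lit 330) (nat_lit 5) (nat_lit 339) (nat_lit 5) (nat_lit 315) (nat_lit 304) (nat_lit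 281)))) (XT.nd (nat_lit 156) (nat_lit 684) (nat_lit 0) (XT.nd (nat_lit 78) (nat_lit 684) (nat_lit 0) (XT.lf (nat_lit 0) (nat_lit 5602862993) (nat_lit 608) (nat_lit 305634251) (nat_lit 76) (nat_lit 1017589432) (nat_lit 331) (nat_lit 5) (nat_lit 339) (nat_lit 5) (nat_lit 332) (nat_lit 5) (nat_lit 316) (nat_lit 304) (nat_lit 280)) (XT.lf (nat_lit 0) (nat_lit 929499412) (nat_lit 684) (nat_lit 3416054394) (nat_lit 76) (nat_lit 2633798200) (nat_lit 322) (nat_lit 5) (nat_lit 331) (nat_lit 5) (nat_lit 323) (nat_lit 5) (nat_lit 317) (nat_lit 304) (nat_lit 279))) (XT.nd (nat_lit 78) (nat_lit 0) (nat_lit 0) (XT.lf (nat_lit 0) (nat_lit 462071113) (nat_lit 684) (nat_lit 2693302197) (nat_lit 760) (nat_lit 3880548669) (nat_lit 313) (nat_lit 5) (nat_lit 322) (nat_lit 5) (nat_lit 323) (nat_lit 5) (nat_lit 318) (nat_lit 304) (nat_lit 278)) (XT.lf (nat_lit 0) (nat_lit 4472844349) (nat_lit 684) (nat_lit 935960083) (nat_lit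 760) (nat_lit 1686623961) (nat_lit 313) (nat_lit 5) (nat_lit 322) (nat_lit 5) (nat_lit 323) (nat_lit 5) (nat_lit 319) (nat_lit 304) (nat_lit 277))))))) (XT.nd (nat_lit 1014) (nat_lit 4332) (nat_lit 0) (XT.nd (nat_lit 468) (nat_lit 4180) (nat_lit 0) (XT.nd (nat_lit 234) (nat_lit 1976) (nat_lit 0) (XT.nd (nat_lit 78) (nat_lit 836) (nat_lit 0) (XT.lf (nat_lit 0) (nat_lit 511978755) (nat_lit 836) (nat_lit 5751466207) (nat_lit 76) (nat_lit 894667617) (nat_lit 302) (nat_lit 5) (nat_lit 313) (nat_lit 5) (nat_lit 303) (nat_lit 5) (nat_lit 320) (nat_lit 304) (nat_lit 276)) (XT.nd (nat_lit 78) (nat_lit 836) (nat_lit 0) (XT.lf (nat_lit 0) (nat_lit 2708081839) (nat_lit 836) (nat_lit 1693075840) (nat_lit 76) (nat_lit 2822112827) (nat_lit 302) (nat_lit 5) (nat_lit 313) (nat_lit 5) (nat_lit 303) (nat_lit 5) (nat_lit 321) (nat_lit 304) (nat_lit 275)) (XT.lf (nat_lit 0) (nat_lit 2481628884) (nat_lit 836) (nat_lit 2443779172)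 (nat_lit 912) (nat_lit 2366370687) (nat_lit 291) (nat_lit 5) (nat_lit 302) (nat_lit 5) (nat_lit 303) (nat_lit 5) (nat_lit 322) (nat_lit 304) (nat_lit 274)))) (XT.nd (nat_lit 78) (nat_lit 1976) (nat_lit 0) (XT.lf (nat_lit 0) (nat_lit 6762946342) (nat_lit 836) (nat_lit 396372465) (nat_lit 912) (nat_lit 204575627) (nat_lit 291) (nat_lit 5) (nat_lit 302) (nat_lit 5) (nat_lit 303) (nat_lit 5) (nat_lit 323) (nat_lit 304) (nat_lit 273)) (XT.nd (nat_lit 78) (nat_lit 988) (nat_lit 0) (XT.lf (nat_lit 0) (nat_lit 1969871854) (nat_lit 988) (nat_lit 3720837411) (nat_lit 76) (nat_lit 1747314553) (nat_lit 278) (nat_lit 5) (nat_lit 291) (nat_lit 5) (nat_lit 279) (nat_lit 5) (nat_lit 324) (nat_lit 304) (nat_lit 272)) (XT.lf (nat_lit 0) (nat_lit 614251053) (nat_lit 988) (nat_lit 3542894819) (nat_lit 1064) (nat_lit 3358668854) (nat_lit 265) (nat_lit 5) (nat_lit 278) (nat_lit 5) (nat_lit 279) (nat_lit 5) (nat_lit 325) (nat_lit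 304) (nat_lit 271))))) (XT.nd (nat_lit 234) (nat_lit 3040) (nat_lit 0) (XT.nd (nat_lit 78) (nat_lit 1140) (nat_lit 0) (XT.lf (nat_lit 0) (nat_lit 5101488211) (nat_lit 988) (nat_lit 1283221073) (nat_lit 1064) (nat_lit 1212038053) (nat_lit 265) (nat_lit 5) (nat_lit 278) (nat_lit 5) (nat_lit 279) (nat_lit 5) (nat_lit 326) (nat_lit 304) (nat_lit 270)) (XT.nd (nat_lit 78) (nat_lit 0) (nat_lit 0) (XT.lf (nat_lit 0) (nat_lit 947587383) (nat_lit 1140) (nat_lit 5672375588) (nat_lit 76) (nat_lit 1060859527) (nat_lit 250) (nat_lit 5) (nat_lit 265) (nat_lit 5) (nat_lit 251) (nat_lit 5) (nat_lit 327) (nat_lit 304) (nat_lit 269)) (XT.lf (nat_lit 0) (nat_lit 3125425390) (nat_lit 1140) (nat_lit 1148474795) (nat_lit 76) (nat_lit 3493870209) (nat_lit 250) (nat_lit 5) (nat_lit 265) (nat_lit 5) (nat_lit 251) (nat_lit 5) (nat_lit 328) (nat_lit 304) (nat_lit 268)))) (XT.nd (nat_lit 156) (nat_lit 684) (nat_lit 0) (XT.nd (nat_lit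 78) (nat_lit 1216) (nat_lit 0) (XT.lf (nat_lit 0) (nat_lit 3526293237) (nat_lit 1140) (nat_lit 1817593167) (nat_lit 1216) (nat_lit 2514224431) (nat_lit 235) (nat_lit 5) (nat_lit 250) (nat_lit 5) (nat_lit 251) (nat_lit 5) (nat_lit 329) (nat_lit 304) (nat_lit 267)) (XT.lf (nat_lit 0) (nat_lit 359139176) (nat_lit 1216) (nat_lit 7234402967) (nat_lit 1292) (nat_lit 358721621) (nat_lit 219) (nat_lit 5) (nat_lit 235) (nat_lit 5) (nat_lit 236) (nat_lit 5) (nat_lit 330) (nat_lit 304) (nat_lit 266))) (XT.nd (nat_lit 78) (nat_lit 608) (nat_lit 0) (XT.lf (nat_lit 0) (nat_lit 1830475000) (nat_lit 1292) (nat_lit 2860199467) (nat_lit 76) (nat_lit 3357908563) (nat_lit 218) (nat_lit 5) (nat_lit 235) (nat_lit 5) (nat_lit 219) (nat_lit 5) (nat_lit 331) (nat_lit 304) (nat_lit 265)) (XT.lf (nat_lit 0) (nat_lit 1996161869) (nat_lit 608) (nat_lit 2045999288) (nat_lit 684) (nat_lit 4106641439) (nat_lit 210) (nat_lit 5) (nat_lit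 218) (nat_lit 5) (nat_lit 219) (nat_lit 5) (nat_lit 332) (nat_lit 304) (nat_lit 264)))))) (XT.nd (nat_lit 546) (nat_lit 1976) (nat_lit 0) (XT.nd (nat_lit 234) (nat_lit 1140) (nat_lit 0) (XT.nd (nat_lit 78) (nat_lit 1216) (nat_lit 0) (XT.lf (nat_lit 0) (nat_lit 6301818468) (nat_lit 684) (nat_lit 1256208869) (nat_lit 76) (nat_lit 694589665) (nat_lit 210) (nat_lit 5) (nat_lit 219) (nat_lit 5) (nat_lit 211) (nat_lit 5) (nat_lit 333) (nat_lit 304) (nat_lit 263)) (XT.nd (nat_lit 78) (nat_lit 608) (nat_lit 0) (XT.lf (nat_lit 0) (nat_lit 268635128) (nat_lit 608) (nat_lit 4574812122) (nat_lit 76) (nat_lit 3515930206) (nat_lit 202) (nat_lit 5) (nat_lit 210) (nat_lit 5) (nat_lit 203) (nat_lit 5) (nat_lit 334) (nat_lit 304) (nat_lit 262)) (XT.lf (nat_lit 0) (nat_lit 469037304) (nat_lit 608) (nat_lit 2011710388) (nat_lit 684) (nat_lit 5989088180) (nat_lit 194) (nat_lit 5) (nat_lit 202) (nat_lit 5) (nat_lit 203) (nat_lit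 5) (nat_lit 335) (nat_lit 304) (nat_lit 261)))) (XT.nd (nat_lit 156) (nat_lit 608) (nat_lit 0) (XT.nd (nat_lit 78) (nat_lit 532) (nat_lit 0) (XT.lf (nat_lit 0) (nat_lit 4763539192) (nat_lit 684) (nat_lit 2888435480) (nat_lit 76) (nat_lit 931536662) (nat_lit 194) (nat_lit 5) (nat_lit 203) (nat_lit 5) (nat_lit 195) (nat_lit 5) (nat_lit 336) (nat_lit 304) (nat_lit 260)) (XT.lf (nat_lit 0) (nat_lit 2349798547) (nat_lit 532) (nat_lit 4757970378) (nat_lit 608) (nat_lit 1593071308) (nat_lit 187) (nat_lit 5) (nat_lit 194) (nat_lit 5) (nat_lit 195) (nat_lit 5) (nat_lit 337) (nat_lit 304) (nat_lit 259))) (XT.nd (nat_lit 78) (nat_lit 532) (nat_lit 0) (XT.lf (nat_lit 0) (nat_lit 667292785) (nat_lit 608) (nat_lit 1077366931) (nat_lit 76) (nat_lit 7077447368) (nat_lit 186) (nat_lit 5) (nat_lit 194) (nat_lit 5) (nat_lit 187) (nat_lit 5) (nat_lit 338) (nat_lit 304) (nat_lit 258)) (XT.lf (nat_lit 0) (nat_lit 2971366468)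 (nat_lit 608) (nat_lit 4588625312) (nat_lit 76) (nat_lit 1386338547) (nat_lit 179) (nat_lit 5) (nat_lit 187) (nat_lit 5) (nat_lit 180) (nat_lit 5) (nat_lit 339) (nat_lit 304) (nat_lit 257))))) (XT.nd (nat_lit 234) (nat_lit 988) (nat_lit 0) (XT.nd (nat_lit 78) (nat_lit 532) (nat_lit 0) (XT.lf (nat_lit 0) (nat_lit 849944760) (nat_lit 456) (nat_lit 4484194055) (nat_lit 532) (nat_lit 3740482416) (nat_lit 173) (nat_lit 5) (nat_lit 179) (nat_lit 5) (nat_lit 180) (nat_lit 5) (nat_lit 340) (nat_lit 304) (nat_lit 256)) (XT.nd (nat_lit 78) (nat_lit 532) (nat_lit 0) (XT.lf (nat_lit 0) (nat_lit 6493036666) (nat_lit 456) (nat_lit 1275097319) (nat_lit 532) (nat_lit 1438644126) (nat_lit 173) (nat_lit 5) (nat_lit 179) (nat_lit 5) (nat_lit 180) (nat_lit 5) (nat_lit 341) (nat_lit 304) (nat_lit 255)) (XT.lf (nat_lit 0) (nat_lit 917198231) (nat_lit 532) (nat_lit 6403758114) (nat_lit 76) (nat_lit 2021606159) (nat_lit 166) (nat_lit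 5) (nat_lit 173) (nat_lit 5) (nat_lit 167) (nat_lit 5) (nat_lit 342) (nat_lit 304) (nat_lit 254)))) (XT.nd (nat_lit 156) (nat_lit 532) (nat_lit 0) (XT.nd (nat_lit 78) (nat_lit 456) (nat_lit 0) (XT.lf (nat_lit 0) (nat_lit 3310723686) (nat_lit 532) (nat_lit 745043151) (nat_lit 76) (nat_lit 5426373685) (nat_lit 166) (nat_lit 5) (nat_lit 173) (nat_lit 5) (nat_lit 167) (nat_lit 5) (nat_lit 343) (nat_lit 304) (nat_lit 253)) (XT.lf (nat_lit 0) (nat_lit 5132261371) (nat_lit 456) (nat_lit 650044118) (nat_lit 532) (nat_lit 3843437251) (nat_lit 160) (nat_lit 5) (nat_lit 166) (nat_lit 5) (nat_lit 167) (nat_lit 5) (nat_lit 344) (nat_lit 304) (nat_lit 252))) (XT.nd (nat_lit 78) (nat_lit 76) (nat_lit 0) (XT.lf (nat_lit 0) (nat_lit 1374986269) (nat_lit 456) (nat_lit 6958935878) (nat_lit 532) (nat_lit 1439577924) (nat_lit 154) (nat_lit 5) (nat_lit 160) (nat_lit 5) (nat_lit 161) (nat_lit 5) (nat_lit 345) (nat_lit 304) (nat_lit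 251)) (XT.lf (nat_lit 0) (nat_lit 1026339547) (nat_lit 532) (nat_lit 2481935899) (nat_lit 76) (nat_lit 6416833123) (nat_lit 153) (nat_lit 5) (nat_lit 160) (nat_lit 5) (nat_lit 154) (nat_lit 5) (nat_lit 346) (nat_lit 304) (nat_lit 250))))))))
noncomputable def xc116 : XT := (XT.nd (nat_lit 2028) (nat_lit 2888) (nat_lit 0) (XT.nd (nat_lit 1014) (nat_lit 2356) (nat_lit 0) (XT.nd (nat_lit 468) (nat_lit 1444) (nat_lit 0) (XT.nd (nat_lit 234) (nat_lit 836) (nat_lit 0) (XT.nd (nat_lit 78) (nat_lit 456) (nat_lit 0) (XT.lf (nat_lit 0) (nat_lit 3532037560) (nat_lit 456) (nat_lit 6464247412) (nat_lit 76) (nat_lit 84732299) (nat_lit 148) (nat_lit 5) (nat_lit 154) (nat_lit 5) (nat_lit 149) (nat_lit 5) (nat_lit 347) (nat_lit 304) (nat_lit 249)) (XT.nd (nat_lit 78) (nat_lit 456) (nat_lit 0) (XT.lf (nat_lit 0) (nat_lit 6132692633) (nat_lit 456) (nat_lit 378003711) (nat_lit 76) (nat_lit 3730334333) (nat_lit 148) (nat_lit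 5) (nat_lit 154) (nat_lit 5) (nat_lit 149) (nat_lit 5) (nat_lit 348) (nat_lit 304) (nat_lit 248)) (XT.lf (nat_lit 0) (nat_lit 5957088191) (nat_lit 456) (nat_lit 2872454857) (nat_lit 532) (nat_lit 1575776583) (nat_lit 142) (nat_lit 5) (nat_lit 148) (nat_lit 5) (nat_lit 149) (nat_lit 5) (nat_lit 349) (nat_lit 304) (nat_lit 247)))) (XT.nd (nat_lit 78) (nat_lit 380) (nat_lit 0) (XT.lf (nat_lit 0) (nat_lit 1004445138) (nat_lit 456) (nat_lit 8691146368) (nat_lit 76) (nat_lit 878912076) (nat_lit 136) (nat_lit 5) (nat_lit 142) (nat_lit 5) (nat_lit 137) (nat_lit 5) (nat_lit 350) (nat_lit 304) (nat_lit 246)) (XT.nd (nat_lit 78) (nat_lit 380) (nat_lit 0) (XT.lf (nat_lit 0) (nat_lit 3665921093) (nat_lit 456) (nat_lit 2346668639) (nat_lit 76) (nat_lit 4734658376) (nat_lit 136) (nat_lit 5) (nat_lit 142) (nat_lit 5) (nat_lit 137) (nat_lit 5) (nat_lit 351) (nat_lit 304) (nat_lit 245)) (XT.lf (nat_lit 0) (nat_lit 4221149741)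 (nat_lit 380) (nat_lit 2189498763) (nat_lit 456) (nat_lit 4514442388) (nat_lit 131) (nat_lit 5) (nat_lit 136) (nat_lit 5) (nat_lit 137) (nat_lit 5) (nat_lit 352) (nat_lit 304) (nat_lit 244))))) (XT.nd (nat_lit 234) (nat_lit 684) (nat_lit 0) (XT.nd (nat_lit 78) (nat_lit 760) (nat_lit 0) (XT.lf (nat_lit 0) (nat_lit 9241779877) (nat_lit 456) (nat_lit 140366587) (nat_lit 76) (nat_lit 1726018243) (nat_lit 131) (nat_lit 5) (nat_lit 137) (nat_lit 5) (nat_lit 132) (nat_lit 5) (nat_lit 353) (nat_lit 304) (nat_lit 243)) (XT.nd (nat_lit 78) (nat_lit 380) (nat_lit 0) (XT.lf (nat_lit 0) (nat_lit 895079551) (nat_lit 380) (nat_lit 4623642088) (nat_lit 76) (nat_lit 5776254314) (nat_lit 126) (nat_lit 5) (nat_lit 131) (nat_lit 5) (nat_lit 127) (nat_lit 5) (nat_lit 354) (nat_lit 304) (nat_lit 242)) (XT.lf (nat_lit 0) (nat_lit 2178257752) (nat_lit 380) (nat_lit 1510594282) (nat_lit 456) (nat_lit 7798391948) (nat_lit 121) (nat_lit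 5) (nat_lit 126) (nat_lit 5) (nat_lit 127) (nat_lit 5) (nat_lit 355) (nat_lit 304) (nat_lit 241)))) (XT.nd (nat_lit 156) (nat_lit 380) (nat_lit 0) (XT.nd (nat_lit 78) (nat_lit 304) (nat_lit 0) (XT.lf (nat_lit 0) (nat_lit 6603798965) (nat_lit 456) (nat_lit 2479633900) (nat_lit 76) (nat_lit 2600741994) (nat_lit 121) (nat_lit 5) (nat_lit 127) (nat_lit 5) (nat_lit 122) (nat_lit 5) (nat_lit 356) (nat_lit 304) (nat_lit 240)) (XT.lf (nat_lit 0) (nat_lit 4581348700) (nat_lit 304) (nat_lit 5049904405) (nat_lit 380) (nat_lit 2255023985) (nat_lit 117) (nat_lit 5) (nat_lit 121) (nat_lit 5) (nat_lit 122) (nat_lit 5) (nat_lit 357) (nat_lit 304) (nat_lit 239))) (XT.nd (nat_lit 78) (nat_lit 304) (nat_lit 0) (XT.lf (nat_lit 0) (nat_lit 633845705) (nat_lit 380) (nat_lit 243156300) (nat_lit 76) (nat_lit 11217519576) (nat_lit 116) (nat_lit 5) (nat_lit 121) (nat_lit 5) (nat_lit 117) (nat_lit 5) (nat_lit 358) (nat_lit 304) (nat_lit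 238)) (XT.lf (nat_lit 0) (nat_lit 3633195119) (nat_lit 380) (nat_lit 5240766550) (nat_lit 76) (nat_lit 3432321713) (nat_lit 112) (nat_lit 5) (nat_lit 117) (nat_lit 5) (nat_lit 113) (nat_lit 5) (nat_lit 359) (nat_lit 304) (nat_lit 237)))))) (XT.nd (nat_lit 468) (nat_lit 1140) (nat_lit 0) (XT.nd (nat_lit 234) (nat_lit 532) (nat_lit 0) (XT.nd (nat_lit 78) (nat_lit 380) (nat_lit 0) (XT.lf (nat_lit 0) (nat_lit 2058666993) (nat_lit 304) (nat_lit 4662424837) (nat_lit 380) (nat_lit 5803362696) (nat_lit 108) (nat_lit 5) (nat_lit 112) (nat_lit 5) (nat_lit 113) (nat_lit 5) (nat_lit 360) (nat_lit 304) (nat_lit 236)) (XT.nd (nat_lit 78) (nat_lit 380) (nat_lit 0) (XT.lf (nat_lit 0) (nat_lit 9638066233) (nat_lit 304) (nat_lit 284592200) (nat_lit 380) (nat_lit 2825894487) (nat_lit 108) (nat_lit 5) (nat_lit 112) (nat_lit 5) (nat_lit 113) (nat_lit 5) (nat_lit 361) (nat_lit 304) (nat_lit 235)) (XT.lf (nat_lit 0) (nat_lit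 289148416) (nat_lit 380) (nat_lit 8514535174) (nat_lit 76) (nat_lit 4174045015) (nat_lit 103) (nat_lit 5) (nat_lit 108) (nat_lit 5) (nat_lit 104) (nat_lit 5) (nat_lit 362) (nat_lit 304) (nat_lit 234)))) (XT.nd (nat_lit 78) (nat_lit 532) (nat_lit 0) (XT.lf (nat_lit 0) (nat_lit 3444441362) (nat_lit 380) (nat_lit 962177734) (nat_lit 76) (nat_lit 8806225188) (nat_lit 103) (nat_lit 5) (nat_lit 108) (nat_lit 5) (nat_lit 104) (nat_lit 5) (nat_lit 363) (nat_lit 304) (nat_lit 233)) (XT.nd (nat_lit 78) (nat_lit 304) (nat_lit 0) (XT.lf (nat_lit 0) (nat_lit 6732436766) (nat_lit 304) (nat_lit 6548836385) (nat_lit 76) (nat_lit 172610616) (nat_lit 100) (nat_lit 5) (nat_lit 104) (nat_lit 5) (nat_lit 101) (nat_lit 5) (nat_lit 364) (nat_lit 304) (nat_lit 232)) (XT.lf (nat_lit 0) (nat_lit 1261994495) (nat_lit 304) (nat_lit 8892917709) (nat_lit 380) (nat_lit 3546178329) (nat_lit 96) (nat_lit 5) (nat_lit 100) (nat_lit 5) (nat_lit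 101) (nat_lit 5) (nat_lit 365) (nat_lit 304) (nat_lit 231))))) (XT.nd (nat_lit 234) (nat_lit 836) (nat_lit 0) (XT.nd (nat_lit 78) (nat_lit 304) (nat_lit 0) (XT.lf (nat_lit 0) (nat_lit 9396781274) (nat_lit 304) (nat_lit 4320115105) (nat_lit 380) (nat_lit 237723063) (nat_lit 96) (nat_lit 5) (nat_lit 100) (nat_lit 5) (nat_lit 101) (nat_lit 5) (nat_lit 366) (nat_lit 304) (nat_lit 230)) (XT.nd (nat_lit 78) (nat_lit 0) (nat_lit 0) (XT.lf (nat_lit 0) (nat_lit 3117806741) (nat_lit 304) (nat_lit 10664072161) (nat_lit 76) (nat_lit 432681142) (nat_lit 92) (nat_lit 5) (nat_lit 96) (nat_lit 5) (nat_lit 93) (nat_lit 5) (nat_lit 367) (nat_lit 304) (nat_lit 229)) (XT.lf (nat_lit 0) (nat_lit 6630017546) (nat_lit 304) (nat_lit 2575186043) (nat_lit 76) (nat_lit 5275210915) (nat_lit 92) (nat_lit 5) (nat_lit 96) (nat_lit 5) (nat_lit 93) (nat_lit 5) (nat_lit 368) (nat_lit 304) (nat_lit 228)))) (XT.nd (nat_lit 156) (nat_lit 532)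 (nat_lit 0) (XT.nd (nat_lit 78) (nat_lit 0) (nat_lit 0) (XT.lf (nat_lit 0) (nat_lit 5827182716) (nat_lit 304) (nat_lit 4448794134) (nat_lit 380) (nat_lit 4477426034) (nat_lit 88) (nat_lit 5) (nat_lit 92) (nat_lit 5) (nat_lit 93) (nat_lit 5) (nat_lit 369) (nat_lit 304) (nat_lit 227)) (XT.lf (nat_lit 0) (nat_lit 14034523177) (nat_lit 380) (nat_lit 547128370) (nat_lit 76) (nat_lit 452842587) (nat_lit 88) (nat_lit 5) (nat_lit 93) (nat_lit 5) (nat_lit 89) (nat_lit 5) (nat_lit 370) (nat_lit 304) (nat_lit 226))) (XT.nd (nat_lit 78) (nat_lit 228) (nat_lit 0) (XT.lf (nat_lit 0) (nat_lit 2628236214) (nat_lit 304) (nat_lit 7190361698) (nat_lit 76) (nat_lit 5501780332) (nat_lit 84) (nat_lit 5) (nat_lit 88) (nat_lit 5) (nat_lit 85) (nat_lit 5) (nat_lit 371) (nat_lit 304) (nat_lit 225)) (XT.lf (nat_lit 0) (nat_lit 1440144474) (nat_lit 228) (nat_lit 4897992514) (nat_lit 304) (nat_lit 9276625157) (nat_lit 81) (nat_lit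 5) (nat_lit 84) (nat_lit 5) (nat_lit 85) (nat_lit 5) (nat_lit 372) (nat_lit 304) (nat_lit 224))))))) (XT.nd (nat_lit 1014) (nat_lit 1292) (nat_lit 0) (XT.nd (nat_lit 468) (nat_lit 912) (nat_lit 0) (XT.nd (nat_lit 234) (nat_lit 380) (nat_lit 0) (XT.nd (nat_lit 78) (nat_lit 304) (nat_lit 0) (XT.lf (nat_lit 0) (nat_lit 10208043431) (nat_lit 304) (nat_lit 5483444779) (nat_lit 76) (nat_lit 225036503) (nat_lit 81) (nat_lit 5) (nat_lit 85) (nat_lit 5) (nat_lit 82) (nat_lit 5) (nat_lit 373) (nat_lit 304) (nat_lit 223)) (XT.nd (nat_lit 78) (nat_lit 76) (nat_lit 0) (XT.lf (nat_lit 0) (nat_lit 3446195219) (nat_lit 228) (nat_lit 10803983304) (nat_lit 304) (nat_lit 1975485858) (nat_lit 78) (nat_lit 5) (nat_lit 81) (nat_lit 5) (nat_lit 82) (nat_lit 5) (nat_lit 374) (nat_lit 304) (nat_lit 222)) (XT.lf (nat_lit 0) (nat_lit 1863543904) (nat_lit 304) (nat_lit 3845938160) (nat_lit 76) (nat_lit 10833148994) (nat_lit 77) (nat_lit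 5) (nat_lit 81) (nat_lit 5) (nat_lit 78) (nat_lit 5) (nat_lit 375) (nat_lit 304) (nat_lit 221)))) (XT.nd (nat_lit 78) (nat_lit 152) (nat_lit 0) (XT.lf (nat_lit 0) (nat_lit 5401508675) (nat_lit 228) (nat_lit 403797708) (nat_lit 304) (nat_lit 11062403034) (nat_lit 74) (nat_lit 5) (nat_lit 77) (nat_lit 5) (nat_lit 78) (nat_lit 5) (nat_lit 376) (nat_lit 304) (nat_lit 220)) (XT.nd (nat_lit 78) (nat_lit 152) (nat_lit 0) (XT.lf (nat_lit 0) (nat_lit 9928728864) (nat_lit 304) (nat_lit 2285325296) (nat_lit 76) (nat_lit 4986591008) (nat_lit 74) (nat_lit 5) (nat_lit 78) (nat_lit 5) (nat_lit 75) (nat_lit 5) (nat_lit 377) (nat_lit 304) (nat_lit 219)) (XT.lf (nat_lit 0) (nat_lit 7269876155) (nat_lit 152) (nat_lit 6956107092) (nat_lit 228) (nat_lit 3316088913) (nat_lit 72) (nat_lit 5) (nat_lit 74) (nat_lit 5) (nat_lit 75) (nat_lit 5) (nat_lit 378) (nat_lit 304) (nat_lit 218))))) (XT.nd (nat_lit 234) (nat_lit 456) (nat_lit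 0) (XT.nd (nat_lit 78) (nat_lit 380) (nat_lit 0) (XT.lf (nat_lit 0) (nat_lit 743250674) (nat_lit 228) (nat_lit 781047317) (nat_lit 76) (nat_lit 16369242796) (nat_lit 71) (nat_lit 5) (nat_lit 74) (nat_lit 5) (nat_lit 72) (nat_lit 5) (nat_lit 379) (nat_lit 304) (nat_lit 217)) (XT.nd (nat_lit 78) (nat_lit 152) (nat_lit 0) (XT.lf (nat_lit 0) (nat_lit 4962407181) (nat_lit 304) (nat_lit 9191126889) (nat_lit 76) (nat_lit 4097900268) (nat_lit 68) (nat_lit 5) (nat_lit 72) (nat_lit 5) (nat_lit 69) (nat_lit 5) (nat_lit 380) (nat_lit 304) (nat_lit 216)) (XT.lf (nat_lit 0) (nat_lit 550565474) (nat_lit 152) (nat_lit 8763108157) (nat_lit 228) (nat_lit 9306231266) (nat_lit 66) (nat_lit 5) (nat_lit 68) (nat_lit 5) (nat_lit 69) (nat_lit 5) (nat_lit 381) (nat_lit 304) (nat_lit 215)))) (XT.nd (nat_lit 156) (nat_lit 228) (nat_lit 0) (XT.nd (nat_lit 78) (nat_lit 228) (nat_lit 0) (XT.lf (nat_lit 0) (nat_lit 10735197792) (nat_lit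 152) (nat_lit 3130580232) (nat_lit 228) (nat_lit 5131548627) (nat_lit 66) (nat_lit 5) (nat_lit 68) (nat_lit 5) (nat_lit 69) (nat_lit 5) (nat_lit 382) (nat_lit 304) (nat_lit 214)) (XT.lf (nat_lit 0) (nat_lit 1811838013) (nat_lit 228) (nat_lit 16763699945) (nat_lit 304) (nat_lit 809906225) (nat_lit 63) (nat_lit 5) (nat_lit 66) (nat_lit 5) (nat_lit 67) (nat_lit 5) (nat_lit 383) (nat_lit 304) (nat_lit 213))) (XT.nd (nat_lit 78) (nat_lit 152) (nat_lit 0) (XT.lf (nat_lit 0) (nat_lit 3663650099) (nat_lit 304) (nat_lit 7529356858) (nat_lit 76) (nat_lit 8588354113) (nat_lit 62) (nat_lit 5) (nat_lit 66) (nat_lit 5) (nat_lit 63) (nat_lit 5) (nat_lit 384) (nat_lit 304) (nat_lit 212)) (XT.lf (nat_lit 0) (nat_lit 2827235791) (nat_lit 152) (nat_lit 5433782924) (nat_lit 228) (nat_lit 11927725063) (nat_lit 60) (nat_lit 5) (nat_lit 62) (nat_lit 5) (nat_lit 63) (nat_lit 5) (nat_lit 385) (nat_lit 304) (nat_lit 211)))))) (XT.nd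 (nat_lit 546) (nat_lit 760) (nat_lit 0) (XT.nd (nat_lit 234) (nat_lit 304) (nat_lit 0) (XT.nd (nat_lit 78) (nat_lit 228) (nat_lit 0) (XT.lf (nat_lit 0) (nat_lit 13056723220) (nat_lit 228) (nat_lit 6999012719) (nat_lit 76) (nat_lit 550804825) (nat_lit 60) (nat_lit 5) (nat_lit 63) (nat_lit 5) (nat_lit 61) (nat_lit 5) (nat_lit 386) (nat_lit 304) (nat_lit 210)) (XT.nd (nat_lit 78) (nat_lit 76) (nat_lit 0) (XT.lf (nat_lit 0) (nat_lit 3656695009) (nat_lit 152) (nat_lit 14408011474) (nat_lit 228) (nat_lit 2970118037) (nat_lit 58) (nat_lit 5) (nat_lit 60) (nat_lit 5) (nat_lit 61) (nat_lit 5) (nat_lit 387) (nat_lit 304) (nat_lit 209)) (XT.lf (nat_lit 0) (nat_lit 1763773683) (nat_lit 228) (nat_lit 6751067438) (nat_lit 76) (nat_lit 12959089946) (nat_lit 57) (nat_lit 5) (nat_lit 60) (nat_lit 5) (nat_lit 58) (nat_lit 5) (nat_lit 388) (nat_lit 304) (nat_lit 208)))) (XT.nd (nat_lit 156) (nat_lit 152) (nat_lit 0) (XT.nd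 (nat_lit 78) (nat_lit 0) (nat_lit 0) (XT.lf (nat_lit 0) (nat_lit 4213359859) (nat_lit 152) (nat_lit 2387238793) (nat_lit 228) (nat_lit 15324116214) (nat_lit 55) (nat_lit 5) (nat_lit 57) (nat_lit 5) (nat_lit 58) (nat_lit 5) (nat_lit 389) (nat_lit 304) (nat_lit 207)) (XT.lf (nat_lit 0) (nat_lit 11669325031) (nat_lit 228) (nat_lit 6814641219) (nat_lit 76) (nat_lit 3902456551) (nat_lit 55) (nat_lit 5) (nat_lit 58) (nat_lit 5) (nat_lit 56) (nat_lit 5) (nat_lit 390) (nat_lit 304) (nat_lit 206))) (XT.nd (nat_lit 78) (nat_lit 0) (nat_lit 0) (XT.lf (nat_lit 0) (nat_lit 4438574067) (nat_lit 152) (nat_lit 12498644762) (nat_lit 228) (nat_lit 5923354366) (nat_lit 53) (nat_lit 5) (nat_lit 55) (nat_lit 5) (nat_lit 56) (nat_lit 5) (nat_lit 391) (nat_lit 304) (nat_lit 205)) (XT.lf (nat_lit 0) (nat_lit 16136030041) (nat_lit 152) (nat_lit 6276978661) (nat_lit 228) (nat_lit 934447882) (nat_lit 53) (nat_lit 5) (nat_lit 55)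 (nat_lit 5) (nat_lit 56) (nat_lit 5) (nat_lit 392) (nat_lit 304) (nat_lit 204))))) (XT.nd (nat_lit 234) (nat_lit 380) (nat_lit 0) (XT.nd (nat_lit 78) (nat_lit 152) (nat_lit 0) (XT.lf (nat_lit 0) (nat_lit 4147231880) (nat_lit 228) (nat_lit 19501561271) (nat_lit 76) (nat_lit 198190651) (nat_lit 50) (nat_lit 5) (nat_lit 53) (nat_lit 5) (nat_lit 51) (nat_lit 5) (nat_lit 393) (nat_lit 304) (nat_lit 203)) (XT.nd (nat_lit 78) (nat_lit 152) (nat_lit 0) (XT.lf (nat_lit 0) (nat_lit 9479781662) (nat_lit 228) (nat_lit 8067193683) (nat_lit 76) (nat_lit 6810731799) (nat_lit 50) (nat_lit 5) (nat_lit 53) (nat_lit 5) (nat_lit 51) (nat_lit 5) (nat_lit 394) (nat_lit 304) (nat_lit 202)) (XT.lf (nat_lit 0) (nat_lit 3751800072) (nat_lit 152) (nat_lit 11238621521) (nat_lit 228) (nat_lit 9892790971) (nat_lit 48) (nat_lit 5) (nat_lit 50) (nat_lit 5) (nat_lit 51) (nat_lit 5) (nat_lit 395) (nat_lit 304) (nat_lit 201)))) (XT.nd (nat_lit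 156) (nat_lit 152) (nat_lit 0) (XT.nd (nat_lit 78) (nat_lit 228) (nat_lit 0) (XT.lf (nat_lit 0) (nat_lit 16059427170) (nat_lit 152) (nat_lit 4670687359) (nat_lit 228) (nat_lit 4692460279) (nat_lit 48) (nat_lit 5) (nat_lit 50) (nat_lit 5) (nat_lit 51) (nat_lit 5) (nat_lit 396) (nat_lit 304) (nat_lit 200)) (XT.lf (nat_lit 0) (nat_lit 680546385) (nat_lit 228) (nat_lit 23222787824) (nat_lit 76) (nat_lit 2073707104) (nat_lit 45) (nat_lit 5) (nat_lit 48) (nat_lit 5) (nat_lit 46) (nat_lit 5) (nat_lit 397) (nat_lit 304) (nat_lit 199))) (XT.nd (nat_lit 78) (nat_lit 152) (nat_lit 0) (XT.lf (nat_lit 0) (nat_lit 6244859087) (nat_lit 228) (nat_lit 11242667179) (nat_lit 76) (nat_lit 9055492224) (nat_lit 45) (nat_lit 5) (nat_lit 48) (nat_lit 5) (nat_lit 46) (nat_lit 5) (nat_lit 398) (nat_lit 304) (nat_lit 198)) (XT.lf (nat_lit 0) (nat_lit 1088155696) (nat_lit 152) (nat_lit 10881609031) (nat_lit 228) (nat_lit 15156403613)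 (nat_lit 43) (nat_lit 5) (nat_lit 45) (nat_lit 5) (nat_lit 46) (nat_lit 5) (nat_lit 399) (nat_lit 304) (nat_lit 197))))))))
noncomputable def xc117 : XT := (XT.nd (nat_lit 2028) (nat_lit 608) (nat_lit 0) (XT.nd (nat_lit 1014) (nat_lit 760) (nat_lit 0) (XT.nd (nat_lit 468) (nat_lit 380) (nat_lit 0) (XT.nd (nat_lit 234) (nat_lit 152) (nat_lit 0) (XT.nd (nat_lit 78) (nat_lit 152) (nat_lit 0) (XT.lf (nat_lit 0) (nat_lit 13989725169) (nat_lit 152) (nat_lit 3973629086) (nat_lit 228) (nat_lit 9760553500) (nat_lit 43) (nat_lit 5) (nat_lit 45) (nat_lit 5) (nat_lit 46) (nat_lit 5) (nat_lit 400) (nat_lit 304) (nat_lit 196)) (XT.nd (nat_lit 78) (nat_lit 152) (nat_lit 0) (XT.lf (nat_lit 0) (nat_lit 24150719661) (nat_lit 228) (nat_lit 1120579465) (nat_lit 76) (nat_lit 3067864260) (nat_lit 43) (nat_lit 5) (nat_lit 46) (nat_lit 5) (nat_lit 44) (nat_lit 4) (nat_lit 401) (nat_lit 304) (nat_lit 195)) (XT.lf (nat_lit 0) (nat_lit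 1661251817) (nat_lit 152) (nat_lit 16946273787) (nat_lit 76) (nat_lit 10360686216) (nat_lit 41) (nat_lit 5) (nat_lit 43) (nat_lit 5) (nat_lit 42) (nat_lit 5) (nat_lit 402) (nat_lit 304) (nat_lit 194)))) (XT.nd (nat_lit 78) (nat_lit 152) (nat_lit 0) (XT.lf (nat_lit 0) (nat_lit 7597957058) (nat_lit 152) (nat_lit 4104004690) (nat_lit 76) (nat_lit 17913057612) (nat_lit 41) (nat_lit 5) (nat_lit 43) (nat_lit 5) (nat_lit 42) (nat_lit 5) (nat_lit 403) (nat_lit 304) (nat_lit 193)) (XT.nd (nat_lit 78) (nat_lit 0) (nat_lit 0) (XT.lf (nat_lit 0) (nat_lit 9277053918) (nat_lit 152) (nat_lit 4509618985) (nat_lit 228) (nat_lit 16492343676) (nat_lit 39) (nat_lit 5) (nat_lit 41) (nat_lit 5) (nat_lit 42) (nat_lit 5) (nat_lit 404) (nat_lit 304) (nat_lit 192)) (XT.lf (nat_lit 0) (nat_lit 20215563802) (nat_lit 228) (nat_lit 7873866485) (nat_lit 76) (nat_lit 2871870676) (nat_lit 39) (nat_lit 5) (nat_lit 42) (nat_lit 5) (nat_lit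 40) (nat_lit 4) (nat_lit 405) (nat_lit 304) (nat_lit 191))))) (XT.nd (nat_lit 234) (nat_lit 76) (nat_lit 0) (XT.nd (nat_lit 78) (nat_lit 228) (nat_lit 0) (XT.lf (nat_lit 0) (nat_lit 5687636358) (nat_lit 76) (nat_lit 21234249316) (nat_lit 152) (nat_lit 4739633856) (nat_lit 38) (nat_lit 5) (nat_lit 39) (nat_lit 5) (nat_lit 40) (nat_lit 4) (nat_lit 406) (nat_lit 304) (nat_lit 190)) (XT.nd (nat_lit 78) (nat_lit 152) (nat_lit 0) (XT.lf (nat_lit 0) (nat_lit 1483990686) (nat_lit 152) (nat_lit 12604467759) (nat_lit 76) (nat_lit 18291904428) (nat_lit 37) (nat_lit 5) (nat_lit 39) (nat_lit 5) (nat_lit 38) (nat_lit 5) (nat_lit 407) (nat_lit 304) (nat_lit 189)) (XT.lf (nat_lit 0) (nat_lit 1114832284) (nat_lit 152) (nat_lit 6680644913) (nat_lit 228) (nat_lit 25323996412) (nat_lit 35) (nat_lit 5) (nat_lit 37) (nat_lit 5) (nat_lit 38) (nat_lit 5) (nat_lit 408) (nat_lit 304) (nat_lit 188)))) (XT.nd (nat_lit 156) (nat_lit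 76) (nat_lit 0) (XT.nd (nat_lit 78) (nat_lit 0) (nat_lit 0) (XT.lf (nat_lit 0) (nat_lit 14419730849) (nat_lit 228) (nat_lit 18409319545) (nat_lit 76) (nat_lit 1048006889) (nat_lit 35) (nat_lit 5) (nat_lit 38) (nat_lit 5) (nat_lit 36) (nat_lit 4) (nat_lit 409) (nat_lit 304) (nat_lit 187)) (XT.lf (nat_lit 0) (nat_lit 21295027681) (nat_lit 228) (nat_lit 4497607774) (nat_lit 76) (nat_lit 8863165768) (nat_lit 35) (nat_lit 5) (nat_lit 38) (nat_lit 5) (nat_lit 36) (nat_lit 4) (nat_lit 410) (nat_lit 304) (nat_lit 186))) (XT.nd (nat_lit 78) (nat_lit 0) (nat_lit 0) (XT.lf (nat_lit 0) (nat_lit 10002044203) (nat_lit 76) (nat_lit 18457258352) (nat_lit 152) (nat_lit 6996125513) (nat_lit 34) (nat_lit 5) (nat_lit 35) (nat_lit 5) (nat_lit 36) (nat_lit 4) (nat_lit 411) (nat_lit 304) (nat_lit 185)) (XT.lf (nat_lit 0) (nat_lit 25004536287) (nat_lit 76) (nat_lit 10866116817) (nat_lit 152) (nat_lit 407428286) (nat_lit 34) (nat_lit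 5) (nat_lit 35) (nat_lit 5) (nat_lit 36) (nat_lit 4) (nat_lit 412) (nat_lit 304) (nat_lit 184)))))) (XT.nd (nat_lit 468) (nat_lit 228) (nat_lit 0) (XT.nd (nat_lit 234) (nat_lit 304) (nat_lit 0) (XT.nd (nat_lit 78) (nat_lit 0) (nat_lit 0) (XT.lf (nat_lit 0) (nat_lit 3311083967) (nat_lit 152) (nat_lit 2962185506) (nat_lit 228) (nat_lit 30849742805) (nat_lit 31) (nat_lit 5) (nat_lit 33) (nat_lit 5) (nat_lit 34) (nat_lit 5) (nat_lit 413) (nat_lit 304) (nat_lit 183)) (XT.nd (nat_lit 78) (nat_lit 0) (nat_lit 0) (XT.lf (nat_lit 0) (nat_lit 13297984556) (nat_lit 228) (nat_lit 19504418295) (nat_lit 76) (nat_lit 5186215583) (nat_lit 31) (nat_lit 5) (nat_lit 34) (nat_lit 5) (nat_lit 32) (nat_lit 4) (nat_lit 414) (nat_lit 304) (nat_lit 182)) (XT.lf (nat_lit 0) (nat_lit 20550182331) (nat_lit 228) (nat_lit 4820261518) (nat_lit 76) (nat_lit 13509248551) (nat_lit 31) (nat_lit 5) (nat_lit 34) (nat_lit 5) (nat_lit 32) (nat_lit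 4) (nat_lit 415) (nat_lit 304) (nat_lit 181)))) (XT.nd (nat_lit 78) (nat_lit 228) (nat_lit 0) (XT.lf (nat_lit 0) (nat_lit 10486476094) (nat_lit 76) (nat_lit 17622051661) (nat_lit 152) (nat_lit 11686315187) (nat_lit 30) (nat_lit 5) (nat_lit 31) (nat_lit 5) (nat_lit 32) (nat_lit 4) (nat_lit 416) (nat_lit 304) (nat_lit 180)) (XT.nd (nat_lit 78) (nat_lit 228) (nat_lit 0) (XT.lf (nat_lit 0) (nat_lit 26328874985) (nat_lit 76) (nat_lit 9601344126) (nat_lit 152) (nat_lit 4806132778) (nat_lit 30) (nat_lit 5) (nat_lit 31) (nat_lit 5) (nat_lit 32) (nat_lit 4) (nat_lit 417) (nat_lit 304) (nat_lit 179)) (XT.lf (nat_lit 0) (nat_lit 914424446) (nat_lit 152) (nat_lit 1318475195) (nat_lit 228) (nat_lit 39472642152) (nat_lit 27) (nat_lit 5) (nat_lit 29) (nat_lit 5) (nat_lit 30) (nat_lit 5) (nat_lit 418) (nat_lit 304) (nat_lit 178))))) (XT.nd (nat_lit 234) (nat_lit 152) (nat_lit 0) (XT.nd (nat_lit 78) (nat_lit 76) (nat_lit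 0) (XT.lf (nat_lit 0) (nat_lit 9590961246) (nat_lit 228) (nat_lit 25848460773) (nat_lit 76) (nat_lit 7256825716) (nat_lit 27) (nat_lit 5) (nat_lit 30) (nat_lit 5) (nat_lit 28) (nat_lit 4) (nat_lit 419) (nat_lit 304) (nat_lit 177)) (XT.nd (nat_lit 78) (nat_lit 76) (nat_lit 0) (XT.lf (nat_lit 0) (nat_lit 17171357135) (nat_lit 228) (nat_lit 10491917966) (nat_lit 76) (nat_lit 16053353541) (nat_lit 27) (nat_lit 5) (nat_lit 30) (nat_lit 5) (nat_lit 28) (nat_lit 4) (nat_lit 420) (nat_lit 304) (nat_lit 176)) (XT.lf (nat_lit 0) (nat_lit 5410175412) (nat_lit 76) (nat_lit 19609867469) (nat_lit 152) (nat_lit 19746353270) (nat_lit 26) (nat_lit 5) (nat_lit 27) (nat_lit 5) (nat_lit 28) (nat_lit 4) (nat_lit 421) (nat_lit 304) (nat_lit 175)))) (XT.nd (nat_lit 156) (nat_lit 152) (nat_lit 0) (XT.nd (nat_lit 78) (nat_lit 0) (nat_lit 0) (XT.lf (nat_lit 0) (nat_lit 21983891016) (nat_lit 76) (nat_lit 11215244963) (nat_lit 152)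 (nat_lit 12645673774) (nat_lit 26) (nat_lit 5) (nat_lit 27) (nat_lit 5) (nat_lit 28) (nat_lit 4) (nat_lit 422) (nat_lit 304) (nat_lit 174)) (XT.lf (nat_lit 0) (nat_lit 39034900994) (nat_lit 76) (nat_lit 2578020274) (nat_lit 152) (nat_lit 5342976340) (nat_lit 26) (nat_lit 5) (nat_lit 27) (nat_lit 5) (nat_lit 28) (nat_lit 4) (nat_lit 423) (nat_lit 304) (nat_lit 173))) (XT.nd (nat_lit 78) (nat_lit 0) (nat_lit 0) (XT.lf (nat_lit 0) (nat_lit 2270396949) (nat_lit 152) (nat_lit 39534258692) (nat_lit 76) (nat_lit 6291012148) (nat_lit 24) (nat_lit 5) (nat_lit 26) (nat_lit 5) (nat_lit 25) (nat_lit 4) (nat_lit 424) (nat_lit 304) (nat_lit 172)) (XT.lf (nat_lit 0) (nat_lit 10100645274) (nat_lit 152) (nat_lit 23665370052) (nat_lit 76) (nat_lit 15499154162) (nat_lit 24) (nat_lit 5) (nat_lit 26) (nat_lit 5) (nat_lit 25) (nat_lit 4) (nat_lit 425) (nat_lit 304) (nat_lit 171))))))) (XT.nd (nat_lit 1014) (nat_lit 152) (nat_lit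 0) (XT.nd (nat_lit 468) (nat_lit 228) (nat_lit 0) (XT.nd (nat_lit 234) (nat_lit 152) (nat_lit 0) (XT.nd (nat_lit 78) (nat_lit 76) (nat_lit 0) (XT.lf (nat_lit 0) (nat_lit 18155664097) (nat_lit 152) (nat_lit 7339425008) (nat_lit 76) (nat_lit 24974972510) (nat_lit 24) (nat_lit 5) (nat_lit 26) (nat_lit 5) (nat_lit 25) (nat_lit 4) (nat_lit 426) (nat_lit 304) (nat_lit 170)) (XT.nd (nat_lit 78) (nat_lit 0) (nat_lit 0) (XT.lf (nat_lit 0) (nat_lit 9646071424) (nat_lit 76) (nat_lit 16889144297) (nat_lit 152) (nat_lit 25173399549) (nat_lit 23) (nat_lit 5) (nat_lit 24) (nat_lit 5) (nat_lit 25) (nat_lit 4) (nat_lit 427) (nat_lit 304) (nat_lit 169)) (XT.lf (nat_lit 0) (nat_lit 27273308156) (nat_lit 76) (nat_lit 7957228814) (nat_lit 152) (nat_lit 17751858269) (nat_lit 23) (nat_lit 5) (nat_lit 24) (nat_lit 5) (nat_lit 25) (nat_lit 4) (nat_lit 428) (nat_lit 304) (nat_lit 168)))) (XT.nd (nat_lit 78) (nat_lit 152) (nat_lit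 0) (XT.lf (nat_lit 0) (nat_lit 44189135858) (nat_lit 152) (nat_lit 8894919820) (nat_lit 0) (nat_lit 1210261549) (nat_lit 23) (nat_lit 5) (nat_lit 25) (nat_lit 4) (nat_lit 23) (nat_lit 4) (nat_lit 429) (nat_lit 304) (nat_lit 167)) (XT.nd (nat_lit 78) (nat_lit 76) (nat_lit 0) (XT.lf (nat_lit 0) (nat_lit 8493195467) (nat_lit 76) (nat_lit 45074473912) (nat_lit 76) (nat_lit 2073393322) (nat_lit 22) (nat_lit 4) (nat_lit 23) (nat_lit 5) (nat_lit 23) (nat_lit 4) (nat_lit 430) (nat_lit 304) (nat_lit 166)) (XT.lf (nat_lit 0) (nat_lit 6159849667) (nat_lit 152) (nat_lit 30518145260) (nat_lit 76) (nat_lit 20345984730) (nat_lit 21) (nat_lit 5) (nat_lit 23) (nat_lit 5) (nat_lit 22) (nat_lit 4) (nat_lit 431) (nat_lit 304) (nat_lit 165))))) (XT.nd (nat_lit 234) (nat_lit 152) (nat_lit 0) (XT.nd (nat_lit 78) (nat_lit 76) (nat_lit 0) (XT.lf (nat_lit 0) (nat_lit 14589448202) (nat_lit 152) (nat_lit 13426991785) (nat_lit 76)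 (nat_lit 30431598365) (nat_lit 21) (nat_lit 5) (nat_lit 23) (nat_lit 5) (nat_lit 22) (nat_lit 4) (nat_lit 432) (nat_lit 304) (nat_lit 164)) (XT.nd (nat_lit 78) (nat_lit 0) (nat_lit 0) (XT.lf (nat_lit 0) (nat_lit 4243259203) (nat_lit 76) (nat_lit 19060756920) (nat_lit 152) (nat_lit 36609841242) (nat_lit 20) (nat_lit 5) (nat_lit 21) (nat_lit 5) (nat_lit 22) (nat_lit 4) (nat_lit 433) (nat_lit 304) (nat_lit 163)) (XT.lf (nat_lit 0) (nat_lit 22702580689) (nat_lit 76) (nat_lit 9704416458) (nat_lit 152) (nat_lit 29012845492) (nat_lit 20) (nat_lit 5) (nat_lit 21) (nat_lit 5) (nat_lit 22) (nat_lit 4) (nat_lit 434) (nat_lit 304) (nat_lit 162)))) (XT.nd (nat_lit 156) (nat_lit 152) (nat_lit 0) (XT.nd (nat_lit 78) (nat_lit 0) (nat_lit 0) (XT.lf (nat_lit 0) (nat_lit 41699878711) (nat_lit 76) (nat_lit 74829449) (nat_lit 152) (nat_lit 21196551038) (nat_lit 20) (nat_lit 5) (nat_lit 21) (nat_lit 5) (nat_lit 22) (nat_lit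 4) (nat_lit 435) (nat_lit 304) (nat_lit 161)) (XT.lf (nat_lit 0) (nat_lit 51509888210) (nat_lit 152) (nat_lit 3412263469) (nat_lit 0) (nat_lit 9644474360) (nat_lit 20) (nat_lit 5) (nat_lit 22) (nat_lit 4) (nat_lit 20) (nat_lit 4) (nat_lit 436) (nat_lit 304) (nat_lit 160))) (XT.nd (nat_lit 78) (nat_lit 76) (nat_lit 0) (XT.lf (nat_lit 0) (nat_lit 15264689471) (nat_lit 76) (nat_lit 46411961588) (nat_lit 76) (nat_lit 4529017895) (nat_lit 19) (nat_lit 4) (nat_lit 20) (nat_lit 5) (nat_lit 20) (nat_lit 4) (nat_lit 437) (nat_lit 304) (nat_lit 159)) (XT.lf (nat_lit 0) (nat_lit 4198373077) (nat_lit 152) (nat_lit 33377265610) (nat_lit 76) (nat_lit 30316212569) (nat_lit 18) (nat_lit 5) (nat_lit 20) (nat_lit 5) (nat_lit 19) (nat_lit 4) (nat_lit 438) (nat_lit 304) (nat_lit 158)))))) (XT.nd (nat_lit 36426) (nat_lit 0) (nat_lit 24396) (XT.nd (nat_lit 234) (nat_lit 76) (nat_lit 0) (XT.nd (nat_lit 78) (nat_lit 76) (nat_lit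 0) (XT.lf (nat_lit 0) (nat_lit 13088850582) (nat_lit 152) (nat_lit 15346119835) (nat_lit 76) (nat_lit 41192535366) (nat_lit 18) (nat_lit 5) (nat_lit 20) (nat_lit 5) (nat_lit 19) (nat_lit 4) (nat_lit 439) (nat_lit 304) (nat_lit 157)) (XT.nd (nat_lit 78) (nat_lit 0) (nat_lit 0) (XT.lf (nat_lit 0) (nat_lit 3275669003) (nat_lit 76) (nat_lit 18994379178) (nat_lit 152) (nat_lit 49144462380) (nat_lit 17) (nat_lit 5) (nat_lit 18) (nat_lit 5) (nat_lit 19) (nat_lit 4) (nat_lit 440) (nat_lit 304) (nat_lit 156)) (XT.lf (nat_lit 0) (nat_lit 22756619836) (nat_lit 76) (nat_lit 9117628282) (nat_lit 152) (nat_lit 41376451141) (nat_lit 17) (nat_lit 5) (nat_lit 18) (nat_lit 5) (nat_lit 19) (nat_lit 4) (nat_lit 441) (nat_lit 304) (nat_lit 155)))) (XT.nd (nat_lit 156) (nat_lit 76) (nat_lit 0) (XT.nd (nat_lit 78) (nat_lit 0) (nat_lit 0) (XT.lf (nat_lit 0) (nat_lit 41769473374) (nat_lit 152) (nat_lit 32343936017) (nat_lit 0)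 (nat_lit 1028477993) (nat_lit 17) (nat_lit 5) (nat_lit 19) (nat_lit 4) (nat_lit 17) (nat_lit 4) (nat_lit 442) (nat_lit 304) (nat_lit 154)) (XT.lf (nat_lit 0) (nat_lit 52044793913) (nat_lit 152) (nat_lit 13752975643) (nat_lit 0) (nat_lit 11289545165) (nat_lit 17) (nat_lit 5) (nat_lit 19) (nat_lit 4) (nat_lit 17) (nat_lit 4) (nat_lit 443) (nat_lit 304) (nat_lit 153))) (XT.nd (nat_lit 78) (nat_lit 0) (nat_lit 0) (XT.lf (nat_lit 0) (nat_lit 5489816543) (nat_lit 76) (nat_lit 57184498881) (nat_lit 76) (nat_lit 16415411913) (nat_lit 16) (nat_lit 4) (nat_lit 17) (nat_lit 5) (nat_lit 17) (nat_lit 4) (nat_lit 444) (nat_lit 304) (nat_lit 152)) (XT.lf (nat_lit 0) (nat_lit 25578919595) (nat_lit 76) (nat_lit 48175925932) (nat_lit 76) (nat_lit 7393403799) (nat_lit 16) (nat_lit 4) (nat_lit 17) (nat_lit 5) (nat_lit 17) (nat_lit 4) (nat_lit 445) (nat_lit 304) (nat_lit 151))))) (XT.nd (nat_lit 234) (nat_lit 532) (nat_lit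 0) (XT.nd (nat_lit 78) (nat_lit 456) (nat_lit 0) (XT.lf (nat_lit 0) (nat_lit 451908377) (nat_lit 0) (nat_lit 451908377) (nat_lit 380) (nat_lit 2371087608) (nat_lit 350) (nat_lit 5) (nat_lit 350) (nat_lit 3) (nat_lit 355) (nat_lit 3) (nat_lit 305) (nat_lit 305) (nat_lit 290)) (XT.nd (nat_lit 78) (nat_lit 456) (nat_lit 0) (XT.lf (nat_lit 0) (nat_lit 4090103886) (nat_lit 0) (nat_lit 172773915) (nat_lit 380) (nat_lit 2309828252) (nat_lit 350) (nat_lit 5) (nat_lit 350) (nat_lit 3) (nat_lit 355) (nat_lit 3) (nat_lit 306) (nat_lit 305) (nat_lit 289)) (XT.lf (nat_lit 0) (nat_lit 109091720) (nat_lit 456) (nat_lit 5866257428) (nat_lit 532) (nat_lit 623457211) (nat_lit 344) (nat_lit 5) (nat_lit 350) (nat_lit 5) (nat_lit 351) (nat_lit 5) (nat_lit 307) (nat_lit 305) (nat_lit 288)))) (XT.nd (nat_lit 156) (nat_lit 532) (nat_lit 0) (XT.nd (nat_lit 78) (nat_lit 0) (nat_lit 0) (XT.lf (nat_lit 0) (nat_lit 2488133713) (nat_lit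 456) (nat_lit 2606944470) (nat_lit 532) (nat_lit 1531998194) (nat_lit 344) (nat_lit 5) (nat_lit 350) (nat_lit 5) (nat_lit 351) (nat_lit 5) (nat_lit 308) (nat_lit 305) (nat_lit 287)) (XT.lf (nat_lit 76) (nat_lit 713365364) (nat_lit 0) (nat_lit 4141700481) (nat_lit 532) (nat_lit 1803722586) (nat_lit 345) (nat_lit 5) (nat_lit 344) (nat_lit 5) (nat_lit 351) (nat_lit 5) (nat_lit 309) (nat_lit 305) (nat_lit 286))) (XT.nd (nat_lit 78) (nat_lit 0) (nat_lit 0) (XT.lf (nat_lit 0) (nat_lit 527253099) (nat_lit 532) (nat_lit 2562045282) (nat_lit 608) (nat_lit 3603941227) (nat_lit 337) (nat_lit 5) (nat_lit 344) (nat_lit 5) (nat_lit 345) (nat_lit 5) (nat_lit 310) (nat_lit 305) (nat_lit 285)) (XT.lf (nat_lit 76) (nat_lit 871432074) (nat_lit 0) (nat_lit 1942298050) (nat_lit 608) (nat_lit 3916885589) (nat_lit 338) (nat_lit 5) (nat_lit 337) (nat_lit 5) (nat_lit 345) (nat_lit 5) (nat_lit 311) (nat_lit 305) (nat_lit 284))))))))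
noncomputable def xc118 : XT := (XT.nd (nat_lit 2028) (nat_lit 7144) (nat_lit 0) (XT.nd (nat_lit 1014) (nat_lit 6384) (nat_lit 0) (XT.nd (nat_lit 468) (nat_lit 3268) (nat_lit 0) (XT.nd (nat_lit 234) (nat_lit 684) (nat_lit 0) (XT.nd (nat_lit 78) (nat_lit 532) (nat_lit 0) (XT.lf (nat_lit 76) (nat_lit 4410380836) (nat_lit 0) (nat_lit 699780415) (nat_lit 608) (nat_lit 1660790576) (nat_lit 338) (nat_lit 5) (nat_lit 337) (nat_lit 5) (nat_lit 345) (nat_lit 5) (nat_lit 312) (nat_lit 305) (nat_lit 283)) (XT.nd (nat_lit 78) (nat_lit 0) (nat_lit 0) (XT.lf (nat_lit 0) (nat_lit 584809303) (nat_lit 608) (nat_lit 5610671523) (nat_lit 684) (nat_lit 618858182) (nat_lit 330) (nat_lit 5) (nat_lit 338) (nat_lit 5) (nat_lit 339) (nat_lit 5) (nat_lit 313) (nat_lit 305) (nat_lit 282)) (XT.lf (nat_lit 0) (nat_lit 2814696582) (nat_lit 608) (nat_lit 2011327433) (nat_lit 684) (nat_lit 2034074268) (nat_lit 330) (nat_lit 5) (nat_lit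 338) (nat_lit 5) (nat_lit 339) (nat_lit 5) (nat_lit 314) (nat_lit 305) (nat_lit 281)))) (XT.nd (nat_lit 78) (nat_lit 684) (nat_lit 0) (XT.lf (nat_lit 76) (nat_lit 1677637367) (nat_lit 0) (nat_lit 3371618112) (nat_lit 684) (nat_lit 1859912260) (nat_lit 331) (nat_lit 5) (nat_lit 330) (nat_lit 5) (nat_lit 339) (nat_lit 5) (nat_lit 315) (nat_lit 305) (nat_lit 280)) (XT.nd (nat_lit 78) (nat_lit 0) (nat_lit 0) (XT.lf (nat_lit 0) (nat_lit 326639854) (nat_lit 684) (nat_lit 1496761643) (nat_lit 760) (nat_lit 5137967662) (nat_lit 321) (nat_lit 5) (nat_lit 330) (nat_lit 5) (nat_lit 331) (nat_lit 5) (nat_lit 316) (nat_lit 305) (nat_lit 279)) (XT.lf (nat_lit 76) (nat_lit 2326349026) (nat_lit 0) (nat_lit 162292233) (nat_lit 760) (nat_lit 4527590517) (nat_lit 322) (nat_lit 5) (nat_lit 321) (nat_lit 5) (nat_lit 331) (nat_lit 5) (nat_lit 317) (nat_lit 305) (nat_lit 278))))) (XT.nd (nat_lit 234) (nat_lit 2584) (nat_lit 0)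 (XT.nd (nat_lit 78) (nat_lit 760) (nat_lit 0) (XT.lf (nat_lit 0) (nat_lit 4672455249) (nat_lit 684) (nat_lit 845161397) (nat_lit 76) (nat_lit 1556477822) (nat_lit 322) (nat_lit 5) (nat_lit 331) (nat_lit 5) (nat_lit 323) (nat_lit 5) (nat_lit 318) (nat_lit 305) (nat_lit 277)) (XT.nd (nat_lit 78) (nat_lit 76) (nat_lit 0) (XT.lf (nat_lit 0) (nat_lit 3123098320) (nat_lit 684) (nat_lit 3759247266) (nat_lit 760) (nat_lit 252591541) (nat_lit 313) (nat_lit 5) (nat_lit 322) (nat_lit 5) (nat_lit 323) (nat_lit 5) (nat_lit 319) (nat_lit 305) (nat_lit 276)) (XT.lf (nat_lit 0) (nat_lit 1861052880) (nat_lit 760) (nat_lit 40645451) (nat_lit 76) (nat_lit 5297246992) (nat_lit 312) (nat_lit 5) (nat_lit 322) (nat_lit 5) (nat_lit 313) (nat_lit 5) (nat_lit 320) (nat_lit 305) (nat_lit 275)))) (XT.nd (nat_lit 156) (nat_lit 988) (nat_lit 0) (XT.nd (nat_lit 78) (nat_lit 836) (nat_lit 0) (XT.lf (nat_lit 0) (nat_lit 4004722067) (nat_lit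 836) (nat_lit 3190270488) (nat_lit 76) (nat_lit 70711187) (nat_lit 302) (nat_lit 5) (nat_lit 313) (nat_lit 5) (nat_lit 303) (nat_lit 5) (nat_lit 321) (nat_lit 305) (nat_lit 274)) (XT.lf (nat_lit 0) (nat_lit 928363824) (nat_lit 836) (nat_lit 5245985391) (nat_lit 912) (nat_lit 1161320410) (nat_lit 291) (nat_lit 5) (nat_lit 302) (nat_lit 5) (nat_lit 303) (nat_lit 5) (nat_lit 322) (nat_lit 305) (nat_lit 273))) (XT.nd (nat_lit 78) (nat_lit 912) (nat_lit 0) (XT.lf (nat_lit 0) (nat_lit 948550056) (nat_lit 912) (nat_lit 2233899270) (nat_lit 76) (nat_lit 4226044670) (nat_lit 290) (nat_lit 5) (nat_lit 302) (nat_lit 5) (nat_lit 291) (nat_lit 5) (nat_lit 323) (nat_lit 305) (nat_lit 272)) (XT.lf (nat_lit 0) (nat_lit 2041453694) (nat_lit 912) (nat_lit 1012685535) (nat_lit 988) (nat_lit 4430395556) (nat_lit 278) (nat_lit 5) (nat_lit 290) (nat_lit 5) (nat_lit 291) (nat_lit 5) (nat_lit 324) (nat_lit 305) (nat_lit 271))))))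 (XT.nd (nat_lit 468) (nat_lit 3040) (nat_lit 0) (XT.nd (nat_lit 234) (nat_lit 1216) (nat_lit 0) (XT.nd (nat_lit 78) (nat_lit 2128) (nat_lit 0) (XT.lf (nat_lit 0) (nat_lit 5195044482) (nat_lit 988) (nat_lit 1136411951) (nat_lit 76) (nat_lit 1232284023) (nat_lit 278) (nat_lit 5) (nat_lit 291) (nat_lit 5) (nat_lit 279) (nat_lit 5) (nat_lit 325) (nat_lit 305) (nat_lit 270)) (XT.nd (nat_lit 78) (nat_lit 1140) (nat_lit 0) (XT.lf (nat_lit 0) (nat_lit 3302297299) (nat_lit 988) (nat_lit 4079085610) (nat_lit 1064) (nat_lit 264549916) (nat_lit 265) (nat_lit 5) (nat_lit 278) (nat_lit 5) (nat_lit 279) (nat_lit 5) (nat_lit 326) (nat_lit 305) (nat_lit 269)) (XT.lf (nat_lit 0) (nat_lit 98429357) (nat_lit 1064) (nat_lit 1719774887) (nat_lit 1140) (nat_lit 5913303667) (nat_lit 250) (nat_lit 5) (nat_lit 264) (nat_lit 5) (nat_lit 265) (nat_lit 5) (nat_lit 327) (nat_lit 305) (nat_lit 268)))) (XT.nd (nat_lit 78) (nat_lit 1216)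 (nat_lit 0) (XT.lf (nat_lit 0) (nat_lit 3950639284) (nat_lit 1140) (nat_lit 3119079960) (nat_lit 76) (nat_lit 750119708) (nat_lit 250) (nat_lit 5) (nat_lit 265) (nat_lit 5) (nat_lit 251) (nat_lit 5) (nat_lit 328) (nat_lit 305) (nat_lit 267)) (XT.nd (nat_lit 78) (nat_lit 76) (nat_lit 0) (XT.lf (nat_lit 0) (nat_lit 1490294592) (nat_lit 1140) (nat_lit 4631203919) (nat_lit 1216) (nat_lit 1790129379) (nat_lit 235) (nat_lit 5) (nat_lit 250) (nat_lit 5) (nat_lit 251) (nat_lit 5) (nat_lit 329) (nat_lit 305) (nat_lit 266)) (XT.lf (nat_lit 0) (nat_lit 319934177) (nat_lit 1216) (nat_lit 1759773033) (nat_lit 76) (nat_lit 5927136799) (nat_lit 234) (nat_lit 5) (nat_lit 250) (nat_lit 5) (nat_lit 235) (nat_lit 5) (nat_lit 330) (nat_lit 305) (nat_lit 265))))) (XT.nd (nat_lit 234) (nat_lit 1216) (nat_lit 0) (XT.nd (nat_lit 78) (nat_lit 608) (nat_lit 0) (XT.lf (nat_lit 0) (nat_lit 2437541184) (nat_lit 1292) (nat_lit 5079095864)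 (nat_lit 76) (nat_lit 588379179) (nat_lit 218) (nat_lit 5) (nat_lit 235) (nat_lit 5) (nat_lit 219) (nat_lit 5) (nat_lit 331) (nat_lit 305) (nat_lit 264)) (XT.nd (nat_lit 78) (nat_lit 608) (nat_lit 0) (XT.lf (nat_lit 0) (nat_lit 4603655759) (nat_lit 1292) (nat_lit 287490147) (nat_lit 76) (nat_lit 3315475196) (nat_lit 218) (nat_lit 5) (nat_lit 235) (nat_lit 5) (nat_lit 219) (nat_lit 5) (nat_lit 332) (nat_lit 305) (nat_lit 263)) (XT.lf (nat_lit 0) (nat_lit 4688498153) (nat_lit 608) (nat_lit 2139326270) (nat_lit 684) (nat_lit 1483693381) (nat_lit 210) (nat_lit 5) (nat_lit 218) (nat_lit 5) (nat_lit 219) (nat_lit 5) (nat_lit 333) (nat_lit 305) (nat_lit 262)))) (XT.nd (nat_lit 156) (nat_lit 608) (nat_lit 0) (XT.nd (nat_lit 78) (nat_lit 0) (nat_lit 0) (XT.lf (nat_lit 0) (nat_lit 657004185) (nat_lit 608) (nat_lit 7058634880) (nat_lit 76) (nat_lit 704609748) (nat_lit 202) (nat_lit 5) (nat_lit 210) (nat_lit 5) (nat_lit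 203) (nat_lit 5) (nat_lit 334) (nat_lit 305) (nat_lit 261)) (XT.lf (nat_lit 0) (nat_lit 2839731464) (nat_lit 608) (nat_lit 2049777900) (nat_lit 76) (nat_lit 3642095562) (nat_lit 202) (nat_lit 5) (nat_lit 210) (nat_lit 5) (nat_lit 203) (nat_lit 5) (nat_lit 335) (nat_lit 305) (nat_lit 260))) (XT.nd (nat_lit 78) (nat_lit 0) (nat_lit 0) (XT.lf (nat_lit 0) (nat_lit 3119286238) (nat_lit 608) (nat_lit 1949610149) (nat_lit 684) (nat_lit 3578008467) (nat_lit 194) (nat_lit 5) (nat_lit 202) (nat_lit 5) (nat_lit 203) (nat_lit 5) (nat_lit 336) (nat_lit 305) (nat_lit 259)) (XT.lf (nat_lit 0) (nat_lit 7348099100) (nat_lit 684) (nat_lit 342052787) (nat_lit 76) (nat_lit 1076047888) (nat_lit 194) (nat_lit 5) (nat_lit 203) (nat_lit 5) (nat_lit 195) (nat_lit 5) (nat_lit 337) (nat_lit 305) (nat_lit 258))))))) (XT.nd (nat_lit 1014) (nat_lit 3116) (nat_lit 0) (XT.nd (nat_lit 468) (nat_lit 1900) (nat_lit 0) (XT.nd (nat_lit 234)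 (nat_lit 988) (nat_lit 0) (XT.nd (nat_lit 78) (nat_lit 532) (nat_lit 0) (XT.lf (nat_lit 0) (nat_lit 811966277) (nat_lit 608) (nat_lit 3868922076) (nat_lit 76) (nat_lit 4207348640) (nat_lit 186) (nat_lit 5) (nat_lit 194) (nat_lit 5) (nat_lit 187) (nat_lit 5) (nat_lit 338) (nat_lit 305) (nat_lit 257)) (XT.nd (nat_lit 78) (nat_lit 0) (nat_lit 0) (XT.lf (nat_lit 0) (nat_lit 1499057148) (nat_lit 532) (nat_lit 1552965797) (nat_lit 608) (nat_lit 5962371720) (nat_lit 179) (nat_lit 5) (nat_lit 186) (nat_lit 5) (nat_lit 187) (nat_lit 5) (nat_lit 339) (nat_lit 305) (nat_lit 256)) (XT.lf (nat_lit 0) (nat_lit 5369288227) (nat_lit 608) (nat_lit 2103877714) (nat_lit 76) (nat_lit 1670898357) (nat_lit 179) (nat_lit 5) (nat_lit 187) (nat_lit 5) (nat_lit 180) (nat_lit 5) (nat_lit 340) (nat_lit 305) (nat_lit 255)))) (XT.nd (nat_lit 78) (nat_lit 532) (nat_lit 0) (XT.lf (nat_lit 0) (nat_lit 3472139594) (nat_lit 456) (nat_lit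 4288519144) (nat_lit 532) (nat_lit 1516854301) (nat_lit 173) (nat_lit 5) (nat_lit 179) (nat_lit 5) (nat_lit 180) (nat_lit 5) (nat_lit 341) (nat_lit 305) (nat_lit 254)) (XT.nd (nat_lit 78) (nat_lit 456) (nat_lit 0) (XT.lf (nat_lit 0) (nat_lit 770667101) (nat_lit 532) (nat_lit 214317675) (nat_lit 76) (nat_lit 8430442992) (nat_lit 172) (nat_lit 5) (nat_lit 179) (nat_lit 5) (nat_lit 173) (nat_lit 5) (nat_lit 342) (nat_lit 305) (nat_lit 253)) (XT.lf (nat_lit 0) (nat_lit 3131378750) (nat_lit 532) (nat_lit 3991150959) (nat_lit 76) (nat_lit 2433472501) (nat_lit 166) (nat_lit 5) (nat_lit 173) (nat_lit 5) (nat_lit 167) (nat_lit 5) (nat_lit 343) (nat_lit 305) (nat_lit 252))))) (XT.nd (nat_lit 234) (nat_lit 912) (nat_lit 0) (XT.nd (nat_lit 78) (nat_lit 532) (nat_lit 0) (XT.lf (nat_lit 0) (nat_lit 1796516328) (nat_lit 456) (nat_lit 3753773595) (nat_lit 532) (nat_lit 4150906283) (nat_lit 160) (nat_lit 5) (nat_lit 166)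 (nat_lit 5) (nat_lit 167) (nat_lit 5) (nat_lit 344) (nat_lit 305) (nat_lit 251)) (XT.nd (nat_lit 78) (nat_lit 532) (nat_lit 0) (XT.lf (nat_lit 0) (nat_lit 7790290794) (nat_lit 456) (nat_lit 250695513) (nat_lit 532) (nat_lit 1809806157) (nat_lit 160) (nat_lit 5) (nat_lit 166) (nat_lit 5) (nat_lit 167) (nat_lit 5) (nat_lit 345) (nat_lit 305) (nat_lit 250)) (XT.lf (nat_lit 0) (nat_lit 620392723) (nat_lit 532) (nat_lit 6055212566) (nat_lit 76) (nat_lit 3328201400) (nat_lit 153) (nat_lit 5) (nat_lit 160) (nat_lit 5) (nat_lit 154) (nat_lit 5) (nat_lit 346) (nat_lit 305) (nat_lit 249)))) (XT.nd (nat_lit 156) (nat_lit 532) (nat_lit 0) (XT.nd (nat_lit 78) (nat_lit 380) (nat_lit 0) (XT.lf (nat_lit 0) (nat_lit 3070939341) (nat_lit 532) (nat_lit 50565429) (nat_lit 76) (nat_lit 7039875522) (nat_lit 153) (nat_lit 5) (nat_lit 160) (nat_lit 5) (nat_lit 154) (nat_lit 5) (nat_lit 347) (nat_lit 305) (nat_lit 248)) (XT.lf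 (nat_lit 0) (nat_lit 5621833034) (nat_lit 456) (nat_lit 4121334865) (nat_lit 76) (nat_lit 579728698) (nat_lit 148) (nat_lit 5) (nat_lit 154) (nat_lit 5) (nat_lit 149) (nat_lit 5) (nat_lit 348) (nat_lit 305) (nat_lit 247))) (XT.nd (nat_lit 78) (nat_lit 76) (nat_lit 0) (XT.lf (nat_lit 0) (nat_lit 2114876460) (nat_lit 456) (nat_lit 6148179202) (nat_lit 532) (nat_lit 2225808486) (nat_lit 142) (nat_lit 5) (nat_lit 148) (nat_lit 5) (nat_lit 149) (nat_lit 5) (nat_lit 349) (nat_lit 305) (nat_lit 246)) (XT.lf (nat_lit 0) (nat_lit 321723224) (nat_lit 532) (nat_lit 2088249085) (nat_lit 76) (nat_lit 8249633682) (nat_lit 141) (nat_lit 5) (nat_lit 148) (nat_lit 5) (nat_lit 142) (nat_lit 5) (nat_lit 350) (nat_lit 305) (nat_lit 245)))))) (XT.nd (nat_lit 546) (nat_lit 1596) (nat_lit 0) (XT.nd (nat_lit 234) (nat_lit 760) (nat_lit 0) (XT.nd (nat_lit 78) (nat_lit 380) (nat_lit 0) (XT.lf (nat_lit 0) (nat_lit 2921047418) (nat_lit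 456) (nat_lit 6446499962) (nat_lit 76) (nat_lit 1466676625) (nat_lit 136) (nat_lit 5) (nat_lit 142) (nat_lit 5) (nat_lit 137) (nat_lit 5) (nat_lit 351) (nat_lit 305) (nat_lit 244)) (XT.nd (nat_lit 78) (nat_lit 0) (nat_lit 0) (XT.lf (nat_lit 0) (nat_lit 15645135) (nat_lit 380) (nat_lit 5591927211) (nat_lit 456) (nat_lit 5406249195) (nat_lit 131) (nat_lit 5) (nat_lit 136) (nat_lit 5) (nat_lit 137) (nat_lit 5) (nat_lit 352) (nat_lit 305) (nat_lit 243)) (XT.lf (nat_lit 0) (nat_lit 6756345632) (nat_lit 380) (nat_lit 1647952786) (nat_lit 456) (nat_lit 2793637519) (nat_lit 131) (nat_lit 5) (nat_lit 136) (nat_lit 5) (nat_lit 137) (nat_lit 5) (nat_lit 353) (nat_lit 305) (nat_lit 242)))) (XT.nd (nat_lit 156) (nat_lit 380) (nat_lit 0) (XT.nd (nat_lit 78) (nat_lit 76) (nat_lit 0) (XT.lf (nat_lit 0) (nat_lit 2286082611) (nat_lit 304) (nat_lit 9009457473) (nat_lit 380) (nat_lit 91731866) (nat_lit 127) (nat_lit 5) (nat_lit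 131) (nat_lit 5) (nat_lit 132) (nat_lit 5) (nat_lit 354) (nat_lit 305) (nat_lit 241)) (XT.lf (nat_lit 0) (nat_lit 2665964465) (nat_lit 380) (nat_lit 2364189713) (nat_lit 76) (nat_lit 6550555947) (nat_lit 126) (nat_lit 5) (nat_lit 131) (nat_lit 5) (nat_lit 127) (nat_lit 5) (nat_lit 355) (nat_lit 305) (nat_lit 240))) (XT.nd (nat_lit 78) (nat_lit 0) (nat_lit 0) (XT.lf (nat_lit 0) (nat_lit 4618255734) (nat_lit 380) (nat_lit 897323915) (nat_lit 456) (nat_lit 6264028789) (nat_lit 121) (nat_lit 5) (nat_lit 126) (nat_lit 5) (nat_lit 127) (nat_lit 5) (nat_lit 356) (nat_lit 305) (nat_lit 239)) (XT.lf (nat_lit 0) (nat_lit 8474138959) (nat_lit 456) (nat_lit 203952664) (nat_lit 76) (nat_lit 3305693155) (nat_lit 121) (nat_lit 5) (nat_lit 127) (nat_lit 5) (nat_lit 122) (nat_lit 5) (nat_lit 357) (nat_lit 305) (nat_lit 238))))) (XT.nd (nat_lit 234) (nat_lit 912) (nat_lit 0) (XT.nd (nat_lit 78) (nat_lit 380) (nat_lit 0)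 (XT.lf (nat_lit 0) (nat_lit 7045819509) (nat_lit 304) (nat_lit 4520260441) (nat_lit 380) (nat_lit 626682032) (nat_lit 117) (nat_lit 5) (nat_lit 121) (nat_lit 5) (nat_lit 122) (nat_lit 5) (nat_lit 358) (nat_lit 305) (nat_lit 237)) (XT.nd (nat_lit 78) (nat_lit 0) (nat_lit 0) (XT.lf (nat_lit 0) (nat_lit 2082249993) (nat_lit 304) (nat_lit 205090776) (nat_lit 380) (nat_lit 10120297045) (nat_lit 112) (nat_lit 5) (nat_lit 116) (nat_lit 5) (nat_lit 117) (nat_lit 5) (nat_lit 359) (nat_lit 305) (nat_lit 236)) (XT.lf (nat_lit 0) (nat_lit 5337988191) (nat_lit 380) (nat_lit 3086589075) (nat_lit 76) (nat_lit 4202355627) (nat_lit 112) (nat_lit 5) (nat_lit 117) (nat_lit 5) (nat_lit 113) (nat_lit 5) (nat_lit 360) (nat_lit 305) (nat_lit 235)))) (XT.nd (nat_lit 156) (nat_lit 608) (nat_lit 0) (XT.nd (nat_lit 78) (nat_lit 0) (nat_lit 0) (XT.lf (nat_lit 0) (nat_lit 4409166686) (nat_lit 304) (nat_lit 4084876354) (nat_lit 380)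 (nat_lit 4358359867) (nat_lit 108) (nat_lit 5) (nat_lit 112) (nat_lit 5) (nat_lit 113) (nat_lit 5) (nat_lit 361) (nat_lit 305) (nat_lit 234)) (XT.lf (nat_lit 0) (nat_lit 11749767769) (nat_lit 380) (nat_lit 939208159) (nat_lit 76) (nat_lit 395523798) (nat_lit 108) (nat_lit 5) (nat_lit 113) (nat_lit 5) (nat_lit 109) (nat_lit 5) (nat_lit 362) (nat_lit 305) (nat_lit 233))) (XT.nd (nat_lit 78) (nat_lit 228) (nat_lit 0) (XT.lf (nat_lit 0) (nat_lit 1822508859) (nat_lit 380) (nat_lit 6499434963) (nat_lit 76) (nat_lit 4998785153) (nat_lit 103) (nat_lit 5) (nat_lit 108) (nat_lit 5) (nat_lit 104) (nat_lit 5) (nat_lit 363) (nat_lit 305) (nat_lit 232)) (XT.lf (nat_lit 0) (nat_lit 1237509338) (nat_lit 228) (nat_lit 3802438622) (nat_lit 304) (nat_lit 8523942755) (nat_lit 100) (nat_lit 5) (nat_lit 103) (nat_lit 5) (nat_lit 104) (nat_lit 5) (nat_lit 364) (nat_lit 305) (nat_lit 231))))))))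
noncomputable def xc119 : XT := (XT.nd (nat_lit 2106) (nat_lit 1900) (nat_lit 0) (XT.nd (nat_lit 1014) (nat_lit 1444) (nat_lit 0) (XT.nd (nat_lit 468) (nat_lit 1064) (nat_lit 0) (XT.nd (nat_lit 234) (nat_lit 532) (nat_lit 0) (XT.nd (nat_lit 78) (nat_lit 380) (nat_lit 0) (XT.lf (nat_lit 0) (nat_lit 8399520734) (nat_lit 304) (nat_lit 4525173552) (nat_lit 76) (nat_lit 888295681) (nat_lit 100) (nat_lit 5) (nat_lit 104) (nat_lit 5) (nat_lit 101) (nat_lit 5) (nat_lit 365) (nat_lit 305) (nat_lit 230)) (XT.nd (nat_lit 78) (nat_lit 76) (nat_lit 0) (XT.lf (nat_lit 0) (nat_lit 3498216294) (nat_lit 304) (nat_lit 8404913008) (nat_lit 380) (nat_lit 2165146089) (nat_lit 96) (nat_lit 5) (nat_lit 100) (nat_lit 5) (nat_lit 101) (nat_lit 5) (nat_lit 366) (nat_lit 305) (nat_lit 229)) (XT.lf (nat_lit 0) (nat_lit 1175838500) (nat_lit 380) (nat_lit 2529198402) (nat_lit 76) (nat_lit 10625304553) (nat_lit 95) (nat_lit 5) (nat_lit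 100) (nat_lit 5) (nat_lit 96) (nat_lit 5) (nat_lit 367) (nat_lit 305) (nat_lit 228)))) (XT.nd (nat_lit 78) (nat_lit 304) (nat_lit 0) (XT.lf (nat_lit 0) (nat_lit 4613780700) (nat_lit 304) (nat_lit 8807002730) (nat_lit 76) (nat_lit 1177645347) (nat_lit 92) (nat_lit 5) (nat_lit 96) (nat_lit 5) (nat_lit 93) (nat_lit 5) (nat_lit 368) (nat_lit 305) (nat_lit 227)) (XT.nd (nat_lit 78) (nat_lit 304) (nat_lit 0) (XT.lf (nat_lit 0) (nat_lit 8190510069) (nat_lit 304) (nat_lit 538857551) (nat_lit 76) (nat_lit 6144131098) (nat_lit 92) (nat_lit 5) (nat_lit 96) (nat_lit 5) (nat_lit 93) (nat_lit 5) (nat_lit 369) (nat_lit 305) (nat_lit 226)) (XT.lf (nat_lit 0) (nat_lit 8094860859) (nat_lit 304) (nat_lit 3831447150) (nat_lit 380) (nat_lit 3228968938) (nat_lit 88) (nat_lit 5) (nat_lit 92) (nat_lit 5) (nat_lit 93) (nat_lit 5) (nat_lit 370) (nat_lit 305) (nat_lit 225))))) (XT.nd (nat_lit 234) (nat_lit 532) (nat_lit 0) (XT.nd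 (nat_lit 78) (nat_lit 228) (nat_lit 0) (XT.lf (nat_lit 0) (nat_lit 328372765) (nat_lit 304) (nat_lit 13917786060) (nat_lit 76) (nat_lit 1199080130) (nat_lit 84) (nat_lit 5) (nat_lit 88) (nat_lit 5) (nat_lit 85) (nat_lit 5) (nat_lit 371) (nat_lit 305) (nat_lit 224)) (XT.nd (nat_lit 78) (nat_lit 228) (nat_lit 0) (XT.lf (nat_lit 0) (nat_lit 4011766847) (nat_lit 304) (nat_lit 5335479287) (nat_lit 76) (nat_lit 6393176065) (nat_lit 84) (nat_lit 5) (nat_lit 88) (nat_lit 5) (nat_lit 85) (nat_lit 5) (nat_lit 372) (nat_lit 305) (nat_lit 223)) (XT.lf (nat_lit 0) (nat_lit 3533642135) (nat_lit 228) (nat_lit 4281030690) (nat_lit 304) (nat_lit 8229525980) (nat_lit 81) (nat_lit 5) (nat_lit 84) (nat_lit 5) (nat_lit 85) (nat_lit 5) (nat_lit 373) (nat_lit 305) (nat_lit 222)))) (XT.nd (nat_lit 156) (nat_lit 304) (nat_lit 0) (XT.nd (nat_lit 78) (nat_lit 228) (nat_lit 0) (XT.lf (nat_lit 0) (nat_lit 11770337955) (nat_lit 304)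 (nat_lit 3626631189) (nat_lit 76) (nat_lit 958967333) (nat_lit 81) (nat_lit 5) (nat_lit 85) (nat_lit 5) (nat_lit 82) (nat_lit 5) (nat_lit 374) (nat_lit 305) (nat_lit 221)) (XT.lf (nat_lit 0) (nat_lit 5551081176) (nat_lit 228) (nat_lit 10365311493) (nat_lit 304) (nat_lit 758489719) (nat_lit 78) (nat_lit 5) (nat_lit 81) (nat_lit 5) (nat_lit 82) (nat_lit 5) (nat_lit 375) (nat_lit 305) (nat_lit 220))) (XT.nd (nat_lit 78) (nat_lit 228) (nat_lit 0) (XT.lf (nat_lit 0) (nat_lit 3134359222) (nat_lit 304) (nat_lit 1993565018) (nat_lit 76) (nat_lit 11874170245) (nat_lit 77) (nat_lit 5) (nat_lit 81) (nat_lit 5) (nat_lit 78) (nat_lit 5) (nat_lit 376) (nat_lit 305) (nat_lit 219)) (XT.lf (nat_lit 0) (nat_lit 7180932109) (nat_lit 304) (nat_lit 9828635502) (nat_lit 76) (nat_lit 327771582) (nat_lit 74) (nat_lit 5) (nat_lit 78) (nat_lit 5) (nat_lit 75) (nat_lit 5) (nat_lit 377) (nat_lit 305) (nat_lit 218)))))) (XT.nd (nat_lit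 546) (nat_lit 532) (nat_lit 0) (XT.nd (nat_lit 234) (nat_lit 456) (nat_lit 0) (XT.nd (nat_lit 78) (nat_lit 456) (nat_lit 0) (XT.lf (nat_lit 0) (nat_lit 11396944644) (nat_lit 304) (nat_lit 433930428) (nat_lit 76) (nat_lit 5850331737) (nat_lit 74) (nat_lit 5) (nat_lit 78) (nat_lit 5) (nat_lit 75) (nat_lit 5) (nat_lit 378) (nat_lit 305) (nat_lit 217)) (XT.nd (nat_lit 78) (nat_lit 304) (nat_lit 0) (XT.lf (nat_lit 0) (nat_lit 9389103982) (nat_lit 152) (nat_lit 6418199537) (nat_lit 228) (nat_lit 2226057595) (nat_lit 72) (nat_lit 5) (nat_lit 74) (nat_lit 5) (nat_lit 75) (nat_lit 5) (nat_lit 379) (nat_lit 305) (nat_lit 216)) (XT.lf (nat_lit 0) (nat_lit 1085311657) (nat_lit 228) (nat_lit 823001531) (nat_lit 304) (nat_lit 16487433231) (nat_lit 68) (nat_lit 5) (nat_lit 71) (nat_lit 5) (nat_lit 72) (nat_lit 5) (nat_lit 380) (nat_lit 305) (nat_lit 215)))) (XT.nd (nat_lit 156) (nat_lit 304) (nat_lit 0) (XT.nd (nat_lit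 78) (nat_lit 152) (nat_lit 0) (XT.lf (nat_lit 0) (nat_lit 6235464828) (nat_lit 304) (nat_lit 7589793368) (nat_lit 76) (nat_lit 4939685219) (nat_lit 68) (nat_lit 5) (nat_lit 72) (nat_lit 5) (nat_lit 69) (nat_lit 5) (nat_lit 381) (nat_lit 305) (nat_lit 214)) (XT.lf (nat_lit 0) (nat_lit 2425747145) (nat_lit 152) (nat_lit 8276645484) (nat_lit 228) (nat_lit 8442530743) (nat_lit 66) (nat_lit 5) (nat_lit 68) (nat_lit 5) (nat_lit 69) (nat_lit 5) (nat_lit 382) (nat_lit 305) (nat_lit 213))) (XT.nd (nat_lit 78) (nat_lit 304) (nat_lit 0) (XT.lf (nat_lit 0) (nat_lit 12861782567) (nat_lit 152) (nat_lit 2496967621) (nat_lit 228) (nat_lit 4175895609) (nat_lit 66) (nat_lit 5) (nat_lit 68) (nat_lit 5) (nat_lit 69) (nat_lit 5) (nat_lit 383) (nat_lit 305) (nat_lit 212)) (XT.lf (nat_lit 0) (nat_lit 262783695) (nat_lit 304) (nat_lit 16258819736) (nat_lit 76) (nat_lit 3412949378) (nat_lit 62) (nat_lit 5) (nat_lit 66) (nat_lit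 5) (nat_lit 63) (nat_lit 5) (nat_lit 384) (nat_lit 305) (nat_lit 211))))) (XT.nd (nat_lit 234) (nat_lit 380) (nat_lit 0) (XT.nd (nat_lit 78) (nat_lit 152) (nat_lit 0) (XT.lf (nat_lit 0) (nat_lit 4822791441) (nat_lit 304) (nat_lit 5974678587) (nat_lit 76) (nat_lit 9545588898) (nat_lit 62) (nat_lit 5) (nat_lit 66) (nat_lit 5) (nat_lit 63) (nat_lit 5) (nat_lit 385) (nat_lit 305) (nat_lit 210)) (XT.nd (nat_lit 78) (nat_lit 0) (nat_lit 0) (XT.lf (nat_lit 0) (nat_lit 4675155381) (nat_lit 152) (nat_lit 4869313605) (nat_lit 228) (nat_lit 11218610242) (nat_lit 60) (nat_lit 5) (nat_lit 62) (nat_lit 5) (nat_lit 63) (nat_lit 5) (nat_lit 386) (nat_lit 305) (nat_lit 209)) (XT.lf (nat_lit 0) (nat_lit 14460670275) (nat_lit 228) (nat_lit 5473607984) (nat_lit 76) (nat_lit 1259840617) (nat_lit 60) (nat_lit 5) (nat_lit 63) (nat_lit 5) (nat_lit 61) (nat_lit 5) (nat_lit 387) (nat_lit 305) (nat_lit 208)))) (XT.nd (nat_lit 156)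 (nat_lit 152) (nat_lit 0) (XT.nd (nat_lit 78) (nat_lit 76) (nat_lit 0) (XT.lf (nat_lit 0) (nat_lit 5484757494) (nat_lit 152) (nat_lit 14121170610) (nat_lit 228) (nat_lit 2029719292) (nat_lit 58) (nat_lit 5) (nat_lit 60) (nat_lit 5) (nat_lit 61) (nat_lit 5) (nat_lit 388) (nat_lit 305) (nat_lit 207)) (XT.lf (nat_lit 0) (nat_lit 2796699503) (nat_lit 228) (nat_lit 5265553550) (nat_lit 76) (nat_lit 14026266095) (nat_lit 57) (nat_lit 5) (nat_lit 60) (nat_lit 5) (nat_lit 58) (nat_lit 5) (nat_lit 389) (nat_lit 305) (nat_lit 206))) (XT.nd (nat_lit 78) (nat_lit 0) (nat_lit 0) (XT.lf (nat_lit 0) (nat_lit 6011257096) (nat_lit 152) (nat_lit 1754895515) (nat_lit 228) (nat_lit 14787054833) (nat_lit 55) (nat_lit 5) (nat_lit 57) (nat_lit 5) (nat_lit 58) (nat_lit 5) (nat_lit 390) (nat_lit 305) (nat_lit 205)) (XT.lf (nat_lit 0) (nat_lit 12965329926) (nat_lit 228) (nat_lit 5374441222) (nat_lit 76) (nat_lit 4689650284) (nat_lit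 55) (nat_lit 5) (nat_lit 58) (nat_lit 5) (nat_lit 56) (nat_lit 5) (nat_lit 391) (nat_lit 305) (nat_lit 204))))))) (XT.nd (nat_lit 1014) (nat_lit 836) (nat_lit 0) (XT.nd (nat_lit 468) (nat_lit 532) (nat_lit 0) (XT.nd (nat_lit 234) (nat_lit 152) (nat_lit 0) (XT.nd (nat_lit 78) (nat_lit 228) (nat_lit 0) (XT.lf (nat_lit 0) (nat_lit 6200246609) (nat_lit 152) (nat_lit 12179116996) (nat_lit 228) (nat_lit 5138795940) (nat_lit 53) (nat_lit 5) (nat_lit 55) (nat_lit 5) (nat_lit 56) (nat_lit 5) (nat_lit 392) (nat_lit 305) (nat_lit 203)) (XT.nd (nat_lit 78) (nat_lit 228) (nat_lit 0) (XT.lf (nat_lit 0) (nat_lit 18201193778) (nat_lit 152) (nat_lit 5791028693) (nat_lit 228) (nat_lit 28249224) (nat_lit 53) (nat_lit 5) (nat_lit 55) (nat_lit 5) (nat_lit 56) (nat_lit 5) (nat_lit 393) (nat_lit 305) (nat_lit 202)) (XT.lf (nat_lit 0) (nat_lit 5182725450) (nat_lit 228) (nat_lit 18481979671) (nat_lit 76) (nat_lit 870163719) (nat_lit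 50) (nat_lit 5) (nat_lit 53) (nat_lit 5) (nat_lit 51) (nat_lit 5) (nat_lit 394) (nat_lit 305) (nat_lit 201)))) (XT.nd (nat_lit 78) (nat_lit 152) (nat_lit 0) (XT.lf (nat_lit 0) (nat_lit 10648715513) (nat_lit 228) (nat_lit 6751317805) (nat_lit 76) (nat_lit 7661682247) (nat_lit 50) (nat_lit 5) (nat_lit 53) (nat_lit 5) (nat_lit 51) (nat_lit 5) (nat_lit 395) (nat_lit 305) (nat_lit 200)) (XT.nd (nat_lit 78) (nat_lit 0) (nat_lit 0) (XT.lf (nat_lit 0) (nat_lit 5406972314) (nat_lit 152) (nat_lit 10906767606) (nat_lit 228) (nat_lit 9289579704) (nat_lit 48) (nat_lit 5) (nat_lit 50) (nat_lit 5) (nat_lit 51) (nat_lit 5) (nat_lit 396) (nat_lit 305) (nat_lit 199)) (XT.lf (nat_lit 0) (nat_lit 18038897597) (nat_lit 152) (nat_lit 4161281222) (nat_lit 228) (nat_lit 3959452538) (nat_lit 48) (nat_lit 5) (nat_lit 50) (nat_lit 5) (nat_lit 51) (nat_lit 5) (nat_lit 397) (nat_lit 305) (nat_lit 198))))) (XT.nd (nat_lit 234) (nat_lit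 152) (nat_lit 0) (XT.nd (nat_lit 78) (nat_lit 152) (nat_lit 0) (XT.lf (nat_lit 0) (nat_lit 1553445140) (nat_lit 228) (nat_lit 22400148136) (nat_lit 76) (nat_lit 2777019031) (nat_lit 45) (nat_lit 5) (nat_lit 48) (nat_lit 5) (nat_lit 46) (nat_lit 5) (nat_lit 398) (nat_lit 305) (nat_lit 197)) (XT.nd (nat_lit 78) (nat_lit 152) (nat_lit 0) (XT.lf (nat_lit 0) (nat_lit 7259857639) (nat_lit 228) (nat_lit 10104876007) (nat_lit 76) (nat_lit 9949584868) (nat_lit 45) (nat_lit 5) (nat_lit 48) (nat_lit 5) (nat_lit 46) (nat_lit 5) (nat_lit 399) (nat_lit 305) (nat_lit 196)) (XT.lf (nat_lit 0) (nat_lit 2581410072) (nat_lit 152) (nat_lit 10565034259) (nat_lit 228) (nat_lit 14768825200) (nat_lit 43) (nat_lit 5) (nat_lit 45) (nat_lit 5) (nat_lit 46) (nat_lit 5) (nat_lit 400) (nat_lit 305) (nat_lit 195)))) (XT.nd (nat_lit 156) (nat_lit 76) (nat_lit 0) (XT.nd (nat_lit 78) (nat_lit 76) (nat_lit 0) (XT.lf (nat_lit 0) (nat_lit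 15827484599) (nat_lit 152) (nat_lit 3468543742) (nat_lit 228) (nat_lit 9235631736) (nat_lit 43) (nat_lit 5) (nat_lit 45) (nat_lit 5) (nat_lit 46) (nat_lit 5) (nat_lit 401) (nat_lit 305) (nat_lit 194)) (XT.lf (nat_lit 0) (nat_lit 244785118) (nat_lit 76) (nat_lit 25409289308) (nat_lit 152) (nat_lit 3511751578) (nat_lit 42) (nat_lit 5) (nat_lit 43) (nat_lit 5) (nat_lit 44) (nat_lit 4) (nat_lit 402) (nat_lit 305) (nat_lit 193))) (XT.nd (nat_lit 78) (nat_lit 0) (nat_lit 0) (XT.lf (nat_lit 0) (nat_lit 2485959762) (nat_lit 152) (nat_lit 16058565078) (nat_lit 76) (nat_lit 11269348390) (nat_lit 41) (nat_lit 5) (nat_lit 43) (nat_lit 5) (nat_lit 42) (nat_lit 5) (nat_lit 403) (nat_lit 305) (nat_lit 192)) (XT.lf (nat_lit 0) (nat_lit 8578197120) (nat_lit 152) (nat_lit 2871690925) (nat_lit 76) (nat_lit 19030878066) (nat_lit 41) (nat_lit 5) (nat_lit 43) (nat_lit 5) (nat_lit 42) (nat_lit 5) (nat_lit 404) (nat_lit 305) (nat_lit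 191)))))) (XT.nd (nat_lit 546) (nat_lit 380) (nat_lit 0) (XT.nd (nat_lit 234) (nat_lit 228) (nat_lit 0) (XT.nd (nat_lit 78) (nat_lit 76) (nat_lit 0) (XT.lf (nat_lit 0) (nat_lit 10897510874) (nat_lit 152) (nat_lit 4046053399) (nat_lit 228) (nat_lit 16221393205) (nat_lit 39) (nat_lit 5) (nat_lit 41) (nat_lit 5) (nat_lit 42) (nat_lit 5) (nat_lit 405) (nat_lit 305) (nat_lit 190)) (XT.nd (nat_lit 78) (nat_lit 76) (nat_lit 0) (XT.lf (nat_lit 0) (nat_lit 21549261526) (nat_lit 228) (nat_lit 6790841328) (nat_lit 76) (nat_lit 3528093160) (nat_lit 39) (nat_lit 5) (nat_lit 42) (nat_lit 5) (nat_lit 40) (nat_lit 4) (nat_lit 406) (nat_lit 305) (nat_lit 189)) (XT.lf (nat_lit 0) (nat_lit 7164572863) (nat_lit 76) (nat_lit 21283575737) (nat_lit 152) (nat_lit 4141534972) (nat_lit 38) (nat_lit 5) (nat_lit 39) (nat_lit 5) (nat_lit 40) (nat_lit 4) (nat_lit 407) (nat_lit 305) (nat_lit 188)))) (XT.nd (nat_lit 156) (nat_lit 0) (nat_lit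 0) (XT.nd (nat_lit 78) (nat_lit 152) (nat_lit 0) (XT.lf (nat_lit 0) (nat_lit 2233211587) (nat_lit 152) (nat_lit 11700200959) (nat_lit 76) (nat_lit 19397103906) (nat_lit 37) (nat_lit 5) (nat_lit 39) (nat_lit 5) (nat_lit 38) (nat_lit 5) (nat_lit 408) (nat_lit 305) (nat_lit 187)) (XT.lf (nat_lit 0) (nat_lit 2418105528) (nat_lit 152) (nat_lit 6307618256) (nat_lit 228) (nat_lit 25366329682) (nat_lit 35) (nat_lit 5) (nat_lit 37) (nat_lit 5) (nat_lit 38) (nat_lit 5) (nat_lit 409) (nat_lit 305) (nat_lit 186))) (XT.nd (nat_lit 78) (nat_lit 0) (nat_lit 0) (XT.lf (nat_lit 0) (nat_lit 15533773827) (nat_lit 228) (nat_lit 17713715331) (nat_lit 76) (nat_lit 1625326715) (nat_lit 35) (nat_lit 5) (nat_lit 38) (nat_lit 5) (nat_lit 36) (nat_lit 4) (nat_lit 410) (nat_lit 305) (nat_lit 185)) (XT.lf (nat_lit 0) (nat_lit 22595481474) (nat_lit 228) (nat_lit 3420998338) (nat_lit 76) (nat_lit 9659040955) (nat_lit 35) (nat_lit 5)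 (nat_lit 38) (nat_lit 5) (nat_lit 36) (nat_lit 4) (nat_lit 411) (nat_lit 305) (nat_lit 184))))) (XT.nd (nat_lit 234) (nat_lit 76) (nat_lit 0) (XT.nd (nat_lit 78) (nat_lit 228) (nat_lit 0) (XT.lf (nat_lit 0) (nat_lit 11501765379) (nat_lit 76) (nat_lit 18465181090) (nat_lit 152) (nat_lit 6532425189) (nat_lit 34) (nat_lit 5) (nat_lit 35) (nat_lit 5) (nat_lit 36) (nat_lit 4) (nat_lit 412) (nat_lit 305) (nat_lit 183)) (XT.nd (nat_lit 78) (nat_lit 152) (nat_lit 0) (XT.lf (nat_lit 0) (nat_lit 229741689) (nat_lit 152) (nat_lit 10430140622) (nat_lit 76) (nat_lit 26687329046) (nat_lit 33) (nat_lit 5) (nat_lit 35) (nat_lit 5) (nat_lit 34) (nat_lit 5) (nat_lit 413) (nat_lit 305) (nat_lit 182)) (XT.lf (nat_lit 0) (nat_lit 4576448506) (nat_lit 152) (nat_lit 2518755742) (nat_lit 228) (nat_lit 31122391759) (nat_lit 31) (nat_lit 5) (nat_lit 33) (nat_lit 5) (nat_lit 34) (nat_lit 5) (nat_lit 414) (nat_lit 305) (nat_lit 181))))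 (XT.nd (nat_lit 156) (nat_lit 76) (nat_lit 0) (XT.nd (nat_lit 78) (nat_lit 0) (nat_lit 0) (XT.lf (nat_lit 0) (nat_lit 14317170149) (nat_lit 228) (nat_lit 18943898502) (nat_lit 76) (nat_lit 5848509168) (nat_lit 31) (nat_lit 5) (nat_lit 34) (nat_lit 5) (nat_lit 32) (nat_lit 4) (nat_lit 415) (nat_lit 305) (nat_lit 180)) (XT.lf (nat_lit 0) (nat_lit 21768868439) (nat_lit 228) (nat_lit 3852585537) (nat_lit 76) (nat_lit 14406474665) (nat_lit 31) (nat_lit 5) (nat_lit 34) (nat_lit 5) (nat_lit 32) (nat_lit 4) (nat_lit 416) (nat_lit 305) (nat_lit 179))) (XT.nd (nat_lit 78) (nat_lit 0) (nat_lit 0) (XT.lf (nat_lit 0) (nat_lit 11902449460) (nat_lit 76) (nat_lit 17644562653) (nat_lit 152) (nat_lit 11423732745) (nat_lit 30) (nat_lit 5) (nat_lit 31) (nat_lit 5) (nat_lit 32) (nat_lit 4) (nat_lit 417) (nat_lit 305) (nat_lit 178)) (XT.lf (nat_lit 0) (nat_lit 28188041316) (nat_lit 76) (nat_lit 9397976141) (nat_lit 152) (nat_lit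 4355004239) (nat_lit 30) (nat_lit 5) (nat_lit 31) (nat_lit 5) (nat_lit 32) (nat_lit 4) (nat_lit 418) (nat_lit 305) (nat_lit 177))))))))
noncomputable def xc120 : XT := (XT.nd (nat_lit 2028) (nat_lit 76) (nat_lit 0) (XT.nd (nat_lit 1014) (nat_lit 380) (nat_lit 0) (XT.nd (nat_lit 468) (nat_lit 304) (nat_lit 0) (XT.nd (nat_lit 234) (nat_lit 76) (nat_lit 0) (XT.nd (nat_lit 78) (nat_lit 0) (nat_lit 0) (XT.lf (nat_lit 0) (nat_lit 2012257479) (nat_lit 152) (nat_lit 864613475) (nat_lit 228) (nat_lit 40062448388) (nat_lit 27) (nat_lit 5) (nat_lit 29) (nat_lit 5) (nat_lit 30) (nat_lit 5) (nat_lit 419) (nat_lit 305) (nat_lit 176)) (XT.nd (nat_lit 78) (nat_lit 0) (nat_lit 0) (XT.lf (nat_lit 0) (nat_lit 10443473909) (nat_lit 228) (nat_lit 25572413637) (nat_lit 76) (nat_lit 7944227238) (nat_lit 27) (nat_lit 5) (nat_lit 30) (nat_lit 5) (nat_lit 28) (nat_lit 4) (nat_lit 420) (nat_lit 305) (nat_lit 175)) (XT.lf (nat_lit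 0) (nat_lit 18234831660) (nat_lit 228) (nat_lit 9785800786) (nat_lit 76) (nat_lit 16990970410) (nat_lit 27) (nat_lit 5) (nat_lit 30) (nat_lit 5) (nat_lit 28) (nat_lit 4) (nat_lit 421) (nat_lit 305) (nat_lit 174)))) (XT.nd (nat_lit 78) (nat_lit 0) (nat_lit 0) (XT.lf (nat_lit 0) (nat_lit 6583346817) (nat_lit 76) (nat_lit 19729377337) (nat_lit 152) (nat_lit 19780329025) (nat_lit 26) (nat_lit 5) (nat_lit 27) (nat_lit 5) (nat_lit 28) (nat_lit 4) (nat_lit 422) (nat_lit 305) (nat_lit 173)) (XT.nd (nat_lit 78) (nat_lit 0) (nat_lit 0) (XT.lf (nat_lit 0) (nat_lit 23624831186) (nat_lit 76) (nat_lit 11096570122) (nat_lit 152) (nat_lit 12482893654) (nat_lit 26) (nat_lit 5) (nat_lit 27) (nat_lit 5) (nat_lit 28) (nat_lit 4) (nat_lit 423) (nat_lit 305) (nat_lit 172)) (XT.lf (nat_lit 0) (nat_lit 41158786314) (nat_lit 76) (nat_lit 2213484970) (nat_lit 152) (nat_lit 4976906083) (nat_lit 26) (nat_lit 5) (nat_lit 27) (nat_lit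 5) (nat_lit 28) (nat_lit 4) (nat_lit 424) (nat_lit 305) (nat_lit 171))))) (XT.nd (nat_lit 234) (nat_lit 152) (nat_lit 0) (XT.nd (nat_lit 78) (nat_lit 0) (nat_lit 0) (XT.lf (nat_lit 0) (nat_lit 2852996670) (nat_lit 152) (nat_lit 39755445744) (nat_lit 76) (nat_lit 6914596397) (nat_lit 24) (nat_lit 5) (nat_lit 26) (nat_lit 5) (nat_lit 25) (nat_lit 4) (nat_lit 425) (nat_lit 305) (nat_lit 170)) (XT.nd (nat_lit 78) (nat_lit 0) (nat_lit 0) (XT.lf (nat_lit 0) (nat_lit 10903167364) (nat_lit 152) (nat_lit 23438592601) (nat_lit 76) (nat_lit 16386317024) (nat_lit 24) (nat_lit 5) (nat_lit 26) (nat_lit 5) (nat_lit 25) (nat_lit 4) (nat_lit 426) (nat_lit 305) (nat_lit 169)) (XT.lf (nat_lit 0) (nat_lit 19185288128) (nat_lit 152) (nat_lit 6650152853) (nat_lit 76) (nat_lit 26134113178) (nat_lit 24) (nat_lit 5) (nat_lit 26) (nat_lit 5) (nat_lit 25) (nat_lit 4) (nat_lit 427) (nat_lit 305) (nat_lit 168)))) (XT.nd (nat_lit 156)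 (nat_lit 76) (nat_lit 0) (XT.nd (nat_lit 78) (nat_lit 0) (nat_lit 0) (XT.lf (nat_lit 0) (nat_lit 10835992248) (nat_lit 76) (nat_lit 16974765705) (nat_lit 152) (nat_lit 25434672290) (nat_lit 23) (nat_lit 5) (nat_lit 24) (nat_lit 5) (nat_lit 25) (nat_lit 4) (nat_lit 428) (nat_lit 305) (nat_lit 167)) (XT.lf (nat_lit 0) (nat_lit 28965816799) (nat_lit 76) (nat_lit 7787156435) (nat_lit 152) (nat_lit 17804871060) (nat_lit 23) (nat_lit 5) (nat_lit 24) (nat_lit 5) (nat_lit 25) (nat_lit 4) (nat_lit 429) (nat_lit 305) (nat_lit 166))) (XT.nd (nat_lit 78) (nat_lit 76) (nat_lit 0) (XT.lf (nat_lit 0) (nat_lit 45970586329) (nat_lit 152) (nat_lit 8303124047) (nat_lit 0) (nat_lit 1635707544) (nat_lit 23) (nat_lit 5) (nat_lit 25) (nat_lit 4) (nat_lit 23) (nat_lit 4) (nat_lit 430) (nat_lit 305) (nat_lit 165)) (XT.lf (nat_lit 0) (nat_lit 9598216627) (nat_lit 76) (nat_lit 46027157074) (nat_lit 76) (nat_lit 1671346740) (nat_lit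 22) (nat_lit 4) (nat_lit 23) (nat_lit 5) (nat_lit 23) (nat_lit 4) (nat_lit 431) (nat_lit 305) (nat_lit 164)))))) (XT.nd (nat_lit 468) (nat_lit 228) (nat_lit 0) (XT.nd (nat_lit 234) (nat_lit 0) (nat_lit 0) (XT.nd (nat_lit 78) (nat_lit 76) (nat_lit 0) (XT.lf (nat_lit 0) (nat_lit 6786576443) (nat_lit 152) (nat_lit 30599382047) (nat_lit 76) (nat_lit 21335431799) (nat_lit 21) (nat_lit 5) (nat_lit 23) (nat_lit 5) (nat_lit 22) (nat_lit 4) (nat_lit 432) (nat_lit 305) (nat_lit 163)) (XT.nd (nat_lit 78) (nat_lit 76) (nat_lit 0) (XT.lf (nat_lit 0) (nat_lit 15456191148) (nat_lit 152) (nat_lit 13019794188) (nat_lit 76) (nat_lit 31712573041) (nat_lit 21) (nat_lit 5) (nat_lit 23) (nat_lit 5) (nat_lit 22) (nat_lit 4) (nat_lit 433) (nat_lit 305) (nat_lit 162)) (XT.lf (nat_lit 0) (nat_lit 5172623081) (nat_lit 76) (nat_lit 19254786098) (nat_lit 152) (nat_lit 37271087828) (nat_lit 20) (nat_lit 5) (nat_lit 21) (nat_lit 5) (nat_lit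 22) (nat_lit 4) (nat_lit 434) (nat_lit 305) (nat_lit 161)))) (XT.nd (nat_lit 78) (nat_lit 0) (nat_lit 0) (XT.lf (nat_lit 0) (nat_lit 24162363063) (nat_lit 76) (nat_lit 9628759117) (nat_lit 152) (nat_lit 29458911777) (nat_lit 20) (nat_lit 5) (nat_lit 21) (nat_lit 5) (nat_lit 22) (nat_lit 4) (nat_lit 435) (nat_lit 305) (nat_lit 160)) (XT.nd (nat_lit 78) (nat_lit 0) (nat_lit 0) (XT.lf (nat_lit 0) (nat_lit 43430549225) (nat_lit 152) (nat_lit 21144137225) (nat_lit 0) (nat_lit 273587377) (nat_lit 20) (nat_lit 5) (nat_lit 22) (nat_lit 4) (nat_lit 20) (nat_lit 4) (nat_lit 436) (nat_lit 305) (nat_lit 159)) (XT.lf (nat_lit 0) (nat_lit 53446777774) (nat_lit 152) (nat_lit 2772258759) (nat_lit 0) (nat_lit 10272796662) (nat_lit 20) (nat_lit 5) (nat_lit 22) (nat_lit 4) (nat_lit 20) (nat_lit 4) (nat_lit 437) (nat_lit 305) (nat_lit 158))))) (XT.nd (nat_lit 234) (nat_lit 76) (nat_lit 0) (XT.nd (nat_lit 78) (nat_lit 76) (nat_lit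 0) (XT.lf (nat_lit 0) (nat_lit 16457724605) (nat_lit 76) (nat_lit 47456479462) (nat_lit 76) (nat_lit 4265974790) (nat_lit 19) (nat_lit 4) (nat_lit 20) (nat_lit 5) (nat_lit 20) (nat_lit 4) (nat_lit 438) (nat_lit 305) (nat_lit 157)) (XT.nd (nat_lit 78) (nat_lit 0) (nat_lit 0) (XT.lf (nat_lit 0) (nat_lit 4704061551) (nat_lit 152) (nat_lit 33657302012) (nat_lit 76) (nat_lit 31555810996) (nat_lit 18) (nat_lit 5) (nat_lit 20) (nat_lit 5) (nat_lit 19) (nat_lit 4) (nat_lit 439) (nat_lit 305) (nat_lit 156)) (XT.lf (nat_lit 0) (nat_lit 13850193071) (nat_lit 152) (nat_lit 15106230065) (nat_lit 76) (nat_lit 42748808563) (nat_lit 18) (nat_lit 5) (nat_lit 20) (nat_lit 5) (nat_lit 19) (nat_lit 4) (nat_lit 440) (nat_lit 305) (nat_lit 155)))) (XT.nd (nat_lit 156) (nat_lit 0) (nat_lit 0) (XT.nd (nat_lit 78) (nat_lit 0) (nat_lit 0) (XT.lf (nat_lit 0) (nat_lit 4067347014) (nat_lit 76) (nat_lit 19235406882) (nat_lit 152) (nat_lit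 50243216040) (nat_lit 17) (nat_lit 5) (nat_lit 18) (nat_lit 5) (nat_lit 19) (nat_lit 4) (nat_lit 441) (nat_lit 305) (nat_lit 154)) (XT.lf (nat_lit 0) (nat_lit 24112530024) (nat_lit 76) (nat_lit 9071930265) (nat_lit 152) (nat_lit 42253103694) (nat_lit 17) (nat_lit 5) (nat_lit 18) (nat_lit 5) (nat_lit 19) (nat_lit 4) (nat_lit 442) (nat_lit 305) (nat_lit 153))) (XT.nd (nat_lit 78) (nat_lit 0) (nat_lit 0) (XT.lf (nat_lit 0) (nat_lit 43369211295) (nat_lit 152) (nat_lit 32653283958) (nat_lit 0) (nat_lit 1363213497) (nat_lit 17) (nat_lit 5) (nat_lit 19) (nat_lit 4) (nat_lit 17) (nat_lit 4) (nat_lit 443) (nat_lit 305) (nat_lit 152)) (XT.lf (nat_lit 0) (nat_lit 53942694739) (nat_lit 152) (nat_lit 13523846330) (nat_lit 0) (nat_lit 11923261776) (nat_lit 17) (nat_lit 5) (nat_lit 19) (nat_lit 4) (nat_lit 17) (nat_lit 4) (nat_lit 444) (nat_lit 305) (nat_lit 151))))))) (XT.nd (nat_lit 36972) (nat_lit 0) (nat_lit 15352)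 (XT.nd (nat_lit 36426) (nat_lit 0) (nat_lit 23180) (XT.nd (nat_lit 36192) (nat_lit 0) (nat_lit 24320) (XT.nd (nat_lit 36036) (nat_lit 0) (nat_lit 24852) (XT.lf (nat_lit 0) (nat_lit 6289938262) (nat_lit 76) (nat_lit 58597469118) (nat_lit 76) (nat_lit 16564992305) (nat_lit 16) (nat_lit 4) (nat_lit 17) (nat_lit 5) (nat_lit 17) (nat_lit 4) (nat_lit 445) (nat_lit 305) (nat_lit 150)) (XT.nd (nat_lit 78) (nat_lit 0) (nat_lit 0) (XT.lf (nat_lit 0) (nat_lit 36468581) (nat_lit 532) (nat_lit 1631023346) (nat_lit 532) (nat_lit 1631023346) (nat_lit 343) (nat_lit 3) (nat_lit 350) (nat_lit 3) (nat_lit 350) (nat_lit 5) (nat_lit 306) (nat_lit 306) (nat_lit 288)) (XT.lf (nat_lit 0) (nat_lit 2387753238) (nat_lit 532) (nat_lit 100838987) (nat_lit 532) (nat_lit 4135688857) (nat_lit 343) (nat_lit 3) (nat_lit 350) (nat_lit 3) (nat_lit 350) (nat_lit 5) (nat_lit 307) (nat_lit 306) (nat_lit 287)))) (XT.nd (nat_lit 78) (nat_lit 532)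 (nat_lit 0) (XT.lf (nat_lit 76) (nat_lit 3170525039) (nat_lit 0) (nat_lit 1541667680) (nat_lit 532) (nat_lit 1942040546) (nat_lit 344) (nat_lit 5) (nat_lit 343) (nat_lit 3) (nat_lit 350) (nat_lit 5) (nat_lit 308) (nat_lit 306) (nat_lit 286)) (XT.nd (nat_lit 78) (nat_lit 0) (nat_lit 76) (XT.lf (nat_lit 0) (nat_lit 325020305) (nat_lit 532) (nat_lit 194964995) (nat_lit 608) (nat_lit 6167702799) (nat_lit 336) (nat_lit 5) (nat_lit 343) (nat_lit 3) (nat_lit 344) (nat_lit 5) (nat_lit 309) (nat_lit 306) (nat_lit 285)) (XT.lf (nat_lit 0) (nat_lit 2571233832) (nat_lit 532) (nat_lit 3540434425) (nat_lit 608) (nat_lit 611478163) (nat_lit 337) (nat_lit 5) (nat_lit 344) (nat_lit 5) (nat_lit 345) (nat_lit 5) (nat_lit 310) (nat_lit 306) (nat_lit 284))))) (XT.nd (nat_lit 234) (nat_lit 608) (nat_lit 0) (XT.nd (nat_lit 78) (nat_lit 608) (nat_lit 0) (XT.lf (nat_lit 0) (nat_lit 4807939681) (nat_lit 532) (nat_lit 148137034)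 (nat_lit 608) (nat_lit 1805978117) (nat_lit 337) (nat_lit 5) (nat_lit 344) (nat_lit 5) (nat_lit 345) (nat_lit 5) (nat_lit 311) (nat_lit 306) (nat_lit 283)) (XT.nd (nat_lit 78) (nat_lit 0) (nat_lit 0) (XT.lf (nat_lit 0) (nat_lit 253764083) (nat_lit 608) (nat_lit 3442247663) (nat_lit 684) (nat_lit 3107598730) (nat_lit 329) (nat_lit 5) (nat_lit 337) (nat_lit 5) (nat_lit 338) (nat_lit 5) (nat_lit 312) (nat_lit 306) (nat_lit 282)) (XT.lf (nat_lit 76) (nat_lit 65885122) (nat_lit 0) (nat_lit 2344340097) (nat_lit 684) (nat_lit 4438031272) (nat_lit 330) (nat_lit 5) (nat_lit 329) (nat_lit 5) (nat_lit 338) (nat_lit 5) (nat_lit 313) (nat_lit 306) (nat_lit 281)))) (XT.nd (nat_lit 156) (nat_lit 608) (nat_lit 0) (XT.nd (nat_lit 78) (nat_lit 0) (nat_lit 76) (XT.lf (nat_lit 76) (nat_lit 3701449104) (nat_lit 0) (nat_lit 886048618) (nat_lit 684) (nat_lit 2308131292) (nat_lit 330) (nat_lit 5) (nat_lit 329) (nat_lit 5) (nat_lit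 338) (nat_lit 5) (nat_lit 314) (nat_lit 306) (nat_lit 280)) (XT.lf (nat_lit 76) (nat_lit 455006708) (nat_lit 0) (nat_lit 6309307388) (nat_lit 684) (nat_lit 182150439) (nat_lit 331) (nat_lit 5) (nat_lit 330) (nat_lit 5) (nat_lit 339) (nat_lit 5) (nat_lit 315) (nat_lit 306) (nat_lit 279))) (XT.nd (nat_lit 78) (nat_lit 0) (nat_lit 0) (XT.lf (nat_lit 0) (nat_lit 1934654042) (nat_lit 684) (nat_lit 2797783075) (nat_lit 760) (nat_lit 2266887112) (nat_lit 321) (nat_lit 5) (nat_lit 330) (nat_lit 5) (nat_lit 331) (nat_lit 5) (nat_lit 316) (nat_lit 306) (nat_lit 278)) (XT.lf (nat_lit 76) (nat_lit 974713181) (nat_lit 0) (nat_lit 3073018976) (nat_lit 760) (nat_lit 3007953311) (nat_lit 322) (nat_lit 5) (nat_lit 321) (nat_lit 5) (nat_lit 331) (nat_lit 5) (nat_lit 317) (nat_lit 306) (nat_lit 277)))))) (XT.nd (nat_lit 546) (nat_lit 4560) (nat_lit 0) (XT.nd (nat_lit 234) (nat_lit 2584) (nat_lit 0) (XT.nd (nat_lit 78) (nat_lit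 684) (nat_lit 0) (XT.lf (nat_lit 76) (nat_lit 4869013109) (nat_lit 0) (nat_lit 1312158713) (nat_lit 760) (nat_lit 933917589) (nat_lit 322) (nat_lit 5) (nat_lit 321) (nat_lit 5) (nat_lit 331) (nat_lit 5) (nat_lit 318) (nat_lit 306) (nat_lit 276)) (XT.nd (nat_lit 78) (nat_lit 0) (nat_lit 0) (XT.lf (nat_lit 0) (nat_lit 1130339290) (nat_lit 760) (nat_lit 5506634583) (nat_lit 76) (nat_lit 540468457) (nat_lit 312) (nat_lit 5) (nat_lit 322) (nat_lit 5) (nat_lit 313) (nat_lit 5) (nat_lit 319) (nat_lit 306) (nat_lit 275)) (XT.lf (nat_lit 0) (nat_lit 3205466861) (nat_lit 760) (nat_lit 1562783485) (nat_lit 76) (nat_lit 2474162447) (nat_lit 312) (nat_lit 5) (nat_lit 322) (nat_lit 5) (nat_lit 313) (nat_lit 5) (nat_lit 320) (nat_lit 306) (nat_lit 274)))) (XT.nd (nat_lit 156) (nat_lit 1748) (nat_lit 0) (XT.nd (nat_lit 78) (nat_lit 76) (nat_lit 0) (XT.lf (nat_lit 0) (nat_lit 2499045794) (nat_lit 760) (nat_lit 2801627350)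 (nat_lit 836) (nat_lit 2009978631) (nat_lit 302) (nat_lit 5) (nat_lit 312) (nat_lit 5) (nat_lit 313) (nat_lit 5) (nat_lit 321) (nat_lit 306) (nat_lit 273)) (XT.lf (nat_lit 0) (nat_lit 26787601) (nat_lit 836) (nat_lit 716577645) (nat_lit 76) (nat_lit 6639086042) (nat_lit 301) (nat_lit 5) (nat_lit 312) (nat_lit 5) (nat_lit 302) (nat_lit 5) (nat_lit 322) (nat_lit 306) (nat_lit 272))) (XT.nd (nat_lit 78) (nat_lit 912) (nat_lit 0) (XT.lf (nat_lit 0) (nat_lit 2068298024) (nat_lit 912) (nat_lit 3969458139) (nat_lit 76) (nat_lit 1418579961) (nat_lit 290) (nat_lit 5) (nat_lit 302) (nat_lit 5) (nat_lit 291) (nat_lit 5) (nat_lit 323) (nat_lit 306) (nat_lit 271)) (XT.lf (nat_lit 0) (nat_lit 246187379) (nat_lit 912) (nat_lit 3879900883) (nat_lit 988) (nat_lit 3407746319) (nat_lit 278) (nat_lit 5) (nat_lit 290) (nat_lit 5) (nat_lit 291) (nat_lit 5) (nat_lit 324) (nat_lit 306) (nat_lit 270))))) (XT.nd (nat_lit 234) (nat_lit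 3496) (nat_lit 0) (XT.nd (nat_lit 78) (nat_lit 1064) (nat_lit 0) (XT.lf (nat_lit 0) (nat_lit 4620072424) (nat_lit 912) (nat_lit 1604952833) (nat_lit 988) (nat_lit 1389297052) (nat_lit 278) (nat_lit 5) (nat_lit 290) (nat_lit 5) (nat_lit 291) (nat_lit 5) (nat_lit 325) (nat_lit 306) (nat_lit 269)) (XT.nd (nat_lit 78) (nat_lit 0) (nat_lit 0) (XT.lf (nat_lit 0) (nat_lit 637558950) (nat_lit 1064) (nat_lit 6306605352) (nat_lit 76) (nat_lit 754066143) (nat_lit 264) (nat_lit 5) (nat_lit 278) (nat_lit 5) (nat_lit 265) (nat_lit 5) (nat_lit 326) (nat_lit 306) (nat_lit 268)) (XT.lf (nat_lit 0) (nat_lit 2685545837) (nat_lit 1064) (nat_lit 1894019296) (nat_lit 76) (nat_lit 3205073312) (nat_lit 264) (nat_lit 5) (nat_lit 278) (nat_lit 5) (nat_lit 265) (nat_lit 5) (nat_lit 327) (nat_lit 306) (nat_lit 267)))) (XT.nd (nat_lit 156) (nat_lit 2432) (nat_lit 0) (XT.nd (nat_lit 78) (nat_lit 0) (nat_lit 0) (XT.lf (nat_lit 0) (nat_lit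 2653420522) (nat_lit 1064) (nat_lit 2110575252) (nat_lit 1140) (nat_lit 3110613708) (nat_lit 250) (nat_lit 5) (nat_lit 264) (nat_lit 5) (nat_lit 265) (nat_lit 5) (nat_lit 328) (nat_lit 306) (nat_lit 266)) (XT.lf (nat_lit 0) (nat_lit 6873027139) (nat_lit 1140) (nat_lit 645523605) (nat_lit 76) (nat_lit 449722361) (nat_lit 250) (nat_lit 5) (nat_lit 265) (nat_lit 5) (nat_lit 251) (nat_lit 5) (nat_lit 329) (nat_lit 306) (nat_lit 265))) (XT.nd (nat_lit 78) (nat_lit 1216) (nat_lit 0) (XT.lf (nat_lit 0) (nat_lit 967925129) (nat_lit 1216) (nat_lit 3997117418) (nat_lit 76) (nat_lit 3099264980) (nat_lit 234) (nat_lit 5) (nat_lit 250) (nat_lit 5) (nat_lit 235) (nat_lit 5) (nat_lit 330) (nat_lit 306) (nat_lit 264)) (XT.lf (nat_lit 0) (nat_lit 725010295) (nat_lit 1216) (nat_lit 2306421792) (nat_lit 1292) (nat_lit 5132688822) (nat_lit 218) (nat_lit 5) (nat_lit 234) (nat_lit 5) (nat_lit 235) (nat_lit 5) (nat_lit 331) (nat_lit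 306) (nat_lit 263))))))))
noncomputable def xc121 : XT := (XT.nd (nat_lit 2028) (nat_lit 4180) (nat_lit 0) (XT.nd (nat_lit 1014) (nat_lit 3420) (nat_lit 0) (XT.nd (nat_lit 468) (nat_lit 2128) (nat_lit 0) (XT.nd (nat_lit 234) (nat_lit 1140) (nat_lit 0) (XT.nd (nat_lit 78) (nat_lit 684) (nat_lit 0) (XT.lf (nat_lit 0) (nat_lit 5149761118) (nat_lit 1292) (nat_lit 2650385920) (nat_lit 76) (nat_lit 467029948) (nat_lit 218) (nat_lit 5) (nat_lit 235) (nat_lit 5) (nat_lit 219) (nat_lit 5) (nat_lit 332) (nat_lit 306) (nat_lit 262)) (XT.nd (nat_lit 78) (nat_lit 76) (nat_lit 0) (XT.lf (nat_lit 0) (nat_lit 2253769967) (nat_lit 608) (nat_lit 5071886972) (nat_lit 684) (nat_lit 1047882055) (nat_lit 210) (nat_lit 5) (nat_lit 218) (nat_lit 5) (nat_lit 219) (nat_lit 5) (nat_lit 333) (nat_lit 306) (nat_lit 261)) (XT.lf (nat_lit 0) (nat_lit 1039612697) (nat_lit 684) (nat_lit 1183508425) (nat_lit 76) (nat_lit 6260380298) (nat_lit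 209) (nat_lit 5) (nat_lit 218) (nat_lit 5) (nat_lit 210) (nat_lit 5) (nat_lit 334) (nat_lit 306) (nat_lit 260)))) (XT.nd (nat_lit 78) (nat_lit 608) (nat_lit 0) (XT.lf (nat_lit 0) (nat_lit 3165100021) (nat_lit 608) (nat_lit 4685657436) (nat_lit 76) (nat_lit 745832943) (nat_lit 202) (nat_lit 5) (nat_lit 210) (nat_lit 5) (nat_lit 203) (nat_lit 5) (nat_lit 335) (nat_lit 306) (nat_lit 259)) (XT.nd (nat_lit 78) (nat_lit 0) (nat_lit 0) (XT.lf (nat_lit 0) (nat_lit 406106262) (nat_lit 608) (nat_lit 4938629344) (nat_lit 684) (nat_lit 3368655815) (nat_lit 194) (nat_lit 5) (nat_lit 202) (nat_lit 5) (nat_lit 203) (nat_lit 5) (nat_lit 336) (nat_lit 306) (nat_lit 258)) (XT.lf (nat_lit 0) (nat_lit 5697715249) (nat_lit 608) (nat_lit 1892676122) (nat_lit 684) (nat_lit 1243316147) (nat_lit 194) (nat_lit 5) (nat_lit 202) (nat_lit 5) (nat_lit 203) (nat_lit 5) (nat_lit 337) (nat_lit 306) (nat_lit 257))))) (XT.nd (nat_lit 234)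 (nat_lit 988) (nat_lit 0) (XT.nd (nat_lit 78) (nat_lit 532) (nat_lit 0) (XT.lf (nat_lit 0) (nat_lit 914671985) (nat_lit 608) (nat_lit 6795047625) (nat_lit 76) (nat_lit 1248048688) (nat_lit 186) (nat_lit 5) (nat_lit 194) (nat_lit 5) (nat_lit 187) (nat_lit 5) (nat_lit 338) (nat_lit 306) (nat_lit 256)) (XT.nd (nat_lit 78) (nat_lit 532) (nat_lit 0) (XT.lf (nat_lit 0) (nat_lit 3118171404) (nat_lit 608) (nat_lit 1480627520) (nat_lit 76) (nat_lit 4486237279) (nat_lit 186) (nat_lit 5) (nat_lit 194) (nat_lit 5) (nat_lit 187) (nat_lit 5) (nat_lit 339) (nat_lit 306) (nat_lit 255)) (XT.lf (nat_lit 0) (nat_lit 4023838510) (nat_lit 532) (nat_lit 1358967172) (nat_lit 608) (nat_lit 3833492206) (nat_lit 179) (nat_lit 5) (nat_lit 186) (nat_lit 5) (nat_lit 187) (nat_lit 5) (nat_lit 340) (nat_lit 306) (nat_lit 254)))) (XT.nd (nat_lit 156) (nat_lit 456) (nat_lit 0) (XT.nd (nat_lit 78) (nat_lit 76) (nat_lit 0) (XT.lf (nat_lit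 0) (nat_lit 310943078) (nat_lit 456) (nat_lit 7398660075) (nat_lit 532) (nat_lit 1642093407) (nat_lit 173) (nat_lit 5) (nat_lit 179) (nat_lit 5) (nat_lit 180) (nat_lit 5) (nat_lit 341) (nat_lit 306) (nat_lit 253)) (XT.lf (nat_lit 0) (nat_lit 626918823) (nat_lit 532) (nat_lit 3472679385) (nat_lit 76) (nat_lit 5390689798) (nat_lit 172) (nat_lit 5) (nat_lit 179) (nat_lit 5) (nat_lit 173) (nat_lit 5) (nat_lit 342) (nat_lit 306) (nat_lit 252))) (XT.nd (nat_lit 78) (nat_lit 0) (nat_lit 0) (XT.lf (nat_lit 0) (nat_lit 2242266622) (nat_lit 456) (nat_lit 668988592) (nat_lit 532) (nat_lit 6721910149) (nat_lit 166) (nat_lit 5) (nat_lit 172) (nat_lit 5) (nat_lit 173) (nat_lit 5) (nat_lit 343) (nat_lit 306) (nat_lit 251)) (XT.lf (nat_lit 0) (nat_lit 5286461194) (nat_lit 532) (nat_lit 1655687166) (nat_lit 76) (nat_lit 2837533474) (nat_lit 166) (nat_lit 5) (nat_lit 173) (nat_lit 5) (nat_lit 167) (nat_lit 5) (nat_lit 344)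 (nat_lit 306) (nat_lit 250)))))) (XT.nd (nat_lit 468) (nat_lit 1596) (nat_lit 0) (XT.nd (nat_lit 234) (nat_lit 836) (nat_lit 0) (XT.nd (nat_lit 78) (nat_lit 532) (nat_lit 0) (XT.lf (nat_lit 0) (nat_lit 4281539567) (nat_lit 456) (nat_lit 3459736386) (nat_lit 532) (nat_lit 2189089577) (nat_lit 160) (nat_lit 5) (nat_lit 166) (nat_lit 5) (nat_lit 167) (nat_lit 5) (nat_lit 345) (nat_lit 306) (nat_lit 249)) (XT.nd (nat_lit 78) (nat_lit 0) (nat_lit 0) (XT.lf (nat_lit 0) (nat_lit 162589405) (nat_lit 532) (nat_lit 9785059871) (nat_lit 76) (nat_lit 138427848) (nat_lit 153) (nat_lit 5) (nat_lit 160) (nat_lit 5) (nat_lit 154) (nat_lit 5) (nat_lit 346) (nat_lit 306) (nat_lit 248)) (XT.lf (nat_lit 0) (nat_lit 2594159463) (nat_lit 532) (nat_lit 3804025693) (nat_lit 76) (nat_lit 3846044924) (nat_lit 153) (nat_lit 5) (nat_lit 160) (nat_lit 5) (nat_lit 154) (nat_lit 5) (nat_lit 347) (nat_lit 306) (nat_lit 247)))) (XT.nd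 (nat_lit 78) (nat_lit 456) (nat_lit 0) (XT.lf (nat_lit 0) (nat_lit 2355872911) (nat_lit 380) (nat_lit 2728049398) (nat_lit 456) (nat_lit 5323667765) (nat_lit 148) (nat_lit 5) (nat_lit 153) (nat_lit 5) (nat_lit 154) (nat_lit 5) (nat_lit 348) (nat_lit 306) (nat_lit 246)) (XT.nd (nat_lit 78) (nat_lit 456) (nat_lit 0) (XT.lf (nat_lit 0) (nat_lit 7660442165) (nat_lit 456) (nat_lit 1853759935) (nat_lit 76) (nat_lit 1061306089) (nat_lit 148) (nat_lit 5) (nat_lit 154) (nat_lit 5) (nat_lit 149) (nat_lit 5) (nat_lit 349) (nat_lit 306) (nat_lit 245)) (XT.lf (nat_lit 0) (nat_lit 4546094447) (nat_lit 456) (nat_lit 5803102812) (nat_lit 532) (nat_lit 398237081) (nat_lit 142) (nat_lit 5) (nat_lit 148) (nat_lit 5) (nat_lit 149) (nat_lit 5) (nat_lit 350) (nat_lit 306) (nat_lit 244))))) (XT.nd (nat_lit 234) (nat_lit 760) (nat_lit 0) (XT.nd (nat_lit 78) (nat_lit 380) (nat_lit 0) (XT.lf (nat_lit 0) (nat_lit 188369318) (nat_lit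 380) (nat_lit 1948098024) (nat_lit 456) (nat_lit 8787880254) (nat_lit 136) (nat_lit 5) (nat_lit 141) (nat_lit 5) (nat_lit 142) (nat_lit 5) (nat_lit 351) (nat_lit 306) (nat_lit 243)) (XT.nd (nat_lit 78) (nat_lit 380) (nat_lit 0) (XT.lf (nat_lit 0) (nat_lit 4786856734) (nat_lit 456) (nat_lit 4278333271) (nat_lit 76) (nat_lit 2039847615) (nat_lit 136) (nat_lit 5) (nat_lit 142) (nat_lit 5) (nat_lit 137) (nat_lit 5) (nat_lit 352) (nat_lit 306) (nat_lit 242)) (XT.lf (nat_lit 0) (nat_lit 2354523613) (nat_lit 380) (nat_lit 5170140425) (nat_lit 456) (nat_lit 3766263718) (nat_lit 131) (nat_lit 5) (nat_lit 136) (nat_lit 5) (nat_lit 137) (nat_lit 5) (nat_lit 353) (nat_lit 306) (nat_lit 241)))) (XT.nd (nat_lit 156) (nat_lit 380) (nat_lit 0) (XT.nd (nat_lit 78) (nat_lit 380) (nat_lit 0) (XT.lf (nat_lit 0) (nat_lit 9229336121) (nat_lit 380) (nat_lit 1125017970) (nat_lit 456) (nat_lit 1127764166) (nat_lit 131) (nat_lit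 5) (nat_lit 136) (nat_lit 5) (nat_lit 137) (nat_lit 5) (nat_lit 354) (nat_lit 306) (nat_lit 240)) (XT.lf (nat_lit 0) (nat_lit 1600595359) (nat_lit 380) (nat_lit 7045004513) (nat_lit 76) (nat_lit 3031749417) (nat_lit 126) (nat_lit 5) (nat_lit 131) (nat_lit 5) (nat_lit 127) (nat_lit 5) (nat_lit 355) (nat_lit 306) (nat_lit 239))) (XT.nd (nat_lit 78) (nat_lit 380) (nat_lit 0) (XT.lf (nat_lit 0) (nat_lit 4389861324) (nat_lit 380) (nat_lit 174618055) (nat_lit 76) (nat_lit 7313585966) (nat_lit 126) (nat_lit 5) (nat_lit 131) (nat_lit 5) (nat_lit 127) (nat_lit 5) (nat_lit 356) (nat_lit 306) (nat_lit 238)) (XT.lf (nat_lit 0) (nat_lit 6995139016) (nat_lit 380) (nat_lit 303461093) (nat_lit 456) (nat_lit 4785143246) (nat_lit 121) (nat_lit 5) (nat_lit 126) (nat_lit 5) (nat_lit 127) (nat_lit 5) (nat_lit 357) (nat_lit 306) (nat_lit 237))))))) (XT.nd (nat_lit 1014) (nat_lit 1672) (nat_lit 0) (XT.nd (nat_lit 468) (nat_lit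 1140) (nat_lit 0) (XT.nd (nat_lit 234) (nat_lit 684) (nat_lit 0) (XT.nd (nat_lit 78) (nat_lit 380) (nat_lit 0) (XT.lf (nat_lit 0) (nat_lit 2045000690) (nat_lit 304) (nat_lit 8279253646) (nat_lit 380) (nat_lit 1970461674) (nat_lit 117) (nat_lit 5) (nat_lit 121) (nat_lit 5) (nat_lit 122) (nat_lit 5) (nat_lit 358) (nat_lit 306) (nat_lit 236)) (XT.nd (nat_lit 78) (nat_lit 304) (nat_lit 0) (XT.lf (nat_lit 0) (nat_lit 934553809) (nat_lit 380) (nat_lit 3069836474) (nat_lit 76) (nat_lit 8506652410) (nat_lit 116) (nat_lit 5) (nat_lit 121) (nat_lit 5) (nat_lit 117) (nat_lit 5) (nat_lit 359) (nat_lit 306) (nat_lit 235)) (XT.lf (nat_lit 0) (nat_lit 3903248080) (nat_lit 380) (nat_lit 8389040727) (nat_lit 76) (nat_lit 440513827) (nat_lit 112) (nat_lit 5) (nat_lit 117) (nat_lit 5) (nat_lit 113) (nat_lit 5) (nat_lit 360) (nat_lit 306) (nat_lit 234)))) (XT.nd (nat_lit 78) (nat_lit 684) (nat_lit 0) (XT.lf (nat_lit 0) (nat_lit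 7002319768) (nat_lit 380) (nat_lit 1000470118) (nat_lit 76) (nat_lit 4957198341) (nat_lit 112) (nat_lit 5) (nat_lit 117) (nat_lit 5) (nat_lit 113) (nat_lit 5) (nat_lit 361) (nat_lit 306) (nat_lit 233)) (XT.nd (nat_lit 78) (nat_lit 380) (nat_lit 0) (XT.lf (nat_lit 0) (nat_lit 6698798348) (nat_lit 304) (nat_lit 3531184330) (nat_lit 380) (nat_lit 2962950129) (nat_lit 108) (nat_lit 5) (nat_lit 112) (nat_lit 5) (nat_lit 113) (nat_lit 5) (nat_lit 362) (nat_lit 306) (nat_lit 232)) (XT.lf (nat_lit 0) (nat_lit 122752471) (nat_lit 380) (nat_lit 12246243282) (nat_lit 76) (nat_lit 1063740734) (nat_lit 103) (nat_lit 5) (nat_lit 108) (nat_lit 5) (nat_lit 104) (nat_lit 5) (nat_lit 363) (nat_lit 306) (nat_lit 231))))) (XT.nd (nat_lit 234) (nat_lit 912) (nat_lit 0) (XT.nd (nat_lit 78) (nat_lit 228) (nat_lit 0) (XT.lf (nat_lit 0) (nat_lit 3314346902) (nat_lit 380) (nat_lit 4554219817) (nat_lit 76) (nat_lit 5808112254) (nat_lit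 103) (nat_lit 5) (nat_lit 108) (nat_lit 5) (nat_lit 104) (nat_lit 5) (nat_lit 364) (nat_lit 306) (nat_lit 230)) (XT.nd (nat_lit 78) (nat_lit 0) (nat_lit 0) (XT.lf (nat_lit 0) (nat_lit 3393850479) (nat_lit 228) (nat_lit 3212970786) (nat_lit 304) (nat_lit 7320975160) (nat_lit 100) (nat_lit 5) (nat_lit 103) (nat_lit 5) (nat_lit 104) (nat_lit 5) (nat_lit 365) (nat_lit 306) (nat_lit 229)) (XT.lf (nat_lit 0) (nat_lit 10032513863) (nat_lit 304) (nat_lit 2568245259) (nat_lit 76) (nat_lit 1584665304) (nat_lit 100) (nat_lit 5) (nat_lit 104) (nat_lit 5) (nat_lit 101) (nat_lit 5) (nat_lit 366) (nat_lit 306) (nat_lit 228)))) (XT.nd (nat_lit 156) (nat_lit 532) (nat_lit 0) (XT.nd (nat_lit 78) (nat_lit 76) (nat_lit 0) (XT.lf (nat_lit 0) (nat_lit 5675329778) (nat_lit 304) (nat_lit 7945596328) (nat_lit 380) (nat_lit 828066737) (nat_lit 96) (nat_lit 5) (nat_lit 100) (nat_lit 5) (nat_lit 101) (nat_lit 5) (nat_lit 367) (nat_lit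 306) (nat_lit 227)) (XT.lf (nat_lit 0) (nat_lit 2545749584) (nat_lit 380) (nat_lit 566219403) (nat_lit 76) (nat_lit 11607763171) (nat_lit 95) (nat_lit 5) (nat_lit 100) (nat_lit 5) (nat_lit 96) (nat_lit 5) (nat_lit 368) (nat_lit 306) (nat_lit 226))) (XT.nd (nat_lit 78) (nat_lit 304) (nat_lit 0) (XT.lf (nat_lit 0) (nat_lit 6074128097) (nat_lit 304) (nat_lit 7019189439) (nat_lit 76) (nat_lit 1902939615) (nat_lit 92) (nat_lit 5) (nat_lit 96) (nat_lit 5) (nat_lit 93) (nat_lit 5) (nat_lit 369) (nat_lit 306) (nat_lit 225)) (XT.lf (nat_lit 0) (nat_lit 1465836166) (nat_lit 304) (nat_lit 8267910764) (nat_lit 380) (nat_lit 5546578221) (nat_lit 88) (nat_lit 5) (nat_lit 92) (nat_lit 5) (nat_lit 93) (nat_lit 5) (nat_lit 370) (nat_lit 306) (nat_lit 224)))))) (XT.nd (nat_lit 546) (nat_lit 836) (nat_lit 0) (XT.nd (nat_lit 234) (nat_lit 532) (nat_lit 0) (XT.nd (nat_lit 78) (nat_lit 304) (nat_lit 0) (XT.lf (nat_lit 0) (nat_lit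 10310430467) (nat_lit 304) (nat_lit 3238679368) (nat_lit 380) (nat_lit 2022435351) (nat_lit 88) (nat_lit 5) (nat_lit 92) (nat_lit 5) (nat_lit 93) (nat_lit 5) (nat_lit 371) (nat_lit 306) (nat_lit 223)) (XT.nd (nat_lit 78) (nat_lit 0) (nat_lit 0) (XT.lf (nat_lit 0) (nat_lit 1604907003) (nat_lit 304) (nat_lit 12325034922) (nat_lit 76) (nat_lit 1940239256) (nat_lit 84) (nat_lit 5) (nat_lit 88) (nat_lit 5) (nat_lit 85) (nat_lit 5) (nat_lit 372) (nat_lit 306) (nat_lit 222)) (XT.lf (nat_lit 0) (nat_lit 5361909226) (nat_lit 304) (nat_lit 3543810928) (nat_lit 76) (nat_lit 7269618650) (nat_lit 84) (nat_lit 5) (nat_lit 88) (nat_lit 5) (nat_lit 85) (nat_lit 5) (nat_lit 373) (nat_lit 306) (nat_lit 221)))) (XT.nd (nat_lit 156) (nat_lit 304) (nat_lit 0) (XT.nd (nat_lit 78) (nat_lit 0) (nat_lit 0) (XT.lf (nat_lit 0) (nat_lit 5572249502) (nat_lit 228) (nat_lit 3689411088) (nat_lit 304) (nat_lit 7227097091) (nat_lit 81)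 (nat_lit 5) (nat_lit 84) (nat_lit 5) (nat_lit 85) (nat_lit 5) (nat_lit 374) (nat_lit 306) (nat_lit 220)) (XT.lf (nat_lit 0) (nat_lit 13307398722) (nat_lit 304) (nat_lit 1830145053) (nat_lit 76) (nat_lit 1673172997) (nat_lit 81) (nat_lit 5) (nat_lit 85) (nat_lit 5) (nat_lit 82) (nat_lit 5) (nat_lit 375) (nat_lit 306) (nat_lit 219))) (XT.nd (nat_lit 78) (nat_lit 0) (nat_lit 0) (XT.lf (nat_lit 0) (nat_lit 413523782) (nat_lit 304) (nat_lit 9539567307) (nat_lit 76) (nat_lit 7186519856) (nat_lit 77) (nat_lit 5) (nat_lit 81) (nat_lit 5) (nat_lit 78) (nat_lit 5) (nat_lit 376) (nat_lit 306) (nat_lit 218)) (XT.lf (nat_lit 0) (nat_lit 4373558252) (nat_lit 304) (nat_lit 198577655) (nat_lit 76) (nat_lit 12905319268) (nat_lit 77) (nat_lit 5) (nat_lit 81) (nat_lit 5) (nat_lit 78) (nat_lit 5) (nat_lit 377) (nat_lit 306) (nat_lit 217))))) (XT.nd (nat_lit 234) (nat_lit 456) (nat_lit 0) (XT.nd (nat_lit 78) (nat_lit 152) (nat_lit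 0) (XT.lf (nat_lit 0) (nat_lit 8532626008) (nat_lit 304) (nat_lit 8259460949) (nat_lit 76) (nat_lit 1030947448) (nat_lit 74) (nat_lit 5) (nat_lit 78) (nat_lit 5) (nat_lit 75) (nat_lit 5) (nat_lit 378) (nat_lit 306) (nat_lit 216)) (XT.nd (nat_lit 78) (nat_lit 0) (nat_lit 0) (XT.lf (nat_lit 0) (nat_lit 1389915289) (nat_lit 152) (nat_lit 11465469222) (nat_lit 228) (nat_lit 5322435386) (nat_lit 72) (nat_lit 5) (nat_lit 74) (nat_lit 5) (nat_lit 75) (nat_lit 5) (nat_lit 379) (nat_lit 306) (nat_lit 215)) (XT.lf (nat_lit 0) (nat_lit 11462775916) (nat_lit 152) (nat_lit 5907012121) (nat_lit 228) (nat_lit 1171608306) (nat_lit 72) (nat_lit 5) (nat_lit 74) (nat_lit 5) (nat_lit 75) (nat_lit 5) (nat_lit 380) (nat_lit 306) (nat_lit 214)))) (XT.nd (nat_lit 156) (nat_lit 152) (nat_lit 0) (XT.nd (nat_lit 78) (nat_lit 0) (nat_lit 0) (XT.lf (nat_lit 0) (nat_lit 2914271326) (nat_lit 228) (nat_lit 135891163) (nat_lit 304) (nat_lit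 15864618917) (nat_lit 68) (nat_lit 5) (nat_lit 71) (nat_lit 5) (nat_lit 72) (nat_lit 5) (nat_lit 381) (nat_lit 306) (nat_lit 213)) (XT.lf (nat_lit 0) (nat_lit 7482181362) (nat_lit 304) (nat_lit 6048171185) (nat_lit 76) (nat_lit 5765458905) (nat_lit 68) (nat_lit 5) (nat_lit 72) (nat_lit 5) (nat_lit 69) (nat_lit 5) (nat_lit 382) (nat_lit 306) (nat_lit 212))) (XT.nd (nat_lit 78) (nat_lit 0) (nat_lit 0) (XT.lf (nat_lit 0) (nat_lit 4250489309) (nat_lit 152) (nat_lit 7818605025) (nat_lit 228) (nat_lit 7618525620) (nat_lit 66) (nat_lit 5) (nat_lit 68) (nat_lit 5) (nat_lit 69) (nat_lit 5) (nat_lit 383) (nat_lit 306) (nat_lit 211)) (XT.lf (nat_lit 0) (nat_lit 14948577548) (nat_lit 152) (nat_lit 1886109831) (nat_lit 228) (nat_lit 3255268550) (nat_lit 66) (nat_lit 5) (nat_lit 68) (nat_lit 5) (nat_lit 69) (nat_lit 5) (nat_lit 384) (nat_lit 306) (nat_lit 210))))))))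
noncomputable def xc122 : XT := (XT.nd (nat_lit 2028) (nat_lit 1140) (nat_lit 0) (XT.nd (nat_lit 1014) (nat_lit 988) (nat_lit 0) (XT.nd (nat_lit 468) (nat_lit 684) (nat_lit 0) (XT.nd (nat_lit 234) (nat_lit 228) (nat_lit 0) (XT.nd (nat_lit 78) (nat_lit 152) (nat_lit 0) (XT.lf (nat_lit 0) (nat_lit 1289338895) (nat_lit 304) (nat_lit 15017886293) (nat_lit 76) (nat_lit 4194545783) (nat_lit 62) (nat_lit 5) (nat_lit 66) (nat_lit 5) (nat_lit 63) (nat_lit 5) (nat_lit 385) (nat_lit 306) (nat_lit 209)) (XT.nd (nat_lit 78) (nat_lit 152) (nat_lit 0) (XT.lf (nat_lit 0) (nat_lit 5956476824) (nat_lit 304) (nat_lit 4475571337) (nat_lit 76) (nat_lit 10491381733) (nat_lit 62) (nat_lit 5) (nat_lit 66) (nat_lit 5) (nat_lit 63) (nat_lit 5) (nat_lit 386) (nat_lit 306) (nat_lit 208)) (XT.lf (nat_lit 0) (nat_lit 6477303261) (nat_lit 152) (nat_lit 4329670695) (nat_lit 228) (nat_lit 10549469075) (nat_lit 60) (nat_lit 5) (nat_lit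 62) (nat_lit 5) (nat_lit 63) (nat_lit 5) (nat_lit 387) (nat_lit 306) (nat_lit 207)))) (XT.nd (nat_lit 78) (nat_lit 228) (nat_lit 0) (XT.lf (nat_lit 0) (nat_lit 15848628717) (nat_lit 228) (nat_lit 4002058738) (nat_lit 76) (nat_lit 1950394482) (nat_lit 60) (nat_lit 5) (nat_lit 63) (nat_lit 5) (nat_lit 61) (nat_lit 5) (nat_lit 388) (nat_lit 306) (nat_lit 206)) (XT.nd (nat_lit 78) (nat_lit 76) (nat_lit 0) (XT.lf (nat_lit 0) (nat_lit 7269020867) (nat_lit 152) (nat_lit 13867002723) (nat_lit 228) (nat_lit 1120206227) (nat_lit 58) (nat_lit 5) (nat_lit 60) (nat_lit 5) (nat_lit 61) (nat_lit 5) (nat_lit 389) (nat_lit 306) (nat_lit 205)) (XT.lf (nat_lit 0) (nat_lit 3804356366) (nat_lit 228) (nat_lit 3832374987) (nat_lit 76) (nat_lit 15086514396) (nat_lit 57) (nat_lit 5) (nat_lit 60) (nat_lit 5) (nat_lit 58) (nat_lit 5) (nat_lit 390) (nat_lit 306) (nat_lit 204))))) (XT.nd (nat_lit 234) (nat_lit 380) (nat_lit 0) (XT.nd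 (nat_lit 78) (nat_lit 152) (nat_lit 0) (XT.lf (nat_lit 0) (nat_lit 7767140517) (nat_lit 152) (nat_lit 1143992148) (nat_lit 228) (nat_lit 14291101139) (nat_lit 55) (nat_lit 5) (nat_lit 57) (nat_lit 5) (nat_lit 58) (nat_lit 5) (nat_lit 391) (nat_lit 306) (nat_lit 203)) (XT.nd (nat_lit 78) (nat_lit 152) (nat_lit 0) (XT.lf (nat_lit 0) (nat_lit 14245914995) (nat_lit 228) (nat_lit 3985444244) (nat_lit 76) (nat_lit 5461992198) (nat_lit 55) (nat_lit 5) (nat_lit 58) (nat_lit 5) (nat_lit 56) (nat_lit 5) (nat_lit 392) (nat_lit 306) (nat_lit 202)) (XT.lf (nat_lit 0) (nat_lit 7921285886) (nat_lit 152) (nat_lit 11889869799) (nat_lit 228) (nat_lit 4385938368) (nat_lit 53) (nat_lit 5) (nat_lit 55) (nat_lit 5) (nat_lit 56) (nat_lit 5) (nat_lit 393) (nat_lit 306) (nat_lit 201)))) (XT.nd (nat_lit 156) (nat_lit 152) (nat_lit 0) (XT.nd (nat_lit 78) (nat_lit 152) (nat_lit 0) (XT.lf (nat_lit 0) (nat_lit 834890687) (nat_lit 228)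 (nat_lit 4485884023) (nat_lit 76) (nat_lit 19394230357) (nat_lit 52) (nat_lit 5) (nat_lit 55) (nat_lit 5) (nat_lit 53) (nat_lit 5) (nat_lit 394) (nat_lit 306) (nat_lit 200)) (XT.lf (nat_lit 0) (nat_lit 6196984302) (nat_lit 228) (nat_lit 17523922859) (nat_lit 76) (nat_lit 1524063284) (nat_lit 50) (nat_lit 5) (nat_lit 53) (nat_lit 5) (nat_lit 51) (nat_lit 5) (nat_lit 395) (nat_lit 306) (nat_lit 199))) (XT.nd (nat_lit 78) (nat_lit 152) (nat_lit 0) (XT.lf (nat_lit 0) (nat_lit 11801941143) (nat_lit 228) (nat_lit 5485395008) (nat_lit 76) (nat_lit 8501042087) (nat_lit 50) (nat_lit 5) (nat_lit 53) (nat_lit 5) (nat_lit 51) (nat_lit 5) (nat_lit 396) (nat_lit 306) (nat_lit 198)) (XT.lf (nat_lit 0) (nat_lit 7023247126) (nat_lit 152) (nat_lit 10603362131) (nat_lit 228) (nat_lit 8719935493) (nat_lit 48) (nat_lit 5) (nat_lit 50) (nat_lit 5) (nat_lit 51) (nat_lit 5) (nat_lit 397) (nat_lit 306) (nat_lit 197)))))) (XT.nd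 (nat_lit 468) (nat_lit 532) (nat_lit 0) (XT.nd (nat_lit 234) (nat_lit 228) (nat_lit 0) (XT.nd (nat_lit 78) (nat_lit 228) (nat_lit 0) (XT.lf (nat_lit 0) (nat_lit 19991778741) (nat_lit 152) (nat_lit 3673878393) (nat_lit 228) (nat_lit 3254613199) (nat_lit 48) (nat_lit 5) (nat_lit 50) (nat_lit 5) (nat_lit 51) (nat_lit 5) (nat_lit 398) (nat_lit 306) (nat_lit 196)) (XT.nd (nat_lit 78) (nat_lit 0) (nat_lit 0) (XT.lf (nat_lit 0) (nat_lit 2403594882) (nat_lit 228) (nat_lit 21640044632) (nat_lit 76) (nat_lit 3464628512) (nat_lit 45) (nat_lit 5) (nat_lit 48) (nat_lit 5) (nat_lit 46) (nat_lit 5) (nat_lit 399) (nat_lit 306) (nat_lit 195)) (XT.lf (nat_lit 0) (nat_lit 8257795492) (nat_lit 228) (nat_lit 9017626221) (nat_lit 76) (nat_lit 10834770385) (nat_lit 45) (nat_lit 5) (nat_lit 48) (nat_lit 5) (nat_lit 46) (nat_lit 5) (nat_lit 400) (nat_lit 306) (nat_lit 194)))) (XT.nd (nat_lit 78) (nat_lit 76) (nat_lit 0) (XT.lf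 (nat_lit 0) (nat_lit 4035617106) (nat_lit 152) (nat_lit 10275874397) (nat_lit 228) (nat_lit 14417969209) (nat_lit 43) (nat_lit 5) (nat_lit 45) (nat_lit 5) (nat_lit 46) (nat_lit 5) (nat_lit 401) (nat_lit 306) (nat_lit 193)) (XT.nd (nat_lit 78) (nat_lit 76) (nat_lit 0) (XT.lf (nat_lit 0) (nat_lit 17638973926) (nat_lit 152) (nat_lit 2984142879) (nat_lit 228) (nat_lit 8741903846) (nat_lit 43) (nat_lit 5) (nat_lit 45) (nat_lit 5) (nat_lit 46) (nat_lit 5) (nat_lit 402) (nat_lit 306) (nat_lit 192)) (XT.lf (nat_lit 0) (nat_lit 1592455515) (nat_lit 76) (nat_lit 25576032200) (nat_lit 152) (nat_lit 2849830503) (nat_lit 42) (nat_lit 5) (nat_lit 43) (nat_lit 5) (nat_lit 44) (nat_lit 4) (nat_lit 403) (nat_lit 306) (nat_lit 191))))) (XT.nd (nat_lit 234) (nat_lit 304) (nat_lit 0) (XT.nd (nat_lit 78) (nat_lit 152) (nat_lit 0) (XT.lf (nat_lit 0) (nat_lit 3290928214) (nat_lit 152) (nat_lit 15224366782) (nat_lit 76) (nat_lit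 12170951876) (nat_lit 41) (nat_lit 5) (nat_lit 43) (nat_lit 5) (nat_lit 42) (nat_lit 5) (nat_lit 404) (nat_lit 306) (nat_lit 190)) (XT.nd (nat_lit 78) (nat_lit 152) (nat_lit 0) (XT.lf (nat_lit 0) (nat_lit 9544659208) (nat_lit 152) (nat_lit 1680215198) (nat_lit 76) (nat_lit 20148914150) (nat_lit 41) (nat_lit 5) (nat_lit 43) (nat_lit 5) (nat_lit 42) (nat_lit 5) (nat_lit 405) (nat_lit 306) (nat_lit 189)) (XT.lf (nat_lit 0) (nat_lit 12489536905) (nat_lit 152) (nat_lit 3602957523) (nat_lit 228) (nat_lit 15986269724) (nat_lit 39) (nat_lit 5) (nat_lit 41) (nat_lit 5) (nat_lit 42) (nat_lit 5) (nat_lit 406) (nat_lit 306) (nat_lit 188)))) (XT.nd (nat_lit 156) (nat_lit 228) (nat_lit 0) (XT.nd (nat_lit 78) (nat_lit 76) (nat_lit 0) (XT.lf (nat_lit 0) (nat_lit 22881224159) (nat_lit 228) (nat_lit 5751055256) (nat_lit 76) (nat_lit 4171278177) (nat_lit 39) (nat_lit 5) (nat_lit 42) (nat_lit 5) (nat_lit 40) (nat_lit 4) (nat_lit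 407) (nat_lit 306) (nat_lit 187)) (XT.lf (nat_lit 0) (nat_lit 8610830073) (nat_lit 76) (nat_lit 21368118396) (nat_lit 152) (nat_lit 3567988676) (nat_lit 38) (nat_lit 5) (nat_lit 39) (nat_lit 5) (nat_lit 40) (nat_lit 4) (nat_lit 408) (nat_lit 306) (nat_lit 186))) (XT.nd (nat_lit 78) (nat_lit 152) (nat_lit 0) (XT.lf (nat_lit 0) (nat_lit 2964456384) (nat_lit 152) (nat_lit 10842421210) (nat_lit 76) (nat_lit 20503517301) (nat_lit 37) (nat_lit 5) (nat_lit 39) (nat_lit 5) (nat_lit 38) (nat_lit 5) (nat_lit 409) (nat_lit 306) (nat_lit 185)) (XT.lf (nat_lit 0) (nat_lit 3687583631) (nat_lit 152) (nat_lit 5956318944) (nat_lit 228) (nat_lit 25451113876) (nat_lit 35) (nat_lit 5) (nat_lit 37) (nat_lit 5) (nat_lit 38) (nat_lit 5) (nat_lit 410) (nat_lit 306) (nat_lit 184))))))) (XT.nd (nat_lit 1014) (nat_lit 456) (nat_lit 0) (XT.nd (nat_lit 468) (nat_lit 380) (nat_lit 0) (XT.nd (nat_lit 234) (nat_lit 228) (nat_lit 0) (XT.nd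 (nat_lit 78) (nat_lit 76) (nat_lit 0) (XT.lf (nat_lit 0) (nat_lit 16642120015) (nat_lit 228) (nat_lit 17068876626) (nat_lit 76) (nat_lit 2188630413) (nat_lit 35) (nat_lit 5) (nat_lit 38) (nat_lit 5) (nat_lit 36) (nat_lit 4) (nat_lit 411) (nat_lit 306) (nat_lit 183)) (XT.nd (nat_lit 78) (nat_lit 76) (nat_lit 0) (XT.lf (nat_lit 0) (nat_lit 23896970164) (nat_lit 228) (nat_lit 2381637836) (nat_lit 76) (nat_lit 10448369364) (nat_lit 35) (nat_lit 5) (nat_lit 38) (nat_lit 5) (nat_lit 36) (nat_lit 4) (nat_lit 412) (nat_lit 306) (nat_lit 182)) (XT.lf (nat_lit 0) (nat_lit 12977612807) (nat_lit 76) (nat_lit 18504672378) (nat_lit 152) (nat_lit 6093480338) (nat_lit 34) (nat_lit 5) (nat_lit 35) (nat_lit 5) (nat_lit 36) (nat_lit 4) (nat_lit 413) (nat_lit 306) (nat_lit 181)))) (XT.nd (nat_lit 78) (nat_lit 152) (nat_lit 0) (XT.lf (nat_lit 0) (nat_lit 841030131) (nat_lit 152) (nat_lit 9633065680) (nat_lit 76) (nat_lit 27975308215)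 (nat_lit 33) (nat_lit 5) (nat_lit 35) (nat_lit 5) (nat_lit 34) (nat_lit 5) (nat_lit 414) (nat_lit 306) (nat_lit 180)) (XT.nd (nat_lit 78) (nat_lit 0) (nat_lit 0) (XT.lf (nat_lit 0) (nat_lit 5812838973) (nat_lit 152) (nat_lit 2092579014) (nat_lit 228) (nat_lit 31440696059) (nat_lit 31) (nat_lit 5) (nat_lit 33) (nat_lit 5) (nat_lit 34) (nat_lit 5) (nat_lit 415) (nat_lit 306) (nat_lit 179)) (XT.lf (nat_lit 0) (nat_lit 15331326650) (nat_lit 228) (nat_lit 18432328247) (nat_lit 76) (nat_lit 6501584498) (nat_lit 31) (nat_lit 5) (nat_lit 34) (nat_lit 5) (nat_lit 32) (nat_lit 4) (nat_lit 416) (nat_lit 306) (nat_lit 178))))) (XT.nd (nat_lit 234) (nat_lit 304) (nat_lit 0) (XT.nd (nat_lit 78) (nat_lit 76) (nat_lit 0) (XT.lf (nat_lit 0) (nat_lit 22989547498) (nat_lit 228) (nat_lit 2919728918) (nat_lit 76) (nat_lit 15302377697) (nat_lit 31) (nat_lit 5) (nat_lit 34) (nat_lit 5) (nat_lit 32) (nat_lit 4) (nat_lit 417) (nat_lit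 306) (nat_lit 177)) (XT.nd (nat_lit 78) (nat_lit 0) (nat_lit 0) (XT.lf (nat_lit 0) (nat_lit 13297678362) (nat_lit 76) (nat_lit 17696804088) (nat_lit 152) (nat_lit 11188471404) (nat_lit 30) (nat_lit 5) (nat_lit 31) (nat_lit 5) (nat_lit 32) (nat_lit 4) (nat_lit 418) (nat_lit 306) (nat_lit 176)) (XT.lf (nat_lit 0) (nat_lit 30041600437) (nat_lit 76) (nat_lit 9216715964) (nat_lit 152) (nat_lit 3924515218) (nat_lit 30) (nat_lit 5) (nat_lit 31) (nat_lit 5) (nat_lit 32) (nat_lit 4) (nat_lit 419) (nat_lit 306) (nat_lit 175)))) (XT.nd (nat_lit 156) (nat_lit 76) (nat_lit 0) (XT.nd (nat_lit 78) (nat_lit 0) (nat_lit 0) (XT.lf (nat_lit 0) (nat_lit 3081580147) (nat_lit 152) (nat_lit 425459999) (nat_lit 228) (nat_lit 40704068254) (nat_lit 27) (nat_lit 5) (nat_lit 29) (nat_lit 5) (nat_lit 30) (nat_lit 5) (nat_lit 420) (nat_lit 306) (nat_lit 174)) (XT.lf (nat_lit 0) (nat_lit 11289141049) (nat_lit 228) (nat_lit 25348445543)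 (nat_lit 76) (nat_lit 8625288290) (nat_lit 27) (nat_lit 5) (nat_lit 30) (nat_lit 5) (nat_lit 28) (nat_lit 4) (nat_lit 421) (nat_lit 306) (nat_lit 173))) (XT.nd (nat_lit 78) (nat_lit 76) (nat_lit 0) (XT.lf (nat_lit 0) (nat_lit 19298733817) (nat_lit 228) (nat_lit 9117102477) (nat_lit 76) (nat_lit 17930538586) (nat_lit 27) (nat_lit 5) (nat_lit 30) (nat_lit 5) (nat_lit 28) (nat_lit 4) (nat_lit 422) (nat_lit 306) (nat_lit 172)) (XT.lf (nat_lit 0) (nat_lit 7733685512) (nat_lit 76) (nat_lit 19879382745) (nat_lit 152) (nat_lit 19847379349) (nat_lit 26) (nat_lit 5) (nat_lit 27) (nat_lit 5) (nat_lit 28) (nat_lit 4) (nat_lit 423) (nat_lit 306) (nat_lit 171)))))) (XT.nd (nat_lit 546) (nat_lit 228) (nat_lit 0) (XT.nd (nat_lit 234) (nat_lit 76) (nat_lit 0) (XT.nd (nat_lit 78) (nat_lit 152) (nat_lit 0) (XT.lf (nat_lit 0) (nat_lit 25258661841) (nat_lit 76) (nat_lit 11000461485) (nat_lit 152) (nat_lit 12346351777) (nat_lit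 26) (nat_lit 5) (nat_lit 27) (nat_lit 5) (nat_lit 28) (nat_lit 4) (nat_lit 424) (nat_lit 306) (nat_lit 170)) (XT.nd (nat_lit 78) (nat_lit 152) (nat_lit 0) (XT.lf (nat_lit 0) (nat_lit 43291691379) (nat_lit 76) (nat_lit 1863379092) (nat_lit 152) (nat_lit 4630068910) (nat_lit 26) (nat_lit 5) (nat_lit 27) (nat_lit 5) (nat_lit 28) (nat_lit 4) (nat_lit 425) (nat_lit 306) (nat_lit 169)) (XT.lf (nat_lit 0) (nat_lit 3423540678) (nat_lit 152) (nat_lit 40038654211) (nat_lit 76) (nat_lit 7531925782) (nat_lit 24) (nat_lit 5) (nat_lit 26) (nat_lit 5) (nat_lit 25) (nat_lit 4) (nat_lit 426) (nat_lit 306) (nat_lit 168)))) (XT.nd (nat_lit 156) (nat_lit 76) (nat_lit 0) (XT.nd (nat_lit 78) (nat_lit 0) (nat_lit 0) (XT.lf (nat_lit 0) (nat_lit 11701091616) (nat_lit 152) (nat_lit 23258784452) (nat_lit 76) (nat_lit 17275859441) (nat_lit 24) (nat_lit 5) (nat_lit 26) (nat_lit 5) (nat_lit 25) (nat_lit 4) (nat_lit 427) (nat_lit 306)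 (nat_lit 167)) (XT.lf (nat_lit 0) (nat_lit 20217962530) (nat_lit 152) (nat_lit 5992408966) (nat_lit 76) (nat_lit 27304498618) (nat_lit 24) (nat_lit 5) (nat_lit 26) (nat_lit 5) (nat_lit 25) (nat_lit 4) (nat_lit 428) (nat_lit 306) (nat_lit 166))) (XT.nd (nat_lit 78) (nat_lit 0) (nat_lit 0) (XT.lf (nat_lit 0) (nat_lit 12009916092) (nat_lit 76) (nat_lit 17087125915) (nat_lit 152) (nat_lit 25732136771) (nat_lit 23) (nat_lit 5) (nat_lit 24) (nat_lit 5) (nat_lit 25) (nat_lit 4) (nat_lit 429) (nat_lit 306) (nat_lit 165)) (XT.lf (nat_lit 0) (nat_lit 30658911766) (nat_lit 76) (nat_lit 7635448059) (nat_lit 152) (nat_lit 17887001962) (nat_lit 23) (nat_lit 5) (nat_lit 24) (nat_lit 5) (nat_lit 25) (nat_lit 4) (nat_lit 430) (nat_lit 306) (nat_lit 164))))) (XT.nd (nat_lit 234) (nat_lit 76) (nat_lit 0) (XT.nd (nat_lit 78) (nat_lit 152) (nat_lit 0) (XT.lf (nat_lit 0) (nat_lit 47779316885) (nat_lit 152) (nat_lit 7742864042)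 (nat_lit 0) (nat_lit 2051578798) (nat_lit 23) (nat_lit 5) (nat_lit 25) (nat_lit 4) (nat_lit 23) (nat_lit 4) (nat_lit 431) (nat_lit 306) (nat_lit 163)) (XT.nd (nat_lit 78) (nat_lit 76) (nat_lit 0) (XT.lf (nat_lit 0) (nat_lit 10687582011) (nat_lit 76) (nat_lit 47031356596) (nat_lit 76) (nat_lit 1283888516) (nat_lit 22) (nat_lit 4) (nat_lit 23) (nat_lit 5) (nat_lit 23) (nat_lit 4) (nat_lit 432) (nat_lit 306) (nat_lit 162)) (XT.lf (nat_lit 0) (nat_lit 7406736358) (nat_lit 152) (nat_lit 30730948605) (nat_lit 76) (nat_lit 22332802254) (nat_lit 21) (nat_lit 5) (nat_lit 23) (nat_lit 5) (nat_lit 22) (nat_lit 4) (nat_lit 433) (nat_lit 306) (nat_lit 161)))) (XT.nd (nat_lit 156) (nat_lit 0) (nat_lit 0) (XT.nd (nat_lit 78) (nat_lit 76) (nat_lit 0) (XT.lf (nat_lit 0) (nat_lit 16324306613) (nat_lit 152) (nat_lit 12646878399) (nat_lit 76) (nat_lit 33010850719) (nat_lit 21) (nat_lit 5) (nat_lit 23) (nat_lit 5) (nat_lit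 22) (nat_lit 4) (nat_lit 434) (nat_lit 306) (nat_lit 160)) (XT.lf (nat_lit 0) (nat_lit 6083826000) (nat_lit 76) (nat_lit 19476323045) (nat_lit 152) (nat_lit 37977260192) (nat_lit 20) (nat_lit 5) (nat_lit 21) (nat_lit 5) (nat_lit 22) (nat_lit 4) (nat_lit 435) (nat_lit 306) (nat_lit 159))) (XT.nd (nat_lit 78) (nat_lit 0) (nat_lit 0) (XT.lf (nat_lit 0) (nat_lit 25621238058) (nat_lit 76) (nat_lit 9571887293) (nat_lit 152) (nat_lit 29942717703) (nat_lit 20) (nat_lit 5) (nat_lit 21) (nat_lit 5) (nat_lit 22) (nat_lit 4) (nat_lit 436) (nat_lit 306) (nat_lit 158)) (XT.lf (nat_lit 0) (nat_lit 45113653000) (nat_lit 152) (nat_lit 21057711231) (nat_lit 0) (nat_lit 610909630) (nat_lit 20) (nat_lit 5) (nat_lit 22) (nat_lit 4) (nat_lit 20) (nat_lit 4) (nat_lit 437) (nat_lit 306) (nat_lit 157))))))))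
noncomputable def xc123 : XT := (XT.nd (nat_lit 38142) (nat_lit 0) (nat_lit 9044) (XT.nd (nat_lit 37050) (nat_lit 0) (nat_lit 19836) (XT.nd (nat_lit 468) (nat_lit 0) (nat_lit 0) (XT.nd (nat_lit 234) (nat_lit 76) (nat_lit 0) (XT.nd (nat_lit 78) (nat_lit 152) (nat_lit 0) (XT.lf (nat_lit 0) (nat_lit 55419294990) (nat_lit 152) (nat_lit 2155669134) (nat_lit 0) (nat_lit 10900509330) (nat_lit 20) (nat_lit 5) (nat_lit 22) (nat_lit 4) (nat_lit 20) (nat_lit 4) (nat_lit 438) (nat_lit 306) (nat_lit 156)) (XT.nd (nat_lit 78) (nat_lit 76) (nat_lit 0) (XT.lf (nat_lit 0) (nat_lit 17644353365) (nat_lit 76) (nat_lit 48552300366) (nat_lit 76) (nat_lit 4017939668) (nat_lit 19) (nat_lit 4) (nat_lit 20) (nat_lit 5) (nat_lit 20) (nat_lit 4) (nat_lit 439) (nat_lit 306) (nat_lit 155)) (XT.lf (nat_lit 0) (nat_lit 5203122205) (nat_lit 152) (nat_lit 33987144019) (nat_lit 76) (nat_lit 32813647593) (nat_lit 18) (nat_lit 5) (nat_lit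 20) (nat_lit 5) (nat_lit 19) (nat_lit 4) (nat_lit 440) (nat_lit 306) (nat_lit 154)))) (XT.nd (nat_lit 78) (nat_lit 76) (nat_lit 0) (XT.lf (nat_lit 0) (nat_lit 14613212268) (nat_lit 152) (nat_lit 14899342157) (nat_lit 76) (nat_lit 44333372108) (nat_lit 18) (nat_lit 5) (nat_lit 20) (nat_lit 5) (nat_lit 19) (nat_lit 4) (nat_lit 441) (nat_lit 306) (nat_lit 153)) (XT.nd (nat_lit 78) (nat_lit 0) (nat_lit 0) (XT.lf (nat_lit 0) (nat_lit 4842970912) (nat_lit 76) (nat_lit 19502540093) (nat_lit 152) (nat_lit 51396492151) (nat_lit 17) (nat_lit 5) (nat_lit 18) (nat_lit 5) (nat_lit 19) (nat_lit 4) (nat_lit 442) (nat_lit 306) (nat_lit 152)) (XT.lf (nat_lit 0) (nat_lit 25470472418) (nat_lit 76) (nat_lit 9043186236) (nat_lit 152) (nat_lit 43176987707) (nat_lit 17) (nat_lit 5) (nat_lit 18) (nat_lit 5) (nat_lit 19) (nat_lit 4) (nat_lit 443) (nat_lit 306) (nat_lit 151))))) (XT.nd (nat_lit 36270) (nat_lit 0) (nat_lit 23636)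 (XT.nd (nat_lit 78) (nat_lit 0) (nat_lit 0) (XT.lf (nat_lit 0) (nat_lit 44997042011) (nat_lit 152) (nat_lit 33009854728) (nat_lit 0) (nat_lit 1690547045) (nat_lit 17) (nat_lit 5) (nat_lit 19) (nat_lit 4) (nat_lit 17) (nat_lit 4) (nat_lit 444) (nat_lit 306) (nat_lit 150)) (XT.nd (nat_lit 36114) (nat_lit 0) (nat_lit 24776) (XT.lf (nat_lit 0) (nat_lit 55878212841) (nat_lit 152) (nat_lit 13324680410) (nat_lit 0) (nat_lit 12559053943) (nat_lit 17) (nat_lit 5) (nat_lit 19) (nat_lit 4) (nat_lit 17) (nat_lit 4) (nat_lit 445) (nat_lit 306) (nat_lit 149)) (XT.lf (nat_lit 0) (nat_lit 2329043744) (nat_lit 532) (nat_lit 498705668) (nat_lit 532) (nat_lit 498705668) (nat_lit 343) (nat_lit 3) (nat_lit 350) (nat_lit 3) (nat_lit 350) (nat_lit 5) (nat_lit 307) (nat_lit 307) (nat_lit 286)))) (XT.nd (nat_lit 156) (nat_lit 608) (nat_lit 0) (XT.nd (nat_lit 78) (nat_lit 0) (nat_lit 0) (XT.lf (nat_lit 0) (nat_lit 241063926) (nat_lit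 532) (nat_lit 4453430588) (nat_lit 608) (nat_lit 1989905567) (nat_lit 336) (nat_lit 5) (nat_lit 343) (nat_lit 3) (nat_lit 344) (nat_lit 5) (nat_lit 308) (nat_lit 307) (nat_lit 285)) (XT.lf (nat_lit 0) (nat_lit 2427630309) (nat_lit 532) (nat_lit 1206287629) (nat_lit 608) (nat_lit 3084695227) (nat_lit 336) (nat_lit 5) (nat_lit 343) (nat_lit 3) (nat_lit 344) (nat_lit 5) (nat_lit 309) (nat_lit 307) (nat_lit 284))) (XT.nd (nat_lit 78) (nat_lit 608) (nat_lit 0) (XT.lf (nat_lit 76) (nat_lit 2134729421) (nat_lit 0) (nat_lit 2481628789) (nat_lit 608) (nat_lit 2139477017) (nat_lit 337) (nat_lit 5) (nat_lit 336) (nat_lit 5) (nat_lit 344) (nat_lit 5) (nat_lit 310) (nat_lit 307) (nat_lit 283)) (XT.lf (nat_lit 0) (nat_lit 4553837) (nat_lit 608) (nat_lit 1240437241) (nat_lit 684) (nat_lit 5551351523) (nat_lit 328) (nat_lit 5) (nat_lit 336) (nat_lit 5) (nat_lit 337) (nat_lit 5) (nat_lit 311) (nat_lit 307) (nat_lit 282))))))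 (XT.nd (nat_lit 546) (nat_lit 2508) (nat_lit 0) (XT.nd (nat_lit 234) (nat_lit 1368) (nat_lit 0) (XT.nd (nat_lit 78) (nat_lit 0) (nat_lit 0) (XT.lf (nat_lit 0) (nat_lit 2111852409) (nat_lit 608) (nat_lit 4621672561) (nat_lit 684) (nat_lit 105719064) (nat_lit 329) (nat_lit 5) (nat_lit 337) (nat_lit 5) (nat_lit 338) (nat_lit 5) (nat_lit 312) (nat_lit 307) (nat_lit 281)) (XT.nd (nat_lit 78) (nat_lit 0) (nat_lit 0) (XT.lf (nat_lit 0) (nat_lit 4229169180) (nat_lit 608) (nat_lit 1138190707) (nat_lit 684) (nat_lit 1517739297) (nat_lit 329) (nat_lit 5) (nat_lit 337) (nat_lit 5) (nat_lit 338) (nat_lit 5) (nat_lit 313) (nat_lit 307) (nat_lit 280)) (XT.lf (nat_lit 76) (nat_lit 2451584842) (nat_lit 0) (nat_lit 3906086352) (nat_lit 684) (nat_lit 576297417) (nat_lit 330) (nat_lit 5) (nat_lit 329) (nat_lit 5) (nat_lit 338) (nat_lit 5) (nat_lit 314) (nat_lit 307) (nat_lit 279)))) (XT.nd (nat_lit 156) (nat_lit 684) (nat_lit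 0) (XT.nd (nat_lit 78) (nat_lit 0) (nat_lit 0) (XT.lf (nat_lit 0) (nat_lit 1471851259) (nat_lit 684) (nat_lit 873892755) (nat_lit 760) (nat_lit 4640072842) (nat_lit 320) (nat_lit 5) (nat_lit 329) (nat_lit 5) (nat_lit 330) (nat_lit 5) (nat_lit 315) (nat_lit 307) (nat_lit 278)) (XT.lf (nat_lit 76) (nat_lit 2846919767) (nat_lit 0) (nat_lit 677563042) (nat_lit 760) (nat_lit 3515990691) (nat_lit 321) (nat_lit 5) (nat_lit 320) (nat_lit 5) (nat_lit 330) (nat_lit 5) (nat_lit 316) (nat_lit 307) (nat_lit 277))) (XT.nd (nat_lit 78) (nat_lit 760) (nat_lit 0) (XT.lf (nat_lit 0) (nat_lit 5586794215) (nat_lit 684) (nat_lit 457097626) (nat_lit 760) (nat_lit 1054495921) (nat_lit 321) (nat_lit 5) (nat_lit 330) (nat_lit 5) (nat_lit 331) (nat_lit 5) (nat_lit 317) (nat_lit 307) (nat_lit 276)) (XT.lf (nat_lit 0) (nat_lit 512483081) (nat_lit 760) (nat_lit 3759199654) (nat_lit 836) (nat_lit 2887144588) (nat_lit 311) (nat_lit 5)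 (nat_lit 321) (nat_lit 5) (nat_lit 322) (nat_lit 5) (nat_lit 318) (nat_lit 307) (nat_lit 275))))) (XT.nd (nat_lit 234) (nat_lit 1824) (nat_lit 0) (XT.nd (nat_lit 78) (nat_lit 684) (nat_lit 0) (XT.lf (nat_lit 76) (nat_lit 100090847) (nat_lit 0) (nat_lit 2404520687) (nat_lit 836) (nat_lit 4717943991) (nat_lit 312) (nat_lit 5) (nat_lit 311) (nat_lit 5) (nat_lit 322) (nat_lit 5) (nat_lit 319) (nat_lit 307) (nat_lit 274)) (XT.nd (nat_lit 78) (nat_lit 684) (nat_lit 0) (XT.lf (nat_lit 76) (nat_lit 4105350533) (nat_lit 0) (nat_lit 422728784) (nat_lit 836) (nat_lit 2761023140) (nat_lit 312) (nat_lit 5) (nat_lit 311) (nat_lit 5) (nat_lit 322) (nat_lit 5) (nat_lit 320) (nat_lit 307) (nat_lit 273)) (XT.lf (nat_lit 0) (nat_lit 826009908) (nat_lit 760) (nat_lit 5745470121) (nat_lit 836) (nat_lit 787441472) (nat_lit 302) (nat_lit 5) (nat_lit 312) (nat_lit 5) (nat_lit 313) (nat_lit 5) (nat_lit 321) (nat_lit 307) (nat_lit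 272)))) (XT.nd (nat_lit 156) (nat_lit 912) (nat_lit 0) (XT.nd (nat_lit 78) (nat_lit 836) (nat_lit 0) (XT.lf (nat_lit 0) (nat_lit 1194176259) (nat_lit 836) (nat_lit 2473536007) (nat_lit 76) (nat_lit 3763619378) (nat_lit 301) (nat_lit 5) (nat_lit 312) (nat_lit 5) (nat_lit 302) (nat_lit 5) (nat_lit 322) (nat_lit 307) (nat_lit 271)) (XT.lf (nat_lit 0) (nat_lit 1685610932) (nat_lit 836) (nat_lit 1488334554) (nat_lit 912) (nat_lit 4333146930) (nat_lit 290) (nat_lit 5) (nat_lit 301) (nat_lit 5) (nat_lit 302) (nat_lit 5) (nat_lit 323) (nat_lit 307) (nat_lit 270))) (XT.nd (nat_lit 78) (nat_lit 912) (nat_lit 0) (XT.lf (nat_lit 0) (nat_lit 5185410267) (nat_lit 912) (nat_lit 1620289820) (nat_lit 76) (nat_lit 780303559) (nat_lit 290) (nat_lit 5) (nat_lit 302) (nat_lit 5) (nat_lit 291) (nat_lit 5) (nat_lit 324) (nat_lit 307) (nat_lit 269)) (XT.lf (nat_lit 0) (nat_lit 2697626514) (nat_lit 912) (nat_lit 4541819009) (nat_lit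 988) (nat_lit 428415243) (nat_lit 278) (nat_lit 5) (nat_lit 290) (nat_lit 5) (nat_lit 291) (nat_lit 5) (nat_lit 325) (nat_lit 307) (nat_lit 268))))))) (XT.nd (nat_lit 1014) (nat_lit 4332) (nat_lit 0) (XT.nd (nat_lit 468) (nat_lit 3116) (nat_lit 0) (XT.nd (nat_lit 234) (nat_lit 1216) (nat_lit 0) (XT.nd (nat_lit 78) (nat_lit 2052) (nat_lit 0) (XT.lf (nat_lit 0) (nat_lit 1530375748) (nat_lit 988) (nat_lit 636904011) (nat_lit 76) (nat_lit 5585712544) (nat_lit 277) (nat_lit 5) (nat_lit 290) (nat_lit 5) (nat_lit 278) (nat_lit 5) (nat_lit 326) (nat_lit 307) (nat_lit 267)) (XT.nd (nat_lit 78) (nat_lit 1064) (nat_lit 0) (XT.lf (nat_lit 0) (nat_lit 3523399368) (nat_lit 1064) (nat_lit 3993564687) (nat_lit 76) (nat_lit 324105589) (nat_lit 264) (nat_lit 5) (nat_lit 278) (nat_lit 5) (nat_lit 265) (nat_lit 5) (nat_lit 327) (nat_lit 307) (nat_lit 266)) (XT.lf (nat_lit 0) (nat_lit 488041658) (nat_lit 1064) (nat_lit 5065979045)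 (nat_lit 1140) (nat_lit 2378474686) (nat_lit 250) (nat_lit 5) (nat_lit 264) (nat_lit 5) (nat_lit 265) (nat_lit 5) (nat_lit 328) (nat_lit 307) (nat_lit 265)))) (XT.nd (nat_lit 78) (nat_lit 1216) (nat_lit 0) (XT.lf (nat_lit 0) (nat_lit 5138563985) (nat_lit 1064) (nat_lit 2493627752) (nat_lit 1140) (nat_lit 394912354) (nat_lit 250) (nat_lit 5) (nat_lit 264) (nat_lit 5) (nat_lit 265) (nat_lit 5) (nat_lit 329) (nat_lit 307) (nat_lit 264)) (XT.nd (nat_lit 78) (nat_lit 0) (nat_lit 0) (XT.lf (nat_lit 0) (nat_lit 1582257594) (nat_lit 1216) (nat_lit 6351301252) (nat_lit 76) (nat_lit 191565922) (nat_lit 234) (nat_lit 5) (nat_lit 250) (nat_lit 5) (nat_lit 235) (nat_lit 5) (nat_lit 330) (nat_lit 307) (nat_lit 263)) (XT.lf (nat_lit 0) (nat_lit 3613400401) (nat_lit 1216) (nat_lit 1667099913) (nat_lit 76) (nat_lit 2945426397) (nat_lit 234) (nat_lit 5) (nat_lit 250) (nat_lit 5) (nat_lit 235) (nat_lit 5) (nat_lit 331) (nat_lit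 307) (nat_lit 262))))) (XT.nd (nat_lit 234) (nat_lit 1216) (nat_lit 0) (XT.nd (nat_lit 78) (nat_lit 684) (nat_lit 0) (XT.lf (nat_lit 0) (nat_lit 3172672700) (nat_lit 1216) (nat_lit 2513252301) (nat_lit 1292) (nat_lit 2644449041) (nat_lit 218) (nat_lit 5) (nat_lit 234) (nat_lit 5) (nat_lit 235) (nat_lit 5) (nat_lit 332) (nat_lit 307) (nat_lit 261)) (XT.nd (nat_lit 78) (nat_lit 684) (nat_lit 0) (XT.lf (nat_lit 0) (nat_lit 7791852875) (nat_lit 1292) (nat_lit 296979391) (nat_lit 76) (nat_lit 350019444) (nat_lit 218) (nat_lit 5) (nat_lit 235) (nat_lit 5) (nat_lit 219) (nat_lit 5) (nat_lit 333) (nat_lit 307) (nat_lit 260)) (XT.lf (nat_lit 0) (nat_lit 1405816769) (nat_lit 684) (nat_lit 3833266852) (nat_lit 76) (nat_lit 3310436271) (nat_lit 209) (nat_lit 5) (nat_lit 218) (nat_lit 5) (nat_lit 210) (nat_lit 5) (nat_lit 334) (nat_lit 307) (nat_lit 259)))) (XT.nd (nat_lit 156) (nat_lit 684) (nat_lit 0) (XT.nd (nat_lit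 78) (nat_lit 0) (nat_lit 0) (XT.lf (nat_lit 0) (nat_lit 1192330832) (nat_lit 532) (nat_lit 2282236413) (nat_lit 608) (nat_lit 5189758946) (nat_lit 202) (nat_lit 5) (nat_lit 209) (nat_lit 5) (nat_lit 210) (nat_lit 5) (nat_lit 335) (nat_lit 307) (nat_lit 258)) (XT.lf (nat_lit 0) (nat_lit 5605595212) (nat_lit 608) (nat_lit 2389865117) (nat_lit 76) (nat_lit 787139879) (nat_lit 202) (nat_lit 5) (nat_lit 210) (nat_lit 5) (nat_lit 203) (nat_lit 5) (nat_lit 336) (nat_lit 307) (nat_lit 257))) (XT.nd (nat_lit 78) (nat_lit 76) (nat_lit 0) (XT.lf (nat_lit 0) (nat_lit 2830765589) (nat_lit 608) (nat_lit 4974727709) (nat_lit 684) (nat_lit 1098810077) (nat_lit 194) (nat_lit 5) (nat_lit 202) (nat_lit 5) (nat_lit 203) (nat_lit 5) (nat_lit 337) (nat_lit 307) (nat_lit 256)) (XT.lf (nat_lit 0) (nat_lit 1001306323) (nat_lit 684) (nat_lit 829242235) (nat_lit 76) (nat_lit 7199438997) (nat_lit 193) (nat_lit 5) (nat_lit 202) (nat_lit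 5) (nat_lit 194) (nat_lit 5) (nat_lit 338) (nat_lit 307) (nat_lit 255)))))) (XT.nd (nat_lit 546) (nat_lit 1824) (nat_lit 0) (XT.nd (nat_lit 234) (nat_lit 1444) (nat_lit 0) (XT.nd (nat_lit 78) (nat_lit 532) (nat_lit 0) (XT.lf (nat_lit 0) (nat_lit 3157496745) (nat_lit 608) (nat_lit 4567479424) (nat_lit 76) (nat_lit 1433711683) (nat_lit 186) (nat_lit 5) (nat_lit 194) (nat_lit 5) (nat_lit 187) (nat_lit 5) (nat_lit 339) (nat_lit 307) (nat_lit 254)) (XT.nd (nat_lit 78) (nat_lit 0) (nat_lit 0) (XT.lf (nat_lit 0) (nat_lit 852184422) (nat_lit 532) (nat_lit 4518582678) (nat_lit 608) (nat_lit 3920736095) (nat_lit 179) (nat_lit 5) (nat_lit 186) (nat_lit 5) (nat_lit 187) (nat_lit 5) (nat_lit 340) (nat_lit 307) (nat_lit 253)) (XT.lf (nat_lit 0) (nat_lit 6482012094) (nat_lit 532) (nat_lit 1172959301) (nat_lit 608) (nat_lit 1773220635) (nat_lit 179) (nat_lit 5) (nat_lit 186) (nat_lit 5) (nat_lit 187) (nat_lit 5) (nat_lit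 341) (nat_lit 307) (nat_lit 252)))) (XT.nd (nat_lit 156) (nat_lit 912) (nat_lit 0) (XT.nd (nat_lit 78) (nat_lit 0) (nat_lit 0) (XT.lf (nat_lit 0) (nat_lit 437562303) (nat_lit 532) (nat_lit 6876458606) (nat_lit 76) (nat_lit 2254635680) (nat_lit 172) (nat_lit 5) (nat_lit 179) (nat_lit 5) (nat_lit 173) (nat_lit 5) (nat_lit 342) (nat_lit 307) (nat_lit 251)) (XT.lf (nat_lit 0) (nat_lit 2680594409) (nat_lit 532) (nat_lit 1228064494) (nat_lit 76) (nat_lit 5804125493) (nat_lit 172) (nat_lit 5) (nat_lit 179) (nat_lit 5) (nat_lit 173) (nat_lit 5) (nat_lit 343) (nat_lit 307) (nat_lit 250))) (XT.nd (nat_lit 78) (nat_lit 456) (nat_lit 0) (XT.lf (nat_lit 0) (nat_lit 4635302488) (nat_lit 456) (nat_lit 361247106) (nat_lit 532) (nat_lit 4864539786) (nat_lit 166) (nat_lit 5) (nat_lit 172) (nat_lit 5) (nat_lit 173) (nat_lit 5) (nat_lit 344) (nat_lit 307) (nat_lit 249)) (XT.lf (nat_lit 0) (nat_lit 621020457) (nat_lit 456)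 (nat_lit 6772827352) (nat_lit 532) (nat_lit 2619661433) (nat_lit 160) (nat_lit 5) (nat_lit 166) (nat_lit 5) (nat_lit 167) (nat_lit 5) (nat_lit 345) (nat_lit 307) (nat_lit 248))))) (XT.nd (nat_lit 234) (nat_lit 1292) (nat_lit 0) (XT.nd (nat_lit 78) (nat_lit 532) (nat_lit 0) (XT.lf (nat_lit 0) (nat_lit 6701556825) (nat_lit 456) (nat_lit 3180221459) (nat_lit 532) (nat_lit 288183044) (nat_lit 160) (nat_lit 5) (nat_lit 166) (nat_lit 5) (nat_lit 167) (nat_lit 5) (nat_lit 346) (nat_lit 307) (nat_lit 247)) (XT.nd (nat_lit 78) (nat_lit 0) (nat_lit 0) (XT.lf (nat_lit 0) (nat_lit 2065675785) (nat_lit 532) (nat_lit 7716627930) (nat_lit 76) (nat_lit 548403481) (nat_lit 153) (nat_lit 5) (nat_lit 160) (nat_lit 5) (nat_lit 154) (nat_lit 5) (nat_lit 347) (nat_lit 307) (nat_lit 246)) (XT.lf (nat_lit 0) (nat_lit 4514905312) (nat_lit 532) (nat_lit 1624958369) (nat_lit 76) (nat_lit 4355428987) (nat_lit 153) (nat_lit 5) (nat_lit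 160) (nat_lit 5) (nat_lit 154) (nat_lit 5) (nat_lit 348) (nat_lit 307) (nat_lit 245)))) (XT.nd (nat_lit 156) (nat_lit 456) (nat_lit 0) (XT.nd (nat_lit 78) (nat_lit 456) (nat_lit 0) (XT.lf (nat_lit 0) (nat_lit 4697254957) (nat_lit 380) (nat_lit 2350256188) (nat_lit 456) (nat_lit 3617026262) (nat_lit 148) (nat_lit 5) (nat_lit 153) (nat_lit 5) (nat_lit 154) (nat_lit 5) (nat_lit 349) (nat_lit 307) (nat_lit 244)) (XT.lf (nat_lit 0) (nat_lit 351434474) (nat_lit 456) (nat_lit 9304810281) (nat_lit 532) (nat_lit 1182628383) (nat_lit 142) (nat_lit 5) (nat_lit 148) (nat_lit 5) (nat_lit 149) (nat_lit 5) (nat_lit 350) (nat_lit 307) (nat_lit 243))) (XT.nd (nat_lit 78) (nat_lit 380) (nat_lit 0) (XT.lf (nat_lit 0) (nat_lit 1348578909) (nat_lit 532) (nat_lit 4115873933) (nat_lit 76) (nat_lit 5552132279) (nat_lit 141) (nat_lit 5) (nat_lit 148) (nat_lit 5) (nat_lit 142) (nat_lit 5) (nat_lit 351) (nat_lit 307) (nat_lit 242))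 (XT.lf (nat_lit 0) (nat_lit 2439352602) (nat_lit 380) (nat_lit 1482558222) (nat_lit 456) (nat_lit 7277684222) (nat_lit 136) (nat_lit 5) (nat_lit 141) (nat_lit 5) (nat_lit 142) (nat_lit 5) (nat_lit 352) (nat_lit 307) (nat_lit 241))))))))
noncomputable def xc124 : XT := (XT.nd (nat_lit 2028) (nat_lit 2508) (nat_lit 0) (XT.nd (nat_lit 1014) (nat_lit 2204) (nat_lit 0) (XT.nd (nat_lit 468) (nat_lit 1368) (nat_lit 0) (XT.nd (nat_lit 234) (nat_lit 684) (nat_lit 0) (XT.nd (nat_lit 78) (nat_lit 456) (nat_lit 0) (XT.lf (nat_lit 0) (nat_lit 6606565643) (nat_lit 456) (nat_lit 2180684881) (nat_lit 76) (nat_lit 2599837172) (nat_lit 136) (nat_lit 5) (nat_lit 142) (nat_lit 5) (nat_lit 137) (nat_lit 5) (nat_lit 353) (nat_lit 307) (nat_lit 240)) (XT.nd (nat_lit 78) (nat_lit 76) (nat_lit 0) (XT.lf (nat_lit 0) (nat_lit 4629334196) (nat_lit 380) (nat_lit 4769542308) (nat_lit 456) (nat_lit 2180530776) (nat_lit 131) (nat_lit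 5) (nat_lit 136) (nat_lit 5) (nat_lit 137) (nat_lit 5) (nat_lit 354) (nat_lit 307) (nat_lit 239)) (XT.lf (nat_lit 0) (nat_lit 478130716) (nat_lit 456) (nat_lit 136292785) (nat_lit 76) (nat_lit 11163232912) (nat_lit 130) (nat_lit 5) (nat_lit 136) (nat_lit 5) (nat_lit 131) (nat_lit 5) (nat_lit 355) (nat_lit 307) (nat_lit 238)))) (XT.nd (nat_lit 78) (nat_lit 380) (nat_lit 0) (XT.lf (nat_lit 0) (nat_lit 3244650041) (nat_lit 380) (nat_lit 5061697028) (nat_lit 76) (nat_lit 3672714852) (nat_lit 126) (nat_lit 5) (nat_lit 131) (nat_lit 5) (nat_lit 127) (nat_lit 5) (nat_lit 356) (nat_lit 307) (nat_lit 237)) (XT.nd (nat_lit 78) (nat_lit 0) (nat_lit 0) (XT.lf (nat_lit 0) (nat_lit 1989705273) (nat_lit 380) (nat_lit 4100528466) (nat_lit 456) (nat_lit 6096407694) (nat_lit 121) (nat_lit 5) (nat_lit 126) (nat_lit 5) (nat_lit 127) (nat_lit 5) (nat_lit 357) (nat_lit 307) (nat_lit 236)) (XT.lf (nat_lit 0) (nat_lit 9044877248)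 (nat_lit 456) (nat_lit 3087610714) (nat_lit 76) (nat_lit 267263095) (nat_lit 121) (nat_lit 5) (nat_lit 127) (nat_lit 5) (nat_lit 122) (nat_lit 5) (nat_lit 358) (nat_lit 307) (nat_lit 235))))) (XT.nd (nat_lit 234) (nat_lit 684) (nat_lit 0) (XT.nd (nat_lit 78) (nat_lit 380) (nat_lit 0) (XT.lf (nat_lit 0) (nat_lit 4235913125) (nat_lit 304) (nat_lit 7904290663) (nat_lit 380) (nat_lit 477501975) (nat_lit 117) (nat_lit 5) (nat_lit 121) (nat_lit 5) (nat_lit 122) (nat_lit 5) (nat_lit 359) (nat_lit 307) (nat_lit 234)) (XT.nd (nat_lit 78) (nat_lit 304) (nat_lit 0) (XT.lf (nat_lit 0) (nat_lit 2440053533) (nat_lit 380) (nat_lit 1064363937) (nat_lit 76) (nat_lit 9337005716) (nat_lit 116) (nat_lit 5) (nat_lit 121) (nat_lit 5) (nat_lit 117) (nat_lit 5) (nat_lit 360) (nat_lit 307) (nat_lit 233)) (XT.lf (nat_lit 0) (nat_lit 5480726037) (nat_lit 380) (nat_lit 6525453086) (nat_lit 76) (nat_lit 1064187538) (nat_lit 112) (nat_lit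 5) (nat_lit 117) (nat_lit 5) (nat_lit 113) (nat_lit 5) (nat_lit 361) (nat_lit 307) (nat_lit 232)))) (XT.nd (nat_lit 156) (nat_lit 380) (nat_lit 0) (XT.nd (nat_lit 78) (nat_lit 0) (nat_lit 0) (XT.lf (nat_lit 0) (nat_lit 1043528152) (nat_lit 304) (nat_lit 7596737401) (nat_lit 380) (nat_lit 4665095127) (nat_lit 108) (nat_lit 5) (nat_lit 112) (nat_lit 5) (nat_lit 113) (nat_lit 5) (nat_lit 362) (nat_lit 307) (nat_lit 231)) (XT.lf (nat_lit 0) (nat_lit 8933277862) (nat_lit 304) (nat_lit 2999700391) (nat_lit 380) (nat_lit 1613285958) (nat_lit 108) (nat_lit 5) (nat_lit 112) (nat_lit 5) (nat_lit 113) (nat_lit 5) (nat_lit 363) (nat_lit 307) (nat_lit 230))) (XT.nd (nat_lit 78) (nat_lit 0) (nat_lit 0) (XT.lf (nat_lit 0) (nat_lit 1521738712) (nat_lit 380) (nat_lit 10535768255) (nat_lit 76) (nat_lit 1735811739) (nat_lit 103) (nat_lit 5) (nat_lit 108) (nat_lit 5) (nat_lit 104) (nat_lit 5) (nat_lit 364) (nat_lit 307) (nat_lit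 229)) (XT.lf (nat_lit 0) (nat_lit 4768441063) (nat_lit 380) (nat_lit 2673504348) (nat_lit 76) (nat_lit 6603869004) (nat_lit 103) (nat_lit 5) (nat_lit 108) (nat_lit 5) (nat_lit 104) (nat_lit 5) (nat_lit 365) (nat_lit 307) (nat_lit 228)))))) (XT.nd (nat_lit 468) (nat_lit 1064) (nat_lit 0) (XT.nd (nat_lit 234) (nat_lit 532) (nat_lit 0) (XT.nd (nat_lit 78) (nat_lit 380) (nat_lit 0) (XT.lf (nat_lit 0) (nat_lit 5493230193) (nat_lit 228) (nat_lit 2646205047) (nat_lit 304) (nat_lit 6165653074) (nat_lit 100) (nat_lit 5) (nat_lit 103) (nat_lit 5) (nat_lit 104) (nat_lit 5) (nat_lit 366) (nat_lit 307) (nat_lit 227)) (XT.nd (nat_lit 78) (nat_lit 380) (nat_lit 0) (XT.lf (nat_lit 0) (nat_lit 11635221306) (nat_lit 304) (nat_lit 672737710) (nat_lit 76) (nat_lit 2263481304) (nat_lit 100) (nat_lit 5) (nat_lit 104) (nat_lit 5) (nat_lit 101) (nat_lit 5) (nat_lit 367) (nat_lit 307) (nat_lit 226)) (XT.lf (nat_lit 0) (nat_lit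 459497620) (nat_lit 380) (nat_lit 7049203450) (nat_lit 76) (nat_lit 7334668159) (nat_lit 95) (nat_lit 5) (nat_lit 100) (nat_lit 5) (nat_lit 96) (nat_lit 5) (nat_lit 368) (nat_lit 307) (nat_lit 225)))) (XT.nd (nat_lit 78) (nat_lit 304) (nat_lit 0) (XT.lf (nat_lit 0) (nat_lit 1365251321) (nat_lit 228) (nat_lit 2528016748) (nat_lit 304) (nat_lit 11229468791) (nat_lit 92) (nat_lit 5) (nat_lit 95) (nat_lit 5) (nat_lit 96) (nat_lit 5) (nat_lit 369) (nat_lit 307) (nat_lit 224)) (XT.nd (nat_lit 78) (nat_lit 304) (nat_lit 0) (XT.lf (nat_lit 0) (nat_lit 7502401499) (nat_lit 304) (nat_lit 5295536286) (nat_lit 76) (nat_lit 2610385903) (nat_lit 92) (nat_lit 5) (nat_lit 96) (nat_lit 5) (nat_lit 93) (nat_lit 5) (nat_lit 370) (nat_lit 307) (nat_lit 223)) (XT.lf (nat_lit 0) (nat_lit 3425077059) (nat_lit 304) (nat_lit 7828849838) (nat_lit 380) (nat_lit 4447536096) (nat_lit 88) (nat_lit 5) (nat_lit 92) (nat_lit 5) (nat_lit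 93) (nat_lit 5) (nat_lit 371) (nat_lit 307) (nat_lit 222))))) (XT.nd (nat_lit 234) (nat_lit 760) (nat_lit 0) (XT.nd (nat_lit 78) (nat_lit 304) (nat_lit 0) (XT.lf (nat_lit 0) (nat_lit 12479224748) (nat_lit 304) (nat_lit 2668754071) (nat_lit 380) (nat_lit 854526400) (nat_lit 88) (nat_lit 5) (nat_lit 92) (nat_lit 5) (nat_lit 93) (nat_lit 5) (nat_lit 372) (nat_lit 307) (nat_lit 221)) (XT.nd (nat_lit 78) (nat_lit 0) (nat_lit 0) (XT.lf (nat_lit 0) (nat_lit 2847024479) (nat_lit 304) (nat_lit 10799899817) (nat_lit 76) (nat_lit 2663152553) (nat_lit 84) (nat_lit 5) (nat_lit 88) (nat_lit 5) (nat_lit 85) (nat_lit 5) (nat_lit 373) (nat_lit 307) (nat_lit 220)) (XT.lf (nat_lit 0) (nat_lit 6681960935) (nat_lit 304) (nat_lit 1810429962) (nat_lit 76) (nat_lit 8133052957) (nat_lit 84) (nat_lit 5) (nat_lit 88) (nat_lit 5) (nat_lit 85) (nat_lit 5) (nat_lit 374) (nat_lit 307) (nat_lit 219)))) (XT.nd (nat_lit 156) (nat_lit 532)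 (nat_lit 0) (XT.nd (nat_lit 78) (nat_lit 0) (nat_lit 0) (XT.lf (nat_lit 0) (nat_lit 7561076053) (nat_lit 228) (nat_lit 3121376745) (nat_lit 304) (nat_lit 6266311108) (nat_lit 81) (nat_lit 5) (nat_lit 84) (nat_lit 5) (nat_lit 85) (nat_lit 5) (nat_lit 375) (nat_lit 307) (nat_lit 218)) (XT.lf (nat_lit 0) (nat_lit 14822607702) (nat_lit 304) (nat_lit 89135489) (nat_lit 76) (nat_lit 2369457963) (nat_lit 81) (nat_lit 5) (nat_lit 85) (nat_lit 5) (nat_lit 82) (nat_lit 5) (nat_lit 376) (nat_lit 307) (nat_lit 217))) (XT.nd (nat_lit 78) (nat_lit 228) (nat_lit 0) (XT.lf (nat_lit 0) (nat_lit 1537743334) (nat_lit 304) (nat_lit 8024983148) (nat_lit 76) (nat_lit 8057381389) (nat_lit 77) (nat_lit 5) (nat_lit 81) (nat_lit 5) (nat_lit 78) (nat_lit 5) (nat_lit 377) (nat_lit 307) (nat_lit 216)) (XT.lf (nat_lit 0) (nat_lit 1574510925) (nat_lit 228) (nat_lit 4024820148) (nat_lit 304) (nat_lit 12369283604) (nat_lit 74) (nat_lit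 5) (nat_lit 77) (nat_lit 5) (nat_lit 78) (nat_lit 5) (nat_lit 378) (nat_lit 307) (nat_lit 215))))))) (XT.nd (nat_lit 1014) (nat_lit 1216) (nat_lit 0) (XT.nd (nat_lit 468) (nat_lit 684) (nat_lit 0) (XT.nd (nat_lit 234) (nat_lit 456) (nat_lit 0) (XT.nd (nat_lit 78) (nat_lit 152) (nat_lit 0) (XT.lf (nat_lit 0) (nat_lit 9859644412) (nat_lit 304) (nat_lit 6750214314) (nat_lit 76) (nat_lit 1715417880) (nat_lit 74) (nat_lit 5) (nat_lit 78) (nat_lit 5) (nat_lit 75) (nat_lit 5) (nat_lit 379) (nat_lit 307) (nat_lit 214)) (XT.nd (nat_lit 78) (nat_lit 0) (nat_lit 0) (XT.lf (nat_lit 0) (nat_lit 3171417422) (nat_lit 152) (nat_lit 11126196985) (nat_lit 228) (nat_lit 4393534645) (nat_lit 72) (nat_lit 5) (nat_lit 74) (nat_lit 5) (nat_lit 75) (nat_lit 5) (nat_lit 380) (nat_lit 307) (nat_lit 213)) (XT.lf (nat_lit 0) (nat_lit 13495789945) (nat_lit 152) (nat_lit 5420886257) (nat_lit 228) (nat_lit 149888786) (nat_lit 72) (nat_lit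 5) (nat_lit 74) (nat_lit 5) (nat_lit 75) (nat_lit 5) (nat_lit 381) (nat_lit 307) (nat_lit 212)))) (XT.nd (nat_lit 78) (nat_lit 152) (nat_lit 0) (XT.lf (nat_lit 0) (nat_lit 4169110828) (nat_lit 304) (nat_lit 14761397417) (nat_lit 76) (nat_lit 520611078) (nat_lit 68) (nat_lit 5) (nat_lit 72) (nat_lit 5) (nat_lit 69) (nat_lit 5) (nat_lit 382) (nat_lit 307) (nat_lit 211)) (XT.nd (nat_lit 78) (nat_lit 152) (nat_lit 0) (XT.lf (nat_lit 0) (nat_lit 8705470998) (nat_lit 304) (nat_lit 4561866311) (nat_lit 76) (nat_lit 6577109759) (nat_lit 68) (nat_lit 5) (nat_lit 72) (nat_lit 5) (nat_lit 69) (nat_lit 5) (nat_lit 383) (nat_lit 307) (nat_lit 210)) (XT.lf (nat_lit 0) (nat_lit 6029403506) (nat_lit 152) (nat_lit 7387370149) (nat_lit 228) (nat_lit 6831640682) (nat_lit 66) (nat_lit 5) (nat_lit 68) (nat_lit 5) (nat_lit 69) (nat_lit 5) (nat_lit 384) (nat_lit 307) (nat_lit 209))))) (XT.nd (nat_lit 234) (nat_lit 380) (nat_lit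 0) (XT.nd (nat_lit 78) (nat_lit 304) (nat_lit 0) (XT.lf (nat_lit 0) (nat_lit 17000335378) (nat_lit 152) (nat_lit 1296292128) (nat_lit 228) (nat_lit 2367061843) (nat_lit 66) (nat_lit 5) (nat_lit 68) (nat_lit 5) (nat_lit 69) (nat_lit 5) (nat_lit 385) (nat_lit 307) (nat_lit 208)) (XT.nd (nat_lit 78) (nat_lit 0) (nat_lit 0) (XT.lf (nat_lit 0) (nat_lit 2288214829) (nat_lit 304) (nat_lit 13838959185) (nat_lit 76) (nat_lit 4960600766) (nat_lit 62) (nat_lit 5) (nat_lit 66) (nat_lit 5) (nat_lit 63) (nat_lit 5) (nat_lit 386) (nat_lit 307) (nat_lit 207)) (XT.lf (nat_lit 0) (nat_lit 7067400029) (nat_lit 304) (nat_lit 3027834889) (nat_lit 76) (nat_lit 11427694651) (nat_lit 62) (nat_lit 5) (nat_lit 66) (nat_lit 5) (nat_lit 63) (nat_lit 5) (nat_lit 387) (nat_lit 307) (nat_lit 206)))) (XT.nd (nat_lit 156) (nat_lit 228) (nat_lit 0) (XT.nd (nat_lit 78) (nat_lit 0) (nat_lit 0) (XT.lf (nat_lit 0) (nat_lit 8238116108) (nat_lit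 152) (nat_lit 3813201765) (nat_lit 228) (nat_lit 9917984936) (nat_lit 60) (nat_lit 5) (nat_lit 62) (nat_lit 5) (nat_lit 63) (nat_lit 5) (nat_lit 388) (nat_lit 307) (nat_lit 205)) (XT.lf (nat_lit 0) (nat_lit 17223454468) (nat_lit 228) (nat_lit 2580262186) (nat_lit 76) (nat_lit 2624193946) (nat_lit 60) (nat_lit 5) (nat_lit 63) (nat_lit 5) (nat_lit 61) (nat_lit 5) (nat_lit 389) (nat_lit 307) (nat_lit 204))) (XT.nd (nat_lit 78) (nat_lit 76) (nat_lit 0) (XT.lf (nat_lit 0) (nat_lit 9013833549) (nat_lit 152) (nat_lit 13644118465) (nat_lit 228) (nat_lit 239112967) (nat_lit 58) (nat_lit 5) (nat_lit 60) (nat_lit 5) (nat_lit 61) (nat_lit 5) (nat_lit 390) (nat_lit 307) (nat_lit 203)) (XT.lf (nat_lit 0) (nat_lit 4789215567) (nat_lit 228) (nat_lit 2447539308) (nat_lit 76) (nat_lit 16141862507) (nat_lit 57) (nat_lit 5) (nat_lit 60) (nat_lit 5) (nat_lit 58) (nat_lit 5) (nat_lit 391) (nat_lit 307) (nat_lit 202)))))) (XT.nd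 (nat_lit 546) (nat_lit 532) (nat_lit 0) (XT.nd (nat_lit 234) (nat_lit 380) (nat_lit 0) (XT.nd (nat_lit 78) (nat_lit 152) (nat_lit 0) (XT.lf (nat_lit 0) (nat_lit 9485257671) (nat_lit 152) (nat_lit 552852178) (nat_lit 228) (nat_lit 13834203729) (nat_lit 55) (nat_lit 5) (nat_lit 57) (nat_lit 5) (nat_lit 58) (nat_lit 5) (nat_lit 392) (nat_lit 307) (nat_lit 201)) (XT.nd (nat_lit 78) (nat_lit 152) (nat_lit 0) (XT.lf (nat_lit 0) (nat_lit 15513734683) (nat_lit 228) (nat_lit 2643766914) (nat_lit 76) (nat_lit 6221244937) (nat_lit 55) (nat_lit 5) (nat_lit 58) (nat_lit 5) (nat_lit 56) (nat_lit 5) (nat_lit 393) (nat_lit 307) (nat_lit 200)) (XT.lf (nat_lit 0) (nat_lit 9605839231) (nat_lit 152) (nat_lit 11629523092) (nat_lit 228) (nat_lit 3662561810) (nat_lit 53) (nat_lit 5) (nat_lit 55) (nat_lit 5) (nat_lit 56) (nat_lit 5) (nat_lit 394) (nat_lit 307) (nat_lit 199)))) (XT.nd (nat_lit 156) (nat_lit 152) (nat_lit 0) (XT.nd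 (nat_lit 78) (nat_lit 152) (nat_lit 0) (XT.lf (nat_lit 0) (nat_lit 1673793197) (nat_lit 228) (nat_lit 3199315726) (nat_lit 76) (nat_lit 20558754751) (nat_lit 52) (nat_lit 5) (nat_lit 55) (nat_lit 5) (nat_lit 53) (nat_lit 5) (nat_lit 395) (nat_lit 307) (nat_lit 198)) (XT.lf (nat_lit 0) (nat_lit 7192373602) (nat_lit 228) (nat_lit 16623948960) (nat_lit 76) (nat_lit 2161541855) (nat_lit 50) (nat_lit 5) (nat_lit 53) (nat_lit 5) (nat_lit 51) (nat_lit 5) (nat_lit 396) (nat_lit 307) (nat_lit 197))) (XT.nd (nat_lit 78) (nat_lit 152) (nat_lit 0) (XT.lf (nat_lit 0) (nat_lit 12941902067) (nat_lit 228) (nat_lit 4265790271) (nat_lit 76) (nat_lit 9330594390) (nat_lit 50) (nat_lit 5) (nat_lit 53) (nat_lit 5) (nat_lit 51) (nat_lit 5) (nat_lit 397) (nat_lit 307) (nat_lit 196)) (XT.lf (nat_lit 0) (nat_lit 8604540866) (nat_lit 152) (nat_lit 10327053999) (nat_lit 228) (nat_lit 8181899660) (nat_lit 48) (nat_lit 5) (nat_lit 50)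 (nat_lit 5) (nat_lit 51) (nat_lit 5) (nat_lit 398) (nat_lit 307) (nat_lit 195))))) (XT.nd (nat_lit 234) (nat_lit 304) (nat_lit 0) (XT.nd (nat_lit 78) (nat_lit 228) (nat_lit 0) (XT.lf (nat_lit 0) (nat_lit 21922208148) (nat_lit 152) (nat_lit 3206998633) (nat_lit 228) (nat_lit 2575908006) (nat_lit 48) (nat_lit 5) (nat_lit 50) (nat_lit 5) (nat_lit 51) (nat_lit 5) (nat_lit 399) (nat_lit 307) (nat_lit 194)) (XT.nd (nat_lit 78) (nat_lit 0) (nat_lit 0) (XT.lf (nat_lit 0) (nat_lit 3233122266) (nat_lit 228) (nat_lit 20939346877) (nat_lit 76) (nat_lit 4138177048) (nat_lit 45) (nat_lit 5) (nat_lit 48) (nat_lit 5) (nat_lit 46) (nat_lit 5) (nat_lit 400) (nat_lit 307) (nat_lit 193)) (XT.lf (nat_lit 0) (nat_lit 9240888131) (nat_lit 228) (nat_lit 7977573363) (nat_lit 76) (nat_lit 11712832604) (nat_lit 45) (nat_lit 5) (nat_lit 48) (nat_lit 5) (nat_lit 46) (nat_lit 5) (nat_lit 401) (nat_lit 307) (nat_lit 192)))) (XT.nd (nat_lit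 156) (nat_lit 152) (nat_lit 0) (XT.nd (nat_lit 78) (nat_lit 0) (nat_lit 0) (XT.lf (nat_lit 0) (nat_lit 5454418424) (nat_lit 152) (nat_lit 10012832984) (nat_lit 228) (nat_lit 14102161837) (nat_lit 43) (nat_lit 5) (nat_lit 45) (nat_lit 5) (nat_lit 46) (nat_lit 5) (nat_lit 402) (nat_lit 307) (nat_lit 191)) (XT.lf (nat_lit 0) (nat_lit 19428077906) (nat_lit 152) (nat_lit 2518989840) (nat_lit 228) (nat_lit 8277611011) (nat_lit 43) (nat_lit 5) (nat_lit 45) (nat_lit 5) (nat_lit 46) (nat_lit 5) (nat_lit 403) (nat_lit 307) (nat_lit 190))) (XT.nd (nat_lit 78) (nat_lit 76) (nat_lit 0) (XT.lf (nat_lit 0) (nat_lit 2903615779) (nat_lit 76) (nat_lit 25781963569) (nat_lit 152) (nat_lit 2212096442) (nat_lit 42) (nat_lit 5) (nat_lit 43) (nat_lit 5) (nat_lit 44) (nat_lit 4) (nat_lit 404) (nat_lit 307) (nat_lit 189)) (XT.lf (nat_lit 0) (nat_lit 4078118366) (nat_lit 152) (nat_lit 14440683752) (nat_lit 76) (nat_lit 13067254939)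 (nat_lit 41) (nat_lit 5) (nat_lit 43) (nat_lit 5) (nat_lit 42) (nat_lit 5) (nat_lit 405) (nat_lit 307) (nat_lit 188))))))))
noncomputable def xc125 : XT := (XT.nd (nat_lit 2106) (nat_lit 456) (nat_lit 0) (XT.nd (nat_lit 1014) (nat_lit 608) (nat_lit 0) (XT.nd (nat_lit 468) (nat_lit 304) (nat_lit 0) (XT.nd (nat_lit 234) (nat_lit 304) (nat_lit 0) (XT.nd (nat_lit 78) (nat_lit 152) (nat_lit 0) (XT.lf (nat_lit 0) (nat_lit 10499408990) (nat_lit 152) (nat_lit 526336185) (nat_lit 76) (nat_lit 21269084979) (nat_lit 41) (nat_lit 5) (nat_lit 43) (nat_lit 5) (nat_lit 42) (nat_lit 5) (nat_lit 406) (nat_lit 307) (nat_lit 187)) (XT.nd (nat_lit 78) (nat_lit 0) (nat_lit 0) (XT.lf (nat_lit 0) (nat_lit 14056701762) (nat_lit 152) (nat_lit 3178972087) (nat_lit 228) (nat_lit 15785524819) (nat_lit 39) (nat_lit 5) (nat_lit 41) (nat_lit 5) (nat_lit 42) (nat_lit 5) (nat_lit 407) (nat_lit 307) (nat_lit 186)) (XT.lf (nat_lit 0) (nat_lit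 24213796039) (nat_lit 228) (nat_lit 4751458238) (nat_lit 76) (nat_lit 4802913103) (nat_lit 39) (nat_lit 5) (nat_lit 42) (nat_lit 5) (nat_lit 40) (nat_lit 4) (nat_lit 408) (nat_lit 307) (nat_lit 185)))) (XT.nd (nat_lit 78) (nat_lit 228) (nat_lit 0) (XT.lf (nat_lit 0) (nat_lit 10029792194) (nat_lit 76) (nat_lit 21486997170) (nat_lit 152) (nat_lit 3017292126) (nat_lit 38) (nat_lit 5) (nat_lit 39) (nat_lit 5) (nat_lit 40) (nat_lit 4) (nat_lit 409) (nat_lit 307) (nat_lit 184)) (XT.nd (nat_lit 78) (nat_lit 152) (nat_lit 0) (XT.lf (nat_lit 0) (nat_lit 3679507947) (nat_lit 152) (nat_lit 10028297317) (nat_lit 76) (nat_lit 21613014637) (nat_lit 37) (nat_lit 5) (nat_lit 39) (nat_lit 5) (nat_lit 38) (nat_lit 5) (nat_lit 410) (nat_lit 307) (nat_lit 183)) (XT.lf (nat_lit 0) (nat_lit 4926437115) (nat_lit 152) (nat_lit 5625509164) (nat_lit 228) (nat_lit 25577258570) (nat_lit 35) (nat_lit 5) (nat_lit 37) (nat_lit 5) (nat_lit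 38) (nat_lit 5) (nat_lit 411) (nat_lit 307) (nat_lit 182))))) (XT.nd (nat_lit 234) (nat_lit 228) (nat_lit 0) (XT.nd (nat_lit 78) (nat_lit 76) (nat_lit 0) (XT.lf (nat_lit 0) (nat_lit 17746844049) (nat_lit 228) (nat_lit 16472214331) (nat_lit 76) (nat_lit 2739296297) (nat_lit 35) (nat_lit 5) (nat_lit 38) (nat_lit 5) (nat_lit 36) (nat_lit 4) (nat_lit 412) (nat_lit 307) (nat_lit 181)) (XT.nd (nat_lit 78) (nat_lit 76) (nat_lit 0) (XT.lf (nat_lit 0) (nat_lit 25201704933) (nat_lit 228) (nat_lit 1376651444) (nat_lit 76) (nat_lit 11232701001) (nat_lit 35) (nat_lit 5) (nat_lit 38) (nat_lit 5) (nat_lit 36) (nat_lit 4) (nat_lit 413) (nat_lit 307) (nat_lit 180)) (XT.lf (nat_lit 0) (nat_lit 14432823429) (nat_lit 76) (nat_lit 18574880751) (nat_lit 152) (nat_lit 5677814010) (nat_lit 34) (nat_lit 5) (nat_lit 35) (nat_lit 5) (nat_lit 36) (nat_lit 4) (nat_lit 414) (nat_lit 307) (nat_lit 179)))) (XT.nd (nat_lit 156) (nat_lit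 0) (nat_lit 0) (XT.nd (nat_lit 78) (nat_lit 152) (nat_lit 0) (XT.lf (nat_lit 0) (nat_lit 1435962412) (nat_lit 152) (nat_lit 8875795835) (nat_lit 76) (nat_lit 29273950342) (nat_lit 33) (nat_lit 5) (nat_lit 35) (nat_lit 5) (nat_lit 34) (nat_lit 5) (nat_lit 415) (nat_lit 307) (nat_lit 178)) (XT.lf (nat_lit 0) (nat_lit 7023228489) (nat_lit 152) (nat_lit 1682418878) (nat_lit 228) (nat_lit 31803874098) (nat_lit 31) (nat_lit 5) (nat_lit 33) (nat_lit 5) (nat_lit 34) (nat_lit 5) (nat_lit 416) (nat_lit 307) (nat_lit 177))) (XT.nd (nat_lit 78) (nat_lit 0) (nat_lit 0) (XT.lf (nat_lit 0) (nat_lit 16342347037) (nat_lit 228) (nat_lit 17967400828) (nat_lit 76) (nat_lit 7146834744) (nat_lit 31) (nat_lit 5) (nat_lit 34) (nat_lit 5) (nat_lit 32) (nat_lit 4) (nat_lit 417) (nat_lit 307) (nat_lit 176)) (XT.lf (nat_lit 0) (nat_lit 24214263620) (nat_lit 228) (nat_lit 2019071012) (nat_lit 76) (nat_lit 16198539038) (nat_lit 31)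 (nat_lit 5) (nat_lit 34) (nat_lit 5) (nat_lit 32) (nat_lit 4) (nat_lit 418) (nat_lit 307) (nat_lit 175)))))) (XT.nd (nat_lit 546) (nat_lit 228) (nat_lit 0) (XT.nd (nat_lit 234) (nat_lit 76) (nat_lit 0) (XT.nd (nat_lit 78) (nat_lit 228) (nat_lit 0) (XT.lf (nat_lit 0) (nat_lit 14675169763) (nat_lit 76) (nat_lit 17777999996) (nat_lit 152) (nat_lit 10979330257) (nat_lit 30) (nat_lit 5) (nat_lit 31) (nat_lit 5) (nat_lit 32) (nat_lit 4) (nat_lit 419) (nat_lit 307) (nat_lit 174)) (XT.nd (nat_lit 78) (nat_lit 228) (nat_lit 0) (XT.lf (nat_lit 0) (nat_lit 31892907722) (nat_lit 76) (nat_lit 9056607526) (nat_lit 152) (nat_lit 3513323209) (nat_lit 30) (nat_lit 5) (nat_lit 31) (nat_lit 5) (nat_lit 32) (nat_lit 4) (nat_lit 420) (nat_lit 307) (nat_lit 173)) (XT.lf (nat_lit 0) (nat_lit 4124896083) (nat_lit 228) (nat_lit 41396929293) (nat_lit 76) (nat_lit 166588) (nat_lit 27) (nat_lit 5) (nat_lit 30) (nat_lit 5) (nat_lit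 28) (nat_lit 4) (nat_lit 421) (nat_lit 307) (nat_lit 172)))) (XT.nd (nat_lit 156) (nat_lit 76) (nat_lit 0) (XT.nd (nat_lit 78) (nat_lit 0) (nat_lit 0) (XT.lf (nat_lit 0) (nat_lit 12129618395) (nat_lit 228) (nat_lit 25174653925) (nat_lit 76) (nat_lit 9301366419) (nat_lit 27) (nat_lit 5) (nat_lit 30) (nat_lit 5) (nat_lit 28) (nat_lit 4) (nat_lit 422) (nat_lit 307) (nat_lit 171)) (XT.lf (nat_lit 0) (nat_lit 20364883321) (nat_lit 228) (nat_lit 8483581586) (nat_lit 76) (nat_lit 18873619287) (nat_lit 27) (nat_lit 5) (nat_lit 30) (nat_lit 5) (nat_lit 28) (nat_lit 4) (nat_lit 423) (nat_lit 307) (nat_lit 170))) (XT.nd (nat_lit 78) (nat_lit 0) (nat_lit 0) (XT.lf (nat_lit 0) (nat_lit 8863837552) (nat_lit 76) (nat_lit 20059253800) (nat_lit 152) (nat_lit 19946656374) (nat_lit 26) (nat_lit 5) (nat_lit 27) (nat_lit 5) (nat_lit 28) (nat_lit 4) (nat_lit 424) (nat_lit 307) (nat_lit 169)) (XT.lf (nat_lit 0) (nat_lit 26888403711)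 (nat_lit 76) (nat_lit 10926096274) (nat_lit 152) (nat_lit 12235048782) (nat_lit 26) (nat_lit 5) (nat_lit 27) (nat_lit 5) (nat_lit 28) (nat_lit 4) (nat_lit 425) (nat_lit 307) (nat_lit 168))))) (XT.nd (nat_lit 234) (nat_lit 76) (nat_lit 0) (XT.nd (nat_lit 78) (nat_lit 152) (nat_lit 0) (XT.lf (nat_lit 0) (nat_lit 45437026600) (nat_lit 76) (nat_lit 1526679440) (nat_lit 152) (nat_lit 4301307337) (nat_lit 26) (nat_lit 5) (nat_lit 27) (nat_lit 5) (nat_lit 28) (nat_lit 4) (nat_lit 426) (nat_lit 307) (nat_lit 167)) (XT.nd (nat_lit 78) (nat_lit 0) (nat_lit 0) (XT.lf (nat_lit 0) (nat_lit 3983362657) (nat_lit 152) (nat_lit 40382565364) (nat_lit 76) (nat_lit 8144245600) (nat_lit 24) (nat_lit 5) (nat_lit 26) (nat_lit 5) (nat_lit 25) (nat_lit 4) (nat_lit 427) (nat_lit 307) (nat_lit 166)) (XT.lf (nat_lit 0) (nat_lit 12495926071) (nat_lit 152) (nat_lit 23124267914) (nat_lit 76) (nat_lit 18169244005) (nat_lit 24) (nat_lit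 5) (nat_lit 26) (nat_lit 5) (nat_lit 25) (nat_lit 4) (nat_lit 428) (nat_lit 307) (nat_lit 165)))) (XT.nd (nat_lit 156) (nat_lit 0) (nat_lit 0) (XT.nd (nat_lit 78) (nat_lit 76) (nat_lit 0) (XT.lf (nat_lit 0) (nat_lit 21255376849) (nat_lit 152) (nat_lit 5364142331) (nat_lit 76) (nat_lit 28487816859) (nat_lit 24) (nat_lit 5) (nat_lit 26) (nat_lit 5) (nat_lit 25) (nat_lit 4) (nat_lit 429) (nat_lit 307) (nat_lit 164)) (XT.lf (nat_lit 0) (nat_lit 13170330528) (nat_lit 76) (nat_lit 17225639626) (nat_lit 152) (nat_lit 26065251137) (nat_lit 23) (nat_lit 5) (nat_lit 24) (nat_lit 5) (nat_lit 25) (nat_lit 4) (nat_lit 430) (nat_lit 307) (nat_lit 163))) (XT.nd (nat_lit 78) (nat_lit 0) (nat_lit 0) (XT.lf (nat_lit 0) (nat_lit 32355491695) (nat_lit 76) (nat_lit 7501307552) (nat_lit 152) (nat_lit 17997544314) (nat_lit 23) (nat_lit 5) (nat_lit 24) (nat_lit 5) (nat_lit 25) (nat_lit 4) (nat_lit 431) (nat_lit 307) (nat_lit 162))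 (XT.lf (nat_lit 0) (nat_lit 49617647815) (nat_lit 152) (nat_lit 7212256452) (nat_lit 0) (nat_lit 2458870367) (nat_lit 23) (nat_lit 5) (nat_lit 25) (nat_lit 4) (nat_lit 23) (nat_lit 4) (nat_lit 432) (nat_lit 307) (nat_lit 161))))))) (XT.nd (nat_lit 37128) (nat_lit 0) (nat_lit 21508) (XT.nd (nat_lit 468) (nat_lit 228) (nat_lit 0) (XT.nd (nat_lit 234) (nat_lit 76) (nat_lit 0) (XT.nd (nat_lit 78) (nat_lit 76) (nat_lit 0) (XT.lf (nat_lit 0) (nat_lit 11763623634) (nat_lit 76) (nat_lit 48087301357) (nat_lit 76) (nat_lit 909926497) (nat_lit 22) (nat_lit 4) (nat_lit 23) (nat_lit 5) (nat_lit 23) (nat_lit 4) (nat_lit 433) (nat_lit 307) (nat_lit 160)) (XT.nd (nat_lit 78) (nat_lit 0) (nat_lit 0) (XT.lf (nat_lit 0) (nat_lit 8021588672) (nat_lit 152) (nat_lit 30911605593) (nat_lit 76) (nat_lit 23339582909) (nat_lit 21) (nat_lit 5) (nat_lit 23) (nat_lit 5) (nat_lit 22) (nat_lit 4) (nat_lit 434) (nat_lit 307) (nat_lit 159))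 (XT.lf (nat_lit 0) (nat_lit 17195249620) (nat_lit 152) (nat_lit 12306603712) (nat_lit 76) (nat_lit 34328163219) (nat_lit 21) (nat_lit 5) (nat_lit 23) (nat_lit 5) (nat_lit 22) (nat_lit 4) (nat_lit 435) (nat_lit 307) (nat_lit 158)))) (XT.nd (nat_lit 78) (nat_lit 0) (nat_lit 0) (XT.lf (nat_lit 0) (nat_lit 6978966123) (nat_lit 76) (nat_lit 19724948078) (nat_lit 152) (nat_lit 38728265931) (nat_lit 20) (nat_lit 5) (nat_lit 21) (nat_lit 5) (nat_lit 22) (nat_lit 4) (nat_lit 436) (nat_lit 307) (nat_lit 157)) (XT.nd (nat_lit 78) (nat_lit 0) (nat_lit 0) (XT.lf (nat_lit 0) (nat_lit 27081744464) (nat_lit 76) (nat_lit 9533155894) (nat_lit 152) (nat_lit 30463997228) (nat_lit 20) (nat_lit 5) (nat_lit 21) (nat_lit 5) (nat_lit 22) (nat_lit 4) (nat_lit 437) (nat_lit 307) (nat_lit 156)) (XT.lf (nat_lit 0) (nat_lit 46825425583) (nat_lit 152) (nat_lit 21010066463) (nat_lit 0) (nat_lit 939459025) (nat_lit 20) (nat_lit 5) (nat_lit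 22) (nat_lit 4) (nat_lit 20) (nat_lit 4) (nat_lit 438) (nat_lit 307) (nat_lit 155))))) (XT.nd (nat_lit 234) (nat_lit 76) (nat_lit 0) (XT.nd (nat_lit 78) (nat_lit 152) (nat_lit 0) (XT.lf (nat_lit 0) (nat_lit 57429799075) (nat_lit 152) (nat_lit 1560750756) (nat_lit 0) (nat_lit 11528711120) (nat_lit 20) (nat_lit 5) (nat_lit 22) (nat_lit 4) (nat_lit 20) (nat_lit 4) (nat_lit 439) (nat_lit 307) (nat_lit 154)) (XT.nd (nat_lit 78) (nat_lit 76) (nat_lit 0) (XT.lf (nat_lit 0) (nat_lit 18826805864) (nat_lit 76) (nat_lit 49699817177) (nat_lit 76) (nat_lit 3784048254) (nat_lit 19) (nat_lit 4) (nat_lit 20) (nat_lit 5) (nat_lit 20) (nat_lit 4) (nat_lit 440) (nat_lit 307) (nat_lit 153)) (XT.lf (nat_lit 0) (nat_lit 5696607526) (nat_lit 152) (nat_lit 34365909010) (nat_lit 76) (nat_lit 34091357301) (nat_lit 18) (nat_lit 5) (nat_lit 20) (nat_lit 5) (nat_lit 19) (nat_lit 4) (nat_lit 441) (nat_lit 307) (nat_lit 152)))) (XT.nd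 (nat_lit 156) (nat_lit 0) (nat_lit 0) (XT.nd (nat_lit 78) (nat_lit 76) (nat_lit 0) (XT.lf (nat_lit 0) (nat_lit 15379173351) (nat_lit 152) (nat_lit 14724138607) (nat_lit 76) (nat_lit 45948130825) (nat_lit 18) (nat_lit 5) (nat_lit 20) (nat_lit 5) (nat_lit 19) (nat_lit 4) (nat_lit 442) (nat_lit 307) (nat_lit 151)) (XT.lf (nat_lit 0) (nat_lit 5604344013) (nat_lit 76) (nat_lit 19795478493) (nat_lit 152) (nat_lit 52604688762) (nat_lit 17) (nat_lit 5) (nat_lit 18) (nat_lit 5) (nat_lit 19) (nat_lit 4) (nat_lit 443) (nat_lit 307) (nat_lit 150))) (XT.nd (nat_lit 78) (nat_lit 0) (nat_lit 0) (XT.lf (nat_lit 0) (nat_lit 26832726371) (nat_lit 76) (nat_lit 9030852887) (nat_lit 152) (nat_lit 44148318548) (nat_lit 17) (nat_lit 5) (nat_lit 18) (nat_lit 5) (nat_lit 19) (nat_lit 4) (nat_lit 444) (nat_lit 307) (nat_lit 149)) (XT.lf (nat_lit 0) (nat_lit 46654950611) (nat_lit 152) (nat_lit 33412886962) (nat_lit 0) (nat_lit 2011257935)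 (nat_lit 17) (nat_lit 5) (nat_lit 19) (nat_lit 4) (nat_lit 17) (nat_lit 4) (nat_lit 445) (nat_lit 307) (nat_lit 148)))))) (XT.nd (nat_lit 546) (nat_lit 1444) (nat_lit 0) (XT.nd (nat_lit 234) (nat_lit 1292) (nat_lit 0) (XT.nd (nat_lit 78) (nat_lit 0) (nat_lit 0) (XT.lf (nat_lit 0) (nat_lit 593892923) (nat_lit 0) (nat_lit 593892923) (nat_lit 532) (nat_lit 2170828486) (nat_lit 336) (nat_lit 5) (nat_lit 336) (nat_lit 3) (nat_lit 343) (nat_lit 3) (nat_lit 308) (nat_lit 308) (nat_lit 284)) (XT.nd (nat_lit 78) (nat_lit 0) (nat_lit 0) (XT.lf (nat_lit 0) (nat_lit 4459418482) (nat_lit 0) (nat_lit 50429088) (nat_lit 532) (nat_lit 2243202066) (nat_lit 336) (nat_lit 5) (nat_lit 336) (nat_lit 3) (nat_lit 343) (nat_lit 3) (nat_lit 309) (nat_lit 308) (nat_lit 283)) (XT.lf (nat_lit 76) (nat_lit 1004194044) (nat_lit 0) (nat_lit 5642876326) (nat_lit 608) (nat_lit 144784511) (nat_lit 337) (nat_lit 5) (nat_lit 336) (nat_lit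 5) (nat_lit 344) (nat_lit 5) (nat_lit 310) (nat_lit 308) (nat_lit 282)))) (XT.nd (nat_lit 156) (nat_lit 684) (nat_lit 0) (XT.nd (nat_lit 78) (nat_lit 0) (nat_lit 0) (XT.lf (nat_lit 0) (nat_lit 1920709301) (nat_lit 608) (nat_lit 2448394580) (nat_lit 684) (nat_lit 2463907398) (nat_lit 328) (nat_lit 5) (nat_lit 336) (nat_lit 5) (nat_lit 337) (nat_lit 5) (nat_lit 311) (nat_lit 308) (nat_lit 281)) (XT.lf (nat_lit 76) (nat_lit 964630790) (nat_lit 0) (nat_lit 3011826709) (nat_lit 684) (nat_lit 2901036528) (nat_lit 329) (nat_lit 5) (nat_lit 328) (nat_lit 5) (nat_lit 337) (nat_lit 5) (nat_lit 312) (nat_lit 308) (nat_lit 280))) (XT.nd (nat_lit 78) (nat_lit 684) (nat_lit 0) (XT.lf (nat_lit 76) (nat_lit 4486857323) (nat_lit 0) (nat_lit 1555528764) (nat_lit 684) (nat_lit 882538526) (nat_lit 329) (nat_lit 5) (nat_lit 328) (nat_lit 5) (nat_lit 337) (nat_lit 5) (nat_lit 313) (nat_lit 308) (nat_lit 279)) (XT.lf (nat_lit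 76) (nat_lit 1107411473) (nat_lit 0) (nat_lit 1605665) (nat_lit 760) (nat_lit 5866405056) (nat_lit 320) (nat_lit 5) (nat_lit 319) (nat_lit 5) (nat_lit 329) (nat_lit 5) (nat_lit 314) (nat_lit 308) (nat_lit 278))))) (XT.nd (nat_lit 234) (nat_lit 1520) (nat_lit 0) (XT.nd (nat_lit 78) (nat_lit 0) (nat_lit 0) (XT.lf (nat_lit 0) (nat_lit 3110069809) (nat_lit 684) (nat_lit 2287596195) (nat_lit 760) (nat_lit 1630544676) (nat_lit 320) (nat_lit 5) (nat_lit 329) (nat_lit 5) (nat_lit 330) (nat_lit 5) (nat_lit 315) (nat_lit 308) (nat_lit 277)) (XT.nd (nat_lit 78) (nat_lit 0) (nat_lit 0) (XT.lf (nat_lit 76) (nat_lit 1382749757) (nat_lit 0) (nat_lit 3731085908) (nat_lit 760) (nat_lit 1970527653) (nat_lit 321) (nat_lit 5) (nat_lit 320) (nat_lit 5) (nat_lit 330) (nat_lit 5) (nat_lit 316) (nat_lit 308) (nat_lit 276)) (XT.lf (nat_lit 76) (nat_lit 5166087787) (nat_lit 0) (nat_lit 1965734818) (nat_lit 760) (nat_lit 11813855)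 (nat_lit 321) (nat_lit 5) (nat_lit 320) (nat_lit 5) (nat_lit 330) (nat_lit 5) (nat_lit 317) (nat_lit 308) (nat_lit 275)))) (XT.nd (nat_lit 156) (nat_lit 760) (nat_lit 0) (XT.nd (nat_lit 78) (nat_lit 0) (nat_lit 76) (XT.lf (nat_lit 76) (nat_lit 1830545999) (nat_lit 0) (nat_lit 85871840) (nat_lit 836) (nat_lit 5289250518) (nat_lit 311) (nat_lit 5) (nat_lit 310) (nat_lit 5) (nat_lit 321) (nat_lit 5) (nat_lit 318) (nat_lit 308) (nat_lit 274)) (XT.lf (nat_lit 0) (nat_lit 3874278640) (nat_lit 760) (nat_lit 1539597393) (nat_lit 836) (nat_lit 1856575229) (nat_lit 311) (nat_lit 5) (nat_lit 321) (nat_lit 5) (nat_lit 322) (nat_lit 5) (nat_lit 319) (nat_lit 308) (nat_lit 273))) (XT.nd (nat_lit 78) (nat_lit 836) (nat_lit 0) (XT.lf (nat_lit 76) (nat_lit 2412605369) (nat_lit 0) (nat_lit 3438297443) (nat_lit 836) (nat_lit 1487526588) (nat_lit 312) (nat_lit 5) (nat_lit 311) (nat_lit 5) (nat_lit 322) (nat_lit 5) (nat_lit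 320) (nat_lit 308) (nat_lit 272)) (XT.lf (nat_lit 0) (nat_lit 421500890) (nat_lit 836) (nat_lit 943285594) (nat_lit 912) (nat_lit 6044998289) (nat_lit 300) (nat_lit 5) (nat_lit 311) (nat_lit 5) (nat_lit 312) (nat_lit 5) (nat_lit 321) (nat_lit 308) (nat_lit 271))))))))
noncomputable def xc126 : XT := (XT.nd (nat_lit 2028) (nat_lit 5700) (nat_lit 0) (XT.nd (nat_lit 1014) (nat_lit 3800) (nat_lit 0) (XT.nd (nat_lit 468) (nat_lit 4180) (nat_lit 0) (XT.nd (nat_lit 234) (nat_lit 1976) (nat_lit 0) (XT.nd (nat_lit 78) (nat_lit 836) (nat_lit 0) (XT.lf (nat_lit 0) (nat_lit 2334913211) (nat_lit 836) (nat_lit 4330308924) (nat_lit 76) (nat_lit 818354587) (nat_lit 301) (nat_lit 5) (nat_lit 312) (nat_lit 5) (nat_lit 302) (nat_lit 5) (nat_lit 322) (nat_lit 308) (nat_lit 270)) (XT.nd (nat_lit 78) (nat_lit 836) (nat_lit 0) (XT.lf (nat_lit 0) (nat_lit 4268983231) (nat_lit 836) (nat_lit 226583284) (nat_lit 76) (nat_lit 3065164965)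 (nat_lit 301) (nat_lit 5) (nat_lit 312) (nat_lit 5) (nat_lit 302) (nat_lit 5) (nat_lit 323) (nat_lit 308) (nat_lit 269)) (XT.lf (nat_lit 0) (nat_lit 4034581605) (nat_lit 836) (nat_lit 2207143550) (nat_lit 912) (nat_lit 1399101580) (nat_lit 290) (nat_lit 5) (nat_lit 301) (nat_lit 5) (nat_lit 302) (nat_lit 5) (nat_lit 324) (nat_lit 308) (nat_lit 268)))) (XT.nd (nat_lit 78) (nat_lit 988) (nat_lit 0) (XT.lf (nat_lit 0) (nat_lit 492542838) (nat_lit 988) (nat_lit 7058839273) (nat_lit 76) (nat_lit 173238066) (nat_lit 277) (nat_lit 5) (nat_lit 290) (nat_lit 5) (nat_lit 278) (nat_lit 5) (nat_lit 325) (nat_lit 308) (nat_lit 267)) (XT.nd (nat_lit 78) (nat_lit 988) (nat_lit 0) (XT.lf (nat_lit 0) (nat_lit 2415331581) (nat_lit 988) (nat_lit 2752557840) (nat_lit 76) (nat_lit 2642588459) (nat_lit 277) (nat_lit 5) (nat_lit 290) (nat_lit 5) (nat_lit 278) (nat_lit 5) (nat_lit 326) (nat_lit 308) (nat_lit 266)) (XT.lf (nat_lit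 0) (nat_lit 1670312491) (nat_lit 988) (nat_lit 2687068032) (nat_lit 1064) (nat_lit 3542723789) (nat_lit 264) (nat_lit 5) (nat_lit 277) (nat_lit 5) (nat_lit 278) (nat_lit 5) (nat_lit 327) (nat_lit 308) (nat_lit 265))))) (XT.nd (nat_lit 234) (nat_lit 3040) (nat_lit 0) (XT.nd (nat_lit 78) (nat_lit 1140) (nat_lit 0) (XT.lf (nat_lit 0) (nat_lit 6237543385) (nat_lit 988) (nat_lit 94620069) (nat_lit 1064) (nat_lit 1661061023) (nat_lit 264) (nat_lit 5) (nat_lit 277) (nat_lit 5) (nat_lit 278) (nat_lit 5) (nat_lit 328) (nat_lit 308) (nat_lit 264)) (XT.nd (nat_lit 78) (nat_lit 0) (nat_lit 0) (XT.lf (nat_lit 0) (nat_lit 271962148) (nat_lit 1140) (nat_lit 5253672549) (nat_lit 76) (nat_lit 2563451025) (nat_lit 249) (nat_lit 5) (nat_lit 264) (nat_lit 5) (nat_lit 250) (nat_lit 5) (nat_lit 329) (nat_lit 308) (nat_lit 263)) (XT.lf (nat_lit 0) (nat_lit 2197280621) (nat_lit 1140) (nat_lit 650348869) (nat_lit 76) (nat_lit 5340705019)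 (nat_lit 249) (nat_lit 5) (nat_lit 264) (nat_lit 5) (nat_lit 250) (nat_lit 5) (nat_lit 330) (nat_lit 308) (nat_lit 262)))) (XT.nd (nat_lit 156) (nat_lit 684) (nat_lit 0) (XT.nd (nat_lit 78) (nat_lit 1216) (nat_lit 0) (XT.lf (nat_lit 0) (nat_lit 4127213825) (nat_lit 1140) (nat_lit 43156947) (nat_lit 1216) (nat_lit 4120524380) (nat_lit 234) (nat_lit 5) (nat_lit 249) (nat_lit 5) (nat_lit 250) (nat_lit 5) (nat_lit 331) (nat_lit 308) (nat_lit 261)) (XT.lf (nat_lit 0) (nat_lit 603967637) (nat_lit 1216) (nat_lit 5589883782) (nat_lit 1292) (nat_lit 2202979005) (nat_lit 218) (nat_lit 5) (nat_lit 234) (nat_lit 5) (nat_lit 235) (nat_lit 5) (nat_lit 332) (nat_lit 308) (nat_lit 260))) (XT.nd (nat_lit 78) (nat_lit 684) (nat_lit 0) (XT.lf (nat_lit 0) (nat_lit 5554507699) (nat_lit 1216) (nat_lit 2718386749) (nat_lit 1292) (nat_lit 233236329) (nat_lit 218) (nat_lit 5) (nat_lit 234) (nat_lit 5) (nat_lit 235) (nat_lit 5)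 (nat_lit 333) (nat_lit 308) (nat_lit 259)) (XT.lf (nat_lit 0) (nat_lit 1735871385) (nat_lit 684) (nat_lit 6609570328) (nat_lit 76) (nat_lit 273522155) (nat_lit 209) (nat_lit 5) (nat_lit 218) (nat_lit 5) (nat_lit 210) (nat_lit 5) (nat_lit 334) (nat_lit 308) (nat_lit 258)))))) (XT.nd (nat_lit 468) (nat_lit 2052) (nat_lit 0) (XT.nd (nat_lit 234) (nat_lit 1216) (nat_lit 0) (XT.nd (nat_lit 78) (nat_lit 532) (nat_lit 0) (XT.lf (nat_lit 0) (nat_lit 3770617246) (nat_lit 684) (nat_lit 1629742682) (nat_lit 76) (nat_lit 3334445144) (nat_lit 209) (nat_lit 5) (nat_lit 218) (nat_lit 5) (nat_lit 210) (nat_lit 5) (nat_lit 335) (nat_lit 308) (nat_lit 257)) (XT.nd (nat_lit 78) (nat_lit 0) (nat_lit 0) (XT.lf (nat_lit 0) (nat_lit 3523892323) (nat_lit 532) (nat_lit 2331957165) (nat_lit 608) (nat_lit 2998617812) (nat_lit 202) (nat_lit 5) (nat_lit 209) (nat_lit 5) (nat_lit 210) (nat_lit 5) (nat_lit 336) (nat_lit 308) (nat_lit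 256)) (XT.lf (nat_lit 0) (nat_lit 7984661542) (nat_lit 608) (nat_lit 165056176) (nat_lit 76) (nat_lit 828599251) (nat_lit 202) (nat_lit 5) (nat_lit 210) (nat_lit 5) (nat_lit 203) (nat_lit 5) (nat_lit 337) (nat_lit 308) (nat_lit 255)))) (XT.nd (nat_lit 78) (nat_lit 532) (nat_lit 0) (XT.lf (nat_lit 0) (nat_lit 1081507247) (nat_lit 684) (nat_lit 3925913406) (nat_lit 76) (nat_lit 4097250347) (nat_lit 193) (nat_lit 5) (nat_lit 202) (nat_lit 5) (nat_lit 194) (nat_lit 5) (nat_lit 338) (nat_lit 308) (nat_lit 254)) (XT.nd (nat_lit 78) (nat_lit 0) (nat_lit 0) (XT.lf (nat_lit 0) (nat_lit 1425098234) (nat_lit 532) (nat_lit 1747321566) (nat_lit 608) (nat_lit 6062922574) (nat_lit 186) (nat_lit 5) (nat_lit 193) (nat_lit 5) (nat_lit 194) (nat_lit 5) (nat_lit 339) (nat_lit 308) (nat_lit 253)) (XT.lf (nat_lit 0) (nat_lit 5340434110) (nat_lit 608) (nat_lit 2412657611) (nat_lit 76) (nat_lit 1616436045) (nat_lit 186) (nat_lit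 5) (nat_lit 194) (nat_lit 5) (nat_lit 187) (nat_lit 5) (nat_lit 340) (nat_lit 308) (nat_lit 252))))) (XT.nd (nat_lit 234) (nat_lit 988) (nat_lit 0) (XT.nd (nat_lit 78) (nat_lit 532) (nat_lit 0) (XT.lf (nat_lit 0) (nat_lit 3147127070) (nat_lit 532) (nat_lit 4433968424) (nat_lit 608) (nat_lit 1926439404) (nat_lit 179) (nat_lit 5) (nat_lit 186) (nat_lit 5) (nat_lit 187) (nat_lit 5) (nat_lit 341) (nat_lit 308) (nat_lit 251)) (XT.nd (nat_lit 78) (nat_lit 456) (nat_lit 0) (XT.lf (nat_lit 0) (nat_lit 219618483) (nat_lit 608) (nat_lit 772552915) (nat_lit 76) (nat_lit 8657915011) (nat_lit 178) (nat_lit 5) (nat_lit 186) (nat_lit 5) (nat_lit 179) (nat_lit 5) (nat_lit 342) (nat_lit 308) (nat_lit 250)) (XT.lf (nat_lit 0) (nat_lit 2426289193) (nat_lit 532) (nat_lit 4802368605) (nat_lit 76) (nat_lit 2566658247) (nat_lit 172) (nat_lit 5) (nat_lit 179) (nat_lit 5) (nat_lit 173) (nat_lit 5) (nat_lit 343) (nat_lit 308) (nat_lit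 249)))) (XT.nd (nat_lit 156) (nat_lit 532) (nat_lit 0) (XT.nd (nat_lit 78) (nat_lit 0) (nat_lit 0) (XT.lf (nat_lit 0) (nat_lit 967946508) (nat_lit 456) (nat_lit 3720428499) (nat_lit 532) (nat_lit 5256872773) (nat_lit 166) (nat_lit 5) (nat_lit 172) (nat_lit 5) (nat_lit 173) (nat_lit 5) (nat_lit 344) (nat_lit 308) (nat_lit 248)) (XT.lf (nat_lit 0) (nat_lit 6966620841) (nat_lit 456) (nat_lit 63091076) (nat_lit 532) (nat_lit 3069644923) (nat_lit 166) (nat_lit 5) (nat_lit 172) (nat_lit 5) (nat_lit 173) (nat_lit 5) (nat_lit 345) (nat_lit 308) (nat_lit 247))) (XT.nd (nat_lit 78) (nat_lit 76) (nat_lit 0) (XT.lf (nat_lit 0) (nat_lit 2864477353) (nat_lit 456) (nat_lit 6603869436) (nat_lit 532) (nat_lit 788951063) (nat_lit 160) (nat_lit 5) (nat_lit 166) (nat_lit 5) (nat_lit 167) (nat_lit 5) (nat_lit 346) (nat_lit 308) (nat_lit 246)) (XT.lf (nat_lit 0) (nat_lit 1526481026) (nat_lit 532) (nat_lit 1372428983) (nat_lit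 76) (nat_lit 7520733555) (nat_lit 159) (nat_lit 5) (nat_lit 166) (nat_lit 5) (nat_lit 160) (nat_lit 5) (nat_lit 347) (nat_lit 308) (nat_lit 245))))))) (XT.nd (nat_lit 1014) (nat_lit 2432) (nat_lit 0) (XT.nd (nat_lit 468) (nat_lit 1520) (nat_lit 0) (XT.nd (nat_lit 234) (nat_lit 912) (nat_lit 0) (XT.nd (nat_lit 78) (nat_lit 380) (nat_lit 0) (XT.lf (nat_lit 0) (nat_lit 3916889811) (nat_lit 532) (nat_lit 5721730559) (nat_lit 76) (nat_lit 947382494) (nat_lit 153) (nat_lit 5) (nat_lit 160) (nat_lit 5) (nat_lit 154) (nat_lit 5) (nat_lit 348) (nat_lit 308) (nat_lit 244)) (XT.nd (nat_lit 78) (nat_lit 0) (nat_lit 0) (XT.lf (nat_lit 0) (nat_lit 497551620) (nat_lit 380) (nat_lit 5894713479) (nat_lit 456) (nat_lit 4364708355) (nat_lit 148) (nat_lit 5) (nat_lit 153) (nat_lit 5) (nat_lit 154) (nat_lit 5) (nat_lit 349) (nat_lit 308) (nat_lit 243)) (XT.lf (nat_lit 0) (nat_lit 6978530659) (nat_lit 380) (nat_lit 1987514093)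 (nat_lit 456) (nat_lit 1966321727) (nat_lit 148) (nat_lit 5) (nat_lit 153) (nat_lit 5) (nat_lit 154) (nat_lit 5) (nat_lit 350) (nat_lit 308) (nat_lit 242)))) (XT.nd (nat_lit 78) (nat_lit 380) (nat_lit 0) (XT.lf (nat_lit 0) (nat_lit 505428378) (nat_lit 532) (nat_lit 8588834947) (nat_lit 76) (nat_lit 2018291810) (nat_lit 141) (nat_lit 5) (nat_lit 148) (nat_lit 5) (nat_lit 142) (nat_lit 5) (nat_lit 351) (nat_lit 308) (nat_lit 241)) (XT.nd (nat_lit 78) (nat_lit 380) (nat_lit 0) (XT.lf (nat_lit 0) (nat_lit 3039294485) (nat_lit 532) (nat_lit 2101954340) (nat_lit 76) (nat_lit 6155508148) (nat_lit 141) (nat_lit 5) (nat_lit 148) (nat_lit 5) (nat_lit 142) (nat_lit 5) (nat_lit 352) (nat_lit 308) (nat_lit 240)) (XT.lf (nat_lit 0) (nat_lit 4628974130) (nat_lit 380) (nat_lit 1033130979) (nat_lit 456) (nat_lit 5824007548) (nat_lit 136) (nat_lit 5) (nat_lit 141) (nat_lit 5) (nat_lit 142) (nat_lit 5) (nat_lit 353) (nat_lit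 308) (nat_lit 239))))) (XT.nd (nat_lit 234) (nat_lit 760) (nat_lit 0) (XT.nd (nat_lit 78) (nat_lit 760) (nat_lit 0) (XT.lf (nat_lit 0) (nat_lit 8384650639) (nat_lit 456) (nat_lit 147888453) (nat_lit 76) (nat_lit 3147993592) (nat_lit 136) (nat_lit 5) (nat_lit 142) (nat_lit 5) (nat_lit 137) (nat_lit 5) (nat_lit 354) (nat_lit 308) (nat_lit 238)) (XT.nd (nat_lit 78) (nat_lit 380) (nat_lit 0) (XT.lf (nat_lit 0) (nat_lit 6845860441) (nat_lit 380) (nat_lit 4388825835) (nat_lit 456) (nat_lit 644739373) (nat_lit 131) (nat_lit 5) (nat_lit 136) (nat_lit 5) (nat_lit 137) (nat_lit 5) (nat_lit 355) (nat_lit 308) (nat_lit 237)) (XT.lf (nat_lit 0) (nat_lit 1945760315) (nat_lit 304) (nat_lit 89653116) (nat_lit 380) (nat_lit 10048578935) (nat_lit 126) (nat_lit 5) (nat_lit 130) (nat_lit 5) (nat_lit 131) (nat_lit 5) (nat_lit 356) (nat_lit 308) (nat_lit 236)))) (XT.nd (nat_lit 156) (nat_lit 380) (nat_lit 0) (XT.nd (nat_lit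 78) (nat_lit 380) (nat_lit 0) (XT.lf (nat_lit 0) (nat_lit 4846407320) (nat_lit 380) (nat_lit 3144872644) (nat_lit 76) (nat_lit 4301336257) (nat_lit 126) (nat_lit 5) (nat_lit 131) (nat_lit 5) (nat_lit 127) (nat_lit 5) (nat_lit 357) (nat_lit 308) (nat_lit 235)) (XT.lf (nat_lit 0) (nat_lit 4097790596) (nat_lit 380) (nat_lit 3655440357) (nat_lit 456) (nat_lit 4753935944) (nat_lit 121) (nat_lit 5) (nat_lit 126) (nat_lit 5) (nat_lit 127) (nat_lit 5) (nat_lit 358) (nat_lit 308) (nat_lit 234))) (XT.nd (nat_lit 78) (nat_lit 380) (nat_lit 0) (XT.lf (nat_lit 0) (nat_lit 10758700424) (nat_lit 456) (nat_lit 1153047792) (nat_lit 76) (nat_lit 816075365) (nat_lit 121) (nat_lit 5) (nat_lit 127) (nat_lit 5) (nat_lit 122) (nat_lit 5) (nat_lit 359) (nat_lit 308) (nat_lit 233)) (XT.lf (nat_lit 0) (nat_lit 952200486) (nat_lit 380) (nat_lit 6592045246) (nat_lit 76) (nat_lit 5408491493) (nat_lit 116) (nat_lit 5) (nat_lit 121)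 (nat_lit 5) (nat_lit 117) (nat_lit 5) (nat_lit 360) (nat_lit 308) (nat_lit 232)))))) (XT.nd (nat_lit 546) (nat_lit 1216) (nat_lit 0) (XT.nd (nat_lit 234) (nat_lit 608) (nat_lit 0) (XT.nd (nat_lit 78) (nat_lit 304) (nat_lit 0) (XT.lf (nat_lit 0) (nat_lit 898394730) (nat_lit 304) (nat_lit 3016147012) (nat_lit 380) (nat_lit 9269494632) (nat_lit 112) (nat_lit 5) (nat_lit 116) (nat_lit 5) (nat_lit 117) (nat_lit 5) (nat_lit 361) (nat_lit 308) (nat_lit 231)) (XT.nd (nat_lit 78) (nat_lit 304) (nat_lit 0) (XT.lf (nat_lit 0) (nat_lit 7021696518) (nat_lit 380) (nat_lit 4727382328) (nat_lit 76) (nat_lit 1671528657) (nat_lit 112) (nat_lit 5) (nat_lit 117) (nat_lit 5) (nat_lit 113) (nat_lit 5) (nat_lit 362) (nat_lit 308) (nat_lit 230)) (XT.lf (nat_lit 0) (nat_lit 3049120951) (nat_lit 304) (nat_lit 7205785669) (nat_lit 380) (nat_lit 3408394898) (nat_lit 108) (nat_lit 5) (nat_lit 112) (nat_lit 5) (nat_lit 113) (nat_lit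 5) (nat_lit 363) (nat_lit 308) (nat_lit 229)))) (XT.nd (nat_lit 156) (nat_lit 228) (nat_lit 0) (XT.nd (nat_lit 78) (nat_lit 380) (nat_lit 0) (XT.lf (nat_lit 0) (nat_lit 11118059650) (nat_lit 304) (nat_lit 2488862419) (nat_lit 380) (nat_lit 305710669) (nat_lit 108) (nat_lit 5) (nat_lit 112) (nat_lit 5) (nat_lit 113) (nat_lit 5) (nat_lit 364) (nat_lit 308) (nat_lit 228)) (XT.lf (nat_lit 0) (nat_lit 2882598402) (nat_lit 380) (nat_lit 8893256775) (nat_lit 76) (nat_lit 2391297142) (nat_lit 103) (nat_lit 5) (nat_lit 108) (nat_lit 5) (nat_lit 104) (nat_lit 5) (nat_lit 365) (nat_lit 308) (nat_lit 227))) (XT.nd (nat_lit 78) (nat_lit 228) (nat_lit 0) (XT.lf (nat_lit 0) (nat_lit 6188394808) (nat_lit 380) (nat_lit 852171102) (nat_lit 76) (nat_lit 7387821046) (nat_lit 103) (nat_lit 5) (nat_lit 108) (nat_lit 5) (nat_lit 104) (nat_lit 5) (nat_lit 366) (nat_lit 308) (nat_lit 226)) (XT.lf (nat_lit 0) (nat_lit 7540922943)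 (nat_lit 228) (nat_lit 2100504138) (nat_lit 304) (nat_lit 5054599158) (nat_lit 100) (nat_lit 5) (nat_lit 103) (nat_lit 5) (nat_lit 104) (nat_lit 5) (nat_lit 367) (nat_lit 308) (nat_lit 225))))) (XT.nd (nat_lit 234) (nat_lit 608) (nat_lit 0) (XT.nd (nat_lit 78) (nat_lit 304) (nat_lit 0) (XT.lf (nat_lit 0) (nat_lit 1189616036) (nat_lit 304) (nat_lit 12033104509) (nat_lit 380) (nat_lit 1748243239) (nat_lit 96) (nat_lit 5) (nat_lit 100) (nat_lit 5) (nat_lit 101) (nat_lit 5) (nat_lit 368) (nat_lit 308) (nat_lit 224)) (XT.nd (nat_lit 78) (nat_lit 228) (nat_lit 0) (XT.lf (nat_lit 0) (nat_lit 1694663487) (nat_lit 380) (nat_lit 5394838451) (nat_lit 76) (nat_lit 8162087248) (nat_lit 95) (nat_lit 5) (nat_lit 100) (nat_lit 5) (nat_lit 96) (nat_lit 5) (nat_lit 369) (nat_lit 308) (nat_lit 223)) (XT.lf (nat_lit 0) (nat_lit 3253757404) (nat_lit 228) (nat_lit 1959875211) (nat_lit 304) (nat_lit 10326252471) (nat_lit 92)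 (nat_lit 5) (nat_lit 95) (nat_lit 5) (nat_lit 96) (nat_lit 5) (nat_lit 370) (nat_lit 308) (nat_lit 222)))) (XT.nd (nat_lit 156) (nat_lit 304) (nat_lit 0) (XT.nd (nat_lit 78) (nat_lit 304) (nat_lit 0) (XT.lf (nat_lit 0) (nat_lit 8901994761) (nat_lit 304) (nat_lit 3631206187) (nat_lit 76) (nat_lit 3301722364) (nat_lit 92) (nat_lit 5) (nat_lit 96) (nat_lit 5) (nat_lit 93) (nat_lit 5) (nat_lit 371) (nat_lit 308) (nat_lit 221)) (XT.lf (nat_lit 0) (nat_lit 5333151087) (nat_lit 304) (nat_lit 7416059335) (nat_lit 380) (nat_lit 3388164110) (nat_lit 88) (nat_lit 5) (nat_lit 92) (nat_lit 5) (nat_lit 93) (nat_lit 5) (nat_lit 372) (nat_lit 308) (nat_lit 220))) (XT.nd (nat_lit 78) (nat_lit 228) (nat_lit 0) (XT.lf (nat_lit 0) (nat_lit 272471468) (nat_lit 380) (nat_lit 1844801566) (nat_lit 76) (nat_lit 14331118125) (nat_lit 87) (nat_lit 5) (nat_lit 92) (nat_lit 5) (nat_lit 88) (nat_lit 5) (nat_lit 373) (nat_lit 308) (nat_lit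 219)) (XT.lf (nat_lit 0) (nat_lit 4057866701) (nat_lit 304) (nat_lit 9337784876) (nat_lit 76) (nat_lit 3369596398) (nat_lit 84) (nat_lit 5) (nat_lit 88) (nat_lit 5) (nat_lit 85) (nat_lit 5) (nat_lit 374) (nat_lit 308) (nat_lit 218))))))))
noncomputable def xc127 : XT := (XT.nd (nat_lit 2106) (nat_lit 1596) (nat_lit 0) (XT.nd (nat_lit 1014) (nat_lit 1292) (nat_lit 0) (XT.nd (nat_lit 468) (nat_lit 912) (nat_lit 0) (XT.nd (nat_lit 234) (nat_lit 304) (nat_lit 0) (XT.nd (nat_lit 78) (nat_lit 456) (nat_lit 0) (XT.lf (nat_lit 0) (nat_lit 7975071693) (nat_lit 304) (nat_lit 130653603) (nat_lit 76) (nat_lit 8985344807) (nat_lit 84) (nat_lit 5) (nat_lit 88) (nat_lit 5) (nat_lit 85) (nat_lit 5) (nat_lit 375) (nat_lit 308) (nat_lit 217)) (XT.nd (nat_lit 78) (nat_lit 228) (nat_lit 0) (XT.lf (nat_lit 0) (nat_lit 9504996718) (nat_lit 228) (nat_lit 2575262484) (nat_lit 304) (nat_lit 5344300539) (nat_lit 81) (nat_lit 5)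 (nat_lit 84) (nat_lit 5) (nat_lit 85) (nat_lit 5) (nat_lit 376) (nat_lit 308) (nat_lit 216)) (XT.lf (nat_lit 0) (nat_lit 1632874824) (nat_lit 228) (nat_lit 14702032099) (nat_lit 304) (nat_lit 1432364650) (nat_lit 78) (nat_lit 5) (nat_lit 81) (nat_lit 5) (nat_lit 82) (nat_lit 5) (nat_lit 377) (nat_lit 308) (nat_lit 215)))) (XT.nd (nat_lit 78) (nat_lit 228) (nat_lit 0) (XT.lf (nat_lit 0) (nat_lit 2631866811) (nat_lit 304) (nat_lit 6568333097) (nat_lit 76) (nat_lit 8916753822) (nat_lit 77) (nat_lit 5) (nat_lit 81) (nat_lit 5) (nat_lit 78) (nat_lit 5) (nat_lit 378) (nat_lit 308) (nat_lit 214)) (XT.nd (nat_lit 78) (nat_lit 0) (nat_lit 0) (XT.lf (nat_lit 0) (nat_lit 3302504627) (nat_lit 228) (nat_lit 3498430017) (nat_lit 304) (nat_lit 11675421373) (nat_lit 74) (nat_lit 5) (nat_lit 77) (nat_lit 5) (nat_lit 78) (nat_lit 5) (nat_lit 379) (nat_lit 308) (nat_lit 213)) (XT.lf (nat_lit 0) (nat_lit 11164991311) (nat_lit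 304) (nat_lit 5296551017) (nat_lit 76) (nat_lit 2382906441) (nat_lit 74) (nat_lit 5) (nat_lit 78) (nat_lit 5) (nat_lit 75) (nat_lit 5) (nat_lit 380) (nat_lit 308) (nat_lit 212))))) (XT.nd (nat_lit 234) (nat_lit 456) (nat_lit 0) (XT.nd (nat_lit 78) (nat_lit 304) (nat_lit 0) (XT.lf (nat_lit 0) (nat_lit 4906492713) (nat_lit 152) (nat_lit 10815967140) (nat_lit 228) (nat_lit 3499255471) (nat_lit 72) (nat_lit 5) (nat_lit 74) (nat_lit 5) (nat_lit 75) (nat_lit 5) (nat_lit 381) (nat_lit 308) (nat_lit 211)) (XT.nd (nat_lit 78) (nat_lit 228) (nat_lit 0) (XT.lf (nat_lit 0) (nat_lit 825386966) (nat_lit 228) (nat_lit 4124533075) (nat_lit 76) (nat_lit 14659109624) (nat_lit 71) (nat_lit 5) (nat_lit 74) (nat_lit 5) (nat_lit 72) (nat_lit 5) (nat_lit 382) (nat_lit 308) (nat_lit 210)) (XT.lf (nat_lit 0) (nat_lit 5263916381) (nat_lit 304) (nat_lit 13585064573) (nat_lit 76) (nat_lit 1156313960) (nat_lit 68) (nat_lit 5) (nat_lit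 72) (nat_lit 5) (nat_lit 69) (nat_lit 5) (nat_lit 383) (nat_lit 308) (nat_lit 209)))) (XT.nd (nat_lit 156) (nat_lit 304) (nat_lit 0) (XT.nd (nat_lit 78) (nat_lit 152) (nat_lit 0) (XT.lf (nat_lit 0) (nat_lit 9908122729) (nat_lit 304) (nat_lit 3126707965) (nat_lit 76) (nat_lit 7376446886) (nat_lit 68) (nat_lit 5) (nat_lit 72) (nat_lit 5) (nat_lit 69) (nat_lit 5) (nat_lit 384) (nat_lit 308) (nat_lit 208)) (XT.lf (nat_lit 0) (nat_lit 7766888042) (nat_lit 152) (nat_lit 6981417469) (nat_lit 228) (nat_lit 6079439647) (nat_lit 66) (nat_lit 5) (nat_lit 68) (nat_lit 5) (nat_lit 69) (nat_lit 5) (nat_lit 385) (nat_lit 308) (nat_lit 207))) (XT.nd (nat_lit 78) (nat_lit 304) (nat_lit 0) (XT.lf (nat_lit 0) (nat_lit 19021609935) (nat_lit 152) (nat_lit 725885956) (nat_lit 228) (nat_lit 1508801605) (nat_lit 66) (nat_lit 5) (nat_lit 68) (nat_lit 5) (nat_lit 69) (nat_lit 5) (nat_lit 386) (nat_lit 308) (nat_lit 206)) (XT.lf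 (nat_lit 0) (nat_lit 3261937875) (nat_lit 304) (nat_lit 12718202147) (nat_lit 76) (nat_lit 5712886232) (nat_lit 62) (nat_lit 5) (nat_lit 66) (nat_lit 5) (nat_lit 63) (nat_lit 5) (nat_lit 387) (nat_lit 308) (nat_lit 205)))))) (XT.nd (nat_lit 546) (nat_lit 760) (nat_lit 0) (XT.nd (nat_lit 234) (nat_lit 380) (nat_lit 0) (XT.nd (nat_lit 78) (nat_lit 152) (nat_lit 0) (XT.lf (nat_lit 0) (nat_lit 8158137177) (nat_lit 304) (nat_lit 1627479825) (nat_lit 76) (nat_lit 12356416212) (nat_lit 62) (nat_lit 5) (nat_lit 66) (nat_lit 5) (nat_lit 63) (nat_lit 5) (nat_lit 388) (nat_lit 308) (nat_lit 204)) (XT.nd (nat_lit 78) (nat_lit 0) (nat_lit 0) (XT.lf (nat_lit 0) (nat_lit 9961830192) (nat_lit 152) (nat_lit 3318342420) (nat_lit 228) (nat_lit 9321973527) (nat_lit 60) (nat_lit 5) (nat_lit 62) (nat_lit 5) (nat_lit 63) (nat_lit 5) (nat_lit 389) (nat_lit 308) (nat_lit 203)) (XT.lf (nat_lit 0) (nat_lit 18587897653) (nat_lit 228)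 (nat_lit 1204320712) (nat_lit 76) (nat_lit 3282887367) (nat_lit 60) (nat_lit 5) (nat_lit 63) (nat_lit 5) (nat_lit 61) (nat_lit 5) (nat_lit 390) (nat_lit 308) (nat_lit 202)))) (XT.nd (nat_lit 156) (nat_lit 152) (nat_lit 0) (XT.nd (nat_lit 78) (nat_lit 0) (nat_lit 0) (XT.lf (nat_lit 0) (nat_lit 603887063) (nat_lit 228) (nat_lit 12841237689) (nat_lit 76) (nat_lit 10113364233) (nat_lit 57) (nat_lit 5) (nat_lit 60) (nat_lit 5) (nat_lit 58) (nat_lit 5) (nat_lit 391) (nat_lit 308) (nat_lit 201)) (XT.lf (nat_lit 0) (nat_lit 5753637167) (nat_lit 228) (nat_lit 1107253612) (nat_lit 76) (nat_lit 17194270592) (nat_lit 57) (nat_lit 5) (nat_lit 60) (nat_lit 5) (nat_lit 58) (nat_lit 5) (nat_lit 392) (nat_lit 308) (nat_lit 200))) (XT.nd (nat_lit 78) (nat_lit 0) (nat_lit 0) (XT.lf (nat_lit 0) (nat_lit 11149742700) (nat_lit 228) (nat_lit 13394513551) (nat_lit 76) (nat_lit 19725467) (nat_lit 55) (nat_lit 5) (nat_lit 58) (nat_lit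 5) (nat_lit 56) (nat_lit 5) (nat_lit 393) (nat_lit 308) (nat_lit 199)) (XT.lf (nat_lit 0) (nat_lit 16771344140) (nat_lit 228) (nat_lit 1345720455) (nat_lit 76) (nat_lit 6969097266) (nat_lit 55) (nat_lit 5) (nat_lit 58) (nat_lit 5) (nat_lit 56) (nat_lit 5) (nat_lit 394) (nat_lit 308) (nat_lit 198))))) (XT.nd (nat_lit 234) (nat_lit 380) (nat_lit 0) (XT.nd (nat_lit 78) (nat_lit 228) (nat_lit 0) (XT.lf (nat_lit 0) (nat_lit 11257870350) (nat_lit 152) (nat_lit 11396786765) (nat_lit 228) (nat_lit 2966561853) (nat_lit 53) (nat_lit 5) (nat_lit 55) (nat_lit 5) (nat_lit 56) (nat_lit 5) (nat_lit 395) (nat_lit 308) (nat_lit 197)) (XT.nd (nat_lit 78) (nat_lit 152) (nat_lit 0) (XT.lf (nat_lit 0) (nat_lit 2491144130) (nat_lit 228) (nat_lit 1955729907) (nat_lit 76) (nat_lit 21724765657) (nat_lit 52) (nat_lit 5) (nat_lit 55) (nat_lit 5) (nat_lit 53) (nat_lit 5) (nat_lit 396) (nat_lit 308) (nat_lit 196)) (XT.lf (nat_lit 0)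 (nat_lit 8171157130) (nat_lit 228) (nat_lit 15778816374) (nat_lit 76) (nat_lit 2784175529) (nat_lit 50) (nat_lit 5) (nat_lit 53) (nat_lit 5) (nat_lit 51) (nat_lit 5) (nat_lit 397) (nat_lit 308) (nat_lit 195)))) (XT.nd (nat_lit 156) (nat_lit 228) (nat_lit 0) (XT.nd (nat_lit 78) (nat_lit 152) (nat_lit 0) (XT.lf (nat_lit 0) (nat_lit 14070947790) (nat_lit 228) (nat_lit 3089054217) (nat_lit 76) (nat_lit 10152053405) (nat_lit 50) (nat_lit 5) (nat_lit 53) (nat_lit 5) (nat_lit 51) (nat_lit 5) (nat_lit 398) (nat_lit 308) (nat_lit 194)) (XT.lf (nat_lit 0) (nat_lit 10154595583) (nat_lit 152) (nat_lit 10076578131) (nat_lit 228) (nat_lit 7673625010) (nat_lit 48) (nat_lit 5) (nat_lit 50) (nat_lit 5) (nat_lit 51) (nat_lit 5) (nat_lit 399) (nat_lit 308) (nat_lit 193))) (XT.nd (nat_lit 78) (nat_lit 228) (nat_lit 0) (XT.lf (nat_lit 0) (nat_lit 23834164189) (nat_lit 152) (nat_lit 2759240157) (nat_lit 228) (nat_lit 1921406954)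 (nat_lit 48) (nat_lit 5) (nat_lit 50) (nat_lit 5) (nat_lit 51) (nat_lit 5) (nat_lit 400) (nat_lit 308) (nat_lit 192)) (XT.lf (nat_lit 0) (nat_lit 4044056492) (nat_lit 228) (nat_lit 20295117920) (nat_lit 76) (nat_lit 4799234114) (nat_lit 45) (nat_lit 5) (nat_lit 48) (nat_lit 5) (nat_lit 46) (nat_lit 5) (nat_lit 401) (nat_lit 308) (nat_lit 191))))))) (XT.nd (nat_lit 1014) (nat_lit 836) (nat_lit 0) (XT.nd (nat_lit 468) (nat_lit 304) (nat_lit 0) (XT.nd (nat_lit 234) (nat_lit 304) (nat_lit 0) (XT.nd (nat_lit 78) (nat_lit 152) (nat_lit 0) (XT.lf (nat_lit 0) (nat_lit 10211260948) (nat_lit 228) (nat_lit 6981551667) (nat_lit 76) (nat_lit 12585491131) (nat_lit 45) (nat_lit 5) (nat_lit 48) (nat_lit 5) (nat_lit 46) (nat_lit 5) (nat_lit 402) (nat_lit 308) (nat_lit 190)) (XT.nd (nat_lit 78) (nat_lit 0) (nat_lit 0) (XT.lf (nat_lit 0) (nat_lit 6841288610) (nat_lit 152) (nat_lit 9774696298) (nat_lit 228) (nat_lit 13819838391)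 (nat_lit 43) (nat_lit 5) (nat_lit 45) (nat_lit 5) (nat_lit 46) (nat_lit 5) (nat_lit 403) (nat_lit 308) (nat_lit 189)) (XT.lf (nat_lit 0) (nat_lit 21198529595) (nat_lit 152) (nat_lit 2071722958) (nat_lit 228) (nat_lit 7841096331) (nat_lit 43) (nat_lit 5) (nat_lit 45) (nat_lit 5) (nat_lit 46) (nat_lit 5) (nat_lit 404) (nat_lit 308) (nat_lit 188)))) (XT.nd (nat_lit 78) (nat_lit 228) (nat_lit 0) (XT.lf (nat_lit 0) (nat_lit 4181587293) (nat_lit 76) (nat_lit 26026296642) (nat_lit 152) (nat_lit 1596746660) (nat_lit 42) (nat_lit 5) (nat_lit 43) (nat_lit 5) (nat_lit 44) (nat_lit 4) (nat_lit 405) (nat_lit 308) (nat_lit 187)) (XT.nd (nat_lit 78) (nat_lit 152) (nat_lit 0) (XT.lf (nat_lit 0) (nat_lit 4849403670) (nat_lit 152) (nat_lit 13704695070) (nat_lit 76) (nat_lit 13959955504) (nat_lit 41) (nat_lit 5) (nat_lit 43) (nat_lit 5) (nat_lit 42) (nat_lit 5) (nat_lit 406) (nat_lit 308) (nat_lit 186)) (XT.lf (nat_lit 0)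 (nat_lit 604830711) (nat_lit 152) (nat_lit 10845415087) (nat_lit 228) (nat_lit 21794240738) (nat_lit 39) (nat_lit 5) (nat_lit 41) (nat_lit 5) (nat_lit 42) (nat_lit 5) (nat_lit 407) (nat_lit 308) (nat_lit 185))))) (XT.nd (nat_lit 234) (nat_lit 228) (nat_lit 0) (XT.nd (nat_lit 78) (nat_lit 76) (nat_lit 0) (XT.lf (nat_lit 0) (nat_lit 15602428405) (nat_lit 152) (nat_lit 2772810322) (nat_lit 228) (nat_lit 15617811464) (nat_lit 39) (nat_lit 5) (nat_lit 41) (nat_lit 5) (nat_lit 42) (nat_lit 5) (nat_lit 408) (nat_lit 308) (nat_lit 184)) (XT.nd (nat_lit 78) (nat_lit 76) (nat_lit 0) (XT.lf (nat_lit 0) (nat_lit 25549254275) (nat_lit 228) (nat_lit 3789158290) (nat_lit 76) (nat_lit 5424422101) (nat_lit 39) (nat_lit 5) (nat_lit 42) (nat_lit 5) (nat_lit 40) (nat_lit 4) (nat_lit 409) (nat_lit 308) (nat_lit 183)) (XT.lf (nat_lit 0) (nat_lit 11424697853) (nat_lit 76) (nat_lit 21639416701) (nat_lit 152) (nat_lit 2487831429)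 (nat_lit 38) (nat_lit 5) (nat_lit 39) (nat_lit 5) (nat_lit 40) (nat_lit 4) (nat_lit 410) (nat_lit 308) (nat_lit 182)))) (XT.nd (nat_lit 156) (nat_lit 0) (nat_lit 0) (XT.nd (nat_lit 78) (nat_lit 152) (nat_lit 0) (XT.lf (nat_lit 0) (nat_lit 4380069330) (nat_lit 152) (nat_lit 9255155729) (nat_lit 76) (nat_lit 22727416779) (nat_lit 37) (nat_lit 5) (nat_lit 39) (nat_lit 5) (nat_lit 38) (nat_lit 5) (nat_lit 411) (nat_lit 308) (nat_lit 181)) (XT.lf (nat_lit 0) (nat_lit 6137691418) (nat_lit 152) (nat_lit 5314022438) (nat_lit 228) (nat_lit 25743776325) (nat_lit 35) (nat_lit 5) (nat_lit 37) (nat_lit 5) (nat_lit 38) (nat_lit 5) (nat_lit 412) (nat_lit 308) (nat_lit 180))) (XT.nd (nat_lit 78) (nat_lit 0) (nat_lit 0) (XT.lf (nat_lit 0) (nat_lit 18849953898) (nat_lit 228) (nat_lit 15921297724) (nat_lit 76) (nat_lit 3278640774) (nat_lit 35) (nat_lit 5) (nat_lit 38) (nat_lit 5) (nat_lit 36) (nat_lit 4) (nat_lit 413) (nat_lit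 308) (nat_lit 179)) (XT.lf (nat_lit 0) (nat_lit 26511838146) (nat_lit 228) (nat_lit 403307262) (nat_lit 76) (nat_lit 12013532116) (nat_lit 35) (nat_lit 5) (nat_lit 38) (nat_lit 5) (nat_lit 36) (nat_lit 4) (nat_lit 414) (nat_lit 308) (nat_lit 178)))))) (XT.nd (nat_lit 546) (nat_lit 456) (nat_lit 0) (XT.nd (nat_lit 234) (nat_lit 76) (nat_lit 0) (XT.nd (nat_lit 78) (nat_lit 228) (nat_lit 0) (XT.lf (nat_lit 0) (nat_lit 15870504370) (nat_lit 76) (nat_lit 18675032444) (nat_lit 152) (nat_lit 5284032360) (nat_lit 34) (nat_lit 5) (nat_lit 35) (nat_lit 5) (nat_lit 36) (nat_lit 4) (nat_lit 415) (nat_lit 308) (nat_lit 177)) (XT.nd (nat_lit 78) (nat_lit 152) (nat_lit 0) (XT.lf (nat_lit 0) (nat_lit 2016039473) (nat_lit 152) (nat_lit 8155867602) (nat_lit 76) (nat_lit 30585181276) (nat_lit 33) (nat_lit 5) (nat_lit 35) (nat_lit 5) (nat_lit 34) (nat_lit 5) (nat_lit 416) (nat_lit 308) (nat_lit 176)) (XT.lf (nat_lit 0) (nat_lit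 8210458803) (nat_lit 152) (nat_lit 1287102486) (nat_lit 228) (nat_lit 32211244309) (nat_lit 31) (nat_lit 5) (nat_lit 33) (nat_lit 5) (nat_lit 34) (nat_lit 5) (nat_lit 417) (nat_lit 308) (nat_lit 175)))) (XT.nd (nat_lit 156) (nat_lit 76) (nat_lit 0) (XT.nd (nat_lit 78) (nat_lit 0) (nat_lit 0) (XT.lf (nat_lit 0) (nat_lit 17352063756) (nat_lit 228) (nat_lit 17546957053) (nat_lit 76) (nat_lit 7785599019) (nat_lit 31) (nat_lit 5) (nat_lit 34) (nat_lit 5) (nat_lit 32) (nat_lit 4) (nat_lit 418) (nat_lit 308) (nat_lit 174)) (XT.lf (nat_lit 0) (nat_lit 25445008333) (nat_lit 228) (nat_lit 1148122949) (nat_lit 76) (nat_lit 17096494465) (nat_lit 31) (nat_lit 5) (nat_lit 34) (nat_lit 5) (nat_lit 32) (nat_lit 4) (nat_lit 419) (nat_lit 308) (nat_lit 173))) (XT.nd (nat_lit 78) (nat_lit 0) (nat_lit 0) (XT.lf (nat_lit 0) (nat_lit 16037812499) (nat_lit 76) (nat_lit 17887446872) (nat_lit 152) (nat_lit 10795188353) (nat_lit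 30) (nat_lit 5) (nat_lit 31) (nat_lit 5) (nat_lit 32) (nat_lit 4) (nat_lit 420) (nat_lit 308) (nat_lit 172)) (XT.lf (nat_lit 0) (nat_lit 33745216937) (nat_lit 76) (nat_lit 8916759030) (nat_lit 152) (nat_lit 3120158040) (nat_lit 30) (nat_lit 5) (nat_lit 31) (nat_lit 5) (nat_lit 32) (nat_lit 4) (nat_lit 421) (nat_lit 308) (nat_lit 171))))) (XT.nd (nat_lit 234) (nat_lit 228) (nat_lit 0) (XT.nd (nat_lit 78) (nat_lit 0) (nat_lit 0) (XT.lf (nat_lit 0) (nat_lit 4735830455) (nat_lit 228) (nat_lit 41731803207) (nat_lit 76) (nat_lit 405336129) (nat_lit 27) (nat_lit 5) (nat_lit 30) (nat_lit 5) (nat_lit 28) (nat_lit 4) (nat_lit 422) (nat_lit 308) (nat_lit 170)) (XT.nd (nat_lit 78) (nat_lit 0) (nat_lit 0) (XT.lf (nat_lit 0) (nat_lit 12966504509) (nat_lit 228) (nat_lit 25049278043) (nat_lit 76) (nat_lit 9973771045) (nat_lit 27) (nat_lit 5) (nat_lit 30) (nat_lit 5) (nat_lit 28) (nat_lit 4) (nat_lit 423) (nat_lit 308)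 (nat_lit 169)) (XT.lf (nat_lit 0) (nat_lit 21435050754) (nat_lit 228) (nat_lit 7883122529) (nat_lit 76) (nat_lit 19821734306) (nat_lit 27) (nat_lit 5) (nat_lit 30) (nat_lit 5) (nat_lit 28) (nat_lit 4) (nat_lit 424) (nat_lit 308) (nat_lit 168)))) (XT.nd (nat_lit 156) (nat_lit 152) (nat_lit 0) (XT.nd (nat_lit 78) (nat_lit 0) (nat_lit 0) (XT.lf (nat_lit 0) (nat_lit 9976337159) (nat_lit 76) (nat_lit 20268430389) (nat_lit 152) (nat_lit 20077392426) (nat_lit 26) (nat_lit 5) (nat_lit 27) (nat_lit 5) (nat_lit 28) (nat_lit 4) (nat_lit 425) (nat_lit 308) (nat_lit 167)) (XT.lf (nat_lit 0) (nat_lit 28516982501) (nat_lit 76) (nat_lit 10872713119) (nat_lit 152) (nat_lit 12148057876) (nat_lit 26) (nat_lit 5) (nat_lit 27) (nat_lit 5) (nat_lit 28) (nat_lit 4) (nat_lit 426) (nat_lit 308) (nat_lit 166))) (XT.nd (nat_lit 78) (nat_lit 152) (nat_lit 0) (XT.lf (nat_lit 0) (nat_lit 47598124466) (nat_lit 76) (nat_lit 1202415703)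 (nat_lit 152) (nat_lit 3989528724) (nat_lit 26) (nat_lit 5) (nat_lit 27) (nat_lit 5) (nat_lit 28) (nat_lit 4) (nat_lit 427) (nat_lit 308) (nat_lit 165)) (XT.lf (nat_lit 0) (nat_lit 4533738980) (nat_lit 152) (nat_lit 40786003421) (nat_lit 76) (nat_lit 8752756251) (nat_lit 24) (nat_lit 5) (nat_lit 26) (nat_lit 5) (nat_lit 25) (nat_lit 4) (nat_lit 428) (nat_lit 308) (nat_lit 164))))))))
noncomputable def xc128 : XT := (XT.nd (nat_lit 38220) (nat_lit 0) (nat_lit 11780) (XT.nd (nat_lit 1014) (nat_lit 152) (nat_lit 0) (XT.nd (nat_lit 468) (nat_lit 228) (nat_lit 0) (XT.nd (nat_lit 234) (nat_lit 76) (nat_lit 0) (XT.nd (nat_lit 78) (nat_lit 76) (nat_lit 0) (XT.lf (nat_lit 0) (nat_lit 13289129527) (nat_lit 152) (nat_lit 23033492161) (nat_lit 76) (nat_lit 19067897328) (nat_lit 24) (nat_lit 5) (nat_lit 26) (nat_lit 5) (nat_lit 25) (nat_lit 4) (nat_lit 429) (nat_lit 308) (nat_lit 163)) (XT.nd (nat_lit 78) (nat_lit 76)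 (nat_lit 0) (XT.lf (nat_lit 0) (nat_lit 22299179586) (nat_lit 152) (nat_lit 4763412435) (nat_lit 76) (nat_lit 29685729038) (nat_lit 24) (nat_lit 5) (nat_lit 26) (nat_lit 5) (nat_lit 25) (nat_lit 4) (nat_lit 430) (nat_lit 308) (nat_lit 162)) (XT.lf (nat_lit 0) (nat_lit 14319627412) (nat_lit 76) (nat_lit 17389783622) (nat_lit 152) (nat_lit 26433550703) (nat_lit 23) (nat_lit 5) (nat_lit 24) (nat_lit 5) (nat_lit 25) (nat_lit 4) (nat_lit 431) (nat_lit 308) (nat_lit 161)))) (XT.nd (nat_lit 78) (nat_lit 76) (nat_lit 0) (XT.lf (nat_lit 0) (nat_lit 34058376803) (nat_lit 76) (nat_lit 7383992223) (nat_lit 152) (nat_lit 18135860966) (nat_lit 23) (nat_lit 5) (nat_lit 24) (nat_lit 5) (nat_lit 25) (nat_lit 4) (nat_lit 432) (nat_lit 308) (nat_lit 160)) (XT.nd (nat_lit 78) (nat_lit 76) (nat_lit 0) (XT.lf (nat_lit 0) (nat_lit 51487882806) (nat_lit 152) (nat_lit 6709523843) (nat_lit 0) (nat_lit 2858533551) (nat_lit 23) (nat_lit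 5) (nat_lit 25) (nat_lit 4) (nat_lit 23) (nat_lit 4) (nat_lit 433) (nat_lit 308) (nat_lit 159)) (XT.lf (nat_lit 0) (nat_lit 12828582643) (nat_lit 76) (nat_lit 49195302679) (nat_lit 76) (nat_lit 548423581) (nat_lit 22) (nat_lit 4) (nat_lit 23) (nat_lit 5) (nat_lit 23) (nat_lit 4) (nat_lit 434) (nat_lit 308) (nat_lit 158))))) (XT.nd (nat_lit 234) (nat_lit 76) (nat_lit 0) (XT.nd (nat_lit 78) (nat_lit 76) (nat_lit 0) (XT.lf (nat_lit 0) (nat_lit 8632346826) (nat_lit 152) (nat_lit 31140234305) (nat_lit 76) (nat_lit 24357233483) (nat_lit 21) (nat_lit 5) (nat_lit 23) (nat_lit 5) (nat_lit 22) (nat_lit 4) (nat_lit 435) (nat_lit 308) (nat_lit 157)) (XT.nd (nat_lit 78) (nat_lit 76) (nat_lit 0) (XT.lf (nat_lit 0) (nat_lit 18070437685) (nat_lit 152) (nat_lit 11997433419) (nat_lit 76) (nat_lit 35666224704) (nat_lit 21) (nat_lit 5) (nat_lit 23) (nat_lit 5) (nat_lit 22) (nat_lit 4) (nat_lit 436) (nat_lit 308) (nat_lit 156))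 (XT.lf (nat_lit 0) (nat_lit 7860052840) (nat_lit 76) (nat_lit 20000300387) (nat_lit 152) (nat_lit 39524092545) (nat_lit 20) (nat_lit 5) (nat_lit 21) (nat_lit 5) (nat_lit 22) (nat_lit 4) (nat_lit 437) (nat_lit 308) (nat_lit 155)))) (XT.nd (nat_lit 156) (nat_lit 76) (nat_lit 0) (XT.nd (nat_lit 78) (nat_lit 0) (nat_lit 0) (XT.lf (nat_lit 0) (nat_lit 28546349937) (nat_lit 76) (nat_lit 9511969859) (nat_lit 152) (nat_lit 31022556597) (nat_lit 20) (nat_lit 5) (nat_lit 21) (nat_lit 5) (nat_lit 22) (nat_lit 4) (nat_lit 438) (nat_lit 308) (nat_lit 154)) (XT.lf (nat_lit 0) (nat_lit 48567979841) (nat_lit 152) (nat_lit 20999991319) (nat_lit 0) (nat_lit 1260056883) (nat_lit 20) (nat_lit 5) (nat_lit 22) (nat_lit 4) (nat_lit 20) (nat_lit 4) (nat_lit 439) (nat_lit 308) (nat_lit 153))) (XT.nd (nat_lit 78) (nat_lit 76) (nat_lit 0) (XT.lf (nat_lit 0) (nat_lit 59480645951) (nat_lit 152) (nat_lit 985847903) (nat_lit 0) (nat_lit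 12158469626) (nat_lit 20) (nat_lit 5) (nat_lit 22) (nat_lit 4) (nat_lit 20) (nat_lit 4) (nat_lit 440) (nat_lit 308) (nat_lit 152)) (XT.lf (nat_lit 0) (nat_lit 20007240070) (nat_lit 76) (nat_lit 50899500353) (nat_lit 76) (nat_lit 3563485807) (nat_lit 19) (nat_lit 4) (nat_lit 20) (nat_lit 5) (nat_lit 20) (nat_lit 4) (nat_lit 441) (nat_lit 308) (nat_lit 151)))))) (XT.nd (nat_lit 36660) (nat_lit 0) (nat_lit 22268) (XT.nd (nat_lit 234) (nat_lit 0) (nat_lit 0) (XT.nd (nat_lit 78) (nat_lit 76) (nat_lit 0) (XT.lf (nat_lit 0) (nat_lit 6185529747) (nat_lit 152) (nat_lit 34792824324) (nat_lit 76) (nat_lit 35390561665) (nat_lit 18) (nat_lit 5) (nat_lit 20) (nat_lit 5) (nat_lit 19) (nat_lit 4) (nat_lit 442) (nat_lit 308) (nat_lit 150)) (XT.nd (nat_lit 78) (nat_lit 76) (nat_lit 0) (XT.lf (nat_lit 0) (nat_lit 16149309711) (nat_lit 152) (nat_lit 14579394846) (nat_lit 76) (nat_lit 47594986056) (nat_lit 18) (nat_lit 5) (nat_lit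 20) (nat_lit 5) (nat_lit 19) (nat_lit 4) (nat_lit 443) (nat_lit 308) (nat_lit 149)) (XT.lf (nat_lit 0) (nat_lit 6353192567) (nat_lit 76) (nat_lit 20113974949) (nat_lit 152) (nat_lit 53868286911) (nat_lit 17) (nat_lit 5) (nat_lit 18) (nat_lit 5) (nat_lit 19) (nat_lit 4) (nat_lit 444) (nat_lit 308) (nat_lit 148)))) (XT.nd (nat_lit 36270) (nat_lit 0) (nat_lit 23560) (XT.lf (nat_lit 0) (nat_lit 28201512272) (nat_lit 76) (nat_lit 9034431000) (nat_lit 152) (nat_lit 45167387023) (nat_lit 17) (nat_lit 5) (nat_lit 18) (nat_lit 5) (nat_lit 19) (nat_lit 4) (nat_lit 445) (nat_lit 308) (nat_lit 147)) (XT.nd (nat_lit 78) (nat_lit 684) (nat_lit 0) (XT.lf (nat_lit 0) (nat_lit 1650944145) (nat_lit 0) (nat_lit 1650944145) (nat_lit 532) (nat_lit 93171232) (nat_lit 336) (nat_lit 5) (nat_lit 336) (nat_lit 3) (nat_lit 343) (nat_lit 3) (nat_lit 309) (nat_lit 309) (nat_lit 282)) (XT.lf (nat_lit 0) (nat_lit 1814138907) (nat_lit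 684) (nat_lit 237414748) (nat_lit 684) (nat_lit 4778673824) (nat_lit 327) (nat_lit 3) (nat_lit 336) (nat_lit 3) (nat_lit 336) (nat_lit 5) (nat_lit 310) (nat_lit 309) (nat_lit 281))))) (XT.nd (nat_lit 234) (nat_lit 684) (nat_lit 0) (XT.nd (nat_lit 78) (nat_lit 608) (nat_lit 0) (XT.lf (nat_lit 76) (nat_lit 3129931991) (nat_lit 0) (nat_lit 693006011) (nat_lit 684) (nat_lit 3050055010) (nat_lit 328) (nat_lit 5) (nat_lit 327) (nat_lit 3) (nat_lit 336) (nat_lit 5) (nat_lit 311) (nat_lit 309) (nat_lit 280)) (XT.nd (nat_lit 78) (nat_lit 684) (nat_lit 0) (XT.lf (nat_lit 0) (nat_lit 5825412547) (nat_lit 608) (nat_lit 363149593) (nat_lit 684) (nat_lit 730545619) (nat_lit 328) (nat_lit 5) (nat_lit 336) (nat_lit 5) (nat_lit 337) (nat_lit 5) (nat_lit 312) (nat_lit 309) (nat_lit 279)) (XT.lf (nat_lit 0) (nat_lit 866316636) (nat_lit 684) (nat_lit 3845161956) (nat_lit 760) (nat_lit 2256038107) (nat_lit 319) (nat_lit 5)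 (nat_lit 328) (nat_lit 5) (nat_lit 329) (nat_lit 5) (nat_lit 313) (nat_lit 309) (nat_lit 278)))) (XT.nd (nat_lit 156) (nat_lit 684) (nat_lit 0) (XT.nd (nat_lit 78) (nat_lit 0) (nat_lit 0) (XT.lf (nat_lit 0) (nat_lit 2794234438) (nat_lit 684) (nat_lit 350661553) (nat_lit 760) (nat_lit 3874287198) (nat_lit 319) (nat_lit 5) (nat_lit 328) (nat_lit 5) (nat_lit 329) (nat_lit 5) (nat_lit 314) (nat_lit 309) (nat_lit 277)) (XT.lf (nat_lit 76) (nat_lit 3271347394) (nat_lit 0) (nat_lit 1469587970) (nat_lit 760) (nat_lit 2332696886) (nat_lit 320) (nat_lit 5) (nat_lit 319) (nat_lit 5) (nat_lit 329) (nat_lit 5) (nat_lit 315) (nat_lit 309) (nat_lit 276))) (XT.nd (nat_lit 78) (nat_lit 760) (nat_lit 0) (XT.lf (nat_lit 0) (nat_lit 6683504944) (nat_lit 684) (nat_lit 166052365) (nat_lit 760) (nat_lit 282092614) (nat_lit 320) (nat_lit 5) (nat_lit 329) (nat_lit 5) (nat_lit 330) (nat_lit 5) (nat_lit 316) (nat_lit 309) (nat_lit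 275)) (XT.lf (nat_lit 0) (nat_lit 1446097274) (nat_lit 760) (nat_lit 3613235828) (nat_lit 836) (nat_lit 2132231671) (nat_lit 310) (nat_lit 5) (nat_lit 320) (nat_lit 5) (nat_lit 321) (nat_lit 5) (nat_lit 317) (nat_lit 309) (nat_lit 274))))))) (XT.nd (nat_lit 1014) (nat_lit 5852) (nat_lit 0) (XT.nd (nat_lit 468) (nat_lit 3876) (nat_lit 0) (XT.nd (nat_lit 234) (nat_lit 760) (nat_lit 0) (XT.nd (nat_lit 78) (nat_lit 0) (nat_lit 0) (XT.lf (nat_lit 76) (nat_lit 140662358) (nat_lit 0) (nat_lit 3184812447) (nat_lit 836) (nat_lit 3929603841) (nat_lit 311) (nat_lit 5) (nat_lit 310) (nat_lit 5) (nat_lit 321) (nat_lit 5) (nat_lit 318) (nat_lit 309) (nat_lit 273)) (XT.nd (nat_lit 78) (nat_lit 0) (nat_lit 76) (XT.lf (nat_lit 76) (nat_lit 4038817723) (nat_lit 0) (nat_lit 1194678911) (nat_lit 836) (nat_lit 2087885984) (nat_lit 311) (nat_lit 5) (nat_lit 310) (nat_lit 5) (nat_lit 321) (nat_lit 5) (nat_lit 319) (nat_lit 309)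 (nat_lit 272)) (XT.lf (nat_lit 76) (nat_lit 624898910) (nat_lit 0) (nat_lit 6525937807) (nat_lit 836) (nat_lit 240327704) (nat_lit 312) (nat_lit 5) (nat_lit 311) (nat_lit 5) (nat_lit 322) (nat_lit 5) (nat_lit 320) (nat_lit 309) (nat_lit 271)))) (XT.nd (nat_lit 78) (nat_lit 0) (nat_lit 0) (XT.lf (nat_lit 0) (nat_lit 1614115225) (nat_lit 836) (nat_lit 2817470742) (nat_lit 912) (nat_lit 3031505278) (nat_lit 300) (nat_lit 5) (nat_lit 311) (nat_lit 5) (nat_lit 312) (nat_lit 5) (nat_lit 321) (nat_lit 309) (nat_lit 270)) (XT.nd (nat_lit 78) (nat_lit 0) (nat_lit 76) (XT.lf (nat_lit 76) (nat_lit 1228504922) (nat_lit 0) (nat_lit 2243051883) (nat_lit 912) (nat_lit 4067028521) (nat_lit 301) (nat_lit 5) (nat_lit 300) (nat_lit 5) (nat_lit 312) (nat_lit 5) (nat_lit 322) (nat_lit 309) (nat_lit 269)) (XT.lf (nat_lit 0) (nat_lit 5355428262) (nat_lit 836) (nat_lit 2206665955) (nat_lit 76) (nat_lit 55174163) (nat_lit 301)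 (nat_lit 5) (nat_lit 312) (nat_lit 5) (nat_lit 302) (nat_lit 5) (nat_lit 323) (nat_lit 309) (nat_lit 268))))) (XT.nd (nat_lit 234) (nat_lit 2128) (nat_lit 0) (XT.nd (nat_lit 78) (nat_lit 988) (nat_lit 0) (XT.lf (nat_lit 0) (nat_lit 1993433068) (nat_lit 836) (nat_lit 5287313460) (nat_lit 912) (nat_lit 418061504) (nat_lit 290) (nat_lit 5) (nat_lit 301) (nat_lit 5) (nat_lit 302) (nat_lit 5) (nat_lit 324) (nat_lit 309) (nat_lit 267)) (XT.nd (nat_lit 78) (nat_lit 912) (nat_lit 0) (XT.lf (nat_lit 0) (nat_lit 1418839034) (nat_lit 912) (nat_lit 1475650807) (nat_lit 76) (nat_lit 4888917174) (nat_lit 289) (nat_lit 5) (nat_lit 301) (nat_lit 5) (nat_lit 290) (nat_lit 5) (nat_lit 325) (nat_lit 309) (nat_lit 266)) (XT.lf (nat_lit 0) (nat_lit 2890672332) (nat_lit 912) (nat_lit 385388820) (nat_lit 988) (nat_lit 4595190413) (nat_lit 277) (nat_lit 5) (nat_lit 289) (nat_lit 5) (nat_lit 290) (nat_lit 5) (nat_lit 326) (nat_lit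 309) (nat_lit 265)))) (XT.nd (nat_lit 156) (nat_lit 1140) (nat_lit 0) (XT.nd (nat_lit 78) (nat_lit 988) (nat_lit 0) (XT.lf (nat_lit 0) (nat_lit 5172293895) (nat_lit 988) (nat_lit 608212430) (nat_lit 76) (nat_lit 2181765428) (nat_lit 277) (nat_lit 5) (nat_lit 290) (nat_lit 5) (nat_lit 278) (nat_lit 5) (nat_lit 327) (nat_lit 309) (nat_lit 264)) (XT.lf (nat_lit 0) (nat_lit 3925511441) (nat_lit 988) (nat_lit 3190100144) (nat_lit 1064) (nat_lit 940743000) (nat_lit 264) (nat_lit 5) (nat_lit 277) (nat_lit 5) (nat_lit 278) (nat_lit 5) (nat_lit 328) (nat_lit 309) (nat_lit 263))) (XT.nd (nat_lit 78) (nat_lit 0) (nat_lit 0) (XT.lf (nat_lit 0) (nat_lit 410086157) (nat_lit 1064) (nat_lit 494421043) (nat_lit 1140) (nat_lit 7249730049) (nat_lit 249) (nat_lit 5) (nat_lit 263) (nat_lit 5) (nat_lit 264) (nat_lit 5) (nat_lit 329) (nat_lit 309) (nat_lit 262)) (XT.lf (nat_lit 0) (nat_lit 2800609361) (nat_lit 1140) (nat_lit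 3157945426) (nat_lit 76) (nat_lit 2295824859) (nat_lit 249) (nat_lit 5) (nat_lit 264) (nat_lit 5) (nat_lit 250) (nat_lit 5) (nat_lit 330) (nat_lit 309) (nat_lit 261)))))) (XT.nd (nat_lit 546) (nat_lit 2280) (nat_lit 0) (XT.nd (nat_lit 234) (nat_lit 1140) (nat_lit 0) (XT.nd (nat_lit 78) (nat_lit 1292) (nat_lit 0) (XT.lf (nat_lit 0) (nat_lit 1548054907) (nat_lit 1140) (nat_lit 3177101050) (nat_lit 1216) (nat_lit 3633257262) (nat_lit 234) (nat_lit 5) (nat_lit 249) (nat_lit 5) (nat_lit 250) (nat_lit 5) (nat_lit 331) (nat_lit 309) (nat_lit 260)) (XT.nd (nat_lit 78) (nat_lit 1292) (nat_lit 0) (XT.lf (nat_lit 0) (nat_lit 6417288256) (nat_lit 1140) (nat_lit 274819043) (nat_lit 1216) (nat_lit 1773953210) (nat_lit 234) (nat_lit 5) (nat_lit 249) (nat_lit 5) (nat_lit 250) (nat_lit 5) (nat_lit 332) (nat_lit 309) (nat_lit 259)) (XT.lf (nat_lit 0) (nat_lit 146031317) (nat_lit 1292) (nat_lit 5736032483) (nat_lit 76) (nat_lit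 2694633940) (nat_lit 217) (nat_lit 5) (nat_lit 234) (nat_lit 5) (nat_lit 218) (nat_lit 5) (nat_lit 333) (nat_lit 309) (nat_lit 258)))) (XT.nd (nat_lit 156) (nat_lit 532) (nat_lit 0) (XT.nd (nat_lit 78) (nat_lit 608) (nat_lit 0) (XT.lf (nat_lit 0) (nat_lit 2066223328) (nat_lit 1292) (nat_lit 835139670) (nat_lit 76) (nat_lit 5789446274) (nat_lit 217) (nat_lit 5) (nat_lit 234) (nat_lit 5) (nat_lit 218) (nat_lit 5) (nat_lit 334) (nat_lit 309) (nat_lit 257)) (XT.lf (nat_lit 0) (nat_lit 4042924201) (nat_lit 684) (nat_lit 4556865034) (nat_lit 76) (nat_lit 208616930) (nat_lit 209) (nat_lit 5) (nat_lit 218) (nat_lit 5) (nat_lit 210) (nat_lit 5) (nat_lit 335) (nat_lit 309) (nat_lit 256))) (XT.nd (nat_lit 78) (nat_lit 0) (nat_lit 0) (XT.lf (nat_lit 0) (nat_lit 516880761) (nat_lit 532) (nat_lit 5561121318) (nat_lit 608) (nat_lit 2851584866) (nat_lit 202) (nat_lit 5) (nat_lit 209) (nat_lit 5) (nat_lit 210) (nat_lit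 5) (nat_lit 336) (nat_lit 309) (nat_lit 255)) (XT.lf (nat_lit 0) (nat_lit 5793612832) (nat_lit 532) (nat_lit 2384245657) (nat_lit 608) (nat_lit 876460311) (nat_lit 202) (nat_lit 5) (nat_lit 209) (nat_lit 5) (nat_lit 210) (nat_lit 5) (nat_lit 337) (nat_lit 309) (nat_lit 254))))) (XT.nd (nat_lit 234) (nat_lit 1064) (nat_lit 0) (XT.nd (nat_lit 78) (nat_lit 532) (nat_lit 0) (XT.lf (nat_lit 0) (nat_lit 1122198524) (nat_lit 684) (nat_lit 7159844221) (nat_lit 76) (nat_lit 900835536) (nat_lit 193) (nat_lit 5) (nat_lit 202) (nat_lit 5) (nat_lit 194) (nat_lit 5) (nat_lit 338) (nat_lit 309) (nat_lit 253)) (XT.nd (nat_lit 78) (nat_lit 532) (nat_lit 0) (XT.lf (nat_lit 0) (nat_lit 3179365447) (nat_lit 684) (nat_lit 1857856888) (nat_lit 76) (nat_lit 4277352057) (nat_lit 193) (nat_lit 5) (nat_lit 202) (nat_lit 5) (nat_lit 194) (nat_lit 5) (nat_lit 339) (nat_lit 309) (nat_lit 252)) (XT.lf (nat_lit 0) (nat_lit 3632255357)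 (nat_lit 532) (nat_lit 1661397937) (nat_lit 608) (nat_lit 4156730293) (nat_lit 186) (nat_lit 5) (nat_lit 193) (nat_lit 5) (nat_lit 194) (nat_lit 5) (nat_lit 340) (nat_lit 309) (nat_lit 251)))) (XT.nd (nat_lit 156) (nat_lit 456) (nat_lit 0) (XT.nd (nat_lit 78) (nat_lit 608) (nat_lit 0) (XT.lf (nat_lit 0) (nat_lit 7468987657) (nat_lit 608) (nat_lit 324752491) (nat_lit 76) (nat_lit 1796622040) (nat_lit 186) (nat_lit 5) (nat_lit 194) (nat_lit 5) (nat_lit 187) (nat_lit 5) (nat_lit 341) (nat_lit 309) (nat_lit 250)) (XT.lf (nat_lit 0) (nat_lit 6327480) (nat_lit 608) (nat_lit 4353063124) (nat_lit 76) (nat_lit 5374255092) (nat_lit 178) (nat_lit 5) (nat_lit 186) (nat_lit 5) (nat_lit 179) (nat_lit 5) (nat_lit 342) (nat_lit 309) (nat_lit 249))) (XT.nd (nat_lit 78) (nat_lit 0) (nat_lit 0) (XT.lf (nat_lit 0) (nat_lit 1346153638) (nat_lit 456) (nat_lit 787984269) (nat_lit 532) (nat_lit 7747113904) (nat_lit 172) (nat_lit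 5) (nat_lit 178) (nat_lit 5) (nat_lit 179) (nat_lit 5) (nat_lit 343) (nat_lit 309) (nat_lit 248)) (XT.lf (nat_lit 0) (nat_lit 4361270367) (nat_lit 532) (nat_lit 2796959260) (nat_lit 76) (nat_lit 2874012878) (nat_lit 172) (nat_lit 5) (nat_lit 179) (nat_lit 5) (nat_lit 173) (nat_lit 5) (nat_lit 344) (nat_lit 309) (nat_lit 247))))))))
noncomputable def xc129 : XT := (XT.nd (nat_lit 2028) (nat_lit 3268) (nat_lit 0) (XT.nd (nat_lit 1014) (nat_lit 2356) (nat_lit 0) (XT.nd (nat_lit 468) (nat_lit 1672) (nat_lit 0) (XT.nd (nat_lit 234) (nat_lit 836) (nat_lit 0) (XT.nd (nat_lit 78) (nat_lit 532) (nat_lit 0) (XT.lf (nat_lit 0) (nat_lit 3125391969) (nat_lit 456) (nat_lit 3532047720) (nat_lit 532) (nat_lit 3530276960) (nat_lit 166) (nat_lit 5) (nat_lit 172) (nat_lit 5) (nat_lit 173) (nat_lit 5) (nat_lit 345) (nat_lit 309) (nat_lit 246)) (XT.nd (nat_lit 78) (nat_lit 532) (nat_lit 0) (XT.lf (nat_lit 0) (nat_lit 9017937013)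 (nat_lit 532) (nat_lit 1108217777) (nat_lit 76) (nat_lit 221856761) (nat_lit 166) (nat_lit 5) (nat_lit 173) (nat_lit 5) (nat_lit 167) (nat_lit 5) (nat_lit 346) (nat_lit 309) (nat_lit 245)) (XT.lf (nat_lit 0) (nat_lit 967817509) (nat_lit 532) (nat_lit 5473614729) (nat_lit 76) (nat_lit 4069933257) (nat_lit 159) (nat_lit 5) (nat_lit 166) (nat_lit 5) (nat_lit 160) (nat_lit 5) (nat_lit 347) (nat_lit 309) (nat_lit 244)))) (XT.nd (nat_lit 78) (nat_lit 380) (nat_lit 0) (XT.lf (nat_lit 0) (nat_lit 670530167) (nat_lit 456) (nat_lit 2621375272) (nat_lit 532) (nat_lit 7387817917) (nat_lit 153) (nat_lit 5) (nat_lit 159) (nat_lit 5) (nat_lit 160) (nat_lit 5) (nat_lit 348) (nat_lit 309) (nat_lit 243)) (XT.nd (nat_lit 78) (nat_lit 380) (nat_lit 0) (XT.lf (nat_lit 0) (nat_lit 5720930347) (nat_lit 532) (nat_lit 3794790517) (nat_lit 76) (nat_lit 1336372268) (nat_lit 153) (nat_lit 5) (nat_lit 160) (nat_lit 5) (nat_lit 154)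 (nat_lit 5) (nat_lit 349) (nat_lit 309) (nat_lit 242)) (XT.lf (nat_lit 0) (nat_lit 2590495696) (nat_lit 380) (nat_lit 5650924028) (nat_lit 456) (nat_lit 2787673564) (nat_lit 148) (nat_lit 5) (nat_lit 153) (nat_lit 5) (nat_lit 154) (nat_lit 5) (nat_lit 350) (nat_lit 309) (nat_lit 241))))) (XT.nd (nat_lit 234) (nat_lit 1140) (nat_lit 0) (XT.nd (nat_lit 78) (nat_lit 532) (nat_lit 0) (XT.lf (nat_lit 0) (nat_lit 9205379324) (nat_lit 380) (nat_lit 1638760045) (nat_lit 456) (nat_lit 367082211) (nat_lit 148) (nat_lit 5) (nat_lit 153) (nat_lit 5) (nat_lit 154) (nat_lit 5) (nat_lit 351) (nat_lit 309) (nat_lit 240)) (XT.nd (nat_lit 78) (nat_lit 0) (nat_lit 0) (XT.lf (nat_lit 0) (nat_lit 2122783665) (nat_lit 532) (nat_lit 6771358432) (nat_lit 76) (nat_lit 2502929788) (nat_lit 141) (nat_lit 5) (nat_lit 148) (nat_lit 5) (nat_lit 142) (nat_lit 5) (nat_lit 352) (nat_lit 309) (nat_lit 239)) (XT.lf (nat_lit 0) (nat_lit 4685999955)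 (nat_lit 532) (nat_lit 150312423) (nat_lit 76) (nat_lit 6751910504) (nat_lit 141) (nat_lit 5) (nat_lit 148) (nat_lit 5) (nat_lit 142) (nat_lit 5) (nat_lit 353) (nat_lit 309) (nat_lit 238)))) (XT.nd (nat_lit 156) (nat_lit 380) (nat_lit 0) (XT.nd (nat_lit 78) (nat_lit 380) (nat_lit 0) (XT.lf (nat_lit 0) (nat_lit 6762791936) (nat_lit 380) (nat_lit 598573027) (nat_lit 456) (nat_lit 4422700627) (nat_lit 136) (nat_lit 5) (nat_lit 141) (nat_lit 5) (nat_lit 142) (nat_lit 5) (nat_lit 354) (nat_lit 309) (nat_lit 237)) (XT.lf (nat_lit 0) (nat_lit 1861775576) (nat_lit 380) (nat_lit 8281507099) (nat_lit 456) (nat_lit 1841726472) (nat_lit 131) (nat_lit 5) (nat_lit 136) (nat_lit 5) (nat_lit 137) (nat_lit 5) (nat_lit 355) (nat_lit 309) (nat_lit 236))) (XT.nd (nat_lit 78) (nat_lit 304) (nat_lit 0) (XT.lf (nat_lit 0) (nat_lit 828716831) (nat_lit 456) (nat_lit 3189671042) (nat_lit 76) (nat_lit 8172531836) (nat_lit 130) (nat_lit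 5) (nat_lit 136) (nat_lit 5) (nat_lit 131) (nat_lit 5) (nat_lit 356) (nat_lit 309) (nat_lit 235)) (XT.lf (nat_lit 0) (nat_lit 3556187964) (nat_lit 380) (nat_lit 8433068742) (nat_lit 76) (nat_lit 412798994) (nat_lit 126) (nat_lit 5) (nat_lit 131) (nat_lit 5) (nat_lit 127) (nat_lit 5) (nat_lit 357) (nat_lit 309) (nat_lit 234)))))) (XT.nd (nat_lit 468) (nat_lit 1292) (nat_lit 0) (XT.nd (nat_lit 234) (nat_lit 380) (nat_lit 0) (XT.nd (nat_lit 78) (nat_lit 684) (nat_lit 0) (XT.lf (nat_lit 0) (nat_lit 6409857582) (nat_lit 380) (nat_lit 1289293953) (nat_lit 76) (nat_lit 4919055729) (nat_lit 126) (nat_lit 5) (nat_lit 131) (nat_lit 5) (nat_lit 127) (nat_lit 5) (nat_lit 358) (nat_lit 309) (nat_lit 233)) (XT.nd (nat_lit 78) (nat_lit 304) (nat_lit 0) (XT.lf (nat_lit 0) (nat_lit 6151532273) (nat_lit 380) (nat_lit 3229611096) (nat_lit 456) (nat_lit 3458752174) (nat_lit 121) (nat_lit 5) (nat_lit 126) (nat_lit 5) (nat_lit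 127) (nat_lit 5) (nat_lit 359) (nat_lit 309) (nat_lit 232)) (XT.lf (nat_lit 0) (nat_lit 737575705) (nat_lit 304) (nat_lit 11710648547) (nat_lit 380) (nat_lit 619822517) (nat_lit 117) (nat_lit 5) (nat_lit 121) (nat_lit 5) (nat_lit 122) (nat_lit 5) (nat_lit 360) (nat_lit 309) (nat_lit 231)))) (XT.nd (nat_lit 78) (nat_lit 304) (nat_lit 0) (XT.lf (nat_lit 0) (nat_lit 2332854543) (nat_lit 380) (nat_lit 4870235081) (nat_lit 76) (nat_lit 6097093380) (nat_lit 116) (nat_lit 5) (nat_lit 121) (nat_lit 5) (nat_lit 117) (nat_lit 5) (nat_lit 361) (nat_lit 309) (nat_lit 230)) (XT.nd (nat_lit 78) (nat_lit 0) (nat_lit 0) (XT.lf (nat_lit 0) (nat_lit 2826098767) (nat_lit 304) (nat_lit 2536857258) (nat_lit 380) (nat_lit 8176115112) (nat_lit 112) (nat_lit 5) (nat_lit 116) (nat_lit 5) (nat_lit 117) (nat_lit 5) (nat_lit 362) (nat_lit 309) (nat_lit 229)) (XT.lf (nat_lit 0) (nat_lit 8529876586) (nat_lit 380) (nat_lit 2989823695)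 (nat_lit 76) (nat_lit 2264058807) (nat_lit 112) (nat_lit 5) (nat_lit 117) (nat_lit 5) (nat_lit 113) (nat_lit 5) (nat_lit 363) (nat_lit 309) (nat_lit 228))))) (XT.nd (nat_lit 234) (nat_lit 608) (nat_lit 0) (XT.nd (nat_lit 78) (nat_lit 380) (nat_lit 0) (XT.lf (nat_lit 0) (nat_lit 5001549387) (nat_lit 304) (nat_lit 6838630129) (nat_lit 380) (nat_lit 2194167262) (nat_lit 108) (nat_lit 5) (nat_lit 112) (nat_lit 5) (nat_lit 113) (nat_lit 5) (nat_lit 364) (nat_lit 309) (nat_lit 227)) (XT.nd (nat_lit 78) (nat_lit 304) (nat_lit 0) (XT.lf (nat_lit 0) (nat_lit 944456886) (nat_lit 380) (nat_lit 1043195301) (nat_lit 76) (nat_lit 12304359631) (nat_lit 107) (nat_lit 5) (nat_lit 112) (nat_lit 5) (nat_lit 108) (nat_lit 5) (nat_lit 365) (nat_lit 309) (nat_lit 226)) (XT.lf (nat_lit 0) (nat_lit 4208785590) (nat_lit 380) (nat_lit 7313900715) (nat_lit 76) (nat_lit 3031808844) (nat_lit 103) (nat_lit 5) (nat_lit 108) (nat_lit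 5) (nat_lit 104) (nat_lit 5) (nat_lit 366) (nat_lit 309) (nat_lit 225)))) (XT.nd (nat_lit 156) (nat_lit 380) (nat_lit 0) (XT.nd (nat_lit 78) (nat_lit 0) (nat_lit 0) (XT.lf (nat_lit 0) (nat_lit 932849309) (nat_lit 228) (nat_lit 6653765661) (nat_lit 304) (nat_lit 7237780076) (nat_lit 100) (nat_lit 5) (nat_lit 103) (nat_lit 5) (nat_lit 104) (nat_lit 5) (nat_lit 367) (nat_lit 309) (nat_lit 224)) (XT.lf (nat_lit 0) (nat_lit 9541960550) (nat_lit 228) (nat_lit 1574314756) (nat_lit 304) (nat_lit 3984610675) (nat_lit 100) (nat_lit 5) (nat_lit 103) (nat_lit 5) (nat_lit 104) (nat_lit 5) (nat_lit 368) (nat_lit 309) (nat_lit 223))) (XT.nd (nat_lit 78) (nat_lit 76) (nat_lit 0) (XT.lf (nat_lit 0) (nat_lit 3012773969) (nat_lit 304) (nat_lit 11780382488) (nat_lit 380) (nat_lit 591283920) (nat_lit 96) (nat_lit 5) (nat_lit 100) (nat_lit 5) (nat_lit 101) (nat_lit 5) (nat_lit 369) (nat_lit 309) (nat_lit 222)) (XT.lf (nat_lit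 0) (nat_lit 2896772069) (nat_lit 380) (nat_lit 3797949413) (nat_lit 76) (nat_lit 8979462868) (nat_lit 95) (nat_lit 5) (nat_lit 100) (nat_lit 5) (nat_lit 96) (nat_lit 5) (nat_lit 370) (nat_lit 309) (nat_lit 221))))))) (XT.nd (nat_lit 1014) (nat_lit 1444) (nat_lit 0) (XT.nd (nat_lit 468) (nat_lit 760) (nat_lit 0) (XT.nd (nat_lit 234) (nat_lit 532) (nat_lit 0) (XT.nd (nat_lit 78) (nat_lit 304) (nat_lit 0) (XT.lf (nat_lit 0) (nat_lit 5092861825) (nat_lit 228) (nat_lit 1411656631) (nat_lit 304) (nat_lit 9467126497) (nat_lit 92) (nat_lit 5) (nat_lit 95) (nat_lit 5) (nat_lit 96) (nat_lit 5) (nat_lit 371) (nat_lit 309) (nat_lit 220)) (XT.nd (nat_lit 78) (nat_lit 304) (nat_lit 0) (XT.lf (nat_lit 0) (nat_lit 10276153497) (nat_lit 304) (nat_lit 2021605104) (nat_lit 76) (nat_lit 3978608783) (nat_lit 92) (nat_lit 5) (nat_lit 96) (nat_lit 5) (nat_lit 93) (nat_lit 5) (nat_lit 372) (nat_lit 309) (nat_lit 219)) (XT.lf (nat_lit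 0) (nat_lit 7194834484) (nat_lit 304) (nat_lit 7028063220) (nat_lit 380) (nat_lit 2365482453) (nat_lit 88) (nat_lit 5) (nat_lit 92) (nat_lit 5) (nat_lit 93) (nat_lit 5) (nat_lit 373) (nat_lit 309) (nat_lit 218)))) (XT.nd (nat_lit 78) (nat_lit 456) (nat_lit 0) (XT.lf (nat_lit 0) (nat_lit 1350924174) (nat_lit 380) (nat_lit 226362351) (nat_lit 76) (nat_lit 15332090503) (nat_lit 87) (nat_lit 5) (nat_lit 92) (nat_lit 5) (nat_lit 88) (nat_lit 5) (nat_lit 374) (nat_lit 309) (nat_lit 217)) (XT.nd (nat_lit 78) (nat_lit 228) (nat_lit 0) (XT.lf (nat_lit 0) (nat_lit 5240429819) (nat_lit 304) (nat_lit 7934336618) (nat_lit 76) (nat_lit 4061267068) (nat_lit 84) (nat_lit 5) (nat_lit 88) (nat_lit 5) (nat_lit 85) (nat_lit 5) (nat_lit 375) (nat_lit 309) (nat_lit 216)) (XT.lf (nat_lit 0) (nat_lit 1529824618) (nat_lit 228) (nat_lit 7729134075) (nat_lit 304) (nat_lit 8313167480) (nat_lit 81) (nat_lit 5) (nat_lit 84) (nat_lit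 5) (nat_lit 85) (nat_lit 5) (nat_lit 376) (nat_lit 309) (nat_lit 215))))) (XT.nd (nat_lit 234) (nat_lit 456) (nat_lit 0) (XT.nd (nat_lit 78) (nat_lit 304) (nat_lit 0) (XT.lf (nat_lit 0) (nat_lit 11408667106) (nat_lit 228) (nat_lit 2049489382) (nat_lit 304) (nat_lit 4458348189) (nat_lit 81) (nat_lit 5) (nat_lit 84) (nat_lit 5) (nat_lit 85) (nat_lit 5) (nat_lit 377) (nat_lit 309) (nat_lit 214)) (XT.nd (nat_lit 78) (nat_lit 76) (nat_lit 0) (XT.lf (nat_lit 0) (nat_lit 3309263810) (nat_lit 228) (nat_lit 14522873923) (nat_lit 304) (nat_lit 437618836) (nat_lit 78) (nat_lit 5) (nat_lit 81) (nat_lit 5) (nat_lit 82) (nat_lit 5) (nat_lit 378) (nat_lit 309) (nat_lit 213)) (XT.lf (nat_lit 0) (nat_lit 3698655011) (nat_lit 304) (nat_lit 5165421222) (nat_lit 76) (nat_lit 9766451735) (nat_lit 77) (nat_lit 5) (nat_lit 81) (nat_lit 5) (nat_lit 78) (nat_lit 5) (nat_lit 379) (nat_lit 309) (nat_lit 212)))) (XT.nd (nat_lit 156)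 (nat_lit 228) (nat_lit 0) (XT.nd (nat_lit 78) (nat_lit 0) (nat_lit 0) (XT.lf (nat_lit 0) (nat_lit 4985855733) (nat_lit 228) (nat_lit 2993396364) (nat_lit 304) (nat_lit 11021875230) (nat_lit 74) (nat_lit 5) (nat_lit 77) (nat_lit 5) (nat_lit 78) (nat_lit 5) (nat_lit 380) (nat_lit 309) (nat_lit 211)) (XT.lf (nat_lit 0) (nat_lit 12451545883) (nat_lit 304) (nat_lit 3894348738) (nat_lit 76) (nat_lit 3035057245) (nat_lit 74) (nat_lit 5) (nat_lit 78) (nat_lit 5) (nat_lit 75) (nat_lit 5) (nat_lit 381) (nat_lit 309) (nat_lit 210))) (XT.nd (nat_lit 78) (nat_lit 76) (nat_lit 0) (XT.lf (nat_lit 0) (nat_lit 6599481414) (nat_lit 152) (nat_lit 10533399539) (nat_lit 228) (nat_lit 2637049411) (nat_lit 72) (nat_lit 5) (nat_lit 74) (nat_lit 5) (nat_lit 75) (nat_lit 5) (nat_lit 382) (nat_lit 309) (nat_lit 209)) (XT.lf (nat_lit 0) (nat_lit 1770838367) (nat_lit 228) (nat_lit 2728916467) (nat_lit 76) (nat_lit 15669666754) (nat_lit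 71) (nat_lit 5) (nat_lit 74) (nat_lit 5) (nat_lit 72) (nat_lit 5) (nat_lit 383) (nat_lit 309) (nat_lit 208)))))) (XT.nd (nat_lit 546) (nat_lit 608) (nat_lit 0) (XT.nd (nat_lit 234) (nat_lit 456) (nat_lit 0) (XT.nd (nat_lit 78) (nat_lit 152) (nat_lit 0) (XT.lf (nat_lit 0) (nat_lit 6335899504) (nat_lit 304) (nat_lit 12466389000) (nat_lit 76) (nat_lit 1775492539) (nat_lit 68) (nat_lit 5) (nat_lit 72) (nat_lit 5) (nat_lit 69) (nat_lit 5) (nat_lit 384) (nat_lit 309) (nat_lit 207)) (XT.nd (nat_lit 78) (nat_lit 152) (nat_lit 0) (XT.lf (nat_lit 0) (nat_lit 11092808771) (nat_lit 304) (nat_lit 1738734922) (nat_lit 76) (nat_lit 8165205497) (nat_lit 68) (nat_lit 5) (nat_lit 72) (nat_lit 5) (nat_lit 69) (nat_lit 5) (nat_lit 385) (nat_lit 309) (nat_lit 206)) (XT.lf (nat_lit 0) (nat_lit 9467141766) (nat_lit 152) (nat_lit 6599311511) (nat_lit 228) (nat_lit 5359616921) (nat_lit 66) (nat_lit 5) (nat_lit 68) (nat_lit 5) (nat_lit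 69) (nat_lit 5) (nat_lit 386) (nat_lit 309) (nat_lit 205)))) (XT.nd (nat_lit 156) (nat_lit 152) (nat_lit 0) (XT.nd (nat_lit 78) (nat_lit 304) (nat_lit 0) (XT.lf (nat_lit 0) (nat_lit 21016769965) (nat_lit 152) (nat_lit 173343621) (nat_lit 228) (nat_lit 678137580) (nat_lit 66) (nat_lit 5) (nat_lit 68) (nat_lit 5) (nat_lit 69) (nat_lit 5) (nat_lit 387) (nat_lit 309) (nat_lit 204)) (XT.lf (nat_lit 0) (nat_lit 4212917514) (nat_lit 304) (nat_lit 11651990822) (nat_lit 76) (nat_lit 6453098762) (nat_lit 62) (nat_lit 5) (nat_lit 66) (nat_lit 5) (nat_lit 63) (nat_lit 5) (nat_lit 388) (nat_lit 309) (nat_lit 203))) (XT.nd (nat_lit 78) (nat_lit 152) (nat_lit 0) (XT.lf (nat_lit 0) (nat_lit 9231154596) (nat_lit 304) (nat_lit 270714521) (nat_lit 76) (nat_lit 13279366895) (nat_lit 62) (nat_lit 5) (nat_lit 66) (nat_lit 5) (nat_lit 63) (nat_lit 5) (nat_lit 389) (nat_lit 309) (nat_lit 202)) (XT.lf (nat_lit 0) (nat_lit 11652494504)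 (nat_lit 152) (nat_lit 2843611047) (nat_lit 228) (nat_lit 8759375256) (nat_lit 60) (nat_lit 5) (nat_lit 62) (nat_lit 5) (nat_lit 63) (nat_lit 5) (nat_lit 390) (nat_lit 309) (nat_lit 201))))) (XT.nd (nat_lit 234) (nat_lit 228) (nat_lit 0) (XT.nd (nat_lit 78) (nat_lit 228) (nat_lit 0) (XT.lf (nat_lit 0) (nat_lit 132047530) (nat_lit 152) (nat_lit 19813832207) (nat_lit 228) (nat_lit 3797270868) (nat_lit 58) (nat_lit 5) (nat_lit 60) (nat_lit 5) (nat_lit 61) (nat_lit 5) (nat_lit 391) (nat_lit 309) (nat_lit 200)) (XT.nd (nat_lit 78) (nat_lit 152) (nat_lit 0) (XT.lf (nat_lit 0) (nat_lit 1418843609) (nat_lit 228) (nat_lit 11853939019) (nat_lit 76) (nat_lit 10968369247) (nat_lit 57) (nat_lit 5) (nat_lit 60) (nat_lit 5) (nat_lit 58) (nat_lit 5) (nat_lit 392) (nat_lit 309) (nat_lit 199)) (XT.lf (nat_lit 0) (nat_lit 195910732) (nat_lit 152) (nat_lit 6505849767) (nat_lit 228) (nat_lit 18051609140) (nat_lit 55) (nat_lit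 5) (nat_lit 57) (nat_lit 5) (nat_lit 58) (nat_lit 5) (nat_lit 393) (nat_lit 309) (nat_lit 198)))) (XT.nd (nat_lit 156) (nat_lit 228) (nat_lit 0) (XT.nd (nat_lit 78) (nat_lit 0) (nat_lit 0) (XT.lf (nat_lit 0) (nat_lit 12253358686) (nat_lit 228) (nat_lit 12459106757) (nat_lit 76) (nat_lit 565186144) (nat_lit 55) (nat_lit 5) (nat_lit 58) (nat_lit 5) (nat_lit 56) (nat_lit 5) (nat_lit 394) (nat_lit 309) (nat_lit 197)) (XT.lf (nat_lit 0) (nat_lit 18021206508) (nat_lit 228) (nat_lit 87798670) (nat_lit 76) (nat_lit 7707169129) (nat_lit 55) (nat_lit 5) (nat_lit 58) (nat_lit 5) (nat_lit 56) (nat_lit 5) (nat_lit 395) (nat_lit 309) (nat_lit 196))) (XT.nd (nat_lit 78) (nat_lit 76) (nat_lit 0) (XT.lf (nat_lit 0) (nat_lit 12881171493) (nat_lit 152) (nat_lit 11190455832) (nat_lit 228) (nat_lit 2295942524) (nat_lit 53) (nat_lit 5) (nat_lit 55) (nat_lit 5) (nat_lit 56) (nat_lit 5) (nat_lit 396) (nat_lit 309) (nat_lit 195))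 (XT.lf (nat_lit 0) (nat_lit 3288978782) (nat_lit 228) (nat_lit 751733041) (nat_lit 76) (nat_lit 22894227794) (nat_lit 52) (nat_lit 5) (nat_lit 55) (nat_lit 5) (nat_lit 53) (nat_lit 5) (nat_lit 397) (nat_lit 309) (nat_lit 194))))))))
noncomputable def xc130 : XT := (XT.nd (nat_lit 2028) (nat_lit 684) (nat_lit 0) (XT.nd (nat_lit 1014) (nat_lit 912) (nat_lit 0) (XT.nd (nat_lit 468) (nat_lit 456) (nat_lit 0) (XT.nd (nat_lit 234) (nat_lit 228) (nat_lit 0) (XT.nd (nat_lit 78) (nat_lit 152) (nat_lit 0) (XT.lf (nat_lit 0) (nat_lit 9135504136) (nat_lit 228) (nat_lit 14985472358) (nat_lit 76) (nat_lit 3393468933) (nat_lit 50) (nat_lit 5) (nat_lit 53) (nat_lit 5) (nat_lit 51) (nat_lit 5) (nat_lit 398) (nat_lit 309) (nat_lit 193)) (XT.nd (nat_lit 78) (nat_lit 152) (nat_lit 0) (XT.lf (nat_lit 0) (nat_lit 15191340584) (nat_lit 228) (nat_lit 1951911758) (nat_lit 76) (nat_lit 10967069511) (nat_lit 50) (nat_lit 5) (nat_lit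 53) (nat_lit 5) (nat_lit 51) (nat_lit 5) (nat_lit 399) (nat_lit 309) (nat_lit 192)) (XT.lf (nat_lit 0) (nat_lit 11676990534) (nat_lit 152) (nat_lit 9850750782) (nat_lit 228) (nat_lit 7193369399) (nat_lit 48) (nat_lit 5) (nat_lit 50) (nat_lit 5) (nat_lit 51) (nat_lit 5) (nat_lit 400) (nat_lit 309) (nat_lit 191)))) (XT.nd (nat_lit 78) (nat_lit 228) (nat_lit 0) (XT.lf (nat_lit 0) (nat_lit 25731477545) (nat_lit 152) (nat_lit 2329274941) (nat_lit 228) (nat_lit 1289277938) (nat_lit 48) (nat_lit 5) (nat_lit 50) (nat_lit 5) (nat_lit 51) (nat_lit 5) (nat_lit 401) (nat_lit 309) (nat_lit 190)) (XT.nd (nat_lit 78) (nat_lit 0) (nat_lit 0) (XT.lf (nat_lit 0) (nat_lit 4838335636) (nat_lit 228) (nat_lit 19704603597) (nat_lit 76) (nat_lit 5449301961) (nat_lit 45) (nat_lit 5) (nat_lit 48) (nat_lit 5) (nat_lit 46) (nat_lit 5) (nat_lit 402) (nat_lit 309) (nat_lit 189)) (XT.lf (nat_lit 0) (nat_lit 11170955523) (nat_lit 228)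 (nat_lit 6026563401) (nat_lit 76) (nat_lit 13454406179) (nat_lit 45) (nat_lit 5) (nat_lit 48) (nat_lit 5) (nat_lit 46) (nat_lit 5) (nat_lit 403) (nat_lit 309) (nat_lit 188))))) (XT.nd (nat_lit 234) (nat_lit 228) (nat_lit 0) (XT.nd (nat_lit 78) (nat_lit 76) (nat_lit 0) (XT.lf (nat_lit 0) (nat_lit 8199546057) (nat_lit 152) (nat_lit 9560328859) (nat_lit 228) (nat_lit 13569537416) (nat_lit 43) (nat_lit 5) (nat_lit 45) (nat_lit 5) (nat_lit 46) (nat_lit 5) (nat_lit 404) (nat_lit 309) (nat_lit 187)) (XT.nd (nat_lit 78) (nat_lit 76) (nat_lit 0) (XT.lf (nat_lit 0) (nat_lit 22953921200) (nat_lit 152) (nat_lit 1641051027) (nat_lit 228) (nat_lit 7430799001) (nat_lit 43) (nat_lit 5) (nat_lit 45) (nat_lit 5) (nat_lit 46) (nat_lit 5) (nat_lit 405) (nat_lit 309) (nat_lit 186)) (XT.lf (nat_lit 0) (nat_lit 5429537542) (nat_lit 76) (nat_lit 26308333695) (nat_lit 152) (nat_lit 1002069481) (nat_lit 42) (nat_lit 5) (nat_lit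 43) (nat_lit 5) (nat_lit 44) (nat_lit 4) (nat_lit 406) (nat_lit 309) (nat_lit 185)))) (XT.nd (nat_lit 156) (nat_lit 0) (nat_lit 0) (XT.nd (nat_lit 78) (nat_lit 152) (nat_lit 0) (XT.lf (nat_lit 0) (nat_lit 5606575621) (nat_lit 152) (nat_lit 13013744120) (nat_lit 76) (nat_lit 14850695839) (nat_lit 41) (nat_lit 5) (nat_lit 43) (nat_lit 5) (nat_lit 42) (nat_lit 5) (nat_lit 407) (nat_lit 309) (nat_lit 184)) (XT.lf (nat_lit 0) (nat_lit 1714262614) (nat_lit 152) (nat_lit 10683854309) (nat_lit 228) (nat_lit 21825466893) (nat_lit 39) (nat_lit 5) (nat_lit 41) (nat_lit 5) (nat_lit 42) (nat_lit 5) (nat_lit 408) (nat_lit 309) (nat_lit 183))) (XT.nd (nat_lit 78) (nat_lit 0) (nat_lit 0) (XT.lf (nat_lit 0) (nat_lit 17130003181) (nat_lit 152) (nat_lit 2383253631) (nat_lit 228) (nat_lit 15481878752) (nat_lit 39) (nat_lit 5) (nat_lit 41) (nat_lit 5) (nat_lit 42) (nat_lit 5) (nat_lit 409) (nat_lit 309) (nat_lit 182)) (XT.lf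 (nat_lit 0) (nat_lit 26889814620) (nat_lit 228) (nat_lit 2861411892) (nat_lit 76) (nat_lit 6037170416) (nat_lit 39) (nat_lit 5) (nat_lit 42) (nat_lit 5) (nat_lit 40) (nat_lit 4) (nat_lit 410) (nat_lit 309) (nat_lit 181)))))) (XT.nd (nat_lit 468) (nat_lit 532) (nat_lit 0) (XT.nd (nat_lit 234) (nat_lit 76) (nat_lit 0) (XT.nd (nat_lit 78) (nat_lit 228) (nat_lit 0) (XT.lf (nat_lit 0) (nat_lit 12798649925) (nat_lit 76) (nat_lit 21824662560) (nat_lit 152) (nat_lit 1978076268) (nat_lit 38) (nat_lit 5) (nat_lit 39) (nat_lit 5) (nat_lit 40) (nat_lit 4) (nat_lit 411) (nat_lit 309) (nat_lit 180)) (XT.nd (nat_lit 78) (nat_lit 152) (nat_lit 0) (XT.lf (nat_lit 0) (nat_lit 5067769029) (nat_lit 152) (nat_lit 8520471341) (nat_lit 76) (nat_lit 23848500008) (nat_lit 37) (nat_lit 5) (nat_lit 39) (nat_lit 5) (nat_lit 38) (nat_lit 5) (nat_lit 412) (nat_lit 309) (nat_lit 179)) (XT.lf (nat_lit 0) (nat_lit 7324236326) (nat_lit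 152) (nat_lit 5020759539) (nat_lit 228) (nat_lit 25949777991) (nat_lit 35) (nat_lit 5) (nat_lit 37) (nat_lit 5) (nat_lit 38) (nat_lit 5) (nat_lit 413) (nat_lit 309) (nat_lit 178)))) (XT.nd (nat_lit 78) (nat_lit 76) (nat_lit 0) (XT.lf (nat_lit 0) (nat_lit 19953396268) (nat_lit 228) (nat_lit 15413845661) (nat_lit 76) (nat_lit 3807922410) (nat_lit 35) (nat_lit 5) (nat_lit 38) (nat_lit 5) (nat_lit 36) (nat_lit 4) (nat_lit 414) (nat_lit 309) (nat_lit 177)) (XT.nd (nat_lit 78) (nat_lit 0) (nat_lit 0) (XT.lf (nat_lit 0) (nat_lit 551759356) (nat_lit 76) (nat_lit 27283013271) (nat_lit 152) (nat_lit 12245853845) (nat_lit 34) (nat_lit 5) (nat_lit 35) (nat_lit 5) (nat_lit 36) (nat_lit 4) (nat_lit 415) (nat_lit 309) (nat_lit 176)) (XT.lf (nat_lit 0) (nat_lit 17293642064) (nat_lit 76) (nat_lit 18804427795) (nat_lit 152) (nat_lit 4910819831) (nat_lit 34) (nat_lit 5) (nat_lit 35) (nat_lit 5) (nat_lit 36) (nat_lit 4) (nat_lit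 416) (nat_lit 309) (nat_lit 175))))) (XT.nd (nat_lit 234) (nat_lit 304) (nat_lit 0) (XT.nd (nat_lit 78) (nat_lit 152) (nat_lit 0) (XT.lf (nat_lit 0) (nat_lit 2582692952) (nat_lit 152) (nat_lit 7470953558) (nat_lit 76) (nat_lit 31910892453) (nat_lit 33) (nat_lit 5) (nat_lit 35) (nat_lit 5) (nat_lit 34) (nat_lit 5) (nat_lit 417) (nat_lit 309) (nat_lit 174)) (XT.nd (nat_lit 78) (nat_lit 0) (nat_lit 0) (XT.lf (nat_lit 0) (nat_lit 9377249011) (nat_lit 152) (nat_lit 905516712) (nat_lit 228) (nat_lit 32662221085) (nat_lit 31) (nat_lit 5) (nat_lit 33) (nat_lit 5) (nat_lit 34) (nat_lit 5) (nat_lit 418) (nat_lit 309) (nat_lit 173)) (XT.lf (nat_lit 0) (nat_lit 18362253634) (nat_lit 228) (nat_lit 17168977227) (nat_lit 76) (nat_lit 8419166267) (nat_lit 31) (nat_lit 5) (nat_lit 34) (nat_lit 5) (nat_lit 32) (nat_lit 4) (nat_lit 419) (nat_lit 309) (nat_lit 172)))) (XT.nd (nat_lit 156) (nat_lit 228) (nat_lit 0) (XT.nd (nat_lit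 78) (nat_lit 76) (nat_lit 0) (XT.lf (nat_lit 0) (nat_lit 26683725539) (nat_lit 228) (nat_lit 304519513) (nat_lit 76) (nat_lit 17997738112) (nat_lit 31) (nat_lit 5) (nat_lit 34) (nat_lit 5) (nat_lit 32) (nat_lit 4) (nat_lit 420) (nat_lit 309) (nat_lit 171)) (XT.lf (nat_lit 0) (nat_lit 17388385693) (nat_lit 76) (nat_lit 18024510354) (nat_lit 152) (nat_lit 10635000445) (nat_lit 30) (nat_lit 5) (nat_lit 31) (nat_lit 5) (nat_lit 32) (nat_lit 4) (nat_lit 421) (nat_lit 309) (nat_lit 170))) (XT.nd (nat_lit 78) (nat_lit 228) (nat_lit 0) (XT.lf (nat_lit 0) (nat_lit 35601688803) (nat_lit 76) (nat_lit 8796339544) (nat_lit 152) (nat_lit 2743817578) (nat_lit 30) (nat_lit 5) (nat_lit 31) (nat_lit 5) (nat_lit 32) (nat_lit 4) (nat_lit 422) (nat_lit 309) (nat_lit 169)) (XT.lf (nat_lit 0) (nat_lit 5337126303) (nat_lit 228) (nat_lit 42128790798) (nat_lit 76) (nat_lit 799402654) (nat_lit 27) (nat_lit 5) (nat_lit 30) (nat_lit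 5) (nat_lit 28) (nat_lit 4) (nat_lit 423) (nat_lit 309) (nat_lit 168))))))) (XT.nd (nat_lit 1014) (nat_lit 228) (nat_lit 0) (XT.nd (nat_lit 468) (nat_lit 228) (nat_lit 0) (XT.nd (nat_lit 234) (nat_lit 152) (nat_lit 0) (XT.nd (nat_lit 78) (nat_lit 76) (nat_lit 0) (XT.lf (nat_lit 0) (nat_lit 13801345211) (nat_lit 228) (nat_lit 24970691817) (nat_lit 76) (nat_lit 10643767129) (nat_lit 27) (nat_lit 5) (nat_lit 30) (nat_lit 5) (nat_lit 28) (nat_lit 4) (nat_lit 424) (nat_lit 309) (nat_lit 167)) (XT.nd (nat_lit 78) (nat_lit 76) (nat_lit 0) (XT.lf (nat_lit 0) (nat_lit 22510962051) (nat_lit 228) (nat_lit 7313728276) (nat_lit 76) (nat_lit 20776369784) (nat_lit 27) (nat_lit 5) (nat_lit 30) (nat_lit 5) (nat_lit 28) (nat_lit 4) (nat_lit 425) (nat_lit 309) (nat_lit 166)) (XT.lf (nat_lit 0) (nat_lit 11073614341) (nat_lit 76) (nat_lit 20506419181) (nat_lit 152) (nat_lit 20238896365) (nat_lit 26) (nat_lit 5) (nat_lit 27)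 (nat_lit 5) (nat_lit 28) (nat_lit 4) (nat_lit 426) (nat_lit 309) (nat_lit 165)))) (XT.nd (nat_lit 78) (nat_lit 152) (nat_lit 0) (XT.lf (nat_lit 0) (nat_lit 30147236702) (nat_lit 76) (nat_lit 10839608959) (nat_lit 152) (nat_lit 12084521133) (nat_lit 26) (nat_lit 5) (nat_lit 27) (nat_lit 5) (nat_lit 28) (nat_lit 4) (nat_lit 427) (nat_lit 309) (nat_lit 164)) (XT.nd (nat_lit 78) (nat_lit 152) (nat_lit 0) (XT.lf (nat_lit 0) (nat_lit 49778247545) (nat_lit 76) (nat_lit 889667248) (nat_lit 152) (nat_lit 3693701499) (nat_lit 26) (nat_lit 5) (nat_lit 27) (nat_lit 5) (nat_lit 28) (nat_lit 4) (nat_lit 428) (nat_lit 309) (nat_lit 163)) (XT.lf (nat_lit 0) (nat_lit 5075892580) (nat_lit 152) (nat_lit 41247929359) (nat_lit 76) (nat_lit 9358616611) (nat_lit 24) (nat_lit 5) (nat_lit 26) (nat_lit 5) (nat_lit 25) (nat_lit 4) (nat_lit 429) (nat_lit 309) (nat_lit 162))))) (XT.nd (nat_lit 234) (nat_lit 152) (nat_lit 0) (XT.nd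 (nat_lit 78) (nat_lit 76) (nat_lit 0) (XT.lf (nat_lit 0) (nat_lit 14082115481) (nat_lit 152) (nat_lit 22985026863) (nat_lit 76) (nat_lit 19973213541) (nat_lit 24) (nat_lit 5) (nat_lit 26) (nat_lit 5) (nat_lit 25) (nat_lit 4) (nat_lit 430) (nat_lit 309) (nat_lit 161)) (XT.nd (nat_lit 78) (nat_lit 76) (nat_lit 0) (XT.lf (nat_lit 0) (nat_lit 23350982224) (nat_lit 152) (nat_lit 4188382708) (nat_lit 76) (nat_lit 30899873038) (nat_lit 24) (nat_lit 5) (nat_lit 26) (nat_lit 5) (nat_lit 25) (nat_lit 4) (nat_lit 431) (nat_lit 309) (nat_lit 160)) (XT.lf (nat_lit 0) (nat_lit 15460109785) (nat_lit 76) (nat_lit 17579094067) (nat_lit 152) (nat_lit 26836644916) (nat_lit 23) (nat_lit 5) (nat_lit 24) (nat_lit 5) (nat_lit 25) (nat_lit 4) (nat_lit 432) (nat_lit 309) (nat_lit 159)))) (XT.nd (nat_lit 156) (nat_lit 152) (nat_lit 0) (XT.nd (nat_lit 78) (nat_lit 0) (nat_lit 0) (XT.lf (nat_lit 0) (nat_lit 35770316020) (nat_lit 76)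 (nat_lit 7282809986) (nat_lit 152) (nat_lit 18301381156) (nat_lit 23) (nat_lit 5) (nat_lit 24) (nat_lit 5) (nat_lit 25) (nat_lit 4) (nat_lit 433) (nat_lit 309) (nat_lit 158)) (XT.lf (nat_lit 0) (nat_lit 53392313385) (nat_lit 152) (nat_lit 6232988555) (nat_lit 0) (nat_lit 3251478806) (nat_lit 23) (nat_lit 5) (nat_lit 25) (nat_lit 4) (nat_lit 23) (nat_lit 4) (nat_lit 434) (nat_lit 309) (nat_lit 157))) (XT.nd (nat_lit 78) (nat_lit 76) (nat_lit 0) (XT.lf (nat_lit 0) (nat_lit 13884615822) (nat_lit 76) (nat_lit 50355752467) (nat_lit 76) (nat_lit 198394329) (nat_lit 22) (nat_lit 4) (nat_lit 23) (nat_lit 5) (nat_lit 23) (nat_lit 4) (nat_lit 435) (nat_lit 309) (nat_lit 156)) (XT.lf (nat_lit 0) (nat_lit 9240181868) (nat_lit 152) (nat_lit 31415831234) (nat_lit 76) (nat_lit 25387189894) (nat_lit 21) (nat_lit 5) (nat_lit 23) (nat_lit 5) (nat_lit 22) (nat_lit 4) (nat_lit 436) (nat_lit 309) (nat_lit 155)))))) (XT.nd (nat_lit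 546) (nat_lit 0) (nat_lit 0) (XT.nd (nat_lit 234) (nat_lit 152) (nat_lit 0) (XT.nd (nat_lit 78) (nat_lit 76) (nat_lit 0) (XT.lf (nat_lit 0) (nat_lit 18951254348) (nat_lit 152) (nat_lit 11717929140) (nat_lit 76) (nat_lit 37026735141) (nat_lit 21) (nat_lit 5) (nat_lit 23) (nat_lit 5) (nat_lit 22) (nat_lit 4) (nat_lit 437) (nat_lit 309) (nat_lit 154)) (XT.nd (nat_lit 78) (nat_lit 0) (nat_lit 0) (XT.lf (nat_lit 0) (nat_lit 8729012812) (nat_lit 76) (nat_lit 20302075697) (nat_lit 152) (nat_lit 40364805080) (nat_lit 20) (nat_lit 5) (nat_lit 21) (nat_lit 5) (nat_lit 22) (nat_lit 4) (nat_lit 438) (nat_lit 309) (nat_lit 153)) (XT.lf (nat_lit 0) (nat_lit 30017457316) (nat_lit 76) (nat_lit 9507781672) (nat_lit 152) (nat_lit 31618271895) (nat_lit 20) (nat_lit 5) (nat_lit 21) (nat_lit 5) (nat_lit 22) (nat_lit 4) (nat_lit 439) (nat_lit 309) (nat_lit 152)))) (XT.nd (nat_lit 156) (nat_lit 152) (nat_lit 0) (XT.nd (nat_lit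 78) (nat_lit 0) (nat_lit 0) (XT.lf (nat_lit 0) (nat_lit 50343420114) (nat_lit 152) (nat_lit 21026374189) (nat_lit 0) (nat_lit 1573486912) (nat_lit 20) (nat_lit 5) (nat_lit 22) (nat_lit 4) (nat_lit 20) (nat_lit 4) (nat_lit 440) (nat_lit 309) (nat_lit 151)) (XT.lf (nat_lit 0) (nat_lit 61574192395) (nat_lit 152) (nat_lit 429387543) (nat_lit 0) (nat_lit 12790824028) (nat_lit 20) (nat_lit 5) (nat_lit 22) (nat_lit 4) (nat_lit 20) (nat_lit 4) (nat_lit 441) (nat_lit 309) (nat_lit 150))) (XT.nd (nat_lit 78) (nat_lit 76) (nat_lit 0) (XT.lf (nat_lit 0) (nat_lit 21187747619) (nat_lit 76) (nat_lit 52151896486) (nat_lit 76) (nat_lit 3355484269) (nat_lit 19) (nat_lit 4) (nat_lit 20) (nat_lit 5) (nat_lit 20) (nat_lit 4) (nat_lit 442) (nat_lit 309) (nat_lit 149)) (XT.lf (nat_lit 0) (nat_lit 6670863755) (nat_lit 152) (nat_lit 35267222724) (nat_lit 76) (nat_lit 36712872015) (nat_lit 18) (nat_lit 5) (nat_lit 20) (nat_lit 5)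 (nat_lit 19) (nat_lit 4) (nat_lit 443) (nat_lit 309) (nat_lit 148))))) (XT.nd (nat_lit 36582) (nat_lit 0) (nat_lit 22800) (XT.nd (nat_lit 36426) (nat_lit 0) (nat_lit 23484) (XT.lf (nat_lit 0) (nat_lit 16924826008) (nat_lit 152) (nat_lit 14463974430) (nat_lit 76) (nat_lit 49275839036) (nat_lit 18) (nat_lit 5) (nat_lit 20) (nat_lit 5) (nat_lit 19) (nat_lit 4) (nat_lit 444) (nat_lit 309) (nat_lit 147)) (XT.nd (nat_lit 78) (nat_lit 0) (nat_lit 0) (XT.lf (nat_lit 0) (nat_lit 1886270792) (nat_lit 684) (nat_lit 774732167) (nat_lit 684) (nat_lit 774732167) (nat_lit 327) (nat_lit 3) (nat_lit 336) (nat_lit 3) (nat_lit 336) (nat_lit 5) (nat_lit 310) (nat_lit 310) (nat_lit 280)) (XT.lf (nat_lit 76) (nat_lit 1772149031) (nat_lit 0) (nat_lit 3958817009) (nat_lit 684) (nat_lit 1184814776) (nat_lit 328) (nat_lit 5) (nat_lit 327) (nat_lit 3) (nat_lit 336) (nat_lit 5) (nat_lit 311) (nat_lit 310) (nat_lit 279)))) (XT.nd (nat_lit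 156) (nat_lit 0) (nat_lit 76) (XT.nd (nat_lit 78) (nat_lit 0) (nat_lit 0) (XT.lf (nat_lit 0) (nat_lit 712444681) (nat_lit 684) (nat_lit 1783717796) (nat_lit 760) (nat_lit 4466863782) (nat_lit 318) (nat_lit 5) (nat_lit 327) (nat_lit 3) (nat_lit 328) (nat_lit 5) (nat_lit 312) (nat_lit 310) (nat_lit 278)) (XT.lf (nat_lit 76) (nat_lit 1658576684) (nat_lit 0) (nat_lit 927623888) (nat_lit 760) (nat_lit 4426897573) (nat_lit 319) (nat_lit 5) (nat_lit 318) (nat_lit 5) (nat_lit 328) (nat_lit 5) (nat_lit 313) (nat_lit 310) (nat_lit 277))) (XT.nd (nat_lit 78) (nat_lit 0) (nat_lit 0) (XT.lf (nat_lit 0) (nat_lit 4470472126) (nat_lit 684) (nat_lit 1871381135) (nat_lit 760) (nat_lit 724250784) (nat_lit 319) (nat_lit 5) (nat_lit 328) (nat_lit 5) (nat_lit 329) (nat_lit 5) (nat_lit 314) (nat_lit 310) (nat_lit 276)) (XT.lf (nat_lit 76) (nat_lit 1700284340) (nat_lit 0) (nat_lit 4668068868) (nat_lit 760) (nat_lit 753693640)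 (nat_lit 320) (nat_lit 5) (nat_lit 319) (nat_lit 5) (nat_lit 329) (nat_lit 5) (nat_lit 315) (nat_lit 310) (nat_lit 275))))))))
noncomputable def xc131 : XT := (XT.nd (nat_lit 2106) (nat_lit 6004) (nat_lit 0) (XT.nd (nat_lit 1014) (nat_lit 6460) (nat_lit 0) (XT.nd (nat_lit 468) (nat_lit 2660) (nat_lit 0) (XT.nd (nat_lit 234) (nat_lit 760) (nat_lit 0) (XT.nd (nat_lit 78) (nat_lit 0) (nat_lit 0) (XT.lf (nat_lit 0) (nat_lit 1072721297) (nat_lit 760) (nat_lit 1813790641) (nat_lit 836) (nat_lit 4294336038) (nat_lit 309) (nat_lit 5) (nat_lit 319) (nat_lit 5) (nat_lit 320) (nat_lit 5) (nat_lit 316) (nat_lit 310) (nat_lit 274)) (XT.nd (nat_lit 78) (nat_lit 0) (nat_lit 76) (XT.lf (nat_lit 76) (nat_lit 1892101401) (nat_lit 0) (nat_lit 999282345) (nat_lit 836) (nat_lit 4351281566) (nat_lit 310) (nat_lit 5) (nat_lit 309) (nat_lit 5) (nat_lit 320) (nat_lit 5) (nat_lit 317) (nat_lit 310) (nat_lit 273)) (XT.lf (nat_lit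 0) (nat_lit 4728367084) (nat_lit 760) (nat_lit 1610297276) (nat_lit 836) (nat_lit 968812547) (nat_lit 310) (nat_lit 5) (nat_lit 320) (nat_lit 5) (nat_lit 321) (nat_lit 5) (nat_lit 318) (nat_lit 310) (nat_lit 272)))) (XT.nd (nat_lit 78) (nat_lit 836) (nat_lit 0) (XT.lf (nat_lit 76) (nat_lit 2235518486) (nat_lit 0) (nat_lit 4354367418) (nat_lit 836) (nat_lit 785315209) (nat_lit 311) (nat_lit 5) (nat_lit 310) (nat_lit 5) (nat_lit 321) (nat_lit 5) (nat_lit 319) (nat_lit 310) (nat_lit 271)) (XT.nd (nat_lit 78) (nat_lit 0) (nat_lit 0) (XT.lf (nat_lit 0) (nat_lit 996801032) (nat_lit 836) (nat_lit 1266381245) (nat_lit 912) (nat_lit 5182859426) (nat_lit 299) (nat_lit 5) (nat_lit 310) (nat_lit 5) (nat_lit 311) (nat_lit 5) (nat_lit 320) (nat_lit 310) (nat_lit 270)) (XT.lf (nat_lit 76) (nat_lit 2728531080) (nat_lit 0) (nat_lit 54891127) (nat_lit 912) (nat_lit 4736393986) (nat_lit 300) (nat_lit 5) (nat_lit 299) (nat_lit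 5) (nat_lit 311) (nat_lit 5) (nat_lit 321) (nat_lit 310) (nat_lit 269))))) (XT.nd (nat_lit 234) (nat_lit 1824) (nat_lit 0) (XT.nd (nat_lit 78) (nat_lit 912) (nat_lit 0) (XT.lf (nat_lit 0) (nat_lit 4600016106) (nat_lit 836) (nat_lit 789260370) (nat_lit 912) (nat_lit 2207281568) (nat_lit 300) (nat_lit 5) (nat_lit 311) (nat_lit 5) (nat_lit 312) (nat_lit 5) (nat_lit 322) (nat_lit 310) (nat_lit 268)) (XT.nd (nat_lit 78) (nat_lit 912) (nat_lit 0) (XT.lf (nat_lit 76) (nat_lit 3357381480) (nat_lit 0) (nat_lit 3090351648) (nat_lit 912) (nat_lit 1228614291) (nat_lit 301) (nat_lit 5) (nat_lit 300) (nat_lit 5) (nat_lit 312) (nat_lit 5) (nat_lit 323) (nat_lit 310) (nat_lit 267)) (XT.lf (nat_lit 0) (nat_lit 533315892) (nat_lit 912) (nat_lit 160627781) (nat_lit 988) (nat_lit 7065881774) (nat_lit 288) (nat_lit 5) (nat_lit 300) (nat_lit 5) (nat_lit 301) (nat_lit 5) (nat_lit 324) (nat_lit 310) (nat_lit 266)))) (XT.nd (nat_lit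 156) (nat_lit 988) (nat_lit 0) (XT.nd (nat_lit 78) (nat_lit 912) (nat_lit 0) (XT.lf (nat_lit 0) (nat_lit 2327112967) (nat_lit 912) (nat_lit 3712271568) (nat_lit 76) (nat_lit 1805987550) (nat_lit 289) (nat_lit 5) (nat_lit 301) (nat_lit 5) (nat_lit 290) (nat_lit 5) (nat_lit 325) (nat_lit 310) (nat_lit 265)) (XT.lf (nat_lit 0) (nat_lit 588777997) (nat_lit 912) (nat_lit 3547522499) (nat_lit 988) (nat_lit 3798376447) (nat_lit 277) (nat_lit 5) (nat_lit 289) (nat_lit 5) (nat_lit 290) (nat_lit 5) (nat_lit 326) (nat_lit 310) (nat_lit 264))) (XT.nd (nat_lit 78) (nat_lit 988) (nat_lit 0) (XT.lf (nat_lit 0) (nat_lit 5054040777) (nat_lit 912) (nat_lit 931756065) (nat_lit 988) (nat_lit 2041321089) (nat_lit 277) (nat_lit 5) (nat_lit 289) (nat_lit 5) (nat_lit 290) (nat_lit 5) (nat_lit 327) (nat_lit 310) (nat_lit 263)) (XT.lf (nat_lit 0) (nat_lit 1501937103) (nat_lit 988) (nat_lit 6370364095) (nat_lit 1064) (nat_lit 250622129)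 (nat_lit 264) (nat_lit 5) (nat_lit 277) (nat_lit 5) (nat_lit 278) (nat_lit 5) (nat_lit 328) (nat_lit 310) (nat_lit 262)))))) (XT.nd (nat_lit 546) (nat_lit 2280) (nat_lit 0) (XT.nd (nat_lit 234) (nat_lit 3040) (nat_lit 0) (XT.nd (nat_lit 78) (nat_lit 1064) (nat_lit 0) (XT.lf (nat_lit 0) (nat_lit 1552925600) (nat_lit 1064) (nat_lit 2115367476) (nat_lit 76) (nat_lit 4553178093) (nat_lit 263) (nat_lit 5) (nat_lit 277) (nat_lit 5) (nat_lit 264) (nat_lit 5) (nat_lit 329) (nat_lit 310) (nat_lit 261)) (XT.nd (nat_lit 78) (nat_lit 0) (nat_lit 0) (XT.lf (nat_lit 0) (nat_lit 2531592215) (nat_lit 1064) (nat_lit 850405629) (nat_lit 1140) (nat_lit 4941643241) (nat_lit 249) (nat_lit 5) (nat_lit 263) (nat_lit 5) (nat_lit 264) (nat_lit 5) (nat_lit 330) (nat_lit 310) (nat_lit 260)) (XT.lf (nat_lit 0) (nat_lit 5260429649) (nat_lit 1140) (nat_lit 1128697269) (nat_lit 76) (nat_lit 2039947323) (nat_lit 249) (nat_lit 5) (nat_lit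 264) (nat_lit 5) (nat_lit 250) (nat_lit 5) (nat_lit 331) (nat_lit 310) (nat_lit 259)))) (XT.nd (nat_lit 156) (nat_lit 1824) (nat_lit 0) (XT.nd (nat_lit 78) (nat_lit 76) (nat_lit 0) (XT.lf (nat_lit 0) (nat_lit 3697659676) (nat_lit 1140) (nat_lit 3496071740) (nat_lit 1216) (nat_lit 1344015270) (nat_lit 234) (nat_lit 5) (nat_lit 249) (nat_lit 5) (nat_lit 250) (nat_lit 5) (nat_lit 332) (nat_lit 310) (nat_lit 258)) (XT.lf (nat_lit 0) (nat_lit 491435727) (nat_lit 1216) (nat_lit 3808708) (nat_lit 76) (nat_lit 8155314583) (nat_lit 233) (nat_lit 5) (nat_lit 249) (nat_lit 5) (nat_lit 234) (nat_lit 5) (nat_lit 333) (nat_lit 310) (nat_lit 257))) (XT.nd (nat_lit 78) (nat_lit 608) (nat_lit 0) (XT.lf (nat_lit 0) (nat_lit 2385139372) (nat_lit 1292) (nat_lit 3769547603) (nat_lit 76) (nat_lit 2610792565) (nat_lit 217) (nat_lit 5) (nat_lit 234) (nat_lit 5) (nat_lit 218) (nat_lit 5) (nat_lit 334) (nat_lit 310) (nat_lit 256))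 (XT.lf (nat_lit 0) (nat_lit 1240286117) (nat_lit 608) (nat_lit 3069484275) (nat_lit 684) (nat_lit 4574882057) (nat_lit 209) (nat_lit 5) (nat_lit 217) (nat_lit 5) (nat_lit 218) (nat_lit 5) (nat_lit 335) (nat_lit 310) (nat_lit 255))))) (XT.nd (nat_lit 234) (nat_lit 1672) (nat_lit 0) (XT.nd (nat_lit 78) (nat_lit 608) (nat_lit 0) (XT.lf (nat_lit 0) (nat_lit 6289743715) (nat_lit 684) (nat_lit 2571794753) (nat_lit 76) (nat_lit 145961414) (nat_lit 209) (nat_lit 5) (nat_lit 218) (nat_lit 5) (nat_lit 210) (nat_lit 5) (nat_lit 336) (nat_lit 310) (nat_lit 254)) (XT.nd (nat_lit 78) (nat_lit 76) (nat_lit 0) (XT.lf (nat_lit 0) (nat_lit 2633361687) (nat_lit 532) (nat_lit 5710799401) (nat_lit 608) (nat_lit 789446940) (nat_lit 202) (nat_lit 5) (nat_lit 209) (nat_lit 5) (nat_lit 210) (nat_lit 5) (nat_lit 337) (nat_lit 310) (nat_lit 253)) (XT.lf (nat_lit 0) (nat_lit 1159304963) (nat_lit 608) (nat_lit 1268105476) (nat_lit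 76) (nat_lit 6836190618) (nat_lit 201) (nat_lit 5) (nat_lit 209) (nat_lit 5) (nat_lit 202) (nat_lit 5) (nat_lit 338) (nat_lit 310) (nat_lit 252)))) (XT.nd (nat_lit 156) (nat_lit 532) (nat_lit 0) (XT.nd (nat_lit 78) (nat_lit 532) (nat_lit 0) (XT.lf (nat_lit 0) (nat_lit 3161119802) (nat_lit 684) (nat_lit 5252470693) (nat_lit 76) (nat_lit 983379243) (nat_lit 193) (nat_lit 5) (nat_lit 202) (nat_lit 5) (nat_lit 194) (nat_lit 5) (nat_lit 339) (nat_lit 310) (nat_lit 251)) (XT.lf (nat_lit 0) (nat_lit 149686437) (nat_lit 532) (nat_lit 5073348679) (nat_lit 608) (nat_lit 4311326653) (nat_lit 186) (nat_lit 5) (nat_lit 193) (nat_lit 5) (nat_lit 194) (nat_lit 5) (nat_lit 340) (nat_lit 310) (nat_lit 250))) (XT.nd (nat_lit 78) (nat_lit 532) (nat_lit 0) (XT.lf (nat_lit 0) (nat_lit 5781381540) (nat_lit 532) (nat_lit 1580838068) (nat_lit 608) (nat_lit 2313216576) (nat_lit 186) (nat_lit 5) (nat_lit 193) (nat_lit 5) (nat_lit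 194) (nat_lit 5) (nat_lit 341) (nat_lit 310) (nat_lit 249)) (XT.lf (nat_lit 0) (nat_lit 1735649364) (nat_lit 532) (nat_lit 7829441771) (nat_lit 608) (nat_lit 255688661) (nat_lit 179) (nat_lit 5) (nat_lit 186) (nat_lit 5) (nat_lit 187) (nat_lit 5) (nat_lit 342) (nat_lit 310) (nat_lit 248))))))) (XT.nd (nat_lit 1014) (nat_lit 2736) (nat_lit 0) (XT.nd (nat_lit 468) (nat_lit 1748) (nat_lit 0) (XT.nd (nat_lit 234) (nat_lit 988) (nat_lit 0) (XT.nd (nat_lit 78) (nat_lit 456) (nat_lit 0) (XT.lf (nat_lit 0) (nat_lit 1846314215) (nat_lit 608) (nat_lit 2429660032) (nat_lit 76) (nat_lit 5693419666) (nat_lit 178) (nat_lit 5) (nat_lit 186) (nat_lit 5) (nat_lit 179) (nat_lit 5) (nat_lit 343) (nat_lit 310) (nat_lit 247)) (XT.nd (nat_lit 78) (nat_lit 0) (nat_lit 0) (XT.lf (nat_lit 0) (nat_lit 3420396028) (nat_lit 456) (nat_lit 583527294) (nat_lit 532) (nat_lit 6118557043) (nat_lit 172) (nat_lit 5) (nat_lit 178) (nat_lit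 5) (nat_lit 179) (nat_lit 5) (nat_lit 344) (nat_lit 310) (nat_lit 246)) (XT.lf (nat_lit 0) (nat_lit 6247403508) (nat_lit 532) (nat_lit 854776603) (nat_lit 76) (nat_lit 3177364836) (nat_lit 172) (nat_lit 5) (nat_lit 179) (nat_lit 5) (nat_lit 173) (nat_lit 5) (nat_lit 345) (nat_lit 310) (nat_lit 245)))) (XT.nd (nat_lit 78) (nat_lit 532) (nat_lit 0) (XT.lf (nat_lit 0) (nat_lit 5225381521) (nat_lit 456) (nat_lit 3355236380) (nat_lit 532) (nat_lit 1860049915) (nat_lit 166) (nat_lit 5) (nat_lit 172) (nat_lit 5) (nat_lit 173) (nat_lit 5) (nat_lit 346) (nat_lit 310) (nat_lit 244)) (XT.nd (nat_lit 78) (nat_lit 0) (nat_lit 0) (XT.lf (nat_lit 0) (nat_lit 358639216) (nat_lit 532) (nat_lit 9738641895) (nat_lit 76) (nat_lit 509588758) (nat_lit 159) (nat_lit 5) (nat_lit 166) (nat_lit 5) (nat_lit 160) (nat_lit 5) (nat_lit 347) (nat_lit 310) (nat_lit 243)) (XT.lf (nat_lit 0) (nat_lit 2660137895) (nat_lit 532) (nat_lit 3627097383)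 (nat_lit 76) (nat_lit 4488678804) (nat_lit 159) (nat_lit 5) (nat_lit 166) (nat_lit 5) (nat_lit 160) (nat_lit 5) (nat_lit 348) (nat_lit 310) (nat_lit 242))))) (XT.nd (nat_lit 234) (nat_lit 912) (nat_lit 0) (XT.nd (nat_lit 78) (nat_lit 380) (nat_lit 0) (XT.lf (nat_lit 0) (nat_lit 2681658862) (nat_lit 456) (nat_lit 2342983214) (nat_lit 532) (nat_lit 5925585827) (nat_lit 153) (nat_lit 5) (nat_lit 159) (nat_lit 5) (nat_lit 160) (nat_lit 5) (nat_lit 349) (nat_lit 310) (nat_lit 241)) (XT.nd (nat_lit 78) (nat_lit 380) (nat_lit 0) (XT.lf (nat_lit 0) (nat_lit 7482278157) (nat_lit 532) (nat_lit 1930510038) (nat_lit 76) (nat_lit 1716333640) (nat_lit 153) (nat_lit 5) (nat_lit 160) (nat_lit 5) (nat_lit 154) (nat_lit 5) (nat_lit 350) (nat_lit 310) (nat_lit 240)) (XT.lf (nat_lit 0) (nat_lit 4626941387) (nat_lit 380) (nat_lit 5423966826) (nat_lit 456) (nat_lit 1261372541) (nat_lit 148) (nat_lit 5) (nat_lit 153) (nat_lit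 5) (nat_lit 154) (nat_lit 5) (nat_lit 351) (nat_lit 310) (nat_lit 239)))) (XT.nd (nat_lit 156) (nat_lit 380) (nat_lit 0) (XT.nd (nat_lit 78) (nat_lit 456) (nat_lit 0) (XT.lf (nat_lit 0) (nat_lit 1161822798) (nat_lit 456) (nat_lit 129431097) (nat_lit 76) (nat_lit 10209666181) (nat_lit 147) (nat_lit 5) (nat_lit 153) (nat_lit 5) (nat_lit 148) (nat_lit 5) (nat_lit 352) (nat_lit 310) (nat_lit 238)) (XT.lf (nat_lit 0) (nat_lit 3696687209) (nat_lit 532) (nat_lit 5018479235) (nat_lit 76) (nat_lit 2977762450) (nat_lit 141) (nat_lit 5) (nat_lit 148) (nat_lit 5) (nat_lit 142) (nat_lit 5) (nat_lit 353) (nat_lit 310) (nat_lit 237))) (XT.nd (nat_lit 78) (nat_lit 0) (nat_lit 0) (XT.lf (nat_lit 0) (nat_lit 1778940230) (nat_lit 380) (nat_lit 4530973029) (nat_lit 456) (nat_lit 5580729567) (nat_lit 136) (nat_lit 5) (nat_lit 141) (nat_lit 5) (nat_lit 142) (nat_lit 5) (nat_lit 354) (nat_lit 310) (nat_lit 236)) (XT.lf (nat_lit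 0) (nat_lit 8846106066) (nat_lit 380) (nat_lit 177702920) (nat_lit 456) (nat_lit 3069824904) (nat_lit 136) (nat_lit 5) (nat_lit 141) (nat_lit 5) (nat_lit 142) (nat_lit 5) (nat_lit 355) (nat_lit 310) (nat_lit 235)))))) (XT.nd (nat_lit 546) (nat_lit 1216) (nat_lit 0) (XT.nd (nat_lit 234) (nat_lit 760) (nat_lit 0) (XT.nd (nat_lit 78) (nat_lit 380) (nat_lit 0) (XT.lf (nat_lit 0) (nat_lit 3818969452) (nat_lit 380) (nat_lit 8050598601) (nat_lit 456) (nat_lit 431646737) (nat_lit 131) (nat_lit 5) (nat_lit 136) (nat_lit 5) (nat_lit 137) (nat_lit 5) (nat_lit 356) (nat_lit 310) (nat_lit 234)) (XT.nd (nat_lit 78) (nat_lit 304) (nat_lit 0) (XT.lf (nat_lit 0) (nat_lit 2248469242) (nat_lit 456) (nat_lit 1410992651) (nat_lit 76) (nat_lit 8854692977) (nat_lit 130) (nat_lit 5) (nat_lit 136) (nat_lit 5) (nat_lit 131) (nat_lit 5) (nat_lit 357) (nat_lit 310) (nat_lit 233)) (XT.lf (nat_lit 0) (nat_lit 5039628985) (nat_lit 380)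 (nat_lit 6792929862) (nat_lit 76) (nat_lit 899628968) (nat_lit 126) (nat_lit 5) (nat_lit 131) (nat_lit 5) (nat_lit 127) (nat_lit 5) (nat_lit 358) (nat_lit 310) (nat_lit 232)))) (XT.nd (nat_lit 156) (nat_lit 380) (nat_lit 0) (XT.nd (nat_lit 78) (nat_lit 0) (nat_lit 0) (XT.lf (nat_lit 0) (nat_lit 520168800) (nat_lit 380) (nat_lit 7423640400) (nat_lit 456) (nat_lit 5012085969) (nat_lit 121) (nat_lit 5) (nat_lit 126) (nat_lit 5) (nat_lit 127) (nat_lit 5) (nat_lit 359) (nat_lit 310) (nat_lit 231)) (XT.lf (nat_lit 0) (nat_lit 8156049926) (nat_lit 380) (nat_lit 2821746417) (nat_lit 456) (nat_lit 2207248599) (nat_lit 121) (nat_lit 5) (nat_lit 126) (nat_lit 5) (nat_lit 127) (nat_lit 5) (nat_lit 360) (nat_lit 310) (nat_lit 230))) (XT.nd (nat_lit 78) (nat_lit 0) (nat_lit 0) (XT.lf (nat_lit 0) (nat_lit 686747463) (nat_lit 380) (nat_lit 10830586667) (nat_lit 76) (nat_lit 1902999954) (nat_lit 116) (nat_lit 5) (nat_lit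 121) (nat_lit 5) (nat_lit 117) (nat_lit 5) (nat_lit 361) (nat_lit 310) (nat_lit 229)) (XT.lf (nat_lit 0) (nat_lit 3677312837) (nat_lit 380) (nat_lit 3206961868) (nat_lit 76) (nat_lit 6776138844) (nat_lit 116) (nat_lit 5) (nat_lit 121) (nat_lit 5) (nat_lit 117) (nat_lit 5) (nat_lit 362) (nat_lit 310) (nat_lit 228))))) (XT.nd (nat_lit 234) (nat_lit 608) (nat_lit 0) (XT.nd (nat_lit 78) (nat_lit 304) (nat_lit 0) (XT.lf (nat_lit 0) (nat_lit 4702522973) (nat_lit 304) (nat_lit 2075896180) (nat_lit 380) (nat_lit 7128661871) (nat_lit 112) (nat_lit 5) (nat_lit 116) (nat_lit 5) (nat_lit 117) (nat_lit 5) (nat_lit 363) (nat_lit 310) (nat_lit 227)) (XT.nd (nat_lit 78) (nat_lit 304) (nat_lit 0) (XT.lf (nat_lit 0) (nat_lit 10008818574) (nat_lit 380) (nat_lit 1308022409) (nat_lit 76) (nat_lit 2843229783) (nat_lit 112) (nat_lit 5) (nat_lit 117) (nat_lit 5) (nat_lit 113) (nat_lit 5) (nat_lit 364) (nat_lit 310) (nat_lit 226))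 (XT.lf (nat_lit 0) (nat_lit 6905724258) (nat_lit 304) (nat_lit 6493945400) (nat_lit 380) (nat_lit 1019084106) (nat_lit 108) (nat_lit 5) (nat_lit 112) (nat_lit 5) (nat_lit 113) (nat_lit 5) (nat_lit 365) (nat_lit 310) (nat_lit 225)))) (XT.nd (nat_lit 156) (nat_lit 228) (nat_lit 0) (XT.nd (nat_lit 78) (nat_lit 0) (nat_lit 0) (XT.lf (nat_lit 0) (nat_lit 665508352) (nat_lit 304) (nat_lit 1494935423) (nat_lit 380) (nat_lit 12524232333) (nat_lit 103) (nat_lit 5) (nat_lit 107) (nat_lit 5) (nat_lit 108) (nat_lit 5) (nat_lit 366) (nat_lit 310) (nat_lit 224)) (XT.lf (nat_lit 0) (nat_lit 5503594012) (nat_lit 380) (nat_lit 5793140751) (nat_lit 76) (nat_lit 3658886013) (nat_lit 103) (nat_lit 5) (nat_lit 108) (nat_lit 5) (nat_lit 104) (nat_lit 5) (nat_lit 367) (nat_lit 310) (nat_lit 223))) (XT.nd (nat_lit 78) (nat_lit 0) (nat_lit 0) (XT.lf (nat_lit 0) (nat_lit 2683951215) (nat_lit 228) (nat_lit 6281335421) (nat_lit 304)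 (nat_lit 6268868374) (nat_lit 100) (nat_lit 5) (nat_lit 103) (nat_lit 5) (nat_lit 104) (nat_lit 5) (nat_lit 368) (nat_lit 310) (nat_lit 222)) (XT.lf (nat_lit 0) (nat_lit 11501147936) (nat_lit 228) (nat_lit 1066162441) (nat_lit 304) (nat_lit 2952648893) (nat_lit 100) (nat_lit 5) (nat_lit 103) (nat_lit 5) (nat_lit 104) (nat_lit 5) (nat_lit 369) (nat_lit 310) (nat_lit 221))))))))
noncomputable def xc132 : XT := (XT.nd (nat_lit 2028) (nat_lit 1900) (nat_lit 0) (XT.nd (nat_lit 1014) (nat_lit 1444) (nat_lit 0) (XT.nd (nat_lit 468) (nat_lit 760) (nat_lit 0) (XT.nd (nat_lit 234) (nat_lit 608) (nat_lit 0) (XT.nd (nat_lit 78) (nat_lit 228) (nat_lit 0) (XT.lf (nat_lit 0) (nat_lit 520598362) (nat_lit 380) (nat_lit 11029453181) (nat_lit 76) (nat_lit 4262163197) (nat_lit 95) (nat_lit 5) (nat_lit 100) (nat_lit 5) (nat_lit 96) (nat_lit 5) (nat_lit 370) (nat_lit 310) (nat_lit 220)) (XT.nd (nat_lit 78) (nat_lit 228) (nat_lit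 0) (XT.lf (nat_lit 0) (nat_lit 4068856376) (nat_lit 380) (nat_lit 2254112242) (nat_lit 76) (nat_lit 9788495168) (nat_lit 95) (nat_lit 5) (nat_lit 100) (nat_lit 5) (nat_lit 96) (nat_lit 5) (nat_lit 371) (nat_lit 310) (nat_lit 219)) (XT.lf (nat_lit 0) (nat_lit 6887170631) (nat_lit 228) (nat_lit 881836629) (nat_lit 304) (nat_lit 8649327162) (nat_lit 92) (nat_lit 5) (nat_lit 95) (nat_lit 5) (nat_lit 96) (nat_lit 5) (nat_lit 372) (nat_lit 310) (nat_lit 218)))) (XT.nd (nat_lit 78) (nat_lit 608) (nat_lit 0) (XT.lf (nat_lit 0) (nat_lit 11627984991) (nat_lit 304) (nat_lit 462367058) (nat_lit 76) (nat_lit 4642631716) (nat_lit 92) (nat_lit 5) (nat_lit 96) (nat_lit 5) (nat_lit 93) (nat_lit 5) (nat_lit 373) (nat_lit 310) (nat_lit 217)) (XT.nd (nat_lit 78) (nat_lit 304) (nat_lit 0) (XT.lf (nat_lit 0) (nat_lit 9014684480) (nat_lit 304) (nat_lit 6663471151) (nat_lit 380) (nat_lit 1376661291) (nat_lit 88) (nat_lit 5) (nat_lit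 92) (nat_lit 5) (nat_lit 93) (nat_lit 5) (nat_lit 374) (nat_lit 310) (nat_lit 216)) (XT.lf (nat_lit 0) (nat_lit 1371307176) (nat_lit 228) (nat_lit 1042166761) (nat_lit 304) (nat_lit 14972186753) (nat_lit 84) (nat_lit 5) (nat_lit 87) (nat_lit 5) (nat_lit 88) (nat_lit 5) (nat_lit 375) (nat_lit 310) (nat_lit 215))))) (XT.nd (nat_lit 234) (nat_lit 532) (nat_lit 0) (XT.nd (nat_lit 78) (nat_lit 228) (nat_lit 0) (XT.lf (nat_lit 0) (nat_lit 6397574013) (nat_lit 304) (nat_lit 6585429395) (nat_lit 76) (nat_lit 4739785990) (nat_lit 84) (nat_lit 5) (nat_lit 88) (nat_lit 5) (nat_lit 85) (nat_lit 5) (nat_lit 376) (nat_lit 310) (nat_lit 214)) (XT.nd (nat_lit 78) (nat_lit 0) (nat_lit 0) (XT.lf (nat_lit 0) (nat_lit 3147098469) (nat_lit 228) (nat_lit 7375541130) (nat_lit 304) (nat_lit 7546755353) (nat_lit 81) (nat_lit 5) (nat_lit 84) (nat_lit 5) (nat_lit 85) (nat_lit 5) (nat_lit 377) (nat_lit 310) (nat_lit 213)) (XT.lf (nat_lit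 0) (nat_lit 13276537907) (nat_lit 228) (nat_lit 1542559532) (nat_lit 304) (nat_lit 3605878099) (nat_lit 81) (nat_lit 5) (nat_lit 84) (nat_lit 5) (nat_lit 85) (nat_lit 5) (nat_lit 378) (nat_lit 310) (nat_lit 212)))) (XT.nd (nat_lit 156) (nat_lit 228) (nat_lit 0) (XT.nd (nat_lit 78) (nat_lit 0) (nat_lit 0) (XT.lf (nat_lit 0) (nat_lit 517108687) (nat_lit 304) (nat_lit 13851613646) (nat_lit 76) (nat_lit 4420194420) (nat_lit 77) (nat_lit 5) (nat_lit 81) (nat_lit 5) (nat_lit 78) (nat_lit 5) (nat_lit 379) (nat_lit 310) (nat_lit 211)) (XT.lf (nat_lit 0) (nat_lit 4740741247) (nat_lit 304) (nat_lit 3812266347) (nat_lit 76) (nat_lit 10608220193) (nat_lit 77) (nat_lit 5) (nat_lit 81) (nat_lit 5) (nat_lit 78) (nat_lit 5) (nat_lit 380) (nat_lit 310) (nat_lit 210))) (XT.nd (nat_lit 78) (nat_lit 0) (nat_lit 0) (XT.lf (nat_lit 0) (nat_lit 6628763451) (nat_lit 228) (nat_lit 2508227425) (nat_lit 304) (nat_lit 10406345434)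 (nat_lit 74) (nat_lit 5) (nat_lit 77) (nat_lit 5) (nat_lit 78) (nat_lit 5) (nat_lit 381) (nat_lit 310) (nat_lit 209)) (XT.lf (nat_lit 0) (nat_lit 13722071082) (nat_lit 304) (nat_lit 2539693849) (nat_lit 76) (nat_lit 3673440106) (nat_lit 74) (nat_lit 5) (nat_lit 78) (nat_lit 5) (nat_lit 75) (nat_lit 5) (nat_lit 382) (nat_lit 310) (nat_lit 208)))))) (XT.nd (nat_lit 468) (nat_lit 532) (nat_lit 0) (XT.nd (nat_lit 234) (nat_lit 456) (nat_lit 0) (XT.nd (nat_lit 78) (nat_lit 304) (nat_lit 0) (XT.lf (nat_lit 0) (nat_lit 8254524881) (nat_lit 152) (nat_lit 10277201869) (nat_lit 228) (nat_lit 1804497472) (nat_lit 72) (nat_lit 5) (nat_lit 74) (nat_lit 5) (nat_lit 75) (nat_lit 5) (nat_lit 383) (nat_lit 310) (nat_lit 207)) (XT.nd (nat_lit 78) (nat_lit 228) (nat_lit 0) (XT.lf (nat_lit 0) (nat_lit 2691801950) (nat_lit 228) (nat_lit 1378648416) (nat_lit 76) (nat_lit 16677775270) (nat_lit 71) (nat_lit 5) (nat_lit 74) (nat_lit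 5) (nat_lit 72) (nat_lit 5) (nat_lit 384) (nat_lit 310) (nat_lit 206)) (XT.lf (nat_lit 0) (nat_lit 7387571014) (nat_lit 304) (nat_lit 11401764863) (nat_lit 76) (nat_lit 2379694407) (nat_lit 68) (nat_lit 5) (nat_lit 72) (nat_lit 5) (nat_lit 69) (nat_lit 5) (nat_lit 385) (nat_lit 310) (nat_lit 205)))) (XT.nd (nat_lit 78) (nat_lit 456) (nat_lit 0) (XT.lf (nat_lit 0) (nat_lit 12262092573) (nat_lit 304) (nat_lit 394182593) (nat_lit 76) (nat_lit 8945052041) (nat_lit 68) (nat_lit 5) (nat_lit 72) (nat_lit 5) (nat_lit 69) (nat_lit 5) (nat_lit 386) (nat_lit 310) (nat_lit 204)) (XT.nd (nat_lit 78) (nat_lit 304) (nat_lit 0) (XT.lf (nat_lit 0) (nat_lit 11134177118) (nat_lit 152) (nat_lit 6239699678) (nat_lit 228) (nat_lit 4669989824) (nat_lit 66) (nat_lit 5) (nat_lit 68) (nat_lit 5) (nat_lit 69) (nat_lit 5) (nat_lit 387) (nat_lit 310) (nat_lit 203)) (XT.lf (nat_lit 0) (nat_lit 133021793) (nat_lit 304) (nat_lit 22004931482)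 (nat_lit 76) (nat_lit 361800646) (nat_lit 62) (nat_lit 5) (nat_lit 66) (nat_lit 5) (nat_lit 63) (nat_lit 5) (nat_lit 388) (nat_lit 310) (nat_lit 202))))) (XT.nd (nat_lit 234) (nat_lit 380) (nat_lit 0) (XT.nd (nat_lit 78) (nat_lit 152) (nat_lit 0) (XT.lf (nat_lit 0) (nat_lit 5143453877) (nat_lit 304) (nat_lit 10636900354) (nat_lit 76) (nat_lit 7182864732) (nat_lit 62) (nat_lit 5) (nat_lit 66) (nat_lit 5) (nat_lit 63) (nat_lit 5) (nat_lit 389) (nat_lit 310) (nat_lit 201)) (XT.nd (nat_lit 78) (nat_lit 0) (nat_lit 0) (XT.lf (nat_lit 0) (nat_lit 1066885929) (nat_lit 152) (nat_lit 9232185892) (nat_lit 228) (nat_lit 13141673850) (nat_lit 60) (nat_lit 5) (nat_lit 62) (nat_lit 5) (nat_lit 63) (nat_lit 5) (nat_lit 390) (nat_lit 310) (nat_lit 200)) (XT.lf (nat_lit 0) (nat_lit 13313983193) (nat_lit 152) (nat_lit 2387603848) (nat_lit 228) (nat_lit 8228248062) (nat_lit 60) (nat_lit 5) (nat_lit 62) (nat_lit 5) (nat_lit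 63) (nat_lit 5) (nat_lit 391) (nat_lit 310) (nat_lit 199)))) (XT.nd (nat_lit 156) (nat_lit 152) (nat_lit 0) (XT.nd (nat_lit 78) (nat_lit 76) (nat_lit 0) (XT.lf (nat_lit 0) (nat_lit 1452990065) (nat_lit 152) (nat_lit 19857131304) (nat_lit 228) (nat_lit 3122161216) (nat_lit 58) (nat_lit 5) (nat_lit 60) (nat_lit 5) (nat_lit 61) (nat_lit 5) (nat_lit 392) (nat_lit 310) (nat_lit 198)) (XT.lf (nat_lit 0) (nat_lit 2212506979) (nat_lit 228) (nat_lit 10915810558) (nat_lit 76) (nat_lit 11817360081) (nat_lit 57) (nat_lit 5) (nat_lit 60) (nat_lit 5) (nat_lit 58) (nat_lit 5) (nat_lit 393) (nat_lit 310) (nat_lit 197))) (XT.nd (nat_lit 78) (nat_lit 0) (nat_lit 0) (XT.lf (nat_lit 0) (nat_lit 1482850895) (nat_lit 152) (nat_lit 6161498198) (nat_lit 228) (nat_lit 17829204813) (nat_lit 55) (nat_lit 5) (nat_lit 57) (nat_lit 5) (nat_lit 58) (nat_lit 5) (nat_lit 394) (nat_lit 310) (nat_lit 196)) (XT.lf (nat_lit 0) (nat_lit 13345932304)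 (nat_lit 228) (nat_lit 11572400932) (nat_lit 76) (nat_lit 1095732937) (nat_lit 55) (nat_lit 5) (nat_lit 58) (nat_lit 5) (nat_lit 56) (nat_lit 5) (nat_lit 395) (nat_lit 310) (nat_lit 195))))))) (XT.nd (nat_lit 1014) (nat_lit 836) (nat_lit 0) (XT.nd (nat_lit 468) (nat_lit 532) (nat_lit 0) (XT.nd (nat_lit 234) (nat_lit 152) (nat_lit 0) (XT.nd (nat_lit 78) (nat_lit 228) (nat_lit 0) (XT.lf (nat_lit 0) (nat_lit 1155888972) (nat_lit 152) (nat_lit 18120921986) (nat_lit 228) (nat_lit 7292238584) (nat_lit 53) (nat_lit 5) (nat_lit 55) (nat_lit 5) (nat_lit 56) (nat_lit 5) (nat_lit 396) (nat_lit 310) (nat_lit 194)) (XT.nd (nat_lit 78) (nat_lit 228) (nat_lit 0) (XT.lf (nat_lit 0) (nat_lit 14479374977) (nat_lit 152) (nat_lit 11009405876) (nat_lit 228) (nat_lit 1648809691) (nat_lit 53) (nat_lit 5) (nat_lit 55) (nat_lit 5) (nat_lit 56) (nat_lit 5) (nat_lit 397) (nat_lit 310) (nat_lit 193)) (XT.lf (nat_lit 0) (nat_lit 424178631)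 (nat_lit 152) (nat_lit 3649138389) (nat_lit 228) (nat_lit 23648953429) (nat_lit 50) (nat_lit 5) (nat_lit 52) (nat_lit 5) (nat_lit 53) (nat_lit 5) (nat_lit 398) (nat_lit 310) (nat_lit 192)))) (XT.nd (nat_lit 78) (nat_lit 152) (nat_lit 0) (XT.lf (nat_lit 0) (nat_lit 10087495824) (nat_lit 228) (nat_lit 14241042271) (nat_lit 76) (nat_lit 3990859898) (nat_lit 50) (nat_lit 5) (nat_lit 53) (nat_lit 5) (nat_lit 51) (nat_lit 5) (nat_lit 399) (nat_lit 310) (nat_lit 191)) (XT.nd (nat_lit 78) (nat_lit 152) (nat_lit 0) (XT.lf (nat_lit 0) (nat_lit 16305261932) (nat_lit 228) (nat_lit 851251386) (nat_lit 76) (nat_lit 11777233923) (nat_lit 50) (nat_lit 5) (nat_lit 53) (nat_lit 5) (nat_lit 51) (nat_lit 5) (nat_lit 400) (nat_lit 310) (nat_lit 190)) (XT.lf (nat_lit 0) (nat_lit 13175153095) (nat_lit 152) (nat_lit 9648465129) (nat_lit 228) (nat_lit 6739489681) (nat_lit 48) (nat_lit 5) (nat_lit 50) (nat_lit 5) (nat_lit 51) (nat_lit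 5) (nat_lit 401) (nat_lit 310) (nat_lit 189))))) (XT.nd (nat_lit 234) (nat_lit 304) (nat_lit 0) (XT.nd (nat_lit 78) (nat_lit 228) (nat_lit 0) (XT.lf (nat_lit 0) (nat_lit 27617842110) (nat_lit 152) (nat_lit 1915844280) (nat_lit 228) (nat_lit 677780742) (nat_lit 48) (nat_lit 5) (nat_lit 50) (nat_lit 5) (nat_lit 51) (nat_lit 5) (nat_lit 402) (nat_lit 310) (nat_lit 188)) (XT.nd (nat_lit 78) (nat_lit 0) (nat_lit 0) (XT.lf (nat_lit 0) (nat_lit 5617812644) (nat_lit 228) (nat_lit 19165222465) (nat_lit 76) (nat_lit 6089820160) (nat_lit 45) (nat_lit 5) (nat_lit 48) (nat_lit 5) (nat_lit 46) (nat_lit 5) (nat_lit 403) (nat_lit 310) (nat_lit 187)) (XT.lf (nat_lit 0) (nat_lit 12121935586) (nat_lit 228) (nat_lit 5109768809) (nat_lit 76) (nat_lit 14321183160) (nat_lit 45) (nat_lit 5) (nat_lit 48) (nat_lit 5) (nat_lit 46) (nat_lit 5) (nat_lit 404) (nat_lit 310) (nat_lit 186)))) (XT.nd (nat_lit 156) (nat_lit 152) (nat_lit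 0) (XT.nd (nat_lit 78) (nat_lit 0) (nat_lit 0) (XT.lf (nat_lit 0) (nat_lit 9532363232) (nat_lit 152) (nat_lit 9368669191) (nat_lit 228) (nat_lit 13349895170) (nat_lit 43) (nat_lit 5) (nat_lit 45) (nat_lit 5) (nat_lit 46) (nat_lit 5) (nat_lit 405) (nat_lit 310) (nat_lit 185)) (XT.lf (nat_lit 0) (nat_lit 24697714364) (nat_lit 152) (nat_lit 1225749030) (nat_lit 228) (nat_lit 7045248826) (nat_lit 43) (nat_lit 5) (nat_lit 45) (nat_lit 5) (nat_lit 46) (nat_lit 5) (nat_lit 406) (nat_lit 310) (nat_lit 184))) (XT.nd (nat_lit 78) (nat_lit 76) (nat_lit 0) (XT.lf (nat_lit 0) (nat_lit 6650490056) (nat_lit 76) (nat_lit 26627462256) (nat_lit 152) (nat_lit 426438683) (nat_lit 42) (nat_lit 5) (nat_lit 43) (nat_lit 5) (nat_lit 44) (nat_lit 4) (nat_lit 407) (nat_lit 310) (nat_lit 183)) (XT.lf (nat_lit 0) (nat_lit 6351349232) (nat_lit 152) (nat_lit 12365329218) (nat_lit 76) (nat_lit 15741067001) (nat_lit 41) (nat_lit 5) (nat_lit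 43) (nat_lit 5) (nat_lit 42) (nat_lit 5) (nat_lit 408) (nat_lit 310) (nat_lit 182)))))) (XT.nd (nat_lit 546) (nat_lit 380) (nat_lit 0) (XT.nd (nat_lit 234) (nat_lit 304) (nat_lit 0) (XT.nd (nat_lit 78) (nat_lit 0) (nat_lit 0) (XT.lf (nat_lit 0) (nat_lit 2794333137) (nat_lit 152) (nat_lit 10545398092) (nat_lit 228) (nat_lit 21893369680) (nat_lit 39) (nat_lit 5) (nat_lit 41) (nat_lit 5) (nat_lit 42) (nat_lit 5) (nat_lit 409) (nat_lit 310) (nat_lit 181)) (XT.nd (nat_lit 78) (nat_lit 0) (nat_lit 0) (XT.lf (nat_lit 0) (nat_lit 18642585456) (nat_lit 152) (nat_lit 2009147506) (nat_lit 228) (nat_lit 15376566940) (nat_lit 39) (nat_lit 5) (nat_lit 41) (nat_lit 5) (nat_lit 42) (nat_lit 5) (nat_lit 410) (nat_lit 310) (nat_lit 180)) (XT.lf (nat_lit 0) (nat_lit 28237637079) (nat_lit 228) (nat_lit 1965614936) (nat_lit 76) (nat_lit 6642468441) (nat_lit 39) (nat_lit 5) (nat_lit 42) (nat_lit 5) (nat_lit 40) (nat_lit 4) (nat_lit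 411) (nat_lit 310) (nat_lit 179)))) (XT.nd (nat_lit 156) (nat_lit 152) (nat_lit 0) (XT.nd (nat_lit 78) (nat_lit 76) (nat_lit 0) (XT.lf (nat_lit 0) (nat_lit 14154624820) (nat_lit 76) (nat_lit 22042097656) (nat_lit 152) (nat_lit 1486574835) (nat_lit 38) (nat_lit 5) (nat_lit 39) (nat_lit 5) (nat_lit 40) (nat_lit 4) (nat_lit 412) (nat_lit 310) (nat_lit 178)) (XT.lf (nat_lit 0) (nat_lit 5744165961) (nat_lit 152) (nat_lit 7821858826) (nat_lit 76) (nat_lit 24978000371) (nat_lit 37) (nat_lit 5) (nat_lit 39) (nat_lit 5) (nat_lit 38) (nat_lit 5) (nat_lit 413) (nat_lit 310) (nat_lit 177))) (XT.nd (nat_lit 78) (nat_lit 0) (nat_lit 0) (XT.lf (nat_lit 0) (nat_lit 8488834909) (nat_lit 152) (nat_lit 4744684642) (nat_lit 228) (nat_lit 26194468310) (nat_lit 35) (nat_lit 5) (nat_lit 37) (nat_lit 5) (nat_lit 38) (nat_lit 5) (nat_lit 414) (nat_lit 310) (nat_lit 176)) (XT.lf (nat_lit 0) (nat_lit 21059061737) (nat_lit 228) (nat_lit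 14947718289) (nat_lit 76) (nat_lit 4328345786) (nat_lit 35) (nat_lit 5) (nat_lit 38) (nat_lit 5) (nat_lit 36) (nat_lit 4) (nat_lit 415) (nat_lit 310) (nat_lit 175))))) (XT.nd (nat_lit 234) (nat_lit 228) (nat_lit 0) (XT.nd (nat_lit 78) (nat_lit 76) (nat_lit 0) (XT.lf (nat_lit 0) (nat_lit 1487751519) (nat_lit 76) (nat_lit 27683197240) (nat_lit 152) (nat_lit 12096983344) (nat_lit 34) (nat_lit 5) (nat_lit 35) (nat_lit 5) (nat_lit 36) (nat_lit 4) (nat_lit 416) (nat_lit 310) (nat_lit 174)) (XT.nd (nat_lit 78) (nat_lit 76) (nat_lit 0) (XT.lf (nat_lit 0) (nat_lit 18705110920) (nat_lit 76) (nat_lit 18962437882) (nat_lit 152) (nat_lit 4556934604) (nat_lit 34) (nat_lit 5) (nat_lit 35) (nat_lit 5) (nat_lit 36) (nat_lit 4) (nat_lit 417) (nat_lit 310) (nat_lit 173)) (XT.lf (nat_lit 0) (nat_lit 3137289675) (nat_lit 152) (nat_lit 6818854366) (nat_lit 76) (nat_lit 33252945156) (nat_lit 33) (nat_lit 5) (nat_lit 35) (nat_lit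 5) (nat_lit 34) (nat_lit 5) (nat_lit 418) (nat_lit 310) (nat_lit 172)))) (XT.nd (nat_lit 156) (nat_lit 76) (nat_lit 0) (XT.nd (nat_lit 78) (nat_lit 0) (nat_lit 0) (XT.lf (nat_lit 0) (nat_lit 10526203812) (nat_lit 152) (nat_lit 536604498) (nat_lit 228) (nat_lit 33156310968) (nat_lit 31) (nat_lit 5) (nat_lit 33) (nat_lit 5) (nat_lit 34) (nat_lit 5) (nat_lit 419) (nat_lit 310) (nat_lit 171)) (XT.lf (nat_lit 0) (nat_lit 19374642560) (nat_lit 228) (nat_lit 16831573608) (nat_lit 76) (nat_lit 9048778938) (nat_lit 31) (nat_lit 5) (nat_lit 34) (nat_lit 5) (nat_lit 32) (nat_lit 4) (nat_lit 420) (nat_lit 310) (nat_lit 170))) (XT.nd (nat_lit 78) (nat_lit 0) (nat_lit 0) (XT.lf (nat_lit 0) (nat_lit 524217907) (nat_lit 76) (nat_lit 27413137449) (nat_lit 152) (nat_lit 18384547453) (nat_lit 30) (nat_lit 5) (nat_lit 31) (nat_lit 5) (nat_lit 32) (nat_lit 4) (nat_lit 421) (nat_lit 310) (nat_lit 169)) (XT.lf (nat_lit 0) (nat_lit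 18729566737) (nat_lit 76) (nat_lit 18188622114) (nat_lit 152) (nat_lit 10497792981) (nat_lit 30) (nat_lit 5) (nat_lit 31) (nat_lit 5) (nat_lit 32) (nat_lit 4) (nat_lit 422) (nat_lit 310) (nat_lit 168))))))))
noncomputable def xc133 : XT := (XT.nd (nat_lit 38454) (nat_lit 0) (nat_lit 12768) (XT.nd (nat_lit 1014) (nat_lit 380) (nat_lit 0) (XT.nd (nat_lit 468) (nat_lit 228) (nat_lit 0) (XT.nd (nat_lit 234) (nat_lit 76) (nat_lit 0) (XT.nd (nat_lit 78) (nat_lit 228) (nat_lit 0) (XT.lf (nat_lit 0) (nat_lit 37465399151) (nat_lit 76) (nat_lit 8694575799) (nat_lit 152) (nat_lit 2383163680) (nat_lit 30) (nat_lit 5) (nat_lit 31) (nat_lit 5) (nat_lit 32) (nat_lit 4) (nat_lit 423) (nat_lit 310) (nat_lit 167)) (XT.nd (nat_lit 78) (nat_lit 0) (nat_lit 0) (XT.lf (nat_lit 0) (nat_lit 5930099866) (nat_lit 228) (nat_lit 42586766593) (nat_lit 76) (nat_lit 1183368182) (nat_lit 27) (nat_lit 5) (nat_lit 30) (nat_lit 5) (nat_lit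 28) (nat_lit 4) (nat_lit 424) (nat_lit 310) (nat_lit 166)) (XT.lf (nat_lit 0) (nat_lit 14635637775) (nat_lit 228) (nat_lit 24937397106) (nat_lit 76) (nat_lit 11312578637) (nat_lit 27) (nat_lit 5) (nat_lit 30) (nat_lit 5) (nat_lit 28) (nat_lit 4) (nat_lit 425) (nat_lit 310) (nat_lit 165)))) (XT.nd (nat_lit 78) (nat_lit 76) (nat_lit 0) (XT.lf (nat_lit 0) (nat_lit 23594302765) (nat_lit 228) (nat_lit 6773513458) (nat_lit 76) (nat_lit 21738979804) (nat_lit 27) (nat_lit 5) (nat_lit 30) (nat_lit 5) (nat_lit 28) (nat_lit 4) (nat_lit 426) (nat_lit 310) (nat_lit 164)) (XT.nd (nat_lit 78) (nat_lit 0) (nat_lit 0) (XT.lf (nat_lit 0) (nat_lit 12158002117) (nat_lit 76) (nat_lit 20772790830) (nat_lit 152) (nat_lit 20430550169) (nat_lit 26) (nat_lit 5) (nat_lit 27) (nat_lit 5) (nat_lit 28) (nat_lit 4) (nat_lit 427) (nat_lit 310) (nat_lit 163)) (XT.lf (nat_lit 0) (nat_lit 31781925013) (nat_lit 76) (nat_lit 10826136135) (nat_lit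 152) (nat_lit 12043646003) (nat_lit 26) (nat_lit 5) (nat_lit 27) (nat_lit 5) (nat_lit 28) (nat_lit 4) (nat_lit 428) (nat_lit 310) (nat_lit 162))))) (XT.nd (nat_lit 234) (nat_lit 76) (nat_lit 0) (XT.nd (nat_lit 78) (nat_lit 152) (nat_lit 0) (XT.lf (nat_lit 0) (nat_lit 51980596146) (nat_lit 76) (nat_lit 587560088) (nat_lit 152) (nat_lit 3412851608) (nat_lit 26) (nat_lit 5) (nat_lit 27) (nat_lit 5) (nat_lit 28) (nat_lit 4) (nat_lit 429) (nat_lit 310) (nat_lit 161)) (XT.nd (nat_lit 78) (nat_lit 0) (nat_lit 0) (XT.lf (nat_lit 0) (nat_lit 5610996609) (nat_lit 152) (nat_lit 41767435139) (nat_lit 76) (nat_lit 9962947239) (nat_lit 24) (nat_lit 5) (nat_lit 26) (nat_lit 5) (nat_lit 25) (nat_lit 4) (nat_lit 430) (nat_lit 310) (nat_lit 160)) (XT.lf (nat_lit 0) (nat_lit 14876255888) (nat_lit 152) (nat_lit 22977556212) (nat_lit 76) (nat_lit 20886557646) (nat_lit 24) (nat_lit 5) (nat_lit 26) (nat_lit 5) (nat_lit 25) (nat_lit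 4) (nat_lit 431) (nat_lit 310) (nat_lit 159)))) (XT.nd (nat_lit 156) (nat_lit 0) (nat_lit 0) (XT.nd (nat_lit 78) (nat_lit 76) (nat_lit 0) (XT.lf (nat_lit 0) (nat_lit 24412363092) (nat_lit 152) (nat_lit 3637314328) (nat_lit 76) (nat_lit 32131866995) (nat_lit 24) (nat_lit 5) (nat_lit 26) (nat_lit 5) (nat_lit 25) (nat_lit 4) (nat_lit 432) (nat_lit 310) (nat_lit 158)) (XT.lf (nat_lit 0) (nat_lit 16593998431) (nat_lit 76) (nat_lit 17793163972) (nat_lit 152) (nat_lit 27274214517) (nat_lit 23) (nat_lit 5) (nat_lit 24) (nat_lit 5) (nat_lit 25) (nat_lit 4) (nat_lit 433) (nat_lit 310) (nat_lit 157))) (XT.nd (nat_lit 78) (nat_lit 0) (nat_lit 0) (XT.lf (nat_lit 0) (nat_lit 37493993804) (nat_lit 76) (nat_lit 7197116697) (nat_lit 152) (nat_lit 18493597594) (nat_lit 23) (nat_lit 5) (nat_lit 24) (nat_lit 5) (nat_lit 25) (nat_lit 4) (nat_lit 434) (nat_lit 310) (nat_lit 156)) (XT.lf (nat_lit 0) (nat_lit 55333223229) (nat_lit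 152) (nat_lit 5781066906) (nat_lit 0) (nat_lit 3638578498) (nat_lit 23) (nat_lit 5) (nat_lit 25) (nat_lit 4) (nat_lit 23) (nat_lit 4) (nat_lit 435) (nat_lit 310) (nat_lit 155)))))) (XT.nd (nat_lit 468) (nat_lit 152) (nat_lit 0) (XT.nd (nat_lit 234) (nat_lit 76) (nat_lit 0) (XT.nd (nat_lit 78) (nat_lit 0) (nat_lit 0) (XT.lf (nat_lit 0) (nat_lit 138344902) (nat_lit 152) (nat_lit 51429379618) (nat_lit 76) (nat_lit 14794059851) (nat_lit 21) (nat_lit 5) (nat_lit 23) (nat_lit 5) (nat_lit 22) (nat_lit 4) (nat_lit 436) (nat_lit 310) (nat_lit 154)) (XT.nd (nat_lit 78) (nat_lit 0) (nat_lit 0) (XT.lf (nat_lit 0) (nat_lit 9846225705) (nat_lit 152) (nat_lit 31737502984) (nat_lit 76) (nat_lit 26430867431) (nat_lit 21) (nat_lit 5) (nat_lit 23) (nat_lit 5) (nat_lit 22) (nat_lit 4) (nat_lit 437) (nat_lit 310) (nat_lit 153)) (XT.lf (nat_lit 0) (nat_lit 19839052541) (nat_lit 152) (nat_lit 11466745474) (nat_lit 76) (nat_lit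 38411383642) (nat_lit 21) (nat_lit 5) (nat_lit 23) (nat_lit 5) (nat_lit 22) (nat_lit 4) (nat_lit 438) (nat_lit 310) (nat_lit 152)))) (XT.nd (nat_lit 78) (nat_lit 0) (nat_lit 0) (XT.lf (nat_lit 0) (nat_lit 9587695702) (nat_lit 76) (nat_lit 20630024102) (nat_lit 152) (nat_lit 41250543990) (nat_lit 20) (nat_lit 5) (nat_lit 21) (nat_lit 5) (nat_lit 22) (nat_lit 4) (nat_lit 439) (nat_lit 310) (nat_lit 151)) (XT.nd (nat_lit 78) (nat_lit 0) (nat_lit 0) (XT.lf (nat_lit 0) (nat_lit 31497410653) (nat_lit 76) (nat_lit 9520089038) (nat_lit 152) (nat_lit 32251086808) (nat_lit 20) (nat_lit 5) (nat_lit 21) (nat_lit 5) (nat_lit 22) (nat_lit 4) (nat_lit 440) (nat_lit 310) (nat_lit 150)) (XT.lf (nat_lit 0) (nat_lit 52153846082) (nat_lit 152) (nat_lit 21088198622) (nat_lit 0) (nat_lit 1880497649) (nat_lit 20) (nat_lit 5) (nat_lit 22) (nat_lit 4) (nat_lit 20) (nat_lit 4) (nat_lit 441) (nat_lit 310) (nat_lit 149))))) (XT.nd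 (nat_lit 36660) (nat_lit 0) (nat_lit 22800) (XT.nd (nat_lit 78) (nat_lit 76) (nat_lit 0) (XT.lf (nat_lit 0) (nat_lit 112317492) (nat_lit 76) (nat_lit 63601562246) (nat_lit 76) (nat_lit 13315549881) (nat_lit 19) (nat_lit 4) (nat_lit 20) (nat_lit 5) (nat_lit 20) (nat_lit 4) (nat_lit 442) (nat_lit 310) (nat_lit 148)) (XT.nd (nat_lit 78) (nat_lit 76) (nat_lit 0) (XT.lf (nat_lit 0) (nat_lit 22370359355) (nat_lit 76) (nat_lit 53457627029) (nat_lit 76) (nat_lit 3159319585) (nat_lit 19) (nat_lit 4) (nat_lit 20) (nat_lit 5) (nat_lit 20) (nat_lit 4) (nat_lit 443) (nat_lit 310) (nat_lit 147)) (XT.lf (nat_lit 0) (nat_lit 7153549868) (nat_lit 152) (nat_lit 35788538182) (nat_lit 76) (nat_lit 38059892543) (nat_lit 18) (nat_lit 5) (nat_lit 20) (nat_lit 5) (nat_lit 19) (nat_lit 4) (nat_lit 444) (nat_lit 310) (nat_lit 146)))) (XT.nd (nat_lit 156) (nat_lit 0) (nat_lit 0) (XT.nd (nat_lit 78) (nat_lit 0) (nat_lit 0) (XT.lf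 (nat_lit 0) (nat_lit 162602933) (nat_lit 0) (nat_lit 162602933) (nat_lit 684) (nat_lit 3155720433) (nat_lit 318) (nat_lit 5) (nat_lit 318) (nat_lit 3) (nat_lit 327) (nat_lit 3) (nat_lit 311) (nat_lit 311) (nat_lit 278)) (XT.lf (nat_lit 0) (nat_lit 2485685700) (nat_lit 684) (nat_lit 3304232723) (nat_lit 760) (nat_lit 1220034830) (nat_lit 318) (nat_lit 5) (nat_lit 327) (nat_lit 3) (nat_lit 328) (nat_lit 5) (nat_lit 312) (nat_lit 311) (nat_lit 277))) (XT.nd (nat_lit 78) (nat_lit 0) (nat_lit 0) (XT.lf (nat_lit 76) (nat_lit 88752231) (nat_lit 0) (nat_lit 4220900791) (nat_lit 760) (nat_lit 2751895796) (nat_lit 319) (nat_lit 5) (nat_lit 318) (nat_lit 5) (nat_lit 328) (nat_lit 5) (nat_lit 313) (nat_lit 311) (nat_lit 276)) (XT.lf (nat_lit 76) (nat_lit 3613718478) (nat_lit 0) (nat_lit 2539240008) (nat_lit 760) (nat_lit 962854362) (nat_lit 319) (nat_lit 5) (nat_lit 318) (nat_lit 5) (nat_lit 328) (nat_lit 5) (nat_lit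 314) (nat_lit 311) (nat_lit 275))))))) (XT.nd (nat_lit 1014) (nat_lit 6916) (nat_lit 0) (XT.nd (nat_lit 468) (nat_lit 1596) (nat_lit 0) (XT.nd (nat_lit 234) (nat_lit 760) (nat_lit 0) (XT.nd (nat_lit 78) (nat_lit 0) (nat_lit 76) (XT.lf (nat_lit 76) (nat_lit 26950337) (nat_lit 0) (nat_lit 768535865) (nat_lit 836) (nat_lit 6378036725) (nat_lit 309) (nat_lit 5) (nat_lit 308) (nat_lit 5) (nat_lit 319) (nat_lit 5) (nat_lit 315) (nat_lit 311) (nat_lit 274)) (XT.nd (nat_lit 78) (nat_lit 0) (nat_lit 0) (XT.lf (nat_lit 0) (nat_lit 2567498601) (nat_lit 760) (nat_lit 3558053311) (nat_lit 836) (nat_lit 1107772325) (nat_lit 309) (nat_lit 5) (nat_lit 319) (nat_lit 5) (nat_lit 320) (nat_lit 5) (nat_lit 316) (nat_lit 311) (nat_lit 273)) (XT.lf (nat_lit 76) (nat_lit 93721333) (nat_lit 0) (nat_lit 4243785962) (nat_lit 836) (nat_lit 2959119788) (nat_lit 310) (nat_lit 5) (nat_lit 309) (nat_lit 5) (nat_lit 320) (nat_lit 5) (nat_lit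 317) (nat_lit 311) (nat_lit 272)))) (XT.nd (nat_lit 78) (nat_lit 836) (nat_lit 0) (XT.lf (nat_lit 76) (nat_lit 3889744660) (nat_lit 0) (nat_lit 2244613692) (nat_lit 836) (nat_lit 1228309437) (nat_lit 310) (nat_lit 5) (nat_lit 309) (nat_lit 5) (nat_lit 320) (nat_lit 5) (nat_lit 318) (nat_lit 311) (nat_lit 271)) (XT.nd (nat_lit 78) (nat_lit 0) (nat_lit 76) (XT.lf (nat_lit 76) (nat_lit 331712482) (nat_lit 0) (nat_lit 154060183) (nat_lit 912) (nat_lit 6946540292) (nat_lit 299) (nat_lit 5) (nat_lit 298) (nat_lit 5) (nat_lit 310) (nat_lit 5) (nat_lit 319) (nat_lit 311) (nat_lit 270)) (XT.lf (nat_lit 0) (nat_lit 2221821193) (nat_lit 836) (nat_lit 3253099205) (nat_lit 912) (nat_lit 2028951993) (nat_lit 299) (nat_lit 5) (nat_lit 310) (nat_lit 5) (nat_lit 311) (nat_lit 5) (nat_lit 320) (nat_lit 311) (nat_lit 269))))) (XT.nd (nat_lit 234) (nat_lit 1672) (nat_lit 0) (XT.nd (nat_lit 78) (nat_lit 0) (nat_lit 0) (XT.lf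 (nat_lit 76) (nat_lit 682734888) (nat_lit 0) (nat_lit 3277631876) (nat_lit 912) (nat_lit 3618744725) (nat_lit 300) (nat_lit 5) (nat_lit 299) (nat_lit 5) (nat_lit 311) (nat_lit 5) (nat_lit 321) (nat_lit 311) (nat_lit 268)) (XT.nd (nat_lit 78) (nat_lit 0) (nat_lit 76) (XT.lf (nat_lit 76) (nat_lit 4764821134) (nat_lit 0) (nat_lit 962734485) (nat_lit 912) (nat_lit 1929801560) (nat_lit 300) (nat_lit 5) (nat_lit 299) (nat_lit 5) (nat_lit 311) (nat_lit 5) (nat_lit 322) (nat_lit 311) (nat_lit 267)) (XT.lf (nat_lit 76) (nat_lit 1201971502) (nat_lit 0) (nat_lit 6316453376) (nat_lit 912) (nat_lit 220448166) (nat_lit 301) (nat_lit 5) (nat_lit 300) (nat_lit 5) (nat_lit 312) (nat_lit 5) (nat_lit 323) (nat_lit 311) (nat_lit 266)))) (XT.nd (nat_lit 156) (nat_lit 836) (nat_lit 0) (XT.nd (nat_lit 78) (nat_lit 0) (nat_lit 0) (XT.lf (nat_lit 0) (nat_lit 1495253380) (nat_lit 912) (nat_lit 2407942237) (nat_lit 988) (nat_lit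 3919681240) (nat_lit 288) (nat_lit 5) (nat_lit 300) (nat_lit 5) (nat_lit 301) (nat_lit 5) (nat_lit 324) (nat_lit 311) (nat_lit 265)) (XT.lf (nat_lit 76) (nat_lit 1839802305) (nat_lit 0) (nat_lit 1383540281) (nat_lit 988) (nat_lit 4687071415) (nat_lit 289) (nat_lit 5) (nat_lit 288) (nat_lit 5) (nat_lit 301) (nat_lit 5) (nat_lit 325) (nat_lit 311) (nat_lit 264))) (XT.nd (nat_lit 78) (nat_lit 912) (nat_lit 0) (XT.lf (nat_lit 0) (nat_lit 4988418198) (nat_lit 912) (nat_lit 1787514327) (nat_lit 76) (nat_lit 1225128401) (nat_lit 289) (nat_lit 5) (nat_lit 301) (nat_lit 5) (nat_lit 290) (nat_lit 5) (nat_lit 326) (nat_lit 311) (nat_lit 263)) (XT.lf (nat_lit 0) (nat_lit 2622604710) (nat_lit 912) (nat_lit 4173176893) (nat_lit 988) (nat_lit 1299002462) (nat_lit 277) (nat_lit 5) (nat_lit 289) (nat_lit 5) (nat_lit 290) (nat_lit 5) (nat_lit 327) (nat_lit 311) (nat_lit 262)))))) (XT.nd (nat_lit 546) (nat_lit 2356) (nat_lit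 0) (XT.nd (nat_lit 234) (nat_lit 3496) (nat_lit 0) (XT.nd (nat_lit 78) (nat_lit 988) (nat_lit 0) (XT.lf (nat_lit 0) (nat_lit 426166733) (nat_lit 988) (nat_lit 1033344118) (nat_lit 76) (nat_lit 6732631988) (nat_lit 276) (nat_lit 5) (nat_lit 289) (nat_lit 5) (nat_lit 277) (nat_lit 5) (nat_lit 328) (nat_lit 311) (nat_lit 261)) (XT.nd (nat_lit 78) (nat_lit 0) (nat_lit 0) (XT.lf (nat_lit 0) (nat_lit 2176976937) (nat_lit 1064) (nat_lit 4749089087) (nat_lit 76) (nat_lit 1366004413) (nat_lit 263) (nat_lit 5) (nat_lit 277) (nat_lit 5) (nat_lit 264) (nat_lit 5) (nat_lit 329) (nat_lit 311) (nat_lit 260)) (XT.lf (nat_lit 0) (nat_lit 3958814799) (nat_lit 1064) (nat_lit 171017513) (nat_lit 76) (nat_lit 4265841213) (nat_lit 263) (nat_lit 5) (nat_lit 277) (nat_lit 5) (nat_lit 264) (nat_lit 5) (nat_lit 330) (nat_lit 311) (nat_lit 259)))) (XT.nd (nat_lit 156) (nat_lit 1292) (nat_lit 0) (XT.nd (nat_lit 78) (nat_lit 1140)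 (nat_lit 0) (XT.lf (nat_lit 0) (nat_lit 4595666548) (nat_lit 1064) (nat_lit 1197486235) (nat_lit 1140) (nat_lit 2709292380) (nat_lit 249) (nat_lit 5) (nat_lit 263) (nat_lit 5) (nat_lit 264) (nat_lit 5) (nat_lit 331) (nat_lit 311) (nat_lit 258)) (XT.lf (nat_lit 0) (nat_lit 856210568) (nat_lit 1140) (nat_lit 6809683642) (nat_lit 1216) (nat_lit 947055420) (nat_lit 234) (nat_lit 5) (nat_lit 249) (nat_lit 5) (nat_lit 250) (nat_lit 5) (nat_lit 332) (nat_lit 311) (nat_lit 257))) (XT.nd (nat_lit 78) (nat_lit 1216) (nat_lit 0) (XT.lf (nat_lit 0) (nat_lit 859136706) (nat_lit 1216) (nat_lit 2943960383) (nat_lit 76) (nat_lit 4923210120) (nat_lit 233) (nat_lit 5) (nat_lit 249) (nat_lit 5) (nat_lit 234) (nat_lit 5) (nat_lit 333) (nat_lit 311) (nat_lit 256)) (XT.lf (nat_lit 0) (nat_lit 2004138541) (nat_lit 1216) (nat_lit 673207262) (nat_lit 1292) (nat_lit 6166160686) (nat_lit 217) (nat_lit 5) (nat_lit 233) (nat_lit 5)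 (nat_lit 234) (nat_lit 5) (nat_lit 334) (nat_lit 311) (nat_lit 255))))) (XT.nd (nat_lit 234) (nat_lit 1748) (nat_lit 0) (XT.nd (nat_lit 78) (nat_lit 608) (nat_lit 0) (XT.lf (nat_lit 0) (nat_lit 4563138190) (nat_lit 1292) (nat_lit 1866830605) (nat_lit 76) (nat_lit 2533889277) (nat_lit 217) (nat_lit 5) (nat_lit 234) (nat_lit 5) (nat_lit 218) (nat_lit 5) (nat_lit 335) (nat_lit 311) (nat_lit 254)) (XT.nd (nat_lit 78) (nat_lit 0) (nat_lit 0) (XT.lf (nat_lit 0) (nat_lit 3273535348) (nat_lit 608) (nat_lit 3229807200) (nat_lit 684) (nat_lit 2584569147) (nat_lit 209) (nat_lit 5) (nat_lit 217) (nat_lit 5) (nat_lit 218) (nat_lit 5) (nat_lit 336) (nat_lit 311) (nat_lit 253)) (XT.lf (nat_lit 0) (nat_lit 8481953594) (nat_lit 684) (nat_lit 648971000) (nat_lit 76) (nat_lit 85382178) (nat_lit 209) (nat_lit 5) (nat_lit 218) (nat_lit 5) (nat_lit 210) (nat_lit 5) (nat_lit 337) (nat_lit 311) (nat_lit 252)))) (XT.nd (nat_lit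 156) (nat_lit 532) (nat_lit 0) (XT.nd (nat_lit 78) (nat_lit 608) (nat_lit 0) (XT.lf (nat_lit 0) (nat_lit 1187632966) (nat_lit 608) (nat_lit 4666326896) (nat_lit 76) (nat_lit 3493106780) (nat_lit 201) (nat_lit 5) (nat_lit 209) (nat_lit 5) (nat_lit 202) (nat_lit 5) (nat_lit 338) (nat_lit 311) (nat_lit 251)) (XT.lf (nat_lit 0) (nat_lit 669152161) (nat_lit 608) (nat_lit 2458447952) (nat_lit 684) (nat_lit 6354702300) (nat_lit 193) (nat_lit 5) (nat_lit 201) (nat_lit 5) (nat_lit 202) (nat_lit 5) (nat_lit 339) (nat_lit 311) (nat_lit 250))) (XT.nd (nat_lit 78) (nat_lit 532) (nat_lit 0) (XT.lf (nat_lit 0) (nat_lit 5146098860) (nat_lit 684) (nat_lit 3409697133) (nat_lit 76) (nat_lit 1065212264) (nat_lit 193) (nat_lit 5) (nat_lit 202) (nat_lit 5) (nat_lit 194) (nat_lit 5) (nat_lit 340) (nat_lit 311) (nat_lit 249)) (XT.lf (nat_lit 0) (nat_lit 2134913459) (nat_lit 532) (nat_lit 5098945444) (nat_lit 608) (nat_lit 2529777495)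 (nat_lit 186) (nat_lit 5) (nat_lit 193) (nat_lit 5) (nat_lit 194) (nat_lit 5) (nat_lit 341) (nat_lit 311) (nat_lit 248))))))))
noncomputable def xc134 : XT := (XT.nd (nat_lit 2028) (nat_lit 3496) (nat_lit 0) (XT.nd (nat_lit 1014) (nat_lit 2888) (nat_lit 0) (XT.nd (nat_lit 468) (nat_lit 1900) (nat_lit 0) (XT.nd (nat_lit 234) (nat_lit 912) (nat_lit 0) (XT.nd (nat_lit 78) (nat_lit 608) (nat_lit 0) (XT.lf (nat_lit 0) (nat_lit 7877868063) (nat_lit 532) (nat_lit 1505347001) (nat_lit 608) (nat_lit 527381076) (nat_lit 186) (nat_lit 5) (nat_lit 193) (nat_lit 5) (nat_lit 194) (nat_lit 5) (nat_lit 342) (nat_lit 311) (nat_lit 247)) (XT.nd (nat_lit 78) (nat_lit 0) (nat_lit 0) (XT.lf (nat_lit 0) (nat_lit 1527990360) (nat_lit 608) (nat_lit 6330982885) (nat_lit 76) (nat_lit 2201883413) (nat_lit 178) (nat_lit 5) (nat_lit 186) (nat_lit 5) (nat_lit 179) (nat_lit 5) (nat_lit 343) (nat_lit 311) (nat_lit 246)) (XT.lf (nat_lit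 0) (nat_lit 3635888684) (nat_lit 608) (nat_lit 566462561) (nat_lit 76) (nat_lit 6013092953) (nat_lit 178) (nat_lit 5) (nat_lit 186) (nat_lit 5) (nat_lit 179) (nat_lit 5) (nat_lit 344) (nat_lit 311) (nat_lit 245)))) (XT.nd (nat_lit 78) (nat_lit 456) (nat_lit 0) (XT.lf (nat_lit 0) (nat_lit 5440113933) (nat_lit 456) (nat_lit 386030283) (nat_lit 532) (nat_lit 4547970783) (nat_lit 172) (nat_lit 5) (nat_lit 178) (nat_lit 5) (nat_lit 179) (nat_lit 5) (nat_lit 345) (nat_lit 311) (nat_lit 244)) (XT.nd (nat_lit 78) (nat_lit 0) (nat_lit 0) (XT.lf (nat_lit 0) (nat_lit 1049851989) (nat_lit 456) (nat_lit 7049599358) (nat_lit 532) (nat_lit 2437592942) (nat_lit 166) (nat_lit 5) (nat_lit 172) (nat_lit 5) (nat_lit 173) (nat_lit 5) (nat_lit 346) (nat_lit 311) (nat_lit 243)) (XT.lf (nat_lit 0) (nat_lit 7273205077) (nat_lit 456) (nat_lit 3189353014) (nat_lit 532) (nat_lit 241673494) (nat_lit 166) (nat_lit 5) (nat_lit 172) (nat_lit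 5) (nat_lit 173) (nat_lit 5) (nat_lit 347) (nat_lit 311) (nat_lit 242))))) (XT.nd (nat_lit 234) (nat_lit 912) (nat_lit 0) (XT.nd (nat_lit 78) (nat_lit 456) (nat_lit 0) (XT.lf (nat_lit 0) (nat_lit 1984239033) (nat_lit 532) (nat_lit 8078640193) (nat_lit 76) (nat_lit 812883750) (nat_lit 159) (nat_lit 5) (nat_lit 166) (nat_lit 5) (nat_lit 160) (nat_lit 5) (nat_lit 348) (nat_lit 311) (nat_lit 241)) (XT.nd (nat_lit 78) (nat_lit 456) (nat_lit 0) (XT.lf (nat_lit 0) (nat_lit 4307748480) (nat_lit 532) (nat_lit 1840608402) (nat_lit 76) (nat_lit 4902957935) (nat_lit 159) (nat_lit 5) (nat_lit 166) (nat_lit 5) (nat_lit 160) (nat_lit 5) (nat_lit 349) (nat_lit 311) (nat_lit 240)) (XT.lf (nat_lit 0) (nat_lit 4638829139) (nat_lit 456) (nat_lit 2076734568) (nat_lit 532) (nat_lit 4516147607) (nat_lit 153) (nat_lit 5) (nat_lit 159) (nat_lit 5) (nat_lit 160) (nat_lit 5) (nat_lit 350) (nat_lit 311) (nat_lit 239)))) (XT.nd (nat_lit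 156) (nat_lit 456) (nat_lit 0) (XT.nd (nat_lit 78) (nat_lit 456) (nat_lit 0) (XT.lf (nat_lit 0) (nat_lit 9205209976) (nat_lit 532) (nat_lit 123853565) (nat_lit 76) (nat_lit 2088183913) (nat_lit 153) (nat_lit 5) (nat_lit 160) (nat_lit 5) (nat_lit 154) (nat_lit 5) (nat_lit 351) (nat_lit 311) (nat_lit 238)) (XT.lf (nat_lit 0) (nat_lit 214041037) (nat_lit 456) (nat_lit 4996758332) (nat_lit 76) (nat_lit 6395838855) (nat_lit 147) (nat_lit 5) (nat_lit 153) (nat_lit 5) (nat_lit 148) (nat_lit 5) (nat_lit 352) (nat_lit 311) (nat_lit 237))) (XT.nd (nat_lit 78) (nat_lit 0) (nat_lit 0) (XT.lf (nat_lit 0) (nat_lit 1722286585) (nat_lit 456) (nat_lit 935512021) (nat_lit 532) (nat_lit 9143588695) (nat_lit 141) (nat_lit 5) (nat_lit 147) (nat_lit 5) (nat_lit 148) (nat_lit 5) (nat_lit 353) (nat_lit 311) (nat_lit 236)) (XT.lf (nat_lit 0) (nat_lit 5231115053) (nat_lit 532) (nat_lit 3325297210) (nat_lit 76) (nat_lit 3443893107)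 (nat_lit 141) (nat_lit 5) (nat_lit 148) (nat_lit 5) (nat_lit 142) (nat_lit 5) (nat_lit 354) (nat_lit 311) (nat_lit 235)))))) (XT.nd (nat_lit 468) (nat_lit 1368) (nat_lit 0) (XT.nd (nat_lit 234) (nat_lit 684) (nat_lit 0) (XT.nd (nat_lit 78) (nat_lit 456) (nat_lit 0) (XT.lf (nat_lit 0) (nat_lit 3657968992) (nat_lit 380) (nat_lit 4240856299) (nat_lit 456) (nat_lit 4305863356) (nat_lit 136) (nat_lit 5) (nat_lit 141) (nat_lit 5) (nat_lit 142) (nat_lit 5) (nat_lit 355) (nat_lit 311) (nat_lit 234)) (XT.nd (nat_lit 78) (nat_lit 456) (nat_lit 0) (XT.lf (nat_lit 0) (nat_lit 10655589111) (nat_lit 456) (nat_lit 1533253831) (nat_lit 76) (nat_lit 226102916) (nat_lit 136) (nat_lit 5) (nat_lit 142) (nat_lit 5) (nat_lit 137) (nat_lit 5) (nat_lit 356) (nat_lit 311) (nat_lit 233)) (XT.lf (nat_lit 0) (nat_lit 918342548) (nat_lit 456) (nat_lit 6912663704) (nat_lit 76) (nat_lit 4798118407) (nat_lit 130) (nat_lit 5) (nat_lit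 136) (nat_lit 5) (nat_lit 131) (nat_lit 5) (nat_lit 357) (nat_lit 311) (nat_lit 232)))) (XT.nd (nat_lit 78) (nat_lit 380) (nat_lit 0) (XT.lf (nat_lit 0) (nat_lit 319687933) (nat_lit 304) (nat_lit 3314126884) (nat_lit 380) (nat_lit 9215619318) (nat_lit 126) (nat_lit 5) (nat_lit 130) (nat_lit 5) (nat_lit 131) (nat_lit 5) (nat_lit 358) (nat_lit 311) (nat_lit 231)) (XT.nd (nat_lit 78) (nat_lit 380) (nat_lit 0) (XT.lf (nat_lit 0) (nat_lit 6488541845) (nat_lit 380) (nat_lit 5212260276) (nat_lit 76) (nat_lit 1373828700) (nat_lit 126) (nat_lit 5) (nat_lit 131) (nat_lit 5) (nat_lit 127) (nat_lit 5) (nat_lit 359) (nat_lit 311) (nat_lit 230)) (XT.lf (nat_lit 0) (nat_lit 2302736665) (nat_lit 380) (nat_lit 7156298143) (nat_lit 456) (nat_lit 3846656179) (nat_lit 121) (nat_lit 5) (nat_lit 126) (nat_lit 5) (nat_lit 127) (nat_lit 5) (nat_lit 360) (nat_lit 311) (nat_lit 229))))) (XT.nd (nat_lit 234) (nat_lit 988) (nat_lit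 0) (XT.nd (nat_lit 78) (nat_lit 380) (nat_lit 0) (XT.lf (nat_lit 0) (nat_lit 10116229288) (nat_lit 380) (nat_lit 2430620684) (nat_lit 456) (nat_lit 995997737) (nat_lit 121) (nat_lit 5) (nat_lit 126) (nat_lit 5) (nat_lit 127) (nat_lit 5) (nat_lit 361) (nat_lit 311) (nat_lit 228)) (XT.nd (nat_lit 78) (nat_lit 0) (nat_lit 0) (XT.lf (nat_lit 0) (nat_lit 1944701982) (nat_lit 380) (nat_lit 9398824398) (nat_lit 76) (nat_lit 2441772150) (nat_lit 116) (nat_lit 5) (nat_lit 121) (nat_lit 5) (nat_lit 117) (nat_lit 5) (nat_lit 362) (nat_lit 311) (nat_lit 227)) (XT.lf (nat_lit 0) (nat_lit 4988944936) (nat_lit 380) (nat_lit 1597656288) (nat_lit 76) (nat_lit 7447075628) (nat_lit 116) (nat_lit 5) (nat_lit 121) (nat_lit 5) (nat_lit 117) (nat_lit 5) (nat_lit 363) (nat_lit 311) (nat_lit 226)))) (XT.nd (nat_lit 156) (nat_lit 380) (nat_lit 0) (XT.nd (nat_lit 78) (nat_lit 304) (nat_lit 0) (XT.lf (nat_lit 0) (nat_lit 6532392368)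 (nat_lit 304) (nat_lit 1631936100) (nat_lit 380) (nat_lit 6123993407) (nat_lit 112) (nat_lit 5) (nat_lit 116) (nat_lit 5) (nat_lit 117) (nat_lit 5) (nat_lit 364) (nat_lit 311) (nat_lit 225)) (XT.lf (nat_lit 0) (nat_lit 328961011) (nat_lit 304) (nat_lit 11136122159) (nat_lit 380) (nat_lit 3084629256) (nat_lit 108) (nat_lit 5) (nat_lit 112) (nat_lit 5) (nat_lit 113) (nat_lit 5) (nat_lit 365) (nat_lit 311) (nat_lit 224))) (XT.nd (nat_lit 78) (nat_lit 304) (nat_lit 0) (XT.lf (nat_lit 0) (nat_lit 117676349) (nat_lit 380) (nat_lit 6051618752) (nat_lit 76) (nat_lit 8647465578) (nat_lit 107) (nat_lit 5) (nat_lit 112) (nat_lit 5) (nat_lit 108) (nat_lit 5) (nat_lit 366) (nat_lit 311) (nat_lit 223)) (XT.lf (nat_lit 0) (nat_lit 2345746950) (nat_lit 304) (nat_lit 1008916689) (nat_lit 380) (nat_lit 11736230864) (nat_lit 103) (nat_lit 5) (nat_lit 107) (nat_lit 5) (nat_lit 108) (nat_lit 5) (nat_lit 367) (nat_lit 311) (nat_lit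 222))))))) (XT.nd (nat_lit 1014) (nat_lit 1520) (nat_lit 0) (XT.nd (nat_lit 468) (nat_lit 1140) (nat_lit 0) (XT.nd (nat_lit 234) (nat_lit 608) (nat_lit 0) (XT.nd (nat_lit 78) (nat_lit 228) (nat_lit 0) (XT.lf (nat_lit 0) (nat_lit 6770167432) (nat_lit 380) (nat_lit 4326651266) (nat_lit 76) (nat_lit 4273999848) (nat_lit 103) (nat_lit 5) (nat_lit 108) (nat_lit 5) (nat_lit 104) (nat_lit 5) (nat_lit 368) (nat_lit 311) (nat_lit 221)) (XT.nd (nat_lit 78) (nat_lit 0) (nat_lit 0) (XT.lf (nat_lit 0) (nat_lit 4388672246) (nat_lit 228) (nat_lit 5930569894) (nat_lit 304) (nat_lit 5338973161) (nat_lit 100) (nat_lit 5) (nat_lit 103) (nat_lit 5) (nat_lit 104) (nat_lit 5) (nat_lit 369) (nat_lit 311) (nat_lit 220)) (XT.lf (nat_lit 0) (nat_lit 13423078000) (nat_lit 228) (nat_lit 574646742) (nat_lit 304) (nat_lit 1955829075) (nat_lit 100) (nat_lit 5) (nat_lit 103) (nat_lit 5) (nat_lit 104) (nat_lit 5) (nat_lit 370) (nat_lit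 311) (nat_lit 219)))) (XT.nd (nat_lit 78) (nat_lit 228) (nat_lit 0) (XT.lf (nat_lit 0) (nat_lit 1589790240) (nat_lit 380) (nat_lit 9750845851) (nat_lit 76) (nat_lit 4913958592) (nat_lit 95) (nat_lit 5) (nat_lit 100) (nat_lit 5) (nat_lit 96) (nat_lit 5) (nat_lit 371) (nat_lit 311) (nat_lit 218)) (XT.nd (nat_lit 78) (nat_lit 228) (nat_lit 0) (XT.lf (nat_lit 0) (nat_lit 5213809375) (nat_lit 380) (nat_lit 759123060) (nat_lit 76) (nat_lit 10590820411) (nat_lit 95) (nat_lit 5) (nat_lit 100) (nat_lit 5) (nat_lit 96) (nat_lit 5) (nat_lit 372) (nat_lit 311) (nat_lit 217)) (XT.lf (nat_lit 0) (nat_lit 8641078568) (nat_lit 228) (nat_lit 368966908) (nat_lit 304) (nat_lit 7870242429) (nat_lit 92) (nat_lit 5) (nat_lit 95) (nat_lit 5) (nat_lit 96) (nat_lit 5) (nat_lit 373) (nat_lit 311) (nat_lit 216))))) (XT.nd (nat_lit 234) (nat_lit 532) (nat_lit 0) (XT.nd (nat_lit 78) (nat_lit 304) (nat_lit 0) (XT.lf (nat_lit 0) (nat_lit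 1071570229) (nat_lit 304) (nat_lit 11899197927) (nat_lit 380) (nat_lit 4234039715) (nat_lit 88) (nat_lit 5) (nat_lit 92) (nat_lit 5) (nat_lit 93) (nat_lit 5) (nat_lit 374) (nat_lit 311) (nat_lit 215)) (XT.nd (nat_lit 78) (nat_lit 304) (nat_lit 0) (XT.lf (nat_lit 0) (nat_lit 10797053530) (nat_lit 304) (nat_lit 6320973583) (nat_lit 380) (nat_lit 419011526) (nat_lit 88) (nat_lit 5) (nat_lit 92) (nat_lit 5) (nat_lit 93) (nat_lit 5) (nat_lit 375) (nat_lit 311) (nat_lit 214)) (XT.lf (nat_lit 0) (nat_lit 2929178038) (nat_lit 228) (nat_lit 522208509) (nat_lit 304) (nat_lit 14426561069) (nat_lit 84) (nat_lit 5) (nat_lit 87) (nat_lit 5) (nat_lit 88) (nat_lit 5) (nat_lit 376) (nat_lit 311) (nat_lit 213)))) (XT.nd (nat_lit 156) (nat_lit 304) (nat_lit 0) (XT.nd (nat_lit 78) (nat_lit 228) (nat_lit 0) (XT.lf (nat_lit 0) (nat_lit 7532032387) (nat_lit 304) (nat_lit 5287151649) (nat_lit 76) (nat_lit 5406704719) (nat_lit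 84) (nat_lit 5) (nat_lit 88) (nat_lit 5) (nat_lit 85) (nat_lit 5) (nat_lit 377) (nat_lit 311) (nat_lit 212)) (XT.lf (nat_lit 0) (nat_lit 4722686946) (nat_lit 228) (nat_lit 7044948596) (nat_lit 304) (nat_lit 6815662348) (nat_lit 81) (nat_lit 5) (nat_lit 84) (nat_lit 5) (nat_lit 85) (nat_lit 5) (nat_lit 378) (nat_lit 311) (nat_lit 211))) (XT.nd (nat_lit 78) (nat_lit 304) (nat_lit 0) (XT.lf (nat_lit 0) (nat_lit 15112868533) (nat_lit 228) (nat_lit 1053051106) (nat_lit 304) (nat_lit 2784447000) (nat_lit 81) (nat_lit 5) (nat_lit 84) (nat_lit 5) (nat_lit 85) (nat_lit 5) (nat_lit 379) (nat_lit 311) (nat_lit 210)) (XT.lf (nat_lit 0) (nat_lit 1436628342) (nat_lit 304) (nat_lit 12802970296) (nat_lit 76) (nat_lit 5085591424) (nat_lit 77) (nat_lit 5) (nat_lit 81) (nat_lit 5) (nat_lit 78) (nat_lit 5) (nat_lit 380) (nat_lit 311) (nat_lit 209)))))) (XT.nd (nat_lit 546) (nat_lit 684) (nat_lit 0) (XT.nd (nat_lit 234) (nat_lit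 608) (nat_lit 0) (XT.nd (nat_lit 78) (nat_lit 228) (nat_lit 0) (XT.lf (nat_lit 0) (nat_lit 5760639596) (nat_lit 304) (nat_lit 2505088941) (nat_lit 76) (nat_lit 11443739781) (nat_lit 77) (nat_lit 5) (nat_lit 81) (nat_lit 5) (nat_lit 78) (nat_lit 5) (nat_lit 381) (nat_lit 311) (nat_lit 208)) (XT.nd (nat_lit 78) (nat_lit 0) (nat_lit 0) (XT.lf (nat_lit 0) (nat_lit 8235235031) (nat_lit 228) (nat_lit 2041509096) (nat_lit 304) (nat_lit 9826664694) (nat_lit 74) (nat_lit 5) (nat_lit 77) (nat_lit 5) (nat_lit 78) (nat_lit 5) (nat_lit 382) (nat_lit 311) (nat_lit 207)) (XT.lf (nat_lit 0) (nat_lit 14979221783) (nat_lit 304) (nat_lit 1228868592) (nat_lit 76) (nat_lit 4299555406) (nat_lit 74) (nat_lit 5) (nat_lit 78) (nat_lit 5) (nat_lit 75) (nat_lit 5) (nat_lit 383) (nat_lit 311) (nat_lit 206)))) (XT.nd (nat_lit 156) (nat_lit 380) (nat_lit 0) (XT.nd (nat_lit 78) (nat_lit 76) (nat_lit 0) (XT.lf (nat_lit 0) (nat_lit 9875578503)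 (nat_lit 152) (nat_lit 10046164870) (nat_lit 228) (nat_lit 999302184) (nat_lit 72) (nat_lit 5) (nat_lit 74) (nat_lit 5) (nat_lit 75) (nat_lit 5) (nat_lit 384) (nat_lit 311) (nat_lit 205)) (XT.lf (nat_lit 0) (nat_lit 3590576964) (nat_lit 228) (nat_lit 70082763) (nat_lit 76) (nat_lit 17685242578) (nat_lit 71) (nat_lit 5) (nat_lit 74) (nat_lit 5) (nat_lit 72) (nat_lit 5) (nat_lit 385) (nat_lit 311) (nat_lit 204))) (XT.nd (nat_lit 78) (nat_lit 152) (nat_lit 0) (XT.lf (nat_lit 0) (nat_lit 8421333619) (nat_lit 304) (nat_lit 10387784433) (nat_lit 76) (nat_lit 2970396287) (nat_lit 68) (nat_lit 5) (nat_lit 72) (nat_lit 5) (nat_lit 69) (nat_lit 5) (nat_lit 386) (nat_lit 311) (nat_lit 203)) (XT.lf (nat_lit 0) (nat_lit 928650501) (nat_lit 152) (nat_lit 12498712648) (nat_lit 228) (nat_lit 8797865341) (nat_lit 66) (nat_lit 5) (nat_lit 68) (nat_lit 5) (nat_lit 69) (nat_lit 5) (nat_lit 387) (nat_lit 311) (nat_lit 202)))))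 (XT.nd (nat_lit 234) (nat_lit 380) (nat_lit 0) (XT.nd (nat_lit 78) (nat_lit 304) (nat_lit 0) (XT.lf (nat_lit 0) (nat_lit 12771832461) (nat_lit 152) (nat_lit 5901307504) (nat_lit 228) (nat_lit 4008491248) (nat_lit 66) (nat_lit 5) (nat_lit 68) (nat_lit 5) (nat_lit 69) (nat_lit 5) (nat_lit 388) (nat_lit 311) (nat_lit 201)) (XT.nd (nat_lit 78) (nat_lit 0) (nat_lit 0) (XT.lf (nat_lit 0) (nat_lit 917739474) (nat_lit 304) (nat_lit 21340176327) (nat_lit 76) (nat_lit 893210983) (nat_lit 62) (nat_lit 5) (nat_lit 66) (nat_lit 5) (nat_lit 63) (nat_lit 5) (nat_lit 389) (nat_lit 311) (nat_lit 200)) (XT.lf (nat_lit 0) (nat_lit 6055744899) (nat_lit 304) (nat_lit 9669693676) (nat_lit 76) (nat_lit 7903745156) (nat_lit 62) (nat_lit 5) (nat_lit 66) (nat_lit 5) (nat_lit 63) (nat_lit 5) (nat_lit 390) (nat_lit 311) (nat_lit 199)))) (XT.nd (nat_lit 156) (nat_lit 228) (nat_lit 0) (XT.nd (nat_lit 78) (nat_lit 0) (nat_lit 0) (XT.lf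 (nat_lit 0) (nat_lit 2372595277) (nat_lit 152) (nat_lit 8983602410) (nat_lit 228) (nat_lit 12765139160) (nat_lit 60) (nat_lit 5) (nat_lit 62) (nat_lit 5) (nat_lit 63) (nat_lit 5) (nat_lit 391) (nat_lit 311) (nat_lit 198)) (XT.lf (nat_lit 0) (nat_lit 14950007320) (nat_lit 152) (nat_lit 1948990160) (nat_lit 228) (nat_lit 7726760644) (nat_lit 60) (nat_lit 5) (nat_lit 62) (nat_lit 5) (nat_lit 63) (nat_lit 5) (nat_lit 392) (nat_lit 311) (nat_lit 197))) (XT.nd (nat_lit 78) (nat_lit 76) (nat_lit 0) (XT.lf (nat_lit 0) (nat_lit 2737960773) (nat_lit 152) (nat_lit 19933365678) (nat_lit 228) (nat_lit 2472091697) (nat_lit 58) (nat_lit 5) (nat_lit 60) (nat_lit 5) (nat_lit 61) (nat_lit 5) (nat_lit 393) (nat_lit 311) (nat_lit 196)) (XT.lf (nat_lit 0) (nat_lit 2986864150) (nat_lit 228) (nat_lit 10023804593) (nat_lit 76) (nat_lit 12661973970) (nat_lit 57) (nat_lit 5) (nat_lit 60) (nat_lit 5) (nat_lit 58) (nat_lit 5) (nat_lit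 394) (nat_lit 311) (nat_lit 195))))))))
noncomputable def xc135 : XT := (XT.nd (nat_lit 2106) (nat_lit 912) (nat_lit 0) (XT.nd (nat_lit 1014) (nat_lit 912) (nat_lit 0) (XT.nd (nat_lit 468) (nat_lit 532) (nat_lit 0) (XT.nd (nat_lit 234) (nat_lit 228) (nat_lit 0) (XT.nd (nat_lit 78) (nat_lit 152) (nat_lit 0) (XT.lf (nat_lit 0) (nat_lit 2734861015) (nat_lit 152) (nat_lit 5837787143) (nat_lit 228) (nat_lit 17643982360) (nat_lit 55) (nat_lit 5) (nat_lit 57) (nat_lit 5) (nat_lit 58) (nat_lit 5) (nat_lit 395) (nat_lit 311) (nat_lit 194)) (XT.nd (nat_lit 78) (nat_lit 152) (nat_lit 0) (XT.lf (nat_lit 0) (nat_lit 14429666723) (nat_lit 228) (nat_lit 10731450585) (nat_lit 76) (nat_lit 1612713898) (nat_lit 55) (nat_lit 5) (nat_lit 58) (nat_lit 5) (nat_lit 56) (nat_lit 5) (nat_lit 396) (nat_lit 311) (nat_lit 193)) (XT.lf (nat_lit 0) (nat_lit 2367039757) (nat_lit 152) (nat_lit 18162837382) (nat_lit 228) (nat_lit 6815849325)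 (nat_lit 53) (nat_lit 5) (nat_lit 55) (nat_lit 5) (nat_lit 56) (nat_lit 5) (nat_lit 397) (nat_lit 311) (nat_lit 192)))) (XT.nd (nat_lit 78) (nat_lit 228) (nat_lit 0) (XT.lf (nat_lit 0) (nat_lit 16055964106) (nat_lit 152) (nat_lit 10852588767) (nat_lit 228) (nat_lit 1023364839) (nat_lit 53) (nat_lit 5) (nat_lit 55) (nat_lit 5) (nat_lit 56) (nat_lit 5) (nat_lit 398) (nat_lit 311) (nat_lit 191)) (XT.nd (nat_lit 78) (nat_lit 0) (nat_lit 0) (XT.lf (nat_lit 0) (nat_lit 1581096142) (nat_lit 152) (nat_lit 3267884339) (nat_lit 228) (nat_lit 23685215329) (nat_lit 50) (nat_lit 5) (nat_lit 52) (nat_lit 5) (nat_lit 53) (nat_lit 5) (nat_lit 399) (nat_lit 311) (nat_lit 190)) (XT.lf (nat_lit 0) (nat_lit 11029131505) (nat_lit 228) (nat_lit 13542819437) (nat_lit 76) (nat_lit 4577723877) (nat_lit 50) (nat_lit 5) (nat_lit 53) (nat_lit 5) (nat_lit 51) (nat_lit 5) (nat_lit 400) (nat_lit 311) (nat_lit 189))))) (XT.nd (nat_lit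 234) (nat_lit 380) (nat_lit 0) (XT.nd (nat_lit 78) (nat_lit 0) (nat_lit 0) (XT.lf (nat_lit 0) (nat_lit 220181491) (nat_lit 152) (nat_lit 17196753659) (nat_lit 228) (nat_lit 12366018184) (nat_lit 48) (nat_lit 5) (nat_lit 50) (nat_lit 5) (nat_lit 51) (nat_lit 5) (nat_lit 401) (nat_lit 311) (nat_lit 188)) (XT.nd (nat_lit 78) (nat_lit 0) (nat_lit 0) (XT.lf (nat_lit 0) (nat_lit 14652369085) (nat_lit 152) (nat_lit 9468687133) (nat_lit 228) (nat_lit 6310435989) (nat_lit 48) (nat_lit 5) (nat_lit 50) (nat_lit 5) (nat_lit 51) (nat_lit 5) (nat_lit 402) (nat_lit 311) (nat_lit 187)) (XT.lf (nat_lit 0) (nat_lit 29496825331) (nat_lit 152) (nat_lit 1517754609) (nat_lit 228) (nat_lit 85261366) (nat_lit 48) (nat_lit 5) (nat_lit 50) (nat_lit 5) (nat_lit 51) (nat_lit 5) (nat_lit 403) (nat_lit 311) (nat_lit 186)))) (XT.nd (nat_lit 156) (nat_lit 152) (nat_lit 0) (XT.nd (nat_lit 78) (nat_lit 0) (nat_lit 0) (XT.lf (nat_lit 0)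 (nat_lit 6384261001) (nat_lit 228) (nat_lit 18674556329) (nat_lit 76) (nat_lit 6722169907) (nat_lit 45) (nat_lit 5) (nat_lit 48) (nat_lit 5) (nat_lit 46) (nat_lit 5) (nat_lit 404) (nat_lit 311) (nat_lit 185)) (XT.lf (nat_lit 0) (nat_lit 13066092661) (nat_lit 228) (nat_lit 4228476621) (nat_lit 76) (nat_lit 15187377045) (nat_lit 45) (nat_lit 5) (nat_lit 48) (nat_lit 5) (nat_lit 46) (nat_lit 5) (nat_lit 405) (nat_lit 311) (nat_lit 184))) (XT.nd (nat_lit 78) (nat_lit 0) (nat_lit 0) (XT.lf (nat_lit 0) (nat_lit 10842776389) (nat_lit 152) (nat_lit 9198725842) (nat_lit 228) (nat_lit 13159640428) (nat_lit 43) (nat_lit 5) (nat_lit 45) (nat_lit 5) (nat_lit 46) (nat_lit 5) (nat_lit 406) (nat_lit 311) (nat_lit 183)) (XT.lf (nat_lit 0) (nat_lit 26433249931) (nat_lit 152) (nat_lit 824654098) (nat_lit 228) (nat_lit 6683061051) (nat_lit 43) (nat_lit 5) (nat_lit 45) (nat_lit 5) (nat_lit 46) (nat_lit 5) (nat_lit 407) (nat_lit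 311) (nat_lit 182)))))) (XT.nd (nat_lit 546) (nat_lit 456) (nat_lit 0) (XT.nd (nat_lit 234) (nat_lit 152) (nat_lit 0) (XT.nd (nat_lit 78) (nat_lit 152) (nat_lit 0) (XT.lf (nat_lit 0) (nat_lit 129122007) (nat_lit 152) (nat_lit 26852725681) (nat_lit 76) (nat_lit 7716907919) (nat_lit 41) (nat_lit 5) (nat_lit 43) (nat_lit 5) (nat_lit 42) (nat_lit 5) (nat_lit 408) (nat_lit 311) (nat_lit 181)) (XT.nd (nat_lit 78) (nat_lit 152) (nat_lit 0) (XT.lf (nat_lit 0) (nat_lit 7085368211) (nat_lit 152) (nat_lit 11757094802) (nat_lit 76) (nat_lit 16632613071) (nat_lit 41) (nat_lit 5) (nat_lit 43) (nat_lit 5) (nat_lit 42) (nat_lit 5) (nat_lit 409) (nat_lit 311) (nat_lit 180)) (XT.lf (nat_lit 0) (nat_lit 3847757479) (nat_lit 152) (nat_lit 10429135051) (nat_lit 228) (nat_lit 21996997786) (nat_lit 39) (nat_lit 5) (nat_lit 41) (nat_lit 5) (nat_lit 42) (nat_lit 5) (nat_lit 410) (nat_lit 311) (nat_lit 179)))) (XT.nd (nat_lit 156)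 (nat_lit 152) (nat_lit 0) (XT.nd (nat_lit 78) (nat_lit 0) (nat_lit 0) (XT.lf (nat_lit 0) (nat_lit 20143216756) (nat_lit 152) (nat_lit 1649397675) (nat_lit 228) (nat_lit 15300802798) (nat_lit 39) (nat_lit 5) (nat_lit 41) (nat_lit 5) (nat_lit 42) (nat_lit 5) (nat_lit 411) (nat_lit 311) (nat_lit 178)) (XT.lf (nat_lit 0) (nat_lit 29594831250) (nat_lit 228) (nat_lit 1099294184) (nat_lit 76) (nat_lit 7241575572) (nat_lit 39) (nat_lit 5) (nat_lit 42) (nat_lit 5) (nat_lit 40) (nat_lit 4) (nat_lit 412) (nat_lit 311) (nat_lit 177))) (XT.nd (nat_lit 78) (nat_lit 76) (nat_lit 0) (XT.lf (nat_lit 0) (nat_lit 15495481303) (nat_lit 76) (nat_lit 22291158888) (nat_lit 152) (nat_lit 1011949042) (nat_lit 38) (nat_lit 5) (nat_lit 39) (nat_lit 5) (nat_lit 40) (nat_lit 4) (nat_lit 413) (nat_lit 311) (nat_lit 176)) (XT.lf (nat_lit 0) (nat_lit 6410754169) (nat_lit 152) (nat_lit 7157064449) (nat_lit 76) (nat_lit 26117617847) (nat_lit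 37) (nat_lit 5) (nat_lit 39) (nat_lit 5) (nat_lit 38) (nat_lit 5) (nat_lit 414) (nat_lit 311) (nat_lit 175))))) (XT.nd (nat_lit 234) (nat_lit 228) (nat_lit 0) (XT.nd (nat_lit 78) (nat_lit 76) (nat_lit 0) (XT.lf (nat_lit 0) (nat_lit 9634131959) (nat_lit 152) (nat_lit 4484821691) (nat_lit 228) (nat_lit 26477141816) (nat_lit 35) (nat_lit 5) (nat_lit 37) (nat_lit 5) (nat_lit 38) (nat_lit 5) (nat_lit 415) (nat_lit 311) (nat_lit 174)) (XT.nd (nat_lit 78) (nat_lit 76) (nat_lit 0) (XT.lf (nat_lit 0) (nat_lit 22168789646) (nat_lit 228) (nat_lit 14520909247) (nat_lit 76) (nat_lit 4841065141) (nat_lit 35) (nat_lit 5) (nat_lit 38) (nat_lit 5) (nat_lit 36) (nat_lit 4) (nat_lit 416) (nat_lit 311) (nat_lit 173)) (XT.lf (nat_lit 0) (nat_lit 2399043864) (nat_lit 76) (nat_lit 28119399228) (nat_lit 152) (nat_lit 11973281367) (nat_lit 34) (nat_lit 5) (nat_lit 35) (nat_lit 5) (nat_lit 36) (nat_lit 4) (nat_lit 417) (nat_lit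 311) (nat_lit 172)))) (XT.nd (nat_lit 156) (nat_lit 152) (nat_lit 0) (XT.nd (nat_lit 78) (nat_lit 76) (nat_lit 0) (XT.lf (nat_lit 0) (nat_lit 20107681529) (nat_lit 76) (nat_lit 19148501378) (nat_lit 152) (nat_lit 4221204315) (nat_lit 34) (nat_lit 5) (nat_lit 35) (nat_lit 5) (nat_lit 36) (nat_lit 4) (nat_lit 418) (nat_lit 311) (nat_lit 171)) (XT.lf (nat_lit 0) (nat_lit 3681135894) (nat_lit 152) (nat_lit 6197491258) (nat_lit 76) (nat_lit 34613174599) (nat_lit 33) (nat_lit 5) (nat_lit 35) (nat_lit 5) (nat_lit 34) (nat_lit 5) (nat_lit 419) (nat_lit 311) (nat_lit 170))) (XT.nd (nat_lit 78) (nat_lit 0) (nat_lit 0) (XT.lf (nat_lit 0) (nat_lit 11659821325) (nat_lit 152) (nat_lit 179361398) (nat_lit 228) (nat_lit 33693109121) (nat_lit 31) (nat_lit 5) (nat_lit 33) (nat_lit 5) (nat_lit 34) (nat_lit 5) (nat_lit 420) (nat_lit 311) (nat_lit 169)) (XT.lf (nat_lit 0) (nat_lit 20390909942) (nat_lit 228) (nat_lit 16532983315)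 (nat_lit 76) (nat_lit 9675636483) (nat_lit 31) (nat_lit 5) (nat_lit 34) (nat_lit 5) (nat_lit 32) (nat_lit 4) (nat_lit 421) (nat_lit 311) (nat_lit 168))))))) (XT.nd (nat_lit 1014) (nat_lit 304) (nat_lit 0) (XT.nd (nat_lit 468) (nat_lit 304) (nat_lit 0) (XT.nd (nat_lit 234) (nat_lit 228) (nat_lit 0) (XT.nd (nat_lit 78) (nat_lit 0) (nat_lit 0) (XT.lf (nat_lit 0) (nat_lit 1335604127) (nat_lit 76) (nat_lit 27869877641) (nat_lit 152) (nat_lit 18493115451) (nat_lit 30) (nat_lit 5) (nat_lit 31) (nat_lit 5) (nat_lit 32) (nat_lit 4) (nat_lit 422) (nat_lit 311) (nat_lit 167)) (XT.nd (nat_lit 78) (nat_lit 0) (nat_lit 0) (XT.lf (nat_lit 0) (nat_lit 20063938869) (nat_lit 76) (nat_lit 18379276960) (nat_lit 152) (nat_lit 10382660338) (nat_lit 30) (nat_lit 5) (nat_lit 31) (nat_lit 5) (nat_lit 32) (nat_lit 4) (nat_lit 423) (nat_lit 311) (nat_lit 166)) (XT.lf (nat_lit 0) (nat_lit 39339346688) (nat_lit 76) (nat_lit 8610749172)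 (nat_lit 152) (nat_lit 2037118365) (nat_lit 30) (nat_lit 5) (nat_lit 31) (nat_lit 5) (nat_lit 32) (nat_lit 4) (nat_lit 424) (nat_lit 311) (nat_lit 165)))) (XT.nd (nat_lit 78) (nat_lit 0) (nat_lit 0) (XT.lf (nat_lit 0) (nat_lit 6516014714) (nat_lit 228) (nat_lit 43104742925) (nat_lit 76) (nat_lit 1558188154) (nat_lit 27) (nat_lit 5) (nat_lit 30) (nat_lit 5) (nat_lit 28) (nat_lit 4) (nat_lit 425) (nat_lit 311) (nat_lit 164)) (XT.nd (nat_lit 78) (nat_lit 0) (nat_lit 0) (XT.lf (nat_lit 0) (nat_lit 15470834920) (nat_lit 228) (nat_lit 24948017402) (nat_lit 76) (nat_lit 11981391846) (nat_lit 27) (nat_lit 5) (nat_lit 30) (nat_lit 5) (nat_lit 28) (nat_lit 4) (nat_lit 426) (nat_lit 311) (nat_lit 163)) (XT.lf (nat_lit 0) (nat_lit 24686722150) (nat_lit 228) (nat_lit 6260697874) (nat_lit 76) (nat_lit 22710989830) (nat_lit 27) (nat_lit 5) (nat_lit 30) (nat_lit 5) (nat_lit 28) (nat_lit 4) (nat_lit 427) (nat_lit 311) (nat_lit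 162))))) (XT.nd (nat_lit 234) (nat_lit 228) (nat_lit 0) (XT.nd (nat_lit 78) (nat_lit 0) (nat_lit 0) (XT.lf (nat_lit 0) (nat_lit 13231743355) (nat_lit 76) (nat_lit 21067177378) (nat_lit 152) (nat_lit 20651805738) (nat_lit 26) (nat_lit 5) (nat_lit 27) (nat_lit 5) (nat_lit 28) (nat_lit 4) (nat_lit 428) (nat_lit 311) (nat_lit 161)) (XT.nd (nat_lit 78) (nat_lit 0) (nat_lit 0) (XT.lf (nat_lit 0) (nat_lit 33423733417) (nat_lit 76) (nat_lit 10831699658) (nat_lit 152) (nat_lit 12024702048) (nat_lit 26) (nat_lit 5) (nat_lit 27) (nat_lit 5) (nat_lit 28) (nat_lit 4) (nat_lit 429) (nat_lit 311) (nat_lit 160)) (XT.lf (nat_lit 0) (nat_lit 54208315636) (nat_lit 76) (nat_lit 295264016) (nat_lit 152) (nat_lit 3146059160) (nat_lit 26) (nat_lit 5) (nat_lit 27) (nat_lit 5) (nat_lit 28) (nat_lit 4) (nat_lit 430) (nat_lit 311) (nat_lit 159)))) (XT.nd (nat_lit 156) (nat_lit 76) (nat_lit 0) (XT.nd (nat_lit 78) (nat_lit 0) (nat_lit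 0) (XT.lf (nat_lit 0) (nat_lit 6140177908) (nat_lit 152) (nat_lit 42343738332) (nat_lit 76) (nat_lit 10566833422) (nat_lit 24) (nat_lit 5) (nat_lit 26) (nat_lit 5) (nat_lit 25) (nat_lit 4) (nat_lit 431) (nat_lit 311) (nat_lit 158)) (XT.lf (nat_lit 0) (nat_lit 15672884731) (nat_lit 152) (nat_lit 23009873325) (nat_lit 76) (nat_lit 21809268711) (nat_lit 24) (nat_lit 5) (nat_lit 26) (nat_lit 5) (nat_lit 25) (nat_lit 4) (nat_lit 432) (nat_lit 311) (nat_lit 157))) (XT.nd (nat_lit 78) (nat_lit 76) (nat_lit 0) (XT.lf (nat_lit 0) (nat_lit 25484871038) (nat_lit 152) (nat_lit 3108560385) (nat_lit 76) (nat_lit 33383312651) (nat_lit 24) (nat_lit 5) (nat_lit 26) (nat_lit 5) (nat_lit 25) (nat_lit 4) (nat_lit 433) (nat_lit 311) (nat_lit 156)) (XT.lf (nat_lit 0) (nat_lit 17723438096) (nat_lit 76) (nat_lit 18031640844) (nat_lit 152) (nat_lit 27746008917) (nat_lit 23) (nat_lit 5) (nat_lit 24) (nat_lit 5) (nat_lit 25) (nat_lit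 4) (nat_lit 434) (nat_lit 311) (nat_lit 155)))))) (XT.nd (nat_lit 546) (nat_lit 76) (nat_lit 0) (XT.nd (nat_lit 234) (nat_lit 76) (nat_lit 0) (XT.nd (nat_lit 78) (nat_lit 152) (nat_lit 0) (XT.lf (nat_lit 0) (nat_lit 39232036640) (nat_lit 76) (nat_lit 7126313647) (nat_lit 152) (nat_lit 18712063740) (nat_lit 23) (nat_lit 5) (nat_lit 24) (nat_lit 5) (nat_lit 25) (nat_lit 4) (nat_lit 435) (nat_lit 311) (nat_lit 154)) (XT.nd (nat_lit 78) (nat_lit 152) (nat_lit 0) (XT.lf (nat_lit 0) (nat_lit 57312892320) (nat_lit 152) (nat_lit 5352263731) (nat_lit 0) (nat_lit 4020669522) (nat_lit 23) (nat_lit 5) (nat_lit 25) (nat_lit 4) (nat_lit 23) (nat_lit 4) (nat_lit 436) (nat_lit 311) (nat_lit 153)) (XT.lf (nat_lit 0) (nat_lit 461755812) (nat_lit 152) (nat_lit 52369539466) (nat_lit 76) (nat_lit 15511728094) (nat_lit 21) (nat_lit 5) (nat_lit 23) (nat_lit 5) (nat_lit 22) (nat_lit 4) (nat_lit 437) (nat_lit 311) (nat_lit 152))))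 (XT.nd (nat_lit 156) (nat_lit 76) (nat_lit 0) (XT.nd (nat_lit 78) (nat_lit 0) (nat_lit 0) (XT.lf (nat_lit 0) (nat_lit 10451574188) (nat_lit 152) (nat_lit 32104461530) (nat_lit 76) (nat_lit 27489663791) (nat_lit 21) (nat_lit 5) (nat_lit 23) (nat_lit 5) (nat_lit 22) (nat_lit 4) (nat_lit 438) (nat_lit 311) (nat_lit 151)) (XT.lf (nat_lit 0) (nat_lit 20735157819) (nat_lit 152) (nat_lit 11242624979) (nat_lit 76) (nat_lit 39821851692) (nat_lit 21) (nat_lit 5) (nat_lit 23) (nat_lit 5) (nat_lit 22) (nat_lit 4) (nat_lit 439) (nat_lit 311) (nat_lit 150))) (XT.nd (nat_lit 78) (nat_lit 0) (nat_lit 0) (XT.lf (nat_lit 0) (nat_lit 10437879599) (nat_lit 76) (nat_lit 20983948044) (nat_lit 152) (nat_lit 42181523179) (nat_lit 20) (nat_lit 5) (nat_lit 21) (nat_lit 5) (nat_lit 22) (nat_lit 4) (nat_lit 440) (nat_lit 311) (nat_lit 149)) (XT.lf (nat_lit 0) (nat_lit 32988500959) (nat_lit 76) (nat_lit 9548432699) (nat_lit 152) (nat_lit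 32921010547) (nat_lit 20) (nat_lit 5) (nat_lit 21) (nat_lit 5) (nat_lit 22) (nat_lit 4) (nat_lit 441) (nat_lit 311) (nat_lit 148))))) (XT.nd (nat_lit 36738) (nat_lit 0) (nat_lit 21964) (XT.nd (nat_lit 78) (nat_lit 76) (nat_lit 0) (XT.lf (nat_lit 0) (nat_lit 54001356520) (nat_lit 152) (nat_lit 21184538810) (nat_lit 0) (nat_lit 2181804773) (nat_lit 20) (nat_lit 5) (nat_lit 22) (nat_lit 4) (nat_lit 20) (nat_lit 4) (nat_lit 442) (nat_lit 311) (nat_lit 147)) (XT.nd (nat_lit 78) (nat_lit 0) (nat_lit 0) (XT.lf (nat_lit 0) (nat_lit 646734888) (nat_lit 76) (nat_lit 65258321393) (nat_lit 76) (nat_lit 13426832676) (nat_lit 19) (nat_lit 4) (nat_lit 20) (nat_lit 5) (nat_lit 20) (nat_lit 4) (nat_lit 443) (nat_lit 311) (nat_lit 146)) (XT.lf (nat_lit 0) (nat_lit 23557050594) (nat_lit 76) (nat_lit 54817387179) (nat_lit 76) (nat_lit 2974309170) (nat_lit 19) (nat_lit 4) (nat_lit 20) (nat_lit 5) (nat_lit 20) (nat_lit 4) (nat_lit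 444) (nat_lit 311) (nat_lit 145)))) (XT.nd (nat_lit 156) (nat_lit 760) (nat_lit 0) (XT.nd (nat_lit 78) (nat_lit 0) (nat_lit 0) (XT.lf (nat_lit 0) (nat_lit 1065542846) (nat_lit 0) (nat_lit 1065542846) (nat_lit 684) (nat_lit 1398838098) (nat_lit 318) (nat_lit 5) (nat_lit 318) (nat_lit 3) (nat_lit 327) (nat_lit 3) (nat_lit 312) (nat_lit 312) (nat_lit 276)) (XT.lf (nat_lit 0) (nat_lit 5573391073) (nat_lit 0) (nat_lit 462163975) (nat_lit 684) (nat_lit 1077434754) (nat_lit 318) (nat_lit 5) (nat_lit 318) (nat_lit 3) (nat_lit 327) (nat_lit 3) (nat_lit 313) (nat_lit 312) (nat_lit 275))) (XT.nd (nat_lit 78) (nat_lit 0) (nat_lit 0) (XT.lf (nat_lit 0) (nat_lit 644802018) (nat_lit 760) (nat_lit 5233872234) (nat_lit 836) (nat_lit 1289989401) (nat_lit 308) (nat_lit 5) (nat_lit 318) (nat_lit 5) (nat_lit 319) (nat_lit 5) (nat_lit 314) (nat_lit 312) (nat_lit 274)) (XT.lf (nat_lit 0) (nat_lit 2351830201) (nat_lit 760) (nat_lit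 1732709662) (nat_lit 836) (nat_lit 3142558586) (nat_lit 308) (nat_lit 5) (nat_lit 318) (nat_lit 5) (nat_lit 319) (nat_lit 5) (nat_lit 315) (nat_lit 312) (nat_lit 273))))))))
noncomputable def xc136 : XT := (XT.nd (nat_lit 2028) (nat_lit 6840) (nat_lit 0) (XT.nd (nat_lit 1014) (nat_lit 6308) (nat_lit 0) (XT.nd (nat_lit 468) (nat_lit 1672) (nat_lit 0) (XT.nd (nat_lit 234) (nat_lit 0) (nat_lit 0) (XT.nd (nat_lit 78) (nat_lit 760) (nat_lit 0) (XT.lf (nat_lit 76) (nat_lit 1874389702) (nat_lit 0) (nat_lit 2190107929) (nat_lit 836) (nat_lit 3224208375) (nat_lit 309) (nat_lit 5) (nat_lit 308) (nat_lit 5) (nat_lit 319) (nat_lit 5) (nat_lit 316) (nat_lit 312) (nat_lit 272)) (XT.nd (nat_lit 78) (nat_lit 760) (nat_lit 0) (XT.lf (nat_lit 76) (nat_lit 5589896463) (nat_lit 0) (nat_lit 194068770) (nat_lit 836) (nat_lit 1569584993) (nat_lit 309) (nat_lit 5) (nat_lit 308) (nat_lit 5) (nat_lit 319) (nat_lit 5) (nat_lit 317)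 (nat_lit 312) (nat_lit 271)) (XT.lf (nat_lit 0) (nat_lit 108691573) (nat_lit 836) (nat_lit 5441264645) (nat_lit 912) (nat_lit 1871093553) (nat_lit 298) (nat_lit 5) (nat_lit 309) (nat_lit 5) (nat_lit 310) (nat_lit 5) (nat_lit 318) (nat_lit 312) (nat_lit 270)))) (XT.nd (nat_lit 78) (nat_lit 0) (nat_lit 0) (XT.lf (nat_lit 0) (nat_lit 1766431585) (nat_lit 836) (nat_lit 1673269672) (nat_lit 912) (nat_lit 4051633673) (nat_lit 298) (nat_lit 5) (nat_lit 309) (nat_lit 5) (nat_lit 310) (nat_lit 5) (nat_lit 319) (nat_lit 312) (nat_lit 269)) (XT.nd (nat_lit 78) (nat_lit 0) (nat_lit 76) (XT.lf (nat_lit 76) (nat_lit 2214797650) (nat_lit 0) (nat_lit 1222876722) (nat_lit 912) (nat_lit 4127186503) (nat_lit 299) (nat_lit 5) (nat_lit 298) (nat_lit 5) (nat_lit 310) (nat_lit 5) (nat_lit 320) (nat_lit 312) (nat_lit 268)) (XT.lf (nat_lit 0) (nat_lit 5130319359) (nat_lit 836) (nat_lit 1434396109) (nat_lit 912) (nat_lit 1076783212)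 (nat_lit 299) (nat_lit 5) (nat_lit 310) (nat_lit 5) (nat_lit 311) (nat_lit 5) (nat_lit 321) (nat_lit 312) (nat_lit 267))))) (XT.nd (nat_lit 234) (nat_lit 836) (nat_lit 0) (XT.nd (nat_lit 78) (nat_lit 912) (nat_lit 0) (XT.lf (nat_lit 76) (nat_lit 2600725790) (nat_lit 0) (nat_lit 4255763380) (nat_lit 912) (nat_lit 864506828) (nat_lit 300) (nat_lit 5) (nat_lit 299) (nat_lit 5) (nat_lit 311) (nat_lit 5) (nat_lit 322) (nat_lit 312) (nat_lit 266)) (XT.nd (nat_lit 78) (nat_lit 0) (nat_lit 76) (XT.lf (nat_lit 0) (nat_lit 776272750) (nat_lit 912) (nat_lit 1061682168) (nat_lit 988) (nat_lit 5965895793) (nat_lit 287) (nat_lit 5) (nat_lit 299) (nat_lit 5) (nat_lit 300) (nat_lit 5) (nat_lit 323) (nat_lit 312) (nat_lit 265)) (XT.lf (nat_lit 0) (nat_lit 2433711090) (nat_lit 912) (nat_lit 4761478184) (nat_lit 988) (nat_lit 694239791) (nat_lit 288) (nat_lit 5) (nat_lit 300) (nat_lit 5) (nat_lit 301) (nat_lit 5) (nat_lit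 324) (nat_lit 312) (nat_lit 264)))) (XT.nd (nat_lit 156) (nat_lit 912) (nat_lit 0) (XT.nd (nat_lit 78) (nat_lit 0) (nat_lit 0) (XT.lf (nat_lit 0) (nat_lit 4119083712) (nat_lit 912) (nat_lit 568192397) (nat_lit 988) (nat_lit 3290990306) (nat_lit 288) (nat_lit 5) (nat_lit 300) (nat_lit 5) (nat_lit 301) (nat_lit 5) (nat_lit 325) (nat_lit 312) (nat_lit 263)) (XT.lf (nat_lit 76) (nat_lit 3788239500) (nat_lit 0) (nat_lit 2053859395) (nat_lit 988) (nat_lit 2228094422) (nat_lit 289) (nat_lit 5) (nat_lit 288) (nat_lit 5) (nat_lit 301) (nat_lit 5) (nat_lit 326) (nat_lit 312) (nat_lit 262))) (XT.nd (nat_lit 78) (nat_lit 76) (nat_lit 0) (XT.lf (nat_lit 0) (nat_lit 79658120) (nat_lit 912) (nat_lit 7501907954) (nat_lit 988) (nat_lit 584404904) (nat_lit 277) (nat_lit 5) (nat_lit 289) (nat_lit 5) (nat_lit 290) (nat_lit 5) (nat_lit 327) (nat_lit 312) (nat_lit 261)) (XT.lf (nat_lit 0) (nat_lit 1103377798) (nat_lit 988) (nat_lit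 3673275315) (nat_lit 76) (nat_lit 3487190449) (nat_lit 276) (nat_lit 5) (nat_lit 289) (nat_lit 5) (nat_lit 277) (nat_lit 5) (nat_lit 328) (nat_lit 312) (nat_lit 260)))))) (XT.nd (nat_lit 468) (nat_lit 3040) (nat_lit 0) (XT.nd (nat_lit 234) (nat_lit 1216) (nat_lit 0) (XT.nd (nat_lit 78) (nat_lit 1064) (nat_lit 0) (XT.lf (nat_lit 0) (nat_lit 845561341) (nat_lit 988) (nat_lit 1946413273) (nat_lit 1064) (nat_lit 5573679087) (nat_lit 263) (nat_lit 5) (nat_lit 276) (nat_lit 5) (nat_lit 277) (nat_lit 5) (nat_lit 329) (nat_lit 312) (nat_lit 259)) (XT.nd (nat_lit 78) (nat_lit 1064) (nat_lit 0) (XT.lf (nat_lit 0) (nat_lit 4532870159) (nat_lit 1064) (nat_lit 2942230705) (nat_lit 76) (nat_lit 995399864) (nat_lit 263) (nat_lit 5) (nat_lit 277) (nat_lit 5) (nat_lit 264) (nat_lit 5) (nat_lit 330) (nat_lit 312) (nat_lit 258)) (XT.lf (nat_lit 0) (nat_lit 1750566236) (nat_lit 1064) (nat_lit 4567708397) (nat_lit 1140) (nat_lit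 2260480948) (nat_lit 249) (nat_lit 5) (nat_lit 263) (nat_lit 5) (nat_lit 264) (nat_lit 5) (nat_lit 331) (nat_lit 312) (nat_lit 257)))) (XT.nd (nat_lit 78) (nat_lit 1216) (nat_lit 0) (XT.lf (nat_lit 0) (nat_lit 6607536512) (nat_lit 1064) (nat_lit 1536519915) (nat_lit 1140) (nat_lit 546627180) (nat_lit 249) (nat_lit 5) (nat_lit 263) (nat_lit 5) (nat_lit 264) (nat_lit 5) (nat_lit 332) (nat_lit 312) (nat_lit 256)) (XT.nd (nat_lit 78) (nat_lit 0) (nat_lit 0) (XT.lf (nat_lit 0) (nat_lit 1195469791) (nat_lit 1216) (nat_lit 6011110899) (nat_lit 76) (nat_lit 1599047382) (nat_lit 233) (nat_lit 5) (nat_lit 249) (nat_lit 5) (nat_lit 234) (nat_lit 5) (nat_lit 333) (nat_lit 312) (nat_lit 255)) (XT.lf (nat_lit 0) (nat_lit 2974136049) (nat_lit 1216) (nat_lit 1120673807) (nat_lit 76) (nat_lit 4829217297) (nat_lit 233) (nat_lit 5) (nat_lit 249) (nat_lit 5) (nat_lit 234) (nat_lit 5) (nat_lit 334) (nat_lit 312) (nat_lit 254)))))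 (XT.nd (nat_lit 234) (nat_lit 1216) (nat_lit 0) (XT.nd (nat_lit 78) (nat_lit 608) (nat_lit 0) (XT.lf (nat_lit 0) (nat_lit 3957126855) (nat_lit 1216) (nat_lit 847108710) (nat_lit 1292) (nat_lit 4241827079) (nat_lit 217) (nat_lit 5) (nat_lit 233) (nat_lit 5) (nat_lit 234) (nat_lit 5) (nat_lit 335) (nat_lit 312) (nat_lit 253)) (XT.nd (nat_lit 78) (nat_lit 608) (nat_lit 0) (XT.lf (nat_lit 0) (nat_lit 6685558433) (nat_lit 1292) (nat_lit 22747460) (nat_lit 76) (nat_lit 2463589559) (nat_lit 217) (nat_lit 5) (nat_lit 234) (nat_lit 5) (nat_lit 218) (nat_lit 5) (nat_lit 336) (nat_lit 312) (nat_lit 252)) (XT.lf (nat_lit 0) (nat_lit 5253201157) (nat_lit 608) (nat_lit 3391022650) (nat_lit 684) (nat_lit 656677461) (nat_lit 209) (nat_lit 5) (nat_lit 217) (nat_lit 5) (nat_lit 218) (nat_lit 5) (nat_lit 337) (nat_lit 312) (nat_lit 251)))) (XT.nd (nat_lit 156) (nat_lit 608) (nat_lit 0) (XT.nd (nat_lit 78) (nat_lit 0) (nat_lit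 0) (XT.lf (nat_lit 0) (nat_lit 1178841480) (nat_lit 608) (nat_lit 8205157035) (nat_lit 76) (nat_lit 50200426) (nat_lit 201) (nat_lit 5) (nat_lit 209) (nat_lit 5) (nat_lit 202) (nat_lit 5) (nat_lit 338) (nat_lit 312) (nat_lit 250)) (XT.lf (nat_lit 0) (nat_lit 3094217005) (nat_lit 608) (nat_lit 2901226185) (nat_lit 76) (nat_lit 3574740590) (nat_lit 201) (nat_lit 5) (nat_lit 209) (nat_lit 5) (nat_lit 202) (nat_lit 5) (nat_lit 339) (nat_lit 312) (nat_lit 249))) (XT.nd (nat_lit 78) (nat_lit 0) (nat_lit 0) (XT.lf (nat_lit 0) (nat_lit 2575639886) (nat_lit 608) (nat_lit 2480382802) (nat_lit 684) (nat_lit 4654578718) (nat_lit 193) (nat_lit 5) (nat_lit 201) (nat_lit 5) (nat_lit 202) (nat_lit 5) (nat_lit 340) (nat_lit 312) (nat_lit 248)) (XT.lf (nat_lit 0) (nat_lit 7082125208) (nat_lit 684) (nat_lit 1626468507) (nat_lit 76) (nat_lit 1146496225) (nat_lit 193) (nat_lit 5) (nat_lit 202) (nat_lit 5) (nat_lit 194) (nat_lit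 5) (nat_lit 341) (nat_lit 312) (nat_lit 247))))))) (XT.nd (nat_lit 1014) (nat_lit 2888) (nat_lit 0) (XT.nd (nat_lit 468) (nat_lit 1900) (nat_lit 0) (XT.nd (nat_lit 234) (nat_lit 912) (nat_lit 0) (XT.nd (nat_lit 78) (nat_lit 608) (nat_lit 0) (XT.lf (nat_lit 0) (nat_lit 4065994917) (nat_lit 532) (nat_lit 5132577682) (nat_lit 608) (nat_lit 804474705) (nat_lit 186) (nat_lit 5) (nat_lit 193) (nat_lit 5) (nat_lit 194) (nat_lit 5) (nat_lit 342) (nat_lit 312) (nat_lit 246)) (XT.nd (nat_lit 78) (nat_lit 532) (nat_lit 0) (XT.lf (nat_lit 0) (nat_lit 1182007319) (nat_lit 608) (nat_lit 240703820) (nat_lit 76) (nat_lit 8732915251) (nat_lit 185) (nat_lit 5) (nat_lit 193) (nat_lit 5) (nat_lit 186) (nat_lit 5) (nat_lit 343) (nat_lit 312) (nat_lit 245)) (XT.lf (nat_lit 0) (nat_lit 3257504869) (nat_lit 608) (nat_lit 4641215991) (nat_lit 76) (nat_lit 2412474572) (nat_lit 178) (nat_lit 5) (nat_lit 186) (nat_lit 5) (nat_lit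 179) (nat_lit 5) (nat_lit 344) (nat_lit 312) (nat_lit 244)))) (XT.nd (nat_lit 78) (nat_lit 456) (nat_lit 0) (XT.lf (nat_lit 0) (nat_lit 1266199618) (nat_lit 456) (nat_lit 4125572936) (nat_lit 532) (nat_lit 5079782517) (nat_lit 172) (nat_lit 5) (nat_lit 178) (nat_lit 5) (nat_lit 179) (nat_lit 5) (nat_lit 345) (nat_lit 312) (nat_lit 243)) (XT.nd (nat_lit 78) (nat_lit 456) (nat_lit 0) (XT.lf (nat_lit 0) (nat_lit 7410373646) (nat_lit 456) (nat_lit 194950403) (nat_lit 532) (nat_lit 3030961917) (nat_lit 172) (nat_lit 5) (nat_lit 178) (nat_lit 5) (nat_lit 179) (nat_lit 5) (nat_lit 346) (nat_lit 312) (nat_lit 242)) (XT.lf (nat_lit 0) (nat_lit 2917330180) (nat_lit 456) (nat_lit 7002310195) (nat_lit 532) (nat_lit 885305275) (nat_lit 166) (nat_lit 5) (nat_lit 172) (nat_lit 5) (nat_lit 173) (nat_lit 5) (nat_lit 347) (nat_lit 312) (nat_lit 241))))) (XT.nd (nat_lit 234) (nat_lit 1368) (nat_lit 0) (XT.nd (nat_lit 78)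 (nat_lit 456) (nat_lit 0) (XT.lf (nat_lit 0) (nat_lit 1303213062) (nat_lit 532) (nat_lit 1717420700) (nat_lit 76) (nat_lit 7957535680) (nat_lit 165) (nat_lit 5) (nat_lit 172) (nat_lit 5) (nat_lit 166) (nat_lit 5) (nat_lit 348) (nat_lit 312) (nat_lit 240)) (XT.nd (nat_lit 78) (nat_lit 0) (nat_lit 0) (XT.lf (nat_lit 0) (nat_lit 3565908387) (nat_lit 532) (nat_lit 6480900464) (nat_lit 76) (nat_lit 1108744793) (nat_lit 159) (nat_lit 5) (nat_lit 166) (nat_lit 5) (nat_lit 160) (nat_lit 5) (nat_lit 349) (nat_lit 312) (nat_lit 239)) (XT.lf (nat_lit 0) (nat_lit 5914788878) (nat_lit 532) (nat_lit 109322835) (nat_lit 76) (nat_lit 5313614178) (nat_lit 159) (nat_lit 5) (nat_lit 166) (nat_lit 5) (nat_lit 160) (nat_lit 5) (nat_lit 350) (nat_lit 312) (nat_lit 238)))) (XT.nd (nat_lit 156) (nat_lit 532) (nat_lit 0) (XT.nd (nat_lit 78) (nat_lit 380) (nat_lit 0) (XT.lf (nat_lit 0) (nat_lit 6546983089) (nat_lit 456) (nat_lit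 1821817128) (nat_lit 532) (nat_lit 3155538346) (nat_lit 153) (nat_lit 5) (nat_lit 159) (nat_lit 5) (nat_lit 160) (nat_lit 5) (nat_lit 351) (nat_lit 312) (nat_lit 237)) (XT.lf (nat_lit 0) (nat_lit 1662408124) (nat_lit 380) (nat_lit 9247383776) (nat_lit 456) (nat_lit 806371664) (nat_lit 148) (nat_lit 5) (nat_lit 153) (nat_lit 5) (nat_lit 154) (nat_lit 5) (nat_lit 352) (nat_lit 312) (nat_lit 236))) (XT.nd (nat_lit 78) (nat_lit 456) (nat_lit 0) (XT.lf (nat_lit 0) (nat_lit 1622952998) (nat_lit 456) (nat_lit 3377736226) (nat_lit 76) (nat_lit 6911367848) (nat_lit 147) (nat_lit 5) (nat_lit 153) (nat_lit 5) (nat_lit 148) (nat_lit 5) (nat_lit 353) (nat_lit 312) (nat_lit 235)) (XT.lf (nat_lit 0) (nat_lit 3525537638) (nat_lit 456) (nat_lit 590473695) (nat_lit 532) (nat_lit 7997378200) (nat_lit 141) (nat_lit 5) (nat_lit 147) (nat_lit 5) (nat_lit 148) (nat_lit 5) (nat_lit 354) (nat_lit 312) (nat_lit 234)))))) (XT.nd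 (nat_lit 546) (nat_lit 1368) (nat_lit 0) (XT.nd (nat_lit 234) (nat_lit 760) (nat_lit 0) (XT.nd (nat_lit 78) (nat_lit 760) (nat_lit 0) (XT.lf (nat_lit 0) (nat_lit 6729859445) (nat_lit 532) (nat_lit 1687157736) (nat_lit 76) (nat_lit 3902377949) (nat_lit 141) (nat_lit 5) (nat_lit 148) (nat_lit 5) (nat_lit 142) (nat_lit 5) (nat_lit 355) (nat_lit 312) (nat_lit 233)) (XT.nd (nat_lit 78) (nat_lit 380) (nat_lit 0) (XT.lf (nat_lit 0) (nat_lit 5488568233) (nat_lit 380) (nat_lit 3966492847) (nat_lit 456) (nat_lit 3075544394) (nat_lit 136) (nat_lit 5) (nat_lit 141) (nat_lit 5) (nat_lit 142) (nat_lit 5) (nat_lit 356) (nat_lit 312) (nat_lit 232)) (XT.lf (nat_lit 0) (nat_lit 129314352) (nat_lit 380) (nat_lit 12131779024) (nat_lit 456) (nat_lit 487098865) (nat_lit 131) (nat_lit 5) (nat_lit 136) (nat_lit 5) (nat_lit 137) (nat_lit 5) (nat_lit 357) (nat_lit 312) (nat_lit 231)))) (XT.nd (nat_lit 156) (nat_lit 380) (nat_lit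 0) (XT.nd (nat_lit 78) (nat_lit 304) (nat_lit 0) (XT.lf (nat_lit 0) (nat_lit 2222415604) (nat_lit 456) (nat_lit 5404730895) (nat_lit 76) (nat_lit 5341965308) (nat_lit 130) (nat_lit 5) (nat_lit 136) (nat_lit 5) (nat_lit 131) (nat_lit 5) (nat_lit 358) (nat_lit 312) (nat_lit 230)) (XT.lf (nat_lit 0) (nat_lit 2027774499) (nat_lit 304) (nat_lit 2970724248) (nat_lit 380) (nat_lit 8198174630) (nat_lit 126) (nat_lit 5) (nat_lit 130) (nat_lit 5) (nat_lit 131) (nat_lit 5) (nat_lit 359) (nat_lit 312) (nat_lit 229))) (XT.nd (nat_lit 78) (nat_lit 380) (nat_lit 0) (XT.lf (nat_lit 0) (nat_lit 7906427425) (nat_lit 380) (nat_lit 3686605763) (nat_lit 76) (nat_lit 1836582691) (nat_lit 126) (nat_lit 5) (nat_lit 131) (nat_lit 5) (nat_lit 127) (nat_lit 5) (nat_lit 360) (nat_lit 312) (nat_lit 228)) (XT.lf (nat_lit 0) (nat_lit 4037350672) (nat_lit 380) (nat_lit 6909066578) (nat_lit 456) (nat_lit 2721795360) (nat_lit 121) (nat_lit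 5) (nat_lit 126) (nat_lit 5) (nat_lit 127) (nat_lit 5) (nat_lit 361) (nat_lit 312) (nat_lit 227))))) (XT.nd (nat_lit 234) (nat_lit 988) (nat_lit 0) (XT.nd (nat_lit 78) (nat_lit 304) (nat_lit 0) (XT.lf (nat_lit 0) (nat_lit 174780272) (nat_lit 456) (nat_lit 1878527580) (nat_lit 76) (nat_lit 11860192226) (nat_lit 120) (nat_lit 5) (nat_lit 126) (nat_lit 5) (nat_lit 121) (nat_lit 5) (nat_lit 362) (nat_lit 312) (nat_lit 226)) (XT.nd (nat_lit 78) (nat_lit 0) (nat_lit 0) (XT.lf (nat_lit 0) (nat_lit 3169366064) (nat_lit 380) (nat_lit 8024949871) (nat_lit 76) (nat_lit 2969056982) (nat_lit 116) (nat_lit 5) (nat_lit 121) (nat_lit 5) (nat_lit 117) (nat_lit 5) (nat_lit 363) (nat_lit 312) (nat_lit 225)) (XT.lf (nat_lit 0) (nat_lit 6270965733) (nat_lit 380) (nat_lit 37975046) (nat_lit 76) (nat_lit 8111295341) (nat_lit 116) (nat_lit 5) (nat_lit 121) (nat_lit 5) (nat_lit 117) (nat_lit 5) (nat_lit 364) (nat_lit 312) (nat_lit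 224)))) (XT.nd (nat_lit 156) (nat_lit 380) (nat_lit 0) (XT.nd (nat_lit 78) (nat_lit 304) (nat_lit 0) (XT.lf (nat_lit 0) (nat_lit 8320214178) (nat_lit 304) (nat_lit 1203717290) (nat_lit 380) (nat_lit 5159133400) (nat_lit 112) (nat_lit 5) (nat_lit 116) (nat_lit 5) (nat_lit 117) (nat_lit 5) (nat_lit 365) (nat_lit 312) (nat_lit 223)) (XT.lf (nat_lit 0) (nat_lit 1944105806) (nat_lit 304) (nat_lit 10967021009) (nat_lit 380) (nat_lit 2041561367) (nat_lit 108) (nat_lit 5) (nat_lit 112) (nat_lit 5) (nat_lit 113) (nat_lit 5) (nat_lit 366) (nat_lit 312) (nat_lit 222))) (XT.nd (nat_lit 78) (nat_lit 304) (nat_lit 0) (XT.lf (nat_lit 0) (nat_lit 1202223133) (nat_lit 380) (nat_lit 4652705729) (nat_lit 76) (nat_lit 9373477259) (nat_lit 107) (nat_lit 5) (nat_lit 112) (nat_lit 5) (nat_lit 108) (nat_lit 5) (nat_lit 367) (nat_lit 312) (nat_lit 221)) (XT.lf (nat_lit 0) (nat_lit 3981086223) (nat_lit 304) (nat_lit 538791320) (nat_lit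 380) (nat_lit 10991392124) (nat_lit 103) (nat_lit 5) (nat_lit 107) (nat_lit 5) (nat_lit 108) (nat_lit 5) (nat_lit 368) (nat_lit 312) (nat_lit 220))))))))
noncomputable def xc137 : XT := (XT.nd (nat_lit 2028) (nat_lit 2052) (nat_lit 0) (XT.nd (nat_lit 1014) (nat_lit 1444) (nat_lit 0) (XT.nd (nat_lit 468) (nat_lit 1140) (nat_lit 0) (XT.nd (nat_lit 234) (nat_lit 608) (nat_lit 0) (XT.nd (nat_lit 78) (nat_lit 228) (nat_lit 0) (XT.lf (nat_lit 0) (nat_lit 8011509423) (nat_lit 380) (nat_lit 2910326091) (nat_lit 76) (nat_lit 4878558099) (nat_lit 103) (nat_lit 5) (nat_lit 108) (nat_lit 5) (nat_lit 104) (nat_lit 5) (nat_lit 369) (nat_lit 312) (nat_lit 219)) (XT.nd (nat_lit 78) (nat_lit 0) (nat_lit 0) (XT.lf (nat_lit 0) (nat_lit 6051299041) (nat_lit 228) (nat_lit 5600234008) (nat_lit 304) (nat_lit 4445356642) (nat_lit 100) (nat_lit 5) (nat_lit 103) (nat_lit 5) (nat_lit 104) (nat_lit 5) (nat_lit 370) (nat_lit 312) (nat_lit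 218)) (XT.lf (nat_lit 0) (nat_lit 15312145707) (nat_lit 228) (nat_lit 98436646) (nat_lit 304) (nat_lit 991411022) (nat_lit 100) (nat_lit 5) (nat_lit 103) (nat_lit 5) (nat_lit 104) (nat_lit 5) (nat_lit 371) (nat_lit 312) (nat_lit 217)))) (XT.nd (nat_lit 78) (nat_lit 228) (nat_lit 0) (XT.lf (nat_lit 0) (nat_lit 2630578421) (nat_lit 380) (nat_lit 8526271664) (nat_lit 76) (nat_lit 5555232095) (nat_lit 95) (nat_lit 5) (nat_lit 100) (nat_lit 5) (nat_lit 96) (nat_lit 5) (nat_lit 372) (nat_lit 312) (nat_lit 216)) (XT.nd (nat_lit 78) (nat_lit 0) (nat_lit 0) (XT.lf (nat_lit 0) (nat_lit 704768006) (nat_lit 228) (nat_lit 5636399703) (nat_lit 304) (nat_lit 10690022304) (nat_lit 92) (nat_lit 5) (nat_lit 95) (nat_lit 5) (nat_lit 96) (nat_lit 5) (nat_lit 373) (nat_lit 312) (nat_lit 215)) (XT.lf (nat_lit 0) (nat_lit 10231686935) (nat_lit 304) (nat_lit 7000307136) (nat_lit 76) (nat_lit 125825282) (nat_lit 92) (nat_lit 5)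 (nat_lit 96) (nat_lit 5) (nat_lit 93) (nat_lit 5) (nat_lit 374) (nat_lit 312) (nat_lit 214))))) (XT.nd (nat_lit 234) (nat_lit 532) (nat_lit 0) (XT.nd (nat_lit 78) (nat_lit 304) (nat_lit 0) (XT.lf (nat_lit 0) (nat_lit 2571609098) (nat_lit 304) (nat_lit 11729570271) (nat_lit 380) (nat_lit 3391206922) (nat_lit 88) (nat_lit 5) (nat_lit 92) (nat_lit 5) (nat_lit 93) (nat_lit 5) (nat_lit 375) (nat_lit 312) (nat_lit 213)) (XT.nd (nat_lit 78) (nat_lit 228) (nat_lit 0) (XT.lf (nat_lit 0) (nat_lit 500071533) (nat_lit 380) (nat_lit 5494215888) (nat_lit 76) (nat_lit 12040981493) (nat_lit 87) (nat_lit 5) (nat_lit 92) (nat_lit 5) (nat_lit 88) (nat_lit 5) (nat_lit 376) (nat_lit 312) (nat_lit 212)) (XT.lf (nat_lit 0) (nat_lit 4446718425) (nat_lit 228) (nat_lit 18293980) (nat_lit 304) (nat_lit 13921671704) (nat_lit 84) (nat_lit 5) (nat_lit 87) (nat_lit 5) (nat_lit 88) (nat_lit 5) (nat_lit 377) (nat_lit 312) (nat_lit 211))))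 (XT.nd (nat_lit 156) (nat_lit 304) (nat_lit 0) (XT.nd (nat_lit 78) (nat_lit 228) (nat_lit 0) (XT.lf (nat_lit 0) (nat_lit 8646419368) (nat_lit 304) (nat_lit 4035792943) (nat_lit 76) (nat_lit 6063509639) (nat_lit 84) (nat_lit 5) (nat_lit 88) (nat_lit 5) (nat_lit 85) (nat_lit 5) (nat_lit 378) (nat_lit 312) (nat_lit 210)) (XT.lf (nat_lit 0) (nat_lit 6260517543) (nat_lit 228) (nat_lit 6736117236) (nat_lit 304) (nat_lit 6117600720) (nat_lit 81) (nat_lit 5) (nat_lit 84) (nat_lit 5) (nat_lit 85) (nat_lit 5) (nat_lit 379) (nat_lit 312) (nat_lit 209))) (XT.nd (nat_lit 78) (nat_lit 304) (nat_lit 0) (XT.lf (nat_lit 0) (nat_lit 16921740015) (nat_lit 228) (nat_lit 579613691) (nat_lit 304) (nat_lit 1991736237) (nat_lit 81) (nat_lit 5) (nat_lit 84) (nat_lit 5) (nat_lit 85) (nat_lit 5) (nat_lit 380) (nat_lit 312) (nat_lit 208)) (XT.lf (nat_lit 0) (nat_lit 2331839922) (nat_lit 304) (nat_lit 11806918243) (nat_lit 76) (nat_lit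 5740365945) (nat_lit 77) (nat_lit 5) (nat_lit 81) (nat_lit 5) (nat_lit 78) (nat_lit 5) (nat_lit 381) (nat_lit 312) (nat_lit 207)))))) (XT.nd (nat_lit 468) (nat_lit 760) (nat_lit 0) (XT.nd (nat_lit 234) (nat_lit 304) (nat_lit 0) (XT.nd (nat_lit 78) (nat_lit 380) (nat_lit 0) (XT.lf (nat_lit 0) (nat_lit 6760752696) (nat_lit 304) (nat_lit 1240298734) (nat_lit 76) (nat_lit 12274631370) (nat_lit 77) (nat_lit 5) (nat_lit 81) (nat_lit 5) (nat_lit 78) (nat_lit 5) (nat_lit 382) (nat_lit 312) (nat_lit 206)) (XT.nd (nat_lit 78) (nat_lit 152) (nat_lit 0) (XT.lf (nat_lit 0) (nat_lit 9809098263) (nat_lit 228) (nat_lit 1591900234) (nat_lit 304) (nat_lit 9280790581) (nat_lit 74) (nat_lit 5) (nat_lit 77) (nat_lit 5) (nat_lit 78) (nat_lit 5) (nat_lit 383) (nat_lit 312) (nat_lit 205)) (XT.lf (nat_lit 0) (nat_lit 42490162) (nat_lit 152) (nat_lit 16183470782) (nat_lit 228) (nat_lit 4872756980) (nat_lit 72) (nat_lit 5) (nat_lit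 74) (nat_lit 5) (nat_lit 75) (nat_lit 5) (nat_lit 384) (nat_lit 312) (nat_lit 204)))) (XT.nd (nat_lit 78) (nat_lit 304) (nat_lit 0) (XT.lf (nat_lit 0) (nat_lit 11466423929) (nat_lit 152) (nat_lit 9839157833) (nat_lit 228) (nat_lit 219280107) (nat_lit 72) (nat_lit 5) (nat_lit 74) (nat_lit 5) (nat_lit 75) (nat_lit 5) (nat_lit 385) (nat_lit 312) (nat_lit 203)) (XT.nd (nat_lit 78) (nat_lit 0) (nat_lit 0) (XT.lf (nat_lit 0) (nat_lit 1224135937) (nat_lit 228) (nat_lit 3256988685) (nat_lit 304) (nat_lit 17481453543) (nat_lit 68) (nat_lit 5) (nat_lit 71) (nat_lit 5) (nat_lit 72) (nat_lit 5) (nat_lit 386) (nat_lit 312) (nat_lit 202)) (XT.lf (nat_lit 0) (nat_lit 9439489204) (nat_lit 304) (nat_lit 9421226454) (nat_lit 76) (nat_lit 3549008645) (nat_lit 68) (nat_lit 5) (nat_lit 72) (nat_lit 5) (nat_lit 69) (nat_lit 5) (nat_lit 387) (nat_lit 312) (nat_lit 201))))) (XT.nd (nat_lit 234) (nat_lit 304) (nat_lit 0) (XT.nd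 (nat_lit 78) (nat_lit 304) (nat_lit 0) (XT.lf (nat_lit 0) (nat_lit 2222170239) (nat_lit 152) (nat_lit 12363399111) (nat_lit 228) (nat_lit 8283550554) (nat_lit 66) (nat_lit 5) (nat_lit 68) (nat_lit 5) (nat_lit 69) (nat_lit 5) (nat_lit 388) (nat_lit 312) (nat_lit 200)) (XT.nd (nat_lit 78) (nat_lit 304) (nat_lit 0) (XT.lf (nat_lit 0) (nat_lit 14383783767) (nat_lit 152) (nat_lit 5582934189) (nat_lit 228) (nat_lit 3373162735) (nat_lit 66) (nat_lit 5) (nat_lit 68) (nat_lit 5) (nat_lit 69) (nat_lit 5) (nat_lit 389) (nat_lit 312) (nat_lit 199)) (XT.lf (nat_lit 0) (nat_lit 1681181760) (nat_lit 304) (nat_lit 20731533375) (nat_lit 76) (nat_lit 1410681567) (nat_lit 62) (nat_lit 5) (nat_lit 66) (nat_lit 5) (nat_lit 63) (nat_lit 5) (nat_lit 390) (nat_lit 312) (nat_lit 198)))) (XT.nd (nat_lit 156) (nat_lit 152) (nat_lit 0) (XT.nd (nat_lit 78) (nat_lit 152) (nat_lit 0) (XT.lf (nat_lit 0) (nat_lit 6951893073) (nat_lit 304)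 (nat_lit 8747310465) (nat_lit 76) (nat_lit 8617240283) (nat_lit 62) (nat_lit 5) (nat_lit 66) (nat_lit 5) (nat_lit 63) (nat_lit 5) (nat_lit 391) (nat_lit 312) (nat_lit 197)) (XT.lf (nat_lit 0) (nat_lit 3644360156) (nat_lit 152) (nat_lit 8757730090) (nat_lit 228) (nat_lit 12421554637) (nat_lit 60) (nat_lit 5) (nat_lit 62) (nat_lit 5) (nat_lit 63) (nat_lit 5) (nat_lit 392) (nat_lit 312) (nat_lit 196))) (XT.nd (nat_lit 78) (nat_lit 152) (nat_lit 0) (XT.lf (nat_lit 0) (nat_lit 16564126007) (nat_lit 152) (nat_lit 1526508027) (nat_lit 228) (nat_lit 7253186086) (nat_lit 60) (nat_lit 5) (nat_lit 62) (nat_lit 5) (nat_lit 63) (nat_lit 5) (nat_lit 393) (nat_lit 312) (nat_lit 195)) (XT.lf (nat_lit 0) (nat_lit 3990220254) (nat_lit 152) (nat_lit 20041707337) (nat_lit 228) (nat_lit 1845213487) (nat_lit 58) (nat_lit 5) (nat_lit 60) (nat_lit 5) (nat_lit 61) (nat_lit 5) (nat_lit 394) (nat_lit 312) (nat_lit 194))))))) (XT.nd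 (nat_lit 1014) (nat_lit 912) (nat_lit 0) (XT.nd (nat_lit 468) (nat_lit 532) (nat_lit 0) (XT.nd (nat_lit 234) (nat_lit 380) (nat_lit 0) (XT.nd (nat_lit 78) (nat_lit 152) (nat_lit 0) (XT.lf (nat_lit 0) (nat_lit 3743810974) (nat_lit 228) (nat_lit 9175041606) (nat_lit 76) (nat_lit 13503792929) (nat_lit 57) (nat_lit 5) (nat_lit 60) (nat_lit 5) (nat_lit 58) (nat_lit 5) (nat_lit 395) (nat_lit 312) (nat_lit 193)) (XT.nd (nat_lit 78) (nat_lit 0) (nat_lit 0) (XT.lf (nat_lit 0) (nat_lit 3955114587) (nat_lit 152) (nat_lit 5533557952) (nat_lit 228) (nat_lit 17494539840) (nat_lit 55) (nat_lit 5) (nat_lit 57) (nat_lit 5) (nat_lit 58) (nat_lit 5) (nat_lit 396) (nat_lit 312) (nat_lit 192)) (XT.lf (nat_lit 0) (nat_lit 15506685719) (nat_lit 228) (nat_lit 9933474813) (nat_lit 76) (nat_lit 2117414452) (nat_lit 55) (nat_lit 5) (nat_lit 58) (nat_lit 5) (nat_lit 56) (nat_lit 5) (nat_lit 397) (nat_lit 312) (nat_lit 191)))) (XT.nd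 (nat_lit 78) (nat_lit 228) (nat_lit 0) (XT.lf (nat_lit 0) (nat_lit 3546990639) (nat_lit 152) (nat_lit 18234810576) (nat_lit 228) (nat_lit 6365073211) (nat_lit 53) (nat_lit 5) (nat_lit 55) (nat_lit 5) (nat_lit 56) (nat_lit 5) (nat_lit 398) (nat_lit 312) (nat_lit 190)) (XT.nd (nat_lit 78) (nat_lit 228) (nat_lit 0) (XT.lf (nat_lit 0) (nat_lit 17614283505) (nat_lit 152) (nat_lit 10719028637) (nat_lit 228) (nat_lit 417899188) (nat_lit 53) (nat_lit 5) (nat_lit 55) (nat_lit 5) (nat_lit 56) (nat_lit 5) (nat_lit 399) (nat_lit 312) (nat_lit 189)) (XT.lf (nat_lit 0) (nat_lit 2707039868) (nat_lit 152) (nat_lit 2903362474) (nat_lit 228) (nat_lit 23761209905) (nat_lit 50) (nat_lit 5) (nat_lit 52) (nat_lit 5) (nat_lit 53) (nat_lit 5) (nat_lit 400) (nat_lit 312) (nat_lit 188))))) (XT.nd (nat_lit 234) (nat_lit 380) (nat_lit 0) (XT.nd (nat_lit 78) (nat_lit 152) (nat_lit 0) (XT.lf (nat_lit 0) (nat_lit 11962334421) (nat_lit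 228) (nat_lit 12888255588) (nat_lit 76) (nat_lit 5155378132) (nat_lit 50) (nat_lit 5) (nat_lit 53) (nat_lit 5) (nat_lit 51) (nat_lit 5) (nat_lit 401) (nat_lit 312) (nat_lit 187)) (XT.nd (nat_lit 78) (nat_lit 0) (nat_lit 0) (XT.lf (nat_lit 0) (nat_lit 1277234893) (nat_lit 152) (nat_lit 17257091268) (nat_lit 228) (nat_lit 12124145930) (nat_lit 48) (nat_lit 5) (nat_lit 50) (nat_lit 5) (nat_lit 51) (nat_lit 5) (nat_lit 402) (nat_lit 312) (nat_lit 186)) (XT.lf (nat_lit 0) (nat_lit 16111792543) (nat_lit 152) (nat_lit 9310451631) (nat_lit 228) (nat_lit 5904746351) (nat_lit 48) (nat_lit 5) (nat_lit 50) (nat_lit 5) (nat_lit 51) (nat_lit 5) (nat_lit 403) (nat_lit 312) (nat_lit 185)))) (XT.nd (nat_lit 156) (nat_lit 152) (nat_lit 0) (XT.nd (nat_lit 78) (nat_lit 152) (nat_lit 0) (XT.lf (nat_lit 0) (nat_lit 480294530) (nat_lit 228) (nat_lit 648728978) (nat_lit 76) (nat_lit 30886733475) (nat_lit 47) (nat_lit 5) (nat_lit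 50) (nat_lit 5) (nat_lit 48) (nat_lit 5) (nat_lit 404) (nat_lit 312) (nat_lit 184)) (XT.lf (nat_lit 0) (nat_lit 7139380100) (nat_lit 228) (nat_lit 18230341318) (nat_lit 76) (nat_lit 7347678101) (nat_lit 45) (nat_lit 5) (nat_lit 48) (nat_lit 5) (nat_lit 46) (nat_lit 5) (nat_lit 405) (nat_lit 312) (nat_lit 183))) (XT.nd (nat_lit 78) (nat_lit 152) (nat_lit 0) (XT.lf (nat_lit 0) (nat_lit 14005251430) (nat_lit 228) (nat_lit 3380135093) (nat_lit 76) (nat_lit 16054496509) (nat_lit 45) (nat_lit 5) (nat_lit 48) (nat_lit 5) (nat_lit 46) (nat_lit 5) (nat_lit 406) (nat_lit 312) (nat_lit 182)) (XT.lf (nat_lit 0) (nat_lit 12133694764) (nat_lit 152) (nat_lit 9049573634) (nat_lit 228) (nat_lit 12997589602) (nat_lit 43) (nat_lit 5) (nat_lit 45) (nat_lit 5) (nat_lit 46) (nat_lit 5) (nat_lit 407) (nat_lit 312) (nat_lit 181)))))) (XT.nd (nat_lit 546) (nat_lit 532) (nat_lit 0) (XT.nd (nat_lit 234) (nat_lit 228) (nat_lit 0)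 (XT.nd (nat_lit 78) (nat_lit 152) (nat_lit 0) (XT.lf (nat_lit 0) (nat_lit 28163757218) (nat_lit 152) (nat_lit 436661699) (nat_lit 228) (nat_lit 6342931486) (nat_lit 43) (nat_lit 5) (nat_lit 45) (nat_lit 5) (nat_lit 46) (nat_lit 5) (nat_lit 408) (nat_lit 312) (nat_lit 180)) (XT.nd (nat_lit 78) (nat_lit 0) (nat_lit 0) (XT.lf (nat_lit 0) (nat_lit 660644698) (nat_lit 152) (nat_lit 26707633381) (nat_lit 76) (nat_lit 8355516186) (nat_lit 41) (nat_lit 5) (nat_lit 43) (nat_lit 5) (nat_lit 42) (nat_lit 5) (nat_lit 409) (nat_lit 312) (nat_lit 179)) (XT.lf (nat_lit 0) (nat_lit 7810209869) (nat_lit 152) (nat_lit 11186823112) (nat_lit 76) (nat_lit 17526835182) (nat_lit 41) (nat_lit 5) (nat_lit 43) (nat_lit 5) (nat_lit 42) (nat_lit 5) (nat_lit 410) (nat_lit 312) (nat_lit 178)))) (XT.nd (nat_lit 156) (nat_lit 76) (nat_lit 0) (XT.nd (nat_lit 78) (nat_lit 0) (nat_lit 0) (XT.lf (nat_lit 0) (nat_lit 4877125870) (nat_lit 152)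 (nat_lit 10334218563) (nat_lit 228) (nat_lit 22135489127) (nat_lit 39) (nat_lit 5) (nat_lit 41) (nat_lit 5) (nat_lit 42) (nat_lit 5) (nat_lit 411) (nat_lit 312) (nat_lit 177)) (XT.lf (nat_lit 0) (nat_lit 21634829439) (nat_lit 152) (nat_lit 1302966459) (nat_lit 228) (nat_lit 15253595239) (nat_lit 39) (nat_lit 5) (nat_lit 41) (nat_lit 5) (nat_lit 42) (nat_lit 5) (nat_lit 412) (nat_lit 312) (nat_lit 176))) (XT.nd (nat_lit 78) (nat_lit 76) (nat_lit 0) (XT.lf (nat_lit 0) (nat_lit 30963461425) (nat_lit 228) (nat_lit 260099194) (nat_lit 76) (nat_lit 7835703862) (nat_lit 39) (nat_lit 5) (nat_lit 42) (nat_lit 5) (nat_lit 40) (nat_lit 4) (nat_lit 413) (nat_lit 312) (nat_lit 175)) (XT.lf (nat_lit 0) (nat_lit 16823968833) (nat_lit 76) (nat_lit 22571354020) (nat_lit 152) (nat_lit 552890002) (nat_lit 38) (nat_lit 5) (nat_lit 39) (nat_lit 5) (nat_lit 40) (nat_lit 4) (nat_lit 414) (nat_lit 312) (nat_lit 174))))) (XT.nd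 (nat_lit 234) (nat_lit 304) (nat_lit 0) (XT.nd (nat_lit 78) (nat_lit 152) (nat_lit 0) (XT.lf (nat_lit 0) (nat_lit 7068967292) (nat_lit 152) (nat_lit 6523958358) (nat_lit 76) (nat_lit 27269020325) (nat_lit 37) (nat_lit 5) (nat_lit 39) (nat_lit 5) (nat_lit 38) (nat_lit 5) (nat_lit 415) (nat_lit 312) (nat_lit 173)) (XT.nd (nat_lit 78) (nat_lit 0) (nat_lit 0) (XT.lf (nat_lit 0) (nat_lit 10762662001) (nat_lit 152) (nat_lit 4240250976) (nat_lit 228) (nat_lit 26797179001) (nat_lit 35) (nat_lit 5) (nat_lit 37) (nat_lit 5) (nat_lit 38) (nat_lit 5) (nat_lit 416) (nat_lit 312) (nat_lit 172)) (XT.lf (nat_lit 0) (nat_lit 23284372760) (nat_lit 228) (nat_lit 14131538325) (nat_lit 76) (nat_lit 5347187832) (nat_lit 35) (nat_lit 5) (nat_lit 38) (nat_lit 5) (nat_lit 36) (nat_lit 4) (nat_lit 417) (nat_lit 312) (nat_lit 171)))) (XT.nd (nat_lit 156) (nat_lit 228) (nat_lit 0) (XT.nd (nat_lit 78) (nat_lit 0) (nat_lit 0) (XT.lf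 (nat_lit 0) (nat_lit 3287925162) (nat_lit 76) (nat_lit 28591321360) (nat_lit 152) (nat_lit 11873801821) (nat_lit 34) (nat_lit 5) (nat_lit 35) (nat_lit 5) (nat_lit 36) (nat_lit 4) (nat_lit 418) (nat_lit 312) (nat_lit 170)) (XT.lf (nat_lit 0) (nat_lit 21504028463) (nat_lit 76) (nat_lit 19362121619) (nat_lit 152) (nat_lit 3902522010) (nat_lit 34) (nat_lit 5) (nat_lit 35) (nat_lit 5) (nat_lit 36) (nat_lit 4) (nat_lit 419) (nat_lit 312) (nat_lit 169))) (XT.nd (nat_lit 78) (nat_lit 152) (nat_lit 0) (XT.lf (nat_lit 0) (nat_lit 4215481299) (nat_lit 152) (nat_lit 5604898945) (nat_lit 76) (nat_lit 35993393843) (nat_lit 33) (nat_lit 5) (nat_lit 35) (nat_lit 5) (nat_lit 34) (nat_lit 5) (nat_lit 420) (nat_lit 312) (nat_lit 168)) (XT.lf (nat_lit 0) (nat_lit 12614939734) (nat_lit 228) (nat_lit 34106735283) (nat_lit 76) (nat_lit 163905635) (nat_lit 31) (nat_lit 5) (nat_lit 34) (nat_lit 5) (nat_lit 32) (nat_lit 4) (nat_lit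 421) (nat_lit 312) (nat_lit 167))))))))
noncomputable def xc138 : XT := (XT.nd (nat_lit 38610) (nat_lit 0) (nat_lit 12692) (XT.nd (nat_lit 1014) (nat_lit 380) (nat_lit 0) (XT.nd (nat_lit 468) (nat_lit 228) (nat_lit 0) (XT.nd (nat_lit 234) (nat_lit 228) (nat_lit 0) (XT.nd (nat_lit 78) (nat_lit 76) (nat_lit 0) (XT.lf (nat_lit 0) (nat_lit 21412692952) (nat_lit 228) (nat_lit 16271561652) (nat_lit 76) (nat_lit 10300898675) (nat_lit 31) (nat_lit 5) (nat_lit 34) (nat_lit 5) (nat_lit 32) (nat_lit 4) (nat_lit 422) (nat_lit 312) (nat_lit 166)) (XT.nd (nat_lit 78) (nat_lit 0) (nat_lit 0) (XT.lf (nat_lit 0) (nat_lit 2125657814) (nat_lit 76) (nat_lit 28361310069) (nat_lit 152) (nat_lit 18630368689) (nat_lit 30) (nat_lit 5) (nat_lit 31) (nat_lit 5) (nat_lit 32) (nat_lit 4) (nat_lit 423) (nat_lit 312) (nat_lit 165)) (XT.lf (nat_lit 0) (nat_lit 21393998358) (nat_lit 76) (nat_lit 18596030123) (nat_lit 152) (nat_lit 10288761288)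 (nat_lit 30) (nat_lit 5) (nat_lit 31) (nat_lit 5) (nat_lit 32) (nat_lit 4) (nat_lit 424) (nat_lit 312) (nat_lit 164)))) (XT.nd (nat_lit 78) (nat_lit 228) (nat_lit 0) (XT.lf (nat_lit 0) (nat_lit 41226460411) (nat_lit 76) (nat_lit 8544192865) (nat_lit 152) (nat_lit 1704660208) (nat_lit 30) (nat_lit 5) (nat_lit 31) (nat_lit 5) (nat_lit 32) (nat_lit 4) (nat_lit 425) (nat_lit 312) (nat_lit 163)) (XT.nd (nat_lit 78) (nat_lit 0) (nat_lit 0) (XT.lf (nat_lit 0) (nat_lit 7096085458) (nat_lit 228) (nat_lit 43681864225) (nat_lit 76) (nat_lit 1924774430) (nat_lit 27) (nat_lit 5) (nat_lit 30) (nat_lit 5) (nat_lit 28) (nat_lit 4) (nat_lit 426) (nat_lit 312) (nat_lit 162)) (XT.lf (nat_lit 0) (nat_lit 16308348611) (nat_lit 228) (nat_lit 25001291917) (nat_lit 76) (nat_lit 12651358487) (nat_lit 27) (nat_lit 5) (nat_lit 30) (nat_lit 5) (nat_lit 28) (nat_lit 4) (nat_lit 427) (nat_lit 312) (nat_lit 161))))) (XT.nd (nat_lit 234)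 (nat_lit 152) (nat_lit 0) (XT.nd (nat_lit 78) (nat_lit 76) (nat_lit 0) (XT.lf (nat_lit 0) (nat_lit 25789837061) (nat_lit 228) (nat_lit 5773600357) (nat_lit 76) (nat_lit 23693799996) (nat_lit 27) (nat_lit 5) (nat_lit 30) (nat_lit 5) (nat_lit 28) (nat_lit 4) (nat_lit 428) (nat_lit 312) (nat_lit 160)) (XT.nd (nat_lit 78) (nat_lit 0) (nat_lit 0) (XT.lf (nat_lit 0) (nat_lit 14296997261) (nat_lit 76) (nat_lit 21389269825) (nat_lit 152) (nat_lit 20902181914) (nat_lit 26) (nat_lit 5) (nat_lit 27) (nat_lit 5) (nat_lit 28) (nat_lit 4) (nat_lit 429) (nat_lit 312) (nat_lit 159)) (XT.lf (nat_lit 0) (nat_lit 35075281931) (nat_lit 76) (nat_lit 10855754653) (nat_lit 152) (nat_lit 12027017870) (nat_lit 26) (nat_lit 5) (nat_lit 27) (nat_lit 5) (nat_lit 28) (nat_lit 4) (nat_lit 430) (nat_lit 312) (nat_lit 158)))) (XT.nd (nat_lit 156) (nat_lit 0) (nat_lit 0) (XT.nd (nat_lit 78) (nat_lit 152) (nat_lit 0) (XT.lf (nat_lit 0)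 (nat_lit 56464503465) (nat_lit 76) (nat_lit 11989903) (nat_lit 152) (nat_lit 2892455266) (nat_lit 26) (nat_lit 5) (nat_lit 27) (nat_lit 5) (nat_lit 28) (nat_lit 4) (nat_lit 431) (nat_lit 312) (nat_lit 157)) (XT.lf (nat_lit 0) (nat_lit 6664520299) (nat_lit 152) (nat_lit 42976177110) (nat_lit 76) (nat_lit 11171328070) (nat_lit 24) (nat_lit 5) (nat_lit 26) (nat_lit 5) (nat_lit 25) (nat_lit 4) (nat_lit 432) (nat_lit 312) (nat_lit 156))) (XT.nd (nat_lit 78) (nat_lit 0) (nat_lit 0) (XT.lf (nat_lit 0) (nat_lit 16473301422) (nat_lit 152) (nat_lit 23080874988) (nat_lit 76) (nat_lit 22742662934) (nat_lit 24) (nat_lit 5) (nat_lit 26) (nat_lit 5) (nat_lit 25) (nat_lit 4) (nat_lit 433) (nat_lit 312) (nat_lit 155)) (XT.lf (nat_lit 0) (nat_lit 26570028965) (nat_lit 152) (nat_lit 2600560365) (nat_lit 76) (nat_lit 34655798595) (nat_lit 24) (nat_lit 5) (nat_lit 26) (nat_lit 5) (nat_lit 25) (nat_lit 4) (nat_lit 434) (nat_lit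 312) (nat_lit 154)))))) (XT.nd (nat_lit 468) (nat_lit 152) (nat_lit 0) (XT.nd (nat_lit 234) (nat_lit 152) (nat_lit 0) (XT.nd (nat_lit 78) (nat_lit 0) (nat_lit 0) (XT.lf (nat_lit 0) (nat_lit 18850503395) (nat_lit 76) (nat_lit 18294224486) (nat_lit 152) (nat_lit 28251843765) (nat_lit 23) (nat_lit 5) (nat_lit 24) (nat_lit 5) (nat_lit 25) (nat_lit 4) (nat_lit 435) (nat_lit 312) (nat_lit 153)) (XT.nd (nat_lit 78) (nat_lit 0) (nat_lit 0) (XT.lf (nat_lit 0) (nat_lit 40987019250) (nat_lit 76) (nat_lit 7069845208) (nat_lit 152) (nat_lit 18956391264) (nat_lit 23) (nat_lit 5) (nat_lit 24) (nat_lit 5) (nat_lit 25) (nat_lit 4) (nat_lit 436) (nat_lit 312) (nat_lit 152)) (XT.lf (nat_lit 0) (nat_lit 59333600980) (nat_lit 152) (nat_lit 4945167223) (nat_lit 0) (nat_lit 4398555766) (nat_lit 23) (nat_lit 5) (nat_lit 25) (nat_lit 4) (nat_lit 23) (nat_lit 4) (nat_lit 437) (nat_lit 312) (nat_lit 151)))) (XT.nd (nat_lit 78) (nat_lit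 0) (nat_lit 0) (XT.lf (nat_lit 0) (nat_lit 776542187) (nat_lit 152) (nat_lit 53372502791) (nat_lit 76) (nat_lit 16235206477) (nat_lit 21) (nat_lit 5) (nat_lit 23) (nat_lit 5) (nat_lit 22) (nat_lit 4) (nat_lit 438) (nat_lit 312) (nat_lit 150)) (XT.nd (nat_lit 78) (nat_lit 0) (nat_lit 0) (XT.lf (nat_lit 0) (nat_lit 11057290055) (nat_lit 152) (nat_lit 32516019785) (nat_lit 76) (nat_lit 28564961997) (nat_lit 21) (nat_lit 5) (nat_lit 23) (nat_lit 5) (nat_lit 22) (nat_lit 4) (nat_lit 439) (nat_lit 312) (nat_lit 149)) (XT.lf (nat_lit 0) (nat_lit 21640871429) (nat_lit 152) (nat_lit 11044393447) (nat_lit 76) (nat_lit 41259816264) (nat_lit 21) (nat_lit 5) (nat_lit 23) (nat_lit 5) (nat_lit 22) (nat_lit 4) (nat_lit 440) (nat_lit 312) (nat_lit 148))))) (XT.nd (nat_lit 234) (nat_lit 76) (nat_lit 0) (XT.nd (nat_lit 78) (nat_lit 0) (nat_lit 0) (XT.lf (nat_lit 0) (nat_lit 11281276169) (nat_lit 76) (nat_lit 21363700456)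 (nat_lit 152) (nat_lit 43158028229) (nat_lit 20) (nat_lit 5) (nat_lit 21) (nat_lit 5) (nat_lit 22) (nat_lit 4) (nat_lit 441) (nat_lit 312) (nat_lit 147)) (XT.nd (nat_lit 78) (nat_lit 0) (nat_lit 0) (XT.lf (nat_lit 0) (nat_lit 34492971698) (nat_lit 76) (nat_lit 9592394389) (nat_lit 152) (nat_lit 33628115965) (nat_lit 20) (nat_lit 5) (nat_lit 21) (nat_lit 5) (nat_lit 22) (nat_lit 4) (nat_lit 442) (nat_lit 312) (nat_lit 146)) (XT.lf (nat_lit 0) (nat_lit 55888052938) (nat_lit 152) (nat_lit 21314555348) (nat_lit 0) (nat_lit 2478093297) (nat_lit 20) (nat_lit 5) (nat_lit 22) (nat_lit 4) (nat_lit 20) (nat_lit 4) (nat_lit 443) (nat_lit 312) (nat_lit 145)))) (XT.nd (nat_lit 36738) (nat_lit 0) (nat_lit 21888) (XT.nd (nat_lit 36660) (nat_lit 0) (nat_lit 21888) (XT.lf (nat_lit 0) (nat_lit 1166700486) (nat_lit 76) (nat_lit 66979208257) (nat_lit 76) (nat_lit 13557996877) (nat_lit 19) (nat_lit 4) (nat_lit 20) (nat_lit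 5) (nat_lit 20) (nat_lit 4) (nat_lit 444) (nat_lit 312) (nat_lit 144)) (XT.lf (nat_lit 0) (nat_lit 298522748) (nat_lit 836) (nat_lit 1642481291) (nat_lit 836) (nat_lit 1642481291) (nat_lit 307) (nat_lit 3) (nat_lit 318) (nat_lit 3) (nat_lit 318) (nat_lit 5) (nat_lit 313) (nat_lit 313) (nat_lit 274))) (XT.nd (nat_lit 78) (nat_lit 0) (nat_lit 0) (XT.lf (nat_lit 76) (nat_lit 140201671) (nat_lit 0) (nat_lit 2095782886) (nat_lit 836) (nat_lit 4988244112) (nat_lit 308) (nat_lit 5) (nat_lit 307) (nat_lit 3) (nat_lit 318) (nat_lit 5) (nat_lit 314) (nat_lit 313) (nat_lit 273)) (XT.lf (nat_lit 76) (nat_lit 3702047121) (nat_lit 0) (nat_lit 191334074) (nat_lit 836) (nat_lit 3390797111) (nat_lit 308) (nat_lit 5) (nat_lit 307) (nat_lit 3) (nat_lit 318) (nat_lit 5) (nat_lit 315) (nat_lit 313) (nat_lit 272))))))) (XT.nd (nat_lit 1014) (nat_lit 6764) (nat_lit 0) (XT.nd (nat_lit 468) (nat_lit 1672) (nat_lit 0) (XT.nd (nat_lit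 234) (nat_lit 0) (nat_lit 76) (XT.nd (nat_lit 78) (nat_lit 836) (nat_lit 0) (XT.lf (nat_lit 0) (nat_lit 5555779182) (nat_lit 760) (nat_lit 26830335) (nat_lit 836) (nat_lit 1764709575) (nat_lit 308) (nat_lit 5) (nat_lit 318) (nat_lit 5) (nat_lit 319) (nat_lit 5) (nat_lit 316) (nat_lit 313) (nat_lit 271)) (XT.nd (nat_lit 78) (nat_lit 836) (nat_lit 0) (XT.lf (nat_lit 76) (nat_lit 3671248082) (nat_lit 0) (nat_lit 3574046617) (nat_lit 836) (nat_lit 167791587) (nat_lit 309) (nat_lit 5) (nat_lit 308) (nat_lit 5) (nat_lit 319) (nat_lit 5) (nat_lit 317) (nat_lit 313) (nat_lit 270)) (XT.lf (nat_lit 0) (nat_lit 1416441416) (nat_lit 836) (nat_lit 48986378) (nat_lit 912) (nat_lit 6016777484) (nat_lit 297) (nat_lit 5) (nat_lit 308) (nat_lit 5) (nat_lit 309) (nat_lit 5) (nat_lit 318) (nat_lit 313) (nat_lit 269)))) (XT.nd (nat_lit 78) (nat_lit 0) (nat_lit 0) (XT.lf (nat_lit 0) (nat_lit 3031275139) (nat_lit 836) (nat_lit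 3767920378) (nat_lit 912) (nat_lit 754604448) (nat_lit 298) (nat_lit 5) (nat_lit 309) (nat_lit 5) (nat_lit 310) (nat_lit 5) (nat_lit 319) (nat_lit 313) (nat_lit 268)) (XT.nd (nat_lit 78) (nat_lit 0) (nat_lit 0) (XT.lf (nat_lit 76) (nat_lit 60808347) (nat_lit 0) (nat_lit 4593494711) (nat_lit 912) (nat_lit 2974490987) (nat_lit 299) (nat_lit 5) (nat_lit 298) (nat_lit 5) (nat_lit 310) (nat_lit 5) (nat_lit 320) (nat_lit 313) (nat_lit 267)) (XT.lf (nat_lit 76) (nat_lit 4046849830) (nat_lit 0) (nat_lit 2262668626) (nat_lit 912) (nat_lit 1397057337) (nat_lit 299) (nat_lit 5) (nat_lit 298) (nat_lit 5) (nat_lit 310) (nat_lit 5) (nat_lit 321) (nat_lit 313) (nat_lit 266))))) (XT.nd (nat_lit 234) (nat_lit 912) (nat_lit 0) (XT.nd (nat_lit 78) (nat_lit 0) (nat_lit 0) (XT.lf (nat_lit 0) (nat_lit 174510774) (nat_lit 912) (nat_lit 7454480298) (nat_lit 988) (nat_lit 159136910) (nat_lit 287) (nat_lit 5) (nat_lit 299) (nat_lit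 5) (nat_lit 300) (nat_lit 5) (nat_lit 322) (nat_lit 313) (nat_lit 265)) (XT.nd (nat_lit 78) (nat_lit 0) (nat_lit 0) (XT.lf (nat_lit 0) (nat_lit 1772740743) (nat_lit 912) (nat_lit 3422092615) (nat_lit 988) (nat_lit 2676689700) (nat_lit 287) (nat_lit 5) (nat_lit 299) (nat_lit 5) (nat_lit 300) (nat_lit 5) (nat_lit 323) (nat_lit 313) (nat_lit 264)) (XT.lf (nat_lit 76) (nat_lit 709859303) (nat_lit 0) (nat_lit 2665269935) (nat_lit 988) (nat_lit 4583642378) (nat_lit 288) (nat_lit 5) (nat_lit 287) (nat_lit 5) (nat_lit 300) (nat_lit 5) (nat_lit 324) (nat_lit 313) (nat_lit 263)))) (XT.nd (nat_lit 156) (nat_lit 912) (nat_lit 0) (XT.nd (nat_lit 78) (nat_lit 0) (nat_lit 76) (XT.lf (nat_lit 76) (nat_lit 5001005698) (nat_lit 0) (nat_lit 9666666) (nat_lit 988) (nat_lit 3038449651) (nat_lit 288) (nat_lit 5) (nat_lit 287) (nat_lit 5) (nat_lit 300) (nat_lit 5) (nat_lit 325) (nat_lit 313) (nat_lit 262)) (XT.lf (nat_lit 76)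 (nat_lit 1241214566) (nat_lit 0) (nat_lit 5444302117) (nat_lit 988) (nat_lit 1456994996) (nat_lit 289) (nat_lit 5) (nat_lit 288) (nat_lit 5) (nat_lit 301) (nat_lit 5) (nat_lit 326) (nat_lit 313) (nat_lit 261))) (XT.nd (nat_lit 78) (nat_lit 0) (nat_lit 76) (XT.lf (nat_lit 0) (nat_lit 152391931) (nat_lit 988) (nat_lit 2554260858) (nat_lit 1064) (nat_lit 5532519120) (nat_lit 275) (nat_lit 5) (nat_lit 288) (nat_lit 5) (nat_lit 289) (nat_lit 5) (nat_lit 327) (nat_lit 313) (nat_lit 260)) (XT.lf (nat_lit 0) (nat_lit 1754703735) (nat_lit 988) (nat_lit 6429710222) (nat_lit 76) (nat_lit 154700156) (nat_lit 276) (nat_lit 5) (nat_lit 289) (nat_lit 5) (nat_lit 277) (nat_lit 5) (nat_lit 328) (nat_lit 313) (nat_lit 259)))))) (XT.nd (nat_lit 546) (nat_lit 2356) (nat_lit 0) (XT.nd (nat_lit 234) (nat_lit 3496) (nat_lit 0) (XT.nd (nat_lit 78) (nat_lit 988) (nat_lit 0) (XT.lf (nat_lit 0) (nat_lit 3413076052) (nat_lit 988)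 (nat_lit 1945215481) (nat_lit 76) (nat_lit 3083555123) (nat_lit 276) (nat_lit 5) (nat_lit 289) (nat_lit 5) (nat_lit 277) (nat_lit 5) (nat_lit 329) (nat_lit 313) (nat_lit 258)) (XT.nd (nat_lit 78) (nat_lit 0) (nat_lit 0) (XT.lf (nat_lit 0) (nat_lit 2691164136) (nat_lit 988) (nat_lit 2412355209) (nat_lit 1064) (nat_lit 3444703115) (nat_lit 263) (nat_lit 5) (nat_lit 276) (nat_lit 5) (nat_lit 277) (nat_lit 5) (nat_lit 330) (nat_lit 313) (nat_lit 257)) (XT.lf (nat_lit 0) (nat_lit 6827951290) (nat_lit 1064) (nat_lit 1193066147) (nat_lit 76) (nat_lit 637303822) (nat_lit 263) (nat_lit 5) (nat_lit 277) (nat_lit 5) (nat_lit 264) (nat_lit 5) (nat_lit 331) (nat_lit 313) (nat_lit 256)))) (XT.nd (nat_lit 156) (nat_lit 2356) (nat_lit 0) (XT.nd (nat_lit 78) (nat_lit 76) (nat_lit 0) (XT.lf (nat_lit 0) (nat_lit 3622500668) (nat_lit 1064) (nat_lit 4999020322) (nat_lit 1140) (nat_lit 149708997) (nat_lit 249) (nat_lit 5) (nat_lit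 263) (nat_lit 5) (nat_lit 264) (nat_lit 5) (nat_lit 332) (nat_lit 313) (nat_lit 255)) (XT.lf (nat_lit 0) (nat_lit 1521819224) (nat_lit 1140) (nat_lit 331138289) (nat_lit 76) (nat_lit 7035000696) (nat_lit 248) (nat_lit 5) (nat_lit 263) (nat_lit 5) (nat_lit 249) (nat_lit 5) (nat_lit 333) (nat_lit 313) (nat_lit 254))) (XT.nd (nat_lit 78) (nat_lit 1216) (nat_lit 0) (XT.lf (nat_lit 0) (nat_lit 3259707906) (nat_lit 1216) (nat_lit 4335516665) (nat_lit 76) (nat_lit 1412369167) (nat_lit 233) (nat_lit 5) (nat_lit 249) (nat_lit 5) (nat_lit 234) (nat_lit 5) (nat_lit 334) (nat_lit 313) (nat_lit 253)) (XT.lf (nat_lit 0) (nat_lit 660465456) (nat_lit 1216) (nat_lit 4378538638) (nat_lit 1292) (nat_lit 4092161976) (nat_lit 217) (nat_lit 5) (nat_lit 233) (nat_lit 5) (nat_lit 234) (nat_lit 5) (nat_lit 335) (nat_lit 313) (nat_lit 252))))) (XT.nd (nat_lit 234) (nat_lit 1672) (nat_lit 0) (XT.nd (nat_lit 78) (nat_lit 684) (nat_lit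 0) (XT.lf (nat_lit 0) (nat_lit 5860046673) (nat_lit 1216) (nat_lit 1017403894) (nat_lit 1292) (nat_lit 2380846972) (nat_lit 217) (nat_lit 5) (nat_lit 233) (nat_lit 5) (nat_lit 234) (nat_lit 5) (nat_lit 336) (nat_lit 313) (nat_lit 251)) (XT.nd (nat_lit 78) (nat_lit 76) (nat_lit 0) (XT.lf (nat_lit 0) (nat_lit 1802763764) (nat_lit 608) (nat_lit 6972239467) (nat_lit 684) (nat_lit 614145512) (nat_lit 209) (nat_lit 5) (nat_lit 217) (nat_lit 5) (nat_lit 218) (nat_lit 5) (nat_lit 337) (nat_lit 313) (nat_lit 250)) (XT.lf (nat_lit 0) (nat_lit 1190242990) (nat_lit 684) (nat_lit 2351120151) (nat_lit 76) (nat_lit 5981991343) (nat_lit 208) (nat_lit 5) (nat_lit 217) (nat_lit 5) (nat_lit 209) (nat_lit 5) (nat_lit 338) (nat_lit 313) (nat_lit 249)))) (XT.nd (nat_lit 156) (nat_lit 1140) (nat_lit 0) (XT.nd (nat_lit 78) (nat_lit 0) (nat_lit 0) (XT.lf (nat_lit 0) (nat_lit 3030667938) (nat_lit 608) (nat_lit 6601709301) (nat_lit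 76) (nat_lit 29221591) (nat_lit 201) (nat_lit 5) (nat_lit 209) (nat_lit 5) (nat_lit 202) (nat_lit 5) (nat_lit 339) (nat_lit 313) (nat_lit 248)) (XT.lf (nat_lit 0) (nat_lit 4950598092) (nat_lit 608) (nat_lit 1192532442) (nat_lit 76) (nat_lit 3660152858) (nat_lit 201) (nat_lit 5) (nat_lit 209) (nat_lit 5) (nat_lit 202) (nat_lit 5) (nat_lit 340) (nat_lit 313) (nat_lit 247))) (XT.nd (nat_lit 78) (nat_lit 532) (nat_lit 0) (XT.lf (nat_lit 0) (nat_lit 4431034410) (nat_lit 608) (nat_lit 2505950297) (nat_lit 684) (nat_lit 3011989055) (nat_lit 193) (nat_lit 5) (nat_lit 201) (nat_lit 5) (nat_lit 202) (nat_lit 5) (nat_lit 341) (nat_lit 313) (nat_lit 246)) (XT.lf (nat_lit 0) (nat_lit 104050849) (nat_lit 532) (nat_lit 8870908078) (nat_lit 608) (nat_lit 1124336450) (nat_lit 186) (nat_lit 5) (nat_lit 193) (nat_lit 5) (nat_lit 194) (nat_lit 5) (nat_lit 342) (nat_lit 313) (nat_lit 245))))))))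
noncomputable def xc139 : XT := (XT.nd (nat_lit 2106) (nat_lit 3496) (nat_lit 0) (XT.nd (nat_lit 1014) (nat_lit 2888) (nat_lit 0) (XT.nd (nat_lit 468) (nat_lit 1824) (nat_lit 0) (XT.nd (nat_lit 234) (nat_lit 988) (nat_lit 0) (XT.nd (nat_lit 78) (nat_lit 532) (nat_lit 0) (XT.lf (nat_lit 0) (nat_lit 852230091) (nat_lit 608) (nat_lit 4313233324) (nat_lit 76) (nat_lit 5086997483) (nat_lit 185) (nat_lit 5) (nat_lit 193) (nat_lit 5) (nat_lit 186) (nat_lit 5) (nat_lit 343) (nat_lit 313) (nat_lit 244)) (XT.nd (nat_lit 78) (nat_lit 0) (nat_lit 0) (XT.lf (nat_lit 0) (nat_lit 1523518514) (nat_lit 532) (nat_lit 1324778379) (nat_lit 608) (nat_lit 7562125173) (nat_lit 178) (nat_lit 5) (nat_lit 185) (nat_lit 5) (nat_lit 186) (nat_lit 5) (nat_lit 344) (nat_lit 313) (nat_lit 243)) (XT.lf (nat_lit 0) (nat_lit 4942254992) (nat_lit 608) (nat_lit 3008658353) (nat_lit 76) (nat_lit 2621086585) (nat_lit 178) (nat_lit 5) (nat_lit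 186) (nat_lit 5) (nat_lit 179) (nat_lit 5) (nat_lit 345) (nat_lit 313) (nat_lit 242)))) (XT.nd (nat_lit 78) (nat_lit 532) (nat_lit 0) (XT.lf (nat_lit 0) (nat_lit 3058609195) (nat_lit 456) (nat_lit 4052582078) (nat_lit 532) (nat_lit 3626886683) (nat_lit 172) (nat_lit 5) (nat_lit 178) (nat_lit 5) (nat_lit 179) (nat_lit 5) (nat_lit 346) (nat_lit 313) (nat_lit 241)) (XT.nd (nat_lit 78) (nat_lit 532) (nat_lit 0) (XT.lf (nat_lit 0) (nat_lit 9336008728) (nat_lit 456) (nat_lit 9771685) (nat_lit 532) (nat_lit 1563357465) (nat_lit 172) (nat_lit 5) (nat_lit 178) (nat_lit 5) (nat_lit 179) (nat_lit 5) (nat_lit 347) (nat_lit 313) (nat_lit 240)) (XT.lf (nat_lit 0) (nat_lit 608142300) (nat_lit 532) (nat_lit 6354173879) (nat_lit 76) (nat_lit 4121156458) (nat_lit 165) (nat_lit 5) (nat_lit 172) (nat_lit 5) (nat_lit 166) (nat_lit 5) (nat_lit 348) (nat_lit 313) (nat_lit 239))))) (XT.nd (nat_lit 234) (nat_lit 912) (nat_lit 0)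 (XT.nd (nat_lit 78) (nat_lit 912) (nat_lit 0) (XT.lf (nat_lit 0) (nat_lit 2800768652) (nat_lit 532) (nat_lit 58938799) (nat_lit 76) (nat_lit 8403259166) (nat_lit 165) (nat_lit 5) (nat_lit 172) (nat_lit 5) (nat_lit 166) (nat_lit 5) (nat_lit 349) (nat_lit 313) (nat_lit 238)) (XT.nd (nat_lit 78) (nat_lit 456) (nat_lit 0) (XT.lf (nat_lit 0) (nat_lit 5107650633) (nat_lit 532) (nat_lit 4940857751) (nat_lit 76) (nat_lit 1397897919) (nat_lit 159) (nat_lit 5) (nat_lit 166) (nat_lit 5) (nat_lit 160) (nat_lit 5) (nat_lit 350) (nat_lit 313) (nat_lit 237)) (XT.lf (nat_lit 0) (nat_lit 1602621591) (nat_lit 456) (nat_lit 5897992055) (nat_lit 532) (nat_lit 4134244044) (nat_lit 153) (nat_lit 5) (nat_lit 159) (nat_lit 5) (nat_lit 160) (nat_lit 5) (nat_lit 351) (nat_lit 313) (nat_lit 236)))) (XT.nd (nat_lit 156) (nat_lit 456) (nat_lit 0) (XT.nd (nat_lit 78) (nat_lit 456) (nat_lit 0) (XT.lf (nat_lit 0) (nat_lit 8410834448)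 (nat_lit 456) (nat_lit 1577461861) (nat_lit 532) (nat_lit 1839992705) (nat_lit 153) (nat_lit 5) (nat_lit 159) (nat_lit 5) (nat_lit 160) (nat_lit 5) (nat_lit 352) (nat_lit 313) (nat_lit 235)) (XT.lf (nat_lit 0) (nat_lit 547285943) (nat_lit 456) (nat_lit 8629981453) (nat_lit 76) (nat_lit 2849086321) (nat_lit 147) (nat_lit 5) (nat_lit 153) (nat_lit 5) (nat_lit 148) (nat_lit 5) (nat_lit 353) (nat_lit 313) (nat_lit 234))) (XT.nd (nat_lit 78) (nat_lit 456) (nat_lit 0) (XT.lf (nat_lit 0) (nat_lit 2993623613) (nat_lit 456) (nat_lit 1811686981) (nat_lit 76) (nat_lit 7423783658) (nat_lit 147) (nat_lit 5) (nat_lit 153) (nat_lit 5) (nat_lit 148) (nat_lit 5) (nat_lit 354) (nat_lit 313) (nat_lit 233)) (XT.lf (nat_lit 0) (nat_lit 5282338224) (nat_lit 456) (nat_lit 256501896) (nat_lit 532) (nat_lit 6898324944) (nat_lit 141) (nat_lit 5) (nat_lit 147) (nat_lit 5) (nat_lit 148) (nat_lit 5) (nat_lit 355) (nat_lit 313) (nat_lit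 232)))))) (XT.nd (nat_lit 546) (nat_lit 1368) (nat_lit 0) (XT.nd (nat_lit 234) (nat_lit 684) (nat_lit 0) (XT.nd (nat_lit 78) (nat_lit 836) (nat_lit 0) (XT.lf (nat_lit 0) (nat_lit 8196540731) (nat_lit 532) (nat_lit 99636554) (nat_lit 76) (nat_lit 4354229237) (nat_lit 141) (nat_lit 5) (nat_lit 148) (nat_lit 5) (nat_lit 142) (nat_lit 5) (nat_lit 356) (nat_lit 313) (nat_lit 231)) (XT.nd (nat_lit 78) (nat_lit 456) (nat_lit 0) (XT.lf (nat_lit 0) (nat_lit 7275301037) (nat_lit 380) (nat_lit 3706951350) (nat_lit 456) (nat_lit 1886356431) (nat_lit 136) (nat_lit 5) (nat_lit 141) (nat_lit 5) (nat_lit 142) (nat_lit 5) (nat_lit 357) (nat_lit 313) (nat_lit 230)) (XT.lf (nat_lit 0) (nat_lit 747420876) (nat_lit 456) (nat_lit 11327269310) (nat_lit 76) (nat_lit 1018338532) (nat_lit 130) (nat_lit 5) (nat_lit 136) (nat_lit 5) (nat_lit 131) (nat_lit 5) (nat_lit 358) (nat_lit 313) (nat_lit 229)))) (XT.nd (nat_lit 156) (nat_lit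 380) (nat_lit 0) (XT.nd (nat_lit 78) (nat_lit 304) (nat_lit 0) (XT.lf (nat_lit 0) (nat_lit 3492333221) (nat_lit 456) (nat_lit 3950026070) (nat_lit 76) (nat_lit 5879171528) (nat_lit 130) (nat_lit 5) (nat_lit 136) (nat_lit 5) (nat_lit 131) (nat_lit 5) (nat_lit 359) (nat_lit 313) (nat_lit 228)) (XT.lf (nat_lit 0) (nat_lit 3689603048) (nat_lit 304) (nat_lit 2642439582) (nat_lit 380) (nat_lit 7224482516) (nat_lit 126) (nat_lit 5) (nat_lit 130) (nat_lit 5) (nat_lit 131) (nat_lit 5) (nat_lit 360) (nat_lit 313) (nat_lit 227))) (XT.nd (nat_lit 78) (nat_lit 380) (nat_lit 0) (XT.lf (nat_lit 0) (nat_lit 9296631205) (nat_lit 380) (nat_lit 2211736576) (nat_lit 76) (nat_lit 2289021231) (nat_lit 126) (nat_lit 5) (nat_lit 131) (nat_lit 5) (nat_lit 127) (nat_lit 5) (nat_lit 361) (nat_lit 313) (nat_lit 226)) (XT.lf (nat_lit 0) (nat_lit 5728394755) (nat_lit 380) (nat_lit 6680934192) (nat_lit 456) (nat_lit 1634384742) (nat_lit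 121) (nat_lit 5) (nat_lit 126) (nat_lit 5) (nat_lit 127) (nat_lit 5) (nat_lit 362) (nat_lit 313) (nat_lit 225))))) (XT.nd (nat_lit 234) (nat_lit 684) (nat_lit 0) (XT.nd (nat_lit 78) (nat_lit 608) (nat_lit 0) (XT.lf (nat_lit 0) (nat_lit 1292889524) (nat_lit 456) (nat_lit 388057099) (nat_lit 76) (nat_lit 12616092019) (nat_lit 120) (nat_lit 5) (nat_lit 126) (nat_lit 5) (nat_lit 121) (nat_lit 5) (nat_lit 363) (nat_lit 313) (nat_lit 224)) (XT.nd (nat_lit 78) (nat_lit 304) (nat_lit 0) (XT.lf (nat_lit 0) (nat_lit 4363818356) (nat_lit 380) (nat_lit 6704911056) (nat_lit 76) (nat_lit 3486097085) (nat_lit 116) (nat_lit 5) (nat_lit 121) (nat_lit 5) (nat_lit 117) (nat_lit 5) (nat_lit 364) (nat_lit 313) (nat_lit 223)) (XT.lf (nat_lit 0) (nat_lit 1505592725) (nat_lit 304) (nat_lit 6035325445) (nat_lit 380) (nat_lit 7279017449) (nat_lit 112) (nat_lit 5) (nat_lit 116) (nat_lit 5) (nat_lit 117) (nat_lit 5) (nat_lit 365)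 (nat_lit 313) (nat_lit 222)))) (XT.nd (nat_lit 156) (nat_lit 380) (nat_lit 0) (XT.nd (nat_lit 78) (nat_lit 304) (nat_lit 0) (XT.lf (nat_lit 0) (nat_lit 10070291938) (nat_lit 304) (nat_lit 790043822) (nat_lit 380) (nat_lit 4231260772) (nat_lit 112) (nat_lit 5) (nat_lit 116) (nat_lit 5) (nat_lit 117) (nat_lit 5) (nat_lit 366) (nat_lit 313) (nat_lit 221)) (XT.lf (nat_lit 0) (nat_lit 3515555537) (nat_lit 304) (nat_lit 10821731692) (nat_lit 380) (nat_lit 1032389916) (nat_lit 108) (nat_lit 5) (nat_lit 112) (nat_lit 5) (nat_lit 113) (nat_lit 5) (nat_lit 367) (nat_lit 313) (nat_lit 220))) (XT.nd (nat_lit 78) (nat_lit 304) (nat_lit 0) (XT.lf (nat_lit 0) (nat_lit 2257251551) (nat_lit 380) (nat_lit 3302550274) (nat_lit 76) (nat_lit 10094485247) (nat_lit 107) (nat_lit 5) (nat_lit 112) (nat_lit 5) (nat_lit 108) (nat_lit 5) (nat_lit 368) (nat_lit 313) (nat_lit 219)) (XT.lf (nat_lit 0) (nat_lit 5575650175) (nat_lit 304)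 (nat_lit 83286787) (nat_lit 380) (nat_lit 10287176243) (nat_lit 103) (nat_lit 5) (nat_lit 107) (nat_lit 5) (nat_lit 108) (nat_lit 5) (nat_lit 369) (nat_lit 313) (nat_lit 218))))))) (XT.nd (nat_lit 1014) (nat_lit 1520) (nat_lit 0) (XT.nd (nat_lit 468) (nat_lit 1140) (nat_lit 0) (XT.nd (nat_lit 234) (nat_lit 304) (nat_lit 0) (XT.nd (nat_lit 78) (nat_lit 532) (nat_lit 0) (XT.lf (nat_lit 0) (nat_lit 9230492624) (nat_lit 380) (nat_lit 1540265045) (nat_lit 76) (nat_lit 5473909333) (nat_lit 103) (nat_lit 5) (nat_lit 108) (nat_lit 5) (nat_lit 104) (nat_lit 5) (nat_lit 370) (nat_lit 313) (nat_lit 217)) (XT.nd (nat_lit 78) (nat_lit 304) (nat_lit 0) (XT.lf (nat_lit 0) (nat_lit 7675920892) (nat_lit 228) (nat_lit 5289163845) (nat_lit 304) (nat_lit 3585423239) (nat_lit 100) (nat_lit 5) (nat_lit 103) (nat_lit 5) (nat_lit 104) (nat_lit 5) (nat_lit 371) (nat_lit 313) (nat_lit 216)) (XT.lf (nat_lit 0) (nat_lit 309486348)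 (nat_lit 304) (nat_lit 16505812741) (nat_lit 380) (nat_lit 50124600) (nat_lit 96) (nat_lit 5) (nat_lit 100) (nat_lit 5) (nat_lit 101) (nat_lit 5) (nat_lit 372) (nat_lit 313) (nat_lit 215)))) (XT.nd (nat_lit 78) (nat_lit 228) (nat_lit 0) (XT.lf (nat_lit 0) (nat_lit 3645582562) (nat_lit 380) (nat_lit 7352047972) (nat_lit 76) (nat_lit 6187394520) (nat_lit 95) (nat_lit 5) (nat_lit 100) (nat_lit 5) (nat_lit 96) (nat_lit 5) (nat_lit 373) (nat_lit 313) (nat_lit 214)) (XT.nd (nat_lit 78) (nat_lit 0) (nat_lit 0) (XT.lf (nat_lit 0) (nat_lit 2141903163) (nat_lit 228) (nat_lit 5311933084) (nat_lit 304) (nat_lit 10060289290) (nat_lit 92) (nat_lit 5) (nat_lit 95) (nat_lit 5) (nat_lit 96) (nat_lit 5) (nat_lit 374) (nat_lit 313) (nat_lit 213)) (XT.lf (nat_lit 0) (nat_lit 11438810256) (nat_lit 304) (nat_lit 5812988285) (nat_lit 76) (nat_lit 599432569) (nat_lit 92) (nat_lit 5) (nat_lit 96) (nat_lit 5) (nat_lit 93) (nat_lit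 5) (nat_lit 375) (nat_lit 313) (nat_lit 212))))) (XT.nd (nat_lit 234) (nat_lit 532) (nat_lit 0) (XT.nd (nat_lit 78) (nat_lit 304) (nat_lit 0) (XT.lf (nat_lit 0) (nat_lit 4032386142) (nat_lit 304) (nat_lit 11585082985) (nat_lit 380) (nat_lit 2578762731) (nat_lit 88) (nat_lit 5) (nat_lit 92) (nat_lit 5) (nat_lit 93) (nat_lit 5) (nat_lit 376) (nat_lit 313) (nat_lit 211)) (XT.nd (nat_lit 78) (nat_lit 228) (nat_lit 0) (XT.lf (nat_lit 0) (nat_lit 1385308093) (nat_lit 380) (nat_lit 4298103403) (nat_lit 76) (nat_lit 12866517766) (nat_lit 87) (nat_lit 5) (nat_lit 92) (nat_lit 5) (nat_lit 88) (nat_lit 5) (nat_lit 377) (nat_lit 313) (nat_lit 210)) (XT.lf (nat_lit 0) (nat_lit 5461331172) (nat_lit 304) (nat_lit 12989077453) (nat_lit 76) (nat_lit 461722734) (nat_lit 84) (nat_lit 5) (nat_lit 88) (nat_lit 5) (nat_lit 85) (nat_lit 5) (nat_lit 378) (nat_lit 313) (nat_lit 209)))) (XT.nd (nat_lit 156) (nat_lit 304) (nat_lit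 0) (XT.nd (nat_lit 78) (nat_lit 228) (nat_lit 0) (XT.lf (nat_lit 0) (nat_lit 9743238671) (nat_lit 304) (nat_lit 2827831708) (nat_lit 76) (nat_lit 6711626427) (nat_lit 84) (nat_lit 5) (nat_lit 88) (nat_lit 5) (nat_lit 85) (nat_lit 5) (nat_lit 379) (nat_lit 313) (nat_lit 208)) (XT.lf (nat_lit 0) (nat_lit 7764338337) (nat_lit 228) (nat_lit 6447881385) (nat_lit 304) (nat_lit 5450406245) (nat_lit 81) (nat_lit 5) (nat_lit 84) (nat_lit 5) (nat_lit 85) (nat_lit 5) (nat_lit 380) (nat_lit 313) (nat_lit 207))) (XT.nd (nat_lit 78) (nat_lit 304) (nat_lit 0) (XT.lf (nat_lit 0) (nat_lit 18707067233) (nat_lit 228) (nat_lit 120963880) (nat_lit 304) (nat_lit 1225544152) (nat_lit 81) (nat_lit 5) (nat_lit 84) (nat_lit 5) (nat_lit 85) (nat_lit 5) (nat_lit 381) (nat_lit 313) (nat_lit 206)) (XT.lf (nat_lit 0) (nat_lit 3204993092) (nat_lit 304) (nat_lit 10860210377) (nat_lit 76) (nat_lit 6385954978) (nat_lit 77) (nat_lit 5) (nat_lit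 81) (nat_lit 5) (nat_lit 78) (nat_lit 5) (nat_lit 382) (nat_lit 313) (nat_lit 205)))))) (XT.nd (nat_lit 546) (nat_lit 684) (nat_lit 0) (XT.nd (nat_lit 234) (nat_lit 456) (nat_lit 0) (XT.nd (nat_lit 78) (nat_lit 380) (nat_lit 0) (XT.lf (nat_lit 0) (nat_lit 7743379134) (nat_lit 304) (nat_lit 14483022) (nat_lit 76) (nat_lit 13102460656) (nat_lit 77) (nat_lit 5) (nat_lit 81) (nat_lit 5) (nat_lit 78) (nat_lit 5) (nat_lit 383) (nat_lit 313) (nat_lit 204)) (XT.nd (nat_lit 78) (nat_lit 152) (nat_lit 0) (XT.lf (nat_lit 0) (nat_lit 11354013289) (nat_lit 228) (nat_lit 1158128222) (nat_lit 304) (nat_lit 8766798375) (nat_lit 74) (nat_lit 5) (nat_lit 77) (nat_lit 5) (nat_lit 78) (nat_lit 5) (nat_lit 384) (nat_lit 313) (nat_lit 203)) (XT.lf (nat_lit 0) (nat_lit 1300636780) (nat_lit 152) (nat_lit 16175390455) (nat_lit 228) (nat_lit 4232530813) (nat_lit 72) (nat_lit 5) (nat_lit 74) (nat_lit 5) (nat_lit 75) (nat_lit 5) (nat_lit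 385) (nat_lit 313) (nat_lit 202)))) (XT.nd (nat_lit 156) (nat_lit 152) (nat_lit 0) (XT.nd (nat_lit 78) (nat_lit 228) (nat_lit 0) (XT.lf (nat_lit 0) (nat_lit 527153856) (nat_lit 228) (nat_lit 9122647287) (nat_lit 76) (nat_lit 12498203564) (nat_lit 71) (nat_lit 5) (nat_lit 74) (nat_lit 5) (nat_lit 72) (nat_lit 5) (nat_lit 386) (nat_lit 313) (nat_lit 201)) (XT.lf (nat_lit 0) (nat_lit 2484121220) (nat_lit 228) (nat_lit 2869996900) (nat_lit 304) (nat_lit 17244976714) (nat_lit 68) (nat_lit 5) (nat_lit 71) (nat_lit 5) (nat_lit 72) (nat_lit 5) (nat_lit 387) (nat_lit 313) (nat_lit 200))) (XT.nd (nat_lit 78) (nat_lit 152) (nat_lit 0) (XT.lf (nat_lit 0) (nat_lit 10444245730) (nat_lit 304) (nat_lit 8499045157) (nat_lit 76) (nat_lit 4116880045) (nat_lit 68) (nat_lit 5) (nat_lit 72) (nat_lit 5) (nat_lit 69) (nat_lit 5) (nat_lit 388) (nat_lit 313) (nat_lit 199)) (XT.lf (nat_lit 0) (nat_lit 3481841495) (nat_lit 152) (nat_lit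 12253318036) (nat_lit 228) (nat_lit 7798481099) (nat_lit 66) (nat_lit 5) (nat_lit 68) (nat_lit 5) (nat_lit 69) (nat_lit 5) (nat_lit 389) (nat_lit 313) (nat_lit 198))))) (XT.nd (nat_lit 234) (nat_lit 380) (nat_lit 0) (XT.nd (nat_lit 78) (nat_lit 304) (nat_lit 0) (XT.lf (nat_lit 0) (nat_lit 15973555677) (nat_lit 152) (nat_lit 5283448381) (nat_lit 228) (nat_lit 2762147936) (nat_lit 66) (nat_lit 5) (nat_lit 68) (nat_lit 5) (nat_lit 69) (nat_lit 5) (nat_lit 390) (nat_lit 313) (nat_lit 197)) (XT.nd (nat_lit 78) (nat_lit 0) (nat_lit 0) (XT.lf (nat_lit 0) (nat_lit 2425283064) (nat_lit 304) (nat_lit 20176320132) (nat_lit 76) (nat_lit 1915509560) (nat_lit 62) (nat_lit 5) (nat_lit 66) (nat_lit 5) (nat_lit 63) (nat_lit 5) (nat_lit 391) (nat_lit 313) (nat_lit 196)) (XT.lf (nat_lit 0) (nat_lit 7833911857) (nat_lit 304) (nat_lit 7866856727) (nat_lit 76) (nat_lit 9324793943) (nat_lit 62) (nat_lit 5) (nat_lit 66) (nat_lit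 5) (nat_lit 63) (nat_lit 5) (nat_lit 392) (nat_lit 313) (nat_lit 195)))) (XT.nd (nat_lit 156) (nat_lit 228) (nat_lit 0) (XT.nd (nat_lit 78) (nat_lit 0) (nat_lit 0) (XT.lf (nat_lit 0) (nat_lit 4885359375) (nat_lit 152) (nat_lit 8553518462) (nat_lit 228) (nat_lit 12109368871) (nat_lit 60) (nat_lit 5) (nat_lit 62) (nat_lit 5) (nat_lit 63) (nat_lit 5) (nat_lit 393) (nat_lit 313) (nat_lit 194)) (XT.lf (nat_lit 0) (nat_lit 18159756985) (nat_lit 152) (nat_lit 1118960034) (nat_lit 228) (nat_lit 6805895839) (nat_lit 60) (nat_lit 5) (nat_lit 62) (nat_lit 5) (nat_lit 63) (nat_lit 5) (nat_lit 394) (nat_lit 313) (nat_lit 193))) (XT.nd (nat_lit 78) (nat_lit 76) (nat_lit 0) (XT.lf (nat_lit 0) (nat_lit 5212877807) (nat_lit 152) (nat_lit 20181407692) (nat_lit 228) (nat_lit 1239771549) (nat_lit 58) (nat_lit 5) (nat_lit 60) (nat_lit 5) (nat_lit 61) (nat_lit 5) (nat_lit 395) (nat_lit 313) (nat_lit 192)) (XT.lf (nat_lit 0)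 (nat_lit 4485158106) (nat_lit 228) (nat_lit 8366800418) (nat_lit 76) (nat_lit 14344348077) (nat_lit 57) (nat_lit 5) (nat_lit 60) (nat_lit 5) (nat_lit 58) (nat_lit 5) (nat_lit 396) (nat_lit 313) (nat_lit 191))))))))
noncomputable def xc140 : XT := (XT.nd (nat_lit 2028) (nat_lit 836) (nat_lit 0) (XT.nd (nat_lit 1014) (nat_lit 912) (nat_lit 0) (XT.nd (nat_lit 468) (nat_lit 532) (nat_lit 0) (XT.nd (nat_lit 234) (nat_lit 228) (nat_lit 0) (XT.nd (nat_lit 78) (nat_lit 152) (nat_lit 0) (XT.lf (nat_lit 0) (nat_lit 5146637985) (nat_lit 152) (nat_lit 5247719270) (nat_lit 228) (nat_lit 17379577759) (nat_lit 55) (nat_lit 5) (nat_lit 57) (nat_lit 5) (nat_lit 58) (nat_lit 5) (nat_lit 397) (nat_lit 313) (nat_lit 190)) (XT.nd (nat_lit 78) (nat_lit 152) (nat_lit 0) (XT.lf (nat_lit 0) (nat_lit 16579039646) (nat_lit 228) (nat_lit 9175847716) (nat_lit 76) (nat_lit 2611061437) (nat_lit 55) (nat_lit 5) (nat_lit 58) (nat_lit 5)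 (nat_lit 56) (nat_lit 5) (nat_lit 398) (nat_lit 313) (nat_lit 189)) (XT.lf (nat_lit 0) (nat_lit 4698682373) (nat_lit 152) (nat_lit 18336090046) (nat_lit 228) (nat_lit 5938387935) (nat_lit 53) (nat_lit 5) (nat_lit 55) (nat_lit 5) (nat_lit 56) (nat_lit 5) (nat_lit 399) (nat_lit 313) (nat_lit 188)))) (XT.nd (nat_lit 78) (nat_lit 152) (nat_lit 0) (XT.lf (nat_lit 0) (nat_lit 165909934) (nat_lit 228) (nat_lit 10440232791) (nat_lit 76) (nat_lit 18989963618) (nat_lit 52) (nat_lit 5) (nat_lit 55) (nat_lit 5) (nat_lit 53) (nat_lit 5) (nat_lit 400) (nat_lit 313) (nat_lit 187)) (XT.nd (nat_lit 78) (nat_lit 0) (nat_lit 0) (XT.lf (nat_lit 0) (nat_lit 3804850972) (nat_lit 152) (nat_lit 2554457697) (nat_lit 228) (nat_lit 23875910765) (nat_lit 50) (nat_lit 5) (nat_lit 52) (nat_lit 5) (nat_lit 53) (nat_lit 5) (nat_lit 401) (nat_lit 313) (nat_lit 186)) (XT.lf (nat_lit 0) (nat_lit 12888957279) (nat_lit 228) (nat_lit 12274951863)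 (nat_lit 76) (nat_lit 5725085700) (nat_lit 50) (nat_lit 5) (nat_lit 53) (nat_lit 5) (nat_lit 51) (nat_lit 5) (nat_lit 402) (nat_lit 313) (nat_lit 185))))) (XT.nd (nat_lit 234) (nat_lit 152) (nat_lit 0) (XT.nd (nat_lit 78) (nat_lit 228) (nat_lit 0) (XT.lf (nat_lit 0) (nat_lit 2305699888) (nat_lit 152) (nat_lit 17345390301) (nat_lit 228) (nat_lit 11910197767) (nat_lit 48) (nat_lit 5) (nat_lit 50) (nat_lit 5) (nat_lit 51) (nat_lit 5) (nat_lit 403) (nat_lit 313) (nat_lit 184)) (XT.nd (nat_lit 78) (nat_lit 228) (nat_lit 0) (XT.lf (nat_lit 0) (nat_lit 17556455007) (nat_lit 152) (nat_lit 9172858669) (nat_lit 228) (nat_lit 5521041614) (nat_lit 48) (nat_lit 5) (nat_lit 50) (nat_lit 5) (nat_lit 51) (nat_lit 5) (nat_lit 404) (nat_lit 313) (nat_lit 183)) (XT.lf (nat_lit 0) (nat_lit 281340310) (nat_lit 152) (nat_lit 749953859) (nat_lit 228) (nat_lit 31928731395) (nat_lit 45) (nat_lit 5) (nat_lit 47) (nat_lit 5) (nat_lit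 48) (nat_lit 5) (nat_lit 405) (nat_lit 313) (nat_lit 182)))) (XT.nd (nat_lit 156) (nat_lit 152) (nat_lit 0) (XT.nd (nat_lit 78) (nat_lit 0) (nat_lit 0) (XT.lf (nat_lit 0) (nat_lit 7884800328) (nat_lit 228) (nat_lit 17830459493) (nat_lit 76) (nat_lit 7967621214) (nat_lit 45) (nat_lit 5) (nat_lit 48) (nat_lit 5) (nat_lit 46) (nat_lit 5) (nat_lit 406) (nat_lit 313) (nat_lit 181)) (XT.lf (nat_lit 0) (nat_lit 14941174822) (nat_lit 228) (nat_lit 2562323549) (nat_lit 76) (nat_lit 16924007880) (nat_lit 45) (nat_lit 5) (nat_lit 48) (nat_lit 5) (nat_lit 46) (nat_lit 5) (nat_lit 407) (nat_lit 313) (nat_lit 180))) (XT.nd (nat_lit 78) (nat_lit 0) (nat_lit 0) (XT.lf (nat_lit 0) (nat_lit 13407909286) (nat_lit 152) (nat_lit 8920350142) (nat_lit 228) (nat_lit 12862642148) (nat_lit 43) (nat_lit 5) (nat_lit 45) (nat_lit 5) (nat_lit 46) (nat_lit 5) (nat_lit 408) (nat_lit 313) (nat_lit 179)) (XT.lf (nat_lit 0) (nat_lit 29892362827)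 (nat_lit 152) (nat_lit 60722033) (nat_lit 228) (nat_lit 6023631914) (nat_lit 43) (nat_lit 5) (nat_lit 45) (nat_lit 5) (nat_lit 46) (nat_lit 5) (nat_lit 409) (nat_lit 313) (nat_lit 178)))))) (XT.nd (nat_lit 468) (nat_lit 532) (nat_lit 0) (XT.nd (nat_lit 234) (nat_lit 76) (nat_lit 0) (XT.nd (nat_lit 78) (nat_lit 152) (nat_lit 0) (XT.lf (nat_lit 0) (nat_lit 1177823856) (nat_lit 152) (nat_lit 26612760893) (nat_lit 76) (nat_lit 8989913437) (nat_lit 41) (nat_lit 5) (nat_lit 43) (nat_lit 5) (nat_lit 42) (nat_lit 5) (nat_lit 410) (nat_lit 313) (nat_lit 177)) (XT.nd (nat_lit 78) (nat_lit 152) (nat_lit 0) (XT.lf (nat_lit 0) (nat_lit 8527389775) (nat_lit 152) (nat_lit 10652426359) (nat_lit 76) (nat_lit 18425195349) (nat_lit 41) (nat_lit 5) (nat_lit 43) (nat_lit 5) (nat_lit 42) (nat_lit 5) (nat_lit 411) (nat_lit 313) (nat_lit 176)) (XT.lf (nat_lit 0) (nat_lit 5884911667) (nat_lit 152) (nat_lit 10259863425) (nat_lit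 228) (nat_lit 22308066769) (nat_lit 39) (nat_lit 5) (nat_lit 41) (nat_lit 5) (nat_lit 42) (nat_lit 5) (nat_lit 412) (nat_lit 313) (nat_lit 175)))) (XT.nd (nat_lit 78) (nat_lit 76) (nat_lit 0) (XT.lf (nat_lit 0) (nat_lit 23120254925) (nat_lit 152) (nat_lit 968869342) (nat_lit 228) (nat_lit 15234031220) (nat_lit 39) (nat_lit 5) (nat_lit 41) (nat_lit 5) (nat_lit 42) (nat_lit 5) (nat_lit 413) (nat_lit 313) (nat_lit 174)) (XT.nd (nat_lit 78) (nat_lit 0) (nat_lit 0) (XT.lf (nat_lit 0) (nat_lit 565235071) (nat_lit 76) (nat_lit 31785749779) (nat_lit 152) (nat_lit 7866219803) (nat_lit 38) (nat_lit 5) (nat_lit 39) (nat_lit 5) (nat_lit 40) (nat_lit 4) (nat_lit 414) (nat_lit 313) (nat_lit 173)) (XT.lf (nat_lit 0) (nat_lit 18142735491) (nat_lit 76) (nat_lit 22882258771) (nat_lit 152) (nat_lit 108153758) (nat_lit 38) (nat_lit 5) (nat_lit 39) (nat_lit 5) (nat_lit 40) (nat_lit 4) (nat_lit 415) (nat_lit 313) (nat_lit 172)))))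 (XT.nd (nat_lit 234) (nat_lit 304) (nat_lit 0) (XT.nd (nat_lit 78) (nat_lit 152) (nat_lit 0) (XT.lf (nat_lit 0) (nat_lit 7720182789) (nat_lit 152) (nat_lit 5920527307) (nat_lit 76) (nat_lit 28433847407) (nat_lit 37) (nat_lit 5) (nat_lit 39) (nat_lit 5) (nat_lit 38) (nat_lit 5) (nat_lit 416) (nat_lit 313) (nat_lit 171)) (XT.nd (nat_lit 78) (nat_lit 0) (nat_lit 0) (XT.lf (nat_lit 0) (nat_lit 11876856860) (nat_lit 152) (nat_lit 4010105914) (nat_lit 228) (nat_lit 27154042745) (nat_lit 35) (nat_lit 5) (nat_lit 37) (nat_lit 5) (nat_lit 38) (nat_lit 5) (nat_lit 417) (nat_lit 313) (nat_lit 170)) (XT.lf (nat_lit 0) (nat_lit 24407561709) (nat_lit 228) (nat_lit 13777844546) (nat_lit 76) (nat_lit 5847777599) (nat_lit 35) (nat_lit 5) (nat_lit 38) (nat_lit 5) (nat_lit 36) (nat_lit 4) (nat_lit 418) (nat_lit 313) (nat_lit 169)))) (XT.nd (nat_lit 156) (nat_lit 228) (nat_lit 0) (XT.nd (nat_lit 78) (nat_lit 0) (nat_lit 0)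 (XT.lf (nat_lit 0) (nat_lit 4156578925) (nat_lit 76) (nat_lit 29098735952) (nat_lit 152) (nat_lit 11797667880) (nat_lit 34) (nat_lit 5) (nat_lit 35) (nat_lit 5) (nat_lit 36) (nat_lit 4) (nat_lit 419) (nat_lit 313) (nat_lit 168)) (XT.lf (nat_lit 0) (nat_lit 22896737673) (nat_lit 76) (nat_lit 19602863861) (nat_lit 152) (nat_lit 3599842335) (nat_lit 34) (nat_lit 5) (nat_lit 35) (nat_lit 5) (nat_lit 36) (nat_lit 4) (nat_lit 420) (nat_lit 313) (nat_lit 167))) (XT.nd (nat_lit 78) (nat_lit 152) (nat_lit 0) (XT.lf (nat_lit 0) (nat_lit 4741522822) (nat_lit 152) (nat_lit 5039218926) (nat_lit 76) (nat_lit 37395397567) (nat_lit 33) (nat_lit 5) (nat_lit 35) (nat_lit 5) (nat_lit 34) (nat_lit 5) (nat_lit 421) (nat_lit 313) (nat_lit 166)) (XT.lf (nat_lit 0) (nat_lit 13391500268) (nat_lit 228) (nat_lit 34394586698) (nat_lit 76) (nat_lit 494058821) (nat_lit 31) (nat_lit 5) (nat_lit 34) (nat_lit 5) (nat_lit 32) (nat_lit 4)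 (nat_lit 422) (nat_lit 313) (nat_lit 165))))))) (XT.nd (nat_lit 1014) (nat_lit 304) (nat_lit 0) (XT.nd (nat_lit 468) (nat_lit 228) (nat_lit 0) (XT.nd (nat_lit 234) (nat_lit 228) (nat_lit 0) (XT.nd (nat_lit 78) (nat_lit 76) (nat_lit 0) (XT.lf (nat_lit 0) (nat_lit 22441590578) (nat_lit 228) (nat_lit 16045775839) (nat_lit 76) (nat_lit 10925688758) (nat_lit 31) (nat_lit 5) (nat_lit 34) (nat_lit 5) (nat_lit 32) (nat_lit 4) (nat_lit 423) (nat_lit 313) (nat_lit 164)) (XT.nd (nat_lit 78) (nat_lit 0) (nat_lit 0) (XT.lf (nat_lit 0) (nat_lit 2896360871) (nat_lit 76) (nat_lit 28887270589) (nat_lit 152) (nat_lit 18795708041) (nat_lit 30) (nat_lit 5) (nat_lit 31) (nat_lit 5) (nat_lit 32) (nat_lit 4) (nat_lit 424) (nat_lit 313) (nat_lit 163)) (XT.lf (nat_lit 0) (nat_lit 22722161341) (nat_lit 76) (nat_lit 18838494733) (nat_lit 152) (nat_lit 10215315672) (nat_lit 30) (nat_lit 5) (nat_lit 31) (nat_lit 5) (nat_lit 32) (nat_lit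 4) (nat_lit 425) (nat_lit 313) (nat_lit 162)))) (XT.nd (nat_lit 78) (nat_lit 228) (nat_lit 0) (XT.lf (nat_lit 0) (nat_lit 43129606682) (nat_lit 76) (nat_lit 8494289239) (nat_lit 152) (nat_lit 1384820931) (nat_lit 30) (nat_lit 5) (nat_lit 31) (nat_lit 5) (nat_lit 32) (nat_lit 4) (nat_lit 426) (nat_lit 313) (nat_lit 161)) (XT.nd (nat_lit 78) (nat_lit 0) (nat_lit 0) (XT.lf (nat_lit 0) (nat_lit 7671481268) (nat_lit 228) (nat_lit 44317401698) (nat_lit 76) (nat_lit 2283998134) (nat_lit 27) (nat_lit 5) (nat_lit 30) (nat_lit 5) (nat_lit 28) (nat_lit 4) (nat_lit 427) (nat_lit 313) (nat_lit 160)) (XT.lf (nat_lit 0) (nat_lit 17149553677) (nat_lit 228) (nat_lit 25096070039) (nat_lit 76) (nat_lit 13323598728) (nat_lit 27) (nat_lit 5) (nat_lit 30) (nat_lit 5) (nat_lit 28) (nat_lit 4) (nat_lit 428) (nat_lit 313) (nat_lit 159))))) (XT.nd (nat_lit 234) (nat_lit 152) (nat_lit 0) (XT.nd (nat_lit 78) (nat_lit 76) (nat_lit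 0) (XT.lf (nat_lit 0) (nat_lit 26905235675) (nat_lit 228) (nat_lit 5310632994) (nat_lit 76) (nat_lit 24688788254) (nat_lit 27) (nat_lit 5) (nat_lit 30) (nat_lit 5) (nat_lit 28) (nat_lit 4) (nat_lit 429) (nat_lit 313) (nat_lit 158)) (XT.nd (nat_lit 78) (nat_lit 0) (nat_lit 0) (XT.lf (nat_lit 0) (nat_lit 15355845539) (nat_lit 76) (nat_lit 21738815886) (nat_lit 152) (nat_lit 21181261703) (nat_lit 26) (nat_lit 5) (nat_lit 27) (nat_lit 5) (nat_lit 28) (nat_lit 4) (nat_lit 430) (nat_lit 313) (nat_lit 157)) (XT.lf (nat_lit 0) (nat_lit 36739131030) (nat_lit 76) (nat_lit 10897803959) (nat_lit 152) (nat_lit 12049978243) (nat_lit 26) (nat_lit 5) (nat_lit 27) (nat_lit 5) (nat_lit 28) (nat_lit 4) (nat_lit 431) (nat_lit 313) (nat_lit 156)))) (XT.nd (nat_lit 156) (nat_lit 0) (nat_lit 0) (XT.nd (nat_lit 78) (nat_lit 152) (nat_lit 0) (XT.lf (nat_lit 0) (nat_lit 58491731272) (nat_lit 152) (nat_lit 2390734438) (nat_lit 0)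 (nat_lit 257880530) (nat_lit 26) (nat_lit 5) (nat_lit 28) (nat_lit 4) (nat_lit 26) (nat_lit 4) (nat_lit 432) (nat_lit 313) (nat_lit 155)) (XT.lf (nat_lit 0) (nat_lit 7185067704) (nat_lit 152) (nat_lit 43664205591) (nat_lit 76) (nat_lit 11777454477) (nat_lit 24) (nat_lit 5) (nat_lit 26) (nat_lit 5) (nat_lit 25) (nat_lit 4) (nat_lit 433) (nat_lit 313) (nat_lit 154))) (XT.nd (nat_lit 78) (nat_lit 0) (nat_lit 0) (XT.lf (nat_lit 0) (nat_lit 17278774053) (nat_lit 152) (nat_lit 23189556741) (nat_lit 76) (nat_lit 23688036574) (nat_lit 24) (nat_lit 5) (nat_lit 26) (nat_lit 5) (nat_lit 25) (nat_lit 4) (nat_lit 434) (nat_lit 313) (nat_lit 153)) (XT.lf (nat_lit 0) (nat_lit 27669337201) (nat_lit 152) (nat_lit 2111834947) (nat_lit 76) (nat_lit 35950903380) (nat_lit 24) (nat_lit 5) (nat_lit 26) (nat_lit 5) (nat_lit 25) (nat_lit 4) (nat_lit 435) (nat_lit 313) (nat_lit 152)))))) (XT.nd (nat_lit 546) (nat_lit 0) (nat_lit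 0) (XT.nd (nat_lit 234) (nat_lit 228) (nat_lit 0) (XT.nd (nat_lit 78) (nat_lit 0) (nat_lit 0) (XT.lf (nat_lit 0) (nat_lit 19977204430) (nat_lit 76) (nat_lit 18580664961) (nat_lit 152) (nat_lit 28791598702) (nat_lit 23) (nat_lit 5) (nat_lit 24) (nat_lit 5) (nat_lit 25) (nat_lit 4) (nat_lit 436) (nat_lit 313) (nat_lit 151)) (XT.nd (nat_lit 78) (nat_lit 0) (nat_lit 0) (XT.lf (nat_lit 0) (nat_lit 42761470540) (nat_lit 76) (nat_lit 7027196623) (nat_lit 152) (nat_lit 19226247685) (nat_lit 23) (nat_lit 5) (nat_lit 24) (nat_lit 5) (nat_lit 25) (nat_lit 4) (nat_lit 437) (nat_lit 313) (nat_lit 150)) (XT.lf (nat_lit 0) (nat_lit 61397633790) (nat_lit 152) (nat_lit 4558444081) (nat_lit 0) (nat_lit 4773010468) (nat_lit 23) (nat_lit 5) (nat_lit 25) (nat_lit 4) (nat_lit 23) (nat_lit 4) (nat_lit 438) (nat_lit 313) (nat_lit 149)))) (XT.nd (nat_lit 156) (nat_lit 76) (nat_lit 0) (XT.nd (nat_lit 78) (nat_lit 0) (nat_lit 0)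 (XT.lf (nat_lit 0) (nat_lit 1083497329) (nat_lit 152) (nat_lit 54438167593) (nat_lit 76) (nat_lit 16965571693) (nat_lit 21) (nat_lit 5) (nat_lit 23) (nat_lit 5) (nat_lit 22) (nat_lit 4) (nat_lit 439) (nat_lit 313) (nat_lit 148)) (XT.lf (nat_lit 0) (nat_lit 11664405724) (nat_lit 152) (nat_lit 32971587483) (nat_lit 76) (nat_lit 29658133207) (nat_lit 21) (nat_lit 5) (nat_lit 23) (nat_lit 5) (nat_lit 22) (nat_lit 4) (nat_lit 440) (nat_lit 313) (nat_lit 147))) (XT.nd (nat_lit 78) (nat_lit 76) (nat_lit 0) (XT.lf (nat_lit 0) (nat_lit 22557473267) (nat_lit 152) (nat_lit 10870955449) (nat_lit 76) (nat_lit 42726952840) (nat_lit 21) (nat_lit 5) (nat_lit 23) (nat_lit 5) (nat_lit 22) (nat_lit 4) (nat_lit 441) (nat_lit 313) (nat_lit 146)) (XT.lf (nat_lit 0) (nat_lit 12119535531) (nat_lit 76) (nat_lit 21769183032) (nat_lit 152) (nat_lit 44180414806) (nat_lit 20) (nat_lit 5) (nat_lit 21) (nat_lit 5) (nat_lit 22) (nat_lit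 4) (nat_lit 442) (nat_lit 313) (nat_lit 145))))) (XT.nd (nat_lit 36894) (nat_lit 0) (nat_lit 21052) (XT.nd (nat_lit 78) (nat_lit 0) (nat_lit 0) (XT.lf (nat_lit 0) (nat_lit 36013024031) (nat_lit 76) (nat_lit 9651594922) (nat_lit 152) (nat_lit 34372537823) (nat_lit 20) (nat_lit 5) (nat_lit 21) (nat_lit 5) (nat_lit 22) (nat_lit 4) (nat_lit 443) (nat_lit 313) (nat_lit 144)) (XT.nd (nat_lit 36738) (nat_lit 0) (nat_lit 21812) (XT.lf (nat_lit 0) (nat_lit 57816043119) (nat_lit 152) (nat_lit 21477491277) (nat_lit 0) (nat_lit 2770019639) (nat_lit 20) (nat_lit 5) (nat_lit 22) (nat_lit 4) (nat_lit 20) (nat_lit 4) (nat_lit 444) (nat_lit 313) (nat_lit 143)) (XT.lf (nat_lit 0) (nat_lit 1920458662) (nat_lit 836) (nat_lit 860403859) (nat_lit 836) (nat_lit 860403859) (nat_lit 307) (nat_lit 3) (nat_lit 318) (nat_lit 3) (nat_lit 318) (nat_lit 5) (nat_lit 314) (nat_lit 314) (nat_lit 272)))) (XT.nd (nat_lit 156) (nat_lit 760)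 (nat_lit 0) (XT.nd (nat_lit 78) (nat_lit 0) (nat_lit 0) (XT.lf (nat_lit 76) (nat_lit 1790810444) (nat_lit 0) (nat_lit 3660080330) (nat_lit 836) (nat_lit 1893039466) (nat_lit 308) (nat_lit 5) (nat_lit 307) (nat_lit 3) (nat_lit 318) (nat_lit 5) (nat_lit 315) (nat_lit 314) (nat_lit 271)) (XT.lf (nat_lit 76) (nat_lit 5411557781) (nat_lit 0) (nat_lit 1654767260) (nat_lit 836) (nat_lit 342179307) (nat_lit 308) (nat_lit 5) (nat_lit 307) (nat_lit 3) (nat_lit 318) (nat_lit 5) (nat_lit 316) (nat_lit 314) (nat_lit 270))) (XT.nd (nat_lit 78) (nat_lit 0) (nat_lit 0) (XT.lf (nat_lit 0) (nat_lit 1192015310) (nat_lit 836) (nat_lit 5826154779) (nat_lit 912) (nat_lit 457691255) (nat_lit 297) (nat_lit 5) (nat_lit 308) (nat_lit 5) (nat_lit 309) (nat_lit 5) (nat_lit 317) (nat_lit 314) (nat_lit 269)) (XT.lf (nat_lit 0) (nat_lit 2744689688) (nat_lit 836) (nat_lit 2151425684) (nat_lit 912) (nat_lit 2649687448) (nat_lit 297) (nat_lit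 5) (nat_lit 308) (nat_lit 5) (nat_lit 309) (nat_lit 5) (nat_lit 318) (nat_lit 314) (nat_lit 268))))))))
noncomputable def xc141 : XT := (XT.nd (nat_lit 2028) (nat_lit 6232) (nat_lit 0) (XT.nd (nat_lit 1014) (nat_lit 5928) (nat_lit 0) (XT.nd (nat_lit 468) (nat_lit 1748) (nat_lit 0) (XT.nd (nat_lit 234) (nat_lit 836) (nat_lit 0) (XT.nd (nat_lit 78) (nat_lit 0) (nat_lit 0) (XT.lf (nat_lit 76) (nat_lit 1632869687) (nat_lit 0) (nat_lit 2671025754) (nat_lit 912) (nat_lit 3315192595) (nat_lit 298) (nat_lit 5) (nat_lit 297) (nat_lit 5) (nat_lit 309) (nat_lit 5) (nat_lit 319) (nat_lit 314) (nat_lit 267)) (XT.nd (nat_lit 78) (nat_lit 0) (nat_lit 76) (XT.lf (nat_lit 76) (nat_lit 5542576281) (nat_lit 0) (nat_lit 334595192) (nat_lit 912) (nat_lit 1818424256) (nat_lit 298) (nat_lit 5) (nat_lit 297) (nat_lit 5) (nat_lit 309) (nat_lit 5) (nat_lit 320) (nat_lit 314) (nat_lit 266)) (XT.lf (nat_lit 76) (nat_lit 1776815365)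 (nat_lit 0) (nat_lit 5705188487) (nat_lit 912) (nat_lit 292905560) (nat_lit 299) (nat_lit 5) (nat_lit 298) (nat_lit 5) (nat_lit 310) (nat_lit 5) (nat_lit 321) (nat_lit 314) (nat_lit 265)))) (XT.nd (nat_lit 78) (nat_lit 0) (nat_lit 0) (XT.lf (nat_lit 0) (nat_lit 1226733202) (nat_lit 912) (nat_lit 2036951119) (nat_lit 988) (nat_lit 4593389637) (nat_lit 286) (nat_lit 5) (nat_lit 298) (nat_lit 5) (nat_lit 299) (nat_lit 5) (nat_lit 322) (nat_lit 314) (nat_lit 264)) (XT.nd (nat_lit 78) (nat_lit 0) (nat_lit 76) (XT.lf (nat_lit 76) (nat_lit 2047196330) (nat_lit 0) (nat_lit 708101173) (nat_lit 988) (nat_lit 5187280210) (nat_lit 287) (nat_lit 5) (nat_lit 286) (nat_lit 5) (nat_lit 299) (nat_lit 5) (nat_lit 323) (nat_lit 314) (nat_lit 263)) (XT.lf (nat_lit 0) (nat_lit 4319849863) (nat_lit 912) (nat_lit 1787337893) (nat_lit 988) (nat_lit 1923791763) (nat_lit 287) (nat_lit 5) (nat_lit 299) (nat_lit 5) (nat_lit 300) (nat_lit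 5) (nat_lit 324) (nat_lit 314) (nat_lit 262))))) (XT.nd (nat_lit 234) (nat_lit 912) (nat_lit 0) (XT.nd (nat_lit 78) (nat_lit 912) (nat_lit 0) (XT.lf (nat_lit 76) (nat_lit 2451539078) (nat_lit 0) (nat_lit 3462669671) (nat_lit 988) (nat_lit 2208374331) (nat_lit 288) (nat_lit 5) (nat_lit 287) (nat_lit 5) (nat_lit 300) (nat_lit 5) (nat_lit 325) (nat_lit 314) (nat_lit 261)) (XT.nd (nat_lit 78) (nat_lit 912) (nat_lit 0) (XT.lf (nat_lit 76) (nat_lit 6821311593) (nat_lit 0) (nat_lit 706501946) (nat_lit 988) (nat_lit 690013511) (nat_lit 288) (nat_lit 5) (nat_lit 287) (nat_lit 5) (nat_lit 300) (nat_lit 5) (nat_lit 326) (nat_lit 314) (nat_lit 260)) (XT.lf (nat_lit 0) (nat_lit 861148916) (nat_lit 988) (nat_lit 5313239233) (nat_lit 1064) (nat_lit 2141191826) (nat_lit 275) (nat_lit 5) (nat_lit 288) (nat_lit 5) (nat_lit 289) (nat_lit 5) (nat_lit 327) (nat_lit 314) (nat_lit 259)))) (XT.nd (nat_lit 156) (nat_lit 912) (nat_lit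 0) (XT.nd (nat_lit 78) (nat_lit 0) (nat_lit 0) (XT.lf (nat_lit 0) (nat_lit 2421594374) (nat_lit 988) (nat_lit 902081790) (nat_lit 1064) (nat_lit 5093117674) (nat_lit 275) (nat_lit 5) (nat_lit 288) (nat_lit 5) (nat_lit 289) (nat_lit 5) (nat_lit 328) (nat_lit 314) (nat_lit 258)) (XT.lf (nat_lit 76) (nat_lit 3680152848) (nat_lit 0) (nat_lit 340755823) (nat_lit 1064) (nat_lit 4500404662) (nat_lit 276) (nat_lit 5) (nat_lit 275) (nat_lit 5) (nat_lit 289) (nat_lit 5) (nat_lit 329) (nat_lit 314) (nat_lit 257))) (XT.nd (nat_lit 78) (nat_lit 988) (nat_lit 0) (XT.lf (nat_lit 0) (nat_lit 5661379276) (nat_lit 988) (nat_lit 270837387) (nat_lit 76) (nat_lit 2696986425) (nat_lit 276) (nat_lit 5) (nat_lit 289) (nat_lit 5) (nat_lit 277) (nat_lit 5) (nat_lit 330) (nat_lit 314) (nat_lit 256)) (XT.lf (nat_lit 0) (nat_lit 4487646025) (nat_lit 988) (nat_lit 2868880393) (nat_lit 1064) (nat_lit 1383668352) (nat_lit 263) (nat_lit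 5) (nat_lit 276) (nat_lit 5) (nat_lit 277) (nat_lit 5) (nat_lit 331) (nat_lit 314) (nat_lit 255)))))) (XT.nd (nat_lit 468) (nat_lit 2432) (nat_lit 0) (XT.nd (nat_lit 234) (nat_lit 1216) (nat_lit 0) (XT.nd (nat_lit 78) (nat_lit 1140) (nat_lit 0) (XT.lf (nat_lit 0) (nat_lit 213199198) (nat_lit 1140) (nat_lit 8344414318) (nat_lit 76) (nat_lit 297757792) (nat_lit 248) (nat_lit 5) (nat_lit 263) (nat_lit 5) (nat_lit 249) (nat_lit 5) (nat_lit 332) (nat_lit 314) (nat_lit 254)) (XT.nd (nat_lit 78) (nat_lit 1140) (nat_lit 0) (XT.lf (nat_lit 0) (nat_lit 1862263644) (nat_lit 1140) (nat_lit 3545309835) (nat_lit 76) (nat_lit 3565082273) (nat_lit 248) (nat_lit 5) (nat_lit 263) (nat_lit 5) (nat_lit 249) (nat_lit 5) (nat_lit 333) (nat_lit 314) (nat_lit 253)) (XT.lf (nat_lit 0) (nat_lit 1391319049) (nat_lit 1140) (nat_lit 2144339552) (nat_lit 1216) (nat_lit 5558580231) (nat_lit 233) (nat_lit 5) (nat_lit 248) (nat_lit 5)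 (nat_lit 249) (nat_lit 5) (nat_lit 334) (nat_lit 314) (nat_lit 252)))) (XT.nd (nat_lit 78) (nat_lit 1216) (nat_lit 0) (XT.lf (nat_lit 0) (nat_lit 5269436197) (nat_lit 1216) (nat_lit 2716192439) (nat_lit 76) (nat_lit 1233560454) (nat_lit 233) (nat_lit 5) (nat_lit 249) (nat_lit 5) (nat_lit 234) (nat_lit 5) (nat_lit 335) (nat_lit 314) (nat_lit 251)) (XT.nd (nat_lit 78) (nat_lit 0) (nat_lit 0) (XT.lf (nat_lit 0) (nat_lit 2412518266) (nat_lit 1216) (nat_lit 4650556857) (nat_lit 1292) (nat_lit 2284601670) (nat_lit 217) (nat_lit 5) (nat_lit 233) (nat_lit 5) (nat_lit 234) (nat_lit 5) (nat_lit 336) (nat_lit 314) (nat_lit 250)) (XT.lf (nat_lit 0) (nat_lit 7717633361) (nat_lit 1216) (nat_lit 1184491117) (nat_lit 1292) (nat_lit 578170279) (nat_lit 217) (nat_lit 5) (nat_lit 233) (nat_lit 5) (nat_lit 234) (nat_lit 5) (nat_lit 337) (nat_lit 314) (nat_lit 249))))) (XT.nd (nat_lit 234) (nat_lit 1216) (nat_lit 0) (XT.nd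 (nat_lit 78) (nat_lit 532) (nat_lit 0) (XT.lf (nat_lit 0) (nat_lit 1179212876) (nat_lit 684) (nat_lit 6049149077) (nat_lit 76) (nat_lit 2387528259) (nat_lit 208) (nat_lit 5) (nat_lit 217) (nat_lit 5) (nat_lit 209) (nat_lit 5) (nat_lit 338) (nat_lit 314) (nat_lit 248)) (XT.nd (nat_lit 78) (nat_lit 532) (nat_lit 0) (XT.lf (nat_lit 0) (nat_lit 2972978472) (nat_lit 684) (nat_lit 714132587) (nat_lit 76) (nat_lit 6068433949) (nat_lit 208) (nat_lit 5) (nat_lit 217) (nat_lit 5) (nat_lit 209) (nat_lit 5) (nat_lit 339) (nat_lit 314) (nat_lit 247)) (XT.lf (nat_lit 0) (nat_lit 4833776886) (nat_lit 608) (nat_lit 5056332883) (nat_lit 76) (nat_lit 8904113) (nat_lit 201) (nat_lit 5) (nat_lit 209) (nat_lit 5) (nat_lit 202) (nat_lit 5) (nat_lit 340) (nat_lit 314) (nat_lit 246)))) (XT.nd (nat_lit 156) (nat_lit 608) (nat_lit 0) (XT.nd (nat_lit 78) (nat_lit 0) (nat_lit 0) (XT.lf (nat_lit 0) (nat_lit 473581108) (nat_lit 608)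 (nat_lit 6292406608) (nat_lit 684) (nat_lit 3280351866) (nat_lit 193) (nat_lit 5) (nat_lit 201) (nat_lit 5) (nat_lit 202) (nat_lit 5) (nat_lit 341) (nat_lit 314) (nat_lit 245)) (XT.lf (nat_lit 0) (nat_lit 6240019102) (nat_lit 608) (nat_lit 2535088661) (nat_lit 684) (nat_lit 1422428824) (nat_lit 193) (nat_lit 5) (nat_lit 201) (nat_lit 5) (nat_lit 202) (nat_lit 5) (nat_lit 342) (nat_lit 314) (nat_lit 244))) (XT.nd (nat_lit 78) (nat_lit 0) (nat_lit 0) (XT.lf (nat_lit 0) (nat_lit 480715868) (nat_lit 608) (nat_lit 8542255705) (nat_lit 76) (nat_lit 1330202862) (nat_lit 185) (nat_lit 5) (nat_lit 193) (nat_lit 5) (nat_lit 186) (nat_lit 5) (nat_lit 343) (nat_lit 314) (nat_lit 243)) (XT.lf (nat_lit 0) (nat_lit 2446908026) (nat_lit 608) (nat_lit 2751645745) (nat_lit 76) (nat_lit 5313487006) (nat_lit 185) (nat_lit 5) (nat_lit 193) (nat_lit 5) (nat_lit 186) (nat_lit 5) (nat_lit 344) (nat_lit 314) (nat_lit 242)))))))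 (XT.nd (nat_lit 1014) (nat_lit 2508) (nat_lit 0) (XT.nd (nat_lit 468) (nat_lit 1748) (nat_lit 0) (XT.nd (nat_lit 234) (nat_lit 988) (nat_lit 0) (XT.nd (nat_lit 78) (nat_lit 456) (nat_lit 0) (XT.lf (nat_lit 0) (nat_lit 3243630368) (nat_lit 532) (nat_lit 1229619619) (nat_lit 608) (nat_lit 6202405813) (nat_lit 178) (nat_lit 5) (nat_lit 185) (nat_lit 5) (nat_lit 186) (nat_lit 5) (nat_lit 345) (nat_lit 314) (nat_lit 241)) (XT.nd (nat_lit 78) (nat_lit 456) (nat_lit 0) (XT.lf (nat_lit 0) (nat_lit 6586445892) (nat_lit 608) (nat_lit 1428832215) (nat_lit 76) (nat_lit 2828136353) (nat_lit 178) (nat_lit 5) (nat_lit 186) (nat_lit 5) (nat_lit 179) (nat_lit 5) (nat_lit 346) (nat_lit 314) (nat_lit 240)) (XT.lf (nat_lit 0) (nat_lit 4804079967) (nat_lit 456) (nat_lit 3988696210) (nat_lit 532) (nat_lit 2222554148) (nat_lit 172) (nat_lit 5) (nat_lit 178) (nat_lit 5) (nat_lit 179) (nat_lit 5) (nat_lit 347) (nat_lit 314) (nat_lit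 239)))) (XT.nd (nat_lit 78) (nat_lit 532) (nat_lit 0) (XT.lf (nat_lit 0) (nat_lit 27712236) (nat_lit 456) (nat_lit 11025826717) (nat_lit 532) (nat_lit 139233552) (nat_lit 166) (nat_lit 5) (nat_lit 172) (nat_lit 5) (nat_lit 173) (nat_lit 5) (nat_lit 348) (nat_lit 314) (nat_lit 238)) (XT.nd (nat_lit 78) (nat_lit 456) (nat_lit 0) (XT.lf (nat_lit 0) (nat_lit 2042366373) (nat_lit 532) (nat_lit 4884600531) (nat_lit 76) (nat_lit 4445759516) (nat_lit 165) (nat_lit 5) (nat_lit 172) (nat_lit 5) (nat_lit 166) (nat_lit 5) (nat_lit 349) (nat_lit 314) (nat_lit 237)) (XT.lf (nat_lit 0) (nat_lit 1582006956) (nat_lit 456) (nat_lit 2692729648) (nat_lit 532) (nat_lit 7283672119) (nat_lit 159) (nat_lit 5) (nat_lit 165) (nat_lit 5) (nat_lit 166) (nat_lit 5) (nat_lit 350) (nat_lit 314) (nat_lit 236))))) (XT.nd (nat_lit 234) (nat_lit 1292) (nat_lit 0) (XT.nd (nat_lit 78) (nat_lit 456) (nat_lit 0) (XT.lf (nat_lit 0) (nat_lit 6613283766)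 (nat_lit 532) (nat_lit 3454179413) (nat_lit 76) (nat_lit 1681036461) (nat_lit 159) (nat_lit 5) (nat_lit 166) (nat_lit 5) (nat_lit 160) (nat_lit 5) (nat_lit 351) (nat_lit 314) (nat_lit 235)) (XT.nd (nat_lit 78) (nat_lit 0) (nat_lit 0) (XT.lf (nat_lit 0) (nat_lit 3269575837) (nat_lit 456) (nat_lit 5784631058) (nat_lit 532) (nat_lit 2889133704) (nat_lit 153) (nat_lit 5) (nat_lit 159) (nat_lit 5) (nat_lit 160) (nat_lit 5) (nat_lit 352) (nat_lit 314) (nat_lit 234)) (XT.lf (nat_lit 0) (nat_lit 10234883364) (nat_lit 456) (nat_lit 1342940320) (nat_lit 532) (nat_lit 565932621) (nat_lit 153) (nat_lit 5) (nat_lit 159) (nat_lit 5) (nat_lit 160) (nat_lit 5) (nat_lit 353) (nat_lit 314) (nat_lit 233)))) (XT.nd (nat_lit 156) (nat_lit 836) (nat_lit 0) (XT.nd (nat_lit 78) (nat_lit 0) (nat_lit 0) (XT.lf (nat_lit 0) (nat_lit 1847182216) (nat_lit 456) (nat_lit 7270064069) (nat_lit 76) (nat_lit 3230748011) (nat_lit 147) (nat_lit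 5) (nat_lit 153) (nat_lit 5) (nat_lit 148) (nat_lit 5) (nat_lit 354) (nat_lit 314) (nat_lit 232)) (XT.lf (nat_lit 0) (nat_lit 4329527171) (nat_lit 456) (nat_lit 294370767) (nat_lit 76) (nat_lit 7934059401) (nat_lit 147) (nat_lit 5) (nat_lit 153) (nat_lit 5) (nat_lit 148) (nat_lit 5) (nat_lit 355) (nat_lit 314) (nat_lit 231))) (XT.nd (nat_lit 78) (nat_lit 380) (nat_lit 0) (XT.lf (nat_lit 0) (nat_lit 6930412792) (nat_lit 532) (nat_lit 5776508806) (nat_lit 76) (nat_lit 65987558) (nat_lit 141) (nat_lit 5) (nat_lit 148) (nat_lit 5) (nat_lit 142) (nat_lit 5) (nat_lit 356) (nat_lit 314) (nat_lit 230)) (XT.lf (nat_lit 0) (nat_lit 1470162729) (nat_lit 380) (nat_lit 8178587969) (nat_lit 456) (nat_lit 3344387700) (nat_lit 136) (nat_lit 5) (nat_lit 141) (nat_lit 5) (nat_lit 142) (nat_lit 5) (nat_lit 357) (nat_lit 314) (nat_lit 229)))))) (XT.nd (nat_lit 546) (nat_lit 988) (nat_lit 0) (XT.nd (nat_lit 234) (nat_lit 1064)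 (nat_lit 0) (XT.nd (nat_lit 78) (nat_lit 456) (nat_lit 0) (XT.lf (nat_lit 0) (nat_lit 9022522041) (nat_lit 380) (nat_lit 3461353139) (nat_lit 456) (nat_lit 735053548) (nat_lit 136) (nat_lit 5) (nat_lit 141) (nat_lit 5) (nat_lit 142) (nat_lit 5) (nat_lit 358) (nat_lit 314) (nat_lit 228)) (XT.nd (nat_lit 78) (nat_lit 0) (nat_lit 0) (XT.lf (nat_lit 0) (nat_lit 1938042677) (nat_lit 456) (nat_lit 10097333261) (nat_lit 76) (nat_lit 1414856903) (nat_lit 130) (nat_lit 5) (nat_lit 136) (nat_lit 5) (nat_lit 131) (nat_lit 5) (nat_lit 359) (nat_lit 314) (nat_lit 227)) (XT.lf (nat_lit 0) (nat_lit 4731277173) (nat_lit 456) (nat_lit 2544493717) (nat_lit 76) (nat_lit 6410855620) (nat_lit 130) (nat_lit 5) (nat_lit 136) (nat_lit 5) (nat_lit 131) (nat_lit 5) (nat_lit 360) (nat_lit 314) (nat_lit 226)))) (XT.nd (nat_lit 156) (nat_lit 760) (nat_lit 0) (XT.nd (nat_lit 78) (nat_lit 0) (nat_lit 0) (XT.lf (nat_lit 0) (nat_lit 5309382773)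 (nat_lit 304) (nat_lit 2328267211) (nat_lit 380) (nat_lit 6291591812) (nat_lit 126) (nat_lit 5) (nat_lit 130) (nat_lit 5) (nat_lit 131) (nat_lit 5) (nat_lit 361) (nat_lit 314) (nat_lit 225)) (XT.lf (nat_lit 0) (nat_lit 10662353552) (nat_lit 380) (nat_lit 783633625) (nat_lit 76) (nat_lit 2732223925) (nat_lit 126) (nat_lit 5) (nat_lit 131) (nat_lit 5) (nat_lit 127) (nat_lit 5) (nat_lit 362) (nat_lit 314) (nat_lit 224))) (XT.nd (nat_lit 78) (nat_lit 380) (nat_lit 0) (XT.lf (nat_lit 0) (nat_lit 7380050125) (nat_lit 380) (nat_lit 6470951828) (nat_lit 456) (nat_lit 581460890) (nat_lit 121) (nat_lit 5) (nat_lit 126) (nat_lit 5) (nat_lit 127) (nat_lit 5) (nat_lit 363) (nat_lit 314) (nat_lit 223)) (XT.lf (nat_lit 0) (nat_lit 1079396246) (nat_lit 304) (nat_lit 1311638572) (nat_lit 380) (nat_lit 12302681343) (nat_lit 116) (nat_lit 5) (nat_lit 120) (nat_lit 5) (nat_lit 121) (nat_lit 5) (nat_lit 364) (nat_lit 314) (nat_lit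 222))))) (XT.nd (nat_lit 234) (nat_lit 684) (nat_lit 0) (XT.nd (nat_lit 78) (nat_lit 304) (nat_lit 0) (XT.lf (nat_lit 0) (nat_lit 5530995806) (nat_lit 380) (nat_lit 5434866654) (nat_lit 76) (nat_lit 3994081254) (nat_lit 116) (nat_lit 5) (nat_lit 121) (nat_lit 5) (nat_lit 117) (nat_lit 5) (nat_lit 365) (nat_lit 314) (nat_lit 221)) (XT.nd (nat_lit 78) (nat_lit 0) (nat_lit 0) (XT.lf (nat_lit 0) (nat_lit 3007528792) (nat_lit 304) (nat_lit 5779700755) (nat_lit 380) (nat_lit 6446274740) (nat_lit 112) (nat_lit 5) (nat_lit 116) (nat_lit 5) (nat_lit 117) (nat_lit 5) (nat_lit 366) (nat_lit 314) (nat_lit 220)) (XT.lf (nat_lit 0) (nat_lit 11786738838) (nat_lit 304) (nat_lit 389779648) (nat_lit 380) (nat_lit 3337700311) (nat_lit 112) (nat_lit 5) (nat_lit 116) (nat_lit 5) (nat_lit 117) (nat_lit 5) (nat_lit 367) (nat_lit 314) (nat_lit 219)))) (XT.nd (nat_lit 156) (nat_lit 304) (nat_lit 0) (XT.nd (nat_lit 78) (nat_lit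 76) (nat_lit 0) (XT.lf (nat_lit 0) (nat_lit 5047289105) (nat_lit 304) (nat_lit 10699310452) (nat_lit 380) (nat_lit 54389710) (nat_lit 108) (nat_lit 5) (nat_lit 112) (nat_lit 5) (nat_lit 113) (nat_lit 5) (nat_lit 368) (nat_lit 314) (nat_lit 218)) (XT.lf (nat_lit 0) (nat_lit 3285438250) (nat_lit 380) (nat_lit 1997407133) (nat_lit 76) (nat_lit 10811876945) (nat_lit 107) (nat_lit 5) (nat_lit 112) (nat_lit 5) (nat_lit 108) (nat_lit 5) (nat_lit 369) (nat_lit 314) (nat_lit 217))) (XT.nd (nat_lit 78) (nat_lit 0) (nat_lit 0) (XT.lf (nat_lit 0) (nat_lit 6778014351) (nat_lit 380) (nat_lit 9265829164) (nat_lit 76) (nat_lit 351805572) (nat_lit 103) (nat_lit 5) (nat_lit 108) (nat_lit 5) (nat_lit 104) (nat_lit 5) (nat_lit 370) (nat_lit 314) (nat_lit 216)) (XT.lf (nat_lit 0) (nat_lit 10429867502) (nat_lit 380) (nat_lit 212761215) (nat_lit 76) (nat_lit 6061346983) (nat_lit 103) (nat_lit 5) (nat_lit 108) (nat_lit 5) (nat_lit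 104) (nat_lit 5) (nat_lit 371) (nat_lit 314) (nat_lit 215))))))))
noncomputable def xc142 : XT := (XT.nd (nat_lit 2028) (nat_lit 1976) (nat_lit 0) (XT.nd (nat_lit 1014) (nat_lit 1292) (nat_lit 0) (XT.nd (nat_lit 468) (nat_lit 1064) (nat_lit 0) (XT.nd (nat_lit 234) (nat_lit 532) (nat_lit 0) (XT.nd (nat_lit 78) (nat_lit 380) (nat_lit 0) (XT.lf (nat_lit 0) (nat_lit 9266442537) (nat_lit 228) (nat_lit 4996262568) (nat_lit 304) (nat_lit 2756710978) (nat_lit 100) (nat_lit 5) (nat_lit 103) (nat_lit 5) (nat_lit 104) (nat_lit 5) (nat_lit 372) (nat_lit 314) (nat_lit 214)) (XT.nd (nat_lit 78) (nat_lit 0) (nat_lit 0) (XT.lf (nat_lit 0) (nat_lit 858201240) (nat_lit 380) (nat_lit 15663758168) (nat_lit 76) (nat_lit 821850045) (nat_lit 95) (nat_lit 5) (nat_lit 100) (nat_lit 5) (nat_lit 96) (nat_lit 5) (nat_lit 373) (nat_lit 314) (nat_lit 213)) (XT.lf (nat_lit 0) (nat_lit 4637301616) (nat_lit 380) (nat_lit 6224686100) (nat_lit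 76) (nat_lit 6811799900) (nat_lit 95) (nat_lit 5) (nat_lit 100) (nat_lit 5) (nat_lit 96) (nat_lit 5) (nat_lit 374) (nat_lit 314) (nat_lit 212)))) (XT.nd (nat_lit 78) (nat_lit 304) (nat_lit 0) (XT.lf (nat_lit 0) (nat_lit 3540868635) (nat_lit 228) (nat_lit 5006064749) (nat_lit 304) (nat_lit 9466223066) (nat_lit 92) (nat_lit 5) (nat_lit 95) (nat_lit 5) (nat_lit 96) (nat_lit 5) (nat_lit 375) (nat_lit 314) (nat_lit 211)) (XT.nd (nat_lit 78) (nat_lit 304) (nat_lit 0) (XT.lf (nat_lit 0) (nat_lit 12630473680) (nat_lit 304) (nat_lit 4670262216) (nat_lit 76) (nat_lit 1060277765) (nat_lit 92) (nat_lit 5) (nat_lit 96) (nat_lit 5) (nat_lit 93) (nat_lit 5) (nat_lit 376) (nat_lit 314) (nat_lit 210)) (XT.lf (nat_lit 0) (nat_lit 5457560545) (nat_lit 304) (nat_lit 11464755001) (nat_lit 380) (nat_lit 1794422910) (nat_lit 88) (nat_lit 5) (nat_lit 92) (nat_lit 5) (nat_lit 93) (nat_lit 5) (nat_lit 377) (nat_lit 314) (nat_lit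 209))))) (XT.nd (nat_lit 234) (nat_lit 760) (nat_lit 0) (XT.nd (nat_lit 78) (nat_lit 228) (nat_lit 0) (XT.lf (nat_lit 0) (nat_lit 2247146734) (nat_lit 380) (nat_lit 3144231007) (nat_lit 76) (nat_lit 13690167016) (nat_lit 87) (nat_lit 5) (nat_lit 92) (nat_lit 5) (nat_lit 88) (nat_lit 5) (nat_lit 378) (nat_lit 314) (nat_lit 208)) (XT.nd (nat_lit 78) (nat_lit 0) (nat_lit 0) (XT.lf (nat_lit 0) (nat_lit 6438206760) (nat_lit 304) (nat_lit 12088424511) (nat_lit 76) (nat_lit 928206938) (nat_lit 84) (nat_lit 5) (nat_lit 88) (nat_lit 5) (nat_lit 85) (nat_lit 5) (nat_lit 379) (nat_lit 314) (nat_lit 207)) (XT.lf (nat_lit 0) (nat_lit 10824890833) (nat_lit 304) (nat_lit 1659923684) (nat_lit 76) (nat_lit 7352424271) (nat_lit 84) (nat_lit 5) (nat_lit 88) (nat_lit 5) (nat_lit 85) (nat_lit 5) (nat_lit 380) (nat_lit 314) (nat_lit 206)))) (XT.nd (nat_lit 156) (nat_lit 532) (nat_lit 0) (XT.nd (nat_lit 78) (nat_lit 0) (nat_lit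 0) (XT.lf (nat_lit 0) (nat_lit 9237729669) (nat_lit 228) (nat_lit 6179144796) (nat_lit 304) (nat_lit 4812030886) (nat_lit 81) (nat_lit 5) (nat_lit 84) (nat_lit 5) (nat_lit 85) (nat_lit 5) (nat_lit 381) (nat_lit 314) (nat_lit 205)) (XT.lf (nat_lit 0) (nat_lit 20151607240) (nat_lit 304) (nat_lit 162775624) (nat_lit 76) (nat_lit 317794156) (nat_lit 81) (nat_lit 5) (nat_lit 85) (nat_lit 5) (nat_lit 82) (nat_lit 5) (nat_lit 382) (nat_lit 314) (nat_lit 204))) (XT.nd (nat_lit 78) (nat_lit 228) (nat_lit 0) (XT.lf (nat_lit 0) (nat_lit 4058234008) (nat_lit 304) (nat_lit 9959779142) (nat_lit 76) (nat_lit 7023737845) (nat_lit 77) (nat_lit 5) (nat_lit 81) (nat_lit 5) (nat_lit 78) (nat_lit 5) (nat_lit 383) (nat_lit 314) (nat_lit 203)) (XT.lf (nat_lit 0) (nat_lit 1199001208) (nat_lit 228) (nat_lit 7523244758) (nat_lit 304) (nat_lit 12741266779) (nat_lit 74) (nat_lit 5) (nat_lit 77) (nat_lit 5) (nat_lit 78) (nat_lit 5)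 (nat_lit 384) (nat_lit 314) (nat_lit 202)))))) (XT.nd (nat_lit 468) (nat_lit 684) (nat_lit 0) (XT.nd (nat_lit 234) (nat_lit 380) (nat_lit 0) (XT.nd (nat_lit 78) (nat_lit 228) (nat_lit 0) (XT.lf (nat_lit 0) (nat_lit 12873483795) (nat_lit 228) (nat_lit 738984786) (nat_lit 304) (nat_lit 8282874318) (nat_lit 74) (nat_lit 5) (nat_lit 77) (nat_lit 5) (nat_lit 78) (nat_lit 5) (nat_lit 385) (nat_lit 314) (nat_lit 201)) (XT.nd (nat_lit 78) (nat_lit 76) (nat_lit 0) (XT.lf (nat_lit 0) (nat_lit 2524378208) (nat_lit 152) (nat_lit 16195401486) (nat_lit 228) (nat_lit 3618240948) (nat_lit 72) (nat_lit 5) (nat_lit 74) (nat_lit 5) (nat_lit 75) (nat_lit 5) (nat_lit 386) (nat_lit 314) (nat_lit 200)) (XT.lf (nat_lit 0) (nat_lit 1248600534) (nat_lit 228) (nat_lit 8231869451) (nat_lit 76) (nat_lit 13310607958) (nat_lit 71) (nat_lit 5) (nat_lit 74) (nat_lit 5) (nat_lit 72) (nat_lit 5) (nat_lit 387) (nat_lit 314) (nat_lit 199))))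 (XT.nd (nat_lit 78) (nat_lit 152) (nat_lit 0) (XT.lf (nat_lit 0) (nat_lit 3711685864) (nat_lit 228) (nat_lit 2499219208) (nat_lit 304) (nat_lit 17045085527) (nat_lit 68) (nat_lit 5) (nat_lit 71) (nat_lit 5) (nat_lit 72) (nat_lit 5) (nat_lit 388) (nat_lit 314) (nat_lit 198)) (XT.nd (nat_lit 78) (nat_lit 152) (nat_lit 0) (XT.lf (nat_lit 0) (nat_lit 11437723776) (nat_lit 304) (nat_lit 7618359909) (nat_lit 76) (nat_lit 4675301274) (nat_lit 68) (nat_lit 5) (nat_lit 72) (nat_lit 5) (nat_lit 69) (nat_lit 5) (nat_lit 389) (nat_lit 314) (nat_lit 197)) (XT.lf (nat_lit 0) (nat_lit 4710819455) (nat_lit 152) (nat_lit 12167544923) (nat_lit 228) (nat_lit 7340969822) (nat_lit 66) (nat_lit 5) (nat_lit 68) (nat_lit 5) (nat_lit 69) (nat_lit 5) (nat_lit 390) (nat_lit 314) (nat_lit 196))))) (XT.nd (nat_lit 234) (nat_lit 380) (nat_lit 0) (XT.nd (nat_lit 78) (nat_lit 304) (nat_lit 0) (XT.lf (nat_lit 0) (nat_lit 17544531973) (nat_lit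 152) (nat_lit 5001784207) (nat_lit 228) (nat_lit 2173686443) (nat_lit 66) (nat_lit 5) (nat_lit 68) (nat_lit 5) (nat_lit 69) (nat_lit 5) (nat_lit 391) (nat_lit 314) (nat_lit 195)) (XT.nd (nat_lit 78) (nat_lit 0) (nat_lit 0) (XT.lf (nat_lit 0) (nat_lit 3151888150) (nat_lit 304) (nat_lit 19672024249) (nat_lit 76) (nat_lit 2408932567) (nat_lit 62) (nat_lit 5) (nat_lit 66) (nat_lit 5) (nat_lit 63) (nat_lit 5) (nat_lit 392) (nat_lit 314) (nat_lit 194)) (XT.lf (nat_lit 0) (nat_lit 8703731731) (nat_lit 304) (nat_lit 7025594965) (nat_lit 76) (nat_lit 10027797684) (nat_lit 62) (nat_lit 5) (nat_lit 66) (nat_lit 5) (nat_lit 63) (nat_lit 5) (nat_lit 393) (nat_lit 314) (nat_lit 193)))) (XT.nd (nat_lit 156) (nat_lit 228) (nat_lit 0) (XT.nd (nat_lit 78) (nat_lit 0) (nat_lit 0) (XT.lf (nat_lit 0) (nat_lit 6098626174) (nat_lit 152) (nat_lit 8369984953) (nat_lit 228) (nat_lit 11827129714) (nat_lit 60) (nat_lit 5) (nat_lit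 62) (nat_lit 5) (nat_lit 63) (nat_lit 5) (nat_lit 394) (nat_lit 314) (nat_lit 192)) (XT.lf (nat_lit 0) (nat_lit 19740186605) (nat_lit 152) (nat_lit 725209357) (nat_lit 228) (nat_lit 6383354051) (nat_lit 60) (nat_lit 5) (nat_lit 62) (nat_lit 5) (nat_lit 63) (nat_lit 5) (nat_lit 395) (nat_lit 314) (nat_lit 191))) (XT.nd (nat_lit 78) (nat_lit 76) (nat_lit 0) (XT.lf (nat_lit 0) (nat_lit 6408901190) (nat_lit 152) (nat_lit 20351793966) (nat_lit 228) (nat_lit 654098882) (nat_lit 58) (nat_lit 5) (nat_lit 60) (nat_lit 5) (nat_lit 61) (nat_lit 5) (nat_lit 396) (nat_lit 314) (nat_lit 190)) (XT.lf (nat_lit 0) (nat_lit 5212636595) (nat_lit 228) (nat_lit 7596508893) (nat_lit 76) (nat_lit 15185123764) (nat_lit 57) (nat_lit 5) (nat_lit 60) (nat_lit 5) (nat_lit 58) (nat_lit 5) (nat_lit 397) (nat_lit 314) (nat_lit 189))))))) (XT.nd (nat_lit 1014) (nat_lit 912) (nat_lit 0) (XT.nd (nat_lit 468) (nat_lit 532) (nat_lit 0) (XT.nd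 (nat_lit 234) (nat_lit 228) (nat_lit 0) (XT.nd (nat_lit 78) (nat_lit 152) (nat_lit 0) (XT.lf (nat_lit 0) (nat_lit 6312319961) (nat_lit 152) (nat_lit 4979243204) (nat_lit 228) (nat_lit 17297893853) (nat_lit 55) (nat_lit 5) (nat_lit 57) (nat_lit 5) (nat_lit 58) (nat_lit 5) (nat_lit 398) (nat_lit 314) (nat_lit 188)) (XT.nd (nat_lit 78) (nat_lit 152) (nat_lit 0) (XT.lf (nat_lit 0) (nat_lit 17648711103) (nat_lit 228) (nat_lit 8456089363) (nat_lit 76) (nat_lit 3094826923) (nat_lit 55) (nat_lit 5) (nat_lit 58) (nat_lit 5) (nat_lit 56) (nat_lit 5) (nat_lit 399) (nat_lit 314) (nat_lit 187)) (XT.lf (nat_lit 0) (nat_lit 5824921395) (nat_lit 152) (nat_lit 18465996625) (nat_lit 228) (nat_lit 5534357018) (nat_lit 53) (nat_lit 5) (nat_lit 55) (nat_lit 5) (nat_lit 56) (nat_lit 5) (nat_lit 400) (nat_lit 314) (nat_lit 186)))) (XT.nd (nat_lit 78) (nat_lit 152) (nat_lit 0) (XT.lf (nat_lit 0) (nat_lit 725083422) (nat_lit 228)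 (nat_lit 9785709307) (nat_lit 76) (nat_lit 19956451158) (nat_lit 52) (nat_lit 5) (nat_lit 55) (nat_lit 5) (nat_lit 53) (nat_lit 5) (nat_lit 401) (nat_lit 314) (nat_lit 185)) (XT.nd (nat_lit 78) (nat_lit 0) (nat_lit 0) (XT.lf (nat_lit 0) (nat_lit 4877239415) (nat_lit 152) (nat_lit 2220114285) (nat_lit 228) (nat_lit 24028388073) (nat_lit 50) (nat_lit 5) (nat_lit 52) (nat_lit 5) (nat_lit 53) (nat_lit 5) (nat_lit 402) (nat_lit 314) (nat_lit 184)) (XT.lf (nat_lit 0) (nat_lit 13810787487) (nat_lit 228) (nat_lit 11700650327) (nat_lit 76) (nat_lit 6288059144) (nat_lit 50) (nat_lit 5) (nat_lit 53) (nat_lit 5) (nat_lit 51) (nat_lit 5) (nat_lit 403) (nat_lit 314) (nat_lit 183))))) (XT.nd (nat_lit 234) (nat_lit 152) (nat_lit 0) (XT.nd (nat_lit 78) (nat_lit 228) (nat_lit 0) (XT.lf (nat_lit 0) (nat_lit 3308180290) (nat_lit 152) (nat_lit 17460988408) (nat_lit 228) (nat_lit 11722991926) (nat_lit 48) (nat_lit 5) (nat_lit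 50) (nat_lit 5) (nat_lit 51) (nat_lit 5) (nat_lit 404) (nat_lit 314) (nat_lit 182)) (XT.nd (nat_lit 78) (nat_lit 228) (nat_lit 0) (XT.lf (nat_lit 0) (nat_lit 18989274293) (nat_lit 152) (nat_lit 9055070059) (nat_lit 228) (nat_lit 5158020655) (nat_lit 48) (nat_lit 5) (nat_lit 50) (nat_lit 5) (nat_lit 51) (nat_lit 5) (nat_lit 405) (nat_lit 314) (nat_lit 181)) (XT.lf (nat_lit 0) (nat_lit 1197339636) (nat_lit 152) (nat_lit 376856497) (nat_lit 228) (nat_lit 32359171007) (nat_lit 45) (nat_lit 5) (nat_lit 47) (nat_lit 5) (nat_lit 48) (nat_lit 5) (nat_lit 406) (nat_lit 314) (nat_lit 180)))) (XT.nd (nat_lit 156) (nat_lit 152) (nat_lit 0) (XT.nd (nat_lit 78) (nat_lit 0) (nat_lit 0) (XT.lf (nat_lit 0) (nat_lit 8622087880) (nat_lit 228) (nat_lit 17472930951) (nat_lit 76) (nat_lit 8583228953) (nat_lit 45) (nat_lit 5) (nat_lit 48) (nat_lit 5) (nat_lit 46) (nat_lit 5) (nat_lit 407) (nat_lit 314) (nat_lit 179)) (XT.lf (nat_lit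 0) (nat_lit 15875568846) (nat_lit 228) (nat_lit 1772744394) (nat_lit 76) (nat_lit 17797338895) (nat_lit 45) (nat_lit 5) (nat_lit 48) (nat_lit 5) (nat_lit 46) (nat_lit 5) (nat_lit 408) (nat_lit 314) (nat_lit 178))) (XT.nd (nat_lit 78) (nat_lit 0) (nat_lit 0) (XT.lf (nat_lit 0) (nat_lit 14668100829) (nat_lit 152) (nat_lit 8810252378) (nat_lit 228) (nat_lit 12753776250) (nat_lit 43) (nat_lit 5) (nat_lit 45) (nat_lit 5) (nat_lit 46) (nat_lit 5) (nat_lit 409) (nat_lit 314) (nat_lit 177)) (XT.lf (nat_lit 0) (nat_lit 31320859460) (nat_lit 228) (nat_lit 5422766205) (nat_lit 76) (nat_lit 298228038) (nat_lit 43) (nat_lit 5) (nat_lit 46) (nat_lit 5) (nat_lit 44) (nat_lit 4) (nat_lit 410) (nat_lit 314) (nat_lit 176)))))) (XT.nd (nat_lit 546) (nat_lit 456) (nat_lit 0) (XT.nd (nat_lit 234) (nat_lit 152) (nat_lit 0) (XT.nd (nat_lit 78) (nat_lit 152) (nat_lit 0) (XT.lf (nat_lit 0) (nat_lit 1681967901) (nat_lit 152) (nat_lit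 26566482122) (nat_lit 76) (nat_lit 9621314832) (nat_lit 41) (nat_lit 5) (nat_lit 43) (nat_lit 5) (nat_lit 42) (nat_lit 5) (nat_lit 411) (nat_lit 314) (nat_lit 175)) (XT.nd (nat_lit 78) (nat_lit 152) (nat_lit 0) (XT.lf (nat_lit 0) (nat_lit 9238366157) (nat_lit 152) (nat_lit 10151939345) (nat_lit 76) (nat_lit 19329120134) (nat_lit 41) (nat_lit 5) (nat_lit 43) (nat_lit 5) (nat_lit 42) (nat_lit 5) (nat_lit 412) (nat_lit 314) (nat_lit 174)) (XT.lf (nat_lit 0) (nat_lit 6873479019) (nat_lit 152) (nat_lit 10205342714) (nat_lit 228) (nat_lit 22514035106) (nat_lit 39) (nat_lit 5) (nat_lit 41) (nat_lit 5) (nat_lit 42) (nat_lit 5) (nat_lit 413) (nat_lit 314) (nat_lit 173)))) (XT.nd (nat_lit 156) (nat_lit 76) (nat_lit 0) (XT.nd (nat_lit 78) (nat_lit 76) (nat_lit 0) (XT.lf (nat_lit 0) (nat_lit 24602231507) (nat_lit 152) (nat_lit 646171720) (nat_lit 228) (nat_lit 15241271898) (nat_lit 39) (nat_lit 5) (nat_lit 41) (nat_lit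 5) (nat_lit 42) (nat_lit 5) (nat_lit 414) (nat_lit 314) (nat_lit 172)) (XT.lf (nat_lit 0) (nat_lit 1372529592) (nat_lit 76) (nat_lit 32383753468) (nat_lit 152) (nat_lit 7654320043) (nat_lit 38) (nat_lit 5) (nat_lit 39) (nat_lit 5) (nat_lit 40) (nat_lit 4) (nat_lit 415) (nat_lit 314) (nat_lit 171))) (XT.nd (nat_lit 78) (nat_lit 0) (nat_lit 0) (XT.lf (nat_lit 0) (nat_lit 317131216) (nat_lit 152) (nat_lit 22903180483) (nat_lit 76) (nat_lit 19134001867) (nat_lit 37) (nat_lit 5) (nat_lit 39) (nat_lit 5) (nat_lit 38) (nat_lit 5) (nat_lit 416) (nat_lit 314) (nat_lit 170)) (XT.lf (nat_lit 0) (nat_lit 8365725946) (nat_lit 152) (nat_lit 5344867793) (nat_lit 76) (nat_lit 29613714063) (nat_lit 37) (nat_lit 5) (nat_lit 39) (nat_lit 5) (nat_lit 38) (nat_lit 5) (nat_lit 417) (nat_lit 314) (nat_lit 169))))) (XT.nd (nat_lit 234) (nat_lit 228) (nat_lit 0) (XT.nd (nat_lit 78) (nat_lit 76) (nat_lit 0) (XT.lf (nat_lit 0) (nat_lit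 12979052847) (nat_lit 152) (nat_lit 3793570000) (nat_lit 228) (nat_lit 27547274993) (nat_lit 35) (nat_lit 5) (nat_lit 37) (nat_lit 5) (nat_lit 38) (nat_lit 5) (nat_lit 418) (nat_lit 314) (nat_lit 168)) (XT.nd (nat_lit 78) (nat_lit 76) (nat_lit 0) (XT.lf (nat_lit 0) (nat_lit 25540069233) (nat_lit 228) (nat_lit 13458179667) (nat_lit 76) (nat_lit 6343857672) (nat_lit 35) (nat_lit 5) (nat_lit 38) (nat_lit 5) (nat_lit 36) (nat_lit 4) (nat_lit 419) (nat_lit 314) (nat_lit 167)) (XT.lf (nat_lit 0) (nat_lit 5007090231) (nat_lit 76) (nat_lit 29641483073) (nat_lit 152) (nat_lit 11744068465) (nat_lit 34) (nat_lit 5) (nat_lit 35) (nat_lit 5) (nat_lit 36) (nat_lit 4) (nat_lit 420) (nat_lit 314) (nat_lit 166)))) (XT.nd (nat_lit 156) (nat_lit 152) (nat_lit 0) (XT.nd (nat_lit 78) (nat_lit 76) (nat_lit 0) (XT.lf (nat_lit 0) (nat_lit 24288313530) (nat_lit 76) (nat_lit 19870352730) (nat_lit 152) (nat_lit 3312177943) (nat_lit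 34) (nat_lit 5) (nat_lit 35) (nat_lit 5) (nat_lit 36) (nat_lit 4) (nat_lit 421) (nat_lit 314) (nat_lit 165)) (XT.lf (nat_lit 0) (nat_lit 5260408231) (nat_lit 152) (nat_lit 4498693178) (nat_lit 76) (nat_lit 38820965696) (nat_lit 33) (nat_lit 5) (nat_lit 35) (nat_lit 5) (nat_lit 34) (nat_lit 5) (nat_lit 422) (nat_lit 314) (nat_lit 164))) (XT.nd (nat_lit 78) (nat_lit 0) (nat_lit 0) (XT.lf (nat_lit 0) (nat_lit 14168504341) (nat_lit 228) (nat_lit 34733285791) (nat_lit 76) (nat_lit 815446725) (nat_lit 31) (nat_lit 5) (nat_lit 34) (nat_lit 5) (nat_lit 32) (nat_lit 4) (nat_lit 423) (nat_lit 314) (nat_lit 163)) (XT.lf (nat_lit 0) (nat_lit 23479167484) (nat_lit 228) (nat_lit 15854199106) (nat_lit 76) (nat_lit 11551096449) (nat_lit 31) (nat_lit 5) (nat_lit 34) (nat_lit 5) (nat_lit 32) (nat_lit 4) (nat_lit 424) (nat_lit 314) (nat_lit 162))))))))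
noncomputable def xc143 : XT := (XT.nd (nat_lit 38844) (nat_lit 0) (nat_lit 11552) (XT.nd (nat_lit 1014) (nat_lit 228) (nat_lit 0) (XT.nd (nat_lit 468) (nat_lit 304) (nat_lit 0) (XT.nd (nat_lit 234) (nat_lit 228) (nat_lit 0) (XT.nd (nat_lit 78) (nat_lit 0) (nat_lit 0) (XT.lf (nat_lit 0) (nat_lit 3649604156) (nat_lit 76) (nat_lit 29447659295) (nat_lit 152) (nat_lit 18988600200) (nat_lit 30) (nat_lit 5) (nat_lit 31) (nat_lit 5) (nat_lit 32) (nat_lit 4) (nat_lit 425) (nat_lit 314) (nat_lit 161)) (XT.nd (nat_lit 78) (nat_lit 0) (nat_lit 0) (XT.lf (nat_lit 0) (nat_lit 24050770315) (nat_lit 76) (nat_lit 19106339467) (nat_lit 152) (nat_lit 10161601275) (nat_lit 30) (nat_lit 5) (nat_lit 31) (nat_lit 5) (nat_lit 32) (nat_lit 4) (nat_lit 426) (nat_lit 314) (nat_lit 160)) (XT.lf (nat_lit 0) (nat_lit 45051595984) (nat_lit 76) (nat_lit 8460467326) (nat_lit 152) (nat_lit 1076682194) (nat_lit 30) (nat_lit 5) (nat_lit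 31) (nat_lit 5) (nat_lit 32) (nat_lit 4) (nat_lit 427) (nat_lit 314) (nat_lit 159)))) (XT.nd (nat_lit 78) (nat_lit 0) (nat_lit 0) (XT.lf (nat_lit 0) (nat_lit 8243329208) (nat_lit 228) (nat_lit 45010748375) (nat_lit 76) (nat_lit 2636692337) (nat_lit 27) (nat_lit 5) (nat_lit 30) (nat_lit 5) (nat_lit 28) (nat_lit 4) (nat_lit 428) (nat_lit 314) (nat_lit 158)) (XT.nd (nat_lit 78) (nat_lit 0) (nat_lit 0) (XT.lf (nat_lit 0) (nat_lit 17995791261) (nat_lit 228) (nat_lit 25231306147) (nat_lit 76) (nat_lit 13999204028) (nat_lit 27) (nat_lit 5) (nat_lit 30) (nat_lit 5) (nat_lit 28) (nat_lit 4) (nat_lit 429) (nat_lit 314) (nat_lit 157)) (XT.lf (nat_lit 0) (nat_lit 28034481069) (nat_lit 228) (nat_lit 4870295679) (nat_lit 76) (nat_lit 25697313396) (nat_lit 27) (nat_lit 5) (nat_lit 30) (nat_lit 5) (nat_lit 28) (nat_lit 4) (nat_lit 430) (nat_lit 314) (nat_lit 156))))) (XT.nd (nat_lit 234) (nat_lit 228) (nat_lit 0) (XT.nd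 (nat_lit 78) (nat_lit 0) (nat_lit 0) (XT.lf (nat_lit 0) (nat_lit 16410298227) (nat_lit 76) (nat_lit 22115617902) (nat_lit 152) (nat_lit 21488689686) (nat_lit 26) (nat_lit 5) (nat_lit 27) (nat_lit 5) (nat_lit 28) (nat_lit 4) (nat_lit 431) (nat_lit 314) (nat_lit 155)) (XT.nd (nat_lit 78) (nat_lit 0) (nat_lit 0) (XT.lf (nat_lit 0) (nat_lit 38417787797) (nat_lit 76) (nat_lit 10957395884) (nat_lit 152) (nat_lit 12093021408) (nat_lit 26) (nat_lit 5) (nat_lit 27) (nat_lit 5) (nat_lit 28) (nat_lit 4) (nat_lit 432) (nat_lit 314) (nat_lit 154)) (XT.lf (nat_lit 0) (nat_lit 60549114762) (nat_lit 152) (nat_lit 1896215190) (nat_lit 0) (nat_lit 520107611) (nat_lit 26) (nat_lit 5) (nat_lit 28) (nat_lit 4) (nat_lit 26) (nat_lit 4) (nat_lit 433) (nat_lit 314) (nat_lit 153)))) (XT.nd (nat_lit 156) (nat_lit 76) (nat_lit 0) (XT.nd (nat_lit 78) (nat_lit 0) (nat_lit 0) (XT.lf (nat_lit 0) (nat_lit 7702827102) (nat_lit 152) (nat_lit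 44407389529) (nat_lit 76) (nat_lit 12386208939) (nat_lit 24) (nat_lit 5) (nat_lit 26) (nat_lit 5) (nat_lit 25) (nat_lit 4) (nat_lit 434) (nat_lit 314) (nat_lit 152)) (XT.lf (nat_lit 0) (nat_lit 18090542485) (nat_lit 152) (nat_lit 23335008269) (nat_lit 76) (nat_lit 24646668765) (nat_lit 24) (nat_lit 5) (nat_lit 26) (nat_lit 5) (nat_lit 25) (nat_lit 4) (nat_lit 435) (nat_lit 314) (nat_lit 151))) (XT.nd (nat_lit 78) (nat_lit 76) (nat_lit 0) (XT.lf (nat_lit 0) (nat_lit 28784276745) (nat_lit 152) (nat_lit 1640981088) (nat_lit 76) (nat_lit 37270198534) (nat_lit 24) (nat_lit 5) (nat_lit 26) (nat_lit 5) (nat_lit 25) (nat_lit 4) (nat_lit 436) (nat_lit 314) (nat_lit 150)) (XT.lf (nat_lit 0) (nat_lit 21105492128) (nat_lit 76) (nat_lit 18890760694) (nat_lit 152) (nat_lit 29365215287) (nat_lit 23) (nat_lit 5) (nat_lit 24) (nat_lit 5) (nat_lit 25) (nat_lit 4) (nat_lit 437) (nat_lit 314) (nat_lit 149)))))) (XT.nd (nat_lit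 37284) (nat_lit 0) (nat_lit 20140) (XT.nd (nat_lit 234) (nat_lit 76) (nat_lit 0) (XT.nd (nat_lit 78) (nat_lit 152) (nat_lit 0) (XT.lf (nat_lit 0) (nat_lit 44557879282) (nat_lit 76) (nat_lit 6997891924) (nat_lit 152) (nat_lit 19521354168) (nat_lit 23) (nat_lit 5) (nat_lit 24) (nat_lit 5) (nat_lit 25) (nat_lit 4) (nat_lit 438) (nat_lit 314) (nat_lit 148)) (XT.nd (nat_lit 78) (nat_lit 152) (nat_lit 0) (XT.lf (nat_lit 0) (nat_lit 63507283401) (nat_lit 152) (nat_lit 4190834919) (nat_lit 0) (nat_lit 5144778433) (nat_lit 23) (nat_lit 5) (nat_lit 25) (nat_lit 4) (nat_lit 23) (nat_lit 4) (nat_lit 439) (nat_lit 314) (nat_lit 147)) (XT.lf (nat_lit 0) (nat_lit 1383377944) (nat_lit 152) (nat_lit 55566542820) (nat_lit 76) (nat_lit 17703880932) (nat_lit 21) (nat_lit 5) (nat_lit 23) (nat_lit 5) (nat_lit 22) (nat_lit 4) (nat_lit 440) (nat_lit 314) (nat_lit 146)))) (XT.nd (nat_lit 156) (nat_lit 76) (nat_lit 0) (XT.nd (nat_lit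 78) (nat_lit 0) (nat_lit 0) (XT.lf (nat_lit 0) (nat_lit 12273925949) (nat_lit 152) (nat_lit 33470667340) (nat_lit 76) (nat_lit 30770539425) (nat_lit 21) (nat_lit 5) (nat_lit 23) (nat_lit 5) (nat_lit 22) (nat_lit 4) (nat_lit 441) (nat_lit 314) (nat_lit 145)) (XT.lf (nat_lit 0) (nat_lit 23486224702) (nat_lit 152) (nat_lit 10721290163) (nat_lit 76) (nat_lit 44224938339) (nat_lit 21) (nat_lit 5) (nat_lit 23) (nat_lit 5) (nat_lit 22) (nat_lit 4) (nat_lit 442) (nat_lit 314) (nat_lit 144))) (XT.nd (nat_lit 78) (nat_lit 0) (nat_lit 0) (XT.lf (nat_lit 0) (nat_lit 12954250901) (nat_lit 76) (nat_lit 22200344640) (nat_lit 152) (nat_lit 45249107229) (nat_lit 20) (nat_lit 5) (nat_lit 21) (nat_lit 5) (nat_lit 22) (nat_lit 4) (nat_lit 443) (nat_lit 314) (nat_lit 143)) (XT.lf (nat_lit 0) (nat_lit 37550821842) (nat_lit 76) (nat_lit 9725692398) (nat_lit 152) (nat_lit 35154471218) (nat_lit 20) (nat_lit 5) (nat_lit 21) (nat_lit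 5) (nat_lit 22) (nat_lit 4) (nat_lit 444) (nat_lit 314) (nat_lit 142))))) (XT.nd (nat_lit 234) (nat_lit 836) (nat_lit 0) (XT.nd (nat_lit 78) (nat_lit 836) (nat_lit 0) (XT.lf (nat_lit 0) (nat_lit 3498460991) (nat_lit 836) (nat_lit 102587103) (nat_lit 836) (nat_lit 102587103) (nat_lit 307) (nat_lit 3) (nat_lit 318) (nat_lit 3) (nat_lit 318) (nat_lit 5) (nat_lit 315) (nat_lit 315) (nat_lit 270)) (XT.nd (nat_lit 78) (nat_lit 0) (nat_lit 0) (XT.lf (nat_lit 0) (nat_lit 1087117766) (nat_lit 836) (nat_lit 4087023296) (nat_lit 912) (nat_lit 2298331705) (nat_lit 296) (nat_lit 5) (nat_lit 307) (nat_lit 3) (nat_lit 308) (nat_lit 5) (nat_lit 316) (nat_lit 315) (nat_lit 269)) (XT.lf (nat_lit 0) (nat_lit 2565986368) (nat_lit 836) (nat_lit 486528090) (nat_lit 912) (nat_lit 4488698435) (nat_lit 296) (nat_lit 5) (nat_lit 307) (nat_lit 3) (nat_lit 308) (nat_lit 5) (nat_lit 317) (nat_lit 315) (nat_lit 268)))) (XT.nd (nat_lit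 156) (nat_lit 836) (nat_lit 0) (XT.nd (nat_lit 78) (nat_lit 0) (nat_lit 76) (XT.lf (nat_lit 76) (nat_lit 3255535015) (nat_lit 0) (nat_lit 809284734) (nat_lit 912) (nat_lit 3547971539) (nat_lit 297) (nat_lit 5) (nat_lit 296) (nat_lit 5) (nat_lit 308) (nat_lit 5) (nat_lit 318) (nat_lit 315) (nat_lit 267)) (XT.lf (nat_lit 0) (nat_lit 5573889252) (nat_lit 836) (nat_lit 612606816) (nat_lit 912) (nat_lit 1501105579) (nat_lit 297) (nat_lit 5) (nat_lit 308) (nat_lit 5) (nat_lit 309) (nat_lit 5) (nat_lit 319) (nat_lit 315) (nat_lit 266))) (XT.nd (nat_lit 78) (nat_lit 912) (nat_lit 0) (XT.lf (nat_lit 76) (nat_lit 3269498184) (nat_lit 0) (nat_lit 3845628785) (nat_lit 912) (nat_lit 649963964) (nat_lit 298) (nat_lit 5) (nat_lit 297) (nat_lit 5) (nat_lit 309) (nat_lit 5) (nat_lit 320) (nat_lit 315) (nat_lit 265)) (XT.lf (nat_lit 0) (nat_lit 795353540) (nat_lit 912) (nat_lit 603842421) (nat_lit 988) (nat_lit 6446868913)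 (nat_lit 285) (nat_lit 5) (nat_lit 297) (nat_lit 5) (nat_lit 298) (nat_lit 5) (nat_lit 321) (nat_lit 315) (nat_lit 264))))))) (XT.nd (nat_lit 1014) (nat_lit 5776) (nat_lit 0) (XT.nd (nat_lit 468) (nat_lit 1976) (nat_lit 0) (XT.nd (nat_lit 234) (nat_lit 912) (nat_lit 0) (XT.nd (nat_lit 78) (nat_lit 0) (nat_lit 0) (XT.lf (nat_lit 0) (nat_lit 2264993210) (nat_lit 912) (nat_lit 4506462665) (nat_lit 988) (nat_lit 1158036289) (nat_lit 286) (nat_lit 5) (nat_lit 298) (nat_lit 5) (nat_lit 299) (nat_lit 5) (nat_lit 322) (nat_lit 315) (nat_lit 263)) (XT.nd (nat_lit 78) (nat_lit 0) (nat_lit 0) (XT.lf (nat_lit 0) (nat_lit 3749747651) (nat_lit 912) (nat_lit 477987664) (nat_lit 988) (nat_lit 3788593064) (nat_lit 286) (nat_lit 5) (nat_lit 298) (nat_lit 5) (nat_lit 299) (nat_lit 5) (nat_lit 323) (nat_lit 315) (nat_lit 262)) (XT.lf (nat_lit 76) (nat_lit 3712801150) (nat_lit 0) (nat_lit 1554374221) (nat_lit 988) (nat_lit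 2838986189) (nat_lit 287) (nat_lit 5) (nat_lit 286) (nat_lit 5) (nat_lit 299) (nat_lit 5) (nat_lit 324) (nat_lit 315) (nat_lit 261)))) (XT.nd (nat_lit 78) (nat_lit 988) (nat_lit 0) (XT.lf (nat_lit 0) (nat_lit 6800210651) (nat_lit 912) (nat_lit 203275402) (nat_lit 988) (nat_lit 1196135898) (nat_lit 287) (nat_lit 5) (nat_lit 299) (nat_lit 5) (nat_lit 300) (nat_lit 5) (nat_lit 325) (nat_lit 315) (nat_lit 260)) (XT.nd (nat_lit 78) (nat_lit 0) (nat_lit 0) (XT.lf (nat_lit 0) (nat_lit 92075575) (nat_lit 988) (nat_lit 4149801957) (nat_lit 1064) (nat_lit 4053706809) (nat_lit 274) (nat_lit 5) (nat_lit 287) (nat_lit 5) (nat_lit 288) (nat_lit 5) (nat_lit 326) (nat_lit 315) (nat_lit 259)) (XT.lf (nat_lit 76) (nat_lit 193070209) (nat_lit 0) (nat_lit 1366615126) (nat_lit 1064) (nat_lit 6835571254) (nat_lit 275) (nat_lit 5) (nat_lit 274) (nat_lit 5) (nat_lit 288) (nat_lit 5) (nat_lit 327) (nat_lit 315) (nat_lit 258)))))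 (XT.nd (nat_lit 234) (nat_lit 2052) (nat_lit 0) (XT.nd (nat_lit 78) (nat_lit 0) (nat_lit 0) (XT.lf (nat_lit 0) (nat_lit 3085653953) (nat_lit 988) (nat_lit 3794183116) (nat_lit 1064) (nat_lit 1617682902) (nat_lit 275) (nat_lit 5) (nat_lit 288) (nat_lit 5) (nat_lit 289) (nat_lit 5) (nat_lit 328) (nat_lit 315) (nat_lit 257)) (XT.nd (nat_lit 78) (nat_lit 0) (nat_lit 0) (XT.lf (nat_lit 76) (nat_lit 714361833) (nat_lit 0) (nat_lit 3921378875) (nat_lit 1064) (nat_lit 3967790352) (nat_lit 276) (nat_lit 5) (nat_lit 275) (nat_lit 5) (nat_lit 289) (nat_lit 5) (nat_lit 329) (nat_lit 315) (nat_lit 256)) (XT.lf (nat_lit 76) (nat_lit 5404147599) (nat_lit 0) (nat_lit 825357032) (nat_lit 1064) (nat_lit 2483331723) (nat_lit 276) (nat_lit 5) (nat_lit 275) (nat_lit 5) (nat_lit 289) (nat_lit 5) (nat_lit 330) (nat_lit 315) (nat_lit 255)))) (XT.nd (nat_lit 156) (nat_lit 1064) (nat_lit 0) (XT.nd (nat_lit 78) (nat_lit 76) (nat_lit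 0) (XT.lf (nat_lit 0) (nat_lit 1381259342) (nat_lit 988) (nat_lit 6485965699) (nat_lit 1064) (nat_lit 958339719) (nat_lit 263) (nat_lit 5) (nat_lit 276) (nat_lit 5) (nat_lit 277) (nat_lit 5) (nat_lit 331) (nat_lit 315) (nat_lit 254)) (XT.lf (nat_lit 0) (nat_lit 602953467) (nat_lit 1064) (nat_lit 2708007175) (nat_lit 76) (nat_lit 5630489361) (nat_lit 262) (nat_lit 5) (nat_lit 276) (nat_lit 5) (nat_lit 263) (nat_lit 5) (nat_lit 332) (nat_lit 315) (nat_lit 253))) (XT.nd (nat_lit 78) (nat_lit 0) (nat_lit 0) (XT.lf (nat_lit 0) (nat_lit 2171542016) (nat_lit 1064) (nat_lit 2891543) (nat_lit 1140) (nat_lit 6886641158) (nat_lit 248) (nat_lit 5) (nat_lit 262) (nat_lit 5) (nat_lit 263) (nat_lit 5) (nat_lit 333) (nat_lit 315) (nat_lit 252)) (XT.lf (nat_lit 0) (nat_lit 3816005913) (nat_lit 1140) (nat_lit 1996094526) (nat_lit 76) (nat_lit 3371524405) (nat_lit 248) (nat_lit 5) (nat_lit 263) (nat_lit 5) (nat_lit 249) (nat_lit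 5) (nat_lit 334) (nat_lit 315) (nat_lit 251)))))) (XT.nd (nat_lit 546) (nat_lit 2204) (nat_lit 0) (XT.nd (nat_lit 234) (nat_lit 1216) (nat_lit 0) (XT.nd (nat_lit 78) (nat_lit 1216) (nat_lit 0) (XT.lf (nat_lit 0) (nat_lit 3072402101) (nat_lit 1140) (nat_lit 2427681097) (nat_lit 1216) (nat_lit 3809994923) (nat_lit 233) (nat_lit 5) (nat_lit 248) (nat_lit 5) (nat_lit 249) (nat_lit 5) (nat_lit 335) (nat_lit 315) (nat_lit 250)) (XT.nd (nat_lit 78) (nat_lit 1216) (nat_lit 0) (XT.lf (nat_lit 0) (nat_lit 7229703329) (nat_lit 1216) (nat_lit 1148710612) (nat_lit 76) (nat_lit 1062084105) (nat_lit 233) (nat_lit 5) (nat_lit 249) (nat_lit 5) (nat_lit 234) (nat_lit 5) (nat_lit 336) (nat_lit 315) (nat_lit 249)) (XT.lf (nat_lit 0) (nat_lit 4117695065) (nat_lit 1216) (nat_lit 4922661045) (nat_lit 1292) (nat_lit 533623116) (nat_lit 217) (nat_lit 5) (nat_lit 233) (nat_lit 5) (nat_lit 234) (nat_lit 5) (nat_lit 337) (nat_lit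 315) (nat_lit 248)))) (XT.nd (nat_lit 156) (nat_lit 532) (nat_lit 0) (XT.nd (nat_lit 78) (nat_lit 608) (nat_lit 0) (XT.lf (nat_lit 0) (nat_lit 1148155050) (nat_lit 1292) (nat_lit 189002396) (nat_lit 76) (nat_lit 8374657129) (nat_lit 216) (nat_lit 5) (nat_lit 233) (nat_lit 5) (nat_lit 217) (nat_lit 5) (nat_lit 338) (nat_lit 315) (nat_lit 247)) (XT.lf (nat_lit 0) (nat_lit 2910733138) (nat_lit 684) (nat_lit 4572836008) (nat_lit 76) (nat_lit 2368846210) (nat_lit 208) (nat_lit 5) (nat_lit 217) (nat_lit 5) (nat_lit 209) (nat_lit 5) (nat_lit 339) (nat_lit 315) (nat_lit 246))) (XT.nd (nat_lit 78) (nat_lit 0) (nat_lit 0) (XT.lf (nat_lit 0) (nat_lit 891339139) (nat_lit 532) (nat_lit 3826138411) (nat_lit 608) (nat_lit 5280038356) (nat_lit 201) (nat_lit 5) (nat_lit 208) (nat_lit 5) (nat_lit 209) (nat_lit 5) (nat_lit 340) (nat_lit 315) (nat_lit 245)) (XT.lf (nat_lit 0) (nat_lit 6581777073) (nat_lit 532) (nat_lit 11021325)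 (nat_lit 608) (nat_lit 3553759672) (nat_lit 201) (nat_lit 5) (nat_lit 208) (nat_lit 5) (nat_lit 209) (nat_lit 5) (nat_lit 341) (nat_lit 315) (nat_lit 244))))) (XT.nd (nat_lit 234) (nat_lit 988) (nat_lit 0) (XT.nd (nat_lit 78) (nat_lit 608) (nat_lit 0) (XT.lf (nat_lit 0) (nat_lit 2115025103) (nat_lit 608) (nat_lit 6436479636) (nat_lit 684) (nat_lit 1747772225) (nat_lit 193) (nat_lit 5) (nat_lit 201) (nat_lit 5) (nat_lit 202) (nat_lit 5) (nat_lit 342) (nat_lit 315) (nat_lit 243)) (XT.nd (nat_lit 78) (nat_lit 532) (nat_lit 0) (XT.lf (nat_lit 0) (nat_lit 116073841) (nat_lit 684) (nat_lit 2450498109) (nat_lit 76) (nat_lit 7889815038) (nat_lit 192) (nat_lit 5) (nat_lit 201) (nat_lit 5) (nat_lit 193) (nat_lit 5) (nat_lit 343) (nat_lit 315) (nat_lit 242)) (XT.lf (nat_lit 0) (nat_lit 2018546113) (nat_lit 608) (nat_lit 7156790776) (nat_lit 76) (nat_lit 1441836714) (nat_lit 185) (nat_lit 5) (nat_lit 193) (nat_lit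 5) (nat_lit 186) (nat_lit 5) (nat_lit 344) (nat_lit 315) (nat_lit 241)))) (XT.nd (nat_lit 156) (nat_lit 456) (nat_lit 0) (XT.nd (nat_lit 78) (nat_lit 532) (nat_lit 0) (XT.lf (nat_lit 0) (nat_lit 3999352907) (nat_lit 608) (nat_lit 1240279972) (nat_lit 76) (nat_lit 5542530224) (nat_lit 185) (nat_lit 5) (nat_lit 193) (nat_lit 5) (nat_lit 186) (nat_lit 5) (nat_lit 345) (nat_lit 315) (nat_lit 240)) (XT.lf (nat_lit 0) (nat_lit 4919227806) (nat_lit 532) (nat_lit 1139350029) (nat_lit 608) (nat_lit 4892971235) (nat_lit 178) (nat_lit 5) (nat_lit 185) (nat_lit 5) (nat_lit 186) (nat_lit 5) (nat_lit 346) (nat_lit 315) (nat_lit 239))) (XT.nd (nat_lit 78) (nat_lit 0) (nat_lit 0) (XT.lf (nat_lit 0) (nat_lit 104559271) (nat_lit 456) (nat_lit 8090536222) (nat_lit 532) (nat_lit 2930471759) (nat_lit 172) (nat_lit 5) (nat_lit 178) (nat_lit 5) (nat_lit 179) (nat_lit 5) (nat_lit 347) (nat_lit 315) (nat_lit 238)) (XT.lf (nat_lit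 0) (nat_lit 6506985001) (nat_lit 456) (nat_lit 3933540120) (nat_lit 532) (nat_lit 862952012) (nat_lit 172) (nat_lit 5) (nat_lit 178) (nat_lit 5) (nat_lit 179) (nat_lit 5) (nat_lit 348) (nat_lit 315) (nat_lit 237))))))))
noncomputable def xc144 : XT := (XT.nd (nat_lit 2028) (nat_lit 3192) (nat_lit 0) (XT.nd (nat_lit 1014) (nat_lit 2660) (nat_lit 0) (XT.nd (nat_lit 468) (nat_lit 1672) (nat_lit 0) (XT.nd (nat_lit 234) (nat_lit 532) (nat_lit 0) (XT.nd (nat_lit 78) (nat_lit 456) (nat_lit 0) (XT.lf (nat_lit 0) (nat_lit 1234125571) (nat_lit 532) (nat_lit 9886790261) (nat_lit 76) (nat_lit 365690529) (nat_lit 165) (nat_lit 5) (nat_lit 172) (nat_lit 5) (nat_lit 166) (nat_lit 5) (nat_lit 349) (nat_lit 315) (nat_lit 236)) (XT.nd (nat_lit 78) (nat_lit 456) (nat_lit 0) (XT.lf (nat_lit 0) (nat_lit 3438334136) (nat_lit 532) (nat_lit 3466242171) (nat_lit 76) (nat_lit 4768564260) (nat_lit 165) (nat_lit 5) (nat_lit 172) (nat_lit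 5) (nat_lit 166) (nat_lit 5) (nat_lit 350) (nat_lit 315) (nat_lit 235)) (XT.lf (nat_lit 0) (nat_lit 3179021419) (nat_lit 456) (nat_lit 2534674655) (nat_lit 532) (nat_lit 6151437814) (nat_lit 159) (nat_lit 5) (nat_lit 165) (nat_lit 5) (nat_lit 166) (nat_lit 5) (nat_lit 351) (nat_lit 315) (nat_lit 234)))) (XT.nd (nat_lit 78) (nat_lit 532) (nat_lit 0) (XT.lf (nat_lit 0) (nat_lit 8086452393) (nat_lit 532) (nat_lit 2016750908) (nat_lit 76) (nat_lit 1958823200) (nat_lit 159) (nat_lit 5) (nat_lit 166) (nat_lit 5) (nat_lit 160) (nat_lit 5) (nat_lit 352) (nat_lit 315) (nat_lit 233)) (XT.nd (nat_lit 78) (nat_lit 76) (nat_lit 0) (XT.lf (nat_lit 0) (nat_lit 4893608629) (nat_lit 456) (nat_lit 5684533683) (nat_lit 532) (nat_lit 1685264156) (nat_lit 153) (nat_lit 5) (nat_lit 159) (nat_lit 5) (nat_lit 160) (nat_lit 5) (nat_lit 353) (nat_lit 315) (nat_lit 232)) (XT.lf (nat_lit 0) (nat_lit 656969332) (nat_lit 532) (nat_lit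 453958777) (nat_lit 76) (nat_lit 11359826931) (nat_lit 152) (nat_lit 5) (nat_lit 159) (nat_lit 5) (nat_lit 153) (nat_lit 5) (nat_lit 354) (nat_lit 315) (nat_lit 231))))) (XT.nd (nat_lit 234) (nat_lit 836) (nat_lit 0) (XT.nd (nat_lit 78) (nat_lit 456) (nat_lit 0) (XT.lf (nat_lit 0) (nat_lit 3112398506) (nat_lit 456) (nat_lit 5962275872) (nat_lit 76) (nat_lit 3606857086) (nat_lit 147) (nat_lit 5) (nat_lit 153) (nat_lit 5) (nat_lit 148) (nat_lit 5) (nat_lit 355) (nat_lit 315) (nat_lit 230)) (XT.nd (nat_lit 78) (nat_lit 0) (nat_lit 0) (XT.lf (nat_lit 0) (nat_lit 1201694209) (nat_lit 456) (nat_lit 4443834103) (nat_lit 532) (nat_lit 7252993379) (nat_lit 141) (nat_lit 5) (nat_lit 147) (nat_lit 5) (nat_lit 148) (nat_lit 5) (nat_lit 356) (nat_lit 315) (nat_lit 229)) (XT.lf (nat_lit 0) (nat_lit 8295783080) (nat_lit 532) (nat_lit 4450677652) (nat_lit 76) (nat_lit 374338263) (nat_lit 141) (nat_lit 5) (nat_lit 148)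 (nat_lit 5) (nat_lit 142) (nat_lit 5) (nat_lit 357) (nat_lit 315) (nat_lit 228)))) (XT.nd (nat_lit 156) (nat_lit 380) (nat_lit 0) (XT.nd (nat_lit 78) (nat_lit 76) (nat_lit 0) (XT.lf (nat_lit 0) (nat_lit 2998696711) (nat_lit 380) (nat_lit 8077531287) (nat_lit 456) (nat_lit 2272007121) (nat_lit 136) (nat_lit 5) (nat_lit 141) (nat_lit 5) (nat_lit 142) (nat_lit 5) (nat_lit 358) (nat_lit 315) (nat_lit 227)) (XT.lf (nat_lit 0) (nat_lit 374006918) (nat_lit 456) (nat_lit 2851085495) (nat_lit 76) (nat_lit 10356607349) (nat_lit 135) (nat_lit 5) (nat_lit 141) (nat_lit 5) (nat_lit 136) (nat_lit 5) (nat_lit 359) (nat_lit 315) (nat_lit 226))) (XT.nd (nat_lit 78) (nat_lit 0) (nat_lit 0) (XT.lf (nat_lit 0) (nat_lit 3097323720) (nat_lit 456) (nat_lit 8920609439) (nat_lit 76) (nat_lit 1802262751) (nat_lit 130) (nat_lit 5) (nat_lit 136) (nat_lit 5) (nat_lit 131) (nat_lit 5) (nat_lit 360) (nat_lit 315) (nat_lit 225)) (XT.lf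 (nat_lit 0) (nat_lit 5942283219) (nat_lit 456) (nat_lit 1184281131) (nat_lit 76) (nat_lit 6938094048) (nat_lit 130) (nat_lit 5) (nat_lit 136) (nat_lit 5) (nat_lit 131) (nat_lit 5) (nat_lit 361) (nat_lit 315) (nat_lit 224)))))) (XT.nd (nat_lit 468) (nat_lit 1292) (nat_lit 0) (XT.nd (nat_lit 234) (nat_lit 608) (nat_lit 0) (XT.nd (nat_lit 78) (nat_lit 456) (nat_lit 0) (XT.lf (nat_lit 0) (nat_lit 6891127856) (nat_lit 304) (nat_lit 2027255053) (nat_lit 380) (nat_lit 5396707575) (nat_lit 126) (nat_lit 5) (nat_lit 130) (nat_lit 5) (nat_lit 131) (nat_lit 5) (nat_lit 362) (nat_lit 315) (nat_lit 223)) (XT.nd (nat_lit 78) (nat_lit 76) (nat_lit 0) (XT.lf (nat_lit 0) (nat_lit 613496098) (nat_lit 380) (nat_lit 11399060662) (nat_lit 456) (nat_lit 2559624229) (nat_lit 121) (nat_lit 5) (nat_lit 126) (nat_lit 5) (nat_lit 127) (nat_lit 5) (nat_lit 363) (nat_lit 315) (nat_lit 222)) (XT.lf (nat_lit 0) (nat_lit 431211965) (nat_lit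 456) (nat_lit 5842662868) (nat_lit 76) (nat_lit 8560742019) (nat_lit 120) (nat_lit 5) (nat_lit 126) (nat_lit 5) (nat_lit 121) (nat_lit 5) (nat_lit 364) (nat_lit 315) (nat_lit 221)))) (XT.nd (nat_lit 78) (nat_lit 304) (nat_lit 0) (XT.lf (nat_lit 0) (nat_lit 2513465238) (nat_lit 304) (nat_lit 951541387) (nat_lit 380) (nat_lit 11639026913) (nat_lit 116) (nat_lit 5) (nat_lit 120) (nat_lit 5) (nat_lit 121) (nat_lit 5) (nat_lit 365) (nat_lit 315) (nat_lit 220)) (XT.nd (nat_lit 78) (nat_lit 304) (nat_lit 0) (XT.lf (nat_lit 0) (nat_lit 6673702850) (nat_lit 380) (nat_lit 4211173343) (nat_lit 76) (nat_lit 4494148066) (nat_lit 116) (nat_lit 5) (nat_lit 121) (nat_lit 5) (nat_lit 117) (nat_lit 5) (nat_lit 366) (nat_lit 315) (nat_lit 219)) (XT.lf (nat_lit 0) (nat_lit 4470898483) (nat_lit 304) (nat_lit 5541474798) (nat_lit 380) (nat_lit 5648887949) (nat_lit 112) (nat_lit 5) (nat_lit 116) (nat_lit 5) (nat_lit 117) (nat_lit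 5) (nat_lit 367) (nat_lit 315) (nat_lit 218))))) (XT.nd (nat_lit 234) (nat_lit 912) (nat_lit 0) (XT.nd (nat_lit 78) (nat_lit 380) (nat_lit 0) (XT.lf (nat_lit 0) (nat_lit 13473490350) (nat_lit 304) (nat_lit 1844903) (nat_lit 380) (nat_lit 2475913813) (nat_lit 112) (nat_lit 5) (nat_lit 116) (nat_lit 5) (nat_lit 117) (nat_lit 5) (nat_lit 368) (nat_lit 315) (nat_lit 217)) (XT.nd (nat_lit 78) (nat_lit 0) (nat_lit 0) (XT.lf (nat_lit 0) (nat_lit 877566100) (nat_lit 380) (nat_lit 9712452608) (nat_lit 76) (nat_lit 5656673329) (nat_lit 107) (nat_lit 5) (nat_lit 112) (nat_lit 5) (nat_lit 108) (nat_lit 5) (nat_lit 369) (nat_lit 315) (nat_lit 216)) (XT.lf (nat_lit 0) (nat_lit 4289335692) (nat_lit 380) (nat_lit 733717651) (nat_lit 76) (nat_lit 11526993118) (nat_lit 107) (nat_lit 5) (nat_lit 112) (nat_lit 5) (nat_lit 108) (nat_lit 5) (nat_lit 370) (nat_lit 315) (nat_lit 215)))) (XT.nd (nat_lit 156) (nat_lit 380) (nat_lit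 0) (XT.nd (nat_lit 78) (nat_lit 228) (nat_lit 0) (XT.lf (nat_lit 0) (nat_lit 7876947110) (nat_lit 380) (nat_lit 8210103281) (nat_lit 76) (nat_lit 773253303) (nat_lit 103) (nat_lit 5) (nat_lit 108) (nat_lit 5) (nat_lit 104) (nat_lit 5) (nat_lit 371) (nat_lit 315) (nat_lit 214)) (XT.lf (nat_lit 0) (nat_lit 1097119812) (nat_lit 228) (nat_lit 10525697016) (nat_lit 304) (nat_lit 5555539557) (nat_lit 100) (nat_lit 5) (nat_lit 103) (nat_lit 5) (nat_lit 104) (nat_lit 5) (nat_lit 372) (nat_lit 315) (nat_lit 213))) (XT.nd (nat_lit 78) (nat_lit 380) (nat_lit 0) (XT.lf (nat_lit 0) (nat_lit 10826596261) (nat_lit 228) (nat_lit 4720496574) (nat_lit 304) (nat_lit 1956883362) (nat_lit 100) (nat_lit 5) (nat_lit 103) (nat_lit 5) (nat_lit 104) (nat_lit 5) (nat_lit 373) (nat_lit 315) (nat_lit 212)) (XT.lf (nat_lit 0) (nat_lit 1740599294) (nat_lit 380) (nat_lit 14825007503) (nat_lit 76) (nat_lit 1272508987) (nat_lit 95) (nat_lit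 5) (nat_lit 100) (nat_lit 5) (nat_lit 96) (nat_lit 5) (nat_lit 374) (nat_lit 315) (nat_lit 211))))))) (XT.nd (nat_lit 1014) (nat_lit 1444) (nat_lit 0) (XT.nd (nat_lit 468) (nat_lit 912) (nat_lit 0) (XT.nd (nat_lit 234) (nat_lit 608) (nat_lit 0) (XT.nd (nat_lit 78) (nat_lit 228) (nat_lit 0) (XT.lf (nat_lit 0) (nat_lit 5608121652) (nat_lit 380) (nat_lit 5140879684) (nat_lit 76) (nat_lit 7429749472) (nat_lit 95) (nat_lit 5) (nat_lit 100) (nat_lit 5) (nat_lit 96) (nat_lit 5) (nat_lit 375) (nat_lit 315) (nat_lit 210)) (XT.nd (nat_lit 78) (nat_lit 0) (nat_lit 0) (XT.lf (nat_lit 0) (nat_lit 4905185351) (nat_lit 228) (nat_lit 4717726259) (nat_lit 304) (nat_lit 8905761740) (nat_lit 92) (nat_lit 5) (nat_lit 95) (nat_lit 5) (nat_lit 96) (nat_lit 5) (nat_lit 376) (nat_lit 315) (nat_lit 209)) (XT.lf (nat_lit 0) (nat_lit 13809179687) (nat_lit 304) (nat_lit 3568862195) (nat_lit 76) (nat_lit 1509526214) (nat_lit 92) (nat_lit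 5) (nat_lit 96) (nat_lit 5) (nat_lit 93) (nat_lit 5) (nat_lit 377) (nat_lit 315) (nat_lit 208)))) (XT.nd (nat_lit 78) (nat_lit 304) (nat_lit 0) (XT.lf (nat_lit 0) (nat_lit 6850623603) (nat_lit 304) (nat_lit 11367675431) (nat_lit 380) (nat_lit 1036018154) (nat_lit 88) (nat_lit 5) (nat_lit 92) (nat_lit 5) (nat_lit 93) (nat_lit 5) (nat_lit 378) (nat_lit 315) (nat_lit 207)) (XT.nd (nat_lit 78) (nat_lit 228) (nat_lit 0) (XT.lf (nat_lit 0) (nat_lit 3087753141) (nat_lit 380) (nat_lit 2029381296) (nat_lit 76) (nat_lit 14513402630) (nat_lit 87) (nat_lit 5) (nat_lit 92) (nat_lit 5) (nat_lit 88) (nat_lit 5) (nat_lit 379) (nat_lit 315) (nat_lit 206)) (XT.lf (nat_lit 0) (nat_lit 7397717042) (nat_lit 304) (nat_lit 11234821931) (nat_lit 76) (nat_lit 1382702711) (nat_lit 84) (nat_lit 5) (nat_lit 88) (nat_lit 5) (nat_lit 85) (nat_lit 5) (nat_lit 380) (nat_lit 315) (nat_lit 205))))) (XT.nd (nat_lit 234) (nat_lit 380) (nat_lit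 0) (XT.nd (nat_lit 78) (nat_lit 532) (nat_lit 0) (XT.lf (nat_lit 0) (nat_lit 11893680354) (nat_lit 304) (nat_lit 528890990) (nat_lit 76) (nat_lit 7987219877) (nat_lit 84) (nat_lit 5) (nat_lit 88) (nat_lit 5) (nat_lit 85) (nat_lit 5) (nat_lit 381) (nat_lit 315) (nat_lit 204)) (XT.nd (nat_lit 78) (nat_lit 304) (nat_lit 0) (XT.lf (nat_lit 0) (nat_lit 10684115195) (nat_lit 228) (nat_lit 5928876733) (nat_lit 304) (nat_lit 4200535892) (nat_lit 81) (nat_lit 5) (nat_lit 84) (nat_lit 5) (nat_lit 85) (nat_lit 5) (nat_lit 382) (nat_lit 315) (nat_lit 203)) (XT.lf (nat_lit 0) (nat_lit 248052038) (nat_lit 304) (nat_lit 20226890997) (nat_lit 76) (nat_lit 754117853) (nat_lit 77) (nat_lit 5) (nat_lit 81) (nat_lit 5) (nat_lit 78) (nat_lit 5) (nat_lit 383) (nat_lit 315) (nat_lit 202)))) (XT.nd (nat_lit 156) (nat_lit 152) (nat_lit 0) (XT.nd (nat_lit 78) (nat_lit 228) (nat_lit 0) (XT.lf (nat_lit 0) (nat_lit 4893612024) (nat_lit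 304) (nat_lit 9102726021) (nat_lit 76) (nat_lit 7655040251) (nat_lit 77) (nat_lit 5) (nat_lit 81) (nat_lit 5) (nat_lit 78) (nat_lit 5) (nat_lit 384) (nat_lit 315) (nat_lit 201)) (XT.lf (nat_lit 0) (nat_lit 2379485911) (nat_lit 228) (nat_lit 7308274836) (nat_lit 304) (nat_lit 12398331959) (nat_lit 74) (nat_lit 5) (nat_lit 77) (nat_lit 5) (nat_lit 78) (nat_lit 5) (nat_lit 385) (nat_lit 315) (nat_lit 200))) (XT.nd (nat_lit 78) (nat_lit 152) (nat_lit 0) (XT.lf (nat_lit 0) (nat_lit 14370867597) (nat_lit 228) (nat_lit 333322034) (nat_lit 304) (nat_lit 7827309263) (nat_lit 74) (nat_lit 5) (nat_lit 77) (nat_lit 5) (nat_lit 78) (nat_lit 5) (nat_lit 386) (nat_lit 315) (nat_lit 199)) (XT.lf (nat_lit 0) (nat_lit 3716823971) (nat_lit 152) (nat_lit 16242720140) (nat_lit 228) (nat_lit 3028074076) (nat_lit 72) (nat_lit 5) (nat_lit 74) (nat_lit 5) (nat_lit 75) (nat_lit 5) (nat_lit 387) (nat_lit 315) (nat_lit 198)))))) (XT.nd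 (nat_lit 546) (nat_lit 684) (nat_lit 0) (XT.nd (nat_lit 234) (nat_lit 456) (nat_lit 0) (XT.nd (nat_lit 78) (nat_lit 228) (nat_lit 0) (XT.lf (nat_lit 0) (nat_lit 1951184445) (nat_lit 228) (nat_lit 7381212890) (nat_lit 76) (nat_lit 14122272588) (nat_lit 71) (nat_lit 5) (nat_lit 74) (nat_lit 5) (nat_lit 72) (nat_lit 5) (nat_lit 388) (nat_lit 315) (nat_lit 197)) (XT.nd (nat_lit 78) (nat_lit 0) (nat_lit 0) (XT.lf (nat_lit 0) (nat_lit 4909888176) (nat_lit 228) (nat_lit 2143544828) (nat_lit 304) (nat_lit 16880370143) (nat_lit 68) (nat_lit 5) (nat_lit 71) (nat_lit 5) (nat_lit 72) (nat_lit 5) (nat_lit 389) (nat_lit 315) (nat_lit 196)) (XT.lf (nat_lit 0) (nat_lit 12421962733) (nat_lit 304) (nat_lit 6776445438) (nat_lit 76) (nat_lit 5225509249) (nat_lit 68) (nat_lit 5) (nat_lit 72) (nat_lit 5) (nat_lit 69) (nat_lit 5) (nat_lit 390) (nat_lit 315) (nat_lit 195)))) (XT.nd (nat_lit 156) (nat_lit 304) (nat_lit 0) (XT.nd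 (nat_lit 78) (nat_lit 0) (nat_lit 0) (XT.lf (nat_lit 0) (nat_lit 5912114549) (nat_lit 152) (nat_lit 12105224061) (nat_lit 228) (nat_lit 6909426168) (nat_lit 66) (nat_lit 5) (nat_lit 68) (nat_lit 5) (nat_lit 69) (nat_lit 5) (nat_lit 391) (nat_lit 315) (nat_lit 194)) (XT.lf (nat_lit 0) (nat_lit 19099965516) (nat_lit 152) (nat_lit 4736937530) (nat_lit 228) (nat_lit 1606107959) (nat_lit 66) (nat_lit 5) (nat_lit 68) (nat_lit 5) (nat_lit 69) (nat_lit 5) (nat_lit 392) (nat_lit 315) (nat_lit 193))) (XT.nd (nat_lit 78) (nat_lit 0) (nat_lit 0) (XT.lf (nat_lit 0) (nat_lit 3862757920) (nat_lit 304) (nat_lit 19216294235) (nat_lit 76) (nat_lit 2892132508) (nat_lit 62) (nat_lit 5) (nat_lit 66) (nat_lit 5) (nat_lit 63) (nat_lit 5) (nat_lit 393) (nat_lit 315) (nat_lit 192)) (XT.lf (nat_lit 0) (nat_lit 9563205940) (nat_lit 304) (nat_lit 6220934910) (nat_lit 76) (nat_lit 10727594686) (nat_lit 62) (nat_lit 5) (nat_lit 66)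 (nat_lit 5) (nat_lit 63) (nat_lit 5) (nat_lit 394) (nat_lit 315) (nat_lit 191))))) (XT.nd (nat_lit 234) (nat_lit 380) (nat_lit 0) (XT.nd (nat_lit 78) (nat_lit 152) (nat_lit 0) (XT.lf (nat_lit 0) (nat_lit 7287057688) (nat_lit 152) (nat_lit 8206211222) (nat_lit 228) (nat_lit 11573478883) (nat_lit 60) (nat_lit 5) (nat_lit 62) (nat_lit 5) (nat_lit 63) (nat_lit 5) (nat_lit 395) (nat_lit 315) (nat_lit 190)) (XT.nd (nat_lit 78) (nat_lit 152) (nat_lit 0) (XT.lf (nat_lit 0) (nat_lit 21308579319) (nat_lit 152) (nat_lit 344176046) (nat_lit 228) (nat_lit 5984112224) (nat_lit 60) (nat_lit 5) (nat_lit 62) (nat_lit 5) (nat_lit 63) (nat_lit 5) (nat_lit 396) (nat_lit 315) (nat_lit 189)) (XT.lf (nat_lit 0) (nat_lit 7581125855) (nat_lit 152) (nat_lit 20552265820) (nat_lit 228) (nat_lit 86611080) (nat_lit 58) (nat_lit 5) (nat_lit 60) (nat_lit 5) (nat_lit 61) (nat_lit 5) (nat_lit 397) (nat_lit 315) (nat_lit 188)))) (XT.nd (nat_lit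 156) (nat_lit 152) (nat_lit 0) (XT.nd (nat_lit 78) (nat_lit 152) (nat_lit 0) (XT.lf (nat_lit 0) (nat_lit 5927903191) (nat_lit 228) (nat_lit 6861735164) (nat_lit 76) (nat_lit 16027561485) (nat_lit 57) (nat_lit 5) (nat_lit 60) (nat_lit 5) (nat_lit 58) (nat_lit 5) (nat_lit 398) (nat_lit 315) (nat_lit 187)) (XT.lf (nat_lit 0) (nat_lit 7454920624) (nat_lit 152) (nat_lit 4727161697) (nat_lit 228) (nat_lit 17248378187) (nat_lit 55) (nat_lit 5) (nat_lit 57) (nat_lit 5) (nat_lit 58) (nat_lit 5) (nat_lit 399) (nat_lit 315) (nat_lit 186))) (XT.nd (nat_lit 78) (nat_lit 152) (nat_lit 0) (XT.lf (nat_lit 0) (nat_lit 18717620329) (nat_lit 228) (nat_lit 7771857270) (nat_lit 76) (nat_lit 3569831824) (nat_lit 55) (nat_lit 5) (nat_lit 58) (nat_lit 5) (nat_lit 56) (nat_lit 5) (nat_lit 400) (nat_lit 315) (nat_lit 185)) (XT.lf (nat_lit 0) (nat_lit 6928388568) (nat_lit 152) (nat_lit 18623920231) (nat_lit 228) (nat_lit 5151624834)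 (nat_lit 53) (nat_lit 5) (nat_lit 55) (nat_lit 5) (nat_lit 56) (nat_lit 5) (nat_lit 401) (nat_lit 315) (nat_lit 184))))))))
noncomputable def xc145 : XT := (XT.nd (nat_lit 2028) (nat_lit 684) (nat_lit 0) (XT.nd (nat_lit 1014) (nat_lit 684) (nat_lit 0) (XT.nd (nat_lit 468) (nat_lit 456) (nat_lit 0) (XT.nd (nat_lit 234) (nat_lit 380) (nat_lit 0) (XT.nd (nat_lit 78) (nat_lit 152) (nat_lit 0) (XT.lf (nat_lit 0) (nat_lit 1269218987) (nat_lit 228) (nat_lit 9167101806) (nat_lit 76) (nat_lit 20929156035) (nat_lit 52) (nat_lit 5) (nat_lit 55) (nat_lit 5) (nat_lit 53) (nat_lit 5) (nat_lit 402) (nat_lit 315) (nat_lit 183)) (XT.nd (nat_lit 78) (nat_lit 0) (nat_lit 0) (XT.lf (nat_lit 0) (nat_lit 5926792449) (nat_lit 152) (nat_lit 1899332339) (nat_lit 228) (nat_lit 24217804127) (nat_lit 50) (nat_lit 5) (nat_lit 52) (nat_lit 5) (nat_lit 53) (nat_lit 5) (nat_lit 403) (nat_lit 315) (nat_lit 182)) (XT.lf (nat_lit 0) (nat_lit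 14729552143) (nat_lit 228) (nat_lit 11163225975) (nat_lit 76) (nat_lit 6845464112) (nat_lit 50) (nat_lit 5) (nat_lit 53) (nat_lit 5) (nat_lit 51) (nat_lit 5) (nat_lit 404) (nat_lit 315) (nat_lit 181)))) (XT.nd (nat_lit 78) (nat_lit 228) (nat_lit 0) (XT.lf (nat_lit 0) (nat_lit 4287159325) (nat_lit 152) (nat_lit 17603289545) (nat_lit 228) (nat_lit 11561427113) (nat_lit 48) (nat_lit 5) (nat_lit 50) (nat_lit 5) (nat_lit 51) (nat_lit 5) (nat_lit 405) (nat_lit 315) (nat_lit 180)) (XT.nd (nat_lit 78) (nat_lit 228) (nat_lit 0) (XT.lf (nat_lit 0) (nat_lit 20413062839) (nat_lit 152) (nat_lit 8956306126) (nat_lit 228) (nat_lit 4814455866) (nat_lit 48) (nat_lit 5) (nat_lit 50) (nat_lit 5) (nat_lit 51) (nat_lit 5) (nat_lit 406) (nat_lit 315) (nat_lit 179)) (XT.lf (nat_lit 0) (nat_lit 2088721336) (nat_lit 152) (nat_lit 15275041) (nat_lit 228) (nat_lit 32832800007) (nat_lit 45) (nat_lit 5) (nat_lit 47) (nat_lit 5) (nat_lit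 48) (nat_lit 5) (nat_lit 407) (nat_lit 315) (nat_lit 178))))) (XT.nd (nat_lit 234) (nat_lit 304) (nat_lit 0) (XT.nd (nat_lit 78) (nat_lit 152) (nat_lit 0) (XT.lf (nat_lit 0) (nat_lit 9352749332) (nat_lit 228) (nat_lit 17155906393) (nat_lit 76) (nat_lit 9195687742) (nat_lit 45) (nat_lit 5) (nat_lit 48) (nat_lit 5) (nat_lit 46) (nat_lit 5) (nat_lit 408) (nat_lit 315) (nat_lit 177)) (XT.nd (nat_lit 78) (nat_lit 152) (nat_lit 0) (XT.lf (nat_lit 0) (nat_lit 16810087189) (nat_lit 228) (nat_lit 1009215574) (nat_lit 76) (nat_lit 18675882287) (nat_lit 45) (nat_lit 5) (nat_lit 48) (nat_lit 5) (nat_lit 46) (nat_lit 5) (nat_lit 409) (nat_lit 315) (nat_lit 176)) (XT.lf (nat_lit 0) (nat_lit 15916848034) (nat_lit 152) (nat_lit 8718533681) (nat_lit 228) (nat_lit 12670044772) (nat_lit 43) (nat_lit 5) (nat_lit 45) (nat_lit 5) (nat_lit 46) (nat_lit 5) (nat_lit 410) (nat_lit 315) (nat_lit 175)))) (XT.nd (nat_lit 156) (nat_lit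 152) (nat_lit 0) (XT.nd (nat_lit 78) (nat_lit 152) (nat_lit 0) (XT.lf (nat_lit 0) (nat_lit 32703301024) (nat_lit 228) (nat_lit 4790353374) (nat_lit 76) (nat_lit 646086446) (nat_lit 43) (nat_lit 5) (nat_lit 46) (nat_lit 5) (nat_lit 44) (nat_lit 4) (nat_lit 411) (nat_lit 315) (nat_lit 174)) (XT.lf (nat_lit 0) (nat_lit 2174324694) (nat_lit 152) (nat_lit 26567302018) (nat_lit 76) (nat_lit 10250894981) (nat_lit 41) (nat_lit 5) (nat_lit 43) (nat_lit 5) (nat_lit 42) (nat_lit 5) (nat_lit 412) (nat_lit 315) (nat_lit 173))) (XT.nd (nat_lit 78) (nat_lit 152) (nat_lit 0) (XT.lf (nat_lit 0) (nat_lit 9944544089) (nat_lit 152) (nat_lit 9683512509) (nat_lit 76) (nat_lit 20240004129) (nat_lit 41) (nat_lit 5) (nat_lit 43) (nat_lit 5) (nat_lit 42) (nat_lit 5) (nat_lit 413) (nat_lit 315) (nat_lit 172)) (XT.lf (nat_lit 0) (nat_lit 7845090122) (nat_lit 152) (nat_lit 10169984838) (nat_lit 228) (nat_lit 22752776297) (nat_lit 39)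 (nat_lit 5) (nat_lit 41) (nat_lit 5) (nat_lit 42) (nat_lit 5) (nat_lit 414) (nat_lit 315) (nat_lit 171)))))) (XT.nd (nat_lit 468) (nat_lit 380) (nat_lit 0) (XT.nd (nat_lit 234) (nat_lit 152) (nat_lit 0) (XT.nd (nat_lit 78) (nat_lit 152) (nat_lit 0) (XT.lf (nat_lit 0) (nat_lit 26083411784) (nat_lit 152) (nat_lit 333985845) (nat_lit 228) (nat_lit 15274549024) (nat_lit 39) (nat_lit 5) (nat_lit 41) (nat_lit 5) (nat_lit 42) (nat_lit 5) (nat_lit 415) (nat_lit 315) (nat_lit 170)) (XT.nd (nat_lit 78) (nat_lit 76) (nat_lit 0) (XT.lf (nat_lit 0) (nat_lit 2158674345) (nat_lit 76) (nat_lit 33020108370) (nat_lit 152) (nat_lit 7461773800) (nat_lit 38) (nat_lit 5) (nat_lit 39) (nat_lit 5) (nat_lit 40) (nat_lit 4) (nat_lit 416) (nat_lit 315) (nat_lit 169)) (XT.lf (nat_lit 0) (nat_lit 728526388) (nat_lit 152) (nat_lit 22858940622) (nat_lit 76) (nat_lit 20025353217) (nat_lit 37) (nat_lit 5) (nat_lit 39) (nat_lit 5) (nat_lit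 38) (nat_lit 5) (nat_lit 417) (nat_lit 315) (nat_lit 168)))) (XT.nd (nat_lit 78) (nat_lit 152) (nat_lit 0) (XT.lf (nat_lit 0) (nat_lit 9006873682) (nat_lit 152) (nat_lit 4795179579) (nat_lit 76) (nat_lit 30810214119) (nat_lit 37) (nat_lit 5) (nat_lit 39) (nat_lit 5) (nat_lit 38) (nat_lit 5) (nat_lit 418) (nat_lit 315) (nat_lit 167)) (XT.nd (nat_lit 78) (nat_lit 0) (nat_lit 0) (XT.lf (nat_lit 0) (nat_lit 14071497561) (nat_lit 152) (nat_lit 3589873950) (nat_lit 228) (nat_lit 27976493664) (nat_lit 35) (nat_lit 5) (nat_lit 37) (nat_lit 5) (nat_lit 38) (nat_lit 5) (nat_lit 419) (nat_lit 315) (nat_lit 166)) (XT.lf (nat_lit 0) (nat_lit 26683574235) (nat_lit 228) (nat_lit 13171002053) (nat_lit 76) (nat_lit 6836413712) (nat_lit 35) (nat_lit 5) (nat_lit 38) (nat_lit 5) (nat_lit 36) (nat_lit 4) (nat_lit 420) (nat_lit 315) (nat_lit 165))))) (XT.nd (nat_lit 234) (nat_lit 228) (nat_lit 0) (XT.nd (nat_lit 78) (nat_lit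 76) (nat_lit 0) (XT.lf (nat_lit 0) (nat_lit 5841452187) (nat_lit 76) (nat_lit 30219468296) (nat_lit 152) (nat_lit 11712254925) (nat_lit 34) (nat_lit 5) (nat_lit 35) (nat_lit 5) (nat_lit 36) (nat_lit 4) (nat_lit 421) (nat_lit 315) (nat_lit 164)) (XT.nd (nat_lit 78) (nat_lit 76) (nat_lit 0) (XT.lf (nat_lit 0) (nat_lit 25681185508) (nat_lit 76) (nat_lit 20164269847) (nat_lit 152) (nat_lit 3038596103) (nat_lit 34) (nat_lit 5) (nat_lit 35) (nat_lit 5) (nat_lit 36) (nat_lit 4) (nat_lit 422) (nat_lit 315) (nat_lit 163)) (XT.lf (nat_lit 0) (nat_lit 5773239542) (nat_lit 152) (nat_lit 3981658200) (nat_lit 76) (nat_lit 40271866890) (nat_lit 33) (nat_lit 5) (nat_lit 35) (nat_lit 5) (nat_lit 34) (nat_lit 5) (nat_lit 423) (nat_lit 315) (nat_lit 162)))) (XT.nd (nat_lit 156) (nat_lit 76) (nat_lit 0) (XT.nd (nat_lit 78) (nat_lit 0) (nat_lit 0) (XT.lf (nat_lit 0) (nat_lit 14947277131) (nat_lit 228) (nat_lit 35121934843)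 (nat_lit 76) (nat_lit 1128878115) (nat_lit 31) (nat_lit 5) (nat_lit 34) (nat_lit 5) (nat_lit 32) (nat_lit 4) (nat_lit 424) (nat_lit 315) (nat_lit 161)) (XT.lf (nat_lit 0) (nat_lit 24526957712) (nat_lit 228) (nat_lit 15695505155) (nat_lit 76) (nat_lit 12178180788) (nat_lit 31) (nat_lit 5) (nat_lit 34) (nat_lit 5) (nat_lit 32) (nat_lit 4) (nat_lit 425) (nat_lit 315) (nat_lit 160))) (XT.nd (nat_lit 78) (nat_lit 0) (nat_lit 0) (XT.lf (nat_lit 0) (nat_lit 4387193382) (nat_lit 76) (nat_lit 30042438483) (nat_lit 152) (nat_lit 19208574841) (nat_lit 30) (nat_lit 5) (nat_lit 31) (nat_lit 5) (nat_lit 32) (nat_lit 4) (nat_lit 426) (nat_lit 315) (nat_lit 159)) (XT.lf (nat_lit 0) (nat_lit 25382100319) (nat_lit 76) (nat_lit 19399286359) (nat_lit 152) (nat_lit 10126950901) (nat_lit 30) (nat_lit 5) (nat_lit 31) (nat_lit 5) (nat_lit 32) (nat_lit 4) (nat_lit 427) (nat_lit 315) (nat_lit 158))))))) (XT.nd (nat_lit 1014) (nat_lit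 152) (nat_lit 0) (XT.nd (nat_lit 468) (nat_lit 228) (nat_lit 0) (XT.nd (nat_lit 234) (nat_lit 76) (nat_lit 0) (XT.nd (nat_lit 78) (nat_lit 228) (nat_lit 0) (XT.lf (nat_lit 0) (nat_lit 46995189392) (nat_lit 76) (nat_lit 8442200480) (nat_lit 152) (nat_lit 779372550) (nat_lit 30) (nat_lit 5) (nat_lit 31) (nat_lit 5) (nat_lit 32) (nat_lit 4) (nat_lit 428) (nat_lit 315) (nat_lit 157)) (XT.nd (nat_lit 78) (nat_lit 0) (nat_lit 0) (XT.lf (nat_lit 0) (nat_lit 8812717408) (nat_lit 228) (nat_lit 45761414522) (nat_lit 76) (nat_lit 2983654601) (nat_lit 27) (nat_lit 5) (nat_lit 30) (nat_lit 5) (nat_lit 28) (nat_lit 4) (nat_lit 429) (nat_lit 315) (nat_lit 156)) (XT.lf (nat_lit 0) (nat_lit 18848372109) (nat_lit 228) (nat_lit 25406054744) (nat_lit 76) (nat_lit 14679239852) (nat_lit 27) (nat_lit 5) (nat_lit 30) (nat_lit 5) (nat_lit 28) (nat_lit 4) (nat_lit 430) (nat_lit 315) (nat_lit 155)))) (XT.nd (nat_lit 78) (nat_lit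 76) (nat_lit 0) (XT.lf (nat_lit 0) (nat_lit 29179114638) (nat_lit 228) (nat_lit 4451170970) (nat_lit 76) (nat_lit 26720717946) (nat_lit 27) (nat_lit 5) (nat_lit 30) (nat_lit 5) (nat_lit 28) (nat_lit 4) (nat_lit 431) (nat_lit 315) (nat_lit 154)) (XT.nd (nat_lit 78) (nat_lit 0) (nat_lit 0) (XT.lf (nat_lit 0) (nat_lit 17462299247) (nat_lit 76) (nat_lit 22519530911) (nat_lit 152) (nat_lit 21824169618) (nat_lit 26) (nat_lit 5) (nat_lit 27) (nat_lit 5) (nat_lit 28) (nat_lit 4) (nat_lit 432) (nat_lit 315) (nat_lit 153)) (XT.lf (nat_lit 0) (nat_lit 40113711793) (nat_lit 76) (nat_lit 11034122102) (nat_lit 152) (nat_lit 12155636555) (nat_lit 26) (nat_lit 5) (nat_lit 27) (nat_lit 5) (nat_lit 28) (nat_lit 4) (nat_lit 433) (nat_lit 315) (nat_lit 152))))) (XT.nd (nat_lit 234) (nat_lit 76) (nat_lit 0) (XT.nd (nat_lit 78) (nat_lit 152) (nat_lit 0) (XT.lf (nat_lit 0) (nat_lit 62650847468) (nat_lit 152) (nat_lit 1419364931)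 (nat_lit 0) (nat_lit 775592699) (nat_lit 26) (nat_lit 5) (nat_lit 28) (nat_lit 4) (nat_lit 26) (nat_lit 4) (nat_lit 434) (nat_lit 315) (nat_lit 151)) (XT.nd (nat_lit 78) (nat_lit 0) (nat_lit 0) (XT.lf (nat_lit 0) (nat_lit 8218771343) (nat_lit 152) (nat_lit 45205402308) (nat_lit 76) (nat_lit 12998563259) (nat_lit 24) (nat_lit 5) (nat_lit 26) (nat_lit 5) (nat_lit 25) (nat_lit 4) (nat_lit 435) (nat_lit 315) (nat_lit 150)) (XT.lf (nat_lit 0) (nat_lit 18909821311) (nat_lit 152) (nat_lit 23516409092) (nat_lit 76) (nat_lit 25619824219) (nat_lit 24) (nat_lit 5) (nat_lit 26) (nat_lit 5) (nat_lit 25) (nat_lit 4) (nat_lit 436) (nat_lit 315) (nat_lit 149)))) (XT.nd (nat_lit 156) (nat_lit 0) (nat_lit 0) (XT.nd (nat_lit 78) (nat_lit 76) (nat_lit 0) (XT.lf (nat_lit 0) (nat_lit 29916312379) (nat_lit 152) (nat_lit 1186667390) (nat_lit 76) (nat_lit 38615251472) (nat_lit 24) (nat_lit 5) (nat_lit 26) (nat_lit 5) (nat_lit 25)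 (nat_lit 4) (nat_lit 437) (nat_lit 315) (nat_lit 148)) (XT.lf (nat_lit 0) (nat_lit 22237263325) (nat_lit 76) (nat_lit 19224356721) (nat_lit 152) (nat_lit 29972695098) (nat_lit 23) (nat_lit 5) (nat_lit 24) (nat_lit 5) (nat_lit 25) (nat_lit 4) (nat_lit 438) (nat_lit 315) (nat_lit 147))) (XT.nd (nat_lit 78) (nat_lit 0) (nat_lit 0) (XT.lf (nat_lit 0) (nat_lit 46378699576) (nat_lit 76) (nat_lit 6981491989) (nat_lit 152) (nat_lit 19841483485) (nat_lit 23) (nat_lit 5) (nat_lit 24) (nat_lit 5) (nat_lit 25) (nat_lit 4) (nat_lit 439) (nat_lit 315) (nat_lit 146)) (XT.lf (nat_lit 0) (nat_lit 65664854243) (nat_lit 152) (nat_lit 3841149952) (nat_lit 0) (nat_lit 5514578144) (nat_lit 23) (nat_lit 5) (nat_lit 25) (nat_lit 4) (nat_lit 23) (nat_lit 4) (nat_lit 440) (nat_lit 315) (nat_lit 145)))))) (XT.nd (nat_lit 37440) (nat_lit 0) (nat_lit 19228) (XT.nd (nat_lit 37128) (nat_lit 0) (nat_lit 20900) (XT.nd (nat_lit 78) (nat_lit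 0) (nat_lit 0) (XT.lf (nat_lit 0) (nat_lit 1676906519) (nat_lit 152) (nat_lit 56757745155) (nat_lit 76) (nat_lit 18451174274) (nat_lit 21) (nat_lit 5) (nat_lit 23) (nat_lit 5) (nat_lit 22) (nat_lit 4) (nat_lit 441) (nat_lit 315) (nat_lit 144)) (XT.nd (nat_lit 78) (nat_lit 0) (nat_lit 0) (XT.lf (nat_lit 0) (nat_lit 12886830366) (nat_lit 152) (nat_lit 34012851486) (nat_lit 76) (nat_lit 31903536107) (nat_lit 21) (nat_lit 5) (nat_lit 23) (nat_lit 5) (nat_lit 22) (nat_lit 4) (nat_lit 442) (nat_lit 315) (nat_lit 143)) (XT.lf (nat_lit 0) (nat_lit 24428371286) (nat_lit 152) (nat_lit 10594447437) (nat_lit 76) (nat_lit 45755453964) (nat_lit 21) (nat_lit 5) (nat_lit 23) (nat_lit 5) (nat_lit 22) (nat_lit 4) (nat_lit 443) (nat_lit 315) (nat_lit 142)))) (XT.nd (nat_lit 156) (nat_lit 0) (nat_lit 0) (XT.nd (nat_lit 78) (nat_lit 0) (nat_lit 0) (XT.lf (nat_lit 0) (nat_lit 626774959) (nat_lit 0) (nat_lit 626774959) (nat_lit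 836) (nat_lit 2516281804) (nat_lit 296) (nat_lit 5) (nat_lit 296) (nat_lit 3) (nat_lit 307) (nat_lit 3) (nat_lit 316) (nat_lit 316) (nat_lit 268)) (XT.lf (nat_lit 0) (nat_lit 3946482357) (nat_lit 836) (nat_lit 2688334034) (nat_lit 912) (nat_lit 974793450) (nat_lit 296) (nat_lit 5) (nat_lit 307) (nat_lit 3) (nat_lit 308) (nat_lit 5) (nat_lit 317) (nat_lit 316) (nat_lit 267))) (XT.nd (nat_lit 78) (nat_lit 0) (nat_lit 0) (XT.lf (nat_lit 76) (nat_lit 995287974) (nat_lit 0) (nat_lit 4401663805) (nat_lit 912) (nat_lit 2285708433) (nat_lit 297) (nat_lit 5) (nat_lit 296) (nat_lit 5) (nat_lit 308) (nat_lit 5) (nat_lit 318) (nat_lit 316) (nat_lit 266)) (XT.lf (nat_lit 76) (nat_lit 4815711022) (nat_lit 0) (nat_lit 2049595843) (nat_lit 912) (nat_lit 893405582) (nat_lit 297) (nat_lit 5) (nat_lit 296) (nat_lit 5) (nat_lit 308) (nat_lit 5) (nat_lit 319) (nat_lit 316) (nat_lit 265))))) (XT.nd (nat_lit 234) (nat_lit 836)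 (nat_lit 0) (XT.nd (nat_lit 78) (nat_lit 0) (nat_lit 0) (XT.lf (nat_lit 0) (nat_lit 490894380) (nat_lit 912) (nat_lit 6945205637) (nat_lit 988) (nat_lit 402006083) (nat_lit 285) (nat_lit 5) (nat_lit 297) (nat_lit 5) (nat_lit 298) (nat_lit 5) (nat_lit 320) (nat_lit 316) (nat_lit 264)) (XT.nd (nat_lit 78) (nat_lit 0) (nat_lit 0) (XT.lf (nat_lit 0) (nat_lit 1898728901) (nat_lit 912) (nat_lit 3074740380) (nat_lit 988) (nat_lit 2946186027) (nat_lit 285) (nat_lit 5) (nat_lit 297) (nat_lit 5) (nat_lit 298) (nat_lit 5) (nat_lit 321) (nat_lit 316) (nat_lit 263)) (XT.lf (nat_lit 76) (nat_lit 899759925) (nat_lit 0) (nat_lit 2408810209) (nat_lit 988) (nat_lit 4696324583) (nat_lit 286) (nat_lit 5) (nat_lit 285) (nat_lit 5) (nat_lit 298) (nat_lit 5) (nat_lit 322) (nat_lit 316) (nat_lit 262)))) (XT.nd (nat_lit 156) (nat_lit 912) (nat_lit 0) (XT.nd (nat_lit 78) (nat_lit 0) (nat_lit 0) (XT.lf (nat_lit 0) (nat_lit 4746741505)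 (nat_lit 912) (nat_lit 3068771120) (nat_lit 988) (nat_lit 277633434) (nat_lit 286) (nat_lit 5) (nat_lit 298) (nat_lit 5) (nat_lit 299) (nat_lit 5) (nat_lit 323) (nat_lit 316) (nat_lit 261)) (XT.lf (nat_lit 76) (nat_lit 1055339407) (nat_lit 0) (nat_lit 5160538929) (nat_lit 988) (nat_lit 1968566752) (nat_lit 287) (nat_lit 5) (nat_lit 286) (nat_lit 5) (nat_lit 299) (nat_lit 5) (nat_lit 324) (nat_lit 316) (nat_lit 260))) (XT.nd (nat_lit 78) (nat_lit 912) (nat_lit 0) (XT.lf (nat_lit 76) (nat_lit 5336287107) (nat_lit 0) (nat_lit 2378675364) (nat_lit 988) (nat_lit 563978164) (nat_lit 287) (nat_lit 5) (nat_lit 286) (nat_lit 5) (nat_lit 299) (nat_lit 5) (nat_lit 325) (nat_lit 316) (nat_lit 259)) (XT.lf (nat_lit 0) (nat_lit 839334891) (nat_lit 988) (nat_lit 7024455101) (nat_lit 1064) (nat_lit 513043925) (nat_lit 274) (nat_lit 5) (nat_lit 287) (nat_lit 5) (nat_lit 288) (nat_lit 5) (nat_lit 326) (nat_lit 316) (nat_lit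 258))))))))
noncomputable def xc146 : XT := (XT.nd (nat_lit 2028) (nat_lit 5396) (nat_lit 0) (XT.nd (nat_lit 1014) (nat_lit 3724) (nat_lit 0) (XT.nd (nat_lit 468) (nat_lit 4104) (nat_lit 0) (XT.nd (nat_lit 234) (nat_lit 912) (nat_lit 0) (XT.nd (nat_lit 78) (nat_lit 0) (nat_lit 0) (XT.lf (nat_lit 0) (nat_lit 2283842460) (nat_lit 988) (nat_lit 2700624346) (nat_lit 1064) (nat_lit 3492747638) (nat_lit 274) (nat_lit 5) (nat_lit 287) (nat_lit 5) (nat_lit 288) (nat_lit 5) (nat_lit 327) (nat_lit 316) (nat_lit 257)) (XT.nd (nat_lit 78) (nat_lit 0) (nat_lit 76) (XT.lf (nat_lit 76) (nat_lit 1757105831) (nat_lit 0) (nat_lit 1989596056) (nat_lit 1064) (nat_lit 4834683982) (nat_lit 275) (nat_lit 5) (nat_lit 274) (nat_lit 5) (nat_lit 288) (nat_lit 5) (nat_lit 328) (nat_lit 316) (nat_lit 256)) (XT.lf (nat_lit 0) (nat_lit 5250681455) (nat_lit 988) (nat_lit 2325905400) (nat_lit 1064) (nat_lit 1112207659) (nat_lit 275) (nat_lit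 5) (nat_lit 288) (nat_lit 5) (nat_lit 289) (nat_lit 5) (nat_lit 329) (nat_lit 316) (nat_lit 255)))) (XT.nd (nat_lit 78) (nat_lit 988) (nat_lit 0) (XT.lf (nat_lit 76) (nat_lit 2302385081) (nat_lit 0) (nat_lit 4499581925) (nat_lit 1064) (nat_lit 1997421074) (nat_lit 276) (nat_lit 5) (nat_lit 275) (nat_lit 5) (nat_lit 289) (nat_lit 5) (nat_lit 330) (nat_lit 316) (nat_lit 254)) (XT.nd (nat_lit 78) (nat_lit 988) (nat_lit 0) (XT.lf (nat_lit 76) (nat_lit 7087235515) (nat_lit 0) (nat_lit 1297265009) (nat_lit 1064) (nat_lit 529285083) (nat_lit 276) (nat_lit 5) (nat_lit 275) (nat_lit 5) (nat_lit 289) (nat_lit 5) (nat_lit 331) (nat_lit 316) (nat_lit 253)) (XT.lf (nat_lit 0) (nat_lit 974231484) (nat_lit 1064) (nat_lit 6048031169) (nat_lit 76) (nat_lit 2008779334) (nat_lit 262) (nat_lit 5) (nat_lit 276) (nat_lit 5) (nat_lit 263) (nat_lit 5) (nat_lit 332) (nat_lit 316) (nat_lit 252))))) (XT.nd (nat_lit 234) (nat_lit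 3040) (nat_lit 0) (XT.nd (nat_lit 78) (nat_lit 1064) (nat_lit 0) (XT.lf (nat_lit 0) (nat_lit 2506536941) (nat_lit 1064) (nat_lit 1226029041) (nat_lit 76) (nat_lit 5419288327) (nat_lit 262) (nat_lit 5) (nat_lit 276) (nat_lit 5) (nat_lit 263) (nat_lit 5) (nat_lit 333) (nat_lit 316) (nat_lit 251)) (XT.nd (nat_lit 78) (nat_lit 0) (nat_lit 0) (XT.lf (nat_lit 0) (nat_lit 3784580956) (nat_lit 1064) (nat_lit 300542445) (nat_lit 1140) (nat_lit 5191182621) (nat_lit 248) (nat_lit 5) (nat_lit 262) (nat_lit 5) (nat_lit 263) (nat_lit 5) (nat_lit 334) (nat_lit 316) (nat_lit 250)) (XT.lf (nat_lit 0) (nat_lit 5719414698) (nat_lit 1140) (nat_lit 495439513) (nat_lit 76) (nat_lit 3189410325) (nat_lit 248) (nat_lit 5) (nat_lit 263) (nat_lit 5) (nat_lit 249) (nat_lit 5) (nat_lit 335) (nat_lit 316) (nat_lit 249)))) (XT.nd (nat_lit 156) (nat_lit 684) (nat_lit 0) (XT.nd (nat_lit 78) (nat_lit 1216) (nat_lit 0) (XT.lf (nat_lit 0)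 (nat_lit 4709812622) (nat_lit 1140) (nat_lit 2706950740) (nat_lit 1216) (nat_lit 2118900563) (nat_lit 233) (nat_lit 5) (nat_lit 248) (nat_lit 5) (nat_lit 249) (nat_lit 5) (nat_lit 336) (nat_lit 316) (nat_lit 248)) (XT.lf (nat_lit 0) (nat_lit 378524560) (nat_lit 1216) (nat_lit 8770439788) (nat_lit 1292) (nat_lit 522545301) (nat_lit 217) (nat_lit 5) (nat_lit 233) (nat_lit 5) (nat_lit 234) (nat_lit 5) (nat_lit 337) (nat_lit 316) (nat_lit 247))) (XT.nd (nat_lit 78) (nat_lit 608) (nat_lit 0) (XT.lf (nat_lit 0) (nat_lit 1142695221) (nat_lit 1292) (nat_lit 4041083092) (nat_lit 76) (nat_lit 4626063493) (nat_lit 216) (nat_lit 5) (nat_lit 233) (nat_lit 5) (nat_lit 217) (nat_lit 5) (nat_lit 338) (nat_lit 316) (nat_lit 246)) (XT.lf (nat_lit 0) (nat_lit 1359631853) (nat_lit 608) (nat_lit 1468660506) (nat_lit 684) (nat_lit 7124469713) (nat_lit 208) (nat_lit 5) (nat_lit 216) (nat_lit 5) (nat_lit 217) (nat_lit 5) (nat_lit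 339) (nat_lit 316) (nat_lit 245)))))) (XT.nd (nat_lit 468) (nat_lit 1976) (nat_lit 0) (XT.nd (nat_lit 234) (nat_lit 1216) (nat_lit 0) (XT.nd (nat_lit 78) (nat_lit 532) (nat_lit 0) (XT.lf (nat_lit 0) (nat_lit 4596833411) (nat_lit 684) (nat_lit 3147397332) (nat_lit 76) (nat_lit 2354787742) (nat_lit 208) (nat_lit 5) (nat_lit 217) (nat_lit 5) (nat_lit 209) (nat_lit 5) (nat_lit 340) (nat_lit 316) (nat_lit 244)) (XT.nd (nat_lit 78) (nat_lit 0) (nat_lit 0) (XT.lf (nat_lit 0) (nat_lit 2465383228) (nat_lit 532) (nat_lit 3960704201) (nat_lit 608) (nat_lit 3823364705) (nat_lit 201) (nat_lit 5) (nat_lit 208) (nat_lit 5) (nat_lit 209) (nat_lit 5) (nat_lit 341) (nat_lit 316) (nat_lit 243)) (XT.lf (nat_lit 0) (nat_lit 8281467195) (nat_lit 532) (nat_lit 30557439) (nat_lit 608) (nat_lit 2092338674) (nat_lit 201) (nat_lit 5) (nat_lit 208) (nat_lit 5) (nat_lit 209) (nat_lit 5) (nat_lit 342) (nat_lit 316) (nat_lit 242))))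 (XT.nd (nat_lit 78) (nat_lit 608) (nat_lit 0) (XT.lf (nat_lit 0) (nat_lit 3712302384) (nat_lit 608) (nat_lit 6587440771) (nat_lit 684) (nat_lit 262840705) (nat_lit 193) (nat_lit 5) (nat_lit 201) (nat_lit 5) (nat_lit 202) (nat_lit 5) (nat_lit 343) (nat_lit 316) (nat_lit 241)) (XT.nd (nat_lit 78) (nat_lit 532) (nat_lit 0) (XT.lf (nat_lit 0) (nat_lit 1583017382) (nat_lit 684) (nat_lit 1004867566) (nat_lit 76) (nat_lit 8137422042) (nat_lit 192) (nat_lit 5) (nat_lit 201) (nat_lit 5) (nat_lit 193) (nat_lit 5) (nat_lit 344) (nat_lit 316) (nat_lit 240)) (XT.lf (nat_lit 0) (nat_lit 3515061370) (nat_lit 608) (nat_lit 5824004066) (nat_lit 76) (nat_lit 1552702115) (nat_lit 185) (nat_lit 5) (nat_lit 193) (nat_lit 5) (nat_lit 186) (nat_lit 5) (nat_lit 345) (nat_lit 316) (nat_lit 239))))) (XT.nd (nat_lit 234) (nat_lit 988) (nat_lit 0) (XT.nd (nat_lit 78) (nat_lit 456) (nat_lit 0) (XT.lf (nat_lit 0) (nat_lit 229406063)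 (nat_lit 532) (nat_lit 5286267451) (nat_lit 608) (nat_lit 5547246326) (nat_lit 178) (nat_lit 5) (nat_lit 185) (nat_lit 5) (nat_lit 186) (nat_lit 5) (nat_lit 346) (nat_lit 316) (nat_lit 238)) (XT.nd (nat_lit 78) (nat_lit 456) (nat_lit 0) (XT.lf (nat_lit 0) (nat_lit 6554492949) (nat_lit 532) (nat_lit 1053671751) (nat_lit 608) (nat_lit 3630101824) (nat_lit 178) (nat_lit 5) (nat_lit 185) (nat_lit 5) (nat_lit 186) (nat_lit 5) (nat_lit 347) (nat_lit 316) (nat_lit 237)) (XT.lf (nat_lit 0) (nat_lit 1621077248) (nat_lit 456) (nat_lit 8163527089) (nat_lit 532) (nat_lit 1633649252) (nat_lit 172) (nat_lit 5) (nat_lit 178) (nat_lit 5) (nat_lit 179) (nat_lit 5) (nat_lit 348) (nat_lit 316) (nat_lit 236)))) (XT.nd (nat_lit 156) (nat_lit 456) (nat_lit 0) (XT.nd (nat_lit 78) (nat_lit 456) (nat_lit 0) (XT.lf (nat_lit 0) (nat_lit 446674257) (nat_lit 532) (nat_lit 3435579766) (nat_lit 76) (nat_lit 7720311894) (nat_lit 171)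 (nat_lit 5) (nat_lit 178) (nat_lit 5) (nat_lit 172) (nat_lit 5) (nat_lit 349) (nat_lit 316) (nat_lit 235)) (XT.lf (nat_lit 0) (nat_lit 2566971446) (nat_lit 532) (nat_lit 8664077099) (nat_lit 76) (nat_lit 560575767) (nat_lit 165) (nat_lit 5) (nat_lit 172) (nat_lit 5) (nat_lit 166) (nat_lit 5) (nat_lit 350) (nat_lit 316) (nat_lit 234))) (XT.nd (nat_lit 78) (nat_lit 456) (nat_lit 0) (XT.lf (nat_lit 0) (nat_lit 4799563876) (nat_lit 532) (nat_lit 2095164515) (nat_lit 76) (nat_lit 5090178977) (nat_lit 165) (nat_lit 5) (nat_lit 172) (nat_lit 5) (nat_lit 166) (nat_lit 5) (nat_lit 351) (nat_lit 316) (nat_lit 233)) (XT.lf (nat_lit 0) (nat_lit 4734995563) (nat_lit 456) (nat_lit 2385588226) (nat_lit 532) (nat_lit 5062774739) (nat_lit 159) (nat_lit 5) (nat_lit 165) (nat_lit 5) (nat_lit 166) (nat_lit 5) (nat_lit 352) (nat_lit 316) (nat_lit 232))))))) (XT.nd (nat_lit 1014) (nat_lit 2432) (nat_lit 0) (XT.nd (nat_lit 468)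 (nat_lit 1596) (nat_lit 0) (XT.nd (nat_lit 234) (nat_lit 456) (nat_lit 0) (XT.nd (nat_lit 78) (nat_lit 912) (nat_lit 0) (XT.lf (nat_lit 0) (nat_lit 9530639059) (nat_lit 532) (nat_lit 624662344) (nat_lit 76) (nat_lit 2231892397) (nat_lit 159) (nat_lit 5) (nat_lit 166) (nat_lit 5) (nat_lit 160) (nat_lit 5) (nat_lit 353) (nat_lit 316) (nat_lit 231)) (XT.nd (nat_lit 78) (nat_lit 456) (nat_lit 0) (XT.lf (nat_lit 0) (nat_lit 6478766889) (nat_lit 456) (nat_lit 5597141229) (nat_lit 532) (nat_lit 519361002) (nat_lit 153) (nat_lit 5) (nat_lit 159) (nat_lit 5) (nat_lit 160) (nat_lit 5) (nat_lit 354) (nat_lit 316) (nat_lit 230)) (XT.lf (nat_lit 0) (nat_lit 971472765) (nat_lit 380) (nat_lit 872528059) (nat_lit 456) (nat_lit 10965266288) (nat_lit 147) (nat_lit 5) (nat_lit 152) (nat_lit 5) (nat_lit 153) (nat_lit 5) (nat_lit 355) (nat_lit 316) (nat_lit 229)))) (XT.nd (nat_lit 78) (nat_lit 456) (nat_lit 0) (XT.lf (nat_lit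 0) (nat_lit 4346123769) (nat_lit 456) (nat_lit 4702846364) (nat_lit 76) (nat_lit 3978222979) (nat_lit 147) (nat_lit 5) (nat_lit 153) (nat_lit 5) (nat_lit 148) (nat_lit 5) (nat_lit 356) (nat_lit 316) (nat_lit 228)) (XT.nd (nat_lit 78) (nat_lit 0) (nat_lit 0) (XT.lf (nat_lit 0) (nat_lit 2661941861) (nat_lit 456) (nat_lit 4273781685) (nat_lit 532) (nat_lit 6315571926) (nat_lit 141) (nat_lit 5) (nat_lit 147) (nat_lit 5) (nat_lit 148) (nat_lit 5) (nat_lit 357) (nat_lit 316) (nat_lit 227)) (XT.lf (nat_lit 0) (nat_lit 9635671658) (nat_lit 532) (nat_lit 3171127553) (nat_lit 76) (nat_lit 674352537) (nat_lit 141) (nat_lit 5) (nat_lit 148) (nat_lit 5) (nat_lit 142) (nat_lit 5) (nat_lit 358) (nat_lit 316) (nat_lit 226))))) (XT.nd (nat_lit 234) (nat_lit 760) (nat_lit 0) (XT.nd (nat_lit 78) (nat_lit 456) (nat_lit 0) (XT.lf (nat_lit 0) (nat_lit 4487874409) (nat_lit 380) (nat_lit 7993328503) (nat_lit 456) (nat_lit 1234773603)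 (nat_lit 136) (nat_lit 5) (nat_lit 141) (nat_lit 5) (nat_lit 142) (nat_lit 5) (nat_lit 359) (nat_lit 316) (nat_lit 225)) (XT.nd (nat_lit 78) (nat_lit 380) (nat_lit 0) (XT.lf (nat_lit 0) (nat_lit 1437482969) (nat_lit 456) (nat_lit 1556718318) (nat_lit 76) (nat_lit 10962886915) (nat_lit 135) (nat_lit 5) (nat_lit 141) (nat_lit 5) (nat_lit 136) (nat_lit 5) (nat_lit 360) (nat_lit 316) (nat_lit 224)) (XT.lf (nat_lit 0) (nat_lit 4228173267) (nat_lit 456) (nat_lit 7793521511) (nat_lit 76) (nat_lit 2181488652) (nat_lit 130) (nat_lit 5) (nat_lit 136) (nat_lit 5) (nat_lit 131) (nat_lit 5) (nat_lit 361) (nat_lit 316) (nat_lit 223)))) (XT.nd (nat_lit 156) (nat_lit 456) (nat_lit 0) (XT.nd (nat_lit 78) (nat_lit 0) (nat_lit 0) (XT.lf (nat_lit 0) (nat_lit 136946454) (nat_lit 304) (nat_lit 6992620544) (nat_lit 380) (nat_lit 7326294224) (nat_lit 126) (nat_lit 5) (nat_lit 130) (nat_lit 5) (nat_lit 131) (nat_lit 5) (nat_lit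 362) (nat_lit 316) (nat_lit 222)) (XT.lf (nat_lit 0) (nat_lit 8438670062) (nat_lit 304) (nat_lit 1738501422) (nat_lit 380) (nat_lit 4537181720) (nat_lit 126) (nat_lit 5) (nat_lit 130) (nat_lit 5) (nat_lit 131) (nat_lit 5) (nat_lit 363) (nat_lit 316) (nat_lit 221))) (XT.nd (nat_lit 78) (nat_lit 76) (nat_lit 0) (XT.lf (nat_lit 0) (nat_lit 1986130836) (nat_lit 380) (nat_lit 11365448837) (nat_lit 456) (nat_lit 1627967668) (nat_lit 121) (nat_lit 5) (nat_lit 126) (nat_lit 5) (nat_lit 127) (nat_lit 5) (nat_lit 364) (nat_lit 316) (nat_lit 220)) (XT.lf (nat_lit 0) (nat_lit 1404116177) (nat_lit 456) (nat_lit 4683636792) (nat_lit 76) (nat_lit 9162688901) (nat_lit 120) (nat_lit 5) (nat_lit 126) (nat_lit 5) (nat_lit 121) (nat_lit 5) (nat_lit 365) (nat_lit 316) (nat_lit 219)))))) (XT.nd (nat_lit 546) (nat_lit 1140) (nat_lit 0) (XT.nd (nat_lit 234) (nat_lit 684) (nat_lit 0) (XT.nd (nat_lit 78) (nat_lit 304) (nat_lit 0)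 (XT.lf (nat_lit 0) (nat_lit 3910093726) (nat_lit 304) (nat_lit 603571141) (nat_lit 380) (nat_lit 11014746057) (nat_lit 116) (nat_lit 5) (nat_lit 120) (nat_lit 5) (nat_lit 121) (nat_lit 5) (nat_lit 366) (nat_lit 316) (nat_lit 218)) (XT.nd (nat_lit 78) (nat_lit 304) (nat_lit 0) (XT.lf (nat_lit 0) (nat_lit 7794620100) (nat_lit 380) (nat_lit 3030373742) (nat_lit 76) (nat_lit 4987389299) (nat_lit 116) (nat_lit 5) (nat_lit 121) (nat_lit 5) (nat_lit 117) (nat_lit 5) (nat_lit 367) (nat_lit 316) (nat_lit 217)) (XT.lf (nat_lit 0) (nat_lit 5899345192) (nat_lit 304) (nat_lit 5319730562) (nat_lit 380) (nat_lit 4884454094) (nat_lit 112) (nat_lit 5) (nat_lit 116) (nat_lit 5) (nat_lit 117) (nat_lit 5) (nat_lit 368) (nat_lit 316) (nat_lit 216)))) (XT.nd (nat_lit 156) (nat_lit 304) (nat_lit 0) (XT.nd (nat_lit 78) (nat_lit 380) (nat_lit 0) (XT.lf (nat_lit 0) (nat_lit 14763131273) (nat_lit 380) (nat_lit 1272306812) (nat_lit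 76) (nat_lit 367474139) (nat_lit 112) (nat_lit 5) (nat_lit 117) (nat_lit 5) (nat_lit 113) (nat_lit 5) (nat_lit 369) (nat_lit 316) (nat_lit 215)) (XT.lf (nat_lit 0) (nat_lit 1782858417) (nat_lit 380) (nat_lit 8718766286) (nat_lit 76) (nat_lit 6205752039) (nat_lit 107) (nat_lit 5) (nat_lit 112) (nat_lit 5) (nat_lit 108) (nat_lit 5) (nat_lit 370) (nat_lit 316) (nat_lit 214))) (XT.nd (nat_lit 78) (nat_lit 0) (nat_lit 0) (XT.lf (nat_lit 0) (nat_lit 501691600) (nat_lit 304) (nat_lit 4774511131) (nat_lit 380) (nat_lit 11744262527) (nat_lit 103) (nat_lit 5) (nat_lit 107) (nat_lit 5) (nat_lit 108) (nat_lit 5) (nat_lit 371) (nat_lit 316) (nat_lit 213)) (XT.lf (nat_lit 0) (nat_lit 8957437189) (nat_lit 380) (nat_lit 7199265500) (nat_lit 76) (nat_lit 1183757494) (nat_lit 103) (nat_lit 5) (nat_lit 108) (nat_lit 5) (nat_lit 104) (nat_lit 5) (nat_lit 372) (nat_lit 316) (nat_lit 212))))) (XT.nd (nat_lit 234) (nat_lit 532)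 (nat_lit 0) (XT.nd (nat_lit 78) (nat_lit 380) (nat_lit 0) (XT.lf (nat_lit 0) (nat_lit 2374849375) (nat_lit 228) (nat_lit 10428211741) (nat_lit 304) (nat_lit 4865381525) (nat_lit 100) (nat_lit 5) (nat_lit 103) (nat_lit 5) (nat_lit 104) (nat_lit 5) (nat_lit 373) (nat_lit 316) (nat_lit 211)) (XT.nd (nat_lit 78) (nat_lit 380) (nat_lit 0) (XT.lf (nat_lit 0) (nat_lit 12359953342) (nat_lit 228) (nat_lit 4460891873) (nat_lit 304) (nat_lit 1183721690) (nat_lit 100) (nat_lit 5) (nat_lit 103) (nat_lit 5) (nat_lit 104) (nat_lit 5) (nat_lit 374) (nat_lit 316) (nat_lit 210)) (XT.lf (nat_lit 0) (nat_lit 2600293959) (nat_lit 380) (nat_lit 14036216952) (nat_lit 76) (nat_lit 1712233358) (nat_lit 95) (nat_lit 5) (nat_lit 100) (nat_lit 5) (nat_lit 96) (nat_lit 5) (nat_lit 375) (nat_lit 316) (nat_lit 209)))) (XT.nd (nat_lit 156) (nat_lit 304) (nat_lit 0) (XT.nd (nat_lit 78) (nat_lit 228) (nat_lit 0) (XT.lf (nat_lit 0) (nat_lit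 6560323249) (nat_lit 380) (nat_lit 4097493670) (nat_lit 76) (nat_lit 8042495452) (nat_lit 95) (nat_lit 5) (nat_lit 100) (nat_lit 5) (nat_lit 96) (nat_lit 5) (nat_lit 376) (nat_lit 316) (nat_lit 208)) (XT.lf (nat_lit 0) (nat_lit 6238212017) (nat_lit 228) (nat_lit 4445910481) (nat_lit 304) (nat_lit 8376961345) (nat_lit 92) (nat_lit 5) (nat_lit 95) (nat_lit 5) (nat_lit 96) (nat_lit 5) (nat_lit 377) (nat_lit 316) (nat_lit 207))) (XT.nd (nat_lit 78) (nat_lit 304) (nat_lit 0) (XT.lf (nat_lit 0) (nat_lit 14977335553) (nat_lit 304) (nat_lit 2505687805) (nat_lit 76) (nat_lit 1948289347) (nat_lit 92) (nat_lit 5) (nat_lit 96) (nat_lit 5) (nat_lit 93) (nat_lit 5) (nat_lit 378) (nat_lit 316) (nat_lit 206)) (XT.lf (nat_lit 0) (nat_lit 8214909623) (nat_lit 304) (nat_lit 11292999954) (nat_lit 380) (nat_lit 301487007) (nat_lit 88) (nat_lit 5) (nat_lit 92) (nat_lit 5) (nat_lit 93) (nat_lit 5) (nat_lit 379) (nat_lit 316)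 (nat_lit 205))))))))
noncomputable def xc147 : XT := (XT.nd (nat_lit 2106) (nat_lit 1672) (nat_lit 0) (XT.nd (nat_lit 1014) (nat_lit 1368) (nat_lit 0) (XT.nd (nat_lit 468) (nat_lit 836) (nat_lit 0) (XT.nd (nat_lit 234) (nat_lit 304) (nat_lit 0) (XT.nd (nat_lit 78) (nat_lit 456) (nat_lit 0) (XT.lf (nat_lit 0) (nat_lit 3909193357) (nat_lit 380) (nat_lit 950497779) (nat_lit 76) (nat_lit 15337654368) (nat_lit 87) (nat_lit 5) (nat_lit 92) (nat_lit 5) (nat_lit 88) (nat_lit 5) (nat_lit 380) (nat_lit 316) (nat_lit 204)) (XT.nd (nat_lit 78) (nat_lit 228) (nat_lit 0) (XT.lf (nat_lit 0) (nat_lit 8342020200) (nat_lit 304) (nat_lit 10425429303) (nat_lit 76) (nat_lit 1826341926) (nat_lit 84) (nat_lit 5) (nat_lit 88) (nat_lit 5) (nat_lit 85) (nat_lit 5) (nat_lit 381) (nat_lit 316) (nat_lit 203)) (XT.lf (nat_lit 0) (nat_lit 579598237) (nat_lit 228) (nat_lit 12377795676) (nat_lit 304) (nat_lit 8043254479) (nat_lit 81) (nat_lit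 5) (nat_lit 84) (nat_lit 5) (nat_lit 85) (nat_lit 5) (nat_lit 382) (nat_lit 316) (nat_lit 202)))) (XT.nd (nat_lit 78) (nat_lit 304) (nat_lit 0) (XT.lf (nat_lit 0) (nat_lit 12106772344) (nat_lit 228) (nat_lit 5696108283) (nat_lit 304) (nat_lit 3614085270) (nat_lit 81) (nat_lit 5) (nat_lit 84) (nat_lit 5) (nat_lit 85) (nat_lit 5) (nat_lit 383) (nat_lit 316) (nat_lit 201)) (XT.nd (nat_lit 78) (nat_lit 0) (nat_lit 0) (XT.lf (nat_lit 0) (nat_lit 948339226) (nat_lit 304) (nat_lit 19711516664) (nat_lit 76) (nat_lit 1185081457) (nat_lit 77) (nat_lit 5) (nat_lit 81) (nat_lit 5) (nat_lit 78) (nat_lit 5) (nat_lit 384) (nat_lit 316) (nat_lit 200)) (XT.lf (nat_lit 0) (nat_lit 5713086042) (nat_lit 304) (nat_lit 8286311624) (nat_lit 76) (nat_lit 8281138127) (nat_lit 77) (nat_lit 5) (nat_lit 81) (nat_lit 5) (nat_lit 78) (nat_lit 5) (nat_lit 385) (nat_lit 316) (nat_lit 199))))) (XT.nd (nat_lit 234) (nat_lit 456) (nat_lit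 0) (XT.nd (nat_lit 78) (nat_lit 152) (nat_lit 0) (XT.lf (nat_lit 0) (nat_lit 3529685331) (nat_lit 228) (nat_lit 7112151920) (nat_lit 304) (nat_lit 12086736981) (nat_lit 74) (nat_lit 5) (nat_lit 77) (nat_lit 5) (nat_lit 78) (nat_lit 5) (nat_lit 386) (nat_lit 316) (nat_lit 198)) (XT.nd (nat_lit 78) (nat_lit 152) (nat_lit 0) (XT.lf (nat_lit 0) (nat_lit 15790011688) (nat_lit 304) (nat_lit 7339117693) (nat_lit 76) (nat_lit 58781410) (nat_lit 74) (nat_lit 5) (nat_lit 78) (nat_lit 5) (nat_lit 75) (nat_lit 5) (nat_lit 387) (nat_lit 316) (nat_lit 197)) (XT.lf (nat_lit 0) (nat_lit 4880939130) (nat_lit 152) (nat_lit 16316632538) (nat_lit 228) (nat_lit 2460311245) (nat_lit 72) (nat_lit 5) (nat_lit 74) (nat_lit 5) (nat_lit 75) (nat_lit 5) (nat_lit 388) (nat_lit 316) (nat_lit 196)))) (XT.nd (nat_lit 156) (nat_lit 152) (nat_lit 0) (XT.nd (nat_lit 78) (nat_lit 228) (nat_lit 0) (XT.lf (nat_lit 0) (nat_lit 2636664926) (nat_lit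 228) (nat_lit 6568044088) (nat_lit 76) (nat_lit 14934616787) (nat_lit 71) (nat_lit 5) (nat_lit 74) (nat_lit 5) (nat_lit 72) (nat_lit 5) (nat_lit 389) (nat_lit 316) (nat_lit 195)) (XT.lf (nat_lit 0) (nat_lit 6081646822) (nat_lit 228) (nat_lit 1801921343) (nat_lit 304) (nat_lit 16749522363) (nat_lit 68) (nat_lit 5) (nat_lit 71) (nat_lit 5) (nat_lit 72) (nat_lit 5) (nat_lit 390) (nat_lit 316) (nat_lit 194))) (XT.nd (nat_lit 78) (nat_lit 152) (nat_lit 0) (XT.lf (nat_lit 0) (nat_lit 13398926680) (nat_lit 304) (nat_lit 5970722618) (nat_lit 76) (nat_lit 5768690718) (nat_lit 68) (nat_lit 5) (nat_lit 72) (nat_lit 5) (nat_lit 69) (nat_lit 5) (nat_lit 391) (nat_lit 316) (nat_lit 193)) (XT.lf (nat_lit 0) (nat_lit 7088601853) (nat_lit 152) (nat_lit 12065565052) (nat_lit 228) (nat_lit 6502350626) (nat_lit 66) (nat_lit 5) (nat_lit 68) (nat_lit 5) (nat_lit 69) (nat_lit 5) (nat_lit 392) (nat_lit 316) (nat_lit 192))))))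 (XT.nd (nat_lit 546) (nat_lit 684) (nat_lit 0) (XT.nd (nat_lit 234) (nat_lit 380) (nat_lit 0) (XT.nd (nat_lit 78) (nat_lit 304) (nat_lit 0) (XT.lf (nat_lit 0) (nat_lit 20642987654) (nat_lit 152) (nat_lit 4487962421) (nat_lit 228) (nat_lit 1057826803) (nat_lit 66) (nat_lit 5) (nat_lit 68) (nat_lit 5) (nat_lit 69) (nat_lit 5) (nat_lit 393) (nat_lit 316) (nat_lit 191)) (XT.nd (nat_lit 78) (nat_lit 0) (nat_lit 0) (XT.lf (nat_lit 0) (nat_lit 4559574887) (nat_lit 304) (nat_lit 18806930728) (nat_lit 76) (nat_lit 3366239271) (nat_lit 62) (nat_lit 5) (nat_lit 66) (nat_lit 5) (nat_lit 63) (nat_lit 5) (nat_lit 394) (nat_lit 316) (nat_lit 190)) (XT.lf (nat_lit 0) (nat_lit 10414115934) (nat_lit 304) (nat_lit 5450424769) (nat_lit 76) (nat_lit 11425483486) (nat_lit 62) (nat_lit 5) (nat_lit 66) (nat_lit 5) (nat_lit 63) (nat_lit 5) (nat_lit 395) (nat_lit 316) (nat_lit 189)))) (XT.nd (nat_lit 156) (nat_lit 228) (nat_lit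 0) (XT.nd (nat_lit 78) (nat_lit 0) (nat_lit 0) (XT.lf (nat_lit 0) (nat_lit 8453423900) (nat_lit 152) (nat_lit 8061339703) (nat_lit 228) (nat_lit 11347146892) (nat_lit 60) (nat_lit 5) (nat_lit 62) (nat_lit 5) (nat_lit 63) (nat_lit 5) (nat_lit 396) (nat_lit 316) (nat_lit 188)) (XT.lf (nat_lit 0) (nat_lit 22843062102) (nat_lit 228) (nat_lit 5581879598) (nat_lit 76) (nat_lit 24675404) (nat_lit 60) (nat_lit 5) (nat_lit 63) (nat_lit 5) (nat_lit 61) (nat_lit 5) (nat_lit 397) (nat_lit 316) (nat_lit 187))) (XT.nd (nat_lit 78) (nat_lit 0) (nat_lit 0) (XT.lf (nat_lit 0) (nat_lit 455140604) (nat_lit 228) (nat_lit 20322555579) (nat_lit 76) (nat_lit 8272527051) (nat_lit 57) (nat_lit 5) (nat_lit 60) (nat_lit 5) (nat_lit 58) (nat_lit 5) (nat_lit 398) (nat_lit 316) (nat_lit 186)) (XT.lf (nat_lit 0) (nat_lit 6632545355) (nat_lit 228) (nat_lit 6160179362) (nat_lit 76) (nat_lit 16873063614) (nat_lit 57) (nat_lit 5) (nat_lit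 60) (nat_lit 5) (nat_lit 58) (nat_lit 5) (nat_lit 399) (nat_lit 316) (nat_lit 185))))) (XT.nd (nat_lit 234) (nat_lit 380) (nat_lit 0) (XT.nd (nat_lit 78) (nat_lit 152) (nat_lit 0) (XT.lf (nat_lit 0) (nat_lit 8577079945) (nat_lit 152) (nat_lit 4490563122) (nat_lit 228) (nat_lit 17230008549) (nat_lit 55) (nat_lit 5) (nat_lit 57) (nat_lit 5) (nat_lit 58) (nat_lit 5) (nat_lit 400) (nat_lit 316) (nat_lit 184)) (XT.nd (nat_lit 78) (nat_lit 152) (nat_lit 0) (XT.lf (nat_lit 0) (nat_lit 19787630315) (nat_lit 228) (nat_lit 7120938358) (nat_lit 76) (nat_lit 4037149319) (nat_lit 55) (nat_lit 5) (nat_lit 58) (nat_lit 5) (nat_lit 56) (nat_lit 5) (nat_lit 401) (nat_lit 316) (nat_lit 183)) (XT.lf (nat_lit 0) (nat_lit 8011647456) (nat_lit 152) (nat_lit 18809316795) (nat_lit 228) (nat_lit 4788911920) (nat_lit 53) (nat_lit 5) (nat_lit 55) (nat_lit 5) (nat_lit 56) (nat_lit 5) (nat_lit 402) (nat_lit 316) (nat_lit 182)))) (XT.nd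 (nat_lit 156) (nat_lit 152) (nat_lit 0) (XT.nd (nat_lit 78) (nat_lit 152) (nat_lit 0) (XT.lf (nat_lit 0) (nat_lit 1799691693) (nat_lit 228) (nat_lit 8582298874) (nat_lit 76) (nat_lit 21909572276) (nat_lit 52) (nat_lit 5) (nat_lit 55) (nat_lit 5) (nat_lit 53) (nat_lit 5) (nat_lit 403) (nat_lit 316) (nat_lit 181)) (XT.lf (nat_lit 0) (nat_lit 6955982640) (nat_lit 152) (nat_lit 1591164441) (nat_lit 228) (nat_lit 24443409240) (nat_lit 50) (nat_lit 5) (nat_lit 52) (nat_lit 5) (nat_lit 53) (nat_lit 5) (nat_lit 404) (nat_lit 316) (nat_lit 180))) (XT.nd (nat_lit 78) (nat_lit 152) (nat_lit 0) (XT.lf (nat_lit 0) (nat_lit 15646922759) (nat_lit 228) (nat_lit 10660679206) (nat_lit 76) (nat_lit 7398422714) (nat_lit 50) (nat_lit 5) (nat_lit 53) (nat_lit 5) (nat_lit 51) (nat_lit 5) (nat_lit 405) (nat_lit 316) (nat_lit 179)) (XT.lf (nat_lit 0) (nat_lit 5245007423) (nat_lit 152) (nat_lit 17771761013) (nat_lit 228) (nat_lit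 11424478268) (nat_lit 48) (nat_lit 5) (nat_lit 50) (nat_lit 5) (nat_lit 51) (nat_lit 5) (nat_lit 406) (nat_lit 316) (nat_lit 178))))))) (XT.nd (nat_lit 1014) (nat_lit 836) (nat_lit 0) (XT.nd (nat_lit 468) (nat_lit 456) (nat_lit 0) (XT.nd (nat_lit 234) (nat_lit 152) (nat_lit 0) (XT.nd (nat_lit 78) (nat_lit 228) (nat_lit 0) (XT.lf (nat_lit 0) (nat_lit 21830535616) (nat_lit 152) (nat_lit 8875842671) (nat_lit 228) (nat_lit 4489188903) (nat_lit 48) (nat_lit 5) (nat_lit 50) (nat_lit 5) (nat_lit 51) (nat_lit 5) (nat_lit 407) (nat_lit 316) (nat_lit 177)) (XT.nd (nat_lit 78) (nat_lit 0) (nat_lit 0) (XT.lf (nat_lit 0) (nat_lit 2625216308) (nat_lit 228) (nat_lit 33016654911) (nat_lit 76) (nat_lit 329196944) (nat_lit 45) (nat_lit 5) (nat_lit 48) (nat_lit 5) (nat_lit 46) (nat_lit 5) (nat_lit 408) (nat_lit 316) (nat_lit 176)) (XT.lf (nat_lit 0) (nat_lit 10078235964) (nat_lit 228) (nat_lit 16877660136) (nat_lit 76) (nat_lit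 9806144030) (nat_lit 45) (nat_lit 5) (nat_lit 48) (nat_lit 5) (nat_lit 46) (nat_lit 5) (nat_lit 409) (nat_lit 316) (nat_lit 175)))) (XT.nd (nat_lit 78) (nat_lit 152) (nat_lit 0) (XT.lf (nat_lit 0) (nat_lit 17746335583) (nat_lit 228) (nat_lit 269663450) (nat_lit 76) (nat_lit 19560999197) (nat_lit 45) (nat_lit 5) (nat_lit 48) (nat_lit 5) (nat_lit 46) (nat_lit 5) (nat_lit 410) (nat_lit 316) (nat_lit 174)) (XT.nd (nat_lit 78) (nat_lit 0) (nat_lit 0) (XT.lf (nat_lit 0) (nat_lit 17156634727) (nat_lit 152) (nat_lit 8644500787) (nat_lit 228) (nat_lit 12610571447) (nat_lit 43) (nat_lit 5) (nat_lit 45) (nat_lit 5) (nat_lit 46) (nat_lit 5) (nat_lit 411) (nat_lit 316) (nat_lit 173)) (XT.lf (nat_lit 0) (nat_lit 34101796398) (nat_lit 228) (nat_lit 4184609911) (nat_lit 76) (nat_lit 984925695) (nat_lit 43) (nat_lit 5) (nat_lit 46) (nat_lit 5) (nat_lit 44) (nat_lit 4) (nat_lit 412) (nat_lit 316) (nat_lit 172))))) (XT.nd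 (nat_lit 234) (nat_lit 152) (nat_lit 0) (XT.nd (nat_lit 78) (nat_lit 152) (nat_lit 0) (XT.lf (nat_lit 0) (nat_lit 2656085452) (nat_lit 152) (nat_lit 26613850189) (nat_lit 76) (nat_lit 10879791142) (nat_lit 41) (nat_lit 5) (nat_lit 43) (nat_lit 5) (nat_lit 42) (nat_lit 5) (nat_lit 413) (nat_lit 316) (nat_lit 171)) (XT.nd (nat_lit 78) (nat_lit 152) (nat_lit 0) (XT.lf (nat_lit 0) (nat_lit 10647279457) (nat_lit 152) (nat_lit 9245405370) (nat_lit 76) (nat_lit 21159213294) (nat_lit 41) (nat_lit 5) (nat_lit 43) (nat_lit 5) (nat_lit 42) (nat_lit 5) (nat_lit 414) (nat_lit 316) (nat_lit 170)) (XT.lf (nat_lit 0) (nat_lit 8801912080) (nat_lit 152) (nat_lit 10153170765) (nat_lit 228) (nat_lit 23023746934) (nat_lit 39) (nat_lit 5) (nat_lit 41) (nat_lit 5) (nat_lit 42) (nat_lit 5) (nat_lit 415) (nat_lit 316) (nat_lit 169)))) (XT.nd (nat_lit 156) (nat_lit 76) (nat_lit 0) (XT.nd (nat_lit 78) (nat_lit 76) (nat_lit 0) (XT.lf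 (nat_lit 0) (nat_lit 27566369725) (nat_lit 152) (nat_lit 31467927) (nat_lit 228) (nat_lit 15333161561) (nat_lit 39) (nat_lit 5) (nat_lit 41) (nat_lit 5) (nat_lit 42) (nat_lit 5) (nat_lit 416) (nat_lit 316) (nat_lit 168)) (XT.lf (nat_lit 0) (nat_lit 2925639180) (nat_lit 76) (nat_lit 33694793343) (nat_lit 152) (nat_lit 7287685790) (nat_lit 38) (nat_lit 5) (nat_lit 39) (nat_lit 5) (nat_lit 40) (nat_lit 4) (nat_lit 417) (nat_lit 316) (nat_lit 167))) (XT.nd (nat_lit 78) (nat_lit 0) (nat_lit 0) (XT.lf (nat_lit 0) (nat_lit 1129193789) (nat_lit 152) (nat_lit 22855355202) (nat_lit 76) (nat_lit 20925228993) (nat_lit 37) (nat_lit 5) (nat_lit 39) (nat_lit 5) (nat_lit 38) (nat_lit 5) (nat_lit 418) (nat_lit 316) (nat_lit 166)) (XT.lf (nat_lit 0) (nat_lit 9644858154) (nat_lit 152) (nat_lit 4269759589) (nat_lit 76) (nat_lit 32024923630) (nat_lit 37) (nat_lit 5) (nat_lit 39) (nat_lit 5) (nat_lit 38) (nat_lit 5) (nat_lit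 419) (nat_lit 316) (nat_lit 165)))))) (XT.nd (nat_lit 546) (nat_lit 380) (nat_lit 0) (XT.nd (nat_lit 234) (nat_lit 228) (nat_lit 0) (XT.nd (nat_lit 78) (nat_lit 76) (nat_lit 0) (XT.lf (nat_lit 0) (nat_lit 15156356342) (nat_lit 152) (nat_lit 3398292999) (nat_lit 228) (nat_lit 28441389775) (nat_lit 35) (nat_lit 5) (nat_lit 37) (nat_lit 5) (nat_lit 38) (nat_lit 5) (nat_lit 420) (nat_lit 316) (nat_lit 164)) (XT.nd (nat_lit 78) (nat_lit 76) (nat_lit 0) (XT.lf (nat_lit 0) (nat_lit 27839725656) (nat_lit 228) (nat_lit 12914870918) (nat_lit 76) (nat_lit 7326396604) (nat_lit 35) (nat_lit 5) (nat_lit 38) (nat_lit 5) (nat_lit 36) (nat_lit 4) (nat_lit 421) (nat_lit 316) (nat_lit 163)) (XT.lf (nat_lit 0) (nat_lit 6661572036) (nat_lit 76) (nat_lit 30832660632) (nat_lit 152) (nat_lit 11701537934) (nat_lit 34) (nat_lit 5) (nat_lit 35) (nat_lit 5) (nat_lit 36) (nat_lit 4) (nat_lit 422) (nat_lit 316) (nat_lit 162)))) (XT.nd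 (nat_lit 156) (nat_lit 152) (nat_lit 0) (XT.nd (nat_lit 78) (nat_lit 76) (nat_lit 0) (XT.lf (nat_lit 0) (nat_lit 27077714553) (nat_lit 76) (nat_lit 20484351619) (nat_lit 152) (nat_lit 2778215502) (nat_lit 34) (nat_lit 5) (nat_lit 35) (nat_lit 5) (nat_lit 36) (nat_lit 4) (nat_lit 423) (nat_lit 316) (nat_lit 161)) (XT.lf (nat_lit 0) (nat_lit 6281076246) (nat_lit 152) (nat_lit 3486539397) (nat_lit 76) (nat_lit 41749861924) (nat_lit 33) (nat_lit 5) (nat_lit 35) (nat_lit 5) (nat_lit 34) (nat_lit 5) (nat_lit 424) (nat_lit 316) (nat_lit 160))) (XT.nd (nat_lit 78) (nat_lit 0) (nat_lit 0) (XT.lf (nat_lit 0) (nat_lit 15729108263) (nat_lit 228) (nat_lit 35559748302) (nat_lit 76) (nat_lit 1435124503) (nat_lit 31) (nat_lit 5) (nat_lit 34) (nat_lit 5) (nat_lit 32) (nat_lit 4) (nat_lit 425) (nat_lit 316) (nat_lit 159)) (XT.lf (nat_lit 0) (nat_lit 25586468209) (nat_lit 228) (nat_lit 15568462945) (nat_lit 76) (nat_lit 12807972856)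 (nat_lit 31) (nat_lit 5) (nat_lit 34) (nat_lit 5) (nat_lit 32) (nat_lit 4) (nat_lit 426) (nat_lit 316) (nat_lit 158))))) (XT.nd (nat_lit 234) (nat_lit 304) (nat_lit 0) (XT.nd (nat_lit 78) (nat_lit 0) (nat_lit 0) (XT.lf (nat_lit 0) (nat_lit 5110854712) (nat_lit 76) (nat_lit 30671630772) (nat_lit 152) (nat_lit 19455221976) (nat_lit 30) (nat_lit 5) (nat_lit 31) (nat_lit 5) (nat_lit 32) (nat_lit 4) (nat_lit 427) (nat_lit 316) (nat_lit 157)) (XT.nd (nat_lit 78) (nat_lit 0) (nat_lit 0) (XT.lf (nat_lit 0) (nat_lit 26718364813) (nat_lit 76) (nat_lit 19717108769) (nat_lit 152) (nat_lit 10110749612) (nat_lit 30) (nat_lit 5) (nat_lit 31) (nat_lit 5) (nat_lit 32) (nat_lit 4) (nat_lit 428) (nat_lit 316) (nat_lit 156)) (XT.lf (nat_lit 0) (nat_lit 48963104767) (nat_lit 76) (nat_lit 8439004183) (nat_lit 152) (nat_lit 492064585) (nat_lit 30) (nat_lit 5) (nat_lit 31) (nat_lit 5) (nat_lit 32) (nat_lit 4) (nat_lit 429) (nat_lit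 316) (nat_lit 155)))) (XT.nd (nat_lit 156) (nat_lit 76) (nat_lit 0) (XT.nd (nat_lit 78) (nat_lit 0) (nat_lit 0) (XT.lf (nat_lit 0) (nat_lit 9380698067) (nat_lit 228) (nat_lit 46569023378) (nat_lit 76) (nat_lit 3325649387) (nat_lit 27) (nat_lit 5) (nat_lit 30) (nat_lit 5) (nat_lit 28) (nat_lit 4) (nat_lit 430) (nat_lit 316) (nat_lit 154)) (XT.lf (nat_lit 0) (nat_lit 19708579716) (nat_lit 228) (nat_lit 25619465921) (nat_lit 76) (nat_lit 15364748259) (nat_lit 27) (nat_lit 5) (nat_lit 30) (nat_lit 5) (nat_lit 28) (nat_lit 4) (nat_lit 431) (nat_lit 316) (nat_lit 153))) (XT.nd (nat_lit 78) (nat_lit 76) (nat_lit 0) (XT.lf (nat_lit 0) (nat_lit 30340659381) (nat_lit 228) (nat_lit 4051919239) (nat_lit 76) (nat_lit 27760330952) (nat_lit 27) (nat_lit 5) (nat_lit 30) (nat_lit 5) (nat_lit 28) (nat_lit 4) (nat_lit 432) (nat_lit 316) (nat_lit 152)) (XT.lf (nat_lit 0) (nat_lit 18513731684) (nat_lit 76) (nat_lit 22950460860)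 (nat_lit 152) (nat_lit 22187462187) (nat_lit 26) (nat_lit 5) (nat_lit 27) (nat_lit 5) (nat_lit 28) (nat_lit 4) (nat_lit 433) (nat_lit 316) (nat_lit 151))))))))
noncomputable def xc148 : XT := (XT.nd (nat_lit 39000) (nat_lit 0) (nat_lit 9120) (XT.nd (nat_lit 37986) (nat_lit 0) (nat_lit 18240) (XT.nd (nat_lit 468) (nat_lit 152) (nat_lit 0) (XT.nd (nat_lit 234) (nat_lit 76) (nat_lit 0) (XT.nd (nat_lit 78) (nat_lit 152) (nat_lit 0) (XT.lf (nat_lit 0) (nat_lit 41829320680) (nat_lit 76) (nat_lit 11127615688) (nat_lit 152) (nat_lit 12237361459) (nat_lit 26) (nat_lit 5) (nat_lit 27) (nat_lit 5) (nat_lit 28) (nat_lit 4) (nat_lit 434) (nat_lit 316) (nat_lit 150)) (XT.nd (nat_lit 78) (nat_lit 152) (nat_lit 0) (XT.lf (nat_lit 0) (nat_lit 64799257107) (nat_lit 152) (nat_lit 958847834) (nat_lit 0) (nat_lit 1024972140) (nat_lit 26) (nat_lit 5) (nat_lit 28) (nat_lit 4) (nat_lit 26) (nat_lit 4) (nat_lit 435) (nat_lit 316)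 (nat_lit 149)) (XT.lf (nat_lit 0) (nat_lit 8733841815) (nat_lit 152) (nat_lit 46058021247) (nat_lit 76) (nat_lit 13615467139) (nat_lit 24) (nat_lit 5) (nat_lit 26) (nat_lit 5) (nat_lit 25) (nat_lit 4) (nat_lit 436) (nat_lit 316) (nat_lit 148)))) (XT.nd (nat_lit 78) (nat_lit 76) (nat_lit 0) (XT.lf (nat_lit 0) (nat_lit 19737802680) (nat_lit 152) (nat_lit 23733024539) (nat_lit 76) (nat_lit 26608755821) (nat_lit 24) (nat_lit 5) (nat_lit 26) (nat_lit 5) (nat_lit 25) (nat_lit 4) (nat_lit 437) (nat_lit 316) (nat_lit 147)) (XT.nd (nat_lit 78) (nat_lit 76) (nat_lit 0) (XT.lf (nat_lit 0) (nat_lit 31066895663) (nat_lit 152) (nat_lit 747629717) (nat_lit 76) (nat_lit 39987628313) (nat_lit 24) (nat_lit 5) (nat_lit 26) (nat_lit 5) (nat_lit 25) (nat_lit 4) (nat_lit 438) (nat_lit 316) (nat_lit 146)) (XT.lf (nat_lit 0) (nat_lit 23374365609) (nat_lit 76) (nat_lit 19581343061) (nat_lit 152) (nat_lit 30614097981) (nat_lit 23)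 (nat_lit 5) (nat_lit 24) (nat_lit 5) (nat_lit 25) (nat_lit 4) (nat_lit 439) (nat_lit 316) (nat_lit 145))))) (XT.nd (nat_lit 234) (nat_lit 0) (nat_lit 0) (XT.nd (nat_lit 78) (nat_lit 152) (nat_lit 0) (XT.lf (nat_lit 0) (nat_lit 48226356082) (nat_lit 76) (nat_lit 6977592708) (nat_lit 152) (nat_lit 20186458116) (nat_lit 23) (nat_lit 5) (nat_lit 24) (nat_lit 5) (nat_lit 25) (nat_lit 4) (nat_lit 440) (nat_lit 316) (nat_lit 144)) (XT.nd (nat_lit 78) (nat_lit 152) (nat_lit 0) (XT.lf (nat_lit 0) (nat_lit 67872666153) (nat_lit 152) (nat_lit 3508264916) (nat_lit 0) (nat_lit 5883103770) (nat_lit 23) (nat_lit 5) (nat_lit 25) (nat_lit 4) (nat_lit 23) (nat_lit 4) (nat_lit 441) (nat_lit 316) (nat_lit 143)) (XT.lf (nat_lit 0) (nat_lit 1964773557) (nat_lit 152) (nat_lit 58011996079) (nat_lit 76) (nat_lit 19208476977) (nat_lit 21) (nat_lit 5) (nat_lit 23) (nat_lit 5) (nat_lit 22) (nat_lit 4) (nat_lit 442) (nat_lit 316) (nat_lit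 142)))) (XT.nd (nat_lit 37128) (nat_lit 0) (nat_lit 19988) (XT.nd (nat_lit 37050) (nat_lit 0) (nat_lit 20900) (XT.lf (nat_lit 0) (nat_lit 13504075900) (nat_lit 152) (nat_lit 34597818166) (nat_lit 76) (nat_lit 33058474690) (nat_lit 21) (nat_lit 5) (nat_lit 23) (nat_lit 5) (nat_lit 22) (nat_lit 4) (nat_lit 443) (nat_lit 316) (nat_lit 141)) (XT.lf (nat_lit 0) (nat_lit 1334996388) (nat_lit 0) (nat_lit 1334996388) (nat_lit 836) (nat_lit 1170484060) (nat_lit 296) (nat_lit 5) (nat_lit 296) (nat_lit 3) (nat_lit 307) (nat_lit 3) (nat_lit 317) (nat_lit 317) (nat_lit 266))) (XT.nd (nat_lit 78) (nat_lit 912) (nat_lit 0) (XT.lf (nat_lit 0) (nat_lit 6417728969) (nat_lit 0) (nat_lit 314656514) (nat_lit 836) (nat_lit 1023381091) (nat_lit 296) (nat_lit 5) (nat_lit 296) (nat_lit 3) (nat_lit 307) (nat_lit 3) (nat_lit 318) (nat_lit 317) (nat_lit 265)) (XT.lf (nat_lit 0) (nat_lit 319940351) (nat_lit 912) (nat_lit 5391156740)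 (nat_lit 988) (nat_lit 2121888071) (nat_lit 284) (nat_lit 5) (nat_lit 296) (nat_lit 5) (nat_lit 297) (nat_lit 5) (nat_lit 319) (nat_lit 317) (nat_lit 264)))))) (XT.nd (nat_lit 468) (nat_lit 912) (nat_lit 0) (XT.nd (nat_lit 234) (nat_lit 836) (nat_lit 0) (XT.nd (nat_lit 78) (nat_lit 0) (nat_lit 0) (XT.lf (nat_lit 0) (nat_lit 1649476548) (nat_lit 912) (nat_lit 1591178015) (nat_lit 988) (nat_lit 4672605229) (nat_lit 284) (nat_lit 5) (nat_lit 296) (nat_lit 5) (nat_lit 297) (nat_lit 5) (nat_lit 320) (nat_lit 317) (nat_lit 263)) (XT.nd (nat_lit 78) (nat_lit 0) (nat_lit 76) (XT.lf (nat_lit 76) (nat_lit 2341104552) (nat_lit 0) (nat_lit 651486087) (nat_lit 988) (nat_lit 5004178138) (nat_lit 285) (nat_lit 5) (nat_lit 284) (nat_lit 5) (nat_lit 297) (nat_lit 5) (nat_lit 321) (nat_lit 317) (nat_lit 262)) (XT.lf (nat_lit 0) (nat_lit 4364144113) (nat_lit 912) (nat_lit 1706633016) (nat_lit 988) (nat_lit 2012397323) (nat_lit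 285) (nat_lit 5) (nat_lit 297) (nat_lit 5) (nat_lit 298) (nat_lit 5) (nat_lit 322) (nat_lit 317) (nat_lit 261)))) (XT.nd (nat_lit 78) (nat_lit 912) (nat_lit 0) (XT.lf (nat_lit 76) (nat_lit 2372785146) (nat_lit 0) (nat_lit 3387246459) (nat_lit 988) (nat_lit 2412679827) (nat_lit 286) (nat_lit 5) (nat_lit 285) (nat_lit 5) (nat_lit 298) (nat_lit 5) (nat_lit 323) (nat_lit 317) (nat_lit 260)) (XT.nd (nat_lit 78) (nat_lit 912) (nat_lit 0) (XT.lf (nat_lit 76) (nat_lit 6581908821) (nat_lit 0) (nat_lit 588124934) (nat_lit 988) (nat_lit 1095767367) (nat_lit 286) (nat_lit 5) (nat_lit 285) (nat_lit 5) (nat_lit 298) (nat_lit 5) (nat_lit 324) (nat_lit 317) (nat_lit 259)) (XT.lf (nat_lit 0) (nat_lit 258662919) (nat_lit 988) (nat_lit 5809099524) (nat_lit 1064) (nat_lit 2293784800) (nat_lit 273) (nat_lit 5) (nat_lit 286) (nat_lit 5) (nat_lit 287) (nat_lit 5) (nat_lit 325) (nat_lit 317) (nat_lit 258))))) (XT.nd (nat_lit 234)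 (nat_lit 912) (nat_lit 0) (XT.nd (nat_lit 78) (nat_lit 0) (nat_lit 0) (XT.lf (nat_lit 0) (nat_lit 1611719866) (nat_lit 988) (nat_lit 1555069029) (nat_lit 1064) (nat_lit 5293681730) (nat_lit 273) (nat_lit 5) (nat_lit 286) (nat_lit 5) (nat_lit 287) (nat_lit 5) (nat_lit 326) (nat_lit 317) (nat_lit 257)) (XT.nd (nat_lit 78) (nat_lit 0) (nat_lit 76) (XT.lf (nat_lit 76) (nat_lit 2854151992) (nat_lit 0) (nat_lit 136926367) (nat_lit 1064) (nat_lit 5571742034) (nat_lit 274) (nat_lit 5) (nat_lit 273) (nat_lit 5) (nat_lit 287) (nat_lit 5) (nat_lit 327) (nat_lit 317) (nat_lit 256)) (XT.lf (nat_lit 0) (nat_lit 4415704531) (nat_lit 988) (nat_lit 1298306599) (nat_lit 1064) (nat_lit 2954142025) (nat_lit 274) (nat_lit 5) (nat_lit 287) (nat_lit 5) (nat_lit 288) (nat_lit 5) (nat_lit 328) (nat_lit 317) (nat_lit 255)))) (XT.nd (nat_lit 156) (nat_lit 988) (nat_lit 0) (XT.nd (nat_lit 78) (nat_lit 0) (nat_lit 76) (XT.lf (nat_lit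 76) (nat_lit 3278612970) (nat_lit 0) (nat_lit 2597858239) (nat_lit 1064) (nat_lit 2900400899) (nat_lit 275) (nat_lit 5) (nat_lit 274) (nat_lit 5) (nat_lit 288) (nat_lit 5) (nat_lit 329) (nat_lit 317) (nat_lit 254)) (XT.lf (nat_lit 0) (nat_lit 7361692221) (nat_lit 988) (nat_lit 904398549) (nat_lit 1064) (nat_lit 623370354) (nat_lit 275) (nat_lit 5) (nat_lit 288) (nat_lit 5) (nat_lit 289) (nat_lit 5) (nat_lit 330) (nat_lit 317) (nat_lit 253))) (XT.nd (nat_lit 78) (nat_lit 1064) (nat_lit 0) (XT.lf (nat_lit 76) (nat_lit 3848120215) (nat_lit 0) (nat_lit 5068692942) (nat_lit 1064) (nat_lit 87880995) (nat_lit 276) (nat_lit 5) (nat_lit 275) (nat_lit 5) (nat_lit 289) (nat_lit 5) (nat_lit 331) (nat_lit 317) (nat_lit 252)) (XT.lf (nat_lit 0) (nat_lit 1340262236) (nat_lit 1064) (nat_lit 403865886) (nat_lit 1140) (nat_lit 7379710286) (nat_lit 261) (nat_lit 5) (nat_lit 275) (nat_lit 5) (nat_lit 276) (nat_lit 5) (nat_lit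 332) (nat_lit 317) (nat_lit 251))))))) (XT.nd (nat_lit 1014) (nat_lit 3344) (nat_lit 0) (XT.nd (nat_lit 468) (nat_lit 2356) (nat_lit 0) (XT.nd (nat_lit 234) (nat_lit 2432) (nat_lit 0) (XT.nd (nat_lit 78) (nat_lit 1064) (nat_lit 0) (XT.lf (nat_lit 0) (nat_lit 2834035972) (nat_lit 1064) (nat_lit 4711784387) (nat_lit 76) (nat_lit 1699998331) (nat_lit 262) (nat_lit 5) (nat_lit 276) (nat_lit 5) (nat_lit 263) (nat_lit 5) (nat_lit 333) (nat_lit 317) (nat_lit 250)) (XT.nd (nat_lit 78) (nat_lit 0) (nat_lit 0) (XT.lf (nat_lit 0) (nat_lit 214866119) (nat_lit 1064) (nat_lit 4146192105) (nat_lit 1140) (nat_lit 5010770763) (nat_lit 248) (nat_lit 5) (nat_lit 262) (nat_lit 5) (nat_lit 263) (nat_lit 5) (nat_lit 334) (nat_lit 317) (nat_lit 249)) (XT.lf (nat_lit 0) (nat_lit 5357155691) (nat_lit 1064) (nat_lit 590041474) (nat_lit 1140) (nat_lit 3554046226) (nat_lit 248) (nat_lit 5) (nat_lit 262) (nat_lit 5) (nat_lit 263) (nat_lit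 5) (nat_lit 335) (nat_lit 317) (nat_lit 248)))) (XT.nd (nat_lit 78) (nat_lit 1292) (nat_lit 0) (XT.lf (nat_lit 0) (nat_lit 979772788) (nat_lit 1140) (nat_lit 6606879313) (nat_lit 1216) (nat_lit 2047738480) (nat_lit 233) (nat_lit 5) (nat_lit 248) (nat_lit 5) (nat_lit 249) (nat_lit 5) (nat_lit 336) (nat_lit 317) (nat_lit 247)) (XT.nd (nat_lit 78) (nat_lit 1292) (nat_lit 0) (XT.lf (nat_lit 0) (nat_lit 6307642449) (nat_lit 1140) (nat_lit 2982748018) (nat_lit 1216) (nat_lit 480710385) (nat_lit 233) (nat_lit 5) (nat_lit 248) (nat_lit 5) (nat_lit 249) (nat_lit 5) (nat_lit 337) (nat_lit 317) (nat_lit 246)) (XT.lf (nat_lit 0) (nat_lit 1104904027) (nat_lit 1292) (nat_lit 8038827918) (nat_lit 76) (nat_lit 768063351) (nat_lit 216) (nat_lit 5) (nat_lit 233) (nat_lit 5) (nat_lit 217) (nat_lit 5) (nat_lit 338) (nat_lit 317) (nat_lit 245))))) (XT.nd (nat_lit 234) (nat_lit 1748) (nat_lit 0) (XT.nd (nat_lit 78) (nat_lit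 608) (nat_lit 0) (XT.lf (nat_lit 0) (nat_lit 2762046995) (nat_lit 1292) (nat_lit 2679040820) (nat_lit 76) (nat_lit 4614491136) (nat_lit 216) (nat_lit 5) (nat_lit 233) (nat_lit 5) (nat_lit 217) (nat_lit 5) (nat_lit 339) (nat_lit 317) (nat_lit 244)) (XT.nd (nat_lit 78) (nat_lit 0) (nat_lit 0) (XT.lf (nat_lit 0) (nat_lit 2869153663) (nat_lit 608) (nat_lit 1597009628) (nat_lit 684) (nat_lit 5737614296) (nat_lit 208) (nat_lit 5) (nat_lit 216) (nat_lit 5) (nat_lit 217) (nat_lit 5) (nat_lit 340) (nat_lit 317) (nat_lit 243)) (XT.lf (nat_lit 0) (nat_lit 6241740279) (nat_lit 684) (nat_lit 1768896493) (nat_lit 76) (nat_lit 2345193978) (nat_lit 208) (nat_lit 5) (nat_lit 217) (nat_lit 5) (nat_lit 209) (nat_lit 5) (nat_lit 341) (nat_lit 317) (nat_lit 242)))) (XT.nd (nat_lit 156) (nat_lit 1216) (nat_lit 0) (XT.nd (nat_lit 78) (nat_lit 0) (nat_lit 0) (XT.lf (nat_lit 0) (nat_lit 3997827065) (nat_lit 532) (nat_lit 4098171419)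 (nat_lit 608) (nat_lit 2415702745) (nat_lit 201) (nat_lit 5) (nat_lit 208) (nat_lit 5) (nat_lit 209) (nat_lit 5) (nat_lit 342) (nat_lit 317) (nat_lit 241)) (XT.lf (nat_lit 0) (nat_lit 9945913483) (nat_lit 532) (nat_lit 49577163) (nat_lit 608) (nat_lit 677086601) (nat_lit 201) (nat_lit 5) (nat_lit 208) (nat_lit 5) (nat_lit 209) (nat_lit 5) (nat_lit 343) (nat_lit 317) (nat_lit 240))) (XT.nd (nat_lit 78) (nat_lit 532) (nat_lit 0) (XT.lf (nat_lit 0) (nat_lit 1155393149) (nat_lit 684) (nat_lit 5578289006) (nat_lit 76) (nat_lit 4102389710) (nat_lit 192) (nat_lit 5) (nat_lit 201) (nat_lit 5) (nat_lit 193) (nat_lit 5) (nat_lit 344) (nat_lit 317) (nat_lit 239)) (XT.lf (nat_lit 0) (nat_lit 404826348) (nat_lit 532) (nat_lit 2609025651) (nat_lit 608) (nat_lit 7990895921) (nat_lit 185) (nat_lit 5) (nat_lit 192) (nat_lit 5) (nat_lit 193) (nat_lit 5) (nat_lit 345) (nat_lit 317) (nat_lit 238)))))) (XT.nd (nat_lit 546)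 (nat_lit 1824) (nat_lit 0) (XT.nd (nat_lit 234) (nat_lit 988) (nat_lit 0) (XT.nd (nat_lit 78) (nat_lit 532) (nat_lit 0) (XT.lf (nat_lit 0) (nat_lit 4974042171) (nat_lit 608) (nat_lit 4540066036) (nat_lit 76) (nat_lit 1663012369) (nat_lit 185) (nat_lit 5) (nat_lit 193) (nat_lit 5) (nat_lit 186) (nat_lit 5) (nat_lit 346) (nat_lit 317) (nat_lit 237)) (XT.nd (nat_lit 78) (nat_lit 0) (nat_lit 0) (XT.lf (nat_lit 0) (nat_lit 1680645826) (nat_lit 532) (nat_lit 5328487728) (nat_lit 608) (nat_lit 4345063184) (nat_lit 178) (nat_lit 5) (nat_lit 185) (nat_lit 5) (nat_lit 186) (nat_lit 5) (nat_lit 347) (nat_lit 317) (nat_lit 236)) (XT.lf (nat_lit 0) (nat_lit 8153416652) (nat_lit 532) (nat_lit 972303509) (nat_lit 608) (nat_lit 2410266499) (nat_lit 178) (nat_lit 5) (nat_lit 185) (nat_lit 5) (nat_lit 186) (nat_lit 5) (nat_lit 348) (nat_lit 317) (nat_lit 235)))) (XT.nd (nat_lit 156) (nat_lit 456) (nat_lit 0) (XT.nd (nat_lit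 78) (nat_lit 76) (nat_lit 0) (XT.lf (nat_lit 0) (nat_lit 3096216492) (nat_lit 456) (nat_lit 8248450604) (nat_lit 532) (nat_lit 377411619) (nat_lit 172) (nat_lit 5) (nat_lit 178) (nat_lit 5) (nat_lit 179) (nat_lit 5) (nat_lit 349) (nat_lit 317) (nat_lit 234)) (XT.lf (nat_lit 0) (nat_lit 1702576463) (nat_lit 532) (nat_lit 2128275727) (nat_lit 76) (nat_lit 8081830619) (nat_lit 171) (nat_lit 5) (nat_lit 178) (nat_lit 5) (nat_lit 172) (nat_lit 5) (nat_lit 350) (nat_lit 317) (nat_lit 233))) (XT.nd (nat_lit 78) (nat_lit 0) (nat_lit 0) (XT.lf (nat_lit 0) (nat_lit 3865417207) (nat_lit 532) (nat_lit 7491897547) (nat_lit 76) (nat_lit 750750117) (nat_lit 165) (nat_lit 5) (nat_lit 172) (nat_lit 5) (nat_lit 166) (nat_lit 5) (nat_lit 351) (nat_lit 317) (nat_lit 232)) (XT.lf (nat_lit 0) (nat_lit 6129411587) (nat_lit 532) (nat_lit 767629290) (nat_lit 76) (nat_lit 5411192187) (nat_lit 165) (nat_lit 5) (nat_lit 172) (nat_lit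 5) (nat_lit 166) (nat_lit 5) (nat_lit 352) (nat_lit 317) (nat_lit 231))))) (XT.nd (nat_lit 234) (nat_lit 836) (nat_lit 0) (XT.nd (nat_lit 78) (nat_lit 532) (nat_lit 0) (XT.lf (nat_lit 0) (nat_lit 6253804314) (nat_lit 456) (nat_lit 2244952396) (nat_lit 532) (nat_lit 4014539016) (nat_lit 159) (nat_lit 5) (nat_lit 165) (nat_lit 5) (nat_lit 166) (nat_lit 5) (nat_lit 353) (nat_lit 317) (nat_lit 230)) (XT.nd (nat_lit 78) (nat_lit 76) (nat_lit 0) (XT.lf (nat_lit 0) (nat_lit 740249131) (nat_lit 456) (nat_lit 10216041563) (nat_lit 532) (nat_lit 1767718312) (nat_lit 153) (nat_lit 5) (nat_lit 159) (nat_lit 5) (nat_lit 160) (nat_lit 5) (nat_lit 354) (nat_lit 317) (nat_lit 229)) (XT.lf (nat_lit 0) (nat_lit 599753139) (nat_lit 532) (nat_lit 4916123681) (nat_lit 76) (nat_lit 7423103253) (nat_lit 152) (nat_lit 5) (nat_lit 159) (nat_lit 5) (nat_lit 153) (nat_lit 5) (nat_lit 355) (nat_lit 317) (nat_lit 228)))) (XT.nd (nat_lit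 156) (nat_lit 456) (nat_lit 0) (XT.nd (nat_lit 78) (nat_lit 0) (nat_lit 0) (XT.lf (nat_lit 0) (nat_lit 2365831403) (nat_lit 380) (nat_lit 638123722) (nat_lit 456) (nat_lit 10155893983) (nat_lit 147) (nat_lit 5) (nat_lit 152) (nat_lit 5) (nat_lit 153) (nat_lit 5) (nat_lit 356) (nat_lit 317) (nat_lit 227)) (XT.lf (nat_lit 0) (nat_lit 5551399845) (nat_lit 456) (nat_lit 3488198147) (nat_lit 76) (nat_lit 4345623377) (nat_lit 147) (nat_lit 5) (nat_lit 153) (nat_lit 5) (nat_lit 148) (nat_lit 5) (nat_lit 357) (nat_lit 317) (nat_lit 226))) (XT.nd (nat_lit 78) (nat_lit 0) (nat_lit 0) (XT.lf (nat_lit 0) (nat_lit 4084242218) (nat_lit 456) (nat_lit 4116042227) (nat_lit 532) (nat_lit 5416330201) (nat_lit 141) (nat_lit 5) (nat_lit 147) (nat_lit 5) (nat_lit 148) (nat_lit 5) (nat_lit 358) (nat_lit 317) (nat_lit 225)) (XT.lf (nat_lit 0) (nat_lit 10953128164) (nat_lit 532) (nat_lit 1934306974) (nat_lit 76) (nat_lit 966789849)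 (nat_lit 141) (nat_lit 5) (nat_lit 148) (nat_lit 5) (nat_lit 142) (nat_lit 5) (nat_lit 359) (nat_lit 317) (nat_lit 224))))))))
noncomputable def xc149 : XT := (XT.nd (nat_lit 2028) (nat_lit 2584) (nat_lit 0) (XT.nd (nat_lit 1014) (nat_lit 1976) (nat_lit 0) (XT.nd (nat_lit 468) (nat_lit 1368) (nat_lit 0) (XT.nd (nat_lit 234) (nat_lit 684) (nat_lit 0) (XT.nd (nat_lit 78) (nat_lit 456) (nat_lit 0) (XT.lf (nat_lit 0) (nat_lit 5941406671) (nat_lit 380) (nat_lit 7925343721) (nat_lit 456) (nat_lit 229877201) (nat_lit 136) (nat_lit 5) (nat_lit 141) (nat_lit 5) (nat_lit 142) (nat_lit 5) (nat_lit 360) (nat_lit 317) (nat_lit 223)) (XT.nd (nat_lit 78) (nat_lit 380) (nat_lit 0) (XT.lf (nat_lit 0) (nat_lit 2472459511) (nat_lit 456) (nat_lit 302732017) (nat_lit 76) (nat_lit 11570387290) (nat_lit 135) (nat_lit 5) (nat_lit 141) (nat_lit 5) (nat_lit 136) (nat_lit 5) (nat_lit 361) (nat_lit 317) (nat_lit 222)) (XT.lf (nat_lit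 0) (nat_lit 5333366882) (nat_lit 456) (nat_lit 6712682786) (nat_lit 76) (nat_lit 2553425929) (nat_lit 130) (nat_lit 5) (nat_lit 136) (nat_lit 5) (nat_lit 131) (nat_lit 5) (nat_lit 362) (nat_lit 317) (nat_lit 221)))) (XT.nd (nat_lit 78) (nat_lit 380) (nat_lit 0) (XT.lf (nat_lit 0) (nat_lit 1442810547) (nat_lit 304) (nat_lit 6863009565) (nat_lit 380) (nat_lit 6554406272) (nat_lit 126) (nat_lit 5) (nat_lit 130) (nat_lit 5) (nat_lit 131) (nat_lit 5) (nat_lit 363) (nat_lit 317) (nat_lit 220)) (XT.nd (nat_lit 78) (nat_lit 380) (nat_lit 0) (XT.lf (nat_lit 0) (nat_lit 9955670648) (nat_lit 304) (nat_lit 1461152003) (nat_lit 380) (nat_lit 3710504182) (nat_lit 126) (nat_lit 5) (nat_lit 130) (nat_lit 5) (nat_lit 131) (nat_lit 5) (nat_lit 364) (nat_lit 317) (nat_lit 219)) (XT.lf (nat_lit 0) (nat_lit 3322206283) (nat_lit 380) (nat_lit 11352388694) (nat_lit 456) (nat_lit 726250294) (nat_lit 121) (nat_lit 5) (nat_lit 126)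 (nat_lit 5) (nat_lit 127) (nat_lit 5) (nat_lit 365) (nat_lit 317) (nat_lit 218))))) (XT.nd (nat_lit 234) (nat_lit 988) (nat_lit 0) (XT.nd (nat_lit 78) (nat_lit 304) (nat_lit 0) (XT.lf (nat_lit 0) (nat_lit 2351101433) (nat_lit 456) (nat_lit 3566434555) (nat_lit 76) (nat_lit 9762882625) (nat_lit 120) (nat_lit 5) (nat_lit 126) (nat_lit 5) (nat_lit 121) (nat_lit 5) (nat_lit 366) (nat_lit 317) (nat_lit 217)) (XT.nd (nat_lit 78) (nat_lit 0) (nat_lit 0) (XT.lf (nat_lit 0) (nat_lit 5272777375) (nat_lit 304) (nat_lit 266775373) (nat_lit 380) (nat_lit 10427616882) (nat_lit 116) (nat_lit 5) (nat_lit 120) (nat_lit 5) (nat_lit 121) (nat_lit 5) (nat_lit 367) (nat_lit 317) (nat_lit 216)) (XT.lf (nat_lit 0) (nat_lit 8896312567) (nat_lit 380) (nat_lit 1889185039) (nat_lit 76) (nat_lit 5474853180) (nat_lit 116) (nat_lit 5) (nat_lit 121) (nat_lit 5) (nat_lit 117) (nat_lit 5) (nat_lit 368) (nat_lit 317) (nat_lit 215)))) (XT.nd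 (nat_lit 156) (nat_lit 684) (nat_lit 0) (XT.nd (nat_lit 78) (nat_lit 0) (nat_lit 0) (XT.lf (nat_lit 0) (nat_lit 7296346052) (nat_lit 304) (nat_lit 5113606124) (nat_lit 380) (nat_lit 4150696933) (nat_lit 112) (nat_lit 5) (nat_lit 116) (nat_lit 5) (nat_lit 117) (nat_lit 5) (nat_lit 369) (nat_lit 317) (nat_lit 214)) (XT.lf (nat_lit 0) (nat_lit 16038859813) (nat_lit 380) (nat_lit 104173444) (nat_lit 76) (nat_lit 726634199) (nat_lit 112) (nat_lit 5) (nat_lit 117) (nat_lit 5) (nat_lit 113) (nat_lit 5) (nat_lit 370) (nat_lit 317) (nat_lit 213))) (XT.nd (nat_lit 78) (nat_lit 304) (nat_lit 0) (XT.lf (nat_lit 0) (nat_lit 2664853297) (nat_lit 380) (nat_lit 7769037070) (nat_lit 76) (nat_lit 6749525231) (nat_lit 107) (nat_lit 5) (nat_lit 112) (nat_lit 5) (nat_lit 108) (nat_lit 5) (nat_lit 371) (nat_lit 317) (nat_lit 212)) (XT.lf (nat_lit 0) (nat_lit 1716159139) (nat_lit 304) (nat_lit 4534236996) (nat_lit 380) (nat_lit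 11255888219) (nat_lit 103) (nat_lit 5) (nat_lit 107) (nat_lit 5) (nat_lit 108) (nat_lit 5) (nat_lit 372) (nat_lit 317) (nat_lit 211)))))) (XT.nd (nat_lit 468) (nat_lit 1140) (nat_lit 0) (XT.nd (nat_lit 234) (nat_lit 608) (nat_lit 0) (XT.nd (nat_lit 78) (nat_lit 228) (nat_lit 0) (XT.lf (nat_lit 0) (nat_lit 10021882489) (nat_lit 380) (nat_lit 6230267615) (nat_lit 76) (nat_lit 1584343828) (nat_lit 103) (nat_lit 5) (nat_lit 108) (nat_lit 5) (nat_lit 104) (nat_lit 5) (nat_lit 373) (nat_lit 317) (nat_lit 210)) (XT.nd (nat_lit 78) (nat_lit 0) (nat_lit 0) (XT.lf (nat_lit 0) (nat_lit 3619453296) (nat_lit 228) (nat_lit 10351524502) (nat_lit 304) (nat_lit 4203703967) (nat_lit 100) (nat_lit 5) (nat_lit 103) (nat_lit 5) (nat_lit 104) (nat_lit 5) (nat_lit 374) (nat_lit 317) (nat_lit 209)) (XT.lf (nat_lit 0) (nat_lit 13869934893) (nat_lit 228) (nat_lit 4216530677) (nat_lit 304) (nat_lit 435117804) (nat_lit 100) (nat_lit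 5) (nat_lit 103) (nat_lit 5) (nat_lit 104) (nat_lit 5) (nat_lit 375) (nat_lit 317) (nat_lit 208)))) (XT.nd (nat_lit 78) (nat_lit 228) (nat_lit 0) (XT.lf (nat_lit 0) (nat_lit 3439426999) (nat_lit 380) (nat_lit 13294572972) (nat_lit 76) (nat_lit 2142098899) (nat_lit 95) (nat_lit 5) (nat_lit 100) (nat_lit 5) (nat_lit 96) (nat_lit 5) (nat_lit 376) (nat_lit 317) (nat_lit 207)) (XT.nd (nat_lit 78) (nat_lit 228) (nat_lit 0) (XT.lf (nat_lit 0) (nat_lit 7496088501) (nat_lit 380) (nat_lit 3091553928) (nat_lit 76) (nat_lit 8651244626) (nat_lit 95) (nat_lit 5) (nat_lit 100) (nat_lit 5) (nat_lit 96) (nat_lit 5) (nat_lit 377) (nat_lit 317) (nat_lit 206)) (XT.lf (nat_lit 0) (nat_lit 7543155631) (nat_lit 228) (nat_lit 4189668070) (nat_lit 304) (nat_lit 7877989059) (nat_lit 92) (nat_lit 5) (nat_lit 95) (nat_lit 5) (nat_lit 96) (nat_lit 5) (nat_lit 378) (nat_lit 317) (nat_lit 205))))) (XT.nd (nat_lit 234) (nat_lit 532) (nat_lit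 0) (XT.nd (nat_lit 78) (nat_lit 608) (nat_lit 0) (XT.lf (nat_lit 0) (nat_lit 16137260271) (nat_lit 304) (nat_lit 1477794761) (nat_lit 76) (nat_lit 2377628164) (nat_lit 92) (nat_lit 5) (nat_lit 96) (nat_lit 5) (nat_lit 93) (nat_lit 5) (nat_lit 379) (nat_lit 317) (nat_lit 204)) (XT.nd (nat_lit 78) (nat_lit 228) (nat_lit 0) (XT.lf (nat_lit 0) (nat_lit 403108187) (nat_lit 380) (nat_lit 10832768632) (nat_lit 76) (nat_lit 9146427450) (nat_lit 87) (nat_lit 5) (nat_lit 92) (nat_lit 5) (nat_lit 88) (nat_lit 5) (nat_lit 380) (nat_lit 317) (nat_lit 203)) (XT.lf (nat_lit 0) (nat_lit 97222226) (nat_lit 228) (nat_lit 4617152572) (nat_lit 304) (nat_lit 16068024430) (nat_lit 84) (nat_lit 5) (nat_lit 87) (nat_lit 5) (nat_lit 88) (nat_lit 5) (nat_lit 381) (nat_lit 317) (nat_lit 202)))) (XT.nd (nat_lit 156) (nat_lit 304) (nat_lit 0) (XT.nd (nat_lit 78) (nat_lit 228) (nat_lit 0) (XT.lf (nat_lit 0) (nat_lit 9273185365) (nat_lit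 304) (nat_lit 9657565087) (nat_lit 76) (nat_lit 2260204796) (nat_lit 84) (nat_lit 5) (nat_lit 88) (nat_lit 5) (nat_lit 85) (nat_lit 5) (nat_lit 382) (nat_lit 317) (nat_lit 201)) (XT.lf (nat_lit 0) (nat_lit 1667018896) (nat_lit 228) (nat_lit 12350455030) (nat_lit 304) (nat_lit 7592836872) (nat_lit 81) (nat_lit 5) (nat_lit 84) (nat_lit 5) (nat_lit 85) (nat_lit 5) (nat_lit 383) (nat_lit 317) (nat_lit 200))) (XT.nd (nat_lit 78) (nat_lit 304) (nat_lit 0) (XT.lf (nat_lit 0) (nat_lit 13508842225) (nat_lit 228) (nat_lit 5479928895) (nat_lit 304) (nat_lit 3050939633) (nat_lit 81) (nat_lit 5) (nat_lit 84) (nat_lit 5) (nat_lit 85) (nat_lit 5) (nat_lit 384) (nat_lit 317) (nat_lit 199)) (XT.lf (nat_lit 0) (nat_lit 1629862857) (nat_lit 304) (nat_lit 19245098884) (nat_lit 76) (nat_lit 1605533579) (nat_lit 77) (nat_lit 5) (nat_lit 81) (nat_lit 5) (nat_lit 78) (nat_lit 5) (nat_lit 385) (nat_lit 317) (nat_lit 198)))))))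 (XT.nd (nat_lit 1014) (nat_lit 1292) (nat_lit 0) (XT.nd (nat_lit 468) (nat_lit 608) (nat_lit 0) (XT.nd (nat_lit 234) (nat_lit 456) (nat_lit 0) (XT.nd (nat_lit 78) (nat_lit 228) (nat_lit 0) (XT.lf (nat_lit 0) (nat_lit 6518530520) (nat_lit 304) (nat_lit 7507946332) (nat_lit 76) (nat_lit 8903261278) (nat_lit 77) (nat_lit 5) (nat_lit 81) (nat_lit 5) (nat_lit 78) (nat_lit 5) (nat_lit 386) (nat_lit 317) (nat_lit 197)) (XT.nd (nat_lit 78) (nat_lit 0) (nat_lit 0) (XT.lf (nat_lit 0) (nat_lit 4652462349) (nat_lit 228) (nat_lit 6933989321) (nat_lit 304) (nat_lit 11805032430) (nat_lit 74) (nat_lit 5) (nat_lit 77) (nat_lit 5) (nat_lit 78) (nat_lit 5) (nat_lit 387) (nat_lit 317) (nat_lit 196)) (XT.lf (nat_lit 0) (nat_lit 16874510970) (nat_lit 304) (nat_lit 6557281302) (nat_lit 76) (nat_lit 433250728) (nat_lit 74) (nat_lit 5) (nat_lit 78) (nat_lit 5) (nat_lit 75) (nat_lit 5) (nat_lit 388) (nat_lit 317) (nat_lit 195))))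 (XT.nd (nat_lit 78) (nat_lit 304) (nat_lit 0) (XT.lf (nat_lit 0) (nat_lit 6019553600) (nat_lit 152) (nat_lit 16416491391) (nat_lit 228) (nat_lit 1913322154) (nat_lit 72) (nat_lit 5) (nat_lit 74) (nat_lit 5) (nat_lit 75) (nat_lit 5) (nat_lit 389) (nat_lit 317) (nat_lit 194)) (XT.nd (nat_lit 78) (nat_lit 228) (nat_lit 0) (XT.lf (nat_lit 0) (nat_lit 3306720617) (nat_lit 228) (nat_lit 5789870792) (nat_lit 76) (nat_lit 15749019719) (nat_lit 71) (nat_lit 5) (nat_lit 74) (nat_lit 5) (nat_lit 72) (nat_lit 5) (nat_lit 390) (nat_lit 317) (nat_lit 193)) (XT.lf (nat_lit 0) (nat_lit 7229749917) (nat_lit 228) (nat_lit 1473351186) (nat_lit 304) (nat_lit 16651330416) (nat_lit 68) (nat_lit 5) (nat_lit 71) (nat_lit 5) (nat_lit 72) (nat_lit 5) (nat_lit 391) (nat_lit 317) (nat_lit 192))))) (XT.nd (nat_lit 234) (nat_lit 456) (nat_lit 0) (XT.nd (nat_lit 78) (nat_lit 152) (nat_lit 0) (XT.lf (nat_lit 0) (nat_lit 14370509962) (nat_lit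 304) (nat_lit 5198749770) (nat_lit 76) (nat_lit 6305985760) (nat_lit 68) (nat_lit 5) (nat_lit 72) (nat_lit 5) (nat_lit 69) (nat_lit 5) (nat_lit 392) (nat_lit 317) (nat_lit 191)) (XT.nd (nat_lit 78) (nat_lit 0) (nat_lit 0) (XT.lf (nat_lit 0) (nat_lit 8243029979) (nat_lit 152) (nat_lit 12047839543) (nat_lit 228) (nat_lit 6118329499) (nat_lit 66) (nat_lit 5) (nat_lit 68) (nat_lit 5) (nat_lit 69) (nat_lit 5) (nat_lit 393) (nat_lit 317) (nat_lit 190)) (XT.lf (nat_lit 0) (nat_lit 22176617157) (nat_lit 152) (nat_lit 4253967837) (nat_lit 228) (nat_lit 527336708) (nat_lit 66) (nat_lit 5) (nat_lit 68) (nat_lit 5) (nat_lit 69) (nat_lit 5) (nat_lit 394) (nat_lit 317) (nat_lit 189)))) (XT.nd (nat_lit 156) (nat_lit 152) (nat_lit 0) (XT.nd (nat_lit 78) (nat_lit 0) (nat_lit 0) (XT.lf (nat_lit 0) (nat_lit 5243948363) (nat_lit 304) (nat_lit 18441878273) (nat_lit 76) (nat_lit 3832334177) (nat_lit 62) (nat_lit 5) (nat_lit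 66) (nat_lit 5) (nat_lit 63) (nat_lit 5) (nat_lit 395) (nat_lit 317) (nat_lit 188)) (XT.lf (nat_lit 0) (nat_lit 11258176528) (nat_lit 304) (nat_lit 4711742971) (nat_lit 76) (nat_lit 12122721513) (nat_lit 62) (nat_lit 5) (nat_lit 66) (nat_lit 5) (nat_lit 63) (nat_lit 5) (nat_lit 396) (nat_lit 317) (nat_lit 187))) (XT.nd (nat_lit 78) (nat_lit 0) (nat_lit 0) (XT.lf (nat_lit 0) (nat_lit 9600376113) (nat_lit 152) (nat_lit 7934570359) (nat_lit 228) (nat_lit 11146948275) (nat_lit 60) (nat_lit 5) (nat_lit 62) (nat_lit 5) (nat_lit 63) (nat_lit 5) (nat_lit 397) (nat_lit 317) (nat_lit 186)) (XT.lf (nat_lit 0) (nat_lit 24041250335) (nat_lit 228) (nat_lit 4870035734) (nat_lit 76) (nat_lit 376305604) (nat_lit 60) (nat_lit 5) (nat_lit 63) (nat_lit 5) (nat_lit 61) (nat_lit 5) (nat_lit 398) (nat_lit 317) (nat_lit 185)))))) (XT.nd (nat_lit 546) (nat_lit 532) (nat_lit 0) (XT.nd (nat_lit 234) (nat_lit 380) (nat_lit 0) (XT.nd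 (nat_lit 78) (nat_lit 152) (nat_lit 0) (XT.lf (nat_lit 0) (nat_lit 980256055) (nat_lit 228) (nat_lit 20051253745) (nat_lit 76) (nat_lit 8874756536) (nat_lit 57) (nat_lit 5) (nat_lit 60) (nat_lit 5) (nat_lit 58) (nat_lit 5) (nat_lit 399) (nat_lit 317) (nat_lit 184)) (XT.nd (nat_lit 78) (nat_lit 152) (nat_lit 0) (XT.lf (nat_lit 0) (nat_lit 7328086019) (nat_lit 228) (nat_lit 5489665809) (nat_lit 76) (nat_lit 17722996953) (nat_lit 57) (nat_lit 5) (nat_lit 60) (nat_lit 5) (nat_lit 58) (nat_lit 5) (nat_lit 400) (nat_lit 317) (nat_lit 183)) (XT.lf (nat_lit 0) (nat_lit 9681325797) (nat_lit 152) (nat_lit 4268589069) (nat_lit 228) (nat_lit 17241846138) (nat_lit 55) (nat_lit 5) (nat_lit 57) (nat_lit 5) (nat_lit 58) (nat_lit 5) (nat_lit 401) (nat_lit 317) (nat_lit 182)))) (XT.nd (nat_lit 156) (nat_lit 228) (nat_lit 0) (XT.nd (nat_lit 78) (nat_lit 152) (nat_lit 0) (XT.lf (nat_lit 0) (nat_lit 20860551689) (nat_lit 228)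 (nat_lit 6501241380) (nat_lit 76) (nat_lit 4497808092) (nat_lit 55) (nat_lit 5) (nat_lit 58) (nat_lit 5) (nat_lit 56) (nat_lit 5) (nat_lit 402) (nat_lit 317) (nat_lit 181)) (XT.lf (nat_lit 0) (nat_lit 9077152155) (nat_lit 152) (nat_lit 19021705412) (nat_lit 228) (nat_lit 4445010554) (nat_lit 53) (nat_lit 5) (nat_lit 55) (nat_lit 5) (nat_lit 56) (nat_lit 5) (nat_lit 403) (nat_lit 317) (nat_lit 180))) (XT.nd (nat_lit 78) (nat_lit 152) (nat_lit 0) (XT.lf (nat_lit 0) (nat_lit 2317813029) (nat_lit 228) (nat_lit 8029308809) (nat_lit 76) (nat_lit 22899163677) (nat_lit 52) (nat_lit 5) (nat_lit 55) (nat_lit 5) (nat_lit 53) (nat_lit 5) (nat_lit 404) (nat_lit 317) (nat_lit 179)) (XT.lf (nat_lit 0) (nat_lit 7967175474) (nat_lit 152) (nat_lit 1294712487) (nat_lit 228) (nat_lit 24704537880) (nat_lit 50) (nat_lit 5) (nat_lit 52) (nat_lit 5) (nat_lit 53) (nat_lit 5) (nat_lit 405) (nat_lit 317) (nat_lit 178))))) (XT.nd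 (nat_lit 234) (nat_lit 380) (nat_lit 0) (XT.nd (nat_lit 78) (nat_lit 152) (nat_lit 0) (XT.lf (nat_lit 0) (nat_lit 16564519765) (nat_lit 228) (nat_lit 10191128719) (nat_lit 76) (nat_lit 7948016717) (nat_lit 50) (nat_lit 5) (nat_lit 53) (nat_lit 5) (nat_lit 51) (nat_lit 5) (nat_lit 406) (nat_lit 317) (nat_lit 177)) (XT.nd (nat_lit 78) (nat_lit 0) (nat_lit 0) (XT.lf (nat_lit 0) (nat_lit 6183989579) (nat_lit 152) (nat_lit 17965930699) (nat_lit 228) (nat_lit 11311192578) (nat_lit 48) (nat_lit 5) (nat_lit 50) (nat_lit 5) (nat_lit 51) (nat_lit 5) (nat_lit 407) (nat_lit 317) (nat_lit 176)) (XT.lf (nat_lit 0) (nat_lit 23244317639) (nat_lit 152) (nat_lit 8813008102) (nat_lit 228) (nat_lit 4181126669) (nat_lit 48) (nat_lit 5) (nat_lit 50) (nat_lit 5) (nat_lit 51) (nat_lit 5) (nat_lit 408) (nat_lit 317) (nat_lit 175)))) (XT.nd (nat_lit 156) (nat_lit 152) (nat_lit 0) (XT.nd (nat_lit 78) (nat_lit 0) (nat_lit 0) (XT.lf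 (nat_lit 0) (nat_lit 3135918576) (nat_lit 228) (nat_lit 33237325967) (nat_lit 76) (nat_lit 663913294) (nat_lit 45) (nat_lit 5) (nat_lit 48) (nat_lit 5) (nat_lit 46) (nat_lit 5) (nat_lit 409) (nat_lit 317) (nat_lit 174)) (XT.lf (nat_lit 0) (nat_lit 10799947877) (nat_lit 228) (nat_lit 16636583541) (nat_lit 76) (nat_lit 10415707420) (nat_lit 45) (nat_lit 5) (nat_lit 48) (nat_lit 5) (nat_lit 46) (nat_lit 5) (nat_lit 410) (nat_lit 317) (nat_lit 173))) (XT.nd (nat_lit 78) (nat_lit 0) (nat_lit 0) (XT.lf (nat_lit 0) (nat_lit 456797694) (nat_lit 152) (nat_lit 18233469299) (nat_lit 228) (nat_lit 20001615768) (nat_lit 43) (nat_lit 5) (nat_lit 45) (nat_lit 5) (nat_lit 46) (nat_lit 5) (nat_lit 411) (nat_lit 317) (nat_lit 172)) (XT.lf (nat_lit 0) (nat_lit 18389856958) (nat_lit 152) (nat_lit 8587511083) (nat_lit 228) (nat_lit 12574547306) (nat_lit 43) (nat_lit 5) (nat_lit 45) (nat_lit 5) (nat_lit 46) (nat_lit 5) (nat_lit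 412) (nat_lit 317) (nat_lit 171))))))))
noncomputable def xc150 : XT := (XT.nd (nat_lit 2028) (nat_lit 228) (nat_lit 0) (XT.nd (nat_lit 1014) (nat_lit 684) (nat_lit 0) (XT.nd (nat_lit 468) (nat_lit 380) (nat_lit 0) (XT.nd (nat_lit 234) (nat_lit 228) (nat_lit 0) (XT.nd (nat_lit 78) (nat_lit 152) (nat_lit 0) (XT.lf (nat_lit 0) (nat_lit 35518286376) (nat_lit 228) (nat_lit 3603715873) (nat_lit 76) (nat_lit 1315592003) (nat_lit 43) (nat_lit 5) (nat_lit 46) (nat_lit 5) (nat_lit 44) (nat_lit 4) (nat_lit 413) (nat_lit 317) (nat_lit 170)) (XT.nd (nat_lit 78) (nat_lit 0) (nat_lit 0) (XT.lf (nat_lit 0) (nat_lit 3128388449) (nat_lit 152) (nat_lit 26704874903) (nat_lit 76) (nat_lit 11509106276) (nat_lit 41) (nat_lit 5) (nat_lit 43) (nat_lit 5) (nat_lit 42) (nat_lit 5) (nat_lit 414) (nat_lit 317) (nat_lit 169)) (XT.lf (nat_lit 0) (nat_lit 11347882727) (nat_lit 152) (nat_lit 8835980355) (nat_lit 76) (nat_lit 22088088139)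 (nat_lit 41) (nat_lit 5) (nat_lit 43) (nat_lit 5) (nat_lit 42) (nat_lit 5) (nat_lit 415) (nat_lit 317) (nat_lit 168)))) (XT.nd (nat_lit 78) (nat_lit 76) (nat_lit 0) (XT.lf (nat_lit 0) (nat_lit 9746023411) (nat_lit 152) (nat_lit 10154331429) (nat_lit 228) (nat_lit 23326474940) (nat_lit 39) (nat_lit 5) (nat_lit 41) (nat_lit 5) (nat_lit 42) (nat_lit 5) (nat_lit 416) (nat_lit 317) (nat_lit 167)) (XT.nd (nat_lit 78) (nat_lit 76) (nat_lit 0) (XT.lf (nat_lit 0) (nat_lit 28793943069) (nat_lit 228) (nat_lit 15156808204) (nat_lit 76) (nat_lit 257068431) (nat_lit 39) (nat_lit 5) (nat_lit 42) (nat_lit 5) (nat_lit 40) (nat_lit 4) (nat_lit 417) (nat_lit 317) (nat_lit 166)) (XT.lf (nat_lit 0) (nat_lit 3675303543) (nat_lit 76) (nat_lit 34407853867) (nat_lit 152) (nat_lit 7131218594) (nat_lit 38) (nat_lit 5) (nat_lit 39) (nat_lit 5) (nat_lit 40) (nat_lit 4) (nat_lit 418) (nat_lit 317) (nat_lit 165))))) (XT.nd (nat_lit 234)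 (nat_lit 152) (nat_lit 0) (XT.nd (nat_lit 78) (nat_lit 152) (nat_lit 0) (XT.lf (nat_lit 0) (nat_lit 1520135876) (nat_lit 152) (nat_lit 22891233938) (nat_lit 76) (nat_lit 21834930608) (nat_lit 37) (nat_lit 5) (nat_lit 39) (nat_lit 5) (nat_lit 38) (nat_lit 5) (nat_lit 419) (nat_lit 317) (nat_lit 164)) (XT.nd (nat_lit 78) (nat_lit 152) (nat_lit 0) (XT.lf (nat_lit 0) (nat_lit 10280870183) (nat_lit 152) (nat_lit 3766996144) (nat_lit 76) (nat_lit 33259404101) (nat_lit 37) (nat_lit 5) (nat_lit 39) (nat_lit 5) (nat_lit 38) (nat_lit 5) (nat_lit 420) (nat_lit 317) (nat_lit 163)) (XT.lf (nat_lit 0) (nat_lit 16235718400) (nat_lit 152) (nat_lit 3218144353) (nat_lit 228) (nat_lit 28941724787) (nat_lit 35) (nat_lit 5) (nat_lit 37) (nat_lit 5) (nat_lit 38) (nat_lit 5) (nat_lit 421) (nat_lit 317) (nat_lit 162)))) (XT.nd (nat_lit 156) (nat_lit 76) (nat_lit 0) (XT.nd (nat_lit 78) (nat_lit 76) (nat_lit 0) (XT.lf (nat_lit 0)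 (nat_lit 29010146188) (nat_lit 228) (nat_lit 12688440905) (nat_lit 76) (nat_lit 7814725103) (nat_lit 35) (nat_lit 5) (nat_lit 38) (nat_lit 5) (nat_lit 36) (nat_lit 4) (nat_lit 422) (nat_lit 317) (nat_lit 161)) (XT.lf (nat_lit 0) (nat_lit 7469276944) (nat_lit 76) (nat_lit 31481090622) (nat_lit 152) (nat_lit 11711284572) (nat_lit 34) (nat_lit 5) (nat_lit 35) (nat_lit 5) (nat_lit 36) (nat_lit 4) (nat_lit 423) (nat_lit 317) (nat_lit 160))) (XT.nd (nat_lit 78) (nat_lit 76) (nat_lit 0) (XT.lf (nat_lit 0) (nat_lit 28480199142) (nat_lit 76) (nat_lit 20830387189) (nat_lit 152) (nat_lit 2530203229) (nat_lit 34) (nat_lit 5) (nat_lit 35) (nat_lit 5) (nat_lit 36) (nat_lit 4) (nat_lit 424) (nat_lit 317) (nat_lit 159)) (XT.lf (nat_lit 0) (nat_lit 6784938373) (nat_lit 152) (nat_lit 3011845779) (nat_lit 76) (nat_lit 43256706944) (nat_lit 33) (nat_lit 5) (nat_lit 35) (nat_lit 5) (nat_lit 34) (nat_lit 5) (nat_lit 425) (nat_lit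 317) (nat_lit 158)))))) (XT.nd (nat_lit 468) (nat_lit 228) (nat_lit 0) (XT.nd (nat_lit 234) (nat_lit 228) (nat_lit 0) (XT.nd (nat_lit 78) (nat_lit 76) (nat_lit 0) (XT.lf (nat_lit 0) (nat_lit 16515255070) (nat_lit 228) (nat_lit 36046048163) (nat_lit 76) (nat_lit 1734922553) (nat_lit 31) (nat_lit 5) (nat_lit 34) (nat_lit 5) (nat_lit 32) (nat_lit 4) (nat_lit 426) (nat_lit 317) (nat_lit 157)) (XT.nd (nat_lit 78) (nat_lit 76) (nat_lit 0) (XT.lf (nat_lit 0) (nat_lit 26659182216) (nat_lit 228) (nat_lit 15471931796) (nat_lit 76) (nat_lit 13441478367) (nat_lit 31) (nat_lit 5) (nat_lit 34) (nat_lit 5) (nat_lit 32) (nat_lit 4) (nat_lit 427) (nat_lit 317) (nat_lit 156)) (XT.lf (nat_lit 0) (nat_lit 5822240046) (nat_lit 76) (nat_lit 31335317384) (nat_lit 152) (nat_lit 19728189494) (nat_lit 30) (nat_lit 5) (nat_lit 31) (nat_lit 5) (nat_lit 32) (nat_lit 4) (nat_lit 428) (nat_lit 317) (nat_lit 155)))) (XT.nd (nat_lit 78)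 (nat_lit 228) (nat_lit 0) (XT.lf (nat_lit 0) (nat_lit 28061721285) (nat_lit 76) (nat_lit 20059629497) (nat_lit 152) (nat_lit 10112432158) (nat_lit 30) (nat_lit 5) (nat_lit 31) (nat_lit 5) (nat_lit 32) (nat_lit 4) (nat_lit 429) (nat_lit 317) (nat_lit 154)) (XT.nd (nat_lit 78) (nat_lit 228) (nat_lit 0) (XT.lf (nat_lit 0) (nat_lit 50958022694) (nat_lit 76) (nat_lit 8450433984) (nat_lit 152) (nat_lit 213972209) (nat_lit 30) (nat_lit 5) (nat_lit 31) (nat_lit 5) (nat_lit 32) (nat_lit 4) (nat_lit 430) (nat_lit 317) (nat_lit 153)) (XT.lf (nat_lit 0) (nat_lit 9948290313) (nat_lit 228) (nat_lit 47433307220) (nat_lit 76) (nat_lit 3663410336) (nat_lit 27) (nat_lit 5) (nat_lit 30) (nat_lit 5) (nat_lit 28) (nat_lit 4) (nat_lit 431) (nat_lit 317) (nat_lit 152))))) (XT.nd (nat_lit 234) (nat_lit 152) (nat_lit 0) (XT.nd (nat_lit 78) (nat_lit 76) (nat_lit 0) (XT.lf (nat_lit 0) (nat_lit 20577673325) (nat_lit 228) (nat_lit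 25870781103) (nat_lit 76) (nat_lit 16056750384) (nat_lit 27) (nat_lit 5) (nat_lit 30) (nat_lit 5) (nat_lit 28) (nat_lit 4) (nat_lit 432) (nat_lit 317) (nat_lit 151)) (XT.nd (nat_lit 78) (nat_lit 76) (nat_lit 0) (XT.lf (nat_lit 0) (nat_lit 31520623063) (nat_lit 228) (nat_lit 3671274102) (nat_lit 76) (nat_lit 28817470664) (nat_lit 27) (nat_lit 5) (nat_lit 30) (nat_lit 5) (nat_lit 28) (nat_lit 4) (nat_lit 433) (nat_lit 317) (nat_lit 150)) (XT.lf (nat_lit 0) (nat_lit 19566422793) (nat_lit 76) (nat_lit 23408362960) (nat_lit 152) (nat_lit 22578382953) (nat_lit 26) (nat_lit 5) (nat_lit 27) (nat_lit 5) (nat_lit 28) (nat_lit 4) (nat_lit 434) (nat_lit 317) (nat_lit 149)))) (XT.nd (nat_lit 156) (nat_lit 152) (nat_lit 0) (XT.nd (nat_lit 78) (nat_lit 0) (nat_lit 0) (XT.lf (nat_lit 0) (nat_lit 43566995600) (nat_lit 76) (nat_lit 11237549280) (nat_lit 152) (nat_lit 12337780264) (nat_lit 26) (nat_lit 5) (nat_lit 27) (nat_lit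 5) (nat_lit 28) (nat_lit 4) (nat_lit 435) (nat_lit 317) (nat_lit 148)) (XT.lf (nat_lit 0) (nat_lit 66996683980) (nat_lit 152) (nat_lit 513395111) (nat_lit 0) (nat_lit 1268853230) (nat_lit 26) (nat_lit 5) (nat_lit 28) (nat_lit 4) (nat_lit 26) (nat_lit 4) (nat_lit 436) (nat_lit 317) (nat_lit 147))) (XT.nd (nat_lit 78) (nat_lit 0) (nat_lit 0) (XT.lf (nat_lit 0) (nat_lit 9248950981) (nat_lit 152) (nat_lit 46965124189) (nat_lit 76) (nat_lit 14237850449) (nat_lit 24) (nat_lit 5) (nat_lit 26) (nat_lit 5) (nat_lit 25) (nat_lit 4) (nat_lit 437) (nat_lit 317) (nat_lit 146)) (XT.lf (nat_lit 0) (nat_lit 20575659005) (nat_lit 152) (nat_lit 23984201979) (nat_lit 76) (nat_lit 27614707133) (nat_lit 24) (nat_lit 5) (nat_lit 26) (nat_lit 5) (nat_lit 25) (nat_lit 4) (nat_lit 438) (nat_lit 317) (nat_lit 145))))))) (XT.nd (nat_lit 38064) (nat_lit 0) (nat_lit 14820) (XT.nd (nat_lit 37518) (nat_lit 0) (nat_lit 19076) (XT.nd (nat_lit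 234) (nat_lit 152) (nat_lit 0) (XT.nd (nat_lit 78) (nat_lit 76) (nat_lit 0) (XT.lf (nat_lit 0) (nat_lit 32237467819) (nat_lit 152) (nat_lit 322667059) (nat_lit 76) (nat_lit 41388896616) (nat_lit 24) (nat_lit 5) (nat_lit 26) (nat_lit 5) (nat_lit 25) (nat_lit 4) (nat_lit 439) (nat_lit 317) (nat_lit 144)) (XT.nd (nat_lit 78) (nat_lit 0) (nat_lit 0) (XT.lf (nat_lit 0) (nat_lit 24518601936) (nat_lit 76) (nat_lit 19961653216) (nat_lit 152) (nat_lit 31289540461) (nat_lit 23) (nat_lit 5) (nat_lit 24) (nat_lit 5) (nat_lit 25) (nat_lit 4) (nat_lit 440) (nat_lit 317) (nat_lit 143)) (XT.lf (nat_lit 0) (nat_lit 50103249054) (nat_lit 76) (nat_lit 6985823269) (nat_lit 152) (nat_lit 20556148501) (nat_lit 23) (nat_lit 5) (nat_lit 24) (nat_lit 5) (nat_lit 25) (nat_lit 4) (nat_lit 441) (nat_lit 317) (nat_lit 142)))) (XT.nd (nat_lit 78) (nat_lit 152) (nat_lit 0) (XT.lf (nat_lit 0) (nat_lit 70133057923) (nat_lit 152) (nat_lit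 3191117223) (nat_lit 0) (nat_lit 6251027066) (nat_lit 23) (nat_lit 5) (nat_lit 25) (nat_lit 4) (nat_lit 23) (nat_lit 4) (nat_lit 442) (nat_lit 317) (nat_lit 141)) (XT.nd (nat_lit 37128) (nat_lit 0) (nat_lit 19912) (XT.lf (nat_lit 0) (nat_lit 2247639700) (nat_lit 152) (nat_lit 59329619199) (nat_lit 76) (nat_lit 19976801674) (nat_lit 21) (nat_lit 5) (nat_lit 23) (nat_lit 5) (nat_lit 22) (nat_lit 4) (nat_lit 443) (nat_lit 317) (nat_lit 140)) (XT.lf (nat_lit 0) (nat_lit 131483200) (nat_lit 988) (nat_lit 1892078114) (nat_lit 988) (nat_lit 1892078114) (nat_lit 283) (nat_lit 3) (nat_lit 296) (nat_lit 3) (nat_lit 296) (nat_lit 5) (nat_lit 318) (nat_lit 318) (nat_lit 264))))) (XT.nd (nat_lit 234) (nat_lit 836) (nat_lit 0) (XT.nd (nat_lit 78) (nat_lit 0) (nat_lit 76) (XT.lf (nat_lit 0) (nat_lit 1517081008) (nat_lit 988) (nat_lit 53526253) (nat_lit 988) (nat_lit 6339690882) (nat_lit 283) (nat_lit 3) (nat_lit 296)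 (nat_lit 3) (nat_lit 296) (nat_lit 5) (nat_lit 319) (nat_lit 318) (nat_lit 263)) (XT.nd (nat_lit 78) (nat_lit 0) (nat_lit 0) (XT.lf (nat_lit 0) (nat_lit 2806944125) (nat_lit 912) (nat_lit 4163311001) (nat_lit 988) (nat_lit 1021526000) (nat_lit 284) (nat_lit 5) (nat_lit 296) (nat_lit 5) (nat_lit 297) (nat_lit 5) (nat_lit 320) (nat_lit 318) (nat_lit 262)) (XT.lf (nat_lit 0) (nat_lit 4104208964) (nat_lit 912) (nat_lit 289806131) (nat_lit 988) (nat_lit 3682668130) (nat_lit 284) (nat_lit 5) (nat_lit 296) (nat_lit 5) (nat_lit 297) (nat_lit 5) (nat_lit 321) (nat_lit 318) (nat_lit 261)))) (XT.nd (nat_lit 156) (nat_lit 912) (nat_lit 0) (XT.nd (nat_lit 78) (nat_lit 0) (nat_lit 76) (XT.lf (nat_lit 76) (nat_lit 3747218371) (nat_lit 0) (nat_lit 1683183639) (nat_lit 988) (nat_lit 2734064825) (nat_lit 285) (nat_lit 5) (nat_lit 284) (nat_lit 5) (nat_lit 297) (nat_lit 5) (nat_lit 322) (nat_lit 318) (nat_lit 260)) (XT.lf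 (nat_lit 0) (nat_lit 6765266707) (nat_lit 912) (nat_lit 381312471) (nat_lit 988) (nat_lit 1109271942) (nat_lit 285) (nat_lit 5) (nat_lit 297) (nat_lit 5) (nat_lit 298) (nat_lit 5) (nat_lit 323) (nat_lit 318) (nat_lit 259))) (XT.nd (nat_lit 78) (nat_lit 988) (nat_lit 0) (XT.lf (nat_lit 76) (nat_lit 3806992946) (nat_lit 0) (nat_lit 4343017820) (nat_lit 988) (nat_lit 199703927) (nat_lit 286) (nat_lit 5) (nat_lit 285) (nat_lit 5) (nat_lit 298) (nat_lit 5) (nat_lit 324) (nat_lit 318) (nat_lit 258)) (XT.lf (nat_lit 0) (nat_lit 1068879336) (nat_lit 988) (nat_lit 355371457) (nat_lit 1064) (nat_lit 7023017675) (nat_lit 272) (nat_lit 5) (nat_lit 285) (nat_lit 5) (nat_lit 286) (nat_lit 5) (nat_lit 325) (nat_lit 318) (nat_lit 257)))))) (XT.nd (nat_lit 546) (nat_lit 3420) (nat_lit 0) (XT.nd (nat_lit 234) (nat_lit 912) (nat_lit 0) (XT.nd (nat_lit 78) (nat_lit 0) (nat_lit 0) (XT.lf (nat_lit 0) (nat_lit 2384172295) (nat_lit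 988) (nat_lit 4555916041) (nat_lit 1064) (nat_lit 1607251201) (nat_lit 273) (nat_lit 5) (nat_lit 286) (nat_lit 5) (nat_lit 287) (nat_lit 5) (nat_lit 326) (nat_lit 318) (nat_lit 256)) (XT.nd (nat_lit 78) (nat_lit 0) (nat_lit 0) (XT.lf (nat_lit 0) (nat_lit 3716138926) (nat_lit 988) (nat_lit 215841033) (nat_lit 1064) (nat_lit 4719145441) (nat_lit 273) (nat_lit 5) (nat_lit 286) (nat_lit 5) (nat_lit 287) (nat_lit 5) (nat_lit 327) (nat_lit 318) (nat_lit 255)) (XT.lf (nat_lit 76) (nat_lit 4312069559) (nat_lit 0) (nat_lit 778114475) (nat_lit 1064) (nat_lit 3667805482) (nat_lit 274) (nat_lit 5) (nat_lit 273) (nat_lit 5) (nat_lit 287) (nat_lit 5) (nat_lit 328) (nat_lit 318) (nat_lit 254)))) (XT.nd (nat_lit 156) (nat_lit 988) (nat_lit 0) (XT.nd (nat_lit 78) (nat_lit 0) (nat_lit 0) (XT.lf (nat_lit 76) (nat_lit 62143746) (nat_lit 0) (nat_lit 6431531535) (nat_lit 1064) (nat_lit 2374764965) (nat_lit 275) (nat_lit 5) (nat_lit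 274) (nat_lit 5) (nat_lit 288) (nat_lit 5) (nat_lit 329) (nat_lit 318) (nat_lit 253)) (XT.lf (nat_lit 76) (nat_lit 4761450540) (nat_lit 0) (nat_lit 3192877878) (nat_lit 1064) (nat_lit 1027451004) (nat_lit 275) (nat_lit 5) (nat_lit 274) (nat_lit 5) (nat_lit 288) (nat_lit 5) (nat_lit 330) (nat_lit 318) (nat_lit 252))) (XT.nd (nat_lit 78) (nat_lit 0) (nat_lit 0) (XT.lf (nat_lit 0) (nat_lit 322669362) (nat_lit 1064) (nat_lit 8619031619) (nat_lit 1140) (nat_lit 157656482) (nat_lit 261) (nat_lit 5) (nat_lit 275) (nat_lit 5) (nat_lit 276) (nat_lit 5) (nat_lit 331) (nat_lit 318) (nat_lit 251)) (XT.lf (nat_lit 0) (nat_lit 1731431192) (nat_lit 1064) (nat_lit 3881041568) (nat_lit 1140) (nat_lit 3606545619) (nat_lit 261) (nat_lit 5) (nat_lit 275) (nat_lit 5) (nat_lit 276) (nat_lit 5) (nat_lit 332) (nat_lit 318) (nat_lit 250))))) (XT.nd (nat_lit 234) (nat_lit 2432) (nat_lit 0) (XT.nd (nat_lit 78) (nat_lit 988) (nat_lit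 0) (XT.lf (nat_lit 76) (nat_lit 991085433) (nat_lit 0) (nat_lit 2166078868) (nat_lit 1140) (nat_lit 6185887238) (nat_lit 262) (nat_lit 5) (nat_lit 261) (nat_lit 5) (nat_lit 276) (nat_lit 5) (nat_lit 333) (nat_lit 318) (nat_lit 249)) (XT.nd (nat_lit 78) (nat_lit 1064) (nat_lit 0) (XT.lf (nat_lit 0) (nat_lit 4644551955) (nat_lit 1064) (nat_lit 3422571684) (nat_lit 76) (nat_lit 1403138555) (nat_lit 262) (nat_lit 5) (nat_lit 276) (nat_lit 5) (nat_lit 263) (nat_lit 5) (nat_lit 334) (nat_lit 318) (nat_lit 248)) (XT.lf (nat_lit 0) (nat_lit 1637853178) (nat_lit 1064) (nat_lit 4542891223) (nat_lit 1140) (nat_lit 3420441581) (nat_lit 248) (nat_lit 5) (nat_lit 262) (nat_lit 5) (nat_lit 263) (nat_lit 5) (nat_lit 335) (nat_lit 318) (nat_lit 247)))) (XT.nd (nat_lit 156) (nat_lit 1292) (nat_lit 0) (XT.nd (nat_lit 78) (nat_lit 1140) (nat_lit 0) (XT.lf (nat_lit 0) (nat_lit 6893152959) (nat_lit 1064) (nat_lit 872124617)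 (nat_lit 1140) (nat_lit 1970713919) (nat_lit 248) (nat_lit 5) (nat_lit 262) (nat_lit 5) (nat_lit 263) (nat_lit 5) (nat_lit 336) (nat_lit 318) (nat_lit 246)) (XT.lf (nat_lit 0) (nat_lit 2423278058) (nat_lit 1140) (nat_lit 6994006814) (nat_lit 1216) (nat_lit 456979183) (nat_lit 233) (nat_lit 5) (nat_lit 248) (nat_lit 5) (nat_lit 249) (nat_lit 5) (nat_lit 337) (nat_lit 318) (nat_lit 245))) (XT.nd (nat_lit 78) (nat_lit 1216) (nat_lit 0) (XT.lf (nat_lit 0) (nat_lit 1087298304) (nat_lit 1216) (nat_lit 2157371138) (nat_lit 76) (nat_lit 6771518193) (nat_lit 232) (nat_lit 5) (nat_lit 248) (nat_lit 5) (nat_lit 233) (nat_lit 5) (nat_lit 338) (nat_lit 318) (nat_lit 244)) (XT.lf (nat_lit 0) (nat_lit 2676954951) (nat_lit 1292) (nat_lit 6839920169) (nat_lit 76) (nat_lit 645130239) (nat_lit 216) (nat_lit 5) (nat_lit 233) (nat_lit 5) (nat_lit 217) (nat_lit 5) (nat_lit 339) (nat_lit 318) (nat_lit 243))))))))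
noncomputable def xc151 : XT := (XT.nd (nat_lit 2106) (nat_lit 3952) (nat_lit 0) (XT.nd (nat_lit 1014) (nat_lit 3420) (nat_lit 0) (XT.nd (nat_lit 468) (nat_lit 2052) (nat_lit 0) (XT.nd (nat_lit 234) (nat_lit 1216) (nat_lit 0) (XT.nd (nat_lit 78) (nat_lit 608) (nat_lit 0) (XT.lf (nat_lit 0) (nat_lit 4338989767) (nat_lit 1292) (nat_lit 1361283320) (nat_lit 76) (nat_lit 4611202557) (nat_lit 216) (nat_lit 5) (nat_lit 233) (nat_lit 5) (nat_lit 217) (nat_lit 5) (nat_lit 340) (nat_lit 318) (nat_lit 242)) (XT.nd (nat_lit 78) (nat_lit 0) (nat_lit 0) (XT.lf (nat_lit 0) (nat_lit 4339649854) (nat_lit 608) (nat_lit 1724370672) (nat_lit 684) (nat_lit 4401033602) (nat_lit 208) (nat_lit 5) (nat_lit 216) (nat_lit 5) (nat_lit 217) (nat_lit 5) (nat_lit 341) (nat_lit 318) (nat_lit 241)) (XT.lf (nat_lit 0) (nat_lit 7849486281) (nat_lit 684) (nat_lit 433592421) (nat_lit 76) (nat_lit 2339918355) (nat_lit 208) (nat_lit 5) (nat_lit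 217) (nat_lit 5) (nat_lit 209) (nat_lit 5) (nat_lit 342) (nat_lit 318) (nat_lit 240)))) (XT.nd (nat_lit 78) (nat_lit 684) (nat_lit 0) (XT.lf (nat_lit 0) (nat_lit 5492521364) (nat_lit 532) (nat_lit 4238692291) (nat_lit 608) (nat_lit 1053200785) (nat_lit 201) (nat_lit 5) (nat_lit 208) (nat_lit 5) (nat_lit 209) (nat_lit 5) (nat_lit 343) (nat_lit 318) (nat_lit 239)) (XT.nd (nat_lit 78) (nat_lit 0) (nat_lit 0) (XT.lf (nat_lit 0) (nat_lit 633320330) (nat_lit 608) (nat_lit 54968899) (nat_lit 684) (nat_lit 10262686105) (nat_lit 192) (nat_lit 5) (nat_lit 200) (nat_lit 5) (nat_lit 201) (nat_lit 5) (nat_lit 344) (nat_lit 318) (nat_lit 238)) (XT.lf (nat_lit 0) (nat_lit 2529329369) (nat_lit 684) (nat_lit 4355404355) (nat_lit 76) (nat_lit 4235447934) (nat_lit 192) (nat_lit 5) (nat_lit 201) (nat_lit 5) (nat_lit 193) (nat_lit 5) (nat_lit 345) (nat_lit 318) (nat_lit 237))))) (XT.nd (nat_lit 234) (nat_lit 988) (nat_lit 0)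 (XT.nd (nat_lit 78) (nat_lit 532) (nat_lit 0) (XT.lf (nat_lit 0) (nat_lit 1793574722) (nat_lit 532) (nat_lit 2624192025) (nat_lit 608) (nat_lit 6876947633) (nat_lit 185) (nat_lit 5) (nat_lit 192) (nat_lit 5) (nat_lit 193) (nat_lit 5) (nat_lit 346) (nat_lit 318) (nat_lit 236)) (XT.nd (nat_lit 78) (nat_lit 532) (nat_lit 0) (XT.lf (nat_lit 0) (nat_lit 6399094296) (nat_lit 608) (nat_lit 3301342811) (nat_lit 76) (nat_lit 1772973615) (nat_lit 185) (nat_lit 5) (nat_lit 193) (nat_lit 5) (nat_lit 186) (nat_lit 5) (nat_lit 347) (nat_lit 318) (nat_lit 235)) (XT.lf (nat_lit 0) (nat_lit 3092510749) (nat_lit 532) (nat_lit 5378654598) (nat_lit 608) (nat_lit 3185377817) (nat_lit 178) (nat_lit 5) (nat_lit 185) (nat_lit 5) (nat_lit 186) (nat_lit 5) (nat_lit 348) (nat_lit 318) (nat_lit 234)))) (XT.nd (nat_lit 156) (nat_lit 456) (nat_lit 0) (XT.nd (nat_lit 78) (nat_lit 532) (nat_lit 0) (XT.lf (nat_lit 0) (nat_lit 9719810945)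 (nat_lit 532) (nat_lit 894979641) (nat_lit 608) (nat_lit 1230111132) (nat_lit 178) (nat_lit 5) (nat_lit 185) (nat_lit 5) (nat_lit 186) (nat_lit 5) (nat_lit 349) (nat_lit 318) (nat_lit 233)) (XT.lf (nat_lit 0) (nat_lit 825164232) (nat_lit 532) (nat_lit 7511608689) (nat_lit 76) (nat_lit 3700225806) (nat_lit 171) (nat_lit 5) (nat_lit 178) (nat_lit 5) (nat_lit 172) (nat_lit 5) (nat_lit 350) (nat_lit 318) (nat_lit 232))) (XT.nd (nat_lit 78) (nat_lit 456) (nat_lit 0) (XT.lf (nat_lit 0) (nat_lit 2924831040) (nat_lit 532) (nat_lit 862713657) (nat_lit 76) (nat_lit 8446737577) (nat_lit 171) (nat_lit 5) (nat_lit 178) (nat_lit 5) (nat_lit 172) (nat_lit 5) (nat_lit 351) (nat_lit 318) (nat_lit 231)) (XT.lf (nat_lit 0) (nat_lit 5132700883) (nat_lit 532) (nat_lit 6366761113) (nat_lit 76) (nat_lit 936678291) (nat_lit 165) (nat_lit 5) (nat_lit 172) (nat_lit 5) (nat_lit 166) (nat_lit 5) (nat_lit 352) (nat_lit 318) (nat_lit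 230)))))) (XT.nd (nat_lit 546) (nat_lit 1596) (nat_lit 0) (XT.nd (nat_lit 234) (nat_lit 912) (nat_lit 0) (XT.nd (nat_lit 78) (nat_lit 456) (nat_lit 0) (XT.lf (nat_lit 0) (nat_lit 530265294) (nat_lit 456) (nat_lit 6905913407) (nat_lit 532) (nat_lit 5207006175) (nat_lit 159) (nat_lit 5) (nat_lit 165) (nat_lit 5) (nat_lit 166) (nat_lit 5) (nat_lit 353) (nat_lit 318) (nat_lit 229)) (XT.nd (nat_lit 78) (nat_lit 456) (nat_lit 0) (XT.lf (nat_lit 0) (nat_lit 7739145736) (nat_lit 456) (nat_lit 2112278839) (nat_lit 532) (nat_lit 3003747959) (nat_lit 159) (nat_lit 5) (nat_lit 165) (nat_lit 5) (nat_lit 166) (nat_lit 5) (nat_lit 354) (nat_lit 318) (nat_lit 228)) (XT.lf (nat_lit 0) (nat_lit 2078750612) (nat_lit 456) (nat_lit 10286481727) (nat_lit 532) (nat_lit 707515651) (nat_lit 153) (nat_lit 5) (nat_lit 159) (nat_lit 5) (nat_lit 160) (nat_lit 5) (nat_lit 355) (nat_lit 318) (nat_lit 227)))) (XT.nd (nat_lit 156) (nat_lit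 456) (nat_lit 0) (XT.nd (nat_lit 78) (nat_lit 380) (nat_lit 0) (XT.lf (nat_lit 0) (nat_lit 1677465152) (nat_lit 532) (nat_lit 3764020785) (nat_lit 76) (nat_lit 7853331190) (nat_lit 152) (nat_lit 5) (nat_lit 159) (nat_lit 5) (nat_lit 153) (nat_lit 5) (nat_lit 356) (nat_lit 318) (nat_lit 226)) (XT.lf (nat_lit 0) (nat_lit 3723651906) (nat_lit 380) (nat_lit 411645624) (nat_lit 456) (nat_lit 9387585324) (nat_lit 147) (nat_lit 5) (nat_lit 152) (nat_lit 5) (nat_lit 153) (nat_lit 5) (nat_lit 357) (nat_lit 318) (nat_lit 225))) (XT.nd (nat_lit 78) (nat_lit 456) (nat_lit 0) (XT.lf (nat_lit 0) (nat_lit 6731130984) (nat_lit 456) (nat_lit 2314935139) (nat_lit 76) (nat_lit 4709806490) (nat_lit 147) (nat_lit 5) (nat_lit 153) (nat_lit 5) (nat_lit 148) (nat_lit 5) (nat_lit 358) (nat_lit 318) (nat_lit 224)) (XT.lf (nat_lit 0) (nat_lit 5472149918) (nat_lit 456) (nat_lit 3969985452) (nat_lit 532) (nat_lit 4552607567) (nat_lit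 141) (nat_lit 5) (nat_lit 147) (nat_lit 5) (nat_lit 148) (nat_lit 5) (nat_lit 359) (nat_lit 318) (nat_lit 223))))) (XT.nd (nat_lit 234) (nat_lit 760) (nat_lit 0) (XT.nd (nat_lit 78) (nat_lit 836) (nat_lit 0) (XT.lf (nat_lit 0) (nat_lit 12251074782) (nat_lit 532) (nat_lit 736841409) (nat_lit 76) (nat_lit 1252374499) (nat_lit 141) (nat_lit 5) (nat_lit 148) (nat_lit 5) (nat_lit 142) (nat_lit 5) (nat_lit 360) (nat_lit 318) (nat_lit 222)) (XT.nd (nat_lit 78) (nat_lit 380) (nat_lit 0) (XT.lf (nat_lit 0) (nat_lit 730809944) (nat_lit 456) (nat_lit 7134797799) (nat_lit 76) (nat_lit 6624645180) (nat_lit 135) (nat_lit 5) (nat_lit 141) (nat_lit 5) (nat_lit 136) (nat_lit 5) (nat_lit 361) (nat_lit 318) (nat_lit 221)) (XT.lf (nat_lit 0) (nat_lit 932403622) (nat_lit 380) (nat_lit 2558108196) (nat_lit 456) (nat_lit 11256678318) (nat_lit 130) (nat_lit 5) (nat_lit 135) (nat_lit 5) (nat_lit 136) (nat_lit 5) (nat_lit 362) (nat_lit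 318) (nat_lit 220)))) (XT.nd (nat_lit 156) (nat_lit 456) (nat_lit 0) (XT.nd (nat_lit 78) (nat_lit 304) (nat_lit 0) (XT.lf (nat_lit 0) (nat_lit 6415555104) (nat_lit 456) (nat_lit 5674884865) (nat_lit 76) (nat_lit 2918927395) (nat_lit 130) (nat_lit 5) (nat_lit 136) (nat_lit 5) (nat_lit 131) (nat_lit 5) (nat_lit 363) (nat_lit 318) (nat_lit 219)) (XT.lf (nat_lit 0) (nat_lit 2713124460) (nat_lit 304) (nat_lit 6748992608) (nat_lit 380) (nat_lit 5816287986) (nat_lit 126) (nat_lit 5) (nat_lit 130) (nat_lit 5) (nat_lit 131) (nat_lit 5) (nat_lit 364) (nat_lit 318) (nat_lit 218))) (XT.nd (nat_lit 78) (nat_lit 456) (nat_lit 0) (XT.lf (nat_lit 0) (nat_lit 11445631639) (nat_lit 304) (nat_lit 1194397006) (nat_lit 380) (nat_lit 2914294575) (nat_lit 126) (nat_lit 5) (nat_lit 130) (nat_lit 5) (nat_lit 131) (nat_lit 5) (nat_lit 365) (nat_lit 318) (nat_lit 217)) (XT.lf (nat_lit 0) (nat_lit 145065681) (nat_lit 456) (nat_lit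 11212728590) (nat_lit 76) (nat_lit 4478557598) (nat_lit 120) (nat_lit 5) (nat_lit 126) (nat_lit 5) (nat_lit 121) (nat_lit 5) (nat_lit 366) (nat_lit 318) (nat_lit 216))))))) (XT.nd (nat_lit 1014) (nat_lit 1824) (nat_lit 0) (XT.nd (nat_lit 468) (nat_lit 1140) (nat_lit 0) (XT.nd (nat_lit 234) (nat_lit 684) (nat_lit 0) (XT.nd (nat_lit 78) (nat_lit 304) (nat_lit 0) (XT.lf (nat_lit 0) (nat_lit 3274553480) (nat_lit 456) (nat_lit 2487914027) (nat_lit 76) (nat_lit 10362407860) (nat_lit 120) (nat_lit 5) (nat_lit 126) (nat_lit 5) (nat_lit 121) (nat_lit 5) (nat_lit 367) (nat_lit 318) (nat_lit 215)) (XT.nd (nat_lit 78) (nat_lit 0) (nat_lit 0) (XT.lf (nat_lit 0) (nat_lit 6545674558) (nat_lit 380) (nat_lit 9816369173) (nat_lit 76) (nat_lit 58585423) (nat_lit 116) (nat_lit 5) (nat_lit 121) (nat_lit 5) (nat_lit 117) (nat_lit 5) (nat_lit 368) (nat_lit 318) (nat_lit 214)) (XT.lf (nat_lit 0) (nat_lit 9981237446) (nat_lit 380)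 (nat_lit 784488249) (nat_lit 76) (nat_lit 5957547452) (nat_lit 116) (nat_lit 5) (nat_lit 121) (nat_lit 5) (nat_lit 117) (nat_lit 5) (nat_lit 369) (nat_lit 318) (nat_lit 213)))) (XT.nd (nat_lit 78) (nat_lit 380) (nat_lit 0) (XT.lf (nat_lit 0) (nat_lit 8665222771) (nat_lit 304) (nat_lit 4922291568) (nat_lit 380) (nat_lit 3445459348) (nat_lit 112) (nat_lit 5) (nat_lit 116) (nat_lit 5) (nat_lit 117) (nat_lit 5) (nat_lit 370) (nat_lit 318) (nat_lit 212)) (XT.nd (nat_lit 78) (nat_lit 76) (nat_lit 0) (XT.lf (nat_lit 0) (nat_lit 1050251410) (nat_lit 304) (nat_lit 16264896344) (nat_lit 380) (nat_lit 36428889) (nat_lit 108) (nat_lit 5) (nat_lit 112) (nat_lit 5) (nat_lit 113) (nat_lit 5) (nat_lit 371) (nat_lit 318) (nat_lit 211)) (XT.lf (nat_lit 0) (nat_lit 3525748211) (nat_lit 380) (nat_lit 6860349105) (nat_lit 76) (nat_lit 7289083879) (nat_lit 107) (nat_lit 5) (nat_lit 112) (nat_lit 5) (nat_lit 108) (nat_lit 5)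 (nat_lit 372) (nat_lit 318) (nat_lit 210))))) (XT.nd (nat_lit 234) (nat_lit 608) (nat_lit 0) (XT.nd (nat_lit 78) (nat_lit 228) (nat_lit 0) (XT.lf (nat_lit 0) (nat_lit 2898209274) (nat_lit 304) (nat_lit 4308769650) (nat_lit 380) (nat_lit 10801122425) (nat_lit 103) (nat_lit 5) (nat_lit 107) (nat_lit 5) (nat_lit 108) (nat_lit 5) (nat_lit 373) (nat_lit 318) (nat_lit 209)) (XT.nd (nat_lit 78) (nat_lit 228) (nat_lit 0) (XT.lf (nat_lit 0) (nat_lit 11072583440) (nat_lit 380) (nat_lit 5300222255) (nat_lit 76) (nat_lit 1975991033) (nat_lit 103) (nat_lit 5) (nat_lit 108) (nat_lit 5) (nat_lit 104) (nat_lit 5) (nat_lit 374) (nat_lit 318) (nat_lit 208)) (XT.lf (nat_lit 0) (nat_lit 4834039760) (nat_lit 228) (nat_lit 10294897469) (nat_lit 304) (nat_lit 3568537866) (nat_lit 100) (nat_lit 5) (nat_lit 103) (nat_lit 5) (nat_lit 104) (nat_lit 5) (nat_lit 375) (nat_lit 318) (nat_lit 207)))) (XT.nd (nat_lit 156) (nat_lit 228)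 (nat_lit 0) (XT.nd (nat_lit 78) (nat_lit 304) (nat_lit 0) (XT.lf (nat_lit 0) (nat_lit 285255613) (nat_lit 304) (nat_lit 3698412046) (nat_lit 76) (nat_lit 15071685994) (nat_lit 99) (nat_lit 5) (nat_lit 103) (nat_lit 5) (nat_lit 100) (nat_lit 5) (nat_lit 376) (nat_lit 318) (nat_lit 206)) (XT.lf (nat_lit 0) (nat_lit 4260042387) (nat_lit 380) (nat_lit 12597425158) (nat_lit 76) (nat_lit 2563133042) (nat_lit 95) (nat_lit 5) (nat_lit 100) (nat_lit 5) (nat_lit 96) (nat_lit 5) (nat_lit 377) (nat_lit 318) (nat_lit 205))) (XT.nd (nat_lit 78) (nat_lit 228) (nat_lit 0) (XT.lf (nat_lit 0) (nat_lit 8417507639) (nat_lit 380) (nat_lit 2120237436) (nat_lit 76) (nat_lit 9257161747) (nat_lit 95) (nat_lit 5) (nat_lit 100) (nat_lit 5) (nat_lit 96) (nat_lit 5) (nat_lit 378) (nat_lit 318) (nat_lit 204)) (XT.lf (nat_lit 0) (nat_lit 8823081418) (nat_lit 228) (nat_lit 3948104154) (nat_lit 304) (nat_lit 7407116810) (nat_lit 92) (nat_lit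 5) (nat_lit 95) (nat_lit 5) (nat_lit 96) (nat_lit 5) (nat_lit 379) (nat_lit 318) (nat_lit 203)))))) (XT.nd (nat_lit 546) (nat_lit 684) (nat_lit 0) (XT.nd (nat_lit 234) (nat_lit 532) (nat_lit 0) (XT.nd (nat_lit 78) (nat_lit 608) (nat_lit 0) (XT.lf (nat_lit 0) (nat_lit 17291191117) (nat_lit 304) (nat_lit 482385294) (nat_lit 76) (nat_lit 2798556534) (nat_lit 92) (nat_lit 5) (nat_lit 96) (nat_lit 5) (nat_lit 93) (nat_lit 5) (nat_lit 380) (nat_lit 318) (nat_lit 202)) (XT.nd (nat_lit 78) (nat_lit 228) (nat_lit 0) (XT.lf (nat_lit 0) (nat_lit 1082163648) (nat_lit 380) (nat_lit 10114705299) (nat_lit 76) (nat_lit 9776672796) (nat_lit 87) (nat_lit 5) (nat_lit 92) (nat_lit 5) (nat_lit 88) (nat_lit 5) (nat_lit 381) (nat_lit 318) (nat_lit 201)) (XT.lf (nat_lit 0) (nat_lit 1132959340) (nat_lit 228) (nat_lit 4380310936) (nat_lit 304) (nat_lit 15872660703) (nat_lit 84) (nat_lit 5) (nat_lit 87) (nat_lit 5) (nat_lit 88) (nat_lit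 5) (nat_lit 382) (nat_lit 318) (nat_lit 200)))) (XT.nd (nat_lit 156) (nat_lit 304) (nat_lit 0) (XT.nd (nat_lit 78) (nat_lit 228) (nat_lit 0) (XT.lf (nat_lit 0) (nat_lit 10193198778) (nat_lit 304) (nat_lit 8928697360) (nat_lit 76) (nat_lit 2685323233) (nat_lit 84) (nat_lit 5) (nat_lit 88) (nat_lit 5) (nat_lit 85) (nat_lit 5) (nat_lit 383) (nat_lit 318) (nat_lit 199)) (XT.lf (nat_lit 0) (nat_lit 2725637920) (nat_lit 228) (nat_lit 12345179713) (nat_lit 304) (nat_lit 7168614021) (nat_lit 81) (nat_lit 5) (nat_lit 84) (nat_lit 5) (nat_lit 85) (nat_lit 5) (nat_lit 384) (nat_lit 318) (nat_lit 198))) (XT.nd (nat_lit 78) (nat_lit 304) (nat_lit 0) (XT.lf (nat_lit 0) (nat_lit 14893339004) (nat_lit 228) (nat_lit 5279483104) (nat_lit 304) (nat_lit 2509450389) (nat_lit 81) (nat_lit 5) (nat_lit 84) (nat_lit 5) (nat_lit 85) (nat_lit 5) (nat_lit 385) (nat_lit 318) (nat_lit 197)) (XT.lf (nat_lit 0) (nat_lit 2294343108) (nat_lit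 304) (nat_lit 18825408510) (nat_lit 76) (nat_lit 2016504448) (nat_lit 77) (nat_lit 5) (nat_lit 81) (nat_lit 5) (nat_lit 78) (nat_lit 5) (nat_lit 386) (nat_lit 318) (nat_lit 196))))) (XT.nd (nat_lit 234) (nat_lit 456) (nat_lit 0) (XT.nd (nat_lit 78) (nat_lit 228) (nat_lit 0) (XT.lf (nat_lit 0) (nat_lit 7311741160) (nat_lit 304) (nat_lit 6765181479) (nat_lit 76) (nat_lit 9522596847) (nat_lit 77) (nat_lit 5) (nat_lit 81) (nat_lit 5) (nat_lit 78) (nat_lit 5) (nat_lit 387) (nat_lit 318) (nat_lit 195)) (XT.nd (nat_lit 78) (nat_lit 0) (nat_lit 0) (XT.lf (nat_lit 0) (nat_lit 5750549234) (nat_lit 228) (nat_lit 6772957104) (nat_lit 304) (nat_lit 11551862580) (nat_lit 74) (nat_lit 5) (nat_lit 77) (nat_lit 5) (nat_lit 78) (nat_lit 5) (nat_lit 388) (nat_lit 318) (nat_lit 194)) (XT.lf (nat_lit 0) (nat_lit 17956482873) (nat_lit 304) (nat_lit 5809509287) (nat_lit 76) (nat_lit 797559284) (nat_lit 74) (nat_lit 5) (nat_lit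 78) (nat_lit 5) (nat_lit 75) (nat_lit 5) (nat_lit 389) (nat_lit 318) (nat_lit 193)))) (XT.nd (nat_lit 156) (nat_lit 228) (nat_lit 0) (XT.nd (nat_lit 78) (nat_lit 76) (nat_lit 0) (XT.lf (nat_lit 0) (nat_lit 7135370951) (nat_lit 152) (nat_lit 16541712947) (nat_lit 228) (nat_lit 1385559759) (nat_lit 72) (nat_lit 5) (nat_lit 74) (nat_lit 5) (nat_lit 75) (nat_lit 5) (nat_lit 390) (nat_lit 318) (nat_lit 192)) (XT.lf (nat_lit 0) (nat_lit 3962954702) (nat_lit 228) (nat_lit 5044333606) (nat_lit 76) (nat_lit 16566823921) (nat_lit 71) (nat_lit 5) (nat_lit 74) (nat_lit 5) (nat_lit 72) (nat_lit 5) (nat_lit 391) (nat_lit 318) (nat_lit 191))) (XT.nd (nat_lit 78) (nat_lit 0) (nat_lit 0) (XT.lf (nat_lit 0) (nat_lit 8356863634) (nat_lit 228) (nat_lit 1156888325) (nat_lit 304) (nat_lit 16584674064) (nat_lit 68) (nat_lit 5) (nat_lit 71) (nat_lit 5) (nat_lit 72) (nat_lit 5) (nat_lit 392) (nat_lit 318) (nat_lit 190)) (XT.lf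 (nat_lit 0) (nat_lit 15338542484) (nat_lit 304) (nat_lit 4458214454) (nat_lit 76) (nat_lit 6838491114) (nat_lit 68) (nat_lit 5) (nat_lit 72) (nat_lit 5) (nat_lit 69) (nat_lit 5) (nat_lit 393) (nat_lit 318) (nat_lit 189))))))))
noncomputable def xc152 : XT := (XT.nd (nat_lit 2028) (nat_lit 1140) (nat_lit 0) (XT.nd (nat_lit 1014) (nat_lit 912) (nat_lit 0) (XT.nd (nat_lit 468) (nat_lit 760) (nat_lit 0) (XT.nd (nat_lit 234) (nat_lit 152) (nat_lit 0) (XT.nd (nat_lit 78) (nat_lit 304) (nat_lit 0) (XT.lf (nat_lit 0) (nat_lit 9378029493) (nat_lit 152) (nat_lit 12051378169) (nat_lit 228) (nat_lit 5756029968) (nat_lit 66) (nat_lit 5) (nat_lit 68) (nat_lit 5) (nat_lit 69) (nat_lit 5) (nat_lit 394) (nat_lit 318) (nat_lit 188)) (XT.nd (nat_lit 78) (nat_lit 304) (nat_lit 0) (XT.lf (nat_lit 0) (nat_lit 23703768696) (nat_lit 152) (nat_lit 4034114484) (nat_lit 228) (nat_lit 13205920) (nat_lit 66) (nat_lit 5) (nat_lit 68)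 (nat_lit 5) (nat_lit 69) (nat_lit 5) (nat_lit 395) (nat_lit 318) (nat_lit 187)) (XT.lf (nat_lit 0) (nat_lit 5917419353) (nat_lit 304) (nat_lit 18119217591) (nat_lit 76) (nat_lit 4291453252) (nat_lit 62) (nat_lit 5) (nat_lit 66) (nat_lit 5) (nat_lit 63) (nat_lit 5) (nat_lit 396) (nat_lit 318) (nat_lit 186)))) (XT.nd (nat_lit 78) (nat_lit 152) (nat_lit 0) (XT.lf (nat_lit 0) (nat_lit 12097040793) (nat_lit 304) (nat_lit 4002690377) (nat_lit 76) (nat_lit 12820528450) (nat_lit 62) (nat_lit 5) (nat_lit 66) (nat_lit 5) (nat_lit 63) (nat_lit 5) (nat_lit 397) (nat_lit 318) (nat_lit 185)) (XT.nd (nat_lit 78) (nat_lit 0) (nat_lit 0) (XT.lf (nat_lit 0) (nat_lit 10730454978) (nat_lit 152) (nat_lit 7825157629) (nat_lit 228) (nat_lit 10971777098) (nat_lit 60) (nat_lit 5) (nat_lit 62) (nat_lit 5) (nat_lit 63) (nat_lit 5) (nat_lit 398) (nat_lit 318) (nat_lit 184)) (XT.lf (nat_lit 0) (nat_lit 25245941866) (nat_lit 228) (nat_lit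 4187311986) (nat_lit 76) (nat_lit 718342192) (nat_lit 60) (nat_lit 5) (nat_lit 63) (nat_lit 5) (nat_lit 61) (nat_lit 5) (nat_lit 399) (nat_lit 318) (nat_lit 183))))) (XT.nd (nat_lit 234) (nat_lit 380) (nat_lit 0) (XT.nd (nat_lit 78) (nat_lit 152) (nat_lit 0) (XT.lf (nat_lit 0) (nat_lit 1491765001) (nat_lit 228) (nat_lit 19822384625) (nat_lit 76) (nat_lit 9474728776) (nat_lit 57) (nat_lit 5) (nat_lit 60) (nat_lit 5) (nat_lit 58) (nat_lit 5) (nat_lit 400) (nat_lit 318) (nat_lit 182)) (XT.nd (nat_lit 78) (nat_lit 152) (nat_lit 0) (XT.lf (nat_lit 0) (nat_lit 8015988080) (nat_lit 228) (nat_lit 4848135655) (nat_lit 76) (nat_lit 18578696128) (nat_lit 57) (nat_lit 5) (nat_lit 60) (nat_lit 5) (nat_lit 58) (nat_lit 5) (nat_lit 401) (nat_lit 318) (nat_lit 181)) (XT.lf (nat_lit 0) (nat_lit 10770081581) (nat_lit 152) (nat_lit 4060431314) (nat_lit 228) (nat_lit 17283031518) (nat_lit 55) (nat_lit 5) (nat_lit 57) (nat_lit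 5) (nat_lit 58) (nat_lit 5) (nat_lit 402) (nat_lit 318) (nat_lit 180)))) (XT.nd (nat_lit 156) (nat_lit 228) (nat_lit 0) (XT.nd (nat_lit 78) (nat_lit 152) (nat_lit 0) (XT.lf (nat_lit 0) (nat_lit 21938147356) (nat_lit 228) (nat_lit 5910789764) (nat_lit 76) (nat_lit 4952795396) (nat_lit 55) (nat_lit 5) (nat_lit 58) (nat_lit 5) (nat_lit 56) (nat_lit 5) (nat_lit 403) (nat_lit 318) (nat_lit 179)) (XT.lf (nat_lit 0) (nat_lit 10127254706) (nat_lit 152) (nat_lit 19260665664) (nat_lit 228) (nat_lit 4118780586) (nat_lit 53) (nat_lit 5) (nat_lit 55) (nat_lit 5) (nat_lit 56) (nat_lit 5) (nat_lit 404) (nat_lit 318) (nat_lit 178))) (XT.nd (nat_lit 78) (nat_lit 152) (nat_lit 0) (XT.lf (nat_lit 0) (nat_lit 2824835010) (nat_lit 228) (nat_lit 7506252706) (nat_lit 76) (nat_lit 23899367198) (nat_lit 52) (nat_lit 5) (nat_lit 55) (nat_lit 5) (nat_lit 53) (nat_lit 5) (nat_lit 405) (nat_lit 318) (nat_lit 177)) (XT.lf (nat_lit 0)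 (nat_lit 8962636543) (nat_lit 152) (nat_lit 1009124709) (nat_lit 228) (nat_lit 25000605078) (nat_lit 50) (nat_lit 5) (nat_lit 52) (nat_lit 5) (nat_lit 53) (nat_lit 5) (nat_lit 406) (nat_lit 318) (nat_lit 176)))))) (XT.nd (nat_lit 468) (nat_lit 380) (nat_lit 0) (XT.nd (nat_lit 234) (nat_lit 380) (nat_lit 0) (XT.nd (nat_lit 78) (nat_lit 152) (nat_lit 0) (XT.lf (nat_lit 0) (nat_lit 17483916779) (nat_lit 228) (nat_lit 9752804834) (nat_lit 76) (nat_lit 8495290588) (nat_lit 50) (nat_lit 5) (nat_lit 53) (nat_lit 5) (nat_lit 51) (nat_lit 5) (nat_lit 407) (nat_lit 318) (nat_lit 175)) (XT.nd (nat_lit 78) (nat_lit 0) (nat_lit 0) (XT.lf (nat_lit 0) (nat_lit 7106272329) (nat_lit 152) (nat_lit 18185384495) (nat_lit 228) (nat_lit 11220685733) (nat_lit 48) (nat_lit 5) (nat_lit 50) (nat_lit 5) (nat_lit 51) (nat_lit 5) (nat_lit 408) (nat_lit 318) (nat_lit 174)) (XT.lf (nat_lit 0) (nat_lit 24656951113) (nat_lit 152) (nat_lit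 8767180748) (nat_lit 228) (nat_lit 3889237534) (nat_lit 48) (nat_lit 5) (nat_lit 50) (nat_lit 5) (nat_lit 51) (nat_lit 5) (nat_lit 409) (nat_lit 318) (nat_lit 173)))) (XT.nd (nat_lit 78) (nat_lit 152) (nat_lit 0) (XT.lf (nat_lit 0) (nat_lit 3637146457) (nat_lit 228) (nat_lit 33508808466) (nat_lit 76) (nat_lit 990023964) (nat_lit 45) (nat_lit 5) (nat_lit 48) (nat_lit 5) (nat_lit 46) (nat_lit 5) (nat_lit 410) (nat_lit 318) (nat_lit 172)) (XT.nd (nat_lit 78) (nat_lit 152) (nat_lit 0) (XT.lf (nat_lit 0) (nat_lit 11519237890) (nat_lit 228) (nat_lit 16431178834) (nat_lit 76) (nat_lit 11025453663) (nat_lit 45) (nat_lit 5) (nat_lit 48) (nat_lit 5) (nat_lit 46) (nat_lit 5) (nat_lit 411) (nat_lit 318) (nat_lit 171)) (XT.lf (nat_lit 0) (nat_lit 1168096954) (nat_lit 152) (nat_lit 18473361992) (nat_lit 228) (nat_lit 20199391150) (nat_lit 43) (nat_lit 5) (nat_lit 45) (nat_lit 5) (nat_lit 46) (nat_lit 5) (nat_lit 412)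 (nat_lit 318) (nat_lit 170))))) (XT.nd (nat_lit 234) (nat_lit 228) (nat_lit 0) (XT.nd (nat_lit 78) (nat_lit 152) (nat_lit 0) (XT.lf (nat_lit 0) (nat_lit 19618829685) (nat_lit 152) (nat_lit 8546970020) (nat_lit 228) (nat_lit 12561227326) (nat_lit 43) (nat_lit 5) (nat_lit 45) (nat_lit 5) (nat_lit 46) (nat_lit 5) (nat_lit 413) (nat_lit 318) (nat_lit 169)) (XT.nd (nat_lit 78) (nat_lit 152) (nat_lit 0) (XT.lf (nat_lit 0) (nat_lit 36954686212) (nat_lit 228) (nat_lit 3045947119) (nat_lit 76) (nat_lit 1638892865) (nat_lit 43) (nat_lit 5) (nat_lit 46) (nat_lit 5) (nat_lit 44) (nat_lit 4) (nat_lit 414) (nat_lit 318) (nat_lit 168)) (XT.lf (nat_lit 0) (nat_lit 3592322516) (nat_lit 152) (nat_lit 26839237485) (nat_lit 76) (nat_lit 12139911935) (nat_lit 41) (nat_lit 5) (nat_lit 43) (nat_lit 5) (nat_lit 42) (nat_lit 5) (nat_lit 415) (nat_lit 318) (nat_lit 167)))) (XT.nd (nat_lit 156) (nat_lit 76) (nat_lit 0) (XT.nd (nat_lit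 78) (nat_lit 152) (nat_lit 0) (XT.lf (nat_lit 0) (nat_lit 12047622523) (nat_lit 152) (nat_lit 8453696984) (nat_lit 76) (nat_lit 23027946775) (nat_lit 41) (nat_lit 5) (nat_lit 43) (nat_lit 5) (nat_lit 42) (nat_lit 5) (nat_lit 416) (nat_lit 318) (nat_lit 166)) (XT.lf (nat_lit 0) (nat_lit 10679420201) (nat_lit 152) (nat_lit 10172945292) (nat_lit 228) (nat_lit 23660556678) (nat_lit 39) (nat_lit 5) (nat_lit 41) (nat_lit 5) (nat_lit 42) (nat_lit 5) (nat_lit 417) (nat_lit 318) (nat_lit 165))) (XT.nd (nat_lit 78) (nat_lit 76) (nat_lit 0) (XT.lf (nat_lit 0) (nat_lit 30005090846) (nat_lit 228) (nat_lit 14981435529) (nat_lit 76) (nat_lit 537047354) (nat_lit 39) (nat_lit 5) (nat_lit 42) (nat_lit 5) (nat_lit 40) (nat_lit 4) (nat_lit 418) (nat_lit 318) (nat_lit 164)) (XT.lf (nat_lit 0) (nat_lit 4409462346) (nat_lit 76) (nat_lit 35159400184) (nat_lit 152) (nat_lit 6991589528) (nat_lit 38) (nat_lit 5) (nat_lit 39) (nat_lit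 5) (nat_lit 40) (nat_lit 4) (nat_lit 419) (nat_lit 318) (nat_lit 163))))))) (XT.nd (nat_lit 1014) (nat_lit 304) (nat_lit 0) (XT.nd (nat_lit 468) (nat_lit 532) (nat_lit 0) (XT.nd (nat_lit 234) (nat_lit 76) (nat_lit 0) (XT.nd (nat_lit 78) (nat_lit 152) (nat_lit 0) (XT.lf (nat_lit 0) (nat_lit 1902309161) (nat_lit 152) (nat_lit 22965489177) (nat_lit 76) (nat_lit 22755738489) (nat_lit 37) (nat_lit 5) (nat_lit 39) (nat_lit 5) (nat_lit 38) (nat_lit 5) (nat_lit 420) (nat_lit 318) (nat_lit 162)) (XT.nd (nat_lit 78) (nat_lit 152) (nat_lit 0) (XT.lf (nat_lit 0) (nat_lit 10916062510) (nat_lit 152) (nat_lit 3285363524) (nat_lit 76) (nat_lit 34515205605) (nat_lit 37) (nat_lit 5) (nat_lit 39) (nat_lit 5) (nat_lit 38) (nat_lit 5) (nat_lit 421) (nat_lit 318) (nat_lit 161)) (XT.lf (nat_lit 0) (nat_lit 17311602627) (nat_lit 152) (nat_lit 3048784794) (nat_lit 228) (nat_lit 29477328136) (nat_lit 35) (nat_lit 5) (nat_lit 37)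 (nat_lit 5) (nat_lit 38) (nat_lit 5) (nat_lit 422) (nat_lit 318) (nat_lit 160)))) (XT.nd (nat_lit 78) (nat_lit 76) (nat_lit 0) (XT.lf (nat_lit 0) (nat_lit 30196435833) (nat_lit 228) (nat_lit 12490456994) (nat_lit 76) (nat_lit 8302288357) (nat_lit 35) (nat_lit 5) (nat_lit 38) (nat_lit 5) (nat_lit 36) (nat_lit 4) (nat_lit 423) (nat_lit 318) (nat_lit 159)) (XT.nd (nat_lit 78) (nat_lit 0) (nat_lit 0) (XT.lf (nat_lit 0) (nat_lit 8266319478) (nat_lit 76) (nat_lit 32164848604) (nat_lit 152) (nat_lit 11740915597) (nat_lit 34) (nat_lit 5) (nat_lit 35) (nat_lit 5) (nat_lit 36) (nat_lit 4) (nat_lit 424) (nat_lit 318) (nat_lit 158)) (XT.lf (nat_lit 0) (nat_lit 29890881063) (nat_lit 76) (nat_lit 21202216535) (nat_lit 152) (nat_lit 2293771936) (nat_lit 34) (nat_lit 5) (nat_lit 35) (nat_lit 5) (nat_lit 36) (nat_lit 4) (nat_lit 425) (nat_lit 318) (nat_lit 157))))) (XT.nd (nat_lit 234) (nat_lit 304) (nat_lit 0) (XT.nd (nat_lit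 78) (nat_lit 152) (nat_lit 0) (XT.lf (nat_lit 0) (nat_lit 7285809401) (nat_lit 152) (nat_lit 2556164956) (nat_lit 76) (nat_lit 44794156633) (nat_lit 33) (nat_lit 5) (nat_lit 35) (nat_lit 5) (nat_lit 34) (nat_lit 5) (nat_lit 426) (nat_lit 318) (nat_lit 156)) (XT.nd (nat_lit 78) (nat_lit 0) (nat_lit 0) (XT.lf (nat_lit 0) (nat_lit 17306945693) (nat_lit 228) (nat_lit 36580259670) (nat_lit 76) (nat_lit 2028976370) (nat_lit 31) (nat_lit 5) (nat_lit 34) (nat_lit 5) (nat_lit 32) (nat_lit 4) (nat_lit 427) (nat_lit 318) (nat_lit 155)) (XT.lf (nat_lit 0) (nat_lit 27746562509) (nat_lit 228) (nat_lit 15404856800) (nat_lit 76) (nat_lit 14079680136) (nat_lit 31) (nat_lit 5) (nat_lit 34) (nat_lit 5) (nat_lit 32) (nat_lit 4) (nat_lit 428) (nat_lit 318) (nat_lit 154)))) (XT.nd (nat_lit 156) (nat_lit 228) (nat_lit 0) (XT.nd (nat_lit 78) (nat_lit 0) (nat_lit 0) (XT.lf (nat_lit 0) (nat_lit 6522932032) (nat_lit 76) (nat_lit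 32033636581) (nat_lit 152) (nat_lit 20027180866) (nat_lit 30) (nat_lit 5) (nat_lit 31) (nat_lit 5) (nat_lit 32) (nat_lit 4) (nat_lit 429) (nat_lit 318) (nat_lit 153)) (XT.lf (nat_lit 0) (nat_lit 29414276597) (nat_lit 76) (nat_lit 20426719038) (nat_lit 152) (nat_lit 10131480546) (nat_lit 30) (nat_lit 5) (nat_lit 31) (nat_lit 5) (nat_lit 32) (nat_lit 4) (nat_lit 430) (nat_lit 318) (nat_lit 152))) (XT.nd (nat_lit 78) (nat_lit 152) (nat_lit 0) (XT.lf (nat_lit 0) (nat_lit 54565932) (nat_lit 152) (nat_lit 8420966620) (nat_lit 76) (nat_lit 52927475243) (nat_lit 29) (nat_lit 5) (nat_lit 31) (nat_lit 5) (nat_lit 30) (nat_lit 5) (nat_lit 431) (nat_lit 318) (nat_lit 151)) (XT.lf (nat_lit 0) (nat_lit 10516482923) (nat_lit 228) (nat_lit 48354103722) (nat_lit 76) (nat_lit 3997642430) (nat_lit 27) (nat_lit 5) (nat_lit 30) (nat_lit 5) (nat_lit 28) (nat_lit 4) (nat_lit 432) (nat_lit 318) (nat_lit 150)))))) (XT.nd (nat_lit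 546) (nat_lit 76) (nat_lit 0) (XT.nd (nat_lit 234) (nat_lit 152) (nat_lit 0) (XT.nd (nat_lit 78) (nat_lit 76) (nat_lit 0) (XT.lf (nat_lit 0) (nat_lit 21456890806) (nat_lit 228) (nat_lit 26159329085) (nat_lit 76) (nat_lit 16756248803) (nat_lit 27) (nat_lit 5) (nat_lit 30) (nat_lit 5) (nat_lit 28) (nat_lit 4) (nat_lit 433) (nat_lit 318) (nat_lit 149)) (XT.nd (nat_lit 78) (nat_lit 76) (nat_lit 0) (XT.lf (nat_lit 0) (nat_lit 32720501252) (nat_lit 228) (nat_lit 3308038101) (nat_lit 76) (nat_lit 29893447121) (nat_lit 27) (nat_lit 5) (nat_lit 30) (nat_lit 5) (nat_lit 28) (nat_lit 4) (nat_lit 434) (nat_lit 318) (nat_lit 148)) (XT.lf (nat_lit 0) (nat_lit 20622148777) (nat_lit 76) (nat_lit 23893240181) (nat_lit 152) (nat_lit 22996800423) (nat_lit 26) (nat_lit 5) (nat_lit 27) (nat_lit 5) (nat_lit 28) (nat_lit 4) (nat_lit 435) (nat_lit 318) (nat_lit 147)))) (XT.nd (nat_lit 156) (nat_lit 152) (nat_lit 0) (XT.nd (nat_lit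 78) (nat_lit 0) (nat_lit 0) (XT.lf (nat_lit 0) (nat_lit 45329086343) (nat_lit 76) (nat_lit 11363633362) (nat_lit 152) (nat_lit 12456521421) (nat_lit 26) (nat_lit 5) (nat_lit 27) (nat_lit 5) (nat_lit 28) (nat_lit 4) (nat_lit 436) (nat_lit 318) (nat_lit 146)) (XT.lf (nat_lit 0) (nat_lit 69245484642) (nat_lit 152) (nat_lit 81800868) (nat_lit 0) (nat_lit 1507816107) (nat_lit 26) (nat_lit 5) (nat_lit 28) (nat_lit 4) (nat_lit 26) (nat_lit 4) (nat_lit 437) (nat_lit 318) (nat_lit 145))) (XT.nd (nat_lit 78) (nat_lit 0) (nat_lit 0) (XT.lf (nat_lit 0) (nat_lit 9764984797) (nat_lit 152) (nat_lit 47926686365) (nat_lit 76) (nat_lit 14866625416) (nat_lit 24) (nat_lit 5) (nat_lit 26) (nat_lit 5) (nat_lit 25) (nat_lit 4) (nat_lit 438) (nat_lit 318) (nat_lit 144)) (XT.lf (nat_lit 0) (nat_lit 21424545558) (nat_lit 152) (nat_lit 24269367311) (nat_lit 76) (nat_lit 28638914807) (nat_lit 24) (nat_lit 5) (nat_lit 26) (nat_lit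 5) (nat_lit 25) (nat_lit 4) (nat_lit 439) (nat_lit 318) (nat_lit 143))))) (XT.nd (nat_lit 234) (nat_lit 0) (nat_lit 0) (XT.nd (nat_lit 78) (nat_lit 0) (nat_lit 0) (XT.lf (nat_lit 0) (nat_lit 91140859) (nat_lit 76) (nat_lit 33339197758) (nat_lit 152) (nat_lit 42730363280) (nat_lit 23) (nat_lit 5) (nat_lit 24) (nat_lit 5) (nat_lit 25) (nat_lit 4) (nat_lit 440) (nat_lit 318) (nat_lit 142)) (XT.nd (nat_lit 78) (nat_lit 0) (nat_lit 0) (XT.lf (nat_lit 0) (nat_lit 25671735032) (nat_lit 76) (nat_lit 20365262793) (nat_lit 152) (nat_lit 31999194288) (nat_lit 23) (nat_lit 5) (nat_lit 24) (nat_lit 5) (nat_lit 25) (nat_lit 4) (nat_lit 441) (nat_lit 318) (nat_lit 141)) (XT.lf (nat_lit 0) (nat_lit 52011759184) (nat_lit 76) (nat_lit 7005844550) (nat_lit 152) (nat_lit 20950471415) (nat_lit 23) (nat_lit 5) (nat_lit 24) (nat_lit 5) (nat_lit 25) (nat_lit 4) (nat_lit 442) (nat_lit 318) (nat_lit 140)))) (XT.nd (nat_lit 37284)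 (nat_lit 0) (nat_lit 19760) (XT.nd (nat_lit 37206) (nat_lit 0) (nat_lit 19760) (XT.lf (nat_lit 0) (nat_lit 72448390772) (nat_lit 152) (nat_lit 2888702338) (nat_lit 0) (nat_lit 6618999186) (nat_lit 23) (nat_lit 5) (nat_lit 25) (nat_lit 4) (nat_lit 23) (nat_lit 4) (nat_lit 443) (nat_lit 318) (nat_lit 139)) (XT.lf (nat_lit 0) (nat_lit 1373580407) (nat_lit 988) (nat_lit 1310723955) (nat_lit 988) (nat_lit 1310723955) (nat_lit 283) (nat_lit 3) (nat_lit 296) (nat_lit 3) (nat_lit 296) (nat_lit 5) (nat_lit 319) (nat_lit 319) (nat_lit 262))) (XT.nd (nat_lit 78) (nat_lit 0) (nat_lit 0) (XT.lf (nat_lit 76) (nat_lit 1207491639) (nat_lit 0) (nat_lit 2770888969) (nat_lit 988) (nat_lit 4094935947) (nat_lit 284) (nat_lit 5) (nat_lit 283) (nat_lit 3) (nat_lit 296) (nat_lit 5) (nat_lit 320) (nat_lit 319) (nat_lit 261)) (XT.lf (nat_lit 76) (nat_lit 5180862613) (nat_lit 0) (nat_lit 45923632) (nat_lit 988) (nat_lit 2932915307)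 (nat_lit 284) (nat_lit 5) (nat_lit 283) (nat_lit 3) (nat_lit 296) (nat_lit 5) (nat_lit 321) (nat_lit 319) (nat_lit 260))))))))
noncomputable def xc153 : XT := (XT.nd (nat_lit 2028) (nat_lit 6232) (nat_lit 0) (XT.nd (nat_lit 1014) (nat_lit 5700) (nat_lit 0) (XT.nd (nat_lit 468) (nat_lit 912) (nat_lit 0) (XT.nd (nat_lit 234) (nat_lit 0) (nat_lit 0) (XT.nd (nat_lit 78) (nat_lit 912) (nat_lit 0) (XT.lf (nat_lit 76) (nat_lit 992530479) (nat_lit 0) (nat_lit 5511522602) (nat_lit 988) (nat_lit 1744916488) (nat_lit 285) (nat_lit 5) (nat_lit 284) (nat_lit 5) (nat_lit 297) (nat_lit 5) (nat_lit 322) (nat_lit 319) (nat_lit 259)) (XT.nd (nat_lit 78) (nat_lit 912) (nat_lit 0) (XT.lf (nat_lit 76) (nat_lit 5118830589) (nat_lit 0) (nat_lit 2687730396) (nat_lit 988) (nat_lit 534779712) (nat_lit 285) (nat_lit 5) (nat_lit 284) (nat_lit 5) (nat_lit 297) (nat_lit 5) (nat_lit 323) (nat_lit 319) (nat_lit 258)) (XT.lf (nat_lit 0)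 (nat_lit 666264577) (nat_lit 988) (nat_lit 7521225730) (nat_lit 1064) (nat_lit 249763589) (nat_lit 272) (nat_lit 5) (nat_lit 285) (nat_lit 5) (nat_lit 286) (nat_lit 5) (nat_lit 324) (nat_lit 319) (nat_lit 257)))) (XT.nd (nat_lit 78) (nat_lit 0) (nat_lit 0) (XT.lf (nat_lit 0) (nat_lit 1910450733) (nat_lit 988) (nat_lit 3348687849) (nat_lit 1064) (nat_lit 3276241273) (nat_lit 272) (nat_lit 5) (nat_lit 285) (nat_lit 5) (nat_lit 286) (nat_lit 5) (nat_lit 325) (nat_lit 319) (nat_lit 256)) (XT.nd (nat_lit 78) (nat_lit 0) (nat_lit 76) (XT.lf (nat_lit 76) (nat_lit 941997991) (nat_lit 0) (nat_lit 2218616307) (nat_lit 1064) (nat_lit 5476804847) (nat_lit 273) (nat_lit 5) (nat_lit 272) (nat_lit 5) (nat_lit 286) (nat_lit 5) (nat_lit 326) (nat_lit 319) (nat_lit 255)) (XT.lf (nat_lit 0) (nat_lit 4451879468) (nat_lit 988) (nat_lit 3347078895) (nat_lit 1064) (nat_lit 943481611) (nat_lit 273) (nat_lit 5) (nat_lit 286) (nat_lit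 5) (nat_lit 287) (nat_lit 5) (nat_lit 327) (nat_lit 319) (nat_lit 254))))) (XT.nd (nat_lit 234) (nat_lit 988) (nat_lit 0) (XT.nd (nat_lit 78) (nat_lit 0) (nat_lit 0) (XT.lf (nat_lit 76) (nat_lit 1105582513) (nat_lit 0) (nat_lit 4670708897) (nat_lit 1064) (nat_lit 3074515189) (nat_lit 274) (nat_lit 5) (nat_lit 273) (nat_lit 5) (nat_lit 287) (nat_lit 5) (nat_lit 328) (nat_lit 319) (nat_lit 253)) (XT.nd (nat_lit 78) (nat_lit 0) (nat_lit 76) (XT.lf (nat_lit 76) (nat_lit 5734949420) (nat_lit 0) (nat_lit 1401967210) (nat_lit 1064) (nat_lit 1825639803) (nat_lit 274) (nat_lit 5) (nat_lit 273) (nat_lit 5) (nat_lit 287) (nat_lit 5) (nat_lit 329) (nat_lit 319) (nat_lit 252)) (XT.lf (nat_lit 76) (nat_lit 1408162604) (nat_lit 0) (nat_lit 7126500677) (nat_lit 1064) (nat_lit 543132262) (nat_lit 275) (nat_lit 5) (nat_lit 274) (nat_lit 5) (nat_lit 288) (nat_lit 5) (nat_lit 330) (nat_lit 319) (nat_lit 251)))) (XT.nd (nat_lit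 156) (nat_lit 0) (nat_lit 76) (XT.nd (nat_lit 78) (nat_lit 0) (nat_lit 0) (XT.lf (nat_lit 0) (nat_lit 773777857) (nat_lit 1064) (nat_lit 2994473879) (nat_lit 1140) (nat_lit 5427706972) (nat_lit 260) (nat_lit 5) (nat_lit 274) (nat_lit 5) (nat_lit 275) (nat_lit 5) (nat_lit 331) (nat_lit 319) (nat_lit 250)) (XT.lf (nat_lit 76) (nat_lit 1825507763) (nat_lit 0) (nat_lit 276668465) (nat_lit 1140) (nat_lit 7215865959) (nat_lit 261) (nat_lit 5) (nat_lit 260) (nat_lit 5) (nat_lit 275) (nat_lit 5) (nat_lit 332) (nat_lit 319) (nat_lit 249))) (XT.nd (nat_lit 78) (nat_lit 0) (nat_lit 0) (XT.lf (nat_lit 0) (nat_lit 3499070515) (nat_lit 1064) (nat_lit 2650164418) (nat_lit 1140) (nat_lit 3293716897) (nat_lit 261) (nat_lit 5) (nat_lit 275) (nat_lit 5) (nat_lit 276) (nat_lit 5) (nat_lit 333) (nat_lit 319) (nat_lit 248)) (XT.lf (nat_lit 76) (nat_lit 2354917487) (nat_lit 0) (nat_lit 2575510571) (nat_lit 1140) (nat_lit 4641426320)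 (nat_lit 262) (nat_lit 5) (nat_lit 261) (nat_lit 5) (nat_lit 276) (nat_lit 5) (nat_lit 334) (nat_lit 319) (nat_lit 247)))))) (XT.nd (nat_lit 468) (nat_lit 2356) (nat_lit 0) (XT.nd (nat_lit 234) (nat_lit 2432) (nat_lit 0) (XT.nd (nat_lit 78) (nat_lit 1064) (nat_lit 0) (XT.lf (nat_lit 0) (nat_lit 6410332951) (nat_lit 1064) (nat_lit 2176802955) (nat_lit 76) (nat_lit 1117341556) (nat_lit 262) (nat_lit 5) (nat_lit 276) (nat_lit 5) (nat_lit 263) (nat_lit 5) (nat_lit 335) (nat_lit 319) (nat_lit 246)) (XT.nd (nat_lit 78) (nat_lit 0) (nat_lit 0) (XT.lf (nat_lit 0) (nat_lit 3022214595) (nat_lit 1064) (nat_lit 4935859415) (nat_lit 1140) (nat_lit 1882323087) (nat_lit 248) (nat_lit 5) (nat_lit 262) (nat_lit 5) (nat_lit 263) (nat_lit 5) (nat_lit 336) (nat_lit 319) (nat_lit 245)) (XT.lf (nat_lit 0) (nat_lit 8396283297) (nat_lit 1064) (nat_lit 1147493651) (nat_lit 1140) (nat_lit 436891898) (nat_lit 248) (nat_lit 5) (nat_lit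 262) (nat_lit 5) (nat_lit 263) (nat_lit 5) (nat_lit 337) (nat_lit 319) (nat_lit 244)))) (XT.nd (nat_lit 78) (nat_lit 1216) (nat_lit 0) (XT.lf (nat_lit 0) (nat_lit 1065455686) (nat_lit 1216) (nat_lit 6305688596) (nat_lit 76) (nat_lit 2752697968) (nat_lit 232) (nat_lit 5) (nat_lit 248) (nat_lit 5) (nat_lit 233) (nat_lit 5) (nat_lit 338) (nat_lit 319) (nat_lit 243)) (XT.nd (nat_lit 78) (nat_lit 1216) (nat_lit 0) (XT.lf (nat_lit 0) (nat_lit 2602402123) (nat_lit 1216) (nat_lit 897526800) (nat_lit 76) (nat_lit 6771321560) (nat_lit 232) (nat_lit 5) (nat_lit 248) (nat_lit 5) (nat_lit 233) (nat_lit 5) (nat_lit 339) (nat_lit 319) (nat_lit 242)) (XT.lf (nat_lit 0) (nat_lit 4207828028) (nat_lit 1292) (nat_lit 5687711245) (nat_lit 76) (nat_lit 526888697) (nat_lit 216) (nat_lit 5) (nat_lit 233) (nat_lit 5) (nat_lit 217) (nat_lit 5) (nat_lit 340) (nat_lit 319) (nat_lit 241))))) (XT.nd (nat_lit 234) (nat_lit 1216) (nat_lit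 0) (XT.nd (nat_lit 78) (nat_lit 1140) (nat_lit 0) (XT.lf (nat_lit 0) (nat_lit 5877474439) (nat_lit 1292) (nat_lit 84251402) (nat_lit 76) (nat_lit 4615950819) (nat_lit 216) (nat_lit 5) (nat_lit 233) (nat_lit 5) (nat_lit 217) (nat_lit 5) (nat_lit 341) (nat_lit 319) (nat_lit 240)) (XT.nd (nat_lit 78) (nat_lit 532) (nat_lit 0) (XT.lf (nat_lit 0) (nat_lit 5774789468) (nat_lit 608) (nat_lit 1850991749) (nat_lit 684) (nat_lit 3110961563) (nat_lit 208) (nat_lit 5) (nat_lit 216) (nat_lit 5) (nat_lit 217) (nat_lit 5) (nat_lit 342) (nat_lit 319) (nat_lit 239)) (XT.lf (nat_lit 0) (nat_lit 879229535) (nat_lit 532) (nat_lit 8553144664) (nat_lit 608) (nat_lit 1468048175) (nat_lit 201) (nat_lit 5) (nat_lit 208) (nat_lit 5) (nat_lit 209) (nat_lit 5) (nat_lit 343) (nat_lit 319) (nat_lit 238)))) (XT.nd (nat_lit 156) (nat_lit 532) (nat_lit 0) (XT.nd (nat_lit 78) (nat_lit 608) (nat_lit 0) (XT.lf (nat_lit 0) (nat_lit 262577110)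 (nat_lit 608) (nat_lit 4117191245) (nat_lit 76) (nat_lit 6687911049) (nat_lit 200) (nat_lit 5) (nat_lit 208) (nat_lit 5) (nat_lit 201) (nat_lit 5) (nat_lit 344) (nat_lit 319) (nat_lit 237)) (XT.lf (nat_lit 0) (nat_lit 1962379942) (nat_lit 608) (nat_lit 46729341) (nat_lit 684) (nat_lit 9230619168) (nat_lit 192) (nat_lit 5) (nat_lit 200) (nat_lit 5) (nat_lit 201) (nat_lit 5) (nat_lit 345) (nat_lit 319) (nat_lit 236))) (XT.nd (nat_lit 78) (nat_lit 532) (nat_lit 0) (XT.lf (nat_lit 0) (nat_lit 3867603844) (nat_lit 684) (nat_lit 3175638243) (nat_lit 76) (nat_lit 4371924636) (nat_lit 192) (nat_lit 5) (nat_lit 201) (nat_lit 5) (nat_lit 193) (nat_lit 5) (nat_lit 346) (nat_lit 319) (nat_lit 235)) (XT.lf (nat_lit 0) (nat_lit 3144962870) (nat_lit 532) (nat_lit 2643435841) (nat_lit 608) (nat_lit 5807287389) (nat_lit 185) (nat_lit 5) (nat_lit 192) (nat_lit 5) (nat_lit 193) (nat_lit 5) (nat_lit 347) (nat_lit 319) (nat_lit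 234))))))) (XT.nd (nat_lit 1014) (nat_lit 2888) (nat_lit 0) (XT.nd (nat_lit 468) (nat_lit 1824) (nat_lit 0) (XT.nd (nat_lit 234) (nat_lit 988) (nat_lit 0) (XT.nd (nat_lit 78) (nat_lit 532) (nat_lit 0) (XT.lf (nat_lit 0) (nat_lit 7793660075) (nat_lit 608) (nat_lit 2104384220) (nat_lit 76) (nat_lit 1882785385) (nat_lit 185) (nat_lit 5) (nat_lit 193) (nat_lit 5) (nat_lit 186) (nat_lit 5) (nat_lit 348) (nat_lit 319) (nat_lit 233)) (XT.nd (nat_lit 78) (nat_lit 0) (nat_lit 0) (XT.lf (nat_lit 0) (nat_lit 4468579075) (nat_lit 532) (nat_lit 5436623000) (nat_lit 608) (nat_lit 2064955306) (nat_lit 178) (nat_lit 5) (nat_lit 185) (nat_lit 5) (nat_lit 186) (nat_lit 5) (nat_lit 349) (nat_lit 319) (nat_lit 232)) (XT.lf (nat_lit 0) (nat_lit 11257320811) (nat_lit 532) (nat_lit 821449190) (nat_lit 608) (nat_lit 86447625) (nat_lit 178) (nat_lit 5) (nat_lit 185) (nat_lit 5) (nat_lit 186) (nat_lit 5) (nat_lit 350) (nat_lit 319)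 (nat_lit 231)))) (XT.nd (nat_lit 78) (nat_lit 456) (nat_lit 0) (XT.lf (nat_lit 0) (nat_lit 1986984482) (nat_lit 532) (nat_lit 6446267297) (nat_lit 76) (nat_lit 3930118055) (nat_lit 171) (nat_lit 5) (nat_lit 178) (nat_lit 5) (nat_lit 172) (nat_lit 5) (nat_lit 351) (nat_lit 319) (nat_lit 230)) (XT.nd (nat_lit 78) (nat_lit 0) (nat_lit 0) (XT.lf (nat_lit 0) (nat_lit 371755980) (nat_lit 456) (nat_lit 3748340451) (nat_lit 532) (nat_lit 8447380060) (nat_lit 165) (nat_lit 5) (nat_lit 171) (nat_lit 5) (nat_lit 172) (nat_lit 5) (nat_lit 352) (nat_lit 319) (nat_lit 229)) (XT.lf (nat_lit 0) (nat_lit 6371912524) (nat_lit 532) (nat_lit 5285359988) (nat_lit 76) (nat_lit 1118804157) (nat_lit 165) (nat_lit 5) (nat_lit 172) (nat_lit 5) (nat_lit 166) (nat_lit 5) (nat_lit 353) (nat_lit 319) (nat_lit 228))))) (XT.nd (nat_lit 234) (nat_lit 836) (nat_lit 0) (XT.nd (nat_lit 78) (nat_lit 532) (nat_lit 0) (XT.lf (nat_lit 0) (nat_lit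 1806102663) (nat_lit 456) (nat_lit 6918894568) (nat_lit 532) (nat_lit 4264937499) (nat_lit 159) (nat_lit 5) (nat_lit 165) (nat_lit 5) (nat_lit 166) (nat_lit 5) (nat_lit 354) (nat_lit 319) (nat_lit 227)) (XT.nd (nat_lit 78) (nat_lit 532) (nat_lit 0) (XT.lf (nat_lit 0) (nat_lit 9194552546) (nat_lit 456) (nat_lit 1987107163) (nat_lit 532) (nat_lit 2027570242) (nat_lit 159) (nat_lit 5) (nat_lit 165) (nat_lit 5) (nat_lit 166) (nat_lit 5) (nat_lit 355) (nat_lit 319) (nat_lit 226)) (XT.lf (nat_lit 0) (nat_lit 314333047) (nat_lit 532) (nat_lit 10055077626) (nat_lit 76) (nat_lit 3064339282) (nat_lit 152) (nat_lit 5) (nat_lit 159) (nat_lit 5) (nat_lit 153) (nat_lit 5) (nat_lit 356) (nat_lit 319) (nat_lit 225)))) (XT.nd (nat_lit 156) (nat_lit 456) (nat_lit 0) (XT.nd (nat_lit 78) (nat_lit 380) (nat_lit 0) (XT.lf (nat_lit 0) (nat_lit 2726676295) (nat_lit 532) (nat_lit 2651956390) (nat_lit 76) (nat_lit 8284552617) (nat_lit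 152) (nat_lit 5) (nat_lit 159) (nat_lit 5) (nat_lit 153) (nat_lit 5) (nat_lit 357) (nat_lit 319) (nat_lit 224)) (XT.lf (nat_lit 0) (nat_lit 5048336825) (nat_lit 380) (nat_lit 192472880) (nat_lit 456) (nat_lit 8657821161) (nat_lit 147) (nat_lit 5) (nat_lit 152) (nat_lit 5) (nat_lit 153) (nat_lit 5) (nat_lit 358) (nat_lit 319) (nat_lit 223))) (XT.nd (nat_lit 78) (nat_lit 456) (nat_lit 0) (XT.lf (nat_lit 0) (nat_lit 7888092856) (nat_lit 456) (nat_lit 1179831443) (nat_lit 76) (nat_lit 5071493192) (nat_lit 147) (nat_lit 5) (nat_lit 153) (nat_lit 5) (nat_lit 148) (nat_lit 5) (nat_lit 359) (nat_lit 319) (nat_lit 222)) (XT.lf (nat_lit 0) (nat_lit 6829056836) (nat_lit 456) (nat_lit 3835019560) (nat_lit 532) (nat_lit 3721882052) (nat_lit 141) (nat_lit 5) (nat_lit 147) (nat_lit 5) (nat_lit 148) (nat_lit 5) (nat_lit 360) (nat_lit 319) (nat_lit 221)))))) (XT.nd (nat_lit 546) (nat_lit 1292) (nat_lit 0) (XT.nd (nat_lit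 234) (nat_lit 760) (nat_lit 0) (XT.nd (nat_lit 78) (nat_lit 456) (nat_lit 0) (XT.lf (nat_lit 0) (nat_lit 432925521) (nat_lit 380) (nat_lit 13103551006) (nat_lit 456) (nat_lit 1103033916) (nat_lit 136) (nat_lit 5) (nat_lit 141) (nat_lit 5) (nat_lit 142) (nat_lit 5) (nat_lit 361) (nat_lit 319) (nat_lit 220)) (XT.nd (nat_lit 78) (nat_lit 380) (nat_lit 0) (XT.lf (nat_lit 0) (nat_lit 1660419377) (nat_lit 456) (nat_lit 6158528095) (nat_lit 76) (nat_lit 7078355601) (nat_lit 135) (nat_lit 5) (nat_lit 141) (nat_lit 5) (nat_lit 136) (nat_lit 5) (nat_lit 362) (nat_lit 319) (nat_lit 219)) (XT.lf (nat_lit 0) (nat_lit 2139019627) (nat_lit 380) (nat_lit 2348785094) (nat_lit 456) (nat_lit 10674609340) (nat_lit 130) (nat_lit 5) (nat_lit 135) (nat_lit 5) (nat_lit 136) (nat_lit 5) (nat_lit 363) (nat_lit 319) (nat_lit 218)))) (XT.nd (nat_lit 156) (nat_lit 456) (nat_lit 0) (XT.nd (nat_lit 78) (nat_lit 304) (nat_lit 0) (XT.lf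 (nat_lit 0) (nat_lit 7477271654) (nat_lit 456) (nat_lit 4677086916) (nat_lit 76) (nat_lit 3278809938) (nat_lit 130) (nat_lit 5) (nat_lit 136) (nat_lit 5) (nat_lit 131) (nat_lit 5) (nat_lit 364) (nat_lit 319) (nat_lit 217)) (XT.lf (nat_lit 0) (nat_lit 3951111272) (nat_lit 304) (nat_lit 6649919127) (nat_lit 380) (nat_lit 5109684652) (nat_lit 126) (nat_lit 5) (nat_lit 130) (nat_lit 5) (nat_lit 131) (nat_lit 5) (nat_lit 365) (nat_lit 319) (nat_lit 216))) (XT.nd (nat_lit 78) (nat_lit 456) (nat_lit 0) (XT.lf (nat_lit 0) (nat_lit 12911906489) (nat_lit 304) (nat_lit 937468470) (nat_lit 380) (nat_lit 2146294312) (nat_lit 126) (nat_lit 5) (nat_lit 130) (nat_lit 5) (nat_lit 131) (nat_lit 5) (nat_lit 366) (nat_lit 319) (nat_lit 215)) (XT.lf (nat_lit 0) (nat_lit 977494354) (nat_lit 456) (nat_lit 10398126405) (nat_lit 76) (nat_lit 4910621856) (nat_lit 120) (nat_lit 5) (nat_lit 126) (nat_lit 5) (nat_lit 121) (nat_lit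 5) (nat_lit 367) (nat_lit 319) (nat_lit 214))))) (XT.nd (nat_lit 234) (nat_lit 684) (nat_lit 0) (XT.nd (nat_lit 78) (nat_lit 608) (nat_lit 0) (XT.lf (nat_lit 0) (nat_lit 4176748048) (nat_lit 456) (nat_lit 1445091211) (nat_lit 76) (nat_lit 10962316534) (nat_lit 120) (nat_lit 5) (nat_lit 126) (nat_lit 5) (nat_lit 121) (nat_lit 5) (nat_lit 368) (nat_lit 319) (nat_lit 213)) (XT.nd (nat_lit 78) (nat_lit 304) (nat_lit 0) (XT.lf (nat_lit 0) (nat_lit 7536254020) (nat_lit 380) (nat_lit 8983314286) (nat_lit 76) (nat_lit 369516458) (nat_lit 116) (nat_lit 5) (nat_lit 121) (nat_lit 5) (nat_lit 117) (nat_lit 5) (nat_lit 369) (nat_lit 319) (nat_lit 212)) (XT.lf (nat_lit 0) (nat_lit 292387452) (nat_lit 304) (nat_lit 10762174642) (nat_lit 380) (nat_lit 6146865451) (nat_lit 112) (nat_lit 5) (nat_lit 116) (nat_lit 5) (nat_lit 117) (nat_lit 5) (nat_lit 370) (nat_lit 319) (nat_lit 211)))) (XT.nd (nat_lit 156) (nat_lit 304)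 (nat_lit 0) (XT.nd (nat_lit 78) (nat_lit 380) (nat_lit 0) (XT.lf (nat_lit 0) (nat_lit 10009151871) (nat_lit 304) (nat_lit 4745026070) (nat_lit 380) (nat_lit 2766696168) (nat_lit 112) (nat_lit 5) (nat_lit 116) (nat_lit 5) (nat_lit 117) (nat_lit 5) (nat_lit 371) (nat_lit 319) (nat_lit 210)) (XT.lf (nat_lit 0) (nat_lit 721413647) (nat_lit 380) (nat_lit 15681500350) (nat_lit 76) (nat_lit 1446175261) (nat_lit 107) (nat_lit 5) (nat_lit 112) (nat_lit 5) (nat_lit 108) (nat_lit 5) (nat_lit 372) (nat_lit 319) (nat_lit 209))) (XT.nd (nat_lit 78) (nat_lit 304) (nat_lit 0) (XT.lf (nat_lit 0) (nat_lit 4367640287) (nat_lit 380) (nat_lit 5989942143) (nat_lit 76) (nat_lit 7825479924) (nat_lit 107) (nat_lit 5) (nat_lit 112) (nat_lit 5) (nat_lit 108) (nat_lit 5) (nat_lit 373) (nat_lit 319) (nat_lit 208)) (XT.lf (nat_lit 0) (nat_lit 4050821836) (nat_lit 304) (nat_lit 4097289544) (nat_lit 380) (nat_lit 10378203096) (nat_lit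 103) (nat_lit 5) (nat_lit 107) (nat_lit 5) (nat_lit 108) (nat_lit 5) (nat_lit 374) (nat_lit 319) (nat_lit 207))))))))
noncomputable def xc154 : XT := (XT.nd (nat_lit 2028) (nat_lit 2052) (nat_lit 0) (XT.nd (nat_lit 1014) (nat_lit 1292) (nat_lit 0) (XT.nd (nat_lit 468) (nat_lit 1140) (nat_lit 0) (XT.nd (nat_lit 234) (nat_lit 532) (nat_lit 0) (XT.nd (nat_lit 78) (nat_lit 304) (nat_lit 0) (XT.lf (nat_lit 0) (nat_lit 12111749798) (nat_lit 380) (nat_lit 4406393228) (nat_lit 76) (nat_lit 2359633938) (nat_lit 103) (nat_lit 5) (nat_lit 108) (nat_lit 5) (nat_lit 104) (nat_lit 5) (nat_lit 375) (nat_lit 319) (nat_lit 206)) (XT.nd (nat_lit 78) (nat_lit 76) (nat_lit 0) (XT.lf (nat_lit 0) (nat_lit 6021574729) (nat_lit 228) (nat_lit 10257648843) (nat_lit 304) (nat_lit 2958017208) (nat_lit 100) (nat_lit 5) (nat_lit 103) (nat_lit 5) (nat_lit 104) (nat_lit 5) (nat_lit 376) (nat_lit 319) (nat_lit 205)) (XT.lf (nat_lit 0)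 (nat_lit 976895112) (nat_lit 304) (nat_lit 2783369692) (nat_lit 76) (nat_lit 15846006253) (nat_lit 99) (nat_lit 5) (nat_lit 103) (nat_lit 5) (nat_lit 100) (nat_lit 5) (nat_lit 377) (nat_lit 319) (nat_lit 204)))) (XT.nd (nat_lit 78) (nat_lit 228) (nat_lit 0) (XT.lf (nat_lit 0) (nat_lit 5064092671) (nat_lit 380) (nat_lit 11942276933) (nat_lit 76) (nat_lit 2976318083) (nat_lit 95) (nat_lit 5) (nat_lit 100) (nat_lit 5) (nat_lit 96) (nat_lit 5) (nat_lit 378) (nat_lit 319) (nat_lit 203)) (XT.nd (nat_lit 78) (nat_lit 228) (nat_lit 0) (XT.lf (nat_lit 0) (nat_lit 9326585308) (nat_lit 380) (nat_lit 1180863025) (nat_lit 76) (nat_lit 9861372765) (nat_lit 95) (nat_lit 5) (nat_lit 100) (nat_lit 5) (nat_lit 96) (nat_lit 5) (nat_lit 379) (nat_lit 319) (nat_lit 202)) (XT.lf (nat_lit 0) (nat_lit 10080922242) (nat_lit 228) (nat_lit 3720375199) (nat_lit 304) (nat_lit 6962715251) (nat_lit 92) (nat_lit 5) (nat_lit 95) (nat_lit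 5) (nat_lit 96) (nat_lit 5) (nat_lit 380) (nat_lit 319) (nat_lit 201))))) (XT.nd (nat_lit 234) (nat_lit 532) (nat_lit 0) (XT.nd (nat_lit 78) (nat_lit 304) (nat_lit 0) (XT.lf (nat_lit 0) (nat_lit 492817583) (nat_lit 304) (nat_lit 17953209561) (nat_lit 380) (nat_lit 2723963993) (nat_lit 88) (nat_lit 5) (nat_lit 92) (nat_lit 5) (nat_lit 93) (nat_lit 5) (nat_lit 381) (nat_lit 319) (nat_lit 200)) (XT.nd (nat_lit 78) (nat_lit 228) (nat_lit 0) (XT.lf (nat_lit 0) (nat_lit 1743304414) (nat_lit 380) (nat_lit 9434975195) (nat_lit 76) (nat_lit 10405398111) (nat_lit 87) (nat_lit 5) (nat_lit 92) (nat_lit 5) (nat_lit 88) (nat_lit 5) (nat_lit 382) (nat_lit 319) (nat_lit 199)) (XT.lf (nat_lit 0) (nat_lit 2140480449) (nat_lit 228) (nat_lit 4157911033) (nat_lit 304) (nat_lit 15710321851) (nat_lit 84) (nat_lit 5) (nat_lit 87) (nat_lit 5) (nat_lit 88) (nat_lit 5) (nat_lit 383) (nat_lit 319) (nat_lit 198)))) (XT.nd (nat_lit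 156) (nat_lit 304) (nat_lit 0) (XT.nd (nat_lit 78) (nat_lit 228) (nat_lit 0) (XT.lf (nat_lit 0) (nat_lit 11103969622) (nat_lit 304) (nat_lit 8236435102) (nat_lit 76) (nat_lit 3102684036) (nat_lit 84) (nat_lit 5) (nat_lit 88) (nat_lit 5) (nat_lit 85) (nat_lit 5) (nat_lit 384) (nat_lit 319) (nat_lit 197)) (XT.lf (nat_lit 0) (nat_lit 3758117263) (nat_lit 228) (nat_lit 12361317961) (nat_lit 304) (nat_lit 6769092409) (nat_lit 81) (nat_lit 5) (nat_lit 84) (nat_lit 5) (nat_lit 85) (nat_lit 5) (nat_lit 385) (nat_lit 319) (nat_lit 196))) (XT.nd (nat_lit 78) (nat_lit 304) (nat_lit 0) (XT.lf (nat_lit 0) (nat_lit 16263158791) (nat_lit 228) (nat_lit 5093967457) (nat_lit 304) (nat_lit 1988054257) (nat_lit 81) (nat_lit 5) (nat_lit 84) (nat_lit 5) (nat_lit 85) (nat_lit 5) (nat_lit 386) (nat_lit 319) (nat_lit 195)) (XT.lf (nat_lit 0) (nat_lit 2943420706) (nat_lit 304) (nat_lit 18450361792) (nat_lit 76) (nat_lit 2418977961)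 (nat_lit 77) (nat_lit 5) (nat_lit 81) (nat_lit 5) (nat_lit 78) (nat_lit 5) (nat_lit 387) (nat_lit 319) (nat_lit 194)))))) (XT.nd (nat_lit 468) (nat_lit 608) (nat_lit 0) (XT.nd (nat_lit 234) (nat_lit 456) (nat_lit 0) (XT.nd (nat_lit 78) (nat_lit 228) (nat_lit 0) (XT.lf (nat_lit 0) (nat_lit 8094440293) (nat_lit 304) (nat_lit 6055701027) (nat_lit 76) (nat_lit 10140292596) (nat_lit 77) (nat_lit 5) (nat_lit 81) (nat_lit 5) (nat_lit 78) (nat_lit 5) (nat_lit 388) (nat_lit 319) (nat_lit 193)) (XT.nd (nat_lit 78) (nat_lit 0) (nat_lit 0) (XT.lf (nat_lit 0) (nat_lit 6826556158) (nat_lit 228) (nat_lit 6628279009) (nat_lit 304) (nat_lit 11325960334) (nat_lit 74) (nat_lit 5) (nat_lit 77) (nat_lit 5) (nat_lit 78) (nat_lit 5) (nat_lit 389) (nat_lit 319) (nat_lit 192)) (XT.lf (nat_lit 0) (nat_lit 19037864298) (nat_lit 304) (nat_lit 5093521729) (nat_lit 76) (nat_lit 1152630406) (nat_lit 74) (nat_lit 5) (nat_lit 78) (nat_lit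 5) (nat_lit 75) (nat_lit 5) (nat_lit 390) (nat_lit 319) (nat_lit 191)))) (XT.nd (nat_lit 78) (nat_lit 304) (nat_lit 0) (XT.lf (nat_lit 0) (nat_lit 8230976751) (nat_lit 152) (nat_lit 16691774134) (nat_lit 228) (nat_lit 875555189) (nat_lit 72) (nat_lit 5) (nat_lit 74) (nat_lit 5) (nat_lit 75) (nat_lit 5) (nat_lit 391) (nat_lit 319) (nat_lit 190)) (XT.nd (nat_lit 78) (nat_lit 228) (nat_lit 0) (XT.lf (nat_lit 0) (nat_lit 4606899866) (nat_lit 228) (nat_lit 4329198057) (nat_lit 76) (nat_lit 17389338688) (nat_lit 71) (nat_lit 5) (nat_lit 74) (nat_lit 5) (nat_lit 72) (nat_lit 5) (nat_lit 392) (nat_lit 319) (nat_lit 189)) (XT.lf (nat_lit 0) (nat_lit 9465540340) (nat_lit 228) (nat_lit 851635133) (nat_lit 304) (nat_lit 16548520002) (nat_lit 68) (nat_lit 5) (nat_lit 71) (nat_lit 5) (nat_lit 72) (nat_lit 5) (nat_lit 393) (nat_lit 319) (nat_lit 188))))) (XT.nd (nat_lit 234) (nat_lit 380) (nat_lit 0) (XT.nd (nat_lit 78)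 (nat_lit 228) (nat_lit 0) (XT.lf (nat_lit 0) (nat_lit 16304794736) (nat_lit 304) (nat_lit 3746925720) (nat_lit 76) (nat_lit 7367263324) (nat_lit 68) (nat_lit 5) (nat_lit 72) (nat_lit 5) (nat_lit 69) (nat_lit 5) (nat_lit 394) (nat_lit 319) (nat_lit 187)) (XT.nd (nat_lit 78) (nat_lit 76) (nat_lit 0) (XT.lf (nat_lit 0) (nat_lit 10496120888) (nat_lit 152) (nat_lit 12075567681) (nat_lit 228) (nat_lit 5414195440) (nat_lit 66) (nat_lit 5) (nat_lit 68) (nat_lit 5) (nat_lit 69) (nat_lit 5) (nat_lit 395) (nat_lit 319) (nat_lit 186)) (XT.lf (nat_lit 0) (nat_lit 476445247) (nat_lit 228) (nat_lit 3346355456) (nat_lit 76) (nat_lit 24746004482) (nat_lit 65) (nat_lit 5) (nat_lit 68) (nat_lit 5) (nat_lit 66) (nat_lit 5) (nat_lit 396) (nat_lit 319) (nat_lit 185)))) (XT.nd (nat_lit 156) (nat_lit 152) (nat_lit 0) (XT.nd (nat_lit 78) (nat_lit 0) (nat_lit 0) (XT.lf (nat_lit 0) (nat_lit 6581465205) (nat_lit 304) (nat_lit 17837158309)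 (nat_lit 76) (nat_lit 4744590337) (nat_lit 62) (nat_lit 5) (nat_lit 66) (nat_lit 5) (nat_lit 63) (nat_lit 5) (nat_lit 397) (nat_lit 319) (nat_lit 184)) (XT.lf (nat_lit 0) (nat_lit 12932304708) (nat_lit 304) (nat_lit 3321182924) (nat_lit 76) (nat_lit 13520089436) (nat_lit 62) (nat_lit 5) (nat_lit 66) (nat_lit 5) (nat_lit 63) (nat_lit 5) (nat_lit 398) (nat_lit 319) (nat_lit 183))) (XT.nd (nat_lit 78) (nat_lit 0) (nat_lit 0) (XT.lf (nat_lit 0) (nat_lit 11846098084) (nat_lit 152) (nat_lit 7732407560) (nat_lit 228) (nat_lit 10820602741) (nat_lit 60) (nat_lit 5) (nat_lit 62) (nat_lit 5) (nat_lit 63) (nat_lit 5) (nat_lit 399) (nat_lit 319) (nat_lit 182)) (XT.lf (nat_lit 0) (nat_lit 26459021904) (nat_lit 228) (nat_lit 3531684460) (nat_lit 76) (nat_lit 1051653622) (nat_lit 60) (nat_lit 5) (nat_lit 63) (nat_lit 5) (nat_lit 61) (nat_lit 5) (nat_lit 400) (nat_lit 319) (nat_lit 181))))))) (XT.nd (nat_lit 1014) (nat_lit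 760) (nat_lit 0) (XT.nd (nat_lit 468) (nat_lit 684) (nat_lit 0) (XT.nd (nat_lit 234) (nat_lit 228) (nat_lit 0) (XT.nd (nat_lit 78) (nat_lit 152) (nat_lit 0) (XT.lf (nat_lit 0) (nat_lit 1990944631) (nat_lit 228) (nat_lit 19634318175) (nat_lit 76) (nat_lit 10073542743) (nat_lit 57) (nat_lit 5) (nat_lit 60) (nat_lit 5) (nat_lit 58) (nat_lit 5) (nat_lit 401) (nat_lit 319) (nat_lit 180)) (XT.nd (nat_lit 78) (nat_lit 152) (nat_lit 0) (XT.lf (nat_lit 0) (nat_lit 8697658674) (nat_lit 228) (nat_lit 4233639930) (nat_lit 76) (nat_lit 19441466821) (nat_lit 57) (nat_lit 5) (nat_lit 60) (nat_lit 5) (nat_lit 58) (nat_lit 5) (nat_lit 402) (nat_lit 319) (nat_lit 179)) (XT.lf (nat_lit 0) (nat_lit 11845673433) (nat_lit 152) (nat_lit 3865328967) (nat_lit 228) (nat_lit 17352780825) (nat_lit 55) (nat_lit 5) (nat_lit 57) (nat_lit 5) (nat_lit 58) (nat_lit 5) (nat_lit 403) (nat_lit 319) (nat_lit 178)))) (XT.nd (nat_lit 78) (nat_lit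 228) (nat_lit 0) (XT.lf (nat_lit 0) (nat_lit 23022136924) (nat_lit 228) (nat_lit 5347714873) (nat_lit 76) (nat_lit 5403059965) (nat_lit 55) (nat_lit 5) (nat_lit 58) (nat_lit 5) (nat_lit 56) (nat_lit 5) (nat_lit 404) (nat_lit 319) (nat_lit 177)) (XT.nd (nat_lit 78) (nat_lit 76) (nat_lit 0) (XT.lf (nat_lit 0) (nat_lit 11164212121) (nat_lit 152) (nat_lit 19525835138) (nat_lit 228) (nat_lit 3809145507) (nat_lit 53) (nat_lit 5) (nat_lit 55) (nat_lit 5) (nat_lit 56) (nat_lit 5) (nat_lit 405) (nat_lit 319) (nat_lit 176)) (XT.lf (nat_lit 0) (nat_lit 3321954073) (nat_lit 228) (nat_lit 7011357935) (nat_lit 76) (nat_lit 24911596220) (nat_lit 52) (nat_lit 5) (nat_lit 55) (nat_lit 5) (nat_lit 53) (nat_lit 5) (nat_lit 406) (nat_lit 319) (nat_lit 175))))) (XT.nd (nat_lit 234) (nat_lit 380) (nat_lit 0) (XT.nd (nat_lit 78) (nat_lit 152) (nat_lit 0) (XT.lf (nat_lit 0) (nat_lit 9944538361) (nat_lit 152) (nat_lit 733592859)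 (nat_lit 228) (nat_lit 25331103070) (nat_lit 50) (nat_lit 5) (nat_lit 52) (nat_lit 5) (nat_lit 53) (nat_lit 5) (nat_lit 407) (nat_lit 319) (nat_lit 174)) (XT.nd (nat_lit 78) (nat_lit 152) (nat_lit 0) (XT.lf (nat_lit 0) (nat_lit 18406644691) (nat_lit 228) (nat_lit 9344043191) (nat_lit 76) (nat_lit 9041254377) (nat_lit 50) (nat_lit 5) (nat_lit 53) (nat_lit 5) (nat_lit 51) (nat_lit 5) (nat_lit 408) (nat_lit 319) (nat_lit 173)) (XT.lf (nat_lit 0) (nat_lit 8013930348) (nat_lit 152) (nat_lit 18429763897) (nat_lit 228) (nat_lit 11152138407) (nat_lit 48) (nat_lit 5) (nat_lit 50) (nat_lit 5) (nat_lit 51) (nat_lit 5) (nat_lit 409) (nat_lit 319) (nat_lit 172)))) (XT.nd (nat_lit 156) (nat_lit 152) (nat_lit 0) (XT.nd (nat_lit 78) (nat_lit 228) (nat_lit 0) (XT.lf (nat_lit 0) (nat_lit 26070902218) (nat_lit 152) (nat_lit 8737786333) (nat_lit 228) (nat_lit 3612547769) (nat_lit 48) (nat_lit 5) (nat_lit 50) (nat_lit 5) (nat_lit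 51) (nat_lit 5) (nat_lit 410) (nat_lit 319) (nat_lit 171)) (XT.lf (nat_lit 0) (nat_lit 4130039081) (nat_lit 228) (nat_lit 33830089988) (nat_lit 76) (nat_lit 1308341208) (nat_lit 45) (nat_lit 5) (nat_lit 48) (nat_lit 5) (nat_lit 46) (nat_lit 5) (nat_lit 411) (nat_lit 319) (nat_lit 170))) (XT.nd (nat_lit 78) (nat_lit 152) (nat_lit 0) (XT.lf (nat_lit 0) (nat_lit 12237415250) (nat_lit 228) (nat_lit 16260053294) (nat_lit 76) (nat_lit 11636427492) (nat_lit 45) (nat_lit 5) (nat_lit 48) (nat_lit 5) (nat_lit 46) (nat_lit 5) (nat_lit 412) (nat_lit 319) (nat_lit 169)) (XT.lf (nat_lit 0) (nat_lit 1860690367) (nat_lit 152) (nat_lit 18738080915) (nat_lit 228) (nat_lit 20426191914) (nat_lit 43) (nat_lit 5) (nat_lit 45) (nat_lit 5) (nat_lit 46) (nat_lit 5) (nat_lit 413) (nat_lit 319) (nat_lit 168)))))) (XT.nd (nat_lit 546) (nat_lit 380) (nat_lit 0) (XT.nd (nat_lit 234) (nat_lit 228) (nat_lit 0) (XT.nd (nat_lit 78) (nat_lit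 152) (nat_lit 0) (XT.lf (nat_lit 0) (nat_lit 20845793123) (nat_lit 152) (nat_lit 8522328697) (nat_lit 228) (nat_lit 12569927281) (nat_lit 43) (nat_lit 5) (nat_lit 45) (nat_lit 5) (nat_lit 46) (nat_lit 5) (nat_lit 414) (nat_lit 319) (nat_lit 167)) (XT.nd (nat_lit 78) (nat_lit 152) (nat_lit 0) (XT.lf (nat_lit 0) (nat_lit 38412889664) (nat_lit 228) (nat_lit 2509669553) (nat_lit 76) (nat_lit 1955599571) (nat_lit 43) (nat_lit 5) (nat_lit 46) (nat_lit 5) (nat_lit 44) (nat_lit 4) (nat_lit 415) (nat_lit 319) (nat_lit 166)) (XT.lf (nat_lit 0) (nat_lit 4048930361) (nat_lit 152) (nat_lit 27015907054) (nat_lit 76) (nat_lit 12773251033) (nat_lit 41) (nat_lit 5) (nat_lit 43) (nat_lit 5) (nat_lit 42) (nat_lit 5) (nat_lit 416) (nat_lit 319) (nat_lit 165)))) (XT.nd (nat_lit 156) (nat_lit 76) (nat_lit 0) (XT.nd (nat_lit 78) (nat_lit 152) (nat_lit 0) (XT.lf (nat_lit 0) (nat_lit 12747729033) (nat_lit 152) (nat_lit 8097106383)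 (nat_lit 76) (nat_lit 23980087838) (nat_lit 41) (nat_lit 5) (nat_lit 43) (nat_lit 5) (nat_lit 42) (nat_lit 5) (nat_lit 417) (nat_lit 319) (nat_lit 164)) (XT.lf (nat_lit 0) (nat_lit 11604021950) (nat_lit 152) (nat_lit 10208536063) (nat_lit 228) (nat_lit 24025654263) (nat_lit 39) (nat_lit 5) (nat_lit 41) (nat_lit 5) (nat_lit 42) (nat_lit 5) (nat_lit 418) (nat_lit 319) (nat_lit 163))) (XT.nd (nat_lit 78) (nat_lit 76) (nat_lit 0) (XT.lf (nat_lit 0) (nat_lit 31232634923) (nat_lit 228) (nat_lit 14836970667) (nat_lit 76) (nat_lit 809796413) (nat_lit 39) (nat_lit 5) (nat_lit 42) (nat_lit 5) (nat_lit 40) (nat_lit 4) (nat_lit 419) (nat_lit 319) (nat_lit 162)) (XT.lf (nat_lit 0) (nat_lit 5129831517) (nat_lit 76) (nat_lit 35949605606) (nat_lit 152) (nat_lit 6868067703) (nat_lit 38) (nat_lit 5) (nat_lit 39) (nat_lit 5) (nat_lit 40) (nat_lit 4) (nat_lit 420) (nat_lit 319) (nat_lit 161))))) (XT.nd (nat_lit 234) (nat_lit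 152) (nat_lit 0) (XT.nd (nat_lit 78) (nat_lit 152) (nat_lit 0) (XT.lf (nat_lit 0) (nat_lit 2276627195) (nat_lit 152) (nat_lit 23077131032) (nat_lit 76) (nat_lit 23688914897) (nat_lit 37) (nat_lit 5) (nat_lit 39) (nat_lit 5) (nat_lit 38) (nat_lit 5) (nat_lit 421) (nat_lit 319) (nat_lit 160)) (XT.nd (nat_lit 78) (nat_lit 152) (nat_lit 0) (XT.lf (nat_lit 0) (nat_lit 11551552889) (nat_lit 152) (nat_lit 2823416838) (nat_lit 76) (nat_lit 35793869787) (nat_lit 37) (nat_lit 5) (nat_lit 39) (nat_lit 5) (nat_lit 38) (nat_lit 5) (nat_lit 422) (nat_lit 319) (nat_lit 159)) (XT.lf (nat_lit 0) (nat_lit 18385963126) (nat_lit 152) (nat_lit 2889608420) (nat_lit 228) (nat_lit 30048094965) (nat_lit 35) (nat_lit 5) (nat_lit 37) (nat_lit 5) (nat_lit 38) (nat_lit 5) (nat_lit 423) (nat_lit 319) (nat_lit 158)))) (XT.nd (nat_lit 156) (nat_lit 76) (nat_lit 0) (XT.nd (nat_lit 78) (nat_lit 76) (nat_lit 0) (XT.lf (nat_lit 0) (nat_lit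 31400175321) (nat_lit 228) (nat_lit 12319749704) (nat_lit 76) (nat_lit 8789948300) (nat_lit 35) (nat_lit 5) (nat_lit 38) (nat_lit 5) (nat_lit 36) (nat_lit 4) (nat_lit 424) (nat_lit 319) (nat_lit 157)) (XT.lf (nat_lit 0) (nat_lit 9054382797) (nat_lit 76) (nat_lit 32884083121) (nat_lit 152) (nat_lit 11789902880) (nat_lit 34) (nat_lit 5) (nat_lit 35) (nat_lit 5) (nat_lit 36) (nat_lit 4) (nat_lit 425) (nat_lit 319) (nat_lit 156))) (XT.nd (nat_lit 78) (nat_lit 76) (nat_lit 0) (XT.lf (nat_lit 0) (nat_lit 31311950927) (nat_lit 76) (nat_lit 21599728720) (nat_lit 152) (nat_lit 2068177147) (nat_lit 34) (nat_lit 5) (nat_lit 35) (nat_lit 5) (nat_lit 36) (nat_lit 4) (nat_lit 426) (nat_lit 319) (nat_lit 155)) (XT.lf (nat_lit 0) (nat_lit 7784639010) (nat_lit 152) (nat_lit 2118158421) (nat_lit 76) (nat_lit 46363967268) (nat_lit 33) (nat_lit 5) (nat_lit 35) (nat_lit 5) (nat_lit 34) (nat_lit 5) (nat_lit 427) (nat_lit 319)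 (nat_lit 154))))))))
noncomputable def xc155 : XT := (XT.nd (nat_lit 39312) (nat_lit 0) (nat_lit 9804) (XT.nd (nat_lit 1014) (nat_lit 76) (nat_lit 0) (XT.nd (nat_lit 468) (nat_lit 228) (nat_lit 0) (XT.nd (nat_lit 234) (nat_lit 228) (nat_lit 0) (XT.nd (nat_lit 78) (nat_lit 76) (nat_lit 0) (XT.lf (nat_lit 0) (nat_lit 18105382051) (nat_lit 228) (nat_lit 37161907314) (nat_lit 76) (nat_lit 2317959660) (nat_lit 31) (nat_lit 5) (nat_lit 34) (nat_lit 5) (nat_lit 32) (nat_lit 4) (nat_lit 428) (nat_lit 319) (nat_lit 153)) (XT.nd (nat_lit 78) (nat_lit 76) (nat_lit 0) (XT.lf (nat_lit 0) (nat_lit 28850054517) (nat_lit 228) (nat_lit 15366264498) (nat_lit 76) (nat_lit 14723540442) (nat_lit 31) (nat_lit 5) (nat_lit 34) (nat_lit 5) (nat_lit 32) (nat_lit 4) (nat_lit 429) (nat_lit 319) (nat_lit 152)) (XT.lf (nat_lit 0) (nat_lit 7214448802) (nat_lit 76) (nat_lit 32766782236) (nat_lit 152) (nat_lit 20351953014) (nat_lit 30)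 (nat_lit 5) (nat_lit 31) (nat_lit 5) (nat_lit 32) (nat_lit 4) (nat_lit 430) (nat_lit 319) (nat_lit 151)))) (XT.nd (nat_lit 78) (nat_lit 228) (nat_lit 0) (XT.lf (nat_lit 0) (nat_lit 30778092089) (nat_lit 76) (nat_lit 20818293966) (nat_lit 152) (nat_lit 10167421780) (nat_lit 30) (nat_lit 5) (nat_lit 31) (nat_lit 5) (nat_lit 32) (nat_lit 4) (nat_lit 431) (nat_lit 319) (nat_lit 150)) (XT.nd (nat_lit 78) (nat_lit 152) (nat_lit 0) (XT.lf (nat_lit 0) (nat_lit 311322789) (nat_lit 152) (nat_lit 8201116381) (nat_lit 76) (nat_lit 54724969619) (nat_lit 29) (nat_lit 5) (nat_lit 31) (nat_lit 5) (nat_lit 30) (nat_lit 5) (nat_lit 432) (nat_lit 319) (nat_lit 149)) (XT.lf (nat_lit 0) (nat_lit 11086236907) (nat_lit 228) (nat_lit 49331352609) (nat_lit 76) (nat_lit 4329024040) (nat_lit 27) (nat_lit 5) (nat_lit 30) (nat_lit 5) (nat_lit 28) (nat_lit 4) (nat_lit 433) (nat_lit 319) (nat_lit 148))))) (XT.nd (nat_lit 234) (nat_lit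 152) (nat_lit 0) (XT.nd (nat_lit 78) (nat_lit 76) (nat_lit 0) (XT.lf (nat_lit 0) (nat_lit 22347451411) (nat_lit 228) (nat_lit 26484522332) (nat_lit 76) (nat_lit 17464229798) (nat_lit 27) (nat_lit 5) (nat_lit 30) (nat_lit 5) (nat_lit 28) (nat_lit 4) (nat_lit 434) (nat_lit 319) (nat_lit 147)) (XT.nd (nat_lit 78) (nat_lit 76) (nat_lit 0) (XT.lf (nat_lit 0) (nat_lit 33941780251) (nat_lit 228) (nat_lit 2961078637) (nat_lit 76) (nat_lit 30989564642) (nat_lit 27) (nat_lit 5) (nat_lit 30) (nat_lit 5) (nat_lit 28) (nat_lit 4) (nat_lit 435) (nat_lit 319) (nat_lit 146)) (XT.lf (nat_lit 0) (nat_lit 21682639332) (nat_lit 76) (nat_lit 24405141855) (nat_lit 152) (nat_lit 23442634289) (nat_lit 26) (nat_lit 5) (nat_lit 27) (nat_lit 5) (nat_lit 28) (nat_lit 4) (nat_lit 436) (nat_lit 319) (nat_lit 145)))) (XT.nd (nat_lit 156) (nat_lit 76) (nat_lit 0) (XT.nd (nat_lit 78) (nat_lit 76) (nat_lit 0) (XT.lf (nat_lit 0) (nat_lit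 47117916303) (nat_lit 76) (nat_lit 11505614663) (nat_lit 152) (nat_lit 12593255756) (nat_lit 26) (nat_lit 5) (nat_lit 27) (nat_lit 5) (nat_lit 28) (nat_lit 4) (nat_lit 437) (nat_lit 319) (nat_lit 144)) (XT.lf (nat_lit 0) (nat_lit 343790385) (nat_lit 76) (nat_lit 71207549815) (nat_lit 76) (nat_lit 1401929884) (nat_lit 25) (nat_lit 4) (nat_lit 26) (nat_lit 5) (nat_lit 26) (nat_lit 4) (nat_lit 438) (nat_lit 319) (nat_lit 143))) (XT.nd (nat_lit 78) (nat_lit 0) (nat_lit 0) (XT.lf (nat_lit 0) (nat_lit 10282805004) (nat_lit 152) (nat_lit 48942777512) (nat_lit 76) (nat_lit 15502688703) (nat_lit 24) (nat_lit 5) (nat_lit 26) (nat_lit 5) (nat_lit 25) (nat_lit 4) (nat_lit 439) (nat_lit 319) (nat_lit 142)) (XT.lf (nat_lit 0) (nat_lit 22285602957) (nat_lit 152) (nat_lit 24588021685) (nat_lit 76) (nat_lit 29682610915) (nat_lit 24) (nat_lit 5) (nat_lit 26) (nat_lit 5) (nat_lit 25) (nat_lit 4) (nat_lit 440) (nat_lit 319)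 (nat_lit 141)))))) (XT.nd (nat_lit 37752) (nat_lit 0) (nat_lit 18848) (XT.nd (nat_lit 37440) (nat_lit 0) (nat_lit 18848) (XT.nd (nat_lit 78) (nat_lit 0) (nat_lit 0) (XT.lf (nat_lit 0) (nat_lit 499287744) (nat_lit 76) (nat_lit 34149820274) (nat_lit 152) (nat_lit 43789912637) (nat_lit 23) (nat_lit 5) (nat_lit 24) (nat_lit 5) (nat_lit 25) (nat_lit 4) (nat_lit 441) (nat_lit 319) (nat_lit 140)) (XT.nd (nat_lit 78) (nat_lit 0) (nat_lit 0) (XT.lf (nat_lit 0) (nat_lit 26835491606) (nat_lit 76) (nat_lit 20792188233) (nat_lit 152) (nat_lit 32743285125) (nat_lit 23) (nat_lit 5) (nat_lit 24) (nat_lit 5) (nat_lit 25) (nat_lit 4) (nat_lit 442) (nat_lit 319) (nat_lit 139)) (XT.lf (nat_lit 0) (nat_lit 53954252273) (nat_lit 76) (nat_lit 7037347611) (nat_lit 152) (nat_lit 21369388478) (nat_lit 23) (nat_lit 5) (nat_lit 24) (nat_lit 5) (nat_lit 25) (nat_lit 4) (nat_lit 443) (nat_lit 319) (nat_lit 138)))) (XT.nd (nat_lit 156)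 (nat_lit 912) (nat_lit 0) (XT.nd (nat_lit 78) (nat_lit 0) (nat_lit 0) (XT.lf (nat_lit 0) (nat_lit 2581865501) (nat_lit 988) (nat_lit 748559669) (nat_lit 988) (nat_lit 748559669) (nat_lit 283) (nat_lit 3) (nat_lit 296) (nat_lit 3) (nat_lit 296) (nat_lit 5) (nat_lit 320) (nat_lit 320) (nat_lit 260)) (XT.lf (nat_lit 76) (nat_lit 2434894555) (nat_lit 0) (nat_lit 3940458059) (nat_lit 988) (nat_lit 1870122203) (nat_lit 284) (nat_lit 5) (nat_lit 283) (nat_lit 3) (nat_lit 296) (nat_lit 5) (nat_lit 321) (nat_lit 320) (nat_lit 259))) (XT.nd (nat_lit 78) (nat_lit 912) (nat_lit 0) (XT.lf (nat_lit 76) (nat_lit 6492772148) (nat_lit 0) (nat_lit 1102099808) (nat_lit 988) (nat_lit 741619443) (nat_lit 284) (nat_lit 5) (nat_lit 283) (nat_lit 3) (nat_lit 296) (nat_lit 5) (nat_lit 322) (nat_lit 320) (nat_lit 258)) (XT.lf (nat_lit 0) (nat_lit 409448411) (nat_lit 988) (nat_lit 6189548590) (nat_lit 1064) (nat_lit 1831243421) (nat_lit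 271) (nat_lit 5) (nat_lit 284) (nat_lit 5) (nat_lit 285) (nat_lit 5) (nat_lit 323) (nat_lit 320) (nat_lit 257))))) (XT.nd (nat_lit 234) (nat_lit 0) (nat_lit 76) (XT.nd (nat_lit 78) (nat_lit 0) (nat_lit 0) (XT.lf (nat_lit 0) (nat_lit 1568315051) (nat_lit 988) (nat_lit 2083495153) (nat_lit 1064) (nat_lit 4875156232) (nat_lit 271) (nat_lit 5) (nat_lit 284) (nat_lit 5) (nat_lit 285) (nat_lit 5) (nat_lit 324) (nat_lit 320) (nat_lit 256)) (XT.nd (nat_lit 78) (nat_lit 0) (nat_lit 76) (XT.lf (nat_lit 76) (nat_lit 2164439508) (nat_lit 0) (nat_lit 577982449) (nat_lit 1064) (nat_lit 5884787154) (nat_lit 272) (nat_lit 5) (nat_lit 271) (nat_lit 5) (nat_lit 285) (nat_lit 5) (nat_lit 325) (nat_lit 320) (nat_lit 255)) (XT.lf (nat_lit 0) (nat_lit 3958651170) (nat_lit 988) (nat_lit 2197062252) (nat_lit 1064) (nat_lit 2574566931) (nat_lit 272) (nat_lit 5) (nat_lit 285) (nat_lit 5) (nat_lit 286) (nat_lit 5) (nat_lit 326) (nat_lit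 320) (nat_lit 254)))) (XT.nd (nat_lit 156) (nat_lit 0) (nat_lit 76) (XT.nd (nat_lit 78) (nat_lit 0) (nat_lit 76) (XT.lf (nat_lit 76) (nat_lit 2210068808) (nat_lit 0) (nat_lit 2990181657) (nat_lit 1064) (nat_lit 3636554208) (nat_lit 273) (nat_lit 5) (nat_lit 272) (nat_lit 5) (nat_lit 286) (nat_lit 5) (nat_lit 327) (nat_lit 320) (nat_lit 253)) (XT.lf (nat_lit 0) (nat_lit 6467028843) (nat_lit 988) (nat_lit 2179214678) (nat_lit 1064) (nat_lit 300669906) (nat_lit 273) (nat_lit 5) (nat_lit 286) (nat_lit 5) (nat_lit 287) (nat_lit 5) (nat_lit 328) (nat_lit 320) (nat_lit 252))) (XT.nd (nat_lit 78) (nat_lit 0) (nat_lit 0) (XT.lf (nat_lit 76) (nat_lit 2394592488) (nat_lit 0) (nat_lit 5393848902) (nat_lit 1064) (nat_lit 1271410991) (nat_lit 274) (nat_lit 5) (nat_lit 273) (nat_lit 5) (nat_lit 287) (nat_lit 5) (nat_lit 329) (nat_lit 320) (nat_lit 251)) (XT.lf (nat_lit 76) (nat_lit 7126262465) (nat_lit 0) (nat_lit 2010063836)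 (nat_lit 1064) (nat_lit 40273410) (nat_lit 274) (nat_lit 5) (nat_lit 273) (nat_lit 5) (nat_lit 287) (nat_lit 5) (nat_lit 330) (nat_lit 320) (nat_lit 250))))))) (XT.nd (nat_lit 1014) (nat_lit 4256) (nat_lit 0) (XT.nd (nat_lit 468) (nat_lit 3952) (nat_lit 0) (XT.nd (nat_lit 234) (nat_lit 0) (nat_lit 76) (XT.nd (nat_lit 78) (nat_lit 0) (nat_lit 0) (XT.lf (nat_lit 0) (nat_lit 1210132563) (nat_lit 1064) (nat_lit 6591148179) (nat_lit 1140) (nat_lit 1495049527) (nat_lit 260) (nat_lit 5) (nat_lit 274) (nat_lit 5) (nat_lit 275) (nat_lit 5) (nat_lit 331) (nat_lit 320) (nat_lit 249)) (XT.nd (nat_lit 78) (nat_lit 0) (nat_lit 0) (XT.lf (nat_lit 0) (nat_lit 2504410973) (nat_lit 1064) (nat_lit 1819069064) (nat_lit 1140) (nat_lit 5095968629) (nat_lit 260) (nat_lit 5) (nat_lit 274) (nat_lit 5) (nat_lit 275) (nat_lit 5) (nat_lit 332) (nat_lit 320) (nat_lit 248)) (XT.lf (nat_lit 76) (nat_lit 3133107723) (nat_lit 0) (nat_lit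 701865912) (nat_lit 1140) (nat_lit 5711385612) (nat_lit 261) (nat_lit 5) (nat_lit 260) (nat_lit 5) (nat_lit 275) (nat_lit 5) (nat_lit 333) (nat_lit 320) (nat_lit 247)))) (XT.nd (nat_lit 78) (nat_lit 0) (nat_lit 0) (XT.lf (nat_lit 0) (nat_lit 5221251027) (nat_lit 1064) (nat_lit 1459701967) (nat_lit 1140) (nat_lit 2995671876) (nat_lit 261) (nat_lit 5) (nat_lit 275) (nat_lit 5) (nat_lit 276) (nat_lit 5) (nat_lit 334) (nat_lit 320) (nat_lit 246)) (XT.nd (nat_lit 78) (nat_lit 0) (nat_lit 76) (XT.lf (nat_lit 76) (nat_lit 3683081735) (nat_lit 0) (nat_lit 2977452424) (nat_lit 1140) (nat_lit 3149942806) (nat_lit 262) (nat_lit 5) (nat_lit 261) (nat_lit 5) (nat_lit 276) (nat_lit 5) (nat_lit 335) (nat_lit 320) (nat_lit 245)) (XT.lf (nat_lit 0) (nat_lit 8135722813) (nat_lit 1064) (nat_lit 971067474) (nat_lit 76) (nat_lit 841792942) (nat_lit 262) (nat_lit 5) (nat_lit 276) (nat_lit 5) (nat_lit 263) (nat_lit 5) (nat_lit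 336) (nat_lit 320) (nat_lit 244))))) (XT.nd (nat_lit 234) (nat_lit 1824) (nat_lit 0) (XT.nd (nat_lit 78) (nat_lit 1216) (nat_lit 0) (XT.lf (nat_lit 0) (nat_lit 4371459431) (nat_lit 1064) (nat_lit 5325882086) (nat_lit 1140) (nat_lit 392245752) (nat_lit 248) (nat_lit 5) (nat_lit 262) (nat_lit 5) (nat_lit 263) (nat_lit 5) (nat_lit 337) (nat_lit 320) (nat_lit 243)) (XT.nd (nat_lit 78) (nat_lit 1140) (nat_lit 0) (XT.lf (nat_lit 0) (nat_lit 1030984696) (nat_lit 1140) (nat_lit 375422733) (nat_lit 76) (nat_lit 8828696950) (nat_lit 247) (nat_lit 5) (nat_lit 262) (nat_lit 5) (nat_lit 248) (nat_lit 5) (nat_lit 338) (nat_lit 320) (nat_lit 242)) (XT.lf (nat_lit 0) (nat_lit 2536725056) (nat_lit 1216) (nat_lit 5208873359) (nat_lit 76) (nat_lit 2637859316) (nat_lit 232) (nat_lit 5) (nat_lit 248) (nat_lit 5) (nat_lit 233) (nat_lit 5) (nat_lit 339) (nat_lit 320) (nat_lit 241)))) (XT.nd (nat_lit 156) (nat_lit 608) (nat_lit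 0) (XT.nd (nat_lit 78) (nat_lit 0) (nat_lit 0) (XT.lf (nat_lit 0) (nat_lit 330527165) (nat_lit 1216) (nat_lit 3750508425) (nat_lit 1292) (nat_lit 6455441764) (nat_lit 216) (nat_lit 5) (nat_lit 232) (nat_lit 5) (nat_lit 233) (nat_lit 5) (nat_lit 340) (nat_lit 320) (nat_lit 240)) (XT.lf (nat_lit 0) (nat_lit 5701358966) (nat_lit 1292) (nat_lit 4578856741) (nat_lit 76) (nat_lit 412998451) (nat_lit 216) (nat_lit 5) (nat_lit 233) (nat_lit 5) (nat_lit 217) (nat_lit 5) (nat_lit 341) (nat_lit 320) (nat_lit 239))) (XT.nd (nat_lit 78) (nat_lit 0) (nat_lit 0) (XT.lf (nat_lit 0) (nat_lit 1178435846) (nat_lit 608) (nat_lit 6214162611) (nat_lit 684) (nat_lit 3461402016) (nat_lit 208) (nat_lit 5) (nat_lit 216) (nat_lit 5) (nat_lit 217) (nat_lit 5) (nat_lit 342) (nat_lit 320) (nat_lit 238)) (XT.lf (nat_lit 0) (nat_lit 7178073796) (nat_lit 608) (nat_lit 1977112469) (nat_lit 684) (nat_lit 1863821895) (nat_lit 208) (nat_lit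 5) (nat_lit 216) (nat_lit 5) (nat_lit 217) (nat_lit 5) (nat_lit 343) (nat_lit 320) (nat_lit 237)))))) (XT.nd (nat_lit 546) (nat_lit 1976) (nat_lit 0) (XT.nd (nat_lit 234) (nat_lit 1064) (nat_lit 0) (XT.nd (nat_lit 78) (nat_lit 684) (nat_lit 0) (XT.lf (nat_lit 0) (nat_lit 2163706100) (nat_lit 532) (nat_lit 8825823286) (nat_lit 608) (nat_lit 198886009) (nat_lit 201) (nat_lit 5) (nat_lit 208) (nat_lit 5) (nat_lit 209) (nat_lit 5) (nat_lit 344) (nat_lit 320) (nat_lit 236)) (XT.nd (nat_lit 78) (nat_lit 608) (nat_lit 0) (XT.lf (nat_lit 0) (nat_lit 1520530423) (nat_lit 608) (nat_lit 2993623476) (nat_lit 76) (nat_lit 6847305064) (nat_lit 200) (nat_lit 5) (nat_lit 208) (nat_lit 5) (nat_lit 201) (nat_lit 5) (nat_lit 345) (nat_lit 320) (nat_lit 235)) (XT.lf (nat_lit 0) (nat_lit 3256108538) (nat_lit 608) (nat_lit 38810244) (nat_lit 684) (nat_lit 8244508693) (nat_lit 192) (nat_lit 5) (nat_lit 200) (nat_lit 5) (nat_lit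 201) (nat_lit 5) (nat_lit 346) (nat_lit 320) (nat_lit 234)))) (XT.nd (nat_lit 156) (nat_lit 532) (nat_lit 0) (XT.nd (nat_lit 78) (nat_lit 532) (nat_lit 0) (XT.lf (nat_lit 0) (nat_lit 5173559940) (nat_lit 684) (nat_lit 2035703091) (nat_lit 76) (nat_lit 4511955279) (nat_lit 192) (nat_lit 5) (nat_lit 201) (nat_lit 5) (nat_lit 193) (nat_lit 5) (nat_lit 347) (nat_lit 320) (nat_lit 233)) (XT.lf (nat_lit 0) (nat_lit 4462406210) (nat_lit 532) (nat_lit 2666671479) (nat_lit 608) (nat_lit 4778783159) (nat_lit 185) (nat_lit 5) (nat_lit 192) (nat_lit 5) (nat_lit 193) (nat_lit 5) (nat_lit 348) (nat_lit 320) (nat_lit 232))) (XT.nd (nat_lit 78) (nat_lit 532) (nat_lit 0) (XT.lf (nat_lit 0) (nat_lit 9161029072) (nat_lit 608) (nat_lit 945912509) (nat_lit 76) (nat_lit 1992641141) (nat_lit 185) (nat_lit 5) (nat_lit 193) (nat_lit 5) (nat_lit 186) (nat_lit 5) (nat_lit 349) (nat_lit 320) (nat_lit 231)) (XT.lf (nat_lit 0) (nat_lit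 5812263183) (nat_lit 532) (nat_lit 5502265534) (nat_lit 608) (nat_lit 980722566) (nat_lit 178) (nat_lit 5) (nat_lit 185) (nat_lit 5) (nat_lit 186) (nat_lit 5) (nat_lit 350) (nat_lit 320) (nat_lit 230))))) (XT.nd (nat_lit 234) (nat_lit 988) (nat_lit 0) (XT.nd (nat_lit 78) (nat_lit 456) (nat_lit 0) (XT.lf (nat_lit 0) (nat_lit 267663486) (nat_lit 456) (nat_lit 738688703) (nat_lit 532) (nat_lit 11490429335) (nat_lit 171) (nat_lit 5) (nat_lit 177) (nat_lit 5) (nat_lit 178) (nat_lit 5) (nat_lit 351) (nat_lit 320) (nat_lit 229)) (XT.nd (nat_lit 78) (nat_lit 456) (nat_lit 0) (XT.lf (nat_lit 0) (nat_lit 3118387138) (nat_lit 532) (nat_lit 5423056530) (nat_lit 76) (nat_lit 4160082559) (nat_lit 171) (nat_lit 5) (nat_lit 178) (nat_lit 5) (nat_lit 172) (nat_lit 5) (nat_lit 352) (nat_lit 320) (nat_lit 228)) (XT.lf (nat_lit 0) (nat_lit 1587580007) (nat_lit 456) (nat_lit 3708275202) (nat_lit 532) (nat_lit 7616507204) (nat_lit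 165) (nat_lit 5) (nat_lit 171) (nat_lit 5) (nat_lit 172) (nat_lit 5) (nat_lit 353) (nat_lit 320) (nat_lit 227)))) (XT.nd (nat_lit 156) (nat_lit 532) (nat_lit 0) (XT.nd (nat_lit 78) (nat_lit 456) (nat_lit 0) (XT.lf (nat_lit 0) (nat_lit 7586003838) (nat_lit 532) (nat_lit 4244558021) (nat_lit 76) (nat_lit 1297552104) (nat_lit 165) (nat_lit 5) (nat_lit 172) (nat_lit 5) (nat_lit 166) (nat_lit 5) (nat_lit 354) (nat_lit 320) (nat_lit 226)) (XT.lf (nat_lit 0) (nat_lit 3047890051) (nat_lit 456) (nat_lit 6943412822) (nat_lit 532) (nat_lit 3357652462) (nat_lit 159) (nat_lit 5) (nat_lit 165) (nat_lit 5) (nat_lit 166) (nat_lit 5) (nat_lit 355) (nat_lit 320) (nat_lit 225))) (XT.nd (nat_lit 78) (nat_lit 532) (nat_lit 0) (XT.lf (nat_lit 0) (nat_lit 10623403013) (nat_lit 456) (nat_lit 1869003307) (nat_lit 532) (nat_lit 1083316610) (nat_lit 159) (nat_lit 5) (nat_lit 165) (nat_lit 5) (nat_lit 166) (nat_lit 5) (nat_lit 356)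 (nat_lit 320) (nat_lit 224)) (XT.lf (nat_lit 0) (nat_lit 1293556425) (nat_lit 532) (nat_lit 9167424112) (nat_lit 76) (nat_lit 3346193238) (nat_lit 152) (nat_lit 5) (nat_lit 159) (nat_lit 5) (nat_lit 153) (nat_lit 5) (nat_lit 357) (nat_lit 320) (nat_lit 223))))))))
noncomputable def xc156 : XT := (XT.nd (nat_lit 2028) (nat_lit 2964) (nat_lit 0) (XT.nd (nat_lit 1014) (nat_lit 2204) (nat_lit 0) (XT.nd (nat_lit 468) (nat_lit 1444) (nat_lit 0) (XT.nd (nat_lit 234) (nat_lit 912) (nat_lit 0) (XT.nd (nat_lit 78) (nat_lit 380) (nat_lit 0) (XT.lf (nat_lit 0) (nat_lit 3750023562) (nat_lit 532) (nat_lit 1576849215) (nat_lit 76) (nat_lit 8717481213) (nat_lit 152) (nat_lit 5) (nat_lit 159) (nat_lit 5) (nat_lit 153) (nat_lit 5) (nat_lit 358) (nat_lit 320) (nat_lit 222)) (XT.nd (nat_lit 78) (nat_lit 0) (nat_lit 0) (XT.lf (nat_lit 0) (nat_lit 6323339918) (nat_lit 456) (nat_lit 7944429472) (nat_lit 76) (nat_lit 19594756)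 (nat_lit 147) (nat_lit 5) (nat_lit 153) (nat_lit 5) (nat_lit 148) (nat_lit 5) (nat_lit 359) (nat_lit 320) (nat_lit 221)) (XT.lf (nat_lit 0) (nat_lit 9024941073) (nat_lit 456) (nat_lit 79820833) (nat_lit 76) (nat_lit 5431379064) (nat_lit 147) (nat_lit 5) (nat_lit 153) (nat_lit 5) (nat_lit 148) (nat_lit 5) (nat_lit 360) (nat_lit 320) (nat_lit 220)))) (XT.nd (nat_lit 78) (nat_lit 456) (nat_lit 0) (XT.lf (nat_lit 0) (nat_lit 8158202666) (nat_lit 456) (nat_lit 3710589087) (nat_lit 532) (nat_lit 2921761964) (nat_lit 141) (nat_lit 5) (nat_lit 147) (nat_lit 5) (nat_lit 148) (nat_lit 5) (nat_lit 361) (nat_lit 320) (nat_lit 219)) (XT.nd (nat_lit 78) (nat_lit 76) (nat_lit 0) (XT.lf (nat_lit 0) (nat_lit 1583604587) (nat_lit 380) (nat_lit 13231159804) (nat_lit 456) (nat_lit 237338674) (nat_lit 136) (nat_lit 5) (nat_lit 141) (nat_lit 5) (nat_lit 142) (nat_lit 5) (nat_lit 362) (nat_lit 320) (nat_lit 218)) (XT.lf (nat_lit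 0) (nat_lit 2565812252) (nat_lit 456) (nat_lit 5221299172) (nat_lit 76) (nat_lit 7531040952) (nat_lit 135) (nat_lit 5) (nat_lit 141) (nat_lit 5) (nat_lit 136) (nat_lit 5) (nat_lit 363) (nat_lit 320) (nat_lit 217))))) (XT.nd (nat_lit 234) (nat_lit 760) (nat_lit 0) (XT.nd (nat_lit 78) (nat_lit 304) (nat_lit 0) (XT.lf (nat_lit 0) (nat_lit 3314175131) (nat_lit 380) (nat_lit 2149603678) (nat_lit 456) (nat_lit 10127876816) (nat_lit 130) (nat_lit 5) (nat_lit 135) (nat_lit 5) (nat_lit 136) (nat_lit 5) (nat_lit 364) (nat_lit 320) (nat_lit 216)) (XT.nd (nat_lit 78) (nat_lit 304) (nat_lit 0) (XT.lf (nat_lit 0) (nat_lit 8520941200) (nat_lit 456) (nat_lit 3716405561) (nat_lit 76) (nat_lit 3633856979) (nat_lit 130) (nat_lit 5) (nat_lit 136) (nat_lit 5) (nat_lit 131) (nat_lit 5) (nat_lit 365) (nat_lit 320) (nat_lit 215)) (XT.lf (nat_lit 0) (nat_lit 5159844514) (nat_lit 304) (nat_lit 6565183258) (nat_lit 380) (nat_lit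 4432461501) (nat_lit 126) (nat_lit 5) (nat_lit 130) (nat_lit 5) (nat_lit 131) (nat_lit 5) (nat_lit 366) (nat_lit 320) (nat_lit 214)))) (XT.nd (nat_lit 156) (nat_lit 304) (nat_lit 0) (XT.nd (nat_lit 78) (nat_lit 456) (nat_lit 0) (XT.lf (nat_lit 0) (nat_lit 14357710193) (nat_lit 304) (nat_lit 689637726) (nat_lit 380) (nat_lit 1404359170) (nat_lit 126) (nat_lit 5) (nat_lit 130) (nat_lit 5) (nat_lit 131) (nat_lit 5) (nat_lit 367) (nat_lit 320) (nat_lit 213)) (XT.lf (nat_lit 0) (nat_lit 1787360897) (nat_lit 456) (nat_lit 9625157346) (nat_lit 76) (nat_lit 5338558412) (nat_lit 120) (nat_lit 5) (nat_lit 126) (nat_lit 5) (nat_lit 121) (nat_lit 5) (nat_lit 368) (nat_lit 320) (nat_lit 212))) (XT.nd (nat_lit 78) (nat_lit 304) (nat_lit 0) (XT.lf (nat_lit 0) (nat_lit 5059857977) (nat_lit 456) (nat_lit 435130500) (nat_lit 76) (nat_lit 11563630593) (nat_lit 120) (nat_lit 5) (nat_lit 126) (nat_lit 5) (nat_lit 121) (nat_lit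 5) (nat_lit 369) (nat_lit 320) (nat_lit 211)) (XT.lf (nat_lit 0) (nat_lit 8510960007) (nat_lit 380) (nat_lit 8189993504) (nat_lit 76) (nat_lit 672027603) (nat_lit 116) (nat_lit 5) (nat_lit 121) (nat_lit 5) (nat_lit 117) (nat_lit 5) (nat_lit 370) (nat_lit 320) (nat_lit 210)))))) (XT.nd (nat_lit 468) (nat_lit 1216) (nat_lit 0) (XT.nd (nat_lit 234) (nat_lit 304) (nat_lit 0) (XT.nd (nat_lit 78) (nat_lit 380) (nat_lit 0) (XT.lf (nat_lit 0) (nat_lit 1353559480) (nat_lit 304) (nat_lit 10769569741) (nat_lit 380) (nat_lit 5571924851) (nat_lit 112) (nat_lit 5) (nat_lit 116) (nat_lit 5) (nat_lit 117) (nat_lit 5) (nat_lit 371) (nat_lit 320) (nat_lit 209)) (XT.nd (nat_lit 78) (nat_lit 380) (nat_lit 0) (XT.lf (nat_lit 0) (nat_lit 11331174393) (nat_lit 304) (nat_lit 4581095163) (nat_lit 380) (nat_lit 2112467380) (nat_lit 112) (nat_lit 5) (nat_lit 116) (nat_lit 5) (nat_lit 117) (nat_lit 5) (nat_lit 372) (nat_lit 320) (nat_lit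 208)) (XT.lf (nat_lit 0) (nat_lit 1457735308) (nat_lit 380) (nat_lit 15107074065) (nat_lit 76) (nat_lit 1798029964) (nat_lit 107) (nat_lit 5) (nat_lit 112) (nat_lit 5) (nat_lit 108) (nat_lit 5) (nat_lit 373) (nat_lit 320) (nat_lit 207)))) (XT.nd (nat_lit 78) (nat_lit 304) (nat_lit 0) (XT.lf (nat_lit 0) (nat_lit 5192532847) (nat_lit 380) (nat_lit 5155202256) (nat_lit 76) (nat_lit 8359729221) (nat_lit 107) (nat_lit 5) (nat_lit 112) (nat_lit 5) (nat_lit 108) (nat_lit 5) (nat_lit 374) (nat_lit 320) (nat_lit 206)) (XT.nd (nat_lit 78) (nat_lit 0) (nat_lit 0) (XT.lf (nat_lit 0) (nat_lit 5176839170) (nat_lit 304) (nat_lit 3899025088) (nat_lit 380) (nat_lit 9985474345) (nat_lit 103) (nat_lit 5) (nat_lit 107) (nat_lit 5) (nat_lit 108) (nat_lit 5) (nat_lit 375) (nat_lit 320) (nat_lit 205)) (XT.lf (nat_lit 0) (nat_lit 13141507094) (nat_lit 380) (nat_lit 3546186406) (nat_lit 76) (nat_lit 2736166356) (nat_lit 103) (nat_lit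 5) (nat_lit 108) (nat_lit 5) (nat_lit 104) (nat_lit 5) (nat_lit 376) (nat_lit 320) (nat_lit 204))))) (XT.nd (nat_lit 234) (nat_lit 608) (nat_lit 0) (XT.nd (nat_lit 78) (nat_lit 380) (nat_lit 0) (XT.lf (nat_lit 0) (nat_lit 7184891192) (nat_lit 228) (nat_lit 10239150059) (nat_lit 304) (nat_lit 2370372774) (nat_lit 100) (nat_lit 5) (nat_lit 103) (nat_lit 5) (nat_lit 104) (nat_lit 5) (nat_lit 377) (nat_lit 320) (nat_lit 203)) (XT.nd (nat_lit 78) (nat_lit 304) (nat_lit 0) (XT.lf (nat_lit 0) (nat_lit 1650072105) (nat_lit 304) (nat_lit 1899772362) (nat_lit 76) (nat_lit 16625062262) (nat_lit 99) (nat_lit 5) (nat_lit 103) (nat_lit 5) (nat_lit 100) (nat_lit 5) (nat_lit 378) (nat_lit 320) (nat_lit 202)) (XT.lf (nat_lit 0) (nat_lit 5853445004) (nat_lit 380) (nat_lit 11326776761) (nat_lit 76) (nat_lit 3382594194) (nat_lit 95) (nat_lit 5) (nat_lit 100) (nat_lit 5) (nat_lit 96) (nat_lit 5) (nat_lit 379) (nat_lit 320)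 (nat_lit 201)))) (XT.nd (nat_lit 156) (nat_lit 380) (nat_lit 0) (XT.nd (nat_lit 78) (nat_lit 228) (nat_lit 0) (XT.lf (nat_lit 0) (nat_lit 10225246511) (nat_lit 380) (nat_lit 270882625) (nat_lit 76) (nat_lit 10464967898) (nat_lit 95) (nat_lit 5) (nat_lit 100) (nat_lit 5) (nat_lit 96) (nat_lit 5) (nat_lit 380) (nat_lit 320) (nat_lit 200)) (XT.lf (nat_lit 0) (nat_lit 11319487511) (nat_lit 228) (nat_lit 3505686070) (nat_lit 304) (nat_lit 6543248077) (nat_lit 92) (nat_lit 5) (nat_lit 95) (nat_lit 5) (nat_lit 96) (nat_lit 5) (nat_lit 381) (nat_lit 320) (nat_lit 199))) (XT.nd (nat_lit 78) (nat_lit 76) (nat_lit 0) (XT.lf (nat_lit 0) (nat_lit 1449785976) (nat_lit 304) (nat_lit 18153799039) (nat_lit 380) (nat_lit 2183170545) (nat_lit 88) (nat_lit 5) (nat_lit 92) (nat_lit 5) (nat_lit 93) (nat_lit 5) (nat_lit 382) (nat_lit 320) (nat_lit 198)) (XT.lf (nat_lit 0) (nat_lit 2388190836) (nat_lit 380) (nat_lit 8791291241)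 (nat_lit 76) (nat_lit 11033730412) (nat_lit 87) (nat_lit 5) (nat_lit 92) (nat_lit 5) (nat_lit 88) (nat_lit 5) (nat_lit 383) (nat_lit 320) (nat_lit 197))))))) (XT.nd (nat_lit 1014) (nat_lit 1368) (nat_lit 0) (XT.nd (nat_lit 468) (nat_lit 836) (nat_lit 0) (XT.nd (nat_lit 234) (nat_lit 304) (nat_lit 0) (XT.nd (nat_lit 78) (nat_lit 228) (nat_lit 0) (XT.lf (nat_lit 0) (nat_lit 3122342453) (nat_lit 228) (nat_lit 3949149229) (nat_lit 304) (nat_lit 15579766418) (nat_lit 84) (nat_lit 5) (nat_lit 87) (nat_lit 5) (nat_lit 88) (nat_lit 5) (nat_lit 384) (nat_lit 320) (nat_lit 196)) (XT.nd (nat_lit 78) (nat_lit 228) (nat_lit 0) (XT.lf (nat_lit 0) (nat_lit 12007335559) (nat_lit 304) (nat_lit 7578519976) (nat_lit 76) (nat_lit 3513231901) (nat_lit 84) (nat_lit 5) (nat_lit 88) (nat_lit 5) (nat_lit 85) (nat_lit 5) (nat_lit 385) (nat_lit 320) (nat_lit 195)) (XT.lf (nat_lit 0) (nat_lit 4766996332) (nat_lit 228) (nat_lit 12398273869)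 (nat_lit 304) (nat_lit 6392864557) (nat_lit 81) (nat_lit 5) (nat_lit 84) (nat_lit 5) (nat_lit 85) (nat_lit 5) (nat_lit 386) (nat_lit 320) (nat_lit 194)))) (XT.nd (nat_lit 78) (nat_lit 304) (nat_lit 0) (XT.lf (nat_lit 0) (nat_lit 17621088070) (nat_lit 228) (nat_lit 4922627616) (nat_lit 304) (nat_lit 1485268094) (nat_lit 81) (nat_lit 5) (nat_lit 84) (nat_lit 5) (nat_lit 85) (nat_lit 5) (nat_lit 387) (nat_lit 320) (nat_lit 193)) (XT.nd (nat_lit 78) (nat_lit 0) (nat_lit 0) (XT.lf (nat_lit 0) (nat_lit 3578662063) (nat_lit 304) (nat_lit 18118012552) (nat_lit 76) (nat_lit 2813894720) (nat_lit 77) (nat_lit 5) (nat_lit 81) (nat_lit 5) (nat_lit 78) (nat_lit 5) (nat_lit 388) (nat_lit 320) (nat_lit 192)) (XT.lf (nat_lit 0) (nat_lit 8868281983) (nat_lit 304) (nat_lit 5377313714) (nat_lit 76) (nat_lit 10757460034) (nat_lit 77) (nat_lit 5) (nat_lit 81) (nat_lit 5) (nat_lit 78) (nat_lit 5) (nat_lit 389) (nat_lit 320) (nat_lit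 191))))) (XT.nd (nat_lit 234) (nat_lit 456) (nat_lit 0) (XT.nd (nat_lit 78) (nat_lit 152) (nat_lit 0) (XT.lf (nat_lit 0) (nat_lit 7882979242) (nat_lit 228) (nat_lit 6499229549) (nat_lit 304) (nat_lit 11126142459) (nat_lit 74) (nat_lit 5) (nat_lit 77) (nat_lit 5) (nat_lit 78) (nat_lit 5) (nat_lit 390) (nat_lit 320) (nat_lit 190)) (XT.nd (nat_lit 78) (nat_lit 152) (nat_lit 0) (XT.lf (nat_lit 0) (nat_lit 20120534716) (nat_lit 304) (nat_lit 4407159846) (nat_lit 76) (nat_lit 1499344621) (nat_lit 74) (nat_lit 5) (nat_lit 78) (nat_lit 5) (nat_lit 75) (nat_lit 5) (nat_lit 391) (nat_lit 320) (nat_lit 189)) (XT.lf (nat_lit 0) (nat_lit 9308846456) (nat_lit 152) (nat_lit 16866209889) (nat_lit 228) (nat_lit 381912934) (nat_lit 72) (nat_lit 5) (nat_lit 74) (nat_lit 5) (nat_lit 75) (nat_lit 5) (nat_lit 392) (nat_lit 320) (nat_lit 188)))) (XT.nd (nat_lit 156) (nat_lit 152) (nat_lit 0) (XT.nd (nat_lit 78) (nat_lit 228)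 (nat_lit 0) (XT.lf (nat_lit 0) (nat_lit 5240022993) (nat_lit 228) (nat_lit 3642347109) (nat_lit 76) (nat_lit 18217843289) (nat_lit 71) (nat_lit 5) (nat_lit 74) (nat_lit 5) (nat_lit 72) (nat_lit 5) (nat_lit 393) (nat_lit 320) (nat_lit 187)) (XT.lf (nat_lit 0) (nat_lit 10558226313) (nat_lit 228) (nat_lit 556739431) (nat_lit 304) (nat_lit 16541917554) (nat_lit 68) (nat_lit 5) (nat_lit 71) (nat_lit 5) (nat_lit 72) (nat_lit 5) (nat_lit 394) (nat_lit 320) (nat_lit 186))) (XT.nd (nat_lit 78) (nat_lit 152) (nat_lit 0) (XT.lf (nat_lit 0) (nat_lit 17270982577) (nat_lit 304) (nat_lit 3062806799) (nat_lit 76) (nat_lit 7893321733) (nat_lit 68) (nat_lit 5) (nat_lit 72) (nat_lit 5) (nat_lit 69) (nat_lit 5) (nat_lit 395) (nat_lit 320) (nat_lit 185)) (XT.lf (nat_lit 0) (nat_lit 11599722121) (nat_lit 152) (nat_lit 12119848253) (nat_lit 228) (nat_lit 5091641166) (nat_lit 66) (nat_lit 5) (nat_lit 68) (nat_lit 5) (nat_lit 69)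 (nat_lit 5) (nat_lit 396) (nat_lit 320) (nat_lit 184)))))) (XT.nd (nat_lit 546) (nat_lit 684) (nat_lit 0) (XT.nd (nat_lit 234) (nat_lit 380) (nat_lit 0) (XT.nd (nat_lit 78) (nat_lit 228) (nat_lit 0) (XT.lf (nat_lit 0) (nat_lit 952405039) (nat_lit 228) (nat_lit 2671693044) (nat_lit 76) (nat_lit 25787801506) (nat_lit 65) (nat_lit 5) (nat_lit 68) (nat_lit 5) (nat_lit 66) (nat_lit 5) (nat_lit 397) (nat_lit 320) (nat_lit 183)) (XT.nd (nat_lit 78) (nat_lit 0) (nat_lit 0) (XT.lf (nat_lit 0) (nat_lit 7237504007) (nat_lit 304) (nat_lit 17594032122) (nat_lit 76) (nat_lit 5192700020) (nat_lit 62) (nat_lit 5) (nat_lit 66) (nat_lit 5) (nat_lit 63) (nat_lit 5) (nat_lit 398) (nat_lit 320) (nat_lit 182)) (XT.lf (nat_lit 0) (nat_lit 13765511564) (nat_lit 304) (nat_lit 2665244687) (nat_lit 76) (nat_lit 14222558113) (nat_lit 62) (nat_lit 5) (nat_lit 66) (nat_lit 5) (nat_lit 63) (nat_lit 5) (nat_lit 399) (nat_lit 320) (nat_lit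 181)))) (XT.nd (nat_lit 156) (nat_lit 228) (nat_lit 0) (XT.nd (nat_lit 78) (nat_lit 0) (nat_lit 0) (XT.lf (nat_lit 0) (nat_lit 12949647165) (nat_lit 152) (nat_lit 7655675104) (nat_lit 228) (nat_lit 10692465926) (nat_lit 60) (nat_lit 5) (nat_lit 62) (nat_lit 5) (nat_lit 63) (nat_lit 5) (nat_lit 400) (nat_lit 320) (nat_lit 180)) (XT.lf (nat_lit 0) (nat_lit 27682335196) (nat_lit 228) (nat_lit 2901234876) (nat_lit 76) (nat_lit 1377068030) (nat_lit 60) (nat_lit 5) (nat_lit 63) (nat_lit 5) (nat_lit 61) (nat_lit 5) (nat_lit 401) (nat_lit 320) (nat_lit 179))) (XT.nd (nat_lit 78) (nat_lit 0) (nat_lit 0) (XT.lf (nat_lit 0) (nat_lit 2479013700) (nat_lit 228) (nat_lit 19485542094) (nat_lit 76) (nat_lit 10672263403) (nat_lit 57) (nat_lit 5) (nat_lit 60) (nat_lit 5) (nat_lit 58) (nat_lit 5) (nat_lit 402) (nat_lit 320) (nat_lit 178)) (XT.lf (nat_lit 0) (nat_lit 9374453220) (nat_lit 228) (nat_lit 3644332986) (nat_lit 76)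 (nat_lit 20312588862) (nat_lit 57) (nat_lit 5) (nat_lit 60) (nat_lit 5) (nat_lit 58) (nat_lit 5) (nat_lit 403) (nat_lit 320) (nat_lit 177))))) (XT.nd (nat_lit 234) (nat_lit 380) (nat_lit 0) (XT.nd (nat_lit 78) (nat_lit 152) (nat_lit 0) (XT.lf (nat_lit 0) (nat_lit 12910337070) (nat_lit 152) (nat_lit 3682565783) (nat_lit 228) (nat_lit 17450382217) (nat_lit 55) (nat_lit 5) (nat_lit 57) (nat_lit 5) (nat_lit 58) (nat_lit 5) (nat_lit 404) (nat_lit 320) (nat_lit 176)) (XT.nd (nat_lit 78) (nat_lit 152) (nat_lit 0) (XT.lf (nat_lit 0) (nat_lit 24114200926) (nat_lit 228) (nat_lit 4810249643) (nat_lit 76) (nat_lit 5849514764) (nat_lit 55) (nat_lit 5) (nat_lit 58) (nat_lit 5) (nat_lit 56) (nat_lit 5) (nat_lit 405) (nat_lit 320) (nat_lit 175)) (XT.lf (nat_lit 0) (nat_lit 12190193037) (nat_lit 152) (nat_lit 19816907114) (nat_lit 228) (nat_lit 3515088742) (nat_lit 53) (nat_lit 5) (nat_lit 55) (nat_lit 5) (nat_lit 56) (nat_lit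 5) (nat_lit 406) (nat_lit 320) (nat_lit 174)))) (XT.nd (nat_lit 156) (nat_lit 152) (nat_lit 0) (XT.nd (nat_lit 78) (nat_lit 152) (nat_lit 0) (XT.lf (nat_lit 0) (nat_lit 3810314753) (nat_lit 228) (nat_lit 6542951993) (nat_lit 76) (nat_lit 25937243670) (nat_lit 52) (nat_lit 5) (nat_lit 55) (nat_lit 5) (nat_lit 53) (nat_lit 5) (nat_lit 407) (nat_lit 320) (nat_lit 173)) (XT.lf (nat_lit 0) (nat_lit 10914966812) (nat_lit 152) (nat_lit 467349545) (nat_lit 228) (nat_lit 25695598175) (nat_lit 50) (nat_lit 5) (nat_lit 52) (nat_lit 5) (nat_lit 53) (nat_lit 5) (nat_lit 408) (nat_lit 320) (nat_lit 172))) (XT.nd (nat_lit 78) (nat_lit 152) (nat_lit 0) (XT.lf (nat_lit 0) (nat_lit 19334195533) (nat_lit 228) (nat_lit 8963278816) (nat_lit 76) (nat_lit 9586886457) (nat_lit 50) (nat_lit 5) (nat_lit 53) (nat_lit 5) (nat_lit 51) (nat_lit 5) (nat_lit 409) (nat_lit 320) (nat_lit 171)) (XT.lf (nat_lit 0) (nat_lit 8908952697) (nat_lit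 152) (nat_lit 18698763767) (nat_lit 228) (nat_lit 11104792957) (nat_lit 48) (nat_lit 5) (nat_lit 50) (nat_lit 5) (nat_lit 51) (nat_lit 5) (nat_lit 410) (nat_lit 320) (nat_lit 170))))))))
noncomputable def xc157 : XT := (XT.nd (nat_lit 2028) (nat_lit 304) (nat_lit 0) (XT.nd (nat_lit 1014) (nat_lit 760) (nat_lit 0) (XT.nd (nat_lit 468) (nat_lit 456) (nat_lit 0) (XT.nd (nat_lit 234) (nat_lit 152) (nat_lit 0) (XT.nd (nat_lit 78) (nat_lit 228) (nat_lit 0) (XT.lf (nat_lit 0) (nat_lit 27488567574) (nat_lit 152) (nat_lit 8724295605) (nat_lit 228) (nat_lit 3350138180) (nat_lit 48) (nat_lit 5) (nat_lit 50) (nat_lit 5) (nat_lit 51) (nat_lit 5) (nat_lit 411) (nat_lit 320) (nat_lit 169)) (XT.nd (nat_lit 78) (nat_lit 0) (nat_lit 0) (XT.lf (nat_lit 0) (nat_lit 4615688043) (nat_lit 228) (nat_lit 34200273362) (nat_lit 76) (nat_lit 1619640200) (nat_lit 45) (nat_lit 5) (nat_lit 48) (nat_lit 5) (nat_lit 46) (nat_lit 5) (nat_lit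 412) (nat_lit 320) (nat_lit 168)) (XT.lf (nat_lit 0) (nat_lit 12955749154) (nat_lit 228) (nat_lit 16121913800) (nat_lit 76) (nat_lit 12249645322) (nat_lit 45) (nat_lit 5) (nat_lit 48) (nat_lit 5) (nat_lit 46) (nat_lit 5) (nat_lit 413) (nat_lit 320) (nat_lit 167)))) (XT.nd (nat_lit 78) (nat_lit 0) (nat_lit 0) (XT.lf (nat_lit 0) (nat_lit 2536315493) (nat_lit 152) (nat_lit 19027358853) (nat_lit 228) (nat_lit 20681563240) (nat_lit 43) (nat_lit 5) (nat_lit 45) (nat_lit 5) (nat_lit 46) (nat_lit 5) (nat_lit 414) (nat_lit 320) (nat_lit 166)) (XT.nd (nat_lit 78) (nat_lit 0) (nat_lit 0) (XT.lf (nat_lit 0) (nat_lit 22072918776) (nat_lit 152) (nat_lit 8513081578) (nat_lit 228) (nat_lit 12600020797) (nat_lit 43) (nat_lit 5) (nat_lit 45) (nat_lit 5) (nat_lit 46) (nat_lit 5) (nat_lit 415) (nat_lit 320) (nat_lit 165)) (XT.lf (nat_lit 0) (nat_lit 39894772882) (nat_lit 228) (nat_lit 1993333680) (nat_lit 76) (nat_lit 2266449593)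 (nat_lit 43) (nat_lit 5) (nat_lit 46) (nat_lit 5) (nat_lit 44) (nat_lit 4) (nat_lit 416) (nat_lit 320) (nat_lit 164))))) (XT.nd (nat_lit 234) (nat_lit 152) (nat_lit 0) (XT.nd (nat_lit 78) (nat_lit 152) (nat_lit 0) (XT.lf (nat_lit 0) (nat_lit 4499211703) (nat_lit 152) (nat_lit 27233955615) (nat_lit 76) (nat_lit 13410140467) (nat_lit 41) (nat_lit 5) (nat_lit 43) (nat_lit 5) (nat_lit 42) (nat_lit 5) (nat_lit 417) (nat_lit 320) (nat_lit 163)) (XT.nd (nat_lit 78) (nat_lit 152) (nat_lit 0) (XT.lf (nat_lit 0) (nat_lit 13449397246) (nat_lit 152) (nat_lit 7764846127) (nat_lit 76) (nat_lit 24945793291) (nat_lit 41) (nat_lit 5) (nat_lit 43) (nat_lit 5) (nat_lit 42) (nat_lit 5) (nat_lit 418) (nat_lit 320) (nat_lit 162)) (XT.lf (nat_lit 0) (nat_lit 12521677100) (nat_lit 152) (nat_lit 10260670562) (nat_lit 228) (nat_lit 24421493062) (nat_lit 39) (nat_lit 5) (nat_lit 41) (nat_lit 5) (nat_lit 42) (nat_lit 5) (nat_lit 419)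 (nat_lit 320) (nat_lit 161)))) (XT.nd (nat_lit 156) (nat_lit 76) (nat_lit 0) (XT.nd (nat_lit 78) (nat_lit 76) (nat_lit 0) (XT.lf (nat_lit 0) (nat_lit 32478211720) (nat_lit 228) (nat_lit 14722264604) (nat_lit 76) (nat_lit 1075995893) (nat_lit 39) (nat_lit 5) (nat_lit 42) (nat_lit 5) (nat_lit 40) (nat_lit 4) (nat_lit 420) (nat_lit 320) (nat_lit 160)) (XT.lf (nat_lit 0) (nat_lit 5838053262) (nat_lit 76) (nat_lit 36778704968) (nat_lit 152) (nat_lit 6759971257) (nat_lit 38) (nat_lit 5) (nat_lit 39) (nat_lit 5) (nat_lit 40) (nat_lit 4) (nat_lit 421) (nat_lit 320) (nat_lit 159))) (XT.nd (nat_lit 78) (nat_lit 0) (nat_lit 0) (XT.lf (nat_lit 0) (nat_lit 2643963393) (nat_lit 152) (nat_lit 23225262835) (nat_lit 76) (nat_lit 24635706629) (nat_lit 37) (nat_lit 5) (nat_lit 39) (nat_lit 5) (nat_lit 38) (nat_lit 5) (nat_lit 422) (nat_lit 320) (nat_lit 158)) (XT.lf (nat_lit 0) (nat_lit 12188427032) (nat_lit 152) (nat_lit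 2379787180) (nat_lit 76) (nat_lit 37096932759) (nat_lit 37) (nat_lit 5) (nat_lit 39) (nat_lit 5) (nat_lit 38) (nat_lit 5) (nat_lit 423) (nat_lit 320) (nat_lit 157)))))) (XT.nd (nat_lit 468) (nat_lit 304) (nat_lit 0) (XT.nd (nat_lit 234) (nat_lit 228) (nat_lit 0) (XT.nd (nat_lit 78) (nat_lit 76) (nat_lit 0) (XT.lf (nat_lit 0) (nat_lit 19460694456) (nat_lit 152) (nat_lit 2740044511) (nat_lit 228) (nat_lit 30653984024) (nat_lit 35) (nat_lit 5) (nat_lit 37) (nat_lit 5) (nat_lit 38) (nat_lit 5) (nat_lit 424) (nat_lit 320) (nat_lit 156)) (XT.nd (nat_lit 78) (nat_lit 76) (nat_lit 0) (XT.lf (nat_lit 0) (nat_lit 32622929391) (nat_lit 228) (nat_lit 12175230592) (nat_lit 76) (nat_lit 9278541924) (nat_lit 35) (nat_lit 5) (nat_lit 38) (nat_lit 5) (nat_lit 36) (nat_lit 4) (nat_lit 425) (nat_lit 320) (nat_lit 155)) (XT.lf (nat_lit 0) (nat_lit 9835085574) (nat_lit 76) (nat_lit 33638999487) (nat_lit 152) (nat_lit 11857767009)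 (nat_lit 34) (nat_lit 5) (nat_lit 35) (nat_lit 5) (nat_lit 36) (nat_lit 4) (nat_lit 426) (nat_lit 320) (nat_lit 154)))) (XT.nd (nat_lit 78) (nat_lit 228) (nat_lit 0) (XT.lf (nat_lit 0) (nat_lit 32745553429) (nat_lit 76) (nat_lit 22022860263) (nat_lit 152) (nat_lit 1852714736) (nat_lit 34) (nat_lit 5) (nat_lit 35) (nat_lit 5) (nat_lit 36) (nat_lit 4) (nat_lit 427) (nat_lit 320) (nat_lit 153)) (XT.nd (nat_lit 78) (nat_lit 152) (nat_lit 0) (XT.lf (nat_lit 0) (nat_lit 8282345705) (nat_lit 152) (nat_lit 1696557086) (nat_lit 76) (nat_lit 47967899706) (nat_lit 33) (nat_lit 5) (nat_lit 35) (nat_lit 5) (nat_lit 34) (nat_lit 5) (nat_lit 428) (nat_lit 320) (nat_lit 152)) (XT.lf (nat_lit 0) (nat_lit 18911742671) (nat_lit 228) (nat_lit 37790611130) (nat_lit 76) (nat_lit 2602517772) (nat_lit 31) (nat_lit 5) (nat_lit 34) (nat_lit 5) (nat_lit 32) (nat_lit 4) (nat_lit 429) (nat_lit 320) (nat_lit 151))))) (XT.nd (nat_lit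 234) (nat_lit 228) (nat_lit 0) (XT.nd (nat_lit 78) (nat_lit 76) (nat_lit 0) (XT.lf (nat_lit 0) (nat_lit 29971089315) (nat_lit 228) (nat_lit 15355258838) (nat_lit 76) (nat_lit 15374003278) (nat_lit 31) (nat_lit 5) (nat_lit 34) (nat_lit 5) (nat_lit 32) (nat_lit 4) (nat_lit 430) (nat_lit 320) (nat_lit 150)) (XT.nd (nat_lit 78) (nat_lit 0) (nat_lit 0) (XT.lf (nat_lit 0) (nat_lit 7898248474) (nat_lit 76) (nat_lit 33535002555) (nat_lit 152) (nat_lit 20702314340) (nat_lit 30) (nat_lit 5) (nat_lit 31) (nat_lit 5) (nat_lit 32) (nat_lit 4) (nat_lit 431) (nat_lit 320) (nat_lit 149)) (XT.lf (nat_lit 0) (nat_lit 32155188451) (nat_lit 76) (nat_lit 21234315457) (nat_lit 152) (nat_lit 10219825731) (nat_lit 30) (nat_lit 5) (nat_lit 31) (nat_lit 5) (nat_lit 32) (nat_lit 4) (nat_lit 432) (nat_lit 320) (nat_lit 148)))) (XT.nd (nat_lit 156) (nat_lit 0) (nat_lit 0) (XT.nd (nat_lit 78) (nat_lit 152) (nat_lit 0) (XT.lf (nat_lit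 0) (nat_lit 561137426) (nat_lit 152) (nat_lit 8001792877) (nat_lit 76) (nat_lit 56564352903) (nat_lit 29) (nat_lit 5) (nat_lit 31) (nat_lit 5) (nat_lit 30) (nat_lit 5) (nat_lit 433) (nat_lit 320) (nat_lit 147)) (XT.lf (nat_lit 0) (nat_lit 11658487976) (nat_lit 228) (nat_lit 50365092580) (nat_lit 76) (nat_lit 4658208869) (nat_lit 27) (nat_lit 5) (nat_lit 30) (nat_lit 5) (nat_lit 28) (nat_lit 4) (nat_lit 434) (nat_lit 320) (nat_lit 146))) (XT.nd (nat_lit 78) (nat_lit 0) (nat_lit 0) (XT.lf (nat_lit 0) (nat_lit 23250558412) (nat_lit 228) (nat_lit 26845853529) (nat_lit 76) (nat_lit 18181665534) (nat_lit 27) (nat_lit 5) (nat_lit 30) (nat_lit 5) (nat_lit 28) (nat_lit 4) (nat_lit 435) (nat_lit 320) (nat_lit 145)) (XT.lf (nat_lit 0) (nat_lit 35185939929) (nat_lit 228) (nat_lit 2629324129) (nat_lit 76) (nat_lit 32107124244) (nat_lit 27) (nat_lit 5) (nat_lit 30) (nat_lit 5) (nat_lit 28) (nat_lit 4) (nat_lit 436) (nat_lit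 320) (nat_lit 144))))))) (XT.nd (nat_lit 38376) (nat_lit 0) (nat_lit 14668) (XT.nd (nat_lit 37830) (nat_lit 0) (nat_lit 18772) (XT.nd (nat_lit 234) (nat_lit 152) (nat_lit 0) (XT.nd (nat_lit 78) (nat_lit 76) (nat_lit 0) (XT.lf (nat_lit 0) (nat_lit 22749581978) (nat_lit 76) (nat_lit 24944162422) (nat_lit 152) (nat_lit 23915853796) (nat_lit 26) (nat_lit 5) (nat_lit 27) (nat_lit 5) (nat_lit 28) (nat_lit 4) (nat_lit 437) (nat_lit 320) (nat_lit 143)) (XT.nd (nat_lit 78) (nat_lit 76) (nat_lit 0) (XT.lf (nat_lit 0) (nat_lit 48935787255) (nat_lit 76) (nat_lit 11663274667) (nat_lit 152) (nat_lit 12747694670) (nat_lit 26) (nat_lit 5) (nat_lit 27) (nat_lit 5) (nat_lit 28) (nat_lit 4) (nat_lit 438) (nat_lit 320) (nat_lit 142)) (XT.lf (nat_lit 0) (nat_lit 759158407) (nat_lit 76) (nat_lit 73154875311) (nat_lit 76) (nat_lit 1221321732) (nat_lit 25) (nat_lit 4) (nat_lit 26) (nat_lit 5) (nat_lit 26) (nat_lit 4) (nat_lit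 439) (nat_lit 320) (nat_lit 141)))) (XT.nd (nat_lit 78) (nat_lit 76) (nat_lit 0) (XT.lf (nat_lit 0) (nat_lit 10803251321) (nat_lit 152) (nat_lit 50013559240) (nat_lit 76) (nat_lit 16146923407) (nat_lit 24) (nat_lit 5) (nat_lit 26) (nat_lit 5) (nat_lit 25) (nat_lit 4) (nat_lit 440) (nat_lit 320) (nat_lit 140)) (XT.nd (nat_lit 78) (nat_lit 76) (nat_lit 0) (XT.lf (nat_lit 0) (nat_lit 23159959557) (nat_lit 152) (nat_lit 24939738455) (nat_lit 76) (nat_lit 30747025207) (nat_lit 24) (nat_lit 5) (nat_lit 26) (nat_lit 5) (nat_lit 25) (nat_lit 4) (nat_lit 441) (nat_lit 320) (nat_lit 139)) (XT.lf (nat_lit 0) (nat_lit 896406689) (nat_lit 76) (nat_lit 34995642607) (nat_lit 152) (nat_lit 44894012938) (nat_lit 23) (nat_lit 5) (nat_lit 24) (nat_lit 5) (nat_lit 25) (nat_lit 4) (nat_lit 442) (nat_lit 320) (nat_lit 138))))) (XT.nd (nat_lit 234) (nat_lit 0) (nat_lit 76) (XT.nd (nat_lit 78) (nat_lit 988) (nat_lit 0) (XT.lf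 (nat_lit 0) (nat_lit 3759404113) (nat_lit 988) (nat_lit 204058211) (nat_lit 988) (nat_lit 204058211) (nat_lit 283) (nat_lit 3) (nat_lit 296) (nat_lit 3) (nat_lit 296) (nat_lit 5) (nat_lit 321) (nat_lit 321) (nat_lit 258)) (XT.nd (nat_lit 78) (nat_lit 0) (nat_lit 0) (XT.lf (nat_lit 0) (nat_lit 281076585) (nat_lit 988) (nat_lit 4798833075) (nat_lit 1064) (nat_lit 3346826150) (nat_lit 270) (nat_lit 5) (nat_lit 283) (nat_lit 3) (nat_lit 284) (nat_lit 5) (nat_lit 322) (nat_lit 321) (nat_lit 257)) (XT.lf (nat_lit 0) (nat_lit 1357557061) (nat_lit 988) (nat_lit 758145796) (nat_lit 1064) (nat_lit 6406386349) (nat_lit 270) (nat_lit 5) (nat_lit 283) (nat_lit 3) (nat_lit 284) (nat_lit 5) (nat_lit 323) (nat_lit 321) (nat_lit 256)))) (XT.nd (nat_lit 156) (nat_lit 0) (nat_lit 0) (XT.nd (nat_lit 78) (nat_lit 0) (nat_lit 0) (XT.lf (nat_lit 0) (nat_lit 2468712070) (nat_lit 988) (nat_lit 5180676397) (nat_lit 1064) (nat_lit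 970872442) (nat_lit 271) (nat_lit 5) (nat_lit 284) (nat_lit 5) (nat_lit 285) (nat_lit 5) (nat_lit 324) (nat_lit 321) (nat_lit 255)) (XT.lf (nat_lit 0) (nat_lit 3602723926) (nat_lit 988) (nat_lit 986234328) (nat_lit 1064) (nat_lit 4132762103) (nat_lit 271) (nat_lit 5) (nat_lit 284) (nat_lit 5) (nat_lit 285) (nat_lit 5) (nat_lit 325) (nat_lit 321) (nat_lit 254))) (XT.nd (nat_lit 78) (nat_lit 0) (nat_lit 76) (XT.lf (nat_lit 76) (nat_lit 3377768122) (nat_lit 0) (nat_lit 1387440742) (nat_lit 1064) (nat_lit 4061208579) (nat_lit 272) (nat_lit 5) (nat_lit 271) (nat_lit 5) (nat_lit 285) (nat_lit 5) (nat_lit 326) (nat_lit 321) (nat_lit 253)) (XT.lf (nat_lit 0) (nat_lit 5954012567) (nat_lit 988) (nat_lit 1082762760) (nat_lit 1064) (nat_lit 1897763426) (nat_lit 272) (nat_lit 5) (nat_lit 285) (nat_lit 5) (nat_lit 286) (nat_lit 5) (nat_lit 327) (nat_lit 321) (nat_lit 252)))))) (XT.nd (nat_lit 546) (nat_lit 3268) (nat_lit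 0) (XT.nd (nat_lit 234) (nat_lit 0) (nat_lit 0) (XT.nd (nat_lit 78) (nat_lit 988) (nat_lit 0) (XT.lf (nat_lit 76) (nat_lit 3445011533) (nat_lit 0) (nat_lit 3744423690) (nat_lit 1064) (nat_lit 1856165694) (nat_lit 273) (nat_lit 5) (nat_lit 272) (nat_lit 5) (nat_lit 286) (nat_lit 5) (nat_lit 328) (nat_lit 321) (nat_lit 251)) (XT.nd (nat_lit 78) (nat_lit 988) (nat_lit 0) (XT.lf (nat_lit 76) (nat_lit 8108459557) (nat_lit 0) (nat_lit 329327706) (nat_lit 1064) (nat_lit 722956792) (nat_lit 273) (nat_lit 5) (nat_lit 272) (nat_lit 5) (nat_lit 286) (nat_lit 5) (nat_lit 329) (nat_lit 321) (nat_lit 250)) (XT.lf (nat_lit 0) (nat_lit 467678366) (nat_lit 1064) (nat_lit 5632814446) (nat_lit 1140) (nat_lit 3177781264) (nat_lit 259) (nat_lit 5) (nat_lit 273) (nat_lit 5) (nat_lit 274) (nat_lit 5) (nat_lit 330) (nat_lit 321) (nat_lit 249)))) (XT.nd (nat_lit 156) (nat_lit 0) (nat_lit 76) (XT.nd (nat_lit 78) (nat_lit 0) (nat_lit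 76) (XT.lf (nat_lit 0) (nat_lit 1659985692) (nat_lit 1064) (nat_lit 927162194) (nat_lit 1140) (nat_lit 6812575835) (nat_lit 259) (nat_lit 5) (nat_lit 273) (nat_lit 5) (nat_lit 274) (nat_lit 5) (nat_lit 331) (nat_lit 321) (nat_lit 248)) (XT.lf (nat_lit 0) (nat_lit 2904125647) (nat_lit 1064) (nat_lit 5560495215) (nat_lit 1140) (nat_lit 1059736400) (nat_lit 260) (nat_lit 5) (nat_lit 274) (nat_lit 5) (nat_lit 275) (nat_lit 5) (nat_lit 332) (nat_lit 321) (nat_lit 247))) (XT.nd (nat_lit 78) (nat_lit 0) (nat_lit 0) (XT.lf (nat_lit 0) (nat_lit 4188950202) (nat_lit 1064) (nat_lit 681032001) (nat_lit 1140) (nat_lit 4782668452) (nat_lit 260) (nat_lit 5) (nat_lit 274) (nat_lit 5) (nat_lit 275) (nat_lit 5) (nat_lit 333) (nat_lit 321) (nat_lit 246)) (XT.lf (nat_lit 76) (nat_lit 4408017843) (nat_lit 0) (nat_lit 1115887668) (nat_lit 1140) (nat_lit 4260560787) (nat_lit 261) (nat_lit 5) (nat_lit 260) (nat_lit 5) (nat_lit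 275) (nat_lit 5) (nat_lit 334) (nat_lit 321) (nat_lit 245))))) (XT.nd (nat_lit 234) (nat_lit 2432) (nat_lit 0) (XT.nd (nat_lit 78) (nat_lit 988) (nat_lit 0) (XT.lf (nat_lit 0) (nat_lit 6902262576) (nat_lit 1064) (nat_lit 306426965) (nat_lit 1140) (nat_lit 2711466692) (nat_lit 261) (nat_lit 5) (nat_lit 275) (nat_lit 5) (nat_lit 276) (nat_lit 5) (nat_lit 335) (nat_lit 321) (nat_lit 244)) (XT.nd (nat_lit 78) (nat_lit 988) (nat_lit 0) (XT.lf (nat_lit 76) (nat_lit 4978904306) (nat_lit 0) (nat_lit 3372814771) (nat_lit 1140) (nat_lit 1707325148) (nat_lit 262) (nat_lit 5) (nat_lit 261) (nat_lit 5) (nat_lit 276) (nat_lit 5) (nat_lit 336) (nat_lit 321) (nat_lit 243)) (XT.lf (nat_lit 0) (nat_lit 201815344) (nat_lit 1064) (nat_lit 9624993942) (nat_lit 1140) (nat_lit 375844314) (nat_lit 248) (nat_lit 5) (nat_lit 262) (nat_lit 5) (nat_lit 263) (nat_lit 5) (nat_lit 337) (nat_lit 321) (nat_lit 242)))) (XT.nd (nat_lit 156)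 (nat_lit 1216) (nat_lit 0) (XT.nd (nat_lit 78) (nat_lit 1140) (nat_lit 0) (XT.lf (nat_lit 0) (nat_lit 1033193205) (nat_lit 1140) (nat_lit 4670090265) (nat_lit 76) (nat_lit 4645307631) (nat_lit 247) (nat_lit 5) (nat_lit 262) (nat_lit 5) (nat_lit 248) (nat_lit 5) (nat_lit 338) (nat_lit 321) (nat_lit 241)) (XT.lf (nat_lit 0) (nat_lit 809397968) (nat_lit 1140) (nat_lit 1647988522) (nat_lit 1216) (nat_lit 8042013050) (nat_lit 232) (nat_lit 5) (nat_lit 247) (nat_lit 5) (nat_lit 248) (nat_lit 5) (nat_lit 339) (nat_lit 321) (nat_lit 240))) (XT.nd (nat_lit 78) (nat_lit 1216) (nat_lit 0) (XT.lf (nat_lit 0) (nat_lit 3969510471) (nat_lit 1216) (nat_lit 4152974516) (nat_lit 76) (nat_lit 2530908196) (nat_lit 232) (nat_lit 5) (nat_lit 248) (nat_lit 5) (nat_lit 233) (nat_lit 5) (nat_lit 340) (nat_lit 321) (nat_lit 239)) (XT.lf (nat_lit 0) (nat_lit 1540724053) (nat_lit 1216) (nat_lit 3991449046) (nat_lit 1292) (nat_lit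 5279694887) (nat_lit 216) (nat_lit 5) (nat_lit 232) (nat_lit 5) (nat_lit 233) (nat_lit 5) (nat_lit 341) (nat_lit 321) (nat_lit 238))))))))
noncomputable def xc158 : XT := (XT.nd (nat_lit 2028) (nat_lit 4180) (nat_lit 0) (XT.nd (nat_lit 1014) (nat_lit 2964) (nat_lit 0) (XT.nd (nat_lit 468) (nat_lit 2052) (nat_lit 0) (XT.nd (nat_lit 234) (nat_lit 1216) (nat_lit 0) (XT.nd (nat_lit 78) (nat_lit 608) (nat_lit 0) (XT.lf (nat_lit 0) (nat_lit 7161207442) (nat_lit 1292) (nat_lit 3510184323) (nat_lit 76) (nat_lit 303136630) (nat_lit 216) (nat_lit 5) (nat_lit 233) (nat_lit 5) (nat_lit 217) (nat_lit 5) (nat_lit 342) (nat_lit 321) (nat_lit 237)) (XT.nd (nat_lit 78) (nat_lit 0) (nat_lit 0) (XT.lf (nat_lit 0) (nat_lit 2408003138) (nat_lit 608) (nat_lit 6469122409) (nat_lit 684) (nat_lit 2263818334) (nat_lit 208) (nat_lit 5) (nat_lit 216) (nat_lit 5) (nat_lit 217) (nat_lit 5) (nat_lit 343) (nat_lit 321) (nat_lit 236))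 (XT.lf (nat_lit 0) (nat_lit 8552847288) (nat_lit 608) (nat_lit 2102964600) (nat_lit 684) (nat_lit 656216414) (nat_lit 208) (nat_lit 5) (nat_lit 216) (nat_lit 5) (nat_lit 217) (nat_lit 5) (nat_lit 344) (nat_lit 321) (nat_lit 235)))) (XT.nd (nat_lit 78) (nat_lit 608) (nat_lit 0) (XT.lf (nat_lit 0) (nat_lit 1012810840) (nat_lit 608) (nat_lit 8082720719) (nat_lit 76) (nat_lit 2391458649) (nat_lit 200) (nat_lit 5) (nat_lit 208) (nat_lit 5) (nat_lit 201) (nat_lit 5) (nat_lit 345) (nat_lit 321) (nat_lit 234)) (XT.nd (nat_lit 78) (nat_lit 608) (nat_lit 0) (XT.lf (nat_lit 0) (nat_lit 2744462858) (nat_lit 608) (nat_lit 1907936368) (nat_lit 76) (nat_lit 7013848434) (nat_lit 200) (nat_lit 5) (nat_lit 208) (nat_lit 5) (nat_lit 201) (nat_lit 5) (nat_lit 346) (nat_lit 321) (nat_lit 233)) (XT.lf (nat_lit 0) (nat_lit 4517763138) (nat_lit 608) (nat_lit 31188636) (nat_lit 684) (nat_lit 7301317937) (nat_lit 192) (nat_lit 5)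 (nat_lit 200) (nat_lit 5) (nat_lit 201) (nat_lit 5) (nat_lit 347) (nat_lit 321) (nat_lit 232))))) (XT.nd (nat_lit 234) (nat_lit 988) (nat_lit 0) (XT.nd (nat_lit 78) (nat_lit 1064) (nat_lit 0) (XT.lf (nat_lit 0) (nat_lit 6450387985) (nat_lit 684) (nat_lit 932475663) (nat_lit 76) (nat_lit 4655677501) (nat_lit 192) (nat_lit 5) (nat_lit 201) (nat_lit 5) (nat_lit 193) (nat_lit 5) (nat_lit 348) (nat_lit 321) (nat_lit 231)) (XT.nd (nat_lit 78) (nat_lit 532) (nat_lit 0) (XT.lf (nat_lit 0) (nat_lit 5749162225) (nat_lit 532) (nat_lit 2693822686) (nat_lit 608) (nat_lit 3788465014) (nat_lit 185) (nat_lit 5) (nat_lit 192) (nat_lit 5) (nat_lit 193) (nat_lit 5) (nat_lit 349) (nat_lit 321) (nat_lit 230)) (XT.lf (nat_lit 0) (nat_lit 180714724) (nat_lit 532) (nat_lit 10325370620) (nat_lit 608) (nat_lit 1923751202) (nat_lit 178) (nat_lit 5) (nat_lit 185) (nat_lit 5) (nat_lit 186) (nat_lit 5) (nat_lit 350) (nat_lit 321) (nat_lit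 229)))) (XT.nd (nat_lit 156) (nat_lit 456) (nat_lit 0) (XT.nd (nat_lit 78) (nat_lit 456) (nat_lit 0) (XT.lf (nat_lit 0) (nat_lit 68870986) (nat_lit 608) (nat_lit 5505905278) (nat_lit 76) (nat_lit 7057253842) (nat_lit 177) (nat_lit 5) (nat_lit 185) (nat_lit 5) (nat_lit 178) (nat_lit 5) (nat_lit 351) (nat_lit 321) (nat_lit 228)) (XT.lf (nat_lit 0) (nat_lit 1426164925) (nat_lit 456) (nat_lit 649887039) (nat_lit 532) (nat_lit 10763874033) (nat_lit 171) (nat_lit 5) (nat_lit 177) (nat_lit 5) (nat_lit 178) (nat_lit 5) (nat_lit 352) (nat_lit 321) (nat_lit 227))) (XT.nd (nat_lit 78) (nat_lit 456) (nat_lit 0) (XT.lf (nat_lit 0) (nat_lit 4222206564) (nat_lit 532) (nat_lit 4438987187) (nat_lit 76) (nat_lit 4390513241) (nat_lit 171) (nat_lit 5) (nat_lit 178) (nat_lit 5) (nat_lit 172) (nat_lit 5) (nat_lit 353) (nat_lit 321) (nat_lit 226)) (XT.lf (nat_lit 0) (nat_lit 2770725691) (nat_lit 456) (nat_lit 3675763007) (nat_lit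 532) (nat_lit 6822951088) (nat_lit 165) (nat_lit 5) (nat_lit 171) (nat_lit 5) (nat_lit 172) (nat_lit 5) (nat_lit 354) (nat_lit 321) (nat_lit 225)))))) (XT.nd (nat_lit 468) (nat_lit 1596) (nat_lit 0) (XT.nd (nat_lit 234) (nat_lit 912) (nat_lit 0) (XT.nd (nat_lit 78) (nat_lit 456) (nat_lit 0) (XT.lf (nat_lit 0) (nat_lit 8777797298) (nat_lit 532) (nat_lit 3241380324) (nat_lit 76) (nat_lit 1473328344) (nat_lit 165) (nat_lit 5) (nat_lit 172) (nat_lit 5) (nat_lit 166) (nat_lit 5) (nat_lit 355) (nat_lit 321) (nat_lit 224)) (XT.nd (nat_lit 78) (nat_lit 0) (nat_lit 0) (XT.lf (nat_lit 0) (nat_lit 4258757715) (nat_lit 456) (nat_lit 6979174360) (nat_lit 532) (nat_lit 2482575493) (nat_lit 159) (nat_lit 5) (nat_lit 165) (nat_lit 5) (nat_lit 166) (nat_lit 5) (nat_lit 356) (nat_lit 321) (nat_lit 223)) (XT.lf (nat_lit 0) (nat_lit 12028931281) (nat_lit 456) (nat_lit 1757558022) (nat_lit 532) (nat_lit 168431115) (nat_lit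 159) (nat_lit 5) (nat_lit 165) (nat_lit 5) (nat_lit 166) (nat_lit 5) (nat_lit 357) (nat_lit 321) (nat_lit 222)))) (XT.nd (nat_lit 78) (nat_lit 380) (nat_lit 0) (XT.lf (nat_lit 0) (nat_lit 2246486397) (nat_lit 532) (nat_lit 8321412012) (nat_lit 76) (nat_lit 3625600411) (nat_lit 152) (nat_lit 5) (nat_lit 159) (nat_lit 5) (nat_lit 153) (nat_lit 5) (nat_lit 358) (nat_lit 321) (nat_lit 221)) (XT.nd (nat_lit 78) (nat_lit 380) (nat_lit 0) (XT.lf (nat_lit 0) (nat_lit 4750022598) (nat_lit 532) (nat_lit 535771368) (nat_lit 76) (nat_lit 9152812811) (nat_lit 152) (nat_lit 5) (nat_lit 159) (nat_lit 5) (nat_lit 153) (nat_lit 5) (nat_lit 359) (nat_lit 321) (nat_lit 220)) (XT.lf (nat_lit 0) (nat_lit 7387025972) (nat_lit 456) (nat_lit 7080426868) (nat_lit 76) (nat_lit 221872963) (nat_lit 147) (nat_lit 5) (nat_lit 153) (nat_lit 5) (nat_lit 148) (nat_lit 5) (nat_lit 360) (nat_lit 321) (nat_lit 219))))) (XT.nd (nat_lit 234)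 (nat_lit 684) (nat_lit 0) (XT.nd (nat_lit 78) (nat_lit 456) (nat_lit 0) (XT.lf (nat_lit 0) (nat_lit 1007676569) (nat_lit 456) (nat_lit 9146229096) (nat_lit 532) (nat_lit 4792146158) (nat_lit 141) (nat_lit 5) (nat_lit 147) (nat_lit 5) (nat_lit 148) (nat_lit 5) (nat_lit 361) (nat_lit 321) (nat_lit 218)) (XT.nd (nat_lit 78) (nat_lit 456) (nat_lit 0) (XT.lf (nat_lit 0) (nat_lit 9462684938) (nat_lit 456) (nat_lit 3596172893) (nat_lit 532) (nat_lit 2149977977) (nat_lit 141) (nat_lit 5) (nat_lit 147) (nat_lit 5) (nat_lit 148) (nat_lit 5) (nat_lit 362) (nat_lit 321) (nat_lit 217)) (XT.lf (nat_lit 0) (nat_lit 590971917) (nat_lit 456) (nat_lit 12780897947) (nat_lit 76) (nat_lit 2106556315) (nat_lit 135) (nat_lit 5) (nat_lit 141) (nat_lit 5) (nat_lit 136) (nat_lit 5) (nat_lit 363) (nat_lit 321) (nat_lit 216)))) (XT.nd (nat_lit 156) (nat_lit 304) (nat_lit 0) (XT.nd (nat_lit 78) (nat_lit 380) (nat_lit 0) (XT.lf (nat_lit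 0) (nat_lit 3449253105) (nat_lit 456) (nat_lit 4320359897) (nat_lit 76) (nat_lit 7983510670) (nat_lit 135) (nat_lit 5) (nat_lit 141) (nat_lit 5) (nat_lit 136) (nat_lit 5) (nat_lit 364) (nat_lit 321) (nat_lit 215)) (XT.lf (nat_lit 0) (nat_lit 4460810222) (nat_lit 380) (nat_lit 1959925544) (nat_lit 456) (nat_lit 9614509986) (nat_lit 130) (nat_lit 5) (nat_lit 135) (nat_lit 5) (nat_lit 136) (nat_lit 5) (nat_lit 365) (nat_lit 321) (nat_lit 214))) (XT.nd (nat_lit 78) (nat_lit 304) (nat_lit 0) (XT.lf (nat_lit 0) (nat_lit 9548886711) (nat_lit 456) (nat_lit 2790105323) (nat_lit 76) (nat_lit 3984820791) (nat_lit 130) (nat_lit 5) (nat_lit 136) (nat_lit 5) (nat_lit 131) (nat_lit 5) (nat_lit 366) (nat_lit 321) (nat_lit 213)) (XT.lf (nat_lit 0) (nat_lit 6342257819) (nat_lit 304) (nat_lit 6494221476) (nat_lit 380) (nat_lit 3782596540) (nat_lit 126) (nat_lit 5) (nat_lit 130) (nat_lit 5) (nat_lit 131) (nat_lit 5) (nat_lit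 367) (nat_lit 321) (nat_lit 212))))))) (XT.nd (nat_lit 1014) (nat_lit 1824) (nat_lit 0) (XT.nd (nat_lit 468) (nat_lit 1292) (nat_lit 0) (XT.nd (nat_lit 234) (nat_lit 304) (nat_lit 0) (XT.nd (nat_lit 78) (nat_lit 760) (nat_lit 0) (XT.lf (nat_lit 0) (nat_lit 15786128848) (nat_lit 304) (nat_lit 450212993) (nat_lit 380) (nat_lit 686452269) (nat_lit 126) (nat_lit 5) (nat_lit 130) (nat_lit 5) (nat_lit 131) (nat_lit 5) (nat_lit 368) (nat_lit 321) (nat_lit 211)) (XT.nd (nat_lit 78) (nat_lit 304) (nat_lit 0) (XT.lf (nat_lit 0) (nat_lit 2576717149) (nat_lit 456) (nat_lit 8891277651) (nat_lit 76) (nat_lit 5763224450) (nat_lit 120) (nat_lit 5) (nat_lit 126) (nat_lit 5) (nat_lit 121) (nat_lit 5) (nat_lit 369) (nat_lit 321) (nat_lit 210)) (XT.lf (nat_lit 0) (nat_lit 555504423) (nat_lit 304) (nat_lit 5375795379) (nat_lit 380) (nat_lit 11617180067) (nat_lit 116) (nat_lit 5) (nat_lit 120) (nat_lit 5) (nat_lit 121) (nat_lit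 5) (nat_lit 370) (nat_lit 321) (nat_lit 209)))) (XT.nd (nat_lit 78) (nat_lit 304) (nat_lit 0) (XT.lf (nat_lit 0) (nat_lit 9471933417) (nat_lit 380) (nat_lit 7433883326) (nat_lit 76) (nat_lit 966885057) (nat_lit 116) (nat_lit 5) (nat_lit 121) (nat_lit 5) (nat_lit 117) (nat_lit 5) (nat_lit 371) (nat_lit 321) (nat_lit 208)) (XT.nd (nat_lit 78) (nat_lit 0) (nat_lit 0) (XT.lf (nat_lit 0) (nat_lit 2386154581) (nat_lit 304) (nat_lit 10795295970) (nat_lit 380) (nat_lit 5023325632) (nat_lit 112) (nat_lit 5) (nat_lit 116) (nat_lit 5) (nat_lit 117) (nat_lit 5) (nat_lit 372) (nat_lit 321) (nat_lit 207)) (XT.lf (nat_lit 0) (nat_lit 12634205078) (nat_lit 304) (nat_lit 4429828150) (nat_lit 380) (nat_lit 1480931728) (nat_lit 112) (nat_lit 5) (nat_lit 116) (nat_lit 5) (nat_lit 117) (nat_lit 5) (nat_lit 373) (nat_lit 321) (nat_lit 206))))) (XT.nd (nat_lit 234) (nat_lit 608) (nat_lit 0) (XT.nd (nat_lit 78) (nat_lit 304) (nat_lit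 0) (XT.lf (nat_lit 0) (nat_lit 2175121106) (nat_lit 380) (nat_lit 14575394877) (nat_lit 76) (nat_lit 2142732901) (nat_lit 107) (nat_lit 5) (nat_lit 112) (nat_lit 5) (nat_lit 108) (nat_lit 5) (nat_lit 374) (nat_lit 321) (nat_lit 205)) (XT.nd (nat_lit 78) (nat_lit 304) (nat_lit 0) (XT.lf (nat_lit 0) (nat_lit 6002341589) (nat_lit 380) (nat_lit 4353653072) (nat_lit 76) (nat_lit 8892814337) (nat_lit 107) (nat_lit 5) (nat_lit 112) (nat_lit 5) (nat_lit 108) (nat_lit 5) (nat_lit 375) (nat_lit 321) (nat_lit 204)) (XT.lf (nat_lit 0) (nat_lit 6278975036) (nat_lit 304) (nat_lit 3713249925) (nat_lit 380) (nat_lit 9621380507) (nat_lit 103) (nat_lit 5) (nat_lit 107) (nat_lit 5) (nat_lit 108) (nat_lit 5) (nat_lit 376) (nat_lit 321) (nat_lit 203)))) (XT.nd (nat_lit 156) (nat_lit 380) (nat_lit 0) (XT.nd (nat_lit 78) (nat_lit 228) (nat_lit 0) (XT.lf (nat_lit 0) (nat_lit 14163902747) (nat_lit 380) (nat_lit 2717141119) (nat_lit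 76) (nat_lit 3106443825) (nat_lit 103) (nat_lit 5) (nat_lit 108) (nat_lit 5) (nat_lit 104) (nat_lit 5) (nat_lit 377) (nat_lit 321) (nat_lit 202)) (XT.lf (nat_lit 0) (nat_lit 8326697915) (nat_lit 228) (nat_lit 10238823147) (nat_lit 304) (nat_lit 1803926270) (nat_lit 100) (nat_lit 5) (nat_lit 103) (nat_lit 5) (nat_lit 104) (nat_lit 5) (nat_lit 378) (nat_lit 321) (nat_lit 201))) (XT.nd (nat_lit 78) (nat_lit 304) (nat_lit 0) (XT.lf (nat_lit 0) (nat_lit 2306483628) (nat_lit 304) (nat_lit 1045182517) (nat_lit 76) (nat_lit 17410057717) (nat_lit 99) (nat_lit 5) (nat_lit 103) (nat_lit 5) (nat_lit 100) (nat_lit 5) (nat_lit 379) (nat_lit 321) (nat_lit 200)) (XT.lf (nat_lit 0) (nat_lit 6629886843) (nat_lit 380) (nat_lit 10748709879) (nat_lit 76) (nat_lit 3782862263) (nat_lit 95) (nat_lit 5) (nat_lit 100) (nat_lit 5) (nat_lit 96) (nat_lit 5) (nat_lit 380) (nat_lit 321) (nat_lit 199)))))) (XT.nd (nat_lit 546) (nat_lit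 760) (nat_lit 0) (XT.nd (nat_lit 234) (nat_lit 532) (nat_lit 0) (XT.nd (nat_lit 78) (nat_lit 304) (nat_lit 0) (XT.lf (nat_lit 0) (nat_lit 624309525) (nat_lit 228) (nat_lit 10497033965) (nat_lit 304) (nat_lit 10450696269) (nat_lit 92) (nat_lit 5) (nat_lit 95) (nat_lit 5) (nat_lit 96) (nat_lit 5) (nat_lit 381) (nat_lit 321) (nat_lit 198)) (XT.nd (nat_lit 78) (nat_lit 304) (nat_lit 0) (XT.lf (nat_lit 0) (nat_lit 12541471610) (nat_lit 228) (nat_lit 3303287243) (nat_lit 304) (nat_lit 6147266669) (nat_lit 92) (nat_lit 5) (nat_lit 95) (nat_lit 5) (nat_lit 96) (nat_lit 5) (nat_lit 382) (nat_lit 321) (nat_lit 197)) (XT.lf (nat_lit 0) (nat_lit 2381378212) (nat_lit 304) (nat_lit 18379809175) (nat_lit 380) (nat_lit 1661888051) (nat_lit 88) (nat_lit 5) (nat_lit 92) (nat_lit 5) (nat_lit 93) (nat_lit 5) (nat_lit 383) (nat_lit 321) (nat_lit 196)))) (XT.nd (nat_lit 156) (nat_lit 228) (nat_lit 0) (XT.nd (nat_lit 78) (nat_lit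 228) (nat_lit 0) (XT.lf (nat_lit 0) (nat_lit 3018406917) (nat_lit 380) (nat_lit 8181495046) (nat_lit 76) (nat_lit 11662763209) (nat_lit 87) (nat_lit 5) (nat_lit 92) (nat_lit 5) (nat_lit 88) (nat_lit 5) (nat_lit 384) (nat_lit 321) (nat_lit 195)) (XT.lf (nat_lit 0) (nat_lit 4080983591) (nat_lit 228) (nat_lit 3753268787) (nat_lit 304) (nat_lit 15479843840) (nat_lit 84) (nat_lit 5) (nat_lit 87) (nat_lit 5) (nat_lit 88) (nat_lit 5) (nat_lit 385) (nat_lit 321) (nat_lit 194))) (XT.nd (nat_lit 78) (nat_lit 228) (nat_lit 0) (XT.lf (nat_lit 0) (nat_lit 12905067973) (nat_lit 304) (nat_lit 6952818567) (nat_lit 76) (nat_lit 3917872278) (nat_lit 84) (nat_lit 5) (nat_lit 88) (nat_lit 5) (nat_lit 85) (nat_lit 5) (nat_lit 386) (nat_lit 321) (nat_lit 193)) (XT.lf (nat_lit 0) (nat_lit 5754699926) (nat_lit 228) (nat_lit 12455504741) (nat_lit 304) (nat_lit 6038604095) (nat_lit 81) (nat_lit 5) (nat_lit 84) (nat_lit 5) (nat_lit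 85) (nat_lit 5) (nat_lit 387) (nat_lit 321) (nat_lit 192))))) (XT.nd (nat_lit 234) (nat_lit 456) (nat_lit 0) (XT.nd (nat_lit 78) (nat_lit 304) (nat_lit 0) (XT.lf (nat_lit 0) (nat_lit 18969811687) (nat_lit 228) (nat_lit 4764755625) (nat_lit 304) (nat_lit 999684002) (nat_lit 81) (nat_lit 5) (nat_lit 84) (nat_lit 5) (nat_lit 85) (nat_lit 5) (nat_lit 388) (nat_lit 321) (nat_lit 191)) (XT.nd (nat_lit 78) (nat_lit 0) (nat_lit 0) (XT.lf (nat_lit 0) (nat_lit 4201564140) (nat_lit 304) (nat_lit 17826544828) (nat_lit 76) (nat_lit 3202154922) (nat_lit 77) (nat_lit 5) (nat_lit 81) (nat_lit 5) (nat_lit 78) (nat_lit 5) (nat_lit 389) (nat_lit 321) (nat_lit 190)) (XT.lf (nat_lit 0) (nat_lit 9634856865) (nat_lit 304) (nat_lit 4727945650) (nat_lit 76) (nat_lit 11375177389) (nat_lit 77) (nat_lit 5) (nat_lit 81) (nat_lit 5) (nat_lit 78) (nat_lit 5) (nat_lit 390) (nat_lit 321) (nat_lit 189)))) (XT.nd (nat_lit 156) (nat_lit 228)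 (nat_lit 0) (XT.nd (nat_lit 78) (nat_lit 0) (nat_lit 0) (XT.lf (nat_lit 0) (nat_lit 8922208179) (nat_lit 228) (nat_lit 6385131282) (nat_lit 304) (nat_lit 10951305105) (nat_lit 74) (nat_lit 5) (nat_lit 77) (nat_lit 5) (nat_lit 78) (nat_lit 5) (nat_lit 391) (nat_lit 321) (nat_lit 188)) (XT.lf (nat_lit 0) (nat_lit 21206321074) (nat_lit 304) (nat_lit 3748378756) (nat_lit 76) (nat_lit 1838542420) (nat_lit 74) (nat_lit 5) (nat_lit 78) (nat_lit 5) (nat_lit 75) (nat_lit 5) (nat_lit 392) (nat_lit 321) (nat_lit 187))) (XT.nd (nat_lit 78) (nat_lit 0) (nat_lit 0) (XT.lf (nat_lit 0) (nat_lit 94806847) (nat_lit 228) (nat_lit 16968846464) (nat_lit 76) (nat_lit 10275588662) (nat_lit 71) (nat_lit 5) (nat_lit 74) (nat_lit 5) (nat_lit 72) (nat_lit 5) (nat_lit 393) (nat_lit 321) (nat_lit 186)) (XT.lf (nat_lit 0) (nat_lit 5863729604) (nat_lit 228) (nat_lit 2981774097) (nat_lit 76) (nat_lit 19053590050) (nat_lit 71) (nat_lit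 5) (nat_lit 74) (nat_lit 5) (nat_lit 72) (nat_lit 5) (nat_lit 394) (nat_lit 321) (nat_lit 185))))))))
noncomputable def xc159 : XT := (XT.nd (nat_lit 2106) (nat_lit 1140) (nat_lit 0) (XT.nd (nat_lit 1014) (nat_lit 1064) (nat_lit 0) (XT.nd (nat_lit 468) (nat_lit 684) (nat_lit 0) (XT.nd (nat_lit 234) (nat_lit 304) (nat_lit 0) (XT.nd (nat_lit 78) (nat_lit 152) (nat_lit 0) (XT.lf (nat_lit 0) (nat_lit 11637269043) (nat_lit 228) (nat_lit 271391698) (nat_lit 304) (nat_lit 16563994623) (nat_lit 68) (nat_lit 5) (nat_lit 71) (nat_lit 5) (nat_lit 72) (nat_lit 5) (nat_lit 395) (nat_lit 321) (nat_lit 184)) (XT.nd (nat_lit 78) (nat_lit 152) (nat_lit 0) (XT.lf (nat_lit 0) (nat_lit 18238771775) (nat_lit 304) (nat_lit 2403888201) (nat_lit 76) (nat_lit 8417651321) (nat_lit 68) (nat_lit 5) (nat_lit 72) (nat_lit 5) (nat_lit 69) (nat_lit 5) (nat_lit 396) (nat_lit 321) (nat_lit 183)) (XT.lf (nat_lit 0) (nat_lit 12691155775)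 (nat_lit 152) (nat_lit 12183710967) (nat_lit 228) (nat_lit 4787250109) (nat_lit 66) (nat_lit 5) (nat_lit 68) (nat_lit 5) (nat_lit 69) (nat_lit 5) (nat_lit 397) (nat_lit 321) (nat_lit 182)))) (XT.nd (nat_lit 78) (nat_lit 228) (nat_lit 0) (XT.lf (nat_lit 0) (nat_lit 1416142083) (nat_lit 228) (nat_lit 2021281976) (nat_lit 76) (nat_lit 26843664687) (nat_lit 65) (nat_lit 5) (nat_lit 68) (nat_lit 5) (nat_lit 66) (nat_lit 5) (nat_lit 398) (nat_lit 321) (nat_lit 181)) (XT.nd (nat_lit 78) (nat_lit 0) (nat_lit 0) (XT.lf (nat_lit 0) (nat_lit 7886898753) (nat_lit 304) (nat_lit 17388286363) (nat_lit 76) (nat_lit 5636700433) (nat_lit 62) (nat_lit 5) (nat_lit 66) (nat_lit 5) (nat_lit 63) (nat_lit 5) (nat_lit 399) (nat_lit 321) (nat_lit 180)) (XT.lf (nat_lit 0) (nat_lit 14598156159) (nat_lit 304) (nat_lit 2033001326) (nat_lit 76) (nat_lit 14929059528) (nat_lit 62) (nat_lit 5) (nat_lit 66) (nat_lit 5) (nat_lit 63) (nat_lit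 5) (nat_lit 400) (nat_lit 321) (nat_lit 179))))) (XT.nd (nat_lit 234) (nat_lit 304) (nat_lit 0) (XT.nd (nat_lit 78) (nat_lit 228) (nat_lit 0) (XT.lf (nat_lit 0) (nat_lit 14043354922) (nat_lit 152) (nat_lit 7594361586) (nat_lit 228) (nat_lit 10586474990) (nat_lit 60) (nat_lit 5) (nat_lit 62) (nat_lit 5) (nat_lit 63) (nat_lit 5) (nat_lit 401) (nat_lit 321) (nat_lit 178)) (XT.nd (nat_lit 78) (nat_lit 228) (nat_lit 0) (XT.lf (nat_lit 0) (nat_lit 28917690383) (nat_lit 228) (nat_lit 2294144184) (nat_lit 76) (nat_lit 1695375827) (nat_lit 60) (nat_lit 5) (nat_lit 63) (nat_lit 5) (nat_lit 61) (nat_lit 5) (nat_lit 402) (nat_lit 321) (nat_lit 177)) (XT.lf (nat_lit 0) (nat_lit 2957136330) (nat_lit 228) (nat_lit 19374655792) (nat_lit 76) (nat_lit 11271924544) (nat_lit 57) (nat_lit 5) (nat_lit 60) (nat_lit 5) (nat_lit 58) (nat_lit 5) (nat_lit 403) (nat_lit 321) (nat_lit 176)))) (XT.nd (nat_lit 156) (nat_lit 152) (nat_lit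 0) (XT.nd (nat_lit 78) (nat_lit 152) (nat_lit 0) (XT.lf (nat_lit 0) (nat_lit 10047679263) (nat_lit 228) (nat_lit 3078466311) (nat_lit 76) (nat_lit 21193319188) (nat_lit 57) (nat_lit 5) (nat_lit 60) (nat_lit 5) (nat_lit 58) (nat_lit 5) (nat_lit 404) (nat_lit 321) (nat_lit 175)) (XT.lf (nat_lit 0) (nat_lit 13966224272) (nat_lit 152) (nat_lit 3511467629) (nat_lit 228) (nat_lit 17575192550) (nat_lit 55) (nat_lit 5) (nat_lit 57) (nat_lit 5) (nat_lit 58) (nat_lit 5) (nat_lit 405) (nat_lit 321) (nat_lit 174))) (XT.nd (nat_lit 78) (nat_lit 152) (nat_lit 0) (XT.lf (nat_lit 0) (nat_lit 25215984852) (nat_lit 228) (nat_lit 4296722581) (nat_lit 76) (nat_lit 6293039607) (nat_lit 55) (nat_lit 5) (nat_lit 58) (nat_lit 5) (nat_lit 56) (nat_lit 5) (nat_lit 406) (nat_lit 321) (nat_lit 173)) (XT.lf (nat_lit 0) (nat_lit 13207284022) (nat_lit 152) (nat_lit 20133628412) (nat_lit 228) (nat_lit 3235650151) (nat_lit 53) (nat_lit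 5) (nat_lit 55) (nat_lit 5) (nat_lit 56) (nat_lit 5) (nat_lit 407) (nat_lit 321) (nat_lit 172)))))) (XT.nd (nat_lit 546) (nat_lit 456) (nat_lit 0) (XT.nd (nat_lit 234) (nat_lit 380) (nat_lit 0) (XT.nd (nat_lit 78) (nat_lit 152) (nat_lit 0) (XT.lf (nat_lit 0) (nat_lit 4291013165) (nat_lit 228) (nat_lit 6099456710) (nat_lit 76) (nat_lit 26977685010) (nat_lit 52) (nat_lit 5) (nat_lit 55) (nat_lit 5) (nat_lit 53) (nat_lit 5) (nat_lit 408) (nat_lit 321) (nat_lit 171)) (XT.nd (nat_lit 78) (nat_lit 0) (nat_lit 0) (XT.lf (nat_lit 0) (nat_lit 11875927269) (nat_lit 152) (nat_lit 209665725) (nat_lit 228) (nat_lit 26093727891) (nat_lit 50) (nat_lit 5) (nat_lit 52) (nat_lit 5) (nat_lit 53) (nat_lit 5) (nat_lit 409) (nat_lit 321) (nat_lit 170)) (XT.lf (nat_lit 0) (nat_lit 20268026189) (nat_lit 228) (nat_lit 8609040531) (nat_lit 76) (nat_lit 10133136135) (nat_lit 50) (nat_lit 5) (nat_lit 53) (nat_lit 5) (nat_lit 51) (nat_lit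 5) (nat_lit 410) (nat_lit 321) (nat_lit 169)))) (XT.nd (nat_lit 156) (nat_lit 228) (nat_lit 0) (XT.nd (nat_lit 78) (nat_lit 0) (nat_lit 0) (XT.lf (nat_lit 0) (nat_lit 9793248744) (nat_lit 152) (nat_lit 18992130256) (nat_lit 228) (nat_lit 11077950316) (nat_lit 48) (nat_lit 5) (nat_lit 50) (nat_lit 5) (nat_lit 51) (nat_lit 5) (nat_lit 411) (nat_lit 321) (nat_lit 168)) (XT.lf (nat_lit 0) (nat_lit 28912280394) (nat_lit 152) (nat_lit 8726222120) (nat_lit 228) (nat_lit 3101140938) (nat_lit 48) (nat_lit 5) (nat_lit 50) (nat_lit 5) (nat_lit 51) (nat_lit 5) (nat_lit 412) (nat_lit 321) (nat_lit 167))) (XT.nd (nat_lit 78) (nat_lit 0) (nat_lit 0) (XT.lf (nat_lit 0) (nat_lit 5095140671) (nat_lit 228) (nat_lit 34618571765) (nat_lit 76) (nat_lit 1924661450) (nat_lit 45) (nat_lit 5) (nat_lit 48) (nat_lit 5) (nat_lit 46) (nat_lit 5) (nat_lit 413) (nat_lit 321) (nat_lit 166)) (XT.lf (nat_lit 0) (nat_lit 13675472101) (nat_lit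 228) (nat_lit 16015561701) (nat_lit 76) (nat_lit 12866097831) (nat_lit 45) (nat_lit 5) (nat_lit 48) (nat_lit 5) (nat_lit 46) (nat_lit 5) (nat_lit 414) (nat_lit 321) (nat_lit 165))))) (XT.nd (nat_lit 234) (nat_lit 304) (nat_lit 0) (XT.nd (nat_lit 78) (nat_lit 0) (nat_lit 0) (XT.lf (nat_lit 0) (nat_lit 3196630064) (nat_lit 152) (nat_lit 19340978667) (nat_lit 228) (nat_lit 20965112756) (nat_lit 43) (nat_lit 5) (nat_lit 45) (nat_lit 5) (nat_lit 46) (nat_lit 5) (nat_lit 415) (nat_lit 321) (nat_lit 164)) (XT.nd (nat_lit 78) (nat_lit 0) (nat_lit 0) (XT.lf (nat_lit 0) (nat_lit 23302315181) (nat_lit 152) (nat_lit 8518764364) (nat_lit 228) (nat_lit 12650936585) (nat_lit 43) (nat_lit 5) (nat_lit 45) (nat_lit 5) (nat_lit 46) (nat_lit 5) (nat_lit 416) (nat_lit 321) (nat_lit 163)) (XT.lf (nat_lit 0) (nat_lit 41402198147) (nat_lit 228) (nat_lit 1495469481) (nat_lit 76) (nat_lit 2572148834) (nat_lit 43) (nat_lit 5) (nat_lit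 46) (nat_lit 5) (nat_lit 44) (nat_lit 4) (nat_lit 417) (nat_lit 321) (nat_lit 162)))) (XT.nd (nat_lit 156) (nat_lit 152) (nat_lit 0) (XT.nd (nat_lit 78) (nat_lit 0) (nat_lit 0) (XT.lf (nat_lit 0) (nat_lit 4944126249) (nat_lit 152) (nat_lit 27492553461) (nat_lit 76) (nat_lit 14051573630) (nat_lit 41) (nat_lit 5) (nat_lit 43) (nat_lit 5) (nat_lit 42) (nat_lit 5) (nat_lit 418) (nat_lit 321) (nat_lit 161)) (XT.lf (nat_lit 0) (nat_lit 14153790032) (nat_lit 152) (nat_lit 7455635373) (nat_lit 76) (nat_lit 25926331118) (nat_lit 41) (nat_lit 5) (nat_lit 43) (nat_lit 5) (nat_lit 42) (nat_lit 5) (nat_lit 419) (nat_lit 321) (nat_lit 160))) (XT.nd (nat_lit 78) (nat_lit 0) (nat_lit 0) (XT.lf (nat_lit 0) (nat_lit 13434168295) (nat_lit 152) (nat_lit 10328956715) (nat_lit 228) (nat_lit 24847859385) (nat_lit 39) (nat_lit 5) (nat_lit 41) (nat_lit 5) (nat_lit 42) (nat_lit 5) (nat_lit 420) (nat_lit 321) (nat_lit 159)) (XT.lf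 (nat_lit 0) (nat_lit 33743441047) (nat_lit 228) (nat_lit 14636253040) (nat_lit 76) (nat_lit 1336294987) (nat_lit 39) (nat_lit 5) (nat_lit 42) (nat_lit 5) (nat_lit 40) (nat_lit 4) (nat_lit 421) (nat_lit 321) (nat_lit 158))))))) (XT.nd (nat_lit 1014) (nat_lit 380) (nat_lit 0) (XT.nd (nat_lit 468) (nat_lit 380) (nat_lit 0) (XT.nd (nat_lit 234) (nat_lit 228) (nat_lit 0) (XT.nd (nat_lit 78) (nat_lit 76) (nat_lit 0) (XT.lf (nat_lit 0) (nat_lit 6535701033) (nat_lit 76) (nat_lit 37646993248) (nat_lit 152) (nat_lit 6666664752) (nat_lit 38) (nat_lit 5) (nat_lit 39) (nat_lit 5) (nat_lit 40) (nat_lit 4) (nat_lit 422) (nat_lit 321) (nat_lit 157)) (XT.nd (nat_lit 78) (nat_lit 0) (nat_lit 0) (XT.lf (nat_lit 0) (nat_lit 3005153709) (nat_lit 152) (nat_lit 23409076872) (nat_lit 76) (nat_lit 25597347613) (nat_lit 37) (nat_lit 5) (nat_lit 39) (nat_lit 5) (nat_lit 38) (nat_lit 5) (nat_lit 423) (nat_lit 321) (nat_lit 156)) (XT.lf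 (nat_lit 0) (nat_lit 12827741409) (nat_lit 152) (nat_lit 1953177059) (nat_lit 76) (nat_lit 38425927911) (nat_lit 37) (nat_lit 5) (nat_lit 39) (nat_lit 5) (nat_lit 38) (nat_lit 5) (nat_lit 424) (nat_lit 321) (nat_lit 155)))) (XT.nd (nat_lit 78) (nat_lit 76) (nat_lit 0) (XT.lf (nat_lit 0) (nat_lit 20537636636) (nat_lit 152) (nat_lit 2599555526) (nat_lit 228) (nat_lit 31295015751) (nat_lit 35) (nat_lit 5) (nat_lit 37) (nat_lit 5) (nat_lit 38) (nat_lit 5) (nat_lit 425) (nat_lit 321) (nat_lit 154)) (XT.nd (nat_lit 78) (nat_lit 76) (nat_lit 0) (XT.lf (nat_lit 0) (nat_lit 33866249954) (nat_lit 228) (nat_lit 12055888016) (nat_lit 76) (nat_lit 9768883455) (nat_lit 35) (nat_lit 5) (nat_lit 38) (nat_lit 5) (nat_lit 36) (nat_lit 4) (nat_lit 426) (nat_lit 321) (nat_lit 153)) (XT.lf (nat_lit 0) (nat_lit 10609986660) (nat_lit 76) (nat_lit 34429858483) (nat_lit 152) (nat_lit 11944075042) (nat_lit 34) (nat_lit 5) (nat_lit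 35) (nat_lit 5) (nat_lit 36) (nat_lit 4) (nat_lit 427) (nat_lit 321) (nat_lit 152))))) (XT.nd (nat_lit 234) (nat_lit 152) (nat_lit 0) (XT.nd (nat_lit 78) (nat_lit 228) (nat_lit 0) (XT.lf (nat_lit 0) (nat_lit 34193792379) (nat_lit 76) (nat_lit 22471593655) (nat_lit 152) (nat_lit 1646718530) (nat_lit 34) (nat_lit 5) (nat_lit 35) (nat_lit 5) (nat_lit 36) (nat_lit 4) (nat_lit 428) (nat_lit 321) (nat_lit 151)) (XT.nd (nat_lit 78) (nat_lit 152) (nat_lit 0) (XT.lf (nat_lit 0) (nat_lit 8779819305) (nat_lit 152) (nat_lit 1290157081) (nat_lit 76) (nat_lit 49607722275) (nat_lit 33) (nat_lit 5) (nat_lit 35) (nat_lit 5) (nat_lit 34) (nat_lit 5) (nat_lit 429) (nat_lit 321) (nat_lit 150)) (XT.lf (nat_lit 0) (nat_lit 19727185400) (nat_lit 228) (nat_lit 38466083254) (nat_lit 76) (nat_lit 2883269638) (nat_lit 31) (nat_lit 5) (nat_lit 34) (nat_lit 5) (nat_lit 32) (nat_lit 4) (nat_lit 430) (nat_lit 321) (nat_lit 149)))) (XT.nd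 (nat_lit 156) (nat_lit 76) (nat_lit 0) (XT.nd (nat_lit 78) (nat_lit 76) (nat_lit 0) (XT.lf (nat_lit 0) (nat_lit 31111086509) (nat_lit 228) (nat_lit 15371017370) (nat_lit 76) (nat_lit 16031996516) (nat_lit 31) (nat_lit 5) (nat_lit 34) (nat_lit 5) (nat_lit 32) (nat_lit 4) (nat_lit 431) (nat_lit 321) (nat_lit 148)) (XT.lf (nat_lit 0) (nat_lit 8575733403) (nat_lit 76) (nat_lit 34338598916) (nat_lit 152) (nat_lit 21078122893) (nat_lit 30) (nat_lit 5) (nat_lit 31) (nat_lit 5) (nat_lit 32) (nat_lit 4) (nat_lit 432) (nat_lit 321) (nat_lit 147))) (XT.nd (nat_lit 78) (nat_lit 76) (nat_lit 0) (XT.lf (nat_lit 0) (nat_lit 33547550391) (nat_lit 76) (nat_lit 21674787915) (nat_lit 152) (nat_lit 10288303146) (nat_lit 30) (nat_lit 5) (nat_lit 31) (nat_lit 5) (nat_lit 32) (nat_lit 4) (nat_lit 433) (nat_lit 321) (nat_lit 146)) (XT.lf (nat_lit 0) (nat_lit 804642257) (nat_lit 152) (nat_lit 7822054981) (nat_lit 76) (nat_lit 58447572675)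 (nat_lit 29) (nat_lit 5) (nat_lit 31) (nat_lit 5) (nat_lit 30) (nat_lit 5) (nat_lit 434) (nat_lit 321) (nat_lit 145)))))) (XT.nd (nat_lit 546) (nat_lit 0) (nat_lit 0) (XT.nd (nat_lit 234) (nat_lit 228) (nat_lit 0) (XT.nd (nat_lit 78) (nat_lit 0) (nat_lit 0) (XT.lf (nat_lit 0) (nat_lit 12234148886) (nat_lit 228) (nat_lit 51455458491) (nat_lit 76) (nat_lit 4985827797) (nat_lit 27) (nat_lit 5) (nat_lit 30) (nat_lit 5) (nat_lit 28) (nat_lit 4) (nat_lit 435) (nat_lit 321) (nat_lit 144)) (XT.nd (nat_lit 78) (nat_lit 0) (nat_lit 0) (XT.lf (nat_lit 0) (nat_lit 24167401640) (nat_lit 228) (nat_lit 27242892371) (nat_lit 76) (nat_lit 18909516143) (nat_lit 27) (nat_lit 5) (nat_lit 30) (nat_lit 5) (nat_lit 28) (nat_lit 4) (nat_lit 436) (nat_lit 321) (nat_lit 143)) (XT.lf (nat_lit 0) (nat_lit 36454456452) (nat_lit 228) (nat_lit 2311760392) (nat_lit 76) (nat_lit 33247425974) (nat_lit 27) (nat_lit 5) (nat_lit 30) (nat_lit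 5) (nat_lit 28) (nat_lit 4) (nat_lit 437) (nat_lit 321) (nat_lit 142)))) (XT.nd (nat_lit 156) (nat_lit 152) (nat_lit 0) (XT.nd (nat_lit 78) (nat_lit 0) (nat_lit 0) (XT.lf (nat_lit 0) (nat_lit 23824626198) (nat_lit 76) (nat_lit 25510440269) (nat_lit 152) (nat_lit 24416476246) (nat_lit 26) (nat_lit 5) (nat_lit 27) (nat_lit 5) (nat_lit 28) (nat_lit 4) (nat_lit 438) (nat_lit 321) (nat_lit 141)) (XT.lf (nat_lit 0) (nat_lit 50784983940) (nat_lit 76) (nat_lit 11836428222) (nat_lit 152) (nat_lit 12919588457) (nat_lit 26) (nat_lit 5) (nat_lit 27) (nat_lit 5) (nat_lit 28) (nat_lit 4) (nat_lit 439) (nat_lit 321) (nat_lit 140))) (XT.nd (nat_lit 78) (nat_lit 76) (nat_lit 0) (XT.lf (nat_lit 0) (nat_lit 1163735695) (nat_lit 76) (nat_lit 75171464262) (nat_lit 76) (nat_lit 1048077277) (nat_lit 25) (nat_lit 4) (nat_lit 26) (nat_lit 5) (nat_lit 26) (nat_lit 4) (nat_lit 440) (nat_lit 321) (nat_lit 139)) (XT.lf (nat_lit 0)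 (nat_lit 11327143532) (nat_lit 152) (nat_lit 51139282638) (nat_lit 76) (nat_lit 16800200977) (nat_lit 24) (nat_lit 5) (nat_lit 26) (nat_lit 5) (nat_lit 25) (nat_lit 4) (nat_lit 441) (nat_lit 321) (nat_lit 138))))) (XT.nd (nat_lit 37674) (nat_lit 0) (nat_lit 18696) (XT.nd (nat_lit 37518) (nat_lit 0) (nat_lit 18696) (XT.lf (nat_lit 0) (nat_lit 24048733753) (nat_lit 152) (nat_lit 25324160338) (nat_lit 76) (nat_lit 31833387291) (nat_lit 24) (nat_lit 5) (nat_lit 26) (nat_lit 5) (nat_lit 25) (nat_lit 4) (nat_lit 442) (nat_lit 321) (nat_lit 137)) (XT.nd (nat_lit 78) (nat_lit 0) (nat_lit 0) (XT.lf (nat_lit 0) (nat_lit 321053815) (nat_lit 0) (nat_lit 321053815) (nat_lit 988) (nat_lit 3618170981) (nat_lit 270) (nat_lit 5) (nat_lit 270) (nat_lit 3) (nat_lit 283) (nat_lit 3) (nat_lit 322) (nat_lit 322) (nat_lit 256)) (XT.lf (nat_lit 0) (nat_lit 2334673224) (nat_lit 988) (nat_lit 3842271595) (nat_lit 1064) (nat_lit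 2439760815) (nat_lit 270) (nat_lit 5) (nat_lit 283) (nat_lit 3) (nat_lit 284) (nat_lit 5) (nat_lit 323) (nat_lit 322) (nat_lit 255)))) (XT.nd (nat_lit 156) (nat_lit 0) (nat_lit 76) (XT.nd (nat_lit 78) (nat_lit 0) (nat_lit 76) (XT.lf (nat_lit 76) (nat_lit 293305580) (nat_lit 0) (nat_lit 3093394073) (nat_lit 1064) (nat_lit 5329965462) (nat_lit 271) (nat_lit 5) (nat_lit 270) (nat_lit 5) (nat_lit 284) (nat_lit 5) (nat_lit 324) (nat_lit 322) (nat_lit 254)) (XT.lf (nat_lit 0) (nat_lit 4472248600) (nat_lit 988) (nat_lit 4210110592) (nat_lit 1064) (nat_lit 137232775) (nat_lit 271) (nat_lit 5) (nat_lit 284) (nat_lit 5) (nat_lit 285) (nat_lit 5) (nat_lit 325) (nat_lit 322) (nat_lit 253))) (XT.nd (nat_lit 78) (nat_lit 0) (nat_lit 0) (XT.lf (nat_lit 76) (nat_lit 78908822) (nat_lit 0) (nat_lit 5505932204) (nat_lit 1064) (nat_lit 3340957924) (nat_lit 272) (nat_lit 5) (nat_lit 271) (nat_lit 5) (nat_lit 285) (nat_lit 5)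 (nat_lit 326) (nat_lit 322) (nat_lit 252)) (XT.lf (nat_lit 76) (nat_lit 4561573998) (nat_lit 0) (nat_lit 2175711923) (nat_lit 1064) (nat_lit 2297737842) (nat_lit 272) (nat_lit 5) (nat_lit 271) (nat_lit 5) (nat_lit 285) (nat_lit 5) (nat_lit 327) (nat_lit 322) (nat_lit 251))))))))
noncomputable def xc160 : XT := (XT.nd (nat_lit 2028) (nat_lit 5472) (nat_lit 0) (XT.nd (nat_lit 1014) (nat_lit 4636) (nat_lit 0) (XT.nd (nat_lit 468) (nat_lit 1976) (nat_lit 0) (XT.nd (nat_lit 234) (nat_lit 0) (nat_lit 76) (XT.nd (nat_lit 78) (nat_lit 1064) (nat_lit 0) (XT.lf (nat_lit 0) (nat_lit 7901510182) (nat_lit 988) (nat_lit 2783242) (nat_lit 1064) (nat_lit 1243940826) (nat_lit 272) (nat_lit 5) (nat_lit 285) (nat_lit 5) (nat_lit 286) (nat_lit 5) (nat_lit 328) (nat_lit 322) (nat_lit 250)) (XT.nd (nat_lit 78) (nat_lit 1064) (nat_lit 0) (XT.lf (nat_lit 76) (nat_lit 4649917785) (nat_lit 0) (nat_lit 4483145865) (nat_lit 1064)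 (nat_lit 130829702) (nat_lit 273) (nat_lit 5) (nat_lit 272) (nat_lit 5) (nat_lit 286) (nat_lit 5) (nat_lit 329) (nat_lit 322) (nat_lit 249)) (XT.lf (nat_lit 76) (nat_lit 28235776) (nat_lit 0) (nat_lit 937325551) (nat_lit 1140) (nat_lit 8418183297) (nat_lit 259) (nat_lit 5) (nat_lit 258) (nat_lit 5) (nat_lit 273) (nat_lit 5) (nat_lit 330) (nat_lit 322) (nat_lit 248)))) (XT.nd (nat_lit 78) (nat_lit 0) (nat_lit 0) (XT.lf (nat_lit 0) (nat_lit 2132832843) (nat_lit 1064) (nat_lit 4652006235) (nat_lit 1140) (nat_lit 2721117255) (nat_lit 259) (nat_lit 5) (nat_lit 273) (nat_lit 5) (nat_lit 274) (nat_lit 5) (nat_lit 331) (nat_lit 322) (nat_lit 247)) (XT.nd (nat_lit 78) (nat_lit 0) (nat_lit 76) (XT.lf (nat_lit 76) (nat_lit 164537191) (nat_lit 0) (nat_lit 3149862836) (nat_lit 1140) (nat_lit 6318077699) (nat_lit 260) (nat_lit 5) (nat_lit 259) (nat_lit 5) (nat_lit 274) (nat_lit 5) (nat_lit 332) (nat_lit 322) (nat_lit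 246)) (XT.lf (nat_lit 0) (nat_lit 4553780387) (nat_lit 1064) (nat_lit 4569437125) (nat_lit 1140) (nat_lit 638927292) (nat_lit 260) (nat_lit 5) (nat_lit 274) (nat_lit 5) (nat_lit 275) (nat_lit 5) (nat_lit 333) (nat_lit 322) (nat_lit 245))))) (XT.nd (nat_lit 234) (nat_lit 2128) (nat_lit 0) (XT.nd (nat_lit 78) (nat_lit 0) (nat_lit 0) (XT.lf (nat_lit 76) (nat_lit 431097800) (nat_lit 0) (nat_lit 5404685243) (nat_lit 1140) (nat_lit 4059776040) (nat_lit 261) (nat_lit 5) (nat_lit 260) (nat_lit 5) (nat_lit 275) (nat_lit 5) (nat_lit 334) (nat_lit 322) (nat_lit 244)) (XT.nd (nat_lit 78) (nat_lit 0) (nat_lit 76) (XT.lf (nat_lit 76) (nat_lit 5653385807) (nat_lit 0) (nat_lit 1519772232) (nat_lit 1140) (nat_lit 2859330205) (nat_lit 261) (nat_lit 5) (nat_lit 260) (nat_lit 5) (nat_lit 275) (nat_lit 5) (nat_lit 335) (nat_lit 322) (nat_lit 243)) (XT.lf (nat_lit 76) (nat_lit 828904714) (nat_lit 0) (nat_lit 7725262392) (nat_lit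 1140) (nat_lit 1619272033) (nat_lit 262) (nat_lit 5) (nat_lit 261) (nat_lit 5) (nat_lit 276) (nat_lit 5) (nat_lit 336) (nat_lit 322) (nat_lit 242)))) (XT.nd (nat_lit 156) (nat_lit 1140) (nat_lit 0) (XT.nd (nat_lit 78) (nat_lit 1064) (nat_lit 0) (XT.lf (nat_lit 76) (nat_lit 6245558756) (nat_lit 0) (nat_lit 3762470111) (nat_lit 1140) (nat_lit 309665703) (nat_lit 262) (nat_lit 5) (nat_lit 261) (nat_lit 5) (nat_lit 276) (nat_lit 5) (nat_lit 337) (nat_lit 322) (nat_lit 241)) (XT.lf (nat_lit 0) (nat_lit 1008126279) (nat_lit 1140) (nat_lit 9116853059) (nat_lit 76) (nat_lit 341340949) (nat_lit 247) (nat_lit 5) (nat_lit 262) (nat_lit 5) (nat_lit 248) (nat_lit 5) (nat_lit 338) (nat_lit 322) (nat_lit 240))) (XT.nd (nat_lit 78) (nat_lit 1140) (nat_lit 0) (XT.lf (nat_lit 0) (nat_lit 2411462618) (nat_lit 1140) (nat_lit 3664281212) (nat_lit 76) (nat_lit 4542019027) (nat_lit 247) (nat_lit 5) (nat_lit 262) (nat_lit 5) (nat_lit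 248) (nat_lit 5) (nat_lit 339) (nat_lit 322) (nat_lit 239)) (XT.lf (nat_lit 0) (nat_lit 1968357239) (nat_lit 1140) (nat_lit 1881690696) (nat_lit 1216) (nat_lit 6923922902) (nat_lit 232) (nat_lit 5) (nat_lit 247) (nat_lit 5) (nat_lit 248) (nat_lit 5) (nat_lit 340) (nat_lit 322) (nat_lit 238)))))) (XT.nd (nat_lit 468) (nat_lit 2204) (nat_lit 0) (XT.nd (nat_lit 234) (nat_lit 1216) (nat_lit 0) (XT.nd (nat_lit 78) (nat_lit 1216) (nat_lit 0) (XT.lf (nat_lit 0) (nat_lit 5367400257) (nat_lit 1216) (nat_lit 3134981940) (nat_lit 76) (nat_lit 2431430692) (nat_lit 232) (nat_lit 5) (nat_lit 248) (nat_lit 5) (nat_lit 233) (nat_lit 5) (nat_lit 341) (nat_lit 322) (nat_lit 237)) (XT.nd (nat_lit 78) (nat_lit 0) (nat_lit 0) (XT.lf (nat_lit 0) (nat_lit 2718325804) (nat_lit 1216) (nat_lit 4232245745) (nat_lit 1292) (nat_lit 4147285348) (nat_lit 216) (nat_lit 5) (nat_lit 232) (nat_lit 5) (nat_lit 233) (nat_lit 5) (nat_lit 342)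 (nat_lit 322) (nat_lit 236)) (XT.lf (nat_lit 0) (nat_lit 8590868538) (nat_lit 1292) (nat_lit 2478683255) (nat_lit 76) (nat_lit 196996707) (nat_lit 216) (nat_lit 5) (nat_lit 233) (nat_lit 5) (nat_lit 217) (nat_lit 5) (nat_lit 343) (nat_lit 322) (nat_lit 235)))) (XT.nd (nat_lit 78) (nat_lit 608) (nat_lit 0) (XT.lf (nat_lit 0) (nat_lit 3605904668) (nat_lit 608) (nat_lit 6727796816) (nat_lit 684) (nat_lit 1105014304) (nat_lit 208) (nat_lit 5) (nat_lit 216) (nat_lit 5) (nat_lit 217) (nat_lit 5) (nat_lit 344) (nat_lit 322) (nat_lit 234)) (XT.nd (nat_lit 78) (nat_lit 532) (nat_lit 0) (XT.lf (nat_lit 0) (nat_lit 505034823) (nat_lit 684) (nat_lit 1718638014) (nat_lit 76) (nat_lit 9392173202) (nat_lit 207) (nat_lit 5) (nat_lit 216) (nat_lit 5) (nat_lit 208) (nat_lit 5) (nat_lit 345) (nat_lit 322) (nat_lit 233)) (XT.lf (nat_lit 0) (nat_lit 2187191789) (nat_lit 608) (nat_lit 7183944270) (nat_lit 76) (nat_lit 2425458931)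 (nat_lit 200) (nat_lit 5) (nat_lit 208) (nat_lit 5) (nat_lit 201) (nat_lit 5) (nat_lit 346) (nat_lit 322) (nat_lit 232))))) (XT.nd (nat_lit 234) (nat_lit 1064) (nat_lit 0) (XT.nd (nat_lit 78) (nat_lit 1140) (nat_lit 0) (XT.lf (nat_lit 0) (nat_lit 3937473078) (nat_lit 608) (nat_lit 857156915) (nat_lit 76) (nat_lit 7187619734) (nat_lit 200) (nat_lit 5) (nat_lit 208) (nat_lit 5) (nat_lit 201) (nat_lit 5) (nat_lit 347) (nat_lit 322) (nat_lit 231)) (XT.nd (nat_lit 78) (nat_lit 532) (nat_lit 0) (XT.lf (nat_lit 0) (nat_lit 5750450659) (nat_lit 608) (nat_lit 23842728) (nat_lit 684) (nat_lit 6398172522) (nat_lit 192) (nat_lit 5) (nat_lit 200) (nat_lit 5) (nat_lit 201) (nat_lit 5) (nat_lit 348) (nat_lit 322) (nat_lit 230)) (XT.lf (nat_lit 0) (nat_lit 139739917) (nat_lit 532) (nat_lit 7562738571) (nat_lit 608) (nat_lit 4664834635) (nat_lit 185) (nat_lit 5) (nat_lit 192) (nat_lit 5) (nat_lit 193) (nat_lit 5) (nat_lit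 349) (nat_lit 322) (nat_lit 229)))) (XT.nd (nat_lit 156) (nat_lit 532) (nat_lit 0) (XT.nd (nat_lit 78) (nat_lit 532) (nat_lit 0) (XT.lf (nat_lit 0) (nat_lit 7008340673) (nat_lit 532) (nat_lit 2724822174) (nat_lit 608) (nat_lit 2833515288) (nat_lit 185) (nat_lit 5) (nat_lit 192) (nat_lit 5) (nat_lit 193) (nat_lit 5) (nat_lit 350) (nat_lit 322) (nat_lit 228)) (XT.lf (nat_lit 0) (nat_lit 1293115984) (nat_lit 532) (nat_lit 10545945550) (nat_lit 608) (nat_lit 932545391) (nat_lit 178) (nat_lit 5) (nat_lit 185) (nat_lit 5) (nat_lit 186) (nat_lit 5) (nat_lit 351) (nat_lit 322) (nat_lit 227))) (XT.nd (nat_lit 78) (nat_lit 456) (nat_lit 0) (XT.lf (nat_lit 0) (nat_lit 1069432429) (nat_lit 608) (nat_lit 4575915746) (nat_lit 76) (nat_lit 7335130987) (nat_lit 177) (nat_lit 5) (nat_lit 185) (nat_lit 5) (nat_lit 178) (nat_lit 5) (nat_lit 352) (nat_lit 322) (nat_lit 226)) (XT.lf (nat_lit 0) (nat_lit 2553379634) (nat_lit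 456) (nat_lit 564791016) (nat_lit 532) (nat_lit 10077017248) (nat_lit 171) (nat_lit 5) (nat_lit 177) (nat_lit 5) (nat_lit 178) (nat_lit 5) (nat_lit 353) (nat_lit 322) (nat_lit 225))))))) (XT.nd (nat_lit 1014) (nat_lit 2356) (nat_lit 0) (XT.nd (nat_lit 468) (nat_lit 1672) (nat_lit 0) (XT.nd (nat_lit 234) (nat_lit 988) (nat_lit 0) (XT.nd (nat_lit 78) (nat_lit 456) (nat_lit 0) (XT.lf (nat_lit 0) (nat_lit 5301147068) (nat_lit 532) (nat_lit 3491224539) (nat_lit 76) (nat_lit 4621793352) (nat_lit 171) (nat_lit 5) (nat_lit 178) (nat_lit 5) (nat_lit 172) (nat_lit 5) (nat_lit 354) (nat_lit 322) (nat_lit 224)) (XT.nd (nat_lit 78) (nat_lit 0) (nat_lit 0) (XT.lf (nat_lit 0) (nat_lit 3924182351) (nat_lit 456) (nat_lit 3650527883) (nat_lit 532) (nat_lit 6064258216) (nat_lit 165) (nat_lit 5) (nat_lit 171) (nat_lit 5) (nat_lit 172) (nat_lit 5) (nat_lit 355) (nat_lit 322) (nat_lit 223)) (XT.lf (nat_lit 0) (nat_lit 9949994772)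 (nat_lit 532) (nat_lit 2273003450) (nat_lit 76) (nat_lit 1646522140) (nat_lit 165) (nat_lit 5) (nat_lit 172) (nat_lit 5) (nat_lit 166) (nat_lit 5) (nat_lit 356) (nat_lit 322) (nat_lit 222)))) (XT.nd (nat_lit 78) (nat_lit 532) (nat_lit 0) (XT.lf (nat_lit 0) (nat_lit 5441691492) (nat_lit 456) (nat_lit 7025913296) (nat_lit 532) (nat_lit 1637261502) (nat_lit 159) (nat_lit 5) (nat_lit 165) (nat_lit 5) (nat_lit 166) (nat_lit 5) (nat_lit 357) (nat_lit 322) (nat_lit 221)) (XT.nd (nat_lit 78) (nat_lit 456) (nat_lit 0) (XT.lf (nat_lit 0) (nat_lit 705476798) (nat_lit 532) (nat_lit 939784716) (nat_lit 76) (nat_lit 12701636396) (nat_lit 158) (nat_lit 5) (nat_lit 165) (nat_lit 5) (nat_lit 159) (nat_lit 5) (nat_lit 358) (nat_lit 322) (nat_lit 220)) (XT.lf (nat_lit 0) (nat_lit 3175529853) (nat_lit 532) (nat_lit 7514371535) (nat_lit 76) (nat_lit 3903113241) (nat_lit 152) (nat_lit 5) (nat_lit 159) (nat_lit 5) (nat_lit 153)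 (nat_lit 5) (nat_lit 359) (nat_lit 322) (nat_lit 219))))) (XT.nd (nat_lit 234) (nat_lit 836) (nat_lit 0) (XT.nd (nat_lit 78) (nat_lit 456) (nat_lit 0) (XT.lf (nat_lit 0) (nat_lit 483495904) (nat_lit 380) (nat_lit 5250227325) (nat_lit 456) (nat_lit 9112378868) (nat_lit 147) (nat_lit 5) (nat_lit 152) (nat_lit 5) (nat_lit 153) (nat_lit 5) (nat_lit 360) (nat_lit 322) (nat_lit 218)) (XT.nd (nat_lit 78) (nat_lit 456) (nat_lit 0) (XT.lf (nat_lit 0) (nat_lit 8432452243) (nat_lit 456) (nat_lit 6253782752) (nat_lit 76) (nat_lit 418641665) (nat_lit 147) (nat_lit 5) (nat_lit 153) (nat_lit 5) (nat_lit 148) (nat_lit 5) (nat_lit 361) (nat_lit 322) (nat_lit 217)) (XT.lf (nat_lit 0) (nat_lit 2066776955) (nat_lit 456) (nat_lit 9201456875) (nat_lit 532) (nat_lit 4101505838) (nat_lit 141) (nat_lit 5) (nat_lit 147) (nat_lit 5) (nat_lit 148) (nat_lit 5) (nat_lit 362) (nat_lit 322) (nat_lit 216)))) (XT.nd (nat_lit 156) (nat_lit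 380) (nat_lit 0) (XT.nd (nat_lit 78) (nat_lit 456) (nat_lit 0) (XT.lf (nat_lit 0) (nat_lit 10745468485) (nat_lit 456) (nat_lit 3491282260) (nat_lit 532) (nat_lit 1404375661) (nat_lit 141) (nat_lit 5) (nat_lit 147) (nat_lit 5) (nat_lit 148) (nat_lit 5) (nat_lit 363) (nat_lit 322) (nat_lit 215)) (XT.lf (nat_lit 0) (nat_lit 1391678245) (nat_lit 456) (nat_lit 12137549885) (nat_lit 76) (nat_lit 2389693286) (nat_lit 135) (nat_lit 5) (nat_lit 141) (nat_lit 5) (nat_lit 136) (nat_lit 5) (nat_lit 364) (nat_lit 322) (nat_lit 214))) (XT.nd (nat_lit 78) (nat_lit 380) (nat_lit 0) (XT.lf (nat_lit 0) (nat_lit 4312902707) (nat_lit 456) (nat_lit 3453101761) (nat_lit 76) (nat_lit 8436550243) (nat_lit 135) (nat_lit 5) (nat_lit 141) (nat_lit 5) (nat_lit 136) (nat_lit 5) (nat_lit 365) (nat_lit 322) (nat_lit 213)) (XT.lf (nat_lit 0) (nat_lit 5581730236) (nat_lit 380) (nat_lit 1779147247) (nat_lit 456) (nat_lit 9132652955) (nat_lit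 130) (nat_lit 5) (nat_lit 135) (nat_lit 5) (nat_lit 136) (nat_lit 5) (nat_lit 366) (nat_lit 322) (nat_lit 212)))))) (XT.nd (nat_lit 546) (nat_lit 988) (nat_lit 0) (XT.nd (nat_lit 234) (nat_lit 988) (nat_lit 0) (XT.nd (nat_lit 78) (nat_lit 380) (nat_lit 0) (XT.lf (nat_lit 0) (nat_lit 10563336416) (nat_lit 456) (nat_lit 1895589607) (nat_lit 76) (nat_lit 4332424706) (nat_lit 130) (nat_lit 5) (nat_lit 136) (nat_lit 5) (nat_lit 131) (nat_lit 5) (nat_lit 367) (nat_lit 322) (nat_lit 211)) (XT.nd (nat_lit 78) (nat_lit 76) (nat_lit 0) (XT.lf (nat_lit 0) (nat_lit 7501154049) (nat_lit 304) (nat_lit 6436510387) (nat_lit 380) (nat_lit 3158173779) (nat_lit 126) (nat_lit 5) (nat_lit 130) (nat_lit 5) (nat_lit 131) (nat_lit 5) (nat_lit 368) (nat_lit 322) (nat_lit 210)) (XT.lf (nat_lit 0) (nat_lit 9179869) (nat_lit 380) (nat_lit 209264550) (nat_lit 76) (nat_lit 17190856159) (nat_lit 125) (nat_lit 5) (nat_lit 130) (nat_lit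 5) (nat_lit 126) (nat_lit 5) (nat_lit 369) (nat_lit 322) (nat_lit 209)))) (XT.nd (nat_lit 156) (nat_lit 304) (nat_lit 0) (XT.nd (nat_lit 78) (nat_lit 304) (nat_lit 0) (XT.lf (nat_lit 0) (nat_lit 3347519865) (nat_lit 456) (nat_lit 8194084965) (nat_lit 76) (nat_lit 6185446553) (nat_lit 120) (nat_lit 5) (nat_lit 126) (nat_lit 5) (nat_lit 121) (nat_lit 5) (nat_lit 370) (nat_lit 322) (nat_lit 208)) (XT.lf (nat_lit 0) (nat_lit 1526650267) (nat_lit 304) (nat_lit 5265065718) (nat_lit 380) (nat_lit 11262453276) (nat_lit 116) (nat_lit 5) (nat_lit 120) (nat_lit 5) (nat_lit 121) (nat_lit 5) (nat_lit 371) (nat_lit 322) (nat_lit 207))) (XT.nd (nat_lit 78) (nat_lit 304) (nat_lit 0) (XT.lf (nat_lit 0) (nat_lit 10421229142) (nat_lit 380) (nat_lit 6712597835) (nat_lit 76) (nat_lit 1254819525) (nat_lit 116) (nat_lit 5) (nat_lit 121) (nat_lit 5) (nat_lit 117) (nat_lit 5) (nat_lit 372) (nat_lit 322) (nat_lit 206)) (XT.lf (nat_lit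 0) (nat_lit 3392783348) (nat_lit 304) (nat_lit 10838863715) (nat_lit 380) (nat_lit 4499355815) (nat_lit 112) (nat_lit 5) (nat_lit 116) (nat_lit 5) (nat_lit 117) (nat_lit 5) (nat_lit 373) (nat_lit 322) (nat_lit 205))))) (XT.nd (nat_lit 234) (nat_lit 608) (nat_lit 0) (XT.nd (nat_lit 78) (nat_lit 380) (nat_lit 0) (XT.lf (nat_lit 0) (nat_lit 13921041064) (nat_lit 304) (nat_lit 4290595681) (nat_lit 380) (nat_lit 870340664) (nat_lit 112) (nat_lit 5) (nat_lit 116) (nat_lit 5) (nat_lit 117) (nat_lit 5) (nat_lit 374) (nat_lit 322) (nat_lit 204)) (XT.nd (nat_lit 78) (nat_lit 0) (nat_lit 0) (XT.lf (nat_lit 0) (nat_lit 2875357999) (nat_lit 380) (nat_lit 14084302110) (nat_lit 76) (nat_lit 2481085995) (nat_lit 107) (nat_lit 5) (nat_lit 112) (nat_lit 5) (nat_lit 108) (nat_lit 5) (nat_lit 375) (nat_lit 322) (nat_lit 203)) (XT.lf (nat_lit 0) (nat_lit 6798900438) (nat_lit 380) (nat_lit 3582947505) (nat_lit 76) (nat_lit 9425687221)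 (nat_lit 107) (nat_lit 5) (nat_lit 112) (nat_lit 5) (nat_lit 108) (nat_lit 5) (nat_lit 376) (nat_lit 322) (nat_lit 202)))) (XT.nd (nat_lit 156) (nat_lit 304) (nat_lit 0) (XT.nd (nat_lit 78) (nat_lit 0) (nat_lit 0) (XT.lf (nat_lit 0) (nat_lit 7359823022) (nat_lit 304) (nat_lit 3539280361) (nat_lit 380) (nat_lit 9284460543) (nat_lit 103) (nat_lit 5) (nat_lit 107) (nat_lit 5) (nat_lit 108) (nat_lit 5) (nat_lit 377) (nat_lit 322) (nat_lit 201)) (XT.lf (nat_lit 0) (nat_lit 15180911865) (nat_lit 380) (nat_lit 1916922034) (nat_lit 76) (nat_lit 3471286191) (nat_lit 103) (nat_lit 5) (nat_lit 108) (nat_lit 5) (nat_lit 104) (nat_lit 5) (nat_lit 378) (nat_lit 322) (nat_lit 200))) (XT.nd (nat_lit 78) (nat_lit 76) (nat_lit 0) (XT.lf (nat_lit 0) (nat_lit 9449587728) (nat_lit 228) (nat_lit 10256138267) (nat_lit 304) (nat_lit 1257084790) (nat_lit 100) (nat_lit 5) (nat_lit 103) (nat_lit 5) (nat_lit 104) (nat_lit 5) (nat_lit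 379) (nat_lit 322) (nat_lit 199)) (XT.lf (nat_lit 0) (nat_lit 2947748416) (nat_lit 304) (nat_lit 217283571) (nat_lit 76) (nat_lit 18202171483) (nat_lit 99) (nat_lit 5) (nat_lit 103) (nat_lit 5) (nat_lit 100) (nat_lit 5) (nat_lit 380) (nat_lit 322) (nat_lit 198))))))))
noncomputable def xc161 : XT := (XT.nd (nat_lit 2028) (nat_lit 1900) (nat_lit 0) (XT.nd (nat_lit 1014) (nat_lit 1444) (nat_lit 0) (XT.nd (nat_lit 468) (nat_lit 760) (nat_lit 0) (XT.nd (nat_lit 234) (nat_lit 608) (nat_lit 0) (XT.nd (nat_lit 78) (nat_lit 228) (nat_lit 0) (XT.lf (nat_lit 0) (nat_lit 7395131350) (nat_lit 380) (nat_lit 10205990494) (nat_lit 76) (nat_lit 4177986591) (nat_lit 95) (nat_lit 5) (nat_lit 100) (nat_lit 5) (nat_lit 96) (nat_lit 5) (nat_lit 381) (nat_lit 322) (nat_lit 197)) (XT.nd (nat_lit 78) (nat_lit 0) (nat_lit 0) (XT.lf (nat_lit 0) (nat_lit 1499737329) (nat_lit 228) (nat_lit 10513333907) (nat_lit 304) (nat_lit 10189189148)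 (nat_lit 92) (nat_lit 5) (nat_lit 95) (nat_lit 5) (nat_lit 96) (nat_lit 5) (nat_lit 382) (nat_lit 322) (nat_lit 196)) (XT.lf (nat_lit 0) (nat_lit 13749461893) (nat_lit 228) (nat_lit 3112472194) (nat_lit 304) (nat_lit 5773405048) (nat_lit 92) (nat_lit 5) (nat_lit 95) (nat_lit 5) (nat_lit 96) (nat_lit 5) (nat_lit 383) (nat_lit 322) (nat_lit 195)))) (XT.nd (nat_lit 78) (nat_lit 304) (nat_lit 0) (XT.lf (nat_lit 0) (nat_lit 3289937720) (nat_lit 304) (nat_lit 18630888778) (nat_lit 380) (nat_lit 1158650517) (nat_lit 88) (nat_lit 5) (nat_lit 92) (nat_lit 5) (nat_lit 93) (nat_lit 5) (nat_lit 384) (nat_lit 322) (nat_lit 194)) (XT.nd (nat_lit 78) (nat_lit 228) (nat_lit 0) (XT.lf (nat_lit 0) (nat_lit 3635465256) (nat_lit 380) (nat_lit 7603549443) (nat_lit 76) (nat_lit 12293559372) (nat_lit 87) (nat_lit 5) (nat_lit 92) (nat_lit 5) (nat_lit 88) (nat_lit 5) (nat_lit 385) (nat_lit 322) (nat_lit 193)) (XT.lf (nat_lit 0)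 (nat_lit 5018731097) (nat_lit 228) (nat_lit 3569557189) (nat_lit 304) (nat_lit 15409489820) (nat_lit 84) (nat_lit 5) (nat_lit 87) (nat_lit 5) (nat_lit 88) (nat_lit 5) (nat_lit 386) (nat_lit 322) (nat_lit 192))))) (XT.nd (nat_lit 234) (nat_lit 532) (nat_lit 0) (XT.nd (nat_lit 78) (nat_lit 228) (nat_lit 0) (XT.lf (nat_lit 0) (nat_lit 13798876951) (nat_lit 304) (nat_lit 6357315078) (nat_lit 76) (nat_lit 4317474071) (nat_lit 84) (nat_lit 5) (nat_lit 88) (nat_lit 5) (nat_lit 85) (nat_lit 5) (nat_lit 387) (nat_lit 322) (nat_lit 191)) (XT.nd (nat_lit 78) (nat_lit 0) (nat_lit 0) (XT.lf (nat_lit 0) (nat_lit 6723545754) (nat_lit 228) (nat_lit 12532518601) (nat_lit 304) (nat_lit 5705061116) (nat_lit 81) (nat_lit 5) (nat_lit 84) (nat_lit 5) (nat_lit 85) (nat_lit 5) (nat_lit 388) (nat_lit 322) (nat_lit 190)) (XT.lf (nat_lit 0) (nat_lit 20311920436) (nat_lit 228) (nat_lit 4619687341) (nat_lit 304) (nat_lit 529964714)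 (nat_lit 81) (nat_lit 5) (nat_lit 84) (nat_lit 5) (nat_lit 85) (nat_lit 5) (nat_lit 389) (nat_lit 322) (nat_lit 189)))) (XT.nd (nat_lit 156) (nat_lit 228) (nat_lit 0) (XT.nd (nat_lit 78) (nat_lit 0) (nat_lit 0) (XT.lf (nat_lit 0) (nat_lit 4813559047) (nat_lit 304) (nat_lit 17574265953) (nat_lit 76) (nat_lit 3584621078) (nat_lit 77) (nat_lit 5) (nat_lit 81) (nat_lit 5) (nat_lit 78) (nat_lit 5) (nat_lit 390) (nat_lit 322) (nat_lit 188)) (XT.lf (nat_lit 0) (nat_lit 10395696729) (nat_lit 304) (nat_lit 4105633320) (nat_lit 76) (nat_lit 11994492427) (nat_lit 77) (nat_lit 5) (nat_lit 81) (nat_lit 5) (nat_lit 78) (nat_lit 5) (nat_lit 391) (nat_lit 322) (nat_lit 187))) (XT.nd (nat_lit 78) (nat_lit 0) (nat_lit 0) (XT.lf (nat_lit 0) (nat_lit 9946533449) (nat_lit 228) (nat_lit 6285352245) (nat_lit 304) (nat_lit 10800419593) (nat_lit 74) (nat_lit 5) (nat_lit 77) (nat_lit 5) (nat_lit 78) (nat_lit 5) (nat_lit 392) (nat_lit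 322) (nat_lit 186)) (XT.lf (nat_lit 0) (nat_lit 22297002474) (nat_lit 304) (nat_lit 3115240633) (nat_lit 76) (nat_lit 2171026867) (nat_lit 74) (nat_lit 5) (nat_lit 78) (nat_lit 5) (nat_lit 75) (nat_lit 5) (nat_lit 393) (nat_lit 322) (nat_lit 185)))))) (XT.nd (nat_lit 468) (nat_lit 760) (nat_lit 0) (XT.nd (nat_lit 234) (nat_lit 228) (nat_lit 0) (XT.nd (nat_lit 78) (nat_lit 228) (nat_lit 0) (XT.lf (nat_lit 0) (nat_lit 550569422) (nat_lit 228) (nat_lit 16730491057) (nat_lit 76) (nat_lit 10864644150) (nat_lit 71) (nat_lit 5) (nat_lit 74) (nat_lit 5) (nat_lit 72) (nat_lit 5) (nat_lit 394) (nat_lit 322) (nat_lit 184)) (XT.nd (nat_lit 78) (nat_lit 228) (nat_lit 0) (XT.lf (nat_lit 0) (nat_lit 6479368064) (nat_lit 228) (nat_lit 2345576057) (nat_lit 76) (nat_lit 19897807293) (nat_lit 71) (nat_lit 5) (nat_lit 74) (nat_lit 5) (nat_lit 72) (nat_lit 5) (nat_lit 395) (nat_lit 322) (nat_lit 183)) (XT.lf (nat_lit 0) (nat_lit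 12699796354) (nat_lit 304) (nat_lit 16608826106) (nat_lit 76) (nat_lit 5076533) (nat_lit 68) (nat_lit 5) (nat_lit 72) (nat_lit 5) (nat_lit 69) (nat_lit 5) (nat_lit 396) (nat_lit 322) (nat_lit 182)))) (XT.nd (nat_lit 78) (nat_lit 228) (nat_lit 0) (XT.lf (nat_lit 0) (nat_lit 19209782342) (nat_lit 304) (nat_lit 1768301198) (nat_lit 76) (nat_lit 8941205403) (nat_lit 68) (nat_lit 5) (nat_lit 72) (nat_lit 5) (nat_lit 69) (nat_lit 5) (nat_lit 397) (nat_lit 322) (nat_lit 181)) (XT.nd (nat_lit 78) (nat_lit 76) (nat_lit 0) (XT.lf (nat_lit 0) (nat_lit 13772655827) (nat_lit 152) (nat_lit 12266695446) (nat_lit 228) (nat_lit 4499969042) (nat_lit 66) (nat_lit 5) (nat_lit 68) (nat_lit 5) (nat_lit 69) (nat_lit 5) (nat_lit 398) (nat_lit 322) (nat_lit 180)) (XT.lf (nat_lit 0) (nat_lit 1868810992) (nat_lit 228) (nat_lit 1393295815) (nat_lit 76) (nat_lit 27915002656) (nat_lit 65) (nat_lit 5) (nat_lit 68) (nat_lit 5) (nat_lit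 66) (nat_lit 5) (nat_lit 399) (nat_lit 322) (nat_lit 179))))) (XT.nd (nat_lit 234) (nat_lit 380) (nat_lit 0) (XT.nd (nat_lit 78) (nat_lit 152) (nat_lit 0) (XT.lf (nat_lit 0) (nat_lit 8530961296) (nat_lit 304) (nat_lit 17218477962) (nat_lit 76) (nat_lit 6077475884) (nat_lit 62) (nat_lit 5) (nat_lit 66) (nat_lit 5) (nat_lit 63) (nat_lit 5) (nat_lit 400) (nat_lit 322) (nat_lit 178)) (XT.nd (nat_lit 78) (nat_lit 152) (nat_lit 0) (XT.lf (nat_lit 0) (nat_lit 15431688786) (nat_lit 304) (nat_lit 1422673897) (nat_lit 76) (nat_lit 15640692904) (nat_lit 62) (nat_lit 5) (nat_lit 66) (nat_lit 5) (nat_lit 63) (nat_lit 5) (nat_lit 401) (nat_lit 322) (nat_lit 177)) (XT.lf (nat_lit 0) (nat_lit 15129391494) (nat_lit 152) (nat_lit 7547912322) (nat_lit 228) (nat_lit 10501802378) (nat_lit 60) (nat_lit 5) (nat_lit 62) (nat_lit 5) (nat_lit 63) (nat_lit 5) (nat_lit 402) (nat_lit 322) (nat_lit 176)))) (XT.nd (nat_lit 156) (nat_lit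 152) (nat_lit 0) (XT.nd (nat_lit 78) (nat_lit 228) (nat_lit 0) (XT.lf (nat_lit 0) (nat_lit 30166864162) (nat_lit 228) (nat_lit 1708686543) (nat_lit 76) (nat_lit 2007332170) (nat_lit 60) (nat_lit 5) (nat_lit 63) (nat_lit 5) (nat_lit 61) (nat_lit 5) (nat_lit 403) (nat_lit 322) (nat_lit 175)) (XT.lf (nat_lit 0) (nat_lit 3426425611) (nat_lit 228) (nat_lit 19300364723) (nat_lit 76) (nat_lit 11873531465) (nat_lit 57) (nat_lit 5) (nat_lit 60) (nat_lit 5) (nat_lit 58) (nat_lit 5) (nat_lit 404) (nat_lit 322) (nat_lit 174))) (XT.nd (nat_lit 78) (nat_lit 152) (nat_lit 0) (XT.lf (nat_lit 0) (nat_lit 10718600117) (nat_lit 228) (nat_lit 2534382686) (nat_lit 76) (nat_lit 22084894670) (nat_lit 57) (nat_lit 5) (nat_lit 60) (nat_lit 5) (nat_lit 58) (nat_lit 5) (nat_lit 405) (nat_lit 322) (nat_lit 173)) (XT.lf (nat_lit 0) (nat_lit 15015409030) (nat_lit 152) (nat_lit 3351400095) (nat_lit 228) (nat_lit 17726634269) (nat_lit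 55) (nat_lit 5) (nat_lit 57) (nat_lit 5) (nat_lit 58) (nat_lit 5) (nat_lit 406) (nat_lit 322) (nat_lit 172))))))) (XT.nd (nat_lit 1014) (nat_lit 836) (nat_lit 0) (XT.nd (nat_lit 468) (nat_lit 532) (nat_lit 0) (XT.nd (nat_lit 234) (nat_lit 304) (nat_lit 0) (XT.nd (nat_lit 78) (nat_lit 228) (nat_lit 0) (XT.lf (nat_lit 0) (nat_lit 26329103004) (nat_lit 228) (nat_lit 3805552101) (nat_lit 76) (nat_lit 6734483638) (nat_lit 55) (nat_lit 5) (nat_lit 58) (nat_lit 5) (nat_lit 56) (nat_lit 5) (nat_lit 407) (nat_lit 322) (nat_lit 171)) (XT.nd (nat_lit 78) (nat_lit 76) (nat_lit 0) (XT.lf (nat_lit 0) (nat_lit 14217495561) (nat_lit 152) (nat_lit 20475797396) (nat_lit 228) (nat_lit 2969922735) (nat_lit 53) (nat_lit 5) (nat_lit 55) (nat_lit 5) (nat_lit 56) (nat_lit 5) (nat_lit 408) (nat_lit 322) (nat_lit 170)) (XT.lf (nat_lit 0) (nat_lit 4765100304) (nat_lit 228) (nat_lit 5679382777) (nat_lit 76) (nat_lit 28034281118) (nat_lit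 52) (nat_lit 5) (nat_lit 55) (nat_lit 5) (nat_lit 53) (nat_lit 5) (nat_lit 409) (nat_lit 322) (nat_lit 169)))) (XT.nd (nat_lit 78) (nat_lit 152) (nat_lit 0) (XT.lf (nat_lit 0) (nat_lit 12789584682) (nat_lit 228) (nat_lit 26485432488) (nat_lit 76) (nat_lit 39368167) (nat_lit 50) (nat_lit 5) (nat_lit 53) (nat_lit 5) (nat_lit 51) (nat_lit 5) (nat_lit 410) (nat_lit 322) (nat_lit 168)) (XT.nd (nat_lit 78) (nat_lit 152) (nat_lit 0) (XT.lf (nat_lit 0) (nat_lit 21209561923) (nat_lit 228) (nat_lit 8279945691) (nat_lit 76) (nat_lit 10680926133) (nat_lit 50) (nat_lit 5) (nat_lit 53) (nat_lit 5) (nat_lit 51) (nat_lit 5) (nat_lit 411) (nat_lit 322) (nat_lit 167)) (XT.lf (nat_lit 0) (nat_lit 10668653772) (nat_lit 152) (nat_lit 19309658868) (nat_lit 228) (nat_lit 11070967090) (nat_lit 48) (nat_lit 5) (nat_lit 50) (nat_lit 5) (nat_lit 51) (nat_lit 5) (nat_lit 412) (nat_lit 322) (nat_lit 166))))) (XT.nd (nat_lit 234) (nat_lit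 304) (nat_lit 0) (XT.nd (nat_lit 78) (nat_lit 228) (nat_lit 0) (XT.lf (nat_lit 0) (nat_lit 30344316345) (nat_lit 152) (nat_lit 8743120147) (nat_lit 228) (nat_lit 2864736588) (nat_lit 48) (nat_lit 5) (nat_lit 50) (nat_lit 5) (nat_lit 51) (nat_lit 5) (nat_lit 413) (nat_lit 322) (nat_lit 165)) (XT.nd (nat_lit 78) (nat_lit 0) (nat_lit 0) (XT.lf (nat_lit 0) (nat_lit 5569403117) (nat_lit 228) (nat_lit 35084304148) (nat_lit 76) (nat_lit 2224113090) (nat_lit 45) (nat_lit 5) (nat_lit 48) (nat_lit 5) (nat_lit 46) (nat_lit 5) (nat_lit 414) (nat_lit 322) (nat_lit 164)) (XT.lf (nat_lit 0) (nat_lit 14397783085) (nat_lit 228) (nat_lit 15939887999) (nat_lit 76) (nat_lit 13486752413) (nat_lit 45) (nat_lit 5) (nat_lit 48) (nat_lit 5) (nat_lit 46) (nat_lit 5) (nat_lit 415) (nat_lit 322) (nat_lit 163)))) (XT.nd (nat_lit 156) (nat_lit 152) (nat_lit 0) (XT.nd (nat_lit 78) (nat_lit 0) (nat_lit 0) (XT.lf (nat_lit 0) (nat_lit 3843217161)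 (nat_lit 152) (nat_lit 19678771463) (nat_lit 228) (nat_lit 21276508046) (nat_lit 43) (nat_lit 5) (nat_lit 45) (nat_lit 5) (nat_lit 46) (nat_lit 5) (nat_lit 416) (nat_lit 322) (nat_lit 162)) (XT.lf (nat_lit 0) (nat_lit 24536033369) (nat_lit 152) (nat_lit 8538951990) (nat_lit 228) (nat_lit 12722155854) (nat_lit 43) (nat_lit 5) (nat_lit 45) (nat_lit 5) (nat_lit 46) (nat_lit 5) (nat_lit 417) (nat_lit 322) (nat_lit 161))) (XT.nd (nat_lit 78) (nat_lit 152) (nat_lit 0) (XT.lf (nat_lit 0) (nat_lit 42937017489) (nat_lit 228) (nat_lit 1014681563) (nat_lit 76) (nat_lit 2873373771) (nat_lit 43) (nat_lit 5) (nat_lit 46) (nat_lit 5) (nat_lit 44) (nat_lit 4) (nat_lit 418) (nat_lit 322) (nat_lit 160)) (XT.lf (nat_lit 0) (nat_lit 5384596512) (nat_lit 152) (nat_lit 27790964882) (nat_lit 76) (nat_lit 14698522809) (nat_lit 41) (nat_lit 5) (nat_lit 43) (nat_lit 5) (nat_lit 42) (nat_lit 5) (nat_lit 419) (nat_lit 322) (nat_lit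 159)))))) (XT.nd (nat_lit 546) (nat_lit 380) (nat_lit 0) (XT.nd (nat_lit 234) (nat_lit 304) (nat_lit 0) (XT.nd (nat_lit 78) (nat_lit 152) (nat_lit 0) (XT.lf (nat_lit 0) (nat_lit 14862041087) (nat_lit 152) (nat_lit 7168270276) (nat_lit 76) (nat_lit 26922957916) (nat_lit 41) (nat_lit 5) (nat_lit 43) (nat_lit 5) (nat_lit 42) (nat_lit 5) (nat_lit 420) (nat_lit 322) (nat_lit 158)) (XT.nd (nat_lit 78) (nat_lit 0) (nat_lit 0) (XT.lf (nat_lit 0) (nat_lit 14343217363) (nat_lit 152) (nat_lit 10413041682) (nat_lit 228) (nat_lit 25304598334) (nat_lit 39) (nat_lit 5) (nat_lit 41) (nat_lit 5) (nat_lit 42) (nat_lit 5) (nat_lit 421) (nat_lit 322) (nat_lit 157)) (XT.lf (nat_lit 0) (nat_lit 35029929381) (nat_lit 228) (nat_lit 14577952092) (nat_lit 76) (nat_lit 1591313818) (nat_lit 39) (nat_lit 5) (nat_lit 42) (nat_lit 5) (nat_lit 40) (nat_lit 4) (nat_lit 422) (nat_lit 322) (nat_lit 156)))) (XT.nd (nat_lit 156) (nat_lit 152)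 (nat_lit 0) (XT.nd (nat_lit 78) (nat_lit 76) (nat_lit 0) (XT.lf (nat_lit 0) (nat_lit 7224284246) (nat_lit 76) (nat_lit 38554824322) (nat_lit 152) (nat_lit 6587556726) (nat_lit 38) (nat_lit 5) (nat_lit 39) (nat_lit 5) (nat_lit 40) (nat_lit 4) (nat_lit 423) (nat_lit 322) (nat_lit 155)) (XT.lf (nat_lit 0) (nat_lit 3360999161) (nat_lit 152) (nat_lit 23627850406) (nat_lit 76) (nat_lit 26575061410) (nat_lit 37) (nat_lit 5) (nat_lit 39) (nat_lit 5) (nat_lit 38) (nat_lit 5) (nat_lit 424) (nat_lit 322) (nat_lit 154))) (XT.nd (nat_lit 78) (nat_lit 152) (nat_lit 0) (XT.lf (nat_lit 0) (nat_lit 13470525924) (nat_lit 152) (nat_lit 1542356087) (nat_lit 76) (nat_lit 39782388631) (nat_lit 37) (nat_lit 5) (nat_lit 39) (nat_lit 5) (nat_lit 38) (nat_lit 5) (nat_lit 425) (nat_lit 322) (nat_lit 153)) (XT.lf (nat_lit 0) (nat_lit 21618579898) (nat_lit 152) (nat_lit 2467635206) (nat_lit 228) (nat_lit 31971270509) (nat_lit 35) (nat_lit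 5) (nat_lit 37) (nat_lit 5) (nat_lit 38) (nat_lit 5) (nat_lit 426) (nat_lit 322) (nat_lit 152))))) (XT.nd (nat_lit 234) (nat_lit 304) (nat_lit 0) (XT.nd (nat_lit 78) (nat_lit 76) (nat_lit 0) (XT.lf (nat_lit 0) (nat_lit 35131679134) (nat_lit 228) (nat_lit 11960783156) (nat_lit 76) (nat_lit 10261766409) (nat_lit 35) (nat_lit 5) (nat_lit 38) (nat_lit 5) (nat_lit 36) (nat_lit 4) (nat_lit 427) (nat_lit 322) (nat_lit 151)) (XT.nd (nat_lit 78) (nat_lit 0) (nat_lit 0) (XT.lf (nat_lit 0) (nat_lit 11380589510) (nat_lit 76) (nat_lit 35256975193) (nat_lit 152) (nat_lit 12048438413) (nat_lit 34) (nat_lit 5) (nat_lit 35) (nat_lit 5) (nat_lit 36) (nat_lit 4) (nat_lit 428) (nat_lit 322) (nat_lit 150)) (XT.lf (nat_lit 0) (nat_lit 35658735520) (nat_lit 76) (nat_lit 22945955984) (nat_lit 152) (nat_lit 1449558066) (nat_lit 34) (nat_lit 5) (nat_lit 35) (nat_lit 5) (nat_lit 36) (nat_lit 4) (nat_lit 429) (nat_lit 322) (nat_lit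 149)))) (XT.nd (nat_lit 156) (nat_lit 76) (nat_lit 0) (XT.nd (nat_lit 78) (nat_lit 152) (nat_lit 0) (XT.lf (nat_lit 0) (nat_lit 9277923309) (nat_lit 152) (nat_lit 897815778) (nat_lit 76) (nat_lit 51285213607) (nat_lit 33) (nat_lit 5) (nat_lit 35) (nat_lit 5) (nat_lit 34) (nat_lit 5) (nat_lit 430) (nat_lit 322) (nat_lit 148)) (XT.lf (nat_lit 0) (nat_lit 20552850005) (nat_lit 228) (nat_lit 39188124750) (nat_lit 76) (nat_lit 3160809610) (nat_lit 31) (nat_lit 5) (nat_lit 34) (nat_lit 5) (nat_lit 32) (nat_lit 4) (nat_lit 431) (nat_lit 322) (nat_lit 147))) (XT.nd (nat_lit 78) (nat_lit 76) (nat_lit 0) (XT.lf (nat_lit 0) (nat_lit 32271457010) (nat_lit 228) (nat_lit 15412787695) (nat_lit 76) (nat_lit 16698433967) (nat_lit 31) (nat_lit 5) (nat_lit 34) (nat_lit 5) (nat_lit 32) (nat_lit 4) (nat_lit 432) (nat_lit 322) (nat_lit 146)) (XT.lf (nat_lit 0) (nat_lit 9248254227) (nat_lit 76) (nat_lit 35177924838) (nat_lit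 152) (nat_lit 21479284681) (nat_lit 30) (nat_lit 5) (nat_lit 31) (nat_lit 5) (nat_lit 32) (nat_lit 4) (nat_lit 433) (nat_lit 322) (nat_lit 145))))))))
noncomputable def xc162 : XT := (XT.nd (nat_lit 39624) (nat_lit 0) (nat_lit 8056) (XT.nd (nat_lit 38610) (nat_lit 0) (nat_lit 16872) (XT.nd (nat_lit 546) (nat_lit 152) (nat_lit 0) (XT.nd (nat_lit 234) (nat_lit 76) (nat_lit 0) (XT.nd (nat_lit 78) (nat_lit 228) (nat_lit 0) (XT.lf (nat_lit 0) (nat_lit 34957131099) (nat_lit 76) (nat_lit 22139757722) (nat_lit 152) (nat_lit 10372503795) (nat_lit 30) (nat_lit 5) (nat_lit 31) (nat_lit 5) (nat_lit 32) (nat_lit 4) (nat_lit 434) (nat_lit 322) (nat_lit 144)) (XT.nd (nat_lit 78) (nat_lit 152) (nat_lit 0) (XT.lf (nat_lit 0) (nat_lit 1042440407) (nat_lit 152) (nat_lit 7661022707) (nat_lit 76) (nat_lit 60376595278) (nat_lit 29) (nat_lit 5) (nat_lit 31) (nat_lit 5) (nat_lit 30) (nat_lit 5) (nat_lit 435) (nat_lit 322) (nat_lit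 143)) (XT.lf (nat_lit 0) (nat_lit 12814111678) (nat_lit 228) (nat_lit 52602678785) (nat_lit 76) (nat_lit 5312490634) (nat_lit 27) (nat_lit 5) (nat_lit 30) (nat_lit 5) (nat_lit 28) (nat_lit 4) (nat_lit 436) (nat_lit 322) (nat_lit 142)))) (XT.nd (nat_lit 78) (nat_lit 76) (nat_lit 0) (XT.lf (nat_lit 0) (nat_lit 25099159927) (nat_lit 228) (nat_lit 27675282579) (nat_lit 76) (nat_lit 19648731727) (nat_lit 27) (nat_lit 5) (nat_lit 30) (nat_lit 5) (nat_lit 28) (nat_lit 4) (nat_lit 437) (nat_lit 322) (nat_lit 141)) (XT.nd (nat_lit 78) (nat_lit 76) (nat_lit 0) (XT.lf (nat_lit 0) (nat_lit 37748804941) (nat_lit 228) (nat_lit 2007427220) (nat_lit 76) (nat_lit 34411771181) (nat_lit 27) (nat_lit 5) (nat_lit 30) (nat_lit 5) (nat_lit 28) (nat_lit 4) (nat_lit 438) (nat_lit 322) (nat_lit 140)) (XT.lf (nat_lit 0) (nat_lit 24909387379) (nat_lit 76) (nat_lit 26104156696) (nat_lit 152) (nat_lit 24944565628) (nat_lit 26) (nat_lit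 5) (nat_lit 27) (nat_lit 5) (nat_lit 28) (nat_lit 4) (nat_lit 439) (nat_lit 322) (nat_lit 139))))) (XT.nd (nat_lit 37752) (nat_lit 0) (nat_lit 18696) (XT.nd (nat_lit 78) (nat_lit 76) (nat_lit 0) (XT.lf (nat_lit 0) (nat_lit 1558533275) (nat_lit 76) (nat_lit 77258772099) (nat_lit 76) (nat_lit 881683695) (nat_lit 25) (nat_lit 4) (nat_lit 26) (nat_lit 5) (nat_lit 26) (nat_lit 4) (nat_lit 441) (nat_lit 322) (nat_lit 137)) (XT.nd (nat_lit 37596) (nat_lit 0) (nat_lit 18696) (XT.lf (nat_lit 0) (nat_lit 11855283478) (nat_lit 152) (nat_lit 52320286096) (nat_lit 76) (nat_lit 17463383053) (nat_lit 24) (nat_lit 5) (nat_lit 26) (nat_lit 5) (nat_lit 25) (nat_lit 4) (nat_lit 442) (nat_lit 322) (nat_lit 136)) (XT.lf (nat_lit 0) (nat_lit 829481910) (nat_lit 0) (nat_lit 829481910) (nat_lit 988) (nat_lit 2698478216) (nat_lit 270) (nat_lit 5) (nat_lit 270) (nat_lit 3) (nat_lit 283) (nat_lit 3) (nat_lit 323) (nat_lit 323) (nat_lit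 254)))) (XT.nd (nat_lit 156) (nat_lit 0) (nat_lit 0) (XT.nd (nat_lit 78) (nat_lit 0) (nat_lit 0) (XT.lf (nat_lit 0) (nat_lit 4332476963) (nat_lit 988) (nat_lit 2920187993) (nat_lit 1064) (nat_lit 1563316427) (nat_lit 270) (nat_lit 5) (nat_lit 283) (nat_lit 3) (nat_lit 284) (nat_lit 5) (nat_lit 324) (nat_lit 323) (nat_lit 253)) (XT.lf (nat_lit 76) (nat_lit 1329286383) (nat_lit 0) (nat_lit 4040503248) (nat_lit 1064) (nat_lit 3550578813) (nat_lit 271) (nat_lit 5) (nat_lit 270) (nat_lit 5) (nat_lit 284) (nat_lit 5) (nat_lit 325) (nat_lit 323) (nat_lit 252))) (XT.nd (nat_lit 78) (nat_lit 0) (nat_lit 76) (XT.lf (nat_lit 76) (nat_lit 5746456895) (nat_lit 0) (nat_lit 685261718) (nat_lit 1064) (nat_lit 2596389457) (nat_lit 271) (nat_lit 5) (nat_lit 270) (nat_lit 5) (nat_lit 284) (nat_lit 5) (nat_lit 326) (nat_lit 323) (nat_lit 251)) (XT.lf (nat_lit 76) (nat_lit 1132220585) (nat_lit 0) (nat_lit 6396011101) (nat_lit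 1064) (nat_lit 1610791522) (nat_lit 272) (nat_lit 5) (nat_lit 271) (nat_lit 5) (nat_lit 285) (nat_lit 5) (nat_lit 327) (nat_lit 323) (nat_lit 250)))))) (XT.nd (nat_lit 468) (nat_lit 912) (nat_lit 0) (XT.nd (nat_lit 234) (nat_lit 0) (nat_lit 0) (XT.nd (nat_lit 78) (nat_lit 988) (nat_lit 0) (XT.lf (nat_lit 76) (nat_lit 5718755682) (nat_lit 0) (nat_lit 2944770592) (nat_lit 1064) (nat_lit 589587317) (nat_lit 272) (nat_lit 5) (nat_lit 271) (nat_lit 5) (nat_lit 285) (nat_lit 5) (nat_lit 328) (nat_lit 323) (nat_lit 249)) (XT.nd (nat_lit 78) (nat_lit 0) (nat_lit 0) (XT.lf (nat_lit 0) (nat_lit 436308433) (nat_lit 1064) (nat_lit 8308881993) (nat_lit 1140) (nat_lit 625833666) (nat_lit 258) (nat_lit 5) (nat_lit 272) (nat_lit 5) (nat_lit 273) (nat_lit 5) (nat_lit 329) (nat_lit 323) (nat_lit 248)) (XT.lf (nat_lit 0) (nat_lit 1513898923) (nat_lit 1064) (nat_lit 3678886054) (nat_lit 1140) (nat_lit 4298551076) (nat_lit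 258) (nat_lit 5) (nat_lit 272) (nat_lit 5) (nat_lit 273) (nat_lit 5) (nat_lit 330) (nat_lit 323) (nat_lit 247)))) (XT.nd (nat_lit 78) (nat_lit 0) (nat_lit 76) (XT.lf (nat_lit 76) (nat_lit 1090784390) (nat_lit 0) (nat_lit 1512031025) (nat_lit 1140) (nat_lit 7013093666) (nat_lit 259) (nat_lit 5) (nat_lit 258) (nat_lit 5) (nat_lit 273) (nat_lit 5) (nat_lit 331) (nat_lit 323) (nat_lit 246)) (XT.nd (nat_lit 78) (nat_lit 0) (nat_lit 0) (XT.lf (nat_lit 0) (nat_lit 3753160675) (nat_lit 1064) (nat_lit 3707776579) (nat_lit 1140) (nat_lit 2282440237) (nat_lit 259) (nat_lit 5) (nat_lit 273) (nat_lit 5) (nat_lit 274) (nat_lit 5) (nat_lit 332) (nat_lit 323) (nat_lit 245)) (XT.lf (nat_lit 76) (nat_lit 1242637759) (nat_lit 0) (nat_lit 3692522654) (nat_lit 1140) (nat_lit 4939615631) (nat_lit 260) (nat_lit 5) (nat_lit 259) (nat_lit 5) (nat_lit 274) (nat_lit 5) (nat_lit 333) (nat_lit 323) (nat_lit 244))))) (XT.nd (nat_lit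 234) (nat_lit 1064) (nat_lit 0) (XT.nd (nat_lit 78) (nat_lit 0) (nat_lit 0) (XT.lf (nat_lit 0) (nat_lit 6163229100) (nat_lit 1064) (nat_lit 3615113936) (nat_lit 1140) (nat_lit 231475071) (nat_lit 260) (nat_lit 5) (nat_lit 274) (nat_lit 5) (nat_lit 275) (nat_lit 5) (nat_lit 334) (nat_lit 323) (nat_lit 243)) (XT.nd (nat_lit 78) (nat_lit 0) (nat_lit 0) (XT.lf (nat_lit 76) (nat_lit 1524736975) (nat_lit 0) (nat_lit 5926445154) (nat_lit 1140) (nat_lit 2697057277) (nat_lit 261) (nat_lit 5) (nat_lit 260) (nat_lit 5) (nat_lit 275) (nat_lit 5) (nat_lit 335) (nat_lit 323) (nat_lit 242)) (XT.lf (nat_lit 76) (nat_lit 6872216741) (nat_lit 0) (nat_lit 1914510403) (nat_lit 1140) (nat_lit 1503836281) (nat_lit 261) (nat_lit 5) (nat_lit 260) (nat_lit 5) (nat_lit 275) (nat_lit 5) (nat_lit 336) (nat_lit 323) (nat_lit 241)))) (XT.nd (nat_lit 156) (nat_lit 0) (nat_lit 76) (XT.nd (nat_lit 78) (nat_lit 1140) (nat_lit 0) (XT.lf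 (nat_lit 76) (nat_lit 1938516827) (nat_lit 0) (nat_lit 8237089096) (nat_lit 1140) (nat_lit 261171360) (nat_lit 262) (nat_lit 5) (nat_lit 261) (nat_lit 5) (nat_lit 276) (nat_lit 5) (nat_lit 337) (nat_lit 323) (nat_lit 240)) (XT.lf (nat_lit 0) (nat_lit 1026326030) (nat_lit 1140) (nat_lit 3110565790) (nat_lit 1216) (nat_lit 6449386066) (nat_lit 246) (nat_lit 5) (nat_lit 261) (nat_lit 5) (nat_lit 262) (nat_lit 5) (nat_lit 338) (nat_lit 323) (nat_lit 239))) (XT.nd (nat_lit 78) (nat_lit 0) (nat_lit 0) (XT.lf (nat_lit 0) (nat_lit 2346402705) (nat_lit 1140) (nat_lit 8277822961) (nat_lit 76) (nat_lit 116000757) (nat_lit 247) (nat_lit 5) (nat_lit 262) (nat_lit 5) (nat_lit 248) (nat_lit 5) (nat_lit 339) (nat_lit 323) (nat_lit 238)) (XT.lf (nat_lit 0) (nat_lit 3753741096) (nat_lit 1140) (nat_lit 2694077911) (nat_lit 76) (nat_lit 4449560743) (nat_lit 247) (nat_lit 5) (nat_lit 262) (nat_lit 5) (nat_lit 248) (nat_lit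 5) (nat_lit 340) (nat_lit 323) (nat_lit 237))))))) (XT.nd (nat_lit 1014) (nat_lit 3572) (nat_lit 0) (XT.nd (nat_lit 468) (nat_lit 2280) (nat_lit 0) (XT.nd (nat_lit 234) (nat_lit 684) (nat_lit 0) (XT.nd (nat_lit 78) (nat_lit 1216) (nat_lit 0) (XT.lf (nat_lit 0) (nat_lit 3096950167) (nat_lit 1140) (nat_lit 2111826513) (nat_lit 1216) (nat_lit 5850322331) (nat_lit 232) (nat_lit 5) (nat_lit 247) (nat_lit 5) (nat_lit 248) (nat_lit 5) (nat_lit 341) (nat_lit 323) (nat_lit 236)) (XT.nd (nat_lit 78) (nat_lit 1216) (nat_lit 0) (XT.lf (nat_lit 0) (nat_lit 6733818129) (nat_lit 1216) (nat_lit 2152038457) (nat_lit 76) (nat_lit 2339037813) (nat_lit 232) (nat_lit 5) (nat_lit 248) (nat_lit 5) (nat_lit 233) (nat_lit 5) (nat_lit 342) (nat_lit 323) (nat_lit 235)) (XT.lf (nat_lit 0) (nat_lit 3866309765) (nat_lit 1216) (nat_lit 4473317395) (nat_lit 1292) (nat_lit 3055000745) (nat_lit 216) (nat_lit 5) (nat_lit 232) (nat_lit 5)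 (nat_lit 233) (nat_lit 5) (nat_lit 343) (nat_lit 323) (nat_lit 234)))) (XT.nd (nat_lit 78) (nat_lit 684) (nat_lit 0) (XT.lf (nat_lit 0) (nat_lit 9993683550) (nat_lit 1292) (nat_lit 1481494503) (nat_lit 76) (nat_lit 94287490) (nat_lit 216) (nat_lit 5) (nat_lit 233) (nat_lit 5) (nat_lit 217) (nat_lit 5) (nat_lit 344) (nat_lit 323) (nat_lit 233)) (XT.nd (nat_lit 78) (nat_lit 0) (nat_lit 0) (XT.lf (nat_lit 0) (nat_lit 17781299) (nat_lit 684) (nat_lit 6972562253) (nat_lit 76) (nat_lit 4757164816) (nat_lit 207) (nat_lit 5) (nat_lit 216) (nat_lit 5) (nat_lit 208) (nat_lit 5) (nat_lit 345) (nat_lit 323) (nat_lit 232)) (XT.lf (nat_lit 0) (nat_lit 1620900760) (nat_lit 684) (nat_lit 717486023) (nat_lit 76) (nat_lit 9592248117) (nat_lit 207) (nat_lit 5) (nat_lit 216) (nat_lit 5) (nat_lit 208) (nat_lit 5) (nat_lit 346) (nat_lit 323) (nat_lit 231))))) (XT.nd (nat_lit 234) (nat_lit 1140) (nat_lit 0) (XT.nd (nat_lit 78)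 (nat_lit 608) (nat_lit 0) (XT.lf (nat_lit 0) (nat_lit 3331134081) (nat_lit 608) (nat_lit 6323717410) (nat_lit 76) (nat_lit 2462645851) (nat_lit 200) (nat_lit 5) (nat_lit 208) (nat_lit 5) (nat_lit 201) (nat_lit 5) (nat_lit 347) (nat_lit 323) (nat_lit 230)) (XT.nd (nat_lit 78) (nat_lit 0) (nat_lit 0) (XT.lf (nat_lit 0) (nat_lit 164756167) (nat_lit 608) (nat_lit 4939343808) (nat_lit 684) (nat_lit 7205535267) (nat_lit 192) (nat_lit 5) (nat_lit 200) (nat_lit 5) (nat_lit 201) (nat_lit 5) (nat_lit 348) (nat_lit 323) (nat_lit 229)) (XT.lf (nat_lit 0) (nat_lit 6957137642) (nat_lit 608) (nat_lit 16751838) (nat_lit 684) (nat_lit 5532350752) (nat_lit 192) (nat_lit 5) (nat_lit 200) (nat_lit 5) (nat_lit 201) (nat_lit 5) (nat_lit 349) (nat_lit 323) (nat_lit 228)))) (XT.nd (nat_lit 156) (nat_lit 608) (nat_lit 0) (XT.nd (nat_lit 78) (nat_lit 0) (nat_lit 0) (XT.lf (nat_lit 0) (nat_lit 1198984135) (nat_lit 532) (nat_lit 7741256464)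 (nat_lit 608) (nat_lit 3767300377) (nat_lit 185) (nat_lit 5) (nat_lit 192) (nat_lit 5) (nat_lit 193) (nat_lit 5) (nat_lit 350) (nat_lit 323) (nat_lit 227)) (XT.lf (nat_lit 0) (nat_lit 8242913243) (nat_lit 532) (nat_lit 2759611243) (nat_lit 608) (nat_lit 1911259293) (nat_lit 185) (nat_lit 5) (nat_lit 192) (nat_lit 5) (nat_lit 193) (nat_lit 5) (nat_lit 351) (nat_lit 323) (nat_lit 226))) (XT.nd (nat_lit 78) (nat_lit 0) (nat_lit 0) (XT.lf (nat_lit 0) (nat_lit 27634410) (nat_lit 608) (nat_lit 10750343917) (nat_lit 76) (nat_lit 2347430647) (nat_lit 177) (nat_lit 5) (nat_lit 185) (nat_lit 5) (nat_lit 178) (nat_lit 5) (nat_lit 352) (nat_lit 323) (nat_lit 225)) (XT.lf (nat_lit 0) (nat_lit 2042692999) (nat_lit 608) (nat_lit 3680893577) (nat_lit 76) (nat_lit 7617546618) (nat_lit 177) (nat_lit 5) (nat_lit 185) (nat_lit 5) (nat_lit 178) (nat_lit 5) (nat_lit 353) (nat_lit 323) (nat_lit 224)))))) (XT.nd (nat_lit 546)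 (nat_lit 1672) (nat_lit 0) (XT.nd (nat_lit 234) (nat_lit 988) (nat_lit 0) (XT.nd (nat_lit 78) (nat_lit 456) (nat_lit 0) (XT.lf (nat_lit 0) (nat_lit 3652160080) (nat_lit 456) (nat_lit 483146158) (nat_lit 532) (nat_lit 9427519860) (nat_lit 171) (nat_lit 5) (nat_lit 177) (nat_lit 5) (nat_lit 178) (nat_lit 5) (nat_lit 354) (nat_lit 323) (nat_lit 223)) (XT.nd (nat_lit 78) (nat_lit 456) (nat_lit 0) (XT.lf (nat_lit 0) (nat_lit 6357791346) (nat_lit 532) (nat_lit 2577078944) (nat_lit 76) (nat_lit 4854296444) (nat_lit 171) (nat_lit 5) (nat_lit 178) (nat_lit 5) (nat_lit 172) (nat_lit 5) (nat_lit 355) (nat_lit 323) (nat_lit 222)) (XT.lf (nat_lit 0) (nat_lit 5050801109) (nat_lit 456) (nat_lit 3632314421) (nat_lit 532) (nat_lit 5338106591) (nat_lit 165) (nat_lit 5) (nat_lit 171) (nat_lit 5) (nat_lit 172) (nat_lit 5) (nat_lit 356) (nat_lit 323) (nat_lit 221)))) (XT.nd (nat_lit 156) (nat_lit 532) (nat_lit 0) (XT.nd (nat_lit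 78) (nat_lit 456) (nat_lit 0) (XT.lf (nat_lit 0) (nat_lit 11105185684) (nat_lit 532) (nat_lit 1336746119) (nat_lit 76) (nat_lit 1817506970) (nat_lit 165) (nat_lit 5) (nat_lit 172) (nat_lit 5) (nat_lit 166) (nat_lit 5) (nat_lit 357) (nat_lit 323) (nat_lit 220)) (XT.lf (nat_lit 0) (nat_lit 6599542148) (nat_lit 456) (nat_lit 7083390388) (nat_lit 532) (nat_lit 819387872) (nat_lit 159) (nat_lit 5) (nat_lit 165) (nat_lit 5) (nat_lit 166) (nat_lit 5) (nat_lit 358) (nat_lit 323) (nat_lit 219))) (XT.nd (nat_lit 78) (nat_lit 0) (nat_lit 0) (XT.lf (nat_lit 0) (nat_lit 14793651) (nat_lit 456) (nat_lit 1537303587) (nat_lit 532) (nat_lit 13200017041) (nat_lit 152) (nat_lit 5) (nat_lit 158) (nat_lit 5) (nat_lit 159) (nat_lit 5) (nat_lit 359) (nat_lit 323) (nat_lit 218)) (XT.lf (nat_lit 0) (nat_lit 4082982442) (nat_lit 532) (nat_lit 6743777761) (nat_lit 76) (nat_lit 4179264812) (nat_lit 152) (nat_lit 5) (nat_lit 159) (nat_lit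 5) (nat_lit 153) (nat_lit 5) (nat_lit 360) (nat_lit 323) (nat_lit 217))))) (XT.nd (nat_lit 234) (nat_lit 836) (nat_lit 0) (XT.nd (nat_lit 78) (nat_lit 456) (nat_lit 0) (XT.lf (nat_lit 0) (nat_lit 1484260751) (nat_lit 380) (nat_lit 5219485480) (nat_lit 456) (nat_lit 8563396210) (nat_lit 147) (nat_lit 5) (nat_lit 152) (nat_lit 5) (nat_lit 153) (nat_lit 5) (nat_lit 361) (nat_lit 323) (nat_lit 216)) (XT.nd (nat_lit 78) (nat_lit 456) (nat_lit 0) (XT.lf (nat_lit 0) (nat_lit 9461950923) (nat_lit 456) (nat_lit 5461985431) (nat_lit 76) (nat_lit 610400192) (nat_lit 147) (nat_lit 5) (nat_lit 153) (nat_lit 5) (nat_lit 148) (nat_lit 5) (nat_lit 362) (nat_lit 323) (nat_lit 215)) (XT.lf (nat_lit 0) (nat_lit 3098589001) (nat_lit 456) (nat_lit 9270922116) (nat_lit 532) (nat_lit 3438044552) (nat_lit 141) (nat_lit 5) (nat_lit 147) (nat_lit 5) (nat_lit 148) (nat_lit 5) (nat_lit 363) (nat_lit 323) (nat_lit 214)))) (XT.nd (nat_lit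 156) (nat_lit 380) (nat_lit 0) (XT.nd (nat_lit 78) (nat_lit 456) (nat_lit 0) (XT.lf (nat_lit 0) (nat_lit 12009394420) (nat_lit 456) (nat_lit 3395459111) (nat_lit 532) (nat_lit 682908425) (nat_lit 141) (nat_lit 5) (nat_lit 147) (nat_lit 5) (nat_lit 148) (nat_lit 5) (nat_lit 364) (nat_lit 323) (nat_lit 213)) (XT.lf (nat_lit 0) (nat_lit 2171459669) (nat_lit 456) (nat_lit 11533842466) (nat_lit 76) (nat_lit 2668698893) (nat_lit 135) (nat_lit 5) (nat_lit 141) (nat_lit 5) (nat_lit 136) (nat_lit 5) (nat_lit 365) (nat_lit 323) (nat_lit 212))) (XT.nd (nat_lit 78) (nat_lit 380) (nat_lit 0) (XT.lf (nat_lit 0) (nat_lit 5158824815) (nat_lit 456) (nat_lit 2617050236) (nat_lit 76) (nat_lit 8890923264) (nat_lit 135) (nat_lit 5) (nat_lit 141) (nat_lit 5) (nat_lit 136) (nat_lit 5) (nat_lit 366) (nat_lit 323) (nat_lit 211)) (XT.lf (nat_lit 0) (nat_lit 6679614519) (nat_lit 380) (nat_lit 1606698248) (nat_lit 456) (nat_lit 8680558143)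 (nat_lit 130) (nat_lit 5) (nat_lit 135) (nat_lit 5) (nat_lit 136) (nat_lit 5) (nat_lit 367) (nat_lit 323) (nat_lit 210))))))))
noncomputable def xc163 : XT := (XT.nd (nat_lit 2106) (nat_lit 2508) (nat_lit 0) (XT.nd (nat_lit 1014) (nat_lit 1976) (nat_lit 0) (XT.nd (nat_lit 468) (nat_lit 1216) (nat_lit 0) (XT.nd (nat_lit 234) (nat_lit 304) (nat_lit 0) (XT.nd (nat_lit 78) (nat_lit 760) (nat_lit 0) (XT.lf (nat_lit 0) (nat_lit 11566430404) (nat_lit 456) (nat_lit 1030392185) (nat_lit 76) (nat_lit 4677365203) (nat_lit 130) (nat_lit 5) (nat_lit 136) (nat_lit 5) (nat_lit 131) (nat_lit 5) (nat_lit 368) (nat_lit 323) (nat_lit 209)) (XT.nd (nat_lit 78) (nat_lit 456) (nat_lit 0) (XT.lf (nat_lit 0) (nat_lit 8639213926) (nat_lit 304) (nat_lit 6391564666) (nat_lit 380) (nat_lit 2557376852) (nat_lit 126) (nat_lit 5) (nat_lit 130) (nat_lit 5) (nat_lit 131) (nat_lit 5) (nat_lit 369) (nat_lit 323) (nat_lit 208)) (XT.lf (nat_lit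 0) (nat_lit 678460503) (nat_lit 456) (nat_lit 17213436103) (nat_lit 76) (nat_lit 19322145) (nat_lit 120) (nat_lit 5) (nat_lit 126) (nat_lit 5) (nat_lit 121) (nat_lit 5) (nat_lit 370) (nat_lit 323) (nat_lit 207)))) (XT.nd (nat_lit 78) (nat_lit 304) (nat_lit 0) (XT.lf (nat_lit 0) (nat_lit 4101636857) (nat_lit 456) (nat_lit 7531310081) (nat_lit 76) (nat_lit 6606023023) (nat_lit 120) (nat_lit 5) (nat_lit 126) (nat_lit 5) (nat_lit 121) (nat_lit 5) (nat_lit 371) (nat_lit 323) (nat_lit 206)) (XT.nd (nat_lit 78) (nat_lit 0) (nat_lit 0) (XT.lf (nat_lit 0) (nat_lit 2472139390) (nat_lit 304) (nat_lit 5166628283) (nat_lit 380) (nat_lit 10937453659) (nat_lit 116) (nat_lit 5) (nat_lit 120) (nat_lit 5) (nat_lit 121) (nat_lit 5) (nat_lit 372) (nat_lit 323) (nat_lit 205)) (XT.lf (nat_lit 0) (nat_lit 11360822113) (nat_lit 380) (nat_lit 6023880575) (nat_lit 76) (nat_lit 1536528505) (nat_lit 116) (nat_lit 5) (nat_lit 121)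 (nat_lit 5) (nat_lit 117) (nat_lit 5) (nat_lit 373) (nat_lit 323) (nat_lit 204))))) (XT.nd (nat_lit 234) (nat_lit 532) (nat_lit 0) (XT.nd (nat_lit 78) (nat_lit 380) (nat_lit 0) (XT.lf (nat_lit 0) (nat_lit 4375935619) (nat_lit 304) (nat_lit 10899828351) (nat_lit 380) (nat_lit 3998395697) (nat_lit 112) (nat_lit 5) (nat_lit 116) (nat_lit 5) (nat_lit 117) (nat_lit 5) (nat_lit 374) (nat_lit 323) (nat_lit 203)) (XT.nd (nat_lit 78) (nat_lit 380) (nat_lit 0) (XT.lf (nat_lit 0) (nat_lit 15194370132) (nat_lit 304) (nat_lit 4162807458) (nat_lit 380) (nat_lit 279032639) (nat_lit 112) (nat_lit 5) (nat_lit 116) (nat_lit 5) (nat_lit 117) (nat_lit 5) (nat_lit 375) (nat_lit 323) (nat_lit 202)) (XT.lf (nat_lit 0) (nat_lit 3560151361) (nat_lit 380) (nat_lit 13631767912) (nat_lit 76) (nat_lit 2813856879) (nat_lit 107) (nat_lit 5) (nat_lit 112) (nat_lit 5) (nat_lit 108) (nat_lit 5) (nat_lit 376) (nat_lit 323) (nat_lit 201))))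 (XT.nd (nat_lit 156) (nat_lit 228) (nat_lit 0) (XT.nd (nat_lit 78) (nat_lit 304) (nat_lit 0) (XT.lf (nat_lit 0) (nat_lit 7583967084) (nat_lit 380) (nat_lit 2840859949) (nat_lit 76) (nat_lit 9959271725) (nat_lit 107) (nat_lit 5) (nat_lit 112) (nat_lit 5) (nat_lit 108) (nat_lit 5) (nat_lit 377) (nat_lit 323) (nat_lit 200)) (XT.lf (nat_lit 0) (nat_lit 8421864518) (nat_lit 304) (nat_lit 3376472947) (nat_lit 380) (nat_lit 8973342762) (nat_lit 103) (nat_lit 5) (nat_lit 107) (nat_lit 5) (nat_lit 108) (nat_lit 5) (nat_lit 378) (nat_lit 323) (nat_lit 199))) (XT.nd (nat_lit 78) (nat_lit 228) (nat_lit 0) (XT.lf (nat_lit 0) (nat_lit 16194442751) (nat_lit 380) (nat_lit 1143311475) (nat_lit 76) (nat_lit 3831480061) (nat_lit 103) (nat_lit 5) (nat_lit 108) (nat_lit 5) (nat_lit 104) (nat_lit 5) (nat_lit 379) (nat_lit 323) (nat_lit 198)) (XT.lf (nat_lit 0) (nat_lit 10556045361) (nat_lit 228) (nat_lit 10290611393) (nat_lit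 304) (nat_lit 728335587) (nat_lit 100) (nat_lit 5) (nat_lit 103) (nat_lit 5) (nat_lit 104) (nat_lit 5) (nat_lit 380) (nat_lit 323) (nat_lit 197)))))) (XT.nd (nat_lit 546) (nat_lit 760) (nat_lit 0) (XT.nd (nat_lit 234) (nat_lit 608) (nat_lit 0) (XT.nd (nat_lit 78) (nat_lit 228) (nat_lit 0) (XT.lf (nat_lit 0) (nat_lit 597792712) (nat_lit 304) (nat_lit 2983365611) (nat_lit 380) (nat_lit 18410513984) (nat_lit 95) (nat_lit 5) (nat_lit 99) (nat_lit 5) (nat_lit 100) (nat_lit 5) (nat_lit 381) (nat_lit 323) (nat_lit 196)) (XT.nd (nat_lit 78) (nat_lit 228) (nat_lit 0) (XT.lf (nat_lit 0) (nat_lit 8150822505) (nat_lit 380) (nat_lit 9696654437) (nat_lit 76) (nat_lit 4568797450) (nat_lit 95) (nat_lit 5) (nat_lit 100) (nat_lit 5) (nat_lit 96) (nat_lit 5) (nat_lit 382) (nat_lit 323) (nat_lit 195)) (XT.lf (nat_lit 0) (nat_lit 2352249967) (nat_lit 228) (nat_lit 10547264345) (nat_lit 304) (nat_lit 9952845773) (nat_lit 92)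 (nat_lit 5) (nat_lit 95) (nat_lit 5) (nat_lit 96) (nat_lit 5) (nat_lit 383) (nat_lit 323) (nat_lit 194)))) (XT.nd (nat_lit 156) (nat_lit 304) (nat_lit 0) (XT.nd (nat_lit 78) (nat_lit 304) (nat_lit 0) (XT.lf (nat_lit 0) (nat_lit 14945946253) (nat_lit 228) (nat_lit 2932574924) (nat_lit 304) (nat_lit 5420375113) (nat_lit 92) (nat_lit 5) (nat_lit 95) (nat_lit 5) (nat_lit 96) (nat_lit 5) (nat_lit 384) (nat_lit 323) (nat_lit 193)) (XT.lf (nat_lit 0) (nat_lit 4177700005) (nat_lit 304) (nat_lit 18906740061) (nat_lit 380) (nat_lit 672065725) (nat_lit 88) (nat_lit 5) (nat_lit 92) (nat_lit 5) (nat_lit 93) (nat_lit 5) (nat_lit 385) (nat_lit 323) (nat_lit 192))) (XT.nd (nat_lit 78) (nat_lit 228) (nat_lit 0) (XT.lf (nat_lit 0) (nat_lit 4240811740) (nat_lit 380) (nat_lit 7055531453) (nat_lit 76) (nat_lit 12927153850) (nat_lit 87) (nat_lit 5) (nat_lit 92) (nat_lit 5) (nat_lit 88) (nat_lit 5) (nat_lit 386) (nat_lit 323)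 (nat_lit 191)) (XT.lf (nat_lit 0) (nat_lit 5937808440) (nat_lit 228) (nat_lit 3397343630) (nat_lit 304) (nat_lit 15367721978) (nat_lit 84) (nat_lit 5) (nat_lit 87) (nat_lit 5) (nat_lit 88) (nat_lit 5) (nat_lit 387) (nat_lit 323) (nat_lit 190))))) (XT.nd (nat_lit 234) (nat_lit 532) (nat_lit 0) (XT.nd (nat_lit 78) (nat_lit 228) (nat_lit 0) (XT.lf (nat_lit 0) (nat_lit 14690416017) (nat_lit 304) (nat_lit 5790104428) (nat_lit 76) (nat_lit 4712872196) (nat_lit 84) (nat_lit 5) (nat_lit 88) (nat_lit 5) (nat_lit 85) (nat_lit 5) (nat_lit 388) (nat_lit 323) (nat_lit 189)) (XT.nd (nat_lit 78) (nat_lit 0) (nat_lit 0) (XT.lf (nat_lit 0) (nat_lit 7675751542) (nat_lit 228) (nat_lit 12628871875) (nat_lit 304) (nat_lit 5391057796) (nat_lit 81) (nat_lit 5) (nat_lit 84) (nat_lit 5) (nat_lit 85) (nat_lit 5) (nat_lit 389) (nat_lit 323) (nat_lit 188)) (XT.lf (nat_lit 0) (nat_lit 21649918258) (nat_lit 228) (nat_lit 4486800015)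 (nat_lit 304) (nat_lit 74839235) (nat_lit 81) (nat_lit 5) (nat_lit 84) (nat_lit 5) (nat_lit 85) (nat_lit 5) (nat_lit 390) (nat_lit 323) (nat_lit 187)))) (XT.nd (nat_lit 156) (nat_lit 228) (nat_lit 0) (XT.nd (nat_lit 78) (nat_lit 0) (nat_lit 0) (XT.lf (nat_lit 0) (nat_lit 5416018399) (nat_lit 304) (nat_lit 17359600049) (nat_lit 76) (nat_lit 3962120600) (nat_lit 77) (nat_lit 5) (nat_lit 81) (nat_lit 5) (nat_lit 78) (nat_lit 5) (nat_lit 391) (nat_lit 323) (nat_lit 186)) (XT.lf (nat_lit 0) (nat_lit 11152278874) (nat_lit 304) (nat_lit 3508516997) (nat_lit 76) (nat_lit 12616425152) (nat_lit 77) (nat_lit 5) (nat_lit 81) (nat_lit 5) (nat_lit 78) (nat_lit 5) (nat_lit 392) (nat_lit 323) (nat_lit 185))) (XT.nd (nat_lit 78) (nat_lit 0) (nat_lit 0) (XT.lf (nat_lit 0) (nat_lit 10958153155) (nat_lit 228) (nat_lit 6199303542) (nat_lit 304) (nat_lit 10672528452) (nat_lit 74) (nat_lit 5) (nat_lit 77) (nat_lit 5) (nat_lit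 78) (nat_lit 5) (nat_lit 393) (nat_lit 323) (nat_lit 184)) (XT.lf (nat_lit 0) (nat_lit 23394314629) (nat_lit 304) (nat_lit 2505908253) (nat_lit 76) (nat_lit 2497566075) (nat_lit 74) (nat_lit 5) (nat_lit 78) (nat_lit 5) (nat_lit 75) (nat_lit 5) (nat_lit 394) (nat_lit 323) (nat_lit 183))))))) (XT.nd (nat_lit 1014) (nat_lit 1064) (nat_lit 0) (XT.nd (nat_lit 468) (nat_lit 760) (nat_lit 0) (XT.nd (nat_lit 234) (nat_lit 228) (nat_lit 0) (XT.nd (nat_lit 78) (nat_lit 228) (nat_lit 0) (XT.lf (nat_lit 0) (nat_lit 994005507) (nat_lit 228) (nat_lit 16527889999) (nat_lit 76) (nat_lit 11455252932) (nat_lit 71) (nat_lit 5) (nat_lit 74) (nat_lit 5) (nat_lit 72) (nat_lit 5) (nat_lit 395) (nat_lit 323) (nat_lit 182)) (XT.nd (nat_lit 78) (nat_lit 228) (nat_lit 0) (XT.lf (nat_lit 0) (nat_lit 7088233574) (nat_lit 228) (nat_lit 1731947426) (nat_lit 76) (nat_lit 20751702151) (nat_lit 71) (nat_lit 5) (nat_lit 74) (nat_lit 5) (nat_lit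 72) (nat_lit 5) (nat_lit 396) (nat_lit 323) (nat_lit 181)) (XT.lf (nat_lit 0) (nat_lit 13492292588) (nat_lit 304) (nat_lit 16419999967) (nat_lit 76) (nat_lit 268359452) (nat_lit 68) (nat_lit 5) (nat_lit 72) (nat_lit 5) (nat_lit 69) (nat_lit 5) (nat_lit 397) (nat_lit 323) (nat_lit 180)))) (XT.nd (nat_lit 78) (nat_lit 228) (nat_lit 0) (XT.lf (nat_lit 0) (nat_lit 20185592651) (nat_lit 304) (nat_lit 1154271669) (nat_lit 76) (nat_lit 9464908189) (nat_lit 68) (nat_lit 5) (nat_lit 72) (nat_lit 5) (nat_lit 69) (nat_lit 5) (nat_lit 398) (nat_lit 323) (nat_lit 179)) (XT.nd (nat_lit 78) (nat_lit 76) (nat_lit 0) (XT.lf (nat_lit 0) (nat_lit 14846374080) (nat_lit 152) (nat_lit 12368387657) (nat_lit 228) (nat_lit 4228804884) (nat_lit 66) (nat_lit 5) (nat_lit 68) (nat_lit 5) (nat_lit 69) (nat_lit 5) (nat_lit 399) (nat_lit 323) (nat_lit 178)) (XT.lf (nat_lit 0) (nat_lit 2311513693) (nat_lit 228) (nat_lit 785999940) (nat_lit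 76) (nat_lit 29003209666) (nat_lit 65) (nat_lit 5) (nat_lit 68) (nat_lit 5) (nat_lit 66) (nat_lit 5) (nat_lit 400) (nat_lit 323) (nat_lit 177))))) (XT.nd (nat_lit 234) (nat_lit 380) (nat_lit 0) (XT.nd (nat_lit 78) (nat_lit 152) (nat_lit 0) (XT.lf (nat_lit 0) (nat_lit 9170956099) (nat_lit 304) (nat_lit 17083267769) (nat_lit 76) (nat_lit 6515879374) (nat_lit 62) (nat_lit 5) (nat_lit 66) (nat_lit 5) (nat_lit 63) (nat_lit 5) (nat_lit 401) (nat_lit 323) (nat_lit 176)) (XT.nd (nat_lit 78) (nat_lit 152) (nat_lit 0) (XT.lf (nat_lit 0) (nat_lit 16267519026) (nat_lit 304) (nat_lit 832573015) (nat_lit 76) (nat_lit 16358534287) (nat_lit 62) (nat_lit 5) (nat_lit 66) (nat_lit 5) (nat_lit 63) (nat_lit 5) (nat_lit 402) (nat_lit 323) (nat_lit 175)) (XT.lf (nat_lit 0) (nat_lit 16209850602) (nat_lit 152) (nat_lit 7515814379) (nat_lit 228) (nat_lit 10437681351) (nat_lit 60) (nat_lit 5) (nat_lit 62) (nat_lit 5) (nat_lit 63)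 (nat_lit 5) (nat_lit 403) (nat_lit 323) (nat_lit 174)))) (XT.nd (nat_lit 156) (nat_lit 152) (nat_lit 0) (XT.nd (nat_lit 78) (nat_lit 228) (nat_lit 0) (XT.lf (nat_lit 0) (nat_lit 31431605282) (nat_lit 228) (nat_lit 1143223634) (nat_lit 76) (nat_lit 2313659277) (nat_lit 60) (nat_lit 5) (nat_lit 63) (nat_lit 5) (nat_lit 61) (nat_lit 5) (nat_lit 404) (nat_lit 323) (nat_lit 173)) (XT.lf (nat_lit 0) (nat_lit 3887946997) (nat_lit 228) (nat_lit 19261475069) (nat_lit 76) (nat_lit 12478063532) (nat_lit 57) (nat_lit 5) (nat_lit 60) (nat_lit 5) (nat_lit 58) (nat_lit 5) (nat_lit 405) (nat_lit 323) (nat_lit 172))) (XT.nd (nat_lit 78) (nat_lit 152) (nat_lit 0) (XT.lf (nat_lit 0) (nat_lit 11388438332) (nat_lit 228) (nat_lit 2010510675) (nat_lit 76) (nat_lit 22988534834) (nat_lit 57) (nat_lit 5) (nat_lit 60) (nat_lit 5) (nat_lit 58) (nat_lit 5) (nat_lit 406) (nat_lit 323) (nat_lit 171)) (XT.lf (nat_lit 0) (nat_lit 16059893386)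 (nat_lit 152) (nat_lit 3201766244) (nat_lit 228) (nat_lit 17904192504) (nat_lit 55) (nat_lit 5) (nat_lit 57) (nat_lit 5) (nat_lit 58) (nat_lit 5) (nat_lit 407) (nat_lit 323) (nat_lit 170)))))) (XT.nd (nat_lit 546) (nat_lit 532) (nat_lit 0) (XT.nd (nat_lit 234) (nat_lit 304) (nat_lit 0) (XT.nd (nat_lit 78) (nat_lit 228) (nat_lit 0) (XT.lf (nat_lit 0) (nat_lit 27455142186) (nat_lit 228) (nat_lit 3335241184) (nat_lit 76) (nat_lit 7174667682) (nat_lit 55) (nat_lit 5) (nat_lit 58) (nat_lit 5) (nat_lit 56) (nat_lit 5) (nat_lit 408) (nat_lit 323) (nat_lit 169)) (XT.nd (nat_lit 78) (nat_lit 76) (nat_lit 0) (XT.lf (nat_lit 0) (nat_lit 15222767736) (nat_lit 152) (nat_lit 20843262130) (nat_lit 228) (nat_lit 2717049524) (nat_lit 53) (nat_lit 5) (nat_lit 55) (nat_lit 5) (nat_lit 56) (nat_lit 5) (nat_lit 409) (nat_lit 323) (nat_lit 168)) (XT.lf (nat_lit 0) (nat_lit 5233585166) (nat_lit 228) (nat_lit 5281324602) (nat_lit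 76) (nat_lit 29108381054) (nat_lit 52) (nat_lit 5) (nat_lit 55) (nat_lit 5) (nat_lit 53) (nat_lit 5) (nat_lit 410) (nat_lit 323) (nat_lit 167)))) (XT.nd (nat_lit 156) (nat_lit 152) (nat_lit 0) (XT.nd (nat_lit 78) (nat_lit 0) (nat_lit 0) (XT.lf (nat_lit 0) (nat_lit 13497053725) (nat_lit 228) (nat_lit 26709737156) (nat_lit 76) (nat_lit 277244274) (nat_lit 50) (nat_lit 5) (nat_lit 53) (nat_lit 5) (nat_lit 51) (nat_lit 5) (nat_lit 411) (nat_lit 323) (nat_lit 166)) (XT.lf (nat_lit 0) (nat_lit 22160199754) (nat_lit 228) (nat_lit 7974695221) (nat_lit 76) (nat_lit 11231154948) (nat_lit 50) (nat_lit 5) (nat_lit 53) (nat_lit 5) (nat_lit 51) (nat_lit 5) (nat_lit 412) (nat_lit 323) (nat_lit 165))) (XT.nd (nat_lit 78) (nat_lit 0) (nat_lit 0) (XT.lf (nat_lit 0) (nat_lit 11536934296) (nat_lit 152) (nat_lit 19651192677) (nat_lit 228) (nat_lit 11083252823) (nat_lit 48) (nat_lit 5) (nat_lit 50) (nat_lit 5) (nat_lit 51) (nat_lit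 5) (nat_lit 413) (nat_lit 323) (nat_lit 164)) (XT.lf (nat_lit 0) (nat_lit 31786899147) (nat_lit 152) (nat_lit 8774582726) (nat_lit 228) (nat_lit 2640151230) (nat_lit 48) (nat_lit 5) (nat_lit 50) (nat_lit 5) (nat_lit 51) (nat_lit 5) (nat_lit 414) (nat_lit 323) (nat_lit 163))))) (XT.nd (nat_lit 234) (nat_lit 152) (nat_lit 0) (XT.nd (nat_lit 78) (nat_lit 152) (nat_lit 0) (XT.lf (nat_lit 0) (nat_lit 6039443289) (nat_lit 228) (nat_lit 35596890987) (nat_lit 76) (nat_lit 2518673032) (nat_lit 45) (nat_lit 5) (nat_lit 48) (nat_lit 5) (nat_lit 46) (nat_lit 5) (nat_lit 415) (nat_lit 323) (nat_lit 162)) (XT.nd (nat_lit 78) (nat_lit 152) (nat_lit 0) (XT.lf (nat_lit 0) (nat_lit 15123850634) (nat_lit 228) (nat_lit 15893868828) (nat_lit 76) (nat_lit 14112555519) (nat_lit 45) (nat_lit 5) (nat_lit 48) (nat_lit 5) (nat_lit 46) (nat_lit 5) (nat_lit 416) (nat_lit 323) (nat_lit 161)) (XT.lf (nat_lit 0) (nat_lit 4477590115) (nat_lit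 152) (nat_lit 20040614893) (nat_lit 228) (nat_lit 21615474328) (nat_lit 43) (nat_lit 5) (nat_lit 45) (nat_lit 5) (nat_lit 46) (nat_lit 5) (nat_lit 417) (nat_lit 323) (nat_lit 160)))) (XT.nd (nat_lit 156) (nat_lit 152) (nat_lit 0) (XT.nd (nat_lit 78) (nat_lit 0) (nat_lit 0) (XT.lf (nat_lit 0) (nat_lit 25776072078) (nat_lit 152) (nat_lit 8573256750) (nat_lit 228) (nat_lit 12813209890) (nat_lit 43) (nat_lit 5) (nat_lit 45) (nat_lit 5) (nat_lit 46) (nat_lit 5) (nat_lit 418) (nat_lit 323) (nat_lit 159)) (XT.lf (nat_lit 0) (nat_lit 44501076168) (nat_lit 228) (nat_lit 549644583) (nat_lit 76) (nat_lit 3170773467) (nat_lit 43) (nat_lit 5) (nat_lit 46) (nat_lit 5) (nat_lit 44) (nat_lit 4) (nat_lit 419) (nat_lit 323) (nat_lit 158))) (XT.nd (nat_lit 78) (nat_lit 0) (nat_lit 0) (XT.lf (nat_lit 0) (nat_lit 5821510479) (nat_lit 152) (nat_lit 28128544160) (nat_lit 76) (nat_lit 15351941468) (nat_lit 41) (nat_lit 5) (nat_lit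 43) (nat_lit 5) (nat_lit 42) (nat_lit 5) (nat_lit 420) (nat_lit 323) (nat_lit 157)) (XT.lf (nat_lit 0) (nat_lit 15575257730) (nat_lit 152) (nat_lit 6901619677) (nat_lit 76) (nat_lit 27936921386) (nat_lit 41) (nat_lit 5) (nat_lit 43) (nat_lit 5) (nat_lit 42) (nat_lit 5) (nat_lit 421) (nat_lit 323) (nat_lit 156))))))))
noncomputable def xc164 : XT := (XT.nd (nat_lit 39780) (nat_lit 0) (nat_lit 10640) (XT.nd (nat_lit 1014) (nat_lit 380) (nat_lit 0) (XT.nd (nat_lit 468) (nat_lit 380) (nat_lit 0) (XT.nd (nat_lit 234) (nat_lit 228) (nat_lit 0) (XT.nd (nat_lit 78) (nat_lit 76) (nat_lit 0) (XT.lf (nat_lit 0) (nat_lit 15250490055) (nat_lit 152) (nat_lit 10512610107) (nat_lit 228) (nat_lit 25791611831) (nat_lit 39) (nat_lit 5) (nat_lit 41) (nat_lit 5) (nat_lit 42) (nat_lit 5) (nat_lit 422) (nat_lit 323) (nat_lit 155)) (XT.nd (nat_lit 78) (nat_lit 76) (nat_lit 0) (XT.lf (nat_lit 0) (nat_lit 36339273019) (nat_lit 228)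 (nat_lit 14546454252) (nat_lit 76) (nat_lit 1841645354) (nat_lit 39) (nat_lit 5) (nat_lit 42) (nat_lit 5) (nat_lit 40) (nat_lit 4) (nat_lit 423) (nat_lit 323) (nat_lit 154)) (XT.lf (nat_lit 0) (nat_lit 7905252741) (nat_lit 76) (nat_lit 39502609852) (nat_lit 152) (nat_lit 6522097399) (nat_lit 38) (nat_lit 5) (nat_lit 39) (nat_lit 5) (nat_lit 40) (nat_lit 4) (nat_lit 424) (nat_lit 323) (nat_lit 153)))) (XT.nd (nat_lit 78) (nat_lit 152) (nat_lit 0) (XT.lf (nat_lit 0) (nat_lit 3712268236) (nat_lit 152) (nat_lit 23880941953) (nat_lit 76) (nat_lit 27570063624) (nat_lit 37) (nat_lit 5) (nat_lit 39) (nat_lit 5) (nat_lit 38) (nat_lit 5) (nat_lit 425) (nat_lit 323) (nat_lit 152)) (XT.nd (nat_lit 78) (nat_lit 152) (nat_lit 0) (XT.lf (nat_lit 0) (nat_lit 14117786459) (nat_lit 152) (nat_lit 1146156901) (nat_lit 76) (nat_lit 41167850942) (nat_lit 37) (nat_lit 5) (nat_lit 39) (nat_lit 5) (nat_lit 38) (nat_lit 5) (nat_lit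 426) (nat_lit 323) (nat_lit 151)) (XT.lf (nat_lit 0) (nat_lit 22705269224) (nat_lit 152) (nat_lit 2343806796) (nat_lit 228) (nat_lit 32682886979) (nat_lit 35) (nat_lit 5) (nat_lit 37) (nat_lit 5) (nat_lit 38) (nat_lit 5) (nat_lit 427) (nat_lit 323) (nat_lit 150))))) (XT.nd (nat_lit 234) (nat_lit 304) (nat_lit 0) (XT.nd (nat_lit 78) (nat_lit 76) (nat_lit 0) (XT.lf (nat_lit 0) (nat_lit 36420752217) (nat_lit 228) (nat_lit 11889046277) (nat_lit 76) (nat_lit 10757965570) (nat_lit 35) (nat_lit 5) (nat_lit 38) (nat_lit 5) (nat_lit 36) (nat_lit 4) (nat_lit 428) (nat_lit 323) (nat_lit 149)) (XT.nd (nat_lit 78) (nat_lit 0) (nat_lit 0) (XT.lf (nat_lit 0) (nat_lit 12148346389) (nat_lit 76) (nat_lit 36120717963) (nat_lit 152) (nat_lit 12170510963) (nat_lit 34) (nat_lit 5) (nat_lit 35) (nat_lit 5) (nat_lit 36) (nat_lit 4) (nat_lit 429) (nat_lit 323) (nat_lit 148)) (XT.lf (nat_lit 0) (nat_lit 37142419133) (nat_lit 76)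 (nat_lit 23446017687) (nat_lit 152) (nat_lit 1260636456) (nat_lit 34) (nat_lit 5) (nat_lit 35) (nat_lit 5) (nat_lit 36) (nat_lit 4) (nat_lit 430) (nat_lit 323) (nat_lit 147)))) (XT.nd (nat_lit 156) (nat_lit 76) (nat_lit 0) (XT.nd (nat_lit 78) (nat_lit 152) (nat_lit 0) (XT.lf (nat_lit 0) (nat_lit 9777497151) (nat_lit 152) (nat_lit 518448041) (nat_lit 76) (nat_lit 53002165401) (nat_lit 33) (nat_lit 5) (nat_lit 35) (nat_lit 5) (nat_lit 34) (nat_lit 5) (nat_lit 431) (nat_lit 323) (nat_lit 146)) (XT.lf (nat_lit 0) (nat_lit 21389860657) (nat_lit 228) (nat_lit 39956622670) (nat_lit 76) (nat_lit 3435709195) (nat_lit 31) (nat_lit 5) (nat_lit 34) (nat_lit 5) (nat_lit 32) (nat_lit 4) (nat_lit 432) (nat_lit 323) (nat_lit 145))) (XT.nd (nat_lit 78) (nat_lit 76) (nat_lit 0) (XT.lf (nat_lit 0) (nat_lit 33453605722) (nat_lit 228) (nat_lit 15479884120) (nat_lit 76) (nat_lit 17374217371) (nat_lit 31) (nat_lit 5) (nat_lit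 34) (nat_lit 5) (nat_lit 32) (nat_lit 4) (nat_lit 433) (nat_lit 323) (nat_lit 144)) (XT.lf (nat_lit 0) (nat_lit 9917113695) (nat_lit 76) (nat_lit 36053385078) (nat_lit 152) (nat_lit 21905752109) (nat_lit 30) (nat_lit 5) (nat_lit 31) (nat_lit 5) (nat_lit 32) (nat_lit 4) (nat_lit 434) (nat_lit 323) (nat_lit 143)))))) (XT.nd (nat_lit 38220) (nat_lit 0) (nat_lit 17632) (XT.nd (nat_lit 234) (nat_lit 152) (nat_lit 0) (XT.nd (nat_lit 78) (nat_lit 228) (nat_lit 0) (XT.lf (nat_lit 0) (nat_lit 36385856528) (nat_lit 76) (nat_lit 22629312099) (nat_lit 152) (nat_lit 10472114722) (nat_lit 30) (nat_lit 5) (nat_lit 31) (nat_lit 5) (nat_lit 32) (nat_lit 4) (nat_lit 435) (nat_lit 323) (nat_lit 142)) (XT.nd (nat_lit 78) (nat_lit 152) (nat_lit 0) (XT.lf (nat_lit 0) (nat_lit 1275107607) (nat_lit 152) (nat_lit 7517873916) (nat_lit 76) (nat_lit 62353408664) (nat_lit 29) (nat_lit 5) (nat_lit 31) (nat_lit 5) (nat_lit 30) (nat_lit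 5) (nat_lit 436) (nat_lit 323) (nat_lit 141)) (XT.lf (nat_lit 0) (nat_lit 13399249823) (nat_lit 228) (nat_lit 53807073165) (nat_lit 76) (nat_lit 5638787780) (nat_lit 27) (nat_lit 5) (nat_lit 30) (nat_lit 5) (nat_lit 28) (nat_lit 4) (nat_lit 437) (nat_lit 323) (nat_lit 140)))) (XT.nd (nat_lit 234) (nat_lit 152) (nat_lit 0) (XT.lf (nat_lit 0) (nat_lit 26047003458) (nat_lit 228) (nat_lit 28142739130) (nat_lit 76) (nat_lit 20400254288) (nat_lit 27) (nat_lit 5) (nat_lit 30) (nat_lit 5) (nat_lit 28) (nat_lit 4) (nat_lit 438) (nat_lit 323) (nat_lit 139)) (XT.nd (nat_lit 78) (nat_lit 76) (nat_lit 0) (XT.lf (nat_lit 0) (nat_lit 54586434767) (nat_lit 76) (nat_lit 12228634556) (nat_lit 152) (nat_lit 13314927045) (nat_lit 26) (nat_lit 5) (nat_lit 27) (nat_lit 5) (nat_lit 28) (nat_lit 4) (nat_lit 441) (nat_lit 323) (nat_lit 136)) (XT.lf (nat_lit 0) (nat_lit 1944515881) (nat_lit 76) (nat_lit 79418333649) (nat_lit 76)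 (nat_lit 721654896) (nat_lit 25) (nat_lit 4) (nat_lit 26) (nat_lit 5) (nat_lit 26) (nat_lit 4) (nat_lit 442) (nat_lit 323) (nat_lit 135))))) (XT.nd (nat_lit 234) (nat_lit 988) (nat_lit 0) (XT.nd (nat_lit 78) (nat_lit 0) (nat_lit 0) (XT.lf (nat_lit 0) (nat_lit 1324529890) (nat_lit 0) (nat_lit 1324529890) (nat_lit 988) (nat_lit 1810219729) (nat_lit 270) (nat_lit 5) (nat_lit 270) (nat_lit 3) (nat_lit 283) (nat_lit 3) (nat_lit 324) (nat_lit 324) (nat_lit 252)) (XT.nd (nat_lit 78) (nat_lit 0) (nat_lit 0) (XT.lf (nat_lit 0) (nat_lit 6279553300) (nat_lit 988) (nat_lit 2029990117) (nat_lit 1064) (nat_lit 715091768) (nat_lit 270) (nat_lit 5) (nat_lit 283) (nat_lit 3) (nat_lit 284) (nat_lit 5) (nat_lit 325) (nat_lit 324) (nat_lit 251)) (XT.lf (nat_lit 76) (nat_lit 2337382181) (nat_lit 0) (nat_lit 4966984961) (nat_lit 1064) (nat_lit 1829133492) (nat_lit 271) (nat_lit 5) (nat_lit 270) (nat_lit 5) (nat_lit 284) (nat_lit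 5) (nat_lit 326) (nat_lit 324) (nat_lit 250)))) (XT.nd (nat_lit 156) (nat_lit 0) (nat_lit 0) (XT.nd (nat_lit 78) (nat_lit 988) (nat_lit 0) (XT.lf (nat_lit 76) (nat_lit 6858867308) (nat_lit 0) (nat_lit 1487631818) (nat_lit 1064) (nat_lit 899560087) (nat_lit 271) (nat_lit 5) (nat_lit 270) (nat_lit 5) (nat_lit 284) (nat_lit 5) (nat_lit 327) (nat_lit 324) (nat_lit 249)) (XT.lf (nat_lit 0) (nat_lit 64915752) (nat_lit 1064) (nat_lit 7205608811) (nat_lit 1140) (nat_lit 2091231913) (nat_lit 257) (nat_lit 5) (nat_lit 271) (nat_lit 5) (nat_lit 272) (nat_lit 5) (nat_lit 328) (nat_lit 324) (nat_lit 248))) (XT.nd (nat_lit 78) (nat_lit 0) (nat_lit 76) (XT.lf (nat_lit 0) (nat_lit 1046959364) (nat_lit 1064) (nat_lit 2638969150) (nat_lit 1140) (nat_lit 5794549843) (nat_lit 257) (nat_lit 5) (nat_lit 271) (nat_lit 5) (nat_lit 272) (nat_lit 5) (nat_lit 329) (nat_lit 324) (nat_lit 247)) (XT.lf (nat_lit 0) (nat_lit 2047479210)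 (nat_lit 1064) (nat_lit 7517164534) (nat_lit 1140) (nat_lit 38469362) (nat_lit 258) (nat_lit 5) (nat_lit 272) (nat_lit 5) (nat_lit 273) (nat_lit 5) (nat_lit 330) (nat_lit 324) (nat_lit 246))))))) (XT.nd (nat_lit 1014) (nat_lit 5092) (nat_lit 0) (XT.nd (nat_lit 468) (nat_lit 1976) (nat_lit 0) (XT.nd (nat_lit 234) (nat_lit 0) (nat_lit 76) (XT.nd (nat_lit 78) (nat_lit 0) (nat_lit 0) (XT.lf (nat_lit 0) (nat_lit 3110851351) (nat_lit 1064) (nat_lit 2778588636) (nat_lit 1140) (nat_lit 3839022837) (nat_lit 258) (nat_lit 5) (nat_lit 272) (nat_lit 5) (nat_lit 273) (nat_lit 5) (nat_lit 331) (nat_lit 324) (nat_lit 245)) (XT.nd (nat_lit 78) (nat_lit 0) (nat_lit 76) (XT.lf (nat_lit 76) (nat_lit 2124263450) (nat_lit 0) (nat_lit 2072601408) (nat_lit 1140) (nat_lit 5661006384) (nat_lit 259) (nat_lit 5) (nat_lit 258) (nat_lit 5) (nat_lit 273) (nat_lit 5) (nat_lit 332) (nat_lit 324) (nat_lit 244)) (XT.lf (nat_lit 0) (nat_lit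 5332757896) (nat_lit 1064) (nat_lit 2797434004) (nat_lit 1140) (nat_lit 1860470861) (nat_lit 259) (nat_lit 5) (nat_lit 273) (nat_lit 5) (nat_lit 274) (nat_lit 5) (nat_lit 333) (nat_lit 324) (nat_lit 243)))) (XT.nd (nat_lit 78) (nat_lit 0) (nat_lit 0) (XT.lf (nat_lit 76) (nat_lit 2291477314) (nat_lit 0) (nat_lit 4225735824) (nat_lit 1140) (nat_lit 3609809568) (nat_lit 260) (nat_lit 5) (nat_lit 259) (nat_lit 5) (nat_lit 274) (nat_lit 5) (nat_lit 334) (nat_lit 324) (nat_lit 242)) (XT.nd (nat_lit 78) (nat_lit 0) (nat_lit 76) (XT.lf (nat_lit 76) (nat_lit 7571050362) (nat_lit 0) (nat_lit 166969150) (nat_lit 1140) (nat_lit 2529448098) (nat_lit 260) (nat_lit 5) (nat_lit 259) (nat_lit 5) (nat_lit 274) (nat_lit 5) (nat_lit 335) (nat_lit 324) (nat_lit 241)) (XT.lf (nat_lit 76) (nat_lit 2589148366) (nat_lit 0) (nat_lit 6443214241) (nat_lit 1140) (nat_lit 1378674015) (nat_lit 261) (nat_lit 5) (nat_lit 260) (nat_lit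 5) (nat_lit 275) (nat_lit 5) (nat_lit 336) (nat_lit 324) (nat_lit 240))))) (XT.nd (nat_lit 234) (nat_lit 1064) (nat_lit 0) (XT.nd (nat_lit 78) (nat_lit 1064) (nat_lit 0) (XT.lf (nat_lit 76) (nat_lit 8067382546) (nat_lit 0) (nat_lit 2301048368) (nat_lit 1140) (nat_lit 190412554) (nat_lit 261) (nat_lit 5) (nat_lit 260) (nat_lit 5) (nat_lit 275) (nat_lit 5) (nat_lit 337) (nat_lit 324) (nat_lit 239)) (XT.nd (nat_lit 78) (nat_lit 0) (nat_lit 0) (XT.lf (nat_lit 0) (nat_lit 1036298834) (nat_lit 1140) (nat_lit 7701430083) (nat_lit 1216) (nat_lit 1972385084) (nat_lit 246) (nat_lit 5) (nat_lit 261) (nat_lit 5) (nat_lit 262) (nat_lit 5) (nat_lit 338) (nat_lit 324) (nat_lit 238)) (XT.lf (nat_lit 0) (nat_lit 2319306151) (nat_lit 1140) (nat_lit 2185249432) (nat_lit 1216) (nat_lit 6360626974) (nat_lit 246) (nat_lit 5) (nat_lit 261) (nat_lit 5) (nat_lit 262) (nat_lit 5) (nat_lit 339) (nat_lit 324) (nat_lit 237)))) (XT.nd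 (nat_lit 156) (nat_lit 1064) (nat_lit 0) (XT.nd (nat_lit 78) (nat_lit 0) (nat_lit 76) (XT.lf (nat_lit 76) (nat_lit 3546128819) (nat_lit 0) (nat_lit 104617831) (nat_lit 1216) (nat_lit 7373873879) (nat_lit 247) (nat_lit 5) (nat_lit 246) (nat_lit 5) (nat_lit 262) (nat_lit 5) (nat_lit 340) (nat_lit 324) (nat_lit 236)) (XT.lf (nat_lit 0) (nat_lit 5063388487) (nat_lit 1140) (nat_lit 1756772490) (nat_lit 76) (nat_lit 4367458108) (nat_lit 247) (nat_lit 5) (nat_lit 262) (nat_lit 5) (nat_lit 248) (nat_lit 5) (nat_lit 341) (nat_lit 324) (nat_lit 235))) (XT.nd (nat_lit 78) (nat_lit 0) (nat_lit 0) (XT.lf (nat_lit 0) (nat_lit 4198004785) (nat_lit 1140) (nat_lit 2338896169) (nat_lit 1216) (nat_lit 4818066653) (nat_lit 232) (nat_lit 5) (nat_lit 247) (nat_lit 5) (nat_lit 248) (nat_lit 5) (nat_lit 342) (nat_lit 324) (nat_lit 234)) (XT.lf (nat_lit 0) (nat_lit 8072033883) (nat_lit 1216) (nat_lit 1201430470) (nat_lit 76) (nat_lit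 2253364098) (nat_lit 232) (nat_lit 5) (nat_lit 248) (nat_lit 5) (nat_lit 233) (nat_lit 5) (nat_lit 343) (nat_lit 324) (nat_lit 233)))))) (XT.nd (nat_lit 546) (nat_lit 2052) (nat_lit 0) (XT.nd (nat_lit 234) (nat_lit 1140) (nat_lit 0) (XT.nd (nat_lit 78) (nat_lit 684) (nat_lit 0) (XT.lf (nat_lit 0) (nat_lit 4987515560) (nat_lit 1216) (nat_lit 4715071142) (nat_lit 1292) (nat_lit 1999791343) (nat_lit 216) (nat_lit 5) (nat_lit 232) (nat_lit 5) (nat_lit 233) (nat_lit 5) (nat_lit 344) (nat_lit 324) (nat_lit 232)) (XT.nd (nat_lit 78) (nat_lit 684) (nat_lit 0) (XT.lf (nat_lit 0) (nat_lit 11367529205) (nat_lit 1216) (nat_lit 5372661) (nat_lit 1292) (nat_lit 510580384) (nat_lit 216) (nat_lit 5) (nat_lit 232) (nat_lit 5) (nat_lit 233) (nat_lit 5) (nat_lit 345) (nat_lit 324) (nat_lit 231)) (XT.lf (nat_lit 0) (nat_lit 1086969974) (nat_lit 684) (nat_lit 6159689479) (nat_lit 76) (nat_lit 4820568808) (nat_lit 207) (nat_lit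 5) (nat_lit 216) (nat_lit 5) (nat_lit 208) (nat_lit 5) (nat_lit 346) (nat_lit 324) (nat_lit 230)))) (XT.nd (nat_lit 156) (nat_lit 608) (nat_lit 0) (XT.nd (nat_lit 78) (nat_lit 0) (nat_lit 0) (XT.lf (nat_lit 0) (nat_lit 258311183) (nat_lit 532) (nat_lit 2451229000) (nat_lit 608) (nat_lit 9547186498) (nat_lit 200) (nat_lit 5) (nat_lit 207) (nat_lit 5) (nat_lit 208) (nat_lit 5) (nat_lit 347) (nat_lit 324) (nat_lit 229)) (XT.lf (nat_lit 0) (nat_lit 4447494286) (nat_lit 608) (nat_lit 5499435919) (nat_lit 76) (nat_lit 2502990636) (nat_lit 200) (nat_lit 5) (nat_lit 208) (nat_lit 5) (nat_lit 201) (nat_lit 5) (nat_lit 348) (nat_lit 324) (nat_lit 228))) (XT.nd (nat_lit 78) (nat_lit 0) (nat_lit 0) (XT.lf (nat_lit 0) (nat_lit 1173750758) (nat_lit 608) (nat_lit 5079945315) (nat_lit 684) (nat_lit 6394743125) (nat_lit 192) (nat_lit 5) (nat_lit 200) (nat_lit 5) (nat_lit 201) (nat_lit 5) (nat_lit 349) (nat_lit 324) (nat_lit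 227)) (XT.lf (nat_lit 0) (nat_lit 8140659446) (nat_lit 608) (nat_lit 9896327) (nat_lit 684) (nat_lit 4701274479) (nat_lit 192) (nat_lit 5) (nat_lit 200) (nat_lit 5) (nat_lit 201) (nat_lit 5) (nat_lit 350) (nat_lit 324) (nat_lit 226))))) (XT.nd (nat_lit 234) (nat_lit 912) (nat_lit 0) (XT.nd (nat_lit 78) (nat_lit 608) (nat_lit 0) (XT.lf (nat_lit 0) (nat_lit 2229441377) (nat_lit 532) (nat_lit 7927906200) (nat_lit 608) (nat_lit 2902395647) (nat_lit 185) (nat_lit 5) (nat_lit 192) (nat_lit 5) (nat_lit 193) (nat_lit 5) (nat_lit 351) (nat_lit 324) (nat_lit 225)) (XT.nd (nat_lit 78) (nat_lit 608) (nat_lit 0) (XT.lf (nat_lit 0) (nat_lit 9455722697) (nat_lit 532) (nat_lit 2798139427) (nat_lit 608) (nat_lit 1019156547) (nat_lit 185) (nat_lit 5) (nat_lit 192) (nat_lit 5) (nat_lit 193) (nat_lit 5) (nat_lit 352) (nat_lit 324) (nat_lit 224)) (XT.lf (nat_lit 0) (nat_lit 942228100) (nat_lit 608) (nat_lit 10070621572) (nat_lit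 76) (nat_lit 2478398908) (nat_lit 177) (nat_lit 5) (nat_lit 185) (nat_lit 5) (nat_lit 178) (nat_lit 5) (nat_lit 353) (nat_lit 324) (nat_lit 223)))) (XT.nd (nat_lit 156) (nat_lit 456) (nat_lit 0) (XT.nd (nat_lit 78) (nat_lit 456) (nat_lit 0) (XT.lf (nat_lit 0) (nat_lit 2991123942) (nat_lit 608) (nat_lit 2818278965) (nat_lit 76) (nat_lit 7904854902) (nat_lit 177) (nat_lit 5) (nat_lit 185) (nat_lit 5) (nat_lit 178) (nat_lit 5) (nat_lit 354) (nat_lit 324) (nat_lit 222)) (XT.lf (nat_lit 0) (nat_lit 4725226680) (nat_lit 456) (nat_lit 404711342) (nat_lit 532) (nat_lit 8813175218) (nat_lit 171) (nat_lit 5) (nat_lit 177) (nat_lit 5) (nat_lit 178) (nat_lit 5) (nat_lit 355) (nat_lit 324) (nat_lit 221))) (XT.nd (nat_lit 78) (nat_lit 456) (nat_lit 0) (XT.lf (nat_lit 0) (nat_lit 7394608474) (nat_lit 532) (nat_lit 1693996996) (nat_lit 76) (nat_lit 5088387296) (nat_lit 171) (nat_lit 5) (nat_lit 178) (nat_lit 5) (nat_lit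 172) (nat_lit 5) (nat_lit 356) (nat_lit 324) (nat_lit 220)) (XT.lf (nat_lit 0) (nat_lit 6153303828) (nat_lit 456) (nat_lit 3620886739) (nat_lit 532) (nat_lit 4642297889) (nat_lit 165) (nat_lit 5) (nat_lit 171) (nat_lit 5) (nat_lit 172) (nat_lit 5) (nat_lit 357) (nat_lit 324) (nat_lit 219))))))))
noncomputable def xc165 : XT := (XT.nd (nat_lit 2028) (nat_lit 3192) (nat_lit 0) (XT.nd (nat_lit 1014) (nat_lit 2356) (nat_lit 0) (XT.nd (nat_lit 468) (nat_lit 1596) (nat_lit 0) (XT.nd (nat_lit 234) (nat_lit 380) (nat_lit 0) (XT.nd (nat_lit 78) (nat_lit 988) (nat_lit 0) (XT.lf (nat_lit 0) (nat_lit 12245854751) (nat_lit 532) (nat_lit 430060459) (nat_lit 76) (nat_lit 1986641629) (nat_lit 165) (nat_lit 5) (nat_lit 172) (nat_lit 5) (nat_lit 166) (nat_lit 5) (nat_lit 358) (nat_lit 324) (nat_lit 218)) (XT.nd (nat_lit 78) (nat_lit 532) (nat_lit 0) (XT.lf (nat_lit 0) (nat_lit 7735034220) (nat_lit 456) (nat_lit 7151391858)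 (nat_lit 532) (nat_lit 26746891) (nat_lit 159) (nat_lit 5) (nat_lit 165) (nat_lit 5) (nat_lit 166) (nat_lit 5) (nat_lit 359) (nat_lit 324) (nat_lit 217)) (XT.lf (nat_lit 0) (nat_lit 959753037) (nat_lit 456) (nat_lit 1425923914) (nat_lit 532) (nat_lit 12784987872) (nat_lit 152) (nat_lit 5) (nat_lit 158) (nat_lit 5) (nat_lit 159) (nat_lit 5) (nat_lit 360) (nat_lit 324) (nat_lit 216)))) (XT.nd (nat_lit 78) (nat_lit 380) (nat_lit 0) (XT.lf (nat_lit 0) (nat_lit 4971035771) (nat_lit 532) (nat_lit 6007242079) (nat_lit 76) (nat_lit 4454570340) (nat_lit 152) (nat_lit 5) (nat_lit 159) (nat_lit 5) (nat_lit 153) (nat_lit 5) (nat_lit 361) (nat_lit 324) (nat_lit 215)) (XT.nd (nat_lit 78) (nat_lit 0) (nat_lit 0) (XT.lf (nat_lit 0) (nat_lit 2458433186) (nat_lit 380) (nat_lit 5198627623) (nat_lit 456) (nat_lit 8045150558) (nat_lit 147) (nat_lit 5) (nat_lit 152) (nat_lit 5) (nat_lit 153) (nat_lit 5) (nat_lit 362) (nat_lit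 324) (nat_lit 214)) (XT.lf (nat_lit 0) (nat_lit 10477758846) (nat_lit 456) (nat_lit 4702656378) (nat_lit 76) (nat_lit 797624704) (nat_lit 147) (nat_lit 5) (nat_lit 153) (nat_lit 5) (nat_lit 148) (nat_lit 5) (nat_lit 363) (nat_lit 324) (nat_lit 213))))) (XT.nd (nat_lit 234) (nat_lit 684) (nat_lit 0) (XT.nd (nat_lit 78) (nat_lit 456) (nat_lit 0) (XT.lf (nat_lit 0) (nat_lit 4105684419) (nat_lit 456) (nat_lit 9354329763) (nat_lit 532) (nat_lit 2799828116) (nat_lit 141) (nat_lit 5) (nat_lit 147) (nat_lit 5) (nat_lit 148) (nat_lit 5) (nat_lit 364) (nat_lit 324) (nat_lit 212)) (XT.nd (nat_lit 78) (nat_lit 380) (nat_lit 0) (XT.lf (nat_lit 0) (nat_lit 16049728) (nat_lit 532) (nat_lit 3292062525) (nat_lit 76) (nat_lit 13240976830) (nat_lit 140) (nat_lit 5) (nat_lit 147) (nat_lit 5) (nat_lit 141) (nat_lit 5) (nat_lit 365) (nat_lit 324) (nat_lit 211)) (XT.lf (nat_lit 0) (nat_lit 2932268534) (nat_lit 456) (nat_lit 10967581451)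 (nat_lit 76) (nat_lit 2944173951) (nat_lit 135) (nat_lit 5) (nat_lit 141) (nat_lit 5) (nat_lit 136) (nat_lit 5) (nat_lit 366) (nat_lit 324) (nat_lit 210)))) (XT.nd (nat_lit 156) (nat_lit 304) (nat_lit 0) (XT.nd (nat_lit 78) (nat_lit 380) (nat_lit 0) (XT.lf (nat_lit 0) (nat_lit 5988992544) (nat_lit 456) (nat_lit 1809856608) (nat_lit 76) (nat_lit 9347373380) (nat_lit 135) (nat_lit 5) (nat_lit 141) (nat_lit 5) (nat_lit 136) (nat_lit 5) (nat_lit 367) (nat_lit 324) (nat_lit 209)) (XT.lf (nat_lit 0) (nat_lit 7757024706) (nat_lit 380) (nat_lit 1442038967) (nat_lit 456) (nat_lit 8256580129) (nat_lit 130) (nat_lit 5) (nat_lit 135) (nat_lit 5) (nat_lit 136) (nat_lit 5) (nat_lit 368) (nat_lit 324) (nat_lit 208))) (XT.nd (nat_lit 78) (nat_lit 304) (nat_lit 0) (XT.lf (nat_lit 0) (nat_lit 12560226875) (nat_lit 456) (nat_lit 192169149) (nat_lit 76) (nat_lit 5020313886) (nat_lit 130) (nat_lit 5) (nat_lit 136) (nat_lit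 5) (nat_lit 131) (nat_lit 5) (nat_lit 369) (nat_lit 324) (nat_lit 207)) (XT.lf (nat_lit 0) (nat_lit 9759004216) (nat_lit 304) (nat_lit 6358935101) (nat_lit 380) (nat_lit 1978482982) (nat_lit 126) (nat_lit 5) (nat_lit 130) (nat_lit 5) (nat_lit 131) (nat_lit 5) (nat_lit 370) (nat_lit 324) (nat_lit 206)))))) (XT.nd (nat_lit 468) (nat_lit 1216) (nat_lit 0) (XT.nd (nat_lit 234) (nat_lit 380) (nat_lit 0) (XT.nd (nat_lit 78) (nat_lit 304) (nat_lit 0) (XT.lf (nat_lit 0) (nat_lit 1333466158) (nat_lit 456) (nat_lit 16847705756) (nat_lit 76) (nat_lit 248069842) (nat_lit 120) (nat_lit 5) (nat_lit 126) (nat_lit 5) (nat_lit 121) (nat_lit 5) (nat_lit 371) (nat_lit 324) (nat_lit 205)) (XT.nd (nat_lit 78) (nat_lit 304) (nat_lit 0) (XT.lf (nat_lit 0) (nat_lit 4840852798) (nat_lit 456) (nat_lit 6900809161) (nat_lit 76) (nat_lit 7025726076) (nat_lit 120) (nat_lit 5) (nat_lit 126) (nat_lit 5) (nat_lit 121) (nat_lit 5) (nat_lit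 372) (nat_lit 324) (nat_lit 204)) (XT.lf (nat_lit 0) (nat_lit 3394347322) (nat_lit 304) (nat_lit 5079955525) (nat_lit 380) (nat_lit 10640755688) (nat_lit 116) (nat_lit 5) (nat_lit 120) (nat_lit 5) (nat_lit 121) (nat_lit 5) (nat_lit 373) (nat_lit 324) (nat_lit 203)))) (XT.nd (nat_lit 78) (nat_lit 380) (nat_lit 0) (XT.lf (nat_lit 0) (nat_lit 12292613028) (nat_lit 380) (nat_lit 5365596904) (nat_lit 76) (nat_lit 1812678460) (nat_lit 116) (nat_lit 5) (nat_lit 121) (nat_lit 5) (nat_lit 117) (nat_lit 5) (nat_lit 374) (nat_lit 324) (nat_lit 202)) (XT.nd (nat_lit 78) (nat_lit 76) (nat_lit 0) (XT.lf (nat_lit 0) (nat_lit 5337988285) (nat_lit 304) (nat_lit 10977788160) (nat_lit 380) (nat_lit 3518912379) (nat_lit 112) (nat_lit 5) (nat_lit 116) (nat_lit 5) (nat_lit 117) (nat_lit 5) (nat_lit 375) (nat_lit 324) (nat_lit 201)) (XT.lf (nat_lit 0) (nat_lit 288824127) (nat_lit 380) (nat_lit 3754169403) (nat_lit 76) (nat_lit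 16165037831) (nat_lit 111) (nat_lit 5) (nat_lit 116) (nat_lit 5) (nat_lit 112) (nat_lit 5) (nat_lit 376) (nat_lit 324) (nat_lit 200))))) (XT.nd (nat_lit 234) (nat_lit 608) (nat_lit 0) (XT.nd (nat_lit 78) (nat_lit 304) (nat_lit 0) (XT.lf (nat_lit 0) (nat_lit 4231130303) (nat_lit 380) (nat_lit 13215889900) (nat_lit 76) (nat_lit 3141781214) (nat_lit 107) (nat_lit 5) (nat_lit 112) (nat_lit 5) (nat_lit 108) (nat_lit 5) (nat_lit 377) (nat_lit 324) (nat_lit 199)) (XT.nd (nat_lit 78) (nat_lit 304) (nat_lit 0) (XT.lf (nat_lit 0) (nat_lit 8359228234) (nat_lit 380) (nat_lit 2125278903) (nat_lit 76) (nat_lit 10494466021) (nat_lit 107) (nat_lit 5) (nat_lit 112) (nat_lit 5) (nat_lit 108) (nat_lit 5) (nat_lit 378) (nat_lit 324) (nat_lit 198)) (XT.lf (nat_lit 0) (nat_lit 9467476251) (nat_lit 304) (nat_lit 3224222197) (nat_lit 380) (nat_lit 8686739861) (nat_lit 103) (nat_lit 5) (nat_lit 107) (nat_lit 5) (nat_lit 108) (nat_lit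 5) (nat_lit 379) (nat_lit 324) (nat_lit 197)))) (XT.nd (nat_lit 156) (nat_lit 380) (nat_lit 0) (XT.nd (nat_lit 78) (nat_lit 228) (nat_lit 0) (XT.lf (nat_lit 0) (nat_lit 17206342139) (nat_lit 380) (nat_lit 394202185) (nat_lit 76) (nat_lit 4187781126) (nat_lit 103) (nat_lit 5) (nat_lit 108) (nat_lit 5) (nat_lit 104) (nat_lit 5) (nat_lit 380) (nat_lit 324) (nat_lit 196)) (XT.lf (nat_lit 0) (nat_lit 11648454879) (nat_lit 228) (nat_lit 10341802142) (nat_lit 304) (nat_lit 216241129) (nat_lit 100) (nat_lit 5) (nat_lit 103) (nat_lit 5) (nat_lit 104) (nat_lit 5) (nat_lit 381) (nat_lit 324) (nat_lit 195))) (XT.nd (nat_lit 78) (nat_lit 0) (nat_lit 0) (XT.lf (nat_lit 0) (nat_lit 1394356799) (nat_lit 304) (nat_lit 2809997978) (nat_lit 380) (nat_lit 18431408266) (nat_lit 95) (nat_lit 5) (nat_lit 99) (nat_lit 5) (nat_lit 100) (nat_lit 5) (nat_lit 382) (nat_lit 324) (nat_lit 194)) (XT.lf (nat_lit 0) (nat_lit 8898539956)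 (nat_lit 380) (nat_lit 9218852240) (nat_lit 76) (nat_lit 4956093498) (nat_lit 95) (nat_lit 5) (nat_lit 100) (nat_lit 5) (nat_lit 96) (nat_lit 5) (nat_lit 383) (nat_lit 324) (nat_lit 193))))))) (XT.nd (nat_lit 1014) (nat_lit 1368) (nat_lit 0) (XT.nd (nat_lit 468) (nat_lit 988) (nat_lit 0) (XT.nd (nat_lit 234) (nat_lit 304) (nat_lit 0) (XT.nd (nat_lit 78) (nat_lit 304) (nat_lit 0) (XT.lf (nat_lit 0) (nat_lit 3183983004) (nat_lit 228) (nat_lit 10598370202) (nat_lit 304) (nat_lit 9740526208) (nat_lit 92) (nat_lit 5) (nat_lit 95) (nat_lit 5) (nat_lit 96) (nat_lit 5) (nat_lit 384) (nat_lit 324) (nat_lit 192)) (XT.nd (nat_lit 78) (nat_lit 304) (nat_lit 0) (XT.lf (nat_lit 0) (nat_lit 16133320308) (nat_lit 228) (nat_lit 2762967634) (nat_lit 304) (nat_lit 5086962154) (nat_lit 92) (nat_lit 5) (nat_lit 95) (nat_lit 5) (nat_lit 96) (nat_lit 5) (nat_lit 385) (nat_lit 324) (nat_lit 191)) (XT.lf (nat_lit 0) (nat_lit 5046799649)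 (nat_lit 304) (nat_lit 19207116566) (nat_lit 380) (nat_lit 200810686) (nat_lit 88) (nat_lit 5) (nat_lit 92) (nat_lit 5) (nat_lit 93) (nat_lit 5) (nat_lit 386) (nat_lit 324) (nat_lit 190)))) (XT.nd (nat_lit 78) (nat_lit 228) (nat_lit 0) (XT.lf (nat_lit 0) (nat_lit 4835829971) (nat_lit 380) (nat_lit 6535625643) (nat_lit 76) (nat_lit 13564556265) (nat_lit 87) (nat_lit 5) (nat_lit 92) (nat_lit 5) (nat_lit 88) (nat_lit 5) (nat_lit 387) (nat_lit 324) (nat_lit 189)) (XT.nd (nat_lit 78) (nat_lit 0) (nat_lit 0) (XT.lf (nat_lit 0) (nat_lit 6840342175) (nat_lit 228) (nat_lit 3235996643) (nat_lit 304) (nat_lit 15353635778) (nat_lit 84) (nat_lit 5) (nat_lit 87) (nat_lit 5) (nat_lit 88) (nat_lit 5) (nat_lit 388) (nat_lit 324) (nat_lit 188)) (XT.lf (nat_lit 0) (nat_lit 15581286626) (nat_lit 304) (nat_lit 5249385746) (nat_lit 76) (nat_lit 5104870015) (nat_lit 84) (nat_lit 5) (nat_lit 88) (nat_lit 5) (nat_lit 85) (nat_lit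 5) (nat_lit 389) (nat_lit 324) (nat_lit 187))))) (XT.nd (nat_lit 234) (nat_lit 456) (nat_lit 0) (XT.nd (nat_lit 78) (nat_lit 304) (nat_lit 0) (XT.lf (nat_lit 0) (nat_lit 8613441767) (nat_lit 228) (nat_lit 12744167210) (nat_lit 304) (nat_lit 5095484268) (nat_lit 81) (nat_lit 5) (nat_lit 84) (nat_lit 5) (nat_lit 85) (nat_lit 5) (nat_lit 390) (nat_lit 324) (nat_lit 186)) (XT.nd (nat_lit 78) (nat_lit 228) (nat_lit 0) (XT.lf (nat_lit 0) (nat_lit 359741713) (nat_lit 304) (nat_lit 4002135615) (nat_lit 76) (nat_lit 22622854687) (nat_lit 80) (nat_lit 5) (nat_lit 84) (nat_lit 5) (nat_lit 81) (nat_lit 5) (nat_lit 391) (nat_lit 324) (nat_lit 185)) (XT.lf (nat_lit 0) (nat_lit 6010257440) (nat_lit 304) (nat_lit 17181081913) (nat_lit 76) (nat_lit 4335448249) (nat_lit 77) (nat_lit 5) (nat_lit 81) (nat_lit 5) (nat_lit 78) (nat_lit 5) (nat_lit 392) (nat_lit 324) (nat_lit 184)))) (XT.nd (nat_lit 156) (nat_lit 228) (nat_lit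 0) (XT.nd (nat_lit 78) (nat_lit 228) (nat_lit 0) (XT.lf (nat_lit 0) (nat_lit 11906030239) (nat_lit 304) (nat_lit 2934834509) (nat_lit 76) (nat_lit 13241970363) (nat_lit 77) (nat_lit 5) (nat_lit 81) (nat_lit 5) (nat_lit 78) (nat_lit 5) (nat_lit 393) (nat_lit 324) (nat_lit 183)) (XT.lf (nat_lit 0) (nat_lit 11959179493) (nat_lit 228) (nat_lit 6126437073) (nat_lit 304) (nat_lit 10566741699) (nat_lit 74) (nat_lit 5) (nat_lit 77) (nat_lit 5) (nat_lit 78) (nat_lit 5) (nat_lit 394) (nat_lit 324) (nat_lit 182))) (XT.nd (nat_lit 78) (nat_lit 228) (nat_lit 0) (XT.lf (nat_lit 0) (nat_lit 24499954117) (nat_lit 304) (nat_lit 1918638900) (nat_lit 76) (nat_lit 2818895549) (nat_lit 74) (nat_lit 5) (nat_lit 78) (nat_lit 5) (nat_lit 75) (nat_lit 5) (nat_lit 395) (nat_lit 324) (nat_lit 181)) (XT.lf (nat_lit 0) (nat_lit 1426237777) (nat_lit 228) (nat_lit 16359652998) (nat_lit 76) (nat_lit 12048386868) (nat_lit 71) (nat_lit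 5) (nat_lit 74) (nat_lit 5) (nat_lit 72) (nat_lit 5) (nat_lit 396) (nat_lit 324) (nat_lit 180)))))) (XT.nd (nat_lit 546) (nat_lit 684) (nat_lit 0) (XT.nd (nat_lit 234) (nat_lit 456) (nat_lit 0) (XT.nd (nat_lit 78) (nat_lit 228) (nat_lit 0) (XT.lf (nat_lit 0) (nat_lit 7691571946) (nat_lit 228) (nat_lit 1139174100) (nat_lit 76) (nat_lit 21616463262) (nat_lit 71) (nat_lit 5) (nat_lit 74) (nat_lit 5) (nat_lit 72) (nat_lit 5) (nat_lit 397) (nat_lit 324) (nat_lit 179)) (XT.nd (nat_lit 78) (nat_lit 0) (nat_lit 0) (XT.lf (nat_lit 0) (nat_lit 14284941791) (nat_lit 304) (nat_lit 16264950874) (nat_lit 76) (nat_lit 524436084) (nat_lit 68) (nat_lit 5) (nat_lit 72) (nat_lit 5) (nat_lit 69) (nat_lit 5) (nat_lit 398) (nat_lit 324) (nat_lit 178)) (XT.lf (nat_lit 0) (nat_lit 21167743368) (nat_lit 304) (nat_lit 560114293) (nat_lit 76) (nat_lit 9989657230) (nat_lit 68) (nat_lit 5) (nat_lit 72) (nat_lit 5) (nat_lit 69) (nat_lit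 5) (nat_lit 399) (nat_lit 324) (nat_lit 177)))) (XT.nd (nat_lit 156) (nat_lit 228) (nat_lit 0) (XT.nd (nat_lit 78) (nat_lit 76) (nat_lit 0) (XT.lf (nat_lit 0) (nat_lit 15914386265) (nat_lit 152) (nat_lit 12488417841) (nat_lit 228) (nat_lit 3972821233) (nat_lit 66) (nat_lit 5) (nat_lit 68) (nat_lit 5) (nat_lit 69) (nat_lit 5) (nat_lit 400) (nat_lit 324) (nat_lit 176)) (XT.lf (nat_lit 0) (nat_lit 2745302850) (nat_lit 228) (nat_lit 197745883) (nat_lit 76) (nat_lit 30109668414) (nat_lit 65) (nat_lit 5) (nat_lit 68) (nat_lit 5) (nat_lit 66) (nat_lit 5) (nat_lit 401) (nat_lit 324) (nat_lit 175))) (XT.nd (nat_lit 78) (nat_lit 0) (nat_lit 0) (XT.lf (nat_lit 0) (nat_lit 9808103788) (nat_lit 304) (nat_lit 16981415220) (nat_lit 76) (nat_lit 6952734975) (nat_lit 62) (nat_lit 5) (nat_lit 66) (nat_lit 5) (nat_lit 63) (nat_lit 5) (nat_lit 402) (nat_lit 324) (nat_lit 174)) (XT.lf (nat_lit 0) (nat_lit 17107019360) (nat_lit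 304) (nat_lit 261093330) (nat_lit 76) (nat_lit 17083639073) (nat_lit 62) (nat_lit 5) (nat_lit 66) (nat_lit 5) (nat_lit 63) (nat_lit 5) (nat_lit 403) (nat_lit 324) (nat_lit 173))))) (XT.nd (nat_lit 234) (nat_lit 304) (nat_lit 0) (XT.nd (nat_lit 78) (nat_lit 228) (nat_lit 0) (XT.lf (nat_lit 0) (nat_lit 17286755379) (nat_lit 152) (nat_lit 7497594484) (nat_lit 228) (nat_lit 10393402896) (nat_lit 60) (nat_lit 5) (nat_lit 62) (nat_lit 5) (nat_lit 63) (nat_lit 5) (nat_lit 404) (nat_lit 324) (nat_lit 172)) (XT.nd (nat_lit 78) (nat_lit 228) (nat_lit 0) (XT.lf (nat_lit 0) (nat_lit 32713638364) (nat_lit 228) (nat_lit 596199290) (nat_lit 76) (nat_lit 2615048641) (nat_lit 60) (nat_lit 5) (nat_lit 63) (nat_lit 5) (nat_lit 61) (nat_lit 5) (nat_lit 405) (nat_lit 324) (nat_lit 171)) (XT.lf (nat_lit 0) (nat_lit 4342721534) (nat_lit 228) (nat_lit 19256888747) (nat_lit 76) (nat_lit 13086476626) (nat_lit 57) (nat_lit 5) (nat_lit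 60) (nat_lit 5) (nat_lit 58) (nat_lit 5) (nat_lit 406) (nat_lit 324) (nat_lit 170)))) (XT.nd (nat_lit 156) (nat_lit 152) (nat_lit 0) (XT.nd (nat_lit 78) (nat_lit 152) (nat_lit 0) (XT.lf (nat_lit 0) (nat_lit 12058378984) (nat_lit 228) (nat_lit 1505359418) (nat_lit 76) (nat_lit 23905444459) (nat_lit 57) (nat_lit 5) (nat_lit 60) (nat_lit 5) (nat_lit 58) (nat_lit 5) (nat_lit 407) (nat_lit 324) (nat_lit 169)) (XT.lf (nat_lit 0) (nat_lit 17101612974) (nat_lit 152) (nat_lit 3062004496) (nat_lit 228) (nat_lit 18107412357) (nat_lit 55) (nat_lit 5) (nat_lit 57) (nat_lit 5) (nat_lit 58) (nat_lit 5) (nat_lit 408) (nat_lit 324) (nat_lit 168))) (XT.nd (nat_lit 78) (nat_lit 152) (nat_lit 0) (XT.lf (nat_lit 0) (nat_lit 28595665234) (nat_lit 228) (nat_lit 2884372339) (nat_lit 76) (nat_lit 7614386491) (nat_lit 55) (nat_lit 5) (nat_lit 58) (nat_lit 5) (nat_lit 56) (nat_lit 5) (nat_lit 409) (nat_lit 324) (nat_lit 167)) (XT.lf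 (nat_lit 0) (nat_lit 16224975612) (nat_lit 152) (nat_lit 21235918663) (nat_lit 228) (nat_lit 2476220644) (nat_lit 53) (nat_lit 5) (nat_lit 55) (nat_lit 5) (nat_lit 56) (nat_lit 5) (nat_lit 410) (nat_lit 324) (nat_lit 166))))))))
noncomputable def xc166 : XT := (XT.nd (nat_lit 2028) (nat_lit 304) (nat_lit 0) (XT.nd (nat_lit 1014) (nat_lit 684) (nat_lit 0) (XT.nd (nat_lit 468) (nat_lit 456) (nat_lit 0) (XT.nd (nat_lit 234) (nat_lit 380) (nat_lit 0) (XT.nd (nat_lit 78) (nat_lit 152) (nat_lit 0) (XT.lf (nat_lit 0) (nat_lit 5697437715) (nat_lit 228) (nat_lit 4903955444) (nat_lit 76) (nat_lit 30201324731) (nat_lit 52) (nat_lit 5) (nat_lit 55) (nat_lit 5) (nat_lit 53) (nat_lit 5) (nat_lit 411) (nat_lit 324) (nat_lit 165)) (XT.nd (nat_lit 78) (nat_lit 0) (nat_lit 0) (XT.lf (nat_lit 0) (nat_lit 14207160456) (nat_lit 228) (nat_lit 26973506124) (nat_lit 76) (nat_lit 508669400) (nat_lit 50) (nat_lit 5) (nat_lit 53)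 (nat_lit 5) (nat_lit 51) (nat_lit 5) (nat_lit 412) (nat_lit 324) (nat_lit 164)) (XT.lf (nat_lit 0) (nat_lit 23121311688) (nat_lit 228) (nat_lit 7692068944) (nat_lit 76) (nat_lit 11784699109) (nat_lit 50) (nat_lit 5) (nat_lit 53) (nat_lit 5) (nat_lit 51) (nat_lit 5) (nat_lit 413) (nat_lit 324) (nat_lit 163)))) (XT.nd (nat_lit 78) (nat_lit 228) (nat_lit 0) (XT.lf (nat_lit 0) (nat_lit 12399793114) (nat_lit 152) (nat_lit 20016620665) (nat_lit 228) (nat_lit 11114267440) (nat_lit 48) (nat_lit 5) (nat_lit 50) (nat_lit 5) (nat_lit 51) (nat_lit 5) (nat_lit 414) (nat_lit 324) (nat_lit 162)) (XT.nd (nat_lit 78) (nat_lit 228) (nat_lit 0) (XT.lf (nat_lit 0) (nat_lit 33242205917) (nat_lit 152) (nat_lit 8820239826) (nat_lit 228) (nat_lit 2426653857) (nat_lit 48) (nat_lit 5) (nat_lit 50) (nat_lit 5) (nat_lit 51) (nat_lit 5) (nat_lit 415) (nat_lit 324) (nat_lit 161)) (XT.lf (nat_lit 0) (nat_lit 6506193633) (nat_lit 228)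 (nat_lit 36155850328) (nat_lit 76) (nat_lit 2808991023) (nat_lit 45) (nat_lit 5) (nat_lit 48) (nat_lit 5) (nat_lit 46) (nat_lit 5) (nat_lit 416) (nat_lit 324) (nat_lit 160))))) (XT.nd (nat_lit 234) (nat_lit 304) (nat_lit 0) (XT.nd (nat_lit 78) (nat_lit 152) (nat_lit 0) (XT.lf (nat_lit 0) (nat_lit 15854815712) (nat_lit 228) (nat_lit 15876561215) (nat_lit 76) (nat_lit 14744434903) (nat_lit 45) (nat_lit 5) (nat_lit 48) (nat_lit 5) (nat_lit 46) (nat_lit 5) (nat_lit 417) (nat_lit 324) (nat_lit 159)) (XT.nd (nat_lit 78) (nat_lit 0) (nat_lit 0) (XT.lf (nat_lit 0) (nat_lit 5101197147) (nat_lit 152) (nat_lit 20426431592) (nat_lit 228) (nat_lit 21981792305) (nat_lit 43) (nat_lit 5) (nat_lit 45) (nat_lit 5) (nat_lit 46) (nat_lit 5) (nat_lit 418) (nat_lit 324) (nat_lit 158)) (XT.lf (nat_lit 0) (nat_lit 27024382715) (nat_lit 152) (nat_lit 8621326542) (nat_lit 228) (nat_lit 12923677786) (nat_lit 43) (nat_lit 5) (nat_lit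 45) (nat_lit 5) (nat_lit 46) (nat_lit 5) (nat_lit 419) (nat_lit 324) (nat_lit 157)))) (XT.nd (nat_lit 156) (nat_lit 152) (nat_lit 0) (XT.nd (nat_lit 78) (nat_lit 152) (nat_lit 0) (XT.lf (nat_lit 0) (nat_lit 46096216055) (nat_lit 228) (nat_lit 99098925) (nat_lit 76) (nat_lit 3464971498) (nat_lit 43) (nat_lit 5) (nat_lit 46) (nat_lit 5) (nat_lit 44) (nat_lit 4) (nat_lit 420) (nat_lit 324) (nat_lit 156)) (XT.lf (nat_lit 0) (nat_lit 6255724152) (nat_lit 152) (nat_lit 28504731837) (nat_lit 76) (nat_lit 16012766442) (nat_lit 41) (nat_lit 5) (nat_lit 43) (nat_lit 5) (nat_lit 42) (nat_lit 5) (nat_lit 421) (nat_lit 324) (nat_lit 155))) (XT.nd (nat_lit 78) (nat_lit 152) (nat_lit 0) (XT.lf (nat_lit 0) (nat_lit 16294523577) (nat_lit 152) (nat_lit 6654621037) (nat_lit 76) (nat_lit 28969462746) (nat_lit 41) (nat_lit 5) (nat_lit 43) (nat_lit 5) (nat_lit 42) (nat_lit 5) (nat_lit 422) (nat_lit 324) (nat_lit 154)) (XT.lf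 (nat_lit 0) (nat_lit 16157600544) (nat_lit 152) (nat_lit 10627382486) (nat_lit 228) (nat_lit 26308856789) (nat_lit 39) (nat_lit 5) (nat_lit 41) (nat_lit 5) (nat_lit 42) (nat_lit 5) (nat_lit 423) (nat_lit 324) (nat_lit 153)))))) (XT.nd (nat_lit 468) (nat_lit 380) (nat_lit 0) (XT.nd (nat_lit 234) (nat_lit 152) (nat_lit 0) (XT.nd (nat_lit 78) (nat_lit 152) (nat_lit 0) (XT.lf (nat_lit 0) (nat_lit 37673061122) (nat_lit 228) (nat_lit 14540924604) (nat_lit 76) (nat_lit 2087857219) (nat_lit 39) (nat_lit 5) (nat_lit 42) (nat_lit 5) (nat_lit 40) (nat_lit 4) (nat_lit 424) (nat_lit 324) (nat_lit 152)) (XT.nd (nat_lit 78) (nat_lit 76) (nat_lit 0) (XT.lf (nat_lit 0) (nat_lit 8580001017) (nat_lit 76) (nat_lit 40490818322) (nat_lit 152) (nat_lit 6469776506) (nat_lit 38) (nat_lit 5) (nat_lit 39) (nat_lit 5) (nat_lit 40) (nat_lit 4) (nat_lit 425) (nat_lit 324) (nat_lit 151)) (XT.lf (nat_lit 0) (nat_lit 4059699154) (nat_lit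 152) (nat_lit 24167787815) (nat_lit 76) (nat_lit 28583564223) (nat_lit 37) (nat_lit 5) (nat_lit 39) (nat_lit 5) (nat_lit 38) (nat_lit 5) (nat_lit 426) (nat_lit 324) (nat_lit 150)))) (XT.nd (nat_lit 78) (nat_lit 152) (nat_lit 0) (XT.lf (nat_lit 0) (nat_lit 14770507307) (nat_lit 152) (nat_lit 763471319) (nat_lit 76) (nat_lit 42583856073) (nat_lit 37) (nat_lit 5) (nat_lit 39) (nat_lit 5) (nat_lit 38) (nat_lit 5) (nat_lit 427) (nat_lit 324) (nat_lit 149)) (XT.nd (nat_lit 78) (nat_lit 0) (nat_lit 0) (XT.lf (nat_lit 0) (nat_lit 23799408665) (nat_lit 152) (nat_lit 2227621362) (nat_lit 228) (nat_lit 33430060697) (nat_lit 35) (nat_lit 5) (nat_lit 37) (nat_lit 5) (nat_lit 38) (nat_lit 5) (nat_lit 428) (nat_lit 324) (nat_lit 148)) (XT.lf (nat_lit 0) (nat_lit 37735000487) (nat_lit 228) (nat_lit 11839873218) (nat_lit 76) (nat_lit 11258238866) (nat_lit 35) (nat_lit 5) (nat_lit 38) (nat_lit 5) (nat_lit 36) (nat_lit 4)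 (nat_lit 429) (nat_lit 324) (nat_lit 147))))) (XT.nd (nat_lit 234) (nat_lit 228) (nat_lit 0) (XT.nd (nat_lit 78) (nat_lit 76) (nat_lit 0) (XT.lf (nat_lit 0) (nat_lit 12914662361) (nat_lit 76) (nat_lit 37021507486) (nat_lit 152) (nat_lit 12309987116) (nat_lit 34) (nat_lit 5) (nat_lit 35) (nat_lit 5) (nat_lit 36) (nat_lit 4) (nat_lit 430) (nat_lit 324) (nat_lit 146)) (XT.nd (nat_lit 78) (nat_lit 76) (nat_lit 0) (XT.lf (nat_lit 0) (nat_lit 38646852464) (nat_lit 76) (nat_lit 23971891406) (nat_lit 152) (nat_lit 1079388389) (nat_lit 34) (nat_lit 5) (nat_lit 35) (nat_lit 5) (nat_lit 36) (nat_lit 4) (nat_lit 431) (nat_lit 324) (nat_lit 145)) (XT.lf (nat_lit 0) (nat_lit 10279358349) (nat_lit 152) (nat_lit 151022681) (nat_lit 76) (nat_lit 54760385123) (nat_lit 33) (nat_lit 5) (nat_lit 35) (nat_lit 5) (nat_lit 34) (nat_lit 5) (nat_lit 432) (nat_lit 324) (nat_lit 144)))) (XT.nd (nat_lit 156) (nat_lit 76) (nat_lit 0)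 (XT.nd (nat_lit 78) (nat_lit 0) (nat_lit 0) (XT.lf (nat_lit 0) (nat_lit 22239328322) (nat_lit 228) (nat_lit 40771547365) (nat_lit 76) (nat_lit 3708518709) (nat_lit 31) (nat_lit 5) (nat_lit 34) (nat_lit 5) (nat_lit 32) (nat_lit 4) (nat_lit 433) (nat_lit 324) (nat_lit 143)) (XT.lf (nat_lit 0) (nat_lit 34658934132) (nat_lit 228) (nat_lit 15571684541) (nat_lit 76) (nat_lit 18060238298) (nat_lit 31) (nat_lit 5) (nat_lit 34) (nat_lit 5) (nat_lit 32) (nat_lit 4) (nat_lit 434) (nat_lit 324) (nat_lit 142))) (XT.nd (nat_lit 78) (nat_lit 0) (nat_lit 0) (XT.lf (nat_lit 0) (nat_lit 10583570306) (nat_lit 76) (nat_lit 36965434830) (nat_lit 152) (nat_lit 22357522549) (nat_lit 30) (nat_lit 5) (nat_lit 31) (nat_lit 5) (nat_lit 32) (nat_lit 4) (nat_lit 435) (nat_lit 324) (nat_lit 141)) (XT.lf (nat_lit 0) (nat_lit 37835629505) (nat_lit 76) (nat_lit 23143578064) (nat_lit 152) (nat_lit 10586858626) (nat_lit 30) (nat_lit 5) (nat_lit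 31) (nat_lit 5) (nat_lit 32) (nat_lit 4) (nat_lit 436) (nat_lit 324) (nat_lit 140))))))) (XT.nd (nat_lit 38844) (nat_lit 0) (nat_lit 13756) (XT.nd (nat_lit 38298) (nat_lit 0) (nat_lit 17480) (XT.nd (nat_lit 312) (nat_lit 76) (nat_lit 0) (XT.nd (nat_lit 78) (nat_lit 152) (nat_lit 0) (XT.lf (nat_lit 0) (nat_lit 1503193984) (nat_lit 152) (nat_lit 7391841208) (nat_lit 76) (nat_lit 64380025183) (nat_lit 29) (nat_lit 5) (nat_lit 31) (nat_lit 5) (nat_lit 30) (nat_lit 5) (nat_lit 437) (nat_lit 324) (nat_lit 139)) (XT.nd (nat_lit 78) (nat_lit 0) (nat_lit 0) (XT.lf (nat_lit 0) (nat_lit 13990420263) (nat_lit 228) (nat_lit 55069050480) (nat_lit 76) (nat_lit 5965291811) (nat_lit 27) (nat_lit 5) (nat_lit 30) (nat_lit 5) (nat_lit 28) (nat_lit 4) (nat_lit 438) (nat_lit 324) (nat_lit 138)) (XT.lf (nat_lit 0) (nat_lit 27012096032) (nat_lit 228) (nat_lit 28645045692) (nat_lit 76) (nat_lit 21165019583) (nat_lit 27) (nat_lit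 5) (nat_lit 30) (nat_lit 5) (nat_lit 28) (nat_lit 4) (nat_lit 439) (nat_lit 324) (nat_lit 137)))) (XT.nd (nat_lit 37830) (nat_lit 0) (nat_lit 18544) (XT.lf (nat_lit 0) (nat_lit 27114374221) (nat_lit 76) (nat_lit 27374839504) (nat_lit 152) (nat_lit 26083627199) (nat_lit 26) (nat_lit 5) (nat_lit 27) (nat_lit 5) (nat_lit 28) (nat_lit 4) (nat_lit 441) (nat_lit 324) (nat_lit 135)) (XT.nd (nat_lit 78) (nat_lit 0) (nat_lit 0) (XT.lf (nat_lit 0) (nat_lit 1807439999) (nat_lit 0) (nat_lit 1807439999) (nat_lit 988) (nat_lit 950950269) (nat_lit 270) (nat_lit 5) (nat_lit 270) (nat_lit 3) (nat_lit 283) (nat_lit 3) (nat_lit 325) (nat_lit 325) (nat_lit 250)) (XT.lf (nat_lit 0) (nat_lit 8072454528) (nat_lit 0) (nat_lit 109329249) (nat_lit 988) (nat_lit 1060937916) (nat_lit 270) (nat_lit 5) (nat_lit 270) (nat_lit 3) (nat_lit 283) (nat_lit 3) (nat_lit 326) (nat_lit 325) (nat_lit 249))))) (XT.nd (nat_lit 234) (nat_lit 0) (nat_lit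 76) (XT.nd (nat_lit 78) (nat_lit 1064) (nat_lit 0) (XT.lf (nat_lit 76) (nat_lit 3320141225) (nat_lit 0) (nat_lit 5875035528) (nat_lit 1064) (nat_lit 160977347) (nat_lit 271) (nat_lit 5) (nat_lit 270) (nat_lit 5) (nat_lit 284) (nat_lit 5) (nat_lit 327) (nat_lit 325) (nat_lit 248)) (XT.nd (nat_lit 78) (nat_lit 0) (nat_lit 76) (XT.lf (nat_lit 0) (nat_lit 731734955) (nat_lit 1064) (nat_lit 1530069755) (nat_lit 1140) (nat_lit 7211565185) (nat_lit 256) (nat_lit 5) (nat_lit 270) (nat_lit 5) (nat_lit 271) (nat_lit 5) (nat_lit 328) (nat_lit 325) (nat_lit 247)) (XT.lf (nat_lit 0) (nat_lit 1661410972) (nat_lit 1064) (nat_lit 6455192611) (nat_lit 1140) (nat_lit 1477069891) (nat_lit 257) (nat_lit 5) (nat_lit 271) (nat_lit 5) (nat_lit 272) (nat_lit 5) (nat_lit 329) (nat_lit 325) (nat_lit 246)))) (XT.nd (nat_lit 156) (nat_lit 0) (nat_lit 76) (XT.nd (nat_lit 78) (nat_lit 0) (nat_lit 0) (XT.lf (nat_lit 0) (nat_lit 2626472754)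 (nat_lit 1064) (nat_lit 1779706705) (nat_lit 1140) (nat_lit 5311202864) (nat_lit 257) (nat_lit 5) (nat_lit 271) (nat_lit 5) (nat_lit 272) (nat_lit 5) (nat_lit 330) (nat_lit 325) (nat_lit 245)) (XT.lf (nat_lit 76) (nat_lit 3078158359) (nat_lit 0) (nat_lit 542303284) (nat_lit 1140) (nat_lit 6224361952) (nat_lit 258) (nat_lit 5) (nat_lit 257) (nat_lit 5) (nat_lit 272) (nat_lit 5) (nat_lit 331) (nat_lit 325) (nat_lit 244))) (XT.nd (nat_lit 78) (nat_lit 0) (nat_lit 0) (XT.lf (nat_lit 0) (nat_lit 4666647868) (nat_lit 1064) (nat_lit 1909298544) (nat_lit 1140) (nat_lit 3399490185) (nat_lit 258) (nat_lit 5) (nat_lit 272) (nat_lit 5) (nat_lit 273) (nat_lit 5) (nat_lit 332) (nat_lit 325) (nat_lit 243)) (XT.lf (nat_lit 76) (nat_lit 3131299422) (nat_lit 0) (nat_lit 2620413772) (nat_lit 1140) (nat_lit 4358049232) (nat_lit 259) (nat_lit 5) (nat_lit 258) (nat_lit 5) (nat_lit 273) (nat_lit 5) (nat_lit 333) (nat_lit 325)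 (nat_lit 242)))))) (XT.nd (nat_lit 546) (nat_lit 2888) (nat_lit 0) (XT.nd (nat_lit 234) (nat_lit 1064) (nat_lit 0) (XT.nd (nat_lit 78) (nat_lit 0) (nat_lit 0) (XT.lf (nat_lit 0) (nat_lit 6875531094) (nat_lit 1064) (nat_lit 1918423786) (nat_lit 1140) (nat_lit 1453995815) (nat_lit 259) (nat_lit 5) (nat_lit 273) (nat_lit 5) (nat_lit 274) (nat_lit 5) (nat_lit 334) (nat_lit 325) (nat_lit 241)) (XT.nd (nat_lit 78) (nat_lit 0) (nat_lit 0) (XT.lf (nat_lit 76) (nat_lit 3313714350) (nat_lit 0) (nat_lit 4750695749) (nat_lit 1140) (nat_lit 2324952255) (nat_lit 260) (nat_lit 5) (nat_lit 259) (nat_lit 5) (nat_lit 274) (nat_lit 5) (nat_lit 335) (nat_lit 325) (nat_lit 240)) (XT.lf (nat_lit 76) (nat_lit 8723902956) (nat_lit 0) (nat_lit 558568370) (nat_lit 1140) (nat_lit 1252757172) (nat_lit 260) (nat_lit 5) (nat_lit 259) (nat_lit 5) (nat_lit 274) (nat_lit 5) (nat_lit 336) (nat_lit 325) (nat_lit 239)))) (XT.nd (nat_lit 156)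 (nat_lit 0) (nat_lit 76) (XT.nd (nat_lit 78) (nat_lit 1140) (nat_lit 0) (XT.lf (nat_lit 76) (nat_lit 3627016315) (nat_lit 0) (nat_lit 6956027806) (nat_lit 1140) (nat_lit 101064511) (nat_lit 261) (nat_lit 5) (nat_lit 260) (nat_lit 5) (nat_lit 275) (nat_lit 5) (nat_lit 337) (nat_lit 325) (nat_lit 238)) (XT.lf (nat_lit 0) (nat_lit 1063267098) (nat_lit 1140) (nat_lit 1606286621) (nat_lit 1216) (nat_lit 8167626707) (nat_lit 245) (nat_lit 5) (nat_lit 260) (nat_lit 5) (nat_lit 261) (nat_lit 5) (nat_lit 338) (nat_lit 325) (nat_lit 237))) (XT.nd (nat_lit 78) (nat_lit 0) (nat_lit 0) (XT.lf (nat_lit 0) (nat_lit 2292815314) (nat_lit 1140) (nat_lit 6943508585) (nat_lit 1216) (nat_lit 1757536565) (nat_lit 246) (nat_lit 5) (nat_lit 261) (nat_lit 5) (nat_lit 262) (nat_lit 5) (nat_lit 339) (nat_lit 325) (nat_lit 236)) (XT.lf (nat_lit 0) (nat_lit 3578620786) (nat_lit 1140) (nat_lit 1290647303) (nat_lit 1216) (nat_lit 6285406879)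 (nat_lit 246) (nat_lit 5) (nat_lit 261) (nat_lit 5) (nat_lit 262) (nat_lit 5) (nat_lit 340) (nat_lit 325) (nat_lit 235))))) (XT.nd (nat_lit 234) (nat_lit 1900) (nat_lit 0) (XT.nd (nat_lit 78) (nat_lit 1064) (nat_lit 0) (XT.lf (nat_lit 76) (nat_lit 4603258965) (nat_lit 0) (nat_lit 321232200) (nat_lit 1216) (nat_lit 6395192770) (nat_lit 247) (nat_lit 5) (nat_lit 246) (nat_lit 5) (nat_lit 262) (nat_lit 5) (nat_lit 341) (nat_lit 325) (nat_lit 234)) (XT.nd (nat_lit 78) (nat_lit 1140) (nat_lit 0) (XT.lf (nat_lit 0) (nat_lit 6343610585) (nat_lit 1140) (nat_lit 849792606) (nat_lit 76) (nat_lit 4295268111) (nat_lit 247) (nat_lit 5) (nat_lit 262) (nat_lit 5) (nat_lit 248) (nat_lit 5) (nat_lit 342) (nat_lit 325) (nat_lit 233)) (XT.lf (nat_lit 0) (nat_lit 5274219331) (nat_lit 1140) (nat_lit 2563380012) (nat_lit 1216) (nat_lit 3824173976) (nat_lit 232) (nat_lit 5) (nat_lit 247) (nat_lit 5) (nat_lit 248) (nat_lit 5)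 (nat_lit 343) (nat_lit 325) (nat_lit 232)))) (XT.nd (nat_lit 156) (nat_lit 684) (nat_lit 0) (XT.nd (nat_lit 78) (nat_lit 1216) (nat_lit 0) (XT.lf (nat_lit 0) (nat_lit 9385173512) (nat_lit 1216) (nat_lit 280579105) (nat_lit 76) (nat_lit 2174066304) (nat_lit 232) (nat_lit 5) (nat_lit 248) (nat_lit 5) (nat_lit 233) (nat_lit 5) (nat_lit 344) (nat_lit 325) (nat_lit 231)) (XT.lf (nat_lit 0) (nat_lit 6084653989) (nat_lit 1216) (nat_lit 4957903448) (nat_lit 1292) (nat_lit 978760082) (nat_lit 216) (nat_lit 5) (nat_lit 232) (nat_lit 5) (nat_lit 233) (nat_lit 5) (nat_lit 345) (nat_lit 325) (nat_lit 230))) (XT.nd (nat_lit 78) (nat_lit 0) (nat_lit 0) (XT.lf (nat_lit 0) (nat_lit 422898563) (nat_lit 608) (nat_lit 94589513) (nat_lit 684) (nat_lit 11691029692) (nat_lit 207) (nat_lit 5) (nat_lit 215) (nat_lit 5) (nat_lit 216) (nat_lit 5) (nat_lit 346) (nat_lit 325) (nat_lit 229)) (XT.lf (nat_lit 0) (nat_lit 2126889127) (nat_lit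 684) (nat_lit 5381100351) (nat_lit 76) (nat_lit 4890427692) (nat_lit 207) (nat_lit 5) (nat_lit 216) (nat_lit 5) (nat_lit 208) (nat_lit 5) (nat_lit 347) (nat_lit 325) (nat_lit 228))))))))
noncomputable def xc167 : XT := (XT.nd (nat_lit 2106) (nat_lit 3800) (nat_lit 0) (XT.nd (nat_lit 1014) (nat_lit 3192) (nat_lit 0) (XT.nd (nat_lit 468) (nat_lit 2052) (nat_lit 0) (XT.nd (nat_lit 234) (nat_lit 532) (nat_lit 0) (XT.nd (nat_lit 78) (nat_lit 608) (nat_lit 0) (XT.lf (nat_lit 0) (nat_lit 1219995430) (nat_lit 532) (nat_lit 2557971690) (nat_lit 608) (nat_lit 8816256230) (nat_lit 200) (nat_lit 5) (nat_lit 207) (nat_lit 5) (nat_lit 208) (nat_lit 5) (nat_lit 348) (nat_lit 325) (nat_lit 227)) (XT.nd (nat_lit 78) (nat_lit 608) (nat_lit 0) (XT.lf (nat_lit 0) (nat_lit 5538998277) (nat_lit 608) (nat_lit 4708633330) (nat_lit 76) (nat_lit 2546470787) (nat_lit 200) (nat_lit 5) (nat_lit 208) (nat_lit 5) (nat_lit 201) (nat_lit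 5) (nat_lit 349) (nat_lit 325) (nat_lit 226)) (XT.lf (nat_lit 0) (nat_lit 2155378500) (nat_lit 608) (nat_lit 5225199921) (nat_lit 684) (nat_lit 5618578821) (nat_lit 192) (nat_lit 5) (nat_lit 200) (nat_lit 5) (nat_lit 201) (nat_lit 5) (nat_lit 350) (nat_lit 325) (nat_lit 225)))) (XT.nd (nat_lit 78) (nat_lit 532) (nat_lit 0) (XT.lf (nat_lit 0) (nat_lit 9303728957) (nat_lit 608) (nat_lit 3257535) (nat_lit 684) (nat_lit 3902500482) (nat_lit 192) (nat_lit 5) (nat_lit 200) (nat_lit 5) (nat_lit 201) (nat_lit 5) (nat_lit 351) (nat_lit 325) (nat_lit 224)) (XT.nd (nat_lit 78) (nat_lit 0) (nat_lit 0) (XT.lf (nat_lit 0) (nat_lit 3233724673) (nat_lit 532) (nat_lit 8122772364) (nat_lit 608) (nat_lit 2067680598) (nat_lit 185) (nat_lit 5) (nat_lit 192) (nat_lit 5) (nat_lit 193) (nat_lit 5) (nat_lit 352) (nat_lit 325) (nat_lit 223)) (XT.lf (nat_lit 0) (nat_lit 10649491518) (nat_lit 532) (nat_lit 2840364170) (nat_lit 608)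 (nat_lit 154792488) (nat_lit 185) (nat_lit 5) (nat_lit 192) (nat_lit 5) (nat_lit 193) (nat_lit 5) (nat_lit 353) (nat_lit 325) (nat_lit 222))))) (XT.nd (nat_lit 234) (nat_lit 988) (nat_lit 0) (XT.nd (nat_lit 78) (nat_lit 456) (nat_lit 0) (XT.lf (nat_lit 0) (nat_lit 1831805771) (nat_lit 608) (nat_lit 9428039812) (nat_lit 76) (nat_lit 2609820667) (nat_lit 177) (nat_lit 5) (nat_lit 185) (nat_lit 5) (nat_lit 178) (nat_lit 5) (nat_lit 354) (nat_lit 325) (nat_lit 221)) (XT.nd (nat_lit 78) (nat_lit 456) (nat_lit 0) (XT.lf (nat_lit 0) (nat_lit 3917081765) (nat_lit 608) (nat_lit 1985642473) (nat_lit 76) (nat_lit 8197408114) (nat_lit 177) (nat_lit 5) (nat_lit 185) (nat_lit 5) (nat_lit 178) (nat_lit 5) (nat_lit 355) (nat_lit 325) (nat_lit 220)) (XT.lf (nat_lit 0) (nat_lit 5775176333) (nat_lit 456) (nat_lit 329257997) (nat_lit 532) (nat_lit 8231901479) (nat_lit 171) (nat_lit 5) (nat_lit 177) (nat_lit 5) (nat_lit 178)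 (nat_lit 5) (nat_lit 356) (nat_lit 325) (nat_lit 219)))) (XT.nd (nat_lit 156) (nat_lit 532) (nat_lit 0) (XT.nd (nat_lit 78) (nat_lit 456) (nat_lit 0) (XT.lf (nat_lit 0) (nat_lit 8413961468) (nat_lit 532) (nat_lit 839553153) (nat_lit 76) (nat_lit 5324422795) (nat_lit 171) (nat_lit 5) (nat_lit 178) (nat_lit 5) (nat_lit 172) (nat_lit 5) (nat_lit 357) (nat_lit 325) (nat_lit 218)) (XT.lf (nat_lit 0) (nat_lit 7234291562) (nat_lit 456) (nat_lit 3616027513) (nat_lit 532) (nat_lit 3974750066) (nat_lit 165) (nat_lit 5) (nat_lit 171) (nat_lit 5) (nat_lit 172) (nat_lit 5) (nat_lit 358) (nat_lit 325) (nat_lit 217))) (XT.nd (nat_lit 78) (nat_lit 76) (nat_lit 0) (XT.lf (nat_lit 0) (nat_lit 458421721) (nat_lit 456) (nat_lit 12920374221) (nat_lit 532) (nat_lit 1700256185) (nat_lit 159) (nat_lit 5) (nat_lit 165) (nat_lit 5) (nat_lit 166) (nat_lit 5) (nat_lit 359) (nat_lit 325) (nat_lit 216)) (XT.lf (nat_lit 0) (nat_lit 728267447)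 (nat_lit 532) (nat_lit 6494106756) (nat_lit 76) (nat_lit 8115152865) (nat_lit 158) (nat_lit 5) (nat_lit 165) (nat_lit 5) (nat_lit 159) (nat_lit 5) (nat_lit 360) (nat_lit 325) (nat_lit 215)))))) (XT.nd (nat_lit 546) (nat_lit 1444) (nat_lit 0) (XT.nd (nat_lit 234) (nat_lit 912) (nat_lit 0) (XT.nd (nat_lit 78) (nat_lit 380) (nat_lit 0) (XT.lf (nat_lit 0) (nat_lit 1878842146) (nat_lit 456) (nat_lit 1320243926) (nat_lit 532) (nat_lit 12404064250) (nat_lit 152) (nat_lit 5) (nat_lit 158) (nat_lit 5) (nat_lit 159) (nat_lit 5) (nat_lit 361) (nat_lit 325) (nat_lit 214)) (XT.nd (nat_lit 78) (nat_lit 380) (nat_lit 0) (XT.lf (nat_lit 0) (nat_lit 5841784202) (nat_lit 532) (nat_lit 5302504101) (nat_lit 76) (nat_lit 4729528578) (nat_lit 152) (nat_lit 5) (nat_lit 159) (nat_lit 5) (nat_lit 153) (nat_lit 5) (nat_lit 362) (nat_lit 325) (nat_lit 213)) (XT.lf (nat_lit 0) (nat_lit 3408465391) (nat_lit 380) (nat_lit 5187329951)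 (nat_lit 456) (nat_lit 7555854175) (nat_lit 147) (nat_lit 5) (nat_lit 152) (nat_lit 5) (nat_lit 153) (nat_lit 5) (nat_lit 363) (nat_lit 325) (nat_lit 212)))) (XT.nd (nat_lit 156) (nat_lit 456) (nat_lit 0) (XT.nd (nat_lit 78) (nat_lit 456) (nat_lit 0) (XT.lf (nat_lit 0) (nat_lit 11482024116) (nat_lit 456) (nat_lit 3973542255) (nat_lit 76) (nat_lit 980769682) (nat_lit 147) (nat_lit 5) (nat_lit 153) (nat_lit 5) (nat_lit 148) (nat_lit 5) (nat_lit 364) (nat_lit 325) (nat_lit 211)) (XT.lf (nat_lit 0) (nat_lit 5090517453) (nat_lit 456) (nat_lit 9451417365) (nat_lit 532) (nat_lit 2185022155) (nat_lit 141) (nat_lit 5) (nat_lit 147) (nat_lit 5) (nat_lit 148) (nat_lit 5) (nat_lit 365) (nat_lit 325) (nat_lit 210))) (XT.nd (nat_lit 78) (nat_lit 380) (nat_lit 0) (XT.lf (nat_lit 0) (nat_lit 681739651) (nat_lit 532) (nat_lit 2540702271) (nat_lit 76) (nat_lit 13802845939) (nat_lit 140) (nat_lit 5) (nat_lit 147) (nat_lit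 5) (nat_lit 141) (nat_lit 5) (nat_lit 366) (nat_lit 325) (nat_lit 209)) (XT.lf (nat_lit 0) (nat_lit 3675967643) (nat_lit 456) (nat_lit 10436700997) (nat_lit 76) (nat_lit 3216695692) (nat_lit 135) (nat_lit 5) (nat_lit 141) (nat_lit 5) (nat_lit 136) (nat_lit 5) (nat_lit 367) (nat_lit 325) (nat_lit 208))))) (XT.nd (nat_lit 234) (nat_lit 760) (nat_lit 0) (XT.nd (nat_lit 78) (nat_lit 684) (nat_lit 0) (XT.lf (nat_lit 0) (nat_lit 6805294411) (nat_lit 456) (nat_lit 1029290270) (nat_lit 76) (nat_lit 9806626157) (nat_lit 135) (nat_lit 5) (nat_lit 141) (nat_lit 5) (nat_lit 136) (nat_lit 5) (nat_lit 368) (nat_lit 325) (nat_lit 207)) (XT.nd (nat_lit 78) (nat_lit 304) (nat_lit 0) (XT.lf (nat_lit 0) (nat_lit 8816412562) (nat_lit 380) (nat_lit 1284658956) (nat_lit 456) (nat_lit 7859169832) (nat_lit 130) (nat_lit 5) (nat_lit 135) (nat_lit 5) (nat_lit 136) (nat_lit 5) (nat_lit 369) (nat_lit 325) (nat_lit 206)) (XT.lf (nat_lit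 0) (nat_lit 633673944) (nat_lit 304) (nat_lit 12919125386) (nat_lit 380) (nat_lit 4734336686) (nat_lit 126) (nat_lit 5) (nat_lit 130) (nat_lit 5) (nat_lit 131) (nat_lit 5) (nat_lit 370) (nat_lit 325) (nat_lit 205)))) (XT.nd (nat_lit 156) (nat_lit 304) (nat_lit 0) (XT.nd (nat_lit 78) (nat_lit 456) (nat_lit 0) (XT.lf (nat_lit 0) (nat_lit 10862985457) (nat_lit 304) (nat_lit 6338206779) (nat_lit 380) (nat_lit 1419857289) (nat_lit 126) (nat_lit 5) (nat_lit 130) (nat_lit 5) (nat_lit 131) (nat_lit 5) (nat_lit 371) (nat_lit 325) (nat_lit 204)) (XT.lf (nat_lit 0) (nat_lit 1971690371) (nat_lit 456) (nat_lit 16521641567) (nat_lit 76) (nat_lit 470582192) (nat_lit 120) (nat_lit 5) (nat_lit 126) (nat_lit 5) (nat_lit 121) (nat_lit 5) (nat_lit 372) (nat_lit 325) (nat_lit 203))) (XT.nd (nat_lit 78) (nat_lit 304) (nat_lit 0) (XT.lf (nat_lit 0) (nat_lit 5566874720) (nat_lit 456) (nat_lit 6300556385) (nat_lit 76) (nat_lit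 7445303930) (nat_lit 120) (nat_lit 5) (nat_lit 126) (nat_lit 5) (nat_lit 121) (nat_lit 5) (nat_lit 373) (nat_lit 325) (nat_lit 202)) (XT.lf (nat_lit 0) (nat_lit 4295540311) (nat_lit 304) (nat_lit 5004555523) (nat_lit 380) (nat_lit 10371024093) (nat_lit 116) (nat_lit 5) (nat_lit 120) (nat_lit 5) (nat_lit 121) (nat_lit 5) (nat_lit 374) (nat_lit 325) (nat_lit 201))))))) (XT.nd (nat_lit 1014) (nat_lit 1596) (nat_lit 0) (XT.nd (nat_lit 468) (nat_lit 1216) (nat_lit 0) (XT.nd (nat_lit 234) (nat_lit 608) (nat_lit 0) (XT.nd (nat_lit 78) (nat_lit 380) (nat_lit 0) (XT.lf (nat_lit 0) (nat_lit 13218433790) (nat_lit 380) (nat_lit 4735726759) (nat_lit 76) (nat_lit 2083906867) (nat_lit 116) (nat_lit 5) (nat_lit 121) (nat_lit 5) (nat_lit 117) (nat_lit 5) (nat_lit 375) (nat_lit 325) (nat_lit 200)) (XT.nd (nat_lit 78) (nat_lit 76) (nat_lit 0) (XT.lf (nat_lit 0) (nat_lit 6281212671) (nat_lit 304) (nat_lit 11072382393) (nat_lit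 380) (nat_lit 3059454593) (nat_lit 112) (nat_lit 5) (nat_lit 116) (nat_lit 5) (nat_lit 117) (nat_lit 5) (nat_lit 376) (nat_lit 325) (nat_lit 199)) (XT.lf (nat_lit 0) (nat_lit 835352424) (nat_lit 380) (nat_lit 3095597203) (nat_lit 76) (nat_lit 16866970468) (nat_lit 111) (nat_lit 5) (nat_lit 116) (nat_lit 5) (nat_lit 112) (nat_lit 5) (nat_lit 377) (nat_lit 325) (nat_lit 198)))) (XT.nd (nat_lit 78) (nat_lit 304) (nat_lit 0) (XT.lf (nat_lit 0) (nat_lit 4889852694) (nat_lit 380) (nat_lit 12834884224) (nat_lit 76) (nat_lit 3465564888) (nat_lit 107) (nat_lit 5) (nat_lit 112) (nat_lit 5) (nat_lit 108) (nat_lit 5) (nat_lit 378) (nat_lit 325) (nat_lit 197)) (XT.nd (nat_lit 78) (nat_lit 304) (nat_lit 0) (XT.lf (nat_lit 0) (nat_lit 9126304578) (nat_lit 380) (nat_lit 1434200014) (nat_lit 76) (nat_lit 11032144893) (nat_lit 107) (nat_lit 5) (nat_lit 112) (nat_lit 5) (nat_lit 108) (nat_lit 5) (nat_lit 379) (nat_lit 325)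 (nat_lit 196)) (XT.lf (nat_lit 0) (nat_lit 10498937429) (nat_lit 304) (nat_lit 3081958441) (nat_lit 380) (nat_lit 8423444250) (nat_lit 103) (nat_lit 5) (nat_lit 107) (nat_lit 5) (nat_lit 108) (nat_lit 5) (nat_lit 380) (nat_lit 325) (nat_lit 195))))) (XT.nd (nat_lit 234) (nat_lit 608) (nat_lit 0) (XT.nd (nat_lit 78) (nat_lit 380) (nat_lit 0) (XT.lf (nat_lit 0) (nat_lit 339025123) (nat_lit 228) (nat_lit 17882633955) (nat_lit 304) (nat_lit 4205150157) (nat_lit 100) (nat_lit 5) (nat_lit 103) (nat_lit 5) (nat_lit 104) (nat_lit 5) (nat_lit 381) (nat_lit 325) (nat_lit 194)) (XT.nd (nat_lit 78) (nat_lit 304) (nat_lit 0) (XT.lf (nat_lit 0) (nat_lit 275090717) (nat_lit 304) (nat_lit 10131443156) (nat_lit 76) (nat_lit 12451238118) (nat_lit 99) (nat_lit 5) (nat_lit 103) (nat_lit 5) (nat_lit 100) (nat_lit 5) (nat_lit 382) (nat_lit 325) (nat_lit 193)) (XT.lf (nat_lit 0) (nat_lit 2170121244) (nat_lit 304) (nat_lit 2646519049)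 (nat_lit 380) (nat_lit 18483435124) (nat_lit 95) (nat_lit 5) (nat_lit 99) (nat_lit 5) (nat_lit 100) (nat_lit 5) (nat_lit 383) (nat_lit 325) (nat_lit 192)))) (XT.nd (nat_lit 156) (nat_lit 380) (nat_lit 0) (XT.nd (nat_lit 78) (nat_lit 228) (nat_lit 0) (XT.lf (nat_lit 0) (nat_lit 9639803606) (nat_lit 380) (nat_lit 8770842608) (nat_lit 76) (nat_lit 5340644079) (nat_lit 95) (nat_lit 5) (nat_lit 100) (nat_lit 5) (nat_lit 96) (nat_lit 5) (nat_lit 384) (nat_lit 325) (nat_lit 191)) (XT.lf (nat_lit 0) (nat_lit 3996974015) (nat_lit 228) (nat_lit 10666239233) (nat_lit 304) (nat_lit 9551165089) (nat_lit 92) (nat_lit 5) (nat_lit 95) (nat_lit 5) (nat_lit 96) (nat_lit 5) (nat_lit 385) (nat_lit 325) (nat_lit 190))) (XT.nd (nat_lit 78) (nat_lit 380) (nat_lit 0) (XT.lf (nat_lit 0) (nat_lit 17313894210) (nat_lit 228) (nat_lit 2603058532) (nat_lit 304) (nat_lit 4772020626) (nat_lit 92) (nat_lit 5) (nat_lit 95) (nat_lit 5) (nat_lit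 96) (nat_lit 5) (nat_lit 386) (nat_lit 325) (nat_lit 189)) (XT.lf (nat_lit 0) (nat_lit 251369903) (nat_lit 380) (nat_lit 19277913007) (nat_lit 76) (nat_lit 5645368673) (nat_lit 87) (nat_lit 5) (nat_lit 92) (nat_lit 5) (nat_lit 88) (nat_lit 5) (nat_lit 387) (nat_lit 325) (nat_lit 188)))))) (XT.nd (nat_lit 546) (nat_lit 836) (nat_lit 0) (XT.nd (nat_lit 234) (nat_lit 532) (nat_lit 0) (XT.nd (nat_lit 78) (nat_lit 228) (nat_lit 0) (XT.lf (nat_lit 0) (nat_lit 5421845467) (nat_lit 380) (nat_lit 6042117870) (nat_lit 76) (nat_lit 14206753391) (nat_lit 87) (nat_lit 5) (nat_lit 92) (nat_lit 5) (nat_lit 88) (nat_lit 5) (nat_lit 388) (nat_lit 325) (nat_lit 187)) (XT.nd (nat_lit 78) (nat_lit 0) (nat_lit 0) (XT.lf (nat_lit 0) (nat_lit 7728368428) (nat_lit 228) (nat_lit 3084921866) (nat_lit 304) (nat_lit 15366400702) (nat_lit 84) (nat_lit 5) (nat_lit 87) (nat_lit 5) (nat_lit 88) (nat_lit 5) (nat_lit 389) (nat_lit 325)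 (nat_lit 186)) (XT.lf (nat_lit 0) (nat_lit 16473042434) (nat_lit 304) (nat_lit 4733456239) (nat_lit 76) (nat_lit 5494241635) (nat_lit 84) (nat_lit 5) (nat_lit 88) (nat_lit 5) (nat_lit 85) (nat_lit 5) (nat_lit 390) (nat_lit 325) (nat_lit 185)))) (XT.nd (nat_lit 156) (nat_lit 228) (nat_lit 0) (XT.nd (nat_lit 78) (nat_lit 76) (nat_lit 0) (XT.lf (nat_lit 0) (nat_lit 9538654030) (nat_lit 228) (nat_lit 12878051449) (nat_lit 304) (nat_lit 4817294726) (nat_lit 81) (nat_lit 5) (nat_lit 84) (nat_lit 5) (nat_lit 85) (nat_lit 5) (nat_lit 391) (nat_lit 325) (nat_lit 184)) (XT.lf (nat_lit 0) (nat_lit 780866636) (nat_lit 304) (nat_lit 3466518818) (nat_lit 76) (nat_lit 23534451488) (nat_lit 80) (nat_lit 5) (nat_lit 84) (nat_lit 5) (nat_lit 81) (nat_lit 5) (nat_lit 392) (nat_lit 325) (nat_lit 183))) (XT.nd (nat_lit 78) (nat_lit 0) (nat_lit 0) (XT.lf (nat_lit 0) (nat_lit 6597538948) (nat_lit 304) (nat_lit 17037351265) (nat_lit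 76) (nat_lit 4705368451) (nat_lit 77) (nat_lit 5) (nat_lit 81) (nat_lit 5) (nat_lit 78) (nat_lit 5) (nat_lit 393) (nat_lit 325) (nat_lit 182)) (XT.lf (nat_lit 0) (nat_lit 12658331326) (nat_lit 304) (nat_lit 2382915364) (nat_lit 76) (nat_lit 13872100109) (nat_lit 77) (nat_lit 5) (nat_lit 81) (nat_lit 5) (nat_lit 78) (nat_lit 5) (nat_lit 394) (nat_lit 325) (nat_lit 181))))) (XT.nd (nat_lit 234) (nat_lit 380) (nat_lit 0) (XT.nd (nat_lit 78) (nat_lit 228) (nat_lit 0) (XT.lf (nat_lit 0) (nat_lit 12951644899) (nat_lit 228) (nat_lit 6066243406) (nat_lit 304) (nat_lit 10482233340) (nat_lit 74) (nat_lit 5) (nat_lit 77) (nat_lit 5) (nat_lit 78) (nat_lit 5) (nat_lit 395) (nat_lit 325) (nat_lit 180)) (XT.nd (nat_lit 78) (nat_lit 228) (nat_lit 0) (XT.lf (nat_lit 0) (nat_lit 25615582441) (nat_lit 304) (nat_lit 1351778611) (nat_lit 76) (nat_lit 3135720395) (nat_lit 74) (nat_lit 5) (nat_lit 78) (nat_lit 5) (nat_lit 75)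 (nat_lit 5) (nat_lit 396) (nat_lit 325) (nat_lit 179)) (XT.lf (nat_lit 0) (nat_lit 1848336915) (nat_lit 228) (nat_lit 16224489433) (nat_lit 76) (nat_lit 12644993859) (nat_lit 71) (nat_lit 5) (nat_lit 74) (nat_lit 5) (nat_lit 72) (nat_lit 5) (nat_lit 397) (nat_lit 325) (nat_lit 178)))) (XT.nd (nat_lit 156) (nat_lit 152) (nat_lit 0) (XT.nd (nat_lit 78) (nat_lit 228) (nat_lit 0) (XT.lf (nat_lit 0) (nat_lit 8290583186) (nat_lit 228) (nat_lit 565627814) (nat_lit 76) (nat_lit 22493263359) (nat_lit 71) (nat_lit 5) (nat_lit 74) (nat_lit 5) (nat_lit 72) (nat_lit 5) (nat_lit 398) (nat_lit 325) (nat_lit 177)) (XT.lf (nat_lit 0) (nat_lit 15079104548) (nat_lit 304) (nat_lit 16142428015) (nat_lit 76) (nat_lit 773957317) (nat_lit 68) (nat_lit 5) (nat_lit 72) (nat_lit 5) (nat_lit 69) (nat_lit 5) (nat_lit 399) (nat_lit 325) (nat_lit 176))) (XT.nd (nat_lit 78) (nat_lit 0) (nat_lit 0) (XT.lf (nat_lit 0) (nat_lit 16086855)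 (nat_lit 152) (nat_lit 22141808987) (nat_lit 228) (nat_lit 10500393515) (nat_lit 66) (nat_lit 5) (nat_lit 68) (nat_lit 5) (nat_lit 69) (nat_lit 5) (nat_lit 400) (nat_lit 325) (nat_lit 175)) (XT.lf (nat_lit 0) (nat_lit 16978697825) (nat_lit 152) (nat_lit 12626458588) (nat_lit 228) (nat_lit 3731135101) (nat_lit 66) (nat_lit 5) (nat_lit 68) (nat_lit 5) (nat_lit 69) (nat_lit 5) (nat_lit 401) (nat_lit 325) (nat_lit 174))))))))
noncomputable def xc168 : XT := (XT.nd (nat_lit 2028) (nat_lit 760) (nat_lit 0) (XT.nd (nat_lit 1014) (nat_lit 988) (nat_lit 0) (XT.nd (nat_lit 468) (nat_lit 532) (nat_lit 0) (XT.nd (nat_lit 234) (nat_lit 228) (nat_lit 0) (XT.nd (nat_lit 78) (nat_lit 152) (nat_lit 0) (XT.lf (nat_lit 0) (nat_lit 380458126) (nat_lit 228) (nat_lit 2794384189) (nat_lit 304) (nat_lit 30858951822) (nat_lit 62) (nat_lit 5) (nat_lit 65) (nat_lit 5) (nat_lit 66) (nat_lit 5) (nat_lit 402) (nat_lit 325) (nat_lit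 173)) (XT.nd (nat_lit 78) (nat_lit 152) (nat_lit 0) (XT.lf (nat_lit 0) (nat_lit 10443584536) (nat_lit 304) (nat_lit 16911773332) (nat_lit 76) (nat_lit 7388840089) (nat_lit 62) (nat_lit 5) (nat_lit 66) (nat_lit 5) (nat_lit 63) (nat_lit 5) (nat_lit 403) (nat_lit 325) (nat_lit 172)) (XT.lf (nat_lit 0) (nat_lit 299128759) (nat_lit 152) (nat_lit 17655275264) (nat_lit 228) (nat_lit 17520791074) (nat_lit 60) (nat_lit 5) (nat_lit 62) (nat_lit 5) (nat_lit 63) (nat_lit 5) (nat_lit 404) (nat_lit 325) (nat_lit 171)))) (XT.nd (nat_lit 78) (nat_lit 228) (nat_lit 0) (XT.lf (nat_lit 0) (nat_lit 18362063911) (nat_lit 152) (nat_lit 7492817042) (nat_lit 228) (nat_lit 10368312819) (nat_lit 60) (nat_lit 5) (nat_lit 62) (nat_lit 5) (nat_lit 63) (nat_lit 5) (nat_lit 405) (nat_lit 325) (nat_lit 170)) (XT.nd (nat_lit 78) (nat_lit 228) (nat_lit 0) (XT.lf (nat_lit 0) (nat_lit 34014667576) (nat_lit 228) (nat_lit 66134422) (nat_lit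 76) (nat_lit 2912163109) (nat_lit 60) (nat_lit 5) (nat_lit 63) (nat_lit 5) (nat_lit 61) (nat_lit 5) (nat_lit 406) (nat_lit 325) (nat_lit 169)) (XT.lf (nat_lit 0) (nat_lit 4791728910) (nat_lit 228) (nat_lit 19285598732) (nat_lit 76) (nat_lit 13699705469) (nat_lit 57) (nat_lit 5) (nat_lit 60) (nat_lit 5) (nat_lit 58) (nat_lit 5) (nat_lit 407) (nat_lit 325) (nat_lit 168))))) (XT.nd (nat_lit 234) (nat_lit 380) (nat_lit 0) (XT.nd (nat_lit 78) (nat_lit 152) (nat_lit 0) (XT.lf (nat_lit 0) (nat_lit 12729572810) (nat_lit 228) (nat_lit 1017513719) (nat_lit 76) (nat_lit 24836816088) (nat_lit 57) (nat_lit 5) (nat_lit 60) (nat_lit 5) (nat_lit 58) (nat_lit 5) (nat_lit 408) (nat_lit 325) (nat_lit 167)) (XT.nd (nat_lit 78) (nat_lit 0) (nat_lit 0) (XT.lf (nat_lit 0) (nat_lit 18142442292) (nat_lit 152) (nat_lit 2931586625) (nat_lit 228) (nat_lit 18335896371) (nat_lit 55) (nat_lit 5) (nat_lit 57) (nat_lit 5) (nat_lit 58)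 (nat_lit 5) (nat_lit 409) (nat_lit 325) (nat_lit 166)) (XT.lf (nat_lit 0) (nat_lit 29752214410) (nat_lit 228) (nat_lit 2451602839) (nat_lit 76) (nat_lit 8054410863) (nat_lit 55) (nat_lit 5) (nat_lit 58) (nat_lit 5) (nat_lit 56) (nat_lit 5) (nat_lit 410) (nat_lit 325) (nat_lit 165)))) (XT.nd (nat_lit 156) (nat_lit 152) (nat_lit 0) (XT.nd (nat_lit 78) (nat_lit 76) (nat_lit 0) (XT.lf (nat_lit 0) (nat_lit 17225934368) (nat_lit 152) (nat_lit 21653709455) (nat_lit 228) (nat_lit 2246670554) (nat_lit 53) (nat_lit 5) (nat_lit 55) (nat_lit 5) (nat_lit 56) (nat_lit 5) (nat_lit 411) (nat_lit 325) (nat_lit 164)) (XT.lf (nat_lit 0) (nat_lit 6157591682) (nat_lit 228) (nat_lit 4546022833) (nat_lit 76) (nat_lit 31314445484) (nat_lit 52) (nat_lit 5) (nat_lit 55) (nat_lit 5) (nat_lit 53) (nat_lit 5) (nat_lit 412) (nat_lit 325) (nat_lit 163))) (XT.nd (nat_lit 78) (nat_lit 0) (nat_lit 0) (XT.lf (nat_lit 0) (nat_lit 14921050941)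 (nat_lit 228) (nat_lit 27276044188) (nat_lit 76) (nat_lit 734229979) (nat_lit 50) (nat_lit 5) (nat_lit 53) (nat_lit 5) (nat_lit 51) (nat_lit 5) (nat_lit 413) (nat_lit 325) (nat_lit 162)) (XT.lf (nat_lit 0) (nat_lit 24094247807) (nat_lit 228) (nat_lit 7430921188) (nat_lit 76) (nat_lit 12342415322) (nat_lit 50) (nat_lit 5) (nat_lit 53) (nat_lit 5) (nat_lit 51) (nat_lit 5) (nat_lit 414) (nat_lit 325) (nat_lit 161)))))) (XT.nd (nat_lit 468) (nat_lit 456) (nat_lit 0) (XT.nd (nat_lit 234) (nat_lit 152) (nat_lit 0) (XT.nd (nat_lit 78) (nat_lit 228) (nat_lit 0) (XT.lf (nat_lit 0) (nat_lit 13258874087) (nat_lit 152) (nat_lit 20405876196) (nat_lit 228) (nat_lit 11163518852) (nat_lit 48) (nat_lit 5) (nat_lit 50) (nat_lit 5) (nat_lit 51) (nat_lit 5) (nat_lit 415) (nat_lit 325) (nat_lit 160)) (XT.nd (nat_lit 78) (nat_lit 228) (nat_lit 0) (XT.lf (nat_lit 0) (nat_lit 34712372268) (nat_lit 152) (nat_lit 8879756644) (nat_lit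 228) (nat_lit 2223553850) (nat_lit 48) (nat_lit 5) (nat_lit 50) (nat_lit 5) (nat_lit 51) (nat_lit 5) (nat_lit 416) (nat_lit 325) (nat_lit 159)) (XT.lf (nat_lit 0) (nat_lit 6970553771) (nat_lit 228) (nat_lit 36760794111) (nat_lit 76) (nat_lit 3095690578) (nat_lit 45) (nat_lit 5) (nat_lit 48) (nat_lit 5) (nat_lit 46) (nat_lit 5) (nat_lit 417) (nat_lit 325) (nat_lit 158)))) (XT.nd (nat_lit 78) (nat_lit 152) (nat_lit 0) (XT.lf (nat_lit 0) (nat_lit 16591794484) (nat_lit 228) (nat_lit 15887099093) (nat_lit 76) (nat_lit 15383301760) (nat_lit 45) (nat_lit 5) (nat_lit 48) (nat_lit 5) (nat_lit 46) (nat_lit 5) (nat_lit 418) (nat_lit 325) (nat_lit 157)) (XT.nd (nat_lit 78) (nat_lit 0) (nat_lit 0) (XT.lf (nat_lit 0) (nat_lit 5715425755) (nat_lit 152) (nat_lit 20836187734) (nat_lit 228) (nat_lit 22375296170) (nat_lit 43) (nat_lit 5) (nat_lit 45) (nat_lit 5) (nat_lit 46) (nat_lit 5) (nat_lit 419) (nat_lit 325) (nat_lit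 156)) (XT.lf (nat_lit 0) (nat_lit 28282874093) (nat_lit 152) (nat_lit 8682843226) (nat_lit 228) (nat_lit 13053184329) (nat_lit 43) (nat_lit 5) (nat_lit 45) (nat_lit 5) (nat_lit 46) (nat_lit 5) (nat_lit 420) (nat_lit 325) (nat_lit 155))))) (XT.nd (nat_lit 234) (nat_lit 304) (nat_lit 0) (XT.nd (nat_lit 78) (nat_lit 76) (nat_lit 0) (XT.lf (nat_lit 0) (nat_lit 344883297) (nat_lit 76) (nat_lit 47382710829) (nat_lit 152) (nat_lit 3414999691) (nat_lit 42) (nat_lit 5) (nat_lit 43) (nat_lit 5) (nat_lit 44) (nat_lit 4) (nat_lit 421) (nat_lit 325) (nat_lit 154)) (XT.nd (nat_lit 78) (nat_lit 0) (nat_lit 0) (XT.lf (nat_lit 0) (nat_lit 6688063950) (nat_lit 152) (nat_lit 28919051238) (nat_lit 76) (nat_lit 16681920037) (nat_lit 41) (nat_lit 5) (nat_lit 43) (nat_lit 5) (nat_lit 42) (nat_lit 5) (nat_lit 422) (nat_lit 325) (nat_lit 153)) (XT.lf (nat_lit 0) (nat_lit 17020901103) (nat_lit 152) (nat_lit 6426276606) (nat_lit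 76) (nat_lit 30021819057) (nat_lit 41) (nat_lit 5) (nat_lit 43) (nat_lit 5) (nat_lit 42) (nat_lit 5) (nat_lit 423) (nat_lit 325) (nat_lit 152)))) (XT.nd (nat_lit 156) (nat_lit 152) (nat_lit 0) (XT.nd (nat_lit 78) (nat_lit 0) (nat_lit 0) (XT.lf (nat_lit 0) (nat_lit 17066115710) (nat_lit 152) (nat_lit 10757113638) (nat_lit 228) (nat_lit 26856343441) (nat_lit 39) (nat_lit 5) (nat_lit 41) (nat_lit 5) (nat_lit 42) (nat_lit 5) (nat_lit 424) (nat_lit 325) (nat_lit 151)) (XT.lf (nat_lit 0) (nat_lit 39032878663) (nat_lit 228) (nat_lit 14560597270) (nat_lit 76) (nat_lit 2330493412) (nat_lit 39) (nat_lit 5) (nat_lit 42) (nat_lit 5) (nat_lit 40) (nat_lit 4) (nat_lit 425) (nat_lit 325) (nat_lit 150))) (XT.nd (nat_lit 78) (nat_lit 76) (nat_lit 0) (XT.lf (nat_lit 0) (nat_lit 9249872246) (nat_lit 76) (nat_lit 41519974178) (nat_lit 152) (nat_lit 6430121272) (nat_lit 38) (nat_lit 5) (nat_lit 39) (nat_lit 5) (nat_lit 40)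 (nat_lit 4) (nat_lit 426) (nat_lit 325) (nat_lit 149)) (XT.lf (nat_lit 0) (nat_lit 4404002025) (nat_lit 152) (nat_lit 24487898839) (nat_lit 76) (nat_lit 29616769793) (nat_lit 37) (nat_lit 5) (nat_lit 39) (nat_lit 5) (nat_lit 38) (nat_lit 5) (nat_lit 427) (nat_lit 325) (nat_lit 148))))))) (XT.nd (nat_lit 38922) (nat_lit 0) (nat_lit 16568) (XT.nd (nat_lit 468) (nat_lit 304) (nat_lit 0) (XT.nd (nat_lit 234) (nat_lit 304) (nat_lit 0) (XT.nd (nat_lit 78) (nat_lit 152) (nat_lit 0) (XT.lf (nat_lit 0) (nat_lit 15429653494) (nat_lit 152) (nat_lit 393246711) (nat_lit 76) (nat_lit 44031952962) (nat_lit 37) (nat_lit 5) (nat_lit 39) (nat_lit 5) (nat_lit 38) (nat_lit 5) (nat_lit 428) (nat_lit 325) (nat_lit 147)) (XT.nd (nat_lit 78) (nat_lit 0) (nat_lit 0) (XT.lf (nat_lit 0) (nat_lit 24902665469) (nat_lit 152) (nat_lit 2118656207) (nat_lit 228) (nat_lit 34213042741) (nat_lit 35) (nat_lit 5) (nat_lit 37) (nat_lit 5) (nat_lit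 38) (nat_lit 5) (nat_lit 429) (nat_lit 325) (nat_lit 146)) (XT.lf (nat_lit 0) (nat_lit 39075953983) (nat_lit 228) (nat_lit 11812522099) (nat_lit 76) (nat_lit 11763329164) (nat_lit 35) (nat_lit 5) (nat_lit 38) (nat_lit 5) (nat_lit 36) (nat_lit 4) (nat_lit 430) (nat_lit 325) (nat_lit 145)))) (XT.nd (nat_lit 78) (nat_lit 228) (nat_lit 0) (XT.lf (nat_lit 0) (nat_lit 13680899083) (nat_lit 76) (nat_lit 37959816000) (nat_lit 152) (nat_lit 12466600165) (nat_lit 34) (nat_lit 5) (nat_lit 35) (nat_lit 5) (nat_lit 36) (nat_lit 4) (nat_lit 431) (nat_lit 325) (nat_lit 144)) (XT.nd (nat_lit 78) (nat_lit 228) (nat_lit 0) (XT.lf (nat_lit 0) (nat_lit 40174021972) (nat_lit 76) (nat_lit 24523730954) (nat_lit 152) (nat_lit 905278230) (nat_lit 34) (nat_lit 5) (nat_lit 35) (nat_lit 5) (nat_lit 36) (nat_lit 4) (nat_lit 432) (nat_lit 325) (nat_lit 143)) (XT.lf (nat_lit 0) (nat_lit 209529566) (nat_lit 152) (nat_lit 10576789108)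 (nat_lit 228) (nat_lit 56354183226) (nat_lit 31) (nat_lit 5) (nat_lit 33) (nat_lit 5) (nat_lit 34) (nat_lit 5) (nat_lit 433) (nat_lit 325) (nat_lit 142))))) (XT.nd (nat_lit 234) (nat_lit 228) (nat_lit 0) (XT.nd (nat_lit 78) (nat_lit 76) (nat_lit 0) (XT.lf (nat_lit 0) (nat_lit 23102353064) (nat_lit 228) (nat_lit 41632949996) (nat_lit 76) (nat_lit 3979768839) (nat_lit 31) (nat_lit 5) (nat_lit 34) (nat_lit 5) (nat_lit 32) (nat_lit 4) (nat_lit 434) (nat_lit 325) (nat_lit 141)) (XT.nd (nat_lit 78) (nat_lit 76) (nat_lit 0) (XT.lf (nat_lit 0) (nat_lit 35888842828) (nat_lit 228) (nat_lit 15687627515) (nat_lit 76) (nat_lit 18757379980) (nat_lit 31) (nat_lit 5) (nat_lit 34) (nat_lit 5) (nat_lit 32) (nat_lit 4) (nat_lit 435) (nat_lit 325) (nat_lit 140)) (XT.lf (nat_lit 0) (nat_lit 11248841766) (nat_lit 76) (nat_lit 37914579042) (nat_lit 152) (nat_lit 22834637024) (nat_lit 30) (nat_lit 5) (nat_lit 31) (nat_lit 5) (nat_lit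 32) (nat_lit 4) (nat_lit 436) (nat_lit 325) (nat_lit 139)))) (XT.nd (nat_lit 156) (nat_lit 152) (nat_lit 0) (XT.nd (nat_lit 78) (nat_lit 76) (nat_lit 0) (XT.lf (nat_lit 0) (nat_lit 39308333682) (nat_lit 76) (nat_lit 23682721490) (nat_lit 152) (nat_lit 10716492345) (nat_lit 30) (nat_lit 5) (nat_lit 31) (nat_lit 5) (nat_lit 32) (nat_lit 4) (nat_lit 437) (nat_lit 325) (nat_lit 138)) (XT.lf (nat_lit 0) (nat_lit 1727225754) (nat_lit 152) (nat_lit 7282209014) (nat_lit 76) (nat_lit 66458484341) (nat_lit 29) (nat_lit 5) (nat_lit 31) (nat_lit 5) (nat_lit 30) (nat_lit 5) (nat_lit 438) (nat_lit 325) (nat_lit 137))) (XT.nd (nat_lit 156) (nat_lit 0) (nat_lit 0) (XT.lf (nat_lit 0) (nat_lit 14588465366) (nat_lit 228) (nat_lit 56389106838) (nat_lit 76) (nat_lit 6292558979) (nat_lit 27) (nat_lit 5) (nat_lit 30) (nat_lit 5) (nat_lit 28) (nat_lit 4) (nat_lit 439) (nat_lit 325) (nat_lit 136)) (XT.lf (nat_lit 0) (nat_lit 41801631123)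 (nat_lit 228) (nat_lit 1164952200) (nat_lit 76) (nat_lit 38062146486) (nat_lit 27) (nat_lit 5) (nat_lit 30) (nat_lit 5) (nat_lit 28) (nat_lit 4) (nat_lit 441) (nat_lit 325) (nat_lit 134)))))) (XT.nd (nat_lit 546) (nat_lit 760) (nat_lit 0) (XT.nd (nat_lit 234) (nat_lit 0) (nat_lit 76) (XT.nd (nat_lit 78) (nat_lit 1140) (nat_lit 0) (XT.lf (nat_lit 0) (nat_lit 2279397398) (nat_lit 0) (nat_lit 2279397398) (nat_lit 988) (nat_lit 118345727) (nat_lit 270) (nat_lit 5) (nat_lit 270) (nat_lit 3) (nat_lit 283) (nat_lit 3) (nat_lit 326) (nat_lit 326) (nat_lit 248)) (XT.nd (nat_lit 78) (nat_lit 0) (nat_lit 76) (XT.lf (nat_lit 0) (nat_lit 568032003) (nat_lit 1140) (nat_lit 349975482) (nat_lit 1140) (nat_lit 8551994519) (nat_lit 255) (nat_lit 3) (nat_lit 270) (nat_lit 3) (nat_lit 270) (nat_lit 5) (nat_lit 327) (nat_lit 326) (nat_lit 247)) (XT.lf (nat_lit 0) (nat_lit 1429857533) (nat_lit 1064) (nat_lit 5322459260) (nat_lit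 1140) (nat_lit 2835697619) (nat_lit 256) (nat_lit 5) (nat_lit 270) (nat_lit 5) (nat_lit 271) (nat_lit 5) (nat_lit 328) (nat_lit 326) (nat_lit 246)))) (XT.nd (nat_lit 156) (nat_lit 0) (nat_lit 76) (XT.nd (nat_lit 78) (nat_lit 0) (nat_lit 76) (XT.lf (nat_lit 0) (nat_lit 2299734301) (nat_lit 1064) (nat_lit 708942561) (nat_lit 1140) (nat_lit 6701445465) (nat_lit 256) (nat_lit 5) (nat_lit 270) (nat_lit 5) (nat_lit 271) (nat_lit 5) (nat_lit 329) (nat_lit 326) (nat_lit 245)) (XT.lf (nat_lit 0) (nat_lit 3214267485) (nat_lit 1064) (nat_lit 5737749826) (nat_lit 1140) (nat_lit 883339779) (nat_lit 257) (nat_lit 5) (nat_lit 271) (nat_lit 5) (nat_lit 272) (nat_lit 5) (nat_lit 330) (nat_lit 326) (nat_lit 244))) (XT.nd (nat_lit 78) (nat_lit 0) (nat_lit 0) (XT.lf (nat_lit 0) (nat_lit 4164504009) (nat_lit 1064) (nat_lit 948536195) (nat_lit 1140) (nat_lit 4851080495) (nat_lit 257) (nat_lit 5) (nat_lit 271) (nat_lit 5) (nat_lit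 272) (nat_lit 5) (nat_lit 331) (nat_lit 326) (nat_lit 243)) (XT.lf (nat_lit 76) (nat_lit 4046392648) (nat_lit 0) (nat_lit 1107837452) (nat_lit 1140) (nat_lit 4942206884) (nat_lit 258) (nat_lit 5) (nat_lit 257) (nat_lit 5) (nat_lit 272) (nat_lit 5) (nat_lit 332) (nat_lit 326) (nat_lit 242))))) (XT.nd (nat_lit 234) (nat_lit 988) (nat_lit 0) (XT.nd (nat_lit 78) (nat_lit 0) (nat_lit 0) (XT.lf (nat_lit 0) (nat_lit 6185166465) (nat_lit 1064) (nat_lit 1068615626) (nat_lit 1140) (nat_lit 2978613794) (nat_lit 258) (nat_lit 5) (nat_lit 272) (nat_lit 5) (nat_lit 273) (nat_lit 5) (nat_lit 333) (nat_lit 326) (nat_lit 241)) (XT.nd (nat_lit 78) (nat_lit 0) (nat_lit 76) (XT.lf (nat_lit 76) (nat_lit 4114396730) (nat_lit 0) (nat_lit 3156783110) (nat_lit 1140) (nat_lit 3100547385) (nat_lit 259) (nat_lit 5) (nat_lit 258) (nat_lit 5) (nat_lit 273) (nat_lit 5) (nat_lit 334) (nat_lit 326) (nat_lit 240)) (XT.lf (nat_lit 0) (nat_lit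 8385209659) (nat_lit 1064) (nat_lit 1068319568) (nat_lit 1140) (nat_lit 1061863807) (nat_lit 259) (nat_lit 5) (nat_lit 273) (nat_lit 5) (nat_lit 274) (nat_lit 5) (nat_lit 335) (nat_lit 326) (nat_lit 239)))) (XT.nd (nat_lit 156) (nat_lit 1064) (nat_lit 0) (XT.nd (nat_lit 78) (nat_lit 0) (nat_lit 0) (XT.lf (nat_lit 76) (nat_lit 4311884115) (nat_lit 0) (nat_lit 5268546860) (nat_lit 1140) (nat_lit 1081521824) (nat_lit 260) (nat_lit 5) (nat_lit 259) (nat_lit 5) (nat_lit 274) (nat_lit 5) (nat_lit 336) (nat_lit 326) (nat_lit 238)) (XT.lf (nat_lit 76) (nat_lit 9858200952) (nat_lit 0) (nat_lit 939723711) (nat_lit 1140) (nat_lit 15408820) (nat_lit 260) (nat_lit 5) (nat_lit 259) (nat_lit 5) (nat_lit 274) (nat_lit 5) (nat_lit 337) (nat_lit 326) (nat_lit 237))) (XT.nd (nat_lit 78) (nat_lit 0) (nat_lit 0) (XT.lf (nat_lit 0) (nat_lit 1116929923) (nat_lit 1140) (nat_lit 6337675462) (nat_lit 1216) (nat_lit 3512692541) (nat_lit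 245) (nat_lit 5) (nat_lit 260) (nat_lit 5) (nat_lit 261) (nat_lit 5) (nat_lit 338) (nat_lit 326) (nat_lit 236)) (XT.lf (nat_lit 0) (nat_lit 2278655474) (nat_lit 1140) (nat_lit 751437368) (nat_lit 1216) (nat_lit 8095927284) (nat_lit 245) (nat_lit 5) (nat_lit 260) (nat_lit 5) (nat_lit 261) (nat_lit 5) (nat_lit 339) (nat_lit 326) (nat_lit 235))))))))
noncomputable def xc169 : XT := (XT.nd (nat_lit 2028) (nat_lit 5016) (nat_lit 0) (XT.nd (nat_lit 1014) (nat_lit 3420) (nat_lit 0) (XT.nd (nat_lit 468) (nat_lit 1824) (nat_lit 0) (XT.nd (nat_lit 234) (nat_lit 2280) (nat_lit 0) (XT.nd (nat_lit 78) (nat_lit 0) (nat_lit 0) (XT.lf (nat_lit 0) (nat_lit 3516682735) (nat_lit 1140) (nat_lit 6219620045) (nat_lit 1216) (nat_lit 1551972463) (nat_lit 246) (nat_lit 5) (nat_lit 261) (nat_lit 5) (nat_lit 262) (nat_lit 5) (nat_lit 340) (nat_lit 326) (nat_lit 234)) (XT.nd (nat_lit 78) (nat_lit 0) (nat_lit 0) (XT.lf (nat_lit 0)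 (nat_lit 4807419179) (nat_lit 1140) (nat_lit 424324200) (nat_lit 1216) (nat_lit 6223201902) (nat_lit 246) (nat_lit 5) (nat_lit 261) (nat_lit 5) (nat_lit 262) (nat_lit 5) (nat_lit 341) (nat_lit 326) (nat_lit 233)) (XT.lf (nat_lit 76) (nat_lit 5637526290) (nat_lit 0) (nat_lit 532090615) (nat_lit 1216) (nat_lit 5456030242) (nat_lit 247) (nat_lit 5) (nat_lit 246) (nat_lit 5) (nat_lit 262) (nat_lit 5) (nat_lit 342) (nat_lit 326) (nat_lit 232)))) (XT.nd (nat_lit 78) (nat_lit 1216) (nat_lit 0) (XT.lf (nat_lit 0) (nat_lit 29890207) (nat_lit 1140) (nat_lit 7567866253) (nat_lit 1216) (nat_lit 4202974830) (nat_lit 232) (nat_lit 5) (nat_lit 247) (nat_lit 5) (nat_lit 248) (nat_lit 5) (nat_lit 343) (nat_lit 326) (nat_lit 231)) (XT.nd (nat_lit 78) (nat_lit 1216) (nat_lit 0) (XT.lf (nat_lit 0) (nat_lit 6328170675) (nat_lit 1140) (nat_lit 2785739945) (nat_lit 1216) (nat_lit 2865815327) (nat_lit 232) (nat_lit 5) (nat_lit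 247) (nat_lit 5) (nat_lit 248) (nat_lit 5) (nat_lit 344) (nat_lit 326) (nat_lit 230)) (XT.lf (nat_lit 0) (nat_lit 625167422) (nat_lit 1216) (nat_lit 10057070845) (nat_lit 1292) (nat_lit 1481664233) (nat_lit 216) (nat_lit 5) (nat_lit 232) (nat_lit 5) (nat_lit 233) (nat_lit 5) (nat_lit 345) (nat_lit 326) (nat_lit 229))))) (XT.nd (nat_lit 234) (nat_lit 1140) (nat_lit 0) (XT.nd (nat_lit 78) (nat_lit 608) (nat_lit 0) (XT.lf (nat_lit 0) (nat_lit 10635198) (nat_lit 1292) (nat_lit 5191458494) (nat_lit 76) (nat_lit 7149572858) (nat_lit 215) (nat_lit 5) (nat_lit 232) (nat_lit 5) (nat_lit 216) (nat_lit 5) (nat_lit 346) (nat_lit 326) (nat_lit 228)) (XT.nd (nat_lit 78) (nat_lit 0) (nat_lit 0) (XT.lf (nat_lit 0) (nat_lit 1340242766) (nat_lit 608) (nat_lit 171452455) (nat_lit 684) (nat_lit 11033126698) (nat_lit 207) (nat_lit 5) (nat_lit 215) (nat_lit 5) (nat_lit 216) (nat_lit 5) (nat_lit 347) (nat_lit 326) (nat_lit 227))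 (XT.lf (nat_lit 0) (nat_lit 3140182137) (nat_lit 684) (nat_lit 4634455493) (nat_lit 76) (nat_lit 4966673769) (nat_lit 207) (nat_lit 5) (nat_lit 216) (nat_lit 5) (nat_lit 208) (nat_lit 5) (nat_lit 348) (nat_lit 326) (nat_lit 226)))) (XT.nd (nat_lit 156) (nat_lit 608) (nat_lit 0) (XT.nd (nat_lit 78) (nat_lit 0) (nat_lit 0) (XT.lf (nat_lit 0) (nat_lit 2155770438) (nat_lit 532) (nat_lit 2666010511) (nat_lit 608) (nat_lit 8121797869) (nat_lit 200) (nat_lit 5) (nat_lit 207) (nat_lit 5) (nat_lit 208) (nat_lit 5) (nat_lit 349) (nat_lit 326) (nat_lit 225)) (XT.lf (nat_lit 0) (nat_lit 6608249725) (nat_lit 608) (nat_lit 3948972670) (nat_lit 76) (nat_lit 2593069861) (nat_lit 200) (nat_lit 5) (nat_lit 208) (nat_lit 5) (nat_lit 201) (nat_lit 5) (nat_lit 350) (nat_lit 326) (nat_lit 224))) (XT.nd (nat_lit 78) (nat_lit 0) (nat_lit 0) (XT.lf (nat_lit 0) (nat_lit 3112126968) (nat_lit 608) (nat_lit 5375222246) (nat_lit 684)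 (nat_lit 4874697126) (nat_lit 192) (nat_lit 5) (nat_lit 200) (nat_lit 5) (nat_lit 201) (nat_lit 5) (nat_lit 351) (nat_lit 326) (nat_lit 223)) (XT.lf (nat_lit 0) (nat_lit 10445793125) (nat_lit 684) (nat_lit 3130560638) (nat_lit 76) (nat_lit 3120186) (nat_lit 192) (nat_lit 5) (nat_lit 201) (nat_lit 5) (nat_lit 193) (nat_lit 5) (nat_lit 352) (nat_lit 326) (nat_lit 222)))))) (XT.nd (nat_lit 468) (nat_lit 1824) (nat_lit 0) (XT.nd (nat_lit 234) (nat_lit 456) (nat_lit 0) (XT.nd (nat_lit 78) (nat_lit 608) (nat_lit 0) (XT.lf (nat_lit 0) (nat_lit 4214325870) (nat_lit 532) (nat_lit 8325951225) (nat_lit 608) (nat_lit 1260838438) (nat_lit 185) (nat_lit 5) (nat_lit 192) (nat_lit 5) (nat_lit 193) (nat_lit 5) (nat_lit 353) (nat_lit 326) (nat_lit 221)) (XT.nd (nat_lit 78) (nat_lit 532) (nat_lit 0) (XT.lf (nat_lit 0) (nat_lit 670779519) (nat_lit 608) (nat_lit 2208697446) (nat_lit 76) (nat_lit 11149277028) (nat_lit 184) (nat_lit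 5) (nat_lit 192) (nat_lit 5) (nat_lit 185) (nat_lit 5) (nat_lit 354) (nat_lit 326) (nat_lit 220)) (XT.lf (nat_lit 0) (nat_lit 2698628008) (nat_lit 608) (nat_lit 8820410268) (nat_lit 76) (nat_lit 2741909039) (nat_lit 177) (nat_lit 5) (nat_lit 185) (nat_lit 5) (nat_lit 178) (nat_lit 5) (nat_lit 355) (nat_lit 326) (nat_lit 219)))) (XT.nd (nat_lit 78) (nat_lit 456) (nat_lit 0) (XT.lf (nat_lit 0) (nat_lit 4822815639) (nat_lit 608) (nat_lit 1180677049) (nat_lit 76) (nat_lit 8495557300) (nat_lit 177) (nat_lit 5) (nat_lit 185) (nat_lit 5) (nat_lit 178) (nat_lit 5) (nat_lit 356) (nat_lit 326) (nat_lit 218)) (XT.nd (nat_lit 78) (nat_lit 0) (nat_lit 0) (XT.lf (nat_lit 0) (nat_lit 6804490491) (nat_lit 456) (nat_lit 256569346) (nat_lit 532) (nat_lit 7681734388) (nat_lit 171) (nat_lit 5) (nat_lit 177) (nat_lit 5) (nat_lit 178) (nat_lit 5) (nat_lit 357) (nat_lit 326) (nat_lit 217)) (XT.lf (nat_lit 0) (nat_lit 9418114443)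 (nat_lit 532) (nat_lit 11441836) (nat_lit 76) (nat_lit 5562752783) (nat_lit 171) (nat_lit 5) (nat_lit 178) (nat_lit 5) (nat_lit 172) (nat_lit 5) (nat_lit 358) (nat_lit 326) (nat_lit 216))))) (XT.nd (nat_lit 234) (nat_lit 836) (nat_lit 0) (XT.nd (nat_lit 78) (nat_lit 532) (nat_lit 0) (XT.lf (nat_lit 0) (nat_lit 8296252554) (nat_lit 456) (nat_lit 3617537061) (nat_lit 532) (nat_lit 3333490390) (nat_lit 165) (nat_lit 5) (nat_lit 171) (nat_lit 5) (nat_lit 172) (nat_lit 5) (nat_lit 359) (nat_lit 326) (nat_lit 215)) (XT.nd (nat_lit 78) (nat_lit 76) (nat_lit 0) (XT.lf (nat_lit 0) (nat_lit 1330124993) (nat_lit 456) (nat_lit 13175747256) (nat_lit 532) (nat_lit 1003389408) (nat_lit 159) (nat_lit 5) (nat_lit 165) (nat_lit 5) (nat_lit 166) (nat_lit 5) (nat_lit 360) (nat_lit 326) (nat_lit 214)) (XT.lf (nat_lit 0) (nat_lit 1462038517) (nat_lit 532) (nat_lit 5841431293) (nat_lit 76) (nat_lit 8472457145) (nat_lit 158) (nat_lit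 5) (nat_lit 165) (nat_lit 5) (nat_lit 159) (nat_lit 5) (nat_lit 361) (nat_lit 326) (nat_lit 213)))) (XT.nd (nat_lit 156) (nat_lit 380) (nat_lit 0) (XT.nd (nat_lit 78) (nat_lit 0) (nat_lit 0) (XT.lf (nat_lit 0) (nat_lit 2774397267) (nat_lit 456) (nat_lit 1219915618) (nat_lit 532) (nat_lit 12055596811) (nat_lit 152) (nat_lit 5) (nat_lit 158) (nat_lit 5) (nat_lit 159) (nat_lit 5) (nat_lit 362) (nat_lit 326) (nat_lit 212)) (XT.lf (nat_lit 0) (nat_lit 6697231298) (nat_lit 532) (nat_lit 4627424034) (nat_lit 76) (nat_lit 5004623152) (nat_lit 152) (nat_lit 5) (nat_lit 159) (nat_lit 5) (nat_lit 153) (nat_lit 5) (nat_lit 363) (nat_lit 326) (nat_lit 211))) (XT.nd (nat_lit 78) (nat_lit 0) (nat_lit 0) (XT.lf (nat_lit 0) (nat_lit 4336696550) (nat_lit 380) (nat_lit 5185294556) (nat_lit 456) (nat_lit 7093821252) (nat_lit 147) (nat_lit 5) (nat_lit 152) (nat_lit 5) (nat_lit 153) (nat_lit 5) (nat_lit 364) (nat_lit 326) (nat_lit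 210)) (XT.lf (nat_lit 0) (nat_lit 12476812397) (nat_lit 456) (nat_lit 3272507394) (nat_lit 76) (nat_lit 1160269345) (nat_lit 147) (nat_lit 5) (nat_lit 153) (nat_lit 5) (nat_lit 148) (nat_lit 5) (nat_lit 365) (nat_lit 326) (nat_lit 209))))))) (XT.nd (nat_lit 1014) (nat_lit 2280) (nat_lit 0) (XT.nd (nat_lit 468) (nat_lit 1140) (nat_lit 0) (XT.nd (nat_lit 234) (nat_lit 684) (nat_lit 0) (XT.nd (nat_lit 78) (nat_lit 456) (nat_lit 0) (XT.lf (nat_lit 0) (nat_lit 6055432525) (nat_lit 456) (nat_lit 9561953673) (nat_lit 532) (nat_lit 1591886041) (nat_lit 141) (nat_lit 5) (nat_lit 147) (nat_lit 5) (nat_lit 148) (nat_lit 5) (nat_lit 366) (nat_lit 326) (nat_lit 208)) (XT.nd (nat_lit 78) (nat_lit 380) (nat_lit 0) (XT.lf (nat_lit 0) (nat_lit 1329214585) (nat_lit 532) (nat_lit 1815601697) (nat_lit 76) (nat_lit 14372120123) (nat_lit 140) (nat_lit 5) (nat_lit 147) (nat_lit 5) (nat_lit 141) (nat_lit 5) (nat_lit 367) (nat_lit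 326) (nat_lit 207)) (XT.lf (nat_lit 0) (nat_lit 4404336081) (nat_lit 456) (nat_lit 9939256360) (nat_lit 76) (nat_lit 3486819451) (nat_lit 135) (nat_lit 5) (nat_lit 141) (nat_lit 5) (nat_lit 136) (nat_lit 5) (nat_lit 368) (nat_lit 326) (nat_lit 206)))) (XT.nd (nat_lit 78) (nat_lit 684) (nat_lit 0) (XT.lf (nat_lit 0) (nat_lit 7609540048) (nat_lit 456) (nat_lit 273231437) (nat_lit 76) (nat_lit 10269390853) (nat_lit 135) (nat_lit 5) (nat_lit 141) (nat_lit 5) (nat_lit 136) (nat_lit 5) (nat_lit 369) (nat_lit 326) (nat_lit 205)) (XT.nd (nat_lit 78) (nat_lit 304) (nat_lit 0) (XT.lf (nat_lit 0) (nat_lit 9860127406) (nat_lit 380) (nat_lit 1134075168) (nat_lit 456) (nat_lit 7486869048) (nat_lit 130) (nat_lit 5) (nat_lit 135) (nat_lit 5) (nat_lit 136) (nat_lit 5) (nat_lit 370) (nat_lit 326) (nat_lit 204)) (XT.lf (nat_lit 0) (nat_lit 1440267769) (nat_lit 304) (nat_lit 13101362861) (nat_lit 380) (nat_lit 4276386027)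 (nat_lit 126) (nat_lit 5) (nat_lit 130) (nat_lit 5) (nat_lit 131) (nat_lit 5) (nat_lit 371) (nat_lit 326) (nat_lit 203))))) (XT.nd (nat_lit 234) (nat_lit 684) (nat_lit 0) (XT.nd (nat_lit 78) (nat_lit 456) (nat_lit 0) (XT.lf (nat_lit 0) (nat_lit 11953519299) (nat_lit 304) (nat_lit 6328997364) (nat_lit 380) (nat_lit 879947415) (nat_lit 126) (nat_lit 5) (nat_lit 130) (nat_lit 5) (nat_lit 131) (nat_lit 5) (nat_lit 372) (nat_lit 326) (nat_lit 202)) (XT.nd (nat_lit 78) (nat_lit 0) (nat_lit 0) (XT.lf (nat_lit 0) (nat_lit 2594721023) (nat_lit 456) (nat_lit 16233526687) (nat_lit 76) (nat_lit 687424000) (nat_lit 120) (nat_lit 5) (nat_lit 126) (nat_lit 5) (nat_lit 121) (nat_lit 5) (nat_lit 373) (nat_lit 326) (nat_lit 201)) (XT.lf (nat_lit 0) (nat_lit 6281337214) (nat_lit 456) (nat_lit 5728637031) (nat_lit 76) (nat_lit 7865482798) (nat_lit 120) (nat_lit 5) (nat_lit 126) (nat_lit 5) (nat_lit 121) (nat_lit 5) (nat_lit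 374) (nat_lit 326) (nat_lit 200)))) (XT.nd (nat_lit 156) (nat_lit 380) (nat_lit 0) (XT.nd (nat_lit 78) (nat_lit 0) (nat_lit 0) (XT.lf (nat_lit 0) (nat_lit 5177882409) (nat_lit 304) (nat_lit 4939970097) (nat_lit 380) (nat_lit 10127008934) (nat_lit 116) (nat_lit 5) (nat_lit 120) (nat_lit 5) (nat_lit 121) (nat_lit 5) (nat_lit 375) (nat_lit 326) (nat_lit 199)) (XT.lf (nat_lit 0) (nat_lit 14140052664) (nat_lit 380) (nat_lit 4132357850) (nat_lit 76) (nat_lit 2350824161) (nat_lit 116) (nat_lit 5) (nat_lit 121) (nat_lit 5) (nat_lit 117) (nat_lit 5) (nat_lit 376) (nat_lit 326) (nat_lit 198))) (XT.nd (nat_lit 78) (nat_lit 76) (nat_lit 0) (XT.lf (nat_lit 0) (nat_lit 7207781521) (nat_lit 304) (nat_lit 11183289455) (nat_lit 380) (nat_lit 2618647829) (nat_lit 112) (nat_lit 5) (nat_lit 116) (nat_lit 5) (nat_lit 117) (nat_lit 5) (nat_lit 377) (nat_lit 326) (nat_lit 197)) (XT.lf (nat_lit 0) (nat_lit 1367401002) (nat_lit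 380) (nat_lit 2461537715) (nat_lit 76) (nat_lit 17577505459) (nat_lit 111) (nat_lit 5) (nat_lit 116) (nat_lit 5) (nat_lit 112) (nat_lit 5) (nat_lit 378) (nat_lit 326) (nat_lit 196)))))) (XT.nd (nat_lit 546) (nat_lit 1064) (nat_lit 0) (XT.nd (nat_lit 234) (nat_lit 608) (nat_lit 0) (XT.nd (nat_lit 78) (nat_lit 304) (nat_lit 0) (XT.lf (nat_lit 0) (nat_lit 5537809923) (nat_lit 380) (nat_lit 12487079046) (nat_lit 76) (nat_lit 3785886097) (nat_lit 107) (nat_lit 5) (nat_lit 112) (nat_lit 5) (nat_lit 108) (nat_lit 5) (nat_lit 379) (nat_lit 326) (nat_lit 195)) (XT.nd (nat_lit 78) (nat_lit 304) (nat_lit 0) (XT.lf (nat_lit 0) (nat_lit 9886755510) (nat_lit 380) (nat_lit 765719505) (nat_lit 76) (nat_lit 11573161922) (nat_lit 107) (nat_lit 5) (nat_lit 112) (nat_lit 5) (nat_lit 108) (nat_lit 5) (nat_lit 380) (nat_lit 326) (nat_lit 194)) (XT.lf (nat_lit 0) (nat_lit 11518436507) (nat_lit 304) (nat_lit 2949145800) (nat_lit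 380) (nat_lit 8182323648) (nat_lit 103) (nat_lit 5) (nat_lit 107) (nat_lit 5) (nat_lit 108) (nat_lit 5) (nat_lit 381) (nat_lit 326) (nat_lit 193)))) (XT.nd (nat_lit 156) (nat_lit 304) (nat_lit 0) (XT.nd (nat_lit 78) (nat_lit 76) (nat_lit 0) (XT.lf (nat_lit 0) (nat_lit 1059097029) (nat_lit 228) (nat_lit 18183438745) (nat_lit 304) (nat_lit 3842669783) (nat_lit 100) (nat_lit 5) (nat_lit 103) (nat_lit 5) (nat_lit 104) (nat_lit 5) (nat_lit 382) (nat_lit 326) (nat_lit 192)) (XT.lf (nat_lit 0) (nat_lit 748488927) (nat_lit 304) (nat_lit 9736733975) (nat_lit 76) (nat_lit 13044157137) (nat_lit 99) (nat_lit 5) (nat_lit 103) (nat_lit 5) (nat_lit 100) (nat_lit 5) (nat_lit 383) (nat_lit 326) (nat_lit 191))) (XT.nd (nat_lit 78) (nat_lit 0) (nat_lit 0) (XT.lf (nat_lit 0) (nat_lit 2927027823) (nat_lit 304) (nat_lit 2492359273) (nat_lit 380) (nat_lit 18565777380) (nat_lit 95) (nat_lit 5) (nat_lit 99) (nat_lit 5) (nat_lit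 100) (nat_lit 5) (nat_lit 384) (nat_lit 326) (nat_lit 190)) (XT.lf (nat_lit 0) (nat_lit 10376077977) (nat_lit 380) (nat_lit 8350986266) (nat_lit 76) (nat_lit 5723191403) (nat_lit 95) (nat_lit 5) (nat_lit 100) (nat_lit 5) (nat_lit 96) (nat_lit 5) (nat_lit 385) (nat_lit 326) (nat_lit 189))))) (XT.nd (nat_lit 234) (nat_lit 456) (nat_lit 0) (XT.nd (nat_lit 78) (nat_lit 380) (nat_lit 0) (XT.lf (nat_lit 0) (nat_lit 4793168957) (nat_lit 228) (nat_lit 10750500069) (nat_lit 304) (nat_lit 9383767621) (nat_lit 92) (nat_lit 5) (nat_lit 95) (nat_lit 5) (nat_lit 96) (nat_lit 5) (nat_lit 386) (nat_lit 326) (nat_lit 188)) (XT.nd (nat_lit 78) (nat_lit 380) (nat_lit 0) (XT.lf (nat_lit 0) (nat_lit 18489899115) (nat_lit 228) (nat_lit 2452289763) (nat_lit 304) (nat_lit 4474470156) (nat_lit 92) (nat_lit 5) (nat_lit 95) (nat_lit 5) (nat_lit 96) (nat_lit 5) (nat_lit 387) (nat_lit 326) (nat_lit 187)) (XT.lf (nat_lit 0) (nat_lit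 687008667) (nat_lit 380) (nat_lit 19186758609) (nat_lit 76) (nat_lit 6043137926) (nat_lit 87) (nat_lit 5) (nat_lit 92) (nat_lit 5) (nat_lit 88) (nat_lit 5) (nat_lit 388) (nat_lit 326) (nat_lit 186)))) (XT.nd (nat_lit 156) (nat_lit 228) (nat_lit 0) (XT.nd (nat_lit 78) (nat_lit 228) (nat_lit 0) (XT.lf (nat_lit 0) (nat_lit 6000129634) (nat_lit 380) (nat_lit 5573389378) (nat_lit 76) (nat_lit 14854711520) (nat_lit 87) (nat_lit 5) (nat_lit 92) (nat_lit 5) (nat_lit 88) (nat_lit 5) (nat_lit 389) (nat_lit 326) (nat_lit 185)) (XT.lf (nat_lit 0) (nat_lit 8603839038) (nat_lit 228) (nat_lit 2943559939) (nat_lit 304) (nat_lit 15405256659) (nat_lit 84) (nat_lit 5) (nat_lit 87) (nat_lit 5) (nat_lit 88) (nat_lit 5) (nat_lit 390) (nat_lit 326) (nat_lit 184))) (XT.nd (nat_lit 78) (nat_lit 228) (nat_lit 0) (XT.lf (nat_lit 0) (nat_lit 17367193373) (nat_lit 304) (nat_lit 4240705397) (nat_lit 76) (nat_lit 5881734092) (nat_lit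 84) (nat_lit 5) (nat_lit 88) (nat_lit 5) (nat_lit 85) (nat_lit 5) (nat_lit 391) (nat_lit 326) (nat_lit 183)) (XT.lf (nat_lit 0) (nat_lit 10453345096) (nat_lit 228) (nat_lit 13030213731) (nat_lit 304) (nat_lit 4555503765) (nat_lit 81) (nat_lit 5) (nat_lit 84) (nat_lit 5) (nat_lit 85) (nat_lit 5) (nat_lit 392) (nat_lit 326) (nat_lit 182))))))))
noncomputable def xc170 : XT := (XT.nd (nat_lit 2028) (nat_lit 1368) (nat_lit 0) (XT.nd (nat_lit 1014) (nat_lit 1140) (nat_lit 0) (XT.nd (nat_lit 468) (nat_lit 836) (nat_lit 0) (XT.nd (nat_lit 234) (nat_lit 456) (nat_lit 0) (XT.nd (nat_lit 78) (nat_lit 228) (nat_lit 0) (XT.lf (nat_lit 0) (nat_lit 1191070534) (nat_lit 304) (nat_lit 2952472280) (nat_lit 76) (nat_lit 24460026140) (nat_lit 80) (nat_lit 5) (nat_lit 84) (nat_lit 5) (nat_lit 81) (nat_lit 5) (nat_lit 393) (nat_lit 326) (nat_lit 181)) (XT.nd (nat_lit 78) (nat_lit 0) (nat_lit 0) (XT.lf (nat_lit 0) (nat_lit 7179076942)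 (nat_lit 304) (nat_lit 16927147356) (nat_lit 76) (nat_lit 5072617500) (nat_lit 77) (nat_lit 5) (nat_lit 81) (nat_lit 5) (nat_lit 78) (nat_lit 5) (nat_lit 394) (nat_lit 326) (nat_lit 180)) (XT.lf (nat_lit 0) (nat_lit 13410519931) (nat_lit 304) (nat_lit 1851175207) (nat_lit 76) (nat_lit 14507766021) (nat_lit 77) (nat_lit 5) (nat_lit 81) (nat_lit 5) (nat_lit 78) (nat_lit 5) (nat_lit 395) (nat_lit 326) (nat_lit 179)))) (XT.nd (nat_lit 78) (nat_lit 228) (nat_lit 0) (XT.lf (nat_lit 0) (nat_lit 13937507868) (nat_lit 228) (nat_lit 6018249767) (nat_lit 304) (nat_lit 10418238082) (nat_lit 74) (nat_lit 5) (nat_lit 77) (nat_lit 5) (nat_lit 78) (nat_lit 5) (nat_lit 396) (nat_lit 326) (nat_lit 178)) (XT.nd (nat_lit 78) (nat_lit 228) (nat_lit 0) (XT.lf (nat_lit 0) (nat_lit 26742829913) (nat_lit 304) (nat_lit 803756744) (nat_lit 76) (nat_lit 3448717428) (nat_lit 74) (nat_lit 5) (nat_lit 78) (nat_lit 5) (nat_lit 75) (nat_lit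 5) (nat_lit 397) (nat_lit 326) (nat_lit 177)) (XT.lf (nat_lit 0) (nat_lit 2261324966) (nat_lit 228) (nat_lit 16121203234) (nat_lit 76) (nat_lit 13246000179) (nat_lit 71) (nat_lit 5) (nat_lit 74) (nat_lit 5) (nat_lit 72) (nat_lit 5) (nat_lit 398) (nat_lit 326) (nat_lit 176))))) (XT.nd (nat_lit 234) (nat_lit 456) (nat_lit 0) (XT.nd (nat_lit 78) (nat_lit 380) (nat_lit 0) (XT.lf (nat_lit 0) (nat_lit 8886424898) (nat_lit 228) (nat_lit 9760841) (nat_lit 76) (nat_lit 23383261749) (nat_lit 71) (nat_lit 5) (nat_lit 74) (nat_lit 5) (nat_lit 72) (nat_lit 5) (nat_lit 399) (nat_lit 326) (nat_lit 175)) (XT.nd (nat_lit 78) (nat_lit 152) (nat_lit 0) (XT.lf (nat_lit 0) (nat_lit 15876104418) (nat_lit 304) (nat_lit 16051273026) (nat_lit 76) (nat_lit 1017543791) (nat_lit 68) (nat_lit 5) (nat_lit 72) (nat_lit 5) (nat_lit 69) (nat_lit 5) (nat_lit 400) (nat_lit 326) (nat_lit 174)) (XT.lf (nat_lit 0) (nat_lit 586355841) (nat_lit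 152) (nat_lit 22576343074) (nat_lit 228) (nat_lit 10465045351) (nat_lit 66) (nat_lit 5) (nat_lit 68) (nat_lit 5) (nat_lit 69) (nat_lit 5) (nat_lit 401) (nat_lit 326) (nat_lit 173)))) (XT.nd (nat_lit 156) (nat_lit 152) (nat_lit 0) (XT.nd (nat_lit 78) (nat_lit 304) (nat_lit 0) (XT.lf (nat_lit 0) (nat_lit 18041249421) (nat_lit 152) (nat_lit 12782223042) (nat_lit 228) (nat_lit 3502913844) (nat_lit 66) (nat_lit 5) (nat_lit 68) (nat_lit 5) (nat_lit 69) (nat_lit 5) (nat_lit 402) (nat_lit 326) (nat_lit 172)) (XT.lf (nat_lit 0) (nat_lit 946297342) (nat_lit 228) (nat_lit 2652923268) (nat_lit 304) (nat_lit 31445629363) (nat_lit 62) (nat_lit 5) (nat_lit 65) (nat_lit 5) (nat_lit 66) (nat_lit 5) (nat_lit 403) (nat_lit 326) (nat_lit 171))) (XT.nd (nat_lit 78) (nat_lit 152) (nat_lit 0) (XT.lf (nat_lit 0) (nat_lit 11078541270) (nat_lit 304) (nat_lit 16873283997) (nat_lit 76) (nat_lit 7824967602) (nat_lit 62) (nat_lit 5)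 (nat_lit 66) (nat_lit 5) (nat_lit 63) (nat_lit 5) (nat_lit 404) (nat_lit 326) (nat_lit 170)) (XT.lf (nat_lit 0) (nat_lit 848593759) (nat_lit 152) (nat_lit 17961918691) (nat_lit 228) (nat_lit 17719335036) (nat_lit 60) (nat_lit 5) (nat_lit 62) (nat_lit 5) (nat_lit 63) (nat_lit 5) (nat_lit 405) (nat_lit 326) (nat_lit 169)))))) (XT.nd (nat_lit 468) (nat_lit 760) (nat_lit 0) (XT.nd (nat_lit 234) (nat_lit 152) (nat_lit 0) (XT.nd (nat_lit 78) (nat_lit 228) (nat_lit 0) (XT.lf (nat_lit 0) (nat_lit 19437674506) (nat_lit 152) (nat_lit 7501082300) (nat_lit 228) (nat_lit 10361809028) (nat_lit 60) (nat_lit 5) (nat_lit 62) (nat_lit 5) (nat_lit 63) (nat_lit 5) (nat_lit 406) (nat_lit 326) (nat_lit 168)) (XT.nd (nat_lit 78) (nat_lit 76) (nat_lit 0) (XT.lf (nat_lit 0) (nat_lit 457301368) (nat_lit 152) (nat_lit 34883474657) (nat_lit 228) (nat_lit 2752733351) (nat_lit 58) (nat_lit 5) (nat_lit 60) (nat_lit 5) (nat_lit 61) (nat_lit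 5) (nat_lit 407) (nat_lit 326) (nat_lit 167)) (XT.lf (nat_lit 0) (nat_lit 5235910347) (nat_lit 228) (nat_lit 19346684673) (nat_lit 76) (nat_lit 14318665852) (nat_lit 57) (nat_lit 5) (nat_lit 60) (nat_lit 5) (nat_lit 58) (nat_lit 5) (nat_lit 408) (nat_lit 326) (nat_lit 166)))) (XT.nd (nat_lit 78) (nat_lit 152) (nat_lit 0) (XT.lf (nat_lit 0) (nat_lit 13403139188) (nat_lit 228) (nat_lit 545629401) (nat_lit 76) (nat_lit 25783832434) (nat_lit 57) (nat_lit 5) (nat_lit 60) (nat_lit 5) (nat_lit 58) (nat_lit 5) (nat_lit 409) (nat_lit 326) (nat_lit 165)) (XT.nd (nat_lit 78) (nat_lit 0) (nat_lit 0) (XT.lf (nat_lit 0) (nat_lit 19184199705) (nat_lit 152) (nat_lit 2810015885) (nat_lit 228) (nat_lit 18589302175) (nat_lit 55) (nat_lit 5) (nat_lit 57) (nat_lit 5) (nat_lit 58) (nat_lit 5) (nat_lit 410) (nat_lit 326) (nat_lit 164)) (XT.lf (nat_lit 0) (nat_lit 30926314651) (nat_lit 228) (nat_lit 2035660237) (nat_lit 76) (nat_lit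 8495489676) (nat_lit 55) (nat_lit 5) (nat_lit 58) (nat_lit 5) (nat_lit 56) (nat_lit 5) (nat_lit 411) (nat_lit 326) (nat_lit 163))))) (XT.nd (nat_lit 234) (nat_lit 380) (nat_lit 0) (XT.nd (nat_lit 78) (nat_lit 228) (nat_lit 0) (XT.lf (nat_lit 0) (nat_lit 18227404158) (nat_lit 152) (nat_lit 22096621929) (nat_lit 228) (nat_lit 2027675432) (nat_lit 53) (nat_lit 5) (nat_lit 55) (nat_lit 5) (nat_lit 56) (nat_lit 5) (nat_lit 412) (nat_lit 326) (nat_lit 162)) (XT.nd (nat_lit 78) (nat_lit 152) (nat_lit 0) (XT.lf (nat_lit 0) (nat_lit 6614947235) (nat_lit 228) (nat_lit 4206344254) (nat_lit 76) (nat_lit 32449072563) (nat_lit 52) (nat_lit 5) (nat_lit 55) (nat_lit 5) (nat_lit 53) (nat_lit 5) (nat_lit 413) (nat_lit 326) (nat_lit 161)) (XT.lf (nat_lit 0) (nat_lit 15639844381) (nat_lit 228) (nat_lit 27616743160) (nat_lit 76) (nat_lit 954485266) (nat_lit 50) (nat_lit 5) (nat_lit 53) (nat_lit 5) (nat_lit 51) (nat_lit 5) (nat_lit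 414) (nat_lit 326) (nat_lit 160)))) (XT.nd (nat_lit 156) (nat_lit 228) (nat_lit 0) (XT.nd (nat_lit 78) (nat_lit 152) (nat_lit 0) (XT.lf (nat_lit 0) (nat_lit 25080339232) (nat_lit 228) (nat_lit 7190176635) (nat_lit 76) (nat_lit 12905142527) (nat_lit 50) (nat_lit 5) (nat_lit 53) (nat_lit 5) (nat_lit 51) (nat_lit 5) (nat_lit 415) (nat_lit 326) (nat_lit 159)) (XT.lf (nat_lit 0) (nat_lit 14115766692) (nat_lit 152) (nat_lit 20818935611) (nat_lit 228) (nat_lit 11230560706) (nat_lit 48) (nat_lit 5) (nat_lit 50) (nat_lit 5) (nat_lit 51) (nat_lit 5) (nat_lit 416) (nat_lit 326) (nat_lit 158))) (XT.nd (nat_lit 78) (nat_lit 228) (nat_lit 0) (XT.lf (nat_lit 0) (nat_lit 36199497206) (nat_lit 152) (nat_lit 8952831992) (nat_lit 228) (nat_lit 2030198609) (nat_lit 48) (nat_lit 5) (nat_lit 50) (nat_lit 5) (nat_lit 51) (nat_lit 5) (nat_lit 417) (nat_lit 326) (nat_lit 157)) (XT.lf (nat_lit 0) (nat_lit 7433393005) (nat_lit 228)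 (nat_lit 37411424772) (nat_lit 76) (nat_lit 3379370819) (nat_lit 45) (nat_lit 5) (nat_lit 48) (nat_lit 5) (nat_lit 46) (nat_lit 5) (nat_lit 418) (nat_lit 326) (nat_lit 156))))))) (XT.nd (nat_lit 1014) (nat_lit 608) (nat_lit 0) (XT.nd (nat_lit 468) (nat_lit 456) (nat_lit 0) (XT.nd (nat_lit 234) (nat_lit 152) (nat_lit 0) (XT.nd (nat_lit 78) (nat_lit 152) (nat_lit 0) (XT.lf (nat_lit 0) (nat_lit 17335880960) (nat_lit 228) (nat_lit 15924689578) (nat_lit 76) (nat_lit 16030052777) (nat_lit 45) (nat_lit 5) (nat_lit 48) (nat_lit 5) (nat_lit 46) (nat_lit 5) (nat_lit 419) (nat_lit 326) (nat_lit 155)) (XT.nd (nat_lit 78) (nat_lit 0) (nat_lit 0) (XT.lf (nat_lit 0) (nat_lit 6321606874) (nat_lit 152) (nat_lit 21269891703) (nat_lit 228) (nat_lit 22795871764) (nat_lit 43) (nat_lit 5) (nat_lit 45) (nat_lit 5) (nat_lit 46) (nat_lit 5) (nat_lit 420) (nat_lit 326) (nat_lit 154)) (XT.lf (nat_lit 0) (nat_lit 29553416963) (nat_lit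 152) (nat_lit 8757521083) (nat_lit 228) (nat_lit 13201398023) (nat_lit 43) (nat_lit 5) (nat_lit 45) (nat_lit 5) (nat_lit 46) (nat_lit 5) (nat_lit 421) (nat_lit 326) (nat_lit 153)))) (XT.nd (nat_lit 78) (nat_lit 76) (nat_lit 0) (XT.lf (nat_lit 0) (nat_lit 778442750) (nat_lit 76) (nat_lit 48616149617) (nat_lit 152) (nat_lit 3275180315) (nat_lit 42) (nat_lit 5) (nat_lit 43) (nat_lit 5) (nat_lit 44) (nat_lit 4) (nat_lit 422) (nat_lit 326) (nat_lit 152)) (XT.nd (nat_lit 78) (nat_lit 0) (nat_lit 0) (XT.lf (nat_lit 0) (nat_lit 7119328994) (nat_lit 152) (nat_lit 29371105240) (nat_lit 76) (nat_lit 17360312034) (nat_lit 41) (nat_lit 5) (nat_lit 43) (nat_lit 5) (nat_lit 42) (nat_lit 5) (nat_lit 423) (nat_lit 326) (nat_lit 151)) (XT.lf (nat_lit 0) (nat_lit 17755434083) (nat_lit 152) (nat_lit 6215649821) (nat_lit 76) (nat_lit 31095225470) (nat_lit 41) (nat_lit 5) (nat_lit 43) (nat_lit 5) (nat_lit 42) (nat_lit 5) (nat_lit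 424) (nat_lit 326) (nat_lit 150))))) (XT.nd (nat_lit 234) (nat_lit 228) (nat_lit 0) (XT.nd (nat_lit 78) (nat_lit 76) (nat_lit 0) (XT.lf (nat_lit 0) (nat_lit 17977559215) (nat_lit 152) (nat_lit 10901591282) (nat_lit 228) (nat_lit 27434133799) (nat_lit 39) (nat_lit 5) (nat_lit 41) (nat_lit 5) (nat_lit 42) (nat_lit 5) (nat_lit 425) (nat_lit 326) (nat_lit 149)) (XT.nd (nat_lit 78) (nat_lit 76) (nat_lit 0) (XT.lf (nat_lit 0) (nat_lit 40420309275) (nat_lit 228) (nat_lit 14604772082) (nat_lit 76) (nat_lit 2570075926) (nat_lit 39) (nat_lit 5) (nat_lit 42) (nat_lit 5) (nat_lit 40) (nat_lit 4) (nat_lit 426) (nat_lit 326) (nat_lit 148)) (XT.lf (nat_lit 0) (nat_lit 9916162077) (nat_lit 76) (nat_lit 42590657113) (nat_lit 152) (nat_lit 6402694503) (nat_lit 38) (nat_lit 5) (nat_lit 39) (nat_lit 5) (nat_lit 40) (nat_lit 4) (nat_lit 427) (nat_lit 326) (nat_lit 147)))) (XT.nd (nat_lit 156) (nat_lit 152) (nat_lit 0) (XT.nd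 (nat_lit 78) (nat_lit 0) (nat_lit 0) (XT.lf (nat_lit 0) (nat_lit 4745860889) (nat_lit 152) (nat_lit 24840857408) (nat_lit 76) (nat_lit 30670885710) (nat_lit 37) (nat_lit 5) (nat_lit 39) (nat_lit 5) (nat_lit 38) (nat_lit 5) (nat_lit 428) (nat_lit 326) (nat_lit 146)) (XT.lf (nat_lit 0) (nat_lit 16096173005) (nat_lit 152) (nat_lit 34482563) (nat_lit 76) (nat_lit 45513700699) (nat_lit 37) (nat_lit 5) (nat_lit 39) (nat_lit 5) (nat_lit 38) (nat_lit 5) (nat_lit 429) (nat_lit 326) (nat_lit 145))) (XT.nd (nat_lit 78) (nat_lit 0) (nat_lit 0) (XT.lf (nat_lit 0) (nat_lit 26016674026) (nat_lit 152) (nat_lit 2016513381) (nat_lit 228) (nat_lit 35032138542) (nat_lit 35) (nat_lit 5) (nat_lit 37) (nat_lit 5) (nat_lit 38) (nat_lit 5) (nat_lit 430) (nat_lit 326) (nat_lit 144)) (XT.lf (nat_lit 0) (nat_lit 40445144170) (nat_lit 228) (nat_lit 11806310228) (nat_lit 76) (nat_lit 12273965990) (nat_lit 35) (nat_lit 5) (nat_lit 38)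 (nat_lit 5) (nat_lit 36) (nat_lit 4) (nat_lit 431) (nat_lit 326) (nat_lit 143)))))) (XT.nd (nat_lit 702) (nat_lit 228) (nat_lit 0) (XT.nd (nat_lit 234) (nat_lit 76) (nat_lit 0) (XT.nd (nat_lit 78) (nat_lit 228) (nat_lit 0) (XT.lf (nat_lit 0) (nat_lit 14448378418) (nat_lit 76) (nat_lit 38936166602) (nat_lit 152) (nat_lit 12640120684) (nat_lit 34) (nat_lit 5) (nat_lit 35) (nat_lit 5) (nat_lit 36) (nat_lit 4) (nat_lit 432) (nat_lit 326) (nat_lit 142)) (XT.nd (nat_lit 78) (nat_lit 228) (nat_lit 0) (XT.lf (nat_lit 0) (nat_lit 41725895410) (nat_lit 76) (nat_lit 25101730380) (nat_lit 152) (nat_lit 737798241) (nat_lit 34) (nat_lit 5) (nat_lit 35) (nat_lit 5) (nat_lit 36) (nat_lit 4) (nat_lit 433) (nat_lit 326) (nat_lit 141)) (XT.lf (nat_lit 0) (nat_lit 562859232) (nat_lit 152) (nat_lit 10735666786) (nat_lit 228) (nat_lit 57850504267) (nat_lit 31) (nat_lit 5) (nat_lit 33) (nat_lit 5) (nat_lit 34) (nat_lit 5) (nat_lit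 434) (nat_lit 326) (nat_lit 140)))) (XT.nd (nat_lit 156) (nat_lit 76) (nat_lit 0) (XT.nd (nat_lit 78) (nat_lit 0) (nat_lit 0) (XT.lf (nat_lit 0) (nat_lit 23980026249) (nat_lit 228) (nat_lit 42540960280) (nat_lit 76) (nat_lit 4249972130) (nat_lit 31) (nat_lit 5) (nat_lit 34) (nat_lit 5) (nat_lit 32) (nat_lit 4) (nat_lit 435) (nat_lit 326) (nat_lit 139)) (XT.lf (nat_lit 0) (nat_lit 37144733932) (nat_lit 228) (nat_lit 15827209529) (nat_lit 76) (nat_lit 19466519075) (nat_lit 31) (nat_lit 5) (nat_lit 34) (nat_lit 5) (nat_lit 32) (nat_lit 4) (nat_lit 436) (nat_lit 326) (nat_lit 138))) (XT.nd (nat_lit 78) (nat_lit 0) (nat_lit 0) (XT.lf (nat_lit 0) (nat_lit 11914108274) (nat_lit 76) (nat_lit 38901371834) (nat_lit 152) (nat_lit 23337179009) (nat_lit 30) (nat_lit 5) (nat_lit 31) (nat_lit 5) (nat_lit 32) (nat_lit 4) (nat_lit 437) (nat_lit 326) (nat_lit 137)) (XT.lf (nat_lit 0) (nat_lit 40805837338) (nat_lit 76) (nat_lit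 24246946262) (nat_lit 152) (nat_lit 10860805439) (nat_lit 30) (nat_lit 5) (nat_lit 31) (nat_lit 5) (nat_lit 32) (nat_lit 4) (nat_lit 438) (nat_lit 326) (nat_lit 136))))) (XT.nd (nat_lit 38142) (nat_lit 0) (nat_lit 17404) (XT.nd (nat_lit 37986) (nat_lit 0) (nat_lit 17328) (XT.lf (nat_lit 0) (nat_lit 28998664672) (nat_lit 228) (nat_lit 29753672917) (nat_lit 76) (nat_lit 22738000899) (nat_lit 27) (nat_lit 5) (nat_lit 30) (nat_lit 5) (nat_lit 28) (nat_lit 4) (nat_lit 441) (nat_lit 326) (nat_lit 133)) (XT.nd (nat_lit 78) (nat_lit 0) (nat_lit 0) (XT.lf (nat_lit 0) (nat_lit 676343821) (nat_lit 1140) (nat_lit 2058360300) (nat_lit 1140) (nat_lit 2058360300) (nat_lit 255) (nat_lit 3) (nat_lit 270) (nat_lit 3) (nat_lit 270) (nat_lit 5) (nat_lit 327) (nat_lit 327) (nat_lit 246)) (XT.lf (nat_lit 76) (nat_lit 444595831) (nat_lit 0) (nat_lit 1690112586) (nat_lit 1140) (nat_lit 7571837338) (nat_lit 256) (nat_lit 5) (nat_lit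 255) (nat_lit 3) (nat_lit 270) (nat_lit 5) (nat_lit 328) (nat_lit 327) (nat_lit 245)))) (XT.nd (nat_lit 156) (nat_lit 0) (nat_lit 76) (XT.nd (nat_lit 78) (nat_lit 0) (nat_lit 0) (XT.lf (nat_lit 0) (nat_lit 2973770053) (nat_lit 1064) (nat_lit 4640357031) (nat_lit 1140) (nat_lit 2215461095) (nat_lit 256) (nat_lit 5) (nat_lit 270) (nat_lit 5) (nat_lit 271) (nat_lit 5) (nat_lit 329) (nat_lit 327) (nat_lit 244)) (XT.lf (nat_lit 76) (nat_lit 88779835) (nat_lit 0) (nat_lit 3738097759) (nat_lit 1140) (nat_lit 6129797883) (nat_lit 257) (nat_lit 5) (nat_lit 256) (nat_lit 5) (nat_lit 271) (nat_lit 5) (nat_lit 330) (nat_lit 327) (nat_lit 243))) (XT.nd (nat_lit 78) (nat_lit 0) (nat_lit 0) (XT.lf (nat_lit 0) (nat_lit 4727430531) (nat_lit 1064) (nat_lit 5051084543) (nat_lit 1140) (nat_lit 308423997) (nat_lit 257) (nat_lit 5) (nat_lit 271) (nat_lit 5) (nat_lit 272) (nat_lit 5) (nat_lit 331) (nat_lit 327) (nat_lit 242))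 (XT.lf (nat_lit 0) (nat_lit 5664910023) (nat_lit 1064) (nat_lit 143208030) (nat_lit 1140) (nat_lit 4412713904) (nat_lit 257) (nat_lit 5) (nat_lit 271) (nat_lit 5) (nat_lit 272) (nat_lit 5) (nat_lit 332) (nat_lit 327) (nat_lit 241))))))))
noncomputable def xc171 : XT := (XT.nd (nat_lit 2106) (nat_lit 5320) (nat_lit 0) (XT.nd (nat_lit 1014) (nat_lit 5092) (nat_lit 0) (XT.nd (nat_lit 468) (nat_lit 912) (nat_lit 0) (XT.nd (nat_lit 234) (nat_lit 988) (nat_lit 0) (XT.nd (nat_lit 78) (nat_lit 0) (nat_lit 76) (XT.lf (nat_lit 76) (nat_lit 4993394323) (nat_lit 0) (nat_lit 1658807583) (nat_lit 1140) (nat_lit 3705907224) (nat_lit 258) (nat_lit 5) (nat_lit 257) (nat_lit 5) (nat_lit 272) (nat_lit 5) (nat_lit 333) (nat_lit 327) (nat_lit 240)) (XT.nd (nat_lit 78) (nat_lit 0) (nat_lit 0) (XT.lf (nat_lit 0) (nat_lit 7670107980) (nat_lit 1064) (nat_lit 254258907) (nat_lit 1140) (nat_lit 2575125477) (nat_lit 258) (nat_lit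 5) (nat_lit 272) (nat_lit 5) (nat_lit 273) (nat_lit 5) (nat_lit 334) (nat_lit 327) (nat_lit 239)) (XT.lf (nat_lit 76) (nat_lit 5075945632) (nat_lit 0) (nat_lit 3682966409) (nat_lit 1140) (nat_lit 1885011328) (nat_lit 259) (nat_lit 5) (nat_lit 258) (nat_lit 5) (nat_lit 273) (nat_lit 5) (nat_lit 335) (nat_lit 327) (nat_lit 238)))) (XT.nd (nat_lit 78) (nat_lit 1140) (nat_lit 0) (XT.lf (nat_lit 0) (nat_lit 9865357364) (nat_lit 1064) (nat_lit 244815445) (nat_lit 1140) (nat_lit 682981780) (nat_lit 259) (nat_lit 5) (nat_lit 273) (nat_lit 5) (nat_lit 274) (nat_lit 5) (nat_lit 336) (nat_lit 327) (nat_lit 237)) (XT.nd (nat_lit 78) (nat_lit 0) (nat_lit 0) (XT.lf (nat_lit 0) (nat_lit 121413309) (nat_lit 1140) (nat_lit 5657748667) (nat_lit 1216) (nat_lit 5165767221) (nat_lit 244) (nat_lit 5) (nat_lit 259) (nat_lit 5) (nat_lit 260) (nat_lit 5) (nat_lit 337) (nat_lit 327) (nat_lit 236)) (XT.lf (nat_lit 0) (nat_lit 1162733054)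 (nat_lit 1140) (nat_lit 136921381) (nat_lit 1216) (nat_lit 9801963794) (nat_lit 244) (nat_lit 5) (nat_lit 259) (nat_lit 5) (nat_lit 260) (nat_lit 5) (nat_lit 338) (nat_lit 327) (nat_lit 235))))) (XT.nd (nat_lit 234) (nat_lit 988) (nat_lit 0) (XT.nd (nat_lit 78) (nat_lit 0) (nat_lit 0) (XT.lf (nat_lit 0) (nat_lit 2299457591) (nat_lit 1140) (nat_lit 5651069948) (nat_lit 1216) (nat_lit 3310570187) (nat_lit 245) (nat_lit 5) (nat_lit 260) (nat_lit 5) (nat_lit 261) (nat_lit 5) (nat_lit 339) (nat_lit 327) (nat_lit 234)) (XT.nd (nat_lit 78) (nat_lit 0) (nat_lit 76) (XT.lf (nat_lit 76) (nat_lit 78756109) (nat_lit 0) (nat_lit 3384569255) (nat_lit 1216) (nat_lit 7962259316) (nat_lit 246) (nat_lit 5) (nat_lit 245) (nat_lit 5) (nat_lit 261) (nat_lit 5) (nat_lit 340) (nat_lit 327) (nat_lit 233)) (XT.lf (nat_lit 0) (nat_lit 4710959692) (nat_lit 1140) (nat_lit 5527526587) (nat_lit 1216) (nat_lit 1355068353) (nat_lit 246)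 (nat_lit 5) (nat_lit 261) (nat_lit 5) (nat_lit 262) (nat_lit 5) (nat_lit 341) (nat_lit 327) (nat_lit 232)))) (XT.nd (nat_lit 156) (nat_lit 1064) (nat_lit 0) (XT.nd (nat_lit 78) (nat_lit 0) (nat_lit 0) (XT.lf (nat_lit 76) (nat_lit 424315373) (nat_lit 0) (nat_lit 5588469699) (nat_lit 1216) (nat_lit 5753289244) (nat_lit 247) (nat_lit 5) (nat_lit 246) (nat_lit 5) (nat_lit 262) (nat_lit 5) (nat_lit 342) (nat_lit 327) (nat_lit 231)) (XT.lf (nat_lit 76) (nat_lit 6651377836) (nat_lit 0) (nat_lit 737723848) (nat_lit 1216) (nat_lit 4553617917) (nat_lit 247) (nat_lit 5) (nat_lit 246) (nat_lit 5) (nat_lit 262) (nat_lit 5) (nat_lit 343) (nat_lit 327) (nat_lit 230))) (XT.nd (nat_lit 78) (nat_lit 0) (nat_lit 0) (XT.lf (nat_lit 0) (nat_lit 900422606) (nat_lit 1140) (nat_lit 7936124117) (nat_lit 1216) (nat_lit 3287235076) (nat_lit 232) (nat_lit 5) (nat_lit 247) (nat_lit 5) (nat_lit 248) (nat_lit 5) (nat_lit 344) (nat_lit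 327) (nat_lit 229)) (XT.lf (nat_lit 0) (nat_lit 7362322293) (nat_lit 1140) (nat_lit 3006420762) (nat_lit 1216) (nat_lit 1940305322) (nat_lit 232) (nat_lit 5) (nat_lit 247) (nat_lit 5) (nat_lit 248) (nat_lit 5) (nat_lit 345) (nat_lit 327) (nat_lit 228)))))) (XT.nd (nat_lit 546) (nat_lit 2052) (nat_lit 0) (XT.nd (nat_lit 234) (nat_lit 1140) (nat_lit 0) (XT.nd (nat_lit 78) (nat_lit 684) (nat_lit 0) (XT.lf (nat_lit 0) (nat_lit 1511031030) (nat_lit 1216) (nat_lit 10451560189) (nat_lit 1292) (nat_lit 536823146) (nat_lit 216) (nat_lit 5) (nat_lit 232) (nat_lit 5) (nat_lit 233) (nat_lit 5) (nat_lit 346) (nat_lit 327) (nat_lit 227)) (XT.nd (nat_lit 78) (nat_lit 608) (nat_lit 0) (XT.lf (nat_lit 0) (nat_lit 952688606) (nat_lit 1292) (nat_lit 4486033196) (nat_lit 76) (nat_lit 7254669016) (nat_lit 215) (nat_lit 5) (nat_lit 232) (nat_lit 5) (nat_lit 216) (nat_lit 5) (nat_lit 347) (nat_lit 327) (nat_lit 226)) (XT.lf (nat_lit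 0) (nat_lit 2233176268) (nat_lit 608) (nat_lit 246371932) (nat_lit 684) (nat_lit 10413386324) (nat_lit 207) (nat_lit 5) (nat_lit 215) (nat_lit 5) (nat_lit 216) (nat_lit 5) (nat_lit 348) (nat_lit 327) (nat_lit 225)))) (XT.nd (nat_lit 156) (nat_lit 608) (nat_lit 0) (XT.nd (nat_lit 78) (nat_lit 532) (nat_lit 0) (XT.lf (nat_lit 0) (nat_lit 4129369537) (nat_lit 684) (nat_lit 3917538673) (nat_lit 76) (nat_lit 5049252308) (nat_lit 207) (nat_lit 5) (nat_lit 216) (nat_lit 5) (nat_lit 208) (nat_lit 5) (nat_lit 349) (nat_lit 327) (nat_lit 224)) (XT.lf (nat_lit 0) (nat_lit 3068002364) (nat_lit 532) (nat_lit 2775493768) (nat_lit 608) (nat_lit 7461553183) (nat_lit 200) (nat_lit 5) (nat_lit 207) (nat_lit 5) (nat_lit 208) (nat_lit 5) (nat_lit 350) (nat_lit 327) (nat_lit 223))) (XT.nd (nat_lit 78) (nat_lit 608) (nat_lit 0) (XT.lf (nat_lit 0) (nat_lit 7657738143) (nat_lit 608) (nat_lit 3218238665) (nat_lit 76) (nat_lit 2642777265)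 (nat_lit 200) (nat_lit 5) (nat_lit 208) (nat_lit 5) (nat_lit 201) (nat_lit 5) (nat_lit 351) (nat_lit 327) (nat_lit 222)) (XT.lf (nat_lit 0) (nat_lit 4046368441) (nat_lit 608) (nat_lit 5530131782) (nat_lit 684) (nat_lit 4160876716) (nat_lit 192) (nat_lit 5) (nat_lit 200) (nat_lit 5) (nat_lit 201) (nat_lit 5) (nat_lit 352) (nat_lit 327) (nat_lit 221))))) (XT.nd (nat_lit 234) (nat_lit 1444) (nat_lit 0) (XT.nd (nat_lit 78) (nat_lit 608) (nat_lit 0) (XT.lf (nat_lit 0) (nat_lit 11569449971) (nat_lit 684) (nat_lit 2383363434) (nat_lit 76) (nat_lit 9255808) (nat_lit 192) (nat_lit 5) (nat_lit 201) (nat_lit 5) (nat_lit 193) (nat_lit 5) (nat_lit 353) (nat_lit 327) (nat_lit 220)) (XT.nd (nat_lit 78) (nat_lit 76) (nat_lit 0) (XT.lf (nat_lit 0) (nat_lit 5173623454) (nat_lit 532) (nat_lit 8537550565) (nat_lit 608) (nat_lit 479667854) (nat_lit 185) (nat_lit 5) (nat_lit 192) (nat_lit 5) (nat_lit 193) (nat_lit 5) (nat_lit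 354) (nat_lit 327) (nat_lit 219)) (XT.lf (nat_lit 0) (nat_lit 1470528322) (nat_lit 608) (nat_lit 1450393081) (nat_lit 76) (nat_lit 11504866755) (nat_lit 184) (nat_lit 5) (nat_lit 192) (nat_lit 5) (nat_lit 185) (nat_lit 5) (nat_lit 355) (nat_lit 327) (nat_lit 218)))) (XT.nd (nat_lit 156) (nat_lit 912) (nat_lit 0) (XT.nd (nat_lit 78) (nat_lit 0) (nat_lit 0) (XT.lf (nat_lit 0) (nat_lit 3544850363) (nat_lit 608) (nat_lit 8245668500) (nat_lit 76) (nat_lit 2874872081) (nat_lit 177) (nat_lit 5) (nat_lit 185) (nat_lit 5) (nat_lit 178) (nat_lit 5) (nat_lit 356) (nat_lit 327) (nat_lit 217)) (XT.lf (nat_lit 0) (nat_lit 5710474394) (nat_lit 608) (nat_lit 401190491) (nat_lit 76) (nat_lit 8799652923) (nat_lit 177) (nat_lit 5) (nat_lit 185) (nat_lit 5) (nat_lit 178) (nat_lit 5) (nat_lit 357) (nat_lit 327) (nat_lit 216))) (XT.nd (nat_lit 78) (nat_lit 456) (nat_lit 0) (XT.lf (nat_lit 0) (nat_lit 7815542792) (nat_lit 456)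 (nat_lit 186439684) (nat_lit 532) (nat_lit 7160820470) (nat_lit 171) (nat_lit 5) (nat_lit 177) (nat_lit 5) (nat_lit 178) (nat_lit 5) (nat_lit 358) (nat_lit 327) (nat_lit 215)) (XT.lf (nat_lit 0) (nat_lit 808302929) (nat_lit 456) (nat_lit 9608706366) (nat_lit 532) (nat_lit 5003187837) (nat_lit 165) (nat_lit 5) (nat_lit 171) (nat_lit 5) (nat_lit 172) (nat_lit 5) (nat_lit 359) (nat_lit 327) (nat_lit 214))))))) (XT.nd (nat_lit 1014) (nat_lit 2356) (nat_lit 0) (XT.nd (nat_lit 468) (nat_lit 1596) (nat_lit 0) (XT.nd (nat_lit 234) (nat_lit 836) (nat_lit 0) (XT.nd (nat_lit 78) (nat_lit 532) (nat_lit 0) (XT.lf (nat_lit 0) (nat_lit 9341569808) (nat_lit 456) (nat_lit 3625232485) (nat_lit 532) (nat_lit 2716648861) (nat_lit 165) (nat_lit 5) (nat_lit 171) (nat_lit 5) (nat_lit 172) (nat_lit 5) (nat_lit 360) (nat_lit 327) (nat_lit 213)) (XT.nd (nat_lit 78) (nat_lit 76) (nat_lit 0) (XT.lf (nat_lit 0) (nat_lit 2178729488)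 (nat_lit 456) (nat_lit 13446372496) (nat_lit 532) (nat_lit 328547682) (nat_lit 159) (nat_lit 5) (nat_lit 165) (nat_lit 5) (nat_lit 166) (nat_lit 5) (nat_lit 361) (nat_lit 327) (nat_lit 212)) (XT.lf (nat_lit 0) (nat_lit 2176955423) (nat_lit 532) (nat_lit 5217825455) (nat_lit 76) (nat_lit 8833945115) (nat_lit 158) (nat_lit 5) (nat_lit 165) (nat_lit 5) (nat_lit 159) (nat_lit 5) (nat_lit 362) (nat_lit 327) (nat_lit 211)))) (XT.nd (nat_lit 78) (nat_lit 380) (nat_lit 0) (XT.lf (nat_lit 0) (nat_lit 3648646110) (nat_lit 456) (nat_lit 1124610337) (nat_lit 532) (nat_lit 11738040127) (nat_lit 152) (nat_lit 5) (nat_lit 158) (nat_lit 5) (nat_lit 159) (nat_lit 5) (nat_lit 363) (nat_lit 327) (nat_lit 210)) (XT.nd (nat_lit 78) (nat_lit 380) (nat_lit 0) (XT.lf (nat_lit 0) (nat_lit 7539295913) (nat_lit 532) (nat_lit 3979975485) (nat_lit 76) (nat_lit 5280323838) (nat_lit 152) (nat_lit 5) (nat_lit 159) (nat_lit 5) (nat_lit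 153) (nat_lit 5) (nat_lit 364) (nat_lit 327) (nat_lit 209)) (XT.lf (nat_lit 0) (nat_lit 5245360175) (nat_lit 380) (nat_lit 5192248159) (nat_lit 456) (nat_lit 6657462029) (nat_lit 147) (nat_lit 5) (nat_lit 152) (nat_lit 5) (nat_lit 153) (nat_lit 5) (nat_lit 365) (nat_lit 327) (nat_lit 208))))) (XT.nd (nat_lit 234) (nat_lit 1064) (nat_lit 0) (XT.nd (nat_lit 78) (nat_lit 532) (nat_lit 0) (XT.lf (nat_lit 0) (nat_lit 13464112863) (nat_lit 456) (nat_lit 2597526684) (nat_lit 76) (nat_lit 1336538990) (nat_lit 147) (nat_lit 5) (nat_lit 153) (nat_lit 5) (nat_lit 148) (nat_lit 5) (nat_lit 366) (nat_lit 327) (nat_lit 207)) (XT.nd (nat_lit 78) (nat_lit 76) (nat_lit 0) (XT.lf (nat_lit 0) (nat_lit 7002671474) (nat_lit 456) (nat_lit 9685737335) (nat_lit 532) (nat_lit 1018767159) (nat_lit 141) (nat_lit 5) (nat_lit 147) (nat_lit 5) (nat_lit 148) (nat_lit 5) (nat_lit 367) (nat_lit 327) (nat_lit 206)) (XT.lf (nat_lit 0) (nat_lit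 1960120097) (nat_lit 532) (nat_lit 1114747246) (nat_lit 76) (nat_lit 14949564061) (nat_lit 140) (nat_lit 5) (nat_lit 147) (nat_lit 5) (nat_lit 141) (nat_lit 5) (nat_lit 368) (nat_lit 327) (nat_lit 205)))) (XT.nd (nat_lit 156) (nat_lit 304) (nat_lit 0) (XT.nd (nat_lit 78) (nat_lit 380) (nat_lit 0) (XT.lf (nat_lit 0) (nat_lit 5119074711) (nat_lit 456) (nat_lit 9473417021) (nat_lit 76) (nat_lit 3755080259) (nat_lit 135) (nat_lit 5) (nat_lit 141) (nat_lit 5) (nat_lit 136) (nat_lit 5) (nat_lit 369) (nat_lit 327) (nat_lit 204)) (XT.lf (nat_lit 0) (nat_lit 469497309) (nat_lit 380) (nat_lit 7938481402) (nat_lit 456) (nat_lit 10271377902) (nat_lit 130) (nat_lit 5) (nat_lit 135) (nat_lit 5) (nat_lit 136) (nat_lit 5) (nat_lit 370) (nat_lit 327) (nat_lit 203))) (XT.nd (nat_lit 78) (nat_lit 304) (nat_lit 0) (XT.lf (nat_lit 0) (nat_lit 10890423138) (nat_lit 380) (nat_lit 989830333) (nat_lit 456) (nat_lit 7138305283)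 (nat_lit 130) (nat_lit 5) (nat_lit 135) (nat_lit 5) (nat_lit 136) (nat_lit 5) (nat_lit 371) (nat_lit 327) (nat_lit 202)) (XT.lf (nat_lit 0) (nat_lit 2225848888) (nat_lit 304) (nat_lit 13300854603) (nat_lit 380) (nat_lit 3839138198) (nat_lit 126) (nat_lit 5) (nat_lit 130) (nat_lit 5) (nat_lit 131) (nat_lit 5) (nat_lit 372) (nat_lit 327) (nat_lit 201)))))) (XT.nd (nat_lit 546) (nat_lit 1216) (nat_lit 0) (XT.nd (nat_lit 234) (nat_lit 684) (nat_lit 0) (XT.nd (nat_lit 78) (nat_lit 456) (nat_lit 0) (XT.lf (nat_lit 0) (nat_lit 13032875446) (nat_lit 304) (nat_lit 6330955495) (nat_lit 380) (nat_lit 357278449) (nat_lit 126) (nat_lit 5) (nat_lit 130) (nat_lit 5) (nat_lit 131) (nat_lit 5) (nat_lit 373) (nat_lit 327) (nat_lit 200)) (XT.nd (nat_lit 78) (nat_lit 0) (nat_lit 0) (XT.lf (nat_lit 0) (nat_lit 3204073578) (nat_lit 456) (nat_lit 15981759628) (nat_lit 76) (nat_lit 899133855) (nat_lit 120) (nat_lit 5) (nat_lit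 126) (nat_lit 5) (nat_lit 121) (nat_lit 5) (nat_lit 374) (nat_lit 327) (nat_lit 199)) (XT.lf (nat_lit 0) (nat_lit 6985807355) (nat_lit 456) (nat_lit 5183240939) (nat_lit 76) (nat_lit 8286968772) (nat_lit 120) (nat_lit 5) (nat_lit 126) (nat_lit 5) (nat_lit 121) (nat_lit 5) (nat_lit 375) (nat_lit 327) (nat_lit 198)))) (XT.nd (nat_lit 156) (nat_lit 380) (nat_lit 0) (XT.nd (nat_lit 78) (nat_lit 0) (nat_lit 0) (XT.lf (nat_lit 0) (nat_lit 6043442171) (nat_lit 304) (nat_lit 4885773034) (nat_lit 380) (nat_lit 9907540965) (nat_lit 116) (nat_lit 5) (nat_lit 120) (nat_lit 5) (nat_lit 121) (nat_lit 5) (nat_lit 376) (nat_lit 327) (nat_lit 197)) (XT.lf (nat_lit 0) (nat_lit 15059179176) (nat_lit 380) (nat_lit 3553679220) (nat_lit 76) (nat_lit 2614015573) (nat_lit 116) (nat_lit 5) (nat_lit 121) (nat_lit 5) (nat_lit 117) (nat_lit 5) (nat_lit 377) (nat_lit 327) (nat_lit 196))) (XT.nd (nat_lit 78) (nat_lit 76) (nat_lit 0)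 (XT.lf (nat_lit 0) (nat_lit 8119775613) (nat_lit 304) (nat_lit 11310225212) (nat_lit 380) (nat_lit 2195189730) (nat_lit 112) (nat_lit 5) (nat_lit 116) (nat_lit 5) (nat_lit 117) (nat_lit 5) (nat_lit 378) (nat_lit 327) (nat_lit 195)) (XT.lf (nat_lit 0) (nat_lit 1886307851) (nat_lit 380) (nat_lit 1850185049) (nat_lit 76) (nat_lit 18297615878) (nat_lit 111) (nat_lit 5) (nat_lit 116) (nat_lit 5) (nat_lit 112) (nat_lit 5) (nat_lit 379) (nat_lit 327) (nat_lit 194))))) (XT.nd (nat_lit 234) (nat_lit 608) (nat_lit 0) (XT.nd (nat_lit 78) (nat_lit 304) (nat_lit 0) (XT.lf (nat_lit 0) (nat_lit 6176431400) (nat_lit 380) (nat_lit 12170908398) (nat_lit 76) (nat_lit 4103397323) (nat_lit 107) (nat_lit 5) (nat_lit 112) (nat_lit 5) (nat_lit 108) (nat_lit 5) (nat_lit 380) (nat_lit 327) (nat_lit 193)) (XT.nd (nat_lit 78) (nat_lit 304) (nat_lit 0) (XT.lf (nat_lit 0) (nat_lit 10642083592) (nat_lit 380) (nat_lit 118027966) (nat_lit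 76) (nat_lit 12118351578) (nat_lit 107) (nat_lit 5) (nat_lit 112) (nat_lit 5) (nat_lit 108) (nat_lit 5) (nat_lit 381) (nat_lit 327) (nat_lit 192)) (XT.lf (nat_lit 0) (nat_lit 12528077599) (nat_lit 304) (nat_lit 2825280280) (nat_lit 380) (nat_lit 7962316941) (nat_lit 103) (nat_lit 5) (nat_lit 107) (nat_lit 5) (nat_lit 108) (nat_lit 5) (nat_lit 382) (nat_lit 327) (nat_lit 191)))) (XT.nd (nat_lit 156) (nat_lit 304) (nat_lit 0) (XT.nd (nat_lit 78) (nat_lit 76) (nat_lit 0) (XT.lf (nat_lit 0) (nat_lit 1760019863) (nat_lit 228) (nat_lit 18506796344) (nat_lit 304) (nat_lit 3497364638) (nat_lit 100) (nat_lit 5) (nat_lit 103) (nat_lit 5) (nat_lit 104) (nat_lit 5) (nat_lit 383) (nat_lit 327) (nat_lit 190)) (XT.lf (nat_lit 0) (nat_lit 1209387829) (nat_lit 304) (nat_lit 9370289028) (nat_lit 76) (nat_lit 13642270308) (nat_lit 99) (nat_lit 5) (nat_lit 103) (nat_lit 5) (nat_lit 100) (nat_lit 5) (nat_lit 384) (nat_lit 327)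 (nat_lit 189))) (XT.nd (nat_lit 78) (nat_lit 0) (nat_lit 0) (XT.lf (nat_lit 0) (nat_lit 3666929281) (nat_lit 304) (nat_lit 2346981736) (nat_lit 380) (nat_lit 18677693866) (nat_lit 95) (nat_lit 5) (nat_lit 99) (nat_lit 5) (nat_lit 100) (nat_lit 5) (nat_lit 385) (nat_lit 327) (nat_lit 188)) (XT.lf (nat_lit 0) (nat_lit 11108776344) (nat_lit 380) (nat_lit 7957740174) (nat_lit 76) (nat_lit 6104452610) (nat_lit 95) (nat_lit 5) (nat_lit 100) (nat_lit 5) (nat_lit 96) (nat_lit 5) (nat_lit 386) (nat_lit 327) (nat_lit 187))))))))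
noncomputable def xc172 : XT := (XT.nd (nat_lit 2028) (nat_lit 2128) (nat_lit 0) (XT.nd (nat_lit 1014) (nat_lit 1216) (nat_lit 0) (XT.nd (nat_lit 468) (nat_lit 988) (nat_lit 0) (XT.nd (nat_lit 234) (nat_lit 228) (nat_lit 0) (XT.nd (nat_lit 78) (nat_lit 380) (nat_lit 0) (XT.lf (nat_lit 0) (nat_lit 5574428180) (nat_lit 228) (nat_lit 10850820386) (nat_lit 304) (nat_lit 9237405807) (nat_lit 92) (nat_lit 5) (nat_lit 95) (nat_lit 5) (nat_lit 96) (nat_lit 5) (nat_lit 387) (nat_lit 327) (nat_lit 186)) (XT.nd (nat_lit 78) (nat_lit 380) (nat_lit 0) (XT.lf (nat_lit 0) (nat_lit 19663493326) (nat_lit 228) (nat_lit 2310135461) (nat_lit 304) (nat_lit 4193291793) (nat_lit 92) (nat_lit 5) (nat_lit 95) (nat_lit 5) (nat_lit 96) (nat_lit 5) (nat_lit 388) (nat_lit 327) (nat_lit 185)) (XT.lf (nat_lit 0) (nat_lit 1111142036) (nat_lit 380) (nat_lit 19131301146) (nat_lit 76) (nat_lit 6439728692) (nat_lit 87) (nat_lit 5) (nat_lit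 92) (nat_lit 5) (nat_lit 88) (nat_lit 5) (nat_lit 389) (nat_lit 327) (nat_lit 184)))) (XT.nd (nat_lit 78) (nat_lit 228) (nat_lit 0) (XT.lf (nat_lit 0) (nat_lit 6571903532) (nat_lit 380) (nat_lit 5127911233) (nat_lit 76) (nat_lit 15509378719) (nat_lit 87) (nat_lit 5) (nat_lit 92) (nat_lit 5) (nat_lit 88) (nat_lit 5) (nat_lit 390) (nat_lit 327) (nat_lit 183)) (XT.nd (nat_lit 78) (nat_lit 0) (nat_lit 0) (XT.lf (nat_lit 0) (nat_lit 9468627371) (nat_lit 228) (nat_lit 2811384522) (nat_lit 304) (nat_lit 15469510632) (nat_lit 84) (nat_lit 5) (nat_lit 87) (nat_lit 5) (nat_lit 88) (nat_lit 5) (nat_lit 391) (nat_lit 327) (nat_lit 182)) (XT.lf (nat_lit 0) (nat_lit 18265209520) (nat_lit 304) (nat_lit 3769609537) (nat_lit 76) (nat_lit 6268069429) (nat_lit 84) (nat_lit 5) (nat_lit 88) (nat_lit 5) (nat_lit 85) (nat_lit 5) (nat_lit 392) (nat_lit 327) (nat_lit 181))))) (XT.nd (nat_lit 234) (nat_lit 456) (nat_lit 0) (XT.nd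 (nat_lit 78) (nat_lit 304) (nat_lit 0) (XT.lf (nat_lit 0) (nat_lit 11359396618) (nat_lit 228) (nat_lit 13200383730) (nat_lit 304) (nat_lit 4309182920) (nat_lit 81) (nat_lit 5) (nat_lit 84) (nat_lit 5) (nat_lit 85) (nat_lit 5) (nat_lit 393) (nat_lit 327) (nat_lit 180)) (XT.nd (nat_lit 78) (nat_lit 228) (nat_lit 0) (XT.lf (nat_lit 0) (nat_lit 1591377914) (nat_lit 304) (nat_lit 2458482491) (nat_lit 76) (nat_lit 25400765475) (nat_lit 80) (nat_lit 5) (nat_lit 84) (nat_lit 5) (nat_lit 81) (nat_lit 5) (nat_lit 394) (nat_lit 327) (nat_lit 179)) (XT.lf (nat_lit 0) (nat_lit 7756040187) (nat_lit 304) (nat_lit 16849303895) (nat_lit 76) (nat_lit 5437905644) (nat_lit 77) (nat_lit 5) (nat_lit 81) (nat_lit 5) (nat_lit 78) (nat_lit 5) (nat_lit 395) (nat_lit 327) (nat_lit 178)))) (XT.nd (nat_lit 156) (nat_lit 228) (nat_lit 0) (XT.nd (nat_lit 78) (nat_lit 228) (nat_lit 0) (XT.lf (nat_lit 0) (nat_lit 14163894691) (nat_lit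 304) (nat_lit 1338110578) (nat_lit 76) (nat_lit 15149901545) (nat_lit 77) (nat_lit 5) (nat_lit 81) (nat_lit 5) (nat_lit 78) (nat_lit 5) (nat_lit 396) (nat_lit 327) (nat_lit 177)) (XT.lf (nat_lit 0) (nat_lit 14918658480) (nat_lit 228) (nat_lit 5982018166) (nat_lit 304) (nat_lit 10374048248) (nat_lit 74) (nat_lit 5) (nat_lit 77) (nat_lit 5) (nat_lit 78) (nat_lit 5) (nat_lit 397) (nat_lit 327) (nat_lit 176))) (XT.nd (nat_lit 78) (nat_lit 228) (nat_lit 0) (XT.lf (nat_lit 0) (nat_lit 27883299369) (nat_lit 304) (nat_lit 273080847) (nat_lit 76) (nat_lit 3758537158) (nat_lit 74) (nat_lit 5) (nat_lit 78) (nat_lit 5) (nat_lit 75) (nat_lit 5) (nat_lit 398) (nat_lit 327) (nat_lit 175)) (XT.lf (nat_lit 0) (nat_lit 2666178517) (nat_lit 228) (nat_lit 16048688061) (nat_lit 76) (nat_lit 13852312698) (nat_lit 71) (nat_lit 5) (nat_lit 74) (nat_lit 5) (nat_lit 72) (nat_lit 5) (nat_lit 399) (nat_lit 327) (nat_lit 174))))))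 (XT.nd (nat_lit 468) (nat_lit 532) (nat_lit 0) (XT.nd (nat_lit 234) (nat_lit 304) (nat_lit 0) (XT.nd (nat_lit 78) (nat_lit 152) (nat_lit 0) (XT.lf (nat_lit 0) (nat_lit 540445052) (nat_lit 228) (nat_lit 8944965548) (nat_lit 304) (nat_lit 23752356738) (nat_lit 68) (nat_lit 5) (nat_lit 71) (nat_lit 5) (nat_lit 72) (nat_lit 5) (nat_lit 400) (nat_lit 327) (nat_lit 173)) (XT.nd (nat_lit 78) (nat_lit 152) (nat_lit 0) (XT.lf (nat_lit 0) (nat_lit 16677231301) (nat_lit 304) (nat_lit 15990415298) (nat_lit 76) (nat_lit 1255787848) (nat_lit 68) (nat_lit 5) (nat_lit 72) (nat_lit 5) (nat_lit 69) (nat_lit 5) (nat_lit 401) (nat_lit 327) (nat_lit 172)) (XT.lf (nat_lit 0) (nat_lit 1141024828) (nat_lit 152) (nat_lit 23037100061) (nat_lit 228) (nat_lit 10448748838) (nat_lit 66) (nat_lit 5) (nat_lit 68) (nat_lit 5) (nat_lit 69) (nat_lit 5) (nat_lit 402) (nat_lit 327) (nat_lit 171)))) (XT.nd (nat_lit 78) (nat_lit 304) (nat_lit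 0) (XT.lf (nat_lit 0) (nat_lit 19103922157) (nat_lit 152) (nat_lit 12955463223) (nat_lit 228) (nat_lit 3287372256) (nat_lit 66) (nat_lit 5) (nat_lit 68) (nat_lit 5) (nat_lit 69) (nat_lit 5) (nat_lit 403) (nat_lit 327) (nat_lit 170)) (XT.nd (nat_lit 78) (nat_lit 0) (nat_lit 0) (XT.lf (nat_lit 0) (nat_lit 1497285444) (nat_lit 228) (nat_lit 2520151228) (nat_lit 304) (nat_lit 32069372443) (nat_lit 62) (nat_lit 5) (nat_lit 65) (nat_lit 5) (nat_lit 66) (nat_lit 5) (nat_lit 404) (nat_lit 327) (nat_lit 169)) (XT.lf (nat_lit 0) (nat_lit 11714082726) (nat_lit 304) (nat_lit 16864973577) (nat_lit 76) (nat_lit 8261867927) (nat_lit 62) (nat_lit 5) (nat_lit 66) (nat_lit 5) (nat_lit 63) (nat_lit 5) (nat_lit 405) (nat_lit 327) (nat_lit 168))))) (XT.nd (nat_lit 234) (nat_lit 228) (nat_lit 0) (XT.nd (nat_lit 78) (nat_lit 152) (nat_lit 0) (XT.lf (nat_lit 0) (nat_lit 1383516307) (nat_lit 152) (nat_lit 18290563385) (nat_lit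 228) (nat_lit 17942611033) (nat_lit 60) (nat_lit 5) (nat_lit 62) (nat_lit 5) (nat_lit 63) (nat_lit 5) (nat_lit 406) (nat_lit 327) (nat_lit 167)) (XT.nd (nat_lit 78) (nat_lit 152) (nat_lit 0) (XT.lf (nat_lit 0) (nat_lit 20515430697) (nat_lit 152) (nat_lit 7522024606) (nat_lit 228) (nat_lit 10373338975) (nat_lit 60) (nat_lit 5) (nat_lit 62) (nat_lit 5) (nat_lit 63) (nat_lit 5) (nat_lit 407) (nat_lit 327) (nat_lit 166)) (XT.lf (nat_lit 0) (nat_lit 967556853) (nat_lit 152) (nat_lit 35722193749) (nat_lit 228) (nat_lit 2537831170) (nat_lit 58) (nat_lit 5) (nat_lit 60) (nat_lit 5) (nat_lit 61) (nat_lit 5) (nat_lit 408) (nat_lit 327) (nat_lit 165)))) (XT.nd (nat_lit 156) (nat_lit 152) (nat_lit 0) (XT.nd (nat_lit 78) (nat_lit 0) (nat_lit 0) (XT.lf (nat_lit 0) (nat_lit 5676171341) (nat_lit 228) (nat_lit 19439308777) (nat_lit 76) (nat_lit 14944256762) (nat_lit 57) (nat_lit 5) (nat_lit 60) (nat_lit 5) (nat_lit 58)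 (nat_lit 5) (nat_lit 409) (nat_lit 327) (nat_lit 164)) (XT.lf (nat_lit 0) (nat_lit 14080168979) (nat_lit 228) (nat_lit 88428927) (nat_lit 76) (nat_lit 26747668703) (nat_lit 57) (nat_lit 5) (nat_lit 60) (nat_lit 5) (nat_lit 58) (nat_lit 5) (nat_lit 410) (nat_lit 327) (nat_lit 163))) (XT.nd (nat_lit 78) (nat_lit 0) (nat_lit 0) (XT.lf (nat_lit 0) (nat_lit 20228652215) (nat_lit 152) (nat_lit 2696825232) (nat_lit 228) (nat_lit 18867340286) (nat_lit 55) (nat_lit 5) (nat_lit 57) (nat_lit 5) (nat_lit 58) (nat_lit 5) (nat_lit 411) (nat_lit 327) (nat_lit 162)) (XT.lf (nat_lit 0) (nat_lit 32119476708) (nat_lit 228) (nat_lit 1635338125) (nat_lit 76) (nat_lit 8938351809) (nat_lit 55) (nat_lit 5) (nat_lit 58) (nat_lit 5) (nat_lit 56) (nat_lit 5) (nat_lit 412) (nat_lit 327) (nat_lit 161))))))) (XT.nd (nat_lit 1014) (nat_lit 1064) (nat_lit 0) (XT.nd (nat_lit 468) (nat_lit 532) (nat_lit 0) (XT.nd (nat_lit 234) (nat_lit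 152) (nat_lit 0) (XT.nd (nat_lit 78) (nat_lit 228) (nat_lit 0) (XT.lf (nat_lit 0) (nat_lit 19231094752) (nat_lit 152) (nat_lit 22564687135) (nat_lit 228) (nat_lit 1818550714) (nat_lit 53) (nat_lit 5) (nat_lit 55) (nat_lit 5) (nat_lit 56) (nat_lit 5) (nat_lit 413) (nat_lit 327) (nat_lit 160)) (XT.nd (nat_lit 78) (nat_lit 152) (nat_lit 0) (XT.lf (nat_lit 0) (nat_lit 7070373504) (nat_lit 228) (nat_lit 3883803066) (nat_lit 76) (nat_lit 33606533537) (nat_lit 52) (nat_lit 5) (nat_lit 55) (nat_lit 5) (nat_lit 53) (nat_lit 5) (nat_lit 414) (nat_lit 327) (nat_lit 159)) (XT.lf (nat_lit 0) (nat_lit 16364635820) (nat_lit 228) (nat_lit 27995078281) (nat_lit 76) (nat_lit 1169969092) (nat_lit 50) (nat_lit 5) (nat_lit 53) (nat_lit 5) (nat_lit 51) (nat_lit 5) (nat_lit 415) (nat_lit 327) (nat_lit 158)))) (XT.nd (nat_lit 78) (nat_lit 152) (nat_lit 0) (XT.lf (nat_lit 0) (nat_lit 26080900970) (nat_lit 228) (nat_lit 6968826426)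 (nat_lit 76) (nat_lit 13473703859) (nat_lit 50) (nat_lit 5) (nat_lit 53) (nat_lit 5) (nat_lit 51) (nat_lit 5) (nat_lit 416) (nat_lit 327) (nat_lit 157)) (XT.nd (nat_lit 78) (nat_lit 0) (nat_lit 0) (XT.lf (nat_lit 0) (nat_lit 14972010343) (nat_lit 152) (nat_lit 21255816931) (nat_lit 228) (nat_lit 11314990289) (nat_lit 48) (nat_lit 5) (nat_lit 50) (nat_lit 5) (nat_lit 51) (nat_lit 5) (nat_lit 417) (nat_lit 327) (nat_lit 156)) (XT.lf (nat_lit 0) (nat_lit 37705647802) (nat_lit 152) (nat_lit 9039196808) (nat_lit 228) (nat_lit 1845971326) (nat_lit 48) (nat_lit 5) (nat_lit 50) (nat_lit 5) (nat_lit 51) (nat_lit 5) (nat_lit 418) (nat_lit 327) (nat_lit 155))))) (XT.nd (nat_lit 234) (nat_lit 152) (nat_lit 0) (XT.nd (nat_lit 78) (nat_lit 152) (nat_lit 0) (XT.lf (nat_lit 0) (nat_lit 7895552700) (nat_lit 228) (nat_lit 38107532089) (nat_lit 76) (nat_lit 3660608220) (nat_lit 45) (nat_lit 5) (nat_lit 48) (nat_lit 5) (nat_lit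 46) (nat_lit 5) (nat_lit 419) (nat_lit 327) (nat_lit 154)) (XT.nd (nat_lit 78) (nat_lit 152) (nat_lit 0) (XT.lf (nat_lit 0) (nat_lit 18088149530) (nat_lit 228) (nat_lit 15988609464) (nat_lit 76) (nat_lit 16685572105) (nat_lit 45) (nat_lit 5) (nat_lit 48) (nat_lit 5) (nat_lit 46) (nat_lit 5) (nat_lit 420) (nat_lit 327) (nat_lit 153)) (XT.lf (nat_lit 0) (nat_lit 6921018815) (nat_lit 152) (nat_lit 21727592882) (nat_lit 228) (nat_lit 23243454873) (nat_lit 43) (nat_lit 5) (nat_lit 45) (nat_lit 5) (nat_lit 46) (nat_lit 5) (nat_lit 421) (nat_lit 327) (nat_lit 152)))) (XT.nd (nat_lit 156) (nat_lit 76) (nat_lit 0) (XT.nd (nat_lit 78) (nat_lit 76) (nat_lit 0) (XT.lf (nat_lit 0) (nat_lit 30837848341) (nat_lit 152) (nat_lit 8845105383) (nat_lit 228) (nat_lit 13368029241) (nat_lit 43) (nat_lit 5) (nat_lit 45) (nat_lit 5) (nat_lit 46) (nat_lit 5) (nat_lit 422) (nat_lit 327) (nat_lit 151)) (XT.lf (nat_lit 0) (nat_lit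 1200714831) (nat_lit 76) (nat_lit 49897385980) (nat_lit 152) (nat_lit 3145073611) (nat_lit 42) (nat_lit 5) (nat_lit 43) (nat_lit 5) (nat_lit 44) (nat_lit 4) (nat_lit 423) (nat_lit 327) (nat_lit 150))) (XT.nd (nat_lit 78) (nat_lit 0) (nat_lit 0) (XT.lf (nat_lit 0) (nat_lit 7550293278) (nat_lit 152) (nat_lit 29860573267) (nat_lit 76) (nat_lit 18048841629) (nat_lit 41) (nat_lit 5) (nat_lit 43) (nat_lit 5) (nat_lit 42) (nat_lit 5) (nat_lit 424) (nat_lit 327) (nat_lit 149)) (XT.lf (nat_lit 0) (nat_lit 18499149935) (nat_lit 152) (nat_lit 6021861908) (nat_lit 76) (nat_lit 32190917413) (nat_lit 41) (nat_lit 5) (nat_lit 43) (nat_lit 5) (nat_lit 42) (nat_lit 5) (nat_lit 425) (nat_lit 327) (nat_lit 148)))))) (XT.nd (nat_lit 546) (nat_lit 608) (nat_lit 0) (XT.nd (nat_lit 234) (nat_lit 228) (nat_lit 0) (XT.nd (nat_lit 78) (nat_lit 76) (nat_lit 0) (XT.lf (nat_lit 0) (nat_lit 18893415385) (nat_lit 152) (nat_lit 11060634717)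 (nat_lit 228) (nat_lit 28042340256) (nat_lit 39) (nat_lit 5) (nat_lit 41) (nat_lit 5) (nat_lit 42) (nat_lit 5) (nat_lit 426) (nat_lit 327) (nat_lit 147)) (XT.nd (nat_lit 78) (nat_lit 76) (nat_lit 0) (XT.lf (nat_lit 0) (nat_lit 41836938020) (nat_lit 228) (nat_lit 14672811459) (nat_lit 76) (nat_lit 2807106295) (nat_lit 39) (nat_lit 5) (nat_lit 42) (nat_lit 5) (nat_lit 40) (nat_lit 4) (nat_lit 427) (nat_lit 327) (nat_lit 146)) (XT.lf (nat_lit 0) (nat_lit 10580122257) (nat_lit 76) (nat_lit 43703501446) (nat_lit 152) (nat_lit 6387092798) (nat_lit 38) (nat_lit 5) (nat_lit 39) (nat_lit 5) (nat_lit 40) (nat_lit 4) (nat_lit 428) (nat_lit 327) (nat_lit 145)))) (XT.nd (nat_lit 156) (nat_lit 0) (nat_lit 0) (XT.nd (nat_lit 78) (nat_lit 152) (nat_lit 0) (XT.lf (nat_lit 0) (nat_lit 5085935654) (nat_lit 152) (nat_lit 25226314636) (nat_lit 76) (nat_lit 31747118250) (nat_lit 37) (nat_lit 5) (nat_lit 39) (nat_lit 5) (nat_lit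 38) (nat_lit 5) (nat_lit 429) (nat_lit 327) (nat_lit 144)) (XT.lf (nat_lit 0) (nat_lit 320017453) (nat_lit 152) (nat_lit 16454057662) (nat_lit 228) (nat_lit 46713729664) (nat_lit 35) (nat_lit 5) (nat_lit 37) (nat_lit 5) (nat_lit 38) (nat_lit 5) (nat_lit 430) (nat_lit 327) (nat_lit 143))) (XT.nd (nat_lit 78) (nat_lit 0) (nat_lit 0) (XT.lf (nat_lit 0) (nat_lit 27143039638) (nat_lit 152) (nat_lit 1920818272) (nat_lit 228) (nat_lit 35887706825) (nat_lit 35) (nat_lit 5) (nat_lit 37) (nat_lit 5) (nat_lit 38) (nat_lit 5) (nat_lit 431) (nat_lit 327) (nat_lit 142)) (XT.lf (nat_lit 0) (nat_lit 41844106533) (nat_lit 228) (nat_lit 11820611200) (nat_lit 76) (nat_lit 12790867175) (nat_lit 35) (nat_lit 5) (nat_lit 38) (nat_lit 5) (nat_lit 36) (nat_lit 4) (nat_lit 432) (nat_lit 327) (nat_lit 141))))) (XT.nd (nat_lit 234) (nat_lit 304) (nat_lit 0) (XT.nd (nat_lit 78) (nat_lit 228) (nat_lit 0) (XT.lf (nat_lit 0) (nat_lit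 15218385867) (nat_lit 76) (nat_lit 39951132665) (nat_lit 152) (nat_lit 12830355046) (nat_lit 34) (nat_lit 5) (nat_lit 35) (nat_lit 5) (nat_lit 36) (nat_lit 4) (nat_lit 433) (nat_lit 327) (nat_lit 140)) (XT.nd (nat_lit 78) (nat_lit 228) (nat_lit 0) (XT.lf (nat_lit 0) (nat_lit 43304425764) (nat_lit 76) (nat_lit 25706123131) (nat_lit 152) (nat_lit 576466890) (nat_lit 34) (nat_lit 5) (nat_lit 35) (nat_lit 5) (nat_lit 36) (nat_lit 4) (nat_lit 434) (nat_lit 327) (nat_lit 139)) (XT.lf (nat_lit 0) (nat_lit 906867055) (nat_lit 152) (nat_lit 10908405095) (nat_lit 228) (nat_lit 59402868811) (nat_lit 31) (nat_lit 5) (nat_lit 33) (nat_lit 5) (nat_lit 34) (nat_lit 5) (nat_lit 435) (nat_lit 327) (nat_lit 138)))) (XT.nd (nat_lit 390) (nat_lit 304) (nat_lit 0) (XT.nd (nat_lit 78) (nat_lit 0) (nat_lit 0) (XT.lf (nat_lit 0) (nat_lit 24873432687) (nat_lit 228) (nat_lit 43495784417) (nat_lit 76) (nat_lit 4519624397) (nat_lit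 31) (nat_lit 5) (nat_lit 34) (nat_lit 5) (nat_lit 32) (nat_lit 4) (nat_lit 436) (nat_lit 327) (nat_lit 137)) (XT.lf (nat_lit 0) (nat_lit 38428013474) (nat_lit 228) (nat_lit 15989982444) (nat_lit 76) (nat_lit 20188527368) (nat_lit 31) (nat_lit 5) (nat_lit 34) (nat_lit 5) (nat_lit 32) (nat_lit 4) (nat_lit 437) (nat_lit 327) (nat_lit 136))) (XT.nd (nat_lit 38064) (nat_lit 0) (nat_lit 17328) (XT.lf (nat_lit 0) (nat_lit 15808487365) (nat_lit 228) (nat_lit 59205867466) (nat_lit 76) (nat_lit 6951534679) (nat_lit 27) (nat_lit 5) (nat_lit 30) (nat_lit 5) (nat_lit 28) (nat_lit 4) (nat_lit 441) (nat_lit 327) (nat_lit 132)) (XT.lf (nat_lit 0) (nat_lit 1446809731) (nat_lit 1140) (nat_lit 1733511637) (nat_lit 1140) (nat_lit 1733511637) (nat_lit 255) (nat_lit 3) (nat_lit 270) (nat_lit 3) (nat_lit 270) (nat_lit 5) (nat_lit 328) (nat_lit 328) (nat_lit 244))))))))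
noncomputable def xc173 : XT := (XT.nd (nat_lit 2028) (nat_lit 6460) (nat_lit 0) (XT.nd (nat_lit 1014) (nat_lit 3952) (nat_lit 0) (XT.nd (nat_lit 468) (nat_lit 836) (nat_lit 0) (XT.nd (nat_lit 234) (nat_lit 0) (nat_lit 76) (XT.nd (nat_lit 78) (nat_lit 0) (nat_lit 76) (XT.lf (nat_lit 76) (nat_lit 1223552268) (nat_lit 0) (nat_lit 2439208636) (nat_lit 1140) (nat_lit 6290054903) (nat_lit 256) (nat_lit 5) (nat_lit 255) (nat_lit 3) (nat_lit 270) (nat_lit 5) (nat_lit 329) (nat_lit 328) (nat_lit 243)) (XT.nd (nat_lit 78) (nat_lit 0) (nat_lit 0) (XT.lf (nat_lit 0) (nat_lit 4477835444) (nat_lit 1064) (nat_lit 3986113121) (nat_lit 1140) (nat_lit 1617105009) (nat_lit 256) (nat_lit 5) (nat_lit 270) (nat_lit 5) (nat_lit 271) (nat_lit 5) (nat_lit 330) (nat_lit 328) (nat_lit 242)) (XT.lf (nat_lit 76) (nat_lit 877118884) (nat_lit 0) (nat_lit 4445760432) (nat_lit 1140) (nat_lit 4890112328) (nat_lit 257) (nat_lit 5) (nat_lit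 256) (nat_lit 5) (nat_lit 271) (nat_lit 5) (nat_lit 331) (nat_lit 328) (nat_lit 241)))) (XT.nd (nat_lit 78) (nat_lit 0) (nat_lit 76) (XT.lf (nat_lit 76) (nat_lit 5952929974) (nat_lit 0) (nat_lit 254175398) (nat_lit 1140) (nat_lit 4141385698) (nat_lit 257) (nat_lit 5) (nat_lit 256) (nat_lit 5) (nat_lit 271) (nat_lit 5) (nat_lit 332) (nat_lit 328) (nat_lit 240)) (XT.nd (nat_lit 78) (nat_lit 0) (nat_lit 0) (XT.lf (nat_lit 76) (nat_lit 651123109) (nat_lit 0) (nat_lit 6486506446) (nat_lit 1140) (nat_lit 3349850392) (nat_lit 258) (nat_lit 5) (nat_lit 257) (nat_lit 5) (nat_lit 272) (nat_lit 5) (nat_lit 333) (nat_lit 328) (nat_lit 239)) (XT.lf (nat_lit 76) (nat_lit 5921412662) (nat_lit 0) (nat_lit 2196586710) (nat_lit 1140) (nat_lit 2511998320) (nat_lit 258) (nat_lit 5) (nat_lit 257) (nat_lit 5) (nat_lit 272) (nat_lit 5) (nat_lit 334) (nat_lit 328) (nat_lit 238))))) (XT.nd (nat_lit 234) (nat_lit 0) (nat_lit 0)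 (XT.nd (nat_lit 78) (nat_lit 1064) (nat_lit 0) (XT.lf (nat_lit 76) (nat_lit 546607092) (nat_lit 0) (nat_lit 8583654868) (nat_lit 1140) (nat_lit 1646471158) (nat_lit 259) (nat_lit 5) (nat_lit 258) (nat_lit 5) (nat_lit 273) (nat_lit 5) (nat_lit 335) (nat_lit 328) (nat_lit 237)) (XT.nd (nat_lit 78) (nat_lit 1064) (nat_lit 0) (XT.lf (nat_lit 76) (nat_lit 6018229657) (nat_lit 0) (nat_lit 4200166500) (nat_lit 1140) (nat_lit 708125454) (nat_lit 259) (nat_lit 5) (nat_lit 258) (nat_lit 5) (nat_lit 273) (nat_lit 5) (nat_lit 336) (nat_lit 328) (nat_lit 236)) (XT.lf (nat_lit 0) (nat_lit 238814468) (nat_lit 1140) (nat_lit 10518278626) (nat_lit 1216) (nat_lit 324086781) (nat_lit 244) (nat_lit 5) (nat_lit 259) (nat_lit 5) (nat_lit 260) (nat_lit 5) (nat_lit 337) (nat_lit 328) (nat_lit 235)))) (XT.nd (nat_lit 156) (nat_lit 0) (nat_lit 76) (XT.nd (nat_lit 78) (nat_lit 0) (nat_lit 0) (XT.lf (nat_lit 0) (nat_lit 1269030891)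 (nat_lit 1140) (nat_lit 5005430094) (nat_lit 1216) (nat_lit 4963748287) (nat_lit 244) (nat_lit 5) (nat_lit 259) (nat_lit 5) (nat_lit 260) (nat_lit 5) (nat_lit 338) (nat_lit 328) (nat_lit 234)) (XT.lf (nat_lit 76) (nat_lit 670155932) (nat_lit 0) (nat_lit 1644556579) (nat_lit 1216) (nat_lit 9085714598) (nat_lit 245) (nat_lit 5) (nat_lit 244) (nat_lit 5) (nat_lit 260) (nat_lit 5) (nat_lit 339) (nat_lit 328) (nat_lit 233))) (XT.nd (nat_lit 78) (nat_lit 0) (nat_lit 0) (XT.lf (nat_lit 0) (nat_lit 3451502654) (nat_lit 1140) (nat_lit 4994194489) (nat_lit 1216) (nat_lit 3120036099) (nat_lit 245) (nat_lit 5) (nat_lit 260) (nat_lit 5) (nat_lit 261) (nat_lit 5) (nat_lit 340) (nat_lit 328) (nat_lit 232)) (XT.lf (nat_lit 76) (nat_lit 899424315) (nat_lit 0) (nat_lit 3727182723) (nat_lit 1216) (nat_lit 7109278701) (nat_lit 246) (nat_lit 5) (nat_lit 245) (nat_lit 5) (nat_lit 261) (nat_lit 5) (nat_lit 341) (nat_lit 328)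 (nat_lit 231)))))) (XT.nd (nat_lit 468) (nat_lit 1748) (nat_lit 0) (XT.nd (nat_lit 234) (nat_lit 2356) (nat_lit 0) (XT.nd (nat_lit 78) (nat_lit 0) (nat_lit 0) (XT.lf (nat_lit 0) (nat_lit 5878564733) (nat_lit 1140) (nat_lit 4865110269) (nat_lit 1216) (nat_lit 1166232907) (nat_lit 246) (nat_lit 5) (nat_lit 261) (nat_lit 5) (nat_lit 262) (nat_lit 5) (nat_lit 342) (nat_lit 328) (nat_lit 230)) (XT.nd (nat_lit 78) (nat_lit 0) (nat_lit 0) (XT.lf (nat_lit 76) (nat_lit 1257166928) (nat_lit 0) (nat_lit 5940269920) (nat_lit 1216) (nat_lit 4890845948) (nat_lit 247) (nat_lit 5) (nat_lit 246) (nat_lit 5) (nat_lit 262) (nat_lit 5) (nat_lit 343) (nat_lit 328) (nat_lit 229)) (XT.lf (nat_lit 76) (nat_lit 7647154215) (nat_lit 0) (nat_lit 938638214) (nat_lit 1216) (nat_lit 3685331334) (nat_lit 247) (nat_lit 5) (nat_lit 246) (nat_lit 5) (nat_lit 262) (nat_lit 5) (nat_lit 344) (nat_lit 328) (nat_lit 228)))) (XT.nd (nat_lit 78)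 (nat_lit 1292) (nat_lit 0) (XT.lf (nat_lit 0) (nat_lit 1747150331) (nat_lit 1140) (nat_lit 8307323004) (nat_lit 1216) (nat_lit 2403828376) (nat_lit 232) (nat_lit 5) (nat_lit 247) (nat_lit 5) (nat_lit 248) (nat_lit 5) (nat_lit 345) (nat_lit 328) (nat_lit 227)) (XT.nd (nat_lit 78) (nat_lit 1292) (nat_lit 0) (XT.lf (nat_lit 0) (nat_lit 8379031813) (nat_lit 1140) (nat_lit 3225851408) (nat_lit 1216) (nat_lit 1045093362) (nat_lit 232) (nat_lit 5) (nat_lit 247) (nat_lit 5) (nat_lit 248) (nat_lit 5) (nat_lit 346) (nat_lit 328) (nat_lit 226)) (XT.lf (nat_lit 0) (nat_lit 372166969) (nat_lit 1292) (nat_lit 10476633296) (nat_lit 76) (nat_lit 1997769840) (nat_lit 215) (nat_lit 5) (nat_lit 232) (nat_lit 5) (nat_lit 216) (nat_lit 5) (nat_lit 347) (nat_lit 328) (nat_lit 225))))) (XT.nd (nat_lit 234) (nat_lit 1140) (nat_lit 0) (XT.nd (nat_lit 78) (nat_lit 608) (nat_lit 0) (XT.lf (nat_lit 0) (nat_lit 1868944213) (nat_lit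 1292) (nat_lit 3808879766) (nat_lit 76) (nat_lit 7369197551) (nat_lit 215) (nat_lit 5) (nat_lit 232) (nat_lit 5) (nat_lit 216) (nat_lit 5) (nat_lit 348) (nat_lit 328) (nat_lit 224)) (XT.nd (nat_lit 78) (nat_lit 0) (nat_lit 0) (XT.lf (nat_lit 0) (nat_lit 3103947802) (nat_lit 608) (nat_lit 319533571) (nat_lit 684) (nat_lit 9829629771) (nat_lit 207) (nat_lit 5) (nat_lit 215) (nat_lit 5) (nat_lit 216) (nat_lit 5) (nat_lit 349) (nat_lit 328) (nat_lit 223)) (XT.lf (nat_lit 0) (nat_lit 5096856934) (nat_lit 684) (nat_lit 3228249408) (nat_lit 76) (nat_lit 5138121079) (nat_lit 207) (nat_lit 5) (nat_lit 216) (nat_lit 5) (nat_lit 208) (nat_lit 5) (nat_lit 350) (nat_lit 328) (nat_lit 222)))) (XT.nd (nat_lit 156) (nat_lit 608) (nat_lit 0) (XT.nd (nat_lit 78) (nat_lit 0) (nat_lit 0) (XT.lf (nat_lit 0) (nat_lit 3958947905) (nat_lit 532) (nat_lit 2886567933) (nat_lit 608) (nat_lit 6833388636) (nat_lit 200) (nat_lit 5) (nat_lit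 207) (nat_lit 5) (nat_lit 208) (nat_lit 5) (nat_lit 351) (nat_lit 328) (nat_lit 221)) (XT.lf (nat_lit 0) (nat_lit 8689846502) (nat_lit 608) (nat_lit 2514330377) (nat_lit 76) (nat_lit 2695588067) (nat_lit 200) (nat_lit 5) (nat_lit 208) (nat_lit 5) (nat_lit 201) (nat_lit 5) (nat_lit 352) (nat_lit 328) (nat_lit 220))) (XT.nd (nat_lit 78) (nat_lit 0) (nat_lit 0) (XT.lf (nat_lit 0) (nat_lit 4960367341) (nat_lit 608) (nat_lit 5690052955) (nat_lit 684) (nat_lit 3475012731) (nat_lit 192) (nat_lit 5) (nat_lit 200) (nat_lit 5) (nat_lit 201) (nat_lit 5) (nat_lit 353) (nat_lit 328) (nat_lit 219)) (XT.lf (nat_lit 0) (nat_lit 12680302962) (nat_lit 684) (nat_lit 1662033699) (nat_lit 76) (nat_lit 15228662) (nat_lit 192) (nat_lit 5) (nat_lit 201) (nat_lit 5) (nat_lit 193) (nat_lit 5) (nat_lit 354) (nat_lit 328) (nat_lit 218))))))) (XT.nd (nat_lit 1014) (nat_lit 3040) (nat_lit 0) (XT.nd (nat_lit 468) (nat_lit 1368) (nat_lit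 0) (XT.nd (nat_lit 234) (nat_lit 912) (nat_lit 0) (XT.nd (nat_lit 78) (nat_lit 532) (nat_lit 0) (XT.lf (nat_lit 0) (nat_lit 272500840) (nat_lit 608) (nat_lit 8482436962) (nat_lit 76) (nat_lit 5838637381) (nat_lit 184) (nat_lit 5) (nat_lit 192) (nat_lit 5) (nat_lit 185) (nat_lit 5) (nat_lit 355) (nat_lit 328) (nat_lit 217)) (XT.nd (nat_lit 78) (nat_lit 532) (nat_lit 0) (XT.lf (nat_lit 0) (nat_lit 2249515902) (nat_lit 608) (nat_lit 716673007) (nat_lit 76) (nat_lit 11869912291) (nat_lit 184) (nat_lit 5) (nat_lit 192) (nat_lit 5) (nat_lit 185) (nat_lit 5) (nat_lit 356) (nat_lit 328) (nat_lit 216)) (XT.lf (nat_lit 0) (nat_lit 4372530133) (nat_lit 608) (nat_lit 7701866837) (nat_lit 76) (nat_lit 3008913295) (nat_lit 177) (nat_lit 5) (nat_lit 185) (nat_lit 5) (nat_lit 178) (nat_lit 5) (nat_lit 357) (nat_lit 328) (nat_lit 215)))) (XT.nd (nat_lit 78) (nat_lit 456) (nat_lit 0) (XT.lf (nat_lit 0) (nat_lit 361964915)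 (nat_lit 456) (nat_lit 6223627662) (nat_lit 532) (nat_lit 8751559987) (nat_lit 171) (nat_lit 5) (nat_lit 177) (nat_lit 5) (nat_lit 178) (nat_lit 5) (nat_lit 358) (nat_lit 328) (nat_lit 214)) (XT.nd (nat_lit 78) (nat_lit 456) (nat_lit 0) (XT.lf (nat_lit 0) (nat_lit 8810606292) (nat_lit 456) (nat_lit 118673705) (nat_lit 532) (nat_lit 6667410614) (nat_lit 171) (nat_lit 5) (nat_lit 177) (nat_lit 5) (nat_lit 178) (nat_lit 5) (nat_lit 359) (nat_lit 328) (nat_lit 213)) (XT.lf (nat_lit 0) (nat_lit 1605784714) (nat_lit 456) (nat_lit 9799073685) (nat_lit 532) (nat_lit 4457316248) (nat_lit 165) (nat_lit 5) (nat_lit 171) (nat_lit 5) (nat_lit 172) (nat_lit 5) (nat_lit 360) (nat_lit 328) (nat_lit 212))))) (XT.nd (nat_lit 234) (nat_lit 836) (nat_lit 0) (XT.nd (nat_lit 78) (nat_lit 532) (nat_lit 0) (XT.lf (nat_lit 0) (nat_lit 10372528259) (nat_lit 456) (nat_lit 3638946865) (nat_lit 532) (nat_lit 2122451993) (nat_lit 165)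 (nat_lit 5) (nat_lit 171) (nat_lit 5) (nat_lit 172) (nat_lit 5) (nat_lit 361) (nat_lit 328) (nat_lit 211)) (XT.nd (nat_lit 78) (nat_lit 0) (nat_lit 0) (XT.lf (nat_lit 0) (nat_lit 319709808) (nat_lit 532) (nat_lit 13409333500) (nat_lit 76) (nat_lit 2683431136) (nat_lit 158) (nat_lit 5) (nat_lit 165) (nat_lit 5) (nat_lit 159) (nat_lit 5) (nat_lit 362) (nat_lit 328) (nat_lit 210)) (XT.lf (nat_lit 0) (nat_lit 2874798492) (nat_lit 532) (nat_lit 4621368631) (nat_lit 76) (nat_lit 9200117448) (nat_lit 158) (nat_lit 5) (nat_lit 165) (nat_lit 5) (nat_lit 159) (nat_lit 5) (nat_lit 363) (nat_lit 328) (nat_lit 209)))) (XT.nd (nat_lit 156) (nat_lit 380) (nat_lit 0) (XT.nd (nat_lit 78) (nat_lit 0) (nat_lit 0) (XT.lf (nat_lit 0) (nat_lit 4503714811) (nat_lit 456) (nat_lit 1034017656) (nat_lit 532) (nat_lit 11449947012) (nat_lit 152) (nat_lit 5) (nat_lit 158) (nat_lit 5) (nat_lit 159) (nat_lit 5) (nat_lit 364) (nat_lit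 328) (nat_lit 208)) (XT.lf (nat_lit 0) (nat_lit 8369817967) (nat_lit 532) (nat_lit 3358238668) (nat_lit 76) (nat_lit 5557087772) (nat_lit 152) (nat_lit 5) (nat_lit 159) (nat_lit 5) (nat_lit 153) (nat_lit 5) (nat_lit 365) (nat_lit 328) (nat_lit 207))) (XT.nd (nat_lit 78) (nat_lit 0) (nat_lit 0) (XT.lf (nat_lit 0) (nat_lit 6136591022) (nat_lit 380) (nat_lit 5207940917) (nat_lit 456) (nat_lit 6245277265) (nat_lit 147) (nat_lit 5) (nat_lit 152) (nat_lit 5) (nat_lit 153) (nat_lit 5) (nat_lit 366) (nat_lit 328) (nat_lit 206)) (XT.lf (nat_lit 0) (nat_lit 14445843860) (nat_lit 456) (nat_lit 1946678865) (nat_lit 76) (nat_lit 1509976251) (nat_lit 147) (nat_lit 5) (nat_lit 153) (nat_lit 5) (nat_lit 148) (nat_lit 5) (nat_lit 367) (nat_lit 328) (nat_lit 205)))))) (XT.nd (nat_lit 546) (nat_lit 1368) (nat_lit 0) (XT.nd (nat_lit 234) (nat_lit 760) (nat_lit 0) (XT.nd (nat_lit 78) (nat_lit 456) (nat_lit 0) (XT.lf (nat_lit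 0) (nat_lit 7934380397) (nat_lit 456) (nat_lit 9822595676) (nat_lit 532) (nat_lit 464095502) (nat_lit 141) (nat_lit 5) (nat_lit 147) (nat_lit 5) (nat_lit 148) (nat_lit 5) (nat_lit 368) (nat_lit 328) (nat_lit 204)) (XT.nd (nat_lit 78) (nat_lit 380) (nat_lit 0) (XT.lf (nat_lit 0) (nat_lit 2576025288) (nat_lit 532) (nat_lit 436225764) (nat_lit 76) (nat_lit 15535934227) (nat_lit 140) (nat_lit 5) (nat_lit 147) (nat_lit 5) (nat_lit 141) (nat_lit 5) (nat_lit 369) (nat_lit 328) (nat_lit 203)) (XT.lf (nat_lit 0) (nat_lit 5821811386) (nat_lit 456) (nat_lit 9037460205) (nat_lit 76) (nat_lit 4021994355) (nat_lit 135) (nat_lit 5) (nat_lit 141) (nat_lit 5) (nat_lit 136) (nat_lit 5) (nat_lit 370) (nat_lit 328) (nat_lit 202)))) (XT.nd (nat_lit 156) (nat_lit 380) (nat_lit 0) (XT.nd (nat_lit 78) (nat_lit 0) (nat_lit 0) (XT.lf (nat_lit 0) (nat_lit 1196681170) (nat_lit 380) (nat_lit 8003560999) (nat_lit 456) (nat_lit 10023043670)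 (nat_lit 130) (nat_lit 5) (nat_lit 135) (nat_lit 5) (nat_lit 136) (nat_lit 5) (nat_lit 371) (nat_lit 328) (nat_lit 201)) (XT.lf (nat_lit 0) (nat_lit 11909464901) (nat_lit 380) (nat_lit 851491413) (nat_lit 456) (nat_lit 6812186899) (nat_lit 130) (nat_lit 5) (nat_lit 135) (nat_lit 5) (nat_lit 136) (nat_lit 5) (nat_lit 372) (nat_lit 328) (nat_lit 200))) (XT.nd (nat_lit 78) (nat_lit 76) (nat_lit 0) (XT.lf (nat_lit 0) (nat_lit 2992382188) (nat_lit 304) (nat_lit 13517441610) (nat_lit 380) (nat_lit 3421237209) (nat_lit 126) (nat_lit 5) (nat_lit 130) (nat_lit 5) (nat_lit 131) (nat_lit 5) (nat_lit 373) (nat_lit 328) (nat_lit 199)) (XT.lf (nat_lit 0) (nat_lit 146633575) (nat_lit 380) (nat_lit 6195644988) (nat_lit 76) (nat_lit 13955123960) (nat_lit 125) (nat_lit 5) (nat_lit 130) (nat_lit 5) (nat_lit 126) (nat_lit 5) (nat_lit 374) (nat_lit 328) (nat_lit 198))))) (XT.nd (nat_lit 234) (nat_lit 684) (nat_lit 0) (XT.nd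 (nat_lit 78) (nat_lit 304) (nat_lit 0) (XT.lf (nat_lit 0) (nat_lit 3801195809) (nat_lit 456) (nat_lit 15764848142) (nat_lit 76) (nat_lit 1106225823) (nat_lit 120) (nat_lit 5) (nat_lit 126) (nat_lit 5) (nat_lit 121) (nat_lit 5) (nat_lit 375) (nat_lit 328) (nat_lit 197)) (XT.nd (nat_lit 78) (nat_lit 304) (nat_lit 0) (XT.lf (nat_lit 0) (nat_lit 7681789365) (nat_lit 456) (nat_lit 4662656346) (nat_lit 76) (nat_lit 8710449633) (nat_lit 120) (nat_lit 5) (nat_lit 126) (nat_lit 5) (nat_lit 121) (nat_lit 5) (nat_lit 376) (nat_lit 328) (nat_lit 196)) (XT.lf (nat_lit 0) (nat_lit 6894199003) (nat_lit 304) (nat_lit 4841568428) (nat_lit 380) (nat_lit 9711527269) (nat_lit 116) (nat_lit 5) (nat_lit 120) (nat_lit 5) (nat_lit 121) (nat_lit 5) (nat_lit 377) (nat_lit 328) (nat_lit 195)))) (XT.nd (nat_lit 156) (nat_lit 380) (nat_lit 0) (XT.nd (nat_lit 78) (nat_lit 304) (nat_lit 0) (XT.lf (nat_lit 0) (nat_lit 15977468768) (nat_lit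 380) (nat_lit 2997975179) (nat_lit 76) (nat_lit 2874042871) (nat_lit 116) (nat_lit 5) (nat_lit 121) (nat_lit 5) (nat_lit 117) (nat_lit 5) (nat_lit 378) (nat_lit 328) (nat_lit 194)) (XT.lf (nat_lit 0) (nat_lit 9019190021) (nat_lit 304) (nat_lit 11452941407) (nat_lit 380) (nat_lit 1787845748) (nat_lit 112) (nat_lit 5) (nat_lit 116) (nat_lit 5) (nat_lit 117) (nat_lit 5) (nat_lit 379) (nat_lit 328) (nat_lit 193))) (XT.nd (nat_lit 78) (nat_lit 304) (nat_lit 0) (XT.lf (nat_lit 0) (nat_lit 2393349362) (nat_lit 380) (nat_lit 1259825018) (nat_lit 76) (nat_lit 19028262946) (nat_lit 111) (nat_lit 5) (nat_lit 116) (nat_lit 5) (nat_lit 112) (nat_lit 5) (nat_lit 380) (nat_lit 328) (nat_lit 192)) (XT.lf (nat_lit 0) (nat_lit 6807088824) (nat_lit 380) (nat_lit 11884906403) (nat_lit 76) (nat_lit 4418727203) (nat_lit 107) (nat_lit 5) (nat_lit 112) (nat_lit 5) (nat_lit 108) (nat_lit 5) (nat_lit 381) (nat_lit 328) (nat_lit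 191))))))))
noncomputable def xc174 : XT := (XT.nd (nat_lit 2028) (nat_lit 1976) (nat_lit 0) (XT.nd (nat_lit 1014) (nat_lit 1596) (nat_lit 0) (XT.nd (nat_lit 468) (nat_lit 1064) (nat_lit 0) (XT.nd (nat_lit 234) (nat_lit 380) (nat_lit 0) (XT.nd (nat_lit 78) (nat_lit 228) (nat_lit 0) (XT.lf (nat_lit 0) (nat_lit 520757364) (nat_lit 304) (nat_lit 10877987274) (nat_lit 380) (nat_lit 12152779687) (nat_lit 103) (nat_lit 5) (nat_lit 107) (nat_lit 5) (nat_lit 108) (nat_lit 5) (nat_lit 382) (nat_lit 328) (nat_lit 190)) (XT.nd (nat_lit 78) (nat_lit 228) (nat_lit 0) (XT.lf (nat_lit 0) (nat_lit 13529886555) (nat_lit 304) (nat_lit 2709887973) (nat_lit 380) (nat_lit 7762430284) (nat_lit 103) (nat_lit 5) (nat_lit 107) (nat_lit 5) (nat_lit 108) (nat_lit 5) (nat_lit 383) (nat_lit 328) (nat_lit 189)) (XT.lf (nat_lit 0) (nat_lit 2443558438) (nat_lit 228) (nat_lit 18852606734) (nat_lit 304) (nat_lit 3168139816) (nat_lit 100)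 (nat_lit 5) (nat_lit 103) (nat_lit 5) (nat_lit 104) (nat_lit 5) (nat_lit 384) (nat_lit 328) (nat_lit 188)))) (XT.nd (nat_lit 78) (nat_lit 304) (nat_lit 0) (XT.lf (nat_lit 0) (nat_lit 1658945206) (nat_lit 304) (nat_lit 9030654023) (nat_lit 76) (nat_lit 14246456372) (nat_lit 99) (nat_lit 5) (nat_lit 103) (nat_lit 5) (nat_lit 100) (nat_lit 5) (nat_lit 385) (nat_lit 328) (nat_lit 187)) (XT.nd (nat_lit 78) (nat_lit 0) (nat_lit 0) (XT.lf (nat_lit 0) (nat_lit 4391595113) (nat_lit 304) (nat_lit 2209880287) (nat_lit 380) (nat_lit 18818515929) (nat_lit 95) (nat_lit 5) (nat_lit 99) (nat_lit 5) (nat_lit 100) (nat_lit 5) (nat_lit 386) (nat_lit 328) (nat_lit 186)) (XT.lf (nat_lit 0) (nat_lit 11839264658) (nat_lit 380) (nat_lit 7589652056) (nat_lit 76) (nat_lit 6485121738) (nat_lit 95) (nat_lit 5) (nat_lit 100) (nat_lit 5) (nat_lit 96) (nat_lit 5) (nat_lit 387) (nat_lit 328) (nat_lit 185))))) (XT.nd (nat_lit 234) (nat_lit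 456) (nat_lit 0) (XT.nd (nat_lit 78) (nat_lit 380) (nat_lit 0) (XT.lf (nat_lit 0) (nat_lit 6342532130) (nat_lit 228) (nat_lit 10966905197) (nat_lit 304) (nat_lit 9111214905) (nat_lit 92) (nat_lit 5) (nat_lit 95) (nat_lit 5) (nat_lit 96) (nat_lit 5) (nat_lit 388) (nat_lit 328) (nat_lit 184)) (XT.nd (nat_lit 78) (nat_lit 380) (nat_lit 0) (XT.lf (nat_lit 0) (nat_lit 20836768130) (nat_lit 228) (nat_lit 2176099912) (nat_lit 304) (nat_lit 3927524453) (nat_lit 92) (nat_lit 5) (nat_lit 95) (nat_lit 5) (nat_lit 96) (nat_lit 5) (nat_lit 389) (nat_lit 328) (nat_lit 183)) (XT.lf (nat_lit 0) (nat_lit 1524835529) (nat_lit 380) (nat_lit 19110405397) (nat_lit 76) (nat_lit 6835858274) (nat_lit 87) (nat_lit 5) (nat_lit 92) (nat_lit 5) (nat_lit 88) (nat_lit 5) (nat_lit 390) (nat_lit 328) (nat_lit 182)))) (XT.nd (nat_lit 156) (nat_lit 228) (nat_lit 0) (XT.nd (nat_lit 78) (nat_lit 228) (nat_lit 0) (XT.lf (nat_lit 0) (nat_lit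 7138341445) (nat_lit 380) (nat_lit 4704239072) (nat_lit 76) (nat_lit 16171686994) (nat_lit 87) (nat_lit 5) (nat_lit 92) (nat_lit 5) (nat_lit 88) (nat_lit 5) (nat_lit 391) (nat_lit 328) (nat_lit 181)) (XT.lf (nat_lit 0) (nat_lit 10324533832) (nat_lit 228) (nat_lit 2687900423) (nat_lit 304) (nat_lit 15558533526) (nat_lit 84) (nat_lit 5) (nat_lit 87) (nat_lit 5) (nat_lit 88) (nat_lit 5) (nat_lit 392) (nat_lit 328) (nat_lit 180))) (XT.nd (nat_lit 78) (nat_lit 228) (nat_lit 0) (XT.lf (nat_lit 0) (nat_lit 19168524789) (nat_lit 304) (nat_lit 3318726646) (nat_lit 76) (nat_lit 6653946665) (nat_lit 84) (nat_lit 5) (nat_lit 88) (nat_lit 5) (nat_lit 85) (nat_lit 5) (nat_lit 393) (nat_lit 328) (nat_lit 179)) (XT.lf (nat_lit 0) (nat_lit 12258620564) (nat_lit 228) (nat_lit 13388330002) (nat_lit 304) (nat_lit 4077457411) (nat_lit 81) (nat_lit 5) (nat_lit 84) (nat_lit 5) (nat_lit 85) (nat_lit 5) (nat_lit 394) (nat_lit 328)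 (nat_lit 178)))))) (XT.nd (nat_lit 468) (nat_lit 836) (nat_lit 0) (XT.nd (nat_lit 234) (nat_lit 456) (nat_lit 0) (XT.nd (nat_lit 78) (nat_lit 228) (nat_lit 0) (XT.lf (nat_lit 0) (nat_lit 1982766404) (nat_lit 304) (nat_lit 1983114563) (nat_lit 76) (nat_lit 26357847869) (nat_lit 80) (nat_lit 5) (nat_lit 84) (nat_lit 5) (nat_lit 81) (nat_lit 5) (nat_lit 395) (nat_lit 328) (nat_lit 177)) (XT.nd (nat_lit 78) (nat_lit 0) (nat_lit 0) (XT.lf (nat_lit 0) (nat_lit 8329555531) (nat_lit 304) (nat_lit 16802744289) (nat_lit 76) (nat_lit 5801919069) (nat_lit 77) (nat_lit 5) (nat_lit 81) (nat_lit 5) (nat_lit 78) (nat_lit 5) (nat_lit 396) (nat_lit 328) (nat_lit 176)) (XT.lf (nat_lit 0) (nat_lit 14919718462) (nat_lit 304) (nat_lit 842293970) (nat_lit 76) (nat_lit 15799424082) (nat_lit 77) (nat_lit 5) (nat_lit 81) (nat_lit 5) (nat_lit 78) (nat_lit 5) (nat_lit 397) (nat_lit 328) (nat_lit 175)))) (XT.nd (nat_lit 78) (nat_lit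 228) (nat_lit 0) (XT.lf (nat_lit 0) (nat_lit 15896923651) (nat_lit 228) (nat_lit 5957143624) (nat_lit 304) (nat_lit 10349010881) (nat_lit 74) (nat_lit 5) (nat_lit 77) (nat_lit 5) (nat_lit 78) (nat_lit 5) (nat_lit 398) (nat_lit 328) (nat_lit 174)) (XT.nd (nat_lit 78) (nat_lit 76) (nat_lit 0) (XT.lf (nat_lit 0) (nat_lit 246477861) (nat_lit 152) (nat_lit 28794461167) (nat_lit 228) (nat_lit 3821697109) (nat_lit 72) (nat_lit 5) (nat_lit 74) (nat_lit 5) (nat_lit 75) (nat_lit 5) (nat_lit 399) (nat_lit 328) (nat_lit 173)) (XT.lf (nat_lit 0) (nat_lit 3063831705) (nat_lit 228) (nat_lit 16005922791) (nat_lit 76) (nat_lit 14464821012) (nat_lit 71) (nat_lit 5) (nat_lit 74) (nat_lit 5) (nat_lit 72) (nat_lit 5) (nat_lit 400) (nat_lit 328) (nat_lit 172))))) (XT.nd (nat_lit 234) (nat_lit 456) (nat_lit 0) (XT.nd (nat_lit 78) (nat_lit 152) (nat_lit 0) (XT.lf (nat_lit 0) (nat_lit 1075744846) (nat_lit 228) (nat_lit 9007633219)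 (nat_lit 304) (nat_lit 24142033622) (nat_lit 68) (nat_lit 5) (nat_lit 71) (nat_lit 5) (nat_lit 72) (nat_lit 5) (nat_lit 401) (nat_lit 328) (nat_lit 171)) (XT.nd (nat_lit 78) (nat_lit 152) (nat_lit 0) (XT.lf (nat_lit 0) (nat_lit 17483744630) (nat_lit 304) (nat_lit 15958867583) (nat_lit 76) (nat_lit 1489255379) (nat_lit 68) (nat_lit 5) (nat_lit 72) (nat_lit 5) (nat_lit 69) (nat_lit 5) (nat_lit 402) (nat_lit 328) (nat_lit 170)) (XT.lf (nat_lit 0) (nat_lit 1681503392) (nat_lit 152) (nat_lit 23524109656) (nat_lit 228) (nat_lit 10450921008) (nat_lit 66) (nat_lit 5) (nat_lit 68) (nat_lit 5) (nat_lit 69) (nat_lit 5) (nat_lit 403) (nat_lit 328) (nat_lit 169)))) (XT.nd (nat_lit 156) (nat_lit 152) (nat_lit 0) (XT.nd (nat_lit 78) (nat_lit 304) (nat_lit 0) (XT.lf (nat_lit 0) (nat_lit 20168542559) (nat_lit 152) (nat_lit 13145968472) (nat_lit 228) (nat_lit 3083769836) (nat_lit 66) (nat_lit 5) (nat_lit 68) (nat_lit 5)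 (nat_lit 69) (nat_lit 5) (nat_lit 404) (nat_lit 328) (nat_lit 168)) (XT.lf (nat_lit 0) (nat_lit 2034803858) (nat_lit 228) (nat_lit 2395586344) (nat_lit 304) (nat_lit 32730175643) (nat_lit 62) (nat_lit 5) (nat_lit 65) (nat_lit 5) (nat_lit 66) (nat_lit 5) (nat_lit 405) (nat_lit 328) (nat_lit 167))) (XT.nd (nat_lit 78) (nat_lit 152) (nat_lit 0) (XT.lf (nat_lit 0) (nat_lit 12351286354) (nat_lit 304) (nat_lit 16885948762) (nat_lit 76) (nat_lit 8700270950) (nat_lit 62) (nat_lit 5) (nat_lit 66) (nat_lit 5) (nat_lit 63) (nat_lit 5) (nat_lit 406) (nat_lit 328) (nat_lit 166)) (XT.lf (nat_lit 0) (nat_lit 1905241171) (nat_lit 152) (nat_lit 18641134497) (nat_lit 228) (nat_lit 18190283224) (nat_lit 60) (nat_lit 5) (nat_lit 62) (nat_lit 5) (nat_lit 63) (nat_lit 5) (nat_lit 407) (nat_lit 328) (nat_lit 165))))))) (XT.nd (nat_lit 1014) (nat_lit 836) (nat_lit 0) (XT.nd (nat_lit 468) (nat_lit 760) (nat_lit 0) (XT.nd (nat_lit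 234) (nat_lit 152) (nat_lit 0) (XT.nd (nat_lit 78) (nat_lit 228) (nat_lit 0) (XT.lf (nat_lit 0) (nat_lit 21597126021) (nat_lit 152) (nat_lit 7555310792) (nat_lit 228) (nat_lit 10402397261) (nat_lit 60) (nat_lit 5) (nat_lit 62) (nat_lit 5) (nat_lit 63) (nat_lit 5) (nat_lit 408) (nat_lit 328) (nat_lit 164)) (XT.nd (nat_lit 78) (nat_lit 76) (nat_lit 0) (XT.lf (nat_lit 0) (nat_lit 1464616780) (nat_lit 152) (nat_lit 36598002131) (nat_lit 228) (nat_lit 2333558733) (nat_lit 58) (nat_lit 5) (nat_lit 60) (nat_lit 5) (nat_lit 61) (nat_lit 5) (nat_lit 409) (nat_lit 328) (nat_lit 163)) (XT.lf (nat_lit 0) (nat_lit 6113384263) (nat_lit 228) (nat_lit 19562711966) (nat_lit 76) (nat_lit 15577362422) (nat_lit 57) (nat_lit 5) (nat_lit 60) (nat_lit 5) (nat_lit 58) (nat_lit 5) (nat_lit 410) (nat_lit 328) (nat_lit 162)))) (XT.nd (nat_lit 78) (nat_lit 0) (nat_lit 0) (XT.lf (nat_lit 0) (nat_lit 362373963) (nat_lit 152) (nat_lit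 14402836631) (nat_lit 228) (nat_lit 27370604235) (nat_lit 55) (nat_lit 5) (nat_lit 57) (nat_lit 5) (nat_lit 58) (nat_lit 5) (nat_lit 411) (nat_lit 328) (nat_lit 161)) (XT.nd (nat_lit 78) (nat_lit 0) (nat_lit 0) (XT.lf (nat_lit 0) (nat_lit 21277520000) (nat_lit 152) (nat_lit 2591575659) (nat_lit 228) (nat_lit 19169772076) (nat_lit 55) (nat_lit 5) (nat_lit 57) (nat_lit 5) (nat_lit 58) (nat_lit 5) (nat_lit 412) (nat_lit 328) (nat_lit 160)) (XT.lf (nat_lit 0) (nat_lit 33333200152) (nat_lit 228) (nat_lit 1249492133) (nat_lit 76) (nat_lit 9383707983) (nat_lit 55) (nat_lit 5) (nat_lit 58) (nat_lit 5) (nat_lit 56) (nat_lit 5) (nat_lit 413) (nat_lit 328) (nat_lit 159))))) (XT.nd (nat_lit 234) (nat_lit 380) (nat_lit 0) (XT.nd (nat_lit 78) (nat_lit 228) (nat_lit 0) (XT.lf (nat_lit 0) (nat_lit 20238669944) (nat_lit 152) (nat_lit 23057978534) (nat_lit 228) (nat_lit 1618648774) (nat_lit 53) (nat_lit 5) (nat_lit 55) (nat_lit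 5) (nat_lit 56) (nat_lit 5) (nat_lit 414) (nat_lit 328) (nat_lit 158)) (XT.nd (nat_lit 78) (nat_lit 152) (nat_lit 0) (XT.lf (nat_lit 0) (nat_lit 7524710981) (nat_lit 228) (nat_lit 3577344667) (nat_lit 76) (nat_lit 34788156630) (nat_lit 52) (nat_lit 5) (nat_lit 55) (nat_lit 5) (nat_lit 53) (nat_lit 5) (nat_lit 415) (nat_lit 328) (nat_lit 157)) (XT.lf (nat_lit 0) (nat_lit 17096498741) (nat_lit 228) (nat_lit 28410604894) (nat_lit 76) (nat_lit 1381191520) (nat_lit 50) (nat_lit 5) (nat_lit 53) (nat_lit 5) (nat_lit 51) (nat_lit 5) (nat_lit 416) (nat_lit 328) (nat_lit 156)))) (XT.nd (nat_lit 156) (nat_lit 228) (nat_lit 0) (XT.nd (nat_lit 78) (nat_lit 152) (nat_lit 0) (XT.lf (nat_lit 0) (nat_lit 27097234646) (nat_lit 228) (nat_lit 6765924485) (nat_lit 76) (nat_lit 14048908523) (nat_lit 50) (nat_lit 5) (nat_lit 53) (nat_lit 5) (nat_lit 51) (nat_lit 5) (nat_lit 417) (nat_lit 328) (nat_lit 155)) (XT.lf (nat_lit 0)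 (nat_lit 15829098498) (nat_lit 152) (nat_lit 21716578678) (nat_lit 228) (nat_lit 11416446559) (nat_lit 48) (nat_lit 5) (nat_lit 50) (nat_lit 5) (nat_lit 51) (nat_lit 5) (nat_lit 418) (nat_lit 328) (nat_lit 154))) (XT.nd (nat_lit 78) (nat_lit 228) (nat_lit 0) (XT.lf (nat_lit 0) (nat_lit 39232863687) (nat_lit 152) (nat_lit 9138612751) (nat_lit 228) (nat_lit 1670288875) (nat_lit 48) (nat_lit 5) (nat_lit 50) (nat_lit 5) (nat_lit 51) (nat_lit 5) (nat_lit 419) (nat_lit 328) (nat_lit 153)) (XT.lf (nat_lit 0) (nat_lit 8357848544) (nat_lit 228) (nat_lit 38848990284) (nat_lit 76) (nat_lit 3939958257) (nat_lit 45) (nat_lit 5) (nat_lit 48) (nat_lit 5) (nat_lit 46) (nat_lit 5) (nat_lit 420) (nat_lit 328) (nat_lit 152)))))) (XT.nd (nat_lit 546) (nat_lit 380) (nat_lit 0) (XT.nd (nat_lit 234) (nat_lit 304) (nat_lit 0) (XT.nd (nat_lit 78) (nat_lit 152) (nat_lit 0) (XT.lf (nat_lit 0) (nat_lit 18849657378) (nat_lit 228) (nat_lit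 16078201953) (nat_lit 76) (nat_lit 17350733239) (nat_lit 45) (nat_lit 5) (nat_lit 48) (nat_lit 5) (nat_lit 46) (nat_lit 5) (nat_lit 421) (nat_lit 328) (nat_lit 151)) (XT.nd (nat_lit 78) (nat_lit 0) (nat_lit 0) (XT.lf (nat_lit 0) (nat_lit 7514891000) (nat_lit 152) (nat_lit 22209380540) (nat_lit 228) (nat_lit 23718029661) (nat_lit 43) (nat_lit 5) (nat_lit 45) (nat_lit 5) (nat_lit 46) (nat_lit 5) (nat_lit 422) (nat_lit 328) (nat_lit 150)) (XT.lf (nat_lit 0) (nat_lit 32137975655) (nat_lit 152) (nat_lit 8945371041) (nat_lit 228) (nat_lit 13552828509) (nat_lit 43) (nat_lit 5) (nat_lit 45) (nat_lit 5) (nat_lit 46) (nat_lit 5) (nat_lit 423) (nat_lit 328) (nat_lit 149)))) (XT.nd (nat_lit 156) (nat_lit 152) (nat_lit 0) (XT.nd (nat_lit 78) (nat_lit 76) (nat_lit 0) (XT.lf (nat_lit 0) (nat_lit 1612755504) (nat_lit 76) (nat_lit 51227234201) (nat_lit 152) (nat_lit 3024172624) (nat_lit 42) (nat_lit 5) (nat_lit 43) (nat_lit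 5) (nat_lit 44) (nat_lit 4) (nat_lit 424) (nat_lit 328) (nat_lit 148)) (XT.lf (nat_lit 0) (nat_lit 7981707736) (nat_lit 152) (nat_lit 30387208516) (nat_lit 76) (nat_lit 18748399284) (nat_lit 41) (nat_lit 5) (nat_lit 43) (nat_lit 5) (nat_lit 42) (nat_lit 5) (nat_lit 425) (nat_lit 328) (nat_lit 147))) (XT.nd (nat_lit 78) (nat_lit 152) (nat_lit 0) (XT.lf (nat_lit 0) (nat_lit 19253061967) (nat_lit 152) (nat_lit 5844088689) (nat_lit 76) (nat_lit 33310132708) (nat_lit 41) (nat_lit 5) (nat_lit 43) (nat_lit 5) (nat_lit 42) (nat_lit 5) (nat_lit 426) (nat_lit 328) (nat_lit 146)) (XT.lf (nat_lit 0) (nat_lit 19815132912) (nat_lit 152) (nat_lit 11234093590) (nat_lit 228) (nat_lit 28681124314) (nat_lit 39) (nat_lit 5) (nat_lit 41) (nat_lit 5) (nat_lit 42) (nat_lit 5) (nat_lit 427) (nat_lit 328) (nat_lit 145))))) (XT.nd (nat_lit 234) (nat_lit 228) (nat_lit 0) (XT.nd (nat_lit 78) (nat_lit 152) (nat_lit 0) (XT.lf (nat_lit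 0) (nat_lit 43284354075) (nat_lit 228) (nat_lit 14764137488) (nat_lit 76) (nat_lit 3042067049) (nat_lit 39) (nat_lit 5) (nat_lit 42) (nat_lit 5) (nat_lit 40) (nat_lit 4) (nat_lit 428) (nat_lit 328) (nat_lit 144)) (XT.nd (nat_lit 78) (nat_lit 76) (nat_lit 0) (XT.lf (nat_lit 0) (nat_lit 11242964059) (nat_lit 76) (nat_lit 44859195630) (nat_lit 152) (nat_lit 6382944868) (nat_lit 38) (nat_lit 5) (nat_lit 39) (nat_lit 5) (nat_lit 40) (nat_lit 4) (nat_lit 429) (nat_lit 328) (nat_lit 143)) (XT.lf (nat_lit 0) (nat_lit 5424863934) (nat_lit 152) (nat_lit 25643987764) (nat_lit 76) (nat_lit 32846676646) (nat_lit 37) (nat_lit 5) (nat_lit 39) (nat_lit 5) (nat_lit 38) (nat_lit 5) (nat_lit 430) (nat_lit 328) (nat_lit 142)))) (XT.nd (nat_lit 156) (nat_lit 76) (nat_lit 0) (XT.nd (nat_lit 78) (nat_lit 0) (nat_lit 0) (XT.lf (nat_lit 0) (nat_lit 665409618) (nat_lit 152) (nat_lit 16796038119) (nat_lit 228) (nat_lit 47925436823)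 (nat_lit 35) (nat_lit 5) (nat_lit 37) (nat_lit 5) (nat_lit 38) (nat_lit 5) (nat_lit 431) (nat_lit 328) (nat_lit 141)) (XT.lf (nat_lit 0) (nat_lit 28283342129) (nat_lit 152) (nat_lit 1831218283) (nat_lit 228) (nat_lit 36780158679) (nat_lit 35) (nat_lit 5) (nat_lit 37) (nat_lit 5) (nat_lit 38) (nat_lit 5) (nat_lit 432) (nat_lit 328) (nat_lit 140))) (XT.nd (nat_lit 78) (nat_lit 76) (nat_lit 0) (XT.lf (nat_lit 0) (nat_lit 43274383106) (nat_lit 228) (nat_lit 11854852182) (nat_lit 76) (nat_lit 13314740428) (nat_lit 35) (nat_lit 5) (nat_lit 38) (nat_lit 5) (nat_lit 36) (nat_lit 4) (nat_lit 433) (nat_lit 328) (nat_lit 139)) (XT.lf (nat_lit 0) (nat_lit 15992173843) (nat_lit 76) (nat_lit 41005337363) (nat_lit 152) (nat_lit 13037144048) (nat_lit 34) (nat_lit 5) (nat_lit 35) (nat_lit 5) (nat_lit 36) (nat_lit 4) (nat_lit 434) (nat_lit 328) (nat_lit 138))))))))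
noncomputable def xc175 : XT := (XT.nd (nat_lit 40482) (nat_lit 0) (nat_lit 6460) (XT.nd (nat_lit 39390) (nat_lit 0) (nat_lit 12844) (XT.nd (nat_lit 38844) (nat_lit 0) (nat_lit 16112) (XT.nd (nat_lit 38610) (nat_lit 0) (nat_lit 17024) (XT.nd (nat_lit 78) (nat_lit 228) (nat_lit 0) (XT.lf (nat_lit 0) (nat_lit 44911555041) (nat_lit 76) (nat_lit 26337181309) (nat_lit 152) (nat_lit 420827256) (nat_lit 34) (nat_lit 5) (nat_lit 35) (nat_lit 5) (nat_lit 36) (nat_lit 4) (nat_lit 435) (nat_lit 328) (nat_lit 137)) (XT.nd (nat_lit 78) (nat_lit 0) (nat_lit 0) (XT.lf (nat_lit 0) (nat_lit 1242416969) (nat_lit 152) (nat_lit 11094897804) (nat_lit 228) (nat_lit 61012317883) (nat_lit 31) (nat_lit 5) (nat_lit 33) (nat_lit 5) (nat_lit 34) (nat_lit 5) (nat_lit 436) (nat_lit 328) (nat_lit 136)) (XT.lf (nat_lit 0) (nat_lit 25783652681) (nat_lit 228) (nat_lit 44497703221) (nat_lit 76) (nat_lit 4789206061) (nat_lit 31) (nat_lit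 5) (nat_lit 34) (nat_lit 5) (nat_lit 32) (nat_lit 4) (nat_lit 437) (nat_lit 328) (nat_lit 135)))) (XT.nd (nat_lit 78) (nat_lit 0) (nat_lit 0) (XT.lf (nat_lit 0) (nat_lit 2197326470) (nat_lit 1140) (nat_lit 1421109906) (nat_lit 1140) (nat_lit 1421109906) (nat_lit 255) (nat_lit 3) (nat_lit 270) (nat_lit 3) (nat_lit 270) (nat_lit 5) (nat_lit 329) (nat_lit 329) (nat_lit 242)) (XT.nd (nat_lit 78) (nat_lit 0) (nat_lit 76) (XT.lf (nat_lit 76) (nat_lit 1981927761) (nat_lit 0) (nat_lit 3170686972) (nat_lit 1140) (nat_lit 5056438184) (nat_lit 256) (nat_lit 5) (nat_lit 255) (nat_lit 3) (nat_lit 270) (nat_lit 5) (nat_lit 330) (nat_lit 329) (nat_lit 241)) (XT.lf (nat_lit 0) (nat_lit 5945804487) (nat_lit 1064) (nat_lit 3357789435) (nat_lit 1140) (nat_lit 1038961623) (nat_lit 256) (nat_lit 5) (nat_lit 270) (nat_lit 5) (nat_lit 271) (nat_lit 5) (nat_lit 331) (nat_lit 329) (nat_lit 240))))) (XT.nd (nat_lit 234) (nat_lit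 988) (nat_lit 0) (XT.nd (nat_lit 78) (nat_lit 0) (nat_lit 0) (XT.lf (nat_lit 76) (nat_lit 1644007108) (nat_lit 0) (nat_lit 5140467716) (nat_lit 1140) (nat_lit 3694955494) (nat_lit 257) (nat_lit 5) (nat_lit 256) (nat_lit 5) (nat_lit 271) (nat_lit 5) (nat_lit 332) (nat_lit 329) (nat_lit 239)) (XT.nd (nat_lit 78) (nat_lit 0) (nat_lit 76) (XT.lf (nat_lit 76) (nat_lit 6850522394) (nat_lit 0) (nat_lit 806785583) (nat_lit 1140) (nat_lit 2962850371) (nat_lit 257) (nat_lit 5) (nat_lit 256) (nat_lit 5) (nat_lit 271) (nat_lit 5) (nat_lit 333) (nat_lit 329) (nat_lit 238)) (XT.lf (nat_lit 76) (nat_lit 1426206812) (nat_lit 0) (nat_lit 7154902514) (nat_lit 1140) (nat_lit 2183272000) (nat_lit 258) (nat_lit 5) (nat_lit 257) (nat_lit 5) (nat_lit 272) (nat_lit 5) (nat_lit 334) (nat_lit 329) (nat_lit 237)))) (XT.nd (nat_lit 156) (nat_lit 1064) (nat_lit 0) (XT.nd (nat_lit 78) (nat_lit 0) (nat_lit 76) (XT.lf (nat_lit 76) (nat_lit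 6832598740) (nat_lit 0) (nat_lit 2722485160) (nat_lit 1140) (nat_lit 1357189430) (nat_lit 258) (nat_lit 5) (nat_lit 257) (nat_lit 5) (nat_lit 272) (nat_lit 5) (nat_lit 335) (nat_lit 329) (nat_lit 236)) (XT.lf (nat_lit 76) (nat_lit 1330001088) (nat_lit 0) (nat_lit 9236029659) (nat_lit 1140) (nat_lit 498354406) (nat_lit 259) (nat_lit 5) (nat_lit 258) (nat_lit 5) (nat_lit 273) (nat_lit 5) (nat_lit 336) (nat_lit 329) (nat_lit 235))) (XT.nd (nat_lit 78) (nat_lit 0) (nat_lit 0) (XT.lf (nat_lit 0) (nat_lit 424808194) (nat_lit 1140) (nat_lit 4280437789) (nat_lit 1216) (nat_lit 6514334722) (nat_lit 243) (nat_lit 5) (nat_lit 258) (nat_lit 5) (nat_lit 259) (nat_lit 5) (nat_lit 337) (nat_lit 329) (nat_lit 234)) (XT.lf (nat_lit 76) (nat_lit 1343720577) (nat_lit 0) (nat_lit 13039183) (nat_lit 1216) (nat_lit 10022805343) (nat_lit 244) (nat_lit 5) (nat_lit 243) (nat_lit 5) (nat_lit 259) (nat_lit 5) (nat_lit 338) (nat_lit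 329) (nat_lit 233)))))) (XT.nd (nat_lit 546) (nat_lit 3344) (nat_lit 0) (XT.nd (nat_lit 234) (nat_lit 0) (nat_lit 76) (XT.nd (nat_lit 78) (nat_lit 0) (nat_lit 0) (XT.lf (nat_lit 0) (nat_lit 2385408146) (nat_lit 1140) (nat_lit 4380731055) (nat_lit 1216) (nat_lit 4776161584) (nat_lit 244) (nat_lit 5) (nat_lit 259) (nat_lit 5) (nat_lit 260) (nat_lit 5) (nat_lit 339) (nat_lit 329) (nat_lit 232)) (XT.nd (nat_lit 78) (nat_lit 0) (nat_lit 76) (XT.lf (nat_lit 76) (nat_lit 1457525866) (nat_lit 0) (nat_lit 1980902791) (nat_lit 1216) (nat_lit 8271697998) (nat_lit 245) (nat_lit 5) (nat_lit 244) (nat_lit 5) (nat_lit 260) (nat_lit 5) (nat_lit 340) (nat_lit 329) (nat_lit 231)) (XT.lf (nat_lit 0) (nat_lit 4575936917) (nat_lit 1140) (nat_lit 4365051941) (nat_lit 1216) (nat_lit 2940424633) (nat_lit 245) (nat_lit 5) (nat_lit 260) (nat_lit 5) (nat_lit 261) (nat_lit 5) (nat_lit 341) (nat_lit 329) (nat_lit 230)))) (XT.nd (nat_lit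 156) (nat_lit 0) (nat_lit 76) (XT.nd (nat_lit 78) (nat_lit 0) (nat_lit 76) (XT.lf (nat_lit 76) (nat_lit 1697738483) (nat_lit 0) (nat_lit 4066235823) (nat_lit 1216) (nat_lit 6293385232) (nat_lit 246) (nat_lit 5) (nat_lit 245) (nat_lit 5) (nat_lit 261) (nat_lit 5) (nat_lit 342) (nat_lit 329) (nat_lit 229)) (XT.lf (nat_lit 0) (nat_lit 7022285471) (nat_lit 1140) (nat_lit 4230365947) (nat_lit 1216) (nat_lit 984905919) (nat_lit 246) (nat_lit 5) (nat_lit 261) (nat_lit 5) (nat_lit 262) (nat_lit 5) (nat_lit 343) (nat_lit 329) (nat_lit 228))) (XT.nd (nat_lit 78) (nat_lit 0) (nat_lit 0) (XT.lf (nat_lit 76) (nat_lit 2067925668) (nat_lit 0) (nat_lit 6292053407) (nat_lit 1216) (nat_lit 4061944997) (nat_lit 247) (nat_lit 5) (nat_lit 246) (nat_lit 5) (nat_lit 262) (nat_lit 5) (nat_lit 344) (nat_lit 329) (nat_lit 227)) (XT.lf (nat_lit 76) (nat_lit 8627096736) (nat_lit 0) (nat_lit 1135317156) (nat_lit 1216) (nat_lit 2848681245)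 (nat_lit 247) (nat_lit 5) (nat_lit 246) (nat_lit 5) (nat_lit 262) (nat_lit 5) (nat_lit 345) (nat_lit 329) (nat_lit 226))))) (XT.nd (nat_lit 234) (nat_lit 1140) (nat_lit 0) (XT.nd (nat_lit 78) (nat_lit 1292) (nat_lit 0) (XT.lf (nat_lit 0) (nat_lit 2572224890) (nat_lit 1140) (nat_lit 8682016503) (nat_lit 1216) (nat_lit 1550291656) (nat_lit 232) (nat_lit 5) (nat_lit 247) (nat_lit 5) (nat_lit 248) (nat_lit 5) (nat_lit 346) (nat_lit 329) (nat_lit 225)) (XT.nd (nat_lit 78) (nat_lit 1292) (nat_lit 0) (XT.lf (nat_lit 0) (nat_lit 9380558155) (nat_lit 1140) (nat_lit 3444446182) (nat_lit 1216) (nat_lit 177755317) (nat_lit 232) (nat_lit 5) (nat_lit 247) (nat_lit 5) (nat_lit 248) (nat_lit 5) (nat_lit 347) (nat_lit 329) (nat_lit 224)) (XT.lf (nat_lit 0) (nat_lit 1245152316) (nat_lit 1292) (nat_lit 10002840619) (nat_lit 76) (nat_lit 1957594648) (nat_lit 215) (nat_lit 5) (nat_lit 232) (nat_lit 5) (nat_lit 216) (nat_lit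 5) (nat_lit 348) (nat_lit 329) (nat_lit 223)))) (XT.nd (nat_lit 156) (nat_lit 532) (nat_lit 0) (XT.nd (nat_lit 78) (nat_lit 608) (nat_lit 0) (XT.lf (nat_lit 0) (nat_lit 2761731314) (nat_lit 1292) (nat_lit 3158008609) (nat_lit 76) (nat_lit 7493080966) (nat_lit 215) (nat_lit 5) (nat_lit 232) (nat_lit 5) (nat_lit 216) (nat_lit 5) (nat_lit 349) (nat_lit 329) (nat_lit 222)) (XT.lf (nat_lit 0) (nat_lit 3954702437) (nat_lit 608) (nat_lit 391114565) (nat_lit 684) (nat_lit 9279803664) (nat_lit 207) (nat_lit 5) (nat_lit 215) (nat_lit 5) (nat_lit 216) (nat_lit 5) (nat_lit 350) (nat_lit 329) (nat_lit 221))) (XT.nd (nat_lit 78) (nat_lit 532) (nat_lit 0) (XT.lf (nat_lit 0) (nat_lit 6044942500) (nat_lit 684) (nat_lit 2564595970) (nat_lit 76) (nat_lit 5233249914) (nat_lit 207) (nat_lit 5) (nat_lit 216) (nat_lit 5) (nat_lit 208) (nat_lit 5) (nat_lit 351) (nat_lit 329) (nat_lit 220)) (XT.lf (nat_lit 0) (nat_lit 4830761371)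 (nat_lit 532) (nat_lit 2999377952) (nat_lit 608) (nat_lit 6235288077) (nat_lit 200) (nat_lit 5) (nat_lit 207) (nat_lit 5) (nat_lit 208) (nat_lit 5) (nat_lit 352) (nat_lit 329) (nat_lit 219))))))) (XT.nd (nat_lit 1014) (nat_lit 2736) (nat_lit 0) (XT.nd (nat_lit 468) (nat_lit 1900) (nat_lit 0) (XT.nd (nat_lit 234) (nat_lit 1140) (nat_lit 0) (XT.nd (nat_lit 78) (nat_lit 608) (nat_lit 0) (XT.lf (nat_lit 0) (nat_lit 9706858435) (nat_lit 608) (nat_lit 1835254257) (nat_lit 76) (nat_lit 2751502824) (nat_lit 200) (nat_lit 5) (nat_lit 208) (nat_lit 5) (nat_lit 201) (nat_lit 5) (nat_lit 353) (nat_lit 329) (nat_lit 218)) (XT.nd (nat_lit 78) (nat_lit 0) (nat_lit 0) (XT.lf (nat_lit 0) (nat_lit 5856287274) (nat_lit 608) (nat_lit 5855115199) (nat_lit 684) (nat_lit 2815109766) (nat_lit 192) (nat_lit 5) (nat_lit 200) (nat_lit 5) (nat_lit 201) (nat_lit 5) (nat_lit 354) (nat_lit 329) (nat_lit 217)) (XT.lf (nat_lit 0) (nat_lit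 13780638048) (nat_lit 684) (nat_lit 964575795) (nat_lit 76) (nat_lit 21053775) (nat_lit 192) (nat_lit 5) (nat_lit 201) (nat_lit 5) (nat_lit 193) (nat_lit 5) (nat_lit 355) (nat_lit 329) (nat_lit 216)))) (XT.nd (nat_lit 78) (nat_lit 532) (nat_lit 0) (XT.lf (nat_lit 0) (nat_lit 994143564) (nat_lit 608) (nat_lit 7982316025) (nat_lit 76) (nat_lit 6033116438) (nat_lit 184) (nat_lit 5) (nat_lit 192) (nat_lit 5) (nat_lit 185) (nat_lit 5) (nat_lit 356) (nat_lit 329) (nat_lit 215)) (XT.nd (nat_lit 78) (nat_lit 532) (nat_lit 0) (XT.lf (nat_lit 0) (nat_lit 3009688465) (nat_lit 608) (nat_lit 5557619) (nat_lit 76) (nat_lit 12244766879) (nat_lit 184) (nat_lit 5) (nat_lit 192) (nat_lit 5) (nat_lit 185) (nat_lit 5) (nat_lit 357) (nat_lit 329) (nat_lit 214)) (XT.lf (nat_lit 0) (nat_lit 5183632758) (nat_lit 608) (nat_lit 7187167617) (nat_lit 76) (nat_lit 3144232114) (nat_lit 177) (nat_lit 5) (nat_lit 185) (nat_lit 5) (nat_lit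 178) (nat_lit 5) (nat_lit 358) (nat_lit 329) (nat_lit 213))))) (XT.nd (nat_lit 234) (nat_lit 988) (nat_lit 0) (XT.nd (nat_lit 78) (nat_lit 456) (nat_lit 0) (XT.lf (nat_lit 0) (nat_lit 1111267761) (nat_lit 456) (nat_lit 6339113998) (nat_lit 532) (nat_lit 8326500504) (nat_lit 171) (nat_lit 5) (nat_lit 177) (nat_lit 5) (nat_lit 178) (nat_lit 5) (nat_lit 359) (nat_lit 329) (nat_lit 212)) (XT.nd (nat_lit 78) (nat_lit 456) (nat_lit 0) (XT.lf (nat_lit 0) (nat_lit 9791860306) (nat_lit 456) (nat_lit 53085864) (nat_lit 532) (nat_lit 6199854018) (nat_lit 171) (nat_lit 5) (nat_lit 177) (nat_lit 5) (nat_lit 178) (nat_lit 5) (nat_lit 360) (nat_lit 329) (nat_lit 211)) (XT.lf (nat_lit 0) (nat_lit 2382804232) (nat_lit 456) (nat_lit 10000771532) (nat_lit 532) (nat_lit 3935019877) (nat_lit 165) (nat_lit 5) (nat_lit 171) (nat_lit 5) (nat_lit 172) (nat_lit 5) (nat_lit 361) (nat_lit 329) (nat_lit 210)))) (XT.nd (nat_lit 156)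 (nat_lit 456) (nat_lit 0) (XT.nd (nat_lit 78) (nat_lit 532) (nat_lit 0) (XT.lf (nat_lit 0) (nat_lit 11391321560) (nat_lit 456) (nat_lit 3658528510) (nat_lit 532) (nat_lit 1549216952) (nat_lit 165) (nat_lit 5) (nat_lit 171) (nat_lit 5) (nat_lit 172) (nat_lit 5) (nat_lit 362) (nat_lit 329) (nat_lit 209)) (XT.lf (nat_lit 0) (nat_lit 943412176) (nat_lit 532) (nat_lit 13080553711) (nat_lit 76) (nat_lit 2862141816) (nat_lit 158) (nat_lit 5) (nat_lit 165) (nat_lit 5) (nat_lit 159) (nat_lit 5) (nat_lit 363) (nat_lit 329) (nat_lit 208))) (XT.nd (nat_lit 78) (nat_lit 456) (nat_lit 0) (XT.lf (nat_lit 0) (nat_lit 3557266790) (nat_lit 532) (nat_lit 4050242899) (nat_lit 76) (nat_lit 9571468297) (nat_lit 158) (nat_lit 5) (nat_lit 165) (nat_lit 5) (nat_lit 159) (nat_lit 5) (nat_lit 364) (nat_lit 329) (nat_lit 207)) (XT.lf (nat_lit 0) (nat_lit 5341634548) (nat_lit 456) (nat_lit 947844302) (nat_lit 532) (nat_lit 11189963172)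 (nat_lit 152) (nat_lit 5) (nat_lit 158) (nat_lit 5) (nat_lit 159) (nat_lit 5) (nat_lit 365) (nat_lit 329) (nat_lit 206)))))) (XT.nd (nat_lit 546) (nat_lit 1064) (nat_lit 0) (XT.nd (nat_lit 234) (nat_lit 1292) (nat_lit 0) (XT.nd (nat_lit 78) (nat_lit 380) (nat_lit 0) (XT.lf (nat_lit 0) (nat_lit 9190563912) (nat_lit 532) (nat_lit 2760393989) (nat_lit 76) (nat_lit 5835360608) (nat_lit 152) (nat_lit 5) (nat_lit 159) (nat_lit 5) (nat_lit 153) (nat_lit 5) (nat_lit 366) (nat_lit 329) (nat_lit 205)) (XT.nd (nat_lit 78) (nat_lit 0) (nat_lit 0) (XT.lf (nat_lit 0) (nat_lit 7012431652) (nat_lit 380) (nat_lit 5232145319) (nat_lit 456) (nat_lit 5855853016) (nat_lit 147) (nat_lit 5) (nat_lit 152) (nat_lit 5) (nat_lit 153) (nat_lit 5) (nat_lit 367) (nat_lit 329) (nat_lit 204)) (XT.lf (nat_lit 0) (nat_lit 15423858267) (nat_lit 456) (nat_lit 1318140199) (nat_lit 76) (nat_lit 1680962306) (nat_lit 147) (nat_lit 5) (nat_lit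 153) (nat_lit 5) (nat_lit 148) (nat_lit 5) (nat_lit 368) (nat_lit 329) (nat_lit 203)))) (XT.nd (nat_lit 156) (nat_lit 380) (nat_lit 0) (XT.nd (nat_lit 78) (nat_lit 380) (nat_lit 0) (XT.lf (nat_lit 0) (nat_lit 72184821) (nat_lit 532) (nat_lit 9899469821) (nat_lit 76) (nat_lit 8779702399) (nat_lit 140) (nat_lit 5) (nat_lit 147) (nat_lit 5) (nat_lit 141) (nat_lit 5) (nat_lit 369) (nat_lit 329) (nat_lit 202)) (XT.lf (nat_lit 0) (nat_lit 226195614) (nat_lit 380) (nat_lit 2954406441) (nat_lit 456) (nat_lit 15907959152) (nat_lit 135) (nat_lit 5) (nat_lit 140) (nat_lit 5) (nat_lit 141) (nat_lit 5) (nat_lit 370) (nat_lit 329) (nat_lit 201))) (XT.nd (nat_lit 78) (nat_lit 380) (nat_lit 0) (XT.lf (nat_lit 0) (nat_lit 6514105876) (nat_lit 456) (nat_lit 8629764775) (nat_lit 76) (nat_lit 4288060621) (nat_lit 135) (nat_lit 5) (nat_lit 141) (nat_lit 5) (nat_lit 136) (nat_lit 5) (nat_lit 371) (nat_lit 329) (nat_lit 200))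 (XT.lf (nat_lit 0) (nat_lit 1904745750) (nat_lit 380) (nat_lit 8080528188) (nat_lit 456) (nat_lit 9799203385) (nat_lit 130) (nat_lit 5) (nat_lit 135) (nat_lit 5) (nat_lit 136) (nat_lit 5) (nat_lit 372) (nat_lit 329) (nat_lit 199))))) (XT.nd (nat_lit 234) (nat_lit 684) (nat_lit 0) (XT.nd (nat_lit 78) (nat_lit 380) (nat_lit 0) (XT.lf (nat_lit 0) (nat_lit 12919335397) (nat_lit 380) (nat_lit 718648155) (nat_lit 456) (nat_lit 6507298530) (nat_lit 130) (nat_lit 5) (nat_lit 135) (nat_lit 5) (nat_lit 136) (nat_lit 5) (nat_lit 373) (nat_lit 329) (nat_lit 198)) (XT.nd (nat_lit 78) (nat_lit 76) (nat_lit 0) (XT.lf (nat_lit 0) (nat_lit 3741742525) (nat_lit 304) (nat_lit 13750998951) (nat_lit 380) (nat_lit 3021399885) (nat_lit 126) (nat_lit 5) (nat_lit 130) (nat_lit 5) (nat_lit 131) (nat_lit 5) (nat_lit 374) (nat_lit 329) (nat_lit 197)) (XT.lf (nat_lit 0) (nat_lit 629352344) (nat_lit 380) (nat_lit 5731407293) (nat_lit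 76) (nat_lit 14531005370) (nat_lit 125) (nat_lit 5) (nat_lit 130) (nat_lit 5) (nat_lit 126) (nat_lit 5) (nat_lit 375) (nat_lit 329) (nat_lit 196)))) (XT.nd (nat_lit 156) (nat_lit 304) (nat_lit 0) (XT.nd (nat_lit 78) (nat_lit 0) (nat_lit 0) (XT.lf (nat_lit 0) (nat_lit 4387472256) (nat_lit 456) (nat_lit 15581403469) (nat_lit 76) (nat_lit 1309191042) (nat_lit 120) (nat_lit 5) (nat_lit 126) (nat_lit 5) (nat_lit 121) (nat_lit 5) (nat_lit 376) (nat_lit 329) (nat_lit 195)) (XT.lf (nat_lit 0) (nat_lit 8370729039) (nat_lit 456) (nat_lit 4165264078) (nat_lit 76) (nat_lit 9136596564) (nat_lit 120) (nat_lit 5) (nat_lit 126) (nat_lit 5) (nat_lit 121) (nat_lit 5) (nat_lit 377) (nat_lit 329) (nat_lit 194))) (XT.nd (nat_lit 78) (nat_lit 0) (nat_lit 0) (XT.lf (nat_lit 0) (nat_lit 7732049167) (nat_lit 304) (nat_lit 4806989109) (nat_lit 380) (nat_lit 9537947151) (nat_lit 116) (nat_lit 5) (nat_lit 120) (nat_lit 5) (nat_lit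 121) (nat_lit 5) (nat_lit 378) (nat_lit 329) (nat_lit 193)) (XT.lf (nat_lit 0) (nat_lit 16896527222) (nat_lit 380) (nat_lit 2463619573) (nat_lit 76) (nat_lit 3131446013) (nat_lit 116) (nat_lit 5) (nat_lit 121) (nat_lit 5) (nat_lit 117) (nat_lit 5) (nat_lit 379) (nat_lit 329) (nat_lit 192))))))))
noncomputable def xc176 : XT := (XT.nd (nat_lit 2028) (nat_lit 2356) (nat_lit 0) (XT.nd (nat_lit 1014) (nat_lit 1596) (nat_lit 0) (XT.nd (nat_lit 468) (nat_lit 988) (nat_lit 0) (XT.nd (nat_lit 234) (nat_lit 532) (nat_lit 0) (XT.nd (nat_lit 78) (nat_lit 380) (nat_lit 0) (XT.lf (nat_lit 0) (nat_lit 9907940044) (nat_lit 304) (nat_lit 11611224190) (nat_lit 380) (nat_lit 1395445044) (nat_lit 112) (nat_lit 5) (nat_lit 116) (nat_lit 5) (nat_lit 117) (nat_lit 5) (nat_lit 380) (nat_lit 329) (nat_lit 191)) (XT.nd (nat_lit 78) (nat_lit 304) (nat_lit 0) (XT.lf (nat_lit 0) (nat_lit 2889744315) (nat_lit 380) (nat_lit 688829512)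 (nat_lit 76) (nat_lit 19770398037) (nat_lit 111) (nat_lit 5) (nat_lit 116) (nat_lit 5) (nat_lit 112) (nat_lit 5) (nat_lit 381) (nat_lit 329) (nat_lit 190)) (XT.lf (nat_lit 0) (nat_lit 7431100227) (nat_lit 380) (nat_lit 11627701830) (nat_lit 76) (nat_lit 4732482308) (nat_lit 107) (nat_lit 5) (nat_lit 112) (nat_lit 5) (nat_lit 108) (nat_lit 5) (nat_lit 382) (nat_lit 329) (nat_lit 189)))) (XT.nd (nat_lit 78) (nat_lit 228) (nat_lit 0) (XT.lf (nat_lit 0) (nat_lit 1144114676) (nat_lit 304) (nat_lit 11010005809) (nat_lit 380) (nat_lit 12091386217) (nat_lit 103) (nat_lit 5) (nat_lit 107) (nat_lit 5) (nat_lit 108) (nat_lit 5) (nat_lit 383) (nat_lit 329) (nat_lit 188)) (XT.nd (nat_lit 78) (nat_lit 228) (nat_lit 0) (XT.lf (nat_lit 0) (nat_lit 14525816735) (nat_lit 304) (nat_lit 2602523366) (nat_lit 380) (nat_lit 7581733425) (nat_lit 103) (nat_lit 5) (nat_lit 107) (nat_lit 5) (nat_lit 108) (nat_lit 5) (nat_lit 384)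 (nat_lit 329) (nat_lit 187)) (XT.lf (nat_lit 0) (nat_lit 3111396231) (nat_lit 228) (nat_lit 19220811481) (nat_lit 304) (nat_lit 2853959992) (nat_lit 100) (nat_lit 5) (nat_lit 103) (nat_lit 5) (nat_lit 104) (nat_lit 5) (nat_lit 385) (nat_lit 329) (nat_lit 186))))) (XT.nd (nat_lit 234) (nat_lit 608) (nat_lit 0) (XT.nd (nat_lit 78) (nat_lit 304) (nat_lit 0) (XT.lf (nat_lit 0) (nat_lit 2098265585) (nat_lit 304) (nat_lit 8716463194) (nat_lit 76) (nat_lit 14857578929) (nat_lit 99) (nat_lit 5) (nat_lit 103) (nat_lit 5) (nat_lit 100) (nat_lit 5) (nat_lit 386) (nat_lit 329) (nat_lit 185)) (XT.nd (nat_lit 78) (nat_lit 0) (nat_lit 0) (XT.lf (nat_lit 0) (nat_lit 5102717039) (nat_lit 304) (nat_lit 2080577769) (nat_lit 380) (nat_lit 18987644172) (nat_lit 95) (nat_lit 5) (nat_lit 99) (nat_lit 5) (nat_lit 100) (nat_lit 5) (nat_lit 387) (nat_lit 329) (nat_lit 184)) (XT.lf (nat_lit 0) (nat_lit 12568865279) (nat_lit 380)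 (nat_lit 7245355264) (nat_lit 76) (nat_lit 6865871591) (nat_lit 95) (nat_lit 5) (nat_lit 100) (nat_lit 5) (nat_lit 96) (nat_lit 5) (nat_lit 388) (nat_lit 329) (nat_lit 183)))) (XT.nd (nat_lit 156) (nat_lit 380) (nat_lit 0) (XT.nd (nat_lit 78) (nat_lit 0) (nat_lit 0) (XT.lf (nat_lit 0) (nat_lit 7099186738) (nat_lit 228) (nat_lit 11098495253) (nat_lit 304) (nat_lit 9004390096) (nat_lit 92) (nat_lit 5) (nat_lit 95) (nat_lit 5) (nat_lit 96) (nat_lit 5) (nat_lit 389) (nat_lit 329) (nat_lit 182)) (XT.lf (nat_lit 0) (nat_lit 22011753353) (nat_lit 228) (nat_lit 2049715822) (nat_lit 304) (nat_lit 3676261588) (nat_lit 92) (nat_lit 5) (nat_lit 95) (nat_lit 5) (nat_lit 96) (nat_lit 5) (nat_lit 390) (nat_lit 329) (nat_lit 181))) (XT.nd (nat_lit 78) (nat_lit 0) (nat_lit 0) (XT.lf (nat_lit 0) (nat_lit 1929105651) (nat_lit 380) (nat_lit 19123028726) (nat_lit 76) (nat_lit 7232222287) (nat_lit 87) (nat_lit 5) (nat_lit 92)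 (nat_lit 5) (nat_lit 88) (nat_lit 5) (nat_lit 391) (nat_lit 329) (nat_lit 180)) (XT.lf (nat_lit 0) (nat_lit 7700574267) (nat_lit 380) (nat_lit 4301008154) (nat_lit 76) (nat_lit 16842554366) (nat_lit 87) (nat_lit 5) (nat_lit 92) (nat_lit 5) (nat_lit 88) (nat_lit 5) (nat_lit 392) (nat_lit 329) (nat_lit 179)))))) (XT.nd (nat_lit 468) (nat_lit 836) (nat_lit 0) (XT.nd (nat_lit 234) (nat_lit 304) (nat_lit 0) (XT.nd (nat_lit 78) (nat_lit 228) (nat_lit 0) (XT.lf (nat_lit 0) (nat_lit 11173291093) (nat_lit 228) (nat_lit 2572641842) (nat_lit 304) (nat_lit 15671757224) (nat_lit 84) (nat_lit 5) (nat_lit 87) (nat_lit 5) (nat_lit 88) (nat_lit 5) (nat_lit 393) (nat_lit 329) (nat_lit 178)) (XT.nd (nat_lit 78) (nat_lit 228) (nat_lit 0) (XT.lf (nat_lit 0) (nat_lit 20078540456) (nat_lit 304) (nat_lit 2886691521) (nat_lit 76) (nat_lit 7040043671) (nat_lit 84) (nat_lit 5) (nat_lit 88) (nat_lit 5) (nat_lit 85) (nat_lit 5) (nat_lit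 394) (nat_lit 329) (nat_lit 177)) (XT.lf (nat_lit 0) (nat_lit 13152764372) (nat_lit 228) (nat_lit 13593858458) (nat_lit 304) (nat_lit 3859503070) (nat_lit 81) (nat_lit 5) (nat_lit 84) (nat_lit 5) (nat_lit 85) (nat_lit 5) (nat_lit 395) (nat_lit 329) (nat_lit 176)))) (XT.nd (nat_lit 78) (nat_lit 228) (nat_lit 0) (XT.lf (nat_lit 0) (nat_lit 2366169797) (nat_lit 304) (nat_lit 1525007470) (nat_lit 76) (nat_lit 27332445527) (nat_lit 80) (nat_lit 5) (nat_lit 84) (nat_lit 5) (nat_lit 81) (nat_lit 5) (nat_lit 396) (nat_lit 329) (nat_lit 175)) (XT.nd (nat_lit 78) (nat_lit 0) (nat_lit 0) (XT.lf (nat_lit 0) (nat_lit 8900711061) (nat_lit 304) (nat_lit 16786477175) (nat_lit 76) (nat_lit 6165321778) (nat_lit 77) (nat_lit 5) (nat_lit 81) (nat_lit 5) (nat_lit 78) (nat_lit 5) (nat_lit 397) (nat_lit 329) (nat_lit 174)) (XT.lf (nat_lit 0) (nat_lit 15679221534) (nat_lit 304) (nat_lit 362369156) (nat_lit 76) (nat_lit 16457237034)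 (nat_lit 77) (nat_lit 5) (nat_lit 81) (nat_lit 5) (nat_lit 78) (nat_lit 5) (nat_lit 398) (nat_lit 329) (nat_lit 173))))) (XT.nd (nat_lit 234) (nat_lit 380) (nat_lit 0) (XT.nd (nat_lit 78) (nat_lit 228) (nat_lit 0) (XT.lf (nat_lit 0) (nat_lit 16874072115) (nat_lit 228) (nat_lit 5943252515) (nat_lit 304) (nat_lit 10342525025) (nat_lit 74) (nat_lit 5) (nat_lit 77) (nat_lit 5) (nat_lit 78) (nat_lit 5) (nat_lit 399) (nat_lit 329) (nat_lit 172)) (XT.nd (nat_lit 78) (nat_lit 76) (nat_lit 0) (XT.lf (nat_lit 0) (nat_lit 756604805) (nat_lit 152) (nat_lit 29460867567) (nat_lit 228) (nat_lit 3621794581) (nat_lit 72) (nat_lit 5) (nat_lit 74) (nat_lit 5) (nat_lit 75) (nat_lit 5) (nat_lit 400) (nat_lit 329) (nat_lit 171)) (XT.lf (nat_lit 0) (nat_lit 3455179054) (nat_lit 228) (nat_lit 15991967274) (nat_lit 76) (nat_lit 15084399475) (nat_lit 71) (nat_lit 5) (nat_lit 74) (nat_lit 5) (nat_lit 72) (nat_lit 5) (nat_lit 401)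 (nat_lit 329) (nat_lit 170)))) (XT.nd (nat_lit 156) (nat_lit 152) (nat_lit 0) (XT.nd (nat_lit 78) (nat_lit 0) (nat_lit 0) (XT.lf (nat_lit 0) (nat_lit 1597305948) (nat_lit 228) (nat_lit 9083987868) (nat_lit 304) (nat_lit 24561936239) (nat_lit 68) (nat_lit 5) (nat_lit 71) (nat_lit 5) (nat_lit 72) (nat_lit 5) (nat_lit 402) (nat_lit 329) (nat_lit 169)) (XT.lf (nat_lit 0) (nat_lit 18296876433) (nat_lit 304) (nat_lit 15955721862) (nat_lit 76) (nat_lit 1718487565) (nat_lit 68) (nat_lit 5) (nat_lit 72) (nat_lit 5) (nat_lit 69) (nat_lit 5) (nat_lit 403) (nat_lit 329) (nat_lit 168))) (XT.nd (nat_lit 78) (nat_lit 0) (nat_lit 0) (XT.lf (nat_lit 0) (nat_lit 2209135617) (nat_lit 152) (nat_lit 24037445909) (nat_lit 228) (nat_lit 10471027680) (nat_lit 66) (nat_lit 5) (nat_lit 68) (nat_lit 5) (nat_lit 69) (nat_lit 5) (nat_lit 404) (nat_lit 329) (nat_lit 167)) (XT.lf (nat_lit 0) (nat_lit 21236887305) (nat_lit 152) (nat_lit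 13353563996) (nat_lit 228) (nat_lit 2891408214) (nat_lit 66) (nat_lit 5) (nat_lit 68) (nat_lit 5) (nat_lit 69) (nat_lit 5) (nat_lit 405) (nat_lit 329) (nat_lit 166))))))) (XT.nd (nat_lit 1014) (nat_lit 1140) (nat_lit 0) (XT.nd (nat_lit 468) (nat_lit 532) (nat_lit 0) (XT.nd (nat_lit 234) (nat_lit 228) (nat_lit 0) (XT.nd (nat_lit 78) (nat_lit 152) (nat_lit 0) (XT.lf (nat_lit 0) (nat_lit 2560170578) (nat_lit 228) (nat_lit 2278775057) (nat_lit 304) (nat_lit 33428097528) (nat_lit 62) (nat_lit 5) (nat_lit 65) (nat_lit 5) (nat_lit 66) (nat_lit 5) (nat_lit 406) (nat_lit 329) (nat_lit 165)) (XT.nd (nat_lit 78) (nat_lit 152) (nat_lit 0) (XT.lf (nat_lit 0) (nat_lit 12991201085) (nat_lit 304) (nat_lit 16935392696) (nat_lit 76) (nat_lit 9140887887) (nat_lit 62) (nat_lit 5) (nat_lit 66) (nat_lit 5) (nat_lit 63) (nat_lit 5) (nat_lit 407) (nat_lit 329) (nat_lit 164)) (XT.lf (nat_lit 0) (nat_lit 2415051224) (nat_lit 152)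 (nat_lit 19013597122) (nat_lit 228) (nat_lit 18462067562) (nat_lit 60) (nat_lit 5) (nat_lit 62) (nat_lit 5) (nat_lit 63) (nat_lit 5) (nat_lit 408) (nat_lit 329) (nat_lit 163)))) (XT.nd (nat_lit 78) (nat_lit 228) (nat_lit 0) (XT.lf (nat_lit 0) (nat_lit 22684508557) (nat_lit 152) (nat_lit 7600638650) (nat_lit 228) (nat_lit 10448523394) (nat_lit 60) (nat_lit 5) (nat_lit 62) (nat_lit 5) (nat_lit 63) (nat_lit 5) (nat_lit 409) (nat_lit 329) (nat_lit 162)) (XT.nd (nat_lit 78) (nat_lit 76) (nat_lit 0) (XT.lf (nat_lit 0) (nat_lit 1949721484) (nat_lit 152) (nat_lit 37511327783) (nat_lit 228) (nat_lit 2139254652) (nat_lit 58) (nat_lit 5) (nat_lit 60) (nat_lit 5) (nat_lit 61) (nat_lit 5) (nat_lit 410) (nat_lit 329) (nat_lit 161)) (XT.lf (nat_lit 0) (nat_lit 6548390826) (nat_lit 228) (nat_lit 19716210279) (nat_lit 76) (nat_lit 16218854241) (nat_lit 57) (nat_lit 5) (nat_lit 60) (nat_lit 5) (nat_lit 58) (nat_lit 5) (nat_lit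 411) (nat_lit 329) (nat_lit 160))))) (XT.nd (nat_lit 234) (nat_lit 380) (nat_lit 0) (XT.nd (nat_lit 78) (nat_lit 0) (nat_lit 0) (XT.lf (nat_lit 0) (nat_lit 802379375) (nat_lit 152) (nat_lit 14654189370) (nat_lit 228) (nat_lit 27935811276) (nat_lit 55) (nat_lit 5) (nat_lit 57) (nat_lit 5) (nat_lit 58) (nat_lit 5) (nat_lit 412) (nat_lit 329) (nat_lit 159)) (XT.nd (nat_lit 78) (nat_lit 0) (nat_lit 0) (XT.lf (nat_lit 0) (nat_lit 22332480739) (nat_lit 152) (nat_lit 2493854618) (nat_lit 228) (nat_lit 19496407874) (nat_lit 55) (nat_lit 5) (nat_lit 57) (nat_lit 5) (nat_lit 58) (nat_lit 5) (nat_lit 413) (nat_lit 329) (nat_lit 158)) (XT.lf (nat_lit 0) (nat_lit 34568976290) (nat_lit 228) (nat_lit 877036153) (nat_lit 76) (nat_lit 9832252516) (nat_lit 55) (nat_lit 5) (nat_lit 58) (nat_lit 5) (nat_lit 56) (nat_lit 5) (nat_lit 414) (nat_lit 329) (nat_lit 157)))) (XT.nd (nat_lit 156) (nat_lit 152) (nat_lit 0) (XT.nd (nat_lit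 78) (nat_lit 76) (nat_lit 0) (XT.lf (nat_lit 0) (nat_lit 21251751760) (nat_lit 152) (nat_lit 23576610891) (nat_lit 228) (nat_lit 1427356733) (nat_lit 53) (nat_lit 5) (nat_lit 55) (nat_lit 5) (nat_lit 56) (nat_lit 5) (nat_lit 415) (nat_lit 329) (nat_lit 156)) (XT.lf (nat_lit 0) (nat_lit 7978773803) (nat_lit 228) (nat_lit 3285972868) (nat_lit 76) (nat_lit 35995272991) (nat_lit 52) (nat_lit 5) (nat_lit 55) (nat_lit 5) (nat_lit 53) (nat_lit 5) (nat_lit 416) (nat_lit 329) (nat_lit 155))) (XT.nd (nat_lit 78) (nat_lit 0) (nat_lit 0) (XT.lf (nat_lit 0) (nat_lit 17836487534) (nat_lit 228) (nat_lit 28862955337) (nat_lit 76) (nat_lit 1588640420) (nat_lit 50) (nat_lit 5) (nat_lit 53) (nat_lit 5) (nat_lit 51) (nat_lit 5) (nat_lit 417) (nat_lit 329) (nat_lit 154)) (XT.lf (nat_lit 0) (nat_lit 28130631133) (nat_lit 228) (nat_lit 6580584061) (nat_lit 76) (nat_lit 14631553599) (nat_lit 50) (nat_lit 5) (nat_lit 53) (nat_lit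 5) (nat_lit 51) (nat_lit 5) (nat_lit 418) (nat_lit 329) (nat_lit 153)))))) (XT.nd (nat_lit 546) (nat_lit 532) (nat_lit 0) (XT.nd (nat_lit 234) (nat_lit 228) (nat_lit 0) (XT.nd (nat_lit 78) (nat_lit 228) (nat_lit 0) (XT.lf (nat_lit 0) (nat_lit 16688482570) (nat_lit 152) (nat_lit 22201318794) (nat_lit 228) (nat_lit 11534608315) (nat_lit 48) (nat_lit 5) (nat_lit 50) (nat_lit 5) (nat_lit 51) (nat_lit 5) (nat_lit 419) (nat_lit 329) (nat_lit 152)) (XT.nd (nat_lit 78) (nat_lit 228) (nat_lit 0) (XT.lf (nat_lit 0) (nat_lit 40783161362) (nat_lit 152) (nat_lit 9250870896) (nat_lit 228) (nat_lit 1502599832) (nat_lit 48) (nat_lit 5) (nat_lit 50) (nat_lit 5) (nat_lit 51) (nat_lit 5) (nat_lit 420) (nat_lit 329) (nat_lit 151)) (XT.lf (nat_lit 0) (nat_lit 8821072702) (nat_lit 228) (nat_lit 39635755337) (nat_lit 76) (nat_lit 4217956977) (nat_lit 45) (nat_lit 5) (nat_lit 48) (nat_lit 5) (nat_lit 46) (nat_lit 5) (nat_lit 421)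 (nat_lit 329) (nat_lit 150)))) (XT.nd (nat_lit 156) (nat_lit 76) (nat_lit 0) (XT.nd (nat_lit 78) (nat_lit 152) (nat_lit 0) (XT.lf (nat_lit 0) (nat_lit 19621446809) (nat_lit 228) (nat_lit 16192873589) (nat_lit 76) (nat_lit 18026400841) (nat_lit 45) (nat_lit 5) (nat_lit 48) (nat_lit 5) (nat_lit 46) (nat_lit 5) (nat_lit 422) (nat_lit 329) (nat_lit 149)) (XT.lf (nat_lit 0) (nat_lit 8104407501) (nat_lit 152) (nat_lit 22715382827) (nat_lit 228) (nat_lit 24219627242) (nat_lit 43) (nat_lit 5) (nat_lit 45) (nat_lit 5) (nat_lit 46) (nat_lit 5) (nat_lit 423) (nat_lit 329) (nat_lit 148))) (XT.nd (nat_lit 78) (nat_lit 76) (nat_lit 0) (XT.lf (nat_lit 0) (nat_lit 33455580722) (nat_lit 152) (nat_lit 9058121367) (nat_lit 228) (nat_lit 13755584908) (nat_lit 43) (nat_lit 5) (nat_lit 45) (nat_lit 5) (nat_lit 46) (nat_lit 5) (nat_lit 424) (nat_lit 329) (nat_lit 147)) (XT.lf (nat_lit 0) (nat_lit 2015572355) (nat_lit 76) (nat_lit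 52606568563) (nat_lit 152) (nat_lit 2912001023) (nat_lit 42) (nat_lit 5) (nat_lit 43) (nat_lit 5) (nat_lit 44) (nat_lit 4) (nat_lit 425) (nat_lit 329) (nat_lit 146))))) (XT.nd (nat_lit 234) (nat_lit 304) (nat_lit 0) (XT.nd (nat_lit 78) (nat_lit 152) (nat_lit 0) (XT.lf (nat_lit 0) (nat_lit 8414302204) (nat_lit 152) (nat_lit 30950835377) (nat_lit 76) (nat_lit 19459868519) (nat_lit 41) (nat_lit 5) (nat_lit 43) (nat_lit 5) (nat_lit 42) (nat_lit 5) (nat_lit 426) (nat_lit 329) (nat_lit 145)) (XT.nd (nat_lit 78) (nat_lit 152) (nat_lit 0) (XT.lf (nat_lit 0) (nat_lit 20018171531) (nat_lit 152) (nat_lit 5681557568) (nat_lit 76) (nat_lit 34454113637) (nat_lit 41) (nat_lit 5) (nat_lit 43) (nat_lit 5) (nat_lit 42) (nat_lit 5) (nat_lit 427) (nat_lit 329) (nat_lit 144)) (XT.lf (nat_lit 0) (nat_lit 20744128389) (nat_lit 152) (nat_lit 11421846750) (nat_lit 228) (nat_lit 29350695427) (nat_lit 39) (nat_lit 5) (nat_lit 41)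 (nat_lit 5) (nat_lit 42) (nat_lit 5) (nat_lit 428) (nat_lit 329) (nat_lit 143)))) (XT.nd (nat_lit 156) (nat_lit 228) (nat_lit 0) (XT.nd (nat_lit 78) (nat_lit 76) (nat_lit 0) (XT.lf (nat_lit 0) (nat_lit 44764153351) (nat_lit 228) (nat_lit 14878229193) (nat_lit 76) (nat_lit 3275423098) (nat_lit 39) (nat_lit 5) (nat_lit 42) (nat_lit 5) (nat_lit 40) (nat_lit 4) (nat_lit 429) (nat_lit 329) (nat_lit 142)) (XT.lf (nat_lit 0) (nat_lit 11905861554) (nat_lit 76) (nat_lit 46058481859) (nat_lit 152) (nat_lit 6389909967) (nat_lit 38) (nat_lit 5) (nat_lit 39) (nat_lit 5) (nat_lit 40) (nat_lit 4) (nat_lit 430) (nat_lit 329) (nat_lit 141))) (XT.nd (nat_lit 78) (nat_lit 152) (nat_lit 0) (XT.lf (nat_lit 0) (nat_lit 5763262798) (nat_lit 152) (nat_lit 26093657749) (nat_lit 76) (nat_lit 33970775077) (nat_lit 37) (nat_lit 5) (nat_lit 39) (nat_lit 5) (nat_lit 38) (nat_lit 5) (nat_lit 431) (nat_lit 329) (nat_lit 140)) (XT.lf (nat_lit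 0) (nat_lit 1001887734) (nat_lit 152) (nat_lit 17156982820) (nat_lit 228) (nat_lit 49184385024) (nat_lit 35) (nat_lit 5) (nat_lit 37) (nat_lit 5) (nat_lit 38) (nat_lit 5) (nat_lit 432) (nat_lit 329) (nat_lit 139))))))))
noncomputable def xc177 : XT := (XT.nd (nat_lit 40482) (nat_lit 0) (nat_lit 6764) (XT.nd (nat_lit 39468) (nat_lit 0) (nat_lit 13984) (XT.nd (nat_lit 38922) (nat_lit 0) (nat_lit 16112) (XT.nd (nat_lit 234) (nat_lit 228) (nat_lit 0) (XT.nd (nat_lit 78) (nat_lit 76) (nat_lit 0) (XT.lf (nat_lit 0) (nat_lit 29439139313) (nat_lit 152) (nat_lit 1747381586) (nat_lit 228) (nat_lit 37709956737) (nat_lit 35) (nat_lit 5) (nat_lit 37) (nat_lit 5) (nat_lit 38) (nat_lit 5) (nat_lit 433) (nat_lit 329) (nat_lit 138)) (XT.nd (nat_lit 78) (nat_lit 76) (nat_lit 0) (XT.lf (nat_lit 0) (nat_lit 44737524937) (nat_lit 228) (nat_lit 11908511364) (nat_lit 76) (nat_lit 13846284854) (nat_lit 35) (nat_lit 5) (nat_lit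 38) (nat_lit 5) (nat_lit 36) (nat_lit 4) (nat_lit 434) (nat_lit 329) (nat_lit 137)) (XT.lf (nat_lit 0) (nat_lit 16770964791) (nat_lit 76) (nat_lit 42099453294) (nat_lit 152) (nat_lit 13260361632) (nat_lit 34) (nat_lit 5) (nat_lit 35) (nat_lit 5) (nat_lit 36) (nat_lit 4) (nat_lit 435) (nat_lit 329) (nat_lit 136)))) (XT.nd (nat_lit 78) (nat_lit 228) (nat_lit 0) (XT.lf (nat_lit 0) (nat_lit 46549217938) (nat_lit 76) (nat_lit 26995215009) (nat_lit 152) (nat_lit 270445532) (nat_lit 34) (nat_lit 5) (nat_lit 35) (nat_lit 5) (nat_lit 36) (nat_lit 4) (nat_lit 436) (nat_lit 329) (nat_lit 135)) (XT.nd (nat_lit 38532) (nat_lit 0) (nat_lit 17024) (XT.lf (nat_lit 0) (nat_lit 1570333180) (nat_lit 152) (nat_lit 11295065462) (nat_lit 228) (nat_lit 62679960498) (nat_lit 31) (nat_lit 5) (nat_lit 33) (nat_lit 5) (nat_lit 34) (nat_lit 5) (nat_lit 437) (nat_lit 329) (nat_lit 134)) (XT.lf (nat_lit 0) (nat_lit 2929767565) (nat_lit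 1140) (nat_lit 1120254579) (nat_lit 1140) (nat_lit 1120254579) (nat_lit 255) (nat_lit 3) (nat_lit 270) (nat_lit 3) (nat_lit 270) (nat_lit 5) (nat_lit 330) (nat_lit 330) (nat_lit 240))))) (XT.nd (nat_lit 234) (nat_lit 912) (nat_lit 0) (XT.nd (nat_lit 78) (nat_lit 0) (nat_lit 76) (XT.lf (nat_lit 76) (nat_lit 2721627770) (nat_lit 0) (nat_lit 3886320426) (nat_lit 1140) (nat_lit 3867459856) (nat_lit 256) (nat_lit 5) (nat_lit 255) (nat_lit 3) (nat_lit 270) (nat_lit 5) (nat_lit 331) (nat_lit 330) (nat_lit 239)) (XT.nd (nat_lit 78) (nat_lit 0) (nat_lit 0) (XT.lf (nat_lit 0) (nat_lit 7381256556) (nat_lit 1064) (nat_lit 2753548965) (nat_lit 1140) (nat_lit 479446585) (nat_lit 256) (nat_lit 5) (nat_lit 270) (nat_lit 5) (nat_lit 271) (nat_lit 5) (nat_lit 332) (nat_lit 330) (nat_lit 238)) (XT.lf (nat_lit 76) (nat_lit 2391389963) (nat_lit 0) (nat_lit 5823793324) (nat_lit 1140) (nat_lit 2540972219) (nat_lit 257) (nat_lit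 5) (nat_lit 256) (nat_lit 5) (nat_lit 271) (nat_lit 5) (nat_lit 333) (nat_lit 330) (nat_lit 237)))) (XT.nd (nat_lit 156) (nat_lit 988) (nat_lit 0) (XT.nd (nat_lit 78) (nat_lit 0) (nat_lit 76) (XT.lf (nat_lit 76) (nat_lit 7733768787) (nat_lit 0) (nat_lit 1344689710) (nat_lit 1140) (nat_lit 1823743708) (nat_lit 257) (nat_lit 5) (nat_lit 256) (nat_lit 5) (nat_lit 271) (nat_lit 5) (nat_lit 334) (nat_lit 330) (nat_lit 236)) (XT.lf (nat_lit 76) (nat_lit 2181171364) (nat_lit 0) (nat_lit 7816152354) (nat_lit 1140) (nat_lit 1054431481) (nat_lit 258) (nat_lit 5) (nat_lit 257) (nat_lit 5) (nat_lit 272) (nat_lit 5) (nat_lit 335) (nat_lit 330) (nat_lit 235))) (XT.nd (nat_lit 78) (nat_lit 1064) (nat_lit 0) (XT.lf (nat_lit 76) (nat_lit 7729011992) (nat_lit 0) (nat_lit 3237754633) (nat_lit 1140) (nat_lit 238352998) (nat_lit 258) (nat_lit 5) (nat_lit 257) (nat_lit 5) (nat_lit 272) (nat_lit 5) (nat_lit 336) (nat_lit 330)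 (nat_lit 234)) (XT.lf (nat_lit 0) (nat_lit 603453908) (nat_lit 1140) (nat_lit 9275761209) (nat_lit 1216) (nat_lit 1483320597) (nat_lit 243) (nat_lit 5) (nat_lit 258) (nat_lit 5) (nat_lit 259) (nat_lit 5) (nat_lit 337) (nat_lit 330) (nat_lit 233)))))) (XT.nd (nat_lit 468) (nat_lit 2128) (nat_lit 0) (XT.nd (nat_lit 234) (nat_lit 0) (nat_lit 76) (XT.nd (nat_lit 78) (nat_lit 0) (nat_lit 0) (XT.lf (nat_lit 0) (nat_lit 1512059737) (nat_lit 1140) (nat_lit 3684850752) (nat_lit 1216) (nat_lit 6326316842) (nat_lit 243) (nat_lit 5) (nat_lit 258) (nat_lit 5) (nat_lit 259) (nat_lit 5) (nat_lit 338) (nat_lit 330) (nat_lit 232)) (XT.nd (nat_lit 78) (nat_lit 0) (nat_lit 76) (XT.lf (nat_lit 76) (nat_lit 2100934324) (nat_lit 0) (nat_lit 346630499) (nat_lit 1216) (nat_lit 9241199140) (nat_lit 244) (nat_lit 5) (nat_lit 243) (nat_lit 5) (nat_lit 259) (nat_lit 5) (nat_lit 339) (nat_lit 330) (nat_lit 231)) (XT.lf (nat_lit 0)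 (nat_lit 3473377523) (nat_lit 1140) (nat_lit 3781771291) (nat_lit 1216) (nat_lit 4602263707) (nat_lit 244) (nat_lit 5) (nat_lit 259) (nat_lit 5) (nat_lit 260) (nat_lit 5) (nat_lit 340) (nat_lit 330) (nat_lit 230)))) (XT.nd (nat_lit 78) (nat_lit 0) (nat_lit 76) (XT.lf (nat_lit 76) (nat_lit 2224472733) (nat_lit 0) (nat_lit 2310863869) (nat_lit 1216) (nat_lit 7495635498) (nat_lit 245) (nat_lit 5) (nat_lit 244) (nat_lit 5) (nat_lit 260) (nat_lit 5) (nat_lit 341) (nat_lit 330) (nat_lit 229)) (XT.nd (nat_lit 78) (nat_lit 0) (nat_lit 0) (XT.lf (nat_lit 0) (nat_lit 5675500992) (nat_lit 1140) (nat_lit 3761751088) (nat_lit 1216) (nat_lit 2771108342) (nat_lit 245) (nat_lit 5) (nat_lit 260) (nat_lit 5) (nat_lit 261) (nat_lit 5) (nat_lit 342) (nat_lit 330) (nat_lit 228)) (XT.lf (nat_lit 76) (nat_lit 2475724496) (nat_lit 0) (nat_lit 4402416147) (nat_lit 1216) (nat_lit 5512093632) (nat_lit 246) (nat_lit 5) (nat_lit 245)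 (nat_lit 5) (nat_lit 261) (nat_lit 5) (nat_lit 343) (nat_lit 330) (nat_lit 227))))) (XT.nd (nat_lit 234) (nat_lit 2356) (nat_lit 0) (XT.nd (nat_lit 78) (nat_lit 0) (nat_lit 0) (XT.lf (nat_lit 0) (nat_lit 8144787192) (nat_lit 1140) (nat_lit 3621394534) (nat_lit 1216) (nat_lit 810556429) (nat_lit 246) (nat_lit 5) (nat_lit 261) (nat_lit 5) (nat_lit 262) (nat_lit 5) (nat_lit 344) (nat_lit 330) (nat_lit 226)) (XT.nd (nat_lit 78) (nat_lit 0) (nat_lit 0) (XT.lf (nat_lit 76) (nat_lit 2858631296) (nat_lit 0) (nat_lit 6644426461) (nat_lit 1216) (nat_lit 3264181959) (nat_lit 247) (nat_lit 5) (nat_lit 246) (nat_lit 5) (nat_lit 262) (nat_lit 5) (nat_lit 345) (nat_lit 330) (nat_lit 225)) (XT.lf (nat_lit 76) (nat_lit 9593354161) (nat_lit 0) (nat_lit 1328222740) (nat_lit 1216) (nat_lit 2041305384) (nat_lit 247) (nat_lit 5) (nat_lit 246) (nat_lit 5) (nat_lit 262) (nat_lit 5) (nat_lit 346) (nat_lit 330) (nat_lit 224))))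 (XT.nd (nat_lit 156) (nat_lit 1216) (nat_lit 0) (XT.nd (nat_lit 78) (nat_lit 76) (nat_lit 0) (XT.lf (nat_lit 0) (nat_lit 3377697839) (nat_lit 1140) (nat_lit 9060748097) (nat_lit 1216) (nat_lit 724285021) (nat_lit 232) (nat_lit 5) (nat_lit 247) (nat_lit 5) (nat_lit 248) (nat_lit 5) (nat_lit 347) (nat_lit 330) (nat_lit 223)) (XT.lf (nat_lit 0) (nat_lit 651057026) (nat_lit 1216) (nat_lit 3004974451) (nat_lit 76) (nat_lit 9711436874) (nat_lit 231) (nat_lit 5) (nat_lit 247) (nat_lit 5) (nat_lit 232) (nat_lit 5) (nat_lit 348) (nat_lit 330) (nat_lit 222))) (XT.nd (nat_lit 78) (nat_lit 0) (nat_lit 0) (XT.lf (nat_lit 0) (nat_lit 2094855210) (nat_lit 1292) (nat_lit 9560073848) (nat_lit 76) (nat_lit 1921960826) (nat_lit 215) (nat_lit 5) (nat_lit 232) (nat_lit 5) (nat_lit 216) (nat_lit 5) (nat_lit 349) (nat_lit 330) (nat_lit 221)) (XT.lf (nat_lit 0) (nat_lit 3633270947) (nat_lit 1292) (nat_lit 2531533343) (nat_lit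 76) (nat_lit 7626260132) (nat_lit 215) (nat_lit 5) (nat_lit 232) (nat_lit 5) (nat_lit 216) (nat_lit 5) (nat_lit 350) (nat_lit 330) (nat_lit 220))))))) (XT.nd (nat_lit 1014) (nat_lit 3420) (nat_lit 0) (XT.nd (nat_lit 468) (nat_lit 2052) (nat_lit 0) (XT.nd (nat_lit 234) (nat_lit 608) (nat_lit 0) (XT.nd (nat_lit 78) (nat_lit 532) (nat_lit 0) (XT.lf (nat_lit 0) (nat_lit 4787488293) (nat_lit 608) (nat_lit 461284223) (nat_lit 684) (nat_lit 8761972871) (nat_lit 207) (nat_lit 5) (nat_lit 215) (nat_lit 5) (nat_lit 216) (nat_lit 5) (nat_lit 351) (nat_lit 330) (nat_lit 219)) (XT.nd (nat_lit 78) (nat_lit 532) (nat_lit 0) (XT.lf (nat_lit 0) (nat_lit 6975824057) (nat_lit 684) (nat_lit 1924688794) (nat_lit 76) (nat_lit 5334620305) (nat_lit 207) (nat_lit 5) (nat_lit 216) (nat_lit 5) (nat_lit 208) (nat_lit 5) (nat_lit 352) (nat_lit 330) (nat_lit 218)) (XT.lf (nat_lit 0) (nat_lit 5685501375) (nat_lit 532) (nat_lit 3114067539)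 (nat_lit 608) (nat_lit 5665345854) (nat_lit 200) (nat_lit 5) (nat_lit 207) (nat_lit 5) (nat_lit 208) (nat_lit 5) (nat_lit 353) (nat_lit 330) (nat_lit 217)))) (XT.nd (nat_lit 78) (nat_lit 608) (nat_lit 0) (XT.lf (nat_lit 0) (nat_lit 10710965063) (nat_lit 608) (nat_lit 1179117586) (nat_lit 76) (nat_lit 2810527422) (nat_lit 200) (nat_lit 5) (nat_lit 208) (nat_lit 5) (nat_lit 201) (nat_lit 5) (nat_lit 354) (nat_lit 330) (nat_lit 216)) (XT.nd (nat_lit 78) (nat_lit 0) (nat_lit 0) (XT.lf (nat_lit 0) (nat_lit 6736197698) (nat_lit 608) (nat_lit 6025453032) (nat_lit 684) (nat_lit 2179275240) (nat_lit 192) (nat_lit 5) (nat_lit 200) (nat_lit 5) (nat_lit 201) (nat_lit 5) (nat_lit 355) (nat_lit 330) (nat_lit 215)) (XT.lf (nat_lit 0) (nat_lit 14872656490) (nat_lit 684) (nat_lit 289093316) (nat_lit 76) (nat_lit 26745481) (nat_lit 192) (nat_lit 5) (nat_lit 201) (nat_lit 5) (nat_lit 193) (nat_lit 5) (nat_lit 356) (nat_lit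 330) (nat_lit 214))))) (XT.nd (nat_lit 234) (nat_lit 912) (nat_lit 0) (XT.nd (nat_lit 78) (nat_lit 532) (nat_lit 0) (XT.lf (nat_lit 0) (nat_lit 1696479606) (nat_lit 608) (nat_lit 7510508246) (nat_lit 76) (nat_lit 6232320824) (nat_lit 184) (nat_lit 5) (nat_lit 192) (nat_lit 5) (nat_lit 185) (nat_lit 5) (nat_lit 357) (nat_lit 330) (nat_lit 213)) (XT.nd (nat_lit 78) (nat_lit 0) (nat_lit 0) (XT.lf (nat_lit 0) (nat_lit 698465680) (nat_lit 532) (nat_lit 3061151532) (nat_lit 608) (nat_lit 11938038763) (nat_lit 177) (nat_lit 5) (nat_lit 184) (nat_lit 5) (nat_lit 185) (nat_lit 5) (nat_lit 358) (nat_lit 330) (nat_lit 212)) (XT.lf (nat_lit 0) (nat_lit 5980037887) (nat_lit 608) (nat_lit 6699836821) (nat_lit 76) (nat_lit 3281024362) (nat_lit 177) (nat_lit 5) (nat_lit 185) (nat_lit 5) (nat_lit 178) (nat_lit 5) (nat_lit 359) (nat_lit 330) (nat_lit 211)))) (XT.nd (nat_lit 156) (nat_lit 456) (nat_lit 0) (XT.nd (nat_lit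 78) (nat_lit 0) (nat_lit 0) (XT.lf (nat_lit 0) (nat_lit 1840659993) (nat_lit 456) (nat_lit 6462153386) (nat_lit 532) (nat_lit 7928160651) (nat_lit 171) (nat_lit 5) (nat_lit 177) (nat_lit 5) (nat_lit 178) (nat_lit 5) (nat_lit 360) (nat_lit 330) (nat_lit 210)) (XT.lf (nat_lit 0) (nat_lit 10750997594) (nat_lit 532) (nat_lit 5746193188) (nat_lit 76) (nat_lit 10295334) (nat_lit 171) (nat_lit 5) (nat_lit 178) (nat_lit 5) (nat_lit 172) (nat_lit 5) (nat_lit 361) (nat_lit 330) (nat_lit 209))) (XT.nd (nat_lit 78) (nat_lit 0) (nat_lit 0) (XT.lf (nat_lit 0) (nat_lit 3141295596) (nat_lit 456) (nat_lit 10213817240) (nat_lit 532) (nat_lit 3434712608) (nat_lit 165) (nat_lit 5) (nat_lit 171) (nat_lit 5) (nat_lit 172) (nat_lit 5) (nat_lit 362) (nat_lit 330) (nat_lit 208)) (XT.lf (nat_lit 0) (nat_lit 12400058524) (nat_lit 456) (nat_lit 3683840252) (nat_lit 532) (nat_lit 995346019) (nat_lit 165) (nat_lit 5) (nat_lit 171) (nat_lit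 5) (nat_lit 172) (nat_lit 5) (nat_lit 363) (nat_lit 330) (nat_lit 207)))))) (XT.nd (nat_lit 546) (nat_lit 1520) (nat_lit 0) (XT.nd (nat_lit 234) (nat_lit 912) (nat_lit 0) (XT.nd (nat_lit 78) (nat_lit 456) (nat_lit 0) (XT.lf (nat_lit 0) (nat_lit 1550573127) (nat_lit 532) (nat_lit 12783876351) (nat_lit 76) (nat_lit 3040576290) (nat_lit 158) (nat_lit 5) (nat_lit 165) (nat_lit 5) (nat_lit 159) (nat_lit 5) (nat_lit 364) (nat_lit 330) (nat_lit 206)) (XT.nd (nat_lit 78) (nat_lit 456) (nat_lit 0) (XT.lf (nat_lit 0) (nat_lit 4225983420) (nat_lit 532) (nat_lit 3502726913) (nat_lit 76) (nat_lit 9948486346) (nat_lit 158) (nat_lit 5) (nat_lit 165) (nat_lit 5) (nat_lit 159) (nat_lit 5) (nat_lit 365) (nat_lit 330) (nat_lit 205)) (XT.lf (nat_lit 0) (nat_lit 6164347806) (nat_lit 456) (nat_lit 865813156) (nat_lit 532) (nat_lit 10956822168) (nat_lit 152) (nat_lit 5) (nat_lit 158) (nat_lit 5) (nat_lit 159) (nat_lit 5) (nat_lit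 366) (nat_lit 330) (nat_lit 204)))) (XT.nd (nat_lit 156) (nat_lit 532) (nat_lit 0) (XT.nd (nat_lit 78) (nat_lit 380) (nat_lit 0) (XT.lf (nat_lit 0) (nat_lit 10003231914) (nat_lit 532) (nat_lit 2184715999) (nat_lit 76) (nat_lit 6115577617) (nat_lit 152) (nat_lit 5) (nat_lit 159) (nat_lit 5) (nat_lit 153) (nat_lit 5) (nat_lit 367) (nat_lit 330) (nat_lit 203)) (XT.lf (nat_lit 0) (nat_lit 7874838629) (nat_lit 380) (nat_lit 5264655134) (nat_lit 456) (nat_lit 5487855718) (nat_lit 147) (nat_lit 5) (nat_lit 152) (nat_lit 5) (nat_lit 153) (nat_lit 5) (nat_lit 368) (nat_lit 330) (nat_lit 202))) (XT.nd (nat_lit 78) (nat_lit 532) (nat_lit 0) (XT.lf (nat_lit 0) (nat_lit 16399948594) (nat_lit 456) (nat_lit 710178484) (nat_lit 76) (nat_lit 1849863008) (nat_lit 147) (nat_lit 5) (nat_lit 153) (nat_lit 5) (nat_lit 148) (nat_lit 5) (nat_lit 369) (nat_lit 330) (nat_lit 201)) (XT.lf (nat_lit 0) (nat_lit 584177237) (nat_lit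 532) (nat_lit 9544906091) (nat_lit 76) (nat_lit 9169276172) (nat_lit 140) (nat_lit 5) (nat_lit 147) (nat_lit 5) (nat_lit 141) (nat_lit 5) (nat_lit 370) (nat_lit 330) (nat_lit 200))))) (XT.nd (nat_lit 234) (nat_lit 760) (nat_lit 0) (XT.nd (nat_lit 78) (nat_lit 380) (nat_lit 0) (XT.lf (nat_lit 0) (nat_lit 878141583) (nat_lit 380) (nat_lit 2899057752) (nat_lit 456) (nat_lit 15868746975) (nat_lit 135) (nat_lit 5) (nat_lit 140) (nat_lit 5) (nat_lit 141) (nat_lit 5) (nat_lit 371) (nat_lit 330) (nat_lit 199)) (XT.nd (nat_lit 78) (nat_lit 380) (nat_lit 0) (XT.lf (nat_lit 0) (nat_lit 7197454539) (nat_lit 456) (nat_lit 8248805484) (nat_lit 76) (nat_lit 4553761951) (nat_lit 135) (nat_lit 5) (nat_lit 141) (nat_lit 5) (nat_lit 136) (nat_lit 5) (nat_lit 372) (nat_lit 330) (nat_lit 198)) (XT.lf (nat_lit 0) (nat_lit 2595467295) (nat_lit 380) (nat_lit 8169169275) (nat_lit 456) (nat_lit 9598758151) (nat_lit 130) (nat_lit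 5) (nat_lit 135) (nat_lit 5) (nat_lit 136) (nat_lit 5) (nat_lit 373) (nat_lit 330) (nat_lit 197)))) (XT.nd (nat_lit 156) (nat_lit 456) (nat_lit 0) (XT.nd (nat_lit 78) (nat_lit 304) (nat_lit 0) (XT.lf (nat_lit 0) (nat_lit 13922040869) (nat_lit 380) (nat_lit 590911718) (nat_lit 456) (nat_lit 6222496772) (nat_lit 130) (nat_lit 5) (nat_lit 135) (nat_lit 5) (nat_lit 136) (nat_lit 5) (nat_lit 374) (nat_lit 330) (nat_lit 196)) (XT.lf (nat_lit 0) (nat_lit 4475720573) (nat_lit 304) (nat_lit 14001434559) (nat_lit 380) (nat_lit 2638411529) (nat_lit 126) (nat_lit 5) (nat_lit 130) (nat_lit 5) (nat_lit 131) (nat_lit 5) (nat_lit 375) (nat_lit 330) (nat_lit 195))) (XT.nd (nat_lit 78) (nat_lit 380) (nat_lit 0) (XT.lf (nat_lit 0) (nat_lit 1099095165) (nat_lit 380) (nat_lit 5290561270) (nat_lit 76) (nat_lit 15115137710) (nat_lit 125) (nat_lit 5) (nat_lit 130) (nat_lit 5) (nat_lit 126) (nat_lit 5) (nat_lit 376) (nat_lit 330)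 (nat_lit 194)) (XT.lf (nat_lit 0) (nat_lit 4964228455) (nat_lit 456) (nat_lit 15430134934) (nat_lit 76) (nat_lit 1508499241) (nat_lit 120) (nat_lit 5) (nat_lit 126) (nat_lit 5) (nat_lit 121) (nat_lit 5) (nat_lit 377) (nat_lit 330) (nat_lit 193))))))))
noncomputable def xc178 : XT := (XT.nd (nat_lit 2028) (nat_lit 2204) (nat_lit 0) (XT.nd (nat_lit 1014) (nat_lit 1824) (nat_lit 0) (XT.nd (nat_lit 468) (nat_lit 1140) (nat_lit 0) (XT.nd (nat_lit 234) (nat_lit 684) (nat_lit 0) (XT.nd (nat_lit 78) (nat_lit 304) (nat_lit 0) (XT.lf (nat_lit 0) (nat_lit 9054017932) (nat_lit 456) (nat_lit 3689532060) (nat_lit 76) (nat_lit 9566065789) (nat_lit 120) (nat_lit 5) (nat_lit 126) (nat_lit 5) (nat_lit 121) (nat_lit 5) (nat_lit 378) (nat_lit 330) (nat_lit 192)) (XT.nd (nat_lit 78) (nat_lit 0) (nat_lit 0) (XT.lf (nat_lit 0) (nat_lit 8558811466) (nat_lit 304) (nat_lit 4781695180) (nat_lit 380) (nat_lit 9385848280) (nat_lit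 116) (nat_lit 5) (nat_lit 120) (nat_lit 5) (nat_lit 121) (nat_lit 5) (nat_lit 379) (nat_lit 330) (nat_lit 191)) (XT.lf (nat_lit 0) (nat_lit 17817914878) (nat_lit 380) (nat_lit 1949070379) (nat_lit 76) (nat_lit 3386744710) (nat_lit 116) (nat_lit 5) (nat_lit 121) (nat_lit 5) (nat_lit 117) (nat_lit 5) (nat_lit 380) (nat_lit 330) (nat_lit 190)))) (XT.nd (nat_lit 78) (nat_lit 380) (nat_lit 0) (XT.lf (nat_lit 0) (nat_lit 10787866834) (nat_lit 304) (nat_lit 11784892748) (nat_lit 380) (nat_lit 1016876614) (nat_lit 112) (nat_lit 5) (nat_lit 116) (nat_lit 5) (nat_lit 117) (nat_lit 5) (nat_lit 381) (nat_lit 330) (nat_lit 189)) (XT.nd (nat_lit 78) (nat_lit 304) (nat_lit 0) (XT.lf (nat_lit 0) (nat_lit 3376657657) (nat_lit 380) (nat_lit 135651192) (nat_lit 76) (nat_lit 20524964593) (nat_lit 111) (nat_lit 5) (nat_lit 116) (nat_lit 5) (nat_lit 112) (nat_lit 5) (nat_lit 382) (nat_lit 330) (nat_lit 188)) (XT.lf (nat_lit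 0) (nat_lit 8049733808) (nat_lit 380) (nat_lit 11398012982) (nat_lit 76) (nat_lit 5045248830) (nat_lit 107) (nat_lit 5) (nat_lit 112) (nat_lit 5) (nat_lit 108) (nat_lit 5) (nat_lit 383) (nat_lit 330) (nat_lit 187))))) (XT.nd (nat_lit 234) (nat_lit 608) (nat_lit 0) (XT.nd (nat_lit 78) (nat_lit 228) (nat_lit 0) (XT.lf (nat_lit 0) (nat_lit 1751286256) (nat_lit 304) (nat_lit 11157139725) (nat_lit 380) (nat_lit 12052603759) (nat_lit 103) (nat_lit 5) (nat_lit 107) (nat_lit 5) (nat_lit 108) (nat_lit 5) (nat_lit 384) (nat_lit 330) (nat_lit 186)) (XT.nd (nat_lit 78) (nat_lit 228) (nat_lit 0) (XT.lf (nat_lit 0) (nat_lit 15517754479) (nat_lit 304) (nat_lit 2502767749) (nat_lit 380) (nat_lit 7419356258) (nat_lit 103) (nat_lit 5) (nat_lit 107) (nat_lit 5) (nat_lit 108) (nat_lit 5) (nat_lit 385) (nat_lit 330) (nat_lit 185)) (XT.lf (nat_lit 0) (nat_lit 3765140643) (nat_lit 228) (nat_lit 19611392413) (nat_lit 304) (nat_lit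 2553845906) (nat_lit 100) (nat_lit 5) (nat_lit 103) (nat_lit 5) (nat_lit 104) (nat_lit 5) (nat_lit 386) (nat_lit 330) (nat_lit 184)))) (XT.nd (nat_lit 156) (nat_lit 228) (nat_lit 0) (XT.nd (nat_lit 78) (nat_lit 304) (nat_lit 0) (XT.lf (nat_lit 0) (nat_lit 2528403696) (nat_lit 304) (nat_lit 8426434374) (nat_lit 76) (nat_lit 15476488375) (nat_lit 99) (nat_lit 5) (nat_lit 103) (nat_lit 5) (nat_lit 100) (nat_lit 5) (nat_lit 387) (nat_lit 330) (nat_lit 183)) (XT.lf (nat_lit 0) (nat_lit 5801914181) (nat_lit 304) (nat_lit 1958624354) (nat_lit 380) (nat_lit 19184545404) (nat_lit 95) (nat_lit 5) (nat_lit 99) (nat_lit 5) (nat_lit 100) (nat_lit 5) (nat_lit 388) (nat_lit 330) (nat_lit 182))) (XT.nd (nat_lit 78) (nat_lit 228) (nat_lit 0) (XT.lf (nat_lit 0) (nat_lit 13298860526) (nat_lit 380) (nat_lit 6923563924) (nat_lit 76) (nat_lit 7247355516) (nat_lit 95) (nat_lit 5) (nat_lit 100) (nat_lit 5) (nat_lit 96) (nat_lit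 5) (nat_lit 389) (nat_lit 330) (nat_lit 181)) (XT.lf (nat_lit 0) (nat_lit 7846028534) (nat_lit 228) (nat_lit 11245365560) (nat_lit 304) (nat_lit 8916183354) (nat_lit 92) (nat_lit 5) (nat_lit 95) (nat_lit 5) (nat_lit 96) (nat_lit 5) (nat_lit 390) (nat_lit 330) (nat_lit 180)))))) (XT.nd (nat_lit 468) (nat_lit 988) (nat_lit 0) (XT.nd (nat_lit 234) (nat_lit 456) (nat_lit 0) (XT.nd (nat_lit 78) (nat_lit 380) (nat_lit 0) (XT.lf (nat_lit 0) (nat_lit 23190422646) (nat_lit 228) (nat_lit 1930542685) (nat_lit 304) (nat_lit 3438648034) (nat_lit 92) (nat_lit 5) (nat_lit 95) (nat_lit 5) (nat_lit 96) (nat_lit 5) (nat_lit 391) (nat_lit 330) (nat_lit 179)) (XT.nd (nat_lit 78) (nat_lit 0) (nat_lit 0) (XT.lf (nat_lit 0) (nat_lit 2324923072) (nat_lit 380) (nat_lit 19168216588) (nat_lit 76) (nat_lit 7629496493) (nat_lit 87) (nat_lit 5) (nat_lit 92) (nat_lit 5) (nat_lit 88) (nat_lit 5) (nat_lit 392) (nat_lit 330) (nat_lit 178))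 (XT.lf (nat_lit 0) (nat_lit 8259692710) (nat_lit 380) (nat_lit 3916928690) (nat_lit 76) (nat_lit 17522886858) (nat_lit 87) (nat_lit 5) (nat_lit 92) (nat_lit 5) (nat_lit 88) (nat_lit 5) (nat_lit 393) (nat_lit 330) (nat_lit 177)))) (XT.nd (nat_lit 78) (nat_lit 228) (nat_lit 0) (XT.lf (nat_lit 0) (nat_lit 12016569048) (nat_lit 228) (nat_lit 2465170713) (nat_lit 304) (nat_lit 15808671834) (nat_lit 84) (nat_lit 5) (nat_lit 87) (nat_lit 5) (nat_lit 88) (nat_lit 5) (nat_lit 394) (nat_lit 330) (nat_lit 176)) (XT.nd (nat_lit 78) (nat_lit 228) (nat_lit 0) (XT.lf (nat_lit 0) (nat_lit 20996628523) (nat_lit 304) (nat_lit 2472211180) (nat_lit 76) (nat_lit 7427018953) (nat_lit 84) (nat_lit 5) (nat_lit 88) (nat_lit 5) (nat_lit 85) (nat_lit 5) (nat_lit 395) (nat_lit 330) (nat_lit 175)) (XT.lf (nat_lit 0) (nat_lit 14043515830) (nat_lit 228) (nat_lit 13816810941) (nat_lit 304) (nat_lit 3654543452) (nat_lit 81) (nat_lit 5)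 (nat_lit 84) (nat_lit 5) (nat_lit 85) (nat_lit 5) (nat_lit 396) (nat_lit 330) (nat_lit 174))))) (XT.nd (nat_lit 234) (nat_lit 456) (nat_lit 0) (XT.nd (nat_lit 78) (nat_lit 456) (nat_lit 0) (XT.lf (nat_lit 0) (nat_lit 2742480935) (nat_lit 304) (nat_lit 1082869551) (nat_lit 76) (nat_lit 28325726670) (nat_lit 80) (nat_lit 5) (nat_lit 84) (nat_lit 5) (nat_lit 81) (nat_lit 5) (nat_lit 397) (nat_lit 330) (nat_lit 173)) (XT.nd (nat_lit 78) (nat_lit 228) (nat_lit 0) (XT.lf (nat_lit 0) (nat_lit 9470559110) (nat_lit 304) (nat_lit 16799592235) (nat_lit 76) (nat_lit 6528757382) (nat_lit 77) (nat_lit 5) (nat_lit 81) (nat_lit 5) (nat_lit 78) (nat_lit 5) (nat_lit 398) (nat_lit 330) (nat_lit 172)) (XT.lf (nat_lit 0) (nat_lit 105002191) (nat_lit 228) (nat_lit 16339611855) (nat_lit 304) (nat_lit 17020238921) (nat_lit 74) (nat_lit 5) (nat_lit 77) (nat_lit 5) (nat_lit 78) (nat_lit 5) (nat_lit 399) (nat_lit 330) (nat_lit 171))))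 (XT.nd (nat_lit 156) (nat_lit 304) (nat_lit 0) (XT.nd (nat_lit 78) (nat_lit 152) (nat_lit 0) (XT.lf (nat_lit 0) (nat_lit 17851819167) (nat_lit 228) (nat_lit 5940001012) (nat_lit 304) (nat_lit 10354039174) (nat_lit 74) (nat_lit 5) (nat_lit 77) (nat_lit 5) (nat_lit 78) (nat_lit 5) (nat_lit 400) (nat_lit 330) (nat_lit 170)) (XT.lf (nat_lit 0) (nat_lit 1253176650) (nat_lit 152) (nat_lit 30158599301) (nat_lit 228) (nat_lit 3433951632) (nat_lit 72) (nat_lit 5) (nat_lit 74) (nat_lit 5) (nat_lit 75) (nat_lit 5) (nat_lit 401) (nat_lit 330) (nat_lit 169))) (XT.nd (nat_lit 78) (nat_lit 228) (nat_lit 0) (XT.lf (nat_lit 0) (nat_lit 3841078180) (nat_lit 228) (nat_lit 16005958360) (nat_lit 76) (nat_lit 15711909151) (nat_lit 71) (nat_lit 5) (nat_lit 74) (nat_lit 5) (nat_lit 72) (nat_lit 5) (nat_lit 402) (nat_lit 330) (nat_lit 168)) (XT.lf (nat_lit 0) (nat_lit 2106426708) (nat_lit 228) (nat_lit 9173762337) (nat_lit 304)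 (nat_lit 25011907350) (nat_lit 68) (nat_lit 5) (nat_lit 71) (nat_lit 5) (nat_lit 72) (nat_lit 5) (nat_lit 403) (nat_lit 330) (nat_lit 167))))))) (XT.nd (nat_lit 1014) (nat_lit 1064) (nat_lit 0) (XT.nd (nat_lit 468) (nat_lit 532) (nat_lit 0) (XT.nd (nat_lit 234) (nat_lit 456) (nat_lit 0) (XT.nd (nat_lit 78) (nat_lit 152) (nat_lit 0) (XT.lf (nat_lit 0) (nat_lit 19117834253) (nat_lit 304) (nat_lit 15980145476) (nat_lit 76) (nat_lit 1944002533) (nat_lit 68) (nat_lit 5) (nat_lit 72) (nat_lit 5) (nat_lit 69) (nat_lit 5) (nat_lit 404) (nat_lit 330) (nat_lit 166)) (XT.nd (nat_lit 78) (nat_lit 0) (nat_lit 0) (XT.lf (nat_lit 0) (nat_lit 2725204316) (nat_lit 152) (nat_lit 24577226053) (nat_lit 228) (nat_lit 10508581115) (nat_lit 66) (nat_lit 5) (nat_lit 68) (nat_lit 5) (nat_lit 69) (nat_lit 5) (nat_lit 405) (nat_lit 330) (nat_lit 165)) (XT.lf (nat_lit 0) (nat_lit 22310687740) (nat_lit 152) (nat_lit 13578109524) (nat_lit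 228) (nat_lit 2709628718) (nat_lit 66) (nat_lit 5) (nat_lit 68) (nat_lit 5) (nat_lit 69) (nat_lit 5) (nat_lit 406) (nat_lit 330) (nat_lit 164)))) (XT.nd (nat_lit 78) (nat_lit 152) (nat_lit 0) (XT.lf (nat_lit 0) (nat_lit 3074644282) (nat_lit 228) (nat_lit 2169290371) (nat_lit 304) (nat_lit 34163258877) (nat_lit 62) (nat_lit 5) (nat_lit 65) (nat_lit 5) (nat_lit 66) (nat_lit 5) (nat_lit 407) (nat_lit 330) (nat_lit 163)) (XT.nd (nat_lit 78) (nat_lit 152) (nat_lit 0) (XT.lf (nat_lit 0) (nat_lit 13634849964) (nat_lit 304) (nat_lit 17012561339) (nat_lit 76) (nat_lit 9584413051) (nat_lit 62) (nat_lit 5) (nat_lit 66) (nat_lit 5) (nat_lit 63) (nat_lit 5) (nat_lit 408) (nat_lit 330) (nat_lit 162)) (XT.lf (nat_lit 0) (nat_lit 2914171456) (nat_lit 152) (nat_lit 19407955069) (nat_lit 228) (nat_lit 18757729798) (nat_lit 60) (nat_lit 5) (nat_lit 62) (nat_lit 5) (nat_lit 63) (nat_lit 5) (nat_lit 409) (nat_lit 330) (nat_lit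 161))))) (XT.nd (nat_lit 234) (nat_lit 304) (nat_lit 0) (XT.nd (nat_lit 78) (nat_lit 228) (nat_lit 0) (XT.lf (nat_lit 0) (nat_lit 23779285265) (nat_lit 152) (nat_lit 7657735512) (nat_lit 228) (nat_lit 10511299686) (nat_lit 60) (nat_lit 5) (nat_lit 62) (nat_lit 5) (nat_lit 63) (nat_lit 5) (nat_lit 410) (nat_lit 330) (nat_lit 160)) (XT.nd (nat_lit 78) (nat_lit 76) (nat_lit 0) (XT.lf (nat_lit 0) (nat_lit 2424054583) (nat_lit 152) (nat_lit 38462650826) (nat_lit 228) (nat_lit 1954293973) (nat_lit 58) (nat_lit 5) (nat_lit 60) (nat_lit 5) (nat_lit 61) (nat_lit 5) (nat_lit 411) (nat_lit 330) (nat_lit 159)) (XT.lf (nat_lit 0) (nat_lit 6982004427) (nat_lit 228) (nat_lit 19899191501) (nat_lit 76) (nat_lit 16869592690) (nat_lit 57) (nat_lit 5) (nat_lit 60) (nat_lit 5) (nat_lit 58) (nat_lit 5) (nat_lit 412) (nat_lit 330) (nat_lit 158)))) (XT.nd (nat_lit 156) (nat_lit 152) (nat_lit 0) (XT.nd (nat_lit 78) (nat_lit 0)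 (nat_lit 0) (XT.lf (nat_lit 0) (nat_lit 1230950891) (nat_lit 152) (nat_lit 14923457468) (nat_lit 228) (nat_lit 28532664872) (nat_lit 55) (nat_lit 5) (nat_lit 57) (nat_lit 5) (nat_lit 58) (nat_lit 5) (nat_lit 413) (nat_lit 330) (nat_lit 157)) (XT.lf (nat_lit 0) (nat_lit 23395173738) (nat_lit 152) (nat_lit 2403274545) (nat_lit 228) (nat_lit 19847105214) (nat_lit 55) (nat_lit 5) (nat_lit 57) (nat_lit 5) (nat_lit 58) (nat_lit 5) (nat_lit 414) (nat_lit 330) (nat_lit 156))) (XT.nd (nat_lit 78) (nat_lit 152) (nat_lit 0) (XT.lf (nat_lit 0) (nat_lit 35828290968) (nat_lit 228) (nat_lit 516938769) (nat_lit 76) (nat_lit 10284664990) (nat_lit 55) (nat_lit 5) (nat_lit 58) (nat_lit 5) (nat_lit 56) (nat_lit 5) (nat_lit 415) (nat_lit 330) (nat_lit 155)) (XT.lf (nat_lit 0) (nat_lit 22271924463) (nat_lit 152) (nat_lit 24120739269) (nat_lit 228) (nat_lit 1244094389) (nat_lit 53) (nat_lit 5) (nat_lit 55) (nat_lit 5) (nat_lit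 56) (nat_lit 5) (nat_lit 416) (nat_lit 330) (nat_lit 154)))))) (XT.nd (nat_lit 546) (nat_lit 456) (nat_lit 0) (XT.nd (nat_lit 234) (nat_lit 380) (nat_lit 0) (XT.nd (nat_lit 78) (nat_lit 152) (nat_lit 0) (XT.lf (nat_lit 0) (nat_lit 8433351922) (nat_lit 228) (nat_lit 3008746474) (nat_lit 76) (nat_lit 37229218902) (nat_lit 52) (nat_lit 5) (nat_lit 55) (nat_lit 5) (nat_lit 53) (nat_lit 5) (nat_lit 417) (nat_lit 330) (nat_lit 153)) (XT.nd (nat_lit 78) (nat_lit 0) (nat_lit 0) (XT.lf (nat_lit 0) (nat_lit 18585639877) (nat_lit 228) (nat_lit 29351836077) (nat_lit 76) (nat_lit 1792782952) (nat_lit 50) (nat_lit 5) (nat_lit 53) (nat_lit 5) (nat_lit 51) (nat_lit 5) (nat_lit 418) (nat_lit 330) (nat_lit 152)) (XT.lf (nat_lit 0) (nat_lit 29182373093) (nat_lit 228) (nat_lit 6411974476) (nat_lit 76) (nat_lit 15222425760) (nat_lit 50) (nat_lit 5) (nat_lit 53) (nat_lit 5) (nat_lit 51) (nat_lit 5) (nat_lit 419) (nat_lit 330)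 (nat_lit 151)))) (XT.nd (nat_lit 156) (nat_lit 228) (nat_lit 0) (XT.nd (nat_lit 78) (nat_lit 0) (nat_lit 0) (XT.lf (nat_lit 0) (nat_lit 17551575654) (nat_lit 152) (nat_lit 22710173661) (nat_lit 228) (nat_lit 11669192477) (nat_lit 48) (nat_lit 5) (nat_lit 50) (nat_lit 5) (nat_lit 51) (nat_lit 5) (nat_lit 420) (nat_lit 330) (nat_lit 150)) (XT.lf (nat_lit 0) (nat_lit 42358538345) (nat_lit 152) (nat_lit 9375790521) (nat_lit 228) (nat_lit 1342382596) (nat_lit 48) (nat_lit 5) (nat_lit 50) (nat_lit 5) (nat_lit 51) (nat_lit 5) (nat_lit 421) (nat_lit 330) (nat_lit 149))) (XT.nd (nat_lit 78) (nat_lit 0) (nat_lit 0) (XT.lf (nat_lit 0) (nat_lit 9285995863) (nat_lit 228) (nat_lit 40467862539) (nat_lit 76) (nat_lit 4495122486) (nat_lit 45) (nat_lit 5) (nat_lit 48) (nat_lit 5) (nat_lit 46) (nat_lit 5) (nat_lit 422) (nat_lit 330) (nat_lit 148)) (XT.lf (nat_lit 0) (nat_lit 20404547475) (nat_lit 228) (nat_lit 16332091390)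 (nat_lit 76) (nat_lit 18713432478) (nat_lit 45) (nat_lit 5) (nat_lit 48) (nat_lit 5) (nat_lit 46) (nat_lit 5) (nat_lit 423) (nat_lit 330) (nat_lit 147))))) (XT.nd (nat_lit 234) (nat_lit 228) (nat_lit 0) (XT.nd (nat_lit 78) (nat_lit 76) (nat_lit 0) (XT.lf (nat_lit 0) (nat_lit 8690710403) (nat_lit 152) (nat_lit 23245765860) (nat_lit 228) (nat_lit 24748324354) (nat_lit 43) (nat_lit 5) (nat_lit 45) (nat_lit 5) (nat_lit 46) (nat_lit 5) (nat_lit 424) (nat_lit 330) (nat_lit 146)) (XT.nd (nat_lit 78) (nat_lit 76) (nat_lit 0) (XT.lf (nat_lit 0) (nat_lit 34792423558) (nat_lit 152) (nat_lit 9183186899) (nat_lit 228) (nat_lit 13976124587) (nat_lit 43) (nat_lit 5) (nat_lit 45) (nat_lit 5) (nat_lit 46) (nat_lit 5) (nat_lit 425) (nat_lit 330) (nat_lit 145)) (XT.lf (nat_lit 0) (nat_lit 2410127739) (nat_lit 76) (nat_lit 54036323105) (nat_lit 152) (nat_lit 2808111378) (nat_lit 42) (nat_lit 5) (nat_lit 43) (nat_lit 5) (nat_lit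 44) (nat_lit 4) (nat_lit 426) (nat_lit 330) (nat_lit 144)))) (XT.nd (nat_lit 156) (nat_lit 152) (nat_lit 0) (XT.nd (nat_lit 78) (nat_lit 0) (nat_lit 0) (XT.lf (nat_lit 0) (nat_lit 8848787295) (nat_lit 152) (nat_lit 31551347058) (nat_lit 76) (nat_lit 20184127630) (nat_lit 41) (nat_lit 5) (nat_lit 43) (nat_lit 5) (nat_lit 42) (nat_lit 5) (nat_lit 427) (nat_lit 330) (nat_lit 143)) (XT.lf (nat_lit 0) (nat_lit 20795470099) (nat_lit 152) (nat_lit 5533544703) (nat_lit 76) (nat_lit 35624108944) (nat_lit 41) (nat_lit 5) (nat_lit 43) (nat_lit 5) (nat_lit 42) (nat_lit 5) (nat_lit 428) (nat_lit 330) (nat_lit 142))) (XT.nd (nat_lit 78) (nat_lit 0) (nat_lit 0) (XT.lf (nat_lit 0) (nat_lit 21681789680) (nat_lit 152) (nat_lit 11623801193) (nat_lit 228) (nat_lit 30051309969) (nat_lit 39) (nat_lit 5) (nat_lit 41) (nat_lit 5) (nat_lit 42) (nat_lit 5) (nat_lit 429) (nat_lit 330) (nat_lit 141)) (XT.lf (nat_lit 0) (nat_lit 46277941043)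 (nat_lit 228) (nat_lit 15014619975) (nat_lit 76) (nat_lit 3507623050) (nat_lit 39) (nat_lit 5) (nat_lit 42) (nat_lit 5) (nat_lit 40) (nat_lit 4) (nat_lit 430) (nat_lit 330) (nat_lit 140))))))))
noncomputable def xc179 : XT := (XT.nd (nat_lit 40638) (nat_lit 0) (nat_lit 6916) (XT.nd (nat_lit 39546) (nat_lit 0) (nat_lit 13756) (XT.nd (nat_lit 468) (nat_lit 0) (nat_lit 0) (XT.nd (nat_lit 234) (nat_lit 76) (nat_lit 0) (XT.nd (nat_lit 78) (nat_lit 228) (nat_lit 0) (XT.lf (nat_lit 0) (nat_lit 12569954709) (nat_lit 76) (nat_lit 47302155780) (nat_lit 152) (nat_lit 6407676408) (nat_lit 38) (nat_lit 5) (nat_lit 39) (nat_lit 5) (nat_lit 40) (nat_lit 4) (nat_lit 431) (nat_lit 330) (nat_lit 139)) (XT.nd (nat_lit 78) (nat_lit 152) (nat_lit 0) (XT.lf (nat_lit 0) (nat_lit 6101730430) (nat_lit 152) (nat_lit 26575167032) (nat_lit 76) (nat_lit 35120634621) (nat_lit 37) (nat_lit 5) (nat_lit 39) (nat_lit 5) (nat_lit 38) (nat_lit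 5) (nat_lit 432) (nat_lit 330) (nat_lit 138)) (XT.lf (nat_lit 0) (nat_lit 1330290890) (nat_lit 152) (nat_lit 17536960998) (nat_lit 228) (nat_lit 50491366378) (nat_lit 35) (nat_lit 5) (nat_lit 37) (nat_lit 5) (nat_lit 38) (nat_lit 5) (nat_lit 433) (nat_lit 330) (nat_lit 137)))) (XT.nd (nat_lit 78) (nat_lit 76) (nat_lit 0) (XT.lf (nat_lit 0) (nat_lit 30611970312) (nat_lit 152) (nat_lit 1668995940) (nat_lit 228) (nat_lit 38677614472) (nat_lit 35) (nat_lit 5) (nat_lit 37) (nat_lit 5) (nat_lit 38) (nat_lit 5) (nat_lit 434) (nat_lit 330) (nat_lit 136)) (XT.nd (nat_lit 78) (nat_lit 76) (nat_lit 0) (XT.lf (nat_lit 0) (nat_lit 46235094494) (nat_lit 228) (nat_lit 11981115575) (nat_lit 76) (nat_lit 14386192406) (nat_lit 35) (nat_lit 5) (nat_lit 38) (nat_lit 5) (nat_lit 36) (nat_lit 4) (nat_lit 435) (nat_lit 330) (nat_lit 135)) (XT.lf (nat_lit 0) (nat_lit 17555954167) (nat_lit 76) (nat_lit 43234202195) (nat_lit 152)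 (nat_lit 13499913702) (nat_lit 34) (nat_lit 5) (nat_lit 35) (nat_lit 5) (nat_lit 36) (nat_lit 4) (nat_lit 436) (nat_lit 330) (nat_lit 134))))) (XT.nd (nat_lit 38766) (nat_lit 0) (nat_lit 15808) (XT.nd (nat_lit 38610) (nat_lit 0) (nat_lit 16796) (XT.lf (nat_lit 0) (nat_lit 48219345381) (nat_lit 76) (nat_lit 27680571753) (nat_lit 152) (nat_lit 124909598) (nat_lit 34) (nat_lit 5) (nat_lit 35) (nat_lit 5) (nat_lit 36) (nat_lit 4) (nat_lit 437) (nat_lit 330) (nat_lit 133)) (XT.nd (nat_lit 78) (nat_lit 0) (nat_lit 0) (XT.lf (nat_lit 0) (nat_lit 3645920842) (nat_lit 1140) (nat_lit 830091245) (nat_lit 1140) (nat_lit 830091245) (nat_lit 255) (nat_lit 3) (nat_lit 270) (nat_lit 3) (nat_lit 270) (nat_lit 5) (nat_lit 331) (nat_lit 331) (nat_lit 238)) (XT.lf (nat_lit 76) (nat_lit 3444470096) (nat_lit 0) (nat_lit 4587802908) (nat_lit 1140) (nat_lit 2719772205) (nat_lit 256) (nat_lit 5) (nat_lit 255) (nat_lit 3) (nat_lit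 270) (nat_lit 5) (nat_lit 332) (nat_lit 331) (nat_lit 237)))) (XT.nd (nat_lit 156) (nat_lit 988) (nat_lit 0) (XT.nd (nat_lit 78) (nat_lit 0) (nat_lit 76) (XT.lf (nat_lit 76) (nat_lit 8724028904) (nat_lit 0) (nat_lit 64198986) (nat_lit 1140) (nat_lit 2108067814) (nat_lit 256) (nat_lit 5) (nat_lit 255) (nat_lit 3) (nat_lit 270) (nat_lit 5) (nat_lit 333) (nat_lit 331) (nat_lit 236)) (XT.lf (nat_lit 76) (nat_lit 3121122653) (nat_lit 0) (nat_lit 6497245531) (nat_lit 1140) (nat_lit 1424975974) (nat_lit 257) (nat_lit 5) (nat_lit 256) (nat_lit 5) (nat_lit 271) (nat_lit 5) (nat_lit 334) (nat_lit 331) (nat_lit 235))) (XT.nd (nat_lit 78) (nat_lit 1064) (nat_lit 0) (XT.lf (nat_lit 76) (nat_lit 8604608055) (nat_lit 0) (nat_lit 1869242447) (nat_lit 1140) (nat_lit 720955620) (nat_lit 257) (nat_lit 5) (nat_lit 256) (nat_lit 5) (nat_lit 271) (nat_lit 5) (nat_lit 335) (nat_lit 331) (nat_lit 234)) (XT.lf (nat_lit 0) (nat_lit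 38939356) (nat_lit 1140) (nat_lit 8432270297) (nat_lit 1216) (nat_lit 2878570334) (nat_lit 242) (nat_lit 5) (nat_lit 257) (nat_lit 5) (nat_lit 258) (nat_lit 5) (nat_lit 336) (nat_lit 331) (nat_lit 233)))))) (XT.nd (nat_lit 546) (nat_lit 2052) (nat_lit 0) (XT.nd (nat_lit 234) (nat_lit 0) (nat_lit 76) (XT.nd (nat_lit 78) (nat_lit 0) (nat_lit 76) (XT.lf (nat_lit 0) (nat_lit 830947997) (nat_lit 1140) (nat_lit 2904253125) (nat_lit 1216) (nat_lit 7773287484) (nat_lit 242) (nat_lit 5) (nat_lit 257) (nat_lit 5) (nat_lit 258) (nat_lit 5) (nat_lit 337) (nat_lit 331) (nat_lit 232)) (XT.nd (nat_lit 78) (nat_lit 0) (nat_lit 0) (XT.lf (nat_lit 0) (nat_lit 1664768494) (nat_lit 1140) (nat_lit 8851121258) (nat_lit 1216) (nat_lit 1155540680) (nat_lit 243) (nat_lit 5) (nat_lit 258) (nat_lit 5) (nat_lit 259) (nat_lit 5) (nat_lit 338) (nat_lit 331) (nat_lit 231)) (XT.lf (nat_lit 0) (nat_lit 2570247713) (nat_lit 1140) (nat_lit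 3112956675) (nat_lit 1216) (nat_lit 6154669905) (nat_lit 243) (nat_lit 5) (nat_lit 258) (nat_lit 5) (nat_lit 259) (nat_lit 5) (nat_lit 339) (nat_lit 331) (nat_lit 230)))) (XT.nd (nat_lit 156) (nat_lit 0) (nat_lit 76) (XT.nd (nat_lit 78) (nat_lit 0) (nat_lit 76) (XT.lf (nat_lit 76) (nat_lit 2839711369) (nat_lit 0) (nat_lit 671102503) (nat_lit 1216) (nat_lit 8498272644) (nat_lit 244) (nat_lit 5) (nat_lit 243) (nat_lit 5) (nat_lit 259) (nat_lit 5) (nat_lit 340) (nat_lit 331) (nat_lit 229)) (XT.lf (nat_lit 0) (nat_lit 4535640054) (nat_lit 1140) (nat_lit 3206769631) (nat_lit 1216) (nat_lit 4441356480) (nat_lit 244) (nat_lit 5) (nat_lit 259) (nat_lit 5) (nat_lit 260) (nat_lit 5) (nat_lit 341) (nat_lit 331) (nat_lit 228))) (XT.nd (nat_lit 78) (nat_lit 0) (nat_lit 76) (XT.lf (nat_lit 76) (nat_lit 2972912156) (nat_lit 0) (nat_lit 2635194022) (nat_lit 1216) (nat_lit 6755085165) (nat_lit 245) (nat_lit 5) (nat_lit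 244) (nat_lit 5) (nat_lit 260) (nat_lit 5) (nat_lit 342) (nat_lit 331) (nat_lit 227)) (XT.lf (nat_lit 0) (nat_lit 6752812839) (nat_lit 1140) (nat_lit 3182500301) (nat_lit 1216) (nat_lit 2611495781) (nat_lit 245) (nat_lit 5) (nat_lit 260) (nat_lit 5) (nat_lit 261) (nat_lit 5) (nat_lit 343) (nat_lit 331) (nat_lit 226))))) (XT.nd (nat_lit 234) (nat_lit 2280) (nat_lit 0) (XT.nd (nat_lit 78) (nat_lit 0) (nat_lit 76) (XT.lf (nat_lit 76) (nat_lit 3235314223) (nat_lit 0) (nat_lit 4736386313) (nat_lit 1216) (nat_lit 4763050599) (nat_lit 246) (nat_lit 5) (nat_lit 245) (nat_lit 5) (nat_lit 261) (nat_lit 5) (nat_lit 344) (nat_lit 331) (nat_lit 225)) (XT.nd (nat_lit 78) (nat_lit 0) (nat_lit 0) (XT.lf (nat_lit 0) (nat_lit 9248621011) (nat_lit 1140) (nat_lit 3036396637) (nat_lit 1216) (nat_lit 642680957) (nat_lit 246) (nat_lit 5) (nat_lit 261) (nat_lit 5) (nat_lit 262) (nat_lit 5) (nat_lit 345) (nat_lit 331) (nat_lit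 224)) (XT.lf (nat_lit 76) (nat_lit 3631229578) (nat_lit 0) (nat_lit 6997978740) (nat_lit 1216) (nat_lit 2495276060) (nat_lit 247) (nat_lit 5) (nat_lit 246) (nat_lit 5) (nat_lit 262) (nat_lit 5) (nat_lit 346) (nat_lit 331) (nat_lit 223)))) (XT.nd (nat_lit 156) (nat_lit 1216) (nat_lit 0) (XT.nd (nat_lit 78) (nat_lit 1140) (nat_lit 0) (XT.lf (nat_lit 76) (nat_lit 10547989099) (nat_lit 0) (nat_lit 1517797078) (nat_lit 1216) (nat_lit 1260960703) (nat_lit 247) (nat_lit 5) (nat_lit 246) (nat_lit 5) (nat_lit 262) (nat_lit 5) (nat_lit 347) (nat_lit 331) (nat_lit 222)) (XT.lf (nat_lit 0) (nat_lit 74924711) (nat_lit 1216) (nat_lit 9368371089) (nat_lit 76) (nat_lit 4089845916) (nat_lit 231) (nat_lit 5) (nat_lit 247) (nat_lit 5) (nat_lit 232) (nat_lit 5) (nat_lit 348) (nat_lit 331) (nat_lit 221))) (XT.nd (nat_lit 78) (nat_lit 1216) (nat_lit 0) (XT.lf (nat_lit 0) (nat_lit 1453482787) (nat_lit 1216) (nat_lit 2412558749)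 (nat_lit 76) (nat_lit 9878483581) (nat_lit 231) (nat_lit 5) (nat_lit 247) (nat_lit 5) (nat_lit 232) (nat_lit 5) (nat_lit 349) (nat_lit 331) (nat_lit 220)) (XT.lf (nat_lit 0) (nat_lit 2923417074) (nat_lit 1292) (nat_lit 9146666817) (nat_lit 76) (nat_lit 1890674735) (nat_lit 215) (nat_lit 5) (nat_lit 232) (nat_lit 5) (nat_lit 216) (nat_lit 5) (nat_lit 350) (nat_lit 331) (nat_lit 219))))))) (XT.nd (nat_lit 1014) (nat_lit 3040) (nat_lit 0) (XT.nd (nat_lit 468) (nat_lit 2052) (nat_lit 0) (XT.nd (nat_lit 234) (nat_lit 1140) (nat_lit 0) (XT.nd (nat_lit 78) (nat_lit 608) (nat_lit 0) (XT.lf (nat_lit 0) (nat_lit 4485682870) (nat_lit 1292) (nat_lit 1927664541) (nat_lit 76) (nat_lit 7768693648) (nat_lit 215) (nat_lit 5) (nat_lit 232) (nat_lit 5) (nat_lit 216) (nat_lit 5) (nat_lit 351) (nat_lit 331) (nat_lit 218)) (XT.nd (nat_lit 78) (nat_lit 0) (nat_lit 0) (XT.lf (nat_lit 0) (nat_lit 5604262894) (nat_lit 608) (nat_lit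 530204492) (nat_lit 684) (nat_lit 8274313720) (nat_lit 207) (nat_lit 5) (nat_lit 215) (nat_lit 5) (nat_lit 216) (nat_lit 5) (nat_lit 352) (nat_lit 331) (nat_lit 217)) (XT.lf (nat_lit 0) (nat_lit 7891605783) (nat_lit 684) (nat_lit 1306734241) (nat_lit 76) (nat_lit 5442225031) (nat_lit 207) (nat_lit 5) (nat_lit 216) (nat_lit 5) (nat_lit 208) (nat_lit 5) (nat_lit 353) (nat_lit 331) (nat_lit 216)))) (XT.nd (nat_lit 78) (nat_lit 608) (nat_lit 0) (XT.lf (nat_lit 0) (nat_lit 6525137170) (nat_lit 532) (nat_lit 3230779460) (nat_lit 608) (nat_lit 5121760310) (nat_lit 200) (nat_lit 5) (nat_lit 207) (nat_lit 5) (nat_lit 208) (nat_lit 5) (nat_lit 354) (nat_lit 331) (nat_lit 215)) (XT.nd (nat_lit 78) (nat_lit 608) (nat_lit 0) (XT.lf (nat_lit 0) (nat_lit 11704271463) (nat_lit 608) (nat_lit 544122277) (nat_lit 76) (nat_lit 2872672929) (nat_lit 200) (nat_lit 5) (nat_lit 208) (nat_lit 5) (nat_lit 201) (nat_lit 5) (nat_lit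 355) (nat_lit 331) (nat_lit 214)) (XT.lf (nat_lit 0) (nat_lit 7602080222) (nat_lit 608) (nat_lit 6201206138) (nat_lit 684) (nat_lit 1565713145) (nat_lit 192) (nat_lit 5) (nat_lit 200) (nat_lit 5) (nat_lit 201) (nat_lit 5) (nat_lit 356) (nat_lit 331) (nat_lit 213))))) (XT.nd (nat_lit 234) (nat_lit 912) (nat_lit 0) (XT.nd (nat_lit 78) (nat_lit 532) (nat_lit 0) (XT.lf (nat_lit 0) (nat_lit 331009919) (nat_lit 608) (nat_lit 15254213503) (nat_lit 76) (nat_lit 39153028) (nat_lit 184) (nat_lit 5) (nat_lit 192) (nat_lit 5) (nat_lit 185) (nat_lit 5) (nat_lit 357) (nat_lit 331) (nat_lit 212)) (XT.nd (nat_lit 78) (nat_lit 532) (nat_lit 0) (XT.lf (nat_lit 0) (nat_lit 2381280803) (nat_lit 608) (nat_lit 7065376457) (nat_lit 76) (nat_lit 6436455961) (nat_lit 184) (nat_lit 5) (nat_lit 192) (nat_lit 5) (nat_lit 185) (nat_lit 5) (nat_lit 358) (nat_lit 331) (nat_lit 211)) (XT.lf (nat_lit 0) (nat_lit 1383293676) (nat_lit 532)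 (nat_lit 3110937120) (nat_lit 608) (nat_lit 11655353009) (nat_lit 177) (nat_lit 5) (nat_lit 184) (nat_lit 5) (nat_lit 185) (nat_lit 5) (nat_lit 359) (nat_lit 331) (nat_lit 210)))) (XT.nd (nat_lit 156) (nat_lit 456) (nat_lit 0) (XT.nd (nat_lit 78) (nat_lit 456) (nat_lit 0) (XT.lf (nat_lit 0) (nat_lit 6763545109) (nat_lit 608) (nat_lit 6238238067) (nat_lit 76) (nat_lit 3419482696) (nat_lit 177) (nat_lit 5) (nat_lit 185) (nat_lit 5) (nat_lit 178) (nat_lit 5) (nat_lit 360) (nat_lit 331) (nat_lit 209)) (XT.lf (nat_lit 0) (nat_lit 2551977633) (nat_lit 456) (nat_lit 6592737724) (nat_lit 532) (nat_lit 7555076195) (nat_lit 171) (nat_lit 5) (nat_lit 177) (nat_lit 5) (nat_lit 178) (nat_lit 5) (nat_lit 361) (nat_lit 331) (nat_lit 208))) (XT.nd (nat_lit 78) (nat_lit 456) (nat_lit 0) (XT.lf (nat_lit 0) (nat_lit 11649669138) (nat_lit 532) (nat_lit 5264597187) (nat_lit 76) (nat_lit 70842483) (nat_lit 171) (nat_lit 5) (nat_lit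 178) (nat_lit 5) (nat_lit 172) (nat_lit 5) (nat_lit 362) (nat_lit 331) (nat_lit 207)) (XT.lf (nat_lit 0) (nat_lit 3883104674) (nat_lit 456) (nat_lit 10438247181) (nat_lit 532) (nat_lit 2954892393) (nat_lit 165) (nat_lit 5) (nat_lit 171) (nat_lit 5) (nat_lit 172) (nat_lit 5) (nat_lit 363) (nat_lit 331) (nat_lit 206)))))) (XT.nd (nat_lit 546) (nat_lit 1672) (nat_lit 0) (XT.nd (nat_lit 234) (nat_lit 836) (nat_lit 0) (XT.nd (nat_lit 78) (nat_lit 532) (nat_lit 0) (XT.lf (nat_lit 0) (nat_lit 13400769221) (nat_lit 456) (nat_lit 3714758783) (nat_lit 532) (nat_lit 459321358) (nat_lit 165) (nat_lit 5) (nat_lit 171) (nat_lit 5) (nat_lit 172) (nat_lit 5) (nat_lit 364) (nat_lit 331) (nat_lit 205)) (XT.nd (nat_lit 78) (nat_lit 0) (nat_lit 0) (XT.lf (nat_lit 0) (nat_lit 2142720055) (nat_lit 532) (nat_lit 12517855483) (nat_lit 76) (nat_lit 3219049890) (nat_lit 158) (nat_lit 5) (nat_lit 165) (nat_lit 5) (nat_lit 159) (nat_lit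 5) (nat_lit 365) (nat_lit 331) (nat_lit 204)) (XT.lf (nat_lit 0) (nat_lit 4882500529) (nat_lit 532) (nat_lit 2977190119) (nat_lit 76) (nat_lit 10331655801) (nat_lit 158) (nat_lit 5) (nat_lit 165) (nat_lit 5) (nat_lit 159) (nat_lit 5) (nat_lit 366) (nat_lit 331) (nat_lit 203)))) (XT.nd (nat_lit 156) (nat_lit 380) (nat_lit 0) (XT.nd (nat_lit 78) (nat_lit 0) (nat_lit 0) (XT.lf (nat_lit 0) (nat_lit 6973714306) (nat_lit 456) (nat_lit 787662302) (nat_lit 532) (nat_lit 10749340670) (nat_lit 152) (nat_lit 5) (nat_lit 158) (nat_lit 5) (nat_lit 159) (nat_lit 5) (nat_lit 367) (nat_lit 331) (nat_lit 202)) (XT.lf (nat_lit 0) (nat_lit 10809456768) (nat_lit 532) (nat_lit 1629567678) (nat_lit 76) (nat_lit 6398164741) (nat_lit 152) (nat_lit 5) (nat_lit 159) (nat_lit 5) (nat_lit 153) (nat_lit 5) (nat_lit 368) (nat_lit 331) (nat_lit 201))) (XT.nd (nat_lit 78) (nat_lit 0) (nat_lit 0) (XT.lf (nat_lit 0) (nat_lit 8725688394)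 (nat_lit 380) (nat_lit 5305284444) (nat_lit 456) (nat_lit 5140027550) (nat_lit 147) (nat_lit 5) (nat_lit 152) (nat_lit 5) (nat_lit 153) (nat_lit 5) (nat_lit 369) (nat_lit 331) (nat_lit 200)) (XT.lf (nat_lit 0) (nat_lit 17375851829) (nat_lit 456) (nat_lit 121147406) (nat_lit 76) (nat_lit 2017029964) (nat_lit 147) (nat_lit 5) (nat_lit 153) (nat_lit 5) (nat_lit 148) (nat_lit 5) (nat_lit 370) (nat_lit 331) (nat_lit 199))))) (XT.nd (nat_lit 234) (nat_lit 760) (nat_lit 0) (XT.nd (nat_lit 78) (nat_lit 380) (nat_lit 0) (XT.lf (nat_lit 0) (nat_lit 1082263277) (nat_lit 532) (nat_lit 9217106959) (nat_lit 76) (nat_lit 9563293755) (nat_lit 140) (nat_lit 5) (nat_lit 147) (nat_lit 5) (nat_lit 141) (nat_lit 5) (nat_lit 371) (nat_lit 331) (nat_lit 198)) (XT.nd (nat_lit 78) (nat_lit 0) (nat_lit 0) (XT.lf (nat_lit 0) (nat_lit 1512611103) (nat_lit 380) (nat_lit 2850313694) (nat_lit 456) (nat_lit 15858004831) (nat_lit 135)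 (nat_lit 5) (nat_lit 140) (nat_lit 5) (nat_lit 141) (nat_lit 5) (nat_lit 372) (nat_lit 331) (nat_lit 197)) (XT.lf (nat_lit 0) (nat_lit 7873294742) (nat_lit 456) (nat_lit 7893147550) (nat_lit 76) (nat_lit 4819566545) (nat_lit 135) (nat_lit 5) (nat_lit 141) (nat_lit 5) (nat_lit 136) (nat_lit 5) (nat_lit 373) (nat_lit 331) (nat_lit 196)))) (XT.nd (nat_lit 156) (nat_lit 380) (nat_lit 0) (XT.nd (nat_lit 78) (nat_lit 0) (nat_lit 0) (XT.lf (nat_lit 0) (nat_lit 3270540451) (nat_lit 380) (nat_lit 8269296896) (nat_lit 456) (nat_lit 9420681368) (nat_lit 130) (nat_lit 5) (nat_lit 135) (nat_lit 5) (nat_lit 136) (nat_lit 5) (nat_lit 374) (nat_lit 331) (nat_lit 195)) (XT.lf (nat_lit 0) (nat_lit 14919516791) (nat_lit 380) (nat_lit 467913382) (nat_lit 456) (nat_lit 5956706113) (nat_lit 130) (nat_lit 5) (nat_lit 135) (nat_lit 5) (nat_lit 136) (nat_lit 5) (nat_lit 375) (nat_lit 331) (nat_lit 194))) (XT.nd (nat_lit 78) (nat_lit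 76) (nat_lit 0) (XT.lf (nat_lit 0) (nat_lit 5196028359) (nat_lit 304) (nat_lit 14268688115) (nat_lit 380) (nat_lit 2271121842) (nat_lit 126) (nat_lit 5) (nat_lit 130) (nat_lit 5) (nat_lit 131) (nat_lit 5) (nat_lit 376) (nat_lit 331) (nat_lit 193)) (XT.lf (nat_lit 0) (nat_lit 1557048933) (nat_lit 380) (nat_lit 4871666419) (nat_lit 76) (nat_lit 15708286609) (nat_lit 125) (nat_lit 5) (nat_lit 130) (nat_lit 5) (nat_lit 126) (nat_lit 5) (nat_lit 377) (nat_lit 331) (nat_lit 192))))))))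
noncomputable def xc180 : XT := (XT.nd (nat_lit 2028) (nat_lit 2432) (nat_lit 0) (XT.nd (nat_lit 1014) (nat_lit 1824) (nat_lit 0) (XT.nd (nat_lit 468) (nat_lit 912) (nat_lit 0) (XT.nd (nat_lit 234) (nat_lit 684) (nat_lit 0) (XT.nd (nat_lit 78) (nat_lit 304) (nat_lit 0) (XT.lf (nat_lit 0) (nat_lit 5532734941) (nat_lit 456) (nat_lit 15309844865) (nat_lit 76) (nat_lit 1704600167) (nat_lit 120) (nat_lit 5) (nat_lit 126) (nat_lit 5) (nat_lit 121) (nat_lit 5) (nat_lit 378) (nat_lit 331) (nat_lit 191)) (XT.nd (nat_lit 78) (nat_lit 304) (nat_lit 0) (XT.lf (nat_lit 0) (nat_lit 9732997336) (nat_lit 456) (nat_lit 3234010140) (nat_lit 76) (nat_lit 9999500140) (nat_lit 120) (nat_lit 5) (nat_lit 126) (nat_lit 5) (nat_lit 121) (nat_lit 5) (nat_lit 379) (nat_lit 331) (nat_lit 190)) (XT.lf (nat_lit 0) (nat_lit 9376232634) (nat_lit 304) (nat_lit 4765372633) (nat_lit 380) (nat_lit 9254343056) (nat_lit 116) (nat_lit 5) (nat_lit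 120) (nat_lit 5) (nat_lit 121) (nat_lit 5) (nat_lit 380) (nat_lit 331) (nat_lit 189)))) (XT.nd (nat_lit 78) (nat_lit 684) (nat_lit 0) (XT.lf (nat_lit 0) (nat_lit 18743150636) (nat_lit 380) (nat_lit 1452864592) (nat_lit 76) (nat_lit 3640439913) (nat_lit 116) (nat_lit 5) (nat_lit 121) (nat_lit 5) (nat_lit 117) (nat_lit 5) (nat_lit 381) (nat_lit 331) (nat_lit 188)) (XT.nd (nat_lit 78) (nat_lit 380) (nat_lit 0) (XT.lf (nat_lit 0) (nat_lit 11660742718) (nat_lit 304) (nat_lit 11973798030) (nat_lit 380) (nat_lit 651085635) (nat_lit 112) (nat_lit 5) (nat_lit 116) (nat_lit 5) (nat_lit 117) (nat_lit 5) (nat_lit 382) (nat_lit 331) (nat_lit 187)) (XT.lf (nat_lit 0) (nat_lit 409165828) (nat_lit 304) (nat_lit 3449971399) (nat_lit 380) (nat_lit 20887667315) (nat_lit 107) (nat_lit 5) (nat_lit 111) (nat_lit 5) (nat_lit 112) (nat_lit 5) (nat_lit 383) (nat_lit 331) (nat_lit 186))))) (XT.nd (nat_lit 234) (nat_lit 608) (nat_lit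 0) (XT.nd (nat_lit 78) (nat_lit 304) (nat_lit 0) (XT.lf (nat_lit 0) (nat_lit 8664211564) (nat_lit 380) (nat_lit 11194642877) (nat_lit 76) (nat_lit 5357594185) (nat_lit 107) (nat_lit 5) (nat_lit 112) (nat_lit 5) (nat_lit 108) (nat_lit 5) (nat_lit 384) (nat_lit 331) (nat_lit 185)) (XT.nd (nat_lit 78) (nat_lit 0) (nat_lit 0) (XT.lf (nat_lit 0) (nat_lit 2343789156) (nat_lit 304) (nat_lit 11319202151) (nat_lit 380) (nat_lit 12035706949) (nat_lit 103) (nat_lit 5) (nat_lit 107) (nat_lit 5) (nat_lit 108) (nat_lit 5) (nat_lit 385) (nat_lit 331) (nat_lit 184)) (XT.lf (nat_lit 0) (nat_lit 16507524310) (nat_lit 304) (nat_lit 2410227708) (nat_lit 380) (nat_lit 7274485564) (nat_lit 103) (nat_lit 5) (nat_lit 107) (nat_lit 5) (nat_lit 108) (nat_lit 5) (nat_lit 386) (nat_lit 331) (nat_lit 183)))) (XT.nd (nat_lit 156) (nat_lit 304) (nat_lit 0) (XT.nd (nat_lit 78) (nat_lit 76) (nat_lit 0) (XT.lf (nat_lit 0) (nat_lit 4406327990)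 (nat_lit 228) (nat_lit 20024370426) (nat_lit 304) (nat_lit 2266871043) (nat_lit 100) (nat_lit 5) (nat_lit 103) (nat_lit 5) (nat_lit 104) (nat_lit 5) (nat_lit 387) (nat_lit 331) (nat_lit 182)) (XT.lf (nat_lit 0) (nat_lit 2950367735) (nat_lit 304) (nat_lit 8159364349) (nat_lit 76) (nat_lit 16104023744) (nat_lit 99) (nat_lit 5) (nat_lit 103) (nat_lit 5) (nat_lit 100) (nat_lit 5) (nat_lit 388) (nat_lit 331) (nat_lit 181))) (XT.nd (nat_lit 78) (nat_lit 0) (nat_lit 0) (XT.lf (nat_lit 0) (nat_lit 6490737966) (nat_lit 304) (nat_lit 1843595972) (nat_lit 380) (nat_lit 19408749790) (nat_lit 95) (nat_lit 5) (nat_lit 99) (nat_lit 5) (nat_lit 100) (nat_lit 5) (nat_lit 389) (nat_lit 331) (nat_lit 180)) (XT.lf (nat_lit 0) (nat_lit 14030496046) (nat_lit 380) (nat_lit 6623068375) (nat_lit 76) (nat_lit 7630209094) (nat_lit 95) (nat_lit 5) (nat_lit 100) (nat_lit 5) (nat_lit 96) (nat_lit 5) (nat_lit 390) (nat_lit 331) (nat_lit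 179)))))) (XT.nd (nat_lit 468) (nat_lit 988) (nat_lit 0) (XT.nd (nat_lit 234) (nat_lit 228) (nat_lit 0) (XT.nd (nat_lit 78) (nat_lit 380) (nat_lit 0) (XT.lf (nat_lit 0) (nat_lit 8584629480) (nat_lit 228) (nat_lit 11407323991) (nat_lit 304) (nat_lit 8845900503) (nat_lit 92) (nat_lit 5) (nat_lit 95) (nat_lit 5) (nat_lit 96) (nat_lit 5) (nat_lit 391) (nat_lit 331) (nat_lit 178)) (XT.nd (nat_lit 78) (nat_lit 380) (nat_lit 0) (XT.lf (nat_lit 0) (nat_lit 24374698519) (nat_lit 228) (nat_lit 1818165241) (nat_lit 304) (nat_lit 3213877036) (nat_lit 92) (nat_lit 5) (nat_lit 95) (nat_lit 5) (nat_lit 96) (nat_lit 5) (nat_lit 392) (nat_lit 331) (nat_lit 177)) (XT.lf (nat_lit 0) (nat_lit 2713215633) (nat_lit 380) (nat_lit 19245098319) (nat_lit 76) (nat_lit 8028338534) (nat_lit 87) (nat_lit 5) (nat_lit 92) (nat_lit 5) (nat_lit 88) (nat_lit 5) (nat_lit 393) (nat_lit 331) (nat_lit 176)))) (XT.nd (nat_lit 78) (nat_lit 228)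 (nat_lit 0) (XT.lf (nat_lit 0) (nat_lit 8816750354) (nat_lit 380) (nat_lit 3550781438) (nat_lit 76) (nat_lit 18213580402) (nat_lit 87) (nat_lit 5) (nat_lit 92) (nat_lit 5) (nat_lit 88) (nat_lit 5) (nat_lit 394) (nat_lit 331) (nat_lit 175)) (XT.nd (nat_lit 78) (nat_lit 0) (nat_lit 0) (XT.lf (nat_lit 0) (nat_lit 12855979515) (nat_lit 228) (nat_lit 2365075137) (nat_lit 304) (nat_lit 15968823112) (nat_lit 84) (nat_lit 5) (nat_lit 87) (nat_lit 5) (nat_lit 88) (nat_lit 5) (nat_lit 395) (nat_lit 331) (nat_lit 174)) (XT.lf (nat_lit 0) (nat_lit 21924134933) (nat_lit 304) (nat_lit 2074060533) (nat_lit 76) (nat_lit 7815513348) (nat_lit 84) (nat_lit 5) (nat_lit 88) (nat_lit 5) (nat_lit 85) (nat_lit 5) (nat_lit 396) (nat_lit 331) (nat_lit 173))))) (XT.nd (nat_lit 234) (nat_lit 456) (nat_lit 0) (XT.nd (nat_lit 78) (nat_lit 304) (nat_lit 0) (XT.lf (nat_lit 0) (nat_lit 14932507728) (nat_lit 228) (nat_lit 14057063906) (nat_lit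 304) (nat_lit 3461847104) (nat_lit 81) (nat_lit 5) (nat_lit 84) (nat_lit 5) (nat_lit 85) (nat_lit 5) (nat_lit 397) (nat_lit 331) (nat_lit 172)) (XT.nd (nat_lit 78) (nat_lit 228) (nat_lit 0) (XT.lf (nat_lit 0) (nat_lit 3112554444) (nat_lit 304) (nat_lit 655474270) (nat_lit 76) (nat_lit 29338857672) (nat_lit 80) (nat_lit 5) (nat_lit 84) (nat_lit 5) (nat_lit 81) (nat_lit 5) (nat_lit 398) (nat_lit 331) (nat_lit 171)) (XT.lf (nat_lit 0) (nat_lit 10040119108) (nat_lit 304) (nat_lit 16841256262) (nat_lit 76) (nat_lit 6892850805) (nat_lit 77) (nat_lit 5) (nat_lit 81) (nat_lit 5) (nat_lit 78) (nat_lit 5) (nat_lit 399) (nat_lit 331) (nat_lit 170)))) (XT.nd (nat_lit 156) (nat_lit 228) (nat_lit 0) (XT.nd (nat_lit 78) (nat_lit 0) (nat_lit 0) (XT.lf (nat_lit 0) (nat_lit 565943411) (nat_lit 228) (nat_lit 16653538970) (nat_lit 304) (nat_lit 17240786282) (nat_lit 74) (nat_lit 5) (nat_lit 77) (nat_lit 5) (nat_lit 78) (nat_lit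 5) (nat_lit 400) (nat_lit 331) (nat_lit 169)) (XT.lf (nat_lit 0) (nat_lit 18831831174) (nat_lit 228) (nat_lit 5947073624) (nat_lit 304) (nat_lit 10383048886) (nat_lit 74) (nat_lit 5) (nat_lit 77) (nat_lit 5) (nat_lit 78) (nat_lit 5) (nat_lit 401) (nat_lit 331) (nat_lit 168))) (XT.nd (nat_lit 78) (nat_lit 76) (nat_lit 0) (XT.lf (nat_lit 0) (nat_lit 1737443361) (nat_lit 152) (nat_lit 30887945561) (nat_lit 228) (nat_lit 3257493522) (nat_lit 72) (nat_lit 5) (nat_lit 74) (nat_lit 5) (nat_lit 75) (nat_lit 5) (nat_lit 402) (nat_lit 331) (nat_lit 167)) (XT.lf (nat_lit 0) (nat_lit 4222352334) (nat_lit 228) (nat_lit 16047106162) (nat_lit 76) (nat_lit 16348199681) (nat_lit 71) (nat_lit 5) (nat_lit 74) (nat_lit 5) (nat_lit 72) (nat_lit 5) (nat_lit 403) (nat_lit 331) (nat_lit 166))))))) (XT.nd (nat_lit 1014) (nat_lit 1216) (nat_lit 0) (XT.nd (nat_lit 468) (nat_lit 532) (nat_lit 0) (XT.nd (nat_lit 234) (nat_lit 304)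 (nat_lit 0) (XT.nd (nat_lit 78) (nat_lit 152) (nat_lit 0) (XT.lf (nat_lit 0) (nat_lit 2604346232) (nat_lit 228) (nat_lit 9276720361) (nat_lit 304) (nat_lit 25491846081) (nat_lit 68) (nat_lit 5) (nat_lit 71) (nat_lit 5) (nat_lit 72) (nat_lit 5) (nat_lit 404) (nat_lit 331) (nat_lit 165)) (XT.nd (nat_lit 78) (nat_lit 152) (nat_lit 0) (XT.lf (nat_lit 0) (nat_lit 19947803936) (nat_lit 304) (nat_lit 16031377493) (nat_lit 76) (nat_lit 2166296914) (nat_lit 68) (nat_lit 5) (nat_lit 72) (nat_lit 5) (nat_lit 69) (nat_lit 5) (nat_lit 405) (nat_lit 331) (nat_lit 164)) (XT.lf (nat_lit 0) (nat_lit 3230935024) (nat_lit 152) (nat_lit 25143609444) (nat_lit 228) (nat_lit 10563137827) (nat_lit 66) (nat_lit 5) (nat_lit 68) (nat_lit 5) (nat_lit 69) (nat_lit 5) (nat_lit 406) (nat_lit 331) (nat_lit 163)))) (XT.nd (nat_lit 78) (nat_lit 304) (nat_lit 0) (XT.lf (nat_lit 0) (nat_lit 23391634177) (nat_lit 152) (nat_lit 13819498062)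 (nat_lit 228) (nat_lit 2537810083) (nat_lit 66) (nat_lit 5) (nat_lit 68) (nat_lit 5) (nat_lit 69) (nat_lit 5) (nat_lit 407) (nat_lit 331) (nat_lit 162)) (XT.nd (nat_lit 78) (nat_lit 0) (nat_lit 0) (XT.lf (nat_lit 0) (nat_lit 3579428231) (nat_lit 228) (nat_lit 2066730343) (nat_lit 304) (nat_lit 34935841084) (nat_lit 62) (nat_lit 5) (nat_lit 65) (nat_lit 5) (nat_lit 66) (nat_lit 5) (nat_lit 408) (nat_lit 331) (nat_lit 161)) (XT.lf (nat_lit 0) (nat_lit 14283232674) (nat_lit 304) (nat_lit 17116780071) (nat_lit 76) (nat_lit 10031525543) (nat_lit 62) (nat_lit 5) (nat_lit 66) (nat_lit 5) (nat_lit 63) (nat_lit 5) (nat_lit 409) (nat_lit 331) (nat_lit 160))))) (XT.nd (nat_lit 234) (nat_lit 228) (nat_lit 0) (XT.nd (nat_lit 78) (nat_lit 152) (nat_lit 0) (XT.lf (nat_lit 0) (nat_lit 3403772766) (nat_lit 152) (nat_lit 19824249742) (nat_lit 228) (nat_lit 19077083625) (nat_lit 60) (nat_lit 5) (nat_lit 62) (nat_lit 5) (nat_lit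 63) (nat_lit 5) (nat_lit 410) (nat_lit 331) (nat_lit 159)) (XT.nd (nat_lit 78) (nat_lit 152) (nat_lit 0) (XT.lf (nat_lit 0) (nat_lit 24883126120) (nat_lit 152) (nat_lit 7726356918) (nat_lit 228) (nat_lit 10590349292) (nat_lit 60) (nat_lit 5) (nat_lit 62) (nat_lit 5) (nat_lit 63) (nat_lit 5) (nat_lit 411) (nat_lit 331) (nat_lit 158)) (XT.lf (nat_lit 0) (nat_lit 2888746676) (nat_lit 152) (nat_lit 39452502836) (nat_lit 228) (nat_lit 1778086032) (nat_lit 58) (nat_lit 5) (nat_lit 60) (nat_lit 5) (nat_lit 61) (nat_lit 5) (nat_lit 412) (nat_lit 331) (nat_lit 157)))) (XT.nd (nat_lit 156) (nat_lit 0) (nat_lit 0) (XT.nd (nat_lit 78) (nat_lit 152) (nat_lit 0) (XT.lf (nat_lit 0) (nat_lit 7415012374) (nat_lit 228) (nat_lit 20111112023) (nat_lit 76) (nat_lit 17530429101) (nat_lit 57) (nat_lit 5) (nat_lit 60) (nat_lit 5) (nat_lit 58) (nat_lit 5) (nat_lit 413) (nat_lit 331) (nat_lit 156)) (XT.lf (nat_lit 0) (nat_lit 1649159590)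 (nat_lit 152) (nat_lit 15210582832) (nat_lit 228) (nat_lit 29161271133) (nat_lit 55) (nat_lit 5) (nat_lit 57) (nat_lit 5) (nat_lit 58) (nat_lit 5) (nat_lit 414) (nat_lit 331) (nat_lit 155))) (XT.nd (nat_lit 78) (nat_lit 0) (nat_lit 0) (XT.lf (nat_lit 0) (nat_lit 24467203875) (nat_lit 152) (nat_lit 2319471461) (nat_lit 228) (nat_lit 20221767220) (nat_lit 55) (nat_lit 5) (nat_lit 57) (nat_lit 5) (nat_lit 58) (nat_lit 5) (nat_lit 415) (nat_lit 331) (nat_lit 154)) (XT.lf (nat_lit 0) (nat_lit 37112627291) (nat_lit 228) (nat_lit 168219891) (nat_lit 76) (nat_lit 10741611856) (nat_lit 55) (nat_lit 5) (nat_lit 58) (nat_lit 5) (nat_lit 56) (nat_lit 5) (nat_lit 416) (nat_lit 331) (nat_lit 153)))))) (XT.nd (nat_lit 546) (nat_lit 456) (nat_lit 0) (XT.nd (nat_lit 234) (nat_lit 380) (nat_lit 0) (XT.nd (nat_lit 78) (nat_lit 228) (nat_lit 0) (XT.lf (nat_lit 0) (nat_lit 23300738385) (nat_lit 152) (nat_lit 24690558120) (nat_lit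 228) (nat_lit 1068312266) (nat_lit 53) (nat_lit 5) (nat_lit 55) (nat_lit 5) (nat_lit 56) (nat_lit 5) (nat_lit 417) (nat_lit 331) (nat_lit 152)) (XT.nd (nat_lit 78) (nat_lit 152) (nat_lit 0) (XT.lf (nat_lit 0) (nat_lit 8889213168) (nat_lit 228) (nat_lit 2744776066) (nat_lit 76) (nat_lit 38491337924) (nat_lit 52) (nat_lit 5) (nat_lit 55) (nat_lit 5) (nat_lit 53) (nat_lit 5) (nat_lit 418) (nat_lit 331) (nat_lit 151)) (XT.lf (nat_lit 0) (nat_lit 19344979001) (nat_lit 228) (nat_lit 29877025036) (nat_lit 76) (nat_lit 1994066978) (nat_lit 50) (nat_lit 5) (nat_lit 53) (nat_lit 5) (nat_lit 51) (nat_lit 5) (nat_lit 419) (nat_lit 331) (nat_lit 150)))) (XT.nd (nat_lit 156) (nat_lit 228) (nat_lit 0) (XT.nd (nat_lit 78) (nat_lit 152) (nat_lit 0) (XT.lf (nat_lit 0) (nat_lit 30253737420) (nat_lit 228) (nat_lit 6259318056) (nat_lit 76) (nat_lit 15822302938) (nat_lit 50) (nat_lit 5) (nat_lit 53) (nat_lit 5) (nat_lit 51)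 (nat_lit 5) (nat_lit 420) (nat_lit 331) (nat_lit 149)) (XT.lf (nat_lit 0) (nat_lit 18419756071) (nat_lit 152) (nat_lit 23243317219) (nat_lit 228) (nat_lit 11819952494) (nat_lit 48) (nat_lit 5) (nat_lit 50) (nat_lit 5) (nat_lit 51) (nat_lit 5) (nat_lit 421) (nat_lit 331) (nat_lit 148))) (XT.nd (nat_lit 78) (nat_lit 228) (nat_lit 0) (XT.lf (nat_lit 0) (nat_lit 43960977163) (nat_lit 152) (nat_lit 9513217972) (nat_lit 228) (nat_lit 1189143630) (nat_lit 48) (nat_lit 5) (nat_lit 50) (nat_lit 5) (nat_lit 51) (nat_lit 5) (nat_lit 422) (nat_lit 331) (nat_lit 147)) (XT.lf (nat_lit 0) (nat_lit 9753369197) (nat_lit 228) (nat_lit 41345424234) (nat_lit 76) (nat_lit 4771956366) (nat_lit 45) (nat_lit 5) (nat_lit 48) (nat_lit 5) (nat_lit 46) (nat_lit 5) (nat_lit 423) (nat_lit 331) (nat_lit 146))))) (XT.nd (nat_lit 234) (nat_lit 304) (nat_lit 0) (XT.nd (nat_lit 78) (nat_lit 152) (nat_lit 0) (XT.lf (nat_lit 0) (nat_lit 21199978519)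 (nat_lit 228) (nat_lit 16495380170) (nat_lit 76) (nat_lit 19412680312) (nat_lit 45) (nat_lit 5) (nat_lit 48) (nat_lit 5) (nat_lit 46) (nat_lit 5) (nat_lit 424) (nat_lit 331) (nat_lit 145)) (XT.nd (nat_lit 78) (nat_lit 0) (nat_lit 0) (XT.lf (nat_lit 0) (nat_lit 9274902992) (nat_lit 152) (nat_lit 23800732905) (nat_lit 228) (nat_lit 25304242173) (nat_lit 43) (nat_lit 5) (nat_lit 45) (nat_lit 5) (nat_lit 46) (nat_lit 5) (nat_lit 425) (nat_lit 331) (nat_lit 144)) (XT.lf (nat_lit 0) (nat_lit 36150246048) (nat_lit 152) (nat_lit 9320424321) (nat_lit 228) (nat_lit 14214309381) (nat_lit 43) (nat_lit 5) (nat_lit 45) (nat_lit 5) (nat_lit 46) (nat_lit 5) (nat_lit 426) (nat_lit 331) (nat_lit 143)))) (XT.nd (nat_lit 156) (nat_lit 152) (nat_lit 0) (XT.nd (nat_lit 78) (nat_lit 76) (nat_lit 0) (XT.lf (nat_lit 0) (nat_lit 2797341755) (nat_lit 76) (nat_lit 55517491491) (nat_lit 152) (nat_lit 2712083558) (nat_lit 42) (nat_lit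 5) (nat_lit 43) (nat_lit 5) (nat_lit 44) (nat_lit 4) (nat_lit 427) (nat_lit 331) (nat_lit 142)) (XT.lf (nat_lit 0) (nat_lit 9285856178) (nat_lit 152) (nat_lit 32188703400) (nat_lit 76) (nat_lit 20922051360) (nat_lit 41) (nat_lit 5) (nat_lit 43) (nat_lit 5) (nat_lit 42) (nat_lit 5) (nat_lit 428) (nat_lit 331) (nat_lit 141))) (XT.nd (nat_lit 78) (nat_lit 152) (nat_lit 0) (XT.lf (nat_lit 0) (nat_lit 21585941254) (nat_lit 152) (nat_lit 5399372335) (nat_lit 76) (nat_lit 36821375806) (nat_lit 41) (nat_lit 5) (nat_lit 43) (nat_lit 5) (nat_lit 42) (nat_lit 5) (nat_lit 429) (nat_lit 331) (nat_lit 140)) (XT.lf (nat_lit 0) (nat_lit 22629479151) (nat_lit 152) (nat_lit 11839891081) (nat_lit 228) (nat_lit 30783270305) (nat_lit 39) (nat_lit 5) (nat_lit 41) (nat_lit 5) (nat_lit 42) (nat_lit 5) (nat_lit 430) (nat_lit 331) (nat_lit 139))))))))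
noncomputable def xc181 : XT := (XT.nd (nat_lit 40716) (nat_lit 0) (nat_lit 6840) (XT.nd (nat_lit 39702) (nat_lit 0) (nat_lit 13680) (XT.nd (nat_lit 39156) (nat_lit 0) (nat_lit 15656) (XT.nd (nat_lit 234) (nat_lit 152) (nat_lit 0) (XT.nd (nat_lit 78) (nat_lit 152) (nat_lit 0) (XT.lf (nat_lit 0) (nat_lit 47827334125) (nat_lit 228) (nat_lit 15172895228) (nat_lit 76) (nat_lit 3739100453) (nat_lit 39) (nat_lit 5) (nat_lit 42) (nat_lit 5) (nat_lit 40) (nat_lit 4) (nat_lit 431) (nat_lit 331) (nat_lit 138)) (XT.nd (nat_lit 78) (nat_lit 76) (nat_lit 0) (XT.lf (nat_lit 0) (nat_lit 13236352350) (nat_lit 76) (nat_lit 48591066305) (nat_lit 152) (nat_lit 6435960184) (nat_lit 38) (nat_lit 5) (nat_lit 39) (nat_lit 5) (nat_lit 40) (nat_lit 4) (nat_lit 432) (nat_lit 331) (nat_lit 137)) (XT.lf (nat_lit 0) (nat_lit 6440847711) (nat_lit 152) (nat_lit 27088417471) (nat_lit 76) (nat_lit 36297485153) (nat_lit 37) (nat_lit 5)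 (nat_lit 39) (nat_lit 5) (nat_lit 38) (nat_lit 5) (nat_lit 433) (nat_lit 331) (nat_lit 136)))) (XT.nd (nat_lit 78) (nat_lit 0) (nat_lit 0) (XT.lf (nat_lit 0) (nat_lit 1651419830) (nat_lit 152) (nat_lit 17936072649) (nat_lit 228) (nat_lit 51847232644) (nat_lit 35) (nat_lit 5) (nat_lit 37) (nat_lit 5) (nat_lit 38) (nat_lit 5) (nat_lit 434) (nat_lit 331) (nat_lit 135)) (XT.nd (nat_lit 78) (nat_lit 0) (nat_lit 0) (XT.lf (nat_lit 0) (nat_lit 31803358755) (nat_lit 152) (nat_lit 1595767587) (nat_lit 228) (nat_lit 39683695599) (nat_lit 35) (nat_lit 5) (nat_lit 37) (nat_lit 5) (nat_lit 38) (nat_lit 5) (nat_lit 435) (nat_lit 331) (nat_lit 134)) (XT.lf (nat_lit 0) (nat_lit 47768668028) (nat_lit 228) (nat_lit 12072238052) (nat_lit 76) (nat_lit 14935149284) (nat_lit 35) (nat_lit 5) (nat_lit 38) (nat_lit 5) (nat_lit 36) (nat_lit 4) (nat_lit 436) (nat_lit 331) (nat_lit 133))))) (XT.nd (nat_lit 234) (nat_lit 1064) (nat_lit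 0) (XT.nd (nat_lit 78) (nat_lit 0) (nat_lit 0) (XT.lf (nat_lit 0) (nat_lit 4347494010) (nat_lit 1140) (nat_lit 549808789) (nat_lit 1140) (nat_lit 549808789) (nat_lit 255) (nat_lit 3) (nat_lit 270) (nat_lit 3) (nat_lit 270) (nat_lit 5) (nat_lit 332) (nat_lit 332) (nat_lit 236)) (XT.nd (nat_lit 78) (nat_lit 0) (nat_lit 0) (XT.lf (nat_lit 76) (nat_lit 4152190562) (nat_lit 0) (nat_lit 5276754620) (nat_lit 1140) (nat_lit 1610196131) (nat_lit 256) (nat_lit 5) (nat_lit 255) (nat_lit 3) (nat_lit 270) (nat_lit 5) (nat_lit 333) (nat_lit 332) (nat_lit 235)) (XT.lf (nat_lit 76) (nat_lit 9572532648) (nat_lit 0) (nat_lit 601384786) (nat_lit 1140) (nat_lit 1014834858) (nat_lit 256) (nat_lit 5) (nat_lit 255) (nat_lit 3) (nat_lit 270) (nat_lit 5) (nat_lit 334) (nat_lit 332) (nat_lit 234)))) (XT.nd (nat_lit 156) (nat_lit 0) (nat_lit 76) (XT.nd (nat_lit 78) (nat_lit 1140) (nat_lit 0) (XT.lf (nat_lit 76) (nat_lit 3834975949)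 (nat_lit 0) (nat_lit 7162271679) (nat_lit 1140) (nat_lit 343938457) (nat_lit 257) (nat_lit 5) (nat_lit 256) (nat_lit 5) (nat_lit 271) (nat_lit 5) (nat_lit 335) (nat_lit 332) (nat_lit 233)) (XT.lf (nat_lit 0) (nat_lit 341670931) (nat_lit 1140) (nat_lit 2036614876) (nat_lit 1216) (nat_lit 9119780127) (nat_lit 241) (nat_lit 5) (nat_lit 256) (nat_lit 5) (nat_lit 257) (nat_lit 5) (nat_lit 336) (nat_lit 332) (nat_lit 232))) (XT.nd (nat_lit 78) (nat_lit 0) (nat_lit 0) (XT.lf (nat_lit 0) (nat_lit 1080555039) (nat_lit 1140) (nat_lit 8031085197) (nat_lit 1216) (nat_lit 2546734701) (nat_lit 242) (nat_lit 5) (nat_lit 257) (nat_lit 5) (nat_lit 258) (nat_lit 5) (nat_lit 337) (nat_lit 332) (nat_lit 231)) (XT.lf (nat_lit 0) (nat_lit 1866019642) (nat_lit 1140) (nat_lit 2356280516) (nat_lit 1216) (nat_lit 7600473737) (nat_lit 242) (nat_lit 5) (nat_lit 257) (nat_lit 5) (nat_lit 258) (nat_lit 5) (nat_lit 338) (nat_lit 332)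 (nat_lit 230)))))) (XT.nd (nat_lit 468) (nat_lit 2128) (nat_lit 0) (XT.nd (nat_lit 234) (nat_lit 0) (nat_lit 76) (XT.nd (nat_lit 78) (nat_lit 0) (nat_lit 0) (XT.lf (nat_lit 0) (nat_lit 2698037940) (nat_lit 1140) (nat_lit 8454092178) (nat_lit 1216) (nat_lit 839297733) (nat_lit 243) (nat_lit 5) (nat_lit 258) (nat_lit 5) (nat_lit 259) (nat_lit 5) (nat_lit 339) (nat_lit 332) (nat_lit 229)) (XT.nd (nat_lit 78) (nat_lit 0) (nat_lit 0) (XT.lf (nat_lit 0) (nat_lit 3602040961) (nat_lit 1140) (nat_lit 2563080601) (nat_lit 1216) (nat_lit 5998621491) (nat_lit 243) (nat_lit 5) (nat_lit 258) (nat_lit 5) (nat_lit 259) (nat_lit 5) (nat_lit 340) (nat_lit 332) (nat_lit 228)) (XT.lf (nat_lit 76) (nat_lit 3561860967) (nat_lit 0) (nat_lit 987279587) (nat_lit 1216) (nat_lit 7791619854) (nat_lit 244) (nat_lit 5) (nat_lit 243) (nat_lit 5) (nat_lit 259) (nat_lit 5) (nat_lit 341) (nat_lit 332) (nat_lit 227)))) (XT.nd (nat_lit 78)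 (nat_lit 0) (nat_lit 0) (XT.lf (nat_lit 0) (nat_lit 5574773829) (nat_lit 1140) (nat_lit 2654038044) (nat_lit 1216) (nat_lit 4292784433) (nat_lit 244) (nat_lit 5) (nat_lit 259) (nat_lit 5) (nat_lit 260) (nat_lit 5) (nat_lit 342) (nat_lit 332) (nat_lit 226)) (XT.nd (nat_lit 78) (nat_lit 0) (nat_lit 76) (XT.lf (nat_lit 76) (nat_lit 3704672093) (nat_lit 0) (nat_lit 2954615792) (nat_lit 1216) (nat_lit 6047737344) (nat_lit 245) (nat_lit 5) (nat_lit 244) (nat_lit 5) (nat_lit 260) (nat_lit 5) (nat_lit 343) (nat_lit 332) (nat_lit 225)) (XT.lf (nat_lit 0) (nat_lit 7810375843) (nat_lit 1140) (nat_lit 2625601553) (nat_lit 1216) (nat_lit 2461029446) (nat_lit 245) (nat_lit 5) (nat_lit 260) (nat_lit 5) (nat_lit 261) (nat_lit 5) (nat_lit 344) (nat_lit 332) (nat_lit 224))))) (XT.nd (nat_lit 234) (nat_lit 2280) (nat_lit 0) (XT.nd (nat_lit 78) (nat_lit 0) (nat_lit 76) (XT.lf (nat_lit 76) (nat_lit 3978351586) (nat_lit 0) (nat_lit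 5068785830) (nat_lit 1216) (nat_lit 4044026912) (nat_lit 246) (nat_lit 5) (nat_lit 245) (nat_lit 5) (nat_lit 261) (nat_lit 5) (nat_lit 345) (nat_lit 332) (nat_lit 223)) (XT.nd (nat_lit 78) (nat_lit 0) (nat_lit 0) (XT.lf (nat_lit 0) (nat_lit 10336231591) (nat_lit 1140) (nat_lit 2473666562) (nat_lit 1216) (nat_lit 480801837) (nat_lit 246) (nat_lit 5) (nat_lit 261) (nat_lit 5) (nat_lit 262) (nat_lit 5) (nat_lit 346) (nat_lit 332) (nat_lit 222)) (XT.lf (nat_lit 76) (nat_lit 4387578420) (nat_lit 0) (nat_lit 7353284758) (nat_lit 1216) (nat_lit 1753062650) (nat_lit 247) (nat_lit 5) (nat_lit 246) (nat_lit 5) (nat_lit 262) (nat_lit 5) (nat_lit 347) (nat_lit 332) (nat_lit 221)))) (XT.nd (nat_lit 156) (nat_lit 1216) (nat_lit 0) (XT.nd (nat_lit 78) (nat_lit 1140) (nat_lit 0) (XT.lf (nat_lit 76) (nat_lit 11492984068) (nat_lit 0) (nat_lit 1704463666) (nat_lit 1216) (nat_lit 505516037) (nat_lit 247) (nat_lit 5) (nat_lit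 246) (nat_lit 5) (nat_lit 262) (nat_lit 5) (nat_lit 348) (nat_lit 332) (nat_lit 220)) (XT.lf (nat_lit 0) (nat_lit 837263764) (nat_lit 1216) (nat_lit 8986737818) (nat_lit 76) (nat_lit 4091865178) (nat_lit 231) (nat_lit 5) (nat_lit 247) (nat_lit 5) (nat_lit 232) (nat_lit 5) (nat_lit 349) (nat_lit 332) (nat_lit 219))) (XT.nd (nat_lit 78) (nat_lit 1216) (nat_lit 0) (XT.lf (nat_lit 0) (nat_lit 2235040000) (nat_lit 1216) (nat_lit 1841552595) (nat_lit 76) (nat_lit 10057676811) (nat_lit 231) (nat_lit 5) (nat_lit 247) (nat_lit 5) (nat_lit 232) (nat_lit 5) (nat_lit 350) (nat_lit 332) (nat_lit 218)) (XT.lf (nat_lit 0) (nat_lit 3732880552) (nat_lit 1292) (nat_lit 8761052450) (nat_lit 76) (nat_lit 1863555863) (nat_lit 215) (nat_lit 5) (nat_lit 232) (nat_lit 5) (nat_lit 216) (nat_lit 5) (nat_lit 351) (nat_lit 332) (nat_lit 217))))))) (XT.nd (nat_lit 1014) (nat_lit 3040) (nat_lit 0) (XT.nd (nat_lit 468) (nat_lit 2052)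 (nat_lit 0) (XT.nd (nat_lit 234) (nat_lit 1140) (nat_lit 0) (XT.nd (nat_lit 78) (nat_lit 608) (nat_lit 0) (XT.lf (nat_lit 0) (nat_lit 5320992157) (nat_lit 1292) (nat_lit 1344703826) (nat_lit 76) (nat_lit 7920357260) (nat_lit 215) (nat_lit 5) (nat_lit 232) (nat_lit 5) (nat_lit 216) (nat_lit 5) (nat_lit 352) (nat_lit 332) (nat_lit 216)) (XT.nd (nat_lit 78) (nat_lit 0) (nat_lit 0) (XT.lf (nat_lit 0) (nat_lit 6406899171) (nat_lit 608) (nat_lit 598030452) (nat_lit 684) (nat_lit 7815107618) (nat_lit 207) (nat_lit 5) (nat_lit 215) (nat_lit 5) (nat_lit 216) (nat_lit 5) (nat_lit 353) (nat_lit 332) (nat_lit 215)) (XT.lf (nat_lit 0) (nat_lit 8794304569) (nat_lit 684) (nat_lit 709028721) (nat_lit 76) (nat_lit 5556067818) (nat_lit 207) (nat_lit 5) (nat_lit 216) (nat_lit 5) (nat_lit 208) (nat_lit 5) (nat_lit 354) (nat_lit 332) (nat_lit 214)))) (XT.nd (nat_lit 78) (nat_lit 608) (nat_lit 0) (XT.lf (nat_lit 0) (nat_lit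 7351554640) (nat_lit 532) (nat_lit 3349655803) (nat_lit 608) (nat_lit 4602827655) (nat_lit 200) (nat_lit 5) (nat_lit 207) (nat_lit 5) (nat_lit 208) (nat_lit 5) (nat_lit 355) (nat_lit 332) (nat_lit 213)) (XT.nd (nat_lit 78) (nat_lit 0) (nat_lit 0) (XT.lf (nat_lit 0) (nat_lit 72862792) (nat_lit 608) (nat_lit 12616640409) (nat_lit 684) (nat_lit 2865793078) (nat_lit 192) (nat_lit 5) (nat_lit 200) (nat_lit 5) (nat_lit 201) (nat_lit 5) (nat_lit 356) (nat_lit 332) (nat_lit 212)) (XT.lf (nat_lit 0) (nat_lit 8455834581) (nat_lit 608) (nat_lit 6382519460) (nat_lit 684) (nat_lit 972718141) (nat_lit 192) (nat_lit 5) (nat_lit 200) (nat_lit 5) (nat_lit 201) (nat_lit 5) (nat_lit 357) (nat_lit 332) (nat_lit 211))))) (XT.nd (nat_lit 234) (nat_lit 912) (nat_lit 0) (XT.nd (nat_lit 78) (nat_lit 532) (nat_lit 0) (XT.lf (nat_lit 0) (nat_lit 956383721) (nat_lit 608) (nat_lit 15060920456) (nat_lit 76) (nat_lit 56993165) (nat_lit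 184) (nat_lit 5) (nat_lit 192) (nat_lit 5) (nat_lit 185) (nat_lit 5) (nat_lit 358) (nat_lit 332) (nat_lit 210)) (XT.nd (nat_lit 78) (nat_lit 532) (nat_lit 0) (XT.lf (nat_lit 0) (nat_lit 3050237193) (nat_lit 608) (nat_lit 6645377117) (nat_lit 76) (nat_lit 6645729782) (nat_lit 184) (nat_lit 5) (nat_lit 192) (nat_lit 5) (nat_lit 185) (nat_lit 5) (nat_lit 359) (nat_lit 332) (nat_lit 209)) (XT.lf (nat_lit 0) (nat_lit 2050557428) (nat_lit 532) (nat_lit 3164630057) (nat_lit 608) (nat_lit 11400972770) (nat_lit 177) (nat_lit 5) (nat_lit 184) (nat_lit 5) (nat_lit 185) (nat_lit 5) (nat_lit 360) (nat_lit 332) (nat_lit 208)))) (XT.nd (nat_lit 156) (nat_lit 456) (nat_lit 0) (XT.nd (nat_lit 78) (nat_lit 456) (nat_lit 0) (XT.lf (nat_lit 0) (nat_lit 7535879387) (nat_lit 608) (nat_lit 5800826949) (nat_lit 76) (nat_lit 3559797032) (nat_lit 177) (nat_lit 5) (nat_lit 185) (nat_lit 5) (nat_lit 178) (nat_lit 5) (nat_lit 361)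 (nat_lit 332) (nat_lit 207)) (XT.lf (nat_lit 0) (nat_lit 3246972102) (nat_lit 456) (nat_lit 6730872138) (nat_lit 532) (nat_lit 7205869045) (nat_lit 171) (nat_lit 5) (nat_lit 177) (nat_lit 5) (nat_lit 178) (nat_lit 5) (nat_lit 362) (nat_lit 332) (nat_lit 206))) (XT.nd (nat_lit 78) (nat_lit 456) (nat_lit 0) (XT.lf (nat_lit 0) (nat_lit 12542227943) (nat_lit 532) (nat_lit 4806094537) (nat_lit 76) (nat_lit 129748122) (nat_lit 171) (nat_lit 5) (nat_lit 178) (nat_lit 5) (nat_lit 172) (nat_lit 5) (nat_lit 363) (nat_lit 332) (nat_lit 205)) (XT.lf (nat_lit 0) (nat_lit 4609994845) (nat_lit 456) (nat_lit 10674116270) (nat_lit 532) (nat_lit 2494136211) (nat_lit 165) (nat_lit 5) (nat_lit 171) (nat_lit 5) (nat_lit 172) (nat_lit 5) (nat_lit 364) (nat_lit 332) (nat_lit 204)))))) (XT.nd (nat_lit 546) (nat_lit 1216) (nat_lit 0) (XT.nd (nat_lit 234) (nat_lit 1292) (nat_lit 0) (XT.nd (nat_lit 78) (nat_lit 456) (nat_lit 0) (XT.lf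 (nat_lit 0) (nat_lit 59123258) (nat_lit 532) (nat_lit 3691453758) (nat_lit 76) (nat_lit 14335690488) (nat_lit 164) (nat_lit 5) (nat_lit 171) (nat_lit 5) (nat_lit 165) (nat_lit 5) (nat_lit 365) (nat_lit 332) (nat_lit 203)) (XT.nd (nat_lit 78) (nat_lit 0) (nat_lit 0) (XT.lf (nat_lit 0) (nat_lit 2721310013) (nat_lit 532) (nat_lit 12281140079) (nat_lit 76) (nat_lit 3397868828) (nat_lit 158) (nat_lit 5) (nat_lit 165) (nat_lit 5) (nat_lit 159) (nat_lit 5) (nat_lit 366) (nat_lit 332) (nat_lit 202)) (XT.lf (nat_lit 0) (nat_lit 5528304046) (nat_lit 532) (nat_lit 2472087310) (nat_lit 76) (nat_lit 10721457360) (nat_lit 158) (nat_lit 5) (nat_lit 165) (nat_lit 5) (nat_lit 159) (nat_lit 5) (nat_lit 367) (nat_lit 332) (nat_lit 201)))) (XT.nd (nat_lit 156) (nat_lit 836) (nat_lit 0) (XT.nd (nat_lit 78) (nat_lit 0) (nat_lit 0) (XT.lf (nat_lit 0) (nat_lit 7771516616) (nat_lit 456) (nat_lit 713144139) (nat_lit 532) (nat_lit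 10566414007) (nat_lit 152) (nat_lit 5) (nat_lit 158) (nat_lit 5) (nat_lit 159) (nat_lit 5) (nat_lit 368) (nat_lit 332) (nat_lit 200)) (XT.lf (nat_lit 0) (nat_lit 11610814555) (nat_lit 532) (nat_lit 1093395041) (nat_lit 76) (nat_lit 6683539597) (nat_lit 152) (nat_lit 5) (nat_lit 159) (nat_lit 5) (nat_lit 153) (nat_lit 5) (nat_lit 369) (nat_lit 332) (nat_lit 199))) (XT.nd (nat_lit 78) (nat_lit 456) (nat_lit 0) (XT.lf (nat_lit 0) (nat_lit 9566782834) (nat_lit 380) (nat_lit 5353866726) (nat_lit 456) (nat_lit 4811182057) (nat_lit 147) (nat_lit 5) (nat_lit 152) (nat_lit 5) (nat_lit 153) (nat_lit 5) (nat_lit 370) (nat_lit 332) (nat_lit 198)) (XT.lf (nat_lit 0) (nat_lit 459485003) (nat_lit 456) (nat_lit 17898185895) (nat_lit 532) (nat_lit 1727733399) (nat_lit 141) (nat_lit 5) (nat_lit 147) (nat_lit 5) (nat_lit 148) (nat_lit 5) (nat_lit 371) (nat_lit 332) (nat_lit 197))))) (XT.nd (nat_lit 234) (nat_lit 760) (nat_lit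 0) (XT.nd (nat_lit 78) (nat_lit 380) (nat_lit 0) (XT.lf (nat_lit 0) (nat_lit 1567705748) (nat_lit 532) (nat_lit 8914728364) (nat_lit 76) (nat_lit 9962304263) (nat_lit 140) (nat_lit 5) (nat_lit 147) (nat_lit 5) (nat_lit 141) (nat_lit 5) (nat_lit 372) (nat_lit 332) (nat_lit 196)) (XT.nd (nat_lit 78) (nat_lit 0) (nat_lit 0) (XT.lf (nat_lit 0) (nat_lit 2131205830) (nat_lit 380) (nat_lit 2807897955) (nat_lit 456) (nat_lit 15874884995) (nat_lit 135) (nat_lit 5) (nat_lit 140) (nat_lit 5) (nat_lit 141) (nat_lit 5) (nat_lit 373) (nat_lit 332) (nat_lit 195)) (XT.lf (nat_lit 0) (nat_lit 8543009060) (nat_lit 456) (nat_lit 7561441554) (nat_lit 76) (nat_lit 5085929142) (nat_lit 135) (nat_lit 5) (nat_lit 141) (nat_lit 5) (nat_lit 136) (nat_lit 5) (nat_lit 374) (nat_lit 332) (nat_lit 194)))) (XT.nd (nat_lit 156) (nat_lit 380) (nat_lit 0) (XT.nd (nat_lit 78) (nat_lit 0) (nat_lit 0) (XT.lf (nat_lit 0) (nat_lit 3931583554)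 (nat_lit 380) (nat_lit 8380748922) (nat_lit 456) (nat_lit 9264014856) (nat_lit 130) (nat_lit 5) (nat_lit 135) (nat_lit 5) (nat_lit 136) (nat_lit 5) (nat_lit 375) (nat_lit 332) (nat_lit 193)) (XT.lf (nat_lit 0) (nat_lit 15913633256) (nat_lit 380) (nat_lit 349303326) (nat_lit 456) (nat_lit 5708915109) (nat_lit 130) (nat_lit 5) (nat_lit 135) (nat_lit 5) (nat_lit 136) (nat_lit 5) (nat_lit 376) (nat_lit 332) (nat_lit 192))) (XT.nd (nat_lit 78) (nat_lit 76) (nat_lit 0) (XT.lf (nat_lit 0) (nat_lit 5904304505) (nat_lit 304) (nat_lit 14552730018) (nat_lit 380) (nat_lit 1918441063) (nat_lit 126) (nat_lit 5) (nat_lit 130) (nat_lit 5) (nat_lit 131) (nat_lit 5) (nat_lit 377) (nat_lit 332) (nat_lit 191)) (XT.lf (nat_lit 0) (nat_lit 2004345672) (nat_lit 380) (nat_lit 4473361996) (nat_lit 76) (nat_lit 16311210923) (nat_lit 125) (nat_lit 5) (nat_lit 130) (nat_lit 5) (nat_lit 126) (nat_lit 5) (nat_lit 378) (nat_lit 332)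 (nat_lit 190))))))))
noncomputable def xc182 : XT := (XT.nd (nat_lit 2028) (nat_lit 2432) (nat_lit 0) (XT.nd (nat_lit 1014) (nat_lit 1824) (nat_lit 0) (XT.nd (nat_lit 468) (nat_lit 912) (nat_lit 0) (XT.nd (nat_lit 234) (nat_lit 684) (nat_lit 0) (XT.nd (nat_lit 78) (nat_lit 304) (nat_lit 0) (XT.lf (nat_lit 0) (nat_lit 6094211034) (nat_lit 456) (nat_lit 15219423821) (nat_lit 76) (nat_lit 1897924947) (nat_lit 120) (nat_lit 5) (nat_lit 126) (nat_lit 5) (nat_lit 121) (nat_lit 5) (nat_lit 379) (nat_lit 332) (nat_lit 189)) (XT.nd (nat_lit 78) (nat_lit 304) (nat_lit 0) (XT.lf (nat_lit 0) (nat_lit 10408962057) (nat_lit 456) (nat_lit 2797325212) (nat_lit 76) (nat_lit 10437530557) (nat_lit 120) (nat_lit 5) (nat_lit 126) (nat_lit 5) (nat_lit 121) (nat_lit 5) (nat_lit 380) (nat_lit 332) (nat_lit 188)) (XT.lf (nat_lit 0) (nat_lit 10185992441) (nat_lit 304) (nat_lit 4757732057) (nat_lit 380) (nat_lit 9142605196) (nat_lit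 116) (nat_lit 5) (nat_lit 120) (nat_lit 5) (nat_lit 121) (nat_lit 5) (nat_lit 381) (nat_lit 332) (nat_lit 187)))) (XT.nd (nat_lit 78) (nat_lit 684) (nat_lit 0) (XT.lf (nat_lit 0) (nat_lit 19673715785) (nat_lit 380) (nat_lit 973613413) (nat_lit 76) (nat_lit 3893015220) (nat_lit 116) (nat_lit 5) (nat_lit 121) (nat_lit 5) (nat_lit 117) (nat_lit 5) (nat_lit 382) (nat_lit 332) (nat_lit 186)) (XT.nd (nat_lit 78) (nat_lit 380) (nat_lit 0) (XT.lf (nat_lit 0) (nat_lit 12528276263) (nat_lit 304) (nat_lit 12177821566) (nat_lit 380) (nat_lit 297070012) (nat_lit 112) (nat_lit 5) (nat_lit 116) (nat_lit 5) (nat_lit 117) (nat_lit 5) (nat_lit 383) (nat_lit 332) (nat_lit 185)) (XT.lf (nat_lit 0) (nat_lit 941440118) (nat_lit 304) (nat_lit 3394060963) (nat_lit 380) (nat_lit 21142746906) (nat_lit 107) (nat_lit 5) (nat_lit 111) (nat_lit 5) (nat_lit 112) (nat_lit 5) (nat_lit 384) (nat_lit 332) (nat_lit 184))))) (XT.nd (nat_lit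 234) (nat_lit 608) (nat_lit 0) (XT.nd (nat_lit 78) (nat_lit 304) (nat_lit 0) (XT.lf (nat_lit 0) (nat_lit 9275712746) (nat_lit 380) (nat_lit 11016474723) (nat_lit 76) (nat_lit 5670068537) (nat_lit 107) (nat_lit 5) (nat_lit 112) (nat_lit 5) (nat_lit 108) (nat_lit 5) (nat_lit 385) (nat_lit 332) (nat_lit 183)) (XT.nd (nat_lit 78) (nat_lit 0) (nat_lit 0) (XT.lf (nat_lit 0) (nat_lit 2923070983) (nat_lit 304) (nat_lit 11496037368) (nat_lit 380) (nat_lit 12040029243) (nat_lit 103) (nat_lit 5) (nat_lit 107) (nat_lit 5) (nat_lit 108) (nat_lit 5) (nat_lit 386) (nat_lit 332) (nat_lit 182)) (XT.lf (nat_lit 0) (nat_lit 17496893877) (nat_lit 304) (nat_lit 2324533716) (nat_lit 380) (nat_lit 7146361963) (nat_lit 103) (nat_lit 5) (nat_lit 107) (nat_lit 5) (nat_lit 108) (nat_lit 5) (nat_lit 387) (nat_lit 332) (nat_lit 181)))) (XT.nd (nat_lit 156) (nat_lit 304) (nat_lit 0) (XT.nd (nat_lit 78) (nat_lit 76) (nat_lit 0) (XT.lf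 (nat_lit 0) (nat_lit 5036428216) (nat_lit 228) (nat_lit 20459804377) (nat_lit 304) (nat_lit 1992158501) (nat_lit 100) (nat_lit 5) (nat_lit 103) (nat_lit 5) (nat_lit 104) (nat_lit 5) (nat_lit 388) (nat_lit 332) (nat_lit 180)) (XT.lf (nat_lit 0) (nat_lit 3365122453) (nat_lit 304) (nat_lit 7914124490) (nat_lit 76) (nat_lit 16741014490) (nat_lit 99) (nat_lit 5) (nat_lit 103) (nat_lit 5) (nat_lit 100) (nat_lit 5) (nat_lit 389) (nat_lit 332) (nat_lit 179))) (XT.nd (nat_lit 78) (nat_lit 0) (nat_lit 0) (XT.lf (nat_lit 0) (nat_lit 7170676769) (nat_lit 304) (nat_lit 1735092829) (nat_lit 380) (nat_lit 19659848200) (nat_lit 95) (nat_lit 5) (nat_lit 99) (nat_lit 5) (nat_lit 100) (nat_lit 5) (nat_lit 390) (nat_lit 332) (nat_lit 178)) (XT.lf (nat_lit 0) (nat_lit 14764984028) (nat_lit 380) (nat_lit 6342730860) (nat_lit 76) (nat_lit 8015051754) (nat_lit 95) (nat_lit 5) (nat_lit 100) (nat_lit 5) (nat_lit 96) (nat_lit 5)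 (nat_lit 391) (nat_lit 332) (nat_lit 177)))))) (XT.nd (nat_lit 468) (nat_lit 988) (nat_lit 0) (XT.nd (nat_lit 234) (nat_lit 228) (nat_lit 0) (XT.nd (nat_lit 78) (nat_lit 380) (nat_lit 0) (XT.lf (nat_lit 0) (nat_lit 9316501562) (nat_lit 228) (nat_lit 11584209998) (nat_lit 304) (nat_lit 8792898451) (nat_lit 92) (nat_lit 5) (nat_lit 95) (nat_lit 5) (nat_lit 96) (nat_lit 5) (nat_lit 392) (nat_lit 332) (nat_lit 176)) (XT.nd (nat_lit 78) (nat_lit 380) (nat_lit 0) (XT.lf (nat_lit 0) (nat_lit 25566457143) (nat_lit 228) (nat_lit 1712192031) (nat_lit 304) (nat_lit 3001187457) (nat_lit 92) (nat_lit 5) (nat_lit 95) (nat_lit 5) (nat_lit 96) (nat_lit 5) (nat_lit 393) (nat_lit 332) (nat_lit 175)) (XT.lf (nat_lit 0) (nat_lit 3094871192) (nat_lit 380) (nat_lit 19352883198) (nat_lit 76) (nat_lit 8429389601) (nat_lit 87) (nat_lit 5) (nat_lit 92) (nat_lit 5) (nat_lit 88) (nat_lit 5) (nat_lit 394) (nat_lit 332) (nat_lit 174))))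 (XT.nd (nat_lit 78) (nat_lit 228) (nat_lit 0) (XT.lf (nat_lit 0) (nat_lit 9372766545) (nat_lit 380) (nat_lit 3201413551) (nat_lit 76) (nat_lit 18915522679) (nat_lit 87) (nat_lit 5) (nat_lit 92) (nat_lit 5) (nat_lit 88) (nat_lit 5) (nat_lit 395) (nat_lit 332) (nat_lit 173)) (XT.nd (nat_lit 78) (nat_lit 0) (nat_lit 0) (XT.lf (nat_lit 0) (nat_lit 13693080708) (nat_lit 228) (nat_lit 2271967916) (nat_lit 304) (nat_lit 16151810064) (nat_lit 84) (nat_lit 5) (nat_lit 87) (nat_lit 5) (nat_lit 88) (nat_lit 5) (nat_lit 396) (nat_lit 332) (nat_lit 172)) (XT.lf (nat_lit 0) (nat_lit 22862382644) (nat_lit 304) (nat_lit 1691078294) (nat_lit 76) (nat_lit 8206151645) (nat_lit 84) (nat_lit 5) (nat_lit 88) (nat_lit 5) (nat_lit 85) (nat_lit 5) (nat_lit 397) (nat_lit 332) (nat_lit 171))))) (XT.nd (nat_lit 234) (nat_lit 456) (nat_lit 0) (XT.nd (nat_lit 78) (nat_lit 304) (nat_lit 0) (XT.lf (nat_lit 0) (nat_lit 15821322270) (nat_lit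 228) (nat_lit 14314527201) (nat_lit 304) (nat_lit 3280724996) (nat_lit 81) (nat_lit 5) (nat_lit 84) (nat_lit 5) (nat_lit 85) (nat_lit 5) (nat_lit 398) (nat_lit 332) (nat_lit 170)) (XT.nd (nat_lit 78) (nat_lit 228) (nat_lit 0) (XT.lf (nat_lit 0) (nat_lit 3477209313) (nat_lit 304) (nat_lit 241656203) (nat_lit 76) (nat_lit 30373005118) (nat_lit 80) (nat_lit 5) (nat_lit 84) (nat_lit 5) (nat_lit 81) (nat_lit 5) (nat_lit 399) (nat_lit 332) (nat_lit 169)) (XT.lf (nat_lit 0) (nat_lit 10610380297) (nat_lit 304) (nat_lit 16910709484) (nat_lit 76) (nat_lit 7258209901) (nat_lit 77) (nat_lit 5) (nat_lit 81) (nat_lit 5) (nat_lit 78) (nat_lit 5) (nat_lit 400) (nat_lit 332) (nat_lit 168)))) (XT.nd (nat_lit 156) (nat_lit 228) (nat_lit 0) (XT.nd (nat_lit 78) (nat_lit 0) (nat_lit 0) (XT.lf (nat_lit 0) (nat_lit 1014433783) (nat_lit 228) (nat_lit 16987002014) (nat_lit 304) (nat_lit 17484600682) (nat_lit 74) (nat_lit 5) (nat_lit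 77) (nat_lit 5) (nat_lit 78) (nat_lit 5) (nat_lit 401) (nat_lit 332) (nat_lit 167)) (XT.lf (nat_lit 0) (nat_lit 19815729865) (nat_lit 228) (nat_lit 5964181828) (nat_lit 304) (nat_lit 10429094539) (nat_lit 74) (nat_lit 5) (nat_lit 77) (nat_lit 5) (nat_lit 78) (nat_lit 5) (nat_lit 402) (nat_lit 332) (nat_lit 166))) (XT.nd (nat_lit 78) (nat_lit 76) (nat_lit 0) (XT.lf (nat_lit 0) (nat_lit 2210597307) (nat_lit 152) (nat_lit 31649241559) (nat_lit 228) (nat_lit 3091784773) (nat_lit 72) (nat_lit 5) (nat_lit 74) (nat_lit 5) (nat_lit 75) (nat_lit 5) (nat_lit 403) (nat_lit 332) (nat_lit 165)) (XT.lf (nat_lit 0) (nat_lit 4599792823) (nat_lit 228) (nat_lit 16114690571) (nat_lit 76) (nat_lit 16994111084) (nat_lit 71) (nat_lit 5) (nat_lit 74) (nat_lit 5) (nat_lit 72) (nat_lit 5) (nat_lit 404) (nat_lit 332) (nat_lit 164))))))) (XT.nd (nat_lit 1014) (nat_lit 1064) (nat_lit 0) (XT.nd (nat_lit 468) (nat_lit 684) (nat_lit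 0) (XT.nd (nat_lit 234) (nat_lit 304) (nat_lit 0) (XT.nd (nat_lit 78) (nat_lit 152) (nat_lit 0) (XT.lf (nat_lit 0) (nat_lit 3092248250) (nat_lit 228) (nat_lit 9392655258) (nat_lit 304) (nat_lit 26001706102) (nat_lit 68) (nat_lit 5) (nat_lit 71) (nat_lit 5) (nat_lit 72) (nat_lit 5) (nat_lit 405) (nat_lit 332) (nat_lit 163)) (XT.nd (nat_lit 78) (nat_lit 152) (nat_lit 0) (XT.lf (nat_lit 0) (nat_lit 20787952312) (nat_lit 304) (nat_lit 16108725316) (nat_lit 76) (nat_lit 2385847330) (nat_lit 68) (nat_lit 5) (nat_lit 72) (nat_lit 5) (nat_lit 69) (nat_lit 5) (nat_lit 406) (nat_lit 332) (nat_lit 162)) (XT.lf (nat_lit 0) (nat_lit 3727499778) (nat_lit 152) (nat_lit 25736796613) (nat_lit 228) (nat_lit 10634296529) (nat_lit 66) (nat_lit 5) (nat_lit 68) (nat_lit 5) (nat_lit 69) (nat_lit 5) (nat_lit 407) (nat_lit 332) (nat_lit 161)))) (XT.nd (nat_lit 78) (nat_lit 304) (nat_lit 0) (XT.lf (nat_lit 0) (nat_lit 24481380002)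 (nat_lit 152) (nat_lit 14077654737) (nat_lit 228) (nat_lit 2375366295) (nat_lit 66) (nat_lit 5) (nat_lit 68) (nat_lit 5) (nat_lit 69) (nat_lit 5) (nat_lit 408) (nat_lit 332) (nat_lit 160)) (XT.nd (nat_lit 78) (nat_lit 0) (nat_lit 0) (XT.lf (nat_lit 0) (nat_lit 4075673949) (nat_lit 228) (nat_lit 1970716664) (nat_lit 304) (nat_lit 35746084702) (nat_lit 62) (nat_lit 5) (nat_lit 65) (nat_lit 5) (nat_lit 66) (nat_lit 5) (nat_lit 409) (nat_lit 332) (nat_lit 159)) (XT.lf (nat_lit 0) (nat_lit 14937327930) (nat_lit 304) (nat_lit 17247440501) (nat_lit 76) (nat_lit 10482890859) (nat_lit 62) (nat_lit 5) (nat_lit 66) (nat_lit 5) (nat_lit 63) (nat_lit 5) (nat_lit 410) (nat_lit 332) (nat_lit 158))))) (XT.nd (nat_lit 234) (nat_lit 380) (nat_lit 0) (XT.nd (nat_lit 78) (nat_lit 152) (nat_lit 0) (XT.lf (nat_lit 0) (nat_lit 3884975558) (nat_lit 152) (nat_lit 20262559119) (nat_lit 228) (nat_lit 19419988963) (nat_lit 60) (nat_lit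 5) (nat_lit 62) (nat_lit 5) (nat_lit 63) (nat_lit 5) (nat_lit 411) (nat_lit 332) (nat_lit 157)) (XT.nd (nat_lit 78) (nat_lit 152) (nat_lit 0) (XT.lf (nat_lit 0) (nat_lit 25997668068) (nat_lit 152) (nat_lit 7806285378) (nat_lit 228) (nat_lit 10685334362) (nat_lit 60) (nat_lit 5) (nat_lit 62) (nat_lit 5) (nat_lit 63) (nat_lit 5) (nat_lit 412) (nat_lit 332) (nat_lit 156)) (XT.lf (nat_lit 0) (nat_lit 3344878823) (nat_lit 152) (nat_lit 40481466257) (nat_lit 228) (nat_lit 1610072444) (nat_lit 58) (nat_lit 5) (nat_lit 60) (nat_lit 5) (nat_lit 61) (nat_lit 5) (nat_lit 413) (nat_lit 332) (nat_lit 155)))) (XT.nd (nat_lit 156) (nat_lit 152) (nat_lit 0) (XT.nd (nat_lit 78) (nat_lit 152) (nat_lit 0) (XT.lf (nat_lit 0) (nat_lit 7848178001) (nat_lit 228) (nat_lit 20351493905) (nat_lit 76) (nat_lit 18202207400) (nat_lit 57) (nat_lit 5) (nat_lit 60) (nat_lit 5) (nat_lit 58) (nat_lit 5) (nat_lit 414) (nat_lit 332) (nat_lit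 154)) (XT.lf (nat_lit 0) (nat_lit 2058027508) (nat_lit 152) (nat_lit 15515539811) (nat_lit 228) (nat_lit 29821787761) (nat_lit 55) (nat_lit 5) (nat_lit 57) (nat_lit 5) (nat_lit 58) (nat_lit 5) (nat_lit 415) (nat_lit 332) (nat_lit 153))) (XT.nd (nat_lit 78) (nat_lit 152) (nat_lit 0) (XT.lf (nat_lit 0) (nat_lit 25550145360) (nat_lit 152) (nat_lit 2242103657) (nat_lit 228) (nat_lit 20620341104) (nat_lit 55) (nat_lit 5) (nat_lit 57) (nat_lit 5) (nat_lit 58) (nat_lit 5) (nat_lit 416) (nat_lit 332) (nat_lit 152)) (XT.lf (nat_lit 0) (nat_lit 173436808) (nat_lit 152) (nat_lit 38251698632) (nat_lit 228) (nat_lit 11031978337) (nat_lit 53) (nat_lit 5) (nat_lit 55) (nat_lit 5) (nat_lit 56) (nat_lit 5) (nat_lit 417) (nat_lit 332) (nat_lit 151)))))) (XT.nd (nat_lit 546) (nat_lit 456) (nat_lit 0) (XT.nd (nat_lit 234) (nat_lit 380) (nat_lit 0) (XT.nd (nat_lit 78) (nat_lit 228) (nat_lit 0) (XT.lf (nat_lit 0) (nat_lit 24339713584)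 (nat_lit 152) (nat_lit 25286300478) (nat_lit 228) (nat_lit 899489775) (nat_lit 53) (nat_lit 5) (nat_lit 55) (nat_lit 5) (nat_lit 56) (nat_lit 5) (nat_lit 418) (nat_lit 332) (nat_lit 150)) (XT.nd (nat_lit 78) (nat_lit 152) (nat_lit 0) (XT.lf (nat_lit 0) (nat_lit 9347105219) (nat_lit 228) (nat_lit 2493220958) (nat_lit 76) (nat_lit 39782983005) (nat_lit 52) (nat_lit 5) (nat_lit 55) (nat_lit 5) (nat_lit 53) (nat_lit 5) (nat_lit 419) (nat_lit 332) (nat_lit 149)) (XT.lf (nat_lit 0) (nat_lit 20115515880) (nat_lit 228) (nat_lit 30438369133) (nat_lit 76) (nat_lit 2192922390) (nat_lit 50) (nat_lit 5) (nat_lit 53) (nat_lit 5) (nat_lit 51) (nat_lit 5) (nat_lit 420) (nat_lit 332) (nat_lit 148)))) (XT.nd (nat_lit 156) (nat_lit 228) (nat_lit 0) (XT.nd (nat_lit 78) (nat_lit 152) (nat_lit 0) (XT.lf (nat_lit 0) (nat_lit 31345997609) (nat_lit 228) (nat_lit 6121887253) (nat_lit 76) (nat_lit 16431955912) (nat_lit 50) (nat_lit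 5) (nat_lit 53) (nat_lit 5) (nat_lit 51) (nat_lit 5) (nat_lit 421) (nat_lit 332) (nat_lit 147)) (XT.lf (nat_lit 0) (nat_lit 19294370760) (nat_lit 152) (nat_lit 23800960168) (nat_lit 228) (nat_lit 11986676851) (nat_lit 48) (nat_lit 5) (nat_lit 50) (nat_lit 5) (nat_lit 51) (nat_lit 5) (nat_lit 422) (nat_lit 332) (nat_lit 146))) (XT.nd (nat_lit 78) (nat_lit 228) (nat_lit 0) (XT.lf (nat_lit 0) (nat_lit 45592449203) (nat_lit 152) (nat_lit 9663025611) (nat_lit 228) (nat_lit 1042415785) (nat_lit 48) (nat_lit 5) (nat_lit 50) (nat_lit 5) (nat_lit 51) (nat_lit 5) (nat_lit 423) (nat_lit 332) (nat_lit 145)) (XT.lf (nat_lit 0) (nat_lit 10223926215) (nat_lit 228) (nat_lit 42268627774) (nat_lit 76) (nat_lit 5048945018) (nat_lit 45) (nat_lit 5) (nat_lit 48) (nat_lit 5) (nat_lit 46) (nat_lit 5) (nat_lit 424) (nat_lit 332) (nat_lit 144))))) (XT.nd (nat_lit 234) (nat_lit 304) (nat_lit 0) (XT.nd (nat_lit 78) (nat_lit 152)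 (nat_lit 0) (XT.lf (nat_lit 0) (nat_lit 22008750634) (nat_lit 228) (nat_lit 16682320035) (nat_lit 76) (nat_lit 20124992722) (nat_lit 45) (nat_lit 5) (nat_lit 48) (nat_lit 5) (nat_lit 46) (nat_lit 5) (nat_lit 425) (nat_lit 332) (nat_lit 143)) (XT.nd (nat_lit 78) (nat_lit 0) (nat_lit 0) (XT.lf (nat_lit 0) (nat_lit 9858052783) (nat_lit 152) (nat_lit 24380523644) (nat_lit 228) (nat_lit 25887545221) (nat_lit 43) (nat_lit 5) (nat_lit 45) (nat_lit 5) (nat_lit 46) (nat_lit 5) (nat_lit 426) (nat_lit 332) (nat_lit 142)) (XT.lf (nat_lit 0) (nat_lit 37530775470) (nat_lit 152) (nat_lit 9469715451) (nat_lit 228) (nat_lit 14470035540) (nat_lit 43) (nat_lit 5) (nat_lit 45) (nat_lit 5) (nat_lit 46) (nat_lit 5) (nat_lit 427) (nat_lit 332) (nat_lit 141)))) (XT.nd (nat_lit 156) (nat_lit 152) (nat_lit 0) (XT.nd (nat_lit 78) (nat_lit 76) (nat_lit 0) (XT.lf (nat_lit 0) (nat_lit 3178095058) (nat_lit 76) (nat_lit 57051126983) (nat_lit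 152) (nat_lit 2623523205) (nat_lit 42) (nat_lit 5) (nat_lit 43) (nat_lit 5) (nat_lit 44) (nat_lit 4) (nat_lit 428) (nat_lit 332) (nat_lit 140)) (XT.lf (nat_lit 0) (nat_lit 9726186283) (nat_lit 152) (nat_lit 32862928862) (nat_lit 76) (nat_lit 21674512507) (nat_lit 41) (nat_lit 5) (nat_lit 43) (nat_lit 5) (nat_lit 42) (nat_lit 5) (nat_lit 429) (nat_lit 332) (nat_lit 139))) (XT.nd (nat_lit 78) (nat_lit 152) (nat_lit 0) (XT.lf (nat_lit 0) (nat_lit 22390562618) (nat_lit 152) (nat_lit 5278406282) (nat_lit 76) (nat_lit 38047181746) (nat_lit 41) (nat_lit 5) (nat_lit 43) (nat_lit 5) (nat_lit 42) (nat_lit 5) (nat_lit 430) (nat_lit 332) (nat_lit 138)) (XT.lf (nat_lit 0) (nat_lit 23588536756) (nat_lit 152) (nat_lit 12070076834) (nat_lit 228) (nat_lit 31546923978) (nat_lit 39) (nat_lit 5) (nat_lit 41) (nat_lit 5) (nat_lit 42) (nat_lit 5) (nat_lit 431) (nat_lit 332) (nat_lit 137))))))))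
noncomputable def xc183 : XT := (XT.nd (nat_lit 40872) (nat_lit 0) (nat_lit 6460) (XT.nd (nat_lit 39780) (nat_lit 0) (nat_lit 13072) (XT.nd (nat_lit 39234) (nat_lit 0) (nat_lit 15580) (XT.nd (nat_lit 234) (nat_lit 152) (nat_lit 0) (XT.nd (nat_lit 78) (nat_lit 152) (nat_lit 0) (XT.lf (nat_lit 0) (nat_lit 49413963792) (nat_lit 228) (nat_lit 15352690110) (nat_lit 76) (nat_lit 3970274986) (nat_lit 39) (nat_lit 5) (nat_lit 42) (nat_lit 5) (nat_lit 40) (nat_lit 4) (nat_lit 432) (nat_lit 332) (nat_lit 136)) (XT.nd (nat_lit 78) (nat_lit 76) (nat_lit 0) (XT.lf (nat_lit 0) (nat_lit 13906134974) (nat_lit 76) (nat_lit 49926115527) (nat_lit 152) (nat_lit 6474503675) (nat_lit 38) (nat_lit 5) (nat_lit 39) (nat_lit 5) (nat_lit 40) (nat_lit 4) (nat_lit 433) (nat_lit 332) (nat_lit 135)) (XT.lf (nat_lit 0) (nat_lit 6781179719) (nat_lit 152) (nat_lit 27633368448) (nat_lit 76) (nat_lit 37502567209) (nat_lit 37) (nat_lit 5)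 (nat_lit 39) (nat_lit 5) (nat_lit 38) (nat_lit 5) (nat_lit 434) (nat_lit 332) (nat_lit 134)))) (XT.nd (nat_lit 78) (nat_lit 0) (nat_lit 0) (XT.lf (nat_lit 0) (nat_lit 1966039447) (nat_lit 152) (nat_lit 18354447808) (nat_lit 228) (nat_lit 53252894956) (nat_lit 35) (nat_lit 5) (nat_lit 37) (nat_lit 5) (nat_lit 38) (nat_lit 5) (nat_lit 435) (nat_lit 332) (nat_lit 133)) (XT.nd (nat_lit 38844) (nat_lit 0) (nat_lit 16720) (XT.lf (nat_lit 0) (nat_lit 33014815850) (nat_lit 152) (nat_lit 1527420206) (nat_lit 228) (nat_lit 40728813587) (nat_lit 35) (nat_lit 5) (nat_lit 37) (nat_lit 5) (nat_lit 38) (nat_lit 5) (nat_lit 436) (nat_lit 332) (nat_lit 132)) (XT.lf (nat_lit 0) (nat_lit 5036119926) (nat_lit 1140) (nat_lit 278636738) (nat_lit 1140) (nat_lit 278636738) (nat_lit 255) (nat_lit 3) (nat_lit 270) (nat_lit 3) (nat_lit 270) (nat_lit 5) (nat_lit 333) (nat_lit 333) (nat_lit 234))))) (XT.nd (nat_lit 234) (nat_lit 0)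 (nat_lit 76) (XT.nd (nat_lit 78) (nat_lit 1140) (nat_lit 0) (XT.lf (nat_lit 76) (nat_lit 4846448392) (nat_lit 0) (nat_lit 5954726997) (nat_lit 1140) (nat_lit 535710762) (nat_lit 256) (nat_lit 5) (nat_lit 255) (nat_lit 3) (nat_lit 270) (nat_lit 5) (nat_lit 334) (nat_lit 333) (nat_lit 233)) (XT.nd (nat_lit 78) (nat_lit 0) (nat_lit 76) (XT.lf (nat_lit 0) (nat_lit 43934311) (nat_lit 1140) (nat_lit 1079582095) (nat_lit 1216) (nat_lit 10368429804) (nat_lit 240) (nat_lit 5) (nat_lit 255) (nat_lit 3) (nat_lit 256) (nat_lit 5) (nat_lit 335) (nat_lit 333) (nat_lit 232)) (XT.lf (nat_lit 0) (nat_lit 691262741) (nat_lit 1140) (nat_lit 7122019305) (nat_lit 1216) (nat_lit 3836398561) (nat_lit 241) (nat_lit 5) (nat_lit 256) (nat_lit 5) (nat_lit 257) (nat_lit 5) (nat_lit 336) (nat_lit 333) (nat_lit 231)))) (XT.nd (nat_lit 156) (nat_lit 0) (nat_lit 76) (XT.nd (nat_lit 78) (nat_lit 0) (nat_lit 76) (XT.lf (nat_lit 0) (nat_lit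 1360276913) (nat_lit 1140) (nat_lit 1509391182) (nat_lit 1216) (nat_lit 8942424068) (nat_lit 241) (nat_lit 5) (nat_lit 256) (nat_lit 5) (nat_lit 257) (nat_lit 5) (nat_lit 337) (nat_lit 333) (nat_lit 230)) (XT.lf (nat_lit 0) (nat_lit 2093693248) (nat_lit 1140) (nat_lit 7655415615) (nat_lit 1216) (nat_lit 2228949973) (nat_lit 242) (nat_lit 5) (nat_lit 257) (nat_lit 5) (nat_lit 258) (nat_lit 5) (nat_lit 338) (nat_lit 333) (nat_lit 229))) (XT.nd (nat_lit 78) (nat_lit 0) (nat_lit 76) (XT.lf (nat_lit 0) (nat_lit 2874157084) (nat_lit 1140) (nat_lit 1828326079) (nat_lit 1216) (nat_lit 7445782348) (nat_lit 242) (nat_lit 5) (nat_lit 257) (nat_lit 5) (nat_lit 258) (nat_lit 5) (nat_lit 339) (nat_lit 333) (nat_lit 228)) (XT.lf (nat_lit 0) (nat_lit 3705858512) (nat_lit 1140) (nat_lit 8083186036) (nat_lit 1216) (nat_lit 533711120) (nat_lit 243) (nat_lit 5) (nat_lit 258) (nat_lit 5) (nat_lit 259) (nat_lit 5) (nat_lit 340)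 (nat_lit 333) (nat_lit 227)))))) (XT.nd (nat_lit 546) (nat_lit 2736) (nat_lit 0) (XT.nd (nat_lit 234) (nat_lit 0) (nat_lit 76) (XT.nd (nat_lit 78) (nat_lit 0) (nat_lit 0) (XT.lf (nat_lit 0) (nat_lit 4609985136) (nat_lit 1140) (nat_lit 2033634274) (nat_lit 1216) (nat_lit 5857448538) (nat_lit 243) (nat_lit 5) (nat_lit 258) (nat_lit 5) (nat_lit 259) (nat_lit 5) (nat_lit 341) (nat_lit 333) (nat_lit 226)) (XT.nd (nat_lit 78) (nat_lit 0) (nat_lit 76) (XT.lf (nat_lit 76) (nat_lit 4269111043) (nat_lit 0) (nat_lit 1295947847) (nat_lit 1216) (nat_lit 7118967308) (nat_lit 244) (nat_lit 5) (nat_lit 243) (nat_lit 5) (nat_lit 259) (nat_lit 5) (nat_lit 342) (nat_lit 333) (nat_lit 225)) (XT.lf (nat_lit 0) (nat_lit 6593242016) (nat_lit 1140) (nat_lit 2121976013) (nat_lit 1216) (nat_lit 4155932428) (nat_lit 244) (nat_lit 5) (nat_lit 259) (nat_lit 5) (nat_lit 260) (nat_lit 5) (nat_lit 343) (nat_lit 333) (nat_lit 224)))) (XT.nd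 (nat_lit 156) (nat_lit 0) (nat_lit 76) (XT.nd (nat_lit 78) (nat_lit 0) (nat_lit 76) (XT.lf (nat_lit 76) (nat_lit 4421498534) (nat_lit 0) (nat_lit 3269822227) (nat_lit 1216) (nat_lit 5371406834) (nat_lit 245) (nat_lit 5) (nat_lit 244) (nat_lit 5) (nat_lit 260) (nat_lit 5) (nat_lit 344) (nat_lit 333) (nat_lit 223)) (XT.lf (nat_lit 0) (nat_lit 8850586467) (nat_lit 1140) (nat_lit 2089444765) (nat_lit 1216) (nat_lit 2319183821) (nat_lit 245) (nat_lit 5) (nat_lit 260) (nat_lit 5) (nat_lit 261) (nat_lit 5) (nat_lit 345) (nat_lit 333) (nat_lit 222))) (XT.nd (nat_lit 78) (nat_lit 0) (nat_lit 76) (XT.lf (nat_lit 76) (nat_lit 4706598293) (nat_lit 0) (nat_lit 5400232880) (nat_lit 1216) (nat_lit 3352909973) (nat_lit 246) (nat_lit 5) (nat_lit 245) (nat_lit 5) (nat_lit 261) (nat_lit 5) (nat_lit 346) (nat_lit 333) (nat_lit 221)) (XT.lf (nat_lit 0) (nat_lit 11409964452) (nat_lit 1140) (nat_lit 1931586641) (nat_lit 1216)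 (nat_lit 324465643) (nat_lit 246) (nat_lit 5) (nat_lit 261) (nat_lit 5) (nat_lit 262) (nat_lit 5) (nat_lit 347) (nat_lit 333) (nat_lit 220))))) (XT.nd (nat_lit 234) (nat_lit 1748) (nat_lit 0) (XT.nd (nat_lit 78) (nat_lit 1216) (nat_lit 0) (XT.lf (nat_lit 76) (nat_lit 5129453633) (nat_lit 0) (nat_lit 7710905316) (nat_lit 1216) (nat_lit 1035486095) (nat_lit 247) (nat_lit 5) (nat_lit 246) (nat_lit 5) (nat_lit 262) (nat_lit 5) (nat_lit 348) (nat_lit 333) (nat_lit 219)) (XT.nd (nat_lit 78) (nat_lit 0) (nat_lit 76) (XT.lf (nat_lit 0) (nat_lit 222624167) (nat_lit 1216) (nat_lit 1663756423) (nat_lit 1292) (nat_lit 12205375005) (nat_lit 230) (nat_lit 5) (nat_lit 246) (nat_lit 5) (nat_lit 247) (nat_lit 5) (nat_lit 349) (nat_lit 333) (nat_lit 218)) (XT.lf (nat_lit 0) (nat_lit 1578840637) (nat_lit 1216) (nat_lit 8631696345) (nat_lit 76) (nat_lit 4100872321) (nat_lit 231) (nat_lit 5) (nat_lit 247) (nat_lit 5) (nat_lit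 232) (nat_lit 5) (nat_lit 350) (nat_lit 333) (nat_lit 217)))) (XT.nd (nat_lit 156) (nat_lit 608) (nat_lit 0) (XT.nd (nat_lit 78) (nat_lit 1216) (nat_lit 0) (XT.lf (nat_lit 0) (nat_lit 2997682424) (nat_lit 1216) (nat_lit 1290349068) (nat_lit 76) (nat_lit 10248971375) (nat_lit 231) (nat_lit 5) (nat_lit 247) (nat_lit 5) (nat_lit 232) (nat_lit 5) (nat_lit 351) (nat_lit 333) (nat_lit 216)) (XT.lf (nat_lit 0) (nat_lit 4525195901) (nat_lit 1292) (nat_lit 8401757177) (nat_lit 76) (nat_lit 1840436133) (nat_lit 215) (nat_lit 5) (nat_lit 232) (nat_lit 5) (nat_lit 216) (nat_lit 5) (nat_lit 352) (nat_lit 333) (nat_lit 215))) (XT.nd (nat_lit 78) (nat_lit 608) (nat_lit 0) (XT.lf (nat_lit 0) (nat_lit 6141135449) (nat_lit 1292) (nat_lit 781038293) (nat_lit 76) (nat_lit 8081243311) (nat_lit 215) (nat_lit 5) (nat_lit 232) (nat_lit 5) (nat_lit 216) (nat_lit 5) (nat_lit 353) (nat_lit 333) (nat_lit 214)) (XT.lf (nat_lit 0) (nat_lit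 7197191160) (nat_lit 608) (nat_lit 664910781) (nat_lit 684) (nat_lit 7382735025) (nat_lit 207) (nat_lit 5) (nat_lit 215) (nat_lit 5) (nat_lit 216) (nat_lit 5) (nat_lit 354) (nat_lit 333) (nat_lit 213))))))) (XT.nd (nat_lit 1014) (nat_lit 2888) (nat_lit 0) (XT.nd (nat_lit 468) (nat_lit 1976) (nat_lit 0) (XT.nd (nat_lit 234) (nat_lit 608) (nat_lit 0) (XT.nd (nat_lit 78) (nat_lit 1140) (nat_lit 0) (XT.lf (nat_lit 0) (nat_lit 9685856029) (nat_lit 684) (nat_lit 129953134) (nat_lit 76) (nat_lit 5676163027) (nat_lit 207) (nat_lit 5) (nat_lit 216) (nat_lit 5) (nat_lit 208) (nat_lit 5) (nat_lit 355) (nat_lit 333) (nat_lit 212)) (XT.nd (nat_lit 78) (nat_lit 608) (nat_lit 0) (XT.lf (nat_lit 0) (nat_lit 8166561979) (nat_lit 532) (nat_lit 3470838246) (nat_lit 608) (nat_lit 4106936178) (nat_lit 200) (nat_lit 5) (nat_lit 207) (nat_lit 5) (nat_lit 208) (nat_lit 5) (nat_lit 356) (nat_lit 333) (nat_lit 211)) (XT.lf (nat_lit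 0) (nat_lit 682516591) (nat_lit 608) (nat_lit 12990554319) (nat_lit 684) (nat_lit 2330440271) (nat_lit 192) (nat_lit 5) (nat_lit 200) (nat_lit 5) (nat_lit 201) (nat_lit 5) (nat_lit 357) (nat_lit 333) (nat_lit 210)))) (XT.nd (nat_lit 78) (nat_lit 608) (nat_lit 0) (XT.lf (nat_lit 0) (nat_lit 9299284294) (nat_lit 608) (nat_lit 6569543293) (nat_lit 684) (nat_lit 398669977) (nat_lit 192) (nat_lit 5) (nat_lit 200) (nat_lit 5) (nat_lit 201) (nat_lit 5) (nat_lit 358) (nat_lit 333) (nat_lit 209)) (XT.nd (nat_lit 78) (nat_lit 0) (nat_lit 0) (XT.lf (nat_lit 0) (nat_lit 1565189762) (nat_lit 608) (nat_lit 14899194056) (nat_lit 76) (nat_lit 74411836) (nat_lit 184) (nat_lit 5) (nat_lit 192) (nat_lit 5) (nat_lit 185) (nat_lit 5) (nat_lit 359) (nat_lit 333) (nat_lit 208)) (XT.lf (nat_lit 0) (nat_lit 3704962299) (nat_lit 608) (nat_lit 6249054923) (nat_lit 76) (nat_lit 6860353011) (nat_lit 184) (nat_lit 5) (nat_lit 192) (nat_lit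 5) (nat_lit 185) (nat_lit 5) (nat_lit 360) (nat_lit 333) (nat_lit 207))))) (XT.nd (nat_lit 234) (nat_lit 988) (nat_lit 0) (XT.nd (nat_lit 78) (nat_lit 456) (nat_lit 0) (XT.lf (nat_lit 0) (nat_lit 2701917624) (nat_lit 532) (nat_lit 3222209005) (nat_lit 608) (nat_lit 11173635538) (nat_lit 177) (nat_lit 5) (nat_lit 184) (nat_lit 5) (nat_lit 185) (nat_lit 5) (nat_lit 361) (nat_lit 333) (nat_lit 206)) (XT.nd (nat_lit 78) (nat_lit 456) (nat_lit 0) (XT.lf (nat_lit 0) (nat_lit 8298696201) (nat_lit 608) (nat_lit 5386145696) (nat_lit 76) (nat_lit 3702154950) (nat_lit 177) (nat_lit 5) (nat_lit 185) (nat_lit 5) (nat_lit 178) (nat_lit 5) (nat_lit 362) (nat_lit 333) (nat_lit 205)) (XT.lf (nat_lit 0) (nat_lit 3927315698) (nat_lit 456) (nat_lit 6876574607) (nat_lit 532) (nat_lit 6879242368) (nat_lit 171) (nat_lit 5) (nat_lit 177) (nat_lit 5) (nat_lit 178) (nat_lit 5) (nat_lit 363) (nat_lit 333) (nat_lit 204)))) (XT.nd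 (nat_lit 156) (nat_lit 532) (nat_lit 0) (XT.nd (nat_lit 78) (nat_lit 456) (nat_lit 0) (XT.lf (nat_lit 0) (nat_lit 13430389145) (nat_lit 532) (nat_lit 4369223017) (nat_lit 76) (nat_lit 187161506) (nat_lit 171) (nat_lit 5) (nat_lit 178) (nat_lit 5) (nat_lit 172) (nat_lit 5) (nat_lit 364) (nat_lit 333) (nat_lit 203)) (XT.lf (nat_lit 0) (nat_lit 5323652435) (nat_lit 456) (nat_lit 10921497523) (nat_lit 532) (nat_lit 2051095321) (nat_lit 165) (nat_lit 5) (nat_lit 171) (nat_lit 5) (nat_lit 172) (nat_lit 5) (nat_lit 365) (nat_lit 333) (nat_lit 202))) (XT.nd (nat_lit 78) (nat_lit 456) (nat_lit 0) (XT.lf (nat_lit 0) (nat_lit 553867407) (nat_lit 532) (nat_lit 3233528268) (nat_lit 76) (nat_lit 14826412468) (nat_lit 164) (nat_lit 5) (nat_lit 171) (nat_lit 5) (nat_lit 165) (nat_lit 5) (nat_lit 366) (nat_lit 333) (nat_lit 201)) (XT.lf (nat_lit 0) (nat_lit 3287734266) (nat_lit 532) (nat_lit 12072468928) (nat_lit 76) (nat_lit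 3577330994) (nat_lit 158) (nat_lit 5) (nat_lit 165) (nat_lit 5) (nat_lit 159) (nat_lit 5) (nat_lit 367) (nat_lit 333) (nat_lit 200)))))) (XT.nd (nat_lit 546) (nat_lit 1140) (nat_lit 0) (XT.nd (nat_lit 234) (nat_lit 1292) (nat_lit 0) (XT.nd (nat_lit 78) (nat_lit 456) (nat_lit 0) (XT.lf (nat_lit 0) (nat_lit 6164818170) (nat_lit 532) (nat_lit 1985953470) (nat_lit 76) (nat_lit 11118369141) (nat_lit 158) (nat_lit 5) (nat_lit 165) (nat_lit 5) (nat_lit 159) (nat_lit 5) (nat_lit 368) (nat_lit 333) (nat_lit 199)) (XT.nd (nat_lit 78) (nat_lit 0) (nat_lit 0) (XT.lf (nat_lit 0) (nat_lit 8559465471) (nat_lit 456) (nat_lit 642024529) (nat_lit 532) (nat_lit 10407011967) (nat_lit 152) (nat_lit 5) (nat_lit 158) (nat_lit 5) (nat_lit 159) (nat_lit 5) (nat_lit 369) (nat_lit 333) (nat_lit 198)) (XT.lf (nat_lit 0) (nat_lit 12408827072) (nat_lit 532) (nat_lit 574722044) (nat_lit 76) (nat_lit 6972112440) (nat_lit 152) (nat_lit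 5) (nat_lit 159) (nat_lit 5) (nat_lit 153) (nat_lit 5) (nat_lit 370) (nat_lit 333) (nat_lit 197)))) (XT.nd (nat_lit 156) (nat_lit 456) (nat_lit 0) (XT.nd (nat_lit 78) (nat_lit 456) (nat_lit 0) (XT.lf (nat_lit 0) (nat_lit 10399854552) (nat_lit 380) (nat_lit 5410254007) (nat_lit 456) (nat_lit 4500200034) (nat_lit 147) (nat_lit 5) (nat_lit 152) (nat_lit 5) (nat_lit 153) (nat_lit 5) (nat_lit 371) (nat_lit 333) (nat_lit 196)) (XT.lf (nat_lit 0) (nat_lit 1026337925) (nat_lit 456) (nat_lit 18317322660) (nat_lit 532) (nat_lit 1331031756) (nat_lit 141) (nat_lit 5) (nat_lit 147) (nat_lit 5) (nat_lit 148) (nat_lit 5) (nat_lit 372) (nat_lit 333) (nat_lit 195))) (XT.nd (nat_lit 78) (nat_lit 380) (nat_lit 0) (XT.lf (nat_lit 0) (nat_lit 2041708899) (nat_lit 532) (nat_lit 8636509169) (nat_lit 76) (nat_lit 10366849416) (nat_lit 140) (nat_lit 5) (nat_lit 147) (nat_lit 5) (nat_lit 141) (nat_lit 5) (nat_lit 373) (nat_lit 333)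 (nat_lit 194)) (XT.lf (nat_lit 0) (nat_lit 2735453433) (nat_lit 380) (nat_lit 2771553171) (nat_lit 456) (nat_lit 15918612004) (nat_lit 135) (nat_lit 5) (nat_lit 140) (nat_lit 5) (nat_lit 141) (nat_lit 5) (nat_lit 374) (nat_lit 333) (nat_lit 193))))) (XT.nd (nat_lit 234) (nat_lit 760) (nat_lit 0) (XT.nd (nat_lit 78) (nat_lit 380) (nat_lit 0) (XT.lf (nat_lit 0) (nat_lit 9207929245) (nat_lit 456) (nat_lit 7252418628) (nat_lit 76) (nat_lit 5353292200) (nat_lit 135) (nat_lit 5) (nat_lit 141) (nat_lit 5) (nat_lit 136) (nat_lit 5) (nat_lit 375) (nat_lit 333) (nat_lit 192)) (XT.nd (nat_lit 78) (nat_lit 0) (nat_lit 0) (XT.lf (nat_lit 0) (nat_lit 4580143643) (nat_lit 380) (nat_lit 8503387451) (nat_lit 456) (nat_lit 9127865217) (nat_lit 130) (nat_lit 5) (nat_lit 135) (nat_lit 5) (nat_lit 136) (nat_lit 5) (nat_lit 376) (nat_lit 333) (nat_lit 191)) (XT.lf (nat_lit 0) (nat_lit 16906200101) (nat_lit 380) (nat_lit 234749476)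 (nat_lit 456) (nat_lit 5478172772) (nat_lit 130) (nat_lit 5) (nat_lit 135) (nat_lit 5) (nat_lit 136) (nat_lit 5) (nat_lit 377) (nat_lit 333) (nat_lit 190)))) (XT.nd (nat_lit 156) (nat_lit 380) (nat_lit 0) (XT.nd (nat_lit 78) (nat_lit 76) (nat_lit 0) (XT.lf (nat_lit 0) (nat_lit 6602119186) (nat_lit 304) (nat_lit 14853560443) (nat_lit 380) (nat_lit 1579336332) (nat_lit 126) (nat_lit 5) (nat_lit 130) (nat_lit 5) (nat_lit 131) (nat_lit 5) (nat_lit 378) (nat_lit 333) (nat_lit 189)) (XT.lf (nat_lit 0) (nat_lit 2442066079) (nat_lit 380) (nat_lit 4094362351) (nat_lit 76) (nat_lit 16924664243) (nat_lit 125) (nat_lit 5) (nat_lit 130) (nat_lit 5) (nat_lit 126) (nat_lit 5) (nat_lit 379) (nat_lit 333) (nat_lit 188))) (XT.nd (nat_lit 78) (nat_lit 0) (nat_lit 0) (XT.lf (nat_lit 0) (nat_lit 6649828434) (nat_lit 456) (nat_lit 15157846116) (nat_lit 76) (nat_lit 2088887367) (nat_lit 120) (nat_lit 5) (nat_lit 126) (nat_lit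 5) (nat_lit 121) (nat_lit 5) (nat_lit 380) (nat_lit 333) (nat_lit 187)) (XT.lf (nat_lit 0) (nat_lit 11083163995) (nat_lit 456) (nat_lit 2378176600) (nat_lit 76) (nat_lit 10880777514) (nat_lit 120) (nat_lit 5) (nat_lit 126) (nat_lit 5) (nat_lit 121) (nat_lit 5) (nat_lit 381) (nat_lit 333) (nat_lit 186))))))))
noncomputable def xc184 : XT := (XT.nd (nat_lit 2028) (nat_lit 2280) (nat_lit 0) (XT.nd (nat_lit 1014) (nat_lit 1824) (nat_lit 0) (XT.nd (nat_lit 468) (nat_lit 836) (nat_lit 0) (XT.nd (nat_lit 234) (nat_lit 608) (nat_lit 0) (XT.nd (nat_lit 78) (nat_lit 380) (nat_lit 0) (XT.lf (nat_lit 0) (nat_lit 10989708540) (nat_lit 304) (nat_lit 4758507420) (nat_lit 380) (nat_lit 9049866525) (nat_lit 116) (nat_lit 5) (nat_lit 120) (nat_lit 5) (nat_lit 121) (nat_lit 5) (nat_lit 382) (nat_lit 333) (nat_lit 185)) (XT.nd (nat_lit 78) (nat_lit 380) (nat_lit 0) (XT.lf (nat_lit 0) (nat_lit 20611057648) (nat_lit 380) (nat_lit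 509997687) (nat_lit 76) (nat_lit 4144938214) (nat_lit 116) (nat_lit 5) (nat_lit 121) (nat_lit 5) (nat_lit 117) (nat_lit 5) (nat_lit 383) (nat_lit 333) (nat_lit 184)) (XT.lf (nat_lit 0) (nat_lit 45222860) (nat_lit 380) (nat_lit 12351194849) (nat_lit 76) (nat_lit 13346437546) (nat_lit 111) (nat_lit 5) (nat_lit 116) (nat_lit 5) (nat_lit 112) (nat_lit 5) (nat_lit 384) (nat_lit 333) (nat_lit 183)))) (XT.nd (nat_lit 78) (nat_lit 304) (nat_lit 0) (XT.lf (nat_lit 0) (nat_lit 1459832549) (nat_lit 304) (nat_lit 3345623976) (nat_lit 380) (nat_lit 21426807399) (nat_lit 107) (nat_lit 5) (nat_lit 111) (nat_lit 5) (nat_lit 112) (nat_lit 5) (nat_lit 385) (nat_lit 333) (nat_lit 182)) (XT.nd (nat_lit 78) (nat_lit 304) (nat_lit 0) (XT.lf (nat_lit 0) (nat_lit 9885377129) (nat_lit 380) (nat_lit 10862467654) (nat_lit 76) (nat_lit 5983206249) (nat_lit 107) (nat_lit 5) (nat_lit 112) (nat_lit 5) (nat_lit 108) (nat_lit 5) (nat_lit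 386) (nat_lit 333) (nat_lit 181)) (XT.lf (nat_lit 0) (nat_lit 3490514410) (nat_lit 304) (nat_lit 11687519632) (nat_lit 380) (nat_lit 12064960054) (nat_lit 103) (nat_lit 5) (nat_lit 107) (nat_lit 5) (nat_lit 108) (nat_lit 5) (nat_lit 387) (nat_lit 333) (nat_lit 180))))) (XT.nd (nat_lit 234) (nat_lit 532) (nat_lit 0) (XT.nd (nat_lit 78) (nat_lit 304) (nat_lit 0) (XT.lf (nat_lit 0) (nat_lit 18487578652) (nat_lit 304) (nat_lit 2245338798) (nat_lit 380) (nat_lit 7034277029) (nat_lit 103) (nat_lit 5) (nat_lit 107) (nat_lit 5) (nat_lit 108) (nat_lit 5) (nat_lit 388) (nat_lit 333) (nat_lit 179)) (XT.nd (nat_lit 78) (nat_lit 76) (nat_lit 0) (XT.lf (nat_lit 0) (nat_lit 5656849355) (nat_lit 228) (nat_lit 20917790079) (nat_lit 304) (nat_lit 1728878037) (nat_lit 100) (nat_lit 5) (nat_lit 103) (nat_lit 5) (nat_lit 104) (nat_lit 5) (nat_lit 389) (nat_lit 333) (nat_lit 178)) (XT.lf (nat_lit 0) (nat_lit 3773592091) (nat_lit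 304) (nat_lit 7689656633) (nat_lit 76) (nat_lit 17388282188) (nat_lit 99) (nat_lit 5) (nat_lit 103) (nat_lit 5) (nat_lit 100) (nat_lit 5) (nat_lit 390) (nat_lit 333) (nat_lit 177)))) (XT.nd (nat_lit 156) (nat_lit 228) (nat_lit 0) (XT.nd (nat_lit 78) (nat_lit 0) (nat_lit 0) (XT.lf (nat_lit 0) (nat_lit 7843160315) (nat_lit 304) (nat_lit 1632738015) (nat_lit 380) (nat_lit 19937489735) (nat_lit 95) (nat_lit 5) (nat_lit 99) (nat_lit 5) (nat_lit 100) (nat_lit 5) (nat_lit 391) (nat_lit 333) (nat_lit 176)) (XT.lf (nat_lit 0) (nat_lit 15503506272) (nat_lit 380) (nat_lit 6081481476) (nat_lit 76) (nat_lit 8402488307) (nat_lit 95) (nat_lit 5) (nat_lit 100) (nat_lit 5) (nat_lit 96) (nat_lit 5) (nat_lit 392) (nat_lit 333) (nat_lit 175))) (XT.nd (nat_lit 78) (nat_lit 0) (nat_lit 0) (XT.lf (nat_lit 0) (nat_lit 10043101141) (nat_lit 228) (nat_lit 11775893417) (nat_lit 304) (nat_lit 8756582599) (nat_lit 92) (nat_lit 5) (nat_lit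 95) (nat_lit 5) (nat_lit 96) (nat_lit 5) (nat_lit 393) (nat_lit 333) (nat_lit 174)) (XT.lf (nat_lit 0) (nat_lit 26767532928) (nat_lit 228) (nat_lit 1612254023) (nat_lit 304) (nat_lit 2799861133) (nat_lit 92) (nat_lit 5) (nat_lit 95) (nat_lit 5) (nat_lit 96) (nat_lit 5) (nat_lit 394) (nat_lit 333) (nat_lit 173)))))) (XT.nd (nat_lit 468) (nat_lit 684) (nat_lit 0) (XT.nd (nat_lit 234) (nat_lit 532) (nat_lit 0) (XT.nd (nat_lit 78) (nat_lit 228) (nat_lit 0) (XT.lf (nat_lit 0) (nat_lit 3470740318) (nat_lit 380) (nat_lit 19490856752) (nat_lit 76) (nat_lit 8833276012) (nat_lit 87) (nat_lit 5) (nat_lit 92) (nat_lit 5) (nat_lit 88) (nat_lit 5) (nat_lit 395) (nat_lit 333) (nat_lit 172)) (XT.nd (nat_lit 78) (nat_lit 228) (nat_lit 0) (XT.lf (nat_lit 0) (nat_lit 9928729143) (nat_lit 380) (nat_lit 2867734654) (nat_lit 76) (nat_lit 19629594887) (nat_lit 87) (nat_lit 5) (nat_lit 92) (nat_lit 5) (nat_lit 88) (nat_lit 5)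 (nat_lit 396) (nat_lit 333) (nat_lit 171)) (XT.lf (nat_lit 0) (nat_lit 14529381479) (nat_lit 228) (nat_lit 2185485163) (nat_lit 304) (nat_lit 16357282697) (nat_lit 84) (nat_lit 5) (nat_lit 87) (nat_lit 5) (nat_lit 88) (nat_lit 5) (nat_lit 397) (nat_lit 333) (nat_lit 170)))) (XT.nd (nat_lit 78) (nat_lit 532) (nat_lit 0) (XT.lf (nat_lit 0) (nat_lit 23812674580) (nat_lit 304) (nat_lit 1322163121) (nat_lit 76) (nat_lit 8599544129) (nat_lit 84) (nat_lit 5) (nat_lit 88) (nat_lit 5) (nat_lit 85) (nat_lit 5) (nat_lit 398) (nat_lit 333) (nat_lit 169)) (XT.nd (nat_lit 78) (nat_lit 304) (nat_lit 0) (XT.lf (nat_lit 0) (nat_lit 16711495268) (nat_lit 228) (nat_lit 14589142938) (nat_lit 304) (nat_lit 3110528101) (nat_lit 81) (nat_lit 5) (nat_lit 84) (nat_lit 5) (nat_lit 85) (nat_lit 5) (nat_lit 399) (nat_lit 333) (nat_lit 168)) (XT.lf (nat_lit 0) (nat_lit 162870947) (nat_lit 228) (nat_lit 3675926015) (nat_lit 304) (nat_lit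 31268032475) (nat_lit 77) (nat_lit 5) (nat_lit 80) (nat_lit 5) (nat_lit 81) (nat_lit 5) (nat_lit 400) (nat_lit 333) (nat_lit 167))))) (XT.nd (nat_lit 234) (nat_lit 456) (nat_lit 0) (XT.nd (nat_lit 78) (nat_lit 228) (nat_lit 0) (XT.lf (nat_lit 0) (nat_lit 11182304314) (nat_lit 304) (nat_lit 17007262114) (nat_lit 76) (nat_lit 7625426997) (nat_lit 77) (nat_lit 5) (nat_lit 81) (nat_lit 5) (nat_lit 78) (nat_lit 5) (nat_lit 401) (nat_lit 333) (nat_lit 166)) (XT.nd (nat_lit 78) (nat_lit 0) (nat_lit 0) (XT.lf (nat_lit 0) (nat_lit 1451608307) (nat_lit 228) (nat_lit 17340006244) (nat_lit 304) (nat_lit 17751424321) (nat_lit 74) (nat_lit 5) (nat_lit 77) (nat_lit 5) (nat_lit 78) (nat_lit 5) (nat_lit 402) (nat_lit 333) (nat_lit 165)) (XT.lf (nat_lit 0) (nat_lit 20805096432) (nat_lit 228) (nat_lit 5991062788) (nat_lit 304) (nat_lit 10491759237) (nat_lit 74) (nat_lit 5) (nat_lit 77) (nat_lit 5) (nat_lit 78) (nat_lit 5)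 (nat_lit 403) (nat_lit 333) (nat_lit 164)))) (XT.nd (nat_lit 156) (nat_lit 228) (nat_lit 0) (XT.nd (nat_lit 78) (nat_lit 76) (nat_lit 0) (XT.lf (nat_lit 0) (nat_lit 2673776990) (nat_lit 152) (nat_lit 32442867766) (nat_lit 228) (nat_lit 2936226925) (nat_lit 72) (nat_lit 5) (nat_lit 74) (nat_lit 5) (nat_lit 75) (nat_lit 5) (nat_lit 404) (nat_lit 333) (nat_lit 163)) (XT.lf (nat_lit 0) (nat_lit 4974161309) (nat_lit 228) (nat_lit 16208057977) (nat_lit 76) (nat_lit 17650475478) (nat_lit 71) (nat_lit 5) (nat_lit 74) (nat_lit 5) (nat_lit 72) (nat_lit 5) (nat_lit 405) (nat_lit 333) (nat_lit 162))) (XT.nd (nat_lit 78) (nat_lit 0) (nat_lit 0) (XT.lf (nat_lit 0) (nat_lit 3571264761) (nat_lit 228) (nat_lit 9521388715) (nat_lit 304) (nat_lit 26541493960) (nat_lit 68) (nat_lit 5) (nat_lit 71) (nat_lit 5) (nat_lit 72) (nat_lit 5) (nat_lit 406) (nat_lit 333) (nat_lit 161)) (XT.lf (nat_lit 0) (nat_lit 21639429752) (nat_lit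 304) (nat_lit 16211561491) (nat_lit 76) (nat_lit 2603111796) (nat_lit 68) (nat_lit 5) (nat_lit 72) (nat_lit 5) (nat_lit 69) (nat_lit 5) (nat_lit 407) (nat_lit 333) (nat_lit 160))))))) (XT.nd (nat_lit 1014) (nat_lit 1064) (nat_lit 0) (XT.nd (nat_lit 468) (nat_lit 608) (nat_lit 0) (XT.nd (nat_lit 234) (nat_lit 152) (nat_lit 0) (XT.nd (nat_lit 78) (nat_lit 304) (nat_lit 0) (XT.lf (nat_lit 0) (nat_lit 4216020693) (nat_lit 152) (nat_lit 26357028408) (nat_lit 228) (nat_lit 10721696210) (nat_lit 66) (nat_lit 5) (nat_lit 68) (nat_lit 5) (nat_lit 69) (nat_lit 5) (nat_lit 408) (nat_lit 333) (nat_lit 159)) (XT.nd (nat_lit 78) (nat_lit 304) (nat_lit 0) (XT.lf (nat_lit 0) (nat_lit 25581545598) (nat_lit 152) (nat_lit 14352535735) (nat_lit 228) (nat_lit 2221744552) (nat_lit 66) (nat_lit 5) (nat_lit 68) (nat_lit 5) (nat_lit 69) (nat_lit 5) (nat_lit 409) (nat_lit 333) (nat_lit 158)) (XT.lf (nat_lit 0) (nat_lit 4564484718)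 (nat_lit 228) (nat_lit 1880893316) (nat_lit 304) (nat_lit 36594288137) (nat_lit 62) (nat_lit 5) (nat_lit 65) (nat_lit 5) (nat_lit 66) (nat_lit 5) (nat_lit 410) (nat_lit 333) (nat_lit 157)))) (XT.nd (nat_lit 78) (nat_lit 152) (nat_lit 0) (XT.lf (nat_lit 0) (nat_lit 15598095780) (nat_lit 304) (nat_lit 17403997498) (nat_lit 76) (nat_lit 10939162437) (nat_lit 62) (nat_lit 5) (nat_lit 66) (nat_lit 5) (nat_lit 63) (nat_lit 5) (nat_lit 411) (nat_lit 333) (nat_lit 156)) (XT.nd (nat_lit 78) (nat_lit 0) (nat_lit 0) (XT.lf (nat_lit 0) (nat_lit 4358853139) (nat_lit 152) (nat_lit 20722996817) (nat_lit 228) (nat_lit 19786350372) (nat_lit 60) (nat_lit 5) (nat_lit 62) (nat_lit 5) (nat_lit 63) (nat_lit 5) (nat_lit 412) (nat_lit 333) (nat_lit 155)) (XT.lf (nat_lit 0) (nat_lit 27124518804) (nat_lit 152) (nat_lit 7897329205) (nat_lit 228) (nat_lit 10795954335) (nat_lit 60) (nat_lit 5) (nat_lit 62) (nat_lit 5) (nat_lit 63)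 (nat_lit 5) (nat_lit 413) (nat_lit 333) (nat_lit 154))))) (XT.nd (nat_lit 234) (nat_lit 228) (nat_lit 0) (XT.nd (nat_lit 78) (nat_lit 228) (nat_lit 0) (XT.lf (nat_lit 0) (nat_lit 3793485859) (nat_lit 152) (nat_lit 41550173923) (nat_lit 228) (nat_lit 1449725197) (nat_lit 58) (nat_lit 5) (nat_lit 60) (nat_lit 5) (nat_lit 61) (nat_lit 5) (nat_lit 414) (nat_lit 333) (nat_lit 153)) (XT.nd (nat_lit 78) (nat_lit 152) (nat_lit 0) (XT.lf (nat_lit 0) (nat_lit 8282242679) (nat_lit 228) (nat_lit 20619922144) (nat_lit 76) (nat_lit 18885765775) (nat_lit 57) (nat_lit 5) (nat_lit 60) (nat_lit 5) (nat_lit 58) (nat_lit 5) (nat_lit 415) (nat_lit 333) (nat_lit 152)) (XT.lf (nat_lit 0) (nat_lit 2458530827) (nat_lit 152) (nat_lit 15838334212) (nat_lit 228) (nat_lit 30514422819) (nat_lit 55) (nat_lit 5) (nat_lit 57) (nat_lit 5) (nat_lit 58) (nat_lit 5) (nat_lit 416) (nat_lit 333) (nat_lit 151)))) (XT.nd (nat_lit 156) (nat_lit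 76) (nat_lit 0) (XT.nd (nat_lit 78) (nat_lit 152) (nat_lit 0) (XT.lf (nat_lit 0) (nat_lit 26645545347) (nat_lit 152) (nat_lit 2170850463) (nat_lit 228) (nat_lit 21042816799) (nat_lit 55) (nat_lit 5) (nat_lit 57) (nat_lit 5) (nat_lit 58) (nat_lit 5) (nat_lit 417) (nat_lit 333) (nat_lit 150)) (XT.lf (nat_lit 0) (nat_lit 508691415) (nat_lit 152) (nat_lit 39258497759) (nat_lit 228) (nat_lit 11167916466) (nat_lit 53) (nat_lit 5) (nat_lit 55) (nat_lit 5) (nat_lit 56) (nat_lit 5) (nat_lit 418) (nat_lit 333) (nat_lit 149))) (XT.nd (nat_lit 78) (nat_lit 76) (nat_lit 0) (XT.lf (nat_lit 0) (nat_lit 25390343344) (nat_lit 152) (nat_lit 25908237229) (nat_lit 228) (nat_lit 737133476) (nat_lit 53) (nat_lit 5) (nat_lit 55) (nat_lit 5) (nat_lit 56) (nat_lit 5) (nat_lit 419) (nat_lit 333) (nat_lit 148)) (XT.lf (nat_lit 0) (nat_lit 9807757470) (nat_lit 228) (nat_lit 2253286330) (nat_lit 76) (nat_lit 41105518536) (nat_lit 52)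 (nat_lit 5) (nat_lit 55) (nat_lit 5) (nat_lit 53) (nat_lit 5) (nat_lit 420) (nat_lit 333) (nat_lit 147)))))) (XT.nd (nat_lit 546) (nat_lit 380) (nat_lit 0) (XT.nd (nat_lit 234) (nat_lit 380) (nat_lit 0) (XT.nd (nat_lit 78) (nat_lit 152) (nat_lit 0) (XT.lf (nat_lit 0) (nat_lit 20898251324) (nat_lit 228) (nat_lit 31035782008) (nat_lit 76) (nat_lit 2389762379) (nat_lit 50) (nat_lit 5) (nat_lit 53) (nat_lit 5) (nat_lit 51) (nat_lit 5) (nat_lit 421) (nat_lit 333) (nat_lit 146)) (XT.nd (nat_lit 78) (nat_lit 152) (nat_lit 0) (XT.lf (nat_lit 0) (nat_lit 32460426050) (nat_lit 228) (nat_lit 5999001931) (nat_lit 76) (nat_lit 17052149849) (nat_lit 50) (nat_lit 5) (nat_lit 53) (nat_lit 5) (nat_lit 51) (nat_lit 5) (nat_lit 422) (nat_lit 333) (nat_lit 145)) (XT.lf (nat_lit 0) (nat_lit 20176738510) (nat_lit 152) (nat_lit 24383349264) (nat_lit 228) (nat_lit 12169187687) (nat_lit 48) (nat_lit 5) (nat_lit 50) (nat_lit 5)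 (nat_lit 51) (nat_lit 5) (nat_lit 423) (nat_lit 333) (nat_lit 144)))) (XT.nd (nat_lit 156) (nat_lit 152) (nat_lit 0) (XT.nd (nat_lit 78) (nat_lit 228) (nat_lit 0) (XT.lf (nat_lit 0) (nat_lit 47254918433) (nat_lit 152) (nat_lit 9825110837) (nat_lit 228) (nat_lit 901756735) (nat_lit 48) (nat_lit 5) (nat_lit 50) (nat_lit 5) (nat_lit 51) (nat_lit 5) (nat_lit 424) (nat_lit 333) (nat_lit 143)) (XT.lf (nat_lit 0) (nat_lit 10698384544) (nat_lit 228) (nat_lit 43237733656) (nat_lit 76) (nat_lit 5326560943) (nat_lit 45) (nat_lit 5) (nat_lit 48) (nat_lit 5) (nat_lit 46) (nat_lit 5) (nat_lit 425) (nat_lit 333) (nat_lit 142))) (XT.nd (nat_lit 78) (nat_lit 152) (nat_lit 0) (XT.lf (nat_lit 0) (nat_lit 22831868049) (nat_lit 228) (nat_lit 16892544052) (nat_lit 76) (nat_lit 20851215876) (nat_lit 45) (nat_lit 5) (nat_lit 48) (nat_lit 5) (nat_lit 46) (nat_lit 5) (nat_lit 426) (nat_lit 333) (nat_lit 141)) (XT.lf (nat_lit 0)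 (nat_lit 10441194406) (nat_lit 152) (nat_lit 24985413529) (nat_lit 228) (nat_lit 26498440391) (nat_lit 43) (nat_lit 5) (nat_lit 45) (nat_lit 5) (nat_lit 46) (nat_lit 5) (nat_lit 427) (nat_lit 333) (nat_lit 140))))) (XT.nd (nat_lit 234) (nat_lit 228) (nat_lit 0) (XT.nd (nat_lit 78) (nat_lit 152) (nat_lit 0) (XT.lf (nat_lit 0) (nat_lit 38935727898) (nat_lit 152) (nat_lit 9630966308) (nat_lit 228) (nat_lit 14743232540) (nat_lit 43) (nat_lit 5) (nat_lit 45) (nat_lit 5) (nat_lit 46) (nat_lit 5) (nat_lit 428) (nat_lit 333) (nat_lit 139)) (XT.nd (nat_lit 78) (nat_lit 76) (nat_lit 0) (XT.lf (nat_lit 0) (nat_lit 3553231529) (nat_lit 76) (nat_lit 58638342524) (nat_lit 152) (nat_lit 2542060309) (nat_lit 42) (nat_lit 5) (nat_lit 43) (nat_lit 5) (nat_lit 44) (nat_lit 4) (nat_lit 429) (nat_lit 333) (nat_lit 138)) (XT.lf (nat_lit 0) (nat_lit 10170440926) (nat_lit 152) (nat_lit 33574110687) (nat_lit 76) (nat_lit 22442383479)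 (nat_lit 41) (nat_lit 5) (nat_lit 43) (nat_lit 5) (nat_lit 42) (nat_lit 5) (nat_lit 430) (nat_lit 333) (nat_lit 137)))) (XT.nd (nat_lit 156) (nat_lit 76) (nat_lit 0) (XT.nd (nat_lit 78) (nat_lit 152) (nat_lit 0) (XT.lf (nat_lit 0) (nat_lit 23210307705) (nat_lit 152) (nat_lit 5170053576) (nat_lit 76) (nat_lit 39302806517) (nat_lit 41) (nat_lit 5) (nat_lit 43) (nat_lit 5) (nat_lit 42) (nat_lit 5) (nat_lit 431) (nat_lit 333) (nat_lit 136)) (XT.lf (nat_lit 0) (nat_lit 24560283000) (nat_lit 152) (nat_lit 12314344301) (nat_lit 228) (nat_lit 32342662986) (nat_lit 39) (nat_lit 5) (nat_lit 41) (nat_lit 5) (nat_lit 42) (nat_lit 5) (nat_lit 432) (nat_lit 333) (nat_lit 135))) (XT.nd (nat_lit 78) (nat_lit 76) (nat_lit 0) (XT.lf (nat_lit 0) (nat_lit 51039477855) (nat_lit 228) (nat_lit 15553687465) (nat_lit 76) (nat_lit 4201553582) (nat_lit 39) (nat_lit 5) (nat_lit 42) (nat_lit 5) (nat_lit 40) (nat_lit 4) (nat_lit 433)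 (nat_lit 333) (nat_lit 134)) (XT.lf (nat_lit 0) (nat_lit 14580357437) (nat_lit 76) (nat_lit 51308258719) (nat_lit 152) (nat_lit 6523074430) (nat_lit 38) (nat_lit 5) (nat_lit 39) (nat_lit 5) (nat_lit 40) (nat_lit 4) (nat_lit 434) (nat_lit 333) (nat_lit 133))))))))
noncomputable def xc185 : XT := (XT.nd (nat_lit 40872) (nat_lit 0) (nat_lit 6156) (XT.nd (nat_lit 39858) (nat_lit 0) (nat_lit 12540) (XT.nd (nat_lit 39312) (nat_lit 0) (nat_lit 15656) (XT.nd (nat_lit 39078) (nat_lit 0) (nat_lit 15580) (XT.nd (nat_lit 78) (nat_lit 152) (nat_lit 0) (XT.lf (nat_lit 0) (nat_lit 7123277168) (nat_lit 152) (nat_lit 28210035117) (nat_lit 76) (nat_lit 38737133811) (nat_lit 37) (nat_lit 5) (nat_lit 39) (nat_lit 5) (nat_lit 38) (nat_lit 5) (nat_lit 435) (nat_lit 333) (nat_lit 132)) (XT.nd (nat_lit 38922) (nat_lit 0) (nat_lit 16720) (XT.lf (nat_lit 0) (nat_lit 2274881148) (nat_lit 152) (nat_lit 18792245894) (nat_lit 228) (nat_lit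 54709323669) (nat_lit 35) (nat_lit 5) (nat_lit 37) (nat_lit 5) (nat_lit 38) (nat_lit 5) (nat_lit 436) (nat_lit 333) (nat_lit 131)) (XT.lf (nat_lit 0) (nat_lit 5713361593) (nat_lit 1140) (nat_lit 15842749) (nat_lit 1140) (nat_lit 15842749) (nat_lit 255) (nat_lit 3) (nat_lit 270) (nat_lit 3) (nat_lit 270) (nat_lit 5) (nat_lit 334) (nat_lit 334) (nat_lit 232)))) (XT.nd (nat_lit 78) (nat_lit 0) (nat_lit 0) (XT.lf (nat_lit 0) (nat_lit 496671616) (nat_lit 1140) (nat_lit 6121520350) (nat_lit 1216) (nat_lit 5027144273) (nat_lit 240) (nat_lit 5) (nat_lit 255) (nat_lit 3) (nat_lit 256) (nat_lit 5) (nat_lit 335) (nat_lit 334) (nat_lit 231)) (XT.nd (nat_lit 78) (nat_lit 0) (nat_lit 76) (XT.lf (nat_lit 0) (nat_lit 1052714910) (nat_lit 1140) (nat_lit 569905018) (nat_lit 1216) (nat_lit 10183195718) (nat_lit 240) (nat_lit 5) (nat_lit 255) (nat_lit 3) (nat_lit 256) (nat_lit 5) (nat_lit 336) (nat_lit 334) (nat_lit 230))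 (XT.lf (nat_lit 0) (nat_lit 1690986890) (nat_lit 1140) (nat_lit 6764493340) (nat_lit 1216) (nat_lit 3513675506) (nat_lit 241) (nat_lit 5) (nat_lit 256) (nat_lit 5) (nat_lit 257) (nat_lit 5) (nat_lit 337) (nat_lit 334) (nat_lit 229))))) (XT.nd (nat_lit 234) (nat_lit 0) (nat_lit 152) (XT.nd (nat_lit 78) (nat_lit 0) (nat_lit 76) (XT.lf (nat_lit 0) (nat_lit 2351557324) (nat_lit 1140) (nat_lit 1000122875) (nat_lit 1216) (nat_lit 8785633671) (nat_lit 241) (nat_lit 5) (nat_lit 256) (nat_lit 5) (nat_lit 257) (nat_lit 5) (nat_lit 338) (nat_lit 334) (nat_lit 228)) (XT.nd (nat_lit 78) (nat_lit 0) (nat_lit 0) (XT.lf (nat_lit 0) (nat_lit 3080928175) (nat_lit 1140) (nat_lit 7303871430) (nat_lit 1216) (nat_lit 1924259637) (nat_lit 242) (nat_lit 5) (nat_lit 257) (nat_lit 5) (nat_lit 258) (nat_lit 5) (nat_lit 339) (nat_lit 334) (nat_lit 227)) (XT.lf (nat_lit 0) (nat_lit 3857880951) (nat_lit 1140) (nat_lit 1318897558) (nat_lit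 1216) (nat_lit 7308419085) (nat_lit 242) (nat_lit 5) (nat_lit 257) (nat_lit 5) (nat_lit 258) (nat_lit 5) (nat_lit 340) (nat_lit 334) (nat_lit 226)))) (XT.nd (nat_lit 156) (nat_lit 0) (nat_lit 0) (XT.nd (nat_lit 78) (nat_lit 0) (nat_lit 0) (XT.lf (nat_lit 0) (nat_lit 4690707031) (nat_lit 1140) (nat_lit 7737003224) (nat_lit 1216) (nat_lit 237944203) (nat_lit 243) (nat_lit 5) (nat_lit 258) (nat_lit 5) (nat_lit 259) (nat_lit 5) (nat_lit 341) (nat_lit 334) (nat_lit 225)) (XT.lf (nat_lit 0) (nat_lit 5596510673) (nat_lit 1140) (nat_lit 1523110882) (nat_lit 1216) (nat_lit 5730474664) (nat_lit 243) (nat_lit 5) (nat_lit 258) (nat_lit 5) (nat_lit 259) (nat_lit 5) (nat_lit 342) (nat_lit 334) (nat_lit 224))) (XT.nd (nat_lit 78) (nat_lit 0) (nat_lit 76) (XT.lf (nat_lit 76) (nat_lit 4963113536) (nat_lit 0) (nat_lit 1597857550) (nat_lit 1216) (nat_lit 6478166320) (nat_lit 244) (nat_lit 5) (nat_lit 243) (nat_lit 5) (nat_lit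 259) (nat_lit 5) (nat_lit 343) (nat_lit 334) (nat_lit 223)) (XT.lf (nat_lit 0) (nat_lit 7593400453) (nat_lit 1140) (nat_lit 1609065238) (nat_lit 1216) (nat_lit 4030223430) (nat_lit 244) (nat_lit 5) (nat_lit 259) (nat_lit 5) (nat_lit 260) (nat_lit 5) (nat_lit 344) (nat_lit 334) (nat_lit 222)))))) (XT.nd (nat_lit 468) (nat_lit 2280) (nat_lit 0) (XT.nd (nat_lit 234) (nat_lit 1064) (nat_lit 0) (XT.nd (nat_lit 78) (nat_lit 0) (nat_lit 76) (XT.lf (nat_lit 76) (nat_lit 5125060897) (nat_lit 0) (nat_lit 3581478928) (nat_lit 1216) (nat_lit 4724025491) (nat_lit 245) (nat_lit 5) (nat_lit 244) (nat_lit 5) (nat_lit 260) (nat_lit 5) (nat_lit 345) (nat_lit 334) (nat_lit 221)) (XT.nd (nat_lit 78) (nat_lit 0) (nat_lit 0) (XT.lf (nat_lit 0) (nat_lit 9875741490) (nat_lit 1140) (nat_lit 1572502474) (nat_lit 1216) (nat_lit 2185463540) (nat_lit 245) (nat_lit 5) (nat_lit 260) (nat_lit 5) (nat_lit 261) (nat_lit 5) (nat_lit 346)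 (nat_lit 334) (nat_lit 220)) (XT.lf (nat_lit 76) (nat_lit 5421739272) (nat_lit 0) (nat_lit 5731325995) (nat_lit 1216) (nat_lit 2687696776) (nat_lit 246) (nat_lit 5) (nat_lit 245) (nat_lit 5) (nat_lit 261) (nat_lit 5) (nat_lit 347) (nat_lit 334) (nat_lit 219)))) (XT.nd (nat_lit 78) (nat_lit 1216) (nat_lit 0) (XT.lf (nat_lit 0) (nat_lit 12472072900) (nat_lit 1140) (nat_lit 1408621885) (nat_lit 1216) (nat_lit 173241700) (nat_lit 246) (nat_lit 5) (nat_lit 261) (nat_lit 5) (nat_lit 262) (nat_lit 5) (nat_lit 348) (nat_lit 334) (nat_lit 218)) (XT.nd (nat_lit 78) (nat_lit 1216) (nat_lit 0) (XT.lf (nat_lit 76) (nat_lit 5858554378) (nat_lit 0) (nat_lit 8071388866) (nat_lit 1216) (nat_lit 340593063) (nat_lit 247) (nat_lit 5) (nat_lit 246) (nat_lit 5) (nat_lit 262) (nat_lit 5) (nat_lit 349) (nat_lit 334) (nat_lit 217)) (XT.lf (nat_lit 0) (nat_lit 920362667) (nat_lit 1216) (nat_lit 1141025547) (nat_lit 1292) (nat_lit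 12431961372) (nat_lit 230) (nat_lit 5) (nat_lit 246) (nat_lit 5) (nat_lit 247) (nat_lit 5) (nat_lit 350) (nat_lit 334) (nat_lit 216))))) (XT.nd (nat_lit 234) (nat_lit 1140) (nat_lit 0) (XT.nd (nat_lit 78) (nat_lit 1216) (nat_lit 0) (XT.lf (nat_lit 0) (nat_lit 2301537141) (nat_lit 1216) (nat_lit 8301860726) (nat_lit 76) (nat_lit 4116679325) (nat_lit 231) (nat_lit 5) (nat_lit 247) (nat_lit 5) (nat_lit 232) (nat_lit 5) (nat_lit 351) (nat_lit 334) (nat_lit 215)) (XT.nd (nat_lit 78) (nat_lit 1216) (nat_lit 0) (XT.lf (nat_lit 0) (nat_lit 3743274338) (nat_lit 1216) (nat_lit 757422153) (nat_lit 76) (nat_lit 10452344239) (nat_lit 231) (nat_lit 5) (nat_lit 247) (nat_lit 5) (nat_lit 232) (nat_lit 5) (nat_lit 352) (nat_lit 334) (nat_lit 214)) (XT.lf (nat_lit 0) (nat_lit 5302227048) (nat_lit 1292) (nat_lit 8067395672) (nat_lit 76) (nat_lit 1821159250) (nat_lit 215) (nat_lit 5) (nat_lit 232) (nat_lit 5) (nat_lit 216)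 (nat_lit 5) (nat_lit 353) (nat_lit 334) (nat_lit 213)))) (XT.nd (nat_lit 156) (nat_lit 532) (nat_lit 0) (XT.nd (nat_lit 78) (nat_lit 608) (nat_lit 0) (XT.lf (nat_lit 0) (nat_lit 6947966861) (nat_lit 1292) (nat_lit 235135247) (nat_lit 76) (nat_lit 8251360255) (nat_lit 215) (nat_lit 5) (nat_lit 232) (nat_lit 5) (nat_lit 216) (nat_lit 5) (nat_lit 354) (nat_lit 334) (nat_lit 212)) (XT.lf (nat_lit 0) (nat_lit 7976859381) (nat_lit 608) (nat_lit 730988197) (nat_lit 684) (nat_lit 6975669785) (nat_lit 207) (nat_lit 5) (nat_lit 215) (nat_lit 5) (nat_lit 216) (nat_lit 5) (nat_lit 355) (nat_lit 334) (nat_lit 211))) (XT.nd (nat_lit 78) (nat_lit 0) (nat_lit 0) (XT.lf (nat_lit 0) (nat_lit 440630668) (nat_lit 532) (nat_lit 10131725146) (nat_lit 608) (nat_lit 5366140309) (nat_lit 200) (nat_lit 5) (nat_lit 207) (nat_lit 5) (nat_lit 208) (nat_lit 5) (nat_lit 356) (nat_lit 334) (nat_lit 210)) (XT.lf (nat_lit 0) (nat_lit 8971895061)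 (nat_lit 532) (nat_lit 3594468314) (nat_lit 608) (nat_lit 3632560790) (nat_lit 200) (nat_lit 5) (nat_lit 207) (nat_lit 5) (nat_lit 208) (nat_lit 5) (nat_lit 357) (nat_lit 334) (nat_lit 209))))))) (XT.nd (nat_lit 1014) (nat_lit 2736) (nat_lit 0) (XT.nd (nat_lit 468) (nat_lit 1900) (nat_lit 0) (XT.nd (nat_lit 234) (nat_lit 532) (nat_lit 0) (XT.nd (nat_lit 78) (nat_lit 608) (nat_lit 0) (XT.lf (nat_lit 0) (nat_lit 1275588861) (nat_lit 608) (nat_lit 13375948860) (nat_lit 684) (nat_lit 1814693567) (nat_lit 192) (nat_lit 5) (nat_lit 200) (nat_lit 5) (nat_lit 201) (nat_lit 5) (nat_lit 358) (nat_lit 334) (nat_lit 208)) (XT.nd (nat_lit 78) (nat_lit 532) (nat_lit 0) (XT.lf (nat_lit 0) (nat_lit 154889180) (nat_lit 684) (nat_lit 6605980132) (nat_lit 76) (nat_lit 9977728761) (nat_lit 191) (nat_lit 5) (nat_lit 200) (nat_lit 5) (nat_lit 192) (nat_lit 5) (nat_lit 359) (nat_lit 334) (nat_lit 207)) (XT.lf (nat_lit 0) (nat_lit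 2158959037) (nat_lit 608) (nat_lit 14767836375) (nat_lit 76) (nat_lit 91451313) (nat_lit 184) (nat_lit 5) (nat_lit 192) (nat_lit 5) (nat_lit 185) (nat_lit 5) (nat_lit 360) (nat_lit 334) (nat_lit 206)))) (XT.nd (nat_lit 78) (nat_lit 532) (nat_lit 0) (XT.lf (nat_lit 0) (nat_lit 4346998141) (nat_lit 608) (nat_lit 5875037733) (nat_lit 76) (nat_lit 7080539448) (nat_lit 184) (nat_lit 5) (nat_lit 192) (nat_lit 5) (nat_lit 185) (nat_lit 5) (nat_lit 361) (nat_lit 334) (nat_lit 205)) (XT.nd (nat_lit 78) (nat_lit 0) (nat_lit 0) (XT.lf (nat_lit 0) (nat_lit 3338959198) (nat_lit 532) (nat_lit 3283659934) (nat_lit 608) (nat_lit 10972162150) (nat_lit 177) (nat_lit 5) (nat_lit 184) (nat_lit 5) (nat_lit 185) (nat_lit 5) (nat_lit 362) (nat_lit 334) (nat_lit 204)) (XT.lf (nat_lit 0) (nat_lit 9053586423) (nat_lit 608) (nat_lit 4992818142) (nat_lit 76) (nat_lit 3846742087) (nat_lit 177) (nat_lit 5) (nat_lit 185) (nat_lit 5)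 (nat_lit 178) (nat_lit 5) (nat_lit 363) (nat_lit 334) (nat_lit 203))))) (XT.nd (nat_lit 234) (nat_lit 988) (nat_lit 0) (XT.nd (nat_lit 78) (nat_lit 456) (nat_lit 0) (XT.lf (nat_lit 0) (nat_lit 4594606781) (nat_lit 456) (nat_lit 7029875621) (nat_lit 532) (nat_lit 6573975989) (nat_lit 171) (nat_lit 5) (nat_lit 177) (nat_lit 5) (nat_lit 178) (nat_lit 5) (nat_lit 364) (nat_lit 334) (nat_lit 202)) (XT.nd (nat_lit 78) (nat_lit 456) (nat_lit 0) (XT.lf (nat_lit 0) (nat_lit 14315810353) (nat_lit 532) (nat_lit 3952600249) (nat_lit 76) (nat_lit 243224970) (nat_lit 171) (nat_lit 5) (nat_lit 178) (nat_lit 5) (nat_lit 172) (nat_lit 5) (nat_lit 365) (nat_lit 334) (nat_lit 201)) (XT.lf (nat_lit 0) (nat_lit 6025691865) (nat_lit 456) (nat_lit 11180481657) (nat_lit 532) (nat_lit 1624490772) (nat_lit 165) (nat_lit 5) (nat_lit 171) (nat_lit 5) (nat_lit 172) (nat_lit 5) (nat_lit 366) (nat_lit 334) (nat_lit 200)))) (XT.nd (nat_lit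 156) (nat_lit 456) (nat_lit 0) (XT.nd (nat_lit 78) (nat_lit 456) (nat_lit 0) (XT.lf (nat_lit 0) (nat_lit 1035155361) (nat_lit 532) (nat_lit 2794508946) (nat_lit 76) (nat_lit 15328374476) (nat_lit 164) (nat_lit 5) (nat_lit 171) (nat_lit 5) (nat_lit 165) (nat_lit 5) (nat_lit 367) (nat_lit 334) (nat_lit 199)) (XT.lf (nat_lit 0) (nat_lit 3843322606) (nat_lit 532) (nat_lit 11890665852) (nat_lit 76) (nat_lit 3757726711) (nat_lit 158) (nat_lit 5) (nat_lit 165) (nat_lit 5) (nat_lit 159) (nat_lit 5) (nat_lit 368) (nat_lit 334) (nat_lit 198))) (XT.nd (nat_lit 78) (nat_lit 456) (nat_lit 0) (XT.lf (nat_lit 0) (nat_lit 6793409621) (nat_lit 532) (nat_lit 1517398924) (nat_lit 76) (nat_lit 11522867580) (nat_lit 158) (nat_lit 5) (nat_lit 165) (nat_lit 5) (nat_lit 159) (nat_lit 5) (nat_lit 369) (nat_lit 334) (nat_lit 197)) (XT.lf (nat_lit 0) (nat_lit 9339204809) (nat_lit 456) (nat_lit 574082009) (nat_lit 532) (nat_lit 10270174856)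 (nat_lit 152) (nat_lit 5) (nat_lit 158) (nat_lit 5) (nat_lit 159) (nat_lit 5) (nat_lit 370) (nat_lit 334) (nat_lit 196)))))) (XT.nd (nat_lit 546) (nat_lit 1064) (nat_lit 0) (XT.nd (nat_lit 234) (nat_lit 836) (nat_lit 0) (XT.nd (nat_lit 78) (nat_lit 836) (nat_lit 0) (XT.lf (nat_lit 0) (nat_lit 13204966029) (nat_lit 532) (nat_lit 72145769) (nat_lit 76) (nat_lit 7264287081) (nat_lit 152) (nat_lit 5) (nat_lit 159) (nat_lit 5) (nat_lit 153) (nat_lit 5) (nat_lit 371) (nat_lit 334) (nat_lit 195)) (XT.nd (nat_lit 78) (nat_lit 456) (nat_lit 0) (XT.lf (nat_lit 0) (nat_lit 11226571871) (nat_lit 380) (nat_lit 5474316061) (nat_lit 456) (nat_lit 4206025637) (nat_lit 147) (nat_lit 5) (nat_lit 152) (nat_lit 5) (nat_lit 153) (nat_lit 5) (nat_lit 372) (nat_lit 334) (nat_lit 194)) (XT.lf (nat_lit 0) (nat_lit 1578448047) (nat_lit 456) (nat_lit 18755796235) (nat_lit 532) (nat_lit 948176730) (nat_lit 141) (nat_lit 5) (nat_lit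 147) (nat_lit 5) (nat_lit 148) (nat_lit 5) (nat_lit 373) (nat_lit 334) (nat_lit 193)))) (XT.nd (nat_lit 156) (nat_lit 380) (nat_lit 0) (XT.nd (nat_lit 78) (nat_lit 380) (nat_lit 0) (XT.lf (nat_lit 0) (nat_lit 2505422206) (nat_lit 532) (nat_lit 8381266575) (nat_lit 76) (nat_lit 10777464688) (nat_lit 140) (nat_lit 5) (nat_lit 147) (nat_lit 5) (nat_lit 141) (nat_lit 5) (nat_lit 374) (nat_lit 334) (nat_lit 192)) (XT.lf (nat_lit 0) (nat_lit 3326812377) (nat_lit 380) (nat_lit 2741039928) (nat_lit 456) (nat_lit 15988479214) (nat_lit 135) (nat_lit 5) (nat_lit 140) (nat_lit 5) (nat_lit 141) (nat_lit 5) (nat_lit 375) (nat_lit 334) (nat_lit 191))) (XT.nd (nat_lit 78) (nat_lit 380) (nat_lit 0) (XT.lf (nat_lit 0) (nat_lit 9869340007) (nat_lit 456) (nat_lit 6964885924) (nat_lit 76) (nat_lit 5622087010) (nat_lit 135) (nat_lit 5) (nat_lit 141) (nat_lit 5) (nat_lit 136) (nat_lit 5) (nat_lit 376) (nat_lit 334) (nat_lit 190))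 (XT.lf (nat_lit 0) (nat_lit 5217701203) (nat_lit 380) (nat_lit 8637097860) (nat_lit 456) (nat_lit 9011400405) (nat_lit 130) (nat_lit 5) (nat_lit 135) (nat_lit 5) (nat_lit 136) (nat_lit 5) (nat_lit 377) (nat_lit 334) (nat_lit 189))))) (XT.nd (nat_lit 234) (nat_lit 684) (nat_lit 0) (XT.nd (nat_lit 78) (nat_lit 380) (nat_lit 0) (XT.lf (nat_lit 0) (nat_lit 17898971783) (nat_lit 380) (nat_lit 123936412) (nat_lit 456) (nat_lit 5263585170) (nat_lit 130) (nat_lit 5) (nat_lit 135) (nat_lit 5) (nat_lit 136) (nat_lit 5) (nat_lit 378) (nat_lit 334) (nat_lit 188)) (XT.nd (nat_lit 78) (nat_lit 76) (nat_lit 0) (XT.lf (nat_lit 0) (nat_lit 7290978827) (nat_lit 304) (nat_lit 15171208471) (nat_lit 380) (nat_lit 1252828248) (nat_lit 126) (nat_lit 5) (nat_lit 130) (nat_lit 5) (nat_lit 131) (nat_lit 5) (nat_lit 379) (nat_lit 334) (nat_lit 187)) (XT.lf (nat_lit 0) (nat_lit 2871242885) (nat_lit 380) (nat_lit 3733452526) (nat_lit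 76) (nat_lit 17549396338) (nat_lit 125) (nat_lit 5) (nat_lit 130) (nat_lit 5) (nat_lit 126) (nat_lit 5) (nat_lit 380) (nat_lit 334) (nat_lit 186)))) (XT.nd (nat_lit 156) (nat_lit 304) (nat_lit 0) (XT.nd (nat_lit 78) (nat_lit 0) (nat_lit 0) (XT.lf (nat_lit 0) (nat_lit 7200714624) (nat_lit 456) (nat_lit 15124165608) (nat_lit 76) (nat_lit 2277885096) (nat_lit 120) (nat_lit 5) (nat_lit 126) (nat_lit 5) (nat_lit 121) (nat_lit 5) (nat_lit 381) (nat_lit 334) (nat_lit 185)) (XT.lf (nat_lit 0) (nat_lit 11756815552) (nat_lit 456) (nat_lit 1975331712) (nat_lit 76) (nat_lit 11329852400) (nat_lit 120) (nat_lit 5) (nat_lit 126) (nat_lit 5) (nat_lit 121) (nat_lit 5) (nat_lit 382) (nat_lit 334) (nat_lit 184))) (XT.nd (nat_lit 78) (nat_lit 0) (nat_lit 0) (XT.lf (nat_lit 0) (nat_lit 11788941059) (nat_lit 304) (nat_lit 4767454934) (nat_lit 380) (nat_lit 8975413961) (nat_lit 116) (nat_lit 5) (nat_lit 120) (nat_lit 5) (nat_lit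 121) (nat_lit 5) (nat_lit 383) (nat_lit 334) (nat_lit 183)) (XT.lf (nat_lit 0) (nat_lit 21556593063) (nat_lit 380) (nat_lit 60763611) (nat_lit 76) (nat_lit 4396661738) (nat_lit 116) (nat_lit 5) (nat_lit 121) (nat_lit 5) (nat_lit 117) (nat_lit 5) (nat_lit 384) (nat_lit 334) (nat_lit 182))))))))
noncomputable def xc186 : XT := (XT.nd (nat_lit 2028) (nat_lit 2128) (nat_lit 0) (XT.nd (nat_lit 1014) (nat_lit 1596) (nat_lit 0) (XT.nd (nat_lit 468) (nat_lit 988) (nat_lit 0) (XT.nd (nat_lit 234) (nat_lit 532) (nat_lit 0) (XT.nd (nat_lit 78) (nat_lit 304) (nat_lit 0) (XT.lf (nat_lit 0) (nat_lit 371995854) (nat_lit 380) (nat_lit 12255143656) (nat_lit 76) (nat_lit 13878108050) (nat_lit 111) (nat_lit 5) (nat_lit 116) (nat_lit 5) (nat_lit 112) (nat_lit 5) (nat_lit 385) (nat_lit 334) (nat_lit 181)) (XT.nd (nat_lit 78) (nat_lit 0) (nat_lit 0) (XT.lf (nat_lit 0) (nat_lit 1965640182) (nat_lit 304) (nat_lit 3304359350) (nat_lit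 380) (nat_lit 21739493877) (nat_lit 107) (nat_lit 5) (nat_lit 111) (nat_lit 5) (nat_lit 112) (nat_lit 5) (nat_lit 386) (nat_lit 334) (nat_lit 180)) (XT.lf (nat_lit 0) (nat_lit 10494308130) (nat_lit 380) (nat_lit 10731652730) (nat_lit 76) (nat_lit 6297527260) (nat_lit 107) (nat_lit 5) (nat_lit 112) (nat_lit 5) (nat_lit 108) (nat_lit 5) (nat_lit 387) (nat_lit 334) (nat_lit 179)))) (XT.nd (nat_lit 78) (nat_lit 228) (nat_lit 0) (XT.lf (nat_lit 0) (nat_lit 4047441454) (nat_lit 304) (nat_lit 11893552085) (nat_lit 380) (nat_lit 12109942066) (nat_lit 103) (nat_lit 5) (nat_lit 107) (nat_lit 5) (nat_lit 108) (nat_lit 5) (nat_lit 388) (nat_lit 334) (nat_lit 178)) (XT.nd (nat_lit 78) (nat_lit 228) (nat_lit 0) (XT.lf (nat_lit 0) (nat_lit 19481246411) (nat_lit 304) (nat_lit 2172317277) (nat_lit 380) (nat_lit 6937570593) (nat_lit 103) (nat_lit 5) (nat_lit 107) (nat_lit 5) (nat_lit 108) (nat_lit 5) (nat_lit 389) (nat_lit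 334) (nat_lit 177)) (XT.lf (nat_lit 0) (nat_lit 6268941764) (nat_lit 228) (nat_lit 21398459394) (nat_lit 304) (nat_lit 1476243276) (nat_lit 100) (nat_lit 5) (nat_lit 103) (nat_lit 5) (nat_lit 104) (nat_lit 5) (nat_lit 390) (nat_lit 334) (nat_lit 176))))) (XT.nd (nat_lit 234) (nat_lit 608) (nat_lit 0) (XT.nd (nat_lit 78) (nat_lit 304) (nat_lit 0) (XT.lf (nat_lit 0) (nat_lit 4176663144) (nat_lit 304) (nat_lit 7484969207) (nat_lit 76) (nat_lit 18046642185) (nat_lit 99) (nat_lit 5) (nat_lit 103) (nat_lit 5) (nat_lit 100) (nat_lit 5) (nat_lit 391) (nat_lit 334) (nat_lit 175)) (XT.nd (nat_lit 78) (nat_lit 0) (nat_lit 0) (XT.lf (nat_lit 0) (nat_lit 8509563847) (nat_lit 304) (nat_lit 1536176185) (nat_lit 380) (nat_lit 20241379428) (nat_lit 95) (nat_lit 5) (nat_lit 99) (nat_lit 5) (nat_lit 100) (nat_lit 5) (nat_lit 392) (nat_lit 334) (nat_lit 174)) (XT.lf (nat_lit 0) (nat_lit 16247217100) (nat_lit 380) (nat_lit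 5838314355) (nat_lit 76) (nat_lit 8793110417) (nat_lit 95) (nat_lit 5) (nat_lit 100) (nat_lit 5) (nat_lit 96) (nat_lit 5) (nat_lit 393) (nat_lit 334) (nat_lit 173)))) (XT.nd (nat_lit 156) (nat_lit 380) (nat_lit 0) (XT.nd (nat_lit 78) (nat_lit 0) (nat_lit 0) (XT.lf (nat_lit 0) (nat_lit 10765833079) (nat_lit 228) (nat_lit 11982273357) (nat_lit 304) (nat_lit 8736404400) (nat_lit 92) (nat_lit 5) (nat_lit 95) (nat_lit 5) (nat_lit 96) (nat_lit 5) (nat_lit 394) (nat_lit 334) (nat_lit 172)) (XT.lf (nat_lit 0) (nat_lit 27979722899) (nat_lit 228) (nat_lit 1518003331) (nat_lit 304) (nat_lit 2609220387) (nat_lit 92) (nat_lit 5) (nat_lit 95) (nat_lit 5) (nat_lit 96) (nat_lit 5) (nat_lit 395) (nat_lit 334) (nat_lit 171))) (XT.nd (nat_lit 78) (nat_lit 0) (nat_lit 0) (XT.lf (nat_lit 0) (nat_lit 3841638840) (nat_lit 380) (nat_lit 19658377306) (nat_lit 76) (nat_lit 9240610727) (nat_lit 87) (nat_lit 5) (nat_lit 92) (nat_lit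 5) (nat_lit 88) (nat_lit 5) (nat_lit 396) (nat_lit 334) (nat_lit 170)) (XT.lf (nat_lit 0) (nat_lit 10485597146) (nat_lit 380) (nat_lit 2548713151) (nat_lit 76) (nat_lit 20356673447) (nat_lit 87) (nat_lit 5) (nat_lit 92) (nat_lit 5) (nat_lit 88) (nat_lit 5) (nat_lit 397) (nat_lit 334) (nat_lit 169)))))) (XT.nd (nat_lit 468) (nat_lit 608) (nat_lit 0) (XT.nd (nat_lit 234) (nat_lit 532) (nat_lit 0) (XT.nd (nat_lit 78) (nat_lit 228) (nat_lit 0) (XT.lf (nat_lit 0) (nat_lit 15366345352) (nat_lit 228) (nat_lit 2105284999) (nat_lit 304) (nat_lit 16584939940) (nat_lit 84) (nat_lit 5) (nat_lit 87) (nat_lit 5) (nat_lit 88) (nat_lit 5) (nat_lit 398) (nat_lit 334) (nat_lit 168)) (XT.nd (nat_lit 78) (nat_lit 228) (nat_lit 0) (XT.lf (nat_lit 0) (nat_lit 24776296458) (nat_lit 304) (nat_lit 966269978) (nat_lit 76) (nat_lit 8996288049) (nat_lit 84) (nat_lit 5) (nat_lit 88) (nat_lit 5) (nat_lit 85) (nat_lit 5) (nat_lit 399)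 (nat_lit 334) (nat_lit 167)) (XT.lf (nat_lit 0) (nat_lit 17604520142) (nat_lit 228) (nat_lit 14880884453) (nat_lit 304) (nat_lit 2950645108) (nat_lit 81) (nat_lit 5) (nat_lit 84) (nat_lit 5) (nat_lit 85) (nat_lit 5) (nat_lit 400) (nat_lit 334) (nat_lit 166)))) (XT.nd (nat_lit 78) (nat_lit 228) (nat_lit 0) (XT.lf (nat_lit 0) (nat_lit 560565590) (nat_lit 228) (nat_lit 3638198396) (nat_lit 304) (nat_lit 31953851611) (nat_lit 77) (nat_lit 5) (nat_lit 80) (nat_lit 5) (nat_lit 81) (nat_lit 5) (nat_lit 401) (nat_lit 334) (nat_lit 165)) (XT.nd (nat_lit 78) (nat_lit 228) (nat_lit 0) (XT.lf (nat_lit 0) (nat_lit 11756827650) (nat_lit 304) (nat_lit 17130291124) (nat_lit 76) (nat_lit 7995080371) (nat_lit 77) (nat_lit 5) (nat_lit 81) (nat_lit 5) (nat_lit 78) (nat_lit 5) (nat_lit 402) (nat_lit 334) (nat_lit 164)) (XT.lf (nat_lit 0) (nat_lit 1878549441) (nat_lit 228) (nat_lit 17712590417) (nat_lit 304) (nat_lit 18041046528)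 (nat_lit 74) (nat_lit 5) (nat_lit 77) (nat_lit 5) (nat_lit 78) (nat_lit 5) (nat_lit 403) (nat_lit 334) (nat_lit 163))))) (XT.nd (nat_lit 234) (nat_lit 380) (nat_lit 0) (XT.nd (nat_lit 78) (nat_lit 228) (nat_lit 0) (XT.lf (nat_lit 0) (nat_lit 21801475427) (nat_lit 228) (nat_lit 6027478153) (nat_lit 304) (nat_lit 10570666847) (nat_lit 74) (nat_lit 5) (nat_lit 77) (nat_lit 5) (nat_lit 78) (nat_lit 5) (nat_lit 404) (nat_lit 334) (nat_lit 162)) (XT.nd (nat_lit 78) (nat_lit 76) (nat_lit 0) (XT.lf (nat_lit 0) (nat_lit 3128070574) (nat_lit 152) (nat_lit 33269249246) (nat_lit 228) (nat_lit 2790256431) (nat_lit 72) (nat_lit 5) (nat_lit 74) (nat_lit 5) (nat_lit 75) (nat_lit 5) (nat_lit 405) (nat_lit 334) (nat_lit 161)) (XT.lf (nat_lit 0) (nat_lit 5346191974) (nat_lit 228) (nat_lit 16326618209) (nat_lit 76) (nat_lit 18318118747) (nat_lit 71) (nat_lit 5) (nat_lit 74) (nat_lit 5) (nat_lit 72) (nat_lit 5) (nat_lit 406)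 (nat_lit 334) (nat_lit 160)))) (XT.nd (nat_lit 156) (nat_lit 152) (nat_lit 0) (XT.nd (nat_lit 78) (nat_lit 0) (nat_lit 0) (XT.lf (nat_lit 0) (nat_lit 4042479490) (nat_lit 228) (nat_lit 9662769655) (nat_lit 304) (nat_lit 27111267551) (nat_lit 68) (nat_lit 5) (nat_lit 71) (nat_lit 5) (nat_lit 72) (nat_lit 5) (nat_lit 407) (nat_lit 334) (nat_lit 159)) (XT.lf (nat_lit 0) (nat_lit 22503372631) (nat_lit 304) (nat_lit 16339320736) (nat_lit 76) (nat_lit 2818531049) (nat_lit 68) (nat_lit 5) (nat_lit 72) (nat_lit 5) (nat_lit 69) (nat_lit 5) (nat_lit 408) (nat_lit 334) (nat_lit 158))) (XT.nd (nat_lit 78) (nat_lit 0) (nat_lit 0) (XT.lf (nat_lit 0) (nat_lit 4697573349) (nat_lit 152) (nat_lit 27004585237) (nat_lit 228) (nat_lit 10825014347) (nat_lit 66) (nat_lit 5) (nat_lit 68) (nat_lit 5) (nat_lit 69) (nat_lit 5) (nat_lit 409) (nat_lit 334) (nat_lit 157)) (XT.lf (nat_lit 0) (nat_lit 26693722096) (nat_lit 152) (nat_lit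 14644127319) (nat_lit 228) (nat_lit 2076423345) (nat_lit 66) (nat_lit 5) (nat_lit 68) (nat_lit 5) (nat_lit 69) (nat_lit 5) (nat_lit 410) (nat_lit 334) (nat_lit 156))))))) (XT.nd (nat_lit 1014) (nat_lit 912) (nat_lit 0) (XT.nd (nat_lit 468) (nat_lit 532) (nat_lit 0) (XT.nd (nat_lit 234) (nat_lit 228) (nat_lit 0) (XT.nd (nat_lit 78) (nat_lit 152) (nat_lit 0) (XT.lf (nat_lit 0) (nat_lit 5046918884) (nat_lit 228) (nat_lit 1796925311) (nat_lit 304) (nat_lit 37480806473) (nat_lit 62) (nat_lit 5) (nat_lit 65) (nat_lit 5) (nat_lit 66) (nat_lit 5) (nat_lit 411) (nat_lit 334) (nat_lit 155)) (XT.nd (nat_lit 78) (nat_lit 152) (nat_lit 0) (XT.lf (nat_lit 0) (nat_lit 16266479800) (nat_lit 304) (nat_lit 17585966401) (nat_lit 76) (nat_lit 11400983131) (nat_lit 62) (nat_lit 5) (nat_lit 66) (nat_lit 5) (nat_lit 63) (nat_lit 5) (nat_lit 412) (nat_lit 334) (nat_lit 154)) (XT.lf (nat_lit 0) (nat_lit 4826434941) (nat_lit 152)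 (nat_lit 21205711252) (nat_lit 228) (nat_lit 20176115584) (nat_lit 60) (nat_lit 5) (nat_lit 62) (nat_lit 5) (nat_lit 63) (nat_lit 5) (nat_lit 413) (nat_lit 334) (nat_lit 153)))) (XT.nd (nat_lit 78) (nat_lit 228) (nat_lit 0) (XT.lf (nat_lit 0) (nat_lit 28265260395) (nat_lit 152) (nat_lit 7999321441) (nat_lit 228) (nat_lit 10921944325) (nat_lit 60) (nat_lit 5) (nat_lit 62) (nat_lit 5) (nat_lit 63) (nat_lit 5) (nat_lit 414) (nat_lit 334) (nat_lit 152)) (XT.nd (nat_lit 78) (nat_lit 76) (nat_lit 0) (XT.lf (nat_lit 0) (nat_lit 4235559520) (nat_lit 152) (nat_lit 42659308679) (nat_lit 228) (nat_lit 1296544864) (nat_lit 58) (nat_lit 5) (nat_lit 60) (nat_lit 5) (nat_lit 61) (nat_lit 5) (nat_lit 415) (nat_lit 334) (nat_lit 151)) (XT.lf (nat_lit 0) (nat_lit 8717927735) (nat_lit 228) (nat_lit 20916042120) (nat_lit 76) (nat_lit 19581938290) (nat_lit 57) (nat_lit 5) (nat_lit 60) (nat_lit 5) (nat_lit 58) (nat_lit 5) (nat_lit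 416) (nat_lit 334) (nat_lit 150))))) (XT.nd (nat_lit 234) (nat_lit 228) (nat_lit 0) (XT.nd (nat_lit 78) (nat_lit 152) (nat_lit 0) (XT.lf (nat_lit 0) (nat_lit 2851602894) (nat_lit 152) (nat_lit 16179002389) (nat_lit 228) (nat_lit 31239433622) (nat_lit 55) (nat_lit 5) (nat_lit 57) (nat_lit 5) (nat_lit 58) (nat_lit 5) (nat_lit 417) (nat_lit 334) (nat_lit 149)) (XT.nd (nat_lit 78) (nat_lit 152) (nat_lit 0) (XT.lf (nat_lit 0) (nat_lit 27754927379) (nat_lit 152) (nat_lit 2105411075) (nat_lit 228) (nat_lit 21489225690) (nat_lit 55) (nat_lit 5) (nat_lit 57) (nat_lit 5) (nat_lit 58) (nat_lit 5) (nat_lit 418) (nat_lit 334) (nat_lit 148)) (XT.lf (nat_lit 0) (nat_lit 835057354) (nat_lit 152) (nat_lit 40303580592) (nat_lit 228) (nat_lit 11319127753) (nat_lit 53) (nat_lit 5) (nat_lit 55) (nat_lit 5) (nat_lit 56) (nat_lit 5) (nat_lit 419) (nat_lit 334) (nat_lit 147)))) (XT.nd (nat_lit 156) (nat_lit 152) (nat_lit 0) (XT.nd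 (nat_lit 78) (nat_lit 76) (nat_lit 0) (XT.lf (nat_lit 0) (nat_lit 26454097524) (nat_lit 152) (nat_lit 26556676481) (nat_lit 228) (nat_lit 580775436) (nat_lit 53) (nat_lit 5) (nat_lit 55) (nat_lit 5) (nat_lit 56) (nat_lit 5) (nat_lit 420) (nat_lit 334) (nat_lit 146)) (XT.lf (nat_lit 0) (nat_lit 10271882827) (nat_lit 228) (nat_lit 2024220525) (nat_lit 76) (nat_lit 42460322361) (nat_lit 52) (nat_lit 5) (nat_lit 55) (nat_lit 5) (nat_lit 53) (nat_lit 5) (nat_lit 421) (nat_lit 334) (nat_lit 145))) (XT.nd (nat_lit 78) (nat_lit 0) (nat_lit 0) (XT.lf (nat_lit 0) (nat_lit 21694178002) (nat_lit 228) (nat_lit 31669241935) (nat_lit 76) (nat_lit 2584984628) (nat_lit 50) (nat_lit 5) (nat_lit 53) (nat_lit 5) (nat_lit 51) (nat_lit 5) (nat_lit 422) (nat_lit 334) (nat_lit 144)) (XT.lf (nat_lit 0) (nat_lit 33598296247) (nat_lit 228) (nat_lit 5890026811) (nat_lit 76) (nat_lit 17683645779) (nat_lit 50) (nat_lit 5) (nat_lit 53)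 (nat_lit 5) (nat_lit 51) (nat_lit 5) (nat_lit 423) (nat_lit 334) (nat_lit 143)))))) (XT.nd (nat_lit 546) (nat_lit 304) (nat_lit 0) (XT.nd (nat_lit 234) (nat_lit 228) (nat_lit 0) (XT.nd (nat_lit 78) (nat_lit 228) (nat_lit 0) (XT.lf (nat_lit 0) (nat_lit 21068153048) (nat_lit 152) (nat_lit 24990766691) (nat_lit 228) (nat_lit 12367339508) (nat_lit 48) (nat_lit 5) (nat_lit 50) (nat_lit 5) (nat_lit 51) (nat_lit 5) (nat_lit 424) (nat_lit 334) (nat_lit 142)) (XT.nd (nat_lit 78) (nat_lit 228) (nat_lit 0) (XT.lf (nat_lit 0) (nat_lit 48950344999) (nat_lit 152) (nat_lit 9999395180) (nat_lit 228) (nat_lit 766747487) (nat_lit 48) (nat_lit 5) (nat_lit 50) (nat_lit 5) (nat_lit 51) (nat_lit 5) (nat_lit 425) (nat_lit 334) (nat_lit 141)) (XT.lf (nat_lit 0) (nat_lit 11177447630) (nat_lit 228) (nat_lit 44253073836) (nat_lit 76) (nat_lit 5605263958) (nat_lit 45) (nat_lit 5) (nat_lit 48) (nat_lit 5) (nat_lit 46) (nat_lit 5) (nat_lit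 426) (nat_lit 334) (nat_lit 140)))) (XT.nd (nat_lit 156) (nat_lit 76) (nat_lit 0) (XT.nd (nat_lit 78) (nat_lit 152) (nat_lit 0) (XT.lf (nat_lit 0) (nat_lit 23670330449) (nat_lit 228) (nat_lit 17125736073) (nat_lit 76) (nat_lit 21592195252) (nat_lit 45) (nat_lit 5) (nat_lit 48) (nat_lit 5) (nat_lit 46) (nat_lit 5) (nat_lit 427) (nat_lit 334) (nat_lit 139)) (XT.lf (nat_lit 0) (nat_lit 11025332339) (nat_lit 152) (nat_lit 25615713210) (nat_lit 228) (nat_lit 27137176063) (nat_lit 43) (nat_lit 5) (nat_lit 45) (nat_lit 5) (nat_lit 46) (nat_lit 5) (nat_lit 428) (nat_lit 334) (nat_lit 138))) (XT.nd (nat_lit 78) (nat_lit 76) (nat_lit 0) (XT.lf (nat_lit 0) (nat_lit 40366811484) (nat_lit 152) (nat_lit 9804106244) (nat_lit 228) (nat_lit 15033862003) (nat_lit 43) (nat_lit 5) (nat_lit 45) (nat_lit 5) (nat_lit 46) (nat_lit 5) (nat_lit 429) (nat_lit 334) (nat_lit 137)) (XT.lf (nat_lit 0) (nat_lit 3923560796) (nat_lit 76)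 (nat_lit 60280310907) (nat_lit 152) (nat_lit 2467347859) (nat_lit 42) (nat_lit 5) (nat_lit 43) (nat_lit 5) (nat_lit 44) (nat_lit 4) (nat_lit 430) (nat_lit 334) (nat_lit 136))))) (XT.nd (nat_lit 234) (nat_lit 76) (nat_lit 0) (XT.nd (nat_lit 78) (nat_lit 152) (nat_lit 0) (XT.lf (nat_lit 0) (nat_lit 10619270861) (nat_lit 152) (nat_lit 34322397216) (nat_lit 76) (nat_lit 23226537817) (nat_lit 41) (nat_lit 5) (nat_lit 43) (nat_lit 5) (nat_lit 42) (nat_lit 5) (nat_lit 431) (nat_lit 334) (nat_lit 135)) (XT.nd (nat_lit 78) (nat_lit 152) (nat_lit 0) (XT.lf (nat_lit 0) (nat_lit 24046147719) (nat_lit 152) (nat_lit 5073760240) (nat_lit 76) (nat_lit 40589543948) (nat_lit 41) (nat_lit 5) (nat_lit 43) (nat_lit 5) (nat_lit 42) (nat_lit 5) (nat_lit 432) (nat_lit 334) (nat_lit 134)) (XT.lf (nat_lit 0) (nat_lit 25546021776) (nat_lit 152) (nat_lit 12572703993) (nat_lit 228) (nat_lit 33170923164) (nat_lit 39) (nat_lit 5) (nat_lit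 41) (nat_lit 5) (nat_lit 42) (nat_lit 5) (nat_lit 433) (nat_lit 334) (nat_lit 133)))) (XT.nd (nat_lit 39156) (nat_lit 0) (nat_lit 15352) (XT.nd (nat_lit 78) (nat_lit 76) (nat_lit 0) (XT.lf (nat_lit 0) (nat_lit 52705543093) (nat_lit 228) (nat_lit 15775615886) (nat_lit 76) (nat_lit 4433331498) (nat_lit 39) (nat_lit 5) (nat_lit 42) (nat_lit 5) (nat_lit 40) (nat_lit 4) (nat_lit 434) (nat_lit 334) (nat_lit 132)) (XT.lf (nat_lit 0) (nat_lit 15260051518) (nat_lit 76) (nat_lit 52738504431) (nat_lit 152) (nat_lit 6581464037) (nat_lit 38) (nat_lit 5) (nat_lit 39) (nat_lit 5) (nat_lit 40) (nat_lit 4) (nat_lit 435) (nat_lit 334) (nat_lit 131))) (XT.nd (nat_lit 78) (nat_lit 0) (nat_lit 0) (XT.lf (nat_lit 0) (nat_lit 236923980) (nat_lit 0) (nat_lit 236923980) (nat_lit 1140) (nat_lit 5428052003) (nat_lit 240) (nat_lit 5) (nat_lit 240) (nat_lit 3) (nat_lit 255) (nat_lit 3) (nat_lit 335) (nat_lit 335) (nat_lit 230)) (XT.lf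 (nat_lit 0) (nat_lit 1489690764) (nat_lit 1140) (nat_lit 5778889709) (nat_lit 1216) (nat_lit 4696126582) (nat_lit 240) (nat_lit 5) (nat_lit 255) (nat_lit 3) (nat_lit 256) (nat_lit 5) (nat_lit 336) (nat_lit 335) (nat_lit 229))))))))
noncomputable def xc187 : XT := (XT.nd (nat_lit 2106) (nat_lit 5624) (nat_lit 0) (XT.nd (nat_lit 1014) (nat_lit 4788) (nat_lit 0) (XT.nd (nat_lit 468) (nat_lit 0) (nat_lit 228) (XT.nd (nat_lit 234) (nat_lit 0) (nat_lit 152) (XT.nd (nat_lit 78) (nat_lit 0) (nat_lit 76) (XT.lf (nat_lit 0) (nat_lit 2033926454) (nat_lit 1140) (nat_lit 76054351) (nat_lit 1216) (nat_lit 10020893513) (nat_lit 240) (nat_lit 5) (nat_lit 255) (nat_lit 3) (nat_lit 256) (nat_lit 5) (nat_lit 337) (nat_lit 335) (nat_lit 228)) (XT.nd (nat_lit 78) (nat_lit 0) (nat_lit 0) (XT.lf (nat_lit 0) (nat_lit 2664504946) (nat_lit 1140) (nat_lit 6429030041) (nat_lit 1216) (nat_lit 3206403131) (nat_lit 241) (nat_lit 5) (nat_lit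 256) (nat_lit 5) (nat_lit 257) (nat_lit 5) (nat_lit 338) (nat_lit 335) (nat_lit 227)) (XT.lf (nat_lit 0) (nat_lit 3318015160) (nat_lit 1140) (nat_lit 507409960) (nat_lit 1216) (nat_lit 8648539924) (nat_lit 241) (nat_lit 5) (nat_lit 256) (nat_lit 5) (nat_lit 257) (nat_lit 5) (nat_lit 339) (nat_lit 335) (nat_lit 226)))) (XT.nd (nat_lit 78) (nat_lit 0) (nat_lit 0) (XT.lf (nat_lit 0) (nat_lit 4044714422) (nat_lit 1140) (nat_lit 6975144560) (nat_lit 1216) (nat_lit 1631757588) (nat_lit 242) (nat_lit 5) (nat_lit 257) (nat_lit 5) (nat_lit 258) (nat_lit 5) (nat_lit 340) (nat_lit 335) (nat_lit 225)) (XT.nd (nat_lit 78) (nat_lit 0) (nat_lit 0) (XT.lf (nat_lit 0) (nat_lit 4819596411) (nat_lit 1140) (nat_lit 826578064) (nat_lit 1216) (nat_lit 7187642688) (nat_lit 242) (nat_lit 5) (nat_lit 257) (nat_lit 5) (nat_lit 258) (nat_lit 5) (nat_lit 341) (nat_lit 335) (nat_lit 224)) (XT.lf (nat_lit 76) (nat_lit 5605657472) (nat_lit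 0) (nat_lit 49769556) (nat_lit 1216) (nat_lit 7364936334) (nat_lit 243) (nat_lit 5) (nat_lit 242) (nat_lit 5) (nat_lit 258) (nat_lit 5) (nat_lit 342) (nat_lit 335) (nat_lit 223))))) (XT.nd (nat_lit 234) (nat_lit 0) (nat_lit 76) (XT.nd (nat_lit 78) (nat_lit 0) (nat_lit 0) (XT.lf (nat_lit 0) (nat_lit 6563940335) (nat_lit 1140) (nat_lit 1030080086) (nat_lit 1216) (nat_lit 5617067639) (nat_lit 243) (nat_lit 5) (nat_lit 258) (nat_lit 5) (nat_lit 259) (nat_lit 5) (nat_lit 343) (nat_lit 335) (nat_lit 222)) (XT.nd (nat_lit 78) (nat_lit 0) (nat_lit 76) (XT.lf (nat_lit 76) (nat_lit 5645449455) (nat_lit 0) (nat_lit 1893725474) (nat_lit 1216) (nat_lit 5867185636) (nat_lit 244) (nat_lit 5) (nat_lit 243) (nat_lit 5) (nat_lit 259) (nat_lit 5) (nat_lit 344) (nat_lit 335) (nat_lit 221)) (XT.lf (nat_lit 0) (nat_lit 8577504830) (nat_lit 1140) (nat_lit 1113864620) (nat_lit 1216) (nat_lit 3915116398) (nat_lit 244) (nat_lit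 5) (nat_lit 259) (nat_lit 5) (nat_lit 260) (nat_lit 5) (nat_lit 345) (nat_lit 335) (nat_lit 220)))) (XT.nd (nat_lit 156) (nat_lit 0) (nat_lit 76) (XT.nd (nat_lit 78) (nat_lit 0) (nat_lit 76) (XT.lf (nat_lit 76) (nat_lit 5816957137) (nat_lit 0) (nat_lit 3890225994) (nat_lit 1216) (nat_lit 4103635268) (nat_lit 245) (nat_lit 5) (nat_lit 244) (nat_lit 5) (nat_lit 260) (nat_lit 5) (nat_lit 346) (nat_lit 335) (nat_lit 219)) (XT.lf (nat_lit 0) (nat_lit 10888044868) (nat_lit 1140) (nat_lit 1073324797) (nat_lit 1216) (nat_lit 2059401662) (nat_lit 245) (nat_lit 5) (nat_lit 260) (nat_lit 5) (nat_lit 261) (nat_lit 5) (nat_lit 347) (nat_lit 335) (nat_lit 218))) (XT.nd (nat_lit 78) (nat_lit 0) (nat_lit 76) (XT.lf (nat_lit 76) (nat_lit 6125387801) (nat_lit 0) (nat_lit 6062645669) (nat_lit 1216) (nat_lit 2046487265) (nat_lit 246) (nat_lit 5) (nat_lit 245) (nat_lit 5) (nat_lit 261) (nat_lit 5) (nat_lit 348) (nat_lit 335)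 (nat_lit 217)) (XT.lf (nat_lit 0) (nat_lit 13524724590) (nat_lit 1140) (nat_lit 903314931) (nat_lit 1216) (nat_lit 26720681) (nat_lit 246) (nat_lit 5) (nat_lit 261) (nat_lit 5) (nat_lit 262) (nat_lit 5) (nat_lit 349) (nat_lit 335) (nat_lit 216)))))) (XT.nd (nat_lit 546) (nat_lit 2280) (nat_lit 0) (XT.nd (nat_lit 234) (nat_lit 1748) (nat_lit 0) (XT.nd (nat_lit 78) (nat_lit 0) (nat_lit 0) (XT.lf (nat_lit 0) (nat_lit 326966547) (nat_lit 1216) (nat_lit 8105004549) (nat_lit 1292) (nat_lit 6246240061) (nat_lit 230) (nat_lit 5) (nat_lit 246) (nat_lit 5) (nat_lit 247) (nat_lit 5) (nat_lit 350) (nat_lit 335) (nat_lit 215)) (XT.nd (nat_lit 78) (nat_lit 0) (nat_lit 76) (XT.lf (nat_lit 0) (nat_lit 1599363663) (nat_lit 1216) (nat_lit 635484828) (nat_lit 1292) (nat_lit 12673357499) (nat_lit 230) (nat_lit 5) (nat_lit 246) (nat_lit 5) (nat_lit 247) (nat_lit 5) (nat_lit 351) (nat_lit 335) (nat_lit 214)) (XT.lf (nat_lit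 0) (nat_lit 3007147762) (nat_lit 1216) (nat_lit 7995928793) (nat_lit 76) (nat_lit 4139115358) (nat_lit 231) (nat_lit 5) (nat_lit 247) (nat_lit 5) (nat_lit 232) (nat_lit 5) (nat_lit 352) (nat_lit 335) (nat_lit 213)))) (XT.nd (nat_lit 156) (nat_lit 608) (nat_lit 0) (XT.nd (nat_lit 78) (nat_lit 1216) (nat_lit 0) (XT.lf (nat_lit 0) (nat_lit 4473596361) (nat_lit 1216) (nat_lit 241321754) (nat_lit 76) (nat_lit 10667793841) (nat_lit 231) (nat_lit 5) (nat_lit 247) (nat_lit 5) (nat_lit 232) (nat_lit 5) (nat_lit 353) (nat_lit 335) (nat_lit 212)) (XT.lf (nat_lit 0) (nat_lit 6065757305) (nat_lit 1292) (nat_lit 7756665897) (nat_lit 76) (nat_lit 1805580089) (nat_lit 215) (nat_lit 5) (nat_lit 232) (nat_lit 5) (nat_lit 216) (nat_lit 5) (nat_lit 354) (nat_lit 335) (nat_lit 211))) (XT.nd (nat_lit 78) (nat_lit 0) (nat_lit 0) (XT.lf (nat_lit 0) (nat_lit 300323164) (nat_lit 608) (nat_lit 7445827307) (nat_lit 684) (nat_lit 8133295916)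 (nat_lit 207) (nat_lit 5) (nat_lit 215) (nat_lit 5) (nat_lit 216) (nat_lit 5) (nat_lit 355) (nat_lit 335) (nat_lit 210)) (XT.lf (nat_lit 0) (nat_lit 8747555951) (nat_lit 608) (nat_lit 796399879) (nat_lit 684) (nat_lit 6592473773) (nat_lit 207) (nat_lit 5) (nat_lit 215) (nat_lit 5) (nat_lit 216) (nat_lit 5) (nat_lit 356) (nat_lit 335) (nat_lit 209))))) (XT.nd (nat_lit 234) (nat_lit 1140) (nat_lit 0) (XT.nd (nat_lit 78) (nat_lit 608) (nat_lit 0) (XT.lf (nat_lit 0) (nat_lit 997865339) (nat_lit 532) (nat_lit 10454613716) (nat_lit 608) (nat_lit 4946946389) (nat_lit 200) (nat_lit 5) (nat_lit 207) (nat_lit 5) (nat_lit 208) (nat_lit 5) (nat_lit 357) (nat_lit 335) (nat_lit 208)) (XT.nd (nat_lit 78) (nat_lit 608) (nat_lit 0) (XT.lf (nat_lit 0) (nat_lit 9769222544) (nat_lit 532) (nat_lit 3720687621) (nat_lit 608) (nat_lit 3178257876) (nat_lit 200) (nat_lit 5) (nat_lit 207) (nat_lit 5) (nat_lit 208) (nat_lit 5) (nat_lit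 358) (nat_lit 335) (nat_lit 207)) (XT.lf (nat_lit 0) (nat_lit 1853583902) (nat_lit 608) (nat_lit 13773153343) (nat_lit 684) (nat_lit 1317093738) (nat_lit 192) (nat_lit 5) (nat_lit 200) (nat_lit 5) (nat_lit 201) (nat_lit 5) (nat_lit 359) (nat_lit 335) (nat_lit 206)))) (XT.nd (nat_lit 156) (nat_lit 532) (nat_lit 0) (XT.nd (nat_lit 78) (nat_lit 532) (nat_lit 0) (XT.lf (nat_lit 0) (nat_lit 685039094) (nat_lit 684) (nat_lit 6269394423) (nat_lit 76) (nat_lit 10270257994) (nat_lit 191) (nat_lit 5) (nat_lit 200) (nat_lit 5) (nat_lit 192) (nat_lit 5) (nat_lit 360) (nat_lit 335) (nat_lit 205)) (XT.lf (nat_lit 0) (nat_lit 2739152054) (nat_lit 608) (nat_lit 14665736673) (nat_lit 76) (nat_lit 108151985) (nat_lit 184) (nat_lit 5) (nat_lit 192) (nat_lit 5) (nat_lit 185) (nat_lit 5) (nat_lit 361) (nat_lit 335) (nat_lit 204))) (XT.nd (nat_lit 78) (nat_lit 532) (nat_lit 0) (XT.lf (nat_lit 0) (nat_lit 4977819974) (nat_lit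 608) (nat_lit 5522031784) (nat_lit 76) (nat_lit 7306506246) (nat_lit 184) (nat_lit 5) (nat_lit 192) (nat_lit 5) (nat_lit 185) (nat_lit 5) (nat_lit 362) (nat_lit 335) (nat_lit 203)) (XT.lf (nat_lit 0) (nat_lit 3963196260) (nat_lit 532) (nat_lit 3348975896) (nat_lit 608) (nat_lit 10795452330) (nat_lit 177) (nat_lit 5) (nat_lit 184) (nat_lit 5) (nat_lit 185) (nat_lit 5) (nat_lit 363) (nat_lit 335) (nat_lit 202))))))) (XT.nd (nat_lit 1014) (nat_lit 2432) (nat_lit 0) (XT.nd (nat_lit 468) (nat_lit 1748) (nat_lit 0) (XT.nd (nat_lit 234) (nat_lit 988) (nat_lit 0) (XT.nd (nat_lit 78) (nat_lit 456) (nat_lit 0) (XT.lf (nat_lit 0) (nat_lit 9802080938) (nat_lit 608) (nat_lit 4619544976) (nat_lit 76) (nat_lit 3993742509) (nat_lit 177) (nat_lit 5) (nat_lit 185) (nat_lit 5) (nat_lit 178) (nat_lit 5) (nat_lit 364) (nat_lit 335) (nat_lit 201)) (XT.nd (nat_lit 78) (nat_lit 0) (nat_lit 0) (XT.lf (nat_lit 0) (nat_lit 5250374678)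 (nat_lit 456) (nat_lit 7190817865) (nat_lit 532) (nat_lit 6288922058) (nat_lit 171) (nat_lit 5) (nat_lit 177) (nat_lit 5) (nat_lit 178) (nat_lit 5) (nat_lit 365) (nat_lit 335) (nat_lit 200)) (XT.lf (nat_lit 0) (nat_lit 15200096176) (nat_lit 532) (nat_lit 3554918987) (nat_lit 76) (nat_lit 298074380) (nat_lit 171) (nat_lit 5) (nat_lit 178) (nat_lit 5) (nat_lit 172) (nat_lit 5) (nat_lit 366) (nat_lit 335) (nat_lit 199)))) (XT.nd (nat_lit 78) (nat_lit 532) (nat_lit 0) (XT.lf (nat_lit 0) (nat_lit 6717660525) (nat_lit 456) (nat_lit 11451176725) (nat_lit 532) (nat_lit 1213109171) (nat_lit 165) (nat_lit 5) (nat_lit 171) (nat_lit 5) (nat_lit 172) (nat_lit 5) (nat_lit 367) (nat_lit 335) (nat_lit 198)) (XT.nd (nat_lit 78) (nat_lit 456) (nat_lit 0) (XT.lf (nat_lit 0) (nat_lit 1504207883) (nat_lit 532) (nat_lit 2373089081) (nat_lit 76) (nat_lit 15842113574) (nat_lit 164) (nat_lit 5) (nat_lit 171) (nat_lit 5) (nat_lit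 165) (nat_lit 5) (nat_lit 368) (nat_lit 335) (nat_lit 197)) (XT.lf (nat_lit 0) (nat_lit 4389347436) (nat_lit 532) (nat_lit 11734635196) (nat_lit 76) (nat_lit 3939339449) (nat_lit 158) (nat_lit 5) (nat_lit 165) (nat_lit 5) (nat_lit 159) (nat_lit 5) (nat_lit 369) (nat_lit 335) (nat_lit 196))))) (XT.nd (nat_lit 234) (nat_lit 912) (nat_lit 0) (XT.nd (nat_lit 78) (nat_lit 836) (nat_lit 0) (XT.lf (nat_lit 0) (nat_lit 7415391668) (nat_lit 532) (nat_lit 1065104746) (nat_lit 76) (nat_lit 11935428304) (nat_lit 158) (nat_lit 5) (nat_lit 165) (nat_lit 5) (nat_lit 159) (nat_lit 5) (nat_lit 370) (nat_lit 335) (nat_lit 195)) (XT.nd (nat_lit 78) (nat_lit 380) (nat_lit 0) (XT.lf (nat_lit 0) (nat_lit 10112316549) (nat_lit 456) (nat_lit 509107037) (nat_lit 532) (nat_lit 10155009794) (nat_lit 152) (nat_lit 5) (nat_lit 158) (nat_lit 5) (nat_lit 159) (nat_lit 5) (nat_lit 371) (nat_lit 335) (nat_lit 194)) (XT.lf (nat_lit 0) (nat_lit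 423940728) (nat_lit 380) (nat_lit 13580791494) (nat_lit 456) (nat_lit 7140596224) (nat_lit 147) (nat_lit 5) (nat_lit 152) (nat_lit 5) (nat_lit 153) (nat_lit 5) (nat_lit 372) (nat_lit 335) (nat_lit 193)))) (XT.nd (nat_lit 156) (nat_lit 456) (nat_lit 0) (XT.nd (nat_lit 78) (nat_lit 456) (nat_lit 0) (XT.lf (nat_lit 0) (nat_lit 12048543579) (nat_lit 380) (nat_lit 5545939673) (nat_lit 456) (nat_lit 3927662719) (nat_lit 147) (nat_lit 5) (nat_lit 152) (nat_lit 5) (nat_lit 153) (nat_lit 5) (nat_lit 373) (nat_lit 335) (nat_lit 192)) (XT.lf (nat_lit 0) (nat_lit 2117195573) (nat_lit 456) (nat_lit 19213798519) (nat_lit 532) (nat_lit 578105698) (nat_lit 141) (nat_lit 5) (nat_lit 147) (nat_lit 5) (nat_lit 148) (nat_lit 5) (nat_lit 374) (nat_lit 335) (nat_lit 191))) (XT.nd (nat_lit 78) (nat_lit 380) (nat_lit 0) (XT.lf (nat_lit 0) (nat_lit 2959943945) (nat_lit 532) (nat_lit 8147891800) (nat_lit 76) (nat_lit 11194680408)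 (nat_lit 140) (nat_lit 5) (nat_lit 147) (nat_lit 5) (nat_lit 141) (nat_lit 5) (nat_lit 375) (nat_lit 335) (nat_lit 190)) (XT.lf (nat_lit 0) (nat_lit 3906676454) (nat_lit 380) (nat_lit 2716135828) (nat_lit 456) (nat_lit 16083845580) (nat_lit 135) (nat_lit 5) (nat_lit 140) (nat_lit 5) (nat_lit 141) (nat_lit 5) (nat_lit 376) (nat_lit 335) (nat_lit 189)))))) (XT.nd (nat_lit 546) (nat_lit 1292) (nat_lit 0) (XT.nd (nat_lit 234) (nat_lit 760) (nat_lit 0) (XT.nd (nat_lit 78) (nat_lit 380) (nat_lit 0) (XT.lf (nat_lit 0) (nat_lit 10528482593) (nat_lit 456) (nat_lit 6697722348) (nat_lit 76) (nat_lit 5892734768) (nat_lit 135) (nat_lit 5) (nat_lit 141) (nat_lit 5) (nat_lit 136) (nat_lit 5) (nat_lit 377) (nat_lit 335) (nat_lit 188)) (XT.nd (nat_lit 78) (nat_lit 0) (nat_lit 0) (XT.lf (nat_lit 0) (nat_lit 5845674646) (nat_lit 380) (nat_lit 8781787934) (nat_lit 456) (nat_lit 8913846510) (nat_lit 130) (nat_lit 5) (nat_lit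 135) (nat_lit 5) (nat_lit 136) (nat_lit 5) (nat_lit 378) (nat_lit 335) (nat_lit 187)) (XT.lf (nat_lit 0) (nat_lit 18893652012) (nat_lit 380) (nat_lit 16564348) (nat_lit 456) (nat_lit 5064312233) (nat_lit 130) (nat_lit 5) (nat_lit 135) (nat_lit 5) (nat_lit 136) (nat_lit 5) (nat_lit 379) (nat_lit 335) (nat_lit 186)))) (XT.nd (nat_lit 156) (nat_lit 380) (nat_lit 0) (XT.nd (nat_lit 78) (nat_lit 76) (nat_lit 0) (XT.lf (nat_lit 0) (nat_lit 7972330556) (nat_lit 304) (nat_lit 15505731298) (nat_lit 380) (nat_lit 937987632) (nat_lit 126) (nat_lit 5) (nat_lit 130) (nat_lit 5) (nat_lit 131) (nat_lit 5) (nat_lit 380) (nat_lit 335) (nat_lit 185)) (XT.lf (nat_lit 0) (nat_lit 3292864029) (nat_lit 380) (nat_lit 3389484100) (nat_lit 76) (nat_lit 18186154568) (nat_lit 125) (nat_lit 5) (nat_lit 130) (nat_lit 5) (nat_lit 126) (nat_lit 5) (nat_lit 381) (nat_lit 335) (nat_lit 184))) (XT.nd (nat_lit 78) (nat_lit 0) (nat_lit 0)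 (XT.lf (nat_lit 0) (nat_lit 7747956099) (nat_lit 456) (nat_lit 15117511754) (nat_lit 76) (nat_lit 2465300834) (nat_lit 120) (nat_lit 5) (nat_lit 126) (nat_lit 5) (nat_lit 121) (nat_lit 5) (nat_lit 382) (nat_lit 335) (nat_lit 183)) (XT.lf (nat_lit 0) (nat_lit 12431092869) (nat_lit 456) (nat_lit 1587621933) (nat_lit 76) (nat_lit 11785358832) (nat_lit 120) (nat_lit 5) (nat_lit 126) (nat_lit 5) (nat_lit 121) (nat_lit 5) (nat_lit 383) (nat_lit 335) (nat_lit 182))))) (XT.nd (nat_lit 234) (nat_lit 608) (nat_lit 0) (XT.nd (nat_lit 78) (nat_lit 380) (nat_lit 0) (XT.lf (nat_lit 0) (nat_lit 12585196964) (nat_lit 304) (nat_lit 4784351983) (nat_lit 380) (nat_lit 8918586682) (nat_lit 116) (nat_lit 5) (nat_lit 120) (nat_lit 5) (nat_lit 121) (nat_lit 5) (nat_lit 384) (nat_lit 335) (nat_lit 181)) (XT.nd (nat_lit 78) (nat_lit 76) (nat_lit 0) (XT.lf (nat_lit 0) (nat_lit 382750169) (nat_lit 304) (nat_lit 22132640769) (nat_lit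 380) (nat_lit 4269554158) (nat_lit 112) (nat_lit 5) (nat_lit 116) (nat_lit 5) (nat_lit 117) (nat_lit 5) (nat_lit 385) (nat_lit 335) (nat_lit 180)) (XT.lf (nat_lit 0) (nat_lit 689891810) (nat_lit 380) (nat_lit 12182994931) (nat_lit 76) (nat_lit 14418192811) (nat_lit 111) (nat_lit 5) (nat_lit 116) (nat_lit 5) (nat_lit 112) (nat_lit 5) (nat_lit 386) (nat_lit 335) (nat_lit 179)))) (XT.nd (nat_lit 156) (nat_lit 304) (nat_lit 0) (XT.nd (nat_lit 78) (nat_lit 0) (nat_lit 0) (XT.lf (nat_lit 0) (nat_lit 2460100627) (nat_lit 304) (nat_lit 3269987119) (nat_lit 380) (nat_lit 22080511059) (nat_lit 107) (nat_lit 5) (nat_lit 111) (nat_lit 5) (nat_lit 112) (nat_lit 5) (nat_lit 387) (nat_lit 335) (nat_lit 178)) (XT.lf (nat_lit 0) (nat_lit 11103575763) (nat_lit 380) (nat_lit 10623129172) (nat_lit 76) (nat_lit 6613538405) (nat_lit 107) (nat_lit 5) (nat_lit 112) (nat_lit 5) (nat_lit 108) (nat_lit 5) (nat_lit 388) (nat_lit 335)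 (nat_lit 177))) (XT.nd (nat_lit 78) (nat_lit 0) (nat_lit 0) (XT.lf (nat_lit 0) (nat_lit 4595117512) (nat_lit 304) (nat_lit 12114065750) (nat_lit 380) (nat_lit 12174468730) (nat_lit 103) (nat_lit 5) (nat_lit 107) (nat_lit 5) (nat_lit 108) (nat_lit 5) (nat_lit 389) (nat_lit 335) (nat_lit 176)) (XT.lf (nat_lit 0) (nat_lit 20479521487) (nat_lit 304) (nat_lit 2105163593) (nat_lit 380) (nat_lit 6855628197) (nat_lit 103) (nat_lit 5) (nat_lit 107) (nat_lit 5) (nat_lit 108) (nat_lit 5) (nat_lit 390) (nat_lit 335) (nat_lit 175))))))))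
noncomputable def xc188 : XT := (XT.nd (nat_lit 2028) (nat_lit 1444) (nat_lit 0) (XT.nd (nat_lit 1014) (nat_lit 1444) (nat_lit 0) (XT.nd (nat_lit 468) (nat_lit 1140) (nat_lit 0) (XT.nd (nat_lit 234) (nat_lit 228) (nat_lit 0) (XT.nd (nat_lit 78) (nat_lit 380) (nat_lit 0) (XT.lf (nat_lit 0) (nat_lit 6874002126) (nat_lit 228) (nat_lit 21901979405) (nat_lit 304) (nat_lit 1233509081) (nat_lit 100) (nat_lit 5) (nat_lit 103) (nat_lit 5) (nat_lit 104) (nat_lit 5) (nat_lit 391) (nat_lit 335) (nat_lit 174)) (XT.nd (nat_lit 78) (nat_lit 304) (nat_lit 0) (XT.lf (nat_lit 0) (nat_lit 4575186990) (nat_lit 304) (nat_lit 7299133586) (nat_lit 76) (nat_lit 18716905181) (nat_lit 99) (nat_lit 5) (nat_lit 103) (nat_lit 5) (nat_lit 100) (nat_lit 5) (nat_lit 392) (nat_lit 335) (nat_lit 173)) (XT.lf (nat_lit 0) (nat_lit 9171212080) (nat_lit 304) (nat_lit 1445072318) (nat_lit 380) (nat_lit 20571276105) (nat_lit 95) (nat_lit 5) (nat_lit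 99) (nat_lit 5) (nat_lit 100) (nat_lit 5) (nat_lit 393) (nat_lit 335) (nat_lit 172)))) (XT.nd (nat_lit 78) (nat_lit 228) (nat_lit 0) (XT.lf (nat_lit 0) (nat_lit 16997246148) (nat_lit 380) (nat_lit 5612284065) (nat_lit 76) (nat_lit 9187497999) (nat_lit 95) (nat_lit 5) (nat_lit 100) (nat_lit 5) (nat_lit 96) (nat_lit 5) (nat_lit 394) (nat_lit 335) (nat_lit 171)) (XT.nd (nat_lit 78) (nat_lit 0) (nat_lit 0) (XT.lf (nat_lit 0) (nat_lit 11486054657) (nat_lit 228) (nat_lit 12203277176) (nat_lit 304) (nat_lit 8731859076) (nat_lit 92) (nat_lit 5) (nat_lit 95) (nat_lit 5) (nat_lit 96) (nat_lit 5) (nat_lit 395) (nat_lit 335) (nat_lit 170)) (XT.lf (nat_lit 0) (nat_lit 29204790883) (nat_lit 228) (nat_lit 1429111992) (nat_lit 304) (nat_lit 2428625682) (nat_lit 92) (nat_lit 5) (nat_lit 95) (nat_lit 5) (nat_lit 96) (nat_lit 5) (nat_lit 396) (nat_lit 335) (nat_lit 169))))) (XT.nd (nat_lit 234) (nat_lit 532) (nat_lit 0) (XT.nd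 (nat_lit 78) (nat_lit 228) (nat_lit 0) (XT.lf (nat_lit 0) (nat_lit 4208350266) (nat_lit 380) (nat_lit 19854872759) (nat_lit 76) (nat_lit 9651994790) (nat_lit 87) (nat_lit 5) (nat_lit 92) (nat_lit 5) (nat_lit 88) (nat_lit 5) (nat_lit 397) (nat_lit 335) (nat_lit 168)) (XT.nd (nat_lit 78) (nat_lit 228) (nat_lit 0) (XT.lf (nat_lit 0) (nat_lit 11044303178) (nat_lit 380) (nat_lit 2243372734) (nat_lit 76) (nat_lit 21097631651) (nat_lit 87) (nat_lit 5) (nat_lit 92) (nat_lit 5) (nat_lit 88) (nat_lit 5) (nat_lit 398) (nat_lit 335) (nat_lit 167)) (XT.lf (nat_lit 0) (nat_lit 16205394370) (nat_lit 228) (nat_lit 2031046322) (nat_lit 304) (nat_lit 16834527690) (nat_lit 84) (nat_lit 5) (nat_lit 87) (nat_lit 5) (nat_lit 88) (nat_lit 5) (nat_lit 399) (nat_lit 335) (nat_lit 166)))) (XT.nd (nat_lit 156) (nat_lit 304) (nat_lit 0) (XT.nd (nat_lit 78) (nat_lit 228) (nat_lit 0) (XT.lf (nat_lit 0) (nat_lit 25754519503) (nat_lit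 304) (nat_lit 622406690) (nat_lit 76) (nat_lit 9396969033) (nat_lit 84) (nat_lit 5) (nat_lit 88) (nat_lit 5) (nat_lit 85) (nat_lit 5) (nat_lit 400) (nat_lit 335) (nat_lit 165)) (XT.lf (nat_lit 0) (nat_lit 18501851728) (nat_lit 228) (nat_lit 15189755351) (nat_lit 304) (nat_lit 2800500274) (nat_lit 81) (nat_lit 5) (nat_lit 84) (nat_lit 5) (nat_lit 85) (nat_lit 5) (nat_lit 401) (nat_lit 335) (nat_lit 164))) (XT.nd (nat_lit 78) (nat_lit 0) (nat_lit 0) (XT.lf (nat_lit 0) (nat_lit 947642256) (nat_lit 228) (nat_lit 3607835064) (nat_lit 304) (nat_lit 32674723886) (nat_lit 77) (nat_lit 5) (nat_lit 80) (nat_lit 5) (nat_lit 81) (nat_lit 5) (nat_lit 402) (nat_lit 335) (nat_lit 163)) (XT.lf (nat_lit 0) (nat_lit 12334863997) (nat_lit 304) (nat_lit 17279237228) (nat_lit 76) (nat_lit 8367735652) (nat_lit 77) (nat_lit 5) (nat_lit 81) (nat_lit 5) (nat_lit 78) (nat_lit 5) (nat_lit 403) (nat_lit 335) (nat_lit 162)))))) (XT.nd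 (nat_lit 468) (nat_lit 760) (nat_lit 0) (XT.nd (nat_lit 234) (nat_lit 304) (nat_lit 0) (XT.nd (nat_lit 78) (nat_lit 152) (nat_lit 0) (XT.lf (nat_lit 0) (nat_lit 2296290489) (nat_lit 228) (nat_lit 18104825878) (nat_lit 304) (nat_lit 18353302034) (nat_lit 74) (nat_lit 5) (nat_lit 77) (nat_lit 5) (nat_lit 78) (nat_lit 5) (nat_lit 404) (nat_lit 335) (nat_lit 161)) (XT.nd (nat_lit 78) (nat_lit 152) (nat_lit 0) (XT.lf (nat_lit 0) (nat_lit 22806378490) (nat_lit 228) (nat_lit 6073212933) (nat_lit 304) (nat_lit 10665480163) (nat_lit 74) (nat_lit 5) (nat_lit 77) (nat_lit 5) (nat_lit 78) (nat_lit 5) (nat_lit 405) (nat_lit 335) (nat_lit 160)) (XT.lf (nat_lit 0) (nat_lit 3574519228) (nat_lit 152) (nat_lit 34128855093) (nat_lit 228) (nat_lit 2653342669) (nat_lit 72) (nat_lit 5) (nat_lit 74) (nat_lit 5) (nat_lit 75) (nat_lit 5) (nat_lit 406) (nat_lit 335) (nat_lit 159)))) (XT.nd (nat_lit 78) (nat_lit 228) (nat_lit 0)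 (XT.lf (nat_lit 0) (nat_lit 5716593593) (nat_lit 228) (nat_lit 16469841671) (nat_lit 76) (nat_lit 18997862145) (nat_lit 71) (nat_lit 5) (nat_lit 74) (nat_lit 5) (nat_lit 72) (nat_lit 5) (nat_lit 407) (nat_lit 335) (nat_lit 158)) (XT.nd (nat_lit 78) (nat_lit 0) (nat_lit 0) (XT.lf (nat_lit 0) (nat_lit 4506931165) (nat_lit 228) (nat_lit 9816673178) (nat_lit 304) (nat_lit 27711134725) (nat_lit 68) (nat_lit 5) (nat_lit 71) (nat_lit 5) (nat_lit 72) (nat_lit 5) (nat_lit 408) (nat_lit 335) (nat_lit 157)) (XT.lf (nat_lit 0) (nat_lit 23380905696) (nat_lit 304) (nat_lit 16491497154) (nat_lit 76) (nat_lit 3032529811) (nat_lit 68) (nat_lit 5) (nat_lit 72) (nat_lit 5) (nat_lit 69) (nat_lit 5) (nat_lit 409) (nat_lit 335) (nat_lit 156))))) (XT.nd (nat_lit 234) (nat_lit 304) (nat_lit 0) (XT.nd (nat_lit 78) (nat_lit 304) (nat_lit 0) (XT.lf (nat_lit 0) (nat_lit 5173189997) (nat_lit 152) (nat_lit 27679786398) (nat_lit 228)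 (nat_lit 10943965221) (nat_lit 66) (nat_lit 5) (nat_lit 68) (nat_lit 5) (nat_lit 69) (nat_lit 5) (nat_lit 410) (nat_lit 335) (nat_lit 155)) (XT.nd (nat_lit 78) (nat_lit 304) (nat_lit 0) (XT.lf (nat_lit 0) (nat_lit 27819474970) (nat_lit 152) (nat_lit 14952444928) (nat_lit 228) (nat_lit 1938910650) (nat_lit 66) (nat_lit 5) (nat_lit 68) (nat_lit 5) (nat_lit 69) (nat_lit 5) (nat_lit 411) (nat_lit 335) (nat_lit 154)) (XT.lf (nat_lit 0) (nat_lit 5523992983) (nat_lit 228) (nat_lit 1718497502) (nat_lit 304) (nat_lit 38406050434) (nat_lit 62) (nat_lit 5) (nat_lit 65) (nat_lit 5) (nat_lit 66) (nat_lit 5) (nat_lit 412) (nat_lit 335) (nat_lit 153)))) (XT.nd (nat_lit 156) (nat_lit 152) (nat_lit 0) (XT.nd (nat_lit 78) (nat_lit 152) (nat_lit 0) (XT.lf (nat_lit 0) (nat_lit 16943409198) (nat_lit 304) (nat_lit 17792920432) (nat_lit 76) (nat_lit 11868986630) (nat_lit 62) (nat_lit 5) (nat_lit 66) (nat_lit 5) (nat_lit 63) (nat_lit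 5) (nat_lit 413) (nat_lit 335) (nat_lit 152)) (XT.lf (nat_lit 0) (nat_lit 5288709569) (nat_lit 152) (nat_lit 21710884880) (nat_lit 228) (nat_lit 20589274158) (nat_lit 60) (nat_lit 5) (nat_lit 62) (nat_lit 5) (nat_lit 63) (nat_lit 5) (nat_lit 414) (nat_lit 335) (nat_lit 151))) (XT.nd (nat_lit 78) (nat_lit 152) (nat_lit 0) (XT.lf (nat_lit 0) (nat_lit 29421452750) (nat_lit 152) (nat_lit 8112118842) (nat_lit 228) (nat_lit 11063073631) (nat_lit 60) (nat_lit 5) (nat_lit 62) (nat_lit 5) (nat_lit 63) (nat_lit 5) (nat_lit 415) (nat_lit 335) (nat_lit 150)) (XT.lf (nat_lit 0) (nat_lit 4672051402) (nat_lit 152) (nat_lit 43809603105) (nat_lit 228) (nat_lit 1150058903) (nat_lit 58) (nat_lit 5) (nat_lit 60) (nat_lit 5) (nat_lit 61) (nat_lit 5) (nat_lit 416) (nat_lit 335) (nat_lit 149))))))) (XT.nd (nat_lit 1014) (nat_lit 304) (nat_lit 0) (XT.nd (nat_lit 468) (nat_lit 684) (nat_lit 0) (XT.nd (nat_lit 234) (nat_lit 228)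 (nat_lit 0) (XT.nd (nat_lit 78) (nat_lit 152) (nat_lit 0) (XT.lf (nat_lit 0) (nat_lit 9155936276) (nat_lit 228) (nat_lit 21239557235) (nat_lit 76) (nat_lit 20291556436) (nat_lit 57) (nat_lit 5) (nat_lit 60) (nat_lit 5) (nat_lit 58) (nat_lit 5) (nat_lit 417) (nat_lit 335) (nat_lit 148)) (XT.nd (nat_lit 78) (nat_lit 0) (nat_lit 0) (XT.lf (nat_lit 0) (nat_lit 3238137069) (nat_lit 152) (nat_lit 16537610420) (nat_lit 228) (nat_lit 31997125744) (nat_lit 55) (nat_lit 5) (nat_lit 57) (nat_lit 5) (nat_lit 58) (nat_lit 5) (nat_lit 418) (nat_lit 335) (nat_lit 147)) (XT.lf (nat_lit 0) (nat_lit 28879794704) (nat_lit 152) (nat_lit 2045503464) (nat_lit 228) (nat_lit 21959639463) (nat_lit 55) (nat_lit 5) (nat_lit 57) (nat_lit 5) (nat_lit 58) (nat_lit 5) (nat_lit 419) (nat_lit 335) (nat_lit 146)))) (XT.nd (nat_lit 78) (nat_lit 76) (nat_lit 0) (XT.lf (nat_lit 0) (nat_lit 1153355559) (nat_lit 152) (nat_lit 41387631830) (nat_lit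 228) (nat_lit 11485427756) (nat_lit 53) (nat_lit 5) (nat_lit 55) (nat_lit 5) (nat_lit 56) (nat_lit 5) (nat_lit 420) (nat_lit 335) (nat_lit 145)) (XT.nd (nat_lit 78) (nat_lit 76) (nat_lit 0) (XT.lf (nat_lit 0) (nat_lit 27532425775) (nat_lit 152) (nat_lit 27231963009) (nat_lit 228) (nat_lit 429971680) (nat_lit 53) (nat_lit 5) (nat_lit 55) (nat_lit 5) (nat_lit 56) (nat_lit 5) (nat_lit 421) (nat_lit 335) (nat_lit 144)) (XT.lf (nat_lit 0) (nat_lit 10740179413) (nat_lit 228) (nat_lit 1805312496) (nat_lit 76) (nat_lit 43848787767) (nat_lit 52) (nat_lit 5) (nat_lit 55) (nat_lit 5) (nat_lit 53) (nat_lit 5) (nat_lit 422) (nat_lit 335) (nat_lit 143))))) (XT.nd (nat_lit 234) (nat_lit 380) (nat_lit 0) (XT.nd (nat_lit 78) (nat_lit 152) (nat_lit 0) (XT.lf (nat_lit 0) (nat_lit 22504282386) (nat_lit 228) (nat_lit 32338789893) (nat_lit 76) (nat_lit 2778972453) (nat_lit 50) (nat_lit 5) (nat_lit 53) (nat_lit 5) (nat_lit 51)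 (nat_lit 5) (nat_lit 423) (nat_lit 335) (nat_lit 142)) (XT.nd (nat_lit 78) (nat_lit 152) (nat_lit 0) (XT.lf (nat_lit 0) (nat_lit 34760884983) (nat_lit 228) (nat_lit 5794369072) (nat_lit 76) (nat_lit 18327202032) (nat_lit 50) (nat_lit 5) (nat_lit 53) (nat_lit 5) (nat_lit 51) (nat_lit 5) (nat_lit 424) (nat_lit 335) (nat_lit 141)) (XT.lf (nat_lit 0) (nat_lit 21969886001) (nat_lit 152) (nat_lit 25623529516) (nat_lit 228) (nat_lit 12581017994) (nat_lit 48) (nat_lit 5) (nat_lit 50) (nat_lit 5) (nat_lit 51) (nat_lit 5) (nat_lit 425) (nat_lit 335) (nat_lit 140)))) (XT.nd (nat_lit 156) (nat_lit 152) (nat_lit 0) (XT.nd (nat_lit 78) (nat_lit 228) (nat_lit 0) (XT.lf (nat_lit 0) (nat_lit 50680688709) (nat_lit 152) (nat_lit 10185823466) (nat_lit 228) (nat_lit 636990980) (nat_lit 48) (nat_lit 5) (nat_lit 50) (nat_lit 5) (nat_lit 51) (nat_lit 5) (nat_lit 426) (nat_lit 335) (nat_lit 139)) (XT.lf (nat_lit 0) (nat_lit 11661806358)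 (nat_lit 228) (nat_lit 45315050226) (nat_lit 76) (nat_lit 5885502362) (nat_lit 45) (nat_lit 5) (nat_lit 48) (nat_lit 5) (nat_lit 46) (nat_lit 5) (nat_lit 427) (nat_lit 335) (nat_lit 138))) (XT.nd (nat_lit 78) (nat_lit 152) (nat_lit 0) (XT.lf (nat_lit 0) (nat_lit 24525134828) (nat_lit 228) (nat_lit 17381628713) (nat_lit 76) (nat_lit 22348777115) (nat_lit 45) (nat_lit 5) (nat_lit 48) (nat_lit 5) (nat_lit 46) (nat_lit 5) (nat_lit 428) (nat_lit 335) (nat_lit 137)) (XT.lf (nat_lit 0) (nat_lit 11611443522) (nat_lit 152) (nat_lit 26271768049) (nat_lit 228) (nat_lit 27804041332) (nat_lit 43) (nat_lit 5) (nat_lit 45) (nat_lit 5) (nat_lit 46) (nat_lit 5) (nat_lit 429) (nat_lit 335) (nat_lit 136)))))) (XT.nd (nat_lit 39624) (nat_lit 0) (nat_lit 15276) (XT.nd (nat_lit 234) (nat_lit 152) (nat_lit 0) (XT.nd (nat_lit 78) (nat_lit 152) (nat_lit 0) (XT.lf (nat_lit 0) (nat_lit 41825729627) (nat_lit 152) (nat_lit 9989087143)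 (nat_lit 228) (nat_lit 15341916685) (nat_lit 43) (nat_lit 5) (nat_lit 45) (nat_lit 5) (nat_lit 46) (nat_lit 5) (nat_lit 430) (nat_lit 335) (nat_lit 135)) (XT.nd (nat_lit 78) (nat_lit 76) (nat_lit 0) (XT.lf (nat_lit 0) (nat_lit 4289860627) (nat_lit 76) (nat_lit 61978265063) (nat_lit 152) (nat_lit 2399060575) (nat_lit 42) (nat_lit 5) (nat_lit 43) (nat_lit 5) (nat_lit 44) (nat_lit 4) (nat_lit 431) (nat_lit 335) (nat_lit 134)) (XT.lf (nat_lit 0) (nat_lit 11073315767) (nat_lit 152) (nat_lit 35107996373) (nat_lit 76) (nat_lit 24027851656) (nat_lit 41) (nat_lit 5) (nat_lit 43) (nat_lit 5) (nat_lit 42) (nat_lit 5) (nat_lit 432) (nat_lit 335) (nat_lit 133)))) (XT.nd (nat_lit 156) (nat_lit 0) (nat_lit 0) (XT.nd (nat_lit 78) (nat_lit 152) (nat_lit 0) (XT.lf (nat_lit 0) (nat_lit 24899053296) (nat_lit 152) (nat_lit 4989009203) (nat_lit 76) (nat_lit 41908703767) (nat_lit 41) (nat_lit 5) (nat_lit 43) (nat_lit 5) (nat_lit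 42) (nat_lit 5) (nat_lit 433) (nat_lit 335) (nat_lit 132)) (XT.lf (nat_lit 0) (nat_lit 26547043099) (nat_lit 152) (nat_lit 12845190386) (nat_lit 228) (nat_lit 34032183660) (nat_lit 39) (nat_lit 5) (nat_lit 41) (nat_lit 5) (nat_lit 42) (nat_lit 5) (nat_lit 434) (nat_lit 335) (nat_lit 131))) (XT.nd (nat_lit 39156) (nat_lit 0) (nat_lit 15276) (XT.lf (nat_lit 0) (nat_lit 54413847572) (nat_lit 228) (nat_lit 16018247919) (nat_lit 76) (nat_lit 4665993342) (nat_lit 39) (nat_lit 5) (nat_lit 42) (nat_lit 5) (nat_lit 40) (nat_lit 4) (nat_lit 435) (nat_lit 335) (nat_lit 130)) (XT.lf (nat_lit 0) (nat_lit 482585788) (nat_lit 0) (nat_lit 482585788) (nat_lit 1140) (nat_lit 5099158694) (nat_lit 240) (nat_lit 5) (nat_lit 240) (nat_lit 3) (nat_lit 255) (nat_lit 3) (nat_lit 336) (nat_lit 336) (nat_lit 228))))) (XT.nd (nat_lit 234) (nat_lit 0) (nat_lit 76) (XT.nd (nat_lit 78) (nat_lit 0) (nat_lit 0) (XT.lf (nat_lit 0) (nat_lit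 2456352455) (nat_lit 1140) (nat_lit 5456190558) (nat_lit 1216) (nat_lit 4382837489) (nat_lit 240) (nat_lit 5) (nat_lit 255) (nat_lit 3) (nat_lit 256) (nat_lit 5) (nat_lit 337) (nat_lit 336) (nat_lit 227)) (XT.nd (nat_lit 78) (nat_lit 0) (nat_lit 76) (XT.lf (nat_lit 76) (nat_lit 411307429) (nat_lit 0) (nat_lit 2582708001) (nat_lit 1216) (nat_lit 9473222074) (nat_lit 241) (nat_lit 5) (nat_lit 240) (nat_lit 5) (nat_lit 256) (nat_lit 5) (nat_lit 338) (nat_lit 336) (nat_lit 226)) (XT.lf (nat_lit 0) (nat_lit 3614256713) (nat_lit 1140) (nat_lit 6114409096) (nat_lit 1216) (nat_lit 2913602258) (nat_lit 241) (nat_lit 5) (nat_lit 256) (nat_lit 5) (nat_lit 257) (nat_lit 5) (nat_lit 339) (nat_lit 336) (nat_lit 225)))) (XT.nd (nat_lit 156) (nat_lit 0) (nat_lit 76) (XT.nd (nat_lit 78) (nat_lit 0) (nat_lit 76) (XT.lf (nat_lit 0) (nat_lit 4262037769) (nat_lit 1140) (nat_lit 29921728) (nat_lit 1216) (nat_lit 8530333047)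 (nat_lit 241) (nat_lit 5) (nat_lit 256) (nat_lit 5) (nat_lit 257) (nat_lit 5) (nat_lit 340) (nat_lit 336) (nat_lit 224)) (XT.lf (nat_lit 0) (nat_lit 4987394720) (nat_lit 1140) (nat_lit 6668004313) (nat_lit 1216) (nat_lit 1350585102) (nat_lit 242) (nat_lit 5) (nat_lit 257) (nat_lit 5) (nat_lit 258) (nat_lit 5) (nat_lit 341) (nat_lit 336) (nat_lit 223))) (XT.nd (nat_lit 78) (nat_lit 0) (nat_lit 0) (XT.lf (nat_lit 0) (nat_lit 5761600677) (nat_lit 1140) (nat_lit 350021441) (nat_lit 1216) (nat_lit 7082762053) (nat_lit 242) (nat_lit 5) (nat_lit 257) (nat_lit 5) (nat_lit 258) (nat_lit 5) (nat_lit 342) (nat_lit 336) (nat_lit 222)) (XT.lf (nat_lit 76) (nat_lit 6270265926) (nat_lit 0) (nat_lit 333786641) (nat_lit 1216) (nat_lit 6783043092) (nat_lit 243) (nat_lit 5) (nat_lit 242) (nat_lit 5) (nat_lit 258) (nat_lit 5) (nat_lit 343) (nat_lit 336) (nat_lit 221))))))))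
noncomputable def xc189 : XT := (XT.nd (nat_lit 2106) (nat_lit 5016) (nat_lit 0) (XT.nd (nat_lit 1014) (nat_lit 3724) (nat_lit 0) (XT.nd (nat_lit 468) (nat_lit 2736) (nat_lit 0) (XT.nd (nat_lit 234) (nat_lit 0) (nat_lit 76) (XT.nd (nat_lit 78) (nat_lit 0) (nat_lit 0) (XT.lf (nat_lit 0) (nat_lit 7514496345) (nat_lit 1140) (nat_lit 553183336) (nat_lit 1216) (nat_lit 5516637011) (nat_lit 243) (nat_lit 5) (nat_lit 258) (nat_lit 5) (nat_lit 259) (nat_lit 5) (nat_lit 344) (nat_lit 336) (nat_lit 220)) (XT.nd (nat_lit 78) (nat_lit 0) (nat_lit 76) (XT.lf (nat_lit 76) (nat_lit 6317633669) (nat_lit 0) (nat_lit 2184237113) (nat_lit 1216) (nat_lit 5284104520) (nat_lit 244) (nat_lit 5) (nat_lit 243) (nat_lit 5) (nat_lit 259) (nat_lit 5) (nat_lit 345) (nat_lit 336) (nat_lit 219)) (XT.lf (nat_lit 0) (nat_lit 9547717488) (nat_lit 1140) (nat_lit 635005532) (nat_lit 1216) (nat_lit 3810104309) (nat_lit 244) (nat_lit 5) (nat_lit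 259) (nat_lit 5) (nat_lit 260) (nat_lit 5) (nat_lit 346) (nat_lit 336) (nat_lit 218)))) (XT.nd (nat_lit 78) (nat_lit 0) (nat_lit 76) (XT.lf (nat_lit 76) (nat_lit 6498718574) (nat_lit 0) (nat_lit 4196679875) (nat_lit 1216) (nat_lit 3508381627) (nat_lit 245) (nat_lit 5) (nat_lit 244) (nat_lit 5) (nat_lit 260) (nat_lit 5) (nat_lit 347) (nat_lit 336) (nat_lit 217)) (XT.nd (nat_lit 78) (nat_lit 0) (nat_lit 0) (XT.lf (nat_lit 0) (nat_lit 11889614231) (nat_lit 1140) (nat_lit 590534673) (nat_lit 1216) (nat_lit 1940558031) (nat_lit 245) (nat_lit 5) (nat_lit 260) (nat_lit 5) (nat_lit 261) (nat_lit 5) (nat_lit 348) (nat_lit 336) (nat_lit 216)) (XT.lf (nat_lit 76) (nat_lit 6819090383) (nat_lit 0) (nat_lit 6394755875) (nat_lit 1216) (nat_lit 1427478060) (nat_lit 246) (nat_lit 5) (nat_lit 245) (nat_lit 5) (nat_lit 261) (nat_lit 5) (nat_lit 349) (nat_lit 336) (nat_lit 215))))) (XT.nd (nat_lit 234) (nat_lit 1748) (nat_lit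 0) (XT.nd (nat_lit 78) (nat_lit 1140) (nat_lit 0) (XT.lf (nat_lit 76) (nat_lit 14453354850) (nat_lit 0) (nat_lit 117785130) (nat_lit 1216) (nat_lit 297628368) (nat_lit 246) (nat_lit 5) (nat_lit 245) (nat_lit 5) (nat_lit 261) (nat_lit 5) (nat_lit 350) (nat_lit 336) (nat_lit 214)) (XT.nd (nat_lit 78) (nat_lit 0) (nat_lit 0) (XT.lf (nat_lit 0) (nat_lit 969193132) (nat_lit 1216) (nat_lit 7824104700) (nat_lit 1292) (nat_lit 6305896472) (nat_lit 230) (nat_lit 5) (nat_lit 246) (nat_lit 5) (nat_lit 247) (nat_lit 5) (nat_lit 351) (nat_lit 336) (nat_lit 213)) (XT.lf (nat_lit 0) (nat_lit 2261342231) (nat_lit 1216) (nat_lit 145762979) (nat_lit 1292) (nat_lit 12929547747) (nat_lit 230) (nat_lit 5) (nat_lit 246) (nat_lit 5) (nat_lit 247) (nat_lit 5) (nat_lit 352) (nat_lit 336) (nat_lit 212)))) (XT.nd (nat_lit 156) (nat_lit 608) (nat_lit 0) (XT.nd (nat_lit 78) (nat_lit 1216) (nat_lit 0) (XT.lf (nat_lit 0) (nat_lit 3697385294)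 (nat_lit 1216) (nat_lit 7712677469) (nat_lit 76) (nat_lit 4168025979) (nat_lit 231) (nat_lit 5) (nat_lit 247) (nat_lit 5) (nat_lit 232) (nat_lit 5) (nat_lit 353) (nat_lit 336) (nat_lit 211)) (XT.lf (nat_lit 0) (nat_lit 264492203) (nat_lit 1216) (nat_lit 4928401208) (nat_lit 1292) (nat_lit 10633389720) (nat_lit 215) (nat_lit 5) (nat_lit 231) (nat_lit 5) (nat_lit 232) (nat_lit 5) (nat_lit 354) (nat_lit 336) (nat_lit 210))) (XT.nd (nat_lit 78) (nat_lit 608) (nat_lit 0) (XT.lf (nat_lit 0) (nat_lit 6817494795) (nat_lit 1292) (nat_lit 7468344434) (nat_lit 76) (nat_lit 1793564121) (nat_lit 215) (nat_lit 5) (nat_lit 232) (nat_lit 5) (nat_lit 216) (nat_lit 5) (nat_lit 355) (nat_lit 336) (nat_lit 209)) (XT.lf (nat_lit 0) (nat_lit 825246245) (nat_lit 608) (nat_lit 7711417695) (nat_lit 684) (nat_lit 7802084983) (nat_lit 207) (nat_lit 5) (nat_lit 215) (nat_lit 5) (nat_lit 216) (nat_lit 5) (nat_lit 356) (nat_lit 336)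 (nat_lit 208)))))) (XT.nd (nat_lit 546) (nat_lit 1976) (nat_lit 0) (XT.nd (nat_lit 234) (nat_lit 1216) (nat_lit 0) (XT.nd (nat_lit 78) (nat_lit 532) (nat_lit 0) (XT.lf (nat_lit 0) (nat_lit 9510869412) (nat_lit 608) (nat_lit 861277865) (nat_lit 684) (nat_lit 6231791859) (nat_lit 207) (nat_lit 5) (nat_lit 215) (nat_lit 5) (nat_lit 216) (nat_lit 5) (nat_lit 357) (nat_lit 336) (nat_lit 207)) (XT.nd (nat_lit 78) (nat_lit 0) (nat_lit 0) (XT.lf (nat_lit 0) (nat_lit 1540588320) (nat_lit 532) (nat_lit 10786101892) (nat_lit 608) (nat_lit 4548481249) (nat_lit 200) (nat_lit 5) (nat_lit 207) (nat_lit 5) (nat_lit 208) (nat_lit 5) (nat_lit 358) (nat_lit 336) (nat_lit 206)) (XT.lf (nat_lit 0) (nat_lit 10560150697) (nat_lit 532) (nat_lit 3849638118) (nat_lit 608) (nat_lit 2742660436) (nat_lit 200) (nat_lit 5) (nat_lit 207) (nat_lit 5) (nat_lit 208) (nat_lit 5) (nat_lit 359) (nat_lit 336) (nat_lit 205)))) (XT.nd (nat_lit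 156) (nat_lit 532) (nat_lit 0) (XT.nd (nat_lit 78) (nat_lit 76) (nat_lit 0) (XT.lf (nat_lit 0) (nat_lit 2417936234) (nat_lit 608) (nat_lit 14182507825) (nat_lit 684) (nat_lit 836255304) (nat_lit 192) (nat_lit 5) (nat_lit 200) (nat_lit 5) (nat_lit 201) (nat_lit 5) (nat_lit 360) (nat_lit 336) (nat_lit 204)) (XT.lf (nat_lit 0) (nat_lit 1200927469) (nat_lit 684) (nat_lit 5953408847) (nat_lit 76) (nat_lit 10571953602) (nat_lit 191) (nat_lit 5) (nat_lit 200) (nat_lit 5) (nat_lit 192) (nat_lit 5) (nat_lit 361) (nat_lit 336) (nat_lit 203))) (XT.nd (nat_lit 78) (nat_lit 0) (nat_lit 0) (XT.lf (nat_lit 0) (nat_lit 3307163401) (nat_lit 608) (nat_lit 14591866947) (nat_lit 76) (nat_lit 124552481) (nat_lit 184) (nat_lit 5) (nat_lit 192) (nat_lit 5) (nat_lit 185) (nat_lit 5) (nat_lit 362) (nat_lit 336) (nat_lit 202)) (XT.lf (nat_lit 0) (nat_lit 5598840773) (nat_lit 608) (nat_lit 5188817177) (nat_lit 76) (nat_lit 7538474187)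 (nat_lit 184) (nat_lit 5) (nat_lit 192) (nat_lit 5) (nat_lit 185) (nat_lit 5) (nat_lit 363) (nat_lit 336) (nat_lit 201))))) (XT.nd (nat_lit 234) (nat_lit 988) (nat_lit 0) (XT.nd (nat_lit 78) (nat_lit 456) (nat_lit 0) (XT.lf (nat_lit 0) (nat_lit 4576076771) (nat_lit 532) (nat_lit 3418156799) (nat_lit 608) (nat_lit 10642480491) (nat_lit 177) (nat_lit 5) (nat_lit 184) (nat_lit 5) (nat_lit 185) (nat_lit 5) (nat_lit 364) (nat_lit 336) (nat_lit 200)) (XT.nd (nat_lit 78) (nat_lit 456) (nat_lit 0) (XT.lf (nat_lit 0) (nat_lit 10545655028) (nat_lit 608) (nat_lit 4265099268) (nat_lit 76) (nat_lit 4143339080) (nat_lit 177) (nat_lit 5) (nat_lit 185) (nat_lit 5) (nat_lit 178) (nat_lit 5) (nat_lit 365) (nat_lit 336) (nat_lit 199)) (XT.lf (nat_lit 0) (nat_lit 5896084329) (nat_lit 456) (nat_lit 7359455942) (nat_lit 532) (nat_lit 6023000963) (nat_lit 171) (nat_lit 5) (nat_lit 177) (nat_lit 5) (nat_lit 178) (nat_lit 5) (nat_lit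 366) (nat_lit 336) (nat_lit 198)))) (XT.nd (nat_lit 156) (nat_lit 532) (nat_lit 0) (XT.nd (nat_lit 78) (nat_lit 456) (nat_lit 0) (XT.lf (nat_lit 0) (nat_lit 16084802532) (nat_lit 532) (nat_lit 3174942681) (nat_lit 76) (nat_lit 351839556) (nat_lit 171) (nat_lit 5) (nat_lit 178) (nat_lit 5) (nat_lit 172) (nat_lit 5) (nat_lit 367) (nat_lit 336) (nat_lit 197)) (XT.lf (nat_lit 0) (nat_lit 7401043393) (nat_lit 456) (nat_lit 11733707802) (nat_lit 532) (nat_lit 815798682) (nat_lit 165) (nat_lit 5) (nat_lit 171) (nat_lit 5) (nat_lit 172) (nat_lit 5) (nat_lit 368) (nat_lit 336) (nat_lit 196))) (XT.nd (nat_lit 78) (nat_lit 456) (nat_lit 0) (XT.lf (nat_lit 0) (nat_lit 1962189112) (nat_lit 532) (nat_lit 1968030333) (nat_lit 76) (nat_lit 16368171460) (nat_lit 164) (nat_lit 5) (nat_lit 171) (nat_lit 5) (nat_lit 165) (nat_lit 5) (nat_lit 369) (nat_lit 336) (nat_lit 195)) (XT.lf (nat_lit 0) (nat_lit 4927027624) (nat_lit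 532) (nat_lit 11603357605) (nat_lit 76) (nat_lit 4122446522) (nat_lit 158) (nat_lit 5) (nat_lit 165) (nat_lit 5) (nat_lit 159) (nat_lit 5) (nat_lit 370) (nat_lit 336) (nat_lit 194))))))) (XT.nd (nat_lit 1014) (nat_lit 2128) (nat_lit 0) (XT.nd (nat_lit 468) (nat_lit 1520) (nat_lit 0) (XT.nd (nat_lit 234) (nat_lit 532) (nat_lit 0) (XT.nd (nat_lit 78) (nat_lit 836) (nat_lit 0) (XT.lf (nat_lit 0) (nat_lit 8032027947) (nat_lit 532) (nat_lit 627818425) (nat_lit 76) (nat_lit 12356526969) (nat_lit 158) (nat_lit 5) (nat_lit 165) (nat_lit 5) (nat_lit 159) (nat_lit 5) (nat_lit 371) (nat_lit 336) (nat_lit 193)) (XT.nd (nat_lit 78) (nat_lit 380) (nat_lit 0) (XT.lf (nat_lit 0) (nat_lit 10880325122) (nat_lit 456) (nat_lit 446901285) (nat_lit 532) (nat_lit 10060687227) (nat_lit 152) (nat_lit 5) (nat_lit 158) (nat_lit 5) (nat_lit 159) (nat_lit 5) (nat_lit 372) (nat_lit 336) (nat_lit 192)) (XT.lf (nat_lit 0) (nat_lit 907702204)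 (nat_lit 380) (nat_lit 13898306628) (nat_lit 456) (nat_lit 6962053249) (nat_lit 147) (nat_lit 5) (nat_lit 152) (nat_lit 5) (nat_lit 153) (nat_lit 5) (nat_lit 373) (nat_lit 336) (nat_lit 191)))) (XT.nd (nat_lit 78) (nat_lit 532) (nat_lit 0) (XT.lf (nat_lit 0) (nat_lit 12867323434) (nat_lit 380) (nat_lit 5625027950) (nat_lit 456) (nat_lit 3664171375) (nat_lit 147) (nat_lit 5) (nat_lit 152) (nat_lit 5) (nat_lit 153) (nat_lit 5) (nat_lit 374) (nat_lit 336) (nat_lit 190)) (XT.nd (nat_lit 78) (nat_lit 76) (nat_lit 0) (XT.lf (nat_lit 0) (nat_lit 2643897494) (nat_lit 456) (nat_lit 19691549449) (nat_lit 532) (nat_lit 219809002) (nat_lit 141) (nat_lit 5) (nat_lit 147) (nat_lit 5) (nat_lit 148) (nat_lit 5) (nat_lit 375) (nat_lit 336) (nat_lit 189)) (XT.lf (nat_lit 0) (nat_lit 3406324573) (nat_lit 532) (nat_lit 7935346018) (nat_lit 76) (nat_lit 11619022828) (nat_lit 140) (nat_lit 5) (nat_lit 147) (nat_lit 5) (nat_lit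 141) (nat_lit 5) (nat_lit 376) (nat_lit 336) (nat_lit 188))))) (XT.nd (nat_lit 234) (nat_lit 760) (nat_lit 0) (XT.nd (nat_lit 78) (nat_lit 380) (nat_lit 0) (XT.lf (nat_lit 0) (nat_lit 4476379062) (nat_lit 380) (nat_lit 2696634608) (nat_lit 456) (nat_lit 16204132641) (nat_lit 135) (nat_lit 5) (nat_lit 140) (nat_lit 5) (nat_lit 141) (nat_lit 5) (nat_lit 377) (nat_lit 336) (nat_lit 187)) (XT.nd (nat_lit 78) (nat_lit 380) (nat_lit 0) (XT.lf (nat_lit 0) (nat_lit 11186558190) (nat_lit 456) (nat_lit 6449874535) (nat_lit 76) (nat_lit 6165647595) (nat_lit 135) (nat_lit 5) (nat_lit 141) (nat_lit 5) (nat_lit 136) (nat_lit 5) (nat_lit 378) (nat_lit 336) (nat_lit 186)) (XT.lf (nat_lit 0) (nat_lit 6465424570) (nat_lit 380) (nat_lit 8937387051) (nat_lit 456) (nat_lit 8834484728) (nat_lit 130) (nat_lit 5) (nat_lit 135) (nat_lit 5) (nat_lit 136) (nat_lit 5) (nat_lit 379) (nat_lit 336) (nat_lit 185)))) (XT.nd (nat_lit 156)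 (nat_lit 456) (nat_lit 0) (XT.nd (nat_lit 78) (nat_lit 304) (nat_lit 0) (XT.lf (nat_lit 0) (nat_lit 19805088874) (nat_lit 456) (nat_lit 4792755443) (nat_lit 76) (nat_lit 85941445) (nat_lit 130) (nat_lit 5) (nat_lit 136) (nat_lit 5) (nat_lit 131) (nat_lit 5) (nat_lit 380) (nat_lit 336) (nat_lit 184)) (XT.lf (nat_lit 0) (nat_lit 8647566420) (nat_lit 304) (nat_lit 15857213514) (nat_lit 380) (nat_lit 633932461) (nat_lit 126) (nat_lit 5) (nat_lit 130) (nat_lit 5) (nat_lit 131) (nat_lit 5) (nat_lit 381) (nat_lit 336) (nat_lit 183))) (XT.nd (nat_lit 78) (nat_lit 380) (nat_lit 0) (XT.lf (nat_lit 0) (nat_lit 3707875662) (nat_lit 380) (nat_lit 3061371280) (nat_lit 76) (nat_lit 18835685231) (nat_lit 125) (nat_lit 5) (nat_lit 130) (nat_lit 5) (nat_lit 126) (nat_lit 5) (nat_lit 382) (nat_lit 336) (nat_lit 182)) (XT.lf (nat_lit 0) (nat_lit 8292601433) (nat_lit 456) (nat_lit 15137085913) (nat_lit 76) (nat_lit 2651503412)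 (nat_lit 120) (nat_lit 5) (nat_lit 126) (nat_lit 5) (nat_lit 121) (nat_lit 5) (nat_lit 383) (nat_lit 336) (nat_lit 181)))))) (XT.nd (nat_lit 546) (nat_lit 836) (nat_lit 0) (XT.nd (nat_lit 234) (nat_lit 684) (nat_lit 0) (XT.nd (nat_lit 78) (nat_lit 608) (nat_lit 0) (XT.lf (nat_lit 0) (nat_lit 13107138909) (nat_lit 456) (nat_lit 1213938752) (nat_lit 76) (nat_lit 12247893920) (nat_lit 120) (nat_lit 5) (nat_lit 126) (nat_lit 5) (nat_lit 121) (nat_lit 5) (nat_lit 384) (nat_lit 336) (nat_lit 180)) (XT.nd (nat_lit 78) (nat_lit 304) (nat_lit 0) (XT.lf (nat_lit 0) (nat_lit 13379934204) (nat_lit 304) (nat_lit 4808996126) (nat_lit 380) (nat_lit 8878773468) (nat_lit 116) (nat_lit 5) (nat_lit 120) (nat_lit 5) (nat_lit 121) (nat_lit 5) (nat_lit 385) (nat_lit 336) (nat_lit 179)) (XT.lf (nat_lit 0) (nat_lit 815179308) (nat_lit 304) (nat_lit 22670435991) (nat_lit 380) (nat_lit 4093911919) (nat_lit 112) (nat_lit 5) (nat_lit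 116) (nat_lit 5) (nat_lit 117) (nat_lit 5) (nat_lit 386) (nat_lit 336) (nat_lit 178)))) (XT.nd (nat_lit 156) (nat_lit 304) (nat_lit 0) (XT.nd (nat_lit 78) (nat_lit 304) (nat_lit 0) (XT.lf (nat_lit 0) (nat_lit 999716739) (nat_lit 380) (nat_lit 12133928238) (nat_lit 76) (nat_lit 14967376845) (nat_lit 111) (nat_lit 5) (nat_lit 116) (nat_lit 5) (nat_lit 112) (nat_lit 5) (nat_lit 387) (nat_lit 336) (nat_lit 177)) (XT.lf (nat_lit 0) (nat_lit 2944395907) (nat_lit 304) (nat_lit 3242247340) (nat_lit 380) (nat_lit 22449621051) (nat_lit 107) (nat_lit 5) (nat_lit 111) (nat_lit 5) (nat_lit 112) (nat_lit 5) (nat_lit 388) (nat_lit 336) (nat_lit 176))) (XT.nd (nat_lit 78) (nat_lit 304) (nat_lit 0) (XT.lf (nat_lit 0) (nat_lit 11714219457) (nat_lit 380) (nat_lit 10536060827) (nat_lit 76) (nat_lit 6931734667) (nat_lit 107) (nat_lit 5) (nat_lit 112) (nat_lit 5) (nat_lit 108) (nat_lit 5) (nat_lit 389) (nat_lit 336) (nat_lit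 175)) (XT.lf (nat_lit 0) (nat_lit 5134755196) (nat_lit 304) (nat_lit 12349018594) (nat_lit 380) (nat_lit 12258081905) (nat_lit 103) (nat_lit 5) (nat_lit 107) (nat_lit 5) (nat_lit 108) (nat_lit 5) (nat_lit 390) (nat_lit 336) (nat_lit 174))))) (XT.nd (nat_lit 234) (nat_lit 532) (nat_lit 0) (XT.nd (nat_lit 78) (nat_lit 304) (nat_lit 0) (XT.lf (nat_lit 0) (nat_lit 21483988840) (nat_lit 304) (nat_lit 2043591192) (nat_lit 380) (nat_lit 6787878706) (nat_lit 103) (nat_lit 5) (nat_lit 107) (nat_lit 5) (nat_lit 108) (nat_lit 5) (nat_lit 391) (nat_lit 336) (nat_lit 173)) (XT.nd (nat_lit 78) (nat_lit 76) (nat_lit 0) (XT.lf (nat_lit 0) (nat_lit 7473277246) (nat_lit 228) (nat_lit 22428551681) (nat_lit 304) (nat_lit 999969068) (nat_lit 100) (nat_lit 5) (nat_lit 103) (nat_lit 5) (nat_lit 104) (nat_lit 5) (nat_lit 392) (nat_lit 336) (nat_lit 172)) (XT.lf (nat_lit 0) (nat_lit 4969982379) (nat_lit 304) (nat_lit 7131280657)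 (nat_lit 76) (nat_lit 19399878761) (nat_lit 99) (nat_lit 5) (nat_lit 103) (nat_lit 5) (nat_lit 100) (nat_lit 5) (nat_lit 393) (nat_lit 336) (nat_lit 171)))) (XT.nd (nat_lit 156) (nat_lit 228) (nat_lit 0) (XT.nd (nat_lit 78) (nat_lit 0) (nat_lit 0) (XT.lf (nat_lit 0) (nat_lit 9829382958) (nat_lit 304) (nat_lit 1359110555) (nat_lit 380) (nat_lit 20926990403) (nat_lit 95) (nat_lit 5) (nat_lit 99) (nat_lit 5) (nat_lit 100) (nat_lit 5) (nat_lit 394) (nat_lit 336) (nat_lit 170)) (XT.lf (nat_lit 0) (nat_lit 17754701035) (nat_lit 380) (nat_lit 5402502224) (nat_lit 76) (nat_lit 9586220562) (nat_lit 95) (nat_lit 5) (nat_lit 100) (nat_lit 5) (nat_lit 96) (nat_lit 5) (nat_lit 395) (nat_lit 336) (nat_lit 169))) (XT.nd (nat_lit 78) (nat_lit 0) (nat_lit 0) (XT.lf (nat_lit 0) (nat_lit 12205079303) (nat_lit 228) (nat_lit 12438859531) (nat_lit 304) (nat_lit 8742483473) (nat_lit 92) (nat_lit 5) (nat_lit 95) (nat_lit 5) (nat_lit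 96) (nat_lit 5) (nat_lit 396) (nat_lit 336) (nat_lit 168)) (XT.lf (nat_lit 0) (nat_lit 30444471509) (nat_lit 228) (nat_lit 1345270828) (nat_lit 304) (nat_lit 2257473409) (nat_lit 92) (nat_lit 5) (nat_lit 95) (nat_lit 5) (nat_lit 96) (nat_lit 5) (nat_lit 397) (nat_lit 336) (nat_lit 167))))))))
noncomputable def xc190 : XT := (XT.nd (nat_lit 2028) (nat_lit 988) (nat_lit 0) (XT.nd (nat_lit 1014) (nat_lit 1216) (nat_lit 0) (XT.nd (nat_lit 468) (nat_lit 684) (nat_lit 0) (XT.nd (nat_lit 234) (nat_lit 532) (nat_lit 0) (XT.nd (nat_lit 78) (nat_lit 228) (nat_lit 0) (XT.lf (nat_lit 0) (nat_lit 4571628072) (nat_lit 380) (nat_lit 20079837570) (nat_lit 76) (nat_lit 10068018712) (nat_lit 87) (nat_lit 5) (nat_lit 92) (nat_lit 5) (nat_lit 88) (nat_lit 5) (nat_lit 398) (nat_lit 336) (nat_lit 166)) (XT.nd (nat_lit 78) (nat_lit 228) (nat_lit 0) (XT.lf (nat_lit 0) (nat_lit 11605755864) (nat_lit 380) (nat_lit 1950789089) (nat_lit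 76) (nat_lit 21853341259) (nat_lit 87) (nat_lit 5) (nat_lit 92) (nat_lit 5) (nat_lit 88) (nat_lit 5) (nat_lit 399) (nat_lit 336) (nat_lit 165)) (XT.lf (nat_lit 0) (nat_lit 17047912745) (nat_lit 228) (nat_lit 1962467647) (nat_lit 304) (nat_lit 17105837017) (nat_lit 84) (nat_lit 5) (nat_lit 87) (nat_lit 5) (nat_lit 88) (nat_lit 5) (nat_lit 400) (nat_lit 336) (nat_lit 164)))) (XT.nd (nat_lit 78) (nat_lit 532) (nat_lit 0) (XT.lf (nat_lit 0) (nat_lit 26748603058) (nat_lit 304) (nat_lit 289630699) (nat_lit 76) (nat_lit 9802162431) (nat_lit 84) (nat_lit 5) (nat_lit 88) (nat_lit 5) (nat_lit 85) (nat_lit 5) (nat_lit 401) (nat_lit 336) (nat_lit 163)) (XT.nd (nat_lit 78) (nat_lit 304) (nat_lit 0) (XT.lf (nat_lit 0) (nat_lit 19404909902) (nat_lit 228) (nat_lit 15515788633) (nat_lit 304) (nat_lit 2659551396) (nat_lit 81) (nat_lit 5) (nat_lit 84) (nat_lit 5) (nat_lit 85) (nat_lit 5) (nat_lit 402) (nat_lit 336) (nat_lit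 162)) (XT.lf (nat_lit 0) (nat_lit 1325076800) (nat_lit 228) (nat_lit 3584569235) (nat_lit 304) (nat_lit 33430869766) (nat_lit 77) (nat_lit 5) (nat_lit 80) (nat_lit 5) (nat_lit 81) (nat_lit 5) (nat_lit 403) (nat_lit 336) (nat_lit 161))))) (XT.nd (nat_lit 234) (nat_lit 456) (nat_lit 0) (XT.nd (nat_lit 78) (nat_lit 228) (nat_lit 0) (XT.lf (nat_lit 0) (nat_lit 12917306483) (nat_lit 304) (nat_lit 17453602063) (nat_lit 76) (nat_lit 8743947162) (nat_lit 77) (nat_lit 5) (nat_lit 81) (nat_lit 5) (nat_lit 78) (nat_lit 5) (nat_lit 404) (nat_lit 336) (nat_lit 160)) (XT.nd (nat_lit 78) (nat_lit 0) (nat_lit 0) (XT.lf (nat_lit 0) (nat_lit 2705818815) (nat_lit 228) (nat_lit 18516815738) (nat_lit 304) (nat_lit 18688069357) (nat_lit 74) (nat_lit 5) (nat_lit 77) (nat_lit 5) (nat_lit 78) (nat_lit 5) (nat_lit 405) (nat_lit 336) (nat_lit 159)) (XT.lf (nat_lit 0) (nat_lit 23821287915) (nat_lit 228) (nat_lit 6128074450) (nat_lit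 304) (nat_lit 10775899192) (nat_lit 74) (nat_lit 5) (nat_lit 77) (nat_lit 5) (nat_lit 78) (nat_lit 5) (nat_lit 406) (nat_lit 336) (nat_lit 158)))) (XT.nd (nat_lit 156) (nat_lit 228) (nat_lit 0) (XT.nd (nat_lit 78) (nat_lit 76) (nat_lit 0) (XT.lf (nat_lit 0) (nat_lit 4014120284) (nat_lit 152) (nat_lit 35022197953) (nat_lit 228) (nat_lit 2524986068) (nat_lit 72) (nat_lit 5) (nat_lit 74) (nat_lit 5) (nat_lit 75) (nat_lit 5) (nat_lit 407) (nat_lit 336) (nat_lit 157)) (XT.lf (nat_lit 0) (nat_lit 6086051491) (nat_lit 228) (nat_lit 16637256664) (nat_lit 76) (nat_lit 19690523842) (nat_lit 71) (nat_lit 5) (nat_lit 74) (nat_lit 5) (nat_lit 72) (nat_lit 5) (nat_lit 408) (nat_lit 336) (nat_lit 156))) (XT.nd (nat_lit 78) (nat_lit 0) (nat_lit 0) (XT.lf (nat_lit 0) (nat_lit 4965616609) (nat_lit 228) (nat_lit 9982999590) (nat_lit 304) (nat_lit 28341252014) (nat_lit 68) (nat_lit 5) (nat_lit 71) (nat_lit 5) (nat_lit 72)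 (nat_lit 5) (nat_lit 409) (nat_lit 336) (nat_lit 155)) (XT.lf (nat_lit 0) (nat_lit 24273144334) (nat_lit 304) (nat_lit 16667641631) (nat_lit 76) (nat_lit 3245517988) (nat_lit 68) (nat_lit 5) (nat_lit 72) (nat_lit 5) (nat_lit 69) (nat_lit 5) (nat_lit 410) (nat_lit 336) (nat_lit 154)))))) (XT.nd (nat_lit 468) (nat_lit 608) (nat_lit 0) (XT.nd (nat_lit 234) (nat_lit 152) (nat_lit 0) (XT.nd (nat_lit 78) (nat_lit 304) (nat_lit 0) (XT.lf (nat_lit 0) (nat_lit 5643862601) (nat_lit 152) (nat_lit 28382989494) (nat_lit 228) (nat_lit 11078298357) (nat_lit 66) (nat_lit 5) (nat_lit 68) (nat_lit 5) (nat_lit 69) (nat_lit 5) (nat_lit 411) (nat_lit 336) (nat_lit 153)) (XT.nd (nat_lit 78) (nat_lit 304) (nat_lit 0) (XT.lf (nat_lit 0) (nat_lit 28960347476) (nat_lit 152) (nat_lit 15277532358) (nat_lit 228) (nat_lit 1808742222) (nat_lit 66) (nat_lit 5) (nat_lit 68) (nat_lit 5) (nat_lit 69) (nat_lit 5) (nat_lit 412) (nat_lit 336)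 (nat_lit 152)) (XT.lf (nat_lit 0) (nat_lit 5996684714) (nat_lit 228) (nat_lit 1645313462) (nat_lit 304) (nat_lit 39370485475) (nat_lit 62) (nat_lit 5) (nat_lit 65) (nat_lit 5) (nat_lit 66) (nat_lit 5) (nat_lit 413) (nat_lit 336) (nat_lit 151)))) (XT.nd (nat_lit 78) (nat_lit 152) (nat_lit 0) (XT.lf (nat_lit 0) (nat_lit 17629800837) (nat_lit 304) (nat_lit 18024488268) (nat_lit 76) (nat_lit 12343798810) (nat_lit 62) (nat_lit 5) (nat_lit 66) (nat_lit 5) (nat_lit 63) (nat_lit 5) (nat_lit 414) (nat_lit 336) (nat_lit 150)) (XT.nd (nat_lit 78) (nat_lit 0) (nat_lit 0) (XT.lf (nat_lit 0) (nat_lit 5746627694) (nat_lit 152) (nat_lit 22238733522) (nat_lit 228) (nat_lit 21025856244) (nat_lit 60) (nat_lit 5) (nat_lit 62) (nat_lit 5) (nat_lit 63) (nat_lit 5) (nat_lit 415) (nat_lit 336) (nat_lit 149)) (XT.lf (nat_lit 0) (nat_lit 30594636952) (nat_lit 152) (nat_lit 8235600947) (nat_lit 228) (nat_lit 11219144347) (nat_lit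 60) (nat_lit 5) (nat_lit 62) (nat_lit 5) (nat_lit 63) (nat_lit 5) (nat_lit 416) (nat_lit 336) (nat_lit 148))))) (XT.nd (nat_lit 234) (nat_lit 228) (nat_lit 0) (XT.nd (nat_lit 78) (nat_lit 228) (nat_lit 0) (XT.lf (nat_lit 0) (nat_lit 5103875774) (nat_lit 152) (nat_lit 45001839323) (nat_lit 228) (nat_lit 1009820066) (nat_lit 58) (nat_lit 5) (nat_lit 60) (nat_lit 5) (nat_lit 61) (nat_lit 5) (nat_lit 417) (nat_lit 336) (nat_lit 147)) (XT.nd (nat_lit 78) (nat_lit 152) (nat_lit 0) (XT.lf (nat_lit 0) (nat_lit 9596954933) (nat_lit 228) (nat_lit 21590226704) (nat_lit 76) (nat_lit 21015450644) (nat_lit 57) (nat_lit 5) (nat_lit 60) (nat_lit 5) (nat_lit 58) (nat_lit 5) (nat_lit 418) (nat_lit 336) (nat_lit 146)) (XT.lf (nat_lit 0) (nat_lit 3618989437) (nat_lit 152) (nat_lit 16914253352) (nat_lit 228) (nat_lit 32787852141) (nat_lit 55) (nat_lit 5) (nat_lit 57) (nat_lit 5) (nat_lit 58) (nat_lit 5) (nat_lit 419) (nat_lit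 336) (nat_lit 145)))) (XT.nd (nat_lit 156) (nat_lit 76) (nat_lit 0) (XT.nd (nat_lit 78) (nat_lit 152) (nat_lit 0) (XT.lf (nat_lit 0) (nat_lit 30021633453) (nat_lit 152) (nat_lit 1990863344) (nat_lit 228) (nat_lit 22454169059) (nat_lit 55) (nat_lit 5) (nat_lit 57) (nat_lit 5) (nat_lit 58) (nat_lit 5) (nat_lit 420) (nat_lit 336) (nat_lit 144)) (XT.lf (nat_lit 0) (nat_lit 1464369164) (nat_lit 152) (nat_lit 42511383342) (nat_lit 228) (nat_lit 11666663386) (nat_lit 53) (nat_lit 5) (nat_lit 55) (nat_lit 5) (nat_lit 56) (nat_lit 5) (nat_lit 421) (nat_lit 336) (nat_lit 143))) (XT.nd (nat_lit 78) (nat_lit 76) (nat_lit 0) (XT.lf (nat_lit 0) (nat_lit 28626760624) (nat_lit 152) (nat_lit 27934477780) (nat_lit 228) (nat_lit 284300730) (nat_lit 53) (nat_lit 5) (nat_lit 55) (nat_lit 5) (nat_lit 56) (nat_lit 5) (nat_lit 422) (nat_lit 336) (nat_lit 142)) (XT.lf (nat_lit 0) (nat_lit 11213332200) (nat_lit 228) (nat_lit 1595889399)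 (nat_lit 76) (nat_lit 45272325427) (nat_lit 52) (nat_lit 5) (nat_lit 55) (nat_lit 5) (nat_lit 53) (nat_lit 5) (nat_lit 423) (nat_lit 336) (nat_lit 141))))))) (XT.nd (nat_lit 40170) (nat_lit 0) (nat_lit 14440) (XT.nd (nat_lit 468) (nat_lit 456) (nat_lit 0) (XT.nd (nat_lit 234) (nat_lit 228) (nat_lit 0) (XT.nd (nat_lit 78) (nat_lit 152) (nat_lit 0) (XT.lf (nat_lit 0) (nat_lit 23329546633) (nat_lit 228) (nat_lit 33044527820) (nat_lit 76) (nat_lit 2972095879) (nat_lit 50) (nat_lit 5) (nat_lit 53) (nat_lit 5) (nat_lit 51) (nat_lit 5) (nat_lit 424) (nat_lit 336) (nat_lit 140)) (XT.nd (nat_lit 78) (nat_lit 152) (nat_lit 0) (XT.lf (nat_lit 0) (nat_lit 35949474421) (nat_lit 228) (nat_lit 5711476095) (nat_lit 76) (nat_lit 18983575620) (nat_lit 50) (nat_lit 5) (nat_lit 53) (nat_lit 5) (nat_lit 51) (nat_lit 5) (nat_lit 425) (nat_lit 336) (nat_lit 139)) (XT.lf (nat_lit 0) (nat_lit 22883189727) (nat_lit 152) (nat_lit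 26281989217) (nat_lit 228) (nat_lit 12810138891) (nat_lit 48) (nat_lit 5) (nat_lit 50) (nat_lit 5) (nat_lit 51) (nat_lit 5) (nat_lit 426) (nat_lit 336) (nat_lit 138)))) (XT.nd (nat_lit 78) (nat_lit 228) (nat_lit 0) (XT.lf (nat_lit 0) (nat_lit 52447912425) (nat_lit 152) (nat_lit 10384363041) (nat_lit 228) (nat_lit 512110765) (nat_lit 48) (nat_lit 5) (nat_lit 50) (nat_lit 5) (nat_lit 51) (nat_lit 5) (nat_lit 427) (nat_lit 336) (nat_lit 137)) (XT.nd (nat_lit 78) (nat_lit 0) (nat_lit 0) (XT.lf (nat_lit 0) (nat_lit 12152140613) (nat_lit 228) (nat_lit 46424133342) (nat_lit 76) (nat_lit 6167714040) (nat_lit 45) (nat_lit 5) (nat_lit 48) (nat_lit 5) (nat_lit 46) (nat_lit 5) (nat_lit 428) (nat_lit 336) (nat_lit 136)) (XT.lf (nat_lit 0) (nat_lit 25397277284) (nat_lit 228) (nat_lit 17660001467) (nat_lit 76) (nat_lit 23121809950) (nat_lit 45) (nat_lit 5) (nat_lit 48) (nat_lit 5) (nat_lit 46) (nat_lit 5) (nat_lit 429)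 (nat_lit 336) (nat_lit 135))))) (XT.nd (nat_lit 234) (nat_lit 228) (nat_lit 0) (XT.nd (nat_lit 78) (nat_lit 76) (nat_lit 0) (XT.lf (nat_lit 0) (nat_lit 12200479836) (nat_lit 152) (nat_lit 26953957704) (nat_lit 228) (nat_lit 28499365311) (nat_lit 43) (nat_lit 5) (nat_lit 45) (nat_lit 5) (nat_lit 46) (nat_lit 5) (nat_lit 430) (nat_lit 336) (nat_lit 134)) (XT.nd (nat_lit 78) (nat_lit 76) (nat_lit 0) (XT.lf (nat_lit 0) (nat_lit 43314184048) (nat_lit 152) (nat_lit 10185882683) (nat_lit 228) (nat_lit 15667419564) (nat_lit 43) (nat_lit 5) (nat_lit 45) (nat_lit 5) (nat_lit 46) (nat_lit 5) (nat_lit 431) (nat_lit 336) (nat_lit 133)) (XT.lf (nat_lit 0) (nat_lit 4652879197) (nat_lit 76) (nat_lit 63733498421) (nat_lit 152) (nat_lit 2336893718) (nat_lit 42) (nat_lit 5) (nat_lit 43) (nat_lit 5) (nat_lit 44) (nat_lit 4) (nat_lit 432) (nat_lit 336) (nat_lit 132)))) (XT.nd (nat_lit 156) (nat_lit 152) (nat_lit 0) (XT.nd (nat_lit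 78) (nat_lit 0) (nat_lit 0) (XT.lf (nat_lit 0) (nat_lit 11533205672) (nat_lit 152) (nat_lit 35931174279) (nat_lit 76) (nat_lit 24847205167) (nat_lit 41) (nat_lit 5) (nat_lit 43) (nat_lit 5) (nat_lit 42) (nat_lit 5) (nat_lit 433) (nat_lit 336) (nat_lit 131)) (XT.lf (nat_lit 0) (nat_lit 25769996189) (nat_lit 152) (nat_lit 4915318328) (nat_lit 76) (nat_lit 43261613386) (nat_lit 41) (nat_lit 5) (nat_lit 43) (nat_lit 5) (nat_lit 42) (nat_lit 5) (nat_lit 434) (nat_lit 336) (nat_lit 130))) (XT.nd (nat_lit 39234) (nat_lit 0) (nat_lit 15276) (XT.lf (nat_lit 0) (nat_lit 27564625728) (nat_lit 152) (nat_lit 13131861276) (nat_lit 228) (nat_lit 34926966495) (nat_lit 39) (nat_lit 5) (nat_lit 41) (nat_lit 5) (nat_lit 42) (nat_lit 5) (nat_lit 435) (nat_lit 336) (nat_lit 129)) (XT.lf (nat_lit 0) (nat_lit 721923469) (nat_lit 0) (nat_lit 721923469) (nat_lit 1140) (nat_lit 4788626179) (nat_lit 240) (nat_lit 5) (nat_lit 240)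 (nat_lit 3) (nat_lit 255) (nat_lit 3) (nat_lit 337) (nat_lit 337) (nat_lit 226)))))) (XT.nd (nat_lit 546) (nat_lit 836) (nat_lit 0) (XT.nd (nat_lit 234) (nat_lit 0) (nat_lit 76) (XT.nd (nat_lit 78) (nat_lit 0) (nat_lit 0) (XT.lf (nat_lit 0) (nat_lit 3399089091) (nat_lit 1140) (nat_lit 5152286642) (nat_lit 1216) (nat_lit 4086221105) (nat_lit 240) (nat_lit 5) (nat_lit 255) (nat_lit 3) (nat_lit 256) (nat_lit 5) (nat_lit 338) (nat_lit 337) (nat_lit 225)) (XT.nd (nat_lit 78) (nat_lit 0) (nat_lit 76) (XT.lf (nat_lit 76) (nat_lit 886652073) (nat_lit 0) (nat_lit 3045368552) (nat_lit 1216) (nat_lit 8883231474) (nat_lit 241) (nat_lit 5) (nat_lit 240) (nat_lit 5) (nat_lit 256) (nat_lit 5) (nat_lit 339) (nat_lit 337) (nat_lit 224)) (XT.lf (nat_lit 0) (nat_lit 4542570000) (nat_lit 1140) (nat_lit 5819481630) (nat_lit 1216) (nat_lit 2634347145) (nat_lit 241) (nat_lit 5) (nat_lit 256) (nat_lit 5) (nat_lit 257) (nat_lit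 5) (nat_lit 340) (nat_lit 337) (nat_lit 223)))) (XT.nd (nat_lit 156) (nat_lit 0) (nat_lit 76) (XT.nd (nat_lit 78) (nat_lit 0) (nat_lit 76) (XT.lf (nat_lit 76) (nat_lit 442237190) (nat_lit 0) (nat_lit 4747918189) (nat_lit 1216) (nat_lit 7992273232) (nat_lit 242) (nat_lit 5) (nat_lit 241) (nat_lit 5) (nat_lit 257) (nat_lit 5) (nat_lit 341) (nat_lit 337) (nat_lit 222)) (XT.lf (nat_lit 0) (nat_lit 5911207216) (nat_lit 1140) (nat_lit 6381293021) (nat_lit 1216) (nat_lit 1079927980) (nat_lit 242) (nat_lit 5) (nat_lit 257) (nat_lit 5) (nat_lit 258) (nat_lit 5) (nat_lit 342) (nat_lit 337) (nat_lit 221))) (XT.nd (nat_lit 78) (nat_lit 0) (nat_lit 0) (XT.lf (nat_lit 76) (nat_lit 114282167) (nat_lit 0) (nat_lit 6572906492) (nat_lit 1216) (nat_lit 6879949962) (nat_lit 243) (nat_lit 5) (nat_lit 242) (nat_lit 5) (nat_lit 258) (nat_lit 5) (nat_lit 343) (nat_lit 337) (nat_lit 220)) (XT.lf (nat_lit 76) (nat_lit 6926315019)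 (nat_lit 0) (nat_lit 610106205) (nat_lit 1216) (nat_lit 6229779430) (nat_lit 243) (nat_lit 5) (nat_lit 242) (nat_lit 5) (nat_lit 258) (nat_lit 5) (nat_lit 344) (nat_lit 337) (nat_lit 219))))) (XT.nd (nat_lit 234) (nat_lit 1064) (nat_lit 0) (XT.nd (nat_lit 78) (nat_lit 0) (nat_lit 0) (XT.lf (nat_lit 0) (nat_lit 8450307142) (nat_lit 1140) (nat_lit 91129432) (nat_lit 1216) (nat_lit 5428631872) (nat_lit 243) (nat_lit 5) (nat_lit 258) (nat_lit 5) (nat_lit 259) (nat_lit 5) (nat_lit 345) (nat_lit 337) (nat_lit 218)) (XT.nd (nat_lit 78) (nat_lit 0) (nat_lit 76) (XT.lf (nat_lit 76) (nat_lit 6981119442) (nat_lit 0) (nat_lit 2470048772) (nat_lit 1216) (nat_lit 4727106225) (nat_lit 244) (nat_lit 5) (nat_lit 243) (nat_lit 5) (nat_lit 259) (nat_lit 5) (nat_lit 346) (nat_lit 337) (nat_lit 217)) (XT.lf (nat_lit 0) (nat_lit 10506113866) (nat_lit 1140) (nat_lit 171187354) (nat_lit 1216) (nat_lit 3714712291) (nat_lit 244)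 (nat_lit 5) (nat_lit 259) (nat_lit 5) (nat_lit 260) (nat_lit 5) (nat_lit 347) (nat_lit 337) (nat_lit 216)))) (XT.nd (nat_lit 156) (nat_lit 1140) (nat_lit 0) (XT.nd (nat_lit 78) (nat_lit 0) (nat_lit 76) (XT.lf (nat_lit 76) (nat_lit 7171814472) (nat_lit 0) (nat_lit 4501435112) (nat_lit 1216) (nat_lit 2936507334) (nat_lit 245) (nat_lit 5) (nat_lit 244) (nat_lit 5) (nat_lit 260) (nat_lit 5) (nat_lit 348) (nat_lit 337) (nat_lit 215)) (XT.lf (nat_lit 0) (nat_lit 12882487046) (nat_lit 1140) (nat_lit 122823370) (nat_lit 1216) (nat_lit 1828517744) (nat_lit 245) (nat_lit 5) (nat_lit 260) (nat_lit 5) (nat_lit 261) (nat_lit 5) (nat_lit 349) (nat_lit 337) (nat_lit 214))) (XT.nd (nat_lit 78) (nat_lit 1216) (nat_lit 0) (XT.lf (nat_lit 76) (nat_lit 7504331346) (nat_lit 0) (nat_lit 6728205522) (nat_lit 1216) (nat_lit 828956543) (nat_lit 246) (nat_lit 5) (nat_lit 245) (nat_lit 5) (nat_lit 261) (nat_lit 5) (nat_lit 350) (nat_lit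 337) (nat_lit 213)) (XT.lf (nat_lit 76) (nat_lit 55348909) (nat_lit 0) (nat_lit 255123383) (nat_lit 1292) (nat_lit 14985736805) (nat_lit 230) (nat_lit 5) (nat_lit 229) (nat_lit 5) (nat_lit 246) (nat_lit 5) (nat_lit 351) (nat_lit 337) (nat_lit 212))))))))
noncomputable def xc191 : XT := (XT.nd (nat_lit 2106) (nat_lit 4408) (nat_lit 0) (XT.nd (nat_lit 1014) (nat_lit 3724) (nat_lit 0) (XT.nd (nat_lit 468) (nat_lit 1748) (nat_lit 0) (XT.nd (nat_lit 234) (nat_lit 1748) (nat_lit 0) (XT.nd (nat_lit 78) (nat_lit 0) (nat_lit 0) (XT.lf (nat_lit 0) (nat_lit 1594383158) (nat_lit 1216) (nat_lit 7564860468) (nat_lit 1292) (nat_lit 6374674845) (nat_lit 230) (nat_lit 5) (nat_lit 246) (nat_lit 5) (nat_lit 247) (nat_lit 5) (nat_lit 352) (nat_lit 337) (nat_lit 211)) (XT.nd (nat_lit 78) (nat_lit 0) (nat_lit 76) (XT.lf (nat_lit 76) (nat_lit 336000688) (nat_lit 0) (nat_lit 2575163336) (nat_lit 1292) (nat_lit 12867771568) (nat_lit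 231) (nat_lit 5) (nat_lit 230) (nat_lit 5) (nat_lit 247) (nat_lit 5) (nat_lit 353) (nat_lit 337) (nat_lit 210)) (XT.lf (nat_lit 0) (nat_lit 4373886172) (nat_lit 1216) (nat_lit 7450958361) (nat_lit 76) (nat_lit 4203272395) (nat_lit 231) (nat_lit 5) (nat_lit 247) (nat_lit 5) (nat_lit 232) (nat_lit 5) (nat_lit 354) (nat_lit 337) (nat_lit 209)))) (XT.nd (nat_lit 78) (nat_lit 608) (nat_lit 0) (XT.lf (nat_lit 0) (nat_lit 760692093) (nat_lit 1216) (nat_lit 5141787759) (nat_lit 1292) (nat_lit 10381640797) (nat_lit 215) (nat_lit 5) (nat_lit 231) (nat_lit 5) (nat_lit 232) (nat_lit 5) (nat_lit 355) (nat_lit 337) (nat_lit 208)) (XT.nd (nat_lit 78) (nat_lit 608) (nat_lit 0) (XT.lf (nat_lit 0) (nat_lit 7559077581) (nat_lit 1292) (nat_lit 7201282089) (nat_lit 76) (nat_lit 1784986870) (nat_lit 215) (nat_lit 5) (nat_lit 232) (nat_lit 5) (nat_lit 216) (nat_lit 5) (nat_lit 356) (nat_lit 337) (nat_lit 207)) (XT.lf (nat_lit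 0) (nat_lit 1336301480) (nat_lit 608) (nat_lit 7982552449) (nat_lit 684) (nat_lit 7493957117) (nat_lit 207) (nat_lit 5) (nat_lit 215) (nat_lit 5) (nat_lit 216) (nat_lit 5) (nat_lit 357) (nat_lit 337) (nat_lit 206))))) (XT.nd (nat_lit 234) (nat_lit 1216) (nat_lit 0) (XT.nd (nat_lit 78) (nat_lit 532) (nat_lit 0) (XT.lf (nat_lit 0) (nat_lit 10268329327) (nat_lit 608) (nat_lit 925749427) (nat_lit 684) (nat_lit 5892347154) (nat_lit 207) (nat_lit 5) (nat_lit 215) (nat_lit 5) (nat_lit 216) (nat_lit 5) (nat_lit 358) (nat_lit 337) (nat_lit 205)) (XT.nd (nat_lit 78) (nat_lit 0) (nat_lit 0) (XT.lf (nat_lit 0) (nat_lit 2070156918) (nat_lit 532) (nat_lit 11126510064) (nat_lit 608) (nat_lit 4169454932) (nat_lit 200) (nat_lit 5) (nat_lit 207) (nat_lit 5) (nat_lit 208) (nat_lit 5) (nat_lit 359) (nat_lit 337) (nat_lit 204)) (XT.lf (nat_lit 0) (nat_lit 11346227983) (nat_lit 532) (nat_lit 3981462325) (nat_lit 608) (nat_lit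 2324473498) (nat_lit 200) (nat_lit 5) (nat_lit 207) (nat_lit 5) (nat_lit 208) (nat_lit 5) (nat_lit 360) (nat_lit 337) (nat_lit 203)))) (XT.nd (nat_lit 156) (nat_lit 532) (nat_lit 0) (XT.nd (nat_lit 78) (nat_lit 76) (nat_lit 0) (XT.lf (nat_lit 0) (nat_lit 2970015103) (nat_lit 608) (nat_lit 14604363379) (nat_lit 684) (nat_lit 370862008) (nat_lit 192) (nat_lit 5) (nat_lit 200) (nat_lit 5) (nat_lit 201) (nat_lit 5) (nat_lit 361) (nat_lit 337) (nat_lit 202)) (XT.lf (nat_lit 0) (nat_lit 1703858114) (nat_lit 684) (nat_lit 5656879236) (nat_lit 76) (nat_lit 10883068161) (nat_lit 191) (nat_lit 5) (nat_lit 200) (nat_lit 5) (nat_lit 192) (nat_lit 5) (nat_lit 362) (nat_lit 337) (nat_lit 201))) (XT.nd (nat_lit 78) (nat_lit 0) (nat_lit 0) (XT.lf (nat_lit 0) (nat_lit 3864326070) (nat_lit 608) (nat_lit 14545277751) (nat_lit 76) (nat_lit 140689787) (nat_lit 184) (nat_lit 5) (nat_lit 192) (nat_lit 5) (nat_lit 185) (nat_lit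 5) (nat_lit 363) (nat_lit 337) (nat_lit 200)) (XT.lf (nat_lit 0) (nat_lit 6211415478) (nat_lit 608) (nat_lit 4874243631) (nat_lit 76) (nat_lit 7776667958) (nat_lit 184) (nat_lit 5) (nat_lit 192) (nat_lit 5) (nat_lit 185) (nat_lit 5) (nat_lit 364) (nat_lit 337) (nat_lit 199)))))) (XT.nd (nat_lit 546) (nat_lit 1748) (nat_lit 0) (XT.nd (nat_lit 234) (nat_lit 988) (nat_lit 0) (XT.nd (nat_lit 78) (nat_lit 456) (nat_lit 0) (XT.lf (nat_lit 0) (nat_lit 5178986959) (nat_lit 532) (nat_lit 3491209210) (nat_lit 608) (nat_lit 10512291800) (nat_lit 177) (nat_lit 5) (nat_lit 184) (nat_lit 5) (nat_lit 185) (nat_lit 5) (nat_lit 365) (nat_lit 337) (nat_lit 198)) (XT.nd (nat_lit 78) (nat_lit 456) (nat_lit 0) (XT.lf (nat_lit 0) (nat_lit 11285732533) (nat_lit 608) (nat_lit 3928322245) (nat_lit 76) (nat_lit 4295713808) (nat_lit 177) (nat_lit 5) (nat_lit 185) (nat_lit 5) (nat_lit 178) (nat_lit 5) (nat_lit 366) (nat_lit 337) (nat_lit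 197)) (XT.lf (nat_lit 0) (nat_lit 6533140683) (nat_lit 456) (nat_lit 7535856116) (nat_lit 532) (nat_lit 5775197490) (nat_lit 171) (nat_lit 5) (nat_lit 177) (nat_lit 5) (nat_lit 178) (nat_lit 5) (nat_lit 367) (nat_lit 337) (nat_lit 196)))) (XT.nd (nat_lit 156) (nat_lit 532) (nat_lit 0) (XT.nd (nat_lit 78) (nat_lit 456) (nat_lit 0) (XT.lf (nat_lit 0) (nat_lit 16971440746) (nat_lit 532) (nat_lit 2811501287) (nat_lit 76) (nat_lit 404644667) (nat_lit 171) (nat_lit 5) (nat_lit 178) (nat_lit 5) (nat_lit 172) (nat_lit 5) (nat_lit 368) (nat_lit 337) (nat_lit 195)) (XT.lf (nat_lit 0) (nat_lit 8077267412) (nat_lit 456) (nat_lit 12028216703) (nat_lit 532) (nat_lit 431465247) (nat_lit 165) (nat_lit 5) (nat_lit 171) (nat_lit 5) (nat_lit 172) (nat_lit 5) (nat_lit 369) (nat_lit 337) (nat_lit 194))) (XT.nd (nat_lit 78) (nat_lit 456) (nat_lit 0) (XT.lf (nat_lit 0) (nat_lit 2410210213) (nat_lit 532) (nat_lit 1578158602) (nat_lit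 76) (nat_lit 16907095273) (nat_lit 164) (nat_lit 5) (nat_lit 171) (nat_lit 5) (nat_lit 165) (nat_lit 5) (nat_lit 370) (nat_lit 337) (nat_lit 193)) (XT.lf (nat_lit 0) (nat_lit 5457532171) (nat_lit 532) (nat_lit 11495886039) (nat_lit 76) (nat_lit 4307319739) (nat_lit 158) (nat_lit 5) (nat_lit 165) (nat_lit 5) (nat_lit 159) (nat_lit 5) (nat_lit 371) (nat_lit 337) (nat_lit 192))))) (XT.nd (nat_lit 234) (nat_lit 912) (nat_lit 0) (XT.nd (nat_lit 78) (nat_lit 836) (nat_lit 0) (XT.lf (nat_lit 0) (nat_lit 8644536085) (nat_lit 532) (nat_lit 204349779) (nat_lit 76) (nat_lit 12786640079) (nat_lit 158) (nat_lit 5) (nat_lit 165) (nat_lit 5) (nat_lit 159) (nat_lit 5) (nat_lit 372) (nat_lit 337) (nat_lit 191)) (XT.nd (nat_lit 78) (nat_lit 380) (nat_lit 0) (XT.lf (nat_lit 0) (nat_lit 11644701768) (nat_lit 456) (nat_lit 387276969) (nat_lit 532) (nat_lit 9986437657) (nat_lit 152) (nat_lit 5) (nat_lit 158) (nat_lit 5) (nat_lit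 159) (nat_lit 5) (nat_lit 373) (nat_lit 337) (nat_lit 190)) (XT.lf (nat_lit 0) (nat_lit 1378936715) (nat_lit 380) (nat_lit 14230508338) (nat_lit 456) (nat_lit 6800700065) (nat_lit 147) (nat_lit 5) (nat_lit 152) (nat_lit 5) (nat_lit 153) (nat_lit 5) (nat_lit 374) (nat_lit 337) (nat_lit 189)))) (XT.nd (nat_lit 156) (nat_lit 380) (nat_lit 0) (XT.nd (nat_lit 78) (nat_lit 532) (nat_lit 0) (XT.lf (nat_lit 0) (nat_lit 13684414442) (nat_lit 380) (nat_lit 5711499673) (nat_lit 456) (nat_lit 3414664690) (nat_lit 147) (nat_lit 5) (nat_lit 152) (nat_lit 5) (nat_lit 153) (nat_lit 5) (nat_lit 375) (nat_lit 337) (nat_lit 188)) (XT.lf (nat_lit 0) (nat_lit 125181961) (nat_lit 532) (nat_lit 20062850514) (nat_lit 76) (nat_lit 3033365644) (nat_lit 140) (nat_lit 5) (nat_lit 147) (nat_lit 5) (nat_lit 141) (nat_lit 5) (nat_lit 376) (nat_lit 337) (nat_lit 187))) (XT.nd (nat_lit 78) (nat_lit 380) (nat_lit 0) (XT.lf (nat_lit 0) (nat_lit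 3845569933) (nat_lit 532) (nat_lit 7742656531) (nat_lit 76) (nat_lit 12051015143) (nat_lit 140) (nat_lit 5) (nat_lit 147) (nat_lit 5) (nat_lit 141) (nat_lit 5) (nat_lit 377) (nat_lit 337) (nat_lit 186)) (XT.lf (nat_lit 0) (nat_lit 5037197265) (nat_lit 380) (nat_lit 2682345322) (nat_lit 456) (nat_lit 16348821701) (nat_lit 135) (nat_lit 5) (nat_lit 140) (nat_lit 5) (nat_lit 141) (nat_lit 5) (nat_lit 378) (nat_lit 337) (nat_lit 185))))))) (XT.nd (nat_lit 1014) (nat_lit 1976) (nat_lit 0) (XT.nd (nat_lit 468) (nat_lit 1292) (nat_lit 0) (XT.nd (nat_lit 234) (nat_lit 760) (nat_lit 0) (XT.nd (nat_lit 78) (nat_lit 380) (nat_lit 0) (XT.lf (nat_lit 0) (nat_lit 11844731162) (nat_lit 456) (nat_lit 6220353066) (nat_lit 76) (nat_lit 6441229507) (nat_lit 135) (nat_lit 5) (nat_lit 141) (nat_lit 5) (nat_lit 136) (nat_lit 5) (nat_lit 379) (nat_lit 337) (nat_lit 184)) (XT.nd (nat_lit 78) (nat_lit 0) (nat_lit 0) (XT.lf (nat_lit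 0) (nat_lit 7078257780) (nat_lit 380) (nat_lit 9103845432) (nat_lit 456) (nat_lit 8772648521) (nat_lit 130) (nat_lit 5) (nat_lit 135) (nat_lit 5) (nat_lit 136) (nat_lit 5) (nat_lit 380) (nat_lit 337) (nat_lit 183)) (XT.lf (nat_lit 0) (nat_lit 20708158522) (nat_lit 456) (nat_lit 4521434485) (nat_lit 76) (nat_lit 185295819) (nat_lit 130) (nat_lit 5) (nat_lit 136) (nat_lit 5) (nat_lit 131) (nat_lit 5) (nat_lit 381) (nat_lit 337) (nat_lit 182)))) (XT.nd (nat_lit 78) (nat_lit 456) (nat_lit 0) (XT.lf (nat_lit 0) (nat_lit 9318027390) (nat_lit 304) (nat_lit 16225766451) (nat_lit 380) (nat_lit 339824976) (nat_lit 126) (nat_lit 5) (nat_lit 130) (nat_lit 5) (nat_lit 131) (nat_lit 5) (nat_lit 382) (nat_lit 337) (nat_lit 181)) (XT.nd (nat_lit 78) (nat_lit 380) (nat_lit 0) (XT.lf (nat_lit 0) (nat_lit 4117184993) (nat_lit 380) (nat_lit 2748087201) (nat_lit 76) (nat_lit 19498734887) (nat_lit 125) (nat_lit 5) (nat_lit 130)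 (nat_lit 5) (nat_lit 126) (nat_lit 5) (nat_lit 383) (nat_lit 337) (nat_lit 180)) (XT.lf (nat_lit 0) (nat_lit 8835664188) (nat_lit 456) (nat_lit 15182157870) (nat_lit 76) (nat_lit 2836848828) (nat_lit 120) (nat_lit 5) (nat_lit 126) (nat_lit 5) (nat_lit 121) (nat_lit 5) (nat_lit 384) (nat_lit 337) (nat_lit 179))))) (XT.nd (nat_lit 234) (nat_lit 684) (nat_lit 0) (XT.nd (nat_lit 78) (nat_lit 608) (nat_lit 0) (XT.lf (nat_lit 0) (nat_lit 13786066389) (nat_lit 456) (nat_lit 853230099) (nat_lit 76) (nat_lit 12718049489) (nat_lit 120) (nat_lit 5) (nat_lit 126) (nat_lit 5) (nat_lit 121) (nat_lit 5) (nat_lit 385) (nat_lit 337) (nat_lit 178)) (XT.nd (nat_lit 78) (nat_lit 304) (nat_lit 0) (XT.lf (nat_lit 0) (nat_lit 14174565646) (nat_lit 304) (nat_lit 4841204160) (nat_lit 380) (nat_lit 8855410200) (nat_lit 116) (nat_lit 5) (nat_lit 120) (nat_lit 5) (nat_lit 121) (nat_lit 5) (nat_lit 386) (nat_lit 337) (nat_lit 177))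 (XT.lf (nat_lit 0) (nat_lit 1236417262) (nat_lit 304) (nat_lit 23231608548) (nat_lit 380) (nat_lit 3930435692) (nat_lit 112) (nat_lit 5) (nat_lit 116) (nat_lit 5) (nat_lit 117) (nat_lit 5) (nat_lit 387) (nat_lit 337) (nat_lit 176)))) (XT.nd (nat_lit 156) (nat_lit 304) (nat_lit 0) (XT.nd (nat_lit 78) (nat_lit 304) (nat_lit 0) (XT.lf (nat_lit 0) (nat_lit 1302239276) (nat_lit 380) (nat_lit 12107186786) (nat_lit 76) (nat_lit 15526340887) (nat_lit 111) (nat_lit 5) (nat_lit 116) (nat_lit 5) (nat_lit 112) (nat_lit 5) (nat_lit 388) (nat_lit 337) (nat_lit 175)) (XT.lf (nat_lit 0) (nat_lit 3419656111) (nat_lit 304) (nat_lit 3220899063) (nat_lit 380) (nat_lit 22846641270) (nat_lit 107) (nat_lit 5) (nat_lit 111) (nat_lit 5) (nat_lit 112) (nat_lit 5) (nat_lit 389) (nat_lit 337) (nat_lit 174))) (XT.nd (nat_lit 78) (nat_lit 304) (nat_lit 0) (XT.lf (nat_lit 0) (nat_lit 12327250736) (nat_lit 380) (nat_lit 10469672843) (nat_lit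 76) (nat_lit 7252600374) (nat_lit 107) (nat_lit 5) (nat_lit 112) (nat_lit 5) (nat_lit 108) (nat_lit 5) (nat_lit 390) (nat_lit 337) (nat_lit 173)) (XT.lf (nat_lit 0) (nat_lit 5667517957) (nat_lit 304) (nat_lit 12598394677) (nat_lit 380) (nat_lit 12360369666) (nat_lit 103) (nat_lit 5) (nat_lit 107) (nat_lit 5) (nat_lit 108) (nat_lit 5) (nat_lit 391) (nat_lit 337) (nat_lit 172)))))) (XT.nd (nat_lit 546) (nat_lit 1140) (nat_lit 0) (XT.nd (nat_lit 234) (nat_lit 532) (nat_lit 0) (XT.nd (nat_lit 78) (nat_lit 304) (nat_lit 0) (XT.lf (nat_lit 0) (nat_lit 22496197927) (nat_lit 304) (nat_lit 1987331477) (nat_lit 380) (nat_lit 6733792062) (nat_lit 103) (nat_lit 5) (nat_lit 107) (nat_lit 5) (nat_lit 108) (nat_lit 5) (nat_lit 392) (nat_lit 337) (nat_lit 171)) (XT.nd (nat_lit 78) (nat_lit 76) (nat_lit 0) (XT.lf (nat_lit 0) (nat_lit 8067967651) (nat_lit 228) (nat_lit 22978411619) (nat_lit 304) (nat_lit 774953261) (nat_lit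 100) (nat_lit 5) (nat_lit 103) (nat_lit 5) (nat_lit 104) (nat_lit 5) (nat_lit 393) (nat_lit 337) (nat_lit 170)) (XT.lf (nat_lit 0) (nat_lit 5361837792) (nat_lit 304) (nat_lit 6980597589) (nat_lit 76) (nat_lit 20096368879) (nat_lit 99) (nat_lit 5) (nat_lit 103) (nat_lit 5) (nat_lit 100) (nat_lit 5) (nat_lit 394) (nat_lit 337) (nat_lit 169)))) (XT.nd (nat_lit 156) (nat_lit 228) (nat_lit 0) (XT.nd (nat_lit 78) (nat_lit 0) (nat_lit 0) (XT.lf (nat_lit 0) (nat_lit 10485311214) (nat_lit 304) (nat_lit 1277993087) (nat_lit 380) (nat_lit 21308382935) (nat_lit 95) (nat_lit 5) (nat_lit 99) (nat_lit 5) (nat_lit 100) (nat_lit 5) (nat_lit 395) (nat_lit 337) (nat_lit 168)) (XT.lf (nat_lit 0) (nat_lit 18520669903) (nat_lit 380) (nat_lit 5208134305) (nat_lit 76) (nat_lit 9989838496) (nat_lit 95) (nat_lit 5) (nat_lit 100) (nat_lit 5) (nat_lit 96) (nat_lit 5) (nat_lit 396) (nat_lit 337) (nat_lit 167))) (XT.nd (nat_lit 78)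 (nat_lit 0) (nat_lit 0) (XT.lf (nat_lit 0) (nat_lit 12924180129) (nat_lit 228) (nat_lit 12689001508) (nat_lit 304) (nat_lit 8767854050) (nat_lit 92) (nat_lit 5) (nat_lit 95) (nat_lit 5) (nat_lit 96) (nat_lit 5) (nat_lit 397) (nat_lit 337) (nat_lit 166)) (XT.lf (nat_lit 0) (nat_lit 31700474049) (nat_lit 228) (nat_lit 1266188361) (nat_lit 304) (nat_lit 2095193799) (nat_lit 92) (nat_lit 5) (nat_lit 95) (nat_lit 5) (nat_lit 96) (nat_lit 5) (nat_lit 398) (nat_lit 337) (nat_lit 165))))) (XT.nd (nat_lit 234) (nat_lit 532) (nat_lit 0) (XT.nd (nat_lit 78) (nat_lit 228) (nat_lit 0) (XT.lf (nat_lit 0) (nat_lit 4932197876) (nat_lit 380) (nat_lit 20332829954) (nat_lit 76) (nat_lit 10489263796) (nat_lit 87) (nat_lit 5) (nat_lit 92) (nat_lit 5) (nat_lit 88) (nat_lit 5) (nat_lit 399) (nat_lit 337) (nat_lit 164)) (XT.nd (nat_lit 78) (nat_lit 228) (nat_lit 0) (XT.lf (nat_lit 0) (nat_lit 12170842095) (nat_lit 380) (nat_lit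 1670086797) (nat_lit 76) (nat_lit 22624674044) (nat_lit 87) (nat_lit 5) (nat_lit 92) (nat_lit 5) (nat_lit 88) (nat_lit 5) (nat_lit 400) (nat_lit 337) (nat_lit 163)) (XT.lf (nat_lit 0) (nat_lit 17895250347) (nat_lit 228) (nat_lit 1899266019) (nat_lit 304) (nat_lit 17398702482) (nat_lit 84) (nat_lit 5) (nat_lit 87) (nat_lit 5) (nat_lit 88) (nat_lit 5) (nat_lit 401) (nat_lit 337) (nat_lit 162)))) (XT.nd (nat_lit 156) (nat_lit 304) (nat_lit 0) (XT.nd (nat_lit 78) (nat_lit 0) (nat_lit 0) (XT.lf (nat_lit 0) (nat_lit 33609857) (nat_lit 228) (nat_lit 27726510321) (nat_lit 304) (nat_lit 10179147826) (nat_lit 81) (nat_lit 5) (nat_lit 84) (nat_lit 5) (nat_lit 85) (nat_lit 5) (nat_lit 402) (nat_lit 337) (nat_lit 161)) (XT.lf (nat_lit 0) (nat_lit 20315083047) (nat_lit 228) (nat_lit 15859045892) (nat_lit 304) (nat_lit 2527287898) (nat_lit 81) (nat_lit 5) (nat_lit 84) (nat_lit 5) (nat_lit 85) (nat_lit 5) (nat_lit 403)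 (nat_lit 337) (nat_lit 160))) (XT.nd (nat_lit 78) (nat_lit 0) (nat_lit 0) (XT.lf (nat_lit 0) (nat_lit 1693800051) (nat_lit 228) (nat_lit 3568154121) (nat_lit 304) (nat_lit 34222564041) (nat_lit 77) (nat_lit 5) (nat_lit 80) (nat_lit 5) (nat_lit 81) (nat_lit 5) (nat_lit 404) (nat_lit 337) (nat_lit 159)) (XT.lf (nat_lit 0) (nat_lit 13505029813) (nat_lit 304) (nat_lit 17652945556) (nat_lit 76) (nat_lit 9124259207) (nat_lit 77) (nat_lit 5) (nat_lit 81) (nat_lit 5) (nat_lit 78) (nat_lit 5) (nat_lit 405) (nat_lit 337) (nat_lit 158))))))))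
noncomputable def xc192 : XT := (XT.nd (nat_lit 2028) (nat_lit 152) (nat_lit 0) (XT.nd (nat_lit 1014) (nat_lit 1140) (nat_lit 0) (XT.nd (nat_lit 468) (nat_lit 760) (nat_lit 0) (XT.nd (nat_lit 234) (nat_lit 304) (nat_lit 0) (XT.nd (nat_lit 78) (nat_lit 152) (nat_lit 0) (XT.lf (nat_lit 0) (nat_lit 3108078885) (nat_lit 228) (nat_lit 18948694122) (nat_lit 304) (nat_lit 19045269325) (nat_lit 74) (nat_lit 5) (nat_lit 77) (nat_lit 5) (nat_lit 78) (nat_lit 5) (nat_lit 406) (nat_lit 337) (nat_lit 157)) (XT.nd (nat_lit 78) (nat_lit 152) (nat_lit 0) (XT.lf (nat_lit 0) (nat_lit 24847660052) (nat_lit 228) (nat_lit 6191891355) (nat_lit 304) (nat_lit 10901659553) (nat_lit 74) (nat_lit 5) (nat_lit 77) (nat_lit 5) (nat_lit 78) (nat_lit 5) (nat_lit 407) (nat_lit 337) (nat_lit 156)) (XT.lf (nat_lit 0) (nat_lit 4447830234) (nat_lit 152) (nat_lit 35949833641) (nat_lit 228) (nat_lit 2404716345) (nat_lit 72) (nat_lit 5) (nat_lit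 74) (nat_lit 5) (nat_lit 75) (nat_lit 5) (nat_lit 408) (nat_lit 337) (nat_lit 155)))) (XT.nd (nat_lit 78) (nat_lit 228) (nat_lit 0) (XT.lf (nat_lit 0) (nat_lit 6455229407) (nat_lit 228) (nat_lit 16828446890) (nat_lit 76) (nat_lit 20396920424) (nat_lit 71) (nat_lit 5) (nat_lit 74) (nat_lit 5) (nat_lit 72) (nat_lit 5) (nat_lit 409) (nat_lit 337) (nat_lit 154)) (XT.nd (nat_lit 78) (nat_lit 0) (nat_lit 0) (XT.lf (nat_lit 0) (nat_lit 5419493684) (nat_lit 228) (nat_lit 10161673494) (nat_lit 304) (nat_lit 29001823487) (nat_lit 68) (nat_lit 5) (nat_lit 71) (nat_lit 5) (nat_lit 72) (nat_lit 5) (nat_lit 410) (nat_lit 337) (nat_lit 153)) (XT.lf (nat_lit 0) (nat_lit 25181196772) (nat_lit 304) (nat_lit 16867359410) (nat_lit 76) (nat_lit 3457891806) (nat_lit 68) (nat_lit 5) (nat_lit 72) (nat_lit 5) (nat_lit 69) (nat_lit 5) (nat_lit 411) (nat_lit 337) (nat_lit 152))))) (XT.nd (nat_lit 234) (nat_lit 304) (nat_lit 0) (XT.nd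 (nat_lit 78) (nat_lit 304) (nat_lit 0) (XT.lf (nat_lit 0) (nat_lit 6110545718) (nat_lit 152) (nat_lit 29114589938) (nat_lit 228) (nat_lit 11227797067) (nat_lit 66) (nat_lit 5) (nat_lit 68) (nat_lit 5) (nat_lit 69) (nat_lit 5) (nat_lit 412) (nat_lit 337) (nat_lit 151)) (XT.nd (nat_lit 78) (nat_lit 304) (nat_lit 0) (XT.lf (nat_lit 0) (nat_lit 30117863958) (nat_lit 152) (nat_lit 15619461008) (nat_lit 228) (nat_lit 1685479983) (nat_lit 66) (nat_lit 5) (nat_lit 68) (nat_lit 5) (nat_lit 69) (nat_lit 5) (nat_lit 413) (nat_lit 337) (nat_lit 150)) (XT.lf (nat_lit 0) (nat_lit 6465935752) (nat_lit 228) (nat_lit 1577094427) (nat_lit 304) (nat_lit 40374630983) (nat_lit 62) (nat_lit 5) (nat_lit 65) (nat_lit 5) (nat_lit 66) (nat_lit 5) (nat_lit 414) (nat_lit 337) (nat_lit 149)))) (XT.nd (nat_lit 156) (nat_lit 152) (nat_lit 0) (XT.nd (nat_lit 78) (nat_lit 152) (nat_lit 0) (XT.lf (nat_lit 0) (nat_lit 18326561166) (nat_lit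 304) (nat_lit 18280351790) (nat_lit 76) (nat_lit 12826039046) (nat_lit 62) (nat_lit 5) (nat_lit 66) (nat_lit 5) (nat_lit 63) (nat_lit 5) (nat_lit 415) (nat_lit 337) (nat_lit 148)) (XT.lf (nat_lit 0) (nat_lit 6201104796) (nat_lit 152) (nat_lit 22789505760) (nat_lit 228) (nat_lit 21485931452) (nat_lit 60) (nat_lit 5) (nat_lit 62) (nat_lit 5) (nat_lit 63) (nat_lit 5) (nat_lit 416) (nat_lit 337) (nat_lit 147))) (XT.nd (nat_lit 78) (nat_lit 152) (nat_lit 0) (XT.lf (nat_lit 0) (nat_lit 31786338460) (nat_lit 152) (nat_lit 8369669200) (nat_lit 228) (nat_lit 11389990056) (nat_lit 60) (nat_lit 5) (nat_lit 62) (nat_lit 5) (nat_lit 63) (nat_lit 5) (nat_lit 417) (nat_lit 337) (nat_lit 146)) (XT.lf (nat_lit 0) (nat_lit 5531912238) (nat_lit 152) (nat_lit 46236848904) (nat_lit 228) (nat_lit 875404889) (nat_lit 58) (nat_lit 5) (nat_lit 60) (nat_lit 5) (nat_lit 61) (nat_lit 5) (nat_lit 418) (nat_lit 337) (nat_lit 145))))))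 (XT.nd (nat_lit 468) (nat_lit 684) (nat_lit 0) (XT.nd (nat_lit 234) (nat_lit 228) (nat_lit 0) (XT.nd (nat_lit 78) (nat_lit 152) (nat_lit 0) (XT.lf (nat_lit 0) (nat_lit 10041655520) (nat_lit 228) (nat_lit 21967863518) (nat_lit 76) (nat_lit 21754451739) (nat_lit 57) (nat_lit 5) (nat_lit 60) (nat_lit 5) (nat_lit 58) (nat_lit 5) (nat_lit 419) (nat_lit 337) (nat_lit 144)) (XT.nd (nat_lit 78) (nat_lit 0) (nat_lit 0) (XT.lf (nat_lit 0) (nat_lit 3994981362) (nat_lit 152) (nat_lit 17309054521) (nat_lit 228) (nat_lit 33612012377) (nat_lit 55) (nat_lit 5) (nat_lit 57) (nat_lit 5) (nat_lit 58) (nat_lit 5) (nat_lit 420) (nat_lit 337) (nat_lit 143)) (XT.lf (nat_lit 0) (nat_lit 31181915701) (nat_lit 152) (nat_lit 1941243195) (nat_lit 228) (nat_lit 22972963715) (nat_lit 55) (nat_lit 5) (nat_lit 57) (nat_lit 5) (nat_lit 58) (nat_lit 5) (nat_lit 421) (nat_lit 337) (nat_lit 142)))) (XT.nd (nat_lit 78) (nat_lit 76) (nat_lit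 0) (XT.lf (nat_lit 0) (nat_lit 1768845942) (nat_lit 152) (nat_lit 43675614047) (nat_lit 228) (nat_lit 11862711734) (nat_lit 53) (nat_lit 5) (nat_lit 55) (nat_lit 5) (nat_lit 56) (nat_lit 5) (nat_lit 422) (nat_lit 337) (nat_lit 141)) (XT.nd (nat_lit 78) (nat_lit 76) (nat_lit 0) (XT.lf (nat_lit 0) (nat_lit 29738520437) (nat_lit 152) (nat_lit 28664637555) (nat_lit 228) (nat_lit 143362224) (nat_lit 53) (nat_lit 5) (nat_lit 55) (nat_lit 5) (nat_lit 56) (nat_lit 5) (nat_lit 423) (nat_lit 337) (nat_lit 140)) (XT.lf (nat_lit 0) (nat_lit 11692014572) (nat_lit 228) (nat_lit 1395314320) (nat_lit 76) (nat_lit 46732365326) (nat_lit 52) (nat_lit 5) (nat_lit 55) (nat_lit 5) (nat_lit 53) (nat_lit 5) (nat_lit 424) (nat_lit 337) (nat_lit 139))))) (XT.nd (nat_lit 234) (nat_lit 380) (nat_lit 0) (XT.nd (nat_lit 78) (nat_lit 152) (nat_lit 0) (XT.lf (nat_lit 0) (nat_lit 24170950400) (nat_lit 228) (nat_lit 33786617005) (nat_lit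 76) (nat_lit 3164712665) (nat_lit 50) (nat_lit 5) (nat_lit 53) (nat_lit 5) (nat_lit 51) (nat_lit 5) (nat_lit 425) (nat_lit 337) (nat_lit 138)) (XT.nd (nat_lit 78) (nat_lit 152) (nat_lit 0) (XT.lf (nat_lit 0) (nat_lit 37165354157) (nat_lit 228) (nat_lit 5640833340) (nat_lit 76) (nat_lit 19653523577) (nat_lit 50) (nat_lit 5) (nat_lit 53) (nat_lit 5) (nat_lit 51) (nat_lit 5) (nat_lit 426) (nat_lit 337) (nat_lit 137)) (XT.lf (nat_lit 0) (nat_lit 23809300035) (nat_lit 152) (nat_lit 26966531292) (nat_lit 228) (nat_lit 13054646996) (nat_lit 48) (nat_lit 5) (nat_lit 50) (nat_lit 5) (nat_lit 51) (nat_lit 5) (nat_lit 427) (nat_lit 337) (nat_lit 136)))) (XT.nd (nat_lit 156) (nat_lit 152) (nat_lit 0) (XT.nd (nat_lit 78) (nat_lit 228) (nat_lit 0) (XT.lf (nat_lit 0) (nat_lit 54253985348) (nat_lit 152) (nat_lit 10595003056) (nat_lit 228) (nat_lit 391749756) (nat_lit 48) (nat_lit 5) (nat_lit 50) (nat_lit 5) (nat_lit 51)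 (nat_lit 5) (nat_lit 428) (nat_lit 337) (nat_lit 135)) (XT.lf (nat_lit 0) (nat_lit 12649120765) (nat_lit 228) (nat_lit 47580861121) (nat_lit 76) (nat_lit 6452327520) (nat_lit 45) (nat_lit 5) (nat_lit 48) (nat_lit 5) (nat_lit 46) (nat_lit 5) (nat_lit 429) (nat_lit 337) (nat_lit 134))) (XT.nd (nat_lit 78) (nat_lit 152) (nat_lit 0) (XT.lf (nat_lit 0) (nat_lit 26287754761) (nat_lit 228) (nat_lit 17960678967) (nat_lit 76) (nat_lit 23912145859) (nat_lit 45) (nat_lit 5) (nat_lit 48) (nat_lit 5) (nat_lit 46) (nat_lit 5) (nat_lit 430) (nat_lit 337) (nat_lit 133)) (XT.lf (nat_lit 0) (nat_lit 12793370476) (nat_lit 152) (nat_lit 27662695781) (nat_lit 228) (nat_lit 29223516541) (nat_lit 43) (nat_lit 5) (nat_lit 45) (nat_lit 5) (nat_lit 46) (nat_lit 5) (nat_lit 431) (nat_lit 337) (nat_lit 132))))))) (XT.nd (nat_lit 40248) (nat_lit 0) (nat_lit 12084) (XT.nd (nat_lit 39702) (nat_lit 0) (nat_lit 15124) (XT.nd (nat_lit 234)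 (nat_lit 0) (nat_lit 0) (XT.nd (nat_lit 78) (nat_lit 152) (nat_lit 0) (XT.lf (nat_lit 0) (nat_lit 44833877769) (nat_lit 152) (nat_lit 10394487654) (nat_lit 228) (nat_lit 16010422995) (nat_lit 43) (nat_lit 5) (nat_lit 45) (nat_lit 5) (nat_lit 46) (nat_lit 5) (nat_lit 432) (nat_lit 337) (nat_lit 131)) (XT.nd (nat_lit 78) (nat_lit 76) (nat_lit 0) (XT.lf (nat_lit 0) (nat_lit 5013337240) (nat_lit 76) (nat_lit 65547365384) (nat_lit 152) (nat_lit 2280561964) (nat_lit 42) (nat_lit 5) (nat_lit 43) (nat_lit 5) (nat_lit 44) (nat_lit 4) (nat_lit 433) (nat_lit 337) (nat_lit 130)) (XT.lf (nat_lit 0) (nat_lit 11999562322) (nat_lit 152) (nat_lit 36792254021) (nat_lit 76) (nat_lit 25685483949) (nat_lit 41) (nat_lit 5) (nat_lit 43) (nat_lit 5) (nat_lit 42) (nat_lit 5) (nat_lit 434) (nat_lit 337) (nat_lit 129)))) (XT.nd (nat_lit 39312) (nat_lit 0) (nat_lit 15124) (XT.lf (nat_lit 0) (nat_lit 26659950909) (nat_lit 152) (nat_lit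 4852238571) (nat_lit 76) (nat_lit 44649619678) (nat_lit 41) (nat_lit 5) (nat_lit 43) (nat_lit 5) (nat_lit 42) (nat_lit 5) (nat_lit 435) (nat_lit 337) (nat_lit 128)) (XT.nd (nat_lit 78) (nat_lit 0) (nat_lit 0) (XT.lf (nat_lit 0) (nat_lit 955533391) (nat_lit 0) (nat_lit 955533391) (nat_lit 1140) (nat_lit 4495384902) (nat_lit 240) (nat_lit 5) (nat_lit 240) (nat_lit 3) (nat_lit 255) (nat_lit 3) (nat_lit 338) (nat_lit 338) (nat_lit 224)) (XT.lf (nat_lit 0) (nat_lit 4320221027) (nat_lit 1140) (nat_lit 4866107166) (nat_lit 1216) (nat_lit 3805281008) (nat_lit 240) (nat_lit 5) (nat_lit 255) (nat_lit 3) (nat_lit 256) (nat_lit 5) (nat_lit 339) (nat_lit 338) (nat_lit 223))))) (XT.nd (nat_lit 234) (nat_lit 0) (nat_lit 152) (XT.nd (nat_lit 78) (nat_lit 0) (nat_lit 76) (XT.lf (nat_lit 76) (nat_lit 1349678651) (nat_lit 0) (nat_lit 3499798052) (nat_lit 1216) (nat_lit 8325723080) (nat_lit 241) (nat_lit 5) (nat_lit 240) (nat_lit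 5) (nat_lit 256) (nat_lit 5) (nat_lit 340) (nat_lit 338) (nat_lit 222)) (XT.nd (nat_lit 78) (nat_lit 0) (nat_lit 0) (XT.lf (nat_lit 0) (nat_lit 5451667899) (nat_lit 1140) (nat_lit 5543166147) (nat_lit 1216) (nat_lit 2367762346) (nat_lit 241) (nat_lit 5) (nat_lit 256) (nat_lit 5) (nat_lit 257) (nat_lit 5) (nat_lit 341) (nat_lit 338) (nat_lit 221)) (XT.lf (nat_lit 76) (nat_lit 901983650) (nat_lit 0) (nat_lit 5198479678) (nat_lit 1216) (nat_lit 7454305166) (nat_lit 242) (nat_lit 5) (nat_lit 241) (nat_lit 5) (nat_lit 257) (nat_lit 5) (nat_lit 342) (nat_lit 338) (nat_lit 220)))) (XT.nd (nat_lit 156) (nat_lit 0) (nat_lit 0) (XT.nd (nat_lit 78) (nat_lit 0) (nat_lit 0) (XT.lf (nat_lit 0) (nat_lit 6818292377) (nat_lit 1140) (nat_lit 6113921913) (nat_lit 1216) (nat_lit 819013843) (nat_lit 242) (nat_lit 5) (nat_lit 257) (nat_lit 5) (nat_lit 258) (nat_lit 5) (nat_lit 343) (nat_lit 338) (nat_lit 219)) (XT.lf (nat_lit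 76) (nat_lit 572022395) (nat_lit 0) (nat_lit 7028643167) (nat_lit 1216) (nat_lit 6351634912) (nat_lit 243) (nat_lit 5) (nat_lit 242) (nat_lit 5) (nat_lit 258) (nat_lit 5) (nat_lit 344) (nat_lit 338) (nat_lit 218))) (XT.nd (nat_lit 78) (nat_lit 0) (nat_lit 76) (XT.lf (nat_lit 76) (nat_lit 7575183851) (nat_lit 0) (nat_lit 879428304) (nat_lit 1216) (nat_lit 5703358688) (nat_lit 243) (nat_lit 5) (nat_lit 242) (nat_lit 5) (nat_lit 258) (nat_lit 5) (nat_lit 345) (nat_lit 338) (nat_lit 217)) (XT.lf (nat_lit 76) (nat_lit 364420818) (nat_lit 0) (nat_lit 9012495998) (nat_lit 1216) (nat_lit 4991620979) (nat_lit 244) (nat_lit 5) (nat_lit 243) (nat_lit 5) (nat_lit 259) (nat_lit 5) (nat_lit 346) (nat_lit 338) (nat_lit 216)))))) (XT.nd (nat_lit 546) (nat_lit 2204) (nat_lit 0) (XT.nd (nat_lit 234) (nat_lit 1064) (nat_lit 0) (XT.nd (nat_lit 78) (nat_lit 0) (nat_lit 76) (XT.lf (nat_lit 76) (nat_lit 7637302731) (nat_lit 0)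 (nat_lit 2751789547) (nat_lit 1216) (nat_lit 4194471838) (nat_lit 244) (nat_lit 5) (nat_lit 243) (nat_lit 5) (nat_lit 259) (nat_lit 5) (nat_lit 347) (nat_lit 338) (nat_lit 215)) (XT.nd (nat_lit 78) (nat_lit 0) (nat_lit 0) (XT.lf (nat_lit 76) (nat_lit 284375949) (nat_lit 0) (nat_lit 11173046250) (nat_lit 1216) (nat_lit 3346853519) (nat_lit 245) (nat_lit 5) (nat_lit 244) (nat_lit 5) (nat_lit 260) (nat_lit 5) (nat_lit 348) (nat_lit 338) (nat_lit 214)) (XT.lf (nat_lit 76) (nat_lit 7837656379) (nat_lit 0) (nat_lit 4805066006) (nat_lit 1216) (nat_lit 2386346599) (nat_lit 245) (nat_lit 5) (nat_lit 244) (nat_lit 5) (nat_lit 260) (nat_lit 5) (nat_lit 349) (nat_lit 338) (nat_lit 213)))) (XT.nd (nat_lit 156) (nat_lit 1216) (nat_lit 0) (XT.nd (nat_lit 78) (nat_lit 0) (nat_lit 0) (XT.lf (nat_lit 76) (nat_lit 337642375) (nat_lit 0) (nat_lit 13534229709) (nat_lit 1216) (nat_lit 1388492949) (nat_lit 246) (nat_lit 5) (nat_lit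 245) (nat_lit 5) (nat_lit 261) (nat_lit 5) (nat_lit 350) (nat_lit 338) (nat_lit 212)) (XT.lf (nat_lit 76) (nat_lit 8182537214) (nat_lit 0) (nat_lit 7063529840) (nat_lit 1216) (nat_lit 249295256) (nat_lit 246) (nat_lit 5) (nat_lit 245) (nat_lit 5) (nat_lit 261) (nat_lit 5) (nat_lit 351) (nat_lit 338) (nat_lit 211))) (XT.nd (nat_lit 78) (nat_lit 0) (nat_lit 76) (XT.lf (nat_lit 76) (nat_lit 517688912) (nat_lit 0) (nat_lit 381995227) (nat_lit 1292) (nat_lit 14837656790) (nat_lit 230) (nat_lit 5) (nat_lit 229) (nat_lit 5) (nat_lit 246) (nat_lit 5) (nat_lit 352) (nat_lit 338) (nat_lit 210)) (XT.lf (nat_lit 0) (nat_lit 2204109489) (nat_lit 1216) (nat_lit 7326194658) (nat_lit 1292) (nat_lit 6452427937) (nat_lit 230) (nat_lit 5) (nat_lit 246) (nat_lit 5) (nat_lit 247) (nat_lit 5) (nat_lit 353) (nat_lit 338) (nat_lit 209))))) (XT.nd (nat_lit 234) (nat_lit 1140) (nat_lit 0) (XT.nd (nat_lit 78) (nat_lit 1140) (nat_lit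 0) (XT.lf (nat_lit 76) (nat_lit 807127513) (nat_lit 0) (nat_lit 2741332262) (nat_lit 1292) (nat_lit 12687008072) (nat_lit 231) (nat_lit 5) (nat_lit 230) (nat_lit 5) (nat_lit 247) (nat_lit 5) (nat_lit 354) (nat_lit 338) (nat_lit 208)) (XT.nd (nat_lit 78) (nat_lit 1216) (nat_lit 0) (XT.lf (nat_lit 0) (nat_lit 5038215510) (nat_lit 1216) (nat_lit 7209693604) (nat_lit 76) (nat_lit 4244730767) (nat_lit 231) (nat_lit 5) (nat_lit 247) (nat_lit 5) (nat_lit 232) (nat_lit 5) (nat_lit 355) (nat_lit 338) (nat_lit 207)) (XT.lf (nat_lit 0) (nat_lit 1243749564) (nat_lit 1216) (nat_lit 5357813956) (nat_lit 1292) (nat_lit 10155102827) (nat_lit 215) (nat_lit 5) (nat_lit 231) (nat_lit 5) (nat_lit 232) (nat_lit 5) (nat_lit 356) (nat_lit 338) (nat_lit 206)))) (XT.nd (nat_lit 156) (nat_lit 532) (nat_lit 0) (XT.nd (nat_lit 78) (nat_lit 608) (nat_lit 0) (XT.lf (nat_lit 0) (nat_lit 8292078527) (nat_lit 1292) (nat_lit 6954399751)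 (nat_lit 76) (nat_lit 1779733408) (nat_lit 215) (nat_lit 5) (nat_lit 232) (nat_lit 5) (nat_lit 216) (nat_lit 5) (nat_lit 357) (nat_lit 338) (nat_lit 205)) (XT.lf (nat_lit 0) (nat_lit 1834772886) (nat_lit 608) (nat_lit 8259537009) (nat_lit 684) (nat_lit 7207709364) (nat_lit 207) (nat_lit 5) (nat_lit 215) (nat_lit 5) (nat_lit 216) (nat_lit 5) (nat_lit 358) (nat_lit 338) (nat_lit 204))) (XT.nd (nat_lit 78) (nat_lit 532) (nat_lit 0) (XT.lf (nat_lit 0) (nat_lit 11021410626) (nat_lit 608) (nat_lit 989937430) (nat_lit 684) (nat_lit 5572936533) (nat_lit 207) (nat_lit 5) (nat_lit 215) (nat_lit 5) (nat_lit 216) (nat_lit 5) (nat_lit 359) (nat_lit 338) (nat_lit 203)) (XT.lf (nat_lit 0) (nat_lit 2587866252) (nat_lit 532) (nat_lit 11476164651) (nat_lit 608) (nat_lit 3808648531) (nat_lit 200) (nat_lit 5) (nat_lit 207) (nat_lit 5) (nat_lit 208) (nat_lit 5) (nat_lit 360) (nat_lit 338) (nat_lit 202))))))))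
noncomputable def xc193 : XT := (XT.nd (nat_lit 2028) (nat_lit 4104) (nat_lit 0) (XT.nd (nat_lit 1014) (nat_lit 2432) (nat_lit 0) (XT.nd (nat_lit 468) (nat_lit 1900) (nat_lit 0) (XT.nd (nat_lit 234) (nat_lit 1064) (nat_lit 0) (XT.nd (nat_lit 78) (nat_lit 684) (nat_lit 0) (XT.lf (nat_lit 0) (nat_lit 12128949412) (nat_lit 532) (nat_lit 4116303558) (nat_lit 608) (nat_lit 1922469790) (nat_lit 200) (nat_lit 5) (nat_lit 207) (nat_lit 5) (nat_lit 208) (nat_lit 5) (nat_lit 361) (nat_lit 338) (nat_lit 201)) (XT.nd (nat_lit 78) (nat_lit 0) (nat_lit 0) (XT.lf (nat_lit 0) (nat_lit 78769800) (nat_lit 684) (nat_lit 14959517163) (nat_lit 76) (nat_lit 3431563515) (nat_lit 191) (nat_lit 5) (nat_lit 200) (nat_lit 5) (nat_lit 192) (nat_lit 5) (nat_lit 362) (nat_lit 338) (nat_lit 200)) (XT.lf (nat_lit 0) (nat_lit 2195074547) (nat_lit 684) (nat_lit 5378728249) (nat_lit 76) (nat_lit 11203863109) (nat_lit 191) (nat_lit 5) (nat_lit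 200) (nat_lit 5) (nat_lit 192) (nat_lit 5) (nat_lit 363) (nat_lit 338) (nat_lit 199)))) (XT.nd (nat_lit 78) (nat_lit 532) (nat_lit 0) (XT.lf (nat_lit 0) (nat_lit 4411915544) (nat_lit 608) (nat_lit 14525094276) (nat_lit 76) (nat_lit 156599359) (nat_lit 184) (nat_lit 5) (nat_lit 192) (nat_lit 5) (nat_lit 185) (nat_lit 5) (nat_lit 364) (nat_lit 338) (nat_lit 198)) (XT.nd (nat_lit 78) (nat_lit 532) (nat_lit 0) (XT.lf (nat_lit 0) (nat_lit 6816845022) (nat_lit 608) (nat_lit 4577226467) (nat_lit 76) (nat_lit 8021316423) (nat_lit 184) (nat_lit 5) (nat_lit 192) (nat_lit 5) (nat_lit 185) (nat_lit 5) (nat_lit 365) (nat_lit 338) (nat_lit 197)) (XT.lf (nat_lit 0) (nat_lit 5773255507) (nat_lit 532) (nat_lit 3568146172) (nat_lit 608) (nat_lit 10403998469) (nat_lit 177) (nat_lit 5) (nat_lit 184) (nat_lit 5) (nat_lit 185) (nat_lit 5) (nat_lit 366) (nat_lit 338) (nat_lit 196))))) (XT.nd (nat_lit 234) (nat_lit 1444) (nat_lit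 0) (XT.nd (nat_lit 78) (nat_lit 456) (nat_lit 0) (XT.lf (nat_lit 0) (nat_lit 12023689799) (nat_lit 608) (nat_lit 3608119314) (nat_lit 76) (nat_lit 4451048184) (nat_lit 177) (nat_lit 5) (nat_lit 185) (nat_lit 5) (nat_lit 178) (nat_lit 5) (nat_lit 367) (nat_lit 338) (nat_lit 195)) (XT.nd (nat_lit 78) (nat_lit 0) (nat_lit 0) (XT.lf (nat_lit 0) (nat_lit 7162892868) (nat_lit 456) (nat_lit 7720096091) (nat_lit 532) (nat_lit 5544557193) (nat_lit 171) (nat_lit 5) (nat_lit 177) (nat_lit 5) (nat_lit 178) (nat_lit 5) (nat_lit 368) (nat_lit 338) (nat_lit 194)) (XT.lf (nat_lit 0) (nat_lit 17861481450) (nat_lit 532) (nat_lit 2463487316) (nat_lit 76) (nat_lit 456608613) (nat_lit 171) (nat_lit 5) (nat_lit 178) (nat_lit 5) (nat_lit 172) (nat_lit 5) (nat_lit 369) (nat_lit 338) (nat_lit 193)))) (XT.nd (nat_lit 156) (nat_lit 912) (nat_lit 0) (XT.nd (nat_lit 78) (nat_lit 76) (nat_lit 0) (XT.lf (nat_lit 0) (nat_lit 8747705631)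 (nat_lit 456) (nat_lit 12334861741) (nat_lit 532) (nat_lit 59069027) (nat_lit 165) (nat_lit 5) (nat_lit 171) (nat_lit 5) (nat_lit 172) (nat_lit 5) (nat_lit 370) (nat_lit 338) (nat_lit 192)) (XT.lf (nat_lit 0) (nat_lit 2849332833) (nat_lit 532) (nat_lit 1202360140) (nat_lit 76) (nat_lit 17459438368) (nat_lit 164) (nat_lit 5) (nat_lit 171) (nat_lit 5) (nat_lit 165) (nat_lit 5) (nat_lit 371) (nat_lit 338) (nat_lit 191))) (XT.nd (nat_lit 78) (nat_lit 456) (nat_lit 0) (XT.lf (nat_lit 0) (nat_lit 5981983669) (nat_lit 532) (nat_lit 11411342039) (nat_lit 76) (nat_lit 4494226031) (nat_lit 158) (nat_lit 5) (nat_lit 165) (nat_lit 5) (nat_lit 159) (nat_lit 5) (nat_lit 372) (nat_lit 338) (nat_lit 190)) (XT.lf (nat_lit 0) (nat_lit 210541332) (nat_lit 456) (nat_lit 9045573651) (nat_lit 532) (nat_lit 13017728307) (nat_lit 152) (nat_lit 5) (nat_lit 158) (nat_lit 5) (nat_lit 159) (nat_lit 5) (nat_lit 373) (nat_lit 338) (nat_lit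 189)))))) (XT.nd (nat_lit 468) (nat_lit 1140) (nat_lit 0) (XT.nd (nat_lit 234) (nat_lit 912) (nat_lit 0) (XT.nd (nat_lit 78) (nat_lit 380) (nat_lit 0) (XT.lf (nat_lit 0) (nat_lit 12406868623) (nat_lit 456) (nat_lit 330056223) (nat_lit 532) (nat_lit 9931548568) (nat_lit 152) (nat_lit 5) (nat_lit 158) (nat_lit 5) (nat_lit 159) (nat_lit 5) (nat_lit 374) (nat_lit 338) (nat_lit 188)) (XT.nd (nat_lit 78) (nat_lit 0) (nat_lit 0) (XT.lf (nat_lit 0) (nat_lit 1838820647) (nat_lit 380) (nat_lit 14577540952) (nat_lit 456) (nat_lit 6655758128) (nat_lit 147) (nat_lit 5) (nat_lit 152) (nat_lit 5) (nat_lit 153) (nat_lit 5) (nat_lit 375) (nat_lit 338) (nat_lit 187)) (XT.lf (nat_lit 0) (nat_lit 14501272925) (nat_lit 380) (nat_lit 5805288706) (nat_lit 456) (nat_lit 3178305661) (nat_lit 147) (nat_lit 5) (nat_lit 152) (nat_lit 5) (nat_lit 153) (nat_lit 5) (nat_lit 376) (nat_lit 338) (nat_lit 186)))) (XT.nd (nat_lit 78) (nat_lit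 380) (nat_lit 0) (XT.lf (nat_lit 0) (nat_lit 456175889) (nat_lit 532) (nat_lit 20246532273) (nat_lit 76) (nat_lit 3205358487) (nat_lit 140) (nat_lit 5) (nat_lit 147) (nat_lit 5) (nat_lit 141) (nat_lit 5) (nat_lit 377) (nat_lit 338) (nat_lit 185)) (XT.nd (nat_lit 78) (nat_lit 380) (nat_lit 0) (XT.lf (nat_lit 0) (nat_lit 4278644282) (nat_lit 532) (nat_lit 7568913163) (nat_lit 76) (nat_lit 12491178485) (nat_lit 140) (nat_lit 5) (nat_lit 147) (nat_lit 5) (nat_lit 141) (nat_lit 5) (nat_lit 378) (nat_lit 338) (nat_lit 184)) (XT.lf (nat_lit 0) (nat_lit 5590355628) (nat_lit 380) (nat_lit 2673091555) (nat_lit 456) (nat_lit 16517451194) (nat_lit 135) (nat_lit 5) (nat_lit 140) (nat_lit 5) (nat_lit 141) (nat_lit 5) (nat_lit 379) (nat_lit 338) (nat_lit 183))))) (XT.nd (nat_lit 234) (nat_lit 760) (nat_lit 0) (XT.nd (nat_lit 78) (nat_lit 380) (nat_lit 0) (XT.lf (nat_lit 0) (nat_lit 12504132129) (nat_lit 456) (nat_lit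 6008228899) (nat_lit 76) (nat_lit 6719877348) (nat_lit 135) (nat_lit 5) (nat_lit 141) (nat_lit 5) (nat_lit 136) (nat_lit 5) (nat_lit 380) (nat_lit 338) (nat_lit 182)) (XT.nd (nat_lit 78) (nat_lit 0) (nat_lit 0) (XT.lf (nat_lit 0) (nat_lit 7685431108) (nat_lit 380) (nat_lit 9281133449) (nat_lit 456) (nat_lit 8727720947) (nat_lit 130) (nat_lit 5) (nat_lit 135) (nat_lit 5) (nat_lit 136) (nat_lit 5) (nat_lit 381) (nat_lit 338) (nat_lit 181)) (XT.lf (nat_lit 0) (nat_lit 21620587161) (nat_lit 456) (nat_lit 4265802544) (nat_lit 76) (nat_lit 282075479) (nat_lit 130) (nat_lit 5) (nat_lit 136) (nat_lit 5) (nat_lit 131) (nat_lit 5) (nat_lit 382) (nat_lit 338) (nat_lit 180)))) (XT.nd (nat_lit 156) (nat_lit 380) (nat_lit 0) (XT.nd (nat_lit 78) (nat_lit 76) (nat_lit 0) (XT.lf (nat_lit 0) (nat_lit 9985007158) (nat_lit 304) (nat_lit 16611527598) (nat_lit 380) (nat_lit 54868948) (nat_lit 126) (nat_lit 5) (nat_lit 130) (nat_lit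 5) (nat_lit 131) (nat_lit 5) (nat_lit 383) (nat_lit 338) (nat_lit 179)) (XT.lf (nat_lit 0) (nat_lit 4521662992) (nat_lit 380) (nat_lit 2448660444) (nat_lit 76) (nat_lit 20176051632) (nat_lit 125) (nat_lit 5) (nat_lit 130) (nat_lit 5) (nat_lit 126) (nat_lit 5) (nat_lit 384) (nat_lit 338) (nat_lit 178))) (XT.nd (nat_lit 78) (nat_lit 0) (nat_lit 0) (XT.lf (nat_lit 0) (nat_lit 9378125679) (nat_lit 456) (nat_lit 15252062591) (nat_lit 76) (nat_lit 3021681236) (nat_lit 120) (nat_lit 5) (nat_lit 126) (nat_lit 5) (nat_lit 121) (nat_lit 5) (nat_lit 385) (nat_lit 338) (nat_lit 177)) (XT.lf (nat_lit 0) (nat_lit 14468960580) (nat_lit 456) (nat_lit 504496890) (nat_lit 76) (nat_lit 13196413248) (nat_lit 120) (nat_lit 5) (nat_lit 126) (nat_lit 5) (nat_lit 121) (nat_lit 5) (nat_lit 386) (nat_lit 338) (nat_lit 176))))))) (XT.nd (nat_lit 1014) (nat_lit 1976) (nat_lit 0) (XT.nd (nat_lit 468) (nat_lit 836) (nat_lit 0) (XT.nd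 (nat_lit 234) (nat_lit 608) (nat_lit 0) (XT.nd (nat_lit 78) (nat_lit 380) (nat_lit 0) (XT.lf (nat_lit 0) (nat_lit 14970462824) (nat_lit 304) (nat_lit 4880811244) (nat_lit 380) (nat_lit 8847977518) (nat_lit 116) (nat_lit 5) (nat_lit 120) (nat_lit 5) (nat_lit 121) (nat_lit 5) (nat_lit 387) (nat_lit 338) (nat_lit 175)) (XT.nd (nat_lit 78) (nat_lit 76) (nat_lit 0) (XT.lf (nat_lit 0) (nat_lit 1647515411) (nat_lit 304) (nat_lit 23816443954) (nat_lit 380) (nat_lit 3778489601) (nat_lit 112) (nat_lit 5) (nat_lit 116) (nat_lit 5) (nat_lit 117) (nat_lit 5) (nat_lit 388) (nat_lit 338) (nat_lit 174)) (XT.lf (nat_lit 0) (nat_lit 1598193093) (nat_lit 380) (nat_lit 12102074272) (nat_lit 76) (nat_lit 16095762688) (nat_lit 111) (nat_lit 5) (nat_lit 116) (nat_lit 5) (nat_lit 112) (nat_lit 5) (nat_lit 389) (nat_lit 338) (nat_lit 173)))) (XT.nd (nat_lit 78) (nat_lit 304) (nat_lit 0) (XT.lf (nat_lit 0) (nat_lit 3886962851) (nat_lit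 304) (nat_lit 3205719365) (nat_lit 380) (nat_lit 23271442513) (nat_lit 107) (nat_lit 5) (nat_lit 111) (nat_lit 5) (nat_lit 112) (nat_lit 5) (nat_lit 390) (nat_lit 338) (nat_lit 172)) (XT.nd (nat_lit 78) (nat_lit 304) (nat_lit 0) (XT.lf (nat_lit 0) (nat_lit 12943655774) (nat_lit 380) (nat_lit 10423248551) (nat_lit 76) (nat_lit 7576610346) (nat_lit 107) (nat_lit 5) (nat_lit 112) (nat_lit 5) (nat_lit 108) (nat_lit 5) (nat_lit 391) (nat_lit 338) (nat_lit 171)) (XT.lf (nat_lit 0) (nat_lit 6194523517) (nat_lit 304) (nat_lit 12862203361) (nat_lit 380) (nat_lit 12480964245) (nat_lit 103) (nat_lit 5) (nat_lit 107) (nat_lit 5) (nat_lit 108) (nat_lit 5) (nat_lit 392) (nat_lit 338) (nat_lit 170))))) (XT.nd (nat_lit 234) (nat_lit 532) (nat_lit 0) (XT.nd (nat_lit 78) (nat_lit 304) (nat_lit 0) (XT.lf (nat_lit 0) (nat_lit 23517666410) (nat_lit 304) (nat_lit 1936132823) (nat_lit 380) (nat_lit 6692877173) (nat_lit 103) (nat_lit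 5) (nat_lit 107) (nat_lit 5) (nat_lit 108) (nat_lit 5) (nat_lit 393) (nat_lit 338) (nat_lit 169)) (XT.nd (nat_lit 78) (nat_lit 76) (nat_lit 0) (XT.lf (nat_lit 0) (nat_lit 8659231008) (nat_lit 228) (nat_lit 23551827864) (nat_lit 304) (nat_lit 557825877) (nat_lit 100) (nat_lit 5) (nat_lit 103) (nat_lit 5) (nat_lit 104) (nat_lit 5) (nat_lit 394) (nat_lit 338) (nat_lit 168)) (XT.lf (nat_lit 0) (nat_lit 5751513684) (nat_lit 304) (nat_lit 6846324793) (nat_lit 76) (nat_lit 20807181291) (nat_lit 99) (nat_lit 5) (nat_lit 103) (nat_lit 5) (nat_lit 100) (nat_lit 5) (nat_lit 395) (nat_lit 338) (nat_lit 167)))) (XT.nd (nat_lit 156) (nat_lit 228) (nat_lit 0) (XT.nd (nat_lit 78) (nat_lit 0) (nat_lit 0) (XT.lf (nat_lit 0) (nat_lit 11140191757) (nat_lit 304) (nat_lit 1201439125) (nat_lit 380) (nat_lit 21715362598) (nat_lit 95) (nat_lit 5) (nat_lit 99) (nat_lit 5) (nat_lit 100) (nat_lit 5) (nat_lit 396) (nat_lit 338) (nat_lit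 166)) (XT.lf (nat_lit 0) (nat_lit 19296223864) (nat_lit 380) (nat_lit 5028396634) (nat_lit 76) (nat_lit 10398904295) (nat_lit 95) (nat_lit 5) (nat_lit 100) (nat_lit 5) (nat_lit 96) (nat_lit 5) (nat_lit 397) (nat_lit 338) (nat_lit 165))) (XT.nd (nat_lit 78) (nat_lit 0) (nat_lit 0) (XT.lf (nat_lit 0) (nat_lit 13644593294) (nat_lit 228) (nat_lit 12953709813) (nat_lit 304) (nat_lit 8807585000) (nat_lit 92) (nat_lit 5) (nat_lit 95) (nat_lit 5) (nat_lit 96) (nat_lit 5) (nat_lit 398) (nat_lit 338) (nat_lit 164)) (XT.lf (nat_lit 0) (nat_lit 32974486097) (nat_lit 228) (nat_lit 1191589799) (nat_lit 304) (nat_lit 1941248961) (nat_lit 92) (nat_lit 5) (nat_lit 95) (nat_lit 5) (nat_lit 96) (nat_lit 5) (nat_lit 399) (nat_lit 338) (nat_lit 163)))))) (XT.nd (nat_lit 546) (nat_lit 836) (nat_lit 0) (XT.nd (nat_lit 234) (nat_lit 532) (nat_lit 0) (XT.nd (nat_lit 78) (nat_lit 228) (nat_lit 0) (XT.lf (nat_lit 0) (nat_lit 5290759497)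 (nat_lit 380) (nat_lit 20613469255) (nat_lit 76) (nat_lit 10916303406) (nat_lit 87) (nat_lit 5) (nat_lit 92) (nat_lit 5) (nat_lit 88) (nat_lit 5) (nat_lit 400) (nat_lit 338) (nat_lit 162)) (XT.nd (nat_lit 78) (nat_lit 228) (nat_lit 0) (XT.lf (nat_lit 0) (nat_lit 12740429188) (nat_lit 380) (nat_lit 1400436394) (nat_lit 76) (nat_lit 23412503290) (nat_lit 87) (nat_lit 5) (nat_lit 92) (nat_lit 5) (nat_lit 88) (nat_lit 5) (nat_lit 401) (nat_lit 338) (nat_lit 161)) (XT.lf (nat_lit 0) (nat_lit 18748726031) (nat_lit 228) (nat_lit 1841175985) (nat_lit 304) (nat_lit 17713000585) (nat_lit 84) (nat_lit 5) (nat_lit 87) (nat_lit 5) (nat_lit 88) (nat_lit 5) (nat_lit 402) (nat_lit 338) (nat_lit 160)))) (XT.nd (nat_lit 156) (nat_lit 304) (nat_lit 0) (XT.nd (nat_lit 78) (nat_lit 0) (nat_lit 0) (XT.lf (nat_lit 0) (nat_lit 353089850) (nat_lit 228) (nat_lit 28439648932) (nat_lit 304) (nat_lit 10278648437) (nat_lit 81) (nat_lit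 5) (nat_lit 84) (nat_lit 5) (nat_lit 85) (nat_lit 5) (nat_lit 403) (nat_lit 338) (nat_lit 159)) (XT.lf (nat_lit 0) (nat_lit 21233731361) (nat_lit 228) (nat_lit 16219616590) (nat_lit 304) (nat_lit 2403229036) (nat_lit 81) (nat_lit 5) (nat_lit 84) (nat_lit 5) (nat_lit 85) (nat_lit 5) (nat_lit 404) (nat_lit 338) (nat_lit 158))) (XT.nd (nat_lit 78) (nat_lit 0) (nat_lit 0) (XT.lf (nat_lit 0) (nat_lit 2054700721) (nat_lit 228) (nat_lit 3558361915) (nat_lit 304) (nat_lit 35050134714) (nat_lit 77) (nat_lit 5) (nat_lit 80) (nat_lit 5) (nat_lit 81) (nat_lit 5) (nat_lit 405) (nat_lit 338) (nat_lit 157)) (XT.lf (nat_lit 0) (nat_lit 14098892305) (nat_lit 304) (nat_lit 17876883466) (nat_lit 76) (nat_lit 9509207295) (nat_lit 77) (nat_lit 5) (nat_lit 81) (nat_lit 5) (nat_lit 78) (nat_lit 5) (nat_lit 406) (nat_lit 338) (nat_lit 156))))) (XT.nd (nat_lit 234) (nat_lit 456) (nat_lit 0) (XT.nd (nat_lit 78) (nat_lit 152) (nat_lit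 0) (XT.lf (nat_lit 0) (nat_lit 3503975135) (nat_lit 228) (nat_lit 19400625500) (nat_lit 304) (nat_lit 19424863702) (nat_lit 74) (nat_lit 5) (nat_lit 77) (nat_lit 5) (nat_lit 78) (nat_lit 5) (nat_lit 407) (nat_lit 338) (nat_lit 155)) (XT.nd (nat_lit 78) (nat_lit 152) (nat_lit 0) (XT.lf (nat_lit 0) (nat_lit 25886928575) (nat_lit 228) (nat_lit 6264512712) (nat_lit 304) (nat_lit 11042530987) (nat_lit 74) (nat_lit 5) (nat_lit 77) (nat_lit 5) (nat_lit 78) (nat_lit 5) (nat_lit 408) (nat_lit 338) (nat_lit 154)) (XT.lf (nat_lit 0) (nat_lit 4876567564) (nat_lit 152) (nat_lit 36912360840) (nat_lit 228) (nat_lit 2292090840) (nat_lit 72) (nat_lit 5) (nat_lit 74) (nat_lit 5) (nat_lit 75) (nat_lit 5) (nat_lit 409) (nat_lit 338) (nat_lit 153)))) (XT.nd (nat_lit 156) (nat_lit 152) (nat_lit 0) (XT.nd (nat_lit 78) (nat_lit 228) (nat_lit 0) (XT.lf (nat_lit 0) (nat_lit 6824771266) (nat_lit 228) (nat_lit 17043049120) (nat_lit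 76) (nat_lit 21117868349) (nat_lit 71) (nat_lit 5) (nat_lit 74) (nat_lit 5) (nat_lit 72) (nat_lit 5) (nat_lit 410) (nat_lit 338) (nat_lit 152)) (XT.lf (nat_lit 0) (nat_lit 5869484072) (nat_lit 228) (nat_lit 10352642953) (nat_lit 304) (nat_lit 29693099713) (nat_lit 68) (nat_lit 5) (nat_lit 71) (nat_lit 5) (nat_lit 72) (nat_lit 5) (nat_lit 411) (nat_lit 338) (nat_lit 151))) (XT.nd (nat_lit 78) (nat_lit 152) (nat_lit 0) (XT.lf (nat_lit 0) (nat_lit 26106166192) (nat_lit 304) (nat_lit 17090307830) (nat_lit 76) (nat_lit 3670034893) (nat_lit 68) (nat_lit 5) (nat_lit 72) (nat_lit 5) (nat_lit 69) (nat_lit 5) (nat_lit 412) (nat_lit 338) (nat_lit 150)) (XT.lf (nat_lit 0) (nat_lit 6574159233) (nat_lit 152) (nat_lit 29875020528) (nat_lit 228) (nat_lit 11392277090) (nat_lit 66) (nat_lit 5) (nat_lit 68) (nat_lit 5) (nat_lit 69) (nat_lit 5) (nat_lit 413) (nat_lit 338) (nat_lit 149))))))))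
noncomputable def xc194 : XT := (XT.nd (nat_lit 41418) (nat_lit 0) (nat_lit 9804) (XT.nd (nat_lit 1014) (nat_lit 608) (nat_lit 0) (XT.nd (nat_lit 468) (nat_lit 608) (nat_lit 0) (XT.nd (nat_lit 234) (nat_lit 304) (nat_lit 0) (XT.nd (nat_lit 78) (nat_lit 304) (nat_lit 0) (XT.lf (nat_lit 0) (nat_lit 31293533025) (nat_lit 152) (nat_lit 15978329199) (nat_lit 228) (nat_lit 1568710510) (nat_lit 66) (nat_lit 5) (nat_lit 68) (nat_lit 5) (nat_lit 69) (nat_lit 5) (nat_lit 414) (nat_lit 338) (nat_lit 148)) (XT.nd (nat_lit 78) (nat_lit 0) (nat_lit 0) (XT.lf (nat_lit 0) (nat_lit 6932654418) (nat_lit 228) (nat_lit 1513578305) (nat_lit 304) (nat_lit 41419059603) (nat_lit 62) (nat_lit 5) (nat_lit 65) (nat_lit 5) (nat_lit 66) (nat_lit 5) (nat_lit 415) (nat_lit 338) (nat_lit 147)) (XT.lf (nat_lit 0) (nat_lit 19034588093) (nat_lit 304) (nat_lit 18560243986) (nat_lit 76) (nat_lit 13316321463) (nat_lit 62) (nat_lit 5) (nat_lit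 66) (nat_lit 5) (nat_lit 63) (nat_lit 5) (nat_lit 416) (nat_lit 338) (nat_lit 146)))) (XT.nd (nat_lit 78) (nat_lit 152) (nat_lit 0) (XT.lf (nat_lit 0) (nat_lit 6653023765) (nat_lit 152) (nat_lit 23363482413) (nat_lit 228) (nat_lit 21969607822) (nat_lit 60) (nat_lit 5) (nat_lit 62) (nat_lit 5) (nat_lit 63) (nat_lit 5) (nat_lit 417) (nat_lit 338) (nat_lit 145)) (XT.nd (nat_lit 78) (nat_lit 152) (nat_lit 0) (XT.lf (nat_lit 0) (nat_lit 32998070191) (nat_lit 152) (nat_lit 8514246151) (nat_lit 228) (nat_lit 11575474638) (nat_lit 60) (nat_lit 5) (nat_lit 62) (nat_lit 5) (nat_lit 63) (nat_lit 5) (nat_lit 418) (nat_lit 338) (nat_lit 144)) (XT.lf (nat_lit 0) (nat_lit 5957008252) (nat_lit 152) (nat_lit 47515512861) (nat_lit 228) (nat_lit 746412272) (nat_lit 58) (nat_lit 5) (nat_lit 60) (nat_lit 5) (nat_lit 61) (nat_lit 5) (nat_lit 419) (nat_lit 338) (nat_lit 143))))) (XT.nd (nat_lit 234) (nat_lit 380) (nat_lit 0)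 (XT.nd (nat_lit 78) (nat_lit 152) (nat_lit 0) (XT.lf (nat_lit 0) (nat_lit 10490696627) (nat_lit 228) (nat_lit 22372332560) (nat_lit 76) (nat_lit 22509392366) (nat_lit 57) (nat_lit 5) (nat_lit 60) (nat_lit 5) (nat_lit 58) (nat_lit 5) (nat_lit 420) (nat_lit 338) (nat_lit 142)) (XT.nd (nat_lit 78) (nat_lit 0) (nat_lit 0) (XT.lf (nat_lit 0) (nat_lit 4366901914) (nat_lit 152) (nat_lit 17722164943) (nat_lit 228) (nat_lit 34470051956) (nat_lit 55) (nat_lit 5) (nat_lit 57) (nat_lit 5) (nat_lit 58) (nat_lit 5) (nat_lit 421) (nat_lit 338) (nat_lit 141)) (XT.lf (nat_lit 0) (nat_lit 32362102406) (nat_lit 152) (nat_lit 1896411351) (nat_lit 228) (nat_lit 23516210110) (nat_lit 55) (nat_lit 5) (nat_lit 57) (nat_lit 5) (nat_lit 58) (nat_lit 5) (nat_lit 422) (nat_lit 338) (nat_lit 140)))) (XT.nd (nat_lit 156) (nat_lit 228) (nat_lit 0) (XT.nd (nat_lit 78) (nat_lit 0) (nat_lit 0) (XT.lf (nat_lit 0) (nat_lit 2067500636) (nat_lit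 152) (nat_lit 44881149887) (nat_lit 228) (nat_lit 12073478981) (nat_lit 53) (nat_lit 5) (nat_lit 55) (nat_lit 5) (nat_lit 56) (nat_lit 5) (nat_lit 423) (nat_lit 338) (nat_lit 139)) (XT.lf (nat_lit 0) (nat_lit 30869112278) (nat_lit 152) (nat_lit 29422894564) (nat_lit 228) (nat_lit 6775611) (nat_lit 53) (nat_lit 5) (nat_lit 55) (nat_lit 5) (nat_lit 56) (nat_lit 5) (nat_lit 424) (nat_lit 338) (nat_lit 138))) (XT.nd (nat_lit 78) (nat_lit 152) (nat_lit 0) (XT.lf (nat_lit 0) (nat_lit 12176889822) (nat_lit 228) (nat_lit 1202984137) (nat_lit 76) (nat_lit 48230358659) (nat_lit 52) (nat_lit 5) (nat_lit 55) (nat_lit 5) (nat_lit 53) (nat_lit 5) (nat_lit 425) (nat_lit 338) (nat_lit 137)) (XT.lf (nat_lit 0) (nat_lit 25029472604) (nat_lit 228) (nat_lit 34565276644) (nat_lit 76) (nat_lit 3357169276) (nat_lit 50) (nat_lit 5) (nat_lit 53) (nat_lit 5) (nat_lit 51) (nat_lit 5) (nat_lit 426) (nat_lit 338) (nat_lit 136))))))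 (XT.nd (nat_lit 468) (nat_lit 76) (nat_lit 0) (XT.nd (nat_lit 234) (nat_lit 380) (nat_lit 0) (XT.nd (nat_lit 78) (nat_lit 152) (nat_lit 0) (XT.lf (nat_lit 0) (nat_lit 38409823220) (nat_lit 228) (nat_lit 5581962348) (nat_lit 76) (nat_lit 20337804266) (nat_lit 50) (nat_lit 5) (nat_lit 53) (nat_lit 5) (nat_lit 51) (nat_lit 5) (nat_lit 427) (nat_lit 338) (nat_lit 135)) (XT.nd (nat_lit 78) (nat_lit 0) (nat_lit 0) (XT.lf (nat_lit 0) (nat_lit 24749438793) (nat_lit 152) (nat_lit 27677574924) (nat_lit 228) (nat_lit 13314515209) (nat_lit 48) (nat_lit 5) (nat_lit 50) (nat_lit 5) (nat_lit 51) (nat_lit 5) (nat_lit 428) (nat_lit 338) (nat_lit 134)) (XT.lf (nat_lit 0) (nat_lit 56100886226) (nat_lit 152) (nat_lit 10817753821) (nat_lit 228) (nat_lit 275569048) (nat_lit 48) (nat_lit 5) (nat_lit 50) (nat_lit 5) (nat_lit 51) (nat_lit 5) (nat_lit 429) (nat_lit 338) (nat_lit 133)))) (XT.nd (nat_lit 78) (nat_lit 152) (nat_lit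 0) (XT.lf (nat_lit 0) (nat_lit 13153409105) (nat_lit 228) (nat_lit 48785837883) (nat_lit 76) (nat_lit 6739762988) (nat_lit 45) (nat_lit 5) (nat_lit 48) (nat_lit 5) (nat_lit 46) (nat_lit 5) (nat_lit 430) (nat_lit 338) (nat_lit 132)) (XT.nd (nat_lit 78) (nat_lit 152) (nat_lit 0) (XT.lf (nat_lit 0) (nat_lit 27197566741) (nat_lit 228) (nat_lit 18283529363) (nat_lit 76) (nat_lit 24720641926) (nat_lit 45) (nat_lit 5) (nat_lit 48) (nat_lit 5) (nat_lit 46) (nat_lit 5) (nat_lit 431) (nat_lit 338) (nat_lit 131)) (XT.lf (nat_lit 0) (nat_lit 13391024210) (nat_lit 152) (nat_lit 28398429558) (nat_lit 228) (nat_lit 29976902469) (nat_lit 43) (nat_lit 5) (nat_lit 45) (nat_lit 5) (nat_lit 46) (nat_lit 5) (nat_lit 432) (nat_lit 338) (nat_lit 130))))) (XT.nd (nat_lit 39624) (nat_lit 0) (nat_lit 15048) (XT.nd (nat_lit 78) (nat_lit 76) (nat_lit 0) (XT.lf (nat_lit 0) (nat_lit 46386518005) (nat_lit 152) (nat_lit 10614917336) (nat_lit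 228) (nat_lit 16371007949) (nat_lit 43) (nat_lit 5) (nat_lit 45) (nat_lit 5) (nat_lit 46) (nat_lit 5) (nat_lit 433) (nat_lit 338) (nat_lit 129)) (XT.nd (nat_lit 39468) (nat_lit 0) (nat_lit 15048) (XT.lf (nat_lit 0) (nat_lit 5371930086) (nat_lit 76) (nat_lit 67421281878) (nat_lit 152) (nat_lit 2229798348) (nat_lit 42) (nat_lit 5) (nat_lit 43) (nat_lit 5) (nat_lit 44) (nat_lit 4) (nat_lit 434) (nat_lit 338) (nat_lit 128)) (XT.lf (nat_lit 0) (nat_lit 1183984686) (nat_lit 0) (nat_lit 1183984686) (nat_lit 1140) (nat_lit 4218426238) (nat_lit 240) (nat_lit 5) (nat_lit 240) (nat_lit 3) (nat_lit 255) (nat_lit 3) (nat_lit 339) (nat_lit 339) (nat_lit 222)))) (XT.nd (nat_lit 156) (nat_lit 0) (nat_lit 76) (XT.nd (nat_lit 78) (nat_lit 0) (nat_lit 0) (XT.lf (nat_lit 0) (nat_lit 5221963828) (nat_lit 1140) (nat_lit 4596643048) (nat_lit 1216) (nat_lit 3539076792) (nat_lit 240) (nat_lit 5) (nat_lit 255) (nat_lit 3) (nat_lit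 256) (nat_lit 5) (nat_lit 340) (nat_lit 339) (nat_lit 221)) (XT.lf (nat_lit 76) (nat_lit 1801543330) (nat_lit 0) (nat_lit 3947018823) (nat_lit 1216) (nat_lit 7798790713) (nat_lit 241) (nat_lit 5) (nat_lit 240) (nat_lit 5) (nat_lit 256) (nat_lit 5) (nat_lit 341) (nat_lit 339) (nat_lit 220))) (XT.nd (nat_lit 78) (nat_lit 0) (nat_lit 0) (XT.lf (nat_lit 0) (nat_lit 6343675659) (nat_lit 1140) (nat_lit 5284444700) (nat_lit 1216) (nat_lit 2113019730) (nat_lit 241) (nat_lit 5) (nat_lit 256) (nat_lit 5) (nat_lit 257) (nat_lit 5) (nat_lit 342) (nat_lit 339) (nat_lit 219)) (XT.lf (nat_lit 76) (nat_lit 1349892764) (nat_lit 0) (nat_lit 5644870436) (nat_lit 1216) (nat_lit 6944843301) (nat_lit 242) (nat_lit 5) (nat_lit 241) (nat_lit 5) (nat_lit 257) (nat_lit 5) (nat_lit 343) (nat_lit 339) (nat_lit 218))))))) (XT.nd (nat_lit 1014) (nat_lit 4408) (nat_lit 0) (XT.nd (nat_lit 468) (nat_lit 988) (nat_lit 0) (XT.nd (nat_lit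 234) (nat_lit 0) (nat_lit 76) (XT.nd (nat_lit 78) (nat_lit 0) (nat_lit 0) (XT.lf (nat_lit 0) (nat_lit 7710699517) (nat_lit 1140) (nat_lit 5864867236) (nat_lit 1216) (nat_lit 567109590) (nat_lit 242) (nat_lit 5) (nat_lit 257) (nat_lit 5) (nat_lit 258) (nat_lit 5) (nat_lit 344) (nat_lit 339) (nat_lit 217)) (XT.nd (nat_lit 78) (nat_lit 0) (nat_lit 0) (XT.lf (nat_lit 76) (nat_lit 1017415476) (nat_lit 0) (nat_lit 7483210145) (nat_lit 1216) (nat_lit 5849645974) (nat_lit 243) (nat_lit 5) (nat_lit 242) (nat_lit 5) (nat_lit 258) (nat_lit 5) (nat_lit 345) (nat_lit 339) (nat_lit 216)) (XT.lf (nat_lit 76) (nat_lit 8218198987) (nat_lit 0) (nat_lit 1142420553) (nat_lit 1216) (nat_lit 5202092472) (nat_lit 243) (nat_lit 5) (nat_lit 242) (nat_lit 5) (nat_lit 258) (nat_lit 5) (nat_lit 346) (nat_lit 339) (nat_lit 215)))) (XT.nd (nat_lit 78) (nat_lit 0) (nat_lit 0) (XT.lf (nat_lit 76) (nat_lit 809091021) (nat_lit 0) (nat_lit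 9484462443) (nat_lit 1216) (nat_lit 4486566139) (nat_lit 244) (nat_lit 5) (nat_lit 243) (nat_lit 5) (nat_lit 259) (nat_lit 5) (nat_lit 347) (nat_lit 339) (nat_lit 214)) (XT.nd (nat_lit 78) (nat_lit 0) (nat_lit 76) (XT.lf (nat_lit 76) (nat_lit 8287526259) (nat_lit 0) (nat_lit 3030063199) (nat_lit 1216) (nat_lit 3684574470) (nat_lit 244) (nat_lit 5) (nat_lit 243) (nat_lit 5) (nat_lit 259) (nat_lit 5) (nat_lit 348) (nat_lit 339) (nat_lit 213)) (XT.lf (nat_lit 76) (nat_lit 730467881) (nat_lit 0) (nat_lit 11671915154) (nat_lit 1216) (nat_lit 2827593150) (nat_lit 245) (nat_lit 5) (nat_lit 244) (nat_lit 5) (nat_lit 260) (nat_lit 5) (nat_lit 349) (nat_lit 339) (nat_lit 212))))) (XT.nd (nat_lit 234) (nat_lit 0) (nat_lit 0) (XT.nd (nat_lit 78) (nat_lit 1140) (nat_lit 0) (XT.lf (nat_lit 76) (nat_lit 8497602240) (nat_lit 0) (nat_lit 5108128196) (nat_lit 1216) (nat_lit 1856319546) (nat_lit 245) (nat_lit 5) (nat_lit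 244) (nat_lit 5) (nat_lit 260) (nat_lit 5) (nat_lit 350) (nat_lit 339) (nat_lit 211)) (XT.nd (nat_lit 78) (nat_lit 1216) (nat_lit 0) (XT.lf (nat_lit 76) (nat_lit 787651187) (nat_lit 0) (nat_lit 14069847039) (nat_lit 1216) (nat_lit 843225423) (nat_lit 246) (nat_lit 5) (nat_lit 245) (nat_lit 5) (nat_lit 261) (nat_lit 5) (nat_lit 351) (nat_lit 339) (nat_lit 210)) (XT.lf (nat_lit 0) (nat_lit 306944576) (nat_lit 1216) (nat_lit 7091207580) (nat_lit 1292) (nat_lit 8545036732) (nat_lit 229) (nat_lit 5) (nat_lit 245) (nat_lit 5) (nat_lit 246) (nat_lit 5) (nat_lit 352) (nat_lit 339) (nat_lit 209)))) (XT.nd (nat_lit 156) (nat_lit 0) (nat_lit 76) (XT.nd (nat_lit 78) (nat_lit 0) (nat_lit 76) (XT.lf (nat_lit 76) (nat_lit 967454226) (nat_lit 0) (nat_lit 505829618) (nat_lit 1292) (nat_lit 14719442051) (nat_lit 230) (nat_lit 5) (nat_lit 229) (nat_lit 5) (nat_lit 246) (nat_lit 5) (nat_lit 353) (nat_lit 339) (nat_lit 208))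 (XT.lf (nat_lit 0) (nat_lit 2799872548) (nat_lit 1216) (nat_lit 7107096885) (nat_lit 1292) (nat_lit 6539028249) (nat_lit 230) (nat_lit 5) (nat_lit 246) (nat_lit 5) (nat_lit 247) (nat_lit 5) (nat_lit 354) (nat_lit 339) (nat_lit 207))) (XT.nd (nat_lit 78) (nat_lit 0) (nat_lit 76) (XT.lf (nat_lit 76) (nat_lit 1265922171) (nat_lit 0) (nat_lit 2907382228) (nat_lit 1292) (nat_lit 12533358117) (nat_lit 231) (nat_lit 5) (nat_lit 230) (nat_lit 5) (nat_lit 247) (nat_lit 5) (nat_lit 355) (nat_lit 339) (nat_lit 206)) (XT.lf (nat_lit 0) (nat_lit 5691871875) (nat_lit 1216) (nat_lit 6987871953) (nat_lit 76) (nat_lit 4292291562) (nat_lit 231) (nat_lit 5) (nat_lit 247) (nat_lit 5) (nat_lit 232) (nat_lit 5) (nat_lit 356) (nat_lit 339) (nat_lit 205)))))) (XT.nd (nat_lit 546) (nat_lit 1520) (nat_lit 0) (XT.nd (nat_lit 234) (nat_lit 1216) (nat_lit 0) (XT.nd (nat_lit 78) (nat_lit 608) (nat_lit 0) (XT.lf (nat_lit 0) (nat_lit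 1714879290) (nat_lit 1216) (nat_lit 5576774942) (nat_lit 1292) (nat_lit 9952651383) (nat_lit 215) (nat_lit 5) (nat_lit 231) (nat_lit 5) (nat_lit 232) (nat_lit 5) (nat_lit 357) (nat_lit 339) (nat_lit 204)) (XT.nd (nat_lit 78) (nat_lit 608) (nat_lit 0) (XT.lf (nat_lit 0) (nat_lit 9018009909) (nat_lit 1292) (nat_lit 6726684491) (nat_lit 76) (nat_lit 1777697879) (nat_lit 215) (nat_lit 5) (nat_lit 232) (nat_lit 5) (nat_lit 216) (nat_lit 5) (nat_lit 358) (nat_lit 339) (nat_lit 203)) (XT.lf (nat_lit 0) (nat_lit 2321885411) (nat_lit 608) (nat_lit 8542677994) (nat_lit 684) (nat_lit 6942211484) (nat_lit 207) (nat_lit 5) (nat_lit 215) (nat_lit 5) (nat_lit 216) (nat_lit 5) (nat_lit 359) (nat_lit 339) (nat_lit 202)))) (XT.nd (nat_lit 156) (nat_lit 684) (nat_lit 0) (XT.nd (nat_lit 78) (nat_lit 532) (nat_lit 0) (XT.lf (nat_lit 0) (nat_lit 11771537739) (nat_lit 608) (nat_lit 1053960674) (nat_lit 684) (nat_lit 5272426414)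 (nat_lit 207) (nat_lit 5) (nat_lit 215) (nat_lit 5) (nat_lit 216) (nat_lit 5) (nat_lit 360) (nat_lit 339) (nat_lit 201)) (XT.lf (nat_lit 0) (nat_lit 3094953296) (nat_lit 532) (nat_lit 11835398487) (nat_lit 608) (nat_lit 3464910014) (nat_lit 200) (nat_lit 5) (nat_lit 207) (nat_lit 5) (nat_lit 208) (nat_lit 5) (nat_lit 361) (nat_lit 339) (nat_lit 200))) (XT.nd (nat_lit 78) (nat_lit 684) (nat_lit 0) (XT.lf (nat_lit 0) (nat_lit 12909760668) (nat_lit 532) (nat_lit 4254306157) (nat_lit 608) (nat_lit 1535485658) (nat_lit 200) (nat_lit 5) (nat_lit 207) (nat_lit 5) (nat_lit 208) (nat_lit 5) (nat_lit 362) (nat_lit 339) (nat_lit 199)) (XT.lf (nat_lit 0) (nat_lit 508415116) (nat_lit 684) (nat_lit 14973489703) (nat_lit 76) (nat_lit 3528979259) (nat_lit 191) (nat_lit 5) (nat_lit 200) (nat_lit 5) (nat_lit 192) (nat_lit 5) (nat_lit 363) (nat_lit 339) (nat_lit 198))))) (XT.nd (nat_lit 234) (nat_lit 988) (nat_lit 0) (XT.nd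 (nat_lit 78) (nat_lit 532) (nat_lit 0) (XT.lf (nat_lit 0) (nat_lit 2675763892) (nat_lit 684) (nat_lit 5117941578) (nat_lit 76) (nat_lit 11534608943) (nat_lit 191) (nat_lit 5) (nat_lit 200) (nat_lit 5) (nat_lit 192) (nat_lit 5) (nat_lit 364) (nat_lit 339) (nat_lit 197)) (XT.nd (nat_lit 78) (nat_lit 0) (nat_lit 0) (XT.lf (nat_lit 0) (nat_lit 4951153669) (nat_lit 608) (nat_lit 14530512665) (nat_lit 76) (nat_lit 172315230) (nat_lit 184) (nat_lit 5) (nat_lit 192) (nat_lit 5) (nat_lit 185) (nat_lit 5) (nat_lit 365) (nat_lit 339) (nat_lit 196)) (XT.lf (nat_lit 0) (nat_lit 7416380139) (nat_lit 608) (nat_lit 4296742833) (nat_lit 76) (nat_lit 8272652895) (nat_lit 184) (nat_lit 5) (nat_lit 192) (nat_lit 5) (nat_lit 185) (nat_lit 5) (nat_lit 366) (nat_lit 339) (nat_lit 195)))) (XT.nd (nat_lit 156) (nat_lit 456) (nat_lit 0) (XT.nd (nat_lit 78) (nat_lit 0) (nat_lit 0) (XT.lf (nat_lit 0) (nat_lit 6360157517) (nat_lit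 532) (nat_lit 3648987036) (nat_lit 608) (nat_lit 10316776275) (nat_lit 177) (nat_lit 5) (nat_lit 184) (nat_lit 5) (nat_lit 185) (nat_lit 5) (nat_lit 367) (nat_lit 339) (nat_lit 194)) (XT.lf (nat_lit 0) (nat_lit 12760859433) (nat_lit 608) (nat_lit 3303456307) (nat_lit 76) (nat_lit 4609523509) (nat_lit 177) (nat_lit 5) (nat_lit 185) (nat_lit 5) (nat_lit 178) (nat_lit 5) (nat_lit 368) (nat_lit 339) (nat_lit 193))) (XT.nd (nat_lit 78) (nat_lit 0) (nat_lit 0) (XT.lf (nat_lit 0) (nat_lit 7786638137) (nat_lit 456) (nat_lit 7912264805) (nat_lit 532) (nat_lit 5330182982) (nat_lit 171) (nat_lit 5) (nat_lit 177) (nat_lit 5) (nat_lit 178) (nat_lit 5) (nat_lit 369) (nat_lit 339) (nat_lit 192)) (XT.lf (nat_lit 0) (nat_lit 18756358301) (nat_lit 532) (nat_lit 2129852101) (nat_lit 76) (nat_lit 507845381) (nat_lit 171) (nat_lit 5) (nat_lit 178) (nat_lit 5) (nat_lit 172) (nat_lit 5) (nat_lit 370) (nat_lit 339) (nat_lit 191))))))))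
noncomputable def xc195 : XT := (XT.nd (nat_lit 2106) (nat_lit 3192) (nat_lit 0) (XT.nd (nat_lit 1014) (nat_lit 2660) (nat_lit 0) (XT.nd (nat_lit 468) (nat_lit 1292) (nat_lit 0) (XT.nd (nat_lit 234) (nat_lit 836) (nat_lit 0) (XT.nd (nat_lit 78) (nat_lit 456) (nat_lit 0) (XT.lf (nat_lit 0) (nat_lit 296478473) (nat_lit 532) (nat_lit 12354345190) (nat_lit 76) (nat_lit 9114208821) (nat_lit 164) (nat_lit 5) (nat_lit 171) (nat_lit 5) (nat_lit 165) (nat_lit 5) (nat_lit 371) (nat_lit 339) (nat_lit 190)) (XT.nd (nat_lit 78) (nat_lit 456) (nat_lit 0) (XT.lf (nat_lit 0) (nat_lit 3280572374) (nat_lit 532) (nat_lit 839577877) (nat_lit 76) (nat_lit 18025761097) (nat_lit 164) (nat_lit 5) (nat_lit 171) (nat_lit 5) (nat_lit 165) (nat_lit 5) (nat_lit 372) (nat_lit 339) (nat_lit 189)) (XT.lf (nat_lit 0) (nat_lit 6501461591) (nat_lit 532) (nat_lit 11348912217) (nat_lit 76) (nat_lit 4683428060) (nat_lit 158) (nat_lit 5) (nat_lit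 165) (nat_lit 5) (nat_lit 159) (nat_lit 5) (nat_lit 373) (nat_lit 339) (nat_lit 188)))) (XT.nd (nat_lit 78) (nat_lit 380) (nat_lit 0) (XT.lf (nat_lit 0) (nat_lit 617659321) (nat_lit 456) (nat_lit 9250106826) (nat_lit 532) (nat_lit 13064102661) (nat_lit 152) (nat_lit 5) (nat_lit 158) (nat_lit 5) (nat_lit 159) (nat_lit 5) (nat_lit 374) (nat_lit 339) (nat_lit 187)) (XT.nd (nat_lit 78) (nat_lit 380) (nat_lit 0) (XT.lf (nat_lit 0) (nat_lit 13168202593) (nat_lit 456) (nat_lit 275070498) (nat_lit 532) (nat_lit 9895361535) (nat_lit 152) (nat_lit 5) (nat_lit 158) (nat_lit 5) (nat_lit 159) (nat_lit 5) (nat_lit 375) (nat_lit 339) (nat_lit 186)) (XT.lf (nat_lit 0) (nat_lit 2288476576) (nat_lit 380) (nat_lit 14939570135) (nat_lit 456) (nat_lit 6526499834) (nat_lit 147) (nat_lit 5) (nat_lit 152) (nat_lit 5) (nat_lit 153) (nat_lit 5) (nat_lit 376) (nat_lit 339) (nat_lit 185))))) (XT.nd (nat_lit 234) (nat_lit 760) (nat_lit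 0) (XT.nd (nat_lit 78) (nat_lit 532) (nat_lit 0) (XT.lf (nat_lit 0) (nat_lit 15319312384) (nat_lit 380) (nat_lit 5906343439) (nat_lit 456) (nat_lit 2954304308) (nat_lit 147) (nat_lit 5) (nat_lit 152) (nat_lit 5) (nat_lit 153) (nat_lit 5) (nat_lit 377) (nat_lit 339) (nat_lit 184)) (XT.nd (nat_lit 78) (nat_lit 0) (nat_lit 0) (XT.lf (nat_lit 0) (nat_lit 778314807) (nat_lit 532) (nat_lit 20459731092) (nat_lit 76) (nat_lit 3377861851) (nat_lit 140) (nat_lit 5) (nat_lit 147) (nat_lit 5) (nat_lit 141) (nat_lit 5) (nat_lit 378) (nat_lit 339) (nat_lit 183)) (XT.lf (nat_lit 0) (nat_lit 4706473166) (nat_lit 532) (nat_lit 7413264878) (nat_lit 76) (nat_lit 12940032878) (nat_lit 140) (nat_lit 5) (nat_lit 147) (nat_lit 5) (nat_lit 141) (nat_lit 5) (nat_lit 379) (nat_lit 339) (nat_lit 182)))) (XT.nd (nat_lit 156) (nat_lit 380) (nat_lit 0) (XT.nd (nat_lit 78) (nat_lit 0) (nat_lit 0) (XT.lf (nat_lit 0) (nat_lit 6137029862)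 (nat_lit 380) (nat_lit 2668710708) (nat_lit 456) (nat_lit 16709614226) (nat_lit 135) (nat_lit 5) (nat_lit 140) (nat_lit 5) (nat_lit 141) (nat_lit 5) (nat_lit 380) (nat_lit 339) (nat_lit 181)) (XT.lf (nat_lit 0) (nat_lit 13165860893) (nat_lit 456) (nat_lit 5812630014) (nat_lit 76) (nat_lit 7001981687) (nat_lit 135) (nat_lit 5) (nat_lit 141) (nat_lit 5) (nat_lit 136) (nat_lit 5) (nat_lit 381) (nat_lit 339) (nat_lit 180))) (XT.nd (nat_lit 78) (nat_lit 0) (nat_lit 0) (XT.lf (nat_lit 0) (nat_lit 8288155031) (nat_lit 380) (nat_lit 9469240989) (nat_lit 456) (nat_lit 8699132149) (nat_lit 130) (nat_lit 5) (nat_lit 135) (nat_lit 5) (nat_lit 136) (nat_lit 5) (nat_lit 382) (nat_lit 339) (nat_lit 179)) (XT.lf (nat_lit 0) (nat_lit 22543673513) (nat_lit 456) (nat_lit 4024962429) (nat_lit 76) (nat_lit 376522082) (nat_lit 130) (nat_lit 5) (nat_lit 136) (nat_lit 5) (nat_lit 131) (nat_lit 5) (nat_lit 383) (nat_lit 339) (nat_lit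 178)))))) (XT.nd (nat_lit 546) (nat_lit 1216) (nat_lit 0) (XT.nd (nat_lit 234) (nat_lit 684) (nat_lit 0) (XT.nd (nat_lit 78) (nat_lit 380) (nat_lit 0) (XT.lf (nat_lit 0) (nat_lit 217366871) (nat_lit 380) (nat_lit 16795098222) (nat_lit 76) (nat_lit 10430193888) (nat_lit 125) (nat_lit 5) (nat_lit 130) (nat_lit 5) (nat_lit 126) (nat_lit 5) (nat_lit 384) (nat_lit 339) (nat_lit 177)) (XT.nd (nat_lit 78) (nat_lit 380) (nat_lit 0) (XT.lf (nat_lit 0) (nat_lit 4922146937) (nat_lit 380) (nat_lit 2162171749) (nat_lit 76) (nat_lit 20868386341) (nat_lit 125) (nat_lit 5) (nat_lit 130) (nat_lit 5) (nat_lit 126) (nat_lit 5) (nat_lit 385) (nat_lit 339) (nat_lit 176)) (XT.lf (nat_lit 0) (nat_lit 9920937605) (nat_lit 456) (nat_lit 15346197176) (nat_lit 76) (nat_lit 3206333881) (nat_lit 120) (nat_lit 5) (nat_lit 126) (nat_lit 5) (nat_lit 121) (nat_lit 5) (nat_lit 386) (nat_lit 339) (nat_lit 175)))) (XT.nd (nat_lit 156) (nat_lit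 380) (nat_lit 0) (XT.nd (nat_lit 78) (nat_lit 304) (nat_lit 0) (XT.lf (nat_lit 0) (nat_lit 15156881976) (nat_lit 456) (nat_lit 166789765) (nat_lit 76) (nat_lit 13683569926) (nat_lit 120) (nat_lit 5) (nat_lit 126) (nat_lit 5) (nat_lit 121) (nat_lit 5) (nat_lit 387) (nat_lit 339) (nat_lit 174)) (XT.lf (nat_lit 0) (nat_lit 15768959505) (nat_lit 304) (nat_lit 4927670080) (nat_lit 380) (nat_lit 8855998625) (nat_lit 116) (nat_lit 5) (nat_lit 120) (nat_lit 5) (nat_lit 121) (nat_lit 5) (nat_lit 388) (nat_lit 339) (nat_lit 173))) (XT.nd (nat_lit 78) (nat_lit 76) (nat_lit 0) (XT.lf (nat_lit 0) (nat_lit 2049477052) (nat_lit 304) (nat_lit 24425260159) (nat_lit 380) (nat_lit 3637476147) (nat_lit 112) (nat_lit 5) (nat_lit 116) (nat_lit 5) (nat_lit 117) (nat_lit 5) (nat_lit 389) (nat_lit 339) (nat_lit 172)) (XT.lf (nat_lit 0) (nat_lit 1888279180) (nat_lit 380) (nat_lit 12117951924) (nat_lit 76) (nat_lit 16676318266) (nat_lit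 111) (nat_lit 5) (nat_lit 116) (nat_lit 5) (nat_lit 112) (nat_lit 5) (nat_lit 390) (nat_lit 339) (nat_lit 171))))) (XT.nd (nat_lit 234) (nat_lit 608) (nat_lit 0) (XT.nd (nat_lit 78) (nat_lit 304) (nat_lit 0) (XT.lf (nat_lit 0) (nat_lit 4347352543) (nat_lit 304) (nat_lit 3196502436) (nat_lit 380) (nat_lit 23723947184) (nat_lit 107) (nat_lit 5) (nat_lit 111) (nat_lit 5) (nat_lit 112) (nat_lit 5) (nat_lit 391) (nat_lit 339) (nat_lit 170)) (XT.nd (nat_lit 78) (nat_lit 304) (nat_lit 0) (XT.lf (nat_lit 0) (nat_lit 13564397830) (nat_lit 380) (nat_lit 10396126536) (nat_lit 76) (nat_lit 7904230987) (nat_lit 107) (nat_lit 5) (nat_lit 112) (nat_lit 5) (nat_lit 108) (nat_lit 5) (nat_lit 392) (nat_lit 339) (nat_lit 169)) (XT.lf (nat_lit 0) (nat_lit 6716847131) (nat_lit 304) (nat_lit 13140478590) (nat_lit 380) (nat_lit 12619540114) (nat_lit 103) (nat_lit 5) (nat_lit 107) (nat_lit 5) (nat_lit 108) (nat_lit 5) (nat_lit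 393) (nat_lit 339) (nat_lit 168)))) (XT.nd (nat_lit 156) (nat_lit 380) (nat_lit 0) (XT.nd (nat_lit 78) (nat_lit 228) (nat_lit 0) (XT.lf (nat_lit 0) (nat_lit 24549883692) (nat_lit 304) (nat_lit 1889759650) (nat_lit 380) (nat_lit 6664679935) (nat_lit 103) (nat_lit 5) (nat_lit 107) (nat_lit 5) (nat_lit 108) (nat_lit 5) (nat_lit 394) (nat_lit 339) (nat_lit 167)) (XT.lf (nat_lit 0) (nat_lit 9248185359) (nat_lit 228) (nat_lit 24149101803) (nat_lit 304) (nat_lit 347983236) (nat_lit 100) (nat_lit 5) (nat_lit 103) (nat_lit 5) (nat_lit 104) (nat_lit 5) (nat_lit 395) (nat_lit 339) (nat_lit 166))) (XT.nd (nat_lit 78) (nat_lit 304) (nat_lit 0) (XT.lf (nat_lit 0) (nat_lit 6139744605) (nat_lit 304) (nat_lit 6727753068) (nat_lit 76) (nat_lit 21533122948) (nat_lit 99) (nat_lit 5) (nat_lit 103) (nat_lit 5) (nat_lit 100) (nat_lit 5) (nat_lit 396) (nat_lit 339) (nat_lit 165)) (XT.lf (nat_lit 0) (nat_lit 11795182886) (nat_lit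 304) (nat_lit 1129183915) (nat_lit 380) (nat_lit 22147885004) (nat_lit 95) (nat_lit 5) (nat_lit 99) (nat_lit 5) (nat_lit 100) (nat_lit 5) (nat_lit 397) (nat_lit 339) (nat_lit 164))))))) (XT.nd (nat_lit 1014) (nat_lit 1444) (nat_lit 0) (XT.nd (nat_lit 468) (nat_lit 912) (nat_lit 0) (XT.nd (nat_lit 234) (nat_lit 608) (nat_lit 0) (XT.nd (nat_lit 78) (nat_lit 228) (nat_lit 0) (XT.lf (nat_lit 0) (nat_lit 20082419341) (nat_lit 380) (nat_lit 4862553557) (nat_lit 76) (nat_lit 10813963746) (nat_lit 95) (nat_lit 5) (nat_lit 100) (nat_lit 5) (nat_lit 96) (nat_lit 5) (nat_lit 398) (nat_lit 339) (nat_lit 163)) (XT.nd (nat_lit 78) (nat_lit 0) (nat_lit 0) (XT.lf (nat_lit 0) (nat_lit 14367521216) (nat_lit 228) (nat_lit 13233016046) (nat_lit 304) (nat_lit 8861326480) (nat_lit 92) (nat_lit 5) (nat_lit 95) (nat_lit 5) (nat_lit 96) (nat_lit 5) (nat_lit 399) (nat_lit 339) (nat_lit 162)) (XT.lf (nat_lit 0) (nat_lit 34268177111)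 (nat_lit 228) (nat_lit 1121216074) (nat_lit 304) (nat_lit 1795131022) (nat_lit 92) (nat_lit 5) (nat_lit 95) (nat_lit 5) (nat_lit 96) (nat_lit 5) (nat_lit 400) (nat_lit 339) (nat_lit 161)))) (XT.nd (nat_lit 78) (nat_lit 228) (nat_lit 0) (XT.lf (nat_lit 0) (nat_lit 5647988913) (nat_lit 380) (nat_lit 20921433520) (nat_lit 76) (nat_lit 11349704183) (nat_lit 87) (nat_lit 5) (nat_lit 92) (nat_lit 5) (nat_lit 88) (nat_lit 5) (nat_lit 401) (nat_lit 339) (nat_lit 160)) (XT.nd (nat_lit 78) (nat_lit 228) (nat_lit 0) (XT.lf (nat_lit 0) (nat_lit 13315366947) (nat_lit 380) (nat_lit 1141051610) (nat_lit 76) (nat_lit 24217705257) (nat_lit 87) (nat_lit 5) (nat_lit 92) (nat_lit 5) (nat_lit 88) (nat_lit 5) (nat_lit 402) (nat_lit 339) (nat_lit 159)) (XT.lf (nat_lit 0) (nat_lit 19609630807) (nat_lit 228) (nat_lit 1787948624) (nat_lit 304) (nat_lit 18048648336) (nat_lit 84) (nat_lit 5) (nat_lit 87) (nat_lit 5) (nat_lit 88) (nat_lit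 5) (nat_lit 403) (nat_lit 339) (nat_lit 158))))) (XT.nd (nat_lit 234) (nat_lit 380) (nat_lit 0) (XT.nd (nat_lit 78) (nat_lit 304) (nat_lit 0) (XT.lf (nat_lit 0) (nat_lit 663872664) (nat_lit 228) (nat_lit 29180993080) (nat_lit 304) (nat_lit 10392952065) (nat_lit 81) (nat_lit 5) (nat_lit 84) (nat_lit 5) (nat_lit 85) (nat_lit 5) (nat_lit 404) (nat_lit 339) (nat_lit 157)) (XT.nd (nat_lit 78) (nat_lit 304) (nat_lit 0) (XT.lf (nat_lit 0) (nat_lit 22162190019) (nat_lit 228) (nat_lit 16597617399) (nat_lit 304) (nat_lit 2286922194) (nat_lit 81) (nat_lit 5) (nat_lit 84) (nat_lit 5) (nat_lit 85) (nat_lit 5) (nat_lit 405) (nat_lit 339) (nat_lit 156)) (XT.lf (nat_lit 0) (nat_lit 2408628167) (nat_lit 228) (nat_lit 3554982856) (nat_lit 304) (nat_lit 35913962020) (nat_lit 77) (nat_lit 5) (nat_lit 80) (nat_lit 5) (nat_lit 81) (nat_lit 5) (nat_lit 406) (nat_lit 339) (nat_lit 155)))) (XT.nd (nat_lit 156) (nat_lit 152) (nat_lit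 0) (XT.nd (nat_lit 78) (nat_lit 228) (nat_lit 0) (XT.lf (nat_lit 0) (nat_lit 14699737855) (nat_lit 304) (nat_lit 18125085100) (nat_lit 76) (nat_lit 9899319325) (nat_lit 77) (nat_lit 5) (nat_lit 81) (nat_lit 5) (nat_lit 78) (nat_lit 5) (nat_lit 407) (nat_lit 339) (nat_lit 154)) (XT.lf (nat_lit 0) (nat_lit 3894374701) (nat_lit 228) (nat_lit 19872804087) (nat_lit 304) (nat_lit 19826853930) (nat_lit 74) (nat_lit 5) (nat_lit 77) (nat_lit 5) (nat_lit 78) (nat_lit 5) (nat_lit 408) (nat_lit 339) (nat_lit 153))) (XT.nd (nat_lit 78) (nat_lit 152) (nat_lit 0) (XT.lf (nat_lit 0) (nat_lit 26940507609) (nat_lit 228) (nat_lit 6345807144) (nat_lit 304) (nat_lit 11198315963) (nat_lit 74) (nat_lit 5) (nat_lit 77) (nat_lit 5) (nat_lit 78) (nat_lit 5) (nat_lit 409) (nat_lit 339) (nat_lit 152)) (XT.lf (nat_lit 0) (nat_lit 5301215448) (nat_lit 152) (nat_lit 37910420881) (nat_lit 228) (nat_lit 2186692952) (nat_lit 72) (nat_lit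 5) (nat_lit 74) (nat_lit 5) (nat_lit 75) (nat_lit 5) (nat_lit 410) (nat_lit 339) (nat_lit 151)))))) (XT.nd (nat_lit 546) (nat_lit 684) (nat_lit 0) (XT.nd (nat_lit 234) (nat_lit 456) (nat_lit 0) (XT.nd (nat_lit 78) (nat_lit 228) (nat_lit 0) (XT.lf (nat_lit 0) (nat_lit 7195302863) (nat_lit 228) (nat_lit 17280751021) (nat_lit 76) (nat_lit 21854185352) (nat_lit 71) (nat_lit 5) (nat_lit 74) (nat_lit 5) (nat_lit 72) (nat_lit 5) (nat_lit 411) (nat_lit 339) (nat_lit 150)) (XT.nd (nat_lit 78) (nat_lit 0) (nat_lit 0) (XT.lf (nat_lit 0) (nat_lit 6316475916) (nat_lit 228) (nat_lit 10555878716) (nat_lit 304) (nat_lit 30415376842) (nat_lit 68) (nat_lit 5) (nat_lit 71) (nat_lit 5) (nat_lit 72) (nat_lit 5) (nat_lit 412) (nat_lit 339) (nat_lit 149)) (XT.lf (nat_lit 0) (nat_lit 27049152777) (nat_lit 304) (nat_lit 17336194215) (nat_lit 76) (nat_lit 3882319305) (nat_lit 68) (nat_lit 5) (nat_lit 72) (nat_lit 5) (nat_lit 69)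 (nat_lit 5) (nat_lit 413) (nat_lit 339) (nat_lit 148)))) (XT.nd (nat_lit 156) (nat_lit 304) (nat_lit 0) (XT.nd (nat_lit 78) (nat_lit 0) (nat_lit 0) (XT.lf (nat_lit 0) (nat_lit 7035590950) (nat_lit 152) (nat_lit 30664751107) (nat_lit 228) (nat_lit 11571585332) (nat_lit 66) (nat_lit 5) (nat_lit 68) (nat_lit 5) (nat_lit 69) (nat_lit 5) (nat_lit 414) (nat_lit 339) (nat_lit 147)) (XT.lf (nat_lit 0) (nat_lit 32488850608) (nat_lit 152) (nat_lit 16354261563) (nat_lit 228) (nat_lit 1458043602) (nat_lit 66) (nat_lit 5) (nat_lit 68) (nat_lit 5) (nat_lit 69) (nat_lit 5) (nat_lit 415) (nat_lit 339) (nat_lit 146))) (XT.nd (nat_lit 78) (nat_lit 0) (nat_lit 0) (XT.lf (nat_lit 0) (nat_lit 7397718219) (nat_lit 228) (nat_lit 1454518735) (nat_lit 304) (nat_lit 42504396677) (nat_lit 62) (nat_lit 5) (nat_lit 65) (nat_lit 5) (nat_lit 66) (nat_lit 5) (nat_lit 416) (nat_lit 339) (nat_lit 145)) (XT.lf (nat_lit 0) (nat_lit 19754772773)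 (nat_lit 304) (nat_lit 18863947001) (nat_lit 76) (nat_lit 13815256149) (nat_lit 62) (nat_lit 5) (nat_lit 66) (nat_lit 5) (nat_lit 63) (nat_lit 5) (nat_lit 417) (nat_lit 339) (nat_lit 144))))) (XT.nd (nat_lit 234) (nat_lit 380) (nat_lit 0) (XT.nd (nat_lit 78) (nat_lit 152) (nat_lit 0) (XT.lf (nat_lit 0) (nat_lit 7103237368) (nat_lit 152) (nat_lit 23960976084) (nat_lit 228) (nat_lit 22477030891) (nat_lit 60) (nat_lit 5) (nat_lit 62) (nat_lit 5) (nat_lit 63) (nat_lit 5) (nat_lit 418) (nat_lit 339) (nat_lit 143)) (XT.nd (nat_lit 78) (nat_lit 152) (nat_lit 0) (XT.lf (nat_lit 0) (nat_lit 34231335492) (nat_lit 152) (nat_lit 8669274699) (nat_lit 228) (nat_lit 11775491144) (nat_lit 60) (nat_lit 5) (nat_lit 62) (nat_lit 5) (nat_lit 63) (nat_lit 5) (nat_lit 419) (nat_lit 339) (nat_lit 142)) (XT.lf (nat_lit 0) (nat_lit 6379981528) (nat_lit 152) (nat_lit 48838761722) (nat_lit 228) (nat_lit 622462135) (nat_lit 58) (nat_lit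 5) (nat_lit 60) (nat_lit 5) (nat_lit 61) (nat_lit 5) (nat_lit 420) (nat_lit 339) (nat_lit 141)))) (XT.nd (nat_lit 156) (nat_lit 152) (nat_lit 0) (XT.nd (nat_lit 78) (nat_lit 152) (nat_lit 0) (XT.lf (nat_lit 0) (nat_lit 10944725133) (nat_lit 228) (nat_lit 22803548851) (nat_lit 76) (nat_lit 23281108367) (nat_lit 57) (nat_lit 5) (nat_lit 60) (nat_lit 5) (nat_lit 58) (nat_lit 5) (nat_lit 421) (nat_lit 339) (nat_lit 140)) (XT.lf (nat_lit 0) (nat_lit 4735510169) (nat_lit 152) (nat_lit 18153762766) (nat_lit 228) (nat_lit 35362461751) (nat_lit 55) (nat_lit 5) (nat_lit 57) (nat_lit 5) (nat_lit 58) (nat_lit 5) (nat_lit 422) (nat_lit 339) (nat_lit 139))) (XT.nd (nat_lit 78) (nat_lit 152) (nat_lit 0) (XT.lf (nat_lit 0) (nat_lit 33563646253) (nat_lit 152) (nat_lit 1856151143) (nat_lit 228) (nat_lit 24084131595) (nat_lit 55) (nat_lit 5) (nat_lit 57) (nat_lit 5) (nat_lit 58) (nat_lit 5) (nat_lit 423) (nat_lit 339) (nat_lit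 138)) (XT.lf (nat_lit 0) (nat_lit 2361017138) (nat_lit 152) (nat_lit 46128863881) (nat_lit 228) (nat_lit 12298899390) (nat_lit 53) (nat_lit 5) (nat_lit 55) (nat_lit 5) (nat_lit 56) (nat_lit 5) (nat_lit 424) (nat_lit 339) (nat_lit 137))))))))
noncomputable def xc196 : XT := (XT.nd (nat_lit 41496) (nat_lit 0) (nat_lit 6992) (XT.nd (nat_lit 40482) (nat_lit 0) (nat_lit 14136) (XT.nd (nat_lit 468) (nat_lit 380) (nat_lit 0) (XT.nd (nat_lit 234) (nat_lit 152) (nat_lit 0) (XT.nd (nat_lit 78) (nat_lit 152) (nat_lit 0) (XT.lf (nat_lit 0) (nat_lit 123365860) (nat_lit 228) (nat_lit 30085124639) (nat_lit 76) (nat_lit 31895323045) (nat_lit 52) (nat_lit 5) (nat_lit 55) (nat_lit 5) (nat_lit 53) (nat_lit 5) (nat_lit 425) (nat_lit 339) (nat_lit 136)) (XT.nd (nat_lit 78) (nat_lit 152) (nat_lit 0) (XT.lf (nat_lit 0) (nat_lit 12668612592) (nat_lit 228) (nat_lit 1018327490) (nat_lit 76) (nat_lit 49767779715) (nat_lit 52) (nat_lit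 5) (nat_lit 55) (nat_lit 5) (nat_lit 53) (nat_lit 5) (nat_lit 426) (nat_lit 339) (nat_lit 135)) (XT.lf (nat_lit 0) (nat_lit 25906093131) (nat_lit 228) (nat_lit 35380782524) (nat_lit 76) (nat_lit 3549801813) (nat_lit 50) (nat_lit 5) (nat_lit 53) (nat_lit 5) (nat_lit 51) (nat_lit 5) (nat_lit 427) (nat_lit 339) (nat_lit 134)))) (XT.nd (nat_lit 78) (nat_lit 152) (nat_lit 0) (XT.lf (nat_lit 0) (nat_lit 39684192042) (nat_lit 228) (nat_lit 5534418870) (nat_lit 76) (nat_lit 21037178645) (nat_lit 50) (nat_lit 5) (nat_lit 53) (nat_lit 5) (nat_lit 51) (nat_lit 5) (nat_lit 428) (nat_lit 339) (nat_lit 133)) (XT.nd (nat_lit 78) (nat_lit 0) (nat_lit 0) (XT.lf (nat_lit 0) (nat_lit 25704816440) (nat_lit 152) (nat_lit 28415572729) (nat_lit 228) (nat_lit 13589743675) (nat_lit 48) (nat_lit 5) (nat_lit 50) (nat_lit 5) (nat_lit 51) (nat_lit 5) (nat_lit 429) (nat_lit 339) (nat_lit 132)) (XT.lf (nat_lit 0) (nat_lit 57990606485)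 (nat_lit 152) (nat_lit 11052646200) (nat_lit 228) (nat_lit 163246808) (nat_lit 48) (nat_lit 5) (nat_lit 50) (nat_lit 5) (nat_lit 51) (nat_lit 5) (nat_lit 430) (nat_lit 339) (nat_lit 131))))) (XT.nd (nat_lit 234) (nat_lit 0) (nat_lit 0) (XT.nd (nat_lit 78) (nat_lit 152) (nat_lit 0) (XT.lf (nat_lit 0) (nat_lit 13665661219) (nat_lit 228) (nat_lit 50039733434) (nat_lit 76) (nat_lit 7030433248) (nat_lit 45) (nat_lit 5) (nat_lit 48) (nat_lit 5) (nat_lit 46) (nat_lit 5) (nat_lit 431) (nat_lit 339) (nat_lit 130)) (XT.nd (nat_lit 78) (nat_lit 152) (nat_lit 0) (XT.lf (nat_lit 0) (nat_lit 28127716891) (nat_lit 228) (nat_lit 18628462830) (nat_lit 76) (nat_lit 25548161543) (nat_lit 45) (nat_lit 5) (nat_lit 48) (nat_lit 5) (nat_lit 46) (nat_lit 5) (nat_lit 432) (nat_lit 339) (nat_lit 129)) (XT.lf (nat_lit 0) (nat_lit 13994331542) (nat_lit 152) (nat_lit 29161639777) (nat_lit 228) (nat_lit 30759969023) (nat_lit 43) (nat_lit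 5) (nat_lit 45) (nat_lit 5) (nat_lit 46) (nat_lit 5) (nat_lit 433) (nat_lit 339) (nat_lit 128)))) (XT.nd (nat_lit 39624) (nat_lit 0) (nat_lit 14972) (XT.nd (nat_lit 39546) (nat_lit 0) (nat_lit 14972) (XT.lf (nat_lit 0) (nat_lit 47973818987) (nat_lit 152) (nat_lit 10847206926) (nat_lit 228) (nat_lit 16749283314) (nat_lit 43) (nat_lit 5) (nat_lit 45) (nat_lit 5) (nat_lit 46) (nat_lit 5) (nat_lit 434) (nat_lit 339) (nat_lit 127)) (XT.lf (nat_lit 0) (nat_lit 1407821026) (nat_lit 0) (nat_lit 1407821026) (nat_lit 1140) (nat_lit 3956798979) (nat_lit 240) (nat_lit 5) (nat_lit 240) (nat_lit 3) (nat_lit 255) (nat_lit 3) (nat_lit 340) (nat_lit 340) (nat_lit 220))) (XT.nd (nat_lit 78) (nat_lit 0) (nat_lit 0) (XT.lf (nat_lit 0) (nat_lit 6106435139) (nat_lit 1140) (nat_lit 4342943383) (nat_lit 1216) (nat_lit 3286720822) (nat_lit 240) (nat_lit 5) (nat_lit 255) (nat_lit 3) (nat_lit 256) (nat_lit 5) (nat_lit 341) (nat_lit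 340) (nat_lit 219)) (XT.lf (nat_lit 76) (nat_lit 2243349381) (nat_lit 0) (nat_lit 4388010996) (nat_lit 1216) (nat_lit 7300636364) (nat_lit 241) (nat_lit 5) (nat_lit 240) (nat_lit 5) (nat_lit 256) (nat_lit 5) (nat_lit 342) (nat_lit 340) (nat_lit 218)))))) (XT.nd (nat_lit 468) (nat_lit 912) (nat_lit 0) (XT.nd (nat_lit 234) (nat_lit 0) (nat_lit 76) (XT.nd (nat_lit 78) (nat_lit 0) (nat_lit 0) (XT.lf (nat_lit 0) (nat_lit 7220627200) (nat_lit 1140) (nat_lit 5042359291) (nat_lit 1216) (nat_lit 1869335681) (nat_lit 241) (nat_lit 5) (nat_lit 256) (nat_lit 5) (nat_lit 257) (nat_lit 5) (nat_lit 343) (nat_lit 340) (nat_lit 217)) (XT.nd (nat_lit 78) (nat_lit 0) (nat_lit 76) (XT.lf (nat_lit 76) (nat_lit 1787080662) (nat_lit 0) (nat_lit 6087980682) (nat_lit 1216) (nat_lit 6462180003) (nat_lit 242) (nat_lit 5) (nat_lit 241) (nat_lit 5) (nat_lit 257) (nat_lit 5) (nat_lit 344) (nat_lit 340) (nat_lit 216)) (XT.lf (nat_lit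 0) (nat_lit 8590392988) (nat_lit 1140) (nat_lit 5633166601) (nat_lit 1216) (nat_lit 323518986) (nat_lit 242) (nat_lit 5) (nat_lit 257) (nat_lit 5) (nat_lit 258) (nat_lit 5) (nat_lit 345) (nat_lit 340) (nat_lit 215)))) (XT.nd (nat_lit 78) (nat_lit 0) (nat_lit 0) (XT.lf (nat_lit 76) (nat_lit 1451588057) (nat_lit 0) (nat_lit 7937424313) (nat_lit 1216) (nat_lit 5372351881) (nat_lit 243) (nat_lit 5) (nat_lit 242) (nat_lit 5) (nat_lit 258) (nat_lit 5) (nat_lit 346) (nat_lit 340) (nat_lit 214)) (XT.nd (nat_lit 78) (nat_lit 0) (nat_lit 76) (XT.lf (nat_lit 76) (nat_lit 8856638274) (nat_lit 0) (nat_lit 1399720222) (nat_lit 1216) (nat_lit 4724384885) (nat_lit 243) (nat_lit 5) (nat_lit 242) (nat_lit 5) (nat_lit 258) (nat_lit 5) (nat_lit 347) (nat_lit 340) (nat_lit 213)) (XT.lf (nat_lit 76) (nat_lit 1242203019) (nat_lit 0) (nat_lit 9959015701) (nat_lit 1216) (nat_lit 4003948052) (nat_lit 244) (nat_lit 5) (nat_lit 243)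 (nat_lit 5) (nat_lit 259) (nat_lit 5) (nat_lit 348) (nat_lit 340) (nat_lit 212))))) (XT.nd (nat_lit 234) (nat_lit 1064) (nat_lit 0) (XT.nd (nat_lit 78) (nat_lit 0) (nat_lit 76) (XT.lf (nat_lit 76) (nat_lit 8933083374) (nat_lit 0) (nat_lit 3305449934) (nat_lit 1216) (nat_lit 3195873771) (nat_lit 244) (nat_lit 5) (nat_lit 243) (nat_lit 5) (nat_lit 259) (nat_lit 5) (nat_lit 349) (nat_lit 340) (nat_lit 211)) (XT.nd (nat_lit 78) (nat_lit 0) (nat_lit 0) (XT.lf (nat_lit 76) (nat_lit 1164824800) (nat_lit 0) (nat_lit 12176354365) (nat_lit 1216) (nat_lit 2328326331) (nat_lit 245) (nat_lit 5) (nat_lit 244) (nat_lit 5) (nat_lit 260) (nat_lit 5) (nat_lit 350) (nat_lit 340) (nat_lit 210)) (XT.lf (nat_lit 76) (nat_lit 9152960290) (nat_lit 0) (nat_lit 5411160155) (nat_lit 1216) (nat_lit 1344926984) (nat_lit 245) (nat_lit 5) (nat_lit 244) (nat_lit 5) (nat_lit 260) (nat_lit 5) (nat_lit 351) (nat_lit 340) (nat_lit 209))))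 (XT.nd (nat_lit 156) (nat_lit 0) (nat_lit 0) (XT.nd (nat_lit 78) (nat_lit 1216) (nat_lit 0) (XT.lf (nat_lit 76) (nat_lit 1225909379) (nat_lit 0) (nat_lit 14614093867) (nat_lit 1216) (nat_lit 315291614) (nat_lit 246) (nat_lit 5) (nat_lit 245) (nat_lit 5) (nat_lit 261) (nat_lit 5) (nat_lit 352) (nat_lit 340) (nat_lit 208)) (XT.lf (nat_lit 0) (nat_lit 842788885) (nat_lit 1216) (nat_lit 6890583454) (nat_lit 1292) (nat_lit 8671985964) (nat_lit 229) (nat_lit 5) (nat_lit 245) (nat_lit 5) (nat_lit 246) (nat_lit 5) (nat_lit 353) (nat_lit 340) (nat_lit 207))) (XT.nd (nat_lit 78) (nat_lit 0) (nat_lit 76) (XT.lf (nat_lit 76) (nat_lit 1405785654) (nat_lit 0) (nat_lit 626928283) (nat_lit 1292) (nat_lit 14630019146) (nat_lit 230) (nat_lit 5) (nat_lit 229) (nat_lit 5) (nat_lit 246) (nat_lit 5) (nat_lit 354) (nat_lit 340) (nat_lit 206)) (XT.lf (nat_lit 0) (nat_lit 3383105008) (nat_lit 1216) (nat_lit 6906619893) (nat_lit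 1292) (nat_lit 6634367231) (nat_lit 230) (nat_lit 5) (nat_lit 246) (nat_lit 5) (nat_lit 247) (nat_lit 5) (nat_lit 355) (nat_lit 340) (nat_lit 205))))))) (XT.nd (nat_lit 1014) (nat_lit 3192) (nat_lit 0) (XT.nd (nat_lit 468) (nat_lit 2280) (nat_lit 0) (XT.nd (nat_lit 234) (nat_lit 608) (nat_lit 0) (XT.nd (nat_lit 78) (nat_lit 1140) (nat_lit 0) (XT.lf (nat_lit 76) (nat_lit 1713533951) (nat_lit 0) (nat_lit 3073602655) (nat_lit 1292) (nat_lit 12405767384) (nat_lit 231) (nat_lit 5) (nat_lit 230) (nat_lit 5) (nat_lit 247) (nat_lit 5) (nat_lit 356) (nat_lit 340) (nat_lit 204)) (XT.nd (nat_lit 78) (nat_lit 1216) (nat_lit 0) (XT.lf (nat_lit 0) (nat_lit 6336291807) (nat_lit 1216) (nat_lit 6784545101) (nat_lit 76) (nat_lit 4345858943) (nat_lit 231) (nat_lit 5) (nat_lit 247) (nat_lit 5) (nat_lit 232) (nat_lit 5) (nat_lit 357) (nat_lit 340) (nat_lit 203)) (XT.lf (nat_lit 0) (nat_lit 2175240023) (nat_lit 1216) (nat_lit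 5798962314) (nat_lit 1292) (nat_lit 9773236271) (nat_lit 215) (nat_lit 5) (nat_lit 231) (nat_lit 5) (nat_lit 232) (nat_lit 5) (nat_lit 358) (nat_lit 340) (nat_lit 202)))) (XT.nd (nat_lit 78) (nat_lit 608) (nat_lit 0) (XT.lf (nat_lit 0) (nat_lit 9738327777) (nat_lit 1292) (nat_lit 6517185890) (nat_lit 76) (nat_lit 1778783052) (nat_lit 215) (nat_lit 5) (nat_lit 232) (nat_lit 5) (nat_lit 216) (nat_lit 5) (nat_lit 359) (nat_lit 340) (nat_lit 201)) (XT.nd (nat_lit 78) (nat_lit 0) (nat_lit 0) (XT.lf (nat_lit 0) (nat_lit 2798808765) (nat_lit 608) (nat_lit 8832283694) (nat_lit 684) (nat_lit 6696401892) (nat_lit 207) (nat_lit 5) (nat_lit 215) (nat_lit 5) (nat_lit 216) (nat_lit 5) (nat_lit 360) (nat_lit 340) (nat_lit 200)) (XT.lf (nat_lit 0) (nat_lit 12520088523) (nat_lit 608) (nat_lit 1117934213) (nat_lit 684) (nat_lit 4989748783) (nat_lit 207) (nat_lit 5) (nat_lit 215) (nat_lit 5) (nat_lit 216) (nat_lit 5) (nat_lit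 361) (nat_lit 340) (nat_lit 199))))) (XT.nd (nat_lit 234) (nat_lit 1064) (nat_lit 0) (XT.nd (nat_lit 78) (nat_lit 684) (nat_lit 0) (XT.lf (nat_lit 0) (nat_lit 3592600705) (nat_lit 532) (nat_lit 12204551211) (nat_lit 608) (nat_lit 3137150298) (nat_lit 200) (nat_lit 5) (nat_lit 207) (nat_lit 5) (nat_lit 208) (nat_lit 5) (nat_lit 362) (nat_lit 340) (nat_lit 198)) (XT.nd (nat_lit 78) (nat_lit 684) (nat_lit 0) (XT.lf (nat_lit 0) (nat_lit 13690062041) (nat_lit 532) (nat_lit 4395615700) (nat_lit 608) (nat_lit 1162417202) (nat_lit 200) (nat_lit 5) (nat_lit 207) (nat_lit 5) (nat_lit 208) (nat_lit 5) (nat_lit 363) (nat_lit 340) (nat_lit 197)) (XT.lf (nat_lit 0) (nat_lit 926422044) (nat_lit 684) (nat_lit 15012841464) (nat_lit 76) (nat_lit 3629634987) (nat_lit 191) (nat_lit 5) (nat_lit 200) (nat_lit 5) (nat_lit 192) (nat_lit 5) (nat_lit 364) (nat_lit 340) (nat_lit 196)))) (XT.nd (nat_lit 156) (nat_lit 532) (nat_lit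 0) (XT.nd (nat_lit 78) (nat_lit 532) (nat_lit 0) (XT.lf (nat_lit 0) (nat_lit 3147060571) (nat_lit 684) (nat_lit 4873564358) (nat_lit 76) (nat_lit 11875585416) (nat_lit 191) (nat_lit 5) (nat_lit 200) (nat_lit 5) (nat_lit 192) (nat_lit 5) (nat_lit 365) (nat_lit 340) (nat_lit 195)) (XT.lf (nat_lit 0) (nat_lit 5483212324) (nat_lit 608) (nat_lit 14560796562) (nat_lit 76) (nat_lit 187870104) (nat_lit 184) (nat_lit 5) (nat_lit 192) (nat_lit 5) (nat_lit 185) (nat_lit 5) (nat_lit 366) (nat_lit 340) (nat_lit 194))) (XT.nd (nat_lit 78) (nat_lit 532) (nat_lit 0) (XT.lf (nat_lit 0) (nat_lit 8011224985) (nat_lit 608) (nat_lit 4031828145) (nat_lit 76) (nat_lit 8530915412) (nat_lit 184) (nat_lit 5) (nat_lit 192) (nat_lit 5) (nat_lit 185) (nat_lit 5) (nat_lit 367) (nat_lit 340) (nat_lit 193)) (XT.lf (nat_lit 0) (nat_lit 6940918265) (nat_lit 532) (nat_lit 3733757316) (nat_lit 608) (nat_lit 10249861288) (nat_lit 177) (nat_lit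 5) (nat_lit 184) (nat_lit 5) (nat_lit 185) (nat_lit 5) (nat_lit 368) (nat_lit 340) (nat_lit 192)))))) (XT.nd (nat_lit 546) (nat_lit 1292) (nat_lit 0) (XT.nd (nat_lit 234) (nat_lit 1444) (nat_lit 0) (XT.nd (nat_lit 78) (nat_lit 456) (nat_lit 0) (XT.lf (nat_lit 0) (nat_lit 13498533873) (nat_lit 608) (nat_lit 3013355937) (nat_lit 76) (nat_lit 4771321212) (nat_lit 177) (nat_lit 5) (nat_lit 185) (nat_lit 5) (nat_lit 178) (nat_lit 5) (nat_lit 369) (nat_lit 340) (nat_lit 191)) (XT.nd (nat_lit 78) (nat_lit 0) (nat_lit 0) (XT.lf (nat_lit 0) (nat_lit 8405625614) (nat_lit 456) (nat_lit 8112462264) (nat_lit 532) (nat_lit 5131231909) (nat_lit 171) (nat_lit 5) (nat_lit 177) (nat_lit 5) (nat_lit 178) (nat_lit 5) (nat_lit 370) (nat_lit 340) (nat_lit 190)) (XT.lf (nat_lit 0) (nat_lit 19657471529) (nat_lit 532) (nat_lit 1809602283) (nat_lit 76) (nat_lit 558464389) (nat_lit 171) (nat_lit 5) (nat_lit 178) (nat_lit 5) (nat_lit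 172) (nat_lit 5) (nat_lit 371) (nat_lit 340) (nat_lit 189)))) (XT.nd (nat_lit 156) (nat_lit 912) (nat_lit 0) (XT.nd (nat_lit 78) (nat_lit 0) (nat_lit 0) (XT.lf (nat_lit 0) (nat_lit 641061717) (nat_lit 532) (nat_lit 12337739558) (nat_lit 76) (nat_lit 9428935645) (nat_lit 164) (nat_lit 5) (nat_lit 171) (nat_lit 5) (nat_lit 165) (nat_lit 5) (nat_lit 372) (nat_lit 340) (nat_lit 188)) (XT.lf (nat_lit 0) (nat_lit 3704901089) (nat_lit 532) (nat_lit 488807944) (nat_lit 76) (nat_lit 18606631561) (nat_lit 164) (nat_lit 5) (nat_lit 171) (nat_lit 5) (nat_lit 165) (nat_lit 5) (nat_lit 373) (nat_lit 340) (nat_lit 187))) (XT.nd (nat_lit 78) (nat_lit 456) (nat_lit 0) (XT.lf (nat_lit 0) (nat_lit 7017005403) (nat_lit 532) (nat_lit 11307844959) (nat_lit 76) (nat_lit 4875184788) (nat_lit 158) (nat_lit 5) (nat_lit 165) (nat_lit 5) (nat_lit 159) (nat_lit 5) (nat_lit 374) (nat_lit 340) (nat_lit 186)) (XT.lf (nat_lit 0) (nat_lit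 1013983190) (nat_lit 456) (nat_lit 9464612544) (nat_lit 532) (nat_lit 13131624295) (nat_lit 152) (nat_lit 5) (nat_lit 158) (nat_lit 5) (nat_lit 159) (nat_lit 5) (nat_lit 375) (nat_lit 340) (nat_lit 185))))) (XT.nd (nat_lit 234) (nat_lit 912) (nat_lit 0) (XT.nd (nat_lit 78) (nat_lit 380) (nat_lit 0) (XT.lf (nat_lit 0) (nat_lit 13930039049) (nat_lit 456) (nat_lit 222160003) (nat_lit 532) (nat_lit 9877269521) (nat_lit 152) (nat_lit 5) (nat_lit 158) (nat_lit 5) (nat_lit 159) (nat_lit 5) (nat_lit 376) (nat_lit 340) (nat_lit 184)) (XT.nd (nat_lit 78) (nat_lit 0) (nat_lit 0) (XT.lf (nat_lit 0) (nat_lit 2728976768) (nat_lit 380) (nat_lit 15316782551) (nat_lit 456) (nat_lit 6412245778) (nat_lit 147) (nat_lit 5) (nat_lit 152) (nat_lit 5) (nat_lit 153) (nat_lit 5) (nat_lit 377) (nat_lit 340) (nat_lit 183)) (XT.lf (nat_lit 0) (nat_lit 16139907187) (nat_lit 380) (nat_lit 6014626279) (nat_lit 456) (nat_lit 2741914941)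 (nat_lit 147) (nat_lit 5) (nat_lit 152) (nat_lit 5) (nat_lit 153) (nat_lit 5) (nat_lit 378) (nat_lit 340) (nat_lit 182)))) (XT.nd (nat_lit 156) (nat_lit 380) (nat_lit 0) (XT.nd (nat_lit 78) (nat_lit 0) (nat_lit 0) (XT.lf (nat_lit 0) (nat_lit 1092411392) (nat_lit 532) (nat_lit 20701954404) (nat_lit 76) (nat_lit 3551157938) (nat_lit 140) (nat_lit 5) (nat_lit 147) (nat_lit 5) (nat_lit 141) (nat_lit 5) (nat_lit 379) (nat_lit 340) (nat_lit 181)) (XT.lf (nat_lit 0) (nat_lit 5129946139) (nat_lit 532) (nat_lit 7274916591) (nat_lit 76) (nat_lit 13398098166) (nat_lit 140) (nat_lit 5) (nat_lit 147) (nat_lit 5) (nat_lit 141) (nat_lit 5) (nat_lit 380) (nat_lit 340) (nat_lit 180))) (XT.nd (nat_lit 78) (nat_lit 0) (nat_lit 0) (XT.lf (nat_lit 0) (nat_lit 6678350263) (nat_lit 380) (nat_lit 2669053306) (nat_lit 456) (nat_lit 16924956282) (nat_lit 135) (nat_lit 5) (nat_lit 140) (nat_lit 5) (nat_lit 141) (nat_lit 5) (nat_lit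 381) (nat_lit 340) (nat_lit 179)) (XT.lf (nat_lit 0) (nat_lit 13830989231) (nat_lit 456) (nat_lit 5632738246) (nat_lit 76) (nat_lit 7287927666) (nat_lit 135) (nat_lit 5) (nat_lit 141) (nat_lit 5) (nat_lit 136) (nat_lit 5) (nat_lit 382) (nat_lit 340) (nat_lit 178))))))))
noncomputable def xc197 : XT := (XT.nd (nat_lit 2028) (nat_lit 2584) (nat_lit 0) (XT.nd (nat_lit 1014) (nat_lit 1976) (nat_lit 0) (XT.nd (nat_lit 468) (nat_lit 988) (nat_lit 0) (XT.nd (nat_lit 234) (nat_lit 684) (nat_lit 0) (XT.nd (nat_lit 78) (nat_lit 380) (nat_lit 0) (XT.lf (nat_lit 0) (nat_lit 8887597108) (nat_lit 380) (nat_lit 9668176864) (nat_lit 456) (nat_lit 8686357007) (nat_lit 130) (nat_lit 5) (nat_lit 135) (nat_lit 5) (nat_lit 136) (nat_lit 5) (nat_lit 383) (nat_lit 340) (nat_lit 177)) (XT.nd (nat_lit 78) (nat_lit 380) (nat_lit 0) (XT.lf (nat_lit 0) (nat_lit 23478696827) (nat_lit 456) (nat_lit 3798068555) (nat_lit 76) (nat_lit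 468866231) (nat_lit 130) (nat_lit 5) (nat_lit 136) (nat_lit 5) (nat_lit 131) (nat_lit 5) (nat_lit 384) (nat_lit 340) (nat_lit 176)) (XT.lf (nat_lit 0) (nat_lit 481008318) (nat_lit 380) (nat_lit 16949486597) (nat_lit 76) (nat_lit 10827617337) (nat_lit 125) (nat_lit 5) (nat_lit 130) (nat_lit 5) (nat_lit 126) (nat_lit 5) (nat_lit 385) (nat_lit 340) (nat_lit 175)))) (XT.nd (nat_lit 78) (nat_lit 684) (nat_lit 0) (XT.lf (nat_lit 0) (nat_lit 5319442842) (nat_lit 380) (nat_lit 1887750910) (nat_lit 76) (nat_lit 21576493885) (nat_lit 125) (nat_lit 5) (nat_lit 130) (nat_lit 5) (nat_lit 126) (nat_lit 5) (nat_lit 386) (nat_lit 340) (nat_lit 174)) (XT.nd (nat_lit 78) (nat_lit 304) (nat_lit 0) (XT.lf (nat_lit 0) (nat_lit 10465024547) (nat_lit 456) (nat_lit 15464018011) (nat_lit 76) (nat_lit 3391129995) (nat_lit 120) (nat_lit 5) (nat_lit 126) (nat_lit 5) (nat_lit 121) (nat_lit 5) (nat_lit 387) (nat_lit 340) (nat_lit 173))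 (XT.lf (nat_lit 0) (nat_lit 163994113) (nat_lit 304) (nat_lit 15688451135) (nat_lit 380) (nat_lit 14017684659) (nat_lit 116) (nat_lit 5) (nat_lit 120) (nat_lit 5) (nat_lit 121) (nat_lit 5) (nat_lit 388) (nat_lit 340) (nat_lit 172))))) (XT.nd (nat_lit 234) (nat_lit 608) (nat_lit 0) (XT.nd (nat_lit 78) (nat_lit 380) (nat_lit 0) (XT.lf (nat_lit 0) (nat_lit 16571355085) (nat_lit 304) (nat_lit 4981650147) (nat_lit 380) (nat_lit 8879037224) (nat_lit 116) (nat_lit 5) (nat_lit 120) (nat_lit 5) (nat_lit 121) (nat_lit 5) (nat_lit 389) (nat_lit 340) (nat_lit 171)) (XT.nd (nat_lit 78) (nat_lit 76) (nat_lit 0) (XT.lf (nat_lit 0) (nat_lit 2443260523) (nat_lit 304) (nat_lit 25058407148) (nat_lit 380) (nat_lit 3506834061) (nat_lit 112) (nat_lit 5) (nat_lit 116) (nat_lit 5) (nat_lit 117) (nat_lit 5) (nat_lit 390) (nat_lit 340) (nat_lit 170)) (XT.lf (nat_lit 0) (nat_lit 2173168007) (nat_lit 380) (nat_lit 12154235720) (nat_lit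 76) (nat_lit 17268683125) (nat_lit 111) (nat_lit 5) (nat_lit 116) (nat_lit 5) (nat_lit 112) (nat_lit 5) (nat_lit 391) (nat_lit 340) (nat_lit 169)))) (XT.nd (nat_lit 156) (nat_lit 304) (nat_lit 0) (XT.nd (nat_lit 78) (nat_lit 0) (nat_lit 0) (XT.lf (nat_lit 0) (nat_lit 4801819501) (nat_lit 304) (nat_lit 3193058730) (nat_lit 380) (nat_lit 24204127656) (nat_lit 107) (nat_lit 5) (nat_lit 111) (nat_lit 5) (nat_lit 112) (nat_lit 5) (nat_lit 392) (nat_lit 340) (nat_lit 168)) (XT.lf (nat_lit 0) (nat_lit 14190419579) (nat_lit 380) (nat_lit 10387697889) (nat_lit 76) (nat_lit 8235921336) (nat_lit 107) (nat_lit 5) (nat_lit 112) (nat_lit 5) (nat_lit 108) (nat_lit 5) (nat_lit 393) (nat_lit 340) (nat_lit 167))) (XT.nd (nat_lit 78) (nat_lit 0) (nat_lit 0) (XT.lf (nat_lit 0) (nat_lit 7235524670) (nat_lit 304) (nat_lit 13433278231) (nat_lit 380) (nat_lit 12775812189) (nat_lit 103) (nat_lit 5) (nat_lit 107) (nat_lit 5) (nat_lit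 108) (nat_lit 5) (nat_lit 394) (nat_lit 340) (nat_lit 166)) (XT.lf (nat_lit 0) (nat_lit 25594314305) (nat_lit 304) (nat_lit 1847991550) (nat_lit 380) (nat_lit 6648781373) (nat_lit 103) (nat_lit 5) (nat_lit 107) (nat_lit 5) (nat_lit 108) (nat_lit 5) (nat_lit 395) (nat_lit 340) (nat_lit 165)))))) (XT.nd (nat_lit 468) (nat_lit 1140) (nat_lit 0) (XT.nd (nat_lit 234) (nat_lit 228) (nat_lit 0) (XT.nd (nat_lit 78) (nat_lit 380) (nat_lit 0) (XT.lf (nat_lit 0) (nat_lit 9835912211) (nat_lit 228) (nat_lit 24770567130) (nat_lit 304) (nat_lit 144851786) (nat_lit 100) (nat_lit 5) (nat_lit 103) (nat_lit 5) (nat_lit 104) (nat_lit 5) (nat_lit 396) (nat_lit 340) (nat_lit 164)) (XT.nd (nat_lit 78) (nat_lit 304) (nat_lit 0) (XT.lf (nat_lit 0) (nat_lit 6527241223) (nat_lit 304) (nat_lit 6624220904) (nat_lit 76) (nat_lit 22275003354) (nat_lit 99) (nat_lit 5) (nat_lit 103) (nat_lit 5) (nat_lit 100) (nat_lit 5) (nat_lit 397) (nat_lit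 340) (nat_lit 163)) (XT.lf (nat_lit 0) (nat_lit 12451409356) (nat_lit 304) (nat_lit 1060977820) (nat_lit 380) (nat_lit 22605951046) (nat_lit 95) (nat_lit 5) (nat_lit 99) (nat_lit 5) (nat_lit 100) (nat_lit 5) (nat_lit 398) (nat_lit 340) (nat_lit 162)))) (XT.nd (nat_lit 78) (nat_lit 228) (nat_lit 0) (XT.lf (nat_lit 0) (nat_lit 20880300311) (nat_lit 380) (nat_lit 4709914775) (nat_lit 76) (nat_lit 11235557060) (nat_lit 95) (nat_lit 5) (nat_lit 100) (nat_lit 5) (nat_lit 96) (nat_lit 5) (nat_lit 399) (nat_lit 340) (nat_lit 161)) (XT.nd (nat_lit 78) (nat_lit 0) (nat_lit 0) (XT.lf (nat_lit 0) (nat_lit 15094135620) (nat_lit 228) (nat_lit 13526976024) (nat_lit 304) (nat_lit 8928762966) (nat_lit 92) (nat_lit 5) (nat_lit 95) (nat_lit 5) (nat_lit 96) (nat_lit 5) (nat_lit 400) (nat_lit 340) (nat_lit 160)) (XT.lf (nat_lit 0) (nat_lit 35583201810) (nat_lit 228) (nat_lit 1054822941) (nat_lit 304) (nat_lit 1656360381) (nat_lit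 92) (nat_lit 5) (nat_lit 95) (nat_lit 5) (nat_lit 96) (nat_lit 5) (nat_lit 401) (nat_lit 340) (nat_lit 159))))) (XT.nd (nat_lit 234) (nat_lit 532) (nat_lit 0) (XT.nd (nat_lit 78) (nat_lit 228) (nat_lit 0) (XT.lf (nat_lit 0) (nat_lit 6004540119) (nat_lit 380) (nat_lit 21256457229) (nat_lit 76) (nat_lit 11790027220) (nat_lit 87) (nat_lit 5) (nat_lit 92) (nat_lit 5) (nat_lit 88) (nat_lit 5) (nat_lit 402) (nat_lit 340) (nat_lit 158)) (XT.nd (nat_lit 78) (nat_lit 228) (nat_lit 0) (XT.lf (nat_lit 0) (nat_lit 13896489643) (nat_lit 380) (nat_lit 891186753) (nat_lit 76) (nat_lit 25041160601) (nat_lit 87) (nat_lit 5) (nat_lit 92) (nat_lit 5) (nat_lit 88) (nat_lit 5) (nat_lit 403) (nat_lit 340) (nat_lit 157)) (XT.lf (nat_lit 0) (nat_lit 20479230878) (nat_lit 228) (nat_lit 1739350642) (nat_lit 304) (nat_lit 18405601926) (nat_lit 84) (nat_lit 5) (nat_lit 87) (nat_lit 5) (nat_lit 88) (nat_lit 5) (nat_lit 404) (nat_lit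 340) (nat_lit 156)))) (XT.nd (nat_lit 156) (nat_lit 304) (nat_lit 0) (XT.nd (nat_lit 78) (nat_lit 0) (nat_lit 0) (XT.lf (nat_lit 0) (nat_lit 966746822) (nat_lit 228) (nat_lit 29950997932) (nat_lit 304) (nat_lit 10521824401) (nat_lit 81) (nat_lit 5) (nat_lit 84) (nat_lit 5) (nat_lit 85) (nat_lit 5) (nat_lit 405) (nat_lit 340) (nat_lit 155)) (XT.lf (nat_lit 0) (nat_lit 23101772202) (nat_lit 228) (nat_lit 16993191610) (nat_lit 304) (nat_lit 2177941290) (nat_lit 81) (nat_lit 5) (nat_lit 84) (nat_lit 5) (nat_lit 85) (nat_lit 5) (nat_lit 406) (nat_lit 340) (nat_lit 154))) (XT.nd (nat_lit 78) (nat_lit 0) (nat_lit 0) (XT.lf (nat_lit 0) (nat_lit 2756395001) (nat_lit 228) (nat_lit 3557824332) (nat_lit 304) (nat_lit 36814477558) (nat_lit 77) (nat_lit 5) (nat_lit 80) (nat_lit 5) (nat_lit 81) (nat_lit 5) (nat_lit 407) (nat_lit 340) (nat_lit 153)) (XT.lf (nat_lit 0) (nat_lit 15308397802) (nat_lit 304) (nat_lit 18397271182)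 (nat_lit 76) (nat_lit 10295116712) (nat_lit 77) (nat_lit 5) (nat_lit 81) (nat_lit 5) (nat_lit 78) (nat_lit 5) (nat_lit 408) (nat_lit 340) (nat_lit 152))))))) (XT.nd (nat_lit 1014) (nat_lit 1140) (nat_lit 0) (XT.nd (nat_lit 468) (nat_lit 760) (nat_lit 0) (XT.nd (nat_lit 234) (nat_lit 304) (nat_lit 0) (XT.nd (nat_lit 78) (nat_lit 152) (nat_lit 0) (XT.lf (nat_lit 0) (nat_lit 4280109997) (nat_lit 228) (nat_lit 20365453307) (nat_lit 304) (nat_lit 20251279981) (nat_lit 74) (nat_lit 5) (nat_lit 77) (nat_lit 5) (nat_lit 78) (nat_lit 5) (nat_lit 409) (nat_lit 340) (nat_lit 151)) (XT.nd (nat_lit 78) (nat_lit 152) (nat_lit 0) (XT.lf (nat_lit 0) (nat_lit 28009794736) (nat_lit 228) (nat_lit 6435662035) (nat_lit 304) (nat_lit 11368848387) (nat_lit 74) (nat_lit 5) (nat_lit 77) (nat_lit 5) (nat_lit 78) (nat_lit 5) (nat_lit 410) (nat_lit 340) (nat_lit 150)) (XT.lf (nat_lit 0) (nat_lit 5722624289) (nat_lit 152) (nat_lit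 38944697609) (nat_lit 228) (nat_lit 2088130658) (nat_lit 72) (nat_lit 5) (nat_lit 74) (nat_lit 5) (nat_lit 75) (nat_lit 5) (nat_lit 411) (nat_lit 340) (nat_lit 149)))) (XT.nd (nat_lit 78) (nat_lit 228) (nat_lit 0) (XT.lf (nat_lit 0) (nat_lit 7567433472) (nat_lit 228) (nat_lit 17541289140) (nat_lit 76) (nat_lit 22606691817) (nat_lit 71) (nat_lit 5) (nat_lit 74) (nat_lit 5) (nat_lit 72) (nat_lit 5) (nat_lit 412) (nat_lit 340) (nat_lit 148)) (XT.nd (nat_lit 78) (nat_lit 0) (nat_lit 0) (XT.lf (nat_lit 0) (nat_lit 6761326327) (nat_lit 228) (nat_lit 10771373509) (nat_lit 304) (nat_lit 31168995785) (nat_lit 68) (nat_lit 5) (nat_lit 71) (nat_lit 5) (nat_lit 72) (nat_lit 5) (nat_lit 413) (nat_lit 340) (nat_lit 147)) (XT.lf (nat_lit 0) (nat_lit 28011255695) (nat_lit 304) (nat_lit 17604773914) (nat_lit 76) (nat_lit 4095106507) (nat_lit 68) (nat_lit 5) (nat_lit 72) (nat_lit 5) (nat_lit 69) (nat_lit 5) (nat_lit 414)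 (nat_lit 340) (nat_lit 146))))) (XT.nd (nat_lit 234) (nat_lit 304) (nat_lit 0) (XT.nd (nat_lit 78) (nat_lit 304) (nat_lit 0) (XT.lf (nat_lit 0) (nat_lit 7495699060) (nat_lit 152) (nat_lit 31484288288) (nat_lit 228) (nat_lit 11765598695) (nat_lit 66) (nat_lit 5) (nat_lit 68) (nat_lit 5) (nat_lit 69) (nat_lit 5) (nat_lit 415) (nat_lit 340) (nat_lit 145)) (XT.nd (nat_lit 78) (nat_lit 304) (nat_lit 0) (XT.lf (nat_lit 0) (nat_lit 33705302905) (nat_lit 152) (nat_lit 16747408486) (nat_lit 228) (nat_lit 1353110931) (nat_lit 66) (nat_lit 5) (nat_lit 68) (nat_lit 5) (nat_lit 69) (nat_lit 5) (nat_lit 416) (nat_lit 340) (nat_lit 144)) (XT.lf (nat_lit 0) (nat_lit 7861976250) (nat_lit 228) (nat_lit 1399684205) (nat_lit 304) (nat_lit 43631319778) (nat_lit 62) (nat_lit 5) (nat_lit 65) (nat_lit 5) (nat_lit 66) (nat_lit 5) (nat_lit 417) (nat_lit 340) (nat_lit 143)))) (XT.nd (nat_lit 156) (nat_lit 152) (nat_lit 0) (XT.nd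 (nat_lit 78) (nat_lit 152) (nat_lit 0) (XT.lf (nat_lit 0) (nat_lit 20488001343) (nat_lit 304) (nat_lit 19191290328) (nat_lit 76) (nat_lit 14323450324) (nat_lit 62) (nat_lit 5) (nat_lit 66) (nat_lit 5) (nat_lit 63) (nat_lit 5) (nat_lit 418) (nat_lit 340) (nat_lit 142)) (XT.lf (nat_lit 0) (nat_lit 7552570601) (nat_lit 152) (nat_lit 24582330769) (nat_lit 228) (nat_lit 23008382854) (nat_lit 60) (nat_lit 5) (nat_lit 62) (nat_lit 5) (nat_lit 63) (nat_lit 5) (nat_lit 419) (nat_lit 340) (nat_lit 141))) (XT.nd (nat_lit 78) (nat_lit 152) (nat_lit 0) (XT.lf (nat_lit 0) (nat_lit 35487631005) (nat_lit 152) (nat_lit 8834717408) (nat_lit 228) (nat_lit 11989960767) (nat_lit 60) (nat_lit 5) (nat_lit 62) (nat_lit 5) (nat_lit 63) (nat_lit 5) (nat_lit 420) (nat_lit 340) (nat_lit 140)) (XT.lf (nat_lit 0) (nat_lit 6801622305) (nat_lit 152) (nat_lit 50207575697) (nat_lit 228) (nat_lit 503194153) (nat_lit 58) (nat_lit 5) (nat_lit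 60) (nat_lit 5) (nat_lit 61) (nat_lit 5) (nat_lit 421) (nat_lit 340) (nat_lit 139)))))) (XT.nd (nat_lit 546) (nat_lit 532) (nat_lit 0) (XT.nd (nat_lit 234) (nat_lit 380) (nat_lit 0) (XT.nd (nat_lit 78) (nat_lit 152) (nat_lit 0) (XT.lf (nat_lit 0) (nat_lit 11404377668) (nat_lit 228) (nat_lit 23261475955) (nat_lit 76) (nat_lit 24070440129) (nat_lit 57) (nat_lit 5) (nat_lit 60) (nat_lit 5) (nat_lit 58) (nat_lit 5) (nat_lit 422) (nat_lit 340) (nat_lit 138)) (XT.nd (nat_lit 78) (nat_lit 0) (nat_lit 0) (XT.lf (nat_lit 0) (nat_lit 5101537391) (nat_lit 152) (nat_lit 18604052786) (nat_lit 228) (nat_lit 36289777527) (nat_lit 55) (nat_lit 5) (nat_lit 57) (nat_lit 5) (nat_lit 58) (nat_lit 5) (nat_lit 423) (nat_lit 340) (nat_lit 137)) (XT.lf (nat_lit 0) (nat_lit 34787994395) (nat_lit 152) (nat_lit 1820260082) (nat_lit 228) (nat_lit 24676987507) (nat_lit 55) (nat_lit 5) (nat_lit 57) (nat_lit 5) (nat_lit 58) (nat_lit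 5) (nat_lit 424) (nat_lit 340) (nat_lit 136)))) (XT.nd (nat_lit 156) (nat_lit 152) (nat_lit 0) (XT.nd (nat_lit 78) (nat_lit 76) (nat_lit 0) (XT.lf (nat_lit 0) (nat_lit 2650050577) (nat_lit 152) (nat_lit 47419676256) (nat_lit 228) (nat_lit 12538934369) (nat_lit 53) (nat_lit 5) (nat_lit 55) (nat_lit 5) (nat_lit 56) (nat_lit 5) (nat_lit 425) (nat_lit 340) (nat_lit 135)) (XT.lf (nat_lit 0) (nat_lit 249800889) (nat_lit 228) (nat_lit 30773361707) (nat_lit 76) (nat_lit 32940056811) (nat_lit 52) (nat_lit 5) (nat_lit 55) (nat_lit 5) (nat_lit 53) (nat_lit 5) (nat_lit 426) (nat_lit 340) (nat_lit 134))) (XT.nd (nat_lit 78) (nat_lit 152) (nat_lit 0) (XT.lf (nat_lit 0) (nat_lit 13167830244) (nat_lit 228) (nat_lit 840802877) (nat_lit 76) (nat_lit 51346127741) (nat_lit 52) (nat_lit 5) (nat_lit 55) (nat_lit 5) (nat_lit 53) (nat_lit 5) (nat_lit 427) (nat_lit 340) (nat_lit 133)) (XT.lf (nat_lit 0) (nat_lit 26801794492) (nat_lit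 228) (nat_lit 36233465855) (nat_lit 76) (nat_lit 3742936888) (nat_lit 50) (nat_lit 5) (nat_lit 53) (nat_lit 5) (nat_lit 51) (nat_lit 5) (nat_lit 428) (nat_lit 340) (nat_lit 132))))) (XT.nd (nat_lit 234) (nat_lit 380) (nat_lit 0) (XT.nd (nat_lit 78) (nat_lit 152) (nat_lit 0) (XT.lf (nat_lit 0) (nat_lit 40989784373) (nat_lit 228) (nat_lit 5497791101) (nat_lit 76) (nat_lit 21752411500) (nat_lit 50) (nat_lit 5) (nat_lit 53) (nat_lit 5) (nat_lit 51) (nat_lit 5) (nat_lit 429) (nat_lit 340) (nat_lit 131)) (XT.nd (nat_lit 78) (nat_lit 0) (nat_lit 0) (XT.lf (nat_lit 0) (nat_lit 26676634402) (nat_lit 152) (nat_lit 29181010555) (nat_lit 228) (nat_lit 13880358984) (nat_lit 48) (nat_lit 5) (nat_lit 50) (nat_lit 5) (nat_lit 51) (nat_lit 5) (nat_lit 430) (nat_lit 340) (nat_lit 130)) (XT.lf (nat_lit 0) (nat_lit 59925153290) (nat_lit 152) (nat_lit 11299731066) (nat_lit 228) (nat_lit 54477221) (nat_lit 48) (nat_lit 5) (nat_lit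 50) (nat_lit 5) (nat_lit 51) (nat_lit 5) (nat_lit 431) (nat_lit 340) (nat_lit 129)))) (XT.nd (nat_lit 156) (nat_lit 152) (nat_lit 0) (XT.nd (nat_lit 78) (nat_lit 0) (nat_lit 0) (XT.lf (nat_lit 0) (nat_lit 14186527316) (nat_lit 228) (nat_lit 51343282317) (nat_lit 76) (nat_lit 7324744652) (nat_lit 45) (nat_lit 5) (nat_lit 48) (nat_lit 5) (nat_lit 46) (nat_lit 5) (nat_lit 432) (nat_lit 340) (nat_lit 128)) (XT.lf (nat_lit 0) (nat_lit 29079214669) (nat_lit 228) (nat_lit 18995430192) (nat_lit 76) (nat_lit 26395575717) (nat_lit 45) (nat_lit 5) (nat_lit 48) (nat_lit 5) (nat_lit 46) (nat_lit 5) (nat_lit 433) (nat_lit 340) (nat_lit 127))) (XT.nd (nat_lit 39624) (nat_lit 0) (nat_lit 14972) (XT.lf (nat_lit 0) (nat_lit 14604166772) (nat_lit 152) (nat_lit 29952840494) (nat_lit 228) (nat_lit 31573200255) (nat_lit 43) (nat_lit 5) (nat_lit 45) (nat_lit 5) (nat_lit 46) (nat_lit 5) (nat_lit 434) (nat_lit 340) (nat_lit 126))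 (XT.lf (nat_lit 0) (nat_lit 1627562302) (nat_lit 0) (nat_lit 1627562302) (nat_lit 1140) (nat_lit 3709606025) (nat_lit 240) (nat_lit 5) (nat_lit 240) (nat_lit 3) (nat_lit 255) (nat_lit 3) (nat_lit 341) (nat_lit 341) (nat_lit 218))))))))
noncomputable def xc198 : XT := (XT.nd (nat_lit 2028) (nat_lit 5852) (nat_lit 0) (XT.nd (nat_lit 1014) (nat_lit 3420) (nat_lit 0) (XT.nd (nat_lit 468) (nat_lit 836) (nat_lit 0) (XT.nd (nat_lit 234) (nat_lit 0) (nat_lit 76) (XT.nd (nat_lit 78) (nat_lit 0) (nat_lit 0) (XT.lf (nat_lit 0) (nat_lit 6975661179) (nat_lit 1140) (nat_lit 4104112110) (nat_lit 1216) (nat_lit 3047375163) (nat_lit 240) (nat_lit 5) (nat_lit 255) (nat_lit 3) (nat_lit 256) (nat_lit 5) (nat_lit 342) (nat_lit 341) (nat_lit 217)) (XT.nd (nat_lit 78) (nat_lit 0) (nat_lit 76) (XT.lf (nat_lit 76) (nat_lit 2676150618) (nat_lit 0) (nat_lit 4823715432) (nat_lit 1216) (nat_lit 6829563958) (nat_lit 241) (nat_lit 5)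 (nat_lit 240) (nat_lit 5) (nat_lit 256) (nat_lit 5) (nat_lit 343) (nat_lit 341) (nat_lit 216)) (XT.lf (nat_lit 0) (nat_lit 8084471268) (nat_lit 1140) (nat_lit 4816008475) (nat_lit 1216) (nat_lit 1635968451) (nat_lit 241) (nat_lit 5) (nat_lit 256) (nat_lit 5) (nat_lit 257) (nat_lit 5) (nat_lit 344) (nat_lit 341) (nat_lit 215)))) (XT.nd (nat_lit 78) (nat_lit 0) (nat_lit 76) (XT.lf (nat_lit 76) (nat_lit 2214612504) (nat_lit 0) (nat_lit 6528669054) (nat_lit 1216) (nat_lit 6004703527) (nat_lit 242) (nat_lit 5) (nat_lit 241) (nat_lit 5) (nat_lit 257) (nat_lit 5) (nat_lit 345) (nat_lit 341) (nat_lit 214)) (XT.nd (nat_lit 78) (nat_lit 0) (nat_lit 0) (XT.lf (nat_lit 0) (nat_lit 9459258029) (nat_lit 1140) (nat_lit 5417915532) (nat_lit 1216) (nat_lit 87580393) (nat_lit 242) (nat_lit 5) (nat_lit 257) (nat_lit 5) (nat_lit 258) (nat_lit 5) (nat_lit 346) (nat_lit 341) (nat_lit 213)) (XT.lf (nat_lit 76) (nat_lit 1875614647)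 (nat_lit 0) (nat_lit 8392078162) (nat_lit 1216) (nat_lit 4918211407) (nat_lit 243) (nat_lit 5) (nat_lit 242) (nat_lit 5) (nat_lit 258) (nat_lit 5) (nat_lit 347) (nat_lit 341) (nat_lit 212))))) (XT.nd (nat_lit 234) (nat_lit 988) (nat_lit 0) (XT.nd (nat_lit 78) (nat_lit 0) (nat_lit 76) (XT.lf (nat_lit 76) (nat_lit 9491734460) (nat_lit 0) (nat_lit 1651936217) (nat_lit 1216) (nat_lit 4268727082) (nat_lit 243) (nat_lit 5) (nat_lit 242) (nat_lit 5) (nat_lit 258) (nat_lit 5) (nat_lit 348) (nat_lit 341) (nat_lit 211)) (XT.nd (nat_lit 78) (nat_lit 0) (nat_lit 0) (XT.lf (nat_lit 76) (nat_lit 1664839330) (nat_lit 0) (nat_lit 10436897666) (nat_lit 1216) (nat_lit 3542282092) (nat_lit 244) (nat_lit 5) (nat_lit 243) (nat_lit 5) (nat_lit 259) (nat_lit 5) (nat_lit 349) (nat_lit 341) (nat_lit 210)) (XT.lf (nat_lit 76) (nat_lit 9575221721) (nat_lit 0) (nat_lit 3578508087) (nat_lit 1216) (nat_lit 2726910759) (nat_lit 244)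 (nat_lit 5) (nat_lit 243) (nat_lit 5) (nat_lit 259) (nat_lit 5) (nat_lit 350) (nat_lit 341) (nat_lit 209)))) (XT.nd (nat_lit 156) (nat_lit 1140) (nat_lit 0) (XT.nd (nat_lit 78) (nat_lit 0) (nat_lit 0) (XT.lf (nat_lit 76) (nat_lit 1588536518) (nat_lit 0) (nat_lit 12687070349) (nat_lit 1216) (nat_lit 1847610928) (nat_lit 245) (nat_lit 5) (nat_lit 244) (nat_lit 5) (nat_lit 260) (nat_lit 5) (nat_lit 351) (nat_lit 341) (nat_lit 208)) (XT.lf (nat_lit 76) (nat_lit 9804992763) (nat_lit 0) (nat_lit 5714684623) (nat_lit 1216) (nat_lit 850745480) (nat_lit 245) (nat_lit 5) (nat_lit 244) (nat_lit 5) (nat_lit 260) (nat_lit 5) (nat_lit 352) (nat_lit 341) (nat_lit 207))) (XT.nd (nat_lit 78) (nat_lit 0) (nat_lit 0) (XT.lf (nat_lit 0) (nat_lit 192883746) (nat_lit 1216) (nat_lit 14972824615) (nat_lit 1292) (nat_lit 1458682441) (nat_lit 229) (nat_lit 5) (nat_lit 245) (nat_lit 5) (nat_lit 246) (nat_lit 5) (nat_lit 353) (nat_lit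 341) (nat_lit 206)) (XT.lf (nat_lit 0) (nat_lit 1364477464) (nat_lit 1216) (nat_lit 6707669179) (nat_lit 1292) (nat_lit 8810171871) (nat_lit 229) (nat_lit 5) (nat_lit 245) (nat_lit 5) (nat_lit 246) (nat_lit 5) (nat_lit 354) (nat_lit 341) (nat_lit 205)))))) (XT.nd (nat_lit 468) (nat_lit 2356) (nat_lit 0) (XT.nd (nat_lit 234) (nat_lit 1064) (nat_lit 0) (XT.nd (nat_lit 78) (nat_lit 0) (nat_lit 76) (XT.lf (nat_lit 76) (nat_lit 1833771082) (nat_lit 0) (nat_lit 745579449) (nat_lit 1292) (nat_lit 14568395480) (nat_lit 230) (nat_lit 5) (nat_lit 229) (nat_lit 5) (nat_lit 246) (nat_lit 5) (nat_lit 355) (nat_lit 341) (nat_lit 204)) (XT.nd (nat_lit 78) (nat_lit 0) (nat_lit 0) (XT.lf (nat_lit 0) (nat_lit 3955176238) (nat_lit 1216) (nat_lit 6723876084) (nat_lit 1292) (nat_lit 6738354544) (nat_lit 230) (nat_lit 5) (nat_lit 246) (nat_lit 5) (nat_lit 247) (nat_lit 5) (nat_lit 356) (nat_lit 341) (nat_lit 203)) (XT.lf (nat_lit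 76) (nat_lit 2151059410) (nat_lit 0) (nat_lit 3240274832) (nat_lit 1292) (nat_lit 12303257141) (nat_lit 231) (nat_lit 5) (nat_lit 230) (nat_lit 5) (nat_lit 247) (nat_lit 5) (nat_lit 357) (nat_lit 341) (nat_lit 202)))) (XT.nd (nat_lit 78) (nat_lit 1216) (nat_lit 0) (XT.lf (nat_lit 0) (nat_lit 6972854099) (nat_lit 1216) (nat_lit 6598824209) (nat_lit 76) (nat_lit 4405350212) (nat_lit 231) (nat_lit 5) (nat_lit 247) (nat_lit 5) (nat_lit 232) (nat_lit 5) (nat_lit 358) (nat_lit 341) (nat_lit 201)) (XT.nd (nat_lit 78) (nat_lit 0) (nat_lit 0) (XT.lf (nat_lit 0) (nat_lit 2625938221) (nat_lit 1216) (nat_lit 6024664735) (nat_lit 1292) (nat_lit 9615877553) (nat_lit 215) (nat_lit 5) (nat_lit 231) (nat_lit 5) (nat_lit 232) (nat_lit 5) (nat_lit 359) (nat_lit 341) (nat_lit 200)) (XT.lf (nat_lit 0) (nat_lit 10454436110) (nat_lit 1292) (nat_lit 6325012584) (nat_lit 76) (nat_lit 1782899900) (nat_lit 215) (nat_lit 5) (nat_lit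 232) (nat_lit 5) (nat_lit 216) (nat_lit 5) (nat_lit 360) (nat_lit 341) (nat_lit 199))))) (XT.nd (nat_lit 234) (nat_lit 1216) (nat_lit 0) (XT.nd (nat_lit 78) (nat_lit 532) (nat_lit 0) (XT.lf (nat_lit 0) (nat_lit 3266661039) (nat_lit 608) (nat_lit 9128664553) (nat_lit 684) (nat_lit 6469283828) (nat_lit 207) (nat_lit 5) (nat_lit 215) (nat_lit 5) (nat_lit 216) (nat_lit 5) (nat_lit 361) (nat_lit 341) (nat_lit 198)) (XT.nd (nat_lit 78) (nat_lit 532) (nat_lit 0) (XT.lf (nat_lit 0) (nat_lit 13268397986) (nat_lit 608) (nat_lit 1181969665) (nat_lit 684) (nat_lit 4723897440) (nat_lit 207) (nat_lit 5) (nat_lit 215) (nat_lit 5) (nat_lit 216) (nat_lit 5) (nat_lit 362) (nat_lit 341) (nat_lit 197)) (XT.lf (nat_lit 0) (nat_lit 4081940428) (nat_lit 532) (nat_lit 12583969648) (nat_lit 608) (nat_lit 2824339540) (nat_lit 200) (nat_lit 5) (nat_lit 207) (nat_lit 5) (nat_lit 208) (nat_lit 5) (nat_lit 363) (nat_lit 341) (nat_lit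 196)))) (XT.nd (nat_lit 156) (nat_lit 532) (nat_lit 0) (XT.nd (nat_lit 78) (nat_lit 684) (nat_lit 0) (XT.lf (nat_lit 0) (nat_lit 14471212156) (nat_lit 532) (nat_lit 4540379221) (nat_lit 608) (nat_lit 802216643) (nat_lit 200) (nat_lit 5) (nat_lit 207) (nat_lit 5) (nat_lit 208) (nat_lit 5) (nat_lit 364) (nat_lit 341) (nat_lit 195)) (XT.lf (nat_lit 0) (nat_lit 1333849426) (nat_lit 684) (nat_lit 15076901012) (nat_lit 76) (nat_lit 3733609672) (nat_lit 191) (nat_lit 5) (nat_lit 200) (nat_lit 5) (nat_lit 192) (nat_lit 5) (nat_lit 365) (nat_lit 341) (nat_lit 194))) (XT.nd (nat_lit 78) (nat_lit 532) (nat_lit 0) (XT.lf (nat_lit 0) (nat_lit 3610049786) (nat_lit 684) (nat_lit 4644697798) (nat_lit 76) (nat_lit 12227081750) (nat_lit 191) (nat_lit 5) (nat_lit 200) (nat_lit 5) (nat_lit 192) (nat_lit 5) (nat_lit 366) (nat_lit 341) (nat_lit 193)) (XT.lf (nat_lit 0) (nat_lit 6009216890) (nat_lit 608) (nat_lit 14615273882)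 (nat_lit 76) (nat_lit 203295459) (nat_lit 184) (nat_lit 5) (nat_lit 192) (nat_lit 5) (nat_lit 185) (nat_lit 5) (nat_lit 367) (nat_lit 341) (nat_lit 192))))))) (XT.nd (nat_lit 1014) (nat_lit 2508) (nat_lit 0) (XT.nd (nat_lit 468) (nat_lit 1824) (nat_lit 0) (XT.nd (nat_lit 234) (nat_lit 988) (nat_lit 0) (XT.nd (nat_lit 78) (nat_lit 532) (nat_lit 0) (XT.lf (nat_lit 0) (nat_lit 8602540565) (nat_lit 608) (nat_lit 3781572721) (nat_lit 76) (nat_lit 8796347002) (nat_lit 184) (nat_lit 5) (nat_lit 192) (nat_lit 5) (nat_lit 185) (nat_lit 5) (nat_lit 368) (nat_lit 341) (nat_lit 191)) (XT.nd (nat_lit 78) (nat_lit 0) (nat_lit 0) (XT.lf (nat_lit 0) (nat_lit 7516716765) (nat_lit 532) (nat_lit 3822488547) (nat_lit 608) (nat_lit 10202546801) (nat_lit 177) (nat_lit 5) (nat_lit 184) (nat_lit 5) (nat_lit 185) (nat_lit 5) (nat_lit 369) (nat_lit 341) (nat_lit 190)) (XT.lf (nat_lit 0) (nat_lit 14237968782) (nat_lit 608) (nat_lit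 2736894461) (nat_lit 76) (nat_lit 4936623162) (nat_lit 177) (nat_lit 5) (nat_lit 185) (nat_lit 5) (nat_lit 178) (nat_lit 5) (nat_lit 370) (nat_lit 341) (nat_lit 189)))) (XT.nd (nat_lit 78) (nat_lit 532) (nat_lit 0) (XT.lf (nat_lit 0) (nat_lit 9021059849) (nat_lit 456) (nat_lit 8320799384) (nat_lit 532) (nat_lit 4946912139) (nat_lit 171) (nat_lit 5) (nat_lit 177) (nat_lit 5) (nat_lit 178) (nat_lit 5) (nat_lit 371) (nat_lit 341) (nat_lit 188)) (XT.nd (nat_lit 78) (nat_lit 532) (nat_lit 0) (XT.lf (nat_lit 0) (nat_lit 20566191319) (nat_lit 532) (nat_lit 1501796487) (nat_lit 76) (nat_lit 608570801) (nat_lit 171) (nat_lit 5) (nat_lit 178) (nat_lit 5) (nat_lit 172) (nat_lit 5) (nat_lit 372) (nat_lit 341) (nat_lit 187)) (XT.lf (nat_lit 0) (nat_lit 976712543) (nat_lit 532) (nat_lit 12342864687) (nat_lit 76) (nat_lit 9750733454) (nat_lit 164) (nat_lit 5) (nat_lit 171) (nat_lit 5) (nat_lit 165) (nat_lit 5) (nat_lit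 373) (nat_lit 341) (nat_lit 186))))) (XT.nd (nat_lit 234) (nat_lit 912) (nat_lit 0) (XT.nd (nat_lit 78) (nat_lit 912) (nat_lit 0) (XT.lf (nat_lit 0) (nat_lit 4123251010) (nat_lit 532) (nat_lit 149096398) (nat_lit 76) (nat_lit 19202626371) (nat_lit 164) (nat_lit 5) (nat_lit 171) (nat_lit 5) (nat_lit 165) (nat_lit 5) (nat_lit 374) (nat_lit 341) (nat_lit 185)) (XT.nd (nat_lit 78) (nat_lit 456) (nat_lit 0) (XT.lf (nat_lit 0) (nat_lit 7529617520) (nat_lit 532) (nat_lit 11287447332) (nat_lit 76) (nat_lit 5069752036) (nat_lit 158) (nat_lit 5) (nat_lit 165) (nat_lit 5) (nat_lit 159) (nat_lit 5) (nat_lit 375) (nat_lit 341) (nat_lit 184)) (XT.lf (nat_lit 0) (nat_lit 1400509848) (nat_lit 456) (nat_lit 9689169746) (nat_lit 532) (nat_lit 13219793548) (nat_lit 152) (nat_lit 5) (nat_lit 158) (nat_lit 5) (nat_lit 159) (nat_lit 5) (nat_lit 376) (nat_lit 341) (nat_lit 183)))) (XT.nd (nat_lit 156) (nat_lit 532) (nat_lit 0)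 (XT.nd (nat_lit 78) (nat_lit 380) (nat_lit 0) (XT.lf (nat_lit 0) (nat_lit 14693675329) (nat_lit 456) (nat_lit 171173178) (nat_lit 532) (nat_lit 9876714328) (nat_lit 152) (nat_lit 5) (nat_lit 158) (nat_lit 5) (nat_lit 159) (nat_lit 5) (nat_lit 377) (nat_lit 341) (nat_lit 182)) (XT.lf (nat_lit 0) (nat_lit 3161346490) (nat_lit 380) (nat_lit 15709385577) (nat_lit 456) (nat_lit 6312362184) (nat_lit 147) (nat_lit 5) (nat_lit 152) (nat_lit 5) (nat_lit 153) (nat_lit 5) (nat_lit 378) (nat_lit 341) (nat_lit 181))) (XT.nd (nat_lit 78) (nat_lit 532) (nat_lit 0) (XT.lf (nat_lit 0) (nat_lit 16964396072) (nat_lit 380) (nat_lit 6130113174) (nat_lit 456) (nat_lit 2540433586) (nat_lit 147) (nat_lit 5) (nat_lit 152) (nat_lit 5) (nat_lit 153) (nat_lit 5) (nat_lit 379) (nat_lit 341) (nat_lit 180)) (XT.lf (nat_lit 0) (nat_lit 1399240800) (nat_lit 532) (nat_lit 20972773975) (nat_lit 76) (nat_lit 3725522096) (nat_lit 140) (nat_lit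 5) (nat_lit 147) (nat_lit 5) (nat_lit 141) (nat_lit 5) (nat_lit 380) (nat_lit 341) (nat_lit 179)))))) (XT.nd (nat_lit 546) (nat_lit 1368) (nat_lit 0) (XT.nd (nat_lit 234) (nat_lit 760) (nat_lit 0) (XT.nd (nat_lit 78) (nat_lit 380) (nat_lit 0) (XT.lf (nat_lit 0) (nat_lit 5549919344) (nat_lit 532) (nat_lit 7153126165) (nat_lit 76) (nat_lit 13865894916) (nat_lit 140) (nat_lit 5) (nat_lit 147) (nat_lit 5) (nat_lit 141) (nat_lit 5) (nat_lit 381) (nat_lit 341) (nat_lit 178)) (XT.nd (nat_lit 78) (nat_lit 0) (nat_lit 0) (XT.lf (nat_lit 0) (nat_lit 7215404990) (nat_lit 380) (nat_lit 2673982362) (nat_lit 456) (nat_lit 17163173092) (nat_lit 135) (nat_lit 5) (nat_lit 140) (nat_lit 5) (nat_lit 141) (nat_lit 5) (nat_lit 382) (nat_lit 341) (nat_lit 177)) (XT.lf (nat_lit 0) (nat_lit 14500563561) (nat_lit 456) (nat_lit 5467786311) (nat_lit 76) (nat_lit 7578095827) (nat_lit 135) (nat_lit 5) (nat_lit 141) (nat_lit 5) (nat_lit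 136) (nat_lit 5) (nat_lit 383) (nat_lit 341) (nat_lit 176)))) (XT.nd (nat_lit 156) (nat_lit 380) (nat_lit 0) (XT.nd (nat_lit 78) (nat_lit 0) (nat_lit 0) (XT.lf (nat_lit 0) (nat_lit 9484885241) (nat_lit 380) (nat_lit 9877968277) (nat_lit 456) (nat_lit 8688912930) (nat_lit 130) (nat_lit 5) (nat_lit 135) (nat_lit 5) (nat_lit 136) (nat_lit 5) (nat_lit 384) (nat_lit 341) (nat_lit 175)) (XT.lf (nat_lit 0) (nat_lit 24426919650) (nat_lit 456) (nat_lit 3584323979) (nat_lit 76) (nat_lit 559328189) (nat_lit 130) (nat_lit 5) (nat_lit 136) (nat_lit 5) (nat_lit 131) (nat_lit 5) (nat_lit 385) (nat_lit 341) (nat_lit 174))) (XT.nd (nat_lit 78) (nat_lit 0) (nat_lit 0) (XT.lf (nat_lit 0) (nat_lit 737799244) (nat_lit 380) (nat_lit 17128567320) (nat_lit 76) (nat_lit 11232111831) (nat_lit 125) (nat_lit 5) (nat_lit 130) (nat_lit 5) (nat_lit 126) (nat_lit 5) (nat_lit 386) (nat_lit 341) (nat_lit 173)) (XT.lf (nat_lit 0) (nat_lit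 5714327754) (nat_lit 380) (nat_lit 1624573849) (nat_lit 76) (nat_lit 22301134307) (nat_lit 125) (nat_lit 5) (nat_lit 130) (nat_lit 5) (nat_lit 126) (nat_lit 5) (nat_lit 387) (nat_lit 341) (nat_lit 172))))) (XT.nd (nat_lit 234) (nat_lit 684) (nat_lit 0) (XT.nd (nat_lit 78) (nat_lit 304) (nat_lit 0) (XT.lf (nat_lit 0) (nat_lit 11011286352) (nat_lit 456) (nat_lit 15605038109) (nat_lit 76) (nat_lit 3576383640) (nat_lit 120) (nat_lit 5) (nat_lit 126) (nat_lit 5) (nat_lit 121) (nat_lit 5) (nat_lit 388) (nat_lit 341) (nat_lit 171)) (XT.nd (nat_lit 78) (nat_lit 0) (nat_lit 0) (XT.lf (nat_lit 0) (nat_lit 488648689) (nat_lit 304) (nat_lit 16067988130) (nat_lit 380) (nat_lit 14202641063) (nat_lit 116) (nat_lit 5) (nat_lit 120) (nat_lit 5) (nat_lit 121) (nat_lit 5) (nat_lit 389) (nat_lit 341) (nat_lit 170)) (XT.lf (nat_lit 0) (nat_lit 17378917827) (nat_lit 304) (nat_lit 5042636993) (nat_lit 380) (nat_lit 8916695588)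 (nat_lit 116) (nat_lit 5) (nat_lit 120) (nat_lit 5) (nat_lit 121) (nat_lit 5) (nat_lit 390) (nat_lit 341) (nat_lit 169)))) (XT.nd (nat_lit 156) (nat_lit 304) (nat_lit 0) (XT.nd (nat_lit 78) (nat_lit 76) (nat_lit 0) (XT.lf (nat_lit 0) (nat_lit 2829782168) (nat_lit 304) (nat_lit 25716266615) (nat_lit 380) (nat_lit 3386036283) (nat_lit 112) (nat_lit 5) (nat_lit 116) (nat_lit 5) (nat_lit 117) (nat_lit 5) (nat_lit 391) (nat_lit 341) (nat_lit 168)) (XT.lf (nat_lit 0) (nat_lit 2453501562) (nat_lit 380) (nat_lit 12210393792) (nat_lit 76) (nat_lit 17873533431) (nat_lit 111) (nat_lit 5) (nat_lit 116) (nat_lit 5) (nat_lit 112) (nat_lit 5) (nat_lit 392) (nat_lit 341) (nat_lit 167))) (XT.nd (nat_lit 78) (nat_lit 0) (nat_lit 0) (XT.lf (nat_lit 0) (nat_lit 5251318879) (nat_lit 304) (nat_lit 3195214166) (nat_lit 380) (nat_lit 24712004768) (nat_lit 107) (nat_lit 5) (nat_lit 111) (nat_lit 5) (nat_lit 112) (nat_lit 5) (nat_lit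 393) (nat_lit 341) (nat_lit 166)) (XT.lf (nat_lit 0) (nat_lit 14822645328) (nat_lit 380) (nat_lit 10397403627) (nat_lit 76) (nat_lit 8572134067) (nat_lit 107) (nat_lit 5) (nat_lit 112) (nat_lit 5) (nat_lit 108) (nat_lit 5) (nat_lit 394) (nat_lit 341) (nat_lit 165))))))))
noncomputable def xc199 : XT := (XT.nd (nat_lit 2106) (nat_lit 1140) (nat_lit 0) (XT.nd (nat_lit 1014) (nat_lit 1596) (nat_lit 0) (XT.nd (nat_lit 468) (nat_lit 1064) (nat_lit 0) (XT.nd (nat_lit 234) (nat_lit 304) (nat_lit 0) (XT.nd (nat_lit 78) (nat_lit 304) (nat_lit 0) (XT.lf (nat_lit 0) (nat_lit 7751555559) (nat_lit 304) (nat_lit 13740683482) (nat_lit 380) (nat_lit 12949534166) (nat_lit 103) (nat_lit 5) (nat_lit 107) (nat_lit 5) (nat_lit 108) (nat_lit 5) (nat_lit 395) (nat_lit 341) (nat_lit 164)) (XT.nd (nat_lit 78) (nat_lit 304) (nat_lit 0) (XT.lf (nat_lit 0) (nat_lit 26652401159) (nat_lit 304) (nat_lit 1810622465) (nat_lit 380) (nat_lit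 6644795894) (nat_lit 103) (nat_lit 5) (nat_lit 107) (nat_lit 5) (nat_lit 108) (nat_lit 5) (nat_lit 396) (nat_lit 341) (nat_lit 163)) (XT.lf (nat_lit 0) (nat_lit 51096832) (nat_lit 304) (nat_lit 25364976672) (nat_lit 76) (nat_lit 10371846642) (nat_lit 99) (nat_lit 5) (nat_lit 103) (nat_lit 5) (nat_lit 100) (nat_lit 5) (nat_lit 397) (nat_lit 341) (nat_lit 162)))) (XT.nd (nat_lit 78) (nat_lit 304) (nat_lit 0) (XT.lf (nat_lit 0) (nat_lit 6914692242) (nat_lit 304) (nat_lit 6535111962) (nat_lit 76) (nat_lit 23033635883) (nat_lit 99) (nat_lit 5) (nat_lit 103) (nat_lit 5) (nat_lit 100) (nat_lit 5) (nat_lit 398) (nat_lit 341) (nat_lit 161)) (XT.nd (nat_lit 78) (nat_lit 0) (nat_lit 0) (XT.lf (nat_lit 0) (nat_lit 13109965289) (nat_lit 304) (nat_lit 996585444) (nat_lit 380) (nat_lit 23089605580) (nat_lit 95) (nat_lit 5) (nat_lit 99) (nat_lit 5) (nat_lit 100) (nat_lit 5) (nat_lit 399) (nat_lit 341) (nat_lit 160)) (XT.lf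 (nat_lit 0) (nat_lit 21690900469) (nat_lit 380) (nat_lit 4569832835) (nat_lit 76) (nat_lit 11664219964) (nat_lit 95) (nat_lit 5) (nat_lit 100) (nat_lit 5) (nat_lit 96) (nat_lit 5) (nat_lit 400) (nat_lit 341) (nat_lit 159))))) (XT.nd (nat_lit 234) (nat_lit 456) (nat_lit 0) (XT.nd (nat_lit 78) (nat_lit 380) (nat_lit 0) (XT.lf (nat_lit 0) (nat_lit 15825580452) (nat_lit 228) (nat_lit 13835669173) (nat_lit 304) (nat_lit 9009611708) (nat_lit 92) (nat_lit 5) (nat_lit 95) (nat_lit 5) (nat_lit 96) (nat_lit 5) (nat_lit 401) (nat_lit 341) (nat_lit 158)) (XT.nd (nat_lit 78) (nat_lit 380) (nat_lit 0) (XT.lf (nat_lit 0) (nat_lit 36921203459) (nat_lit 228) (nat_lit 992180123) (nat_lit 304) (nat_lit 1524484059) (nat_lit 92) (nat_lit 5) (nat_lit 95) (nat_lit 5) (nat_lit 96) (nat_lit 5) (nat_lit 402) (nat_lit 341) (nat_lit 157)) (XT.lf (nat_lit 0) (nat_lit 6361046893) (nat_lit 380) (nat_lit 21618329193) (nat_lit 76) (nat_lit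 12237829187) (nat_lit 87) (nat_lit 5) (nat_lit 92) (nat_lit 5) (nat_lit 88) (nat_lit 5) (nat_lit 403) (nat_lit 341) (nat_lit 156)))) (XT.nd (nat_lit 156) (nat_lit 228) (nat_lit 0) (XT.nd (nat_lit 78) (nat_lit 228) (nat_lit 0) (XT.lf (nat_lit 0) (nat_lit 14484617896) (nat_lit 380) (nat_lit 650134246) (nat_lit 76) (nat_lit 25883755760) (nat_lit 87) (nat_lit 5) (nat_lit 92) (nat_lit 5) (nat_lit 88) (nat_lit 5) (nat_lit 404) (nat_lit 341) (nat_lit 155)) (XT.lf (nat_lit 0) (nat_lit 21358770540) (nat_lit 228) (nat_lit 1695163510) (nat_lit 304) (nat_lit 18783855514) (nat_lit 84) (nat_lit 5) (nat_lit 87) (nat_lit 5) (nat_lit 88) (nat_lit 5) (nat_lit 405) (nat_lit 341) (nat_lit 154))) (XT.nd (nat_lit 78) (nat_lit 0) (nat_lit 0) (XT.lf (nat_lit 0) (nat_lit 1262464259) (nat_lit 228) (nat_lit 30750154753) (nat_lit 304) (nat_lit 10665063046) (nat_lit 81) (nat_lit 5) (nat_lit 84) (nat_lit 5) (nat_lit 85) (nat_lit 5)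 (nat_lit 406) (nat_lit 341) (nat_lit 153)) (XT.lf (nat_lit 0) (nat_lit 24053772002) (nat_lit 228) (nat_lit 17406508604) (nat_lit 304) (nat_lit 2075885270) (nat_lit 81) (nat_lit 5) (nat_lit 84) (nat_lit 5) (nat_lit 85) (nat_lit 5) (nat_lit 407) (nat_lit 341) (nat_lit 152)))))) (XT.nd (nat_lit 546) (nat_lit 608) (nat_lit 0) (XT.nd (nat_lit 234) (nat_lit 456) (nat_lit 0) (XT.nd (nat_lit 78) (nat_lit 228) (nat_lit 0) (XT.lf (nat_lit 0) (nat_lit 3098779554) (nat_lit 228) (nat_lit 3566710057) (nat_lit 304) (nat_lit 37752163537) (nat_lit 77) (nat_lit 5) (nat_lit 80) (nat_lit 5) (nat_lit 81) (nat_lit 5) (nat_lit 408) (nat_lit 341) (nat_lit 151)) (XT.nd (nat_lit 78) (nat_lit 228) (nat_lit 0) (XT.lf (nat_lit 0) (nat_lit 15925692729) (nat_lit 304) (nat_lit 18693211872) (nat_lit 76) (nat_lit 10697115474) (nat_lit 77) (nat_lit 5) (nat_lit 81) (nat_lit 5) (nat_lit 78) (nat_lit 5) (nat_lit 409) (nat_lit 341) (nat_lit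 150)) (XT.lf (nat_lit 0) (nat_lit 4661981160) (nat_lit 228) (nat_lit 20878825331) (nat_lit 304) (nat_lit 20698219298) (nat_lit 74) (nat_lit 5) (nat_lit 77) (nat_lit 5) (nat_lit 78) (nat_lit 5) (nat_lit 410) (nat_lit 341) (nat_lit 149)))) (XT.nd (nat_lit 156) (nat_lit 304) (nat_lit 0) (XT.nd (nat_lit 78) (nat_lit 152) (nat_lit 0) (XT.lf (nat_lit 0) (nat_lit 29096173882) (nat_lit 228) (nat_lit 6533982794) (nat_lit 304) (nat_lit 11553992399) (nat_lit 74) (nat_lit 5) (nat_lit 77) (nat_lit 5) (nat_lit 78) (nat_lit 5) (nat_lit 411) (nat_lit 341) (nat_lit 148)) (XT.lf (nat_lit 0) (nat_lit 6141614149) (nat_lit 152) (nat_lit 40015917322) (nat_lit 228) (nat_lit 1996035128) (nat_lit 72) (nat_lit 5) (nat_lit 74) (nat_lit 5) (nat_lit 75) (nat_lit 5) (nat_lit 412) (nat_lit 341) (nat_lit 147))) (XT.nd (nat_lit 78) (nat_lit 228) (nat_lit 0) (XT.lf (nat_lit 0) (nat_lit 7941757375) (nat_lit 228) (nat_lit 17824447023) (nat_lit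 76) (nat_lit 23376212117) (nat_lit 71) (nat_lit 5) (nat_lit 74) (nat_lit 5) (nat_lit 72) (nat_lit 5) (nat_lit 413) (nat_lit 341) (nat_lit 146)) (XT.lf (nat_lit 0) (nat_lit 7204863763) (nat_lit 228) (nat_lit 10999141382) (nat_lit 304) (nat_lit 31954341497) (nat_lit 68) (nat_lit 5) (nat_lit 71) (nat_lit 5) (nat_lit 72) (nat_lit 5) (nat_lit 414) (nat_lit 341) (nat_lit 145))))) (XT.nd (nat_lit 234) (nat_lit 456) (nat_lit 0) (XT.nd (nat_lit 78) (nat_lit 152) (nat_lit 0) (XT.lf (nat_lit 0) (nat_lit 28993575017) (nat_lit 304) (nat_lit 17895848484) (nat_lit 76) (nat_lit 4308748299) (nat_lit 68) (nat_lit 5) (nat_lit 72) (nat_lit 5) (nat_lit 69) (nat_lit 5) (nat_lit 415) (nat_lit 341) (nat_lit 144)) (XT.nd (nat_lit 78) (nat_lit 0) (nat_lit 0) (XT.lf (nat_lit 0) (nat_lit 7955314476) (nat_lit 152) (nat_lit 32334175263) (nat_lit 228) (nat_lit 11974222987) (nat_lit 66) (nat_lit 5) (nat_lit 68) (nat_lit 5) (nat_lit 69)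 (nat_lit 5) (nat_lit 416) (nat_lit 341) (nat_lit 143)) (XT.lf (nat_lit 0) (nat_lit 34944369220) (nat_lit 152) (nat_lit 17157945620) (nat_lit 228) (nat_lit 1253564775) (nat_lit 66) (nat_lit 5) (nat_lit 68) (nat_lit 5) (nat_lit 69) (nat_lit 5) (nat_lit 417) (nat_lit 341) (nat_lit 142)))) (XT.nd (nat_lit 156) (nat_lit 152) (nat_lit 0) (XT.nd (nat_lit 78) (nat_lit 0) (nat_lit 0) (XT.lf (nat_lit 0) (nat_lit 8326251491) (nat_lit 228) (nat_lit 1348857227) (nat_lit 304) (nat_lit 44800558364) (nat_lit 62) (nat_lit 5) (nat_lit 65) (nat_lit 5) (nat_lit 66) (nat_lit 5) (nat_lit 418) (nat_lit 341) (nat_lit 141)) (XT.lf (nat_lit 0) (nat_lit 21235156594) (nat_lit 304) (nat_lit 19542149141) (nat_lit 76) (nat_lit 14841509466) (nat_lit 62) (nat_lit 5) (nat_lit 66) (nat_lit 5) (nat_lit 63) (nat_lit 5) (nat_lit 419) (nat_lit 341) (nat_lit 140))) (XT.nd (nat_lit 78) (nat_lit 0) (nat_lit 0) (XT.lf (nat_lit 0) (nat_lit 8001822911)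 (nat_lit 152) (nat_lit 25227921534) (nat_lit 228) (nat_lit 23563881805) (nat_lit 60) (nat_lit 5) (nat_lit 62) (nat_lit 5) (nat_lit 63) (nat_lit 5) (nat_lit 420) (nat_lit 341) (nat_lit 139)) (XT.lf (nat_lit 0) (nat_lit 36768449442) (nat_lit 152) (nat_lit 9010555865) (nat_lit 228) (nat_lit 12218831887) (nat_lit 60) (nat_lit 5) (nat_lit 62) (nat_lit 5) (nat_lit 63) (nat_lit 5) (nat_lit 421) (nat_lit 341) (nat_lit 138))))))) (XT.nd (nat_lit 40716) (nat_lit 0) (nat_lit 13984) (XT.nd (nat_lit 468) (nat_lit 532) (nat_lit 0) (XT.nd (nat_lit 234) (nat_lit 228) (nat_lit 0) (XT.nd (nat_lit 78) (nat_lit 228) (nat_lit 0) (XT.lf (nat_lit 0) (nat_lit 7222695511) (nat_lit 152) (nat_lit 51622984910) (nat_lit 228) (nat_lit 388266557) (nat_lit 58) (nat_lit 5) (nat_lit 60) (nat_lit 5) (nat_lit 61) (nat_lit 5) (nat_lit 422) (nat_lit 341) (nat_lit 137)) (XT.nd (nat_lit 78) (nat_lit 152) (nat_lit 0) (XT.lf (nat_lit 0) (nat_lit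 11870282003) (nat_lit 228) (nat_lit 23746124493) (nat_lit 76) (nat_lit 24878233897) (nat_lit 57) (nat_lit 5) (nat_lit 60) (nat_lit 5) (nat_lit 58) (nat_lit 5) (nat_lit 423) (nat_lit 341) (nat_lit 136)) (XT.lf (nat_lit 0) (nat_lit 5465689100) (nat_lit 152) (nat_lit 19073266024) (nat_lit 228) (nat_lit 37252579556) (nat_lit 55) (nat_lit 5) (nat_lit 57) (nat_lit 5) (nat_lit 58) (nat_lit 5) (nat_lit 424) (nat_lit 341) (nat_lit 135)))) (XT.nd (nat_lit 78) (nat_lit 228) (nat_lit 0) (XT.lf (nat_lit 0) (nat_lit 36036591107) (nat_lit 152) (nat_lit 1788549103) (nat_lit 228) (nat_lit 25295072572) (nat_lit 55) (nat_lit 5) (nat_lit 57) (nat_lit 5) (nat_lit 58) (nat_lit 5) (nat_lit 425) (nat_lit 341) (nat_lit 134)) (XT.nd (nat_lit 78) (nat_lit 76) (nat_lit 0) (XT.lf (nat_lit 0) (nat_lit 2935229279) (nat_lit 152) (nat_lit 48754554656) (nat_lit 228) (nat_lit 12793571622) (nat_lit 53) (nat_lit 5) (nat_lit 55) (nat_lit 5)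 (nat_lit 56) (nat_lit 5) (nat_lit 426) (nat_lit 341) (nat_lit 133)) (XT.lf (nat_lit 0) (nat_lit 372983532) (nat_lit 228) (nat_lit 31494548541) (nat_lit 76) (nat_lit 34011088258) (nat_lit 52) (nat_lit 5) (nat_lit 55) (nat_lit 5) (nat_lit 53) (nat_lit 5) (nat_lit 427) (nat_lit 341) (nat_lit 132))))) (XT.nd (nat_lit 234) (nat_lit 380) (nat_lit 0) (XT.nd (nat_lit 78) (nat_lit 152) (nat_lit 0) (XT.lf (nat_lit 0) (nat_lit 13675184196) (nat_lit 228) (nat_lit 669896850) (nat_lit 76) (nat_lit 52966928799) (nat_lit 52) (nat_lit 5) (nat_lit 55) (nat_lit 5) (nat_lit 53) (nat_lit 5) (nat_lit 428) (nat_lit 341) (nat_lit 131)) (XT.nd (nat_lit 78) (nat_lit 0) (nat_lit 0) (XT.lf (nat_lit 0) (nat_lit 27717563444) (nat_lit 228) (nat_lit 37123712224) (nat_lit 76) (nat_lit 3936892465) (nat_lit 50) (nat_lit 5) (nat_lit 53) (nat_lit 5) (nat_lit 51) (nat_lit 5) (nat_lit 429) (nat_lit 341) (nat_lit 130)) (XT.lf (nat_lit 0) (nat_lit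 42327939183) (nat_lit 228) (nat_lit 5471698032) (nat_lit 76) (nat_lit 22484272652) (nat_lit 50) (nat_lit 5) (nat_lit 53) (nat_lit 5) (nat_lit 51) (nat_lit 5) (nat_lit 430) (nat_lit 341) (nat_lit 129)))) (XT.nd (nat_lit 156) (nat_lit 152) (nat_lit 0) (XT.nd (nat_lit 78) (nat_lit 76) (nat_lit 0) (XT.lf (nat_lit 0) (nat_lit 27666087424) (nat_lit 152) (nat_lit 29974407357) (nat_lit 228) (nat_lit 14186413451) (nat_lit 48) (nat_lit 5) (nat_lit 50) (nat_lit 5) (nat_lit 51) (nat_lit 5) (nat_lit 431) (nat_lit 341) (nat_lit 128)) (XT.lf (nat_lit 0) (nat_lit 50034714) (nat_lit 228) (nat_lit 11508538842) (nat_lit 76) (nat_lit 61856012573) (nat_lit 47) (nat_lit 5) (nat_lit 50) (nat_lit 5) (nat_lit 48) (nat_lit 5) (nat_lit 432) (nat_lit 341) (nat_lit 127))) (XT.nd (nat_lit 39780) (nat_lit 0) (nat_lit 14820) (XT.lf (nat_lit 0) (nat_lit 14716653496) (nat_lit 228) (nat_lit 52697283191) (nat_lit 76) (nat_lit 7623097989)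 (nat_lit 45) (nat_lit 5) (nat_lit 48) (nat_lit 5) (nat_lit 46) (nat_lit 5) (nat_lit 433) (nat_lit 341) (nat_lit 126)) (XT.lf (nat_lit 0) (nat_lit 1843706209) (nat_lit 0) (nat_lit 1843706209) (nat_lit 1140) (nat_lit 3476001262) (nat_lit 240) (nat_lit 5) (nat_lit 240) (nat_lit 3) (nat_lit 255) (nat_lit 3) (nat_lit 342) (nat_lit 342) (nat_lit 216)))))) (XT.nd (nat_lit 546) (nat_lit 836) (nat_lit 0) (XT.nd (nat_lit 234) (nat_lit 0) (nat_lit 76) (XT.nd (nat_lit 78) (nat_lit 0) (nat_lit 0) (XT.lf (nat_lit 0) (nat_lit 7831582902) (nat_lit 1140) (nat_lit 3879304872) (nat_lit 1216) (nat_lit 2820248690) (nat_lit 240) (nat_lit 5) (nat_lit 255) (nat_lit 3) (nat_lit 256) (nat_lit 5) (nat_lit 343) (nat_lit 342) (nat_lit 215)) (XT.nd (nat_lit 78) (nat_lit 0) (nat_lit 76) (XT.lf (nat_lit 76) (nat_lit 3100954653) (nat_lit 0) (nat_lit 5255036476) (nat_lit 1216) (nat_lit 6383973454) (nat_lit 241) (nat_lit 5) (nat_lit 240)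 (nat_lit 5) (nat_lit 256) (nat_lit 5) (nat_lit 344) (nat_lit 342) (nat_lit 214)) (XT.lf (nat_lit 0) (nat_lit 8937077281) (nat_lit 1140) (nat_lit 4604544159) (nat_lit 1216) (nat_lit 1412215664) (nat_lit 241) (nat_lit 5) (nat_lit 256) (nat_lit 5) (nat_lit 257) (nat_lit 5) (nat_lit 345) (nat_lit 342) (nat_lit 213)))) (XT.nd (nat_lit 156) (nat_lit 0) (nat_lit 76) (XT.nd (nat_lit 78) (nat_lit 0) (nat_lit 0) (XT.lf (nat_lit 76) (nat_lit 2633505797) (nat_lit 0) (nat_lit 6967765012) (nat_lit 1216) (nat_lit 5570892445) (nat_lit 242) (nat_lit 5) (nat_lit 241) (nat_lit 5) (nat_lit 257) (nat_lit 5) (nat_lit 346) (nat_lit 342) (nat_lit 212)) (XT.lf (nat_lit 76) (nat_lit 10176343738) (nat_lit 0) (nat_lit 144148227) (nat_lit 1216) (nat_lit 5075501640) (nat_lit 242) (nat_lit 5) (nat_lit 241) (nat_lit 5) (nat_lit 257) (nat_lit 5) (nat_lit 347) (nat_lit 342) (nat_lit 211))) (XT.nd (nat_lit 78) (nat_lit 0) (nat_lit 0) (XT.lf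 (nat_lit 76) (nat_lit 2290520987) (nat_lit 0) (nat_lit 8847941854) (nat_lit 1216) (nat_lit 4485768089) (nat_lit 243) (nat_lit 5) (nat_lit 242) (nat_lit 5) (nat_lit 258) (nat_lit 5) (nat_lit 348) (nat_lit 342) (nat_lit 210)) (XT.lf (nat_lit 76) (nat_lit 10124678630) (nat_lit 0) (nat_lit 1899650951) (nat_lit 1216) (nat_lit 3833692137) (nat_lit 243) (nat_lit 5) (nat_lit 242) (nat_lit 5) (nat_lit 258) (nat_lit 5) (nat_lit 349) (nat_lit 342) (nat_lit 209))))) (XT.nd (nat_lit 234) (nat_lit 1064) (nat_lit 0) (XT.nd (nat_lit 78) (nat_lit 0) (nat_lit 0) (XT.lf (nat_lit 76) (nat_lit 2078032904) (nat_lit 0) (nat_lit 10918834358) (nat_lit 1216) (nat_lit 3100162958) (nat_lit 244) (nat_lit 5) (nat_lit 243) (nat_lit 5) (nat_lit 259) (nat_lit 5) (nat_lit 350) (nat_lit 342) (nat_lit 208)) (XT.nd (nat_lit 78) (nat_lit 0) (nat_lit 76) (XT.lf (nat_lit 76) (nat_lit 10215146716) (nat_lit 0) (nat_lit 3849775720) (nat_lit 1216)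 (nat_lit 2276302940) (nat_lit 244) (nat_lit 5) (nat_lit 243) (nat_lit 5) (nat_lit 259) (nat_lit 5) (nat_lit 351) (nat_lit 342) (nat_lit 207)) (XT.lf (nat_lit 76) (nat_lit 2002642773) (nat_lit 0) (nat_lit 13204759802) (nat_lit 1216) (nat_lit 1384078757) (nat_lit 245) (nat_lit 5) (nat_lit 244) (nat_lit 5) (nat_lit 260) (nat_lit 5) (nat_lit 352) (nat_lit 342) (nat_lit 206)))) (XT.nd (nat_lit 156) (nat_lit 0) (nat_lit 0) (XT.nd (nat_lit 78) (nat_lit 1140) (nat_lit 0) (XT.lf (nat_lit 76) (nat_lit 10454919399) (nat_lit 0) (nat_lit 6019209960) (nat_lit 1216) (nat_lit 372422700) (nat_lit 245) (nat_lit 5) (nat_lit 244) (nat_lit 5) (nat_lit 260) (nat_lit 5) (nat_lit 353) (nat_lit 342) (nat_lit 205)) (XT.lf (nat_lit 0) (nat_lit 680616776) (nat_lit 1216) (nat_lit 15043726074) (nat_lit 1292) (nat_lit 1384021873) (nat_lit 229) (nat_lit 5) (nat_lit 245) (nat_lit 5) (nat_lit 246) (nat_lit 5) (nat_lit 354) (nat_lit 342)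 (nat_lit 204))) (XT.nd (nat_lit 78) (nat_lit 0) (nat_lit 0) (XT.lf (nat_lit 0) (nat_lit 1873321028) (nat_lit 1216) (nat_lit 6541633935) (nat_lit 1292) (nat_lit 8959505142) (nat_lit 229) (nat_lit 5) (nat_lit 245) (nat_lit 5) (nat_lit 246) (nat_lit 5) (nat_lit 355) (nat_lit 342) (nat_lit 203)) (XT.lf (nat_lit 76) (nat_lit 2252448894) (nat_lit 0) (nat_lit 862058736) (nat_lit 1292) (nat_lit 14533655243) (nat_lit 230) (nat_lit 5) (nat_lit 229) (nat_lit 5) (nat_lit 246) (nat_lit 5) (nat_lit 356) (nat_lit 342) (nat_lit 202))))))))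
noncomputable def xc200 : XT := (XT.nd (nat_lit 2028) (nat_lit 4788) (nat_lit 0) (XT.nd (nat_lit 1014) (nat_lit 3344) (nat_lit 0) (XT.nd (nat_lit 468) (nat_lit 1748) (nat_lit 0) (XT.nd (nat_lit 234) (nat_lit 1748) (nat_lit 0) (XT.nd (nat_lit 78) (nat_lit 0) (nat_lit 0) (XT.lf (nat_lit 0) (nat_lit 4517396498) (nat_lit 1216) (nat_lit 6558034251) (nat_lit 1292) (nat_lit 6850917374) (nat_lit 230) (nat_lit 5) (nat_lit 246) (nat_lit 5) (nat_lit 247) (nat_lit 5) (nat_lit 357) (nat_lit 342) (nat_lit 201)) (XT.nd (nat_lit 78) (nat_lit 0) (nat_lit 76) (XT.lf (nat_lit 76) (nat_lit 2579545797) (nat_lit 0) (nat_lit 3407672630) (nat_lit 1292) (nat_lit 12224920351) (nat_lit 231) (nat_lit 5) (nat_lit 230) (nat_lit 5) (nat_lit 247) (nat_lit 5) (nat_lit 358) (nat_lit 342) (nat_lit 200)) (XT.lf (nat_lit 0) (nat_lit 7602883852) (nat_lit 1216) (nat_lit 6429876648) (nat_lit 76) (nat_lit 4470695279) (nat_lit 231) (nat_lit 5)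 (nat_lit 247) (nat_lit 5) (nat_lit 232) (nat_lit 5) (nat_lit 359) (nat_lit 342) (nat_lit 199)))) (XT.nd (nat_lit 78) (nat_lit 608) (nat_lit 0) (XT.lf (nat_lit 0) (nat_lit 3068031476) (nat_lit 1216) (nat_lit 6254168510) (nat_lit 1292) (nat_lit 9479661821) (nat_lit 215) (nat_lit 5) (nat_lit 231) (nat_lit 5) (nat_lit 232) (nat_lit 5) (nat_lit 360) (nat_lit 342) (nat_lit 198)) (XT.nd (nat_lit 78) (nat_lit 608) (nat_lit 0) (XT.lf (nat_lit 0) (nat_lit 11167690740) (nat_lit 1292) (nat_lit 6149329006) (nat_lit 76) (nat_lit 1789967212) (nat_lit 215) (nat_lit 5) (nat_lit 232) (nat_lit 5) (nat_lit 216) (nat_lit 5) (nat_lit 361) (nat_lit 342) (nat_lit 197)) (XT.lf (nat_lit 0) (nat_lit 3726512139) (nat_lit 608) (nat_lit 9432133640) (nat_lit 684) (nat_lit 6259921755) (nat_lit 207) (nat_lit 5) (nat_lit 215) (nat_lit 5) (nat_lit 216) (nat_lit 5) (nat_lit 362) (nat_lit 342) (nat_lit 196))))) (XT.nd (nat_lit 234) (nat_lit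 1216) (nat_lit 0) (XT.nd (nat_lit 78) (nat_lit 532) (nat_lit 0) (XT.lf (nat_lit 0) (nat_lit 14017761838) (nat_lit 608) (nat_lit 1246175503) (nat_lit 684) (nat_lit 4473924472) (nat_lit 207) (nat_lit 5) (nat_lit 215) (nat_lit 5) (nat_lit 216) (nat_lit 5) (nat_lit 363) (nat_lit 342) (nat_lit 195)) (XT.nd (nat_lit 78) (nat_lit 0) (nat_lit 0) (XT.lf (nat_lit 0) (nat_lit 4564057140) (nat_lit 532) (nat_lit 12974008204) (nat_lit 608) (nat_lit 2525503634) (nat_lit 200) (nat_lit 5) (nat_lit 207) (nat_lit 5) (nat_lit 208) (nat_lit 5) (nat_lit 364) (nat_lit 342) (nat_lit 194)) (XT.lf (nat_lit 0) (nat_lit 15254531530) (nat_lit 532) (nat_lit 4688745419) (nat_lit 608) (nat_lit 453888879) (nat_lit 200) (nat_lit 5) (nat_lit 207) (nat_lit 5) (nat_lit 208) (nat_lit 5) (nat_lit 365) (nat_lit 342) (nat_lit 193)))) (XT.nd (nat_lit 156) (nat_lit 532) (nat_lit 0) (XT.nd (nat_lit 78) (nat_lit 0) (nat_lit 0) (XT.lf (nat_lit 0) (nat_lit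 1731707043) (nat_lit 684) (nat_lit 15165059022) (nat_lit 76) (nat_lit 3840985701) (nat_lit 191) (nat_lit 5) (nat_lit 200) (nat_lit 5) (nat_lit 192) (nat_lit 5) (nat_lit 366) (nat_lit 342) (nat_lit 192)) (XT.lf (nat_lit 0) (nat_lit 4065770828) (nat_lit 684) (nat_lit 4430495993) (nat_lit 76) (nat_lit 12589396862) (nat_lit 191) (nat_lit 5) (nat_lit 200) (nat_lit 5) (nat_lit 192) (nat_lit 5) (nat_lit 367) (nat_lit 342) (nat_lit 191))) (XT.nd (nat_lit 78) (nat_lit 0) (nat_lit 0) (XT.lf (nat_lit 0) (nat_lit 6530249543) (nat_lit 608) (nat_lit 14693333780) (nat_lit 76) (nat_lit 218621632) (nat_lit 184) (nat_lit 5) (nat_lit 192) (nat_lit 5) (nat_lit 185) (nat_lit 5) (nat_lit 368) (nat_lit 342) (nat_lit 190)) (XT.lf (nat_lit 0) (nat_lit 9191447992) (nat_lit 608) (nat_lit 3545118622) (nat_lit 76) (nat_lit 9069195965) (nat_lit 184) (nat_lit 5) (nat_lit 192) (nat_lit 5) (nat_lit 185) (nat_lit 5) (nat_lit 369) (nat_lit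 342) (nat_lit 189)))))) (XT.nd (nat_lit 468) (nat_lit 1368) (nat_lit 0) (XT.nd (nat_lit 234) (nat_lit 988) (nat_lit 0) (XT.nd (nat_lit 78) (nat_lit 456) (nat_lit 0) (XT.lf (nat_lit 0) (nat_lit 8088689143) (nat_lit 532) (nat_lit 3915218167) (nat_lit 608) (nat_lit 10174180443) (nat_lit 177) (nat_lit 5) (nat_lit 184) (nat_lit 5) (nat_lit 185) (nat_lit 5) (nat_lit 370) (nat_lit 342) (nat_lit 188)) (XT.nd (nat_lit 78) (nat_lit 456) (nat_lit 0) (XT.lf (nat_lit 0) (nat_lit 14980386281) (nat_lit 608) (nat_lit 2473198529) (nat_lit 76) (nat_lit 5105611963) (nat_lit 177) (nat_lit 5) (nat_lit 185) (nat_lit 5) (nat_lit 178) (nat_lit 5) (nat_lit 371) (nat_lit 342) (nat_lit 187)) (XT.lf (nat_lit 0) (nat_lit 9634104187) (nat_lit 456) (nat_lit 8537397870) (nat_lit 532) (nat_lit 4776480096) (nat_lit 171) (nat_lit 5) (nat_lit 177) (nat_lit 5) (nat_lit 178) (nat_lit 5) (nat_lit 372) (nat_lit 342) (nat_lit 186)))) (XT.nd (nat_lit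 78) (nat_lit 988) (nat_lit 0) (XT.lf (nat_lit 0) (nat_lit 21483861047) (nat_lit 532) (nat_lit 1205542186) (nat_lit 76) (nat_lit 658265836) (nat_lit 171) (nat_lit 5) (nat_lit 178) (nat_lit 5) (nat_lit 172) (nat_lit 5) (nat_lit 373) (nat_lit 342) (nat_lit 185)) (XT.nd (nat_lit 78) (nat_lit 456) (nat_lit 0) (XT.lf (nat_lit 0) (nat_lit 1304269150) (nat_lit 532) (nat_lit 12369096468) (nat_lit 76) (nat_lit 10079950470) (nat_lit 164) (nat_lit 5) (nat_lit 171) (nat_lit 5) (nat_lit 165) (nat_lit 5) (nat_lit 374) (nat_lit 342) (nat_lit 184)) (XT.lf (nat_lit 0) (nat_lit 184055459) (nat_lit 456) (nat_lit 4354230520) (nat_lit 532) (nat_lit 19632045183) (nat_lit 158) (nat_lit 5) (nat_lit 164) (nat_lit 5) (nat_lit 165) (nat_lit 5) (nat_lit 375) (nat_lit 342) (nat_lit 183))))) (XT.nd (nat_lit 234) (nat_lit 912) (nat_lit 0) (XT.nd (nat_lit 78) (nat_lit 456) (nat_lit 0) (XT.lf (nat_lit 0) (nat_lit 8040266113) (nat_lit 532)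 (nat_lit 11287082179) (nat_lit 76) (nat_lit 5267383011) (nat_lit 158) (nat_lit 5) (nat_lit 165) (nat_lit 5) (nat_lit 159) (nat_lit 5) (nat_lit 376) (nat_lit 342) (nat_lit 182)) (XT.nd (nat_lit 78) (nat_lit 0) (nat_lit 0) (XT.lf (nat_lit 0) (nat_lit 1778190298) (nat_lit 456) (nat_lit 9923872387) (nat_lit 532) (nat_lit 13328160871) (nat_lit 152) (nat_lit 5) (nat_lit 158) (nat_lit 5) (nat_lit 159) (nat_lit 5) (nat_lit 377) (nat_lit 342) (nat_lit 181)) (XT.lf (nat_lit 0) (nat_lit 15460374089) (nat_lit 456) (nat_lit 121966188) (nat_lit 532) (nat_lit 9893184221) (nat_lit 152) (nat_lit 5) (nat_lit 158) (nat_lit 5) (nat_lit 159) (nat_lit 5) (nat_lit 378) (nat_lit 342) (nat_lit 180)))) (XT.nd (nat_lit 156) (nat_lit 532) (nat_lit 0) (XT.nd (nat_lit 78) (nat_lit 0) (nat_lit 0) (XT.lf (nat_lit 0) (nat_lit 3586567146) (nat_lit 380) (nat_lit 16117607054) (nat_lit 456) (nat_lit 6226258483) (nat_lit 147) (nat_lit 5) (nat_lit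 152) (nat_lit 5) (nat_lit 153) (nat_lit 5) (nat_lit 379) (nat_lit 342) (nat_lit 179)) (XT.lf (nat_lit 0) (nat_lit 17794085489) (nat_lit 380) (nat_lit 6252793180) (nat_lit 456) (nat_lit 2349195558) (nat_lit 147) (nat_lit 5) (nat_lit 152) (nat_lit 5) (nat_lit 153) (nat_lit 5) (nat_lit 380) (nat_lit 342) (nat_lit 178))) (XT.nd (nat_lit 78) (nat_lit 0) (nat_lit 0) (XT.lf (nat_lit 0) (nat_lit 1699543093) (nat_lit 532) (nat_lit 21271823288) (nat_lit 76) (nat_lit 3901223492) (nat_lit 140) (nat_lit 5) (nat_lit 147) (nat_lit 5) (nat_lit 141) (nat_lit 5) (nat_lit 381) (nat_lit 342) (nat_lit 177)) (XT.lf (nat_lit 0) (nat_lit 5967217962) (nat_lit 532) (nat_lit 7047201594) (nat_lit 76) (nat_lit 14343945291) (nat_lit 140) (nat_lit 5) (nat_lit 147) (nat_lit 5) (nat_lit 141) (nat_lit 5) (nat_lit 382) (nat_lit 342) (nat_lit 176))))))) (XT.nd (nat_lit 1014) (nat_lit 2280) (nat_lit 0) (XT.nd (nat_lit 468) (nat_lit 1368) (nat_lit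 0) (XT.nd (nat_lit 234) (nat_lit 380) (nat_lit 0) (XT.nd (nat_lit 78) (nat_lit 380) (nat_lit 0) (XT.lf (nat_lit 0) (nat_lit 7749243159) (nat_lit 380) (nat_lit 2683372779) (nat_lit 456) (nat_lit 17424008639) (nat_lit 135) (nat_lit 5) (nat_lit 140) (nat_lit 5) (nat_lit 141) (nat_lit 5) (nat_lit 383) (nat_lit 342) (nat_lit 175)) (XT.nd (nat_lit 78) (nat_lit 380) (nat_lit 0) (XT.lf (nat_lit 0) (nat_lit 15175607475) (nat_lit 456) (nat_lit 5317055000) (nat_lit 76) (nat_lit 7872862899) (nat_lit 135) (nat_lit 5) (nat_lit 141) (nat_lit 5) (nat_lit 136) (nat_lit 5) (nat_lit 384) (nat_lit 342) (nat_lit 174)) (XT.lf (nat_lit 0) (nat_lit 10081110768) (nat_lit 380) (nat_lit 10098660334) (nat_lit 456) (nat_lit 8706357783) (nat_lit 130) (nat_lit 5) (nat_lit 135) (nat_lit 5) (nat_lit 136) (nat_lit 5) (nat_lit 385) (nat_lit 342) (nat_lit 173)))) (XT.nd (nat_lit 78) (nat_lit 380) (nat_lit 0) (XT.lf (nat_lit 0) (nat_lit 25389590486)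 (nat_lit 456) (nat_lit 3382977620) (nat_lit 76) (nat_lit 648118565) (nat_lit 130) (nat_lit 5) (nat_lit 136) (nat_lit 5) (nat_lit 131) (nat_lit 5) (nat_lit 386) (nat_lit 342) (nat_lit 172)) (XT.nd (nat_lit 78) (nat_lit 0) (nat_lit 0) (XT.lf (nat_lit 0) (nat_lit 988381404) (nat_lit 380) (nat_lit 17331929594) (nat_lit 76) (nat_lit 11644168007) (nat_lit 125) (nat_lit 5) (nat_lit 130) (nat_lit 5) (nat_lit 126) (nat_lit 5) (nat_lit 387) (nat_lit 342) (nat_lit 171)) (XT.lf (nat_lit 0) (nat_lit 6107551939) (nat_lit 380) (nat_lit 1371859855) (nat_lit 76) (nat_lit 23043073988) (nat_lit 125) (nat_lit 5) (nat_lit 130) (nat_lit 5) (nat_lit 126) (nat_lit 5) (nat_lit 388) (nat_lit 342) (nat_lit 170))))) (XT.nd (nat_lit 234) (nat_lit 684) (nat_lit 0) (XT.nd (nat_lit 78) (nat_lit 304) (nat_lit 0) (XT.lf (nat_lit 0) (nat_lit 11560600406) (nat_lit 456) (nat_lit 15768824616) (nat_lit 76) (nat_lit 3762400518) (nat_lit 120)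 (nat_lit 5) (nat_lit 126) (nat_lit 5) (nat_lit 121) (nat_lit 5) (nat_lit 389) (nat_lit 342) (nat_lit 169)) (XT.nd (nat_lit 78) (nat_lit 0) (nat_lit 0) (XT.lf (nat_lit 0) (nat_lit 804688819) (nat_lit 304) (nat_lit 16464141697) (nat_lit 380) (nat_lit 14406669079) (nat_lit 116) (nat_lit 5) (nat_lit 120) (nat_lit 5) (nat_lit 121) (nat_lit 5) (nat_lit 390) (nat_lit 342) (nat_lit 168)) (XT.lf (nat_lit 0) (nat_lit 18192887953) (nat_lit 304) (nat_lit 5110531562) (nat_lit 380) (nat_lit 8968612751) (nat_lit 116) (nat_lit 5) (nat_lit 120) (nat_lit 5) (nat_lit 121) (nat_lit 5) (nat_lit 391) (nat_lit 342) (nat_lit 167)))) (XT.nd (nat_lit 156) (nat_lit 304) (nat_lit 0) (XT.nd (nat_lit 78) (nat_lit 76) (nat_lit 0) (XT.lf (nat_lit 0) (nat_lit 3209919132) (nat_lit 304) (nat_lit 26399251694) (nat_lit 380) (nat_lit 3274588058) (nat_lit 112) (nat_lit 5) (nat_lit 116) (nat_lit 5) (nat_lit 117) (nat_lit 5) (nat_lit 392) (nat_lit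 342) (nat_lit 166)) (XT.lf (nat_lit 0) (nat_lit 2729895294) (nat_lit 380) (nat_lit 12285943989) (nat_lit 76) (nat_lit 18491547155) (nat_lit 111) (nat_lit 5) (nat_lit 116) (nat_lit 5) (nat_lit 112) (nat_lit 5) (nat_lit 393) (nat_lit 342) (nat_lit 165))) (XT.nd (nat_lit 78) (nat_lit 0) (nat_lit 0) (XT.lf (nat_lit 0) (nat_lit 5696769459) (nat_lit 304) (nat_lit 3202809373) (nat_lit 380) (nat_lit 25247646447) (nat_lit 107) (nat_lit 5) (nat_lit 111) (nat_lit 5) (nat_lit 112) (nat_lit 5) (nat_lit 394) (nat_lit 342) (nat_lit 164)) (XT.lf (nat_lit 0) (nat_lit 15461983150) (nat_lit 380) (nat_lit 10424732278) (nat_lit 76) (nat_lit 8913316462) (nat_lit 107) (nat_lit 5) (nat_lit 112) (nat_lit 5) (nat_lit 108) (nat_lit 5) (nat_lit 395) (nat_lit 342) (nat_lit 163)))))) (XT.nd (nat_lit 546) (nat_lit 1140) (nat_lit 0) (XT.nd (nat_lit 234) (nat_lit 532) (nat_lit 0) (XT.nd (nat_lit 78) (nat_lit 304) (nat_lit 0) (XT.lf (nat_lit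 0) (nat_lit 8265905551) (nat_lit 304) (nat_lit 14062798325) (nat_lit 380) (nat_lit 13140496967) (nat_lit 103) (nat_lit 5) (nat_lit 107) (nat_lit 5) (nat_lit 108) (nat_lit 5) (nat_lit 396) (nat_lit 342) (nat_lit 162)) (XT.nd (nat_lit 78) (nat_lit 304) (nat_lit 0) (XT.lf (nat_lit 0) (nat_lit 27725568656) (nat_lit 304) (nat_lit 1777459914) (nat_lit 380) (nat_lit 6652369651) (nat_lit 103) (nat_lit 5) (nat_lit 107) (nat_lit 5) (nat_lit 108) (nat_lit 5) (nat_lit 397) (nat_lit 342) (nat_lit 161)) (XT.lf (nat_lit 0) (nat_lit 238681953) (nat_lit 304) (nat_lit 25846473963) (nat_lit 76) (nat_lit 10770751971) (nat_lit 99) (nat_lit 5) (nat_lit 103) (nat_lit 5) (nat_lit 100) (nat_lit 5) (nat_lit 398) (nat_lit 342) (nat_lit 160)))) (XT.nd (nat_lit 156) (nat_lit 228) (nat_lit 0) (XT.nd (nat_lit 78) (nat_lit 304) (nat_lit 0) (XT.lf (nat_lit 0) (nat_lit 7302766228) (nat_lit 304) (nat_lit 6459852690) (nat_lit 76) (nat_lit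 23809839066) (nat_lit 99) (nat_lit 5) (nat_lit 103) (nat_lit 5) (nat_lit 100) (nat_lit 5) (nat_lit 399) (nat_lit 342) (nat_lit 159)) (XT.lf (nat_lit 0) (nat_lit 13771916950) (nat_lit 304) (nat_lit 935784816) (nat_lit 380) (nat_lit 23598936224) (nat_lit 95) (nat_lit 5) (nat_lit 99) (nat_lit 5) (nat_lit 100) (nat_lit 5) (nat_lit 400) (nat_lit 342) (nat_lit 158))) (XT.nd (nat_lit 78) (nat_lit 228) (nat_lit 0) (XT.lf (nat_lit 0) (nat_lit 22515245307) (nat_lit 380) (nat_lit 4441700763) (nat_lit 76) (nat_lit 12100484760) (nat_lit 95) (nat_lit 5) (nat_lit 100) (nat_lit 5) (nat_lit 96) (nat_lit 5) (nat_lit 401) (nat_lit 342) (nat_lit 157)) (XT.lf (nat_lit 0) (nat_lit 16562974656) (nat_lit 228) (nat_lit 14159197980) (nat_lit 304) (nat_lit 9103621289) (nat_lit 92) (nat_lit 5) (nat_lit 95) (nat_lit 5) (nat_lit 96) (nat_lit 5) (nat_lit 402) (nat_lit 342) (nat_lit 156))))) (XT.nd (nat_lit 234) (nat_lit 760) (nat_lit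 0) (XT.nd (nat_lit 78) (nat_lit 380) (nat_lit 0) (XT.lf (nat_lit 0) (nat_lit 38283817030) (nat_lit 228) (nat_lit 933070509) (nat_lit 304) (nat_lit 1399074144) (nat_lit 92) (nat_lit 5) (nat_lit 95) (nat_lit 5) (nat_lit 96) (nat_lit 5) (nat_lit 403) (nat_lit 342) (nat_lit 155)) (XT.nd (nat_lit 78) (nat_lit 0) (nat_lit 0) (XT.lf (nat_lit 0) (nat_lit 6718124478) (nat_lit 380) (nat_lit 22006890613) (nat_lit 76) (nat_lit 12693663423) (nat_lit 87) (nat_lit 5) (nat_lit 92) (nat_lit 5) (nat_lit 88) (nat_lit 5) (nat_lit 404) (nat_lit 342) (nat_lit 154)) (XT.lf (nat_lit 0) (nat_lit 15080560490) (nat_lit 380) (nat_lit 417222298) (nat_lit 76) (nat_lit 26746384316) (nat_lit 87) (nat_lit 5) (nat_lit 92) (nat_lit 5) (nat_lit 88) (nat_lit 5) (nat_lit 405) (nat_lit 342) (nat_lit 153)))) (XT.nd (nat_lit 156) (nat_lit 304) (nat_lit 0) (XT.nd (nat_lit 78) (nat_lit 228) (nat_lit 0) (XT.lf (nat_lit 0) (nat_lit 22249474966) (nat_lit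 228) (nat_lit 1655182662) (nat_lit 304) (nat_lit 19183440113) (nat_lit 84) (nat_lit 5) (nat_lit 87) (nat_lit 5) (nat_lit 88) (nat_lit 5) (nat_lit 406) (nat_lit 342) (nat_lit 152)) (XT.lf (nat_lit 0) (nat_lit 1551742685) (nat_lit 228) (nat_lit 31578990702) (nat_lit 304) (nat_lit 10822496240) (nat_lit 81) (nat_lit 5) (nat_lit 84) (nat_lit 5) (nat_lit 85) (nat_lit 5) (nat_lit 407) (nat_lit 342) (nat_lit 151))) (XT.nd (nat_lit 78) (nat_lit 304) (nat_lit 0) (XT.lf (nat_lit 0) (nat_lit 25019467199) (nat_lit 228) (nat_lit 17837763382) (nat_lit 304) (nat_lit 1980376685) (nat_lit 81) (nat_lit 5) (nat_lit 84) (nat_lit 5) (nat_lit 85) (nat_lit 5) (nat_lit 408) (nat_lit 342) (nat_lit 150)) (XT.lf (nat_lit 0) (nat_lit 3436528220) (nat_lit 228) (nat_lit 3581479287) (nat_lit 304) (nat_lit 38727552132) (nat_lit 77) (nat_lit 5) (nat_lit 80) (nat_lit 5) (nat_lit 81) (nat_lit 5) (nat_lit 409) (nat_lit 342) (nat_lit 149))))))))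
noncomputable def xc201 : XT := (XT.nd (nat_lit 41808) (nat_lit 0) (nat_lit 9880) (XT.nd (nat_lit 1014) (nat_lit 988) (nat_lit 0) (XT.nd (nat_lit 468) (nat_lit 608) (nat_lit 0) (XT.nd (nat_lit 234) (nat_lit 456) (nat_lit 0) (XT.nd (nat_lit 78) (nat_lit 228) (nat_lit 0) (XT.lf (nat_lit 0) (nat_lit 16552434189) (nat_lit 304) (nat_lit 19012724935) (nat_lit 76) (nat_lit 11105827280) (nat_lit 77) (nat_lit 5) (nat_lit 81) (nat_lit 5) (nat_lit 78) (nat_lit 5) (nat_lit 410) (nat_lit 342) (nat_lit 148)) (XT.nd (nat_lit 78) (nat_lit 0) (nat_lit 0) (XT.lf (nat_lit 0) (nat_lit 5040758365) (nat_lit 228) (nat_lit 21413200671) (nat_lit 304) (nat_lit 21167785839) (nat_lit 74) (nat_lit 5) (nat_lit 77) (nat_lit 5) (nat_lit 78) (nat_lit 5) (nat_lit 411) (nat_lit 342) (nat_lit 147)) (XT.lf (nat_lit 0) (nat_lit 30201018099) (nat_lit 228) (nat_lit 6640692161) (nat_lit 304) (nat_lit 11753641260) (nat_lit 74) (nat_lit 5) (nat_lit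 77) (nat_lit 5) (nat_lit 78) (nat_lit 5) (nat_lit 412) (nat_lit 342) (nat_lit 146)))) (XT.nd (nat_lit 78) (nat_lit 304) (nat_lit 0) (XT.lf (nat_lit 0) (nat_lit 6558977033) (nat_lit 152) (nat_lit 41124848781) (nat_lit 228) (nat_lit 1910059410) (nat_lit 72) (nat_lit 5) (nat_lit 74) (nat_lit 5) (nat_lit 75) (nat_lit 5) (nat_lit 413) (nat_lit 342) (nat_lit 145)) (XT.nd (nat_lit 78) (nat_lit 228) (nat_lit 0) (XT.lf (nat_lit 0) (nat_lit 8318855321) (nat_lit 228) (nat_lit 18130053474) (nat_lit 76) (nat_lit 24163575910) (nat_lit 71) (nat_lit 5) (nat_lit 74) (nat_lit 5) (nat_lit 72) (nat_lit 5) (nat_lit 414) (nat_lit 342) (nat_lit 144)) (XT.lf (nat_lit 0) (nat_lit 7647890292) (nat_lit 228) (nat_lit 11239217111) (nat_lit 304) (nat_lit 32771842360) (nat_lit 68) (nat_lit 5) (nat_lit 71) (nat_lit 5) (nat_lit 72) (nat_lit 5) (nat_lit 415) (nat_lit 342) (nat_lit 143))))) (XT.nd (nat_lit 234) (nat_lit 456) (nat_lit 0)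 (XT.nd (nat_lit 78) (nat_lit 152) (nat_lit 0) (XT.lf (nat_lit 0) (nat_lit 29997213592) (nat_lit 304) (nat_lit 18209264002) (nat_lit 76) (nat_lit 4523587709) (nat_lit 68) (nat_lit 5) (nat_lit 72) (nat_lit 5) (nat_lit 69) (nat_lit 5) (nat_lit 416) (nat_lit 342) (nat_lit 142)) (XT.nd (nat_lit 78) (nat_lit 0) (nat_lit 0) (XT.lf (nat_lit 0) (nat_lit 8415243064) (nat_lit 152) (nat_lit 33214991666) (nat_lit 228) (nat_lit 12197391925) (nat_lit 66) (nat_lit 5) (nat_lit 68) (nat_lit 5) (nat_lit 69) (nat_lit 5) (nat_lit 417) (nat_lit 342) (nat_lit 141)) (XT.lf (nat_lit 0) (nat_lit 36207524717) (nat_lit 152) (nat_lit 17586073451) (nat_lit 228) (nat_lit 1159076814) (nat_lit 66) (nat_lit 5) (nat_lit 68) (nat_lit 5) (nat_lit 69) (nat_lit 5) (nat_lit 418) (nat_lit 342) (nat_lit 140)))) (XT.nd (nat_lit 156) (nat_lit 152) (nat_lit 0) (XT.nd (nat_lit 78) (nat_lit 0) (nat_lit 0) (XT.lf (nat_lit 0) (nat_lit 8791342979) (nat_lit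 228) (nat_lit 1301833543) (nat_lit 304) (nat_lit 46012893517) (nat_lit 62) (nat_lit 5) (nat_lit 65) (nat_lit 5) (nat_lit 66) (nat_lit 5) (nat_lit 419) (nat_lit 342) (nat_lit 139)) (XT.lf (nat_lit 0) (nat_lit 21997119588) (nat_lit 304) (nat_lit 19916442744) (nat_lit 76) (nat_lit 15370038407) (nat_lit 62) (nat_lit 5) (nat_lit 66) (nat_lit 5) (nat_lit 63) (nat_lit 5) (nat_lit 420) (nat_lit 342) (nat_lit 138))) (XT.nd (nat_lit 78) (nat_lit 0) (nat_lit 0) (XT.lf (nat_lit 0) (nat_lit 8451770323) (nat_lit 152) (nat_lit 25898154262) (nat_lit 228) (nat_lit 24143781071) (nat_lit 60) (nat_lit 5) (nat_lit 62) (nat_lit 5) (nat_lit 63) (nat_lit 5) (nat_lit 421) (nat_lit 342) (nat_lit 137)) (XT.lf (nat_lit 0) (nat_lit 38075282270) (nat_lit 152) (nat_lit 9196790096) (nat_lit 228) (nat_lit 12462079185) (nat_lit 60) (nat_lit 5) (nat_lit 62) (nat_lit 5) (nat_lit 63) (nat_lit 5) (nat_lit 422) (nat_lit 342) (nat_lit 136))))))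 (XT.nd (nat_lit 468) (nat_lit 380) (nat_lit 0) (XT.nd (nat_lit 234) (nat_lit 228) (nat_lit 0) (XT.nd (nat_lit 78) (nat_lit 228) (nat_lit 0) (XT.lf (nat_lit 0) (nat_lit 7643942817) (nat_lit 152) (nat_lit 53086069727) (nat_lit 228) (nat_lit 277355010) (nat_lit 58) (nat_lit 5) (nat_lit 60) (nat_lit 5) (nat_lit 61) (nat_lit 5) (nat_lit 423) (nat_lit 342) (nat_lit 135)) (XT.nd (nat_lit 78) (nat_lit 152) (nat_lit 0) (XT.lf (nat_lit 0) (nat_lit 12343058391) (nat_lit 228) (nat_lit 24257550794) (nat_lit 76) (nat_lit 25705343063) (nat_lit 57) (nat_lit 5) (nat_lit 60) (nat_lit 5) (nat_lit 58) (nat_lit 5) (nat_lit 424) (nat_lit 342) (nat_lit 134)) (XT.lf (nat_lit 0) (nat_lit 5828647035) (nat_lit 152) (nat_lit 19561659363) (nat_lit 228) (nat_lit 38251492322) (nat_lit 55) (nat_lit 5) (nat_lit 57) (nat_lit 5) (nat_lit 58) (nat_lit 5) (nat_lit 425) (nat_lit 342) (nat_lit 133)))) (XT.nd (nat_lit 78) (nat_lit 228) (nat_lit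 0) (XT.lf (nat_lit 0) (nat_lit 37310880357) (nat_lit 152) (nat_lit 1760841845) (nat_lit 228) (nat_lit 25938716379) (nat_lit 55) (nat_lit 5) (nat_lit 57) (nat_lit 5) (nat_lit 58) (nat_lit 5) (nat_lit 426) (nat_lit 342) (nat_lit 132)) (XT.nd (nat_lit 78) (nat_lit 76) (nat_lit 0) (XT.lf (nat_lit 0) (nat_lit 3217156631) (nat_lit 152) (nat_lit 50134514429) (nat_lit 228) (nat_lit 13062824356) (nat_lit 53) (nat_lit 5) (nat_lit 55) (nat_lit 5) (nat_lit 56) (nat_lit 5) (nat_lit 427) (nat_lit 342) (nat_lit 131)) (XT.lf (nat_lit 0) (nat_lit 493220654) (nat_lit 228) (nat_lit 32248967411) (nat_lit 76) (nat_lit 35109495882) (nat_lit 52) (nat_lit 5) (nat_lit 55) (nat_lit 5) (nat_lit 53) (nat_lit 5) (nat_lit 428) (nat_lit 342) (nat_lit 130))))) (XT.nd (nat_lit 234) (nat_lit 228) (nat_lit 0) (XT.nd (nat_lit 78) (nat_lit 152) (nat_lit 0) (XT.lf (nat_lit 0) (nat_lit 14191311195) (nat_lit 228) (nat_lit 505122312) (nat_lit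 76) (nat_lit 54631737611) (nat_lit 52) (nat_lit 5) (nat_lit 55) (nat_lit 5) (nat_lit 53) (nat_lit 5) (nat_lit 429) (nat_lit 342) (nat_lit 129)) (XT.nd (nat_lit 78) (nat_lit 0) (nat_lit 0) (XT.lf (nat_lit 0) (nat_lit 28654392560) (nat_lit 228) (nat_lit 38051960675) (nat_lit 76) (nat_lit 4131978664) (nat_lit 50) (nat_lit 5) (nat_lit 53) (nat_lit 5) (nat_lit 51) (nat_lit 5) (nat_lit 430) (nat_lit 342) (nat_lit 128)) (XT.lf (nat_lit 0) (nat_lit 43700012516) (nat_lit 228) (nat_lit 5455787890) (nat_lit 76) (nat_lit 23233538137) (nat_lit 50) (nat_lit 5) (nat_lit 53) (nat_lit 5) (nat_lit 51) (nat_lit 5) (nat_lit 431) (nat_lit 342) (nat_lit 127)))) (XT.nd (nat_lit 39936) (nat_lit 0) (nat_lit 14668) (XT.nd (nat_lit 78) (nat_lit 76) (nat_lit 0) (XT.lf (nat_lit 0) (nat_lit 28674365825) (nat_lit 152) (nat_lit 30796315123) (nat_lit 228) (nat_lit 14507984455) (nat_lit 48) (nat_lit 5) (nat_lit 50) (nat_lit 5) (nat_lit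 51) (nat_lit 5) (nat_lit 432) (nat_lit 342) (nat_lit 126)) (XT.lf (nat_lit 0) (nat_lit 150556694) (nat_lit 228) (nat_lit 11678701865) (nat_lit 76) (nat_lit 63784774791) (nat_lit 47) (nat_lit 5) (nat_lit 50) (nat_lit 5) (nat_lit 48) (nat_lit 5) (nat_lit 433) (nat_lit 342) (nat_lit 125))) (XT.nd (nat_lit 78) (nat_lit 0) (nat_lit 0) (XT.lf (nat_lit 0) (nat_lit 2056729751) (nat_lit 0) (nat_lit 2056729751) (nat_lit 1140) (nat_lit 3255186622) (nat_lit 240) (nat_lit 5) (nat_lit 240) (nat_lit 3) (nat_lit 255) (nat_lit 3) (nat_lit 343) (nat_lit 343) (nat_lit 214)) (XT.lf (nat_lit 0) (nat_lit 8676061812) (nat_lit 1140) (nat_lit 3667726057) (nat_lit 1216) (nat_lit 2604594366) (nat_lit 240) (nat_lit 5) (nat_lit 255) (nat_lit 3) (nat_lit 256) (nat_lit 5) (nat_lit 344) (nat_lit 343) (nat_lit 213))))))) (XT.nd (nat_lit 1014) (nat_lit 3876) (nat_lit 0) (XT.nd (nat_lit 468) (nat_lit 912) (nat_lit 0) (XT.nd (nat_lit 234)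 (nat_lit 0) (nat_lit 76) (XT.nd (nat_lit 78) (nat_lit 0) (nat_lit 76) (XT.lf (nat_lit 76) (nat_lit 3518725980) (nat_lit 0) (nat_lit 5682844590) (nat_lit 1216) (nat_lit 5962355300) (nat_lit 241) (nat_lit 5) (nat_lit 240) (nat_lit 5) (nat_lit 256) (nat_lit 5) (nat_lit 345) (nat_lit 343) (nat_lit 212)) (XT.nd (nat_lit 78) (nat_lit 0) (nat_lit 0) (XT.lf (nat_lit 0) (nat_lit 9780240854) (nat_lit 1140) (nat_lit 4407168588) (nat_lit 1216) (nat_lit 1197411956) (nat_lit 241) (nat_lit 5) (nat_lit 256) (nat_lit 5) (nat_lit 257) (nat_lit 5) (nat_lit 346) (nat_lit 343) (nat_lit 211)) (XT.lf (nat_lit 76) (nat_lit 3044733534) (nat_lit 0) (nat_lit 7406071114) (nat_lit 1216) (nat_lit 5159310397) (nat_lit 242) (nat_lit 5) (nat_lit 241) (nat_lit 5) (nat_lit 257) (nat_lit 5) (nat_lit 347) (nat_lit 343) (nat_lit 210)))) (XT.nd (nat_lit 78) (nat_lit 0) (nat_lit 76) (XT.lf (nat_lit 76) (nat_lit 10804180229) (nat_lit 0) (nat_lit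 371067967) (nat_lit 1216) (nat_lit 4665913465) (nat_lit 242) (nat_lit 5) (nat_lit 241) (nat_lit 5) (nat_lit 257) (nat_lit 5) (nat_lit 348) (nat_lit 343) (nat_lit 209)) (XT.nd (nat_lit 78) (nat_lit 0) (nat_lit 0) (XT.lf (nat_lit 76) (nat_lit 2697287235) (nat_lit 0) (nat_lit 9305765205) (nat_lit 1216) (nat_lit 4073645251) (nat_lit 243) (nat_lit 5) (nat_lit 242) (nat_lit 5) (nat_lit 258) (nat_lit 5) (nat_lit 349) (nat_lit 343) (nat_lit 208)) (XT.lf (nat_lit 76) (nat_lit 10756623473) (nat_lit 0) (nat_lit 2143422125) (nat_lit 1216) (nat_lit 3417930201) (nat_lit 243) (nat_lit 5) (nat_lit 242) (nat_lit 5) (nat_lit 258) (nat_lit 5) (nat_lit 350) (nat_lit 343) (nat_lit 207))))) (XT.nd (nat_lit 234) (nat_lit 1140) (nat_lit 0) (XT.nd (nat_lit 78) (nat_lit 0) (nat_lit 0) (XT.lf (nat_lit 76) (nat_lit 2482770341) (nat_lit 0) (nat_lit 11405537631) (nat_lit 1216) (nat_lit 2676259941) (nat_lit 244) (nat_lit 5) (nat_lit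 243) (nat_lit 5) (nat_lit 259) (nat_lit 5) (nat_lit 351) (nat_lit 343) (nat_lit 206)) (XT.nd (nat_lit 78) (nat_lit 0) (nat_lit 76) (XT.lf (nat_lit 76) (nat_lit 10854024855) (nat_lit 0) (nat_lit 4119772140) (nat_lit 1216) (nat_lit 1842739693) (nat_lit 244) (nat_lit 5) (nat_lit 243) (nat_lit 5) (nat_lit 259) (nat_lit 5) (nat_lit 352) (nat_lit 343) (nat_lit 205)) (XT.lf (nat_lit 76) (nat_lit 2408136477) (nat_lit 0) (nat_lit 13730111138) (nat_lit 1216) (nat_lit 936431077) (nat_lit 245) (nat_lit 5) (nat_lit 244) (nat_lit 5) (nat_lit 260) (nat_lit 5) (nat_lit 353) (nat_lit 343) (nat_lit 204)))) (XT.nd (nat_lit 156) (nat_lit 0) (nat_lit 76) (XT.nd (nat_lit 78) (nat_lit 0) (nat_lit 76) (XT.lf (nat_lit 0) (nat_lit 89544871) (nat_lit 1216) (nat_lit 6234782346) (nat_lit 1292) (nat_lit 11013471688) (nat_lit 228) (nat_lit 5) (nat_lit 244) (nat_lit 5) (nat_lit 245) (nat_lit 5) (nat_lit 354) (nat_lit 343) (nat_lit 203))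 (XT.lf (nat_lit 0) (nat_lit 1155316094) (nat_lit 1216) (nat_lit 15138469584) (nat_lit 1292) (nat_lit 1313919340) (nat_lit 229) (nat_lit 5) (nat_lit 245) (nat_lit 5) (nat_lit 246) (nat_lit 5) (nat_lit 355) (nat_lit 343) (nat_lit 202))) (XT.nd (nat_lit 78) (nat_lit 0) (nat_lit 0) (XT.lf (nat_lit 0) (nat_lit 2370569994) (nat_lit 1216) (nat_lit 6391700164) (nat_lit 1292) (nat_lit 9119918268) (nat_lit 229) (nat_lit 5) (nat_lit 245) (nat_lit 5) (nat_lit 246) (nat_lit 5) (nat_lit 356) (nat_lit 343) (nat_lit 201)) (XT.lf (nat_lit 76) (nat_lit 2662811201) (nat_lit 0) (nat_lit 976629992) (nat_lit 1292) (nat_lit 14524955595) (nat_lit 230) (nat_lit 5) (nat_lit 229) (nat_lit 5) (nat_lit 246) (nat_lit 5) (nat_lit 357) (nat_lit 343) (nat_lit 200)))))) (XT.nd (nat_lit 546) (nat_lit 2280) (nat_lit 0) (XT.nd (nat_lit 234) (nat_lit 1748) (nat_lit 0) (XT.nd (nat_lit 78) (nat_lit 0) (nat_lit 0) (XT.lf (nat_lit 0) (nat_lit 5071020921)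 (nat_lit 1216) (nat_lit 6408316502) (nat_lit 1292) (nat_lit 6971999795) (nat_lit 230) (nat_lit 5) (nat_lit 246) (nat_lit 5) (nat_lit 247) (nat_lit 5) (nat_lit 358) (nat_lit 343) (nat_lit 199)) (XT.nd (nat_lit 78) (nat_lit 0) (nat_lit 76) (XT.lf (nat_lit 76) (nat_lit 2999994293) (nat_lit 0) (nat_lit 3576063195) (nat_lit 1292) (nat_lit 12169918028) (nat_lit 231) (nat_lit 5) (nat_lit 230) (nat_lit 5) (nat_lit 247) (nat_lit 5) (nat_lit 359) (nat_lit 343) (nat_lit 198)) (XT.lf (nat_lit 0) (nat_lit 8227656322) (nat_lit 1216) (nat_lit 6276922927) (nat_lit 76) (nat_lit 4541836178) (nat_lit 231) (nat_lit 5) (nat_lit 247) (nat_lit 5) (nat_lit 232) (nat_lit 5) (nat_lit 360) (nat_lit 343) (nat_lit 197)))) (XT.nd (nat_lit 156) (nat_lit 608) (nat_lit 0) (XT.nd (nat_lit 78) (nat_lit 0) (nat_lit 0) (XT.lf (nat_lit 0) (nat_lit 3502531754) (nat_lit 1216) (nat_lit 6487758155) (nat_lit 1292) (nat_lit 9363738678) (nat_lit 215)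 (nat_lit 5) (nat_lit 231) (nat_lit 5) (nat_lit 232) (nat_lit 5) (nat_lit 361) (nat_lit 343) (nat_lit 196)) (XT.lf (nat_lit 0) (nat_lit 11879403097) (nat_lit 1292) (nat_lit 5989352326) (nat_lit 76) (nat_lit 1799911223) (nat_lit 215) (nat_lit 5) (nat_lit 232) (nat_lit 5) (nat_lit 216) (nat_lit 5) (nat_lit 362) (nat_lit 343) (nat_lit 195))) (XT.nd (nat_lit 78) (nat_lit 0) (nat_lit 0) (XT.lf (nat_lit 0) (nat_lit 4179387029) (nat_lit 608) (nat_lit 9743007114) (nat_lit 684) (nat_lit 6067437959) (nat_lit 207) (nat_lit 5) (nat_lit 215) (nat_lit 5) (nat_lit 216) (nat_lit 5) (nat_lit 363) (nat_lit 343) (nat_lit 194)) (XT.lf (nat_lit 0) (nat_lit 14769439863) (nat_lit 608) (nat_lit 1310657336) (nat_lit 684) (nat_lit 4238936916) (nat_lit 207) (nat_lit 5) (nat_lit 215) (nat_lit 5) (nat_lit 216) (nat_lit 5) (nat_lit 364) (nat_lit 343) (nat_lit 193))))) (XT.nd (nat_lit 234) (nat_lit 1064) (nat_lit 0) (XT.nd (nat_lit 78)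 (nat_lit 684) (nat_lit 0) (XT.lf (nat_lit 0) (nat_lit 5039991484) (nat_lit 532) (nat_lit 13375029247) (nat_lit 608) (nat_lit 2239720914) (nat_lit 200) (nat_lit 5) (nat_lit 207) (nat_lit 5) (nat_lit 208) (nat_lit 5) (nat_lit 365) (nat_lit 343) (nat_lit 192)) (XT.nd (nat_lit 78) (nat_lit 684) (nat_lit 0) (XT.lf (nat_lit 0) (nat_lit 16041305952) (nat_lit 532) (nat_lit 4840864866) (nat_lit 608) (nat_lit 116488235) (nat_lit 200) (nat_lit 5) (nat_lit 207) (nat_lit 5) (nat_lit 208) (nat_lit 5) (nat_lit 366) (nat_lit 343) (nat_lit 191)) (XT.lf (nat_lit 0) (nat_lit 2120958786) (nat_lit 684) (nat_lit 15276765415) (nat_lit 76) (nat_lit 3951848923) (nat_lit 191) (nat_lit 5) (nat_lit 200) (nat_lit 5) (nat_lit 192) (nat_lit 5) (nat_lit 367) (nat_lit 343) (nat_lit 190)))) (XT.nd (nat_lit 156) (nat_lit 532) (nat_lit 0) (XT.nd (nat_lit 78) (nat_lit 532) (nat_lit 0) (XT.lf (nat_lit 0) (nat_lit 4515220197) (nat_lit 684) (nat_lit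 4230162934) (nat_lit 76) (nat_lit 12962839594) (nat_lit 191) (nat_lit 5) (nat_lit 200) (nat_lit 5) (nat_lit 192) (nat_lit 5) (nat_lit 368) (nat_lit 343) (nat_lit 189)) (XT.lf (nat_lit 0) (nat_lit 7047352379) (nat_lit 608) (nat_lit 14794423812) (nat_lit 76) (nat_lit 233877905) (nat_lit 184) (nat_lit 5) (nat_lit 192) (nat_lit 5) (nat_lit 185) (nat_lit 5) (nat_lit 369) (nat_lit 343) (nat_lit 188))) (XT.nd (nat_lit 78) (nat_lit 532) (nat_lit 0) (XT.lf (nat_lit 0) (nat_lit 9779031577) (nat_lit 608) (nat_lit 3321656665) (nat_lit 76) (nat_lit 9349716139) (nat_lit 184) (nat_lit 5) (nat_lit 192) (nat_lit 5) (nat_lit 185) (nat_lit 5) (nat_lit 370) (nat_lit 343) (nat_lit 187)) (XT.lf (nat_lit 0) (nat_lit 8657931848) (nat_lit 532) (nat_lit 4011989411) (nat_lit 608) (nat_lit 10164161477) (nat_lit 177) (nat_lit 5) (nat_lit 184) (nat_lit 5) (nat_lit 185) (nat_lit 5) (nat_lit 371) (nat_lit 343) (nat_lit 186))))))))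
noncomputable def xc202 : XT := (XT.nd (nat_lit 2028) (nat_lit 3420) (nat_lit 0) (XT.nd (nat_lit 1014) (nat_lit 2432) (nat_lit 0) (XT.nd (nat_lit 468) (nat_lit 1748) (nat_lit 0) (XT.nd (nat_lit 234) (nat_lit 988) (nat_lit 0) (XT.nd (nat_lit 78) (nat_lit 456) (nat_lit 0) (XT.lf (nat_lit 0) (nat_lit 15726978033) (nat_lit 608) (nat_lit 2221442212) (nat_lit 76) (nat_lit 5278471251) (nat_lit 177) (nat_lit 5) (nat_lit 185) (nat_lit 5) (nat_lit 178) (nat_lit 5) (nat_lit 372) (nat_lit 343) (nat_lit 185)) (XT.nd (nat_lit 78) (nat_lit 0) (nat_lit 0) (XT.lf (nat_lit 0) (nat_lit 10245883975) (nat_lit 456) (nat_lit 8762390110) (nat_lit 532) (nat_lit 4619237778) (nat_lit 171) (nat_lit 5) (nat_lit 177) (nat_lit 5) (nat_lit 178) (nat_lit 5) (nat_lit 373) (nat_lit 343) (nat_lit 184)) (XT.lf (nat_lit 0) (nat_lit 22411800377) (nat_lit 532) (nat_lit 919992743) (nat_lit 76) (nat_lit 707647058) (nat_lit 171) (nat_lit 5) (nat_lit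 178) (nat_lit 5) (nat_lit 172) (nat_lit 5) (nat_lit 374) (nat_lit 343) (nat_lit 183)))) (XT.nd (nat_lit 78) (nat_lit 456) (nat_lit 0) (XT.lf (nat_lit 0) (nat_lit 1624531385) (nat_lit 532) (nat_lit 12415865319) (nat_lit 76) (nat_lit 10416937553) (nat_lit 164) (nat_lit 5) (nat_lit 171) (nat_lit 5) (nat_lit 165) (nat_lit 5) (nat_lit 375) (nat_lit 343) (nat_lit 182)) (XT.nd (nat_lit 78) (nat_lit 0) (nat_lit 0) (XT.lf (nat_lit 0) (nat_lit 510701714) (nat_lit 456) (nat_lit 4439765476) (nat_lit 532) (nat_lit 19936549927) (nat_lit 158) (nat_lit 5) (nat_lit 164) (nat_lit 5) (nat_lit 165) (nat_lit 5) (nat_lit 376) (nat_lit 343) (nat_lit 181)) (XT.lf (nat_lit 0) (nat_lit 8549887770) (nat_lit 532) (nat_lit 11306165403) (nat_lit 76) (nat_lit 5468328824) (nat_lit 158) (nat_lit 5) (nat_lit 165) (nat_lit 5) (nat_lit 159) (nat_lit 5) (nat_lit 377) (nat_lit 343) (nat_lit 180))))) (XT.nd (nat_lit 234) (nat_lit 912) (nat_lit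 0) (XT.nd (nat_lit 78) (nat_lit 380) (nat_lit 0) (XT.lf (nat_lit 0) (nat_lit 2147932609) (nat_lit 456) (nat_lit 10168829155) (nat_lit 532) (nat_lit 13456324593) (nat_lit 152) (nat_lit 5) (nat_lit 158) (nat_lit 5) (nat_lit 159) (nat_lit 5) (nat_lit 378) (nat_lit 343) (nat_lit 179)) (XT.nd (nat_lit 78) (nat_lit 380) (nat_lit 0) (XT.lf (nat_lit 0) (nat_lit 16231366478) (nat_lit 456) (nat_lit 74402451) (nat_lit 532) (nat_lit 9926211685) (nat_lit 152) (nat_lit 5) (nat_lit 158) (nat_lit 5) (nat_lit 159) (nat_lit 5) (nat_lit 379) (nat_lit 343) (nat_lit 178)) (XT.lf (nat_lit 0) (nat_lit 4005579244) (nat_lit 380) (nat_lit 16541695082) (nat_lit 456) (nat_lit 6153385039) (nat_lit 147) (nat_lit 5) (nat_lit 152) (nat_lit 5) (nat_lit 153) (nat_lit 5) (nat_lit 380) (nat_lit 343) (nat_lit 177)))) (XT.nd (nat_lit 156) (nat_lit 380) (nat_lit 0) (XT.nd (nat_lit 78) (nat_lit 532) (nat_lit 0) (XT.lf (nat_lit 0) (nat_lit 18630252795)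 (nat_lit 380) (nat_lit 6382668059) (nat_lit 456) (nat_lit 2167573174) (nat_lit 147) (nat_lit 5) (nat_lit 152) (nat_lit 5) (nat_lit 153) (nat_lit 5) (nat_lit 381) (nat_lit 343) (nat_lit 176)) (XT.lf (nat_lit 0) (nat_lit 1994025539) (nat_lit 532) (nat_lit 21598795116) (nat_lit 76) (nat_lit 4078525757) (nat_lit 140) (nat_lit 5) (nat_lit 147) (nat_lit 5) (nat_lit 141) (nat_lit 5) (nat_lit 382) (nat_lit 343) (nat_lit 175))) (XT.nd (nat_lit 78) (nat_lit 380) (nat_lit 0) (XT.lf (nat_lit 0) (nat_lit 6382638533) (nat_lit 532) (nat_lit 6956498351) (nat_lit 76) (nat_lit 14832773903) (nat_lit 140) (nat_lit 5) (nat_lit 147) (nat_lit 5) (nat_lit 141) (nat_lit 5) (nat_lit 383) (nat_lit 343) (nat_lit 174)) (XT.lf (nat_lit 0) (nat_lit 8280877791) (nat_lit 380) (nat_lit 2697110787) (nat_lit 456) (nat_lit 17707253315) (nat_lit 135) (nat_lit 5) (nat_lit 140) (nat_lit 5) (nat_lit 141) (nat_lit 5) (nat_lit 384) (nat_lit 343)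 (nat_lit 173)))))) (XT.nd (nat_lit 468) (nat_lit 1292) (nat_lit 0) (XT.nd (nat_lit 234) (nat_lit 760) (nat_lit 0) (XT.nd (nat_lit 78) (nat_lit 380) (nat_lit 0) (XT.lf (nat_lit 0) (nat_lit 15857124175) (nat_lit 456) (nat_lit 5179870542) (nat_lit 76) (nat_lit 8172602559) (nat_lit 135) (nat_lit 5) (nat_lit 141) (nat_lit 5) (nat_lit 136) (nat_lit 5) (nat_lit 385) (nat_lit 343) (nat_lit 172)) (XT.nd (nat_lit 78) (nat_lit 0) (nat_lit 0) (XT.lf (nat_lit 0) (nat_lit 10677331413) (nat_lit 380) (nat_lit 10330315599) (nat_lit 456) (nat_lit 8738287950) (nat_lit 130) (nat_lit 5) (nat_lit 135) (nat_lit 5) (nat_lit 136) (nat_lit 5) (nat_lit 386) (nat_lit 343) (nat_lit 171)) (XT.lf (nat_lit 0) (nat_lit 26367946357) (nat_lit 456) (nat_lit 3193321620) (nat_lit 76) (nat_lit 735438953) (nat_lit 130) (nat_lit 5) (nat_lit 136) (nat_lit 5) (nat_lit 131) (nat_lit 5) (nat_lit 387) (nat_lit 343) (nat_lit 170)))) (XT.nd (nat_lit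 78) (nat_lit 380) (nat_lit 0) (XT.lf (nat_lit 0) (nat_lit 1233367168) (nat_lit 380) (nat_lit 17559216405) (nat_lit 76) (nat_lit 12064275233) (nat_lit 125) (nat_lit 5) (nat_lit 130) (nat_lit 5) (nat_lit 126) (nat_lit 5) (nat_lit 388) (nat_lit 343) (nat_lit 169)) (XT.nd (nat_lit 78) (nat_lit 380) (nat_lit 0) (XT.lf (nat_lit 0) (nat_lit 6499840945) (nat_lit 380) (nat_lit 1128868975) (nat_lit 76) (nat_lit 23803086776) (nat_lit 125) (nat_lit 5) (nat_lit 130) (nat_lit 5) (nat_lit 126) (nat_lit 5) (nat_lit 389) (nat_lit 343) (nat_lit 168)) (XT.lf (nat_lit 0) (nat_lit 12113823795) (nat_lit 456) (nat_lit 15954996493) (nat_lit 76) (nat_lit 3949478745) (nat_lit 120) (nat_lit 5) (nat_lit 126) (nat_lit 5) (nat_lit 121) (nat_lit 5) (nat_lit 390) (nat_lit 343) (nat_lit 167))))) (XT.nd (nat_lit 234) (nat_lit 684) (nat_lit 0) (XT.nd (nat_lit 78) (nat_lit 304) (nat_lit 0) (XT.lf (nat_lit 0) (nat_lit 1112909669) (nat_lit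 304) (nat_lit 16877110084) (nat_lit 380) (nat_lit 14629564583) (nat_lit 116) (nat_lit 5) (nat_lit 120) (nat_lit 5) (nat_lit 121) (nat_lit 5) (nat_lit 391) (nat_lit 343) (nat_lit 166)) (XT.nd (nat_lit 78) (nat_lit 304) (nat_lit 0) (XT.lf (nat_lit 0) (nat_lit 19014480598) (nat_lit 304) (nat_lit 5185249582) (nat_lit 380) (nat_lit 9034462815) (nat_lit 116) (nat_lit 5) (nat_lit 120) (nat_lit 5) (nat_lit 121) (nat_lit 5) (nat_lit 392) (nat_lit 343) (nat_lit 165)) (XT.lf (nat_lit 0) (nat_lit 3584512021) (nat_lit 304) (nat_lit 27107806756) (nat_lit 380) (nat_lit 3172025139) (nat_lit 112) (nat_lit 5) (nat_lit 116) (nat_lit 5) (nat_lit 117) (nat_lit 5) (nat_lit 393) (nat_lit 343) (nat_lit 164)))) (XT.nd (nat_lit 156) (nat_lit 304) (nat_lit 0) (XT.nd (nat_lit 78) (nat_lit 304) (nat_lit 0) (XT.lf (nat_lit 0) (nat_lit 3002939937) (nat_lit 380) (nat_lit 12380451598) (nat_lit 76) (nat_lit 19123405194) (nat_lit 111) (nat_lit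 5) (nat_lit 116) (nat_lit 5) (nat_lit 112) (nat_lit 5) (nat_lit 394) (nat_lit 343) (nat_lit 163)) (XT.lf (nat_lit 0) (nat_lit 6139056286) (nat_lit 304) (nat_lit 3215698991) (nat_lit 380) (nat_lit 25811166458) (nat_lit 107) (nat_lit 5) (nat_lit 111) (nat_lit 5) (nat_lit 112) (nat_lit 5) (nat_lit 395) (nat_lit 343) (nat_lit 162))) (XT.nd (nat_lit 78) (nat_lit 304) (nat_lit 0) (XT.lf (nat_lit 0) (nat_lit 16109326914) (nat_lit 380) (nat_lit 10469217618) (nat_lit 76) (nat_lit 9259911330) (nat_lit 107) (nat_lit 5) (nat_lit 112) (nat_lit 5) (nat_lit 108) (nat_lit 5) (nat_lit 396) (nat_lit 343) (nat_lit 161)) (XT.lf (nat_lit 0) (nat_lit 8779509379) (nat_lit 304) (nat_lit 14399749046) (nat_lit 380) (nat_lit 13348527293) (nat_lit 103) (nat_lit 5) (nat_lit 107) (nat_lit 5) (nat_lit 108) (nat_lit 5) (nat_lit 397) (nat_lit 343) (nat_lit 160))))))) (XT.nd (nat_lit 1014) (nat_lit 1444) (nat_lit 0) (XT.nd (nat_lit 468)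 (nat_lit 1140) (nat_lit 0) (XT.nd (nat_lit 234) (nat_lit 532) (nat_lit 0) (XT.nd (nat_lit 78) (nat_lit 304) (nat_lit 0) (XT.lf (nat_lit 0) (nat_lit 28815225678) (nat_lit 304) (nat_lit 1748324267) (nat_lit 380) (nat_lit 6671179009) (nat_lit 103) (nat_lit 5) (nat_lit 107) (nat_lit 5) (nat_lit 108) (nat_lit 5) (nat_lit 398) (nat_lit 343) (nat_lit 159)) (XT.nd (nat_lit 78) (nat_lit 0) (nat_lit 0) (XT.lf (nat_lit 0) (nat_lit 421214469) (nat_lit 304) (nat_lit 26358457861) (nat_lit 76) (nat_lit 11176587255) (nat_lit 99) (nat_lit 5) (nat_lit 103) (nat_lit 5) (nat_lit 100) (nat_lit 5) (nat_lit 399) (nat_lit 343) (nat_lit 158)) (XT.lf (nat_lit 0) (nat_lit 7692113349) (nat_lit 304) (nat_lit 6397910095) (nat_lit 76) (nat_lit 24604437854) (nat_lit 99) (nat_lit 5) (nat_lit 103) (nat_lit 5) (nat_lit 100) (nat_lit 5) (nat_lit 400) (nat_lit 343) (nat_lit 157)))) (XT.nd (nat_lit 78) (nat_lit 228) (nat_lit 0) (XT.lf (nat_lit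 0) (nat_lit 14438305398) (nat_lit 304) (nat_lit 878366617) (nat_lit 380) (nat_lit 24134072259) (nat_lit 95) (nat_lit 5) (nat_lit 99) (nat_lit 5) (nat_lit 100) (nat_lit 5) (nat_lit 401) (nat_lit 343) (nat_lit 156)) (XT.nd (nat_lit 78) (nat_lit 228) (nat_lit 0) (XT.lf (nat_lit 0) (nat_lit 23354354116) (nat_lit 380) (nat_lit 4324949848) (nat_lit 76) (nat_lit 12544881334) (nat_lit 95) (nat_lit 5) (nat_lit 100) (nat_lit 5) (nat_lit 96) (nat_lit 5) (nat_lit 402) (nat_lit 343) (nat_lit 155)) (XT.lf (nat_lit 0) (nat_lit 17307414835) (nat_lit 228) (nat_lit 14497687495) (nat_lit 304) (nat_lit 9210570281) (nat_lit 92) (nat_lit 5) (nat_lit 95) (nat_lit 5) (nat_lit 96) (nat_lit 5) (nat_lit 403) (nat_lit 343) (nat_lit 154))))) (XT.nd (nat_lit 234) (nat_lit 760) (nat_lit 0) (XT.nd (nat_lit 78) (nat_lit 380) (nat_lit 0) (XT.lf (nat_lit 0) (nat_lit 39672672258) (nat_lit 228) (nat_lit 877289396) (nat_lit 304) (nat_lit 1279726323)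 (nat_lit 92) (nat_lit 5) (nat_lit 95) (nat_lit 5) (nat_lit 96) (nat_lit 5) (nat_lit 404) (nat_lit 343) (nat_lit 153)) (XT.nd (nat_lit 78) (nat_lit 0) (nat_lit 0) (XT.lf (nat_lit 0) (nat_lit 7076371179) (nat_lit 380) (nat_lit 22422033277) (nat_lit 76) (nat_lit 13158080980) (nat_lit 87) (nat_lit 5) (nat_lit 92) (nat_lit 5) (nat_lit 88) (nat_lit 5) (nat_lit 405) (nat_lit 343) (nat_lit 152)) (XT.lf (nat_lit 0) (nat_lit 15685116108) (nat_lit 380) (nat_lit 191812700) (nat_lit 76) (nat_lit 27629948326) (nat_lit 87) (nat_lit 5) (nat_lit 92) (nat_lit 5) (nat_lit 88) (nat_lit 5) (nat_lit 406) (nat_lit 343) (nat_lit 151)))) (XT.nd (nat_lit 156) (nat_lit 304) (nat_lit 0) (XT.nd (nat_lit 78) (nat_lit 228) (nat_lit 0) (XT.lf (nat_lit 0) (nat_lit 23152552871) (nat_lit 228) (nat_lit 1619216732) (nat_lit 304) (nat_lit 19604422563) (nat_lit 84) (nat_lit 5) (nat_lit 87) (nat_lit 5) (nat_lit 88) (nat_lit 5) (nat_lit 407) (nat_lit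 343) (nat_lit 150)) (XT.lf (nat_lit 0) (nat_lit 1835267817) (nat_lit 228) (nat_lit 32438068695) (nat_lit 304) (nat_lit 10993981667) (nat_lit 81) (nat_lit 5) (nat_lit 84) (nat_lit 5) (nat_lit 85) (nat_lit 5) (nat_lit 408) (nat_lit 343) (nat_lit 149))) (XT.nd (nat_lit 78) (nat_lit 304) (nat_lit 0) (XT.lf (nat_lit 0) (nat_lit 26000121945) (nat_lit 228) (nat_lit 18287176160) (nat_lit 304) (nat_lit 1891060354) (nat_lit 81) (nat_lit 5) (nat_lit 84) (nat_lit 5) (nat_lit 85) (nat_lit 5) (nat_lit 409) (nat_lit 343) (nat_lit 148)) (XT.lf (nat_lit 0) (nat_lit 3770357669) (nat_lit 228) (nat_lit 3601986092) (nat_lit 304) (nat_lit 39741224948) (nat_lit 77) (nat_lit 5) (nat_lit 80) (nat_lit 5) (nat_lit 81) (nat_lit 5) (nat_lit 410) (nat_lit 343) (nat_lit 147)))))) (XT.nd (nat_lit 546) (nat_lit 760) (nat_lit 0) (XT.nd (nat_lit 234) (nat_lit 456) (nat_lit 0) (XT.nd (nat_lit 78) (nat_lit 228) (nat_lit 0) (XT.lf (nat_lit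 0) (nat_lit 17189426367) (nat_lit 304) (nat_lit 19355674038) (nat_lit 76) (nat_lit 11521760456) (nat_lit 77) (nat_lit 5) (nat_lit 81) (nat_lit 5) (nat_lit 78) (nat_lit 5) (nat_lit 411) (nat_lit 343) (nat_lit 146)) (XT.nd (nat_lit 78) (nat_lit 0) (nat_lit 0) (XT.lf (nat_lit 0) (nat_lit 5417184029) (nat_lit 228) (nat_lit 21968887840) (nat_lit 304) (nat_lit 21660129210) (nat_lit 74) (nat_lit 5) (nat_lit 77) (nat_lit 5) (nat_lit 78) (nat_lit 5) (nat_lit 412) (nat_lit 343) (nat_lit 145)) (XT.lf (nat_lit 0) (nat_lit 31325692246) (nat_lit 228) (nat_lit 6755729575) (nat_lit 304) (nat_lit 11967716318) (nat_lit 74) (nat_lit 5) (nat_lit 77) (nat_lit 5) (nat_lit 78) (nat_lit 5) (nat_lit 413) (nat_lit 343) (nat_lit 144)))) (XT.nd (nat_lit 156) (nat_lit 228) (nat_lit 0) (XT.nd (nat_lit 78) (nat_lit 76) (nat_lit 0) (XT.lf (nat_lit 0) (nat_lit 6975479080) (nat_lit 152) (nat_lit 42272303302) (nat_lit 228) (nat_lit 1829877196)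 (nat_lit 72) (nat_lit 5) (nat_lit 74) (nat_lit 5) (nat_lit 75) (nat_lit 5) (nat_lit 414) (nat_lit 343) (nat_lit 143)) (XT.lf (nat_lit 0) (nat_lit 8699295921) (nat_lit 228) (nat_lit 18457980944) (nat_lit 76) (nat_lit 24969619420) (nat_lit 71) (nat_lit 5) (nat_lit 74) (nat_lit 5) (nat_lit 72) (nat_lit 5) (nat_lit 415) (nat_lit 343) (nat_lit 142))) (XT.nd (nat_lit 78) (nat_lit 0) (nat_lit 0) (XT.lf (nat_lit 0) (nat_lit 8091183742) (nat_lit 228) (nat_lit 11491655654) (nat_lit 304) (nat_lit 33621969653) (nat_lit 68) (nat_lit 5) (nat_lit 71) (nat_lit 5) (nat_lit 72) (nat_lit 5) (nat_lit 416) (nat_lit 343) (nat_lit 141)) (XT.lf (nat_lit 0) (nat_lit 31023278858) (nat_lit 304) (nat_lit 18544909499) (nat_lit 76) (nat_lit 4739959832) (nat_lit 68) (nat_lit 5) (nat_lit 72) (nat_lit 5) (nat_lit 69) (nat_lit 5) (nat_lit 417) (nat_lit 343) (nat_lit 140))))) (XT.nd (nat_lit 234) (nat_lit 304) (nat_lit 0) (XT.nd (nat_lit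 78) (nat_lit 304) (nat_lit 0) (XT.lf (nat_lit 0) (nat_lit 8876267754) (nat_lit 152) (nat_lit 34127353515) (nat_lit 228) (nat_lit 12435066203) (nat_lit 66) (nat_lit 5) (nat_lit 68) (nat_lit 5) (nat_lit 69) (nat_lit 5) (nat_lit 418) (nat_lit 343) (nat_lit 139)) (XT.nd (nat_lit 78) (nat_lit 304) (nat_lit 0) (XT.lf (nat_lit 0) (nat_lit 37496243078) (nat_lit 152) (nat_lit 18032016915) (nat_lit 228) (nat_lit 1069337002) (nat_lit 66) (nat_lit 5) (nat_lit 68) (nat_lit 5) (nat_lit 69) (nat_lit 5) (nat_lit 419) (nat_lit 343) (nat_lit 138)) (XT.lf (nat_lit 0) (nat_lit 9258027885) (nat_lit 228) (nat_lit 1258421398) (nat_lit 304) (nat_lit 47269157786) (nat_lit 62) (nat_lit 5) (nat_lit 65) (nat_lit 5) (nat_lit 66) (nat_lit 5) (nat_lit 420) (nat_lit 343) (nat_lit 137)))) (XT.nd (nat_lit 156) (nat_lit 152) (nat_lit 0) (XT.nd (nat_lit 78) (nat_lit 152) (nat_lit 0) (XT.lf (nat_lit 0) (nat_lit 22774771224) (nat_lit 304) (nat_lit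 20314133150) (nat_lit 76) (nat_lit 15909642394) (nat_lit 62) (nat_lit 5) (nat_lit 66) (nat_lit 5) (nat_lit 63) (nat_lit 5) (nat_lit 421) (nat_lit 343) (nat_lit 136)) (XT.lf (nat_lit 0) (nat_lit 8903167457) (nat_lit 152) (nat_lit 26593465449) (nat_lit 228) (nat_lit 24748368621) (nat_lit 60) (nat_lit 5) (nat_lit 62) (nat_lit 5) (nat_lit 63) (nat_lit 5) (nat_lit 422) (nat_lit 343) (nat_lit 135))) (XT.nd (nat_lit 78) (nat_lit 152) (nat_lit 0) (XT.lf (nat_lit 0) (nat_lit 39409622315) (nat_lit 152) (nat_lit 9393438031) (nat_lit 228) (nat_lit 12719702841) (nat_lit 60) (nat_lit 5) (nat_lit 62) (nat_lit 5) (nat_lit 63) (nat_lit 5) (nat_lit 423) (nat_lit 343) (nat_lit 134)) (XT.lf (nat_lit 0) (nat_lit 8066084592) (nat_lit 152) (nat_lit 54597961151) (nat_lit 228) (nat_lit 170151535) (nat_lit 58) (nat_lit 5) (nat_lit 60) (nat_lit 5) (nat_lit 61) (nat_lit 5) (nat_lit 424) (nat_lit 343) (nat_lit 133))))))))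
noncomputable def xc203 : XT := (XT.nd (nat_lit 41964) (nat_lit 0) (nat_lit 6232) (XT.nd (nat_lit 40872) (nat_lit 0) (nat_lit 13680) (XT.nd (nat_lit 468) (nat_lit 304) (nat_lit 0) (XT.nd (nat_lit 234) (nat_lit 228) (nat_lit 0) (XT.nd (nat_lit 78) (nat_lit 152) (nat_lit 0) (XT.lf (nat_lit 0) (nat_lit 12823320854) (nat_lit 228) (nat_lit 24795855663) (nat_lit 76) (nat_lit 26552629427) (nat_lit 57) (nat_lit 5) (nat_lit 60) (nat_lit 5) (nat_lit 58) (nat_lit 5) (nat_lit 425) (nat_lit 343) (nat_lit 132)) (XT.nd (nat_lit 78) (nat_lit 0) (nat_lit 0) (XT.lf (nat_lit 0) (nat_lit 6191071026) (nat_lit 152) (nat_lit 20069515231) (nat_lit 228) (nat_lit 39287184305) (nat_lit 55) (nat_lit 5) (nat_lit 57) (nat_lit 5) (nat_lit 58) (nat_lit 5) (nat_lit 426) (nat_lit 343) (nat_lit 131)) (XT.lf (nat_lit 0) (nat_lit 38612308302) (nat_lit 152) (nat_lit 1736973982) (nat_lit 228) (nat_lit 26608282932) (nat_lit 55) (nat_lit 5) (nat_lit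 57) (nat_lit 5) (nat_lit 58) (nat_lit 5) (nat_lit 427) (nat_lit 343) (nat_lit 130)))) (XT.nd (nat_lit 78) (nat_lit 76) (nat_lit 0) (XT.lf (nat_lit 0) (nat_lit 3496412844) (nat_lit 152) (nat_lit 51560618985) (nat_lit 228) (nat_lit 13346730565) (nat_lit 53) (nat_lit 5) (nat_lit 55) (nat_lit 5) (nat_lit 56) (nat_lit 5) (nat_lit 428) (nat_lit 343) (nat_lit 129)) (XT.nd (nat_lit 78) (nat_lit 0) (nat_lit 0) (XT.lf (nat_lit 0) (nat_lit 610805111) (nat_lit 228) (nat_lit 33036949596) (nat_lit 76) (nat_lit 36236373912) (nat_lit 52) (nat_lit 5) (nat_lit 55) (nat_lit 5) (nat_lit 53) (nat_lit 5) (nat_lit 429) (nat_lit 343) (nat_lit 128)) (XT.lf (nat_lit 0) (nat_lit 14716844547) (nat_lit 228) (nat_lit 346016916) (nat_lit 76) (nat_lit 56342139403) (nat_lit 52) (nat_lit 5) (nat_lit 55) (nat_lit 5) (nat_lit 53) (nat_lit 5) (nat_lit 430) (nat_lit 343) (nat_lit 127))))) (XT.nd (nat_lit 40092) (nat_lit 0) (nat_lit 14592) (XT.nd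 (nat_lit 78) (nat_lit 152) (nat_lit 0) (XT.lf (nat_lit 0) (nat_lit 29613281771) (nat_lit 228) (nat_lit 39018702911) (nat_lit 76) (nat_lit 4328498514) (nat_lit 50) (nat_lit 5) (nat_lit 53) (nat_lit 5) (nat_lit 51) (nat_lit 5) (nat_lit 431) (nat_lit 343) (nat_lit 126)) (XT.nd (nat_lit 78) (nat_lit 152) (nat_lit 0) (XT.lf (nat_lit 0) (nat_lit 45107379333) (nat_lit 228) (nat_lit 5449736687) (nat_lit 76) (nat_lit 24000991359) (nat_lit 50) (nat_lit 5) (nat_lit 53) (nat_lit 5) (nat_lit 51) (nat_lit 5) (nat_lit 432) (nat_lit 343) (nat_lit 125)) (XT.lf (nat_lit 0) (nat_lit 29702657670) (nat_lit 152) (nat_lit 31647318862) (nat_lit 228) (nat_lit 14845173843) (nat_lit 48) (nat_lit 5) (nat_lit 50) (nat_lit 5) (nat_lit 51) (nat_lit 5) (nat_lit 433) (nat_lit 343) (nat_lit 124)))) (XT.nd (nat_lit 156) (nat_lit 0) (nat_lit 0) (XT.nd (nat_lit 78) (nat_lit 0) (nat_lit 0) (XT.lf (nat_lit 0) (nat_lit 2267090664) (nat_lit 0)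 (nat_lit 2267090664) (nat_lit 1140) (nat_lit 3046409308) (nat_lit 240) (nat_lit 5) (nat_lit 240) (nat_lit 3) (nat_lit 255) (nat_lit 3) (nat_lit 344) (nat_lit 344) (nat_lit 212)) (XT.lf (nat_lit 0) (nat_lit 9510885492) (nat_lit 1140) (nat_lit 3468626007) (nat_lit 1216) (nat_lit 2399706667) (nat_lit 240) (nat_lit 5) (nat_lit 255) (nat_lit 3) (nat_lit 256) (nat_lit 5) (nat_lit 345) (nat_lit 344) (nat_lit 211))) (XT.nd (nat_lit 78) (nat_lit 0) (nat_lit 76) (XT.lf (nat_lit 76) (nat_lit 3930388887) (nat_lit 0) (nat_lit 6107978828) (nat_lit 1216) (nat_lit 5563285194) (nat_lit 241) (nat_lit 5) (nat_lit 240) (nat_lit 5) (nat_lit 256) (nat_lit 5) (nat_lit 346) (nat_lit 344) (nat_lit 210)) (XT.lf (nat_lit 0) (nat_lit 10615689039) (nat_lit 1140) (nat_lit 4223131505) (nat_lit 1216) (nat_lit 990926758) (nat_lit 241) (nat_lit 5) (nat_lit 256) (nat_lit 5) (nat_lit 257) (nat_lit 5) (nat_lit 347) (nat_lit 344) (nat_lit 209))))))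 (XT.nd (nat_lit 546) (nat_lit 988) (nat_lit 0) (XT.nd (nat_lit 234) (nat_lit 0) (nat_lit 76) (XT.nd (nat_lit 78) (nat_lit 0) (nat_lit 0) (XT.lf (nat_lit 76) (nat_lit 3449227169) (nat_lit 0) (nat_lit 7844365181) (nat_lit 1216) (nat_lit 4768601142) (nat_lit 242) (nat_lit 5) (nat_lit 241) (nat_lit 5) (nat_lit 257) (nat_lit 5) (nat_lit 348) (nat_lit 344) (nat_lit 208)) (XT.nd (nat_lit 78) (nat_lit 0) (nat_lit 76) (XT.lf (nat_lit 76) (nat_lit 11432336344) (nat_lit 0) (nat_lit 592017418) (nat_lit 1216) (nat_lit 4276290318) (nat_lit 242) (nat_lit 5) (nat_lit 241) (nat_lit 5) (nat_lit 257) (nat_lit 5) (nat_lit 349) (nat_lit 344) (nat_lit 207)) (XT.lf (nat_lit 76) (nat_lit 3096850982) (nat_lit 0) (nat_lit 9766279564) (nat_lit 1216) (nat_lit 3680541308) (nat_lit 243) (nat_lit 5) (nat_lit 242) (nat_lit 5) (nat_lit 258) (nat_lit 5) (nat_lit 350) (nat_lit 344) (nat_lit 206)))) (XT.nd (nat_lit 156) (nat_lit 0) (nat_lit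 76) (XT.nd (nat_lit 78) (nat_lit 0) (nat_lit 76) (XT.lf (nat_lit 76) (nat_lit 11388686381) (nat_lit 0) (nat_lit 2383784404) (nat_lit 1216) (nat_lit 3020163932) (nat_lit 243) (nat_lit 5) (nat_lit 242) (nat_lit 5) (nat_lit 258) (nat_lit 5) (nat_lit 351) (nat_lit 344) (nat_lit 205)) (XT.lf (nat_lit 76) (nat_lit 2879994944) (nat_lit 0) (nat_lit 11897706817) (nat_lit 1216) (nat_lit 2269312463) (nat_lit 244) (nat_lit 5) (nat_lit 243) (nat_lit 5) (nat_lit 259) (nat_lit 5) (nat_lit 352) (nat_lit 344) (nat_lit 204))) (XT.nd (nat_lit 78) (nat_lit 0) (nat_lit 76) (XT.lf (nat_lit 76) (nat_lit 11492986856) (nat_lit 0) (nat_lit 4388999339) (nat_lit 1216) (nat_lit 1424977925) (nat_lit 244) (nat_lit 5) (nat_lit 243) (nat_lit 5) (nat_lit 259) (nat_lit 5) (nat_lit 353) (nat_lit 344) (nat_lit 203)) (XT.lf (nat_lit 76) (nat_lit 2805966791) (nat_lit 0) (nat_lit 14263805916) (nat_lit 1216) (nat_lit 503434328) (nat_lit 245) (nat_lit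 5) (nat_lit 244) (nat_lit 5) (nat_lit 260) (nat_lit 5) (nat_lit 354) (nat_lit 344) (nat_lit 202))))) (XT.nd (nat_lit 234) (nat_lit 0) (nat_lit 76) (XT.nd (nat_lit 78) (nat_lit 0) (nat_lit 76) (XT.lf (nat_lit 0) (nat_lit 531155645) (nat_lit 1216) (nat_lit 6096713232) (nat_lit 1292) (nat_lit 11216622261) (nat_lit 228) (nat_lit 5) (nat_lit 244) (nat_lit 5) (nat_lit 245) (nat_lit 5) (nat_lit 355) (nat_lit 344) (nat_lit 201)) (XT.nd (nat_lit 78) (nat_lit 0) (nat_lit 0) (XT.lf (nat_lit 0) (nat_lit 1618178815) (nat_lit 1216) (nat_lit 15256523877) (nat_lit 1292) (nat_lit 1248121359) (nat_lit 229) (nat_lit 5) (nat_lit 245) (nat_lit 5) (nat_lit 246) (nat_lit 5) (nat_lit 356) (nat_lit 344) (nat_lit 200)) (XT.lf (nat_lit 0) (nat_lit 2857418393) (nat_lit 1216) (nat_lit 6257140689) (nat_lit 1292) (nat_lit 9291364785) (nat_lit 229) (nat_lit 5) (nat_lit 245) (nat_lit 5) (nat_lit 246) (nat_lit 5) (nat_lit 357) (nat_lit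 344) (nat_lit 199)))) (XT.nd (nat_lit 156) (nat_lit 0) (nat_lit 76) (XT.nd (nat_lit 78) (nat_lit 0) (nat_lit 76) (XT.lf (nat_lit 76) (nat_lit 3065806894) (nat_lit 0) (nat_lit 1089546099) (nat_lit 1292) (nat_lit 14541523092) (nat_lit 230) (nat_lit 5) (nat_lit 229) (nat_lit 5) (nat_lit 246) (nat_lit 5) (nat_lit 358) (nat_lit 344) (nat_lit 198)) (XT.lf (nat_lit 0) (nat_lit 5617253282) (nat_lit 1216) (nat_lit 6273995371) (nat_lit 1292) (nat_lit 7101562183) (nat_lit 230) (nat_lit 5) (nat_lit 246) (nat_lit 5) (nat_lit 247) (nat_lit 5) (nat_lit 359) (nat_lit 344) (nat_lit 197))) (XT.nd (nat_lit 78) (nat_lit 0) (nat_lit 76) (XT.lf (nat_lit 76) (nat_lit 3413363075) (nat_lit 0) (nat_lit 3745707600) (nat_lit 1292) (nat_lit 12137475808) (nat_lit 231) (nat_lit 5) (nat_lit 230) (nat_lit 5) (nat_lit 247) (nat_lit 5) (nat_lit 360) (nat_lit 344) (nat_lit 196)) (XT.lf (nat_lit 0) (nat_lit 8848400571) (nat_lit 1216) (nat_lit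 6139233800) (nat_lit 76) (nat_lit 4618726611) (nat_lit 231) (nat_lit 5) (nat_lit 247) (nat_lit 5) (nat_lit 232) (nat_lit 5) (nat_lit 361) (nat_lit 344) (nat_lit 195))))))) (XT.nd (nat_lit 1014) (nat_lit 3116) (nat_lit 0) (XT.nd (nat_lit 468) (nat_lit 2128) (nat_lit 0) (XT.nd (nat_lit 234) (nat_lit 608) (nat_lit 0) (XT.nd (nat_lit 78) (nat_lit 608) (nat_lit 0) (XT.lf (nat_lit 0) (nat_lit 3930408474) (nat_lit 1216) (nat_lit 6725716934) (nat_lit 1292) (nat_lit 9267317445) (nat_lit 215) (nat_lit 5) (nat_lit 231) (nat_lit 5) (nat_lit 232) (nat_lit 5) (nat_lit 362) (nat_lit 344) (nat_lit 194)) (XT.nd (nat_lit 78) (nat_lit 608) (nat_lit 0) (XT.lf (nat_lit 0) (nat_lit 12590843758) (nat_lit 1292) (nat_lit 5844349560) (nat_lit 76) (nat_lit 1812665272) (nat_lit 215) (nat_lit 5) (nat_lit 232) (nat_lit 5) (nat_lit 216) (nat_lit 5) (nat_lit 363) (nat_lit 344) (nat_lit 193)) (XT.lf (nat_lit 0) (nat_lit 4626268806) (nat_lit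 608) (nat_lit 10061604674) (nat_lit 684) (nat_lit 5891009361) (nat_lit 207) (nat_lit 5) (nat_lit 215) (nat_lit 5) (nat_lit 216) (nat_lit 5) (nat_lit 364) (nat_lit 344) (nat_lit 192)))) (XT.nd (nat_lit 78) (nat_lit 608) (nat_lit 0) (XT.lf (nat_lit 0) (nat_lit 15524659143) (nat_lit 608) (nat_lit 1375518170) (nat_lit 684) (nat_lit 4018093628) (nat_lit 207) (nat_lit 5) (nat_lit 215) (nat_lit 5) (nat_lit 216) (nat_lit 5) (nat_lit 365) (nat_lit 344) (nat_lit 191)) (XT.nd (nat_lit 78) (nat_lit 76) (nat_lit 0) (XT.lf (nat_lit 0) (nat_lit 5510743147) (nat_lit 532) (nat_lit 13787403508) (nat_lit 608) (nat_lit 1966119037) (nat_lit 200) (nat_lit 5) (nat_lit 207) (nat_lit 5) (nat_lit 208) (nat_lit 5) (nat_lit 366) (nat_lit 344) (nat_lit 190)) (XT.lf (nat_lit 0) (nat_lit 206769479) (nat_lit 608) (nat_lit 4788032767) (nat_lit 76) (nat_lit 16623932265) (nat_lit 199) (nat_lit 5) (nat_lit 207) (nat_lit 5) (nat_lit 200) (nat_lit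 5) (nat_lit 367) (nat_lit 344) (nat_lit 189))))) (XT.nd (nat_lit 234) (nat_lit 988) (nat_lit 0) (XT.nd (nat_lit 78) (nat_lit 532) (nat_lit 0) (XT.lf (nat_lit 0) (nat_lit 2502525652) (nat_lit 684) (nat_lit 15411526689) (nat_lit 76) (nat_lit 4066288687) (nat_lit 191) (nat_lit 5) (nat_lit 200) (nat_lit 5) (nat_lit 192) (nat_lit 5) (nat_lit 368) (nat_lit 344) (nat_lit 188)) (XT.nd (nat_lit 78) (nat_lit 532) (nat_lit 0) (XT.lf (nat_lit 0) (nat_lit 4959354572) (nat_lit 684) (nat_lit 4042949678) (nat_lit 76) (nat_lit 13347728953) (nat_lit 191) (nat_lit 5) (nat_lit 200) (nat_lit 5) (nat_lit 192) (nat_lit 5) (nat_lit 369) (nat_lit 344) (nat_lit 187)) (XT.lf (nat_lit 0) (nat_lit 7561530373) (nat_lit 608) (nat_lit 14918047288) (nat_lit 76) (nat_lit 249092586) (nat_lit 184) (nat_lit 5) (nat_lit 192) (nat_lit 5) (nat_lit 185) (nat_lit 5) (nat_lit 370) (nat_lit 344) (nat_lit 186)))) (XT.nd (nat_lit 156) (nat_lit 456)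 (nat_lit 0) (XT.nd (nat_lit 78) (nat_lit 532) (nat_lit 0) (XT.lf (nat_lit 0) (nat_lit 10366341770) (nat_lit 608) (nat_lit 3110423610) (nat_lit 76) (nat_lit 9638167181) (nat_lit 184) (nat_lit 5) (nat_lit 192) (nat_lit 5) (nat_lit 185) (nat_lit 5) (nat_lit 371) (nat_lit 344) (nat_lit 185)) (XT.lf (nat_lit 0) (nat_lit 9225504689) (nat_lit 532) (nat_lit 4112851214) (nat_lit 608) (nat_lit 10171938259) (nat_lit 177) (nat_lit 5) (nat_lit 184) (nat_lit 5) (nat_lit 185) (nat_lit 5) (nat_lit 372) (nat_lit 344) (nat_lit 184))) (XT.nd (nat_lit 78) (nat_lit 456) (nat_lit 0) (XT.lf (nat_lit 0) (nat_lit 16478908181) (nat_lit 608) (nat_lit 1980844200) (nat_lit 76) (nat_lit 5455385977) (nat_lit 177) (nat_lit 5) (nat_lit 185) (nat_lit 5) (nat_lit 178) (nat_lit 5) (nat_lit 373) (nat_lit 344) (nat_lit 183)) (XT.lf (nat_lit 0) (nat_lit 10857489603) (nat_lit 456) (nat_lit 8995919089) (nat_lit 532) (nat_lit 4474530227) (nat_lit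 171) (nat_lit 5) (nat_lit 177) (nat_lit 5) (nat_lit 178) (nat_lit 5) (nat_lit 374) (nat_lit 344) (nat_lit 182)))))) (XT.nd (nat_lit 546) (nat_lit 1292) (nat_lit 0) (XT.nd (nat_lit 234) (nat_lit 836) (nat_lit 0) (XT.nd (nat_lit 78) (nat_lit 988) (nat_lit 0) (XT.lf (nat_lit 0) (nat_lit 23351308218) (nat_lit 532) (nat_lit 644344614) (nat_lit 76) (nat_lit 756808647) (nat_lit 171) (nat_lit 5) (nat_lit 178) (nat_lit 5) (nat_lit 172) (nat_lit 5) (nat_lit 375) (nat_lit 344) (nat_lit 181)) (XT.nd (nat_lit 78) (nat_lit 456) (nat_lit 0) (XT.lf (nat_lit 0) (nat_lit 1938263236) (nat_lit 532) (nat_lit 12482653614) (nat_lit 76) (nat_lit 10762048724) (nat_lit 164) (nat_lit 5) (nat_lit 171) (nat_lit 5) (nat_lit 165) (nat_lit 5) (nat_lit 376) (nat_lit 344) (nat_lit 180)) (XT.lf (nat_lit 0) (nat_lit 828713492) (nat_lit 456) (nat_lit 4530454945) (nat_lit 532) (nat_lit 20266518787) (nat_lit 158) (nat_lit 5) (nat_lit 164) (nat_lit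 5) (nat_lit 165) (nat_lit 5) (nat_lit 377) (nat_lit 344) (nat_lit 179)))) (XT.nd (nat_lit 156) (nat_lit 380) (nat_lit 0) (XT.nd (nat_lit 78) (nat_lit 456) (nat_lit 0) (XT.lf (nat_lit 0) (nat_lit 9059390034) (nat_lit 532) (nat_lit 11344163410) (nat_lit 76) (nat_lit 5672838980) (nat_lit 158) (nat_lit 5) (nat_lit 165) (nat_lit 5) (nat_lit 159) (nat_lit 5) (nat_lit 378) (nat_lit 344) (nat_lit 178)) (XT.lf (nat_lit 0) (nat_lit 2510604729) (nat_lit 456) (nat_lit 10424163231) (nat_lit 532) (nat_lit 13603928833) (nat_lit 152) (nat_lit 5) (nat_lit 158) (nat_lit 5) (nat_lit 159) (nat_lit 5) (nat_lit 379) (nat_lit 344) (nat_lit 177))) (XT.nd (nat_lit 78) (nat_lit 380) (nat_lit 0) (XT.lf (nat_lit 0) (nat_lit 17007855184) (nat_lit 456) (nat_lit 28352196) (nat_lit 532) (nat_lit 9975371339) (nat_lit 152) (nat_lit 5) (nat_lit 158) (nat_lit 5) (nat_lit 159) (nat_lit 5) (nat_lit 380) (nat_lit 344) (nat_lit 176)) (XT.lf (nat_lit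 0) (nat_lit 4419285204) (nat_lit 380) (nat_lit 16981917861) (nat_lit 456) (nat_lit 6093231006) (nat_lit 147) (nat_lit 5) (nat_lit 152) (nat_lit 5) (nat_lit 153) (nat_lit 5) (nat_lit 381) (nat_lit 344) (nat_lit 175))))) (XT.nd (nat_lit 234) (nat_lit 760) (nat_lit 0) (XT.nd (nat_lit 78) (nat_lit 532) (nat_lit 0) (XT.lf (nat_lit 0) (nat_lit 19474149294) (nat_lit 380) (nat_lit 6519751913) (nat_lit 456) (nat_lit 1994973588) (nat_lit 147) (nat_lit 5) (nat_lit 152) (nat_lit 5) (nat_lit 153) (nat_lit 5) (nat_lit 382) (nat_lit 344) (nat_lit 174)) (XT.nd (nat_lit 78) (nat_lit 0) (nat_lit 0) (XT.lf (nat_lit 0) (nat_lit 2283364783) (nat_lit 532) (nat_lit 21953439270) (nat_lit 76) (nat_lit 4257687601) (nat_lit 140) (nat_lit 5) (nat_lit 147) (nat_lit 5) (nat_lit 141) (nat_lit 5) (nat_lit 383) (nat_lit 344) (nat_lit 173)) (XT.lf (nat_lit 0) (nat_lit 6796951163) (nat_lit 532) (nat_lit 6880416894) (nat_lit 76) (nat_lit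 15332908646) (nat_lit 140) (nat_lit 5) (nat_lit 147) (nat_lit 5) (nat_lit 141) (nat_lit 5) (nat_lit 384) (nat_lit 344) (nat_lit 172)))) (XT.nd (nat_lit 156) (nat_lit 380) (nat_lit 0) (XT.nd (nat_lit 78) (nat_lit 0) (nat_lit 0) (XT.lf (nat_lit 0) (nat_lit 8811288607) (nat_lit 380) (nat_lit 2715093414) (nat_lit 456) (nat_lit 18012742210) (nat_lit 135) (nat_lit 5) (nat_lit 140) (nat_lit 5) (nat_lit 141) (nat_lit 5) (nat_lit 385) (nat_lit 344) (nat_lit 171)) (XT.lf (nat_lit 0) (nat_lit 16546098788) (nat_lit 456) (nat_lit 5055602122) (nat_lit 76) (nat_lit 8477686162) (nat_lit 135) (nat_lit 5) (nat_lit 141) (nat_lit 5) (nat_lit 136) (nat_lit 5) (nat_lit 386) (nat_lit 344) (nat_lit 170))) (XT.nd (nat_lit 78) (nat_lit 0) (nat_lit 0) (XT.lf (nat_lit 0) (nat_lit 11274574083) (nat_lit 380) (nat_lit 10573013695) (nat_lit 456) (nat_lit 8784336516) (nat_lit 130) (nat_lit 5) (nat_lit 135) (nat_lit 5) (nat_lit 136) (nat_lit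 5) (nat_lit 387) (nat_lit 344) (nat_lit 169)) (XT.lf (nat_lit 0) (nat_lit 27363215265) (nat_lit 456) (nat_lit 3014688874) (nat_lit 76) (nat_lit 821482545) (nat_lit 130) (nat_lit 5) (nat_lit 136) (nat_lit 5) (nat_lit 131) (nat_lit 5) (nat_lit 388) (nat_lit 344) (nat_lit 168))))))))
noncomputable def xc204 : XT := (XT.nd (nat_lit 2028) (nat_lit 1824) (nat_lit 0) (XT.nd (nat_lit 1014) (nat_lit 1900) (nat_lit 0) (XT.nd (nat_lit 468) (nat_lit 988) (nat_lit 0) (XT.nd (nat_lit 234) (nat_lit 608) (nat_lit 0) (XT.nd (nat_lit 78) (nat_lit 380) (nat_lit 0) (XT.lf (nat_lit 0) (nat_lit 1473341434) (nat_lit 380) (nat_lit 17810122338) (nat_lit 76) (nat_lit 12492922489) (nat_lit 125) (nat_lit 5) (nat_lit 130) (nat_lit 5) (nat_lit 126) (nat_lit 5) (nat_lit 389) (nat_lit 344) (nat_lit 167)) (XT.nd (nat_lit 78) (nat_lit 380) (nat_lit 0) (XT.lf (nat_lit 0) (nat_lit 6891897582) (nat_lit 380) (nat_lit 894899549) (nat_lit 76)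 (nat_lit 24581955107) (nat_lit 125) (nat_lit 5) (nat_lit 130) (nat_lit 5) (nat_lit 126) (nat_lit 5) (nat_lit 390) (nat_lit 344) (nat_lit 166)) (XT.lf (nat_lit 0) (nat_lit 12671795372) (nat_lit 456) (nat_lit 16163222350) (nat_lit 76) (nat_lit 4137909579) (nat_lit 120) (nat_lit 5) (nat_lit 126) (nat_lit 5) (nat_lit 121) (nat_lit 5) (nat_lit 391) (nat_lit 344) (nat_lit 165)))) (XT.nd (nat_lit 78) (nat_lit 304) (nat_lit 0) (XT.lf (nat_lit 0) (nat_lit 1414069781) (nat_lit 304) (nat_lit 17307114720) (nat_lit 380) (nat_lit 14871161891) (nat_lit 116) (nat_lit 5) (nat_lit 120) (nat_lit 5) (nat_lit 121) (nat_lit 5) (nat_lit 392) (nat_lit 344) (nat_lit 164)) (XT.nd (nat_lit 78) (nat_lit 304) (nat_lit 0) (XT.lf (nat_lit 0) (nat_lit 19844888629) (nat_lit 304) (nat_lit 5266720986) (nat_lit 380) (nat_lit 9113953369) (nat_lit 116) (nat_lit 5) (nat_lit 120) (nat_lit 5) (nat_lit 121) (nat_lit 5) (nat_lit 393) (nat_lit 344)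 (nat_lit 163)) (XT.lf (nat_lit 0) (nat_lit 3954367406) (nat_lit 304) (nat_lit 27842407261) (nat_lit 380) (nat_lit 3077912107) (nat_lit 112) (nat_lit 5) (nat_lit 116) (nat_lit 5) (nat_lit 117) (nat_lit 5) (nat_lit 394) (nat_lit 344) (nat_lit 162))))) (XT.nd (nat_lit 234) (nat_lit 608) (nat_lit 0) (XT.nd (nat_lit 78) (nat_lit 304) (nat_lit 0) (XT.lf (nat_lit 0) (nat_lit 3273203255) (nat_lit 380) (nat_lit 12493527215) (nat_lit 76) (nat_lit 19769792450) (nat_lit 111) (nat_lit 5) (nat_lit 116) (nat_lit 5) (nat_lit 112) (nat_lit 5) (nat_lit 395) (nat_lit 344) (nat_lit 161)) (XT.nd (nat_lit 78) (nat_lit 0) (nat_lit 0) (XT.lf (nat_lit 0) (nat_lit 6579033180) (nat_lit 304) (nat_lit 3233751011) (nat_lit 380) (nat_lit 26402723261) (nat_lit 107) (nat_lit 5) (nat_lit 111) (nat_lit 5) (nat_lit 112) (nat_lit 5) (nat_lit 396) (nat_lit 344) (nat_lit 160)) (XT.lf (nat_lit 0) (nat_lit 16765558244) (nat_lit 380) (nat_lit 10530436545)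 (nat_lit 76) (nat_lit 9612357906) (nat_lit 107) (nat_lit 5) (nat_lit 112) (nat_lit 5) (nat_lit 108) (nat_lit 5) (nat_lit 397) (nat_lit 344) (nat_lit 159)))) (XT.nd (nat_lit 156) (nat_lit 304) (nat_lit 0) (XT.nd (nat_lit 78) (nat_lit 0) (nat_lit 0) (XT.lf (nat_lit 0) (nat_lit 9293273265) (nat_lit 304) (nat_lit 14751683804) (nat_lit 380) (nat_lit 13573486286) (nat_lit 103) (nat_lit 5) (nat_lit 107) (nat_lit 5) (nat_lit 108) (nat_lit 5) (nat_lit 398) (nat_lit 344) (nat_lit 158)) (XT.lf (nat_lit 0) (nat_lit 29922768473) (nat_lit 304) (nat_lit 1723048059) (nat_lit 380) (nat_lit 6700929112) (nat_lit 103) (nat_lit 5) (nat_lit 107) (nat_lit 5) (nat_lit 108) (nat_lit 5) (nat_lit 399) (nat_lit 344) (nat_lit 157))) (XT.nd (nat_lit 78) (nat_lit 0) (nat_lit 0) (XT.lf (nat_lit 0) (nat_lit 599155888) (nat_lit 304) (nat_lit 26900922106) (nat_lit 76) (nat_lit 11589849549) (nat_lit 99) (nat_lit 5) (nat_lit 103) (nat_lit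 5) (nat_lit 100) (nat_lit 5) (nat_lit 400) (nat_lit 344) (nat_lit 156)) (XT.lf (nat_lit 0) (nat_lit 8083367025) (nat_lit 304) (nat_lit 6348789640) (nat_lit 76) (nat_lit 25418264850) (nat_lit 99) (nat_lit 5) (nat_lit 103) (nat_lit 5) (nat_lit 100) (nat_lit 5) (nat_lit 401) (nat_lit 344) (nat_lit 155)))))) (XT.nd (nat_lit 468) (nat_lit 760) (nat_lit 0) (XT.nd (nat_lit 234) (nat_lit 608) (nat_lit 0) (XT.nd (nat_lit 78) (nat_lit 228) (nat_lit 0) (XT.lf (nat_lit 0) (nat_lit 15110149006) (nat_lit 304) (nat_lit 824133447) (nat_lit 380) (nat_lit 24695183641) (nat_lit 95) (nat_lit 5) (nat_lit 99) (nat_lit 5) (nat_lit 100) (nat_lit 5) (nat_lit 402) (nat_lit 344) (nat_lit 154)) (XT.nd (nat_lit 78) (nat_lit 228) (nat_lit 0) (XT.lf (nat_lit 0) (nat_lit 24209241927) (nat_lit 380) (nat_lit 4219047539) (nat_lit 76) (nat_lit 12997938143) (nat_lit 95) (nat_lit 5) (nat_lit 100) (nat_lit 5) (nat_lit 96) (nat_lit 5) (nat_lit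 403) (nat_lit 344) (nat_lit 153)) (XT.lf (nat_lit 0) (nat_lit 18059977783) (nat_lit 228) (nat_lit 14851284888) (nat_lit 304) (nat_lit 9330265985) (nat_lit 92) (nat_lit 5) (nat_lit 95) (nat_lit 5) (nat_lit 96) (nat_lit 5) (nat_lit 404) (nat_lit 344) (nat_lit 152)))) (XT.nd (nat_lit 78) (nat_lit 608) (nat_lit 0) (XT.lf (nat_lit 0) (nat_lit 41089396603) (nat_lit 228) (nat_lit 824643776) (nat_lit 304) (nat_lit 1166058497) (nat_lit 92) (nat_lit 5) (nat_lit 95) (nat_lit 5) (nat_lit 96) (nat_lit 5) (nat_lit 405) (nat_lit 344) (nat_lit 151)) (XT.nd (nat_lit 78) (nat_lit 228) (nat_lit 0) (XT.lf (nat_lit 0) (nat_lit 7436369891) (nat_lit 380) (nat_lit 22863697900) (nat_lit 76) (nat_lit 13631631642) (nat_lit 87) (nat_lit 5) (nat_lit 92) (nat_lit 5) (nat_lit 88) (nat_lit 5) (nat_lit 406) (nat_lit 344) (nat_lit 150)) (XT.lf (nat_lit 0) (nat_lit 27232651) (nat_lit 228) (nat_lit 16272104130) (nat_lit 304) (nat_lit 28508388748)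 (nat_lit 84) (nat_lit 5) (nat_lit 87) (nat_lit 5) (nat_lit 88) (nat_lit 5) (nat_lit 407) (nat_lit 344) (nat_lit 149))))) (XT.nd (nat_lit 234) (nat_lit 532) (nat_lit 0) (XT.nd (nat_lit 78) (nat_lit 228) (nat_lit 0) (XT.lf (nat_lit 0) (nat_lit 24069199074) (nat_lit 228) (nat_lit 1587086843) (nat_lit 304) (nat_lit 20046904610) (nat_lit 84) (nat_lit 5) (nat_lit 87) (nat_lit 5) (nat_lit 88) (nat_lit 5) (nat_lit 408) (nat_lit 344) (nat_lit 148)) (XT.nd (nat_lit 78) (nat_lit 0) (nat_lit 0) (XT.lf (nat_lit 0) (nat_lit 2113695492) (nat_lit 228) (nat_lit 33327987334) (nat_lit 304) (nat_lit 11179405359) (nat_lit 81) (nat_lit 5) (nat_lit 84) (nat_lit 5) (nat_lit 85) (nat_lit 5) (nat_lit 409) (nat_lit 344) (nat_lit 147)) (XT.lf (nat_lit 0) (nat_lit 26996989332) (nat_lit 228) (nat_lit 18754992006) (nat_lit 304) (nat_lit 1807602108) (nat_lit 81) (nat_lit 5) (nat_lit 84) (nat_lit 5) (nat_lit 85) (nat_lit 5) (nat_lit 410)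 (nat_lit 344) (nat_lit 146)))) (XT.nd (nat_lit 156) (nat_lit 228) (nat_lit 0) (XT.nd (nat_lit 78) (nat_lit 0) (nat_lit 0) (XT.lf (nat_lit 0) (nat_lit 4100956950) (nat_lit 228) (nat_lit 3628098674) (nat_lit 304) (nat_lit 40793812580) (nat_lit 77) (nat_lit 5) (nat_lit 80) (nat_lit 5) (nat_lit 81) (nat_lit 5) (nat_lit 411) (nat_lit 344) (nat_lit 145)) (XT.lf (nat_lit 0) (nat_lit 17837467676) (nat_lit 304) (nat_lit 19721967179) (nat_lit 76) (nat_lit 11945420959) (nat_lit 77) (nat_lit 5) (nat_lit 81) (nat_lit 5) (nat_lit 78) (nat_lit 5) (nat_lit 412) (nat_lit 344) (nat_lit 144))) (XT.nd (nat_lit 78) (nat_lit 0) (nat_lit 0) (XT.lf (nat_lit 0) (nat_lit 5791974894) (nat_lit 228) (nat_lit 22546223067) (nat_lit 304) (nat_lit 22175433883) (nat_lit 74) (nat_lit 5) (nat_lit 77) (nat_lit 5) (nat_lit 78) (nat_lit 5) (nat_lit 413) (nat_lit 344) (nat_lit 143)) (XT.lf (nat_lit 0) (nat_lit 32471555581) (nat_lit 228) (nat_lit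 6879050581) (nat_lit 304) (nat_lit 12196166057) (nat_lit 74) (nat_lit 5) (nat_lit 77) (nat_lit 5) (nat_lit 78) (nat_lit 5) (nat_lit 414) (nat_lit 344) (nat_lit 142))))))) (XT.nd (nat_lit 1014) (nat_lit 380) (nat_lit 0) (XT.nd (nat_lit 468) (nat_lit 836) (nat_lit 0) (XT.nd (nat_lit 234) (nat_lit 152) (nat_lit 0) (XT.nd (nat_lit 78) (nat_lit 304) (nat_lit 0) (XT.lf (nat_lit 0) (nat_lit 7391862631) (nat_lit 152) (nat_lit 43459134912) (nat_lit 228) (nat_lit 1755181658) (nat_lit 72) (nat_lit 5) (nat_lit 74) (nat_lit 5) (nat_lit 75) (nat_lit 5) (nat_lit 415) (nat_lit 344) (nat_lit 141)) (XT.nd (nat_lit 78) (nat_lit 228) (nat_lit 0) (XT.lf (nat_lit 0) (nat_lit 9083636982) (nat_lit 228) (nat_lit 18808144036) (nat_lit 76) (nat_lit 25795186684) (nat_lit 71) (nat_lit 5) (nat_lit 74) (nat_lit 5) (nat_lit 72) (nat_lit 5) (nat_lit 416) (nat_lit 344) (nat_lit 140)) (XT.lf (nat_lit 0) (nat_lit 8535499744) (nat_lit 228)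 (nat_lit 11756531659) (nat_lit 304) (nat_lit 34505237115) (nat_lit 68) (nat_lit 5) (nat_lit 71) (nat_lit 5) (nat_lit 72) (nat_lit 5) (nat_lit 417) (nat_lit 344) (nat_lit 139)))) (XT.nd (nat_lit 78) (nat_lit 152) (nat_lit 0) (XT.lf (nat_lit 0) (nat_lit 32072884622) (nat_lit 304) (nat_lit 18902715525) (nat_lit 76) (nat_lit 4958192648) (nat_lit 68) (nat_lit 5) (nat_lit 72) (nat_lit 5) (nat_lit 69) (nat_lit 5) (nat_lit 418) (nat_lit 344) (nat_lit 138)) (XT.nd (nat_lit 78) (nat_lit 0) (nat_lit 0) (XT.lf (nat_lit 0) (nat_lit 9339150564) (nat_lit 152) (nat_lit 35071913209) (nat_lit 228) (nat_lit 12687232639) (nat_lit 66) (nat_lit 5) (nat_lit 68) (nat_lit 5) (nat_lit 69) (nat_lit 5) (nat_lit 419) (nat_lit 344) (nat_lit 137)) (XT.lf (nat_lit 0) (nat_lit 38811999086) (nat_lit 152) (nat_lit 18496025081) (nat_lit 228) (nat_lit 984052501) (nat_lit 66) (nat_lit 5) (nat_lit 68) (nat_lit 5) (nat_lit 69) (nat_lit 5) (nat_lit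 420) (nat_lit 344) (nat_lit 136))))) (XT.nd (nat_lit 234) (nat_lit 380) (nat_lit 0) (XT.nd (nat_lit 78) (nat_lit 152) (nat_lit 0) (XT.lf (nat_lit 0) (nat_lit 9727063487) (nat_lit 228) (nat_lit 1218440841) (nat_lit 304) (nat_lit 48570235125) (nat_lit 62) (nat_lit 5) (nat_lit 65) (nat_lit 5) (nat_lit 66) (nat_lit 5) (nat_lit 421) (nat_lit 344) (nat_lit 135)) (XT.nd (nat_lit 78) (nat_lit 152) (nat_lit 0) (XT.lf (nat_lit 0) (nat_lit 23568993763) (nat_lit 304) (nat_lit 20735223771) (nat_lit 76) (nat_lit 16460928117) (nat_lit 62) (nat_lit 5) (nat_lit 66) (nat_lit 5) (nat_lit 63) (nat_lit 5) (nat_lit 422) (nat_lit 344) (nat_lit 134)) (XT.lf (nat_lit 0) (nat_lit 9356749449) (nat_lit 152) (nat_lit 27314322064) (nat_lit 228) (nat_lit 25377966554) (nat_lit 60) (nat_lit 5) (nat_lit 62) (nat_lit 5) (nat_lit 63) (nat_lit 5) (nat_lit 423) (nat_lit 344) (nat_lit 133)))) (XT.nd (nat_lit 156) (nat_lit 228) (nat_lit 0) (XT.nd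 (nat_lit 78) (nat_lit 152) (nat_lit 0) (XT.lf (nat_lit 0) (nat_lit 40772966293) (nat_lit 152) (nat_lit 9600535008) (nat_lit 228) (nat_lit 12991727784) (nat_lit 60) (nat_lit 5) (nat_lit 62) (nat_lit 5) (nat_lit 63) (nat_lit 5) (nat_lit 424) (nat_lit 344) (nat_lit 132)) (XT.lf (nat_lit 0) (nat_lit 8489821763) (nat_lit 152) (nat_lit 56159841292) (nat_lit 228) (nat_lit 66363514) (nat_lit 58) (nat_lit 5) (nat_lit 60) (nat_lit 5) (nat_lit 61) (nat_lit 5) (nat_lit 425) (nat_lit 344) (nat_lit 131))) (XT.nd (nat_lit 78) (nat_lit 152) (nat_lit 0) (XT.lf (nat_lit 0) (nat_lit 13311678423) (nat_lit 228) (nat_lit 25361183256) (nat_lit 76) (nat_lit 27420964434) (nat_lit 57) (nat_lit 5) (nat_lit 60) (nat_lit 5) (nat_lit 58) (nat_lit 5) (nat_lit 426) (nat_lit 344) (nat_lit 130)) (XT.lf (nat_lit 0) (nat_lit 6553600762) (nat_lit 152) (nat_lit 20597141349) (nat_lit 228) (nat_lit 40360367855) (nat_lit 55) (nat_lit 5) (nat_lit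 57) (nat_lit 5) (nat_lit 58) (nat_lit 5) (nat_lit 427) (nat_lit 344) (nat_lit 129)))))) (XT.nd (nat_lit 40560) (nat_lit 0) (nat_lit 14440) (XT.nd (nat_lit 234) (nat_lit 152) (nat_lit 0) (XT.nd (nat_lit 78) (nat_lit 228) (nat_lit 0) (XT.lf (nat_lit 0) (nat_lit 39942325712) (nat_lit 152) (nat_lit 1716792580) (nat_lit 228) (nat_lit 27304170276) (nat_lit 55) (nat_lit 5) (nat_lit 57) (nat_lit 5) (nat_lit 58) (nat_lit 5) (nat_lit 428) (nat_lit 344) (nat_lit 128)) (XT.nd (nat_lit 78) (nat_lit 76) (nat_lit 0) (XT.lf (nat_lit 0) (nat_lit 3773556634) (nat_lit 152) (nat_lit 53033980229) (nat_lit 228) (nat_lit 13645352369) (nat_lit 53) (nat_lit 5) (nat_lit 55) (nat_lit 5) (nat_lit 56) (nat_lit 5) (nat_lit 429) (nat_lit 344) (nat_lit 127)) (XT.lf (nat_lit 0) (nat_lit 726016659) (nat_lit 228) (nat_lit 33858874525) (nat_lit 76) (nat_lit 37392833735) (nat_lit 52) (nat_lit 5) (nat_lit 55) (nat_lit 5) (nat_lit 53) (nat_lit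 5) (nat_lit 430) (nat_lit 344) (nat_lit 126)))) (XT.nd (nat_lit 40170) (nat_lit 0) (nat_lit 14440) (XT.nd (nat_lit 78) (nat_lit 152) (nat_lit 0) (XT.lf (nat_lit 0) (nat_lit 15252415315) (nat_lit 228) (nat_lit 192141541) (nat_lit 76) (nat_lit 58099751746) (nat_lit 52) (nat_lit 5) (nat_lit 55) (nat_lit 5) (nat_lit 53) (nat_lit 5) (nat_lit 431) (nat_lit 344) (nat_lit 125)) (XT.lf (nat_lit 0) (nat_lit 30595239876) (nat_lit 228) (nat_lit 40024482600) (nat_lit 76) (nat_lit 4526748691) (nat_lit 50) (nat_lit 5) (nat_lit 53) (nat_lit 5) (nat_lit 51) (nat_lit 5) (nat_lit 432) (nat_lit 344) (nat_lit 124))) (XT.nd (nat_lit 78) (nat_lit 0) (nat_lit 0) (XT.lf (nat_lit 0) (nat_lit 2475228769) (nat_lit 0) (nat_lit 2475228769) (nat_lit 1140) (nat_lit 2848959177) (nat_lit 240) (nat_lit 5) (nat_lit 240) (nat_lit 3) (nat_lit 255) (nat_lit 3) (nat_lit 345) (nat_lit 345) (nat_lit 210)) (XT.lf (nat_lit 0) (nat_lit 10337772832)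 (nat_lit 1140) (nat_lit 3281298386) (nat_lit 1216) (nat_lit 2204919161) (nat_lit 240) (nat_lit 5) (nat_lit 255) (nat_lit 3) (nat_lit 256) (nat_lit 5) (nat_lit 346) (nat_lit 345) (nat_lit 209))))) (XT.nd (nat_lit 234) (nat_lit 0) (nat_lit 76) (XT.nd (nat_lit 78) (nat_lit 0) (nat_lit 76) (XT.lf (nat_lit 76) (nat_lit 4336830225) (nat_lit 0) (nat_lit 6531249206) (nat_lit 1216) (nat_lit 5185419150) (nat_lit 241) (nat_lit 5) (nat_lit 240) (nat_lit 5) (nat_lit 256) (nat_lit 5) (nat_lit 347) (nat_lit 345) (nat_lit 208)) (XT.nd (nat_lit 78) (nat_lit 0) (nat_lit 0) (XT.lf (nat_lit 0) (nat_lit 11445085301) (nat_lit 1140) (nat_lit 4051727476) (nat_lit 1216) (nat_lit 792162189) (nat_lit 241) (nat_lit 5) (nat_lit 256) (nat_lit 5) (nat_lit 257) (nat_lit 5) (nat_lit 348) (nat_lit 345) (nat_lit 207)) (XT.lf (nat_lit 76) (nat_lit 3847879429) (nat_lit 0) (nat_lit 8283402362) (nat_lit 1216) (nat_lit 4397483884) (nat_lit 242)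 (nat_lit 5) (nat_lit 241) (nat_lit 5) (nat_lit 257) (nat_lit 5) (nat_lit 349) (nat_lit 345) (nat_lit 206)))) (XT.nd (nat_lit 156) (nat_lit 0) (nat_lit 76) (XT.nd (nat_lit 78) (nat_lit 0) (nat_lit 76) (XT.lf (nat_lit 76) (nat_lit 12061884536) (nat_lit 0) (nat_lit 807550974) (nat_lit 1216) (nat_lit 3905379715) (nat_lit 242) (nat_lit 5) (nat_lit 241) (nat_lit 5) (nat_lit 257) (nat_lit 5) (nat_lit 350) (nat_lit 345) (nat_lit 205)) (XT.lf (nat_lit 76) (nat_lit 3490110107) (nat_lit 0) (nat_lit 10230199616) (nat_lit 1216) (nat_lit 3305225338) (nat_lit 243) (nat_lit 5) (nat_lit 242) (nat_lit 5) (nat_lit 258) (nat_lit 5) (nat_lit 351) (nat_lit 345) (nat_lit 204))) (XT.nd (nat_lit 78) (nat_lit 0) (nat_lit 76) (XT.lf (nat_lit 76) (nat_lit 12021952405) (nat_lit 0) (nat_lit 2621251009) (nat_lit 1216) (nat_lit 2639184180) (nat_lit 243) (nat_lit 5) (nat_lit 242) (nat_lit 5) (nat_lit 258) (nat_lit 5) (nat_lit 352) (nat_lit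 345) (nat_lit 203)) (XT.lf (nat_lit 76) (nat_lit 3270609604) (nat_lit 0) (nat_lit 12396030289) (nat_lit 1216) (nat_lit 1878125858) (nat_lit 244) (nat_lit 5) (nat_lit 243) (nat_lit 5) (nat_lit 259) (nat_lit 5) (nat_lit 353) (nat_lit 345) (nat_lit 202))))))))
noncomputable def xc205 : XT := (XT.nd (nat_lit 2028) (nat_lit 5016) (nat_lit 0) (XT.nd (nat_lit 1014) (nat_lit 3724) (nat_lit 0) (XT.nd (nat_lit 468) (nat_lit 1596) (nat_lit 0) (XT.nd (nat_lit 234) (nat_lit 0) (nat_lit 76) (XT.nd (nat_lit 78) (nat_lit 1140) (nat_lit 0) (XT.lf (nat_lit 76) (nat_lit 12133130647) (nat_lit 0) (nat_lit 4657943366) (nat_lit 1216) (nat_lit 1021837963) (nat_lit 244) (nat_lit 5) (nat_lit 243) (nat_lit 5) (nat_lit 259) (nat_lit 5) (nat_lit 354) (nat_lit 345) (nat_lit 201)) (XT.nd (nat_lit 78) (nat_lit 1216) (nat_lit 0) (XT.lf (nat_lit 76) (nat_lit 3197042034) (nat_lit 0) (nat_lit 14806520210) (nat_lit 1216) (nat_lit 83916111)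 (nat_lit 245) (nat_lit 5) (nat_lit 244) (nat_lit 5) (nat_lit 260) (nat_lit 5) (nat_lit 355) (nat_lit 345) (nat_lit 200)) (XT.lf (nat_lit 0) (nat_lit 960818685) (nat_lit 1216) (nat_lit 5973164838) (nat_lit 1292) (nat_lit 11433172227) (nat_lit 228) (nat_lit 5) (nat_lit 244) (nat_lit 5) (nat_lit 245) (nat_lit 5) (nat_lit 356) (nat_lit 345) (nat_lit 199)))) (XT.nd (nat_lit 78) (nat_lit 0) (nat_lit 0) (XT.lf (nat_lit 0) (nat_lit 2070346800) (nat_lit 1216) (nat_lit 15397413302) (nat_lit 1292) (nat_lit 1186389242) (nat_lit 229) (nat_lit 5) (nat_lit 245) (nat_lit 5) (nat_lit 246) (nat_lit 5) (nat_lit 357) (nat_lit 345) (nat_lit 198)) (XT.nd (nat_lit 78) (nat_lit 0) (nat_lit 0) (XT.lf (nat_lit 0) (nat_lit 3335007567) (nat_lit 1216) (nat_lit 6137275986) (nat_lit 1292) (nat_lit 9473818586) (nat_lit 229) (nat_lit 5) (nat_lit 245) (nat_lit 5) (nat_lit 246) (nat_lit 5) (nat_lit 358) (nat_lit 345) (nat_lit 197)) (XT.lf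 (nat_lit 76) (nat_lit 3462344545) (nat_lit 0) (nat_lit 1201049719) (nat_lit 1292) (nat_lit 14582650327) (nat_lit 230) (nat_lit 5) (nat_lit 229) (nat_lit 5) (nat_lit 246) (nat_lit 5) (nat_lit 359) (nat_lit 345) (nat_lit 196))))) (XT.nd (nat_lit 234) (nat_lit 1748) (nat_lit 0) (XT.nd (nat_lit 78) (nat_lit 0) (nat_lit 0) (XT.lf (nat_lit 0) (nat_lit 6157249561) (nat_lit 1216) (nat_lit 6154391097) (nat_lit 1292) (nat_lit 7239580671) (nat_lit 230) (nat_lit 5) (nat_lit 246) (nat_lit 5) (nat_lit 247) (nat_lit 5) (nat_lit 360) (nat_lit 345) (nat_lit 195)) (XT.nd (nat_lit 78) (nat_lit 0) (nat_lit 76) (XT.lf (nat_lit 76) (nat_lit 3820570219) (nat_lit 0) (nat_lit 3916861474) (nat_lit 1292) (nat_lit 12126880729) (nat_lit 231) (nat_lit 5) (nat_lit 230) (nat_lit 5) (nat_lit 247) (nat_lit 5) (nat_lit 361) (nat_lit 345) (nat_lit 194)) (XT.lf (nat_lit 0) (nat_lit 9466302921) (nat_lit 1216) (nat_lit 6016127550) (nat_lit 76)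 (nat_lit 4701331531) (nat_lit 231) (nat_lit 5) (nat_lit 247) (nat_lit 5) (nat_lit 232) (nat_lit 5) (nat_lit 362) (nat_lit 345) (nat_lit 193)))) (XT.nd (nat_lit 156) (nat_lit 608) (nat_lit 0) (XT.nd (nat_lit 78) (nat_lit 0) (nat_lit 0) (XT.lf (nat_lit 0) (nat_lit 4352591411) (nat_lit 1216) (nat_lit 6968327385) (nat_lit 1292) (nat_lit 9189664055) (nat_lit 215) (nat_lit 5) (nat_lit 231) (nat_lit 5) (nat_lit 232) (nat_lit 5) (nat_lit 363) (nat_lit 345) (nat_lit 192)) (XT.lf (nat_lit 0) (nat_lit 13303245825) (nat_lit 1292) (nat_lit 5713634862) (nat_lit 76) (nat_lit 1828169475) (nat_lit 215) (nat_lit 5) (nat_lit 232) (nat_lit 5) (nat_lit 216) (nat_lit 5) (nat_lit 364) (nat_lit 345) (nat_lit 191))) (XT.nd (nat_lit 78) (nat_lit 0) (nat_lit 0) (XT.lf (nat_lit 0) (nat_lit 5068101611) (nat_lit 608) (nat_lit 10388250012) (nat_lit 684) (nat_lit 5729864500) (nat_lit 207) (nat_lit 5) (nat_lit 215) (nat_lit 5) (nat_lit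 216) (nat_lit 5) (nat_lit 365) (nat_lit 345) (nat_lit 190)) (XT.lf (nat_lit 0) (nat_lit 16284617112) (nat_lit 608) (nat_lit 1440858664) (nat_lit 684) (nat_lit 3810602319) (nat_lit 207) (nat_lit 5) (nat_lit 215) (nat_lit 5) (nat_lit 216) (nat_lit 5) (nat_lit 366) (nat_lit 345) (nat_lit 189)))))) (XT.nd (nat_lit 468) (nat_lit 1976) (nat_lit 0) (XT.nd (nat_lit 234) (nat_lit 532) (nat_lit 0) (XT.nd (nat_lit 78) (nat_lit 684) (nat_lit 0) (XT.lf (nat_lit 0) (nat_lit 5977273773) (nat_lit 532) (nat_lit 14211510468) (nat_lit 608) (nat_lit 1703872044) (nat_lit 200) (nat_lit 5) (nat_lit 207) (nat_lit 5) (nat_lit 208) (nat_lit 5) (nat_lit 367) (nat_lit 345) (nat_lit 188)) (XT.nd (nat_lit 78) (nat_lit 608) (nat_lit 0) (XT.lf (nat_lit 0) (nat_lit 518761106) (nat_lit 608) (nat_lit 4632976815) (nat_lit 76) (nat_lit 17106209099) (nat_lit 199) (nat_lit 5) (nat_lit 207) (nat_lit 5) (nat_lit 200) (nat_lit 5) (nat_lit 368)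 (nat_lit 345) (nat_lit 187)) (XT.lf (nat_lit 0) (nat_lit 2877288575) (nat_lit 684) (nat_lit 15568903418) (nat_lit 76) (nat_lit 4184397903) (nat_lit 191) (nat_lit 5) (nat_lit 200) (nat_lit 5) (nat_lit 192) (nat_lit 5) (nat_lit 369) (nat_lit 345) (nat_lit 186)))) (XT.nd (nat_lit 78) (nat_lit 532) (nat_lit 0) (XT.lf (nat_lit 0) (nat_lit 5399093611) (nat_lit 684) (nat_lit 3868151691) (nat_lit 76) (nat_lit 13744394370) (nat_lit 191) (nat_lit 5) (nat_lit 200) (nat_lit 5) (nat_lit 192) (nat_lit 5) (nat_lit 370) (nat_lit 345) (nat_lit 185)) (XT.nd (nat_lit 78) (nat_lit 0) (nat_lit 0) (XT.lf (nat_lit 0) (nat_lit 8073754192) (nat_lit 608) (nat_lit 15063760789) (nat_lit 76) (nat_lit 264293090) (nat_lit 184) (nat_lit 5) (nat_lit 192) (nat_lit 5) (nat_lit 185) (nat_lit 5) (nat_lit 371) (nat_lit 345) (nat_lit 184)) (XT.lf (nat_lit 0) (nat_lit 10954397953) (nat_lit 608) (nat_lit 2910699504) (nat_lit 76) (nat_lit 9934814843)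 (nat_lit 184) (nat_lit 5) (nat_lit 192) (nat_lit 5) (nat_lit 185) (nat_lit 5) (nat_lit 372) (nat_lit 345) (nat_lit 183))))) (XT.nd (nat_lit 234) (nat_lit 988) (nat_lit 0) (XT.nd (nat_lit 78) (nat_lit 456) (nat_lit 0) (XT.lf (nat_lit 0) (nat_lit 9792433733) (nat_lit 532) (nat_lit 4217858128) (nat_lit 608) (nat_lit 10197005859) (nat_lit 177) (nat_lit 5) (nat_lit 184) (nat_lit 5) (nat_lit 185) (nat_lit 5) (nat_lit 373) (nat_lit 345) (nat_lit 182)) (XT.nd (nat_lit 78) (nat_lit 456) (nat_lit 0) (XT.lf (nat_lit 0) (nat_lit 17237316153) (nat_lit 608) (nat_lit 1750665154) (nat_lit 76) (nat_lit 5636542691) (nat_lit 177) (nat_lit 5) (nat_lit 185) (nat_lit 5) (nat_lit 178) (nat_lit 5) (nat_lit 374) (nat_lit 345) (nat_lit 181)) (XT.lf (nat_lit 0) (nat_lit 11469979405) (nat_lit 456) (nat_lit 9238138329) (nat_lit 532) (nat_lit 4341743150) (nat_lit 171) (nat_lit 5) (nat_lit 177) (nat_lit 5) (nat_lit 178) (nat_lit 5) (nat_lit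 375) (nat_lit 345) (nat_lit 180)))) (XT.nd (nat_lit 156) (nat_lit 456) (nat_lit 0) (XT.nd (nat_lit 78) (nat_lit 532) (nat_lit 0) (XT.lf (nat_lit 0) (nat_lit 24303665572) (nat_lit 532) (nat_lit 377834712) (nat_lit 76) (nat_lit 805841662) (nat_lit 171) (nat_lit 5) (nat_lit 178) (nat_lit 5) (nat_lit 172) (nat_lit 5) (nat_lit 376) (nat_lit 345) (nat_lit 179)) (XT.lf (nat_lit 0) (nat_lit 2246195194) (nat_lit 532) (nat_lit 12568993281) (nat_lit 76) (nat_lit 11115641681) (nat_lit 164) (nat_lit 5) (nat_lit 171) (nat_lit 5) (nat_lit 165) (nat_lit 5) (nat_lit 377) (nat_lit 345) (nat_lit 178))) (XT.nd (nat_lit 78) (nat_lit 0) (nat_lit 0) (XT.lf (nat_lit 0) (nat_lit 1138889938) (nat_lit 456) (nat_lit 4626304971) (nat_lit 532) (nat_lit 20621778336) (nat_lit 158) (nat_lit 5) (nat_lit 164) (nat_lit 5) (nat_lit 165) (nat_lit 5) (nat_lit 378) (nat_lit 345) (nat_lit 177)) (XT.lf (nat_lit 0) (nat_lit 9569653808) (nat_lit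 532) (nat_lit 11400590720) (nat_lit 76) (nat_lit 5881161854) (nat_lit 158) (nat_lit 5) (nat_lit 165) (nat_lit 5) (nat_lit 159) (nat_lit 5) (nat_lit 379) (nat_lit 345) (nat_lit 176))))))) (XT.nd (nat_lit 1014) (nat_lit 2128) (nat_lit 0) (XT.nd (nat_lit 468) (nat_lit 1520) (nat_lit 0) (XT.nd (nat_lit 234) (nat_lit 532) (nat_lit 0) (XT.nd (nat_lit 78) (nat_lit 380) (nat_lit 0) (XT.lf (nat_lit 0) (nat_lit 2867037154) (nat_lit 456) (nat_lit 10690012081) (nat_lit 532) (nat_lit 13770661556) (nat_lit 152) (nat_lit 5) (nat_lit 158) (nat_lit 5) (nat_lit 159) (nat_lit 5) (nat_lit 380) (nat_lit 345) (nat_lit 175)) (XT.nd (nat_lit 78) (nat_lit 380) (nat_lit 0) (XT.lf (nat_lit 0) (nat_lit 17774866127) (nat_lit 532) (nat_lit 10024126772) (nat_lit 76) (nat_lit 15989735) (nat_lit 152) (nat_lit 5) (nat_lit 159) (nat_lit 5) (nat_lit 153) (nat_lit 5) (nat_lit 381) (nat_lit 345) (nat_lit 174)) (XT.lf (nat_lit 0) (nat_lit 4828552028)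 (nat_lit 380) (nat_lit 17438563564) (nat_lit 456) (nat_lit 6045322323) (nat_lit 147) (nat_lit 5) (nat_lit 152) (nat_lit 5) (nat_lit 153) (nat_lit 5) (nat_lit 382) (nat_lit 345) (nat_lit 173)))) (XT.nd (nat_lit 78) (nat_lit 532) (nat_lit 0) (XT.lf (nat_lit 0) (nat_lit 20327003159) (nat_lit 380) (nat_lit 6664070846) (nat_lit 456) (nat_lit 1830836764) (nat_lit 147) (nat_lit 5) (nat_lit 152) (nat_lit 5) (nat_lit 153) (nat_lit 5) (nat_lit 383) (nat_lit 345) (nat_lit 172)) (XT.nd (nat_lit 78) (nat_lit 0) (nat_lit 0) (XT.lf (nat_lit 0) (nat_lit 2568208905) (nat_lit 532) (nat_lit 22335560498) (nat_lit 76) (nat_lit 4438963399) (nat_lit 140) (nat_lit 5) (nat_lit 147) (nat_lit 5) (nat_lit 141) (nat_lit 5) (nat_lit 384) (nat_lit 345) (nat_lit 171)) (XT.lf (nat_lit 0) (nat_lit 7210901618) (nat_lit 532) (nat_lit 6818400323) (nat_lit 76) (nat_lit 15844881507) (nat_lit 140) (nat_lit 5) (nat_lit 147) (nat_lit 5) (nat_lit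 141) (nat_lit 5) (nat_lit 385) (nat_lit 345) (nat_lit 170))))) (XT.nd (nat_lit 234) (nat_lit 760) (nat_lit 0) (XT.nd (nat_lit 78) (nat_lit 380) (nat_lit 0) (XT.lf (nat_lit 0) (nat_lit 9341424685) (nat_lit 380) (nat_lit 2737227999) (nat_lit 456) (nat_lit 18340353522) (nat_lit 135) (nat_lit 5) (nat_lit 140) (nat_lit 5) (nat_lit 141) (nat_lit 5) (nat_lit 386) (nat_lit 345) (nat_lit 169)) (XT.nd (nat_lit 78) (nat_lit 380) (nat_lit 0) (XT.lf (nat_lit 0) (nat_lit 17243500591) (nat_lit 456) (nat_lit 4943659537) (nat_lit 76) (nat_lit 8788483451) (nat_lit 135) (nat_lit 5) (nat_lit 141) (nat_lit 5) (nat_lit 136) (nat_lit 5) (nat_lit 387) (nat_lit 345) (nat_lit 168)) (XT.lf (nat_lit 0) (nat_lit 11873837536) (nat_lit 380) (nat_lit 10826850942) (nat_lit 456) (nat_lit 8844171568) (nat_lit 130) (nat_lit 5) (nat_lit 135) (nat_lit 5) (nat_lit 136) (nat_lit 5) (nat_lit 388) (nat_lit 345) (nat_lit 167)))) (XT.nd (nat_lit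 156) (nat_lit 380) (nat_lit 0) (XT.nd (nat_lit 78) (nat_lit 380) (nat_lit 0) (XT.lf (nat_lit 0) (nat_lit 28376618573) (nat_lit 456) (nat_lit 2846450687) (nat_lit 76) (nat_lit 906434707) (nat_lit 130) (nat_lit 5) (nat_lit 136) (nat_lit 5) (nat_lit 131) (nat_lit 5) (nat_lit 389) (nat_lit 345) (nat_lit 166)) (XT.lf (nat_lit 0) (nat_lit 1708863433) (nat_lit 380) (nat_lit 18084391547) (nat_lit 76) (nat_lit 12930599219) (nat_lit 125) (nat_lit 5) (nat_lit 130) (nat_lit 5) (nat_lit 126) (nat_lit 5) (nat_lit 390) (nat_lit 345) (nat_lit 165))) (XT.nd (nat_lit 78) (nat_lit 380) (nat_lit 0) (XT.lf (nat_lit 0) (nat_lit 7284403788) (nat_lit 380) (nat_lit 669285894) (nat_lit 76) (nat_lit 25380471095) (nat_lit 125) (nat_lit 5) (nat_lit 130) (nat_lit 5) (nat_lit 126) (nat_lit 5) (nat_lit 391) (nat_lit 345) (nat_lit 164)) (XT.lf (nat_lit 0) (nat_lit 13235337736) (nat_lit 456) (nat_lit 16393218430) (nat_lit 76) (nat_lit 4327978124)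 (nat_lit 120) (nat_lit 5) (nat_lit 126) (nat_lit 5) (nat_lit 121) (nat_lit 5) (nat_lit 392) (nat_lit 345) (nat_lit 163)))))) (XT.nd (nat_lit 546) (nat_lit 836) (nat_lit 0) (XT.nd (nat_lit 234) (nat_lit 684) (nat_lit 0) (XT.nd (nat_lit 78) (nat_lit 304) (nat_lit 0) (XT.lf (nat_lit 0) (nat_lit 1708893440) (nat_lit 304) (nat_lit 17754399924) (nat_lit 380) (nat_lit 15131332349) (nat_lit 116) (nat_lit 5) (nat_lit 120) (nat_lit 5) (nat_lit 121) (nat_lit 5) (nat_lit 393) (nat_lit 345) (nat_lit 162)) (XT.nd (nat_lit 78) (nat_lit 304) (nat_lit 0) (XT.lf (nat_lit 0) (nat_lit 20685285352) (nat_lit 304) (nat_lit 5354889376) (nat_lit 380) (nat_lit 9206824011) (nat_lit 116) (nat_lit 5) (nat_lit 120) (nat_lit 5) (nat_lit 121) (nat_lit 5) (nat_lit 394) (nat_lit 345) (nat_lit 161)) (XT.lf (nat_lit 0) (nat_lit 4320260211) (nat_lit 304) (nat_lit 28603559677) (nat_lit 380) (nat_lit 2991840773) (nat_lit 112) (nat_lit 5) (nat_lit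 116) (nat_lit 5) (nat_lit 117) (nat_lit 5) (nat_lit 395) (nat_lit 345) (nat_lit 160)))) (XT.nd (nat_lit 156) (nat_lit 304) (nat_lit 0) (XT.nd (nat_lit 78) (nat_lit 304) (nat_lit 0) (XT.lf (nat_lit 0) (nat_lit 3541231683) (nat_lit 380) (nat_lit 12624824755) (nat_lit 76) (nat_lit 20431398903) (nat_lit 111) (nat_lit 5) (nat_lit 116) (nat_lit 5) (nat_lit 112) (nat_lit 5) (nat_lit 396) (nat_lit 345) (nat_lit 159)) (XT.lf (nat_lit 0) (nat_lit 7017525116) (nat_lit 304) (nat_lit 3256846161) (nat_lit 380) (nat_lit 27022518984) (nat_lit 107) (nat_lit 5) (nat_lit 111) (nat_lit 5) (nat_lit 112) (nat_lit 5) (nat_lit 397) (nat_lit 345) (nat_lit 158))) (XT.nd (nat_lit 78) (nat_lit 304) (nat_lit 0) (XT.lf (nat_lit 0) (nat_lit 17431548388) (nat_lit 380) (nat_lit 10608007102) (nat_lit 76) (nat_lit 9971092708) (nat_lit 107) (nat_lit 5) (nat_lit 112) (nat_lit 5) (nat_lit 108) (nat_lit 5) (nat_lit 398) (nat_lit 345) (nat_lit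 157)) (XT.lf (nat_lit 0) (nat_lit 9808077312) (nat_lit 304) (nat_lit 15118772245) (nat_lit 380) (nat_lit 13815268284) (nat_lit 103) (nat_lit 5) (nat_lit 107) (nat_lit 5) (nat_lit 108) (nat_lit 5) (nat_lit 399) (nat_lit 345) (nat_lit 156))))) (XT.nd (nat_lit 234) (nat_lit 532) (nat_lit 0) (XT.nd (nat_lit 78) (nat_lit 304) (nat_lit 0) (XT.lf (nat_lit 0) (nat_lit 31049583419) (nat_lit 304) (nat_lit 1701475353) (nat_lit 380) (nat_lit 6741352528) (nat_lit 103) (nat_lit 5) (nat_lit 107) (nat_lit 5) (nat_lit 108) (nat_lit 5) (nat_lit 400) (nat_lit 345) (nat_lit 155)) (XT.nd (nat_lit 78) (nat_lit 0) (nat_lit 0) (XT.lf (nat_lit 0) (nat_lit 772946366) (nat_lit 304) (nat_lit 27473913111) (nat_lit 76) (nat_lit 12011034220) (nat_lit 99) (nat_lit 5) (nat_lit 103) (nat_lit 5) (nat_lit 100) (nat_lit 5) (nat_lit 401) (nat_lit 345) (nat_lit 154)) (XT.lf (nat_lit 0) (nat_lit 8477145513) (nat_lit 304) (nat_lit 6312033273)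 (nat_lit 76) (nat_lit 26252161518) (nat_lit 99) (nat_lit 5) (nat_lit 103) (nat_lit 5) (nat_lit 100) (nat_lit 5) (nat_lit 402) (nat_lit 345) (nat_lit 153)))) (XT.nd (nat_lit 156) (nat_lit 228) (nat_lit 0) (XT.nd (nat_lit 78) (nat_lit 0) (nat_lit 0) (XT.lf (nat_lit 0) (nat_lit 15788445885) (nat_lit 304) (nat_lit 772899144) (nat_lit 380) (nat_lit 25282480111) (nat_lit 95) (nat_lit 5) (nat_lit 99) (nat_lit 5) (nat_lit 100) (nat_lit 5) (nat_lit 403) (nat_lit 345) (nat_lit 152)) (XT.lf (nat_lit 0) (nat_lit 25080921379) (nat_lit 380) (nat_lit 4123495480) (nat_lit 76) (nat_lit 13460183168) (nat_lit 95) (nat_lit 5) (nat_lit 100) (nat_lit 5) (nat_lit 96) (nat_lit 5) (nat_lit 404) (nat_lit 345) (nat_lit 151))) (XT.nd (nat_lit 78) (nat_lit 0) (nat_lit 0) (XT.lf (nat_lit 0) (nat_lit 18821722919) (nat_lit 228) (nat_lit 15220159064) (nat_lit 304) (nat_lit 9462543270) (nat_lit 92) (nat_lit 5) (nat_lit 95) (nat_lit 5) (nat_lit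 96) (nat_lit 5) (nat_lit 405) (nat_lit 345) (nat_lit 150)) (XT.lf (nat_lit 0) (nat_lit 42535618116) (nat_lit 228) (nat_lit 774951661) (nat_lit 304) (nat_lit 1057709480) (nat_lit 92) (nat_lit 5) (nat_lit 95) (nat_lit 5) (nat_lit 96) (nat_lit 5) (nat_lit 406) (nat_lit 345) (nat_lit 149))))))))
noncomputable def xc206 : XT := (XT.nd (nat_lit 42120) (nat_lit 0) (nat_lit 10032) (XT.nd (nat_lit 1014) (nat_lit 1216) (nat_lit 0) (XT.nd (nat_lit 468) (nat_lit 684) (nat_lit 0) (XT.nd (nat_lit 234) (nat_lit 532) (nat_lit 0) (XT.nd (nat_lit 78) (nat_lit 228) (nat_lit 0) (XT.lf (nat_lit 0) (nat_lit 7798689545) (nat_lit 380) (nat_lit 23331872599) (nat_lit 76) (nat_lit 14114864909) (nat_lit 87) (nat_lit 5) (nat_lit 92) (nat_lit 5) (nat_lit 88) (nat_lit 5) (nat_lit 407) (nat_lit 345) (nat_lit 148)) (XT.nd (nat_lit 78) (nat_lit 0) (nat_lit 0) (XT.lf (nat_lit 0) (nat_lit 243651200) (nat_lit 228) (nat_lit 16681911535) (nat_lit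 304) (nat_lit 29222232032) (nat_lit 84) (nat_lit 5) (nat_lit 87) (nat_lit 5) (nat_lit 88) (nat_lit 5) (nat_lit 408) (nat_lit 345) (nat_lit 147)) (XT.lf (nat_lit 0) (nat_lit 25000596958) (nat_lit 228) (nat_lit 1558625935) (nat_lit 304) (nat_lit 20511022061) (nat_lit 84) (nat_lit 5) (nat_lit 87) (nat_lit 5) (nat_lit 88) (nat_lit 5) (nat_lit 409) (nat_lit 345) (nat_lit 146)))) (XT.nd (nat_lit 78) (nat_lit 304) (nat_lit 0) (XT.lf (nat_lit 0) (nat_lit 2387653667) (nat_lit 228) (nat_lit 34249380898) (nat_lit 304) (nat_lit 11378680669) (nat_lit 81) (nat_lit 5) (nat_lit 84) (nat_lit 5) (nat_lit 85) (nat_lit 5) (nat_lit 410) (nat_lit 345) (nat_lit 145)) (XT.nd (nat_lit 78) (nat_lit 304) (nat_lit 0) (XT.lf (nat_lit 0) (nat_lit 28011313876) (nat_lit 228) (nat_lit 19241480546) (nat_lit 304) (nat_lit 1729687598) (nat_lit 81) (nat_lit 5) (nat_lit 84) (nat_lit 5) (nat_lit 85) (nat_lit 5) (nat_lit 411) (nat_lit 345) (nat_lit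 144)) (XT.lf (nat_lit 0) (nat_lit 4428989476) (nat_lit 228) (nat_lit 3659698726) (nat_lit 304) (nat_lit 41885994271) (nat_lit 77) (nat_lit 5) (nat_lit 80) (nat_lit 5) (nat_lit 81) (nat_lit 5) (nat_lit 412) (nat_lit 345) (nat_lit 143))))) (XT.nd (nat_lit 234) (nat_lit 456) (nat_lit 0) (XT.nd (nat_lit 78) (nat_lit 228) (nat_lit 0) (XT.lf (nat_lit 0) (nat_lit 18497352304) (nat_lit 304) (nat_lit 20111555235) (nat_lit 76) (nat_lit 12377313316) (nat_lit 77) (nat_lit 5) (nat_lit 81) (nat_lit 5) (nat_lit 78) (nat_lit 5) (nat_lit 413) (nat_lit 345) (nat_lit 142)) (XT.nd (nat_lit 78) (nat_lit 0) (nat_lit 0) (XT.lf (nat_lit 0) (nat_lit 6165824012) (nat_lit 228) (nat_lit 23145570068) (nat_lit 304) (nat_lit 22713918500) (nat_lit 74) (nat_lit 5) (nat_lit 77) (nat_lit 5) (nat_lit 78) (nat_lit 5) (nat_lit 414) (nat_lit 345) (nat_lit 141)) (XT.lf (nat_lit 0) (nat_lit 33639964259) (nat_lit 228) (nat_lit 7010626282) (nat_lit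 304) (nat_lit 12438965215) (nat_lit 74) (nat_lit 5) (nat_lit 77) (nat_lit 5) (nat_lit 78) (nat_lit 5) (nat_lit 415) (nat_lit 345) (nat_lit 140)))) (XT.nd (nat_lit 156) (nat_lit 228) (nat_lit 0) (XT.nd (nat_lit 78) (nat_lit 76) (nat_lit 0) (XT.lf (nat_lit 0) (nat_lit 7808848200) (nat_lit 152) (nat_lit 44686240575) (nat_lit 228) (nat_lit 1685684358) (nat_lit 72) (nat_lit 5) (nat_lit 74) (nat_lit 5) (nat_lit 75) (nat_lit 5) (nat_lit 416) (nat_lit 345) (nat_lit 139)) (XT.lf (nat_lit 0) (nat_lit 9472426781) (nat_lit 228) (nat_lit 19180498136) (nat_lit 76) (nat_lit 26641130776) (nat_lit 71) (nat_lit 5) (nat_lit 74) (nat_lit 5) (nat_lit 72) (nat_lit 5) (nat_lit 417) (nat_lit 345) (nat_lit 138))) (XT.nd (nat_lit 78) (nat_lit 0) (nat_lit 0) (XT.lf (nat_lit 0) (nat_lit 8981573681) (nat_lit 228) (nat_lit 12033939020) (nat_lit 304) (nat_lit 35422200593) (nat_lit 68) (nat_lit 5) (nat_lit 71) (nat_lit 5) (nat_lit 72)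 (nat_lit 5) (nat_lit 418) (nat_lit 345) (nat_lit 137)) (XT.lf (nat_lit 0) (nat_lit 33147152787) (nat_lit 304) (nat_lit 19282652811) (nat_lit 76) (nat_lit 5178607784) (nat_lit 68) (nat_lit 5) (nat_lit 72) (nat_lit 5) (nat_lit 69) (nat_lit 5) (nat_lit 419) (nat_lit 345) (nat_lit 136)))))) (XT.nd (nat_lit 468) (nat_lit 608) (nat_lit 0) (XT.nd (nat_lit 234) (nat_lit 152) (nat_lit 0) (XT.nd (nat_lit 78) (nat_lit 304) (nat_lit 0) (XT.lf (nat_lit 0) (nat_lit 9804634513) (nat_lit 152) (nat_lit 36049359594) (nat_lit 228) (nat_lit 12953903394) (nat_lit 66) (nat_lit 5) (nat_lit 68) (nat_lit 5) (nat_lit 69) (nat_lit 5) (nat_lit 420) (nat_lit 345) (nat_lit 135)) (XT.nd (nat_lit 78) (nat_lit 304) (nat_lit 0) (XT.lf (nat_lit 0) (nat_lit 40156271128) (nat_lit 152) (nat_lit 18978370871) (nat_lit 228) (nat_lit 902946673) (nat_lit 66) (nat_lit 5) (nat_lit 68) (nat_lit 5) (nat_lit 69) (nat_lit 5) (nat_lit 421) (nat_lit 345)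 (nat_lit 134)) (XT.lf (nat_lit 0) (nat_lit 10199189054) (nat_lit 228) (nat_lit 1181723070) (nat_lit 304) (nat_lit 49917060914) (nat_lit 62) (nat_lit 5) (nat_lit 65) (nat_lit 5) (nat_lit 66) (nat_lit 5) (nat_lit 422) (nat_lit 345) (nat_lit 133)))) (XT.nd (nat_lit 78) (nat_lit 152) (nat_lit 0) (XT.lf (nat_lit 0) (nat_lit 24380672307) (nat_lit 304) (nat_lit 21179758217) (nat_lit 76) (nat_lit 17024504713) (nat_lit 62) (nat_lit 5) (nat_lit 66) (nat_lit 5) (nat_lit 63) (nat_lit 5) (nat_lit 423) (nat_lit 345) (nat_lit 132)) (XT.nd (nat_lit 78) (nat_lit 0) (nat_lit 0) (XT.lf (nat_lit 0) (nat_lit 9813233785) (nat_lit 152) (nat_lit 28061221471) (nat_lit 228) (nat_lit 26032930655) (nat_lit 60) (nat_lit 5) (nat_lit 62) (nat_lit 5) (nat_lit 63) (nat_lit 5) (nat_lit 424) (nat_lit 345) (nat_lit 131)) (XT.lf (nat_lit 0) (nat_lit 42166817275) (nat_lit 152) (nat_lit 9818133335) (nat_lit 228) (nat_lit 13278203020) (nat_lit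 60) (nat_lit 5) (nat_lit 62) (nat_lit 5) (nat_lit 63) (nat_lit 5) (nat_lit 425) (nat_lit 345) (nat_lit 130))))) (XT.nd (nat_lit 234) (nat_lit 228) (nat_lit 0) (XT.nd (nat_lit 78) (nat_lit 152) (nat_lit 0) (XT.lf (nat_lit 0) (nat_lit 33618200) (nat_lit 228) (nat_lit 57738986238) (nat_lit 76) (nat_lit 8881879911) (nat_lit 57) (nat_lit 5) (nat_lit 60) (nat_lit 5) (nat_lit 58) (nat_lit 5) (nat_lit 426) (nat_lit 345) (nat_lit 129)) (XT.nd (nat_lit 78) (nat_lit 152) (nat_lit 0) (XT.lf (nat_lit 0) (nat_lit 13808736329) (nat_lit 228) (nat_lit 25953720067) (nat_lit 76) (nat_lit 28311230396) (nat_lit 57) (nat_lit 5) (nat_lit 60) (nat_lit 5) (nat_lit 58) (nat_lit 5) (nat_lit 427) (nat_lit 345) (nat_lit 128)) (XT.lf (nat_lit 0) (nat_lit 6916857485) (nat_lit 152) (nat_lit 21144870521) (nat_lit 228) (nat_lit 41471799138) (nat_lit 55) (nat_lit 5) (nat_lit 57) (nat_lit 5) (nat_lit 58) (nat_lit 5) (nat_lit 428) (nat_lit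 345) (nat_lit 127)))) (XT.nd (nat_lit 156) (nat_lit 76) (nat_lit 0) (XT.nd (nat_lit 78) (nat_lit 152) (nat_lit 0) (XT.lf (nat_lit 0) (nat_lit 41302390337) (nat_lit 152) (nat_lit 1700155515) (nat_lit 228) (nat_lit 28026810188) (nat_lit 55) (nat_lit 5) (nat_lit 57) (nat_lit 5) (nat_lit 58) (nat_lit 5) (nat_lit 429) (nat_lit 345) (nat_lit 126)) (XT.lf (nat_lit 0) (nat_lit 4049126802) (nat_lit 152) (nat_lit 54555759062) (nat_lit 228) (nat_lit 13958775421) (nat_lit 53) (nat_lit 5) (nat_lit 55) (nat_lit 5) (nat_lit 56) (nat_lit 5) (nat_lit 430) (nat_lit 345) (nat_lit 125))) (XT.nd (nat_lit 78) (nat_lit 0) (nat_lit 0) (XT.lf (nat_lit 0) (nat_lit 839122821) (nat_lit 228) (nat_lit 34715169030) (nat_lit 76) (nat_lit 38580005310) (nat_lit 52) (nat_lit 5) (nat_lit 55) (nat_lit 5) (nat_lit 53) (nat_lit 5) (nat_lit 431) (nat_lit 345) (nat_lit 124)) (XT.lf (nat_lit 0) (nat_lit 15798653466) (nat_lit 228) (nat_lit 43078864)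 (nat_lit 76) (nat_lit 59906226399) (nat_lit 52) (nat_lit 5) (nat_lit 55) (nat_lit 5) (nat_lit 53) (nat_lit 5) (nat_lit 432) (nat_lit 345) (nat_lit 123))))))) (XT.nd (nat_lit 1014) (nat_lit 3344) (nat_lit 0) (XT.nd (nat_lit 468) (nat_lit 912) (nat_lit 0) (XT.nd (nat_lit 234) (nat_lit 0) (nat_lit 76) (XT.nd (nat_lit 78) (nat_lit 0) (nat_lit 0) (XT.lf (nat_lit 0) (nat_lit 2681567247) (nat_lit 0) (nat_lit 2681567247) (nat_lit 1140) (nat_lit 2662166278) (nat_lit 240) (nat_lit 5) (nat_lit 240) (nat_lit 3) (nat_lit 255) (nat_lit 3) (nat_lit 346) (nat_lit 346) (nat_lit 208)) (XT.nd (nat_lit 78) (nat_lit 0) (nat_lit 0) (XT.lf (nat_lit 0) (nat_lit 11158378987) (nat_lit 1140) (nat_lit 3105077709) (nat_lit 1216) (nat_lit 2019602218) (nat_lit 240) (nat_lit 5) (nat_lit 255) (nat_lit 3) (nat_lit 256) (nat_lit 5) (nat_lit 347) (nat_lit 346) (nat_lit 207)) (XT.lf (nat_lit 76) (nat_lit 4738902019) (nat_lit 0) (nat_lit 6953438932)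 (nat_lit 1216) (nat_lit 4827488840) (nat_lit 241) (nat_lit 5) (nat_lit 240) (nat_lit 5) (nat_lit 256) (nat_lit 5) (nat_lit 348) (nat_lit 346) (nat_lit 206)))) (XT.nd (nat_lit 78) (nat_lit 0) (nat_lit 0) (XT.lf (nat_lit 0) (nat_lit 12270034232) (nat_lit 1140) (nat_lit 3892293369) (nat_lit 1216) (nat_lit 600551080) (nat_lit 241) (nat_lit 5) (nat_lit 256) (nat_lit 5) (nat_lit 257) (nat_lit 5) (nat_lit 349) (nat_lit 346) (nat_lit 205)) (XT.nd (nat_lit 78) (nat_lit 0) (nat_lit 0) (XT.lf (nat_lit 76) (nat_lit 4241546979) (nat_lit 0) (nat_lit 8723917088) (nat_lit 1216) (nat_lit 4044748874) (nat_lit 242) (nat_lit 5) (nat_lit 241) (nat_lit 5) (nat_lit 257) (nat_lit 5) (nat_lit 350) (nat_lit 346) (nat_lit 204)) (XT.lf (nat_lit 76) (nat_lit 12693868418) (nat_lit 0) (nat_lit 1018197557) (nat_lit 1216) (nat_lit 3551997877) (nat_lit 242) (nat_lit 5) (nat_lit 241) (nat_lit 5) (nat_lit 257) (nat_lit 5) (nat_lit 351) (nat_lit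 346) (nat_lit 203))))) (XT.nd (nat_lit 234) (nat_lit 1064) (nat_lit 0) (XT.nd (nat_lit 78) (nat_lit 0) (nat_lit 0) (XT.lf (nat_lit 76) (nat_lit 3877925481) (nat_lit 0) (nat_lit 10698225093) (nat_lit 1216) (nat_lit 2946532905) (nat_lit 243) (nat_lit 5) (nat_lit 242) (nat_lit 5) (nat_lit 258) (nat_lit 5) (nat_lit 352) (nat_lit 346) (nat_lit 202)) (XT.nd (nat_lit 78) (nat_lit 0) (nat_lit 76) (XT.lf (nat_lit 76) (nat_lit 12657477065) (nat_lit 0) (nat_lit 2856315227) (nat_lit 1216) (nat_lit 2273845926) (nat_lit 243) (nat_lit 5) (nat_lit 242) (nat_lit 5) (nat_lit 258) (nat_lit 5) (nat_lit 353) (nat_lit 346) (nat_lit 201)) (XT.lf (nat_lit 76) (nat_lit 3655479528) (nat_lit 0) (nat_lit 12901186971) (nat_lit 1216) (nat_lit 1501567401) (nat_lit 244) (nat_lit 5) (nat_lit 243) (nat_lit 5) (nat_lit 259) (nat_lit 5) (nat_lit 354) (nat_lit 346) (nat_lit 200)))) (XT.nd (nat_lit 156) (nat_lit 0) (nat_lit 0) (XT.nd (nat_lit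 78) (nat_lit 1140) (nat_lit 0) (XT.lf (nat_lit 76) (nat_lit 12775524213) (nat_lit 0) (nat_lit 4927075621) (nat_lit 1216) (nat_lit 632199672) (nat_lit 244) (nat_lit 5) (nat_lit 243) (nat_lit 5) (nat_lit 259) (nat_lit 5) (nat_lit 355) (nat_lit 346) (nat_lit 199)) (XT.lf (nat_lit 0) (nat_lit 316931065) (nat_lit 1216) (nat_lit 15038794488) (nat_lit 1292) (nat_lit 3262100987) (nat_lit 228) (nat_lit 5) (nat_lit 244) (nat_lit 5) (nat_lit 245) (nat_lit 5) (nat_lit 356) (nat_lit 346) (nat_lit 198))) (XT.nd (nat_lit 78) (nat_lit 0) (nat_lit 76) (XT.lf (nat_lit 0) (nat_lit 1379621915) (nat_lit 1216) (nat_lit 5863501463) (nat_lit 1292) (nat_lit 11663104238) (nat_lit 228) (nat_lit 5) (nat_lit 244) (nat_lit 5) (nat_lit 245) (nat_lit 5) (nat_lit 357) (nat_lit 346) (nat_lit 197)) (XT.lf (nat_lit 0) (nat_lit 2512910236) (nat_lit 1216) (nat_lit 15560715387) (nat_lit 1292) (nat_lit 1128498255) (nat_lit 229) (nat_lit 5) (nat_lit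 245) (nat_lit 5) (nat_lit 246) (nat_lit 5) (nat_lit 358) (nat_lit 346) (nat_lit 196)))))) (XT.nd (nat_lit 546) (nat_lit 2356) (nat_lit 0) (XT.nd (nat_lit 234) (nat_lit 1064) (nat_lit 0) (XT.nd (nat_lit 78) (nat_lit 0) (nat_lit 0) (XT.lf (nat_lit 0) (nat_lit 3804429669) (nat_lit 1216) (nat_lit 6031471631) (nat_lit 1292) (nat_lit 9667273276) (nat_lit 229) (nat_lit 5) (nat_lit 245) (nat_lit 5) (nat_lit 246) (nat_lit 5) (nat_lit 359) (nat_lit 346) (nat_lit 195)) (XT.nd (nat_lit 78) (nat_lit 0) (nat_lit 76) (XT.lf (nat_lit 76) (nat_lit 3853295138) (nat_lit 0) (nat_lit 1311374016) (nat_lit 1292) (nat_lit 14647692795) (nat_lit 230) (nat_lit 5) (nat_lit 229) (nat_lit 5) (nat_lit 246) (nat_lit 5) (nat_lit 360) (nat_lit 346) (nat_lit 194)) (XT.lf (nat_lit 0) (nat_lit 6692121334) (nat_lit 1216) (nat_lit 6048869058) (nat_lit 1292) (nat_lit 7386046649) (nat_lit 230) (nat_lit 5) (nat_lit 246) (nat_lit 5) (nat_lit 247)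 (nat_lit 5) (nat_lit 361) (nat_lit 346) (nat_lit 193)))) (XT.nd (nat_lit 156) (nat_lit 1140) (nat_lit 0) (XT.nd (nat_lit 78) (nat_lit 0) (nat_lit 76) (XT.lf (nat_lit 76) (nat_lit 4222496452) (nat_lit 0) (nat_lit 4089775600) (nat_lit 1292) (nat_lit 12137478222) (nat_lit 231) (nat_lit 5) (nat_lit 230) (nat_lit 5) (nat_lit 247) (nat_lit 5) (nat_lit 362) (nat_lit 346) (nat_lit 192)) (XT.lf (nat_lit 0) (nat_lit 10082510251) (nat_lit 1216) (nat_lit 5906967429) (nat_lit 76) (nat_lit 4789626752) (nat_lit 231) (nat_lit 5) (nat_lit 247) (nat_lit 5) (nat_lit 232) (nat_lit 5) (nat_lit 363) (nat_lit 346) (nat_lit 191))) (XT.nd (nat_lit 78) (nat_lit 0) (nat_lit 0) (XT.lf (nat_lit 0) (nat_lit 4769973455) (nat_lit 1216) (nat_lit 7215871827) (nat_lit 1292) (nat_lit 9130098143) (nat_lit 215) (nat_lit 5) (nat_lit 231) (nat_lit 5) (nat_lit 232) (nat_lit 5) (nat_lit 364) (nat_lit 346) (nat_lit 190)) (XT.lf (nat_lit 0) (nat_lit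 14017808139) (nat_lit 1292) (nat_lit 5596566970) (nat_lit 76) (nat_lit 1846370431) (nat_lit 215) (nat_lit 5) (nat_lit 232) (nat_lit 5) (nat_lit 216) (nat_lit 5) (nat_lit 365) (nat_lit 346) (nat_lit 189))))) (XT.nd (nat_lit 234) (nat_lit 1216) (nat_lit 0) (XT.nd (nat_lit 78) (nat_lit 532) (nat_lit 0) (XT.lf (nat_lit 0) (nat_lit 5505793393) (nat_lit 608) (nat_lit 10723271250) (nat_lit 684) (nat_lit 5583280709) (nat_lit 207) (nat_lit 5) (nat_lit 215) (nat_lit 5) (nat_lit 216) (nat_lit 5) (nat_lit 366) (nat_lit 346) (nat_lit 188)) (XT.nd (nat_lit 78) (nat_lit 532) (nat_lit 0) (XT.lf (nat_lit 0) (nat_lit 17050484493) (nat_lit 608) (nat_lit 1506777372) (nat_lit 684) (nat_lit 3615716772) (nat_lit 207) (nat_lit 5) (nat_lit 215) (nat_lit 5) (nat_lit 216) (nat_lit 5) (nat_lit 367) (nat_lit 346) (nat_lit 187)) (XT.lf (nat_lit 0) (nat_lit 6440509726) (nat_lit 532) (nat_lit 14647738764) (nat_lit 608) (nat_lit 1452197590)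 (nat_lit 200) (nat_lit 5) (nat_lit 207) (nat_lit 5) (nat_lit 208) (nat_lit 5) (nat_lit 368) (nat_lit 346) (nat_lit 186)))) (XT.nd (nat_lit 156) (nat_lit 532) (nat_lit 0) (XT.nd (nat_lit 78) (nat_lit 608) (nat_lit 0) (XT.lf (nat_lit 0) (nat_lit 822558967) (nat_lit 608) (nat_lit 4490415610) (nat_lit 76) (nat_lit 17603898027) (nat_lit 199) (nat_lit 5) (nat_lit 207) (nat_lit 5) (nat_lit 200) (nat_lit 5) (nat_lit 369) (nat_lit 346) (nat_lit 185)) (XT.lf (nat_lit 0) (nat_lit 3246091117) (nat_lit 684) (nat_lit 15748507921) (nat_lit 76) (nat_lit 4306273091) (nat_lit 191) (nat_lit 5) (nat_lit 200) (nat_lit 5) (nat_lit 192) (nat_lit 5) (nat_lit 370) (nat_lit 346) (nat_lit 184))) (XT.nd (nat_lit 78) (nat_lit 532) (nat_lit 0) (XT.lf (nat_lit 0) (nat_lit 5835322618) (nat_lit 684) (nat_lit 3705106340) (nat_lit 76) (nat_lit 14153175959) (nat_lit 191) (nat_lit 5) (nat_lit 200) (nat_lit 5) (nat_lit 192) (nat_lit 5) (nat_lit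 371) (nat_lit 346) (nat_lit 183)) (XT.lf (nat_lit 0) (nat_lit 8584962867) (nat_lit 608) (nat_lit 15231171852) (nat_lit 76) (nat_lit 279506005) (nat_lit 184) (nat_lit 5) (nat_lit 192) (nat_lit 5) (nat_lit 185) (nat_lit 5) (nat_lit 372) (nat_lit 346) (nat_lit 182))))))))
noncomputable def xc207 : XT := (XT.nd (nat_lit 2106) (nat_lit 3572) (nat_lit 0) (XT.nd (nat_lit 1014) (nat_lit 2508) (nat_lit 0) (XT.nd (nat_lit 468) (nat_lit 1824) (nat_lit 0) (XT.nd (nat_lit 234) (nat_lit 988) (nat_lit 0) (XT.nd (nat_lit 78) (nat_lit 532) (nat_lit 0) (XT.lf (nat_lit 0) (nat_lit 11544191104) (nat_lit 608) (nat_lit 2721805188) (nat_lit 76) (nat_lit 10239931252) (nat_lit 184) (nat_lit 5) (nat_lit 192) (nat_lit 5) (nat_lit 185) (nat_lit 5) (nat_lit 373) (nat_lit 346) (nat_lit 181)) (XT.nd (nat_lit 78) (nat_lit 0) (nat_lit 0) (XT.lf (nat_lit 0) (nat_lit 10359714054) (nat_lit 532) (nat_lit 4327070258) (nat_lit 608) (nat_lit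 10238903830) (nat_lit 177) (nat_lit 5) (nat_lit 184) (nat_lit 5) (nat_lit 185) (nat_lit 5) (nat_lit 374) (nat_lit 346) (nat_lit 180)) (XT.lf (nat_lit 0) (nat_lit 18003319346) (nat_lit 608) (nat_lit 1530205212) (nat_lit 76) (nat_lit 5822129814) (nat_lit 177) (nat_lit 5) (nat_lit 185) (nat_lit 5) (nat_lit 178) (nat_lit 5) (nat_lit 375) (nat_lit 346) (nat_lit 179)))) (XT.nd (nat_lit 78) (nat_lit 532) (nat_lit 0) (XT.lf (nat_lit 0) (nat_lit 12084382410) (nat_lit 456) (nat_lit 9489211848) (nat_lit 532) (nat_lit 4220300672) (nat_lit 171) (nat_lit 5) (nat_lit 177) (nat_lit 5) (nat_lit 178) (nat_lit 5) (nat_lit 376) (nat_lit 346) (nat_lit 178)) (XT.nd (nat_lit 78) (nat_lit 532) (nat_lit 0) (XT.lf (nat_lit 0) (nat_lit 25270138256) (nat_lit 532) (nat_lit 119737913) (nat_lit 76) (nat_lit 854834290) (nat_lit 171) (nat_lit 5) (nat_lit 178) (nat_lit 5) (nat_lit 172) (nat_lit 5) (nat_lit 377) (nat_lit 346) (nat_lit 177))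 (XT.lf (nat_lit 0) (nat_lit 2549026483) (nat_lit 532) (nat_lit 12674463548) (nat_lit 76) (nat_lit 11478078313) (nat_lit 164) (nat_lit 5) (nat_lit 171) (nat_lit 5) (nat_lit 165) (nat_lit 5) (nat_lit 378) (nat_lit 346) (nat_lit 176))))) (XT.nd (nat_lit 234) (nat_lit 912) (nat_lit 0) (XT.nd (nat_lit 78) (nat_lit 456) (nat_lit 0) (XT.lf (nat_lit 0) (nat_lit 1441993426) (nat_lit 456) (nat_lit 4727330315) (nat_lit 532) (nat_lit 21002203753) (nat_lit 158) (nat_lit 5) (nat_lit 164) (nat_lit 5) (nat_lit 165) (nat_lit 5) (nat_lit 379) (nat_lit 346) (nat_lit 175)) (XT.nd (nat_lit 78) (nat_lit 456) (nat_lit 0) (XT.lf (nat_lit 0) (nat_lit 10081535649) (nat_lit 532) (nat_lit 11475007732) (nat_lit 76) (nat_lit 6093545155) (nat_lit 158) (nat_lit 5) (nat_lit 165) (nat_lit 5) (nat_lit 159) (nat_lit 5) (nat_lit 380) (nat_lit 346) (nat_lit 174)) (XT.lf (nat_lit 0) (nat_lit 3218025441) (nat_lit 456) (nat_lit 10966527273) (nat_lit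 532) (nat_lit 13956252755) (nat_lit 152) (nat_lit 5) (nat_lit 158) (nat_lit 5) (nat_lit 159) (nat_lit 5) (nat_lit 381) (nat_lit 346) (nat_lit 173)))) (XT.nd (nat_lit 156) (nat_lit 532) (nat_lit 0) (XT.nd (nat_lit 78) (nat_lit 380) (nat_lit 0) (XT.lf (nat_lit 0) (nat_lit 18522885642) (nat_lit 532) (nat_lit 10061463116) (nat_lit 76) (nat_lit 58530552) (nat_lit 152) (nat_lit 5) (nat_lit 159) (nat_lit 5) (nat_lit 153) (nat_lit 5) (nat_lit 382) (nat_lit 346) (nat_lit 172)) (XT.lf (nat_lit 0) (nat_lit 5234213818) (nat_lit 380) (nat_lit 17911940253) (nat_lit 456) (nat_lit 6009219827) (nat_lit 147) (nat_lit 5) (nat_lit 152) (nat_lit 5) (nat_lit 153) (nat_lit 5) (nat_lit 383) (nat_lit 346) (nat_lit 171))) (XT.nd (nat_lit 78) (nat_lit 532) (nat_lit 0) (XT.lf (nat_lit 0) (nat_lit 21190022214) (nat_lit 380) (nat_lit 6815662663) (nat_lit 456) (nat_lit 1674633551) (nat_lit 147) (nat_lit 5) (nat_lit 152) (nat_lit 5) (nat_lit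 153) (nat_lit 5) (nat_lit 384) (nat_lit 346) (nat_lit 170)) (XT.lf (nat_lit 0) (nat_lit 2849179367) (nat_lit 532) (nat_lit 22745016559) (nat_lit 76) (nat_lit 4622603759) (nat_lit 140) (nat_lit 5) (nat_lit 147) (nat_lit 5) (nat_lit 141) (nat_lit 5) (nat_lit 385) (nat_lit 346) (nat_lit 169)))))) (XT.nd (nat_lit 546) (nat_lit 1368) (nat_lit 0) (XT.nd (nat_lit 234) (nat_lit 760) (nat_lit 0) (XT.nd (nat_lit 78) (nat_lit 380) (nat_lit 0) (XT.lf (nat_lit 0) (nat_lit 7625213322) (nat_lit 532) (nat_lit 6769932183) (nat_lit 76) (nat_lit 16369229368) (nat_lit 140) (nat_lit 5) (nat_lit 147) (nat_lit 5) (nat_lit 141) (nat_lit 5) (nat_lit 386) (nat_lit 346) (nat_lit 168)) (XT.nd (nat_lit 78) (nat_lit 0) (nat_lit 0) (XT.lf (nat_lit 0) (nat_lit 9872206986) (nat_lit 380) (nat_lit 2763431730) (nat_lit 456) (nat_lit 18690007097) (nat_lit 135) (nat_lit 5) (nat_lit 140) (nat_lit 5) (nat_lit 141) (nat_lit 5) (nat_lit 387) (nat_lit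 346) (nat_lit 167)) (XT.lf (nat_lit 0) (nat_lit 17950285145) (nat_lit 456) (nat_lit 4843491004) (nat_lit 76) (nat_lit 9105363239) (nat_lit 135) (nat_lit 5) (nat_lit 141) (nat_lit 5) (nat_lit 136) (nat_lit 5) (nat_lit 388) (nat_lit 346) (nat_lit 166)))) (XT.nd (nat_lit 156) (nat_lit 380) (nat_lit 0) (XT.nd (nat_lit 78) (nat_lit 0) (nat_lit 0) (XT.lf (nat_lit 0) (nat_lit 12476094919) (nat_lit 380) (nat_lit 11091940037) (nat_lit 456) (nat_lit 8917494600) (nat_lit 130) (nat_lit 5) (nat_lit 135) (nat_lit 5) (nat_lit 136) (nat_lit 5) (nat_lit 389) (nat_lit 346) (nat_lit 165)) (XT.lf (nat_lit 0) (nat_lit 29409373299) (nat_lit 456) (nat_lit 2688014578) (nat_lit 76) (nat_lit 990473525) (nat_lit 130) (nat_lit 5) (nat_lit 136) (nat_lit 5) (nat_lit 131) (nat_lit 5) (nat_lit 390) (nat_lit 346) (nat_lit 164))) (XT.nd (nat_lit 78) (nat_lit 0) (nat_lit 0) (XT.lf (nat_lit 0) (nat_lit 1940468441) (nat_lit 380) (nat_lit 18381815874)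 (nat_lit 76) (nat_lit 13377796162) (nat_lit 125) (nat_lit 5) (nat_lit 130) (nat_lit 5) (nat_lit 126) (nat_lit 5) (nat_lit 391) (nat_lit 346) (nat_lit 163)) (XT.lf (nat_lit 0) (nat_lit 7678022410) (nat_lit 380) (nat_lit 451396102) (nat_lit 76) (nat_lit 26199437623) (nat_lit 125) (nat_lit 5) (nat_lit 130) (nat_lit 5) (nat_lit 126) (nat_lit 5) (nat_lit 392) (nat_lit 346) (nat_lit 162))))) (XT.nd (nat_lit 234) (nat_lit 684) (nat_lit 0) (XT.nd (nat_lit 78) (nat_lit 304) (nat_lit 0) (XT.lf (nat_lit 0) (nat_lit 13805259122) (nat_lit 456) (nat_lit 16644746728) (nat_lit 76) (nat_lit 4519964002) (nat_lit 120) (nat_lit 5) (nat_lit 126) (nat_lit 5) (nat_lit 121) (nat_lit 5) (nat_lit 393) (nat_lit 346) (nat_lit 161)) (XT.nd (nat_lit 78) (nat_lit 0) (nat_lit 0) (XT.lf (nat_lit 0) (nat_lit 1998072927) (nat_lit 304) (nat_lit 18219232660) (nat_lit 380) (nat_lit 15409983039) (nat_lit 116) (nat_lit 5) (nat_lit 120) (nat_lit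 5) (nat_lit 121) (nat_lit 5) (nat_lit 394) (nat_lit 346) (nat_lit 160)) (XT.lf (nat_lit 0) (nat_lit 21536827100) (nat_lit 304) (nat_lit 5449711531) (nat_lit 380) (nat_lit 9312844964) (nat_lit 116) (nat_lit 5) (nat_lit 120) (nat_lit 5) (nat_lit 121) (nat_lit 5) (nat_lit 395) (nat_lit 346) (nat_lit 159)))) (XT.nd (nat_lit 156) (nat_lit 304) (nat_lit 0) (XT.nd (nat_lit 78) (nat_lit 76) (nat_lit 0) (XT.lf (nat_lit 0) (nat_lit 4682935962) (nat_lit 304) (nat_lit 29391801445) (nat_lit 380) (nat_lit 2913428688) (nat_lit 112) (nat_lit 5) (nat_lit 116) (nat_lit 5) (nat_lit 117) (nat_lit 5) (nat_lit 396) (nat_lit 346) (nat_lit 158)) (XT.lf (nat_lit 0) (nat_lit 3807551894) (nat_lit 380) (nat_lit 12774039592) (nat_lit 76) (nat_lit 21108920641) (nat_lit 111) (nat_lit 5) (nat_lit 116) (nat_lit 5) (nat_lit 112) (nat_lit 5) (nat_lit 397) (nat_lit 346) (nat_lit 157))) (XT.nd (nat_lit 78) (nat_lit 0) (nat_lit 0) (XT.lf (nat_lit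 0) (nat_lit 7455330482) (nat_lit 304) (nat_lit 3284877325) (nat_lit 380) (nat_lit 27670798499) (nat_lit 107) (nat_lit 5) (nat_lit 111) (nat_lit 5) (nat_lit 112) (nat_lit 5) (nat_lit 398) (nat_lit 346) (nat_lit 156)) (XT.lf (nat_lit 0) (nat_lit 18108160027) (nat_lit 380) (nat_lit 10701586611) (nat_lit 76) (nat_lit 10336550368) (nat_lit 107) (nat_lit 5) (nat_lit 112) (nat_lit 5) (nat_lit 108) (nat_lit 5) (nat_lit 399) (nat_lit 346) (nat_lit 155))))))) (XT.nd (nat_lit 1014) (nat_lit 1596) (nat_lit 0) (XT.nd (nat_lit 468) (nat_lit 1064) (nat_lit 0) (XT.nd (nat_lit 234) (nat_lit 304) (nat_lit 0) (XT.nd (nat_lit 78) (nat_lit 304) (nat_lit 0) (XT.lf (nat_lit 0) (nat_lit 10324777779) (nat_lit 304) (nat_lit 15501205171) (nat_lit 380) (nat_lit 14073799676) (nat_lit 103) (nat_lit 5) (nat_lit 107) (nat_lit 5) (nat_lit 108) (nat_lit 5) (nat_lit 400) (nat_lit 346) (nat_lit 154)) (XT.nd (nat_lit 78) (nat_lit 304) (nat_lit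 0) (XT.lf (nat_lit 0) (nat_lit 32197049705) (nat_lit 304) (nat_lit 1683461126) (nat_lit 380) (nat_lit 6792208000) (nat_lit 103) (nat_lit 5) (nat_lit 107) (nat_lit 5) (nat_lit 108) (nat_lit 5) (nat_lit 401) (nat_lit 346) (nat_lit 153)) (XT.lf (nat_lit 0) (nat_lit 943006094) (nat_lit 304) (nat_lit 28077528507) (nat_lit 76) (nat_lit 12440635852) (nat_lit 99) (nat_lit 5) (nat_lit 103) (nat_lit 5) (nat_lit 100) (nat_lit 5) (nat_lit 402) (nat_lit 346) (nat_lit 152)))) (XT.nd (nat_lit 78) (nat_lit 304) (nat_lit 0) (XT.lf (nat_lit 0) (nat_lit 8874053410) (nat_lit 304) (nat_lit 6287217575) (nat_lit 76) (nat_lit 27106979378) (nat_lit 99) (nat_lit 5) (nat_lit 103) (nat_lit 5) (nat_lit 100) (nat_lit 5) (nat_lit 403) (nat_lit 346) (nat_lit 151)) (XT.nd (nat_lit 78) (nat_lit 0) (nat_lit 0) (XT.lf (nat_lit 0) (nat_lit 16474176186) (nat_lit 304) (nat_lit 724488129) (nat_lit 380) (nat_lit 25896210392) (nat_lit 95) (nat_lit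 5) (nat_lit 99) (nat_lit 5) (nat_lit 100) (nat_lit 5) (nat_lit 404) (nat_lit 346) (nat_lit 150)) (XT.lf (nat_lit 0) (nat_lit 25970404534) (nat_lit 380) (nat_lit 4037827657) (nat_lit 76) (nat_lit 13932144833) (nat_lit 95) (nat_lit 5) (nat_lit 100) (nat_lit 5) (nat_lit 96) (nat_lit 5) (nat_lit 405) (nat_lit 346) (nat_lit 149))))) (XT.nd (nat_lit 234) (nat_lit 456) (nat_lit 0) (XT.nd (nat_lit 78) (nat_lit 380) (nat_lit 0) (XT.lf (nat_lit 0) (nat_lit 19593694621) (nat_lit 228) (nat_lit 15604500314) (nat_lit 304) (nat_lit 9607263479) (nat_lit 92) (nat_lit 5) (nat_lit 95) (nat_lit 5) (nat_lit 96) (nat_lit 5) (nat_lit 406) (nat_lit 346) (nat_lit 148)) (XT.nd (nat_lit 78) (nat_lit 380) (nat_lit 0) (XT.lf (nat_lit 0) (nat_lit 44012968226) (nat_lit 228) (nat_lit 728041451) (nat_lit 304) (nat_lit 954337766) (nat_lit 92) (nat_lit 5) (nat_lit 95) (nat_lit 5) (nat_lit 96) (nat_lit 5) (nat_lit 407) (nat_lit 346) (nat_lit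 147)) (XT.lf (nat_lit 0) (nat_lit 8163886499) (nat_lit 380) (nat_lit 23826591489) (nat_lit 76) (nat_lit 14608330951) (nat_lit 87) (nat_lit 5) (nat_lit 92) (nat_lit 5) (nat_lit 88) (nat_lit 5) (nat_lit 408) (nat_lit 346) (nat_lit 146)))) (XT.nd (nat_lit 156) (nat_lit 228) (nat_lit 0) (XT.nd (nat_lit 78) (nat_lit 0) (nat_lit 0) (XT.lf (nat_lit 0) (nat_lit 454185893) (nat_lit 228) (nat_lit 17108511101) (nat_lit 304) (nat_lit 29965608034) (nat_lit 84) (nat_lit 5) (nat_lit 87) (nat_lit 5) (nat_lit 88) (nat_lit 5) (nat_lit 409) (nat_lit 346) (nat_lit 145)) (XT.lf (nat_lit 0) (nat_lit 25947920845) (nat_lit 228) (nat_lit 1533678130) (nat_lit 304) (nat_lit 20996944024) (nat_lit 84) (nat_lit 5) (nat_lit 87) (nat_lit 5) (nat_lit 88) (nat_lit 5) (nat_lit 410) (nat_lit 346) (nat_lit 144))) (XT.nd (nat_lit 78) (nat_lit 0) (nat_lit 0) (XT.lf (nat_lit 0) (nat_lit 2657744309) (nat_lit 228) (nat_lit 35202919393) (nat_lit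 304) (nat_lit 11591747328) (nat_lit 81) (nat_lit 5) (nat_lit 84) (nat_lit 5) (nat_lit 85) (nat_lit 5) (nat_lit 411) (nat_lit 346) (nat_lit 143)) (XT.lf (nat_lit 0) (nat_lit 29044333906) (nat_lit 228) (nat_lit 19746935708) (nat_lit 304) (nat_lit 1657021176) (nat_lit 81) (nat_lit 5) (nat_lit 84) (nat_lit 5) (nat_lit 85) (nat_lit 5) (nat_lit 412) (nat_lit 346) (nat_lit 142)))))) (XT.nd (nat_lit 546) (nat_lit 608) (nat_lit 0) (XT.nd (nat_lit 234) (nat_lit 456) (nat_lit 0) (XT.nd (nat_lit 78) (nat_lit 228) (nat_lit 0) (XT.lf (nat_lit 0) (nat_lit 4755094920) (nat_lit 228) (nat_lit 3696680839) (nat_lit 304) (nat_lit 43018497668) (nat_lit 77) (nat_lit 5) (nat_lit 80) (nat_lit 5) (nat_lit 81) (nat_lit 5) (nat_lit 413) (nat_lit 346) (nat_lit 141)) (XT.nd (nat_lit 78) (nat_lit 228) (nat_lit 0) (XT.lf (nat_lit 0) (nat_lit 19169871702) (nat_lit 304) (nat_lit 20524430633) (nat_lit 76) (nat_lit 12817941538) (nat_lit 77)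 (nat_lit 5) (nat_lit 81) (nat_lit 5) (nat_lit 78) (nat_lit 5) (nat_lit 414) (nat_lit 346) (nat_lit 140)) (XT.lf (nat_lit 0) (nat_lit 6539402627) (nat_lit 228) (nat_lit 23767319872) (nat_lit 304) (nat_lit 23275835255) (nat_lit 74) (nat_lit 5) (nat_lit 77) (nat_lit 5) (nat_lit 78) (nat_lit 5) (nat_lit 415) (nat_lit 346) (nat_lit 139)))) (XT.nd (nat_lit 156) (nat_lit 304) (nat_lit 0) (XT.nd (nat_lit 78) (nat_lit 152) (nat_lit 0) (XT.lf (nat_lit 0) (nat_lit 34832273764) (nat_lit 228) (nat_lit 7150442840) (nat_lit 304) (nat_lit 12696113977) (nat_lit 74) (nat_lit 5) (nat_lit 77) (nat_lit 5) (nat_lit 78) (nat_lit 5) (nat_lit 416) (nat_lit 346) (nat_lit 138)) (XT.lf (nat_lit 0) (nat_lit 8227136354) (nat_lit 152) (nat_lit 45954560487) (nat_lit 228) (nat_lit 1621114206) (nat_lit 72) (nat_lit 5) (nat_lit 74) (nat_lit 5) (nat_lit 75) (nat_lit 5) (nat_lit 417) (nat_lit 346) (nat_lit 137))) (XT.nd (nat_lit 78) (nat_lit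 228) (nat_lit 0) (XT.lf (nat_lit 0) (nat_lit 9866205287) (nat_lit 228) (nat_lit 19575038142) (nat_lit 76) (nat_lit 27508315017) (nat_lit 71) (nat_lit 5) (nat_lit 74) (nat_lit 5) (nat_lit 72) (nat_lit 5) (nat_lit 418) (nat_lit 346) (nat_lit 136)) (XT.lf (nat_lit 0) (nat_lit 9430122546) (nat_lit 228) (nat_lit 12323990475) (nat_lit 304) (nat_lit 36373457774) (nat_lit 68) (nat_lit 5) (nat_lit 71) (nat_lit 5) (nat_lit 72) (nat_lit 5) (nat_lit 419) (nat_lit 346) (nat_lit 135))))) (XT.nd (nat_lit 234) (nat_lit 456) (nat_lit 0) (XT.nd (nat_lit 78) (nat_lit 152) (nat_lit 0) (XT.lf (nat_lit 0) (nat_lit 34247215054) (nat_lit 304) (nat_lit 19684731058) (nat_lit 76) (nat_lit 5401521260) (nat_lit 68) (nat_lit 5) (nat_lit 72) (nat_lit 5) (nat_lit 69) (nat_lit 5) (nat_lit 420) (nat_lit 346) (nat_lit 134)) (XT.nd (nat_lit 78) (nat_lit 0) (nat_lit 0) (XT.lf (nat_lit 0) (nat_lit 10273445461) (nat_lit 152) (nat_lit 37060418088)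 (nat_lit 228) (nat_lit 13235115250) (nat_lit 66) (nat_lit 5) (nat_lit 68) (nat_lit 5) (nat_lit 69) (nat_lit 5) (nat_lit 421) (nat_lit 346) (nat_lit 133)) (XT.lf (nat_lit 0) (nat_lit 41530543644) (nat_lit 152) (nat_lit 19479350838) (nat_lit 228) (nat_lit 825758136) (nat_lit 66) (nat_lit 5) (nat_lit 68) (nat_lit 5) (nat_lit 69) (nat_lit 5) (nat_lit 422) (nat_lit 346) (nat_lit 132)))) (XT.nd (nat_lit 156) (nat_lit 152) (nat_lit 0) (XT.nd (nat_lit 78) (nat_lit 0) (nat_lit 0) (XT.lf (nat_lit 0) (nat_lit 10675127647) (nat_lit 228) (nat_lit 1148109822) (nat_lit 304) (nat_lit 51310622072) (nat_lit 62) (nat_lit 5) (nat_lit 65) (nat_lit 5) (nat_lit 66) (nat_lit 5) (nat_lit 423) (nat_lit 346) (nat_lit 131)) (XT.lf (nat_lit 0) (nat_lit 25210696239) (nat_lit 304) (nat_lit 21647819201) (nat_lit 76) (nat_lit 17600984742) (nat_lit 62) (nat_lit 5) (nat_lit 66) (nat_lit 5) (nat_lit 63) (nat_lit 5) (nat_lit 424) (nat_lit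 346) (nat_lit 130))) (XT.nd (nat_lit 78) (nat_lit 0) (nat_lit 0) (XT.lf (nat_lit 0) (nat_lit 10273322054) (nat_lit 152) (nat_lit 28834691393) (nat_lit 228) (nat_lit 26713650033) (nat_lit 60) (nat_lit 5) (nat_lit 62) (nat_lit 5) (nat_lit 63) (nat_lit 5) (nat_lit 425) (nat_lit 346) (nat_lit 129)) (XT.lf (nat_lit 0) (nat_lit 43592687090) (nat_lit 152) (nat_lit 10046301877) (nat_lit 228) (nat_lit 13579201012) (nat_lit 60) (nat_lit 5) (nat_lit 62) (nat_lit 5) (nat_lit 63) (nat_lit 5) (nat_lit 426) (nat_lit 346) (nat_lit 128))))))))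
noncomputable def xc208 : XT := (XT.nd (nat_lit 42198) (nat_lit 0) (nat_lit 5548) (XT.nd (nat_lit 41184) (nat_lit 0) (nat_lit 12388) (XT.nd (nat_lit 40638) (nat_lit 0) (nat_lit 14288) (XT.nd (nat_lit 234) (nat_lit 228) (nat_lit 0) (XT.nd (nat_lit 78) (nat_lit 152) (nat_lit 0) (XT.lf (nat_lit 0) (nat_lit 129488448) (nat_lit 228) (nat_lit 59307759042) (nat_lit 76) (nat_lit 9214003326) (nat_lit 57) (nat_lit 5) (nat_lit 60) (nat_lit 5) (nat_lit 58) (nat_lit 5) (nat_lit 427) (nat_lit 346) (nat_lit 127)) (XT.nd (nat_lit 78) (nat_lit 152) (nat_lit 0) (XT.lf (nat_lit 0) (nat_lit 14315097158) (nat_lit 228) (nat_lit 26573694015) (nat_lit 76) (nat_lit 29224321694) (nat_lit 57) (nat_lit 5) (nat_lit 60) (nat_lit 5) (nat_lit 58) (nat_lit 5) (nat_lit 428) (nat_lit 346) (nat_lit 126)) (XT.lf (nat_lit 0) (nat_lit 7281445592) (nat_lit 152) (nat_lit 21713060478) (nat_lit 228) (nat_lit 42622278165) (nat_lit 55) (nat_lit 5)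 (nat_lit 57) (nat_lit 5) (nat_lit 58) (nat_lit 5) (nat_lit 429) (nat_lit 346) (nat_lit 125)))) (XT.nd (nat_lit 78) (nat_lit 228) (nat_lit 0) (XT.lf (nat_lit 0) (nat_lit 42693969215) (nat_lit 152) (nat_lit 1686930900) (nat_lit 228) (nat_lit 28776667942) (nat_lit 55) (nat_lit 5) (nat_lit 57) (nat_lit 5) (nat_lit 58) (nat_lit 5) (nat_lit 430) (nat_lit 346) (nat_lit 124)) (XT.nd (nat_lit 78) (nat_lit 76) (nat_lit 0) (XT.lf (nat_lit 0) (nat_lit 4323643747) (nat_lit 152) (nat_lit 56127165952) (nat_lit 228) (nat_lit 14287108372) (nat_lit 53) (nat_lit 5) (nat_lit 55) (nat_lit 5) (nat_lit 56) (nat_lit 5) (nat_lit 431) (nat_lit 346) (nat_lit 123)) (XT.lf (nat_lit 0) (nat_lit 950379701) (nat_lit 228) (nat_lit 35606306700) (nat_lit 76) (nat_lit 39799038577) (nat_lit 52) (nat_lit 5) (nat_lit 55) (nat_lit 5) (nat_lit 53) (nat_lit 5) (nat_lit 432) (nat_lit 346) (nat_lit 122))))) (XT.nd (nat_lit 234) (nat_lit 0) (nat_lit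 76) (XT.nd (nat_lit 78) (nat_lit 0) (nat_lit 0) (XT.lf (nat_lit 0) (nat_lit 2886513854) (nat_lit 0) (nat_lit 2886513854) (nat_lit 1140) (nat_lit 2485398526) (nat_lit 240) (nat_lit 5) (nat_lit 240) (nat_lit 3) (nat_lit 255) (nat_lit 3) (nat_lit 347) (nat_lit 347) (nat_lit 206)) (XT.nd (nat_lit 78) (nat_lit 0) (nat_lit 0) (XT.lf (nat_lit 0) (nat_lit 11974300091) (nat_lit 1140) (nat_lit 2939336997) (nat_lit 1216) (nat_lit 1843160859) (nat_lit 240) (nat_lit 5) (nat_lit 255) (nat_lit 3) (nat_lit 256) (nat_lit 5) (nat_lit 348) (nat_lit 347) (nat_lit 205)) (XT.lf (nat_lit 76) (nat_lit 5137423956) (nat_lit 0) (nat_lit 7375306546) (nat_lit 1216) (nat_lit 4488297213) (nat_lit 241) (nat_lit 5) (nat_lit 240) (nat_lit 5) (nat_lit 256) (nat_lit 5) (nat_lit 349) (nat_lit 347) (nat_lit 204)))) (XT.nd (nat_lit 156) (nat_lit 0) (nat_lit 0) (XT.nd (nat_lit 78) (nat_lit 0) (nat_lit 0) (XT.lf (nat_lit 0) (nat_lit 13092086029)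 (nat_lit 1140) (nat_lit 3744205982) (nat_lit 1216) (nat_lit 415555099) (nat_lit 241) (nat_lit 5) (nat_lit 256) (nat_lit 5) (nat_lit 257) (nat_lit 5) (nat_lit 350) (nat_lit 347) (nat_lit 203)) (XT.lf (nat_lit 76) (nat_lit 4631052948) (nat_lit 0) (nat_lit 9166624943) (nat_lit 1216) (nat_lit 3709253253) (nat_lit 242) (nat_lit 5) (nat_lit 241) (nat_lit 5) (nat_lit 257) (nat_lit 5) (nat_lit 351) (nat_lit 347) (nat_lit 202))) (XT.nd (nat_lit 78) (nat_lit 0) (nat_lit 76) (XT.lf (nat_lit 76) (nat_lit 13329305402) (nat_lit 0) (nat_lit 1224462263) (nat_lit 1216) (nat_lit 3215025690) (nat_lit 242) (nat_lit 5) (nat_lit 241) (nat_lit 5) (nat_lit 257) (nat_lit 5) (nat_lit 352) (nat_lit 347) (nat_lit 201)) (XT.lf (nat_lit 76) (nat_lit 4261123525) (nat_lit 0) (nat_lit 11171042416) (nat_lit 1216) (nat_lit 2603362115) (nat_lit 243) (nat_lit 5) (nat_lit 242) (nat_lit 5) (nat_lit 258) (nat_lit 5) (nat_lit 353) (nat_lit 347)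 (nat_lit 200)))))) (XT.nd (nat_lit 468) (nat_lit 988) (nat_lit 0) (XT.nd (nat_lit 234) (nat_lit 1064) (nat_lit 0) (XT.nd (nat_lit 78) (nat_lit 0) (nat_lit 76) (XT.lf (nat_lit 76) (nat_lit 13296289027) (nat_lit 0) (nat_lit 3089451839) (nat_lit 1216) (nat_lit 1923064433) (nat_lit 243) (nat_lit 5) (nat_lit 242) (nat_lit 5) (nat_lit 258) (nat_lit 5) (nat_lit 354) (nat_lit 347) (nat_lit 199)) (XT.nd (nat_lit 78) (nat_lit 0) (nat_lit 0) (XT.lf (nat_lit 76) (nat_lit 4035434833) (nat_lit 0) (nat_lit 13413847778) (nat_lit 1216) (nat_lit 1138562549) (nat_lit 244) (nat_lit 5) (nat_lit 243) (nat_lit 5) (nat_lit 259) (nat_lit 5) (nat_lit 355) (nat_lit 347) (nat_lit 198)) (XT.lf (nat_lit 76) (nat_lit 13421208308) (nat_lit 0) (nat_lit 5196854102) (nat_lit 1216) (nat_lit 254998795) (nat_lit 244) (nat_lit 5) (nat_lit 243) (nat_lit 5) (nat_lit 259) (nat_lit 5) (nat_lit 356) (nat_lit 347) (nat_lit 197)))) (XT.nd (nat_lit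 78) (nat_lit 0) (nat_lit 0) (XT.lf (nat_lit 0) (nat_lit 705059064) (nat_lit 1216) (nat_lit 15209513352) (nat_lit 1292) (nat_lit 3250193962) (nat_lit 228) (nat_lit 5) (nat_lit 244) (nat_lit 5) (nat_lit 245) (nat_lit 5) (nat_lit 357) (nat_lit 347) (nat_lit 196)) (XT.nd (nat_lit 78) (nat_lit 0) (nat_lit 76) (XT.lf (nat_lit 0) (nat_lit 1788602871) (nat_lit 1216) (nat_lit 5767129836) (nat_lit 1292) (nat_lit 11906424497) (nat_lit 228) (nat_lit 5) (nat_lit 244) (nat_lit 5) (nat_lit 245) (nat_lit 5) (nat_lit 358) (nat_lit 347) (nat_lit 195)) (XT.lf (nat_lit 0) (nat_lit 2946911013) (nat_lit 1216) (nat_lit 15746058562) (nat_lit 1292) (nat_lit 1074236827) (nat_lit 229) (nat_lit 5) (nat_lit 245) (nat_lit 5) (nat_lit 246) (nat_lit 5) (nat_lit 359) (nat_lit 347) (nat_lit 194))))) (XT.nd (nat_lit 234) (nat_lit 1064) (nat_lit 0) (XT.nd (nat_lit 78) (nat_lit 0) (nat_lit 0) (XT.lf (nat_lit 0) (nat_lit 4266730977) (nat_lit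 1216) (nat_lit 5939135890) (nat_lit 1292) (nat_lit 9871741594) (nat_lit 229) (nat_lit 5) (nat_lit 245) (nat_lit 5) (nat_lit 246) (nat_lit 5) (nat_lit 360) (nat_lit 347) (nat_lit 193)) (XT.nd (nat_lit 78) (nat_lit 0) (nat_lit 76) (XT.lf (nat_lit 76) (nat_lit 4239494667) (nat_lit 0) (nat_lit 1420743331) (nat_lit 1292) (nat_lit 14736065947) (nat_lit 230) (nat_lit 5) (nat_lit 229) (nat_lit 5) (nat_lit 246) (nat_lit 5) (nat_lit 361) (nat_lit 347) (nat_lit 192)) (XT.lf (nat_lit 0) (nat_lit 7222938970) (nat_lit 1216) (nat_lit 5956837373) (nat_lit 1292) (nat_lit 7540966307) (nat_lit 230) (nat_lit 5) (nat_lit 246) (nat_lit 5) (nat_lit 247) (nat_lit 5) (nat_lit 362) (nat_lit 347) (nat_lit 191)))) (XT.nd (nat_lit 156) (nat_lit 1140) (nat_lit 0) (XT.nd (nat_lit 78) (nat_lit 0) (nat_lit 76) (XT.lf (nat_lit 76) (nat_lit 4619987753) (nat_lit 0) (nat_lit 4264696488) (nat_lit 1292) (nat_lit 12168669277) (nat_lit 231) (nat_lit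 5) (nat_lit 230) (nat_lit 5) (nat_lit 247) (nat_lit 5) (nat_lit 363) (nat_lit 347) (nat_lit 190)) (XT.lf (nat_lit 0) (nat_lit 10698133115) (nat_lit 1216) (nat_lit 5811159252) (nat_lit 76) (nat_lit 4883598593) (nat_lit 231) (nat_lit 5) (nat_lit 247) (nat_lit 5) (nat_lit 232) (nat_lit 5) (nat_lit 364) (nat_lit 347) (nat_lit 189))) (XT.nd (nat_lit 78) (nat_lit 0) (nat_lit 0) (XT.lf (nat_lit 0) (nat_lit 5183413219) (nat_lit 1216) (nat_lit 7468632853) (nat_lit 1292) (nat_lit 9087990311) (nat_lit 215) (nat_lit 5) (nat_lit 231) (nat_lit 5) (nat_lit 232) (nat_lit 5) (nat_lit 365) (nat_lit 347) (nat_lit 188)) (XT.lf (nat_lit 0) (nat_lit 14735698344) (nat_lit 1292) (nat_lit 5492546797) (nat_lit 76) (nat_lit 1867220939) (nat_lit 215) (nat_lit 5) (nat_lit 232) (nat_lit 5) (nat_lit 216) (nat_lit 5) (nat_lit 366) (nat_lit 347) (nat_lit 187))))))) (XT.nd (nat_lit 1014) (nat_lit 2964) (nat_lit 0) (XT.nd (nat_lit 468) (nat_lit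 2052) (nat_lit 0) (XT.nd (nat_lit 234) (nat_lit 684) (nat_lit 0) (XT.nd (nat_lit 78) (nat_lit 532) (nat_lit 0) (XT.lf (nat_lit 0) (nat_lit 5940218522) (nat_lit 608) (nat_lit 11067001376) (nat_lit 684) (nat_lit 5450581444) (nat_lit 207) (nat_lit 5) (nat_lit 215) (nat_lit 5) (nat_lit 216) (nat_lit 5) (nat_lit 367) (nat_lit 347) (nat_lit 186)) (XT.nd (nat_lit 78) (nat_lit 532) (nat_lit 0) (XT.lf (nat_lit 0) (nat_lit 17823408083) (nat_lit 608) (nat_lit 1573370974) (nat_lit 684) (nat_lit 3432734210) (nat_lit 207) (nat_lit 5) (nat_lit 215) (nat_lit 5) (nat_lit 216) (nat_lit 5) (nat_lit 368) (nat_lit 347) (nat_lit 185)) (XT.lf (nat_lit 0) (nat_lit 6901344719) (nat_lit 532) (nat_lit 15096486586) (nat_lit 608) (nat_lit 1210354323) (nat_lit 200) (nat_lit 5) (nat_lit 207) (nat_lit 5) (nat_lit 208) (nat_lit 5) (nat_lit 369) (nat_lit 347) (nat_lit 184)))) (XT.nd (nat_lit 78) (nat_lit 608) (nat_lit 0) (XT.lf (nat_lit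 0) (nat_lit 1118924895) (nat_lit 608) (nat_lit 4359739720) (nat_lit 76) (nat_lit 18117407233) (nat_lit 199) (nat_lit 5) (nat_lit 207) (nat_lit 5) (nat_lit 200) (nat_lit 5) (nat_lit 370) (nat_lit 347) (nat_lit 183)) (XT.nd (nat_lit 78) (nat_lit 0) (nat_lit 0) (XT.lf (nat_lit 0) (nat_lit 3609742006) (nat_lit 684) (nat_lit 15950002088) (nat_lit 76) (nat_lit 4432014447) (nat_lit 191) (nat_lit 5) (nat_lit 200) (nat_lit 5) (nat_lit 192) (nat_lit 5) (nat_lit 371) (nat_lit 347) (nat_lit 182)) (XT.lf (nat_lit 0) (nat_lit 6268895068) (nat_lit 684) (nat_lit 3553190529) (nat_lit 76) (nat_lit 14574424795) (nat_lit 191) (nat_lit 5) (nat_lit 200) (nat_lit 5) (nat_lit 192) (nat_lit 5) (nat_lit 372) (nat_lit 347) (nat_lit 181))))) (XT.nd (nat_lit 234) (nat_lit 988) (nat_lit 0) (XT.nd (nat_lit 78) (nat_lit 532) (nat_lit 0) (XT.lf (nat_lit 0) (nat_lit 9096066328) (nat_lit 608) (nat_lit 15419936812) (nat_lit 76) (nat_lit 294757170)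 (nat_lit 184) (nat_lit 5) (nat_lit 192) (nat_lit 5) (nat_lit 185) (nat_lit 5) (nat_lit 373) (nat_lit 347) (nat_lit 180)) (XT.nd (nat_lit 78) (nat_lit 532) (nat_lit 0) (XT.lf (nat_lit 0) (nat_lit 12136686328) (nat_lit 608) (nat_lit 2543099930) (nat_lit 76) (nat_lit 10553795194) (nat_lit 184) (nat_lit 5) (nat_lit 192) (nat_lit 5) (nat_lit 185) (nat_lit 5) (nat_lit 374) (nat_lit 347) (nat_lit 179)) (XT.lf (nat_lit 0) (nat_lit 10928312346) (nat_lit 532) (nat_lit 4440553198) (nat_lit 608) (nat_lit 10297214121) (nat_lit 177) (nat_lit 5) (nat_lit 184) (nat_lit 5) (nat_lit 185) (nat_lit 5) (nat_lit 375) (nat_lit 347) (nat_lit 178)))) (XT.nd (nat_lit 156) (nat_lit 532) (nat_lit 0) (XT.nd (nat_lit 78) (nat_lit 456) (nat_lit 0) (XT.lf (nat_lit 0) (nat_lit 18778015692) (nat_lit 608) (nat_lit 1318801635) (nat_lit 76) (nat_lit 6012337910) (nat_lit 177) (nat_lit 5) (nat_lit 185) (nat_lit 5) (nat_lit 178) (nat_lit 5) (nat_lit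 376) (nat_lit 347) (nat_lit 177)) (XT.lf (nat_lit 0) (nat_lit 12701700972) (nat_lit 456) (nat_lit 9749314134) (nat_lit 532) (nat_lit 4109663229) (nat_lit 171) (nat_lit 5) (nat_lit 177) (nat_lit 5) (nat_lit 178) (nat_lit 5) (nat_lit 377) (nat_lit 347) (nat_lit 176))) (XT.nd (nat_lit 78) (nat_lit 76) (nat_lit 0) (XT.lf (nat_lit 0) (nat_lit 133235199) (nat_lit 456) (nat_lit 26120025069) (nat_lit 532) (nat_lit 771917616) (nat_lit 165) (nat_lit 5) (nat_lit 171) (nat_lit 5) (nat_lit 172) (nat_lit 5) (nat_lit 378) (nat_lit 347) (nat_lit 175)) (XT.lf (nat_lit 0) (nat_lit 2847427180) (nat_lit 532) (nat_lit 12798688848) (nat_lit 76) (nat_lit 11849725198) (nat_lit 164) (nat_lit 5) (nat_lit 171) (nat_lit 5) (nat_lit 165) (nat_lit 5) (nat_lit 379) (nat_lit 347) (nat_lit 174)))))) (XT.nd (nat_lit 546) (nat_lit 1140) (nat_lit 0) (XT.nd (nat_lit 234) (nat_lit 912) (nat_lit 0) (XT.nd (nat_lit 78) (nat_lit 456) (nat_lit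 0) (XT.lf (nat_lit 0) (nat_lit 1738751947) (nat_lit 456) (nat_lit 4833554215) (nat_lit 532) (nat_lit 21407717190) (nat_lit 158) (nat_lit 5) (nat_lit 164) (nat_lit 5) (nat_lit 165) (nat_lit 5) (nat_lit 380) (nat_lit 347) (nat_lit 173)) (XT.nd (nat_lit 78) (nat_lit 456) (nat_lit 0) (XT.lf (nat_lit 0) (nat_lit 10595869951) (nat_lit 532) (nat_lit 11567018631) (nat_lit 76) (nat_lit 6310236366) (nat_lit 158) (nat_lit 5) (nat_lit 165) (nat_lit 5) (nat_lit 159) (nat_lit 5) (nat_lit 381) (nat_lit 347) (nat_lit 172)) (XT.lf (nat_lit 0) (nat_lit 3564332604) (nat_lit 456) (nat_lit 11253874331) (nat_lit 532) (nat_lit 14160472765) (nat_lit 152) (nat_lit 5) (nat_lit 158) (nat_lit 5) (nat_lit 159) (nat_lit 5) (nat_lit 382) (nat_lit 347) (nat_lit 171)))) (XT.nd (nat_lit 156) (nat_lit 532) (nat_lit 0) (XT.nd (nat_lit 78) (nat_lit 380) (nat_lit 0) (XT.lf (nat_lit 0) (nat_lit 19281016864) (nat_lit 532) (nat_lit 10115039068)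 (nat_lit 76) (nat_lit 99933112) (nat_lit 152) (nat_lit 5) (nat_lit 159) (nat_lit 5) (nat_lit 153) (nat_lit 5) (nat_lit 383) (nat_lit 347) (nat_lit 170)) (XT.lf (nat_lit 0) (nat_lit 5637074174) (nat_lit 380) (nat_lit 18402375831) (nat_lit 456) (nat_lit 5984517473) (nat_lit 147) (nat_lit 5) (nat_lit 152) (nat_lit 5) (nat_lit 153) (nat_lit 5) (nat_lit 384) (nat_lit 347) (nat_lit 169))) (XT.nd (nat_lit 78) (nat_lit 532) (nat_lit 0) (XT.lf (nat_lit 0) (nat_lit 22064396610) (nat_lit 380) (nat_lit 6974576592) (nat_lit 456) (nat_lit 1525863869) (nat_lit 147) (nat_lit 5) (nat_lit 152) (nat_lit 5) (nat_lit 153) (nat_lit 5) (nat_lit 385) (nat_lit 347) (nat_lit 168)) (XT.lf (nat_lit 0) (nat_lit 3126872860) (nat_lit 532) (nat_lit 23181716425) (nat_lit 76) (nat_lit 4808856062) (nat_lit 140) (nat_lit 5) (nat_lit 147) (nat_lit 5) (nat_lit 141) (nat_lit 5) (nat_lit 386) (nat_lit 347) (nat_lit 167))))) (XT.nd (nat_lit 234)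 (nat_lit 760) (nat_lit 0) (XT.nd (nat_lit 78) (nat_lit 380) (nat_lit 0) (XT.lf (nat_lit 0) (nat_lit 8040589248) (nat_lit 532) (nat_lit 6734534390) (nat_lit 76) (nat_lit 16906494783) (nat_lit 140) (nat_lit 5) (nat_lit 147) (nat_lit 5) (nat_lit 141) (nat_lit 5) (nat_lit 387) (nat_lit 347) (nat_lit 166)) (XT.nd (nat_lit 78) (nat_lit 0) (nat_lit 0) (XT.lf (nat_lit 0) (nat_lit 10404530760) (nat_lit 380) (nat_lit 2793631214) (nat_lit 456) (nat_lit 19061663074) (nat_lit 135) (nat_lit 5) (nat_lit 140) (nat_lit 5) (nat_lit 141) (nat_lit 5) (nat_lit 388) (nat_lit 347) (nat_lit 165)) (XT.lf (nat_lit 0) (nat_lit 18667396335) (nat_lit 456) (nat_lit 4754581087) (nat_lit 76) (nat_lit 9428694072) (nat_lit 135) (nat_lit 5) (nat_lit 141) (nat_lit 5) (nat_lit 136) (nat_lit 5) (nat_lit 389) (nat_lit 347) (nat_lit 164)))) (XT.nd (nat_lit 156) (nat_lit 380) (nat_lit 0) (XT.nd (nat_lit 78) (nat_lit 0) (nat_lit 0) (XT.lf (nat_lit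 0) (nat_lit 13082296192) (nat_lit 380) (nat_lit 11368409772) (nat_lit 456) (nat_lit 9004039030) (nat_lit 130) (nat_lit 5) (nat_lit 135) (nat_lit 5) (nat_lit 136) (nat_lit 5) (nat_lit 390) (nat_lit 347) (nat_lit 163)) (XT.lf (nat_lit 0) (nat_lit 30462694341) (nat_lit 456) (nat_lit 2538822205) (nat_lit 76) (nat_lit 1073770328) (nat_lit 130) (nat_lit 5) (nat_lit 136) (nat_lit 5) (nat_lit 131) (nat_lit 5) (nat_lit 391) (nat_lit 347) (nat_lit 162))) (XT.nd (nat_lit 78) (nat_lit 0) (nat_lit 0) (XT.lf (nat_lit 0) (nat_lit 2168669396) (nat_lit 380) (nat_lit 18702233100) (nat_lit 76) (nat_lit 13835006158) (nat_lit 125) (nat_lit 5) (nat_lit 130) (nat_lit 5) (nat_lit 126) (nat_lit 5) (nat_lit 392) (nat_lit 347) (nat_lit 161)) (XT.lf (nat_lit 0) (nat_lit 8073398910) (nat_lit 380) (nat_lit 240629975) (nat_lit 76) (nat_lit 27039669403) (nat_lit 125) (nat_lit 5) (nat_lit 130) (nat_lit 5) (nat_lit 126) (nat_lit 5) (nat_lit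 393) (nat_lit 347) (nat_lit 160))))))))
noncomputable def xc209 : XT := (XT.nd (nat_lit 2028) (nat_lit 1216) (nat_lit 0) (XT.nd (nat_lit 1014) (nat_lit 1824) (nat_lit 0) (XT.nd (nat_lit 468) (nat_lit 912) (nat_lit 0) (XT.nd (nat_lit 234) (nat_lit 684) (nat_lit 0) (XT.nd (nat_lit 78) (nat_lit 304) (nat_lit 0) (XT.lf (nat_lit 0) (nat_lit 14382355205) (nat_lit 456) (nat_lit 16917613256) (nat_lit 76) (nat_lit 4714141990) (nat_lit 120) (nat_lit 5) (nat_lit 126) (nat_lit 5) (nat_lit 121) (nat_lit 5) (nat_lit 394) (nat_lit 347) (nat_lit 159)) (XT.nd (nat_lit 78) (nat_lit 0) (nat_lit 0) (XT.lf (nat_lit 0) (nat_lit 2282270637) (nat_lit 304) (nat_lit 18701902333) (nat_lit 380) (nat_lit 15707055572) (nat_lit 116) (nat_lit 5) (nat_lit 120) (nat_lit 5) (nat_lit 121) (nat_lit 5) (nat_lit 395) (nat_lit 347) (nat_lit 158)) (XT.lf (nat_lit 0) (nat_lit 22400655721) (nat_lit 304) (nat_lit 5551156948) (nat_lit 380) (nat_lit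 9431815790) (nat_lit 116) (nat_lit 5) (nat_lit 120) (nat_lit 5) (nat_lit 121) (nat_lit 5) (nat_lit 396) (nat_lit 347) (nat_lit 157)))) (XT.nd (nat_lit 78) (nat_lit 380) (nat_lit 0) (XT.lf (nat_lit 0) (nat_lit 5043112933) (nat_lit 304) (nat_lit 30207701005) (nat_lit 380) (nat_lit 2842317733) (nat_lit 112) (nat_lit 5) (nat_lit 116) (nat_lit 5) (nat_lit 117) (nat_lit 5) (nat_lit 397) (nat_lit 347) (nat_lit 156)) (XT.nd (nat_lit 78) (nat_lit 304) (nat_lit 0) (XT.lf (nat_lit 0) (nat_lit 4072672277) (nat_lit 380) (nat_lit 12940906830) (nat_lit 76) (nat_lit 21803060888) (nat_lit 111) (nat_lit 5) (nat_lit 116) (nat_lit 5) (nat_lit 112) (nat_lit 5) (nat_lit 398) (nat_lit 347) (nat_lit 155)) (XT.lf (nat_lit 0) (nat_lit 7893223229) (nat_lit 304) (nat_lit 3317749009) (nat_lit 380) (nat_lit 28347848596) (nat_lit 107) (nat_lit 5) (nat_lit 111) (nat_lit 5) (nat_lit 112) (nat_lit 5) (nat_lit 399) (nat_lit 347) (nat_lit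 154))))) (XT.nd (nat_lit 234) (nat_lit 608) (nat_lit 0) (XT.nd (nat_lit 78) (nat_lit 304) (nat_lit 0) (XT.lf (nat_lit 0) (nat_lit 18796249005) (nat_lit 380) (nat_lit 10810869950) (nat_lit 76) (nat_lit 10709164439) (nat_lit 107) (nat_lit 5) (nat_lit 112) (nat_lit 5) (nat_lit 108) (nat_lit 5) (nat_lit 400) (nat_lit 347) (nat_lit 153)) (XT.nd (nat_lit 78) (nat_lit 0) (nat_lit 0) (XT.lf (nat_lit 0) (nat_lit 10844209252) (nat_lit 304) (nat_lit 15899194252) (nat_lit 380) (nat_lit 14349037837) (nat_lit 103) (nat_lit 5) (nat_lit 107) (nat_lit 5) (nat_lit 108) (nat_lit 5) (nat_lit 401) (nat_lit 347) (nat_lit 152)) (XT.lf (nat_lit 0) (nat_lit 33366541915) (nat_lit 304) (nat_lit 1668870713) (nat_lit 380) (nat_lit 6853279261) (nat_lit 103) (nat_lit 5) (nat_lit 107) (nat_lit 5) (nat_lit 108) (nat_lit 5) (nat_lit 402) (nat_lit 347) (nat_lit 151)))) (XT.nd (nat_lit 156) (nat_lit 304) (nat_lit 0) (XT.nd (nat_lit 78) (nat_lit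 0) (nat_lit 0) (XT.lf (nat_lit 0) (nat_lit 1109736599) (nat_lit 304) (nat_lit 28711915823) (nat_lit 76) (nat_lit 12879149116) (nat_lit 99) (nat_lit 5) (nat_lit 103) (nat_lit 5) (nat_lit 100) (nat_lit 5) (nat_lit 403) (nat_lit 347) (nat_lit 150)) (XT.lf (nat_lit 0) (nat_lit 9274683092) (nat_lit 304) (nat_lit 6273952025) (nat_lit 76) (nat_lit 27983581176) (nat_lit 99) (nat_lit 5) (nat_lit 103) (nat_lit 5) (nat_lit 100) (nat_lit 5) (nat_lit 404) (nat_lit 347) (nat_lit 149))) (XT.nd (nat_lit 78) (nat_lit 0) (nat_lit 0) (XT.lf (nat_lit 0) (nat_lit 17168304313) (nat_lit 304) (nat_lit 678734800) (nat_lit 380) (nat_lit 26536661486) (nat_lit 95) (nat_lit 5) (nat_lit 99) (nat_lit 5) (nat_lit 100) (nat_lit 5) (nat_lit 405) (nat_lit 347) (nat_lit 148)) (XT.lf (nat_lit 0) (nat_lit 26878704636) (nat_lit 380) (nat_lit 3961608648) (nat_lit 76) (nat_lit 14414352904) (nat_lit 95) (nat_lit 5) (nat_lit 100) (nat_lit 5) (nat_lit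 96) (nat_lit 5) (nat_lit 406) (nat_lit 347) (nat_lit 147)))))) (XT.nd (nat_lit 468) (nat_lit 760) (nat_lit 0) (XT.nd (nat_lit 234) (nat_lit 456) (nat_lit 0) (XT.nd (nat_lit 78) (nat_lit 380) (nat_lit 0) (XT.lf (nat_lit 0) (nat_lit 20376924457) (nat_lit 228) (nat_lit 16004520022) (nat_lit 304) (nat_lit 9764313424) (nat_lit 92) (nat_lit 5) (nat_lit 95) (nat_lit 5) (nat_lit 96) (nat_lit 5) (nat_lit 407) (nat_lit 347) (nat_lit 146)) (XT.nd (nat_lit 78) (nat_lit 380) (nat_lit 0) (XT.lf (nat_lit 0) (nat_lit 45523084455) (nat_lit 228) (nat_lit 683751335) (nat_lit 304) (nat_lit 855620365) (nat_lit 92) (nat_lit 5) (nat_lit 95) (nat_lit 5) (nat_lit 96) (nat_lit 5) (nat_lit 408) (nat_lit 347) (nat_lit 145)) (XT.lf (nat_lit 0) (nat_lit 8532505864) (nat_lit 380) (nat_lit 24347933406) (nat_lit 76) (nat_lit 15112581533) (nat_lit 87) (nat_lit 5) (nat_lit 92) (nat_lit 5) (nat_lit 88) (nat_lit 5) (nat_lit 409) (nat_lit 347)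 (nat_lit 144)))) (XT.nd (nat_lit 78) (nat_lit 228) (nat_lit 0) (XT.lf (nat_lit 0) (nat_lit 659370672) (nat_lit 228) (nat_lit 17552148392) (nat_lit 304) (nat_lit 30738936762) (nat_lit 84) (nat_lit 5) (nat_lit 87) (nat_lit 5) (nat_lit 88) (nat_lit 5) (nat_lit 410) (nat_lit 347) (nat_lit 143)) (XT.nd (nat_lit 78) (nat_lit 228) (nat_lit 0) (XT.lf (nat_lit 0) (nat_lit 26912338278) (nat_lit 228) (nat_lit 1512098143) (nat_lit 304) (nat_lit 21504872236) (nat_lit 84) (nat_lit 5) (nat_lit 87) (nat_lit 5) (nat_lit 88) (nat_lit 5) (nat_lit 411) (nat_lit 347) (nat_lit 142)) (XT.lf (nat_lit 0) (nat_lit 2924545196) (nat_lit 228) (nat_lit 36189308669) (nat_lit 304) (nat_lit 11818570573) (nat_lit 81) (nat_lit 5) (nat_lit 84) (nat_lit 5) (nat_lit 85) (nat_lit 5) (nat_lit 412) (nat_lit 347) (nat_lit 141))))) (XT.nd (nat_lit 234) (nat_lit 456) (nat_lit 0) (XT.nd (nat_lit 78) (nat_lit 304) (nat_lit 0) (XT.lf (nat_lit 0) (nat_lit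 30097283882) (nat_lit 228) (nat_lit 20271675522) (nat_lit 304) (nat_lit 1589324846) (nat_lit 81) (nat_lit 5) (nat_lit 84) (nat_lit 5) (nat_lit 85) (nat_lit 5) (nat_lit 413) (nat_lit 347) (nat_lit 140)) (XT.nd (nat_lit 78) (nat_lit 0) (nat_lit 0) (XT.lf (nat_lit 0) (nat_lit 5079891005) (nat_lit 228) (nat_lit 3738951941) (nat_lit 304) (nat_lit 44192098662) (nat_lit 77) (nat_lit 5) (nat_lit 80) (nat_lit 5) (nat_lit 81) (nat_lit 5) (nat_lit 414) (nat_lit 347) (nat_lit 139)) (XT.lf (nat_lit 0) (nat_lit 19855816029) (nat_lit 304) (nat_lit 20960626122) (nat_lit 76) (nat_lit 13267809995) (nat_lit 77) (nat_lit 5) (nat_lit 81) (nat_lit 5) (nat_lit 78) (nat_lit 5) (nat_lit 415) (nat_lit 347) (nat_lit 138)))) (XT.nd (nat_lit 156) (nat_lit 228) (nat_lit 0) (XT.nd (nat_lit 78) (nat_lit 0) (nat_lit 0) (XT.lf (nat_lit 0) (nat_lit 6913361965) (nat_lit 228) (nat_lit 24411890701) (nat_lit 304) (nat_lit 23861469348) (nat_lit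 74) (nat_lit 5) (nat_lit 77) (nat_lit 5) (nat_lit 78) (nat_lit 5) (nat_lit 416) (nat_lit 347) (nat_lit 137)) (XT.lf (nat_lit 0) (nat_lit 36049841258) (nat_lit 228) (nat_lit 7298501011) (nat_lit 304) (nat_lit 12967637236) (nat_lit 74) (nat_lit 5) (nat_lit 77) (nat_lit 5) (nat_lit 78) (nat_lit 5) (nat_lit 417) (nat_lit 347) (nat_lit 136))) (XT.nd (nat_lit 78) (nat_lit 76) (nat_lit 0) (XT.lf (nat_lit 0) (nat_lit 8647409495) (nat_lit 152) (nat_lit 47265078434) (nat_lit 228) (nat_lit 1561216495) (nat_lit 72) (nat_lit 5) (nat_lit 74) (nat_lit 5) (nat_lit 75) (nat_lit 5) (nat_lit 418) (nat_lit 347) (nat_lit 135)) (XT.lf (nat_lit 0) (nat_lit 10265505333) (nat_lit 228) (nat_lit 19991797310) (nat_lit 76) (nat_lit 28397614159) (nat_lit 71) (nat_lit 5) (nat_lit 74) (nat_lit 5) (nat_lit 72) (nat_lit 5) (nat_lit 419) (nat_lit 347) (nat_lit 134))))))) (XT.nd (nat_lit 41340) (nat_lit 0) (nat_lit 13072) (XT.nd (nat_lit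 468) (nat_lit 532) (nat_lit 0) (XT.nd (nat_lit 234) (nat_lit 304) (nat_lit 0) (XT.nd (nat_lit 78) (nat_lit 152) (nat_lit 0) (XT.lf (nat_lit 0) (nat_lit 9881846709) (nat_lit 228) (nat_lit 12626817253) (nat_lit 304) (nat_lit 37359647993) (nat_lit 68) (nat_lit 5) (nat_lit 71) (nat_lit 5) (nat_lit 72) (nat_lit 5) (nat_lit 420) (nat_lit 347) (nat_lit 133)) (XT.nd (nat_lit 78) (nat_lit 152) (nat_lit 0) (XT.lf (nat_lit 0) (nat_lit 35374214579) (nat_lit 304) (nat_lit 20108997811) (nat_lit 76) (nat_lit 5627244193) (nat_lit 68) (nat_lit 5) (nat_lit 72) (nat_lit 5) (nat_lit 69) (nat_lit 5) (nat_lit 421) (nat_lit 347) (nat_lit 132)) (XT.lf (nat_lit 0) (nat_lit 10746293855) (nat_lit 152) (nat_lit 38105850865) (nat_lit 228) (nat_lit 13530928963) (nat_lit 66) (nat_lit 5) (nat_lit 68) (nat_lit 5) (nat_lit 69) (nat_lit 5) (nat_lit 422) (nat_lit 347) (nat_lit 131)))) (XT.nd (nat_lit 78) (nat_lit 304) (nat_lit 0) (XT.lf (nat_lit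 0) (nat_lit 42936309497) (nat_lit 152) (nat_lit 19999284989) (nat_lit 228) (nat_lit 752239866) (nat_lit 66) (nat_lit 5) (nat_lit 68) (nat_lit 5) (nat_lit 69) (nat_lit 5) (nat_lit 423) (nat_lit 347) (nat_lit 130)) (XT.nd (nat_lit 78) (nat_lit 0) (nat_lit 0) (XT.lf (nat_lit 0) (nat_lit 11155587831) (nat_lit 228) (nat_lit 1117452786) (nat_lit 304) (nat_lit 52751957258) (nat_lit 62) (nat_lit 5) (nat_lit 65) (nat_lit 5) (nat_lit 66) (nat_lit 5) (nat_lit 424) (nat_lit 347) (nat_lit 129)) (XT.lf (nat_lit 0) (nat_lit 26059960629) (nat_lit 304) (nat_lit 22139527542) (nat_lit 76) (nat_lit 18190985148) (nat_lit 62) (nat_lit 5) (nat_lit 66) (nat_lit 5) (nat_lit 63) (nat_lit 5) (nat_lit 425) (nat_lit 347) (nat_lit 128))))) (XT.nd (nat_lit 234) (nat_lit 152) (nat_lit 0) (XT.nd (nat_lit 78) (nat_lit 228) (nat_lit 0) (XT.lf (nat_lit 0) (nat_lit 10737701616) (nat_lit 152) (nat_lit 29635289942) (nat_lit 228) (nat_lit 27420546818)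 (nat_lit 60) (nat_lit 5) (nat_lit 62) (nat_lit 5) (nat_lit 63) (nat_lit 5) (nat_lit 426) (nat_lit 347) (nat_lit 127)) (XT.nd (nat_lit 78) (nat_lit 228) (nat_lit 0) (XT.lf (nat_lit 0) (nat_lit 45052098673) (nat_lit 152) (nat_lit 10285125698) (nat_lit 228) (nat_lit 13894817123) (nat_lit 60) (nat_lit 5) (nat_lit 62) (nat_lit 5) (nat_lit 63) (nat_lit 5) (nat_lit 427) (nat_lit 347) (nat_lit 126)) (XT.lf (nat_lit 0) (nat_lit 222789354) (nat_lit 228) (nat_lit 60932974674) (nat_lit 76) (nat_lit 9552320889) (nat_lit 57) (nat_lit 5) (nat_lit 60) (nat_lit 5) (nat_lit 58) (nat_lit 5) (nat_lit 428) (nat_lit 347) (nat_lit 125)))) (XT.nd (nat_lit 156) (nat_lit 0) (nat_lit 0) (XT.nd (nat_lit 78) (nat_lit 152) (nat_lit 0) (XT.lf (nat_lit 0) (nat_lit 14831361968) (nat_lit 228) (nat_lit 27221373632) (nat_lit 76) (nat_lit 30161145969) (nat_lit 57) (nat_lit 5) (nat_lit 60) (nat_lit 5) (nat_lit 58) (nat_lit 5) (nat_lit 429)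 (nat_lit 347) (nat_lit 124)) (XT.lf (nat_lit 0) (nat_lit 7647954171) (nat_lit 152) (nat_lit 22302093768) (nat_lit 228) (nat_lit 43812648887) (nat_lit 55) (nat_lit 5) (nat_lit 57) (nat_lit 5) (nat_lit 58) (nat_lit 5) (nat_lit 430) (nat_lit 347) (nat_lit 123))) (XT.nd (nat_lit 40404) (nat_lit 0) (nat_lit 14060) (XT.lf (nat_lit 0) (nat_lit 44118540923) (nat_lit 152) (nat_lit 1676996571) (nat_lit 228) (nat_lit 29554242133) (nat_lit 55) (nat_lit 5) (nat_lit 57) (nat_lit 5) (nat_lit 58) (nat_lit 5) (nat_lit 431) (nat_lit 347) (nat_lit 122)) (XT.lf (nat_lit 0) (nat_lit 3090462073) (nat_lit 0) (nat_lit 3090462073) (nat_lit 1140) (nat_lit 2318059510) (nat_lit 240) (nat_lit 5) (nat_lit 240) (nat_lit 3) (nat_lit 255) (nat_lit 3) (nat_lit 348) (nat_lit 348) (nat_lit 204)))))) (XT.nd (nat_lit 546) (nat_lit 988) (nat_lit 0) (XT.nd (nat_lit 234) (nat_lit 0) (nat_lit 76) (XT.nd (nat_lit 78) (nat_lit 0) (nat_lit 0) (XT.lf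 (nat_lit 0) (nat_lit 12787077717) (nat_lit 1140) (nat_lit 2783485584) (nat_lit 1216) (nat_lit 1675032718) (nat_lit 240) (nat_lit 5) (nat_lit 255) (nat_lit 3) (nat_lit 256) (nat_lit 5) (nat_lit 349) (nat_lit 348) (nat_lit 203)) (XT.nd (nat_lit 78) (nat_lit 0) (nat_lit 76) (XT.lf (nat_lit 76) (nat_lit 5533185732) (nat_lit 0) (nat_lit 7797587936) (nat_lit 1216) (nat_lit 4166714353) (nat_lit 241) (nat_lit 5) (nat_lit 240) (nat_lit 5) (nat_lit 256) (nat_lit 5) (nat_lit 350) (nat_lit 348) (nat_lit 202)) (XT.lf (nat_lit 0) (nat_lit 13912740749) (nat_lit 1140) (nat_lit 3606879801) (nat_lit 1216) (nat_lit 236662988) (nat_lit 241) (nat_lit 5) (nat_lit 256) (nat_lit 5) (nat_lit 257) (nat_lit 5) (nat_lit 351) (nat_lit 348) (nat_lit 201)))) (XT.nd (nat_lit 156) (nat_lit 0) (nat_lit 76) (XT.nd (nat_lit 78) (nat_lit 0) (nat_lit 0) (XT.lf (nat_lit 76) (nat_lit 5017189324) (nat_lit 0) (nat_lit 9612224448) (nat_lit 1216)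 (nat_lit 3389917138) (nat_lit 242) (nat_lit 5) (nat_lit 241) (nat_lit 5) (nat_lit 257) (nat_lit 5) (nat_lit 352) (nat_lit 348) (nat_lit 200)) (XT.lf (nat_lit 76) (nat_lit 13969189213) (nat_lit 0) (nat_lit 1426827933) (nat_lit 1216) (nat_lit 2893404895) (nat_lit 242) (nat_lit 5) (nat_lit 241) (nat_lit 5) (nat_lit 257) (nat_lit 5) (nat_lit 353) (nat_lit 348) (nat_lit 199))) (XT.nd (nat_lit 78) (nat_lit 0) (nat_lit 0) (XT.lf (nat_lit 76) (nat_lit 4640498638) (nat_lit 0) (nat_lit 11649326267) (nat_lit 1216) (nat_lit 2274669900) (nat_lit 243) (nat_lit 5) (nat_lit 242) (nat_lit 5) (nat_lit 258) (nat_lit 5) (nat_lit 354) (nat_lit 348) (nat_lit 198)) (XT.lf (nat_lit 76) (nat_lit 13939392657) (nat_lit 0) (nat_lit 3321118480) (nat_lit 1216) (nat_lit 1585811630) (nat_lit 243) (nat_lit 5) (nat_lit 242) (nat_lit 5) (nat_lit 258) (nat_lit 5) (nat_lit 355) (nat_lit 348) (nat_lit 197))))) (XT.nd (nat_lit 234) (nat_lit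 0) (nat_lit 76) (XT.nd (nat_lit 78) (nat_lit 1216) (nat_lit 0) (XT.lf (nat_lit 76) (nat_lit 4411272993) (nat_lit 0) (nat_lit 13934677010) (nat_lit 1216) (nat_lit 788091399) (nat_lit 244) (nat_lit 5) (nat_lit 243) (nat_lit 5) (nat_lit 259) (nat_lit 5) (nat_lit 356) (nat_lit 348) (nat_lit 196)) (XT.nd (nat_lit 78) (nat_lit 0) (nat_lit 76) (XT.lf (nat_lit 0) (nat_lit 108614860) (nat_lit 1216) (nat_lit 5358012919) (nat_lit 1292) (nat_lit 13961487380) (nat_lit 227) (nat_lit 5) (nat_lit 243) (nat_lit 5) (nat_lit 244) (nat_lit 5) (nat_lit 357) (nat_lit 348) (nat_lit 195)) (XT.lf (nat_lit 0) (nat_lit 1083096563) (nat_lit 1216) (nat_lit 15401452470) (nat_lit 1292) (nat_lit 3244230977) (nat_lit 228) (nat_lit 5) (nat_lit 244) (nat_lit 5) (nat_lit 245) (nat_lit 5) (nat_lit 358) (nat_lit 348) (nat_lit 194)))) (XT.nd (nat_lit 156) (nat_lit 0) (nat_lit 76) (XT.nd (nat_lit 78) (nat_lit 0) (nat_lit 76) (XT.lf (nat_lit 0)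 (nat_lit 2188751953) (nat_lit 1216) (nat_lit 5683496854) (nat_lit 1292) (nat_lit 12163162083) (nat_lit 228) (nat_lit 5) (nat_lit 244) (nat_lit 5) (nat_lit 245) (nat_lit 5) (nat_lit 359) (nat_lit 348) (nat_lit 193)) (XT.lf (nat_lit 0) (nat_lit 3373345934) (nat_lit 1216) (nat_lit 15953120037) (nat_lit 1292) (nat_lit 1023405796) (nat_lit 229) (nat_lit 5) (nat_lit 245) (nat_lit 5) (nat_lit 246) (nat_lit 5) (nat_lit 360) (nat_lit 348) (nat_lit 192))) (XT.nd (nat_lit 78) (nat_lit 0) (nat_lit 0) (XT.lf (nat_lit 0) (nat_lit 4722915033) (nat_lit 1216) (nat_lit 5859717460) (nat_lit 1292) (nat_lit 10087254875) (nat_lit 229) (nat_lit 5) (nat_lit 245) (nat_lit 5) (nat_lit 246) (nat_lit 5) (nat_lit 361) (nat_lit 348) (nat_lit 191)) (XT.lf (nat_lit 76) (nat_lit 4621746597) (nat_lit 0) (nat_lit 1529373826) (nat_lit 1292) (nat_lit 14847242438) (nat_lit 230) (nat_lit 5) (nat_lit 229) (nat_lit 5) (nat_lit 246) (nat_lit 5)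 (nat_lit 362) (nat_lit 348) (nat_lit 190))))))))
noncomputable def xc210 : XT := (XT.nd (nat_lit 2028) (nat_lit 4788) (nat_lit 0) (XT.nd (nat_lit 1014) (nat_lit 3344) (nat_lit 0) (XT.nd (nat_lit 468) (nat_lit 1748) (nat_lit 0) (XT.nd (nat_lit 234) (nat_lit 1748) (nat_lit 0) (XT.nd (nat_lit 78) (nat_lit 0) (nat_lit 0) (XT.lf (nat_lit 0) (nat_lit 7750734687) (nat_lit 1216) (nat_lit 5877744626) (nat_lit 1292) (nat_lit 7704360211) (nat_lit 230) (nat_lit 5) (nat_lit 246) (nat_lit 5) (nat_lit 247) (nat_lit 5) (nat_lit 363) (nat_lit 348) (nat_lit 189)) (XT.nd (nat_lit 78) (nat_lit 0) (nat_lit 76) (XT.lf (nat_lit 76) (nat_lit 5013857823) (nat_lit 0) (nat_lit 4441866923) (nat_lit 1292) (nat_lit 12219907796) (nat_lit 231) (nat_lit 5) (nat_lit 230) (nat_lit 5) (nat_lit 247) (nat_lit 5) (nat_lit 364) (nat_lit 348) (nat_lit 188)) (XT.lf (nat_lit 0) (nat_lit 11314248714) (nat_lit 1216) (nat_lit 5728149134) (nat_lit 76)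 (nat_lit 4983243546) (nat_lit 231) (nat_lit 5) (nat_lit 247) (nat_lit 5) (nat_lit 232) (nat_lit 5) (nat_lit 365) (nat_lit 348) (nat_lit 187)))) (XT.nd (nat_lit 78) (nat_lit 608) (nat_lit 0) (XT.lf (nat_lit 0) (nat_lit 5593737522) (nat_lit 1216) (nat_lit 7726893810) (nat_lit 1292) (nat_lit 9062759555) (nat_lit 215) (nat_lit 5) (nat_lit 231) (nat_lit 5) (nat_lit 232) (nat_lit 5) (nat_lit 366) (nat_lit 348) (nat_lit 186)) (XT.nd (nat_lit 78) (nat_lit 608) (nat_lit 0) (XT.lf (nat_lit 0) (nat_lit 15458055807) (nat_lit 1292) (nat_lit 5401015177) (nat_lit 76) (nat_lit 1890679734) (nat_lit 215) (nat_lit 5) (nat_lit 232) (nat_lit 5) (nat_lit 216) (nat_lit 5) (nat_lit 367) (nat_lit 348) (nat_lit 185)) (XT.lf (nat_lit 0) (nat_lit 6372220277) (nat_lit 608) (nat_lit 11419778680) (nat_lit 684) (nat_lit 5331133776) (nat_lit 207) (nat_lit 5) (nat_lit 215) (nat_lit 5) (nat_lit 216) (nat_lit 5) (nat_lit 368) (nat_lit 348)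 (nat_lit 184))))) (XT.nd (nat_lit 234) (nat_lit 1140) (nat_lit 0) (XT.nd (nat_lit 78) (nat_lit 608) (nat_lit 0) (XT.lf (nat_lit 0) (nat_lit 18604513432) (nat_lit 608) (nat_lit 1640734494) (nat_lit 684) (nat_lit 3260992827) (nat_lit 207) (nat_lit 5) (nat_lit 215) (nat_lit 5) (nat_lit 216) (nat_lit 5) (nat_lit 369) (nat_lit 348) (nat_lit 183)) (XT.nd (nat_lit 78) (nat_lit 76) (nat_lit 0) (XT.lf (nat_lit 0) (nat_lit 7360642296) (nat_lit 532) (nat_lit 15558162085) (nat_lit 608) (nat_lit 977639413) (nat_lit 200) (nat_lit 5) (nat_lit 207) (nat_lit 5) (nat_lit 208) (nat_lit 5) (nat_lit 370) (nat_lit 348) (nat_lit 182)) (XT.lf (nat_lit 0) (nat_lit 1408585732) (nat_lit 608) (nat_lit 4240377931) (nat_lit 76) (nat_lit 18647160259) (nat_lit 199) (nat_lit 5) (nat_lit 207) (nat_lit 5) (nat_lit 200) (nat_lit 5) (nat_lit 371) (nat_lit 348) (nat_lit 181)))) (XT.nd (nat_lit 156) (nat_lit 532) (nat_lit 0) (XT.nd (nat_lit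 78) (nat_lit 0) (nat_lit 0) (XT.lf (nat_lit 0) (nat_lit 3969017539) (nat_lit 684) (nat_lit 16173095355) (nat_lit 76) (nat_lit 4561725906) (nat_lit 191) (nat_lit 5) (nat_lit 200) (nat_lit 5) (nat_lit 192) (nat_lit 5) (nat_lit 372) (nat_lit 348) (nat_lit 180)) (XT.lf (nat_lit 0) (nat_lit 6700635001) (nat_lit 684) (nat_lit 3411818482) (nat_lit 76) (nat_lit 15008503195) (nat_lit 191) (nat_lit 5) (nat_lit 200) (nat_lit 5) (nat_lit 192) (nat_lit 5) (nat_lit 373) (nat_lit 348) (nat_lit 179))) (XT.nd (nat_lit 78) (nat_lit 0) (nat_lit 0) (XT.lf (nat_lit 0) (nat_lit 9607947823) (nat_lit 608) (nat_lit 15629758786) (nat_lit 76) (nat_lit 310071734) (nat_lit 184) (nat_lit 5) (nat_lit 192) (nat_lit 5) (nat_lit 185) (nat_lit 5) (nat_lit 374) (nat_lit 348) (nat_lit 178)) (XT.lf (nat_lit 0) (nat_lit 12732825272) (nat_lit 608) (nat_lit 2373979210) (nat_lit 76) (nat_lit 10876692398) (nat_lit 184) (nat_lit 5) (nat_lit 192)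 (nat_lit 5) (nat_lit 185) (nat_lit 5) (nat_lit 375) (nat_lit 348) (nat_lit 177)))))) (XT.nd (nat_lit 468) (nat_lit 1368) (nat_lit 0) (XT.nd (nat_lit 234) (nat_lit 988) (nat_lit 0) (XT.nd (nat_lit 78) (nat_lit 456) (nat_lit 0) (XT.lf (nat_lit 0) (nat_lit 11499169417) (nat_lit 532) (nat_lit 4558377987) (nat_lit 608) (nat_lit 10371559120) (nat_lit 177) (nat_lit 5) (nat_lit 184) (nat_lit 5) (nat_lit 185) (nat_lit 5) (nat_lit 376) (nat_lit 348) (nat_lit 176)) (XT.nd (nat_lit 78) (nat_lit 456) (nat_lit 0) (XT.lf (nat_lit 0) (nat_lit 19562486114) (nat_lit 608) (nat_lit 1115826581) (nat_lit 76) (nat_lit 6207359947) (nat_lit 177) (nat_lit 5) (nat_lit 185) (nat_lit 5) (nat_lit 178) (nat_lit 5) (nat_lit 377) (nat_lit 348) (nat_lit 175)) (XT.lf (nat_lit 0) (nat_lit 13322913269) (nat_lit 456) (nat_lit 10018630140) (nat_lit 532) (nat_lit 4009325581) (nat_lit 171) (nat_lit 5) (nat_lit 177) (nat_lit 5) (nat_lit 178) (nat_lit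 5) (nat_lit 378) (nat_lit 348) (nat_lit 174)))) (XT.nd (nat_lit 78) (nat_lit 532) (nat_lit 0) (XT.lf (nat_lit 0) (nat_lit 381383221) (nat_lit 456) (nat_lit 26872715484) (nat_lit 532) (nat_lit 575321025) (nat_lit 165) (nat_lit 5) (nat_lit 171) (nat_lit 5) (nat_lit 172) (nat_lit 5) (nat_lit 379) (nat_lit 348) (nat_lit 173)) (XT.nd (nat_lit 78) (nat_lit 456) (nat_lit 0) (XT.lf (nat_lit 0) (nat_lit 3142040213) (nat_lit 532) (nat_lit 12941336848) (nat_lit 76) (nat_lit 12230954098) (nat_lit 164) (nat_lit 5) (nat_lit 171) (nat_lit 5) (nat_lit 165) (nat_lit 5) (nat_lit 380) (nat_lit 348) (nat_lit 172)) (XT.lf (nat_lit 0) (nat_lit 2029861360) (nat_lit 456) (nat_lit 4945008189) (nat_lit 532) (nat_lit 21838286272) (nat_lit 158) (nat_lit 5) (nat_lit 164) (nat_lit 5) (nat_lit 165) (nat_lit 5) (nat_lit 381) (nat_lit 348) (nat_lit 171))))) (XT.nd (nat_lit 234) (nat_lit 912) (nat_lit 0) (XT.nd (nat_lit 78) (nat_lit 456)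 (nat_lit 0) (XT.lf (nat_lit 0) (nat_lit 11113471032) (nat_lit 532) (nat_lit 11676269425) (nat_lit 76) (nat_lit 6531483184) (nat_lit 158) (nat_lit 5) (nat_lit 165) (nat_lit 5) (nat_lit 159) (nat_lit 5) (nat_lit 382) (nat_lit 348) (nat_lit 170)) (XT.nd (nat_lit 78) (nat_lit 0) (nat_lit 0) (XT.lf (nat_lit 0) (nat_lit 3906691368) (nat_lit 456) (nat_lit 11552232609) (nat_lit 532) (nat_lit 14383130692) (nat_lit 152) (nat_lit 5) (nat_lit 158) (nat_lit 5) (nat_lit 159) (nat_lit 5) (nat_lit 383) (nat_lit 348) (nat_lit 169)) (XT.lf (nat_lit 0) (nat_lit 20050270871) (nat_lit 532) (nat_lit 10184473894) (nat_lit 76) (nat_lit 140301870) (nat_lit 152) (nat_lit 5) (nat_lit 159) (nat_lit 5) (nat_lit 153) (nat_lit 5) (nat_lit 384) (nat_lit 348) (nat_lit 168)))) (XT.nd (nat_lit 156) (nat_lit 532) (nat_lit 0) (XT.nd (nat_lit 78) (nat_lit 0) (nat_lit 0) (XT.lf (nat_lit 0) (nat_lit 6037908467) (nat_lit 380) (nat_lit 18910218027)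 (nat_lit 456) (nat_lit 5970840679) (nat_lit 147) (nat_lit 5) (nat_lit 152) (nat_lit 5) (nat_lit 153) (nat_lit 5) (nat_lit 385) (nat_lit 348) (nat_lit 167)) (XT.lf (nat_lit 0) (nat_lit 22951301390) (nat_lit 380) (nat_lit 7140873036) (nat_lit 456) (nat_lit 1384055010) (nat_lit 147) (nat_lit 5) (nat_lit 152) (nat_lit 5) (nat_lit 153) (nat_lit 5) (nat_lit 386) (nat_lit 348) (nat_lit 166))) (XT.nd (nat_lit 78) (nat_lit 0) (nat_lit 0) (XT.lf (nat_lit 0) (nat_lit 3401863051) (nat_lit 532) (nat_lit 23645618637) (nat_lit 76) (nat_lit 4997964981) (nat_lit 140) (nat_lit 5) (nat_lit 147) (nat_lit 5) (nat_lit 141) (nat_lit 5) (nat_lit 387) (nat_lit 348) (nat_lit 165)) (XT.lf (nat_lit 0) (nat_lit 8457713727) (nat_lit 532) (nat_lit 6711765296) (nat_lit 76) (nat_lit 17457226750) (nat_lit 140) (nat_lit 5) (nat_lit 147) (nat_lit 5) (nat_lit 141) (nat_lit 5) (nat_lit 388) (nat_lit 348) (nat_lit 164))))))) (XT.nd (nat_lit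 1014) (nat_lit 2280) (nat_lit 0) (XT.nd (nat_lit 468) (nat_lit 1368) (nat_lit 0) (XT.nd (nat_lit 234) (nat_lit 380) (nat_lit 0) (XT.nd (nat_lit 78) (nat_lit 380) (nat_lit 0) (XT.lf (nat_lit 0) (nat_lit 10939267837) (nat_lit 380) (nat_lit 2827762077) (nat_lit 456) (nat_lit 19455320642) (nat_lit 135) (nat_lit 5) (nat_lit 140) (nat_lit 5) (nat_lit 141) (nat_lit 5) (nat_lit 389) (nat_lit 348) (nat_lit 163)) (XT.nd (nat_lit 78) (nat_lit 380) (nat_lit 0) (XT.lf (nat_lit 0) (nat_lit 19395768339) (nat_lit 456) (nat_lit 4676448752) (nat_lit 76) (nat_lit 9758844869) (nat_lit 135) (nat_lit 5) (nat_lit 141) (nat_lit 5) (nat_lit 136) (nat_lit 5) (nat_lit 390) (nat_lit 348) (nat_lit 162)) (XT.lf (nat_lit 0) (nat_lit 13693370436) (nat_lit 380) (nat_lit 11656404787) (nat_lit 456) (nat_lit 9103568808) (nat_lit 130) (nat_lit 5) (nat_lit 135) (nat_lit 5) (nat_lit 136) (nat_lit 5) (nat_lit 391) (nat_lit 348) (nat_lit 161))))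 (XT.nd (nat_lit 78) (nat_lit 380) (nat_lit 0) (XT.lf (nat_lit 0) (nat_lit 31537796627) (nat_lit 456) (nat_lit 2398347404) (nat_lit 76) (nat_lit 1156490175) (nat_lit 130) (nat_lit 5) (nat_lit 136) (nat_lit 5) (nat_lit 131) (nat_lit 5) (nat_lit 392) (nat_lit 348) (nat_lit 160)) (XT.nd (nat_lit 78) (nat_lit 0) (nat_lit 0) (XT.lf (nat_lit 0) (nat_lit 2393958437) (nat_lit 380) (nat_lit 19045525325) (nat_lit 76) (nat_lit 14302724936) (nat_lit 125) (nat_lit 5) (nat_lit 130) (nat_lit 5) (nat_lit 126) (nat_lit 5) (nat_lit 393) (nat_lit 348) (nat_lit 159)) (XT.lf (nat_lit 0) (nat_lit 8471162973) (nat_lit 380) (nat_lit 36417061) (nat_lit 76) (nat_lit 27901994042) (nat_lit 125) (nat_lit 5) (nat_lit 130) (nat_lit 5) (nat_lit 126) (nat_lit 5) (nat_lit 394) (nat_lit 348) (nat_lit 158))))) (XT.nd (nat_lit 234) (nat_lit 684) (nat_lit 0) (XT.nd (nat_lit 78) (nat_lit 304) (nat_lit 0) (XT.lf (nat_lit 0) (nat_lit 14967410846)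 (nat_lit 456) (nat_lit 17211666421) (nat_lit 76) (nat_lit 4910782640) (nat_lit 120) (nat_lit 5) (nat_lit 126) (nat_lit 5) (nat_lit 121) (nat_lit 5) (nat_lit 395) (nat_lit 348) (nat_lit 157)) (XT.nd (nat_lit 78) (nat_lit 0) (nat_lit 0) (XT.lf (nat_lit 0) (nat_lit 2562121094) (nat_lit 304) (nat_lit 19202720637) (nat_lit 380) (nat_lit 16022524983) (nat_lit 116) (nat_lit 5) (nat_lit 120) (nat_lit 5) (nat_lit 121) (nat_lit 5) (nat_lit 396) (nat_lit 348) (nat_lit 156)) (XT.lf (nat_lit 0) (nat_lit 23277900963) (nat_lit 304) (nat_lit 5659207417) (nat_lit 380) (nat_lit 9563564190) (nat_lit 116) (nat_lit 5) (nat_lit 120) (nat_lit 5) (nat_lit 121) (nat_lit 5) (nat_lit 397) (nat_lit 348) (nat_lit 155)))) (XT.nd (nat_lit 156) (nat_lit 304) (nat_lit 0) (XT.nd (nat_lit 78) (nat_lit 76) (nat_lit 0) (XT.lf (nat_lit 0) (nat_lit 5401484171) (nat_lit 304) (nat_lit 31051857868) (nat_lit 380) (nat_lit 2778172790) (nat_lit 112)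 (nat_lit 5) (nat_lit 116) (nat_lit 5) (nat_lit 117) (nat_lit 5) (nat_lit 398) (nat_lit 348) (nat_lit 154)) (XT.lf (nat_lit 0) (nat_lit 4337084349) (nat_lit 380) (nat_lit 13125199686) (nat_lit 76) (nat_lit 22514531004) (nat_lit 111) (nat_lit 5) (nat_lit 116) (nat_lit 5) (nat_lit 112) (nat_lit 5) (nat_lit 399) (nat_lit 348) (nat_lit 153))) (XT.nd (nat_lit 78) (nat_lit 0) (nat_lit 0) (XT.lf (nat_lit 0) (nat_lit 8331954918) (nat_lit 304) (nat_lit 3355376837) (nat_lit 380) (nat_lit 29053997263) (nat_lit 107) (nat_lit 5) (nat_lit 111) (nat_lit 5) (nat_lit 112) (nat_lit 5) (nat_lit 400) (nat_lit 348) (nat_lit 152)) (XT.lf (nat_lit 0) (nat_lit 19496666003) (nat_lit 380) (nat_lit 10935587923) (nat_lit 76) (nat_lit 11089368169) (nat_lit 107) (nat_lit 5) (nat_lit 112) (nat_lit 5) (nat_lit 108) (nat_lit 5) (nat_lit 401) (nat_lit 348) (nat_lit 151)))))) (XT.nd (nat_lit 546) (nat_lit 1140) (nat_lit 0) (XT.nd (nat_lit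 234) (nat_lit 532) (nat_lit 0) (XT.nd (nat_lit 78) (nat_lit 304) (nat_lit 0) (XT.lf (nat_lit 0) (nat_lit 11367186712) (nat_lit 304) (nat_lit 16312971781) (nat_lit 380) (nat_lit 14640970157) (nat_lit 103) (nat_lit 5) (nat_lit 107) (nat_lit 5) (nat_lit 108) (nat_lit 5) (nat_lit 402) (nat_lit 348) (nat_lit 150)) (XT.nd (nat_lit 78) (nat_lit 304) (nat_lit 0) (XT.lf (nat_lit 0) (nat_lit 34559432524) (nat_lit 304) (nat_lit 1657579263) (nat_lit 380) (nat_lit 6924373935) (nat_lit 103) (nat_lit 5) (nat_lit 107) (nat_lit 5) (nat_lit 108) (nat_lit 5) (nat_lit 403) (nat_lit 348) (nat_lit 149)) (XT.lf (nat_lit 0) (nat_lit 1273521978) (nat_lit 304) (nat_lit 29377271281) (nat_lit 76) (nat_lit 13327069625) (nat_lit 99) (nat_lit 5) (nat_lit 103) (nat_lit 5) (nat_lit 100) (nat_lit 5) (nat_lit 404) (nat_lit 348) (nat_lit 148)))) (XT.nd (nat_lit 156) (nat_lit 228) (nat_lit 0) (XT.nd (nat_lit 78) (nat_lit 304) (nat_lit 0) (XT.lf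 (nat_lit 0) (nat_lit 9679616090) (nat_lit 304) (nat_lit 6271877365) (nat_lit 76) (nat_lit 28882842044) (nat_lit 99) (nat_lit 5) (nat_lit 103) (nat_lit 5) (nat_lit 100) (nat_lit 5) (nat_lit 405) (nat_lit 348) (nat_lit 147)) (XT.lf (nat_lit 0) (nat_lit 17871781043) (nat_lit 304) (nat_lit 635482958) (nat_lit 380) (nat_lit 27204158053) (nat_lit 95) (nat_lit 5) (nat_lit 99) (nat_lit 5) (nat_lit 100) (nat_lit 5) (nat_lit 406) (nat_lit 348) (nat_lit 146))) (XT.nd (nat_lit 78) (nat_lit 228) (nat_lit 0) (XT.lf (nat_lit 0) (nat_lit 27806837823) (nat_lit 380) (nat_lit 3894431987) (nat_lit 76) (nat_lit 14907339366) (nat_lit 95) (nat_lit 5) (nat_lit 100) (nat_lit 5) (nat_lit 96) (nat_lit 5) (nat_lit 407) (nat_lit 348) (nat_lit 145)) (XT.lf (nat_lit 0) (nat_lit 21172433338) (nat_lit 228) (nat_lit 16420450419) (nat_lit 304) (nat_lit 9933604444) (nat_lit 92) (nat_lit 5) (nat_lit 95) (nat_lit 5) (nat_lit 96) (nat_lit 5)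 (nat_lit 408) (nat_lit 348) (nat_lit 144))))) (XT.nd (nat_lit 234) (nat_lit 532) (nat_lit 0) (XT.nd (nat_lit 78) (nat_lit 608) (nat_lit 0) (XT.lf (nat_lit 0) (nat_lit 47067613054) (nat_lit 228) (nat_lit 641928726) (nat_lit 304) (nat_lit 761251711) (nat_lit 92) (nat_lit 5) (nat_lit 95) (nat_lit 5) (nat_lit 96) (nat_lit 5) (nat_lit 409) (nat_lit 348) (nat_lit 143)) (XT.nd (nat_lit 78) (nat_lit 228) (nat_lit 0) (XT.lf (nat_lit 0) (nat_lit 8905082764) (nat_lit 380) (nat_lit 24896020736) (nat_lit 76) (nat_lit 15628170926) (nat_lit 87) (nat_lit 5) (nat_lit 92) (nat_lit 5) (nat_lit 88) (nat_lit 5) (nat_lit 410) (nat_lit 348) (nat_lit 142)) (XT.lf (nat_lit 0) (nat_lit 859714712) (nat_lit 228) (nat_lit 18013091163) (nat_lit 304) (nat_lit 31542677575) (nat_lit 84) (nat_lit 5) (nat_lit 87) (nat_lit 5) (nat_lit 88) (nat_lit 5) (nat_lit 411) (nat_lit 348) (nat_lit 141)))) (XT.nd (nat_lit 156) (nat_lit 304) (nat_lit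 0) (XT.nd (nat_lit 78) (nat_lit 228) (nat_lit 0) (XT.lf (nat_lit 0) (nat_lit 27895012232) (nat_lit 228) (nat_lit 1493750717) (nat_lit 304) (nat_lit 22035040451) (nat_lit 84) (nat_lit 5) (nat_lit 87) (nat_lit 5) (nat_lit 88) (nat_lit 5) (nat_lit 412) (nat_lit 348) (nat_lit 140)) (XT.lf (nat_lit 0) (nat_lit 3188611609) (nat_lit 228) (nat_lit 37209290592) (nat_lit 304) (nat_lit 12059140345) (nat_lit 81) (nat_lit 5) (nat_lit 84) (nat_lit 5) (nat_lit 85) (nat_lit 5) (nat_lit 413) (nat_lit 348) (nat_lit 139))) (XT.nd (nat_lit 78) (nat_lit 304) (nat_lit 0) (XT.lf (nat_lit 0) (nat_lit 31171396628) (nat_lit 228) (nat_lit 20816041965) (nat_lit 304) (nat_lit 1526337266) (nat_lit 81) (nat_lit 5) (nat_lit 84) (nat_lit 5) (nat_lit 85) (nat_lit 5) (nat_lit 414) (nat_lit 348) (nat_lit 138)) (XT.lf (nat_lit 0) (nat_lit 5403975205) (nat_lit 228) (nat_lit 3786430779) (nat_lit 304) (nat_lit 45407621319) (nat_lit 77) (nat_lit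 5) (nat_lit 80) (nat_lit 5) (nat_lit 81) (nat_lit 5) (nat_lit 415) (nat_lit 348) (nat_lit 137))))))))
noncomputable def xc211 : XT := (XT.nd (nat_lit 42510) (nat_lit 0) (nat_lit 6992) (XT.nd (nat_lit 1014) (nat_lit 380) (nat_lit 0) (XT.nd (nat_lit 468) (nat_lit 608) (nat_lit 0) (XT.nd (nat_lit 234) (nat_lit 456) (nat_lit 0) (XT.nd (nat_lit 78) (nat_lit 228) (nat_lit 0) (XT.lf (nat_lit 0) (nat_lit 20555975546) (nat_lit 304) (nat_lit 21420213659) (nat_lit 76) (nat_lit 13727424286) (nat_lit 77) (nat_lit 5) (nat_lit 81) (nat_lit 5) (nat_lit 78) (nat_lit 5) (nat_lit 416) (nat_lit 348) (nat_lit 136)) (XT.nd (nat_lit 78) (nat_lit 0) (nat_lit 0) (XT.lf (nat_lit 0) (nat_lit 7288334941) (nat_lit 228) (nat_lit 25079727894) (nat_lit 304) (nat_lit 24471138515) (nat_lit 74) (nat_lit 5) (nat_lit 77) (nat_lit 5) (nat_lit 78) (nat_lit 5) (nat_lit 417) (nat_lit 348) (nat_lit 135)) (XT.lf (nat_lit 0) (nat_lit 37294027871)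 (nat_lit 228) (nat_lit 7454815722) (nat_lit 304) (nat_lit 13253583913) (nat_lit 74) (nat_lit 5) (nat_lit 77) (nat_lit 5) (nat_lit 78) (nat_lit 5) (nat_lit 418) (nat_lit 348) (nat_lit 134)))) (XT.nd (nat_lit 78) (nat_lit 304) (nat_lit 0) (XT.lf (nat_lit 0) (nat_lit 9070333572) (nat_lit 152) (nat_lit 48618822222) (nat_lit 228) (nat_lit 1505751985) (nat_lit 72) (nat_lit 5) (nat_lit 74) (nat_lit 5) (nat_lit 75) (nat_lit 5) (nat_lit 419) (nat_lit 348) (nat_lit 133)) (XT.nd (nat_lit 78) (nat_lit 228) (nat_lit 0) (XT.lf (nat_lit 0) (nat_lit 10670853739) (nat_lit 228) (nat_lit 20430846190) (nat_lit 76) (nat_lit 29309915561) (nat_lit 71) (nat_lit 5) (nat_lit 74) (nat_lit 5) (nat_lit 72) (nat_lit 5) (nat_lit 420) (nat_lit 348) (nat_lit 132)) (XT.lf (nat_lit 0) (nat_lit 10337431610) (nat_lit 228) (nat_lit 12942568762) (nat_lit 304) (nat_lit 38381452124) (nat_lit 68) (nat_lit 5) (nat_lit 71) (nat_lit 5) (nat_lit 72)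 (nat_lit 5) (nat_lit 421) (nat_lit 348) (nat_lit 131))))) (XT.nd (nat_lit 234) (nat_lit 456) (nat_lit 0) (XT.nd (nat_lit 78) (nat_lit 152) (nat_lit 0) (XT.lf (nat_lit 0) (nat_lit 36529307614) (nat_lit 304) (nat_lit 20555537441) (nat_lit 76) (nat_lit 5856083477) (nat_lit 68) (nat_lit 5) (nat_lit 72) (nat_lit 5) (nat_lit 69) (nat_lit 5) (nat_lit 422) (nat_lit 348) (nat_lit 130)) (XT.nd (nat_lit 78) (nat_lit 0) (nat_lit 0) (XT.lf (nat_lit 0) (nat_lit 11223876403) (nat_lit 152) (nat_lit 39186457095) (nat_lit 228) (nat_lit 13841428663) (nat_lit 66) (nat_lit 5) (nat_lit 68) (nat_lit 5) (nat_lit 69) (nat_lit 5) (nat_lit 423) (nat_lit 348) (nat_lit 129)) (XT.lf (nat_lit 0) (nat_lit 44375072308) (nat_lit 152) (nat_lit 20538516650) (nat_lit 228) (nat_lit 682158354) (nat_lit 66) (nat_lit 5) (nat_lit 68) (nat_lit 5) (nat_lit 69) (nat_lit 5) (nat_lit 424) (nat_lit 348) (nat_lit 128)))) (XT.nd (nat_lit 156) (nat_lit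 152) (nat_lit 0) (XT.nd (nat_lit 78) (nat_lit 0) (nat_lit 0) (XT.lf (nat_lit 0) (nat_lit 11641265319) (nat_lit 228) (nat_lit 1089613064) (nat_lit 304) (nat_lit 54242157152) (nat_lit 62) (nat_lit 5) (nat_lit 65) (nat_lit 5) (nat_lit 66) (nat_lit 5) (nat_lit 425) (nat_lit 348) (nat_lit 127)) (XT.lf (nat_lit 0) (nat_lit 26929367613) (nat_lit 304) (nat_lit 22655041264) (nat_lit 76) (nat_lit 18795128184) (nat_lit 62) (nat_lit 5) (nat_lit 66) (nat_lit 5) (nat_lit 63) (nat_lit 5) (nat_lit 426) (nat_lit 348) (nat_lit 126))) (XT.nd (nat_lit 78) (nat_lit 0) (nat_lit 0) (XT.lf (nat_lit 0) (nat_lit 11207047199) (nat_lit 152) (nat_lit 30463605693) (nat_lit 228) (nat_lit 28154075922) (nat_lit 60) (nat_lit 5) (nat_lit 62) (nat_lit 5) (nat_lit 63) (nat_lit 5) (nat_lit 427) (nat_lit 348) (nat_lit 125)) (XT.lf (nat_lit 0) (nat_lit 46546588365) (nat_lit 152) (nat_lit 10534705734) (nat_lit 228) (nat_lit 14225169113) (nat_lit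 60) (nat_lit 5) (nat_lit 62) (nat_lit 5) (nat_lit 63) (nat_lit 5) (nat_lit 428) (nat_lit 348) (nat_lit 124)))))) (XT.nd (nat_lit 40950) (nat_lit 0) (nat_lit 13072) (XT.nd (nat_lit 40638) (nat_lit 0) (nat_lit 14060) (XT.nd (nat_lit 78) (nat_lit 152) (nat_lit 0) (XT.lf (nat_lit 0) (nat_lit 313756428) (nat_lit 228) (nat_lit 62615787989) (nat_lit 76) (nat_lit 9897234811) (nat_lit 57) (nat_lit 5) (nat_lit 60) (nat_lit 5) (nat_lit 58) (nat_lit 5) (nat_lit 429) (nat_lit 348) (nat_lit 123)) (XT.nd (nat_lit 78) (nat_lit 152) (nat_lit 0) (XT.lf (nat_lit 0) (nat_lit 15358131365) (nat_lit 228) (nat_lit 27897067341) (nat_lit 76) (nat_lit 31122625295) (nat_lit 57) (nat_lit 5) (nat_lit 60) (nat_lit 5) (nat_lit 58) (nat_lit 5) (nat_lit 430) (nat_lit 348) (nat_lit 122)) (XT.lf (nat_lit 0) (nat_lit 8016958458) (nat_lit 152) (nat_lit 22912377691) (nat_lit 228) (nat_lit 45043799376) (nat_lit 55) (nat_lit 5) (nat_lit 57) (nat_lit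 5) (nat_lit 58) (nat_lit 5) (nat_lit 431) (nat_lit 348) (nat_lit 121)))) (XT.nd (nat_lit 156) (nat_lit 0) (nat_lit 0) (XT.nd (nat_lit 78) (nat_lit 0) (nat_lit 0) (XT.lf (nat_lit 0) (nat_lit 3293792208) (nat_lit 0) (nat_lit 3293792208) (nat_lit 1140) (nat_lit 2159586429) (nat_lit 240) (nat_lit 5) (nat_lit 240) (nat_lit 3) (nat_lit 255) (nat_lit 3) (nat_lit 349) (nat_lit 349) (nat_lit 202)) (XT.lf (nat_lit 0) (nat_lit 13598203125) (nat_lit 1140) (nat_lit 2636967036) (nat_lit 1216) (nat_lit 1514686125) (nat_lit 240) (nat_lit 5) (nat_lit 255) (nat_lit 3) (nat_lit 256) (nat_lit 5) (nat_lit 350) (nat_lit 349) (nat_lit 201))) (XT.nd (nat_lit 78) (nat_lit 0) (nat_lit 76) (XT.lf (nat_lit 76) (nat_lit 5926949290) (nat_lit 0) (nat_lit 8220998272) (nat_lit 1216) (nat_lit 3861673578) (nat_lit 241) (nat_lit 5) (nat_lit 240) (nat_lit 5) (nat_lit 256) (nat_lit 5) (nat_lit 351) (nat_lit 349) (nat_lit 200)) (XT.lf (nat_lit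 0) (nat_lit 14733452351) (nat_lit 1140) (nat_lit 3479764902) (nat_lit 1216) (nat_lit 63388890) (nat_lit 241) (nat_lit 5) (nat_lit 256) (nat_lit 5) (nat_lit 257) (nat_lit 5) (nat_lit 352) (nat_lit 349) (nat_lit 199))))) (XT.nd (nat_lit 234) (nat_lit 1064) (nat_lit 0) (XT.nd (nat_lit 78) (nat_lit 0) (nat_lit 0) (XT.lf (nat_lit 76) (nat_lit 5400719226) (nat_lit 0) (nat_lit 10061398757) (nat_lit 1216) (nat_lit 3085719929) (nat_lit 242) (nat_lit 5) (nat_lit 241) (nat_lit 5) (nat_lit 257) (nat_lit 5) (nat_lit 353) (nat_lit 349) (nat_lit 198)) (XT.nd (nat_lit 78) (nat_lit 0) (nat_lit 76) (XT.lf (nat_lit 76) (nat_lit 14614492289) (nat_lit 0) (nat_lit 1625756631) (nat_lit 1216) (nat_lit 2586134495) (nat_lit 242) (nat_lit 5) (nat_lit 241) (nat_lit 5) (nat_lit 257) (nat_lit 5) (nat_lit 354) (nat_lit 349) (nat_lit 197)) (XT.lf (nat_lit 76) (nat_lit 5016815500) (nat_lit 0) (nat_lit 12133741090) (nat_lit 1216) (nat_lit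 1959468506) (nat_lit 243) (nat_lit 5) (nat_lit 242) (nat_lit 5) (nat_lit 258) (nat_lit 5) (nat_lit 355) (nat_lit 349) (nat_lit 196)))) (XT.nd (nat_lit 156) (nat_lit 1140) (nat_lit 0) (XT.nd (nat_lit 78) (nat_lit 0) (nat_lit 76) (XT.lf (nat_lit 76) (nat_lit 14587770458) (nat_lit 0) (nat_lit 3551756923) (nat_lit 1216) (nat_lit 1261112686) (nat_lit 243) (nat_lit 5) (nat_lit 242) (nat_lit 5) (nat_lit 258) (nat_lit 5) (nat_lit 356) (nat_lit 349) (nat_lit 195)) (XT.lf (nat_lit 76) (nat_lit 4783761164) (nat_lit 0) (nat_lit 14464333682) (nat_lit 1216) (nat_lit 449185336) (nat_lit 244) (nat_lit 5) (nat_lit 243) (nat_lit 5) (nat_lit 259) (nat_lit 5) (nat_lit 357) (nat_lit 349) (nat_lit 194))) (XT.nd (nat_lit 78) (nat_lit 0) (nat_lit 76) (XT.lf (nat_lit 0) (nat_lit 456993861) (nat_lit 1216) (nat_lit 5278513111) (nat_lit 1292) (nat_lit 14264881727) (nat_lit 227) (nat_lit 5) (nat_lit 243) (nat_lit 5) (nat_lit 244) (nat_lit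 5) (nat_lit 358) (nat_lit 349) (nat_lit 193)) (XT.lf (nat_lit 0) (nat_lit 1451988485) (nat_lit 1216) (nat_lit 15614324320) (nat_lit 1292) (nat_lit 3244028636) (nat_lit 228) (nat_lit 5) (nat_lit 244) (nat_lit 5) (nat_lit 245) (nat_lit 5) (nat_lit 359) (nat_lit 349) (nat_lit 192))))))) (XT.nd (nat_lit 1014) (nat_lit 3952) (nat_lit 0) (XT.nd (nat_lit 468) (nat_lit 2204) (nat_lit 0) (XT.nd (nat_lit 234) (nat_lit 0) (nat_lit 76) (XT.nd (nat_lit 78) (nat_lit 0) (nat_lit 76) (XT.lf (nat_lit 0) (nat_lit 2581015508) (nat_lit 1216) (nat_lit 5612087464) (nat_lit 1292) (nat_lit 12433368332) (nat_lit 228) (nat_lit 5) (nat_lit 244) (nat_lit 5) (nat_lit 245) (nat_lit 5) (nat_lit 360) (nat_lit 349) (nat_lit 191)) (XT.nd (nat_lit 78) (nat_lit 0) (nat_lit 0) (XT.lf (nat_lit 0) (nat_lit 3793169736) (nat_lit 1216) (nat_lit 16181623827) (nat_lit 1292) (nat_lit 975817711) (nat_lit 229) (nat_lit 5) (nat_lit 245) (nat_lit 5) (nat_lit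 246) (nat_lit 5) (nat_lit 361) (nat_lit 349) (nat_lit 190)) (XT.lf (nat_lit 0) (nat_lit 5173945614) (nat_lit 1216) (nat_lit 5792703341) (nat_lit 1292) (nat_lit 10313862561) (nat_lit 229) (nat_lit 5) (nat_lit 245) (nat_lit 5) (nat_lit 246) (nat_lit 5) (nat_lit 362) (nat_lit 349) (nat_lit 189)))) (XT.nd (nat_lit 78) (nat_lit 0) (nat_lit 76) (XT.lf (nat_lit 76) (nat_lit 5000824190) (nat_lit 0) (nat_lit 1637474096) (nat_lit 1292) (nat_lit 14980749552) (nat_lit 230) (nat_lit 5) (nat_lit 229) (nat_lit 5) (nat_lit 246) (nat_lit 5) (nat_lit 363) (nat_lit 349) (nat_lit 188)) (XT.nd (nat_lit 78) (nat_lit 0) (nat_lit 0) (XT.lf (nat_lit 0) (nat_lit 8276505429) (nat_lit 1216) (nat_lit 5811077750) (nat_lit 1292) (nat_lit 7876262923) (nat_lit 230) (nat_lit 5) (nat_lit 246) (nat_lit 5) (nat_lit 247) (nat_lit 5) (nat_lit 364) (nat_lit 349) (nat_lit 187)) (XT.lf (nat_lit 76) (nat_lit 5404890427) (nat_lit 0) (nat_lit 4621526494)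 (nat_lit 1292) (nat_lit 12290698112) (nat_lit 231) (nat_lit 5) (nat_lit 230) (nat_lit 5) (nat_lit 247) (nat_lit 5) (nat_lit 365) (nat_lit 349) (nat_lit 186))))) (XT.nd (nat_lit 234) (nat_lit 1216) (nat_lit 0) (XT.nd (nat_lit 78) (nat_lit 1216) (nat_lit 0) (XT.lf (nat_lit 0) (nat_lit 11931903723) (nat_lit 1216) (nat_lit 5657421362) (nat_lit 76) (nat_lit 5088567975) (nat_lit 231) (nat_lit 5) (nat_lit 247) (nat_lit 5) (nat_lit 232) (nat_lit 5) (nat_lit 366) (nat_lit 349) (nat_lit 185)) (XT.nd (nat_lit 78) (nat_lit 0) (nat_lit 0) (XT.lf (nat_lit 0) (nat_lit 6001743735) (nat_lit 1216) (nat_lit 7990939263) (nat_lit 1292) (nat_lit 9053870859) (nat_lit 215) (nat_lit 5) (nat_lit 231) (nat_lit 5) (nat_lit 232) (nat_lit 5) (nat_lit 367) (nat_lit 349) (nat_lit 184)) (XT.lf (nat_lit 0) (nat_lit 16185994401) (nat_lit 1292) (nat_lit 5321450738) (nat_lit 76) (nat_lit 1916711246) (nat_lit 215) (nat_lit 5) (nat_lit 232)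 (nat_lit 5) (nat_lit 216) (nat_lit 5) (nat_lit 368) (nat_lit 349) (nat_lit 183)))) (XT.nd (nat_lit 156) (nat_lit 608) (nat_lit 0) (XT.nd (nat_lit 78) (nat_lit 0) (nat_lit 0) (XT.lf (nat_lit 0) (nat_lit 6802613203) (nat_lit 608) (nat_lit 11781947178) (nat_lit 684) (nat_lit 5224346032) (nat_lit 207) (nat_lit 5) (nat_lit 215) (nat_lit 5) (nat_lit 216) (nat_lit 5) (nat_lit 369) (nat_lit 349) (nat_lit 182)) (XT.lf (nat_lit 0) (nat_lit 19394907396) (nat_lit 608) (nat_lit 1708961517) (nat_lit 684) (nat_lit 3099869450) (nat_lit 207) (nat_lit 5) (nat_lit 215) (nat_lit 5) (nat_lit 216) (nat_lit 5) (nat_lit 370) (nat_lit 349) (nat_lit 181))) (XT.nd (nat_lit 78) (nat_lit 76) (nat_lit 0) (XT.lf (nat_lit 0) (nat_lit 7819238202) (nat_lit 532) (nat_lit 16033183789) (nat_lit 608) (nat_lit 753386222) (nat_lit 200) (nat_lit 5) (nat_lit 207) (nat_lit 5) (nat_lit 208) (nat_lit 5) (nat_lit 371) (nat_lit 349) (nat_lit 180)) (XT.lf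 (nat_lit 0) (nat_lit 1692235603) (nat_lit 608) (nat_lit 4131795150) (nat_lit 76) (nat_lit 19193596284) (nat_lit 199) (nat_lit 5) (nat_lit 207) (nat_lit 5) (nat_lit 200) (nat_lit 5) (nat_lit 372) (nat_lit 349) (nat_lit 179)))))) (XT.nd (nat_lit 546) (nat_lit 1824) (nat_lit 0) (XT.nd (nat_lit 234) (nat_lit 988) (nat_lit 0) (XT.nd (nat_lit 78) (nat_lit 532) (nat_lit 0) (XT.lf (nat_lit 0) (nat_lit 4324663872) (nat_lit 684) (nat_lit 16417542814) (nat_lit 76) (nat_lit 4695515213) (nat_lit 191) (nat_lit 5) (nat_lit 200) (nat_lit 5) (nat_lit 192) (nat_lit 5) (nat_lit 373) (nat_lit 349) (nat_lit 178)) (XT.nd (nat_lit 78) (nat_lit 532) (nat_lit 0) (XT.lf (nat_lit 0) (nat_lit 7131339301) (nat_lit 684) (nat_lit 3280439637) (nat_lit 76) (nat_lit 15455785019) (nat_lit 191) (nat_lit 5) (nat_lit 200) (nat_lit 5) (nat_lit 192) (nat_lit 5) (nat_lit 374) (nat_lit 349) (nat_lit 177)) (XT.lf (nat_lit 0) (nat_lit 10121466214)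 (nat_lit 608) (nat_lit 15860385804) (nat_lit 76) (nat_lit 325474224) (nat_lit 184) (nat_lit 5) (nat_lit 192) (nat_lit 5) (nat_lit 185) (nat_lit 5) (nat_lit 375) (nat_lit 349) (nat_lit 176)))) (XT.nd (nat_lit 156) (nat_lit 456) (nat_lit 0) (XT.nd (nat_lit 78) (nat_lit 532) (nat_lit 0) (XT.lf (nat_lit 0) (nat_lit 13333528434) (nat_lit 608) (nat_lit 2213872619) (nat_lit 76) (nat_lit 11208915828) (nat_lit 184) (nat_lit 5) (nat_lit 192) (nat_lit 5) (nat_lit 185) (nat_lit 5) (nat_lit 376) (nat_lit 349) (nat_lit 175)) (XT.lf (nat_lit 0) (nat_lit 12073202565) (nat_lit 532) (nat_lit 4680621073) (nat_lit 608) (nat_lit 10461599829) (nat_lit 177) (nat_lit 5) (nat_lit 184) (nat_lit 5) (nat_lit 185) (nat_lit 5) (nat_lit 377) (nat_lit 349) (nat_lit 174))) (XT.nd (nat_lit 78) (nat_lit 456) (nat_lit 0) (XT.lf (nat_lit 0) (nat_lit 20357796885) (nat_lit 608) (nat_lit 920685013) (nat_lit 76) (nat_lit 6407391566) (nat_lit 177)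 (nat_lit 5) (nat_lit 185) (nat_lit 5) (nat_lit 178) (nat_lit 5) (nat_lit 378) (nat_lit 349) (nat_lit 173)) (XT.lf (nat_lit 0) (nat_lit 13948975696) (nat_lit 456) (nat_lit 10297355301) (nat_lit 532) (nat_lit 3918814939) (nat_lit 171) (nat_lit 5) (nat_lit 177) (nat_lit 5) (nat_lit 178) (nat_lit 5) (nat_lit 379) (nat_lit 349) (nat_lit 172))))) (XT.nd (nat_lit 234) (nat_lit 836) (nat_lit 0) (XT.nd (nat_lit 78) (nat_lit 532) (nat_lit 0) (XT.lf (nat_lit 0) (nat_lit 622960419) (nat_lit 456) (nat_lit 27649760991) (nat_lit 532) (nat_lit 385441322) (nat_lit 165) (nat_lit 5) (nat_lit 171) (nat_lit 5) (nat_lit 172) (nat_lit 5) (nat_lit 380) (nat_lit 349) (nat_lit 171)) (XT.nd (nat_lit 78) (nat_lit 456) (nat_lit 0) (XT.lf (nat_lit 0) (nat_lit 3433483263) (nat_lit 532) (nat_lit 13102116623) (nat_lit 76) (nat_lit 12622142447) (nat_lit 164) (nat_lit 5) (nat_lit 171) (nat_lit 5) (nat_lit 165) (nat_lit 5) (nat_lit 381) (nat_lit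 349) (nat_lit 170)) (XT.lf (nat_lit 0) (nat_lit 2315987529) (nat_lit 456) (nat_lit 5061731842) (nat_lit 532) (nat_lit 22293922717) (nat_lit 158) (nat_lit 5) (nat_lit 164) (nat_lit 5) (nat_lit 165) (nat_lit 5) (nat_lit 382) (nat_lit 349) (nat_lit 169)))) (XT.nd (nat_lit 156) (nat_lit 380) (nat_lit 0) (XT.nd (nat_lit 78) (nat_lit 456) (nat_lit 0) (XT.lf (nat_lit 0) (nat_lit 11635135113) (nat_lit 532) (nat_lit 11802446127) (nat_lit 76) (nat_lit 6757533936) (nat_lit 158) (nat_lit 5) (nat_lit 165) (nat_lit 5) (nat_lit 159) (nat_lit 5) (nat_lit 383) (nat_lit 349) (nat_lit 168)) (XT.lf (nat_lit 0) (nat_lit 4245806320) (nat_lit 456) (nat_lit 11861795203) (nat_lit 532) (nat_lit 14624072952) (nat_lit 152) (nat_lit 5) (nat_lit 158) (nat_lit 5) (nat_lit 159) (nat_lit 5) (nat_lit 384) (nat_lit 349) (nat_lit 167))) (XT.nd (nat_lit 78) (nat_lit 380) (nat_lit 0) (XT.lf (nat_lit 0) (nat_lit 20831648448) (nat_lit 532) (nat_lit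 10269425261) (nat_lit 76) (nat_lit 179736456) (nat_lit 152) (nat_lit 5) (nat_lit 159) (nat_lit 5) (nat_lit 153) (nat_lit 5) (nat_lit 385) (nat_lit 349) (nat_lit 166)) (XT.lf (nat_lit 0) (nat_lit 6437465995) (nat_lit 380) (nat_lit 19435834419) (nat_lit 456) (nat_lit 5967844759) (nat_lit 147) (nat_lit 5) (nat_lit 152) (nat_lit 5) (nat_lit 153) (nat_lit 5) (nat_lit 386) (nat_lit 349) (nat_lit 165))))))))
noncomputable def xc212 : XT := (XT.nd (nat_lit 2028) (nat_lit 2052) (nat_lit 0) (XT.nd (nat_lit 1014) (nat_lit 2128) (nat_lit 0) (XT.nd (nat_lit 468) (nat_lit 1368) (nat_lit 0) (XT.nd (nat_lit 234) (nat_lit 760) (nat_lit 0) (XT.nd (nat_lit 78) (nat_lit 532) (nat_lit 0) (XT.lf (nat_lit 0) (nat_lit 23851898950) (nat_lit 380) (nat_lit 7314623355) (nat_lit 456) (nat_lit 1248760019) (nat_lit 147) (nat_lit 5) (nat_lit 152) (nat_lit 5) (nat_lit 153) (nat_lit 5) (nat_lit 387) (nat_lit 349) (nat_lit 164)) (XT.nd (nat_lit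 78) (nat_lit 0) (nat_lit 0) (XT.lf (nat_lit 0) (nat_lit 3674702246) (nat_lit 532) (nat_lit 24136729793) (nat_lit 76) (nat_lit 5190172982) (nat_lit 140) (nat_lit 5) (nat_lit 147) (nat_lit 5) (nat_lit 141) (nat_lit 5) (nat_lit 388) (nat_lit 349) (nat_lit 163)) (XT.lf (nat_lit 0) (nat_lit 8877254171) (nat_lit 532) (nat_lit 6701217862) (nat_lit 76) (nat_lit 18021981467) (nat_lit 140) (nat_lit 5) (nat_lit 147) (nat_lit 5) (nat_lit 141) (nat_lit 5) (nat_lit 389) (nat_lit 349) (nat_lit 162)))) (XT.nd (nat_lit 78) (nat_lit 380) (nat_lit 0) (XT.lf (nat_lit 0) (nat_lit 11477268809) (nat_lit 380) (nat_lit 2865768591) (nat_lit 456) (nat_lit 19871016905) (nat_lit 135) (nat_lit 5) (nat_lit 140) (nat_lit 5) (nat_lit 141) (nat_lit 5) (nat_lit 390) (nat_lit 349) (nat_lit 161)) (XT.nd (nat_lit 78) (nat_lit 380) (nat_lit 0) (XT.lf (nat_lit 0) (nat_lit 20136327518) (nat_lit 456) (nat_lit 4608645534) (nat_lit 76) (nat_lit 10096185553)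 (nat_lit 135) (nat_lit 5) (nat_lit 141) (nat_lit 5) (nat_lit 136) (nat_lit 5) (nat_lit 391) (nat_lit 349) (nat_lit 160)) (XT.lf (nat_lit 0) (nat_lit 14310228066) (nat_lit 380) (nat_lit 11956085358) (nat_lit 456) (nat_lit 9215877124) (nat_lit 130) (nat_lit 5) (nat_lit 135) (nat_lit 5) (nat_lit 136) (nat_lit 5) (nat_lit 392) (nat_lit 349) (nat_lit 159))))) (XT.nd (nat_lit 234) (nat_lit 608) (nat_lit 0) (XT.nd (nat_lit 78) (nat_lit 760) (nat_lit 0) (XT.lf (nat_lit 0) (nat_lit 32635897211) (nat_lit 456) (nat_lit 2266094351) (nat_lit 76) (nat_lit 1238792324) (nat_lit 130) (nat_lit 5) (nat_lit 136) (nat_lit 5) (nat_lit 131) (nat_lit 5) (nat_lit 393) (nat_lit 349) (nat_lit 158)) (XT.nd (nat_lit 78) (nat_lit 380) (nat_lit 0) (XT.lf (nat_lit 0) (nat_lit 2616808351) (nat_lit 380) (nat_lit 19411617480) (nat_lit 76) (nat_lit 14781451885) (nat_lit 125) (nat_lit 5) (nat_lit 130) (nat_lit 5) (nat_lit 126) (nat_lit 5)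 (nat_lit 394) (nat_lit 349) (nat_lit 157)) (XT.lf (nat_lit 0) (nat_lit 165005030) (nat_lit 380) (nat_lit 8708511156) (nat_lit 456) (nat_lit 28623834186) (nat_lit 120) (nat_lit 5) (nat_lit 125) (nat_lit 5) (nat_lit 126) (nat_lit 5) (nat_lit 395) (nat_lit 349) (nat_lit 156)))) (XT.nd (nat_lit 156) (nat_lit 304) (nat_lit 0) (XT.nd (nat_lit 78) (nat_lit 304) (nat_lit 0) (XT.lf (nat_lit 0) (nat_lit 15561201749) (nat_lit 456) (nat_lit 17526795533) (nat_lit 76) (nat_lit 5110152863) (nat_lit 120) (nat_lit 5) (nat_lit 126) (nat_lit 5) (nat_lit 121) (nat_lit 5) (nat_lit 396) (nat_lit 349) (nat_lit 155)) (XT.lf (nat_lit 0) (nat_lit 2838232853) (nat_lit 304) (nat_lit 19722021441) (nat_lit 380) (nat_lit 16356398720) (nat_lit 116) (nat_lit 5) (nat_lit 120) (nat_lit 5) (nat_lit 121) (nat_lit 5) (nat_lit 397) (nat_lit 349) (nat_lit 154))) (XT.nd (nat_lit 78) (nat_lit 304) (nat_lit 0) (XT.lf (nat_lit 0) (nat_lit 24169682776)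 (nat_lit 304) (nat_lit 5773856635) (nat_lit 380) (nat_lit 9707944890) (nat_lit 116) (nat_lit 5) (nat_lit 120) (nat_lit 5) (nat_lit 121) (nat_lit 5) (nat_lit 398) (nat_lit 349) (nat_lit 153)) (XT.lf (nat_lit 0) (nat_lit 5758719431) (nat_lit 304) (nat_lit 31924902749) (nat_lit 380) (nat_lit 2720680501) (nat_lit 112) (nat_lit 5) (nat_lit 116) (nat_lit 5) (nat_lit 117) (nat_lit 5) (nat_lit 399) (nat_lit 349) (nat_lit 152)))))) (XT.nd (nat_lit 468) (nat_lit 1140) (nat_lit 0) (XT.nd (nat_lit 234) (nat_lit 608) (nat_lit 0) (XT.nd (nat_lit 78) (nat_lit 304) (nat_lit 0) (XT.lf (nat_lit 0) (nat_lit 4601264089) (nat_lit 380) (nat_lit 13326727995) (nat_lit 76) (nat_lit 23244051476) (nat_lit 111) (nat_lit 5) (nat_lit 116) (nat_lit 5) (nat_lit 112) (nat_lit 5) (nat_lit 400) (nat_lit 349) (nat_lit 151)) (XT.nd (nat_lit 78) (nat_lit 0) (nat_lit 0) (XT.lf (nat_lit 0) (nat_lit 8772256663) (nat_lit 304) (nat_lit 3397687079)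 (nat_lit 380) (nat_lit 29789613041) (nat_lit 107) (nat_lit 5) (nat_lit 111) (nat_lit 5) (nat_lit 112) (nat_lit 5) (nat_lit 401) (nat_lit 349) (nat_lit 150)) (XT.lf (nat_lit 0) (nat_lit 20210258159) (nat_lit 380) (nat_lit 11075505759) (nat_lit 76) (nat_lit 11477595256) (nat_lit 107) (nat_lit 5) (nat_lit 112) (nat_lit 5) (nat_lit 108) (nat_lit 5) (nat_lit 402) (nat_lit 349) (nat_lit 149)))) (XT.nd (nat_lit 78) (nat_lit 304) (nat_lit 0) (XT.lf (nat_lit 0) (nat_lit 11894507509) (nat_lit 304) (nat_lit 16742790477) (nat_lit 380) (nat_lit 14949613142) (nat_lit 103) (nat_lit 5) (nat_lit 107) (nat_lit 5) (nat_lit 108) (nat_lit 5) (nat_lit 403) (nat_lit 349) (nat_lit 148)) (XT.nd (nat_lit 78) (nat_lit 304) (nat_lit 0) (XT.lf (nat_lit 0) (nat_lit 35777094331) (nat_lit 304) (nat_lit 1649471246) (nat_lit 380) (nat_lit 7005322512) (nat_lit 103) (nat_lit 5) (nat_lit 107) (nat_lit 5) (nat_lit 108) (nat_lit 5) (nat_lit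 404) (nat_lit 349) (nat_lit 147)) (XT.lf (nat_lit 0) (nat_lit 1434730070) (nat_lit 304) (nat_lit 30073838720) (nat_lit 76) (nat_lit 13784894755) (nat_lit 99) (nat_lit 5) (nat_lit 103) (nat_lit 5) (nat_lit 100) (nat_lit 5) (nat_lit 405) (nat_lit 349) (nat_lit 146))))) (XT.nd (nat_lit 234) (nat_lit 836) (nat_lit 0) (XT.nd (nat_lit 78) (nat_lit 304) (nat_lit 0) (XT.lf (nat_lit 0) (nat_lit 10089424411) (nat_lit 304) (nat_lit 6280664076) (nat_lit 76) (nat_lit 29805650646) (nat_lit 99) (nat_lit 5) (nat_lit 103) (nat_lit 5) (nat_lit 100) (nat_lit 5) (nat_lit 406) (nat_lit 349) (nat_lit 145)) (XT.nd (nat_lit 78) (nat_lit 0) (nat_lit 0) (XT.lf (nat_lit 0) (nat_lit 18585545560) (nat_lit 304) (nat_lit 594585258) (nat_lit 380) (nat_lit 27899061871) (nat_lit 95) (nat_lit 5) (nat_lit 99) (nat_lit 5) (nat_lit 100) (nat_lit 5) (nat_lit 407) (nat_lit 349) (nat_lit 144)) (XT.lf (nat_lit 0) (nat_lit 28755824792) (nat_lit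 380) (nat_lit 3835918617) (nat_lit 76) (nat_lit 15411639266) (nat_lit 95) (nat_lit 5) (nat_lit 100) (nat_lit 5) (nat_lit 96) (nat_lit 5) (nat_lit 408) (nat_lit 349) (nat_lit 143)))) (XT.nd (nat_lit 156) (nat_lit 608) (nat_lit 0) (XT.nd (nat_lit 78) (nat_lit 0) (nat_lit 0) (XT.lf (nat_lit 0) (nat_lit 21981233586) (nat_lit 228) (nat_lit 16852544370) (nat_lit 304) (nat_lit 10115071544) (nat_lit 92) (nat_lit 5) (nat_lit 95) (nat_lit 5) (nat_lit 96) (nat_lit 5) (nat_lit 409) (nat_lit 349) (nat_lit 142)) (XT.lf (nat_lit 0) (nat_lit 48648211589) (nat_lit 228) (nat_lit 602429731) (nat_lit 304) (nat_lit 670942628) (nat_lit 92) (nat_lit 5) (nat_lit 95) (nat_lit 5) (nat_lit 96) (nat_lit 5) (nat_lit 410) (nat_lit 349) (nat_lit 141))) (XT.nd (nat_lit 78) (nat_lit 228) (nat_lit 0) (XT.lf (nat_lit 0) (nat_lit 9282143556) (nat_lit 380) (nat_lit 25471018361) (nat_lit 76) (nat_lit 16155656780) (nat_lit 87) (nat_lit 5) (nat_lit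 92) (nat_lit 5) (nat_lit 88) (nat_lit 5) (nat_lit 411) (nat_lit 349) (nat_lit 140)) (XT.lf (nat_lit 0) (nat_lit 1055704024) (nat_lit 228) (nat_lit 18491629170) (nat_lit 304) (nat_lit 32377328822) (nat_lit 84) (nat_lit 5) (nat_lit 87) (nat_lit 5) (nat_lit 88) (nat_lit 5) (nat_lit 412) (nat_lit 349) (nat_lit 139))))))) (XT.nd (nat_lit 1014) (nat_lit 684) (nat_lit 0) (XT.nd (nat_lit 468) (nat_lit 608) (nat_lit 0) (XT.nd (nat_lit 234) (nat_lit 532) (nat_lit 0) (XT.nd (nat_lit 78) (nat_lit 228) (nat_lit 0) (XT.lf (nat_lit 0) (nat_lit 28897103249) (nat_lit 228) (nat_lit 1478510104) (nat_lit 304) (nat_lit 22587713917) (nat_lit 84) (nat_lit 5) (nat_lit 87) (nat_lit 5) (nat_lit 88) (nat_lit 5) (nat_lit 413) (nat_lit 349) (nat_lit 138)) (XT.nd (nat_lit 78) (nat_lit 0) (nat_lit 0) (XT.lf (nat_lit 0) (nat_lit 3450477947) (nat_lit 228) (nat_lit 38263643268) (nat_lit 304) (nat_lit 12313470551) (nat_lit 81) (nat_lit 5)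 (nat_lit 84) (nat_lit 5) (nat_lit 85) (nat_lit 5) (nat_lit 414) (nat_lit 349) (nat_lit 137)) (XT.lf (nat_lit 0) (nat_lit 32267905508) (nat_lit 228) (nat_lit 21380400854) (nat_lit 304) (nat_lit 1467812816) (nat_lit 81) (nat_lit 5) (nat_lit 84) (nat_lit 5) (nat_lit 85) (nat_lit 5) (nat_lit 415) (nat_lit 349) (nat_lit 136)))) (XT.nd (nat_lit 78) (nat_lit 228) (nat_lit 0) (XT.lf (nat_lit 0) (nat_lit 5727926368) (nat_lit 228) (nat_lit 3839047438) (nat_lit 304) (nat_lit 46665937901) (nat_lit 77) (nat_lit 5) (nat_lit 80) (nat_lit 5) (nat_lit 81) (nat_lit 5) (nat_lit 416) (nat_lit 349) (nat_lit 135)) (XT.nd (nat_lit 78) (nat_lit 228) (nat_lit 0) (XT.lf (nat_lit 0) (nat_lit 21271141981) (nat_lit 304) (nat_lit 21903303387) (nat_lit 76) (nat_lit 14197292061) (nat_lit 77) (nat_lit 5) (nat_lit 81) (nat_lit 5) (nat_lit 78) (nat_lit 5) (nat_lit 417) (nat_lit 349) (nat_lit 134)) (XT.lf (nat_lit 0) (nat_lit 7664937781)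 (nat_lit 228) (nat_lit 25771303887) (nat_lit 304) (nat_lit 25105192632) (nat_lit 74) (nat_lit 5) (nat_lit 77) (nat_lit 5) (nat_lit 78) (nat_lit 5) (nat_lit 418) (nat_lit 349) (nat_lit 133))))) (XT.nd (nat_lit 234) (nat_lit 380) (nat_lit 0) (XT.nd (nat_lit 78) (nat_lit 228) (nat_lit 0) (XT.lf (nat_lit 0) (nat_lit 38566200933) (nat_lit 228) (nat_lit 7619415686) (nat_lit 304) (nat_lit 13554026344) (nat_lit 74) (nat_lit 5) (nat_lit 77) (nat_lit 5) (nat_lit 78) (nat_lit 5) (nat_lit 419) (nat_lit 349) (nat_lit 132)) (XT.nd (nat_lit 78) (nat_lit 76) (nat_lit 0) (XT.lf (nat_lit 0) (nat_lit 9496559700) (nat_lit 152) (nat_lit 50016864158) (nat_lit 228) (nat_lit 1454496035) (nat_lit 72) (nat_lit 5) (nat_lit 74) (nat_lit 5) (nat_lit 75) (nat_lit 5) (nat_lit 420) (nat_lit 349) (nat_lit 131)) (XT.lf (nat_lit 0) (nat_lit 11082772402) (nat_lit 228) (nat_lit 20892291663) (nat_lit 76) (nat_lit 30246120349) (nat_lit 71) (nat_lit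 5) (nat_lit 74) (nat_lit 5) (nat_lit 72) (nat_lit 5) (nat_lit 421) (nat_lit 349) (nat_lit 130)))) (XT.nd (nat_lit 156) (nat_lit 152) (nat_lit 0) (XT.nd (nat_lit 78) (nat_lit 0) (nat_lit 0) (XT.lf (nat_lit 0) (nat_lit 10797549373) (nat_lit 228) (nat_lit 13271412318) (nat_lit 304) (nat_lit 39439592541) (nat_lit 68) (nat_lit 5) (nat_lit 71) (nat_lit 5) (nat_lit 72) (nat_lit 5) (nat_lit 422) (nat_lit 349) (nat_lit 129)) (XT.lf (nat_lit 0) (nat_lit 37713665114) (nat_lit 304) (nat_lit 21024470221) (nat_lit 76) (nat_lit 6088342434) (nat_lit 68) (nat_lit 5) (nat_lit 72) (nat_lit 5) (nat_lit 69) (nat_lit 5) (nat_lit 423) (nat_lit 349) (nat_lit 128))) (XT.nd (nat_lit 78) (nat_lit 0) (nat_lit 0) (XT.lf (nat_lit 0) (nat_lit 11706877672) (nat_lit 152) (nat_lit 40303073246) (nat_lit 228) (nat_lit 14166721320) (nat_lit 66) (nat_lit 5) (nat_lit 68) (nat_lit 5) (nat_lit 69) (nat_lit 5) (nat_lit 424) (nat_lit 349) (nat_lit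 127)) (XT.lf (nat_lit 0) (nat_lit 45848348727) (nat_lit 152) (nat_lit 21097412380) (nat_lit 228) (nat_lit 615292811) (nat_lit 66) (nat_lit 5) (nat_lit 68) (nat_lit 5) (nat_lit 69) (nat_lit 5) (nat_lit 425) (nat_lit 349) (nat_lit 126)))))) (XT.nd (nat_lit 41028) (nat_lit 0) (nat_lit 13908) (XT.nd (nat_lit 234) (nat_lit 228) (nat_lit 0) (XT.nd (nat_lit 78) (nat_lit 152) (nat_lit 0) (XT.lf (nat_lit 0) (nat_lit 12132844550) (nat_lit 228) (nat_lit 1064460656) (nat_lit 304) (nat_lit 55782364817) (nat_lit 62) (nat_lit 5) (nat_lit 65) (nat_lit 5) (nat_lit 66) (nat_lit 5) (nat_lit 426) (nat_lit 349) (nat_lit 125)) (XT.nd (nat_lit 78) (nat_lit 152) (nat_lit 0) (XT.lf (nat_lit 0) (nat_lit 27819827739) (nat_lit 304) (nat_lit 23194554784) (nat_lit 76) (nat_lit 19414042338) (nat_lit 62) (nat_lit 5) (nat_lit 66) (nat_lit 5) (nat_lit 63) (nat_lit 5) (nat_lit 427) (nat_lit 349) (nat_lit 124)) (XT.lf (nat_lit 0) (nat_lit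 11682022432) (nat_lit 152) (nat_lit 31320257811) (nat_lit 228) (nat_lit 28914724875) (nat_lit 60) (nat_lit 5) (nat_lit 62) (nat_lit 5) (nat_lit 63) (nat_lit 5) (nat_lit 428) (nat_lit 349) (nat_lit 123)))) (XT.nd (nat_lit 156) (nat_lit 0) (nat_lit 0) (XT.nd (nat_lit 78) (nat_lit 228) (nat_lit 0) (XT.lf (nat_lit 0) (nat_lit 48077708170) (nat_lit 152) (nat_lit 10795158504) (nat_lit 228) (nat_lit 14570396686) (nat_lit 60) (nat_lit 5) (nat_lit 62) (nat_lit 5) (nat_lit 63) (nat_lit 5) (nat_lit 429) (nat_lit 349) (nat_lit 122)) (XT.lf (nat_lit 0) (nat_lit 402614303) (nat_lit 228) (nat_lit 64357419395) (nat_lit 76) (nat_lit 10249146949) (nat_lit 57) (nat_lit 5) (nat_lit 60) (nat_lit 5) (nat_lit 58) (nat_lit 5) (nat_lit 430) (nat_lit 349) (nat_lit 121))) (XT.nd (nat_lit 40560) (nat_lit 0) (nat_lit 13908) (XT.lf (nat_lit 0) (nat_lit 15896006550) (nat_lit 228) (nat_lit 28601122824) (nat_lit 76) (nat_lit 32109697349)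 (nat_lit 57) (nat_lit 5) (nat_lit 60) (nat_lit 5) (nat_lit 58) (nat_lit 5) (nat_lit 431) (nat_lit 349) (nat_lit 120)) (XT.lf (nat_lit 0) (nat_lit 3496872421) (nat_lit 0) (nat_lit 3496872421) (nat_lit 1140) (nat_lit 2009448142) (nat_lit 240) (nat_lit 5) (nat_lit 240) (nat_lit 3) (nat_lit 255) (nat_lit 3) (nat_lit 350) (nat_lit 350) (nat_lit 200))))) (XT.nd (nat_lit 234) (nat_lit 0) (nat_lit 76) (XT.nd (nat_lit 78) (nat_lit 0) (nat_lit 0) (XT.lf (nat_lit 0) (nat_lit 14409121295) (nat_lit 1140) (nat_lit 2499257199) (nat_lit 1216) (nat_lit 1361618296) (nat_lit 240) (nat_lit 5) (nat_lit 255) (nat_lit 3) (nat_lit 256) (nat_lit 5) (nat_lit 351) (nat_lit 350) (nat_lit 199)) (XT.nd (nat_lit 78) (nat_lit 0) (nat_lit 0) (XT.lf (nat_lit 76) (nat_lit 6319450942) (nat_lit 0) (nat_lit 8646233836) (nat_lit 1216) (nat_lit 3572167761) (nat_lit 241) (nat_lit 5) (nat_lit 240) (nat_lit 5) (nat_lit 256) (nat_lit 5) (nat_lit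 352) (nat_lit 350) (nat_lit 198)) (XT.lf (nat_lit 76) (nat_lit 15449845758) (nat_lit 0) (nat_lit 106813543) (nat_lit 1216) (nat_lit 3256558174) (nat_lit 241) (nat_lit 5) (nat_lit 240) (nat_lit 5) (nat_lit 256) (nat_lit 5) (nat_lit 353) (nat_lit 350) (nat_lit 197)))) (XT.nd (nat_lit 156) (nat_lit 0) (nat_lit 76) (XT.nd (nat_lit 78) (nat_lit 0) (nat_lit 0) (XT.lf (nat_lit 76) (nat_lit 5782379055) (nat_lit 0) (nat_lit 10514817282) (nat_lit 1216) (nat_lit 2795696821) (nat_lit 242) (nat_lit 5) (nat_lit 241) (nat_lit 5) (nat_lit 257) (nat_lit 5) (nat_lit 354) (nat_lit 350) (nat_lit 196)) (XT.lf (nat_lit 76) (nat_lit 15266168079) (nat_lit 0) (nat_lit 1821691041) (nat_lit 1216) (nat_lit 2292267359) (nat_lit 242) (nat_lit 5) (nat_lit 241) (nat_lit 5) (nat_lit 257) (nat_lit 5) (nat_lit 355) (nat_lit 350) (nat_lit 195))) (XT.nd (nat_lit 78) (nat_lit 0) (nat_lit 0) (XT.lf (nat_lit 76) (nat_lit 5390811247) (nat_lit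 0) (nat_lit 12624942534) (nat_lit 1216) (nat_lit 1656822180) (nat_lit 243) (nat_lit 5) (nat_lit 242) (nat_lit 5) (nat_lit 258) (nat_lit 5) (nat_lit 356) (nat_lit 350) (nat_lit 194)) (XT.lf (nat_lit 76) (nat_lit 15242385400) (nat_lit 0) (nat_lit 3781794302) (nat_lit 1216) (nat_lit 948042784) (nat_lit 243) (nat_lit 5) (nat_lit 242) (nat_lit 5) (nat_lit 258) (nat_lit 5) (nat_lit 357) (nat_lit 350) (nat_lit 193))))))))
noncomputable def xc213 : XT := (XT.nd (nat_lit 2028) (nat_lit 5016) (nat_lit 0) (XT.nd (nat_lit 1014) (nat_lit 3724) (nat_lit 0) (XT.nd (nat_lit 468) (nat_lit 1520) (nat_lit 0) (XT.nd (nat_lit 234) (nat_lit 0) (nat_lit 76) (XT.nd (nat_lit 78) (nat_lit 1216) (nat_lit 0) (XT.lf (nat_lit 76) (nat_lit 5153638389) (nat_lit 0) (nat_lit 15003472818) (nat_lit 1216) (nat_lit 120923876) (nat_lit 244) (nat_lit 5) (nat_lit 243) (nat_lit 5) (nat_lit 259) (nat_lit 5) (nat_lit 358) (nat_lit 350) (nat_lit 192))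 (XT.nd (nat_lit 78) (nat_lit 0) (nat_lit 76) (XT.lf (nat_lit 0) (nat_lit 796012900) (nat_lit 1216) (nat_lit 5210419078) (nat_lit 1292) (nat_lit 14584005222) (nat_lit 227) (nat_lit 5) (nat_lit 243) (nat_lit 5) (nat_lit 244) (nat_lit 5) (nat_lit 359) (nat_lit 350) (nat_lit 191)) (XT.lf (nat_lit 0) (nat_lit 1812636486) (nat_lit 1216) (nat_lit 15847885801) (nat_lit 1292) (nat_lit 3249418802) (nat_lit 228) (nat_lit 5) (nat_lit 244) (nat_lit 5) (nat_lit 245) (nat_lit 5) (nat_lit 360) (nat_lit 350) (nat_lit 190)))) (XT.nd (nat_lit 78) (nat_lit 0) (nat_lit 76) (XT.lf (nat_lit 0) (nat_lit 2966298736) (nat_lit 1216) (nat_lit 5552422663) (nat_lit 1292) (nat_lit 12717116283) (nat_lit 228) (nat_lit 5) (nat_lit 244) (nat_lit 5) (nat_lit 245) (nat_lit 5) (nat_lit 361) (nat_lit 350) (nat_lit 189)) (XT.nd (nat_lit 78) (nat_lit 0) (nat_lit 0) (XT.lf (nat_lit 0) (nat_lit 4207297964) (nat_lit 1216) (nat_lit 16431338908) (nat_lit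 1292) (nat_lit 931296164) (nat_lit 229) (nat_lit 5) (nat_lit 245) (nat_lit 5) (nat_lit 246) (nat_lit 5) (nat_lit 362) (nat_lit 350) (nat_lit 188)) (XT.lf (nat_lit 0) (nat_lit 5620749552) (nat_lit 1216) (nat_lit 5737616836) (nat_lit 1292) (nat_lit 10551631760) (nat_lit 229) (nat_lit 5) (nat_lit 245) (nat_lit 5) (nat_lit 246) (nat_lit 5) (nat_lit 363) (nat_lit 350) (nat_lit 187))))) (XT.nd (nat_lit 234) (nat_lit 1672) (nat_lit 0) (XT.nd (nat_lit 78) (nat_lit 0) (nat_lit 76) (XT.lf (nat_lit 76) (nat_lit 5377472721) (nat_lit 0) (nat_lit 1745245746) (nat_lit 1292) (nat_lit 15136166799) (nat_lit 230) (nat_lit 5) (nat_lit 229) (nat_lit 5) (nat_lit 246) (nat_lit 5) (nat_lit 364) (nat_lit 350) (nat_lit 186)) (XT.nd (nat_lit 78) (nat_lit 0) (nat_lit 0) (XT.lf (nat_lit 0) (nat_lit 8801215618) (nat_lit 1216) (nat_lit 5756360016) (nat_lit 1292) (nat_lit 8056722651) (nat_lit 230) (nat_lit 5) (nat_lit 246) (nat_lit 5)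 (nat_lit 247) (nat_lit 5) (nat_lit 365) (nat_lit 350) (nat_lit 185)) (XT.lf (nat_lit 76) (nat_lit 5793841618) (nat_lit 0) (nat_lit 4803912098) (nat_lit 1292) (nat_lit 12380592665) (nat_lit 231) (nat_lit 5) (nat_lit 230) (nat_lit 5) (nat_lit 247) (nat_lit 5) (nat_lit 366) (nat_lit 350) (nat_lit 184)))) (XT.nd (nat_lit 156) (nat_lit 608) (nat_lit 0) (XT.nd (nat_lit 78) (nat_lit 1216) (nat_lit 0) (XT.lf (nat_lit 0) (nat_lit 12552116983) (nat_lit 1216) (nat_lit 5598496396) (nat_lit 76) (nat_lit 5199587842) (nat_lit 231) (nat_lit 5) (nat_lit 247) (nat_lit 5) (nat_lit 232) (nat_lit 5) (nat_lit 367) (nat_lit 350) (nat_lit 183)) (XT.lf (nat_lit 0) (nat_lit 6408202010) (nat_lit 1216) (nat_lit 8261055450) (nat_lit 1292) (nat_lit 9060832934) (nat_lit 215) (nat_lit 5) (nat_lit 231) (nat_lit 5) (nat_lit 232) (nat_lit 5) (nat_lit 368) (nat_lit 350) (nat_lit 182))) (XT.nd (nat_lit 78) (nat_lit 608) (nat_lit 0) (XT.lf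 (nat_lit 0) (nat_lit 16920605170) (nat_lit 1292) (nat_lit 5253367901) (nat_lit 76) (nat_lit 1945285371) (nat_lit 215) (nat_lit 5) (nat_lit 232) (nat_lit 5) (nat_lit 216) (nat_lit 5) (nat_lit 369) (nat_lit 350) (nat_lit 181)) (XT.lf (nat_lit 0) (nat_lit 7232185347) (nat_lit 608) (nat_lit 12153857037) (nat_lit 684) (nat_lit 5129665577) (nat_lit 207) (nat_lit 5) (nat_lit 215) (nat_lit 5) (nat_lit 216) (nat_lit 5) (nat_lit 370) (nat_lit 350) (nat_lit 180)))))) (XT.nd (nat_lit 468) (nat_lit 1976) (nat_lit 0) (XT.nd (nat_lit 234) (nat_lit 1140) (nat_lit 0) (XT.nd (nat_lit 78) (nat_lit 608) (nat_lit 0) (XT.lf (nat_lit 0) (nat_lit 20195680586) (nat_lit 608) (nat_lit 1778144385) (nat_lit 684) (nat_lit 2948777343) (nat_lit 207) (nat_lit 5) (nat_lit 215) (nat_lit 5) (nat_lit 216) (nat_lit 5) (nat_lit 371) (nat_lit 350) (nat_lit 179)) (XT.nd (nat_lit 78) (nat_lit 76) (nat_lit 0) (XT.lf (nat_lit 0) (nat_lit 8277942635)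 (nat_lit 532) (nat_lit 16521981020) (nat_lit 608) (nat_lit 536962101) (nat_lit 200) (nat_lit 5) (nat_lit 207) (nat_lit 5) (nat_lit 208) (nat_lit 5) (nat_lit 372) (nat_lit 350) (nat_lit 178)) (XT.lf (nat_lit 0) (nat_lit 1970538064) (nat_lit 608) (nat_lit 4033490432) (nat_lit 76) (nat_lit 19757170425) (nat_lit 199) (nat_lit 5) (nat_lit 207) (nat_lit 5) (nat_lit 200) (nat_lit 5) (nat_lit 373) (nat_lit 350) (nat_lit 177)))) (XT.nd (nat_lit 78) (nat_lit 532) (nat_lit 0) (XT.lf (nat_lit 0) (nat_lit 4677399176) (nat_lit 684) (nat_lit 16683143468) (nat_lit 76) (nat_lit 4833493998) (nat_lit 191) (nat_lit 5) (nat_lit 200) (nat_lit 5) (nat_lit 192) (nat_lit 5) (nat_lit 374) (nat_lit 350) (nat_lit 176)) (XT.nd (nat_lit 78) (nat_lit 532) (nat_lit 0) (XT.lf (nat_lit 0) (nat_lit 7561779856) (nat_lit 684) (nat_lit 3158536680) (nat_lit 76) (nat_lit 15916655976) (nat_lit 191) (nat_lit 5) (nat_lit 200) (nat_lit 5) (nat_lit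 192) (nat_lit 5) (nat_lit 375) (nat_lit 350) (nat_lit 175)) (XT.lf (nat_lit 0) (nat_lit 10637458165) (nat_lit 608) (nat_lit 16111609061) (nat_lit 76) (nat_lit 340988605) (nat_lit 184) (nat_lit 5) (nat_lit 192) (nat_lit 5) (nat_lit 185) (nat_lit 5) (nat_lit 376) (nat_lit 350) (nat_lit 174))))) (XT.nd (nat_lit 234) (nat_lit 1444) (nat_lit 0) (XT.nd (nat_lit 78) (nat_lit 532) (nat_lit 0) (XT.lf (nat_lit 0) (nat_lit 13939697360) (nat_lit 608) (nat_lit 2062241888) (nat_lit 76) (nat_lit 11550765977) (nat_lit 184) (nat_lit 5) (nat_lit 192) (nat_lit 5) (nat_lit 185) (nat_lit 5) (nat_lit 377) (nat_lit 350) (nat_lit 173)) (XT.nd (nat_lit 78) (nat_lit 0) (nat_lit 0) (XT.lf (nat_lit 0) (nat_lit 12651307837) (nat_lit 532) (nat_lit 4807364284) (nat_lit 608) (nat_lit 10567034152) (nat_lit 177) (nat_lit 5) (nat_lit 184) (nat_lit 5) (nat_lit 185) (nat_lit 5) (nat_lit 378) (nat_lit 350) (nat_lit 172)) (XT.lf (nat_lit 0)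 (nat_lit 21165001889) (nat_lit 608) (nat_lit 732812712) (nat_lit 76) (nat_lit 6612631337) (nat_lit 177) (nat_lit 5) (nat_lit 185) (nat_lit 5) (nat_lit 178) (nat_lit 5) (nat_lit 379) (nat_lit 350) (nat_lit 171)))) (XT.nd (nat_lit 156) (nat_lit 532) (nat_lit 0) (XT.nd (nat_lit 78) (nat_lit 456) (nat_lit 0) (XT.lf (nat_lit 0) (nat_lit 14580825143) (nat_lit 456) (nat_lit 10585695564) (nat_lit 532) (nat_lit 3837689209) (nat_lit 171) (nat_lit 5) (nat_lit 177) (nat_lit 5) (nat_lit 178) (nat_lit 5) (nat_lit 380) (nat_lit 350) (nat_lit 170)) (XT.lf (nat_lit 0) (nat_lit 858574203) (nat_lit 456) (nat_lit 28451790387) (nat_lit 532) (nat_lit 201755874) (nat_lit 165) (nat_lit 5) (nat_lit 171) (nat_lit 5) (nat_lit 172) (nat_lit 5) (nat_lit 381) (nat_lit 350) (nat_lit 169))) (XT.nd (nat_lit 78) (nat_lit 456) (nat_lit 0) (XT.lf (nat_lit 0) (nat_lit 3722350561) (nat_lit 532) (nat_lit 13280776944) (nat_lit 76) (nat_lit 13023673840)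 (nat_lit 164) (nat_lit 5) (nat_lit 171) (nat_lit 5) (nat_lit 165) (nat_lit 5) (nat_lit 382) (nat_lit 350) (nat_lit 168)) (XT.lf (nat_lit 0) (nat_lit 2597768340) (nat_lit 456) (nat_lit 5183772700) (nat_lit 532) (nat_lit 22774681068) (nat_lit 158) (nat_lit 5) (nat_lit 164) (nat_lit 5) (nat_lit 165) (nat_lit 5) (nat_lit 383) (nat_lit 350) (nat_lit 167))))))) (XT.nd (nat_lit 1014) (nat_lit 2128) (nat_lit 0) (XT.nd (nat_lit 468) (nat_lit 1520) (nat_lit 0) (XT.nd (nat_lit 234) (nat_lit 912) (nat_lit 0) (XT.nd (nat_lit 78) (nat_lit 456) (nat_lit 0) (XT.lf (nat_lit 0) (nat_lit 12161642226) (nat_lit 532) (nat_lit 11945273040) (nat_lit 76) (nat_lit 6988637989) (nat_lit 158) (nat_lit 5) (nat_lit 165) (nat_lit 5) (nat_lit 159) (nat_lit 5) (nat_lit 384) (nat_lit 350) (nat_lit 166)) (XT.nd (nat_lit 78) (nat_lit 0) (nat_lit 0) (XT.lf (nat_lit 0) (nat_lit 4582355936) (nat_lit 456) (nat_lit 12182768878) (nat_lit 532) (nat_lit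 14883181925) (nat_lit 152) (nat_lit 5) (nat_lit 158) (nat_lit 5) (nat_lit 159) (nat_lit 5) (nat_lit 385) (nat_lit 350) (nat_lit 165)) (XT.lf (nat_lit 0) (nat_lit 21626142111) (nat_lit 532) (nat_lit 10369587526) (nat_lit 76) (nat_lit 218331990) (nat_lit 152) (nat_lit 5) (nat_lit 159) (nat_lit 5) (nat_lit 153) (nat_lit 5) (nat_lit 386) (nat_lit 350) (nat_lit 164)))) (XT.nd (nat_lit 78) (nat_lit 532) (nat_lit 0) (XT.lf (nat_lit 0) (nat_lit 6836472031) (nat_lit 380) (nat_lit 19979612488) (nat_lit 456) (nat_lit 5975213459) (nat_lit 147) (nat_lit 5) (nat_lit 152) (nat_lit 5) (nat_lit 153) (nat_lit 5) (nat_lit 387) (nat_lit 350) (nat_lit 163)) (XT.nd (nat_lit 78) (nat_lit 532) (nat_lit 0) (XT.lf (nat_lit 0) (nat_lit 24767341410) (nat_lit 380) (nat_lit 7495909663) (nat_lit 456) (nat_lit 1119556177) (nat_lit 147) (nat_lit 5) (nat_lit 152) (nat_lit 5) (nat_lit 153) (nat_lit 5) (nat_lit 388) (nat_lit 350) (nat_lit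 162)) (XT.lf (nat_lit 0) (nat_lit 3945922956) (nat_lit 532) (nat_lit 24655103150) (nat_lit 76) (nat_lit 5385720807) (nat_lit 140) (nat_lit 5) (nat_lit 147) (nat_lit 5) (nat_lit 141) (nat_lit 5) (nat_lit 389) (nat_lit 350) (nat_lit 161))))) (XT.nd (nat_lit 234) (nat_lit 1140) (nat_lit 0) (XT.nd (nat_lit 78) (nat_lit 380) (nat_lit 0) (XT.lf (nat_lit 0) (nat_lit 9299862711) (nat_lit 532) (nat_lit 6702517955) (nat_lit 76) (nat_lit 18601323081) (nat_lit 140) (nat_lit 5) (nat_lit 147) (nat_lit 5) (nat_lit 141) (nat_lit 5) (nat_lit 390) (nat_lit 350) (nat_lit 160)) (XT.nd (nat_lit 78) (nat_lit 0) (nat_lit 0) (XT.lf (nat_lit 0) (nat_lit 12019365116) (nat_lit 380) (nat_lit 2907603325) (nat_lit 456) (nat_lit 20308825841) (nat_lit 135) (nat_lit 5) (nat_lit 140) (nat_lit 5) (nat_lit 141) (nat_lit 5) (nat_lit 391) (nat_lit 350) (nat_lit 159)) (XT.lf (nat_lit 0) (nat_lit 20889994239) (nat_lit 456) (nat_lit 4550753820)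 (nat_lit 76) (nat_lit 10441087650) (nat_lit 135) (nat_lit 5) (nat_lit 141) (nat_lit 5) (nat_lit 136) (nat_lit 5) (nat_lit 392) (nat_lit 350) (nat_lit 158)))) (XT.nd (nat_lit 156) (nat_lit 760) (nat_lit 0) (XT.nd (nat_lit 78) (nat_lit 0) (nat_lit 0) (XT.lf (nat_lit 0) (nat_lit 14933762938) (nat_lit 380) (nat_lit 12267627215) (nat_lit 456) (nat_lit 9340785195) (nat_lit 130) (nat_lit 5) (nat_lit 135) (nat_lit 5) (nat_lit 136) (nat_lit 5) (nat_lit 393) (nat_lit 350) (nat_lit 157)) (XT.lf (nat_lit 0) (nat_lit 33758217304) (nat_lit 456) (nat_lit 2141595821) (nat_lit 76) (nat_lit 1320830676) (nat_lit 130) (nat_lit 5) (nat_lit 136) (nat_lit 5) (nat_lit 131) (nat_lit 5) (nat_lit 394) (nat_lit 350) (nat_lit 156))) (XT.nd (nat_lit 78) (nat_lit 380) (nat_lit 0) (XT.lf (nat_lit 0) (nat_lit 2837673956) (nat_lit 380) (nat_lit 19800475945) (nat_lit 76) (nat_lit 15271690805) (nat_lit 125) (nat_lit 5) (nat_lit 130) (nat_lit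 5) (nat_lit 126) (nat_lit 5) (nat_lit 395) (nat_lit 350) (nat_lit 155)) (XT.lf (nat_lit 0) (nat_lit 361548280) (nat_lit 380) (nat_lit 8918230009) (nat_lit 456) (nat_lit 29338230215) (nat_lit 120) (nat_lit 5) (nat_lit 125) (nat_lit 5) (nat_lit 126) (nat_lit 5) (nat_lit 396) (nat_lit 350) (nat_lit 154)))))) (XT.nd (nat_lit 546) (nat_lit 1140) (nat_lit 0) (XT.nd (nat_lit 234) (nat_lit 684) (nat_lit 0) (XT.nd (nat_lit 78) (nat_lit 304) (nat_lit 0) (XT.lf (nat_lit 0) (nat_lit 16164496071) (nat_lit 456) (nat_lit 17862929420) (nat_lit 76) (nat_lit 5312516497) (nat_lit 120) (nat_lit 5) (nat_lit 126) (nat_lit 5) (nat_lit 121) (nat_lit 5) (nat_lit 397) (nat_lit 350) (nat_lit 153)) (XT.nd (nat_lit 78) (nat_lit 0) (nat_lit 0) (XT.lf (nat_lit 0) (nat_lit 3111190308) (nat_lit 304) (nat_lit 20260160721) (nat_lit 380) (nat_lit 16708715705) (nat_lit 116) (nat_lit 5) (nat_lit 120) (nat_lit 5) (nat_lit 121) (nat_lit 5) (nat_lit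 398) (nat_lit 350) (nat_lit 152)) (XT.lf (nat_lit 0) (nat_lit 25077113520) (nat_lit 304) (nat_lit 5895109845) (nat_lit 380) (nat_lit 9864838599) (nat_lit 116) (nat_lit 5) (nat_lit 120) (nat_lit 5) (nat_lit 121) (nat_lit 5) (nat_lit 399) (nat_lit 350) (nat_lit 151)))) (XT.nd (nat_lit 156) (nat_lit 304) (nat_lit 0) (XT.nd (nat_lit 78) (nat_lit 76) (nat_lit 0) (XT.lf (nat_lit 0) (nat_lit 6115467001) (nat_lit 304) (nat_lit 32827497738) (nat_lit 380) (nat_lit 2669548090) (nat_lit 112) (nat_lit 5) (nat_lit 116) (nat_lit 5) (nat_lit 117) (nat_lit 5) (nat_lit 400) (nat_lit 350) (nat_lit 150)) (XT.lf (nat_lit 0) (nat_lit 4865673216) (nat_lit 380) (nat_lit 13545336808) (nat_lit 76) (nat_lit 23992352887) (nat_lit 111) (nat_lit 5) (nat_lit 116) (nat_lit 5) (nat_lit 112) (nat_lit 5) (nat_lit 401) (nat_lit 350) (nat_lit 149))) (XT.nd (nat_lit 78) (nat_lit 0) (nat_lit 0) (XT.lf (nat_lit 0) (nat_lit 9214840987) (nat_lit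 304) (nat_lit 3444616219) (nat_lit 380) (nat_lit 30555104487) (nat_lit 107) (nat_lit 5) (nat_lit 111) (nat_lit 5) (nat_lit 112) (nat_lit 5) (nat_lit 402) (nat_lit 350) (nat_lit 148)) (XT.lf (nat_lit 0) (nat_lit 20937870621) (nat_lit 380) (nat_lit 11230421698) (nat_lit 76) (nat_lit 11874280586) (nat_lit 107) (nat_lit 5) (nat_lit 112) (nat_lit 5) (nat_lit 108) (nat_lit 5) (nat_lit 403) (nat_lit 350) (nat_lit 147))))) (XT.nd (nat_lit 234) (nat_lit 532) (nat_lit 0) (XT.nd (nat_lit 78) (nat_lit 304) (nat_lit 0) (XT.lf (nat_lit 0) (nat_lit 12426953250) (nat_lit 304) (nat_lit 17188923322) (nat_lit 380) (nat_lit 15275011593) (nat_lit 103) (nat_lit 5) (nat_lit 107) (nat_lit 5) (nat_lit 108) (nat_lit 5) (nat_lit 404) (nat_lit 350) (nat_lit 146)) (XT.nd (nat_lit 78) (nat_lit 304) (nat_lit 0) (XT.lf (nat_lit 0) (nat_lit 37020902808) (nat_lit 304) (nat_lit 1644439976) (nat_lit 380) (nat_lit 7095977388) (nat_lit 103)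 (nat_lit 5) (nat_lit 107) (nat_lit 5) (nat_lit 108) (nat_lit 5) (nat_lit 405) (nat_lit 350) (nat_lit 145)) (XT.lf (nat_lit 0) (nat_lit 1593713562) (nat_lit 304) (nat_lit 30801908628) (nat_lit 76) (nat_lit 14253124453) (nat_lit 99) (nat_lit 5) (nat_lit 103) (nat_lit 5) (nat_lit 100) (nat_lit 5) (nat_lit 406) (nat_lit 350) (nat_lit 144)))) (XT.nd (nat_lit 156) (nat_lit 228) (nat_lit 0) (XT.nd (nat_lit 78) (nat_lit 304) (nat_lit 0) (XT.lf (nat_lit 0) (nat_lit 10504671793) (nat_lit 304) (nat_lit 6300010936) (nat_lit 76) (nat_lit 30752910316) (nat_lit 99) (nat_lit 5) (nat_lit 103) (nat_lit 5) (nat_lit 100) (nat_lit 5) (nat_lit 407) (nat_lit 350) (nat_lit 143)) (XT.lf (nat_lit 0) (nat_lit 19310527409) (nat_lit 304) (nat_lit 555902702) (nat_lit 380) (nat_lit 28621771380) (nat_lit 95) (nat_lit 5) (nat_lit 99) (nat_lit 5) (nat_lit 100) (nat_lit 5) (nat_lit 408) (nat_lit 350) (nat_lit 142))) (XT.nd (nat_lit 78) (nat_lit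 228) (nat_lit 0) (XT.lf (nat_lit 0) (nat_lit 29726692424) (nat_lit 380) (nat_lit 3785715442) (nat_lit 76) (nat_lit 15927791554) (nat_lit 95) (nat_lit 5) (nat_lit 100) (nat_lit 5) (nat_lit 96) (nat_lit 5) (nat_lit 409) (nat_lit 350) (nat_lit 141)) (XT.lf (nat_lit 0) (nat_lit 22804330927) (nat_lit 228) (nat_lit 17301075209) (nat_lit 304) (nat_lit 10308672589) (nat_lit 92) (nat_lit 5) (nat_lit 95) (nat_lit 5) (nat_lit 96) (nat_lit 5) (nat_lit 410) (nat_lit 350) (nat_lit 140))))))))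
noncomputable def xc214 : XT := (XT.nd (nat_lit 42666) (nat_lit 0) (nat_lit 7904) (XT.nd (nat_lit 1014) (nat_lit 608) (nat_lit 0) (XT.nd (nat_lit 468) (nat_lit 988) (nat_lit 0) (XT.nd (nat_lit 234) (nat_lit 228) (nat_lit 0) (XT.nd (nat_lit 78) (nat_lit 608) (nat_lit 0) (XT.lf (nat_lit 0) (nat_lit 50266551465) (nat_lit 228) (nat_lit 565118650) (nat_lit 304) (nat_lit 584419352) (nat_lit 92) (nat_lit 5) (nat_lit 95) (nat_lit 5) (nat_lit 96) (nat_lit 5) (nat_lit 411) (nat_lit 350) (nat_lit 139)) (XT.nd (nat_lit 78) (nat_lit 228) (nat_lit 0) (XT.lf (nat_lit 0) (nat_lit 9664206984) (nat_lit 380) (nat_lit 26073132702) (nat_lit 76) (nat_lit 16695600992) (nat_lit 87) (nat_lit 5) (nat_lit 92) (nat_lit 5) (nat_lit 88) (nat_lit 5) (nat_lit 412) (nat_lit 350) (nat_lit 138)) (XT.lf (nat_lit 0) (nat_lit 1247802960) (nat_lit 228) (nat_lit 18988074031) (nat_lit 304) (nat_lit 33243427573) (nat_lit 84) (nat_lit 5) (nat_lit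 87) (nat_lit 5) (nat_lit 88) (nat_lit 5) (nat_lit 413) (nat_lit 350) (nat_lit 137)))) (XT.nd (nat_lit 78) (nat_lit 228) (nat_lit 0) (XT.lf (nat_lit 0) (nat_lit 29919771508) (nat_lit 228) (nat_lit 1466259569) (nat_lit 304) (nat_lit 23163188913) (nat_lit 84) (nat_lit 5) (nat_lit 87) (nat_lit 5) (nat_lit 88) (nat_lit 5) (nat_lit 414) (nat_lit 350) (nat_lit 136)) (XT.nd (nat_lit 78) (nat_lit 0) (nat_lit 0) (XT.lf (nat_lit 0) (nat_lit 3710659258) (nat_lit 228) (nat_lit 39353181333) (nat_lit 304) (nat_lit 12581598388) (nat_lit 81) (nat_lit 5) (nat_lit 84) (nat_lit 5) (nat_lit 85) (nat_lit 5) (nat_lit 415) (nat_lit 350) (nat_lit 135)) (XT.lf (nat_lit 0) (nat_lit 33388046530) (nat_lit 228) (nat_lit 21965141779) (nat_lit 304) (nat_lit 1413520716) (nat_lit 81) (nat_lit 5) (nat_lit 84) (nat_lit 5) (nat_lit 85) (nat_lit 5) (nat_lit 416) (nat_lit 350) (nat_lit 134))))) (XT.nd (nat_lit 234) (nat_lit 456) (nat_lit 0)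 (XT.nd (nat_lit 78) (nat_lit 228) (nat_lit 0) (XT.lf (nat_lit 0) (nat_lit 6052306252) (nat_lit 228) (nat_lit 3896742883) (nat_lit 304) (nat_lit 47967968958) (nat_lit 77) (nat_lit 5) (nat_lit 80) (nat_lit 5) (nat_lit 81) (nat_lit 5) (nat_lit 417) (nat_lit 350) (nat_lit 133)) (XT.nd (nat_lit 78) (nat_lit 228) (nat_lit 0) (XT.lf (nat_lit 0) (nat_lit 22002109842) (nat_lit 304) (nat_lit 22410042718) (nat_lit 76) (nat_lit 14677923847) (nat_lit 77) (nat_lit 5) (nat_lit 81) (nat_lit 5) (nat_lit 78) (nat_lit 5) (nat_lit 418) (nat_lit 350) (nat_lit 132)) (XT.lf (nat_lit 0) (nat_lit 8043771570) (nat_lit 228) (nat_lit 26487118238) (nat_lit 304) (nat_lit 25764013376) (nat_lit 74) (nat_lit 5) (nat_lit 77) (nat_lit 5) (nat_lit 78) (nat_lit 5) (nat_lit 419) (nat_lit 350) (nat_lit 131)))) (XT.nd (nat_lit 156) (nat_lit 304) (nat_lit 0) (XT.nd (nat_lit 78) (nat_lit 152) (nat_lit 0) (XT.lf (nat_lit 0) (nat_lit 39867736141)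 (nat_lit 228) (nat_lit 7792343044) (nat_lit 304) (nat_lit 13869059722) (nat_lit 74) (nat_lit 5) (nat_lit 77) (nat_lit 5) (nat_lit 78) (nat_lit 5) (nat_lit 420) (nat_lit 350) (nat_lit 130)) (XT.lf (nat_lit 0) (nat_lit 9926725715) (nat_lit 152) (nat_lit 51460321605) (nat_lit 228) (nat_lit 1407237798) (nat_lit 72) (nat_lit 5) (nat_lit 74) (nat_lit 5) (nat_lit 75) (nat_lit 5) (nat_lit 421) (nat_lit 350) (nat_lit 129))) (XT.nd (nat_lit 78) (nat_lit 228) (nat_lit 0) (XT.lf (nat_lit 0) (nat_lit 11501779327) (nat_lit 228) (nat_lit 21376276067) (nat_lit 76) (nat_lit 31207144568) (nat_lit 71) (nat_lit 5) (nat_lit 74) (nat_lit 5) (nat_lit 72) (nat_lit 5) (nat_lit 422) (nat_lit 350) (nat_lit 128)) (XT.lf (nat_lit 0) (nat_lit 11262860354) (nat_lit 228) (nat_lit 13613532906) (nat_lit 304) (nat_lit 40534833152) (nat_lit 68) (nat_lit 5) (nat_lit 71) (nat_lit 5) (nat_lit 72) (nat_lit 5) (nat_lit 423) (nat_lit 350) (nat_lit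 127)))))) (XT.nd (nat_lit 468) (nat_lit 0) (nat_lit 0) (XT.nd (nat_lit 234) (nat_lit 456) (nat_lit 0) (XT.nd (nat_lit 78) (nat_lit 152) (nat_lit 0) (XT.lf (nat_lit 0) (nat_lit 38928474324) (nat_lit 304) (nat_lit 21515951483) (nat_lit 76) (nat_lit 6324321439) (nat_lit 68) (nat_lit 5) (nat_lit 72) (nat_lit 5) (nat_lit 69) (nat_lit 5) (nat_lit 424) (nat_lit 350) (nat_lit 126)) (XT.nd (nat_lit 78) (nat_lit 0) (nat_lit 0) (XT.lf (nat_lit 0) (nat_lit 12195971623) (nat_lit 152) (nat_lit 41456573435) (nat_lit 228) (nat_lit 14506936268) (nat_lit 66) (nat_lit 5) (nat_lit 68) (nat_lit 5) (nat_lit 69) (nat_lit 5) (nat_lit 425) (nat_lit 350) (nat_lit 125)) (XT.lf (nat_lit 0) (nat_lit 47357670665) (nat_lit 152) (nat_lit 21676361927) (nat_lit 228) (nat_lit 551434418) (nat_lit 66) (nat_lit 5) (nat_lit 68) (nat_lit 5) (nat_lit 69) (nat_lit 5) (nat_lit 426) (nat_lit 350) (nat_lit 124)))) (XT.nd (nat_lit 78) (nat_lit 152)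 (nat_lit 0) (XT.lf (nat_lit 0) (nat_lit 12631000186) (nat_lit 228) (nat_lit 1041873973) (nat_lit 304) (nat_lit 57373776143) (nat_lit 62) (nat_lit 5) (nat_lit 65) (nat_lit 5) (nat_lit 66) (nat_lit 5) (nat_lit 427) (nat_lit 350) (nat_lit 123)) (XT.nd (nat_lit 78) (nat_lit 152) (nat_lit 0) (XT.lf (nat_lit 0) (nat_lit 28732261292) (nat_lit 304) (nat_lit 23758298189) (nat_lit 76) (nat_lit 20048363230) (nat_lit 62) (nat_lit 5) (nat_lit 66) (nat_lit 5) (nat_lit 63) (nat_lit 5) (nat_lit 428) (nat_lit 350) (nat_lit 122)) (XT.lf (nat_lit 0) (nat_lit 12163281313) (nat_lit 152) (nat_lit 32205896223) (nat_lit 228) (nat_lit 29703013709) (nat_lit 60) (nat_lit 5) (nat_lit 62) (nat_lit 5) (nat_lit 63) (nat_lit 5) (nat_lit 429) (nat_lit 350) (nat_lit 121))))) (XT.nd (nat_lit 40872) (nat_lit 0) (nat_lit 13680) (XT.nd (nat_lit 40716) (nat_lit 0) (nat_lit 13680) (XT.lf (nat_lit 0) (nat_lit 49647027965) (nat_lit 152) (nat_lit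 11066615860) (nat_lit 228) (nat_lit 14930661099) (nat_lit 60) (nat_lit 5) (nat_lit 62) (nat_lit 5) (nat_lit 63) (nat_lit 5) (nat_lit 430) (nat_lit 350) (nat_lit 120)) (XT.nd (nat_lit 78) (nat_lit 0) (nat_lit 0) (XT.lf (nat_lit 0) (nat_lit 3700059719) (nat_lit 0) (nat_lit 3700059719) (nat_lit 1140) (nat_lit 1867143332) (nat_lit 240) (nat_lit 5) (nat_lit 240) (nat_lit 3) (nat_lit 255) (nat_lit 3) (nat_lit 351) (nat_lit 351) (nat_lit 198)) (XT.lf (nat_lit 0) (nat_lit 15221234766) (nat_lit 1140) (nat_lit 2369862357) (nat_lit 1216) (nat_lit 1215353628) (nat_lit 240) (nat_lit 5) (nat_lit 255) (nat_lit 3) (nat_lit 256) (nat_lit 5) (nat_lit 352) (nat_lit 351) (nat_lit 197)))) (XT.nd (nat_lit 156) (nat_lit 0) (nat_lit 76) (XT.nd (nat_lit 78) (nat_lit 0) (nat_lit 0) (XT.lf (nat_lit 76) (nat_lit 6711403376) (nat_lit 0) (nat_lit 9073973774) (nat_lit 1216) (nat_lit 3297245863) (nat_lit 241) (nat_lit 5) (nat_lit 240)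 (nat_lit 5) (nat_lit 256) (nat_lit 5) (nat_lit 353) (nat_lit 351) (nat_lit 196)) (XT.lf (nat_lit 76) (nat_lit 16109815797) (nat_lit 0) (nat_lit 273467389) (nat_lit 1216) (nat_lit 2983296735) (nat_lit 241) (nat_lit 5) (nat_lit 240) (nat_lit 5) (nat_lit 256) (nat_lit 5) (nat_lit 354) (nat_lit 351) (nat_lit 195))) (XT.nd (nat_lit 78) (nat_lit 0) (nat_lit 0) (XT.lf (nat_lit 76) (nat_lit 6162880545) (nat_lit 0) (nat_lit 10973137248) (nat_lit 1216) (nat_lit 2518935521) (nat_lit 242) (nat_lit 5) (nat_lit 241) (nat_lit 5) (nat_lit 257) (nat_lit 5) (nat_lit 355) (nat_lit 351) (nat_lit 194)) (XT.lf (nat_lit 76) (nat_lit 15925153236) (nat_lit 0) (nat_lit 2015055799) (nat_lit 1216) (nat_lit 2010907026) (nat_lit 242) (nat_lit 5) (nat_lit 241) (nat_lit 5) (nat_lit 257) (nat_lit 5) (nat_lit 356) (nat_lit 351) (nat_lit 193))))))) (XT.nd (nat_lit 1014) (nat_lit 3876) (nat_lit 0) (XT.nd (nat_lit 468) (nat_lit 912) (nat_lit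 0) (XT.nd (nat_lit 234) (nat_lit 0) (nat_lit 0) (XT.nd (nat_lit 78) (nat_lit 1140) (nat_lit 0) (XT.lf (nat_lit 76) (nat_lit 5763197554) (nat_lit 0) (nat_lit 13123578841) (nat_lit 1216) (nat_lit 1365844046) (nat_lit 243) (nat_lit 5) (nat_lit 242) (nat_lit 5) (nat_lit 258) (nat_lit 5) (nat_lit 357) (nat_lit 351) (nat_lit 192)) (XT.nd (nat_lit 78) (nat_lit 1140) (nat_lit 0) (XT.lf (nat_lit 76) (nat_lit 15904183145) (nat_lit 0) (nat_lit 4011644278) (nat_lit 1216) (nat_lit 645724069) (nat_lit 243) (nat_lit 5) (nat_lit 242) (nat_lit 5) (nat_lit 258) (nat_lit 5) (nat_lit 358) (nat_lit 351) (nat_lit 191)) (XT.lf (nat_lit 0) (nat_lit 193713054) (nat_lit 1216) (nat_lit 15357077518) (nat_lit 1292) (nat_lit 5325948511) (nat_lit 227) (nat_lit 5) (nat_lit 243) (nat_lit 5) (nat_lit 244) (nat_lit 5) (nat_lit 359) (nat_lit 351) (nat_lit 190)))) (XT.nd (nat_lit 78) (nat_lit 0) (nat_lit 76) (XT.lf (nat_lit 0) (nat_lit 1126528431)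 (nat_lit 1216) (nat_lit 5153281348) (nat_lit 1292) (nat_lit 14918949305) (nat_lit 227) (nat_lit 5) (nat_lit 243) (nat_lit 5) (nat_lit 244) (nat_lit 5) (nat_lit 360) (nat_lit 351) (nat_lit 189)) (XT.nd (nat_lit 78) (nat_lit 0) (nat_lit 0) (XT.lf (nat_lit 0) (nat_lit 2165901757) (nat_lit 1216) (nat_lit 16101936525) (nat_lit 1292) (nat_lit 3260247872) (nat_lit 228) (nat_lit 5) (nat_lit 244) (nat_lit 5) (nat_lit 245) (nat_lit 5) (nat_lit 361) (nat_lit 351) (nat_lit 188)) (XT.lf (nat_lit 0) (nat_lit 3345468453) (nat_lit 1216) (nat_lit 5504057625) (nat_lit 1292) (nat_lit 13014500166) (nat_lit 228) (nat_lit 5) (nat_lit 244) (nat_lit 5) (nat_lit 245) (nat_lit 5) (nat_lit 362) (nat_lit 351) (nat_lit 187))))) (XT.nd (nat_lit 234) (nat_lit 1064) (nat_lit 0) (XT.nd (nat_lit 78) (nat_lit 0) (nat_lit 0) (XT.lf (nat_lit 0) (nat_lit 4616609689) (nat_lit 1216) (nat_lit 16702077516) (nat_lit 1292) (nat_lit 889675168) (nat_lit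 229) (nat_lit 5) (nat_lit 245) (nat_lit 5) (nat_lit 246) (nat_lit 5) (nat_lit 363) (nat_lit 351) (nat_lit 186)) (XT.nd (nat_lit 78) (nat_lit 0) (nat_lit 0) (XT.lf (nat_lit 0) (nat_lit 6064219403) (nat_lit 1216) (nat_lit 5694015673) (nat_lit 1292) (nat_lit 10800646848) (nat_lit 229) (nat_lit 5) (nat_lit 245) (nat_lit 5) (nat_lit 246) (nat_lit 5) (nat_lit 364) (nat_lit 351) (nat_lit 185)) (XT.lf (nat_lit 76) (nat_lit 5752411575) (nat_lit 0) (nat_lit 1852883942) (nat_lit 1292) (nat_lit 15313123666) (nat_lit 230) (nat_lit 5) (nat_lit 229) (nat_lit 5) (nat_lit 246) (nat_lit 5) (nat_lit 365) (nat_lit 351) (nat_lit 184)))) (XT.nd (nat_lit 156) (nat_lit 1140) (nat_lit 0) (XT.nd (nat_lit 78) (nat_lit 0) (nat_lit 0) (XT.lf (nat_lit 0) (nat_lit 9325799759) (nat_lit 1216) (nat_lit 5713149161) (nat_lit 1292) (nat_lit 8245800936) (nat_lit 230) (nat_lit 5) (nat_lit 246) (nat_lit 5) (nat_lit 247) (nat_lit 5) (nat_lit 366)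 (nat_lit 351) (nat_lit 183)) (XT.lf (nat_lit 76) (nat_lit 6181441839) (nat_lit 0) (nat_lit 4989258426) (nat_lit 1292) (nat_lit 12489189831) (nat_lit 231) (nat_lit 5) (nat_lit 230) (nat_lit 5) (nat_lit 247) (nat_lit 5) (nat_lit 367) (nat_lit 351) (nat_lit 182))) (XT.nd (nat_lit 78) (nat_lit 1216) (nat_lit 0) (XT.lf (nat_lit 0) (nat_lit 13175882065) (nat_lit 1216) (nat_lit 5550928989) (nat_lit 76) (nat_lit 5316328448) (nat_lit 231) (nat_lit 5) (nat_lit 247) (nat_lit 5) (nat_lit 232) (nat_lit 5) (nat_lit 368) (nat_lit 351) (nat_lit 181)) (XT.lf (nat_lit 0) (nat_lit 6813857406) (nat_lit 1216) (nat_lit 8537530726) (nat_lit 1292) (nat_lit 9083196097) (nat_lit 215) (nat_lit 5) (nat_lit 231) (nat_lit 5) (nat_lit 232) (nat_lit 5) (nat_lit 369) (nat_lit 351) (nat_lit 180)))))) (XT.nd (nat_lit 546) (nat_lit 2052) (nat_lit 0) (XT.nd (nat_lit 234) (nat_lit 1216) (nat_lit 0) (XT.nd (nat_lit 78) (nat_lit 608) (nat_lit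 0) (XT.lf (nat_lit 0) (nat_lit 17662958866) (nat_lit 1292) (nat_lit 5196315004) (nat_lit 76) (nat_lit 1976377260) (nat_lit 215) (nat_lit 5) (nat_lit 232) (nat_lit 5) (nat_lit 216) (nat_lit 5) (nat_lit 370) (nat_lit 351) (nat_lit 179)) (XT.nd (nat_lit 78) (nat_lit 0) (nat_lit 0) (XT.lf (nat_lit 0) (nat_lit 7661700391) (nat_lit 608) (nat_lit 12535865004) (nat_lit 684) (nat_lit 5046576718) (nat_lit 207) (nat_lit 5) (nat_lit 215) (nat_lit 5) (nat_lit 216) (nat_lit 5) (nat_lit 371) (nat_lit 351) (nat_lit 178)) (XT.lf (nat_lit 0) (nat_lit 21007909726) (nat_lit 608) (nat_lit 1848374402) (nat_lit 684) (nat_lit 2807164133) (nat_lit 207) (nat_lit 5) (nat_lit 215) (nat_lit 5) (nat_lit 216) (nat_lit 5) (nat_lit 372) (nat_lit 351) (nat_lit 177)))) (XT.nd (nat_lit 156) (nat_lit 608) (nat_lit 0) (XT.nd (nat_lit 78) (nat_lit 76) (nat_lit 0) (XT.lf (nat_lit 0) (nat_lit 8737542377) (nat_lit 532) (nat_lit 17024994317) (nat_lit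 608) (nat_lit 327766310) (nat_lit 200) (nat_lit 5) (nat_lit 207) (nat_lit 5) (nat_lit 208) (nat_lit 5) (nat_lit 373) (nat_lit 351) (nat_lit 176)) (XT.lf (nat_lit 0) (nat_lit 2244128137) (nat_lit 608) (nat_lit 3944995125) (nat_lit 76) (nat_lit 20338354057) (nat_lit 199) (nat_lit 5) (nat_lit 207) (nat_lit 5) (nat_lit 200) (nat_lit 5) (nat_lit 374) (nat_lit 351) (nat_lit 175))) (XT.nd (nat_lit 78) (nat_lit 0) (nat_lit 0) (XT.lf (nat_lit 0) (nat_lit 5027915691) (nat_lit 684) (nat_lit 16969738601) (nat_lit 76) (nat_lit 4975777853) (nat_lit 191) (nat_lit 5) (nat_lit 200) (nat_lit 5) (nat_lit 192) (nat_lit 5) (nat_lit 375) (nat_lit 351) (nat_lit 174)) (XT.lf (nat_lit 0) (nat_lit 7992705621) (nat_lit 684) (nat_lit 3045623682) (nat_lit 76) (nat_lit 16391513942) (nat_lit 191) (nat_lit 5) (nat_lit 200) (nat_lit 5) (nat_lit 192) (nat_lit 5) (nat_lit 376) (nat_lit 351) (nat_lit 173))))) (XT.nd (nat_lit 234) (nat_lit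 988) (nat_lit 0) (XT.nd (nat_lit 78) (nat_lit 532) (nat_lit 0) (XT.lf (nat_lit 0) (nat_lit 11156740233) (nat_lit 608) (nat_lit 16383261304) (nat_lit 76) (nat_lit 356638334) (nat_lit 184) (nat_lit 5) (nat_lit 192) (nat_lit 5) (nat_lit 185) (nat_lit 5) (nat_lit 377) (nat_lit 351) (nat_lit 172)) (XT.nd (nat_lit 78) (nat_lit 532) (nat_lit 0) (XT.lf (nat_lit 0) (nat_lit 14552216749) (nat_lit 608) (nat_lit 1918579019) (nat_lit 76) (nat_lit 11902551162) (nat_lit 184) (nat_lit 5) (nat_lit 192) (nat_lit 5) (nat_lit 185) (nat_lit 5) (nat_lit 378) (nat_lit 351) (nat_lit 171)) (XT.lf (nat_lit 0) (nat_lit 13234362196) (nat_lit 532) (nat_lit 4938694817) (nat_lit 608) (nat_lit 10687595301) (nat_lit 177) (nat_lit 5) (nat_lit 184) (nat_lit 5) (nat_lit 185) (nat_lit 5) (nat_lit 379) (nat_lit 351) (nat_lit 170)))) (XT.nd (nat_lit 156) (nat_lit 532) (nat_lit 0) (XT.nd (nat_lit 78) (nat_lit 456) (nat_lit 0) (XT.lf (nat_lit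 0) (nat_lit 21985144799) (nat_lit 608) (nat_lit 551674414) (nat_lit 76) (nat_lit 6823281013) (nat_lit 177) (nat_lit 5) (nat_lit 185) (nat_lit 5) (nat_lit 178) (nat_lit 5) (nat_lit 380) (nat_lit 351) (nat_lit 169)) (XT.lf (nat_lit 0) (nat_lit 15219381178) (nat_lit 456) (nat_lit 10883867433) (nat_lit 532) (nat_lit 3765535337) (nat_lit 171) (nat_lit 5) (nat_lit 177) (nat_lit 5) (nat_lit 178) (nat_lit 5) (nat_lit 381) (nat_lit 351) (nat_lit 168))) (XT.nd (nat_lit 78) (nat_lit 76) (nat_lit 0) (XT.lf (nat_lit 0) (nat_lit 1088804019) (nat_lit 456) (nat_lit 29279457178) (nat_lit 532) (nat_lit 23767935) (nat_lit 165) (nat_lit 5) (nat_lit 171) (nat_lit 5) (nat_lit 172) (nat_lit 5) (nat_lit 382) (nat_lit 351) (nat_lit 167)) (XT.lf (nat_lit 0) (nat_lit 4009214592) (nat_lit 532) (nat_lit 13477104694) (nat_lit 76) (nat_lit 13435938508) (nat_lit 164) (nat_lit 5) (nat_lit 171) (nat_lit 5) (nat_lit 165) (nat_lit 5) (nat_lit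 383) (nat_lit 351) (nat_lit 166))))))))
noncomputable def xc215 : XT := (XT.nd (nat_lit 2106) (nat_lit 2660) (nat_lit 0) (XT.nd (nat_lit 1014) (nat_lit 2280) (nat_lit 0) (XT.nd (nat_lit 468) (nat_lit 1672) (nat_lit 0) (XT.nd (nat_lit 234) (nat_lit 380) (nat_lit 0) (XT.nd (nat_lit 78) (nat_lit 456) (nat_lit 0) (XT.lf (nat_lit 0) (nat_lit 2875815620) (nat_lit 456) (nat_lit 5311186063) (nat_lit 532) (nat_lit 23280657544) (nat_lit 158) (nat_lit 5) (nat_lit 164) (nat_lit 5) (nat_lit 165) (nat_lit 5) (nat_lit 384) (nat_lit 351) (nat_lit 165)) (XT.nd (nat_lit 78) (nat_lit 456) (nat_lit 0) (XT.lf (nat_lit 0) (nat_lit 12693758020) (nat_lit 532) (nat_lit 12104511172) (nat_lit 76) (nat_lit 7225046147) (nat_lit 158) (nat_lit 5) (nat_lit 165) (nat_lit 5) (nat_lit 159) (nat_lit 5) (nat_lit 385) (nat_lit 351) (nat_lit 164)) (XT.lf (nat_lit 0) (nat_lit 4916994516) (nat_lit 456) (nat_lit 12515374028) (nat_lit 532) (nat_lit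 15160374701) (nat_lit 152) (nat_lit 5) (nat_lit 158) (nat_lit 5) (nat_lit 159) (nat_lit 5) (nat_lit 386) (nat_lit 351) (nat_lit 163)))) (XT.nd (nat_lit 78) (nat_lit 380) (nat_lit 0) (XT.lf (nat_lit 0) (nat_lit 22434738052) (nat_lit 532) (nat_lit 10484690146) (nat_lit 76) (nat_lit 256179376) (nat_lit 152) (nat_lit 5) (nat_lit 159) (nat_lit 5) (nat_lit 153) (nat_lit 5) (nat_lit 387) (nat_lit 351) (nat_lit 162)) (XT.nd (nat_lit 78) (nat_lit 0) (nat_lit 0) (XT.lf (nat_lit 0) (nat_lit 7235629776) (nat_lit 380) (nat_lit 20541959705) (nat_lit 456) (nat_lit 5992657588) (nat_lit 147) (nat_lit 5) (nat_lit 152) (nat_lit 5) (nat_lit 153) (nat_lit 5) (nat_lit 388) (nat_lit 351) (nat_lit 161)) (XT.lf (nat_lit 0) (nat_lit 25698772899) (nat_lit 380) (nat_lit 7684824665) (nat_lit 456) (nat_lit 996043566) (nat_lit 147) (nat_lit 5) (nat_lit 152) (nat_lit 5) (nat_lit 153) (nat_lit 5) (nat_lit 389) (nat_lit 351) (nat_lit 160)))))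 (XT.nd (nat_lit 234) (nat_lit 760) (nat_lit 0) (XT.nd (nat_lit 78) (nat_lit 380) (nat_lit 0) (XT.lf (nat_lit 0) (nat_lit 4216039397) (nat_lit 532) (nat_lit 25200837368) (nat_lit 76) (nat_lit 5584847936) (nat_lit 140) (nat_lit 5) (nat_lit 147) (nat_lit 5) (nat_lit 141) (nat_lit 5) (nat_lit 390) (nat_lit 351) (nat_lit 159)) (XT.nd (nat_lit 78) (nat_lit 380) (nat_lit 0) (XT.lf (nat_lit 0) (nat_lit 9726177770) (nat_lit 532) (nat_lit 6715322740) (nat_lit 76) (nat_lit 19195824429) (nat_lit 140) (nat_lit 5) (nat_lit 147) (nat_lit 5) (nat_lit 141) (nat_lit 5) (nat_lit 391) (nat_lit 351) (nat_lit 158)) (XT.lf (nat_lit 0) (nat_lit 12566371032) (nat_lit 380) (nat_lit 2953226820) (nat_lit 456) (nat_lit 20768857350) (nat_lit 135) (nat_lit 5) (nat_lit 140) (nat_lit 5) (nat_lit 141) (nat_lit 5) (nat_lit 392) (nat_lit 351) (nat_lit 157)))) (XT.nd (nat_lit 156) (nat_lit 380) (nat_lit 0) (XT.nd (nat_lit 78) (nat_lit 380)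 (nat_lit 0) (XT.lf (nat_lit 0) (nat_lit 21657684637) (nat_lit 456) (nat_lit 4502385230) (nat_lit 76) (nat_lit 10793924890) (nat_lit 135) (nat_lit 5) (nat_lit 141) (nat_lit 5) (nat_lit 136) (nat_lit 5) (nat_lit 393) (nat_lit 351) (nat_lit 156)) (XT.lf (nat_lit 0) (nat_lit 15564854372) (nat_lit 380) (nat_lit 12591221397) (nat_lit 456) (nat_lit 9478141145) (nat_lit 130) (nat_lit 5) (nat_lit 135) (nat_lit 5) (nat_lit 136) (nat_lit 5) (nat_lit 394) (nat_lit 351) (nat_lit 155))) (XT.nd (nat_lit 78) (nat_lit 380) (nat_lit 0) (XT.lf (nat_lit 0) (nat_lit 34905984254) (nat_lit 456) (nat_lit 2024411552) (nat_lit 76) (nat_lit 1402754193) (nat_lit 130) (nat_lit 5) (nat_lit 136) (nat_lit 5) (nat_lit 131) (nat_lit 5) (nat_lit 395) (nat_lit 351) (nat_lit 154)) (XT.lf (nat_lit 0) (nat_lit 3056993405) (nat_lit 380) (nat_lit 20212107284) (nat_lit 76) (nat_lit 15773950648) (nat_lit 125) (nat_lit 5) (nat_lit 130) (nat_lit 5)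 (nat_lit 126) (nat_lit 5) (nat_lit 396) (nat_lit 351) (nat_lit 153)))))) (XT.nd (nat_lit 546) (nat_lit 912) (nat_lit 0) (XT.nd (nat_lit 234) (nat_lit 684) (nat_lit 0) (XT.nd (nat_lit 78) (nat_lit 304) (nat_lit 0) (XT.lf (nat_lit 0) (nat_lit 552989599) (nat_lit 380) (nat_lit 9137198833) (nat_lit 456) (nat_lit 30082342625) (nat_lit 120) (nat_lit 5) (nat_lit 125) (nat_lit 5) (nat_lit 126) (nat_lit 5) (nat_lit 397) (nat_lit 351) (nat_lit 152)) (XT.nd (nat_lit 78) (nat_lit 304) (nat_lit 0) (XT.lf (nat_lit 0) (nat_lit 16778055960) (nat_lit 456) (nat_lit 18220035157) (nat_lit 76) (nat_lit 5518134849) (nat_lit 120) (nat_lit 5) (nat_lit 126) (nat_lit 5) (nat_lit 121) (nat_lit 5) (nat_lit 398) (nat_lit 351) (nat_lit 151)) (XT.lf (nat_lit 0) (nat_lit 3381555398) (nat_lit 304) (nat_lit 20817516525) (nat_lit 380) (nat_lit 17079545489) (nat_lit 116) (nat_lit 5) (nat_lit 120) (nat_lit 5) (nat_lit 121) (nat_lit 5) (nat_lit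 399) (nat_lit 351) (nat_lit 150)))) (XT.nd (nat_lit 156) (nat_lit 380) (nat_lit 0) (XT.nd (nat_lit 78) (nat_lit 304) (nat_lit 0) (XT.lf (nat_lit 0) (nat_lit 26001300111) (nat_lit 304) (nat_lit 6022983511) (nat_lit 380) (nat_lit 10034151051) (nat_lit 116) (nat_lit 5) (nat_lit 120) (nat_lit 5) (nat_lit 121) (nat_lit 5) (nat_lit 400) (nat_lit 351) (nat_lit 149)) (XT.lf (nat_lit 0) (nat_lit 6472355451) (nat_lit 304) (nat_lit 33760336532) (nat_lit 380) (nat_lit 2624502262) (nat_lit 112) (nat_lit 5) (nat_lit 116) (nat_lit 5) (nat_lit 117) (nat_lit 5) (nat_lit 401) (nat_lit 351) (nat_lit 148))) (XT.nd (nat_lit 78) (nat_lit 304) (nat_lit 0) (XT.lf (nat_lit 0) (nat_lit 5130760392) (nat_lit 380) (nat_lit 13780905106) (nat_lit 76) (nat_lit 24760176889) (nat_lit 111) (nat_lit 5) (nat_lit 116) (nat_lit 5) (nat_lit 112) (nat_lit 5) (nat_lit 402) (nat_lit 351) (nat_lit 147)) (XT.lf (nat_lit 0) (nat_lit 9660403593) (nat_lit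 304) (nat_lit 3496110542) (nat_lit 380) (nat_lit 31350919705) (nat_lit 107) (nat_lit 5) (nat_lit 111) (nat_lit 5) (nat_lit 112) (nat_lit 5) (nat_lit 403) (nat_lit 351) (nat_lit 146))))) (XT.nd (nat_lit 234) (nat_lit 608) (nat_lit 0) (XT.nd (nat_lit 78) (nat_lit 304) (nat_lit 0) (XT.lf (nat_lit 0) (nat_lit 21680348071) (nat_lit 380) (nat_lit 11400165687) (nat_lit 76) (nat_lit 12279860942) (nat_lit 107) (nat_lit 5) (nat_lit 112) (nat_lit 5) (nat_lit 108) (nat_lit 5) (nat_lit 404) (nat_lit 351) (nat_lit 145)) (XT.nd (nat_lit 78) (nat_lit 0) (nat_lit 0) (XT.lf (nat_lit 0) (nat_lit 12965291602) (nat_lit 304) (nat_lit 17651663442) (nat_lit 380) (nat_lit 15617237864) (nat_lit 103) (nat_lit 5) (nat_lit 107) (nat_lit 5) (nat_lit 108) (nat_lit 5) (nat_lit 405) (nat_lit 351) (nat_lit 144)) (XT.lf (nat_lit 0) (nat_lit 38292238391) (nat_lit 304) (nat_lit 1642387176) (nat_lit 380) (nat_lit 7196211975) (nat_lit 103) (nat_lit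 5) (nat_lit 107) (nat_lit 5) (nat_lit 108) (nat_lit 5) (nat_lit 406) (nat_lit 351) (nat_lit 143)))) (XT.nd (nat_lit 156) (nat_lit 304) (nat_lit 0) (XT.nd (nat_lit 78) (nat_lit 0) (nat_lit 0) (XT.lf (nat_lit 0) (nat_lit 1750811037) (nat_lit 304) (nat_lit 31561817284) (nat_lit 76) (nat_lit 14732262022) (nat_lit 99) (nat_lit 5) (nat_lit 103) (nat_lit 5) (nat_lit 100) (nat_lit 5) (nat_lit 407) (nat_lit 351) (nat_lit 142)) (XT.lf (nat_lit 0) (nat_lit 10925914926) (nat_lit 304) (nat_lit 6329643688) (nat_lit 76) (nat_lit 31725540184) (nat_lit 99) (nat_lit 5) (nat_lit 103) (nat_lit 5) (nat_lit 100) (nat_lit 5) (nat_lit 408) (nat_lit 351) (nat_lit 141))) (XT.nd (nat_lit 78) (nat_lit 0) (nat_lit 0) (XT.lf (nat_lit 0) (nat_lit 20047648380) (nat_lit 304) (nat_lit 519304154) (nat_lit 380) (nat_lit 29372721301) (nat_lit 95) (nat_lit 5) (nat_lit 99) (nat_lit 5) (nat_lit 100) (nat_lit 5) (nat_lit 409) (nat_lit 351) (nat_lit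 140)) (XT.lf (nat_lit 0) (nat_lit 30720475370) (nat_lit 380) (nat_lit 3743493963) (nat_lit 76) (nat_lit 16456339891) (nat_lit 95) (nat_lit 5) (nat_lit 100) (nat_lit 5) (nat_lit 96) (nat_lit 5) (nat_lit 410) (nat_lit 351) (nat_lit 139))))))) (XT.nd (nat_lit 1014) (nat_lit 836) (nat_lit 0) (XT.nd (nat_lit 468) (nat_lit 760) (nat_lit 0) (XT.nd (nat_lit 234) (nat_lit 456) (nat_lit 0) (XT.nd (nat_lit 78) (nat_lit 380) (nat_lit 0) (XT.lf (nat_lit 0) (nat_lit 23642726416) (nat_lit 228) (nat_lit 17766336618) (nat_lit 304) (nat_lit 10514387567) (nat_lit 92) (nat_lit 5) (nat_lit 95) (nat_lit 5) (nat_lit 96) (nat_lit 5) (nat_lit 411) (nat_lit 351) (nat_lit 138)) (XT.nd (nat_lit 78) (nat_lit 380) (nat_lit 0) (XT.lf (nat_lit 0) (nat_lit 51924320398) (nat_lit 228) (nat_lit 529867504) (nat_lit 304) (nat_lit 501422613) (nat_lit 92) (nat_lit 5) (nat_lit 95) (nat_lit 5) (nat_lit 96) (nat_lit 5) (nat_lit 412) (nat_lit 351)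 (nat_lit 137)) (XT.lf (nat_lit 0) (nat_lit 10051785303) (nat_lit 380) (nat_lit 26702610866) (nat_lit 76) (nat_lit 17248570548) (nat_lit 87) (nat_lit 5) (nat_lit 92) (nat_lit 5) (nat_lit 88) (nat_lit 5) (nat_lit 413) (nat_lit 351) (nat_lit 136)))) (XT.nd (nat_lit 78) (nat_lit 228) (nat_lit 0) (XT.lf (nat_lit 0) (nat_lit 1436455652) (nat_lit 228) (nat_lit 19502759127) (nat_lit 304) (nat_lit 34141549409) (nat_lit 84) (nat_lit 5) (nat_lit 87) (nat_lit 5) (nat_lit 88) (nat_lit 5) (nat_lit 414) (nat_lit 351) (nat_lit 135)) (XT.nd (nat_lit 78) (nat_lit 228) (nat_lit 0) (XT.lf (nat_lit 0) (nat_lit 30964178831) (nat_lit 228) (nat_lit 1456890924) (nat_lit 304) (nat_lit 23761792356) (nat_lit 84) (nat_lit 5) (nat_lit 87) (nat_lit 5) (nat_lit 88) (nat_lit 5) (nat_lit 415) (nat_lit 351) (nat_lit 134)) (XT.lf (nat_lit 0) (nat_lit 3969652682) (nat_lit 228) (nat_lit 40478756287) (nat_lit 304) (nat_lit 12863583733) (nat_lit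 81) (nat_lit 5) (nat_lit 84) (nat_lit 5) (nat_lit 85) (nat_lit 5) (nat_lit 416) (nat_lit 351) (nat_lit 133))))) (XT.nd (nat_lit 234) (nat_lit 456) (nat_lit 0) (XT.nd (nat_lit 78) (nat_lit 304) (nat_lit 0) (XT.lf (nat_lit 0) (nat_lit 34533060398) (nat_lit 228) (nat_lit 22570678085) (nat_lit 304) (nat_lit 1363244195) (nat_lit 81) (nat_lit 5) (nat_lit 84) (nat_lit 5) (nat_lit 85) (nat_lit 5) (nat_lit 417) (nat_lit 351) (nat_lit 132)) (XT.nd (nat_lit 78) (nat_lit 0) (nat_lit 0) (XT.lf (nat_lit 0) (nat_lit 6377660993) (nat_lit 228) (nat_lit 3959468548) (nat_lit 304) (nat_lit 49314683509) (nat_lit 77) (nat_lit 5) (nat_lit 80) (nat_lit 5) (nat_lit 81) (nat_lit 5) (nat_lit 418) (nat_lit 351) (nat_lit 131)) (XT.lf (nat_lit 0) (nat_lit 22749677710) (nat_lit 304) (nat_lit 22940615494) (nat_lit 76) (nat_lit 15169833834) (nat_lit 77) (nat_lit 5) (nat_lit 81) (nat_lit 5) (nat_lit 78) (nat_lit 5) (nat_lit 419) (nat_lit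 351) (nat_lit 130)))) (XT.nd (nat_lit 156) (nat_lit 228) (nat_lit 0) (XT.nd (nat_lit 78) (nat_lit 0) (nat_lit 0) (XT.lf (nat_lit 0) (nat_lit 8425423727) (nat_lit 228) (nat_lit 27227697696) (nat_lit 304) (nat_lit 26448013959) (nat_lit 74) (nat_lit 5) (nat_lit 77) (nat_lit 5) (nat_lit 78) (nat_lit 5) (nat_lit 420) (nat_lit 351) (nat_lit 129)) (XT.lf (nat_lit 0) (nat_lit 41200019691) (nat_lit 228) (nat_lit 7973653055) (nat_lit 304) (nat_lit 14198801593) (nat_lit 74) (nat_lit 5) (nat_lit 77) (nat_lit 5) (nat_lit 78) (nat_lit 5) (nat_lit 421) (nat_lit 351) (nat_lit 128))) (XT.nd (nat_lit 78) (nat_lit 76) (nat_lit 0) (XT.lf (nat_lit 0) (nat_lit 10361457663) (nat_lit 152) (nat_lit 52950357591) (nat_lit 228) (nat_lit 1363779450) (nat_lit 72) (nat_lit 5) (nat_lit 74) (nat_lit 5) (nat_lit 75) (nat_lit 5) (nat_lit 422) (nat_lit 351) (nat_lit 127)) (XT.lf (nat_lit 0) (nat_lit 11928389643) (nat_lit 228) (nat_lit 21882976408)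 (nat_lit 76) (nat_lit 32193920323) (nat_lit 71) (nat_lit 5) (nat_lit 74) (nat_lit 5) (nat_lit 72) (nat_lit 5) (nat_lit 423) (nat_lit 351) (nat_lit 126)))))) (XT.nd (nat_lit 41262) (nat_lit 0) (nat_lit 13680) (XT.nd (nat_lit 234) (nat_lit 456) (nat_lit 0) (XT.nd (nat_lit 78) (nat_lit 152) (nat_lit 0) (XT.lf (nat_lit 0) (nat_lit 11734014616) (nat_lit 228) (nat_lit 13969132992) (nat_lit 304) (nat_lit 41667979509) (nat_lit 68) (nat_lit 5) (nat_lit 71) (nat_lit 5) (nat_lit 72) (nat_lit 5) (nat_lit 424) (nat_lit 351) (nat_lit 125)) (XT.nd (nat_lit 78) (nat_lit 152) (nat_lit 0) (XT.lf (nat_lit 0) (nat_lit 40174940351) (nat_lit 304) (nat_lit 22030170866) (nat_lit 76) (nat_lit 6564318527) (nat_lit 68) (nat_lit 5) (nat_lit 72) (nat_lit 5) (nat_lit 69) (nat_lit 5) (nat_lit 425) (nat_lit 351) (nat_lit 124)) (XT.lf (nat_lit 0) (nat_lit 12691823079) (nat_lit 152) (nat_lit 42647869838) (nat_lit 228) (nat_lit 14862224766)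 (nat_lit 66) (nat_lit 5) (nat_lit 68) (nat_lit 5) (nat_lit 69) (nat_lit 5) (nat_lit 426) (nat_lit 351) (nat_lit 123)))) (XT.nd (nat_lit 156) (nat_lit 152) (nat_lit 0) (XT.nd (nat_lit 78) (nat_lit 304) (nat_lit 0) (XT.lf (nat_lit 0) (nat_lit 48904587492) (nat_lit 152) (nat_lit 22275778222) (nat_lit 228) (nat_lit 490385616) (nat_lit 66) (nat_lit 5) (nat_lit 68) (nat_lit 5) (nat_lit 69) (nat_lit 5) (nat_lit 427) (nat_lit 351) (nat_lit 122)) (XT.lf (nat_lit 0) (nat_lit 13136398567) (nat_lit 228) (nat_lit 1021739391) (nat_lit 304) (nat_lit 59017640367) (nat_lit 62) (nat_lit 5) (nat_lit 65) (nat_lit 5) (nat_lit 66) (nat_lit 5) (nat_lit 428) (nat_lit 351) (nat_lit 121))) (XT.nd (nat_lit 78) (nat_lit 152) (nat_lit 0) (XT.lf (nat_lit 0) (nat_lit 29667599590) (nat_lit 304) (nat_lit 24346536588) (nat_lit 76) (nat_lit 20698734498) (nat_lit 62) (nat_lit 5) (nat_lit 66) (nat_lit 5) (nat_lit 63) (nat_lit 5) (nat_lit 429)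 (nat_lit 351) (nat_lit 120)) (XT.lf (nat_lit 0) (nat_lit 12651469607) (nat_lit 152) (nat_lit 33121201848) (nat_lit 228) (nat_lit 30519494909) (nat_lit 60) (nat_lit 5) (nat_lit 62) (nat_lit 5) (nat_lit 63) (nat_lit 5) (nat_lit 430) (nat_lit 351) (nat_lit 119))))) (XT.nd (nat_lit 234) (nat_lit 0) (nat_lit 0) (XT.nd (nat_lit 78) (nat_lit 0) (nat_lit 0) (XT.lf (nat_lit 0) (nat_lit 3903700898) (nat_lit 0) (nat_lit 3903700898) (nat_lit 1140) (nat_lit 1732198771) (nat_lit 240) (nat_lit 5) (nat_lit 240) (nat_lit 3) (nat_lit 255) (nat_lit 3) (nat_lit 352) (nat_lit 352) (nat_lit 196)) (XT.nd (nat_lit 78) (nat_lit 0) (nat_lit 0) (XT.lf (nat_lit 0) (nat_lit 16035907280) (nat_lit 1140) (nat_lit 2248317490) (nat_lit 1216) (nat_lit 1075442083) (nat_lit 240) (nat_lit 5) (nat_lit 255) (nat_lit 3) (nat_lit 256) (nat_lit 5) (nat_lit 353) (nat_lit 352) (nat_lit 195)) (XT.lf (nat_lit 76) (nat_lit 7103497581) (nat_lit 0) (nat_lit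 9504881764) (nat_lit 1216) (nat_lit 3036009661) (nat_lit 241) (nat_lit 5) (nat_lit 240) (nat_lit 5) (nat_lit 256) (nat_lit 5) (nat_lit 354) (nat_lit 352) (nat_lit 194)))) (XT.nd (nat_lit 156) (nat_lit 0) (nat_lit 76) (XT.nd (nat_lit 78) (nat_lit 0) (nat_lit 76) (XT.lf (nat_lit 76) (nat_lit 16778306488) (nat_lit 0) (nat_lit 435738184) (nat_lit 1216) (nat_lit 2723131969) (nat_lit 241) (nat_lit 5) (nat_lit 240) (nat_lit 5) (nat_lit 256) (nat_lit 5) (nat_lit 355) (nat_lit 352) (nat_lit 193)) (XT.lf (nat_lit 76) (nat_lit 6542912703) (nat_lit 0) (nat_lit 11437005178) (nat_lit 1216) (nat_lit 2254573146) (nat_lit 242) (nat_lit 5) (nat_lit 241) (nat_lit 5) (nat_lit 257) (nat_lit 5) (nat_lit 356) (nat_lit 352) (nat_lit 192))) (XT.nd (nat_lit 78) (nat_lit 0) (nat_lit 76) (XT.lf (nat_lit 76) (nat_lit 16592369719) (nat_lit 0) (nat_lit 2206258748) (nat_lit 1216) (nat_lit 1741204683) (nat_lit 242) (nat_lit 5) (nat_lit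 241) (nat_lit 5) (nat_lit 257) (nat_lit 5) (nat_lit 357) (nat_lit 352) (nat_lit 191)) (XT.lf (nat_lit 76) (nat_lit 6134662591) (nat_lit 0) (nat_lit 13630292174) (nat_lit 1216) (nat_lit 1085693155) (nat_lit 243) (nat_lit 5) (nat_lit 242) (nat_lit 5) (nat_lit 258) (nat_lit 5) (nat_lit 358) (nat_lit 352) (nat_lit 190))))))))
noncomputable def xc216 : XT := (XT.nd (nat_lit 2028) (nat_lit 5244) (nat_lit 0) (XT.nd (nat_lit 1014) (nat_lit 3876) (nat_lit 0) (XT.nd (nat_lit 468) (nat_lit 912) (nat_lit 0) (XT.nd (nat_lit 234) (nat_lit 0) (nat_lit 76) (XT.nd (nat_lit 78) (nat_lit 1140) (nat_lit 0) (XT.lf (nat_lit 76) (nat_lit 16574094183) (nat_lit 0) (nat_lit 4241708137) (nat_lit 1216) (nat_lit 353322769) (nat_lit 243) (nat_lit 5) (nat_lit 242) (nat_lit 5) (nat_lit 258) (nat_lit 5) (nat_lit 359) (nat_lit 352) (nat_lit 189)) (XT.nd (nat_lit 78) (nat_lit 0) (nat_lit 0) (XT.lf (nat_lit 0) (nat_lit 497228468) (nat_lit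 1216) (nat_lit 15610556540) (nat_lit 1292) (nat_lit 5386138546) (nat_lit 227) (nat_lit 5) (nat_lit 243) (nat_lit 5) (nat_lit 244) (nat_lit 5) (nat_lit 360) (nat_lit 352) (nat_lit 188)) (XT.lf (nat_lit 0) (nat_lit 1449357315) (nat_lit 1216) (nat_lit 5106682406) (nat_lit 1292) (nat_lit 15269829997) (nat_lit 227) (nat_lit 5) (nat_lit 243) (nat_lit 5) (nat_lit 244) (nat_lit 5) (nat_lit 361) (nat_lit 352) (nat_lit 187)))) (XT.nd (nat_lit 78) (nat_lit 0) (nat_lit 0) (XT.lf (nat_lit 0) (nat_lit 2512607698) (nat_lit 1216) (nat_lit 16376317225) (nat_lit 1292) (nat_lit 3276376079) (nat_lit 228) (nat_lit 5) (nat_lit 244) (nat_lit 5) (nat_lit 245) (nat_lit 5) (nat_lit 362) (nat_lit 352) (nat_lit 186)) (XT.nd (nat_lit 78) (nat_lit 0) (nat_lit 76) (XT.lf (nat_lit 0) (nat_lit 3719355699) (nat_lit 1216) (nat_lit 5466579939) (nat_lit 1292) (nat_lit 13325634948) (nat_lit 228) (nat_lit 5) (nat_lit 244) (nat_lit 5) (nat_lit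 245) (nat_lit 5) (nat_lit 363) (nat_lit 352) (nat_lit 185)) (XT.lf (nat_lit 0) (nat_lit 5021950081) (nat_lit 1216) (nat_lit 16993693562) (nat_lit 1292) (nat_lit 850798563) (nat_lit 229) (nat_lit 5) (nat_lit 245) (nat_lit 5) (nat_lit 246) (nat_lit 5) (nat_lit 364) (nat_lit 352) (nat_lit 184))))) (XT.nd (nat_lit 234) (nat_lit 1064) (nat_lit 0) (XT.nd (nat_lit 78) (nat_lit 0) (nat_lit 0) (XT.lf (nat_lit 0) (nat_lit 6505215986) (nat_lit 1216) (nat_lit 5661490240) (nat_lit 1292) (nat_lit 11061009108) (nat_lit 229) (nat_lit 5) (nat_lit 245) (nat_lit 5) (nat_lit 246) (nat_lit 5) (nat_lit 365) (nat_lit 352) (nat_lit 183)) (XT.nd (nat_lit 78) (nat_lit 0) (nat_lit 76) (XT.lf (nat_lit 76) (nat_lit 6126336238) (nat_lit 0) (nat_lit 1960577940) (nat_lit 1292) (nat_lit 15511297529) (nat_lit 230) (nat_lit 5) (nat_lit 229) (nat_lit 5) (nat_lit 246) (nat_lit 5) (nat_lit 366) (nat_lit 352) (nat_lit 182)) (XT.lf (nat_lit 0)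 (nat_lit 9851164923) (nat_lit 1216) (nat_lit 5681035619) (nat_lit 1292) (nat_lit 8443572368) (nat_lit 230) (nat_lit 5) (nat_lit 246) (nat_lit 5) (nat_lit 247) (nat_lit 5) (nat_lit 367) (nat_lit 352) (nat_lit 181)))) (XT.nd (nat_lit 156) (nat_lit 1140) (nat_lit 0) (XT.nd (nat_lit 78) (nat_lit 0) (nat_lit 76) (XT.lf (nat_lit 76) (nat_lit 6568397934) (nat_lit 0) (nat_lit 5177798433) (nat_lit 1292) (nat_lit 12616131889) (nat_lit 231) (nat_lit 5) (nat_lit 230) (nat_lit 5) (nat_lit 247) (nat_lit 5) (nat_lit 368) (nat_lit 352) (nat_lit 180)) (XT.lf (nat_lit 0) (nat_lit 13804169718) (nat_lit 1216) (nat_lit 5514306421) (nat_lit 76) (nat_lit 5438824213) (nat_lit 231) (nat_lit 5) (nat_lit 247) (nat_lit 5) (nat_lit 232) (nat_lit 5) (nat_lit 369) (nat_lit 352) (nat_lit 179))) (XT.nd (nat_lit 78) (nat_lit 0) (nat_lit 0) (XT.lf (nat_lit 0) (nat_lit 7219431894) (nat_lit 1216) (nat_lit 8820656000) (nat_lit 1292) (nat_lit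 9120550284) (nat_lit 215) (nat_lit 5) (nat_lit 231) (nat_lit 5) (nat_lit 232) (nat_lit 5) (nat_lit 370) (nat_lit 352) (nat_lit 178)) (XT.lf (nat_lit 0) (nat_lit 18414108394) (nat_lit 1292) (nat_lit 5149872533) (nat_lit 76) (nat_lit 2009967123) (nat_lit 215) (nat_lit 5) (nat_lit 232) (nat_lit 5) (nat_lit 216) (nat_lit 5) (nat_lit 371) (nat_lit 352) (nat_lit 177)))))) (XT.nd (nat_lit 468) (nat_lit 2052) (nat_lit 0) (XT.nd (nat_lit 234) (nat_lit 684) (nat_lit 0) (XT.nd (nat_lit 78) (nat_lit 532) (nat_lit 0) (XT.lf (nat_lit 0) (nat_lit 8091899677) (nat_lit 608) (nat_lit 12928334823) (nat_lit 684) (nat_lit 4974598747) (nat_lit 207) (nat_lit 5) (nat_lit 215) (nat_lit 5) (nat_lit 216) (nat_lit 5) (nat_lit 372) (nat_lit 352) (nat_lit 176)) (XT.nd (nat_lit 78) (nat_lit 532) (nat_lit 0) (XT.lf (nat_lit 0) (nat_lit 21832659906) (nat_lit 608) (nat_lit 1919742012) (nat_lit 684) (nat_lit 2674509861) (nat_lit 207) (nat_lit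 5) (nat_lit 215) (nat_lit 5) (nat_lit 216) (nat_lit 5) (nat_lit 373) (nat_lit 352) (nat_lit 175)) (XT.lf (nat_lit 0) (nat_lit 9198802839) (nat_lit 532) (nat_lit 17542675871) (nat_lit 608) (nat_lit 125228054) (nat_lit 200) (nat_lit 5) (nat_lit 207) (nat_lit 5) (nat_lit 208) (nat_lit 5) (nat_lit 374) (nat_lit 352) (nat_lit 174)))) (XT.nd (nat_lit 78) (nat_lit 608) (nat_lit 0) (XT.lf (nat_lit 0) (nat_lit 2513614231) (nat_lit 608) (nat_lit 3865871116) (nat_lit 76) (nat_lit 20937635153) (nat_lit 199) (nat_lit 5) (nat_lit 207) (nat_lit 5) (nat_lit 200) (nat_lit 5) (nat_lit 375) (nat_lit 352) (nat_lit 173)) (XT.nd (nat_lit 78) (nat_lit 0) (nat_lit 0) (XT.lf (nat_lit 0) (nat_lit 5376881675) (nat_lit 684) (nat_lit 17277210275) (nat_lit 76) (nat_lit 5122486419) (nat_lit 191) (nat_lit 5) (nat_lit 200) (nat_lit 5) (nat_lit 192) (nat_lit 5) (nat_lit 376) (nat_lit 352) (nat_lit 172)) (XT.lf (nat_lit 0) (nat_lit 8424844569)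 (nat_lit 684) (nat_lit 2941244350) (nat_lit 76) (nat_lit 16880769292) (nat_lit 191) (nat_lit 5) (nat_lit 200) (nat_lit 5) (nat_lit 192) (nat_lit 5) (nat_lit 377) (nat_lit 352) (nat_lit 171))))) (XT.nd (nat_lit 234) (nat_lit 988) (nat_lit 0) (XT.nd (nat_lit 78) (nat_lit 532) (nat_lit 0) (XT.lf (nat_lit 0) (nat_lit 11680110856) (nat_lit 608) (nat_lit 16675215332) (nat_lit 76) (nat_lit 372446422) (nat_lit 184) (nat_lit 5) (nat_lit 192) (nat_lit 5) (nat_lit 185) (nat_lit 5) (nat_lit 378) (nat_lit 352) (nat_lit 170)) (XT.nd (nat_lit 78) (nat_lit 532) (nat_lit 0) (XT.lf (nat_lit 0) (nat_lit 15171956472) (nat_lit 608) (nat_lit 1782404535) (nat_lit 76) (nat_lit 12264587830) (nat_lit 184) (nat_lit 5) (nat_lit 192) (nat_lit 5) (nat_lit 185) (nat_lit 5) (nat_lit 379) (nat_lit 352) (nat_lit 169)) (XT.lf (nat_lit 0) (nat_lit 13823225585) (nat_lit 532) (nat_lit 5074705227) (nat_lit 608) (nat_lit 10823050312) (nat_lit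 177) (nat_lit 5) (nat_lit 184) (nat_lit 5) (nat_lit 185) (nat_lit 5) (nat_lit 380) (nat_lit 352) (nat_lit 168)))) (XT.nd (nat_lit 156) (nat_lit 532) (nat_lit 0) (XT.nd (nat_lit 78) (nat_lit 456) (nat_lit 0) (XT.lf (nat_lit 0) (nat_lit 22819261169) (nat_lit 608) (nat_lit 376762039) (nat_lit 76) (nat_lit 7039545788) (nat_lit 177) (nat_lit 5) (nat_lit 185) (nat_lit 5) (nat_lit 178) (nat_lit 5) (nat_lit 381) (nat_lit 352) (nat_lit 167)) (XT.lf (nat_lit 0) (nat_lit 15865548137) (nat_lit 456) (nat_lit 11192098040) (nat_lit 532) (nat_lit 3701967748) (nat_lit 171) (nat_lit 5) (nat_lit 177) (nat_lit 5) (nat_lit 178) (nat_lit 5) (nat_lit 382) (nat_lit 352) (nat_lit 166))) (XT.nd (nat_lit 78) (nat_lit 0) (nat_lit 0) (XT.lf (nat_lit 0) (nat_lit 146087528) (nat_lit 532) (nat_lit 29985877261) (nat_lit 76) (nat_lit 1166640440) (nat_lit 164) (nat_lit 5) (nat_lit 171) (nat_lit 5) (nat_lit 165) (nat_lit 5) (nat_lit 383)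 (nat_lit 352) (nat_lit 165)) (XT.lf (nat_lit 0) (nat_lit 4294627719) (nat_lit 532) (nat_lit 13690923389) (nat_lit 76) (nat_lit 13859333802) (nat_lit 164) (nat_lit 5) (nat_lit 171) (nat_lit 5) (nat_lit 165) (nat_lit 5) (nat_lit 384) (nat_lit 352) (nat_lit 164))))))) (XT.nd (nat_lit 1014) (nat_lit 2280) (nat_lit 0) (XT.nd (nat_lit 468) (nat_lit 1672) (nat_lit 0) (XT.nd (nat_lit 234) (nat_lit 380) (nat_lit 0) (XT.nd (nat_lit 78) (nat_lit 456) (nat_lit 0) (XT.lf (nat_lit 0) (nat_lit 3150716942) (nat_lit 456) (nat_lit 5444034872) (nat_lit 532) (nat_lit 23811988991) (nat_lit 158) (nat_lit 5) (nat_lit 164) (nat_lit 5) (nat_lit 165) (nat_lit 5) (nat_lit 385) (nat_lit 352) (nat_lit 163)) (XT.nd (nat_lit 78) (nat_lit 456) (nat_lit 0) (XT.lf (nat_lit 0) (nat_lit 13232235506) (nat_lit 532) (nat_lit 12279956754) (nat_lit 76) (nat_lit 7467011047) (nat_lit 158) (nat_lit 5) (nat_lit 165) (nat_lit 5) (nat_lit 159) (nat_lit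 5) (nat_lit 386) (nat_lit 352) (nat_lit 162)) (XT.lf (nat_lit 0) (nat_lit 5250354010) (nat_lit 456) (nat_lit 12859844659) (nat_lit 532) (nat_lit 15455601926) (nat_lit 152) (nat_lit 5) (nat_lit 158) (nat_lit 5) (nat_lit 159) (nat_lit 5) (nat_lit 387) (nat_lit 352) (nat_lit 161)))) (XT.nd (nat_lit 78) (nat_lit 380) (nat_lit 0) (XT.lf (nat_lit 0) (nat_lit 23258418028) (nat_lit 532) (nat_lit 10614496186) (nat_lit 76) (nat_lit 293365584) (nat_lit 152) (nat_lit 5) (nat_lit 159) (nat_lit 5) (nat_lit 153) (nat_lit 5) (nat_lit 388) (nat_lit 352) (nat_lit 160)) (XT.nd (nat_lit 78) (nat_lit 0) (nat_lit 0) (XT.lf (nat_lit 0) (nat_lit 7635622209) (nat_lit 380) (nat_lit 21123303653) (nat_lit 456) (nat_lit 6019913728) (nat_lit 147) (nat_lit 5) (nat_lit 152) (nat_lit 5) (nat_lit 153) (nat_lit 5) (nat_lit 389) (nat_lit 352) (nat_lit 159)) (XT.lf (nat_lit 0) (nat_lit 26647331756) (nat_lit 380) (nat_lit 7881471499) (nat_lit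 456) (nat_lit 877843720) (nat_lit 147) (nat_lit 5) (nat_lit 152) (nat_lit 5) (nat_lit 153) (nat_lit 5) (nat_lit 390) (nat_lit 352) (nat_lit 158))))) (XT.nd (nat_lit 234) (nat_lit 760) (nat_lit 0) (XT.nd (nat_lit 78) (nat_lit 380) (nat_lit 0) (XT.lf (nat_lit 0) (nat_lit 4485548906) (nat_lit 532) (nat_lit 25774075349) (nat_lit 76) (nat_lit 5787793040) (nat_lit 140) (nat_lit 5) (nat_lit 147) (nat_lit 5) (nat_lit 141) (nat_lit 5) (nat_lit 391) (nat_lit 352) (nat_lit 157)) (XT.nd (nat_lit 78) (nat_lit 380) (nat_lit 0) (XT.lf (nat_lit 0) (nat_lit 10156825557) (nat_lit 532) (nat_lit 6739319180) (nat_lit 76) (nat_lit 19806067769) (nat_lit 140) (nat_lit 5) (nat_lit 147) (nat_lit 5) (nat_lit 141) (nat_lit 5) (nat_lit 392) (nat_lit 352) (nat_lit 156)) (XT.lf (nat_lit 0) (nat_lit 13119085570) (nat_lit 380) (nat_lit 3002607295) (nat_lit 456) (nat_lit 21251256404) (nat_lit 135) (nat_lit 5) (nat_lit 140) (nat_lit 5) (nat_lit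 141) (nat_lit 5) (nat_lit 393) (nat_lit 352) (nat_lit 155)))) (XT.nd (nat_lit 156) (nat_lit 380) (nat_lit 0) (XT.nd (nat_lit 78) (nat_lit 380) (nat_lit 0) (XT.lf (nat_lit 0) (nat_lit 22440312310) (nat_lit 456) (nat_lit 4463179093) (nat_lit 76) (nat_lit 11155073780) (nat_lit 135) (nat_lit 5) (nat_lit 141) (nat_lit 5) (nat_lit 136) (nat_lit 5) (nat_lit 394) (nat_lit 352) (nat_lit 154)) (XT.lf (nat_lit 0) (nat_lit 16204369092) (nat_lit 380) (nat_lit 12927074133) (nat_lit 456) (nat_lit 9627818959) (nat_lit 130) (nat_lit 5) (nat_lit 135) (nat_lit 5) (nat_lit 136) (nat_lit 5) (nat_lit 395) (nat_lit 352) (nat_lit 153))) (XT.nd (nat_lit 78) (nat_lit 380) (nat_lit 0) (XT.lf (nat_lit 0) (nat_lit 36080433488) (nat_lit 456) (nat_lit 1914126703) (nat_lit 76) (nat_lit 1484707303) (nat_lit 130) (nat_lit 5) (nat_lit 136) (nat_lit 5) (nat_lit 131) (nat_lit 5) (nat_lit 396) (nat_lit 352) (nat_lit 152)) (XT.lf (nat_lit 0)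 (nat_lit 3275189426) (nat_lit 380) (nat_lit 20646557090) (nat_lit 76) (nat_lit 16288746242) (nat_lit 125) (nat_lit 5) (nat_lit 130) (nat_lit 5) (nat_lit 126) (nat_lit 5) (nat_lit 397) (nat_lit 352) (nat_lit 151)))))) (XT.nd (nat_lit 546) (nat_lit 912) (nat_lit 0) (XT.nd (nat_lit 234) (nat_lit 684) (nat_lit 0) (XT.nd (nat_lit 78) (nat_lit 304) (nat_lit 0) (XT.lf (nat_lit 0) (nat_lit 739807274) (nat_lit 380) (nat_lit 9365525302) (nat_lit 456) (nat_lit 30856587344) (nat_lit 120) (nat_lit 5) (nat_lit 125) (nat_lit 5) (nat_lit 126) (nat_lit 5) (nat_lit 398) (nat_lit 352) (nat_lit 150)) (XT.nd (nat_lit 78) (nat_lit 304) (nat_lit 0) (XT.lf (nat_lit 0) (nat_lit 17402639044) (nat_lit 456) (nat_lit 18598116892) (nat_lit 76) (nat_lit 5727267223) (nat_lit 120) (nat_lit 5) (nat_lit 126) (nat_lit 5) (nat_lit 121) (nat_lit 5) (nat_lit 399) (nat_lit 352) (nat_lit 149)) (XT.lf (nat_lit 0) (nat_lit 3649869229) (nat_lit 304)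 (nat_lit 21394488982) (nat_lit 380) (nat_lit 17468987479) (nat_lit 116) (nat_lit 5) (nat_lit 120) (nat_lit 5) (nat_lit 121) (nat_lit 5) (nat_lit 400) (nat_lit 352) (nat_lit 148)))) (XT.nd (nat_lit 156) (nat_lit 380) (nat_lit 0) (XT.nd (nat_lit 78) (nat_lit 304) (nat_lit 0) (XT.lf (nat_lit 0) (nat_lit 26943346075) (nat_lit 304) (nat_lit 6157505019) (nat_lit 380) (nat_lit 10215812112) (nat_lit 116) (nat_lit 5) (nat_lit 120) (nat_lit 5) (nat_lit 121) (nat_lit 5) (nat_lit 401) (nat_lit 352) (nat_lit 147)) (XT.lf (nat_lit 0) (nat_lit 6829995282) (nat_lit 304) (nat_lit 34724144708) (nat_lit 380) (nat_lit 2585288164) (nat_lit 112) (nat_lit 5) (nat_lit 116) (nat_lit 5) (nat_lit 117) (nat_lit 5) (nat_lit 402) (nat_lit 352) (nat_lit 146))) (XT.nd (nat_lit 78) (nat_lit 304) (nat_lit 0) (XT.lf (nat_lit 0) (nat_lit 5396962382) (nat_lit 380) (nat_lit 14033344602) (nat_lit 76) (nat_lit 25548277147) (nat_lit 111) (nat_lit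 5) (nat_lit 116) (nat_lit 5) (nat_lit 112) (nat_lit 5) (nat_lit 403) (nat_lit 352) (nat_lit 145)) (XT.lf (nat_lit 0) (nat_lit 10109625048) (nat_lit 304) (nat_lit 3552125761) (nat_lit 380) (nat_lit 32177545971) (nat_lit 107) (nat_lit 5) (nat_lit 111) (nat_lit 5) (nat_lit 112) (nat_lit 5) (nat_lit 404) (nat_lit 352) (nat_lit 144))))) (XT.nd (nat_lit 234) (nat_lit 608) (nat_lit 0) (XT.nd (nat_lit 78) (nat_lit 304) (nat_lit 0) (XT.lf (nat_lit 0) (nat_lit 22438536183) (nat_lit 380) (nat_lit 11584598160) (nat_lit 76) (nat_lit 12694775707) (nat_lit 107) (nat_lit 5) (nat_lit 112) (nat_lit 5) (nat_lit 108) (nat_lit 5) (nat_lit 405) (nat_lit 352) (nat_lit 143)) (XT.nd (nat_lit 78) (nat_lit 0) (nat_lit 0) (XT.lf (nat_lit 0) (nat_lit 13510278019) (nat_lit 304) (nat_lit 18131324025) (nat_lit 380) (nat_lit 15976391180) (nat_lit 103) (nat_lit 5) (nat_lit 107) (nat_lit 5) (nat_lit 108) (nat_lit 5) (nat_lit 406) (nat_lit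 352) (nat_lit 142)) (XT.lf (nat_lit 0) (nat_lit 39592488716) (nat_lit 304) (nat_lit 1643222558) (nat_lit 380) (nat_lit 7305919868) (nat_lit 103) (nat_lit 5) (nat_lit 107) (nat_lit 5) (nat_lit 108) (nat_lit 5) (nat_lit 407) (nat_lit 352) (nat_lit 141)))) (XT.nd (nat_lit 156) (nat_lit 304) (nat_lit 0) (XT.nd (nat_lit 78) (nat_lit 0) (nat_lit 0) (XT.lf (nat_lit 0) (nat_lit 1906347969) (nat_lit 304) (nat_lit 32353946000) (nat_lit 76) (nat_lit 15222814891) (nat_lit 99) (nat_lit 5) (nat_lit 103) (nat_lit 5) (nat_lit 100) (nat_lit 5) (nat_lit 408) (nat_lit 352) (nat_lit 140)) (XT.lf (nat_lit 0) (nat_lit 11353704608) (nat_lit 304) (nat_lit 6369313774) (nat_lit 76) (nat_lit 32724476301) (nat_lit 99) (nat_lit 5) (nat_lit 103) (nat_lit 5) (nat_lit 100) (nat_lit 5) (nat_lit 409) (nat_lit 352) (nat_lit 139))) (XT.nd (nat_lit 78) (nat_lit 0) (nat_lit 0) (XT.lf (nat_lit 0) (nat_lit 20797824319) (nat_lit 304) (nat_lit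 484665890) (nat_lit 380) (nat_lit 30152382325) (nat_lit 95) (nat_lit 5) (nat_lit 99) (nat_lit 5) (nat_lit 100) (nat_lit 5) (nat_lit 410) (nat_lit 352) (nat_lit 138)) (XT.lf (nat_lit 0) (nat_lit 31738217610) (nat_lit 380) (nat_lit 3708948991) (nat_lit 76) (nat_lit 16997833454) (nat_lit 95) (nat_lit 5) (nat_lit 100) (nat_lit 5) (nat_lit 96) (nat_lit 5) (nat_lit 411) (nat_lit 352) (nat_lit 137))))))))
noncomputable def xc217 : XT := (XT.nd (nat_lit 42822) (nat_lit 0) (nat_lit 7296) (XT.nd (nat_lit 1014) (nat_lit 684) (nat_lit 0) (XT.nd (nat_lit 468) (nat_lit 760) (nat_lit 0) (XT.nd (nat_lit 234) (nat_lit 456) (nat_lit 0) (XT.nd (nat_lit 78) (nat_lit 380) (nat_lit 0) (XT.lf (nat_lit 0) (nat_lit 24497418295) (nat_lit 228) (nat_lit 18248642536) (nat_lit 304) (nat_lit 10732217914) (nat_lit 92) (nat_lit 5) (nat_lit 95) (nat_lit 5) (nat_lit 96) (nat_lit 5) (nat_lit 412) (nat_lit 352) (nat_lit 136)) (XT.nd (nat_lit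 78) (nat_lit 380) (nat_lit 0) (XT.lf (nat_lit 0) (nat_lit 53623224852) (nat_lit 228) (nat_lit 496555586) (nat_lit 304) (nat_lit 421706767) (nat_lit 92) (nat_lit 5) (nat_lit 95) (nat_lit 5) (nat_lit 96) (nat_lit 5) (nat_lit 413) (nat_lit 352) (nat_lit 135)) (XT.lf (nat_lit 0) (nat_lit 10445385340) (nat_lit 380) (nat_lit 27359739888) (nat_lit 76) (nat_lit 17815138350) (nat_lit 87) (nat_lit 5) (nat_lit 92) (nat_lit 5) (nat_lit 88) (nat_lit 5) (nat_lit 414) (nat_lit 352) (nat_lit 134)))) (XT.nd (nat_lit 78) (nat_lit 228) (nat_lit 0) (XT.lf (nat_lit 0) (nat_lit 1622087358) (nat_lit 228) (nat_lit 20036039540) (nat_lit 304) (nat_lit 35072308294) (nat_lit 84) (nat_lit 5) (nat_lit 87) (nat_lit 5) (nat_lit 88) (nat_lit 5) (nat_lit 415) (nat_lit 352) (nat_lit 133)) (XT.nd (nat_lit 78) (nat_lit 228) (nat_lit 0) (XT.lf (nat_lit 0) (nat_lit 32031490639) (nat_lit 228) (nat_lit 1450304097) (nat_lit 304) (nat_lit 24383881469)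 (nat_lit 84) (nat_lit 5) (nat_lit 87) (nat_lit 5) (nat_lit 88) (nat_lit 5) (nat_lit 416) (nat_lit 352) (nat_lit 132)) (XT.lf (nat_lit 0) (nat_lit 4227938838) (nat_lit 228) (nat_lit 41641256891) (nat_lit 304) (nat_lit 13159508582) (nat_lit 81) (nat_lit 5) (nat_lit 84) (nat_lit 5) (nat_lit 85) (nat_lit 5) (nat_lit 417) (nat_lit 352) (nat_lit 131))))) (XT.nd (nat_lit 234) (nat_lit 456) (nat_lit 0) (XT.nd (nat_lit 78) (nat_lit 304) (nat_lit 0) (XT.lf (nat_lit 0) (nat_lit 35704194516) (nat_lit 228) (nat_lit 23197446889) (nat_lit 304) (nat_lit 1316779712) (nat_lit 81) (nat_lit 5) (nat_lit 84) (nat_lit 5) (nat_lit 85) (nat_lit 5) (nat_lit 418) (nat_lit 352) (nat_lit 130)) (XT.nd (nat_lit 78) (nat_lit 0) (nat_lit 0) (XT.lf (nat_lit 0) (nat_lit 6704522497) (nat_lit 228) (nat_lit 4027185943) (nat_lit 304) (nat_lit 50707099302) (nat_lit 77) (nat_lit 5) (nat_lit 80) (nat_lit 5) (nat_lit 81) (nat_lit 5) (nat_lit 419)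 (nat_lit 352) (nat_lit 129)) (XT.lf (nat_lit 0) (nat_lit 23514649494) (nat_lit 304) (nat_lit 23495241250) (nat_lit 76) (nat_lit 15673540662) (nat_lit 77) (nat_lit 5) (nat_lit 81) (nat_lit 5) (nat_lit 78) (nat_lit 5) (nat_lit 420) (nat_lit 352) (nat_lit 128)))) (XT.nd (nat_lit 156) (nat_lit 228) (nat_lit 0) (XT.nd (nat_lit 78) (nat_lit 0) (nat_lit 0) (XT.lf (nat_lit 0) (nat_lit 8810469416) (nat_lit 228) (nat_lit 27993596316) (nat_lit 304) (nat_lit 27157638921) (nat_lit 74) (nat_lit 5) (nat_lit 77) (nat_lit 5) (nat_lit 78) (nat_lit 5) (nat_lit 421) (nat_lit 352) (nat_lit 127)) (XT.lf (nat_lit 0) (nat_lit 42564450356) (nat_lit 228) (nat_lit 8163413801) (nat_lit 304) (nat_lit 14543391411) (nat_lit 74) (nat_lit 5) (nat_lit 77) (nat_lit 5) (nat_lit 78) (nat_lit 5) (nat_lit 422) (nat_lit 352) (nat_lit 126))) (XT.nd (nat_lit 78) (nat_lit 76) (nat_lit 0) (XT.lf (nat_lit 0) (nat_lit 10801371218) (nat_lit 152) (nat_lit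 54488181484) (nat_lit 228) (nat_lit 1323935475) (nat_lit 72) (nat_lit 5) (nat_lit 74) (nat_lit 5) (nat_lit 75) (nat_lit 5) (nat_lit 423) (nat_lit 352) (nat_lit 125)) (XT.lf (nat_lit 0) (nat_lit 12363116567) (nat_lit 228) (nat_lit 22412603658) (nat_lit 76) (nat_lit 33207396918) (nat_lit 71) (nat_lit 5) (nat_lit 74) (nat_lit 5) (nat_lit 72) (nat_lit 5) (nat_lit 424) (nat_lit 352) (nat_lit 124)))))) (XT.nd (nat_lit 41262) (nat_lit 0) (nat_lit 13528) (XT.nd (nat_lit 234) (nat_lit 304) (nat_lit 0) (XT.nd (nat_lit 78) (nat_lit 152) (nat_lit 0) (XT.lf (nat_lit 0) (nat_lit 12211653351) (nat_lit 228) (nat_lit 14338432355) (nat_lit 304) (nat_lit 42839878977) (nat_lit 68) (nat_lit 5) (nat_lit 71) (nat_lit 5) (nat_lit 72) (nat_lit 5) (nat_lit 425) (nat_lit 352) (nat_lit 123)) (XT.nd (nat_lit 78) (nat_lit 152) (nat_lit 0) (XT.lf (nat_lit 0) (nat_lit 41454287721) (nat_lit 304) (nat_lit 22567351643) (nat_lit 76) (nat_lit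 6808629971) (nat_lit 68) (nat_lit 5) (nat_lit 72) (nat_lit 5) (nat_lit 69) (nat_lit 5) (nat_lit 426) (nat_lit 352) (nat_lit 122)) (XT.lf (nat_lit 0) (nat_lit 13195089137) (nat_lit 152) (nat_lit 43877913153) (nat_lit 228) (nat_lit 15232759631) (nat_lit 66) (nat_lit 5) (nat_lit 68) (nat_lit 5) (nat_lit 69) (nat_lit 5) (nat_lit 427) (nat_lit 352) (nat_lit 121)))) (XT.nd (nat_lit 78) (nat_lit 304) (nat_lit 0) (XT.lf (nat_lit 0) (nat_lit 50490668189) (nat_lit 152) (nat_lit 22896097414) (nat_lit 228) (nat_lit 431959439) (nat_lit 66) (nat_lit 5) (nat_lit 68) (nat_lit 5) (nat_lit 69) (nat_lit 5) (nat_lit 428) (nat_lit 352) (nat_lit 120)) (XT.nd (nat_lit 78) (nat_lit 0) (nat_lit 0) (XT.lf (nat_lit 0) (nat_lit 13649699097) (nat_lit 228) (nat_lit 1003950812) (nat_lit 304) (nat_lit 60715260670) (nat_lit 62) (nat_lit 5) (nat_lit 65) (nat_lit 5) (nat_lit 66) (nat_lit 5) (nat_lit 429) (nat_lit 352) (nat_lit 119)) (XT.lf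 (nat_lit 0) (nat_lit 30626786272) (nat_lit 304) (nat_lit 24959569554) (nat_lit 76) (nat_lit 21365808675) (nat_lit 62) (nat_lit 5) (nat_lit 66) (nat_lit 5) (nat_lit 63) (nat_lit 5) (nat_lit 430) (nat_lit 352) (nat_lit 118))))) (XT.nd (nat_lit 234) (nat_lit 0) (nat_lit 0) (XT.nd (nat_lit 78) (nat_lit 0) (nat_lit 0) (XT.lf (nat_lit 0) (nat_lit 4108133432) (nat_lit 0) (nat_lit 4108133432) (nat_lit 1140) (nat_lit 1604167693) (nat_lit 240) (nat_lit 5) (nat_lit 240) (nat_lit 3) (nat_lit 255) (nat_lit 3) (nat_lit 353) (nat_lit 353) (nat_lit 194)) (XT.nd (nat_lit 78) (nat_lit 0) (nat_lit 0) (XT.lf (nat_lit 0) (nat_lit 16854467268) (nat_lit 1140) (nat_lit 2134184643) (nat_lit 1216) (nat_lit 941457676) (nat_lit 240) (nat_lit 5) (nat_lit 255) (nat_lit 3) (nat_lit 256) (nat_lit 5) (nat_lit 354) (nat_lit 353) (nat_lit 193)) (XT.lf (nat_lit 76) (nat_lit 7496404660) (nat_lit 0) (nat_lit 9939607608) (nat_lit 1216) (nat_lit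 2787610663) (nat_lit 241) (nat_lit 5) (nat_lit 240) (nat_lit 5) (nat_lit 256) (nat_lit 5) (nat_lit 355) (nat_lit 353) (nat_lit 192)))) (XT.nd (nat_lit 156) (nat_lit 0) (nat_lit 76) (XT.nd (nat_lit 78) (nat_lit 0) (nat_lit 76) (XT.lf (nat_lit 76) (nat_lit 17456220878) (nat_lit 0) (nat_lit 594033039) (nat_lit 1216) (nat_lit 2475234386) (nat_lit 241) (nat_lit 5) (nat_lit 240) (nat_lit 5) (nat_lit 256) (nat_lit 5) (nat_lit 356) (nat_lit 353) (nat_lit 191)) (XT.lf (nat_lit 76) (nat_lit 6923143663) (nat_lit 0) (nat_lit 11907058319) (nat_lit 1216) (nat_lit 2001793298) (nat_lit 242) (nat_lit 5) (nat_lit 241) (nat_lit 5) (nat_lit 257) (nat_lit 5) (nat_lit 357) (nat_lit 353) (nat_lit 190))) (XT.nd (nat_lit 78) (nat_lit 0) (nat_lit 76) (XT.lf (nat_lit 76) (nat_lit 17268726809) (nat_lit 0) (nat_lit 2395692126) (nat_lit 1216) (nat_lit 1482356315) (nat_lit 242) (nat_lit 5) (nat_lit 241) (nat_lit 5) (nat_lit 257) (nat_lit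 5) (nat_lit 358) (nat_lit 353) (nat_lit 189)) (XT.lf (nat_lit 76) (nat_lit 6505872899) (nat_lit 0) (nat_lit 14145719902) (nat_lit 1216) (nat_lit 815571696) (nat_lit 243) (nat_lit 5) (nat_lit 242) (nat_lit 5) (nat_lit 258) (nat_lit 5) (nat_lit 359) (nat_lit 353) (nat_lit 188))))))) (XT.nd (nat_lit 1014) (nat_lit 4332) (nat_lit 0) (XT.nd (nat_lit 468) (nat_lit 912) (nat_lit 0) (XT.nd (nat_lit 234) (nat_lit 0) (nat_lit 76) (XT.nd (nat_lit 78) (nat_lit 1140) (nat_lit 0) (XT.lf (nat_lit 76) (nat_lit 17253035874) (nat_lit 0) (nat_lit 4472375850) (nat_lit 1216) (nat_lit 70046477) (nat_lit 243) (nat_lit 5) (nat_lit 242) (nat_lit 5) (nat_lit 258) (nat_lit 5) (nat_lit 360) (nat_lit 353) (nat_lit 187)) (XT.nd (nat_lit 78) (nat_lit 0) (nat_lit 0) (XT.lf (nat_lit 0) (nat_lit 792759916) (nat_lit 1216) (nat_lit 15883535972) (nat_lit 1292) (nat_lit 5453851064) (nat_lit 227) (nat_lit 5) (nat_lit 243) (nat_lit 5) (nat_lit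 244) (nat_lit 5) (nat_lit 361) (nat_lit 353) (nat_lit 186)) (XT.lf (nat_lit 0) (nat_lit 1765279387) (nat_lit 1216) (nat_lit 5070235049) (nat_lit 1292) (nat_lit 15636787384) (nat_lit 227) (nat_lit 5) (nat_lit 243) (nat_lit 5) (nat_lit 244) (nat_lit 5) (nat_lit 362) (nat_lit 353) (nat_lit 185)))) (XT.nd (nat_lit 78) (nat_lit 0) (nat_lit 0) (XT.lf (nat_lit 0) (nat_lit 2853542427) (nat_lit 1216) (nat_lit 16670908281) (nat_lit 1292) (nat_lit 3297676854) (nat_lit 228) (nat_lit 5) (nat_lit 244) (nat_lit 5) (nat_lit 245) (nat_lit 5) (nat_lit 363) (nat_lit 353) (nat_lit 184)) (XT.nd (nat_lit 78) (nat_lit 0) (nat_lit 76) (XT.lf (nat_lit 0) (nat_lit 4088758212) (nat_lit 1216) (nat_lit 5439607959) (nat_lit 1292) (nat_lit 13650655931) (nat_lit 228) (nat_lit 5) (nat_lit 244) (nat_lit 5) (nat_lit 245) (nat_lit 5) (nat_lit 364) (nat_lit 353) (nat_lit 183)) (XT.lf (nat_lit 0) (nat_lit 5424132856) (nat_lit 1216) (nat_lit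 17306081162) (nat_lit 1292) (nat_lit 814519467) (nat_lit 229) (nat_lit 5) (nat_lit 245) (nat_lit 5) (nat_lit 246) (nat_lit 5) (nat_lit 365) (nat_lit 353) (nat_lit 182))))) (XT.nd (nat_lit 234) (nat_lit 1064) (nat_lit 0) (XT.nd (nat_lit 78) (nat_lit 0) (nat_lit 0) (XT.lf (nat_lit 0) (nat_lit 6944570789) (nat_lit 1216) (nat_lit 5639661931) (nat_lit 1292) (nat_lit 11332836417) (nat_lit 229) (nat_lit 5) (nat_lit 245) (nat_lit 5) (nat_lit 246) (nat_lit 5) (nat_lit 366) (nat_lit 353) (nat_lit 181)) (XT.nd (nat_lit 78) (nat_lit 0) (nat_lit 76) (XT.lf (nat_lit 76) (nat_lit 6499920194) (nat_lit 0) (nat_lit 2068511574) (nat_lit 1292) (nat_lit 15730411695) (nat_lit 230) (nat_lit 5) (nat_lit 229) (nat_lit 5) (nat_lit 246) (nat_lit 5) (nat_lit 367) (nat_lit 353) (nat_lit 180)) (XT.lf (nat_lit 0) (nat_lit 10378193103) (nat_lit 1216) (nat_lit 5659640863) (nat_lit 1292) (nat_lit 8650124335) (nat_lit 230) (nat_lit 5) (nat_lit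 246) (nat_lit 5) (nat_lit 247) (nat_lit 5) (nat_lit 368) (nat_lit 353) (nat_lit 179)))) (XT.nd (nat_lit 156) (nat_lit 1140) (nat_lit 0) (XT.nd (nat_lit 78) (nat_lit 0) (nat_lit 76) (XT.lf (nat_lit 76) (nat_lit 6955395052) (nat_lit 0) (nat_lit 5369763788) (nat_lit 1292) (nat_lit 12761103133) (nat_lit 231) (nat_lit 5) (nat_lit 230) (nat_lit 5) (nat_lit 247) (nat_lit 5) (nat_lit 369) (nat_lit 353) (nat_lit 178)) (XT.lf (nat_lit 0) (nat_lit 14437930205) (nat_lit 1216) (nat_lit 5488246843) (nat_lit 76) (nat_lit 5567118463) (nat_lit 231) (nat_lit 5) (nat_lit 247) (nat_lit 5) (nat_lit 232) (nat_lit 5) (nat_lit 370) (nat_lit 353) (nat_lit 177))) (XT.nd (nat_lit 78) (nat_lit 0) (nat_lit 0) (XT.lf (nat_lit 0) (nat_lit 7625626281) (nat_lit 1216) (nat_lit 9110725159) (nat_lit 1292) (nat_lit 9172523192) (nat_lit 215) (nat_lit 5) (nat_lit 231) (nat_lit 5) (nat_lit 232) (nat_lit 5) (nat_lit 371) (nat_lit 353) (nat_lit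 176)) (XT.lf (nat_lit 0) (nat_lit 19175091134) (nat_lit 1292) (nat_lit 5113651469) (nat_lit 76) (nat_lit 2046040052) (nat_lit 215) (nat_lit 5) (nat_lit 232) (nat_lit 5) (nat_lit 216) (nat_lit 5) (nat_lit 372) (nat_lit 353) (nat_lit 175)))))) (XT.nd (nat_lit 546) (nat_lit 1976) (nat_lit 0) (XT.nd (nat_lit 234) (nat_lit 1140) (nat_lit 0) (XT.nd (nat_lit 78) (nat_lit 608) (nat_lit 0) (XT.lf (nat_lit 0) (nat_lit 8523504131) (nat_lit 608) (nat_lit 13331637661) (nat_lit 684) (nat_lit 4913284092) (nat_lit 207) (nat_lit 5) (nat_lit 215) (nat_lit 5) (nat_lit 216) (nat_lit 5) (nat_lit 373) (nat_lit 353) (nat_lit 174)) (XT.nd (nat_lit 78) (nat_lit 608) (nat_lit 0) (XT.lf (nat_lit 0) (nat_lit 22670986755) (nat_lit 608) (nat_lit 1992336984) (nat_lit 684) (nat_lit 2550325139) (nat_lit 207) (nat_lit 5) (nat_lit 215) (nat_lit 5) (nat_lit 216) (nat_lit 5) (nat_lit 374) (nat_lit 353) (nat_lit 173)) (XT.lf (nat_lit 0) (nat_lit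 69806092) (nat_lit 608) (nat_lit 18004978966) (nat_lit 76) (nat_lit 9591959001) (nat_lit 199) (nat_lit 5) (nat_lit 207) (nat_lit 5) (nat_lit 200) (nat_lit 5) (nat_lit 375) (nat_lit 353) (nat_lit 172)))) (XT.nd (nat_lit 156) (nat_lit 532) (nat_lit 0) (XT.nd (nat_lit 78) (nat_lit 608) (nat_lit 0) (XT.lf (nat_lit 0) (nat_lit 2779579968) (nat_lit 608) (nat_lit 3795709195) (nat_lit 76) (nat_lit 21555518636) (nat_lit 199) (nat_lit 5) (nat_lit 207) (nat_lit 5) (nat_lit 200) (nat_lit 5) (nat_lit 376) (nat_lit 353) (nat_lit 171)) (XT.lf (nat_lit 0) (nat_lit 5724943252) (nat_lit 684) (nat_lit 17605479940) (nat_lit 76) (nat_lit 5273743469) (nat_lit 191) (nat_lit 5) (nat_lit 200) (nat_lit 5) (nat_lit 192) (nat_lit 5) (nat_lit 377) (nat_lit 353) (nat_lit 170))) (XT.nd (nat_lit 78) (nat_lit 532) (nat_lit 0) (XT.lf (nat_lit 0) (nat_lit 8858905563) (nat_lit 684) (nat_lit 2844970377) (nat_lit 76) (nat_lit 17384845242) (nat_lit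 191) (nat_lit 5) (nat_lit 200) (nat_lit 5) (nat_lit 192) (nat_lit 5) (nat_lit 378) (nat_lit 353) (nat_lit 169)) (XT.lf (nat_lit 0) (nat_lit 12208352259) (nat_lit 608) (nat_lit 16987382612) (nat_lit 76) (nat_lit 388435478) (nat_lit 184) (nat_lit 5) (nat_lit 192) (nat_lit 5) (nat_lit 185) (nat_lit 5) (nat_lit 379) (nat_lit 353) (nat_lit 168))))) (XT.nd (nat_lit 234) (nat_lit 1444) (nat_lit 0) (XT.nd (nat_lit 78) (nat_lit 532) (nat_lit 0) (XT.lf (nat_lit 0) (nat_lit 15799773493) (nat_lit 608) (nat_lit 1653265816) (nat_lit 76) (nat_lit 12637200866) (nat_lit 184) (nat_lit 5) (nat_lit 192) (nat_lit 5) (nat_lit 185) (nat_lit 5) (nat_lit 380) (nat_lit 353) (nat_lit 167)) (XT.nd (nat_lit 78) (nat_lit 0) (nat_lit 0) (XT.lf (nat_lit 0) (nat_lit 14418742905) (nat_lit 532) (nat_lit 5215493434) (nat_lit 608) (nat_lit 10973198652) (nat_lit 177) (nat_lit 5) (nat_lit 184) (nat_lit 5) (nat_lit 185) (nat_lit 5) (nat_lit 381)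 (nat_lit 353) (nat_lit 166)) (XT.lf (nat_lit 0) (nat_lit 23668380455) (nat_lit 608) (nat_lit 207593030) (nat_lit 76) (nat_lit 7261634552) (nat_lit 177) (nat_lit 5) (nat_lit 185) (nat_lit 5) (nat_lit 178) (nat_lit 5) (nat_lit 382) (nat_lit 353) (nat_lit 165)))) (XT.nd (nat_lit 156) (nat_lit 456) (nat_lit 0) (XT.nd (nat_lit 78) (nat_lit 532) (nat_lit 0) (XT.lf (nat_lit 0) (nat_lit 16520217119) (nat_lit 456) (nat_lit 11510625223) (nat_lit 532) (nat_lit 3646626885) (nat_lit 171) (nat_lit 5) (nat_lit 177) (nat_lit 5) (nat_lit 178) (nat_lit 5) (nat_lit 383) (nat_lit 353) (nat_lit 164)) (XT.lf (nat_lit 0) (nat_lit 310797038) (nat_lit 532) (nat_lit 30700507514) (nat_lit 76) (nat_lit 1221365031) (nat_lit 164) (nat_lit 5) (nat_lit 171) (nat_lit 5) (nat_lit 165) (nat_lit 5) (nat_lit 384) (nat_lit 353) (nat_lit 163))) (XT.nd (nat_lit 78) (nat_lit 456) (nat_lit 0) (XT.lf (nat_lit 0) (nat_lit 4579123719) (nat_lit 532)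 (nat_lit 13922091805) (nat_lit 76) (nat_lit 14294264668) (nat_lit 164) (nat_lit 5) (nat_lit 171) (nat_lit 5) (nat_lit 165) (nat_lit 5) (nat_lit 385) (nat_lit 353) (nat_lit 162)) (XT.lf (nat_lit 0) (nat_lit 3423037351) (nat_lit 456) (nat_lit 5582389593) (nat_lit 532) (nat_lit 24368851932) (nat_lit 158) (nat_lit 5) (nat_lit 164) (nat_lit 5) (nat_lit 165) (nat_lit 5) (nat_lit 386) (nat_lit 353) (nat_lit 161))))))))
noncomputable def xc218 : XT := (XT.nd (nat_lit 2028) (nat_lit 2204) (nat_lit 0) (XT.nd (nat_lit 1014) (nat_lit 1900) (nat_lit 0) (XT.nd (nat_lit 468) (nat_lit 1520) (nat_lit 0) (XT.nd (nat_lit 234) (nat_lit 912) (nat_lit 0) (XT.nd (nat_lit 78) (nat_lit 456) (nat_lit 0) (XT.lf (nat_lit 0) (nat_lit 13777816714) (nat_lit 532) (nat_lit 12471439863) (nat_lit 76) (nat_lit 7714787536) (nat_lit 158) (nat_lit 5) (nat_lit 165) (nat_lit 5) (nat_lit 159) (nat_lit 5) (nat_lit 387) (nat_lit 353) (nat_lit 160))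 (XT.nd (nat_lit 78) (nat_lit 0) (nat_lit 0) (XT.lf (nat_lit 0) (nat_lit 5583045757) (nat_lit 456) (nat_lit 13216428397) (nat_lit 532) (nat_lit 15768846744) (nat_lit 152) (nat_lit 5) (nat_lit 158) (nat_lit 5) (nat_lit 159) (nat_lit 5) (nat_lit 388) (nat_lit 353) (nat_lit 159)) (XT.lf (nat_lit 0) (nat_lit 24098161174) (nat_lit 532) (nat_lit 10758800933) (nat_lit 76) (nat_lit 329973910) (nat_lit 152) (nat_lit 5) (nat_lit 159) (nat_lit 5) (nat_lit 153) (nat_lit 5) (nat_lit 389) (nat_lit 353) (nat_lit 158)))) (XT.nd (nat_lit 78) (nat_lit 532) (nat_lit 0) (XT.lf (nat_lit 0) (nat_lit 8037113857) (nat_lit 380) (nat_lit 21724092174) (nat_lit 456) (nat_lit 6056743030) (nat_lit 147) (nat_lit 5) (nat_lit 152) (nat_lit 5) (nat_lit 153) (nat_lit 5) (nat_lit 390) (nat_lit 353) (nat_lit 157)) (XT.nd (nat_lit 78) (nat_lit 532) (nat_lit 0) (XT.lf (nat_lit 0) (nat_lit 27614152661) (nat_lit 380) (nat_lit 8085963616) (nat_lit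 456) (nat_lit 764598342) (nat_lit 147) (nat_lit 5) (nat_lit 152) (nat_lit 5) (nat_lit 153) (nat_lit 5) (nat_lit 391) (nat_lit 353) (nat_lit 156)) (XT.lf (nat_lit 0) (nat_lit 4754933289) (nat_lit 532) (nat_lit 26375003200) (nat_lit 76) (nat_lit 5994794411) (nat_lit 140) (nat_lit 5) (nat_lit 147) (nat_lit 5) (nat_lit 141) (nat_lit 5) (nat_lit 392) (nat_lit 353) (nat_lit 155))))) (XT.nd (nat_lit 234) (nat_lit 1140) (nat_lit 0) (XT.nd (nat_lit 78) (nat_lit 380) (nat_lit 0) (XT.lf (nat_lit 0) (nat_lit 10592421504) (nat_lit 532) (nat_lit 6774222629) (nat_lit 76) (nat_lit 20432645510) (nat_lit 140) (nat_lit 5) (nat_lit 147) (nat_lit 5) (nat_lit 141) (nat_lit 5) (nat_lit 393) (nat_lit 353) (nat_lit 154)) (XT.nd (nat_lit 78) (nat_lit 0) (nat_lit 0) (XT.lf (nat_lit 0) (nat_lit 13678294301) (nat_lit 380) (nat_lit 3055720362) (nat_lit 456) (nat_lit 21756202272) (nat_lit 135) (nat_lit 5) (nat_lit 140) (nat_lit 5) (nat_lit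 141) (nat_lit 5) (nat_lit 394) (nat_lit 353) (nat_lit 153)) (XT.lf (nat_lit 0) (nat_lit 23238789975) (nat_lit 456) (nat_lit 4432801025) (nat_lit 76) (nat_lit 11524914177) (nat_lit 135) (nat_lit 5) (nat_lit 141) (nat_lit 5) (nat_lit 136) (nat_lit 5) (nat_lit 395) (nat_lit 353) (nat_lit 152)))) (XT.nd (nat_lit 156) (nat_lit 760) (nat_lit 0) (XT.nd (nat_lit 78) (nat_lit 0) (nat_lit 0) (XT.lf (nat_lit 0) (nat_lit 16853163082) (nat_lit 380) (nat_lit 13275406760) (nat_lit 456) (nat_lit 9789717511) (nat_lit 130) (nat_lit 5) (nat_lit 135) (nat_lit 5) (nat_lit 136) (nat_lit 5) (nat_lit 396) (nat_lit 353) (nat_lit 151)) (XT.lf (nat_lit 0) (nat_lit 37282810397) (nat_lit 456) (nat_lit 1810350395) (nat_lit 76) (nat_lit 1566830278) (nat_lit 130) (nat_lit 5) (nat_lit 136) (nat_lit 5) (nat_lit 131) (nat_lit 5) (nat_lit 397) (nat_lit 353) (nat_lit 150))) (XT.nd (nat_lit 78) (nat_lit 380) (nat_lit 0) (XT.lf (nat_lit 0) (nat_lit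 3492670502) (nat_lit 380) (nat_lit 21103908923) (nat_lit 76) (nat_lit 16816599009) (nat_lit 125) (nat_lit 5) (nat_lit 130) (nat_lit 5) (nat_lit 126) (nat_lit 5) (nat_lit 398) (nat_lit 353) (nat_lit 149)) (XT.lf (nat_lit 0) (nat_lit 922457696) (nat_lit 380) (nat_lit 9603330069) (nat_lit 456) (nat_lit 31661420077) (nat_lit 120) (nat_lit 5) (nat_lit 125) (nat_lit 5) (nat_lit 126) (nat_lit 5) (nat_lit 399) (nat_lit 353) (nat_lit 148)))))) (XT.nd (nat_lit 468) (nat_lit 912) (nat_lit 0) (XT.nd (nat_lit 234) (nat_lit 684) (nat_lit 0) (XT.nd (nat_lit 78) (nat_lit 304) (nat_lit 0) (XT.lf (nat_lit 0) (nat_lit 18038999867) (nat_lit 456) (nat_lit 18997214777) (nat_lit 76) (nat_lit 5940171420) (nat_lit 120) (nat_lit 5) (nat_lit 126) (nat_lit 5) (nat_lit 121) (nat_lit 5) (nat_lit 400) (nat_lit 353) (nat_lit 147)) (XT.nd (nat_lit 78) (nat_lit 0) (nat_lit 0) (XT.lf (nat_lit 0) (nat_lit 3916653617) (nat_lit 304) (nat_lit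 21991500352) (nat_lit 380) (nat_lit 17877170238) (nat_lit 116) (nat_lit 5) (nat_lit 120) (nat_lit 5) (nat_lit 121) (nat_lit 5) (nat_lit 401) (nat_lit 353) (nat_lit 146)) (XT.lf (nat_lit 0) (nat_lit 27904353555) (nat_lit 304) (nat_lit 6298712403) (nat_lit 380) (nat_lit 10409774956) (nat_lit 116) (nat_lit 5) (nat_lit 120) (nat_lit 5) (nat_lit 121) (nat_lit 5) (nat_lit 402) (nat_lit 353) (nat_lit 145)))) (XT.nd (nat_lit 78) (nat_lit 380) (nat_lit 0) (XT.lf (nat_lit 0) (nat_lit 7188980508) (nat_lit 304) (nat_lit 35719680039) (nat_lit 380) (nat_lit 2551668407) (nat_lit 112) (nat_lit 5) (nat_lit 116) (nat_lit 5) (nat_lit 117) (nat_lit 5) (nat_lit 403) (nat_lit 353) (nat_lit 144)) (XT.nd (nat_lit 78) (nat_lit 304) (nat_lit 0) (XT.lf (nat_lit 0) (nat_lit 5664705147) (nat_lit 380) (nat_lit 14302598632) (nat_lit 76) (nat_lit 26357420298) (nat_lit 111) (nat_lit 5) (nat_lit 116) (nat_lit 5) (nat_lit 112) (nat_lit 5)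 (nat_lit 404) (nat_lit 353) (nat_lit 143)) (XT.lf (nat_lit 0) (nat_lit 10563172398) (nat_lit 304) (nat_lit 3612626666) (nat_lit 380) (nat_lit 33035509427) (nat_lit 107) (nat_lit 5) (nat_lit 111) (nat_lit 5) (nat_lit 112) (nat_lit 5) (nat_lit 405) (nat_lit 353) (nat_lit 142))))) (XT.nd (nat_lit 234) (nat_lit 608) (nat_lit 0) (XT.nd (nat_lit 78) (nat_lit 304) (nat_lit 0) (XT.lf (nat_lit 0) (nat_lit 23213283060) (nat_lit 380) (nat_lit 11783608914) (nat_lit 76) (nat_lit 13119467536) (nat_lit 107) (nat_lit 5) (nat_lit 112) (nat_lit 5) (nat_lit 108) (nat_lit 5) (nat_lit 406) (nat_lit 353) (nat_lit 141)) (XT.nd (nat_lit 78) (nat_lit 0) (nat_lit 0) (XT.lf (nat_lit 0) (nat_lit 14062657402) (nat_lit 304) (nat_lit 18628238277) (nat_lit 380) (nat_lit 16352597026) (nat_lit 103) (nat_lit 5) (nat_lit 107) (nat_lit 5) (nat_lit 108) (nat_lit 5) (nat_lit 407) (nat_lit 353) (nat_lit 140)) (XT.lf (nat_lit 0) (nat_lit 40923050797)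 (nat_lit 304) (nat_lit 1646863439) (nat_lit 380) (nat_lit 7425014077) (nat_lit 103) (nat_lit 5) (nat_lit 107) (nat_lit 5) (nat_lit 108) (nat_lit 5) (nat_lit 408) (nat_lit 353) (nat_lit 139)))) (XT.nd (nat_lit 156) (nat_lit 304) (nat_lit 0) (XT.nd (nat_lit 78) (nat_lit 0) (nat_lit 0) (XT.lf (nat_lit 0) (nat_lit 2060637664) (nat_lit 304) (nat_lit 33178720472) (nat_lit 76) (nat_lit 15725295368) (nat_lit 99) (nat_lit 5) (nat_lit 103) (nat_lit 5) (nat_lit 100) (nat_lit 5) (nat_lit 409) (nat_lit 353) (nat_lit 138)) (XT.lf (nat_lit 0) (nat_lit 11788586869) (nat_lit 304) (nat_lit 6418797160) (nat_lit 76) (nat_lit 33750672755) (nat_lit 99) (nat_lit 5) (nat_lit 103) (nat_lit 5) (nat_lit 100) (nat_lit 5) (nat_lit 410) (nat_lit 353) (nat_lit 137))) (XT.nd (nat_lit 78) (nat_lit 0) (nat_lit 0) (XT.lf (nat_lit 0) (nat_lit 21561966880) (nat_lit 304) (nat_lit 451871161) (nat_lit 380) (nat_lit 30961260878) (nat_lit 95) (nat_lit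 5) (nat_lit 99) (nat_lit 5) (nat_lit 100) (nat_lit 5) (nat_lit 411) (nat_lit 353) (nat_lit 136)) (XT.lf (nat_lit 0) (nat_lit 32780973979) (nat_lit 380) (nat_lit 3681797449) (nat_lit 76) (nat_lit 17552827715) (nat_lit 95) (nat_lit 5) (nat_lit 100) (nat_lit 5) (nat_lit 96) (nat_lit 5) (nat_lit 412) (nat_lit 353) (nat_lit 135))))))) (XT.nd (nat_lit 1014) (nat_lit 380) (nat_lit 0) (XT.nd (nat_lit 468) (nat_lit 760) (nat_lit 0) (XT.nd (nat_lit 234) (nat_lit 456) (nat_lit 0) (XT.nd (nat_lit 78) (nat_lit 380) (nat_lit 0) (XT.lf (nat_lit 0) (nat_lit 25369403797) (nat_lit 228) (nat_lit 18748327110) (nat_lit 304) (nat_lit 10962185883) (nat_lit 92) (nat_lit 5) (nat_lit 95) (nat_lit 5) (nat_lit 96) (nat_lit 5) (nat_lit 413) (nat_lit 353) (nat_lit 134)) (XT.nd (nat_lit 78) (nat_lit 380) (nat_lit 0) (XT.lf (nat_lit 0) (nat_lit 55364992425) (nat_lit 228) (nat_lit 465069049) (nat_lit 304) (nat_lit 345038972) (nat_lit 92)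 (nat_lit 5) (nat_lit 95) (nat_lit 5) (nat_lit 96) (nat_lit 5) (nat_lit 414) (nat_lit 353) (nat_lit 133)) (XT.lf (nat_lit 0) (nat_lit 10845509534) (nat_lit 380) (nat_lit 28044846059) (nat_lit 76) (nat_lit 18395884031) (nat_lit 87) (nat_lit 5) (nat_lit 92) (nat_lit 5) (nat_lit 88) (nat_lit 5) (nat_lit 415) (nat_lit 353) (nat_lit 132)))) (XT.nd (nat_lit 78) (nat_lit 228) (nat_lit 0) (XT.lf (nat_lit 0) (nat_lit 1805105749) (nat_lit 228) (nat_lit 20588292033) (nat_lit 304) (nat_lit 36036356516) (nat_lit 84) (nat_lit 5) (nat_lit 87) (nat_lit 5) (nat_lit 88) (nat_lit 5) (nat_lit 416) (nat_lit 353) (nat_lit 131)) (XT.nd (nat_lit 78) (nat_lit 228) (nat_lit 0) (XT.lf (nat_lit 0) (nat_lit 33122877854) (nat_lit 228) (nat_lit 1446406722) (nat_lit 304) (nat_lit 25029843519) (nat_lit 84) (nat_lit 5) (nat_lit 87) (nat_lit 5) (nat_lit 88) (nat_lit 5) (nat_lit 417) (nat_lit 353) (nat_lit 130)) (XT.lf (nat_lit 0) (nat_lit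 4485983125) (nat_lit 228) (nat_lit 42841609609) (nat_lit 304) (nat_lit 13469476550) (nat_lit 81) (nat_lit 5) (nat_lit 84) (nat_lit 5) (nat_lit 85) (nat_lit 5) (nat_lit 418) (nat_lit 353) (nat_lit 129))))) (XT.nd (nat_lit 234) (nat_lit 456) (nat_lit 0) (XT.nd (nat_lit 78) (nat_lit 304) (nat_lit 0) (XT.lf (nat_lit 0) (nat_lit 36902704936) (nat_lit 228) (nat_lit 23845909142) (nat_lit 304) (nat_lit 1273936220) (nat_lit 81) (nat_lit 5) (nat_lit 84) (nat_lit 5) (nat_lit 85) (nat_lit 5) (nat_lit 419) (nat_lit 353) (nat_lit 128)) (XT.nd (nat_lit 78) (nat_lit 0) (nat_lit 0) (XT.lf (nat_lit 0) (nat_lit 7033409773) (nat_lit 228) (nat_lit 4099866294) (nat_lit 304) (nat_lit 52146283143) (nat_lit 77) (nat_lit 5) (nat_lit 80) (nat_lit 5) (nat_lit 81) (nat_lit 5) (nat_lit 420) (nat_lit 353) (nat_lit 127)) (XT.lf (nat_lit 0) (nat_lit 24297835659) (nat_lit 304) (nat_lit 24074174547) (nat_lit 76) (nat_lit 16189568178) (nat_lit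 77) (nat_lit 5) (nat_lit 81) (nat_lit 5) (nat_lit 78) (nat_lit 5) (nat_lit 421) (nat_lit 353) (nat_lit 126)))) (XT.nd (nat_lit 156) (nat_lit 228) (nat_lit 0) (XT.nd (nat_lit 78) (nat_lit 0) (nat_lit 0) (XT.lf (nat_lit 0) (nat_lit 9199472891) (nat_lit 228) (nat_lit 28785395617) (nat_lit 304) (nat_lit 27893363981) (nat_lit 74) (nat_lit 5) (nat_lit 77) (nat_lit 5) (nat_lit 78) (nat_lit 5) (nat_lit 422) (nat_lit 353) (nat_lit 125)) (XT.lf (nat_lit 0) (nat_lit 43962441530) (nat_lit 228) (nat_lit 8361705935) (nat_lit 304) (nat_lit 14902990137) (nat_lit 74) (nat_lit 5) (nat_lit 77) (nat_lit 5) (nat_lit 78) (nat_lit 5) (nat_lit 423) (nat_lit 353) (nat_lit 124))) (XT.nd (nat_lit 78) (nat_lit 76) (nat_lit 0) (XT.lf (nat_lit 0) (nat_lit 11247073043) (nat_lit 152) (nat_lit 56075049726) (nat_lit 228) (nat_lit 1287531984) (nat_lit 72) (nat_lit 5) (nat_lit 74) (nat_lit 5) (nat_lit 75) (nat_lit 5) (nat_lit 424) (nat_lit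 353) (nat_lit 123)) (XT.lf (nat_lit 0) (nat_lit 12806472346) (nat_lit 228) (nat_lit 22965402126) (nat_lit 76) (nat_lit 34248541990) (nat_lit 71) (nat_lit 5) (nat_lit 74) (nat_lit 5) (nat_lit 72) (nat_lit 5) (nat_lit 425) (nat_lit 353) (nat_lit 122)))))) (XT.nd (nat_lit 41496) (nat_lit 0) (nat_lit 12160) (XT.nd (nat_lit 234) (nat_lit 0) (nat_lit 0) (XT.nd (nat_lit 78) (nat_lit 152) (nat_lit 0) (XT.lf (nat_lit 0) (nat_lit 12696410244) (nat_lit 228) (nat_lit 14721667966) (nat_lit 304) (nat_lit 44051420980) (nat_lit 68) (nat_lit 5) (nat_lit 71) (nat_lit 5) (nat_lit 72) (nat_lit 5) (nat_lit 426) (nat_lit 353) (nat_lit 121)) (XT.nd (nat_lit 78) (nat_lit 152) (nat_lit 0) (XT.lf (nat_lit 0) (nat_lit 42767761917) (nat_lit 304) (nat_lit 23127750127) (nat_lit 76) (nat_lit 7057550844) (nat_lit 68) (nat_lit 5) (nat_lit 72) (nat_lit 5) (nat_lit 69) (nat_lit 5) (nat_lit 427) (nat_lit 353) (nat_lit 120)) (XT.lf (nat_lit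 0) (nat_lit 13706420523) (nat_lit 152) (nat_lit 45147693115) (nat_lit 228) (nat_lit 15618734900) (nat_lit 66) (nat_lit 5) (nat_lit 68) (nat_lit 5) (nat_lit 69) (nat_lit 5) (nat_lit 428) (nat_lit 353) (nat_lit 119)))) (XT.nd (nat_lit 41106) (nat_lit 0) (nat_lit 13224) (XT.nd (nat_lit 41028) (nat_lit 0) (nat_lit 13224) (XT.lf (nat_lit 0) (nat_lit 52117503489) (nat_lit 152) (nat_lit 23537778946) (nat_lit 228) (nat_lit 375978882) (nat_lit 66) (nat_lit 5) (nat_lit 68) (nat_lit 5) (nat_lit 69) (nat_lit 5) (nat_lit 429) (nat_lit 353) (nat_lit 118)) (XT.lf (nat_lit 0) (nat_lit 4313686330) (nat_lit 0) (nat_lit 4313686330) (nat_lit 1140) (nat_lit 1482628250) (nat_lit 240) (nat_lit 5) (nat_lit 240) (nat_lit 3) (nat_lit 255) (nat_lit 3) (nat_lit 354) (nat_lit 354) (nat_lit 192))) (XT.nd (nat_lit 78) (nat_lit 0) (nat_lit 0) (XT.lf (nat_lit 0) (nat_lit 17678211165) (nat_lit 1140) (nat_lit 2027051382) (nat_lit 1216) (nat_lit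 812997032) (nat_lit 240) (nat_lit 5) (nat_lit 255) (nat_lit 3) (nat_lit 256) (nat_lit 5) (nat_lit 355) (nat_lit 354) (nat_lit 191)) (XT.lf (nat_lit 76) (nat_lit 7890777573) (nat_lit 0) (nat_lit 10378788758) (nat_lit 1216) (nat_lit 2551247194) (nat_lit 241) (nat_lit 5) (nat_lit 240) (nat_lit 5) (nat_lit 256) (nat_lit 5) (nat_lit 356) (nat_lit 354) (nat_lit 190))))) (XT.nd (nat_lit 234) (nat_lit 1064) (nat_lit 0) (XT.nd (nat_lit 78) (nat_lit 0) (nat_lit 76) (XT.lf (nat_lit 76) (nat_lit 18144451945) (nat_lit 0) (nat_lit 748740363) (nat_lit 1216) (nat_lit 2238819778) (nat_lit 241) (nat_lit 5) (nat_lit 240) (nat_lit 5) (nat_lit 256) (nat_lit 5) (nat_lit 357) (nat_lit 354) (nat_lit 189)) (XT.nd (nat_lit 78) (nat_lit 0) (nat_lit 0) (XT.lf (nat_lit 76) (nat_lit 7304222437) (nat_lit 0) (nat_lit 12383926007) (nat_lit 1216) (nat_lit 1759823303) (nat_lit 242) (nat_lit 5) (nat_lit 241) (nat_lit 5) (nat_lit 257) (nat_lit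 5) (nat_lit 358) (nat_lit 354) (nat_lit 188)) (XT.lf (nat_lit 76) (nat_lit 17955123045) (nat_lit 0) (nat_lit 2583733704) (nat_lit 1216) (nat_lit 1233600021) (nat_lit 242) (nat_lit 5) (nat_lit 241) (nat_lit 5) (nat_lit 257) (nat_lit 5) (nat_lit 359) (nat_lit 354) (nat_lit 187)))) (XT.nd (nat_lit 156) (nat_lit 0) (nat_lit 76) (XT.nd (nat_lit 78) (nat_lit 1216) (nat_lit 0) (XT.lf (nat_lit 76) (nat_lit 6877475169) (nat_lit 0) (nat_lit 14670495837) (nat_lit 1216) (nat_lit 554722366) (nat_lit 243) (nat_lit 5) (nat_lit 242) (nat_lit 5) (nat_lit 258) (nat_lit 5) (nat_lit 360) (nat_lit 354) (nat_lit 186)) (XT.lf (nat_lit 0) (nat_lit 200860894) (nat_lit 1216) (nat_lit 4501137870) (nat_lit 1292) (nat_lit 17739025213) (nat_lit 226) (nat_lit 5) (nat_lit 242) (nat_lit 5) (nat_lit 243) (nat_lit 5) (nat_lit 361) (nat_lit 354) (nat_lit 185))) (XT.nd (nat_lit 78) (nat_lit 0) (nat_lit 0) (XT.lf (nat_lit 0) (nat_lit 1081048882)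 (nat_lit 1216) (nat_lit 16175917945) (nat_lit 1292) (nat_lit 5528983574) (nat_lit 227) (nat_lit 5) (nat_lit 243) (nat_lit 5) (nat_lit 244) (nat_lit 5) (nat_lit 362) (nat_lit 354) (nat_lit 184)) (XT.lf (nat_lit 0) (nat_lit 2075039874) (nat_lit 1216) (nat_lit 5043580832) (nat_lit 1292) (nat_lit 16019985159) (nat_lit 227) (nat_lit 5) (nat_lit 243) (nat_lit 5) (nat_lit 244) (nat_lit 5) (nat_lit 363) (nat_lit 354) (nat_lit 183))))))))
noncomputable def xc219 : XT := (XT.nd (nat_lit 2106) (nat_lit 5168) (nat_lit 0) (XT.nd (nat_lit 1014) (nat_lit 3572) (nat_lit 0) (XT.nd (nat_lit 468) (nat_lit 2204) (nat_lit 0) (XT.nd (nat_lit 234) (nat_lit 0) (nat_lit 76) (XT.nd (nat_lit 78) (nat_lit 0) (nat_lit 0) (XT.lf (nat_lit 0) (nat_lit 3189461168) (nat_lit 1216) (nat_lit 16985628366) (nat_lit 1292) (nat_lit 3324036223) (nat_lit 228) (nat_lit 5) (nat_lit 244) (nat_lit 5) (nat_lit 245) (nat_lit 5) (nat_lit 364) (nat_lit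 354) (nat_lit 182)) (XT.nd (nat_lit 78) (nat_lit 0) (nat_lit 76) (XT.lf (nat_lit 0) (nat_lit 4454442772) (nat_lit 1216) (nat_lit 5422789242) (nat_lit 1292) (nat_lit 13989718388) (nat_lit 228) (nat_lit 5) (nat_lit 244) (nat_lit 5) (nat_lit 245) (nat_lit 5) (nat_lit 365) (nat_lit 354) (nat_lit 181)) (XT.lf (nat_lit 0) (nat_lit 5823942593) (nat_lit 1216) (nat_lit 17639173289) (nat_lit 1292) (nat_lit 780699746) (nat_lit 229) (nat_lit 5) (nat_lit 245) (nat_lit 5) (nat_lit 246) (nat_lit 5) (nat_lit 366) (nat_lit 354) (nat_lit 180)))) (XT.nd (nat_lit 78) (nat_lit 0) (nat_lit 0) (XT.lf (nat_lit 0) (nat_lit 7383088253) (nat_lit 1216) (nat_lit 5628181587) (nat_lit 1292) (nat_lit 11616262961) (nat_lit 229) (nat_lit 5) (nat_lit 245) (nat_lit 5) (nat_lit 246) (nat_lit 5) (nat_lit 367) (nat_lit 354) (nat_lit 179)) (XT.nd (nat_lit 78) (nat_lit 0) (nat_lit 76) (XT.lf (nat_lit 76) (nat_lit 6873816725) (nat_lit 0) (nat_lit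 2176863742) (nat_lit 1292) (nat_lit 15970233594) (nat_lit 230) (nat_lit 5) (nat_lit 229) (nat_lit 5) (nat_lit 246) (nat_lit 5) (nat_lit 368) (nat_lit 354) (nat_lit 178)) (XT.lf (nat_lit 0) (nat_lit 10907743471) (nat_lit 1216) (nat_lit 5648615851) (nat_lit 1292) (nat_lit 8865556800) (nat_lit 230) (nat_lit 5) (nat_lit 246) (nat_lit 5) (nat_lit 247) (nat_lit 5) (nat_lit 369) (nat_lit 354) (nat_lit 177))))) (XT.nd (nat_lit 234) (nat_lit 1216) (nat_lit 0) (XT.nd (nat_lit 78) (nat_lit 1140) (nat_lit 0) (XT.lf (nat_lit 76) (nat_lit 7343098452) (nat_lit 0) (nat_lit 5565385311) (nat_lit 1292) (nat_lit 12923828100) (nat_lit 231) (nat_lit 5) (nat_lit 230) (nat_lit 5) (nat_lit 247) (nat_lit 5) (nat_lit 370) (nat_lit 354) (nat_lit 176)) (XT.nd (nat_lit 78) (nat_lit 1216) (nat_lit 0) (XT.lf (nat_lit 0) (nat_lit 15078095536) (nat_lit 1216) (nat_lit 5472397716) (nat_lit 76) (nat_lit 5701263248) (nat_lit 231) (nat_lit 5)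 (nat_lit 247) (nat_lit 5) (nat_lit 232) (nat_lit 5) (nat_lit 371) (nat_lit 354) (nat_lit 175)) (XT.lf (nat_lit 0) (nat_lit 8033122028) (nat_lit 1216) (nat_lit 9408035488) (nat_lit 1292) (nat_lit 9238778536) (nat_lit 215) (nat_lit 5) (nat_lit 231) (nat_lit 5) (nat_lit 232) (nat_lit 5) (nat_lit 372) (nat_lit 354) (nat_lit 174)))) (XT.nd (nat_lit 156) (nat_lit 608) (nat_lit 0) (XT.nd (nat_lit 78) (nat_lit 608) (nat_lit 0) (XT.lf (nat_lit 0) (nat_lit 19946931188) (nat_lit 1292) (nat_lit 5087291722) (nat_lit 76) (nat_lit 2084585844) (nat_lit 215) (nat_lit 5) (nat_lit 232) (nat_lit 5) (nat_lit 216) (nat_lit 5) (nat_lit 373) (nat_lit 354) (nat_lit 173)) (XT.lf (nat_lit 0) (nat_lit 8957216102) (nat_lit 608) (nat_lit 13746152531) (nat_lit 684) (nat_lit 4862216579) (nat_lit 207) (nat_lit 5) (nat_lit 215) (nat_lit 5) (nat_lit 216) (nat_lit 5) (nat_lit 374) (nat_lit 354) (nat_lit 172))) (XT.nd (nat_lit 78) (nat_lit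 608) (nat_lit 0) (XT.lf (nat_lit 0) (nat_lit 23523938539) (nat_lit 608) (nat_lit 2066248589) (nat_lit 684) (nat_lit 2434149422) (nat_lit 207) (nat_lit 5) (nat_lit 215) (nat_lit 5) (nat_lit 216) (nat_lit 5) (nat_lit 375) (nat_lit 354) (nat_lit 171)) (XT.lf (nat_lit 0) (nat_lit 256907372) (nat_lit 608) (nat_lit 18364411777) (nat_lit 76) (nat_lit 9869770614) (nat_lit 199) (nat_lit 5) (nat_lit 207) (nat_lit 5) (nat_lit 200) (nat_lit 5) (nat_lit 376) (nat_lit 354) (nat_lit 170)))))) (XT.nd (nat_lit 546) (nat_lit 1900) (nat_lit 0) (XT.nd (nat_lit 234) (nat_lit 1064) (nat_lit 0) (XT.nd (nat_lit 78) (nat_lit 608) (nat_lit 0) (XT.lf (nat_lit 0) (nat_lit 3042585907) (nat_lit 608) (nat_lit 3734127502) (nat_lit 76) (nat_lit 22192526762) (nat_lit 199) (nat_lit 5) (nat_lit 207) (nat_lit 5) (nat_lit 200) (nat_lit 5) (nat_lit 377) (nat_lit 354) (nat_lit 169)) (XT.nd (nat_lit 78) (nat_lit 0) (nat_lit 0) (XT.lf (nat_lit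 0) (nat_lit 6072726168) (nat_lit 684) (nat_lit 17954507150) (nat_lit 76) (nat_lit 5429677008) (nat_lit 191) (nat_lit 5) (nat_lit 200) (nat_lit 5) (nat_lit 192) (nat_lit 5) (nat_lit 378) (nat_lit 354) (nat_lit 168)) (XT.lf (nat_lit 0) (nat_lit 9295580126) (nat_lit 684) (nat_lit 2756399888) (nat_lit 76) (nat_lit 17904178206) (nat_lit 191) (nat_lit 5) (nat_lit 200) (nat_lit 5) (nat_lit 192) (nat_lit 5) (nat_lit 379) (nat_lit 354) (nat_lit 167)))) (XT.nd (nat_lit 156) (nat_lit 532) (nat_lit 0) (XT.nd (nat_lit 78) (nat_lit 0) (nat_lit 0) (XT.lf (nat_lit 0) (nat_lit 12742232271) (nat_lit 608) (nat_lit 17319711999) (nat_lit 76) (nat_lit 404627767) (nat_lit 184) (nat_lit 5) (nat_lit 192) (nat_lit 5) (nat_lit 185) (nat_lit 5) (nat_lit 380) (nat_lit 354) (nat_lit 166)) (XT.lf (nat_lit 0) (nat_lit 16436513732) (nat_lit 608) (nat_lit 1530735547) (nat_lit 76) (nat_lit 13020723906) (nat_lit 184) (nat_lit 5) (nat_lit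 192) (nat_lit 5) (nat_lit 185) (nat_lit 5) (nat_lit 381) (nat_lit 354) (nat_lit 165))) (XT.nd (nat_lit 78) (nat_lit 0) (nat_lit 0) (XT.lf (nat_lit 0) (nat_lit 15021745904) (nat_lit 532) (nat_lit 5361162734) (nat_lit 608) (nat_lit 11137870934) (nat_lit 177) (nat_lit 5) (nat_lit 184) (nat_lit 5) (nat_lit 185) (nat_lit 5) (nat_lit 382) (nat_lit 354) (nat_lit 164)) (XT.lf (nat_lit 0) (nat_lit 24533527968) (nat_lit 608) (nat_lit 43708774) (nat_lit 76) (nat_lit 7489760136) (nat_lit 177) (nat_lit 5) (nat_lit 185) (nat_lit 5) (nat_lit 178) (nat_lit 5) (nat_lit 383) (nat_lit 354) (nat_lit 163))))) (XT.nd (nat_lit 234) (nat_lit 912) (nat_lit 0) (XT.nd (nat_lit 78) (nat_lit 532) (nat_lit 0) (XT.lf (nat_lit 0) (nat_lit 17184267914) (nat_lit 456) (nat_lit 11839697624) (nat_lit 532) (nat_lit 3599177830) (nat_lit 171) (nat_lit 5) (nat_lit 177) (nat_lit 5) (nat_lit 178) (nat_lit 5) (nat_lit 384) (nat_lit 354) (nat_lit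 162)) (XT.nd (nat_lit 78) (nat_lit 0) (nat_lit 0) (XT.lf (nat_lit 0) (nat_lit 471244413) (nat_lit 532) (nat_lit 31447193336) (nat_lit 76) (nat_lit 1276599042) (nat_lit 164) (nat_lit 5) (nat_lit 171) (nat_lit 5) (nat_lit 165) (nat_lit 5) (nat_lit 385) (nat_lit 354) (nat_lit 161)) (XT.lf (nat_lit 0) (nat_lit 4863219241) (nat_lit 532) (nat_lit 14170502711) (nat_lit 76) (nat_lit 14741144123) (nat_lit 164) (nat_lit 5) (nat_lit 171) (nat_lit 5) (nat_lit 165) (nat_lit 5) (nat_lit 386) (nat_lit 354) (nat_lit 160)))) (XT.nd (nat_lit 156) (nat_lit 456) (nat_lit 0) (XT.nd (nat_lit 78) (nat_lit 0) (nat_lit 0) (XT.lf (nat_lit 0) (nat_lit 3693320988) (nat_lit 456) (nat_lit 5726328126) (nat_lit 532) (nat_lit 24951461718) (nat_lit 158) (nat_lit 5) (nat_lit 164) (nat_lit 5) (nat_lit 165) (nat_lit 5) (nat_lit 387) (nat_lit 354) (nat_lit 159)) (XT.lf (nat_lit 0) (nat_lit 14331234299) (nat_lit 532) (nat_lit 12678823144) (nat_lit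 76) (nat_lit 7968633044) (nat_lit 158) (nat_lit 5) (nat_lit 165) (nat_lit 5) (nat_lit 159) (nat_lit 5) (nat_lit 388) (nat_lit 354) (nat_lit 158))) (XT.nd (nat_lit 78) (nat_lit 0) (nat_lit 0) (XT.lf (nat_lit 0) (nat_lit 5915662143) (nat_lit 456) (nat_lit 13585386511) (nat_lit 532) (nat_lit 16100123815) (nat_lit 152) (nat_lit 5) (nat_lit 158) (nat_lit 5) (nat_lit 159) (nat_lit 5) (nat_lit 389) (nat_lit 354) (nat_lit 157)) (XT.lf (nat_lit 0) (nat_lit 24954945774) (nat_lit 532) (nat_lit 10917430604) (nat_lit 76) (nat_lit 366084230) (nat_lit 152) (nat_lit 5) (nat_lit 159) (nat_lit 5) (nat_lit 153) (nat_lit 5) (nat_lit 390) (nat_lit 354) (nat_lit 156))))))) (XT.nd (nat_lit 1014) (nat_lit 2432) (nat_lit 0) (XT.nd (nat_lit 468) (nat_lit 1444) (nat_lit 0) (XT.nd (nat_lit 234) (nat_lit 380) (nat_lit 0) (XT.nd (nat_lit 78) (nat_lit 532) (nat_lit 0) (XT.lf (nat_lit 0) (nat_lit 8440752469) (nat_lit 380) (nat_lit 22344793553)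 (nat_lit 456) (nat_lit 6102930088) (nat_lit 147) (nat_lit 5) (nat_lit 152) (nat_lit 5) (nat_lit 153) (nat_lit 5) (nat_lit 391) (nat_lit 354) (nat_lit 155)) (XT.nd (nat_lit 78) (nat_lit 532) (nat_lit 0) (XT.lf (nat_lit 0) (nat_lit 28600368694) (nat_lit 380) (nat_lit 8298424674) (nat_lit 456) (nat_lit 655968105) (nat_lit 147) (nat_lit 5) (nat_lit 152) (nat_lit 5) (nat_lit 153) (nat_lit 5) (nat_lit 392) (nat_lit 354) (nat_lit 154)) (XT.lf (nat_lit 0) (nat_lit 5024660105) (nat_lit 532) (nat_lit 27003849290) (nat_lit 76) (nat_lit 6206090387) (nat_lit 140) (nat_lit 5) (nat_lit 147) (nat_lit 5) (nat_lit 141) (nat_lit 5) (nat_lit 393) (nat_lit 354) (nat_lit 153)))) (XT.nd (nat_lit 78) (nat_lit 380) (nat_lit 0) (XT.lf (nat_lit 0) (nat_lit 11033571641) (nat_lit 532) (nat_lit 6819775515) (nat_lit 76) (nat_lit 21076160938) (nat_lit 140) (nat_lit 5) (nat_lit 147) (nat_lit 5) (nat_lit 141) (nat_lit 5) (nat_lit 394) (nat_lit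 354) (nat_lit 152)) (XT.nd (nat_lit 78) (nat_lit 0) (nat_lit 0) (XT.lf (nat_lit 0) (nat_lit 14244771101) (nat_lit 380) (nat_lit 3112548772) (nat_lit 456) (nat_lit 22283907829) (nat_lit 135) (nat_lit 5) (nat_lit 140) (nat_lit 5) (nat_lit 141) (nat_lit 5) (nat_lit 395) (nat_lit 354) (nat_lit 151)) (XT.lf (nat_lit 0) (nat_lit 24054031057) (nat_lit 456) (nat_lit 4410941582) (nat_lit 76) (nat_lit 11903829840) (nat_lit 135) (nat_lit 5) (nat_lit 141) (nat_lit 5) (nat_lit 136) (nat_lit 5) (nat_lit 396) (nat_lit 354) (nat_lit 150))))) (XT.nd (nat_lit 234) (nat_lit 684) (nat_lit 0) (XT.nd (nat_lit 78) (nat_lit 380) (nat_lit 0) (XT.lf (nat_lit 0) (nat_lit 17512083375) (nat_lit 380) (nat_lit 13636455656) (nat_lit 456) (nat_lit 9963759666) (nat_lit 130) (nat_lit 5) (nat_lit 135) (nat_lit 5) (nat_lit 136) (nat_lit 5) (nat_lit 397) (nat_lit 354) (nat_lit 149)) (XT.nd (nat_lit 78) (nat_lit 380) (nat_lit 0) (XT.lf (nat_lit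 0) (nat_lit 38514372195) (nat_lit 456) (nat_lit 1712714343) (nat_lit 76) (nat_lit 1649259596) (nat_lit 130) (nat_lit 5) (nat_lit 136) (nat_lit 5) (nat_lit 131) (nat_lit 5) (nat_lit 398) (nat_lit 354) (nat_lit 148)) (XT.lf (nat_lit 0) (nat_lit 3709831985) (nat_lit 380) (nat_lit 21584283351) (nat_lit 76) (nat_lit 17358037671) (nat_lit 125) (nat_lit 5) (nat_lit 130) (nat_lit 5) (nat_lit 126) (nat_lit 5) (nat_lit 399) (nat_lit 354) (nat_lit 147)))) (XT.nd (nat_lit 156) (nat_lit 304) (nat_lit 0) (XT.nd (nat_lit 78) (nat_lit 0) (nat_lit 0) (XT.lf (nat_lit 0) (nat_lit 1101376788) (nat_lit 380) (nat_lit 9850746597) (nat_lit 456) (nat_lit 32497335930) (nat_lit 120) (nat_lit 5) (nat_lit 125) (nat_lit 5) (nat_lit 126) (nat_lit 5) (nat_lit 400) (nat_lit 354) (nat_lit 146)) (XT.lf (nat_lit 0) (nat_lit 18687891281) (nat_lit 456) (nat_lit 19417403988) (nat_lit 76) (nat_lit 6157104228) (nat_lit 120) (nat_lit 5) (nat_lit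 126) (nat_lit 5) (nat_lit 121) (nat_lit 5) (nat_lit 401) (nat_lit 354) (nat_lit 145))) (XT.nd (nat_lit 78) (nat_lit 0) (nat_lit 0) (XT.lf (nat_lit 0) (nat_lit 4182412545) (nat_lit 304) (nat_lit 22608995104) (nat_lit 380) (nat_lit 18304250861) (nat_lit 116) (nat_lit 5) (nat_lit 120) (nat_lit 5) (nat_lit 121) (nat_lit 5) (nat_lit 402) (nat_lit 354) (nat_lit 144)) (XT.lf (nat_lit 0) (nat_lit 28885425248) (nat_lit 304) (nat_lit 6446654106) (nat_lit 380) (nat_lit 10616015308) (nat_lit 116) (nat_lit 5) (nat_lit 120) (nat_lit 5) (nat_lit 121) (nat_lit 5) (nat_lit 403) (nat_lit 354) (nat_lit 143)))))) (XT.nd (nat_lit 546) (nat_lit 1140) (nat_lit 0) (XT.nd (nat_lit 234) (nat_lit 608) (nat_lit 0) (XT.nd (nat_lit 78) (nat_lit 380) (nat_lit 0) (XT.lf (nat_lit 0) (nat_lit 7549890161) (nat_lit 304) (nat_lit 36747732868) (nat_lit 380) (nat_lit 2523422153) (nat_lit 112) (nat_lit 5) (nat_lit 116) (nat_lit 5) (nat_lit 117)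 (nat_lit 5) (nat_lit 404) (nat_lit 354) (nat_lit 142)) (XT.nd (nat_lit 78) (nat_lit 304) (nat_lit 0) (XT.lf (nat_lit 0) (nat_lit 5934404897) (nat_lit 380) (nat_lit 14588641142) (nat_lit 76) (nat_lit 27188386885) (nat_lit 111) (nat_lit 5) (nat_lit 116) (nat_lit 5) (nat_lit 112) (nat_lit 5) (nat_lit 405) (nat_lit 354) (nat_lit 141)) (XT.lf (nat_lit 0) (nat_lit 11021700711) (nat_lit 304) (nat_lit 3677586795) (nat_lit 380) (nat_lit 33925374857) (nat_lit 107) (nat_lit 5) (nat_lit 111) (nat_lit 5) (nat_lit 112) (nat_lit 5) (nat_lit 406) (nat_lit 354) (nat_lit 140)))) (XT.nd (nat_lit 156) (nat_lit 304) (nat_lit 0) (XT.nd (nat_lit 78) (nat_lit 304) (nat_lit 0) (XT.lf (nat_lit 0) (nat_lit 24005440617) (nat_lit 380) (nat_lit 11997116058) (nat_lit 76) (nat_lit 13554383035) (nat_lit 107) (nat_lit 5) (nat_lit 112) (nat_lit 5) (nat_lit 108) (nat_lit 5) (nat_lit 407) (nat_lit 354) (nat_lit 139)) (XT.lf (nat_lit 0) (nat_lit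 14623165686) (nat_lit 304) (nat_lit 19142759410) (nat_lit 380) (nat_lit 16746006600) (nat_lit 103) (nat_lit 5) (nat_lit 107) (nat_lit 5) (nat_lit 108) (nat_lit 5) (nat_lit 408) (nat_lit 354) (nat_lit 138))) (XT.nd (nat_lit 78) (nat_lit 304) (nat_lit 0) (XT.lf (nat_lit 0) (nat_lit 42285333159) (nat_lit 304) (nat_lit 1653234376) (nat_lit 380) (nat_lit 7553426307) (nat_lit 103) (nat_lit 5) (nat_lit 107) (nat_lit 5) (nat_lit 108) (nat_lit 5) (nat_lit 409) (nat_lit 354) (nat_lit 137)) (XT.lf (nat_lit 0) (nat_lit 2213982156) (nat_lit 304) (nat_lit 34036610215) (nat_lit 76) (nat_lit 16240221380) (nat_lit 99) (nat_lit 5) (nat_lit 103) (nat_lit 5) (nat_lit 100) (nat_lit 5) (nat_lit 410) (nat_lit 354) (nat_lit 136))))) (XT.nd (nat_lit 234) (nat_lit 836) (nat_lit 0) (XT.nd (nat_lit 78) (nat_lit 304) (nat_lit 0) (XT.lf (nat_lit 0) (nat_lit 12231104049) (nat_lit 304) (nat_lit 6477893239) (nat_lit 76) (nat_lit 34805102793)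 (nat_lit 99) (nat_lit 5) (nat_lit 103) (nat_lit 5) (nat_lit 100) (nat_lit 5) (nat_lit 411) (nat_lit 354) (nat_lit 135)) (XT.nd (nat_lit 78) (nat_lit 0) (nat_lit 0) (XT.lf (nat_lit 0) (nat_lit 22340985214) (nat_lit 304) (nat_lit 420809796) (nat_lit 380) (nat_lit 31799898952) (nat_lit 95) (nat_lit 5) (nat_lit 99) (nat_lit 5) (nat_lit 100) (nat_lit 5) (nat_lit 412) (nat_lit 354) (nat_lit 134)) (XT.lf (nat_lit 0) (nat_lit 33849811662) (nat_lit 380) (nat_lit 3661777235) (nat_lit 76) (nat_lit 18121885218) (nat_lit 95) (nat_lit 5) (nat_lit 100) (nat_lit 5) (nat_lit 96) (nat_lit 5) (nat_lit 413) (nat_lit 354) (nat_lit 133)))) (XT.nd (nat_lit 156) (nat_lit 608) (nat_lit 0) (XT.nd (nat_lit 78) (nat_lit 0) (nat_lit 0) (XT.lf (nat_lit 0) (nat_lit 26259680890) (nat_lit 228) (nat_lit 19265744686) (nat_lit 304) (nat_lit 11204333985) (nat_lit 92) (nat_lit 5) (nat_lit 95) (nat_lit 5) (nat_lit 96) (nat_lit 5) (nat_lit 414)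 (nat_lit 354) (nat_lit 132)) (XT.lf (nat_lit 0) (nat_lit 57151374216) (nat_lit 228) (nat_lit 435300501) (nat_lit 304) (nat_lit 271198419) (nat_lit 92) (nat_lit 5) (nat_lit 95) (nat_lit 5) (nat_lit 96) (nat_lit 5) (nat_lit 415) (nat_lit 354) (nat_lit 131))) (XT.nd (nat_lit 78) (nat_lit 228) (nat_lit 0) (XT.lf (nat_lit 0) (nat_lit 11252656923) (nat_lit 380) (nat_lit 28758294349) (nat_lit 76) (nat_lit 18991394760) (nat_lit 87) (nat_lit 5) (nat_lit 92) (nat_lit 5) (nat_lit 88) (nat_lit 5) (nat_lit 416) (nat_lit 354) (nat_lit 130)) (XT.lf (nat_lit 0) (nat_lit 1985902121) (nat_lit 228) (nat_lit 21159915067) (nat_lit 304) (nat_lit 37034384693) (nat_lit 84) (nat_lit 5) (nat_lit 87) (nat_lit 5) (nat_lit 88) (nat_lit 5) (nat_lit 417) (nat_lit 354) (nat_lit 129))))))))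
noncomputable def xc220 : XT := (XT.nd (nat_lit 43056) (nat_lit 0) (nat_lit 5624) (XT.nd (nat_lit 42042) (nat_lit 0) (nat_lit 12160) (XT.nd (nat_lit 468) (nat_lit 608) (nat_lit 0) (XT.nd (nat_lit 234) (nat_lit 532) (nat_lit 0) (XT.nd (nat_lit 78) (nat_lit 228) (nat_lit 0) (XT.lf (nat_lit 0) (nat_lit 34239518752) (nat_lit 228) (nat_lit 1445113752) (nat_lit 304) (nat_lit 25700095602) (nat_lit 84) (nat_lit 5) (nat_lit 87) (nat_lit 5) (nat_lit 88) (nat_lit 5) (nat_lit 418) (nat_lit 354) (nat_lit 128)) (XT.nd (nat_lit 78) (nat_lit 0) (nat_lit 0) (XT.lf (nat_lit 0) (nat_lit 4744236973) (nat_lit 228) (nat_lit 44080779107) (nat_lit 304) (nat_lit 13793612416) (nat_lit 81) (nat_lit 5) (nat_lit 84) (nat_lit 5) (nat_lit 85) (nat_lit 5) (nat_lit 419) (nat_lit 354) (nat_lit 127)) (XT.lf (nat_lit 0) (nat_lit 38129858273) (nat_lit 228) (nat_lit 24516549726) (nat_lit 304) (nat_lit 1234534472) (nat_lit 81) (nat_lit 5) (nat_lit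 84) (nat_lit 5) (nat_lit 85) (nat_lit 5) (nat_lit 420) (nat_lit 354) (nat_lit 126)))) (XT.nd (nat_lit 78) (nat_lit 228) (nat_lit 0) (XT.lf (nat_lit 0) (nat_lit 7364830204) (nat_lit 228) (nat_lit 4177490216) (nat_lit 304) (nat_lit 53633351307) (nat_lit 77) (nat_lit 5) (nat_lit 80) (nat_lit 5) (nat_lit 81) (nat_lit 5) (nat_lit 421) (nat_lit 354) (nat_lit 125)) (XT.nd (nat_lit 78) (nat_lit 228) (nat_lit 0) (XT.lf (nat_lit 0) (nat_lit 25100054431) (nat_lit 304) (nat_lit 24677704391) (nat_lit 76) (nat_lit 16718446190) (nat_lit 77) (nat_lit 5) (nat_lit 81) (nat_lit 5) (nat_lit 78) (nat_lit 5) (nat_lit 422) (nat_lit 354) (nat_lit 124)) (XT.lf (nat_lit 0) (nat_lit 9592988789) (nat_lit 228) (nat_lit 29603704786) (nat_lit 304) (nat_lit 28655695953) (nat_lit 74) (nat_lit 5) (nat_lit 77) (nat_lit 5) (nat_lit 78) (nat_lit 5) (nat_lit 423) (nat_lit 354) (nat_lit 123))))) (XT.nd (nat_lit 234) (nat_lit 380) (nat_lit 0)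 (XT.nd (nat_lit 78) (nat_lit 228) (nat_lit 0) (XT.lf (nat_lit 0) (nat_lit 45395423234) (nat_lit 228) (nat_lit 8568622453) (nat_lit 304) (nat_lit 15277779892) (nat_lit 74) (nat_lit 5) (nat_lit 77) (nat_lit 5) (nat_lit 78) (nat_lit 5) (nat_lit 424) (nat_lit 354) (nat_lit 122)) (XT.nd (nat_lit 78) (nat_lit 76) (nat_lit 0) (XT.lf (nat_lit 0) (nat_lit 11699162101) (nat_lit 152) (nat_lit 57712266622) (nat_lit 228) (nat_lit 1254406077) (nat_lit 72) (nat_lit 5) (nat_lit 74) (nat_lit 5) (nat_lit 75) (nat_lit 5) (nat_lit 425) (nat_lit 354) (nat_lit 121)) (XT.lf (nat_lit 0) (nat_lit 13258969166) (nat_lit 228) (nat_lit 23541648909) (nat_lit 76) (nat_lit 35318342641) (nat_lit 71) (nat_lit 5) (nat_lit 74) (nat_lit 5) (nat_lit 72) (nat_lit 5) (nat_lit 426) (nat_lit 354) (nat_lit 120)))) (XT.nd (nat_lit 156) (nat_lit 152) (nat_lit 0) (XT.nd (nat_lit 78) (nat_lit 0) (nat_lit 0) (XT.lf (nat_lit 0) (nat_lit 13188912781) (nat_lit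 228) (nat_lit 15119093894) (nat_lit 304) (nat_lit 45303537306) (nat_lit 68) (nat_lit 5) (nat_lit 71) (nat_lit 5) (nat_lit 72) (nat_lit 5) (nat_lit 427) (nat_lit 354) (nat_lit 119)) (XT.lf (nat_lit 0) (nat_lit 44116630918) (nat_lit 304) (nat_lit 23711655149) (nat_lit 76) (nat_lit 7311375563) (nat_lit 68) (nat_lit 5) (nat_lit 72) (nat_lit 5) (nat_lit 69) (nat_lit 5) (nat_lit 428) (nat_lit 354) (nat_lit 118))) (XT.nd (nat_lit 41106) (nat_lit 0) (nat_lit 13224) (XT.lf (nat_lit 0) (nat_lit 14226462900) (nat_lit 152) (nat_lit 46458239064) (nat_lit 228) (nat_lit 16020365549) (nat_lit 66) (nat_lit 5) (nat_lit 68) (nat_lit 5) (nat_lit 69) (nat_lit 5) (nat_lit 429) (nat_lit 354) (nat_lit 117)) (XT.lf (nat_lit 0) (nat_lit 4520680948) (nat_lit 0) (nat_lit 4520680948) (nat_lit 1140) (nat_lit 1367182058) (nat_lit 240) (nat_lit 5) (nat_lit 240) (nat_lit 3) (nat_lit 255) (nat_lit 3) (nat_lit 355) (nat_lit 355) (nat_lit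 190)))))) (XT.nd (nat_lit 468) (nat_lit 1064) (nat_lit 0) (XT.nd (nat_lit 234) (nat_lit 0) (nat_lit 76) (XT.nd (nat_lit 78) (nat_lit 0) (nat_lit 0) (XT.lf (nat_lit 0) (nat_lit 18508406571) (nat_lit 1140) (nat_lit 1926529338) (nat_lit 1216) (nat_lit 689678041) (nat_lit 240) (nat_lit 5) (nat_lit 255) (nat_lit 3) (nat_lit 256) (nat_lit 5) (nat_lit 356) (nat_lit 355) (nat_lit 189)) (XT.nd (nat_lit 78) (nat_lit 0) (nat_lit 0) (XT.lf (nat_lit 76) (nat_lit 8287252784) (nat_lit 0) (nat_lit 10823051773) (nat_lit 1216) (nat_lit 2326161658) (nat_lit 241) (nat_lit 5) (nat_lit 240) (nat_lit 5) (nat_lit 256) (nat_lit 5) (nat_lit 357) (nat_lit 355) (nat_lit 188)) (XT.lf (nat_lit 76) (nat_lit 18843884419) (nat_lit 0) (nat_lit 900231071) (nat_lit 1216) (nat_lit 2013146554) (nat_lit 241) (nat_lit 5) (nat_lit 240) (nat_lit 5) (nat_lit 256) (nat_lit 5) (nat_lit 358) (nat_lit 355) (nat_lit 187)))) (XT.nd (nat_lit 78) (nat_lit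 0) (nat_lit 0) (XT.lf (nat_lit 76) (nat_lit 7686780598) (nat_lit 0) (nat_lit 12868230985) (nat_lit 1216) (nat_lit 1527931609) (nat_lit 242) (nat_lit 5) (nat_lit 241) (nat_lit 5) (nat_lit 257) (nat_lit 5) (nat_lit 359) (nat_lit 355) (nat_lit 186)) (XT.nd (nat_lit 78) (nat_lit 0) (nat_lit 76) (XT.lf (nat_lit 76) (nat_lit 18652448083) (nat_lit 0) (nat_lit 2770747849) (nat_lit 1216) (nat_lit 994213465) (nat_lit 242) (nat_lit 5) (nat_lit 241) (nat_lit 5) (nat_lit 257) (nat_lit 5) (nat_lit 360) (nat_lit 355) (nat_lit 185)) (XT.lf (nat_lit 76) (nat_lit 7250097927) (nat_lit 0) (nat_lit 15205251431) (nat_lit 1216) (nat_lit 302425890) (nat_lit 243) (nat_lit 5) (nat_lit 242) (nat_lit 5) (nat_lit 258) (nat_lit 5) (nat_lit 361) (nat_lit 355) (nat_lit 184))))) (XT.nd (nat_lit 234) (nat_lit 0) (nat_lit 152) (XT.nd (nat_lit 78) (nat_lit 0) (nat_lit 76) (XT.lf (nat_lit 0) (nat_lit 462896619) (nat_lit 1216) (nat_lit 4469461103)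 (nat_lit 1292) (nat_lit 18174055731) (nat_lit 226) (nat_lit 5) (nat_lit 242) (nat_lit 5) (nat_lit 243) (nat_lit 5) (nat_lit 362) (nat_lit 355) (nat_lit 183)) (XT.nd (nat_lit 78) (nat_lit 0) (nat_lit 0) (XT.lf (nat_lit 0) (nat_lit 1362802780) (nat_lit 1216) (nat_lit 16487640854) (nat_lit 1292) (nat_lit 5611449346) (nat_lit 227) (nat_lit 5) (nat_lit 243) (nat_lit 5) (nat_lit 244) (nat_lit 5) (nat_lit 363) (nat_lit 355) (nat_lit 182)) (XT.lf (nat_lit 0) (nat_lit 2379351684) (nat_lit 1216) (nat_lit 5026388617) (nat_lit 1292) (nat_lit 16419610214) (nat_lit 227) (nat_lit 5) (nat_lit 243) (nat_lit 5) (nat_lit 244) (nat_lit 5) (nat_lit 364) (nat_lit 355) (nat_lit 181)))) (XT.nd (nat_lit 156) (nat_lit 0) (nat_lit 76) (XT.nd (nat_lit 78) (nat_lit 0) (nat_lit 0) (XT.lf (nat_lit 0) (nat_lit 3521088511) (nat_lit 1216) (nat_lit 17320433183) (nat_lit 1292) (nat_lit 3355352241) (nat_lit 228) (nat_lit 5) (nat_lit 244) (nat_lit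 5) (nat_lit 245) (nat_lit 5) (nat_lit 365) (nat_lit 355) (nat_lit 180)) (XT.lf (nat_lit 0) (nat_lit 4817147423) (nat_lit 1216) (nat_lit 5415799100) (nat_lit 1292) (nat_lit 14342997252) (nat_lit 228) (nat_lit 5) (nat_lit 244) (nat_lit 5) (nat_lit 245) (nat_lit 5) (nat_lit 366) (nat_lit 355) (nat_lit 179))) (XT.nd (nat_lit 78) (nat_lit 0) (nat_lit 0) (XT.lf (nat_lit 0) (nat_lit 6222136929) (nat_lit 1216) (nat_lit 17992940526) (nat_lit 1292) (nat_lit 749209525) (nat_lit 229) (nat_lit 5) (nat_lit 245) (nat_lit 5) (nat_lit 246) (nat_lit 5) (nat_lit 367) (nat_lit 355) (nat_lit 178)) (XT.lf (nat_lit 0) (nat_lit 7821547948) (nat_lit 1216) (nat_lit 5626728042) (nat_lit 1292) (nat_lit 11911438993) (nat_lit 229) (nat_lit 5) (nat_lit 245) (nat_lit 5) (nat_lit 246) (nat_lit 5) (nat_lit 368) (nat_lit 355) (nat_lit 177))))))) (XT.nd (nat_lit 1014) (nat_lit 3344) (nat_lit 0) (XT.nd (nat_lit 468) (nat_lit 2356) (nat_lit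 0) (XT.nd (nat_lit 234) (nat_lit 1064) (nat_lit 0) (XT.nd (nat_lit 78) (nat_lit 0) (nat_lit 76) (XT.lf (nat_lit 76) (nat_lit 7248660621) (nat_lit 0) (nat_lit 2285808847) (nat_lit 1292) (nat_lit 16230573092) (nat_lit 230) (nat_lit 5) (nat_lit 229) (nat_lit 5) (nat_lit 246) (nat_lit 5) (nat_lit 369) (nat_lit 355) (nat_lit 176)) (XT.nd (nat_lit 78) (nat_lit 0) (nat_lit 0) (XT.lf (nat_lit 0) (nat_lit 11440654514) (nat_lit 1216) (nat_lit 5647639566) (nat_lit 1292) (nat_lit 9089982111) (nat_lit 230) (nat_lit 5) (nat_lit 246) (nat_lit 5) (nat_lit 247) (nat_lit 5) (nat_lit 370) (nat_lit 355) (nat_lit 175)) (XT.lf (nat_lit 76) (nat_lit 7732155237) (nat_lit 0) (nat_lit 5764893396) (nat_lit 1292) (nat_lit 13104069923) (nat_lit 231) (nat_lit 5) (nat_lit 230) (nat_lit 5) (nat_lit 247) (nat_lit 5) (nat_lit 371) (nat_lit 355) (nat_lit 174)))) (XT.nd (nat_lit 78) (nat_lit 1216) (nat_lit 0) (XT.lf (nat_lit 0) (nat_lit 15725581606)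 (nat_lit 1216) (nat_lit 5466434355) (nat_lit 76) (nat_lit 5841319179) (nat_lit 231) (nat_lit 5) (nat_lit 247) (nat_lit 5) (nat_lit 232) (nat_lit 5) (nat_lit 372) (nat_lit 355) (nat_lit 173)) (XT.nd (nat_lit 78) (nat_lit 0) (nat_lit 0) (XT.lf (nat_lit 0) (nat_lit 8442582988) (nat_lit 1216) (nat_lit 9712888085) (nat_lit 1292) (nat_lit 9319014423) (nat_lit 215) (nat_lit 5) (nat_lit 231) (nat_lit 5) (nat_lit 232) (nat_lit 5) (nat_lit 373) (nat_lit 355) (nat_lit 172)) (XT.lf (nat_lit 0) (nat_lit 20730641528) (nat_lit 1292) (nat_lit 5070460675) (nat_lit 76) (nat_lit 2125598857) (nat_lit 215) (nat_lit 5) (nat_lit 232) (nat_lit 5) (nat_lit 216) (nat_lit 5) (nat_lit 374) (nat_lit 355) (nat_lit 171))))) (XT.nd (nat_lit 234) (nat_lit 1140) (nat_lit 0) (XT.nd (nat_lit 78) (nat_lit 608) (nat_lit 0) (XT.lf (nat_lit 0) (nat_lit 9393721111) (nat_lit 608) (nat_lit 14172266714) (nat_lit 684) (nat_lit 4821009803) (nat_lit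 207) (nat_lit 5) (nat_lit 215) (nat_lit 5) (nat_lit 216) (nat_lit 5) (nat_lit 375) (nat_lit 355) (nat_lit 170)) (XT.nd (nat_lit 78) (nat_lit 608) (nat_lit 0) (XT.lf (nat_lit 0) (nat_lit 24392558177) (nat_lit 608) (nat_lit 2141565763) (nat_lit 684) (nat_lit 2325549367) (nat_lit 207) (nat_lit 5) (nat_lit 215) (nat_lit 5) (nat_lit 216) (nat_lit 5) (nat_lit 376) (nat_lit 355) (nat_lit 169)) (XT.lf (nat_lit 0) (nat_lit 439001525) (nat_lit 608) (nat_lit 18745001441) (nat_lit 76) (nat_lit 10156487584) (nat_lit 199) (nat_lit 5) (nat_lit 207) (nat_lit 5) (nat_lit 200) (nat_lit 5) (nat_lit 377) (nat_lit 355) (nat_lit 168)))) (XT.nd (nat_lit 156) (nat_lit 532) (nat_lit 0) (XT.nd (nat_lit 78) (nat_lit 608) (nat_lit 0) (XT.lf (nat_lit 0) (nat_lit 3303171186) (nat_lit 608) (nat_lit 3680770076) (nat_lit 76) (nat_lit 22849199508) (nat_lit 199) (nat_lit 5) (nat_lit 207) (nat_lit 5) (nat_lit 200) (nat_lit 5) (nat_lit 378)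 (nat_lit 355) (nat_lit 167)) (XT.lf (nat_lit 0) (nat_lit 6420837464) (nat_lit 684) (nat_lit 18324288384) (nat_lit 76) (nat_lit 5590419364) (nat_lit 191) (nat_lit 5) (nat_lit 200) (nat_lit 5) (nat_lit 192) (nat_lit 5) (nat_lit 379) (nat_lit 355) (nat_lit 166))) (XT.nd (nat_lit 78) (nat_lit 532) (nat_lit 0) (XT.lf (nat_lit 0) (nat_lit 9735544143) (nat_lit 684) (nat_lit 2675155981) (nat_lit 76) (nat_lit 18439218160) (nat_lit 191) (nat_lit 5) (nat_lit 200) (nat_lit 5) (nat_lit 192) (nat_lit 5) (nat_lit 380) (nat_lit 355) (nat_lit 165)) (XT.lf (nat_lit 0) (nat_lit 13282506068) (nat_lit 608) (nat_lit 17672188559) (nat_lit 76) (nat_lit 421045254) (nat_lit 184) (nat_lit 5) (nat_lit 192) (nat_lit 5) (nat_lit 185) (nat_lit 5) (nat_lit 381) (nat_lit 355) (nat_lit 164)))))) (XT.nd (nat_lit 546) (nat_lit 1368) (nat_lit 0) (XT.nd (nat_lit 234) (nat_lit 988) (nat_lit 0) (XT.nd (nat_lit 78) (nat_lit 988) (nat_lit 0) (XT.lf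 (nat_lit 0) (nat_lit 17083013831) (nat_lit 608) (nat_lit 1414410234) (nat_lit 76) (nat_lit 13415499657) (nat_lit 184) (nat_lit 5) (nat_lit 192) (nat_lit 5) (nat_lit 185) (nat_lit 5) (nat_lit 382) (nat_lit 355) (nat_lit 163)) (XT.nd (nat_lit 78) (nat_lit 456) (nat_lit 0) (XT.lf (nat_lit 0) (nat_lit 15633055000) (nat_lit 532) (nat_lit 5511821818) (nat_lit 608) (nat_lit 11316927716) (nat_lit 177) (nat_lit 5) (nat_lit 184) (nat_lit 5) (nat_lit 185) (nat_lit 5) (nat_lit 383) (nat_lit 355) (nat_lit 162)) (XT.lf (nat_lit 0) (nat_lit 117622112) (nat_lit 456) (nat_lit 25299235298) (nat_lit 532) (nat_lit 7607648115) (nat_lit 171) (nat_lit 5) (nat_lit 177) (nat_lit 5) (nat_lit 178) (nat_lit 5) (nat_lit 384) (nat_lit 355) (nat_lit 161)))) (XT.nd (nat_lit 156) (nat_lit 456) (nat_lit 0) (XT.nd (nat_lit 78) (nat_lit 532) (nat_lit 0) (XT.lf (nat_lit 0) (nat_lit 17858570842) (nat_lit 456) (nat_lit 12179574805) (nat_lit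 532) (nat_lit 3559309013) (nat_lit 171) (nat_lit 5) (nat_lit 177) (nat_lit 5) (nat_lit 178) (nat_lit 5) (nat_lit 385) (nat_lit 355) (nat_lit 160)) (XT.lf (nat_lit 0) (nat_lit 627830105) (nat_lit 532) (nat_lit 32226286953) (nat_lit 76) (nat_lit 1332422756) (nat_lit 164) (nat_lit 5) (nat_lit 171) (nat_lit 5) (nat_lit 165) (nat_lit 5) (nat_lit 386) (nat_lit 355) (nat_lit 159))) (XT.nd (nat_lit 78) (nat_lit 456) (nat_lit 0) (XT.lf (nat_lit 0) (nat_lit 5147415196) (nat_lit 532) (nat_lit 14436081692) (nat_lit 76) (nat_lit 15200393730) (nat_lit 164) (nat_lit 5) (nat_lit 171) (nat_lit 5) (nat_lit 165) (nat_lit 5) (nat_lit 387) (nat_lit 355) (nat_lit 158)) (XT.lf (nat_lit 0) (nat_lit 3962092638) (nat_lit 456) (nat_lit 5875935714) (nat_lit 532) (nat_lit 25560071766) (nat_lit 158) (nat_lit 5) (nat_lit 164) (nat_lit 5) (nat_lit 165) (nat_lit 5) (nat_lit 388) (nat_lit 355) (nat_lit 157))))) (XT.nd (nat_lit 234) (nat_lit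 912) (nat_lit 0) (XT.nd (nat_lit 78) (nat_lit 456) (nat_lit 0) (XT.lf (nat_lit 0) (nat_lit 14893213070) (nat_lit 532) (nat_lit 12902000624) (nat_lit 76) (nat_lit 8228807958) (nat_lit 158) (nat_lit 5) (nat_lit 165) (nat_lit 5) (nat_lit 159) (nat_lit 5) (nat_lit 389) (nat_lit 355) (nat_lit 156)) (XT.nd (nat_lit 78) (nat_lit 0) (nat_lit 0) (XT.lf (nat_lit 0) (nat_lit 6248778170) (nat_lit 456) (nat_lit 13966993976) (nat_lit 532) (nat_lit 16449478429) (nat_lit 152) (nat_lit 5) (nat_lit 158) (nat_lit 5) (nat_lit 159) (nat_lit 5) (nat_lit 390) (nat_lit 355) (nat_lit 155)) (XT.lf (nat_lit 0) (nat_lit 25829750962) (nat_lit 532) (nat_lit 11090241149) (nat_lit 76) (nat_lit 401773235) (nat_lit 152) (nat_lit 5) (nat_lit 159) (nat_lit 5) (nat_lit 153) (nat_lit 5) (nat_lit 391) (nat_lit 355) (nat_lit 154)))) (XT.nd (nat_lit 156) (nat_lit 532) (nat_lit 0) (XT.nd (nat_lit 78) (nat_lit 0) (nat_lit 0) (XT.lf (nat_lit 0) (nat_lit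 8847170628) (nat_lit 380) (nat_lit 22985896729) (nat_lit 456) (nat_lit 6158281887) (nat_lit 147) (nat_lit 5) (nat_lit 152) (nat_lit 5) (nat_lit 153) (nat_lit 5) (nat_lit 392) (nat_lit 355) (nat_lit 153)) (XT.lf (nat_lit 0) (nat_lit 29607113332) (nat_lit 380) (nat_lit 8518988452) (nat_lit 456) (nat_lit 551631513) (nat_lit 147) (nat_lit 5) (nat_lit 152) (nat_lit 5) (nat_lit 153) (nat_lit 5) (nat_lit 393) (nat_lit 355) (nat_lit 152))) (XT.nd (nat_lit 78) (nat_lit 0) (nat_lit 0) (XT.lf (nat_lit 0) (nat_lit 5295183880) (nat_lit 532) (nat_lit 27660883416) (nat_lit 76) (nat_lit 6421919761) (nat_lit 140) (nat_lit 5) (nat_lit 147) (nat_lit 5) (nat_lit 141) (nat_lit 5) (nat_lit 394) (nat_lit 355) (nat_lit 151)) (XT.lf (nat_lit 0) (nat_lit 11480873909) (nat_lit 532) (nat_lit 6875746109) (nat_lit 76) (nat_lit 21737228933) (nat_lit 140) (nat_lit 5) (nat_lit 147) (nat_lit 5) (nat_lit 141) (nat_lit 5) (nat_lit 395) (nat_lit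 355) (nat_lit 150))))))))
noncomputable def xc221 : XT := (XT.nd (nat_lit 2106) (nat_lit 684) (nat_lit 0) (XT.nd (nat_lit 1014) (nat_lit 2280) (nat_lit 0) (XT.nd (nat_lit 468) (nat_lit 988) (nat_lit 0) (XT.nd (nat_lit 234) (nat_lit 760) (nat_lit 0) (XT.nd (nat_lit 78) (nat_lit 380) (nat_lit 0) (XT.lf (nat_lit 0) (nat_lit 14819279821) (nat_lit 380) (nat_lit 3173082177) (nat_lit 456) (nat_lit 22834618946) (nat_lit 135) (nat_lit 5) (nat_lit 140) (nat_lit 5) (nat_lit 141) (nat_lit 5) (nat_lit 396) (nat_lit 355) (nat_lit 149)) (XT.nd (nat_lit 78) (nat_lit 380) (nat_lit 0) (XT.lf (nat_lit 0) (nat_lit 24886951246) (nat_lit 456) (nat_lit 4397315005) (nat_lit 76) (nat_lit 12292208980) (nat_lit 135) (nat_lit 5) (nat_lit 141) (nat_lit 5) (nat_lit 136) (nat_lit 5) (nat_lit 397) (nat_lit 355) (nat_lit 148)) (XT.lf (nat_lit 0) (nat_lit 18181969771) (nat_lit 380) (nat_lit 14010472214) (nat_lit 456) (nat_lit 10149891449)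 (nat_lit 130) (nat_lit 5) (nat_lit 135) (nat_lit 5) (nat_lit 136) (nat_lit 5) (nat_lit 398) (nat_lit 355) (nat_lit 147)))) (XT.nd (nat_lit 78) (nat_lit 760) (nat_lit 0) (XT.lf (nat_lit 0) (nat_lit 39776389736) (nat_lit 456) (nat_lit 1620871565) (nat_lit 76) (nat_lit 1732128287) (nat_lit 130) (nat_lit 5) (nat_lit 136) (nat_lit 5) (nat_lit 131) (nat_lit 5) (nat_lit 399) (nat_lit 355) (nat_lit 146)) (XT.nd (nat_lit 78) (nat_lit 380) (nat_lit 0) (XT.lf (nat_lit 0) (nat_lit 3927057162) (nat_lit 380) (nat_lit 22087837075) (nat_lit 76) (nat_lit 17913598947) (nat_lit 125) (nat_lit 5) (nat_lit 130) (nat_lit 5) (nat_lit 126) (nat_lit 5) (nat_lit 400) (nat_lit 355) (nat_lit 145)) (XT.lf (nat_lit 0) (nat_lit 1276981351) (nat_lit 380) (nat_lit 10107921013) (nat_lit 456) (nat_lit 33364869121) (nat_lit 120) (nat_lit 5) (nat_lit 125) (nat_lit 5) (nat_lit 126) (nat_lit 5) (nat_lit 401) (nat_lit 355) (nat_lit 144))))) (XT.nd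 (nat_lit 234) (nat_lit 684) (nat_lit 0) (XT.nd (nat_lit 78) (nat_lit 304) (nat_lit 0) (XT.lf (nat_lit 0) (nat_lit 19350065787) (nat_lit 456) (nat_lit 19858793830) (nat_lit 76) (nat_lit 6378321893) (nat_lit 120) (nat_lit 5) (nat_lit 126) (nat_lit 5) (nat_lit 121) (nat_lit 5) (nat_lit 402) (nat_lit 355) (nat_lit 143)) (XT.nd (nat_lit 78) (nat_lit 0) (nat_lit 0) (XT.lf (nat_lit 0) (nat_lit 4447633548) (nat_lit 304) (nat_lit 23247440037) (nat_lit 380) (nat_lit 18750414409) (nat_lit 116) (nat_lit 5) (nat_lit 120) (nat_lit 5) (nat_lit 121) (nat_lit 5) (nat_lit 403) (nat_lit 355) (nat_lit 142)) (XT.lf (nat_lit 0) (nat_lit 29887666284) (nat_lit 304) (nat_lit 6601388758) (nat_lit 380) (nat_lit 10834530739) (nat_lit 116) (nat_lit 5) (nat_lit 120) (nat_lit 5) (nat_lit 121) (nat_lit 5) (nat_lit 404) (nat_lit 355) (nat_lit 141)))) (XT.nd (nat_lit 156) (nat_lit 304) (nat_lit 0) (XT.nd (nat_lit 78) (nat_lit 76) (nat_lit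 0) (XT.lf (nat_lit 0) (nat_lit 7913289720) (nat_lit 304) (nat_lit 37809126517) (nat_lit 380) (nat_lit 2500344247) (nat_lit 112) (nat_lit 5) (nat_lit 116) (nat_lit 5) (nat_lit 117) (nat_lit 5) (nat_lit 405) (nat_lit 355) (nat_lit 140)) (XT.lf (nat_lit 0) (nat_lit 6206469087) (nat_lit 380) (nat_lit 14891475748) (nat_lit 76) (nat_lit 28041972301) (nat_lit 111) (nat_lit 5) (nat_lit 116) (nat_lit 5) (nat_lit 112) (nat_lit 5) (nat_lit 406) (nat_lit 355) (nat_lit 139))) (XT.nd (nat_lit 78) (nat_lit 0) (nat_lit 0) (XT.lf (nat_lit 0) (nat_lit 11485854551) (nat_lit 304) (nat_lit 3746988138) (nat_lit 380) (nat_lit 34847745536) (nat_lit 107) (nat_lit 5) (nat_lit 111) (nat_lit 5) (nat_lit 112) (nat_lit 5) (nat_lit 407) (nat_lit 355) (nat_lit 138)) (XT.lf (nat_lit 0) (nat_lit 24815865937) (nat_lit 380) (nat_lit 12225065054) (nat_lit 76) (nat_lit 13999973402) (nat_lit 107) (nat_lit 5) (nat_lit 112) (nat_lit 5) (nat_lit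 108) (nat_lit 5) (nat_lit 408) (nat_lit 355) (nat_lit 137)))))) (XT.nd (nat_lit 546) (nat_lit 1140) (nat_lit 0) (XT.nd (nat_lit 234) (nat_lit 532) (nat_lit 0) (XT.nd (nat_lit 78) (nat_lit 304) (nat_lit 0) (XT.lf (nat_lit 0) (nat_lit 15192531373) (nat_lit 304) (nat_lit 19675260672) (nat_lit 380) (nat_lit 17156796320) (nat_lit 103) (nat_lit 5) (nat_lit 107) (nat_lit 5) (nat_lit 108) (nat_lit 5) (nat_lit 409) (nat_lit 355) (nat_lit 136)) (XT.nd (nat_lit 78) (nat_lit 304) (nat_lit 0) (XT.lf (nat_lit 0) (nat_lit 43680757927) (nat_lit 304) (nat_lit 1662266825) (nat_lit 380) (nat_lit 7691106303) (nat_lit 103) (nat_lit 5) (nat_lit 107) (nat_lit 5) (nat_lit 108) (nat_lit 5) (nat_lit 410) (nat_lit 355) (nat_lit 135)) (XT.lf (nat_lit 0) (nat_lit 2366673052) (nat_lit 304) (nat_lit 34928128098) (nat_lit 76) (nat_lit 16768117201) (nat_lit 99) (nat_lit 5) (nat_lit 103) (nat_lit 5) (nat_lit 100) (nat_lit 5) (nat_lit 411)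 (nat_lit 355) (nat_lit 134)))) (XT.nd (nat_lit 156) (nat_lit 228) (nat_lit 0) (XT.nd (nat_lit 78) (nat_lit 304) (nat_lit 0) (XT.lf (nat_lit 0) (nat_lit 12681795842) (nat_lit 304) (nat_lit 6546423800) (nat_lit 76) (nat_lit 35888759935) (nat_lit 99) (nat_lit 5) (nat_lit 103) (nat_lit 5) (nat_lit 100) (nat_lit 5) (nat_lit 412) (nat_lit 355) (nat_lit 133)) (XT.lf (nat_lit 0) (nat_lit 23135787612) (nat_lit 304) (nat_lit 391377817) (nat_lit 380) (nat_lit 32668874004) (nat_lit 95) (nat_lit 5) (nat_lit 99) (nat_lit 5) (nat_lit 100) (nat_lit 5) (nat_lit 413) (nat_lit 355) (nat_lit 132))) (XT.nd (nat_lit 78) (nat_lit 228) (nat_lit 0) (XT.lf (nat_lit 0) (nat_lit 34945811682) (nat_lit 380) (nat_lit 3648646165) (nat_lit 76) (nat_lit 18705576342) (nat_lit 95) (nat_lit 5) (nat_lit 100) (nat_lit 5) (nat_lit 96) (nat_lit 5) (nat_lit 414) (nat_lit 355) (nat_lit 131)) (XT.lf (nat_lit 0) (nat_lit 27169249975) (nat_lit 228)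 (nat_lit 19801269823) (nat_lit 304) (nat_lit 11458724469) (nat_lit 92) (nat_lit 5) (nat_lit 95) (nat_lit 5) (nat_lit 96) (nat_lit 5) (nat_lit 415) (nat_lit 355) (nat_lit 130))))) (XT.nd (nat_lit 234) (nat_lit 532) (nat_lit 0) (XT.nd (nat_lit 78) (nat_lit 608) (nat_lit 0) (XT.lf (nat_lit 0) (nat_lit 58984147150) (nat_lit 228) (nat_lit 407148639) (nat_lit 304) (nat_lit 199975598) (nat_lit 92) (nat_lit 5) (nat_lit 95) (nat_lit 5) (nat_lit 96) (nat_lit 5) (nat_lit 416) (nat_lit 355) (nat_lit 129)) (XT.nd (nat_lit 78) (nat_lit 228) (nat_lit 0) (XT.lf (nat_lit 0) (nat_lit 11667324107) (nat_lit 380) (nat_lit 29500487903) (nat_lit 76) (nat_lit 19602266028) (nat_lit 87) (nat_lit 5) (nat_lit 92) (nat_lit 5) (nat_lit 88) (nat_lit 5) (nat_lit 417) (nat_lit 355) (nat_lit 128)) (XT.lf (nat_lit 0) (nat_lit 2164852546) (nat_lit 228) (nat_lit 21751328857) (nat_lit 304) (nat_lit 38067121843) (nat_lit 84) (nat_lit 5) (nat_lit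 87) (nat_lit 5) (nat_lit 88) (nat_lit 5) (nat_lit 418) (nat_lit 355) (nat_lit 127)))) (XT.nd (nat_lit 156) (nat_lit 304) (nat_lit 0) (XT.nd (nat_lit 78) (nat_lit 228) (nat_lit 0) (XT.lf (nat_lit 0) (nat_lit 35382600782) (nat_lit 228) (nat_lit 1446347104) (nat_lit 304) (nat_lit 26395084499) (nat_lit 84) (nat_lit 5) (nat_lit 87) (nat_lit 5) (nat_lit 88) (nat_lit 5) (nat_lit 419) (nat_lit 355) (nat_lit 126)) (XT.lf (nat_lit 0) (nat_lit 5003139023) (nat_lit 228) (nat_lit 45359768800) (nat_lit 304) (nat_lit 14132061725) (nat_lit 81) (nat_lit 5) (nat_lit 84) (nat_lit 5) (nat_lit 85) (nat_lit 5) (nat_lit 420) (nat_lit 355) (nat_lit 125))) (XT.nd (nat_lit 78) (nat_lit 304) (nat_lit 0) (XT.lf (nat_lit 0) (nat_lit 39386933575) (nat_lit 228) (nat_lit 25209877597) (nat_lit 304) (nat_lit 1198406367) (nat_lit 81) (nat_lit 5) (nat_lit 84) (nat_lit 5) (nat_lit 85) (nat_lit 5) (nat_lit 421) (nat_lit 355) (nat_lit 124))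 (XT.lf (nat_lit 0) (nat_lit 7699280753) (nat_lit 228) (nat_lit 4260047397) (nat_lit 304) (nat_lit 55169470020) (nat_lit 77) (nat_lit 5) (nat_lit 80) (nat_lit 5) (nat_lit 81) (nat_lit 5) (nat_lit 422) (nat_lit 355) (nat_lit 123))))))) (XT.nd (nat_lit 42120) (nat_lit 0) (nat_lit 11172) (XT.nd (nat_lit 468) (nat_lit 0) (nat_lit 0) (XT.nd (nat_lit 234) (nat_lit 456) (nat_lit 0) (XT.nd (nat_lit 78) (nat_lit 228) (nat_lit 0) (XT.lf (nat_lit 0) (nat_lit 25922132982) (nat_lit 304) (nat_lit 25306153732) (nat_lit 76) (nat_lit 17260711204) (nat_lit 77) (nat_lit 5) (nat_lit 81) (nat_lit 5) (nat_lit 78) (nat_lit 5) (nat_lit 423) (nat_lit 355) (nat_lit 122)) (XT.nd (nat_lit 78) (nat_lit 0) (nat_lit 0) (XT.lf (nat_lit 0) (nat_lit 9991563363) (nat_lit 228) (nat_lit 30449160921) (nat_lit 304) (nat_lit 29445172706) (nat_lit 74) (nat_lit 5) (nat_lit 77) (nat_lit 5) (nat_lit 78) (nat_lit 5) (nat_lit 424) (nat_lit 355) (nat_lit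 121)) (XT.lf (nat_lit 0) (nat_lit 46864844096) (nat_lit 228) (nat_lit 8784268497) (nat_lit 304) (nat_lit 15667963652) (nat_lit 74) (nat_lit 5) (nat_lit 77) (nat_lit 5) (nat_lit 78) (nat_lit 5) (nat_lit 425) (nat_lit 355) (nat_lit 120)))) (XT.nd (nat_lit 78) (nat_lit 304) (nat_lit 0) (XT.lf (nat_lit 0) (nat_lit 12158230910) (nat_lit 152) (nat_lit 59401185195) (nat_lit 228) (nat_lit 1224405243) (nat_lit 72) (nat_lit 5) (nat_lit 74) (nat_lit 5) (nat_lit 75) (nat_lit 5) (nat_lit 426) (nat_lit 355) (nat_lit 119)) (XT.nd (nat_lit 78) (nat_lit 228) (nat_lit 0) (XT.lf (nat_lit 0) (nat_lit 13721120040) (nat_lit 228) (nat_lit 24141653413) (nat_lit 76) (nat_lit 36417806571) (nat_lit 71) (nat_lit 5) (nat_lit 74) (nat_lit 5) (nat_lit 72) (nat_lit 5) (nat_lit 427) (nat_lit 355) (nat_lit 118)) (XT.lf (nat_lit 0) (nat_lit 13689783510) (nat_lit 228) (nat_lit 15530981244) (nat_lit 304) (nat_lit 46597202475) (nat_lit 68)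 (nat_lit 5) (nat_lit 71) (nat_lit 5) (nat_lit 72) (nat_lit 5) (nat_lit 428) (nat_lit 355) (nat_lit 117))))) (XT.nd (nat_lit 41340) (nat_lit 0) (nat_lit 13072) (XT.nd (nat_lit 41184) (nat_lit 0) (nat_lit 13072) (XT.lf (nat_lit 0) (nat_lit 45502186725) (nat_lit 304) (nat_lit 24319387609) (nat_lit 76) (nat_lit 7570398415) (nat_lit 68) (nat_lit 5) (nat_lit 72) (nat_lit 5) (nat_lit 69) (nat_lit 5) (nat_lit 429) (nat_lit 355) (nat_lit 116)) (XT.nd (nat_lit 78) (nat_lit 0) (nat_lit 0) (XT.lf (nat_lit 0) (nat_lit 4729431764) (nat_lit 0) (nat_lit 4729431764) (nat_lit 1140) (nat_lit 1257452832) (nat_lit 240) (nat_lit 5) (nat_lit 240) (nat_lit 3) (nat_lit 255) (nat_lit 3) (nat_lit 356) (nat_lit 356) (nat_lit 188)) (XT.lf (nat_lit 0) (nat_lit 19346295275) (nat_lit 1140) (nat_lit 1832252841) (nat_lit 1216) (nat_lit 571138576) (nat_lit 240) (nat_lit 5) (nat_lit 255) (nat_lit 3) (nat_lit 256) (nat_lit 5) (nat_lit 357)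 (nat_lit 356) (nat_lit 187)))) (XT.nd (nat_lit 156) (nat_lit 0) (nat_lit 76) (XT.nd (nat_lit 78) (nat_lit 0) (nat_lit 0) (XT.lf (nat_lit 76) (nat_lit 8686451839) (nat_lit 0) (nat_lit 11273013712) (nat_lit 1216) (nat_lit 2111637948) (nat_lit 241) (nat_lit 5) (nat_lit 240) (nat_lit 5) (nat_lit 256) (nat_lit 5) (nat_lit 358) (nat_lit 356) (nat_lit 186)) (XT.lf (nat_lit 76) (nat_lit 19555396555) (nat_lit 0) (nat_lit 1048859736) (nat_lit 1216) (nat_lit 1797513223) (nat_lit 241) (nat_lit 5) (nat_lit 240) (nat_lit 5) (nat_lit 256) (nat_lit 5) (nat_lit 359) (nat_lit 356) (nat_lit 185))) (XT.nd (nat_lit 78) (nat_lit 0) (nat_lit 0) (XT.lf (nat_lit 76) (nat_lit 8071433867) (nat_lit 0) (nat_lit 13360590666) (nat_lit 1216) (nat_lit 1305425329) (nat_lit 242) (nat_lit 5) (nat_lit 241) (nat_lit 5) (nat_lit 257) (nat_lit 5) (nat_lit 360) (nat_lit 356) (nat_lit 184)) (XT.lf (nat_lit 76) (nat_lit 19361584488) (nat_lit 0)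 (nat_lit 2957086548) (nat_lit 1216) (nat_lit 763511492) (nat_lit 242) (nat_lit 5) (nat_lit 241) (nat_lit 5) (nat_lit 257) (nat_lit 5) (nat_lit 361) (nat_lit 356) (nat_lit 183)))))) (XT.nd (nat_lit 546) (nat_lit 836) (nat_lit 0) (XT.nd (nat_lit 234) (nat_lit 0) (nat_lit 76) (XT.nd (nat_lit 78) (nat_lit 1216) (nat_lit 0) (XT.lf (nat_lit 76) (nat_lit 7624353155) (nat_lit 0) (nat_lit 15750616928) (nat_lit 1216) (nat_lit 57998669) (nat_lit 243) (nat_lit 5) (nat_lit 242) (nat_lit 5) (nat_lit 258) (nat_lit 5) (nat_lit 362) (nat_lit 356) (nat_lit 182)) (XT.nd (nat_lit 78) (nat_lit 0) (nat_lit 76) (XT.lf (nat_lit 0) (nat_lit 718097400) (nat_lit 1216) (nat_lit 4446403920) (nat_lit 1292) (nat_lit 18627713412) (nat_lit 226) (nat_lit 5) (nat_lit 242) (nat_lit 5) (nat_lit 243) (nat_lit 5) (nat_lit 363) (nat_lit 356) (nat_lit 181)) (XT.lf (nat_lit 0) (nat_lit 1638697168) (nat_lit 1216) (nat_lit 16818678196) (nat_lit 1292)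 (nat_lit 5701176807) (nat_lit 227) (nat_lit 5) (nat_lit 243) (nat_lit 5) (nat_lit 244) (nat_lit 5) (nat_lit 364) (nat_lit 356) (nat_lit 180)))) (XT.nd (nat_lit 156) (nat_lit 0) (nat_lit 76) (XT.nd (nat_lit 78) (nat_lit 0) (nat_lit 76) (XT.lf (nat_lit 0) (nat_lit 2678897578) (nat_lit 1216) (nat_lit 5018353204) (nat_lit 1292) (nat_lit 16835872288) (nat_lit 227) (nat_lit 5) (nat_lit 243) (nat_lit 5) (nat_lit 244) (nat_lit 5) (nat_lit 365) (nat_lit 356) (nat_lit 179)) (XT.lf (nat_lit 0) (nat_lit 3849120552) (nat_lit 1216) (nat_lit 17675314314) (nat_lit 1292) (nat_lit 3391534470) (nat_lit 228) (nat_lit 5) (nat_lit 244) (nat_lit 5) (nat_lit 245) (nat_lit 5) (nat_lit 366) (nat_lit 356) (nat_lit 178))) (XT.nd (nat_lit 78) (nat_lit 0) (nat_lit 76) (XT.lf (nat_lit 0) (nat_lit 5177583579) (nat_lit 1216) (nat_lit 5418339225) (nat_lit 1292) (nat_lit 14710686842) (nat_lit 228) (nat_lit 5) (nat_lit 244) (nat_lit 5) (nat_lit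 245) (nat_lit 5) (nat_lit 367) (nat_lit 356) (nat_lit 177)) (XT.lf (nat_lit 0) (nat_lit 6619448656) (nat_lit 1216) (nat_lit 18367389914) (nat_lit 1292) (nat_lit 719926727) (nat_lit 229) (nat_lit 5) (nat_lit 245) (nat_lit 5) (nat_lit 246) (nat_lit 5) (nat_lit 368) (nat_lit 356) (nat_lit 176))))) (XT.nd (nat_lit 234) (nat_lit 1064) (nat_lit 0) (XT.nd (nat_lit 78) (nat_lit 0) (nat_lit 0) (XT.lf (nat_lit 0) (nat_lit 8260706638) (nat_lit 1216) (nat_lit 5635006750) (nat_lit 1292) (nat_lit 12218530625) (nat_lit 229) (nat_lit 5) (nat_lit 245) (nat_lit 5) (nat_lit 246) (nat_lit 5) (nat_lit 369) (nat_lit 356) (nat_lit 175)) (XT.nd (nat_lit 78) (nat_lit 0) (nat_lit 76) (XT.lf (nat_lit 76) (nat_lit 7625069817) (nat_lit 0) (nat_lit 2395517237) (nat_lit 1292) (nat_lit 16511280925) (nat_lit 230) (nat_lit 5) (nat_lit 229) (nat_lit 5) (nat_lit 246) (nat_lit 5) (nat_lit 370) (nat_lit 356) (nat_lit 174)) (XT.lf (nat_lit 0)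 (nat_lit 11977746087) (nat_lit 1216) (nat_lit 5656417645) (nat_lit 1292) (nat_lit 9323524826) (nat_lit 230) (nat_lit 5) (nat_lit 246) (nat_lit 5) (nat_lit 247) (nat_lit 5) (nat_lit 371) (nat_lit 356) (nat_lit 173)))) (XT.nd (nat_lit 156) (nat_lit 1140) (nat_lit 0) (XT.nd (nat_lit 78) (nat_lit 0) (nat_lit 76) (XT.lf (nat_lit 76) (nat_lit 8123195991) (nat_lit 0) (nat_lit 5968518420) (nat_lit 1292) (nat_lit 13301628800) (nat_lit 231) (nat_lit 5) (nat_lit 230) (nat_lit 5) (nat_lit 247) (nat_lit 5) (nat_lit 372) (nat_lit 356) (nat_lit 172)) (XT.lf (nat_lit 0) (nat_lit 16381290240) (nat_lit 1216) (nat_lit 5470058554) (nat_lit 76) (nat_lit 5987355279) (nat_lit 231) (nat_lit 5) (nat_lit 247) (nat_lit 5) (nat_lit 232) (nat_lit 5) (nat_lit 373) (nat_lit 356) (nat_lit 171))) (XT.nd (nat_lit 78) (nat_lit 0) (nat_lit 0) (XT.lf (nat_lit 0) (nat_lit 8854657066) (nat_lit 1216) (nat_lit 10025588266) (nat_lit 1292) (nat_lit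 9412961830) (nat_lit 215) (nat_lit 5) (nat_lit 231) (nat_lit 5) (nat_lit 232) (nat_lit 5) (nat_lit 374) (nat_lit 356) (nat_lit 170)) (XT.lf (nat_lit 0) (nat_lit 21527226062) (nat_lit 1292) (nat_lit 5062851809) (nat_lit 76) (nat_lit 2169077857) (nat_lit 215) (nat_lit 5) (nat_lit 232) (nat_lit 5) (nat_lit 216) (nat_lit 5) (nat_lit 375) (nat_lit 356) (nat_lit 169))))))))
noncomputable def xc222 : XT := (XT.nd (nat_lit 2028) (nat_lit 4104) (nat_lit 0) (XT.nd (nat_lit 1014) (nat_lit 2964) (nat_lit 0) (XT.nd (nat_lit 468) (nat_lit 2052) (nat_lit 0) (XT.nd (nat_lit 234) (nat_lit 608) (nat_lit 0) (XT.nd (nat_lit 78) (nat_lit 608) (nat_lit 0) (XT.lf (nat_lit 0) (nat_lit 9833689522) (nat_lit 608) (nat_lit 14610376187) (nat_lit 684) (nat_lit 4789305594) (nat_lit 207) (nat_lit 5) (nat_lit 215) (nat_lit 5) (nat_lit 216) (nat_lit 5) (nat_lit 376) (nat_lit 356) (nat_lit 168)) (XT.nd (nat_lit 78) (nat_lit 608) (nat_lit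 0) (XT.lf (nat_lit 0) (nat_lit 25277885192) (nat_lit 608) (nat_lit 2218377271) (nat_lit 684) (nat_lit 2224117302) (nat_lit 207) (nat_lit 5) (nat_lit 215) (nat_lit 5) (nat_lit 216) (nat_lit 5) (nat_lit 377) (nat_lit 356) (nat_lit 167)) (XT.lf (nat_lit 0) (nat_lit 616547980) (nat_lit 608) (nat_lit 19146787163) (nat_lit 76) (nat_lit 10452344292) (nat_lit 199) (nat_lit 5) (nat_lit 207) (nat_lit 5) (nat_lit 200) (nat_lit 5) (nat_lit 378) (nat_lit 356) (nat_lit 166)))) (XT.nd (nat_lit 78) (nat_lit 608) (nat_lit 0) (XT.lf (nat_lit 0) (nat_lit 3561855069) (nat_lit 608) (nat_lit 3635305487) (nat_lit 76) (nat_lit 23526094988) (nat_lit 199) (nat_lit 5) (nat_lit 207) (nat_lit 5) (nat_lit 200) (nat_lit 5) (nat_lit 379) (nat_lit 356) (nat_lit 165)) (XT.nd (nat_lit 78) (nat_lit 0) (nat_lit 0) (XT.lf (nat_lit 0) (nat_lit 6769867066) (nat_lit 684) (nat_lit 18714855964) (nat_lit 76) (nat_lit 5756107291) (nat_lit 191) (nat_lit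 5) (nat_lit 200) (nat_lit 5) (nat_lit 192) (nat_lit 5) (nat_lit 380) (nat_lit 356) (nat_lit 164)) (XT.lf (nat_lit 0) (nat_lit 10179459475) (nat_lit 684) (nat_lit 2600885348) (nat_lit 76) (nat_lit 18990429022) (nat_lit 191) (nat_lit 5) (nat_lit 200) (nat_lit 5) (nat_lit 192) (nat_lit 5) (nat_lit 381) (nat_lit 356) (nat_lit 163))))) (XT.nd (nat_lit 234) (nat_lit 988) (nat_lit 0) (XT.nd (nat_lit 78) (nat_lit 532) (nat_lit 0) (XT.lf (nat_lit 0) (nat_lit 13829917840) (nat_lit 608) (nat_lit 18044832489) (nat_lit 76) (nat_lit 437709654) (nat_lit 184) (nat_lit 5) (nat_lit 192) (nat_lit 5) (nat_lit 185) (nat_lit 5) (nat_lit 382) (nat_lit 356) (nat_lit 162)) (XT.nd (nat_lit 78) (nat_lit 532) (nat_lit 0) (XT.lf (nat_lit 0) (nat_lit 17740102878) (nat_lit 608) (nat_lit 1303908826) (nat_lit 76) (nat_lit 13821880221) (nat_lit 184) (nat_lit 5) (nat_lit 192) (nat_lit 5) (nat_lit 185) (nat_lit 5) (nat_lit 383) (nat_lit 356)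 (nat_lit 161)) (XT.lf (nat_lit 0) (nat_lit 16253481015) (nat_lit 532) (nat_lit 5667584808) (nat_lit 608) (nat_lit 11510258391) (nat_lit 177) (nat_lit 5) (nat_lit 184) (nat_lit 5) (nat_lit 185) (nat_lit 5) (nat_lit 384) (nat_lit 356) (nat_lit 160)))) (XT.nd (nat_lit 156) (nat_lit 532) (nat_lit 0) (XT.nd (nat_lit 78) (nat_lit 0) (nat_lit 0) (XT.lf (nat_lit 0) (nat_lit 275301155) (nat_lit 456) (nat_lit 26043344641) (nat_lit 532) (nat_lit 7692339547) (nat_lit 171) (nat_lit 5) (nat_lit 177) (nat_lit 5) (nat_lit 178) (nat_lit 5) (nat_lit 385) (nat_lit 356) (nat_lit 159)) (XT.lf (nat_lit 0) (nat_lit 18543988530) (nat_lit 456) (nat_lit 12530527373) (nat_lit 532) (nat_lit 3526730990) (nat_lit 171) (nat_lit 5) (nat_lit 177) (nat_lit 5) (nat_lit 178) (nat_lit 5) (nat_lit 386) (nat_lit 356) (nat_lit 158))) (XT.nd (nat_lit 78) (nat_lit 0) (nat_lit 0) (XT.lf (nat_lit 0) (nat_lit 780936249) (nat_lit 532) (nat_lit 33038186145)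 (nat_lit 76) (nat_lit 1388915132) (nat_lit 164) (nat_lit 5) (nat_lit 171) (nat_lit 5) (nat_lit 165) (nat_lit 5) (nat_lit 387) (nat_lit 356) (nat_lit 157)) (XT.lf (nat_lit 0) (nat_lit 5432198080) (nat_lit 532) (nat_lit 14718786068) (nat_lit 76) (nat_lit 15672444079) (nat_lit 164) (nat_lit 5) (nat_lit 171) (nat_lit 5) (nat_lit 165) (nat_lit 5) (nat_lit 388) (nat_lit 356) (nat_lit 156)))))) (XT.nd (nat_lit 468) (nat_lit 1672) (nat_lit 0) (XT.nd (nat_lit 234) (nat_lit 380) (nat_lit 0) (XT.nd (nat_lit 78) (nat_lit 456) (nat_lit 0) (XT.lf (nat_lit 0) (nat_lit 4229859197) (nat_lit 456) (nat_lit 6031304881) (nat_lit 532) (nat_lit 26194972889) (nat_lit 158) (nat_lit 5) (nat_lit 164) (nat_lit 5) (nat_lit 165) (nat_lit 5) (nat_lit 389) (nat_lit 356) (nat_lit 155)) (XT.nd (nat_lit 78) (nat_lit 456) (nat_lit 0) (XT.lf (nat_lit 0) (nat_lit 15464471468) (nat_lit 532) (nat_lit 13140896619) (nat_lit 76) (nat_lit 8495575979)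 (nat_lit 158) (nat_lit 5) (nat_lit 165) (nat_lit 5) (nat_lit 159) (nat_lit 5) (nat_lit 390) (nat_lit 356) (nat_lit 154)) (XT.lf (nat_lit 0) (nat_lit 6582952951) (nat_lit 456) (nat_lit 14361539538) (nat_lit 532) (nat_lit 16816985687) (nat_lit 152) (nat_lit 5) (nat_lit 158) (nat_lit 5) (nat_lit 159) (nat_lit 5) (nat_lit 391) (nat_lit 356) (nat_lit 153)))) (XT.nd (nat_lit 78) (nat_lit 380) (nat_lit 0) (XT.lf (nat_lit 0) (nat_lit 26723558387) (nat_lit 532) (nat_lit 11277117133) (nat_lit 76) (nat_lit 437114656) (nat_lit 152) (nat_lit 5) (nat_lit 159) (nat_lit 5) (nat_lit 153) (nat_lit 5) (nat_lit 392) (nat_lit 356) (nat_lit 152)) (XT.nd (nat_lit 78) (nat_lit 0) (nat_lit 0) (XT.lf (nat_lit 0) (nat_lit 9256987279) (nat_lit 380) (nat_lit 23647911531) (nat_lit 456) (nat_lit 6222626814) (nat_lit 147) (nat_lit 5) (nat_lit 152) (nat_lit 5) (nat_lit 153) (nat_lit 5) (nat_lit 393) (nat_lit 356) (nat_lit 151)) (XT.lf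 (nat_lit 0) (nat_lit 30635522394) (nat_lit 380) (nat_lit 8747798785) (nat_lit 456) (nat_lit 451283829) (nat_lit 147) (nat_lit 5) (nat_lit 152) (nat_lit 5) (nat_lit 153) (nat_lit 5) (nat_lit 394) (nat_lit 356) (nat_lit 150))))) (XT.nd (nat_lit 234) (nat_lit 760) (nat_lit 0) (XT.nd (nat_lit 78) (nat_lit 380) (nat_lit 0) (XT.lf (nat_lit 0) (nat_lit 5566947279) (nat_lit 532) (nat_lit 28346416063) (nat_lit 76) (nat_lit 6642522177) (nat_lit 140) (nat_lit 5) (nat_lit 147) (nat_lit 5) (nat_lit 141) (nat_lit 5) (nat_lit 395) (nat_lit 356) (nat_lit 149)) (XT.nd (nat_lit 78) (nat_lit 380) (nat_lit 0) (XT.lf (nat_lit 0) (nat_lit 11934919430) (nat_lit 532) (nat_lit 6941927370) (nat_lit 76) (nat_lit 22416476697) (nat_lit 140) (nat_lit 5) (nat_lit 147) (nat_lit 5) (nat_lit 141) (nat_lit 5) (nat_lit 396) (nat_lit 356) (nat_lit 148)) (XT.lf (nat_lit 0) (nat_lit 15402575895) (nat_lit 380) (nat_lit 3237316909) (nat_lit 456)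 (nat_lit 23408613949) (nat_lit 135) (nat_lit 5) (nat_lit 140) (nat_lit 5) (nat_lit 141) (nat_lit 5) (nat_lit 397) (nat_lit 356) (nat_lit 147)))) (XT.nd (nat_lit 156) (nat_lit 380) (nat_lit 0) (XT.nd (nat_lit 78) (nat_lit 380) (nat_lit 0) (XT.lf (nat_lit 0) (nat_lit 25738470009) (nat_lit 456) (nat_lit 4391658035) (nat_lit 76) (nat_lit 12690444799) (nat_lit 135) (nat_lit 5) (nat_lit 141) (nat_lit 5) (nat_lit 136) (nat_lit 5) (nat_lit 398) (nat_lit 356) (nat_lit 146)) (XT.lf (nat_lit 0) (nat_lit 18863656496) (nat_lit 380) (nat_lit 14397722840) (nat_lit 456) (nat_lit 10348081276) (nat_lit 130) (nat_lit 5) (nat_lit 135) (nat_lit 5) (nat_lit 136) (nat_lit 5) (nat_lit 399) (nat_lit 356) (nat_lit 145))) (XT.nd (nat_lit 78) (nat_lit 380) (nat_lit 0) (XT.lf (nat_lit 0) (nat_lit 41070149310) (nat_lit 456) (nat_lit 1534495158) (nat_lit 76) (nat_lit 1815566264) (nat_lit 130) (nat_lit 5) (nat_lit 136) (nat_lit 5) (nat_lit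 131) (nat_lit 5) (nat_lit 400) (nat_lit 356) (nat_lit 144)) (XT.lf (nat_lit 0) (nat_lit 4144718267) (nat_lit 380) (nat_lit 22614762152) (nat_lit 76) (nat_lit 18483828241) (nat_lit 125) (nat_lit 5) (nat_lit 130) (nat_lit 5) (nat_lit 126) (nat_lit 5) (nat_lit 401) (nat_lit 356) (nat_lit 143))))))) (XT.nd (nat_lit 1014) (nat_lit 1824) (nat_lit 0) (XT.nd (nat_lit 468) (nat_lit 1216) (nat_lit 0) (XT.nd (nat_lit 234) (nat_lit 380) (nat_lit 0) (XT.nd (nat_lit 78) (nat_lit 304) (nat_lit 0) (XT.lf (nat_lit 0) (nat_lit 1449670336) (nat_lit 380) (nat_lit 10375011992) (nat_lit 456) (nat_lit 34264592754) (nat_lit 120) (nat_lit 5) (nat_lit 125) (nat_lit 5) (nat_lit 126) (nat_lit 5) (nat_lit 402) (nat_lit 356) (nat_lit 142)) (XT.nd (nat_lit 78) (nat_lit 304) (nat_lit 0) (XT.lf (nat_lit 0) (nat_lit 20026276846) (nat_lit 456) (nat_lit 20321526938) (nat_lit 76) (nat_lit 6604080579) (nat_lit 120) (nat_lit 5) (nat_lit 126)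 (nat_lit 5) (nat_lit 121) (nat_lit 5) (nat_lit 403) (nat_lit 356) (nat_lit 141)) (XT.lf (nat_lit 0) (nat_lit 4712789039) (nat_lit 304) (nat_lit 23907324430) (nat_lit 380) (nat_lit 19215873416) (nat_lit 116) (nat_lit 5) (nat_lit 120) (nat_lit 5) (nat_lit 121) (nat_lit 5) (nat_lit 404) (nat_lit 356) (nat_lit 140)))) (XT.nd (nat_lit 78) (nat_lit 380) (nat_lit 0) (XT.lf (nat_lit 0) (nat_lit 30912186064) (nat_lit 304) (nat_lit 6762984976) (nat_lit 380) (nat_lit 11065340036) (nat_lit 116) (nat_lit 5) (nat_lit 120) (nat_lit 5) (nat_lit 121) (nat_lit 5) (nat_lit 405) (nat_lit 356) (nat_lit 139)) (XT.nd (nat_lit 78) (nat_lit 76) (nat_lit 0) (XT.lf (nat_lit 0) (nat_lit 8279732482) (nat_lit 304) (nat_lit 38904717744) (nat_lit 380) (nat_lit 2482244414) (nat_lit 112) (nat_lit 5) (nat_lit 116) (nat_lit 5) (nat_lit 117) (nat_lit 5) (nat_lit 406) (nat_lit 356) (nat_lit 138)) (XT.lf (nat_lit 0) (nat_lit 6481297380) (nat_lit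 380) (nat_lit 15211134877) (nat_lit 76) (nat_lit 28918987723) (nat_lit 111) (nat_lit 5) (nat_lit 116) (nat_lit 5) (nat_lit 112) (nat_lit 5) (nat_lit 407) (nat_lit 356) (nat_lit 137))))) (XT.nd (nat_lit 234) (nat_lit 608) (nat_lit 0) (XT.nd (nat_lit 78) (nat_lit 304) (nat_lit 0) (XT.lf (nat_lit 0) (nat_lit 11956269398) (nat_lit 304) (nat_lit 3820820855) (nat_lit 380) (nat_lit 35803263143) (nat_lit 107) (nat_lit 5) (nat_lit 111) (nat_lit 5) (nat_lit 112) (nat_lit 5) (nat_lit 408) (nat_lit 356) (nat_lit 136)) (XT.nd (nat_lit 78) (nat_lit 304) (nat_lit 0) (XT.lf (nat_lit 0) (nat_lit 25645422604) (nat_lit 380) (nat_lit 12467427822) (nat_lit 76) (nat_lit 14456695082) (nat_lit 107) (nat_lit 5) (nat_lit 112) (nat_lit 5) (nat_lit 108) (nat_lit 5) (nat_lit 409) (nat_lit 356) (nat_lit 135)) (XT.lf (nat_lit 0) (nat_lit 15771476997) (nat_lit 304) (nat_lit 20226135403) (nat_lit 380) (nat_lit 17585167400) (nat_lit 103)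 (nat_lit 5) (nat_lit 107) (nat_lit 5) (nat_lit 108) (nat_lit 5) (nat_lit 410) (nat_lit 356) (nat_lit 134)))) (XT.nd (nat_lit 156) (nat_lit 304) (nat_lit 0) (XT.nd (nat_lit 78) (nat_lit 304) (nat_lit 0) (XT.lf (nat_lit 0) (nat_lit 45110762880) (nat_lit 304) (nat_lit 1673898820) (nat_lit 380) (nat_lit 7838021231) (nat_lit 103) (nat_lit 5) (nat_lit 107) (nat_lit 5) (nat_lit 108) (nat_lit 5) (nat_lit 411) (nat_lit 356) (nat_lit 133)) (XT.lf (nat_lit 0) (nat_lit 2518992342) (nat_lit 304) (nat_lit 35853829965) (nat_lit 76) (nat_lit 17309514172) (nat_lit 99) (nat_lit 5) (nat_lit 103) (nat_lit 5) (nat_lit 100) (nat_lit 5) (nat_lit 412) (nat_lit 356) (nat_lit 132))) (XT.nd (nat_lit 78) (nat_lit 304) (nat_lit 0) (XT.lf (nat_lit 0) (nat_lit 13141200298) (nat_lit 304) (nat_lit 6624232070) (nat_lit 76) (nat_lit 37002659096) (nat_lit 99) (nat_lit 5) (nat_lit 103) (nat_lit 5) (nat_lit 100) (nat_lit 5) (nat_lit 413) (nat_lit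 356) (nat_lit 131)) (XT.lf (nat_lit 0) (nat_lit 23947283091) (nat_lit 304) (nat_lit 363477080) (nat_lit 380) (nat_lit 33568798913) (nat_lit 95) (nat_lit 5) (nat_lit 99) (nat_lit 5) (nat_lit 100) (nat_lit 5) (nat_lit 414) (nat_lit 356) (nat_lit 130)))))) (XT.nd (nat_lit 546) (nat_lit 760) (nat_lit 0) (XT.nd (nat_lit 234) (nat_lit 836) (nat_lit 0) (XT.nd (nat_lit 78) (nat_lit 228) (nat_lit 0) (XT.lf (nat_lit 0) (nat_lit 36070070347) (nat_lit 380) (nat_lit 3642180969) (nat_lit 76) (nat_lit 19304480051) (nat_lit 95) (nat_lit 5) (nat_lit 100) (nat_lit 5) (nat_lit 96) (nat_lit 5) (nat_lit 415) (nat_lit 356) (nat_lit 129)) (XT.nd (nat_lit 78) (nat_lit 0) (nat_lit 0) (XT.lf (nat_lit 0) (nat_lit 28099115539) (nat_lit 228) (nat_lit 20355297357) (nat_lit 304) (nat_lit 11725438850) (nat_lit 92) (nat_lit 5) (nat_lit 95) (nat_lit 5) (nat_lit 96) (nat_lit 5) (nat_lit 416) (nat_lit 356) (nat_lit 128)) (XT.lf (nat_lit 0)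 (nat_lit 60865116288) (nat_lit 228) (nat_lit 380517894) (nat_lit 304) (nat_lit 131171611) (nat_lit 92) (nat_lit 5) (nat_lit 95) (nat_lit 5) (nat_lit 96) (nat_lit 5) (nat_lit 417) (nat_lit 356) (nat_lit 127)))) (XT.nd (nat_lit 156) (nat_lit 228) (nat_lit 0) (XT.nd (nat_lit 78) (nat_lit 228) (nat_lit 0) (XT.lf (nat_lit 0) (nat_lit 12090006170) (nat_lit 380) (nat_lit 30271867630) (nat_lit 76) (nat_lit 20229102437) (nat_lit 87) (nat_lit 5) (nat_lit 92) (nat_lit 5) (nat_lit 88) (nat_lit 5) (nat_lit 418) (nat_lit 356) (nat_lit 126)) (XT.lf (nat_lit 0) (nat_lit 2342318965) (nat_lit 228) (nat_lit 22362975461) (nat_lit 304) (nat_lit 39135335526) (nat_lit 84) (nat_lit 5) (nat_lit 87) (nat_lit 5) (nat_lit 88) (nat_lit 5) (nat_lit 419) (nat_lit 356) (nat_lit 125))) (XT.nd (nat_lit 78) (nat_lit 228) (nat_lit 0) (XT.lf (nat_lit 0) (nat_lit 36553322341) (nat_lit 228) (nat_lit 1450035321) (nat_lit 304) (nat_lit 27115286575)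 (nat_lit 84) (nat_lit 5) (nat_lit 87) (nat_lit 5) (nat_lit 88) (nat_lit 5) (nat_lit 420) (nat_lit 356) (nat_lit 124)) (XT.lf (nat_lit 0) (nat_lit 5263116255) (nat_lit 228) (nat_lit 46679621456) (nat_lit 304) (nat_lit 14484990432) (nat_lit 81) (nat_lit 5) (nat_lit 84) (nat_lit 5) (nat_lit 85) (nat_lit 5) (nat_lit 421) (nat_lit 356) (nat_lit 123))))) (XT.nd (nat_lit 234) (nat_lit 456) (nat_lit 0) (XT.nd (nat_lit 78) (nat_lit 304) (nat_lit 0) (XT.lf (nat_lit 0) (nat_lit 40675224166) (nat_lit 228) (nat_lit 25926425955) (nat_lit 304) (nat_lit 1165394339) (nat_lit 81) (nat_lit 5) (nat_lit 84) (nat_lit 5) (nat_lit 85) (nat_lit 5) (nat_lit 422) (nat_lit 356) (nat_lit 122)) (XT.nd (nat_lit 78) (nat_lit 0) (nat_lit 0) (XT.lf (nat_lit 0) (nat_lit 8037249131) (nat_lit 228) (nat_lit 4347536324) (nat_lit 304) (nat_lit 56755856009) (nat_lit 77) (nat_lit 5) (nat_lit 80) (nat_lit 5) (nat_lit 81) (nat_lit 5) (nat_lit 423)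 (nat_lit 356) (nat_lit 121)) (XT.lf (nat_lit 0) (nat_lit 26764908592) (nat_lit 304) (nat_lit 25959879026) (nat_lit 76) (nat_lit 17816907154) (nat_lit 77) (nat_lit 5) (nat_lit 81) (nat_lit 5) (nat_lit 78) (nat_lit 5) (nat_lit 424) (nat_lit 356) (nat_lit 120)))) (XT.nd (nat_lit 156) (nat_lit 228) (nat_lit 0) (XT.nd (nat_lit 78) (nat_lit 0) (nat_lit 0) (XT.lf (nat_lit 0) (nat_lit 10395735668) (nat_lit 228) (nat_lit 31322429311) (nat_lit 304) (nat_lit 30262363192) (nat_lit 74) (nat_lit 5) (nat_lit 77) (nat_lit 5) (nat_lit 78) (nat_lit 5) (nat_lit 425) (nat_lit 356) (nat_lit 119)) (XT.lf (nat_lit 0) (nat_lit 48372173306) (nat_lit 228) (nat_lit 9008761176) (nat_lit 304) (nat_lit 16073764993) (nat_lit 74) (nat_lit 5) (nat_lit 77) (nat_lit 5) (nat_lit 78) (nat_lit 5) (nat_lit 426) (nat_lit 356) (nat_lit 118))) (XT.nd (nat_lit 78) (nat_lit 76) (nat_lit 0) (XT.lf (nat_lit 0) (nat_lit 12624866749) (nat_lit 152) (nat_lit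 61143208096) (nat_lit 228) (nat_lit 1197386796) (nat_lit 72) (nat_lit 5) (nat_lit 74) (nat_lit 5) (nat_lit 75) (nat_lit 5) (nat_lit 427) (nat_lit 356) (nat_lit 117)) (XT.lf (nat_lit 0) (nat_lit 14193439661) (nat_lit 228) (nat_lit 24765756948) (nat_lit 76) (nat_lit 37547963211) (nat_lit 71) (nat_lit 5) (nat_lit 74) (nat_lit 5) (nat_lit 72) (nat_lit 5) (nat_lit 428) (nat_lit 356) (nat_lit 116))))))))
noncomputable def xc223 : XT := (XT.nd (nat_lit 2106) (nat_lit 5852) (nat_lit 0) (XT.nd (nat_lit 1014) (nat_lit 3192) (nat_lit 0) (XT.nd (nat_lit 468) (nat_lit 1064) (nat_lit 0) (XT.nd (nat_lit 234) (nat_lit 0) (nat_lit 0) (XT.nd (nat_lit 78) (nat_lit 0) (nat_lit 0) (XT.lf (nat_lit 0) (nat_lit 4940247122) (nat_lit 0) (nat_lit 4940247122) (nat_lit 1140) (nat_lit 1153085091) (nat_lit 240) (nat_lit 5) (nat_lit 240) (nat_lit 3) (nat_lit 255) (nat_lit 3) (nat_lit 357) (nat_lit 357) (nat_lit 186)) (XT.nd (nat_lit 78)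 (nat_lit 0) (nat_lit 0) (XT.lf (nat_lit 0) (nat_lit 20193096148) (nat_lit 1140) (nat_lit 1743877625) (nat_lit 1216) (nat_lit 457035287) (nat_lit 240) (nat_lit 5) (nat_lit 255) (nat_lit 3) (nat_lit 256) (nat_lit 5) (nat_lit 358) (nat_lit 357) (nat_lit 185)) (XT.lf (nat_lit 76) (nat_lit 9088982873) (nat_lit 0) (nat_lit 11729283476) (nat_lit 1216) (nat_lit 1906999001) (nat_lit 241) (nat_lit 5) (nat_lit 240) (nat_lit 5) (nat_lit 256) (nat_lit 5) (nat_lit 359) (nat_lit 357) (nat_lit 184)))) (XT.nd (nat_lit 78) (nat_lit 0) (nat_lit 76) (XT.lf (nat_lit 76) (nat_lit 20279861829) (nat_lit 0) (nat_lit 1194965676) (nat_lit 1216) (nat_lit 1591256012) (nat_lit 241) (nat_lit 5) (nat_lit 240) (nat_lit 5) (nat_lit 256) (nat_lit 5) (nat_lit 360) (nat_lit 357) (nat_lit 183)) (XT.nd (nat_lit 78) (nat_lit 0) (nat_lit 0) (XT.lf (nat_lit 76) (nat_lit 8458783642) (nat_lit 0) (nat_lit 13861618350) (nat_lit 1216) (nat_lit 1091647916)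 (nat_lit 242) (nat_lit 5) (nat_lit 241) (nat_lit 5) (nat_lit 257) (nat_lit 5) (nat_lit 361) (nat_lit 357) (nat_lit 182)) (XT.lf (nat_lit 76) (nat_lit 20083409459) (nat_lit 0) (nat_lit 3143090372) (nat_lit 1216) (nat_lit 540843853) (nat_lit 242) (nat_lit 5) (nat_lit 241) (nat_lit 5) (nat_lit 257) (nat_lit 5) (nat_lit 362) (nat_lit 357) (nat_lit 181))))) (XT.nd (nat_lit 234) (nat_lit 0) (nat_lit 76) (XT.nd (nat_lit 78) (nat_lit 0) (nat_lit 0) (XT.lf (nat_lit 0) (nat_lit 175712409) (nat_lit 1216) (nat_lit 16129735728) (nat_lit 1292) (nat_lit 7823351056) (nat_lit 226) (nat_lit 5) (nat_lit 242) (nat_lit 5) (nat_lit 243) (nat_lit 5) (nat_lit 363) (nat_lit 357) (nat_lit 180)) (XT.nd (nat_lit 78) (nat_lit 0) (nat_lit 76) (XT.lf (nat_lit 0) (nat_lit 967101801) (nat_lit 1216) (nat_lit 4431675559) (nat_lit 1292) (nat_lit 19100236970) (nat_lit 226) (nat_lit 5) (nat_lit 242) (nat_lit 5) (nat_lit 243) (nat_lit 5) (nat_lit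 364) (nat_lit 357) (nat_lit 179)) (XT.lf (nat_lit 0) (nat_lit 1909377834) (nat_lit 1216) (nat_lit 17169037501) (nat_lit 1292) (nat_lit 5798108974) (nat_lit 227) (nat_lit 5) (nat_lit 243) (nat_lit 5) (nat_lit 244) (nat_lit 5) (nat_lit 365) (nat_lit 357) (nat_lit 178)))) (XT.nd (nat_lit 156) (nat_lit 0) (nat_lit 76) (XT.nd (nat_lit 78) (nat_lit 0) (nat_lit 76) (XT.lf (nat_lit 0) (nat_lit 2974332226) (nat_lit 1216) (nat_lit 5019194053) (nat_lit 1292) (nat_lit 17269003663) (nat_lit 227) (nat_lit 5) (nat_lit 243) (nat_lit 5) (nat_lit 244) (nat_lit 5) (nat_lit 366) (nat_lit 357) (nat_lit 177)) (XT.lf (nat_lit 0) (nat_lit 4174226920) (nat_lit 1216) (nat_lit 18050298163) (nat_lit 1292) (nat_lit 3432503487) (nat_lit 228) (nat_lit 5) (nat_lit 244) (nat_lit 5) (nat_lit 245) (nat_lit 5) (nat_lit 367) (nat_lit 357) (nat_lit 176))) (XT.nd (nat_lit 78) (nat_lit 0) (nat_lit 76) (XT.lf (nat_lit 0) (nat_lit 5536438029) (nat_lit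 1216) (nat_lit 5430136410) (nat_lit 1292) (nat_lit 15093000634) (nat_lit 228) (nat_lit 5) (nat_lit 244) (nat_lit 5) (nat_lit 245) (nat_lit 5) (nat_lit 368) (nat_lit 357) (nat_lit 175)) (XT.lf (nat_lit 0) (nat_lit 7016587700) (nat_lit 1216) (nat_lit 18762563909) (nat_lit 1292) (nat_lit 692736628) (nat_lit 229) (nat_lit 5) (nat_lit 245) (nat_lit 5) (nat_lit 246) (nat_lit 5) (nat_lit 369) (nat_lit 357) (nat_lit 174)))))) (XT.nd (nat_lit 546) (nat_lit 2356) (nat_lit 0) (XT.nd (nat_lit 234) (nat_lit 1064) (nat_lit 0) (XT.nd (nat_lit 78) (nat_lit 0) (nat_lit 0) (XT.lf (nat_lit 0) (nat_lit 8701300249) (nat_lit 1216) (nat_lit 5652748503) (nat_lit 1292) (nat_lit 12537719649) (nat_lit 229) (nat_lit 5) (nat_lit 245) (nat_lit 5) (nat_lit 246) (nat_lit 5) (nat_lit 370) (nat_lit 357) (nat_lit 173)) (XT.nd (nat_lit 78) (nat_lit 0) (nat_lit 76) (XT.lf (nat_lit 76) (nat_lit 8003646945) (nat_lit 0) (nat_lit 2506155613) (nat_lit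 1292) (nat_lit 16812247254) (nat_lit 230) (nat_lit 5) (nat_lit 229) (nat_lit 5) (nat_lit 246) (nat_lit 5) (nat_lit 371) (nat_lit 357) (nat_lit 172)) (XT.lf (nat_lit 0) (nat_lit 12519821366) (nat_lit 1216) (nat_lit 5674681098) (nat_lit 1292) (nat_lit 9566321581) (nat_lit 230) (nat_lit 5) (nat_lit 246) (nat_lit 5) (nat_lit 247) (nat_lit 5) (nat_lit 372) (nat_lit 357) (nat_lit 171)))) (XT.nd (nat_lit 156) (nat_lit 1140) (nat_lit 0) (XT.nd (nat_lit 78) (nat_lit 0) (nat_lit 76) (XT.lf (nat_lit 76) (nat_lit 8516836350) (nat_lit 0) (nat_lit 6176491139) (nat_lit 1292) (nat_lit 13516340573) (nat_lit 231) (nat_lit 5) (nat_lit 230) (nat_lit 5) (nat_lit 247) (nat_lit 5) (nat_lit 373) (nat_lit 357) (nat_lit 170)) (XT.lf (nat_lit 0) (nat_lit 17046111157) (nat_lit 1216) (nat_lit 5482997307) (nat_lit 76) (nat_lit 6139448861) (nat_lit 231) (nat_lit 5) (nat_lit 247) (nat_lit 5) (nat_lit 232) (nat_lit 5) (nat_lit 374) (nat_lit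 357) (nat_lit 169))) (XT.nd (nat_lit 78) (nat_lit 0) (nat_lit 0) (XT.lf (nat_lit 0) (nat_lit 9269977792) (nat_lit 1216) (nat_lit 10346445967) (nat_lit 1292) (nat_lit 9520383180) (nat_lit 215) (nat_lit 5) (nat_lit 231) (nat_lit 5) (nat_lit 232) (nat_lit 5) (nat_lit 375) (nat_lit 357) (nat_lit 168)) (XT.lf (nat_lit 0) (nat_lit 22337681630) (nat_lit 1292) (nat_lit 5064183413) (nat_lit 76) (nat_lit 2215025898) (nat_lit 215) (nat_lit 5) (nat_lit 232) (nat_lit 5) (nat_lit 216) (nat_lit 5) (nat_lit 376) (nat_lit 357) (nat_lit 167))))) (XT.nd (nat_lit 234) (nat_lit 1140) (nat_lit 0) (XT.nd (nat_lit 78) (nat_lit 608) (nat_lit 0) (XT.lf (nat_lit 0) (nat_lit 10277778139) (nat_lit 608) (nat_lit 15060886051) (nat_lit 684) (nat_lit 4766772581) (nat_lit 207) (nat_lit 5) (nat_lit 215) (nat_lit 5) (nat_lit 216) (nat_lit 5) (nat_lit 377) (nat_lit 357) (nat_lit 166)) (XT.nd (nat_lit 78) (nat_lit 608) (nat_lit 0) (XT.lf (nat_lit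 0) (nat_lit 26180957604) (nat_lit 608) (nat_lit 2296771869) (nat_lit 684) (nat_lit 2129469772) (nat_lit 207) (nat_lit 5) (nat_lit 215) (nat_lit 5) (nat_lit 216) (nat_lit 5) (nat_lit 378) (nat_lit 357) (nat_lit 165)) (XT.lf (nat_lit 0) (nat_lit 789984951) (nat_lit 608) (nat_lit 19569843506) (nat_lit 76) (nat_lit 10757584034) (nat_lit 199) (nat_lit 5) (nat_lit 207) (nat_lit 5) (nat_lit 200) (nat_lit 5) (nat_lit 379) (nat_lit 357) (nat_lit 164)))) (XT.nd (nat_lit 156) (nat_lit 532) (nat_lit 0) (XT.nd (nat_lit 78) (nat_lit 608) (nat_lit 0) (XT.lf (nat_lit 0) (nat_lit 3819138421) (nat_lit 608) (nat_lit 3597425553) (nat_lit 76) (nat_lit 24223789890) (nat_lit 199) (nat_lit 5) (nat_lit 207) (nat_lit 5) (nat_lit 200) (nat_lit 5) (nat_lit 380) (nat_lit 357) (nat_lit 163)) (XT.lf (nat_lit 0) (nat_lit 7120389299) (nat_lit 684) (nat_lit 19126277068) (nat_lit 76) (nat_lit 5926882080) (nat_lit 191) (nat_lit 5) (nat_lit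 200) (nat_lit 5) (nat_lit 192) (nat_lit 5) (nat_lit 381) (nat_lit 357) (nat_lit 162))) (XT.nd (nat_lit 78) (nat_lit 532) (nat_lit 0) (XT.lf (nat_lit 0) (nat_lit 10627975513) (nat_lit 684) (nat_lit 2533256981) (nat_lit 76) (nat_lit 19558289048) (nat_lit 191) (nat_lit 5) (nat_lit 200) (nat_lit 5) (nat_lit 192) (nat_lit 5) (nat_lit 382) (nat_lit 357) (nat_lit 161)) (XT.lf (nat_lit 0) (nat_lit 14385202396) (nat_lit 608) (nat_lit 18437698128) (nat_lit 76) (nat_lit 454642473) (nat_lit 184) (nat_lit 5) (nat_lit 192) (nat_lit 5) (nat_lit 185) (nat_lit 5) (nat_lit 383) (nat_lit 357) (nat_lit 160))))))) (XT.nd (nat_lit 1014) (nat_lit 2508) (nat_lit 0) (XT.nd (nat_lit 468) (nat_lit 1824) (nat_lit 0) (XT.nd (nat_lit 234) (nat_lit 532) (nat_lit 0) (XT.nd (nat_lit 78) (nat_lit 988) (nat_lit 0) (XT.lf (nat_lit 0) (nat_lit 18408604042) (nat_lit 608) (nat_lit 1198871396) (nat_lit 76) (nat_lit 14240227433) (nat_lit 184)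 (nat_lit 5) (nat_lit 192) (nat_lit 5) (nat_lit 185) (nat_lit 5) (nat_lit 384) (nat_lit 357) (nat_lit 159)) (XT.nd (nat_lit 78) (nat_lit 456) (nat_lit 0) (XT.lf (nat_lit 0) (nat_lit 16883826859) (nat_lit 532) (nat_lit 5828571288) (nat_lit 608) (nat_lit 11717780153) (nat_lit 177) (nat_lit 5) (nat_lit 184) (nat_lit 5) (nat_lit 185) (nat_lit 5) (nat_lit 385) (nat_lit 357) (nat_lit 158)) (XT.lf (nat_lit 0) (nat_lit 428861706) (nat_lit 456) (nat_lit 26810630731) (nat_lit 532) (nat_lit 7787811391) (nat_lit 171) (nat_lit 5) (nat_lit 177) (nat_lit 5) (nat_lit 178) (nat_lit 5) (nat_lit 386) (nat_lit 357) (nat_lit 157)))) (XT.nd (nat_lit 78) (nat_lit 532) (nat_lit 0) (XT.lf (nat_lit 0) (nat_lit 19241377619) (nat_lit 456) (nat_lit 12892837128) (nat_lit 532) (nat_lit 3501175306) (nat_lit 171) (nat_lit 5) (nat_lit 177) (nat_lit 5) (nat_lit 178) (nat_lit 5) (nat_lit 387) (nat_lit 357) (nat_lit 156)) (XT.nd (nat_lit 78)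 (nat_lit 0) (nat_lit 0) (XT.lf (nat_lit 0) (nat_lit 930927858) (nat_lit 532) (nat_lit 33883333598) (nat_lit 76) (nat_lit 1446153981) (nat_lit 164) (nat_lit 5) (nat_lit 171) (nat_lit 5) (nat_lit 165) (nat_lit 5) (nat_lit 388) (nat_lit 357) (nat_lit 155)) (XT.lf (nat_lit 0) (nat_lit 5718041228) (nat_lit 532) (nat_lit 15018603892) (nat_lit 76) (nat_lit 16157735261) (nat_lit 164) (nat_lit 5) (nat_lit 171) (nat_lit 5) (nat_lit 165) (nat_lit 5) (nat_lit 389) (nat_lit 357) (nat_lit 154))))) (XT.nd (nat_lit 234) (nat_lit 912) (nat_lit 0) (XT.nd (nat_lit 78) (nat_lit 456) (nat_lit 0) (XT.lf (nat_lit 0) (nat_lit 4497111067) (nat_lit 456) (nat_lit 6192535381) (nat_lit 532) (nat_lit 26856492703) (nat_lit 158) (nat_lit 5) (nat_lit 164) (nat_lit 5) (nat_lit 165) (nat_lit 5) (nat_lit 390) (nat_lit 357) (nat_lit 153)) (XT.nd (nat_lit 78) (nat_lit 456) (nat_lit 0) (XT.lf (nat_lit 0) (nat_lit 16045722989) (nat_lit 532) (nat_lit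 13395464714) (nat_lit 76) (nat_lit 8769204482) (nat_lit 158) (nat_lit 5) (nat_lit 165) (nat_lit 5) (nat_lit 159) (nat_lit 5) (nat_lit 391) (nat_lit 357) (nat_lit 152)) (XT.lf (nat_lit 0) (nat_lit 6918731139) (nat_lit 456) (nat_lit 14769325815) (nat_lit 532) (nat_lit 17202749762) (nat_lit 152) (nat_lit 5) (nat_lit 158) (nat_lit 5) (nat_lit 159) (nat_lit 5) (nat_lit 392) (nat_lit 357) (nat_lit 151)))) (XT.nd (nat_lit 156) (nat_lit 532) (nat_lit 0) (XT.nd (nat_lit 78) (nat_lit 380) (nat_lit 0) (XT.lf (nat_lit 0) (nat_lit 27637353835) (nat_lit 532) (nat_lit 11477970708) (nat_lit 76) (nat_lit 472179482) (nat_lit 152) (nat_lit 5) (nat_lit 159) (nat_lit 5) (nat_lit 153) (nat_lit 5) (nat_lit 393) (nat_lit 357) (nat_lit 150)) (XT.lf (nat_lit 0) (nat_lit 9670809190) (nat_lit 380) (nat_lit 24331368954) (nat_lit 456) (nat_lit 6295813745) (nat_lit 147) (nat_lit 5) (nat_lit 152) (nat_lit 5) (nat_lit 153) (nat_lit 5)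 (nat_lit 394) (nat_lit 357) (nat_lit 149))) (XT.nd (nat_lit 78) (nat_lit 532) (nat_lit 0) (XT.lf (nat_lit 0) (nat_lit 31686735924) (nat_lit 380) (nat_lit 8985009523) (nat_lit 456) (nat_lit 354636058) (nat_lit 147) (nat_lit 5) (nat_lit 152) (nat_lit 5) (nat_lit 153) (nat_lit 5) (nat_lit 395) (nat_lit 357) (nat_lit 148)) (XT.lf (nat_lit 0) (nat_lit 5840382205) (nat_lit 532) (nat_lit 29060797746) (nat_lit 76) (nat_lit 6868138518) (nat_lit 140) (nat_lit 5) (nat_lit 147) (nat_lit 5) (nat_lit 141) (nat_lit 5) (nat_lit 396) (nat_lit 357) (nat_lit 147)))))) (XT.nd (nat_lit 546) (nat_lit 988) (nat_lit 0) (XT.nd (nat_lit 234) (nat_lit 1140) (nat_lit 0) (XT.nd (nat_lit 78) (nat_lit 380) (nat_lit 0) (XT.lf (nat_lit 0) (nat_lit 12396293719) (nat_lit 532) (nat_lit 7018135872) (nat_lit 76) (nat_lit 23114544470) (nat_lit 140) (nat_lit 5) (nat_lit 147) (nat_lit 5) (nat_lit 141) (nat_lit 5) (nat_lit 397) (nat_lit 357) (nat_lit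 146)) (XT.nd (nat_lit 78) (nat_lit 0) (nat_lit 0) (XT.lf (nat_lit 0) (nat_lit 15995407890) (nat_lit 380) (nat_lit 3305255784) (nat_lit 456) (nat_lit 24006203157) (nat_lit 135) (nat_lit 5) (nat_lit 140) (nat_lit 5) (nat_lit 141) (nat_lit 5) (nat_lit 398) (nat_lit 357) (nat_lit 145)) (XT.lf (nat_lit 0) (nat_lit 26609512058) (nat_lit 456) (nat_lit 4393728804) (nat_lit 76) (nat_lit 13098936019) (nat_lit 135) (nat_lit 5) (nat_lit 141) (nat_lit 5) (nat_lit 136) (nat_lit 5) (nat_lit 399) (nat_lit 357) (nat_lit 144)))) (XT.nd (nat_lit 156) (nat_lit 760) (nat_lit 0) (XT.nd (nat_lit 78) (nat_lit 0) (nat_lit 0) (XT.lf (nat_lit 0) (nat_lit 19557973800) (nat_lit 380) (nat_lit 14798488966) (nat_lit 456) (nat_lit 10558319251) (nat_lit 130) (nat_lit 5) (nat_lit 135) (nat_lit 5) (nat_lit 136) (nat_lit 5) (nat_lit 400) (nat_lit 357) (nat_lit 143)) (XT.lf (nat_lit 0) (nat_lit 42396954403) (nat_lit 456) (nat_lit 1453277158)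 (nat_lit 76) (nat_lit 1899700637) (nat_lit 130) (nat_lit 5) (nat_lit 136) (nat_lit 5) (nat_lit 131) (nat_lit 5) (nat_lit 401) (nat_lit 357) (nat_lit 142))) (XT.nd (nat_lit 78) (nat_lit 380) (nat_lit 0) (XT.lf (nat_lit 0) (nat_lit 4363177441) (nat_lit 380) (nat_lit 23165285293) (nat_lit 76) (nat_lit 19069280337) (nat_lit 125) (nat_lit 5) (nat_lit 130) (nat_lit 5) (nat_lit 126) (nat_lit 5) (nat_lit 402) (nat_lit 357) (nat_lit 141)) (XT.lf (nat_lit 0) (nat_lit 1619826055) (nat_lit 380) (nat_lit 10652190666) (nat_lit 456) (nat_lit 35197118678) (nat_lit 120) (nat_lit 5) (nat_lit 125) (nat_lit 5) (nat_lit 126) (nat_lit 5) (nat_lit 403) (nat_lit 357) (nat_lit 140))))) (XT.nd (nat_lit 234) (nat_lit 684) (nat_lit 0) (XT.nd (nat_lit 78) (nat_lit 304) (nat_lit 0) (XT.lf (nat_lit 0) (nat_lit 20717280143) (nat_lit 456) (nat_lit 20805778546) (nat_lit 76) (nat_lit 6834636806) (nat_lit 120) (nat_lit 5) (nat_lit 126) (nat_lit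 5) (nat_lit 121) (nat_lit 5) (nat_lit 404) (nat_lit 357) (nat_lit 139)) (XT.nd (nat_lit 78) (nat_lit 0) (nat_lit 0) (XT.lf (nat_lit 0) (nat_lit 4978337556) (nat_lit 304) (nat_lit 24589160237) (nat_lit 380) (nat_lit 19700867458) (nat_lit 116) (nat_lit 5) (nat_lit 120) (nat_lit 5) (nat_lit 121) (nat_lit 5) (nat_lit 405) (nat_lit 357) (nat_lit 138)) (XT.lf (nat_lit 0) (nat_lit 31960100039) (nat_lit 304) (nat_lit 6931521199) (nat_lit 380) (nat_lit 11308482605) (nat_lit 116) (nat_lit 5) (nat_lit 120) (nat_lit 5) (nat_lit 121) (nat_lit 5) (nat_lit 406) (nat_lit 357) (nat_lit 137)))) (XT.nd (nat_lit 156) (nat_lit 304) (nat_lit 0) (XT.nd (nat_lit 78) (nat_lit 76) (nat_lit 0) (XT.lf (nat_lit 0) (nat_lit 8649760869) (nat_lit 304) (nat_lit 40035397246) (nat_lit 380) (nat_lit 2468946489) (nat_lit 112) (nat_lit 5) (nat_lit 116) (nat_lit 5) (nat_lit 117) (nat_lit 5) (nat_lit 407) (nat_lit 357) (nat_lit 136)) (XT.lf (nat_lit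 0) (nat_lit 6759282554) (nat_lit 380) (nat_lit 15547678987) (nat_lit 76) (nat_lit 29820261053) (nat_lit 111) (nat_lit 5) (nat_lit 116) (nat_lit 5) (nat_lit 112) (nat_lit 5) (nat_lit 408) (nat_lit 357) (nat_lit 135))) (XT.nd (nat_lit 78) (nat_lit 0) (nat_lit 0) (XT.lf (nat_lit 0) (nat_lit 12433573005) (nat_lit 304) (nat_lit 3899083028) (nat_lit 380) (nat_lit 36792607755) (nat_lit 107) (nat_lit 5) (nat_lit 111) (nat_lit 5) (nat_lit 112) (nat_lit 5) (nat_lit 409) (nat_lit 357) (nat_lit 134)) (XT.lf (nat_lit 0) (nat_lit 26494981991) (nat_lit 380) (nat_lit 12724201920) (nat_lit 76) (nat_lit 14925010391) (nat_lit 107) (nat_lit 5) (nat_lit 112) (nat_lit 5) (nat_lit 108) (nat_lit 5) (nat_lit 410) (nat_lit 357) (nat_lit 133))))))))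
noncomputable def xc224 : XT := (XT.nd (nat_lit 43368) (nat_lit 0) (nat_lit 6536) (XT.nd (nat_lit 1014) (nat_lit 684) (nat_lit 0) (XT.nd (nat_lit 468) (nat_lit 1064) (nat_lit 0) (XT.nd (nat_lit 234) (nat_lit 304) (nat_lit 0) (XT.nd (nat_lit 78) (nat_lit 304) (nat_lit 0) (XT.lf (nat_lit 0) (nat_lit 16360720546) (nat_lit 304) (nat_lit 20795797125) (nat_lit 380) (nat_lit 18031345470) (nat_lit 103) (nat_lit 5) (nat_lit 107) (nat_lit 5) (nat_lit 108) (nat_lit 5) (nat_lit 411) (nat_lit 357) (nat_lit 132)) (XT.nd (nat_lit 78) (nat_lit 304) (nat_lit 0) (XT.lf (nat_lit 0) (nat_lit 46576803474) (nat_lit 304) (nat_lit 1688074678) (nat_lit 380) (nat_lit 7994155117) (nat_lit 103) (nat_lit 5) (nat_lit 107) (nat_lit 5) (nat_lit 108) (nat_lit 5) (nat_lit 412) (nat_lit 357) (nat_lit 131)) (XT.lf (nat_lit 0) (nat_lit 2671213162) (nat_lit 304) (nat_lit 36814314336) (nat_lit 76) (nat_lit 17864951406) (nat_lit 99) (nat_lit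 5) (nat_lit 103) (nat_lit 5) (nat_lit 100) (nat_lit 5) (nat_lit 413) (nat_lit 357) (nat_lit 130)))) (XT.nd (nat_lit 78) (nat_lit 304) (nat_lit 0) (XT.lf (nat_lit 0) (nat_lit 13609854802) (nat_lit 304) (nat_lit 6711181821) (nat_lit 76) (nat_lit 38147837713) (nat_lit 99) (nat_lit 5) (nat_lit 103) (nat_lit 5) (nat_lit 100) (nat_lit 5) (nat_lit 414) (nat_lit 357) (nat_lit 129)) (XT.nd (nat_lit 78) (nat_lit 0) (nat_lit 0) (XT.lf (nat_lit 0) (nat_lit 24776382941) (nat_lit 304) (nat_lit 337014939) (nat_lit 380) (nat_lit 34500322008) (nat_lit 95) (nat_lit 5) (nat_lit 99) (nat_lit 5) (nat_lit 100) (nat_lit 5) (nat_lit 415) (nat_lit 357) (nat_lit 128)) (XT.lf (nat_lit 0) (nat_lit 37223700702) (nat_lit 380) (nat_lit 3642176363) (nat_lit 76) (nat_lit 19919184646) (nat_lit 95) (nat_lit 5) (nat_lit 100) (nat_lit 5) (nat_lit 96) (nat_lit 5) (nat_lit 416) (nat_lit 357) (nat_lit 127))))) (XT.nd (nat_lit 234) (nat_lit 456)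 (nat_lit 0) (XT.nd (nat_lit 78) (nat_lit 380) (nat_lit 0) (XT.lf (nat_lit 0) (nat_lit 29050287766) (nat_lit 228) (nat_lit 20928242488) (nat_lit 304) (nat_lit 12004577497) (nat_lit 92) (nat_lit 5) (nat_lit 95) (nat_lit 5) (nat_lit 96) (nat_lit 5) (nat_lit 417) (nat_lit 357) (nat_lit 126)) (XT.nd (nat_lit 78) (nat_lit 380) (nat_lit 0) (XT.lf (nat_lit 0) (nat_lit 62796117117) (nat_lit 228) (nat_lit 355318100) (nat_lit 304) (nat_lit 64597518) (nat_lit 92) (nat_lit 5) (nat_lit 95) (nat_lit 5) (nat_lit 96) (nat_lit 5) (nat_lit 418) (nat_lit 357) (nat_lit 125)) (XT.lf (nat_lit 0) (nat_lit 12521197580) (nat_lit 380) (nat_lit 31072911858) (nat_lit 76) (nat_lit 20872518472) (nat_lit 87) (nat_lit 5) (nat_lit 92) (nat_lit 5) (nat_lit 88) (nat_lit 5) (nat_lit 419) (nat_lit 357) (nat_lit 124)))) (XT.nd (nat_lit 156) (nat_lit 228) (nat_lit 0) (XT.nd (nat_lit 78) (nat_lit 0) (nat_lit 0) (XT.lf (nat_lit 0) (nat_lit 2518650219)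 (nat_lit 228) (nat_lit 22995318903) (nat_lit 304) (nat_lit 40239832040) (nat_lit 84) (nat_lit 5) (nat_lit 87) (nat_lit 5) (nat_lit 88) (nat_lit 5) (nat_lit 420) (nat_lit 357) (nat_lit 123)) (XT.lf (nat_lit 0) (nat_lit 37752894522) (nat_lit 228) (nat_lit 1456113253) (nat_lit 304) (nat_lit 27861207743) (nat_lit 84) (nat_lit 5) (nat_lit 87) (nat_lit 5) (nat_lit 88) (nat_lit 5) (nat_lit 421) (nat_lit 357) (nat_lit 122))) (XT.nd (nat_lit 78) (nat_lit 0) (nat_lit 0) (XT.lf (nat_lit 0) (nat_lit 5524585068) (nat_lit 228) (nat_lit 48041419838) (nat_lit 304) (nat_lit 14852584593) (nat_lit 81) (nat_lit 5) (nat_lit 84) (nat_lit 5) (nat_lit 85) (nat_lit 5) (nat_lit 422) (nat_lit 357) (nat_lit 121)) (XT.lf (nat_lit 0) (nat_lit 41996039459) (nat_lit 228) (nat_lit 26666752460) (nat_lit 304) (nat_lit 1135350779) (nat_lit 81) (nat_lit 5) (nat_lit 84) (nat_lit 5) (nat_lit 85) (nat_lit 5) (nat_lit 423) (nat_lit 357) (nat_lit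 120)))))) (XT.nd (nat_lit 41808) (nat_lit 0) (nat_lit 11704) (XT.nd (nat_lit 234) (nat_lit 152) (nat_lit 0) (XT.nd (nat_lit 78) (nat_lit 228) (nat_lit 0) (XT.lf (nat_lit 0) (nat_lit 8379214899) (nat_lit 228) (nat_lit 4439964021) (nat_lit 304) (nat_lit 58393777130) (nat_lit 77) (nat_lit 5) (nat_lit 80) (nat_lit 5) (nat_lit 81) (nat_lit 5) (nat_lit 424) (nat_lit 357) (nat_lit 119)) (XT.nd (nat_lit 78) (nat_lit 228) (nat_lit 0) (XT.lf (nat_lit 0) (nat_lit 27629229797) (nat_lit 304) (nat_lit 26639269875) (nat_lit 76) (nat_lit 18387586123) (nat_lit 77) (nat_lit 5) (nat_lit 81) (nat_lit 5) (nat_lit 78) (nat_lit 5) (nat_lit 425) (nat_lit 357) (nat_lit 118)) (XT.lf (nat_lit 0) (nat_lit 10806038696) (nat_lit 228) (nat_lit 32224203768) (nat_lit 304) (nat_lit 31107867516) (nat_lit 74) (nat_lit 5) (nat_lit 77) (nat_lit 5) (nat_lit 78) (nat_lit 5) (nat_lit 426) (nat_lit 357) (nat_lit 117)))) (XT.nd (nat_lit 78) (nat_lit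 152) (nat_lit 0) (XT.lf (nat_lit 0) (nat_lit 49918902542) (nat_lit 228) (nat_lit 9242229426) (nat_lit 304) (nat_lit 16495427874) (nat_lit 74) (nat_lit 5) (nat_lit 77) (nat_lit 5) (nat_lit 78) (nat_lit 5) (nat_lit 427) (nat_lit 357) (nat_lit 116)) (XT.nd (nat_lit 41418) (nat_lit 0) (nat_lit 12768) (XT.lf (nat_lit 0) (nat_lit 13099652822) (nat_lit 152) (nat_lit 62939788574) (nat_lit 228) (nat_lit 1173217341) (nat_lit 72) (nat_lit 5) (nat_lit 74) (nat_lit 5) (nat_lit 75) (nat_lit 5) (nat_lit 428) (nat_lit 357) (nat_lit 115)) (XT.lf (nat_lit 0) (nat_lit 5153429937) (nat_lit 0) (nat_lit 5153429937) (nat_lit 1140) (nat_lit 1053742941) (nat_lit 240) (nat_lit 5) (nat_lit 240) (nat_lit 3) (nat_lit 255) (nat_lit 3) (nat_lit 358) (nat_lit 358) (nat_lit 184))))) (XT.nd (nat_lit 234) (nat_lit 1064) (nat_lit 0) (XT.nd (nat_lit 78) (nat_lit 0) (nat_lit 0) (XT.lf (nat_lit 0) (nat_lit 21050007909) (nat_lit 1140) (nat_lit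 1661079617) (nat_lit 1216) (nat_lit 347042466) (nat_lit 240) (nat_lit 5) (nat_lit 255) (nat_lit 3) (nat_lit 256) (nat_lit 5) (nat_lit 359) (nat_lit 358) (nat_lit 183)) (XT.nd (nat_lit 78) (nat_lit 0) (nat_lit 0) (XT.lf (nat_lit 76) (nat_lit 9495442047) (nat_lit 0) (nat_lit 12192463095) (nat_lit 1216) (nat_lit 1711604498) (nat_lit 241) (nat_lit 5) (nat_lit 240) (nat_lit 5) (nat_lit 256) (nat_lit 5) (nat_lit 360) (nat_lit 358) (nat_lit 182)) (XT.lf (nat_lit 76) (nat_lit 21018150585) (nat_lit 0) (nat_lit 1338873982) (nat_lit 1216) (nat_lit 1393746632) (nat_lit 241) (nat_lit 5) (nat_lit 240) (nat_lit 5) (nat_lit 256) (nat_lit 5) (nat_lit 361) (nat_lit 358) (nat_lit 181)))) (XT.nd (nat_lit 156) (nat_lit 1140) (nat_lit 0) (XT.nd (nat_lit 78) (nat_lit 0) (nat_lit 0) (XT.lf (nat_lit 76) (nat_lit 8849418449) (nat_lit 0) (nat_lit 14371924403) (nat_lit 1216) (nat_lit 885976982) (nat_lit 242) (nat_lit 5) (nat_lit 241)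 (nat_lit 5) (nat_lit 257) (nat_lit 5) (nat_lit 362) (nat_lit 358) (nat_lit 180)) (XT.lf (nat_lit 76) (nat_lit 20818796498) (nat_lit 0) (nat_lit 3329089397) (nat_lit 1216) (nat_lit 325593080) (nat_lit 242) (nat_lit 5) (nat_lit 241) (nat_lit 5) (nat_lit 257) (nat_lit 5) (nat_lit 363) (nat_lit 358) (nat_lit 179))) (XT.nd (nat_lit 78) (nat_lit 0) (nat_lit 0) (XT.lf (nat_lit 0) (nat_lit 401820168) (nat_lit 1216) (nat_lit 16469821510) (nat_lit 1292) (nat_lit 7974257564) (nat_lit 226) (nat_lit 5) (nat_lit 242) (nat_lit 5) (nat_lit 243) (nat_lit 5) (nat_lit 364) (nat_lit 358) (nat_lit 178)) (XT.lf (nat_lit 0) (nat_lit 1210519115) (nat_lit 1216) (nat_lit 4425008069) (nat_lit 1292) (nat_lit 19591890659) (nat_lit 226) (nat_lit 5) (nat_lit 242) (nat_lit 5) (nat_lit 243) (nat_lit 5) (nat_lit 365) (nat_lit 358) (nat_lit 177))))))) (XT.nd (nat_lit 1014) (nat_lit 3724) (nat_lit 0) (XT.nd (nat_lit 468) (nat_lit 1520) (nat_lit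 0) (XT.nd (nat_lit 234) (nat_lit 0) (nat_lit 76) (XT.nd (nat_lit 78) (nat_lit 0) (nat_lit 0) (XT.lf (nat_lit 0) (nat_lit 2175462781) (nat_lit 1216) (nat_lit 17538759357) (nat_lit 1292) (nat_lit 5902202928) (nat_lit 227) (nat_lit 5) (nat_lit 243) (nat_lit 5) (nat_lit 244) (nat_lit 5) (nat_lit 366) (nat_lit 358) (nat_lit 176)) (XT.nd (nat_lit 78) (nat_lit 0) (nat_lit 76) (XT.lf (nat_lit 0) (nat_lit 3266284145) (nat_lit 1216) (nat_lit 5028654079) (nat_lit 1292) (nat_lit 17719258904) (nat_lit 227) (nat_lit 5) (nat_lit 243) (nat_lit 5) (nat_lit 244) (nat_lit 5) (nat_lit 367) (nat_lit 358) (nat_lit 175)) (XT.lf (nat_lit 0) (nat_lit 4497052702) (nat_lit 1216) (nat_lit 18445444980) (nat_lit 1292) (nat_lit 3478190423) (nat_lit 228) (nat_lit 5) (nat_lit 244) (nat_lit 5) (nat_lit 245) (nat_lit 5) (nat_lit 368) (nat_lit 358) (nat_lit 174)))) (XT.nd (nat_lit 78) (nat_lit 0) (nat_lit 76) (XT.lf (nat_lit 0) (nat_lit 5894374834)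 (nat_lit 1216) (nat_lit 5450941350) (nat_lit 1292) (nat_lit 15490171072) (nat_lit 228) (nat_lit 5) (nat_lit 244) (nat_lit 5) (nat_lit 245) (nat_lit 5) (nat_lit 369) (nat_lit 358) (nat_lit 173)) (XT.nd (nat_lit 78) (nat_lit 0) (nat_lit 0) (XT.lf (nat_lit 0) (nat_lit 7414243012) (nat_lit 1216) (nat_lit 19178539419) (nat_lit 1292) (nat_lit 667531451) (nat_lit 229) (nat_lit 5) (nat_lit 245) (nat_lit 5) (nat_lit 246) (nat_lit 5) (nat_lit 370) (nat_lit 358) (nat_lit 172)) (XT.lf (nat_lit 0) (nat_lit 9144045743) (nat_lit 1216) (nat_lit 5679708233) (nat_lit 1292) (nat_lit 12869203398) (nat_lit 229) (nat_lit 5) (nat_lit 245) (nat_lit 5) (nat_lit 246) (nat_lit 5) (nat_lit 371) (nat_lit 358) (nat_lit 171))))) (XT.nd (nat_lit 234) (nat_lit 1672) (nat_lit 0) (XT.nd (nat_lit 78) (nat_lit 0) (nat_lit 76) (XT.lf (nat_lit 76) (nat_lit 8384980816) (nat_lit 0) (nat_lit 2617887418) (nat_lit 1292) (nat_lit 17133400326) (nat_lit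 230) (nat_lit 5) (nat_lit 229) (nat_lit 5) (nat_lit 246) (nat_lit 5) (nat_lit 372) (nat_lit 358) (nat_lit 170)) (XT.nd (nat_lit 78) (nat_lit 0) (nat_lit 0) (XT.lf (nat_lit 0) (nat_lit 13067668712) (nat_lit 1216) (nat_lit 5702185102) (nat_lit 1292) (nat_lit 9818520965) (nat_lit 230) (nat_lit 5) (nat_lit 246) (nat_lit 5) (nat_lit 247) (nat_lit 5) (nat_lit 373) (nat_lit 358) (nat_lit 169)) (XT.lf (nat_lit 76) (nat_lit 8913678492) (nat_lit 0) (nat_lit 6389043076) (nat_lit 1292) (nat_lit 13748075402) (nat_lit 231) (nat_lit 5) (nat_lit 230) (nat_lit 5) (nat_lit 247) (nat_lit 5) (nat_lit 374) (nat_lit 358) (nat_lit 168)))) (XT.nd (nat_lit 156) (nat_lit 608) (nat_lit 0) (XT.nd (nat_lit 78) (nat_lit 1216) (nat_lit 0) (XT.lf (nat_lit 0) (nat_lit 17720923853) (nat_lit 1216) (nat_lit 5505001597) (nat_lit 76) (nat_lit 6297685417) (nat_lit 231) (nat_lit 5) (nat_lit 247) (nat_lit 5) (nat_lit 232) (nat_lit 5) (nat_lit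 375) (nat_lit 358) (nat_lit 167)) (XT.lf (nat_lit 0) (nat_lit 9689165837) (nat_lit 1216) (nat_lit 10675776149) (nat_lit 1292) (nat_lit 9641071020) (nat_lit 215) (nat_lit 5) (nat_lit 231) (nat_lit 5) (nat_lit 232) (nat_lit 5) (nat_lit 376) (nat_lit 358) (nat_lit 166))) (XT.nd (nat_lit 78) (nat_lit 608) (nat_lit 0) (XT.lf (nat_lit 0) (nat_lit 23162999925) (nat_lit 1292) (nat_lit 5074197377) (nat_lit 76) (nat_lit 2263450192) (nat_lit 215) (nat_lit 5) (nat_lit 232) (nat_lit 5) (nat_lit 216) (nat_lit 5) (nat_lit 377) (nat_lit 358) (nat_lit 165)) (XT.lf (nat_lit 0) (nat_lit 10726631732) (nat_lit 608) (nat_lit 15524210963) (nat_lit 684) (nat_lit 4753104837) (nat_lit 207) (nat_lit 5) (nat_lit 215) (nat_lit 5) (nat_lit 216) (nat_lit 5) (nat_lit 378) (nat_lit 358) (nat_lit 164)))))) (XT.nd (nat_lit 546) (nat_lit 1976) (nat_lit 0) (XT.nd (nat_lit 234) (nat_lit 1140) (nat_lit 0) (XT.nd (nat_lit 78) (nat_lit 608) (nat_lit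 0) (XT.lf (nat_lit 0) (nat_lit 27102813758) (nat_lit 608) (nat_lit 2376838452) (nat_lit 684) (nat_lit 2041246174) (nat_lit 207) (nat_lit 5) (nat_lit 215) (nat_lit 5) (nat_lit 216) (nat_lit 5) (nat_lit 379) (nat_lit 358) (nat_lit 163)) (XT.nd (nat_lit 78) (nat_lit 0) (nat_lit 0) (XT.lf (nat_lit 0) (nat_lit 959730810) (nat_lit 608) (nat_lit 20014279491) (nat_lit 76) (nat_lit 11072459178) (nat_lit 199) (nat_lit 5) (nat_lit 207) (nat_lit 5) (nat_lit 200) (nat_lit 5) (nat_lit 380) (nat_lit 358) (nat_lit 162)) (XT.lf (nat_lit 0) (nat_lit 4075505108) (nat_lit 608) (nat_lit 3566844125) (nat_lit 76) (nat_lit 24942879919) (nat_lit 199) (nat_lit 5) (nat_lit 207) (nat_lit 5) (nat_lit 200) (nat_lit 5) (nat_lit 381) (nat_lit 358) (nat_lit 161)))) (XT.nd (nat_lit 156) (nat_lit 532) (nat_lit 0) (XT.nd (nat_lit 78) (nat_lit 0) (nat_lit 0) (XT.lf (nat_lit 0) (nat_lit 7472964331) (nat_lit 684) (nat_lit 19558652829) (nat_lit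 76) (nat_lit 6102889664) (nat_lit 191) (nat_lit 5) (nat_lit 200) (nat_lit 5) (nat_lit 192) (nat_lit 5) (nat_lit 382) (nat_lit 358) (nat_lit 160)) (XT.lf (nat_lit 0) (nat_lit 11081730655) (nat_lit 684) (nat_lit 2471960952) (nat_lit 76) (nat_lit 20143291235) (nat_lit 191) (nat_lit 5) (nat_lit 200) (nat_lit 5) (nat_lit 192) (nat_lit 5) (nat_lit 383) (nat_lit 358) (nat_lit 159))) (XT.nd (nat_lit 78) (nat_lit 0) (nat_lit 0) (XT.lf (nat_lit 0) (nat_lit 14949086699) (nat_lit 608) (nat_lit 18850873058) (nat_lit 76) (nat_lit 471865053) (nat_lit 184) (nat_lit 5) (nat_lit 192) (nat_lit 5) (nat_lit 185) (nat_lit 5) (nat_lit 384) (nat_lit 358) (nat_lit 158)) (XT.lf (nat_lit 0) (nat_lit 19089336174) (nat_lit 608) (nat_lit 1098957912) (nat_lit 76) (nat_lit 14670913194) (nat_lit 184) (nat_lit 5) (nat_lit 192) (nat_lit 5) (nat_lit 185) (nat_lit 5) (nat_lit 385) (nat_lit 358) (nat_lit 157))))) (XT.nd (nat_lit 234) (nat_lit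 988) (nat_lit 0) (XT.nd (nat_lit 78) (nat_lit 456) (nat_lit 0) (XT.lf (nat_lit 0) (nat_lit 17524889137) (nat_lit 532) (nat_lit 5994906356) (nat_lit 608) (nat_lit 11939437048) (nat_lit 177) (nat_lit 5) (nat_lit 184) (nat_lit 5) (nat_lit 185) (nat_lit 5) (nat_lit 386) (nat_lit 358) (nat_lit 156)) (XT.nd (nat_lit 78) (nat_lit 0) (nat_lit 0) (XT.lf (nat_lit 0) (nat_lit 578688173) (nat_lit 456) (nat_lit 27601739880) (nat_lit 532) (nat_lit 7893914068) (nat_lit 171) (nat_lit 5) (nat_lit 177) (nat_lit 5) (nat_lit 178) (nat_lit 5) (nat_lit 387) (nat_lit 358) (nat_lit 155)) (XT.lf (nat_lit 0) (nat_lit 19951590419) (nat_lit 456) (nat_lit 13266797219) (nat_lit 532) (nat_lit 3482393415) (nat_lit 171) (nat_lit 5) (nat_lit 177) (nat_lit 5) (nat_lit 178) (nat_lit 5) (nat_lit 388) (nat_lit 358) (nat_lit 154)))) (XT.nd (nat_lit 156) (nat_lit 456) (nat_lit 0) (XT.nd (nat_lit 78) (nat_lit 0) (nat_lit 0) (XT.lf (nat_lit 0)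 (nat_lit 1078153953) (nat_lit 532) (nat_lit 34762216365) (nat_lit 76) (nat_lit 1504216134) (nat_lit 164) (nat_lit 5) (nat_lit 171) (nat_lit 5) (nat_lit 165) (nat_lit 5) (nat_lit 389) (nat_lit 358) (nat_lit 153)) (XT.lf (nat_lit 0) (nat_lit 6005406017) (nat_lit 532) (nat_lit 15335553037) (nat_lit 76) (nat_lit 16656717351) (nat_lit 164) (nat_lit 5) (nat_lit 171) (nat_lit 5) (nat_lit 165) (nat_lit 5) (nat_lit 390) (nat_lit 358) (nat_lit 152))) (XT.nd (nat_lit 78) (nat_lit 0) (nat_lit 0) (XT.lf (nat_lit 0) (nat_lit 4764323479) (nat_lit 456) (nat_lit 6359734152) (nat_lit 532) (nat_lit 27544995127) (nat_lit 158) (nat_lit 5) (nat_lit 164) (nat_lit 5) (nat_lit 165) (nat_lit 5) (nat_lit 391) (nat_lit 358) (nat_lit 151)) (XT.lf (nat_lit 0) (nat_lit 16637677558) (nat_lit 532) (nat_lit 13665686839) (nat_lit 76) (nat_lit 9049964869) (nat_lit 158) (nat_lit 5) (nat_lit 165) (nat_lit 5) (nat_lit 159) (nat_lit 5) (nat_lit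 392) (nat_lit 358) (nat_lit 150))))))))
noncomputable def xc225 : XT := (XT.nd (nat_lit 2028) (nat_lit 1368) (nat_lit 0) (XT.nd (nat_lit 1014) (nat_lit 2128) (nat_lit 0) (XT.nd (nat_lit 468) (nat_lit 1520) (nat_lit 0) (XT.nd (nat_lit 234) (nat_lit 532) (nat_lit 0) (XT.nd (nat_lit 78) (nat_lit 380) (nat_lit 0) (XT.lf (nat_lit 0) (nat_lit 7256644284) (nat_lit 456) (nat_lit 15190669413) (nat_lit 532) (nat_lit 17606903237) (nat_lit 152) (nat_lit 5) (nat_lit 158) (nat_lit 5) (nat_lit 159) (nat_lit 5) (nat_lit 393) (nat_lit 358) (nat_lit 149)) (XT.nd (nat_lit 78) (nat_lit 380) (nat_lit 0) (XT.lf (nat_lit 0) (nat_lit 28572128796) (nat_lit 532) (nat_lit 11692740652) (nat_lit 76) (nat_lit 507036152) (nat_lit 152) (nat_lit 5) (nat_lit 159) (nat_lit 5) (nat_lit 153) (nat_lit 5) (nat_lit 394) (nat_lit 358) (nat_lit 148)) (XT.lf (nat_lit 0) (nat_lit 10089232357) (nat_lit 380) (nat_lit 25036821454) (nat_lit 456) (nat_lit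 6377711181) (nat_lit 147) (nat_lit 5) (nat_lit 152) (nat_lit 5) (nat_lit 153) (nat_lit 5) (nat_lit 395) (nat_lit 358) (nat_lit 147)))) (XT.nd (nat_lit 78) (nat_lit 532) (nat_lit 0) (XT.lf (nat_lit 0) (nat_lit 32761900031) (nat_lit 380) (nat_lit 9230784499) (nat_lit 456) (nat_lit 261413998) (nat_lit 147) (nat_lit 5) (nat_lit 152) (nat_lit 5) (nat_lit 153) (nat_lit 5) (nat_lit 396) (nat_lit 358) (nat_lit 146)) (XT.nd (nat_lit 78) (nat_lit 0) (nat_lit 0) (XT.lf (nat_lit 0) (nat_lit 6115910863) (nat_lit 532) (nat_lit 29804418457) (nat_lit 76) (nat_lit 7099011286) (nat_lit 140) (nat_lit 5) (nat_lit 147) (nat_lit 5) (nat_lit 141) (nat_lit 5) (nat_lit 397) (nat_lit 358) (nat_lit 145)) (XT.lf (nat_lit 0) (nat_lit 12865577862) (nat_lit 532) (nat_lit 7104210801) (nat_lit 76) (nat_lit 23832086253) (nat_lit 140) (nat_lit 5) (nat_lit 147) (nat_lit 5) (nat_lit 141) (nat_lit 5) (nat_lit 398) (nat_lit 358) (nat_lit 144)))))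 (XT.nd (nat_lit 234) (nat_lit 760) (nat_lit 0) (XT.nd (nat_lit 78) (nat_lit 380) (nat_lit 0) (XT.lf (nat_lit 0) (nat_lit 16598518989) (nat_lit 380) (nat_lit 3376907913) (nat_lit 456) (nat_lit 24627728483) (nat_lit 135) (nat_lit 5) (nat_lit 140) (nat_lit 5) (nat_lit 141) (nat_lit 5) (nat_lit 399) (nat_lit 358) (nat_lit 143)) (XT.nd (nat_lit 78) (nat_lit 380) (nat_lit 0) (XT.lf (nat_lit 0) (nat_lit 27501008796) (nat_lit 456) (nat_lit 4403305801) (nat_lit 76) (nat_lit 13518087413) (nat_lit 135) (nat_lit 5) (nat_lit 141) (nat_lit 5) (nat_lit 136) (nat_lit 5) (nat_lit 400) (nat_lit 358) (nat_lit 142)) (XT.lf (nat_lit 0) (nat_lit 20265749501) (nat_lit 380) (nat_lit 15213067107) (nat_lit 456) (nat_lit 10780616510) (nat_lit 130) (nat_lit 5) (nat_lit 135) (nat_lit 5) (nat_lit 136) (nat_lit 5) (nat_lit 401) (nat_lit 358) (nat_lit 141)))) (XT.nd (nat_lit 156) (nat_lit 380) (nat_lit 0) (XT.nd (nat_lit 78) (nat_lit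 380) (nat_lit 0) (XT.lf (nat_lit 0) (nat_lit 43758127446) (nat_lit 456) (nat_lit 1376927452) (nat_lit 76) (nat_lit 1984656012) (nat_lit 130) (nat_lit 5) (nat_lit 136) (nat_lit 5) (nat_lit 131) (nat_lit 5) (nat_lit 402) (nat_lit 358) (nat_lit 140)) (XT.lf (nat_lit 0) (nat_lit 4582787654) (nat_lit 380) (nat_lit 23739667243) (nat_lit 76) (nat_lit 19670520070) (nat_lit 125) (nat_lit 5) (nat_lit 130) (nat_lit 5) (nat_lit 126) (nat_lit 5) (nat_lit 403) (nat_lit 358) (nat_lit 139))) (XT.nd (nat_lit 78) (nat_lit 0) (nat_lit 0) (XT.lf (nat_lit 0) (nat_lit 1787815322) (nat_lit 380) (nat_lit 10939640555) (nat_lit 456) (nat_lit 36163097410) (nat_lit 120) (nat_lit 5) (nat_lit 125) (nat_lit 5) (nat_lit 126) (nat_lit 5) (nat_lit 404) (nat_lit 358) (nat_lit 138)) (XT.lf (nat_lit 0) (nat_lit 21423834829) (nat_lit 456) (nat_lit 21311755842) (nat_lit 76) (nat_lit 7070247887) (nat_lit 120) (nat_lit 5) (nat_lit 126) (nat_lit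 5) (nat_lit 121) (nat_lit 5) (nat_lit 405) (nat_lit 358) (nat_lit 137)))))) (XT.nd (nat_lit 468) (nat_lit 1140) (nat_lit 0) (XT.nd (nat_lit 234) (nat_lit 380) (nat_lit 0) (XT.nd (nat_lit 78) (nat_lit 304) (nat_lit 0) (XT.lf (nat_lit 0) (nat_lit 5244724958) (nat_lit 304) (nat_lit 25293482300) (nat_lit 380) (nat_lit 20205662771) (nat_lit 116) (nat_lit 5) (nat_lit 120) (nat_lit 5) (nat_lit 121) (nat_lit 5) (nat_lit 406) (nat_lit 358) (nat_lit 136)) (XT.nd (nat_lit 78) (nat_lit 304) (nat_lit 0) (XT.lf (nat_lit 0) (nat_lit 33032531463) (nat_lit 304) (nat_lit 7107085530) (nat_lit 380) (nat_lit 11564017946) (nat_lit 116) (nat_lit 5) (nat_lit 120) (nat_lit 5) (nat_lit 121) (nat_lit 5) (nat_lit 407) (nat_lit 358) (nat_lit 135)) (XT.lf (nat_lit 0) (nat_lit 9023907680) (nat_lit 304) (nat_lit 41202090202) (nat_lit 380) (nat_lit 2460287712) (nat_lit 112) (nat_lit 5) (nat_lit 116) (nat_lit 5) (nat_lit 117) (nat_lit 5)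 (nat_lit 408) (nat_lit 358) (nat_lit 134)))) (XT.nd (nat_lit 78) (nat_lit 304) (nat_lit 0) (XT.lf (nat_lit 0) (nat_lit 7040811387) (nat_lit 380) (nat_lit 15901195852) (nat_lit 76) (nat_lit 30746637852) (nat_lit 111) (nat_lit 5) (nat_lit 116) (nat_lit 5) (nat_lit 112) (nat_lit 5) (nat_lit 409) (nat_lit 358) (nat_lit 133)) (XT.nd (nat_lit 78) (nat_lit 0) (nat_lit 0) (XT.lf (nat_lit 0) (nat_lit 12918386704) (nat_lit 304) (nat_lit 3981780419) (nat_lit 380) (nat_lit 37816497889) (nat_lit 107) (nat_lit 5) (nat_lit 111) (nat_lit 5) (nat_lit 112) (nat_lit 5) (nat_lit 410) (nat_lit 358) (nat_lit 132)) (XT.lf (nat_lit 0) (nat_lit 27365424540) (nat_lit 380) (nat_lit 12995409799) (nat_lit 76) (nat_lit 15405388149) (nat_lit 107) (nat_lit 5) (nat_lit 112) (nat_lit 5) (nat_lit 108) (nat_lit 5) (nat_lit 411) (nat_lit 358) (nat_lit 131))))) (XT.nd (nat_lit 234) (nat_lit 532) (nat_lit 0) (XT.nd (nat_lit 78) (nat_lit 304)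 (nat_lit 0) (XT.lf (nat_lit 0) (nat_lit 16960976830) (nat_lit 304) (nat_lit 21384679673) (nat_lit 380) (nat_lit 18495580251) (nat_lit 103) (nat_lit 5) (nat_lit 107) (nat_lit 5) (nat_lit 108) (nat_lit 5) (nat_lit 412) (nat_lit 358) (nat_lit 130)) (XT.nd (nat_lit 78) (nat_lit 304) (nat_lit 0) (XT.lf (nat_lit 0) (nat_lit 48080354829) (nat_lit 304) (nat_lit 1704744719) (nat_lit 380) (nat_lit 8159508331) (nat_lit 103) (nat_lit 5) (nat_lit 107) (nat_lit 5) (nat_lit 108) (nat_lit 5) (nat_lit 413) (nat_lit 358) (nat_lit 129)) (XT.lf (nat_lit 0) (nat_lit 2823600523) (nat_lit 304) (nat_lit 37810222201) (nat_lit 76) (nat_lit 18434976496) (nat_lit 99) (nat_lit 5) (nat_lit 103) (nat_lit 5) (nat_lit 100) (nat_lit 5) (nat_lit 414) (nat_lit 358) (nat_lit 128)))) (XT.nd (nat_lit 156) (nat_lit 228) (nat_lit 0) (XT.nd (nat_lit 78) (nat_lit 304) (nat_lit 0) (XT.lf (nat_lit 0) (nat_lit 14088297015) (nat_lit 304) (nat_lit 6807156533)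 (nat_lit 76) (nat_lit 39325356871) (nat_lit 99) (nat_lit 5) (nat_lit 103) (nat_lit 5) (nat_lit 100) (nat_lit 5) (nat_lit 415) (nat_lit 358) (nat_lit 127)) (XT.lf (nat_lit 0) (nat_lit 25624002223) (nat_lit 304) (nat_lit 311903921) (nat_lit 380) (nat_lit 35464127152) (nat_lit 95) (nat_lit 5) (nat_lit 99) (nat_lit 5) (nat_lit 100) (nat_lit 5) (nat_lit 416) (nat_lit 358) (nat_lit 126))) (XT.nd (nat_lit 78) (nat_lit 228) (nat_lit 0) (XT.lf (nat_lit 0) (nat_lit 38407833953) (nat_lit 380) (nat_lit 3648444165) (nat_lit 76) (nat_lit 20550288505) (nat_lit 95) (nat_lit 5) (nat_lit 100) (nat_lit 5) (nat_lit 96) (nat_lit 5) (nat_lit 417) (nat_lit 358) (nat_lit 125)) (XT.lf (nat_lit 0) (nat_lit 30023784108) (nat_lit 228) (nat_lit 21520540898) (nat_lit 304) (nat_lit 12296259247) (nat_lit 92) (nat_lit 5) (nat_lit 95) (nat_lit 5) (nat_lit 96) (nat_lit 5) (nat_lit 418) (nat_lit 358) (nat_lit 124))))))) (XT.nd (nat_lit 42510)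 (nat_lit 0) (nat_lit 11552) (XT.nd (nat_lit 468) (nat_lit 532) (nat_lit 0) (XT.nd (nat_lit 234) (nat_lit 228) (nat_lit 0) (XT.nd (nat_lit 78) (nat_lit 608) (nat_lit 0) (XT.lf (nat_lit 0) (nat_lit 64779017824) (nat_lit 228) (nat_lit 331464182) (nat_lit 304) (nat_lit 73720) (nat_lit 92) (nat_lit 5) (nat_lit 95) (nat_lit 5) (nat_lit 96) (nat_lit 5) (nat_lit 419) (nat_lit 358) (nat_lit 123)) (XT.nd (nat_lit 78) (nat_lit 228) (nat_lit 0) (XT.lf (nat_lit 0) (nat_lit 12961393055) (nat_lit 380) (nat_lit 31904136068) (nat_lit 76) (nat_lit 21533139273) (nat_lit 87) (nat_lit 5) (nat_lit 92) (nat_lit 5) (nat_lit 88) (nat_lit 5) (nat_lit 420) (nat_lit 358) (nat_lit 122)) (XT.lf (nat_lit 0) (nat_lit 2694183037) (nat_lit 228) (nat_lit 23648845336) (nat_lit 304) (nat_lit 41381456682) (nat_lit 84) (nat_lit 5) (nat_lit 87) (nat_lit 5) (nat_lit 88) (nat_lit 5) (nat_lit 421) (nat_lit 358) (nat_lit 121)))) (XT.nd (nat_lit 78)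 (nat_lit 228) (nat_lit 0) (XT.lf (nat_lit 0) (nat_lit 38982542825) (nat_lit 228) (nat_lit 1464521763) (nat_lit 304) (nat_lit 28633383471) (nat_lit 84) (nat_lit 5) (nat_lit 87) (nat_lit 5) (nat_lit 88) (nat_lit 5) (nat_lit 422) (nat_lit 358) (nat_lit 120)) (XT.nd (nat_lit 78) (nat_lit 0) (nat_lit 0) (XT.lf (nat_lit 0) (nat_lit 5787952297) (nat_lit 228) (nat_lit 49446287410) (nat_lit 304) (nat_lit 15235050101) (nat_lit 81) (nat_lit 5) (nat_lit 84) (nat_lit 5) (nat_lit 85) (nat_lit 5) (nat_lit 423) (nat_lit 358) (nat_lit 119)) (XT.lf (nat_lit 0) (nat_lit 43350706737) (nat_lit 228) (nat_lit 27431439478) (nat_lit 304) (nat_lit 1108137488) (nat_lit 81) (nat_lit 5) (nat_lit 84) (nat_lit 5) (nat_lit 85) (nat_lit 5) (nat_lit 424) (nat_lit 358) (nat_lit 118))))) (XT.nd (nat_lit 41730) (nat_lit 0) (nat_lit 12616) (XT.nd (nat_lit 78) (nat_lit 228) (nat_lit 0) (XT.lf (nat_lit 0) (nat_lit 8725650535) (nat_lit 228) (nat_lit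 4537345813) (nat_lit 304) (nat_lit 60084553061) (nat_lit 77) (nat_lit 5) (nat_lit 80) (nat_lit 5) (nat_lit 81) (nat_lit 5) (nat_lit 425) (nat_lit 358) (nat_lit 117)) (XT.nd (nat_lit 78) (nat_lit 228) (nat_lit 0) (XT.lf (nat_lit 0) (nat_lit 28515957522) (nat_lit 304) (nat_lit 27344748733) (nat_lit 76) (nat_lit 18973309054) (nat_lit 77) (nat_lit 5) (nat_lit 81) (nat_lit 5) (nat_lit 78) (nat_lit 5) (nat_lit 426) (nat_lit 358) (nat_lit 116)) (XT.lf (nat_lit 0) (nat_lit 11223000475) (nat_lit 228) (nat_lit 33155206982) (nat_lit 304) (nat_lit 31982317066) (nat_lit 74) (nat_lit 5) (nat_lit 77) (nat_lit 5) (nat_lit 78) (nat_lit 5) (nat_lit 427) (nat_lit 358) (nat_lit 115)))) (XT.nd (nat_lit 156) (nat_lit 0) (nat_lit 0) (XT.nd (nat_lit 78) (nat_lit 0) (nat_lit 0) (XT.lf (nat_lit 0) (nat_lit 5369278384) (nat_lit 0) (nat_lit 5369278384) (nat_lit 1140) (nat_lit 959108926) (nat_lit 240) (nat_lit 5) (nat_lit 240) (nat_lit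 3) (nat_lit 255) (nat_lit 3) (nat_lit 359) (nat_lit 359) (nat_lit 182)) (XT.lf (nat_lit 0) (nat_lit 21918211771) (nat_lit 1140) (nat_lit 1583553783) (nat_lit 1216) (nat_lit 240850969) (nat_lit 240) (nat_lit 5) (nat_lit 255) (nat_lit 3) (nat_lit 256) (nat_lit 5) (nat_lit 360) (nat_lit 359) (nat_lit 181))) (XT.nd (nat_lit 78) (nat_lit 0) (nat_lit 0) (XT.lf (nat_lit 76) (nat_lit 9906414920) (nat_lit 0) (nat_lit 12663148963) (nat_lit 1216) (nat_lit 1524848690) (nat_lit 241) (nat_lit 5) (nat_lit 240) (nat_lit 5) (nat_lit 256) (nat_lit 5) (nat_lit 361) (nat_lit 359) (nat_lit 180)) (XT.lf (nat_lit 76) (nat_lit 21771131619) (nat_lit 0) (nat_lit 1480896488) (nat_lit 1216) (nat_lit 1204390154) (nat_lit 241) (nat_lit 5) (nat_lit 240) (nat_lit 5) (nat_lit 256) (nat_lit 5) (nat_lit 362) (nat_lit 359) (nat_lit 179)))))) (XT.nd (nat_lit 546) (nat_lit 0) (nat_lit 152) (XT.nd (nat_lit 234) (nat_lit 0) (nat_lit 0) (XT.nd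 (nat_lit 78) (nat_lit 1140) (nat_lit 0) (XT.lf (nat_lit 76) (nat_lit 9243915327) (nat_lit 0) (nat_lit 14892117391) (nat_lit 1216) (nat_lit 687822224) (nat_lit 242) (nat_lit 5) (nat_lit 241) (nat_lit 5) (nat_lit 257) (nat_lit 5) (nat_lit 363) (nat_lit 359) (nat_lit 178)) (XT.nd (nat_lit 78) (nat_lit 1140) (nat_lit 0) (XT.lf (nat_lit 76) (nat_lit 21568617019) (nat_lit 0) (nat_lit 3515404074) (nat_lit 1216) (nat_lit 117172458) (nat_lit 242) (nat_lit 5) (nat_lit 241) (nat_lit 5) (nat_lit 257) (nat_lit 5) (nat_lit 364) (nat_lit 359) (nat_lit 177)) (XT.lf (nat_lit 0) (nat_lit 622034249) (nat_lit 1216) (nat_lit 16828364935) (nat_lit 1292) (nat_lit 8134501388) (nat_lit 226) (nat_lit 5) (nat_lit 242) (nat_lit 5) (nat_lit 243) (nat_lit 5) (nat_lit 365) (nat_lit 359) (nat_lit 176)))) (XT.nd (nat_lit 156) (nat_lit 0) (nat_lit 76) (XT.nd (nat_lit 78) (nat_lit 0) (nat_lit 76) (XT.lf (nat_lit 0) (nat_lit 1448931266) (nat_lit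 1216) (nat_lit 4426155184) (nat_lit 1292) (nat_lit 20102963977) (nat_lit 226) (nat_lit 5) (nat_lit 242) (nat_lit 5) (nat_lit 243) (nat_lit 5) (nat_lit 366) (nat_lit 359) (nat_lit 175)) (XT.lf (nat_lit 0) (nat_lit 2437544094) (nat_lit 1216) (nat_lit 17927916511) (nat_lit 1292) (nat_lit 6013429338) (nat_lit 227) (nat_lit 5) (nat_lit 243) (nat_lit 5) (nat_lit 244) (nat_lit 5) (nat_lit 367) (nat_lit 359) (nat_lit 174))) (XT.nd (nat_lit 78) (nat_lit 0) (nat_lit 76) (XT.lf (nat_lit 0) (nat_lit 3555357553) (nat_lit 1216) (nat_lit 5046498529) (nat_lit 1292) (nat_lit 18186914653) (nat_lit 227) (nat_lit 5) (nat_lit 243) (nat_lit 5) (nat_lit 244) (nat_lit 5) (nat_lit 368) (nat_lit 359) (nat_lit 173)) (XT.lf (nat_lit 0) (nat_lit 4818220267) (nat_lit 1216) (nat_lit 18860847987) (nat_lit 1292) (nat_lit 3528536543) (nat_lit 228) (nat_lit 5) (nat_lit 244) (nat_lit 5) (nat_lit 245) (nat_lit 5) (nat_lit 369) (nat_lit 359)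 (nat_lit 172))))) (XT.nd (nat_lit 234) (nat_lit 0) (nat_lit 76) (XT.nd (nat_lit 78) (nat_lit 0) (nat_lit 76) (XT.lf (nat_lit 0) (nat_lit 6252037132) (nat_lit 1216) (nat_lit 5480527510) (nat_lit 1292) (nat_lit 15902449415) (nat_lit 228) (nat_lit 5) (nat_lit 244) (nat_lit 5) (nat_lit 245) (nat_lit 5) (nat_lit 370) (nat_lit 359) (nat_lit 171)) (XT.nd (nat_lit 78) (nat_lit 0) (nat_lit 0) (XT.lf (nat_lit 0) (nat_lit 7813084367) (nat_lit 1216) (nat_lit 19615426936) (nat_lit 1292) (nat_lit 644209976) (nat_lit 229) (nat_lit 5) (nat_lit 245) (nat_lit 5) (nat_lit 246) (nat_lit 5) (nat_lit 371) (nat_lit 359) (nat_lit 170)) (XT.lf (nat_lit 0) (nat_lit 9589642906) (nat_lit 1216) (nat_lit 5715663883) (nat_lit 1292) (nat_lit 13213194628) (nat_lit 229) (nat_lit 5) (nat_lit 245) (nat_lit 5) (nat_lit 246) (nat_lit 5) (nat_lit 372) (nat_lit 359) (nat_lit 169)))) (XT.nd (nat_lit 156) (nat_lit 0) (nat_lit 76) (XT.nd (nat_lit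 78) (nat_lit 0) (nat_lit 76) (XT.lf (nat_lit 76) (nat_lit 8769647842) (nat_lit 0) (nat_lit 2730873223) (nat_lit 1292) (nat_lit 17474705243) (nat_lit 230) (nat_lit 5) (nat_lit 229) (nat_lit 5) (nat_lit 246) (nat_lit 5) (nat_lit 373) (nat_lit 359) (nat_lit 168)) (XT.lf (nat_lit 0) (nat_lit 13622063470) (nat_lit 1216) (nat_lit 5738707881) (nat_lit 1292) (nat_lit 10080283435) (nat_lit 230) (nat_lit 5) (nat_lit 246) (nat_lit 5) (nat_lit 247) (nat_lit 5) (nat_lit 374) (nat_lit 359) (nat_lit 167))) (XT.nd (nat_lit 78) (nat_lit 0) (nat_lit 76) (XT.lf (nat_lit 76) (nat_lit 9314312574) (nat_lit 0) (nat_lit 6606406897) (nat_lit 1292) (nat_lit 13996736546) (nat_lit 231) (nat_lit 5) (nat_lit 230) (nat_lit 5) (nat_lit 247) (nat_lit 5) (nat_lit 375) (nat_lit 359) (nat_lit 166)) (XT.lf (nat_lit 0) (nat_lit 18406599416) (nat_lit 1216) (nat_lit 5535845274) (nat_lit 76) (nat_lit 6462158529) (nat_lit 231) (nat_lit 5) (nat_lit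 247) (nat_lit 5) (nat_lit 232) (nat_lit 5) (nat_lit 376) (nat_lit 359) (nat_lit 165))))))))
noncomputable def xc226 : XT := (XT.nd (nat_lit 2028) (nat_lit 4028) (nat_lit 0) (XT.nd (nat_lit 1014) (nat_lit 3116) (nat_lit 0) (XT.nd (nat_lit 468) (nat_lit 2128) (nat_lit 0) (XT.nd (nat_lit 234) (nat_lit 608) (nat_lit 0) (XT.nd (nat_lit 78) (nat_lit 608) (nat_lit 0) (XT.lf (nat_lit 0) (nat_lit 10112830454) (nat_lit 1216) (nat_lit 11013899186) (nat_lit 1292) (nat_lit 9774846789) (nat_lit 215) (nat_lit 5) (nat_lit 231) (nat_lit 5) (nat_lit 232) (nat_lit 5) (nat_lit 377) (nat_lit 359) (nat_lit 164)) (XT.nd (nat_lit 78) (nat_lit 608) (nat_lit 0) (XT.lf (nat_lit 0) (nat_lit 24004169352) (nat_lit 1292) (nat_lit 5092658063) (nat_lit 76) (nat_lit 2314362009) (nat_lit 215) (nat_lit 5) (nat_lit 232) (nat_lit 5) (nat_lit 216) (nat_lit 5) (nat_lit 378) (nat_lit 359) (nat_lit 163)) (XT.lf (nat_lit 0) (nat_lit 11180884496)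 (nat_lit 608) (nat_lit 16000775570) (nat_lit 684) (nat_lit 4748020613) (nat_lit 207) (nat_lit 5) (nat_lit 215) (nat_lit 5) (nat_lit 216) (nat_lit 5) (nat_lit 379) (nat_lit 359) (nat_lit 162)))) (XT.nd (nat_lit 78) (nat_lit 608) (nat_lit 0) (XT.lf (nat_lit 0) (nat_lit 28044494104) (nat_lit 608) (nat_lit 2458666206) (nat_lit 684) (nat_lit 1959107472) (nat_lit 207) (nat_lit 5) (nat_lit 215) (nat_lit 5) (nat_lit 216) (nat_lit 5) (nat_lit 380) (nat_lit 359) (nat_lit 161)) (XT.nd (nat_lit 78) (nat_lit 0) (nat_lit 0) (XT.lf (nat_lit 0) (nat_lit 1126185389) (nat_lit 608) (nat_lit 20480237785) (nat_lit 76) (nat_lit 11397231334) (nat_lit 199) (nat_lit 5) (nat_lit 207) (nat_lit 5) (nat_lit 200) (nat_lit 5) (nat_lit 381) (nat_lit 359) (nat_lit 160)) (XT.lf (nat_lit 0) (nat_lit 4331423324) (nat_lit 608) (nat_lit 3543295962) (nat_lit 76) (nat_lit 25683980279) (nat_lit 199) (nat_lit 5) (nat_lit 207) (nat_lit 5) (nat_lit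 200) (nat_lit 5) (nat_lit 382) (nat_lit 359) (nat_lit 159))))) (XT.nd (nat_lit 234) (nat_lit 988) (nat_lit 0) (XT.nd (nat_lit 78) (nat_lit 532) (nat_lit 0) (XT.lf (nat_lit 0) (nat_lit 7828139549) (nat_lit 684) (nat_lit 20012117523) (nat_lit 76) (nat_lit 6284280739) (nat_lit 191) (nat_lit 5) (nat_lit 200) (nat_lit 5) (nat_lit 192) (nat_lit 5) (nat_lit 383) (nat_lit 359) (nat_lit 158)) (XT.nd (nat_lit 78) (nat_lit 532) (nat_lit 0) (XT.lf (nat_lit 0) (nat_lit 11541353728) (nat_lit 684) (nat_lit 2416707265) (nat_lit 76) (nat_lit 20745943744) (nat_lit 191) (nat_lit 5) (nat_lit 200) (nat_lit 5) (nat_lit 192) (nat_lit 5) (nat_lit 384) (nat_lit 359) (nat_lit 157)) (XT.lf (nat_lit 0) (nat_lit 15522291350) (nat_lit 608) (nat_lit 19284477283) (nat_lit 76) (nat_lit 489398614) (nat_lit 184) (nat_lit 5) (nat_lit 192) (nat_lit 5) (nat_lit 185) (nat_lit 5) (nat_lit 385) (nat_lit 359) (nat_lit 156)))) (XT.nd (nat_lit 156)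 (nat_lit 456) (nat_lit 0) (XT.nd (nat_lit 78) (nat_lit 532) (nat_lit 0) (XT.lf (nat_lit 0) (nat_lit 19783115337) (nat_lit 608) (nat_lit 1003847071) (nat_lit 76) (nat_lit 15114319822) (nat_lit 184) (nat_lit 5) (nat_lit 192) (nat_lit 5) (nat_lit 185) (nat_lit 5) (nat_lit 386) (nat_lit 359) (nat_lit 155)) (XT.lf (nat_lit 0) (nat_lit 18177459708) (nat_lit 532) (nat_lit 6166720679) (nat_lit 608) (nat_lit 12175199092) (nat_lit 177) (nat_lit 5) (nat_lit 184) (nat_lit 5) (nat_lit 185) (nat_lit 5) (nat_lit 387) (nat_lit 359) (nat_lit 154))) (XT.nd (nat_lit 78) (nat_lit 0) (nat_lit 0) (XT.lf (nat_lit 0) (nat_lit 725147334) (nat_lit 456) (nat_lit 28417340598) (nat_lit 532) (nat_lit 8010520665) (nat_lit 171) (nat_lit 5) (nat_lit 177) (nat_lit 5) (nat_lit 178) (nat_lit 5) (nat_lit 388) (nat_lit 359) (nat_lit 153)) (XT.lf (nat_lit 0) (nat_lit 20675476497) (nat_lit 456) (nat_lit 13652712321) (nat_lit 532) (nat_lit 3470155679)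 (nat_lit 171) (nat_lit 5) (nat_lit 177) (nat_lit 5) (nat_lit 178) (nat_lit 5) (nat_lit 389) (nat_lit 359) (nat_lit 152)))))) (XT.nd (nat_lit 468) (nat_lit 1672) (nat_lit 0) (XT.nd (nat_lit 234) (nat_lit 456) (nat_lit 0) (XT.nd (nat_lit 78) (nat_lit 456) (nat_lit 0) (XT.lf (nat_lit 0) (nat_lit 1222948621) (nat_lit 532) (nat_lit 35675365408) (nat_lit 76) (nat_lit 1563177601) (nat_lit 164) (nat_lit 5) (nat_lit 171) (nat_lit 5) (nat_lit 165) (nat_lit 5) (nat_lit 390) (nat_lit 359) (nat_lit 151)) (XT.nd (nat_lit 78) (nat_lit 456) (nat_lit 0) (XT.lf (nat_lit 0) (nat_lit 6294743003) (nat_lit 532) (nat_lit 15669680358) (nat_lit 76) (nat_lit 17169850894) (nat_lit 164) (nat_lit 5) (nat_lit 171) (nat_lit 5) (nat_lit 165) (nat_lit 5) (nat_lit 391) (nat_lit 359) (nat_lit 150)) (XT.lf (nat_lit 0) (nat_lit 5031957755) (nat_lit 456) (nat_lit 6533015299) (nat_lit 532) (nat_lit 28260879944) (nat_lit 158) (nat_lit 5) (nat_lit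 164) (nat_lit 5) (nat_lit 165) (nat_lit 5) (nat_lit 392) (nat_lit 359) (nat_lit 149)))) (XT.nd (nat_lit 78) (nat_lit 456) (nat_lit 0) (XT.lf (nat_lit 0) (nat_lit 17241042855) (nat_lit 532) (nat_lit 13951572406) (nat_lit 76) (nat_lit 9338132919) (nat_lit 158) (nat_lit 5) (nat_lit 165) (nat_lit 5) (nat_lit 159) (nat_lit 5) (nat_lit 393) (nat_lit 359) (nat_lit 148)) (XT.nd (nat_lit 78) (nat_lit 0) (nat_lit 0) (XT.lf (nat_lit 0) (nat_lit 7597212130) (nat_lit 456) (nat_lit 15625901065) (nat_lit 532) (nat_lit 18029606500) (nat_lit 152) (nat_lit 5) (nat_lit 158) (nat_lit 5) (nat_lit 159) (nat_lit 5) (nat_lit 394) (nat_lit 359) (nat_lit 147)) (XT.lf (nat_lit 0) (nat_lit 29528882014) (nat_lit 532) (nat_lit 11921391496) (nat_lit 76) (nat_lit 541750759) (nat_lit 152) (nat_lit 5) (nat_lit 159) (nat_lit 5) (nat_lit 153) (nat_lit 5) (nat_lit 395) (nat_lit 359) (nat_lit 146))))) (XT.nd (nat_lit 234) (nat_lit 760) (nat_lit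 0) (XT.nd (nat_lit 78) (nat_lit 532) (nat_lit 0) (XT.lf (nat_lit 0) (nat_lit 10512843337) (nat_lit 380) (nat_lit 25764843273) (nat_lit 456) (nat_lit 6468206457) (nat_lit 147) (nat_lit 5) (nat_lit 152) (nat_lit 5) (nat_lit 153) (nat_lit 5) (nat_lit 396) (nat_lit 359) (nat_lit 145)) (XT.nd (nat_lit 78) (nat_lit 532) (nat_lit 0) (XT.lf (nat_lit 0) (nat_lit 33862168692) (nat_lit 380) (nat_lit 9485297525) (nat_lit 456) (nat_lit 171357331) (nat_lit 147) (nat_lit 5) (nat_lit 152) (nat_lit 5) (nat_lit 153) (nat_lit 5) (nat_lit 397) (nat_lit 359) (nat_lit 144)) (XT.lf (nat_lit 0) (nat_lit 6393946763) (nat_lit 532) (nat_lit 30577707178) (nat_lit 76) (nat_lit 7335384974) (nat_lit 140) (nat_lit 5) (nat_lit 147) (nat_lit 5) (nat_lit 141) (nat_lit 5) (nat_lit 398) (nat_lit 359) (nat_lit 143)))) (XT.nd (nat_lit 156) (nat_lit 380) (nat_lit 0) (XT.nd (nat_lit 78) (nat_lit 380) (nat_lit 0) (XT.lf (nat_lit 0) (nat_lit 13343349639)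 (nat_lit 532) (nat_lit 7200013015) (nat_lit 76) (nat_lit 24569770539) (nat_lit 140) (nat_lit 5) (nat_lit 147) (nat_lit 5) (nat_lit 141) (nat_lit 5) (nat_lit 399) (nat_lit 359) (nat_lit 142)) (XT.lf (nat_lit 0) (nat_lit 17212648431) (nat_lit 380) (nat_lit 3452288537) (nat_lit 456) (nat_lit 25273563100) (nat_lit 135) (nat_lit 5) (nat_lit 140) (nat_lit 5) (nat_lit 141) (nat_lit 5) (nat_lit 400) (nat_lit 359) (nat_lit 141))) (XT.nd (nat_lit 78) (nat_lit 380) (nat_lit 0) (XT.lf (nat_lit 0) (nat_lit 28413899722) (nat_lit 456) (nat_lit 4420186888) (nat_lit 76) (nat_lit 13948310319) (nat_lit 135) (nat_lit 5) (nat_lit 141) (nat_lit 5) (nat_lit 136) (nat_lit 5) (nat_lit 401) (nat_lit 359) (nat_lit 140)) (XT.lf (nat_lit 0) (nat_lit 20987810483) (nat_lit 380) (nat_lit 15641768925) (nat_lit 456) (nat_lit 11015004637) (nat_lit 130) (nat_lit 5) (nat_lit 135) (nat_lit 5) (nat_lit 136) (nat_lit 5) (nat_lit 402) (nat_lit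 359) (nat_lit 139))))))) (XT.nd (nat_lit 1014) (nat_lit 1672) (nat_lit 0) (XT.nd (nat_lit 468) (nat_lit 1292) (nat_lit 0) (XT.nd (nat_lit 234) (nat_lit 304) (nat_lit 0) (XT.nd (nat_lit 78) (nat_lit 760) (nat_lit 0) (XT.lf (nat_lit 0) (nat_lit 45155011539) (nat_lit 456) (nat_lit 1305172763) (nat_lit 76) (nat_lit 2070554779) (nat_lit 130) (nat_lit 5) (nat_lit 136) (nat_lit 5) (nat_lit 131) (nat_lit 5) (nat_lit 403) (nat_lit 359) (nat_lit 138)) (XT.nd (nat_lit 78) (nat_lit 380) (nat_lit 0) (XT.lf (nat_lit 0) (nat_lit 4803893575) (nat_lit 380) (nat_lit 24338202242) (nat_lit 76) (nat_lit 20288123017) (nat_lit 125) (nat_lit 5) (nat_lit 130) (nat_lit 5) (nat_lit 126) (nat_lit 5) (nat_lit 404) (nat_lit 359) (nat_lit 137)) (XT.lf (nat_lit 0) (nat_lit 1953990535) (nat_lit 380) (nat_lit 11237557520) (nat_lit 456) (nat_lit 37163218132) (nat_lit 120) (nat_lit 5) (nat_lit 125) (nat_lit 5) (nat_lit 126) (nat_lit 5) (nat_lit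 405) (nat_lit 359) (nat_lit 136)))) (XT.nd (nat_lit 78) (nat_lit 304) (nat_lit 0) (XT.lf (nat_lit 0) (nat_lit 22146704726) (nat_lit 456) (nat_lit 21839697395) (nat_lit 76) (nat_lit 7311172344) (nat_lit 120) (nat_lit 5) (nat_lit 126) (nat_lit 5) (nat_lit 121) (nat_lit 5) (nat_lit 406) (nat_lit 359) (nat_lit 135)) (XT.nd (nat_lit 78) (nat_lit 0) (nat_lit 0) (XT.lf (nat_lit 0) (nat_lit 5512385563) (nat_lit 304) (nat_lit 26020848608) (nat_lit 380) (nat_lit 20730551939) (nat_lit 116) (nat_lit 5) (nat_lit 120) (nat_lit 5) (nat_lit 121) (nat_lit 5) (nat_lit 407) (nat_lit 359) (nat_lit 134)) (XT.lf (nat_lit 0) (nat_lit 34130613093) (nat_lit 304) (nat_lit 7289775610) (nat_lit 380) (nat_lit 11832025169) (nat_lit 116) (nat_lit 5) (nat_lit 120) (nat_lit 5) (nat_lit 121) (nat_lit 5) (nat_lit 408) (nat_lit 359) (nat_lit 133))))) (XT.nd (nat_lit 234) (nat_lit 608) (nat_lit 0) (XT.nd (nat_lit 78) (nat_lit 380) (nat_lit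 0) (XT.lf (nat_lit 0) (nat_lit 9402697287) (nat_lit 304) (nat_lit 42405756866) (nat_lit 380) (nat_lit 2456118049) (nat_lit 112) (nat_lit 5) (nat_lit 116) (nat_lit 5) (nat_lit 117) (nat_lit 5) (nat_lit 409) (nat_lit 359) (nat_lit 132)) (XT.nd (nat_lit 78) (nat_lit 304) (nat_lit 0) (XT.lf (nat_lit 0) (nat_lit 7326265492) (nat_lit 380) (nat_lit 16271799921) (nat_lit 76) (nat_lit 31698982287) (nat_lit 111) (nat_lit 5) (nat_lit 116) (nat_lit 5) (nat_lit 112) (nat_lit 5) (nat_lit 410) (nat_lit 359) (nat_lit 131)) (XT.lf (nat_lit 0) (nat_lit 13411326663) (nat_lit 304) (nat_lit 4068926263) (nat_lit 380) (nat_lit 38875690631) (nat_lit 107) (nat_lit 5) (nat_lit 111) (nat_lit 5) (nat_lit 112) (nat_lit 5) (nat_lit 411) (nat_lit 359) (nat_lit 130)))) (XT.nd (nat_lit 156) (nat_lit 304) (nat_lit 0) (XT.nd (nat_lit 78) (nat_lit 304) (nat_lit 0) (XT.lf (nat_lit 0) (nat_lit 28257641014) (nat_lit 380) (nat_lit 13281098109)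 (nat_lit 76) (nat_lit 15898304290) (nat_lit 107) (nat_lit 5) (nat_lit 112) (nat_lit 5) (nat_lit 108) (nat_lit 5) (nat_lit 412) (nat_lit 359) (nat_lit 129)) (XT.lf (nat_lit 0) (nat_lit 17572958805) (nat_lit 304) (nat_lit 21993237346) (nat_lit 380) (nat_lit 18978145290) (nat_lit 103) (nat_lit 5) (nat_lit 107) (nat_lit 5) (nat_lit 108) (nat_lit 5) (nat_lit 413) (nat_lit 359) (nat_lit 128))) (XT.nd (nat_lit 78) (nat_lit 304) (nat_lit 0) (XT.lf (nat_lit 0) (nat_lit 49622913697) (nat_lit 304) (nat_lit 1723865005) (nat_lit 380) (nat_lit 8334097106) (nat_lit 103) (nat_lit 5) (nat_lit 107) (nat_lit 5) (nat_lit 108) (nat_lit 5) (nat_lit 414) (nat_lit 359) (nat_lit 127)) (XT.lf (nat_lit 0) (nat_lit 2976412003) (nat_lit 304) (nat_lit 38842236885) (nat_lit 76) (nat_lit 19020146205) (nat_lit 99) (nat_lit 5) (nat_lit 103) (nat_lit 5) (nat_lit 100) (nat_lit 5) (nat_lit 415) (nat_lit 359) (nat_lit 126)))))) (XT.nd (nat_lit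 546) (nat_lit 532) (nat_lit 0) (XT.nd (nat_lit 234) (nat_lit 836) (nat_lit 0) (XT.nd (nat_lit 78) (nat_lit 304) (nat_lit 0) (XT.lf (nat_lit 0) (nat_lit 14577065794) (nat_lit 304) (nat_lit 6912058624) (nat_lit 76) (nat_lit 40536302446) (nat_lit 99) (nat_lit 5) (nat_lit 103) (nat_lit 5) (nat_lit 100) (nat_lit 5) (nat_lit 416) (nat_lit 359) (nat_lit 125)) (XT.nd (nat_lit 78) (nat_lit 0) (nat_lit 0) (XT.lf (nat_lit 0) (nat_lit 26491061241) (nat_lit 304) (nat_lit 288061428) (nat_lit 380) (nat_lit 36460933880) (nat_lit 95) (nat_lit 5) (nat_lit 99) (nat_lit 5) (nat_lit 100) (nat_lit 5) (nat_lit 417) (nat_lit 359) (nat_lit 124)) (XT.lf (nat_lit 0) (nat_lit 39623620891) (nat_lit 380) (nat_lit 3660812479) (nat_lit 76) (nat_lit 21198400816) (nat_lit 95) (nat_lit 5) (nat_lit 100) (nat_lit 5) (nat_lit 96) (nat_lit 5) (nat_lit 418) (nat_lit 359) (nat_lit 123)))) (XT.nd (nat_lit 156) (nat_lit 532) (nat_lit 0) (XT.nd (nat_lit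 78) (nat_lit 76) (nat_lit 0) (XT.lf (nat_lit 0) (nat_lit 31020630829) (nat_lit 228) (nat_lit 22132648910) (nat_lit 304) (nat_lit 12600621080) (nat_lit 92) (nat_lit 5) (nat_lit 95) (nat_lit 5) (nat_lit 96) (nat_lit 5) (nat_lit 419) (nat_lit 359) (nat_lit 122)) (XT.lf (nat_lit 0) (nat_lit 61349637) (nat_lit 304) (nat_lit 246906712) (nat_lit 76) (nat_lit 66753752411) (nat_lit 91) (nat_lit 5) (nat_lit 95) (nat_lit 5) (nat_lit 92) (nat_lit 5) (nat_lit 420) (nat_lit 359) (nat_lit 121))) (XT.nd (nat_lit 78) (nat_lit 228) (nat_lit 0) (XT.lf (nat_lit 0) (nat_lit 13411088412) (nat_lit 380) (nat_lit 32766092702) (nat_lit 76) (nat_lit 22211601400) (nat_lit 87) (nat_lit 5) (nat_lit 92) (nat_lit 5) (nat_lit 88) (nat_lit 5) (nat_lit 421) (nat_lit 359) (nat_lit 120)) (XT.lf (nat_lit 0) (nat_lit 2869242962) (nat_lit 228) (nat_lit 24324063233) (nat_lit 304) (nat_lit 42561094067) (nat_lit 84) (nat_lit 5) (nat_lit 87) (nat_lit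 5) (nat_lit 88) (nat_lit 5) (nat_lit 422) (nat_lit 359) (nat_lit 119))))) (XT.nd (nat_lit 234) (nat_lit 304) (nat_lit 0) (XT.nd (nat_lit 78) (nat_lit 228) (nat_lit 0) (XT.lf (nat_lit 0) (nat_lit 40243508851) (nat_lit 228) (nat_lit 1475207452) (nat_lit 304) (nat_lit 29432378845) (nat_lit 84) (nat_lit 5) (nat_lit 87) (nat_lit 5) (nat_lit 88) (nat_lit 5) (nat_lit 423) (nat_lit 359) (nat_lit 118)) (XT.nd (nat_lit 78) (nat_lit 0) (nat_lit 0) (XT.lf (nat_lit 0) (nat_lit 6053616200) (nat_lit 228) (nat_lit 50895389085) (nat_lit 304) (nat_lit 15632612464) (nat_lit 81) (nat_lit 5) (nat_lit 84) (nat_lit 5) (nat_lit 85) (nat_lit 5) (nat_lit 424) (nat_lit 359) (nat_lit 117)) (XT.lf (nat_lit 0) (nat_lit 44740572924) (nat_lit 228) (nat_lit 28221094364) (nat_lit 304) (nat_lit 1083625166) (nat_lit 81) (nat_lit 5) (nat_lit 84) (nat_lit 5) (nat_lit 85) (nat_lit 5) (nat_lit 425) (nat_lit 359) (nat_lit 116)))) (XT.nd (nat_lit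 41730) (nat_lit 0) (nat_lit 12388) (XT.nd (nat_lit 78) (nat_lit 0) (nat_lit 0) (XT.lf (nat_lit 0) (nat_lit 9077022454) (nat_lit 228) (nat_lit 4639705108) (nat_lit 304) (nat_lit 61829556066) (nat_lit 77) (nat_lit 5) (nat_lit 80) (nat_lit 5) (nat_lit 81) (nat_lit 5) (nat_lit 426) (nat_lit 359) (nat_lit 115)) (XT.lf (nat_lit 0) (nat_lit 29425966205) (nat_lit 304) (nat_lit 28076770676) (nat_lit 76) (nat_lit 19574646461) (nat_lit 77) (nat_lit 5) (nat_lit 81) (nat_lit 5) (nat_lit 78) (nat_lit 5) (nat_lit 427) (nat_lit 359) (nat_lit 114))) (XT.nd (nat_lit 78) (nat_lit 0) (nat_lit 0) (XT.lf (nat_lit 0) (nat_lit 5588086539) (nat_lit 0) (nat_lit 5588086539) (nat_lit 1140) (nat_lit 868882945) (nat_lit 240) (nat_lit 5) (nat_lit 240) (nat_lit 3) (nat_lit 255) (nat_lit 3) (nat_lit 360) (nat_lit 360) (nat_lit 180)) (XT.lf (nat_lit 0) (nat_lit 22798873993) (nat_lit 1140) (nat_lit 1511013058) (nat_lit 1216) (nat_lit 138167204)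 (nat_lit 240) (nat_lit 5) (nat_lit 255) (nat_lit 3) (nat_lit 256) (nat_lit 5) (nat_lit 361) (nat_lit 360) (nat_lit 179))))))))
noncomputable def xc227 : XT := (XT.nd (nat_lit 2106) (nat_lit 5624) (nat_lit 0) (XT.nd (nat_lit 1014) (nat_lit 3648) (nat_lit 0) (XT.nd (nat_lit 468) (nat_lit 0) (nat_lit 152) (XT.nd (nat_lit 234) (nat_lit 1140) (nat_lit 0) (XT.nd (nat_lit 78) (nat_lit 0) (nat_lit 0) (XT.lf (nat_lit 76) (nat_lit 10322477772) (nat_lit 0) (nat_lit 13141933031) (nat_lit 1216) (nat_lit 1346158349) (nat_lit 241) (nat_lit 5) (nat_lit 240) (nat_lit 5) (nat_lit 256) (nat_lit 5) (nat_lit 362) (nat_lit 360) (nat_lit 178)) (XT.nd (nat_lit 78) (nat_lit 0) (nat_lit 76) (XT.lf (nat_lit 76) (nat_lit 22539673727) (nat_lit 0) (nat_lit 1621332702) (nat_lit 1216) (nat_lit 1022623021) (nat_lit 241) (nat_lit 5) (nat_lit 240) (nat_lit 5) (nat_lit 256) (nat_lit 5) (nat_lit 363) (nat_lit 360) (nat_lit 177)) (XT.lf (nat_lit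 76) (nat_lit 9642841162) (nat_lit 0) (nat_lit 15422805180) (nat_lit 1216) (nat_lit 496623478) (nat_lit 242) (nat_lit 5) (nat_lit 241) (nat_lit 5) (nat_lit 257) (nat_lit 5) (nat_lit 364) (nat_lit 360) (nat_lit 176)))) (XT.nd (nat_lit 78) (nat_lit 0) (nat_lit 76) (XT.lf (nat_lit 0) (nat_lit 83317689) (nat_lit 1216) (nat_lit 3618187033) (nat_lit 1292) (nat_lit 22249582878) (nat_lit 225) (nat_lit 5) (nat_lit 241) (nat_lit 5) (nat_lit 242) (nat_lit 5) (nat_lit 365) (nat_lit 360) (nat_lit 175)) (XT.nd (nat_lit 78) (nat_lit 0) (nat_lit 0) (XT.lf (nat_lit 0) (nat_lit 836905546) (nat_lit 1216) (nat_lit 17205445857) (nat_lit 1292) (nat_lit 8304086525) (nat_lit 226) (nat_lit 5) (nat_lit 242) (nat_lit 5) (nat_lit 243) (nat_lit 5) (nat_lit 366) (nat_lit 360) (nat_lit 174)) (XT.lf (nat_lit 0) (nat_lit 1682894612) (nat_lit 1216) (nat_lit 4434891270) (nat_lit 1292) (nat_lit 20633771436) (nat_lit 226) (nat_lit 5) (nat_lit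 242) (nat_lit 5) (nat_lit 243) (nat_lit 5) (nat_lit 367) (nat_lit 360) (nat_lit 173))))) (XT.nd (nat_lit 234) (nat_lit 0) (nat_lit 76) (XT.nd (nat_lit 78) (nat_lit 0) (nat_lit 0) (XT.lf (nat_lit 0) (nat_lit 2696189722) (nat_lit 1216) (nat_lit 18336613062) (nat_lit 1292) (nat_lit 6131772006) (nat_lit 227) (nat_lit 5) (nat_lit 243) (nat_lit 5) (nat_lit 244) (nat_lit 5) (nat_lit 368) (nat_lit 360) (nat_lit 172)) (XT.nd (nat_lit 78) (nat_lit 0) (nat_lit 76) (XT.lf (nat_lit 0) (nat_lit 3842134109) (nat_lit 1216) (nat_lit 5072513928) (nat_lit 1292) (nat_lit 18672269460) (nat_lit 227) (nat_lit 5) (nat_lit 243) (nat_lit 5) (nat_lit 244) (nat_lit 5) (nat_lit 369) (nat_lit 360) (nat_lit 171)) (XT.lf (nat_lit 0) (nat_lit 5138331004) (nat_lit 1216) (nat_lit 19296632573) (nat_lit 1292) (nat_lit 3583492844) (nat_lit 228) (nat_lit 5) (nat_lit 244) (nat_lit 5) (nat_lit 245) (nat_lit 5) (nat_lit 370) (nat_lit 360) (nat_lit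 170)))) (XT.nd (nat_lit 156) (nat_lit 0) (nat_lit 76) (XT.nd (nat_lit 78) (nat_lit 0) (nat_lit 76) (XT.lf (nat_lit 0) (nat_lit 6610048857) (nat_lit 1216) (nat_lit 5518690079) (nat_lit 1292) (nat_lit 16330105621) (nat_lit 228) (nat_lit 5) (nat_lit 244) (nat_lit 5) (nat_lit 245) (nat_lit 5) (nat_lit 371) (nat_lit 360) (nat_lit 169)) (XT.lf (nat_lit 0) (nat_lit 8213764073) (nat_lit 1216) (nat_lit 20073369747) (nat_lit 1292) (nat_lit 622677176) (nat_lit 229) (nat_lit 5) (nat_lit 245) (nat_lit 5) (nat_lit 246) (nat_lit 5) (nat_lit 372) (nat_lit 360) (nat_lit 168))) (XT.nd (nat_lit 78) (nat_lit 0) (nat_lit 0) (XT.lf (nat_lit 0) (nat_lit 10038776053) (nat_lit 1216) (nat_lit 5760415355) (nat_lit 1292) (nat_lit 13569921438) (nat_lit 229) (nat_lit 5) (nat_lit 245) (nat_lit 5) (nat_lit 246) (nat_lit 5) (nat_lit 373) (nat_lit 360) (nat_lit 167)) (XT.lf (nat_lit 76) (nat_lit 9158213384) (nat_lit 0) (nat_lit 2845271078)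 (nat_lit 1292) (nat_lit 17836162828) (nat_lit 230) (nat_lit 5) (nat_lit 229) (nat_lit 5) (nat_lit 246) (nat_lit 5) (nat_lit 374) (nat_lit 360) (nat_lit 166)))))) (XT.nd (nat_lit 546) (nat_lit 2280) (nat_lit 0) (XT.nd (nat_lit 234) (nat_lit 1748) (nat_lit 0) (XT.nd (nat_lit 78) (nat_lit 0) (nat_lit 0) (XT.lf (nat_lit 0) (nat_lit 14183769672) (nat_lit 1216) (nat_lit 5784049649) (nat_lit 1292) (nat_lit 10351781239) (nat_lit 230) (nat_lit 5) (nat_lit 246) (nat_lit 5) (nat_lit 247) (nat_lit 5) (nat_lit 375) (nat_lit 360) (nat_lit 165)) (XT.nd (nat_lit 78) (nat_lit 0) (nat_lit 76) (XT.lf (nat_lit 76) (nat_lit 9719318091) (nat_lit 0) (nat_lit 6828816775) (nat_lit 1292) (nat_lit 14262259230) (nat_lit 231) (nat_lit 5) (nat_lit 230) (nat_lit 5) (nat_lit 247) (nat_lit 5) (nat_lit 376) (nat_lit 360) (nat_lit 164)) (XT.lf (nat_lit 0) (nat_lit 19104002269) (nat_lit 1216) (nat_lit 5575323996) (nat_lit 76) (nat_lit 6632969792)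 (nat_lit 231) (nat_lit 5) (nat_lit 247) (nat_lit 5) (nat_lit 232) (nat_lit 5) (nat_lit 377) (nat_lit 360) (nat_lit 163)))) (XT.nd (nat_lit 156) (nat_lit 608) (nat_lit 0) (XT.nd (nat_lit 78) (nat_lit 0) (nat_lit 0) (XT.lf (nat_lit 0) (nat_lit 10541570860) (nat_lit 1216) (nat_lit 11361141265) (nat_lit 1292) (nat_lit 9921559661) (nat_lit 215) (nat_lit 5) (nat_lit 231) (nat_lit 5) (nat_lit 232) (nat_lit 5) (nat_lit 378) (nat_lit 360) (nat_lit 162)) (XT.lf (nat_lit 0) (nat_lit 24862176824) (nat_lit 1292) (nat_lit 5119351241) (nat_lit 76) (nat_lit 2367776573) (nat_lit 215) (nat_lit 5) (nat_lit 232) (nat_lit 5) (nat_lit 216) (nat_lit 5) (nat_lit 379) (nat_lit 360) (nat_lit 161))) (XT.nd (nat_lit 78) (nat_lit 0) (nat_lit 0) (XT.lf (nat_lit 0) (nat_lit 11641161451) (nat_lit 608) (nat_lit 16491014954) (nat_lit 684) (nat_lit 4751261147) (nat_lit 207) (nat_lit 5) (nat_lit 215) (nat_lit 5) (nat_lit 216) (nat_lit 5)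 (nat_lit 380) (nat_lit 360) (nat_lit 160)) (XT.lf (nat_lit 0) (nat_lit 29007042928) (nat_lit 608) (nat_lit 2542344753) (nat_lit 684) (nat_lit 1882734983) (nat_lit 207) (nat_lit 5) (nat_lit 215) (nat_lit 5) (nat_lit 216) (nat_lit 5) (nat_lit 381) (nat_lit 360) (nat_lit 159))))) (XT.nd (nat_lit 234) (nat_lit 1064) (nat_lit 0) (XT.nd (nat_lit 78) (nat_lit 608) (nat_lit 0) (XT.lf (nat_lit 0) (nat_lit 1289731206) (nat_lit 608) (nat_lit 20967893960) (nat_lit 76) (nat_lit 11732171539) (nat_lit 199) (nat_lit 5) (nat_lit 207) (nat_lit 5) (nat_lit 200) (nat_lit 5) (nat_lit 382) (nat_lit 360) (nat_lit 158)) (XT.nd (nat_lit 78) (nat_lit 608) (nat_lit 0) (XT.lf (nat_lit 0) (nat_lit 4587346854) (nat_lit 608) (nat_lit 3526535659) (nat_lit 76) (nat_lit 26447726158) (nat_lit 199) (nat_lit 5) (nat_lit 207) (nat_lit 5) (nat_lit 200) (nat_lit 5) (nat_lit 383) (nat_lit 360) (nat_lit 157)) (XT.lf (nat_lit 0) (nat_lit 8186450875)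 (nat_lit 684) (nat_lit 20486837829) (nat_lit 76) (nat_lit 6471210881) (nat_lit 191) (nat_lit 5) (nat_lit 200) (nat_lit 5) (nat_lit 192) (nat_lit 5) (nat_lit 384) (nat_lit 360) (nat_lit 156)))) (XT.nd (nat_lit 156) (nat_lit 532) (nat_lit 0) (XT.nd (nat_lit 78) (nat_lit 532) (nat_lit 0) (XT.lf (nat_lit 0) (nat_lit 12007465349) (nat_lit 684) (nat_lit 2367224774) (nat_lit 76) (nat_lit 21366770328) (nat_lit 191) (nat_lit 5) (nat_lit 200) (nat_lit 5) (nat_lit 192) (nat_lit 5) (nat_lit 385) (nat_lit 360) (nat_lit 155)) (XT.lf (nat_lit 0) (nat_lit 16105532010) (nat_lit 608) (nat_lit 19738662496) (nat_lit 76) (nat_lit 507264293) (nat_lit 184) (nat_lit 5) (nat_lit 192) (nat_lit 5) (nat_lit 185) (nat_lit 5) (nat_lit 386) (nat_lit 360) (nat_lit 154))) (XT.nd (nat_lit 78) (nat_lit 532) (nat_lit 0) (XT.lf (nat_lit 0) (nat_lit 20490756292) (nat_lit 608) (nat_lit 913235196) (nat_lit 76) (nat_lit 15570840408) (nat_lit 184)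 (nat_lit 5) (nat_lit 192) (nat_lit 5) (nat_lit 185) (nat_lit 5) (nat_lit 387) (nat_lit 360) (nat_lit 153)) (XT.lf (nat_lit 0) (nat_lit 18842327185) (nat_lit 532) (nat_lit 6344150550) (nat_lit 608) (nat_lit 12425061468) (nat_lit 177) (nat_lit 5) (nat_lit 184) (nat_lit 5) (nat_lit 185) (nat_lit 5) (nat_lit 388) (nat_lit 360) (nat_lit 152))))))) (XT.nd (nat_lit 1014) (nat_lit 2432) (nat_lit 0) (XT.nd (nat_lit 468) (nat_lit 1748) (nat_lit 0) (XT.nd (nat_lit 234) (nat_lit 456) (nat_lit 0) (XT.nd (nat_lit 78) (nat_lit 532) (nat_lit 0) (XT.lf (nat_lit 0) (nat_lit 868589487) (nat_lit 456) (nat_lit 29258124103) (nat_lit 532) (nat_lit 8137526053) (nat_lit 171) (nat_lit 5) (nat_lit 177) (nat_lit 5) (nat_lit 178) (nat_lit 5) (nat_lit 389) (nat_lit 360) (nat_lit 151)) (XT.nd (nat_lit 78) (nat_lit 532) (nat_lit 0) (XT.lf (nat_lit 0) (nat_lit 21413884221) (nat_lit 456) (nat_lit 14050898824) (nat_lit 532) (nat_lit 3464250415)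 (nat_lit 171) (nat_lit 5) (nat_lit 177) (nat_lit 5) (nat_lit 178) (nat_lit 5) (nat_lit 390) (nat_lit 360) (nat_lit 150)) (XT.lf (nat_lit 0) (nat_lit 1365632037) (nat_lit 532) (nat_lit 36623355234) (nat_lit 76) (nat_lit 1623113727) (nat_lit 164) (nat_lit 5) (nat_lit 171) (nat_lit 5) (nat_lit 165) (nat_lit 5) (nat_lit 391) (nat_lit 360) (nat_lit 149)))) (XT.nd (nat_lit 78) (nat_lit 456) (nat_lit 0) (XT.lf (nat_lit 0) (nat_lit 6586493019) (nat_lit 532) (nat_lit 16021060927) (nat_lit 76) (nat_lit 17697607390) (nat_lit 164) (nat_lit 5) (nat_lit 171) (nat_lit 5) (nat_lit 165) (nat_lit 5) (nat_lit 392) (nat_lit 360) (nat_lit 148)) (XT.nd (nat_lit 78) (nat_lit 0) (nat_lit 0) (XT.lf (nat_lit 0) (nat_lit 5300462507) (nat_lit 456) (nat_lit 6712500076) (nat_lit 532) (nat_lit 29004582451) (nat_lit 158) (nat_lit 5) (nat_lit 164) (nat_lit 5) (nat_lit 165) (nat_lit 5) (nat_lit 393) (nat_lit 360) (nat_lit 147)) (XT.lf (nat_lit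 0) (nat_lit 17856525597) (nat_lit 532) (nat_lit 14253157529) (nat_lit 76) (nat_lit 9633989136) (nat_lit 158) (nat_lit 5) (nat_lit 165) (nat_lit 5) (nat_lit 159) (nat_lit 5) (nat_lit 394) (nat_lit 360) (nat_lit 146))))) (XT.nd (nat_lit 234) (nat_lit 912) (nat_lit 0) (XT.nd (nat_lit 78) (nat_lit 380) (nat_lit 0) (XT.lf (nat_lit 0) (nat_lit 7940943857) (nat_lit 456) (nat_lit 16075365787) (nat_lit 532) (nat_lit 18471047213) (nat_lit 152) (nat_lit 5) (nat_lit 158) (nat_lit 5) (nat_lit 159) (nat_lit 5) (nat_lit 395) (nat_lit 360) (nat_lit 145)) (XT.nd (nat_lit 78) (nat_lit 380) (nat_lit 0) (XT.lf (nat_lit 0) (nat_lit 30508620992) (nat_lit 532) (nat_lit 12163912705) (nat_lit 76) (nat_lit 576387221) (nat_lit 152) (nat_lit 5) (nat_lit 159) (nat_lit 5) (nat_lit 153) (nat_lit 5) (nat_lit 396) (nat_lit 360) (nat_lit 144)) (XT.lf (nat_lit 0) (nat_lit 10942220540) (nat_lit 380) (nat_lit 26516030796) (nat_lit 456) (nat_lit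 6567204993) (nat_lit 147) (nat_lit 5) (nat_lit 152) (nat_lit 5) (nat_lit 153) (nat_lit 5) (nat_lit 397) (nat_lit 360) (nat_lit 143)))) (XT.nd (nat_lit 156) (nat_lit 380) (nat_lit 0) (XT.nd (nat_lit 78) (nat_lit 532) (nat_lit 0) (XT.lf (nat_lit 0) (nat_lit 34988705503) (nat_lit 380) (nat_lit 9748732396) (nat_lit 456) (nat_lit 84218772) (nat_lit 147) (nat_lit 5) (nat_lit 152) (nat_lit 5) (nat_lit 153) (nat_lit 5) (nat_lit 398) (nat_lit 360) (nat_lit 142)) (XT.lf (nat_lit 0) (nat_lit 6674895690) (nat_lit 532) (nat_lit 31381131490) (nat_lit 76) (nat_lit 7577506424) (nat_lit 140) (nat_lit 5) (nat_lit 147) (nat_lit 5) (nat_lit 141) (nat_lit 5) (nat_lit 399) (nat_lit 360) (nat_lit 141))) (XT.nd (nat_lit 78) (nat_lit 380) (nat_lit 0) (XT.lf (nat_lit 0) (nat_lit 13830184618) (nat_lit 532) (nat_lit 7305424180) (nat_lit 76) (nat_lit 25328281035) (nat_lit 140) (nat_lit 5) (nat_lit 147) (nat_lit 5) (nat_lit 141) (nat_lit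 5) (nat_lit 400) (nat_lit 360) (nat_lit 140)) (XT.lf (nat_lit 0) (nat_lit 17838532902) (nat_lit 380) (nat_lit 3531418873) (nat_lit 456) (nat_lit 25944111177) (nat_lit 135) (nat_lit 5) (nat_lit 140) (nat_lit 5) (nat_lit 141) (nat_lit 5) (nat_lit 401) (nat_lit 360) (nat_lit 139)))))) (XT.nd (nat_lit 546) (nat_lit 988) (nat_lit 0) (XT.nd (nat_lit 234) (nat_lit 1064) (nat_lit 0) (XT.nd (nat_lit 78) (nat_lit 380) (nat_lit 0) (XT.lf (nat_lit 0) (nat_lit 29349133814) (nat_lit 456) (nat_lit 4444188398) (nat_lit 76) (nat_lit 14390023163) (nat_lit 135) (nat_lit 5) (nat_lit 141) (nat_lit 5) (nat_lit 136) (nat_lit 5) (nat_lit 402) (nat_lit 360) (nat_lit 138)) (XT.nd (nat_lit 78) (nat_lit 0) (nat_lit 0) (XT.lf (nat_lit 0) (nat_lit 21724984149) (nat_lit 380) (nat_lit 16084921328) (nat_lit 456) (nat_lit 11261535115) (nat_lit 130) (nat_lit 5) (nat_lit 135) (nat_lit 5) (nat_lit 136) (nat_lit 5) (nat_lit 403) (nat_lit 360)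 (nat_lit 137)) (XT.lf (nat_lit 0) (nat_lit 46588972158) (nat_lit 456) (nat_lit 1237755683) (nat_lit 76) (nat_lit 2157517390) (nat_lit 130) (nat_lit 5) (nat_lit 136) (nat_lit 5) (nat_lit 131) (nat_lit 5) (nat_lit 404) (nat_lit 360) (nat_lit 136)))) (XT.nd (nat_lit 156) (nat_lit 304) (nat_lit 0) (XT.nd (nat_lit 78) (nat_lit 380) (nat_lit 0) (XT.lf (nat_lit 0) (nat_lit 5026832413) (nat_lit 380) (nat_lit 24961217555) (nat_lit 76) (nat_lit 20922676165) (nat_lit 125) (nat_lit 5) (nat_lit 130) (nat_lit 5) (nat_lit 126) (nat_lit 5) (nat_lit 405) (nat_lit 360) (nat_lit 135)) (XT.lf (nat_lit 0) (nat_lit 2118690704) (nat_lit 380) (nat_lit 11546149745) (nat_lit 456) (nat_lit 38198208746) (nat_lit 120) (nat_lit 5) (nat_lit 125) (nat_lit 5) (nat_lit 126) (nat_lit 5) (nat_lit 406) (nat_lit 360) (nat_lit 134))) (XT.nd (nat_lit 78) (nat_lit 304) (nat_lit 0) (XT.lf (nat_lit 0) (nat_lit 22886659503) (nat_lit 456) (nat_lit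 22389872648) (nat_lit 76) (nat_lit 7557670319) (nat_lit 120) (nat_lit 5) (nat_lit 126) (nat_lit 5) (nat_lit 121) (nat_lit 5) (nat_lit 407) (nat_lit 360) (nat_lit 133)) (XT.lf (nat_lit 0) (nat_lit 5781743234) (nat_lit 304) (nat_lit 26771840585) (nat_lit 380) (nat_lit 21275853627) (nat_lit 116) (nat_lit 5) (nat_lit 120) (nat_lit 5) (nat_lit 121) (nat_lit 5) (nat_lit 408) (nat_lit 360) (nat_lit 132))))) (XT.nd (nat_lit 234) (nat_lit 608) (nat_lit 0) (XT.nd (nat_lit 78) (nat_lit 380) (nat_lit 0) (XT.lf (nat_lit 0) (nat_lit 35255488868) (nat_lit 304) (nat_lit 7479698508) (nat_lit 380) (nat_lit 12112602555) (nat_lit 116) (nat_lit 5) (nat_lit 120) (nat_lit 5) (nat_lit 121) (nat_lit 5) (nat_lit 409) (nat_lit 360) (nat_lit 131)) (XT.nd (nat_lit 78) (nat_lit 76) (nat_lit 0) (XT.lf (nat_lit 0) (nat_lit 9786646787) (nat_lit 304) (nat_lit 43647393195) (nat_lit 380) (nat_lit 2456299570) (nat_lit 112) (nat_lit 5) (nat_lit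 116) (nat_lit 5) (nat_lit 117) (nat_lit 5) (nat_lit 410) (nat_lit 360) (nat_lit 130)) (XT.lf (nat_lit 0) (nat_lit 7616022129) (nat_lit 380) (nat_lit 16659631733) (nat_lit 76) (nat_lit 32678178072) (nat_lit 111) (nat_lit 5) (nat_lit 116) (nat_lit 5) (nat_lit 112) (nat_lit 5) (nat_lit 411) (nat_lit 360) (nat_lit 129)))) (XT.nd (nat_lit 156) (nat_lit 304) (nat_lit 0) (XT.nd (nat_lit 78) (nat_lit 0) (nat_lit 0) (XT.lf (nat_lit 0) (nat_lit 13913005098) (nat_lit 304) (nat_lit 4160541069) (nat_lit 380) (nat_lit 39970981810) (nat_lit 107) (nat_lit 5) (nat_lit 111) (nat_lit 5) (nat_lit 112) (nat_lit 5) (nat_lit 412) (nat_lit 360) (nat_lit 128)) (XT.lf (nat_lit 0) (nat_lit 29172533725) (nat_lit 380) (nat_lit 13581337082) (nat_lit 76) (nat_lit 16404242482) (nat_lit 107) (nat_lit 5) (nat_lit 112) (nat_lit 5) (nat_lit 108) (nat_lit 5) (nat_lit 413) (nat_lit 360) (nat_lit 127))) (XT.nd (nat_lit 78) (nat_lit 0) (nat_lit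 0) (XT.lf (nat_lit 0) (nat_lit 18197378854) (nat_lit 304) (nat_lit 22621945091) (nat_lit 380) (nat_lit 19479337731) (nat_lit 103) (nat_lit 5) (nat_lit 107) (nat_lit 5) (nat_lit 108) (nat_lit 5) (nat_lit 414) (nat_lit 360) (nat_lit 126)) (XT.lf (nat_lit 0) (nat_lit 51206000414) (nat_lit 304) (nat_lit 1745397096) (nat_lit 380) (nat_lit 8517953110) (nat_lit 103) (nat_lit 5) (nat_lit 107) (nat_lit 5) (nat_lit 108) (nat_lit 5) (nat_lit 415) (nat_lit 360) (nat_lit 125))))))))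
noncomputable def xc228 : XT := (XT.nd (nat_lit 43680) (nat_lit 0) (nat_lit 4788) (XT.nd (nat_lit 42666) (nat_lit 0) (nat_lit 11248) (XT.nd (nat_lit 468) (nat_lit 1064) (nat_lit 0) (XT.nd (nat_lit 234) (nat_lit 304) (nat_lit 0) (XT.nd (nat_lit 78) (nat_lit 304) (nat_lit 0) (XT.lf (nat_lit 0) (nat_lit 3129898410) (nat_lit 304) (nat_lit 39911083987) (nat_lit 76) (nat_lit 19621027162) (nat_lit 99) (nat_lit 5) (nat_lit 103) (nat_lit 5) (nat_lit 100) (nat_lit 5) (nat_lit 416) (nat_lit 360) (nat_lit 124)) (XT.nd (nat_lit 78) (nat_lit 304) (nat_lit 0) (XT.lf (nat_lit 0) (nat_lit 15076702085) (nat_lit 304) (nat_lit 7025808728) (nat_lit 76) (nat_lit 41781786248) (nat_lit 99) (nat_lit 5) (nat_lit 103) (nat_lit 5) (nat_lit 100) (nat_lit 5) (nat_lit 417) (nat_lit 360) (nat_lit 123)) (XT.lf (nat_lit 0) (nat_lit 27378486972) (nat_lit 304) (nat_lit 265409454) (nat_lit 380) (nat_lit 37491497605) (nat_lit 95) (nat_lit 5)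 (nat_lit 99) (nat_lit 5) (nat_lit 100) (nat_lit 5) (nat_lit 418) (nat_lit 360) (nat_lit 122)))) (XT.nd (nat_lit 78) (nat_lit 304) (nat_lit 0) (XT.lf (nat_lit 0) (nat_lit 40872233296) (nat_lit 380) (nat_lit 3679124919) (nat_lit 76) (nat_lit 21864142318) (nat_lit 95) (nat_lit 5) (nat_lit 100) (nat_lit 5) (nat_lit 96) (nat_lit 5) (nat_lit 419) (nat_lit 360) (nat_lit 121)) (XT.nd (nat_lit 78) (nat_lit 76) (nat_lit 0) (XT.lf (nat_lit 0) (nat_lit 32041864513) (nat_lit 228) (nat_lit 22765043672) (nat_lit 304) (nat_lit 12917817821) (nat_lit 92) (nat_lit 5) (nat_lit 95) (nat_lit 5) (nat_lit 96) (nat_lit 5) (nat_lit 420) (nat_lit 360) (nat_lit 120)) (XT.lf (nat_lit 0) (nat_lit 121088221) (nat_lit 304) (nat_lit 165166399) (nat_lit 76) (nat_lit 68785857726) (nat_lit 91) (nat_lit 5) (nat_lit 95) (nat_lit 5) (nat_lit 92) (nat_lit 5) (nat_lit 421) (nat_lit 360) (nat_lit 119))))) (XT.nd (nat_lit 234) (nat_lit 532) (nat_lit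 0) (XT.nd (nat_lit 78) (nat_lit 228) (nat_lit 0) (XT.lf (nat_lit 0) (nat_lit 13870781386) (nat_lit 380) (nat_lit 33659371036) (nat_lit 76) (nat_lit 22908553597) (nat_lit 87) (nat_lit 5) (nat_lit 92) (nat_lit 5) (nat_lit 88) (nat_lit 5) (nat_lit 422) (nat_lit 360) (nat_lit 118)) (XT.nd (nat_lit 78) (nat_lit 0) (nat_lit 0) (XT.lf (nat_lit 0) (nat_lit 3044145243) (nat_lit 228) (nat_lit 25021503611) (nat_lit 304) (nat_lit 43779668510) (nat_lit 84) (nat_lit 5) (nat_lit 87) (nat_lit 5) (nat_lit 88) (nat_lit 5) (nat_lit 423) (nat_lit 360) (nat_lit 117)) (XT.lf (nat_lit 0) (nat_lit 41537051973) (nat_lit 228) (nat_lit 1488122395) (nat_lit 304) (nat_lit 30258788676) (nat_lit 84) (nat_lit 5) (nat_lit 87) (nat_lit 5) (nat_lit 88) (nat_lit 5) (nat_lit 424) (nat_lit 360) (nat_lit 116)))) (XT.nd (nat_lit 156) (nat_lit 304) (nat_lit 0) (XT.nd (nat_lit 78) (nat_lit 0) (nat_lit 0) (XT.lf (nat_lit 0) (nat_lit 6321967390)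 (nat_lit 228) (nat_lit 52389932020) (nat_lit 304) (nat_lit 16045516617) (nat_lit 81) (nat_lit 5) (nat_lit 84) (nat_lit 5) (nat_lit 85) (nat_lit 5) (nat_lit 425) (nat_lit 360) (nat_lit 115)) (XT.lf (nat_lit 0) (nat_lit 46167006329) (nat_lit 228) (nat_lit 29036349780) (nat_lit 304) (nat_lit 1061692930) (nat_lit 81) (nat_lit 5) (nat_lit 84) (nat_lit 5) (nat_lit 85) (nat_lit 5) (nat_lit 426) (nat_lit 360) (nat_lit 114))) (XT.nd (nat_lit 41730) (nat_lit 0) (nat_lit 12388) (XT.lf (nat_lit 0) (nat_lit 9433791986) (nat_lit 228) (nat_lit 4747073206) (nat_lit 304) (nat_lit 63630211825) (nat_lit 77) (nat_lit 5) (nat_lit 80) (nat_lit 5) (nat_lit 81) (nat_lit 5) (nat_lit 427) (nat_lit 360) (nat_lit 113)) (XT.lf (nat_lit 0) (nat_lit 5810145011) (nat_lit 0) (nat_lit 5810145011) (nat_lit 1140) (nat_lit 782781229) (nat_lit 240) (nat_lit 5) (nat_lit 240) (nat_lit 3) (nat_lit 255) (nat_lit 3) (nat_lit 361) (nat_lit 361) (nat_lit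 178)))))) (XT.nd (nat_lit 468) (nat_lit 0) (nat_lit 76) (XT.nd (nat_lit 234) (nat_lit 1140) (nat_lit 0) (XT.nd (nat_lit 78) (nat_lit 0) (nat_lit 0) (XT.lf (nat_lit 0) (nat_lit 23693148318) (nat_lit 1140) (nat_lit 1443187319) (nat_lit 1216) (nat_lit 38712168) (nat_lit 240) (nat_lit 5) (nat_lit 255) (nat_lit 3) (nat_lit 256) (nat_lit 5) (nat_lit 362) (nat_lit 361) (nat_lit 177)) (XT.nd (nat_lit 78) (nat_lit 0) (nat_lit 0) (XT.lf (nat_lit 76) (nat_lit 10744198862) (nat_lit 0) (nat_lit 13629403954) (nat_lit 1216) (nat_lit 1174990830) (nat_lit 241) (nat_lit 5) (nat_lit 240) (nat_lit 5) (nat_lit 256) (nat_lit 5) (nat_lit 363) (nat_lit 361) (nat_lit 176)) (XT.lf (nat_lit 76) (nat_lit 23324647197) (nat_lit 0) (nat_lit 1760470675) (nat_lit 1216) (nat_lit 847911159) (nat_lit 241) (nat_lit 5) (nat_lit 240) (nat_lit 5) (nat_lit 256) (nat_lit 5) (nat_lit 364) (nat_lit 361) (nat_lit 175)))) (XT.nd (nat_lit 78) (nat_lit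 1216) (nat_lit 0) (XT.lf (nat_lit 76) (nat_lit 10046753954) (nat_lit 0) (nat_lit 15964596007) (nat_lit 1216) (nat_lit 311848875) (nat_lit 242) (nat_lit 5) (nat_lit 241) (nat_lit 5) (nat_lit 257) (nat_lit 5) (nat_lit 365) (nat_lit 361) (nat_lit 174)) (XT.nd (nat_lit 78) (nat_lit 0) (nat_lit 76) (XT.lf (nat_lit 0) (nat_lit 275891941) (nat_lit 1216) (nat_lit 3611541135) (nat_lit 1292) (nat_lit 22836365151) (nat_lit 225) (nat_lit 5) (nat_lit 241) (nat_lit 5) (nat_lit 242) (nat_lit 5) (nat_lit 366) (nat_lit 361) (nat_lit 173)) (XT.lf (nat_lit 0) (nat_lit 1046959710) (nat_lit 1216) (nat_lit 17601173729) (nat_lit 1292) (nat_lit 8483032946) (nat_lit 226) (nat_lit 5) (nat_lit 242) (nat_lit 5) (nat_lit 243) (nat_lit 5) (nat_lit 367) (nat_lit 361) (nat_lit 172))))) (XT.nd (nat_lit 234) (nat_lit 0) (nat_lit 152) (XT.nd (nat_lit 78) (nat_lit 0) (nat_lit 76) (XT.lf (nat_lit 0) (nat_lit 1912941642) (nat_lit 1216) (nat_lit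 4451010335) (nat_lit 1292) (nat_lit 21184652371) (nat_lit 226) (nat_lit 5) (nat_lit 242) (nat_lit 5) (nat_lit 243) (nat_lit 5) (nat_lit 368) (nat_lit 361) (nat_lit 171)) (XT.nd (nat_lit 78) (nat_lit 0) (nat_lit 0) (XT.lf (nat_lit 0) (nat_lit 2951945151) (nat_lit 1216) (nat_lit 18764983729) (nat_lit 1292) (nat_lit 6257227465) (nat_lit 227) (nat_lit 5) (nat_lit 243) (nat_lit 5) (nat_lit 244) (nat_lit 5) (nat_lit 369) (nat_lit 361) (nat_lit 170)) (XT.lf (nat_lit 0) (nat_lit 4127174577) (nat_lit 1216) (nat_lit 5106507089) (nat_lit 1292) (nat_lit 19175643659) (nat_lit 227) (nat_lit 5) (nat_lit 243) (nat_lit 5) (nat_lit 244) (nat_lit 5) (nat_lit 370) (nat_lit 361) (nat_lit 169)))) (XT.nd (nat_lit 156) (nat_lit 0) (nat_lit 76) (XT.nd (nat_lit 78) (nat_lit 0) (nat_lit 0) (XT.lf (nat_lit 0) (nat_lit 5457966964) (nat_lit 1216) (nat_lit 19752955572) (nat_lit 1292) (nat_lit 3643019691) (nat_lit 228) (nat_lit 5) (nat_lit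 244) (nat_lit 5) (nat_lit 245) (nat_lit 5) (nat_lit 371) (nat_lit 361) (nat_lit 168)) (XT.lf (nat_lit 0) (nat_lit 6969016371) (nat_lit 1216) (nat_lit 5565244978) (nat_lit 1292) (nat_lit 16773428266) (nat_lit 228) (nat_lit 5) (nat_lit 244) (nat_lit 5) (nat_lit 245) (nat_lit 5) (nat_lit 372) (nat_lit 361) (nat_lit 167))) (XT.nd (nat_lit 78) (nat_lit 0) (nat_lit 0) (XT.lf (nat_lit 0) (nat_lit 8616918607) (nat_lit 1216) (nat_lit 20552543224) (nat_lit 1292) (nat_lit 602843872) (nat_lit 229) (nat_lit 5) (nat_lit 245) (nat_lit 5) (nat_lit 246) (nat_lit 5) (nat_lit 373) (nat_lit 361) (nat_lit 166)) (XT.lf (nat_lit 0) (nat_lit 10492115656) (nat_lit 1216) (nat_lit 5813783529) (nat_lit 1292) (nat_lit 13939627218) (nat_lit 229) (nat_lit 5) (nat_lit 245) (nat_lit 5) (nat_lit 246) (nat_lit 5) (nat_lit 374) (nat_lit 361) (nat_lit 165))))))) (XT.nd (nat_lit 1014) (nat_lit 3344) (nat_lit 0) (XT.nd (nat_lit 468) (nat_lit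 2356) (nat_lit 0) (XT.nd (nat_lit 234) (nat_lit 1064) (nat_lit 0) (XT.nd (nat_lit 78) (nat_lit 0) (nat_lit 76) (XT.lf (nat_lit 76) (nat_lit 9551233050) (nat_lit 0) (nat_lit 2961236862) (nat_lit 1292) (nat_lit 18217808583) (nat_lit 230) (nat_lit 5) (nat_lit 229) (nat_lit 5) (nat_lit 246) (nat_lit 5) (nat_lit 375) (nat_lit 361) (nat_lit 164)) (XT.nd (nat_lit 78) (nat_lit 0) (nat_lit 0) (XT.lf (nat_lit 0) (nat_lit 14753541691) (nat_lit 1216) (nat_lit 5838031627) (nat_lit 1292) (nat_lit 10633198379) (nat_lit 230) (nat_lit 5) (nat_lit 246) (nat_lit 5) (nat_lit 247) (nat_lit 5) (nat_lit 376) (nat_lit 361) (nat_lit 163)) (XT.lf (nat_lit 76) (nat_lit 10129265190) (nat_lit 0) (nat_lit 7056508757) (nat_lit 1292) (nat_lit 14544609605) (nat_lit 231) (nat_lit 5) (nat_lit 230) (nat_lit 5) (nat_lit 247) (nat_lit 5) (nat_lit 377) (nat_lit 361) (nat_lit 162)))) (XT.nd (nat_lit 78) (nat_lit 1216) (nat_lit 0) (XT.lf (nat_lit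 0) (nat_lit 19813991854) (nat_lit 1216) (nat_lit 5623254244) (nat_lit 76) (nat_lit 6810228757) (nat_lit 231) (nat_lit 5) (nat_lit 247) (nat_lit 5) (nat_lit 232) (nat_lit 5) (nat_lit 378) (nat_lit 361) (nat_lit 161)) (XT.nd (nat_lit 78) (nat_lit 0) (nat_lit 0) (XT.lf (nat_lit 0) (nat_lit 10975977561) (nat_lit 1216) (nat_lit 11717834777) (nat_lit 1292) (nat_lit 10081085487) (nat_lit 215) (nat_lit 5) (nat_lit 231) (nat_lit 5) (nat_lit 232) (nat_lit 5) (nat_lit 379) (nat_lit 361) (nat_lit 160)) (XT.lf (nat_lit 0) (nat_lit 25738009507) (nat_lit 1292) (nat_lit 5154083099) (nat_lit 76) (nat_lit 2423712974) (nat_lit 215) (nat_lit 5) (nat_lit 232) (nat_lit 5) (nat_lit 216) (nat_lit 5) (nat_lit 380) (nat_lit 361) (nat_lit 159))))) (XT.nd (nat_lit 234) (nat_lit 1140) (nat_lit 0) (XT.nd (nat_lit 78) (nat_lit 608) (nat_lit 0) (XT.lf (nat_lit 0) (nat_lit 12108079791) (nat_lit 608) (nat_lit 16995375073) (nat_lit 684)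 (nat_lit 4762589551) (nat_lit 207) (nat_lit 5) (nat_lit 215) (nat_lit 5) (nat_lit 216) (nat_lit 5) (nat_lit 381) (nat_lit 361) (nat_lit 158)) (XT.nd (nat_lit 78) (nat_lit 608) (nat_lit 0) (XT.lf (nat_lit 0) (nat_lit 29991510037) (nat_lit 608) (nat_lit 2627964290) (nat_lit 684) (nat_lit 1811829236) (nat_lit 207) (nat_lit 5) (nat_lit 215) (nat_lit 5) (nat_lit 216) (nat_lit 5) (nat_lit 382) (nat_lit 361) (nat_lit 157)) (XT.lf (nat_lit 0) (nat_lit 1450734629) (nat_lit 608) (nat_lit 21477455845) (nat_lit 76) (nat_lit 12077560443) (nat_lit 199) (nat_lit 5) (nat_lit 207) (nat_lit 5) (nat_lit 200) (nat_lit 5) (nat_lit 383) (nat_lit 361) (nat_lit 156)))) (XT.nd (nat_lit 156) (nat_lit 532) (nat_lit 0) (XT.nd (nat_lit 78) (nat_lit 608) (nat_lit 0) (XT.lf (nat_lit 0) (nat_lit 4843716276) (nat_lit 608) (nat_lit 3516336647) (nat_lit 76) (nat_lit 27234773242) (nat_lit 199) (nat_lit 5) (nat_lit 207) (nat_lit 5) (nat_lit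 200) (nat_lit 5) (nat_lit 384) (nat_lit 361) (nat_lit 155)) (XT.lf (nat_lit 0) (nat_lit 8548424022) (nat_lit 684) (nat_lit 20983012179) (nat_lit 76) (nat_lit 6663840675) (nat_lit 191) (nat_lit 5) (nat_lit 200) (nat_lit 5) (nat_lit 192) (nat_lit 5) (nat_lit 385) (nat_lit 361) (nat_lit 154))) (XT.nd (nat_lit 78) (nat_lit 532) (nat_lit 0) (XT.lf (nat_lit 0) (nat_lit 12480679233) (nat_lit 684) (nat_lit 2323260173) (nat_lit 76) (nat_lit 22006310785) (nat_lit 191) (nat_lit 5) (nat_lit 200) (nat_lit 5) (nat_lit 192) (nat_lit 5) (nat_lit 386) (nat_lit 361) (nat_lit 153)) (XT.lf (nat_lit 0) (nat_lit 16699520780) (nat_lit 608) (nat_lit 20213611412) (nat_lit 76) (nat_lit 525483184) (nat_lit 184) (nat_lit 5) (nat_lit 192) (nat_lit 5) (nat_lit 185) (nat_lit 5) (nat_lit 387) (nat_lit 361) (nat_lit 152)))))) (XT.nd (nat_lit 546) (nat_lit 1368) (nat_lit 0) (XT.nd (nat_lit 234) (nat_lit 988) (nat_lit 0) (XT.nd (nat_lit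 78) (nat_lit 988) (nat_lit 0) (XT.lf (nat_lit 0) (nat_lit 21213073942) (nat_lit 608) (nat_lit 826835204) (nat_lit 76) (nat_lit 16040879175) (nat_lit 184) (nat_lit 5) (nat_lit 192) (nat_lit 5) (nat_lit 185) (nat_lit 5) (nat_lit 388) (nat_lit 361) (nat_lit 151)) (XT.nd (nat_lit 78) (nat_lit 456) (nat_lit 0) (XT.lf (nat_lit 0) (nat_lit 19520278391) (nat_lit 532) (nat_lit 6527337967) (nat_lit 608) (nat_lit 12689043779) (nat_lit 177) (nat_lit 5) (nat_lit 184) (nat_lit 5) (nat_lit 185) (nat_lit 5) (nat_lit 389) (nat_lit 361) (nat_lit 150)) (XT.lf (nat_lit 0) (nat_lit 1009349530) (nat_lit 456) (nat_lit 30124804849) (nat_lit 532) (nat_lit 8274846074) (nat_lit 171) (nat_lit 5) (nat_lit 177) (nat_lit 5) (nat_lit 178) (nat_lit 5) (nat_lit 390) (nat_lit 361) (nat_lit 149)))) (XT.nd (nat_lit 156) (nat_lit 456) (nat_lit 0) (XT.nd (nat_lit 78) (nat_lit 532) (nat_lit 0) (XT.lf (nat_lit 0) (nat_lit 22167662262) (nat_lit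 456) (nat_lit 14461685034) (nat_lit 532) (nat_lit 3464483014) (nat_lit 171) (nat_lit 5) (nat_lit 177) (nat_lit 5) (nat_lit 178) (nat_lit 5) (nat_lit 391) (nat_lit 361) (nat_lit 148)) (XT.lf (nat_lit 0) (nat_lit 1506511412) (nat_lit 532) (nat_lit 37606803618) (nat_lit 76) (nat_lit 1684099342) (nat_lit 164) (nat_lit 5) (nat_lit 171) (nat_lit 5) (nat_lit 165) (nat_lit 5) (nat_lit 392) (nat_lit 361) (nat_lit 147))) (XT.nd (nat_lit 78) (nat_lit 456) (nat_lit 0) (XT.lf (nat_lit 0) (nat_lit 6881088211) (nat_lit 532) (nat_lit 16389797345) (nat_lit 76) (nat_lit 18240469790) (nat_lit 164) (nat_lit 5) (nat_lit 171) (nat_lit 5) (nat_lit 165) (nat_lit 5) (nat_lit 393) (nat_lit 361) (nat_lit 146)) (XT.lf (nat_lit 0) (nat_lit 5570274779) (nat_lit 456) (nat_lit 6898316891) (nat_lit 532) (nat_lit 29776573170) (nat_lit 158) (nat_lit 5) (nat_lit 164) (nat_lit 5) (nat_lit 165) (nat_lit 5) (nat_lit 394) (nat_lit 361) (nat_lit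 145))))) (XT.nd (nat_lit 234) (nat_lit 912) (nat_lit 0) (XT.nd (nat_lit 78) (nat_lit 456) (nat_lit 0) (XT.lf (nat_lit 0) (nat_lit 18484832786) (nat_lit 532) (nat_lit 14570504306) (nat_lit 76) (nat_lit 9937819094) (nat_lit 158) (nat_lit 5) (nat_lit 165) (nat_lit 5) (nat_lit 159) (nat_lit 5) (nat_lit 395) (nat_lit 361) (nat_lit 144)) (XT.nd (nat_lit 78) (nat_lit 0) (nat_lit 0) (XT.lf (nat_lit 0) (nat_lit 8288339259) (nat_lit 456) (nat_lit 16539423055) (nat_lit 532) (nat_lit 18931439839) (nat_lit 152) (nat_lit 5) (nat_lit 158) (nat_lit 5) (nat_lit 159) (nat_lit 5) (nat_lit 396) (nat_lit 361) (nat_lit 143)) (XT.lf (nat_lit 0) (nat_lit 31512363473) (nat_lit 532) (nat_lit 12420317941) (nat_lit 76) (nat_lit 611007464) (nat_lit 152) (nat_lit 5) (nat_lit 159) (nat_lit 5) (nat_lit 153) (nat_lit 5) (nat_lit 397) (nat_lit 361) (nat_lit 142)))) (XT.nd (nat_lit 156) (nat_lit 456) (nat_lit 0) (XT.nd (nat_lit 78) (nat_lit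 76) (nat_lit 0) (XT.lf (nat_lit 0) (nat_lit 11377935457) (nat_lit 380) (nat_lit 27291002929) (nat_lit 456) (nat_lit 6674629609) (nat_lit 147) (nat_lit 5) (nat_lit 152) (nat_lit 5) (nat_lit 153) (nat_lit 5) (nat_lit 398) (nat_lit 361) (nat_lit 141)) (XT.lf (nat_lit 0) (nat_lit 232116) (nat_lit 456) (nat_lit 10021048461) (nat_lit 76) (nat_lit 36142450947) (nat_lit 146) (nat_lit 5) (nat_lit 152) (nat_lit 5) (nat_lit 147) (nat_lit 5) (nat_lit 399) (nat_lit 361) (nat_lit 140))) (XT.nd (nat_lit 78) (nat_lit 0) (nat_lit 0) (XT.lf (nat_lit 0) (nat_lit 6959156629) (nat_lit 532) (nat_lit 32215197255) (nat_lit 76) (nat_lit 7825625190) (nat_lit 140) (nat_lit 5) (nat_lit 147) (nat_lit 5) (nat_lit 141) (nat_lit 5) (nat_lit 400) (nat_lit 361) (nat_lit 139)) (XT.lf (nat_lit 0) (nat_lit 14326657213) (nat_lit 532) (nat_lit 7420345954) (nat_lit 76) (nat_lit 26108317401) (nat_lit 140) (nat_lit 5) (nat_lit 147) (nat_lit 5)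 (nat_lit 141) (nat_lit 5) (nat_lit 401) (nat_lit 361) (nat_lit 138))))))))
noncomputable def xc229 : XT := (XT.nd (nat_lit 43836) (nat_lit 0) (nat_lit 7828) (XT.nd (nat_lit 1014) (nat_lit 1976) (nat_lit 0) (XT.nd (nat_lit 468) (nat_lit 988) (nat_lit 0) (XT.nd (nat_lit 234) (nat_lit 760) (nat_lit 0) (XT.nd (nat_lit 78) (nat_lit 380) (nat_lit 0) (XT.lf (nat_lit 0) (nat_lit 18476907871) (nat_lit 380) (nat_lit 3614325979) (nat_lit 456) (nat_lit 26639807671) (nat_lit 135) (nat_lit 5) (nat_lit 140) (nat_lit 5) (nat_lit 141) (nat_lit 5) (nat_lit 402) (nat_lit 361) (nat_lit 137)) (XT.nd (nat_lit 78) (nat_lit 380) (nat_lit 0) (XT.lf (nat_lit 0) (nat_lit 30307670889) (nat_lit 456) (nat_lit 4475144273) (nat_lit 76) (nat_lit 14843651970) (nat_lit 135) (nat_lit 5) (nat_lit 141) (nat_lit 5) (nat_lit 136) (nat_lit 5) (nat_lit 403) (nat_lit 361) (nat_lit 136)) (XT.lf (nat_lit 0) (nat_lit 22478099825) (nat_lit 380) (nat_lit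 16542866587) (nat_lit 456) (nat_lit 11520278840) (nat_lit 130) (nat_lit 5) (nat_lit 135) (nat_lit 5) (nat_lit 136) (nat_lit 5) (nat_lit 404) (nat_lit 361) (nat_lit 135)))) (XT.nd (nat_lit 78) (nat_lit 760) (nat_lit 0) (XT.lf (nat_lit 0) (nat_lit 48061398862) (nat_lit 456) (nat_lit 1174433775) (nat_lit 76) (nat_lit 2245662620) (nat_lit 130) (nat_lit 5) (nat_lit 136) (nat_lit 5) (nat_lit 131) (nat_lit 5) (nat_lit 405) (nat_lit 361) (nat_lit 134)) (XT.nd (nat_lit 78) (nat_lit 380) (nat_lit 0) (XT.lf (nat_lit 0) (nat_lit 5251934709) (nat_lit 380) (nat_lit 25609073070) (nat_lit 76) (nat_lit 21574778599) (nat_lit 125) (nat_lit 5) (nat_lit 130) (nat_lit 5) (nat_lit 126) (nat_lit 5) (nat_lit 406) (nat_lit 361) (nat_lit 133)) (XT.lf (nat_lit 0) (nat_lit 2282242427) (nat_lit 380) (nat_lit 11865637734) (nat_lit 456) (nat_lit 39268836007) (nat_lit 120) (nat_lit 5) (nat_lit 125) (nat_lit 5) (nat_lit 126) (nat_lit 5)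 (nat_lit 407) (nat_lit 361) (nat_lit 132))))) (XT.nd (nat_lit 234) (nat_lit 684) (nat_lit 0) (XT.nd (nat_lit 78) (nat_lit 304) (nat_lit 0) (XT.lf (nat_lit 0) (nat_lit 23644475835) (nat_lit 456) (nat_lit 22962581488) (nat_lit 76) (nat_lit 7810003978) (nat_lit 120) (nat_lit 5) (nat_lit 126) (nat_lit 5) (nat_lit 121) (nat_lit 5) (nat_lit 408) (nat_lit 361) (nat_lit 131)) (XT.nd (nat_lit 78) (nat_lit 0) (nat_lit 0) (XT.lf (nat_lit 0) (nat_lit 6053212406) (nat_lit 304) (nat_lit 27547063405) (nat_lit 380) (nat_lit 21841912373) (nat_lit 116) (nat_lit 5) (nat_lit 120) (nat_lit 5) (nat_lit 121) (nat_lit 5) (nat_lit 409) (nat_lit 361) (nat_lit 130)) (XT.lf (nat_lit 0) (nat_lit 36408315549) (nat_lit 304) (nat_lit 7676970630) (nat_lit 380) (nat_lit 12405867173) (nat_lit 116) (nat_lit 5) (nat_lit 120) (nat_lit 5) (nat_lit 121) (nat_lit 5) (nat_lit 410) (nat_lit 361) (nat_lit 129)))) (XT.nd (nat_lit 156) (nat_lit 304)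 (nat_lit 0) (XT.nd (nat_lit 78) (nat_lit 76) (nat_lit 0) (XT.lf (nat_lit 0) (nat_lit 10176267098) (nat_lit 304) (nat_lit 44928031527) (nat_lit 380) (nat_lit 2460705853) (nat_lit 112) (nat_lit 5) (nat_lit 116) (nat_lit 5) (nat_lit 117) (nat_lit 5) (nat_lit 411) (nat_lit 361) (nat_lit 128)) (XT.lf (nat_lit 0) (nat_lit 7910454976) (nat_lit 380) (nat_lit 17064857403) (nat_lit 76) (nat_lit 33685129425) (nat_lit 111) (nat_lit 5) (nat_lit 116) (nat_lit 5) (nat_lit 112) (nat_lit 5) (nat_lit 412) (nat_lit 361) (nat_lit 127))) (XT.nd (nat_lit 78) (nat_lit 0) (nat_lit 0) (XT.lf (nat_lit 0) (nat_lit 14424031442) (nat_lit 304) (nat_lit 4256652444) (nat_lit 380) (nat_lit 41103206240) (nat_lit 107) (nat_lit 5) (nat_lit 111) (nat_lit 5) (nat_lit 112) (nat_lit 5) (nat_lit 413) (nat_lit 361) (nat_lit 126)) (XT.lf (nat_lit 0) (nat_lit 30111017760) (nat_lit 380) (nat_lit 13896219959) (nat_lit 76) (nat_lit 16923694728) (nat_lit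 107) (nat_lit 5) (nat_lit 112) (nat_lit 5) (nat_lit 108) (nat_lit 5) (nat_lit 414) (nat_lit 361) (nat_lit 125)))))) (XT.nd (nat_lit 468) (nat_lit 1064) (nat_lit 0) (XT.nd (nat_lit 234) (nat_lit 304) (nat_lit 0) (XT.nd (nat_lit 78) (nat_lit 304) (nat_lit 0) (XT.lf (nat_lit 0) (nat_lit 18834950031) (nat_lit 304) (nat_lit 23271298726) (nat_lit 380) (nat_lit 19999478145) (nat_lit 103) (nat_lit 5) (nat_lit 107) (nat_lit 5) (nat_lit 108) (nat_lit 5) (nat_lit 415) (nat_lit 361) (nat_lit 124)) (XT.nd (nat_lit 78) (nat_lit 304) (nat_lit 0) (XT.lf (nat_lit 0) (nat_lit 52831160825) (nat_lit 304) (nat_lit 1769307826) (nat_lit 380) (nat_lit 8711123045) (nat_lit 103) (nat_lit 5) (nat_lit 107) (nat_lit 5) (nat_lit 108) (nat_lit 5) (nat_lit 416) (nat_lit 361) (nat_lit 123)) (XT.lf (nat_lit 0) (nat_lit 3284304409) (nat_lit 304) (nat_lit 41017531405) (nat_lit 76) (nat_lit 20238196549) (nat_lit 99) (nat_lit 5) (nat_lit 103)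 (nat_lit 5) (nat_lit 100) (nat_lit 5) (nat_lit 417) (nat_lit 361) (nat_lit 122)))) (XT.nd (nat_lit 78) (nat_lit 304) (nat_lit 0) (XT.lf (nat_lit 0) (nat_lit 15587749795) (nat_lit 304) (nat_lit 7148345027) (nat_lit 76) (nat_lit 43062947187) (nat_lit 99) (nat_lit 5) (nat_lit 103) (nat_lit 5) (nat_lit 100) (nat_lit 5) (nat_lit 418) (nat_lit 361) (nat_lit 121)) (XT.nd (nat_lit 78) (nat_lit 0) (nat_lit 0) (XT.lf (nat_lit 0) (nat_lit 28287214466) (nat_lit 304) (nat_lit 243874314) (nat_lit 380) (nat_lit 38556609871) (nat_lit 95) (nat_lit 5) (nat_lit 99) (nat_lit 5) (nat_lit 100) (nat_lit 5) (nat_lit 419) (nat_lit 361) (nat_lit 120)) (XT.lf (nat_lit 0) (nat_lit 42154865352) (nat_lit 380) (nat_lit 3703239891) (nat_lit 76) (nat_lit 22548146027) (nat_lit 95) (nat_lit 5) (nat_lit 100) (nat_lit 5) (nat_lit 96) (nat_lit 5) (nat_lit 420) (nat_lit 361) (nat_lit 119))))) (XT.nd (nat_lit 234) (nat_lit 456) (nat_lit 0) (XT.nd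 (nat_lit 78) (nat_lit 380) (nat_lit 0) (XT.lf (nat_lit 0) (nat_lit 33088533549) (nat_lit 228) (nat_lit 23418223368) (nat_lit 304) (nat_lit 13248021889) (nat_lit 92) (nat_lit 5) (nat_lit 95) (nat_lit 5) (nat_lit 96) (nat_lit 5) (nat_lit 421) (nat_lit 361) (nat_lit 118)) (XT.nd (nat_lit 78) (nat_lit 304) (nat_lit 0) (XT.lf (nat_lit 0) (nat_lit 179295374) (nat_lit 304) (nat_lit 86091308) (nat_lit 76) (nat_lit 70877233196) (nat_lit 91) (nat_lit 5) (nat_lit 95) (nat_lit 5) (nat_lit 92) (nat_lit 5) (nat_lit 422) (nat_lit 361) (nat_lit 117)) (XT.lf (nat_lit 0) (nat_lit 14340972433) (nat_lit 380) (nat_lit 34584597122) (nat_lit 76) (nat_lit 23624657557) (nat_lit 87) (nat_lit 5) (nat_lit 92) (nat_lit 5) (nat_lit 88) (nat_lit 5) (nat_lit 423) (nat_lit 361) (nat_lit 116)))) (XT.nd (nat_lit 156) (nat_lit 228) (nat_lit 0) (XT.nd (nat_lit 78) (nat_lit 0) (nat_lit 0) (XT.lf (nat_lit 0) (nat_lit 3219195674) (nat_lit 228)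 (nat_lit 25741720292) (nat_lit 304) (nat_lit 45038144455) (nat_lit 84) (nat_lit 5) (nat_lit 87) (nat_lit 5) (nat_lit 88) (nat_lit 5) (nat_lit 424) (nat_lit 361) (nat_lit 115)) (XT.lf (nat_lit 0) (nat_lit 42864450983) (nat_lit 228) (nat_lit 1503223904) (nat_lit 304) (nat_lit 31113237666) (nat_lit 84) (nat_lit 5) (nat_lit 87) (nat_lit 5) (nat_lit 88) (nat_lit 5) (nat_lit 425) (nat_lit 361) (nat_lit 114))) (XT.nd (nat_lit 41886) (nat_lit 0) (nat_lit 12084) (XT.lf (nat_lit 0) (nat_lit 6593389729) (nat_lit 228) (nat_lit 53931166472) (nat_lit 304) (nat_lit 16474026785) (nat_lit 81) (nat_lit 5) (nat_lit 84) (nat_lit 5) (nat_lit 85) (nat_lit 5) (nat_lit 426) (nat_lit 361) (nat_lit 113)) (XT.lf (nat_lit 0) (nat_lit 6035741544) (nat_lit 0) (nat_lit 6035741544) (nat_lit 1140) (nat_lit 700535374) (nat_lit 240) (nat_lit 5) (nat_lit 240) (nat_lit 3) (nat_lit 255) (nat_lit 3) (nat_lit 362) (nat_lit 362) (nat_lit 176)))))))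 (XT.nd (nat_lit 1014) (nat_lit 3116) (nat_lit 0) (XT.nd (nat_lit 468) (nat_lit 0) (nat_lit 76) (XT.nd (nat_lit 234) (nat_lit 1140) (nat_lit 0) (XT.nd (nat_lit 78) (nat_lit 0) (nat_lit 0) (XT.lf (nat_lit 0) (nat_lit 24543815416) (nat_lit 0) (nat_lit 58929375) (nat_lit 1140) (nat_lit 1321459522) (nat_lit 240) (nat_lit 5) (nat_lit 240) (nat_lit 3) (nat_lit 255) (nat_lit 3) (nat_lit 363) (nat_lit 362) (nat_lit 175)) (XT.nd (nat_lit 78) (nat_lit 0) (nat_lit 0) (XT.lf (nat_lit 76) (nat_lit 11172139642) (nat_lit 0) (nat_lit 14126148200) (nat_lit 1216) (nat_lit 1010832251) (nat_lit 241) (nat_lit 5) (nat_lit 240) (nat_lit 5) (nat_lit 256) (nat_lit 5) (nat_lit 364) (nat_lit 362) (nat_lit 174)) (XT.lf (nat_lit 76) (nat_lit 24126925268) (nat_lit 0) (nat_lit 1898587832) (nat_lit 1216) (nat_lit 679748199) (nat_lit 241) (nat_lit 5) (nat_lit 240) (nat_lit 5) (nat_lit 256) (nat_lit 5) (nat_lit 365) (nat_lit 362) (nat_lit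 173)))) (XT.nd (nat_lit 78) (nat_lit 1216) (nat_lit 0) (XT.lf (nat_lit 76) (nat_lit 10456204038) (nat_lit 0) (nat_lit 16518099512) (nat_lit 1216) (nat_lit 132993098) (nat_lit 242) (nat_lit 5) (nat_lit 241) (nat_lit 5) (nat_lit 257) (nat_lit 5) (nat_lit 366) (nat_lit 362) (nat_lit 172)) (XT.nd (nat_lit 78) (nat_lit 0) (nat_lit 76) (XT.lf (nat_lit 0) (nat_lit 463332353) (nat_lit 1216) (nat_lit 3611308323) (nat_lit 1292) (nat_lit 23445383702) (nat_lit 225) (nat_lit 5) (nat_lit 241) (nat_lit 5) (nat_lit 242) (nat_lit 5) (nat_lit 367) (nat_lit 362) (nat_lit 171)) (XT.lf (nat_lit 0) (nat_lit 1252698785) (nat_lit 1216) (nat_lit 18015686927) (nat_lit 1292) (nat_lit 8671376159) (nat_lit 226) (nat_lit 5) (nat_lit 242) (nat_lit 5) (nat_lit 243) (nat_lit 5) (nat_lit 368) (nat_lit 362) (nat_lit 170))))) (XT.nd (nat_lit 234) (nat_lit 0) (nat_lit 152) (XT.nd (nat_lit 78) (nat_lit 0) (nat_lit 76) (XT.lf (nat_lit 0) (nat_lit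 2139582594) (nat_lit 1216) (nat_lit 4474325098) (nat_lit 1292) (nat_lit 21755970800) (nat_lit 226) (nat_lit 5) (nat_lit 242) (nat_lit 5) (nat_lit 243) (nat_lit 5) (nat_lit 369) (nat_lit 362) (nat_lit 169)) (XT.nd (nat_lit 78) (nat_lit 0) (nat_lit 0) (XT.lf (nat_lit 0) (nat_lit 3205335004) (nat_lit 1216) (nat_lit 19213193185) (nat_lit 1292) (nat_lit 6389804595) (nat_lit 227) (nat_lit 5) (nat_lit 243) (nat_lit 5) (nat_lit 244) (nat_lit 5) (nat_lit 370) (nat_lit 362) (nat_lit 168)) (XT.lf (nat_lit 0) (nat_lit 4411020396) (nat_lit 1216) (nat_lit 5148304189) (nat_lit 1292) (nat_lit 19697379285) (nat_lit 227) (nat_lit 5) (nat_lit 243) (nat_lit 5) (nat_lit 244) (nat_lit 5) (nat_lit 371) (nat_lit 362) (nat_lit 167)))) (XT.nd (nat_lit 156) (nat_lit 0) (nat_lit 76) (XT.nd (nat_lit 78) (nat_lit 0) (nat_lit 0) (XT.lf (nat_lit 0) (nat_lit 5777692427) (nat_lit 1216) (nat_lit 20230004625) (nat_lit 1292) (nat_lit 3707086472)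 (nat_lit 228) (nat_lit 5) (nat_lit 244) (nat_lit 5) (nat_lit 245) (nat_lit 5) (nat_lit 372) (nat_lit 362) (nat_lit 166)) (XT.lf (nat_lit 0) (nat_lit 7329530022) (nat_lit 1216) (nat_lit 5620027944) (nat_lit 1292) (nat_lit 17232724504) (nat_lit 228) (nat_lit 5) (nat_lit 244) (nat_lit 5) (nat_lit 245) (nat_lit 5) (nat_lit 373) (nat_lit 362) (nat_lit 165))) (XT.nd (nat_lit 78) (nat_lit 0) (nat_lit 0) (XT.lf (nat_lit 0) (nat_lit 9023170167) (nat_lit 1216) (nat_lit 21053154193) (nat_lit 1292) (nat_lit 584626408) (nat_lit 229) (nat_lit 5) (nat_lit 245) (nat_lit 5) (nat_lit 246) (nat_lit 5) (nat_lit 374) (nat_lit 362) (nat_lit 164)) (XT.lf (nat_lit 0) (nat_lit 10950319904) (nat_lit 1216) (nat_lit 5875609339) (nat_lit 1292) (nat_lit 14322570616) (nat_lit 229) (nat_lit 5) (nat_lit 245) (nat_lit 5) (nat_lit 246) (nat_lit 5) (nat_lit 375) (nat_lit 362) (nat_lit 163)))))) (XT.nd (nat_lit 546) (nat_lit 1748) (nat_lit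 0) (XT.nd (nat_lit 234) (nat_lit 1672) (nat_lit 0) (XT.nd (nat_lit 78) (nat_lit 0) (nat_lit 76) (XT.lf (nat_lit 76) (nat_lit 9949253936) (nat_lit 0) (nat_lit 3078924616) (nat_lit 1292) (nat_lit 18619711744) (nat_lit 230) (nat_lit 5) (nat_lit 229) (nat_lit 5) (nat_lit 246) (nat_lit 5) (nat_lit 376) (nat_lit 362) (nat_lit 162)) (XT.nd (nat_lit 78) (nat_lit 0) (nat_lit 0) (XT.lf (nat_lit 0) (nat_lit 15332125819) (nat_lit 1216) (nat_lit 5900495121) (nat_lit 1292) (nat_lit 10924730575) (nat_lit 230) (nat_lit 5) (nat_lit 246) (nat_lit 5) (nat_lit 247) (nat_lit 5) (nat_lit 377) (nat_lit 362) (nat_lit 161)) (XT.lf (nat_lit 76) (nat_lit 10544715919) (nat_lit 0) (nat_lit 7289721107) (nat_lit 1292) (nat_lit 14843783785) (nat_lit 231) (nat_lit 5) (nat_lit 230) (nat_lit 5) (nat_lit 247) (nat_lit 5) (nat_lit 378) (nat_lit 362) (nat_lit 160)))) (XT.nd (nat_lit 156) (nat_lit 608) (nat_lit 0) (XT.nd (nat_lit 78) (nat_lit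 1216) (nat_lit 0) (XT.lf (nat_lit 0) (nat_lit 20537424256) (nat_lit 1216) (nat_lit 5679472400) (nat_lit 76) (nat_lit 6994052890) (nat_lit 231) (nat_lit 5) (nat_lit 247) (nat_lit 5) (nat_lit 232) (nat_lit 5) (nat_lit 379) (nat_lit 362) (nat_lit 159)) (XT.lf (nat_lit 0) (nat_lit 11416633619) (nat_lit 1216) (nat_lit 12084318707) (nat_lit 1292) (nat_lit 10253325796) (nat_lit 215) (nat_lit 5) (nat_lit 231) (nat_lit 5) (nat_lit 232) (nat_lit 5) (nat_lit 380) (nat_lit 362) (nat_lit 158))) (XT.nd (nat_lit 78) (nat_lit 608) (nat_lit 0) (XT.lf (nat_lit 0) (nat_lit 26632656511) (nat_lit 1292) (nat_lit 5196679313) (nat_lit 76) (nat_lit 2482194092) (nat_lit 215) (nat_lit 5) (nat_lit 232) (nat_lit 5) (nat_lit 216) (nat_lit 5) (nat_lit 381) (nat_lit 362) (nat_lit 157)) (XT.lf (nat_lit 0) (nat_lit 12582250167) (nat_lit 608) (nat_lit 17514313213) (nat_lit 684) (nat_lit 4781789765) (nat_lit 207) (nat_lit 5) (nat_lit 215)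 (nat_lit 5) (nat_lit 216) (nat_lit 5) (nat_lit 382) (nat_lit 362) (nat_lit 156))))) (XT.nd (nat_lit 234) (nat_lit 1140) (nat_lit 0) (XT.nd (nat_lit 78) (nat_lit 608) (nat_lit 0) (XT.lf (nat_lit 0) (nat_lit 30998952408) (nat_lit 608) (nat_lit 2715615731) (nat_lit 684) (nat_lit 1746108898) (nat_lit 207) (nat_lit 5) (nat_lit 215) (nat_lit 5) (nat_lit 216) (nat_lit 5) (nat_lit 383) (nat_lit 362) (nat_lit 155)) (XT.nd (nat_lit 78) (nat_lit 0) (nat_lit 0) (XT.lf (nat_lit 0) (nat_lit 1609546974) (nat_lit 608) (nat_lit 22009162936) (nat_lit 76) (nat_lit 12433688517) (nat_lit 199) (nat_lit 5) (nat_lit 207) (nat_lit 5) (nat_lit 200) (nat_lit 5) (nat_lit 384) (nat_lit 362) (nat_lit 154)) (XT.lf (nat_lit 0) (nat_lit 5100960100) (nat_lit 608) (nat_lit 3512490256) (nat_lit 76) (nat_lit 28045798246) (nat_lit 199) (nat_lit 5) (nat_lit 207) (nat_lit 5) (nat_lit 200) (nat_lit 5) (nat_lit 385) (nat_lit 362) (nat_lit 153))))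 (XT.nd (nat_lit 156) (nat_lit 532) (nat_lit 0) (XT.nd (nat_lit 78) (nat_lit 0) (nat_lit 0) (XT.lf (nat_lit 0) (nat_lit 8914575697) (nat_lit 684) (nat_lit 21500870171) (nat_lit 76) (nat_lit 6862335845) (nat_lit 191) (nat_lit 5) (nat_lit 200) (nat_lit 5) (nat_lit 192) (nat_lit 5) (nat_lit 386) (nat_lit 362) (nat_lit 152)) (XT.lf (nat_lit 0) (nat_lit 12961603449) (nat_lit 684) (nat_lit 2284577033) (nat_lit 76) (nat_lit 22665121419) (nat_lit 191) (nat_lit 5) (nat_lit 200) (nat_lit 5) (nat_lit 192) (nat_lit 5) (nat_lit 387) (nat_lit 362) (nat_lit 151))) (XT.nd (nat_lit 78) (nat_lit 0) (nat_lit 0) (XT.lf (nat_lit 0) (nat_lit 17304967532) (nat_lit 608) (nat_lit 20709537184) (nat_lit 76) (nat_lit 544076374) (nat_lit 184) (nat_lit 5) (nat_lit 192) (nat_lit 5) (nat_lit 185) (nat_lit 5) (nat_lit 388) (nat_lit 362) (nat_lit 150)) (XT.lf (nat_lit 0) (nat_lit 21950884731) (nat_lit 608) (nat_lit 744375629) (nat_lit 76)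 (nat_lit 16524851856) (nat_lit 184) (nat_lit 5) (nat_lit 192) (nat_lit 5) (nat_lit 185) (nat_lit 5) (nat_lit 389) (nat_lit 362) (nat_lit 149))))))))
noncomputable def xc230 : XT := (XT.nd (nat_lit 2028) (nat_lit 1748) (nat_lit 0) (XT.nd (nat_lit 1014) (nat_lit 2508) (nat_lit 0) (XT.nd (nat_lit 468) (nat_lit 1368) (nat_lit 0) (XT.nd (nat_lit 234) (nat_lit 988) (nat_lit 0) (XT.nd (nat_lit 78) (nat_lit 456) (nat_lit 0) (XT.lf (nat_lit 0) (nat_lit 20212099760) (nat_lit 532) (nat_lit 6716430705) (nat_lit 608) (nat_lit 12967189376) (nat_lit 177) (nat_lit 5) (nat_lit 184) (nat_lit 5) (nat_lit 185) (nat_lit 5) (nat_lit 390) (nat_lit 362) (nat_lit 148)) (XT.nd (nat_lit 78) (nat_lit 0) (nat_lit 0) (XT.lf (nat_lit 0) (nat_lit 1147747991) (nat_lit 456) (nat_lit 31018121077) (nat_lit 532) (nat_lit 8422416783) (nat_lit 171) (nat_lit 5) (nat_lit 177) (nat_lit 5) (nat_lit 178) (nat_lit 5) (nat_lit 391) (nat_lit 362) (nat_lit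 147)) (XT.lf (nat_lit 0) (nat_lit 22937661037) (nat_lit 456) (nat_lit 14885411394) (nat_lit 532) (nat_lit 3470675103) (nat_lit 171) (nat_lit 5) (nat_lit 177) (nat_lit 5) (nat_lit 178) (nat_lit 5) (nat_lit 392) (nat_lit 362) (nat_lit 146)))) (XT.nd (nat_lit 78) (nat_lit 456) (nat_lit 0) (XT.lf (nat_lit 0) (nat_lit 1645881901) (nat_lit 532) (nat_lit 38626371405) (nat_lit 76) (nat_lit 1746208903) (nat_lit 164) (nat_lit 5) (nat_lit 171) (nat_lit 5) (nat_lit 165) (nat_lit 5) (nat_lit 393) (nat_lit 362) (nat_lit 145)) (XT.nd (nat_lit 78) (nat_lit 456) (nat_lit 0) (XT.lf (nat_lit 0) (nat_lit 7178953038) (nat_lit 532) (nat_lit 16776019109) (nat_lit 76) (nat_lit 18798932991) (nat_lit 164) (nat_lit 5) (nat_lit 171) (nat_lit 5) (nat_lit 165) (nat_lit 5) (nat_lit 394) (nat_lit 362) (nat_lit 144)) (XT.lf (nat_lit 0) (nat_lit 5841821137) (nat_lit 456) (nat_lit 7090601313) (nat_lit 532) (nat_lit 30577357636) (nat_lit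 158) (nat_lit 5) (nat_lit 164) (nat_lit 5) (nat_lit 165) (nat_lit 5) (nat_lit 395) (nat_lit 362) (nat_lit 143))))) (XT.nd (nat_lit 234) (nat_lit 912) (nat_lit 0) (XT.nd (nat_lit 78) (nat_lit 456) (nat_lit 0) (XT.lf (nat_lit 0) (nat_lit 19126672916) (nat_lit 532) (nat_lit 14903700169) (nat_lit 76) (nat_lit 10249913779) (nat_lit 158) (nat_lit 5) (nat_lit 165) (nat_lit 5) (nat_lit 159) (nat_lit 5) (nat_lit 396) (nat_lit 362) (nat_lit 142)) (XT.nd (nat_lit 78) (nat_lit 0) (nat_lit 0) (XT.lf (nat_lit 0) (nat_lit 8639889886) (nat_lit 456) (nat_lit 17018447009) (nat_lit 532) (nat_lit 19411025234) (nat_lit 152) (nat_lit 5) (nat_lit 158) (nat_lit 5) (nat_lit 159) (nat_lit 5) (nat_lit 397) (nat_lit 362) (nat_lit 141)) (XT.lf (nat_lit 0) (nat_lit 32541138893) (nat_lit 532) (nat_lit 12690644374) (nat_lit 76) (nat_lit 645671581) (nat_lit 152) (nat_lit 5) (nat_lit 159) (nat_lit 5) (nat_lit 153) (nat_lit 5) (nat_lit 398)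 (nat_lit 362) (nat_lit 140)))) (XT.nd (nat_lit 156) (nat_lit 456) (nat_lit 0) (XT.nd (nat_lit 78) (nat_lit 76) (nat_lit 0) (XT.lf (nat_lit 0) (nat_lit 11820553850) (nat_lit 380) (nat_lit 28090401515) (nat_lit 456) (nat_lit 6790419885) (nat_lit 147) (nat_lit 5) (nat_lit 152) (nat_lit 5) (nat_lit 153) (nat_lit 5) (nat_lit 399) (nat_lit 362) (nat_lit 139)) (XT.lf (nat_lit 0) (nat_lit 80628124) (nat_lit 456) (nat_lit 10221710650) (nat_lit 76) (nat_lit 37243854076) (nat_lit 146) (nat_lit 5) (nat_lit 152) (nat_lit 5) (nat_lit 147) (nat_lit 5) (nat_lit 400) (nat_lit 362) (nat_lit 138))) (XT.nd (nat_lit 78) (nat_lit 0) (nat_lit 0) (XT.lf (nat_lit 0) (nat_lit 7247122645) (nat_lit 532) (nat_lit 33080448365) (nat_lit 76) (nat_lit 8079993882) (nat_lit 140) (nat_lit 5) (nat_lit 147) (nat_lit 5) (nat_lit 141) (nat_lit 5) (nat_lit 401) (nat_lit 362) (nat_lit 137)) (XT.lf (nat_lit 0) (nat_lit 14833341703) (nat_lit 532)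 (nat_lit 7544699238) (nat_lit 76) (nat_lit 26910595987) (nat_lit 140) (nat_lit 5) (nat_lit 147) (nat_lit 5) (nat_lit 141) (nat_lit 5) (nat_lit 402) (nat_lit 362) (nat_lit 136)))))) (XT.nd (nat_lit 468) (nat_lit 988) (nat_lit 0) (XT.nd (nat_lit 234) (nat_lit 760) (nat_lit 0) (XT.nd (nat_lit 78) (nat_lit 380) (nat_lit 0) (XT.lf (nat_lit 0) (nat_lit 19128508897) (nat_lit 380) (nat_lit 3701042627) (nat_lit 456) (nat_lit 27361118179) (nat_lit 135) (nat_lit 5) (nat_lit 140) (nat_lit 5) (nat_lit 141) (nat_lit 5) (nat_lit 403) (nat_lit 362) (nat_lit 135)) (XT.nd (nat_lit 78) (nat_lit 380) (nat_lit 0) (XT.lf (nat_lit 0) (nat_lit 31290482937) (nat_lit 456) (nat_lit 4512905267) (nat_lit 76) (nat_lit 15309630878) (nat_lit 135) (nat_lit 5) (nat_lit 141) (nat_lit 5) (nat_lit 136) (nat_lit 5) (nat_lit 404) (nat_lit 362) (nat_lit 134)) (XT.lf (nat_lit 0) (nat_lit 23247990141) (nat_lit 380) (nat_lit 17015962482) (nat_lit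 456) (nat_lit 11791325673) (nat_lit 130) (nat_lit 5) (nat_lit 135) (nat_lit 5) (nat_lit 136) (nat_lit 5) (nat_lit 405) (nat_lit 362) (nat_lit 133)))) (XT.nd (nat_lit 78) (nat_lit 760) (nat_lit 0) (XT.lf (nat_lit 0) (nat_lit 49573706979) (nat_lit 456) (nat_lit 1114978713) (nat_lit 76) (nat_lit 2335107819) (nat_lit 130) (nat_lit 5) (nat_lit 136) (nat_lit 5) (nat_lit 131) (nat_lit 5) (nat_lit 406) (nat_lit 362) (nat_lit 132)) (XT.nd (nat_lit 78) (nat_lit 380) (nat_lit 0) (XT.lf (nat_lit 0) (nat_lit 5479525103) (nat_lit 380) (nat_lit 26282160974) (nat_lit 76) (nat_lit 22245042175) (nat_lit 125) (nat_lit 5) (nat_lit 130) (nat_lit 5) (nat_lit 126) (nat_lit 5) (nat_lit 407) (nat_lit 362) (nat_lit 131)) (XT.lf (nat_lit 0) (nat_lit 2444960809) (nat_lit 380) (nat_lit 12196254333) (nat_lit 456) (nat_lit 40375905703) (nat_lit 120) (nat_lit 5) (nat_lit 125) (nat_lit 5) (nat_lit 126) (nat_lit 5) (nat_lit 408) (nat_lit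 362) (nat_lit 130))))) (XT.nd (nat_lit 234) (nat_lit 684) (nat_lit 0) (XT.nd (nat_lit 78) (nat_lit 304) (nat_lit 0) (XT.lf (nat_lit 0) (nat_lit 24420938537) (nat_lit 456) (nat_lit 23558153871) (nat_lit 76) (nat_lit 8068437898) (nat_lit 120) (nat_lit 5) (nat_lit 126) (nat_lit 5) (nat_lit 121) (nat_lit 5) (nat_lit 409) (nat_lit 362) (nat_lit 129)) (XT.nd (nat_lit 78) (nat_lit 0) (nat_lit 0) (XT.lf (nat_lit 0) (nat_lit 6327199084) (nat_lit 304) (nat_lit 28347146342) (nat_lit 380) (nat_lit 22429098425) (nat_lit 116) (nat_lit 5) (nat_lit 120) (nat_lit 5) (nat_lit 121) (nat_lit 5) (nat_lit 410) (nat_lit 362) (nat_lit 128)) (XT.lf (nat_lit 0) (nat_lit 37590264342) (nat_lit 304) (nat_lit 7881717648) (nat_lit 380) (nat_lit 12711954529) (nat_lit 116) (nat_lit 5) (nat_lit 120) (nat_lit 5) (nat_lit 121) (nat_lit 5) (nat_lit 411) (nat_lit 362) (nat_lit 127)))) (XT.nd (nat_lit 156) (nat_lit 304) (nat_lit 0) (XT.nd (nat_lit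 78) (nat_lit 76) (nat_lit 0) (XT.lf (nat_lit 0) (nat_lit 10572064025) (nat_lit 304) (nat_lit 46248741297) (nat_lit 380) (nat_lit 2469221435) (nat_lit 112) (nat_lit 5) (nat_lit 116) (nat_lit 5) (nat_lit 117) (nat_lit 5) (nat_lit 412) (nat_lit 362) (nat_lit 126)) (XT.lf (nat_lit 0) (nat_lit 8209934884) (nat_lit 380) (nat_lit 17487668162) (nat_lit 76) (nat_lit 34720762024) (nat_lit 111) (nat_lit 5) (nat_lit 116) (nat_lit 5) (nat_lit 112) (nat_lit 5) (nat_lit 413) (nat_lit 362) (nat_lit 125))) (XT.nd (nat_lit 78) (nat_lit 0) (nat_lit 0) (XT.lf (nat_lit 0) (nat_lit 14945013476) (nat_lit 304) (nat_lit 4357294937) (nat_lit 380) (nat_lit 42273238025) (nat_lit 107) (nat_lit 5) (nat_lit 111) (nat_lit 5) (nat_lit 112) (nat_lit 5) (nat_lit 414) (nat_lit 362) (nat_lit 124)) (XT.lf (nat_lit 0) (nat_lit 31074022176) (nat_lit 380) (nat_lit 14225862486) (nat_lit 76) (nat_lit 17457161977) (nat_lit 107) (nat_lit 5) (nat_lit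 112) (nat_lit 5) (nat_lit 108) (nat_lit 5) (nat_lit 415) (nat_lit 362) (nat_lit 123))))))) (XT.nd (nat_lit 42900) (nat_lit 0) (nat_lit 10716) (XT.nd (nat_lit 468) (nat_lit 836) (nat_lit 0) (XT.nd (nat_lit 234) (nat_lit 304) (nat_lit 0) (XT.nd (nat_lit 78) (nat_lit 304) (nat_lit 0) (XT.lf (nat_lit 0) (nat_lit 19486387269) (nat_lit 304) (nat_lit 23941815181) (nat_lit 380) (nat_lit 20538910394) (nat_lit 103) (nat_lit 5) (nat_lit 107) (nat_lit 5) (nat_lit 108) (nat_lit 5) (nat_lit 416) (nat_lit 362) (nat_lit 122)) (XT.nd (nat_lit 78) (nat_lit 304) (nat_lit 0) (XT.lf (nat_lit 0) (nat_lit 54499968210) (nat_lit 304) (nat_lit 1795569093) (nat_lit 380) (nat_lit 8913668294) (nat_lit 103) (nat_lit 5) (nat_lit 107) (nat_lit 5) (nat_lit 108) (nat_lit 5) (nat_lit 417) (nat_lit 362) (nat_lit 121)) (XT.lf (nat_lit 0) (nat_lit 3439869121) (nat_lit 304) (nat_lit 42162389422) (nat_lit 76) (nat_lit 20872242787) (nat_lit 99)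 (nat_lit 5) (nat_lit 103) (nat_lit 5) (nat_lit 100) (nat_lit 5) (nat_lit 418) (nat_lit 362) (nat_lit 120)))) (XT.nd (nat_lit 78) (nat_lit 304) (nat_lit 0) (XT.lf (nat_lit 0) (nat_lit 16110756638) (nat_lit 304) (nat_lit 7279622635) (nat_lit 76) (nat_lit 44380952439) (nat_lit 99) (nat_lit 5) (nat_lit 103) (nat_lit 5) (nat_lit 100) (nat_lit 5) (nat_lit 419) (nat_lit 362) (nat_lit 119)) (XT.nd (nat_lit 78) (nat_lit 0) (nat_lit 0) (XT.lf (nat_lit 0) (nat_lit 29218188223) (nat_lit 304) (nat_lit 223386393) (nat_lit 380) (nat_lit 39657098664) (nat_lit 95) (nat_lit 5) (nat_lit 99) (nat_lit 5) (nat_lit 100) (nat_lit 5) (nat_lit 420) (nat_lit 362) (nat_lit 118)) (XT.lf (nat_lit 0) (nat_lit 43472735044) (nat_lit 380) (nat_lit 3733029919) (nat_lit 76) (nat_lit 23251057973) (nat_lit 95) (nat_lit 5) (nat_lit 100) (nat_lit 5) (nat_lit 96) (nat_lit 5) (nat_lit 421) (nat_lit 362) (nat_lit 117))))) (XT.nd (nat_lit 234) (nat_lit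 228) (nat_lit 0) (XT.nd (nat_lit 78) (nat_lit 380) (nat_lit 0) (XT.lf (nat_lit 0) (nat_lit 34161699595) (nat_lit 228) (nat_lit 24092707467) (nat_lit 304) (nat_lit 13591423083) (nat_lit 92) (nat_lit 5) (nat_lit 95) (nat_lit 5) (nat_lit 96) (nat_lit 5) (nat_lit 422) (nat_lit 362) (nat_lit 116)) (XT.nd (nat_lit 78) (nat_lit 304) (nat_lit 0) (XT.lf (nat_lit 0) (nat_lit 236115943) (nat_lit 304) (nat_lit 9467635) (nat_lit 76) (nat_lit 73029754111) (nat_lit 91) (nat_lit 5) (nat_lit 95) (nat_lit 5) (nat_lit 92) (nat_lit 5) (nat_lit 423) (nat_lit 362) (nat_lit 115)) (XT.lf (nat_lit 0) (nat_lit 14822165509) (nat_lit 380) (nat_lit 35542433796) (nat_lit 76) (nat_lit 24360588679) (nat_lit 87) (nat_lit 5) (nat_lit 92) (nat_lit 5) (nat_lit 88) (nat_lit 5) (nat_lit 424) (nat_lit 362) (nat_lit 114)))) (XT.nd (nat_lit 42042) (nat_lit 0) (nat_lit 11856) (XT.nd (nat_lit 78) (nat_lit 0) (nat_lit 0) (XT.lf (nat_lit 0) (nat_lit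 3394691399) (nat_lit 228) (nat_lit 26485290190) (nat_lit 304) (nat_lit 46337526973) (nat_lit 84) (nat_lit 5) (nat_lit 87) (nat_lit 5) (nat_lit 88) (nat_lit 5) (nat_lit 425) (nat_lit 362) (nat_lit 113)) (XT.lf (nat_lit 0) (nat_lit 44227005730) (nat_lit 228) (nat_lit 1520474300) (nat_lit 304) (nat_lit 31996380606) (nat_lit 84) (nat_lit 5) (nat_lit 87) (nat_lit 5) (nat_lit 88) (nat_lit 5) (nat_lit 426) (nat_lit 362) (nat_lit 112))) (XT.nd (nat_lit 78) (nat_lit 0) (nat_lit 0) (XT.lf (nat_lit 0) (nat_lit 6265161592) (nat_lit 0) (nat_lit 6265161592) (nat_lit 1140) (nat_lit 621891438) (nat_lit 240) (nat_lit 5) (nat_lit 240) (nat_lit 3) (nat_lit 255) (nat_lit 3) (nat_lit 363) (nat_lit 363) (nat_lit 174)) (XT.lf (nat_lit 0) (nat_lit 25374009105) (nat_lit 0) (nat_lit 154576483) (nat_lit 1140) (nat_lit 1167588750) (nat_lit 240) (nat_lit 5) (nat_lit 240) (nat_lit 3) (nat_lit 255) (nat_lit 3) (nat_lit 364) (nat_lit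 363) (nat_lit 173)))))) (XT.nd (nat_lit 546) (nat_lit 0) (nat_lit 152) (XT.nd (nat_lit 234) (nat_lit 0) (nat_lit 0) (XT.nd (nat_lit 78) (nat_lit 1140) (nat_lit 0) (XT.lf (nat_lit 76) (nat_lit 11606855924) (nat_lit 0) (nat_lit 14632751129) (nat_lit 1216) (nat_lit 853195767) (nat_lit 241) (nat_lit 5) (nat_lit 240) (nat_lit 5) (nat_lit 256) (nat_lit 5) (nat_lit 365) (nat_lit 363) (nat_lit 172)) (XT.nd (nat_lit 78) (nat_lit 1140) (nat_lit 0) (XT.lf (nat_lit 76) (nat_lit 24947385543) (nat_lit 0) (nat_lit 2035951760) (nat_lit 1216) (nat_lit 517653799) (nat_lit 241) (nat_lit 5) (nat_lit 240) (nat_lit 5) (nat_lit 256) (nat_lit 5) (nat_lit 366) (nat_lit 363) (nat_lit 171)) (XT.lf (nat_lit 0) (nat_lit 39635433) (nat_lit 1216) (nat_lit 17043892077) (nat_lit 1292) (nat_lit 10831699585) (nat_lit 225) (nat_lit 5) (nat_lit 241) (nat_lit 5) (nat_lit 242) (nat_lit 5) (nat_lit 367) (nat_lit 363) (nat_lit 170)))) (XT.nd (nat_lit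 156) (nat_lit 0) (nat_lit 76) (XT.nd (nat_lit 78) (nat_lit 0) (nat_lit 76) (XT.lf (nat_lit 0) (nat_lit 646111252) (nat_lit 1216) (nat_lit 3617301409) (nat_lit 1292) (nat_lit 24077039677) (nat_lit 225) (nat_lit 5) (nat_lit 241) (nat_lit 5) (nat_lit 242) (nat_lit 5) (nat_lit 368) (nat_lit 363) (nat_lit 169)) (XT.lf (nat_lit 0) (nat_lit 1454602760) (nat_lit 1216) (nat_lit 18449152150) (nat_lit 1292) (nat_lit 8869166821) (nat_lit 226) (nat_lit 5) (nat_lit 242) (nat_lit 5) (nat_lit 243) (nat_lit 5) (nat_lit 369) (nat_lit 363) (nat_lit 168))) (XT.nd (nat_lit 78) (nat_lit 0) (nat_lit 76) (XT.lf (nat_lit 0) (nat_lit 2363306976) (nat_lit 1216) (nat_lit 4504666127) (nat_lit 1292) (nat_lit 22348115339) (nat_lit 226) (nat_lit 5) (nat_lit 242) (nat_lit 5) (nat_lit 243) (nat_lit 5) (nat_lit 370) (nat_lit 363) (nat_lit 167)) (XT.lf (nat_lit 0) (nat_lit 3456864551) (nat_lit 1216) (nat_lit 19681435474) (nat_lit 1292) (nat_lit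 6529524283) (nat_lit 227) (nat_lit 5) (nat_lit 243) (nat_lit 5) (nat_lit 244) (nat_lit 5) (nat_lit 371) (nat_lit 363) (nat_lit 166))))) (XT.nd (nat_lit 234) (nat_lit 0) (nat_lit 152) (XT.nd (nat_lit 78) (nat_lit 0) (nat_lit 76) (XT.lf (nat_lit 0) (nat_lit 4694195179) (nat_lit 1216) (nat_lit 5197749910) (nat_lit 1292) (nat_lit 20237840033) (nat_lit 227) (nat_lit 5) (nat_lit 243) (nat_lit 5) (nat_lit 244) (nat_lit 5) (nat_lit 372) (nat_lit 363) (nat_lit 165)) (XT.nd (nat_lit 78) (nat_lit 0) (nat_lit 0) (XT.lf (nat_lit 0) (nat_lit 6098055394) (nat_lit 1216) (nat_lit 20727997595) (nat_lit 1292) (nat_lit 3775671289) (nat_lit 228) (nat_lit 5) (nat_lit 244) (nat_lit 5) (nat_lit 245) (nat_lit 5) (nat_lit 373) (nat_lit 363) (nat_lit 164)) (XT.lf (nat_lit 0) (nat_lit 7692165625) (nat_lit 1216) (nat_lit 5682893668) (nat_lit 1292) (nat_lit 17708320047) (nat_lit 228) (nat_lit 5) (nat_lit 244) (nat_lit 5) (nat_lit 245)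 (nat_lit 5) (nat_lit 374) (nat_lit 363) (nat_lit 163)))) (XT.nd (nat_lit 156) (nat_lit 0) (nat_lit 0) (XT.nd (nat_lit 78) (nat_lit 0) (nat_lit 0) (XT.lf (nat_lit 0) (nat_lit 9433128163) (nat_lit 1216) (nat_lit 21575440376) (nat_lit 1292) (nat_lit 567946348) (nat_lit 229) (nat_lit 5) (nat_lit 245) (nat_lit 5) (nat_lit 246) (nat_lit 5) (nat_lit 375) (nat_lit 363) (nat_lit 162)) (XT.lf (nat_lit 0) (nat_lit 11414036192) (nat_lit 1216) (nat_lit 5945752917) (nat_lit 1292) (nat_lit 14719025548) (nat_lit 229) (nat_lit 5) (nat_lit 245) (nat_lit 5) (nat_lit 246) (nat_lit 5) (nat_lit 376) (nat_lit 363) (nat_lit 161))) (XT.nd (nat_lit 78) (nat_lit 0) (nat_lit 76) (XT.lf (nat_lit 76) (nat_lit 10352815818) (nat_lit 0) (nat_lit 3198486857) (nat_lit 1292) (nat_lit 19041974417) (nat_lit 230) (nat_lit 5) (nat_lit 229) (nat_lit 5) (nat_lit 246) (nat_lit 5) (nat_lit 377) (nat_lit 363) (nat_lit 160)) (XT.lf (nat_lit 0) (nat_lit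 15920261784) (nat_lit 1216) (nat_lit 5971300667) (nat_lit 1292) (nat_lit 11226585270) (nat_lit 230) (nat_lit 5) (nat_lit 246) (nat_lit 5) (nat_lit 247) (nat_lit 5) (nat_lit 378) (nat_lit 363) (nat_lit 159))))))))
noncomputable def xc231 : XT := (XT.nd (nat_lit 2106) (nat_lit 3648) (nat_lit 0) (XT.nd (nat_lit 1014) (nat_lit 3192) (nat_lit 0) (XT.nd (nat_lit 468) (nat_lit 2280) (nat_lit 0) (XT.nd (nat_lit 234) (nat_lit 608) (nat_lit 0) (XT.nd (nat_lit 78) (nat_lit 1140) (nat_lit 0) (XT.lf (nat_lit 76) (nat_lit 10966225437) (nat_lit 0) (nat_lit 7528694660) (nat_lit 1292) (nat_lit 15159806971) (nat_lit 231) (nat_lit 5) (nat_lit 230) (nat_lit 5) (nat_lit 247) (nat_lit 5) (nat_lit 379) (nat_lit 363) (nat_lit 158)) (XT.nd (nat_lit 78) (nat_lit 1216) (nat_lit 0) (XT.lf (nat_lit 0) (nat_lit 21275153777) (nat_lit 1216) (nat_lit 5743833882) (nat_lit 76) (nat_lit 7184567539) (nat_lit 231) (nat_lit 5) (nat_lit 247)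 (nat_lit 5) (nat_lit 232) (nat_lit 5) (nat_lit 380) (nat_lit 363) (nat_lit 157)) (XT.lf (nat_lit 0) (nat_lit 11864115879) (nat_lit 1216) (nat_lit 12460939027) (nat_lit 1292) (nat_lit 10438206882) (nat_lit 215) (nat_lit 5) (nat_lit 231) (nat_lit 5) (nat_lit 232) (nat_lit 5) (nat_lit 381) (nat_lit 363) (nat_lit 156)))) (XT.nd (nat_lit 78) (nat_lit 608) (nat_lit 0) (XT.lf (nat_lit 0) (nat_lit 27547110538) (nat_lit 1292) (nat_lit 5246984181) (nat_lit 76) (nat_lit 2543246518) (nat_lit 215) (nat_lit 5) (nat_lit 232) (nat_lit 5) (nat_lit 216) (nat_lit 5) (nat_lit 382) (nat_lit 363) (nat_lit 155)) (XT.nd (nat_lit 78) (nat_lit 0) (nat_lit 0) (XT.lf (nat_lit 0) (nat_lit 13064277934) (nat_lit 608) (nat_lit 18048298447) (nat_lit 684) (nat_lit 4808665579) (nat_lit 207) (nat_lit 5) (nat_lit 215) (nat_lit 5) (nat_lit 216) (nat_lit 5) (nat_lit 383) (nat_lit 363) (nat_lit 154)) (XT.lf (nat_lit 0) (nat_lit 32030435797) (nat_lit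 608) (nat_lit 2805390841) (nat_lit 684) (nat_lit 1685309758) (nat_lit 207) (nat_lit 5) (nat_lit 215) (nat_lit 5) (nat_lit 216) (nat_lit 5) (nat_lit 384) (nat_lit 363) (nat_lit 153))))) (XT.nd (nat_lit 234) (nat_lit 1064) (nat_lit 0) (XT.nd (nat_lit 78) (nat_lit 608) (nat_lit 0) (XT.lf (nat_lit 0) (nat_lit 1766505554) (nat_lit 608) (nat_lit 22563285892) (nat_lit 76) (nat_lit 12800856267) (nat_lit 199) (nat_lit 5) (nat_lit 207) (nat_lit 5) (nat_lit 200) (nat_lit 5) (nat_lit 385) (nat_lit 363) (nat_lit 152)) (XT.nd (nat_lit 78) (nat_lit 608) (nat_lit 0) (XT.lf (nat_lit 0) (nat_lit 5359495865) (nat_lit 608) (nat_lit 3514804836) (nat_lit 76) (nat_lit 28881499469) (nat_lit 199) (nat_lit 5) (nat_lit 207) (nat_lit 5) (nat_lit 200) (nat_lit 5) (nat_lit 386) (nat_lit 363) (nat_lit 151)) (XT.lf (nat_lit 0) (nat_lit 9285414753) (nat_lit 684) (nat_lit 22040672057) (nat_lit 76) (nat_lit 7066867386) (nat_lit 191) (nat_lit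 5) (nat_lit 200) (nat_lit 5) (nat_lit 192) (nat_lit 5) (nat_lit 387) (nat_lit 363) (nat_lit 150)))) (XT.nd (nat_lit 156) (nat_lit 532) (nat_lit 0) (XT.nd (nat_lit 78) (nat_lit 532) (nat_lit 0) (XT.lf (nat_lit 0) (nat_lit 13450841635) (nat_lit 684) (nat_lit 2250954909) (nat_lit 76) (nat_lit 23343775513) (nat_lit 191) (nat_lit 5) (nat_lit 200) (nat_lit 5) (nat_lit 192) (nat_lit 5) (nat_lit 388) (nat_lit 363) (nat_lit 149)) (XT.lf (nat_lit 0) (nat_lit 17922581189) (nat_lit 608) (nat_lit 21226682881) (nat_lit 76) (nat_lit 563064981) (nat_lit 184) (nat_lit 5) (nat_lit 192) (nat_lit 5) (nat_lit 185) (nat_lit 5) (nat_lit 389) (nat_lit 363) (nat_lit 148))) (XT.nd (nat_lit 78) (nat_lit 532) (nat_lit 0) (XT.lf (nat_lit 0) (nat_lit 22705008003) (nat_lit 608) (nat_lit 665599696) (nat_lit 76) (nat_lit 17023186068) (nat_lit 184) (nat_lit 5) (nat_lit 192) (nat_lit 5) (nat_lit 185) (nat_lit 5) (nat_lit 390) (nat_lit 363)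 (nat_lit 147)) (XT.lf (nat_lit 0) (nat_lit 20918578708) (nat_lit 532) (nat_lit 6911582406) (nat_lit 608) (nat_lit 13259564736) (nat_lit 177) (nat_lit 5) (nat_lit 184) (nat_lit 5) (nat_lit 185) (nat_lit 5) (nat_lit 391) (nat_lit 363) (nat_lit 146)))))) (XT.nd (nat_lit 546) (nat_lit 1292) (nat_lit 0) (XT.nd (nat_lit 234) (nat_lit 912) (nat_lit 0) (XT.nd (nat_lit 78) (nat_lit 532) (nat_lit 0) (XT.lf (nat_lit 0) (nat_lit 1284091991) (nat_lit 456) (nat_lit 31938835397) (nat_lit 532) (nat_lit 8580193751) (nat_lit 171) (nat_lit 5) (nat_lit 177) (nat_lit 5) (nat_lit 178) (nat_lit 5) (nat_lit 392) (nat_lit 363) (nat_lit 145)) (XT.nd (nat_lit 78) (nat_lit 532) (nat_lit 0) (XT.lf (nat_lit 0) (nat_lit 23724734131) (nat_lit 456) (nat_lit 15322430714) (nat_lit 532) (nat_lit 3482663768) (nat_lit 171) (nat_lit 5) (nat_lit 177) (nat_lit 5) (nat_lit 178) (nat_lit 5) (nat_lit 393) (nat_lit 363) (nat_lit 144)) (XT.lf (nat_lit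 0) (nat_lit 1784027466) (nat_lit 532) (nat_lit 39682762396) (nat_lit 76) (nat_lit 1809516633) (nat_lit 164) (nat_lit 5) (nat_lit 171) (nat_lit 5) (nat_lit 165) (nat_lit 5) (nat_lit 394) (nat_lit 363) (nat_lit 143)))) (XT.nd (nat_lit 156) (nat_lit 456) (nat_lit 0) (XT.nd (nat_lit 78) (nat_lit 456) (nat_lit 0) (XT.lf (nat_lit 0) (nat_lit 7480505230) (nat_lit 532) (nat_lit 17179882059) (nat_lit 76) (nat_lit 19373504343) (nat_lit 164) (nat_lit 5) (nat_lit 171) (nat_lit 5) (nat_lit 165) (nat_lit 5) (nat_lit 395) (nat_lit 363) (nat_lit 142)) (XT.lf (nat_lit 0) (nat_lit 6115518712) (nat_lit 456) (nat_lit 7289496104) (nat_lit 532) (nat_lit 31407476245) (nat_lit 158) (nat_lit 5) (nat_lit 164) (nat_lit 5) (nat_lit 165) (nat_lit 5) (nat_lit 396) (nat_lit 363) (nat_lit 141))) (XT.nd (nat_lit 78) (nat_lit 456) (nat_lit 0) (XT.lf (nat_lit 0) (nat_lit 19782757152) (nat_lit 532) (nat_lit 15252857300) (nat_lit 76) (nat_lit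 10570569937) (nat_lit 158) (nat_lit 5) (nat_lit 165) (nat_lit 5) (nat_lit 159) (nat_lit 5) (nat_lit 397) (nat_lit 363) (nat_lit 140)) (XT.lf (nat_lit 0) (nat_lit 8996080126) (nat_lit 456) (nat_lit 17512826663) (nat_lit 532) (nat_lit 19910070290) (nat_lit 152) (nat_lit 5) (nat_lit 158) (nat_lit 5) (nat_lit 159) (nat_lit 5) (nat_lit 398) (nat_lit 363) (nat_lit 139))))) (XT.nd (nat_lit 234) (nat_lit 836) (nat_lit 0) (XT.nd (nat_lit 78) (nat_lit 456) (nat_lit 0) (XT.lf (nat_lit 0) (nat_lit 33595989816) (nat_lit 532) (nat_lit 12974952069) (nat_lit 76) (nat_lit 680437988) (nat_lit 152) (nat_lit 5) (nat_lit 159) (nat_lit 5) (nat_lit 153) (nat_lit 5) (nat_lit 399) (nat_lit 363) (nat_lit 138)) (XT.nd (nat_lit 78) (nat_lit 76) (nat_lit 0) (XT.lf (nat_lit 0) (nat_lit 12270636890) (nat_lit 380) (nat_lit 28914891765) (nat_lit 456) (nat_lit 6914531565) (nat_lit 147) (nat_lit 5) (nat_lit 152) (nat_lit 5) (nat_lit 153)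 (nat_lit 5) (nat_lit 400) (nat_lit 363) (nat_lit 137)) (XT.lf (nat_lit 0) (nat_lit 158821352) (nat_lit 456) (nat_lit 10434131349) (nat_lit 76) (nat_lit 38377315989) (nat_lit 146) (nat_lit 5) (nat_lit 152) (nat_lit 5) (nat_lit 147) (nat_lit 5) (nat_lit 401) (nat_lit 363) (nat_lit 136)))) (XT.nd (nat_lit 156) (nat_lit 380) (nat_lit 0) (XT.nd (nat_lit 78) (nat_lit 0) (nat_lit 0) (XT.lf (nat_lit 0) (nat_lit 7539181736) (nat_lit 532) (nat_lit 33977466579) (nat_lit 76) (nat_lit 8340868518) (nat_lit 140) (nat_lit 5) (nat_lit 147) (nat_lit 5) (nat_lit 141) (nat_lit 5) (nat_lit 402) (nat_lit 363) (nat_lit 135)) (XT.lf (nat_lit 0) (nat_lit 15350813228) (nat_lit 532) (nat_lit 7678423480) (nat_lit 76) (nat_lit 27735850585) (nat_lit 140) (nat_lit 5) (nat_lit 147) (nat_lit 5) (nat_lit 141) (nat_lit 5) (nat_lit 403) (nat_lit 363) (nat_lit 134))) (XT.nd (nat_lit 78) (nat_lit 0) (nat_lit 0) (XT.lf (nat_lit 0) (nat_lit 19794072892)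 (nat_lit 380) (nat_lit 3791607198) (nat_lit 456) (nat_lit 28108538846) (nat_lit 135) (nat_lit 5) (nat_lit 140) (nat_lit 5) (nat_lit 141) (nat_lit 5) (nat_lit 404) (nat_lit 363) (nat_lit 133)) (XT.lf (nat_lit 0) (nat_lit 32298555443) (nat_lit 456) (nat_lit 4557338204) (nat_lit 76) (nat_lit 15788402648) (nat_lit 135) (nat_lit 5) (nat_lit 141) (nat_lit 5) (nat_lit 136) (nat_lit 5) (nat_lit 405) (nat_lit 363) (nat_lit 132))))))) (XT.nd (nat_lit 1014) (nat_lit 1216) (nat_lit 0) (XT.nd (nat_lit 468) (nat_lit 988) (nat_lit 0) (XT.nd (nat_lit 234) (nat_lit 684) (nat_lit 0) (XT.nd (nat_lit 78) (nat_lit 380) (nat_lit 0) (XT.lf (nat_lit 0) (nat_lit 24035492358) (nat_lit 380) (nat_lit 17504582461) (nat_lit 456) (nat_lit 12074784048) (nat_lit 130) (nat_lit 5) (nat_lit 135) (nat_lit 5) (nat_lit 136) (nat_lit 5) (nat_lit 406) (nat_lit 363) (nat_lit 131)) (XT.nd (nat_lit 78) (nat_lit 380) (nat_lit 0) (XT.lf (nat_lit 0)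 (nat_lit 51127339294) (nat_lit 456) (nat_lit 1059175483) (nat_lit 76) (nat_lit 2425969160) (nat_lit 130) (nat_lit 5) (nat_lit 136) (nat_lit 5) (nat_lit 131) (nat_lit 5) (nat_lit 407) (nat_lit 363) (nat_lit 130)) (XT.lf (nat_lit 0) (nat_lit 5709923066) (nat_lit 380) (nat_lit 26980905482) (nat_lit 76) (nat_lit 22934092204) (nat_lit 125) (nat_lit 5) (nat_lit 130) (nat_lit 5) (nat_lit 126) (nat_lit 5) (nat_lit 408) (nat_lit 363) (nat_lit 129)))) (XT.nd (nat_lit 78) (nat_lit 304) (nat_lit 0) (XT.lf (nat_lit 0) (nat_lit 2607150343) (nat_lit 380) (nat_lit 12538244768) (nat_lit 456) (nat_lit 41520262916) (nat_lit 120) (nat_lit 5) (nat_lit 125) (nat_lit 5) (nat_lit 126) (nat_lit 5) (nat_lit 409) (nat_lit 363) (nat_lit 128)) (XT.nd (nat_lit 78) (nat_lit 304) (nat_lit 0) (XT.lf (nat_lit 0) (nat_lit 25216841673) (nat_lit 456) (nat_lit 24176949518) (nat_lit 76) (nat_lit 8333239457) (nat_lit 120) (nat_lit 5) (nat_lit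 126) (nat_lit 5) (nat_lit 121) (nat_lit 5) (nat_lit 410) (nat_lit 363) (nat_lit 127)) (XT.lf (nat_lit 0) (nat_lit 6604101781) (nat_lit 304) (nat_lit 29172743159) (nat_lit 380) (nat_lit 23037807631) (nat_lit 116) (nat_lit 5) (nat_lit 120) (nat_lit 5) (nat_lit 121) (nat_lit 5) (nat_lit 411) (nat_lit 363) (nat_lit 126))))) (XT.nd (nat_lit 234) (nat_lit 608) (nat_lit 0) (XT.nd (nat_lit 78) (nat_lit 380) (nat_lit 0) (XT.lf (nat_lit 0) (nat_lit 38802522490) (nat_lit 304) (nat_lit 8094074445) (nat_lit 380) (nat_lit 13031018264) (nat_lit 116) (nat_lit 5) (nat_lit 120) (nat_lit 5) (nat_lit 121) (nat_lit 5) (nat_lit 412) (nat_lit 363) (nat_lit 125)) (XT.nd (nat_lit 78) (nat_lit 76) (nat_lit 0) (XT.lf (nat_lit 0) (nat_lit 10974539278) (nat_lit 304) (nat_lit 47610629801) (nat_lit 380) (nat_lit 2481741293) (nat_lit 112) (nat_lit 5) (nat_lit 116) (nat_lit 5) (nat_lit 117) (nat_lit 5) (nat_lit 413) (nat_lit 363) (nat_lit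 124)) (XT.lf (nat_lit 0) (nat_lit 8514830592) (nat_lit 380) (nat_lit 17928279956) (nat_lit 76) (nat_lit 35786023981) (nat_lit 111) (nat_lit 5) (nat_lit 116) (nat_lit 5) (nat_lit 112) (nat_lit 5) (nat_lit 414) (nat_lit 363) (nat_lit 123)))) (XT.nd (nat_lit 156) (nat_lit 304) (nat_lit 0) (XT.nd (nat_lit 78) (nat_lit 0) (nat_lit 0) (XT.lf (nat_lit 0) (nat_lit 15476558423) (nat_lit 304) (nat_lit 4462509892) (nat_lit 380) (nat_lit 43481990918) (nat_lit 107) (nat_lit 5) (nat_lit 111) (nat_lit 5) (nat_lit 112) (nat_lit 5) (nat_lit 415) (nat_lit 363) (nat_lit 122)) (XT.lf (nat_lit 0) (nat_lit 32062491199) (nat_lit 380) (nat_lit 14570402456) (nat_lit 76) (nat_lit 18005154720) (nat_lit 107) (nat_lit 5) (nat_lit 112) (nat_lit 5) (nat_lit 108) (nat_lit 5) (nat_lit 416) (nat_lit 363) (nat_lit 121))) (XT.nd (nat_lit 78) (nat_lit 0) (nat_lit 0) (XT.lf (nat_lit 0) (nat_lit 20152408557) (nat_lit 304) (nat_lit 24634032775)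 (nat_lit 380) (nat_lit 21098001548) (nat_lit 103) (nat_lit 5) (nat_lit 107) (nat_lit 5) (nat_lit 108) (nat_lit 5) (nat_lit 417) (nat_lit 363) (nat_lit 120)) (XT.lf (nat_lit 0) (nat_lit 56214025189) (nat_lit 304) (nat_lit 1824157659) (nat_lit 380) (nat_lit 9125664598) (nat_lit 103) (nat_lit 5) (nat_lit 107) (nat_lit 5) (nat_lit 108) (nat_lit 5) (nat_lit 418) (nat_lit 363) (nat_lit 119)))))) (XT.nd (nat_lit 42588) (nat_lit 0) (nat_lit 10488) (XT.nd (nat_lit 234) (nat_lit 608) (nat_lit 0) (XT.nd (nat_lit 78) (nat_lit 304) (nat_lit 0) (XT.lf (nat_lit 0) (nat_lit 3596826698) (nat_lit 304) (nat_lit 43346510868) (nat_lit 76) (nat_lit 21523766222) (nat_lit 99) (nat_lit 5) (nat_lit 103) (nat_lit 5) (nat_lit 100) (nat_lit 5) (nat_lit 419) (nat_lit 363) (nat_lit 118)) (XT.nd (nat_lit 78) (nat_lit 304) (nat_lit 0) (XT.lf (nat_lit 0) (nat_lit 16646274972) (nat_lit 304) (nat_lit 7419613027) (nat_lit 76) (nat_lit 45736998635)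 (nat_lit 99) (nat_lit 5) (nat_lit 103) (nat_lit 5) (nat_lit 100) (nat_lit 5) (nat_lit 420) (nat_lit 363) (nat_lit 117)) (XT.lf (nat_lit 0) (nat_lit 30172363547) (nat_lit 304) (nat_lit 203879906) (nat_lit 380) (nat_lit 40793828777) (nat_lit 95) (nat_lit 5) (nat_lit 99) (nat_lit 5) (nat_lit 100) (nat_lit 5) (nat_lit 421) (nat_lit 363) (nat_lit 116)))) (XT.nd (nat_lit 156) (nat_lit 380) (nat_lit 0) (XT.nd (nat_lit 78) (nat_lit 228) (nat_lit 0) (XT.lf (nat_lit 0) (nat_lit 44827085567) (nat_lit 380) (nat_lit 3768381012) (nat_lit 76) (nat_lit 23973537930) (nat_lit 95) (nat_lit 5) (nat_lit 100) (nat_lit 5) (nat_lit 96) (nat_lit 5) (nat_lit 422) (nat_lit 363) (nat_lit 115)) (XT.lf (nat_lit 0) (nat_lit 35262439016) (nat_lit 228) (nat_lit 24789036997) (nat_lit 304) (nat_lit 13948228399) (nat_lit 92) (nat_lit 5) (nat_lit 95) (nat_lit 5) (nat_lit 96) (nat_lit 5) (nat_lit 423) (nat_lit 363) (nat_lit 114))) (XT.nd (nat_lit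 78) (nat_lit 0) (nat_lit 0) (XT.lf (nat_lit 0) (nat_lit 66199770) (nat_lit 304) (nat_lit 226124745) (nat_lit 380) (nat_lit 75179783023) (nat_lit 87) (nat_lit 5) (nat_lit 91) (nat_lit 5) (nat_lit 92) (nat_lit 5) (nat_lit 424) (nat_lit 363) (nat_lit 113)) (XT.lf (nat_lit 0) (nat_lit 15314868841) (nat_lit 380) (nat_lit 36533580747) (nat_lit 76) (nat_lit 25117036838) (nat_lit 87) (nat_lit 5) (nat_lit 92) (nat_lit 5) (nat_lit 88) (nat_lit 5) (nat_lit 425) (nat_lit 363) (nat_lit 112))))) (XT.nd (nat_lit 234) (nat_lit 1140) (nat_lit 0) (XT.nd (nat_lit 78) (nat_lit 0) (nat_lit 0) (XT.lf (nat_lit 0) (nat_lit 6498688879) (nat_lit 0) (nat_lit 6498688879) (nat_lit 1140) (nat_lit 546609076) (nat_lit 240) (nat_lit 5) (nat_lit 240) (nat_lit 3) (nat_lit 255) (nat_lit 3) (nat_lit 364) (nat_lit 364) (nat_lit 172)) (XT.nd (nat_lit 78) (nat_lit 0) (nat_lit 0) (XT.lf (nat_lit 0) (nat_lit 26223719552) (nat_lit 0) (nat_lit 247703951)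 (nat_lit 1140) (nat_lit 1020210382) (nat_lit 240) (nat_lit 5) (nat_lit 240) (nat_lit 3) (nat_lit 255) (nat_lit 3) (nat_lit 365) (nat_lit 364) (nat_lit 171)) (XT.lf (nat_lit 76) (nat_lit 12048898996) (nat_lit 0) (nat_lit 15149798025) (nat_lit 1216) (nat_lit 701619945) (nat_lit 241) (nat_lit 5) (nat_lit 240) (nat_lit 5) (nat_lit 256) (nat_lit 5) (nat_lit 366) (nat_lit 364) (nat_lit 170)))) (XT.nd (nat_lit 156) (nat_lit 0) (nat_lit 0) (XT.nd (nat_lit 78) (nat_lit 1140) (nat_lit 0) (XT.lf (nat_lit 76) (nat_lit 25786911376) (nat_lit 0) (nat_lit 2172820957) (nat_lit 1216) (nat_lit 361172059) (nat_lit 241) (nat_lit 5) (nat_lit 240) (nat_lit 5) (nat_lit 256) (nat_lit 5) (nat_lit 367) (nat_lit 364) (nat_lit 169)) (XT.lf (nat_lit 0) (nat_lit 204784620) (nat_lit 1216) (nat_lit 17455843631) (nat_lit 1292) (nat_lit 11087033547) (nat_lit 225) (nat_lit 5) (nat_lit 241) (nat_lit 5) (nat_lit 242) (nat_lit 5) (nat_lit 368)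 (nat_lit 364) (nat_lit 168))) (XT.nd (nat_lit 78) (nat_lit 0) (nat_lit 76) (XT.lf (nat_lit 0) (nat_lit 824679175) (nat_lit 1216) (nat_lit 3629349376) (nat_lit 1292) (nat_lit 24731761523) (nat_lit 225) (nat_lit 5) (nat_lit 241) (nat_lit 5) (nat_lit 242) (nat_lit 5) (nat_lit 369) (nat_lit 364) (nat_lit 167)) (XT.lf (nat_lit 0) (nat_lit 1653131042) (nat_lit 1216) (nat_lit 18901763876) (nat_lit 1292) (nat_lit 9076470384) (nat_lit 226) (nat_lit 5) (nat_lit 242) (nat_lit 5) (nat_lit 243) (nat_lit 5) (nat_lit 370) (nat_lit 364) (nat_lit 166))))))))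
noncomputable def xc232 : XT := (XT.nd (nat_lit 2028) (nat_lit 5244) (nat_lit 0) (XT.nd (nat_lit 1014) (nat_lit 3876) (nat_lit 0) (XT.nd (nat_lit 468) (nat_lit 836) (nat_lit 0) (XT.nd (nat_lit 234) (nat_lit 0) (nat_lit 152) (XT.nd (nat_lit 78) (nat_lit 0) (nat_lit 76) (XT.lf (nat_lit 0) (nat_lit 2584585019) (nat_lit 1216) (nat_lit 4541881025) (nat_lit 1292) (nat_lit 22961499147) (nat_lit 226) (nat_lit 5) (nat_lit 242) (nat_lit 5) (nat_lit 243) (nat_lit 5) (nat_lit 371) (nat_lit 364) (nat_lit 165)) (XT.nd (nat_lit 78) (nat_lit 0) (nat_lit 0) (XT.lf (nat_lit 0) (nat_lit 3707021140) (nat_lit 1216) (nat_lit 20169933485) (nat_lit 1292) (nat_lit 6676419107) (nat_lit 227) (nat_lit 5) (nat_lit 243) (nat_lit 5) (nat_lit 244) (nat_lit 5) (nat_lit 372) (nat_lit 364) (nat_lit 164)) (XT.lf (nat_lit 0) (nat_lit 4977206134) (nat_lit 1216) (nat_lit 5254706627) (nat_lit 1292) (nat_lit 20797411249) (nat_lit 227) (nat_lit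 5) (nat_lit 243) (nat_lit 5) (nat_lit 244) (nat_lit 5) (nat_lit 373) (nat_lit 364) (nat_lit 163)))) (XT.nd (nat_lit 78) (nat_lit 0) (nat_lit 0) (XT.lf (nat_lit 0) (nat_lit 6419589001) (nat_lit 1216) (nat_lit 21247182072) (nat_lit 1292) (nat_lit 3848760660) (nat_lit 228) (nat_lit 5) (nat_lit 244) (nat_lit 5) (nat_lit 245) (nat_lit 5) (nat_lit 374) (nat_lit 364) (nat_lit 162)) (XT.nd (nat_lit 78) (nat_lit 0) (nat_lit 76) (XT.lf (nat_lit 0) (nat_lit 8057485880) (nat_lit 1216) (nat_lit 5753714991) (nat_lit 1292) (nat_lit 18200559194) (nat_lit 228) (nat_lit 5) (nat_lit 244) (nat_lit 5) (nat_lit 245) (nat_lit 5) (nat_lit 375) (nat_lit 364) (nat_lit 161)) (XT.lf (nat_lit 0) (nat_lit 9847390640) (nat_lit 1216) (nat_lit 22119669896) (nat_lit 1292) (nat_lit 552730188) (nat_lit 229) (nat_lit 5) (nat_lit 245) (nat_lit 5) (nat_lit 246) (nat_lit 5) (nat_lit 376) (nat_lit 364) (nat_lit 160))))) (XT.nd (nat_lit 234) (nat_lit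 1064) (nat_lit 0) (XT.nd (nat_lit 78) (nat_lit 0) (nat_lit 0) (XT.lf (nat_lit 0) (nat_lit 11883902552) (nat_lit 1216) (nat_lit 6024092795) (nat_lit 1292) (nat_lit 15129281218) (nat_lit 229) (nat_lit 5) (nat_lit 245) (nat_lit 5) (nat_lit 246) (nat_lit 5) (nat_lit 377) (nat_lit 364) (nat_lit 159)) (XT.nd (nat_lit 78) (nat_lit 0) (nat_lit 76) (XT.lf (nat_lit 76) (nat_lit 10762452290) (nat_lit 0) (nat_lit 3320074889) (nat_lit 1292) (nat_lit 19484730794) (nat_lit 230) (nat_lit 5) (nat_lit 229) (nat_lit 5) (nat_lit 246) (nat_lit 5) (nat_lit 378) (nat_lit 364) (nat_lit 158)) (XT.lf (nat_lit 0) (nat_lit 16518684219) (nat_lit 1216) (nat_lit 6050327227) (nat_lit 1292) (nat_lit 11538981637) (nat_lit 230) (nat_lit 5) (nat_lit 246) (nat_lit 5) (nat_lit 247) (nat_lit 5) (nat_lit 379) (nat_lit 364) (nat_lit 157)))) (XT.nd (nat_lit 156) (nat_lit 1140) (nat_lit 0) (XT.nd (nat_lit 78) (nat_lit 0) (nat_lit 76) (XT.lf (nat_lit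 76) (nat_lit 11394343165) (nat_lit 0) (nat_lit 7773673153) (nat_lit 1292) (nat_lit 15492732647) (nat_lit 231) (nat_lit 5) (nat_lit 230) (nat_lit 5) (nat_lit 247) (nat_lit 5) (nat_lit 380) (nat_lit 364) (nat_lit 156)) (XT.lf (nat_lit 0) (nat_lit 22028034456) (nat_lit 1216) (nat_lit 5816212345) (nat_lit 76) (nat_lit 7381905925) (nat_lit 231) (nat_lit 5) (nat_lit 247) (nat_lit 5) (nat_lit 232) (nat_lit 5) (nat_lit 381) (nat_lit 364) (nat_lit 155))) (XT.nd (nat_lit 78) (nat_lit 0) (nat_lit 0) (XT.lf (nat_lit 0) (nat_lit 12318996139) (nat_lit 1216) (nat_lit 12848049090) (nat_lit 1292) (nat_lit 10635678955) (nat_lit 215) (nat_lit 5) (nat_lit 231) (nat_lit 5) (nat_lit 232) (nat_lit 5) (nat_lit 382) (nat_lit 364) (nat_lit 154)) (XT.lf (nat_lit 0) (nat_lit 28482369487) (nat_lit 1292) (nat_lit 5304859808) (nat_lit 76) (nat_lit 2606900502) (nat_lit 215) (nat_lit 5) (nat_lit 232) (nat_lit 5) (nat_lit 216) (nat_lit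 5) (nat_lit 383) (nat_lit 364) (nat_lit 153)))))) (XT.nd (nat_lit 468) (nat_lit 2052) (nat_lit 0) (XT.nd (nat_lit 234) (nat_lit 608) (nat_lit 0) (XT.nd (nat_lit 78) (nat_lit 608) (nat_lit 0) (XT.lf (nat_lit 0) (nat_lit 13554764347) (nat_lit 608) (nat_lit 18597812097) (nat_lit 684) (nat_lit 4843039714) (nat_lit 207) (nat_lit 5) (nat_lit 215) (nat_lit 5) (nat_lit 216) (nat_lit 5) (nat_lit 384) (nat_lit 364) (nat_lit 152)) (XT.nd (nat_lit 78) (nat_lit 608) (nat_lit 0) (XT.lf (nat_lit 0) (nat_lit 33087036323) (nat_lit 608) (nat_lit 2897382369) (nat_lit 684) (nat_lit 1629183776) (nat_lit 207) (nat_lit 5) (nat_lit 215) (nat_lit 5) (nat_lit 216) (nat_lit 5) (nat_lit 385) (nat_lit 364) (nat_lit 151)) (XT.lf (nat_lit 0) (nat_lit 1921934664) (nat_lit 608) (nat_lit 23140126092) (nat_lit 76) (nat_lit 13179374456) (nat_lit 199) (nat_lit 5) (nat_lit 207) (nat_lit 5) (nat_lit 200) (nat_lit 5) (nat_lit 386) (nat_lit 364)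 (nat_lit 150)))) (XT.nd (nat_lit 78) (nat_lit 608) (nat_lit 0) (XT.lf (nat_lit 0) (nat_lit 5619731172) (nat_lit 608) (nat_lit 3523104926) (nat_lit 76) (nat_lit 29742597366) (nat_lit 199) (nat_lit 5) (nat_lit 207) (nat_lit 5) (nat_lit 200) (nat_lit 5) (nat_lit 387) (nat_lit 364) (nat_lit 149)) (XT.nd (nat_lit 78) (nat_lit 0) (nat_lit 0) (XT.lf (nat_lit 0) (nat_lit 9661443296) (nat_lit 684) (nat_lit 22602708301) (nat_lit 76) (nat_lit 7277611710) (nat_lit 191) (nat_lit 5) (nat_lit 200) (nat_lit 5) (nat_lit 192) (nat_lit 5) (nat_lit 388) (nat_lit 364) (nat_lit 148)) (XT.lf (nat_lit 0) (nat_lit 13948994166) (nat_lit 684) (nat_lit 2222188490) (nat_lit 76) (nat_lit 24042863830) (nat_lit 191) (nat_lit 5) (nat_lit 200) (nat_lit 5) (nat_lit 192) (nat_lit 5) (nat_lit 389) (nat_lit 364) (nat_lit 147))))) (XT.nd (nat_lit 234) (nat_lit 988) (nat_lit 0) (XT.nd (nat_lit 78) (nat_lit 532) (nat_lit 0) (XT.lf (nat_lit 0)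 (nat_lit 18553070984) (nat_lit 608) (nat_lit 21765321035) (nat_lit 76) (nat_lit 582470189) (nat_lit 184) (nat_lit 5) (nat_lit 192) (nat_lit 5) (nat_lit 185) (nat_lit 5) (nat_lit 390) (nat_lit 364) (nat_lit 146)) (XT.nd (nat_lit 78) (nat_lit 532) (nat_lit 0) (XT.lf (nat_lit 0) (nat_lit 23476267329) (nat_lit 608) (nat_lit 590264451) (nat_lit 76) (nat_lit 17536321707) (nat_lit 184) (nat_lit 5) (nat_lit 192) (nat_lit 5) (nat_lit 185) (nat_lit 5) (nat_lit 391) (nat_lit 364) (nat_lit 145)) (XT.lf (nat_lit 0) (nat_lit 21640504959) (nat_lit 532) (nat_lit 7112952669) (nat_lit 608) (nat_lit 13566258907) (nat_lit 177) (nat_lit 5) (nat_lit 184) (nat_lit 5) (nat_lit 185) (nat_lit 5) (nat_lit 392) (nat_lit 364) (nat_lit 144)))) (XT.nd (nat_lit 156) (nat_lit 532) (nat_lit 0) (XT.nd (nat_lit 78) (nat_lit 0) (nat_lit 0) (XT.lf (nat_lit 0) (nat_lit 1418676171) (nat_lit 456) (nat_lit 32887735390) (nat_lit 532) (nat_lit 8748151420)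 (nat_lit 171) (nat_lit 5) (nat_lit 177) (nat_lit 5) (nat_lit 178) (nat_lit 5) (nat_lit 393) (nat_lit 364) (nat_lit 143)) (XT.lf (nat_lit 0) (nat_lit 24529739669) (nat_lit 456) (nat_lit 15773108423) (nat_lit 532) (nat_lit 3500300824) (nat_lit 171) (nat_lit 5) (nat_lit 177) (nat_lit 5) (nat_lit 178) (nat_lit 5) (nat_lit 394) (nat_lit 364) (nat_lit 142))) (XT.nd (nat_lit 78) (nat_lit 0) (nat_lit 0) (XT.lf (nat_lit 0) (nat_lit 1921221688) (nat_lit 532) (nat_lit 40776723304) (nat_lit 76) (nat_lit 1874096659) (nat_lit 164) (nat_lit 5) (nat_lit 171) (nat_lit 5) (nat_lit 165) (nat_lit 5) (nat_lit 395) (nat_lit 364) (nat_lit 141)) (XT.lf (nat_lit 0) (nat_lit 7786156695) (nat_lit 532) (nat_lit 17601567876) (nat_lit 76) (nat_lit 19964704159) (nat_lit 164) (nat_lit 5) (nat_lit 171) (nat_lit 5) (nat_lit 165) (nat_lit 5) (nat_lit 396) (nat_lit 364) (nat_lit 140))))))) (XT.nd (nat_lit 1014) (nat_lit 2280) (nat_lit 0)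 (XT.nd (nat_lit 468) (nat_lit 1596) (nat_lit 0) (XT.nd (nat_lit 234) (nat_lit 456) (nat_lit 0) (XT.nd (nat_lit 78) (nat_lit 456) (nat_lit 0) (XT.lf (nat_lit 0) (nat_lit 6391776186) (nat_lit 456) (nat_lit 7495151250) (nat_lit 532) (nat_lit 32267504171) (nat_lit 158) (nat_lit 5) (nat_lit 164) (nat_lit 5) (nat_lit 165) (nat_lit 5) (nat_lit 397) (nat_lit 364) (nat_lit 139)) (XT.nd (nat_lit 78) (nat_lit 456) (nat_lit 0) (XT.lf (nat_lit 0) (nat_lit 20453800473) (nat_lit 532) (nat_lit 15618112097) (nat_lit 76) (nat_lit 10900090414) (nat_lit 158) (nat_lit 5) (nat_lit 165) (nat_lit 5) (nat_lit 159) (nat_lit 5) (nat_lit 398) (nat_lit 364) (nat_lit 138)) (XT.lf (nat_lit 0) (nat_lit 9357388246) (nat_lit 456) (nat_lit 18022966147) (nat_lit 532) (nat_lit 20428867638) (nat_lit 152) (nat_lit 5) (nat_lit 158) (nat_lit 5) (nat_lit 159) (nat_lit 5) (nat_lit 399) (nat_lit 364) (nat_lit 137)))) (XT.nd (nat_lit 78) (nat_lit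 456) (nat_lit 0) (XT.lf (nat_lit 0) (nat_lit 34677973343) (nat_lit 532) (nat_lit 13273323418) (nat_lit 76) (nat_lit 715363580) (nat_lit 152) (nat_lit 5) (nat_lit 159) (nat_lit 5) (nat_lit 153) (nat_lit 5) (nat_lit 400) (nat_lit 364) (nat_lit 136)) (XT.nd (nat_lit 78) (nat_lit 76) (nat_lit 0) (XT.lf (nat_lit 0) (nat_lit 12728742257) (nat_lit 380) (nat_lit 29765162729) (nat_lit 456) (nat_lit 7046936013) (nat_lit 147) (nat_lit 5) (nat_lit 152) (nat_lit 5) (nat_lit 153) (nat_lit 5) (nat_lit 401) (nat_lit 364) (nat_lit 135)) (XT.lf (nat_lit 0) (nat_lit 235010618) (nat_lit 456) (nat_lit 10658333892) (nat_lit 76) (nat_lit 39543854897) (nat_lit 146) (nat_lit 5) (nat_lit 152) (nat_lit 5) (nat_lit 147) (nat_lit 5) (nat_lit 402) (nat_lit 364) (nat_lit 134))))) (XT.nd (nat_lit 234) (nat_lit 760) (nat_lit 0) (XT.nd (nat_lit 78) (nat_lit 380) (nat_lit 0) (XT.lf (nat_lit 0) (nat_lit 7835717648) (nat_lit 532) (nat_lit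 34906871415) (nat_lit 76) (nat_lit 8608508863) (nat_lit 140) (nat_lit 5) (nat_lit 147) (nat_lit 5) (nat_lit 141) (nat_lit 5) (nat_lit 403) (nat_lit 364) (nat_lit 133)) (XT.nd (nat_lit 78) (nat_lit 380) (nat_lit 0) (XT.lf (nat_lit 0) (nat_lit 15879648750) (nat_lit 532) (nat_lit 7821476028) (nat_lit 76) (nat_lit 28584833180) (nat_lit 140) (nat_lit 5) (nat_lit 147) (nat_lit 5) (nat_lit 141) (nat_lit 5) (nat_lit 404) (nat_lit 364) (nat_lit 132)) (XT.lf (nat_lit 0) (nat_lit 20474339350) (nat_lit 380) (nat_lit 3886063578) (nat_lit 456) (nat_lit 28882596333) (nat_lit 135) (nat_lit 5) (nat_lit 140) (nat_lit 5) (nat_lit 141) (nat_lit 5) (nat_lit 405) (nat_lit 364) (nat_lit 131)))) (XT.nd (nat_lit 156) (nat_lit 380) (nat_lit 0) (XT.nd (nat_lit 78) (nat_lit 380) (nat_lit 0) (XT.lf (nat_lit 0) (nat_lit 33332888690) (nat_lit 456) (nat_lit 4608325273) (nat_lit 76) (nat_lit 16280419177) (nat_lit 135) (nat_lit 5) (nat_lit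 141) (nat_lit 5) (nat_lit 136) (nat_lit 5) (nat_lit 406) (nat_lit 364) (nat_lit 130)) (XT.lf (nat_lit 0) (nat_lit 24841449685) (nat_lit 380) (nat_lit 18009115829) (nat_lit 456) (nat_lit 12370780614) (nat_lit 130) (nat_lit 5) (nat_lit 135) (nat_lit 5) (nat_lit 136) (nat_lit 5) (nat_lit 407) (nat_lit 364) (nat_lit 129))) (XT.nd (nat_lit 78) (nat_lit 380) (nat_lit 0) (XT.lf (nat_lit 0) (nat_lit 52723767734) (nat_lit 456) (nat_lit 1006821619) (nat_lit 76) (nat_lit 2518361872) (nat_lit 130) (nat_lit 5) (nat_lit 136) (nat_lit 5) (nat_lit 131) (nat_lit 5) (nat_lit 408) (nat_lit 364) (nat_lit 128)) (XT.lf (nat_lit 0) (nat_lit 5943443596) (nat_lit 380) (nat_lit 27705762640) (nat_lit 76) (nat_lit 23642568136) (nat_lit 125) (nat_lit 5) (nat_lit 130) (nat_lit 5) (nat_lit 126) (nat_lit 5) (nat_lit 409) (nat_lit 364) (nat_lit 127)))))) (XT.nd (nat_lit 546) (nat_lit 912) (nat_lit 0) (XT.nd (nat_lit 234) (nat_lit 684)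 (nat_lit 0) (XT.nd (nat_lit 78) (nat_lit 304) (nat_lit 0) (XT.lf (nat_lit 0) (nat_lit 2769105742) (nat_lit 380) (nat_lit 12891866713) (nat_lit 456) (nat_lit 42702792325) (nat_lit 120) (nat_lit 5) (nat_lit 125) (nat_lit 5) (nat_lit 126) (nat_lit 5) (nat_lit 410) (nat_lit 364) (nat_lit 126)) (XT.nd (nat_lit 78) (nat_lit 304) (nat_lit 0) (XT.lf (nat_lit 0) (nat_lit 26032989660) (nat_lit 456) (nat_lit 24819357665) (nat_lit 76) (nat_lit 8604679210) (nat_lit 120) (nat_lit 5) (nat_lit 126) (nat_lit 5) (nat_lit 121) (nat_lit 5) (nat_lit 411) (nat_lit 364) (nat_lit 125)) (XT.lf (nat_lit 0) (nat_lit 6884312425) (nat_lit 304) (nat_lit 30024532510) (nat_lit 380) (nat_lit 23668461374) (nat_lit 116) (nat_lit 5) (nat_lit 120) (nat_lit 5) (nat_lit 121) (nat_lit 5) (nat_lit 412) (nat_lit 364) (nat_lit 124)))) (XT.nd (nat_lit 156) (nat_lit 380) (nat_lit 0) (XT.nd (nat_lit 78) (nat_lit 304) (nat_lit 0) (XT.lf (nat_lit 0)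 (nat_lit 40046294854) (nat_lit 304) (nat_lit 8314185083) (nat_lit 380) (nat_lit 13363229894) (nat_lit 116) (nat_lit 5) (nat_lit 120) (nat_lit 5) (nat_lit 121) (nat_lit 5) (nat_lit 413) (nat_lit 364) (nat_lit 123)) (XT.lf (nat_lit 0) (nat_lit 11384191455) (nat_lit 304) (nat_lit 49014842997) (nat_lit 380) (nat_lit 2498170357) (nat_lit 112) (nat_lit 5) (nat_lit 116) (nat_lit 5) (nat_lit 117) (nat_lit 5) (nat_lit 414) (nat_lit 364) (nat_lit 122))) (XT.nd (nat_lit 78) (nat_lit 304) (nat_lit 0) (XT.lf (nat_lit 0) (nat_lit 8825509425) (nat_lit 380) (nat_lit 18386933095) (nat_lit 76) (nat_lit 36881886815) (nat_lit 111) (nat_lit 5) (nat_lit 116) (nat_lit 5) (nat_lit 112) (nat_lit 5) (nat_lit 415) (nat_lit 364) (nat_lit 121)) (XT.lf (nat_lit 0) (nat_lit 16019274011) (nat_lit 304) (nat_lit 4572345324) (nat_lit 380) (nat_lit 44730418740) (nat_lit 107) (nat_lit 5) (nat_lit 111) (nat_lit 5) (nat_lit 112) (nat_lit 5)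 (nat_lit 416) (nat_lit 364) (nat_lit 120))))) (XT.nd (nat_lit 234) (nat_lit 608) (nat_lit 0) (XT.nd (nat_lit 78) (nat_lit 304) (nat_lit 0) (XT.lf (nat_lit 0) (nat_lit 33077385407) (nat_lit 380) (nat_lit 14929999303) (nat_lit 76) (nat_lit 18568193596) (nat_lit 107) (nat_lit 5) (nat_lit 112) (nat_lit 5) (nat_lit 108) (nat_lit 5) (nat_lit 417) (nat_lit 364) (nat_lit 119)) (XT.nd (nat_lit 78) (nat_lit 0) (nat_lit 0) (XT.lf (nat_lit 0) (nat_lit 20833736088) (nat_lit 304) (nat_lit 25348511518) (nat_lit 380) (nat_lit 21677141842) (nat_lit 103) (nat_lit 5) (nat_lit 107) (nat_lit 5) (nat_lit 108) (nat_lit 5) (nat_lit 418) (nat_lit 364) (nat_lit 118)) (XT.lf (nat_lit 0) (nat_lit 57974965628) (nat_lit 304) (nat_lit 1855054972) (nat_lit 380) (nat_lit 9347201766) (nat_lit 103) (nat_lit 5) (nat_lit 107) (nat_lit 5) (nat_lit 108) (nat_lit 5) (nat_lit 419) (nat_lit 364) (nat_lit 117)))) (XT.nd (nat_lit 156) (nat_lit 304)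 (nat_lit 0) (XT.nd (nat_lit 78) (nat_lit 0) (nat_lit 0) (XT.lf (nat_lit 0) (nat_lit 3755406873) (nat_lit 304) (nat_lit 44570791353) (nat_lit 76) (nat_lit 22193379813) (nat_lit 99) (nat_lit 5) (nat_lit 103) (nat_lit 5) (nat_lit 100) (nat_lit 5) (nat_lit 420) (nat_lit 364) (nat_lit 116)) (XT.lf (nat_lit 0) (nat_lit 17194862613) (nat_lit 304) (nat_lit 7568303513) (nat_lit 76) (nat_lit 47132313065) (nat_lit 99) (nat_lit 5) (nat_lit 103) (nat_lit 5) (nat_lit 100) (nat_lit 5) (nat_lit 421) (nat_lit 364) (nat_lit 115))) (XT.nd (nat_lit 78) (nat_lit 0) (nat_lit 0) (XT.lf (nat_lit 0) (nat_lit 31150707869) (nat_lit 304) (nat_lit 185292675) (nat_lit 380) (nat_lit 41967702224) (nat_lit 95) (nat_lit 5) (nat_lit 99) (nat_lit 5) (nat_lit 100) (nat_lit 5) (nat_lit 422) (nat_lit 364) (nat_lit 114)) (XT.lf (nat_lit 0) (nat_lit 46219186730) (nat_lit 380) (nat_lit 3809192077) (nat_lit 76) (nat_lit 24716260157) (nat_lit 95)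 (nat_lit 5) (nat_lit 100) (nat_lit 5) (nat_lit 96) (nat_lit 5) (nat_lit 423) (nat_lit 364) (nat_lit 113))))))))
noncomputable def xc233 : XT := (XT.nd (nat_lit 44148) (nat_lit 0) (nat_lit 1900) (XT.nd (nat_lit 43134) (nat_lit 0) (nat_lit 8512) (XT.nd (nat_lit 42588) (nat_lit 0) (nat_lit 10488) (XT.nd (nat_lit 42354) (nat_lit 0) (nat_lit 11628) (XT.nd (nat_lit 78) (nat_lit 380) (nat_lit 0) (XT.lf (nat_lit 0) (nat_lit 36391844314) (nat_lit 228) (nat_lit 25507774848) (nat_lit 304) (nat_lit 14318661888) (nat_lit 92) (nat_lit 5) (nat_lit 95) (nat_lit 5) (nat_lit 96) (nat_lit 5) (nat_lit 424) (nat_lit 364) (nat_lit 112)) (XT.nd (nat_lit 42198) (nat_lit 0) (nat_lit 11628) (XT.lf (nat_lit 0) (nat_lit 139960213) (nat_lit 304) (nat_lit 207529269) (nat_lit 380) (nat_lit 77387373848) (nat_lit 87) (nat_lit 5) (nat_lit 91) (nat_lit 5) (nat_lit 92) (nat_lit 5) (nat_lit 425) (nat_lit 364) (nat_lit 111)) (XT.lf (nat_lit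 0) (nat_lit 6736605941) (nat_lit 0) (nat_lit 6736605941) (nat_lit 1140) (nat_lit 474460731) (nat_lit 240) (nat_lit 5) (nat_lit 240) (nat_lit 3) (nat_lit 255) (nat_lit 3) (nat_lit 365) (nat_lit 365) (nat_lit 170)))) (XT.nd (nat_lit 78) (nat_lit 0) (nat_lit 0) (XT.lf (nat_lit 0) (nat_lit 27093841615) (nat_lit 0) (nat_lit 338545546) (nat_lit 1140) (nat_lit 878881515) (nat_lit 240) (nat_lit 5) (nat_lit 240) (nat_lit 3) (nat_lit 255) (nat_lit 3) (nat_lit 366) (nat_lit 365) (nat_lit 169)) (XT.nd (nat_lit 78) (nat_lit 0) (nat_lit 0) (XT.lf (nat_lit 76) (nat_lit 12498816710) (nat_lit 0) (nat_lit 15677875115) (nat_lit 1216) (nat_lit 555667229) (nat_lit 241) (nat_lit 5) (nat_lit 240) (nat_lit 5) (nat_lit 256) (nat_lit 5) (nat_lit 367) (nat_lit 365) (nat_lit 168)) (XT.lf (nat_lit 76) (nat_lit 26646393227) (nat_lit 0) (nat_lit 2309445536) (nat_lit 1216) (nat_lit 209870022) (nat_lit 241) (nat_lit 5) (nat_lit 240) (nat_lit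 5) (nat_lit 256) (nat_lit 5) (nat_lit 368) (nat_lit 365) (nat_lit 167))))) (XT.nd (nat_lit 234) (nat_lit 0) (nat_lit 76) (XT.nd (nat_lit 78) (nat_lit 0) (nat_lit 0) (XT.lf (nat_lit 0) (nat_lit 365476301) (nat_lit 1216) (nat_lit 17885857702) (nat_lit 1292) (nat_lit 11354023831) (nat_lit 225) (nat_lit 5) (nat_lit 241) (nat_lit 5) (nat_lit 242) (nat_lit 5) (nat_lit 369) (nat_lit 365) (nat_lit 166)) (XT.nd (nat_lit 78) (nat_lit 0) (nat_lit 76) (XT.lf (nat_lit 0) (nat_lit 999466290) (nat_lit 1216) (nat_lit 3647296616) (nat_lit 1292) (nat_lit 25410004928) (nat_lit 225) (nat_lit 5) (nat_lit 241) (nat_lit 5) (nat_lit 242) (nat_lit 5) (nat_lit 370) (nat_lit 365) (nat_lit 165)) (XT.lf (nat_lit 0) (nat_lit 1848723841) (nat_lit 1216) (nat_lit 19373743893) (nat_lit 1292) (nat_lit 9293366775) (nat_lit 226) (nat_lit 5) (nat_lit 242) (nat_lit 5) (nat_lit 243) (nat_lit 5) (nat_lit 371) (nat_lit 365) (nat_lit 164)))) (XT.nd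 (nat_lit 156) (nat_lit 0) (nat_lit 76) (XT.nd (nat_lit 78) (nat_lit 0) (nat_lit 76) (XT.lf (nat_lit 0) (nat_lit 2803869044) (nat_lit 1216) (nat_lit 4585833671) (nat_lit 1292) (nat_lit 23596559927) (nat_lit 226) (nat_lit 5) (nat_lit 242) (nat_lit 5) (nat_lit 243) (nat_lit 5) (nat_lit 372) (nat_lit 365) (nat_lit 163)) (XT.lf (nat_lit 0) (nat_lit 3956275560) (nat_lit 1216) (nat_lit 20678938499) (nat_lit 1292) (nat_lit 6830533055) (nat_lit 227) (nat_lit 5) (nat_lit 243) (nat_lit 5) (nat_lit 244) (nat_lit 5) (nat_lit 373) (nat_lit 365) (nat_lit 162))) (XT.nd (nat_lit 78) (nat_lit 0) (nat_lit 76) (XT.lf (nat_lit 0) (nat_lit 5260545411) (nat_lit 1216) (nat_lit 5319053661) (nat_lit 1292) (nat_lit 21376499970) (nat_lit 227) (nat_lit 5) (nat_lit 243) (nat_lit 5) (nat_lit 244) (nat_lit 5) (nat_lit 374) (nat_lit 365) (nat_lit 161)) (XT.lf (nat_lit 0) (nat_lit 6742812871) (nat_lit 1216) (nat_lit 21787834926) (nat_lit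 1292) (nat_lit 3926349252) (nat_lit 228) (nat_lit 5) (nat_lit 244) (nat_lit 5) (nat_lit 245) (nat_lit 5) (nat_lit 375) (nat_lit 365) (nat_lit 160)))))) (XT.nd (nat_lit 468) (nat_lit 2204) (nat_lit 0) (XT.nd (nat_lit 234) (nat_lit 0) (nat_lit 76) (XT.nd (nat_lit 78) (nat_lit 0) (nat_lit 76) (XT.lf (nat_lit 0) (nat_lit 8426041718) (nat_lit 1216) (nat_lit 5832382161) (nat_lit 1292) (nat_lit 18709804875) (nat_lit 228) (nat_lit 5) (nat_lit 244) (nat_lit 5) (nat_lit 245) (nat_lit 5) (nat_lit 376) (nat_lit 365) (nat_lit 159)) (XT.nd (nat_lit 78) (nat_lit 0) (nat_lit 0) (XT.lf (nat_lit 0) (nat_lit 10266545635) (nat_lit 1216) (nat_lit 22686140857) (nat_lit 1292) (nat_lit 538909087) (nat_lit 229) (nat_lit 5) (nat_lit 245) (nat_lit 5) (nat_lit 246) (nat_lit 5) (nat_lit 377) (nat_lit 365) (nat_lit 158)) (XT.lf (nat_lit 0) (nat_lit 12360549022) (nat_lit 1216) (nat_lit 6110525155) (nat_lit 1292) (nat_lit 15553642172)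 (nat_lit 229) (nat_lit 5) (nat_lit 245) (nat_lit 5) (nat_lit 246) (nat_lit 5) (nat_lit 378) (nat_lit 365) (nat_lit 157)))) (XT.nd (nat_lit 78) (nat_lit 0) (nat_lit 76) (XT.lf (nat_lit 76) (nat_lit 11178691866) (nat_lit 0) (nat_lit 3443839099) (nat_lit 1292) (nat_lit 19948146451) (nat_lit 230) (nat_lit 5) (nat_lit 229) (nat_lit 5) (nat_lit 246) (nat_lit 5) (nat_lit 379) (nat_lit 365) (nat_lit 156)) (XT.nd (nat_lit 78) (nat_lit 0) (nat_lit 0) (XT.lf (nat_lit 0) (nat_lit 17128124077) (nat_lit 1216) (nat_lit 6137471450) (nat_lit 1292) (nat_lit 11862150624) (nat_lit 230) (nat_lit 5) (nat_lit 246) (nat_lit 5) (nat_lit 247) (nat_lit 5) (nat_lit 380) (nat_lit 365) (nat_lit 155)) (XT.lf (nat_lit 76) (nat_lit 11829613902) (nat_lit 0) (nat_lit 8024903570) (nat_lit 1292) (nat_lit 15842641846) (nat_lit 231) (nat_lit 5) (nat_lit 230) (nat_lit 5) (nat_lit 247) (nat_lit 5) (nat_lit 381) (nat_lit 365) (nat_lit 154)))))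 (XT.nd (nat_lit 234) (nat_lit 1216) (nat_lit 0) (XT.nd (nat_lit 78) (nat_lit 1216) (nat_lit 0) (XT.lf (nat_lit 0) (nat_lit 22796921551) (nat_lit 1216) (nat_lit 5896498929) (nat_lit 76) (nat_lit 7586209139) (nat_lit 231) (nat_lit 5) (nat_lit 247) (nat_lit 5) (nat_lit 232) (nat_lit 5) (nat_lit 382) (nat_lit 365) (nat_lit 153)) (XT.nd (nat_lit 78) (nat_lit 0) (nat_lit 0) (XT.lf (nat_lit 0) (nat_lit 12781842282) (nat_lit 1216) (nat_lit 13246010020) (nat_lit 1292) (nat_lit 10845715359) (nat_lit 215) (nat_lit 5) (nat_lit 231) (nat_lit 5) (nat_lit 232) (nat_lit 5) (nat_lit 383) (nat_lit 365) (nat_lit 152)) (XT.lf (nat_lit 0) (nat_lit 29439438020) (nat_lit 1292) (nat_lit 5370185358) (nat_lit 76) (nat_lit 2673189888) (nat_lit 215) (nat_lit 5) (nat_lit 232) (nat_lit 5) (nat_lit 216) (nat_lit 5) (nat_lit 384) (nat_lit 365) (nat_lit 151)))) (XT.nd (nat_lit 156) (nat_lit 608) (nat_lit 0) (XT.nd (nat_lit 78) (nat_lit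 0) (nat_lit 0) (XT.lf (nat_lit 0) (nat_lit 14054307716) (nat_lit 608) (nat_lit 19163348211) (nat_lit 684) (nat_lit 4884752969) (nat_lit 207) (nat_lit 5) (nat_lit 215) (nat_lit 5) (nat_lit 216) (nat_lit 5) (nat_lit 385) (nat_lit 365) (nat_lit 150)) (XT.lf (nat_lit 0) (nat_lit 34169842013) (nat_lit 608) (nat_lit 2991684181) (nat_lit 684) (nat_lit 1577498187) (nat_lit 207) (nat_lit 5) (nat_lit 215) (nat_lit 5) (nat_lit 216) (nat_lit 5) (nat_lit 386) (nat_lit 365) (nat_lit 149))) (XT.nd (nat_lit 78) (nat_lit 0) (nat_lit 0) (XT.lf (nat_lit 0) (nat_lit 2076146521) (nat_lit 608) (nat_lit 23740015259) (nat_lit 76) (nat_lit 13569564343) (nat_lit 199) (nat_lit 5) (nat_lit 207) (nat_lit 5) (nat_lit 200) (nat_lit 5) (nat_lit 387) (nat_lit 365) (nat_lit 148)) (XT.lf (nat_lit 0) (nat_lit 5882064677) (nat_lit 608) (nat_lit 3537230485) (nat_lit 76) (nat_lit 30629835145) (nat_lit 199) (nat_lit 5) (nat_lit 207) (nat_lit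 5) (nat_lit 200) (nat_lit 5) (nat_lit 388) (nat_lit 365) (nat_lit 147))))))) (XT.nd (nat_lit 1014) (nat_lit 3040) (nat_lit 0) (XT.nd (nat_lit 468) (nat_lit 1444) (nat_lit 0) (XT.nd (nat_lit 234) (nat_lit 988) (nat_lit 0) (XT.nd (nat_lit 78) (nat_lit 532) (nat_lit 0) (XT.lf (nat_lit 0) (nat_lit 10043157742) (nat_lit 684) (nat_lit 23187299195) (nat_lit 76) (nat_lit 7494750791) (nat_lit 191) (nat_lit 5) (nat_lit 200) (nat_lit 5) (nat_lit 192) (nat_lit 5) (nat_lit 389) (nat_lit 365) (nat_lit 146)) (XT.nd (nat_lit 78) (nat_lit 532) (nat_lit 0) (XT.lf (nat_lit 0) (nat_lit 14456659279) (nat_lit 684) (nat_lit 2198086810) (nat_lit 76) (nat_lit 24762995113) (nat_lit 191) (nat_lit 5) (nat_lit 200) (nat_lit 5) (nat_lit 192) (nat_lit 5) (nat_lit 390) (nat_lit 365) (nat_lit 145)) (XT.lf (nat_lit 0) (nat_lit 19197147663) (nat_lit 608) (nat_lit 22325753253) (nat_lit 76) (nat_lit 602313282) (nat_lit 184) (nat_lit 5) (nat_lit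 192) (nat_lit 5) (nat_lit 185) (nat_lit 5) (nat_lit 391) (nat_lit 365) (nat_lit 144)))) (XT.nd (nat_lit 78) (nat_lit 988) (nat_lit 0) (XT.lf (nat_lit 0) (nat_lit 24265491805) (nat_lit 608) (nat_lit 518139945) (nat_lit 76) (nat_lit 18064711346) (nat_lit 184) (nat_lit 5) (nat_lit 192) (nat_lit 5) (nat_lit 185) (nat_lit 5) (nat_lit 392) (nat_lit 365) (nat_lit 143)) (XT.nd (nat_lit 78) (nat_lit 456) (nat_lit 0) (XT.lf (nat_lit 0) (nat_lit 22378671837) (nat_lit 532) (nat_lit 7320707157) (nat_lit 608) (nat_lit 13887383001) (nat_lit 177) (nat_lit 5) (nat_lit 184) (nat_lit 5) (nat_lit 185) (nat_lit 5) (nat_lit 393) (nat_lit 365) (nat_lit 142)) (XT.lf (nat_lit 0) (nat_lit 1551783557) (nat_lit 456) (nat_lit 33865634235) (nat_lit 532) (nat_lit 8926282508) (nat_lit 171) (nat_lit 5) (nat_lit 177) (nat_lit 5) (nat_lit 178) (nat_lit 5) (nat_lit 394) (nat_lit 365) (nat_lit 141))))) (XT.nd (nat_lit 234) (nat_lit 912) (nat_lit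 0) (XT.nd (nat_lit 78) (nat_lit 532) (nat_lit 0) (XT.lf (nat_lit 0) (nat_lit 25353541667) (nat_lit 456) (nat_lit 16237822825) (nat_lit 532) (nat_lit 3523452126) (nat_lit 171) (nat_lit 5) (nat_lit 177) (nat_lit 5) (nat_lit 178) (nat_lit 5) (nat_lit 395) (nat_lit 365) (nat_lit 140)) (XT.nd (nat_lit 78) (nat_lit 0) (nat_lit 0) (XT.lf (nat_lit 0) (nat_lit 2057728541) (nat_lit 532) (nat_lit 41909043794) (nat_lit 76) (nat_lit 1940023137) (nat_lit 164) (nat_lit 5) (nat_lit 171) (nat_lit 5) (nat_lit 165) (nat_lit 5) (nat_lit 396) (nat_lit 365) (nat_lit 139)) (XT.lf (nat_lit 0) (nat_lit 8096314409) (nat_lit 532) (nat_lit 18041283642) (nat_lit 76) (nat_lit 20573066234) (nat_lit 164) (nat_lit 5) (nat_lit 171) (nat_lit 5) (nat_lit 165) (nat_lit 5) (nat_lit 397) (nat_lit 365) (nat_lit 138)))) (XT.nd (nat_lit 156) (nat_lit 456) (nat_lit 0) (XT.nd (nat_lit 78) (nat_lit 0) (nat_lit 0) (XT.lf (nat_lit 0) (nat_lit 6670994749)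 (nat_lit 456) (nat_lit 7707724010) (nat_lit 532) (nat_lit 33158051342) (nat_lit 158) (nat_lit 5) (nat_lit 164) (nat_lit 5) (nat_lit 165) (nat_lit 5) (nat_lit 398) (nat_lit 365) (nat_lit 137)) (XT.lf (nat_lit 0) (nat_lit 21140522798) (nat_lit 532) (nat_lit 15999624711) (nat_lit 76) (nat_lit 11238784501) (nat_lit 158) (nat_lit 5) (nat_lit 165) (nat_lit 5) (nat_lit 159) (nat_lit 5) (nat_lit 399) (nat_lit 365) (nat_lit 136))) (XT.nd (nat_lit 78) (nat_lit 0) (nat_lit 0) (XT.lf (nat_lit 0) (nat_lit 9724287400) (nat_lit 456) (nat_lit 18549284958) (nat_lit 532) (nat_lit 20967735400) (nat_lit 152) (nat_lit 5) (nat_lit 158) (nat_lit 5) (nat_lit 159) (nat_lit 5) (nat_lit 400) (nat_lit 365) (nat_lit 135)) (XT.lf (nat_lit 0) (nat_lit 35788162513) (nat_lit 532) (nat_lit 13585862630) (nat_lit 76) (nat_lit 750503865) (nat_lit 152) (nat_lit 5) (nat_lit 159) (nat_lit 5) (nat_lit 153) (nat_lit 5) (nat_lit 401) (nat_lit 365)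 (nat_lit 134)))))) (XT.nd (nat_lit 546) (nat_lit 1368) (nat_lit 0) (XT.nd (nat_lit 234) (nat_lit 760) (nat_lit 0) (XT.nd (nat_lit 78) (nat_lit 532) (nat_lit 0) (XT.lf (nat_lit 0) (nat_lit 13195425206) (nat_lit 380) (nat_lit 30641927782) (nat_lit 456) (nat_lit 7187619710) (nat_lit 147) (nat_lit 5) (nat_lit 152) (nat_lit 5) (nat_lit 153) (nat_lit 5) (nat_lit 402) (nat_lit 365) (nat_lit 133)) (XT.nd (nat_lit 78) (nat_lit 456) (nat_lit 0) (XT.lf (nat_lit 0) (nat_lit 309385496) (nat_lit 456) (nat_lit 10894361223) (nat_lit 76) (nat_lit 40744516314) (nat_lit 146) (nat_lit 5) (nat_lit 152) (nat_lit 5) (nat_lit 147) (nat_lit 5) (nat_lit 403) (nat_lit 365) (nat_lit 132)) (XT.lf (nat_lit 0) (nat_lit 8137110658) (nat_lit 532) (nat_lit 35869320125) (nat_lit 76) (nat_lit 8883178767) (nat_lit 140) (nat_lit 5) (nat_lit 147) (nat_lit 5) (nat_lit 141) (nat_lit 5) (nat_lit 404) (nat_lit 365) (nat_lit 131)))) (XT.nd (nat_lit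 156) (nat_lit 380) (nat_lit 0) (XT.nd (nat_lit 78) (nat_lit 380) (nat_lit 0) (XT.lf (nat_lit 0) (nat_lit 16420428001) (nat_lit 532) (nat_lit 7973831539) (nat_lit 76) (nat_lit 29458314717) (nat_lit 140) (nat_lit 5) (nat_lit 147) (nat_lit 5) (nat_lit 141) (nat_lit 5) (nat_lit 405) (nat_lit 365) (nat_lit 130)) (XT.lf (nat_lit 0) (nat_lit 21170051548) (nat_lit 380) (nat_lit 3984461080) (nat_lit 456) (nat_lit 29683847831) (nat_lit 135) (nat_lit 5) (nat_lit 140) (nat_lit 5) (nat_lit 141) (nat_lit 5) (nat_lit 406) (nat_lit 365) (nat_lit 129))) (XT.nd (nat_lit 78) (nat_lit 380) (nat_lit 0) (XT.lf (nat_lit 0) (nat_lit 34394499051) (nat_lit 456) (nat_lit 4665763384) (nat_lit 76) (nat_lit 16786142006) (nat_lit 135) (nat_lit 5) (nat_lit 141) (nat_lit 5) (nat_lit 136) (nat_lit 5) (nat_lit 407) (nat_lit 365) (nat_lit 128)) (XT.lf (nat_lit 0) (nat_lit 25666712553) (nat_lit 380) (nat_lit 18529967958) (nat_lit 456) (nat_lit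 12679459923) (nat_lit 130) (nat_lit 5) (nat_lit 135) (nat_lit 5) (nat_lit 136) (nat_lit 5) (nat_lit 408) (nat_lit 365) (nat_lit 127))))) (XT.nd (nat_lit 234) (nat_lit 608) (nat_lit 0) (XT.nd (nat_lit 78) (nat_lit 760) (nat_lit 0) (XT.lf (nat_lit 0) (nat_lit 54364495058) (nat_lit 456) (nat_lit 957726496) (nat_lit 76) (nat_lit 2612400461) (nat_lit 130) (nat_lit 5) (nat_lit 136) (nat_lit 5) (nat_lit 131) (nat_lit 5) (nat_lit 409) (nat_lit 365) (nat_lit 126)) (XT.nd (nat_lit 78) (nat_lit 380) (nat_lit 0) (XT.lf (nat_lit 0) (nat_lit 6180397897) (nat_lit 380) (nat_lit 28457220176) (nat_lit 76) (nat_lit 24371124250) (nat_lit 125) (nat_lit 5) (nat_lit 130) (nat_lit 5) (nat_lit 126) (nat_lit 5) (nat_lit 410) (nat_lit 365) (nat_lit 125)) (XT.lf (nat_lit 0) (nat_lit 2931112735) (nat_lit 380) (nat_lit 13257390366) (nat_lit 456) (nat_lit 43924418579) (nat_lit 120) (nat_lit 5) (nat_lit 125) (nat_lit 5) (nat_lit 126)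 (nat_lit 5) (nat_lit 411) (nat_lit 365) (nat_lit 124)))) (XT.nd (nat_lit 156) (nat_lit 304) (nat_lit 0) (XT.nd (nat_lit 78) (nat_lit 304) (nat_lit 0) (XT.lf (nat_lit 0) (nat_lit 26870198350) (nat_lit 456) (nat_lit 25485796875) (nat_lit 76) (nat_lit 8883031264) (nat_lit 120) (nat_lit 5) (nat_lit 126) (nat_lit 5) (nat_lit 121) (nat_lit 5) (nat_lit 412) (nat_lit 365) (nat_lit 123)) (XT.lf (nat_lit 0) (nat_lit 7168217224) (nat_lit 304) (nat_lit 30903218392) (nat_lit 380) (nat_lit 24321506557) (nat_lit 116) (nat_lit 5) (nat_lit 120) (nat_lit 5) (nat_lit 121) (nat_lit 5) (nat_lit 413) (nat_lit 365) (nat_lit 122))) (XT.nd (nat_lit 78) (nat_lit 304) (nat_lit 0) (XT.lf (nat_lit 0) (nat_lit 41322805473) (nat_lit 304) (nat_lit 8542202778) (nat_lit 380) (nat_lit 13708778579) (nat_lit 116) (nat_lit 5) (nat_lit 120) (nat_lit 5) (nat_lit 121) (nat_lit 5) (nat_lit 414) (nat_lit 365) (nat_lit 121)) (XT.lf (nat_lit 0) (nat_lit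 11801516989) (nat_lit 304) (nat_lit 50462566355) (nat_lit 380) (nat_lit 2518423062) (nat_lit 112) (nat_lit 5) (nat_lit 116) (nat_lit 5) (nat_lit 117) (nat_lit 5) (nat_lit 415) (nat_lit 365) (nat_lit 120))))))))
noncomputable def xc234 : XT := (XT.nd (nat_lit 44226) (nat_lit 0) (nat_lit 3268) (XT.nd (nat_lit 43212) (nat_lit 0) (nat_lit 10108) (XT.nd (nat_lit 468) (nat_lit 532) (nat_lit 0) (XT.nd (nat_lit 234) (nat_lit 608) (nat_lit 0) (XT.nd (nat_lit 78) (nat_lit 304) (nat_lit 0) (XT.lf (nat_lit 0) (nat_lit 9142337970) (nat_lit 380) (nat_lit 18863891960) (nat_lit 76) (nat_lit 38009346450) (nat_lit 111) (nat_lit 5) (nat_lit 116) (nat_lit 5) (nat_lit 112) (nat_lit 5) (nat_lit 416) (nat_lit 365) (nat_lit 119)) (XT.nd (nat_lit 78) (nat_lit 0) (nat_lit 0) (XT.lf (nat_lit 0) (nat_lit 16573769506) (nat_lit 304) (nat_lit 4686855805) (nat_lit 380) (nat_lit 46019515859) (nat_lit 107) (nat_lit 5) (nat_lit 111) (nat_lit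 5) (nat_lit 112) (nat_lit 5) (nat_lit 417) (nat_lit 365) (nat_lit 118)) (XT.lf (nat_lit 0) (nat_lit 34119682907) (nat_lit 380) (nat_lit 15304833746) (nat_lit 76) (nat_lit 19146809989) (nat_lit 107) (nat_lit 5) (nat_lit 112) (nat_lit 5) (nat_lit 108) (nat_lit 5) (nat_lit 418) (nat_lit 365) (nat_lit 117)))) (XT.nd (nat_lit 78) (nat_lit 304) (nat_lit 0) (XT.lf (nat_lit 0) (nat_lit 21531097378) (nat_lit 304) (nat_lit 26085833449) (nat_lit 380) (nat_lit 22276744671) (nat_lit 103) (nat_lit 5) (nat_lit 107) (nat_lit 5) (nat_lit 108) (nat_lit 5) (nat_lit 419) (nat_lit 365) (nat_lit 116)) (XT.nd (nat_lit 78) (nat_lit 304) (nat_lit 0) (XT.lf (nat_lit 0) (nat_lit 59784456546) (nat_lit 304) (nat_lit 1888246995) (nat_lit 380) (nat_lit 9578383424) (nat_lit 103) (nat_lit 5) (nat_lit 107) (nat_lit 5) (nat_lit 108) (nat_lit 5) (nat_lit 420) (nat_lit 365) (nat_lit 115)) (XT.lf (nat_lit 0) (nat_lit 3915835479) (nat_lit 304)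 (nat_lit 45836169555) (nat_lit 76) (nat_lit 22881709820) (nat_lit 99) (nat_lit 5) (nat_lit 103) (nat_lit 5) (nat_lit 100) (nat_lit 5) (nat_lit 421) (nat_lit 365) (nat_lit 114))))) (XT.nd (nat_lit 234) (nat_lit 228) (nat_lit 0) (XT.nd (nat_lit 78) (nat_lit 304) (nat_lit 0) (XT.lf (nat_lit 0) (nat_lit 17757083637) (nat_lit 304) (nat_lit 7725696756) (nat_lit 76) (nat_lit 48568154896) (nat_lit 99) (nat_lit 5) (nat_lit 103) (nat_lit 5) (nat_lit 100) (nat_lit 5) (nat_lit 422) (nat_lit 365) (nat_lit 113)) (XT.nd (nat_lit 78) (nat_lit 0) (nat_lit 0) (XT.lf (nat_lit 0) (nat_lit 32154202067) (nat_lit 304) (nat_lit 167565916) (nat_lit 380) (nat_lit 43179658717) (nat_lit 95) (nat_lit 5) (nat_lit 99) (nat_lit 5) (nat_lit 100) (nat_lit 5) (nat_lit 423) (nat_lit 365) (nat_lit 112)) (XT.lf (nat_lit 0) (nat_lit 47650336369) (nat_lit 380) (nat_lit 3855374365) (nat_lit 76) (nat_lit 25479914130) (nat_lit 95) (nat_lit 5) (nat_lit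 100) (nat_lit 5) (nat_lit 96) (nat_lit 5) (nat_lit 424) (nat_lit 365) (nat_lit 111)))) (XT.nd (nat_lit 42354) (nat_lit 0) (nat_lit 11248) (XT.nd (nat_lit 42276) (nat_lit 0) (nat_lit 11248) (XT.lf (nat_lit 0) (nat_lit 37551025534) (nat_lit 228) (nat_lit 26249506106) (nat_lit 304) (nat_lit 14702964546) (nat_lit 92) (nat_lit 5) (nat_lit 95) (nat_lit 5) (nat_lit 96) (nat_lit 5) (nat_lit 425) (nat_lit 365) (nat_lit 110)) (XT.lf (nat_lit 0) (nat_lit 6979194642) (nat_lit 0) (nat_lit 6979194642) (nat_lit 1140) (nat_lit 405230874) (nat_lit 240) (nat_lit 5) (nat_lit 240) (nat_lit 3) (nat_lit 255) (nat_lit 3) (nat_lit 366) (nat_lit 366) (nat_lit 168))) (XT.nd (nat_lit 78) (nat_lit 0) (nat_lit 0) (XT.lf (nat_lit 0) (nat_lit 27985279237) (nat_lit 0) (nat_lit 427324287) (nat_lit 1140) (nat_lit 743182565) (nat_lit 240) (nat_lit 5) (nat_lit 240) (nat_lit 3) (nat_lit 255) (nat_lit 3) (nat_lit 367) (nat_lit 366) (nat_lit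 167)) (XT.lf (nat_lit 76) (nat_lit 12957154522) (nat_lit 0) (nat_lit 16217570543) (nat_lit 1216) (nat_lit 414922489) (nat_lit 241) (nat_lit 5) (nat_lit 240) (nat_lit 5) (nat_lit 256) (nat_lit 5) (nat_lit 368) (nat_lit 366) (nat_lit 166)))))) (XT.nd (nat_lit 468) (nat_lit 0) (nat_lit 152) (XT.nd (nat_lit 234) (nat_lit 0) (nat_lit 76) (XT.nd (nat_lit 78) (nat_lit 1140) (nat_lit 0) (XT.lf (nat_lit 76) (nat_lit 27526729984) (nat_lit 0) (nat_lit 2446067907) (nat_lit 1216) (nat_lit 63336262) (nat_lit 241) (nat_lit 5) (nat_lit 240) (nat_lit 5) (nat_lit 256) (nat_lit 5) (nat_lit 369) (nat_lit 366) (nat_lit 165)) (XT.nd (nat_lit 78) (nat_lit 0) (nat_lit 0) (XT.lf (nat_lit 0) (nat_lit 522117036) (nat_lit 1216) (nat_lit 18334148733) (nat_lit 1292) (nat_lit 11632790720) (nat_lit 225) (nat_lit 5) (nat_lit 241) (nat_lit 5) (nat_lit 242) (nat_lit 5) (nat_lit 370) (nat_lit 366) (nat_lit 164)) (XT.lf (nat_lit 0) (nat_lit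 1170883722) (nat_lit 1216) (nat_lit 3671002213) (nat_lit 1292) (nat_lit 26112252818) (nat_lit 225) (nat_lit 5) (nat_lit 241) (nat_lit 5) (nat_lit 242) (nat_lit 5) (nat_lit 371) (nat_lit 366) (nat_lit 163)))) (XT.nd (nat_lit 78) (nat_lit 0) (nat_lit 0) (XT.lf (nat_lit 0) (nat_lit 2041803492) (nat_lit 1216) (nat_lit 19865340885) (nat_lit 1292) (nat_lit 9519950113) (nat_lit 226) (nat_lit 5) (nat_lit 242) (nat_lit 5) (nat_lit 243) (nat_lit 5) (nat_lit 372) (nat_lit 366) (nat_lit 162)) (XT.nd (nat_lit 78) (nat_lit 0) (nat_lit 76) (XT.lf (nat_lit 0) (nat_lit 3021594761) (nat_lit 1216) (nat_lit 4636403511) (nat_lit 1292) (nat_lit 24253759963) (nat_lit 226) (nat_lit 5) (nat_lit 242) (nat_lit 5) (nat_lit 243) (nat_lit 5) (nat_lit 373) (nat_lit 366) (nat_lit 161)) (XT.lf (nat_lit 0) (nat_lit 4205083334) (nat_lit 1216) (nat_lit 21208729795) (nat_lit 1292) (nat_lit 6991921263) (nat_lit 227) (nat_lit 5) (nat_lit 243)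 (nat_lit 5) (nat_lit 244) (nat_lit 5) (nat_lit 374) (nat_lit 366) (nat_lit 160))))) (XT.nd (nat_lit 234) (nat_lit 0) (nat_lit 152) (XT.nd (nat_lit 78) (nat_lit 0) (nat_lit 76) (XT.lf (nat_lit 0) (nat_lit 5544691392) (nat_lit 1216) (nat_lit 5390686572) (nat_lit 1292) (nat_lit 21975534985) (nat_lit 227) (nat_lit 5) (nat_lit 243) (nat_lit 5) (nat_lit 244) (nat_lit 5) (nat_lit 375) (nat_lit 366) (nat_lit 159)) (XT.nd (nat_lit 78) (nat_lit 0) (nat_lit 0) (XT.lf (nat_lit 0) (nat_lit 7068234404) (nat_lit 1216) (nat_lit 22350261934) (nat_lit 1292) (nat_lit 4008439637) (nat_lit 228) (nat_lit 5) (nat_lit 244) (nat_lit 5) (nat_lit 245) (nat_lit 5) (nat_lit 376) (nat_lit 366) (nat_lit 158)) (XT.lf (nat_lit 0) (nat_lit 8798373599) (nat_lit 1216) (nat_lit 5918802131) (nat_lit 1292) (nat_lit 19236438737) (nat_lit 228) (nat_lit 5) (nat_lit 244) (nat_lit 5) (nat_lit 245) (nat_lit 5) (nat_lit 377) (nat_lit 366) (nat_lit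 157)))) (XT.nd (nat_lit 156) (nat_lit 0) (nat_lit 0) (XT.nd (nat_lit 78) (nat_lit 0) (nat_lit 0) (XT.lf (nat_lit 0) (nat_lit 10691172483) (nat_lit 1216) (nat_lit 23275180983) (nat_lit 1292) (nat_lit 526418609) (nat_lit 229) (nat_lit 5) (nat_lit 245) (nat_lit 5) (nat_lit 246) (nat_lit 5) (nat_lit 378) (nat_lit 366) (nat_lit 156)) (XT.lf (nat_lit 0) (nat_lit 12844598968) (nat_lit 1216) (nat_lit 6204963143) (nat_lit 1292) (nat_lit 15992428379) (nat_lit 229) (nat_lit 5) (nat_lit 245) (nat_lit 5) (nat_lit 246) (nat_lit 5) (nat_lit 379) (nat_lit 366) (nat_lit 155))) (XT.nd (nat_lit 78) (nat_lit 0) (nat_lit 76) (XT.lf (nat_lit 76) (nat_lit 11602059038) (nat_lit 0) (nat_lit 3569929240) (nat_lit 1292) (nat_lit 20432417722) (nat_lit 230) (nat_lit 5) (nat_lit 229) (nat_lit 5) (nat_lit 246) (nat_lit 5) (nat_lit 380) (nat_lit 366) (nat_lit 154)) (XT.lf (nat_lit 0) (nat_lit 17749309991) (nat_lit 1216) (nat_lit 6232646970)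 (nat_lit 1292) (nat_lit 12196335001) (nat_lit 230) (nat_lit 5) (nat_lit 246) (nat_lit 5) (nat_lit 247) (nat_lit 5) (nat_lit 381) (nat_lit 366) (nat_lit 153))))))) (XT.nd (nat_lit 1014) (nat_lit 3192) (nat_lit 0) (XT.nd (nat_lit 468) (nat_lit 2280) (nat_lit 0) (XT.nd (nat_lit 234) (nat_lit 608) (nat_lit 0) (XT.nd (nat_lit 78) (nat_lit 1140) (nat_lit 0) (XT.lf (nat_lit 76) (nat_lit 12272578897) (nat_lit 0) (nat_lit 8282636465) (nat_lit 1292) (nat_lit 16209642488) (nat_lit 231) (nat_lit 5) (nat_lit 230) (nat_lit 5) (nat_lit 247) (nat_lit 5) (nat_lit 382) (nat_lit 366) (nat_lit 152)) (XT.nd (nat_lit 78) (nat_lit 1216) (nat_lit 0) (XT.lf (nat_lit 0) (nat_lit 23582672972) (nat_lit 1216) (nat_lit 5984601563) (nat_lit 76) (nat_lit 7797626157) (nat_lit 231) (nat_lit 5) (nat_lit 247) (nat_lit 5) (nat_lit 232) (nat_lit 5) (nat_lit 383) (nat_lit 366) (nat_lit 151)) (XT.lf (nat_lit 0) (nat_lit 13253219371) (nat_lit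 1216) (nat_lit 13655191110) (nat_lit 1292) (nat_lit 11068311851) (nat_lit 215) (nat_lit 5) (nat_lit 231) (nat_lit 5) (nat_lit 232) (nat_lit 5) (nat_lit 384) (nat_lit 366) (nat_lit 150)))) (XT.nd (nat_lit 78) (nat_lit 608) (nat_lit 0) (XT.lf (nat_lit 0) (nat_lit 30419329096) (nat_lit 1292) (nat_lit 5442856340) (nat_lit 76) (nat_lit 2742152077) (nat_lit 215) (nat_lit 5) (nat_lit 232) (nat_lit 5) (nat_lit 216) (nat_lit 5) (nat_lit 385) (nat_lit 366) (nat_lit 149)) (XT.nd (nat_lit 78) (nat_lit 0) (nat_lit 0) (XT.lf (nat_lit 0) (nat_lit 14563504520) (nat_lit 608) (nat_lit 19745414036) (nat_lit 684) (nat_lit 4933663420) (nat_lit 207) (nat_lit 5) (nat_lit 215) (nat_lit 5) (nat_lit 216) (nat_lit 5) (nat_lit 386) (nat_lit 366) (nat_lit 148)) (XT.lf (nat_lit 0) (nat_lit 35279954335) (nat_lit 608) (nat_lit 3088391385) (nat_lit 684) (nat_lit 1530034648) (nat_lit 207) (nat_lit 5) (nat_lit 215) (nat_lit 5) (nat_lit 216)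 (nat_lit 5) (nat_lit 387) (nat_lit 366) (nat_lit 147))))) (XT.nd (nat_lit 234) (nat_lit 1064) (nat_lit 0) (XT.nd (nat_lit 78) (nat_lit 608) (nat_lit 0) (XT.lf (nat_lit 0) (nat_lit 2229442149) (nat_lit 608) (nat_lit 24363315145) (nat_lit 76) (nat_lit 13971757931) (nat_lit 199) (nat_lit 5) (nat_lit 207) (nat_lit 5) (nat_lit 200) (nat_lit 5) (nat_lit 388) (nat_lit 366) (nat_lit 146)) (XT.nd (nat_lit 78) (nat_lit 608) (nat_lit 0) (XT.lf (nat_lit 0) (nat_lit 6146887037) (nat_lit 608) (nat_lit 3557036165) (nat_lit 76) (nat_lit 31543979382) (nat_lit 199) (nat_lit 5) (nat_lit 207) (nat_lit 5) (nat_lit 200) (nat_lit 5) (nat_lit 389) (nat_lit 366) (nat_lit 145)) (XT.lf (nat_lit 0) (nat_lit 10431049842) (nat_lit 684) (nat_lit 23794794545) (nat_lit 76) (nat_lit 7718472313) (nat_lit 191) (nat_lit 5) (nat_lit 200) (nat_lit 5) (nat_lit 192) (nat_lit 5) (nat_lit 390) (nat_lit 366) (nat_lit 144)))) (XT.nd (nat_lit 156)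 (nat_lit 532) (nat_lit 0) (XT.nd (nat_lit 78) (nat_lit 532) (nat_lit 0) (XT.lf (nat_lit 0) (nat_lit 14974434172) (nat_lit 684) (nat_lit 2178472495) (nat_lit 76) (nat_lit 25504796616) (nat_lit 191) (nat_lit 5) (nat_lit 200) (nat_lit 5) (nat_lit 192) (nat_lit 5) (nat_lit 391) (nat_lit 366) (nat_lit 143)) (XT.lf (nat_lit 0) (nat_lit 19855524672) (nat_lit 608) (nat_lit 22908309890) (nat_lit 76) (nat_lit 622615679) (nat_lit 184) (nat_lit 5) (nat_lit 192) (nat_lit 5) (nat_lit 185) (nat_lit 5) (nat_lit 392) (nat_lit 366) (nat_lit 142))) (XT.nd (nat_lit 78) (nat_lit 532) (nat_lit 0) (XT.lf (nat_lit 0) (nat_lit 25073517316) (nat_lit 608) (nat_lit 449008453) (nat_lit 76) (nat_lit 18608820645) (nat_lit 184) (nat_lit 5) (nat_lit 192) (nat_lit 5) (nat_lit 185) (nat_lit 5) (nat_lit 393) (nat_lit 366) (nat_lit 141)) (XT.lf (nat_lit 0) (nat_lit 23133877529) (nat_lit 532) (nat_lit 7535017699) (nat_lit 608) (nat_lit 14223069743)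 (nat_lit 177) (nat_lit 5) (nat_lit 184) (nat_lit 5) (nat_lit 185) (nat_lit 5) (nat_lit 394) (nat_lit 366) (nat_lit 140)))))) (XT.nd (nat_lit 546) (nat_lit 1292) (nat_lit 0) (XT.nd (nat_lit 234) (nat_lit 912) (nat_lit 0) (XT.nd (nat_lit 78) (nat_lit 532) (nat_lit 0) (XT.lf (nat_lit 0) (nat_lit 1683686392) (nat_lit 456) (nat_lit 34873371368) (nat_lit 532) (nat_lit 9114597467) (nat_lit 171) (nat_lit 5) (nat_lit 177) (nat_lit 5) (nat_lit 178) (nat_lit 5) (nat_lit 395) (nat_lit 366) (nat_lit 139)) (XT.nd (nat_lit 78) (nat_lit 532) (nat_lit 0) (XT.lf (nat_lit 0) (nat_lit 26197011341) (nat_lit 456) (nat_lit 16716965379) (nat_lit 532) (nat_lit 3551996935) (nat_lit 171) (nat_lit 5) (nat_lit 177) (nat_lit 5) (nat_lit 178) (nat_lit 5) (nat_lit 396) (nat_lit 366) (nat_lit 138)) (XT.lf (nat_lit 0) (nat_lit 2193803128) (nat_lit 532) (nat_lit 43080556593) (nat_lit 76) (nat_lit 2007370385) (nat_lit 164) (nat_lit 5) (nat_lit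 171) (nat_lit 5) (nat_lit 165) (nat_lit 5) (nat_lit 397) (nat_lit 366) (nat_lit 137)))) (XT.nd (nat_lit 156) (nat_lit 456) (nat_lit 0) (XT.nd (nat_lit 78) (nat_lit 456) (nat_lit 0) (XT.lf (nat_lit 0) (nat_lit 8411381249) (nat_lit 532) (nat_lit 18499261457) (nat_lit 76) (nat_lit 21199138370) (nat_lit 164) (nat_lit 5) (nat_lit 171) (nat_lit 5) (nat_lit 165) (nat_lit 5) (nat_lit 398) (nat_lit 366) (nat_lit 136)) (XT.lf (nat_lit 0) (nat_lit 6953569005) (nat_lit 456) (nat_lit 7927378977) (nat_lit 532) (nat_lit 34079762480) (nat_lit 158) (nat_lit 5) (nat_lit 164) (nat_lit 5) (nat_lit 165) (nat_lit 5) (nat_lit 399) (nat_lit 366) (nat_lit 135))) (XT.nd (nat_lit 78) (nat_lit 456) (nat_lit 0) (XT.lf (nat_lit 0) (nat_lit 21843650077) (nat_lit 532) (nat_lit 16397578624) (nat_lit 76) (nat_lit 11586968278) (nat_lit 158) (nat_lit 5) (nat_lit 165) (nat_lit 5) (nat_lit 159) (nat_lit 5) (nat_lit 400) (nat_lit 366) (nat_lit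 134)) (XT.lf (nat_lit 0) (nat_lit 10097246587) (nat_lit 456) (nat_lit 19092218241) (nat_lit 532) (nat_lit 21527016999) (nat_lit 152) (nat_lit 5) (nat_lit 158) (nat_lit 5) (nat_lit 159) (nat_lit 5) (nat_lit 401) (nat_lit 366) (nat_lit 133))))) (XT.nd (nat_lit 234) (nat_lit 836) (nat_lit 0) (XT.nd (nat_lit 78) (nat_lit 456) (nat_lit 0) (XT.lf (nat_lit 0) (nat_lit 36927647683) (nat_lit 532) (nat_lit 13912695282) (nat_lit 76) (nat_lit 785913106) (nat_lit 152) (nat_lit 5) (nat_lit 159) (nat_lit 5) (nat_lit 153) (nat_lit 5) (nat_lit 402) (nat_lit 366) (nat_lit 132)) (XT.nd (nat_lit 78) (nat_lit 76) (nat_lit 0) (XT.lf (nat_lit 0) (nat_lit 13671239589) (nat_lit 380) (nat_lit 31545925149) (nat_lit 456) (nat_lit 7336583786) (nat_lit 147) (nat_lit 5) (nat_lit 152) (nat_lit 5) (nat_lit 153) (nat_lit 5) (nat_lit 403) (nat_lit 366) (nat_lit 131)) (XT.lf (nat_lit 0) (nat_lit 382126915) (nat_lit 456) (nat_lit 11142275398)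 (nat_lit 76) (nat_lit 41980374068) (nat_lit 146) (nat_lit 5) (nat_lit 152) (nat_lit 5) (nat_lit 147) (nat_lit 5) (nat_lit 404) (nat_lit 366) (nat_lit 130)))) (XT.nd (nat_lit 156) (nat_lit 380) (nat_lit 0) (XT.nd (nat_lit 78) (nat_lit 0) (nat_lit 0) (XT.lf (nat_lit 0) (nat_lit 8443738335) (nat_lit 532) (nat_lit 36865507719) (nat_lit 76) (nat_lit 9165146501) (nat_lit 140) (nat_lit 5) (nat_lit 147) (nat_lit 5) (nat_lit 141) (nat_lit 5) (nat_lit 405) (nat_lit 366) (nat_lit 129)) (XT.lf (nat_lit 0) (nat_lit 16973734391) (nat_lit 532) (nat_lit 8135481427) (nat_lit 76) (nat_lit 30357085878) (nat_lit 140) (nat_lit 5) (nat_lit 147) (nat_lit 5) (nat_lit 141) (nat_lit 5) (nat_lit 406) (nat_lit 366) (nat_lit 128))) (XT.nd (nat_lit 78) (nat_lit 0) (nat_lit 0) (XT.lf (nat_lit 0) (nat_lit 21881957711) (nat_lit 380) (nat_lit 4086854366) (nat_lit 456) (nat_lit 30512881136) (nat_lit 135) (nat_lit 5) (nat_lit 140) (nat_lit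 5) (nat_lit 141) (nat_lit 5) (nat_lit 407) (nat_lit 366) (nat_lit 127)) (XT.lf (nat_lit 0) (nat_lit 35484420271) (nat_lit 456) (nat_lit 4729563557) (nat_lit 76) (nat_lit 17306042842) (nat_lit 135) (nat_lit 5) (nat_lit 141) (nat_lit 5) (nat_lit 136) (nat_lit 5) (nat_lit 408) (nat_lit 366) (nat_lit 126))))))))
noncomputable def xc235 : XT := (XT.nd (nat_lit 44460) (nat_lit 0) (nat_lit 3952) (XT.nd (nat_lit 1014) (nat_lit 608) (nat_lit 0) (XT.nd (nat_lit 468) (nat_lit 988) (nat_lit 0) (XT.nd (nat_lit 234) (nat_lit 684) (nat_lit 0) (XT.nd (nat_lit 78) (nat_lit 380) (nat_lit 0) (XT.lf (nat_lit 0) (nat_lit 26512139866) (nat_lit 380) (nat_lit 19067560516) (nat_lit 456) (nat_lit 13000984159) (nat_lit 130) (nat_lit 5) (nat_lit 135) (nat_lit 5) (nat_lit 136) (nat_lit 5) (nat_lit 409) (nat_lit 366) (nat_lit 125)) (XT.nd (nat_lit 78) (nat_lit 380) (nat_lit 0) (XT.lf (nat_lit 0) (nat_lit 56051056540) (nat_lit 456) (nat_lit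 911710650) (nat_lit 76) (nat_lit 2708198937) (nat_lit 130) (nat_lit 5) (nat_lit 136) (nat_lit 5) (nat_lit 131) (nat_lit 5) (nat_lit 410) (nat_lit 366) (nat_lit 124)) (XT.lf (nat_lit 0) (nat_lit 6421094020) (nat_lit 380) (nat_lit 29235797425) (nat_lit 76) (nat_lit 25120430350) (nat_lit 125) (nat_lit 5) (nat_lit 130) (nat_lit 5) (nat_lit 126) (nat_lit 5) (nat_lit 411) (nat_lit 366) (nat_lit 123)))) (XT.nd (nat_lit 78) (nat_lit 304) (nat_lit 0) (XT.lf (nat_lit 0) (nat_lit 3093448812) (nat_lit 380) (nat_lit 13635098553) (nat_lit 456) (nat_lit 45186106725) (nat_lit 120) (nat_lit 5) (nat_lit 125) (nat_lit 5) (nat_lit 126) (nat_lit 5) (nat_lit 412) (nat_lit 366) (nat_lit 122)) (XT.nd (nat_lit 78) (nat_lit 304) (nat_lit 0) (XT.lf (nat_lit 0) (nat_lit 27729296101) (nat_lit 456) (nat_lit 26176714904) (nat_lit 76) (nat_lit 9168573647) (nat_lit 120) (nat_lit 5) (nat_lit 126) (nat_lit 5) (nat_lit 121) (nat_lit 5) (nat_lit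 413) (nat_lit 366) (nat_lit 121)) (XT.lf (nat_lit 0) (nat_lit 7456197501) (nat_lit 304) (nat_lit 31809530616) (nat_lit 380) (nat_lit 24997415626) (nat_lit 116) (nat_lit 5) (nat_lit 120) (nat_lit 5) (nat_lit 121) (nat_lit 5) (nat_lit 414) (nat_lit 366) (nat_lit 120))))) (XT.nd (nat_lit 234) (nat_lit 608) (nat_lit 0) (XT.nd (nat_lit 78) (nat_lit 380) (nat_lit 0) (XT.lf (nat_lit 0) (nat_lit 42633299113) (nat_lit 304) (nat_lit 8778289903) (nat_lit 380) (nat_lit 14067870938) (nat_lit 116) (nat_lit 5) (nat_lit 120) (nat_lit 5) (nat_lit 121) (nat_lit 5) (nat_lit 415) (nat_lit 366) (nat_lit 119)) (XT.nd (nat_lit 78) (nat_lit 76) (nat_lit 0) (XT.lf (nat_lit 0) (nat_lit 12227011072) (nat_lit 304) (nat_lit 51955025746) (nat_lit 380) (nat_lit 2542422915) (nat_lit 112) (nat_lit 5) (nat_lit 116) (nat_lit 5) (nat_lit 117) (nat_lit 5) (nat_lit 416) (nat_lit 366) (nat_lit 118)) (XT.lf (nat_lit 0) (nat_lit 9465682728) (nat_lit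 380) (nat_lit 19359444756) (nat_lit 76) (nat_lit 39169424214) (nat_lit 111) (nat_lit 5) (nat_lit 116) (nat_lit 5) (nat_lit 112) (nat_lit 5) (nat_lit 417) (nat_lit 366) (nat_lit 117)))) (XT.nd (nat_lit 156) (nat_lit 304) (nat_lit 0) (XT.nd (nat_lit 78) (nat_lit 0) (nat_lit 0) (XT.lf (nat_lit 0) (nat_lit 17140656711) (nat_lit 304) (nat_lit 4806102370) (nat_lit 380) (nat_lit 47350317713) (nat_lit 107) (nat_lit 5) (nat_lit 111) (nat_lit 5) (nat_lit 112) (nat_lit 5) (nat_lit 418) (nat_lit 366) (nat_lit 116)) (XT.lf (nat_lit 0) (nat_lit 35190380508) (nat_lit 380) (nat_lit 15695107483) (nat_lit 76) (nat_lit 19741546634) (nat_lit 107) (nat_lit 5) (nat_lit 112) (nat_lit 5) (nat_lit 108) (nat_lit 5) (nat_lit 419) (nat_lit 366) (nat_lit 115))) (XT.nd (nat_lit 78) (nat_lit 0) (nat_lit 0) (XT.lf (nat_lit 0) (nat_lit 22245226366) (nat_lit 304) (nat_lit 26846602990) (nat_lit 380) (nat_lit 22897246628) (nat_lit 103) (nat_lit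 5) (nat_lit 107) (nat_lit 5) (nat_lit 108) (nat_lit 5) (nat_lit 420) (nat_lit 366) (nat_lit 114)) (XT.lf (nat_lit 0) (nat_lit 61644200016) (nat_lit 304) (nat_lit 1923724053) (nat_lit 380) (nat_lit 9819326788) (nat_lit 103) (nat_lit 5) (nat_lit 107) (nat_lit 5) (nat_lit 108) (nat_lit 5) (nat_lit 421) (nat_lit 366) (nat_lit 113)))))) (XT.nd (nat_lit 42900) (nat_lit 0) (nat_lit 9880) (XT.nd (nat_lit 42588) (nat_lit 0) (nat_lit 9804) (XT.nd (nat_lit 78) (nat_lit 304) (nat_lit 0) (XT.lf (nat_lit 0) (nat_lit 4078334957) (nat_lit 304) (nat_lit 47143627590) (nat_lit 76) (nat_lit 23589396492) (nat_lit 99) (nat_lit 5) (nat_lit 103) (nat_lit 5) (nat_lit 100) (nat_lit 5) (nat_lit 422) (nat_lit 366) (nat_lit 112)) (XT.nd (nat_lit 78) (nat_lit 304) (nat_lit 0) (XT.lf (nat_lit 0) (nat_lit 18333509168) (nat_lit 304) (nat_lit 7891810327) (nat_lit 76) (nat_lit 50045816415) (nat_lit 99) (nat_lit 5) (nat_lit 103) (nat_lit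 5) (nat_lit 100) (nat_lit 5) (nat_lit 423) (nat_lit 366) (nat_lit 111)) (XT.lf (nat_lit 0) (nat_lit 33183841761) (nat_lit 304) (nat_lit 150644040) (nat_lit 380) (nat_lit 44430676178) (nat_lit 95) (nat_lit 5) (nat_lit 99) (nat_lit 5) (nat_lit 100) (nat_lit 5) (nat_lit 424) (nat_lit 366) (nat_lit 110)))) (XT.nd (nat_lit 156) (nat_lit 1216) (nat_lit 0) (XT.nd (nat_lit 78) (nat_lit 0) (nat_lit 0) (XT.lf (nat_lit 0) (nat_lit 7226736682) (nat_lit 0) (nat_lit 7226736682) (nat_lit 1140) (nat_lit 338715278) (nat_lit 240) (nat_lit 5) (nat_lit 240) (nat_lit 3) (nat_lit 255) (nat_lit 3) (nat_lit 367) (nat_lit 367) (nat_lit 166)) (XT.lf (nat_lit 0) (nat_lit 28898946742) (nat_lit 0) (nat_lit 514253143) (nat_lit 1140) (nat_lit 612715863) (nat_lit 240) (nat_lit 5) (nat_lit 240) (nat_lit 3) (nat_lit 255) (nat_lit 3) (nat_lit 368) (nat_lit 367) (nat_lit 165))) (XT.nd (nat_lit 78) (nat_lit 1216) (nat_lit 0) (XT.lf (nat_lit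 76) (nat_lit 13424456498) (nat_lit 0) (nat_lit 16769475334) (nat_lit 1216) (nat_lit 278991659) (nat_lit 241) (nat_lit 5) (nat_lit 240) (nat_lit 5) (nat_lit 256) (nat_lit 5) (nat_lit 369) (nat_lit 367) (nat_lit 164)) (XT.lf (nat_lit 0) (nat_lit 77282380) (nat_lit 1216) (nat_lit 2504860634) (nat_lit 1292) (nat_lit 28350767493) (nat_lit 224) (nat_lit 5) (nat_lit 240) (nat_lit 5) (nat_lit 241) (nat_lit 5) (nat_lit 370) (nat_lit 367) (nat_lit 163))))) (XT.nd (nat_lit 234) (nat_lit 0) (nat_lit 76) (XT.nd (nat_lit 78) (nat_lit 0) (nat_lit 0) (XT.lf (nat_lit 0) (nat_lit 675094570) (nat_lit 1216) (nat_lit 18800956397) (nat_lit 1292) (nat_lit 11923471279) (nat_lit 225) (nat_lit 5) (nat_lit 241) (nat_lit 5) (nat_lit 242) (nat_lit 5) (nat_lit 371) (nat_lit 367) (nat_lit 162)) (XT.nd (nat_lit 78) (nat_lit 0) (nat_lit 76) (XT.lf (nat_lit 0) (nat_lit 1339324819) (nat_lit 1216) (nat_lit 3700339273) (nat_lit 1292) (nat_lit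 26839015390) (nat_lit 225) (nat_lit 5) (nat_lit 241) (nat_lit 5) (nat_lit 242) (nat_lit 5) (nat_lit 372) (nat_lit 367) (nat_lit 161)) (XT.lf (nat_lit 0) (nat_lit 2232775699) (nat_lit 1216) (nat_lit 20376830072) (nat_lit 1292) (nat_lit 9756328459) (nat_lit 226) (nat_lit 5) (nat_lit 242) (nat_lit 5) (nat_lit 243) (nat_lit 5) (nat_lit 373) (nat_lit 367) (nat_lit 160)))) (XT.nd (nat_lit 156) (nat_lit 0) (nat_lit 76) (XT.nd (nat_lit 78) (nat_lit 0) (nat_lit 76) (XT.lf (nat_lit 0) (nat_lit 3238182510) (nat_lit 1216) (nat_lit 4693484898) (nat_lit 1292) (nat_lit 24933586201) (nat_lit 226) (nat_lit 5) (nat_lit 242) (nat_lit 5) (nat_lit 243) (nat_lit 5) (nat_lit 374) (nat_lit 367) (nat_lit 159)) (XT.lf (nat_lit 0) (nat_lit 4453885950) (nat_lit 1216) (nat_lit 21759614311) (nat_lit 1292) (nat_lit 7160649790) (nat_lit 227) (nat_lit 5) (nat_lit 243) (nat_lit 5) (nat_lit 244) (nat_lit 5) (nat_lit 375) (nat_lit 367) (nat_lit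 158))) (XT.nd (nat_lit 78) (nat_lit 0) (nat_lit 76) (XT.lf (nat_lit 0) (nat_lit 5830109916) (nat_lit 1216) (nat_lit 5469516512) (nat_lit 1292) (nat_lit 22594966946) (nat_lit 227) (nat_lit 5) (nat_lit 243) (nat_lit 5) (nat_lit 244) (nat_lit 5) (nat_lit 376) (nat_lit 367) (nat_lit 157)) (XT.lf (nat_lit 0) (nat_lit 7396350008) (nat_lit 1216) (nat_lit 22934797468) (nat_lit 1292) (nat_lit 4095042065) (nat_lit 228) (nat_lit 5) (nat_lit 244) (nat_lit 5) (nat_lit 245) (nat_lit 5) (nat_lit 377) (nat_lit 367) (nat_lit 156))))))) (XT.nd (nat_lit 1014) (nat_lit 3952) (nat_lit 0) (XT.nd (nat_lit 468) (nat_lit 2204) (nat_lit 0) (XT.nd (nat_lit 234) (nat_lit 0) (nat_lit 76) (XT.nd (nat_lit 78) (nat_lit 0) (nat_lit 76) (XT.lf (nat_lit 0) (nat_lit 9175012740) (nat_lit 1216) (nat_lit 6012897919) (nat_lit 1292) (nat_lit 19780861257) (nat_lit 228) (nat_lit 5) (nat_lit 244) (nat_lit 5) (nat_lit 245) (nat_lit 5) (nat_lit 378)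 (nat_lit 367) (nat_lit 155)) (XT.nd (nat_lit 78) (nat_lit 0) (nat_lit 0) (XT.lf (nat_lit 0) (nat_lit 11121843070) (nat_lit 1216) (nat_lit 23887147318) (nat_lit 1292) (nat_lit 515198490) (nat_lit 229) (nat_lit 5) (nat_lit 245) (nat_lit 5) (nat_lit 246) (nat_lit 5) (nat_lit 379) (nat_lit 367) (nat_lit 154)) (XT.lf (nat_lit 0) (nat_lit 13336670347) (nat_lit 1216) (nat_lit 6307336218) (nat_lit 1292) (nat_lit 16445975329) (nat_lit 229) (nat_lit 5) (nat_lit 245) (nat_lit 5) (nat_lit 246) (nat_lit 5) (nat_lit 380) (nat_lit 367) (nat_lit 153)))) (XT.nd (nat_lit 78) (nat_lit 0) (nat_lit 76) (XT.lf (nat_lit 76) (nat_lit 12033075298) (nat_lit 0) (nat_lit 3698494709) (nat_lit 1292) (nat_lit 20937771135) (nat_lit 230) (nat_lit 5) (nat_lit 229) (nat_lit 5) (nat_lit 246) (nat_lit 5) (nat_lit 381) (nat_lit 367) (nat_lit 152)) (XT.nd (nat_lit 78) (nat_lit 0) (nat_lit 0) (XT.lf (nat_lit 0) (nat_lit 18382969601) (nat_lit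 1216) (nat_lit 6335783770) (nat_lit 1292) (nat_lit 12541789438) (nat_lit 230) (nat_lit 5) (nat_lit 246) (nat_lit 5) (nat_lit 247) (nat_lit 5) (nat_lit 382) (nat_lit 367) (nat_lit 151)) (XT.lf (nat_lit 76) (nat_lit 12723776886) (nat_lit 0) (nat_lit 8547126293) (nat_lit 1292) (nat_lit 16593868784) (nat_lit 231) (nat_lit 5) (nat_lit 230) (nat_lit 5) (nat_lit 247) (nat_lit 5) (nat_lit 383) (nat_lit 367) (nat_lit 150))))) (XT.nd (nat_lit 234) (nat_lit 1216) (nat_lit 0) (XT.nd (nat_lit 78) (nat_lit 1216) (nat_lit 0) (XT.lf (nat_lit 0) (nat_lit 24386150687) (nat_lit 1216) (nat_lit 6080444320) (nat_lit 76) (nat_lit 8016313867) (nat_lit 231) (nat_lit 5) (nat_lit 247) (nat_lit 5) (nat_lit 232) (nat_lit 5) (nat_lit 384) (nat_lit 367) (nat_lit 149)) (XT.nd (nat_lit 78) (nat_lit 0) (nat_lit 0) (XT.lf (nat_lit 0) (nat_lit 13733690701) (nat_lit 1216) (nat_lit 14075970219) (nat_lit 1292) (nat_lit 11303485941) (nat_lit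 215) (nat_lit 5) (nat_lit 231) (nat_lit 5) (nat_lit 232) (nat_lit 5) (nat_lit 385) (nat_lit 367) (nat_lit 148)) (XT.lf (nat_lit 0) (nat_lit 31423065473) (nat_lit 1292) (nat_lit 5522783958) (nat_lit 76) (nat_lit 2813827980) (nat_lit 215) (nat_lit 5) (nat_lit 232) (nat_lit 5) (nat_lit 216) (nat_lit 5) (nat_lit 386) (nat_lit 367) (nat_lit 147)))) (XT.nd (nat_lit 156) (nat_lit 608) (nat_lit 0) (XT.nd (nat_lit 78) (nat_lit 0) (nat_lit 0) (XT.lf (nat_lit 0) (nat_lit 15082950492) (nat_lit 608) (nat_lit 20344530514) (nat_lit 684) (nat_lit 4989645668) (nat_lit 207) (nat_lit 5) (nat_lit 215) (nat_lit 5) (nat_lit 216) (nat_lit 5) (nat_lit 387) (nat_lit 367) (nat_lit 146)) (XT.lf (nat_lit 0) (nat_lit 36418489699) (nat_lit 608) (nat_lit 3187600463) (nat_lit 684) (nat_lit 1486588450) (nat_lit 207) (nat_lit 5) (nat_lit 215) (nat_lit 5) (nat_lit 216) (nat_lit 5) (nat_lit 388) (nat_lit 367) (nat_lit 145))) (XT.nd (nat_lit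 78) (nat_lit 0) (nat_lit 0) (XT.lf (nat_lit 0) (nat_lit 2382112229) (nat_lit 608) (nat_lit 25010417284) (nat_lit 76) (nat_lit 14386298225) (nat_lit 199) (nat_lit 5) (nat_lit 207) (nat_lit 5) (nat_lit 200) (nat_lit 5) (nat_lit 389) (nat_lit 367) (nat_lit 144)) (XT.lf (nat_lit 0) (nat_lit 6414581818) (nat_lit 608) (nat_lit 3582390633) (nat_lit 76) (nat_lit 32485820663) (nat_lit 199) (nat_lit 5) (nat_lit 207) (nat_lit 5) (nat_lit 200) (nat_lit 5) (nat_lit 390) (nat_lit 367) (nat_lit 143)))))) (XT.nd (nat_lit 546) (nat_lit 1824) (nat_lit 0) (XT.nd (nat_lit 234) (nat_lit 988) (nat_lit 0) (XT.nd (nat_lit 78) (nat_lit 532) (nat_lit 0) (XT.lf (nat_lit 0) (nat_lit 10825607661) (nat_lit 684) (nat_lit 24425573411) (nat_lit 76) (nat_lit 7948969831) (nat_lit 191) (nat_lit 5) (nat_lit 200) (nat_lit 5) (nat_lit 192) (nat_lit 5) (nat_lit 391) (nat_lit 367) (nat_lit 142)) (XT.nd (nat_lit 78) (nat_lit 532) (nat_lit 0) (XT.lf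 (nat_lit 0) (nat_lit 15502916055) (nat_lit 684) (nat_lit 2163181069) (nat_lit 76) (nat_lit 26268914639) (nat_lit 191) (nat_lit 5) (nat_lit 200) (nat_lit 5) (nat_lit 192) (nat_lit 5) (nat_lit 392) (nat_lit 367) (nat_lit 141)) (XT.lf (nat_lit 0) (nat_lit 20528919302) (nat_lit 608) (nat_lit 23513349779) (nat_lit 76) (nat_lit 643398963) (nat_lit 184) (nat_lit 5) (nat_lit 192) (nat_lit 5) (nat_lit 185) (nat_lit 5) (nat_lit 393) (nat_lit 367) (nat_lit 140)))) (XT.nd (nat_lit 156) (nat_lit 456) (nat_lit 0) (XT.nd (nat_lit 78) (nat_lit 532) (nat_lit 0) (XT.lf (nat_lit 0) (nat_lit 25901187776) (nat_lit 608) (nat_lit 382663748) (nat_lit 76) (nat_lit 19169128774) (nat_lit 184) (nat_lit 5) (nat_lit 192) (nat_lit 5) (nat_lit 185) (nat_lit 5) (nat_lit 394) (nat_lit 367) (nat_lit 139)) (XT.lf (nat_lit 0) (nat_lit 23906926315) (nat_lit 532) (nat_lit 7756062412) (nat_lit 608) (nat_lit 14573473074) (nat_lit 177) (nat_lit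 5) (nat_lit 184) (nat_lit 5) (nat_lit 185) (nat_lit 5) (nat_lit 395) (nat_lit 367) (nat_lit 138))) (XT.nd (nat_lit 78) (nat_lit 0) (nat_lit 0) (XT.lf (nat_lit 0) (nat_lit 1814646910) (nat_lit 456) (nat_lit 35911813159) (nat_lit 532) (nat_lit 9313123979) (nat_lit 171) (nat_lit 5) (nat_lit 177) (nat_lit 5) (nat_lit 178) (nat_lit 5) (nat_lit 396) (nat_lit 367) (nat_lit 137)) (XT.lf (nat_lit 0) (nat_lit 27061028407) (nat_lit 456) (nat_lit 17210940991) (nat_lit 532) (nat_lit 3585827317) (nat_lit 171) (nat_lit 5) (nat_lit 177) (nat_lit 5) (nat_lit 178) (nat_lit 5) (nat_lit 397) (nat_lit 367) (nat_lit 136))))) (XT.nd (nat_lit 234) (nat_lit 836) (nat_lit 0) (XT.nd (nat_lit 78) (nat_lit 456) (nat_lit 0) (XT.lf (nat_lit 0) (nat_lit 2329692376) (nat_lit 532) (nat_lit 44292137666) (nat_lit 76) (nat_lit 2076213000) (nat_lit 164) (nat_lit 5) (nat_lit 171) (nat_lit 5) (nat_lit 165) (nat_lit 5) (nat_lit 398) (nat_lit 367)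 (nat_lit 135)) (XT.nd (nat_lit 78) (nat_lit 456) (nat_lit 0) (XT.lf (nat_lit 0) (nat_lit 8731756816) (nat_lit 532) (nat_lit 18975758111) (nat_lit 76) (nat_lit 21843482914) (nat_lit 164) (nat_lit 5) (nat_lit 171) (nat_lit 5) (nat_lit 165) (nat_lit 5) (nat_lit 399) (nat_lit 367) (nat_lit 134)) (XT.lf (nat_lit 0) (nat_lit 7239887841) (nat_lit 456) (nat_lit 8154288147) (nat_lit 532) (nat_lit 35033317195) (nat_lit 158) (nat_lit 5) (nat_lit 164) (nat_lit 5) (nat_lit 165) (nat_lit 5) (nat_lit 400) (nat_lit 367) (nat_lit 133)))) (XT.nd (nat_lit 156) (nat_lit 380) (nat_lit 0) (XT.nd (nat_lit 78) (nat_lit 456) (nat_lit 0) (XT.lf (nat_lit 0) (nat_lit 22563915367) (nat_lit 532) (nat_lit 16812180290) (nat_lit 76) (nat_lit 11944964961) (nat_lit 158) (nat_lit 5) (nat_lit 165) (nat_lit 5) (nat_lit 159) (nat_lit 5) (nat_lit 401) (nat_lit 367) (nat_lit 132)) (XT.lf (nat_lit 0) (nat_lit 10476731583) (nat_lit 456) (nat_lit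 19652217075) (nat_lit 532) (nat_lit 22107081008) (nat_lit 152) (nat_lit 5) (nat_lit 158) (nat_lit 5) (nat_lit 159) (nat_lit 5) (nat_lit 402) (nat_lit 367) (nat_lit 131))) (XT.nd (nat_lit 78) (nat_lit 380) (nat_lit 0) (XT.lf (nat_lit 0) (nat_lit 38097537907) (nat_lit 532) (nat_lit 14253967904) (nat_lit 76) (nat_lit 821644449) (nat_lit 152) (nat_lit 5) (nat_lit 159) (nat_lit 5) (nat_lit 153) (nat_lit 5) (nat_lit 403) (nat_lit 367) (nat_lit 130)) (XT.lf (nat_lit 0) (nat_lit 14156738854) (nat_lit 380) (nat_lit 32477918451) (nat_lit 456) (nat_lit 7493843601) (nat_lit 147) (nat_lit 5) (nat_lit 152) (nat_lit 5) (nat_lit 153) (nat_lit 5) (nat_lit 404) (nat_lit 367) (nat_lit 129))))))))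
noncomputable def xc236 : XT := (XT.nd (nat_lit 44460) (nat_lit 0) (nat_lit 4940) (XT.nd (nat_lit 1014) (nat_lit 988) (nat_lit 0) (XT.nd (nat_lit 468) (nat_lit 1368) (nat_lit 0) (XT.nd (nat_lit 234) (nat_lit 760) (nat_lit 0) (XT.nd (nat_lit 78) (nat_lit 456) (nat_lit 0) (XT.lf (nat_lit 0) (nat_lit 453407722) (nat_lit 456) (nat_lit 11402157139) (nat_lit 76) (nat_lit 43252531321) (nat_lit 146) (nat_lit 5) (nat_lit 152) (nat_lit 5) (nat_lit 147) (nat_lit 5) (nat_lit 405) (nat_lit 367) (nat_lit 128)) (XT.nd (nat_lit 78) (nat_lit 0) (nat_lit 0) (XT.lf (nat_lit 0) (nat_lit 8755976262) (nat_lit 532) (nat_lit 37896167069) (nat_lit 76) (nat_lit 9454685090) (nat_lit 140) (nat_lit 5) (nat_lit 147) (nat_lit 5) (nat_lit 141) (nat_lit 5) (nat_lit 406) (nat_lit 367) (nat_lit 127)) (XT.lf (nat_lit 0) (nat_lit 17540155915) (nat_lit 532) (nat_lit 8306433364) (nat_lit 76) (nat_lit 31281957865) (nat_lit 140) (nat_lit 5) (nat_lit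 147) (nat_lit 5) (nat_lit 141) (nat_lit 5) (nat_lit 407) (nat_lit 367) (nat_lit 126)))) (XT.nd (nat_lit 78) (nat_lit 380) (nat_lit 0) (XT.lf (nat_lit 0) (nat_lit 22610812159) (nat_lit 380) (nat_lit 4193303389) (nat_lit 456) (nat_lit 31370314767) (nat_lit 135) (nat_lit 5) (nat_lit 140) (nat_lit 5) (nat_lit 141) (nat_lit 5) (nat_lit 408) (nat_lit 367) (nat_lit 125)) (XT.nd (nat_lit 78) (nat_lit 380) (nat_lit 0) (XT.lf (nat_lit 0) (nat_lit 36603704739) (nat_lit 456) (nat_lit 4799650361) (nat_lit 76) (nat_lit 17840604064) (nat_lit 135) (nat_lit 5) (nat_lit 141) (nat_lit 5) (nat_lit 136) (nat_lit 5) (nat_lit 409) (nat_lit 367) (nat_lit 124)) (XT.lf (nat_lit 0) (nat_lit 27378600242) (nat_lit 380) (nat_lit 19622331717) (nat_lit 456) (nat_lit 13335532902) (nat_lit 130) (nat_lit 5) (nat_lit 135) (nat_lit 5) (nat_lit 136) (nat_lit 5) (nat_lit 410) (nat_lit 367) (nat_lit 123))))) (XT.nd (nat_lit 234) (nat_lit 608)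 (nat_lit 0) (XT.nd (nat_lit 78) (nat_lit 760) (nat_lit 0) (XT.lf (nat_lit 0) (nat_lit 57785021670) (nat_lit 456) (nat_lit 868605149) (nat_lit 76) (nat_lit 2805871017) (nat_lit 130) (nat_lit 5) (nat_lit 136) (nat_lit 5) (nat_lit 131) (nat_lit 5) (nat_lit 411) (nat_lit 367) (nat_lit 122)) (XT.nd (nat_lit 78) (nat_lit 380) (nat_lit 0) (XT.lf (nat_lit 0) (nat_lit 6665837488) (nat_lit 380) (nat_lit 30042045298) (nat_lit 76) (nat_lit 25891172465) (nat_lit 125) (nat_lit 5) (nat_lit 130) (nat_lit 5) (nat_lit 126) (nat_lit 5) (nat_lit 412) (nat_lit 367) (nat_lit 121)) (XT.lf (nat_lit 0) (nat_lit 3256383953) (nat_lit 380) (nat_lit 14025286843) (nat_lit 456) (nat_lit 46488862694) (nat_lit 120) (nat_lit 5) (nat_lit 125) (nat_lit 5) (nat_lit 126) (nat_lit 5) (nat_lit 413) (nat_lit 367) (nat_lit 120)))) (XT.nd (nat_lit 156) (nat_lit 304) (nat_lit 0) (XT.nd (nat_lit 78) (nat_lit 304) (nat_lit 0) (XT.lf (nat_lit 0) (nat_lit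 28611124837) (nat_lit 456) (nat_lit 26892588623) (nat_lit 76) (nat_lit 9461588671) (nat_lit 120) (nat_lit 5) (nat_lit 126) (nat_lit 5) (nat_lit 121) (nat_lit 5) (nat_lit 414) (nat_lit 367) (nat_lit 119)) (XT.lf (nat_lit 0) (nat_lit 7748630491) (nat_lit 304) (nat_lit 32744225312) (nat_lit 380) (nat_lit 25696686640) (nat_lit 116) (nat_lit 5) (nat_lit 120) (nat_lit 5) (nat_lit 121) (nat_lit 5) (nat_lit 415) (nat_lit 367) (nat_lit 118))) (XT.nd (nat_lit 78) (nat_lit 304) (nat_lit 0) (XT.lf (nat_lit 0) (nat_lit 43979042810) (nat_lit 304) (nat_lit 9022617996) (nat_lit 380) (nat_lit 14440730897) (nat_lit 116) (nat_lit 5) (nat_lit 120) (nat_lit 5) (nat_lit 121) (nat_lit 5) (nat_lit 416) (nat_lit 367) (nat_lit 117)) (XT.lf (nat_lit 0) (nat_lit 12661168536) (nat_lit 304) (nat_lit 53493488375) (nat_lit 380) (nat_lit 2570102107) (nat_lit 112) (nat_lit 5) (nat_lit 116) (nat_lit 5) (nat_lit 117) (nat_lit 5) (nat_lit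 417) (nat_lit 367) (nat_lit 116)))))) (XT.nd (nat_lit 468) (nat_lit 0) (nat_lit 0) (XT.nd (nat_lit 234) (nat_lit 608) (nat_lit 0) (XT.nd (nat_lit 78) (nat_lit 304) (nat_lit 0) (XT.lf (nat_lit 0) (nat_lit 9795910745) (nat_lit 380) (nat_lit 19873903315) (nat_lit 76) (nat_lit 40363167861) (nat_lit 111) (nat_lit 5) (nat_lit 116) (nat_lit 5) (nat_lit 112) (nat_lit 5) (nat_lit 418) (nat_lit 367) (nat_lit 115)) (XT.nd (nat_lit 78) (nat_lit 0) (nat_lit 0) (XT.lf (nat_lit 0) (nat_lit 17720550952) (nat_lit 304) (nat_lit 4930152432) (nat_lit 380) (nat_lit 48723901406) (nat_lit 107) (nat_lit 5) (nat_lit 111) (nat_lit 5) (nat_lit 112) (nat_lit 5) (nat_lit 419) (nat_lit 367) (nat_lit 114)) (XT.lf (nat_lit 0) (nat_lit 36290494897) (nat_lit 380) (nat_lit 16101042925) (nat_lit 76) (nat_lit 20352958219) (nat_lit 107) (nat_lit 5) (nat_lit 112) (nat_lit 5) (nat_lit 108) (nat_lit 5) (nat_lit 420) (nat_lit 367) (nat_lit 113))))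 (XT.nd (nat_lit 78) (nat_lit 304) (nat_lit 0) (XT.lf (nat_lit 0) (nat_lit 22976864491) (nat_lit 304) (nat_lit 27631447341) (nat_lit 380) (nat_lit 23539107581) (nat_lit 103) (nat_lit 5) (nat_lit 107) (nat_lit 5) (nat_lit 108) (nat_lit 5) (nat_lit 421) (nat_lit 367) (nat_lit 112)) (XT.nd (nat_lit 78) (nat_lit 304) (nat_lit 0) (XT.lf (nat_lit 0) (nat_lit 63555935078) (nat_lit 304) (nat_lit 1961480688) (nat_lit 380) (nat_lit 10070162469) (nat_lit 103) (nat_lit 5) (nat_lit 107) (nat_lit 5) (nat_lit 108) (nat_lit 5) (nat_lit 422) (nat_lit 367) (nat_lit 111)) (XT.lf (nat_lit 0) (nat_lit 4243124833) (nat_lit 304) (nat_lit 48494191436) (nat_lit 76) (nat_lit 24317094767) (nat_lit 99) (nat_lit 5) (nat_lit 103) (nat_lit 5) (nat_lit 100) (nat_lit 5) (nat_lit 423) (nat_lit 367) (nat_lit 110))))) (XT.nd (nat_lit 42666) (nat_lit 0) (nat_lit 9500) (XT.nd (nat_lit 42510) (nat_lit 0) (nat_lit 10716) (XT.lf (nat_lit 0) (nat_lit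 18924718160) (nat_lit 304) (nat_lit 8066676305) (nat_lit 76) (nat_lit 51566624286) (nat_lit 99) (nat_lit 5) (nat_lit 103) (nat_lit 5) (nat_lit 100) (nat_lit 5) (nat_lit 424) (nat_lit 367) (nat_lit 109)) (XT.nd (nat_lit 78) (nat_lit 0) (nat_lit 0) (XT.lf (nat_lit 0) (nat_lit 7479514087) (nat_lit 0) (nat_lit 7479514087) (nat_lit 1140) (nat_lit 274720339) (nat_lit 240) (nat_lit 5) (nat_lit 240) (nat_lit 3) (nat_lit 255) (nat_lit 3) (nat_lit 368) (nat_lit 368) (nat_lit 164)) (XT.lf (nat_lit 0) (nat_lit 29835770105) (nat_lit 0) (nat_lit 599535698) (nat_lit 1140) (nat_lit 487104334) (nat_lit 240) (nat_lit 5) (nat_lit 240) (nat_lit 3) (nat_lit 255) (nat_lit 3) (nat_lit 369) (nat_lit 368) (nat_lit 163)))) (XT.nd (nat_lit 156) (nat_lit 0) (nat_lit 76) (XT.nd (nat_lit 78) (nat_lit 1216) (nat_lit 0) (XT.lf (nat_lit 76) (nat_lit 13901266299) (nat_lit 0) (nat_lit 17334184323) (nat_lit 1216) (nat_lit 147500436) (nat_lit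 241) (nat_lit 5) (nat_lit 240) (nat_lit 5) (nat_lit 256) (nat_lit 5) (nat_lit 370) (nat_lit 368) (nat_lit 162)) (XT.lf (nat_lit 0) (nat_lit 212738502) (nat_lit 1216) (nat_lit 2505354206) (nat_lit 1292) (nat_lit 29138726986) (nat_lit 224) (nat_lit 5) (nat_lit 240) (nat_lit 5) (nat_lit 241) (nat_lit 5) (nat_lit 371) (nat_lit 368) (nat_lit 161))) (XT.nd (nat_lit 78) (nat_lit 0) (nat_lit 0) (XT.lf (nat_lit 0) (nat_lit 824779043) (nat_lit 1216) (nat_lit 19286545277) (nat_lit 1292) (nat_lit 12226219094) (nat_lit 225) (nat_lit 5) (nat_lit 241) (nat_lit 5) (nat_lit 242) (nat_lit 5) (nat_lit 372) (nat_lit 368) (nat_lit 160)) (XT.lf (nat_lit 0) (nat_lit 1505166346) (nat_lit 1216) (nat_lit 3735194293) (nat_lit 1292) (nat_lit 27590830199) (nat_lit 225) (nat_lit 5) (nat_lit 241) (nat_lit 5) (nat_lit 242) (nat_lit 5) (nat_lit 373) (nat_lit 368) (nat_lit 159))))))) (XT.nd (nat_lit 1014) (nat_lit 3876) (nat_lit 0) (XT.nd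 (nat_lit 468) (nat_lit 836) (nat_lit 0) (XT.nd (nat_lit 234) (nat_lit 0) (nat_lit 76) (XT.nd (nat_lit 78) (nat_lit 0) (nat_lit 0) (XT.lf (nat_lit 0) (nat_lit 2422030724) (nat_lit 1216) (nat_lit 20908512918) (nat_lit 1292) (nat_lit 10002623594) (nat_lit 226) (nat_lit 5) (nat_lit 242) (nat_lit 5) (nat_lit 243) (nat_lit 5) (nat_lit 374) (nat_lit 368) (nat_lit 158)) (XT.nd (nat_lit 78) (nat_lit 0) (nat_lit 76) (XT.lf (nat_lit 0) (nat_lit 3454038425) (nat_lit 1216) (nat_lit 4756986478) (nat_lit 1292) (nat_lit 25636550371) (nat_lit 226) (nat_lit 5) (nat_lit 242) (nat_lit 5) (nat_lit 243) (nat_lit 5) (nat_lit 375) (nat_lit 368) (nat_lit 157)) (XT.lf (nat_lit 0) (nat_lit 4703112025) (nat_lit 1216) (nat_lit 22331926374) (nat_lit 1292) (nat_lit 7336795411) (nat_lit 227) (nat_lit 5) (nat_lit 243) (nat_lit 5) (nat_lit 244) (nat_lit 5) (nat_lit 376) (nat_lit 368) (nat_lit 156)))) (XT.nd (nat_lit 78) (nat_lit 0) (nat_lit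 76) (XT.lf (nat_lit 0) (nat_lit 6117255443) (nat_lit 1216) (nat_lit 5555469613) (nat_lit 1292) (nat_lit 23235268506) (nat_lit 227) (nat_lit 5) (nat_lit 243) (nat_lit 5) (nat_lit 244) (nat_lit 5) (nat_lit 377) (nat_lit 368) (nat_lit 155)) (XT.nd (nat_lit 78) (nat_lit 0) (nat_lit 0) (XT.lf (nat_lit 0) (nat_lit 7727646269) (nat_lit 1216) (nat_lit 23541804231) (nat_lit 1292) (nat_lit 4186174257) (nat_lit 228) (nat_lit 5) (nat_lit 244) (nat_lit 5) (nat_lit 245) (nat_lit 5) (nat_lit 378) (nat_lit 368) (nat_lit 154)) (XT.lf (nat_lit 0) (nat_lit 9556482308) (nat_lit 1216) (nat_lit 6114608001) (nat_lit 1292) (nat_lit 20343491882) (nat_lit 228) (nat_lit 5) (nat_lit 244) (nat_lit 5) (nat_lit 245) (nat_lit 5) (nat_lit 379) (nat_lit 368) (nat_lit 153))))) (XT.nd (nat_lit 234) (nat_lit 1064) (nat_lit 0) (XT.nd (nat_lit 78) (nat_lit 0) (nat_lit 0) (XT.lf (nat_lit 0) (nat_lit 11559123033) (nat_lit 1216) (nat_lit 24522425991)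 (nat_lit 1292) (nat_lit 505192405) (nat_lit 229) (nat_lit 5) (nat_lit 245) (nat_lit 5) (nat_lit 246) (nat_lit 5) (nat_lit 380) (nat_lit 368) (nat_lit 152)) (XT.nd (nat_lit 78) (nat_lit 0) (nat_lit 0) (XT.lf (nat_lit 0) (nat_lit 13837376934) (nat_lit 1216) (nat_lit 6417589559) (nat_lit 1292) (nat_lit 16914634162) (nat_lit 229) (nat_lit 5) (nat_lit 245) (nat_lit 5) (nat_lit 246) (nat_lit 5) (nat_lit 381) (nat_lit 368) (nat_lit 151)) (XT.lf (nat_lit 76) (nat_lit 12472260118) (nat_lit 0) (nat_lit 3829684814) (nat_lit 1292) (nat_lit 21464462928) (nat_lit 230) (nat_lit 5) (nat_lit 229) (nat_lit 5) (nat_lit 246) (nat_lit 5) (nat_lit 382) (nat_lit 368) (nat_lit 150)))) (XT.nd (nat_lit 156) (nat_lit 1140) (nat_lit 0) (XT.nd (nat_lit 78) (nat_lit 0) (nat_lit 0) (XT.lf (nat_lit 0) (nat_lit 19029830836) (nat_lit 1216) (nat_lit 6446827584) (nat_lit 1292) (nat_lit 12898780596) (nat_lit 230) (nat_lit 5) (nat_lit 246)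 (nat_lit 5) (nat_lit 247) (nat_lit 5) (nat_lit 383) (nat_lit 368) (nat_lit 149)) (XT.lf (nat_lit 76) (nat_lit 13183745091) (nat_lit 0) (nat_lit 8818631734) (nat_lit 1292) (nat_lit 16995480702) (nat_lit 231) (nat_lit 5) (nat_lit 230) (nat_lit 5) (nat_lit 247) (nat_lit 5) (nat_lit 384) (nat_lit 368) (nat_lit 148))) (XT.nd (nat_lit 78) (nat_lit 1216) (nat_lit 0) (XT.lf (nat_lit 0) (nat_lit 25208222082) (nat_lit 1216) (nat_lit 6183966811) (nat_lit 76) (nat_lit 8242437109) (nat_lit 231) (nat_lit 5) (nat_lit 247) (nat_lit 5) (nat_lit 232) (nat_lit 5) (nat_lit 385) (nat_lit 368) (nat_lit 147)) (XT.lf (nat_lit 0) (nat_lit 14223818820) (nat_lit 1216) (nat_lit 14508734174) (nat_lit 1292) (nat_lit 11551276290) (nat_lit 215) (nat_lit 5) (nat_lit 231) (nat_lit 5) (nat_lit 232) (nat_lit 5) (nat_lit 386) (nat_lit 368) (nat_lit 146)))))) (XT.nd (nat_lit 546) (nat_lit 2052) (nat_lit 0) (XT.nd (nat_lit 234) (nat_lit 1216)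 (nat_lit 0) (XT.nd (nat_lit 78) (nat_lit 608) (nat_lit 0) (XT.lf (nat_lit 0) (nat_lit 32451681185) (nat_lit 1292) (nat_lit 5609894498) (nat_lit 76) (nat_lit 2888261993) (nat_lit 215) (nat_lit 5) (nat_lit 232) (nat_lit 5) (nat_lit 216) (nat_lit 5) (nat_lit 387) (nat_lit 368) (nat_lit 145)) (XT.nd (nat_lit 78) (nat_lit 0) (nat_lit 0) (XT.lf (nat_lit 0) (nat_lit 15613241662) (nat_lit 608) (nat_lit 20961232776) (nat_lit 684) (nat_lit 5052590147) (nat_lit 207) (nat_lit 5) (nat_lit 215) (nat_lit 5) (nat_lit 216) (nat_lit 5) (nat_lit 388) (nat_lit 368) (nat_lit 144)) (XT.lf (nat_lit 0) (nat_lit 37586580948) (nat_lit 608) (nat_lit 3289409396) (nat_lit 684) (nat_lit 1446967763) (nat_lit 207) (nat_lit 5) (nat_lit 215) (nat_lit 5) (nat_lit 216) (nat_lit 5) (nat_lit 389) (nat_lit 368) (nat_lit 143)))) (XT.nd (nat_lit 156) (nat_lit 608) (nat_lit 0) (XT.nd (nat_lit 78) (nat_lit 0) (nat_lit 0) (XT.lf (nat_lit 0) (nat_lit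 2534437897) (nat_lit 608) (nat_lit 25681742796) (nat_lit 76) (nat_lit 14813539501) (nat_lit 199) (nat_lit 5) (nat_lit 207) (nat_lit 5) (nat_lit 200) (nat_lit 5) (nat_lit 390) (nat_lit 368) (nat_lit 142)) (XT.lf (nat_lit 0) (nat_lit 6685526361) (nat_lit 608) (nat_lit 3613175938) (nat_lit 76) (nat_lit 33456174243) (nat_lit 199) (nat_lit 5) (nat_lit 207) (nat_lit 5) (nat_lit 200) (nat_lit 5) (nat_lit 391) (nat_lit 368) (nat_lit 141))) (XT.nd (nat_lit 78) (nat_lit 0) (nat_lit 0) (XT.lf (nat_lit 0) (nat_lit 11227316530) (nat_lit 684) (nat_lit 25080043913) (nat_lit 76) (nat_lit 8186442931) (nat_lit 191) (nat_lit 5) (nat_lit 200) (nat_lit 5) (nat_lit 192) (nat_lit 5) (nat_lit 392) (nat_lit 368) (nat_lit 140)) (XT.lf (nat_lit 0) (nat_lit 16042703187) (nat_lit 684) (nat_lit 2152060286) (nat_lit 76) (nat_lit 27056015093) (nat_lit 191) (nat_lit 5) (nat_lit 200) (nat_lit 5) (nat_lit 192) (nat_lit 5) (nat_lit 393) (nat_lit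 368) (nat_lit 139))))) (XT.nd (nat_lit 234) (nat_lit 988) (nat_lit 0) (XT.nd (nat_lit 78) (nat_lit 532) (nat_lit 0) (XT.lf (nat_lit 0) (nat_lit 21218053814) (nat_lit 608) (nat_lit 24141260020) (nat_lit 76) (nat_lit 664684922) (nat_lit 184) (nat_lit 5) (nat_lit 192) (nat_lit 5) (nat_lit 185) (nat_lit 5) (nat_lit 394) (nat_lit 368) (nat_lit 138)) (XT.nd (nat_lit 78) (nat_lit 532) (nat_lit 0) (XT.lf (nat_lit 0) (nat_lit 26749356354) (nat_lit 608) (nat_lit 318910406) (nat_lit 76) (nat_lit 19746128841) (nat_lit 184) (nat_lit 5) (nat_lit 192) (nat_lit 5) (nat_lit 185) (nat_lit 5) (nat_lit 395) (nat_lit 368) (nat_lit 137)) (XT.lf (nat_lit 0) (nat_lit 24698629777) (nat_lit 532) (nat_lit 7984025821) (nat_lit 608) (nat_lit 14938767791) (nat_lit 177) (nat_lit 5) (nat_lit 184) (nat_lit 5) (nat_lit 185) (nat_lit 5) (nat_lit 396) (nat_lit 368) (nat_lit 136)))) (XT.nd (nat_lit 156) (nat_lit 532) (nat_lit 0) (XT.nd (nat_lit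 78) (nat_lit 0) (nat_lit 0) (XT.lf (nat_lit 0) (nat_lit 1944918090) (nat_lit 456) (nat_lit 36981853623) (nat_lit 532) (nat_lit 9521906508) (nat_lit 171) (nat_lit 5) (nat_lit 177) (nat_lit 5) (nat_lit 178) (nat_lit 5) (nat_lit 397) (nat_lit 368) (nat_lit 135)) (XT.lf (nat_lit 0) (nat_lit 27946482339) (nat_lit 456) (nat_lit 17720168317) (nat_lit 532) (nat_lit 3624847583) (nat_lit 171) (nat_lit 5) (nat_lit 177) (nat_lit 5) (nat_lit 178) (nat_lit 5) (nat_lit 398) (nat_lit 368) (nat_lit 134))) (XT.nd (nat_lit 78) (nat_lit 0) (nat_lit 0) (XT.lf (nat_lit 0) (nat_lit 2465635700) (nat_lit 532) (nat_lit 45544706466) (nat_lit 76) (nat_lit 2146625985) (nat_lit 164) (nat_lit 5) (nat_lit 171) (nat_lit 5) (nat_lit 165) (nat_lit 5) (nat_lit 399) (nat_lit 368) (nat_lit 133)) (XT.lf (nat_lit 0) (nat_lit 9057838213) (nat_lit 532) (nat_lit 19471054806) (nat_lit 76) (nat_lit 22506677298) (nat_lit 164) (nat_lit 5) (nat_lit 171)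 (nat_lit 5) (nat_lit 165) (nat_lit 5) (nat_lit 400) (nat_lit 368) (nat_lit 132))))))))
noncomputable def xc237 : XT := (XT.nd (nat_lit 44616) (nat_lit 0) (nat_lit 5168) (XT.nd (nat_lit 1014) (nat_lit 1672) (nat_lit 0) (XT.nd (nat_lit 468) (nat_lit 1596) (nat_lit 0) (XT.nd (nat_lit 234) (nat_lit 456) (nat_lit 0) (XT.nd (nat_lit 78) (nat_lit 456) (nat_lit 0) (XT.lf (nat_lit 0) (nat_lit 7530335269) (nat_lit 456) (nat_lit 8388630996) (nat_lit 532) (nat_lit 36019430144) (nat_lit 158) (nat_lit 5) (nat_lit 164) (nat_lit 5) (nat_lit 165) (nat_lit 5) (nat_lit 401) (nat_lit 368) (nat_lit 131)) (XT.nd (nat_lit 78) (nat_lit 456) (nat_lit 0) (XT.lf (nat_lit 0) (nat_lit 23302059887) (nat_lit 532) (nat_lit 17243658816) (nat_lit 76) (nat_lit 12313105251) (nat_lit 158) (nat_lit 5) (nat_lit 165) (nat_lit 5) (nat_lit 159) (nat_lit 5) (nat_lit 402) (nat_lit 368) (nat_lit 130)) (XT.lf (nat_lit 0) (nat_lit 10863205835) (nat_lit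 456) (nat_lit 20229748794) (nat_lit 532) (nat_lit 22708321054) (nat_lit 152) (nat_lit 5) (nat_lit 158) (nat_lit 5) (nat_lit 159) (nat_lit 5) (nat_lit 403) (nat_lit 368) (nat_lit 129)))) (XT.nd (nat_lit 78) (nat_lit 456) (nat_lit 0) (XT.lf (nat_lit 0) (nat_lit 39298962294) (nat_lit 532) (nat_lit 14609847630) (nat_lit 76) (nat_lit 857750046) (nat_lit 152) (nat_lit 5) (nat_lit 159) (nat_lit 5) (nat_lit 153) (nat_lit 5) (nat_lit 404) (nat_lit 368) (nat_lit 128)) (XT.nd (nat_lit 78) (nat_lit 76) (nat_lit 0) (XT.lf (nat_lit 0) (nat_lit 14652477004) (nat_lit 380) (nat_lit 33438697277) (nat_lit 456) (nat_lit 7659428351) (nat_lit 147) (nat_lit 5) (nat_lit 152) (nat_lit 5) (nat_lit 153) (nat_lit 5) (nat_lit 405) (nat_lit 368) (nat_lit 127)) (XT.lf (nat_lit 0) (nat_lit 523393212) (nat_lit 456) (nat_lit 11674105421) (nat_lit 76) (nat_lit 44562121618) (nat_lit 146) (nat_lit 5) (nat_lit 152) (nat_lit 5) (nat_lit 147)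 (nat_lit 5) (nat_lit 406) (nat_lit 368) (nat_lit 126))))) (XT.nd (nat_lit 234) (nat_lit 760) (nat_lit 0) (XT.nd (nat_lit 78) (nat_lit 380) (nat_lit 0) (XT.lf (nat_lit 0) (nat_lit 9074198747) (nat_lit 532) (nat_lit 38962069066) (nat_lit 76) (nat_lit 9752072643) (nat_lit 140) (nat_lit 5) (nat_lit 147) (nat_lit 5) (nat_lit 141) (nat_lit 5) (nat_lit 407) (nat_lit 368) (nat_lit 125)) (XT.nd (nat_lit 78) (nat_lit 380) (nat_lit 0) (XT.lf (nat_lit 0) (nat_lit 18120286026) (nat_lit 532) (nat_lit 8486710816) (nat_lit 76) (nat_lit 32233763204) (nat_lit 140) (nat_lit 5) (nat_lit 147) (nat_lit 5) (nat_lit 141) (nat_lit 5) (nat_lit 408) (nat_lit 368) (nat_lit 124)) (XT.lf (nat_lit 0) (nat_lit 23357376430) (nat_lit 380) (nat_lit 4303873337) (nat_lit 456) (nat_lit 32256798134) (nat_lit 135) (nat_lit 5) (nat_lit 140) (nat_lit 5) (nat_lit 141) (nat_lit 5) (nat_lit 409) (nat_lit 368) (nat_lit 123)))) (XT.nd (nat_lit 156)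 (nat_lit 380) (nat_lit 0) (XT.nd (nat_lit 78) (nat_lit 380) (nat_lit 0) (XT.lf (nat_lit 0) (nat_lit 37753424760) (nat_lit 456) (nat_lit 4875961390) (nat_lit 76) (nat_lit 18390319251) (nat_lit 135) (nat_lit 5) (nat_lit 141) (nat_lit 5) (nat_lit 136) (nat_lit 5) (nat_lit 410) (nat_lit 368) (nat_lit 122)) (XT.lf (nat_lit 0) (nat_lit 28266973217) (nat_lit 380) (nat_lit 20194736597) (nat_lit 456) (nat_lit 13683302931) (nat_lit 130) (nat_lit 5) (nat_lit 135) (nat_lit 5) (nat_lit 136) (nat_lit 5) (nat_lit 411) (nat_lit 368) (nat_lit 121))) (XT.nd (nat_lit 78) (nat_lit 380) (nat_lit 0) (XT.lf (nat_lit 0) (nat_lit 59567995861) (nat_lit 456) (nat_lit 828250993) (nat_lit 76) (nat_lit 2905530333) (nat_lit 130) (nat_lit 5) (nat_lit 136) (nat_lit 5) (nat_lit 131) (nat_lit 5) (nat_lit 412) (nat_lit 368) (nat_lit 120)) (XT.lf (nat_lit 0) (nat_lit 6914931897) (nat_lit 380) (nat_lit 30876546313) (nat_lit 76) (nat_lit 26684053556)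 (nat_lit 125) (nat_lit 5) (nat_lit 130) (nat_lit 5) (nat_lit 126) (nat_lit 5) (nat_lit 413) (nat_lit 368) (nat_lit 119)))))) (XT.nd (nat_lit 468) (nat_lit 608) (nat_lit 0) (XT.nd (nat_lit 234) (nat_lit 380) (nat_lit 0) (XT.nd (nat_lit 78) (nat_lit 304) (nat_lit 0) (XT.lf (nat_lit 0) (nat_lit 3420181304) (nat_lit 380) (nat_lit 14428263692) (nat_lit 456) (nat_lit 47833733842) (nat_lit 120) (nat_lit 5) (nat_lit 125) (nat_lit 5) (nat_lit 126) (nat_lit 5) (nat_lit 414) (nat_lit 368) (nat_lit 118)) (XT.nd (nat_lit 78) (nat_lit 304) (nat_lit 0) (XT.lf (nat_lit 0) (nat_lit 29516541110) (nat_lit 456) (nat_lit 27633923989) (nat_lit 76) (nat_lit 9762363293) (nat_lit 120) (nat_lit 5) (nat_lit 126) (nat_lit 5) (nat_lit 121) (nat_lit 5) (nat_lit 415) (nat_lit 368) (nat_lit 117)) (XT.lf (nat_lit 0) (nat_lit 8045890107) (nat_lit 304) (nat_lit 33708085466) (nat_lit 380) (nat_lit 26419843385) (nat_lit 116) (nat_lit 5) (nat_lit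 120) (nat_lit 5) (nat_lit 121) (nat_lit 5) (nat_lit 416) (nat_lit 368) (nat_lit 116)))) (XT.nd (nat_lit 78) (nat_lit 380) (nat_lit 0) (XT.lf (nat_lit 0) (nat_lit 45361327396) (nat_lit 304) (nat_lit 9275367792) (nat_lit 380) (nat_lit 14827599568) (nat_lit 116) (nat_lit 5) (nat_lit 120) (nat_lit 5) (nat_lit 121) (nat_lit 5) (nat_lit 417) (nat_lit 368) (nat_lit 115)) (XT.nd (nat_lit 78) (nat_lit 76) (nat_lit 0) (XT.lf (nat_lit 0) (nat_lit 13104484724) (nat_lit 304) (nat_lit 55079263766) (nat_lit 380) (nat_lit 2601401141) (nat_lit 112) (nat_lit 5) (nat_lit 116) (nat_lit 5) (nat_lit 117) (nat_lit 5) (nat_lit 418) (nat_lit 368) (nat_lit 114)) (XT.lf (nat_lit 0) (nat_lit 10133390230) (nat_lit 380) (nat_lit 20407602945) (nat_lit 76) (nat_lit 41591652604) (nat_lit 111) (nat_lit 5) (nat_lit 116) (nat_lit 5) (nat_lit 112) (nat_lit 5) (nat_lit 419) (nat_lit 368) (nat_lit 113))))) (XT.nd (nat_lit 234) (nat_lit 0) (nat_lit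 0) (XT.nd (nat_lit 78) (nat_lit 304) (nat_lit 0) (XT.lf (nat_lit 0) (nat_lit 18314072034) (nat_lit 304) (nat_lit 5059079714) (nat_lit 380) (nat_lit 50141386345) (nat_lit 107) (nat_lit 5) (nat_lit 111) (nat_lit 5) (nat_lit 112) (nat_lit 5) (nat_lit 420) (nat_lit 368) (nat_lit 112)) (XT.nd (nat_lit 78) (nat_lit 304) (nat_lit 0) (XT.lf (nat_lit 0) (nat_lit 37421063805) (nat_lit 380) (nat_lit 16522882976) (nat_lit 76) (nat_lit 20981611991) (nat_lit 107) (nat_lit 5) (nat_lit 112) (nat_lit 5) (nat_lit 108) (nat_lit 5) (nat_lit 421) (nat_lit 368) (nat_lit 111)) (XT.lf (nat_lit 0) (nat_lit 23726761747) (nat_lit 304) (nat_lit 28441016890) (nat_lit 380) (nat_lit 24202810787) (nat_lit 103) (nat_lit 5) (nat_lit 107) (nat_lit 5) (nat_lit 108) (nat_lit 5) (nat_lit 422) (nat_lit 368) (nat_lit 110)))) (XT.nd (nat_lit 42744) (nat_lit 0) (nat_lit 10412) (XT.nd (nat_lit 42666) (nat_lit 0) (nat_lit 10412) (XT.lf (nat_lit 0)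 (nat_lit 65521439657) (nat_lit 304) (nat_lit 2001515526) (nat_lit 380) (nat_lit 10331034313) (nat_lit 103) (nat_lit 5) (nat_lit 107) (nat_lit 5) (nat_lit 108) (nat_lit 5) (nat_lit 423) (nat_lit 368) (nat_lit 109)) (XT.lf (nat_lit 0) (nat_lit 7737809685) (nat_lit 0) (nat_lit 7737809685) (nat_lit 1140) (nat_lit 213062432) (nat_lit 240) (nat_lit 5) (nat_lit 240) (nat_lit 3) (nat_lit 255) (nat_lit 3) (nat_lit 369) (nat_lit 369) (nat_lit 162))) (XT.nd (nat_lit 78) (nat_lit 0) (nat_lit 0) (XT.lf (nat_lit 0) (nat_lit 30796688209) (nat_lit 0) (nat_lit 683366769) (nat_lit 1140) (nat_lit 365990246) (nat_lit 240) (nat_lit 5) (nat_lit 240) (nat_lit 3) (nat_lit 255) (nat_lit 3) (nat_lit 370) (nat_lit 369) (nat_lit 161)) (XT.lf (nat_lit 76) (nat_lit 14388128123) (nat_lit 0) (nat_lit 17912297070) (nat_lit 1216) (nat_lit 20093069) (nat_lit 241) (nat_lit 5) (nat_lit 240) (nat_lit 5) (nat_lit 256) (nat_lit 5) (nat_lit 371)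 (nat_lit 369) (nat_lit 160))))))) (XT.nd (nat_lit 1014) (nat_lit 4028) (nat_lit 0) (XT.nd (nat_lit 468) (nat_lit 0) (nat_lit 228) (XT.nd (nat_lit 234) (nat_lit 0) (nat_lit 152) (XT.nd (nat_lit 78) (nat_lit 0) (nat_lit 76) (XT.lf (nat_lit 0) (nat_lit 344615663) (nat_lit 1216) (nat_lit 2510147930) (nat_lit 1292) (nat_lit 29953916668) (nat_lit 224) (nat_lit 5) (nat_lit 240) (nat_lit 5) (nat_lit 241) (nat_lit 5) (nat_lit 372) (nat_lit 369) (nat_lit 159)) (XT.nd (nat_lit 78) (nat_lit 0) (nat_lit 0) (XT.lf (nat_lit 0) (nat_lit 971524144) (nat_lit 1216) (nat_lit 19791204589) (nat_lit 1292) (nat_lit 12541204062) (nat_lit 225) (nat_lit 5) (nat_lit 241) (nat_lit 5) (nat_lit 242) (nat_lit 5) (nat_lit 373) (nat_lit 369) (nat_lit 158)) (XT.lf (nat_lit 0) (nat_lit 1668769618) (nat_lit 1216) (nat_lit 3775466582) (nat_lit 1292) (nat_lit 28368262284) (nat_lit 225) (nat_lit 5) (nat_lit 241) (nat_lit 5) (nat_lit 242) (nat_lit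 5) (nat_lit 374) (nat_lit 369) (nat_lit 157)))) (XT.nd (nat_lit 78) (nat_lit 0) (nat_lit 0) (XT.lf (nat_lit 0) (nat_lit 2609944500) (nat_lit 1216) (nat_lit 21460716881) (nat_lit 1292) (nat_lit 10258970829) (nat_lit 226) (nat_lit 5) (nat_lit 242) (nat_lit 5) (nat_lit 243) (nat_lit 5) (nat_lit 375) (nat_lit 369) (nat_lit 156)) (XT.nd (nat_lit 78) (nat_lit 0) (nat_lit 76) (XT.lf (nat_lit 0) (nat_lit 3669555553) (nat_lit 1216) (nat_lit 4826830612) (nat_lit 1292) (nat_lit 26363189142) (nat_lit 226) (nat_lit 5) (nat_lit 242) (nat_lit 5) (nat_lit 243) (nat_lit 5) (nat_lit 376) (nat_lit 369) (nat_lit 155)) (XT.lf (nat_lit 0) (nat_lit 4953178425) (nat_lit 1216) (nat_lit 22926027472) (nat_lit 1292) (nat_lit 7520445440) (nat_lit 227) (nat_lit 5) (nat_lit 243) (nat_lit 5) (nat_lit 244) (nat_lit 5) (nat_lit 377) (nat_lit 369) (nat_lit 154))))) (XT.nd (nat_lit 234) (nat_lit 0) (nat_lit 152) (XT.nd (nat_lit 78) (nat_lit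 0) (nat_lit 76) (XT.lf (nat_lit 0) (nat_lit 6406572174) (nat_lit 1216) (nat_lit 5648486425) (nat_lit 1292) (nat_lit 23896934490) (nat_lit 227) (nat_lit 5) (nat_lit 243) (nat_lit 5) (nat_lit 244) (nat_lit 5) (nat_lit 378) (nat_lit 369) (nat_lit 153)) (XT.nd (nat_lit 78) (nat_lit 0) (nat_lit 0) (XT.lf (nat_lit 0) (nat_lit 8062601080) (nat_lit 1216) (nat_lit 24171673061) (nat_lit 1292) (nat_lit 4281861220) (nat_lit 228) (nat_lit 5) (nat_lit 244) (nat_lit 5) (nat_lit 245) (nat_lit 5) (nat_lit 379) (nat_lit 369) (nat_lit 152)) (XT.lf (nat_lit 0) (nat_lit 9943298547) (nat_lit 1216) (nat_lit 6223885759) (nat_lit 1292) (nat_lit 20924769196) (nat_lit 228) (nat_lit 5) (nat_lit 244) (nat_lit 5) (nat_lit 245) (nat_lit 5) (nat_lit 380) (nat_lit 369) (nat_lit 151)))) (XT.nd (nat_lit 156) (nat_lit 0) (nat_lit 0) (XT.nd (nat_lit 78) (nat_lit 0) (nat_lit 0) (XT.lf (nat_lit 0) (nat_lit 12003572914) (nat_lit 1216) (nat_lit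 25181432028) (nat_lit 1292) (nat_lit 496347762) (nat_lit 229) (nat_lit 5) (nat_lit 245) (nat_lit 5) (nat_lit 246) (nat_lit 5) (nat_lit 381) (nat_lit 369) (nat_lit 150)) (XT.lf (nat_lit 0) (nat_lit 14347329494) (nat_lit 1216) (nat_lit 6535683515) (nat_lit 1292) (nat_lit 17398771814) (nat_lit 229) (nat_lit 5) (nat_lit 245) (nat_lit 5) (nat_lit 246) (nat_lit 5) (nat_lit 382) (nat_lit 369) (nat_lit 149))) (XT.nd (nat_lit 78) (nat_lit 0) (nat_lit 76) (XT.lf (nat_lit 76) (nat_lit 12920131909) (nat_lit 0) (nat_lit 3963649035) (nat_lit 1292) (nat_lit 22012778623) (nat_lit 230) (nat_lit 5) (nat_lit 229) (nat_lit 5) (nat_lit 246) (nat_lit 5) (nat_lit 383) (nat_lit 369) (nat_lit 148)) (XT.lf (nat_lit 0) (nat_lit 19690623157) (nat_lit 1216) (nat_lit 6565739339) (nat_lit 1292) (nat_lit 13267587236) (nat_lit 230) (nat_lit 5) (nat_lit 246) (nat_lit 5) (nat_lit 247) (nat_lit 5) (nat_lit 384) (nat_lit 369) (nat_lit 147))))))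 (XT.nd (nat_lit 546) (nat_lit 2128) (nat_lit 0) (XT.nd (nat_lit 234) (nat_lit 1216) (nat_lit 0) (XT.nd (nat_lit 78) (nat_lit 1140) (nat_lit 0) (XT.lf (nat_lit 76) (nat_lit 13653020192) (nat_lit 0) (nat_lit 9097416016) (nat_lit 1292) (nat_lit 17414663489) (nat_lit 231) (nat_lit 5) (nat_lit 230) (nat_lit 5) (nat_lit 247) (nat_lit 5) (nat_lit 385) (nat_lit 369) (nat_lit 146)) (XT.nd (nat_lit 78) (nat_lit 1216) (nat_lit 0) (XT.lf (nat_lit 0) (nat_lit 26049761303) (nat_lit 1216) (nat_lit 6295123634) (nat_lit 76) (nat_lit 8476168724) (nat_lit 231) (nat_lit 5) (nat_lit 247) (nat_lit 5) (nat_lit 232) (nat_lit 5) (nat_lit 386) (nat_lit 369) (nat_lit 145)) (XT.lf (nat_lit 0) (nat_lit 14724166526) (nat_lit 1216) (nat_lit 14953879174) (nat_lit 1292) (nat_lit 11811742161) (nat_lit 215) (nat_lit 5) (nat_lit 231) (nat_lit 5) (nat_lit 232) (nat_lit 5) (nat_lit 387) (nat_lit 369) (nat_lit 144)))) (XT.nd (nat_lit 156) (nat_lit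 608) (nat_lit 0) (XT.nd (nat_lit 78) (nat_lit 608) (nat_lit 0) (XT.lf (nat_lit 0) (nat_lit 33506222994) (nat_lit 1292) (nat_lit 5704128766) (nat_lit 76) (nat_lit 2965501967) (nat_lit 215) (nat_lit 5) (nat_lit 232) (nat_lit 5) (nat_lit 216) (nat_lit 5) (nat_lit 388) (nat_lit 369) (nat_lit 143)) (XT.lf (nat_lit 0) (nat_lit 16154975375) (nat_lit 608) (nat_lit 21596070652) (nat_lit 684) (nat_lit 5122402473) (nat_lit 207) (nat_lit 5) (nat_lit 215) (nat_lit 5) (nat_lit 216) (nat_lit 5) (nat_lit 389) (nat_lit 369) (nat_lit 142))) (XT.nd (nat_lit 78) (nat_lit 608) (nat_lit 0) (XT.lf (nat_lit 0) (nat_lit 38785378827) (nat_lit 608) (nat_lit 3393917787) (nat_lit 684) (nat_lit 1410992933) (nat_lit 207) (nat_lit 5) (nat_lit 215) (nat_lit 5) (nat_lit 216) (nat_lit 5) (nat_lit 390) (nat_lit 369) (nat_lit 141)) (XT.lf (nat_lit 0) (nat_lit 2686691508) (nat_lit 608) (nat_lit 26377742251) (nat_lit 76) (nat_lit 15253847590)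 (nat_lit 199) (nat_lit 5) (nat_lit 207) (nat_lit 5) (nat_lit 200) (nat_lit 5) (nat_lit 391) (nat_lit 369) (nat_lit 140))))) (XT.nd (nat_lit 234) (nat_lit 1520) (nat_lit 0) (XT.nd (nat_lit 78) (nat_lit 608) (nat_lit 0) (XT.lf (nat_lit 0) (nat_lit 6960092613) (nat_lit 608) (nat_lit 3649286916) (nat_lit 76) (nat_lit 34455880736) (nat_lit 199) (nat_lit 5) (nat_lit 207) (nat_lit 5) (nat_lit 200) (nat_lit 5) (nat_lit 392) (nat_lit 369) (nat_lit 139)) (XT.nd (nat_lit 78) (nat_lit 0) (nat_lit 0) (XT.lf (nat_lit 0) (nat_lit 11636659958) (nat_lit 684) (nat_lit 25758643081) (nat_lit 76) (nat_lit 8431097398) (nat_lit 191) (nat_lit 5) (nat_lit 200) (nat_lit 5) (nat_lit 192) (nat_lit 5) (nat_lit 393) (nat_lit 369) (nat_lit 138)) (XT.lf (nat_lit 0) (nat_lit 16594395867) (nat_lit 684) (nat_lit 2144969522) (nat_lit 76) (nat_lit 27866784069) (nat_lit 191) (nat_lit 5) (nat_lit 200) (nat_lit 5) (nat_lit 192) (nat_lit 5) (nat_lit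 394) (nat_lit 369) (nat_lit 137)))) (XT.nd (nat_lit 156) (nat_lit 988) (nat_lit 0) (XT.nd (nat_lit 78) (nat_lit 0) (nat_lit 0) (XT.lf (nat_lit 0) (nat_lit 21923656540) (nat_lit 608) (nat_lit 24792455827) (nat_lit 76) (nat_lit 686495570) (nat_lit 184) (nat_lit 5) (nat_lit 192) (nat_lit 5) (nat_lit 185) (nat_lit 5) (nat_lit 395) (nat_lit 369) (nat_lit 136)) (XT.lf (nat_lit 0) (nat_lit 27618886668) (nat_lit 608) (nat_lit 257563161) (nat_lit 76) (nat_lit 20340328337) (nat_lit 184) (nat_lit 5) (nat_lit 192) (nat_lit 5) (nat_lit 185) (nat_lit 5) (nat_lit 396) (nat_lit 369) (nat_lit 135))) (XT.nd (nat_lit 78) (nat_lit 456) (nat_lit 0) (XT.lf (nat_lit 0) (nat_lit 25509807987) (nat_lit 532) (nat_lit 8219098991) (nat_lit 608) (nat_lit 15319149248) (nat_lit 177) (nat_lit 5) (nat_lit 184) (nat_lit 5) (nat_lit 185) (nat_lit 5) (nat_lit 397) (nat_lit 369) (nat_lit 134)) (XT.lf (nat_lit 0) (nat_lit 2074744350) (nat_lit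 456) (nat_lit 38084415150) (nat_lit 532) (nat_lit 9741005884) (nat_lit 171) (nat_lit 5) (nat_lit 177) (nat_lit 5) (nat_lit 178) (nat_lit 5) (nat_lit 398) (nat_lit 369) (nat_lit 133))))))))
noncomputable def xc238 : XT := (XT.nd (nat_lit 44694) (nat_lit 0) (nat_lit 6156) (XT.nd (nat_lit 1014) (nat_lit 2432) (nat_lit 0) (XT.nd (nat_lit 468) (nat_lit 1292) (nat_lit 0) (XT.nd (nat_lit 234) (nat_lit 912) (nat_lit 0) (XT.nd (nat_lit 78) (nat_lit 532) (nat_lit 0) (XT.lf (nat_lit 0) (nat_lit 28854273623) (nat_lit 456) (nat_lit 18245080083) (nat_lit 532) (nat_lit 3668973768) (nat_lit 171) (nat_lit 5) (nat_lit 177) (nat_lit 5) (nat_lit 178) (nat_lit 5) (nat_lit 399) (nat_lit 369) (nat_lit 132)) (XT.nd (nat_lit 78) (nat_lit 0) (nat_lit 0) (XT.lf (nat_lit 0) (nat_lit 2601865637) (nat_lit 532) (nat_lit 46839226254) (nat_lit 76) (nat_lit 2218684859) (nat_lit 164) (nat_lit 5) (nat_lit 171) (nat_lit 5) (nat_lit 165) (nat_lit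 5) (nat_lit 400) (nat_lit 369) (nat_lit 131)) (XT.lf (nat_lit 0) (nat_lit 9390020803) (nat_lit 532) (nat_lit 19985456930) (nat_lit 76) (nat_lit 23189314602) (nat_lit 164) (nat_lit 5) (nat_lit 171) (nat_lit 5) (nat_lit 165) (nat_lit 5) (nat_lit 401) (nat_lit 369) (nat_lit 130)))) (XT.nd (nat_lit 78) (nat_lit 456) (nat_lit 0) (XT.lf (nat_lit 0) (nat_lit 7825291225) (nat_lit 456) (nat_lit 8630594577) (nat_lit 532) (nat_lit 37038851236) (nat_lit 158) (nat_lit 5) (nat_lit 164) (nat_lit 5) (nat_lit 165) (nat_lit 5) (nat_lit 402) (nat_lit 369) (nat_lit 129)) (XT.nd (nat_lit 78) (nat_lit 456) (nat_lit 0) (XT.lf (nat_lit 0) (nat_lit 24058834059) (nat_lit 532) (nat_lit 17692265704) (nat_lit 76) (nat_lit 12691727688) (nat_lit 158) (nat_lit 5) (nat_lit 165) (nat_lit 5) (nat_lit 159) (nat_lit 5) (nat_lit 403) (nat_lit 369) (nat_lit 128)) (XT.lf (nat_lit 0) (nat_lit 11257131329) (nat_lit 456) (nat_lit 20825297311) (nat_lit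 532) (nat_lit 23331155771) (nat_lit 152) (nat_lit 5) (nat_lit 158) (nat_lit 5) (nat_lit 159) (nat_lit 5) (nat_lit 404) (nat_lit 369) (nat_lit 127))))) (XT.nd (nat_lit 234) (nat_lit 836) (nat_lit 0) (XT.nd (nat_lit 78) (nat_lit 456) (nat_lit 0) (XT.lf (nat_lit 0) (nat_lit 40533071373) (nat_lit 532) (nat_lit 14980521877) (nat_lit 76) (nat_lit 894281175) (nat_lit 152) (nat_lit 5) (nat_lit 159) (nat_lit 5) (nat_lit 153) (nat_lit 5) (nat_lit 405) (nat_lit 369) (nat_lit 126)) (XT.nd (nat_lit 78) (nat_lit 76) (nat_lit 0) (XT.lf (nat_lit 0) (nat_lit 15159009544) (nat_lit 380) (nat_lit 34429077795) (nat_lit 456) (nat_lit 7833380720) (nat_lit 147) (nat_lit 5) (nat_lit 152) (nat_lit 5) (nat_lit 153) (nat_lit 5) (nat_lit 406) (nat_lit 369) (nat_lit 125)) (XT.lf (nat_lit 0) (nat_lit 592241637) (nat_lit 456) (nat_lit 11958237123) (nat_lit 76) (nat_lit 45910309950) (nat_lit 146) (nat_lit 5) (nat_lit 152) (nat_lit 5) (nat_lit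 147) (nat_lit 5) (nat_lit 407) (nat_lit 369) (nat_lit 124)))) (XT.nd (nat_lit 156) (nat_lit 380) (nat_lit 0) (XT.nd (nat_lit 78) (nat_lit 0) (nat_lit 0) (XT.lf (nat_lit 0) (nat_lit 9398779499) (nat_lit 532) (nat_lit 40064022837) (nat_lit 76) (nat_lit 10057592690) (nat_lit 140) (nat_lit 5) (nat_lit 147) (nat_lit 5) (nat_lit 141) (nat_lit 5) (nat_lit 408) (nat_lit 369) (nat_lit 123)) (XT.lf (nat_lit 0) (nat_lit 18714724500) (nat_lit 532) (nat_lit 8676352625) (nat_lit 76) (nat_lit 33213356554) (nat_lit 140) (nat_lit 5) (nat_lit 147) (nat_lit 5) (nat_lit 141) (nat_lit 5) (nat_lit 409) (nat_lit 369) (nat_lit 122))) (XT.nd (nat_lit 78) (nat_lit 0) (nat_lit 0) (XT.lf (nat_lit 0) (nat_lit 24122420380) (nat_lit 380) (nat_lit 4418634600) (nat_lit 456) (nat_lit 33173011762) (nat_lit 135) (nat_lit 5) (nat_lit 140) (nat_lit 5) (nat_lit 141) (nat_lit 5) (nat_lit 410) (nat_lit 369) (nat_lit 121)) (XT.lf (nat_lit 0) (nat_lit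 38934673821) (nat_lit 456) (nat_lit 4958446770) (nat_lit 76) (nat_lit 18955693703) (nat_lit 135) (nat_lit 5) (nat_lit 141) (nat_lit 5) (nat_lit 136) (nat_lit 5) (nat_lit 411) (nat_lit 369) (nat_lit 120)))))) (XT.nd (nat_lit 468) (nat_lit 988) (nat_lit 0) (XT.nd (nat_lit 234) (nat_lit 684) (nat_lit 0) (XT.nd (nat_lit 78) (nat_lit 380) (nat_lit 0) (XT.lf (nat_lit 0) (nat_lit 29178150449) (nat_lit 380) (nat_lit 20785247305) (nat_lit 456) (nat_lit 14044508062) (nat_lit 130) (nat_lit 5) (nat_lit 135) (nat_lit 5) (nat_lit 136) (nat_lit 5) (nat_lit 412) (nat_lit 369) (nat_lit 119)) (XT.nd (nat_lit 78) (nat_lit 380) (nat_lit 0) (XT.lf (nat_lit 0) (nat_lit 61401622163) (nat_lit 456) (nat_lit 790498550) (nat_lit 76) (nat_lit 3007290631) (nat_lit 130) (nat_lit 5) (nat_lit 136) (nat_lit 5) (nat_lit 131) (nat_lit 5) (nat_lit 413) (nat_lit 369) (nat_lit 118)) (XT.lf (nat_lit 0) (nat_lit 7168679489) (nat_lit 380) (nat_lit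 31739914674) (nat_lit 76) (nat_lit 27499794239) (nat_lit 125) (nat_lit 5) (nat_lit 130) (nat_lit 5) (nat_lit 126) (nat_lit 5) (nat_lit 414) (nat_lit 369) (nat_lit 117)))) (XT.nd (nat_lit 78) (nat_lit 304) (nat_lit 0) (XT.lf (nat_lit 0) (nat_lit 3585097829) (nat_lit 380) (nat_lit 14844350591) (nat_lit 456) (nat_lit 49221809545) (nat_lit 120) (nat_lit 5) (nat_lit 125) (nat_lit 5) (nat_lit 126) (nat_lit 5) (nat_lit 415) (nat_lit 369) (nat_lit 116)) (XT.nd (nat_lit 78) (nat_lit 304) (nat_lit 0) (XT.lf (nat_lit 0) (nat_lit 30446417141) (nat_lit 456) (nat_lit 28401256071) (nat_lit 76) (nat_lit 10071189477) (nat_lit 120) (nat_lit 5) (nat_lit 126) (nat_lit 5) (nat_lit 121) (nat_lit 5) (nat_lit 416) (nat_lit 369) (nat_lit 115)) (XT.lf (nat_lit 0) (nat_lit 8348347687) (nat_lit 304) (nat_lit 34701921483) (nat_lit 380) (nat_lit 27167435526) (nat_lit 116) (nat_lit 5) (nat_lit 120) (nat_lit 5) (nat_lit 121) (nat_lit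 5) (nat_lit 417) (nat_lit 369) (nat_lit 114))))) (XT.nd (nat_lit 234) (nat_lit 608) (nat_lit 0) (XT.nd (nat_lit 78) (nat_lit 380) (nat_lit 0) (XT.lf (nat_lit 0) (nat_lit 46781469040) (nat_lit 304) (nat_lit 9536729265) (nat_lit 380) (nat_lit 15228735165) (nat_lit 116) (nat_lit 5) (nat_lit 120) (nat_lit 5) (nat_lit 121) (nat_lit 5) (nat_lit 418) (nat_lit 369) (nat_lit 113)) (XT.nd (nat_lit 78) (nat_lit 76) (nat_lit 0) (XT.lf (nat_lit 0) (nat_lit 13557456321) (nat_lit 304) (nat_lit 56713704776) (nat_lit 380) (nat_lit 2636268485) (nat_lit 112) (nat_lit 5) (nat_lit 116) (nat_lit 5) (nat_lit 117) (nat_lit 5) (nat_lit 419) (nat_lit 369) (nat_lit 112)) (XT.lf (nat_lit 0) (nat_lit 10478491157) (nat_lit 380) (nat_lit 20960902322) (nat_lit 76) (nat_lit 42855982169) (nat_lit 111) (nat_lit 5) (nat_lit 116) (nat_lit 5) (nat_lit 112) (nat_lit 5) (nat_lit 420) (nat_lit 369) (nat_lit 111)))) (XT.nd (nat_lit 156) (nat_lit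 304) (nat_lit 0) (XT.nd (nat_lit 78) (nat_lit 0) (nat_lit 0) (XT.lf (nat_lit 0) (nat_lit 18921845174) (nat_lit 304) (nat_lit 5192964188) (nat_lit 380) (nat_lit 51603934936) (nat_lit 107) (nat_lit 5) (nat_lit 111) (nat_lit 5) (nat_lit 112) (nat_lit 5) (nat_lit 421) (nat_lit 369) (nat_lit 110)) (XT.lf (nat_lit 0) (nat_lit 38583147186) (nat_lit 380) (nat_lit 16960890857) (nat_lit 76) (nat_lit 21628088370) (nat_lit 107) (nat_lit 5) (nat_lit 112) (nat_lit 5) (nat_lit 108) (nat_lit 5) (nat_lit 422) (nat_lit 369) (nat_lit 109))) (XT.nd (nat_lit 42744) (nat_lit 0) (nat_lit 10412) (XT.lf (nat_lit 0) (nat_lit 24495677732) (nat_lit 304) (nat_lit 29275985666) (nat_lit 380) (nat_lit 24888863042) (nat_lit 103) (nat_lit 5) (nat_lit 107) (nat_lit 5) (nat_lit 108) (nat_lit 5) (nat_lit 423) (nat_lit 369) (nat_lit 108)) (XT.lf (nat_lit 0) (nat_lit 8001907568) (nat_lit 0) (nat_lit 8001907568) (nat_lit 1140) (nat_lit 153567307)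 (nat_lit 240) (nat_lit 5) (nat_lit 240) (nat_lit 3) (nat_lit 255) (nat_lit 3) (nat_lit 370) (nat_lit 370) (nat_lit 160))))))) (XT.nd (nat_lit 1014) (nat_lit 3040) (nat_lit 0) (XT.nd (nat_lit 468) (nat_lit 0) (nat_lit 152) (XT.nd (nat_lit 234) (nat_lit 0) (nat_lit 76) (XT.nd (nat_lit 78) (nat_lit 1216) (nat_lit 0) (XT.lf (nat_lit 0) (nat_lit 31782654083) (nat_lit 0) (nat_lit 765933000) (nat_lit 1140) (nat_lit 249034034) (nat_lit 240) (nat_lit 5) (nat_lit 240) (nat_lit 3) (nat_lit 255) (nat_lit 3) (nat_lit 371) (nat_lit 370) (nat_lit 159)) (XT.nd (nat_lit 78) (nat_lit 0) (nat_lit 0) (XT.lf (nat_lit 0) (nat_lit 101547800) (nat_lit 1216) (nat_lit 18401845522) (nat_lit 1292) (nat_lit 14783014393) (nat_lit 224) (nat_lit 5) (nat_lit 240) (nat_lit 5) (nat_lit 241) (nat_lit 5) (nat_lit 372) (nat_lit 370) (nat_lit 158)) (XT.lf (nat_lit 0) (nat_lit 473245211) (nat_lit 1216) (nat_lit 2519124814) (nat_lit 1292) (nat_lit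 30796947281) (nat_lit 224) (nat_lit 5) (nat_lit 240) (nat_lit 5) (nat_lit 241) (nat_lit 5) (nat_lit 373) (nat_lit 370) (nat_lit 157)))) (XT.nd (nat_lit 78) (nat_lit 0) (nat_lit 0) (XT.lf (nat_lit 0) (nat_lit 1115668201) (nat_lit 1216) (nat_lit 20315247969) (nat_lit 1292) (nat_lit 12868612203) (nat_lit 225) (nat_lit 5) (nat_lit 241) (nat_lit 5) (nat_lit 242) (nat_lit 5) (nat_lit 374) (nat_lit 370) (nat_lit 156)) (XT.nd (nat_lit 78) (nat_lit 0) (nat_lit 76) (XT.lf (nat_lit 0) (nat_lit 1830481573) (nat_lit 1216) (nat_lit 3821067708) (nat_lit 1292) (nat_lit 29171904346) (nat_lit 225) (nat_lit 5) (nat_lit 241) (nat_lit 5) (nat_lit 242) (nat_lit 5) (nat_lit 375) (nat_lit 370) (nat_lit 155)) (XT.lf (nat_lit 0) (nat_lit 2796879704) (nat_lit 1216) (nat_lit 22033795222) (nat_lit 1292) (nat_lit 10525518847) (nat_lit 226) (nat_lit 5) (nat_lit 242) (nat_lit 5) (nat_lit 243) (nat_lit 5) (nat_lit 376) (nat_lit 370) (nat_lit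 154))))) (XT.nd (nat_lit 234) (nat_lit 0) (nat_lit 152) (XT.nd (nat_lit 78) (nat_lit 0) (nat_lit 76) (XT.lf (nat_lit 0) (nat_lit 3885114908) (nat_lit 1216) (nat_lit 4902952845) (nat_lit 1292) (nat_lit 27114064324) (nat_lit 226) (nat_lit 5) (nat_lit 242) (nat_lit 5) (nat_lit 243) (nat_lit 5) (nat_lit 377) (nat_lit 370) (nat_lit 153)) (XT.nd (nat_lit 78) (nat_lit 0) (nat_lit 0) (XT.lf (nat_lit 0) (nat_lit 5204491319) (nat_lit 1216) (nat_lit 23542306087) (nat_lit 1292) (nat_lit 7711697569) (nat_lit 227) (nat_lit 5) (nat_lit 243) (nat_lit 5) (nat_lit 244) (nat_lit 5) (nat_lit 378) (nat_lit 370) (nat_lit 152)) (XT.lf (nat_lit 0) (nat_lit 6698495107) (nat_lit 1216) (nat_lit 5748521397) (nat_lit 1292) (nat_lit 24580482103) (nat_lit 227) (nat_lit 5) (nat_lit 243) (nat_lit 5) (nat_lit 244) (nat_lit 5) (nat_lit 379) (nat_lit 370) (nat_lit 151)))) (XT.nd (nat_lit 156) (nat_lit 0) (nat_lit 76) (XT.nd (nat_lit 78) (nat_lit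 0) (nat_lit 0) (XT.lf (nat_lit 0) (nat_lit 8401684714) (nat_lit 1216) (nat_lit 24824822785) (nat_lit 1292) (nat_lit 4382135074) (nat_lit 228) (nat_lit 5) (nat_lit 244) (nat_lit 5) (nat_lit 245) (nat_lit 5) (nat_lit 380) (nat_lit 370) (nat_lit 150)) (XT.lf (nat_lit 0) (nat_lit 10335971873) (nat_lit 1216) (nat_lit 6340698965) (nat_lit 1292) (nat_lit 21525151124) (nat_lit 228) (nat_lit 5) (nat_lit 244) (nat_lit 5) (nat_lit 245) (nat_lit 5) (nat_lit 381) (nat_lit 370) (nat_lit 149))) (XT.nd (nat_lit 78) (nat_lit 0) (nat_lit 0) (XT.lf (nat_lit 0) (nat_lit 12455749279) (nat_lit 1216) (nat_lit 25864609231) (nat_lit 1292) (nat_lit 488615503) (nat_lit 229) (nat_lit 5) (nat_lit 245) (nat_lit 5) (nat_lit 246) (nat_lit 5) (nat_lit 382) (nat_lit 370) (nat_lit 148)) (XT.lf (nat_lit 0) (nat_lit 14867136930) (nat_lit 1216) (nat_lit 6661593091) (nat_lit 1292) (nat_lit 17898771189) (nat_lit 229) (nat_lit 5) (nat_lit 245)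 (nat_lit 5) (nat_lit 246) (nat_lit 5) (nat_lit 383) (nat_lit 370) (nat_lit 147)))))) (XT.nd (nat_lit 546) (nat_lit 1748) (nat_lit 0) (XT.nd (nat_lit 234) (nat_lit 1672) (nat_lit 0) (XT.nd (nat_lit 78) (nat_lit 0) (nat_lit 76) (XT.lf (nat_lit 76) (nat_lit 13377208945) (nat_lit 0) (nat_lit 4100537276) (nat_lit 1292) (nat_lit 22583032664) (nat_lit 230) (nat_lit 5) (nat_lit 229) (nat_lit 5) (nat_lit 246) (nat_lit 5) (nat_lit 384) (nat_lit 370) (nat_lit 146)) (XT.nd (nat_lit 78) (nat_lit 0) (nat_lit 0) (XT.lf (nat_lit 0) (nat_lit 20366078768) (nat_lit 1216) (nat_lit 6692494655) (nat_lit 1292) (nat_lit 13648500349) (nat_lit 230) (nat_lit 5) (nat_lit 246) (nat_lit 5) (nat_lit 247) (nat_lit 5) (nat_lit 385) (nat_lit 370) (nat_lit 145)) (XT.lf (nat_lit 76) (nat_lit 14132139261) (nat_lit 0) (nat_lit 9383747234) (nat_lit 1292) (nat_lit 17851627256) (nat_lit 231) (nat_lit 5) (nat_lit 230) (nat_lit 5) (nat_lit 247)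 (nat_lit 5) (nat_lit 386) (nat_lit 370) (nat_lit 144)))) (XT.nd (nat_lit 156) (nat_lit 608) (nat_lit 0) (XT.nd (nat_lit 78) (nat_lit 1216) (nat_lit 0) (XT.lf (nat_lit 0) (nat_lit 26911650558) (nat_lit 1216) (nat_lit 6413883855) (nat_lit 76) (nat_lit 8717689626) (nat_lit 231) (nat_lit 5) (nat_lit 247) (nat_lit 5) (nat_lit 232) (nat_lit 5) (nat_lit 387) (nat_lit 370) (nat_lit 143)) (XT.lf (nat_lit 0) (nat_lit 15235297818) (nat_lit 1216) (nat_lit 15411811202) (nat_lit 1292) (nat_lit 12084962916) (nat_lit 215) (nat_lit 5) (nat_lit 231) (nat_lit 5) (nat_lit 232) (nat_lit 5) (nat_lit 388) (nat_lit 370) (nat_lit 142))) (XT.nd (nat_lit 78) (nat_lit 608) (nat_lit 0) (XT.lf (nat_lit 0) (nat_lit 34587751821) (nat_lit 1292) (nat_lit 5805441556) (nat_lit 76) (nat_lit 3045599191) (nat_lit 215) (nat_lit 5) (nat_lit 232) (nat_lit 5) (nat_lit 216) (nat_lit 5) (nat_lit 389) (nat_lit 370) (nat_lit 141)) (XT.lf (nat_lit 0)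 (nat_lit 16708751288) (nat_lit 608) (nat_lit 22249609188) (nat_lit 684) (nat_lit 5199002835) (nat_lit 207) (nat_lit 5) (nat_lit 215) (nat_lit 5) (nat_lit 216) (nat_lit 5) (nat_lit 390) (nat_lit 370) (nat_lit 140))))) (XT.nd (nat_lit 234) (nat_lit 1140) (nat_lit 0) (XT.nd (nat_lit 78) (nat_lit 608) (nat_lit 0) (XT.lf (nat_lit 0) (nat_lit 40016053445) (nat_lit 608) (nat_lit 3501226987) (nat_lit 684) (nat_lit 1378495817) (nat_lit 207) (nat_lit 5) (nat_lit 215) (nat_lit 5) (nat_lit 216) (nat_lit 5) (nat_lit 391) (nat_lit 370) (nat_lit 139)) (XT.nd (nat_lit 78) (nat_lit 0) (nat_lit 0) (XT.lf (nat_lit 0) (nat_lit 2839137361) (nat_lit 608) (nat_lit 27098895586) (nat_lit 76) (nat_lit 15707600168) (nat_lit 199) (nat_lit 5) (nat_lit 207) (nat_lit 5) (nat_lit 200) (nat_lit 5) (nat_lit 392) (nat_lit 370) (nat_lit 138)) (XT.lf (nat_lit 0) (nat_lit 7238647922) (nat_lit 608) (nat_lit 3690630638) (nat_lit 76) (nat_lit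 35485806819) (nat_lit 199) (nat_lit 5) (nat_lit 207) (nat_lit 5) (nat_lit 200) (nat_lit 5) (nat_lit 393) (nat_lit 370) (nat_lit 137)))) (XT.nd (nat_lit 156) (nat_lit 532) (nat_lit 0) (XT.nd (nat_lit 78) (nat_lit 0) (nat_lit 0) (XT.lf (nat_lit 0) (nat_lit 12054120519) (nat_lit 684) (nat_lit 26461836769) (nat_lit 76) (nat_lit 8683145391) (nat_lit 191) (nat_lit 5) (nat_lit 200) (nat_lit 5) (nat_lit 192) (nat_lit 5) (nat_lit 394) (nat_lit 370) (nat_lit 136)) (XT.lf (nat_lit 0) (nat_lit 17158597414) (nat_lit 684) (nat_lit 2141779186) (nat_lit 76) (nat_lit 28701928437) (nat_lit 191) (nat_lit 5) (nat_lit 200) (nat_lit 5) (nat_lit 192) (nat_lit 5) (nat_lit 395) (nat_lit 370) (nat_lit 135))) (XT.nd (nat_lit 78) (nat_lit 0) (nat_lit 0) (XT.lf (nat_lit 0) (nat_lit 22646462958) (nat_lit 608) (nat_lit 25467380416) (nat_lit 76) (nat_lit 708853186) (nat_lit 184) (nat_lit 5) (nat_lit 192) (nat_lit 5) (nat_lit 185) (nat_lit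 5) (nat_lit 396) (nat_lit 370) (nat_lit 134)) (XT.lf (nat_lit 0) (nat_lit 28510653968) (nat_lit 608) (nat_lit 198446284) (nat_lit 76) (nat_lit 20952249594) (nat_lit 184) (nat_lit 5) (nat_lit 192) (nat_lit 5) (nat_lit 185) (nat_lit 5) (nat_lit 397) (nat_lit 370) (nat_lit 133))))))))
noncomputable def xc239 : XT := (XT.nd (nat_lit 44928) (nat_lit 0) (nat_lit 5320) (XT.nd (nat_lit 1014) (nat_lit 2508) (nat_lit 0) (XT.nd (nat_lit 468) (nat_lit 1368) (nat_lit 0) (XT.nd (nat_lit 234) (nat_lit 988) (nat_lit 0) (XT.nd (nat_lit 78) (nat_lit 456) (nat_lit 0) (XT.lf (nat_lit 0) (nat_lit 26341290668) (nat_lit 532) (nat_lit 8461479667) (nat_lit 608) (nat_lit 15714833089) (nat_lit 177) (nat_lit 5) (nat_lit 184) (nat_lit 5) (nat_lit 185) (nat_lit 5) (nat_lit 398) (nat_lit 370) (nat_lit 132)) (XT.nd (nat_lit 78) (nat_lit 0) (nat_lit 0) (XT.lf (nat_lit 0) (nat_lit 2204362228) (nat_lit 456) (nat_lit 39220449271) (nat_lit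 532) (nat_lit 9970498932) (nat_lit 171) (nat_lit 5) (nat_lit 177) (nat_lit 5) (nat_lit 178) (nat_lit 5) (nat_lit 399) (nat_lit 370) (nat_lit 131)) (XT.lf (nat_lit 0) (nat_lit 29785314984) (nat_lit 456) (nat_lit 18786123424) (nat_lit 532) (nat_lit 3718133148) (nat_lit 171) (nat_lit 5) (nat_lit 177) (nat_lit 5) (nat_lit 178) (nat_lit 5) (nat_lit 400) (nat_lit 370) (nat_lit 130)))) (XT.nd (nat_lit 78) (nat_lit 456) (nat_lit 0) (XT.lf (nat_lit 0) (nat_lit 2738608444) (nat_lit 532) (nat_lit 48176704478) (nat_lit 76) (nat_lit 2292465779) (nat_lit 164) (nat_lit 5) (nat_lit 171) (nat_lit 5) (nat_lit 165) (nat_lit 5) (nat_lit 401) (nat_lit 370) (nat_lit 129)) (XT.nd (nat_lit 78) (nat_lit 456) (nat_lit 0) (XT.lf (nat_lit 0) (nat_lit 9728698939) (nat_lit 532) (nat_lit 20519293877) (nat_lit 76) (nat_lit 23892004112) (nat_lit 164) (nat_lit 5) (nat_lit 171) (nat_lit 5) (nat_lit 165) (nat_lit 5) (nat_lit 402) (nat_lit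 370) (nat_lit 128)) (XT.lf (nat_lit 0) (nat_lit 8125132342) (nat_lit 456) (nat_lit 8880373619) (nat_lit 532) (nat_lit 38092365899) (nat_lit 158) (nat_lit 5) (nat_lit 164) (nat_lit 5) (nat_lit 165) (nat_lit 5) (nat_lit 403) (nat_lit 370) (nat_lit 127))))) (XT.nd (nat_lit 234) (nat_lit 912) (nat_lit 0) (XT.nd (nat_lit 78) (nat_lit 456) (nat_lit 0) (XT.lf (nat_lit 0) (nat_lit 24834998530) (nat_lit 532) (nat_lit 18158274624) (nat_lit 76) (nat_lit 13081178999) (nat_lit 158) (nat_lit 5) (nat_lit 165) (nat_lit 5) (nat_lit 159) (nat_lit 5) (nat_lit 404) (nat_lit 370) (nat_lit 126)) (XT.nd (nat_lit 78) (nat_lit 0) (nat_lit 0) (XT.lf (nat_lit 0) (nat_lit 11658969427) (nat_lit 456) (nat_lit 21439363472) (nat_lit 532) (nat_lit 23976028784) (nat_lit 152) (nat_lit 5) (nat_lit 158) (nat_lit 5) (nat_lit 159) (nat_lit 5) (nat_lit 405) (nat_lit 370) (nat_lit 125)) (XT.lf (nat_lit 0) (nat_lit 41801038452) (nat_lit 532) (nat_lit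 15366198084) (nat_lit 76) (nat_lit 931288352) (nat_lit 152) (nat_lit 5) (nat_lit 159) (nat_lit 5) (nat_lit 153) (nat_lit 5) (nat_lit 406) (nat_lit 370) (nat_lit 124)))) (XT.nd (nat_lit 156) (nat_lit 456) (nat_lit 0) (XT.nd (nat_lit 78) (nat_lit 76) (nat_lit 0) (XT.lf (nat_lit 0) (nat_lit 15676894383) (nat_lit 380) (nat_lit 35449903376) (nat_lit 456) (nat_lit 8015756558) (nat_lit 147) (nat_lit 5) (nat_lit 152) (nat_lit 5) (nat_lit 153) (nat_lit 5) (nat_lit 407) (nat_lit 370) (nat_lit 123)) (XT.lf (nat_lit 0) (nat_lit 660104681) (nat_lit 456) (nat_lit 12254686696) (nat_lit 76) (nat_lit 47298293849) (nat_lit 146) (nat_lit 5) (nat_lit 152) (nat_lit 5) (nat_lit 147) (nat_lit 5) (nat_lit 408) (nat_lit 370) (nat_lit 122))) (XT.nd (nat_lit 78) (nat_lit 0) (nat_lit 0) (XT.lf (nat_lit 0) (nat_lit 9730092294) (nat_lit 532) (nat_lit 41202876032) (nat_lit 76) (nat_lit 10371534503) (nat_lit 140) (nat_lit 5) (nat_lit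 147) (nat_lit 5) (nat_lit 141) (nat_lit 5) (nat_lit 409) (nat_lit 370) (nat_lit 121)) (XT.lf (nat_lit 0) (nat_lit 19324078284) (nat_lit 532) (nat_lit 8875412631) (nat_lit 76) (nat_lit 34221615534) (nat_lit 140) (nat_lit 5) (nat_lit 147) (nat_lit 5) (nat_lit 141) (nat_lit 5) (nat_lit 410) (nat_lit 370) (nat_lit 120)))))) (XT.nd (nat_lit 546) (nat_lit 988) (nat_lit 0) (XT.nd (nat_lit 234) (nat_lit 760) (nat_lit 0) (XT.nd (nat_lit 78) (nat_lit 380) (nat_lit 0) (XT.lf (nat_lit 0) (nat_lit 24906723265) (nat_lit 380) (nat_lit 4537662733) (nat_lit 456) (nat_lit 34119667554) (nat_lit 135) (nat_lit 5) (nat_lit 140) (nat_lit 5) (nat_lit 141) (nat_lit 5) (nat_lit 411) (nat_lit 370) (nat_lit 119)) (XT.nd (nat_lit 78) (nat_lit 380) (nat_lit 0) (XT.lf (nat_lit 0) (nat_lit 40148567856) (nat_lit 456) (nat_lit 5047068718) (nat_lit 76) (nat_lit 19537244970) (nat_lit 135) (nat_lit 5) (nat_lit 141) (nat_lit 5) (nat_lit 136)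 (nat_lit 5) (nat_lit 412) (nat_lit 370) (nat_lit 118)) (XT.lf (nat_lit 0) (nat_lit 30113036893) (nat_lit 380) (nat_lit 21394353419) (nat_lit 456) (nat_lit 14419379022) (nat_lit 130) (nat_lit 5) (nat_lit 135) (nat_lit 5) (nat_lit 136) (nat_lit 5) (nat_lit 413) (nat_lit 370) (nat_lit 117)))) (XT.nd (nat_lit 156) (nat_lit 380) (nat_lit 0) (XT.nd (nat_lit 78) (nat_lit 380) (nat_lit 0) (XT.lf (nat_lit 0) (nat_lit 63287583004) (nat_lit 456) (nat_lit 755207029) (nat_lit 76) (nat_lit 3111265960) (nat_lit 130) (nat_lit 5) (nat_lit 136) (nat_lit 5) (nat_lit 131) (nat_lit 5) (nat_lit 414) (nat_lit 370) (nat_lit 116)) (XT.lf (nat_lit 0) (nat_lit 7427381721) (nat_lit 380) (nat_lit 32632796413) (nat_lit 76) (nat_lit 28339133505) (nat_lit 125) (nat_lit 5) (nat_lit 130) (nat_lit 5) (nat_lit 126) (nat_lit 5) (nat_lit 415) (nat_lit 370) (nat_lit 115))) (XT.nd (nat_lit 78) (nat_lit 0) (nat_lit 0) (XT.lf (nat_lit 0) (nat_lit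 3751384939) (nat_lit 380) (nat_lit 15273882248) (nat_lit 456) (nat_lit 50654221855) (nat_lit 120) (nat_lit 5) (nat_lit 125) (nat_lit 5) (nat_lit 126) (nat_lit 5) (nat_lit 416) (nat_lit 370) (nat_lit 114)) (XT.lf (nat_lit 0) (nat_lit 31401641871) (nat_lit 456) (nat_lit 29195149124) (nat_lit 76) (nat_lit 10388364548) (nat_lit 120) (nat_lit 5) (nat_lit 126) (nat_lit 5) (nat_lit 121) (nat_lit 5) (nat_lit 417) (nat_lit 370) (nat_lit 113))))) (XT.nd (nat_lit 234) (nat_lit 380) (nat_lit 0) (XT.nd (nat_lit 78) (nat_lit 304) (nat_lit 0) (XT.lf (nat_lit 0) (nat_lit 8656372702) (nat_lit 304) (nat_lit 35726571787) (nat_lit 380) (nat_lit 27940038796) (nat_lit 116) (nat_lit 5) (nat_lit 120) (nat_lit 5) (nat_lit 121) (nat_lit 5) (nat_lit 418) (nat_lit 370) (nat_lit 112)) (XT.nd (nat_lit 78) (nat_lit 304) (nat_lit 0) (XT.lf (nat_lit 0) (nat_lit 48240810766) (nat_lit 304) (nat_lit 9806901687) (nat_lit 380) (nat_lit 15644412953)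 (nat_lit 116) (nat_lit 5) (nat_lit 120) (nat_lit 5) (nat_lit 121) (nat_lit 5) (nat_lit 419) (nat_lit 370) (nat_lit 111)) (XT.lf (nat_lit 0) (nat_lit 14020582174) (nat_lit 304) (nat_lit 58398208668) (nat_lit 380) (nat_lit 2674660252) (nat_lit 112) (nat_lit 5) (nat_lit 116) (nat_lit 5) (nat_lit 117) (nat_lit 5) (nat_lit 420) (nat_lit 370) (nat_lit 110)))) (XT.nd (nat_lit 42978) (nat_lit 0) (nat_lit 10108) (XT.nd (nat_lit 78) (nat_lit 304) (nat_lit 0) (XT.lf (nat_lit 0) (nat_lit 10831585849) (nat_lit 380) (nat_lit 21534183430) (nat_lit 76) (nat_lit 44157289861) (nat_lit 111) (nat_lit 5) (nat_lit 116) (nat_lit 5) (nat_lit 112) (nat_lit 5) (nat_lit 421) (nat_lit 370) (nat_lit 109)) (XT.lf (nat_lit 0) (nat_lit 19544501923) (nat_lit 304) (nat_lit 5331892036) (nat_lit 380) (nat_lit 53112753334) (nat_lit 107) (nat_lit 5) (nat_lit 111) (nat_lit 5) (nat_lit 112) (nat_lit 5) (nat_lit 422) (nat_lit 370) (nat_lit 108)))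 (XT.nd (nat_lit 78) (nat_lit 0) (nat_lit 0) (XT.lf (nat_lit 0) (nat_lit 8272093546) (nat_lit 0) (nat_lit 8272093546) (nat_lit 1140) (nat_lit 96069510) (nat_lit 240) (nat_lit 5) (nat_lit 240) (nat_lit 3) (nat_lit 255) (nat_lit 3) (nat_lit 371) (nat_lit 371) (nat_lit 158)) (XT.lf (nat_lit 0) (nat_lit 32794636136) (nat_lit 0) (nat_lit 847413420) (nat_lit 1140) (nat_lit 135913180) (nat_lit 240) (nat_lit 5) (nat_lit 240) (nat_lit 3) (nat_lit 255) (nat_lit 3) (nat_lit 372) (nat_lit 371) (nat_lit 157))))))) (XT.nd (nat_lit 1014) (nat_lit 3572) (nat_lit 0) (XT.nd (nat_lit 468) (nat_lit 0) (nat_lit 228) (XT.nd (nat_lit 234) (nat_lit 0) (nat_lit 76) (XT.nd (nat_lit 78) (nat_lit 0) (nat_lit 0) (XT.lf (nat_lit 0) (nat_lit 219439941) (nat_lit 1216) (nat_lit 18889505203) (nat_lit 1292) (nat_lit 15172536974) (nat_lit 224) (nat_lit 5) (nat_lit 240) (nat_lit 5) (nat_lit 241) (nat_lit 5) (nat_lit 373) (nat_lit 371) (nat_lit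 156)) (XT.nd (nat_lit 78) (nat_lit 0) (nat_lit 76) (XT.lf (nat_lit 0) (nat_lit 598943255) (nat_lit 1216) (nat_lit 2532178477) (nat_lit 1292) (nat_lit 31668459727) (nat_lit 224) (nat_lit 5) (nat_lit 240) (nat_lit 5) (nat_lit 241) (nat_lit 5) (nat_lit 374) (nat_lit 371) (nat_lit 155)) (XT.lf (nat_lit 0) (nat_lit 1257535204) (nat_lit 1216) (nat_lit 20859013300) (nat_lit 1292) (nat_lit 13208645514) (nat_lit 225) (nat_lit 5) (nat_lit 241) (nat_lit 5) (nat_lit 242) (nat_lit 5) (nat_lit 375) (nat_lit 371) (nat_lit 154)))) (XT.nd (nat_lit 78) (nat_lit 0) (nat_lit 76) (XT.lf (nat_lit 0) (nat_lit 1990635785) (nat_lit 1216) (nat_lit 3871920993) (nat_lit 1292) (nat_lit 30002376957) (nat_lit 225) (nat_lit 5) (nat_lit 241) (nat_lit 5) (nat_lit 242) (nat_lit 5) (nat_lit 376) (nat_lit 371) (nat_lit 153)) (XT.nd (nat_lit 78) (nat_lit 0) (nat_lit 0) (XT.lf (nat_lit 0) (nat_lit 2983186763) (nat_lit 1216) (nat_lit 22628126861)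 (nat_lit 1292) (nat_lit 10802429566) (nat_lit 226) (nat_lit 5) (nat_lit 242) (nat_lit 5) (nat_lit 243) (nat_lit 5) (nat_lit 377) (nat_lit 371) (nat_lit 152)) (XT.lf (nat_lit 0) (nat_lit 4101086480) (nat_lit 1216) (nat_lit 4985301413) (nat_lit 1292) (nat_lit 27889763101) (nat_lit 226) (nat_lit 5) (nat_lit 242) (nat_lit 5) (nat_lit 243) (nat_lit 5) (nat_lit 378) (nat_lit 371) (nat_lit 151))))) (XT.nd (nat_lit 234) (nat_lit 0) (nat_lit 76) (XT.nd (nat_lit 78) (nat_lit 0) (nat_lit 0) (XT.lf (nat_lit 0) (nat_lit 5457447192) (nat_lit 1216) (nat_lit 24181177579) (nat_lit 1292) (nat_lit 7910659737) (nat_lit 227) (nat_lit 5) (nat_lit 243) (nat_lit 5) (nat_lit 244) (nat_lit 5) (nat_lit 379) (nat_lit 371) (nat_lit 150)) (XT.nd (nat_lit 78) (nat_lit 0) (nat_lit 76) (XT.lf (nat_lit 0) (nat_lit 6993451061) (nat_lit 1216) (nat_lit 5855542389) (nat_lit 1292) (nat_lit 25286451169) (nat_lit 227) (nat_lit 5) (nat_lit 243)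 (nat_lit 5) (nat_lit 244) (nat_lit 5) (nat_lit 380) (nat_lit 371) (nat_lit 149)) (XT.lf (nat_lit 0) (nat_lit 8745360858) (nat_lit 1216) (nat_lit 25501700122) (nat_lit 1292) (nat_lit 4487034904) (nat_lit 228) (nat_lit 5) (nat_lit 244) (nat_lit 5) (nat_lit 245) (nat_lit 5) (nat_lit 381) (nat_lit 371) (nat_lit 148)))) (XT.nd (nat_lit 156) (nat_lit 0) (nat_lit 76) (XT.nd (nat_lit 78) (nat_lit 0) (nat_lit 76) (XT.lf (nat_lit 0) (nat_lit 10735007925) (nat_lit 1216) (nat_lit 6465029306) (nat_lit 1292) (nat_lit 22145115152) (nat_lit 228) (nat_lit 5) (nat_lit 244) (nat_lit 5) (nat_lit 245) (nat_lit 5) (nat_lit 382) (nat_lit 371) (nat_lit 147)) (XT.lf (nat_lit 0) (nat_lit 12916205787) (nat_lit 1216) (nat_lit 26572430100) (nat_lit 1292) (nat_lit 481949910) (nat_lit 229) (nat_lit 5) (nat_lit 245) (nat_lit 5) (nat_lit 246) (nat_lit 5) (nat_lit 383) (nat_lit 371) (nat_lit 146))) (XT.nd (nat_lit 78) (nat_lit 0) (nat_lit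 0) (XT.lf (nat_lit 0) (nat_lit 15397407378) (nat_lit 1216) (nat_lit 6795307478) (nat_lit 1292) (nat_lit 18415031356) (nat_lit 229) (nat_lit 5) (nat_lit 245) (nat_lit 5) (nat_lit 246) (nat_lit 5) (nat_lit 384) (nat_lit 371) (nat_lit 145)) (XT.lf (nat_lit 76) (nat_lit 13844010252) (nat_lit 0) (nat_lit 4240500109) (nat_lit 1292) (nat_lit 23175568118) (nat_lit 230) (nat_lit 5) (nat_lit 229) (nat_lit 5) (nat_lit 246) (nat_lit 5) (nat_lit 385) (nat_lit 371) (nat_lit 144)))))) (XT.nd (nat_lit 546) (nat_lit 2280) (nat_lit 0) (XT.nd (nat_lit 234) (nat_lit 1748) (nat_lit 0) (XT.nd (nat_lit 78) (nat_lit 0) (nat_lit 0) (XT.lf (nat_lit 0) (nat_lit 21056933803) (nat_lit 1216) (nat_lit 6827083365) (nat_lit 1292) (nat_lit 14041823298) (nat_lit 230) (nat_lit 5) (nat_lit 246) (nat_lit 5) (nat_lit 247) (nat_lit 5) (nat_lit 386) (nat_lit 371) (nat_lit 143)) (XT.nd (nat_lit 78) (nat_lit 0) (nat_lit 76) (XT.lf (nat_lit 76) (nat_lit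 14621640685) (nat_lit 0) (nat_lit 9677898673) (nat_lit 1292) (nat_lit 18306606617) (nat_lit 231) (nat_lit 5) (nat_lit 230) (nat_lit 5) (nat_lit 247) (nat_lit 5) (nat_lit 387) (nat_lit 371) (nat_lit 142)) (XT.lf (nat_lit 0) (nat_lit 27794781408) (nat_lit 1216) (nat_lit 6540230536) (nat_lit 76) (nat_lit 8967188870) (nat_lit 231) (nat_lit 5) (nat_lit 247) (nat_lit 5) (nat_lit 232) (nat_lit 5) (nat_lit 388) (nat_lit 371) (nat_lit 141)))) (XT.nd (nat_lit 156) (nat_lit 608) (nat_lit 0) (XT.nd (nat_lit 78) (nat_lit 0) (nat_lit 0) (XT.lf (nat_lit 0) (nat_lit 15757778844) (nat_lit 1216) (nat_lit 15882946433) (nat_lit 1292) (nat_lit 12371037574) (nat_lit 215) (nat_lit 5) (nat_lit 231) (nat_lit 5) (nat_lit 232) (nat_lit 5) (nat_lit 389) (nat_lit 371) (nat_lit 140)) (XT.lf (nat_lit 0) (nat_lit 35697344161) (nat_lit 1292) (nat_lit 5913801170) (nat_lit 76) (nat_lit 3128608382) (nat_lit 215) (nat_lit 5) (nat_lit 232)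 (nat_lit 5) (nat_lit 216) (nat_lit 5) (nat_lit 390) (nat_lit 371) (nat_lit 139))) (XT.nd (nat_lit 78) (nat_lit 0) (nat_lit 0) (XT.lf (nat_lit 0) (nat_lit 17275172325) (nat_lit 608) (nat_lit 22922429178) (nat_lit 684) (nat_lit 5282325440) (nat_lit 207) (nat_lit 5) (nat_lit 215) (nat_lit 5) (nat_lit 216) (nat_lit 5) (nat_lit 391) (nat_lit 371) (nat_lit 138)) (XT.lf (nat_lit 0) (nat_lit 41279795727) (nat_lit 608) (nat_lit 3611440218) (nat_lit 684) (nat_lit 1349319157) (nat_lit 207) (nat_lit 5) (nat_lit 215) (nat_lit 5) (nat_lit 216) (nat_lit 5) (nat_lit 392) (nat_lit 371) (nat_lit 137))))) (XT.nd (nat_lit 234) (nat_lit 1064) (nat_lit 0) (XT.nd (nat_lit 78) (nat_lit 608) (nat_lit 0) (XT.lf (nat_lit 0) (nat_lit 2992032386) (nat_lit 608) (nat_lit 27845712079) (nat_lit 76) (nat_lit 16175187067) (nat_lit 199) (nat_lit 5) (nat_lit 207) (nat_lit 5) (nat_lit 200) (nat_lit 5) (nat_lit 393) (nat_lit 371) (nat_lit 136))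 (XT.nd (nat_lit 78) (nat_lit 608) (nat_lit 0) (XT.lf (nat_lit 0) (nat_lit 7521555811) (nat_lit 608) (nat_lit 3737125893) (nat_lit 76) (nat_lit 36546845969) (nat_lit 199) (nat_lit 5) (nat_lit 207) (nat_lit 5) (nat_lit 200) (nat_lit 5) (nat_lit 394) (nat_lit 371) (nat_lit 135)) (XT.lf (nat_lit 0) (nat_lit 12480180708) (nat_lit 684) (nat_lit 27190119618) (nat_lit 76) (nat_lit 8942805622) (nat_lit 191) (nat_lit 5) (nat_lit 200) (nat_lit 5) (nat_lit 192) (nat_lit 5) (nat_lit 395) (nat_lit 371) (nat_lit 134)))) (XT.nd (nat_lit 156) (nat_lit 532) (nat_lit 0) (XT.nd (nat_lit 78) (nat_lit 532) (nat_lit 0) (XT.lf (nat_lit 0) (nat_lit 17735915117) (nat_lit 684) (nat_lit 2142370179) (nat_lit 76) (nat_lit 29562176454) (nat_lit 191) (nat_lit 5) (nat_lit 200) (nat_lit 5) (nat_lit 192) (nat_lit 5) (nat_lit 396) (nat_lit 371) (nat_lit 133)) (XT.lf (nat_lit 0) (nat_lit 23387216750) (nat_lit 608) (nat_lit 26166504963) (nat_lit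 76) (nat_lit 731780342) (nat_lit 184) (nat_lit 5) (nat_lit 192) (nat_lit 5) (nat_lit 185) (nat_lit 5) (nat_lit 397) (nat_lit 371) (nat_lit 132))) (XT.nd (nat_lit 78) (nat_lit 532) (nat_lit 0) (XT.lf (nat_lit 0) (nat_lit 29425546309) (nat_lit 608) (nat_lit 141393006) (nat_lit 76) (nat_lit 21582430247) (nat_lit 184) (nat_lit 5) (nat_lit 192) (nat_lit 5) (nat_lit 185) (nat_lit 5) (nat_lit 398) (nat_lit 371) (nat_lit 131)) (XT.lf (nat_lit 0) (nat_lit 27193918341) (nat_lit 532) (nat_lit 8711372418) (nat_lit 608) (nat_lit 16126055029) (nat_lit 177) (nat_lit 5) (nat_lit 184) (nat_lit 5) (nat_lit 185) (nat_lit 5) (nat_lit 399) (nat_lit 371) (nat_lit 130))))))))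
noncomputable def xc240 : XT := (XT.nd (nat_lit 44928) (nat_lit 0) (nat_lit 4560) (XT.nd (nat_lit 1014) (nat_lit 1824) (nat_lit 0) (XT.nd (nat_lit 468) (nat_lit 1748) (nat_lit 0) (XT.nd (nat_lit 234) (nat_lit 456) (nat_lit 0) (XT.nd (nat_lit 78) (nat_lit 532) (nat_lit 0) (XT.lf (nat_lit 0) (nat_lit 2334001010) (nat_lit 456) (nat_lit 40390937447) (nat_lit 532) (nat_lit 10210478140) (nat_lit 171) (nat_lit 5) (nat_lit 177) (nat_lit 5) (nat_lit 178) (nat_lit 5) (nat_lit 400) (nat_lit 371) (nat_lit 129)) (XT.nd (nat_lit 78) (nat_lit 532) (nat_lit 0) (XT.lf (nat_lit 0) (nat_lit 30740532604) (nat_lit 456) (nat_lit 19343760231) (nat_lit 532) (nat_lit 3772263783) (nat_lit 171) (nat_lit 5) (nat_lit 177) (nat_lit 5) (nat_lit 178) (nat_lit 5) (nat_lit 401) (nat_lit 371) (nat_lit 128)) (XT.lf (nat_lit 0) (nat_lit 2876084671) (nat_lit 532) (nat_lit 49558193223) (nat_lit 76) (nat_lit 2368045647) (nat_lit 164) (nat_lit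 5) (nat_lit 171) (nat_lit 5) (nat_lit 165) (nat_lit 5) (nat_lit 402) (nat_lit 371) (nat_lit 127)))) (XT.nd (nat_lit 78) (nat_lit 456) (nat_lit 0) (XT.lf (nat_lit 0) (nat_lit 10074266678) (nat_lit 532) (nat_lit 21072918918) (nat_lit 76) (nat_lit 24615371901) (nat_lit 164) (nat_lit 5) (nat_lit 171) (nat_lit 5) (nat_lit 165) (nat_lit 5) (nat_lit 403) (nat_lit 371) (nat_lit 126)) (XT.nd (nat_lit 78) (nat_lit 0) (nat_lit 0) (XT.lf (nat_lit 0) (nat_lit 8430232699) (nat_lit 456) (nat_lit 9138170636) (nat_lit 532) (nat_lit 39180795398) (nat_lit 158) (nat_lit 5) (nat_lit 164) (nat_lit 5) (nat_lit 165) (nat_lit 5) (nat_lit 404) (nat_lit 371) (nat_lit 125)) (XT.lf (nat_lit 0) (nat_lit 25631325185) (nat_lit 532) (nat_lit 18641981247) (nat_lit 76) (nat_lit 13481814464) (nat_lit 158) (nat_lit 5) (nat_lit 165) (nat_lit 5) (nat_lit 159) (nat_lit 5) (nat_lit 405) (nat_lit 371) (nat_lit 124))))) (XT.nd (nat_lit 234) (nat_lit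 912) (nat_lit 0) (XT.nd (nat_lit 78) (nat_lit 380) (nat_lit 0) (XT.lf (nat_lit 0) (nat_lit 12069181679) (nat_lit 456) (nat_lit 22072465426) (nat_lit 532) (nat_lit 24643408753) (nat_lit 152) (nat_lit 5) (nat_lit 158) (nat_lit 5) (nat_lit 159) (nat_lit 5) (nat_lit 406) (nat_lit 371) (nat_lit 123)) (XT.nd (nat_lit 78) (nat_lit 380) (nat_lit 0) (XT.lf (nat_lit 0) (nat_lit 43104060968) (nat_lit 532) (nat_lit 15767103483) (nat_lit 76) (nat_lit 968821443) (nat_lit 152) (nat_lit 5) (nat_lit 159) (nat_lit 5) (nat_lit 153) (nat_lit 5) (nat_lit 407) (nat_lit 371) (nat_lit 122)) (XT.lf (nat_lit 0) (nat_lit 16206692733) (nat_lit 380) (nat_lit 36502045257) (nat_lit 456) (nat_lit 8206624595) (nat_lit 147) (nat_lit 5) (nat_lit 152) (nat_lit 5) (nat_lit 153) (nat_lit 5) (nat_lit 408) (nat_lit 371) (nat_lit 121)))) (XT.nd (nat_lit 156) (nat_lit 380) (nat_lit 0) (XT.nd (nat_lit 78) (nat_lit 456) (nat_lit 0) (XT.lf (nat_lit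 0) (nat_lit 727127913) (nat_lit 456) (nat_lit 12563605889) (nat_lit 76) (nat_lit 48727304499) (nat_lit 146) (nat_lit 5) (nat_lit 152) (nat_lit 5) (nat_lit 147) (nat_lit 5) (nat_lit 409) (nat_lit 371) (nat_lit 120)) (XT.lf (nat_lit 0) (nat_lit 10068511616) (nat_lit 532) (nat_lit 42379515155) (nat_lit 76) (nat_lit 10694193435) (nat_lit 140) (nat_lit 5) (nat_lit 147) (nat_lit 5) (nat_lit 141) (nat_lit 5) (nat_lit 410) (nat_lit 371) (nat_lit 119))) (XT.nd (nat_lit 78) (nat_lit 380) (nat_lit 0) (XT.lf (nat_lit 0) (nat_lit 19948962334) (nat_lit 532) (nat_lit 9083959323) (nat_lit 76) (nat_lit 35259441570) (nat_lit 140) (nat_lit 5) (nat_lit 147) (nat_lit 5) (nat_lit 141) (nat_lit 5) (nat_lit 411) (nat_lit 371) (nat_lit 118)) (XT.lf (nat_lit 0) (nat_lit 25711074810) (nat_lit 380) (nat_lit 4661038439) (nat_lit 456) (nat_lit 35097509102) (nat_lit 135) (nat_lit 5) (nat_lit 140) (nat_lit 5) (nat_lit 141) (nat_lit 5)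 (nat_lit 412) (nat_lit 371) (nat_lit 117)))))) (XT.nd (nat_lit 468) (nat_lit 684) (nat_lit 0) (XT.nd (nat_lit 234) (nat_lit 760) (nat_lit 0) (XT.nd (nat_lit 78) (nat_lit 380) (nat_lit 0) (XT.lf (nat_lit 0) (nat_lit 41396246516) (nat_lit 456) (nat_lit 5141801116) (nat_lit 76) (nat_lit 20135503383) (nat_lit 135) (nat_lit 5) (nat_lit 141) (nat_lit 5) (nat_lit 136) (nat_lit 5) (nat_lit 413) (nat_lit 371) (nat_lit 116)) (XT.nd (nat_lit 78) (nat_lit 0) (nat_lit 0) (XT.lf (nat_lit 0) (nat_lit 31072551981) (nat_lit 380) (nat_lit 22022562280) (nat_lit 456) (nat_lit 14808163351) (nat_lit 130) (nat_lit 5) (nat_lit 135) (nat_lit 5) (nat_lit 136) (nat_lit 5) (nat_lit 414) (nat_lit 371) (nat_lit 115)) (XT.lf (nat_lit 0) (nat_lit 65227601931) (nat_lit 456) (nat_lit 722243975) (nat_lit 76) (nat_lit 3217570863) (nat_lit 130) (nat_lit 5) (nat_lit 136) (nat_lit 5) (nat_lit 131) (nat_lit 5) (nat_lit 415) (nat_lit 371) (nat_lit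 114)))) (XT.nd (nat_lit 78) (nat_lit 380) (nat_lit 0) (XT.lf (nat_lit 0) (nat_lit 7691339799) (nat_lit 380) (nat_lit 33555869568) (nat_lit 76) (nat_lit 29202829462) (nat_lit 125) (nat_lit 5) (nat_lit 130) (nat_lit 5) (nat_lit 126) (nat_lit 5) (nat_lit 416) (nat_lit 371) (nat_lit 113)) (XT.nd (nat_lit 78) (nat_lit 0) (nat_lit 0) (XT.lf (nat_lit 0) (nat_lit 3919289080) (nat_lit 380) (nat_lit 15717206773) (nat_lit 456) (nat_lit 52132146206) (nat_lit 120) (nat_lit 5) (nat_lit 125) (nat_lit 5) (nat_lit 126) (nat_lit 5) (nat_lit 417) (nat_lit 371) (nat_lit 112)) (XT.lf (nat_lit 0) (nat_lit 32383122003) (nat_lit 456) (nat_lit 30016196708) (nat_lit 76) (nat_lit 10714191549) (nat_lit 120) (nat_lit 5) (nat_lit 126) (nat_lit 5) (nat_lit 121) (nat_lit 5) (nat_lit 418) (nat_lit 371) (nat_lit 111))))) (XT.nd (nat_lit 234) (nat_lit 76) (nat_lit 0) (XT.nd (nat_lit 78) (nat_lit 304) (nat_lit 0) (XT.lf (nat_lit 0) (nat_lit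 8970333450) (nat_lit 304) (nat_lit 36782903449) (nat_lit 380) (nat_lit 28738255234) (nat_lit 116) (nat_lit 5) (nat_lit 120) (nat_lit 5) (nat_lit 121) (nat_lit 5) (nat_lit 419) (nat_lit 371) (nat_lit 110)) (XT.nd (nat_lit 78) (nat_lit 304) (nat_lit 0) (XT.lf (nat_lit 0) (nat_lit 49740723989) (nat_lit 304) (nat_lit 10086093697) (nat_lit 380) (nat_lit 16074925219) (nat_lit 116) (nat_lit 5) (nat_lit 120) (nat_lit 5) (nat_lit 121) (nat_lit 5) (nat_lit 420) (nat_lit 371) (nat_lit 109)) (XT.lf (nat_lit 0) (nat_lit 14494364087) (nat_lit 304) (nat_lit 60134218222) (nat_lit 380) (nat_lit 2716539907) (nat_lit 112) (nat_lit 5) (nat_lit 116) (nat_lit 5) (nat_lit 117) (nat_lit 5) (nat_lit 421) (nat_lit 371) (nat_lit 108)))) (XT.nd (nat_lit 43056) (nat_lit 0) (nat_lit 8588) (XT.nd (nat_lit 42978) (nat_lit 0) (nat_lit 9804) (XT.lf (nat_lit 0) (nat_lit 11193049549) (nat_lit 380) (nat_lit 22127851537) (nat_lit 76) (nat_lit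 45496739659) (nat_lit 111) (nat_lit 5) (nat_lit 116) (nat_lit 5) (nat_lit 112) (nat_lit 5) (nat_lit 422) (nat_lit 371) (nat_lit 107)) (XT.lf (nat_lit 0) (nat_lit 8548655591) (nat_lit 0) (nat_lit 8548655591) (nat_lit 1140) (nat_lit 40411851) (nat_lit 240) (nat_lit 5) (nat_lit 240) (nat_lit 3) (nat_lit 255) (nat_lit 3) (nat_lit 372) (nat_lit 372) (nat_lit 156))) (XT.nd (nat_lit 78) (nat_lit 1216) (nat_lit 0) (XT.lf (nat_lit 0) (nat_lit 33833619371) (nat_lit 0) (nat_lit 927979974) (nat_lit 1140) (nat_lit 26321168) (nat_lit 240) (nat_lit 5) (nat_lit 240) (nat_lit 3) (nat_lit 255) (nat_lit 3) (nat_lit 373) (nat_lit 372) (nat_lit 155)) (XT.lf (nat_lit 0) (nat_lit 334276233) (nat_lit 1216) (nat_lit 19395491251) (nat_lit 1292) (nat_lit 15576843207) (nat_lit 224) (nat_lit 5) (nat_lit 240) (nat_lit 5) (nat_lit 241) (nat_lit 5) (nat_lit 374) (nat_lit 372) (nat_lit 154))))))) (XT.nd (nat_lit 1014) (nat_lit 4028) (nat_lit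 0) (XT.nd (nat_lit 468) (nat_lit 0) (nat_lit 228) (XT.nd (nat_lit 234) (nat_lit 0) (nat_lit 152) (XT.nd (nat_lit 78) (nat_lit 0) (nat_lit 76) (XT.lf (nat_lit 0) (nat_lit 722011644) (nat_lit 1216) (nat_lit 2549212658) (nat_lit 1292) (nat_lit 32569125290) (nat_lit 224) (nat_lit 5) (nat_lit 240) (nat_lit 5) (nat_lit 241) (nat_lit 5) (nat_lit 375) (nat_lit 372) (nat_lit 153)) (XT.nd (nat_lit 78) (nat_lit 0) (nat_lit 0) (XT.lf (nat_lit 0) (nat_lit 1397435789) (nat_lit 1216) (nat_lit 21422862586) (nat_lit 1292) (nat_lit 13561521851) (nat_lit 225) (nat_lit 5) (nat_lit 241) (nat_lit 5) (nat_lit 242) (nat_lit 5) (nat_lit 376) (nat_lit 372) (nat_lit 152)) (XT.lf (nat_lit 0) (nat_lit 2149553429) (nat_lit 1216) (nat_lit 3927961038) (nat_lit 1292) (nat_lit 30860328821) (nat_lit 225) (nat_lit 5) (nat_lit 241) (nat_lit 5) (nat_lit 242) (nat_lit 5) (nat_lit 377) (nat_lit 372) (nat_lit 151)))) (XT.nd (nat_lit 78) (nat_lit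 0) (nat_lit 0) (XT.lf (nat_lit 0) (nat_lit 3169204818) (nat_lit 1216) (nat_lit 23244116280) (nat_lit 1292) (nat_lit 11089878034) (nat_lit 226) (nat_lit 5) (nat_lit 242) (nat_lit 5) (nat_lit 243) (nat_lit 5) (nat_lit 378) (nat_lit 372) (nat_lit 150)) (XT.nd (nat_lit 78) (nat_lit 0) (nat_lit 76) (XT.lf (nat_lit 0) (nat_lit 4317830192) (nat_lit 1216) (nat_lit 5073836779) (nat_lit 1292) (nat_lit 28690898306) (nat_lit 226) (nat_lit 5) (nat_lit 242) (nat_lit 5) (nat_lit 243) (nat_lit 5) (nat_lit 379) (nat_lit 372) (nat_lit 149)) (XT.lf (nat_lit 0) (nat_lit 5712433812) (nat_lit 1216) (nat_lit 24843084120) (nat_lit 1292) (nat_lit 8117450018) (nat_lit 227) (nat_lit 5) (nat_lit 243) (nat_lit 5) (nat_lit 244) (nat_lit 5) (nat_lit 380) (nat_lit 372) (nat_lit 148))))) (XT.nd (nat_lit 234) (nat_lit 0) (nat_lit 152) (XT.nd (nat_lit 78) (nat_lit 0) (nat_lit 76) (XT.lf (nat_lit 0) (nat_lit 7291859645) (nat_lit 1216) (nat_lit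 5969530227) (nat_lit 1292) (nat_lit 26015404401) (nat_lit 227) (nat_lit 5) (nat_lit 243) (nat_lit 5) (nat_lit 244) (nat_lit 5) (nat_lit 381) (nat_lit 372) (nat_lit 147)) (XT.nd (nat_lit 78) (nat_lit 0) (nat_lit 0) (XT.lf (nat_lit 0) (nat_lit 9094087601) (nat_lit 1216) (nat_lit 26202779642) (nat_lit 1292) (nat_lit 4596606625) (nat_lit 228) (nat_lit 5) (nat_lit 244) (nat_lit 5) (nat_lit 245) (nat_lit 5) (nat_lit 382) (nat_lit 372) (nat_lit 146)) (XT.lf (nat_lit 0) (nat_lit 11140908569) (nat_lit 1216) (nat_lit 6596871949) (nat_lit 1292) (nat_lit 22785158580) (nat_lit 228) (nat_lit 5) (nat_lit 244) (nat_lit 5) (nat_lit 245) (nat_lit 5) (nat_lit 383) (nat_lit 372) (nat_lit 145)))) (XT.nd (nat_lit 156) (nat_lit 0) (nat_lit 0) (XT.nd (nat_lit 78) (nat_lit 0) (nat_lit 0) (XT.lf (nat_lit 0) (nat_lit 13385494232) (nat_lit 1216) (nat_lit 27305395813) (nat_lit 1292) (nat_lit 476308438) (nat_lit 229) (nat_lit 5) (nat_lit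 245) (nat_lit 5) (nat_lit 246) (nat_lit 5) (nat_lit 384) (nat_lit 372) (nat_lit 144)) (XT.lf (nat_lit 0) (nat_lit 15938749280) (nat_lit 1216) (nat_lit 6936829624) (nat_lit 1292) (nat_lit 18947967764) (nat_lit 229) (nat_lit 5) (nat_lit 245) (nat_lit 5) (nat_lit 246) (nat_lit 5) (nat_lit 385) (nat_lit 372) (nat_lit 143))) (XT.nd (nat_lit 78) (nat_lit 0) (nat_lit 76) (XT.lf (nat_lit 76) (nat_lit 14321056489) (nat_lit 0) (nat_lit 4383689016) (nat_lit 1292) (nat_lit 23790756431) (nat_lit 230) (nat_lit 5) (nat_lit 229) (nat_lit 5) (nat_lit 246) (nat_lit 5) (nat_lit 386) (nat_lit 372) (nat_lit 142)) (XT.lf (nat_lit 0) (nat_lit 21763929470) (nat_lit 1216) (nat_lit 6969509091) (nat_lit 1292) (nat_lit 14447871982) (nat_lit 230) (nat_lit 5) (nat_lit 246) (nat_lit 5) (nat_lit 247) (nat_lit 5) (nat_lit 387) (nat_lit 372) (nat_lit 141)))))) (XT.nd (nat_lit 546) (nat_lit 2128) (nat_lit 0) (XT.nd (nat_lit 234) (nat_lit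 1216) (nat_lit 0) (XT.nd (nat_lit 78) (nat_lit 1140) (nat_lit 0) (XT.lf (nat_lit 76) (nat_lit 15122065045) (nat_lit 0) (nat_lit 9980149123) (nat_lit 1292) (nat_lit 18779860374) (nat_lit 231) (nat_lit 5) (nat_lit 230) (nat_lit 5) (nat_lit 247) (nat_lit 5) (nat_lit 388) (nat_lit 372) (nat_lit 140)) (XT.nd (nat_lit 78) (nat_lit 1216) (nat_lit 0) (XT.lf (nat_lit 0) (nat_lit 28700056025) (nat_lit 1216) (nat_lit 6674160296) (nat_lit 76) (nat_lit 9224863745) (nat_lit 231) (nat_lit 5) (nat_lit 247) (nat_lit 5) (nat_lit 232) (nat_lit 5) (nat_lit 389) (nat_lit 372) (nat_lit 139)) (XT.lf (nat_lit 0) (nat_lit 16292178806) (nat_lit 1216) (nat_lit 16367711662) (nat_lit 1292) (nat_lit 12670084406) (nat_lit 215) (nat_lit 5) (nat_lit 231) (nat_lit 5) (nat_lit 232) (nat_lit 5) (nat_lit 390) (nat_lit 372) (nat_lit 138)))) (XT.nd (nat_lit 156) (nat_lit 608) (nat_lit 0) (XT.nd (nat_lit 78) (nat_lit 608) (nat_lit 0) (XT.lf (nat_lit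 0) (nat_lit 36836093486) (nat_lit 1292) (nat_lit 6029188971) (nat_lit 76) (nat_lit 3214587677) (nat_lit 215) (nat_lit 5) (nat_lit 232) (nat_lit 5) (nat_lit 216) (nat_lit 5) (nat_lit 391) (nat_lit 372) (nat_lit 137)) (XT.lf (nat_lit 0) (nat_lit 17854845628) (nat_lit 608) (nat_lit 23615127706) (nat_lit 684) (nat_lit 5372317986) (nat_lit 207) (nat_lit 5) (nat_lit 215) (nat_lit 5) (nat_lit 216) (nat_lit 5) (nat_lit 392) (nat_lit 372) (nat_lit 136))) (XT.nd (nat_lit 78) (nat_lit 608) (nat_lit 0) (XT.lf (nat_lit 0) (nat_lit 42577818855) (nat_lit 608) (nat_lit 3724662699) (nat_lit 684) (nat_lit 1323315996) (nat_lit 207) (nat_lit 5) (nat_lit 215) (nat_lit 5) (nat_lit 216) (nat_lit 5) (nat_lit 393) (nat_lit 372) (nat_lit 135)) (XT.lf (nat_lit 0) (nat_lit 3145626804) (nat_lit 608) (nat_lit 28618730369) (nat_lit 76) (nat_lit 16657010588) (nat_lit 199) (nat_lit 5) (nat_lit 207) (nat_lit 5) (nat_lit 200) (nat_lit 5)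 (nat_lit 394) (nat_lit 372) (nat_lit 134))))) (XT.nd (nat_lit 234) (nat_lit 1520) (nat_lit 0) (XT.nd (nat_lit 78) (nat_lit 608) (nat_lit 0) (XT.lf (nat_lit 0) (nat_lit 7809176706) (nat_lit 608) (nat_lit 3788702706) (nat_lit 76) (nat_lit 37639919221) (nat_lit 199) (nat_lit 5) (nat_lit 207) (nat_lit 5) (nat_lit 200) (nat_lit 5) (nat_lit 395) (nat_lit 372) (nat_lit 133)) (XT.nd (nat_lit 78) (nat_lit 0) (nat_lit 0) (XT.lf (nat_lit 0) (nat_lit 12915323781) (nat_lit 684) (nat_lit 27944015068) (nat_lit 76) (nat_lit 9210303543) (nat_lit 191) (nat_lit 5) (nat_lit 200) (nat_lit 5) (nat_lit 192) (nat_lit 5) (nat_lit 396) (nat_lit 372) (nat_lit 132)) (XT.lf (nat_lit 0) (nat_lit 18326961164) (nat_lit 684) (nat_lit 2146633383) (nat_lit 76) (nat_lit 30448278401) (nat_lit 191) (nat_lit 5) (nat_lit 200) (nat_lit 5) (nat_lit 192) (nat_lit 5) (nat_lit 397) (nat_lit 372) (nat_lit 131)))) (XT.nd (nat_lit 156) (nat_lit 988)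 (nat_lit 0) (XT.nd (nat_lit 78) (nat_lit 0) (nat_lit 0) (XT.lf (nat_lit 0) (nat_lit 24146670846) (nat_lit 608) (nat_lit 26890328592) (nat_lit 76) (nat_lit 755299932) (nat_lit 184) (nat_lit 5) (nat_lit 192) (nat_lit 5) (nat_lit 185) (nat_lit 5) (nat_lit 398) (nat_lit 372) (nat_lit 130)) (XT.lf (nat_lit 0) (nat_lit 30364465702) (nat_lit 608) (nat_lit 86244971) (nat_lit 76) (nat_lit 22231423717) (nat_lit 184) (nat_lit 5) (nat_lit 192) (nat_lit 5) (nat_lit 185) (nat_lit 5) (nat_lit 399) (nat_lit 372) (nat_lit 129))) (XT.nd (nat_lit 78) (nat_lit 456) (nat_lit 0) (XT.lf (nat_lit 0) (nat_lit 28068543464) (nat_lit 532) (nat_lit 8968988792) (nat_lit 608) (nat_lit 16553070676) (nat_lit 177) (nat_lit 5) (nat_lit 184) (nat_lit 5) (nat_lit 185) (nat_lit 5) (nat_lit 400) (nat_lit 372) (nat_lit 128)) (XT.lf (nat_lit 0) (nat_lit 2463883342) (nat_lit 456) (nat_lit 41596891885) (nat_lit 532) (nat_lit 10461051358) (nat_lit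 171) (nat_lit 5) (nat_lit 177) (nat_lit 5) (nat_lit 178) (nat_lit 5) (nat_lit 401) (nat_lit 372) (nat_lit 127))))))))
noncomputable def xc241 : XT := (XT.nd (nat_lit 45084) (nat_lit 0) (nat_lit 3648) (XT.nd (nat_lit 1014) (nat_lit 1444) (nat_lit 0) (XT.nd (nat_lit 468) (nat_lit 1292) (nat_lit 0) (XT.nd (nat_lit 234) (nat_lit 912) (nat_lit 0) (XT.nd (nat_lit 78) (nat_lit 532) (nat_lit 0) (XT.lf (nat_lit 0) (nat_lit 31720867321) (nat_lit 456) (nat_lit 19918467519) (nat_lit 532) (nat_lit 3831314099) (nat_lit 171) (nat_lit 5) (nat_lit 177) (nat_lit 5) (nat_lit 178) (nat_lit 5) (nat_lit 402) (nat_lit 372) (nat_lit 126)) (XT.nd (nat_lit 78) (nat_lit 0) (nat_lit 0) (XT.lf (nat_lit 0) (nat_lit 3014509707) (nat_lit 532) (nat_lit 50984789723) (nat_lit 76) (nat_lit 2445502225) (nat_lit 164) (nat_lit 5) (nat_lit 171) (nat_lit 5) (nat_lit 165) (nat_lit 5) (nat_lit 403) (nat_lit 372) (nat_lit 125)) (XT.lf (nat_lit 0)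 (nat_lit 10427118460) (nat_lit 532) (nat_lit 21646709110) (nat_lit 76) (nat_lit 25360061415) (nat_lit 164) (nat_lit 5) (nat_lit 171) (nat_lit 5) (nat_lit 165) (nat_lit 5) (nat_lit 404) (nat_lit 372) (nat_lit 124)))) (XT.nd (nat_lit 78) (nat_lit 456) (nat_lit 0) (XT.lf (nat_lit 0) (nat_lit 8740964532) (nat_lit 456) (nat_lit 9404196053) (nat_lit 532) (nat_lit 40304997205) (nat_lit 158) (nat_lit 5) (nat_lit 164) (nat_lit 5) (nat_lit 165) (nat_lit 5) (nat_lit 405) (nat_lit 372) (nat_lit 123)) (XT.nd (nat_lit 78) (nat_lit 456) (nat_lit 0) (XT.lf (nat_lit 0) (nat_lit 26448598146) (nat_lit 532) (nat_lit 19143703106) (nat_lit 76) (nat_lit 13893998273) (nat_lit 158) (nat_lit 5) (nat_lit 165) (nat_lit 5) (nat_lit 159) (nat_lit 5) (nat_lit 406) (nat_lit 372) (nat_lit 122)) (XT.lf (nat_lit 0) (nat_lit 12488230614) (nat_lit 456) (nat_lit 22725139012) (nat_lit 532) (nat_lit 25333789444) (nat_lit 152) (nat_lit 5) (nat_lit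 158) (nat_lit 5) (nat_lit 159) (nat_lit 5) (nat_lit 407) (nat_lit 372) (nat_lit 121))))) (XT.nd (nat_lit 234) (nat_lit 836) (nat_lit 0) (XT.nd (nat_lit 78) (nat_lit 456) (nat_lit 0) (XT.lf (nat_lit 0) (nat_lit 44443361856) (nat_lit 532) (nat_lit 16183484912) (nat_lit 76) (nat_lit 1006929766) (nat_lit 152) (nat_lit 5) (nat_lit 159) (nat_lit 5) (nat_lit 153) (nat_lit 5) (nat_lit 408) (nat_lit 372) (nat_lit 120)) (XT.nd (nat_lit 78) (nat_lit 76) (nat_lit 0) (XT.lf (nat_lit 0) (nat_lit 16748969978) (nat_lit 380) (nat_lit 37586403231) (nat_lit 456) (nat_lit 8406066184) (nat_lit 147) (nat_lit 5) (nat_lit 152) (nat_lit 5) (nat_lit 153) (nat_lit 5) (nat_lit 409) (nat_lit 372) (nat_lit 119)) (XT.lf (nat_lit 0) (nat_lit 793451216) (nat_lit 456) (nat_lit 12885163507) (nat_lit 76) (nat_lit 50198607879) (nat_lit 146) (nat_lit 5) (nat_lit 152) (nat_lit 5) (nat_lit 147) (nat_lit 5) (nat_lit 410) (nat_lit 372) (nat_lit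 118)))) (XT.nd (nat_lit 156) (nat_lit 380) (nat_lit 0) (XT.nd (nat_lit 78) (nat_lit 0) (nat_lit 0) (XT.lf (nat_lit 0) (nat_lit 10414413277) (nat_lit 532) (nat_lit 43594865962) (nat_lit 76) (nat_lit 11025871247) (nat_lit 140) (nat_lit 5) (nat_lit 147) (nat_lit 5) (nat_lit 141) (nat_lit 5) (nat_lit 411) (nat_lit 372) (nat_lit 117)) (XT.lf (nat_lit 0) (nat_lit 20590000439) (nat_lit 532) (nat_lit 9302075531) (nat_lit 76) (nat_lit 36327760749) (nat_lit 140) (nat_lit 5) (nat_lit 147) (nat_lit 5) (nat_lit 141) (nat_lit 5) (nat_lit 412) (nat_lit 372) (nat_lit 116))) (XT.nd (nat_lit 78) (nat_lit 0) (nat_lit 0) (XT.lf (nat_lit 0) (nat_lit 26536276267) (nat_lit 380) (nat_lit 4788847558) (nat_lit 456) (nat_lit 36107312046) (nat_lit 135) (nat_lit 5) (nat_lit 140) (nat_lit 5) (nat_lit 141) (nat_lit 5) (nat_lit 413) (nat_lit 372) (nat_lit 115)) (XT.lf (nat_lit 0) (nat_lit 42678874437) (nat_lit 456) (nat_lit 5242629130)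 (nat_lit 76) (nat_lit 20751012602) (nat_lit 135) (nat_lit 5) (nat_lit 141) (nat_lit 5) (nat_lit 136) (nat_lit 5) (nat_lit 414) (nat_lit 372) (nat_lit 114)))))) (XT.nd (nat_lit 468) (nat_lit 0) (nat_lit 0) (XT.nd (nat_lit 234) (nat_lit 684) (nat_lit 0) (XT.nd (nat_lit 78) (nat_lit 380) (nat_lit 0) (XT.lf (nat_lit 0) (nat_lit 32057630775) (nat_lit 380) (nat_lit 22670399351) (nat_lit 456) (nat_lit 15211125339) (nat_lit 130) (nat_lit 5) (nat_lit 135) (nat_lit 5) (nat_lit 136) (nat_lit 5) (nat_lit 415) (nat_lit 372) (nat_lit 113)) (XT.nd (nat_lit 78) (nat_lit 380) (nat_lit 0) (XT.lf (nat_lit 0) (nat_lit 67223445388) (nat_lit 456) (nat_lit 691484803) (nat_lit 76) (nat_lit 3326320559) (nat_lit 130) (nat_lit 5) (nat_lit 136) (nat_lit 5) (nat_lit 131) (nat_lit 5) (nat_lit 416) (nat_lit 372) (nat_lit 112)) (XT.lf (nat_lit 0) (nat_lit 7960855209) (nat_lit 380) (nat_lit 34509844422) (nat_lit 76) (nat_lit 30091660083)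 (nat_lit 125) (nat_lit 5) (nat_lit 130) (nat_lit 5) (nat_lit 126) (nat_lit 5) (nat_lit 417) (nat_lit 372) (nat_lit 111)))) (XT.nd (nat_lit 78) (nat_lit 304) (nat_lit 0) (XT.lf (nat_lit 0) (nat_lit 4089052306) (nat_lit 380) (nat_lit 16174685893) (nat_lit 456) (nat_lit 53656802169) (nat_lit 120) (nat_lit 5) (nat_lit 125) (nat_lit 5) (nat_lit 126) (nat_lit 5) (nat_lit 418) (nat_lit 372) (nat_lit 110)) (XT.nd (nat_lit 78) (nat_lit 304) (nat_lit 0) (XT.lf (nat_lit 0) (nat_lit 33391783045) (nat_lit 456) (nat_lit 30865021859) (nat_lit 76) (nat_lit 11048979596) (nat_lit 120) (nat_lit 5) (nat_lit 126) (nat_lit 5) (nat_lit 121) (nat_lit 5) (nat_lit 419) (nat_lit 372) (nat_lit 109)) (XT.lf (nat_lit 0) (nat_lit 9290597726) (nat_lit 304) (nat_lit 37871812844) (nat_lit 380) (nat_lit 29562713452) (nat_lit 116) (nat_lit 5) (nat_lit 120) (nat_lit 5) (nat_lit 121) (nat_lit 5) (nat_lit 420) (nat_lit 372) (nat_lit 108)))))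 (XT.nd (nat_lit 43290) (nat_lit 0) (nat_lit 8208) (XT.nd (nat_lit 43134) (nat_lit 0) (nat_lit 8132) (XT.lf (nat_lit 0) (nat_lit 51282610051) (nat_lit 304) (nat_lit 10374523392) (nat_lit 380) (nat_lit 16520581287) (nat_lit 116) (nat_lit 5) (nat_lit 120) (nat_lit 5) (nat_lit 121) (nat_lit 5) (nat_lit 421) (nat_lit 372) (nat_lit 107)) (XT.nd (nat_lit 78) (nat_lit 0) (nat_lit 0) (XT.lf (nat_lit 0) (nat_lit 13290608) (nat_lit 1292) (nat_lit 8818459446) (nat_lit 1292) (nat_lit 8818459446) (nat_lit 223) (nat_lit 3) (nat_lit 240) (nat_lit 3) (nat_lit 240) (nat_lit 5) (nat_lit 373) (nat_lit 373) (nat_lit 154)) (XT.lf (nat_lit 0) (nat_lit 78471773) (nat_lit 1292) (nat_lit 928533840) (nat_lit 1292) (nat_lit 34821342419) (nat_lit 223) (nat_lit 3) (nat_lit 240) (nat_lit 3) (nat_lit 240) (nat_lit 5) (nat_lit 374) (nat_lit 373) (nat_lit 153)))) (XT.nd (nat_lit 156) (nat_lit 0) (nat_lit 76) (XT.nd (nat_lit 78) (nat_lit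 0) (nat_lit 0) (XT.lf (nat_lit 0) (nat_lit 446343444) (nat_lit 1216) (nat_lit 19920141258) (nat_lit 1292) (nat_lit 15996198766) (nat_lit 224) (nat_lit 5) (nat_lit 240) (nat_lit 5) (nat_lit 241) (nat_lit 5) (nat_lit 375) (nat_lit 373) (nat_lit 152)) (XT.lf (nat_lit 0) (nat_lit 842738909) (nat_lit 1216) (nat_lit 2570140755) (nat_lit 1292) (nat_lit 33499645906) (nat_lit 224) (nat_lit 5) (nat_lit 240) (nat_lit 5) (nat_lit 241) (nat_lit 5) (nat_lit 376) (nat_lit 373) (nat_lit 151))) (XT.nd (nat_lit 78) (nat_lit 0) (nat_lit 0) (XT.lf (nat_lit 0) (nat_lit 1535668155) (nat_lit 1216) (nat_lit 22007181877) (nat_lit 1292) (nat_lit 13927474841) (nat_lit 225) (nat_lit 5) (nat_lit 241) (nat_lit 5) (nat_lit 242) (nat_lit 5) (nat_lit 377) (nat_lit 373) (nat_lit 150)) (XT.lf (nat_lit 0) (nat_lit 2307544200) (nat_lit 1216) (nat_lit 3989133280) (nat_lit 1292) (nat_lit 31746437068) (nat_lit 225) (nat_lit 5) (nat_lit 241) (nat_lit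 5) (nat_lit 242) (nat_lit 5) (nat_lit 378) (nat_lit 373) (nat_lit 149))))))) (XT.nd (nat_lit 1014) (nat_lit 3876) (nat_lit 0) (XT.nd (nat_lit 468) (nat_lit 836) (nat_lit 0) (XT.nd (nat_lit 234) (nat_lit 0) (nat_lit 76) (XT.nd (nat_lit 78) (nat_lit 0) (nat_lit 0) (XT.lf (nat_lit 0) (nat_lit 3355262630) (nat_lit 1216) (nat_lit 23882193481) (nat_lit 1292) (nat_lit 11388052347) (nat_lit 226) (nat_lit 5) (nat_lit 242) (nat_lit 5) (nat_lit 243) (nat_lit 5) (nat_lit 379) (nat_lit 373) (nat_lit 148)) (XT.nd (nat_lit 78) (nat_lit 0) (nat_lit 76) (XT.lf (nat_lit 0) (nat_lit 4535696814) (nat_lit 1216) (nat_lit 5168531215) (nat_lit 1292) (nat_lit 29518108723) (nat_lit 226) (nat_lit 5) (nat_lit 242) (nat_lit 5) (nat_lit 243) (nat_lit 5) (nat_lit 380) (nat_lit 373) (nat_lit 147)) (XT.lf (nat_lit 0) (nat_lit 5969831150) (nat_lit 1216) (nat_lit 25528494669) (nat_lit 1292) (nat_lit 8332196525) (nat_lit 227) (nat_lit 5)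 (nat_lit 243) (nat_lit 5) (nat_lit 244) (nat_lit 5) (nat_lit 381) (nat_lit 373) (nat_lit 146)))) (XT.nd (nat_lit 78) (nat_lit 0) (nat_lit 76) (XT.lf (nat_lit 0) (nat_lit 7594134195) (nat_lit 1216) (nat_lit 6090478294) (nat_lit 1292) (nat_lit 26767927705) (nat_lit 227) (nat_lit 5) (nat_lit 243) (nat_lit 5) (nat_lit 244) (nat_lit 5) (nat_lit 382) (nat_lit 373) (nat_lit 145)) (XT.nd (nat_lit 78) (nat_lit 0) (nat_lit 0) (XT.lf (nat_lit 0) (nat_lit 9448318390) (nat_lit 1216) (nat_lit 26928563773) (nat_lit 1292) (nat_lit 4710902857) (nat_lit 228) (nat_lit 5) (nat_lit 244) (nat_lit 5) (nat_lit 245) (nat_lit 5) (nat_lit 383) (nat_lit 373) (nat_lit 144)) (XT.lf (nat_lit 0) (nat_lit 11554172875) (nat_lit 1216) (nat_lit 6736235138) (nat_lit 1292) (nat_lit 23445798807) (nat_lit 228) (nat_lit 5) (nat_lit 244) (nat_lit 5) (nat_lit 245) (nat_lit 5) (nat_lit 384) (nat_lit 373) (nat_lit 143))))) (XT.nd (nat_lit 234) (nat_lit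 1064) (nat_lit 0) (XT.nd (nat_lit 78) (nat_lit 0) (nat_lit 0) (XT.lf (nat_lit 0) (nat_lit 13864165546) (nat_lit 1216) (nat_lit 28064036252) (nat_lit 1292) (nat_lit 471651543) (nat_lit 229) (nat_lit 5) (nat_lit 245) (nat_lit 5) (nat_lit 246) (nat_lit 5) (nat_lit 385) (nat_lit 373) (nat_lit 142)) (XT.nd (nat_lit 78) (nat_lit 0) (nat_lit 0) (XT.lf (nat_lit 0) (nat_lit 16491772425) (nat_lit 1216) (nat_lit 7086175839) (nat_lit 1292) (nat_lit 19498012477) (nat_lit 229) (nat_lit 5) (nat_lit 245) (nat_lit 5) (nat_lit 246) (nat_lit 5) (nat_lit 386) (nat_lit 373) (nat_lit 141)) (XT.lf (nat_lit 76) (nat_lit 14808870793) (nat_lit 0) (nat_lit 4530256624) (nat_lit 1292) (nat_lit 24428997239) (nat_lit 230) (nat_lit 5) (nat_lit 229) (nat_lit 5) (nat_lit 246) (nat_lit 5) (nat_lit 387) (nat_lit 373) (nat_lit 140)))) (XT.nd (nat_lit 156) (nat_lit 1140) (nat_lit 0) (XT.nd (nat_lit 78) (nat_lit 0) (nat_lit 0) (XT.lf (nat_lit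 0) (nat_lit 22487813189) (nat_lit 1216) (nat_lit 7119788845) (nat_lit 1292) (nat_lit 14866975014) (nat_lit 230) (nat_lit 5) (nat_lit 246) (nat_lit 5) (nat_lit 247) (nat_lit 5) (nat_lit 388) (nat_lit 373) (nat_lit 139)) (XT.lf (nat_lit 76) (nat_lit 15633955991) (nat_lit 0) (nat_lit 10290783203) (nat_lit 1292) (nat_lit 19271671266) (nat_lit 231) (nat_lit 5) (nat_lit 230) (nat_lit 5) (nat_lit 247) (nat_lit 5) (nat_lit 389) (nat_lit 373) (nat_lit 138))) (XT.nd (nat_lit 78) (nat_lit 1216) (nat_lit 0) (XT.lf (nat_lit 0) (nat_lit 29628388439) (nat_lit 1216) (nat_lit 6815682912) (nat_lit 76) (nat_lit 9490919874) (nat_lit 231) (nat_lit 5) (nat_lit 247) (nat_lit 5) (nat_lit 232) (nat_lit 5) (nat_lit 390) (nat_lit 373) (nat_lit 137)) (XT.lf (nat_lit 0) (nat_lit 16839070851) (nat_lit 1216) (nat_lit 16866544724) (nat_lit 1292) (nat_lit 12982240576) (nat_lit 215) (nat_lit 5) (nat_lit 231) (nat_lit 5) (nat_lit 232) (nat_lit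 5) (nat_lit 391) (nat_lit 373) (nat_lit 136)))))) (XT.nd (nat_lit 546) (nat_lit 2052) (nat_lit 0) (XT.nd (nat_lit 234) (nat_lit 1216) (nat_lit 0) (XT.nd (nat_lit 78) (nat_lit 608) (nat_lit 0) (XT.lf (nat_lit 0) (nat_lit 38005111629) (nat_lit 1292) (nat_lit 6151598965) (nat_lit 76) (nat_lit 3303598635) (nat_lit 215) (nat_lit 5) (nat_lit 232) (nat_lit 5) (nat_lit 216) (nat_lit 5) (nat_lit 392) (nat_lit 373) (nat_lit 135)) (XT.nd (nat_lit 78) (nat_lit 0) (nat_lit 0) (XT.lf (nat_lit 0) (nat_lit 18448383479) (nat_lit 608) (nat_lit 24328318697) (nat_lit 684) (nat_lit 5468941180) (nat_lit 207) (nat_lit 5) (nat_lit 215) (nat_lit 5) (nat_lit 216) (nat_lit 5) (nat_lit 393) (nat_lit 373) (nat_lit 134)) (XT.lf (nat_lit 0) (nat_lit 43911359714) (nat_lit 608) (nat_lit 3841001765) (nat_lit 684) (nat_lit 1300349121) (nat_lit 207) (nat_lit 5) (nat_lit 215) (nat_lit 5) (nat_lit 216) (nat_lit 5) (nat_lit 394) (nat_lit 373)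 (nat_lit 133)))) (XT.nd (nat_lit 156) (nat_lit 608) (nat_lit 0) (XT.nd (nat_lit 78) (nat_lit 0) (nat_lit 0) (XT.lf (nat_lit 0) (nat_lit 3300164755) (nat_lit 608) (nat_lit 29418518529) (nat_lit 76) (nat_lit 17153485830) (nat_lit 199) (nat_lit 5) (nat_lit 207) (nat_lit 5) (nat_lit 200) (nat_lit 5) (nat_lit 395) (nat_lit 373) (nat_lit 132)) (XT.lf (nat_lit 0) (nat_lit 8101868654) (nat_lit 608) (nat_lit 3845301894) (nat_lit 76) (nat_lit 38765975947) (nat_lit 199) (nat_lit 5) (nat_lit 207) (nat_lit 5) (nat_lit 200) (nat_lit 5) (nat_lit 396) (nat_lit 373) (nat_lit 131))) (XT.nd (nat_lit 78) (nat_lit 0) (nat_lit 0) (XT.lf (nat_lit 0) (nat_lit 13360034556) (nat_lit 684) (nat_lit 28724075421) (nat_lit 76) (nat_lit 9485871535) (nat_lit 191) (nat_lit 5) (nat_lit 200) (nat_lit 5) (nat_lit 192) (nat_lit 5) (nat_lit 397) (nat_lit 373) (nat_lit 130)) (XT.lf (nat_lit 0) (nat_lit 18932353554) (nat_lit 684) (nat_lit 2154469182)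 (nat_lit 76) (nat_lit 31361007225) (nat_lit 191) (nat_lit 5) (nat_lit 200) (nat_lit 5) (nat_lit 192) (nat_lit 5) (nat_lit 398) (nat_lit 373) (nat_lit 129))))) (XT.nd (nat_lit 234) (nat_lit 988) (nat_lit 0) (XT.nd (nat_lit 78) (nat_lit 532) (nat_lit 0) (XT.lf (nat_lit 0) (nat_lit 24925588450) (nat_lit 608) (nat_lit 27639378425) (nat_lit 76) (nat_lit 779435204) (nat_lit 184) (nat_lit 5) (nat_lit 192) (nat_lit 5) (nat_lit 185) (nat_lit 5) (nat_lit 399) (nat_lit 373) (nat_lit 128)) (XT.nd (nat_lit 78) (nat_lit 532) (nat_lit 0) (XT.lf (nat_lit 0) (nat_lit 31328329264) (nat_lit 608) (nat_lit 32851713) (nat_lit 76) (nat_lit 22899799705) (nat_lit 184) (nat_lit 5) (nat_lit 192) (nat_lit 5) (nat_lit 185) (nat_lit 5) (nat_lit 400) (nat_lit 373) (nat_lit 127)) (XT.lf (nat_lit 0) (nat_lit 28966031545) (nat_lit 532) (nat_lit 9234547476) (nat_lit 608) (nat_lit 16996155394) (nat_lit 177) (nat_lit 5) (nat_lit 184) (nat_lit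 5) (nat_lit 185) (nat_lit 5) (nat_lit 401) (nat_lit 373) (nat_lit 126)))) (XT.nd (nat_lit 156) (nat_lit 532) (nat_lit 0) (XT.nd (nat_lit 78) (nat_lit 0) (nat_lit 0) (XT.lf (nat_lit 0) (nat_lit 2594225802) (nat_lit 456) (nat_lit 42839356390) (nat_lit 532) (nat_lit 10722341542) (nat_lit 171) (nat_lit 5) (nat_lit 177) (nat_lit 5) (nat_lit 178) (nat_lit 5) (nat_lit 402) (nat_lit 373) (nat_lit 125)) (XT.lf (nat_lit 0) (nat_lit 32727275826) (nat_lit 456) (nat_lit 20510737805) (nat_lit 532) (nat_lit 3895242496) (nat_lit 171) (nat_lit 5) (nat_lit 177) (nat_lit 5) (nat_lit 178) (nat_lit 5) (nat_lit 403) (nat_lit 373) (nat_lit 124))) (XT.nd (nat_lit 78) (nat_lit 0) (nat_lit 0) (XT.lf (nat_lit 0) (nat_lit 3154094301) (nat_lit 532) (nat_lit 52457636934) (nat_lit 76) (nat_lit 2524914241) (nat_lit 164) (nat_lit 5) (nat_lit 171) (nat_lit 5) (nat_lit 165) (nat_lit 5) (nat_lit 404) (nat_lit 373) (nat_lit 123)) (XT.lf (nat_lit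 0) (nat_lit 10787649784) (nat_lit 532) (nat_lit 22241065256) (nat_lit 76) (nat_lit 26126734083) (nat_lit 164) (nat_lit 5) (nat_lit 171) (nat_lit 5) (nat_lit 165) (nat_lit 5) (nat_lit 405) (nat_lit 373) (nat_lit 122))))))))
noncomputable def xc242 : XT := (XT.nd (nat_lit 45162) (nat_lit 0) (nat_lit 2736) (XT.nd (nat_lit 1014) (nat_lit 684) (nat_lit 0) (XT.nd (nat_lit 468) (nat_lit 1596) (nat_lit 0) (XT.nd (nat_lit 234) (nat_lit 456) (nat_lit 0) (XT.nd (nat_lit 78) (nat_lit 456) (nat_lit 0) (XT.lf (nat_lit 0) (nat_lit 9057698937) (nat_lit 456) (nat_lit 9678668338) (nat_lit 532) (nat_lit 41465865421) (nat_lit 158) (nat_lit 5) (nat_lit 164) (nat_lit 5) (nat_lit 165) (nat_lit 5) (nat_lit 406) (nat_lit 373) (nat_lit 121)) (XT.nd (nat_lit 78) (nat_lit 456) (nat_lit 0) (XT.lf (nat_lit 0) (nat_lit 27287614773) (nat_lit 532) (nat_lit 19663779514) (nat_lit 76) (nat_lit 14318103900) (nat_lit 158) (nat_lit 5) (nat_lit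 165) (nat_lit 5) (nat_lit 159) (nat_lit 5) (nat_lit 407) (nat_lit 373) (nat_lit 120)) (XT.lf (nat_lit 0) (nat_lit 12916580505) (nat_lit 456) (nat_lit 23397938165) (nat_lit 532) (nat_lit 26047689854) (nat_lit 152) (nat_lit 5) (nat_lit 158) (nat_lit 5) (nat_lit 159) (nat_lit 5) (nat_lit 408) (nat_lit 373) (nat_lit 119)))) (XT.nd (nat_lit 78) (nat_lit 456) (nat_lit 0) (XT.lf (nat_lit 0) (nat_lit 45820190903) (nat_lit 532) (nat_lit 16615608674) (nat_lit 76) (nat_lit 1045662195) (nat_lit 152) (nat_lit 5) (nat_lit 159) (nat_lit 5) (nat_lit 153) (nat_lit 5) (nat_lit 409) (nat_lit 373) (nat_lit 118)) (XT.nd (nat_lit 78) (nat_lit 76) (nat_lit 0) (XT.lf (nat_lit 0) (nat_lit 17304296522) (nat_lit 380) (nat_lit 38703906362) (nat_lit 456) (nat_lit 8614175072) (nat_lit 147) (nat_lit 5) (nat_lit 152) (nat_lit 5) (nat_lit 153) (nat_lit 5) (nat_lit 410) (nat_lit 373) (nat_lit 117)) (XT.lf (nat_lit 0) (nat_lit 859209192)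 (nat_lit 456) (nat_lit 13219545203) (nat_lit 76) (nat_lit 51713505925) (nat_lit 146) (nat_lit 5) (nat_lit 152) (nat_lit 5) (nat_lit 147) (nat_lit 5) (nat_lit 411) (nat_lit 373) (nat_lit 116))))) (XT.nd (nat_lit 234) (nat_lit 760) (nat_lit 0) (XT.nd (nat_lit 78) (nat_lit 380) (nat_lit 0) (XT.lf (nat_lit 0) (nat_lit 10768175029) (nat_lit 532) (nat_lit 44849893911) (nat_lit 76) (nat_lit 11366876445) (nat_lit 140) (nat_lit 5) (nat_lit 147) (nat_lit 5) (nat_lit 141) (nat_lit 5) (nat_lit 412) (nat_lit 373) (nat_lit 115)) (XT.nd (nat_lit 78) (nat_lit 380) (nat_lit 0) (XT.lf (nat_lit 0) (nat_lit 21247826039) (nat_lit 532) (nat_lit 9529858157) (nat_lit 76) (nat_lit 37427524698) (nat_lit 140) (nat_lit 5) (nat_lit 147) (nat_lit 5) (nat_lit 141) (nat_lit 5) (nat_lit 413) (nat_lit 373) (nat_lit 114)) (XT.lf (nat_lit 0) (nat_lit 27383141454) (nat_lit 380) (nat_lit 4921181065) (nat_lit 456) (nat_lit 37149884477) (nat_lit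 135) (nat_lit 5) (nat_lit 140) (nat_lit 5) (nat_lit 141) (nat_lit 5) (nat_lit 414) (nat_lit 373) (nat_lit 113)))) (XT.nd (nat_lit 156) (nat_lit 380) (nat_lit 0) (XT.nd (nat_lit 78) (nat_lit 380) (nat_lit 0) (XT.lf (nat_lit 0) (nat_lit 43997642523) (nat_lit 456) (nat_lit 5349548857) (nat_lit 76) (nat_lit 21384330158) (nat_lit 135) (nat_lit 5) (nat_lit 141) (nat_lit 5) (nat_lit 136) (nat_lit 5) (nat_lit 415) (nat_lit 373) (nat_lit 112)) (XT.lf (nat_lit 0) (nat_lit 33069225128) (nat_lit 380) (nat_lit 23338408591) (nat_lit 456) (nat_lit 15628545995) (nat_lit 130) (nat_lit 5) (nat_lit 135) (nat_lit 5) (nat_lit 136) (nat_lit 5) (nat_lit 416) (nat_lit 373) (nat_lit 111))) (XT.nd (nat_lit 78) (nat_lit 380) (nat_lit 0) (XT.lf (nat_lit 0) (nat_lit 69276924505) (nat_lit 456) (nat_lit 662812351) (nat_lit 76) (nat_lit 3437631120) (nat_lit 130) (nat_lit 5) (nat_lit 136) (nat_lit 5) (nat_lit 131) (nat_lit 5) (nat_lit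 417) (nat_lit 373) (nat_lit 110)) (XT.lf (nat_lit 0) (nat_lit 8236230225) (nat_lit 380) (nat_lit 35495463789) (nat_lit 76) (nat_lit 31006423964) (nat_lit 125) (nat_lit 5) (nat_lit 130) (nat_lit 5) (nat_lit 126) (nat_lit 5) (nat_lit 418) (nat_lit 373) (nat_lit 109)))))) (XT.nd (nat_lit 43602) (nat_lit 0) (nat_lit 8208) (XT.nd (nat_lit 43368) (nat_lit 0) (nat_lit 8132) (XT.nd (nat_lit 78) (nat_lit 304) (nat_lit 0) (XT.lf (nat_lit 0) (nat_lit 4260912823) (nat_lit 380) (nat_lit 16646695173) (nat_lit 456) (nat_lit 55229454276) (nat_lit 120) (nat_lit 5) (nat_lit 125) (nat_lit 5) (nat_lit 126) (nat_lit 5) (nat_lit 419) (nat_lit 373) (nat_lit 108)) (XT.nd (nat_lit 78) (nat_lit 304) (nat_lit 0) (XT.lf (nat_lit 0) (nat_lit 34428570359) (nat_lit 456) (nat_lit 31742277303) (nat_lit 76) (nat_lit 11393044233) (nat_lit 120) (nat_lit 5) (nat_lit 126) (nat_lit 5) (nat_lit 121) (nat_lit 5) (nat_lit 420) (nat_lit 373) (nat_lit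 107)) (XT.lf (nat_lit 0) (nat_lit 9617533466) (nat_lit 304) (nat_lit 38994226340) (nat_lit 380) (nat_lit 30414068944) (nat_lit 116) (nat_lit 5) (nat_lit 120) (nat_lit 5) (nat_lit 121) (nat_lit 5) (nat_lit 421) (nat_lit 373) (nat_lit 106)))) (XT.nd (nat_lit 78) (nat_lit 0) (nat_lit 0) (XT.lf (nat_lit 0) (nat_lit 64686194) (nat_lit 1292) (nat_lit 9056733749) (nat_lit 1292) (nat_lit 9056733749) (nat_lit 223) (nat_lit 3) (nat_lit 240) (nat_lit 3) (nat_lit 240) (nat_lit 5) (nat_lit 374) (nat_lit 374) (nat_lit 152)) (XT.nd (nat_lit 78) (nat_lit 0) (nat_lit 76) (XT.lf (nat_lit 0) (nat_lit 179848970) (nat_lit 1292) (nat_lit 905361737) (nat_lit 1292) (nat_lit 35814954573) (nat_lit 223) (nat_lit 3) (nat_lit 240) (nat_lit 3) (nat_lit 240) (nat_lit 5) (nat_lit 375) (nat_lit 374) (nat_lit 151)) (XT.lf (nat_lit 0) (nat_lit 555915219) (nat_lit 1216) (nat_lit 20463815124) (nat_lit 1292) (nat_lit 16430887503) (nat_lit 224)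 (nat_lit 5) (nat_lit 240) (nat_lit 5) (nat_lit 241) (nat_lit 5) (nat_lit 376) (nat_lit 374) (nat_lit 150))))) (XT.nd (nat_lit 234) (nat_lit 0) (nat_lit 152) (XT.nd (nat_lit 78) (nat_lit 0) (nat_lit 76) (XT.lf (nat_lit 0) (nat_lit 961401146) (nat_lit 1216) (nat_lit 2594885394) (nat_lit 1292) (nat_lit 34460754481) (nat_lit 224) (nat_lit 5) (nat_lit 240) (nat_lit 5) (nat_lit 241) (nat_lit 5) (nat_lit 377) (nat_lit 374) (nat_lit 149)) (XT.nd (nat_lit 78) (nat_lit 0) (nat_lit 0) (XT.lf (nat_lit 0) (nat_lit 1672518945) (nat_lit 1216) (nat_lit 22612381227) (nat_lit 1292) (nat_lit 14306753827) (nat_lit 225) (nat_lit 5) (nat_lit 241) (nat_lit 5) (nat_lit 242) (nat_lit 5) (nat_lit 378) (nat_lit 374) (nat_lit 148)) (XT.lf (nat_lit 0) (nat_lit 2464907172) (nat_lit 1216) (nat_lit 4055393583) (nat_lit 1292) (nat_lit 32661407599) (nat_lit 225) (nat_lit 5) (nat_lit 241) (nat_lit 5) (nat_lit 242) (nat_lit 5) (nat_lit 379)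 (nat_lit 374) (nat_lit 147)))) (XT.nd (nat_lit 156) (nat_lit 0) (nat_lit 76) (XT.nd (nat_lit 78) (nat_lit 0) (nat_lit 0) (XT.lf (nat_lit 0) (nat_lit 3541679456) (nat_lit 1216) (nat_lit 24542813977) (nat_lit 1292) (nat_lit 11697153595) (nat_lit 226) (nat_lit 5) (nat_lit 242) (nat_lit 5) (nat_lit 243) (nat_lit 5) (nat_lit 380) (nat_lit 374) (nat_lit 146)) (XT.lf (nat_lit 0) (nat_lit 4755028833) (nat_lit 1216) (nat_lit 5269368406) (nat_lit 1292) (nat_lit 30372059438) (nat_lit 226) (nat_lit 5) (nat_lit 242) (nat_lit 5) (nat_lit 243) (nat_lit 5) (nat_lit 381) (nat_lit 374) (nat_lit 145))) (XT.nd (nat_lit 78) (nat_lit 0) (nat_lit 0) (XT.lf (nat_lit 0) (nat_lit 6230012260) (nat_lit 1216) (nat_lit 26237905004) (nat_lit 1292) (nat_lit 8555037345) (nat_lit 227) (nat_lit 5) (nat_lit 243) (nat_lit 5) (nat_lit 244) (nat_lit 5) (nat_lit 382) (nat_lit 374) (nat_lit 144)) (XT.lf (nat_lit 0) (nat_lit 7900682663) (nat_lit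 1216) (nat_lit 6218392153) (nat_lit 1292) (nat_lit 27544630511) (nat_lit 227) (nat_lit 5) (nat_lit 243) (nat_lit 5) (nat_lit 244) (nat_lit 5) (nat_lit 383) (nat_lit 374) (nat_lit 143))))))) (XT.nd (nat_lit 1014) (nat_lit 3572) (nat_lit 0) (XT.nd (nat_lit 468) (nat_lit 2204) (nat_lit 0) (XT.nd (nat_lit 234) (nat_lit 0) (nat_lit 76) (XT.nd (nat_lit 78) (nat_lit 0) (nat_lit 0) (XT.lf (nat_lit 0) (nat_lit 9808502941) (nat_lit 1216) (nat_lit 27679582852) (nat_lit 1292) (nat_lit 4829982826) (nat_lit 228) (nat_lit 5) (nat_lit 244) (nat_lit 5) (nat_lit 245) (nat_lit 5) (nat_lit 384) (nat_lit 374) (nat_lit 142)) (XT.nd (nat_lit 78) (nat_lit 0) (nat_lit 76) (XT.lf (nat_lit 0) (nat_lit 11975298061) (nat_lit 1216) (nat_lit 6883139828) (nat_lit 1292) (nat_lit 24127573628) (nat_lit 228) (nat_lit 5) (nat_lit 244) (nat_lit 5) (nat_lit 245) (nat_lit 5) (nat_lit 385) (nat_lit 374) (nat_lit 141)) (XT.lf (nat_lit 0) (nat_lit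 14352770771) (nat_lit 1216) (nat_lit 28848910083) (nat_lit 1292) (nat_lit 467942527) (nat_lit 229) (nat_lit 5) (nat_lit 245) (nat_lit 5) (nat_lit 246) (nat_lit 5) (nat_lit 386) (nat_lit 374) (nat_lit 140)))) (XT.nd (nat_lit 78) (nat_lit 0) (nat_lit 0) (XT.lf (nat_lit 0) (nat_lit 17057088956) (nat_lit 1216) (nat_lit 7243375428) (nat_lit 1292) (nat_lit 20065614442) (nat_lit 229) (nat_lit 5) (nat_lit 245) (nat_lit 5) (nat_lit 246) (nat_lit 5) (nat_lit 387) (nat_lit 374) (nat_lit 139)) (XT.nd (nat_lit 78) (nat_lit 0) (nat_lit 76) (XT.lf (nat_lit 76) (nat_lit 15307979606) (nat_lit 0) (nat_lit 4680356929) (nat_lit 1292) (nat_lit 25090718241) (nat_lit 230) (nat_lit 5) (nat_lit 229) (nat_lit 5) (nat_lit 246) (nat_lit 5) (nat_lit 388) (nat_lit 374) (nat_lit 138)) (XT.lf (nat_lit 0) (nat_lit 23229339689) (nat_lit 1216) (nat_lit 7277952669) (nat_lit 1292) (nat_lit 15299473916) (nat_lit 230) (nat_lit 5) (nat_lit 246)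 (nat_lit 5) (nat_lit 247) (nat_lit 5) (nat_lit 389) (nat_lit 374) (nat_lit 137))))) (XT.nd (nat_lit 234) (nat_lit 1216) (nat_lit 0) (XT.nd (nat_lit 78) (nat_lit 1140) (nat_lit 0) (XT.lf (nat_lit 76) (nat_lit 16157861082) (nat_lit 0) (nat_lit 10610091680) (nat_lit 1292) (nat_lit 19782345752) (nat_lit 231) (nat_lit 5) (nat_lit 230) (nat_lit 5) (nat_lit 247) (nat_lit 5) (nat_lit 390) (nat_lit 374) (nat_lit 136)) (XT.nd (nat_lit 78) (nat_lit 1216) (nat_lit 0) (XT.lf (nat_lit 0) (nat_lit 30580705765) (nat_lit 1216) (nat_lit 6964820953) (nat_lit 76) (nat_lit 9765571324) (nat_lit 231) (nat_lit 5) (nat_lit 247) (nat_lit 5) (nat_lit 232) (nat_lit 5) (nat_lit 391) (nat_lit 374) (nat_lit 135)) (XT.lf (nat_lit 0) (nat_lit 17399032948) (nat_lit 1216) (nat_lit 17379894927) (nat_lit 1292) (nat_lit 13307661831) (nat_lit 215) (nat_lit 5) (nat_lit 231) (nat_lit 5) (nat_lit 232) (nat_lit 5) (nat_lit 392) (nat_lit 374) (nat_lit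 134)))) (XT.nd (nat_lit 156) (nat_lit 608) (nat_lit 0) (XT.nd (nat_lit 78) (nat_lit 608) (nat_lit 0) (XT.lf (nat_lit 0) (nat_lit 39205530166) (nat_lit 1292) (nat_lit 6281037429) (nat_lit 76) (nat_lit 3395706243) (nat_lit 215) (nat_lit 5) (nat_lit 232) (nat_lit 5) (nat_lit 216) (nat_lit 5) (nat_lit 393) (nat_lit 374) (nat_lit 133)) (XT.lf (nat_lit 0) (nat_lit 19056404200) (nat_lit 608) (nat_lit 25062633485) (nat_lit 684) (nat_lit 5572168294) (nat_lit 207) (nat_lit 5) (nat_lit 215) (nat_lit 5) (nat_lit 216) (nat_lit 5) (nat_lit 394) (nat_lit 374) (nat_lit 132))) (XT.nd (nat_lit 78) (nat_lit 608) (nat_lit 0) (XT.lf (nat_lit 0) (nat_lit 45281680327) (nat_lit 608) (nat_lit 3960566990) (nat_lit 684) (nat_lit 1280290545) (nat_lit 207) (nat_lit 5) (nat_lit 215) (nat_lit 5) (nat_lit 216) (nat_lit 5) (nat_lit 395) (nat_lit 374) (nat_lit 131)) (XT.lf (nat_lit 0) (nat_lit 3455884889) (nat_lit 608) (nat_lit 30245674188)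 (nat_lit 76) (nat_lit 17665041036) (nat_lit 199) (nat_lit 5) (nat_lit 207) (nat_lit 5) (nat_lit 200) (nat_lit 5) (nat_lit 396) (nat_lit 374) (nat_lit 130)))))) (XT.nd (nat_lit 546) (nat_lit 1444) (nat_lit 0) (XT.nd (nat_lit 234) (nat_lit 1520) (nat_lit 0) (XT.nd (nat_lit 78) (nat_lit 608) (nat_lit 0) (XT.lf (nat_lit 0) (nat_lit 8399988006) (nat_lit 608) (nat_lit 3906874642) (nat_lit 76) (nat_lit 39925994674) (nat_lit 199) (nat_lit 5) (nat_lit 207) (nat_lit 5) (nat_lit 200) (nat_lit 5) (nat_lit 397) (nat_lit 374) (nat_lit 129)) (XT.nd (nat_lit 78) (nat_lit 0) (nat_lit 0) (XT.lf (nat_lit 0) (nat_lit 13814800209) (nat_lit 684) (nat_lit 29530881954) (nat_lit 76) (nat_lit 9769749110) (nat_lit 191) (nat_lit 5) (nat_lit 200) (nat_lit 5) (nat_lit 192) (nat_lit 5) (nat_lit 398) (nat_lit 374) (nat_lit 128)) (XT.lf (nat_lit 0) (nat_lit 19552716992) (nat_lit 684) (nat_lit 2165787015) (nat_lit 76) (nat_lit 32301159217)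 (nat_lit 191) (nat_lit 5) (nat_lit 200) (nat_lit 5) (nat_lit 192) (nat_lit 5) (nat_lit 399) (nat_lit 374) (nat_lit 127)))) (XT.nd (nat_lit 156) (nat_lit 456) (nat_lit 0) (XT.nd (nat_lit 78) (nat_lit 532) (nat_lit 0) (XT.lf (nat_lit 0) (nat_lit 25724744057) (nat_lit 608) (nat_lit 28414209674) (nat_lit 76) (nat_lit 804209791) (nat_lit 184) (nat_lit 5) (nat_lit 192) (nat_lit 5) (nat_lit 185) (nat_lit 5) (nat_lit 400) (nat_lit 374) (nat_lit 126)) (XT.lf (nat_lit 0) (nat_lit 19306566) (nat_lit 532) (nat_lit 32298949379) (nat_lit 608) (nat_lit 23569023717) (nat_lit 177) (nat_lit 5) (nat_lit 184) (nat_lit 5) (nat_lit 185) (nat_lit 5) (nat_lit 401) (nat_lit 374) (nat_lit 125))) (XT.nd (nat_lit 78) (nat_lit 456) (nat_lit 0) (XT.lf (nat_lit 0) (nat_lit 29887262257) (nat_lit 532) (nat_lit 9508274464) (nat_lit 608) (nat_lit 17455604197) (nat_lit 177) (nat_lit 5) (nat_lit 184) (nat_lit 5) (nat_lit 185) (nat_lit 5) (nat_lit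 402) (nat_lit 374) (nat_lit 124)) (XT.lf (nat_lit 0) (nat_lit 2725239455) (nat_lit 456) (nat_lit 44119407238) (nat_lit 532) (nat_lit 10994486520) (nat_lit 171) (nat_lit 5) (nat_lit 177) (nat_lit 5) (nat_lit 178) (nat_lit 5) (nat_lit 403) (nat_lit 374) (nat_lit 123))))) (XT.nd (nat_lit 234) (nat_lit 912) (nat_lit 0) (XT.nd (nat_lit 78) (nat_lit 532) (nat_lit 0) (XT.lf (nat_lit 0) (nat_lit 33760731847) (nat_lit 456) (nat_lit 21121079508) (nat_lit 532) (nat_lit 3964016986) (nat_lit 171) (nat_lit 5) (nat_lit 177) (nat_lit 5) (nat_lit 178) (nat_lit 5) (nat_lit 404) (nat_lit 374) (nat_lit 122)) (XT.nd (nat_lit 78) (nat_lit 0) (nat_lit 0) (XT.lf (nat_lit 0) (nat_lit 3295045062) (nat_lit 532) (nat_lit 53977924170) (nat_lit 76) (nat_lit 2606361498) (nat_lit 164) (nat_lit 5) (nat_lit 171) (nat_lit 5) (nat_lit 165) (nat_lit 5) (nat_lit 405) (nat_lit 374) (nat_lit 121)) (XT.lf (nat_lit 0) (nat_lit 11156257852) (nat_lit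 532) (nat_lit 22856411901) (nat_lit 76) (nat_lit 26916069920) (nat_lit 164) (nat_lit 5) (nat_lit 171) (nat_lit 5) (nat_lit 165) (nat_lit 5) (nat_lit 406) (nat_lit 374) (nat_lit 120)))) (XT.nd (nat_lit 156) (nat_lit 456) (nat_lit 0) (XT.nd (nat_lit 78) (nat_lit 0) (nat_lit 0) (XT.lf (nat_lit 0) (nat_lit 9380806538) (nat_lit 456) (nat_lit 9961814138) (nat_lit 532) (nat_lit 42664331251) (nat_lit 158) (nat_lit 5) (nat_lit 164) (nat_lit 5) (nat_lit 165) (nat_lit 5) (nat_lit 407) (nat_lit 374) (nat_lit 119)) (XT.lf (nat_lit 0) (nat_lit 28149186644) (nat_lit 532) (nat_lit 20202571507) (nat_lit 76) (nat_lit 14754514467) (nat_lit 158) (nat_lit 5) (nat_lit 165) (nat_lit 5) (nat_lit 159) (nat_lit 5) (nat_lit 408) (nat_lit 374) (nat_lit 118))) (XT.nd (nat_lit 78) (nat_lit 0) (nat_lit 0) (XT.lf (nat_lit 0) (nat_lit 13354698123) (nat_lit 456) (nat_lit 24091435348) (nat_lit 532) (nat_lit 26785654366) (nat_lit 152) (nat_lit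 5) (nat_lit 158) (nat_lit 5) (nat_lit 159) (nat_lit 5) (nat_lit 409) (nat_lit 374) (nat_lit 117)) (XT.lf (nat_lit 0) (nat_lit 47235826125) (nat_lit 532) (nat_lit 17063760424) (nat_lit 76) (nat_lit 1085067254) (nat_lit 152) (nat_lit 5) (nat_lit 159) (nat_lit 5) (nat_lit 153) (nat_lit 5) (nat_lit 410) (nat_lit 374) (nat_lit 116))))))))
noncomputable def xc243 : XT := (XT.nd (nat_lit 45396) (nat_lit 0) (nat_lit 760) (XT.nd (nat_lit 44304) (nat_lit 0) (nat_lit 7904) (XT.nd (nat_lit 468) (nat_lit 1140) (nat_lit 0) (XT.nd (nat_lit 234) (nat_lit 380) (nat_lit 0) (XT.nd (nat_lit 78) (nat_lit 532) (nat_lit 0) (XT.lf (nat_lit 0) (nat_lit 17873248628) (nat_lit 380) (nat_lit 39855513735) (nat_lit 456) (nat_lit 8831057202) (nat_lit 147) (nat_lit 5) (nat_lit 152) (nat_lit 5) (nat_lit 153) (nat_lit 5) (nat_lit 411) (nat_lit 374) (nat_lit 115)) (XT.nd (nat_lit 78) (nat_lit 456) (nat_lit 0) (XT.lf (nat_lit 0) (nat_lit 924531551)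 (nat_lit 456) (nat_lit 13566953305) (nat_lit 76) (nat_lit 53273337731) (nat_lit 146) (nat_lit 5) (nat_lit 152) (nat_lit 5) (nat_lit 147) (nat_lit 5) (nat_lit 412) (nat_lit 374) (nat_lit 114)) (XT.lf (nat_lit 0) (nat_lit 11130177161) (nat_lit 532) (nat_lit 46145604669) (nat_lit 76) (nat_lit 11717524608) (nat_lit 140) (nat_lit 5) (nat_lit 147) (nat_lit 5) (nat_lit 141) (nat_lit 5) (nat_lit 413) (nat_lit 374) (nat_lit 113)))) (XT.nd (nat_lit 78) (nat_lit 380) (nat_lit 0) (XT.lf (nat_lit 0) (nat_lit 21923083035) (nat_lit 532) (nat_lit 9767417922) (nat_lit 76) (nat_lit 38559711477) (nat_lit 140) (nat_lit 5) (nat_lit 147) (nat_lit 5) (nat_lit 141) (nat_lit 5) (nat_lit 414) (nat_lit 374) (nat_lit 112)) (XT.nd (nat_lit 78) (nat_lit 0) (nat_lit 0) (XT.lf (nat_lit 0) (nat_lit 28252497795) (nat_lit 380) (nat_lit 5058135075) (nat_lit 456) (nat_lit 38226067381) (nat_lit 135) (nat_lit 5) (nat_lit 140) (nat_lit 5) (nat_lit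 141) (nat_lit 5) (nat_lit 415) (nat_lit 374) (nat_lit 111)) (XT.lf (nat_lit 0) (nat_lit 45353769228) (nat_lit 456) (nat_lit 5462566997) (nat_lit 76) (nat_lit 22036028013) (nat_lit 135) (nat_lit 5) (nat_lit 141) (nat_lit 5) (nat_lit 136) (nat_lit 5) (nat_lit 416) (nat_lit 374) (nat_lit 110))))) (XT.nd (nat_lit 234) (nat_lit 380) (nat_lit 0) (XT.nd (nat_lit 78) (nat_lit 380) (nat_lit 0) (XT.lf (nat_lit 0) (nat_lit 34108304832) (nat_lit 380) (nat_lit 24027152855) (nat_lit 456) (nat_lit 16060723042) (nat_lit 130) (nat_lit 5) (nat_lit 135) (nat_lit 5) (nat_lit 136) (nat_lit 5) (nat_lit 417) (nat_lit 374) (nat_lit 109)) (XT.nd (nat_lit 78) (nat_lit 380) (nat_lit 0) (XT.lf (nat_lit 0) (nat_lit 71389896917) (nat_lit 456) (nat_lit 636116463) (nat_lit 76) (nat_lit 3551619648) (nat_lit 130) (nat_lit 5) (nat_lit 136) (nat_lit 5) (nat_lit 131) (nat_lit 5) (nat_lit 418) (nat_lit 374) (nat_lit 108)) (XT.lf (nat_lit 0)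 (nat_lit 8517768409) (nat_lit 380) (nat_lit 36513503340) (nat_lit 76) (nat_lit 31947941105) (nat_lit 125) (nat_lit 5) (nat_lit 130) (nat_lit 5) (nat_lit 126) (nat_lit 5) (nat_lit 419) (nat_lit 374) (nat_lit 107)))) (XT.nd (nat_lit 43446) (nat_lit 0) (nat_lit 7828) (XT.nd (nat_lit 43368) (nat_lit 0) (nat_lit 7828) (XT.lf (nat_lit 0) (nat_lit 4435105508) (nat_lit 380) (nat_lit 17133624261) (nat_lit 456) (nat_lit 56851412880) (nat_lit 120) (nat_lit 5) (nat_lit 125) (nat_lit 5) (nat_lit 126) (nat_lit 5) (nat_lit 420) (nat_lit 374) (nat_lit 106)) (XT.lf (nat_lit 0) (nat_lit 114696218) (nat_lit 1292) (nat_lit 9303664830) (nat_lit 1292) (nat_lit 9303664830) (nat_lit 223) (nat_lit 3) (nat_lit 240) (nat_lit 3) (nat_lit 240) (nat_lit 5) (nat_lit 375) (nat_lit 375) (nat_lit 150))) (XT.nd (nat_lit 78) (nat_lit 0) (nat_lit 76) (XT.lf (nat_lit 0) (nat_lit 278583155) (nat_lit 1292) (nat_lit 884423694) (nat_lit 1292) (nat_lit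 36841304314) (nat_lit 223) (nat_lit 3) (nat_lit 240) (nat_lit 3) (nat_lit 240) (nat_lit 5) (nat_lit 376) (nat_lit 375) (nat_lit 149)) (XT.lf (nat_lit 0) (nat_lit 663252938) (nat_lit 1216) (nat_lit 21026895031) (nat_lit 1292) (nat_lit 16881211408) (nat_lit 224) (nat_lit 5) (nat_lit 240) (nat_lit 5) (nat_lit 241) (nat_lit 5) (nat_lit 377) (nat_lit 375) (nat_lit 148)))))) (XT.nd (nat_lit 546) (nat_lit 0) (nat_lit 304) (XT.nd (nat_lit 234) (nat_lit 0) (nat_lit 152) (XT.nd (nat_lit 78) (nat_lit 0) (nat_lit 76) (XT.lf (nat_lit 0) (nat_lit 1078262852) (nat_lit 1216) (nat_lit 2623378026) (nat_lit 1292) (nat_lit 35453215251) (nat_lit 224) (nat_lit 5) (nat_lit 240) (nat_lit 5) (nat_lit 241) (nat_lit 5) (nat_lit 378) (nat_lit 375) (nat_lit 147)) (XT.nd (nat_lit 78) (nat_lit 0) (nat_lit 0) (XT.lf (nat_lit 0) (nat_lit 1808264072) (nat_lit 1216) (nat_lit 23238894707) (nat_lit 1292) (nat_lit 14699623839) (nat_lit 225)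 (nat_lit 5) (nat_lit 241) (nat_lit 5) (nat_lit 242) (nat_lit 5) (nat_lit 379) (nat_lit 375) (nat_lit 146)) (XT.lf (nat_lit 0) (nat_lit 2621931629) (nat_lit 1216) (nat_lit 4126707859) (nat_lit 1292) (nat_lit 33605975454) (nat_lit 225) (nat_lit 5) (nat_lit 241) (nat_lit 5) (nat_lit 242) (nat_lit 5) (nat_lit 380) (nat_lit 375) (nat_lit 145)))) (XT.nd (nat_lit 156) (nat_lit 0) (nat_lit 76) (XT.nd (nat_lit 78) (nat_lit 0) (nat_lit 0) (XT.lf (nat_lit 0) (nat_lit 3728765873) (nat_lit 1216) (nat_lit 25226458838) (nat_lit 1292) (nat_lit 12017395828) (nat_lit 226) (nat_lit 5) (nat_lit 242) (nat_lit 5) (nat_lit 243) (nat_lit 5) (nat_lit 381) (nat_lit 375) (nat_lit 144)) (XT.lf (nat_lit 0) (nat_lit 4976161283) (nat_lit 1216) (nat_lit 5376343090) (nat_lit 1292) (nat_lit 31253442217) (nat_lit 226) (nat_lit 5) (nat_lit 242) (nat_lit 5) (nat_lit 243) (nat_lit 5) (nat_lit 382) (nat_lit 375) (nat_lit 143))) (XT.nd (nat_lit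 78) (nat_lit 0) (nat_lit 0) (XT.lf (nat_lit 0) (nat_lit 6493344125) (nat_lit 1216) (nat_lit 26971837796) (nat_lit 1292) (nat_lit 8786120480) (nat_lit 227) (nat_lit 5) (nat_lit 243) (nat_lit 5) (nat_lit 244) (nat_lit 5) (nat_lit 383) (nat_lit 375) (nat_lit 142)) (XT.lf (nat_lit 0) (nat_lit 8211908480) (nat_lit 1216) (nat_lit 6353289201) (nat_lit 1292) (nat_lit 28346146140) (nat_lit 227) (nat_lit 5) (nat_lit 243) (nat_lit 5) (nat_lit 244) (nat_lit 5) (nat_lit 384) (nat_lit 375) (nat_lit 141))))) (XT.nd (nat_lit 234) (nat_lit 0) (nat_lit 76) (XT.nd (nat_lit 78) (nat_lit 0) (nat_lit 0) (XT.lf (nat_lit 0) (nat_lit 10175088126) (nat_lit 1216) (nat_lit 28456395227) (nat_lit 1292) (nat_lit 4953912269) (nat_lit 228) (nat_lit 5) (nat_lit 244) (nat_lit 5) (nat_lit 245) (nat_lit 5) (nat_lit 385) (nat_lit 375) (nat_lit 140)) (XT.nd (nat_lit 78) (nat_lit 0) (nat_lit 76) (XT.lf (nat_lit 0) (nat_lit 12404780397) (nat_lit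 1216) (nat_lit 7037619353) (nat_lit 1292) (nat_lit 24831041573) (nat_lit 228) (nat_lit 5) (nat_lit 244) (nat_lit 5) (nat_lit 245) (nat_lit 5) (nat_lit 386) (nat_lit 375) (nat_lit 139)) (XT.lf (nat_lit 0) (nat_lit 14851862009) (nat_lit 1216) (nat_lit 29660604875) (nat_lit 1292) (nat_lit 465147395) (nat_lit 229) (nat_lit 5) (nat_lit 245) (nat_lit 5) (nat_lit 246) (nat_lit 5) (nat_lit 387) (nat_lit 375) (nat_lit 138)))) (XT.nd (nat_lit 156) (nat_lit 0) (nat_lit 76) (XT.nd (nat_lit 78) (nat_lit 0) (nat_lit 0) (XT.lf (nat_lit 0) (nat_lit 17635314357) (nat_lit 1216) (nat_lit 7408470369) (nat_lit 1292) (nat_lit 20651239760) (nat_lit 229) (nat_lit 5) (nat_lit 245) (nat_lit 5) (nat_lit 246) (nat_lit 5) (nat_lit 388) (nat_lit 375) (nat_lit 137)) (XT.lf (nat_lit 76) (nat_lit 15818913488) (nat_lit 0) (nat_lit 4834145530) (nat_lit 1292) (nat_lit 25776375111) (nat_lit 230) (nat_lit 5) (nat_lit 229) (nat_lit 5) (nat_lit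 246) (nat_lit 5) (nat_lit 389) (nat_lit 375) (nat_lit 136))) (XT.nd (nat_lit 78) (nat_lit 0) (nat_lit 0) (XT.lf (nat_lit 0) (nat_lit 23989272104) (nat_lit 1216) (nat_lit 7444043308) (nat_lit 1292) (nat_lit 15745723336) (nat_lit 230) (nat_lit 5) (nat_lit 246) (nat_lit 5) (nat_lit 247) (nat_lit 5) (nat_lit 390) (nat_lit 375) (nat_lit 135)) (XT.lf (nat_lit 76) (nat_lit 16694332622) (nat_lit 0) (nat_lit 10938371791) (nat_lit 1292) (nat_lit 20312213851) (nat_lit 231) (nat_lit 5) (nat_lit 230) (nat_lit 5) (nat_lit 247) (nat_lit 5) (nat_lit 391) (nat_lit 375) (nat_lit 134))))))) (XT.nd (nat_lit 1014) (nat_lit 3116) (nat_lit 0) (XT.nd (nat_lit 468) (nat_lit 2128) (nat_lit 0) (XT.nd (nat_lit 234) (nat_lit 1216) (nat_lit 0) (XT.nd (nat_lit 78) (nat_lit 1216) (nat_lit 0) (XT.lf (nat_lit 0) (nat_lit 31557949422) (nat_lit 1216) (nat_lit 7121609444) (nat_lit 76) (nat_lit 10049040730) (nat_lit 231) (nat_lit 5) (nat_lit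 247) (nat_lit 5) (nat_lit 232) (nat_lit 5) (nat_lit 392) (nat_lit 375) (nat_lit 133)) (XT.nd (nat_lit 78) (nat_lit 0) (nat_lit 0) (XT.lf (nat_lit 0) (nat_lit 17972648740) (nat_lit 1216) (nat_lit 17908223495) (nat_lit 1292) (nat_lit 13646522223) (nat_lit 215) (nat_lit 5) (nat_lit 231) (nat_lit 5) (nat_lit 232) (nat_lit 5) (nat_lit 393) (nat_lit 375) (nat_lit 132)) (XT.lf (nat_lit 0) (nat_lit 40438501790) (nat_lit 1292) (nat_lit 6417522557) (nat_lit 76) (nat_lit 3490978928) (nat_lit 215) (nat_lit 5) (nat_lit 232) (nat_lit 5) (nat_lit 216) (nat_lit 5) (nat_lit 394) (nat_lit 375) (nat_lit 131)))) (XT.nd (nat_lit 78) (nat_lit 608) (nat_lit 0) (XT.lf (nat_lit 0) (nat_lit 19679533047) (nat_lit 608) (nat_lit 25818721395) (nat_lit 684) (nat_lit 5681984751) (nat_lit 207) (nat_lit 5) (nat_lit 215) (nat_lit 5) (nat_lit 216) (nat_lit 5) (nat_lit 395) (nat_lit 375) (nat_lit 130)) (XT.nd (nat_lit 78) (nat_lit 608) (nat_lit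 0) (XT.lf (nat_lit 0) (nat_lit 46690069300) (nat_lit 608) (nat_lit 4083470315) (nat_lit 684) (nat_lit 1263021017) (nat_lit 207) (nat_lit 5) (nat_lit 215) (nat_lit 5) (nat_lit 216) (nat_lit 5) (nat_lit 396) (nat_lit 375) (nat_lit 129)) (XT.lf (nat_lit 0) (nat_lit 3613020942) (nat_lit 608) (nat_lit 31100824697) (nat_lit 76) (nat_lit 18192117945) (nat_lit 199) (nat_lit 5) (nat_lit 207) (nat_lit 5) (nat_lit 200) (nat_lit 5) (nat_lit 397) (nat_lit 375) (nat_lit 128))))) (XT.nd (nat_lit 234) (nat_lit 1520) (nat_lit 0) (XT.nd (nat_lit 78) (nat_lit 608) (nat_lit 0) (XT.lf (nat_lit 0) (nat_lit 8703890080) (nat_lit 608) (nat_lit 3973382128) (nat_lit 76) (nat_lit 41120983909) (nat_lit 199) (nat_lit 5) (nat_lit 207) (nat_lit 5) (nat_lit 200) (nat_lit 5) (nat_lit 398) (nat_lit 375) (nat_lit 127)) (XT.nd (nat_lit 78) (nat_lit 0) (nat_lit 0) (XT.lf (nat_lit 0) (nat_lit 14280111042) (nat_lit 684) (nat_lit 30365045069)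 (nat_lit 76) (nat_lit 10062183113) (nat_lit 191) (nat_lit 5) (nat_lit 200) (nat_lit 5) (nat_lit 192) (nat_lit 5) (nat_lit 399) (nat_lit 375) (nat_lit 126)) (XT.lf (nat_lit 0) (nat_lit 20188683771) (nat_lit 684) (nat_lit 2180504952) (nat_lit 76) (nat_lit 33269554702) (nat_lit 191) (nat_lit 5) (nat_lit 200) (nat_lit 5) (nat_lit 192) (nat_lit 5) (nat_lit 400) (nat_lit 375) (nat_lit 125)))) (XT.nd (nat_lit 156) (nat_lit 456) (nat_lit 0) (XT.nd (nat_lit 78) (nat_lit 532) (nat_lit 0) (XT.lf (nat_lit 0) (nat_lit 26544924453) (nat_lit 608) (nat_lit 29215405779) (nat_lit 76) (nat_lit 829647735) (nat_lit 184) (nat_lit 5) (nat_lit 192) (nat_lit 5) (nat_lit 185) (nat_lit 5) (nat_lit 401) (nat_lit 375) (nat_lit 124)) (XT.lf (nat_lit 0) (nat_lit 70613691) (nat_lit 532) (nat_lit 33264704816) (nat_lit 608) (nat_lit 24227127575) (nat_lit 177) (nat_lit 5) (nat_lit 184) (nat_lit 5) (nat_lit 185) (nat_lit 5) (nat_lit 402)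 (nat_lit 375) (nat_lit 123))) (XT.nd (nat_lit 78) (nat_lit 456) (nat_lit 0) (XT.lf (nat_lit 0) (nat_lit 30833130541) (nat_lit 532) (nat_lit 9790403238) (nat_lit 608) (nat_lit 17931731688) (nat_lit 177) (nat_lit 5) (nat_lit 184) (nat_lit 5) (nat_lit 185) (nat_lit 5) (nat_lit 403) (nat_lit 375) (nat_lit 122)) (XT.lf (nat_lit 0) (nat_lit 2857130374) (nat_lit 456) (nat_lit 45438154085) (nat_lit 532) (nat_lit 11277638800) (nat_lit 171) (nat_lit 5) (nat_lit 177) (nat_lit 5) (nat_lit 178) (nat_lit 5) (nat_lit 404) (nat_lit 375) (nat_lit 121)))))) (XT.nd (nat_lit 546) (nat_lit 1672) (nat_lit 0) (XT.nd (nat_lit 234) (nat_lit 912) (nat_lit 0) (XT.nd (nat_lit 78) (nat_lit 532) (nat_lit 0) (XT.lf (nat_lit 0) (nat_lit 34822227332) (nat_lit 456) (nat_lit 21750017359) (nat_lit 532) (nat_lit 4037614859) (nat_lit 171) (nat_lit 5) (nat_lit 177) (nat_lit 5) (nat_lit 178) (nat_lit 5) (nat_lit 405) (nat_lit 375) (nat_lit 120))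 (XT.nd (nat_lit 78) (nat_lit 0) (nat_lit 0) (XT.lf (nat_lit 0) (nat_lit 3437564932) (nat_lit 532) (nat_lit 55546887806) (nat_lit 76) (nat_lit 2689924979) (nat_lit 164) (nat_lit 5) (nat_lit 171) (nat_lit 5) (nat_lit 165) (nat_lit 5) (nat_lit 406) (nat_lit 375) (nat_lit 119)) (XT.lf (nat_lit 0) (nat_lit 11533342208) (nat_lit 532) (nat_lit 23493197376) (nat_lit 76) (nat_lit 27728768170) (nat_lit 164) (nat_lit 5) (nat_lit 171) (nat_lit 5) (nat_lit 165) (nat_lit 5) (nat_lit 407) (nat_lit 375) (nat_lit 118)))) (XT.nd (nat_lit 156) (nat_lit 456) (nat_lit 0) (XT.nd (nat_lit 78) (nat_lit 0) (nat_lit 0) (XT.lf (nat_lit 0) (nat_lit 9710658137) (nat_lit 456) (nat_lit 10253868440) (nat_lit 532) (nat_lit 43901363524) (nat_lit 158) (nat_lit 5) (nat_lit 164) (nat_lit 5) (nat_lit 165) (nat_lit 5) (nat_lit 408) (nat_lit 375) (nat_lit 117)) (XT.lf (nat_lit 0) (nat_lit 29034140542) (nat_lit 532) (nat_lit 20760461837) (nat_lit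 76) (nat_lit 15203623131) (nat_lit 158) (nat_lit 5) (nat_lit 165) (nat_lit 5) (nat_lit 159) (nat_lit 5) (nat_lit 409) (nat_lit 375) (nat_lit 116))) (XT.nd (nat_lit 78) (nat_lit 0) (nat_lit 0) (XT.lf (nat_lit 0) (nat_lit 13803053462) (nat_lit 456) (nat_lit 24806221992) (nat_lit 532) (nat_lit 27548252951) (nat_lit 152) (nat_lit 5) (nat_lit 158) (nat_lit 5) (nat_lit 159) (nat_lit 5) (nat_lit 410) (nat_lit 375) (nat_lit 115)) (XT.lf (nat_lit 0) (nat_lit 48691575144) (nat_lit 532) (nat_lit 17528245101) (nat_lit 76) (nat_lit 1125193211) (nat_lit 152) (nat_lit 5) (nat_lit 159) (nat_lit 5) (nat_lit 153) (nat_lit 5) (nat_lit 411) (nat_lit 375) (nat_lit 114))))) (XT.nd (nat_lit 234) (nat_lit 760) (nat_lit 0) (XT.nd (nat_lit 78) (nat_lit 532) (nat_lit 0) (XT.lf (nat_lit 0) (nat_lit 18456409241) (nat_lit 380) (nat_lit 41042215231) (nat_lit 456) (nat_lit 9056830542) (nat_lit 147) (nat_lit 5) (nat_lit 152) (nat_lit 5)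 (nat_lit 153) (nat_lit 5) (nat_lit 412) (nat_lit 375) (nat_lit 113)) (XT.nd (nat_lit 78) (nat_lit 456) (nat_lit 0) (XT.lf (nat_lit 0) (nat_lit 989543473) (nat_lit 456) (nat_lit 13927606683) (nat_lit 76) (nat_lit 54879480768) (nat_lit 146) (nat_lit 5) (nat_lit 152) (nat_lit 5) (nat_lit 147) (nat_lit 5) (nat_lit 413) (nat_lit 375) (nat_lit 112)) (XT.lf (nat_lit 0) (nat_lit 11500803072) (nat_lit 532) (nat_lit 47483044673) (nat_lit 76) (nat_lit 12078138733) (nat_lit 140) (nat_lit 5) (nat_lit 147) (nat_lit 5) (nat_lit 141) (nat_lit 5) (nat_lit 414) (nat_lit 375) (nat_lit 111)))) (XT.nd (nat_lit 156) (nat_lit 380) (nat_lit 0) (XT.nd (nat_lit 78) (nat_lit 380) (nat_lit 0) (XT.lf (nat_lit 0) (nat_lit 22616426590) (nat_lit 532) (nat_lit 10014879162) (nat_lit 76) (nat_lit 39725326499) (nat_lit 140) (nat_lit 5) (nat_lit 147) (nat_lit 5) (nat_lit 141) (nat_lit 5) (nat_lit 415) (nat_lit 375) (nat_lit 110)) (XT.lf (nat_lit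 0) (nat_lit 29145187347) (nat_lit 380) (nat_lit 5199810863) (nat_lit 456) (nat_lit 39336735131) (nat_lit 135) (nat_lit 5) (nat_lit 140) (nat_lit 5) (nat_lit 141) (nat_lit 5) (nat_lit 416) (nat_lit 375) (nat_lit 109))) (XT.nd (nat_lit 78) (nat_lit 380) (nat_lit 0) (XT.lf (nat_lit 0) (nat_lit 46748501854) (nat_lit 456) (nat_lit 5581700557) (nat_lit 76) (nat_lit 22706693121) (nat_lit 135) (nat_lit 5) (nat_lit 141) (nat_lit 5) (nat_lit 136) (nat_lit 5) (nat_lit 417) (nat_lit 375) (nat_lit 108)) (XT.lf (nat_lit 0) (nat_lit 35175858766) (nat_lit 380) (nat_lit 24737214312) (nat_lit 456) (nat_lit 16507970944) (nat_lit 130) (nat_lit 5) (nat_lit 135) (nat_lit 5) (nat_lit 136) (nat_lit 5) (nat_lit 418) (nat_lit 375) (nat_lit 107))))))))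
noncomputable def xc244 : XT := (XT.nd (nat_lit 45396) (nat_lit 0) (nat_lit 380) (XT.nd (nat_lit 44382) (nat_lit 0) (nat_lit 5624) (XT.nd (nat_lit 43836) (nat_lit 0) (nat_lit 7600) (XT.nd (nat_lit 43602) (nat_lit 0) (nat_lit 7448) (XT.nd (nat_lit 78) (nat_lit 380) (nat_lit 0) (XT.lf (nat_lit 0) (nat_lit 73564268607) (nat_lit 456) (nat_lit 611293596) (nat_lit 76) (nat_lit 3668404447) (nat_lit 130) (nat_lit 5) (nat_lit 136) (nat_lit 5) (nat_lit 131) (nat_lit 5) (nat_lit 419) (nat_lit 375) (nat_lit 106)) (XT.nd (nat_lit 43446) (nat_lit 0) (nat_lit 7448) (XT.lf (nat_lit 0) (nat_lit 8805775094) (nat_lit 380) (nat_lit 37564771987) (nat_lit 76) (nat_lit 32917053692) (nat_lit 125) (nat_lit 5) (nat_lit 130) (nat_lit 5) (nat_lit 126) (nat_lit 5) (nat_lit 420) (nat_lit 375) (nat_lit 105)) (XT.lf (nat_lit 0) (nat_lit 163447161) (nat_lit 1292) (nat_lit 9559425797) (nat_lit 1292) (nat_lit 9559425797) (nat_lit 223) (nat_lit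 3) (nat_lit 240) (nat_lit 3) (nat_lit 240) (nat_lit 5) (nat_lit 376) (nat_lit 376) (nat_lit 148)))) (XT.nd (nat_lit 78) (nat_lit 0) (nat_lit 76) (XT.lf (nat_lit 0) (nat_lit 374921342) (nat_lit 1292) (nat_lit 865618582) (nat_lit 1292) (nat_lit 37901205622) (nat_lit 223) (nat_lit 3) (nat_lit 240) (nat_lit 3) (nat_lit 240) (nat_lit 5) (nat_lit 377) (nat_lit 376) (nat_lit 147)) (XT.nd (nat_lit 78) (nat_lit 0) (nat_lit 0) (XT.lf (nat_lit 0) (nat_lit 768606518) (nat_lit 1216) (nat_lit 21609785445) (nat_lit 1292) (nat_lit 17347490601) (nat_lit 224) (nat_lit 5) (nat_lit 240) (nat_lit 5) (nat_lit 241) (nat_lit 5) (nat_lit 378) (nat_lit 376) (nat_lit 146)) (XT.lf (nat_lit 0) (nat_lit 1193577721) (nat_lit 1216) (nat_lit 2655558555) (nat_lit 1292) (nat_lit 36477824185) (nat_lit 224) (nat_lit 5) (nat_lit 240) (nat_lit 5) (nat_lit 241) (nat_lit 5) (nat_lit 379) (nat_lit 376) (nat_lit 145))))) (XT.nd (nat_lit 234) (nat_lit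 0) (nat_lit 76) (XT.nd (nat_lit 78) (nat_lit 0) (nat_lit 0) (XT.lf (nat_lit 0) (nat_lit 1943169511) (nat_lit 1216) (nat_lit 23887180450) (nat_lit 1292) (nat_lit 15106365590) (nat_lit 225) (nat_lit 5) (nat_lit 241) (nat_lit 5) (nat_lit 242) (nat_lit 5) (nat_lit 380) (nat_lit 376) (nat_lit 144)) (XT.nd (nat_lit 78) (nat_lit 0) (nat_lit 76) (XT.lf (nat_lit 0) (nat_lit 2778897846) (nat_lit 1216) (nat_lit 4203051718) (nat_lit 1292) (nat_lit 34580905239) (nat_lit 225) (nat_lit 5) (nat_lit 241) (nat_lit 5) (nat_lit 242) (nat_lit 5) (nat_lit 381) (nat_lit 376) (nat_lit 143)) (XT.lf (nat_lit 0) (nat_lit 3916824564) (nat_lit 1216) (nat_lit 25933634770) (nat_lit 1292) (nat_lit 12349006048) (nat_lit 226) (nat_lit 5) (nat_lit 242) (nat_lit 5) (nat_lit 243) (nat_lit 5) (nat_lit 382) (nat_lit 376) (nat_lit 142)))) (XT.nd (nat_lit 156) (nat_lit 0) (nat_lit 76) (XT.nd (nat_lit 78) (nat_lit 0) (nat_lit 76) (XT.lf (nat_lit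 0) (nat_lit 5199422543) (nat_lit 1216) (nat_lit 5489460730) (nat_lit 1292) (nat_lit 32162975915) (nat_lit 226) (nat_lit 5) (nat_lit 242) (nat_lit 5) (nat_lit 243) (nat_lit 5) (nat_lit 383) (nat_lit 376) (nat_lit 141)) (XT.lf (nat_lit 0) (nat_lit 6760188465) (nat_lit 1216) (nat_lit 27730842719) (nat_lit 1292) (nat_lit 9025603816) (nat_lit 227) (nat_lit 5) (nat_lit 243) (nat_lit 5) (nat_lit 244) (nat_lit 5) (nat_lit 384) (nat_lit 376) (nat_lit 140))) (XT.nd (nat_lit 78) (nat_lit 0) (nat_lit 76) (XT.lf (nat_lit 0) (nat_lit 8528211381) (nat_lit 1216) (nat_lit 6495198351) (nat_lit 1292) (nat_lit 29173132195) (nat_lit 227) (nat_lit 5) (nat_lit 243) (nat_lit 5) (nat_lit 244) (nat_lit 5) (nat_lit 385) (nat_lit 376) (nat_lit 139)) (XT.lf (nat_lit 0) (nat_lit 10548518823) (nat_lit 1216) (nat_lit 29259587404) (nat_lit 1292) (nat_lit 5082763361) (nat_lit 228) (nat_lit 5) (nat_lit 244) (nat_lit 5) (nat_lit 245) (nat_lit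 5) (nat_lit 386) (nat_lit 376) (nat_lit 138)))))) (XT.nd (nat_lit 468) (nat_lit 2204) (nat_lit 0) (XT.nd (nat_lit 234) (nat_lit 0) (nat_lit 76) (XT.nd (nat_lit 78) (nat_lit 0) (nat_lit 76) (XT.lf (nat_lit 0) (nat_lit 12843116094) (nat_lit 1216) (nat_lit 7199719119) (nat_lit 1292) (nat_lit 25556782262) (nat_lit 228) (nat_lit 5) (nat_lit 244) (nat_lit 5) (nat_lit 245) (nat_lit 5) (nat_lit 387) (nat_lit 376) (nat_lit 137)) (XT.nd (nat_lit 78) (nat_lit 0) (nat_lit 0) (XT.lf (nat_lit 0) (nat_lit 15361993338) (nat_lit 1216) (nat_lit 30499737273) (nat_lit 1292) (nat_lit 463234715) (nat_lit 229) (nat_lit 5) (nat_lit 245) (nat_lit 5) (nat_lit 246) (nat_lit 5) (nat_lit 388) (nat_lit 376) (nat_lit 136)) (XT.lf (nat_lit 0) (nat_lit 18227068418) (nat_lit 1216) (nat_lit 7581515016) (nat_lit 1292) (nat_lit 21255372001) (nat_lit 229) (nat_lit 5) (nat_lit 245) (nat_lit 5) (nat_lit 246) (nat_lit 5) (nat_lit 389) (nat_lit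 376) (nat_lit 135)))) (XT.nd (nat_lit 78) (nat_lit 0) (nat_lit 76) (XT.lf (nat_lit 76) (nat_lit 16342207912) (nat_lit 0) (nat_lit 4991779844) (nat_lit 1292) (nat_lit 26486451475) (nat_lit 230) (nat_lit 5) (nat_lit 229) (nat_lit 5) (nat_lit 246) (nat_lit 5) (nat_lit 390) (nat_lit 376) (nat_lit 134)) (XT.nd (nat_lit 78) (nat_lit 0) (nat_lit 0) (XT.lf (nat_lit 0) (nat_lit 24768383036) (nat_lit 1216) (nat_lit 7618115911) (nat_lit 1292) (nat_lit 16206091267) (nat_lit 230) (nat_lit 5) (nat_lit 246) (nat_lit 5) (nat_lit 247) (nat_lit 5) (nat_lit 391) (nat_lit 376) (nat_lit 133)) (XT.lf (nat_lit 76) (nat_lit 17243928466) (nat_lit 0) (nat_lit 11275927564) (nat_lit 1292) (nat_lit 20861629023) (nat_lit 231) (nat_lit 5) (nat_lit 230) (nat_lit 5) (nat_lit 247) (nat_lit 5) (nat_lit 392) (nat_lit 376) (nat_lit 132))))) (XT.nd (nat_lit 234) (nat_lit 1216) (nat_lit 0) (XT.nd (nat_lit 78) (nat_lit 1216) (nat_lit 0) (XT.lf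 (nat_lit 0) (nat_lit 32561076334) (nat_lit 1216) (nat_lit 7286095565) (nat_lit 76) (nat_lit 10341559427) (nat_lit 231) (nat_lit 5) (nat_lit 247) (nat_lit 5) (nat_lit 232) (nat_lit 5) (nat_lit 393) (nat_lit 376) (nat_lit 131)) (XT.nd (nat_lit 78) (nat_lit 0) (nat_lit 0) (XT.lf (nat_lit 0) (nat_lit 18560508382) (nat_lit 1216) (nat_lit 18452004011) (nat_lit 1292) (nat_lit 13999013881) (nat_lit 215) (nat_lit 5) (nat_lit 231) (nat_lit 5) (nat_lit 232) (nat_lit 5) (nat_lit 394) (nat_lit 376) (nat_lit 130)) (XT.lf (nat_lit 0) (nat_lit 41705201683) (nat_lit 1292) (nat_lit 6561084151) (nat_lit 76) (nat_lit 3589488575) (nat_lit 215) (nat_lit 5) (nat_lit 232) (nat_lit 5) (nat_lit 216) (nat_lit 5) (nat_lit 395) (nat_lit 376) (nat_lit 129)))) (XT.nd (nat_lit 156) (nat_lit 608) (nat_lit 0) (XT.nd (nat_lit 78) (nat_lit 0) (nat_lit 0) (XT.lf (nat_lit 0) (nat_lit 20318403080) (nat_lit 608) (nat_lit 26597250333) (nat_lit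 684) (nat_lit 5798387746) (nat_lit 207) (nat_lit 5) (nat_lit 215) (nat_lit 5) (nat_lit 216) (nat_lit 5) (nat_lit 396) (nat_lit 376) (nat_lit 128)) (XT.lf (nat_lit 0) (nat_lit 48137843265) (nat_lit 608) (nat_lit 4209826169) (nat_lit 684) (nat_lit 1248429562) (nat_lit 207) (nat_lit 5) (nat_lit 215) (nat_lit 5) (nat_lit 216) (nat_lit 5) (nat_lit 397) (nat_lit 376) (nat_lit 127))) (XT.nd (nat_lit 78) (nat_lit 0) (nat_lit 0) (XT.lf (nat_lit 0) (nat_lit 3771802283) (nat_lit 608) (nat_lit 31984627347) (nat_lit 76) (nat_lit 18735172158) (nat_lit 199) (nat_lit 5) (nat_lit 207) (nat_lit 5) (nat_lit 200) (nat_lit 5) (nat_lit 398) (nat_lit 376) (nat_lit 126)) (XT.lf (nat_lit 0) (nat_lit 9013929804) (nat_lit 608) (nat_lit 4044795154) (nat_lit 76) (nat_lit 42351983014) (nat_lit 199) (nat_lit 5) (nat_lit 207) (nat_lit 5) (nat_lit 200) (nat_lit 5) (nat_lit 399) (nat_lit 376) (nat_lit 125))))))) (XT.nd (nat_lit 1014) (nat_lit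 1672) (nat_lit 0) (XT.nd (nat_lit 468) (nat_lit 1444) (nat_lit 0) (XT.nd (nat_lit 234) (nat_lit 988) (nat_lit 0) (XT.nd (nat_lit 78) (nat_lit 532) (nat_lit 0) (XT.lf (nat_lit 0) (nat_lit 14756461236) (nat_lit 684) (nat_lit 31227204506) (nat_lit 76) (nat_lit 10363427936) (nat_lit 191) (nat_lit 5) (nat_lit 200) (nat_lit 5) (nat_lit 192) (nat_lit 5) (nat_lit 400) (nat_lit 376) (nat_lit 124)) (XT.nd (nat_lit 78) (nat_lit 532) (nat_lit 0) (XT.lf (nat_lit 0) (nat_lit 20840894636) (nat_lit 684) (nat_lit 2198549309) (nat_lit 76) (nat_lit 34267038750) (nat_lit 191) (nat_lit 5) (nat_lit 200) (nat_lit 5) (nat_lit 192) (nat_lit 5) (nat_lit 401) (nat_lit 376) (nat_lit 123)) (XT.lf (nat_lit 0) (nat_lit 27386929717) (nat_lit 608) (nat_lit 30043578589) (nat_lit 76) (nat_lit 855773524) (nat_lit 184) (nat_lit 5) (nat_lit 192) (nat_lit 5) (nat_lit 185) (nat_lit 5) (nat_lit 402) (nat_lit 376) (nat_lit 122)))) (XT.nd (nat_lit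 78) (nat_lit 456) (nat_lit 0) (XT.lf (nat_lit 0) (nat_lit 120548040) (nat_lit 532) (nat_lit 34259617359) (nat_lit 608) (nat_lit 24907785447) (nat_lit 177) (nat_lit 5) (nat_lit 184) (nat_lit 5) (nat_lit 185) (nat_lit 5) (nat_lit 403) (nat_lit 376) (nat_lit 121)) (XT.nd (nat_lit 78) (nat_lit 456) (nat_lit 0) (XT.lf (nat_lit 0) (nat_lit 31804547698) (nat_lit 532) (nat_lit 10081174945) (nat_lit 608) (nat_lit 18424872032) (nat_lit 177) (nat_lit 5) (nat_lit 184) (nat_lit 5) (nat_lit 185) (nat_lit 5) (nat_lit 404) (nat_lit 376) (nat_lit 120)) (XT.lf (nat_lit 0) (nat_lit 2990100138) (nat_lit 456) (nat_lit 46796740907) (nat_lit 532) (nat_lit 11571965405) (nat_lit 171) (nat_lit 5) (nat_lit 177) (nat_lit 5) (nat_lit 178) (nat_lit 5) (nat_lit 405) (nat_lit 376) (nat_lit 119))))) (XT.nd (nat_lit 234) (nat_lit 912) (nat_lit 0) (XT.nd (nat_lit 78) (nat_lit 532) (nat_lit 0) (XT.lf (nat_lit 0) (nat_lit 35912773621) (nat_lit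 456) (nat_lit 22398092831) (nat_lit 532) (nat_lit 4116022374) (nat_lit 171) (nat_lit 5) (nat_lit 177) (nat_lit 5) (nat_lit 178) (nat_lit 5) (nat_lit 406) (nat_lit 376) (nat_lit 118)) (XT.nd (nat_lit 78) (nat_lit 0) (nat_lit 0) (XT.lf (nat_lit 0) (nat_lit 3581853648) (nat_lit 532) (nat_lit 57165812030) (nat_lit 76) (nat_lit 2775686954) (nat_lit 164) (nat_lit 5) (nat_lit 171) (nat_lit 5) (nat_lit 165) (nat_lit 5) (nat_lit 407) (nat_lit 376) (nat_lit 117)) (XT.lf (nat_lit 0) (nat_lit 11919305355) (nat_lit 532) (nat_lit 24151893870) (nat_lit 76) (nat_lit 28565547938) (nat_lit 164) (nat_lit 5) (nat_lit 171) (nat_lit 5) (nat_lit 165) (nat_lit 5) (nat_lit 408) (nat_lit 376) (nat_lit 116)))) (XT.nd (nat_lit 156) (nat_lit 456) (nat_lit 0) (XT.nd (nat_lit 78) (nat_lit 0) (nat_lit 0) (XT.lf (nat_lit 0) (nat_lit 10047625354) (nat_lit 456) (nat_lit 10555074726) (nat_lit 532) (nat_lit 45177969267) (nat_lit 158) (nat_lit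 5) (nat_lit 164) (nat_lit 5) (nat_lit 165) (nat_lit 5) (nat_lit 409) (nat_lit 376) (nat_lit 115)) (XT.lf (nat_lit 0) (nat_lit 29943319438) (nat_lit 532) (nat_lit 21337854996) (nat_lit 76) (nat_lit 15665833466) (nat_lit 158) (nat_lit 5) (nat_lit 165) (nat_lit 5) (nat_lit 159) (nat_lit 5) (nat_lit 410) (nat_lit 376) (nat_lit 114))) (XT.nd (nat_lit 78) (nat_lit 0) (nat_lit 0) (XT.lf (nat_lit 0) (nat_lit 14262120460) (nat_lit 456) (nat_lit 25542908967) (nat_lit 532) (nat_lit 28336081399) (nat_lit 152) (nat_lit 5) (nat_lit 158) (nat_lit 5) (nat_lit 159) (nat_lit 5) (nat_lit 411) (nat_lit 376) (nat_lit 113)) (XT.lf (nat_lit 0) (nat_lit 50188776573) (nat_lit 532) (nat_lit 18009386886) (nat_lit 76) (nat_lit 1166088172) (nat_lit 152) (nat_lit 5) (nat_lit 159) (nat_lit 5) (nat_lit 153) (nat_lit 5) (nat_lit 412) (nat_lit 376) (nat_lit 112)))))) (XT.nd (nat_lit 44070) (nat_lit 0) (nat_lit 7068) (XT.nd (nat_lit 234)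 (nat_lit 760) (nat_lit 0) (XT.nd (nat_lit 78) (nat_lit 532) (nat_lit 0) (XT.lf (nat_lit 0) (nat_lit 19054368796) (nat_lit 380) (nat_lit 42265032338) (nat_lit 456) (nat_lit 9291624933) (nat_lit 147) (nat_lit 5) (nat_lit 152) (nat_lit 5) (nat_lit 153) (nat_lit 5) (nat_lit 413) (nat_lit 376) (nat_lit 111)) (XT.nd (nat_lit 78) (nat_lit 456) (nat_lit 0) (XT.lf (nat_lit 0) (nat_lit 1054365960) (nat_lit 456) (nat_lit 14301740641) (nat_lit 76) (nat_lit 56533352141) (nat_lit 146) (nat_lit 5) (nat_lit 152) (nat_lit 5) (nat_lit 147) (nat_lit 5) (nat_lit 414) (nat_lit 376) (nat_lit 110)) (XT.lf (nat_lit 0) (nat_lit 11880439848) (nat_lit 532) (nat_lit 48863301745) (nat_lit 76) (nat_lit 12449049572) (nat_lit 140) (nat_lit 5) (nat_lit 147) (nat_lit 5) (nat_lit 141) (nat_lit 5) (nat_lit 415) (nat_lit 376) (nat_lit 109)))) (XT.nd (nat_lit 156) (nat_lit 380) (nat_lit 0) (XT.nd (nat_lit 78) (nat_lit 380) (nat_lit 0) (XT.lf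 (nat_lit 0) (nat_lit 23328523935) (nat_lit 532) (nat_lit 10272379645) (nat_lit 76) (nat_lit 40925403455) (nat_lit 140) (nat_lit 5) (nat_lit 147) (nat_lit 5) (nat_lit 141) (nat_lit 5) (nat_lit 416) (nat_lit 376) (nat_lit 108)) (XT.lf (nat_lit 0) (nat_lit 30062067821) (nat_lit 380) (nat_lit 5346314884) (nat_lit 456) (nat_lit 40482796020) (nat_lit 135) (nat_lit 5) (nat_lit 140) (nat_lit 5) (nat_lit 141) (nat_lit 5) (nat_lit 417) (nat_lit 376) (nat_lit 107))) (XT.nd (nat_lit 78) (nat_lit 380) (nat_lit 0) (XT.lf (nat_lit 0) (nat_lit 48183117856) (nat_lit 456) (nat_lit 5706976581) (nat_lit 76) (nat_lit 23396928007) (nat_lit 135) (nat_lit 5) (nat_lit 141) (nat_lit 5) (nat_lit 136) (nat_lit 5) (nat_lit 418) (nat_lit 376) (nat_lit 106)) (XT.lf (nat_lit 0) (nat_lit 36272896042) (nat_lit 380) (nat_lit 25469194887) (nat_lit 456) (nat_lit 16970620960) (nat_lit 130) (nat_lit 5) (nat_lit 135) (nat_lit 5) (nat_lit 136)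 (nat_lit 5) (nat_lit 419) (nat_lit 376) (nat_lit 105))))) (XT.nd (nat_lit 234) (nat_lit 0) (nat_lit 76) (XT.nd (nat_lit 78) (nat_lit 0) (nat_lit 0) (XT.lf (nat_lit 0) (nat_lit 211059650) (nat_lit 1292) (nat_lit 9824199919) (nat_lit 1292) (nat_lit 9824199919) (nat_lit 223) (nat_lit 3) (nat_lit 240) (nat_lit 3) (nat_lit 240) (nat_lit 5) (nat_lit 377) (nat_lit 377) (nat_lit 146)) (XT.nd (nat_lit 78) (nat_lit 0) (nat_lit 76) (XT.lf (nat_lit 0) (nat_lit 469099222) (nat_lit 1292) (nat_lit 848851894) (nat_lit 1292) (nat_lit 38995506545) (nat_lit 223) (nat_lit 3) (nat_lit 240) (nat_lit 3) (nat_lit 240) (nat_lit 5) (nat_lit 378) (nat_lit 377) (nat_lit 145)) (XT.lf (nat_lit 0) (nat_lit 872215182) (nat_lit 1216) (nat_lit 22212913171) (nat_lit 1292) (nat_lit 17830063354) (nat_lit 224) (nat_lit 5) (nat_lit 240) (nat_lit 5) (nat_lit 241) (nat_lit 5) (nat_lit 379) (nat_lit 377) (nat_lit 144)))) (XT.nd (nat_lit 156) (nat_lit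 0) (nat_lit 76) (XT.nd (nat_lit 78) (nat_lit 0) (nat_lit 76) (XT.lf (nat_lit 0) (nat_lit 1307589391) (nat_lit 1216) (nat_lit 2691374984) (nat_lit 1292) (nat_lit 37535409429) (nat_lit 224) (nat_lit 5) (nat_lit 240) (nat_lit 5) (nat_lit 241) (nat_lit 5) (nat_lit 380) (nat_lit 377) (nat_lit 143)) (XT.lf (nat_lit 0) (nat_lit 2077492041) (nat_lit 1216) (nat_lit 24557720741) (nat_lit 1292) (nat_lit 15527275510) (nat_lit 225) (nat_lit 5) (nat_lit 241) (nat_lit 5) (nat_lit 242) (nat_lit 5) (nat_lit 381) (nat_lit 377) (nat_lit 142))) (XT.nd (nat_lit 78) (nat_lit 0) (nat_lit 76) (XT.lf (nat_lit 0) (nat_lit 2936077835) (nat_lit 1216) (nat_lit 4284410141) (nat_lit 1292) (nat_lit 35586991573) (nat_lit 225) (nat_lit 5) (nat_lit 241) (nat_lit 5) (nat_lit 242) (nat_lit 5) (nat_lit 382) (nat_lit 377) (nat_lit 141)) (XT.lf (nat_lit 0) (nat_lit 4106151069) (nat_lit 1216) (nat_lit 26664874247) (nat_lit 1292) (nat_lit 12692224221)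 (nat_lit 226) (nat_lit 5) (nat_lit 242) (nat_lit 5) (nat_lit 243) (nat_lit 5) (nat_lit 383) (nat_lit 377) (nat_lit 140))))))))
noncomputable def xc245 : XT := (XT.nd (nat_lit 2028) (nat_lit 2204) (nat_lit 0) (XT.nd (nat_lit 1014) (nat_lit 3876) (nat_lit 0) (XT.nd (nat_lit 468) (nat_lit 836) (nat_lit 0) (XT.nd (nat_lit 234) (nat_lit 0) (nat_lit 152) (XT.nd (nat_lit 78) (nat_lit 0) (nat_lit 76) (XT.lf (nat_lit 0) (nat_lit 5425135092) (nat_lit 1216) (nat_lit 5608737206) (nat_lit 1292) (nat_lit 33101406933) (nat_lit 226) (nat_lit 5) (nat_lit 242) (nat_lit 5) (nat_lit 243) (nat_lit 5) (nat_lit 384) (nat_lit 377) (nat_lit 139)) (XT.nd (nat_lit 78) (nat_lit 0) (nat_lit 0) (XT.lf (nat_lit 0) (nat_lit 7030902514) (nat_lit 1216) (nat_lit 28515496617) (nat_lit 1292) (nat_lit 9273655107) (nat_lit 227) (nat_lit 5) (nat_lit 243) (nat_lit 5) (nat_lit 244) (nat_lit 5) (nat_lit 385) (nat_lit 377) (nat_lit 138)) (XT.lf (nat_lit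 0) (nat_lit 8849988204) (nat_lit 1216) (nat_lit 6644159755) (nat_lit 1292) (nat_lit 30026270992) (nat_lit 227) (nat_lit 5) (nat_lit 243) (nat_lit 5) (nat_lit 244) (nat_lit 5) (nat_lit 386) (nat_lit 377) (nat_lit 137)))) (XT.nd (nat_lit 78) (nat_lit 0) (nat_lit 0) (XT.lf (nat_lit 0) (nat_lit 10929238742) (nat_lit 1216) (nat_lit 30089774235) (nat_lit 1292) (nat_lit 5216614652) (nat_lit 228) (nat_lit 5) (nat_lit 244) (nat_lit 5) (nat_lit 245) (nat_lit 5) (nat_lit 387) (nat_lit 377) (nat_lit 136)) (XT.nd (nat_lit 78) (nat_lit 0) (nat_lit 76) (XT.lf (nat_lit 0) (nat_lit 13290802153) (nat_lit 1216) (nat_lit 7369496331) (nat_lit 1292) (nat_lit 26305396788) (nat_lit 228) (nat_lit 5) (nat_lit 244) (nat_lit 5) (nat_lit 245) (nat_lit 5) (nat_lit 388) (nat_lit 377) (nat_lit 135)) (XT.lf (nat_lit 0) (nat_lit 15883721710) (nat_lit 1216) (nat_lit 31366953212) (nat_lit 1292) (nat_lit 462175492) (nat_lit 229) (nat_lit 5)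 (nat_lit 245) (nat_lit 5) (nat_lit 246) (nat_lit 5) (nat_lit 389) (nat_lit 377) (nat_lit 134))))) (XT.nd (nat_lit 234) (nat_lit 1064) (nat_lit 0) (XT.nd (nat_lit 78) (nat_lit 0) (nat_lit 0) (XT.lf (nat_lit 0) (nat_lit 18832976172) (nat_lit 1216) (nat_lit 7762575826) (nat_lit 1292) (nat_lit 21878512515) (nat_lit 229) (nat_lit 5) (nat_lit 245) (nat_lit 5) (nat_lit 246) (nat_lit 5) (nat_lit 390) (nat_lit 377) (nat_lit 133)) (XT.nd (nat_lit 78) (nat_lit 0) (nat_lit 76) (XT.lf (nat_lit 76) (nat_lit 16878404038) (nat_lit 0) (nat_lit 5153419324) (nat_lit 1292) (nat_lit 27221458922) (nat_lit 230) (nat_lit 5) (nat_lit 229) (nat_lit 5) (nat_lit 246) (nat_lit 5) (nat_lit 391) (nat_lit 377) (nat_lit 132)) (XT.lf (nat_lit 0) (nat_lit 25567455612) (nat_lit 1216) (nat_lit 7800237768) (nat_lit 1292) (nat_lit 16680959301) (nat_lit 230) (nat_lit 5) (nat_lit 246) (nat_lit 5) (nat_lit 247) (nat_lit 5) (nat_lit 392) (nat_lit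 377) (nat_lit 131)))) (XT.nd (nat_lit 156) (nat_lit 1140) (nat_lit 0) (XT.nd (nat_lit 78) (nat_lit 0) (nat_lit 76) (XT.lf (nat_lit 76) (nat_lit 17807212826) (nat_lit 0) (nat_lit 11623070146) (nat_lit 1292) (nat_lit 21430968098) (nat_lit 231) (nat_lit 5) (nat_lit 230) (nat_lit 5) (nat_lit 247) (nat_lit 5) (nat_lit 393) (nat_lit 377) (nat_lit 130)) (XT.lf (nat_lit 0) (nat_lit 33591060126) (nat_lit 1216) (nat_lit 7458338379) (nat_lit 76) (nat_lit 10643367596) (nat_lit 231) (nat_lit 5) (nat_lit 247) (nat_lit 5) (nat_lit 232) (nat_lit 5) (nat_lit 394) (nat_lit 377) (nat_lit 129))) (XT.nd (nat_lit 78) (nat_lit 0) (nat_lit 0) (XT.lf (nat_lit 0) (nat_lit 19163209372) (nat_lit 1216) (nat_lit 19011722875) (nat_lit 1292) (nat_lit 14365346812) (nat_lit 215) (nat_lit 5) (nat_lit 231) (nat_lit 5) (nat_lit 232) (nat_lit 5) (nat_lit 395) (nat_lit 377) (nat_lit 128)) (XT.lf (nat_lit 0) (nat_lit 43006828879) (nat_lit 1292)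 (nat_lit 6711763332) (nat_lit 76) (nat_lit 3691310549) (nat_lit 215) (nat_lit 5) (nat_lit 232) (nat_lit 5) (nat_lit 216) (nat_lit 5) (nat_lit 396) (nat_lit 377) (nat_lit 127)))))) (XT.nd (nat_lit 468) (nat_lit 2052) (nat_lit 0) (XT.nd (nat_lit 234) (nat_lit 608) (nat_lit 0) (XT.nd (nat_lit 78) (nat_lit 608) (nat_lit 0) (XT.lf (nat_lit 0) (nat_lit 20973656032) (nat_lit 608) (nat_lit 27398907401) (nat_lit 684) (nat_lit 5921385897) (nat_lit 207) (nat_lit 5) (nat_lit 215) (nat_lit 5) (nat_lit 216) (nat_lit 5) (nat_lit 397) (nat_lit 377) (nat_lit 126)) (XT.nd (nat_lit 78) (nat_lit 608) (nat_lit 0) (XT.lf (nat_lit 0) (nat_lit 49626348329) (nat_lit 608) (nat_lit 4339751592) (nat_lit 684) (nat_lit 1236413050) (nat_lit 207) (nat_lit 5) (nat_lit 215) (nat_lit 5) (nat_lit 216) (nat_lit 5) (nat_lit 398) (nat_lit 377) (nat_lit 125)) (XT.lf (nat_lit 0) (nat_lit 3932454432) (nat_lit 608) (nat_lit 32897769626) (nat_lit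 76) (nat_lit 19294673525) (nat_lit 199) (nat_lit 5) (nat_lit 207) (nat_lit 5) (nat_lit 200) (nat_lit 5) (nat_lit 399) (nat_lit 377) (nat_lit 124)))) (XT.nd (nat_lit 78) (nat_lit 608) (nat_lit 0) (XT.lf (nat_lit 0) (nat_lit 9330462339) (nat_lit 608) (nat_lit 4121093822) (nat_lit 76) (nat_lit 43620063089) (nat_lit 199) (nat_lit 5) (nat_lit 207) (nat_lit 5) (nat_lit 200) (nat_lit 5) (nat_lit 400) (nat_lit 377) (nat_lit 123)) (XT.nd (nat_lit 78) (nat_lit 0) (nat_lit 0) (XT.lf (nat_lit 0) (nat_lit 15244349589) (nat_lit 684) (nat_lit 32118029582) (nat_lit 76) (nat_lit 10673745731) (nat_lit 191) (nat_lit 5) (nat_lit 200) (nat_lit 5) (nat_lit 192) (nat_lit 5) (nat_lit 401) (nat_lit 377) (nat_lit 122)) (XT.lf (nat_lit 0) (nat_lit 21509999647) (nat_lit 684) (nat_lit 2219854274) (nat_lit 76) (nat_lit 35294481910) (nat_lit 191) (nat_lit 5) (nat_lit 200) (nat_lit 5) (nat_lit 192) (nat_lit 5) (nat_lit 402) (nat_lit 377)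 (nat_lit 121))))) (XT.nd (nat_lit 234) (nat_lit 988) (nat_lit 0) (XT.nd (nat_lit 78) (nat_lit 532) (nat_lit 0) (XT.lf (nat_lit 0) (nat_lit 28251574210) (nat_lit 608) (nat_lit 30899368591) (nat_lit 76) (nat_lit 882612114) (nat_lit 184) (nat_lit 5) (nat_lit 192) (nat_lit 5) (nat_lit 185) (nat_lit 5) (nat_lit 403) (nat_lit 377) (nat_lit 120)) (XT.nd (nat_lit 78) (nat_lit 0) (nat_lit 0) (XT.lf (nat_lit 0) (nat_lit 169235588) (nat_lit 532) (nat_lit 35284551131) (nat_lit 608) (nat_lit 25611512596) (nat_lit 177) (nat_lit 5) (nat_lit 184) (nat_lit 5) (nat_lit 185) (nat_lit 5) (nat_lit 404) (nat_lit 377) (nat_lit 119)) (XT.lf (nat_lit 0) (nat_lit 32802442486) (nat_lit 532) (nat_lit 10380838593) (nat_lit 608) (nat_lit 18935378955) (nat_lit 177) (nat_lit 5) (nat_lit 184) (nat_lit 5) (nat_lit 185) (nat_lit 5) (nat_lit 405) (nat_lit 377) (nat_lit 118)))) (XT.nd (nat_lit 156) (nat_lit 532) (nat_lit 0) (XT.nd (nat_lit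 78) (nat_lit 0) (nat_lit 0) (XT.lf (nat_lit 0) (nat_lit 3124346316) (nat_lit 456) (nat_lit 48196346970) (nat_lit 532) (nat_lit 11877647734) (nat_lit 171) (nat_lit 5) (nat_lit 177) (nat_lit 5) (nat_lit 178) (nat_lit 5) (nat_lit 406) (nat_lit 377) (nat_lit 117)) (XT.lf (nat_lit 0) (nat_lit 37033402629) (nat_lit 456) (nat_lit 23065864583) (nat_lit 532) (nat_lit 4199234469) (nat_lit 171) (nat_lit 5) (nat_lit 177) (nat_lit 5) (nat_lit 178) (nat_lit 5) (nat_lit 407) (nat_lit 377) (nat_lit 116))) (XT.nd (nat_lit 78) (nat_lit 0) (nat_lit 0) (XT.lf (nat_lit 0) (nat_lit 3728108171) (nat_lit 532) (nat_lit 58836029665) (nat_lit 76) (nat_lit 2863731080) (nat_lit 164) (nat_lit 5) (nat_lit 171) (nat_lit 5) (nat_lit 165) (nat_lit 5) (nat_lit 408) (nat_lit 377) (nat_lit 115)) (XT.lf (nat_lit 0) (nat_lit 12314553364) (nat_lit 532) (nat_lit 24832997554) (nat_lit 76) (nat_lit 29427148860) (nat_lit 164) (nat_lit 5) (nat_lit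 171) (nat_lit 5) (nat_lit 165) (nat_lit 5) (nat_lit 409) (nat_lit 377) (nat_lit 114))))))) (XT.nd (nat_lit 44616) (nat_lit 0) (nat_lit 6764) (XT.nd (nat_lit 468) (nat_lit 836) (nat_lit 0) (XT.nd (nat_lit 234) (nat_lit 456) (nat_lit 0) (XT.nd (nat_lit 78) (nat_lit 456) (nat_lit 0) (XT.lf (nat_lit 0) (nat_lit 10392081235) (nat_lit 456) (nat_lit 10865685147) (nat_lit 532) (nat_lit 46495194325) (nat_lit 158) (nat_lit 5) (nat_lit 164) (nat_lit 5) (nat_lit 165) (nat_lit 5) (nat_lit 410) (nat_lit 377) (nat_lit 113)) (XT.nd (nat_lit 78) (nat_lit 456) (nat_lit 0) (XT.lf (nat_lit 0) (nat_lit 30877583465) (nat_lit 532) (nat_lit 21935177285) (nat_lit 76) (nat_lit 16141559851) (nat_lit 158) (nat_lit 5) (nat_lit 165) (nat_lit 5) (nat_lit 159) (nat_lit 5) (nat_lit 411) (nat_lit 377) (nat_lit 112)) (XT.lf (nat_lit 0) (nat_lit 14732377697) (nat_lit 456) (nat_lit 26302127063) (nat_lit 532) (nat_lit 29149761598) (nat_lit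 152) (nat_lit 5) (nat_lit 158) (nat_lit 5) (nat_lit 159) (nat_lit 5) (nat_lit 412) (nat_lit 377) (nat_lit 111)))) (XT.nd (nat_lit 78) (nat_lit 456) (nat_lit 0) (XT.lf (nat_lit 0) (nat_lit 51728801427) (nat_lit 532) (nat_lit 18507529208) (nat_lit 76) (nat_lit 1207800165) (nat_lit 152) (nat_lit 5) (nat_lit 159) (nat_lit 5) (nat_lit 153) (nat_lit 5) (nat_lit 413) (nat_lit 377) (nat_lit 110)) (XT.nd (nat_lit 78) (nat_lit 76) (nat_lit 0) (XT.lf (nat_lit 0) (nat_lit 19667726015) (nat_lit 380) (nat_lit 43525018985) (nat_lit 456) (nat_lit 9535581970) (nat_lit 147) (nat_lit 5) (nat_lit 152) (nat_lit 5) (nat_lit 153) (nat_lit 5) (nat_lit 414) (nat_lit 377) (nat_lit 109)) (XT.lf (nat_lit 0) (nat_lit 1119116161) (nat_lit 456) (nat_lit 14689606847) (nat_lit 76) (nat_lit 58236409874) (nat_lit 146) (nat_lit 5) (nat_lit 152) (nat_lit 5) (nat_lit 147) (nat_lit 5) (nat_lit 415) (nat_lit 377) (nat_lit 108))))) (XT.nd (nat_lit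 234) (nat_lit 0) (nat_lit 0) (XT.nd (nat_lit 78) (nat_lit 380) (nat_lit 0) (XT.lf (nat_lit 0) (nat_lit 12269478817) (nat_lit 532) (nat_lit 50287505757) (nat_lit 76) (nat_lit 12830595974) (nat_lit 140) (nat_lit 5) (nat_lit 147) (nat_lit 5) (nat_lit 141) (nat_lit 5) (nat_lit 416) (nat_lit 377) (nat_lit 107)) (XT.nd (nat_lit 78) (nat_lit 380) (nat_lit 0) (XT.lf (nat_lit 0) (nat_lit 24060055162) (nat_lit 532) (nat_lit 10540070413) (nat_lit 76) (nat_lit 42161005282) (nat_lit 140) (nat_lit 5) (nat_lit 147) (nat_lit 5) (nat_lit 141) (nat_lit 5) (nat_lit 417) (nat_lit 377) (nat_lit 106)) (XT.lf (nat_lit 0) (nat_lit 31004013609) (nat_lit 380) (nat_lit 5497758808) (nat_lit 456) (nat_lit 41665192838) (nat_lit 135) (nat_lit 5) (nat_lit 140) (nat_lit 5) (nat_lit 141) (nat_lit 5) (nat_lit 418) (nat_lit 377) (nat_lit 105)))) (XT.nd (nat_lit 43758) (nat_lit 0) (nat_lit 6688) (XT.nd (nat_lit 43680) (nat_lit 0) (nat_lit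 6688) (XT.lf (nat_lit 0) (nat_lit 49658926169) (nat_lit 456) (nat_lit 5838431902) (nat_lit 76) (nat_lit 24107351345) (nat_lit 135) (nat_lit 5) (nat_lit 141) (nat_lit 5) (nat_lit 136) (nat_lit 5) (nat_lit 419) (nat_lit 377) (nat_lit 104)) (XT.lf (nat_lit 0) (nat_lit 257648837) (nat_lit 1292) (nat_lit 10098180651) (nat_lit 1292) (nat_lit 10098180651) (nat_lit 223) (nat_lit 3) (nat_lit 240) (nat_lit 3) (nat_lit 240) (nat_lit 5) (nat_lit 378) (nat_lit 378) (nat_lit 144))) (XT.nd (nat_lit 78) (nat_lit 0) (nat_lit 76) (XT.lf (nat_lit 0) (nat_lit 561341904) (nat_lit 1292) (nat_lit 834035383) (nat_lit 1292) (nat_lit 40125089673) (nat_lit 223) (nat_lit 3) (nat_lit 240) (nat_lit 3) (nat_lit 240) (nat_lit 5) (nat_lit 379) (nat_lit 378) (nat_lit 143)) (XT.lf (nat_lit 0) (nat_lit 974308180) (nat_lit 1216) (nat_lit 22836727433) (nat_lit 1292) (nat_lit 18329286147) (nat_lit 224) (nat_lit 5) (nat_lit 240) (nat_lit 5) (nat_lit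 241) (nat_lit 5) (nat_lit 380) (nat_lit 378) (nat_lit 142)))))) (XT.nd (nat_lit 546) (nat_lit 0) (nat_lit 304) (XT.nd (nat_lit 234) (nat_lit 0) (nat_lit 152) (XT.nd (nat_lit 78) (nat_lit 0) (nat_lit 76) (XT.lf (nat_lit 0) (nat_lit 1420532162) (nat_lit 1216) (nat_lit 2730783095) (nat_lit 1292) (nat_lit 38626831802) (nat_lit 224) (nat_lit 5) (nat_lit 240) (nat_lit 5) (nat_lit 241) (nat_lit 5) (nat_lit 381) (nat_lit 378) (nat_lit 141)) (XT.nd (nat_lit 78) (nat_lit 0) (nat_lit 0) (XT.lf (nat_lit 0) (nat_lit 2211479961) (nat_lit 1216) (nat_lit 25251022140) (nat_lit 1292) (nat_lit 15962665792) (nat_lit 225) (nat_lit 5) (nat_lit 241) (nat_lit 5) (nat_lit 242) (nat_lit 5) (nat_lit 382) (nat_lit 378) (nat_lit 140)) (XT.lf (nat_lit 0) (nat_lit 3093736052) (nat_lit 1216) (nat_lit 4370777181) (nat_lit 1292) (nat_lit 36625059589) (nat_lit 225) (nat_lit 5) (nat_lit 241) (nat_lit 5) (nat_lit 242) (nat_lit 5) (nat_lit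 383) (nat_lit 378) (nat_lit 139)))) (XT.nd (nat_lit 156) (nat_lit 0) (nat_lit 76) (XT.nd (nat_lit 78) (nat_lit 0) (nat_lit 0) (XT.lf (nat_lit 0) (nat_lit 4297034506) (nat_lit 1216) (nat_lit 27420735672) (nat_lit 1292) (nat_lit 13047303317) (nat_lit 226) (nat_lit 5) (nat_lit 242) (nat_lit 5) (nat_lit 243) (nat_lit 5) (nat_lit 384) (nat_lit 378) (nat_lit 138)) (XT.lf (nat_lit 0) (nat_lit 5653616237) (nat_lit 1216) (nat_lit 5734198543) (nat_lit 1292) (nat_lit 34069509693) (nat_lit 226) (nat_lit 5) (nat_lit 242) (nat_lit 5) (nat_lit 243) (nat_lit 5) (nat_lit 385) (nat_lit 378) (nat_lit 137))) (XT.nd (nat_lit 78) (nat_lit 0) (nat_lit 0) (XT.lf (nat_lit 0) (nat_lit 7305839765) (nat_lit 1216) (nat_lit 29326403702) (nat_lit 1292) (nat_lit 9530451975) (nat_lit 227) (nat_lit 5) (nat_lit 243) (nat_lit 5) (nat_lit 244) (nat_lit 5) (nat_lit 386) (nat_lit 378) (nat_lit 136)) (XT.lf (nat_lit 0) (nat_lit 9177633651) (nat_lit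 1216) (nat_lit 6800224535) (nat_lit 1292) (nat_lit 30906270010) (nat_lit 227) (nat_lit 5) (nat_lit 243) (nat_lit 5) (nat_lit 244) (nat_lit 5) (nat_lit 387) (nat_lit 378) (nat_lit 135))))) (XT.nd (nat_lit 234) (nat_lit 0) (nat_lit 76) (XT.nd (nat_lit 78) (nat_lit 0) (nat_lit 0) (XT.lf (nat_lit 0) (nat_lit 11317691221) (nat_lit 1216) (nat_lit 30947599150) (nat_lit 1292) (nat_lit 5355551011) (nat_lit 228) (nat_lit 5) (nat_lit 244) (nat_lit 5) (nat_lit 245) (nat_lit 5) (nat_lit 388) (nat_lit 378) (nat_lit 134)) (XT.nd (nat_lit 78) (nat_lit 0) (nat_lit 76) (XT.lf (nat_lit 0) (nat_lit 13748337205) (nat_lit 1216) (nat_lit 7547019754) (nat_lit 1292) (nat_lit 27077508128) (nat_lit 228) (nat_lit 5) (nat_lit 244) (nat_lit 5) (nat_lit 245) (nat_lit 5) (nat_lit 389) (nat_lit 378) (nat_lit 133)) (XT.lf (nat_lit 0) (nat_lit 16417607829) (nat_lit 1216) (nat_lit 32262928177) (nat_lit 1292) (nat_lit 461943042) (nat_lit 229)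 (nat_lit 5) (nat_lit 245) (nat_lit 5) (nat_lit 246) (nat_lit 5) (nat_lit 390) (nat_lit 378) (nat_lit 132)))) (XT.nd (nat_lit 156) (nat_lit 0) (nat_lit 76) (XT.nd (nat_lit 78) (nat_lit 0) (nat_lit 0) (XT.lf (nat_lit 0) (nat_lit 19453668823) (nat_lit 1216) (nat_lit 7951731129) (nat_lit 1292) (nat_lit 22521180790) (nat_lit 229) (nat_lit 5) (nat_lit 245) (nat_lit 5) (nat_lit 246) (nat_lit 5) (nat_lit 391) (nat_lit 378) (nat_lit 131)) (XT.lf (nat_lit 76) (nat_lit 17428049485) (nat_lit 0) (nat_lit 5319225679) (nat_lit 1292) (nat_lit 27981937079) (nat_lit 230) (nat_lit 5) (nat_lit 229) (nat_lit 5) (nat_lit 246) (nat_lit 5) (nat_lit 392) (nat_lit 378) (nat_lit 130))) (XT.nd (nat_lit 78) (nat_lit 0) (nat_lit 0) (XT.lf (nat_lit 0) (nat_lit 26387284526) (nat_lit 1216) (nat_lit 7990488073) (nat_lit 1292) (nat_lit 17170722887) (nat_lit 230) (nat_lit 5) (nat_lit 246) (nat_lit 5) (nat_lit 247) (nat_lit 5) (nat_lit 393)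 (nat_lit 378) (nat_lit 129)) (XT.lf (nat_lit 76) (nat_lit 18384757051) (nat_lit 0) (nat_lit 11980118132) (nat_lit 1292) (nat_lit 22020631238) (nat_lit 231) (nat_lit 5) (nat_lit 230) (nat_lit 5) (nat_lit 247) (nat_lit 5) (nat_lit 394) (nat_lit 378) (nat_lit 128))))))))
noncomputable def xc246 : XT := (XT.nd (nat_lit 45786) (nat_lit 0) (nat_lit 2812) (XT.nd (nat_lit 1014) (nat_lit 2356) (nat_lit 0) (XT.nd (nat_lit 468) (nat_lit 2128) (nat_lit 0) (XT.nd (nat_lit 234) (nat_lit 1216) (nat_lit 0) (XT.nd (nat_lit 78) (nat_lit 1216) (nat_lit 0) (XT.lf (nat_lit 0) (nat_lit 34648892319) (nat_lit 1216) (nat_lit 7638408586) (nat_lit 76) (nat_lit 10954714422) (nat_lit 231) (nat_lit 5) (nat_lit 247) (nat_lit 5) (nat_lit 232) (nat_lit 5) (nat_lit 395) (nat_lit 378) (nat_lit 127)) (XT.nd (nat_lit 78) (nat_lit 0) (nat_lit 0) (XT.lf (nat_lit 0) (nat_lit 19781357363) (nat_lit 1216) (nat_lit 19587879767) (nat_lit 1292) (nat_lit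 14745748742) (nat_lit 215) (nat_lit 5) (nat_lit 231) (nat_lit 5) (nat_lit 232) (nat_lit 5) (nat_lit 396) (nat_lit 378) (nat_lit 126)) (XT.lf (nat_lit 0) (nat_lit 44344607642) (nat_lit 1292) (nat_lit 6869612279) (nat_lit 76) (nat_lit 3796523724) (nat_lit 215) (nat_lit 5) (nat_lit 232) (nat_lit 5) (nat_lit 216) (nat_lit 5) (nat_lit 397) (nat_lit 378) (nat_lit 125)))) (XT.nd (nat_lit 78) (nat_lit 608) (nat_lit 0) (XT.lf (nat_lit 0) (nat_lit 21645943157) (nat_lit 608) (nat_lit 28224399515) (nat_lit 684) (nat_lit 6050998931) (nat_lit 207) (nat_lit 5) (nat_lit 215) (nat_lit 5) (nat_lit 216) (nat_lit 5) (nat_lit 398) (nat_lit 378) (nat_lit 124)) (XT.nd (nat_lit 78) (nat_lit 608) (nat_lit 0) (XT.lf (nat_lit 0) (nat_lit 51156961540) (nat_lit 608) (nat_lit 4473366365) (nat_lit 684) (nat_lit 1226875789) (nat_lit 207) (nat_lit 5) (nat_lit 215) (nat_lit 5) (nat_lit 216) (nat_lit 5) (nat_lit 399) (nat_lit 378) (nat_lit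 123)) (XT.lf (nat_lit 0) (nat_lit 4095199560) (nat_lit 608) (nat_lit 33840969525) (nat_lit 76) (nat_lit 19871106531) (nat_lit 199) (nat_lit 5) (nat_lit 207) (nat_lit 5) (nat_lit 200) (nat_lit 5) (nat_lit 400) (nat_lit 378) (nat_lit 122))))) (XT.nd (nat_lit 234) (nat_lit 1520) (nat_lit 0) (XT.nd (nat_lit 78) (nat_lit 608) (nat_lit 0) (XT.lf (nat_lit 0) (nat_lit 9653843681) (nat_lit 608) (nat_lit 4202267229) (nat_lit 76) (nat_lit 44926327894) (nat_lit 199) (nat_lit 5) (nat_lit 207) (nat_lit 5) (nat_lit 200) (nat_lit 5) (nat_lit 401) (nat_lit 378) (nat_lit 121)) (XT.nd (nat_lit 78) (nat_lit 0) (nat_lit 0) (XT.lf (nat_lit 0) (nat_lit 15744280244) (nat_lit 684) (nat_lit 33038219484) (nat_lit 76) (nat_lit 10993406645) (nat_lit 191) (nat_lit 5) (nat_lit 200) (nat_lit 5) (nat_lit 192) (nat_lit 5) (nat_lit 402) (nat_lit 378) (nat_lit 120)) (XT.lf (nat_lit 0) (nat_lit 22196659021) (nat_lit 684) (nat_lit 2244361568)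 (nat_lit 76) (nat_lit 36352780971) (nat_lit 191) (nat_lit 5) (nat_lit 200) (nat_lit 5) (nat_lit 192) (nat_lit 5) (nat_lit 403) (nat_lit 378) (nat_lit 119)))) (XT.nd (nat_lit 156) (nat_lit 456) (nat_lit 0) (XT.nd (nat_lit 78) (nat_lit 532) (nat_lit 0) (XT.lf (nat_lit 0) (nat_lit 29139687561) (nat_lit 608) (nat_lit 31783445175) (nat_lit 76) (nat_lit 910188965) (nat_lit 184) (nat_lit 5) (nat_lit 192) (nat_lit 5) (nat_lit 185) (nat_lit 5) (nat_lit 404) (nat_lit 378) (nat_lit 118)) (XT.lf (nat_lit 0) (nat_lit 216796497) (nat_lit 532) (nat_lit 36340396791) (nat_lit 608) (nat_lit 26338849005) (nat_lit 177) (nat_lit 5) (nat_lit 184) (nat_lit 5) (nat_lit 185) (nat_lit 5) (nat_lit 405) (nat_lit 378) (nat_lit 117))) (XT.nd (nat_lit 78) (nat_lit 456) (nat_lit 0) (XT.lf (nat_lit 0) (nat_lit 33827762208) (nat_lit 532) (nat_lit 10689651252) (nat_lit 608) (nat_lit 19463625791) (nat_lit 177) (nat_lit 5) (nat_lit 184) (nat_lit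 5) (nat_lit 185) (nat_lit 5) (nat_lit 406) (nat_lit 378) (nat_lit 116)) (XT.lf (nat_lit 0) (nat_lit 3260062919) (nat_lit 456) (nat_lit 49638187833) (nat_lit 532) (nat_lit 12194881462) (nat_lit 171) (nat_lit 5) (nat_lit 177) (nat_lit 5) (nat_lit 178) (nat_lit 5) (nat_lit 407) (nat_lit 378) (nat_lit 115)))))) (XT.nd (nat_lit 468) (nat_lit 912) (nat_lit 0) (XT.nd (nat_lit 234) (nat_lit 912) (nat_lit 0) (XT.nd (nat_lit 78) (nat_lit 532) (nat_lit 0) (XT.lf (nat_lit 0) (nat_lit 38185168022) (nat_lit 456) (nat_lit 23753908922) (nat_lit 532) (nat_lit 4287254509) (nat_lit 171) (nat_lit 5) (nat_lit 177) (nat_lit 5) (nat_lit 178) (nat_lit 5) (nat_lit 408) (nat_lit 378) (nat_lit 114)) (XT.nd (nat_lit 78) (nat_lit 0) (nat_lit 0) (XT.lf (nat_lit 0) (nat_lit 3876523113) (nat_lit 532) (nat_lit 60558923049) (nat_lit 76) (nat_lit 2954142511) (nat_lit 164) (nat_lit 5) (nat_lit 171) (nat_lit 5) (nat_lit 165) (nat_lit 5) (nat_lit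 409) (nat_lit 378) (nat_lit 113)) (XT.lf (nat_lit 0) (nat_lit 12719496467) (nat_lit 532) (nat_lit 25537028736) (nat_lit 76) (nat_lit 30314331770) (nat_lit 164) (nat_lit 5) (nat_lit 171) (nat_lit 5) (nat_lit 165) (nat_lit 5) (nat_lit 410) (nat_lit 378) (nat_lit 112)))) (XT.nd (nat_lit 78) (nat_lit 456) (nat_lit 0) (XT.lf (nat_lit 0) (nat_lit 10744400860) (nat_lit 456) (nat_lit 11185960706) (nat_lit 532) (nat_lit 47854124036) (nat_lit 158) (nat_lit 5) (nat_lit 164) (nat_lit 5) (nat_lit 165) (nat_lit 5) (nat_lit 411) (nat_lit 378) (nat_lit 111)) (XT.nd (nat_lit 78) (nat_lit 456) (nat_lit 0) (XT.lf (nat_lit 0) (nat_lit 31837810908) (nat_lit 532) (nat_lit 22552876904) (nat_lit 76) (nat_lit 16631227876) (nat_lit 158) (nat_lit 5) (nat_lit 165) (nat_lit 5) (nat_lit 159) (nat_lit 5) (nat_lit 412) (nat_lit 378) (nat_lit 110)) (XT.lf (nat_lit 0) (nat_lit 15214309083) (nat_lit 456) (nat_lit 27084527501) (nat_lit 532)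 (nat_lit 29989941840) (nat_lit 152) (nat_lit 5) (nat_lit 158) (nat_lit 5) (nat_lit 159) (nat_lit 5) (nat_lit 413) (nat_lit 378) (nat_lit 109))))) (XT.nd (nat_lit 234) (nat_lit 456) (nat_lit 0) (XT.nd (nat_lit 78) (nat_lit 456) (nat_lit 0) (XT.lf (nat_lit 0) (nat_lit 53313054532) (nat_lit 532) (nat_lit 19023034767) (nat_lit 76) (nat_lit 1250377225) (nat_lit 152) (nat_lit 5) (nat_lit 159) (nat_lit 5) (nat_lit 153) (nat_lit 5) (nat_lit 414) (nat_lit 378) (nat_lit 108)) (XT.nd (nat_lit 78) (nat_lit 76) (nat_lit 0) (XT.lf (nat_lit 0) (nat_lit 20297088698) (nat_lit 380) (nat_lit 44823262417) (nat_lit 456) (nat_lit 9788854906) (nat_lit 147) (nat_lit 5) (nat_lit 152) (nat_lit 5) (nat_lit 153) (nat_lit 5) (nat_lit 415) (nat_lit 378) (nat_lit 107)) (XT.lf (nat_lit 0) (nat_lit 1183907689) (nat_lit 456) (nat_lit 15091473285) (nat_lit 76) (nat_lit 59990154228) (nat_lit 146) (nat_lit 5) (nat_lit 152) (nat_lit 5) (nat_lit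 147) (nat_lit 5) (nat_lit 416) (nat_lit 378) (nat_lit 106)))) (XT.nd (nat_lit 43914) (nat_lit 0) (nat_lit 6308) (XT.nd (nat_lit 78) (nat_lit 0) (nat_lit 0) (XT.lf (nat_lit 0) (nat_lit 12668316103) (nat_lit 532) (nat_lit 51756829355) (nat_lit 76) (nat_lit 13223125234) (nat_lit 140) (nat_lit 5) (nat_lit 147) (nat_lit 5) (nat_lit 141) (nat_lit 5) (nat_lit 417) (nat_lit 378) (nat_lit 105)) (XT.lf (nat_lit 0) (nat_lit 24811714022) (nat_lit 532) (nat_lit 10818115657) (nat_lit 76) (nat_lit 43433225131) (nat_lit 140) (nat_lit 5) (nat_lit 147) (nat_lit 5) (nat_lit 141) (nat_lit 5) (nat_lit 418) (nat_lit 378) (nat_lit 104))) (XT.nd (nat_lit 78) (nat_lit 0) (nat_lit 0) (XT.lf (nat_lit 0) (nat_lit 303324761) (nat_lit 1292) (nat_lit 10381571669) (nat_lit 1292) (nat_lit 10381571669) (nat_lit 223) (nat_lit 3) (nat_lit 240) (nat_lit 3) (nat_lit 240) (nat_lit 5) (nat_lit 379) (nat_lit 379) (nat_lit 142)) (XT.lf (nat_lit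 0) (nat_lit 651864605) (nat_lit 1292) (nat_lit 821086732) (nat_lit 1292) (nat_lit 41290872651) (nat_lit 223) (nat_lit 3) (nat_lit 240) (nat_lit 3) (nat_lit 240) (nat_lit 5) (nat_lit 380) (nat_lit 379) (nat_lit 141))))))) (XT.nd (nat_lit 1014) (nat_lit 3572) (nat_lit 0) (XT.nd (nat_lit 468) (nat_lit 0) (nat_lit 228) (XT.nd (nat_lit 234) (nat_lit 0) (nat_lit 76) (XT.nd (nat_lit 78) (nat_lit 0) (nat_lit 0) (XT.lf (nat_lit 0) (nat_lit 1075105473) (nat_lit 1216) (nat_lit 23481699995) (nat_lit 1292) (nat_lit 18845533750) (nat_lit 224) (nat_lit 5) (nat_lit 240) (nat_lit 5) (nat_lit 241) (nat_lit 5) (nat_lit 381) (nat_lit 379) (nat_lit 140)) (XT.nd (nat_lit 78) (nat_lit 0) (nat_lit 76) (XT.lf (nat_lit 0) (nat_lit 1532631669) (nat_lit 1216) (nat_lit 2773746140) (nat_lit 1292) (nat_lit 39752985319) (nat_lit 224) (nat_lit 5) (nat_lit 240) (nat_lit 5) (nat_lit 241) (nat_lit 5) (nat_lit 382) (nat_lit 379) (nat_lit 139))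 (XT.lf (nat_lit 0) (nat_lit 2345373760) (nat_lit 1216) (nat_lit 25967615655) (nat_lit 1292) (nat_lit 16412864473) (nat_lit 225) (nat_lit 5) (nat_lit 241) (nat_lit 5) (nat_lit 242) (nat_lit 5) (nat_lit 383) (nat_lit 379) (nat_lit 138)))) (XT.nd (nat_lit 78) (nat_lit 0) (nat_lit 76) (XT.lf (nat_lit 0) (nat_lit 3252130075) (nat_lit 1216) (nat_lit 4462155690) (nat_lit 1292) (nat_lit 37695965461) (nat_lit 225) (nat_lit 5) (nat_lit 241) (nat_lit 5) (nat_lit 242) (nat_lit 5) (nat_lit 384) (nat_lit 379) (nat_lit 137)) (XT.nd (nat_lit 78) (nat_lit 0) (nat_lit 0) (XT.lf (nat_lit 0) (nat_lit 4489758253) (nat_lit 1216) (nat_lit 28201803588) (nat_lit 1292) (nat_lit 13414509361) (nat_lit 226) (nat_lit 5) (nat_lit 242) (nat_lit 5) (nat_lit 243) (nat_lit 5) (nat_lit 385) (nat_lit 379) (nat_lit 136)) (XT.lf (nat_lit 0) (nat_lit 5885178813) (nat_lit 1216) (nat_lit 5865880661) (nat_lit 1292) (nat_lit 35068087163) (nat_lit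 226) (nat_lit 5) (nat_lit 242) (nat_lit 5) (nat_lit 243) (nat_lit 5) (nat_lit 386) (nat_lit 379) (nat_lit 135))))) (XT.nd (nat_lit 234) (nat_lit 0) (nat_lit 76) (XT.nd (nat_lit 78) (nat_lit 0) (nat_lit 0) (XT.lf (nat_lit 0) (nat_lit 7585350687) (nat_lit 1216) (nat_lit 30164195801) (nat_lit 1292) (nat_lit 9796181930) (nat_lit 227) (nat_lit 5) (nat_lit 243) (nat_lit 5) (nat_lit 244) (nat_lit 5) (nat_lit 387) (nat_lit 379) (nat_lit 134)) (XT.nd (nat_lit 78) (nat_lit 0) (nat_lit 76) (XT.lf (nat_lit 0) (nat_lit 9511541039) (nat_lit 1216) (nat_lit 6963454560) (nat_lit 1292) (nat_lit 31813862379) (nat_lit 227) (nat_lit 5) (nat_lit 243) (nat_lit 5) (nat_lit 244) (nat_lit 5) (nat_lit 388) (nat_lit 379) (nat_lit 133)) (XT.lf (nat_lit 0) (nat_lit 11714320004) (nat_lit 1216) (nat_lit 31833734438) (nat_lit 1292) (nat_lit 5499663597) (nat_lit 228) (nat_lit 5) (nat_lit 244) (nat_lit 5) (nat_lit 245) (nat_lit 5) (nat_lit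 389) (nat_lit 379) (nat_lit 132)))) (XT.nd (nat_lit 156) (nat_lit 0) (nat_lit 76) (XT.nd (nat_lit 78) (nat_lit 0) (nat_lit 76) (XT.lf (nat_lit 0) (nat_lit 14216222318) (nat_lit 1216) (nat_lit 7732369486) (nat_lit 1292) (nat_lit 27873761581) (nat_lit 228) (nat_lit 5) (nat_lit 244) (nat_lit 5) (nat_lit 245) (nat_lit 5) (nat_lit 390) (nat_lit 379) (nat_lit 131)) (XT.lf (nat_lit 0) (nat_lit 16964217002) (nat_lit 1216) (nat_lit 33188367505) (nat_lit 1292) (nat_lit 462512886) (nat_lit 229) (nat_lit 5) (nat_lit 245) (nat_lit 5) (nat_lit 246) (nat_lit 5) (nat_lit 391) (nat_lit 379) (nat_lit 130))) (XT.nd (nat_lit 78) (nat_lit 0) (nat_lit 0) (XT.lf (nat_lit 0) (nat_lit 20089784653) (nat_lit 1216) (nat_lit 8149070911) (nat_lit 1292) (nat_lit 23183914808) (nat_lit 229) (nat_lit 5) (nat_lit 245) (nat_lit 5) (nat_lit 246) (nat_lit 5) (nat_lit 392) (nat_lit 379) (nat_lit 129)) (XT.lf (nat_lit 76) (nat_lit 17991699081)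 (nat_lit 0) (nat_lit 5489363081) (nat_lit 1292) (nat_lit 28768453716) (nat_lit 230) (nat_lit 5) (nat_lit 229) (nat_lit 5) (nat_lit 246) (nat_lit 5) (nat_lit 393) (nat_lit 379) (nat_lit 128)))))) (XT.nd (nat_lit 546) (nat_lit 2280) (nat_lit 0) (XT.nd (nat_lit 234) (nat_lit 1748) (nat_lit 0) (XT.nd (nat_lit 78) (nat_lit 0) (nat_lit 0) (XT.lf (nat_lit 0) (nat_lit 27228677070) (nat_lit 1216) (nat_lit 8188957707) (nat_lit 1292) (nat_lit 17675791606) (nat_lit 230) (nat_lit 5) (nat_lit 246) (nat_lit 5) (nat_lit 247) (nat_lit 5) (nat_lit 394) (nat_lit 379) (nat_lit 127)) (XT.nd (nat_lit 78) (nat_lit 0) (nat_lit 76) (XT.lf (nat_lit 76) (nat_lit 18977140407) (nat_lit 0) (nat_lit 12347397896) (nat_lit 1292) (nat_lit 22631041953) (nat_lit 231) (nat_lit 5) (nat_lit 230) (nat_lit 5) (nat_lit 247) (nat_lit 5) (nat_lit 395) (nat_lit 379) (nat_lit 126)) (XT.lf (nat_lit 0) (nat_lit 35735583510) (nat_lit 1216) (nat_lit 7826388306)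 (nat_lit 76) (nat_lit 11275858255) (nat_lit 231) (nat_lit 5) (nat_lit 247) (nat_lit 5) (nat_lit 232) (nat_lit 5) (nat_lit 396) (nat_lit 379) (nat_lit 125)))) (XT.nd (nat_lit 156) (nat_lit 608) (nat_lit 0) (XT.nd (nat_lit 78) (nat_lit 0) (nat_lit 0) (XT.lf (nat_lit 0) (nat_lit 20415566969) (nat_lit 1216) (nat_lit 20180988124) (nat_lit 1292) (nat_lit 15140464993) (nat_lit 215) (nat_lit 5) (nat_lit 231) (nat_lit 5) (nat_lit 232) (nat_lit 5) (nat_lit 397) (nat_lit 379) (nat_lit 124)) (XT.lf (nat_lit 0) (nat_lit 45719788831) (nat_lit 1292) (nat_lit 7034694000) (nat_lit 76) (nat_lit 3905210517) (nat_lit 215) (nat_lit 5) (nat_lit 232) (nat_lit 5) (nat_lit 216) (nat_lit 5) (nat_lit 398) (nat_lit 379) (nat_lit 123))) (XT.nd (nat_lit 78) (nat_lit 0) (nat_lit 0) (XT.lf (nat_lit 0) (nat_lit 22335926074) (nat_lit 608) (nat_lit 29074454049) (nat_lit 684) (nat_lit 6187257392) (nat_lit 207) (nat_lit 5) (nat_lit 215) (nat_lit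 5) (nat_lit 216) (nat_lit 5) (nat_lit 399) (nat_lit 379) (nat_lit 122)) (XT.lf (nat_lit 0) (nat_lit 52731092349) (nat_lit 608) (nat_lit 4610793131) (nat_lit 684) (nat_lit 1219729142) (nat_lit 207) (nat_lit 5) (nat_lit 215) (nat_lit 5) (nat_lit 216) (nat_lit 5) (nat_lit 400) (nat_lit 379) (nat_lit 121))))) (XT.nd (nat_lit 234) (nat_lit 1064) (nat_lit 0) (XT.nd (nat_lit 78) (nat_lit 608) (nat_lit 0) (XT.lf (nat_lit 0) (nat_lit 4260256976) (nat_lit 608) (nat_lit 34814975884) (nat_lit 76) (nat_lit 20464970710) (nat_lit 199) (nat_lit 5) (nat_lit 207) (nat_lit 5) (nat_lit 200) (nat_lit 5) (nat_lit 401) (nat_lit 379) (nat_lit 120)) (XT.nd (nat_lit 78) (nat_lit 608) (nat_lit 0) (XT.lf (nat_lit 0) (nat_lit 9984431252) (nat_lit 608) (nat_lit 4288313181) (nat_lit 76) (nat_lit 46271914802) (nat_lit 199) (nat_lit 5) (nat_lit 207) (nat_lit 5) (nat_lit 200) (nat_lit 5) (nat_lit 402) (nat_lit 379) (nat_lit 119)) (XT.lf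 (nat_lit 0) (nat_lit 16256763394) (nat_lit 684) (nat_lit 33988503608) (nat_lit 76) (nat_lit 11322689042) (nat_lit 191) (nat_lit 5) (nat_lit 200) (nat_lit 5) (nat_lit 192) (nat_lit 5) (nat_lit 403) (nat_lit 379) (nat_lit 118)))) (XT.nd (nat_lit 156) (nat_lit 532) (nat_lit 0) (XT.nd (nat_lit 78) (nat_lit 532) (nat_lit 0) (XT.lf (nat_lit 0) (nat_lit 22901543979) (nat_lit 684) (nat_lit 2272020123) (nat_lit 76) (nat_lit 37442859737) (nat_lit 191) (nat_lit 5) (nat_lit 200) (nat_lit 5) (nat_lit 192) (nat_lit 5) (nat_lit 404) (nat_lit 379) (nat_lit 117)) (XT.lf (nat_lit 0) (nat_lit 30052115650) (nat_lit 608) (nat_lit 32696506949) (nat_lit 76) (nat_lit 938530063) (nat_lit 184) (nat_lit 5) (nat_lit 192) (nat_lit 5) (nat_lit 185) (nat_lit 5) (nat_lit 405) (nat_lit 379) (nat_lit 116))) (XT.nd (nat_lit 78) (nat_lit 0) (nat_lit 0) (XT.lf (nat_lit 0) (nat_lit 263345487) (nat_lit 532) (nat_lit 37428072288) (nat_lit 608)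 (nat_lit 27090359589) (nat_lit 177) (nat_lit 5) (nat_lit 184) (nat_lit 5) (nat_lit 185) (nat_lit 5) (nat_lit 406) (nat_lit 379) (nat_lit 115)) (XT.lf (nat_lit 0) (nat_lit 34881473808) (nat_lit 532) (nat_lit 11007878259) (nat_lit 608) (nat_lit 20010005549) (nat_lit 177) (nat_lit 5) (nat_lit 184) (nat_lit 5) (nat_lit 185) (nat_lit 5) (nat_lit 407) (nat_lit 379) (nat_lit 114))))))))
noncomputable def xc247 : XT := (XT.nd (nat_lit 45942) (nat_lit 0) (nat_lit 532) (XT.nd (nat_lit 44850) (nat_lit 0) (nat_lit 6384) (XT.nd (nat_lit 468) (nat_lit 1368) (nat_lit 0) (XT.nd (nat_lit 234) (nat_lit 456) (nat_lit 0) (XT.nd (nat_lit 78) (nat_lit 532) (nat_lit 0) (XT.lf (nat_lit 0) (nat_lit 3397440840) (nat_lit 456) (nat_lit 51123516382) (nat_lit 532) (nat_lit 12523876455) (nat_lit 171) (nat_lit 5) (nat_lit 177) (nat_lit 5) (nat_lit 178) (nat_lit 5) (nat_lit 408) (nat_lit 379) (nat_lit 113)) (XT.nd (nat_lit 78) (nat_lit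 532) (nat_lit 0) (XT.lf (nat_lit 0) (nat_lit 39369146396) (nat_lit 456) (nat_lit 24462820281) (nat_lit 532) (nat_lit 4380094037) (nat_lit 171) (nat_lit 5) (nat_lit 177) (nat_lit 5) (nat_lit 178) (nat_lit 5) (nat_lit 409) (nat_lit 379) (nat_lit 112)) (XT.lf (nat_lit 0) (nat_lit 4027291139) (nat_lit 532) (nat_lit 62335924969) (nat_lit 76) (nat_lit 3047007995) (nat_lit 164) (nat_lit 5) (nat_lit 171) (nat_lit 5) (nat_lit 165) (nat_lit 5) (nat_lit 410) (nat_lit 379) (nat_lit 111)))) (XT.nd (nat_lit 78) (nat_lit 456) (nat_lit 0) (XT.lf (nat_lit 0) (nat_lit 13134549644) (nat_lit 532) (nat_lit 26264532053) (nat_lit 76) (nat_lit 31227879402) (nat_lit 164) (nat_lit 5) (nat_lit 171) (nat_lit 5) (nat_lit 165) (nat_lit 5) (nat_lit 411) (nat_lit 379) (nat_lit 110)) (XT.nd (nat_lit 78) (nat_lit 0) (nat_lit 0) (XT.lf (nat_lit 0) (nat_lit 11104961926) (nat_lit 456) (nat_lit 11516171448) (nat_lit 532) (nat_lit 49255883945)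 (nat_lit 158) (nat_lit 5) (nat_lit 164) (nat_lit 5) (nat_lit 165) (nat_lit 5) (nat_lit 412) (nat_lit 379) (nat_lit 109)) (XT.lf (nat_lit 0) (nat_lit 32824899178) (nat_lit 532) (nat_lit 23191424094) (nat_lit 76) (nat_lit 17135274740) (nat_lit 158) (nat_lit 5) (nat_lit 165) (nat_lit 5) (nat_lit 159) (nat_lit 5) (nat_lit 413) (nat_lit 379) (nat_lit 108))))) (XT.nd (nat_lit 234) (nat_lit 532) (nat_lit 0) (XT.nd (nat_lit 78) (nat_lit 380) (nat_lit 0) (XT.lf (nat_lit 0) (nat_lit 15708404540) (nat_lit 456) (nat_lit 27890782458) (nat_lit 532) (nat_lit 30857297173) (nat_lit 152) (nat_lit 5) (nat_lit 158) (nat_lit 5) (nat_lit 159) (nat_lit 5) (nat_lit 414) (nat_lit 379) (nat_lit 107)) (XT.nd (nat_lit 78) (nat_lit 380) (nat_lit 0) (XT.lf (nat_lit 0) (nat_lit 54942975966) (nat_lit 532) (nat_lit 19556285601) (nat_lit 76) (nat_lit 1293867480) (nat_lit 152) (nat_lit 5) (nat_lit 159) (nat_lit 5) (nat_lit 153) (nat_lit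 5) (nat_lit 415) (nat_lit 379) (nat_lit 106)) (XT.lf (nat_lit 0) (nat_lit 20943074507) (nat_lit 380) (nat_lit 46160884091) (nat_lit 456) (nat_lit 10051608569) (nat_lit 147) (nat_lit 5) (nat_lit 152) (nat_lit 5) (nat_lit 153) (nat_lit 5) (nat_lit 416) (nat_lit 379) (nat_lit 105)))) (XT.nd (nat_lit 43992) (nat_lit 0) (nat_lit 6308) (XT.nd (nat_lit 78) (nat_lit 456) (nat_lit 0) (XT.lf (nat_lit 0) (nat_lit 1248850920) (nat_lit 456) (nat_lit 15507624243) (nat_lit 76) (nat_lit 61796129058) (nat_lit 146) (nat_lit 5) (nat_lit 152) (nat_lit 5) (nat_lit 147) (nat_lit 5) (nat_lit 417) (nat_lit 379) (nat_lit 104)) (XT.lf (nat_lit 0) (nat_lit 13077353164) (nat_lit 532) (nat_lit 53272488732) (nat_lit 76) (nat_lit 13626993448) (nat_lit 140) (nat_lit 5) (nat_lit 147) (nat_lit 5) (nat_lit 141) (nat_lit 5) (nat_lit 418) (nat_lit 379) (nat_lit 103))) (XT.nd (nat_lit 78) (nat_lit 0) (nat_lit 0) (XT.lf (nat_lit 0) (nat_lit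 348192681) (nat_lit 1292) (nat_lit 10674586920) (nat_lit 1292) (nat_lit 10674586920) (nat_lit 223) (nat_lit 3) (nat_lit 240) (nat_lit 3) (nat_lit 240) (nat_lit 5) (nat_lit 380) (nat_lit 380) (nat_lit 140)) (XT.lf (nat_lit 0) (nat_lit 740873314) (nat_lit 1292) (nat_lit 809929238) (nat_lit 1292) (nat_lit 42493808735) (nat_lit 223) (nat_lit 3) (nat_lit 240) (nat_lit 3) (nat_lit 240) (nat_lit 5) (nat_lit 381) (nat_lit 380) (nat_lit 139)))))) (XT.nd (nat_lit 546) (nat_lit 0) (nat_lit 228) (XT.nd (nat_lit 234) (nat_lit 0) (nat_lit 76) (XT.nd (nat_lit 78) (nat_lit 0) (nat_lit 0) (XT.lf (nat_lit 0) (nat_lit 1174818387) (nat_lit 1216) (nat_lit 24148325318) (nat_lit 1292) (nat_lit 19379199338) (nat_lit 224) (nat_lit 5) (nat_lit 240) (nat_lit 5) (nat_lit 241) (nat_lit 5) (nat_lit 382) (nat_lit 380) (nat_lit 138)) (XT.nd (nat_lit 78) (nat_lit 0) (nat_lit 76) (XT.lf (nat_lit 0) (nat_lit 1644105521) (nat_lit 1216) (nat_lit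 2820234566) (nat_lit 1292) (nat_lit 40914797767) (nat_lit 224) (nat_lit 5) (nat_lit 240) (nat_lit 5) (nat_lit 241) (nat_lit 5) (nat_lit 383) (nat_lit 380) (nat_lit 137)) (XT.lf (nat_lit 0) (nat_lit 2479406761) (nat_lit 1216) (nat_lit 26708056934) (nat_lit 1292) (nat_lit 16878215538) (nat_lit 225) (nat_lit 5) (nat_lit 241) (nat_lit 5) (nat_lit 242) (nat_lit 5) (nat_lit 384) (nat_lit 380) (nat_lit 136)))) (XT.nd (nat_lit 156) (nat_lit 0) (nat_lit 76) (XT.nd (nat_lit 78) (nat_lit 0) (nat_lit 76) (XT.lf (nat_lit 0) (nat_lit 3411511248) (nat_lit 1216) (nat_lit 4558557070) (nat_lit 1292) (nat_lit 38800596979) (nat_lit 225) (nat_lit 5) (nat_lit 241) (nat_lit 5) (nat_lit 242) (nat_lit 5) (nat_lit 385) (nat_lit 380) (nat_lit 135)) (XT.lf (nat_lit 0) (nat_lit 4684600601) (nat_lit 1216) (nat_lit 29008688921) (nat_lit 1292) (nat_lit 13794121514) (nat_lit 226) (nat_lit 5) (nat_lit 242) (nat_lit 5) (nat_lit 243) (nat_lit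 5) (nat_lit 386) (nat_lit 380) (nat_lit 134))) (XT.nd (nat_lit 78) (nat_lit 0) (nat_lit 76) (XT.lf (nat_lit 0) (nat_lit 6120131848) (nat_lit 1216) (nat_lit 6003829143) (nat_lit 1292) (nat_lit 36097971402) (nat_lit 226) (nat_lit 5) (nat_lit 242) (nat_lit 5) (nat_lit 243) (nat_lit 5) (nat_lit 387) (nat_lit 380) (nat_lit 133)) (XT.lf (nat_lit 0) (nat_lit 7869783420) (nat_lit 1216) (nat_lit 31029532635) (nat_lit 1292) (nat_lit 10071042406) (nat_lit 227) (nat_lit 5) (nat_lit 243) (nat_lit 5) (nat_lit 244) (nat_lit 5) (nat_lit 388) (nat_lit 380) (nat_lit 132))))) (XT.nd (nat_lit 234) (nat_lit 0) (nat_lit 152) (XT.nd (nat_lit 78) (nat_lit 0) (nat_lit 76) (XT.lf (nat_lit 0) (nat_lit 9852103010) (nat_lit 1216) (nat_lit 7133922236) (nat_lit 1292) (nat_lit 32749807394) (nat_lit 227) (nat_lit 5) (nat_lit 243) (nat_lit 5) (nat_lit 244) (nat_lit 5) (nat_lit 389) (nat_lit 380) (nat_lit 131)) (XT.nd (nat_lit 78) (nat_lit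 0) (nat_lit 0) (XT.lf (nat_lit 0) (nat_lit 12119569989) (nat_lit 1216) (nat_lit 32748881558) (nat_lit 1292) (nat_lit 5649049825) (nat_lit 228) (nat_lit 5) (nat_lit 244) (nat_lit 5) (nat_lit 245) (nat_lit 5) (nat_lit 390) (nat_lit 380) (nat_lit 130)) (XT.lf (nat_lit 0) (nat_lit 14694961788) (nat_lit 1216) (nat_lit 7925636771) (nat_lit 1292) (nat_lit 28694825224) (nat_lit 228) (nat_lit 5) (nat_lit 244) (nat_lit 5) (nat_lit 245) (nat_lit 5) (nat_lit 391) (nat_lit 380) (nat_lit 129)))) (XT.nd (nat_lit 156) (nat_lit 0) (nat_lit 0) (XT.nd (nat_lit 78) (nat_lit 0) (nat_lit 0) (XT.lf (nat_lit 0) (nat_lit 17524119983) (nat_lit 1216) (nat_lit 34144006733) (nat_lit 1292) (nat_lit 463862636) (nat_lit 229) (nat_lit 5) (nat_lit 245) (nat_lit 5) (nat_lit 246) (nat_lit 5) (nat_lit 392) (nat_lit 380) (nat_lit 128)) (XT.lf (nat_lit 0) (nat_lit 20741969913) (nat_lit 1216) (nat_lit 8354696632) (nat_lit 1292) (nat_lit 23867271440)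 (nat_lit 229) (nat_lit 5) (nat_lit 245) (nat_lit 5) (nat_lit 246) (nat_lit 5) (nat_lit 393) (nat_lit 380) (nat_lit 127))) (XT.nd (nat_lit 78) (nat_lit 0) (nat_lit 76) (XT.lf (nat_lit 76) (nat_lit 18569915612) (nat_lit 0) (nat_lit 5663998383) (nat_lit 1292) (nat_lit 29581604910) (nat_lit 230) (nat_lit 5) (nat_lit 229) (nat_lit 5) (nat_lit 246) (nat_lit 5) (nat_lit 394) (nat_lit 380) (nat_lit 126)) (XT.lf (nat_lit 0) (nat_lit 28092454159) (nat_lit 1216) (nat_lit 8395749063) (nat_lit 1292) (nat_lit 18196589469) (nat_lit 230) (nat_lit 5) (nat_lit 246) (nat_lit 5) (nat_lit 247) (nat_lit 5) (nat_lit 395) (nat_lit 380) (nat_lit 125))))))) (XT.nd (nat_lit 1014) (nat_lit 2280) (nat_lit 0) (XT.nd (nat_lit 468) (nat_lit 2280) (nat_lit 0) (XT.nd (nat_lit 234) (nat_lit 608) (nat_lit 0) (XT.nd (nat_lit 78) (nat_lit 1140) (nat_lit 0) (XT.lf (nat_lit 76) (nat_lit 19584950844) (nat_lit 0) (nat_lit 12725243926) (nat_lit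 1292) (nat_lit 23262647147) (nat_lit 231) (nat_lit 5) (nat_lit 230) (nat_lit 5) (nat_lit 247) (nat_lit 5) (nat_lit 396) (nat_lit 380) (nat_lit 124)) (XT.nd (nat_lit 78) (nat_lit 1216) (nat_lit 0) (XT.lf (nat_lit 0) (nat_lit 36852164561) (nat_lit 1216) (nat_lit 8022370891) (nat_lit 76) (nat_lit 11607066797) (nat_lit 231) (nat_lit 5) (nat_lit 247) (nat_lit 5) (nat_lit 232) (nat_lit 5) (nat_lit 397) (nat_lit 380) (nat_lit 123)) (XT.lf (nat_lit 0) (nat_lit 21066462561) (nat_lit 1216) (nat_lit 20791575618) (nat_lit 1292) (nat_lit 15549758393) (nat_lit 215) (nat_lit 5) (nat_lit 231) (nat_lit 5) (nat_lit 232) (nat_lit 5) (nat_lit 398) (nat_lit 380) (nat_lit 122)))) (XT.nd (nat_lit 78) (nat_lit 608) (nat_lit 0) (XT.lf (nat_lit 0) (nat_lit 47133651286) (nat_lit 1292) (nat_lit 7207082121) (nat_lit 76) (nat_lit 4017456927) (nat_lit 215) (nat_lit 5) (nat_lit 232) (nat_lit 5) (nat_lit 216) (nat_lit 5) (nat_lit 399)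 (nat_lit 380) (nat_lit 121)) (XT.nd (nat_lit 78) (nat_lit 0) (nat_lit 0) (XT.lf (nat_lit 0) (nat_lit 23044277606) (nat_lit 608) (nat_lit 29949819491) (nat_lit 684) (nat_lit 6330202375) (nat_lit 207) (nat_lit 5) (nat_lit 215) (nat_lit 5) (nat_lit 216) (nat_lit 5) (nat_lit 400) (nat_lit 380) (nat_lit 120)) (XT.lf (nat_lit 0) (nat_lit 54350184101) (nat_lit 608) (nat_lit 4752157527) (nat_lit 684) (nat_lit 1214891173) (nat_lit 207) (nat_lit 5) (nat_lit 215) (nat_lit 5) (nat_lit 216) (nat_lit 5) (nat_lit 401) (nat_lit 380) (nat_lit 119))))) (XT.nd (nat_lit 234) (nat_lit 1064) (nat_lit 0) (XT.nd (nat_lit 78) (nat_lit 608) (nat_lit 0) (XT.lf (nat_lit 0) (nat_lit 4427843579) (nat_lit 608) (nat_lit 35820568787) (nat_lit 76) (nat_lit 21076781065) (nat_lit 199) (nat_lit 5) (nat_lit 207) (nat_lit 5) (nat_lit 200) (nat_lit 5) (nat_lit 402) (nat_lit 380) (nat_lit 118)) (XT.nd (nat_lit 78) (nat_lit 608) (nat_lit 0) (XT.lf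 (nat_lit 0) (nat_lit 10322584475) (nat_lit 608) (nat_lit 4379237943) (nat_lit 76) (nat_lit 47657995774) (nat_lit 199) (nat_lit 5) (nat_lit 207) (nat_lit 5) (nat_lit 200) (nat_lit 5) (nat_lit 403) (nat_lit 380) (nat_lit 117)) (XT.lf (nat_lit 0) (nat_lit 16782315992) (nat_lit 684) (nat_lit 34969641928) (nat_lit 76) (nat_lit 11661879749) (nat_lit 191) (nat_lit 5) (nat_lit 200) (nat_lit 5) (nat_lit 192) (nat_lit 5) (nat_lit 404) (nat_lit 380) (nat_lit 116)))) (XT.nd (nat_lit 156) (nat_lit 532) (nat_lit 0) (XT.nd (nat_lit 78) (nat_lit 532) (nat_lit 0) (XT.lf (nat_lit 0) (nat_lit 23625337576) (nat_lit 684) (nat_lit 2302785786) (nat_lit 76) (nat_lit 38565669836) (nat_lit 191) (nat_lit 5) (nat_lit 200) (nat_lit 5) (nat_lit 192) (nat_lit 5) (nat_lit 405) (nat_lit 380) (nat_lit 115)) (XT.lf (nat_lit 0) (nat_lit 30989721596) (nat_lit 608) (nat_lit 33639282089) (nat_lit 76) (nat_lit 967661956) (nat_lit 184) (nat_lit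 5) (nat_lit 192) (nat_lit 5) (nat_lit 185) (nat_lit 5) (nat_lit 406) (nat_lit 380) (nat_lit 114))) (XT.nd (nat_lit 78) (nat_lit 0) (nat_lit 0) (XT.lf (nat_lit 0) (nat_lit 308992195) (nat_lit 532) (nat_lit 38548523650) (nat_lit 608) (nat_lit 27866634439) (nat_lit 177) (nat_lit 5) (nat_lit 184) (nat_lit 5) (nat_lit 185) (nat_lit 5) (nat_lit 407) (nat_lit 380) (nat_lit 113)) (XT.lf (nat_lit 0) (nat_lit 35964564957) (nat_lit 532) (nat_lit 11335793435) (nat_lit 608) (nat_lit 20574931019) (nat_lit 177) (nat_lit 5) (nat_lit 184) (nat_lit 5) (nat_lit 185) (nat_lit 5) (nat_lit 408) (nat_lit 380) (nat_lit 112)))))) (XT.nd (nat_lit 546) (nat_lit 380) (nat_lit 0) (XT.nd (nat_lit 234) (nat_lit 912) (nat_lit 0) (XT.nd (nat_lit 78) (nat_lit 532) (nat_lit 0) (XT.lf (nat_lit 0) (nat_lit 3536668272) (nat_lit 456) (nat_lit 52653623904) (nat_lit 532) (nat_lit 12864856722) (nat_lit 171) (nat_lit 5) (nat_lit 177) (nat_lit 5)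 (nat_lit 178) (nat_lit 5) (nat_lit 409) (nat_lit 380) (nat_lit 111)) (XT.nd (nat_lit 78) (nat_lit 532) (nat_lit 0) (XT.lf (nat_lit 0) (nat_lit 40586438465) (nat_lit 456) (nat_lit 25193211715) (nat_lit 532) (nat_lit 4477772560) (nat_lit 171) (nat_lit 5) (nat_lit 177) (nat_lit 5) (nat_lit 178) (nat_lit 5) (nat_lit 410) (nat_lit 380) (nat_lit 110)) (XT.lf (nat_lit 0) (nat_lit 4180603352) (nat_lit 532) (nat_lit 64168519665) (nat_lit 76) (nat_lit 3142415981) (nat_lit 164) (nat_lit 5) (nat_lit 171) (nat_lit 5) (nat_lit 165) (nat_lit 5) (nat_lit 411) (nat_lit 380) (nat_lit 109)))) (XT.nd (nat_lit 156) (nat_lit 456) (nat_lit 0) (XT.nd (nat_lit 78) (nat_lit 456) (nat_lit 0) (XT.lf (nat_lit 0) (nat_lit 13560133201) (nat_lit 532) (nat_lit 27016076701) (nat_lit 76) (nat_lit 32168597091) (nat_lit 164) (nat_lit 5) (nat_lit 171) (nat_lit 5) (nat_lit 165) (nat_lit 5) (nat_lit 412) (nat_lit 380) (nat_lit 108)) (XT.lf (nat_lit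 0) (nat_lit 11474145320) (nat_lit 456) (nat_lit 11856596662) (nat_lit 532) (nat_lit 50701640572) (nat_lit 158) (nat_lit 5) (nat_lit 164) (nat_lit 5) (nat_lit 165) (nat_lit 5) (nat_lit 413) (nat_lit 380) (nat_lit 107))) (XT.nd (nat_lit 78) (nat_lit 456) (nat_lit 0) (XT.lf (nat_lit 0) (nat_lit 33839765809) (nat_lit 532) (nat_lit 23851311300) (nat_lit 76) (nat_lit 17654149673) (nat_lit 158) (nat_lit 5) (nat_lit 165) (nat_lit 5) (nat_lit 159) (nat_lit 5) (nat_lit 414) (nat_lit 380) (nat_lit 106)) (XT.lf (nat_lit 0) (nat_lit 16215160668) (nat_lit 456) (nat_lit 28721585611) (nat_lit 532) (nat_lit 31752529782) (nat_lit 152) (nat_lit 5) (nat_lit 158) (nat_lit 5) (nat_lit 159) (nat_lit 5) (nat_lit 415) (nat_lit 380) (nat_lit 105))))) (XT.nd (nat_lit 44226) (nat_lit 0) (nat_lit 5776) (XT.nd (nat_lit 78) (nat_lit 380) (nat_lit 0) (XT.lf (nat_lit 0) (nat_lit 56620042507) (nat_lit 532) (nat_lit 20107683182) (nat_lit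 76) (nat_lit 1338319227) (nat_lit 152) (nat_lit 5) (nat_lit 159) (nat_lit 5) (nat_lit 153) (nat_lit 5) (nat_lit 416) (nat_lit 380) (nat_lit 104)) (XT.nd (nat_lit 44070) (nat_lit 0) (nat_lit 5776) (XT.lf (nat_lit 0) (nat_lit 21606311739) (nat_lit 380) (nat_lit 47539040619) (nat_lit 456) (nat_lit 10324019316) (nat_lit 147) (nat_lit 5) (nat_lit 152) (nat_lit 5) (nat_lit 153) (nat_lit 5) (nat_lit 417) (nat_lit 380) (nat_lit 103)) (XT.lf (nat_lit 0) (nat_lit 392353399) (nat_lit 1292) (nat_lit 10977450695) (nat_lit 1292) (nat_lit 10977450695) (nat_lit 223) (nat_lit 3) (nat_lit 240) (nat_lit 3) (nat_lit 240) (nat_lit 5) (nat_lit 381) (nat_lit 381) (nat_lit 138)))) (XT.nd (nat_lit 156) (nat_lit 0) (nat_lit 76) (XT.nd (nat_lit 78) (nat_lit 0) (nat_lit 76) (XT.lf (nat_lit 0) (nat_lit 828565411) (nat_lit 1292) (nat_lit 800491518) (nat_lit 1292) (nat_lit 43734887399) (nat_lit 223) (nat_lit 3) (nat_lit 240) (nat_lit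 3) (nat_lit 240) (nat_lit 5) (nat_lit 382) (nat_lit 381) (nat_lit 137)) (XT.lf (nat_lit 0) (nat_lit 1273650222) (nat_lit 1216) (nat_lit 24837120748) (nat_lit 1292) (nat_lit 19930694627) (nat_lit 224) (nat_lit 5) (nat_lit 240) (nat_lit 5) (nat_lit 241) (nat_lit 5) (nat_lit 383) (nat_lit 381) (nat_lit 136))) (XT.nd (nat_lit 78) (nat_lit 0) (nat_lit 76) (XT.lf (nat_lit 0) (nat_lit 1755163913) (nat_lit 1216) (nat_lit 2870225749) (nat_lit 1292) (nat_lit 42113231320) (nat_lit 224) (nat_lit 5) (nat_lit 240) (nat_lit 5) (nat_lit 241) (nat_lit 5) (nat_lit 384) (nat_lit 381) (nat_lit 135)) (XT.lf (nat_lit 0) (nat_lit 2613805731) (nat_lit 1216) (nat_lit 27472926515) (nat_lit 1292) (nat_lit 17359079047) (nat_lit 225) (nat_lit 5) (nat_lit 241) (nat_lit 5) (nat_lit 242) (nat_lit 5) (nat_lit 385) (nat_lit 381) (nat_lit 134))))))))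
noncomputable def xc248 : XT := (XT.nd (nat_lit 2028) (nat_lit 1444) (nat_lit 0) (XT.nd (nat_lit 1014) (nat_lit 4104) (nat_lit 0) (XT.nd (nat_lit 468) (nat_lit 0) (nat_lit 228) (XT.nd (nat_lit 234) (nat_lit 0) (nat_lit 152) (XT.nd (nat_lit 78) (nat_lit 0) (nat_lit 76) (XT.lf (nat_lit 0) (nat_lit 3572125291) (nat_lit 1216) (nat_lit 4660001037) (nat_lit 1292) (nat_lit 39939874154) (nat_lit 225) (nat_lit 5) (nat_lit 241) (nat_lit 5) (nat_lit 242) (nat_lit 5) (nat_lit 386) (nat_lit 381) (nat_lit 133)) (XT.nd (nat_lit 78) (nat_lit 0) (nat_lit 0) (XT.lf (nat_lit 0) (nat_lit 4881835386) (nat_lit 1216) (nat_lit 29842029261) (nat_lit 1292) (nat_lit 14186432173) (nat_lit 226) (nat_lit 5) (nat_lit 242) (nat_lit 5) (nat_lit 243) (nat_lit 5) (nat_lit 387) (nat_lit 381) (nat_lit 132)) (XT.lf (nat_lit 0) (nat_lit 6358781208) (nat_lit 1216) (nat_lit 6148099039) (nat_lit 1292) (nat_lit 37160024149) (nat_lit 226) (nat_lit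 5) (nat_lit 242) (nat_lit 5) (nat_lit 243) (nat_lit 5) (nat_lit 388) (nat_lit 381) (nat_lit 131)))) (XT.nd (nat_lit 78) (nat_lit 0) (nat_lit 0) (XT.lf (nat_lit 0) (nat_lit 8159484437) (nat_lit 1216) (nat_lit 31923102148) (nat_lit 1292) (nat_lit 10355240807) (nat_lit 227) (nat_lit 5) (nat_lit 243) (nat_lit 5) (nat_lit 244) (nat_lit 5) (nat_lit 389) (nat_lit 381) (nat_lit 130)) (XT.nd (nat_lit 78) (nat_lit 0) (nat_lit 76) (XT.lf (nat_lit 0) (nat_lit 10199712231) (nat_lit 1216) (nat_lit 7311710324) (nat_lit 1292) (nat_lit 33714891061) (nat_lit 227) (nat_lit 5) (nat_lit 243) (nat_lit 5) (nat_lit 244) (nat_lit 5) (nat_lit 390) (nat_lit 381) (nat_lit 129)) (XT.lf (nat_lit 0) (nat_lit 12533887963) (nat_lit 1216) (nat_lit 33693771500) (nat_lit 1292) (nat_lit 5803813354) (nat_lit 228) (nat_lit 5) (nat_lit 244) (nat_lit 5) (nat_lit 245) (nat_lit 5) (nat_lit 391) (nat_lit 381) (nat_lit 128))))) (XT.nd (nat_lit 234)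 (nat_lit 0) (nat_lit 76) (XT.nd (nat_lit 78) (nat_lit 0) (nat_lit 76) (XT.lf (nat_lit 0) (nat_lit 15185063918) (nat_lit 1216) (nat_lit 8126923831) (nat_lit 1292) (nat_lit 29541390403) (nat_lit 228) (nat_lit 5) (nat_lit 244) (nat_lit 5) (nat_lit 245) (nat_lit 5) (nat_lit 392) (nat_lit 381) (nat_lit 127)) (XT.nd (nat_lit 78) (nat_lit 0) (nat_lit 0) (XT.lf (nat_lit 0) (nat_lit 18097893796) (nat_lit 1216) (nat_lit 35130611977) (nat_lit 1292) (nat_lit 465971902) (nat_lit 229) (nat_lit 5) (nat_lit 245) (nat_lit 5) (nat_lit 246) (nat_lit 5) (nat_lit 393) (nat_lit 381) (nat_lit 126)) (XT.lf (nat_lit 0) (nat_lit 21410879702) (nat_lit 1216) (nat_lit 8568721068) (nat_lit 1292) (nat_lit 24571826852) (nat_lit 229) (nat_lit 5) (nat_lit 245) (nat_lit 5) (nat_lit 246) (nat_lit 5) (nat_lit 394) (nat_lit 381) (nat_lit 125)))) (XT.nd (nat_lit 156) (nat_lit 0) (nat_lit 76) (XT.nd (nat_lit 78) (nat_lit 0) (nat_lit 76) (XT.lf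 (nat_lit 76) (nat_lit 19163270559) (nat_lit 0) (nat_lit 5843301319) (nat_lit 1292) (nat_lit 30422015243) (nat_lit 230) (nat_lit 5) (nat_lit 229) (nat_lit 5) (nat_lit 246) (nat_lit 5) (nat_lit 395) (nat_lit 381) (nat_lit 124)) (XT.lf (nat_lit 0) (nat_lit 28979451345) (nat_lit 1216) (nat_lit 8610975880) (nat_lit 1292) (nat_lit 18733555221) (nat_lit 230) (nat_lit 5) (nat_lit 246) (nat_lit 5) (nat_lit 247) (nat_lit 5) (nat_lit 396) (nat_lit 381) (nat_lit 123))) (XT.nd (nat_lit 78) (nat_lit 0) (nat_lit 76) (XT.lf (nat_lit 76) (nat_lit 20208785753) (nat_lit 0) (nat_lit 13113999164) (nat_lit 1292) (nat_lit 23915917206) (nat_lit 231) (nat_lit 5) (nat_lit 230) (nat_lit 5) (nat_lit 247) (nat_lit 5) (nat_lit 397) (nat_lit 381) (nat_lit 122)) (XT.lf (nat_lit 0) (nat_lit 37999687785) (nat_lit 1216) (nat_lit 8226460752) (nat_lit 76) (nat_lit 11948617282) (nat_lit 231) (nat_lit 5) (nat_lit 247) (nat_lit 5) (nat_lit 232)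 (nat_lit 5) (nat_lit 398) (nat_lit 381) (nat_lit 121)))))) (XT.nd (nat_lit 468) (nat_lit 2128) (nat_lit 0) (XT.nd (nat_lit 234) (nat_lit 608) (nat_lit 0) (XT.nd (nat_lit 78) (nat_lit 608) (nat_lit 0) (XT.lf (nat_lit 0) (nat_lit 21734679064) (nat_lit 1216) (nat_lit 21420184656) (nat_lit 1292) (nat_lit 15973909218) (nat_lit 215) (nat_lit 5) (nat_lit 231) (nat_lit 5) (nat_lit 232) (nat_lit 5) (nat_lit 399) (nat_lit 381) (nat_lit 120)) (XT.nd (nat_lit 78) (nat_lit 608) (nat_lit 0) (XT.lf (nat_lit 0) (nat_lit 48587503213) (nat_lit 1292) (nat_lit 7386860709) (nat_lit 76) (nat_lit 4133352579) (nat_lit 215) (nat_lit 5) (nat_lit 232) (nat_lit 5) (nat_lit 216) (nat_lit 5) (nat_lit 400) (nat_lit 381) (nat_lit 119)) (XT.lf (nat_lit 0) (nat_lit 23771682615) (nat_lit 608) (nat_lit 30851266117) (nat_lit 684) (nat_lit 6479885298) (nat_lit 207) (nat_lit 5) (nat_lit 215) (nat_lit 5) (nat_lit 216) (nat_lit 5) (nat_lit 401)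 (nat_lit 381) (nat_lit 118)))) (XT.nd (nat_lit 78) (nat_lit 608) (nat_lit 0) (XT.lf (nat_lit 0) (nat_lit 56015715528) (nat_lit 608) (nat_lit 4897588313) (nat_lit 684) (nat_lit 1212286308) (nat_lit 207) (nat_lit 5) (nat_lit 215) (nat_lit 5) (nat_lit 216) (nat_lit 5) (nat_lit 402) (nat_lit 381) (nat_lit 117)) (XT.nd (nat_lit 78) (nat_lit 0) (nat_lit 0) (XT.lf (nat_lit 0) (nat_lit 4598174309) (nat_lit 608) (nat_lit 36858559992) (nat_lit 76) (nat_lit 21707068505) (nat_lit 199) (nat_lit 5) (nat_lit 207) (nat_lit 5) (nat_lit 200) (nat_lit 5) (nat_lit 403) (nat_lit 381) (nat_lit 116)) (XT.lf (nat_lit 0) (nat_lit 10668665332) (nat_lit 608) (nat_lit 4475055995) (nat_lit 76) (nat_lit 49085778374) (nat_lit 199) (nat_lit 5) (nat_lit 207) (nat_lit 5) (nat_lit 200) (nat_lit 5) (nat_lit 404) (nat_lit 381) (nat_lit 115))))) (XT.nd (nat_lit 234) (nat_lit 988) (nat_lit 0) (XT.nd (nat_lit 78) (nat_lit 532) (nat_lit 0) (XT.lf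 (nat_lit 0) (nat_lit 17321462440) (nat_lit 684) (nat_lit 35982425418) (nat_lit 76) (nat_lit 12011274304) (nat_lit 191) (nat_lit 5) (nat_lit 200) (nat_lit 5) (nat_lit 192) (nat_lit 5) (nat_lit 405) (nat_lit 381) (nat_lit 114)) (XT.nd (nat_lit 78) (nat_lit 532) (nat_lit 0) (XT.lf (nat_lit 0) (nat_lit 24368735537) (nat_lit 684) (nat_lit 2336621042) (nat_lit 76) (nat_lit 39722191545) (nat_lit 191) (nat_lit 5) (nat_lit 200) (nat_lit 5) (nat_lit 192) (nat_lit 5) (nat_lit 406) (nat_lit 381) (nat_lit 113)) (XT.lf (nat_lit 0) (nat_lit 31953386735) (nat_lit 608) (nat_lit 34612528730) (nat_lit 76) (nat_lit 997611780) (nat_lit 184) (nat_lit 5) (nat_lit 192) (nat_lit 5) (nat_lit 185) (nat_lit 5) (nat_lit 407) (nat_lit 381) (nat_lit 112)))) (XT.nd (nat_lit 156) (nat_lit 456) (nat_lit 0) (XT.nd (nat_lit 78) (nat_lit 0) (nat_lit 0) (XT.lf (nat_lit 0) (nat_lit 353841509) (nat_lit 532) (nat_lit 39702725795) (nat_lit 608)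 (nat_lit 28668289107) (nat_lit 177) (nat_lit 5) (nat_lit 184) (nat_lit 5) (nat_lit 185) (nat_lit 5) (nat_lit 408) (nat_lit 381) (nat_lit 111)) (XT.lf (nat_lit 0) (nat_lit 37078045156) (nat_lit 532) (nat_lit 11673679311) (nat_lit 608) (nat_lit 21158834905) (nat_lit 177) (nat_lit 5) (nat_lit 184) (nat_lit 5) (nat_lit 185) (nat_lit 5) (nat_lit 409) (nat_lit 381) (nat_lit 110))) (XT.nd (nat_lit 78) (nat_lit 0) (nat_lit 0) (XT.lf (nat_lit 0) (nat_lit 3677931113) (nat_lit 456) (nat_lit 54229841190) (nat_lit 532) (nat_lit 13218060387) (nat_lit 171) (nat_lit 5) (nat_lit 177) (nat_lit 5) (nat_lit 178) (nat_lit 5) (nat_lit 410) (nat_lit 381) (nat_lit 109)) (XT.lf (nat_lit 0) (nat_lit 41838170253) (nat_lit 456) (nat_lit 25945715415) (nat_lit 532) (nat_lit 4580317352) (nat_lit 171) (nat_lit 5) (nat_lit 177) (nat_lit 5) (nat_lit 178) (nat_lit 5) (nat_lit 411) (nat_lit 381) (nat_lit 108))))))) (XT.nd (nat_lit 45084)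 (nat_lit 0) (nat_lit 4180) (XT.nd (nat_lit 44538) (nat_lit 0) (nat_lit 5396) (XT.nd (nat_lit 234) (nat_lit 456) (nat_lit 0) (XT.nd (nat_lit 78) (nat_lit 456) (nat_lit 0) (XT.lf (nat_lit 0) (nat_lit 4336649673) (nat_lit 532) (nat_lit 66058243882) (nat_lit 76) (nat_lit 3240456719) (nat_lit 164) (nat_lit 5) (nat_lit 171) (nat_lit 5) (nat_lit 165) (nat_lit 5) (nat_lit 412) (nat_lit 381) (nat_lit 107)) (XT.nd (nat_lit 78) (nat_lit 456) (nat_lit 0) (XT.lf (nat_lit 0) (nat_lit 13996673334) (nat_lit 532) (nat_lit 27792256699) (nat_lit 76) (nat_lit 33137313507) (nat_lit 164) (nat_lit 5) (nat_lit 171) (nat_lit 5) (nat_lit 165) (nat_lit 5) (nat_lit 413) (nat_lit 381) (nat_lit 106)) (XT.lf (nat_lit 0) (nat_lit 11852335686) (nat_lit 456) (nat_lit 12207525092) (nat_lit 532) (nat_lit 52192602230) (nat_lit 158) (nat_lit 5) (nat_lit 164) (nat_lit 5) (nat_lit 165) (nat_lit 5) (nat_lit 414) (nat_lit 381) (nat_lit 105))))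 (XT.nd (nat_lit 78) (nat_lit 456) (nat_lit 0) (XT.lf (nat_lit 0) (nat_lit 34883349448) (nat_lit 532) (nat_lit 24533053376) (nat_lit 76) (nat_lit 18188314357) (nat_lit 158) (nat_lit 5) (nat_lit 165) (nat_lit 5) (nat_lit 159) (nat_lit 5) (nat_lit 415) (nat_lit 381) (nat_lit 104)) (XT.nd (nat_lit 78) (nat_lit 0) (nat_lit 0) (XT.lf (nat_lit 0) (nat_lit 16735081405) (nat_lit 456) (nat_lit 29577652709) (nat_lit 532) (nat_lit 32676369408) (nat_lit 152) (nat_lit 5) (nat_lit 158) (nat_lit 5) (nat_lit 159) (nat_lit 5) (nat_lit 416) (nat_lit 381) (nat_lit 103)) (XT.lf (nat_lit 0) (nat_lit 58345769112) (nat_lit 532) (nat_lit 20677648536) (nat_lit 76) (nat_lit 1383781012) (nat_lit 152) (nat_lit 5) (nat_lit 159) (nat_lit 5) (nat_lit 153) (nat_lit 5) (nat_lit 417) (nat_lit 381) (nat_lit 102))))) (XT.nd (nat_lit 234) (nat_lit 0) (nat_lit 76) (XT.nd (nat_lit 78) (nat_lit 0) (nat_lit 0) (XT.lf (nat_lit 0) (nat_lit 435903562)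 (nat_lit 1292) (nat_lit 11290397712) (nat_lit 1292) (nat_lit 11290397712) (nat_lit 223) (nat_lit 3) (nat_lit 240) (nat_lit 3) (nat_lit 240) (nat_lit 5) (nat_lit 382) (nat_lit 382) (nat_lit 136)) (XT.nd (nat_lit 78) (nat_lit 0) (nat_lit 76) (XT.lf (nat_lit 0) (nat_lit 915130261) (nat_lit 1292) (nat_lit 792707227) (nat_lit 1292) (nat_lit 45015134985) (nat_lit 223) (nat_lit 3) (nat_lit 240) (nat_lit 3) (nat_lit 240) (nat_lit 5) (nat_lit 383) (nat_lit 382) (nat_lit 135)) (XT.lf (nat_lit 0) (nat_lit 1371796842) (nat_lit 1216) (nat_lit 25548626746) (nat_lit 1292) (nat_lit 20500450049) (nat_lit 224) (nat_lit 5) (nat_lit 240) (nat_lit 5) (nat_lit 241) (nat_lit 5) (nat_lit 384) (nat_lit 382) (nat_lit 134)))) (XT.nd (nat_lit 156) (nat_lit 0) (nat_lit 76) (XT.nd (nat_lit 78) (nat_lit 0) (nat_lit 76) (XT.lf (nat_lit 0) (nat_lit 1866010203) (nat_lit 1216) (nat_lit 2923703760) (nat_lit 1292) (nat_lit 43349283195) (nat_lit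 224) (nat_lit 5) (nat_lit 240) (nat_lit 5) (nat_lit 241) (nat_lit 5) (nat_lit 385) (nat_lit 382) (nat_lit 133)) (XT.lf (nat_lit 0) (nat_lit 2748791462) (nat_lit 1216) (nat_lit 28262830092) (nat_lit 1292) (nat_lit 17855831288) (nat_lit 225) (nat_lit 5) (nat_lit 241) (nat_lit 5) (nat_lit 242) (nat_lit 5) (nat_lit 386) (nat_lit 382) (nat_lit 132))) (XT.nd (nat_lit 78) (nat_lit 0) (nat_lit 76) (XT.lf (nat_lit 0) (nat_lit 3734212894) (nat_lit 1216) (nat_lit 4766515419) (nat_lit 1292) (nat_lit 41114749863) (nat_lit 225) (nat_lit 5) (nat_lit 241) (nat_lit 5) (nat_lit 242) (nat_lit 5) (nat_lit 387) (nat_lit 382) (nat_lit 131)) (XT.lf (nat_lit 0) (nat_lit 5081732589) (nat_lit 1216) (nat_lit 30702489189) (nat_lit 1292) (nat_lit 14591747085) (nat_lit 226) (nat_lit 5) (nat_lit 242) (nat_lit 5) (nat_lit 243) (nat_lit 5) (nat_lit 388) (nat_lit 382) (nat_lit 130)))))) (XT.nd (nat_lit 546) (nat_lit 1444) (nat_lit 0) (XT.nd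 (nat_lit 234) (nat_lit 0) (nat_lit 152) (XT.nd (nat_lit 78) (nat_lit 0) (nat_lit 76) (XT.lf (nat_lit 0) (nat_lit 6601430218) (nat_lit 1216) (nat_lit 6298754681) (nat_lit 1292) (nat_lit 38255137443) (nat_lit 226) (nat_lit 5) (nat_lit 242) (nat_lit 5) (nat_lit 243) (nat_lit 5) (nat_lit 389) (nat_lit 382) (nat_lit 129)) (XT.nd (nat_lit 78) (nat_lit 0) (nat_lit 0) (XT.lf (nat_lit 0) (nat_lit 8454799194) (nat_lit 1216) (nat_lit 32845620863) (nat_lit 1292) (nat_lit 10648994581) (nat_lit 227) (nat_lit 5) (nat_lit 243) (nat_lit 5) (nat_lit 244) (nat_lit 5) (nat_lit 390) (nat_lit 382) (nat_lit 128)) (XT.lf (nat_lit 0) (nat_lit 10554762067) (nat_lit 1216) (nat_lit 7496911780) (nat_lit 1292) (nat_lit 34709926676) (nat_lit 227) (nat_lit 5) (nat_lit 243) (nat_lit 5) (nat_lit 244) (nat_lit 5) (nat_lit 391) (nat_lit 382) (nat_lit 127)))) (XT.nd (nat_lit 156) (nat_lit 0) (nat_lit 76) (XT.nd (nat_lit 78) (nat_lit 0) (nat_lit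 0) (XT.lf (nat_lit 0) (nat_lit 12957723317) (nat_lit 1216) (nat_lit 34669165186) (nat_lit 1292) (nat_lit 5964064087) (nat_lit 228) (nat_lit 5) (nat_lit 244) (nat_lit 5) (nat_lit 245) (nat_lit 5) (nat_lit 392) (nat_lit 382) (nat_lit 126)) (XT.lf (nat_lit 0) (nat_lit 15687041772) (nat_lit 1216) (nat_lit 8336343721) (nat_lit 1292) (nat_lit 30414172243) (nat_lit 228) (nat_lit 5) (nat_lit 244) (nat_lit 5) (nat_lit 245) (nat_lit 5) (nat_lit 393) (nat_lit 382) (nat_lit 125))) (XT.nd (nat_lit 78) (nat_lit 0) (nat_lit 0) (XT.lf (nat_lit 0) (nat_lit 18686122545) (nat_lit 1216) (nat_lit 36148980372) (nat_lit 1292) (nat_lit 468822193) (nat_lit 229) (nat_lit 5) (nat_lit 245) (nat_lit 5) (nat_lit 246) (nat_lit 5) (nat_lit 394) (nat_lit 382) (nat_lit 124)) (XT.lf (nat_lit 0) (nat_lit 22097178845) (nat_lit 1216) (nat_lit 8791268172) (nat_lit 1292) (nat_lit 25298176933) (nat_lit 229) (nat_lit 5) (nat_lit 245) (nat_lit 5)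 (nat_lit 246) (nat_lit 5) (nat_lit 395) (nat_lit 382) (nat_lit 123))))) (XT.nd (nat_lit 234) (nat_lit 1672) (nat_lit 0) (XT.nd (nat_lit 78) (nat_lit 0) (nat_lit 76) (XT.lf (nat_lit 76) (nat_lit 19772344826) (nat_lit 0) (nat_lit 6027444722) (nat_lit 1292) (nat_lit 31290338048) (nat_lit 230) (nat_lit 5) (nat_lit 229) (nat_lit 5) (nat_lit 246) (nat_lit 5) (nat_lit 396) (nat_lit 382) (nat_lit 122)) (XT.nd (nat_lit 78) (nat_lit 0) (nat_lit 0) (XT.lf (nat_lit 0) (nat_lit 29890519834) (nat_lit 1216) (nat_lit 8834763112) (nat_lit 1292) (nat_lit 19287142676) (nat_lit 230) (nat_lit 5) (nat_lit 246) (nat_lit 5) (nat_lit 247) (nat_lit 5) (nat_lit 397) (nat_lit 382) (nat_lit 121)) (XT.lf (nat_lit 76) (nat_lit 20849252723) (nat_lit 0) (nat_lit 13514015349) (nat_lit 1292) (nat_lit 24591346126) (nat_lit 231) (nat_lit 5) (nat_lit 230) (nat_lit 5) (nat_lit 247) (nat_lit 5) (nat_lit 398) (nat_lit 382) (nat_lit 120)))) (XT.nd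 (nat_lit 156) (nat_lit 608) (nat_lit 0) (XT.nd (nat_lit 78) (nat_lit 1216) (nat_lit 0) (XT.lf (nat_lit 0) (nat_lit 39179228128) (nat_lit 1216) (nat_lit 8438773223) (nat_lit 76) (nat_lit 12300796679) (nat_lit 231) (nat_lit 5) (nat_lit 247) (nat_lit 5) (nat_lit 232) (nat_lit 5) (nat_lit 399) (nat_lit 382) (nat_lit 119)) (XT.lf (nat_lit 0) (nat_lit 22420862735) (nat_lit 1216) (nat_lit 22067372879) (nat_lit 1292) (nat_lit 16413215168) (nat_lit 215) (nat_lit 5) (nat_lit 231) (nat_lit 5) (nat_lit 232) (nat_lit 5) (nat_lit 400) (nat_lit 382) (nat_lit 118))) (XT.nd (nat_lit 78) (nat_lit 608) (nat_lit 0) (XT.lf (nat_lit 0) (nat_lit 50082683582) (nat_lit 1292) (nat_lit 7574124108) (nat_lit 76) (nat_lit 4252990769) (nat_lit 215) (nat_lit 5) (nat_lit 232) (nat_lit 5) (nat_lit 216) (nat_lit 5) (nat_lit 401) (nat_lit 382) (nat_lit 117)) (XT.lf (nat_lit 0) (nat_lit 24518838825) (nat_lit 608) (nat_lit 31779586682) (nat_lit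 684) (nat_lit 6636367682) (nat_lit 207) (nat_lit 5) (nat_lit 215) (nat_lit 5) (nat_lit 216) (nat_lit 5) (nat_lit 402) (nat_lit 382) (nat_lit 116))))))))
noncomputable def xc249 : XT := (XT.nd (nat_lit 46254) (nat_lit 0) (nat_lit 0) (XT.nd (nat_lit 1014) (nat_lit 0) (nat_lit 0) (XT.nd (nat_lit 468) (nat_lit 1976) (nat_lit 0) (XT.nd (nat_lit 234) (nat_lit 1140) (nat_lit 0) (XT.nd (nat_lit 78) (nat_lit 608) (nat_lit 0) (XT.lf (nat_lit 0) (nat_lit 57729202267) (nat_lit 608) (nat_lit 5047217498) (nat_lit 684) (nat_lit 1211845019) (nat_lit 207) (nat_lit 5) (nat_lit 215) (nat_lit 5) (nat_lit 216) (nat_lit 5) (nat_lit 403) (nat_lit 382) (nat_lit 115)) (XT.nd (nat_lit 78) (nat_lit 0) (nat_lit 0) (XT.lf (nat_lit 0) (nat_lit 4771462570) (nat_lit 608) (nat_lit 37929793408) (nat_lit 76) (nat_lit 22356380294) (nat_lit 199) (nat_lit 5) (nat_lit 207) (nat_lit 5) (nat_lit 200) (nat_lit 5) (nat_lit 404) (nat_lit 382) (nat_lit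 114)) (XT.lf (nat_lit 0) (nat_lit 11023038916) (nat_lit 608) (nat_lit 4575789826) (nat_lit 76) (nat_lit 50556506807) (nat_lit 199) (nat_lit 5) (nat_lit 207) (nat_lit 5) (nat_lit 200) (nat_lit 5) (nat_lit 405) (nat_lit 382) (nat_lit 113)))) (XT.nd (nat_lit 78) (nat_lit 532) (nat_lit 0) (XT.lf (nat_lit 0) (nat_lit 17874735278) (nat_lit 684) (nat_lit 37027676513) (nat_lit 76) (nat_lit 12371177207) (nat_lit 191) (nat_lit 5) (nat_lit 200) (nat_lit 5) (nat_lit 192) (nat_lit 5) (nat_lit 406) (nat_lit 382) (nat_lit 112)) (XT.nd (nat_lit 78) (nat_lit 532) (nat_lit 0) (XT.lf (nat_lit 0) (nat_lit 25132447083) (nat_lit 684) (nat_lit 2373494753) (nat_lit 76) (nat_lit 40913434645) (nat_lit 191) (nat_lit 5) (nat_lit 200) (nat_lit 5) (nat_lit 192) (nat_lit 5) (nat_lit 407) (nat_lit 382) (nat_lit 111)) (XT.lf (nat_lit 0) (nat_lit 32944011610) (nat_lit 608) (nat_lit 35617035405) (nat_lit 76) (nat_lit 1028407290) (nat_lit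 184) (nat_lit 5) (nat_lit 192) (nat_lit 5) (nat_lit 185) (nat_lit 5) (nat_lit 408) (nat_lit 382) (nat_lit 110))))) (XT.nd (nat_lit 234) (nat_lit 988) (nat_lit 0) (XT.nd (nat_lit 78) (nat_lit 456) (nat_lit 0) (XT.lf (nat_lit 0) (nat_lit 397993891) (nat_lit 532) (nat_lit 40891683369) (nat_lit 608) (nat_lit 29495964921) (nat_lit 177) (nat_lit 5) (nat_lit 184) (nat_lit 5) (nat_lit 185) (nat_lit 5) (nat_lit 409) (nat_lit 382) (nat_lit 109)) (XT.nd (nat_lit 78) (nat_lit 456) (nat_lit 0) (XT.lf (nat_lit 0) (nat_lit 38222946838) (nat_lit 532) (nat_lit 12021827360) (nat_lit 608) (nat_lit 21762169993) (nat_lit 177) (nat_lit 5) (nat_lit 184) (nat_lit 5) (nat_lit 185) (nat_lit 5) (nat_lit 410) (nat_lit 382) (nat_lit 108)) (XT.lf (nat_lit 0) (nat_lit 3821413351) (nat_lit 456) (nat_lit 55853539676) (nat_lit 532) (nat_lit 13583739689) (nat_lit 171) (nat_lit 5) (nat_lit 177) (nat_lit 5) (nat_lit 178) (nat_lit 5) (nat_lit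 411) (nat_lit 382) (nat_lit 107)))) (XT.nd (nat_lit 156) (nat_lit 456) (nat_lit 0) (XT.nd (nat_lit 78) (nat_lit 532) (nat_lit 0) (XT.lf (nat_lit 0) (nat_lit 43125494297) (nat_lit 456) (nat_lit 26720983237) (nat_lit 532) (nat_lit 4687763271) (nat_lit 171) (nat_lit 5) (nat_lit 177) (nat_lit 5) (nat_lit 178) (nat_lit 5) (nat_lit 412) (nat_lit 382) (nat_lit 106)) (XT.lf (nat_lit 0) (nat_lit 4495619199) (nat_lit 532) (nat_lit 68006687991) (nat_lit 76) (nat_lit 3341222366) (nat_lit 164) (nat_lit 5) (nat_lit 171) (nat_lit 5) (nat_lit 165) (nat_lit 5) (nat_lit 413) (nat_lit 382) (nat_lit 105))) (XT.nd (nat_lit 78) (nat_lit 456) (nat_lit 0) (XT.lf (nat_lit 0) (nat_lit 14444602694) (nat_lit 532) (nat_lit 28593691189) (nat_lit 76) (nat_lit 34134881403) (nat_lit 164) (nat_lit 5) (nat_lit 171) (nat_lit 5) (nat_lit 165) (nat_lit 5) (nat_lit 414) (nat_lit 382) (nat_lit 104)) (XT.lf (nat_lit 0) (nat_lit 12239921975) (nat_lit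 456) (nat_lit 12569255163) (nat_lit 532) (nat_lit 53730019887) (nat_lit 158) (nat_lit 5) (nat_lit 164) (nat_lit 5) (nat_lit 165) (nat_lit 5) (nat_lit 415) (nat_lit 382) (nat_lit 103)))))) (XT.nd (nat_lit 44694) (nat_lit 0) (nat_lit 5092) (XT.nd (nat_lit 44460) (nat_lit 0) (nat_lit 5016) (XT.nd (nat_lit 44304) (nat_lit 0) (nat_lit 4940) (XT.lf (nat_lit 0) (nat_lit 35956610856) (nat_lit 532) (nat_lit 25237187816) (nat_lit 76) (nat_lit 18738243356) (nat_lit 158) (nat_lit 5) (nat_lit 165) (nat_lit 5) (nat_lit 159) (nat_lit 5) (nat_lit 416) (nat_lit 382) (nat_lit 102)) (XT.nd (nat_lit 78) (nat_lit 0) (nat_lit 0) (XT.lf (nat_lit 0) (nat_lit 478935954) (nat_lit 1292) (nat_lit 11613673218) (nat_lit 1292) (nat_lit 11613673218) (nat_lit 223) (nat_lit 3) (nat_lit 240) (nat_lit 3) (nat_lit 240) (nat_lit 5) (nat_lit 383) (nat_lit 383) (nat_lit 134)) (XT.lf (nat_lit 0) (nat_lit 1000749770) (nat_lit 1292) (nat_lit 786514802)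 (nat_lit 1292) (nat_lit 46335615393) (nat_lit 223) (nat_lit 3) (nat_lit 240) (nat_lit 3) (nat_lit 240) (nat_lit 5) (nat_lit 384) (nat_lit 383) (nat_lit 133)))) (XT.nd (nat_lit 78) (nat_lit 0) (nat_lit 0) (XT.lf (nat_lit 0) (nat_lit 1469447226) (nat_lit 1216) (nat_lit 26283407139) (nat_lit 1292) (nat_lit 21088914944) (nat_lit 224) (nat_lit 5) (nat_lit 240) (nat_lit 5) (nat_lit 241) (nat_lit 5) (nat_lit 385) (nat_lit 383) (nat_lit 132)) (XT.nd (nat_lit 78) (nat_lit 0) (nat_lit 76) (XT.lf (nat_lit 0) (nat_lit 1976841459) (nat_lit 1216) (nat_lit 2980659136) (nat_lit 1292) (nat_lit 44623986344) (nat_lit 224) (nat_lit 5) (nat_lit 240) (nat_lit 5) (nat_lit 241) (nat_lit 5) (nat_lit 386) (nat_lit 383) (nat_lit 131)) (XT.lf (nat_lit 0) (nat_lit 2884579326) (nat_lit 1216) (nat_lit 29078398830) (nat_lit 1292) (nat_lit 18368864949) (nat_lit 225) (nat_lit 5) (nat_lit 241) (nat_lit 5) (nat_lit 242) (nat_lit 5) (nat_lit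 387) (nat_lit 383) (nat_lit 130))))) (XT.nd (nat_lit 234) (nat_lit 0) (nat_lit 152) (XT.nd (nat_lit 78) (nat_lit 0) (nat_lit 76) (XT.lf (nat_lit 0) (nat_lit 3898010271) (nat_lit 1216) (nat_lit 4878135965) (nat_lit 1292) (nat_lit 42326210536) (nat_lit 225) (nat_lit 5) (nat_lit 241) (nat_lit 5) (nat_lit 242) (nat_lit 5) (nat_lit 388) (nat_lit 383) (nat_lit 129)) (XT.nd (nat_lit 78) (nat_lit 0) (nat_lit 0) (XT.lf (nat_lit 0) (nat_lit 5284558910) (nat_lit 1216) (nat_lit 31590760632) (nat_lit 1292) (nat_lit 15010385488) (nat_lit 226) (nat_lit 5) (nat_lit 242) (nat_lit 5) (nat_lit 243) (nat_lit 5) (nat_lit 389) (nat_lit 383) (nat_lit 128)) (XT.lf (nat_lit 0) (nat_lit 6848380254) (nat_lit 1216) (nat_lit 6455869522) (nat_lit 1292) (nat_lit 39384234275) (nat_lit 226) (nat_lit 5) (nat_lit 242) (nat_lit 5) (nat_lit 243) (nat_lit 5) (nat_lit 390) (nat_lit 383) (nat_lit 127)))) (XT.nd (nat_lit 156) (nat_lit 0) (nat_lit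 76) (XT.nd (nat_lit 78) (nat_lit 0) (nat_lit 0) (XT.lf (nat_lit 0) (nat_lit 8756072751) (nat_lit 1216) (nat_lit 33797834292) (nat_lit 1292) (nat_lit 10952531295) (nat_lit 227) (nat_lit 5) (nat_lit 243) (nat_lit 5) (nat_lit 244) (nat_lit 5) (nat_lit 391) (nat_lit 383) (nat_lit 126)) (XT.lf (nat_lit 0) (nat_lit 10917647242) (nat_lit 1216) (nat_lit 7689629621) (nat_lit 1292) (nat_lit 35735755425) (nat_lit 227) (nat_lit 5) (nat_lit 243) (nat_lit 5) (nat_lit 244) (nat_lit 5) (nat_lit 392) (nat_lit 383) (nat_lit 125))) (XT.nd (nat_lit 78) (nat_lit 0) (nat_lit 0) (XT.lf (nat_lit 0) (nat_lit 13391528741) (nat_lit 1216) (nat_lit 35675853904) (nat_lit 1292) (nat_lit 6129918173) (nat_lit 228) (nat_lit 5) (nat_lit 244) (nat_lit 5) (nat_lit 245) (nat_lit 5) (nat_lit 393) (nat_lit 383) (nat_lit 124)) (XT.lf (nat_lit 0) (nat_lit 16201413923) (nat_lit 1216) (nat_lit 8554020210) (nat_lit 1292) (nat_lit 31313910191) (nat_lit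 228) (nat_lit 5) (nat_lit 244) (nat_lit 5) (nat_lit 245) (nat_lit 5) (nat_lit 394) (nat_lit 383) (nat_lit 123))))))) (XT.nd (nat_lit 1014) (nat_lit 2508) (nat_lit 0) (XT.nd (nat_lit 468) (nat_lit 2888) (nat_lit 0) (XT.nd (nat_lit 234) (nat_lit 0) (nat_lit 76) (XT.nd (nat_lit 78) (nat_lit 0) (nat_lit 0) (XT.lf (nat_lit 0) (nat_lit 19289398213) (nat_lit 1216) (nat_lit 37199940533) (nat_lit 1292) (nat_lit 472396836) (nat_lit 229) (nat_lit 5) (nat_lit 245) (nat_lit 5) (nat_lit 246) (nat_lit 5) (nat_lit 395) (nat_lit 383) (nat_lit 122)) (XT.nd (nat_lit 78) (nat_lit 0) (nat_lit 0) (XT.lf (nat_lit 0) (nat_lit 22801542747) (nat_lit 1216) (nat_lit 9022472963) (nat_lit 1292) (nat_lit 26046937753) (nat_lit 229) (nat_lit 5) (nat_lit 245) (nat_lit 5) (nat_lit 246) (nat_lit 5) (nat_lit 396) (nat_lit 383) (nat_lit 121)) (XT.lf (nat_lit 76) (nat_lit 20397729471) (nat_lit 0) (nat_lit 6216604725) (nat_lit 1292) (nat_lit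 32187255700) (nat_lit 230) (nat_lit 5) (nat_lit 229) (nat_lit 5) (nat_lit 246) (nat_lit 5) (nat_lit 397) (nat_lit 383) (nat_lit 120)))) (XT.nd (nat_lit 78) (nat_lit 0) (nat_lit 0) (XT.lf (nat_lit 0) (nat_lit 30826527490) (nat_lit 1216) (nat_lit 9067246815) (nat_lit 1292) (nat_lit 19857821051) (nat_lit 230) (nat_lit 5) (nat_lit 246) (nat_lit 5) (nat_lit 247) (nat_lit 5) (nat_lit 398) (nat_lit 383) (nat_lit 119)) (XT.nd (nat_lit 78) (nat_lit 0) (nat_lit 76) (XT.lf (nat_lit 76) (nat_lit 21506970287) (nat_lit 0) (nat_lit 13925653371) (nat_lit 1292) (nat_lit 25289451676) (nat_lit 231) (nat_lit 5) (nat_lit 230) (nat_lit 5) (nat_lit 247) (nat_lit 5) (nat_lit 399) (nat_lit 383) (nat_lit 118)) (XT.lf (nat_lit 0) (nat_lit 40391884366) (nat_lit 1216) (nat_lit 8659434439) (nat_lit 76) (nat_lit 12663901906) (nat_lit 231) (nat_lit 5) (nat_lit 247) (nat_lit 5) (nat_lit 232) (nat_lit 5) (nat_lit 400) (nat_lit 383) (nat_lit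 117))))) (XT.nd (nat_lit 234) (nat_lit 1216) (nat_lit 0) (XT.nd (nat_lit 78) (nat_lit 608) (nat_lit 0) (XT.lf (nat_lit 0) (nat_lit 23125671951) (nat_lit 1216) (nat_lit 22733713684) (nat_lit 1292) (nat_lit 16867991370) (nat_lit 215) (nat_lit 5) (nat_lit 231) (nat_lit 5) (nat_lit 232) (nat_lit 5) (nat_lit 401) (nat_lit 383) (nat_lit 116)) (XT.nd (nat_lit 78) (nat_lit 608) (nat_lit 0) (XT.lf (nat_lit 0) (nat_lit 51620563536) (nat_lit 1292) (nat_lit 7768976805) (nat_lit 76) (nat_lit 4376468524) (nat_lit 215) (nat_lit 5) (nat_lit 232) (nat_lit 5) (nat_lit 216) (nat_lit 5) (nat_lit 402) (nat_lit 383) (nat_lit 115)) (XT.lf (nat_lit 0) (nat_lit 25286457654) (nat_lit 608) (nat_lit 32735597133) (nat_lit 684) (nat_lit 6799720966) (nat_lit 207) (nat_lit 5) (nat_lit 215) (nat_lit 5) (nat_lit 216) (nat_lit 5) (nat_lit 403) (nat_lit 383) (nat_lit 114)))) (XT.nd (nat_lit 156) (nat_lit 608) (nat_lit 0) (XT.nd (nat_lit 78)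 (nat_lit 608) (nat_lit 0) (XT.lf (nat_lit 0) (nat_lit 59492198397) (nat_lit 608) (nat_lit 5201180480) (nat_lit 684) (nat_lit 1213503528) (nat_lit 207) (nat_lit 5) (nat_lit 215) (nat_lit 5) (nat_lit 216) (nat_lit 5) (nat_lit 404) (nat_lit 383) (nat_lit 113)) (XT.lf (nat_lit 0) (nat_lit 4947920645) (nat_lit 608) (nat_lit 39035145609) (nat_lit 76) (nat_lit 23025280520) (nat_lit 199) (nat_lit 5) (nat_lit 207) (nat_lit 5) (nat_lit 200) (nat_lit 5) (nat_lit 405) (nat_lit 383) (nat_lit 112))) (XT.nd (nat_lit 78) (nat_lit 608) (nat_lit 0) (XT.lf (nat_lit 0) (nat_lit 11386073964) (nat_lit 608) (nat_lit 4681469734) (nat_lit 76) (nat_lit 52071462999) (nat_lit 199) (nat_lit 5) (nat_lit 207) (nat_lit 5) (nat_lit 200) (nat_lit 5) (nat_lit 406) (nat_lit 383) (nat_lit 111)) (XT.lf (nat_lit 0) (nat_lit 18442675861) (nat_lit 684) (nat_lit 38106249605) (nat_lit 76) (nat_lit 12741902186) (nat_lit 191) (nat_lit 5) (nat_lit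 200) (nat_lit 5) (nat_lit 192) (nat_lit 5) (nat_lit 407) (nat_lit 383) (nat_lit 110)))))) (XT.nd (nat_lit 546) (nat_lit 456) (nat_lit 0) (XT.nd (nat_lit 234) (nat_lit 988) (nat_lit 0) (XT.nd (nat_lit 78) (nat_lit 1064) (nat_lit 0) (XT.lf (nat_lit 0) (nat_lit 25917195763) (nat_lit 684) (nat_lit 2413381922) (nat_lit 76) (nat_lit 42140439299) (nat_lit 191) (nat_lit 5) (nat_lit 200) (nat_lit 5) (nat_lit 192) (nat_lit 5) (nat_lit 408) (nat_lit 383) (nat_lit 109)) (XT.nd (nat_lit 78) (nat_lit 532) (nat_lit 0) (XT.lf (nat_lit 0) (nat_lit 33962516965) (nat_lit 608) (nat_lit 36653621509) (nat_lit 76) (nat_lit 1060076886) (nat_lit 184) (nat_lit 5) (nat_lit 192) (nat_lit 5) (nat_lit 185) (nat_lit 5) (nat_lit 409) (nat_lit 383) (nat_lit 108)) (XT.lf (nat_lit 0) (nat_lit 441545676) (nat_lit 532) (nat_lit 42116431607) (nat_lit 608) (nat_lit 30350329345) (nat_lit 177) (nat_lit 5) (nat_lit 184) (nat_lit 5) (nat_lit 185)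 (nat_lit 5) (nat_lit 410) (nat_lit 383) (nat_lit 107)))) (XT.nd (nat_lit 156) (nat_lit 532) (nat_lit 0) (XT.nd (nat_lit 78) (nat_lit 456) (nat_lit 0) (XT.lf (nat_lit 0) (nat_lit 39400326474) (nat_lit 532) (nat_lit 12380538236) (nat_lit 608) (nat_lit 22385409341) (nat_lit 177) (nat_lit 5) (nat_lit 184) (nat_lit 5) (nat_lit 185) (nat_lit 5) (nat_lit 411) (nat_lit 383) (nat_lit 106)) (XT.lf (nat_lit 0) (nat_lit 3967297438) (nat_lit 456) (nat_lit 57526132624) (nat_lit 532) (nat_lit 13962161004) (nat_lit 171) (nat_lit 5) (nat_lit 177) (nat_lit 5) (nat_lit 178) (nat_lit 5) (nat_lit 412) (nat_lit 383) (nat_lit 105))) (XT.nd (nat_lit 78) (nat_lit 532) (nat_lit 0) (XT.lf (nat_lit 0) (nat_lit 44449590860) (nat_lit 456) (nat_lit 27519687256) (nat_lit 532) (nat_lit 4800152600) (nat_lit 171) (nat_lit 5) (nat_lit 177) (nat_lit 5) (nat_lit 178) (nat_lit 5) (nat_lit 413) (nat_lit 383) (nat_lit 104)) (XT.lf (nat_lit 0)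 (nat_lit 4657700552) (nat_lit 532) (nat_lit 70015497164) (nat_lit 76) (nat_lit 3444807086) (nat_lit 164) (nat_lit 5) (nat_lit 171) (nat_lit 5) (nat_lit 165) (nat_lit 5) (nat_lit 414) (nat_lit 383) (nat_lit 103))))) (XT.nd (nat_lit 44538) (nat_lit 0) (nat_lit 4940) (XT.nd (nat_lit 78) (nat_lit 456) (nat_lit 0) (XT.lf (nat_lit 0) (nat_lit 14904360947) (nat_lit 532) (nat_lit 29421024772) (nat_lit 76) (nat_lit 35162178378) (nat_lit 164) (nat_lit 5) (nat_lit 171) (nat_lit 5) (nat_lit 165) (nat_lit 5) (nat_lit 415) (nat_lit 383) (nat_lit 102)) (XT.nd (nat_lit 44382) (nat_lit 0) (nat_lit 4940) (XT.lf (nat_lit 0) (nat_lit 12637297991) (nat_lit 456) (nat_lit 12942095207) (nat_lit 532) (nat_lit 55315188077) (nat_lit 158) (nat_lit 5) (nat_lit 164) (nat_lit 5) (nat_lit 165) (nat_lit 5) (nat_lit 416) (nat_lit 383) (nat_lit 101)) (XT.lf (nat_lit 0) (nat_lit 521539762) (nat_lit 1292) (nat_lit 11947533103) (nat_lit 1292)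 (nat_lit 11947533103) (nat_lit 223) (nat_lit 3) (nat_lit 240) (nat_lit 3) (nat_lit 240) (nat_lit 5) (nat_lit 384) (nat_lit 384) (nat_lit 132)))) (XT.nd (nat_lit 156) (nat_lit 0) (nat_lit 76) (XT.nd (nat_lit 78) (nat_lit 0) (nat_lit 76) (XT.lf (nat_lit 0) (nat_lit 1085598922) (nat_lit 1292) (nat_lit 781857214) (nat_lit 1292) (nat_lit 47697430823) (nat_lit 223) (nat_lit 3) (nat_lit 240) (nat_lit 3) (nat_lit 240) (nat_lit 5) (nat_lit 385) (nat_lit 384) (nat_lit 131)) (XT.lf (nat_lit 0) (nat_lit 1566783992) (nat_lit 1216) (nat_lit 27042049415) (nat_lit 1292) (nat_lit 21696557784) (nat_lit 224) (nat_lit 5) (nat_lit 240) (nat_lit 5) (nat_lit 241) (nat_lit 5) (nat_lit 386) (nat_lit 384) (nat_lit 130))) (XT.nd (nat_lit 78) (nat_lit 0) (nat_lit 76) (XT.lf (nat_lit 0) (nat_lit 2087848983) (nat_lit 1216) (nat_lit 3041088678) (nat_lit 1292) (nat_lit 45938410199) (nat_lit 224) (nat_lit 5) (nat_lit 240) (nat_lit 5) (nat_lit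 241) (nat_lit 5) (nat_lit 387) (nat_lit 384) (nat_lit 129)) (XT.lf (nat_lit 0) (nat_lit 3021379804) (nat_lit 1216) (nat_lit 29920289711) (nat_lit 1292) (nat_lit 18898589322) (nat_lit 225) (nat_lit 5) (nat_lit 241) (nat_lit 5) (nat_lit 242) (nat_lit 5) (nat_lit 388) (nat_lit 384) (nat_lit 128))))))))
noncomputable def xc250 : XT := (XT.nd (nat_lit 2028) (nat_lit 532) (nat_lit 0) (XT.nd (nat_lit 1014) (nat_lit 4104) (nat_lit 0) (XT.nd (nat_lit 468) (nat_lit 0) (nat_lit 228) (XT.nd (nat_lit 234) (nat_lit 0) (nat_lit 152) (XT.nd (nat_lit 78) (nat_lit 0) (nat_lit 76) (XT.lf (nat_lit 0) (nat_lit 4063749703) (nat_lit 1216) (nat_lit 4994906175) (nat_lit 1292) (nat_lit 43575276876) (nat_lit 225) (nat_lit 5) (nat_lit 241) (nat_lit 5) (nat_lit 242) (nat_lit 5) (nat_lit 389) (nat_lit 384) (nat_lit 127)) (XT.nd (nat_lit 78) (nat_lit 0) (nat_lit 0) (XT.lf (nat_lit 0) (nat_lit 5490578327) (nat_lit 1216) (nat_lit 32507563257)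 (nat_lit 1292) (nat_lit 15442680265) (nat_lit 226) (nat_lit 5) (nat_lit 242) (nat_lit 5) (nat_lit 243) (nat_lit 5) (nat_lit 390) (nat_lit 384) (nat_lit 126)) (XT.lf (nat_lit 0) (nat_lit 7099931322) (nat_lit 1216) (nat_lit 6619526003) (nat_lit 1292) (nat_lit 40548269277) (nat_lit 226) (nat_lit 5) (nat_lit 242) (nat_lit 5) (nat_lit 243) (nat_lit 5) (nat_lit 391) (nat_lit 384) (nat_lit 125)))) (XT.nd (nat_lit 78) (nat_lit 0) (nat_lit 0) (XT.lf (nat_lit 0) (nat_lit 9063650383) (nat_lit 1216) (nat_lit 34780517367) (nat_lit 1292) (nat_lit 11266088738) (nat_lit 227) (nat_lit 5) (nat_lit 243) (nat_lit 5) (nat_lit 244) (nat_lit 5) (nat_lit 392) (nat_lit 384) (nat_lit 124)) (XT.nd (nat_lit 78) (nat_lit 0) (nat_lit 76) (XT.lf (nat_lit 0) (nat_lit 11288764474) (nat_lit 1216) (nat_lit 7889976808) (nat_lit 1292) (nat_lit 36793247023) (nat_lit 227) (nat_lit 5) (nat_lit 243) (nat_lit 5) (nat_lit 244) (nat_lit 5) (nat_lit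 393) (nat_lit 384) (nat_lit 123)) (XT.lf (nat_lit 0) (nat_lit 13835760912) (nat_lit 1216) (nat_lit 36714659790) (nat_lit 1292) (nat_lit 6301498028) (nat_lit 228) (nat_lit 5) (nat_lit 244) (nat_lit 5) (nat_lit 245) (nat_lit 5) (nat_lit 394) (nat_lit 384) (nat_lit 122))))) (XT.nd (nat_lit 234) (nat_lit 0) (nat_lit 76) (XT.nd (nat_lit 78) (nat_lit 0) (nat_lit 76) (XT.lf (nat_lit 0) (nat_lit 16728705184) (nat_lit 1216) (nat_lit 8780087680) (nat_lit 1292) (nat_lit 32241368575) (nat_lit 228) (nat_lit 5) (nat_lit 244) (nat_lit 5) (nat_lit 245) (nat_lit 5) (nat_lit 395) (nat_lit 384) (nat_lit 121)) (XT.nd (nat_lit 78) (nat_lit 0) (nat_lit 0) (XT.lf (nat_lit 0) (nat_lit 19908321456) (nat_lit 1216) (nat_lit 38284353066) (nat_lit 1292) (nat_lit 476680888) (nat_lit 229) (nat_lit 5) (nat_lit 245) (nat_lit 5) (nat_lit 246) (nat_lit 5) (nat_lit 396) (nat_lit 384) (nat_lit 120)) (XT.lf (nat_lit 0) (nat_lit 23524658250)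 (nat_lit 1216) (nat_lit 9262481441) (nat_lit 1292) (nat_lit 26818746028) (nat_lit 229) (nat_lit 5) (nat_lit 245) (nat_lit 5) (nat_lit 246) (nat_lit 5) (nat_lit 397) (nat_lit 384) (nat_lit 119)))) (XT.nd (nat_lit 156) (nat_lit 0) (nat_lit 76) (XT.nd (nat_lit 78) (nat_lit 0) (nat_lit 76) (XT.lf (nat_lit 76) (nat_lit 21040026422) (nat_lit 0) (nat_lit 6410960969) (nat_lit 1292) (nat_lit 33113479942) (nat_lit 230) (nat_lit 5) (nat_lit 229) (nat_lit 5) (nat_lit 246) (nat_lit 5) (nat_lit 398) (nat_lit 384) (nat_lit 118)) (XT.lf (nat_lit 0) (nat_lit 31788359852) (nat_lit 1216) (nat_lit 9308574060) (nat_lit 1292) (nat_lit 20446075331) (nat_lit 230) (nat_lit 5) (nat_lit 246) (nat_lit 5) (nat_lit 247) (nat_lit 5) (nat_lit 399) (nat_lit 384) (nat_lit 117))) (XT.nd (nat_lit 78) (nat_lit 0) (nat_lit 76) (XT.lf (nat_lit 76) (nat_lit 22182568671) (nat_lit 0) (nat_lit 14349283619) (nat_lit 1292) (nat_lit 26010775594) (nat_lit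 231) (nat_lit 5) (nat_lit 230) (nat_lit 5) (nat_lit 247) (nat_lit 5) (nat_lit 400) (nat_lit 384) (nat_lit 116)) (XT.lf (nat_lit 0) (nat_lit 41638780302) (nat_lit 1216) (nat_lit 8888581238) (nat_lit 76) (nat_lit 13038240045) (nat_lit 231) (nat_lit 5) (nat_lit 247) (nat_lit 5) (nat_lit 232) (nat_lit 5) (nat_lit 401) (nat_lit 384) (nat_lit 115)))))) (XT.nd (nat_lit 468) (nat_lit 2128) (nat_lit 0) (XT.nd (nat_lit 234) (nat_lit 608) (nat_lit 0) (XT.nd (nat_lit 78) (nat_lit 608) (nat_lit 0) (XT.lf (nat_lit 0) (nat_lit 23849777989) (nat_lit 1216) (nat_lit 23419796749) (nat_lit 1292) (nat_lit 17338570414) (nat_lit 215) (nat_lit 5) (nat_lit 231) (nat_lit 5) (nat_lit 232) (nat_lit 5) (nat_lit 402) (nat_lit 384) (nat_lit 114)) (XT.nd (nat_lit 78) (nat_lit 608) (nat_lit 0) (XT.lf (nat_lit 0) (nat_lit 53202547816) (nat_lit 1292) (nat_lit 7971533312) (nat_lit 76) (nat_lit 4503886655) (nat_lit 215) (nat_lit 5) (nat_lit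 232) (nat_lit 5) (nat_lit 216) (nat_lit 5) (nat_lit 403) (nat_lit 384) (nat_lit 113)) (XT.lf (nat_lit 0) (nat_lit 26075265036) (nat_lit 608) (nat_lit 33720137335) (nat_lit 684) (nat_lit 6970026341) (nat_lit 207) (nat_lit 5) (nat_lit 215) (nat_lit 5) (nat_lit 216) (nat_lit 5) (nat_lit 404) (nat_lit 384) (nat_lit 112)))) (XT.nd (nat_lit 78) (nat_lit 608) (nat_lit 0) (XT.lf (nat_lit 0) (nat_lit 61306297992) (nat_lit 608) (nat_lit 5359616174) (nat_lit 684) (nat_lit 1217203533) (nat_lit 207) (nat_lit 5) (nat_lit 215) (nat_lit 5) (nat_lit 216) (nat_lit 5) (nat_lit 405) (nat_lit 384) (nat_lit 111)) (XT.nd (nat_lit 78) (nat_lit 0) (nat_lit 0) (XT.lf (nat_lit 0) (nat_lit 5127760090) (nat_lit 608) (nat_lit 40175526398) (nat_lit 76) (nat_lit 23714350575) (nat_lit 199) (nat_lit 5) (nat_lit 207) (nat_lit 5) (nat_lit 200) (nat_lit 5) (nat_lit 406) (nat_lit 384) (nat_lit 110)) (XT.lf (nat_lit 0) (nat_lit 11758143393)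 (nat_lit 608) (nat_lit 4792133651) (nat_lit 76) (nat_lit 53631967703) (nat_lit 199) (nat_lit 5) (nat_lit 207) (nat_lit 5) (nat_lit 200) (nat_lit 5) (nat_lit 407) (nat_lit 384) (nat_lit 109))))) (XT.nd (nat_lit 234) (nat_lit 988) (nat_lit 0) (XT.nd (nat_lit 78) (nat_lit 532) (nat_lit 0) (XT.lf (nat_lit 0) (nat_lit 19025835037) (nat_lit 684) (nat_lit 39219031584) (nat_lit 76) (nat_lit 13123772470) (nat_lit 191) (nat_lit 5) (nat_lit 200) (nat_lit 5) (nat_lit 192) (nat_lit 5) (nat_lit 408) (nat_lit 384) (nat_lit 108)) (XT.nd (nat_lit 78) (nat_lit 532) (nat_lit 0) (XT.lf (nat_lit 0) (nat_lit 26723720276) (nat_lit 684) (nat_lit 2456263469) (nat_lit 76) (nat_lit 43404276961) (nat_lit 191) (nat_lit 5) (nat_lit 200) (nat_lit 5) (nat_lit 192) (nat_lit 5) (nat_lit 409) (nat_lit 384) (nat_lit 107)) (XT.lf (nat_lit 0) (nat_lit 35009844737) (nat_lit 608) (nat_lit 37723137820) (nat_lit 76) (nat_lit 1092649649) (nat_lit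 184) (nat_lit 5) (nat_lit 192) (nat_lit 5) (nat_lit 185) (nat_lit 5) (nat_lit 410) (nat_lit 384) (nat_lit 106)))) (XT.nd (nat_lit 156) (nat_lit 456) (nat_lit 0) (XT.nd (nat_lit 78) (nat_lit 0) (nat_lit 0) (XT.lf (nat_lit 0) (nat_lit 484589358) (nat_lit 532) (nat_lit 43378037230) (nat_lit 608) (nat_lit 31232076360) (nat_lit 177) (nat_lit 5) (nat_lit 184) (nat_lit 5) (nat_lit 185) (nat_lit 5) (nat_lit 411) (nat_lit 384) (nat_lit 105)) (XT.lf (nat_lit 0) (nat_lit 40611265697) (nat_lit 532) (nat_lit 12750122029) (nat_lit 608) (nat_lit 23029046509) (nat_lit 177) (nat_lit 5) (nat_lit 184) (nat_lit 5) (nat_lit 185) (nat_lit 5) (nat_lit 412) (nat_lit 384) (nat_lit 104))) (XT.nd (nat_lit 78) (nat_lit 0) (nat_lit 0) (XT.lf (nat_lit 0) (nat_lit 4115764647) (nat_lit 456) (nat_lit 59249076332) (nat_lit 532) (nat_lit 14353604894) (nat_lit 171) (nat_lit 5) (nat_lit 177) (nat_lit 5) (nat_lit 178) (nat_lit 5) (nat_lit 413)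 (nat_lit 384) (nat_lit 103)) (XT.lf (nat_lit 0) (nat_lit 45811669154) (nat_lit 456) (nat_lit 28342520330) (nat_lit 532) (nat_lit 4917534906) (nat_lit 171) (nat_lit 5) (nat_lit 177) (nat_lit 5) (nat_lit 178) (nat_lit 5) (nat_lit 414) (nat_lit 384) (nat_lit 102))))))) (XT.nd (nat_lit 45474) (nat_lit 0) (nat_lit 2052) (XT.nd (nat_lit 44928) (nat_lit 0) (nat_lit 4636) (XT.nd (nat_lit 44694) (nat_lit 0) (nat_lit 4560) (XT.nd (nat_lit 44538) (nat_lit 0) (nat_lit 4484) (XT.lf (nat_lit 0) (nat_lit 4823082221) (nat_lit 532) (nat_lit 72086372610) (nat_lit 76) (nat_lit 3551307157) (nat_lit 164) (nat_lit 5) (nat_lit 171) (nat_lit 5) (nat_lit 165) (nat_lit 5) (nat_lit 415) (nat_lit 384) (nat_lit 101)) (XT.nd (nat_lit 78) (nat_lit 0) (nat_lit 0) (XT.lf (nat_lit 0) (nat_lit 563800838) (nat_lit 1292) (nat_lit 12292244032) (nat_lit 1292) (nat_lit 12292244032) (nat_lit 223) (nat_lit 3) (nat_lit 240) (nat_lit 3) (nat_lit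 240) (nat_lit 5) (nat_lit 385) (nat_lit 385) (nat_lit 130)) (XT.lf (nat_lit 0) (nat_lit 1169846274) (nat_lit 1292) (nat_lit 778681739) (nat_lit 1292) (nat_lit 49101722555) (nat_lit 223) (nat_lit 3) (nat_lit 240) (nat_lit 3) (nat_lit 240) (nat_lit 5) (nat_lit 386) (nat_lit 385) (nat_lit 129)))) (XT.nd (nat_lit 78) (nat_lit 0) (nat_lit 0) (XT.lf (nat_lit 0) (nat_lit 1663983900) (nat_lit 1216) (nat_lit 27825165041) (nat_lit 1292) (nat_lit 22323866424) (nat_lit 224) (nat_lit 5) (nat_lit 240) (nat_lit 5) (nat_lit 241) (nat_lit 5) (nat_lit 387) (nat_lit 385) (nat_lit 128)) (XT.nd (nat_lit 78) (nat_lit 0) (nat_lit 76) (XT.lf (nat_lit 0) (nat_lit 2199218811) (nat_lit 1216) (nat_lit 3104995264) (nat_lit 1292) (nat_lit 47293661443) (nat_lit 224) (nat_lit 5) (nat_lit 240) (nat_lit 5) (nat_lit 241) (nat_lit 5) (nat_lit 388) (nat_lit 385) (nat_lit 127)) (XT.lf (nat_lit 0) (nat_lit 3159398988) (nat_lit 1216) (nat_lit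 30789185909) (nat_lit 1292) (nat_lit 19445430520) (nat_lit 225) (nat_lit 5) (nat_lit 241) (nat_lit 5) (nat_lit 242) (nat_lit 5) (nat_lit 389) (nat_lit 385) (nat_lit 126))))) (XT.nd (nat_lit 234) (nat_lit 0) (nat_lit 152) (XT.nd (nat_lit 78) (nat_lit 0) (nat_lit 76) (XT.lf (nat_lit 0) (nat_lit 4231660049) (nat_lit 1216) (nat_lit 5116877154) (nat_lit 1292) (nat_lit 44863004618) (nat_lit 225) (nat_lit 5) (nat_lit 241) (nat_lit 5) (nat_lit 242) (nat_lit 5) (nat_lit 390) (nat_lit 385) (nat_lit 125)) (XT.nd (nat_lit 78) (nat_lit 0) (nat_lit 0) (XT.lf (nat_lit 0) (nat_lit 5700052628) (nat_lit 1216) (nat_lit 33453644908) (nat_lit 1292) (nat_lit 15888978122) (nat_lit 226) (nat_lit 5) (nat_lit 242) (nat_lit 5) (nat_lit 243) (nat_lit 5) (nat_lit 391) (nat_lit 385) (nat_lit 124)) (XT.lf (nat_lit 0) (nat_lit 7356382613) (nat_lit 1216) (nat_lit 6789815426) (nat_lit 1292) (nat_lit 41748229442) (nat_lit 226) (nat_lit 5)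 (nat_lit 242) (nat_lit 5) (nat_lit 243) (nat_lit 5) (nat_lit 392) (nat_lit 385) (nat_lit 123)))) (XT.nd (nat_lit 156) (nat_lit 0) (nat_lit 76) (XT.nd (nat_lit 78) (nat_lit 0) (nat_lit 0) (XT.lf (nat_lit 0) (nat_lit 9377878162) (nat_lit 1216) (nat_lit 35794474924) (nat_lit 1292) (nat_lit 11589915026) (nat_lit 227) (nat_lit 5) (nat_lit 243) (nat_lit 5) (nat_lit 244) (nat_lit 5) (nat_lit 393) (nat_lit 385) (nat_lit 122)) (XT.lf (nat_lit 0) (nat_lit 11668513104) (nat_lit 1216) (nat_lit 8098076147) (nat_lit 1292) (nat_lit 37883300382) (nat_lit 227) (nat_lit 5) (nat_lit 243) (nat_lit 5) (nat_lit 244) (nat_lit 5) (nat_lit 394) (nat_lit 385) (nat_lit 121))) (XT.nd (nat_lit 78) (nat_lit 0) (nat_lit 0) (XT.lf (nat_lit 0) (nat_lit 14290881160) (nat_lit 1216) (nat_lit 37786436345) (nat_lit 1292) (nat_lit 6478932366) (nat_lit 228) (nat_lit 5) (nat_lit 244) (nat_lit 5) (nat_lit 245) (nat_lit 5) (nat_lit 395) (nat_lit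 385) (nat_lit 120)) (XT.lf (nat_lit 0) (nat_lit 17269447331) (nat_lit 1216) (nat_lit 9014691048) (nat_lit 1292) (nat_lit 33197337201) (nat_lit 228) (nat_lit 5) (nat_lit 244) (nat_lit 5) (nat_lit 245) (nat_lit 5) (nat_lit 396) (nat_lit 385) (nat_lit 119)))))) (XT.nd (nat_lit 546) (nat_lit 1824) (nat_lit 0) (XT.nd (nat_lit 234) (nat_lit 1064) (nat_lit 0) (XT.nd (nat_lit 78) (nat_lit 0) (nat_lit 0) (XT.lf (nat_lit 0) (nat_lit 20543502382) (nat_lit 1216) (nat_lit 39403111122) (nat_lit 1292) (nat_lit 481661065) (nat_lit 229) (nat_lit 5) (nat_lit 245) (nat_lit 5) (nat_lit 246) (nat_lit 5) (nat_lit 397) (nat_lit 385) (nat_lit 118)) (XT.nd (nat_lit 78) (nat_lit 0) (nat_lit 0) (XT.lf (nat_lit 0) (nat_lit 24267224484) (nat_lit 1216) (nat_lit 9511450510) (nat_lit 1292) (nat_lit 27614259623) (nat_lit 229) (nat_lit 5) (nat_lit 245) (nat_lit 5) (nat_lit 246) (nat_lit 5) (nat_lit 398) (nat_lit 385) (nat_lit 117)) (XT.lf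 (nat_lit 76) (nat_lit 21699849203) (nat_lit 0) (nat_lit 6610696813) (nat_lit 1292) (nat_lit 34069752254) (nat_lit 230) (nat_lit 5) (nat_lit 229) (nat_lit 5) (nat_lit 246) (nat_lit 5) (nat_lit 399) (nat_lit 385) (nat_lit 116)))) (XT.nd (nat_lit 156) (nat_lit 1140) (nat_lit 0) (XT.nd (nat_lit 78) (nat_lit 0) (nat_lit 0) (XT.lf (nat_lit 0) (nat_lit 32776921135) (nat_lit 1216) (nat_lit 9558902864) (nat_lit 1292) (nat_lit 21052406642) (nat_lit 230) (nat_lit 5) (nat_lit 246) (nat_lit 5) (nat_lit 247) (nat_lit 5) (nat_lit 400) (nat_lit 385) (nat_lit 115)) (XT.lf (nat_lit 76) (nat_lit 22876690538) (nat_lit 0) (nat_lit 14785286350) (nat_lit 1292) (nat_lit 26755883825) (nat_lit 231) (nat_lit 5) (nat_lit 230) (nat_lit 5) (nat_lit 247) (nat_lit 5) (nat_lit 401) (nat_lit 385) (nat_lit 114))) (XT.nd (nat_lit 78) (nat_lit 1216) (nat_lit 0) (XT.lf (nat_lit 0) (nat_lit 42921065970) (nat_lit 1216) (nat_lit 9126361086) (nat_lit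 76) (nat_lit 13424128582) (nat_lit 231) (nat_lit 5) (nat_lit 247) (nat_lit 5) (nat_lit 232) (nat_lit 5) (nat_lit 402) (nat_lit 385) (nat_lit 113)) (XT.lf (nat_lit 0) (nat_lit 24593865804) (nat_lit 1216) (nat_lit 24126228577) (nat_lit 1292) (nat_lit 17825302419) (nat_lit 215) (nat_lit 5) (nat_lit 231) (nat_lit 5) (nat_lit 232) (nat_lit 5) (nat_lit 403) (nat_lit 385) (nat_lit 112))))) (XT.nd (nat_lit 234) (nat_lit 1216) (nat_lit 0) (XT.nd (nat_lit 78) (nat_lit 608) (nat_lit 0) (XT.lf (nat_lit 0) (nat_lit 54830076200) (nat_lit 1292) (nat_lit 8181918074) (nat_lit 76) (nat_lit 4635349824) (nat_lit 215) (nat_lit 5) (nat_lit 232) (nat_lit 5) (nat_lit 216) (nat_lit 5) (nat_lit 404) (nat_lit 385) (nat_lit 111)) (XT.nd (nat_lit 78) (nat_lit 0) (nat_lit 0) (XT.lf (nat_lit 0) (nat_lit 26886002252) (nat_lit 608) (nat_lit 34734071824) (nat_lit 684) (nat_lit 7147374607) (nat_lit 207) (nat_lit 5) (nat_lit 215) (nat_lit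 5) (nat_lit 216) (nat_lit 5) (nat_lit 405) (nat_lit 385) (nat_lit 110)) (XT.lf (nat_lit 0) (nat_lit 63173136703) (nat_lit 608) (nat_lit 5522667153) (nat_lit 684) (nat_lit 1222891945) (nat_lit 207) (nat_lit 5) (nat_lit 215) (nat_lit 5) (nat_lit 216) (nat_lit 5) (nat_lit 406) (nat_lit 385) (nat_lit 109)))) (XT.nd (nat_lit 156) (nat_lit 608) (nat_lit 0) (XT.nd (nat_lit 78) (nat_lit 0) (nat_lit 0) (XT.lf (nat_lit 0) (nat_lit 5311192126) (nat_lit 608) (nat_lit 41351879399) (nat_lit 76) (nat_lit 24424189649) (nat_lit 199) (nat_lit 5) (nat_lit 207) (nat_lit 5) (nat_lit 200) (nat_lit 5) (nat_lit 407) (nat_lit 385) (nat_lit 108)) (XT.lf (nat_lit 0) (nat_lit 12139624814) (nat_lit 608) (nat_lit 4907826990) (nat_lit 76) (nat_lit 55239381644) (nat_lit 199) (nat_lit 5) (nat_lit 207) (nat_lit 5) (nat_lit 200) (nat_lit 5) (nat_lit 408) (nat_lit 385) (nat_lit 107))) (XT.nd (nat_lit 78) (nat_lit 0) (nat_lit 0) (XT.lf (nat_lit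 0) (nat_lit 19624773817) (nat_lit 684) (nat_lit 40366942424) (nat_lit 76) (nat_lit 13517121065) (nat_lit 191) (nat_lit 5) (nat_lit 200) (nat_lit 5) (nat_lit 192) (nat_lit 5) (nat_lit 409) (nat_lit 385) (nat_lit 106)) (XT.lf (nat_lit 0) (nat_lit 27552775310) (nat_lit 684) (nat_lit 2502126025) (nat_lit 76) (nat_lit 44706051310) (nat_lit 191) (nat_lit 5) (nat_lit 200) (nat_lit 5) (nat_lit 192) (nat_lit 5) (nat_lit 410) (nat_lit 385) (nat_lit 105))))))))
noncomputable def xc251 : XT := (XT.nd (nat_lit 46644) (nat_lit 0) (nat_lit 456) (XT.nd (nat_lit 45552) (nat_lit 0) (nat_lit 2736) (XT.nd (nat_lit 45006) (nat_lit 0) (nat_lit 3952) (XT.nd (nat_lit 234) (nat_lit 456) (nat_lit 0) (XT.nd (nat_lit 78) (nat_lit 532) (nat_lit 0) (XT.lf (nat_lit 0) (nat_lit 36086959067) (nat_lit 608) (nat_lit 38826467043) (nat_lit 76) (nat_lit 1126155368) (nat_lit 184) (nat_lit 5) (nat_lit 192) (nat_lit 5) (nat_lit 185) (nat_lit 5)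 (nat_lit 411) (nat_lit 385) (nat_lit 104)) (XT.nd (nat_lit 78) (nat_lit 0) (nat_lit 0) (XT.lf (nat_lit 0) (nat_lit 527213863) (nat_lit 532) (nat_lit 44677599363) (nat_lit 608) (nat_lit 32141926891) (nat_lit 177) (nat_lit 5) (nat_lit 184) (nat_lit 5) (nat_lit 185) (nat_lit 5) (nat_lit 412) (nat_lit 385) (nat_lit 103)) (XT.lf (nat_lit 0) (nat_lit 41856872429) (nat_lit 532) (nat_lit 13130898520) (nat_lit 608) (nat_lit 23693595808) (nat_lit 177) (nat_lit 5) (nat_lit 184) (nat_lit 5) (nat_lit 185) (nat_lit 5) (nat_lit 413) (nat_lit 385) (nat_lit 102)))) (XT.nd (nat_lit 78) (nat_lit 0) (nat_lit 0) (XT.lf (nat_lit 0) (nat_lit 4266995419) (nat_lit 456) (nat_lit 61023871395) (nat_lit 532) (nat_lit 14758366175) (nat_lit 171) (nat_lit 5) (nat_lit 177) (nat_lit 5) (nat_lit 178) (nat_lit 5) (nat_lit 414) (nat_lit 385) (nat_lit 101)) (XT.nd (nat_lit 44616) (nat_lit 0) (nat_lit 3952) (XT.lf (nat_lit 0) (nat_lit 47212968581)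 (nat_lit 456) (nat_lit 29190196690) (nat_lit 532) (nat_lit 5039966909) (nat_lit 171) (nat_lit 5) (nat_lit 177) (nat_lit 5) (nat_lit 178) (nat_lit 5) (nat_lit 415) (nat_lit 385) (nat_lit 100)) (XT.lf (nat_lit 0) (nat_lit 605801943) (nat_lit 1292) (nat_lit 12648083590) (nat_lit 1292) (nat_lit 12648083590) (nat_lit 223) (nat_lit 3) (nat_lit 240) (nat_lit 3) (nat_lit 240) (nat_lit 5) (nat_lit 386) (nat_lit 386) (nat_lit 128))))) (XT.nd (nat_lit 234) (nat_lit 0) (nat_lit 152) (XT.nd (nat_lit 78) (nat_lit 0) (nat_lit 76) (XT.lf (nat_lit 0) (nat_lit 1253654438) (nat_lit 1292) (nat_lit 776939738) (nat_lit 1292) (nat_lit 50549671779) (nat_lit 223) (nat_lit 3) (nat_lit 240) (nat_lit 3) (nat_lit 240) (nat_lit 5) (nat_lit 387) (nat_lit 386) (nat_lit 127)) (XT.nd (nat_lit 78) (nat_lit 0) (nat_lit 0) (XT.lf (nat_lit 0) (nat_lit 1761218328) (nat_lit 1216) (nat_lit 28633389823) (nat_lit 1292) (nat_lit 22971348377) (nat_lit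 224) (nat_lit 5) (nat_lit 240) (nat_lit 5) (nat_lit 241) (nat_lit 5) (nat_lit 388) (nat_lit 386) (nat_lit 126)) (XT.lf (nat_lit 0) (nat_lit 2311132182) (nat_lit 1216) (nat_lit 3172387676) (nat_lit 1292) (nat_lit 48690884840) (nat_lit 224) (nat_lit 5) (nat_lit 240) (nat_lit 5) (nat_lit 241) (nat_lit 5) (nat_lit 389) (nat_lit 386) (nat_lit 125)))) (XT.nd (nat_lit 156) (nat_lit 0) (nat_lit 76) (XT.nd (nat_lit 78) (nat_lit 0) (nat_lit 0) (XT.lf (nat_lit 0) (nat_lit 3298839069) (nat_lit 1216) (nat_lit 31685797208) (nat_lit 1292) (nat_lit 20009831723) (nat_lit 225) (nat_lit 5) (nat_lit 241) (nat_lit 5) (nat_lit 242) (nat_lit 5) (nat_lit 390) (nat_lit 386) (nat_lit 124)) (XT.lf (nat_lit 0) (nat_lit 4401967240) (nat_lit 1216) (nat_lit 5244107469) (nat_lit 1292) (nat_lit 46190485326) (nat_lit 225) (nat_lit 5) (nat_lit 241) (nat_lit 5) (nat_lit 242) (nat_lit 5) (nat_lit 391) (nat_lit 386) (nat_lit 123))) (XT.nd (nat_lit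 78) (nat_lit 0) (nat_lit 0) (XT.lf (nat_lit 0) (nat_lit 5913241927) (nat_lit 1216) (nat_lit 34429782064) (nat_lit 1292) (nat_lit 16349639784) (nat_lit 226) (nat_lit 5) (nat_lit 242) (nat_lit 5) (nat_lit 243) (nat_lit 5) (nat_lit 392) (nat_lit 386) (nat_lit 122)) (XT.lf (nat_lit 0) (nat_lit 7618033042) (nat_lit 1216) (nat_lit 6966837859) (nat_lit 1292) (nat_lit 42985134887) (nat_lit 226) (nat_lit 5) (nat_lit 242) (nat_lit 5) (nat_lit 243) (nat_lit 5) (nat_lit 393) (nat_lit 386) (nat_lit 121)))))) (XT.nd (nat_lit 546) (nat_lit 1520) (nat_lit 0) (XT.nd (nat_lit 234) (nat_lit 0) (nat_lit 76) (XT.nd (nat_lit 78) (nat_lit 0) (nat_lit 0) (XT.lf (nat_lit 0) (nat_lit 9699103532) (nat_lit 1216) (nat_lit 36840542216) (nat_lit 1292) (nat_lit 11924268737) (nat_lit 227) (nat_lit 5) (nat_lit 243) (nat_lit 5) (nat_lit 244) (nat_lit 5) (nat_lit 394) (nat_lit 386) (nat_lit 120)) (XT.nd (nat_lit 78) (nat_lit 0) (nat_lit 76)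 (XT.lf (nat_lit 0) (nat_lit 12057295706) (nat_lit 1216) (nat_lit 8314060222) (nat_lit 1292) (nat_lit 39006844306) (nat_lit 227) (nat_lit 5) (nat_lit 243) (nat_lit 5) (nat_lit 244) (nat_lit 5) (nat_lit 395) (nat_lit 386) (nat_lit 119)) (XT.lf (nat_lit 0) (nat_lit 14757356130) (nat_lit 1216) (nat_lit 38892068987) (nat_lit 1292) (nat_lit 6662356229) (nat_lit 228) (nat_lit 5) (nat_lit 244) (nat_lit 5) (nat_lit 245) (nat_lit 5) (nat_lit 396) (nat_lit 386) (nat_lit 118)))) (XT.nd (nat_lit 156) (nat_lit 0) (nat_lit 76) (XT.nd (nat_lit 78) (nat_lit 0) (nat_lit 76) (XT.lf (nat_lit 0) (nat_lit 17824179814) (nat_lit 1216) (nat_lit 9257985714) (nat_lit 1292) (nat_lit 34182631970) (nat_lit 228) (nat_lit 5) (nat_lit 244) (nat_lit 5) (nat_lit 245) (nat_lit 5) (nat_lit 397) (nat_lit 386) (nat_lit 117)) (XT.lf (nat_lit 0) (nat_lit 21195561325) (nat_lit 1216) (nat_lit 40557140986) (nat_lit 1292) (nat_lit 487325668) (nat_lit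 229) (nat_lit 5) (nat_lit 245) (nat_lit 5) (nat_lit 246) (nat_lit 5) (nat_lit 398) (nat_lit 386) (nat_lit 116))) (XT.nd (nat_lit 78) (nat_lit 0) (nat_lit 0) (XT.lf (nat_lit 0) (nat_lit 25029953715) (nat_lit 1216) (nat_lit 9769547938) (nat_lit 1292) (nat_lit 28434158063) (nat_lit 229) (nat_lit 5) (nat_lit 245) (nat_lit 5) (nat_lit 246) (nat_lit 5) (nat_lit 399) (nat_lit 386) (nat_lit 115)) (XT.lf (nat_lit 76) (nat_lit 22377823648) (nat_lit 0) (nat_lit 6815999540) (nat_lit 1292) (nat_lit 35056844270) (nat_lit 230) (nat_lit 5) (nat_lit 229) (nat_lit 5) (nat_lit 246) (nat_lit 5) (nat_lit 400) (nat_lit 386) (nat_lit 114))))) (XT.nd (nat_lit 234) (nat_lit 1748) (nat_lit 0) (XT.nd (nat_lit 78) (nat_lit 0) (nat_lit 0) (XT.lf (nat_lit 0) (nat_lit 33793135252) (nat_lit 1216) (nat_lit 9818402141) (nat_lit 1292) (nat_lit 21677332645) (nat_lit 230) (nat_lit 5) (nat_lit 246) (nat_lit 5) (nat_lit 247) (nat_lit 5) (nat_lit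 401) (nat_lit 386) (nat_lit 113)) (XT.nd (nat_lit 78) (nat_lit 0) (nat_lit 76) (XT.lf (nat_lit 76) (nat_lit 23589991731) (nat_lit 0) (nat_lit 15234052050) (nat_lit 1292) (nat_lit 27525366790) (nat_lit 231) (nat_lit 5) (nat_lit 230) (nat_lit 5) (nat_lit 247) (nat_lit 5) (nat_lit 402) (nat_lit 386) (nat_lit 112)) (XT.lf (nat_lit 0) (nat_lit 44239918855) (nat_lit 1216) (nat_lit 9372932021) (nat_lit 76) (nat_lit 13821895643) (nat_lit 231) (nat_lit 5) (nat_lit 247) (nat_lit 5) (nat_lit 232) (nat_lit 5) (nat_lit 403) (nat_lit 386) (nat_lit 111)))) (XT.nd (nat_lit 156) (nat_lit 608) (nat_lit 0) (XT.nd (nat_lit 78) (nat_lit 0) (nat_lit 0) (XT.lf (nat_lit 0) (nat_lit 25358634813) (nat_lit 1216) (nat_lit 24853633047) (nat_lit 1292) (nat_lit 18328555121) (nat_lit 215) (nat_lit 5) (nat_lit 231) (nat_lit 5) (nat_lit 232) (nat_lit 5) (nat_lit 404) (nat_lit 386) (nat_lit 110)) (XT.lf (nat_lit 0) (nat_lit 56504624965)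 (nat_lit 1292) (nat_lit 8400265391) (nat_lit 76) (nat_lit 4770966610) (nat_lit 215) (nat_lit 5) (nat_lit 232) (nat_lit 5) (nat_lit 216) (nat_lit 5) (nat_lit 405) (nat_lit 386) (nat_lit 109))) (XT.nd (nat_lit 78) (nat_lit 0) (nat_lit 0) (XT.lf (nat_lit 0) (nat_lit 27719426758) (nat_lit 608) (nat_lit 35778290575) (nat_lit 684) (nat_lit 7331866045) (nat_lit 207) (nat_lit 5) (nat_lit 215) (nat_lit 5) (nat_lit 216) (nat_lit 5) (nat_lit 406) (nat_lit 386) (nat_lit 108)) (XT.lf (nat_lit 0) (nat_lit 65094393366) (nat_lit 608) (nat_lit 5690479785) (nat_lit 684) (nat_lit 1230520646) (nat_lit 207) (nat_lit 5) (nat_lit 215) (nat_lit 5) (nat_lit 216) (nat_lit 5) (nat_lit 407) (nat_lit 386) (nat_lit 107))))))) (XT.nd (nat_lit 45708) (nat_lit 0) (nat_lit 2888) (XT.nd (nat_lit 468) (nat_lit 0) (nat_lit 0) (XT.nd (nat_lit 234) (nat_lit 1064) (nat_lit 0) (XT.nd (nat_lit 78) (nat_lit 608) (nat_lit 0) (XT.lf (nat_lit 0) (nat_lit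 5498428006) (nat_lit 608) (nat_lit 42565182702) (nat_lit 76) (nat_lit 25155415251) (nat_lit 199) (nat_lit 5) (nat_lit 207) (nat_lit 5) (nat_lit 200) (nat_lit 5) (nat_lit 408) (nat_lit 386) (nat_lit 106)) (XT.nd (nat_lit 78) (nat_lit 608) (nat_lit 0) (XT.lf (nat_lit 0) (nat_lit 12530901050) (nat_lit 608) (nat_lit 5028602500) (nat_lit 76) (nat_lit 56895106697) (nat_lit 199) (nat_lit 5) (nat_lit 207) (nat_lit 5) (nat_lit 200) (nat_lit 5) (nat_lit 409) (nat_lit 386) (nat_lit 105)) (XT.lf (nat_lit 0) (nat_lit 20240064047) (nat_lit 684) (nat_lit 41550935796) (nat_lit 76) (nat_lit 13922291046) (nat_lit 191) (nat_lit 5) (nat_lit 200) (nat_lit 5) (nat_lit 192) (nat_lit 5) (nat_lit 410) (nat_lit 386) (nat_lit 104)))) (XT.nd (nat_lit 78) (nat_lit 1064) (nat_lit 0) (XT.lf (nat_lit 0) (nat_lit 28405132371) (nat_lit 684) (nat_lit 2550961747) (nat_lit 76) (nat_lit 46046899208) (nat_lit 191) (nat_lit 5) (nat_lit 200) (nat_lit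 5) (nat_lit 192) (nat_lit 5) (nat_lit 411) (nat_lit 386) (nat_lit 103)) (XT.nd (nat_lit 78) (nat_lit 532) (nat_lit 0) (XT.lf (nat_lit 0) (nat_lit 37194847306) (nat_lit 608) (nat_lit 39964524405) (nat_lit 76) (nat_lit 1160624569) (nat_lit 184) (nat_lit 5) (nat_lit 192) (nat_lit 5) (nat_lit 185) (nat_lit 5) (nat_lit 412) (nat_lit 386) (nat_lit 102)) (XT.lf (nat_lit 0) (nat_lit 569504804) (nat_lit 532) (nat_lit 46016250480) (nat_lit 608) (nat_lit 33080629265) (nat_lit 177) (nat_lit 5) (nat_lit 184) (nat_lit 5) (nat_lit 185) (nat_lit 5) (nat_lit 413) (nat_lit 386) (nat_lit 101))))) (XT.nd (nat_lit 44928) (nat_lit 0) (nat_lit 3572) (XT.nd (nat_lit 44772) (nat_lit 0) (nat_lit 3496) (XT.lf (nat_lit 0) (nat_lit 43138282025) (nat_lit 532) (nat_lit 13523197453) (nat_lit 608) (nat_lit 24379592582) (nat_lit 177) (nat_lit 5) (nat_lit 184) (nat_lit 5) (nat_lit 185) (nat_lit 5) (nat_lit 414) (nat_lit 386) (nat_lit 100))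 (XT.nd (nat_lit 78) (nat_lit 0) (nat_lit 0) (XT.lf (nat_lit 0) (nat_lit 647622979) (nat_lit 1292) (nat_lit 13015340441) (nat_lit 1292) (nat_lit 13015340441) (nat_lit 223) (nat_lit 3) (nat_lit 240) (nat_lit 3) (nat_lit 240) (nat_lit 5) (nat_lit 387) (nat_lit 387) (nat_lit 126)) (XT.lf (nat_lit 0) (nat_lit 1337180534) (nat_lit 1292) (nat_lit 776586460) (nat_lit 1292) (nat_lit 52042500463) (nat_lit 223) (nat_lit 3) (nat_lit 240) (nat_lit 3) (nat_lit 240) (nat_lit 5) (nat_lit 388) (nat_lit 387) (nat_lit 125)))) (XT.nd (nat_lit 156) (nat_lit 0) (nat_lit 76) (XT.nd (nat_lit 78) (nat_lit 0) (nat_lit 0) (XT.lf (nat_lit 0) (nat_lit 1858653719) (nat_lit 1216) (nat_lit 29467384289) (nat_lit 1292) (nat_lit 23639531113) (nat_lit 224) (nat_lit 5) (nat_lit 240) (nat_lit 5) (nat_lit 241) (nat_lit 5) (nat_lit 389) (nat_lit 387) (nat_lit 124)) (XT.lf (nat_lit 0) (nat_lit 2423765993) (nat_lit 1216) (nat_lit 3243280444) (nat_lit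 1292) (nat_lit 50131264088) (nat_lit 224) (nat_lit 5) (nat_lit 240) (nat_lit 5) (nat_lit 241) (nat_lit 5) (nat_lit 390) (nat_lit 387) (nat_lit 123))) (XT.nd (nat_lit 78) (nat_lit 0) (nat_lit 0) (XT.lf (nat_lit 0) (nat_lit 3439898794) (nat_lit 1216) (nat_lit 32610860445) (nat_lit 1292) (nat_lit 20592253441) (nat_lit 225) (nat_lit 5) (nat_lit 241) (nat_lit 5) (nat_lit 242) (nat_lit 5) (nat_lit 391) (nat_lit 387) (nat_lit 122)) (XT.lf (nat_lit 0) (nat_lit 4574894755) (nat_lit 1216) (nat_lit 5376663045) (nat_lit 1292) (nat_lit 47558847232) (nat_lit 225) (nat_lit 5) (nat_lit 241) (nat_lit 5) (nat_lit 242) (nat_lit 5) (nat_lit 392) (nat_lit 387) (nat_lit 121)))))) (XT.nd (nat_lit 546) (nat_lit 836) (nat_lit 0) (XT.nd (nat_lit 234) (nat_lit 0) (nat_lit 76) (XT.nd (nat_lit 78) (nat_lit 0) (nat_lit 0) (XT.lf (nat_lit 0) (nat_lit 6130405157) (nat_lit 1216) (nat_lit 35436780351) (nat_lit 1292) (nat_lit 16825040201)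 (nat_lit 226) (nat_lit 5) (nat_lit 242) (nat_lit 5) (nat_lit 243) (nat_lit 5) (nat_lit 393) (nat_lit 387) (nat_lit 120)) (XT.nd (nat_lit 78) (nat_lit 0) (nat_lit 76) (XT.lf (nat_lit 0) (nat_lit 7885181773) (nat_lit 1216) (nat_lit 7150702048) (nat_lit 1292) (nat_lit 44260039636) (nat_lit 226) (nat_lit 5) (nat_lit 242) (nat_lit 5) (nat_lit 243) (nat_lit 5) (nat_lit 394) (nat_lit 387) (nat_lit 119)) (XT.lf (nat_lit 0) (nat_lit 10027675869) (nat_lit 1216) (nat_lit 37919585464) (nat_lit 1292) (nat_lit 12269419045) (nat_lit 227) (nat_lit 5) (nat_lit 243) (nat_lit 5) (nat_lit 244) (nat_lit 5) (nat_lit 395) (nat_lit 387) (nat_lit 118)))) (XT.nd (nat_lit 156) (nat_lit 0) (nat_lit 76) (XT.nd (nat_lit 78) (nat_lit 0) (nat_lit 76) (XT.lf (nat_lit 0) (nat_lit 12455518686) (nat_lit 1216) (nat_lit 8538071331) (nat_lit 1292) (nat_lit 40164838223) (nat_lit 227) (nat_lit 5) (nat_lit 243) (nat_lit 5) (nat_lit 244) (nat_lit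 5) (nat_lit 396) (nat_lit 387) (nat_lit 117)) (XT.lf (nat_lit 0) (nat_lit 15235658428) (nat_lit 1216) (nat_lit 40032475652) (nat_lit 1292) (nat_lit 6851911045) (nat_lit 228) (nat_lit 5) (nat_lit 244) (nat_lit 5) (nat_lit 245) (nat_lit 5) (nat_lit 397) (nat_lit 387) (nat_lit 116))) (XT.nd (nat_lit 78) (nat_lit 0) (nat_lit 76) (XT.lf (nat_lit 0) (nat_lit 18393450465) (nat_lit 1216) (nat_lit 9510137514) (nat_lit 1292) (nat_lit 35198095520) (nat_lit 228) (nat_lit 5) (nat_lit 244) (nat_lit 5) (nat_lit 245) (nat_lit 5) (nat_lit 398) (nat_lit 387) (nat_lit 115)) (XT.lf (nat_lit 0) (nat_lit 21865129618) (nat_lit 1216) (nat_lit 41747402703) (nat_lit 1292) (nat_lit 493664517) (nat_lit 229) (nat_lit 5) (nat_lit 245) (nat_lit 5) (nat_lit 246) (nat_lit 5) (nat_lit 399) (nat_lit 387) (nat_lit 114))))) (XT.nd (nat_lit 234) (nat_lit 1064) (nat_lit 0) (XT.nd (nat_lit 78) (nat_lit 0) (nat_lit 0) (XT.lf (nat_lit 0) (nat_lit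 25813572184) (nat_lit 1216) (nat_lit 10036952325) (nat_lit 1292) (nat_lit 29279143075) (nat_lit 229) (nat_lit 5) (nat_lit 245) (nat_lit 5) (nat_lit 246) (nat_lit 5) (nat_lit 400) (nat_lit 387) (nat_lit 113)) (XT.nd (nat_lit 78) (nat_lit 0) (nat_lit 76) (XT.lf (nat_lit 76) (nat_lit 23074588623) (nat_lit 0) (nat_lit 7027060563) (nat_lit 1292) (nat_lit 36075558221) (nat_lit 230) (nat_lit 5) (nat_lit 229) (nat_lit 5) (nat_lit 246) (nat_lit 5) (nat_lit 401) (nat_lit 387) (nat_lit 112)) (XT.lf (nat_lit 0) (nat_lit 34837946826) (nat_lit 1216) (nat_lit 10087251680) (nat_lit 1292) (nat_lit 22321387947) (nat_lit 230) (nat_lit 5) (nat_lit 246) (nat_lit 5) (nat_lit 247) (nat_lit 5) (nat_lit 402) (nat_lit 387) (nat_lit 111)))) (XT.nd (nat_lit 156) (nat_lit 1140) (nat_lit 0) (XT.nd (nat_lit 78) (nat_lit 0) (nat_lit 76) (XT.lf (nat_lit 76) (nat_lit 24323142023) (nat_lit 0) (nat_lit 15695981812) (nat_lit 1292) (nat_lit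 28319839689) (nat_lit 231) (nat_lit 5) (nat_lit 230) (nat_lit 5) (nat_lit 247) (nat_lit 5) (nat_lit 403) (nat_lit 387) (nat_lit 110)) (XT.lf (nat_lit 0) (nat_lit 45596545119) (nat_lit 1216) (nat_lit 9628462618) (nat_lit 76) (nat_lit 14231880257) (nat_lit 231) (nat_lit 5) (nat_lit 247) (nat_lit 5) (nat_lit 232) (nat_lit 5) (nat_lit 404) (nat_lit 387) (nat_lit 109))) (XT.nd (nat_lit 78) (nat_lit 0) (nat_lit 0) (XT.lf (nat_lit 0) (nat_lit 26144799679) (nat_lit 1216) (nat_lit 25602651986) (nat_lit 1292) (nat_lit 18848714000) (nat_lit 215) (nat_lit 5) (nat_lit 231) (nat_lit 5) (nat_lit 232) (nat_lit 5) (nat_lit 405) (nat_lit 387) (nat_lit 108)) (XT.lf (nat_lit 0) (nat_lit 58227708364) (nat_lit 1292) (nat_lit 8626719365) (nat_lit 76) (nat_lit 4910849582) (nat_lit 215) (nat_lit 5) (nat_lit 232) (nat_lit 5) (nat_lit 216) (nat_lit 5) (nat_lit 406) (nat_lit 387) (nat_lit 107))))))))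
noncomputable def xc252 : XT := (XT.nd (nat_lit 46878) (nat_lit 0) (nat_lit 532) (XT.nd (nat_lit 45864) (nat_lit 0) (nat_lit 2356) (XT.nd (nat_lit 468) (nat_lit 532) (nat_lit 0) (XT.nd (nat_lit 234) (nat_lit 608) (nat_lit 0) (XT.nd (nat_lit 78) (nat_lit 608) (nat_lit 0) (XT.lf (nat_lit 0) (nat_lit 28576313018) (nat_lit 608) (nat_lit 36853709794) (nat_lit 684) (nat_lit 7523610319) (nat_lit 207) (nat_lit 5) (nat_lit 215) (nat_lit 5) (nat_lit 216) (nat_lit 5) (nat_lit 407) (nat_lit 387) (nat_lit 106)) (XT.nd (nat_lit 78) (nat_lit 608) (nat_lit 0) (XT.lf (nat_lit 0) (nat_lit 67071791631) (nat_lit 608) (nat_lit 5863204375) (nat_lit 684) (nat_lit 1240046258) (nat_lit 207) (nat_lit 5) (nat_lit 215) (nat_lit 5) (nat_lit 216) (nat_lit 5) (nat_lit 408) (nat_lit 387) (nat_lit 105)) (XT.lf (nat_lit 0) (nat_lit 5689679381) (nat_lit 608) (nat_lit 43816449543) (nat_lit 76) (nat_lit 25908663732) (nat_lit 199) (nat_lit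 5) (nat_lit 207) (nat_lit 5) (nat_lit 200) (nat_lit 5) (nat_lit 409) (nat_lit 387) (nat_lit 104)))) (XT.nd (nat_lit 78) (nat_lit 608) (nat_lit 0) (XT.lf (nat_lit 0) (nat_lit 12932360639) (nat_lit 608) (nat_lit 5154520148) (nat_lit 76) (nat_lit 58600587106) (nat_lit 199) (nat_lit 5) (nat_lit 207) (nat_lit 5) (nat_lit 200) (nat_lit 5) (nat_lit 410) (nat_lit 387) (nat_lit 103)) (XT.nd (nat_lit 78) (nat_lit 0) (nat_lit 0) (XT.lf (nat_lit 0) (nat_lit 20872289076) (nat_lit 684) (nat_lit 42771999735) (nat_lit 76) (nat_lit 14339635854) (nat_lit 191) (nat_lit 5) (nat_lit 200) (nat_lit 5) (nat_lit 192) (nat_lit 5) (nat_lit 411) (nat_lit 387) (nat_lit 102)) (XT.lf (nat_lit 0) (nat_lit 29281580622) (nat_lit 684) (nat_lit 2602768139) (nat_lit 76) (nat_lit 47427991695) (nat_lit 191) (nat_lit 5) (nat_lit 200) (nat_lit 5) (nat_lit 192) (nat_lit 5) (nat_lit 412) (nat_lit 387) (nat_lit 101))))) (XT.nd (nat_lit 45084) (nat_lit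 0) (nat_lit 3040) (XT.nd (nat_lit 44928) (nat_lit 0) (nat_lit 2964) (XT.lf (nat_lit 0) (nat_lit 38334521048) (nat_lit 608) (nat_lit 41138258281) (nat_lit 76) (nat_lit 1196088552) (nat_lit 184) (nat_lit 5) (nat_lit 192) (nat_lit 5) (nat_lit 185) (nat_lit 5) (nat_lit 413) (nat_lit 387) (nat_lit 100)) (XT.nd (nat_lit 78) (nat_lit 0) (nat_lit 0) (XT.lf (nat_lit 0) (nat_lit 689341214) (nat_lit 1292) (nat_lit 13394314504) (nat_lit 1292) (nat_lit 13394314504) (nat_lit 223) (nat_lit 3) (nat_lit 240) (nat_lit 3) (nat_lit 240) (nat_lit 5) (nat_lit 388) (nat_lit 388) (nat_lit 124)) (XT.lf (nat_lit 0) (nat_lit 1420576621) (nat_lit 1292) (nat_lit 777580850) (nat_lit 1292) (nat_lit 53581472272) (nat_lit 223) (nat_lit 3) (nat_lit 240) (nat_lit 3) (nat_lit 240) (nat_lit 5) (nat_lit 389) (nat_lit 388) (nat_lit 123)))) (XT.nd (nat_lit 156) (nat_lit 0) (nat_lit 76) (XT.nd (nat_lit 78) (nat_lit 0) (nat_lit 0) (XT.lf (nat_lit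 0) (nat_lit 1956452017) (nat_lit 1216) (nat_lit 30327834106) (nat_lit 1292) (nat_lit 24328962389) (nat_lit 224) (nat_lit 5) (nat_lit 240) (nat_lit 5) (nat_lit 241) (nat_lit 5) (nat_lit 390) (nat_lit 388) (nat_lit 122)) (XT.lf (nat_lit 0) (nat_lit 2537293231) (nat_lit 1216) (nat_lit 3317693700) (nat_lit 1292) (nat_lit 51616022733) (nat_lit 224) (nat_lit 5) (nat_lit 240) (nat_lit 5) (nat_lit 241) (nat_lit 5) (nat_lit 391) (nat_lit 388) (nat_lit 121))) (XT.nd (nat_lit 78) (nat_lit 0) (nat_lit 0) (XT.lf (nat_lit 0) (nat_lit 3582773911) (nat_lit 1216) (nat_lit 33565139998) (nat_lit 1292) (nat_lit 21193173807) (nat_lit 225) (nat_lit 5) (nat_lit 241) (nat_lit 5) (nat_lit 242) (nat_lit 5) (nat_lit 392) (nat_lit 388) (nat_lit 120)) (XT.lf (nat_lit 0) (nat_lit 4750664077) (nat_lit 1216) (nat_lit 5514617051) (nat_lit 1292) (nat_lit 48969256108) (nat_lit 225) (nat_lit 5) (nat_lit 241) (nat_lit 5) (nat_lit 242) (nat_lit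 5) (nat_lit 393) (nat_lit 388) (nat_lit 119)))))) (XT.nd (nat_lit 468) (nat_lit 836) (nat_lit 0) (XT.nd (nat_lit 234) (nat_lit 0) (nat_lit 76) (XT.nd (nat_lit 78) (nat_lit 0) (nat_lit 0) (XT.lf (nat_lit 0) (nat_lit 6351800554) (nat_lit 1216) (nat_lit 36475475075) (nat_lit 1292) (nat_lit 17315568789) (nat_lit 226) (nat_lit 5) (nat_lit 242) (nat_lit 5) (nat_lit 243) (nat_lit 5) (nat_lit 394) (nat_lit 388) (nat_lit 118)) (XT.nd (nat_lit 78) (nat_lit 0) (nat_lit 76) (XT.lf (nat_lit 0) (nat_lit 8158128724) (nat_lit 1216) (nat_lit 7341525356) (nat_lit 1292) (nat_lit 45574032458) (nat_lit 226) (nat_lit 5) (nat_lit 242) (nat_lit 5) (nat_lit 243) (nat_lit 5) (nat_lit 395) (nat_lit 388) (nat_lit 117)) (XT.lf (nat_lit 0) (nat_lit 10363947028) (nat_lit 1216) (nat_lit 39032502447) (nat_lit 1292) (nat_lit 12625645876) (nat_lit 227) (nat_lit 5) (nat_lit 243) (nat_lit 5) (nat_lit 244) (nat_lit 5) (nat_lit 396) (nat_lit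 388) (nat_lit 116)))) (XT.nd (nat_lit 78) (nat_lit 0) (nat_lit 76) (XT.lf (nat_lit 0) (nat_lit 12863592870) (nat_lit 1216) (nat_lit 8770261451) (nat_lit 1292) (nat_lit 41358272942) (nat_lit 227) (nat_lit 5) (nat_lit 243) (nat_lit 5) (nat_lit 244) (nat_lit 5) (nat_lit 397) (nat_lit 388) (nat_lit 115)) (XT.nd (nat_lit 78) (nat_lit 0) (nat_lit 0) (XT.lf (nat_lit 0) (nat_lit 15726267266) (nat_lit 1216) (nat_lit 41208607426) (nat_lit 1292) (nat_lit 7047744679) (nat_lit 228) (nat_lit 5) (nat_lit 244) (nat_lit 5) (nat_lit 245) (nat_lit 5) (nat_lit 398) (nat_lit 388) (nat_lit 114)) (XT.lf (nat_lit 0) (nat_lit 18977816197) (nat_lit 1216) (nat_lit 9771322711) (nat_lit 1292) (nat_lit 36244597903) (nat_lit 228) (nat_lit 5) (nat_lit 244) (nat_lit 5) (nat_lit 245) (nat_lit 5) (nat_lit 399) (nat_lit 388) (nat_lit 113))))) (XT.nd (nat_lit 234) (nat_lit 1064) (nat_lit 0) (XT.nd (nat_lit 78) (nat_lit 0) (nat_lit 0) (XT.lf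 (nat_lit 0) (nat_lit 22552850358) (nat_lit 1216) (nat_lit 42974890755) (nat_lit 1292) (nat_lit 500668890) (nat_lit 229) (nat_lit 5) (nat_lit 245) (nat_lit 5) (nat_lit 246) (nat_lit 5) (nat_lit 400) (nat_lit 388) (nat_lit 112)) (XT.nd (nat_lit 78) (nat_lit 0) (nat_lit 0) (XT.lf (nat_lit 0) (nat_lit 26618820953) (nat_lit 1216) (nat_lit 10313853099) (nat_lit 1292) (nat_lit 30149939151) (nat_lit 229) (nat_lit 5) (nat_lit 245) (nat_lit 5) (nat_lit 246) (nat_lit 5) (nat_lit 401) (nat_lit 388) (nat_lit 111)) (XT.lf (nat_lit 76) (nat_lit 23790796747) (nat_lit 0) (nat_lit 7244075638) (nat_lit 1292) (nat_lit 37126727431) (nat_lit 230) (nat_lit 5) (nat_lit 229) (nat_lit 5) (nat_lit 246) (nat_lit 5) (nat_lit 402) (nat_lit 388) (nat_lit 110)))) (XT.nd (nat_lit 156) (nat_lit 1140) (nat_lit 0) (XT.nd (nat_lit 78) (nat_lit 0) (nat_lit 0) (XT.lf (nat_lit 0) (nat_lit 35912322215) (nat_lit 1216) (nat_lit 10365642135) (nat_lit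 1292) (nat_lit 22985124527) (nat_lit 230) (nat_lit 5) (nat_lit 246) (nat_lit 5) (nat_lit 247) (nat_lit 5) (nat_lit 403) (nat_lit 388) (nat_lit 109)) (XT.lf (nat_lit 76) (nat_lit 25076825858) (nat_lit 0) (nat_lit 16171487715) (nat_lit 1292) (nat_lit 29139942841) (nat_lit 231) (nat_lit 5) (nat_lit 230) (nat_lit 5) (nat_lit 247) (nat_lit 5) (nat_lit 404) (nat_lit 388) (nat_lit 108))) (XT.nd (nat_lit 78) (nat_lit 1216) (nat_lit 0) (XT.lf (nat_lit 0) (nat_lit 46992180843) (nat_lit 1216) (nat_lit 9893131971) (nat_lit 76) (nat_lit 14654432615) (nat_lit 231) (nat_lit 5) (nat_lit 247) (nat_lit 5) (nat_lit 232) (nat_lit 5) (nat_lit 405) (nat_lit 388) (nat_lit 107)) (XT.lf (nat_lit 0) (nat_lit 26953091092) (nat_lit 1216) (nat_lit 26373945747) (nat_lit 1292) (nat_lit 19386182418) (nat_lit 215) (nat_lit 5) (nat_lit 231) (nat_lit 5) (nat_lit 232) (nat_lit 5) (nat_lit 406) (nat_lit 388) (nat_lit 106))))))) (XT.nd (nat_lit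 45942) (nat_lit 0) (nat_lit 1824) (XT.nd (nat_lit 468) (nat_lit 0) (nat_lit 0) (XT.nd (nat_lit 234) (nat_lit 1216) (nat_lit 0) (XT.nd (nat_lit 78) (nat_lit 608) (nat_lit 0) (XT.lf (nat_lit 0) (nat_lit 60000880127) (nat_lit 1292) (nat_lit 8861433862) (nat_lit 76) (nat_lit 5055115379) (nat_lit 215) (nat_lit 5) (nat_lit 232) (nat_lit 5) (nat_lit 216) (nat_lit 5) (nat_lit 407) (nat_lit 388) (nat_lit 105)) (XT.nd (nat_lit 78) (nat_lit 0) (nat_lit 0) (XT.lf (nat_lit 0) (nat_lit 29457453345) (nat_lit 608) (nat_lit 37961272735) (nat_lit 684) (nat_lit 7722726389) (nat_lit 207) (nat_lit 5) (nat_lit 215) (nat_lit 5) (nat_lit 216) (nat_lit 5) (nat_lit 408) (nat_lit 388) (nat_lit 104)) (XT.lf (nat_lit 0) (nat_lit 69107101628) (nat_lit 608) (nat_lit 6040995309) (nat_lit 684) (nat_lit 1251429938) (nat_lit 207) (nat_lit 5) (nat_lit 215) (nat_lit 5) (nat_lit 216) (nat_lit 5) (nat_lit 409) (nat_lit 388) (nat_lit 103))))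 (XT.nd (nat_lit 78) (nat_lit 608) (nat_lit 0) (XT.lf (nat_lit 0) (nat_lit 5885158654) (nat_lit 608) (nat_lit 45106729022) (nat_lit 76) (nat_lit 26684590836) (nat_lit 199) (nat_lit 5) (nat_lit 207) (nat_lit 5) (nat_lit 200) (nat_lit 5) (nat_lit 410) (nat_lit 388) (nat_lit 102)) (XT.nd (nat_lit 78) (nat_lit 608) (nat_lit 0) (XT.lf (nat_lit 0) (nat_lit 13344398344) (nat_lit 608) (nat_lit 5285647007) (nat_lit 76) (nat_lit 60357310730) (nat_lit 199) (nat_lit 5) (nat_lit 207) (nat_lit 5) (nat_lit 200) (nat_lit 5) (nat_lit 411) (nat_lit 388) (nat_lit 101)) (XT.lf (nat_lit 0) (nat_lit 21522044428) (nat_lit 684) (nat_lit 44031157338) (nat_lit 76) (nat_lit 14769519601) (nat_lit 191) (nat_lit 5) (nat_lit 200) (nat_lit 5) (nat_lit 192) (nat_lit 5) (nat_lit 412) (nat_lit 388) (nat_lit 100))))) (XT.nd (nat_lit 45162) (nat_lit 0) (nat_lit 2508) (XT.nd (nat_lit 45006) (nat_lit 0) (nat_lit 2432) (XT.lf (nat_lit 0) (nat_lit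 30182927729) (nat_lit 684) (nat_lit 2657547893) (nat_lit 76) (nat_lit 48850535010) (nat_lit 191) (nat_lit 5) (nat_lit 200) (nat_lit 5) (nat_lit 192) (nat_lit 5) (nat_lit 413) (nat_lit 388) (nat_lit 99)) (XT.nd (nat_lit 78) (nat_lit 0) (nat_lit 0) (XT.lf (nat_lit 0) (nat_lit 731031485) (nat_lit 1292) (nat_lit 13785317141) (nat_lit 1292) (nat_lit 13785317141) (nat_lit 223) (nat_lit 3) (nat_lit 240) (nat_lit 3) (nat_lit 240) (nat_lit 5) (nat_lit 389) (nat_lit 389) (nat_lit 122)) (XT.lf (nat_lit 0) (nat_lit 1503990103) (nat_lit 1292) (nat_lit 779885366) (nat_lit 1292) (nat_lit 55167893531) (nat_lit 223) (nat_lit 3) (nat_lit 240) (nat_lit 3) (nat_lit 240) (nat_lit 5) (nat_lit 390) (nat_lit 389) (nat_lit 121)))) (XT.nd (nat_lit 156) (nat_lit 0) (nat_lit 76) (XT.nd (nat_lit 78) (nat_lit 0) (nat_lit 0) (XT.lf (nat_lit 0) (nat_lit 2054771070) (nat_lit 1216) (nat_lit 31215450530) (nat_lit 1292) (nat_lit 25040210603)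 (nat_lit 224) (nat_lit 5) (nat_lit 240) (nat_lit 5) (nat_lit 241) (nat_lit 5) (nat_lit 391) (nat_lit 389) (nat_lit 120)) (XT.lf (nat_lit 0) (nat_lit 2651883380) (nat_lit 1216) (nat_lit 3395653056) (nat_lit 1292) (nat_lit 53146425105) (nat_lit 224) (nat_lit 5) (nat_lit 240) (nat_lit 5) (nat_lit 241) (nat_lit 5) (nat_lit 392) (nat_lit 389) (nat_lit 119))) (XT.nd (nat_lit 78) (nat_lit 0) (nat_lit 0) (XT.lf (nat_lit 0) (nat_lit 3727657593) (nat_lit 1216) (nat_lit 34549428290) (nat_lit 1292) (nat_lit 21813088885) (nat_lit 225) (nat_lit 5) (nat_lit 241) (nat_lit 5) (nat_lit 242) (nat_lit 5) (nat_lit 393) (nat_lit 389) (nat_lit 118)) (XT.lf (nat_lit 0) (nat_lit 4929495130) (nat_lit 1216) (nat_lit 5658049827) (nat_lit 1292) (nat_lit 50422916183) (nat_lit 225) (nat_lit 5) (nat_lit 241) (nat_lit 5) (nat_lit 242) (nat_lit 5) (nat_lit 394) (nat_lit 389) (nat_lit 117)))))) (XT.nd (nat_lit 546) (nat_lit 836) (nat_lit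 0) (XT.nd (nat_lit 234) (nat_lit 0) (nat_lit 76) (XT.nd (nat_lit 78) (nat_lit 0) (nat_lit 0) (XT.lf (nat_lit 0) (nat_lit 6577686121) (nat_lit 1216) (nat_lit 37546731800) (nat_lit 1292) (nat_lit 17821629671) (nat_lit 226) (nat_lit 5) (nat_lit 242) (nat_lit 5) (nat_lit 243) (nat_lit 5) (nat_lit 395) (nat_lit 389) (nat_lit 116)) (XT.nd (nat_lit 78) (nat_lit 0) (nat_lit 76) (XT.lf (nat_lit 0) (nat_lit 8437175062) (nat_lit 1216) (nat_lit 7539433711) (nat_lit 1292) (nat_lit 46928237721) (nat_lit 226) (nat_lit 5) (nat_lit 242) (nat_lit 5) (nat_lit 243) (nat_lit 5) (nat_lit 396) (nat_lit 389) (nat_lit 115)) (XT.lf (nat_lit 0) (nat_lit 10708271869) (nat_lit 1216) (nat_lit 40180223132) (nat_lit 1292) (nat_lit 12993240080) (nat_lit 227) (nat_lit 5) (nat_lit 243) (nat_lit 5) (nat_lit 244) (nat_lit 5) (nat_lit 397) (nat_lit 389) (nat_lit 114)))) (XT.nd (nat_lit 156) (nat_lit 0) (nat_lit 76) (XT.nd (nat_lit 78) (nat_lit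 0) (nat_lit 76) (XT.lf (nat_lit 0) (nat_lit 13281934084) (nat_lit 1216) (nat_lit 9010792218) (nat_lit 1292) (nat_lit 42588171449) (nat_lit 227) (nat_lit 5) (nat_lit 243) (nat_lit 5) (nat_lit 244) (nat_lit 5) (nat_lit 398) (nat_lit 389) (nat_lit 113)) (XT.lf (nat_lit 0) (nat_lit 16229669087) (nat_lit 1216) (nat_lit 42421449213) (nat_lit 1292) (nat_lit 7250011501) (nat_lit 228) (nat_lit 5) (nat_lit 244) (nat_lit 5) (nat_lit 245) (nat_lit 5) (nat_lit 399) (nat_lit 389) (nat_lit 112))) (XT.nd (nat_lit 78) (nat_lit 0) (nat_lit 76) (XT.lf (nat_lit 0) (nat_lit 19577843696) (nat_lit 1216) (nat_lit 10041727989) (nat_lit 1292) (nat_lit 37323037279) (nat_lit 228) (nat_lit 5) (nat_lit 244) (nat_lit 5) (nat_lit 245) (nat_lit 5) (nat_lit 400) (nat_lit 389) (nat_lit 111)) (XT.lf (nat_lit 0) (nat_lit 23259379173) (nat_lit 1216) (nat_lit 44240634763) (nat_lit 1292) (nat_lit 508331465) (nat_lit 229) (nat_lit 5) (nat_lit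 245) (nat_lit 5) (nat_lit 246) (nat_lit 5) (nat_lit 401) (nat_lit 389) (nat_lit 110))))) (XT.nd (nat_lit 234) (nat_lit 1064) (nat_lit 0) (XT.nd (nat_lit 78) (nat_lit 0) (nat_lit 0) (XT.lf (nat_lit 0) (nat_lit 27446456751) (nat_lit 1216) (nat_lit 10600450523) (nat_lit 1292) (nat_lit 31047294131) (nat_lit 229) (nat_lit 5) (nat_lit 245) (nat_lit 5) (nat_lit 246) (nat_lit 5) (nat_lit 402) (nat_lit 389) (nat_lit 109)) (XT.nd (nat_lit 78) (nat_lit 0) (nat_lit 76) (XT.lf (nat_lit 76) (nat_lit 24527115111) (nat_lit 0) (nat_lit 7467245074) (nat_lit 1292) (nat_lit 38211216843) (nat_lit 230) (nat_lit 5) (nat_lit 229) (nat_lit 5) (nat_lit 246) (nat_lit 5) (nat_lit 403) (nat_lit 389) (nat_lit 108)) (XT.lf (nat_lit 0) (nat_lit 37017250543) (nat_lit 1216) (nat_lit 10653775038) (nat_lit 1292) (nat_lit 23669112178) (nat_lit 230) (nat_lit 5) (nat_lit 246) (nat_lit 5) (nat_lit 247) (nat_lit 5) (nat_lit 404) (nat_lit 389)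 (nat_lit 107)))) (XT.nd (nat_lit 156) (nat_lit 1140) (nat_lit 0) (XT.nd (nat_lit 78) (nat_lit 0) (nat_lit 76) (XT.lf (nat_lit 76) (nat_lit 25851743109) (nat_lit 0) (nat_lit 16660993219) (nat_lit 1292) (nat_lit 29986342051) (nat_lit 231) (nat_lit 5) (nat_lit 230) (nat_lit 5) (nat_lit 247) (nat_lit 5) (nat_lit 405) (nat_lit 389) (nat_lit 106)) (XT.lf (nat_lit 0) (nat_lit 48428093285) (nat_lit 1216) (nat_lit 10167129694) (nat_lit 76) (nat_lit 15089914355) (nat_lit 231) (nat_lit 5) (nat_lit 247) (nat_lit 5) (nat_lit 232) (nat_lit 5) (nat_lit 406) (nat_lit 389) (nat_lit 105))) (XT.nd (nat_lit 78) (nat_lit 0) (nat_lit 0) (XT.lf (nat_lit 0) (nat_lit 27784256568) (nat_lit 1216) (nat_lit 27168193813) (nat_lit 1292) (nat_lit 19941381802) (nat_lit 215) (nat_lit 5) (nat_lit 231) (nat_lit 5) (nat_lit 232) (nat_lit 5) (nat_lit 407) (nat_lit 389) (nat_lit 104)) (XT.lf (nat_lit 0) (nat_lit 61825734991) (nat_lit 1292) (nat_lit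 9104572491) (nat_lit 76) (nat_lit 5203884789) (nat_lit 215) (nat_lit 5) (nat_lit 232) (nat_lit 5) (nat_lit 216) (nat_lit 5) (nat_lit 408) (nat_lit 389) (nat_lit 103))))))))
noncomputable def xc253 : XT := (XT.nd (nat_lit 92352) (nat_lit 0) (nat_lit 608) (XT.nd (nat_lit 46098) (nat_lit 0) (nat_lit 0) (XT.nd (nat_lit 45552) (nat_lit 0) (nat_lit 1900) (XT.nd (nat_lit 234) (nat_lit 0) (nat_lit 0) (XT.nd (nat_lit 78) (nat_lit 608) (nat_lit 0) (XT.lf (nat_lit 0) (nat_lit 30363658740) (nat_lit 608) (nat_lit 39101950532) (nat_lit 684) (nat_lit 7929342445) (nat_lit 207) (nat_lit 5) (nat_lit 215) (nat_lit 5) (nat_lit 216) (nat_lit 5) (nat_lit 409) (nat_lit 389) (nat_lit 102)) (XT.nd (nat_lit 78) (nat_lit 608) (nat_lit 0) (XT.lf (nat_lit 0) (nat_lit 71202141663) (nat_lit 608) (nat_lit 6224011202) (nat_lit 684) (nat_lit 1264637169) (nat_lit 207) (nat_lit 5) (nat_lit 215) (nat_lit 5) (nat_lit 216) (nat_lit 5) (nat_lit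 410) (nat_lit 389) (nat_lit 101)) (XT.lf (nat_lit 0) (nat_lit 6085079321) (nat_lit 608) (nat_lit 46437106869) (nat_lit 76) (nat_lit 27483872262) (nat_lit 199) (nat_lit 5) (nat_lit 207) (nat_lit 5) (nat_lit 200) (nat_lit 5) (nat_lit 411) (nat_lit 389) (nat_lit 100)))) (XT.nd (nat_lit 45162) (nat_lit 0) (nat_lit 1824) (XT.lf (nat_lit 0) (nat_lit 13767415641) (nat_lit 608) (nat_lit 5422057171) (nat_lit 76) (nat_lit 62166810344) (nat_lit 199) (nat_lit 5) (nat_lit 207) (nat_lit 5) (nat_lit 200) (nat_lit 5) (nat_lit 412) (nat_lit 389) (nat_lit 99)) (XT.nd (nat_lit 78) (nat_lit 0) (nat_lit 0) (XT.lf (nat_lit 0) (nat_lit 772766402) (nat_lit 1292) (nat_lit 14188671359) (nat_lit 1292) (nat_lit 14188671359) (nat_lit 223) (nat_lit 3) (nat_lit 240) (nat_lit 3) (nat_lit 240) (nat_lit 5) (nat_lit 390) (nat_lit 390) (nat_lit 120)) (XT.lf (nat_lit 0) (nat_lit 1587564121) (nat_lit 1292) (nat_lit 783465819) (nat_lit 1292)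 (nat_lit 56803114229) (nat_lit 223) (nat_lit 3) (nat_lit 240) (nat_lit 3) (nat_lit 240) (nat_lit 5) (nat_lit 391) (nat_lit 390) (nat_lit 119))))) (XT.nd (nat_lit 234) (nat_lit 0) (nat_lit 76) (XT.nd (nat_lit 78) (nat_lit 0) (nat_lit 0) (XT.lf (nat_lit 0) (nat_lit 2153765030) (nat_lit 1216) (nat_lit 32130970885) (nat_lit 1292) (nat_lit 25773865164) (nat_lit 224) (nat_lit 5) (nat_lit 240) (nat_lit 5) (nat_lit 241) (nat_lit 5) (nat_lit 392) (nat_lit 390) (nat_lit 118)) (XT.nd (nat_lit 78) (nat_lit 0) (nat_lit 76) (XT.lf (nat_lit 0) (nat_lit 2767702821) (nat_lit 1216) (nat_lit 3477189482) (nat_lit 1292) (nat_lit 54723777318) (nat_lit 224) (nat_lit 5) (nat_lit 240) (nat_lit 5) (nat_lit 241) (nat_lit 5) (nat_lit 393) (nat_lit 390) (nat_lit 117)) (XT.lf (nat_lit 0) (nat_lit 3874740847) (nat_lit 1216) (nat_lit 35564546347) (nat_lit 1292) (nat_lit 22452513000) (nat_lit 225) (nat_lit 5) (nat_lit 241) (nat_lit 5)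 (nat_lit 242) (nat_lit 5) (nat_lit 394) (nat_lit 390) (nat_lit 116)))) (XT.nd (nat_lit 156) (nat_lit 0) (nat_lit 76) (XT.nd (nat_lit 78) (nat_lit 0) (nat_lit 76) (XT.lf (nat_lit 0) (nat_lit 5111606708) (nat_lit 1216) (nat_lit 5807048806) (nat_lit 1292) (nat_lit 51921071094) (nat_lit 225) (nat_lit 5) (nat_lit 241) (nat_lit 5) (nat_lit 242) (nat_lit 5) (nat_lit 395) (nat_lit 390) (nat_lit 115)) (XT.lf (nat_lit 0) (nat_lit 6808320080) (nat_lit 1216) (nat_lit 38651446953) (nat_lit 1292) (nat_lit 18343641948) (nat_lit 226) (nat_lit 5) (nat_lit 242) (nat_lit 5) (nat_lit 243) (nat_lit 5) (nat_lit 396) (nat_lit 390) (nat_lit 114))) (XT.nd (nat_lit 78) (nat_lit 0) (nat_lit 76) (XT.lf (nat_lit 0) (nat_lit 8722623689) (nat_lit 1216) (nat_lit 7744561576) (nat_lit 1292) (nat_lit 48323816297) (nat_lit 226) (nat_lit 5) (nat_lit 242) (nat_lit 5) (nat_lit 243) (nat_lit 5) (nat_lit 397) (nat_lit 390) (nat_lit 113)) (XT.lf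 (nat_lit 0) (nat_lit 11061008790) (nat_lit 1216) (nat_lit 41363710335) (nat_lit 1292) (nat_lit 13372503611) (nat_lit 227) (nat_lit 5) (nat_lit 243) (nat_lit 5) (nat_lit 244) (nat_lit 5) (nat_lit 398) (nat_lit 390) (nat_lit 112)))))) (XT.nd (nat_lit 546) (nat_lit 2128) (nat_lit 0) (XT.nd (nat_lit 234) (nat_lit 0) (nat_lit 152) (XT.nd (nat_lit 78) (nat_lit 0) (nat_lit 76) (XT.lf (nat_lit 0) (nat_lit 13710963723) (nat_lit 1216) (nat_lit 9259834925) (nat_lit 1292) (nat_lit 43855589727) (nat_lit 227) (nat_lit 5) (nat_lit 243) (nat_lit 5) (nat_lit 244) (nat_lit 5) (nat_lit 399) (nat_lit 390) (nat_lit 111)) (XT.nd (nat_lit 78) (nat_lit 0) (nat_lit 0) (XT.lf (nat_lit 0) (nat_lit 16746358202) (nat_lit 1216) (nat_lit 43672020453) (nat_lit 1292) (nat_lit 7458872467) (nat_lit 228) (nat_lit 5) (nat_lit 244) (nat_lit 5) (nat_lit 245) (nat_lit 5) (nat_lit 400) (nat_lit 390) (nat_lit 110)) (XT.lf (nat_lit 0) (nat_lit 20194110116)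 (nat_lit 1216) (nat_lit 10321550474) (nat_lit 1292) (nat_lit 38434340650) (nat_lit 228) (nat_lit 5) (nat_lit 244) (nat_lit 5) (nat_lit 245) (nat_lit 5) (nat_lit 401) (nat_lit 390) (nat_lit 109)))) (XT.nd (nat_lit 156) (nat_lit 0) (nat_lit 0) (XT.nd (nat_lit 78) (nat_lit 0) (nat_lit 0) (XT.lf (nat_lit 0) (nat_lit 23985384984) (nat_lit 1216) (nat_lit 45545700243) (nat_lit 1292) (nat_lit 516646268) (nat_lit 229) (nat_lit 5) (nat_lit 245) (nat_lit 5) (nat_lit 246) (nat_lit 5) (nat_lit 402) (nat_lit 390) (nat_lit 108)) (XT.lf (nat_lit 0) (nat_lit 28297252818) (nat_lit 1216) (nat_lit 10896955725) (nat_lit 1292) (nat_lit 31971979808) (nat_lit 229) (nat_lit 5) (nat_lit 245) (nat_lit 5) (nat_lit 246) (nat_lit 5) (nat_lit 403) (nat_lit 390) (nat_lit 107))) (XT.nd (nat_lit 78) (nat_lit 0) (nat_lit 76) (XT.lf (nat_lit 76) (nat_lit 25284226011) (nat_lit 0) (nat_lit 7696773941) (nat_lit 1292) (nat_lit 39329923589) (nat_lit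 230) (nat_lit 5) (nat_lit 229) (nat_lit 5) (nat_lit 246) (nat_lit 5) (nat_lit 404) (nat_lit 390) (nat_lit 106)) (XT.lf (nat_lit 0) (nat_lit 38153744741) (nat_lit 1216) (nat_lit 10951862829) (nat_lit 1292) (nat_lit 24373938976) (nat_lit 230) (nat_lit 5) (nat_lit 246) (nat_lit 5) (nat_lit 247) (nat_lit 5) (nat_lit 405) (nat_lit 390) (nat_lit 105))))) (XT.nd (nat_lit 234) (nat_lit 1216) (nat_lit 0) (XT.nd (nat_lit 78) (nat_lit 1140) (nat_lit 0) (XT.lf (nat_lit 76) (nat_lit 26648609828) (nat_lit 0) (nat_lit 17164933556) (nat_lit 1292) (nat_lit 30859729018) (nat_lit 231) (nat_lit 5) (nat_lit 230) (nat_lit 5) (nat_lit 247) (nat_lit 5) (nat_lit 406) (nat_lit 390) (nat_lit 104)) (XT.nd (nat_lit 78) (nat_lit 1216) (nat_lit 0) (XT.lf (nat_lit 0) (nat_lit 49905582155) (nat_lit 1216) (nat_lit 10450655947) (nat_lit 76) (nat_lit 15538698845) (nat_lit 231) (nat_lit 5) (nat_lit 247) (nat_lit 5) (nat_lit 232) (nat_lit 5)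 (nat_lit 407) (nat_lit 390) (nat_lit 103)) (XT.lf (nat_lit 0) (nat_lit 28639061240) (nat_lit 1216) (nat_lit 27986095404) (nat_lit 1292) (nat_lit 20514751837) (nat_lit 215) (nat_lit 5) (nat_lit 231) (nat_lit 5) (nat_lit 232) (nat_lit 5) (nat_lit 408) (nat_lit 390) (nat_lit 102)))) (XT.nd (nat_lit 156) (nat_lit 608) (nat_lit 0) (XT.nd (nat_lit 78) (nat_lit 608) (nat_lit 0) (XT.lf (nat_lit 0) (nat_lit 63703910245) (nat_lit 1292) (nat_lit 9356308604) (nat_lit 76) (nat_lit 5357282837) (nat_lit 215) (nat_lit 5) (nat_lit 232) (nat_lit 5) (nat_lit 216) (nat_lit 5) (nat_lit 409) (nat_lit 390) (nat_lit 101)) (XT.lf (nat_lit 0) (nat_lit 31295759750) (nat_lit 608) (nat_lit 40276743061) (nat_lit 684) (nat_lit 8143595858) (nat_lit 207) (nat_lit 5) (nat_lit 215) (nat_lit 5) (nat_lit 216) (nat_lit 5) (nat_lit 410) (nat_lit 390) (nat_lit 100))) (XT.nd (nat_lit 78) (nat_lit 608) (nat_lit 0) (XT.lf (nat_lit 0) (nat_lit 73358779939)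 (nat_lit 608) (nat_lit 6412415046) (nat_lit 684) (nat_lit 1279637585) (nat_lit 207) (nat_lit 5) (nat_lit 215) (nat_lit 5) (nat_lit 216) (nat_lit 5) (nat_lit 411) (nat_lit 390) (nat_lit 99)) (XT.lf (nat_lit 0) (nat_lit 6289656310) (nat_lit 608) (nat_lit 47808706243) (nat_lit 76) (nat_lit 28307204247) (nat_lit 199) (nat_lit 5) (nat_lit 207) (nat_lit 5) (nat_lit 200) (nat_lit 5) (nat_lit 412) (nat_lit 390) (nat_lit 98))))))) (XT.nd (nat_lit 1014) (nat_lit 1216) (nat_lit 0) (XT.nd (nat_lit 468) (nat_lit 0) (nat_lit 228) (XT.nd (nat_lit 234) (nat_lit 0) (nat_lit 76) (XT.nd (nat_lit 78) (nat_lit 0) (nat_lit 0) (XT.lf (nat_lit 0) (nat_lit 814616537) (nat_lit 1292) (nat_lit 14604712030) (nat_lit 1292) (nat_lit 14604712030) (nat_lit 223) (nat_lit 3) (nat_lit 240) (nat_lit 3) (nat_lit 240) (nat_lit 5) (nat_lit 391) (nat_lit 391) (nat_lit 118)) (XT.nd (nat_lit 78) (nat_lit 0) (nat_lit 76) (XT.lf (nat_lit 0) (nat_lit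 1671437925) (nat_lit 1292) (nat_lit 788291211) (nat_lit 1292) (nat_lit 58488529074) (nat_lit 223) (nat_lit 3) (nat_lit 240) (nat_lit 3) (nat_lit 240) (nat_lit 5) (nat_lit 392) (nat_lit 391) (nat_lit 117)) (XT.lf (nat_lit 0) (nat_lit 2253584718) (nat_lit 1216) (nat_lit 33075159074) (nat_lit 1292) (nat_lit 26530536905) (nat_lit 224) (nat_lit 5) (nat_lit 240) (nat_lit 5) (nat_lit 241) (nat_lit 5) (nat_lit 393) (nat_lit 391) (nat_lit 116)))) (XT.nd (nat_lit 78) (nat_lit 0) (nat_lit 76) (XT.lf (nat_lit 0) (nat_lit 2884915204) (nat_lit 1216) (nat_lit 3562339208) (nat_lit 1292) (nat_lit 56349428294) (nat_lit 224) (nat_lit 5) (nat_lit 240) (nat_lit 5) (nat_lit 241) (nat_lit 5) (nat_lit 394) (nat_lit 391) (nat_lit 115)) (XT.nd (nat_lit 78) (nat_lit 0) (nat_lit 0) (XT.lf (nat_lit 0) (nat_lit 4024212901) (nat_lit 1216) (nat_lit 36611344373) (nat_lit 1292) (nat_lit 23111979095) (nat_lit 225) (nat_lit 5) (nat_lit 241)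 (nat_lit 5) (nat_lit 242) (nat_lit 5) (nat_lit 395) (nat_lit 391) (nat_lit 114)) (XT.lf (nat_lit 0) (nat_lit 5297216879) (nat_lit 1216) (nat_lit 5961708460) (nat_lit 1292) (nat_lit 53465004882) (nat_lit 225) (nat_lit 5) (nat_lit 241) (nat_lit 5) (nat_lit 242) (nat_lit 5) (nat_lit 396) (nat_lit 391) (nat_lit 113))))) (XT.nd (nat_lit 234) (nat_lit 0) (nat_lit 76) (XT.nd (nat_lit 78) (nat_lit 0) (nat_lit 0) (XT.lf (nat_lit 0) (nat_lit 7043961308) (nat_lit 1216) (nat_lit 39790548471) (nat_lit 1292) (nat_lit 18882039988) (nat_lit 226) (nat_lit 5) (nat_lit 242) (nat_lit 5) (nat_lit 243) (nat_lit 5) (nat_lit 397) (nat_lit 391) (nat_lit 112)) (XT.nd (nat_lit 78) (nat_lit 0) (nat_lit 76) (XT.lf (nat_lit 0) (nat_lit 9014779705) (nat_lit 1216) (nat_lit 7957051928) (nat_lit 1292) (nat_lit 49761966495) (nat_lit 226) (nat_lit 5) (nat_lit 242) (nat_lit 5) (nat_lit 243) (nat_lit 5) (nat_lit 398) (nat_lit 391) (nat_lit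 111)) (XT.lf (nat_lit 0) (nat_lit 11422520235) (nat_lit 1216) (nat_lit 42583960422) (nat_lit 1292) (nat_lit 13763749724) (nat_lit 227) (nat_lit 5) (nat_lit 243) (nat_lit 5) (nat_lit 244) (nat_lit 5) (nat_lit 399) (nat_lit 391) (nat_lit 110)))) (XT.nd (nat_lit 156) (nat_lit 0) (nat_lit 76) (XT.nd (nat_lit 78) (nat_lit 0) (nat_lit 76) (XT.lf (nat_lit 0) (nat_lit 14151109315) (nat_lit 1216) (nat_lit 9517570533) (nat_lit 1292) (nat_lit 45161617617) (nat_lit 227) (nat_lit 5) (nat_lit 243) (nat_lit 5) (nat_lit 244) (nat_lit 5) (nat_lit 400) (nat_lit 391) (nat_lit 109)) (XT.lf (nat_lit 0) (nat_lit 17276837403) (nat_lit 1216) (nat_lit 44961375868) (nat_lit 1292) (nat_lit 7674495197) (nat_lit 228) (nat_lit 5) (nat_lit 244) (nat_lit 5) (nat_lit 245) (nat_lit 5) (nat_lit 401) (nat_lit 391) (nat_lit 108))) (XT.nd (nat_lit 78) (nat_lit 0) (nat_lit 76) (XT.lf (nat_lit 0) (nat_lit 20827203765) (nat_lit 1216) (nat_lit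 10610997765) (nat_lit 1292) (nat_lit 39579464614) (nat_lit 228) (nat_lit 5) (nat_lit 244) (nat_lit 5) (nat_lit 245) (nat_lit 5) (nat_lit 402) (nat_lit 391) (nat_lit 107)) (XT.lf (nat_lit 0) (nat_lit 24731550772) (nat_lit 1216) (nat_lit 46891189393) (nat_lit 1292) (nat_lit 525608620) (nat_lit 229) (nat_lit 5) (nat_lit 245) (nat_lit 5) (nat_lit 246) (nat_lit 5) (nat_lit 403) (nat_lit 391) (nat_lit 106)))))) (XT.nd (nat_lit 546) (nat_lit 608) (nat_lit 0) (XT.nd (nat_lit 234) (nat_lit 1064) (nat_lit 0) (XT.nd (nat_lit 78) (nat_lit 0) (nat_lit 0) (XT.lf (nat_lit 0) (nat_lit 29171999760) (nat_lit 1216) (nat_lit 11203590749) (nat_lit 1292) (nat_lit 32924792566) (nat_lit 229) (nat_lit 5) (nat_lit 245) (nat_lit 5) (nat_lit 246) (nat_lit 5) (nat_lit 404) (nat_lit 391) (nat_lit 105)) (XT.nd (nat_lit 78) (nat_lit 0) (nat_lit 76) (XT.lf (nat_lit 76) (nat_lit 26062827678) (nat_lit 0) (nat_lit 7932872290) (nat_lit 1292)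 (nat_lit 40483777599) (nat_lit 230) (nat_lit 5) (nat_lit 229) (nat_lit 5) (nat_lit 246) (nat_lit 5) (nat_lit 405) (nat_lit 391) (nat_lit 104)) (XT.lf (nat_lit 0) (nat_lit 39322842597) (nat_lit 1216) (nat_lit 11260128903) (nat_lit 1292) (nat_lit 25100211751) (nat_lit 230) (nat_lit 5) (nat_lit 246) (nat_lit 5) (nat_lit 247) (nat_lit 5) (nat_lit 406) (nat_lit 391) (nat_lit 103)))) (XT.nd (nat_lit 156) (nat_lit 1140) (nat_lit 0) (XT.nd (nat_lit 78) (nat_lit 0) (nat_lit 76) (XT.lf (nat_lit 76) (nat_lit 27468159014) (nat_lit 0) (nat_lit 17683756141) (nat_lit 1292) (nat_lit 31760821770) (nat_lit 231) (nat_lit 5) (nat_lit 230) (nat_lit 5) (nat_lit 247) (nat_lit 5) (nat_lit 407) (nat_lit 391) (nat_lit 102)) (XT.lf (nat_lit 0) (nat_lit 51425980906) (nat_lit 1216) (nat_lit 10743921466) (nat_lit 76) (nat_lit 16001171489) (nat_lit 231) (nat_lit 5) (nat_lit 247) (nat_lit 5) (nat_lit 232) (nat_lit 5) (nat_lit 408) (nat_lit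 391) (nat_lit 101))) (XT.nd (nat_lit 78) (nat_lit 0) (nat_lit 0) (XT.lf (nat_lit 0) (nat_lit 29518288667) (nat_lit 1216) (nat_lit 28828370110) (nat_lit 1292) (nat_lit 21106750694) (nat_lit 215) (nat_lit 5) (nat_lit 231) (nat_lit 5) (nat_lit 232) (nat_lit 5) (nat_lit 409) (nat_lit 391) (nat_lit 100)) (XT.lf (nat_lit 0) (nat_lit 65637087317) (nat_lit 1292) (nat_lit 9616825309) (nat_lit 76) (nat_lit 5515438879) (nat_lit 215) (nat_lit 5) (nat_lit 232) (nat_lit 5) (nat_lit 216) (nat_lit 5) (nat_lit 410) (nat_lit 391) (nat_lit 99))))) (XT.nd (nat_lit 45552) (nat_lit 0) (nat_lit 1292) (XT.nd (nat_lit 45396) (nat_lit 0) (nat_lit 1216) (XT.lf (nat_lit 0) (nat_lit 32254607326) (nat_lit 608) (nat_lit 41486679826) (nat_lit 684) (nat_lit 8365633151) (nat_lit 207) (nat_lit 5) (nat_lit 215) (nat_lit 5) (nat_lit 216) (nat_lit 5) (nat_lit 411) (nat_lit 391) (nat_lit 98)) (XT.nd (nat_lit 78) (nat_lit 0) (nat_lit 0) (XT.lf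 (nat_lit 0) (nat_lit 856650606) (nat_lit 1292) (nat_lit 15033786118) (nat_lit 1292) (nat_lit 15033786118) (nat_lit 223) (nat_lit 3) (nat_lit 240) (nat_lit 3) (nat_lit 240) (nat_lit 5) (nat_lit 392) (nat_lit 392) (nat_lit 116)) (XT.lf (nat_lit 0) (nat_lit 1755747223) (nat_lit 1292) (nat_lit 794333592) (nat_lit 1292) (nat_lit 60225578590) (nat_lit 223) (nat_lit 3) (nat_lit 240) (nat_lit 3) (nat_lit 240) (nat_lit 5) (nat_lit 393) (nat_lit 392) (nat_lit 115)))) (XT.nd (nat_lit 156) (nat_lit 0) (nat_lit 76) (XT.nd (nat_lit 78) (nat_lit 0) (nat_lit 0) (XT.lf (nat_lit 0) (nat_lit 2354377986) (nat_lit 1216) (nat_lit 34048806120) (nat_lit 1292) (nat_lit 27310858504) (nat_lit 224) (nat_lit 5) (nat_lit 240) (nat_lit 5) (nat_lit 241) (nat_lit 5) (nat_lit 394) (nat_lit 392) (nat_lit 114)) (XT.lf (nat_lit 0) (nat_lit 3003681812) (nat_lit 1216) (nat_lit 3651143630) (nat_lit 1292) (nat_lit 58024770843) (nat_lit 224) (nat_lit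 5) (nat_lit 240) (nat_lit 5) (nat_lit 241) (nat_lit 5) (nat_lit 395) (nat_lit 392) (nat_lit 113))) (XT.nd (nat_lit 78) (nat_lit 0) (nat_lit 0) (XT.lf (nat_lit 0) (nat_lit 4176261588) (nat_lit 1216) (nat_lit 37690702363) (nat_lit 1292) (nat_lit 23792039103) (nat_lit 225) (nat_lit 5) (nat_lit 241) (nat_lit 5) (nat_lit 242) (nat_lit 5) (nat_lit 396) (nat_lit 392) (nat_lit 112)) (XT.lf (nat_lit 0) (nat_lit 5486543386) (nat_lit 1216) (nat_lit 6122130257) (nat_lit 1292) (nat_lit 55056043025) (nat_lit 225) (nat_lit 5) (nat_lit 241) (nat_lit 5) (nat_lit 242) (nat_lit 5) (nat_lit 397) (nat_lit 392) (nat_lit 111))))))))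
noncomputable def xc254 : XT := (XT.nd (nat_lit 47502) (nat_lit 0) (nat_lit 608) (XT.nd (nat_lit 46488) (nat_lit 0) (nat_lit 608) (XT.nd (nat_lit 468) (nat_lit 836) (nat_lit 0) (XT.nd (nat_lit 234) (nat_lit 0) (nat_lit 76) (XT.nd (nat_lit 78) (nat_lit 0) (nat_lit 0) (XT.lf (nat_lit 0) (nat_lit 7284869765) (nat_lit 1216) (nat_lit 40964996483) (nat_lit 1292) (nat_lit 19437273721) (nat_lit 226) (nat_lit 5) (nat_lit 242) (nat_lit 5) (nat_lit 243) (nat_lit 5) (nat_lit 398) (nat_lit 392) (nat_lit 110)) (XT.nd (nat_lit 78) (nat_lit 0) (nat_lit 76) (XT.lf (nat_lit 0) (nat_lit 9313950881) (nat_lit 1216) (nat_lit 8177056260) (nat_lit 1292) (nat_lit 51243925038) (nat_lit 226) (nat_lit 5) (nat_lit 242) (nat_lit 5) (nat_lit 243) (nat_lit 5) (nat_lit 399) (nat_lit 392) (nat_lit 109)) (XT.lf (nat_lit 0) (nat_lit 11793173201) (nat_lit 1216) (nat_lit 43842004050) (nat_lit 1292) (nat_lit 14167303185) (nat_lit 227) (nat_lit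 5) (nat_lit 243) (nat_lit 5) (nat_lit 244) (nat_lit 5) (nat_lit 400) (nat_lit 392) (nat_lit 108)))) (XT.nd (nat_lit 78) (nat_lit 0) (nat_lit 76) (XT.lf (nat_lit 0) (nat_lit 14602805079) (nat_lit 1216) (nat_lit 9784189703) (nat_lit 1292) (nat_lit 46507379708) (nat_lit 227) (nat_lit 5) (nat_lit 243) (nat_lit 5) (nat_lit 244) (nat_lit 5) (nat_lit 401) (nat_lit 392) (nat_lit 107)) (XT.nd (nat_lit 78) (nat_lit 0) (nat_lit 0) (XT.lf (nat_lit 0) (nat_lit 17821618588) (nat_lit 1216) (nat_lit 46290606248) (nat_lit 1292) (nat_lit 7897054076) (nat_lit 228) (nat_lit 5) (nat_lit 244) (nat_lit 5) (nat_lit 245) (nat_lit 5) (nat_lit 402) (nat_lit 392) (nat_lit 106)) (XT.lf (nat_lit 0) (nat_lit 21477724793) (nat_lit 1216) (nat_lit 10910287994) (nat_lit 1292) (nat_lit 40759396147) (nat_lit 228) (nat_lit 5) (nat_lit 244) (nat_lit 5) (nat_lit 245) (nat_lit 5) (nat_lit 403) (nat_lit 392) (nat_lit 105))))) (XT.nd (nat_lit 234)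 (nat_lit 1064) (nat_lit 0) (XT.nd (nat_lit 78) (nat_lit 0) (nat_lit 0) (XT.lf (nat_lit 0) (nat_lit 25498574341) (nat_lit 1216) (nat_lit 48278241922) (nat_lit 1292) (nat_lit 535215096) (nat_lit 229) (nat_lit 5) (nat_lit 245) (nat_lit 5) (nat_lit 246) (nat_lit 5) (nat_lit 404) (nat_lit 392) (nat_lit 104)) (XT.nd (nat_lit 78) (nat_lit 0) (nat_lit 0) (XT.lf (nat_lit 0) (nat_lit 30071506400) (nat_lit 1216) (nat_lit 11520588614) (nat_lit 1292) (nat_lit 33906554029) (nat_lit 229) (nat_lit 5) (nat_lit 245) (nat_lit 5) (nat_lit 246) (nat_lit 5) (nat_lit 405) (nat_lit 392) (nat_lit 103)) (XT.lf (nat_lit 76) (nat_lit 26863635015) (nat_lit 0) (nat_lit 8175755369) (nat_lit 1292) (nat_lit 41673742244) (nat_lit 230) (nat_lit 5) (nat_lit 229) (nat_lit 5) (nat_lit 246) (nat_lit 5) (nat_lit 406) (nat_lit 392) (nat_lit 102)))) (XT.nd (nat_lit 156) (nat_lit 1140) (nat_lit 0) (XT.nd (nat_lit 78) (nat_lit 0) (nat_lit 0) (XT.lf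 (nat_lit 0) (nat_lit 40525607820) (nat_lit 1216) (nat_lit 11578807678) (nat_lit 1292) (nat_lit 25848556596) (nat_lit 230) (nat_lit 5) (nat_lit 246) (nat_lit 5) (nat_lit 247) (nat_lit 5) (nat_lit 407) (nat_lit 392) (nat_lit 101)) (XT.lf (nat_lit 76) (nat_lit 28311141376) (nat_lit 0) (nat_lit 18217920987) (nat_lit 1292) (nat_lit 32690365136) (nat_lit 231) (nat_lit 5) (nat_lit 230) (nat_lit 5) (nat_lit 247) (nat_lit 5) (nat_lit 408) (nat_lit 392) (nat_lit 100))) (XT.nd (nat_lit 78) (nat_lit 1216) (nat_lit 0) (XT.lf (nat_lit 0) (nat_lit 52990658048) (nat_lit 1216) (nat_lit 11047147621) (nat_lit 76) (nat_lit 16477730036) (nat_lit 231) (nat_lit 5) (nat_lit 247) (nat_lit 5) (nat_lit 232) (nat_lit 5) (nat_lit 409) (nat_lit 392) (nat_lit 99)) (XT.lf (nat_lit 0) (nat_lit 30422741643) (nat_lit 1216) (nat_lit 29695758534) (nat_lit 1292) (nat_lit 21717855281) (nat_lit 215) (nat_lit 5) (nat_lit 231) (nat_lit 5) (nat_lit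 232) (nat_lit 5) (nat_lit 410) (nat_lit 392) (nat_lit 98)))))) (XT.nd (nat_lit 468) (nat_lit 0) (nat_lit 228) (XT.nd (nat_lit 234) (nat_lit 0) (nat_lit 76) (XT.nd (nat_lit 78) (nat_lit 0) (nat_lit 0) (XT.lf (nat_lit 0) (nat_lit 898935639) (nat_lit 1292) (nat_lit 15476252927) (nat_lit 1292) (nat_lit 15476252927) (nat_lit 223) (nat_lit 3) (nat_lit 240) (nat_lit 3) (nat_lit 240) (nat_lit 5) (nat_lit 393) (nat_lit 393) (nat_lit 114)) (XT.nd (nat_lit 78) (nat_lit 0) (nat_lit 76) (XT.lf (nat_lit 0) (nat_lit 1840624523) (nat_lit 1292) (nat_lit 801567921) (nat_lit 1292) (nat_lit 62015750270) (nat_lit 223) (nat_lit 3) (nat_lit 240) (nat_lit 3) (nat_lit 240) (nat_lit 5) (nat_lit 394) (nat_lit 393) (nat_lit 113)) (XT.lf (nat_lit 0) (nat_lit 2456290056) (nat_lit 1216) (nat_lit 35052730736) (nat_lit 1292) (nat_lit 28115484939) (nat_lit 224) (nat_lit 5) (nat_lit 240) (nat_lit 5) (nat_lit 241) (nat_lit 5) (nat_lit 395)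 (nat_lit 393) (nat_lit 112)))) (XT.nd (nat_lit 78) (nat_lit 0) (nat_lit 76) (XT.lf (nat_lit 0) (nat_lit 3124161907) (nat_lit 1216) (nat_lit 3743649233) (nat_lit 1292) (nat_lit 59751242784) (nat_lit 224) (nat_lit 5) (nat_lit 240) (nat_lit 5) (nat_lit 241) (nat_lit 5) (nat_lit 396) (nat_lit 393) (nat_lit 111)) (XT.nd (nat_lit 78) (nat_lit 0) (nat_lit 0) (XT.lf (nat_lit 0) (nat_lit 4331073709) (nat_lit 1216) (nat_lit 38803530758) (nat_lit 1292) (nat_lit 24493264350) (nat_lit 225) (nat_lit 5) (nat_lit 241) (nat_lit 5) (nat_lit 242) (nat_lit 5) (nat_lit 397) (nat_lit 393) (nat_lit 110)) (XT.lf (nat_lit 0) (nat_lit 5679804029) (nat_lit 1216) (nat_lit 6288422634) (nat_lit 1292) (nat_lit 56695553513) (nat_lit 225) (nat_lit 5) (nat_lit 241) (nat_lit 5) (nat_lit 242) (nat_lit 5) (nat_lit 398) (nat_lit 393) (nat_lit 109))))) (XT.nd (nat_lit 234) (nat_lit 0) (nat_lit 76) (XT.nd (nat_lit 78) (nat_lit 0) (nat_lit 0)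 (XT.lf (nat_lit 0) (nat_lit 7531306911) (nat_lit 1216) (nat_lit 42175784023) (nat_lit 1292) (nat_lit 20009808969) (nat_lit 226) (nat_lit 5) (nat_lit 242) (nat_lit 5) (nat_lit 243) (nat_lit 5) (nat_lit 399) (nat_lit 393) (nat_lit 108)) (XT.nd (nat_lit 78) (nat_lit 0) (nat_lit 76) (XT.lf (nat_lit 0) (nat_lit 9620448099) (nat_lit 1216) (nat_lit 8404734594) (nat_lit 1292) (nat_lit 52770968067) (nat_lit 226) (nat_lit 5) (nat_lit 242) (nat_lit 5) (nat_lit 243) (nat_lit 5) (nat_lit 400) (nat_lit 393) (nat_lit 107)) (XT.lf (nat_lit 0) (nat_lit 12173339742) (nat_lit 1216) (nat_lit 45138906943) (nat_lit 1292) (nat_lit 14583500496) (nat_lit 227) (nat_lit 5) (nat_lit 243) (nat_lit 5) (nat_lit 244) (nat_lit 5) (nat_lit 401) (nat_lit 393) (nat_lit 106)))) (XT.nd (nat_lit 156) (nat_lit 0) (nat_lit 76) (XT.nd (nat_lit 78) (nat_lit 0) (nat_lit 76) (XT.lf (nat_lit 0) (nat_lit 15066492479) (nat_lit 1216) (nat_lit 10059892842)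 (nat_lit 1292) (nat_lit 47894036261) (nat_lit 227) (nat_lit 5) (nat_lit 243) (nat_lit 5) (nat_lit 244) (nat_lit 5) (nat_lit 402) (nat_lit 393) (nat_lit 105)) (XT.lf (nat_lit 0) (nat_lit 18381223375) (nat_lit 1216) (nat_lit 47660839285) (nat_lit 1292) (nat_lit 8126730354) (nat_lit 228) (nat_lit 5) (nat_lit 244) (nat_lit 5) (nat_lit 245) (nat_lit 5) (nat_lit 403) (nat_lit 393) (nat_lit 104))) (XT.nd (nat_lit 78) (nat_lit 0) (nat_lit 76) (XT.lf (nat_lit 0) (nat_lit 22146285885) (nat_lit 1216) (nat_lit 11219649886) (nat_lit 1292) (nat_lit 41975153426) (nat_lit 228) (nat_lit 5) (nat_lit 244) (nat_lit 5) (nat_lit 245) (nat_lit 5) (nat_lit 404) (nat_lit 393) (nat_lit 103)) (XT.lf (nat_lit 0) (nat_lit 26287169092) (nat_lit 1216) (nat_lit 49708035920) (nat_lit 1292) (nat_lit 545463477) (nat_lit 229) (nat_lit 5) (nat_lit 245) (nat_lit 5) (nat_lit 246) (nat_lit 5) (nat_lit 405) (nat_lit 393) (nat_lit 102))))))) (XT.nd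 (nat_lit 46566) (nat_lit 0) (nat_lit 0) (XT.nd (nat_lit 46020) (nat_lit 0) (nat_lit 0) (XT.nd (nat_lit 234) (nat_lit 456) (nat_lit 0) (XT.nd (nat_lit 78) (nat_lit 0) (nat_lit 0) (XT.lf (nat_lit 0) (nat_lit 30996600641) (nat_lit 1216) (nat_lit 11848193399) (nat_lit 1292) (nat_lit 34918111745) (nat_lit 229) (nat_lit 5) (nat_lit 245) (nat_lit 5) (nat_lit 246) (nat_lit 5) (nat_lit 406) (nat_lit 393) (nat_lit 101)) (XT.nd (nat_lit 78) (nat_lit 0) (nat_lit 76) (XT.lf (nat_lit 76) (nat_lit 27687380342) (nat_lit 0) (nat_lit 8425643837) (nat_lit 1292) (nat_lit 42900815024) (nat_lit 230) (nat_lit 5) (nat_lit 229) (nat_lit 5) (nat_lit 246) (nat_lit 5) (nat_lit 407) (nat_lit 393) (nat_lit 100)) (XT.lf (nat_lit 0) (nat_lit 41763131117) (nat_lit 1216) (nat_lit 11908144674) (nat_lit 1292) (nat_lit 26619619375) (nat_lit 230) (nat_lit 5) (nat_lit 246) (nat_lit 5) (nat_lit 247) (nat_lit 5) (nat_lit 408) (nat_lit 393) (nat_lit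 99)))) (XT.nd (nat_lit 78) (nat_lit 532) (nat_lit 0) (XT.lf (nat_lit 76) (nat_lit 29178326114) (nat_lit 0) (nat_lit 18767901130) (nat_lit 1292) (nat_lit 33649131243) (nat_lit 231) (nat_lit 5) (nat_lit 230) (nat_lit 5) (nat_lit 247) (nat_lit 5) (nat_lit 409) (nat_lit 393) (nat_lit 98)) (XT.nd (nat_lit 45630) (nat_lit 608) (nat_lit 0) (XT.lf (nat_lit 0) (nat_lit 54601018487) (nat_lit 1216) (nat_lit 11360566491) (nat_lit 76) (nat_lit 16968784911) (nat_lit 231) (nat_lit 5) (nat_lit 247) (nat_lit 5) (nat_lit 232) (nat_lit 5) (nat_lit 410) (nat_lit 393) (nat_lit 97)) (XT.lf (nat_lit 0) (nat_lit 941537147) (nat_lit 1292) (nat_lit 15932484360) (nat_lit 1292) (nat_lit 15932484360) (nat_lit 223) (nat_lit 3) (nat_lit 240) (nat_lit 3) (nat_lit 240) (nat_lit 5) (nat_lit 394) (nat_lit 394) (nat_lit 112))))) (XT.nd (nat_lit 234) (nat_lit 0) (nat_lit 152) (XT.nd (nat_lit 78) (nat_lit 0) (nat_lit 76) (XT.lf (nat_lit 0)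 (nat_lit 1926199451) (nat_lit 1292) (nat_lit 809971940) (nat_lit 1292) (nat_lit 63860579759) (nat_lit 223) (nat_lit 3) (nat_lit 240) (nat_lit 3) (nat_lit 240) (nat_lit 5) (nat_lit 395) (nat_lit 394) (nat_lit 111)) (XT.nd (nat_lit 78) (nat_lit 0) (nat_lit 0) (XT.lf (nat_lit 0) (nat_lit 2559463845) (nat_lit 1216) (nat_lit 36087779934) (nat_lit 1292) (nat_lit 28945093968) (nat_lit 224) (nat_lit 5) (nat_lit 240) (nat_lit 5) (nat_lit 241) (nat_lit 5) (nat_lit 396) (nat_lit 394) (nat_lit 110)) (XT.lf (nat_lit 0) (nat_lit 3246513064) (nat_lit 1216) (nat_lit 3839907521) (nat_lit 1292) (nat_lit 61530328108) (nat_lit 224) (nat_lit 5) (nat_lit 240) (nat_lit 5) (nat_lit 241) (nat_lit 5) (nat_lit 397) (nat_lit 394) (nat_lit 109)))) (XT.nd (nat_lit 156) (nat_lit 0) (nat_lit 76) (XT.nd (nat_lit 78) (nat_lit 0) (nat_lit 0) (XT.lf (nat_lit 0) (nat_lit 4488835378) (nat_lit 1216) (nat_lit 39950771116) (nat_lit 1292) (nat_lit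 25216245968) (nat_lit 225) (nat_lit 5) (nat_lit 241) (nat_lit 5) (nat_lit 242) (nat_lit 5) (nat_lit 398) (nat_lit 394) (nat_lit 108)) (XT.lf (nat_lit 0) (nat_lit 5877217042) (nat_lit 1216) (nat_lit 6460700979) (nat_lit 1292) (nat_lit 58384947970) (nat_lit 225) (nat_lit 5) (nat_lit 241) (nat_lit 5) (nat_lit 242) (nat_lit 5) (nat_lit 399) (nat_lit 394) (nat_lit 107))) (XT.nd (nat_lit 78) (nat_lit 0) (nat_lit 0) (XT.lf (nat_lit 0) (nat_lit 7783536110) (nat_lit 1216) (nat_lit 43423937783) (nat_lit 1292) (nat_lit 20600127780) (nat_lit 226) (nat_lit 5) (nat_lit 242) (nat_lit 5) (nat_lit 243) (nat_lit 5) (nat_lit 400) (nat_lit 394) (nat_lit 106)) (XT.lf (nat_lit 0) (nat_lit 9934585806) (nat_lit 1216) (nat_lit 8640255504) (nat_lit 1292) (nat_lit 54344412197) (nat_lit 226) (nat_lit 5) (nat_lit 242) (nat_lit 5) (nat_lit 243) (nat_lit 5) (nat_lit 401) (nat_lit 394) (nat_lit 105)))))) (XT.nd (nat_lit 546) (nat_lit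 304) (nat_lit 0) (XT.nd (nat_lit 234) (nat_lit 0) (nat_lit 76) (XT.nd (nat_lit 78) (nat_lit 0) (nat_lit 0) (XT.lf (nat_lit 0) (nat_lit 12563397456) (nat_lit 1216) (nat_lit 46475770702) (nat_lit 1292) (nat_lit 15012690134) (nat_lit 227) (nat_lit 5) (nat_lit 243) (nat_lit 5) (nat_lit 244) (nat_lit 5) (nat_lit 402) (nat_lit 394) (nat_lit 104)) (XT.nd (nat_lit 78) (nat_lit 0) (nat_lit 76) (XT.lf (nat_lit 0) (nat_lit 15542620770) (nat_lit 1216) (nat_lit 10344890162) (nat_lit 1292) (nat_lit 49322784166) (nat_lit 227) (nat_lit 5) (nat_lit 243) (nat_lit 5) (nat_lit 244) (nat_lit 5) (nat_lit 403) (nat_lit 394) (nat_lit 103)) (XT.lf (nat_lit 0) (nat_lit 18956183715) (nat_lit 1216) (nat_lit 49073240437) (nat_lit 1292) (nat_lit 8363712259) (nat_lit 228) (nat_lit 5) (nat_lit 244) (nat_lit 5) (nat_lit 245) (nat_lit 5) (nat_lit 404) (nat_lit 394) (nat_lit 102)))) (XT.nd (nat_lit 156) (nat_lit 0) (nat_lit 76) (XT.nd (nat_lit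 78) (nat_lit 0) (nat_lit 76) (XT.lf (nat_lit 0) (nat_lit 22833512946) (nat_lit 1216) (nat_lit 11539322851) (nat_lit 1292) (nat_lit 43227786663) (nat_lit 228) (nat_lit 5) (nat_lit 244) (nat_lit 5) (nat_lit 245) (nat_lit 5) (nat_lit 405) (nat_lit 394) (nat_lit 101)) (XT.lf (nat_lit 0) (nat_lit 27098064795) (nat_lit 1216) (nat_lit 51181788771) (nat_lit 1292) (nat_lit 556352717) (nat_lit 229) (nat_lit 5) (nat_lit 245) (nat_lit 5) (nat_lit 246) (nat_lit 5) (nat_lit 406) (nat_lit 394) (nat_lit 100))) (XT.nd (nat_lit 78) (nat_lit 0) (nat_lit 0) (XT.lf (nat_lit 0) (nat_lit 31948130341) (nat_lit 1216) (nat_lit 12186660340) (nat_lit 1292) (nat_lit 35960339889) (nat_lit 229) (nat_lit 5) (nat_lit 245) (nat_lit 5) (nat_lit 246) (nat_lit 5) (nat_lit 407) (nat_lit 394) (nat_lit 99)) (XT.lf (nat_lit 76) (nat_lit 28534814154) (nat_lit 0) (nat_lit 8682763993) (nat_lit 1292) (nat_lit 44166028288) (nat_lit 230) (nat_lit 5)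 (nat_lit 229) (nat_lit 5) (nat_lit 246) (nat_lit 5) (nat_lit 408) (nat_lit 394) (nat_lit 98))))) (XT.nd (nat_lit 45942) (nat_lit 0) (nat_lit 76) (XT.nd (nat_lit 45786) (nat_lit 532) (nat_lit 0) (XT.lf (nat_lit 0) (nat_lit 43036531283) (nat_lit 1216) (nat_lit 12248396617) (nat_lit 1292) (nat_lit 27414066267) (nat_lit 230) (nat_lit 5) (nat_lit 246) (nat_lit 5) (nat_lit 247) (nat_lit 5) (nat_lit 409) (nat_lit 394) (nat_lit 97)) (XT.nd (nat_lit 78) (nat_lit 0) (nat_lit 0) (XT.lf (nat_lit 0) (nat_lit 984519277) (nat_lit 1292) (nat_lit 16402865193) (nat_lit 1292) (nat_lit 16402865193) (nat_lit 223) (nat_lit 3) (nat_lit 240) (nat_lit 3) (nat_lit 240) (nat_lit 5) (nat_lit 395) (nat_lit 395) (nat_lit 110)) (XT.lf (nat_lit 0) (nat_lit 2012599056) (nat_lit 1292) (nat_lit 819526053) (nat_lit 1292) (nat_lit 65761652106) (nat_lit 223) (nat_lit 3) (nat_lit 240) (nat_lit 3) (nat_lit 240) (nat_lit 5) (nat_lit 396) (nat_lit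 395) (nat_lit 109)))) (XT.nd (nat_lit 156) (nat_lit 0) (nat_lit 76) (XT.nd (nat_lit 78) (nat_lit 0) (nat_lit 0) (XT.lf (nat_lit 0) (nat_lit 2664040284) (nat_lit 1216) (nat_lit 37154829654) (nat_lit 1292) (nat_lit 29800386632) (nat_lit 224) (nat_lit 5) (nat_lit 240) (nat_lit 5) (nat_lit 241) (nat_lit 5) (nat_lit 397) (nat_lit 395) (nat_lit 108)) (XT.lf (nat_lit 0) (nat_lit 3370891488) (nat_lit 1216) (nat_lit 3939974962) (nat_lit 1292) (nat_lit 63363558189) (nat_lit 224) (nat_lit 5) (nat_lit 240) (nat_lit 5) (nat_lit 241) (nat_lit 5) (nat_lit 398) (nat_lit 395) (nat_lit 107))) (XT.nd (nat_lit 78) (nat_lit 0) (nat_lit 0) (XT.lf (nat_lit 0) (nat_lit 4649732373) (nat_lit 1216) (nat_lit 41133396839) (nat_lit 1292) (nat_lit 25961595339) (nat_lit 225) (nat_lit 5) (nat_lit 241) (nat_lit 5) (nat_lit 242) (nat_lit 5) (nat_lit 399) (nat_lit 395) (nat_lit 106)) (XT.lf (nat_lit 0) (nat_lit 6079001450) (nat_lit 1216)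 (nat_lit 6639087628) (nat_lit 1292) (nat_lit 60125682809) (nat_lit 225) (nat_lit 5) (nat_lit 241) (nat_lit 5) (nat_lit 242) (nat_lit 5) (nat_lit 400) (nat_lit 395) (nat_lit 105))))))))
noncomputable def xc255 : XT := (XT.nd (nat_lit 93990) (nat_lit 0) (nat_lit 0) (XT.nd (nat_lit 46878) (nat_lit 0) (nat_lit 0) (XT.nd (nat_lit 468) (nat_lit 228) (nat_lit 0) (XT.nd (nat_lit 234) (nat_lit 0) (nat_lit 76) (XT.nd (nat_lit 78) (nat_lit 0) (nat_lit 0) (XT.lf (nat_lit 0) (nat_lit 8041823032) (nat_lit 1216) (nat_lit 44710518899) (nat_lit 1292) (nat_lit 21208728787) (nat_lit 226) (nat_lit 5) (nat_lit 242) (nat_lit 5) (nat_lit 243) (nat_lit 5) (nat_lit 401) (nat_lit 395) (nat_lit 104)) (XT.nd (nat_lit 78) (nat_lit 0) (nat_lit 76) (XT.lf (nat_lit 0) (nat_lit 10256682447) (nat_lit 1216) (nat_lit 8883796163) (nat_lit 1292) (nat_lit 55965615606) (nat_lit 226) (nat_lit 5) (nat_lit 242) (nat_lit 5) (nat_lit 243) (nat_lit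 5) (nat_lit 402) (nat_lit 395) (nat_lit 103)) (XT.lf (nat_lit 0) (nat_lit 12963729978) (nat_lit 1216) (nat_lit 47853733663) (nat_lit 1292) (nat_lit 15455232797) (nat_lit 227) (nat_lit 5) (nat_lit 243) (nat_lit 5) (nat_lit 244) (nat_lit 5) (nat_lit 403) (nat_lit 395) (nat_lit 102)))) (XT.nd (nat_lit 78) (nat_lit 0) (nat_lit 76) (XT.lf (nat_lit 0) (nat_lit 16031647547) (nat_lit 1216) (nat_lit 10639401760) (nat_lit 1292) (nat_lit 50794857943) (nat_lit 227) (nat_lit 5) (nat_lit 243) (nat_lit 5) (nat_lit 244) (nat_lit 5) (nat_lit 404) (nat_lit 395) (nat_lit 101)) (XT.nd (nat_lit 78) (nat_lit 0) (nat_lit 0) (XT.lf (nat_lit 0) (nat_lit 19547042512) (nat_lit 1216) (nat_lit 50529013833) (nat_lit 1292) (nat_lit 8608195117) (nat_lit 228) (nat_lit 5) (nat_lit 244) (nat_lit 5) (nat_lit 245) (nat_lit 5) (nat_lit 405) (nat_lit 395) (nat_lit 100)) (XT.lf (nat_lit 0) (nat_lit 23540045796) (nat_lit 1216) (nat_lit 11869557084)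 (nat_lit 1292) (nat_lit 44518378992) (nat_lit 228) (nat_lit 5) (nat_lit 244) (nat_lit 5) (nat_lit 245) (nat_lit 5) (nat_lit 406) (nat_lit 395) (nat_lit 99))))) (XT.nd (nat_lit 46098) (nat_lit 0) (nat_lit 0) (XT.nd (nat_lit 78) (nat_lit 456) (nat_lit 0) (XT.lf (nat_lit 0) (nat_lit 27932008370) (nat_lit 1216) (nat_lit 52700758103) (nat_lit 1292) (nat_lit 567882902) (nat_lit 229) (nat_lit 5) (nat_lit 245) (nat_lit 5) (nat_lit 246) (nat_lit 5) (nat_lit 407) (nat_lit 395) (nat_lit 98)) (XT.nd (nat_lit 45942) (nat_lit 456) (nat_lit 0) (XT.lf (nat_lit 0) (nat_lit 32926964184) (nat_lit 1216) (nat_lit 12536255945) (nat_lit 1292) (nat_lit 37034139993) (nat_lit 229) (nat_lit 5) (nat_lit 245) (nat_lit 5) (nat_lit 246) (nat_lit 5) (nat_lit 408) (nat_lit 395) (nat_lit 97)) (XT.lf (nat_lit 0) (nat_lit 1027944963) (nat_lit 1292) (nat_lit 16887793359) (nat_lit 1292) (nat_lit 16887793359) (nat_lit 223) (nat_lit 3) (nat_lit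 240) (nat_lit 3) (nat_lit 240) (nat_lit 5) (nat_lit 396) (nat_lit 396) (nat_lit 108)))) (XT.nd (nat_lit 156) (nat_lit 0) (nat_lit 76) (XT.nd (nat_lit 78) (nat_lit 0) (nat_lit 76) (XT.lf (nat_lit 0) (nat_lit 2099948111) (nat_lit 1292) (nat_lit 830213215) (nat_lit 1292) (nat_lit 67720603050) (nat_lit 223) (nat_lit 3) (nat_lit 240) (nat_lit 3) (nat_lit 240) (nat_lit 5) (nat_lit 397) (nat_lit 396) (nat_lit 107)) (XT.lf (nat_lit 0) (nat_lit 2770158612) (nat_lit 1216) (nat_lit 38254785432) (nat_lit 1292) (nat_lit 30682087782) (nat_lit 224) (nat_lit 5) (nat_lit 240) (nat_lit 5) (nat_lit 241) (nat_lit 5) (nat_lit 398) (nat_lit 396) (nat_lit 106))) (XT.nd (nat_lit 78) (nat_lit 0) (nat_lit 76) (XT.lf (nat_lit 0) (nat_lit 3497452329) (nat_lit 1216) (nat_lit 4043912938) (nat_lit 1292) (nat_lit 65252513042) (nat_lit 224) (nat_lit 5) (nat_lit 240) (nat_lit 5) (nat_lit 241) (nat_lit 5) (nat_lit 399) (nat_lit 396) (nat_lit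 105)) (XT.lf (nat_lit 0) (nat_lit 4813950458) (nat_lit 1216) (nat_lit 42352413909) (nat_lit 1292) (nat_lit 26729944558) (nat_lit 225) (nat_lit 5) (nat_lit 241) (nat_lit 5) (nat_lit 242) (nat_lit 5) (nat_lit 400) (nat_lit 396) (nat_lit 104)))))) (XT.nd (nat_lit 46566) (nat_lit 152) (nat_lit 0) (XT.nd (nat_lit 234) (nat_lit 0) (nat_lit 152) (XT.nd (nat_lit 78) (nat_lit 0) (nat_lit 76) (XT.lf (nat_lit 0) (nat_lit 6285377429) (nat_lit 1216) (nat_lit 6823711874) (nat_lit 1292) (nat_lit 61919260438) (nat_lit 225) (nat_lit 5) (nat_lit 241) (nat_lit 5) (nat_lit 242) (nat_lit 5) (nat_lit 401) (nat_lit 396) (nat_lit 103)) (XT.nd (nat_lit 78) (nat_lit 0) (nat_lit 0) (XT.lf (nat_lit 0) (nat_lit 8306436041) (nat_lit 1216) (nat_lit 46036623780) (nat_lit 1292) (nat_lit 21836127585) (nat_lit 226) (nat_lit 5) (nat_lit 242) (nat_lit 5) (nat_lit 243) (nat_lit 5) (nat_lit 402) (nat_lit 396) (nat_lit 102)) (XT.lf (nat_lit 0)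 (nat_lit 10587060899) (nat_lit 1216) (nat_lit 9135542391) (nat_lit 1292) (nat_lit 57635979156) (nat_lit 226) (nat_lit 5) (nat_lit 242) (nat_lit 5) (nat_lit 243) (nat_lit 5) (nat_lit 403) (nat_lit 396) (nat_lit 101)))) (XT.nd (nat_lit 156) (nat_lit 0) (nat_lit 76) (XT.nd (nat_lit 78) (nat_lit 0) (nat_lit 0) (XT.lf (nat_lit 0) (nat_lit 13374727464) (nat_lit 1216) (nat_lit 49273971783) (nat_lit 1292) (nat_lit 15911501676) (nat_lit 227) (nat_lit 5) (nat_lit 243) (nat_lit 5) (nat_lit 244) (nat_lit 5) (nat_lit 404) (nat_lit 396) (nat_lit 100)) (XT.lf (nat_lit 0) (nat_lit 16534039290) (nat_lit 1216) (nat_lit 10943657706) (nat_lit 1292) (nat_lit 52311530764) (nat_lit 227) (nat_lit 5) (nat_lit 243) (nat_lit 5) (nat_lit 244) (nat_lit 5) (nat_lit 405) (nat_lit 396) (nat_lit 99))) (XT.nd (nat_lit 78) (nat_lit 0) (nat_lit 0) (XT.lf (nat_lit 0) (nat_lit 20154354236) (nat_lit 1216) (nat_lit 52029403226) (nat_lit 1292)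 (nat_lit 8860381483) (nat_lit 228) (nat_lit 5) (nat_lit 244) (nat_lit 5) (nat_lit 245) (nat_lit 5) (nat_lit 406) (nat_lit 396) (nat_lit 98)) (XT.lf (nat_lit 0) (nat_lit 24266538868) (nat_lit 1216) (nat_lit 12210613678) (nat_lit 1292) (nat_lit 45848047364) (nat_lit 228) (nat_lit 5) (nat_lit 244) (nat_lit 5) (nat_lit 245) (nat_lit 5) (nat_lit 407) (nat_lit 396) (nat_lit 97))))) (XT.nd (nat_lit 234) (nat_lit 0) (nat_lit 76) (XT.nd (nat_lit 78) (nat_lit 0) (nat_lit 0) (XT.lf (nat_lit 0) (nat_lit 1071876070) (nat_lit 1292) (nat_lit 17387680257) (nat_lit 1292) (nat_lit 17387680257) (nat_lit 223) (nat_lit 3) (nat_lit 240) (nat_lit 3) (nat_lit 240) (nat_lit 5) (nat_lit 397) (nat_lit 397) (nat_lit 106)) (XT.nd (nat_lit 78) (nat_lit 0) (nat_lit 76) (XT.lf (nat_lit 0) (nat_lit 2188369387) (nat_lit 1292) (nat_lit 842018830) (nat_lit 1292) (nat_lit 69739120359) (nat_lit 223) (nat_lit 3) (nat_lit 240) (nat_lit 3) (nat_lit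 240) (nat_lit 5) (nat_lit 398) (nat_lit 397) (nat_lit 105)) (XT.lf (nat_lit 0) (nat_lit 2877956667) (nat_lit 1216) (nat_lit 39388583099) (nat_lit 1292) (nat_lit 31590946637) (nat_lit 224) (nat_lit 5) (nat_lit 240) (nat_lit 5) (nat_lit 241) (nat_lit 5) (nat_lit 399) (nat_lit 397) (nat_lit 104)))) (XT.nd (nat_lit 156) (nat_lit 0) (nat_lit 76) (XT.nd (nat_lit 78) (nat_lit 0) (nat_lit 76) (XT.lf (nat_lit 0) (nat_lit 3626349974) (nat_lit 1216) (nat_lit 4151787708) (nat_lit 1292) (nat_lit 67198822629) (nat_lit 224) (nat_lit 5) (nat_lit 240) (nat_lit 5) (nat_lit 241) (nat_lit 5) (nat_lit 400) (nat_lit 397) (nat_lit 103)) (XT.lf (nat_lit 0) (nat_lit 4981675705) (nat_lit 1216) (nat_lit 43608861682) (nat_lit 1292) (nat_lit 27521946919) (nat_lit 225) (nat_lit 5) (nat_lit 241) (nat_lit 5) (nat_lit 242) (nat_lit 5) (nat_lit 401) (nat_lit 397) (nat_lit 102))) (XT.nd (nat_lit 78) (nat_lit 0) (nat_lit 76) (XT.lf (nat_lit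 0) (nat_lit 6496566648) (nat_lit 1216) (nat_lit 7014709983) (nat_lit 1292) (nat_lit 63767230508) (nat_lit 225) (nat_lit 5) (nat_lit 241) (nat_lit 5) (nat_lit 242) (nat_lit 5) (nat_lit 402) (nat_lit 397) (nat_lit 101)) (XT.lf (nat_lit 0) (nat_lit 8577646576) (nat_lit 1216) (nat_lit 47403384963) (nat_lit 1292) (nat_lit 22482857123) (nat_lit 226) (nat_lit 5) (nat_lit 242) (nat_lit 5) (nat_lit 243) (nat_lit 5) (nat_lit 403) (nat_lit 397) (nat_lit 100))))))) (XT.nd (nat_lit 93366) (nat_lit 0) (nat_lit 0) (XT.nd (nat_lit 46566) (nat_lit 0) (nat_lit 76) (XT.nd (nat_lit 234) (nat_lit 228) (nat_lit 0) (XT.nd (nat_lit 78) (nat_lit 0) (nat_lit 76) (XT.lf (nat_lit 0) (nat_lit 10926048895) (nat_lit 1216) (nat_lit 9395688731) (nat_lit 1292) (nat_lit 59356947570) (nat_lit 226) (nat_lit 5) (nat_lit 242) (nat_lit 5) (nat_lit 243) (nat_lit 5) (nat_lit 404) (nat_lit 397) (nat_lit 99)) (XT.nd (nat_lit 78) (nat_lit 0) (nat_lit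 0) (XT.lf (nat_lit 0) (nat_lit 13796787071) (nat_lit 1216) (nat_lit 50737699570) (nat_lit 1292) (nat_lit 16381882728) (nat_lit 227) (nat_lit 5) (nat_lit 243) (nat_lit 5) (nat_lit 244) (nat_lit 5) (nat_lit 405) (nat_lit 397) (nat_lit 98)) (XT.lf (nat_lit 0) (nat_lit 17050271908) (nat_lit 1216) (nat_lit 11257898150) (nat_lit 1292) (nat_lit 53874115524) (nat_lit 227) (nat_lit 5) (nat_lit 243) (nat_lit 5) (nat_lit 244) (nat_lit 5) (nat_lit 406) (nat_lit 397) (nat_lit 97)))) (XT.nd (nat_lit 46176) (nat_lit 380) (nat_lit 0) (XT.lf (nat_lit 0) (nat_lit 20778685541) (nat_lit 1216) (nat_lit 53575692975) (nat_lit 1292) (nat_lit 9120481280) (nat_lit 228) (nat_lit 5) (nat_lit 244) (nat_lit 5) (nat_lit 245) (nat_lit 5) (nat_lit 407) (nat_lit 397) (nat_lit 96)) (XT.nd (nat_lit 78) (nat_lit 0) (nat_lit 0) (XT.lf (nat_lit 0) (nat_lit 1116373533) (nat_lit 1292) (nat_lit 17902951062) (nat_lit 1292) (nat_lit 17902951062)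 (nat_lit 223) (nat_lit 3) (nat_lit 240) (nat_lit 3) (nat_lit 240) (nat_lit 5) (nat_lit 398) (nat_lit 398) (nat_lit 104)) (XT.lf (nat_lit 0) (nat_lit 2277983926) (nat_lit 1292) (nat_lit 854930651) (nat_lit 1292) (nat_lit 71818945227) (nat_lit 223) (nat_lit 3) (nat_lit 240) (nat_lit 3) (nat_lit 240) (nat_lit 5) (nat_lit 399) (nat_lit 398) (nat_lit 103))))) (XT.nd (nat_lit 234) (nat_lit 0) (nat_lit 76) (XT.nd (nat_lit 78) (nat_lit 0) (nat_lit 0) (XT.lf (nat_lit 0) (nat_lit 2987571168) (nat_lit 1216) (nat_lit 40557189507) (nat_lit 1292) (nat_lit 32527737361) (nat_lit 224) (nat_lit 5) (nat_lit 240) (nat_lit 5) (nat_lit 241) (nat_lit 5) (nat_lit 400) (nat_lit 398) (nat_lit 102)) (XT.nd (nat_lit 78) (nat_lit 0) (nat_lit 76) (XT.lf (nat_lit 0) (nat_lit 3757738338) (nat_lit 1216) (nat_lit 4263670383) (nat_lit 1292) (nat_lit 69204168206) (nat_lit 224) (nat_lit 5) (nat_lit 240) (nat_lit 5) (nat_lit 241) (nat_lit 5)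 (nat_lit 401) (nat_lit 398) (nat_lit 101)) (XT.lf (nat_lit 0) (nat_lit 5153094808) (nat_lit 1216) (nat_lit 44903813701) (nat_lit 1292) (nat_lit 28338277420) (nat_lit 225) (nat_lit 5) (nat_lit 241) (nat_lit 5) (nat_lit 242) (nat_lit 5) (nat_lit 402) (nat_lit 398) (nat_lit 100)))) (XT.nd (nat_lit 156) (nat_lit 0) (nat_lit 76) (XT.nd (nat_lit 78) (nat_lit 0) (nat_lit 76) (XT.lf (nat_lit 0) (nat_lit 6712792610) (nat_lit 1216) (nat_lit 7212225232) (nat_lit 1292) (nat_lit 65671191203) (nat_lit 225) (nat_lit 5) (nat_lit 241) (nat_lit 5) (nat_lit 242) (nat_lit 5) (nat_lit 403) (nat_lit 398) (nat_lit 99)) (XT.lf (nat_lit 0) (nat_lit 8855729536) (nat_lit 1216) (nat_lit 48811972014) (nat_lit 1292) (nat_lit 23149468118) (nat_lit 226) (nat_lit 5) (nat_lit 242) (nat_lit 5) (nat_lit 243) (nat_lit 5) (nat_lit 404) (nat_lit 398) (nat_lit 98))) (XT.nd (nat_lit 78) (nat_lit 0) (nat_lit 76) (XT.lf (nat_lit 0) (nat_lit 11273979452)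 (nat_lit 1216) (nat_lit 9664438521) (nat_lit 1292) (nat_lit 61130010639) (nat_lit 226) (nat_lit 5) (nat_lit 242) (nat_lit 5) (nat_lit 243) (nat_lit 5) (nat_lit 405) (nat_lit 398) (nat_lit 97)) (XT.lf (nat_lit 0) (nat_lit 14230313440) (nat_lit 1216) (nat_lit 52246171055) (nat_lit 1292) (nat_lit 16866774974) (nat_lit 227) (nat_lit 5) (nat_lit 243) (nat_lit 5) (nat_lit 244) (nat_lit 5) (nat_lit 406) (nat_lit 398) (nat_lit 96)))))) (XT.nd (nat_lit 46956) (nat_lit 0) (nat_lit 0) (XT.nd (nat_lit 234) (nat_lit 0) (nat_lit 76) (XT.nd (nat_lit 78) (nat_lit 0) (nat_lit 0) (XT.lf (nat_lit 0) (nat_lit 1161497486) (nat_lit 1292) (nat_lit 18434045059) (nat_lit 1292) (nat_lit 18434045059) (nat_lit 223) (nat_lit 3) (nat_lit 240) (nat_lit 3) (nat_lit 240) (nat_lit 5) (nat_lit 399) (nat_lit 399) (nat_lit 102)) (XT.nd (nat_lit 78) (nat_lit 0) (nat_lit 76) (XT.lf (nat_lit 0) (nat_lit 2368911301) (nat_lit 1292) (nat_lit 868938696)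 (nat_lit 1292) (nat_lit 73961873709) (nat_lit 223) (nat_lit 3) (nat_lit 240) (nat_lit 3) (nat_lit 240) (nat_lit 5) (nat_lit 400) (nat_lit 399) (nat_lit 101)) (XT.lf (nat_lit 0) (nat_lit 3099137978) (nat_lit 1216) (nat_lit 41761603292) (nat_lit 1292) (nat_lit 33493259675) (nat_lit 224) (nat_lit 5) (nat_lit 240) (nat_lit 5) (nat_lit 241) (nat_lit 5) (nat_lit 401) (nat_lit 399) (nat_lit 100)))) (XT.nd (nat_lit 156) (nat_lit 0) (nat_lit 76) (XT.nd (nat_lit 78) (nat_lit 0) (nat_lit 76) (XT.lf (nat_lit 0) (nat_lit 3891771143) (nat_lit 1216) (nat_lit 4379636902) (nat_lit 1292) (nat_lit 71270283731) (nat_lit 224) (nat_lit 5) (nat_lit 240) (nat_lit 5) (nat_lit 241) (nat_lit 5) (nat_lit 402) (nat_lit 399) (nat_lit 99)) (XT.lf (nat_lit 0) (nat_lit 5328395383) (nat_lit 1216) (nat_lit 46238378548) (nat_lit 1292) (nat_lit 29179633296) (nat_lit 225) (nat_lit 5) (nat_lit 241) (nat_lit 5) (nat_lit 242) (nat_lit 5) (nat_lit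 403) (nat_lit 399) (nat_lit 98))) (XT.nd (nat_lit 78) (nat_lit 0) (nat_lit 76) (XT.lf (nat_lit 0) (nat_lit 6934280982) (nat_lit 1216) (nat_lit 7416407947) (nat_lit 1292) (nat_lit 67632790583) (nat_lit 225) (nat_lit 5) (nat_lit 241) (nat_lit 5) (nat_lit 242) (nat_lit 5) (nat_lit 404) (nat_lit 399) (nat_lit 97)) (XT.lf (nat_lit 0) (nat_lit 9140963645) (nat_lit 1216) (nat_lit 50263592464) (nat_lit 1292) (nat_lit 23836529483) (nat_lit 226) (nat_lit 5) (nat_lit 242) (nat_lit 5) (nat_lit 243) (nat_lit 5) (nat_lit 405) (nat_lit 399) (nat_lit 96))))) (XT.nd (nat_lit 234) (nat_lit 0) (nat_lit 0) (XT.nd (nat_lit 78) (nat_lit 0) (nat_lit 0) (XT.lf (nat_lit 0) (nat_lit 1207307390) (nat_lit 1292) (nat_lit 18981415986) (nat_lit 1292) (nat_lit 18981415986) (nat_lit 223) (nat_lit 3) (nat_lit 240) (nat_lit 3) (nat_lit 240) (nat_lit 5) (nat_lit 400) (nat_lit 400) (nat_lit 100)) (XT.nd (nat_lit 78) (nat_lit 0) (nat_lit 76)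 (XT.lf (nat_lit 0) (nat_lit 2461269862) (nat_lit 1292) (nat_lit 884035158) (nat_lit 1292) (nat_lit 76169758221) (nat_lit 223) (nat_lit 3) (nat_lit 240) (nat_lit 3) (nat_lit 240) (nat_lit 5) (nat_lit 401) (nat_lit 400) (nat_lit 99)) (XT.lf (nat_lit 0) (nat_lit 3212792365) (nat_lit 1216) (nat_lit 43002855671) (nat_lit 1292) (nat_lit 34488339483) (nat_lit 224) (nat_lit 5) (nat_lit 240) (nat_lit 5) (nat_lit 241) (nat_lit 5) (nat_lit 402) (nat_lit 400) (nat_lit 98)))) (XT.nd (nat_lit 46800) (nat_lit 76) (nat_lit 0) (XT.nd (nat_lit 78) (nat_lit 0) (nat_lit 76) (XT.lf (nat_lit 0) (nat_lit 4028602188) (nat_lit 1216) (nat_lit 4499768029) (nat_lit 1292) (nat_lit 73398957308) (nat_lit 224) (nat_lit 5) (nat_lit 240) (nat_lit 5) (nat_lit 241) (nat_lit 5) (nat_lit 403) (nat_lit 400) (nat_lit 97)) (XT.lf (nat_lit 0) (nat_lit 5507766266) (nat_lit 1216) (nat_lit 47613700738) (nat_lit 1292) (nat_lit 30046734571) (nat_lit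 225) (nat_lit 5) (nat_lit 241) (nat_lit 5) (nat_lit 242) (nat_lit 5) (nat_lit 404) (nat_lit 400) (nat_lit 96))) (XT.nd (nat_lit 78) (nat_lit 0) (nat_lit 76) (XT.lf (nat_lit 0) (nat_lit 2555176977) (nat_lit 1292) (nat_lit 900214334) (nat_lit 1292) (nat_lit 78444509090) (nat_lit 223) (nat_lit 3) (nat_lit 240) (nat_lit 3) (nat_lit 240) (nat_lit 5) (nat_lit 402) (nat_lit 401) (nat_lit 97)) (XT.lf (nat_lit 0) (nat_lit 3328669253) (nat_lit 1216) (nat_lit 44282011263) (nat_lit 1292) (nat_lit 35513829537) (nat_lit 224) (nat_lit 5) (nat_lit 240) (nat_lit 5) (nat_lit 241) (nat_lit 5) (nat_lit 403) (nat_lit 401) (nat_lit 96))))))))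

set_option maxRecDepth 10000000 in
noncomputable def Tp : PT := (PT.nd (nat_lit 7279116) (PT.nd (nat_lit 6527898) (PT.nd (nat_lit 5732064) (PT.nd (nat_lit 4982484) (PT.nd (nat_lit 4326738) pc0 pc1) (PT.nd (nat_lit 421746) pc2 pc3)) (PT.nd (nat_lit 468078) (PT.nd (nat_lit 234468) pc4 pc5) (PT.nd (nat_lit 187044) pc6 pc7))) (PT.nd (nat_lit 422838) (PT.nd (nat_lit 234546) (PT.nd (nat_lit 139932) pc8 pc9) (PT.nd (nat_lit 94302) pc10 pc11)) (PT.nd (nat_lit 186888) (PT.nd (nat_lit 93600) pc12 pc13) (PT.nd (nat_lit 92742) pc14 pc15)))) (PT.nd (nat_lit 469170) (PT.nd (nat_lit 279240) (PT.nd (nat_lit 140244) (PT.nd (nat_lit 91962) pc16 pc17) (PT.nd (nat_lit 91104) pc18 pc19)) (PT.nd (nat_lit 95238) (PT.nd (nat_lit 47658) pc20 pc21) (PT.nd (nat_lit 47424) pc22 pc23))) (PT.nd (nat_lit 328146) (PT.nd (nat_lit 139542) (PT.nd (nat_lit 88998) pc24 pc25) (PT.nd (nat_lit 90636) pc26 pc27)) (PT.nd (nat_lit 328380) (PT.nd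 (nat_lit 140790) pc28 pc29) (PT.nd (nat_lit 235014) pc30 pc31)))))

set_option maxRecDepth 10000000 in
noncomputable def Tx : XT := (XT.nd (nat_lit 10582728) (nat_lit 0) (nat_lit 304) XT.nil (XT.nd (nat_lit 8246862) (nat_lit 0) (nat_lit 0) (XT.nd (nat_lit 3889158) (nat_lit 0) (nat_lit 988) (XT.nd (nat_lit 2714868) (nat_lit 0) (nat_lit 380) (XT.nd (nat_lit 1917240) (nat_lit 0) (nat_lit 228) (XT.nd (nat_lit 1355562) (nat_lit 0) (nat_lit 76) (XT.nd (nat_lit 936234) (nat_lit 0) (nat_lit 0) (XT.nd (nat_lit 655200) (nat_lit 0) (nat_lit 0) (XT.nd (nat_lit 467454) (nat_lit 0) (nat_lit 0) (XT.nd (nat_lit 327132) (nat_lit 0) (nat_lit 0) xc0 xc1) (XT.nd (nat_lit 94146) (nat_lit 0) (nat_lit 0) xc2 xc3)) (XT.nd (nat_lit 141180) (nat_lit 0) (nat_lit 0) (XT.nd (nat_lit 92898) (nat_lit 0) (nat_lit 0) xc4 xc5) (XT.nd (nat_lit 91962) (nat_lit 0) (nat_lit 0) xc6 xc7))) (XT.nd (nat_lit 232674) (nat_lit 0) (nat_lit 76) (XT.nd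 (nat_lit 138372) (nat_lit 0) (nat_lit 76) (XT.nd (nat_lit 47658) (nat_lit 0) (nat_lit 0) xc8 xc9) (XT.nd (nat_lit 47190) (nat_lit 0) (nat_lit 0) xc10 xc11)) (XT.nd (nat_lit 93600) (nat_lit 0) (nat_lit 0) (XT.nd (nat_lit 46878) (nat_lit 0) (nat_lit 0) xc12 xc13) (XT.nd (nat_lit 46566) (nat_lit 0) (nat_lit 0) xc14 xc15)))) (XT.nd (nat_lit 283608) (nat_lit 0) (nat_lit 0) (XT.nd (nat_lit 142506) (nat_lit 0) (nat_lit 0) (XT.nd (nat_lit 50388) (nat_lit 0) (nat_lit 0) (XT.nd (nat_lit 46254) (nat_lit 0) (nat_lit 0) xc16 xc17) (XT.nd (nat_lit 46098) (nat_lit 0) (nat_lit 0) xc18 xc19)) (XT.nd (nat_lit 91416) (nat_lit 0) (nat_lit 0) (XT.nd (nat_lit 45786) (nat_lit 0) (nat_lit 0) xc20 xc21) (XT.nd (nat_lit 4134) (nat_lit 0) (nat_lit 0) xc22 xc23))) (XT.nd (nat_lit 139698) (nat_lit 0) (nat_lit 0) (XT.nd (nat_lit 90480) (nat_lit 0) (nat_lit 0) (XT.nd (nat_lit 45318) (nat_lit 0) (nat_lit 0) xc24 xc25) (XT.nd (nat_lit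 4134) (nat_lit 152) (nat_lit 0) xc26 xc27)) (XT.nd (nat_lit 48984) (nat_lit 0) (nat_lit 0) (XT.nd (nat_lit 44850) (nat_lit 0) (nat_lit 152) xc28 xc29) (XT.nd (nat_lit 44694) (nat_lit 0) (nat_lit 152) xc30 xc31))))) (XT.nd (nat_lit 423774) (nat_lit 0) (nat_lit 76) (XT.nd (nat_lit 233298) (nat_lit 0) (nat_lit 0) (XT.nd (nat_lit 97110) (nat_lit 0) (nat_lit 0) (XT.nd (nat_lit 48594) (nat_lit 0) (nat_lit 0) (XT.nd (nat_lit 4134) (nat_lit 76) (nat_lit 0) xc32 xc33) (XT.nd (nat_lit 44304) (nat_lit 0) (nat_lit 228) xc34 xc35)) (XT.nd (nat_lit 88140) (nat_lit 0) (nat_lit 0) (XT.nd (nat_lit 44148) (nat_lit 0) (nat_lit 0) xc36 xc37) (XT.nd (nat_lit 4134) (nat_lit 760) (nat_lit 0) xc38 xc39))) (XT.nd (nat_lit 95550) (nat_lit 0) (nat_lit 0) (XT.nd (nat_lit 47814) (nat_lit 0) (nat_lit 0) (XT.nd (nat_lit 4134) (nat_lit 380) (nat_lit 0) xc40 xc41) (XT.nd (nat_lit 4134) (nat_lit 152) (nat_lit 0) xc42 xc43)) (XT.nd (nat_lit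 47502) (nat_lit 0) (nat_lit 76) (XT.nd (nat_lit 43368) (nat_lit 0) (nat_lit 1140) xc44 xc45) (XT.nd (nat_lit 43212) (nat_lit 0) (nat_lit 836) xc46 xc47)))) (XT.nd (nat_lit 187980) (nat_lit 0) (nat_lit 0) (XT.nd (nat_lit 94302) (nat_lit 0) (nat_lit 0) (XT.nd (nat_lit 47190) (nat_lit 0) (nat_lit 0) (XT.nd (nat_lit 43056) (nat_lit 0) (nat_lit 684) xc48 xc49) (XT.nd (nat_lit 42900) (nat_lit 0) (nat_lit 608) xc50 xc51)) (XT.nd (nat_lit 46878) (nat_lit 0) (nat_lit 0) (XT.nd (nat_lit 42744) (nat_lit 0) (nat_lit 684) xc52 xc53) (XT.nd (nat_lit 42588) (nat_lit 0) (nat_lit 684) xc54 xc55))) (XT.nd (nat_lit 93210) (nat_lit 0) (nat_lit 0) (XT.nd (nat_lit 46644) (nat_lit 0) (nat_lit 0) (XT.nd (nat_lit 42510) (nat_lit 0) (nat_lit 836) xc56 xc57) (XT.nd (nat_lit 42354) (nat_lit 0) (nat_lit 988) xc58 xc59)) (XT.nd (nat_lit 46410) (nat_lit 0) (nat_lit 76) (XT.nd (nat_lit 42198) (nat_lit 0) (nat_lit 1216) xc60 xc61) (XT.nd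 (nat_lit 42042) (nat_lit 0) (nat_lit 1672) xc62 xc63)))))) (XT.nd (nat_lit 612222) (nat_lit 0) (nat_lit 304) (XT.nd (nat_lit 327600) (nat_lit 0) (nat_lit 152) (XT.nd (nat_lit 183300) (nat_lit 0) (nat_lit 76) (XT.nd (nat_lit 91962) (nat_lit 0) (nat_lit 76) (XT.nd (nat_lit 46020) (nat_lit 0) (nat_lit 76) (XT.nd (nat_lit 41886) (nat_lit 0) (nat_lit 2508) xc64 xc65) (XT.nd (nat_lit 4134) (nat_lit 76) (nat_lit 0) xc66 xc67)) (XT.nd (nat_lit 45708) (nat_lit 0) (nat_lit 0) (XT.nd (nat_lit 4134) (nat_lit 456) (nat_lit 0) xc68 xc69) (XT.nd (nat_lit 4134) (nat_lit 988) (nat_lit 0) xc70 xc71))) (XT.nd (nat_lit 53742) (nat_lit 0) (nat_lit 76) (XT.nd (nat_lit 45396) (nat_lit 0) (nat_lit 380) (XT.nd (nat_lit 4134) (nat_lit 1824) (nat_lit 0) xc72 xc73) (XT.nd (nat_lit 4134) (nat_lit 3040) (nat_lit 0) xc74 xc75)) (XT.nd (nat_lit 45318) (nat_lit 0) (nat_lit 0) (XT.nd (nat_lit 41184) (nat_lit 0) (nat_lit 988) xc76 xc77)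 (XT.nd (nat_lit 41028) (nat_lit 0) (nat_lit 2280) xc78 xc79)))) (XT.nd (nat_lit 142974) (nat_lit 0) (nat_lit 0) (XT.nd (nat_lit 89934) (nat_lit 0) (nat_lit 0) (XT.nd (nat_lit 45006) (nat_lit 0) (nat_lit 0) (XT.nd (nat_lit 4134) (nat_lit 76) (nat_lit 0) xc80 xc81) (XT.nd (nat_lit 4134) (nat_lit 760) (nat_lit 0) xc82 xc83)) (XT.nd (nat_lit 44694) (nat_lit 0) (nat_lit 760) (XT.nd (nat_lit 4134) (nat_lit 2128) (nat_lit 0) xc84 xc85) (XT.nd (nat_lit 4134) (nat_lit 4332) (nat_lit 0) xc86 xc87))) (XT.nd (nat_lit 88998) (nat_lit 0) (nat_lit 76) (XT.nd (nat_lit 44538) (nat_lit 0) (nat_lit 76) (XT.nd (nat_lit 40404) (nat_lit 0) (nat_lit 2432) xc88 xc89) (XT.nd (nat_lit 4134) (nat_lit 76) (nat_lit 0) xc90 xc91)) (XT.nd (nat_lit 44304) (nat_lit 0) (nat_lit 380) (XT.nd (nat_lit 4134) (nat_lit 1064) (nat_lit 0) xc92 xc93) (XT.nd (nat_lit 4134) (nat_lit 3268) (nat_lit 0) xc94 xc95))))) (XT.nd (nat_lit 280098) (nat_lit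 0) (nat_lit 76) (XT.nd (nat_lit 140400) (nat_lit 0) (nat_lit 76) (XT.nd (nat_lit 88218) (nat_lit 0) (nat_lit 76) (XT.nd (nat_lit 44148) (nat_lit 0) (nat_lit 0) (XT.nd (nat_lit 40014) (nat_lit 0) (nat_lit 1976) xc96 xc97) (XT.nd (nat_lit 39858) (nat_lit 0) (nat_lit 6080) xc98 xc99)) (XT.nd (nat_lit 43836) (nat_lit 0) (nat_lit 456) (XT.nd (nat_lit 4134) (nat_lit 912) (nat_lit 0) xc100 xc101) (XT.nd (nat_lit 4134) (nat_lit 3648) (nat_lit 0) xc102 xc103))) (XT.nd (nat_lit 87516) (nat_lit 0) (nat_lit 0) (XT.nd (nat_lit 43680) (nat_lit 0) (nat_lit 0) (XT.nd (nat_lit 39546) (nat_lit 0) (nat_lit 2736) xc104 xc105) (XT.nd (nat_lit 4134) (nat_lit 76) (nat_lit 0) xc106 xc107)) (XT.nd (nat_lit 43836) (nat_lit 0) (nat_lit 912) (XT.nd (nat_lit 4134) (nat_lit 1824) (nat_lit 0) xc108 xc109) (XT.nd (nat_lit 4134) (nat_lit 5244) (nat_lit 0) xc110 xc111)))) (XT.nd (nat_lit 140556) (nat_lit 0) (nat_lit 152) (XT.nd (nat_lit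 88062) (nat_lit 0) (nat_lit 152) (XT.nd (nat_lit 43914) (nat_lit 0) (nat_lit 76) (XT.nd (nat_lit 39780) (nat_lit 0) (nat_lit 3952) xc112 xc113) (XT.nd (nat_lit 4134) (nat_lit 380) (nat_lit 0) xc114 xc115)) (XT.nd (nat_lit 44148) (nat_lit 0) (nat_lit 1064) (XT.nd (nat_lit 4134) (nat_lit 2052) (nat_lit 0) xc116 xc117) (XT.nd (nat_lit 4134) (nat_lit 5320) (nat_lit 0) xc118 xc119))) (XT.nd (nat_lit 88608) (nat_lit 0) (nat_lit 76) (XT.nd (nat_lit 44226) (nat_lit 0) (nat_lit 76) (XT.nd (nat_lit 40092) (nat_lit 0) (nat_lit 3800) xc120 xc121) (XT.nd (nat_lit 4134) (nat_lit 228) (nat_lit 0) xc122 xc123)) (XT.nd (nat_lit 44460) (nat_lit 0) (nat_lit 532) (XT.nd (nat_lit 4134) (nat_lit 1824) (nat_lit 0) xc124 xc125) (XT.nd (nat_lit 4134) (nat_lit 4560) (nat_lit 0) xc126 xc127))))))) (XT.nd (nat_lit 1357668) (nat_lit 0) (nat_lit 1824) (XT.nd (nat_lit 648414) (nat_lit 0) (nat_lit 532) (XT.nd (nat_lit 321906) (nat_lit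 0) (nat_lit 304) (XT.nd (nat_lit 178698) (nat_lit 0) (nat_lit 152) (XT.nd (nat_lit 89154) (nat_lit 0) (nat_lit 76) (XT.nd (nat_lit 44460) (nat_lit 0) (nat_lit 76) (XT.nd (nat_lit 40326) (nat_lit 0) (nat_lit 2660) xc128 xc129) (XT.nd (nat_lit 40482) (nat_lit 0) (nat_lit 6232) xc130 xc131)) (XT.nd (nat_lit 44694) (nat_lit 0) (nat_lit 76) (XT.nd (nat_lit 4134) (nat_lit 912) (nat_lit 0) xc132 xc133) (XT.nd (nat_lit 4134) (nat_lit 2888) (nat_lit 0) xc134 xc135))) (XT.nd (nat_lit 53196) (nat_lit 0) (nat_lit 76) (XT.nd (nat_lit 8268) (nat_lit 912) (nat_lit 0) (XT.nd (nat_lit 4134) (nat_lit 5472) (nat_lit 0) xc136 xc137) (XT.nd (nat_lit 40716) (nat_lit 0) (nat_lit 2888) xc138 xc139)) (XT.nd (nat_lit 44928) (nat_lit 0) (nat_lit 0) (XT.nd (nat_lit 40794) (nat_lit 0) (nat_lit 6308) xc140 xc141) (XT.nd (nat_lit 4134) (nat_lit 836) (nat_lit 0) xc142 xc143)))) (XT.nd (nat_lit 144144) (nat_lit 0) (nat_lit 152) (XT.nd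 (nat_lit 53508) (nat_lit 0) (nat_lit 0) (XT.nd (nat_lit 45162) (nat_lit 0) (nat_lit 380) (XT.nd (nat_lit 4134) (nat_lit 2432) (nat_lit 0) xc144 xc145) (XT.nd (nat_lit 4134) (nat_lit 4712) (nat_lit 0) xc146 xc147)) (XT.nd (nat_lit 45240) (nat_lit 0) (nat_lit 0) (XT.nd (nat_lit 41106) (nat_lit 0) (nat_lit 1672) xc148 xc149) (XT.nd (nat_lit 41184) (nat_lit 0) (nat_lit 3572) xc150 xc151))) (XT.nd (nat_lit 90948) (nat_lit 0) (nat_lit 0) (XT.nd (nat_lit 45396) (nat_lit 0) (nat_lit 0) (XT.nd (nat_lit 41262) (nat_lit 0) (nat_lit 6080) xc152 xc153) (XT.nd (nat_lit 4134) (nat_lit 760) (nat_lit 0) xc154 xc155)) (XT.nd (nat_lit 45630) (nat_lit 0) (nat_lit 76) (XT.nd (nat_lit 4134) (nat_lit 1900) (nat_lit 0) xc156 xc157) (XT.nd (nat_lit 4134) (nat_lit 3572) (nat_lit 0) xc158 xc159))))) (XT.nd (nat_lit 332202) (nat_lit 0) (nat_lit 532) (XT.nd (nat_lit 146406) (nat_lit 0) (nat_lit 228) (XT.nd (nat_lit 54210) (nat_lit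 0) (nat_lit 76) (XT.nd (nat_lit 8268) (nat_lit 456) (nat_lit 0) (XT.nd (nat_lit 4134) (nat_lit 5244) (nat_lit 0) xc160 xc161) (XT.nd (nat_lit 41730) (nat_lit 0) (nat_lit 1292) xc162 xc163)) (XT.nd (nat_lit 46020) (nat_lit 0) (nat_lit 76) (XT.nd (nat_lit 41886) (nat_lit 0) (nat_lit 2128) xc164 xc165) (XT.nd (nat_lit 41964) (nat_lit 0) (nat_lit 3040) xc166 xc167))) (XT.nd (nat_lit 92586) (nat_lit 0) (nat_lit 0) (XT.nd (nat_lit 46176) (nat_lit 0) (nat_lit 0) (XT.nd (nat_lit 42042) (nat_lit 0) (nat_lit 4104) xc168 xc169) (XT.nd (nat_lit 42198) (nat_lit 0) (nat_lit 5168) xc170 xc171)) (XT.nd (nat_lit 46488) (nat_lit 0) (nat_lit 304) (XT.nd (nat_lit 42354) (nat_lit 0) (nat_lit 6080) xc172 xc173) (XT.nd (nat_lit 4134) (nat_lit 228) (nat_lit 0) xc174 xc175)))) (XT.nd (nat_lit 187668) (nat_lit 0) (nat_lit 304) (XT.nd (nat_lit 93600) (nat_lit 0) (nat_lit 304) (XT.nd (nat_lit 46722) (nat_lit 0) (nat_lit 228) (XT.nd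 (nat_lit 4134) (nat_lit 304) (nat_lit 0) xc176 xc177) (XT.nd (nat_lit 4134) (nat_lit 380) (nat_lit 0) xc178 xc179)) (XT.nd (nat_lit 46956) (nat_lit 0) (nat_lit 0) (XT.nd (nat_lit 4134) (nat_lit 304) (nat_lit 0) xc180 xc181) (XT.nd (nat_lit 4134) (nat_lit 304) (nat_lit 0) xc182 xc183))) (XT.nd (nat_lit 94458) (nat_lit 0) (nat_lit 304) (XT.nd (nat_lit 47112) (nat_lit 0) (nat_lit 228) (XT.nd (nat_lit 4134) (nat_lit 228) (nat_lit 0) xc184 xc185) (XT.nd (nat_lit 43134) (nat_lit 0) (nat_lit 4940) xc186 xc187)) (XT.nd (nat_lit 47424) (nat_lit 0) (nat_lit 0) (XT.nd (nat_lit 43212) (nat_lit 0) (nat_lit 4028) xc188 xc189) (XT.nd (nat_lit 43290) (nat_lit 0) (nat_lit 2888) xc190 xc191)))))) (XT.nd (nat_lit 937950) (nat_lit 0) (nat_lit 2356) (XT.nd (nat_lit 423540) (nat_lit 0) (nat_lit 836) (XT.nd (nat_lit 230568) (nat_lit 0) (nat_lit 456) (XT.nd (nat_lit 95238) (nat_lit 0) (nat_lit 152) (XT.nd (nat_lit 47502) (nat_lit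 0) (nat_lit 76) (XT.nd (nat_lit 43368) (nat_lit 0) (nat_lit 1900) xc192 xc193) (XT.nd (nat_lit 43524) (nat_lit 0) (nat_lit 836) xc194 xc195)) (XT.nd (nat_lit 87282) (nat_lit 0) (nat_lit 152) (XT.nd (nat_lit 43602) (nat_lit 0) (nat_lit 0) xc196 xc197) (XT.nd (nat_lit 4134) (nat_lit 4712) (nat_lit 0) xc198 xc199))) (XT.nd (nat_lit 96252) (nat_lit 0) (nat_lit 228) (XT.nd (nat_lit 48048) (nat_lit 0) (nat_lit 76) (XT.nd (nat_lit 4134) (nat_lit 2280) (nat_lit 0) xc200 xc201) (XT.nd (nat_lit 4134) (nat_lit 760) (nat_lit 0) xc202 xc203)) (XT.nd (nat_lit 48282) (nat_lit 0) (nat_lit 152) (XT.nd (nat_lit 44148) (nat_lit 0) (nat_lit 3192) xc204 xc205) (XT.nd (nat_lit 44226) (nat_lit 0) (nat_lit 608) xc206 xc207)))) (XT.nd (nat_lit 275964) (nat_lit 0) (nat_lit 760) (XT.nd (nat_lit 137514) (nat_lit 0) (nat_lit 380) (XT.nd (nat_lit 88764) (nat_lit 0) (nat_lit 228) (XT.nd (nat_lit 44304) (nat_lit 0) (nat_lit 228) xc208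 xc209) (XT.nd (nat_lit 4134) (nat_lit 1672) (nat_lit 0) xc210 xc211)) (XT.nd (nat_lit 48750) (nat_lit 0) (nat_lit 228) (XT.nd (nat_lit 44616) (nat_lit 0) (nat_lit 2660) xc212 xc213) (XT.nd (nat_lit 44772) (nat_lit 0) (nat_lit 0) xc214 xc215))) (XT.nd (nat_lit 98358) (nat_lit 0) (nat_lit 304) (XT.nd (nat_lit 49062) (nat_lit 0) (nat_lit 304) (XT.nd (nat_lit 4134) (nat_lit 2508) (nat_lit 0) xc216 xc217) (XT.nd (nat_lit 45084) (nat_lit 0) (nat_lit 1368) xc218 xc219)) (XT.nd (nat_lit 90480) (nat_lit 0) (nat_lit 380) (XT.nd (nat_lit 45162) (nat_lit 0) (nat_lit 152) xc220 xc221) (XT.nd (nat_lit 45396) (nat_lit 0) (nat_lit 2736) xc222 xc223))))) (XT.nd (nat_lit 655434) (nat_lit 0) (nat_lit 2964) (XT.nd (nat_lit 325026) (nat_lit 0) (nat_lit 1140) (XT.nd (nat_lit 141024) (nat_lit 0) (nat_lit 380) (XT.nd (nat_lit 91104) (nat_lit 0) (nat_lit 380) (XT.nd (nat_lit 45474) (nat_lit 0) (nat_lit 152) xc224 xc225) (XT.nd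 (nat_lit 45708) (nat_lit 0) (nat_lit 1976) xc226 xc227)) (XT.nd (nat_lit 91728) (nat_lit 0) (nat_lit 532) (XT.nd (nat_lit 45786) (nat_lit 0) (nat_lit 304) xc228 xc229) (XT.nd (nat_lit 46020) (nat_lit 0) (nat_lit 228) xc230 xc231))) (XT.nd (nat_lit 143286) (nat_lit 0) (nat_lit 912) (XT.nd (nat_lit 50388) (nat_lit 0) (nat_lit 380) (XT.nd (nat_lit 4134) (nat_lit 608) (nat_lit 0) xc232 xc233) (XT.nd (nat_lit 46332) (nat_lit 0) (nat_lit 228) xc234 xc235)) (XT.nd (nat_lit 93288) (nat_lit 0) (nat_lit 304) (XT.nd (nat_lit 46566) (nat_lit 0) (nat_lit 304) xc236 xc237) (XT.nd (nat_lit 46800) (nat_lit 0) (nat_lit 304) xc238 xc239)))) (XT.nd (nat_lit 467688) (nat_lit 0) (nat_lit 3116) (XT.nd (nat_lit 188994) (nat_lit 0) (nat_lit 1064) (XT.nd (nat_lit 94224) (nat_lit 0) (nat_lit 380) (XT.nd (nat_lit 47034) (nat_lit 0) (nat_lit 380) xc240 xc241) (XT.nd (nat_lit 47268) (nat_lit 0) (nat_lit 304) xc242 xc243)) (XT.nd (nat_lit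 138762) (nat_lit 0) (nat_lit 1140) (XT.nd (nat_lit 91026) (nat_lit 0) (nat_lit 760) xc244 xc245) (XT.nd (nat_lit 47892) (nat_lit 0) (nat_lit 0) xc246 xc247))) (XT.nd (nat_lit 282906) (nat_lit 0) (nat_lit 2432) (XT.nd (nat_lit 140868) (nat_lit 0) (nat_lit 912) (XT.nd (nat_lit 48204) (nat_lit 0) (nat_lit 456) xc248 xc249) (XT.nd (nat_lit 48594) (nat_lit 0) (nat_lit 532) xc250 xc251)) (XT.nd (nat_lit 233688) (nat_lit 0) (nat_lit 2356) (XT.nd (nat_lit 93912) (nat_lit 0) (nat_lit 1140) xc252 xc253) (XT.nd (nat_lit 140868) (nat_lit 0) (nat_lit 608) xc254 xc255)))))))) XT.nil))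

set_option maxRecDepth 10000000 in
noncomputable def Te : XT := XT.nil

set_option maxRecDepth 10000000 in
noncomputable def Tz : ZL := (ZL.cons (nat_lit 76) (nat_lit 3) (nat_lit 125592448551200758757) (ZL.cons (nat_lit 152) (nat_lit 6) (nat_lit 247672501965365978284) (ZL.cons (nat_lit 304) (nat_lit 3) (nat_lit 122081524065786684403) (ZL.cons (nat_lit 380) (nat_lit 6) (nat_lit 240761782245319031272) (ZL.cons (nat_lit 456) (nat_lit 6) (nat_lit 237465732326702355096) (ZL.cons (nat_lit 532) (nat_lit 3) (nat_lit 118681818393837558956) (ZL.cons (nat_lit 608) (nat_lit 6) (nat_lit 234070800910527178634) (ZL.cons (nat_lit 684) (nat_lit 6) (nat_lit 230880397378642754076) (ZL.cons (nat_lit 760) (nat_lit 3) (nat_lit 115390637748046019182) (ZL.cons (nat_lit 836) (nat_lit 6) (nat_lit 227594281740801796782) (ZL.cons (nat_lit 912) (nat_lit 6) (nat_lit 224507034892831443002) (ZL.cons (nat_lit 988) (nat_lit 3) (nat_lit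 112205400027701781833) (ZL.cons (nat_lit 1064) (nat_lit 6) (nat_lit 221327170639421978604) (ZL.cons (nat_lit 1140) (nat_lit 6) (nat_lit 218340699059386766422) (ZL.cons (nat_lit 1216) (nat_lit 3) (nat_lit 109123633589194412662) (ZL.cons (nat_lit 1292) (nat_lit 6) (nat_lit 215264633331950497876) (ZL.cons (nat_lit 1368) (nat_lit 6) (nat_lit 212376662915192632678) (ZL.cons (nat_lit 1444) (nat_lit 3) (nat_lit 106142976175558480853) (ZL.cons (nat_lit 1520) (nat_lit 6) (nat_lit 209402053385932031522) (ZL.cons (nat_lit 1596) (nat_lit 6) (nat_lit 206610416524678555442) (ZL.cons (nat_lit 1672) (nat_lit 3) (nat_lit 103261174007933612202) (ZL.cons (nat_lit 1748) (nat_lit 6) (nat_lit 203735030557587475082) (ZL.cons (nat_lit 1824) (nat_lit 6) (nat_lit 201037665490983607078) (ZL.cons (nat_lit 1900) (nat_lit 3) (nat_lit 100476081042185332159) (ZL.cons (nat_lit 1976) (nat_lit 6) (nat_lit 198259379472381623032) (ZL.cons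 (nat_lit 2052) (nat_lit 6) (nat_lit 195654329804774923902) (ZL.cons (nat_lit 2128) (nat_lit 3) (nat_lit 97785658394322926633) (ZL.cons (nat_lit 2204) (nat_lit 6) (nat_lit 193134736824559454276) (ZL.cons (nat_lit 2280) (nat_lit 6) (nat_lit 192971128647140023798) (ZL.cons (nat_lit 2356) (nat_lit 6) (nat_lit 190456543038808449926) (ZL.cons (nat_lit 2432) (nat_lit 3) (nat_lit 95187973938759045042) (ZL.cons (nat_lit 2508) (nat_lit 6) (nat_lit 188025362752925405034) (ZL.cons (nat_lit 2584) (nat_lit 6) (nat_lit 187866519862226928838) (ZL.cons (nat_lit 2660) (nat_lit 6) (nat_lit 185440651897175508952) (ZL.cons (nat_lit 2736) (nat_lit 3) (nat_lit 92681202083883696299) (ZL.cons (nat_lit 2812) (nat_lit 6) (nat_lit 183096224291908931122) (ZL.cons (nat_lit 2888) (nat_lit 6) (nat_lit 182942007893172546468) (ZL.cons (nat_lit 2964) (nat_lit 6) (nat_lit 180603216129076239606) (ZL.cons (nat_lit 3040) (nat_lit 3) (nat_lit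 90263623729873985653) (ZL.cons (nat_lit 3116) (nat_lit 6) (nat_lit 178343985271024407282) (ZL.cons (nat_lit 3192) (nat_lit 6) (nat_lit 178194260612057043540) (ZL.cons (nat_lit 3268) (nat_lit 6) (nat_lit 175941008817902751688) (ZL.cons (nat_lit 3344) (nat_lit 3) (nat_lit 87933626414131828123) (ZL.cons (nat_lit 3420) (nat_lit 6) (nat_lit 173765523216494087140) (ZL.cons (nat_lit 3496) (nat_lit 6) (nat_lit 173620159469923831076) (ZL.cons (nat_lit 3572) (nat_lit 6) (nat_lit 171665902898082246210) (ZL.cons (nat_lit 3648) (nat_lit 6) (nat_lit 171451017057404067214) (ZL.cons (nat_lit 3724) (nat_lit 3) (nat_lit 85689704650236453296) (ZL.cons (nat_lit 3800) (nat_lit 6) (nat_lit 169357930223547793990) (ZL.cons (nat_lit 3876) (nat_lit 6) (nat_lit 169216800372508710436) (ZL.cons (nat_lit 3952) (nat_lit 6) (nat_lit 167339070057529311744) (ZL.cons (nat_lit 4028) (nat_lit 6) (nat_lit 167130443027744671946) (ZL.cons (nat_lit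 4104) (nat_lit 3) (nat_lit 83530460466818374507) (ZL.cons (nat_lit 4180) (nat_lit 6) (nat_lit 165118514235491191480) (ZL.cons (nat_lit 4256) (nat_lit 6) (nat_lit 164981494962637712304) (ZL.cons (nat_lit 4332) (nat_lit 6) (nat_lit 163179255999716202892) (ZL.cons (nat_lit 4408) (nat_lit 6) (nat_lit 162976705485362183670) (ZL.cons (nat_lit 4484) (nat_lit 3) (nat_lit 81454604153308313713) (ZL.cons (nat_lit 4560) (nat_lit 6) (nat_lit 161044800744014485468) (ZL.cons (nat_lit 4636) (nat_lit 6) (nat_lit 160911772323768389178) (ZL.cons (nat_lit 4712) (nat_lit 6) (nat_lit 159184092666490527478) (ZL.cons (nat_lit 4788) (nat_lit 6) (nat_lit 158987441681680800076) (ZL.cons (nat_lit 4864) (nat_lit 3) (nat_lit 79460955220090130015) (ZL.cons (nat_lit 4940) (nat_lit 6) (nat_lit 157392955391363347014) (ZL.cons (nat_lit 5016) (nat_lit 6) (nat_lit 157134534926394754456) (ZL.cons (nat_lit 5092) (nat_lit 6) (nat_lit 157005381120330583298)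 (ZL.cons (nat_lit 5168) (nat_lit 6) (nat_lit 155351433013172623734) (ZL.cons (nat_lit 5244) (nat_lit 6) (nat_lit 155160509726949587420) (ZL.cons (nat_lit 5320) (nat_lit 3) (nat_lit 77548443581192978154) (ZL.cons (nat_lit 5396) (nat_lit 6) (nat_lit 153636577891798971098) (ZL.cons (nat_lit 5472) (nat_lit 6) (nat_lit 153385684236489657934) (ZL.cons (nat_lit 5548) (nat_lit 6) (nat_lit 153260292191767161666) (ZL.cons (nat_lit 5624) (nat_lit 6) (nat_lit 151679353830561072568) (ZL.cons (nat_lit 5700) (nat_lit 6) (nat_lit 151493991416752299450) (ZL.cons (nat_lit 5776) (nat_lit 3) (nat_lit 75716110968296717147) (ZL.cons (nat_lit 5852) (nat_lit 6) (nat_lit 150040027540847971398) (ZL.cons (nat_lit 5928) (nat_lit 6) (nat_lit 149796441467732133376) (ZL.cons (nat_lit 6004) (nat_lit 6) (nat_lit 149674701618486991370) (ZL.cons (nat_lit 6080) (nat_lit 6) (nat_lit 148466272946320508022) (ZL.cons (nat_lit 6156) (nat_lit 6)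 (nat_lit 148166159048634704074) (ZL.cons (nat_lit 6232) (nat_lit 6) (nat_lit 147986195540082497164) (ZL.cons (nat_lit 6308) (nat_lit 3) (nat_lit 73963112585498110157) (ZL.cons (nat_lit 6384) (nat_lit 6) (nat_lit 146601719640841382722) (ZL.cons (nat_lit 6460) (nat_lit 6) (nat_lit 146365228307719209886) (ZL.cons (nat_lit 6536) (nat_lit 6) (nat_lit 146247034279325868132) (ZL.cons (nat_lit 6612) (nat_lit 6) (nat_lit 145101756258461864478) (ZL.cons (nat_lit 6688) (nat_lit 6) (nat_lit 144810383542262054820) (ZL.cons (nat_lit 6764) (nat_lit 6) (nat_lit 144635661689298747140) (ZL.cons (nat_lit 6840) (nat_lit 3) (nat_lit 72288719014995841118) (ZL.cons (nat_lit 6992) (nat_lit 6) (nat_lit 143320302641488787850) (ZL.cons (nat_lit 7068) (nat_lit 6) (nat_lit 143090699405447843348) (ZL.cons (nat_lit 7144) (nat_lit 6) (nat_lit 142975947921570812518) (ZL.cons (nat_lit 7220) (nat_lit 6) (nat_lit 141893683592961840102) (ZL.cons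 (nat_lit 7296) (nat_lit 6) (nat_lit 141610797460729015190) (ZL.cons (nat_lit 7372) (nat_lit 6) (nat_lit 141441164593774347538) (ZL.cons (nat_lit 7448) (nat_lit 3) (nat_lit 70692318384602190806) (ZL.cons (nat_lit 7524) (nat_lit 6) (nat_lit 140529279836347547252) (ZL.cons (nat_lit 7600) (nat_lit 6) (nat_lit 140194662736938139420) (ZL.cons (nat_lit 7676) (nat_lit 6) (nat_lit 139971746973791591358) (ZL.cons (nat_lit 7752) (nat_lit 6) (nat_lit 139860337766143988610) (ZL.cons (nat_lit 7828) (nat_lit 6) (nat_lit 138841057834802000704) (ZL.cons (nat_lit 7904) (nat_lit 6) (nat_lit 138566411104478869722) (ZL.cons (nat_lit 7980) (nat_lit 6) (nat_lit 138401719000639386564) (ZL.cons (nat_lit 8056) (nat_lit 3) (nat_lit 69173418808780874871) (ZL.cons (nat_lit 8132) (nat_lit 6) (nat_lit 137548799992755625720) (ZL.cons (nat_lit 8208) (nat_lit 6) (nat_lit 137223929022455229766) (ZL.cons (nat_lit 8284) (nat_lit 6) (nat_lit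 137007505951439163688) (ZL.cons (nat_lit 8360) (nat_lit 6) (nat_lit 136899341672169646456) (ZL.cons (nat_lit 8436) (nat_lit 6) (nat_lit 136316760053461304044) (ZL.cons (nat_lit 8512) (nat_lit 6) (nat_lit 135943127685124728506) (ZL.cons (nat_lit 8588) (nat_lit 6) (nat_lit 135676480374131397456) (ZL.cons (nat_lit 8664) (nat_lit 6) (nat_lit 135516585127685297304) (ZL.cons (nat_lit 8740) (nat_lit 3) (nat_lit 67731651115746708447) (ZL.cons (nat_lit 8816) (nat_lit 6) (nat_lit 134722887945687756764) (ZL.cons (nat_lit 8892) (nat_lit 6) (nat_lit 134407479236658246130) (ZL.cons (nat_lit 8968) (nat_lit 6) (nat_lit 134197359750234881006) (ZL.cons (nat_lit 9044) (nat_lit 6) (nat_lit 134092345886866417676) (ZL.cons (nat_lit 9120) (nat_lit 6) (nat_lit 133562143575245777382) (ZL.cons (nat_lit 9196) (nat_lit 6) (nat_lit 133199393703074344820) (ZL.cons (nat_lit 9272) (nat_lit 6) (nat_lit 132940512818614800112) (ZL.cons (nat_lit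 9348) (nat_lit 6) (nat_lit 132785274715269071810) (ZL.cons (nat_lit 9424) (nat_lit 3) (nat_lit 66366771874046244445) (ZL.cons (nat_lit 9500) (nat_lit 6) (nat_lit 132459880331145006108) (ZL.cons (nat_lit 9576) (nat_lit 6) (nat_lit 132051168164661027984) (ZL.cons (nat_lit 9652) (nat_lit 6) (nat_lit 131744946117059561348) (ZL.cons (nat_lit 9728) (nat_lit 6) (nat_lit 131540946615677653462) (ZL.cons (nat_lit 9804) (nat_lit 6) (nat_lit 131438991408523805570) (ZL.cons (nat_lit 9880) (nat_lit 6) (nat_lit 130961799317549779132) (ZL.cons (nat_lit 9956) (nat_lit 6) (nat_lit 130609614975635766934) (ZL.cons (nat_lit 10032) (nat_lit 6) (nat_lit 130358274311111937120) (ZL.cons (nat_lit 10108) (nat_lit 6) (nat_lit 130207557705921909644) (ZL.cons (nat_lit 10184) (nat_lit 3) (nat_lit 65078666732972322336) (ZL.cons (nat_lit 10260) (nat_lit 6) (nat_lit 129930335286048947652) (ZL.cons (nat_lit 10336) (nat_lit 6) (nat_lit 129533527357423726176)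 (ZL.cons (nat_lit 10412) (nat_lit 6) (nat_lit 129236224398587350800) (ZL.cons (nat_lit 10488) (nat_lit 6) (nat_lit 129038166630255401396) (ZL.cons (nat_lit 10564) (nat_lit 6) (nat_lit 128939180992241956840) (ZL.cons (nat_lit 10640) (nat_lit 6) (nat_lit 128955874790907707582) (ZL.cons (nat_lit 10716) (nat_lit 6) (nat_lit 128515742991689079034) (ZL.cons (nat_lit 10792) (nat_lit 6) (nat_lit 128173816446141494380) (ZL.cons (nat_lit 10868) (nat_lit 6) (nat_lit 127929796383496999414) (ZL.cons (nat_lit 10944) (nat_lit 6) (nat_lit 127783469582341632930) (ZL.cons (nat_lit 11020) (nat_lit 3) (nat_lit 63867354092152726673) (ZL.cons (nat_lit 11096) (nat_lit 6) (nat_lit 128037566361790498612) (ZL.cons (nat_lit 11172) (nat_lit 6) (nat_lit 127555372552287008832) (ZL.cons (nat_lit 11248) (nat_lit 6) (nat_lit 127170122136146017106) (ZL.cons (nat_lit 11324) (nat_lit 6) (nat_lit 126881478486790312862) (ZL.cons (nat_lit 11400)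 (nat_lit 6) (nat_lit 126689189391322400816) (ZL.cons (nat_lit 11476) (nat_lit 6) (nat_lit 126593086830144299304) (ZL.cons (nat_lit 11552) (nat_lit 6) (nat_lit 126651576880581144824) (ZL.cons (nat_lit 11628) (nat_lit 6) (nat_lit 126224264454155291866) (ZL.cons (nat_lit 11704) (nat_lit 6) (nat_lit 125892296934206180550) (ZL.cons (nat_lit 11780) (nat_lit 6) (nat_lit 125655384252027059226) (ZL.cons (nat_lit 11856) (nat_lit 6) (nat_lit 125513319396536412152) (ZL.cons (nat_lit 11932) (nat_lit 3) (nat_lit 62732989116697245112) (ZL.cons (nat_lit 12008) (nat_lit 6) (nat_lit 125803566252198151792) (ZL.cons (nat_lit 12084) (nat_lit 6) (nat_lit 125335416922583113172) (ZL.cons (nat_lit 12160) (nat_lit 6) (nat_lit 124961387392349140624) (ZL.cons (nat_lit 12236) (nat_lit 6) (nat_lit 124681150839576612228) (ZL.cons (nat_lit 12312) (nat_lit 6) (nat_lit 124494462397374755876) (ZL.cons (nat_lit 12388) (nat_lit 6) (nat_lit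 124401158939920288386) (ZL.cons (nat_lit 12464) (nat_lit 6) (nat_lit 125010599686977306732) (ZL.cons (nat_lit 12540) (nat_lit 6) (nat_lit 124502802878537816010) (ZL.cons (nat_lit 12616) (nat_lit 6) (nat_lit 124087936445114657800) (ZL.cons (nat_lit 12692) (nat_lit 6) (nat_lit 123765637882057268172) (ZL.cons (nat_lit 12768) (nat_lit 6) (nat_lit 123535625569262004748) (ZL.cons (nat_lit 12844) (nat_lit 6) (nat_lit 123397698525096327980) (ZL.cons (nat_lit 12920) (nat_lit 3) (nat_lit 61675868115391891209) (ZL.cons (nat_lit 12996) (nat_lit 6) (nat_lit 123725694795184797698) (ZL.cons (nat_lit 13072) (nat_lit 6) (nat_lit 123271180882937187386) (ZL.cons (nat_lit 13148) (nat_lit 6) (nat_lit 122908045416690612096) (ZL.cons (nat_lit 13224) (nat_lit 6) (nat_lit 122635971093610487440) (ZL.cons (nat_lit 13300) (nat_lit 6) (nat_lit 122454720178851403600) (ZL.cons (nat_lit 13376) (nat_lit 6) (nat_lit 122364134297827648760)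 (ZL.cons (nat_lit 13452) (nat_lit 6) (nat_lit 123003413646043458508) (ZL.cons (nat_lit 13528) (nat_lit 6) (nat_lit 122510407035908030626) (ZL.cons (nat_lit 13604) (nat_lit 6) (nat_lit 122107624090837003234) (ZL.cons (nat_lit 13680) (nat_lit 6) (nat_lit 121794712864567692916) (ZL.cons (nat_lit 13756) (nat_lit 6) (nat_lit 121571399939523747844) (ZL.cons (nat_lit 13832) (nat_lit 6) (nat_lit 121437490187906585932) (ZL.cons (nat_lit 13908) (nat_lit 3) (nat_lit 60696433300597688327) (ZL.cons (nat_lit 13984) (nat_lit 6) (nat_lit 122335328311663092414) (ZL.cons (nat_lit 14060) (nat_lit 6) (nat_lit 121804950150180268830) (ZL.cons (nat_lit 14136) (nat_lit 6) (nat_lit 121363674507221423868) (ZL.cons (nat_lit 14212) (nat_lit 6) (nat_lit 121011115802127661448) (ZL.cons (nat_lit 14288) (nat_lit 6) (nat_lit 120746965973894530714) (ZL.cons (nat_lit 14364) (nat_lit 6) (nat_lit 120570994211992507570) (ZL.cons (nat_lit 14440)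 (nat_lit 6) (nat_lit 120483046754687891220) (ZL.cons (nat_lit 14516) (nat_lit 6) (nat_lit 121720855028159289394) (ZL.cons (nat_lit 14592) (nat_lit 6) (nat_lit 121154193807115887458) (ZL.cons (nat_lit 14668) (nat_lit 6) (nat_lit 120675546612809646794) (ZL.cons (nat_lit 14744) (nat_lit 6) (nat_lit 120284495209828066804) (ZL.cons (nat_lit 14820) (nat_lit 6) (nat_lit 119980697902770483968) (ZL.cons (nat_lit 14896) (nat_lit 6) (nat_lit 119763889237679275162) (ZL.cons (nat_lit 14972) (nat_lit 6) (nat_lit 119633879770089797580) (ZL.cons (nat_lit 15048) (nat_lit 3) (nat_lit 59795277949748195254) (ZL.cons (nat_lit 15124) (nat_lit 6) (nat_lit 121159456877128987866) (ZL.cons (nat_lit 15200) (nat_lit 6) (nat_lit 120557569384667548696) (ZL.cons (nat_lit 15276) (nat_lit 6) (nat_lit 120042639130800729680) (ZL.cons (nat_lit 15352) (nat_lit 6) (nat_lit 119614216176471753988) (ZL.cons (nat_lit 15428) (nat_lit 6) (nat_lit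 119271926171526353582) (ZL.cons (nat_lit 15504) (nat_lit 6) (nat_lit 119015470027610692674) (ZL.cons (nat_lit 15580) (nat_lit 6) (nat_lit 118844623656832029430) (ZL.cons (nat_lit 15656) (nat_lit 6) (nat_lit 118759237775953761126) (ZL.cons (nat_lit 15732) (nat_lit 6) (nat_lit 120014555560524375358) (ZL.cons (nat_lit 15808) (nat_lit 6) (nat_lit 119464399035239519108) (ZL.cons (nat_lit 15884) (nat_lit 6) (nat_lit 118999693021349965064) (ZL.cons (nat_lit 15960) (nat_lit 6) (nat_lit 118620031465057168956) (ZL.cons (nat_lit 16036) (nat_lit 6) (nat_lit 118325082623253690478) (ZL.cons (nat_lit 16112) (nat_lit 6) (nat_lit 118114588773650575132) (ZL.cons (nat_lit 16188) (nat_lit 6) (nat_lit 117988365989583121166) (ZL.cons (nat_lit 16264) (nat_lit 3) (nat_lit 58973151989649129967) (ZL.cons (nat_lit 16340) (nat_lit 6) (nat_lit 119524677856587601560) (ZL.cons (nat_lit 16416) (nat_lit 6) (nat_lit 118940321067790087802)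 (ZL.cons (nat_lit 16492) (nat_lit 6) (nat_lit 118440388782482496524) (ZL.cons (nat_lit 16568) (nat_lit 6) (nat_lit 118024444166629122064) (ZL.cons (nat_lit 16644) (nat_lit 6) (nat_lit 117692123773478247884) (ZL.cons (nat_lit 16720) (nat_lit 6) (nat_lit 117443137225987314968) (ZL.cons (nat_lit 16796) (nat_lit 6) (nat_lit 117277266963095408900) (ZL.cons (nat_lit 16872) (nat_lit 6) (nat_lit 117194368049621362006) (ZL.cons (nat_lit 16948) (nat_lit 3) (nat_lit 58725669225113491530) (ZL.cons (nat_lit 17024) (nat_lit 6) (nat_lit 117476786658194616008) (ZL.cons (nat_lit 17100) (nat_lit 6) (nat_lit 117553153518395739002) (ZL.cons (nat_lit 17176) (nat_lit 6) (nat_lit 117680505759154799622) (ZL.cons (nat_lit 17252) (nat_lit 6) (nat_lit 117858954659128771804) (ZL.cons (nat_lit 17328) (nat_lit 6) (nat_lit 118088656144540933782) (ZL.cons (nat_lit 17404) (nat_lit 6) (nat_lit 118369810925427082586) (ZL.cons (nat_lit 17480)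 (nat_lit 6) (nat_lit 118702664671013235236) (ZL.cons (nat_lit 17556) (nat_lit 6) (nat_lit 119087508224378059252) (ZL.cons (nat_lit 17632) (nat_lit 6) (nat_lit 118469947296247868300) (ZL.cons (nat_lit 17708) (nat_lit 6) (nat_lit 117935814747427619514) (ZL.cons (nat_lit 17784) (nat_lit 6) (nat_lit 117484643860156207820) (ZL.cons (nat_lit 17860) (nat_lit 6) (nat_lit 117116040407444755288) (ZL.cons (nat_lit 17936) (nat_lit 6) (nat_lit 116829682308606426670) (ZL.cons (nat_lit 18012) (nat_lit 6) (nat_lit 116625319347826703032) (ZL.cons (nat_lit 18088) (nat_lit 6) (nat_lit 116502772955528204036) (ZL.cons (nat_lit 18164) (nat_lit 3) (nat_lit 58230968026169509187) (ZL.cons (nat_lit 18240) (nat_lit 6) (nat_lit 116600694684562950272) (ZL.cons (nat_lit 18316) (nat_lit 6) (nat_lit 116652354546737245160) (ZL.cons (nat_lit 18392) (nat_lit 6) (nat_lit 116755719410771229948) (ZL.cons (nat_lit 18468) (nat_lit 6) (nat_lit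 116910879595478138218) (ZL.cons (nat_lit 18544) (nat_lit 6) (nat_lit 117117970677718393482) (ZL.cons (nat_lit 18620) (nat_lit 6) (nat_lit 117377173610864827030) (ZL.cons (nat_lit 18696) (nat_lit 6) (nat_lit 117688714882917275552) (ZL.cons (nat_lit 18772) (nat_lit 6) (nat_lit 118052866714404716914) (ZL.cons (nat_lit 18848) (nat_lit 6) (nat_lit 117485530026251790934) (ZL.cons (nat_lit 18924) (nat_lit 6) (nat_lit 117000158875467721732) (ZL.cons (nat_lit 19000) (nat_lit 6) (nat_lit 116596329151338231966) (ZL.cons (nat_lit 19076) (nat_lit 6) (nat_lit 116273687992939324996) (ZL.cons (nat_lit 19152) (nat_lit 6) (nat_lit 116031953480812205656) (ZL.cons (nat_lit 19228) (nat_lit 6) (nat_lit 115870914390625889090) (ZL.cons (nat_lit 19304) (nat_lit 6) (nat_lit 115790430008612251326) (ZL.cons (nat_lit 19380) (nat_lit 3) (nat_lit 57900137579438091228) (ZL.cons (nat_lit 19456) (nat_lit 6) (nat_lit 115826486813082844396)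 (ZL.cons (nat_lit 19532) (nat_lit 6) (nat_lit 115905144679090001078) (ZL.cons (nat_lit 19608) (nat_lit 6) (nat_lit 116036317487071833516) (ZL.cons (nat_lit 19684) (nat_lit 6) (nat_lit 116220119854045024868) (ZL.cons (nat_lit 19760) (nat_lit 6) (nat_lit 116456712384019551702) (ZL.cons (nat_lit 19836) (nat_lit 6) (nat_lit 116746301808332284968) (ZL.cons (nat_lit 19912) (nat_lit 6) (nat_lit 117089141166286022202) (ZL.cons (nat_lit 19988) (nat_lit 6) (nat_lit 116570565876169275806) (ZL.cons (nat_lit 20064) (nat_lit 6) (nat_lit 116132535888527128532) (ZL.cons (nat_lit 20140) (nat_lit 6) (nat_lit 115774668458710184328) (ZL.cons (nat_lit 20216) (nat_lit 6) (nat_lit 115496650887022486636) (ZL.cons (nat_lit 20292) (nat_lit 6) (nat_lit 115298240245488774368) (ZL.cons (nat_lit 20368) (nat_lit 6) (nat_lit 115179263165587319034) (ZL.cons (nat_lit 20444) (nat_lit 3) (nat_lit 57569807843381433466) (ZL.cons (nat_lit 20520)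 (nat_lit 6) (nat_lit 115074828685432256164) (ZL.cons (nat_lit 20596) (nat_lit 6) (nat_lit 115128038343471779898) (ZL.cons (nat_lit 20672) (nat_lit 6) (nat_lit 115234504153426784230) (ZL.cons (nat_lit 20748) (nat_lit 6) (nat_lit 115394319143674899750) (ZL.cons (nat_lit 20824) (nat_lit 6) (nat_lit 115607622958382362672) (ZL.cons (nat_lit 20900) (nat_lit 6) (nat_lit 115874601979523189224) (ZL.cons (nat_lit 20976) (nat_lit 6) (nat_lit 116195489489737211202) (ZL.cons (nat_lit 21052) (nat_lit 6) (nat_lit 115724255362762386734) (ZL.cons (nat_lit 21128) (nat_lit 6) (nat_lit 115332187669432785022) (ZL.cons (nat_lit 21204) (nat_lit 6) (nat_lit 115018943826327050096) (ZL.cons (nat_lit 21280) (nat_lit 6) (nat_lit 114784250125232759476) (ZL.cons (nat_lit 21356) (nat_lit 6) (nat_lit 114627901493983908440) (ZL.cons (nat_lit 21432) (nat_lit 6) (nat_lit 114549761317271638768) (ZL.cons (nat_lit 21508) (nat_lit 3) (nat_lit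 57198361687565125900) (ZL.cons (nat_lit 21584) (nat_lit 6) (nat_lit 114423721378963113594) (ZL.cons (nat_lit 21660) (nat_lit 6) (nat_lit 114504738980950484978) (ZL.cons (nat_lit 21736) (nat_lit 6) (nat_lit 114639846973171772392) (ZL.cons (nat_lit 21812) (nat_lit 6) (nat_lit 114829163411154159482) (ZL.cons (nat_lit 21888) (nat_lit 6) (nat_lit 115072853717027922122) (ZL.cons (nat_lit 21964) (nat_lit 6) (nat_lit 115371130824070037386) (ZL.cons (nat_lit 22040) (nat_lit 6) (nat_lit 114945858991407758480) (ZL.cons (nat_lit 22116) (nat_lit 6) (nat_lit 114598414884789366046) (ZL.cons (nat_lit 22192) (nat_lit 6) (nat_lit 114328494912277038192) (ZL.cons (nat_lit 22268) (nat_lit 6) (nat_lit 114135863221467608804) (ZL.cons (nat_lit 22344) (nat_lit 6) (nat_lit 114020351493407943430) (ZL.cons (nat_lit 22420) (nat_lit 3) (nat_lit 56990929397760062930) (ZL.cons (nat_lit 22496) (nat_lit 6) (nat_lit 113791578362973654792)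 (ZL.cons (nat_lit 22572) (nat_lit 6) (nat_lit 113846384310754364236) (ZL.cons (nat_lit 22648) (nat_lit 6) (nat_lit 113956044095008018702) (ZL.cons (nat_lit 22724) (nat_lit 6) (nat_lit 114120653534963577686) (ZL.cons (nat_lit 22800) (nat_lit 6) (nat_lit 114340356464112264494) (ZL.cons (nat_lit 22876) (nat_lit 6) (nat_lit 114615344855887315846) (ZL.cons (nat_lit 22952) (nat_lit 6) (nat_lit 114234696609936246218) (ZL.cons (nat_lit 23028) (nat_lit 6) (nat_lit 113930576373911260856) (ZL.cons (nat_lit 23104) (nat_lit 6) (nat_lit 113702718411683794234) (ZL.cons (nat_lit 23180) (nat_lit 6) (nat_lit 113550923624063550508) (ZL.cons (nat_lit 23256) (nat_lit 6) (nat_lit 113475059374828337236) (ZL.cons (nat_lit 23332) (nat_lit 3) (nat_lit 56615528468764133531) (ZL.cons (nat_lit 23408) (nat_lit 6) (nat_lit 113258864881476114712) (ZL.cons (nat_lit 23484) (nat_lit 6) (nat_lit 113342313011523107238) (ZL.cons (nat_lit 23560)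 (nat_lit 6) (nat_lit 113481474243511033274) (ZL.cons (nat_lit 23636) (nat_lit 6) (nat_lit 113676470174632891976) (ZL.cons (nat_lit 23712) (nat_lit 6) (nat_lit 113927471189682867496) (ZL.cons (nat_lit 23788) (nat_lit 6) (nat_lit 113590146814325204940) (ZL.cons (nat_lit 23864) (nat_lit 6) (nat_lit 113328088588585080810) (ZL.cons (nat_lit 23940) (nat_lit 6) (nat_lit 113141067529546799850) (ZL.cons (nat_lit 24016) (nat_lit 6) (nat_lit 113028920220751008226) (ZL.cons (nat_lit 24092) (nat_lit 3) (nat_lit 56495774334701806262) (ZL.cons (nat_lit 24168) (nat_lit 6) (nat_lit 112741667326624134054) (ZL.cons (nat_lit 24244) (nat_lit 6) (nat_lit 112798117452838264786) (ZL.cons (nat_lit 24320) (nat_lit 6) (nat_lit 112911067030619528882) (ZL.cons (nat_lit 24396) (nat_lit 6) (nat_lit 113080614753773754636) (ZL.cons (nat_lit 24472) (nat_lit 6) (nat_lit 113306908770796902050) (ZL.cons (nat_lit 24548) (nat_lit 6) (nat_lit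 113011646405724100726) (ZL.cons (nat_lit 24624) (nat_lit 6) (nat_lit 112790425083173162258) (ZL.cons (nat_lit 24700) (nat_lit 6) (nat_lit 112643051502959333400) (ZL.cons (nat_lit 24776) (nat_lit 6) (nat_lit 112569396892051359346) (ZL.cons (nat_lit 24852) (nat_lit 3) (nat_lit 56147169863002431139) (ZL.cons (nat_lit 24928) (nat_lit 6) (nat_lit 112322981908271145360) (ZL.cons (nat_lit 25004) (nat_lit 6) (nat_lit 112408933482219547662) (ZL.cons (nat_lit 25080) (nat_lit 6) (nat_lit 112552269551167111476) (ZL.cons (nat_lit 25156) (nat_lit 6) (nat_lit 112753115360222625942) (ZL.cons (nat_lit 25232) (nat_lit 6) (nat_lit 112498689898339010280) (ZL.cons (nat_lit 25308) (nat_lit 6) (nat_lit 112317116054612523914) (ZL.cons (nat_lit 25384) (nat_lit 6) (nat_lit 112208235172286512626) (ZL.cons (nat_lit 25460) (nat_lit 3) (nat_lit 56085976056362967137) (ZL.cons (nat_lit 25536) (nat_lit 6) (nat_lit 111916491210841059246)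 (ZL.cons (nat_lit 25612) (nat_lit 6) (nat_lit 111974634840841613898) (ZL.cons (nat_lit 25688) (nat_lit 6) (nat_lit 112090972905956315918) (ZL.cons (nat_lit 25764) (nat_lit 6) (nat_lit 112265607060805168444) (ZL.cons (nat_lit 25840) (nat_lit 6) (nat_lit 112050829077746004884) (ZL.cons (nat_lit 25916) (nat_lit 6) (nat_lit 111907747931907336088) (ZL.cons (nat_lit 25992) (nat_lit 6) (nat_lit 111836238600928720502) (ZL.cons (nat_lit 26068) (nat_lit 3) (nat_lit 55789145087250854158) (ZL.cons (nat_lit 26144) (nat_lit 6) (nat_lit 111607791622235979886) (ZL.cons (nat_lit 26220) (nat_lit 6) (nat_lit 111696321743402834256) (ZL.cons (nat_lit 26296) (nat_lit 6) (nat_lit 111843957894418824988) (ZL.cons (nat_lit 26372) (nat_lit 6) (nat_lit 111667672609247478998) (ZL.cons (nat_lit 26448) (nat_lit 6) (nat_lit 111561963014756205904) (ZL.cons (nat_lit 26524) (nat_lit 3) (nat_lit 55763368371669084335) (ZL.cons (nat_lit 26600)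 (nat_lit 6) (nat_lit 111308083283784446526) (ZL.cons (nat_lit 26676) (nat_lit 6) (nat_lit 111367971222685017814) (ZL.cons (nat_lit 26752) (nat_lit 6) (nat_lit 111487799429753160896) (ZL.cons (nat_lit 26828) (nat_lit 6) (nat_lit 111348885695929210608) (ZL.cons (nat_lit 26904) (nat_lit 6) (nat_lit 111279459160998515866) (ZL.cons (nat_lit 26980) (nat_lit 3) (nat_lit 55537623972207290219) (ZL.cons (nat_lit 27056) (nat_lit 6) (nat_lit 111105634435580880156) (ZL.cons (nat_lit 27132) (nat_lit 6) (nat_lit 111196820460382740156) (ZL.cons (nat_lit 27208) (nat_lit 6) (nat_lit 111094189786119368220) (ZL.cons (nat_lit 27284) (nat_lit 3) (nat_lit 55529994761303355356) (ZL.cons (nat_lit 27360) (nat_lit 6) (nat_lit 110909082155771592420) (ZL.cons (nat_lit 27436) (nat_lit 6) (nat_lit 110970766732839180850) (ZL.cons (nat_lit 27512) (nat_lit 6) (nat_lit 110903362329993846148) (ZL.cons (nat_lit 27588) (nat_lit 3) (nat_lit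 55389071319273320818) (ZL.cons (nat_lit 27664) (nat_lit 6) (nat_lit 110809440724447930348) (ZL.cons (nat_lit 27740) (nat_lit 3) (nat_lit 55388118292557626577) (ZL.cons (nat_lit 27816) (nat_lit 6) (nat_lit 110712701470735637072) (ZL.cons (nat_lit 27892) (nat_lit 1) (nat_lit 18446744073709551617) ZL.nil)))))))))))))))))))))))))))))))))))))))))))))))))))))))))))))))))))))))))))))))))))))))))))))))))))))))))))))))))))))))))))))))))))))))))))))))))))))))))))))))))))))))))))))))))))))))))))))))))))))))))))))))))))))))))))))))))))))))))))))))))))))))))))))))))))))))))))))))))))))))))))))))))))))))))))))))))))))))))))))))))))))))))))))))))))))))))))))))))))))))))))))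

noncomputable def vl : XL := ⟨(nat_lit 0), (nat_lit 76), (nat_lit 210188212), (nat_lit 152), (nat_lit 133333613), (nat_lit 152), (nat_lit 133333613), (nat_lit 1), (nat_lit 4), (nat_lit 2), (nat_lit 5), (nat_lit 2), (nat_lit 4), (nat_lit 0), (nat_lit 0), (nat_lit 0)⟩

noncomputable def cp0 : Nat := (nat_lit 990335258181430862062638958747000682216022560759434207532682299872475807565368234772520335060979766452652993574633466295384742495824364864917499657387235516347082997764185273178928866016296827023498794894042600021544270512376630770358158818951846850709465794404161481889809833828697548089923645248146386577797364771519261386143982395322178259144992789541425882167830815625030639211091218416850359081404109812767474794834660539385057393434858052496319097455147252660990578129911359766435433528364499456565210528615746509558612382804792105244991909662636471133875604816866443171108321636619800626028329803611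9240061652682182886245498038913118386234911228000862274010843197449944698482250478181094845076814599467310783379312378083203165124610794371135416500094857112412545484203587405244148670490288794609216707024143179331696123679579053329066499103640763970903497010947236929486883656900830052815936332808803933478204948228007481869751131652667184755486479494181166737259696647869079259143380841468894506174801850778338399103126302604892364799907312129198975871232973688407899397938841231849605156137706767409689056342670225908631876102886835600127000019072235173581497395760220911846878742889302576878650884926286086136353317662040164246645474513434603237027717104444745468781366257240130813386735998712463932488804016071879652483467180665281381250077822563023874580386096205707396153800420613829704997970443911653468981132708745734345265024010895224221867380851481762451310916290233529492492444207741795518843101866569762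5381737648271727585419036955587069905169039564370003917791987292977032004572411856918516894452079929359123281112074576509404739880529412056749602322348782092945888837019707722343612484622523467130442829796053353825559330577788360879368970831921395996282845594269022215578530986443373041068705165573089888833441167363402336991458346128032128924150955299434217886948423377677628704927485141337307747424424891766033557474761062071778399429545417295994013420369503938168508235572449455606555712439955662197188251268007815965514437801043611547713376446630108743496452583590341550480217322663855921349019765780602614747724717477718163653795064839039334345029387475812131226402391627070394030810805325238775711571781475504891904819045323195841701398307424649359092384394186904500225484906084941255359831408573208709197511943985886256074349638118639104990438330355717684333415491866735037948262506148416581746930645421710180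7427249956970736076674898153264055641483673586026353526210899448277546478778679951919855335918758534565413021181076054068926326729197064886107707130552770582187551821698730002083375215599426926791024866617354494784655525297794861179029242713621116661261770843909433103131477416136004463122320904584764787373047976418441496956336881912998190242451893440363498960838429340689862989375005699452448235759838075665439339985778779722172960491876500346986219245403661454748384250199039967175008463709174138197098705117629013809564013237800905271748280911889241257852605469102433185559204306506169874188208866008424511124377468386360390289775490048816136608214823817512104167897245414941963043531398475893685557029022949651439466621582195213537777443762198338449235442130612219820402918786369648705430623585426632545167529464217483096707070065905428608460382859113024502308858499700129485188644548599952506784434310493727459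2999257449223419143786702643696574888827350858813965593353692147912184843778177186469087886784011026218871564743628713184599684588404968973054127145187955285947106361129443670586315942841569156455303527745882396031298777258809104378079776783386352745080593105675492402846089669630610003807511906271826705816858694135463598049176333615536549746398399552183848406297175613264226913261516865139501378379504743913506631079080220802892244068855222871465055193692510964075213827138251019548709350591484899924787295945466270438479847291748168946562666764027321593101615109788331172955689640828125493825087821952743409751038013107608373589649863644759551241529023689356080403245287836613631218999520695502262246292476080390329964608719431203351164078174520512103806217348421390600518358926681701065084706214537376137648275035989848850567023201549230567731320075039651223875753387184321508934240691500950835198014079570202551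8299348311084432210934989100990844318940141821100914343056345349000689172245213354616283241769660214585984851862165716837996340735576803327976347383719312510886382297464585054024823709994144940846421655931345710092054856572226365771769274045013839086924068625904665652518707779431501423692996800331581328767062390090982537838445728639420846631281073984954493195054848170976200631744918535017152812598918049787316157086803973376344791831842132085810516132426883948405652652735231357275128884007515141516278058595541384709480211454902371177113053500107458674063607605022446052484349684678128130021062720899753939361151845411087466878259254370214321777942504969693522819702856719131459362457648182622286076378105227413255744494337940146906815478144423493013544936436204715840718116141844037961506492292448793191516629902746912351925425678702540305771152044368980675706811831002894764151812034213927740283232130439144591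6044560478595303661714694000658924682236537096269574017063610612747663242849246928009432338817524864344375467653855152882183570338627382275706437709129762710194456620539615157226469303584304481184934338622799172975393672373520631754741294541004267859986906008887244947543064705495414344838200217455073096950941271580698630633698580107792942430785371282742429949403101285794579072082567319342215095774856540282647444012756693611576109203346871257281039342193464975406378323935745855420691500599932192439392898491293471864847487603991834704361186379444975057653586625226389075716724304980690535765870454520501787172667377484203056313062268553080954316939001096420031776820315832677975122015909061087662570715946227834049503713022528244993219916537168383827628457237534832476741160877644041878013498261555513021973395347426857940598199032123940389189257659036940045409669985983880558118154639785920967656619995470271435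7771030747102535088053197844898327561976489187530301871407387465122920069021752388830926447129500321217567583922974100885183867667949166173373359409796697644982043437271366419055630704818687790826454919860219060566386645273690365371893587688793224357103528377464511121593895257709847407293790295067562551212570188605898855559349679970008001879644078924640362940505718368367416276746457148250913587969024348111109582370007736959789892075152495257286422073731365730912313540311884157274193719040803837977188284284281465072281264225883144871484108893471979849609655252884968352098636653822246565703830533645929831919374617350596831106145459648779665489331111389704383328095949347819900952649646264673542931067491819660943249686653637067648667533348173796935374812743703928852422611221937889640395112024810820495363126713064802799742870502199405144049254940823964752120032184633593054293685450466674449024713457928505896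1359002678536475303351463214045287812972342110188084737150023526416775546709319177304710382829295525124674582841633789030966711661486716024358594279625511304749403262052941954499773223381699178693550272133710024179413944755377135879755289159756048167597163370826254782986115575687622024329143332586591285990006660100081104822338730584543488343329745197065835726010680839311677666067573868656005618085301053569086331702263823213174573183316186397673136078594843850038627543219581827878977822996364412866332534708087425873565804913114377874450772371492394093525551573248446117369330026231706484747046841975742324702022131812841554690780167193199409420245965805985832251694282051897294899638015007714282182627772979530074026741350727356990328498820618822132257725322749326902330408534523751402253876409988820780024938761947396520269325830034682154269952691514441851020997255348083326030967191438655750653284113538112340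3975402480622011829363764320210388845250191914388547188200353760308943149860097776645431370882921409739171287047517524458285640126380750479043296699313822217501796268220532070785542235103141361653216039170862449186464675218213538008299253534029276068566917292004097310226485451363337123790309715420488856013350542982156232539045391847329257502992504845574804116990378887066657543122666658877891874446217814446112363056534497866330172263392263931094302727595698387514143669105983488)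

noncomputable def cp1 : Nat := (nat_lit 1309914059464389661302061034606038241649586379118203880576534216613370603659110007432783554167411816563413888426323895230627653130557922690745876891394072357602832888039824403489717285516894711654506601212031040984525976473978043432288130163197064213870233922632257652812080022554471435406794163570023644849184947341079253363057328201789627657646790624952549133804669141842964933339834875085806504039677735363226607999231506968299559864638821573537968274593493148327355443884994444049582510322908059567289565468146852614937434225799829523061587405466878508473458749041521089075220721847127507898066777329709048567939543073547082144402210510264230452482358817099910834193832991387031462312318115003396195972058813964796934734154766867285754186550491575096325083078838547402270705763856678053408875722506883187666765406748699469614804714536743753803029670768864108227943065961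3775932619034994730442486296142364203775616142354221311620532141710794835651392195760001066382857016344198084112197038337923959725747678326404730352013035040489266866422331907240798239837286474251670133667090412990311929713268627225589200201967760621937514679148854975866232875459711203177206087923922337241879257487139583460069034517716855773938854808811739739006906045581032784674273971070408953425060540997963214266727531751249087307829727174880442828982424831930910828169375672509427907901383670809433663277375011631587909621232091262459760075633914545638880412345628615384029799271944411928220058784545070053933410848902809757079752078342749036318802105676225424194310187386296311736662427656561875085437864816234266127862305012409643746941606140646118018133142229757171214162414829504930511990448248669220102496939253503385402785336532116798302594572820976750531675853480509754550732264480575303275040117733880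0889770708440259489644741648653427005482312809363954864286328154312693881040782212206094014880941743181958982199003641617554825780589109032089262900547485124757466278183500429229215056672289084579994193903177824507081893473286725930167519803823180401381425337480803512787372286920840379704871688623566547182356031266078944197757285532632699958530895647448202797414801927996400006486402817435124425948482698016572666045427970585463339829485573876543857786873175404351639086228222529612108470196599200145780583520753844246079018196103902683893928193698400679129768698337362330152689537434082450794240562008087526123192978341934026703918375524739987609479728679937160168596022792806399610542512730211956197545102805113857027496073970193436618525305790297077527934190405624912052384685379167220937766931663114059740685462305955574737076019628549325114714064142090093617112250902275950030851541419859860088947725359056212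2594793917658784563366006839831395583868503451495791446665352833558671472289942465864026231363161314005225819682632042269376867347610264047778626291426003566918004571402093309880224943120674937767614777985716724535755966943364738650281447344428753184859110606319630762922079828395143060940605298979948848659143946622091286684913749969298328009893378549341495075876272035937821127352409967138274180360326939441803330350560038516085114667056253772760886161157987968527494045132607536524893432231981043476725514730166140227683896637578267916179255822375342993909354777246684975229672015660749230835905818104206362583876464777925087823445162238814972028082797982073806514811887191519223399933755708537158524668351671075851619268380643189644185022520721489174552862131159803239100230309887716889156485299702369901618751115443780227614731519152414227006196509929451493781726248194570907818515140447761876926012837010185837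6815230483132284372990433593633733820733402489079911664423532711533424997154759851203417389215395611987730344710412003952782068301983982775190544868604903574752718561051815836216229889734490497878999329319831266289959860152137188759724082554721016176442186163784016681065208753174867631554577414712842014344682688799978128385391059474298603215359974874491703270390446648642117615219654106602563164904553569360818900770824551151378483636954116952963811535226344012863451226559549970368071195743716070312129877162344208593696302880367066813173766331431194735581339080818696033988862154731861267372210020841662832528472995710957705224136057119602669294748222783076081048343078309278371729937694851634546333796528153363706375575850444591397479846323797524141413988879964458437006326704504457663150471194900866572991720348372635068728660643084546437672441110282441764085215302324304736918800232355489068708767847577428198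4523888678080377763298073233515054484984293865632668987821577373362070448749057907144760450835532439950421122844363932291087417720712762022863017111430476186450800662442102852782190544088415415534393355047713274854399135900993519015372708016192983409710140335002924982652775115389376812260835795031211862343997255366355602142131433282744744483620218010663943356118595494627417890080539101535553414658856390120816915295936125204901066056427676609911671052417053650733318153478754731534424409059056945122052125935061293439045525766702068521111534165217487569352356132681029224174302695395398406267201090564501119935801515162943361106173519853838288699336828137085647844196301980621473444600709605189227805889311763117812512202841718367926056165634946223368908959231499392665158787438348543338089354972925867455251267981820693516291833612664251534661899388876459962847567889316687962271557178116466682254103279702333828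9500287006349226807069989846961249305189382408543891522366321282265573823325463676230892600890889275099166520976236955256837763236257994113784003435707949968718677304208545793278599581450276863297604564305288900133164636515311601655581357095158763509164869272481213421970797692767236336473012965691682553065555933281637117630714408552615492807310264352975790451601156642251494155107153135011982165405542025606307141862251657489870870394883943658679251508698181788992922584672548319983744935245967038315268641025233494129488556275531795746427294966383024638784069096713984554578250096200909837086140011396099675862357645291470703418656551273974988588365654768728385827322181524516489908423144423089490786706002449637809688023176711034293777927743722329550025031557726014669912499492805760641747310042857260614470891101293085411974131352447750942052540766777530396963601058174436772817385666936740229113575779354205387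1906454656352984210683947054693669811667026564415428355489224184968374263343525610231549563968432249633602736177919469357721497489045370714757046899745309006622074200787416441590456898136799982497720204601035328373678577740544650379984733451617865378327082595779162153926787596192992851193661842905548567445269017363342570814628594001966668438104644991324718986748744111063162533032245233591247898421042387388010408163030655340561826871675376847846262304363063922336980709971982621252016954628847131735027812420058740904511678316941737940017014978843416046360102378209695717159175438599535045425860969860743076468406812140998059256843014239806367917944335875895171963461140658171920821924378766031597608901784156613124789730007722400176078638527103218684123317185027575276306875868877854346314950493954830119472843350020673097234390375297536724231545344176139696218930963569755172345148679733285384653587291073580747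65145266374851867884077998516819499611099877149862251436190373541694915639483387158392167662346981493508242572084323727146807204405558986860869171288865258144767735461649709223636907143412311865573965751633569702519709954729361077508234611774287769580307350636781577807232266382551508802249899646569544851745983462413683599336946793898590943471345888357017016212442174055807450148186230987422149882293806542797841267645387737913802942341621240539420849508418481694986200317371738150873715306127673714372816012393036035340115219966312371524796148972268879744983622808561579376598335106802990517262988743351542756018372098387292551948372402019129747088844182290077302950961476614430924203430690703253087918199878438963018897423382420256987203390330126949020958996456235776911553947545908666321892084416272750085924582076379064594358634749155902951884007958018907366249364472810346666898289176751960978924763790099705482466276932684316884960169972289114763801707680204973325223522755372070464114602220989864484254571871726261896972251283976150147505709801452331010279494662678396144207031622059823266782794220155110844549170049581056)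

noncomputable def rc0 : Nat := (nat_lit 9751169138404035088780930495263416778432671068003462281794075412664388309978601972939973154243647608081564830458144559557806012667602734179845666017294260958633421593423610507081274362507281966057776533610883761438857791753194172572727742837181851732141240558021208928657075585805370341776031413045396937609367710418280611024382153934449145038139591566647556314465247061217302295567821006378236572303133250269477209613016214016975007280494521321354781772436624421024657755138919241958246072426857620196520870989989630938600474812362977789779442854554006218955021059715057979405099577198062553627018061067593141680691420750253478330024588108750632699159028027776540197686163808793038517226354775454862384972743939769632687746129077525278312675528043628830023795841889600637801399975465324932354443210809868141049829840038612739633670166600253667686117177137336443853928974968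2888537360211117872519276793417249031960609582596478266186923411787668181323341953103677578031241706399367980120480083063813835379540512469132790248431221091174425801997215929611097035059481862780080184643041830958520943724453036904738125608703047105931952195074129322412252877865140231755789219116798404274747177281266521213327203487706898322200592965624677549347996900661034458432121417140507952021135146006041165565833427624783625766437271913756464685010613360373815280045142631547534466489168165452602039320585730355384571915010027964590720343016824569984013138427390783119341200264659781807612911188295464215092039077135761007749752360158534225213811490939948072324428433725086622523961687883427811024957854028823349761406632951230265146323460909167231137786757952048904716503454905678778045695751885782728900662599246003598140709349813243795577974786530850781704825850707528282150654794815692780841065090604796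8756744450970687428631441351901297478303736355813656725153356103182717135483532312001394658730378474342398345433984824069604769137781739843144057332899699752586161568982242931928542450834103631552375410924887974637900222883040588269804017072723113296978028768409891165723210609689797435966270244759884918700929579872310143436294869125736246074633365084195937194285815340415669653706345817291812147943397628399131732107818394274487341151453216932193328104267216988731853133579863451064385605788666286746164374015485458023578814505947842182724865282996819375091489887752287446459706008382164249163556207191191854852837272395973849831731584074047282970126613320365211345171390001524566527183274856997988215360199654149497402241697074105644109561511794191734473895244429376703316035220190241282456509600844727184554765856988583818335684168606705986747527255371200408521673725104031213195591132440984171655002425428090355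7750584665782198448566130199602573175448725968183473078937046958005751015129533214670637157064097147697962853489311218020188552327263831598056038625554284447841843918721545742298362250735337064914087657272343705885509273784753082769533271792290445173681528202969687058438912742982280747503157577595165944329708854470218501383923951752678810987600742899486635765937681100976380855074366735122358167869734532814384908899596772581592191243308821138769632985721855273715039657730446158456641970105658914611884757659789392949451044517298599522317753759518673575956378059449473045029657550359708606751631174255236536262094514434267227693982485019914408864131849978290153059070767576395349870270002654092053889512856866670608649526935336141980520071487540748307945514148623839344540548886405827604352381744546223062659554727193606477717056452092068599918718417603433522464537461487375629356297209009619217249333114028088672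9699560047120657743643887619681759802023172654605554257221503483281444623958540505337236045223108225548015550152987865065350382386767413402475299811734157302730923230101694845132718165267059991954850651213403999774479643304913762701355370815678262645865077120549422972566453294053625579667481553704651203101804409005343695924387398349217917554890515038745730298926973504057090207895750998857354478010254545335046405961158574937828901602808418715340777497251206581257939356315461071075368619890359019169371073067915703429736241861666611952816968818488441207730856625375726200876441208660972864571453703436884650006247008889622339466634831804521515007263894144787106833007278234514574834172374832564719807061100444869683521645386162812428999892570009591221921065029941265826007331318721969644566652003344815452474301393133594097845328914844848015129418188538924449011099815724856108495515742077845995350512774292853831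0905521168559083766278669470884486737355159942095920779708880540194681485192560412014186376171899987189768800720653339360800064126324816830165277354794370305815746138203430181602090779277874147207248736557866948561638833768391523919953278452910907049740893000937984288060149400888166265392082043221853666719333842652036013953575950854741378342328568312700220774203564018819280189325155438645613451765054386874136182225591145547301391941258756424815565133384139083065448879710259686961315231655828668988410795112239451664923123144944759719164381019930985355894296538504065970063025153348818126265469092878174199058258843647133054758715103209948606109337068696419000841350416574172112511145141695836821647601626180981120559672477600864872194452139766927441810022150710811978581298589901745675556906199170464840758658394014444031055408976381057365397092939568920318405268163366950072511806390046477455581794539455410467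7375606530768994608441081786107827988947465670568209176870169853373466110735984927894960721393724698181757178602917791187345248976792569965498437019847385777278899764410324736256885524969877882382887245479256757438950413841606637440713622810015506081046693826727890837153039605111646190293387960015245440687640040307369558173834250921010206352483759212552221167907115819167816740566528084270863628779980122641966265904264855341105525249466866271340849352590048314634660839303966585098129903821625432713720155592987188970820412663795910813683241119728004700737678362357152577443960871948843546903844631870747813761593376360695342795759834884172926290029634427688149196285216097742811811991072914514808635978532843227009552894384268624590788666737473723141919817883447852419849793974619793492509599061262680778394177840449756130050108489951935351512500397910043866933512715220016513268817632185096853953125243352678868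8045411547561120022367128302218740347724253402318275199912137224670495754367322531831356406632658262676124916427821763520155243071721124892433886733248284038625569110201324654694851221832585432218363906056276261518059343024920475616471902932571742567657180237718053705323504665904548029712362701649420700189040216216885598960352971414644334899943705956915165372659817088704229606928050904065635350160171636550396669266555131894832205486568255189527625795009598691346318856873887399370532944812764025823988484186543614501105638340297451112904546508414238277785944442800640105498502111397935904785769647251540004601977782884101007822438761217709798396308167846522022199348422338499716970395785849974295271636854349508192545505543141880892888304577830033700381809799731082890578631374061558098569968212419900707131646747534226568246698331531796290796262249950543452241031048384596590784658736104208698356657076373646763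3807110223944784267511368574256938397500866644349520295093923569743615560417279013228094496913661810167465419410976491311103183609021862263103600566963117898472165317672711477343481602426182395434402426206225051917120717762651847358166098292768766898386931368305540424598047988655514743222073032058351652903186100754611949941827635243920728006512425114581644704516725117866885018769634682576930437611329597535303690299136167308827870146262065586220574580960276860690018547872446156070000267359517185062930806324120983756139056419824433511862055468214901478238797018492616271277124918646418544454352918123838273870884480323665740619266722081293319229970274345780128860983729211246274134365169698936880743788985958972326795144827281981052263865133152849605231317656918421701295706179466487123128282792440026932454486960578669803204836061414501796074655579183768345660911954253679409586826317819413542073563692546664081503673125700249640249079428264766427464823478170587065900582512029688359340736594287459945570258247079412735894997382527792253434571939672965657362657896831143642868045838838320561921562771571905092303461019549696)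

noncomputable def rc1 : Nat := (nat_lit 9966828472846983075517576270869638145242387172107082007821078154283964044492944459251105480934030680314538782729173548576066799863115693312803554976311327520880551080822294508361349678029142897502700709839561904340516162062452490785883566029679541417665974854196498726843686500316813732706884864959718371454403949207562265289185793133745186573689719917364403469993155073381481344160984443790203539203058427547116460884948774389601338989256806610767519734125920785833099854835925934815535120659507979821531062729733673928449600627368862857907129062703522085222108374600487551837565567747779590446612695768112301755216781123091939475239562461620785141684010477311203882339080043391564051922075605947483313899787075047191576673037985944991611276977538696607394047576318195504871274681446156280493412321919190206351321774897132193767761490083282635631183954546655413136789534465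1233309934511918633813253149043079788387431429610164220741152912206097781848606289727251843599950850212482401465966871537071200171960964599001277685759547774153925842537534300221009898859401596690162651461150547931596505372748150822159000734882594628128461926273328055073586787114088145444997215147298725838558057770282164660140750341616959991283278459517234676115078876367288759914829093876324132098915855104773162922722010468163959011948723042155969238637783977460476551360134267281135177447095896867625947344052490004608094623609777218300552936822252060944767389783754610718149871471644760712734293099696705993912125962598552185424562527036371782344629374669525409375634619616004040578581671610390232680081628919427212333365914909620053022424988444520126687921319549117547031999808481170642196599407128761318736557267451050411488185004091273102696315162736828083927466580150254726874481245800004129126667372175186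2724436348938018180632564863488979375218028600756400203805920855507289728658623463155680255429257634080242865796445472867312679006247439649177558258612090275030134235479086528483306846958224648486776557931990077883103201454241195455182364089044824199670359294874591273386082506957595679694877064798767525776191691406109252573130720037211597527926954580602681146918522863386867486871389012613156432864108346496911650996962380908781514510502322860483107679482078988595219496790866232840460696665132188731192636585055851310556804765108342526975248036713532335921007864670840340357683143148825067640600740270899604681767938267821732594058523380488695243288960262690646139496406972936937706992382166698012795105891048229261597435242409904198932927198037545029547482130486051107058098227849551390154571700335687195474695918869450361216311892656405286329060259842388296825695739050294801154424742374601919764617276328091453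8517930634415760868758046618305380249001719065137776418838539334715497353292896089528643219337236908863647023758633317608929495096362685469607441492826198491773510826245124696978019916349307185661437803813476566379196566834982036424812561098043404471592741137476120991285089960137625658829812027634100118273850876183629901685941973113388166070160585929940050101046445696486489668758558260175119536098666859216627945436264795662719295021132886545724240102581975858160250004565455479934725576846249965319646471447540576348868147511723840298272840446217295176195250510272859472337987162882434155511892431852640047233395940832562734163461175235858900767034664445352691093847595053912196201436004970268041715114213999887582394630744652633415959094942596369279794823662946353947078541338517897362725530984248193978375640068720465527460344224960567973576325523425530616406568224498639424833016510681947003761615615462361578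4256394581016389209464634271038638283385503039208614137447421691290928942976504916969313958863336662057684608065048873209837367773061179940761870588820646707345256868900527705183331869073265385810924306972011922402425376736531617240676404947256415814605408081320269157474835618397874589186310271752946875544681840330977396821518575248286118647481755800911827400965872313487995480312628952592026526441602166102555628576043983321179207064049646162714984121475245337172956500769169805853429209709227802389928658747006334514057881106626552668149116619053354387170369606002317404501667761186030721045154242119943800615560467703786176046284990643700469073030671450970019650732486729526132824482042493814446615755057548024904069729297175239061272644809502681160954232988328720171821454163225394073970326575841293378933089955701401012259096797081858814112630579905108360651044562318911914393567999857802949360142222981499501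1153936969927631268537414084352321978392746866694941408053515653792414017706913287836727252818679642911500856385875731558204309955556722807205262736766439936318840132958453060005528700325693152455882785830949817914677121202505743699522170063645300848330092299928484155436100956565906042800488441303725522530547267920902799220786520519975315663457702048593106820705531889568307301579259225476390293778391345785337678553181628352259000928604501641181077123244455336112222016278785531964704663900473734989226257690806310171130404242360331636526944274387888372331849690097936206934232452170181082136577796976529945008866321719436543900173326719836091131105763164297588982319950073167257420756497198963444624144408442937869367249462713473732871553903822638104952341942792695619925764793024104310878522518140833790759238035926390562664678572612849251205308371896955288438616421668848006236602698472097110060573944814760012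8033602008833074355251392510357524801975066355387634754828481772798969937709183504897085008338600214585588033140792254838790177285575066499827180511948097321311103224661920939877210632037787314573692229208089914319875594234064762063890143980130030438452125163818381984620079421775383900732113353908058590794107388622787398103415062249277324263809222741158466775643745510061595707024009155796053008696692617154043202321182622206593473006884810372654109541986626663790727694399413199658347196469450038317853388863191642282543578576106597248234341969057410300797922585860614232984941784949881893549749078196504712707021682369993054788187243616733391423377468473030934645446254527971715674820217640773104527751790499941471646399247862005987613940682932804298167220431152726046138593783341198845108988742010416447428693043460037448258247621096353442296261313480289080988115594772080112479108482852744543950271634824750961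7279673732618675283121390166499980298722873754392836587098627534144322490795374298709562216648569373117806612336573604824936856243578780962009464125483349313912770777730685903697334288079295556763441638612312868645121967959163744174260308693458877256668119441631587629034612136542910787924735187198363794240223734855770461607102214162278432176431711031013308955901930606604387548073242809659500834279311489425856202609016359948125508292731772832733025933628595123922132968446127172448929570011516665496766103974681701659386217594959582511748547459842040132246695573616951784774549150353490486195311101398538125952712524065395970174783741161923640729018041502814100629217387017199820238761383919208150185123345676146964120583501980621481812106019870477461447258767171320864390664888421083362358006465895087576603499637889102047478877661901812609775040872048296074960834728012305672982249628360901580688943798359458162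8258774695753744548670204129563466482535689832933432848826035928411579754372600769063122163167312584558033121210625200779048063400326310650804887248047286007089966927973404436952667419979295756227325460124834926817847132149692532284469614498940236411287858130768666345463222218224552314268482173482142271382227118888254214526210896306258062561616194814377356138376805280053459362038949850715937539169037919289552417098076878444541724730315180145458421053222989785694848062066579248523248771514130838038824032696043959928033960500537951031055059361700144491048834230061473304881724552979896488819157655756837089361793103878709628853135299040430052172048531436283722651544893219196216014773140935973232429294972442838522105485449613681429929905131631155368800021262060299676744655130615812867911116073998572226463193798037996749552009174472901284435708258938047418827563613765891272275491434911684843835764648225303724318006728899718241581627726520317663239541755556281147171655444764587479210543231001720076325371038469039070261958069531820562041759187339171401002213067081897159211121966802323417187980859337138688623666882674688)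

noncomputable def rc2 : Nat := (nat_lit 1019004711318553011939902938032212531246772739436282348073098882123742174258127458294000328810095663287584978745894121470873436143290408082120103234818179065388753844258438531597353133748120520703293091086162314670417123734454038449469453130012924395220587999811624392776043108650855561968921330778694062006744778837756933048203989078788951841052067056678819440430218666018058602776251021595155002124331031133087872839110119673668491995067600860700866691126909044169188027465158871968224298561466217045806708551055674399126716235720067330104943830093824350908754275341817037550678439546501489167304469472011486039019983051564361244567516431620455170921691886721471374544533118944943591714551160267017588049074023472946285391974546167186012072675373841233069259115594839910228956841697682277765478992628509319788147340738609133680142987464410443724896447908239379864431611681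7946141915125449745385704368499525841325514248744656763302449415057670085568722872546128228662651679253185996884301844959921027882524077214598807314108224187342919094711497884536277497487335536737642989248236664689152558187267542365591033811861171444803240630362240317203805981293131224294484677688112531966460719602503121052431239170115277791810691698600997375286205824791357873219013445580217358833707319133065099538930006240688464055765619796121817016023221916959715902660854110777286346631317099699394632018498589009014869376051454562468302386406913148523286514784847476872287707716931640027685441801685565857151197399333718610621135634754764075218794015547465561844578626483373780909634138392853923122836952143055805516370325547338376049098242613792265045069143013907760801381374691766428146795036404628095082247950566572665692677631922673816159672411607075637231092980483399962314248005866872498095343106267007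6735927686191747500879310538235374998968769382845754832885135062489881819911673962286148067858105312424321555784387554424274487315870768175230370047283171775843576825893394505391765855981688309088420370685948040227068021500246318434873475622188561855887320205847445444502184711586738628113071164020530732094509313088834107987961743267926028277633660147731184627478959796505845534676241853305549749658845061079312207092692980809840105939090202664779055568337021518157581040129403961331560413883583567734114724273351238517775185973978796604807312877547201325275606616383248807930476314323838720917792008793568311610113623944392828512668060784004191038292060574049547319209693104128479816239420366026144278357211388831765082701769774388500246222713599648525560021582638521231002472222700490844377101374512286492795713051541002346826783987669908396375401957933215726222653318214582724758319687814846044783750336651950933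5885842536663123643185876331633636790041671220044989687611111040101929225213929654482939871904235031536825541204993090117886593921089392781100972371532622657163964651977516343714106678935568040567186780069801286561131064284036362041200640935284172522019786582357776704508158790820200099609004252894258108184962544273873658459383091483328086747616333462036753429151419507862297261781683795595809241912382744180400028346246389428449679310150855729510263375355050566636711464297027798718753318231441194829905926499531415500698008482263204514217222455394187487760881458348033835011391856581179970646147977822927090646704236354156421673729046561091345618190986539171881858097330374171703839437603632333893913928561109250992115798211821574698598239683301668877708508703209508641864017995595634733866179685139841120665747153345298852294996398363878532326429273062945401375765824899724414390509036510577432547067132781532016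5366633138100256361724654056106027742982615530495875549975849541479097726412429027366241070953768654978919478489062239361691968168892297998784858582672102794056523850301667586573605882578699708130711070288834275565405553922837224223768083810062390824943738704993810438312955383243091983379376362187812660545594838715085016240922011571719070833421928669790028617505780627115125004993650625165670811243873242432732471009599544975424437140989067392657362216225996601410148160749711172204183961893976192702974901146606701384502140047419683534370231765148694778915169905886288153339877174273504053207872051444349791723976494979681396876616073286012247154711799102306692104195847710805854097204239825547814011622330360055949782426475882541175113512709943667426508591917719328419882396559060113397976319708778135863836114123749321127222568461353480104331741490922469930672943375043845816466353581237469542110305814390587073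2091790216636814671744893626736677539530822350269345052034030845032589238181543837336867258195424935697604565555832174681226083997621036858719487532820037505438921824601944341332373693678188990605855415655055781481548804924667996975638813280771779731822727108821679550304036113421515191860385476899114245169208662944644192370181342272478973628545154482939085746395003974965713511132638623850672845283297760347584412476758987791306352457567883544387966194932457608024669996840830660565683474928309494715822536642596949932834254935247858047449220741243698691394270313288038407091130522316304872777552373131978762677542802383302932469448161114552296490837651313658963855829337801916161741037770329259854251754897266099200784171494240588608582022787260600639815646426502677792591408172041641619841316432536027262398535245409098457939344083516771117065912924817126898371037717265696661157288564120713395825254795148510330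8012941951843640947294977802651813900582992597517699686758875145481941848448442376425088974053215557765929285141149033544030452100539471160927273925597452999996407500771287184980005008606318592361339075925123224274883611981066944899297318177749204042988724131924781711087003709429349455998670706769881855687205653901696906123719626118454823956211463346125855993430842551338680995769975569918866245276629732039475127897553170565602808469714555210821614185763961682938852713502371249857351445393256486079402335858831422649532264507222736933810272121311254317283923268290071905976777185187192118641075776494814850620138525414002587761831295757858032312154279132206743028553877185845890476944695378497209822184028889581009493349251217399387410507170606367228012722407194708657498643922468353849149693715305506300112183034402187089189043904848617849195060454932822620732630133072596715453501215666258450878792414084983355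9613605029899074831954962017307640882602679297816622206602407553706498297388912737180911494982822997733705835800170879435320633340512817285228444114878264257306319427056553240476072228200844664393664448149497283580638638644134972641125201384395616249792387052907803559914460418642374775332404683937545669814610445422203828648450360516278287841147886789525596412982794341631823078074863123384124966679176807781645614645104472077835158617747097254087629961956479028957219096334819720244385281924507350683024574563823601102778756770960944135044391672017232403865611209374050576407485251018433380748985816269316482822074641378474481708870958638426169617949935615726462707189132198289256633412167019932153441075865386526401478576153245278320030502120215273776106383472426556651079667134144458465383700256927621634030673415817542530128605301070467066359729862951756171482287520369941640753450395077999231493939826129443306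71832066655711030360400082365803339718850958181483732292271373462516278585314565286657192873492128186110347167676127020596327074687533229393095915402779243334226238261209207796797310093184467239718022163101087971902196660331202060137352379895800814393637946052744325289914257147464762606213076600049707387514697351720502061988892938512833041166436766016078046453714687479022184363217430085675632909504482455174215147623909047345378018542544844255272015499236817728657543327532665059250566070747846576057476827462786391526037277422333007645120391179319169122942856473103375559433775048548787132049218038616683152059919379631574316379482327451389191644451580105090418671296811534233820748853286189652922042007474673926130689857094583373176526192073975384312639503097405724420812314762539064651870875323784257546212094545226672450612411628355361675652312235802560177604886519891050490516980212766489499924200444314548578349236946639124478617138962067865213130804818371975279988782402677867912862403675414854607941483096313146544068718342142778356545653572707569439178220777454169444445538661756482861884197761595808944059556189700096)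

noncomputable def rc3 : Nat := (nat_lit 1042009052940158522683757591801203374761028206402354489694800294711564206600620074619337973250569275738012756172816660869727553856566566242099822203035290945370250851157931603025490455550523459573347247401027585665772697493471941883555668034876517889215535055914513529841527625963794361595211618053190824217085231926243512049530011894058202260317721079995718459306305892719525793627051790865560823426756938969622592483441241489233697215870818593638513328209111105636697853600113216501200752193518503865828824712183650461614008669330809941363081227726361590659424726249695971713157621493986833967463618542685108363868894895334850039802583863938920640194672500167078073368378217620403387324388896046601504385849398411907820015430588302675044610528052191525785209172731014116494526810119034883146402670567067394708491980140914555431520683829468405603071253603157059738268162439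8504662522427458349441993584964724242173229898287243659182496549101155748054893342623430275192439537207451956947135089640985720578919939248284940009705721028264739730153184465418670235163634674332808406323714868303891504638863262295158994865731491672417866178627421768874526845751914185461135114322589456547837471112510625988270470140835367706389632193782226334951231784168527747627804680440648695990133463863282652812243679431164694437285521001936720561383737330347020085667199044152992117034885702582816195183669596666839635862419155028843047883468918700949432854624475217871877440771606005586021390257637383303008113314695382102087972168775097868217300974772846835506089270202825486557822872092411069024795656526057765723567904792379568739328371093429431912091243477277754732483696627955958038134988934254405277893173994658394692775134179030689822945517161737760710797618832337649048824070409596245053801527525335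1429141937226336025106266228212519241730483926035908256940248232295396888236144100850956035575591627794613625227548244698531858061345423038605587928532073036086452594183244650724118598926027933542360599462133259772427115619160997723195144858155817157163961933195643181626995695538366638461453672833723576768063209248660341178631125078965313029368942254681194916262813055135907961561013073261019987327573075135770163197620701717479858803700177609086450691625801367599880619401544613420896309901226376085743465465032046434081584321464171033699203211086198571413143265953902838501807656864098494088765350408315707249348227755327081957417212397823574082287528749866837656893785105364603159899548713749095484948829099370188803784825845707047435941549186333020726829266071866585489907445323335747137350446397787361884066897530108779629329246320169222235916577717909934522088069067009973298394127388237624468782040037739589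8603926227892061331894684078995293235627043066767453078249976770460902992930202141134457678645940740083579015071199271899393434333745075311507212558122135652339413989629936428447056488340829727119379178206590338560819366678505952456821752606572644285523249854508164769802221192507287474132569200347039201325353146567866952234516691424773935242967277237900367258176807917469747308640709302931644451430078982417902378960641659471137972565949531932367584377721338213711272089376292354767922805548502621384929424084049731787535467516786432469039419563146710311028317765954213126894657770997536519209395095026463964391940363814255425385026843645309173834504589574586894253777326946738539589448005184585253885192973376303713733620517175984955863053538137945691017817569632127079284252622410072181759010293543273653082351846334498644380750936209156995096951662851597888486158608518760252164017265566923363227463918630848669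2847847826025943162713891108670865514233293012425083397209693315250104647062220001321770738766784287338315915155754585089534853093033049209436179603816546085455729245584312292521687669939554672657653148637226139542406000070593853499651013871630165171928622343194693201910625841503151757757463600620857572756642722460478771472089261272787641036655125993441012365100613201616371768777077792212096827993902905249083372705587171311600714316021859427912530200936147073005774786853934715115717816685489815853699175556726021473653824911591635905025987827528924888191204241946388580292532403995175404414777811256819431314576390818046801635620080244308816890497254884340517065033206116724867017433667984650793190460026239432959626342998869215098195635403112862777520690465002771534355437365072808518269989769634767719647519925893218302961900636234528960760337418282117800855085812305368074971319652837731095875704990249013176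3007646185960503064570781062628597578280768542738196696708312132960151684351321589884582192975154406913294674063501003168264326841176322656736346698390978452290472303495747365454480567684916144576789826182181111606429923306718411828549484295276740488785565065388791310164844050570627784452783454016310781223597393301912615518207295599317065970275323604794440456463578450656560567664622300509564957170313565085804307418151549533645860950081115026419955005393560349850683252831418437662056249838624192141012435998766887173726811196592329652397748493965670742474895217211595596883066113805803022677803722938447154619872997109079357292485433154378353592362728251840396086616156712386442343881418607463974332244660087968641019786563493524112577460043315668052589452891446657086829627902768351630306590513587668432023298570943256872668524205073258704244531383319888557714711814746913284823663365381559035313365953124614492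2595659376656822209522722717420192191826210036343757343681287080538372909367135348222584936058034230815366562331392428799579428634737167999934167570634989386019320060568230135920366638597581837945878068612386586552885733201162525533678250350586518666680144007215651675088226912140663910826379567568197992315092420056549268173538989266022201132155940458184428695683983750312199543778093766152313286583098892432327117875590244367779699972637166708093063209349000015752077809022517566122093736195855809422856221890213307860203269554717397934425615979678049569896957366752748127775447504799191209126112162607640612058878771511684645556628757872239897460120646598422124634087953346405487305828452724351700421449301435387220317433162954333938727959440303679591859720882165947459423337730252706529466613389098453940651318045253957241347900575247597365487651230580040886949226547314240408998467634593762911981299302052288383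3473485257709904078460221048808421065341391848890902861034467029263894010466007369092332474232391506578011977007002332863598182097901470438282332086788852957178142040288896786866023728634218399361950171244548535007935423288262129991700292179742174488203971659400684697818738376436179048273854869808984179749811715863202809666063677483242210294490152340921491050587313985959235819698470233738611283887551821135499820005964454305071799233849869763589526092805922330739273759205577841421029050085798090999138534404299451754746471422798176713805512474357856449582864280775365191762025268203218750014840167017113777589595965230138605218826328907339853329717766216321613546004169507571058382310842995332015021913797136755500396172388044489277357178716540610769551037038761926871839063520926761194115562119614458945876007624231212277841325850986215371141162238926838607481217777735009412373324193855953403583228620726376865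45455221239568977303439129890224035139323770239808184647774125345356682862886019166185280904598602040692291231782620055318612985489099357434638907893932286688919924231736388602328293222179373222312699514406767644858284010649506380567191434607464167588594421574282069518209873317022037146985264859590372935096881443821531752522672835003265160471809755684864154815426207438060798065344729149132866609066050681572559799350811821137975305741630273660129688824822125714446117413697663008202080469363443072672611114191638507713373565589223304806565531016285300808361937296045573200007538107687862819560229023985846495190429773389804794610006818454963074845832254790990842971486455291340158923750244610568135269302803176463620788691480138171550118135761906356005898862595638963588013924227845408554288821659197698706072817217546085655429758549774597351573619370017376155145510273318969141047899746077556049883369856991519060197225396577586862793148378176871585222056097504301474635990041104123180812232975353468559530979326469259892324678784760579490357408977675586565214590271731090315691053308009619532038175550431362039281064353988608)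

noncomputable def rc4 : Nat := (nat_lit 1065367869783651521688295014799990274583635514322544707164908793742482940907785672490936345749050288714998768697653564845778914805498764537398841820746566327150206531611248465354432384005686926967774959563827588782985271238785172133974611652893214950447889944508710297594222546679656470135817800415260512327814683051838433705385384313447419975445919699407290551231644519073184274011976876904999663972474687060218094632793519909788977096042234260451326441105341357010853976318051042405696388066544599960738987801283236916843672996843665371942992727608688137857499939565592126680671641425568311713447843007493511513781331777011048126204960462784904697014216092020435000753484287054980912510263018881799892489854471139349708545471308302778673476397107573144381042488782101213937853491530755320315003331849268242406895768329493756751095033258626198772247150520317683276818823831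8709076318863287257127011111920633284224522285245424384622697087226268606668427595953036912007620854553620490014402983491424783515162206385493351982928035070760165637400815615048406453808197710338401627433568506596002760867956712947896723982642698331083936334711876518273735352539991994418933789896611913609887541449440463933959331397099276333372154959609662429490191153961930986730922419352324524096932081769588585450199043437582123721176845058746506217345497039570325077391012726356839395803343650346025006218436115726432695169463744843758756975571442502982021388664631552277807831709623369482588511980021460068937735637505469965213264283746662757458508167767184849495572926946382691460715603097744670871347248003241693637179828803908003265300430564096814899200031934536703980976112573003436747883312707249636131327940079059961161945281503214566094913647370508719646322349378565854996762096668971463579245448470997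7546641767806918366382568821884604188952483021153807827856385197965942187667326504560868869457113760637271692859044638546065886602757878621621434001461694846617023650884175047980393132708949491618072955130333758787693624413694174117607420103496425005532590395421799047530476125536458115165539660485940787553259963157162568333135579503891348479585260728251746877677149598711135266821415371565225127042094387670239324567272742057831873924653346936277286524198700081794554412227182149981472041451007554558877939743468473196848477823839221905360032927883962908452224179379138083574606053700064408909694776190812584494369577394248950748626717425439619661092703647495816482991669409726059051254368585286846761112593003727902116998842817077055540626003998359406927092516412213691187128479365227783329376696438965387496595096817367391089179112212530540373199430373231111652827263074812629624693328228663629305783528973327021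4039977779379338464463441215722169743775834377404843837886416808229279170920867908002135826720053024519563073628329592255280106712519502126701918514257582092139823645174990153083491622221305991861773409670143375366817135891048430955125313185237319024799509018986184594089923689110717425375534979647145984400205530082236892331356368569966339298545969877074399863830049128886236174456206470601738542672854707319082285672240609210733874672493003433250099504817621554850332005923790651680058248764011124744560159914151081489777280010861691649659002478240968470795818027497008922805160327319426389393172240864924138285341379913541301154831420676958904410285537698032596912598501625720018946564466878176927431177667957504252086223769541599765075600511920424083185766424856034739037916141400268790604428960763286296223168717358572844721091385076770567662201717985993772568514474618822585973668352316094805101463277264000335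1085959427339470599912084167581952729739726232088715047737119481779908291909543678803236270013386227157852565158611715194823222526104872588774472631746246658147677035345837778368484912006164416749460312908033850165435930232359860135271359789196397801357026553354373107002335899355670437841828845064738528547992766299018126041966330905557374223521626990319011193844010376660387576107406083078252771186791384734878866315382548555912065616601087028315613258647447777740431306143510978333711197669757249828446421926080921789726329752423112552443287835361142359357629353953793604203457990247982208973823594995405060866384413098349600590189755489714190451612455923163212033614161077547775298975076247768322302882295337993439103580113126561583100921332037890107852330630705670519215999617596247705698614375385513190696675816436213003751497992540179411387637461482108970647265374018036220415640148759533411804496177981856517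1336997306708843942364098234948538630837336778995603336345077420352028592264668277223636810527774770570442232397151889428214296706691371227085740259601142898806532873844938788608861259866088966601512625986578577789882362696681024407110202710318094104475889981928693698259081948725974555239762192136637153738682707578068794953325068674984724810945767782650107964498660567840411247639765660227066016903759516103406148398284012079321876469489597434434901457770441086176487933768203261668256243595362749021026204643861249835703481444522815649781162069038325870433906184805283674041122019822609092260457846749731010181271070070332686441327436630369926061789882191915073695962324053143593299154164888705147782056624198182833414627062931829944078289046160278978814364631003833522048399324590686096112543590581011863587983664848774719985001068490976281028604277546188765151729652190006557748497130994676984241111566991281298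3129813843686338188241365919349963186600877478906728003364918236148114202765525353327465057918412014450771786579179693249563282841354043890233906069139321486652422699077795173277110251385990991131253797594934478939150644251282062875143480552223294254290507602542771852547821928179578170023555565921324346852184605876027248467905822232927562692764914381053125165193615834848647021955456548543254512787928693322188836993434603434668431330022062067353801184492626089950540119591437130688909501858322072317515782016577060952961294240252901447903819968903177513499444638334542116508184395586646553227044275814336241304128670078640144408322109279038878607052918992805288548836216994392418598685462806570964798333264303764941688922907516269893148262791658474405713543131839269490465501313476055729201673269765353540843468553490471933662681922019342631651124691513251706987491216704224822474533575237324790807260123163703087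0637094078031706571224301172616999684324468311544707209909139414703349700140245183640149533902150287374930731826093727155891952360188804822447177755730131688931622331425526516196222403005376626395819380801061950281865170799614307557991133442237171000231919295778388521698672137118173929299098346623351287742934705665833542380965876089398814283858859411343414651651969248794037552649718682229686630536467603225077543728175487305825827003700260867066871549155929514310828984463435871037207490298038064168727572995134275393927458366723405685657915502306984320323626983233554215329524752630894885031777363036813210729010717262414620393752996922833384066685674930272741478626073803022662302838673300641058636648087326718092609863101067417802448000681193156533552948986918030521789499519267081357483389797470080348008050131057626003558576154047638169523245459255937712917287769246647423224308058390916975324880373181713642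02235642791899421965603637501534313433174443353958719360097698776518908889201220548924818826723561324861560716290684784451209480665978070049749446065512162728034839055743260705668877309362777670558405254059629202575036305267641493503035949304706963847200331489504743479244498036823392093892067267460066657910353869224852588917647693932165608967116252243573235026110160585155318743083792582146042906224202147255741782377344599157981989190003063123863644940634244687817696812660646653177371576727064017414483988694892122773612742904029029791043969899507880196483889082030548644700383931025013230769196409808575991180896046166507052690128573892910672623920679395111936278916703872676661766817915222818138952851483673984927614513084172981283964523186782705715120313441344080549395888043396329371051246849984040576152215882868313436572788819550079820330819972226599980813591524537647156330878277572657104039767957853403484477458617703323591721341241422826207661502638101503217139085119473429330209847686353865680421438729907997225828366654576843293688607620355482209037168051963022456546854776393323055565744743786903001279012269981696)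

noncomputable def rc5 : Nat := (nat_lit 1088837123828478939218078344076538585416095865646013329175582194355004031411860741150078835264318426250057924987756614132452051775918830880357567028366833493979960430463129768258597936162864503034588362614734798578017868657888414317112153164992669818954160482331076153623619076960524087466683975401486266500315290239412948530207428134429320755904602265911118701816441816510866689470177384872707028461576799612074680259669204461865759564514323209581492070241792502394871805190144237872015912209401314054849647744057116246951742819215763640481540192853828815725879122837905550795197323651939423048602180627182130754677962834532787939663227457954360397206707900375345125830652380548666568205104405273880507539599108772529918812188057958797354962451269402302800943627017118863225352607320555894066826425511789633841433117415135312563060587486210913183639349667578435384048312185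6015107738769948263805728704125932278850752951924869472178520013509504440843069718093396843893476056887889840802920106756136591176719810046868367892894953780371795172017790625582612860114809502560687230564455419911204883744159438555513914453712547661218536037948966177453134511418288487915343770554347724451131802386636924321073755526293924309865921241696830907303988466971802817252225521047813232947097109010984251920079202376314891851503784359114732659541637693865332021614037747175858852886073165920178858429393299242484158201969996227847294832939004315367900264316588292961502856314199176981366325918750504761969156168776337642366322681175253479319886623660178291443623023681081598570563960674783053681347428988148259544543910062669388839735254717158244544047705199440997988015237360995822075249883350008152470484428492494401891598882665848905604219880245158302999564330384703629611855703963936213461341949368366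8594735082029261358949639585928852741349352153954550151183851455165241607246060175552000502000759694106796676174848136555934743933483432982693219134721048995717475400966236364060224410025637440623289544388113585779796637230121180137024464694114185857938760327888037370181930693027257642811673653602019418010300787326244073877350314263481242432116786121207567758317968442336485021781763312173536240689390898843914964250967537050536617107118148453119686936190802225628531800400375347939163393118405296151975962808358202988667738334102187446560549659730522535364173623943811555704924061339124026744912575087690198636666663187792586490985616102884409810037634217903631682270507335129180360633815513498906981972040065931694552883025638033386646989459616161619402138836347231616368972993980502740322833855642887404377695086499911806274855129591680325427652299640933969566953197650313466546320778750374561982456607187846267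2482753059364172472802367341431499966673807665927372289105895701050491936547284381292675117347754429241990492483500542321161944365447876571360002564050265837337036623753435423514858935323550262051167669198970955874479528747903146903396042507257852033470726383177037343293007320845638893100744322675580877682426098891847628429925781970725700818131778849527501272022421534908711630049432767957088848276980781466588775487668405587146373915204384568214769326376595567637015598957069614210406520982404112424305944022100905559485284752394893406452380196073491170566468703503169538337088472867885576199407076436396028549524261333990738940159770460374355667092017136126516450035419406036846845766504853916688297529362900824982910358818323319127089421953360155370871331497636251331648653009110038477785241054420081276964725161169779347114961290988259198227127539400957022522626560316610997011934592263353026578951765117852979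5570211895957068637399995821375974947283307841717356693381197708554646575662528120649342152735405909551231997214452580550980700847796031592495901252499011566713856981196719662284187815890343746359286623007633113679862508180080114707651917717103574603504523278753980515822600733849626806818615711918400935485657121976524035483157886681441094339945648794340463724714085820026518772684952293044068312916233811154529716910629279547790089896668242888138404400919429882320370062733494827067714879059650754944346573855706155133260272505202920685430786521089414863806843457849445459611251339071823743844881529615593153119239423681950344052121275830691519125791658999593027967225530029079936609029640597246605878194441606624673474880335700906520864283995238680246921351443584000702735957609435734920201372165812518044802074564515729601349837374270581406400925207870546038240428376830963673522164347874560742940812318636534677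3108121994654515669049840851198579274590678162330266547223694702694173460297494775308780551161433056462707964712916404256816876814572701650646871134761732093257851259510138897822370401633558996223207411388292376287501971122569637265721749796803573336990710603943395170137364649415250046372248840683947809413137491499168974446121343987679517284014640912301076925713806108189269875920527251392926850443674927529124782441860594730445403601035658428647774166222413145582571071680684921303173399731130625621755889564854744348515930782465151275308459748331947911938420607774736141112452666089609338454718257584171728666045190210426404848740047777140465132206423948049993122553324622500640752631292952037508466520483653493870382126599169609093054882391537140005526204699696226822934516166897073127510380594008875535295081001265865262896064154073750486723119788478449320471360280183405372007061914433158332804168814295724320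8166106400610764421939223403267442532414453343647519020475914123592829437189852931606222993767936986034884702866867567383385376838613483512721815028760947248914989532041435662889572367486288476164876625482790872708301385293486021334245664163903531731594346514178413401108573212334544043049943193990248181422586120434967083442898362449575759837353169988684281316835309666240898691802464492097286325340008564726942867953232111151761725320282481417407782981880006347508512061291889008972757593983273670419407139537576125753106597433560821305229061508522253275843299141631753894286356279357878909166900962541257421434407201748756211487607990885145770188748201844651998353651666403123133431102774341930387964190581156934582117234785627275153389703186734998092821739686791126732602969534889166082995657783094905429582302637125879735625221522826980055443892756963168668079880354120051842352012219186350939062059541742495780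2038512507306045552066365040143276221409287302325096914726180889754968907262093925847695944159231154348785328206567422989122704537291024464382018843015005596875335489057612673924474297273124108794823802527977882183871246499029416416642670239375650877183092987904018859455474390600079876137659731931966259510601531986960366465630675039800906643487000195747520891552688487473690122063319995423028604855966395719017111700703218015854552303693301264312341868480676054232676435392389099574426858185121640231389772992363859500143113599515584538525786566118629170450228350483729096700391551458416278948591296161456345434634227489151918422803641490900395369063218395926027696939144555160899306882576152948299839880920865836272659069521500183475146774820633353858224156731329033936435356055307107801242483353325704443082007806911498120566652030648737845468053143008852028580855358858811958619068742245795246401091695330337569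91432324018557658350594106396024475462469491628443529096951801288008402651499574784031761888428574046976067939639683608156004463497593532440825291300953405997458506954991438561755746370248498869164218799405487264710396445557379710879210188654078789778184021464765590358102373639297385022683223322208351986016971521660283998468737133333471589595661503141686197564434868511762720888282940827663180560231730453887331508498690933560035452874639856460112884139589552067859949819619325959940532098833692948645127936453521612810334785868374051769766491145594152865592030432607568378200032790349739071502253276654740333633024764531390704054150398193638906549326818053293617380863244012447793734006268650408228906364832638644295783488085523118183160568714861072987991720014599803060100971336878316314464987292754761252278037387270080900644375251756823195703606507789389429420792766099511806298914877454970054903506738102556495038464681380888181005319689632776431081802289222183351880870919592854637650289234848636324260485905880022705774190553210325014959595273976158637595334896880432900973604560525744534760576654036793147893410118500352)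

noncomputable def rc6 : Nat := (nat_lit 1112239725238452071943495497256633508109998841330181034683403637508090924792516791242732654492347729616308382794110477344746923784831522017665158435221518202948738643943230116902041469310577894281896966964579615039050925665301465958618663831389201367299133596673042361686414990449614484316984656941278750872043119563724228271170526666609822040932441823675134260387939190765297294515324121649829341467028687118783983424718775514762053782554030464153681737370284082489422935215962394896455011931015422031602631920304375827235225988869563337679467622077212972865437080188798538514259471594584474612441075758428125086981938885295943170246752000073641235781944104318574166896668269020948877861226062925881000194201251049130527691690331213886466984625480024193876242929169614621789109719799847203683363487264607007820422543215423509866279090171351650764593250730765086169018788633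0213599013511898955415320017875361503833561713002171772922209046920821644624804332615793237898887029831178397439924761617671471792799863839892853624299929478240044417438659532926237820252597825198001395319118265867662338797244134642923913123864872598617212099656620118514446102637352983126396284532267109176511901577773045207049377464433498749942183816032824526796474428350831511642432954979252606750392828157318666311749922207458617852966816097462934889043610301509181045545158068509366037404299517310596574871888217598438657489190235439889175705694862811349843256829023910908033969141982845885915738844942790877921361341196283937640170131880839010268062836919404553055172077866109401312742854891940721199817377146368625722420854786240931231497674922493519953891131924722492733541161015440624009805593796118890213557992714079677396594321395918306971496323377536660014863299755746704523024984276939666387505650769529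2316749860034835504297007435052210743166478621378723524927842474179960970090537945772463822654242178790653851576703057282138417276651865497412386996676541248340364985171703442441016764051429052273374980342989608920860211583299967690261351110445989399824085668273817626495826479178945318156007708747299559174510689441864942796547655494048077693822638436447318370500896629635608931410380649845548797859522569781696895304118122291563566314835106301307305130228942753668716388494377513266486874693347488520230083283107248805143814110031572316901888480947507285297989141638711162542014148335841921552604125952168222583025962593027947536125410012299531143300915031986758673781853443462929057731205311392558870036189507060775955518272290350261962473288359840005190888162323935419275751547391132829706453478772308268286120246131418036961968804177266162978731565700650540520777452941897258091439135311448902895038692322265375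6840154744500261767559930324688226755011503689228522419880666563920581412719963967910566596387364790988976115471343688855988993536584725332782272914947299362252651048472548907316415031037496835456287594803859206910983971205588549259154721396183807514506939280836146602903570818203767238019371273391201070078706977302351381840684827059180429737639368346151321869206867987063148434352202459874421705453899053996452344953007084283626899135016723120578609265109664364228855897656351798349451430583864411040981725219738338775899867207325846117054854186449566207458793188088409355501417054090649503156498230871291382130357709749062653796025459878389176787404767243458840969545864702188419279024816991011877709587797076173279008071503169676697094554852334130314384223324897567450983137516270211142282360918028599136289925370862573344209166912894453533283945644474949601821983320908456970972310683391011306379901875735187092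5812000936248843611821745247180608735123389006788857544400357062864041741724132521752259714307942264643724591821495319685937809174619355777183170107392810501674936102612947094213348493343285186589034125551729141581268211272337669561629051548434528790595823974379071941979968521518375359593365237617448912029196425390380620117883262792101999856503686411079359630678827658054048142635115579282535052015170750210079381201022149340823015526046034394337865545829920884949152151281650912298068185441450837133840762748115065116850736353712241770684841825363104496080628249997895628728266588507170326474329387256757256201150867841590496993016296179286750087955334432860603264552973398468732183522549161010358370024255844232994626389757172392772358410882834164223083481235413856960465656729045550677059434556461491889623591200038518414209493596308210303608408369916416067330172753167639547202056815696148979220536515785850895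4298390634041340196066453380368355492611064074651672244223271189174289875344410157264535042871674929837320953496813136335313393820064971294962514544953435863457820852662314450642870462480043566322739385739910778578890952778960273511294049698228239757179551146566281008139725235927014053058416448636964266062006729075140088098686540486633431703899465953694730507517620714687568336059584835089784841750148140271591261999501282381980386246930238106659780507826337838592085079243642424339970081080858527946077506138356679756286643277871374036140448962336386356909929995138004058959422668505618298577879289772443256967171193292641867825117037393540977171922075404439412700718003750803082028149460539402971262992064520919537152985897111680960258083370640336502468955381813965423808685392671691034829892032123469260540969520334873844797422013104461890104878177172331107199284594501113517240342326385551644970844410630601141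5754897558753205003178167146512433348292921119874220262645092113276756835458682464290413396737225256758789270566672547360293477640009673242982115407463464609799339391894994060508310748482263965232870421820451893674615362535474865127507102247573451945334706968615201271899265959028199762067632594025167722663142083777300577049926967937053800088435297369054359101138605011809601420550401185058110836652090012076022980533324499343016444864150091763203151474500751997815308572309972331607074261568990494256720644518366551752253396316382308798065517078032154332344575194717609104039732632151756396567201450757228839506251314401826477857063196217026940613848986744522143960803866441594833550180658071290001588997012593967384646519078128047744118566687391041668275634673093794563137733823066131725554901772538759744285823528731437060785642458146553773961908284015335282954456462995379514586698885590617147781174216409062006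3218944308909096081867413186456915728955185656856987032074821527592194979187039172837741594706583817066551370778928720006802737566722823286002636953554730485369251635878098321885439654901242142937667753616030267693864744646669207003722421383949444247626831011168607237006979739309628128030429183744179494607994078346881568855123784446691864443354852010796152189085599519992969351749545351827534070332001643573037450518058888720840874852907919181936275351569717962096536360323370681146782918566105205954263804271142124983538502165306047102696910828961860883091964515965153108441590890938291923650173840109902509148020572549998611718684042611426621980180961705783020625557742361649273059079402428882069657195593218509813524190038850842099986439225326977193772945581558490303840166851112498894769262553834801419844711998769938362670720732364930529281020980876092918932904979018975978812565612469617216032975779020818942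79434043964925017313185012820193803863731460161140373868527537298148063929378838636327542380604234338305286181312586787449027719452218827570986540143567160900991150421396994657814961286016891668051165748005628431705018834773793861764424439331083991796411296650735089230343332882284142698429710573942684301664598528583638450436170637069385131073810825251591132711307059820160820914571216634184199426887091743488837743628835053108396540670554039298014250976029467715823639249147810410491924531075240350258473724841915014827162010412143287297098245267570382925822114617284612894812170525759892298919448529205897436130514287366276412033713166478325083161520651018701616147980908567318364253862534183256341376524189959782540276668278113709117196376032879109036086864897933588565736094419441369247212643211856287399698715768746687688101417315476254672477288479804641065949769866625162874516503553551568609279070401685136238141574895609932637335891000351203018428491103652302688538521676961602610540719540127857078475103001916118202727788621908896038299730596636332636751969349983343198010292160272308516848417899279223395206042570719232)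

noncomputable def rc7 : Nat := (nat_lit 1135438008102723683658716757624043097970867515443862660259441228399126647385231527198191928645267617294389443582790556162022390144809288654781866628050752226239836007334034189700574757177457285539826208358142610092977547160956686430770613292228088550336194035414428420794121314840988636025359962280298791859759357144880771817245974723850232260332512361746061485834582004723062193241766909498224430487558527206815736256952884060055919914462791193939026219816434886419639410852812515117166965993832752985655583021171531298204693395275483339505102666196674201290336001958107380207201452124902446640458997280613819013632651318118101897160827107055897249305196358005085522198594735945845178286005406934432398031052014485838630767471145587092487178047144362679018831893327511478774726387892322317788073614540662815357059711370673054393142270684993839745424879421871361045341021205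6117437102877742947770161056424285918008193992104590887561077153460382170569606698709998317948062341384553302404601039593038592085648008955900150618796986308802393253003645795235246919431662985079602431581190459065279737416984572293665794157257703920210707705849806219752940714997971169923441017691990429933224403546744112355031822021764755157370521376455751033273377739818465444157113493576751925031756441453642693516426506482590904066870738874828714548510830094440298021779240418768919724837913051058581755709892719886501596931889796126261464303319181650549889088929863268158978139758174330728096268000336993818582104924356295574852294430272066015390854443011394172047356363628189473157329811099565027015175693125804416108102426608469956187357102395801125826205569416677601005388579449067426802480463194836711404232333857969401208793730910133776177527638398984817015506548281532275534264931372006604679770820375057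1370782312460735327771982736360281873309116757450842592492392037530779941212180075628124876356930602021655949649734607771869863484191750581796252159340754316175122703749824645155992582991770568611831558371658401590046094339412086692469603541289302157091907572864199389406016760788566389579703383745299058847963617604403621041951276196840946664977207299953768044505317966807374624945313913247314382888873737310470735057117905070684735493921322213753974763529657098682025263573231725508145204458831090471260805764021975024966491450949626880431406963563589748358725304838492535900166017811645454546716626355744619411877386653229601644641723545382018348648404497592158870668632278858317746955728164764951456892286340416664298936339105795804323965760392788679143989506581221845259220295640261502366539522337479185939549138705909005020136394432146945118675275123555121418401955537376428262814662461163504927189839994079344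4942234036563565255432174012257427901958612269934278546047345571806267997707930617776993242542384590442337606251669999882351677199489677676272662371200607211836772487752396777066862766130386585176027514608540868813771120032737962312272767368301735460743645779793047842091776758640447956445094196387841924007916641428119206040292900205417574654868393900483817319336027225688068071692336648096410392782973216749614816361514809689218409050763445181017087490047295696623684445234811720270687802981604115137120206170690892087972355820077237141736419725167419559840401131476640320992864627293722640795537712878885291155360069742881602875505458803768248470611312613959279481841992222938480858636877325164418052089049176681738470078218784316976773218039584576397257389265407841756254579913669792139531397430252071622566129215778057513613481618468185130355119378202349522948114536194795754349306473029022048171926376800733934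2101451608595613324193370959337515755481515169334067501292216377989573459440062781121586813805269479301228014779633274052046583540072596994661224026665066461467447552396152217255038719538553212464490400184903755931029840846584946040686012157241282709687751306147955948083168436970784398916844962609176983243690228498949090379460104245504544611947265595858371813403890935673758939078918104706145527311612519458566757999046848197616564413316825719615261967501996637704568877665455443624732922360878751837593632500825716217491480663879509536967487867188149977913190664196101818528680407965583441112662358888678727997541409163447929224394438424657419896328146419947848964574091722866367057105717889889781663516353749972906606948212129260095252505729815572727575578088795047047675256825628283464514233910674111636437880490673667498679431458210728327348778607441648610932597007702751687938943624716992767305525506188266185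7245354104143181452651184108348705181185061902655468812424464818738203063362117119460172599581167637251379083369410270998969515613418000488182013372649962567271472879001826219323266660827707198559949381722835821110523477038769877464159944832722879756977349142208529096494726328660307988297238486183415369748705352036491661289497207506130431609653381277759091461367408535556645617220744856343415472390436925210239904329152593337985247688970695517029877221404162461414220647974597446985183916091158286652927969793934731746268267973182925152889555109881871434656943817970142537231069049076704850578095111620593906210483139768802860311832961814422384309682858122655477794778102259560203357392395516905794049270835955398296558120933101455053114427581419682290667599111728716744346087116379461881537494408115541173121702623211911664550666682153785230660586529381733352510462231933798863961340160420725844854201233244480521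9186116990725961363072347677051535446253428696788635839781842931441664314572008631133294727343932902660519076731365957567642788370793246691168648783111765294772479493320618702474203613841032824505614424457981767415788121904466027456982164582148218399484914992206517317124881683712087198379708667528515068692675610594634444984077360512822039702232120997772715595495965587699825471028418430557521003203188569314294929382283691927394959849591762243076624113273954232206586997154702734954544167460631767639781796779662428774398024651865719104146466875774933894423197003429464166871821586069036244849069416560344699943553644803592824085194573311213205727732180894714914501766784284491779811913728549084415771349826292826011509253107913205859151229578633102048573847734405916436726680828065100804095212138311533716461796920243235056680247613959561571715096169229571036321793148640895227386423638982190794782531285257523025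6316960586813413653272884623906820690234188573742845417057190421345508133988134760019895262682586150445051489736969348733094540461076676159072563928083577905593465367688645163593533574220729743295254079908340455008476835176058459568326929146406586565148498904709947042023871509102225993575166997254714259448262936575881520109442517818719548413231735014581714743181174411112567592545132109345535937452019929462936696600254901098875848795156435265908306246823564888538528105777135356956823963087226165254277008193398467303737415020955577863371915010467693034239855342864157775225661783365577818987525751496587845523893212824477429138510281966185985232475266766127896141049258302073635500896390080846720311886305273520797983507461817768020982759576640333036165558999674793665459257566919321488240979192998245496617308323471053993975553470531559809038400972064533657189083257666489063824115882055094521429306516901910243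32925256083176975223507258851112105426493260634055473090104790421367863358700909350462219938318389057337788379268813103341508983993559844075362668238511834442414119170244864399059956805547035741341550812064059437181257915007582671039470393205116644553243785073788503498612791466036684702722875955012410057278064819031857210148100084016791935697150814713058065756661917442870167167112567781177511279615081660660417663062977431012407834012906879623311216203281628077863635484773721030682620135549805864284345973449782429892530472392865864952980050508423560389387641351696040674508523343723050118611492150101782649599490081257458767875735505008332552421544366012808885983006092086754368255816131868205213644925659581907656184097439000661086324701871853203051308343715820953774812712924634165070102258867193257660190898413148688753495282031329349455066529204995855764208119994421802018579479944780872728715851569148549625942957860901026622450749793910090900658743007636601176785338352785637980569755980577625891187705019879461245682162930860748824773465726563803192068102347802485787329102758465028748188033974941246426260413186310144)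

noncomputable def rc8 : Nat := (nat_lit 1158320253457474637679151978375659117369750653733807355256307593170470719906058199100046641160863248814833110545318134778459326752982435578139700016560942946337615548740513759710159293968904704944969405453868228661121189689127867045094982743377145506014499623322446689537865811517282230958165808141447882125007839825389592177610594100511641825094054606813219921364193644824868187146039260928117104994342955292019359498694484315542714298056469748330599308699236859220940275215288824525412290438092188149263954705207704563022761657717464071523810799032836866383541407668890622589737866586353021925974916539889623858110545860363233896003504278309652720192663598021415182579560845567375912518598400994445104440444471622820303309401742307660257710497601731747305190695713526654024003498578772334103954257545667556184963605343271029326613272875112723188124027306621497160426642764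4447083119419259702975532350549016646551678424316609016527887668530410360573383197330597217921789037549385045003268734348832992975735741281075591205954234173176014497837505305578722577635985740173484179238369567874342942044128558443248877451314352512345175541614515607335328972964567065844182567149390251674284432444027443163031190396298214188925342124634960431606855810129736011420144121315076136432730169469950445337307549699962734803282223813664981279151819474654708325832770303369164301802220652621923634239863907140599103462564175168819875755273827540212518321953291759502370071230854538713622263420084399639163690867180730901795031389447849124912501417845482359841009365441454988047290238809994027821409557510620360610966911983697745024322686506344531233044624218478363938443086846451279134422032729692506116196790620076030389525640460614622787740395460204559191251144211620222603000300343671477390269110990770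0617652117966888073634214613435682893528244807153122642886828978245071076271401983925664311076706241469038598975123578489544076831021169080568568839304306158141112712510570325954439167068693697739649531913456604499528452112044480032995618543460878634981338615731496063171529179249260941749071460507921601236336470143844614677735269767070883153248147004617328621235693759319851276477576980864228944611510661768467659507811379498898451431956472230689601715650166410616603937786364185024057759173068521827738409889425421372737607030626764039417786036471656340995892937450008198976018486693949004642139602828069028786240964146338135982728208454290992331218667414750295992612848576455673342641957121840460747253463060828461409729377701652135286055087857412433890067981928306758084761748759102448642456765407698905365518865484348470975755076319848188728310452581259856664744146318160877842757738181829141659985346318049505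0946127571183980832255952523019130090457396281602174322096573217567083051924538263638204513946523367858292184004930554926454678317895737665363498238371790905201725699902340920571224051851033190095349554151378039822917602929844598832325120152234433639326268874780049381890860131284310937052871987220999783081904899752142096597846534469919907462327363474156277004273195550922120108307897510831399390570522070162208144455281149876793467378312343039959680358794010390825146035415444476586010872197342223466882953872614577352487509635485312694115186113826167937652425124541847303228108221360933733411024100625009719582951058717959713058088162114094477740910438715560759947104356774423646268566294366320119769241591123728087368148355465783487961708660952166493196917973960192963403841593201184979215625212836182009372760518907165550605954079094429758905502479148683110523362823826394523746189556266743463832874170023936037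1585457477051671292059920346009831301451542987647166099452726002326991432474161033417342319226259599834893636599066252762337952350631361243338181880092634852513998012835571712697105173703467541590821472476929055787852677805528111118773097943210874692811224493457605599695746806673860854519186922017310699301305355083507632931829059119368564278028923462729590272793985916070951593088132825631774786915471747463616497678203631023783905939286983460108913238887338003644756890216735210936923358467687151914117344089165848416774580051999965738890221005482240347811749527972092422277455451714805218904000163421404050048005343095561248765861310413005749566950093935219476911631918631552453434422882315631140051148536018750847734513995617457722424062921127633010952115618524755628372875489982006055984264354660750803093187441772717657326566764926272133937685847221383534011688276651443126337409438472706989359933157421233459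1362616047794737489832364073117535567831141835288181971818483663351559551039285760104286209077937030888146030937453822713349127484129451455656159443598542518304378632893039235710922380379497947048777743884719056704093541397662648616788735083919257918829514691207152653812681519790430807375012722749918712604769737229599267012756192792688928223409109222891555471404552829643712294491162202858629121910928769291646483079863033168617056157051263522104517930754429940189481199446576471215361997807389177107399697356998757288296963187862746199073994660814589877625127045736880686506636967192509094530430715142884461986154905107260573665293570166356167724674264325720846289815559547806153411689198234352938319520803015438576151508950624624668819350147278515655285402215989966864343569857895345652071375726323785448420964876423431187507523939314926928995720639316288050464172198076830826297088382108435775267654276444317842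6776607664396923008270144490227520869580908929420837927422007480967406363420266893100793059121001217429572239396512017276246803186087368003724847102506275429968132213686063335318547940162285559212591741580770249376063117475039793298946885258829725642478705840261643317450975488075469829021783485000390068587193830892971884391850013730572774469703289803663066621941757369671280936422387466384982466621442417717688860743205282674293638725940828410039297601024556902283898247625952507713202657488443901747972717879939160000999694316430928715586376140394867015184951876130844022526166056960564545412686954096626928641179834096441434957557735782112042821978884333389104217649896975462573121502796768059637158416692587180603742588303389782099985547601599930672456338811849312529324149817876471892214124011969634845357299032783903702313798506134662128020625613314167812569343144477496312452610078415723326500068776124468009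1401054304904553539641640937939280504547371362118710035564857933464279012220256383631195635683658305127757594092010598001769434787665915974984254783123124341245114456264865137756476508852451185635943210449313769335831447538650073766250438261589737801172020046213085603903048033145898531200213969850053874852435447816356940488633466034850578196142459827995464782835694240368451150251803043254956708997405343045173077221519796395781392548685889231100602568684770542969496366806117249079236287650051865349283498600874511822476595794763846346663099301433640218866109961401268118937890367394982009652255147807454019071655229353112288278606080618557751012747292886485979294676323783288624316927783179932110895222188373406738589411830623933432070232257415506777397578746860398801721761003752208326195229092980838154839079717998635127391036473110608742900893444004278021503392893661187489674101347025006729951667266422985038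20496209318876361705886123169629740447048372450356749252741207668850244170020429316279866496678478098393771184727605962802287953793628258443535613800776742587159314526961747433526055327234230557958553535450248698351397934383114036082296515564804489838603084900514162552531875239458434482758741704689694445617633799607020743688131098807060969118317495282370765279692054335270348327085755989232973272333874934131746140970899819628642783717580080140739422745266132083742305963457806796186936349213150273035987826899419888335100995919198703035457511525649045310532094148675850817093018805475091681993447910965029690282096152816526740184899143305711839373842361727427234223008573162177964905575394766784716886634016555165186315181219307722714979871700891059443800592290826045376094250823903974865672048653564094201149588804445499608352078681243889256250135755425105061001220141704747107371101250620406606903154671855848537823922937739766673286402797231176259112034968660719188721528224701261408086419468407786183914423704716877418109998584213182305607221160207421889257290823998811937566550178634801003519579766461868874199345657806848)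

noncomputable def rc9 : Nat := (nat_lit 1180795055673199341436797791721344510322973415197963996392548200598239593769107429768291034244477450561779579209696379427048581981303793956699331172833736349877429702623647660993978716971625656891706901548643175051429641955294743479259903750526909544735310041910450839213168855707216958977064339833666840008998752714451755193730186943472645796118764390775309519525506295851147000997627903457088172539636098585984357289825770843413611119704808053067433612464327158499487374576229599680134898899746544663416051578955767873365686090369385357382351887047329070479796748498187448641000395817539302272218538112807532737867545151987579123030516563981250551304103147407419392809185634178927249619850757301539168304898927961956324501925162661428735287558254522826308412116378878617192884320430276107932134242217476006860821486300657168224456585514139687490306394406961865902762194174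5587540449760214858213034802963190749414275739113241339732013899332397075097176014148626671375371297646691346721937156092000079289150374810125389180205921681135868850390751118782563084104984478465382728917722956873473708984231495824727983533566838578185267580041438551660429299961146197307291669347392002297097363088769232032305539080643821706854706674284452399545832057502005366369913041760907793931172973084752544668258571614016199937817043087351684227554384205132107718715861427864057411614345478318952290883156986297769781248838747666710868639785627901114068899381444564709062120997741073787849572719735838118803246720574746968938312779695408066716929994879524881606028518633933492121115349522397553200730144572620508298290171276680505883388055104845641317134408385216246910023754885852581588115962569001872354072493839235721911695452425109594169457794341891059485574550758191137475869782283656538915640853517132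4307805818989899664687060264282295233328212801379483815806820013733311088577903493643801546014272855695474130454030086178964628963224662969156599590875751032143645636027088752352755743070375647766038189760162491280430283210873453433856896456873773713388824743582551502950214190625601697125303097139178376838718924668490582069175128092830138025525119766837548050122890750330254549078318156719368146008663670956979198174692387304618302419782649655577627293095161681933721642079489165490104026011288857051177005315291753601916952761219199258887483500283450717128373443941636828045136463978329726619163541438834751012732129276089888544094409313029915999083437714513293260247169311506821237942123513351253745342168802030504014812843048626649672553195007489720592759121563923389343981231057713274679576703826593338246191739937598530426781676467975337780980538219316248667737088526231723819454824802199688261678896746600017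7350381054495807030596019554580629869622365195208690471086587949289585640309776132558335692367491885135714824901051716807553351444778233363354028736885186011496066659571225931566749911557441481564184395923145860166449974366807383796259004418946645485434137414892981345903212583115747535240569678541099680946953183267001460361676873009840750904011243712789912214039816736783337816051383323322956968042484272512392920143337477237374896453248826087936620516823172458129940545797903273485346512345854542960238724572582593764441100290936904733694178470865956414353454556797438465304915485951232945315809309256752440909092898591067215298959252520007249983503806410093611014478185554342344716972503241047807959908488542821689449036551315239047409909293299341276367753828915145941396940568083766192287450698548782261638875534252496728119984259858159973337468405422510142172076280914349587810682598996907875705384573271573589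5094623192041186750110556318718614986529476315616058814003046695963388729698480159224898699419295861013370259584157398061110280518726980389980000761218185880232750436223196446248455429651835569339157541588395668306928840444308505639251342589582175069086856415685752388894289016407652512531944936581925249686830717970279604525071238574064976104088983191208835695943681369235066862853978820520550697802566628749699090325964356966442521968874244542466209255729868382996224433637578354844225767768656964951157198172399056964760910062396122441120083022596479452533747704013521575721353178908791383635668346859510405173288944376864645004206536484923098700804401279980474834574866143550250310730743596700647935626612881426198059760057290417912456946865692358100514911330737488322756388686353305426033592090646913214955316632492031873062903599290072596065759641713318570079440838909885947649076804626536881297399385237065871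2862163510397917404415327925221612729033917494544324030054165782565703206222978014848820099537377408006798981966498814802407433350637315625361227128902605526386884086664920948024859046671176505123141926937333616553689730330879518888349715339463684553080495452918133382295187242364781770658758542657550906433144654704497876277421300341749947021322098439811852188298807990318767374681931706628001101552048165553632961793737657231901188001639062588155297501503139202186093619903644355832449141519325847821708173196314479957567887405113708287947378798301940308008211243220393759869859828876925954114146521051486692965048279004964127351831217093732213493696115526345593968789656743071393973021362212710487533673537044236904561382794570703843369350518959252086420729159983527015582202288733431257739887516706570673640637543177085268873651365705997155886713344920110711309663821140287089427011338952778695829628159078811790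4299825415258071855451708810501938732367592977287127113414490920668469435054142326050089194570373465849605037441706890744307844790441684189969529546912334460084901059123891416380503681109219994457780167705399742446639763686318033505663772442146446399416977686690536398764599858337518257637382516527504143433977182475027059805837837485299212771431917013572319286773504468216677478359619573519191054562935836949703485173745314788334492043805601021858150983329987242312326530413717748062857804345673160470164748524081469385746763052425282567381076792756745898681078579507449811408422443432281577774872663639809346371848168513926657942439638926291904047633055121552280098369529881586836625704481257744886251559239354689398611659070724857773208160759690900922104621648061900264991045908839928991908051063963947042072845683487425051386282443488818829964457041607859740703022189888255620793896659105872070680626010564922263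5861686372434451996167972122629375109391923187545778423440549186234549228112701593893193343500886437408128215119634758547696166878872515354020775073269481429677206504066772761177632608814758442282969540391957478752509568685856954376826797008551187834326966812818959643271950332017223108474786657496767425025948818728622462776596022043257118833324976594924628310281357419021118619709481669832846589168324174251274548782937347503428009580199268458065766958271217855355991388307615757125656273514464440118317468772261160765981439784502168204097234993908767207781410278638059274599829345490773065814369970501128364617907387497040718416832872853224515866982626512871997079625113648865068963650547276290531217510960020654455679752912587090563805801638757705416791198524376833176977481037144916855024946524091780776151896606322689441243205647875978089089823088697073266637049294154879442655319209651034297750422723238372379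09920907910376312845349204139145318457261750839532769827578504854697735826533795157723314316208879859604518213688012677385655500704251997627226712388689206447257124395135635426428302776829055446196435315332288342329607920701395535948404894559607622626521936117965996044824603278885712195654453542545307516420540064762827223775518676016142571665603286364159058476401519414071933817390366076419264232153258772649718339692984610744512773801751085237279759775278043446825798852167194637942236506899862043939174797318217764069173852557408962686765418296323597489403964842329812262622047061791055625591143505968677668382674848973372022875563738933126940743179991176363749909899013876033099841718502305287731155789449091673686985112566824905389815291298663360209961457022410470923690182360259478725187794878730677053552537036911348781626390215502053701110679239067926628596468369752047651848943994982816838427370246038223825623347673862656070342764305946162318409173306621508166695146542192193122196495517073049257638920459231842032708547915735359522268340679271423984382680482260636787588983336770054451031669148849858978186852818747392)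

noncomputable def rc10 : Nat := (nat_lit 120278758521421187935254102891489934827995459037344051763895842394863913633570960281863629137509126156197102887581959693014599334726503349037223260128862297916774118409536854657036325241803760367370183428877394079053999277774967493800393646595079544899581569250321158138180085229256299451812379236730772805367948969502976440573623550619141236379846917619605969692697802907458489087075158807162720589086866643489539209755520446379682094496254108645454032396783108590601641194182040714876473531399079734081460072433550474519941189905398672108715770756226916905714528070852397090807381666470847333171066309951926921292939140082478948484656392054582447388931310790672377262022143791674133962858967860009669931921025377498231040269700355917194630612429850716628814938492159551377524803578943259320444078433102118754411375242625627736087297470292763571613183923364272240037041823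5953443845512561110051572655299716266871094540703027026488201161204034863035004237167020076928401758267398399376698954939548416810939700511747524877074911791783122250085604277527690018832701742087110082785416172402371226972420588594747042145262375680656926220953263362224596450235262254195179047071303534361257054555063810099989011292942801866491238547094002222777341092911321433972688092114808240855610241023586552290894114902097298908866401933427578261976770296398727654180943166661357486910173625763878613077014587681274882016099061326786760322509093512424053026730006513160681607798760220349807227189690412607964795602386773780489444747901726931999293028258965005115646762734928353033693914784213314779357549923021349231682156880035619522279829106441116550171269592083663539798197005316987090113859551771902209674981951749045216615516064273724518891999617732844309327568330872273586954123430336433321925647033828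2616148064858793251608275396260335692799128327371052538735535555946612288712394970632233360993054819808495699302637620210490113784207546535867069552269438229757112624250827799882389653350920457851811751650442465321603688354485986731935967775930860975333990596891409729512866137161804988552466191356878594953470235951870406615825563677355809269954841661446756518742847833566269271972962304737505521682965593856396557691105701981196857920432643060679804004285806264503778665414218562731194238944188677126222533150025783582623009110168573246774834238536792418168751138022319872911501888716521906464104353994062687522425649979681216034538308035702789678455195773728085159967815456434091092973478162199527818180054644078213721416344849920439945082301818291780042547686562962860963366285648483593863297268706276081406272048034173073120804090761555889904204360709952748410138717647369454569894210913715594595470254479152849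7635707923405589850162955077475776426719495462982924530255021083342287427346018911585458345839248765927675867231554400846796267857589994339557777667073298493466518436931508833068623514514165550493921176636583969861396373615944222303466349061905937641712195329056173076941049043641473857710115214904864236055185625261941586469093935589651185992774329129037268941462133878398105524759192955056017831369282271060582861725990778730954994367450029894483971246893971591566192211734420559016854918499010974122756084647797902251936685474778771398753007578301115679201578226555357922067916567344675044313931993472591537681992309677418736410699945075600405793304252016719002457552802349444824224414646633430914456322556366794620580352000177926108132026839916559069824039830739025488455553727065776233261856602805891454109785374543272969503765019409238682342675212704866299765451577697781890225154414825425223366229333376171103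9572759057201831710395954321315694223593424515340270394746399110065940564678979787117032308714044042055919185819956515916867995386570473663511285114578537518599428254412872569565634323385845163122806649363868721101672994434147652584384354548912907152915954557900324388908960023498060676472580379498483958366469828555144403536349807598081549179737373004407447748727321939769799786089561180737081859523027025277178371389378057399440838734266011248815845667383595516372148819328992771269284329176297110408953566031030036877589625769614279491189545376003891475761261668192724210346455136314279717756718978692660699644208648194701052081384258401447677414180139433292810394825258483577047635209750873052638136485708166281556164899547197589587318040503804538282334336604367129523069173469896565646892913691227367006447064580597608312117432111435876636376768888353824004839012087020557727713672349394170216786190041783520885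3408974417446899121583196483039033067782581451713415150285294801719373027072237447953363684403184547685464931534202453541576996318887120854975566629269072358844677231275281552951994647718374970946618842873673850385112277170818267138115838048697250396861581398906772652979801631152096544502870282831512274572750909756954037561785567400915525048050585151187868558737906716150761056702439801782126564754806270849724384996801119173184995032382691427725390277248789519832834648853555095131307367808738030916937435082435043073352115707107827659209663095415663176413914035546233454737240078176247566471374791212224571625180844516350642021509141152367970776444956373878955001241260832196473212577436821342171508822905752070272844962917715868497861835852746527217464606723862757885657144922118543888159628906319319079940224526834299784526802909904413612577028537106017438141029709972152541738915657922612983435640367291883913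6762693810707697526939320251684718359440256908969512610394871721828367766725531868095418478844534722020997721339993998827958025169914345814356633521674491461897178898719657612849456731790166505560893566834176694440579621071233892978194403486502032471841424206001365155567900616192496955158170969550235388272539099807051780665816210077835647871075407975873436970706455352274980516339202918812843250143671174343252671155655257610501986620105484582500103326571056614961132186884169111890908372333525037412849779267607201396041865580506310360982080511225486319845223045107379441114322659500392247239091862708242444913326637468303288351871080729168853058061075492070718953463440657357471043191055002573304407214898772444856577991312131150842171346291166424507682728013510659549902491688495152459284986068253799619445684235571080699109285189066468235220253861995944421623332840322056309593745995386379617236502387422397704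0017954230406583814814095741420014144113423633972847656317188119891059692189319019883239346368232936821293751211781938478185436706411886145508852739610964925634402739369357802319247006580214843256696805580734464869370974248152821586151650832775495436834801420662671020010570212151519574321034295872358674882630230972576922438205968111221139184677788146881905204208740458522568085376971539849369412480713020156857803950495281847478719715702561078255126673135973433541217718242829211625509347874746132178578601038314231417901846235928471661055820173951280067794946923696826106031498415894459282660483459151315420566918654133847376673382023755647449297140288800817859657872296324340077848829446209842919666264133140692080705390998018837107701502430068223914416692849958306763737674332774576087680194136534184561180904287512027499269363897502051961022010452500386199843238817097172088568345454676951868688424042591257738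997210006645481717987182066257567782590314011986356695935616759009624675111794015206593494668977211583100588743907172241784678864973757812349791809576006894622889525518606630419165219797121648297395634122936453938455644469241951839272434912803576490443650933770356181221633892307456621694789328065501112405261904135125083557344253926867796960467018395915136092381216386965243996901153498880113335979468219650293138739333832964746628870734883243092515714968411416738781506419963964057730727951729032136508948225504695460345946441490212407615488932875802788938024857537287094019528107175374888655980382453293186294466762866840907538361919427872982792746033378363630675955636183815102401340869277146298726783228822521253775042934084246066565457343359331666605061882670693682976590437559559255438302317845839802366353458005539162571519661537303617942088873472005534666937050500217320303031473376559839729718148586672362415759103203717845388968228858368731632803870879451058661096130593957310621557281859089116930956841011848037508636934526862973130138228913387517714603586191406842839040282299885943161975244780856925749651719409631232)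

noncomputable def rc11 : Nat := (nat_lit 122423652184672709720911698380289573086903365321193170271030635914239171747322739629193773112758199427300257342526279913956129088593659492905047608196287024509086931762123623861899860174249487530090914761774201296881628324741575086202639178588806311474722981919925119569540012899009872493257818098944543754151583185475770094597031345994670836075982440835247117489725511762113669627618309488049476851408995190173038036678739604503574167852697382944565556965190630652687166145410561260545078164519275620329995318310573588998026631972366533931619807487636695674213216209765814153987052364645520121352446690989458455536122588881334371255866956347935088054784991453105706256230087458079569311173776980809669062968175616627190852444282399974648653668286657885612122284965823549982519063630914814996642820332887188119599673151697569359032380071646005866864297894586266762651805967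6138586643045171290358047186846610748225472979906589407413544575947810332928752052295340007113173957724236537176495124428238466371888446156047121201403568690042708049425697359622456451355304269821175443951555305869974287598730255059752442015220443652652757422014015939489407237546854325450697603788235950174494136287192500302247694943956304697834117182266263781940620452866529436631910346530475129712996771804668812240108824849259535537370660845229805584698738518433807974910413533364618765297474981973040291176938818048004014100018095786103441941159658779942510105587875647520219358296217458889988958068856516014896234314704517632608168530402870508178713051288842125035611787143620898950607450730025845838234320444298657142652333320612883696151673133615548049795050420211427649989924988333005410738256156480517313158986687999533099257950437471467327668101066833207688565465519967378205692534835426721124281721430995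1501799216735243177991639763826982749719728580413422624891684161431135900313973512426536819852315658133289890193636219663679454916229203883551221672564089396807982007043061885420041563084019892209794927070954763302364425946523511926831624659620176955450837208335670021645242324190975053952575671861103855146842091804826067372305169020865119446463161284848327059975227274544897954364735407910361964794807421894921946142273538856063479466727335913489908589503827335822833508921504241641824794170480804230350305508687632708284737260264116372062566863547860964115933152729580690581363623186894485415214173954840828737620634227082430132851832912916487755993383106358206526572575029211406797387110883188613030398670448085191471019158992876310840029409785932104318243132615270349914096619241278284763639451702514178633787631611288341929611652840750421130260182420218842597329105292041018887874410114754799833909074852893033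5769543400769667253559593546859621323974748725112744043295923669538625636144885503681020797170670140828882409672372013850073875018026182217079623184626462343507115947088063987051122908545038274839580473245498075872190335912931634928233839146709562067504874534997393020291722123010456438802615159978952348759806389130343673291600254016860933522578766828574562188457298260187805201956641718953270906193662594660258681607395135028052294642587123679273330998227031028219669443691735553134195246184984756459941831384794765219103430214858034327510841471558273260938150605931747494980178624620640530916996089249107642830325360676220869241796648445545103927303964840385775844086012668762361167214853628346236196325821072148429135014242157344942887831099682374234896296488188813253450508586654872754506877200128911085903180010514655389615303253726599580095564455079568865338062922310937555471518423677440783645231905673612400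9505496806672989106590855559117036051486316958339370889912831120320547613001382457278635247949017034349088787741938892967387275176209845718905656526214872486821218280575616032852639435386916195737448114383629155851609963541273360645779556336824293740209059938787189407161112077296787802907631324051479491922782917008325723992165364247331493594952183918723507779978295502983752742835606042160095798860248948538050758845791511699513299009121474468625245340989947670262525248280272681435670598462731085318435962233285519498607128544306993826788274146390322761458714436256979685482718931240273686793470394023103372279792554963081047557907137274570142029380273858161990339417295737207568881541326983392769506246321017011773897458684663997223877544633026449357401893940081883977036423635935343582102708530742386601720747704870836526394247429760323101801798115751039048147572440604230474681561892446537434345159424522632993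0990338293234988328748703396387478793130929182161619878822254664005219170927796754328134171324455585400914294331664867059326947025468268912863857002631997401469074891602187222432461529319769849739327669708696284886835652853205593496166580191913092524358304955158480353298543345034651260309837188080280390930252813642921274522069559504708742529650879573633444202777407321887617564200821142256594022499769852658353352772130099442952442570081596645392032720724885472593464845952611525760583840756867545009960425523680747773911345384190612222934550316414081241389323858220100729927787092483811867635996693967951244050536431365582999423804306060552686454390435463764955583962983973652897076125677535315464277173729904057357838548267525668514145826876883018938790374282317649182763116860827358998344796151431951012367269579202281102134593188123446441276709534865051256615096344604382566013811226332900456052356876532079682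6550865783864334199069915570213400948163838493916254717974252890172310219038260398699055585184152806851811014538570197216351837195334974128487337437995885170903917703007467030825050888854644420709235258152744908303509993248911105816671278246106742770727673445985151139064203003026577991214670712625967267513044136468571384210756588046104966390182032221845676879152544903546227581875171941658005385769382650005071677307651042461914879040457333383787784809766608100203002505736670185942347066670798994972608689583024629578513660156030401267411369147810493888874123616148288850286837893706084881579486451215264148136629118468284987303621289758391274848212531754444799432702580095399038831195222789378320209105212867351977108499521669985089608186494823140923739539895386295689566175266165898472697086208495747716418317469121675979578005902560018445234699572938520585215636930919070260755852608408870240222496579273027950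7507668456495853259065054729141116756519383965710007118436751408699078239472614081484222528484507060076949201593955237704389764630449109976002265139746182589373092697421053462661106332927420076301501310612261283985495361284971006781358933240256353581795000947952670636649600674890164783306299968906322089084089696354116441682414345422250733526689233835639782046414620947894920742446652169084924562371369030144875494731875669507298316207043023977386184266452598726096064160037625454874596220420685182361707619800169397518327839643414275233932080019540347386069366281962165622734646559686375278205849881023795809747238454918903237709610510763145136205534828544465597314451020711433259821660039377220138274823218118464719926887016190555182669478092354973730190508201241367898247700660255693861981672532890005955556369987930700369047189808615568260367356607492017719641647611122235973657101149673199829738634380561805471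667083158769726406478161360126121156546539301372616952845093722279277558968140649608156422442458356618952450313945139354354818436825404889903811461302016614273039219621617367103660153194563127879740519794890662543589683500942277469688033571933670393143275481536131273600095957680619673170685367464738879728963217589925229066136215577188468232989810566231218861433904578061925375829934004048885549474744470553776484914084039589506130822593951420151302015705988790146518127309876018986807960413394123657901501332443073144273808633378930811337473755468051094743315897850923117374024187521680724525168835166262250870911093361746041317335688870674736492426533834813765372730306307331849623323382568436667469260736253078198866465540716414458090350055011249201043315030260494031269819101312805541898795707597233606517415538204422888736262340935163663033029060727921184609110492779928609954834102119536611834625358750345952374862610267359325207611833753668973826746128526690871953057383800352322908467045704600166624104753509556690093631635720704086771075808259267327507596902384939252880427076147551209452087783547698754819071839655952384)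

noncomputable def rc12 : Nat := (nat_lit 124509304502261515376370697565097631819622200832926311450776701578986290239613955693592089630475633002726150304447717248882863622478253421808493072676746310828655590895735451726297659309701696033060255469401863069703046512353450014163139458506375059057754265140161187968320544763971062441896599664846897058761294883002442267111985698298231660589965117634130310642788112780419410960593939401427304528801655913815301140652840110551418644566848590496301727134411767208776595582079384093687141487093401520446132798664650348183280936151626342264649579564037437355495387020459563970755541260601163281526080040056783466335221087537806928591541184872673043166361704577295976202585275102213458732445789707052428849866631658564163657232678910101684549532767269778918444282125229797553116161513688348481733964201444778817360770835969789805559049474669173643363639164282788207952175847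5621584679309240623019044175495393755865749031855349877613985235388053129214351268976565950356550972210303900151529455121988318998205898849174368977765016328660372098926616270523083103538577115247554631711905801254276965034032329701605454742979351097082776506051356117143403889770647925614783922002731113508683678306419554129067709857627665763002920074427071472464229717090320848397956614377577939701013602710720545054121822184150548083425433062722709216291022810789628315541128623629780209500827060917746478394621724928308264787699057240338851780244805537892222700939088650099011799434192546571959367792277255405806935836770865758614313435786484842735849334904483119365354063374339212962160724724069830576569958468638835908038336092886182975348491532425548734337591418369921331077414027942715115109638109349841522016610180003162605969713803649517163909747043749735777402370259943294323279483098234433268700449226269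3817005049005709052617000368054890191607807804711458036886744398774400554739022687107474732708307930018495954341791943019585760479630856328011292912160389686187808035029492582057729176688770376369167483238652735828069102369504261436023284485318624537703749920948772466308143618256327871410983017474762031028630373544079824354159513231585096611701645153128847221852070453951849324605858666010354360134547628959601155380517802853896859227199120087873316882186648441834110944772320851726077954487657784404939749206785026771006830646582982293515906108509221284084625752796415701956453149014671457573262513298337655592727813362950693229674247712183753738131068843959329247357856892343635179234828108667704270268548649296078170234918768717832655117974018292001307663748779143494940240445387136551291086449679657862372392569945998190999504188596664083696163558850064258288969819312052704319529968854384679734580002441297664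7961238939758441680288901060975321568883509599145886067639002179769575832023373691169422490170469292323109181151416198093294348938159882865236480278125526043555926925450105380652985551987906128104803934628258423122576509541138767119365526477665060965076581997418527355753987708527829838086958900062260175063844238501380104592322326220938449471978802342991032973180739036947641011375182390652434834263841779890378656570464931675015628166907071102728159921069744705173121327479206717845303594441098988164076098128751154028214672090914249666587059728760553022796238885523415105235318283889647585298347690834403817856537777660904262629575211371174636387443280874175257870445324783165518088722464101039376512785424917699036424181551750519835542811758871609748368931045868337202199418050096254925525777452896742825773870873347741241613586987160530388699122336641495542894099870429374979891795388977000354687857644453008613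6694036201776002492858580360035463235107834427240412952262708432119316543004633217668419530616018954904413606090978152205886797578206944224772955418262045189316880182524098331976212833848791140435571097249305512778229082306710111508889859415469932754783591936917800697080285076654732170165078514869169530489376613233079869186407570899692434445200690548304805663821469248902581724193211257527688935584245379883313118611035238655467348895456192675863909599668758842148844564278546077441037862787287137362336763739788231297375970986815517422997283814831141782066751669601837679625961270288526324724072320584570041462516254764587860170944851392142818072900511872920297888769169723894649130652730290577711454642747090767379586214210949436734206438112458921646315099923646501824814001412649928356642650342371164389928865652141867654166821612659840812949133321279318816859040305209031018632006603880790080574970523313971439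1989987560386384811939128101300928999783499107529091251544430658069272148447092361707089131334525269672838711731527623853565810243804831282834320641929066024549731318696630394291919234938033303731979193209379722519926554509662947543415775581793330408871257722657770581648856428136649501434755793264912386992741903688248000278649958724522542545614052750824344749020094869377492547540657110666008091523315923486176082348191733487219533502366011891368836909351723984504624640145954817990398328498425929642907123863309087270679651707302496744939359428469602607090533207433597887116477230729619223764316509398130093901551216978866497275967623021510642048803294622526202436144729804589507939022397972021277629556650182463857165876501304992170166789230677177111923438659904756979558740023895006801921534906515479911274117069182149906283593569137006081620028941520787816420794747678701242085467215859220600082177839654851497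3356390668507400063491298332880488052280241725144519163387171850217585249766290469821592848875639502038916408822068880095322765882168869448333982802301126042243430588146443987719532943586834377190055546396564961850387008005572732099347390324852467996705193207532995137994579199615089671530885418947659148486173432537176314019301323560042306792563495165984268397841527857906011918895478139192940396505535681055735552197604878575708441225019983134426060228319922642289160913744007316209407052337823412231870633490862706178812398269074094788272212666514590706175153036599279880095031068655140950848255852030814263076378998849612463268742477259321527907920086119828855949656266154196196042272492134124931029276663167326731294902565481386850559045450996058101794055779532008657105450882031212678132066223876426834823091959978758568324739050376646257009643304768230736284267580722183447251126444847623069071299835584064004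8903771270373223467889315355016237694271600199500311234784385327100781708576270032849876576625876306006458670036366053473816981416513595485516338166042891415419444404156433362850308813961296085021652179079645466694300431817482415849306862127456545667264174072398983588047714856009161848691471814018468792249263268739246121055157435035863672732724761120438577588345495168582011655882100723621771001348101778064250236076449808250347303221866113475469498775395979474597841351019587494486415537361516064284676941312359537382652986684274423233171477115865722745690850454497840690494676872299000746433058399611161184643094448537743093063172499562164969507891067343579612768425605731277398885731716899362608538959586876607806930610288010517048367789384920433728947366724962448524491048900749705056093153647018080019285659017217680993663910109421024359744357581929804807804482066169598530476276576112823264439552857251590090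495923123373554864613573216885751875834941241978165100712658063664775581907463315886647286783423058178045420095042235077057009736068614823552065375739417904071123240320543896025218434942740085213711441120752684015372076541142738314896115040950301735477946306836138469212294374842266580166390679149155766771639346364265739249511577128157275859599103605103537464182533861882079214517353109567615650839735254212655553771983406857970033126414411713981946502452172072899003088514406102442668702190973170817074407093582925713961534192614220594025566813022081901524471574721489160937038274105195979278305913525785961488691459443004640595497852462472652100099284465996414562783343352683100666484302823182884271038248234600770312767935837046120900829626257443649258266651904333208402644224155872896780840369741529415794460478854880723082005915230389776957596680045420535325682163215547999220705254632376126726904582387599627179326089425568380584480987818985527134102118205490067291812122687588533917847433905742260726296263320155030052581322049495776898529714782756532126693983531459568739787827746623699412867185465966417144227829722906624)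

noncomputable def rc13 : Nat := (nat_lit 126531909212302567559548018370221882127999450739806777510384932860325359880317479908768353056984451632797341356141127855574093433351798719289999751040785345821719843383961833324098126921531178426503527193510076898793440315061586353650353516797986441019734084031365903066590830088025045353181584078300638676718525369967996304322977361350395742275421661064811711776166674608240451595281065389824153596242290718309936028920317690008805223972987937736862846512554839466741186049695295395862067152493409597009314100239117210491621392053696870178768061063821080130487421223989969087977262234363904173033456614281422730583812272882773723219629200537865371244369202607892618900074001155047113777773385010478897477188100575459515295410127725172966332096672758392606738534951256643176512802452614101772951490705204821143845490531047279910201487373301421634164907067808366403644861720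7980424994575614223953081070707929384289026143558570620532873877726902994683685412121086036403792491152439903731968473728645861431589335875050369570672404412992510954630725499574453428013270525250756522244107062311002042033018060852262193071023451276528710987171274541928187186453885854898202871405514845493174733059013852818533653216040120812806116210853103823639517101259689403413390228203494761385401779557706951359316985898046559351242688703747421373521397004852113851330011760239137568755415933278922892179013153144030376663303280790658084567240140485332692330097586524321186779450585650145168104405160111647871519509281653072149269656626827092790384711207581092263683542824754334155619328803323210226475754745189219061783898504161783750915351826999632780921357407603275726697114299874843520928891244356515289116517614445954811535950606766167138583646972097934897294595508751194581821171615041899788570435288117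7639734747446095514934220125765784045776483450504544172470242442997331990578460868474763556028959967377589790245483568552684617355105724069253036738568229482580705095513602756889790957393420418264231311721503916597955798064550276161261270140911855807330049583682667500955321504863266041756750765728565595288092353896132972858706887069740633269636881543529140630417979293877335077452568366922195051000577325391241481984006853430173927516204770389271521943339562769311559149405085928045714843642901168175768248457013178517944435736719230903753802332934044262210087004335658157643427531665816389599605766383419111358061417039685760436591940422340044771705172304604295657690200594961607343690072625096081605204570023177360435540557397230099066492367574915843979233760997033493880890915094709446337331548958475656217417398299879412867871906064564328020936774472081243261412744726547045447922114416705617160033771750195403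7410796519798238044939518108097142480937893750873818146054963821034062057697544608640823400845865199240501788184333240991334689650122428858334733208672833898941052158378340033051294868636695529923628712411622056143228376825724075256798259725141641252876888743115441683162796128903856804396626198345350237060928688002865713112008652413192214079779232587100941295126514386723689695399493367036044753735485578707418201223989112479126930286542864975940614537602801625653850392902802595728217508302481350749470526197495904460212542777853662026537905747687468621007739686856096851761436839341750781323234430265097759351505288928124555509066070140481988086977299821673195500819018543500146403489519760703384317429397617515077675997634489424392292810778001411873967552295314566938156929925090444780224262806354059396646010972444891034708433063193549411396658113099136319699809266847956682741321795994534306000502649985672339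5475489766919432041631169558554753790546797312316764582928991851030228040292766365554804949355784337210489631141993685402705074403159317215155056184707033234940805162476147651641950814837215531825418950358428196971582454547100246285743963904658778431650093072568714632642897791674829238846192268178985597816925733471527278764452776598115052907096048545605443973154683664659984708959670397005503795377485429993848757433230815522360512056155158529779340910864490528443252898787396342523089411994012542908379489751429367287283338333326575077620819348398918283347135440141634846004652327416462627557569524593030955760135322095858738238435087045040472059738883263360948673539665922934539144482175141526157288676589062206581503965628131047850533469741503400367870096634006372081511181123232117733026928209324822096387349409771080798195982843638853786814687282361788332532626963545139326989193462134181488937077119644499987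1463805214546417110671225590963831406019771272204833147770804436341846319378354990754733755795583156347092574014065273551573619794193509416264155385764835786915175633469216964699926715233842860204422022080358419103371148295740734721399487785465724157800137521957817861059415063507548662771331171754919133716712972149637374010916913553746188593877725812144473112854349558287233694350124876865061108812894429185526885842880616939391517335224921649947960332171989491364068347093558127537432602572874310176169615656588349744392070349477284979927653456897370943510524493587631541576057067313227406962013866357106134092355132651004405890540114230875284891295963798320634011558644577219836458176069233463885568212847417910405932610373536536896322373762462973376904999118666778157314031105331265885038603829598198040622379854431019122153211965909552090357293858516762338692736161689929947657410244044438844819791078019209374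2142390822156276060360515136513849250349008289363416593932933807919217541118035929513063054617381079347248877545539560931548960700917813919286195069416846010219021067364208290895300047564139863507104865024331064009266457818592773024690586459160435943109462302239484270535135151572362317414760742675863717561039622739901915298212366414937735732389686370130769771586177986794925990052950589464269249137664962816208025494756906117656760682026738745797087490806705682370049976536834529543487124155776368918520515196772484611360187022286763296033521722504229560109362804164676028209410401812232086729145704535504175521965753486557624495674521017375337764874998026791293510119412191146376959669925837830707248292816446528439819032104859688058878696531249378995961731257952982031667769197362980812051130597438961290535775779940658116454220724899323147798912377760165619940796058017466860840361148234461435511274150210440565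9747137548884068102974882177854509639890651643381795858830808465724503577977092367592265875854296879268506342604867060845965269000462633736666939494276589733534175714397078635928277245837726541637297642224361407087417070602283124474096438615986079461937094583262881216915611092929763229495027472245516662671942840314076127833171312177814703063070556847391190572868143749479822555292711012757592112675724012608636890937316691321428202393516258876133537358389033976197218437131399567669630949097621608691458234652025366038226879437858554920609323681146771248084928329970367830363676778083839067178812265552446976590180715249569513793660461916350755079720602097227311537558846889068629502568255632022944502402987812509483129693961575938331570164047237931433278598068815257499638848445935468944093560122335012703742821628523154225147938116012018242385266017423871175648666706613322895373135455413134037496225744027959347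672206737257641955461358327558274275483364189801733345264909720325445394218566351154492537428678484172221760071124445783088738383668849171621948353999276547645656208866728557146548151050521439056325986348529190795301046516632524861708371779275725893401397963341918468930800062405158114284834106078857009489286395524056884967997727276410135340649654390066449835305334897855001411062425909964373989142592365453247550927035120827567695247317419861379856131467654707453792258307061112157695858315429281003767001710087269462075633717450463032163844256873942531680710802883262567435830085447783623812974684140967854182261324953395000936998117818490106484792224467730359010351022559777413942006267385103876741602711186751036506237768135096603963620761556754633921702328940956978791677566474705602302917526931971321151583759298080582828683479920157748178578002618884853015638644728773295867402823578905607073335556022039519850116736134580458351339068949706778517710284636062014148958109432775736610258129882575690593485410730576193968108294365155450105669043571984761093120996860457807140545611667452092410997053555161339041873598984749056)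

noncomputable def rc14 : Nat := (nat_lit 128488587461237685347585109800313281859674235259488364601396153064546989028896625525584887679430448829175695590678322097381005379988054002734810088507874505294731735848089428985835135419342224622905393744797145245711411047174859955458011001088098622642953279529936779823335709177202375590697185942887289779180802117676626681099033544469718666803295219033316143029961736768460801028314608638486300810238430966273799227280536746959352789885125978560562820465123688883204683595740470799232256100398851335425295219030879129110126610179721357782961038458542886216345642808005735906204079908429116090085183383512111589291278508937749136659130135293139611659293456928762571782214574521173538437442311356990510619007377353690841678119664102531809731155876288022859524789745208568292075290548078835200676990526424039881841875299821357493709935473978722451127285602551943351348348554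3431024461131809242972024949183786989579207229156320789969841845539219961476273883262054835686146154274789098456461994980396153133875634536871093473416526448637614454077994206408262566262277614318053194365361415237985162802497716587131797928849196978979716582909382702021588005929866506608724697878540457681465984426546610341669097650479090721645199030325625078381494575990355101326459506856612328502074704255999771589760041454651043557619631004173805396004247565842707478745890474112539041356537305544376194905766249362801426799940175015546599866898701662466407246467092702323146153694268601408753908729517609231879231398109980450235574034400288751791206138715965828125136655374485556583066396064966315057411635307921100569050841851054001505559600574151646232908552960613857267885559795767399505677607415742626313849589015207126612149348470152439277026382972067142842433462539435279798687432192136577297233809610383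9601025022639927901953980807721721730082263382046943094805388721690281481902846459119972393598399600184568837091785524394138203664501456957002891255602006780141080271026175207983926109399199722387437153261385006018762667987790285462873979004323412103766336926356040096353627409237207760087383642344525322735264700707618286199552770752088166600599968617716113979365301002530474516217401682467756158881525204869738957917877070287029501237484553486319877572629197379731886636207524022905699118782491780756792941339369146370691964206388629212068244449904343692596538783600972028776270664720704455704184146450017148468320232236017038864681356675582378869921878530733545973217852140823697259871304731490782573987745767012411567761551857132444366688908031637331857553250889323513710676622289521641717237328437163145625944134911062122241920605220345200769050621616911281470565667157646857256152163908844192295681026858728942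7743463444599008358588276774285030825097981528310883382793579291091568921613518752404185795762016141994284348272045048756024328795718638418930672403971180883243904782924291831673296385401129869560825743593753071319770358126728705104539366457476924610815408880433032230447878176978372956012697675359651399789624555982661377940338523044639122561051873642204082620595916084402741803211269344658021346946777590928471798219362267906850028086276365425163636240625214857336899562884918806490473345582045828171476439966697724135709928562992183559424842276654774778786801419824977024347796691646968861507097726127363705626324709692306544609444980155138776336004278495085811922883755139450669580089431148910322320991888482941845777999189622964744663288248282242313837529765106834980121169339780481565291002361842362404322286753250729306325363742143186063752262400910773632503922604760653942040755280658702211328352761832462403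2769149410328050185130905358942768047112071390618109245796770200791461476658050372928853889834092907291818793727399348253113747071327854897960433609415264149575189143893949209664125241207658855384618421607139362350219864480413707857022793107211217449060131541484013444312346975517613771020508716449882430035857421721796578110826007726272890628481806632963011159678935914654152933541355812370826163661347509706414548550228975872875463287352753432417995071634422408140692753650212889574589690480830477212204660839063842621678340017804330342642292623227969508616484258911200709796103778449687901584552750651649044511301890253516196293608306635019317081821644153887099494032249956588432262179758985574848685246953383246660572940449091970234335554656541434082043175609159697961476613666679553475881152947303154965756136674789185238203627538216874161465362210528245446838933667135853979513465714133503894470623388381521256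3516000776795581826327364273038785240541875074915989658016888607353480945754591339659476146561401448465895923961023732462154208271910571820034566225668592551129258765384825290527015421851236437306384640926406348273646606447149875354183156695921774974062291751297636025958234733622619093671547870398826522441599095085575404251240884997174346667071698874256056651414102594697057635778755251714807018425218048761418137775154933200661975386213268822420274892953768463342230678412307313202923331619213129355609010358797730458026007220569297981645603994616423478163527269279534288924202209298832352293289026612724574136178005362619103519390233282462540358148696681812950341380215439198329050463878074944456961467168490051046755007598353540699474464472187409311511089511208658616356394175981288806051401802182167943783361649696738003123718545769090397672131587303844385311657038478631381371894959158440090175847235322668627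8802977354486390175122359213798543024586159158394769571545434754004159172617044947327435590745170157806705454587969260595485901375619153165260828542771018582460318492972380766106437658102738003257187849809424049245937858785576488160323551528484808410356943463890855091639549687946019349914131054322679954290006483912569129262394322826028834219606570636781543384666371252296989370919543804795744016384357638198817246015331526051482426364661221999310796187329325402229711080207224593020022431451757069755363165258973746370322015106761697393490507630642981078792612226528899876583584190183954045344032720188138409168502518971005676019576401453817666183161724613360927305761765796651310887435492553168370440297945502842345852208421238873224498999398282660448926202569589533957918683744915087806085688437367732516806880393905530107065307761646485793125077674099357070588072535327757778403350485371346119052482728993875026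9586234163322924526012360327055653628492799330978826514180350980402169779858875733210221803920667601487966545024471178332305511901818474801986432320280064287012788069367873914086738205545684494650218938410110323902778350036851841791322715774747241390499134327244659363524133051540089997453498148132679602321134576351672956278071539263456383284621440695560664608969298217196943818378029452590036025509079284508734394548276844456452590593578675881829410732627504764754482353624415921063035588926559331022012547087915297292745935491934433208034343343867425697520254918116508850062905836974089794185088981182485960238436654381857207293815391444610351689011903487611214723554576114956849437724419038910273285702104964415313689633747681633677931509960129114846910504787596067937774256529326868628847131286580513946275217569676008750746343024430009776332948806842492961829524495881541346095886394175558062961813676432267819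999934515578165481744037991026564399934258775181101591043985536586247955129142867380288860546319248493240539164056027050908679111365789690043590789306365594537514507270633976856823702140334355597910067161460298932031508871229730642511659929893592817586157004351174573215295170365320914593459041034730706814270633970750920688713083532118216870085779577644659149730330015901556645383868873710847053249615753011599054526731626123598091556547759922406494139771951083424686836705116589462609189805744307605258635156873170186737872479197234974859467443850035381336291958455012906921737771744989272446454910979181280317017858630311714661209196127981011866756018929082635587736473272961248052062090369955526568458064482766459274888248725516954113550312634054043815116113271543990445234074898497530754936875047348006299653927965352037414539799726163477755147437386452931643067408844294318504668069213297341274799309233459617321898611442005618193969007516479512702145199087545091826017509407769824435412229260212752185158776670295047639045676230947196848330101154929268144839596584177735060850505291573485671070348914769797433129543617478656)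

noncomputable def rc15 : Nat := (nat_lit 130377227163358805262895693941847251029662914838389689906983859335016803227778918246892726316472362172702555255473326755821528140377636374517205798184210026203505105342045031600242141467063025969123651007029663913796657575091282596789877748847754407417352459673507086261904280282038082650418302830226566450132008536425730191629646184230561224838792015814965808908532993412196826951939588215085419833565798415550378281925559243989362476240408967556298091156241972101750792556032201079642722595003292571764322187297157773740520798259499842875781517682079281379350297369515312717678195184192650899366853185769418676224780497683051950942434418791091713796852720451873592346308261757599183890894314025261163925777904683379524335428762097877572963568040946469699850992392028478092963848563178494317629508118274752592445739953274594885558456024514768016294602399833946113985151860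5803023313854614350215738019283274741070746637971682084892458706388837928874761755632187318321373718314413433172215813189905155636697536894699905791750923294943514755081026393211350599914585240883364610419563364849565565347876427051936854068096532750641893883025147158088974103675117131847803320728636002853953562941746946542863975588327741759560468238694194011400483780983600169062586139241615333380541832670609153795646799545104777592144280661996216394231837507749638605456539002551334779520902289269853295265725666243528006110147718231263193963883451012495166561696599178600567812876098032501910753437930609615617692048930206579718456947467532755686026164533142094705332974606870414335610672575792605678685718808375697470462131380038781286858315013469554315096203315449079191306263113584911419818060071904874770337570510741910398148702533721111593920312336485177820276354123650723690571668099453379846430914097559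6530571420405149282846894633569726107040508022361208670098792021907771142905500016590128791950652285413272868453782339131692566209302889414628080172989458801049960851007131563774912568852301610907789241274383694641525730055201923118848989227289183688768101552660542486156563702956587216569075579588077951581484594459289016476003011397900615324816539524717165823655193243639940375378052783931217228050399230513899588509648292542601294447454004461462326276149488307094017754533812075647132040190282631635652988177065722577815491080343703418960114174128706164324142803909246221510795730807096379108314238034361143122980305161368662942270858714506804341967395425305660365732231839418871637619001299269017028254607345598261179316690260551498969644067390810360601528027045541820053944746346717164756084318500101181590647119928422155122429528941257447796564670487388414383445452289175985471679679655626191433245998400008929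1815089812739763088298108960514749284520449944211092055853735169250152883340200132552899265643741133626340002894617735582821666665497123270290106803728778592153915876765700293237987334825853267776352867797173713303881234590997733106059570259770692395062681581388929415682015950066178144169359698525430041510798890318337822469549219259435315038279883124721769613595064054319899126496798000972067118922853392304979471701904692681470983921098147090780462589074500502387916205543021101016265464312668206651744690663794281939295427665490203488792166286056805450660207400826628849622506368199196239496635410400756522990802776085732637325951830921879861649122114353579801036718410098820832788888594463308448042901073924463562522051959120168122015582926441409838952513070478424367276617762483581222555949017701773293153788180720469563622952327449822572100344745338896391223808890040133975896153413796217304948540021321261723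7808995456164312265917257016582172600179805572324088092456444472430022480084486249102387620992783872462017599707355280977039615800363631454819157147437434475527060983618970391688685685826979547818595831165220133079763047481851180388302449944814903581934416770363830573328646129134836214459963079125729870321248838912720685449510265321687720247553694510551117776061339547569018587991444597407321995036155822409718520640905382469790741809837580940310922616666320595284414959912374410055774305826871297823744804184803767724881023667195743779147579112781804634176520176454786329343385460735363288270918764835095514131327277998470069052898484068906452735626519629332540033109285004682239654448300764377558581709266424074468622272284685652150487149761615403058572595702403354154867577488457650583235564390095491673219334653296568350162167655315704468998002932119215365653419337105466319671747281266739262396574217778856600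9884754473502116745789522159866408195589711833731529315216510976882338146970217964245059806733573932391755157676754195834750206838238043547206765618482023929327221101476934868517949344553544116676862827671917551139995124604193437038916356652298390286881244356549495875489259437788038051978507825306917026586358935660130645181668668508103780623978500874169748388381103356305062140989785331923666879155367736020724039244056399553513317806009348845073907796417375243267344307063024108811094238044019925230960022191256350907456917048242699050314408482498040338664633170935856837932592743938646582675632289761508686942644691914711243742809030777032130972036043527006185862367340969556538618215856560634326212805493156362505231760886594312677082600286430924842938623320591077144703004236560994681493612138098751604359746771568269310864246936210635960568057888474131584150786671253582028087355856094862458525819600293825442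8569202639493718736127079120521569164386067823768324663660932530571363961731416180498899720762764188213332935149678805957034996538975939079972440706050625440415898156102342808620816709479152666237557540048811611047034858982147245015046116542411686518195870833991372867106360415333047293504297666766635645173809548042322205257058209247832067785342638134412665685880576118679642195266760836218240956113278559933132242979434091545800095549016552035564309641801649754457328265045608323587649448847273045978257759368166189353554992512504736582105238965412175112892880423170228034959575074796783564415478896008170285412332908335503020294928029133570333244893070238075840811220972609426753176770474415874751632308563468845492744208677507886400620462422503885996010186502015723113432345434843407065697970992343552339831402778540565886894998486558878250017644062137127825572282095308730671539194982175350898337601316583881914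6395138433636512954466397107053039150962671317963789471492658432773304803196421445415811943892742178880823692591473402627562153971633344528509398033896365368780881212254432917520646918826466923004219772194624718965275352545880846820733727991241578959771588563913432433469009619910670830087909044518524195686555685273361964665280969032766715678086796917470882975724800670889533877365795973949459956536009645970171985064939423812048835049543298684841835646956464830270363305391813732270618615094856609096487542820412548828406575160857474914730385346930576684522494891148758488340559113249045716392622773207740619381924397733762993209544300433380444058523156183339301413245939069137702959101974675793729050803052248574040174813523046677094643393582713154676093580272854458838114066996003616806665764012328099020700082824925964623600950475492882494842447834232115948737504068366741351868551546909772126132835313593875646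213748044189843540934644826392165819746634434084891779423600481766474640461050501671053954862499751099483417012783475186510781705199746778139847775973078148779281447025910299783577528914762266925890318553390934499136720438002122835269280458859344750279302013203442667274740718082834898943718794516474073350642758239543655507607440271761904900599753116766555333276700525889734578150828464746776709708627830349783103517838890056104297802768334303911816910933600772123967095142012218793302289496212924488643291749150192877640624113306858375279173222212109604824703640132277659889221387475221651394011819411483327755138523415523083591109942392150406453969800520882440475022158016286745349983595888213317842998935246274765075466414336528106151443051219679203013039241789866184481964347944525426951320687340971036062259180183949817708678653935811785064294400757679735599771830980503728600287098478612347392373204454217403360969970314099510767423315927356679121274399469493443023132999140970160347178250311682173237347254897643092125590961424939200469885597826781499112194813341689898107635333070030452432993886736597712142340757615804416)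

noncomputable def rc16 : Nat := (nat_lit 130991405946438966130206103460603824164958637911820388057653421661337060365911000743278355416741181656341388842632389523062765313055792269074587689139407235760283288803982440348971728551689471165450660121203104098452597647397804343228813016319706421387023392263225765281208002255447143540679416357002364484918494734107925336305732820178962765764679062495254913380466914184296493333983487508580650403967773536322660799923150696829955986463882157353796827459349314832735544388499444404958251032290805956728956546814685261493743422579982952306158740546687850847345874904152108907522072184712750789806677732970904856793954307354708214440221051026423045248235881709991083419383299138703146231231811500339619597205881396479693473415476686728575418655049157509632508307883854740227070576385667805340887572250688318766676540674869946961480471453674375380302967076886410822794306596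1377593261903499473044248629614236420377561614235422131162053214171079483565139219576000106638285701634419808411219703833792395972574767832640473035201303504048926686642233190724079823983728647425167013366709041299031192971326862722558920020196776062193751467914885497586623287545971120317720608792392233724187925748713958346006903451771685577393885480881173973900690604558103278467427397107040895342506054099796321426672753175124908730782972717488044282898242483193091082816937567250942790790138367080943366327737501163158790962123209126245976007563391454563888041234562861538402979927194441192822005878454507005393341084890280975707975207834274903631880210567622542419431018738629631173666242765656187508543786481623426612786230501240964374694160614064611801813314222975717121416241482950493051199044824866922010249693925350338540278533653211679830259457282097675053167585348050975455073226448057530327504011773388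0088977070844025948964474164865342700548231280936395486428632815431269388104078221220609401488094174318195898219900364161755482578058910903208926290054748512475746627818350042922921505667228908457999419390317782450708189347328672593016751980382318040138142533748080351278737228692084037970487168862356654718235603126607894419775728553263269995853089564744820279741480192799640000648640281743512442594848269801657266604542797058546333982948557387654385778687317540435163908622822252961210847019659920014578058352075384424607901819610390268389392819369840067912976869833736233015268953743408245079424056200808752612319297834193402670391837552473998760947972867993716016859602279280639961054251273021195619754510280511385702749607397019343661852530579029707752793419040562491205238468537916722093776693166311405974068546230595557473707601962854932511471406414209009361711225090227595003085154141985986008894772535905621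2259479391765878456336600683983139558386850345149579144666535283355867147228994246586402623136316131400522581968263204226937686734761026404777862629142600356691800457140209330988022494312067493776761477798571672453575596694336473865028144734442875318485911060631963076292207982839514306094060529897994884865914394662209128668491374996929832800989337854934149507587627203593782112735240996713827418036032693944180333035056003851608511466705625377276088616115798796852749404513260753652489343223198104347672551473016614022768389663757826791617925582237534299390935477724668497522967201566074923083590581810420636258387646477792508782344516223881497202808279798207380651481188719151922339993375570853715852466835167107585161926838064318964418502252072148917455286213115980323910023030988771688915648529970236990161875111544378022761473151915241422700619650992945149378172624819457090781851514044776187692601283701018583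7681523048313228437299043359363373382073340248907991166442353271153342499715475985120341738921539561198773034471041200395278206830198398277519054486860490357475271856105181583621622988973449049787899932931983126628995986015213718875972408255472101617644218616378401668106520875317486763155457741471284201434468268879997812838539105947429860321535997487449170327039044664864211761521965410660256316490455356936081890077082455115137848363695411695296381153522634401286345122655954997036807119574371607031212987716234420859369630288036706681317376633143119473558133908081869603398886215473186126737221002084166283252847299571095770522413605711960266929474822278307608104834307830927837172993769485163454633379652815336370637557585044459139747984632379752414141398887996445843700632670450445766315047119490086657299172034837263506872866064308454643767244111028244176408521530232430473691880023235548906870876784757742819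8452388867808037776329807323351505448498429386563266898782157737336207044874905790714476045083553243995042112284436393229108741772071276202286301711143047618645080066244210285278219054408841541553439335504771327485439913590099351901537270801619298340971014033500292498265277511538937681226083579503121186234399725536635560214213143328274474448362021801066394335611859549462741789008053910153555341465885639012081691529593612520490106605642767660991167105241705365073331815347875473153442440905905694512205212593506129343904552576670206852111153416521748756935235613268102922417430269539539840626720109056450111993580151516294336110617351985383828869933682813708564784419630198062147344460070960518922780588931176311781251220284171836792605616563494622336890895923149939266515878743834854333808935497292586745525126798182069351629183361266425153466189938887645996284756788931668796227155717811646668225410327970233382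8950028700634922680706998984696124930518938240854389152236632128226557382332546367623089260089088927509916652097623695525683776323625799411378400343570794996871867730420854579327859958145027686329760456430528890013316463651531160165558135709515876350916486927248121342197079769276723633647301296569168255306555593328163711763071440855261549280731026435297579045160115664225149415510715313501198216540554202560630714186225165748987087039488394365867925150869818178899292258467254831998374493524596703831526864102523349412948855627553179574642729496638302463878406909671398455457825009620090983708614001139609967586235764529147070341865655127397498858836565476872838582732218152451648990842314442308949078670600244963780968802317671103429377792774372232955002503155772601466991249949280576064174731004285726061447089110129308541197413135244775094205254076677753039696360105817443677281738566693674022911357577935420538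7190645465635298421068394705469366981166702656441542835548922418496837426334352561023154956396843224963360273617791946935772149748904537071475704689974530900662207420078741644159045689813679998249772020460103532837367857774054465037998473345161786537832708259577916215392678759619299285119366184290554856744526901736334257081462859400196666843810464499132471898674874411106316253303224523359124789842104238738801040816303065534056182687167537684784626230436306392233698070997198262125201695462884713173502781242005874090451167831694173794001701497884341604636010237820969571715917543859953504542586096986074307646840681214099805925684301423980636791794433587589517196346114065817192082192437876603159760890178415661312478973000772240017607863852710321868412331718502757527630687586887785434631495049395483011947284335002067309723439037529753672423154534417613969621893096356975517234514867973328538465358729107358074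765145266374851867884077998516819499611099877149862251436190373541694915639483387158392167662346981493508242572084323727146807204405558986860869171288865258144767735461649709223636907143412311865573965751633569702519709954729361077508234611774287769580307350636781577807232266382551508802249899646569544851745983462413683599336946793898590943471345888357017016212442174055807450148186230987422149882293806542797841267645387737913802942341621240539420849508418481694986200317371738150873715306127673714372816012393036035340115219966312371524796148972268879744983622808561579376598335106802990517262988743351542756018372098387292551948372402019129747088844182290077302950961476614430924203430690703253087918199878438963018897423382420256987203390330126949020958996456235776911553947545908666321892084416272750085924582076379064594358634749155902951884007958018907366249364472810346666898289176751960978924763790099705482466276932684316884960169972289114763801707680204973325223522755372070464114602220989864484254571871726261896972251283976150147505709801452331010279494662678396144207031622059823266782794220155110844549170049581056)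

end Vale.Agent.Lib.P154.PChain.BI.S6
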